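import Vale.Agent.P098.CkDefs

namespace Vale.Agent.P098.Ck

noncomputable def S24_53_216_364_0 : EL := (EL.cons 0 (TM.mk (P.cons (P.lf 2431852174 0 0) (P.cons (P.lf 41252690 0 0) (P.cons (P.lf 27935941 0 0) (P.cons (P.lf 1588331 0 0) (P.cons (P.lf 9149 0 0) (P.cons (P.lf 0 4617 0) P.nil)))))) 1444)
 (EL.cons 1 (TM.mk (P.cons (P.lf 0 184731487 0) (P.cons (P.lf 0 238513991 0) (P.cons (P.lf 0 5904390 0) (P.cons (P.lf 658029 0 0) (P.cons (P.lf 68962 0 0) (P.cons (P.lf 2799 0 0) P.nil)))))) 432)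
 (EL.cons 5 (TM.mk (P.cons (P.lf 6436785858 0 0) (P.cons (P.lf 0 14667624 0) (P.cons (P.lf 0 9932778 0) (P.cons (P.lf 0 564744 0) (P.cons (P.lf 0 3254 0) (P.cons (P.lf 1644 0 0) P.nil)))))) 189)
 (EL.cons 9 (TM.mk (P.lf 6442450944 0 0) 2)
 EL.nil))))
noncomputable def S24_53_216_364_1 : EL := (EL.cons 0 (TM.mk (P.cons (P.cons (P.lf 0 1674908002 0) (P.cons (P.lf 200285 0 0) (P.cons (P.lf 86352 0 0) (P.lf 0 9579 0)))) (P.cons (P.cons (P.lf 0 141147171 0) (P.cons (P.lf 775755 0 0) (P.cons (P.lf 334506 0 0) (P.lf 0 37149 0)))) (P.cons (P.cons (P.lf 0 96342960 0) (P.cons (P.lf 1020640 0 0) (P.cons (P.lf 440101 0 0) (P.lf 0 48896 0)))) (P.cons (P.cons (P.lf 0 5223687 0) (P.cons (P.lf 478103 0 0) (P.cons (P.lf 206154 0 0) P.nil))) (P.cons (P.cons (P.lf 888286 0 0) (P.cons (P.lf 26481 0 0) P.nil)) (P.cons (P.cons (P.lf 134914 0 0) P.nil) P.nil)))))) 134261)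
 (EL.cons 1 (TM.mk (P.cons (P.cons (P.lf 438168506 0 0) (P.cons (P.lf 0 1335778 0) (P.cons (P.lf 0 575998 0) (P.lf 64002 0 0)))) (P.cons (P.cons (P.lf 567449037 0 0) (P.cons (P.lf 0 3429417 0) (P.cons (P.lf 0 1478802 0) (P.lf 164313 0 0)))) (P.cons (P.cons (P.lf 10966843 0 0) (P.cons (P.lf 0 2247168 0) (P.cons (P.lf 0 969003 0) (P.lf 107669 0 0)))) (P.cons (P.cons (P.lf 0 8687019 0) (P.cons (P.lf 0 30387 0) (P.cons (P.lf 0 13106 0) P.nil))) (P.cons (P.cons (P.lf 0 859417 0) (P.cons (P.lf 39113 0 0) P.nil)) (P.cons (P.cons (P.lf 0 870 0) P.nil) P.nil)))))) 46966)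
 (EL.cons 5 (TM.mk (P.cons (P.cons (P.lf 0 4269640161 0) (P.cons (P.lf 0 164724 0) (P.cons (P.lf 0 71028 0) (P.lf 7888 0 0)))) (P.cons (P.cons (P.lf 135694561 0 0) (P.cons (P.lf 0 638982 0) (P.cons (P.lf 0 275534 0) (P.lf 30608 0 0)))) (P.cons (P.cons (P.lf 93274215 0 0) (P.cons (P.lf 0 843890 0) (P.cons (P.lf 0 363892 0) (P.lf 40430 0 0)))) (P.cons (P.cons (P.lf 6090164 0 0) (P.cons (P.lf 0 400906 0) (P.cons (P.lf 0 172876 0) P.nil))) (P.cons (P.cons (P.lf 0 302410 0) (P.cons (P.lf 0 27808 0) P.nil)) (P.cons (P.cons (P.lf 0 66441 0) P.nil) P.nil)))))) 45018)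
 (EL.cons 9 (TM.mk (P.cons (P.cons (P.lf 0 4292790879 0) (P.cons (P.lf 0 82506 0) (P.cons (P.lf 0 35574 0) (P.lf 3948 0 0)))) (P.cons (P.cons (P.lf 75449025 0 0) (P.cons (P.lf 0 320430 0) (P.cons (P.lf 0 138174 0) (P.lf 15348 0 0)))) (P.cons (P.cons (P.lf 52075531 0 0) (P.cons (P.lf 0 424404 0) (P.cons (P.lf 0 183006 0) (P.lf 20334 0 0)))) (P.cons (P.cons (P.lf 3734856 0 0) (P.cons (P.lf 0 203748 0) (P.cons (P.lf 0 87858 0) P.nil))) (P.cons (P.cons (P.lf 11845 0 0) (P.cons (P.lf 0 16224 0) P.nil)) (P.cons (P.cons (P.lf 0 16291 0) P.nil) P.nil)))))) 21298)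
 (EL.cons 2 (TM.mk (P.cons (P.cons (P.lf 2810885 0 0) (P.cons (P.lf 2618600 0 0) (P.cons (P.lf 0 268751 0) (P.cons (P.lf 0 55890 0) (P.lf 4657 0 0))))) (P.cons (P.cons (P.lf 7268118 0 0) (P.cons (P.lf 6770925 0 0) (P.cons (P.lf 0 694915 0) (P.cons (P.lf 0 144520 0) (P.lf 12040 0 0))))) (P.cons (P.cons (P.lf 4896964 0 0) (P.cons (P.lf 4561976 0 0) (P.cons (P.lf 0 468205 0) (P.cons (P.lf 0 97371 0) P.nil)))) (P.cons (P.cons (P.lf 246023 0 0) (P.cons (P.lf 229193 0 0) (P.cons (P.lf 0 23520 0) P.nil))) (P.cons (P.cons (P.lf 0 11829 0) (P.cons (P.lf 0 11022 0) P.nil)) (P.cons (P.cons (P.lf 0 2188 0) P.nil) P.nil)))))) 19539)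
 (EL.cons 6 (TM.mk (P.cons (P.cons (P.lf 86199 0 0) (P.cons (P.lf 80301 0 0) (P.cons (P.lf 0 8241 0) (P.cons (P.lf 0 1713 0) (P.lf 141 0 0))))) (P.cons (P.cons (P.lf 334773 0 0) (P.cons (P.lf 311874 0 0) (P.cons (P.lf 0 32007 0) (P.cons (P.lf 0 6654 0) (P.lf 552 0 0))))) (P.cons (P.cons (P.lf 443400 0 0) (P.cons (P.lf 413067 0 0) (P.cons (P.lf 0 42393 0) (P.cons (P.lf 0 8814 0) P.nil)))) (P.cons (P.cons (P.lf 212868 0 0) (P.cons (P.lf 198306 0 0) (P.cons (P.lf 0 20352 0) P.nil))) (P.cons (P.cons (P.lf 16953 0 0) (P.cons (P.lf 15792 0 0) P.nil)) (P.cons (P.cons (P.lf 306 0 0) P.nil) P.nil)))))) 8031)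
 EL.nil))))))
noncomputable def S24_53_216_364_2 : EL := (EL.cons 0 (TM.mk (P.cons (P.cons (P.lf 1152350938 0 0) (P.cons (P.lf 0 265519 0) (P.cons (P.lf 0 114482 0) (P.cons (P.lf 12695 0 0) (P.cons (P.lf 0 0 0) (P.cons (P.lf 0 0 0) P.nil)))))) (P.cons (P.cons (P.lf 168508506 0 0) (P.cons (P.lf 0 1020061 0) (P.cons (P.lf 0 439899 0) (P.cons (P.lf 48813 0 0) (P.cons (P.lf 0 0 0) P.nil))))) (P.cons (P.cons (P.lf 112112093 0 0) (P.cons (P.lf 0 1314934 0) (P.cons (P.lf 0 567137 0) (P.cons (P.lf 62876 0 0) P.nil)))) (P.cons (P.cons (P.lf 2068862 0 0) (P.cons (P.lf 0 568403 0) (P.cons (P.lf 0 245335 0) P.nil))) (P.cons (P.cons (P.lf 0 2877529 0) (P.cons (P.lf 16059 0 0) P.nil)) (P.cons (P.cons (P.lf 0 346056 0) P.nil) P.nil)))))) 306327)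
 (EL.cons 1 (TM.mk (P.cons (P.cons (P.lf 0 501908930 0) (P.cons (P.lf 1772062 0 0) (P.cons (P.lf 764168 0 0) (P.cons (P.lf 0 84874 0) (P.cons (P.lf 0 0 0) (P.cons (P.lf 0 0 0) P.nil)))))) (P.cons (P.cons (P.lf 0 642936640 0) (P.cons (P.lf 4497089 0 0) (P.cons (P.lf 1939419 0 0) (P.cons (P.lf 0 215273 0) (P.cons (P.lf 16 0 0) P.nil))))) (P.cons (P.cons (P.lf 2693998 0 0) (P.cons (P.lf 2810128 0 0) (P.cons (P.lf 1212334 0 0) (P.cons (P.lf 0 134148 0) P.nil)))) (P.cons (P.cons (P.lf 18486682 0 0) (P.cons (P.lf 0 144126 0) (P.cons (P.lf 0 61384 0) P.nil))) (P.cons (P.cons (P.lf 1570542 0 0) (P.cons (P.lf 0 121573 0) P.nil)) (P.cons (P.cons (P.lf 0 122831 0) P.nil) P.nil)))))) 148967)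
 (EL.cons 5 (TM.mk (P.cons (P.cons (P.lf 2832073668 0 0) (P.cons (P.lf 219019 0 0) (P.cons (P.lf 94445 0 0) (P.cons (P.lf 0 10475 0) (P.cons (P.lf 0 0 0) (P.cons (P.lf 0 0 0) P.nil)))))) (P.cons (P.cons (P.lf 0 173868226 0) (P.cons (P.lf 844467 0 0) (P.cons (P.lf 364161 0 0) (P.cons (P.lf 0 40425 0) (P.cons (P.lf 0 0 0) P.nil))))) (P.cons (P.cons (P.lf 0 117512703 0) (P.cons (P.lf 1098516 0 0) (P.cons (P.lf 473771 0 0) (P.cons (P.lf 0 52554 0) P.nil)))) (P.cons (P.cons (P.lf 0 4994176 0) (P.cons (P.lf 492581 0 0) (P.cons (P.lf 212539 0 0) P.nil))) (P.cons (P.cons (P.lf 1581432 0 0) (P.cons (P.lf 5201 0 0) P.nil)) (P.cons (P.cons (P.lf 216404 0 0) P.nil) P.nil)))))) 92473)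
 (EL.cons 9 (TM.mk (P.cons (P.cons (P.lf 2860410376 0 0) (P.cons (P.lf 109951 0 0) (P.cons (P.lf 47409 0 0) (P.cons (P.lf 0 5259 0) (P.cons (P.lf 0 0 0) (P.cons (P.lf 0 0 0) P.nil)))))) (P.cons (P.cons (P.lf 0 100547722 0) (P.cons (P.lf 425091 0 0) (P.cons (P.lf 183313 0 0) (P.cons (P.lf 0 20353 0) (P.cons (P.lf 0 0 0) P.nil))))) (P.cons (P.cons (P.lf 0 68515255 0) (P.cons (P.lf 556746 0 0) (P.cons (P.lf 240099 0 0) (P.cons (P.lf 0 26650 0) P.nil)))) (P.cons (P.cons (P.lf 0 3757546 0) (P.cons (P.lf 256309 0 0) (P.cons (P.lf 110569 0 0) P.nil))) (P.cons (P.cons (P.lf 492628 0 0) (P.cons (P.lf 9615 0 0) P.nil)) (P.cons (P.cons (P.lf 82366 0 0) P.nil) P.nil)))))) 45277)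
 (EL.cons 2 (TM.mk (P.cons (P.cons (P.lf 0 3745946 0) (P.cons (P.lf 0 3489772 0) (P.cons (P.lf 358053 0 0) (P.cons (P.lf 74463 0 0) (P.cons (P.lf 0 6198 0) (P.cons (P.lf 0 0 0) P.nil)))))) (P.cons (P.cons (P.lf 0 9620077 0) (P.cons (P.lf 0 8962458 0) (P.cons (P.lf 919153 0 0) (P.cons (P.lf 191165 0 0) (P.cons (P.lf 0 15890 0) P.nil))))) (P.cons (P.cons (P.lf 0 6310299 0) (P.cons (P.lf 0 5879846 0) (P.cons (P.lf 601672 0 0) (P.cons (P.lf 125156 0 0) P.nil)))) (P.cons (P.cons (P.lf 0 92407 0) (P.cons (P.lf 0 87716 0) (P.cons (P.lf 6609 0 0) P.nil))) (P.cons (P.cons (P.lf 109130 0 0) (P.cons (P.lf 100524 0 0) P.nil)) (P.cons (P.cons (P.lf 12301 0 0) P.nil) P.nil)))))) 59157)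
 (EL.cons 6 (TM.mk (P.cons (P.cons (P.lf 0 114870 0) (P.cons (P.lf 0 107016 0) (P.cons (P.lf 10980 0 0) (P.cons (P.lf 2280 0 0) (P.cons (P.lf 0 186 0) (P.cons (P.lf 0 0 0) P.nil)))))) (P.cons (P.cons (P.lf 0 444120 0) (P.cons (P.lf 0 413754 0) (P.cons (P.lf 42438 0 0) (P.cons (P.lf 8826 0 0) (P.cons (P.lf 0 732 0) P.nil))))) (P.cons (P.cons (P.lf 0 581664 0) (P.cons (P.lf 0 541932 0) (P.cons (P.lf 55536 0 0) (P.cons (P.lf 11550 0 0) P.nil)))) (P.cons (P.cons (P.lf 0 267780 0) (P.cons (P.lf 0 249558 0) (P.cons (P.lf 25464 0 0) P.nil))) (P.cons (P.cons (P.lf 0 10050 0) (P.cons (P.lf 0 9462 0) P.nil)) (P.cons (P.cons (P.lf 3942 0 0) P.nil) P.nil)))))) 15558)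
 EL.nil))))))
noncomputable def S24_53_216_364_3 : EL := (EL.cons 0 (TM.mk (P.cons (P.lf 6023864689 0 0) (P.cons (P.lf 0 41252690 0) (P.cons (P.lf 0 27935941 0) (P.cons (P.lf 0 1588331 0) (P.cons (P.lf 0 9149 0) (P.cons (P.lf 4617 0 0) P.nil)))))) 1444)
 (EL.cons 1 (TM.mk (P.cons (P.lf 184731487 0 0) (P.cons (P.lf 238513991 0 0) (P.cons (P.lf 5904390 0 0) (P.cons (P.lf 0 658029 0) (P.cons (P.lf 0 68962 0) (P.cons (P.lf 0 2799 0) P.nil)))))) 432)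
 (EL.cons 5 (TM.mk (P.cons (P.lf 5665086 0 0) (P.cons (P.lf 14667624 0 0) (P.cons (P.lf 9932778 0 0) (P.cons (P.lf 564744 0 0) (P.cons (P.lf 3254 0 0) (P.cons (P.lf 0 1644 0) P.nil)))))) 182)
 EL.nil)))
noncomputable def S24_53_216_364_4 : EL := (EL.cons 0 (TM.mk (P.cons (P.cons (P.lf 0 4013874783 0) (P.cons (P.lf 0 77145 0) (P.cons (P.lf 0 33261 0) (P.lf 3691 0 0)))) (P.cons (P.cons (P.lf 98034721 0 0) (P.cons (P.lf 0 299081 0) (P.cons (P.lf 0 128967 0) (P.lf 14324 0 0)))) (P.cons (P.cons (P.lf 66823423 0 0) (P.cons (P.lf 0 394417 0) (P.cons (P.lf 0 170075 0) (P.lf 18896 0 0)))) (P.cons (P.cons (P.lf 3889923 0 0) (P.cons (P.lf 0 186380 0) (P.cons (P.lf 0 80368 0) P.nil))) (P.cons (P.cons (P.lf 0 251154 0) (P.cons (P.lf 0 11944 0) P.nil)) (P.cons (P.cons (P.lf 0 47525 0) P.nil) P.nil)))))) 25850)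
 (EL.cons 1 (TM.mk (P.cons (P.cons (P.lf 0 123091918 0) (P.cons (P.lf 0 2364 0) (P.cons (P.lf 0 1020 0) (P.lf 112 0 0)))) (P.cons (P.cons (P.lf 0 156765318 0) (P.cons (P.lf 0 12241 0) (P.cons (P.lf 0 5278 0) (P.lf 585 0 0)))) (P.cons (P.cons (P.lf 352245 0 0) (P.cons (P.lf 0 24106 0) (P.cons (P.lf 0 10395 0) (P.lf 1153 0 0)))) (P.cons (P.cons (P.lf 2542657 0 0) (P.cons (P.lf 0 21838 0) (P.cons (P.lf 0 9416 0) P.nil))) (P.cons (P.cons (P.lf 224583 0 0) (P.cons (P.lf 0 8362 0) P.nil)) (P.cons (P.cons (P.lf 0 864 0) P.nil) P.nil)))))) 8619)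
 (EL.cons 5 (TM.mk (P.cons (P.cons (P.lf 0 3774810 0) (P.cons (P.lf 0 72 0) (P.cons (P.lf 0 30 0) (P.lf 2 0 0)))) (P.cons (P.cons (P.lf 0 9707116 0) (P.cons (P.lf 0 468 0) (P.cons (P.lf 0 202 0) (P.lf 22 0 0)))) (P.cons (P.cons (P.lf 0 6400928 0) (P.cons (P.lf 0 1228 0) (P.cons (P.lf 0 530 0) (P.lf 58 0 0)))) (P.cons (P.cons (P.lf 0 138134 0) (P.cons (P.lf 0 1646 0) (P.cons (P.lf 0 710 0) P.nil))) (P.cons (P.cons (P.lf 93246 0 0) (P.cons (P.lf 0 1160 0) P.nil)) (P.cons (P.cons (P.lf 11468 0 0) P.nil) P.nil)))))) 1898)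
 EL.nil)))
noncomputable def S24_53_216_364_5 : EL := (EL.cons 0 (TM.mk (P.cons (P.cons (P.lf 2674560536 0 0) (P.cons (P.lf 102807 0 0) (P.cons (P.lf 44328 0 0) (P.cons (P.lf 0 4916 0) (P.cons (P.lf 0 0 0) (P.cons (P.lf 0 0 0) P.nil)))))) (P.cons (P.cons (P.lf 0 112330771 0) (P.cons (P.lf 396766 0 0) (P.cons (P.lf 171098 0 0) (P.cons (P.lf 0 18996 0) (P.cons (P.lf 0 0 0) P.nil))))) (P.cons (P.cons (P.lf 0 75823164 0) (P.cons (P.lf 517373 0 0) (P.cons (P.lf 223119 0 0) (P.cons (P.lf 0 24764 0) P.nil)))) (P.cons (P.cons (P.lf 0 3343897 0) (P.cons (P.lf 234219 0 0) (P.cons (P.lf 101040 0 0) P.nil))) (P.cons (P.cons (P.lf 802504 0 0) (P.cons (P.lf 4828 0 0) P.nil)) (P.cons (P.cons (P.lf 109237 0 0) P.nil) P.nil)))))) 52035)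
 (EL.cons 1 (TM.mk (P.cons (P.cons (P.lf 82019694 0 0) (P.cons (P.lf 3151 0 0) (P.cons (P.lf 1357 0 0) (P.cons (P.lf 0 150 0) (P.cons (P.lf 0 0 0) (P.cons (P.lf 0 0 0) P.nil)))))) (P.cons (P.cons (P.lf 103015695 0 0) (P.cons (P.lf 16258 0 0) (P.cons (P.lf 7010 0 0) (P.cons (P.lf 0 778 0) (P.cons (P.lf 0 0 0) P.nil))))) (P.cons (P.cons (P.lf 0 3065600 0) (P.cons (P.lf 31801 0 0) (P.cons (P.lf 13713 0 0) (P.cons (P.lf 0 1520 0) P.nil)))) (P.cons (P.cons (P.lf 0 3028644 0) (P.cons (P.lf 28338 0 0) (P.cons (P.lf 12221 0 0) P.nil))) (P.cons (P.cons (P.lf 0 208128 0) (P.cons (P.lf 10230 0 0) P.nil)) (P.cons (P.cons (P.lf 23986 0 0) P.nil) P.nil)))))) 14480)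
 (EL.cons 5 (TM.mk (P.cons (P.cons (P.lf 2515264 0 0) (P.cons (P.lf 96 0 0) (P.cons (P.lf 40 0 0) (P.cons (P.lf 0 4 0) (P.cons (P.lf 0 0 0) (P.cons (P.lf 0 0 0) P.nil)))))) (P.cons (P.cons (P.lf 6423924 0 0) (P.cons (P.lf 624 0 0) (P.cons (P.lf 268 0 0) (P.cons (P.lf 0 28 0) (P.cons (P.lf 0 0 0) P.nil))))) (P.cons (P.cons (P.lf 4120928 0 0) (P.cons (P.lf 1626 0 0) (P.cons (P.lf 700 0 0) (P.cons (P.lf 0 76 0) P.nil)))) (P.cons (P.cons (P.lf 0 63570 0) (P.cons (P.lf 2156 0 0) (P.cons (P.lf 930 0 0) P.nil))) (P.cons (P.cons (P.lf 0 121124 0) (P.cons (P.lf 1486 0 0) P.nil)) (P.cons (P.cons (P.lf 0 11386 0) P.nil) P.nil)))))) 3048)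
 EL.nil)))
noncomputable def S24_53_216_364_6 : EL := (EL.cons 12 (TM.mk (P.lf 8589934592 0 0) 0)
 (EL.cons 3 (TM.mk (P.cons (P.lf 0 3596686102 0) (P.cons (P.lf 12315431 0 0) (P.cons (P.lf 8360981 0 0) (P.cons (P.lf 502803 0 0) (P.cons (P.lf 14171 0 0) (P.cons (P.lf 0 161 0) P.nil)))))) 359)
 (EL.cons 7 (TM.mk (P.cons (P.lf 0 110298158 0) (P.cons (P.lf 0 142787903 0) (P.cons (P.lf 0 4270675 0) (P.cons (P.lf 30920 0 0) (P.cons (P.lf 10958 0 0) (P.cons (P.lf 627 0 0) P.nil)))))) 162)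
 EL.nil)))
noncomputable def S24_53_216_364_7 : EL := (EL.cons 12 (TM.mk (P.cons (P.cons (P.lf 0 5723721172 0) (P.cons (P.lf 0 110008 0) (P.cons (P.lf 0 47432 0) (P.lf 5264 0 0)))) (P.cons (P.cons (P.lf 100598700 0 0) (P.cons (P.lf 0 427240 0) (P.cons (P.lf 0 184232 0) (P.lf 20464 0 0)))) (P.cons (P.cons (P.lf 69434042 0 0) (P.cons (P.lf 0 565872 0) (P.cons (P.lf 0 244008 0) (P.lf 27112 0 0)))) (P.cons (P.cons (P.lf 4979808 0 0) (P.cons (P.lf 0 271664 0) (P.cons (P.lf 0 117144 0) P.nil))) (P.cons (P.cons (P.lf 15794 0 0) (P.cons (P.lf 0 21632 0) P.nil)) (P.cons (P.cons (P.lf 0 21722 0) P.nil) P.nil)))))) 28372)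
 (EL.cons 3 (TM.mk (P.cons (P.cons (P.lf 2429113029 0 0) (P.cons (P.lf 0 92122 0) (P.cons (P.lf 0 39720 0) (P.lf 4408 0 0)))) (P.cons (P.cons (P.lf 34651182 0 0) (P.cons (P.lf 0 357462 0) (P.cons (P.lf 0 154140 0) (P.lf 17120 0 0)))) (P.cons (P.cons (P.lf 24301727 0 0) (P.cons (P.lf 0 472432 0) (P.cons (P.lf 0 203714 0) (P.lf 22634 0 0)))) (P.cons (P.cons (P.lf 1903983 0 0) (P.cons (P.lf 0 225028 0) (P.cons (P.lf 0 97032 0) P.nil))) (P.cons (P.cons (P.lf 0 143750 0) (P.cons (P.lf 0 16182 0) P.nil)) (P.cons (P.cons (P.lf 0 29213 0) P.nil) P.nil)))))) 56848)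
 (EL.cons 7 (TM.mk (P.cons (P.cons (P.lf 0 303750324 0) (P.cons (P.lf 1603586 0 0) (P.cons (P.lf 691482 0 0) (P.lf 0 76831 0)))) (P.cons (P.cons (P.lf 0 401753703 0) (P.cons (P.lf 4144572 0 0) (P.cons (P.lf 1787185 0 0) (P.lf 0 198575 0)))) (P.cons (P.cons (P.lf 0 21024235 0) (P.cons (P.lf 2787727 0 0) (P.cons (P.lf 1202097 0 0) (P.lf 0 133566 0)))) (P.cons (P.cons (P.lf 2209157 0 0) (P.cons (P.lf 133928 0 0) (P.cons (P.lf 57752 0 0) P.nil))) (P.cons (P.cons (P.lf 298896 0 0) (P.cons (P.lf 0 9225 0) P.nil)) (P.cons (P.cons (P.lf 9838 0 0) P.nil) P.nil)))))) 28040)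
 (EL.cons 10 (TM.mk (P.cons (P.cons (P.lf 0 3356610 0) (P.cons (P.lf 0 3126993 0) (P.cons (P.lf 320931 0 0) (P.cons (P.lf 66744 0 0) (P.lf 0 5562 0))))) (P.cons (P.cons (P.lf 0 8690688 0) (P.cons (P.lf 0 8096181 0) (P.cons (P.lf 830931 0 0) (P.cons (P.lf 172809 0 0) (P.lf 0 14400 0))))) (P.cons (P.cons (P.lf 0 5885253 0) (P.cons (P.lf 0 5482659 0) (P.cons (P.lf 562698 0 0) (P.cons (P.lf 117024 0 0) P.nil)))) (P.cons (P.cons (P.lf 0 334614 0) (P.cons (P.lf 0 311724 0) (P.cons (P.lf 31992 0 0) P.nil))) (P.cons (P.cons (P.lf 0 1926 0) (P.cons (P.lf 0 1794 0) P.nil)) (P.cons (P.cons (P.lf 972 0 0) P.nil) P.nil)))))) 18522)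
 EL.nil))))
noncomputable def S24_53_216_364_8 : EL := (EL.cons 12 (TM.mk (P.cons (P.cons (P.lf 3813880502 0 0) (P.cons (P.lf 146602 0 0) (P.cons (P.lf 63212 0 0) (P.cons (P.lf 0 7012 0) (P.cons (P.lf 0 0 0) (P.cons (P.lf 0 0 0) P.nil)))))) (P.cons (P.cons (P.lf 0 134063630 0) (P.cons (P.lf 566788 0 0) (P.cons (P.lf 244418 0 0) (P.cons (P.lf 0 27138 0) (P.cons (P.lf 0 0 0) P.nil))))) (P.cons (P.cons (P.lf 0 91353674 0) (P.cons (P.lf 742328 0 0) (P.cons (P.lf 320132 0 0) (P.cons (P.lf 0 35534 0) P.nil)))) (P.cons (P.cons (P.lf 0 5010062 0) (P.cons (P.lf 341746 0 0) (P.cons (P.lf 147426 0 0) P.nil))) (P.cons (P.cons (P.lf 656838 0 0) (P.cons (P.lf 12820 0 0) P.nil)) (P.cons (P.cons (P.lf 109822 0 0) P.nil) P.nil)))))) 60340)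
 (EL.cons 3 (TM.mk (P.cons (P.cons (P.lf 0 1640268637 0) (P.cons (P.lf 121930 0 0) (P.cons (P.lf 52572 0 0) (P.cons (P.lf 0 5831 0) (P.cons (P.lf 0 0 0) (P.cons (P.lf 0 0 0) P.nil)))))) (P.cons (P.cons (P.lf 0 50884038 0) (P.cons (P.lf 468798 0 0) (P.cons (P.lf 202167 0 0) (P.cons (P.lf 0 22428 0) (P.cons (P.lf 0 0 0) P.nil))))) (P.cons (P.cons (P.lf 0 34074977 0) (P.cons (P.lf 605478 0 0) (P.cons (P.lf 261158 0 0) (P.cons (P.lf 0 28944 0) P.nil)))) (P.cons (P.cons (P.lf 0 651060 0) (P.cons (P.lf 263720 0 0) (P.cons (P.lf 113849 0 0) P.nil))) (P.cons (P.cons (P.lf 1050826 0 0) (P.cons (P.lf 0 5447 0) P.nil)) (P.cons (P.cons (P.lf 137918 0 0) P.nil) P.nil)))))) 136420)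
 (EL.cons 7 (TM.mk (P.cons (P.cons (P.lf 453766934 0 0) (P.cons (P.lf 0 2127364 0) (P.cons (P.lf 0 917383 0) (P.cons (P.lf 101892 0 0) (P.cons (P.lf 0 0 0) (P.cons (P.lf 0 0 0) P.nil)))))) (P.cons (P.cons (P.lf 589961136 0 0) (P.cons (P.lf 0 5435514 0) (P.cons (P.lf 0 2344117 0) (P.cons (P.lf 260199 0 0) (P.cons (P.lf 0 18 0) P.nil))))) (P.cons (P.cons (P.lf 12192142 0 0) (P.cons (P.lf 0 3492534 0) (P.cons (P.lf 0 1506710 0) (P.cons (P.lf 166732 0 0) P.nil)))) (P.cons (P.cons (P.lf 0 11946826 0) (P.cons (P.lf 46862 0 0) (P.cons (P.lf 19275 0 0) P.nil))) (P.cons (P.cons (P.lf 0 1278045 0) (P.cons (P.lf 101002 0 0) P.nil)) (P.cons (P.cons (P.lf 15345 0 0) P.nil) P.nil)))))) 128001)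
 (EL.cons 10 (TM.mk (P.cons (P.cons (P.lf 4473210 0 0) (P.cons (P.lf 4167294 0 0) (P.cons (P.lf 0 427572 0) (P.cons (P.lf 0 88920 0) (P.cons (P.lf 7398 0 0) (P.cons (P.lf 0 0 0) P.nil)))))) (P.cons (P.cons (P.lf 11503092 0 0) (P.cons (P.lf 10716750 0 0) (P.cons (P.lf 0 1099068 0) (P.cons (P.lf 0 228588 0) (P.cons (P.lf 18996 0 0) P.nil))))) (P.cons (P.cons (P.lf 7585206 0 0) (P.cons (P.lf 7067778 0 0) (P.cons (P.lf 0 723246 0) (P.cons (P.lf 0 150444 0) P.nil)))) (P.cons (P.cons (P.lf 163686 0 0) (P.cons (P.lf 154440 0 0) (P.cons (P.lf 0 12990 0) P.nil))) (P.cons (P.cons (P.lf 0 110502 0) (P.cons (P.lf 0 101568 0) P.nil)) (P.cons (P.cons (P.lf 0 13584 0) P.nil) P.nil)))))) 64536)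
 EL.nil))))
noncomputable def S24_53_216_364_9 : EL := (EL.cons 3 (TM.mk (P.cons (P.lf 0 3596686102 0) (P.cons (P.lf 12315431 0 0) (P.cons (P.lf 8360981 0 0) (P.cons (P.lf 502803 0 0) (P.cons (P.lf 14171 0 0) (P.cons (P.lf 0 161 0) P.nil)))))) 359)
 (EL.cons 7 (TM.mk (P.cons (P.lf 0 110298158 0) (P.cons (P.lf 0 142787903 0) (P.cons (P.lf 0 4270675 0) (P.cons (P.lf 30920 0 0) (P.cons (P.lf 10958 0 0) (P.cons (P.lf 627 0 0) P.nil)))))) 162)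
 EL.nil))
noncomputable def S24_53_216_364_10 : EL := (EL.cons 3 (TM.mk (P.cons (P.cons (P.lf 2396575686 0 0) (P.cons (P.lf 46061 0 0) (P.cons (P.lf 19860 0 0) (P.lf 0 2204 0)))) (P.cons (P.cons (P.lf 0 50327745 0) (P.cons (P.lf 178731 0 0) (P.cons (P.lf 77070 0 0) (P.lf 0 8560 0)))) (P.cons (P.cons (P.lf 0 34499617 0) (P.cons (P.lf 236216 0 0) (P.cons (P.lf 101857 0 0) (P.lf 0 11317 0)))) (P.cons (P.cons (P.lf 0 2222658 0) (P.cons (P.lf 112514 0 0) (P.cons (P.lf 48516 0 0) P.nil))) (P.cons (P.cons (P.lf 64555 0 0) (P.cons (P.lf 8091 0 0) P.nil)) (P.cons (P.cons (P.lf 18301 0 0) P.nil) P.nil)))))) 13725)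
 (EL.cons 7 (TM.mk (P.cons (P.cons (P.lf 73494843 0 0) (P.cons (P.lf 1412 0 0) (P.cons (P.lf 609 0 0) (P.lf 0 67 0)))) (P.cons (P.cons (P.lf 93851970 0 0) (P.cons (P.lf 7314 0 0) (P.cons (P.lf 3154 0 0) (P.lf 0 350 0)))) (P.cons (P.cons (P.lf 281891 0 0) (P.cons (P.lf 14422 0 0) (P.cons (P.lf 6219 0 0) (P.lf 0 690 0)))) (P.cons (P.cons (P.lf 0 1288741 0) (P.cons (P.lf 13106 0 0) (P.cons (P.lf 5651 0 0) P.nil))) (P.cons (P.cons (P.lf 0 124440 0) (P.cons (P.lf 5073 0 0) P.nil)) (P.cons (P.cons (P.lf 0 2498 0) P.nil) P.nil)))))) 4600)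
 EL.nil))
noncomputable def S24_53_216_364_11 : EL := (EL.cons 3 (TM.mk (P.cons (P.cons (P.lf 0 1596907501 0) (P.cons (P.lf 0 61382 0) (P.cons (P.lf 0 26466 0) (P.cons (P.lf 2935 0 0) (P.cons (P.lf 0 0 0) (P.cons (P.lf 0 0 0) P.nil)))))) (P.cons (P.cons (P.lf 61601676 0 0) (P.cons (P.lf 0 237108 0) (P.cons (P.lf 0 102249 0) (P.cons (P.lf 11352 0 0) (P.cons (P.lf 0 0 0) P.nil))))) (P.cons (P.cons (P.lf 41770657 0 0) (P.cons (P.lf 0 309864 0) (P.cons (P.lf 0 133630 0) (P.cons (P.lf 14832 0 0) P.nil)))) (P.cons (P.cons (P.lf 2059536 0 0) (P.cons (P.lf 0 141466 0) (P.cons (P.lf 0 61027 0) P.nil))) (P.cons (P.cons (P.lf 0 372680 0) (P.cons (P.lf 0 4121 0) P.nil)) (P.cons (P.cons (P.lf 0 55558 0) P.nil) P.nil)))))) 28284)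
 (EL.cons 7 (TM.mk (P.cons (P.cons (P.lf 0 48971734 0) (P.cons (P.lf 0 1882 0) (P.cons (P.lf 0 811 0) (P.cons (P.lf 90 0 0) (P.cons (P.lf 0 0 0) (P.cons (P.lf 0 0 0) P.nil)))))) (P.cons (P.cons (P.lf 0 61675560 0) (P.cons (P.lf 0 9714 0) (P.cons (P.lf 0 4189 0) (P.cons (P.lf 465 0 0) (P.cons (P.lf 0 0 0) P.nil))))) (P.cons (P.cons (P.lf 1505362 0 0) (P.cons (P.lf 0 19026 0) (P.cons (P.lf 0 8204 0) (P.cons (P.lf 910 0 0) P.nil)))) (P.cons (P.cons (P.lf 1663256 0 0) (P.cons (P.lf 0 17008 0) (P.cons (P.lf 0 7335 0) P.nil))) (P.cons (P.cons (P.lf 124647 0 0) (P.cons (P.lf 0 6212 0) P.nil)) (P.cons (P.cons (P.lf 0 10059 0) P.nil) P.nil)))))) 7979)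
 EL.nil))
noncomputable def S24_53_216_364_12 : EL := (EL.cons 4 (TM.mk (P.cons (P.lf 3596686102 0 0) (P.cons (P.lf 0 12315431 0) (P.cons (P.lf 0 8360981 0) (P.cons (P.lf 0 502803 0) (P.cons (P.lf 0 14171 0) (P.cons (P.lf 161 0 0) P.nil)))))) 359)
 (EL.cons 8 (TM.mk (P.cons (P.lf 110298158 0 0) (P.cons (P.lf 142787903 0 0) (P.cons (P.lf 4270675 0 0) (P.cons (P.lf 0 30920 0) (P.cons (P.lf 0 10958 0) (P.cons (P.lf 0 627 0) P.nil)))))) 162)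
 EL.nil))
noncomputable def S24_53_216_364_13 : EL := (EL.cons 4 (TM.mk (P.cons (P.cons (P.lf 0 2396575686 0) (P.cons (P.lf 0 46061 0) (P.cons (P.lf 0 19860 0) (P.lf 2204 0 0)))) (P.cons (P.cons (P.lf 50327745 0 0) (P.cons (P.lf 0 178731 0) (P.cons (P.lf 0 77070 0) (P.lf 8560 0 0)))) (P.cons (P.cons (P.lf 34499617 0 0) (P.cons (P.lf 0 236216 0) (P.cons (P.lf 0 101857 0) (P.lf 11317 0 0)))) (P.cons (P.cons (P.lf 2222658 0 0) (P.cons (P.lf 0 112514 0) (P.cons (P.lf 0 48516 0) P.nil))) (P.cons (P.cons (P.lf 0 64555 0) (P.cons (P.lf 0 8091 0) P.nil)) (P.cons (P.cons (P.lf 0 18301 0) P.nil) P.nil)))))) 13725)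
 (EL.cons 8 (TM.mk (P.cons (P.cons (P.lf 0 73494843 0) (P.cons (P.lf 0 1412 0) (P.cons (P.lf 0 609 0) (P.lf 67 0 0)))) (P.cons (P.cons (P.lf 0 93851970 0) (P.cons (P.lf 0 7314 0) (P.cons (P.lf 0 3154 0) (P.lf 350 0 0)))) (P.cons (P.cons (P.lf 0 281891 0) (P.cons (P.lf 0 14422 0) (P.cons (P.lf 0 6219 0) (P.lf 690 0 0)))) (P.cons (P.cons (P.lf 1288741 0 0) (P.cons (P.lf 0 13106 0) (P.cons (P.lf 0 5651 0) P.nil))) (P.cons (P.cons (P.lf 124440 0 0) (P.cons (P.lf 0 5073 0) P.nil)) (P.cons (P.cons (P.lf 2498 0 0) P.nil) P.nil)))))) 4600)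
 EL.nil))
noncomputable def S24_53_216_364_14 : EL := (EL.cons 4 (TM.mk (P.cons (P.cons (P.lf 1596907501 0 0) (P.cons (P.lf 61382 0 0) (P.cons (P.lf 26466 0 0) (P.cons (P.lf 0 2935 0) (P.cons (P.lf 0 0 0) (P.cons (P.lf 0 0 0) P.nil)))))) (P.cons (P.cons (P.lf 0 61601676 0) (P.cons (P.lf 237108 0 0) (P.cons (P.lf 102249 0 0) (P.cons (P.lf 0 11352 0) (P.cons (P.lf 0 0 0) P.nil))))) (P.cons (P.cons (P.lf 0 41770657 0) (P.cons (P.lf 309864 0 0) (P.cons (P.lf 133630 0 0) (P.cons (P.lf 0 14832 0) P.nil)))) (P.cons (P.cons (P.lf 0 2059536 0) (P.cons (P.lf 141466 0 0) (P.cons (P.lf 61027 0 0) P.nil))) (P.cons (P.cons (P.lf 372680 0 0) (P.cons (P.lf 4121 0 0) P.nil)) (P.cons (P.cons (P.lf 55558 0 0) P.nil) P.nil)))))) 28284)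
 (EL.cons 8 (TM.mk (P.cons (P.cons (P.lf 48971734 0 0) (P.cons (P.lf 1882 0 0) (P.cons (P.lf 811 0 0) (P.cons (P.lf 0 90 0) (P.cons (P.lf 0 0 0) (P.cons (P.lf 0 0 0) P.nil)))))) (P.cons (P.cons (P.lf 61675560 0 0) (P.cons (P.lf 9714 0 0) (P.cons (P.lf 4189 0 0) (P.cons (P.lf 0 465 0) (P.cons (P.lf 0 0 0) P.nil))))) (P.cons (P.cons (P.lf 0 1505362 0) (P.cons (P.lf 19026 0 0) (P.cons (P.lf 8204 0 0) (P.cons (P.lf 0 910 0) P.nil)))) (P.cons (P.cons (P.lf 0 1663256 0) (P.cons (P.lf 17008 0 0) (P.cons (P.lf 7335 0 0) P.nil))) (P.cons (P.cons (P.lf 0 124647 0) (P.cons (P.lf 6212 0 0) P.nil)) (P.cons (P.cons (P.lf 10059 0 0) P.nil) P.nil)))))) 7979)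
 EL.nil))
noncomputable def S24_53_216_364_15 : EL := (EL.cons 4 (TM.mk (P.cons (P.lf 0 3212727834 0) (P.cons (P.lf 22001434 0 0) (P.cons (P.lf 14899169 0 0) (P.cons (P.lf 847110 0 0) (P.cons (P.lf 4879 0 0) (P.cons (P.lf 0 2462 0) P.nil)))))) 773)
 (EL.cons 8 (TM.mk (P.cons (P.lf 0 98523460 0) (P.cons (P.lf 0 127207462 0) (P.cons (P.lf 0 3149008 0) (P.cons (P.lf 350949 0 0) (P.cons (P.lf 36780 0 0) (P.cons (P.lf 1493 0 0) P.nil)))))) 227)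
 EL.nil))
noncomputable def S24_53_216_364_16 : EL := (EL.cons 4 (TM.mk (P.cons (P.cons (P.lf 2140733218 0 0) (P.cons (P.lf 41144 0 0) (P.cons (P.lf 17739 0 0) (P.lf 0 1968 0)))) (P.cons (P.cons (P.lf 0 52285185 0) (P.cons (P.lf 159510 0 0) (P.cons (P.lf 68782 0 0) (P.lf 0 7639 0)))) (P.cons (P.cons (P.lf 0 35639159 0) (P.cons (P.lf 210356 0 0) (P.cons (P.lf 90706 0 0) (P.lf 0 10078 0)))) (P.cons (P.cons (P.lf 0 2074625 0) (P.cons (P.lf 99403 0 0) (P.cons (P.lf 42863 0 0) P.nil))) (P.cons (P.cons (P.lf 133949 0 0) (P.cons (P.lf 6370 0 0) P.nil)) (P.cons (P.cons (P.lf 25347 0 0) P.nil) P.nil)))))) 13795)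
 (EL.cons 8 (TM.mk (P.cons (P.cons (P.lf 65649023 0 0) (P.cons (P.lf 1261 0 0) (P.cons (P.lf 544 0 0) (P.lf 0 60 0)))) (P.cons (P.cons (P.lf 83608170 0 0) (P.cons (P.lf 6529 0 0) (P.cons (P.lf 2815 0 0) (P.lf 0 312 0)))) (P.cons (P.cons (P.lf 0 187864 0) (P.cons (P.lf 12857 0 0) (P.cons (P.lf 5544 0 0) (P.lf 0 615 0)))) (P.cons (P.cons (P.lf 0 1356084 0) (P.cons (P.lf 11647 0 0) (P.cons (P.lf 5022 0 0) P.nil))) (P.cons (P.cons (P.lf 0 119778 0) (P.cons (P.lf 4460 0 0) P.nil)) (P.cons (P.cons (P.lf 461 0 0) P.nil) P.nil)))))) 4587)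
 EL.nil))
noncomputable def S24_53_216_364_17 : EL := (EL.cons 4 (TM.mk (P.cons (P.cons (P.lf 0 1426432286 0) (P.cons (P.lf 0 54830 0) (P.cons (P.lf 0 23641 0) (P.cons (P.lf 2622 0 0) (P.cons (P.lf 0 0 0) (P.cons (P.lf 0 0 0) P.nil)))))) (P.cons (P.cons (P.lf 59909745 0 0) (P.cons (P.lf 0 211608 0) (P.cons (P.lf 0 91252 0) (P.cons (P.lf 10131 0 0) (P.cons (P.lf 0 0 0) P.nil))))) (P.cons (P.cons (P.lf 40439021 0 0) (P.cons (P.lf 0 275932 0) (P.cons (P.lf 0 118996 0) (P.cons (P.lf 13207 0 0) P.nil)))) (P.cons (P.cons (P.lf 1783411 0 0) (P.cons (P.lf 0 124917 0) (P.cons (P.lf 0 53888 0) P.nil))) (P.cons (P.cons (P.lf 0 428002 0) (P.cons (P.lf 0 2575 0) P.nil)) (P.cons (P.cons (P.lf 0 58260 0) P.nil) P.nil)))))) 27762)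
 (EL.cons 8 (TM.mk (P.cons (P.cons (P.lf 0 43743837 0) (P.cons (P.lf 0 1681 0) (P.cons (P.lf 0 724 0) (P.cons (P.lf 80 0 0) (P.cons (P.lf 0 0 0) (P.cons (P.lf 0 0 0) P.nil)))))) (P.cons (P.cons (P.lf 0 54941704 0) (P.cons (P.lf 0 8671 0) (P.cons (P.lf 0 3739 0) (P.cons (P.lf 415 0 0) (P.cons (P.lf 0 0 0) P.nil))))) (P.cons (P.cons (P.lf 1634987 0 0) (P.cons (P.lf 0 16961 0) (P.cons (P.lf 0 7314 0) (P.cons (P.lf 811 0 0) P.nil)))) (P.cons (P.cons (P.lf 1615277 0 0) (P.cons (P.lf 0 15114 0) (P.cons (P.lf 0 6518 0) P.nil))) (P.cons (P.cons (P.lf 111002 0 0) (P.cons (P.lf 0 5456 0) P.nil)) (P.cons (P.cons (P.lf 0 12793 0) P.nil) P.nil)))))) 7711)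
 EL.nil))
noncomputable def S24_53_216_364_18 : EL := (EL.cons 4 (TM.mk (P.cons (P.lf 2869758394 0 0) (P.cons (P.lf 0 29479062 0) (P.cons (P.lf 0 19912479 0) (P.cons (P.lf 0 1066604 0) (P.cons (P.lf 20610 0 0) (P.cons (P.lf 6040 0 0) P.nil)))))) 1173)
 (EL.cons 8 (TM.mk (P.cons (P.lf 88005751 0 0) (P.cons (P.lf 113326299 0 0) (P.cons (P.lf 2219186 0 0) (P.cons (P.lf 0 599561 0) (P.cons (P.lf 0 54550 0) (P.cons (P.lf 0 1330 0) P.nil)))))) 337)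
 EL.nil))
noncomputable def S24_53_216_364_19 : EL := (EL.cons 4 (TM.mk (P.cons (P.cons (P.lf 0 1912202788 0) (P.cons (P.lf 0 36751 0) (P.cons (P.lf 0 15845 0) (P.lf 1757 0 0)))) (P.cons (P.cons (P.lf 53251149 0 0) (P.cons (P.lf 0 142355 0) (P.cons (P.lf 0 61385 0) (P.lf 6818 0 0)))) (P.cons (P.cons (P.lf 36119814 0 0) (P.cons (P.lf 0 187326 0) (P.cons (P.lf 0 80776 0) (P.lf 8974 0 0)))) (P.cons (P.cons (P.lf 1902897 0 0) (P.cons (P.lf 0 87811 0) (P.cons (P.lf 0 37864 0) P.nil))) (P.cons (P.cons (P.lf 0 198993 0) (P.cons (P.lf 0 4929 0) P.nil)) (P.cons (P.cons (P.lf 0 31259 0) P.nil) P.nil)))))) 13953)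
 (EL.cons 8 (TM.mk (P.cons (P.cons (P.lf 0 58640770 0) (P.cons (P.lf 0 1127 0) (P.cons (P.lf 0 485 0) (P.lf 53 0 0)))) (P.cons (P.cons (P.lf 0 74481926 0) (P.cons (P.lf 0 5828 0) (P.cons (P.lf 0 2513 0) (P.lf 279 0 0)))) (P.cons (P.cons (P.lf 559848 0 0) (P.cons (P.lf 0 11462 0) (P.cons (P.lf 0 4942 0) (P.lf 549 0 0)))) (P.cons (P.cons (P.lf 1392551 0 0) (P.cons (P.lf 0 10351 0) (P.cons (P.lf 0 4463 0) P.nil))) (P.cons (P.cons (P.lf 113125 0 0) (P.cons (P.lf 0 3921 0) P.nil)) (P.cons (P.cons (P.lf 0 3326 0) P.nil) P.nil)))))) 4573)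
 EL.nil))
noncomputable def S24_53_216_364_20 : EL := (EL.cons 4 (TM.mk (P.cons (P.cons (P.lf 1274155870 0 0) (P.cons (P.lf 48976 0 0) (P.cons (P.lf 21117 0 0) (P.cons (P.lf 0 2341 0) (P.cons (P.lf 0 0 0) (P.cons (P.lf 0 0 0) P.nil)))))) (P.cons (P.cons (P.lf 0 57877022 0) (P.cons (P.lf 188850 0 0) (P.cons (P.lf 81438 0 0) (P.cons (P.lf 0 9042 0) (P.cons (P.lf 0 0 0) P.nil))))) (P.cons (P.cons (P.lf 0 38900729 0) (P.cons (P.lf 245714 0 0) (P.cons (P.lf 105964 0 0) (P.cons (P.lf 0 11761 0) P.nil)))) (P.cons (P.cons (P.lf 0 1523062 0) (P.cons (P.lf 110292 0 0) (P.cons (P.lf 47579 0 0) P.nil))) (P.cons (P.cons (P.lf 474197 0 0) (P.cons (P.lf 1319 0 0) P.nil)) (P.cons (P.cons (P.lf 59752 0 0) P.nil) P.nil)))))) 27336)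
 (EL.cons 8 (TM.mk (P.cons (P.cons (P.lf 39074036 0 0) (P.cons (P.lf 1501 0 0) (P.cons (P.lf 647 0 0) (P.cons (P.lf 0 71 0) (P.cons (P.lf 0 0 0) (P.cons (P.lf 0 0 0) P.nil)))))) (P.cons (P.cons (P.lf 48942700 0 0) (P.cons (P.lf 7740 0 0) (P.cons (P.lf 3338 0 0) (P.cons (P.lf 0 370 0) (P.cons (P.lf 0 0 0) P.nil))))) (P.cons (P.cons (P.lf 0 1719322 0) (P.cons (P.lf 15120 0 0) (P.cons (P.lf 6520 0 0) (P.cons (P.lf 0 723 0) P.nil)))) (P.cons (P.cons (P.lf 0 1557387 0) (P.cons (P.lf 13430 0 0) (P.cons (P.lf 5792 0 0) P.nil))) (P.cons (P.cons (P.lf 0 97831 0) (P.cons (P.lf 4791 0 0) P.nil)) (P.cons (P.cons (P.lf 15133 0 0) P.nil) P.nil)))))) 7410)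
 EL.nil))
noncomputable def S24_53_216_364_21 : EL := (EL.cons 4 (TM.mk (P.cons (P.cons (P.lf 0 32537343 0) (P.cons (P.lf 138183 0 0) (P.cons (P.lf 59580 0 0) (P.lf 0 6612 0)))) (P.cons (P.cons (P.lf 0 84978927 0) (P.cons (P.lf 536193 0 0) (P.cons (P.lf 231210 0 0) (P.lf 0 25680 0)))) (P.cons (P.cons (P.lf 0 58801344 0) (P.cons (P.lf 708648 0 0) (P.cons (P.lf 305571 0 0) (P.lf 0 33951 0)))) (P.cons (P.cons (P.lf 0 4126641 0) (P.cons (P.lf 337542 0 0) (P.cons (P.lf 145548 0 0) P.nil))) (P.cons (P.cons (P.lf 208305 0 0) (P.cons (P.lf 24273 0 0) P.nil)) (P.cons (P.cons (P.lf 47514 0 0) P.nil) P.nil)))))) 43104)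
 (EL.cons 8 (TM.mk (P.cons (P.cons (P.lf 377245167 0 0) (P.cons (P.lf 0 1602174 0) (P.cons (P.lf 0 690873 0) (P.lf 76764 0 0)))) (P.cons (P.cons (P.lf 495605673 0 0) (P.cons (P.lf 0 4137258 0) (P.cons (P.lf 0 1784031 0) (P.lf 198225 0 0)))) (P.cons (P.cons (P.lf 21306126 0 0) (P.cons (P.lf 0 2773305 0) (P.cons (P.lf 0 1195878 0) (P.lf 132876 0 0)))) (P.cons (P.cons (P.lf 0 3497898 0) (P.cons (P.lf 0 120822 0) (P.cons (P.lf 0 52101 0) P.nil))) (P.cons (P.cons (P.lf 0 423336 0) (P.cons (P.lf 14298 0 0) P.nil)) (P.cons (P.cons (P.lf 0 12336 0) P.nil) P.nil)))))) 23421)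
 (EL.cons 11 (TM.mk (P.cons (P.cons (P.lf 3356610 0 0) (P.cons (P.lf 3126993 0 0) (P.cons (P.lf 0 320931 0) (P.cons (P.lf 0 66744 0) (P.lf 5562 0 0))))) (P.cons (P.cons (P.lf 8690688 0 0) (P.cons (P.lf 8096181 0 0) (P.cons (P.lf 0 830931 0) (P.cons (P.lf 0 172809 0) (P.lf 14400 0 0))))) (P.cons (P.cons (P.lf 5885253 0 0) (P.cons (P.lf 5482659 0 0) (P.cons (P.lf 0 562698 0) (P.cons (P.lf 0 117024 0) P.nil)))) (P.cons (P.cons (P.lf 334614 0 0) (P.cons (P.lf 311724 0 0) (P.cons (P.lf 0 31992 0) P.nil))) (P.cons (P.cons (P.lf 1926 0 0) (P.cons (P.lf 1794 0 0) P.nil)) (P.cons (P.cons (P.lf 0 972 0) P.nil) P.nil)))))) 18522)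
 EL.nil)))
noncomputable def S24_53_216_364_22 : EL := (EL.cons 4 (TM.mk (P.cons (P.cons (P.lf 21680568 0 0) (P.cons (P.lf 0 91656 0) (P.cons (P.lf 0 39519 0) (P.cons (P.lf 4383 0 0) (P.cons (P.lf 0 0 0) (P.cons (P.lf 0 0 0) P.nil)))))) (P.cons (P.cons (P.lf 56242857 0 0) (P.cons (P.lf 0 352953 0) (P.cons (P.lf 0 152208 0) (P.cons (P.lf 16890 0 0) (P.cons (P.lf 0 0 0) P.nil))))) (P.cons (P.cons (P.lf 37922817 0 0) (P.cons (P.lf 0 457671 0) (P.cons (P.lf 0 197394 0) (P.cons (P.lf 21888 0 0) P.nil)))) (P.cons (P.cons (P.lf 1355298 0 0) (P.cons (P.lf 0 202593 0) (P.cons (P.lf 0 87438 0) P.nil))) (P.cons (P.cons (P.lf 0 711753 0) (P.cons (P.lf 663 0 0) P.nil)) (P.cons (P.cons (P.lf 0 96738 0) P.nil) P.nil)))))) 54057)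
 (EL.cons 8 (TM.mk (P.cons (P.cons (P.lf 0 251369334 0) (P.cons (P.lf 1062741 0 0) (P.cons (P.lf 458286 0 0) (P.cons (P.lf 0 50901 0) (P.cons (P.lf 0 0 0) (P.cons (P.lf 0 0 0) P.nil)))))) (P.cons (P.cons (P.lf 0 325818348 0) (P.cons (P.lf 2712900 0 0) (P.cons (P.lf 1169964 0 0) (P.cons (P.lf 0 129867 0) (P.cons (P.lf 9 0 0) P.nil))))) (P.cons (P.cons (P.lf 0 5343390 0) (P.cons (P.lf 1736754 0 0) (P.cons (P.lf 749253 0 0) (P.cons (P.lf 0 82911 0) P.nil)))) (P.cons (P.cons (P.lf 6805041 0 0) (P.cons (P.lf 0 31935 0) (P.cons (P.lf 0 13305 0) P.nil))) (P.cons (P.cons (P.lf 701346 0 0) (P.cons (P.lf 0 53607 0) P.nil)) (P.cons (P.cons (P.lf 0 12702 0) P.nil) P.nil)))))) 60000)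
 (EL.cons 11 (TM.mk (P.cons (P.cons (P.lf 0 2236605 0) (P.cons (P.lf 0 2083647 0) (P.cons (P.lf 213786 0 0) (P.cons (P.lf 44460 0 0) (P.cons (P.lf 0 3699 0) (P.cons (P.lf 0 0 0) P.nil)))))) (P.cons (P.cons (P.lf 0 5751546 0) (P.cons (P.lf 0 5358375 0) (P.cons (P.lf 549534 0 0) (P.cons (P.lf 114294 0 0) (P.cons (P.lf 0 9498 0) P.nil))))) (P.cons (P.cons (P.lf 0 3792603 0) (P.cons (P.lf 0 3533889 0) (P.cons (P.lf 361623 0 0) (P.cons (P.lf 75222 0 0) P.nil)))) (P.cons (P.cons (P.lf 0 81843 0) (P.cons (P.lf 0 77220 0) (P.cons (P.lf 6495 0 0) P.nil))) (P.cons (P.cons (P.lf 55251 0 0) (P.cons (P.lf 50784 0 0) P.nil)) (P.cons (P.cons (P.lf 6792 0 0) P.nil) P.nil)))))) 32268)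
 EL.nil)))
noncomputable def S24_53_216_364_23 : EL := (EL.cons 4 (TM.mk (P.cons (P.cons (P.lf 29063871 0 0) (P.cons (P.lf 0 123429 0) (P.cons (P.lf 0 53217 0) (P.lf 5904 0 0)))) (P.cons (P.cons (P.lf 75807624 0 0) (P.cons (P.lf 0 478527 0) (P.cons (P.lf 0 206343 0) (P.lf 22917 0 0)))) (P.cons (P.cons (P.lf 52196625 0 0) (P.cons (P.lf 0 631068 0) (P.cons (P.lf 0 272118 0) (P.lf 30234 0 0)))) (P.cons (P.cons (P.lf 3325740 0 0) (P.cons (P.lf 0 298209 0) (P.cons (P.lf 0 128586 0) P.nil))) (P.cons (P.cons (P.lf 0 331512 0) (P.cons (P.lf 0 19110 0) P.nil)) (P.cons (P.cons (P.lf 0 58011 0) P.nil) P.nil)))))) 42924)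
 (EL.cons 8 (TM.mk (P.cons (P.cons (P.lf 0 336972984 0) (P.cons (P.lf 1431135 0 0) (P.cons (P.lf 617118 0 0) (P.lf 0 68568 0)))) (P.cons (P.cons (P.lf 0 441544278 0) (P.cons (P.lf 3690690 0 0) (P.cons (P.lf 1591464 0 0) (P.lf 0 176829 0)))) (P.cons (P.cons (P.lf 0 16732440 0) (P.cons (P.lf 2461263 0 0) (P.cons (P.lf 1061322 0 0) (P.lf 0 117924 0)))) (P.cons (P.cons (P.lf 4265868 0 0) (P.cons (P.lf 90648 0 0) (P.cons (P.lf 39090 0 0) P.nil))) (P.cons (P.cons (P.lf 474900 0 0) (P.cons (P.lf 0 19422 0) P.nil)) (P.cons (P.cons (P.lf 6849 0 0) P.nil) P.nil)))))) 27723)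
 (EL.cons 11 (TM.mk (P.cons (P.cons (P.lf 0 2998278 0) (P.cons (P.lf 0 2793174 0) (P.cons (P.lf 286668 0 0) (P.cons (P.lf 59616 0 0) (P.lf 0 4968 0))))) (P.cons (P.cons (P.lf 0 7752660 0) (P.cons (P.lf 0 7222320 0) (P.cons (P.lf 741243 0 0) (P.cons (P.lf 154155 0 0) (P.lf 0 12843 0))))) (P.cons (P.cons (P.lf 0 5223429 0) (P.cons (P.lf 0 4866108 0) (P.cons (P.lf 499419 0 0) (P.cons (P.lf 103863 0 0) P.nil)))) (P.cons (P.cons (P.lf 0 262425 0) (P.cons (P.lf 0 244473 0) (P.cons (P.lf 25089 0 0) P.nil))) (P.cons (P.cons (P.lf 12618 0 0) (P.cons (P.lf 11757 0 0) P.nil)) (P.cons (P.cons (P.lf 2334 0 0) P.nil) P.nil)))))) 20820)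
 EL.nil)))
noncomputable def S24_53_216_364_24 : EL := (EL.cons 4 (TM.mk (P.cons (P.cons (P.lf 0 19366095 0) (P.cons (P.lf 81873 0 0) (P.cons (P.lf 35301 0 0) (P.cons (P.lf 0 3915 0) (P.cons (P.lf 0 0 0) (P.cons (P.lf 0 0 0) P.nil)))))) (P.cons (P.cons (P.lf 0 50172432 0) (P.cons (P.lf 314994 0 0) (P.cons (P.lf 135840 0 0) (P.cons (P.lf 0 15075 0) (P.cons (P.lf 0 0 0) P.nil))))) (P.cons (P.cons (P.lf 0 33657387 0) (P.cons (P.lf 407544 0 0) (P.cons (P.lf 175773 0 0) (P.cons (P.lf 0 19491 0) P.nil)))) (P.cons (P.cons (P.lf 0 975132 0) (P.cons (P.lf 178824 0 0) (P.cons (P.lf 77178 0 0) P.nil))) (P.cons (P.cons (P.lf 725760 0 0) (P.cons (P.lf 0 2205 0) P.nil)) (P.cons (P.cons (P.lf 91980 0 0) P.nil) P.nil)))))) 51972)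
 (EL.cons 8 (TM.mk (P.cons (P.cons (P.lf 224534817 0 0) (P.cons (P.lf 0 949290 0) (P.cons (P.lf 0 409362 0) (P.cons (P.lf 45465 0 0) (P.cons (P.lf 0 0 0) (P.cons (P.lf 0 0 0) P.nil)))))) (P.cons (P.cons (P.lf 290267319 0 0) (P.cons (P.lf 0 2420037 0) (P.cons (P.lf 0 1043664 0) (P.cons (P.lf 115845 0 0) (P.cons (P.lf 0 9 0) P.nil))))) (P.cons (P.cons (P.lf 3254466 0 0) (P.cons (P.lf 0 1540845 0) (P.cons (P.lf 0 664737 0) (P.cons (P.lf 73557 0 0) P.nil)))) (P.cons (P.cons (P.lf 0 6802866 0) (P.cons (P.lf 39603 0 0) (P.cons (P.lf 16665 0 0) P.nil))) (P.cons (P.cons (P.lf 0 658326 0) (P.cons (P.lf 51735 0 0) P.nil)) (P.cons (P.cons (P.lf 25818 0 0) P.nil) P.nil)))))) 59298)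
 (EL.cons 11 (TM.mk (P.cons (P.cons (P.lf 1997838 0 0) (P.cons (P.lf 1861212 0 0) (P.cons (P.lf 0 190962 0) (P.cons (P.lf 0 39714 0) (P.cons (P.lf 3306 0 0) (P.cons (P.lf 0 0 0) P.nil)))))) (P.cons (P.cons (P.lf 5130708 0 0) (P.cons (P.lf 4779978 0 0) (P.cons (P.lf 0 490215 0) (P.cons (P.lf 0 101955 0) (P.cons (P.lf 8475 0 0) P.nil))))) (P.cons (P.cons (P.lf 3365493 0 0) (P.cons (P.lf 3135918 0 0) (P.cons (P.lf 0 320892 0) (P.cons (P.lf 0 66750 0) P.nil)))) (P.cons (P.cons (P.lf 49284 0 0) (P.cons (P.lf 46782 0 0) (P.cons (P.lf 0 3525 0) P.nil))) (P.cons (P.cons (P.lf 0 58203 0) (P.cons (P.lf 0 53613 0) P.nil)) (P.cons (P.cons (P.lf 0 6561 0) P.nil) P.nil)))))) 31539)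
 EL.nil)))
noncomputable def S24_53_216_364_25 : EL := (EL.cons 4 (TM.mk (P.cons (P.cons (P.lf 0 25961205 0) (P.cons (P.lf 110253 0 0) (P.cons (P.lf 47538 0 0) (P.lf 0 5274 0)))) (P.cons (P.cons (P.lf 0 67626012 0) (P.cons (P.lf 427065 0 0) (P.cons (P.lf 184152 0 0) (P.lf 0 20451 0)))) (P.cons (P.cons (P.lf 0 46332249 0) (P.cons (P.lf 561981 0 0) (P.cons (P.lf 242328 0 0) (P.lf 0 26922 0)))) (P.cons (P.cons (P.lf 0 2650017 0) (P.cons (P.lf 263433 0 0) (P.cons (P.lf 113592 0 0) P.nil))) (P.cons (P.cons (P.lf 424248 0 0) (P.cons (P.lf 14787 0 0) P.nil)) (P.cons (P.cons (P.lf 64494 0 0) P.nil) P.nil)))))) 41913)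
 (EL.cons 8 (TM.mk (P.cons (P.cons (P.lf 300999990 0 0) (P.cons (P.lf 0 1278357 0) (P.cons (P.lf 0 551238 0) (P.lf 61248 0 0)))) (P.cons (P.cons (P.lf 393377295 0 0) (P.cons (P.lf 0 3292320 0) (P.cons (P.lf 0 1419684 0) (P.lf 157740 0 0)))) (P.cons (P.cons (P.lf 12895986 0 0) (P.cons (P.lf 0 2184255 0) (P.cons (P.lf 0 941874 0) (P.lf 104652 0 0)))) (P.cons (P.cons (P.lf 0 4820583 0) (P.cons (P.lf 0 65601 0) (P.cons (P.lf 0 28287 0) P.nil))) (P.cons (P.cons (P.lf 0 502224 0) (P.cons (P.lf 23202 0 0) P.nil)) (P.cons (P.cons (P.lf 561 0 0) P.nil) P.nil)))))) 30780)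
 (EL.cons 11 (TM.mk (P.cons (P.cons (P.lf 2678202 0 0) (P.cons (P.lf 2494995 0 0) (P.cons (P.lf 0 256065 0) (P.cons (P.lf 0 53253 0) (P.lf 4437 0 0))))) (P.cons (P.cons (P.lf 6915867 0 0) (P.cons (P.lf 6442770 0 0) (P.cons (P.lf 0 661236 0) (P.cons (P.lf 0 137517 0) (P.lf 11457 0 0))))) (P.cons (P.cons (P.lf 4635873 0 0) (P.cons (P.lf 4318746 0 0) (P.cons (P.lf 0 443241 0) (P.cons (P.lf 0 92181 0) P.nil)))) (P.cons (P.cons (P.lf 201963 0 0) (P.cons (P.lf 188145 0 0) (P.cons (P.lf 0 19308 0) P.nil))) (P.cons (P.cons (P.lf 0 23898 0) (P.cons (P.lf 0 22266 0) P.nil)) (P.cons (P.cons (P.lf 0 3270 0) P.nil) P.nil)))))) 22164)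
 EL.nil)))
noncomputable def S24_53_216_364_26 : EL := (EL.cons 4 (TM.mk (P.cons (P.cons (P.lf 17298699 0 0) (P.cons (P.lf 0 73131 0) (P.cons (P.lf 0 31533 0) (P.cons (P.lf 3498 0 0) (P.cons (P.lf 0 0 0) (P.cons (P.lf 0 0 0) P.nil)))))) (P.cons (P.cons (P.lf 44757123 0 0) (P.cons (P.lf 0 281118 0) (P.cons (P.lf 0 121230 0) (P.cons (P.lf 13452 0 0) (P.cons (P.lf 0 0 0) P.nil))))) (P.cons (P.cons (P.lf 29870679 0 0) (P.cons (P.lf 0 362904 0) (P.cons (P.lf 0 156519 0) (P.cons (P.lf 17355 0 0) P.nil)))) (P.cons (P.cons (P.lf 661491 0 0) (P.cons (P.lf 0 157821 0) (P.cons (P.lf 0 68115 0) P.nil))) (P.cons (P.cons (P.lf 0 727488 0) (P.cons (P.lf 3402 0 0) P.nil)) (P.cons (P.cons (P.lf 0 86346 0) P.nil) P.nil)))))) 50085)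
 (EL.cons 8 (TM.mk (P.cons (P.cons (P.lf 0 200564973 0) (P.cons (P.lf 847950 0 0) (P.cons (P.lf 365661 0 0) (P.cons (P.lf 0 40611 0) (P.cons (P.lf 0 0 0) (P.cons (P.lf 0 0 0) P.nil)))))) (P.cons (P.cons (P.lf 0 258593556 0) (P.cons (P.lf 2158788 0 0) (P.cons (P.lf 930999 0 0) (P.cons (P.lf 0 103341 0) (P.cons (P.lf 9 0 0) P.nil))))) (P.cons (P.cons (P.lf 0 1552998 0) (P.cons (P.lf 1366983 0 0) (P.cons (P.lf 589731 0 0) (P.cons (P.lf 0 65256 0) P.nil)))) (P.cons (P.cons (P.lf 6717360 0 0) (P.cons (P.lf 0 45231 0) (P.cons (P.lf 0 19137 0) P.nil))) (P.cons (P.cons (P.lf 611034 0 0) (P.cons (P.lf 0 49596 0) P.nil)) (P.cons (P.cons (P.lf 0 37782 0) P.nil) P.nil)))))) 58269)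
 (EL.cons 11 (TM.mk (P.cons (P.cons (P.lf 0 1784562 0) (P.cons (P.lf 0 1662519 0) (P.cons (P.lf 170577 0 0) (P.cons (P.lf 35475 0 0) (P.cons (P.lf 0 2952 0) (P.cons (P.lf 0 0 0) P.nil)))))) (P.cons (P.cons (P.lf 0 4576875 0) (P.cons (P.lf 0 4264005 0) (P.cons (P.lf 437298 0 0) (P.cons (P.lf 90951 0 0) (P.cons (P.lf 0 7560 0) P.nil))))) (P.cons (P.cons (P.lf 0 2986374 0) (P.cons (P.lf 0 2782665 0) (P.cons (P.lf 284739 0 0) (P.cons (P.lf 59232 0 0) P.nil)))) (P.cons (P.cons (P.lf 0 22827 0) (P.cons (P.lf 0 22038 0) (P.cons (P.lf 1125 0 0) P.nil))) (P.cons (P.cons (P.lf 59778 0 0) (P.cons (P.lf 55146 0 0) P.nil)) (P.cons (P.cons (P.lf 6225 0 0) P.nil) P.nil)))))) 30669)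
 EL.nil)))
noncomputable def S24_53_216_364_27 : EL := (EL.cons 13 (TM.mk (P.lf 0 4294967296 0) 0)
 EL.nil)
noncomputable def S24_53_216_364_28 : EL := (EL.cons 13 (TM.mk (P.cons (P.cons (P.lf 2861860586 0 0) (P.cons (P.lf 55004 0 0) (P.cons (P.lf 23716 0 0) (P.lf 0 2632 0)))) (P.cons (P.cons (P.lf 0 50299350 0) (P.cons (P.lf 213620 0 0) (P.cons (P.lf 92116 0 0) (P.lf 0 10232 0)))) (P.cons (P.cons (P.lf 0 34717021 0) (P.cons (P.lf 282936 0 0) (P.cons (P.lf 122004 0 0) (P.lf 0 13556 0)))) (P.cons (P.cons (P.lf 0 2489904 0) (P.cons (P.lf 135832 0 0) (P.cons (P.lf 58572 0 0) P.nil))) (P.cons (P.cons (P.lf 0 7897 0) (P.cons (P.lf 10816 0 0) P.nil)) (P.cons (P.cons (P.lf 10861 0 0) P.nil) P.nil)))))) 14186)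
 EL.nil)
noncomputable def S24_53_216_364_29 : EL := (EL.cons 13 (TM.mk (P.cons (P.cons (P.lf 0 1906940251 0) (P.cons (P.lf 0 73301 0) (P.cons (P.lf 0 31606 0) (P.cons (P.lf 3506 0 0) (P.cons (P.lf 0 0 0) (P.cons (P.lf 0 0 0) P.nil)))))) (P.cons (P.cons (P.lf 67031815 0 0) (P.cons (P.lf 0 283394 0) (P.cons (P.lf 0 122209 0) (P.cons (P.lf 13569 0 0) (P.cons (P.lf 0 0 0) P.nil))))) (P.cons (P.cons (P.lf 45676837 0 0) (P.cons (P.lf 0 371164 0) (P.cons (P.lf 0 160066 0) (P.cons (P.lf 17767 0 0) P.nil)))) (P.cons (P.cons (P.lf 2505031 0 0) (P.cons (P.lf 0 170873 0) (P.cons (P.lf 0 73713 0) P.nil))) (P.cons (P.cons (P.lf 0 328419 0) (P.cons (P.lf 0 6410 0) P.nil)) (P.cons (P.cons (P.lf 0 54911 0) P.nil) P.nil)))))) 30170)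
 EL.nil)
noncomputable def S24_53_216_364_30 : EL := (EL.cons 13 (TM.mk (P.cons (P.lf 3836465176 0 0) (P.cons (P.lf 0 13136460 0) (P.cons (P.lf 0 8918380 0) (P.cons (P.lf 0 536324 0) (P.cons (P.lf 0 15116 0) (P.cons (P.lf 172 0 0) P.nil)))))) 376)
 EL.nil)
noncomputable def S24_53_216_364_31 : EL := (EL.cons 13 (TM.mk (P.cons (P.cons (P.lf 0 2556347399 0) (P.cons (P.lf 0 49132 0) (P.cons (P.lf 0 21184 0) (P.lf 2351 0 0)))) (P.cons (P.cons (P.lf 53682928 0 0) (P.cons (P.lf 0 190647 0) (P.cons (P.lf 0 82209 0) (P.lf 9131 0 0)))) (P.cons (P.cons (P.lf 36799592 0 0) (P.cons (P.lf 0 251964 0) (P.cons (P.lf 0 108648 0) (P.lf 12072 0 0)))) (P.cons (P.cons (P.lf 2370836 0 0) (P.cons (P.lf 0 120015 0) (P.cons (P.lf 0 51751 0) P.nil))) (P.cons (P.cons (P.lf 0 68859 0) (P.cons (P.lf 0 8631 0) P.nil)) (P.cons (P.cons (P.lf 0 19522 0) P.nil) P.nil)))))) 14620)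
 EL.nil)
noncomputable def S24_53_216_364_32 : EL := (EL.cons 13 (TM.mk (P.cons (P.cons (P.lf 1703368002 0 0) (P.cons (P.lf 65475 0 0) (P.cons (P.lf 28231 0 0) (P.cons (P.lf 0 3131 0) (P.cons (P.lf 0 0 0) (P.cons (P.lf 0 0 0) P.nil)))))) (P.cons (P.cons (P.lf 0 65708455 0) (P.cons (P.lf 252916 0 0) (P.cons (P.lf 109066 0 0) (P.cons (P.lf 0 12109 0) (P.cons (P.lf 0 0 0) P.nil))))) (P.cons (P.cons (P.lf 0 44555368 0) (P.cons (P.lf 330522 0 0) (P.cons (P.lf 142539 0 0) (P.cons (P.lf 0 15821 0) P.nil)))) (P.cons (P.cons (P.lf 0 2196839 0) (P.cons (P.lf 150898 0 0) (P.cons (P.lf 65096 0 0) P.nil))) (P.cons (P.cons (P.lf 397526 0 0) (P.cons (P.lf 4396 0 0) P.nil)) (P.cons (P.cons (P.lf 59262 0 0) P.nil) P.nil)))))) 30147)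
 EL.nil)
noncomputable def S24_53_216_364_33 : EL := (EL.cons 14 (TM.mk (P.lf 8589934592 0 0) 0)
 EL.nil)
noncomputable def S24_53_216_364_34 : EL := (EL.cons 14 (TM.mk (P.cons (P.cons (P.lf 0 5723721172 0) (P.cons (P.lf 0 110008 0) (P.cons (P.lf 0 47432 0) (P.lf 5264 0 0)))) (P.cons (P.cons (P.lf 100598700 0 0) (P.cons (P.lf 0 427240 0) (P.cons (P.lf 0 184232 0) (P.lf 20464 0 0)))) (P.cons (P.cons (P.lf 69434042 0 0) (P.cons (P.lf 0 565872 0) (P.cons (P.lf 0 244008 0) (P.lf 27112 0 0)))) (P.cons (P.cons (P.lf 4979808 0 0) (P.cons (P.lf 0 271664 0) (P.cons (P.lf 0 117144 0) P.nil))) (P.cons (P.cons (P.lf 15794 0 0) (P.cons (P.lf 0 21632 0) P.nil)) (P.cons (P.cons (P.lf 0 21722 0) P.nil) P.nil)))))) 28372)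
 EL.nil)
noncomputable def S24_53_216_364_35 : EL := (EL.cons 14 (TM.mk (P.cons (P.cons (P.lf 3813880502 0 0) (P.cons (P.lf 146602 0 0) (P.cons (P.lf 63212 0 0) (P.cons (P.lf 0 7012 0) (P.cons (P.lf 0 0 0) (P.cons (P.lf 0 0 0) P.nil)))))) (P.cons (P.cons (P.lf 0 134063630 0) (P.cons (P.lf 566788 0 0) (P.cons (P.lf 244418 0 0) (P.cons (P.lf 0 27138 0) (P.cons (P.lf 0 0 0) P.nil))))) (P.cons (P.cons (P.lf 0 91353674 0) (P.cons (P.lf 742328 0 0) (P.cons (P.lf 320132 0 0) (P.cons (P.lf 0 35534 0) P.nil)))) (P.cons (P.cons (P.lf 0 5010062 0) (P.cons (P.lf 341746 0 0) (P.cons (P.lf 147426 0 0) P.nil))) (P.cons (P.cons (P.lf 656838 0 0) (P.cons (P.lf 12820 0 0) P.nil)) (P.cons (P.cons (P.lf 109822 0 0) P.nil) P.nil)))))) 60340)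
 EL.nil)
noncomputable def S24_53_216_364_36 : EL := (EL.cons 14 (TM.mk (P.cons (P.lf 0 7672930352 0) (P.cons (P.lf 26272920 0 0) (P.cons (P.lf 17836760 0 0) (P.cons (P.lf 1072648 0 0) (P.cons (P.lf 30232 0 0) (P.cons (P.lf 0 344 0) P.nil)))))) 752)
 EL.nil)
noncomputable def S24_53_216_364_37 : EL := (EL.cons 14 (TM.mk (P.cons (P.cons (P.lf 5112694798 0 0) (P.cons (P.lf 98264 0 0) (P.cons (P.lf 42368 0 0) (P.lf 0 4702 0)))) (P.cons (P.cons (P.lf 0 107365856 0) (P.cons (P.lf 381294 0 0) (P.cons (P.lf 164418 0 0) (P.lf 0 18262 0)))) (P.cons (P.cons (P.lf 0 73599184 0) (P.cons (P.lf 503928 0 0) (P.cons (P.lf 217296 0 0) (P.lf 0 24144 0)))) (P.cons (P.cons (P.lf 0 4741672 0) (P.cons (P.lf 240030 0 0) (P.cons (P.lf 103502 0 0) P.nil))) (P.cons (P.cons (P.lf 137718 0 0) (P.cons (P.lf 17262 0 0) P.nil)) (P.cons (P.cons (P.lf 39044 0 0) P.nil) P.nil)))))) 29240)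
 EL.nil)
noncomputable def S24_53_216_364_38 : EL := (EL.cons 14 (TM.mk (P.cons (P.cons (P.lf 0 3406736004 0) (P.cons (P.lf 0 130950 0) (P.cons (P.lf 0 56462 0) (P.cons (P.lf 6262 0 0) (P.cons (P.lf 0 0 0) (P.cons (P.lf 0 0 0) P.nil)))))) (P.cons (P.cons (P.lf 131416910 0 0) (P.cons (P.lf 0 505832 0) (P.cons (P.lf 0 218132 0) (P.cons (P.lf 24218 0 0) (P.cons (P.lf 0 0 0) P.nil))))) (P.cons (P.cons (P.lf 89110736 0 0) (P.cons (P.lf 0 661044 0) (P.cons (P.lf 0 285078 0) (P.cons (P.lf 31642 0 0) P.nil)))) (P.cons (P.cons (P.lf 4393678 0 0) (P.cons (P.lf 0 301796 0) (P.cons (P.lf 0 130192 0) P.nil))) (P.cons (P.cons (P.lf 0 795052 0) (P.cons (P.lf 0 8792 0) P.nil)) (P.cons (P.cons (P.lf 0 118524 0) P.nil) P.nil)))))) 60294)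
 EL.nil)
noncomputable def S24_53_216_364_39 : EL := (EL.cons 14 (TM.mk (P.cons (P.lf 6853819380 0 0) (P.cons (P.lf 0 46936394 0) (P.cons (P.lf 0 31784894 0) (P.cons (P.lf 0 1807168 0) (P.cons (P.lf 0 10410 0) (P.cons (P.lf 5254 0 0) P.nil)))))) 1636)
 EL.nil)
noncomputable def S24_53_216_364_40 : EL := (EL.cons 14 (TM.mk (P.cons (P.cons (P.lf 0 4566897532 0) (P.cons (P.lf 0 87774 0) (P.cons (P.lf 0 37844 0) (P.lf 4200 0 0)))) (P.cons (P.cons (P.lf 111541728 0 0) (P.cons (P.lf 0 340288 0) (P.cons (P.lf 0 146736 0) (P.lf 16298 0 0)))) (P.cons (P.cons (P.lf 76030206 0 0) (P.cons (P.lf 0 448760 0) (P.cons (P.lf 0 193508 0) (P.lf 21500 0 0)))) (P.cons (P.cons (P.lf 4425868 0 0) (P.cons (P.lf 0 212060 0) (P.cons (P.lf 0 91442 0) P.nil))) (P.cons (P.cons (P.lf 0 285758 0) (P.cons (P.lf 0 13590 0) P.nil)) (P.cons (P.cons (P.lf 0 54074 0) P.nil) P.nil)))))) 29390)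
 EL.nil)
noncomputable def S24_53_216_364_41 : EL := (EL.cons 14 (TM.mk (P.cons (P.cons (P.lf 3043055544 0 0) (P.cons (P.lf 116972 0 0) (P.cons (P.lf 50436 0 0) (P.cons (P.lf 0 5594 0) (P.cons (P.lf 0 0 0) (P.cons (P.lf 0 0 0) P.nil)))))) (P.cons (P.cons (P.lf 0 127807456 0) (P.cons (P.lf 451432 0 0) (P.cons (P.lf 194672 0 0) (P.cons (P.lf 0 21614 0) (P.cons (P.lf 0 0 0) P.nil))))) (P.cons (P.cons (P.lf 0 86269912 0) (P.cons (P.lf 588656 0 0) (P.cons (P.lf 253860 0 0) (P.cons (P.lf 0 28176 0) P.nil)))) (P.cons (P.cons (P.lf 0 3804612 0) (P.cons (P.lf 266490 0 0) (P.cons (P.lf 114962 0 0) P.nil))) (P.cons (P.cons (P.lf 913072 0 0) (P.cons (P.lf 5494 0 0) P.nil)) (P.cons (P.cons (P.lf 124288 0 0) P.nil) P.nil)))))) 59180)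
 EL.nil)
noncomputable def S24_53_216_364_42 : EL := (EL.cons 14 (TM.mk (P.cons (P.lf 0 6122151242 0) (P.cons (P.lf 62888666 0 0) (P.cons (P.lf 42479956 0 0) (P.cons (P.lf 2275422 0 0) (P.cons (P.lf 0 43968 0) (P.cons (P.lf 0 12886 0) P.nil)))))) 2488)
 EL.nil)
noncomputable def S24_53_216_364_43 : EL := (EL.cons 14 (TM.mk (P.cons (P.cons (P.lf 4079365948 0 0) (P.cons (P.lf 78404 0 0) (P.cons (P.lf 33804 0 0) (P.lf 0 3750 0)))) (P.cons (P.cons (P.lf 0 113602452 0) (P.cons (P.lf 303692 0 0) (P.cons (P.lf 130956 0 0) (P.lf 0 14546 0)))) (P.cons (P.cons (P.lf 0 77055604 0) (P.cons (P.lf 399630 0 0) (P.cons (P.lf 172324 0 0) (P.lf 0 19146 0)))) (P.cons (P.cons (P.lf 0 4059514 0) (P.cons (P.lf 187332 0 0) (P.cons (P.lf 80778 0 0) P.nil))) (P.cons (P.cons (P.lf 424520 0 0) (P.cons (P.lf 10516 0 0) P.nil)) (P.cons (P.cons (P.lf 66686 0 0) P.nil) P.nil)))))) 29726)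
 EL.nil)
noncomputable def S24_53_216_364_44 : EL := (EL.cons 14 (TM.mk (P.cons (P.cons (P.lf 0 2718199190 0) (P.cons (P.lf 0 104484 0) (P.cons (P.lf 0 45050 0) (P.cons (P.lf 4996 0 0) (P.cons (P.lf 0 0 0) (P.cons (P.lf 0 0 0) P.nil)))))) (P.cons (P.cons (P.lf 123470982 0 0) (P.cons (P.lf 0 402882 0) (P.cons (P.lf 0 173736 0) (P.cons (P.lf 19290 0 0) (P.cons (P.lf 0 0 0) P.nil))))) (P.cons (P.cons (P.lf 82988222 0 0) (P.cons (P.lf 0 524190 0) (P.cons (P.lf 0 226058 0) (P.cons (P.lf 25092 0 0) P.nil)))) (P.cons (P.cons (P.lf 3249200 0 0) (P.cons (P.lf 0 235290 0) (P.cons (P.lf 0 101502 0) P.nil))) (P.cons (P.cons (P.lf 0 1011622 0) (P.cons (P.lf 0 2814 0) P.nil)) (P.cons (P.cons (P.lf 0 127472 0) P.nil) P.nil)))))) 58270)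
 EL.nil)
noncomputable def S24_53_216_364_45 : EL := (EL.cons 14 (TM.mk (P.cons (P.cons (P.lf 0 2541298578 0) (P.cons (P.lf 0 146528 0) (P.cons (P.lf 0 63180 0) (P.cons (P.lf 7006 0 0) (P.cons (P.lf 0 0 0) (P.cons (P.lf 0 0 0) P.nil)))))) (P.cons (P.cons (P.lf 133995694 0 0) (P.cons (P.lf 0 563924 0) (P.cons (P.lf 0 243194 0) (P.cons (P.lf 26990 0 0) (P.cons (P.lf 0 0 0) P.nil))))) (P.cons (P.cons (P.lf 90129844 0 0) (P.cons (P.lf 0 730216 0) (P.cons (P.lf 0 314944 0) (P.cons (P.lf 34924 0 0) P.nil)))) (P.cons (P.cons (P.lf 3395828 0 0) (P.cons (P.lf 0 321532 0) (P.cons (P.lf 0 138772 0) P.nil))) (P.cons (P.cons (P.lf 0 1305480 0) (P.cons (P.lf 2682 0 0) P.nil)) (P.cons (P.cons (P.lf 0 168832 0) P.nil) P.nil)))))) 88506)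
 EL.nil)
noncomputable def S24_53_216_364_46 : EL := (EL.cons 15 (TM.mk (P.lf 4294967296 0 0) 0)
 EL.nil)
noncomputable def S24_53_216_364_47 : EL := (EL.cons 15 (TM.mk (P.cons (P.cons (P.lf 0 2861860586 0) (P.cons (P.lf 0 55004 0) (P.cons (P.lf 0 23716 0) (P.lf 2632 0 0)))) (P.cons (P.cons (P.lf 50299350 0 0) (P.cons (P.lf 0 213620 0) (P.cons (P.lf 0 92116 0) (P.lf 10232 0 0)))) (P.cons (P.cons (P.lf 34717021 0 0) (P.cons (P.lf 0 282936 0) (P.cons (P.lf 0 122004 0) (P.lf 13556 0 0)))) (P.cons (P.cons (P.lf 2489904 0 0) (P.cons (P.lf 0 135832 0) (P.cons (P.lf 0 58572 0) P.nil))) (P.cons (P.cons (P.lf 7897 0 0) (P.cons (P.lf 0 10816 0) P.nil)) (P.cons (P.cons (P.lf 0 10861 0) P.nil) P.nil)))))) 14186)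
 EL.nil)
noncomputable def S24_53_216_364_48 : EL := (EL.cons 15 (TM.mk (P.cons (P.cons (P.lf 1906940251 0 0) (P.cons (P.lf 73301 0 0) (P.cons (P.lf 31606 0 0) (P.cons (P.lf 0 3506 0) (P.cons (P.lf 0 0 0) (P.cons (P.lf 0 0 0) P.nil)))))) (P.cons (P.cons (P.lf 0 67031815 0) (P.cons (P.lf 283394 0 0) (P.cons (P.lf 122209 0 0) (P.cons (P.lf 0 13569 0) (P.cons (P.lf 0 0 0) P.nil))))) (P.cons (P.cons (P.lf 0 45676837 0) (P.cons (P.lf 371164 0 0) (P.cons (P.lf 160066 0 0) (P.cons (P.lf 0 17767 0) P.nil)))) (P.cons (P.cons (P.lf 0 2505031 0) (P.cons (P.lf 170873 0 0) (P.cons (P.lf 73713 0 0) P.nil))) (P.cons (P.cons (P.lf 328419 0 0) (P.cons (P.lf 6410 0 0) P.nil)) (P.cons (P.cons (P.lf 54911 0 0) P.nil) P.nil)))))) 30170)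
 EL.nil)
noncomputable def S24_53_216_364 : SL := (SL.cons S24_53_216_364_0 (SL.cons S24_53_216_364_1 (SL.cons S24_53_216_364_2 (SL.cons S24_53_216_364_3 (SL.cons S24_53_216_364_4 (SL.cons S24_53_216_364_5 (SL.cons S24_53_216_364_6 (SL.cons S24_53_216_364_7 (SL.cons S24_53_216_364_8 (SL.cons S24_53_216_364_9 (SL.cons S24_53_216_364_10 (SL.cons S24_53_216_364_11 (SL.cons S24_53_216_364_12 (SL.cons S24_53_216_364_13 (SL.cons S24_53_216_364_14 (SL.cons S24_53_216_364_15 (SL.cons S24_53_216_364_16 (SL.cons S24_53_216_364_17 (SL.cons S24_53_216_364_18 (SL.cons S24_53_216_364_19 (SL.cons S24_53_216_364_20 (SL.cons S24_53_216_364_21 (SL.cons S24_53_216_364_22 (SL.cons S24_53_216_364_23 (SL.cons S24_53_216_364_24 (SL.cons S24_53_216_364_25 (SL.cons S24_53_216_364_26 (SL.cons S24_53_216_364_27 (SL.cons S24_53_216_364_28 (SL.cons S24_53_216_364_29 (SL.cons S24_53_216_364_30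 (SL.cons S24_53_216_364_31 (SL.cons S24_53_216_364_32 (SL.cons S24_53_216_364_33 (SL.cons S24_53_216_364_34 (SL.cons S24_53_216_364_35 (SL.cons S24_53_216_364_36 (SL.cons S24_53_216_364_37 (SL.cons S24_53_216_364_38 (SL.cons S24_53_216_364_39 (SL.cons S24_53_216_364_40 (SL.cons S24_53_216_364_41 (SL.cons S24_53_216_364_42 (SL.cons S24_53_216_364_43 (SL.cons S24_53_216_364_44 (SL.cons S24_53_216_364_45 (SL.cons S24_53_216_364_46 (SL.cons S24_53_216_364_47 (SL.cons S24_53_216_364_48 SL.nil)))))))))))))))))))))))))))))))))))))))))))))))))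
noncomputable def S24_53_364_512_0 : EL := (EL.cons 0 (TM.mk (P.cons (P.lf 2431852174 0 0) (P.cons (P.lf 41252690 0 0) (P.cons (P.lf 27935941 0 0) (P.cons (P.lf 1588331 0 0) (P.cons (P.lf 9149 0 0) (P.cons (P.lf 0 4617 0) P.nil)))))) 1444)
 (EL.cons 1 (TM.mk (P.cons (P.lf 0 184731487 0) (P.cons (P.lf 0 238513991 0) (P.cons (P.lf 0 5904390 0) (P.cons (P.lf 658029 0 0) (P.cons (P.lf 68962 0 0) (P.cons (P.lf 2799 0 0) P.nil)))))) 432)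
 (EL.cons 5 (TM.mk (P.cons (P.lf 6436785858 0 0) (P.cons (P.lf 0 14667624 0) (P.cons (P.lf 0 9932778 0) (P.cons (P.lf 0 564744 0) (P.cons (P.lf 0 3254 0) (P.cons (P.lf 1644 0 0) P.nil)))))) 189)
 (EL.cons 9 (TM.mk (P.lf 6442450944 0 0) 2)
 EL.nil))))
noncomputable def S24_53_364_512_1 : EL := (EL.cons 0 (TM.mk (P.cons (P.cons (P.lf 0 1674238704 0) (P.cons (P.lf 430598 0 0) (P.cons (P.lf 28773 0 0) (P.lf 0 9579 0)))) (P.cons (P.cons (P.lf 0 138554877 0) (P.cons (P.lf 1667815 0 0) (P.cons (P.lf 111497 0 0) (P.lf 0 37149 0)))) (P.cons (P.cons (P.lf 0 92932395 0) (P.cons (P.lf 2194280 0 0) (P.cons (P.lf 146697 0 0) (P.lf 0 48896 0)))) (P.cons (P.cons (P.lf 0 3626050 0) (P.cons (P.lf 1027874 0 0) (P.cons (P.lf 68709 0 0) P.nil))) (P.cons (P.cons (P.lf 976840 0 0) (P.cons (P.lf 56951 0 0) P.nil)) (P.cons (P.cons (P.lf 122702 0 0) P.nil) P.nil)))))) 112214)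
 (EL.cons 1 (TM.mk (P.cons (P.cons (P.lf 433704951 0 0) (P.cons (P.lf 0 2871780 0) (P.cons (P.lf 0 192003 0) (P.lf 64002 0 0)))) (P.cons (P.cons (P.lf 555989486 0 0) (P.cons (P.lf 0 7372891 0) (P.cons (P.lf 0 492935 0) (P.lf 164313 0 0)))) (P.cons (P.cons (P.lf 3457841 0 0) (P.cons (P.lf 0 4831173 0) (P.cons (P.lf 0 323000 0) (P.lf 107669 0 0)))) (P.cons (P.cons (P.lf 0 8788549 0) (P.cons (P.lf 0 65328 0) (P.cons (P.lf 0 4368 0) P.nil))) (P.cons (P.cons (P.lf 0 728706 0) (P.cons (P.lf 84092 0 0) P.nil)) (P.cons (P.cons (P.lf 12646 0 0) P.nil) P.nil)))))) 38852)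
 (EL.cons 5 (TM.mk (P.cons (P.cons (P.lf 0 4270190605 0) (P.cons (P.lf 0 354134 0) (P.cons (P.lf 0 23672 0) (P.lf 7888 0 0)))) (P.cons (P.cons (P.lf 133559343 0 0) (P.cons (P.lf 0 1373760 0) (P.cons (P.lf 0 91842 0) (P.lf 30608 0 0)))) (P.cons (P.cons (P.lf 90454299 0 0) (P.cons (P.lf 0 1814276 0) (P.cons (P.lf 0 121294 0) (P.lf 40430 0 0)))) (P.cons (P.cons (P.lf 4750496 0 0) (P.cons (P.lf 0 861912 0) (P.cons (P.lf 0 57622 0) P.nil))) (P.cons (P.cons (P.lf 0 395354 0) (P.cons (P.lf 0 59792 0) P.nil)) (P.cons (P.cons (P.lf 0 63211 0) P.nil) P.nil)))))) 37008)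
 (EL.cons 9 (TM.mk (P.cons (P.cons (P.lf 0 4293066585 0) (P.cons (P.lf 0 177378 0) (P.cons (P.lf 0 11856 0) (P.lf 3948 0 0)))) (P.cons (P.cons (P.lf 74378277 0 0) (P.cons (P.lf 0 688896 0) (P.cons (P.lf 0 46056 0) (P.lf 15348 0 0)))) (P.cons (P.cons (P.lf 50657353 0 0) (P.cons (P.lf 0 912426 0) (P.cons (P.lf 0 61002 0) (P.lf 20334 0 0)))) (P.cons (P.cons (P.lf 3054018 0 0) (P.cons (P.lf 0 438036 0) (P.cons (P.lf 0 29286 0) P.nil))) (P.cons (P.cons (P.lf 0 42382 0) (P.cons (P.lf 0 34884 0) P.nil)) (P.cons (P.cons (P.lf 0 17275 0) P.nil) P.nil)))))) 16846)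
 (EL.cons 2 (TM.mk (P.cons (P.cons (P.lf 6600453 0 0) (P.cons (P.lf 1021913 0 0) (P.cons (P.lf 0 492325 0) (P.cons (P.lf 0 18630 0) (P.lf 4657 0 0))))) (P.cons (P.cons (P.lf 17066818 0 0) (P.cons (P.lf 2642369 0 0) (P.cons (P.lf 0 1273007 0) (P.cons (P.lf 0 48172 0) (P.lf 12040 0 0))))) (P.cons (P.cons (P.lf 11498931 0 0) (P.cons (P.lf 1780320 0 0) (P.cons (P.lf 0 857700 0) (P.cons (P.lf 0 32453 0) P.nil)))) (P.cons (P.cons (P.lf 577710 0 0) (P.cons (P.lf 89443 0 0) (P.cons (P.lf 0 43087 0) P.nil))) (P.cons (P.cons (P.lf 0 27779 0) (P.cons (P.lf 0 4300 0) P.nil)) (P.cons (P.cons (P.lf 0 5141 0) P.nil) P.nil)))))) 15408)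
 (EL.cons 6 (TM.mk (P.cons (P.cons (P.lf 202413 0 0) (P.cons (P.lf 31338 0 0) (P.cons (P.lf 0 15096 0) (P.cons (P.lf 0 570 0) (P.lf 141 0 0))))) (P.cons (P.cons (P.lf 786111 0 0) (P.cons (P.lf 121707 0 0) (P.cons (P.lf 0 58635 0) (P.cons (P.lf 0 2217 0) (P.lf 552 0 0))))) (P.cons (P.cons (P.lf 1041183 0 0) (P.cons (P.lf 161199 0 0) (P.cons (P.lf 0 77661 0) (P.cons (P.lf 0 2937 0) P.nil)))) (P.cons (P.cons (P.lf 499851 0 0) (P.cons (P.lf 77388 0 0) (P.cons (P.lf 0 37281 0) P.nil))) (P.cons (P.cons (P.lf 39810 0 0) (P.cons (P.lf 6162 0 0) P.nil)) (P.cons (P.cons (P.lf 720 0 0) P.nil) P.nil)))))) 6150)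
 EL.nil))))))
noncomputable def S24_53_364_512_2 : EL := (EL.cons 0 (TM.mk (P.cons (P.cons (P.lf 1151463589 0 0) (P.cons (P.lf 0 570914 0) (P.cons (P.lf 0 38178 0) (P.cons (P.lf 12695 0 0) (P.cons (P.lf 0 0 0) (P.cons (P.lf 0 0 0) P.nil)))))) (P.cons (P.cons (P.lf 165099340 0 0) (P.cons (P.lf 0 2193669 0) (P.cons (P.lf 0 146849 0) (P.cons (P.lf 48834 0 0) (P.cons (P.lf 0 1 0) P.nil))))) (P.cons (P.cons (P.lf 107716569 0 0) (P.cons (P.lf 0 2828984 0) (P.cons (P.lf 0 189775 0) (P.cons (P.lf 62949 0 0) P.nil)))) (P.cons (P.cons (P.lf 166734 0 0) (P.cons (P.lf 0 1225552 0) (P.cons (P.lf 0 83063 0) P.nil))) (P.cons (P.cons (P.lf 0 2826711 0) (P.cons (P.lf 30903 0 0) P.nil)) (P.cons (P.cons (P.lf 0 273918 0) P.nil) P.nil)))))) 277196)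
 (EL.cons 1 (TM.mk (P.cons (P.cons (P.lf 0 495987126 0) (P.cons (P.lf 3810237 0 0) (P.cons (P.lf 254909 0 0) (P.cons (P.lf 0 84897 0) (P.cons (P.lf 0 5 0) (P.cons (P.lf 0 0 0) P.nil)))))) (P.cons (P.cons (P.lf 0 627906946 0) (P.cons (P.lf 9671452 0 0) (P.cons (P.lf 647638 0 0) (P.cons (P.lf 0 215402 0) (P.cons (P.lf 0 39 0) P.nil))))) (P.cons (P.cons (P.lf 12090582 0 0) (P.cons (P.lf 6049751 0 0) (P.cons (P.lf 407136 0 0) (P.cons (P.lf 0 134472 0) P.nil)))) (P.cons (P.cons (P.lf 18013543 0 0) (P.cons (P.lf 0 298910 0) (P.cons (P.lf 0 16447 0) P.nil))) (P.cons (P.cons (P.lf 1170145 0 0) (P.cons (P.lf 0 253828 0) P.nil)) (P.cons (P.cons (P.lf 0 152824 0) P.nil) P.nil)))))) 118375)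
 (EL.cons 5 (TM.mk (P.cons (P.cons (P.lf 2832805589 0 0) (P.cons (P.lf 470912 0 0) (P.cons (P.lf 31489 0 0) (P.cons (P.lf 0 10476 0) (P.cons (P.lf 0 0 0) (P.cons (P.lf 0 0 0) P.nil)))))) (P.cons (P.cons (P.lf 0 171046095 0) (P.cons (P.lf 1815877 0 0) (P.cons (P.lf 121512 0 0) (P.cons (P.lf 0 40442 0) (P.cons (P.lf 0 1 0) P.nil))))) (P.cons (P.cons (P.lf 0 113841051 0) (P.cons (P.lf 2362839 0 0) (P.cons (P.lf 158335 0 0) (P.cons (P.lf 0 52605 0) P.nil)))) (P.cons (P.cons (P.lf 0 3346585 0) (P.cons (P.lf 1061039 0 0) (P.cons (P.lf 71583 0 0) P.nil))) (P.cons (P.cons (P.lf 1600418 0 0) (P.cons (P.lf 13256 0 0) P.nil)) (P.cons (P.cons (P.lf 176808 0 0) P.nil) P.nil)))))) 89868)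
 (EL.cons 9 (TM.mk (P.cons (P.cons (P.lf 2860777809 0 0) (P.cons (P.lf 236398 0 0) (P.cons (P.lf 15805 0 0) (P.cons (P.lf 0 5260 0) (P.cons (P.lf 0 0 0) (P.cons (P.lf 0 0 0) P.nil)))))) (P.cons (P.cons (P.lf 0 99127147 0) (P.cons (P.lf 914025 0 0) (P.cons (P.lf 61144 0 0) (P.cons (P.lf 0 20358 0) (P.cons (P.lf 0 1 0) P.nil))))) (P.cons (P.cons (P.lf 0 66654547 0) (P.cons (P.lf 1197333 0 0) (P.cons (P.lf 80173 0 0) (P.cons (P.lf 0 26665 0) P.nil)))) (P.cons (P.cons (P.lf 0 2900539 0) (P.cons (P.lf 551719 0 0) (P.cons (P.lf 37105 0 0) P.nil))) (P.cons (P.cons (P.lf 525324 0 0) (P.cons (P.lf 21376 0 0) P.nil)) (P.cons (P.cons (P.lf 70072 0 0) P.nil) P.nil)))))) 39410)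
 (EL.cons 2 (TM.mk (P.cons (P.cons (P.lf 0 8796712 0) (P.cons (P.lf 0 1362313 0) (P.cons (P.lf 656060 0 0) (P.cons (P.lf 24856 0 0) (P.cons (P.lf 0 6198 0) (P.cons (P.lf 0 0 0) P.nil)))))) (P.cons (P.cons (P.lf 0 22593279 0) (P.cons (P.lf 0 3500353 0) (P.cons (P.lf 1684704 0 0) (P.cons (P.lf 63973 0 0) (P.cons (P.lf 0 15913 0) P.nil))))) (P.cons (P.cons (P.lf 0 14827252 0) (P.cons (P.lf 0 2301778 0) (P.cons (P.lf 1104592 0 0) (P.cons (P.lf 42378 0 0) P.nil)))) (P.cons (P.cons (P.lf 0 229775 0) (P.cons (P.lf 0 43796 0) (P.cons (P.lf 15311 0 0) P.nil))) (P.cons (P.cons (P.lf 247286 0 0) (P.cons (P.lf 32512 0 0) P.nil)) (P.cons (P.cons (P.lf 25936 0 0) P.nil) P.nil)))))) 52109)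
 (EL.cons 6 (TM.mk (P.cons (P.cons (P.lf 0 269760 0) (P.cons (P.lf 0 41772 0) (P.cons (P.lf 20118 0 0) (P.cons (P.lf 762 0 0) (P.cons (P.lf 0 186 0) (P.cons (P.lf 0 0 0) P.nil)))))) (P.cons (P.cons (P.lf 0 1043010 0) (P.cons (P.lf 0 161568 0) (P.cons (P.lf 77778 0 0) (P.cons (P.lf 2946 0 0) (P.cons (P.lf 0 732 0) P.nil))))) (P.cons (P.cons (P.lf 0 1366290 0) (P.cons (P.lf 0 211818 0) (P.cons (P.lf 101844 0 0) (P.cons (P.lf 3876 0 0) P.nil)))) (P.cons (P.cons (P.lf 0 629574 0) (P.cons (P.lf 0 97974 0) (P.cons (P.lf 46848 0 0) P.nil))) (P.cons (P.cons (P.lf 0 24402 0) (P.cons (P.lf 0 4290 0) P.nil)) (P.cons (P.cons (P.lf 8790 0 0) P.nil) P.nil)))))) 10740)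
 EL.nil))))))
noncomputable def S24_53_364_512_3 : EL := (EL.cons 0 (TM.mk (P.cons (P.lf 6023864689 0 0) (P.cons (P.lf 0 41252690 0) (P.cons (P.lf 0 27935941 0) (P.cons (P.lf 0 1588331 0) (P.cons (P.lf 0 9149 0) (P.cons (P.lf 4617 0 0) P.nil)))))) 1444)
 (EL.cons 1 (TM.mk (P.cons (P.lf 184731487 0 0) (P.cons (P.lf 238513991 0 0) (P.cons (P.lf 5904390 0 0) (P.cons (P.lf 0 658029 0) (P.cons (P.lf 0 68962 0) (P.cons (P.lf 0 2799 0) P.nil)))))) 432)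
 (EL.cons 5 (TM.mk (P.cons (P.lf 5665086 0 0) (P.cons (P.lf 14667624 0 0) (P.cons (P.lf 9932778 0 0) (P.cons (P.lf 564744 0 0) (P.cons (P.lf 3254 0 0) (P.cons (P.lf 0 1644 0) P.nil)))))) 182)
 EL.nil)))
noncomputable def S24_53_364_512_4 : EL := (EL.cons 0 (TM.mk (P.cons (P.cons (P.lf 0 4014132575 0) (P.cons (P.lf 0 165853 0) (P.cons (P.lf 0 11084 0) (P.lf 3691 0 0)))) (P.cons (P.cons (P.lf 97035308 0 0) (P.cons (P.lf 0 642999 0) (P.cons (P.lf 0 42987 0) (P.lf 14324 0 0)))) (P.cons (P.cons (P.lf 65505441 0 0) (P.cons (P.lf 0 847961 0) (P.cons (P.lf 0 56691 0) (P.lf 18896 0 0)))) (P.cons (P.cons (P.lf 3267114 0 0) (P.cons (P.lf 0 400700 0) (P.cons (P.lf 0 26789 0) P.nil))) (P.cons (P.cons (P.lf 0 291086 0) (P.cons (P.lf 0 25685 0) P.nil)) (P.cons (P.cons (P.lf 0 44796 0) P.nil) P.nil)))))) 21791)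
 (EL.cons 1 (TM.mk (P.cons (P.cons (P.lf 0 123099823 0) (P.cons (P.lf 0 5085 0) (P.cons (P.lf 0 339 0) (P.lf 112 0 0)))) (P.cons (P.cons (P.lf 0 156806227 0) (P.cons (P.lf 0 26319 0) (P.cons (P.lf 0 1758 0) (P.lf 585 0 0)))) (P.cons (P.cons (P.lf 271685 0 0) (P.cons (P.lf 0 51828 0) (P.cons (P.lf 0 3465 0) (P.lf 1153 0 0)))) (P.cons (P.cons (P.lf 2469678 0 0) (P.cons (P.lf 0 46951 0) (P.cons (P.lf 0 3138 0) P.nil))) (P.cons (P.cons (P.lf 196635 0 0) (P.cons (P.lf 0 17981 0) P.nil)) (P.cons (P.cons (P.lf 0 3369 0) P.nil) P.nil)))))) 6881)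
 (EL.cons 5 (TM.mk (P.cons (P.cons (P.lf 0 3775052 0) (P.cons (P.lf 0 154 0) (P.cons (P.lf 0 10 0) (P.lf 2 0 0)))) (P.cons (P.cons (P.lf 0 9708684 0) (P.cons (P.lf 0 1008 0) (P.cons (P.lf 0 66 0) (P.lf 22 0 0)))) (P.cons (P.cons (P.lf 0 6405038 0) (P.cons (P.lf 0 2644 0) (P.cons (P.lf 0 176 0) (P.lf 58 0 0)))) (P.cons (P.cons (P.lf 0 143636 0) (P.cons (P.lf 0 3540 0) (P.cons (P.lf 0 236 0) P.nil))) (P.cons (P.cons (P.lf 89368 0 0) (P.cons (P.lf 0 2494 0) P.nil)) (P.cons (P.cons (P.lf 10170 0 0) P.nil) P.nil)))))) 1796)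
 EL.nil)))
noncomputable def S24_53_364_512_5 : EL := (EL.cons 0 (TM.mk (P.cons (P.cons (P.lf 2674904095 0 0) (P.cons (P.lf 221037 0 0) (P.cons (P.lf 14777 0 0) (P.cons (P.lf 0 4918 0) (P.cons (P.lf 0 0 0) (P.cons (P.lf 0 0 0) P.nil)))))) (P.cons (P.cons (P.lf 0 111004850 0) (P.cons (P.lf 853122 0 0) (P.cons (P.lf 57069 0 0) (P.cons (P.lf 0 19000 0) (P.cons (P.lf 0 0 0) P.nil))))) (P.cons (P.cons (P.lf 0 74094041 0) (P.cons (P.lf 1112660 0 0) (P.cons (P.lf 74503 0 0) (P.cons (P.lf 0 24778 0) P.nil)))) (P.cons (P.cons (P.lf 0 2560737 0) (P.cons (P.lf 504182 0 0) (P.cons (P.lf 33911 0 0) P.nil))) (P.cons (P.cons (P.lf 819168 0 0) (P.cons (P.lf 11035 0 0) P.nil)) (P.cons (P.cons (P.lf 93357 0 0) P.nil) P.nil)))))) 46354)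
 (EL.cons 1 (TM.mk (P.cons (P.cons (P.lf 82030230 0 0) (P.cons (P.lf 6778 0 0) (P.cons (P.lf 451 0 0) (P.cons (P.lf 0 150 0) (P.cons (P.lf 0 0 0) (P.cons (P.lf 0 0 0) P.nil)))))) (P.cons (P.cons (P.lf 103070032 0 0) (P.cons (P.lf 34959 0 0) (P.cons (P.lf 2338 0 0) (P.cons (P.lf 0 778 0) (P.cons (P.lf 0 0 0) P.nil))))) (P.cons (P.cons (P.lf 0 2959316 0) (P.cons (P.lf 68386 0 0) (P.cons (P.lf 4576 0 0) (P.cons (P.lf 0 1522 0) P.nil)))) (P.cons (P.cons (P.lf 0 2933917 0) (P.cons (P.lf 60960 0 0) (P.cons (P.lf 4085 0 0) P.nil))) (P.cons (P.cons (P.lf 0 173906 0) (P.cons (P.lf 22038 0 0) P.nil)) (P.cons (P.cons (P.lf 25425 0 0) P.nil) P.nil)))))) 11262)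
 (EL.cons 5 (TM.mk (P.cons (P.cons (P.lf 2515588 0 0) (P.cons (P.lf 206 0 0) (P.cons (P.lf 12 0 0) (P.cons (P.lf 0 4 0) (P.cons (P.lf 0 0 0) (P.cons (P.lf 0 0 0) P.nil)))))) (P.cons (P.cons (P.lf 6426008 0 0) (P.cons (P.lf 1340 0 0) (P.cons (P.lf 88 0 0) (P.cons (P.lf 0 28 0) (P.cons (P.lf 0 0 0) P.nil))))) (P.cons (P.cons (P.lf 4126364 0 0) (P.cons (P.lf 3498 0 0) (P.cons (P.lf 234 0 0) (P.cons (P.lf 0 76 0) P.nil)))) (P.cons (P.cons (P.lf 0 56358 0) (P.cons (P.lf 4640 0 0) (P.cons (P.lf 310 0 0) P.nil))) (P.cons (P.cons (P.lf 0 116150 0) (P.cons (P.lf 3200 0 0) P.nil)) (P.cons (P.cons (P.lf 0 9836 0) P.nil) P.nil)))))) 3046)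
 EL.nil)))
noncomputable def S24_53_364_512_6 : EL := (EL.cons 12 (TM.mk (P.lf 8589934592 0 0) 0)
 (EL.cons 3 (TM.mk (P.cons (P.lf 0 3596686102 0) (P.cons (P.lf 12315431 0 0) (P.cons (P.lf 8360981 0 0) (P.cons (P.lf 502803 0 0) (P.cons (P.lf 14171 0 0) (P.cons (P.lf 0 161 0) P.nil)))))) 359)
 (EL.cons 7 (TM.mk (P.cons (P.lf 0 110298158 0) (P.cons (P.lf 0 142787903 0) (P.cons (P.lf 0 4270675 0) (P.cons (P.lf 30920 0 0) (P.cons (P.lf 10958 0 0) (P.cons (P.lf 627 0 0) P.nil)))))) 162)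
 EL.nil)))
noncomputable def S24_53_364_512_7 : EL := (EL.cons 12 (TM.mk (P.cons (P.cons (P.lf 0 5724088780 0) (P.cons (P.lf 0 236504 0) (P.cons (P.lf 0 15808 0) (P.lf 5264 0 0)))) (P.cons (P.cons (P.lf 99171036 0 0) (P.cons (P.lf 0 918528 0) (P.cons (P.lf 0 61408 0) (P.lf 20464 0 0)))) (P.cons (P.cons (P.lf 67543138 0 0) (P.cons (P.lf 0 1216568 0) (P.cons (P.lf 0 81336 0) (P.lf 27112 0 0)))) (P.cons (P.cons (P.lf 4072024 0 0) (P.cons (P.lf 0 584048 0) (P.cons (P.lf 0 39048 0) P.nil))) (P.cons (P.cons (P.lf 0 56510 0) (P.cons (P.lf 0 46512 0) P.nil)) (P.cons (P.cons (P.lf 0 23034 0) P.nil) P.nil)))))) 22436)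
 (EL.cons 3 (TM.mk (P.cons (P.cons (P.lf 2428805190 0 0) (P.cons (P.lf 0 198052 0) (P.cons (P.lf 0 13236 0) (P.lf 4408 0 0)))) (P.cons (P.cons (P.lf 33456685 0 0) (P.cons (P.lf 0 768512 0) (P.cons (P.lf 0 51378 0) (P.lf 17120 0 0)))) (P.cons (P.cons (P.lf 22723060 0 0) (P.cons (P.lf 0 1015680 0) (P.cons (P.lf 0 67904 0) (P.lf 22634 0 0)))) (P.cons (P.cons (P.lf 1152033 0 0) (P.cons (P.lf 0 483786 0) (P.cons (P.lf 0 32342 0) P.nil))) (P.cons (P.cons (P.lf 0 197846 0) (P.cons (P.lf 0 34798 0) P.nil)) (P.cons (P.cons (P.lf 0 28110 0) P.nil) P.nil)))))) 47020)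
 (EL.cons 7 (TM.mk (P.cons (P.cons (P.lf 0 298391869 0) (P.cons (P.lf 3447543 0 0) (P.cons (P.lf 230494 0 0) (P.lf 0 76831 0)))) (P.cons (P.cons (P.lf 0 387904426 0) (P.cons (P.lf 8910401 0 0) (P.cons (P.lf 595729 0 0) (P.lf 0 198575 0)))) (P.cons (P.cons (P.lf 0 11708918 0) (P.cons (P.lf 5993324 0 0) (P.cons (P.lf 400698 0 0) (P.lf 0 133566 0)))) (P.cons (P.cons (P.lf 2656679 0 0) (P.cons (P.lf 287932 0 0) (P.cons (P.lf 19250 0 0) P.nil))) (P.cons (P.cons (P.lf 268076 0 0) (P.cons (P.lf 0 19829 0) P.nil)) (P.cons (P.cons (P.lf 4956 0 0) P.nil) P.nil)))))) 24149)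
 (EL.cons 10 (TM.mk (P.cons (P.cons (P.lf 0 7881906 0) (P.cons (P.lf 0 1220316 0) (P.cons (P.lf 587910 0 0) (P.cons (P.lf 22248 0 0) (P.lf 0 5562 0))))) (P.cons (P.cons (P.lf 0 20407257 0) (P.cons (P.lf 0 3159555 0) (P.cons (P.lf 1522173 0 0) (P.cons (P.lf 57603 0 0) (P.lf 0 14400 0))))) (P.cons (P.cons (P.lf 0 13819602 0) (P.cons (P.lf 0 2139621 0) (P.cons (P.lf 1030800 0 0) (P.cons (P.lf 39006 0 0) P.nil)))) (P.cons (P.cons (P.lf 0 785733 0) (P.cons (P.lf 0 121650 0) (P.cons (P.lf 58605 0 0) P.nil))) (P.cons (P.cons (P.lf 0 4527 0) (P.cons (P.lf 0 699 0) P.nil)) (P.cons (P.cons (P.lf 2286 0 0) P.nil) P.nil)))))) 13815)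
 EL.nil))))
noncomputable def S24_53_364_512_8 : EL := (EL.cons 12 (TM.mk (P.cons (P.cons (P.lf 3814370412 0 0) (P.cons (P.lf 315198 0 0) (P.cons (P.lf 21074 0 0) (P.cons (P.lf 0 7014 0) (P.cons (P.lf 0 0 0) (P.cons (P.lf 0 0 0) P.nil)))))) (P.cons (P.cons (P.lf 0 132169530 0) (P.cons (P.lf 1218700 0 0) (P.cons (P.lf 81526 0 0) (P.cons (P.lf 0 27144 0) (P.cons (P.lf 0 2 0) P.nil))))) (P.cons (P.cons (P.lf 0 88872730 0) (P.cons (P.lf 1596444 0 0) (P.cons (P.lf 106898 0 0) (P.cons (P.lf 0 35554 0) P.nil)))) (P.cons (P.cons (P.lf 0 3867386 0) (P.cons (P.lf 735626 0 0) (P.cons (P.lf 49474 0 0) P.nil))) (P.cons (P.cons (P.lf 700432 0 0) (P.cons (P.lf 28502 0 0) P.nil)) (P.cons (P.cons (P.lf 93430 0 0) P.nil) P.nil)))))) 52518)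
 (EL.cons 3 (TM.mk (P.cons (P.cons (P.lf 0 1639861144 0) (P.cons (P.lf 262183 0 0) (P.cons (P.lf 17535 0 0) (P.cons (P.lf 0 5830 0) (P.cons (P.lf 0 0 0) (P.cons (P.lf 0 0 0) P.nil)))))) (P.cons (P.cons (P.lf 0 49317225 0) (P.cons (P.lf 1008214 0 0) (P.cons (P.lf 67505 0 0) (P.cons (P.lf 0 22443 0) (P.cons (P.lf 0 0 0) P.nil))))) (P.cons (P.cons (P.lf 0 32050879 0) (P.cons (P.lf 1302797 0 0) (P.cons (P.lf 87445 0 0) (P.cons (P.lf 0 28984 0) P.nil)))) (P.cons (P.cons (P.lf 231669 0 0) (P.cons (P.lf 568877 0 0) (P.cons (P.lf 38638 0 0) P.nil))) (P.cons (P.cons (P.lf 1034151 0 0) (P.cons (P.lf 0 9757 0) P.nil)) (P.cons (P.cons (P.lf 106458 0 0) P.nil) P.nil)))))) 123400)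
 (EL.cons 7 (TM.mk (P.cons (P.cons (P.lf 446657778 0 0) (P.cons (P.lf 0 4574211 0) (P.cons (P.lf 0 306006 0) (P.cons (P.lf 101910 0 0) (P.cons (P.lf 6 0 0) (P.cons (P.lf 0 0 0) P.nil)))))) (P.cons (P.cons (P.lf 571795154 0 0) (P.cons (P.lf 0 11689610 0) (P.cons (P.lf 0 782765 0) (P.cons (P.lf 260349 0 0) (P.cons (P.lf 48 0 0) P.nil))))) (P.cons (P.cons (P.lf 513925 0 0) (P.cons (P.lf 0 7518563 0) (P.cons (P.lf 0 505880 0) (P.cons (P.lf 167129 0 0) P.nil)))) (P.cons (P.cons (P.lf 0 11800560 0) (P.cons (P.lf 87433 0 0) (P.cons (P.lf 1562 0 0) P.nil))) (P.cons (P.cons (P.lf 0 947777 0) (P.cons (P.lf 207826 0 0) P.nil)) (P.cons (P.cons (P.lf 48096 0 0) P.nil) P.nil)))))) 103079)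
 (EL.cons 10 (TM.mk (P.cons (P.cons (P.lf 10504554 0 0) (P.cons (P.lf 1626798 0 0) (P.cons (P.lf 0 783432 0) (P.cons (P.lf 0 29688 0) (P.cons (P.lf 7404 0 0) (P.cons (P.lf 0 0 0) P.nil)))))) (P.cons (P.cons (P.lf 27015636 0 0) (P.cons (P.lf 4185504 0 0) (P.cons (P.lf 0 2014464 0) (P.cons (P.lf 0 76494 0) (P.cons (P.lf 19026 0 0) P.nil))))) (P.cons (P.cons (P.lf 17822820 0 0) (P.cons (P.lf 2766774 0 0) (P.cons (P.lf 0 1327764 0) (P.cons (P.lf 0 50940 0) P.nil)))) (P.cons (P.cons (P.lf 399684 0 0) (P.cons (P.lf 71730 0 0) (P.cons (P.lf 0 27624 0) P.nil))) (P.cons (P.cons (P.lf 0 248682 0) (P.cons (P.lf 0 31560 0) P.nil)) (P.cons (P.cons (P.lf 0 28296 0) P.nil) P.nil)))))) 56028)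
 EL.nil))))
noncomputable def S24_53_364_512_9 : EL := (EL.cons 3 (TM.mk (P.cons (P.lf 0 3596686102 0) (P.cons (P.lf 12315431 0 0) (P.cons (P.lf 8360981 0 0) (P.cons (P.lf 502803 0 0) (P.cons (P.lf 14171 0 0) (P.cons (P.lf 0 161 0) P.nil)))))) 359)
 (EL.cons 7 (TM.mk (P.cons (P.lf 0 110298158 0) (P.cons (P.lf 0 142787903 0) (P.cons (P.lf 0 4270675 0) (P.cons (P.lf 30920 0 0) (P.cons (P.lf 10958 0 0) (P.cons (P.lf 627 0 0) P.nil)))))) 162)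
 EL.nil))
noncomputable def S24_53_364_512_10 : EL := (EL.cons 3 (TM.mk (P.cons (P.cons (P.lf 2396729607 0 0) (P.cons (P.lf 99026 0 0) (P.cons (P.lf 6618 0 0) (P.lf 0 2204 0)))) (P.cons (P.cons (P.lf 0 49730495 0) (P.cons (P.lf 384256 0 0) (P.cons (P.lf 25689 0 0) (P.lf 0 8560 0)))) (P.cons (P.cons (P.lf 0 33710282 0) (P.cons (P.lf 507840 0 0) (P.cons (P.lf 33952 0 0) (P.lf 0 11317 0)))) (P.cons (P.cons (P.lf 0 1846683 0) (P.cons (P.lf 241893 0 0) (P.cons (P.lf 16171 0 0) P.nil))) (P.cons (P.cons (P.lf 91603 0 0) (P.cons (P.lf 17399 0 0) P.nil)) (P.cons (P.cons (P.lf 17751 0 0) P.nil) P.nil)))))) 11268)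
 (EL.cons 7 (TM.mk (P.cons (P.cons (P.lf 73499564 0 0) (P.cons (P.lf 3036 0 0) (P.cons (P.lf 202 0 0) (P.lf 0 67 0)))) (P.cons (P.cons (P.lf 93876413 0 0) (P.cons (P.lf 15725 0 0) (P.cons (P.lf 1051 0 0) (P.lf 0 350 0)))) (P.cons (P.cons (P.lf 330085 0 0) (P.cons (P.lf 31007 0 0) (P.cons (P.lf 2073 0 0) (P.lf 0 690 0)))) (P.cons (P.cons (P.lf 0 1244944 0) (P.cons (P.lf 28177 0 0) (P.cons (P.lf 1883 0 0) P.nil))) (P.cons (P.cons (P.lf 0 107488 0) (P.cons (P.lf 10906 0 0) P.nil)) (P.cons (P.cons (P.lf 0 837 0) P.nil) P.nil)))))) 3625)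
 EL.nil))
noncomputable def S24_53_364_512_11 : EL := (EL.cons 3 (TM.mk (P.cons (P.cons (P.lf 0 1597112632 0) (P.cons (P.lf 0 131975 0) (P.cons (P.lf 0 8823 0) (P.cons (P.lf 2936 0 0) (P.cons (P.lf 0 0 0) (P.cons (P.lf 0 0 0) P.nil)))))) (P.cons (P.cons (P.lf 60809301 0 0) (P.cons (P.lf 0 509828 0) (P.cons (P.lf 0 34105 0) (P.cons (P.lf 11355 0 0) (P.cons (P.lf 0 0 0) P.nil))))) (P.cons (P.cons (P.lf 40735055 0 0) (P.cons (P.lf 0 666391 0) (P.cons (P.lf 0 44621 0) (P.cons (P.lf 14840 0 0) P.nil)))) (P.cons (P.cons (P.lf 1586517 0 0) (P.cons (P.lf 0 304519 0) (P.cons (P.lf 0 20480 0) P.nil))) (P.cons (P.cons (P.lf 0 386769 0) (P.cons (P.lf 0 9253 0) P.nil)) (P.cons (P.cons (P.lf 0 47370 0) P.nil) P.nil)))))) 24948)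
 (EL.cons 7 (TM.mk (P.cons (P.cons (P.lf 0 48978024 0) (P.cons (P.lf 0 4047 0) (P.cons (P.lf 0 270 0) (P.cons (P.lf 90 0 0) (P.cons (P.lf 0 0 0) (P.cons (P.lf 0 0 0) P.nil)))))) (P.cons (P.cons (P.lf 0 61708024 0) (P.cons (P.lf 0 20888 0) (P.cons (P.lf 0 1397 0) (P.cons (P.lf 465 0 0) (P.cons (P.lf 0 0 0) P.nil))))) (P.cons (P.cons (P.lf 1441777 0 0) (P.cons (P.lf 0 40913 0) (P.cons (P.lf 0 2738 0) (P.cons (P.lf 911 0 0) P.nil)))) (P.cons (P.cons (P.lf 1606404 0 0) (P.cons (P.lf 0 36587 0) (P.cons (P.lf 0 2452 0) P.nil))) (P.cons (P.cons (P.lf 103867 0 0) (P.cons (P.lf 0 13382 0) P.nil)) (P.cons (P.cons (P.lf 0 11130 0) P.nil) P.nil)))))) 6163)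
 EL.nil))
noncomputable def S24_53_364_512_12 : EL := (EL.cons 4 (TM.mk (P.cons (P.lf 3596686102 0 0) (P.cons (P.lf 0 12315431 0) (P.cons (P.lf 0 8360981 0) (P.cons (P.lf 0 502803 0) (P.cons (P.lf 0 14171 0) (P.cons (P.lf 161 0 0) P.nil)))))) 359)
 (EL.cons 8 (TM.mk (P.cons (P.lf 110298158 0 0) (P.cons (P.lf 142787903 0 0) (P.cons (P.lf 4270675 0 0) (P.cons (P.lf 0 30920 0) (P.cons (P.lf 0 10958 0) (P.cons (P.lf 0 627 0) P.nil)))))) 162)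
 EL.nil))
noncomputable def S24_53_364_512_13 : EL := (EL.cons 4 (TM.mk (P.cons (P.cons (P.lf 0 2396729607 0) (P.cons (P.lf 0 99026 0) (P.cons (P.lf 0 6618 0) (P.lf 2204 0 0)))) (P.cons (P.cons (P.lf 49730495 0 0) (P.cons (P.lf 0 384256 0) (P.cons (P.lf 0 25689 0) (P.lf 8560 0 0)))) (P.cons (P.cons (P.lf 33710282 0 0) (P.cons (P.lf 0 507840 0) (P.cons (P.lf 0 33952 0) (P.lf 11317 0 0)))) (P.cons (P.cons (P.lf 1846683 0 0) (P.cons (P.lf 0 241893 0) (P.cons (P.lf 0 16171 0) P.nil))) (P.cons (P.cons (P.lf 0 91603 0) (P.cons (P.lf 0 17399 0) P.nil)) (P.cons (P.cons (P.lf 0 17751 0) P.nil) P.nil)))))) 11268)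
 (EL.cons 8 (TM.mk (P.cons (P.cons (P.lf 0 73499564 0) (P.cons (P.lf 0 3036 0) (P.cons (P.lf 0 202 0) (P.lf 67 0 0)))) (P.cons (P.cons (P.lf 0 93876413 0) (P.cons (P.lf 0 15725 0) (P.cons (P.lf 0 1051 0) (P.lf 350 0 0)))) (P.cons (P.cons (P.lf 0 330085 0) (P.cons (P.lf 0 31007 0) (P.cons (P.lf 0 2073 0) (P.lf 690 0 0)))) (P.cons (P.cons (P.lf 1244944 0 0) (P.cons (P.lf 0 28177 0) (P.cons (P.lf 0 1883 0) P.nil))) (P.cons (P.cons (P.lf 107488 0 0) (P.cons (P.lf 0 10906 0) P.nil)) (P.cons (P.cons (P.lf 837 0 0) P.nil) P.nil)))))) 3625)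
 EL.nil))
noncomputable def S24_53_364_512_14 : EL := (EL.cons 4 (TM.mk (P.cons (P.cons (P.lf 1597112632 0 0) (P.cons (P.lf 131975 0 0) (P.cons (P.lf 8823 0 0) (P.cons (P.lf 0 2936 0) (P.cons (P.lf 0 0 0) (P.cons (P.lf 0 0 0) P.nil)))))) (P.cons (P.cons (P.lf 0 60809301 0) (P.cons (P.lf 509828 0 0) (P.cons (P.lf 34105 0 0) (P.cons (P.lf 0 11355 0) (P.cons (P.lf 0 0 0) P.nil))))) (P.cons (P.cons (P.lf 0 40735055 0) (P.cons (P.lf 666391 0 0) (P.cons (P.lf 44621 0 0) (P.cons (P.lf 0 14840 0) P.nil)))) (P.cons (P.cons (P.lf 0 1586517 0) (P.cons (P.lf 304519 0 0) (P.cons (P.lf 20480 0 0) P.nil))) (P.cons (P.cons (P.lf 386769 0 0) (P.cons (P.lf 9253 0 0) P.nil)) (P.cons (P.cons (P.lf 47370 0 0) P.nil) P.nil)))))) 24948)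
 (EL.cons 8 (TM.mk (P.cons (P.cons (P.lf 48978024 0 0) (P.cons (P.lf 4047 0 0) (P.cons (P.lf 270 0 0) (P.cons (P.lf 0 90 0) (P.cons (P.lf 0 0 0) (P.cons (P.lf 0 0 0) P.nil)))))) (P.cons (P.cons (P.lf 61708024 0 0) (P.cons (P.lf 20888 0 0) (P.cons (P.lf 1397 0 0) (P.cons (P.lf 0 465 0) (P.cons (P.lf 0 0 0) P.nil))))) (P.cons (P.cons (P.lf 0 1441777 0) (P.cons (P.lf 40913 0 0) (P.cons (P.lf 2738 0 0) (P.cons (P.lf 0 911 0) P.nil)))) (P.cons (P.cons (P.lf 0 1606404 0) (P.cons (P.lf 36587 0 0) (P.cons (P.lf 2452 0 0) P.nil))) (P.cons (P.cons (P.lf 0 103867 0) (P.cons (P.lf 13382 0 0) P.nil)) (P.cons (P.cons (P.lf 11130 0 0) P.nil) P.nil)))))) 6163)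
 EL.nil))
noncomputable def S24_53_364_512_15 : EL := (EL.cons 4 (TM.mk (P.cons (P.lf 0 3212727834 0) (P.cons (P.lf 22001434 0 0) (P.cons (P.lf 14899169 0 0) (P.cons (P.lf 847110 0 0) (P.cons (P.lf 4879 0 0) (P.cons (P.lf 0 2462 0) P.nil)))))) 773)
 (EL.cons 8 (TM.mk (P.cons (P.lf 0 98523460 0) (P.cons (P.lf 0 127207462 0) (P.cons (P.lf 0 3149008 0) (P.cons (P.lf 350949 0 0) (P.cons (P.lf 36780 0 0) (P.cons (P.lf 1493 0 0) P.nil)))))) 227)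
 EL.nil))
noncomputable def S24_53_364_512_16 : EL := (EL.cons 4 (TM.mk (P.cons (P.cons (P.lf 2140870707 0 0) (P.cons (P.lf 88455 0 0) (P.cons (P.lf 5911 0 0) (P.lf 0 1968 0)))) (P.cons (P.cons (P.lf 0 51752164 0) (P.cons (P.lf 342932 0 0) (P.cons (P.lf 22926 0 0) (P.lf 0 7639 0)))) (P.cons (P.cons (P.lf 0 34936235 0) (P.cons (P.lf 452246 0 0) (P.cons (P.lf 30235 0 0) (P.lf 0 10078 0)))) (P.cons (P.cons (P.lf 0 1742460 0) (P.cons (P.lf 213706 0 0) (P.cons (P.lf 14287 0 0) P.nil))) (P.cons (P.cons (P.lf 155246 0 0) (P.cons (P.lf 13698 0 0) P.nil)) (P.cons (P.cons (P.lf 23891 0 0) P.nil) P.nil)))))) 11630)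
 (EL.cons 8 (TM.mk (P.cons (P.cons (P.lf 65653239 0 0) (P.cons (P.lf 2712 0 0) (P.cons (P.lf 181 0 0) (P.lf 0 60 0)))) (P.cons (P.cons (P.lf 83629988 0 0) (P.cons (P.lf 14037 0 0) (P.cons (P.lf 938 0 0) (P.lf 0 312 0)))) (P.cons (P.cons (P.lf 0 144899 0) (P.cons (P.lf 27642 0 0) (P.cons (P.lf 1848 0 0) (P.lf 0 615 0)))) (P.cons (P.cons (P.lf 0 1317162 0) (P.cons (P.lf 25041 0 0) (P.cons (P.lf 1674 0 0) P.nil))) (P.cons (P.cons (P.lf 0 104872 0) (P.cons (P.lf 9590 0 0) P.nil)) (P.cons (P.cons (P.lf 1797 0 0) P.nil) P.nil)))))) 3660)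
 EL.nil))
noncomputable def S24_53_364_512_17 : EL := (EL.cons 4 (TM.mk (P.cons (P.cons (P.lf 0 1426615517 0) (P.cons (P.lf 0 117886 0) (P.cons (P.lf 0 7881 0) (P.cons (P.lf 2623 0 0) (P.cons (P.lf 0 0 0) (P.cons (P.lf 0 0 0) P.nil)))))) (P.cons (P.cons (P.lf 59202586 0 0) (P.cons (P.lf 0 454998 0) (P.cons (P.lf 0 30436 0) (P.cons (P.lf 10133 0 0) (P.cons (P.lf 0 0 0) P.nil))))) (P.cons (P.cons (P.lf 39516822 0 0) (P.cons (P.lf 0 593418 0) (P.cons (P.lf 0 39735 0) (P.cons (P.lf 13215 0 0) P.nil)))) (P.cons (P.cons (P.lf 1365726 0 0) (P.cons (P.lf 0 268897 0) (P.cons (P.lf 0 18086 0) P.nil))) (P.cons (P.cons (P.lf 0 436890 0) (P.cons (P.lf 0 5885 0) P.nil)) (P.cons (P.cons (P.lf 0 49790 0) P.nil) P.nil)))))) 24732)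
 (EL.cons 8 (TM.mk (P.cons (P.cons (P.lf 0 43749456 0) (P.cons (P.lf 0 3615 0) (P.cons (P.lf 0 241 0) (P.cons (P.lf 80 0 0) (P.cons (P.lf 0 0 0) (P.cons (P.lf 0 0 0) P.nil)))))) (P.cons (P.cons (P.lf 0 54970684 0) (P.cons (P.lf 0 18645 0) (P.cons (P.lf 0 1247 0) (P.cons (P.lf 415 0 0) (P.cons (P.lf 0 0 0) P.nil))))) (P.cons (P.cons (P.lf 1578302 0 0) (P.cons (P.lf 0 36473 0) (P.cons (P.lf 0 2441 0) (P.cons (P.lf 812 0 0) P.nil)))) (P.cons (P.cons (P.lf 1564756 0 0) (P.cons (P.lf 0 32512 0) (P.cons (P.lf 0 2179 0) P.nil))) (P.cons (P.cons (P.lf 92750 0 0) (P.cons (P.lf 0 11754 0) P.nil)) (P.cons (P.cons (P.lf 0 13560 0) P.nil) P.nil)))))) 5995)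
 EL.nil))
noncomputable def S24_53_364_512_18 : EL := (EL.cons 4 (TM.mk (P.cons (P.lf 2869758394 0 0) (P.cons (P.lf 0 29479062 0) (P.cons (P.lf 0 19912479 0) (P.cons (P.lf 0 1066604 0) (P.cons (P.lf 20610 0 0) (P.cons (P.lf 6040 0 0) P.nil)))))) 1173)
 (EL.cons 8 (TM.mk (P.cons (P.lf 88005751 0 0) (P.cons (P.lf 113326299 0 0) (P.cons (P.lf 2219186 0 0) (P.cons (P.lf 0 599561 0) (P.cons (P.lf 0 54550 0) (P.cons (P.lf 0 1330 0) P.nil)))))) 337)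
 EL.nil))
noncomputable def S24_53_364_512_19 : EL := (EL.cons 4 (TM.mk (P.cons (P.cons (P.lf 0 1912325600 0) (P.cons (P.lf 0 79011 0) (P.cons (P.lf 0 5280 0) (P.lf 1757 0 0)))) (P.cons (P.cons (P.lf 52775451 0 0) (P.cons (P.lf 0 306053 0) (P.cons (P.lf 0 20460 0) (P.lf 6818 0 0)))) (P.cons (P.cons (P.lf 35493845 0 0) (P.cons (P.lf 0 402735 0) (P.cons (P.lf 0 26925 0) (P.lf 8974 0 0)))) (P.cons (P.cons (P.lf 1609466 0 0) (P.cons (P.lf 0 188787 0) (P.cons (P.lf 0 12621 0) P.nil))) (P.cons (P.cons (P.lf 0 215474 0) (P.cons (P.lf 0 10600 0) P.nil)) (P.cons (P.cons (P.lf 0 29114 0) P.nil) P.nil)))))) 12041)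
 (EL.cons 8 (TM.mk (P.cons (P.cons (P.lf 0 58644537 0) (P.cons (P.lf 0 2423 0) (P.cons (P.lf 0 161 0) (P.lf 53 0 0)))) (P.cons (P.cons (P.lf 0 74501402 0) (P.cons (P.lf 0 12530 0) (P.cons (P.lf 0 837 0) (P.lf 279 0 0)))) (P.cons (P.cons (P.lf 521546 0 0) (P.cons (P.lf 0 24643 0) (P.cons (P.lf 0 1647 0) (P.lf 549 0 0)))) (P.cons (P.cons (P.lf 1357961 0 0) (P.cons (P.lf 0 22254 0) (P.cons (P.lf 0 1487 0) P.nil))) (P.cons (P.cons (P.lf 100021 0 0) (P.cons (P.lf 0 8430 0) P.nil)) (P.cons (P.cons (P.lf 0 4387 0) P.nil) P.nil)))))) 3683)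
 EL.nil))
noncomputable def S24_53_364_512_20 : EL := (EL.cons 4 (TM.mk (P.cons (P.cons (P.lf 1274319540 0 0) (P.cons (P.lf 105301 0 0) (P.cons (P.lf 7039 0 0) (P.cons (P.lf 0 2342 0) (P.cons (P.lf 0 0 0) (P.cons (P.lf 0 0 0) P.nil)))))) (P.cons (P.cons (P.lf 0 57245916 0) (P.cons (P.lf 406065 0 0) (P.cons (P.lf 27164 0 0) (P.cons (P.lf 0 9044 0) (P.cons (P.lf 0 0 0) P.nil))))) (P.cons (P.cons (P.lf 0 38079521 0) (P.cons (P.lf 528433 0 0) (P.cons (P.lf 35384 0 0) (P.cons (P.lf 0 11768 0) P.nil)))) (P.cons (P.cons (P.lf 0 1154278 0) (P.cons (P.lf 237417 0 0) (P.cons (P.lf 15969 0 0) P.nil))) (P.cons (P.cons (P.lf 478855 0 0) (P.cons (P.lf 3145 0 0) P.nil)) (P.cons (P.cons (P.lf 51174 0 0) P.nil) P.nil)))))) 24580)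
 (EL.cons 8 (TM.mk (P.cons (P.cons (P.lf 39079056 0 0) (P.cons (P.lf 3229 0 0) (P.cons (P.lf 215 0 0) (P.cons (P.lf 0 71 0) (P.cons (P.lf 0 0 0) (P.cons (P.lf 0 0 0) P.nil)))))) (P.cons (P.cons (P.lf 48968568 0 0) (P.cons (P.lf 16644 0 0) (P.cons (P.lf 1113 0 0) (P.cons (P.lf 0 370 0) (P.cons (P.lf 0 0 0) P.nil))))) (P.cons (P.cons (P.lf 0 1668789 0) (P.cons (P.lf 32515 0 0) (P.cons (P.lf 2176 0 0) (P.cons (P.lf 0 724 0) P.nil)))) (P.cons (P.cons (P.lf 0 1512494 0) (P.cons (P.lf 28891 0 0) (P.cons (P.lf 1936 0 0) P.nil))) (P.cons (P.cons (P.lf 0 81804 0) (P.cons (P.lf 10322 0 0) P.nil)) (P.cons (P.cons (P.lf 15650 0 0) P.nil) P.nil)))))) 5795)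
 EL.nil))
noncomputable def S24_53_364_512_21 : EL := (EL.cons 4 (TM.mk (P.cons (P.cons (P.lf 0 32075583 0) (P.cons (P.lf 297078 0 0) (P.cons (P.lf 19854 0 0) (P.lf 0 6612 0)))) (P.cons (P.cons (P.lf 0 83187180 0) (P.cons (P.lf 1152768 0 0) (P.cons (P.lf 77067 0 0) (P.lf 0 25680 0)))) (P.cons (P.cons (P.lf 0 56433342 0) (P.cons (P.lf 1523520 0 0) (P.cons (P.lf 101856 0 0) (P.lf 0 33951 0)))) (P.cons (P.cons (P.lf 0 2998716 0) (P.cons (P.lf 725679 0 0) (P.cons (P.lf 48513 0 0) P.nil))) (P.cons (P.cons (P.lf 289449 0 0) (P.cons (P.lf 52197 0 0) P.nil)) (P.cons (P.cons (P.lf 45861 0 0) P.nil) P.nil)))))) 35733)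
 (EL.cons 8 (TM.mk (P.cons (P.cons (P.lf 371891433 0 0) (P.cons (P.lf 0 3444507 0) (P.cons (P.lf 0 230292 0) (P.lf 76764 0 0)))) (P.cons (P.cons (P.lf 481780839 0 0) (P.cons (P.lf 0 8894676 0) (P.cons (P.lf 0 594678 0) (P.lf 198225 0 0)))) (P.cons (P.cons (P.lf 12039003 0 0) (P.cons (P.lf 0 5962317 0) (P.cons (P.lf 0 398625 0) (P.lf 132876 0 0)))) (P.cons (P.cons (P.lf 0 3901623 0) (P.cons (P.lf 0 259755 0) (P.cons (P.lf 0 17367 0) P.nil))) (P.cons (P.cons (P.lf 0 375564 0) (P.cons (P.lf 30735 0 0) P.nil)) (P.cons (P.cons (P.lf 0 5793 0) P.nil) P.nil)))))) 20505)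
 (EL.cons 11 (TM.mk (P.cons (P.cons (P.lf 7881906 0 0) (P.cons (P.lf 1220316 0 0) (P.cons (P.lf 0 587910 0) (P.cons (P.lf 0 22248 0) (P.lf 5562 0 0))))) (P.cons (P.cons (P.lf 20407257 0 0) (P.cons (P.lf 3159555 0 0) (P.cons (P.lf 0 1522173 0) (P.cons (P.lf 0 57603 0) (P.lf 14400 0 0))))) (P.cons (P.cons (P.lf 13819602 0 0) (P.cons (P.lf 2139621 0 0) (P.cons (P.lf 0 1030800 0) (P.cons (P.lf 0 39006 0) P.nil)))) (P.cons (P.cons (P.lf 785733 0 0) (P.cons (P.lf 121650 0 0) (P.cons (P.lf 0 58605 0) P.nil))) (P.cons (P.cons (P.lf 4527 0 0) (P.cons (P.lf 699 0 0) P.nil)) (P.cons (P.cons (P.lf 0 2286 0) P.nil) P.nil)))))) 13815)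
 EL.nil)))
noncomputable def S24_53_364_512_22 : EL := (EL.cons 4 (TM.mk (P.cons (P.cons (P.lf 21374256 0 0) (P.cons (P.lf 0 197079 0) (P.cons (P.lf 0 13179 0) (P.cons (P.lf 4383 0 0) (P.cons (P.lf 0 0 0) (P.cons (P.lf 0 0 0) P.nil)))))) (P.cons (P.cons (P.lf 55063263 0 0) (P.cons (P.lf 0 759021 0) (P.cons (P.lf 0 50805 0) (P.cons (P.lf 16899 0 0) (P.cons (P.lf 0 0 0) P.nil))))) (P.cons (P.cons (P.lf 36392967 0 0) (P.cons (P.lf 0 984594 0) (P.cons (P.lf 0 66033 0) (P.cons (P.lf 21912 0 0) P.nil)))) (P.cons (P.cons (P.lf 677424 0 0) (P.cons (P.lf 0 436698 0) (P.cons (P.lf 0 29559 0) P.nil))) (P.cons (P.cons (P.lf 0 710460 0) (P.cons (P.lf 252 0 0) P.nil)) (P.cons (P.cons (P.lf 0 76914 0) P.nil) P.nil)))))) 49215)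
 (EL.cons 8 (TM.mk (P.cons (P.cons (P.lf 0 247817901 0) (P.cons (P.lf 2285082 0 0) (P.cons (P.lf 152868 0 0) (P.cons (P.lf 0 50910 0) (P.cons (P.lf 0 3 0) (P.cons (P.lf 0 0 0) P.nil)))))) (P.cons (P.cons (P.lf 0 316751589 0) (P.cons (P.lf 5834361 0 0) (P.cons (P.lf 390684 0 0) (P.cons (P.lf 0 129942 0) (P.cons (P.lf 0 24 0) P.nil))))) (P.cons (P.cons (P.lf 463926 0 0) (P.cons (P.lf 3738825 0 0) (P.cons (P.lf 251571 0 0) (P.cons (P.lf 0 83109 0) P.nil)))) (P.cons (P.cons (P.lf 6703482 0 0) (P.cons (P.lf 0 62010 0) (P.cons (P.lf 0 2007 0) P.nil))) (P.cons (P.cons (P.lf 525822 0 0) (P.cons (P.lf 0 110604 0) P.nil)) (P.cons (P.cons (P.lf 0 29613 0) P.nil) P.nil)))))) 48447)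
 (EL.cons 11 (TM.mk (P.cons (P.cons (P.lf 0 5252277 0) (P.cons (P.lf 0 813399 0) (P.cons (P.lf 391716 0 0) (P.cons (P.lf 14844 0 0) (P.cons (P.lf 0 3702 0) (P.cons (P.lf 0 0 0) P.nil)))))) (P.cons (P.cons (P.lf 0 13507818 0) (P.cons (P.lf 0 2092752 0) (P.cons (P.lf 1007232 0 0) (P.cons (P.lf 38247 0 0) (P.cons (P.lf 0 9513 0) P.nil))))) (P.cons (P.cons (P.lf 0 8911410 0) (P.cons (P.lf 0 1383387 0) (P.cons (P.lf 663882 0 0) (P.cons (P.lf 25470 0 0) P.nil)))) (P.cons (P.cons (P.lf 0 199842 0) (P.cons (P.lf 0 35865 0) (P.cons (P.lf 13812 0 0) P.nil))) (P.cons (P.cons (P.lf 124341 0 0) (P.cons (P.lf 15780 0 0) P.nil)) (P.cons (P.cons (P.lf 14148 0 0) P.nil) P.nil)))))) 28014)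
 EL.nil)))
noncomputable def S24_53_364_512_23 : EL := (EL.cons 4 (TM.mk (P.cons (P.cons (P.lf 28651407 0 0) (P.cons (P.lf 0 265362 0) (P.cons (P.lf 0 17733 0) (P.lf 5904 0 0)))) (P.cons (P.cons (P.lf 74208564 0 0) (P.cons (P.lf 0 1028796 0) (P.cons (P.lf 0 68778 0) (P.lf 22917 0 0)))) (P.cons (P.cons (P.lf 50087856 0 0) (P.cons (P.lf 0 1356735 0) (P.cons (P.lf 0 90705 0) (P.lf 30234 0 0)))) (P.cons (P.cons (P.lf 2329245 0 0) (P.cons (P.lf 0 641118 0) (P.cons (P.lf 0 42858 0) P.nil))) (P.cons (P.cons (P.lf 0 395403 0) (P.cons (P.lf 0 41094 0) P.nil)) (P.cons (P.cons (P.lf 0 53643 0) P.nil) P.nil)))))) 36447)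
 (EL.cons 8 (TM.mk (P.cons (P.cons (P.lf 0 332190777 0) (P.cons (P.lf 3076794 0 0) (P.cons (P.lf 205707 0 0) (P.lf 0 68568 0)))) (P.cons (P.cons (P.lf 0 429211665 0) (P.cons (P.lf 7934604 0 0) (P.cons (P.lf 530487 0 0) (P.lf 0 176829 0)))) (P.cons (P.cons (P.lf 0 8508015 0) (P.cons (P.lf 5291460 0 0) (P.cons (P.lf 353772 0 0) (P.lf 0 117924 0)))) (P.cons (P.cons (P.lf 4568775 0 0) (P.cons (P.lf 194889 0 0) (P.cons (P.lf 13029 0 0) P.nil))) (P.cons (P.cons (P.lf 410004 0 0) (P.cons (P.lf 0 41751 0) P.nil)) (P.cons (P.cons (P.lf 0 891 0) P.nil) P.nil)))))) 23706)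
 (EL.cons 11 (TM.mk (P.cons (P.cons (P.lf 0 7040484 0) (P.cons (P.lf 0 1090041 0) (P.cons (P.lf 525147 0 0) (P.cons (P.lf 19872 0 0) (P.lf 0 4968 0))))) (P.cons (P.cons (P.lf 0 18204606 0) (P.cons (P.lf 0 2818527 0) (P.cons (P.lf 1357875 0 0) (P.cons (P.lf 51384 0 0) (P.lf 0 12843 0))))) (P.cons (P.cons (P.lf 0 12265527 0) (P.cons (P.lf 0 1899009 0) (P.cons (P.lf 914880 0 0) (P.cons (P.lf 34617 0 0) P.nil)))) (P.cons (P.cons (P.lf 0 616224 0) (P.cons (P.lf 0 95406 0) (P.cons (P.lf 45960 0 0) P.nil))) (P.cons (P.cons (P.lf 29631 0 0) (P.cons (P.lf 4587 0 0) P.nil)) (P.cons (P.cons (P.lf 5484 0 0) P.nil) P.nil)))))) 16413)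
 EL.nil)))
noncomputable def S24_53_364_512_24 : EL := (EL.cons 4 (TM.mk (P.cons (P.cons (P.lf 0 19092483 0) (P.cons (P.lf 176040 0 0) (P.cons (P.lf 11772 0 0) (P.cons (P.lf 0 3915 0) (P.cons (P.lf 0 0 0) (P.cons (P.lf 0 0 0) P.nil)))))) (P.cons (P.cons (P.lf 0 49119699 0) (P.cons (P.lf 677388 0 0) (P.cons (P.lf 45342 0 0) (P.cons (P.lf 0 15081 0) (P.cons (P.lf 0 0 0) P.nil))))) (P.cons (P.cons (P.lf 0 32295099 0) (P.cons (P.lf 876753 0 0) (P.cons (P.lf 58800 0 0) (P.cons (P.lf 0 19512 0) P.nil)))) (P.cons (P.cons (P.lf 0 376788 0) (P.cons (P.lf 385467 0 0) (P.cons (P.lf 26094 0 0) P.nil))) (P.cons (P.cons (P.lf 719208 0 0) (P.cons (P.lf 0 3702 0) P.nil)) (P.cons (P.cons (P.lf 72675 0 0) P.nil) P.nil)))))) 47772)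
 (EL.cons 8 (TM.mk (P.cons (P.cons (P.lf 221362512 0 0) (P.cons (P.lf 0 2041140 0) (P.cons (P.lf 0 136551 0) (P.cons (P.lf 45477 0 0) (P.cons (P.lf 3 0 0) (P.cons (P.lf 0 0 0) P.nil)))))) (P.cons (P.cons (P.lf 282179328 0 0) (P.cons (P.lf 0 5204532 0) (P.cons (P.lf 0 348510 0) (P.cons (P.lf 115914 0 0) (P.cons (P.lf 21 0 0) P.nil))))) (P.cons (P.cons (P.lf 0 1897794 0) (P.cons (P.lf 0 3317103 0) (P.cons (P.lf 0 223203 0) (P.cons (P.lf 73734 0 0) P.nil)))) (P.cons (P.cons (P.lf 0 6675117 0) (P.cons (P.lf 79227 0 0) (P.cons (P.lf 3390 0 0) P.nil))) (P.cons (P.cons (P.lf 0 488649 0) (P.cons (P.lf 107106 0 0) P.nil)) (P.cons (P.cons (P.lf 40932 0 0) P.nil) P.nil)))))) 47757)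
 (EL.cons 11 (TM.mk (P.cons (P.cons (P.lf 4691580 0 0) (P.cons (P.lf 726567 0 0) (P.cons (P.lf 0 349899 0) (P.cons (P.lf 0 13257 0) (P.cons (P.lf 3306 0 0) (P.cons (P.lf 0 0 0) P.nil)))))) (P.cons (P.cons (P.lf 12049749 0 0) (P.cons (P.lf 1866855 0 0) (P.cons (P.lf 0 898509 0) (P.cons (P.lf 0 34119 0) (P.cons (P.lf 8487 0 0) P.nil))))) (P.cons (P.cons (P.lf 7907868 0 0) (P.cons (P.lf 1227615 0 0) (P.cons (P.lf 0 589116 0) (P.cons (P.lf 0 22602 0) P.nil)))) (P.cons (P.cons (P.lf 122547 0 0) (P.cons (P.lf 23358 0 0) (P.cons (P.lf 0 8166 0) P.nil))) (P.cons (P.cons (P.lf 0 131886 0) (P.cons (P.lf 0 17340 0) P.nil)) (P.cons (P.cons (P.lf 0 13833 0) P.nil) P.nil)))))) 27780)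
 EL.nil)))
noncomputable def S24_53_364_512_25 : EL := (EL.cons 4 (TM.mk (P.cons (P.cons (P.lf 0 25592772 0) (P.cons (P.lf 237033 0 0) (P.cons (P.lf 15840 0 0) (P.lf 0 5274 0)))) (P.cons (P.cons (P.lf 0 66198918 0) (P.cons (P.lf 918156 0 0) (P.cons (P.lf 61380 0 0) (P.lf 0 20451 0)))) (P.cons (P.cons (P.lf 0 44454342 0) (P.cons (P.lf 1208202 0 0) (P.cons (P.lf 80775 0 0) (P.lf 0 26922 0)))) (P.cons (P.cons (P.lf 0 1769724 0) (P.cons (P.lf 566358 0 0) (P.cons (P.lf 37860 0 0) P.nil))) (P.cons (P.cons (P.lf 473691 0 0) (P.cons (P.lf 31800 0 0) P.nil)) (P.cons (P.cons (P.lf 58059 0 0) P.nil) P.nil)))))) 36231)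
 (EL.cons 8 (TM.mk (P.cons (P.cons (P.lf 296728302 0 0) (P.cons (P.lf 0 2748336 0) (P.cons (P.lf 0 183747 0) (P.lf 61248 0 0)))) (P.cons (P.cons (P.lf 382375857 0 0) (P.cons (P.lf 0 7078146 0) (P.cons (P.lf 0 473229 0) (P.lf 157740 0 0)))) (P.cons (P.cons (P.lf 5597196 0 0) (P.cons (P.lf 0 4695921 0) (P.cons (P.lf 0 313956 0) (P.lf 104652 0 0)))) (P.cons (P.cons (P.lf 0 5039793 0) (P.cons (P.lf 0 141039 0) (P.cons (P.lf 0 9429 0) P.nil))) (P.cons (P.cons (P.lf 0 424695 0) (P.cons (P.lf 49878 0 0) P.nil)) (P.cons (P.cons (P.lf 8976 0 0) P.nil) P.nil)))))) 25920)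
 (EL.cons 11 (TM.mk (P.cons (P.cons (P.lf 6288888 0 0) (P.cons (P.lf 973677 0 0) (P.cons (P.lf 0 469086 0) (P.cons (P.lf 0 17751 0) (P.lf 4437 0 0))))) (P.cons (P.cons (P.lf 16239669 0 0) (P.cons (P.lf 2514306 0 0) (P.cons (P.lf 0 1211313 0) (P.cons (P.lf 0 45837 0) (P.lf 11457 0 0))))) (P.cons (P.cons (P.lf 10885842 0 0) (P.cons (P.lf 1685400 0 0) (P.cons (P.lf 0 811971 0) (P.cons (P.lf 0 30723 0) P.nil)))) (P.cons (P.cons (P.lf 474246 0 0) (P.cons (P.lf 73422 0 0) (P.cons (P.lf 0 35370 0) P.nil))) (P.cons (P.cons (P.lf 0 56118 0) (P.cons (P.lf 0 8688 0) P.nil)) (P.cons (P.cons (P.lf 0 7683 0) P.nil) P.nil)))))) 18069)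
 EL.nil)))
noncomputable def S24_53_364_512_26 : EL := (EL.cons 4 (TM.mk (P.cons (P.cons (P.lf 17054298 0 0) (P.cons (P.lf 0 157248 0) (P.cons (P.lf 0 10515 0) (P.cons (P.lf 3498 0 0) (P.cons (P.lf 0 0 0) (P.cons (P.lf 0 0 0) P.nil)))))) (P.cons (P.cons (P.lf 43817613 0 0) (P.cons (P.lf 0 604536 0) (P.cons (P.lf 0 40464 0) (P.cons (P.lf 13458 0 0) (P.cons (P.lf 0 0 0) P.nil))))) (P.cons (P.cons (P.lf 28657608 0 0) (P.cons (P.lf 0 780720 0) (P.cons (P.lf 0 52359 0) (P.cons (P.lf 17376 0 0) P.nil)))) (P.cons (P.cons (P.lf 133407 0 0) (P.cons (P.lf 0 340206 0) (P.cons (P.lf 0 23034 0) P.nil))) (P.cons (P.cons (P.lf 0 716844 0) (P.cons (P.lf 6390 0 0) P.nil)) (P.cons (P.cons (P.lf 0 67704 0) P.nil) P.nil)))))) 46245)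
 (EL.cons 8 (TM.mk (P.cons (P.cons (P.lf 0 197731323 0) (P.cons (P.lf 1823241 0 0) (P.cons (P.lf 121971 0 0) (P.cons (P.lf 0 40620 0) (P.cons (P.lf 0 3 0) (P.cons (P.lf 0 0 0) P.nil)))))) (P.cons (P.cons (P.lf 0 251378688 0) (P.cons (P.lf 4642689 0 0) (P.cons (P.lf 310887 0 0) (P.cons (P.lf 0 103401 0) (P.cons (P.lf 0 18 0) P.nil))))) (P.cons (P.cons (P.lf 3017916 0 0) (P.cons (P.lf 2942835 0 0) (P.cons (P.lf 198024 0 0) (P.cons (P.lf 0 65412 0) P.nil)))) (P.cons (P.cons (P.lf 6570300 0 0) (P.cons (P.lf 0 91977 0) (P.cons (P.lf 0 4452 0) P.nil))) (P.cons (P.cons (P.lf 448143 0 0) (P.cons (P.lf 0 102975 0) P.nil)) (P.cons (P.cons (P.lf 0 51171 0) P.nil) P.nil)))))) 46743)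
 (EL.cons 11 (TM.mk (P.cons (P.cons (P.lf 0 4190736 0) (P.cons (P.lf 0 649002 0) (P.cons (P.lf 312546 0 0) (P.cons (P.lf 11844 0 0) (P.cons (P.lf 0 2955 0) (P.cons (P.lf 0 0 0) P.nil)))))) (P.cons (P.cons (P.lf 0 10749048 0) (P.cons (P.lf 0 1665342 0) (P.cons (P.lf 801519 0 0) (P.cons (P.lf 30435 0 0) (P.cons (P.lf 0 7572 0) P.nil))))) (P.cons (P.cons (P.lf 0 7017078 0) (P.cons (P.lf 0 1089345 0) (P.cons (P.lf 522753 0 0) (P.cons (P.lf 20058 0 0) P.nil)))) (P.cons (P.cons (P.lf 0 59670 0) (P.cons (P.lf 0 13140 0) (P.cons (P.lf 3582 0 0) P.nil))) (P.cons (P.cons (P.lf 136125 0 0) (P.cons (P.lf 18345 0 0) P.nil)) (P.cons (P.cons (P.lf 13236 0 0) P.nil) P.nil)))))) 27306)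
 EL.nil)))
noncomputable def S24_53_364_512_27 : EL := (EL.cons 13 (TM.mk (P.lf 0 4294967296 0) 0)
 EL.nil)
noncomputable def S24_53_364_512_28 : EL := (EL.cons 13 (TM.mk (P.cons (P.cons (P.lf 2862044390 0 0) (P.cons (P.lf 118252 0 0) (P.cons (P.lf 7904 0 0) (P.lf 0 2632 0)))) (P.cons (P.cons (P.lf 0 49585518 0) (P.cons (P.lf 459264 0 0) (P.cons (P.lf 30704 0 0) (P.lf 0 10232 0)))) (P.cons (P.cons (P.lf 0 33771569 0) (P.cons (P.lf 608284 0 0) (P.cons (P.lf 40668 0 0) (P.lf 0 13556 0)))) (P.cons (P.cons (P.lf 0 2036012 0) (P.cons (P.lf 292024 0 0) (P.cons (P.lf 19524 0 0) P.nil))) (P.cons (P.cons (P.lf 28255 0 0) (P.cons (P.lf 23256 0 0) P.nil)) (P.cons (P.cons (P.lf 11517 0 0) P.nil) P.nil)))))) 11218)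
 EL.nil)
noncomputable def S24_53_364_512_29 : EL := (EL.cons 13 (TM.mk (P.cons (P.cons (P.lf 0 1907185206 0) (P.cons (P.lf 0 157599 0) (P.cons (P.lf 0 10537 0) (P.cons (P.lf 3507 0 0) (P.cons (P.lf 0 0 0) (P.cons (P.lf 0 0 0) P.nil)))))) (P.cons (P.cons (P.lf 66084765 0 0) (P.cons (P.lf 0 609350 0) (P.cons (P.lf 0 40763 0) (P.cons (P.lf 13572 0 0) (P.cons (P.lf 1 0 0) P.nil))))) (P.cons (P.cons (P.lf 44436365 0 0) (P.cons (P.lf 0 798222 0) (P.cons (P.lf 0 53449 0) (P.cons (P.lf 17777 0 0) P.nil)))) (P.cons (P.cons (P.lf 1933693 0 0) (P.cons (P.lf 0 367813 0) (P.cons (P.lf 0 24737 0) P.nil))) (P.cons (P.cons (P.lf 0 350216 0) (P.cons (P.lf 0 14251 0) P.nil)) (P.cons (P.cons (P.lf 0 46715 0) P.nil) P.nil)))))) 26259)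
 EL.nil)
noncomputable def S24_53_364_512_30 : EL := (EL.cons 13 (TM.mk (P.cons (P.lf 3836465176 0 0) (P.cons (P.lf 0 13136460 0) (P.cons (P.lf 0 8918380 0) (P.cons (P.lf 0 536324 0) (P.cons (P.lf 0 15116 0) (P.cons (P.lf 172 0 0) P.nil)))))) 376)
 EL.nil)
noncomputable def S24_53_364_512_31 : EL := (EL.cons 13 (TM.mk (P.cons (P.cons (P.lf 0 2556511581 0) (P.cons (P.lf 0 105628 0) (P.cons (P.lf 0 7060 0) (P.lf 2351 0 0)))) (P.cons (P.cons (P.lf 53045862 0 0) (P.cons (P.lf 0 409874 0) (P.cons (P.lf 0 27402 0) (P.lf 9131 0 0)))) (P.cons (P.cons (P.lf 35957635 0 0) (P.cons (P.lf 0 541697 0) (P.cons (P.lf 0 36216 0) (P.lf 12072 0 0)))) (P.cons (P.cons (P.lf 1969796 0 0) (P.cons (P.lf 0 258020 0) (P.cons (P.lf 0 17250 0) P.nil))) (P.cons (P.cons (P.lf 0 97710 0) (P.cons (P.lf 0 18559 0) P.nil)) (P.cons (P.cons (P.lf 0 18935 0) P.nil) P.nil)))))) 11999)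
 EL.nil)
noncomputable def S24_53_364_512_32 : EL := (EL.cons 13 (TM.mk (P.cons (P.cons (P.lf 1703586808 0 0) (P.cons (P.lf 140774 0 0) (P.cons (P.lf 9412 0 0) (P.cons (P.lf 0 3132 0) (P.cons (P.lf 0 0 0) (P.cons (P.lf 0 0 0) P.nil)))))) (P.cons (P.cons (P.lf 0 64863255 0) (P.cons (P.lf 543817 0 0) (P.cons (P.lf 36379 0 0) (P.cons (P.lf 0 12112 0) (P.cons (P.lf 0 0 0) P.nil))))) (P.cons (P.cons (P.lf 0 43450726 0) (P.cons (P.lf 710818 0 0) (P.cons (P.lf 47596 0 0) (P.cons (P.lf 0 15830 0) P.nil)))) (P.cons (P.cons (P.lf 0 1692285 0) (P.cons (P.lf 324821 0 0) (P.cons (P.lf 21846 0 0) P.nil))) (P.cons (P.cons (P.lf 412554 0 0) (P.cons (P.lf 9870 0 0) P.nil)) (P.cons (P.cons (P.lf 50529 0 0) P.nil) P.nil)))))) 26588)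
 EL.nil)
noncomputable def S24_53_364_512_33 : EL := (EL.cons 14 (TM.mk (P.lf 8589934592 0 0) 0)
 EL.nil)
noncomputable def S24_53_364_512_34 : EL := (EL.cons 14 (TM.mk (P.cons (P.cons (P.lf 0 5724088780 0) (P.cons (P.lf 0 236504 0) (P.cons (P.lf 0 15808 0) (P.lf 5264 0 0)))) (P.cons (P.cons (P.lf 99171036 0 0) (P.cons (P.lf 0 918528 0) (P.cons (P.lf 0 61408 0) (P.lf 20464 0 0)))) (P.cons (P.cons (P.lf 67543138 0 0) (P.cons (P.lf 0 1216568 0) (P.cons (P.lf 0 81336 0) (P.lf 27112 0 0)))) (P.cons (P.cons (P.lf 4072024 0 0) (P.cons (P.lf 0 584048 0) (P.cons (P.lf 0 39048 0) P.nil))) (P.cons (P.cons (P.lf 0 56510 0) (P.cons (P.lf 0 46512 0) P.nil)) (P.cons (P.cons (P.lf 0 23034 0) P.nil) P.nil)))))) 22436)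
 EL.nil)
noncomputable def S24_53_364_512_35 : EL := (EL.cons 14 (TM.mk (P.cons (P.cons (P.lf 3814370412 0 0) (P.cons (P.lf 315198 0 0) (P.cons (P.lf 21074 0 0) (P.cons (P.lf 0 7014 0) (P.cons (P.lf 0 0 0) (P.cons (P.lf 0 0 0) P.nil)))))) (P.cons (P.cons (P.lf 0 132169530 0) (P.cons (P.lf 1218700 0 0) (P.cons (P.lf 81526 0 0) (P.cons (P.lf 0 27144 0) (P.cons (P.lf 0 2 0) P.nil))))) (P.cons (P.cons (P.lf 0 88872730 0) (P.cons (P.lf 1596444 0 0) (P.cons (P.lf 106898 0 0) (P.cons (P.lf 0 35554 0) P.nil)))) (P.cons (P.cons (P.lf 0 3867386 0) (P.cons (P.lf 735626 0 0) (P.cons (P.lf 49474 0 0) P.nil))) (P.cons (P.cons (P.lf 700432 0 0) (P.cons (P.lf 28502 0 0) P.nil)) (P.cons (P.cons (P.lf 93430 0 0) P.nil) P.nil)))))) 52518)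
 EL.nil)
noncomputable def S24_53_364_512_36 : EL := (EL.cons 14 (TM.mk (P.cons (P.lf 0 7672930352 0) (P.cons (P.lf 26272920 0 0) (P.cons (P.lf 17836760 0 0) (P.cons (P.lf 1072648 0 0) (P.cons (P.lf 30232 0 0) (P.cons (P.lf 0 344 0) P.nil)))))) 752)
 EL.nil)
noncomputable def S24_53_364_512_37 : EL := (EL.cons 14 (TM.mk (P.cons (P.cons (P.lf 5113023162 0 0) (P.cons (P.lf 211256 0 0) (P.cons (P.lf 14120 0 0) (P.lf 0 4702 0)))) (P.cons (P.cons (P.lf 0 106091724 0) (P.cons (P.lf 819748 0 0) (P.cons (P.lf 54804 0 0) (P.lf 0 18262 0)))) (P.cons (P.cons (P.lf 0 71915270 0) (P.cons (P.lf 1083394 0 0) (P.cons (P.lf 72432 0 0) (P.lf 0 24144 0)))) (P.cons (P.cons (P.lf 0 3939592 0) (P.cons (P.lf 516040 0 0) (P.cons (P.lf 34500 0 0) P.nil))) (P.cons (P.cons (P.lf 195420 0 0) (P.cons (P.lf 37118 0 0) P.nil)) (P.cons (P.cons (P.lf 37870 0 0) P.nil) P.nil)))))) 23998)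
 EL.nil)
noncomputable def S24_53_364_512_38 : EL := (EL.cons 14 (TM.mk (P.cons (P.cons (P.lf 0 3407173616 0) (P.cons (P.lf 0 281548 0) (P.cons (P.lf 0 18824 0) (P.cons (P.lf 6264 0 0) (P.cons (P.lf 0 0 0) (P.cons (P.lf 0 0 0) P.nil)))))) (P.cons (P.cons (P.lf 129726510 0 0) (P.cons (P.lf 0 1087634 0) (P.cons (P.lf 0 72758 0) (P.cons (P.lf 24224 0 0) (P.cons (P.lf 0 0 0) P.nil))))) (P.cons (P.cons (P.lf 86901452 0 0) (P.cons (P.lf 0 1421636 0) (P.cons (P.lf 0 95192 0) (P.cons (P.lf 31660 0 0) P.nil)))) (P.cons (P.cons (P.lf 3384570 0 0) (P.cons (P.lf 0 649642 0) (P.cons (P.lf 0 43692 0) P.nil))) (P.cons (P.cons (P.lf 0 825108 0) (P.cons (P.lf 0 19740 0) P.nil)) (P.cons (P.cons (P.lf 0 101058 0) P.nil) P.nil)))))) 53176)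
 EL.nil)
noncomputable def S24_53_364_512_39 : EL := (EL.cons 14 (TM.mk (P.cons (P.lf 6853819380 0 0) (P.cons (P.lf 0 46936394 0) (P.cons (P.lf 0 31784894 0) (P.cons (P.lf 0 1807168 0) (P.cons (P.lf 0 10410 0) (P.cons (P.lf 5254 0 0) P.nil)))))) 1636)
 EL.nil)
noncomputable def S24_53_364_512_40 : EL := (EL.cons 14 (TM.mk (P.cons (P.cons (P.lf 0 4567190842 0) (P.cons (P.lf 0 188704 0) (P.cons (P.lf 0 12612 0) (P.lf 4200 0 0)))) (P.cons (P.cons (P.lf 110404618 0 0) (P.cons (P.lf 0 731590 0) (P.cons (P.lf 0 48910 0) (P.lf 16298 0 0)))) (P.cons (P.cons (P.lf 74530636 0 0) (P.cons (P.lf 0 964792 0) (P.cons (P.lf 0 64502 0) (P.lf 21500 0 0)))) (P.cons (P.cons (P.lf 3717250 0 0) (P.cons (P.lf 0 455908 0) (P.cons (P.lf 0 30480 0) P.nil))) (P.cons (P.cons (P.lf 0 331192 0) (P.cons (P.lf 0 29224 0) P.nil)) (P.cons (P.cons (P.lf 0 50968 0) P.nil) P.nil)))))) 24772)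
 EL.nil)
noncomputable def S24_53_364_512_41 : EL := (EL.cons 14 (TM.mk (P.cons (P.cons (P.lf 3043446438 0 0) (P.cons (P.lf 251492 0 0) (P.cons (P.lf 16814 0 0) (P.cons (P.lf 0 5596 0) (P.cons (P.lf 0 0 0) (P.cons (P.lf 0 0 0) P.nil)))))) (P.cons (P.cons (P.lf 0 126298852 0) (P.cons (P.lf 970664 0 0) (P.cons (P.lf 64932 0 0) (P.cons (P.lf 0 21618 0) (P.cons (P.lf 0 0 0) P.nil))))) (P.cons (P.cons (P.lf 0 84302554 0) (P.cons (P.lf 1265960 0 0) (P.cons (P.lf 84768 0 0) (P.cons (P.lf 0 28192 0) P.nil)))) (P.cons (P.cons (P.lf 0 2913550 0) (P.cons (P.lf 573648 0 0) (P.cons (P.lf 38584 0 0) P.nil))) (P.cons (P.cons (P.lf 932032 0 0) (P.cons (P.lf 12556 0 0) P.nil)) (P.cons (P.cons (P.lf 106220 0 0) P.nil) P.nil)))))) 52716)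
 EL.nil)
noncomputable def S24_53_364_512_42 : EL := (EL.cons 14 (TM.mk (P.cons (P.lf 0 6122151242 0) (P.cons (P.lf 62888666 0 0) (P.cons (P.lf 42479956 0 0) (P.cons (P.lf 2275422 0 0) (P.cons (P.lf 0 43968 0) (P.cons (P.lf 0 12886 0) P.nil)))))) 2488)
 EL.nil)
noncomputable def S24_53_364_512_43 : EL := (EL.cons 14 (TM.mk (P.cons (P.cons (P.lf 4079627948 0 0) (P.cons (P.lf 168558 0 0) (P.cons (P.lf 11266 0 0) (P.lf 0 3750 0)))) (P.cons (P.cons (P.lf 0 112587630 0) (P.cons (P.lf 652914 0 0) (P.cons (P.lf 43650 0 0) (P.lf 0 14546 0)))) (P.cons (P.cons (P.lf 0 75720204 0) (P.cons (P.lf 859168 0 0) (P.cons (P.lf 57440 0 0) (P.lf 0 19146 0)))) (P.cons (P.cons (P.lf 0 3433528 0) (P.cons (P.lf 402746 0 0) (P.cons (P.lf 26926 0 0) P.nil))) (P.cons (P.cons (P.lf 459678 0 0) (P.cons (P.lf 22614 0 0) P.nil)) (P.cons (P.cons (P.lf 62110 0 0) P.nil) P.nil)))))) 25648)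
 EL.nil)
noncomputable def S24_53_364_512_44 : EL := (EL.cons 14 (TM.mk (P.cons (P.cons (P.lf 0 2718548354 0) (P.cons (P.lf 0 224644 0) (P.cons (P.lf 0 15018 0) (P.cons (P.lf 4998 0 0) (P.cons (P.lf 0 0 0) (P.cons (P.lf 0 0 0) P.nil)))))) (P.cons (P.cons (P.lf 122124622 0 0) (P.cons (P.lf 0 866274 0) (P.cons (P.lf 0 57950 0) (P.cons (P.lf 19294 0 0) (P.cons (P.lf 0 0 0) P.nil))))) (P.cons (P.cons (P.lf 81236312 0 0) (P.cons (P.lf 0 1127324 0) (P.cons (P.lf 0 75486 0) (P.cons (P.lf 25106 0 0) P.nil)))) (P.cons (P.cons (P.lf 2462460 0 0) (P.cons (P.lf 0 506490 0) (P.cons (P.lf 0 34068 0) P.nil))) (P.cons (P.cons (P.lf 0 1021558 0) (P.cons (P.lf 0 6710 0) P.nil)) (P.cons (P.cons (P.lf 0 109172 0) P.nil) P.nil)))))) 52392)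
 EL.nil)
noncomputable def S24_53_364_512_45 : EL := (EL.cons 14 (TM.mk (P.cons (P.cons (P.lf 0 2541788256 0) (P.cons (P.lf 0 315058 0) (P.cons (P.lf 0 21070 0) (P.cons (P.lf 7010 0 0) (P.cons (P.lf 0 0 0) (P.cons (P.lf 0 0 0) P.nil)))))) (P.cons (P.cons (P.lf 132111038 0 0) (P.cons (P.lf 0 1212702 0) (P.cons (P.lf 0 81174 0) (P.cons (P.lf 27004 0 0) (P.cons (P.lf 4 0 0) P.nil))))) (P.cons (P.cons (P.lf 87688974 0 0) (P.cons (P.lf 0 1570914 0) (P.cons (P.lf 0 105354 0) (P.cons (P.lf 34964 0 0) P.nil)))) (P.cons (P.cons (P.lf 2320008 0 0) (P.cons (P.lf 0 693054 0) (P.cons (P.lf 0 46912 0) P.nil))) (P.cons (P.cons (P.lf 0 1297956 0) (P.cons (P.lf 3942 0 0) P.nil)) (P.cons (P.cons (P.lf 0 136070 0) P.nil) P.nil)))))) 79852)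
 EL.nil)
noncomputable def S24_53_364_512_46 : EL := (EL.cons 15 (TM.mk (P.lf 4294967296 0 0) 0)
 EL.nil)
noncomputable def S24_53_364_512_47 : EL := (EL.cons 15 (TM.mk (P.cons (P.cons (P.lf 0 2862044390 0) (P.cons (P.lf 0 118252 0) (P.cons (P.lf 0 7904 0) (P.lf 2632 0 0)))) (P.cons (P.cons (P.lf 49585518 0 0) (P.cons (P.lf 0 459264 0) (P.cons (P.lf 0 30704 0) (P.lf 10232 0 0)))) (P.cons (P.cons (P.lf 33771569 0 0) (P.cons (P.lf 0 608284 0) (P.cons (P.lf 0 40668 0) (P.lf 13556 0 0)))) (P.cons (P.cons (P.lf 2036012 0 0) (P.cons (P.lf 0 292024 0) (P.cons (P.lf 0 19524 0) P.nil))) (P.cons (P.cons (P.lf 0 28255 0) (P.cons (P.lf 0 23256 0) P.nil)) (P.cons (P.cons (P.lf 0 11517 0) P.nil) P.nil)))))) 11218)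
 EL.nil)
noncomputable def S24_53_364_512_48 : EL := (EL.cons 15 (TM.mk (P.cons (P.cons (P.lf 1907185206 0 0) (P.cons (P.lf 157599 0 0) (P.cons (P.lf 10537 0 0) (P.cons (P.lf 0 3507 0) (P.cons (P.lf 0 0 0) (P.cons (P.lf 0 0 0) P.nil)))))) (P.cons (P.cons (P.lf 0 66084765 0) (P.cons (P.lf 609350 0 0) (P.cons (P.lf 40763 0 0) (P.cons (P.lf 0 13572 0) (P.cons (P.lf 0 1 0) P.nil))))) (P.cons (P.cons (P.lf 0 44436365 0) (P.cons (P.lf 798222 0 0) (P.cons (P.lf 53449 0 0) (P.cons (P.lf 0 17777 0) P.nil)))) (P.cons (P.cons (P.lf 0 1933693 0) (P.cons (P.lf 367813 0 0) (P.cons (P.lf 24737 0 0) P.nil))) (P.cons (P.cons (P.lf 350216 0 0) (P.cons (P.lf 14251 0 0) P.nil)) (P.cons (P.cons (P.lf 46715 0 0) P.nil) P.nil)))))) 26259)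
 EL.nil)
noncomputable def S24_53_364_512 : SL := (SL.cons S24_53_364_512_0 (SL.cons S24_53_364_512_1 (SL.cons S24_53_364_512_2 (SL.cons S24_53_364_512_3 (SL.cons S24_53_364_512_4 (SL.cons S24_53_364_512_5 (SL.cons S24_53_364_512_6 (SL.cons S24_53_364_512_7 (SL.cons S24_53_364_512_8 (SL.cons S24_53_364_512_9 (SL.cons S24_53_364_512_10 (SL.cons S24_53_364_512_11 (SL.cons S24_53_364_512_12 (SL.cons S24_53_364_512_13 (SL.cons S24_53_364_512_14 (SL.cons S24_53_364_512_15 (SL.cons S24_53_364_512_16 (SL.cons S24_53_364_512_17 (SL.cons S24_53_364_512_18 (SL.cons S24_53_364_512_19 (SL.cons S24_53_364_512_20 (SL.cons S24_53_364_512_21 (SL.cons S24_53_364_512_22 (SL.cons S24_53_364_512_23 (SL.cons S24_53_364_512_24 (SL.cons S24_53_364_512_25 (SL.cons S24_53_364_512_26 (SL.cons S24_53_364_512_27 (SL.cons S24_53_364_512_28 (SL.cons S24_53_364_512_29 (SL.cons S24_53_364_512_30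 (SL.cons S24_53_364_512_31 (SL.cons S24_53_364_512_32 (SL.cons S24_53_364_512_33 (SL.cons S24_53_364_512_34 (SL.cons S24_53_364_512_35 (SL.cons S24_53_364_512_36 (SL.cons S24_53_364_512_37 (SL.cons S24_53_364_512_38 (SL.cons S24_53_364_512_39 (SL.cons S24_53_364_512_40 (SL.cons S24_53_364_512_41 (SL.cons S24_53_364_512_42 (SL.cons S24_53_364_512_43 (SL.cons S24_53_364_512_44 (SL.cons S24_53_364_512_45 (SL.cons S24_53_364_512_46 (SL.cons S24_53_364_512_47 (SL.cons S24_53_364_512_48 SL.nil)))))))))))))))))))))))))))))))))))))))))))))))))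
noncomputable def S24_53_512_660_0 : EL := (EL.cons 0 (TM.mk (P.cons (P.lf 2431852174 0 0) (P.cons (P.lf 41252690 0 0) (P.cons (P.lf 27935941 0 0) (P.cons (P.lf 1588331 0 0) (P.cons (P.lf 9149 0 0) (P.cons (P.lf 0 4617 0) P.nil)))))) 1444)
 (EL.cons 1 (TM.mk (P.cons (P.lf 0 184731487 0) (P.cons (P.lf 0 238513991 0) (P.cons (P.lf 0 5904390 0) (P.cons (P.lf 658029 0 0) (P.cons (P.lf 68962 0 0) (P.cons (P.lf 2799 0 0) P.nil)))))) 432)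
 (EL.cons 5 (TM.mk (P.cons (P.lf 6436785858 0 0) (P.cons (P.lf 0 14667624 0) (P.cons (P.lf 0 9932778 0) (P.cons (P.lf 0 564744 0) (P.cons (P.lf 0 3254 0) (P.cons (P.lf 1644 0 0) P.nil)))))) 189)
 (EL.cons 9 (TM.mk (P.lf 6442450944 0 0) 2)
 EL.nil))))
noncomputable def S24_53_512_660_1 : EL := (EL.cons 0 (TM.mk (P.cons (P.cons (P.lf 0 1673339097 0) (P.cons (P.lf 430598 0 0) (P.cons (P.lf 0 28773 0) (P.lf 0 9579 0)))) (P.cons (P.cons (P.lf 0 135070532 0) (P.cons (P.lf 1667815 0 0) (P.cons (P.lf 0 111497 0) (P.lf 0 37149 0)))) (P.cons (P.cons (P.lf 0 88348207 0) (P.cons (P.lf 2194280 0 0) (P.cons (P.lf 0 146697 0) (P.lf 0 48896 0)))) (P.cons (P.cons (P.lf 0 1478648 0) (P.cons (P.lf 1027874 0 0) (P.cons (P.lf 0 68709 0) P.nil))) (P.cons (P.cons (P.lf 1095856 0 0) (P.cons (P.lf 56951 0 0) P.nil)) (P.cons (P.cons (P.lf 106248 0 0) P.nil) P.nil)))))) 112509)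
 (EL.cons 1 (TM.mk (P.cons (P.cons (P.lf 427705393 0 0) (P.cons (P.lf 0 2871780 0) (P.cons (P.lf 192003 0 0) (P.lf 64002 0 0)))) (P.cons (P.cons (P.lf 540586462 0 0) (P.cons (P.lf 0 7372891 0) (P.cons (P.lf 492935 0 0) (P.lf 164313 0 0)))) (P.cons (P.cons (P.lf 0 6635165 0) (P.cons (P.lf 0 4831173 0) (P.cons (P.lf 323000 0 0) (P.lf 107669 0 0)))) (P.cons (P.cons (P.lf 0 8925017 0) (P.cons (P.lf 0 65328 0) (P.cons (P.lf 4368 0 0) P.nil))) (P.cons (P.cons (P.lf 0 553010 0) (P.cons (P.lf 84092 0 0) P.nil)) (P.cons (P.cons (P.lf 30801 0 0) P.nil) P.nil)))))) 38923)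
 (EL.cons 5 (TM.mk (P.cons (P.cons (P.lf 0 4270930451 0) (P.cons (P.lf 0 354134 0) (P.cons (P.lf 23672 0 0) (P.lf 7888 0 0)))) (P.cons (P.cons (P.lf 130689361 0 0) (P.cons (P.lf 0 1373760 0) (P.cons (P.lf 91842 0 0) (P.lf 30608 0 0)))) (P.cons (P.cons (P.lf 86664007 0 0) (P.cons (P.lf 0 1814276 0) (P.cons (P.lf 121294 0 0) (P.lf 40430 0 0)))) (P.cons (P.cons (P.lf 2949834 0 0) (P.cons (P.lf 0 861912 0) (P.cons (P.lf 57622 0 0) P.nil))) (P.cons (P.cons (P.lf 0 520274 0) (P.cons (P.lf 0 59792 0) P.nil)) (P.cons (P.cons (P.lf 0 58855 0) P.nil) P.nil)))))) 36654)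
 (EL.cons 9 (TM.mk (P.cons (P.cons (P.lf 0 4293437157 0) (P.cons (P.lf 0 177378 0) (P.cons (P.lf 11856 0 0) (P.lf 3948 0 0)))) (P.cons (P.cons (P.lf 72939069 0 0) (P.cons (P.lf 0 688896 0) (P.cons (P.lf 46056 0 0) (P.lf 15348 0 0)))) (P.cons (P.cons (P.lf 48751165 0 0) (P.cons (P.lf 0 912426 0) (P.cons (P.lf 61002 0 0) (P.lf 20334 0 0)))) (P.cons (P.cons (P.lf 2138898 0 0) (P.cons (P.lf 0 438036 0) (P.cons (P.lf 29286 0 0) P.nil))) (P.cons (P.cons (P.lf 0 115270 0) (P.cons (P.lf 0 34884 0) P.nil)) (P.cons (P.cons (P.lf 0 18583 0) P.nil) P.nil)))))) 16846)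
 (EL.cons 2 (TM.mk (P.cons (P.cons (P.lf 6600453 0 0) (P.cons (P.lf 0 1021913 0) (P.cons (P.lf 0 492325 0) (P.cons (P.lf 18630 0 0) (P.lf 4657 0 0))))) (P.cons (P.cons (P.lf 17066818 0 0) (P.cons (P.lf 0 2642369 0) (P.cons (P.lf 0 1273007 0) (P.cons (P.lf 48172 0 0) (P.lf 12040 0 0))))) (P.cons (P.cons (P.lf 11498931 0 0) (P.cons (P.lf 0 1780320 0) (P.cons (P.lf 0 857700 0) (P.cons (P.lf 32453 0 0) P.nil)))) (P.cons (P.cons (P.lf 577710 0 0) (P.cons (P.lf 0 89443 0) (P.cons (P.lf 0 43087 0) P.nil))) (P.cons (P.cons (P.lf 0 27779 0) (P.cons (P.lf 4300 0 0) P.nil)) (P.cons (P.cons (P.lf 0 5141 0) P.nil) P.nil)))))) 15408)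
 (EL.cons 6 (TM.mk (P.cons (P.cons (P.lf 202413 0 0) (P.cons (P.lf 0 31338 0) (P.cons (P.lf 0 15096 0) (P.cons (P.lf 570 0 0) (P.lf 141 0 0))))) (P.cons (P.cons (P.lf 786111 0 0) (P.cons (P.lf 0 121707 0) (P.cons (P.lf 0 58635 0) (P.cons (P.lf 2217 0 0) (P.lf 552 0 0))))) (P.cons (P.cons (P.lf 1041183 0 0) (P.cons (P.lf 0 161199 0) (P.cons (P.lf 0 77661 0) (P.cons (P.lf 2937 0 0) P.nil)))) (P.cons (P.cons (P.lf 499851 0 0) (P.cons (P.lf 0 77388 0) (P.cons (P.lf 0 37281 0) P.nil))) (P.cons (P.cons (P.lf 39810 0 0) (P.cons (P.lf 0 6162 0) P.nil)) (P.cons (P.cons (P.lf 720 0 0) P.nil) P.nil)))))) 6150)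
 EL.nil))))))
noncomputable def S24_53_512_660_2 : EL := (EL.cons 0 (TM.mk (P.cons (P.cons (P.lf 1150270716 0 0) (P.cons (P.lf 0 571019 0) (P.cons (P.lf 38124 0 0) (P.cons (P.lf 12704 0 0) (P.cons (P.lf 0 0 0) (P.cons (P.lf 0 0 0) P.nil)))))) (P.cons (P.cons (P.lf 160515524 0 0) (P.cons (P.lf 0 2194499 0) (P.cons (P.lf 146503 0 0) (P.cons (P.lf 48907 0 0) (P.cons (P.lf 0 1 0) P.nil))))) (P.cons (P.cons (P.lf 101803562 0 0) (P.cons (P.lf 0 2831689 0) (P.cons (P.lf 188663 0 0) (P.cons (P.lf 63180 0 0) P.nil)))) (P.cons (P.cons (P.lf 0 2398600 0) (P.cons (P.lf 0 1230311 0) (P.cons (P.lf 81104 0 0) P.nil))) (P.cons (P.cons (P.lf 0 2767259 0) (P.cons (P.lf 26045 0 0) P.nil)) (P.cons (P.cons (P.lf 0 182015 0) P.nil) P.nil)))))) 272464)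
 (EL.cons 1 (TM.mk (P.cons (P.cons (P.lf 0 488026299 0) (P.cons (P.lf 3810901 0 0) (P.cons (P.lf 0 254633 0) (P.cons (P.lf 0 84953 0) (P.cons (P.lf 0 5 0) (P.cons (P.lf 0 0 0) P.nil)))))) (P.cons (P.cons (P.lf 0 607697439 0) (P.cons (P.lf 9675720 0 0) (P.cons (P.lf 0 645881 0) (P.cons (P.lf 0 215773 0) (P.cons (P.lf 0 39 0) P.nil))))) (P.cons (P.cons (P.lf 24740994 0 0) (P.cons (P.lf 6060875 0 0) (P.cons (P.lf 0 402552 0) (P.cons (P.lf 0 135426 0) P.nil)))) (P.cons (P.cons (P.lf 17404449 0 0) (P.cons (P.lf 0 284178 0) (P.cons (P.lf 22517 0 0) P.nil))) (P.cons (P.cons (P.lf 650415 0 0) (P.cons (P.lf 0 243692 0) P.nil)) (P.cons (P.cons (P.lf 0 187414 0) P.nil) P.nil)))))) 109014)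
 (EL.cons 5 (TM.mk (P.cons (P.cons (P.lf 2833789482 0 0) (P.cons (P.lf 470981 0 0) (P.cons (P.lf 0 31468 0) (P.cons (P.lf 0 10490 0) (P.cons (P.lf 0 0 0) (P.cons (P.lf 0 0 0) P.nil)))))) (P.cons (P.cons (P.lf 0 167251955 0) (P.cons (P.lf 1816346 0 0) (P.cons (P.lf 0 121314 0) (P.cons (P.lf 0 40479 0) (P.cons (P.lf 0 1 0) P.nil))))) (P.cons (P.cons (P.lf 0 108903100 0) (P.cons (P.lf 2364388 0 0) (P.cons (P.lf 0 157704 0) (P.cons (P.lf 0 52734 0) P.nil)))) (P.cons (P.cons (P.lf 0 1127073 0) (P.cons (P.lf 1063764 0 0) (P.cons (P.lf 0 70463 0) P.nil))) (P.cons (P.cons (P.lf 1631017 0 0) (P.cons (P.lf 16039 0 0) P.nil)) (P.cons (P.cons (P.lf 126537 0 0) P.nil) P.nil)))))) 90089)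
 (EL.cons 9 (TM.mk (P.cons (P.cons (P.lf 2861271708 0 0) (P.cons (P.lf 236419 0 0) (P.cons (P.lf 0 15796 0) (P.cons (P.lf 0 5262 0) (P.cons (P.lf 0 0 0) (P.cons (P.lf 0 0 0) P.nil)))))) (P.cons (P.cons (P.lf 0 97217443 0) (P.cons (P.lf 914184 0 0) (P.cons (P.lf 0 61078 0) (P.cons (P.lf 0 20371 0) (P.cons (P.lf 0 1 0) P.nil))))) (P.cons (P.cons (P.lf 0 64152606 0) (P.cons (P.lf 1197850 0 0) (P.cons (P.lf 0 79960 0) (P.cons (P.lf 0 26710 0) P.nil)))) (P.cons (P.cons (P.lf 0 1746961 0) (P.cons (P.lf 552634 0 0) (P.cons (P.lf 0 36727 0) P.nil))) (P.cons (P.cons (P.lf 570979 0 0) (P.cons (P.lf 22315 0 0) P.nil)) (P.cons (P.cons (P.lf 54529 0 0) P.nil) P.nil)))))) 39013)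
 (EL.cons 2 (TM.mk (P.cons (P.cons (P.lf 0 8797471 0) (P.cons (P.lf 1361700 0 0) (P.cons (P.lf 656280 0 0) (P.cons (P.lf 0 24800 0) (P.cons (P.lf 0 6210 0) (P.cons (P.lf 0 0 0) P.nil)))))) (P.cons (P.cons (P.lf 0 22598190 0) (P.cons (P.lf 3496415 0 0) (P.cons (P.lf 1686110 0 0) (P.cons (P.lf 0 63579 0) (P.cons (P.lf 0 15969 0) P.nil))))) (P.cons (P.cons (P.lf 0 14840105 0) (P.cons (P.lf 2291467 0 0) (P.cons (P.lf 1108282 0 0) (P.cons (P.lf 0 41349 0) P.nil)))) (P.cons (P.cons (P.lf 0 246954 0) (P.cons (P.lf 30009 0 0) (P.cons (P.lf 20238 0 0) P.nil))) (P.cons (P.cons (P.lf 235231 0 0) (P.cons (P.lf 0 42193 0) P.nil)) (P.cons (P.cons (P.lf 21948 0 0) P.nil) P.nil)))))) 50410)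
 (EL.cons 6 (TM.mk (P.cons (P.cons (P.lf 0 269784 0) (P.cons (P.lf 41754 0 0) (P.cons (P.lf 20124 0 0) (P.cons (P.lf 0 756 0) (P.cons (P.lf 0 186 0) (P.cons (P.lf 0 0 0) P.nil)))))) (P.cons (P.cons (P.lf 0 1043190 0) (P.cons (P.lf 161424 0 0) (P.cons (P.lf 77826 0 0) (P.cons (P.lf 0 2934 0) (P.cons (P.lf 0 732 0) P.nil))))) (P.cons (P.cons (P.lf 0 1366884 0) (P.cons (P.lf 211344 0 0) (P.cons (P.lf 102018 0 0) (P.cons (P.lf 0 3828 0) P.nil)))) (P.cons (P.cons (P.lf 0 630618 0) (P.cons (P.lf 97134 0 0) (P.cons (P.lf 47148 0 0) P.nil))) (P.cons (P.cons (P.lf 0 25470 0) (P.cons (P.lf 3426 0 0) P.nil)) (P.cons (P.cons (P.lf 8166 0 0) P.nil) P.nil)))))) 10986)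
 EL.nil))))))
noncomputable def S24_53_512_660_3 : EL := (EL.cons 0 (TM.mk (P.cons (P.lf 6023864689 0 0) (P.cons (P.lf 0 41252690 0) (P.cons (P.lf 0 27935941 0) (P.cons (P.lf 0 1588331 0) (P.cons (P.lf 0 9149 0) (P.cons (P.lf 4617 0 0) P.nil)))))) 1444)
 (EL.cons 1 (TM.mk (P.cons (P.lf 184731487 0 0) (P.cons (P.lf 238513991 0 0) (P.cons (P.lf 5904390 0 0) (P.cons (P.lf 0 658029 0) (P.cons (P.lf 0 68962 0) (P.cons (P.lf 0 2799 0) P.nil)))))) 432)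
 (EL.cons 5 (TM.mk (P.cons (P.lf 5665086 0 0) (P.cons (P.lf 14667624 0 0) (P.cons (P.lf 9932778 0 0) (P.cons (P.lf 564744 0 0) (P.cons (P.lf 3254 0 0) (P.cons (P.lf 0 1644 0) P.nil)))))) 182)
 EL.nil)))
noncomputable def S24_53_512_660_4 : EL := (EL.cons 0 (TM.mk (P.cons (P.cons (P.lf 0 4014479070 0) (P.cons (P.lf 0 165853 0) (P.cons (P.lf 11084 0 0) (P.lf 3691 0 0)))) (P.cons (P.cons (P.lf 95691983 0 0) (P.cons (P.lf 0 642999 0) (P.cons (P.lf 42987 0 0) (P.lf 14324 0 0)))) (P.cons (P.cons (P.lf 63733927 0 0) (P.cons (P.lf 0 847961 0) (P.cons (P.lf 56691 0 0) (P.lf 18896 0 0)))) (P.cons (P.cons (P.lf 2429989 0 0) (P.cons (P.lf 0 400700 0) (P.cons (P.lf 26789 0 0) P.nil))) (P.cons (P.cons (P.lf 0 344758 0) (P.cons (P.lf 0 25685 0) P.nil)) (P.cons (P.cons (P.lf 0 41111 0) P.nil) P.nil)))))) 21905)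
 (EL.cons 1 (TM.mk (P.cons (P.cons (P.lf 0 123110450 0) (P.cons (P.lf 0 5085 0) (P.cons (P.lf 339 0 0) (P.lf 112 0 0)))) (P.cons (P.cons (P.lf 0 156861215 0) (P.cons (P.lf 0 26319 0) (P.cons (P.lf 1758 0 0) (P.lf 585 0 0)))) (P.cons (P.cons (P.lf 163404 0 0) (P.cons (P.lf 0 51828 0) (P.cons (P.lf 3465 0 0) (P.lf 1153 0 0)))) (P.cons (P.cons (P.lf 2371586 0 0) (P.cons (P.lf 0 46951 0) (P.cons (P.lf 3138 0 0) P.nil))) (P.cons (P.cons (P.lf 159069 0 0) (P.cons (P.lf 0 17981 0) P.nil)) (P.cons (P.cons (P.lf 0 6733 0) P.nil) P.nil)))))) 6889)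
 (EL.cons 5 (TM.mk (P.cons (P.cons (P.lf 0 3775378 0) (P.cons (P.lf 0 154 0) (P.cons (P.lf 10 0 0) (P.lf 2 0 0)))) (P.cons (P.cons (P.lf 0 9710794 0) (P.cons (P.lf 0 1008 0) (P.cons (P.lf 66 0 0) (P.lf 22 0 0)))) (P.cons (P.cons (P.lf 0 6410562 0) (P.cons (P.lf 0 2644 0) (P.cons (P.lf 176 0 0) (P.lf 58 0 0)))) (P.cons (P.cons (P.lf 0 151032 0) (P.cons (P.lf 0 3540 0) (P.cons (P.lf 236 0 0) P.nil))) (P.cons (P.cons (P.lf 84154 0 0) (P.cons (P.lf 0 2494 0) P.nil)) (P.cons (P.cons (P.lf 8424 0 0) P.nil) P.nil)))))) 1796)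
 EL.nil)))
noncomputable def S24_53_512_660_5 : EL := (EL.cons 0 (TM.mk (P.cons (P.cons (P.lf 2675365904 0 0) (P.cons (P.lf 221057 0 0) (P.cons (P.lf 0 14769 0) (P.cons (P.lf 0 4918 0) (P.cons (P.lf 0 0 0) (P.cons (P.lf 0 0 0) P.nil)))))) (P.cons (P.cons (P.lf 0 109222388 0) (P.cons (P.lf 853272 0 0) (P.cons (P.lf 0 57007 0) (P.cons (P.lf 0 19012 0) (P.cons (P.lf 0 0 0) P.nil))))) (P.cons (P.cons (P.lf 0 71769028 0) (P.cons (P.lf 1113141 0 0) (P.cons (P.lf 0 74304 0) (P.cons (P.lf 0 24820 0) P.nil)))) (P.cons (P.cons (P.lf 0 1506534 0) (P.cons (P.lf 505035 0 0) (P.cons (P.lf 0 33560 0) P.nil))) (P.cons (P.cons (P.lf 843152 0 0) (P.cons (P.lf 11905 0 0) P.nil)) (P.cons (P.cons (P.lf 72910 0 0) P.nil) P.nil)))))) 45732)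
 (EL.cons 1 (TM.mk (P.cons (P.cons (P.lf 82044393 0 0) (P.cons (P.lf 6778 0 0) (P.cons (P.lf 0 451 0) (P.cons (P.lf 0 150 0) (P.cons (P.lf 0 0 0) (P.cons (P.lf 0 0 0) P.nil)))))) (P.cons (P.cons (P.lf 103143075 0 0) (P.cons (P.lf 34965 0 0) (P.cons (P.lf 0 2334 0) (P.cons (P.lf 0 778 0) (P.cons (P.lf 0 0 0) P.nil))))) (P.cons (P.cons (P.lf 0 2816420 0) (P.cons (P.lf 68407 0 0) (P.cons (P.lf 0 4567 0) (P.cons (P.lf 0 1524 0) P.nil)))) (P.cons (P.cons (P.lf 0 2806513 0) (P.cons (P.lf 61006 0 0) (P.cons (P.lf 0 4066 0) P.nil))) (P.cons (P.cons (P.lf 0 127796 0) (P.cons (P.lf 22100 0 0) P.nil)) (P.cons (P.cons (P.lf 27450 0 0) P.nil) P.nil)))))) 10553)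
 (EL.cons 5 (TM.mk (P.cons (P.cons (P.lf 2516022 0 0) (P.cons (P.lf 206 0 0) (P.cons (P.lf 0 12 0) (P.cons (P.lf 0 4 0) (P.cons (P.lf 0 0 0) (P.cons (P.lf 0 0 0) P.nil)))))) (P.cons (P.cons (P.lf 6428812 0 0) (P.cons (P.lf 1342 0 0) (P.cons (P.lf 0 88 0) (P.cons (P.lf 0 28 0) (P.cons (P.lf 0 0 0) P.nil))))) (P.cons (P.cons (P.lf 4133674 0 0) (P.cons (P.lf 3498 0 0) (P.cons (P.lf 0 232 0) (P.cons (P.lf 0 76 0) P.nil)))) (P.cons (P.cons (P.lf 0 46660 0) (P.cons (P.lf 4642 0 0) (P.cons (P.lf 0 308 0) P.nil))) (P.cons (P.cons (P.lf 0 109458 0) (P.cons (P.lf 3204 0 0) P.nil)) (P.cons (P.cons (P.lf 0 7748 0) P.nil) P.nil)))))) 3052)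
 EL.nil)))
noncomputable def S24_53_512_660_6 : EL := (EL.cons 12 (TM.mk (P.lf 8589934592 0 0) 0)
 (EL.cons 3 (TM.mk (P.cons (P.lf 0 3596686102 0) (P.cons (P.lf 12315431 0 0) (P.cons (P.lf 8360981 0 0) (P.cons (P.lf 502803 0 0) (P.cons (P.lf 14171 0 0) (P.cons (P.lf 0 161 0) P.nil)))))) 359)
 (EL.cons 7 (TM.mk (P.cons (P.lf 0 110298158 0) (P.cons (P.lf 0 142787903 0) (P.cons (P.lf 0 4270675 0) (P.cons (P.lf 30920 0 0) (P.cons (P.lf 10958 0 0) (P.cons (P.lf 627 0 0) P.nil)))))) 162)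
 EL.nil)))
noncomputable def S24_53_512_660_7 : EL := (EL.cons 12 (TM.mk (P.cons (P.cons (P.lf 0 5724582876 0) (P.cons (P.lf 0 236504 0) (P.cons (P.lf 15808 0 0) (P.lf 5264 0 0)))) (P.cons (P.cons (P.lf 97252092 0 0) (P.cons (P.lf 0 918528 0) (P.cons (P.lf 61408 0 0) (P.lf 20464 0 0)))) (P.cons (P.cons (P.lf 65001554 0 0) (P.cons (P.lf 0 1216568 0) (P.cons (P.lf 81336 0 0) (P.lf 27112 0 0)))) (P.cons (P.cons (P.lf 2851864 0 0) (P.cons (P.lf 0 584048 0) (P.cons (P.lf 39048 0 0) P.nil))) (P.cons (P.cons (P.lf 0 153694 0) (P.cons (P.lf 0 46512 0) P.nil)) (P.cons (P.cons (P.lf 0 24778 0) P.nil) P.nil)))))) 22436)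
 (EL.cons 3 (TM.mk (P.cons (P.cons (P.lf 2428391424 0 0) (P.cons (P.lf 0 198052 0) (P.cons (P.lf 13236 0 0) (P.lf 4408 0 0)))) (P.cons (P.cons (P.lf 31851141 0 0) (P.cons (P.lf 0 768512 0) (P.cons (P.lf 51378 0 0) (P.lf 17120 0 0)))) (P.cons (P.cons (P.lf 20601153 0 0) (P.cons (P.lf 0 1015680 0) (P.cons (P.lf 67904 0 0) (P.lf 22634 0 0)))) (P.cons (P.cons (P.lf 141329 0 0) (P.cons (P.lf 0 483786 0) (P.cons (P.lf 32342 0 0) P.nil))) (P.cons (P.cons (P.lf 0 270556 0) (P.cons (P.lf 0 34798 0) P.nil)) (P.cons (P.cons (P.lf 0 26612 0) P.nil) P.nil)))))) 47128)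
 (EL.cons 7 (TM.mk (P.cons (P.cons (P.lf 0 291189455 0) (P.cons (P.lf 3447543 0 0) (P.cons (P.lf 0 230494 0) (P.lf 0 76831 0)))) (P.cons (P.cons (P.lf 0 369289318 0) (P.cons (P.lf 8910401 0 0) (P.cons (P.lf 0 595729 0) (P.lf 0 198575 0)))) (P.cons (P.cons (P.lf 811996 0 0) (P.cons (P.lf 5993324 0 0) (P.cons (P.lf 0 400698 0) (P.lf 0 133566 0)))) (P.cons (P.cons (P.lf 3258207 0 0) (P.cons (P.lf 287932 0 0) (P.cons (P.lf 0 19250 0) P.nil))) (P.cons (P.cons (P.lf 226642 0 0) (P.cons (P.lf 0 19829 0) P.nil)) (P.cons (P.cons (P.lf 0 1593 0) P.nil) P.nil)))))) 24425)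
 (EL.cons 10 (TM.mk (P.cons (P.cons (P.lf 0 7881906 0) (P.cons (P.lf 1220316 0 0) (P.cons (P.lf 587910 0 0) (P.cons (P.lf 0 22248 0) (P.lf 0 5562 0))))) (P.cons (P.cons (P.lf 0 20407257 0) (P.cons (P.lf 3159555 0 0) (P.cons (P.lf 1522173 0 0) (P.cons (P.lf 0 57603 0) (P.lf 0 14400 0))))) (P.cons (P.cons (P.lf 0 13819602 0) (P.cons (P.lf 2139621 0 0) (P.cons (P.lf 1030800 0 0) (P.cons (P.lf 0 39006 0) P.nil)))) (P.cons (P.cons (P.lf 0 785733 0) (P.cons (P.lf 121650 0 0) (P.cons (P.lf 58605 0 0) P.nil))) (P.cons (P.cons (P.lf 0 4527 0) (P.cons (P.lf 699 0 0) P.nil)) (P.cons (P.cons (P.lf 2286 0 0) P.nil) P.nil)))))) 13815)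
 EL.nil))))
noncomputable def S24_53_512_660_8 : EL := (EL.cons 12 (TM.mk (P.cons (P.cons (P.lf 3815028944 0 0) (P.cons (P.lf 315226 0 0) (P.cons (P.lf 0 21062 0) (P.cons (P.lf 0 7016 0) (P.cons (P.lf 0 0 0) (P.cons (P.lf 0 0 0) P.nil)))))) (P.cons (P.cons (P.lf 0 129623258 0) (P.cons (P.lf 1218912 0 0) (P.cons (P.lf 0 81438 0) (P.cons (P.lf 0 27162 0) (P.cons (P.lf 0 2 0) P.nil))))) (P.cons (P.cons (P.lf 0 85536808 0) (P.cons (P.lf 1597134 0 0) (P.cons (P.lf 0 106614 0) (P.cons (P.lf 0 35614 0) P.nil)))) (P.cons (P.cons (P.lf 0 2329282 0) (P.cons (P.lf 736846 0 0) (P.cons (P.lf 0 48970 0) P.nil))) (P.cons (P.cons (P.lf 761306 0 0) (P.cons (P.lf 29754 0 0) P.nil)) (P.cons (P.cons (P.lf 72706 0 0) P.nil) P.nil)))))) 51988)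
 (EL.cons 3 (TM.mk (P.cons (P.cons (P.lf 0 1639313335 0) (P.cons (P.lf 262243 0 0) (P.cons (P.lf 0 17510 0) (P.cons (P.lf 0 5835 0) (P.cons (P.lf 0 0 0) (P.cons (P.lf 0 0 0) P.nil)))))) (P.cons (P.cons (P.lf 0 47210438 0) (P.cons (P.lf 1008653 0 0) (P.cons (P.lf 0 67327 0) (P.cons (P.lf 0 22484 0) (P.cons (P.lf 0 0 0) P.nil))))) (P.cons (P.cons (P.lf 0 29327633 0) (P.cons (P.lf 1304237 0 0) (P.cons (P.lf 0 86850 0) (P.cons (P.lf 0 29109 0) P.nil)))) (P.cons (P.cons (P.lf 1422808 0 0) (P.cons (P.lf 571428 0 0) (P.cons (P.lf 0 37588 0) P.nil))) (P.cons (P.cons (P.lf 1016503 0 0) (P.cons (P.lf 0 7153 0) P.nil)) (P.cons (P.cons (P.lf 66920 0 0) P.nil) P.nil)))))) 121184)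
 (EL.cons 7 (TM.mk (P.cons (P.cons (P.lf 437100766 0 0) (P.cons (P.lf 0 4575003 0) (P.cons (P.lf 305682 0 0) (P.cons (P.lf 101982 0 0) (P.cons (P.lf 6 0 0) (P.cons (P.lf 0 0 0) P.nil)))))) (P.cons (P.cons (P.lf 547368520 0 0) (P.cons (P.lf 0 11694737 0) (P.cons (P.lf 780651 0 0) (P.cons (P.lf 260787 0 0) (P.cons (P.lf 48 0 0) P.nil))))) (P.cons (P.cons (P.lf 0 15207443 0) (P.cons (P.lf 0 7531974 0) (P.cons (P.lf 500355 0 0) (P.cons (P.lf 168282 0 0) P.nil)))) (P.cons (P.cons (P.lf 0 11636581 0) (P.cons (P.lf 69538 0 0) (P.cons (P.lf 0 8929 0) P.nil))) (P.cons (P.cons (P.lf 0 526668 0) (P.cons (P.lf 195297 0 0) P.nil)) (P.cons (P.cons (P.lf 84623 0 0) P.nil) P.nil)))))) 95678)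
 (EL.cons 10 (TM.mk (P.cons (P.cons (P.lf 10505460 0 0) (P.cons (P.lf 0 1626072 0) (P.cons (P.lf 0 783696 0) (P.cons (P.lf 29610 0 0) (P.cons (P.lf 7416 0 0) (P.cons (P.lf 0 0 0) P.nil)))))) (P.cons (P.cons (P.lf 27021510 0 0) (P.cons (P.lf 0 4180794 0) (P.cons (P.lf 0 2016150 0) (P.cons (P.lf 76026 0 0) (P.cons (P.lf 19098 0 0) P.nil))))) (P.cons (P.cons (P.lf 17838192 0 0) (P.cons (P.lf 0 2754438 0) (P.cons (P.lf 0 1332174 0) (P.cons (P.lf 49710 0 0) P.nil)))) (P.cons (P.cons (P.lf 420264 0 0) (P.cons (P.lf 0 55212 0) (P.cons (P.lf 0 33522 0) P.nil))) (P.cons (P.cons (P.lf 0 234174 0) (P.cons (P.lf 43200 0 0) P.nil)) (P.cons (P.cons (P.lf 0 23436 0) P.nil) P.nil)))))) 54066)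
 EL.nil))))
noncomputable def S24_53_512_660_9 : EL := (EL.cons 3 (TM.mk (P.cons (P.lf 0 3596686102 0) (P.cons (P.lf 12315431 0 0) (P.cons (P.lf 8360981 0 0) (P.cons (P.lf 502803 0 0) (P.cons (P.lf 14171 0 0) (P.cons (P.lf 0 161 0) P.nil)))))) 359)
 (EL.cons 7 (TM.mk (P.cons (P.lf 0 110298158 0) (P.cons (P.lf 0 142787903 0) (P.cons (P.lf 0 4270675 0) (P.cons (P.lf 30920 0 0) (P.cons (P.lf 10958 0 0) (P.cons (P.lf 627 0 0) P.nil)))))) 162)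
 EL.nil))
noncomputable def S24_53_512_660_10 : EL := (EL.cons 3 (TM.mk (P.cons (P.cons (P.lf 2396936490 0 0) (P.cons (P.lf 99026 0 0) (P.cons (P.lf 0 6618 0) (P.lf 0 2204 0)))) (P.cons (P.cons (P.lf 0 48927723 0) (P.cons (P.lf 384256 0 0) (P.cons (P.lf 0 25689 0) (P.lf 0 8560 0)))) (P.cons (P.cons (P.lf 0 32649330 0) (P.cons (P.lf 507840 0 0) (P.cons (P.lf 0 33952 0) (P.lf 0 11317 0)))) (P.cons (P.cons (P.lf 0 1341331 0) (P.cons (P.lf 241893 0 0) (P.cons (P.lf 0 16171 0) P.nil))) (P.cons (P.cons (P.lf 127958 0 0) (P.cons (P.lf 17399 0 0) P.nil)) (P.cons (P.cons (P.lf 17002 0 0) P.nil) P.nil)))))) 11295)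
 (EL.cons 7 (TM.mk (P.cons (P.cons (P.lf 73505908 0 0) (P.cons (P.lf 3036 0 0) (P.cons (P.lf 0 202 0) (P.lf 0 67 0)))) (P.cons (P.cons (P.lf 93909266 0 0) (P.cons (P.lf 15725 0 0) (P.cons (P.lf 0 1051 0) (P.lf 0 350 0)))) (P.cons (P.cons (P.lf 394864 0 0) (P.cons (P.lf 31007 0 0) (P.cons (P.lf 0 2073 0) (P.lf 0 690 0)))) (P.cons (P.cons (P.lf 0 1186077 0) (P.cons (P.lf 28177 0 0) (P.cons (P.lf 0 1883 0) P.nil))) (P.cons (P.cons (P.lf 0 84701 0) (P.cons (P.lf 10906 0 0) P.nil)) (P.cons (P.cons (P.lf 1395 0 0) P.nil) P.nil)))))) 3694)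
 EL.nil))
noncomputable def S24_53_512_660_11 : EL := (EL.cons 3 (TM.mk (P.cons (P.cons (P.lf 0 1597388365 0) (P.cons (P.lf 0 131987 0) (P.cons (P.lf 8818 0 0) (P.cons (P.lf 2937 0 0) (P.cons (P.lf 0 0 0) (P.cons (P.lf 0 0 0) P.nil)))))) (P.cons (P.cons (P.lf 59744098 0 0) (P.cons (P.lf 0 509917 0) (P.cons (P.lf 34067 0 0) (P.cons (P.lf 11362 0 0) (P.cons (P.lf 0 0 0) P.nil))))) (P.cons (P.cons (P.lf 39342565 0 0) (P.cons (P.lf 0 666679 0) (P.cons (P.lf 44502 0 0) (P.cons (P.lf 14865 0 0) P.nil)))) (P.cons (P.cons (P.lf 949798 0 0) (P.cons (P.lf 0 305028 0) (P.cons (P.lf 20270 0 0) P.nil))) (P.cons (P.cons (P.lf 0 406655 0) (P.cons (P.lf 0 9775 0) P.nil)) (P.cons (P.cons (P.lf 0 36910 0) P.nil) P.nil)))))) 24640)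
 (EL.cons 7 (TM.mk (P.cons (P.cons (P.lf 0 48986480 0) (P.cons (P.lf 0 4047 0) (P.cons (P.lf 270 0 0) (P.cons (P.lf 90 0 0) (P.cons (P.lf 0 0 0) (P.cons (P.lf 0 0 0) P.nil)))))) (P.cons (P.cons (P.lf 0 61751666 0) (P.cons (P.lf 0 20891 0) (P.cons (P.lf 1395 0 0) (P.cons (P.lf 465 0 0) (P.cons (P.lf 0 0 0) P.nil))))) (P.cons (P.cons (P.lf 1356289 0 0) (P.cons (P.lf 0 40926 0) (P.cons (P.lf 2733 0 0) (P.cons (P.lf 912 0 0) P.nil)))) (P.cons (P.cons (P.lf 1529939 0 0) (P.cons (P.lf 0 36614 0) (P.cons (P.lf 2441 0 0) P.nil))) (P.cons (P.cons (P.lf 75870 0 0) (P.cons (P.lf 0 13419 0) P.nil)) (P.cons (P.cons (P.lf 0 12625 0) P.nil) P.nil)))))) 5824)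
 EL.nil))
noncomputable def S24_53_512_660_12 : EL := (EL.cons 4 (TM.mk (P.cons (P.lf 3596686102 0 0) (P.cons (P.lf 0 12315431 0) (P.cons (P.lf 0 8360981 0) (P.cons (P.lf 0 502803 0) (P.cons (P.lf 0 14171 0) (P.cons (P.lf 161 0 0) P.nil)))))) 359)
 (EL.cons 8 (TM.mk (P.cons (P.lf 110298158 0 0) (P.cons (P.lf 142787903 0 0) (P.cons (P.lf 4270675 0 0) (P.cons (P.lf 0 30920 0) (P.cons (P.lf 0 10958 0) (P.cons (P.lf 0 627 0) P.nil)))))) 162)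
 EL.nil))
noncomputable def S24_53_512_660_13 : EL := (EL.cons 4 (TM.mk (P.cons (P.cons (P.lf 0 2396936490 0) (P.cons (P.lf 0 99026 0) (P.cons (P.lf 6618 0 0) (P.lf 2204 0 0)))) (P.cons (P.cons (P.lf 48927723 0 0) (P.cons (P.lf 0 384256 0) (P.cons (P.lf 25689 0 0) (P.lf 8560 0 0)))) (P.cons (P.cons (P.lf 32649330 0 0) (P.cons (P.lf 0 507840 0) (P.cons (P.lf 33952 0 0) (P.lf 11317 0 0)))) (P.cons (P.cons (P.lf 1341331 0 0) (P.cons (P.lf 0 241893 0) (P.cons (P.lf 16171 0 0) P.nil))) (P.cons (P.cons (P.lf 0 127958 0) (P.cons (P.lf 0 17399 0) P.nil)) (P.cons (P.cons (P.lf 0 17002 0) P.nil) P.nil)))))) 11295)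
 (EL.cons 8 (TM.mk (P.cons (P.cons (P.lf 0 73505908 0) (P.cons (P.lf 0 3036 0) (P.cons (P.lf 202 0 0) (P.lf 67 0 0)))) (P.cons (P.cons (P.lf 0 93909266 0) (P.cons (P.lf 0 15725 0) (P.cons (P.lf 1051 0 0) (P.lf 350 0 0)))) (P.cons (P.cons (P.lf 0 394864 0) (P.cons (P.lf 0 31007 0) (P.cons (P.lf 2073 0 0) (P.lf 690 0 0)))) (P.cons (P.cons (P.lf 1186077 0 0) (P.cons (P.lf 0 28177 0) (P.cons (P.lf 1883 0 0) P.nil))) (P.cons (P.cons (P.lf 84701 0 0) (P.cons (P.lf 0 10906 0) P.nil)) (P.cons (P.cons (P.lf 0 1395 0) P.nil) P.nil)))))) 3694)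
 EL.nil))
noncomputable def S24_53_512_660_14 : EL := (EL.cons 4 (TM.mk (P.cons (P.cons (P.lf 1597388365 0 0) (P.cons (P.lf 131987 0 0) (P.cons (P.lf 0 8818 0) (P.cons (P.lf 0 2937 0) (P.cons (P.lf 0 0 0) (P.cons (P.lf 0 0 0) P.nil)))))) (P.cons (P.cons (P.lf 0 59744098 0) (P.cons (P.lf 509917 0 0) (P.cons (P.lf 0 34067 0) (P.cons (P.lf 0 11362 0) (P.cons (P.lf 0 0 0) P.nil))))) (P.cons (P.cons (P.lf 0 39342565 0) (P.cons (P.lf 666679 0 0) (P.cons (P.lf 0 44502 0) (P.cons (P.lf 0 14865 0) P.nil)))) (P.cons (P.cons (P.lf 0 949798 0) (P.cons (P.lf 305028 0 0) (P.cons (P.lf 0 20270 0) P.nil))) (P.cons (P.cons (P.lf 406655 0 0) (P.cons (P.lf 9775 0 0) P.nil)) (P.cons (P.cons (P.lf 36910 0 0) P.nil) P.nil)))))) 24640)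
 (EL.cons 8 (TM.mk (P.cons (P.cons (P.lf 48986480 0 0) (P.cons (P.lf 4047 0 0) (P.cons (P.lf 0 270 0) (P.cons (P.lf 0 90 0) (P.cons (P.lf 0 0 0) (P.cons (P.lf 0 0 0) P.nil)))))) (P.cons (P.cons (P.lf 61751666 0 0) (P.cons (P.lf 20891 0 0) (P.cons (P.lf 0 1395 0) (P.cons (P.lf 0 465 0) (P.cons (P.lf 0 0 0) P.nil))))) (P.cons (P.cons (P.lf 0 1356289 0) (P.cons (P.lf 40926 0 0) (P.cons (P.lf 0 2733 0) (P.cons (P.lf 0 912 0) P.nil)))) (P.cons (P.cons (P.lf 0 1529939 0) (P.cons (P.lf 36614 0 0) (P.cons (P.lf 0 2441 0) P.nil))) (P.cons (P.cons (P.lf 0 75870 0) (P.cons (P.lf 13419 0 0) P.nil)) (P.cons (P.cons (P.lf 12625 0 0) P.nil) P.nil)))))) 5824)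
 EL.nil))
noncomputable def S24_53_512_660_15 : EL := (EL.cons 4 (TM.mk (P.cons (P.lf 0 3212727834 0) (P.cons (P.lf 22001434 0 0) (P.cons (P.lf 14899169 0 0) (P.cons (P.lf 847110 0 0) (P.cons (P.lf 4879 0 0) (P.cons (P.lf 0 2462 0) P.nil)))))) 773)
 (EL.cons 8 (TM.mk (P.cons (P.lf 0 98523460 0) (P.cons (P.lf 0 127207462 0) (P.cons (P.lf 0 3149008 0) (P.cons (P.lf 350949 0 0) (P.cons (P.lf 36780 0 0) (P.cons (P.lf 1493 0 0) P.nil)))))) 227)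
 EL.nil))
noncomputable def S24_53_512_660_16 : EL := (EL.cons 4 (TM.mk (P.cons (P.cons (P.lf 2141055504 0 0) (P.cons (P.lf 88455 0 0) (P.cons (P.lf 0 5911 0) (P.lf 0 1968 0)))) (P.cons (P.cons (P.lf 0 51035724 0) (P.cons (P.lf 342932 0 0) (P.cons (P.lf 0 22926 0) (P.lf 0 7639 0)))) (P.cons (P.cons (P.lf 0 33991427 0) (P.cons (P.lf 452246 0 0) (P.cons (P.lf 0 30235 0) (P.lf 0 10078 0)))) (P.cons (P.cons (P.lf 0 1295994 0) (P.cons (P.lf 213706 0 0) (P.cons (P.lf 0 14287 0) P.nil))) (P.cons (P.cons (P.lf 183870 0 0) (P.cons (P.lf 13698 0 0) P.nil)) (P.cons (P.cons (P.lf 21926 0 0) P.nil) P.nil)))))) 11691)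
 (EL.cons 8 (TM.mk (P.cons (P.cons (P.lf 65658907 0 0) (P.cons (P.lf 2712 0 0) (P.cons (P.lf 0 181 0) (P.lf 0 60 0)))) (P.cons (P.cons (P.lf 83659315 0 0) (P.cons (P.lf 14037 0 0) (P.cons (P.lf 0 938 0) (P.lf 0 312 0)))) (P.cons (P.cons (P.lf 0 87149 0) (P.cons (P.lf 27642 0 0) (P.cons (P.lf 0 1848 0) (P.lf 0 615 0)))) (P.cons (P.cons (P.lf 0 1264846 0) (P.cons (P.lf 25041 0 0) (P.cons (P.lf 0 1674 0) P.nil))) (P.cons (P.cons (P.lf 0 84837 0) (P.cons (P.lf 9590 0 0) P.nil)) (P.cons (P.cons (P.lf 3591 0 0) P.nil) P.nil)))))) 3664)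
 EL.nil))
noncomputable def S24_53_512_660_17 : EL := (EL.cons 4 (TM.mk (P.cons (P.cons (P.lf 0 1426861815 0) (P.cons (P.lf 0 117897 0) (P.cons (P.lf 7876 0 0) (P.cons (P.lf 2623 0 0) (P.cons (P.lf 0 0 0) (P.cons (P.lf 0 0 0) P.nil)))))) (P.cons (P.cons (P.lf 58251940 0 0) (P.cons (P.lf 0 455078 0) (P.cons (P.lf 30404 0 0) (P.cons (P.lf 10140 0 0) (P.cons (P.lf 0 0 0) P.nil))))) (P.cons (P.cons (P.lf 38276815 0 0) (P.cons (P.lf 0 593675 0) (P.cons (P.lf 39629 0 0) (P.cons (P.lf 13237 0 0) P.nil)))) (P.cons (P.cons (P.lf 803485 0 0) (P.cons (P.lf 0 269352 0) (P.cons (P.lf 17898 0 0) P.nil))) (P.cons (P.cons (P.lf 0 449681 0) (P.cons (P.lf 0 6349 0) P.nil)) (P.cons (P.cons (P.lf 0 38885 0) P.nil) P.nil)))))) 24400)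
 (EL.cons 8 (TM.mk (P.cons (P.cons (P.lf 0 43757010 0) (P.cons (P.lf 0 3615 0) (P.cons (P.lf 241 0 0) (P.cons (P.lf 80 0 0) (P.cons (P.lf 0 0 0) (P.cons (P.lf 0 0 0) P.nil)))))) (P.cons (P.cons (P.lf 0 55009640 0) (P.cons (P.lf 0 18648 0) (P.cons (P.lf 1245 0 0) (P.cons (P.lf 415 0 0) (P.cons (P.lf 0 0 0) P.nil))))) (P.cons (P.cons (P.lf 1502091 0 0) (P.cons (P.lf 0 36484 0) (P.cons (P.lf 2436 0 0) (P.cons (P.lf 813 0 0) P.nil)))) (P.cons (P.cons (P.lf 1496807 0 0) (P.cons (P.lf 0 32537 0) (P.cons (P.lf 2169 0 0) P.nil))) (P.cons (P.cons (P.lf 68158 0 0) (P.cons (P.lf 0 11787 0) P.nil)) (P.cons (P.cons (P.lf 0 14640 0) P.nil) P.nil)))))) 5617)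
 EL.nil))
noncomputable def S24_53_512_660_18 : EL := (EL.cons 4 (TM.mk (P.cons (P.lf 2869758394 0 0) (P.cons (P.lf 0 29479062 0) (P.cons (P.lf 0 19912479 0) (P.cons (P.lf 0 1066604 0) (P.cons (P.lf 20610 0 0) (P.cons (P.lf 6040 0 0) P.nil)))))) 1173)
 (EL.cons 8 (TM.mk (P.cons (P.lf 88005751 0 0) (P.cons (P.lf 113326299 0 0) (P.cons (P.lf 2219186 0 0) (P.cons (P.lf 0 599561 0) (P.cons (P.lf 0 54550 0) (P.cons (P.lf 0 1330 0) P.nil)))))) 337)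
 EL.nil))
noncomputable def S24_53_512_660_19 : EL := (EL.cons 4 (TM.mk (P.cons (P.cons (P.lf 0 1912490670 0) (P.cons (P.lf 0 79011 0) (P.cons (P.lf 5280 0 0) (P.lf 1757 0 0)))) (P.cons (P.cons (P.lf 52136058 0 0) (P.cons (P.lf 0 306053 0) (P.cons (P.lf 20460 0 0) (P.lf 6818 0 0)))) (P.cons (P.cons (P.lf 34652474 0 0) (P.cons (P.lf 0 402735 0) (P.cons (P.lf 26925 0 0) (P.lf 8974 0 0)))) (P.cons (P.cons (P.lf 1215061 0 0) (P.cons (P.lf 0 188787 0) (P.cons (P.lf 12621 0 0) P.nil))) (P.cons (P.cons (P.lf 0 237625 0) (P.cons (P.lf 0 10600 0) P.nil)) (P.cons (P.cons (P.lf 0 26224 0) P.nil) P.nil)))))) 12124)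
 (EL.cons 8 (TM.mk (P.cons (P.cons (P.lf 0 58649599 0) (P.cons (P.lf 0 2423 0) (P.cons (P.lf 161 0 0) (P.lf 53 0 0)))) (P.cons (P.cons (P.lf 0 74527581 0) (P.cons (P.lf 0 12530 0) (P.cons (P.lf 837 0 0) (P.lf 279 0 0)))) (P.cons (P.cons (P.lf 470063 0 0) (P.cons (P.lf 0 24643 0) (P.cons (P.lf 1647 0 0) (P.lf 549 0 0)))) (P.cons (P.cons (P.lf 1311468 0 0) (P.cons (P.lf 0 22254 0) (P.cons (P.lf 1487 0 0) P.nil))) (P.cons (P.cons (P.lf 82408 0 0) (P.cons (P.lf 0 8430 0) P.nil)) (P.cons (P.cons (P.lf 0 5812 0) P.nil) P.nil)))))) 3638)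
 EL.nil))
noncomputable def S24_53_512_660_20 : EL := (EL.cons 4 (TM.mk (P.cons (P.cons (P.lf 1274539545 0 0) (P.cons (P.lf 105311 0 0) (P.cons (P.lf 0 7035 0) (P.cons (P.lf 0 2343 0) (P.cons (P.lf 0 0 0) (P.cons (P.lf 0 0 0) P.nil)))))) (P.cons (P.cons (P.lf 0 56397508 0) (P.cons (P.lf 406136 0 0) (P.cons (P.lf 0 27134 0) (P.cons (P.lf 0 9049 0) (P.cons (P.lf 0 0 0) P.nil))))) (P.cons (P.cons (P.lf 0 36975308 0) (P.cons (P.lf 528662 0 0) (P.cons (P.lf 0 35289 0) (P.cons (P.lf 0 11788 0) P.nil)))) (P.cons (P.cons (P.lf 0 657855 0) (P.cons (P.lf 237822 0 0) (P.cons (P.lf 0 15802 0) P.nil))) (P.cons (P.cons (P.lf 485865 0 0) (P.cons (P.lf 3557 0 0) P.nil)) (P.cons (P.cons (P.lf 40068 0 0) P.nil) P.nil)))))) 24225)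
 (EL.cons 8 (TM.mk (P.cons (P.cons (P.lf 39085802 0 0) (P.cons (P.lf 3229 0 0) (P.cons (P.lf 0 215 0) (P.cons (P.lf 0 71 0) (P.cons (P.lf 0 0 0) (P.cons (P.lf 0 0 0) P.nil)))))) (P.cons (P.cons (P.lf 49003343 0 0) (P.cons (P.lf 16646 0 0) (P.cons (P.lf 0 1112 0) (P.cons (P.lf 0 370 0) (P.cons (P.lf 0 0 0) P.nil))))) (P.cons (P.cons (P.lf 0 1600849 0) (P.cons (P.lf 32525 0 0) (P.cons (P.lf 0 2172 0) (P.cons (P.lf 0 724 0) P.nil)))) (P.cons (P.cons (P.lf 0 1452113 0) (P.cons (P.lf 28912 0 0) (P.cons (P.lf 0 1927 0) P.nil))) (P.cons (P.cons (P.lf 0 60208 0) (P.cons (P.lf 10351 0 0) P.nil)) (P.cons (P.cons (P.lf 16389 0 0) P.nil) P.nil)))))) 5391)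
 EL.nil))
noncomputable def S24_53_512_660_21 : EL := (EL.cons 4 (TM.mk (P.cons (P.cons (P.lf 0 31454934 0) (P.cons (P.lf 297078 0 0) (P.cons (P.lf 0 19854 0) (P.lf 0 6612 0)))) (P.cons (P.cons (P.lf 0 80778864 0) (P.cons (P.lf 1152768 0 0) (P.cons (P.lf 0 77067 0) (P.lf 0 25680 0)))) (P.cons (P.cons (P.lf 0 53250483 0) (P.cons (P.lf 1523520 0 0) (P.cons (P.lf 0 101856 0) (P.lf 0 33951 0)))) (P.cons (P.cons (P.lf 0 1482660 0) (P.cons (P.lf 725679 0 0) (P.cons (P.lf 0 48513 0) P.nil))) (P.cons (P.cons (P.lf 398514 0 0) (P.cons (P.lf 52197 0 0) P.nil)) (P.cons (P.cons (P.lf 43614 0 0) P.nil) P.nil)))))) 35814)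
 (EL.cons 8 (TM.mk (P.cons (P.cons (P.lf 364695363 0 0) (P.cons (P.lf 0 3444507 0) (P.cons (P.lf 230292 0 0) (P.lf 76764 0 0)))) (P.cons (P.cons (P.lf 463198584 0 0) (P.cons (P.lf 0 8894676 0) (P.cons (P.lf 594678 0 0) (P.lf 198225 0 0)))) (P.cons (P.cons (P.lf 0 417132 0) (P.cons (P.lf 0 5962317 0) (P.cons (P.lf 398625 0 0) (P.lf 132876 0 0)))) (P.cons (P.cons (P.lf 0 4444284 0) (P.cons (P.lf 0 259755 0) (P.cons (P.lf 17367 0 0) P.nil))) (P.cons (P.cons (P.lf 0 311343 0) (P.cons (P.lf 30735 0 0) P.nil)) (P.cons (P.cons (P.lf 2988 0 0) P.nil) P.nil)))))) 20712)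
 (EL.cons 11 (TM.mk (P.cons (P.cons (P.lf 7881906 0 0) (P.cons (P.lf 0 1220316 0) (P.cons (P.lf 0 587910 0) (P.cons (P.lf 22248 0 0) (P.lf 5562 0 0))))) (P.cons (P.cons (P.lf 20407257 0 0) (P.cons (P.lf 0 3159555 0) (P.cons (P.lf 0 1522173 0) (P.cons (P.lf 57603 0 0) (P.lf 14400 0 0))))) (P.cons (P.cons (P.lf 13819602 0 0) (P.cons (P.lf 0 2139621 0) (P.cons (P.lf 0 1030800 0) (P.cons (P.lf 39006 0 0) P.nil)))) (P.cons (P.cons (P.lf 785733 0 0) (P.cons (P.lf 0 121650 0) (P.cons (P.lf 0 58605 0) P.nil))) (P.cons (P.cons (P.lf 4527 0 0) (P.cons (P.lf 0 699 0) P.nil)) (P.cons (P.cons (P.lf 0 2286 0) P.nil) P.nil)))))) 13815)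
 EL.nil)))
noncomputable def S24_53_512_660_22 : EL := (EL.cons 4 (TM.mk (P.cons (P.cons (P.lf 20962485 0 0) (P.cons (P.lf 0 197115 0) (P.cons (P.lf 13164 0 0) (P.cons (P.lf 4386 0 0) (P.cons (P.lf 0 0 0) (P.cons (P.lf 0 0 0) P.nil)))))) (P.cons (P.cons (P.lf 53477268 0 0) (P.cons (P.lf 0 759285 0) (P.cons (P.lf 50697 0 0) (P.cons (P.lf 16923 0 0) (P.cons (P.lf 0 0 0) P.nil))))) (P.cons (P.cons (P.lf 34335099 0 0) (P.cons (P.lf 0 985458 0) (P.cons (P.lf 65676 0 0) (P.cons (P.lf 21987 0 0) P.nil)))) (P.cons (P.cons (P.lf 0 236505 0) (P.cons (P.lf 0 438228 0) (P.cons (P.lf 28929 0 0) P.nil))) (P.cons (P.cons (P.lf 0 711579 0) (P.cons (P.lf 0 1311 0) P.nil)) (P.cons (P.cons (P.lf 0 51915 0) P.nil) P.nil)))))) 48261)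
 (EL.cons 8 (TM.mk (P.cons (P.cons (P.lf 0 243043623 0) (P.cons (P.lf 2285478 0 0) (P.cons (P.lf 0 152706 0) (P.cons (P.lf 0 50946 0) (P.cons (P.lf 0 3 0) (P.cons (P.lf 0 0 0) P.nil)))))) (P.cons (P.cons (P.lf 0 304560093 0) (P.cons (P.lf 5836923 0 0) (P.cons (P.lf 0 389628 0) (P.cons (P.lf 0 130161 0) (P.cons (P.lf 0 24 0) P.nil))))) (P.cons (P.cons (P.lf 8281866 0 0) (P.cons (P.lf 3745524 0 0) (P.cons (P.lf 0 248811 0) (P.cons (P.lf 0 83685 0) P.nil)))) (P.cons (P.cons (P.lf 6583260 0 0) (P.cons (P.lf 0 53076 0) (P.cons (P.lf 5685 0 0) P.nil))) (P.cons (P.cons (P.lf 301269 0 0) (P.cons (P.lf 0 104358 0) P.nil)) (P.cons (P.cons (P.lf 0 48624 0) P.nil) P.nil)))))) 44916)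
 (EL.cons 11 (TM.mk (P.cons (P.cons (P.lf 0 5252730 0) (P.cons (P.lf 813036 0 0) (P.cons (P.lf 391848 0 0) (P.cons (P.lf 0 14805 0) (P.cons (P.lf 0 3708 0) (P.cons (P.lf 0 0 0) P.nil)))))) (P.cons (P.cons (P.lf 0 13510755 0) (P.cons (P.lf 2090397 0 0) (P.cons (P.lf 1008075 0 0) (P.cons (P.lf 0 38013 0) (P.cons (P.lf 0 9549 0) P.nil))))) (P.cons (P.cons (P.lf 0 8919096 0) (P.cons (P.lf 1377219 0 0) (P.cons (P.lf 666087 0 0) (P.cons (P.lf 0 24855 0) P.nil)))) (P.cons (P.cons (P.lf 0 210132 0) (P.cons (P.lf 27606 0 0) (P.cons (P.lf 16761 0 0) P.nil))) (P.cons (P.cons (P.lf 117087 0 0) (P.cons (P.lf 0 21600 0) P.nil)) (P.cons (P.cons (P.lf 11718 0 0) P.nil) P.nil)))))) 27033)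
 EL.nil)))
noncomputable def S24_53_512_660_23 : EL := (EL.cons 4 (TM.mk (P.cons (P.cons (P.lf 28097013 0 0) (P.cons (P.lf 0 265362 0) (P.cons (P.lf 17733 0 0) (P.lf 5904 0 0)))) (P.cons (P.cons (P.lf 72059241 0 0) (P.cons (P.lf 0 1028796 0) (P.cons (P.lf 68778 0 0) (P.lf 22917 0 0)))) (P.cons (P.cons (P.lf 47253432 0 0) (P.cons (P.lf 0 1356735 0) (P.cons (P.lf 90705 0 0) (P.lf 30234 0 0)))) (P.cons (P.cons (P.lf 989847 0 0) (P.cons (P.lf 0 641118 0) (P.cons (P.lf 42858 0 0) P.nil))) (P.cons (P.cons (P.lf 0 481275 0) (P.cons (P.lf 0 41094 0) P.nil)) (P.cons (P.cons (P.lf 0 47748 0) P.nil) P.nil)))))) 36543)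
 (EL.cons 8 (TM.mk (P.cons (P.cons (P.lf 0 325762911 0) (P.cons (P.lf 3076794 0 0) (P.cons (P.lf 0 205707 0) (P.lf 0 68568 0)))) (P.cons (P.cons (P.lf 0 412635138 0) (P.cons (P.lf 7934604 0 0) (P.cons (P.lf 0 530487 0) (P.lf 0 176829 0)))) (P.cons (P.cons (P.lf 2546607 0 0) (P.cons (P.lf 5291460 0 0) (P.cons (P.lf 0 353772 0) (P.lf 0 117924 0)))) (P.cons (P.cons (P.lf 4975923 0 0) (P.cons (P.lf 194889 0 0) (P.cons (P.lf 0 13029 0) P.nil))) (P.cons (P.cons (P.lf 322770 0 0) (P.cons (P.lf 0 41751 0) P.nil)) (P.cons (P.cons (P.lf 0 11286 0) P.nil) P.nil)))))) 23760)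
 (EL.cons 11 (TM.mk (P.cons (P.cons (P.lf 0 7040484 0) (P.cons (P.lf 1090041 0 0) (P.cons (P.lf 525147 0 0) (P.cons (P.lf 0 19872 0) (P.lf 0 4968 0))))) (P.cons (P.cons (P.lf 0 18204606 0) (P.cons (P.lf 2818527 0 0) (P.cons (P.lf 1357875 0 0) (P.cons (P.lf 0 51384 0) (P.lf 0 12843 0))))) (P.cons (P.cons (P.lf 0 12265527 0) (P.cons (P.lf 1899009 0 0) (P.cons (P.lf 914880 0 0) (P.cons (P.lf 0 34617 0) P.nil)))) (P.cons (P.cons (P.lf 0 616224 0) (P.cons (P.lf 95406 0 0) (P.cons (P.lf 45960 0 0) P.nil))) (P.cons (P.cons (P.lf 29631 0 0) (P.cons (P.lf 0 4587 0) P.nil)) (P.cons (P.cons (P.lf 5484 0 0) P.nil) P.nil)))))) 16413)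
 EL.nil)))
noncomputable def S24_53_512_660_24 : EL := (EL.cons 4 (TM.mk (P.cons (P.cons (P.lf 0 18724668 0) (P.cons (P.lf 176070 0 0) (P.cons (P.lf 0 11757 0) (P.cons (P.lf 0 3918 0) (P.cons (P.lf 0 0 0) (P.cons (P.lf 0 0 0) P.nil)))))) (P.cons (P.cons (P.lf 0 47704275 0) (P.cons (P.lf 677625 0 0) (P.cons (P.lf 0 45243 0) (P.cons (P.lf 0 15102 0) (P.cons (P.lf 0 0 0) P.nil))))) (P.cons (P.cons (P.lf 0 30462621 0) (P.cons (P.lf 877527 0 0) (P.cons (P.lf 0 58482 0) (P.cons (P.lf 0 19578 0) P.nil)))) (P.cons (P.cons (P.lf 429933 0 0) (P.cons (P.lf 386829 0 0) (P.cons (P.lf 0 25533 0) P.nil))) (P.cons (P.cons (P.lf 712938 0 0) (P.cons (P.lf 0 2310 0) P.nil)) (P.cons (P.cons (P.lf 48180 0 0) P.nil) P.nil)))))) 46815)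
 (EL.cons 8 (TM.mk (P.cons (P.cons (P.lf 217097904 0 0) (P.cons (P.lf 0 2041494 0) (P.cons (P.lf 136404 0 0) (P.cons (P.lf 45507 0 0) (P.cons (P.lf 3 0 0) (P.cons (P.lf 0 0 0) P.nil)))))) (P.cons (P.cons (P.lf 271303920 0 0) (P.cons (P.lf 0 5206821 0) (P.cons (P.lf 347568 0 0) (P.cons (P.lf 116112 0 0) (P.cons (P.lf 21 0 0) P.nil))))) (P.cons (P.cons (P.lf 0 8833941 0) (P.cons (P.lf 0 3323079 0) (P.cons (P.lf 220740 0 0) (P.cons (P.lf 74247 0 0) P.nil)))) (P.cons (P.cons (P.lf 0 6517905 0) (P.cons (P.lf 71271 0 0) (P.cons (P.lf 0 6666 0) P.nil))) (P.cons (P.cons (P.lf 0 270663 0) (P.cons (P.lf 101568 0 0) P.nil)) (P.cons (P.cons (P.lf 57996 0 0) P.nil) P.nil)))))) 44106)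
 (EL.cons 11 (TM.mk (P.cons (P.cons (P.lf 4691985 0 0) (P.cons (P.lf 0 726240 0) (P.cons (P.lf 0 350016 0) (P.cons (P.lf 13227 0 0) (P.cons (P.lf 3312 0 0) (P.cons (P.lf 0 0 0) P.nil)))))) (P.cons (P.cons (P.lf 12052368 0 0) (P.cons (P.lf 0 1864755 0) (P.cons (P.lf 0 899259 0) (P.cons (P.lf 33909 0 0) (P.cons (P.lf 8517 0 0) P.nil))))) (P.cons (P.cons (P.lf 7914723 0 0) (P.cons (P.lf 0 1222116 0) (P.cons (P.lf 0 591084 0) (P.cons (P.lf 22053 0 0) P.nil)))) (P.cons (P.cons (P.lf 131709 0 0) (P.cons (P.lf 0 16005 0) (P.cons (P.lf 0 10794 0) P.nil))) (P.cons (P.cons (P.lf 0 125457 0) (P.cons (P.lf 22503 0 0) P.nil)) (P.cons (P.cons (P.lf 0 11706 0) P.nil) P.nil)))))) 26874)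
 EL.nil)))
noncomputable def S24_53_512_660_25 : EL := (EL.cons 4 (TM.mk (P.cons (P.cons (P.lf 0 25097562 0) (P.cons (P.lf 237033 0 0) (P.cons (P.lf 0 15840 0) (P.lf 0 5274 0)))) (P.cons (P.cons (P.lf 0 64280739 0) (P.cons (P.lf 918156 0 0) (P.cons (P.lf 0 61380 0) (P.lf 0 20451 0)))) (P.cons (P.cons (P.lf 0 41930229 0) (P.cons (P.lf 1208202 0 0) (P.cons (P.lf 0 80775 0) (P.lf 0 26922 0)))) (P.cons (P.cons (P.lf 0 586512 0) (P.cons (P.lf 566358 0 0) (P.cons (P.lf 0 37860 0) P.nil))) (P.cons (P.cons (P.lf 540144 0 0) (P.cons (P.lf 31800 0 0) P.nil)) (P.cons (P.cons (P.lf 49389 0 0) P.nil) P.nil)))))) 36372)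
 (EL.cons 8 (TM.mk (P.cons (P.cons (P.lf 290986632 0 0) (P.cons (P.lf 0 2748336 0) (P.cons (P.lf 183747 0 0) (P.lf 61248 0 0)))) (P.cons (P.cons (P.lf 367588590 0 0) (P.cons (P.lf 0 7078146 0) (P.cons (P.lf 473229 0 0) (P.lf 157740 0 0)))) (P.cons (P.cons (P.lf 0 4213257 0) (P.cons (P.lf 0 4695921 0) (P.cons (P.lf 313956 0 0) (P.lf 104652 0 0)))) (P.cons (P.cons (P.lf 0 5334441 0) (P.cons (P.lf 0 141039 0) (P.cons (P.lf 9429 0 0) P.nil))) (P.cons (P.cons (P.lf 0 320478 0) (P.cons (P.lf 49878 0 0) P.nil)) (P.cons (P.cons (P.lf 20277 0 0) P.nil) P.nil)))))) 25887)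
 (EL.cons 11 (TM.mk (P.cons (P.cons (P.lf 6288888 0 0) (P.cons (P.lf 0 973677 0) (P.cons (P.lf 0 469086 0) (P.cons (P.lf 17751 0 0) (P.lf 4437 0 0))))) (P.cons (P.cons (P.lf 16239669 0 0) (P.cons (P.lf 0 2514306 0) (P.cons (P.lf 0 1211313 0) (P.cons (P.lf 45837 0 0) (P.lf 11457 0 0))))) (P.cons (P.cons (P.lf 10885842 0 0) (P.cons (P.lf 0 1685400 0) (P.cons (P.lf 0 811971 0) (P.cons (P.lf 30723 0 0) P.nil)))) (P.cons (P.cons (P.lf 474246 0 0) (P.cons (P.lf 0 73422 0) (P.cons (P.lf 0 35370 0) P.nil))) (P.cons (P.cons (P.lf 0 56118 0) (P.cons (P.lf 8688 0 0) P.nil)) (P.cons (P.cons (P.lf 0 7683 0) P.nil) P.nil)))))) 18069)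
 EL.nil)))
noncomputable def S24_53_512_660_26 : EL := (EL.cons 4 (TM.mk (P.cons (P.cons (P.lf 16725747 0 0) (P.cons (P.lf 0 157275 0) (P.cons (P.lf 10503 0 0) (P.cons (P.lf 3501 0 0) (P.cons (P.lf 0 0 0) (P.cons (P.lf 0 0 0) P.nil)))))) (P.cons (P.cons (P.lf 42554412 0 0) (P.cons (P.lf 0 604749 0) (P.cons (P.lf 40377 0 0) (P.cons (P.lf 13476 0 0) (P.cons (P.lf 0 0 0) P.nil))))) (P.cons (P.cons (P.lf 27025845 0 0) (P.cons (P.lf 0 781410 0) (P.cons (P.lf 52074 0 0) (P.cons (P.lf 17433 0 0) P.nil)))) (P.cons (P.cons (P.lf 0 578604 0) (P.cons (P.lf 0 341421 0) (P.cons (P.lf 22533 0 0) P.nil))) (P.cons (P.cons (P.lf 0 704793 0) (P.cons (P.lf 5154 0 0) P.nil)) (P.cons (P.cons (P.lf 0 43935 0) P.nil) P.nil)))))) 45297)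
 (EL.cons 8 (TM.mk (P.cons (P.cons (P.lf 0 193921974 0) (P.cons (P.lf 1823559 0 0) (P.cons (P.lf 0 121842 0) (P.cons (P.lf 0 40650 0) (P.cons (P.lf 0 3 0) (P.cons (P.lf 0 0 0) P.nil)))))) (P.cons (P.cons (P.lf 0 241677309 0) (P.cons (P.lf 4644732 0 0) (P.cons (P.lf 0 310047 0) (P.cons (P.lf 0 103575 0) (P.cons (P.lf 0 18 0) P.nil))))) (P.cons (P.cons (P.lf 9171489 0 0) (P.cons (P.lf 2948163 0 0) (P.cons (P.lf 0 195831 0) (P.cons (P.lf 0 65871 0) P.nil)))) (P.cons (P.cons (P.lf 6385542 0 0) (P.cons (P.lf 0 84894 0) (P.cons (P.lf 7368 0 0) P.nil))) (P.cons (P.cons (P.lf 238131 0 0) (P.cons (P.lf 0 98064 0) P.nil)) (P.cons (P.cons (P.lf 0 66324 0) P.nil) P.nil)))))) 42999)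
 (EL.cons 11 (TM.mk (P.cons (P.cons (P.lf 0 4191099 0) (P.cons (P.lf 648711 0 0) (P.cons (P.lf 312651 0 0) (P.cons (P.lf 0 11814 0) (P.cons (P.lf 0 2958 0) (P.cons (P.lf 0 0 0) P.nil)))))) (P.cons (P.cons (P.lf 0 10751388 0) (P.cons (P.lf 1663464 0 0) (P.cons (P.lf 802191 0 0) (P.cons (P.lf 0 30249 0) (P.cons (P.lf 0 7599 0) P.nil))))) (P.cons (P.cons (P.lf 0 7023195 0) (P.cons (P.lf 1084437 0 0) (P.cons (P.lf 524505 0 0) (P.cons (P.lf 0 19569 0) P.nil)))) (P.cons (P.cons (P.lf 0 67827 0) (P.cons (P.lf 6594 0 0) (P.cons (P.lf 5922 0 0) P.nil))) (P.cons (P.cons (P.lf 130422 0 0) (P.cons (P.lf 0 22920 0) P.nil)) (P.cons (P.cons (P.lf 11379 0 0) P.nil) P.nil)))))) 26466)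
 EL.nil)))
noncomputable def S24_53_512_660_27 : EL := (EL.cons 13 (TM.mk (P.lf 0 4294967296 0) 0)
 EL.nil)
noncomputable def S24_53_512_660_28 : EL := (EL.cons 13 (TM.mk (P.cons (P.cons (P.lf 2862291438 0 0) (P.cons (P.lf 118252 0 0) (P.cons (P.lf 0 7904 0) (P.lf 0 2632 0)))) (P.cons (P.cons (P.lf 0 48626046 0) (P.cons (P.lf 459264 0 0) (P.cons (P.lf 0 30704 0) (P.lf 0 10232 0)))) (P.cons (P.cons (P.lf 0 32500777 0) (P.cons (P.lf 608284 0 0) (P.cons (P.lf 0 40668 0) (P.lf 0 13556 0)))) (P.cons (P.cons (P.lf 0 1425932 0) (P.cons (P.lf 292024 0 0) (P.cons (P.lf 0 19524 0) P.nil))) (P.cons (P.cons (P.lf 76847 0 0) (P.cons (P.lf 23256 0 0) P.nil)) (P.cons (P.cons (P.lf 12389 0 0) P.nil) P.nil)))))) 11218)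
 EL.nil)
noncomputable def S24_53_512_660_29 : EL := (EL.cons 13 (TM.mk (P.cons (P.cons (P.lf 0 1907514472 0) (P.cons (P.lf 0 157613 0) (P.cons (P.lf 10531 0 0) (P.cons (P.lf 3508 0 0) (P.cons (P.lf 0 0 0) (P.cons (P.lf 0 0 0) P.nil)))))) (P.cons (P.cons (P.lf 64811629 0 0) (P.cons (P.lf 0 609456 0) (P.cons (P.lf 40719 0 0) (P.cons (P.lf 13581 0 0) (P.cons (P.lf 1 0 0) P.nil))))) (P.cons (P.cons (P.lf 42768404 0 0) (P.cons (P.lf 0 798567 0) (P.cons (P.lf 53307 0 0) (P.cons (P.lf 17807 0 0) P.nil)))) (P.cons (P.cons (P.lf 1164641 0 0) (P.cons (P.lf 0 368423 0) (P.cons (P.lf 24485 0 0) P.nil))) (P.cons (P.cons (P.lf 0 380653 0) (P.cons (P.lf 0 14877 0) P.nil)) (P.cons (P.cons (P.lf 0 36353 0) P.nil) P.nil)))))) 25994)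
 EL.nil)
noncomputable def S24_53_512_660_30 : EL := (EL.cons 13 (TM.mk (P.cons (P.lf 3836465176 0 0) (P.cons (P.lf 0 13136460 0) (P.cons (P.lf 0 8918380 0) (P.cons (P.lf 0 536324 0) (P.cons (P.lf 0 15116 0) (P.cons (P.lf 172 0 0) P.nil)))))) 376)
 EL.nil)
noncomputable def S24_53_512_660_31 : EL := (EL.cons 13 (TM.mk (P.cons (P.cons (P.lf 0 2556732256 0) (P.cons (P.lf 0 105628 0) (P.cons (P.lf 7060 0 0) (P.lf 2351 0 0)))) (P.cons (P.cons (P.lf 52189572 0 0) (P.cons (P.lf 0 409874 0) (P.cons (P.lf 27402 0 0) (P.lf 9131 0 0)))) (P.cons (P.cons (P.lf 34825952 0 0) (P.cons (P.lf 0 541697 0) (P.cons (P.lf 36216 0 0) (P.lf 12072 0 0)))) (P.cons (P.cons (P.lf 1430754 0 0) (P.cons (P.lf 0 258020 0) (P.cons (P.lf 17250 0 0) P.nil))) (P.cons (P.cons (P.lf 0 136489 0) (P.cons (P.lf 0 18559 0) P.nil)) (P.cons (P.cons (P.lf 0 18136 0) P.nil) P.nil)))))) 12028)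
 EL.nil)
noncomputable def S24_53_512_660_32 : EL := (EL.cons 13 (TM.mk (P.cons (P.cons (P.lf 1703880923 0 0) (P.cons (P.lf 140787 0 0) (P.cons (P.lf 0 9406 0) (P.cons (P.lf 0 3133 0) (P.cons (P.lf 0 0 0) (P.cons (P.lf 0 0 0) P.nil)))))) (P.cons (P.cons (P.lf 0 63727038 0) (P.cons (P.lf 543912 0 0) (P.cons (P.lf 0 36339 0) (P.cons (P.lf 0 12120 0) (P.cons (P.lf 0 0 0) P.nil))))) (P.cons (P.cons (P.lf 0 41965403 0) (P.cons (P.lf 711125 0 0) (P.cons (P.lf 0 47469 0) (P.cons (P.lf 0 15857 0) P.nil)))) (P.cons (P.cons (P.lf 0 1013118 0) (P.cons (P.lf 325364 0 0) (P.cons (P.lf 0 21622 0) P.nil))) (P.cons (P.cons (P.lf 433766 0 0) (P.cons (P.lf 10427 0 0) P.nil)) (P.cons (P.cons (P.lf 39371 0 0) P.nil) P.nil)))))) 26260)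
 EL.nil)
noncomputable def S24_53_512_660_33 : EL := (EL.cons 14 (TM.mk (P.lf 8589934592 0 0) 0)
 EL.nil)
noncomputable def S24_53_512_660_34 : EL := (EL.cons 14 (TM.mk (P.cons (P.cons (P.lf 0 5724582876 0) (P.cons (P.lf 0 236504 0) (P.cons (P.lf 15808 0 0) (P.lf 5264 0 0)))) (P.cons (P.cons (P.lf 97252092 0 0) (P.cons (P.lf 0 918528 0) (P.cons (P.lf 61408 0 0) (P.lf 20464 0 0)))) (P.cons (P.cons (P.lf 65001554 0 0) (P.cons (P.lf 0 1216568 0) (P.cons (P.lf 81336 0 0) (P.lf 27112 0 0)))) (P.cons (P.cons (P.lf 2851864 0 0) (P.cons (P.lf 0 584048 0) (P.cons (P.lf 39048 0 0) P.nil))) (P.cons (P.cons (P.lf 0 153694 0) (P.cons (P.lf 0 46512 0) P.nil)) (P.cons (P.cons (P.lf 0 24778 0) P.nil) P.nil)))))) 22436)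
 EL.nil)
noncomputable def S24_53_512_660_35 : EL := (EL.cons 14 (TM.mk (P.cons (P.cons (P.lf 3815028944 0 0) (P.cons (P.lf 315226 0 0) (P.cons (P.lf 0 21062 0) (P.cons (P.lf 0 7016 0) (P.cons (P.lf 0 0 0) (P.cons (P.lf 0 0 0) P.nil)))))) (P.cons (P.cons (P.lf 0 129623258 0) (P.cons (P.lf 1218912 0 0) (P.cons (P.lf 0 81438 0) (P.cons (P.lf 0 27162 0) (P.cons (P.lf 0 2 0) P.nil))))) (P.cons (P.cons (P.lf 0 85536808 0) (P.cons (P.lf 1597134 0 0) (P.cons (P.lf 0 106614 0) (P.cons (P.lf 0 35614 0) P.nil)))) (P.cons (P.cons (P.lf 0 2329282 0) (P.cons (P.lf 736846 0 0) (P.cons (P.lf 0 48970 0) P.nil))) (P.cons (P.cons (P.lf 761306 0 0) (P.cons (P.lf 29754 0 0) P.nil)) (P.cons (P.cons (P.lf 72706 0 0) P.nil) P.nil)))))) 51988)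
 EL.nil)
noncomputable def S24_53_512_660_36 : EL := (EL.cons 14 (TM.mk (P.cons (P.lf 0 7672930352 0) (P.cons (P.lf 26272920 0 0) (P.cons (P.lf 17836760 0 0) (P.cons (P.lf 1072648 0 0) (P.cons (P.lf 30232 0 0) (P.cons (P.lf 0 344 0) P.nil)))))) 752)
 EL.nil)
noncomputable def S24_53_512_660_37 : EL := (EL.cons 14 (TM.mk (P.cons (P.cons (P.lf 5113464512 0 0) (P.cons (P.lf 211256 0 0) (P.cons (P.lf 0 14120 0) (P.lf 0 4702 0)))) (P.cons (P.cons (P.lf 0 104379144 0) (P.cons (P.lf 819748 0 0) (P.cons (P.lf 0 54804 0) (P.lf 0 18262 0)))) (P.cons (P.cons (P.lf 0 69651904 0) (P.cons (P.lf 1083394 0 0) (P.cons (P.lf 0 72432 0) (P.lf 0 24144 0)))) (P.cons (P.cons (P.lf 0 2861508 0) (P.cons (P.lf 516040 0 0) (P.cons (P.lf 0 34500 0) P.nil))) (P.cons (P.cons (P.lf 272978 0 0) (P.cons (P.lf 37118 0 0) P.nil)) (P.cons (P.cons (P.lf 36272 0 0) P.nil) P.nil)))))) 24056)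
 EL.nil)
noncomputable def S24_53_512_660_38 : EL := (EL.cons 14 (TM.mk (P.cons (P.cons (P.lf 0 3407761846 0) (P.cons (P.lf 0 281574 0) (P.cons (P.lf 18812 0 0) (P.cons (P.lf 6266 0 0) (P.cons (P.lf 0 0 0) (P.cons (P.lf 0 0 0) P.nil)))))) (P.cons (P.cons (P.lf 127454076 0 0) (P.cons (P.lf 0 1087824 0) (P.cons (P.lf 72678 0 0) (P.cons (P.lf 24240 0 0) (P.cons (P.lf 0 0 0) P.nil))))) (P.cons (P.cons (P.lf 83930806 0 0) (P.cons (P.lf 0 1422250 0) (P.cons (P.lf 94938 0 0) (P.cons (P.lf 31714 0 0) P.nil)))) (P.cons (P.cons (P.lf 2026236 0 0) (P.cons (P.lf 0 650728 0) (P.cons (P.lf 43244 0 0) P.nil))) (P.cons (P.cons (P.lf 0 867532 0) (P.cons (P.lf 0 20854 0) P.nil)) (P.cons (P.cons (P.lf 0 78742 0) P.nil) P.nil)))))) 52520)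
 EL.nil)
noncomputable def S24_53_512_660_39 : EL := (EL.cons 14 (TM.mk (P.cons (P.lf 6853819380 0 0) (P.cons (P.lf 0 46936394 0) (P.cons (P.lf 0 31784894 0) (P.cons (P.lf 0 1807168 0) (P.cons (P.lf 0 10410 0) (P.cons (P.lf 5254 0 0) P.nil)))))) 1636)
 EL.nil)
noncomputable def S24_53_512_660_40 : EL := (EL.cons 14 (TM.mk (P.cons (P.cons (P.lf 0 4567585076 0) (P.cons (P.lf 0 188704 0) (P.cons (P.lf 12612 0 0) (P.lf 4200 0 0)))) (P.cons (P.cons (P.lf 108876212 0 0) (P.cons (P.lf 0 731590 0) (P.cons (P.lf 48910 0 0) (P.lf 16298 0 0)))) (P.cons (P.cons (P.lf 72515046 0 0) (P.cons (P.lf 0 964792 0) (P.cons (P.lf 64502 0 0) (P.lf 21500 0 0)))) (P.cons (P.cons (P.lf 2764788 0 0) (P.cons (P.lf 0 455908 0) (P.cons (P.lf 30480 0 0) P.nil))) (P.cons (P.cons (P.lf 0 392258 0) (P.cons (P.lf 0 29224 0) P.nil)) (P.cons (P.cons (P.lf 0 46776 0) P.nil) P.nil)))))) 24902)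
 EL.nil)
noncomputable def S24_53_512_660_41 : EL := (EL.cons 14 (TM.mk (P.cons (P.cons (P.lf 3043971874 0 0) (P.cons (P.lf 251514 0 0) (P.cons (P.lf 0 16804 0) (P.cons (P.lf 0 5596 0) (P.cons (P.lf 0 0 0) (P.cons (P.lf 0 0 0) P.nil)))))) (P.cons (P.cons (P.lf 0 124270806 0) (P.cons (P.lf 970834 0 0) (P.cons (P.lf 0 64862 0) (P.cons (P.lf 0 21632 0) (P.cons (P.lf 0 0 0) P.nil))))) (P.cons (P.cons (P.lf 0 81657206 0) (P.cons (P.lf 1266508 0 0) (P.cons (P.lf 0 84542 0) (P.cons (P.lf 0 28240 0) P.nil)))) (P.cons (P.cons (P.lf 0 1714102 0) (P.cons (P.lf 574618 0 0) (P.cons (P.lf 0 38184 0) P.nil))) (P.cons (P.cons (P.lf 959320 0 0) (P.cons (P.lf 13546 0 0) P.nil)) (P.cons (P.cons (P.lf 82956 0 0) P.nil) P.nil)))))) 52008)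
 EL.nil)
noncomputable def S24_53_512_660_42 : EL := (EL.cons 14 (TM.mk (P.cons (P.lf 0 6122151242 0) (P.cons (P.lf 62888666 0 0) (P.cons (P.lf 42479956 0 0) (P.cons (P.lf 2275422 0 0) (P.cons (P.lf 0 43968 0) (P.cons (P.lf 0 12886 0) P.nil)))))) 2488)
 EL.nil)
noncomputable def S24_53_512_660_43 : EL := (EL.cons 14 (TM.mk (P.cons (P.cons (P.lf 4079980096 0 0) (P.cons (P.lf 168558 0 0) (P.cons (P.lf 0 11266 0) (P.lf 0 3750 0)))) (P.cons (P.cons (P.lf 0 111223592 0) (P.cons (P.lf 652914 0 0) (P.cons (P.lf 0 43650 0) (P.lf 0 14546 0)))) (P.cons (P.cons (P.lf 0 73925278 0) (P.cons (P.lf 859168 0 0) (P.cons (P.lf 0 57440 0) (P.lf 0 19146 0)))) (P.cons (P.cons (P.lf 0 2592132 0) (P.cons (P.lf 402746 0 0) (P.cons (P.lf 0 26926 0) P.nil))) (P.cons (P.cons (P.lf 506934 0 0) (P.cons (P.lf 22614 0 0) P.nil)) (P.cons (P.cons (P.lf 55946 0 0) P.nil) P.nil)))))) 25824)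
 EL.nil)
noncomputable def S24_53_512_660_44 : EL := (EL.cons 14 (TM.mk (P.cons (P.cons (P.lf 0 2719017698 0) (P.cons (P.lf 0 224664 0) (P.cons (P.lf 15010 0 0) (P.cons (P.lf 5000 0 0) (P.cons (P.lf 0 0 0) (P.cons (P.lf 0 0 0) P.nil)))))) (P.cons (P.cons (P.lf 120314684 0 0) (P.cons (P.lf 0 866424 0) (P.cons (P.lf 57886 0 0) (P.cons (P.lf 19306 0 0) (P.cons (P.lf 0 0 0) P.nil))))) (P.cons (P.cons (P.lf 78880658 0 0) (P.cons (P.lf 0 1127814 0) (P.cons (P.lf 75284 0 0) (P.cons (P.lf 25148 0 0) P.nil)))) (P.cons (P.cons (P.lf 1403424 0 0) (P.cons (P.lf 0 507354 0) (P.cons (P.lf 33712 0 0) P.nil))) (P.cons (P.cons (P.lf 0 1036514 0) (P.cons (P.lf 0 7590 0) P.nil)) (P.cons (P.cons (P.lf 0 85480 0) P.nil) P.nil)))))) 51634)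
 EL.nil)
noncomputable def S24_53_512_660_45 : EL := (EL.cons 14 (TM.mk (P.cons (P.cons (P.lf 0 2542446526 0) (P.cons (P.lf 0 315112 0) (P.cons (P.lf 21048 0 0) (P.cons (P.lf 7014 0 0) (P.cons (P.lf 0 0 0) (P.cons (P.lf 0 0 0) P.nil)))))) (P.cons (P.cons (P.lf 129577078 0 0) (P.cons (P.lf 0 1213124 0) (P.cons (P.lf 81000 0 0) (P.cons (P.lf 27040 0 0) (P.cons (P.lf 4 0 0) P.nil))))) (P.cons (P.cons (P.lf 84405674 0 0) (P.cons (P.lf 0 1572286 0) (P.cons (P.lf 104788 0 0) (P.cons (P.lf 35082 0 0) P.nil)))) (P.cons (P.cons (P.lf 869594 0 0) (P.cons (P.lf 0 695468 0) (P.cons (P.lf 45918 0 0) P.nil))) (P.cons (P.cons (P.lf 0 1292294 0) (P.cons (P.lf 1496 0 0) P.nil)) (P.cons (P.cons (P.lf 0 94542 0) P.nil) P.nil)))))) 77762)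
 EL.nil)
noncomputable def S24_53_512_660_46 : EL := (EL.cons 15 (TM.mk (P.lf 4294967296 0 0) 0)
 EL.nil)
noncomputable def S24_53_512_660_47 : EL := (EL.cons 15 (TM.mk (P.cons (P.cons (P.lf 0 2862291438 0) (P.cons (P.lf 0 118252 0) (P.cons (P.lf 7904 0 0) (P.lf 2632 0 0)))) (P.cons (P.cons (P.lf 48626046 0 0) (P.cons (P.lf 0 459264 0) (P.cons (P.lf 30704 0 0) (P.lf 10232 0 0)))) (P.cons (P.cons (P.lf 32500777 0 0) (P.cons (P.lf 0 608284 0) (P.cons (P.lf 40668 0 0) (P.lf 13556 0 0)))) (P.cons (P.cons (P.lf 1425932 0 0) (P.cons (P.lf 0 292024 0) (P.cons (P.lf 19524 0 0) P.nil))) (P.cons (P.cons (P.lf 0 76847 0) (P.cons (P.lf 0 23256 0) P.nil)) (P.cons (P.cons (P.lf 0 12389 0) P.nil) P.nil)))))) 11218)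
 EL.nil)
noncomputable def S24_53_512_660_48 : EL := (EL.cons 15 (TM.mk (P.cons (P.cons (P.lf 1907514472 0 0) (P.cons (P.lf 157613 0 0) (P.cons (P.lf 0 10531 0) (P.cons (P.lf 0 3508 0) (P.cons (P.lf 0 0 0) (P.cons (P.lf 0 0 0) P.nil)))))) (P.cons (P.cons (P.lf 0 64811629 0) (P.cons (P.lf 609456 0 0) (P.cons (P.lf 0 40719 0) (P.cons (P.lf 0 13581 0) (P.cons (P.lf 0 1 0) P.nil))))) (P.cons (P.cons (P.lf 0 42768404 0) (P.cons (P.lf 798567 0 0) (P.cons (P.lf 0 53307 0) (P.cons (P.lf 0 17807 0) P.nil)))) (P.cons (P.cons (P.lf 0 1164641 0) (P.cons (P.lf 368423 0 0) (P.cons (P.lf 0 24485 0) P.nil))) (P.cons (P.cons (P.lf 380653 0 0) (P.cons (P.lf 14877 0 0) P.nil)) (P.cons (P.cons (P.lf 36353 0 0) P.nil) P.nil)))))) 25994)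
 EL.nil)
noncomputable def S24_53_512_660 : SL := (SL.cons S24_53_512_660_0 (SL.cons S24_53_512_660_1 (SL.cons S24_53_512_660_2 (SL.cons S24_53_512_660_3 (SL.cons S24_53_512_660_4 (SL.cons S24_53_512_660_5 (SL.cons S24_53_512_660_6 (SL.cons S24_53_512_660_7 (SL.cons S24_53_512_660_8 (SL.cons S24_53_512_660_9 (SL.cons S24_53_512_660_10 (SL.cons S24_53_512_660_11 (SL.cons S24_53_512_660_12 (SL.cons S24_53_512_660_13 (SL.cons S24_53_512_660_14 (SL.cons S24_53_512_660_15 (SL.cons S24_53_512_660_16 (SL.cons S24_53_512_660_17 (SL.cons S24_53_512_660_18 (SL.cons S24_53_512_660_19 (SL.cons S24_53_512_660_20 (SL.cons S24_53_512_660_21 (SL.cons S24_53_512_660_22 (SL.cons S24_53_512_660_23 (SL.cons S24_53_512_660_24 (SL.cons S24_53_512_660_25 (SL.cons S24_53_512_660_26 (SL.cons S24_53_512_660_27 (SL.cons S24_53_512_660_28 (SL.cons S24_53_512_660_29 (SL.cons S24_53_512_660_30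 (SL.cons S24_53_512_660_31 (SL.cons S24_53_512_660_32 (SL.cons S24_53_512_660_33 (SL.cons S24_53_512_660_34 (SL.cons S24_53_512_660_35 (SL.cons S24_53_512_660_36 (SL.cons S24_53_512_660_37 (SL.cons S24_53_512_660_38 (SL.cons S24_53_512_660_39 (SL.cons S24_53_512_660_40 (SL.cons S24_53_512_660_41 (SL.cons S24_53_512_660_42 (SL.cons S24_53_512_660_43 (SL.cons S24_53_512_660_44 (SL.cons S24_53_512_660_45 (SL.cons S24_53_512_660_46 (SL.cons S24_53_512_660_47 (SL.cons S24_53_512_660_48 SL.nil)))))))))))))))))))))))))))))))))))))))))))))))))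
noncomputable def S24_53_660_808_0 : EL := (EL.cons 0 (TM.mk (P.cons (P.lf 2431852174 0 0) (P.cons (P.lf 41252690 0 0) (P.cons (P.lf 27935941 0 0) (P.cons (P.lf 1588331 0 0) (P.cons (P.lf 9149 0 0) (P.cons (P.lf 0 4617 0) P.nil)))))) 1444)
 (EL.cons 1 (TM.mk (P.cons (P.lf 0 184731487 0) (P.cons (P.lf 0 238513991 0) (P.cons (P.lf 0 5904390 0) (P.cons (P.lf 658029 0 0) (P.cons (P.lf 68962 0 0) (P.cons (P.lf 2799 0 0) P.nil)))))) 432)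
 (EL.cons 5 (TM.mk (P.cons (P.lf 6436785858 0 0) (P.cons (P.lf 0 14667624 0) (P.cons (P.lf 0 9932778 0) (P.cons (P.lf 0 564744 0) (P.cons (P.lf 0 3254 0) (P.cons (P.lf 1644 0 0) P.nil)))))) 189)
 (EL.cons 9 (TM.mk (P.lf 6442450944 0 0) 2)
 EL.nil))))
noncomputable def S24_53_660_808_1 : EL := (EL.cons 0 (TM.mk (P.cons (P.cons (P.lf 0 1672669793 0) (P.cons (P.lf 200285 0 0) (P.cons (P.lf 0 86352 0) (P.lf 0 9579 0)))) (P.cons (P.cons (P.lf 0 132478243 0) (P.cons (P.lf 775755 0 0) (P.cons (P.lf 0 334506 0) (P.lf 0 37149 0)))) (P.cons (P.cons (P.lf 0 84937629 0) (P.cons (P.lf 1020640 0 0) (P.cons (P.lf 0 440101 0) (P.lf 0 48896 0)))) (P.cons (P.cons (P.lf 118989 0 0) (P.cons (P.lf 478103 0 0) (P.cons (P.lf 0 206154 0) P.nil))) (P.cons (P.cons (P.lf 1184413 0 0) (P.cons (P.lf 26481 0 0) P.nil)) (P.cons (P.cons (P.lf 94036 0 0) P.nil) P.nil)))))) 134714)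
 (EL.cons 1 (TM.mk (P.cons (P.cons (P.lf 423241838 0 0) (P.cons (P.lf 0 1335778 0) (P.cons (P.lf 575998 0 0) (P.lf 64002 0 0)))) (P.cons (P.cons (P.lf 529126913 0 0) (P.cons (P.lf 0 3429417 0) (P.cons (P.lf 1478802 0 0) (P.lf 164313 0 0)))) (P.cons (P.cons (P.lf 0 14144164 0) (P.cons (P.lf 0 2247168 0) (P.cons (P.lf 969003 0 0) (P.lf 107669 0 0)))) (P.cons (P.cons (P.lf 0 9026541 0) (P.cons (P.lf 0 30387 0) (P.cons (P.lf 13106 0 0) P.nil))) (P.cons (P.cons (P.lf 0 422299 0) (P.cons (P.lf 39113 0 0) P.nil)) (P.cons (P.cons (P.lf 44314 0 0) P.nil) P.nil)))))) 47178)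
 (EL.cons 5 (TM.mk (P.cons (P.cons (P.lf 0 4271480887 0) (P.cons (P.lf 0 164724 0) (P.cons (P.lf 71028 0 0) (P.lf 7888 0 0)))) (P.cons (P.cons (P.lf 128554139 0 0) (P.cons (P.lf 0 638982 0) (P.cons (P.lf 275534 0 0) (P.lf 30608 0 0)))) (P.cons (P.cons (P.lf 83844097 0 0) (P.cons (P.lf 0 843890 0) (P.cons (P.lf 363892 0 0) (P.lf 40430 0 0)))) (P.cons (P.cons (P.lf 1610174 0 0) (P.cons (P.lf 0 400906 0) (P.cons (P.lf 172876 0 0) P.nil))) (P.cons (P.cons (P.lf 0 613218 0) (P.cons (P.lf 0 27808 0) P.nil)) (P.cons (P.cons (P.lf 0 55625 0) P.nil) P.nil)))))) 44450)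
 (EL.cons 9 (TM.mk (P.cons (P.cons (P.lf 0 4293712863 0) (P.cons (P.lf 0 82506 0) (P.cons (P.lf 35574 0 0) (P.lf 3948 0 0)))) (P.cons (P.cons (P.lf 71868321 0 0) (P.cons (P.lf 0 320430 0) (P.cons (P.lf 138174 0 0) (P.lf 15348 0 0)))) (P.cons (P.cons (P.lf 47332987 0 0) (P.cons (P.lf 0 424404 0) (P.cons (P.lf 183006 0 0) (P.lf 20334 0 0)))) (P.cons (P.cons (P.lf 1458060 0 0) (P.cons (P.lf 0 203748 0) (P.cons (P.lf 87858 0 0) P.nil))) (P.cons (P.cons (P.lf 0 169498 0) (P.cons (P.lf 0 16224 0) P.nil)) (P.cons (P.cons (P.lf 0 19567 0) P.nil) P.nil)))))) 21298)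
 (EL.cons 2 (TM.mk (P.cons (P.cons (P.lf 2810885 0 0) (P.cons (P.lf 0 2618600 0) (P.cons (P.lf 0 268751 0) (P.cons (P.lf 55890 0 0) (P.lf 4657 0 0))))) (P.cons (P.cons (P.lf 7268118 0 0) (P.cons (P.lf 0 6770925 0) (P.cons (P.lf 0 694915 0) (P.cons (P.lf 144520 0 0) (P.lf 12040 0 0))))) (P.cons (P.cons (P.lf 4896964 0 0) (P.cons (P.lf 0 4561976 0) (P.cons (P.lf 0 468205 0) (P.cons (P.lf 97371 0 0) P.nil)))) (P.cons (P.cons (P.lf 246023 0 0) (P.cons (P.lf 0 229193 0) (P.cons (P.lf 0 23520 0) P.nil))) (P.cons (P.cons (P.lf 0 11829 0) (P.cons (P.lf 11022 0 0) P.nil)) (P.cons (P.cons (P.lf 0 2188 0) P.nil) P.nil)))))) 19539)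
 (EL.cons 6 (TM.mk (P.cons (P.cons (P.lf 86199 0 0) (P.cons (P.lf 0 80301 0) (P.cons (P.lf 0 8241 0) (P.cons (P.lf 1713 0 0) (P.lf 141 0 0))))) (P.cons (P.cons (P.lf 334773 0 0) (P.cons (P.lf 0 311874 0) (P.cons (P.lf 0 32007 0) (P.cons (P.lf 6654 0 0) (P.lf 552 0 0))))) (P.cons (P.cons (P.lf 443400 0 0) (P.cons (P.lf 0 413067 0) (P.cons (P.lf 0 42393 0) (P.cons (P.lf 8814 0 0) P.nil)))) (P.cons (P.cons (P.lf 212868 0 0) (P.cons (P.lf 0 198306 0) (P.cons (P.lf 0 20352 0) P.nil))) (P.cons (P.cons (P.lf 16953 0 0) (P.cons (P.lf 0 15792 0) P.nil)) (P.cons (P.cons (P.lf 306 0 0) P.nil) P.nil)))))) 8031)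
 EL.nil))))))
noncomputable def S24_53_660_808_2 : EL := (EL.cons 0 (TM.mk (P.cons (P.cons (P.lf 1149383073 0 0) (P.cons (P.lf 0 265644 0) (P.cons (P.lf 114525 0 0) (P.cons (P.lf 12704 0 0) (P.cons (P.lf 0 0 0) (P.cons (P.lf 0 0 0) P.nil)))))) (P.cons (P.cons (P.lf 157104123 0 0) (P.cons (P.lf 0 1021027 0) (P.cons (P.lf 440225 0 0) (P.cons (P.lf 48929 0 0) (P.cons (P.lf 0 0 0) P.nil))))) (P.cons (P.cons (P.lf 97400698 0 0) (P.cons (P.lf 0 1318058 0) (P.cons (P.lf 568207 0 0) (P.cons (P.lf 63264 0 0) P.nil)))) (P.cons (P.cons (P.lf 0 4313663 0) (P.cons (P.lf 0 573916 0) (P.cons (P.lf 247221 0 0) P.nil))) (P.cons (P.cons (P.lf 0 2729620 0) (P.cons (P.lf 10438 0 0) P.nil)) (P.cons (P.cons (P.lf 0 117476 0) P.nil) P.nil)))))) 295948)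
 (EL.cons 1 (TM.mk (P.cons (P.cons (P.lf 0 482102697 0) (P.cons (P.lf 1772833 0 0) (P.cons (P.lf 0 764425 0) (P.cons (P.lf 0 84970 0) (P.cons (P.lf 0 0 0) (P.cons (P.lf 0 0 0) P.nil)))))) (P.cons (P.cons (P.lf 0 592656175 0) (P.cons (P.lf 4502030 0 0) (P.cons (P.lf 0 1941110 0) (P.cons (P.lf 0 215897 0) (P.cons (P.lf 16 0 0) P.nil))))) (P.cons (P.cons (P.lf 34167730 0 0) (P.cons (P.lf 2822997 0 0) (P.cons (P.lf 0 1216735 0) (P.cons (P.lf 0 135758 0) P.nil)))) (P.cons (P.cons (P.lf 16971259 0 0) (P.cons (P.lf 0 127077 0) (P.cons (P.lf 55556 0 0) P.nil))) (P.cons (P.cons (P.lf 277503 0 0) (P.cons (P.lf 0 109839 0) P.nil)) (P.cons (P.cons (P.lf 0 208915 0) P.nil) P.nil)))))) 129131)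
 (EL.cons 5 (TM.mk (P.cons (P.cons (P.lf 2834521567 0 0) (P.cons (P.lf 219091 0 0) (P.cons (P.lf 0 94464 0) (P.cons (P.lf 0 10490 0) (P.cons (P.lf 0 0 0) (P.cons (P.lf 0 0 0) P.nil)))))) (P.cons (P.cons (P.lf 0 164428533 0) (P.cons (P.lf 845010 0 0) (P.cons (P.lf 0 364355 0) (P.cons (P.lf 0 40496 0) (P.cons (P.lf 0 0 0) P.nil))))) (P.cons (P.cons (P.lf 0 105227252 0) (P.cons (P.lf 1100302 0 0) (P.cons (P.lf 0 474371 0) (P.cons (P.lf 0 52785 0) P.nil)))) (P.cons (P.cons (P.lf 527926 0 0) (P.cons (P.lf 495750 0 0) (P.cons (P.lf 0 213622 0) P.nil))) (P.cons (P.cons (P.lf 1657579 0 0) (P.cons (P.lf 8432 0 0) P.nil)) (P.cons (P.cons (P.lf 91337 0 0) P.nil) P.nil)))))) 92611)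
 (EL.cons 9 (TM.mk (P.cons (P.cons (P.lf 2861639197 0 0) (P.cons (P.lf 109975 0 0) (P.cons (P.lf 0 47416 0) (P.cons (P.lf 0 5262 0) (P.cons (P.lf 0 0 0) (P.cons (P.lf 0 0 0) P.nil)))))) (P.cons (P.cons (P.lf 0 95796439 0) (P.cons (P.lf 425274 0 0) (P.cons (P.lf 0 183375 0) (P.cons (P.lf 0 20376 0) (P.cons (P.lf 0 0 0) P.nil))))) (P.cons (P.cons (P.lf 0 62290494 0) (P.cons (P.lf 557344 0 0) (P.cons (P.lf 0 240303 0) (P.cons (P.lf 0 26725 0) P.nil)))) (P.cons (P.cons (P.lf 0 887472 0) (P.cons (P.lf 257370 0 0) (P.cons (P.lf 0 110932 0) P.nil))) (P.cons (P.cons (P.lf 606219 0 0) (P.cons (P.lf 10702 0 0) P.nil)) (P.cons (P.cons (P.lf 43725 0 0) P.nil) P.nil)))))) 44201)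
 (EL.cons 2 (TM.mk (P.cons (P.cons (P.lf 0 3746750 0) (P.cons (P.lf 3490374 0 0) (P.cons (P.lf 358329 0 0) (P.cons (P.lf 0 74520 0) (P.cons (P.lf 0 6215 0) (P.cons (P.lf 0 0 0) P.nil)))))) (P.cons (P.cons (P.lf 0 9625280 0) (P.cons (P.lf 8966373 0 0) (P.cons (P.lf 920919 0 0) (P.cons (P.lf 0 191508 0) (P.cons (P.lf 0 15997 0) P.nil))))) (P.cons (P.cons (P.lf 0 6323917 0) (P.cons (P.lf 5890095 0 0) (P.cons (P.lf 606296 0 0) (P.cons (P.lf 0 126056 0) P.nil)))) (P.cons (P.cons (P.lf 0 110610 0) (P.cons (P.lf 101413 0 0) (P.cons (P.lf 12791 0 0) P.nil))) (P.cons (P.cons (P.lf 96356 0 0) (P.cons (P.lf 0 90905 0) P.nil)) (P.cons (P.cons (P.lf 8083 0 0) P.nil) P.nil)))))) 53718)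
 (EL.cons 6 (TM.mk (P.cons (P.cons (P.lf 0 114900 0) (P.cons (P.lf 107034 0 0) (P.cons (P.lf 10986 0 0) (P.cons (P.lf 0 2280 0) (P.cons (P.lf 0 186 0) (P.cons (P.lf 0 0 0) P.nil)))))) (P.cons (P.cons (P.lf 0 444312 0) (P.cons (P.lf 413898 0 0) (P.cons (P.lf 42504 0 0) (P.cons (P.lf 0 8838 0) (P.cons (P.lf 0 732 0) P.nil))))) (P.cons (P.cons (P.lf 0 582288 0) (P.cons (P.lf 542400 0 0) (P.cons (P.lf 55746 0 0) (P.cons (P.lf 0 11592 0) P.nil)))) (P.cons (P.cons (P.lf 0 268890 0) (P.cons (P.lf 250392 0 0) (P.cons (P.lf 25842 0 0) P.nil))) (P.cons (P.cons (P.lf 0 11184 0) (P.cons (P.lf 10320 0 0) P.nil)) (P.cons (P.cons (P.lf 3276 0 0) P.nil) P.nil)))))) 14898)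
 EL.nil))))))
noncomputable def S24_53_660_808_3 : EL := (EL.cons 0 (TM.mk (P.cons (P.lf 6023864689 0 0) (P.cons (P.lf 0 41252690 0) (P.cons (P.lf 0 27935941 0) (P.cons (P.lf 0 1588331 0) (P.cons (P.lf 0 9149 0) (P.cons (P.lf 4617 0 0) P.nil)))))) 1444)
 (EL.cons 1 (TM.mk (P.cons (P.lf 184731487 0 0) (P.cons (P.lf 238513991 0 0) (P.cons (P.lf 5904390 0 0) (P.cons (P.lf 0 658029 0) (P.cons (P.lf 0 68962 0) (P.cons (P.lf 0 2799 0) P.nil)))))) 432)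
 (EL.cons 5 (TM.mk (P.cons (P.lf 5665086 0 0) (P.cons (P.lf 14667624 0 0) (P.cons (P.lf 9932778 0 0) (P.cons (P.lf 564744 0 0) (P.cons (P.lf 3254 0 0) (P.cons (P.lf 0 1644 0) P.nil)))))) 182)
 EL.nil)))
noncomputable def S24_53_660_808_4 : EL := (EL.cons 0 (TM.mk (P.cons (P.cons (P.lf 0 4014736862 0) (P.cons (P.lf 0 77145 0) (P.cons (P.lf 33261 0 0) (P.lf 3691 0 0)))) (P.cons (P.cons (P.lf 94692570 0 0) (P.cons (P.lf 0 299081 0) (P.cons (P.lf 128967 0 0) (P.lf 14324 0 0)))) (P.cons (P.cons (P.lf 62415943 0 0) (P.cons (P.lf 0 394417 0) (P.cons (P.lf 170075 0 0) (P.lf 18896 0 0)))) (P.cons (P.cons (P.lf 1807178 0 0) (P.cons (P.lf 0 186380 0) (P.cons (P.lf 80368 0 0) P.nil))) (P.cons (P.cons (P.lf 0 384688 0) (P.cons (P.lf 0 11944 0) P.nil)) (P.cons (P.cons (P.lf 0 38381 0) P.nil) P.nil)))))) 26027)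
 (EL.cons 1 (TM.mk (P.cons (P.cons (P.lf 0 123118355 0) (P.cons (P.lf 0 2364 0) (P.cons (P.lf 1020 0 0) (P.lf 112 0 0)))) (P.cons (P.cons (P.lf 0 156902126 0) (P.cons (P.lf 0 12241 0) (P.cons (P.lf 5278 0 0) (P.lf 585 0 0)))) (P.cons (P.cons (P.lf 82845 0 0) (P.cons (P.lf 0 24106 0) (P.cons (P.lf 10395 0 0) (P.lf 1153 0 0)))) (P.cons (P.cons (P.lf 2298605 0 0) (P.cons (P.lf 0 21838 0) (P.cons (P.lf 9416 0 0) P.nil))) (P.cons (P.cons (P.lf 131120 0 0) (P.cons (P.lf 0 8362 0) P.nil)) (P.cons (P.cons (P.lf 0 9236 0) P.nil) P.nil)))))) 8638)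
 (EL.cons 5 (TM.mk (P.cons (P.cons (P.lf 0 3775622 0) (P.cons (P.lf 0 72 0) (P.cons (P.lf 30 0 0) (P.lf 2 0 0)))) (P.cons (P.cons (P.lf 0 9712364 0) (P.cons (P.lf 0 468 0) (P.cons (P.lf 202 0 0) (P.lf 22 0 0)))) (P.cons (P.cons (P.lf 0 6414672 0) (P.cons (P.lf 0 1228 0) (P.cons (P.lf 530 0 0) (P.lf 58 0 0)))) (P.cons (P.cons (P.lf 0 156536 0) (P.cons (P.lf 0 1646 0) (P.cons (P.lf 710 0 0) P.nil))) (P.cons (P.cons (P.lf 80276 0 0) (P.cons (P.lf 0 1160 0) P.nil)) (P.cons (P.cons (P.lf 7126 0 0) P.nil) P.nil)))))) 1840)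
 EL.nil)))
noncomputable def S24_53_660_808_5 : EL := (EL.cons 0 (TM.mk (P.cons (P.cons (P.lf 2675709518 0 0) (P.cons (P.lf 102828 0 0) (P.cons (P.lf 0 44335 0) (P.cons (P.lf 0 4918 0) (P.cons (P.lf 0 0 0) (P.cons (P.lf 0 0 0) P.nil)))))) (P.cons (P.cons (P.lf 0 107896064 0) (P.cons (P.lf 396936 0 0) (P.cons (P.lf 0 171156 0) (P.cons (P.lf 0 19017 0) (P.cons (P.lf 0 0 0) P.nil))))) (P.cons (P.cons (P.lf 0 70038597 0) (P.cons (P.lf 517930 0 0) (P.cons (P.lf 0 223308 0) (P.cons (P.lf 0 24834 0) P.nil)))) (P.cons (P.cons (P.lf 0 721065 0) (P.cons (P.lf 235207 0 0) (P.cons (P.lf 0 101378 0) P.nil))) (P.cons (P.cons (P.lf 862171 0 0) (P.cons (P.lf 5835 0 0) P.nil)) (P.cons (P.cons (P.lf 58394 0 0) P.nil) P.nil)))))) 50402)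
 (EL.cons 1 (TM.mk (P.cons (P.cons (P.lf 82054931 0 0) (P.cons (P.lf 3151 0 0) (P.cons (P.lf 0 1359 0) (P.cons (P.lf 0 150 0) (P.cons (P.lf 0 0 0) (P.cons (P.lf 0 0 0) P.nil)))))) (P.cons (P.cons (P.lf 103197427 0 0) (P.cons (P.lf 16265 0 0) (P.cons (P.lf 0 7012 0) (P.cons (P.lf 0 778 0) (P.cons (P.lf 0 0 0) P.nil))))) (P.cons (P.cons (P.lf 0 2710081 0) (P.cons (P.lf 31826 0 0) (P.cons (P.lf 0 13721 0) (P.cons (P.lf 0 1524 0) P.nil)))) (P.cons (P.cons (P.lf 0 2711662 0) (P.cons (P.lf 28391 0 0) (P.cons (P.lf 0 12240 0) P.nil))) (P.cons (P.cons (P.lf 0 93408 0) (P.cons (P.lf 10301 0 0) P.nil)) (P.cons (P.cons (P.lf 29026 0 0) P.nil) P.nil)))))) 12708)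
 (EL.cons 5 (TM.mk (P.cons (P.cons (P.lf 2516346 0 0) (P.cons (P.lf 96 0 0) (P.cons (P.lf 0 40 0) (P.cons (P.lf 0 4 0) (P.cons (P.lf 0 0 0) (P.cons (P.lf 0 0 0) P.nil)))))) (P.cons (P.cons (P.lf 6430898 0 0) (P.cons (P.lf 624 0 0) (P.cons (P.lf 0 268 0) (P.cons (P.lf 0 28 0) (P.cons (P.lf 0 0 0) P.nil))))) (P.cons (P.cons (P.lf 4139114 0 0) (P.cons (P.lf 1626 0 0) (P.cons (P.lf 0 700 0) (P.cons (P.lf 0 76 0) P.nil)))) (P.cons (P.cons (P.lf 0 39442 0) (P.cons (P.lf 2160 0 0) (P.cons (P.lf 0 930 0) P.nil))) (P.cons (P.cons (P.lf 0 104476 0) (P.cons (P.lf 1490 0 0) P.nil)) (P.cons (P.cons (P.lf 0 6188 0) P.nil) P.nil)))))) 3062)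
 EL.nil)))
noncomputable def S24_53_660_808_6 : EL := (EL.cons 12 (TM.mk (P.lf 8589934592 0 0) 0)
 (EL.cons 3 (TM.mk (P.cons (P.lf 0 3596686102 0) (P.cons (P.lf 12315431 0 0) (P.cons (P.lf 8360981 0 0) (P.cons (P.lf 502803 0 0) (P.cons (P.lf 14171 0 0) (P.cons (P.lf 0 161 0) P.nil)))))) 359)
 (EL.cons 7 (TM.mk (P.cons (P.lf 0 110298158 0) (P.cons (P.lf 0 142787903 0) (P.cons (P.lf 0 4270675 0) (P.cons (P.lf 30920 0 0) (P.cons (P.lf 10958 0 0) (P.cons (P.lf 627 0 0) P.nil)))))) 162)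
 EL.nil)))
noncomputable def S24_53_660_808_7 : EL := (EL.cons 12 (TM.mk (P.cons (P.cons (P.lf 0 5724950484 0) (P.cons (P.lf 0 110008 0) (P.cons (P.lf 47432 0 0) (P.lf 5264 0 0)))) (P.cons (P.cons (P.lf 95824428 0 0) (P.cons (P.lf 0 427240 0) (P.cons (P.lf 184232 0 0) (P.lf 20464 0 0)))) (P.cons (P.cons (P.lf 63110650 0 0) (P.cons (P.lf 0 565872 0) (P.cons (P.lf 244008 0 0) (P.lf 27112 0 0)))) (P.cons (P.cons (P.lf 1944080 0 0) (P.cons (P.lf 0 271664 0) (P.cons (P.lf 117144 0 0) P.nil))) (P.cons (P.cons (P.lf 0 225998 0) (P.cons (P.lf 0 21632 0) P.nil)) (P.cons (P.cons (P.lf 0 26090 0) P.nil) P.nil)))))) 28372)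
 (EL.cons 3 (TM.mk (P.cons (P.cons (P.lf 2428083581 0 0) (P.cons (P.lf 0 92122 0) (P.cons (P.lf 39720 0 0) (P.lf 4408 0 0)))) (P.cons (P.cons (P.lf 30656645 0 0) (P.cons (P.lf 0 357462 0) (P.cons (P.lf 154140 0 0) (P.lf 17120 0 0)))) (P.cons (P.cons (P.lf 19022483 0 0) (P.cons (P.lf 0 472432 0) (P.cons (P.lf 203714 0 0) (P.lf 22634 0 0)))) (P.cons (P.cons (P.lf 0 610623 0) (P.cons (P.lf 0 225028 0) (P.cons (P.lf 97032 0 0) P.nil))) (P.cons (P.cons (P.lf 0 324654 0) (P.cons (P.lf 0 16182 0) P.nil)) (P.cons (P.cons (P.lf 0 25510 0) P.nil) P.nil)))))) 56984)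
 (EL.cons 7 (TM.mk (P.cons (P.cons (P.lf 0 285830998 0) (P.cons (P.lf 1603586 0 0) (P.cons (P.lf 0 691482 0) (P.lf 0 76831 0)))) (P.cons (P.cons (P.lf 0 355440041 0) (P.cons (P.lf 4144572 0 0) (P.cons (P.lf 0 1787185 0) (P.lf 0 198575 0)))) (P.cons (P.cons (P.lf 10127313 0 0) (P.cons (P.lf 2787727 0 0) (P.cons (P.lf 0 1202097 0) (P.lf 0 133566 0)))) (P.cons (P.cons (P.lf 3705729 0 0) (P.cons (P.lf 133928 0 0) (P.cons (P.lf 0 57752 0) P.nil))) (P.cons (P.cons (P.lf 195822 0 0) (P.cons (P.lf 0 9225 0) P.nil)) (P.cons (P.cons (P.lf 0 6475 0) P.nil) P.nil)))))) 28664)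
 (EL.cons 10 (TM.mk (P.cons (P.cons (P.lf 0 3356610 0) (P.cons (P.lf 3126993 0 0) (P.cons (P.lf 320931 0 0) (P.cons (P.lf 0 66744 0) (P.lf 0 5562 0))))) (P.cons (P.cons (P.lf 0 8690688 0) (P.cons (P.lf 8096181 0 0) (P.cons (P.lf 830931 0 0) (P.cons (P.lf 0 172809 0) (P.lf 0 14400 0))))) (P.cons (P.cons (P.lf 0 5885253 0) (P.cons (P.lf 5482659 0 0) (P.cons (P.lf 562698 0 0) (P.cons (P.lf 0 117024 0) P.nil)))) (P.cons (P.cons (P.lf 0 334614 0) (P.cons (P.lf 311724 0 0) (P.cons (P.lf 31992 0 0) P.nil))) (P.cons (P.cons (P.lf 0 1926 0) (P.cons (P.lf 1794 0 0) P.nil)) (P.cons (P.cons (P.lf 972 0 0) P.nil) P.nil)))))) 18522)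
 EL.nil))))
noncomputable def S24_53_660_808_8 : EL := (EL.cons 12 (TM.mk (P.cons (P.cons (P.lf 3815518930 0 0) (P.cons (P.lf 146634 0 0) (P.cons (P.lf 0 63222 0) (P.cons (P.lf 0 7016 0) (P.cons (P.lf 0 0 0) (P.cons (P.lf 0 0 0) P.nil)))))) (P.cons (P.cons (P.lf 0 127728586 0) (P.cons (P.lf 567032 0 0) (P.cons (P.lf 0 244500 0) (P.cons (P.lf 0 27168 0) (P.cons (P.lf 0 0 0) P.nil))))) (P.cons (P.cons (P.lf 0 83053992 0) (P.cons (P.lf 743126 0 0) (P.cons (P.lf 0 320404 0) (P.cons (P.lf 0 35634 0) P.nil)))) (P.cons (P.cons (P.lf 0 1183296 0) (P.cons (P.lf 343160 0 0) (P.cons (P.lf 0 147910 0) P.nil))) (P.cons (P.cons (P.lf 808292 0 0) (P.cons (P.lf 14270 0 0) P.nil)) (P.cons (P.cons (P.lf 58300 0 0) P.nil) P.nil)))))) 58906)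
 (EL.cons 3 (TM.mk (P.cons (P.cons (P.lf 0 1638905681 0) (P.cons (P.lf 122000 0 0) (P.cons (P.lf 0 52597 0) (P.cons (P.lf 0 5841 0) (P.cons (P.lf 0 0 0) (P.cons (P.lf 0 0 0) P.nil)))))) (P.cons (P.cons (P.lf 0 45642431 0) (P.cons (P.lf 469314 0 0) (P.cons (P.lf 0 202343 0) (P.cons (P.lf 0 22493 0) (P.cons (P.lf 0 0 0) P.nil))))) (P.cons (P.cons (P.lf 0 27299620 0) (P.cons (P.lf 607148 0 0) (P.cons (P.lf 0 261729 0) (P.cons (P.lf 0 29148 0) P.nil)))) (P.cons (P.cons (P.lf 2312457 0 0) (P.cons (P.lf 266675 0 0) (P.cons (P.lf 0 114852 0) P.nil))) (P.cons (P.cons (P.lf 1006911 0 0) (P.cons (P.lf 0 2433 0) P.nil)) (P.cons (P.cons (P.lf 39579 0 0) P.nil) P.nil)))))) 131336)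
 (EL.cons 7 (TM.mk (P.cons (P.cons (P.lf 429989454 0 0) (P.cons (P.lf 0 2128282 0) (P.cons (P.lf 917695 0 0) (P.cons (P.lf 102006 0 0) (P.cons (P.lf 0 0 0) (P.cons (P.lf 0 0 0) P.nil)))))) (P.cons (P.cons (P.lf 529188639 0 0) (P.cons (P.lf 0 5441446 0) (P.cons (P.lf 2346146 0 0) (P.cons (P.lf 260937 0 0) (P.cons (P.lf 0 18 0) P.nil))))) (P.cons (P.cons (P.lf 0 26922012 0) (P.cons (P.lf 0 3508052 0) (P.cons (P.lf 1512013 0 0) (P.cons (P.lf 168678 0 0) P.nil)))) (P.cons (P.cons (P.lf 0 11538840 0) (P.cons (P.lf 26148 0 0) (P.cons (P.lf 0 12202 0) P.nil))) (P.cons (P.cons (P.lf 0 230364 0) (P.cons (P.lf 86506 0 0) P.nil)) (P.cons (P.cons (P.lf 106251 0 0) P.nil) P.nil)))))) 112786)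
 (EL.cons 10 (TM.mk (P.cons (P.cons (P.lf 4474170 0 0) (P.cons (P.lf 0 4168020 0) (P.cons (P.lf 0 427896 0) (P.cons (P.lf 88986 0 0) (P.cons (P.lf 7422 0 0) (P.cons (P.lf 0 0 0) P.nil)))))) (P.cons (P.cons (P.lf 11509308 0 0) (P.cons (P.lf 0 10721430 0) (P.cons (P.lf 0 1101180 0) (P.cons (P.lf 228996 0 0) (P.cons (P.lf 19128 0 0) P.nil))))) (P.cons (P.cons (P.lf 7601490 0 0) (P.cons (P.lf 0 7080036 0) (P.cons (P.lf 0 728772 0) (P.cons (P.lf 151524 0 0) P.nil)))) (P.cons (P.cons (P.lf 185490 0 0) (P.cons (P.lf 0 170850 0) (P.cons (P.lf 0 20388 0) P.nil))) (P.cons (P.cons (P.lf 0 95130 0) (P.cons (P.lf 90000 0 0) P.nil)) (P.cons (P.cons (P.lf 0 8436 0) P.nil) P.nil)))))) 58014)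
 EL.nil))))
noncomputable def S24_53_660_808_9 : EL := (EL.cons 3 (TM.mk (P.cons (P.lf 0 3596686102 0) (P.cons (P.lf 12315431 0 0) (P.cons (P.lf 8360981 0 0) (P.cons (P.lf 502803 0 0) (P.cons (P.lf 14171 0 0) (P.cons (P.lf 0 161 0) P.nil)))))) 359)
 (EL.cons 7 (TM.mk (P.cons (P.lf 0 110298158 0) (P.cons (P.lf 0 142787903 0) (P.cons (P.lf 0 4270675 0) (P.cons (P.lf 30920 0 0) (P.cons (P.lf 10958 0 0) (P.cons (P.lf 627 0 0) P.nil)))))) 162)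
 EL.nil))
noncomputable def S24_53_660_808_10 : EL := (EL.cons 3 (TM.mk (P.cons (P.cons (P.lf 2397090410 0 0) (P.cons (P.lf 46061 0 0) (P.cons (P.lf 0 19860 0) (P.lf 0 2204 0)))) (P.cons (P.cons (P.lf 0 48330475 0) (P.cons (P.lf 178731 0 0) (P.cons (P.lf 0 77070 0) (P.lf 0 8560 0)))) (P.cons (P.cons (P.lf 0 31859995 0) (P.cons (P.lf 236216 0 0) (P.cons (P.lf 0 101857 0) (P.lf 0 11317 0)))) (P.cons (P.cons (P.lf 0 965355 0) (P.cons (P.lf 112514 0 0) (P.cons (P.lf 0 48516 0) P.nil))) (P.cons (P.cons (P.lf 155007 0 0) (P.cons (P.lf 8091 0 0) P.nil)) (P.cons (P.cons (P.lf 16451 0 0) P.nil) P.nil)))))) 13759)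
 (EL.cons 7 (TM.mk (P.cons (P.cons (P.lf 73510628 0 0) (P.cons (P.lf 1412 0 0) (P.cons (P.lf 0 609 0) (P.lf 0 67 0)))) (P.cons (P.cons (P.lf 93933709 0 0) (P.cons (P.lf 7314 0 0) (P.cons (P.lf 0 3154 0) (P.lf 0 350 0)))) (P.cons (P.cons (P.lf 443058 0 0) (P.cons (P.lf 14422 0 0) (P.cons (P.lf 0 6219 0) (P.lf 0 690 0)))) (P.cons (P.cons (P.lf 0 1142280 0) (P.cons (P.lf 13106 0 0) (P.cons (P.lf 0 5651 0) P.nil))) (P.cons (P.cons (P.lf 0 67749 0) (P.cons (P.lf 5073 0 0) P.nil)) (P.cons (P.cons (P.lf 3056 0 0) P.nil) P.nil)))))) 4756)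
 EL.nil))
noncomputable def S24_53_660_808_11 : EL := (EL.cons 3 (TM.mk (P.cons (P.cons (P.lf 0 1597593527 0) (P.cons (P.lf 0 61396 0) (P.cons (P.lf 26471 0 0) (P.cons (P.lf 2937 0 0) (P.cons (P.lf 0 0 0) (P.cons (P.lf 0 0 0) P.nil)))))) (P.cons (P.cons (P.lf 58951483 0 0) (P.cons (P.lf 0 237210 0) (P.cons (P.lf 102283 0 0) (P.cons (P.lf 11365 0 0) (P.cons (P.lf 0 0 0) P.nil))))) (P.cons (P.cons (P.lf 38306180 0 0) (P.cons (P.lf 0 310198 0) (P.cons (P.lf 133743 0 0) (P.cons (P.lf 14874 0 0) P.nil)))) (P.cons (P.cons (P.lf 475395 0 0) (P.cons (P.lf 0 142057 0) (P.cons (P.lf 61230 0 0) P.nil))) (P.cons (P.cons (P.lf 0 422157 0) (P.cons (P.lf 0 4725 0) P.nil)) (P.cons (P.cons (P.lf 0 29547 0) P.nil) P.nil)))))) 27472)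
 (EL.cons 7 (TM.mk (P.cons (P.cons (P.lf 0 48992772 0) (P.cons (P.lf 0 1882 0) (P.cons (P.lf 811 0 0) (P.cons (P.lf 90 0 0) (P.cons (P.lf 0 0 0) (P.cons (P.lf 0 0 0) P.nil)))))) (P.cons (P.cons (P.lf 0 61784139 0) (P.cons (P.lf 0 9718 0) (P.cons (P.lf 4190 0 0) (P.cons (P.lf 465 0 0) (P.cons (P.lf 0 0 0) P.nil))))) (P.cons (P.cons (P.lf 1292670 0 0) (P.cons (P.lf 0 19040 0) (P.cons (P.lf 8209 0 0) (P.cons (P.lf 912 0 0) P.nil)))) (P.cons (P.cons (P.lf 1473012 0 0) (P.cons (P.lf 0 17040 0) (P.cons (P.lf 7346 0 0) P.nil))) (P.cons (P.cons (P.lf 54990 0 0) (P.cons (P.lf 0 6254 0) P.nil)) (P.cons (P.cons (P.lf 0 13779 0) P.nil) P.nil)))))) 7134)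
 EL.nil))
noncomputable def S24_53_660_808_12 : EL := (EL.cons 4 (TM.mk (P.cons (P.lf 3596686102 0 0) (P.cons (P.lf 0 12315431 0) (P.cons (P.lf 0 8360981 0) (P.cons (P.lf 0 502803 0) (P.cons (P.lf 0 14171 0) (P.cons (P.lf 161 0 0) P.nil)))))) 359)
 (EL.cons 8 (TM.mk (P.cons (P.lf 110298158 0 0) (P.cons (P.lf 142787903 0 0) (P.cons (P.lf 4270675 0 0) (P.cons (P.lf 0 30920 0) (P.cons (P.lf 0 10958 0) (P.cons (P.lf 0 627 0) P.nil)))))) 162)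
 EL.nil))
noncomputable def S24_53_660_808_13 : EL := (EL.cons 4 (TM.mk (P.cons (P.cons (P.lf 0 2397090410 0) (P.cons (P.lf 0 46061 0) (P.cons (P.lf 19860 0 0) (P.lf 2204 0 0)))) (P.cons (P.cons (P.lf 48330475 0 0) (P.cons (P.lf 0 178731 0) (P.cons (P.lf 77070 0 0) (P.lf 8560 0 0)))) (P.cons (P.cons (P.lf 31859995 0 0) (P.cons (P.lf 0 236216 0) (P.cons (P.lf 101857 0 0) (P.lf 11317 0 0)))) (P.cons (P.cons (P.lf 965355 0 0) (P.cons (P.lf 0 112514 0) (P.cons (P.lf 48516 0 0) P.nil))) (P.cons (P.cons (P.lf 0 155007 0) (P.cons (P.lf 0 8091 0) P.nil)) (P.cons (P.cons (P.lf 0 16451 0) P.nil) P.nil)))))) 13759)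
 (EL.cons 8 (TM.mk (P.cons (P.cons (P.lf 0 73510628 0) (P.cons (P.lf 0 1412 0) (P.cons (P.lf 609 0 0) (P.lf 67 0 0)))) (P.cons (P.cons (P.lf 0 93933709 0) (P.cons (P.lf 0 7314 0) (P.cons (P.lf 3154 0 0) (P.lf 350 0 0)))) (P.cons (P.cons (P.lf 0 443058 0) (P.cons (P.lf 0 14422 0) (P.cons (P.lf 6219 0 0) (P.lf 690 0 0)))) (P.cons (P.cons (P.lf 1142280 0 0) (P.cons (P.lf 0 13106 0) (P.cons (P.lf 5651 0 0) P.nil))) (P.cons (P.cons (P.lf 67749 0 0) (P.cons (P.lf 0 5073 0) P.nil)) (P.cons (P.cons (P.lf 0 3056 0) P.nil) P.nil)))))) 4756)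
 EL.nil))
noncomputable def S24_53_660_808_14 : EL := (EL.cons 4 (TM.mk (P.cons (P.cons (P.lf 1597593527 0 0) (P.cons (P.lf 61396 0 0) (P.cons (P.lf 0 26471 0) (P.cons (P.lf 0 2937 0) (P.cons (P.lf 0 0 0) (P.cons (P.lf 0 0 0) P.nil)))))) (P.cons (P.cons (P.lf 0 58951483 0) (P.cons (P.lf 237210 0 0) (P.cons (P.lf 0 102283 0) (P.cons (P.lf 0 11365 0) (P.cons (P.lf 0 0 0) P.nil))))) (P.cons (P.cons (P.lf 0 38306180 0) (P.cons (P.lf 310198 0 0) (P.cons (P.lf 0 133743 0) (P.cons (P.lf 0 14874 0) P.nil)))) (P.cons (P.cons (P.lf 0 475395 0) (P.cons (P.lf 142057 0 0) (P.cons (P.lf 0 61230 0) P.nil))) (P.cons (P.cons (P.lf 422157 0 0) (P.cons (P.lf 4725 0 0) P.nil)) (P.cons (P.cons (P.lf 29547 0 0) P.nil) P.nil)))))) 27472)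
 (EL.cons 8 (TM.mk (P.cons (P.cons (P.lf 48992772 0 0) (P.cons (P.lf 1882 0 0) (P.cons (P.lf 0 811 0) (P.cons (P.lf 0 90 0) (P.cons (P.lf 0 0 0) (P.cons (P.lf 0 0 0) P.nil)))))) (P.cons (P.cons (P.lf 61784139 0 0) (P.cons (P.lf 9718 0 0) (P.cons (P.lf 0 4190 0) (P.cons (P.lf 0 465 0) (P.cons (P.lf 0 0 0) P.nil))))) (P.cons (P.cons (P.lf 0 1292670 0) (P.cons (P.lf 19040 0 0) (P.cons (P.lf 0 8209 0) (P.cons (P.lf 0 912 0) P.nil)))) (P.cons (P.cons (P.lf 0 1473012 0) (P.cons (P.lf 17040 0 0) (P.cons (P.lf 0 7346 0) P.nil))) (P.cons (P.cons (P.lf 0 54990 0) (P.cons (P.lf 6254 0 0) P.nil)) (P.cons (P.cons (P.lf 13779 0 0) P.nil) P.nil)))))) 7134)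
 EL.nil))
noncomputable def S24_53_660_808_15 : EL := (EL.cons 4 (TM.mk (P.cons (P.lf 0 3212727834 0) (P.cons (P.lf 22001434 0 0) (P.cons (P.lf 14899169 0 0) (P.cons (P.lf 847110 0 0) (P.cons (P.lf 4879 0 0) (P.cons (P.lf 0 2462 0) P.nil)))))) 773)
 (EL.cons 8 (TM.mk (P.cons (P.lf 0 98523460 0) (P.cons (P.lf 0 127207462 0) (P.cons (P.lf 0 3149008 0) (P.cons (P.lf 350949 0 0) (P.cons (P.lf 36780 0 0) (P.cons (P.lf 1493 0 0) P.nil)))))) 227)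
 EL.nil))
noncomputable def S24_53_660_808_16 : EL := (EL.cons 4 (TM.mk (P.cons (P.cons (P.lf 2141192993 0 0) (P.cons (P.lf 41144 0 0) (P.cons (P.lf 0 17739 0) (P.lf 0 1968 0)))) (P.cons (P.cons (P.lf 0 50502704 0) (P.cons (P.lf 159510 0 0) (P.cons (P.lf 0 68782 0) (P.lf 0 7639 0)))) (P.cons (P.cons (P.lf 0 33288503 0) (P.cons (P.lf 210356 0 0) (P.cons (P.lf 0 90706 0) (P.lf 0 10078 0)))) (P.cons (P.cons (P.lf 0 963828 0) (P.cons (P.lf 99403 0 0) (P.cons (P.lf 0 42863 0) P.nil))) (P.cons (P.cons (P.lf 205167 0 0) (P.cons (P.lf 6370 0 0) P.nil)) (P.cons (P.cons (P.lf 20470 0 0) P.nil) P.nil)))))) 13890)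
 (EL.cons 8 (TM.mk (P.cons (P.cons (P.lf 65663123 0 0) (P.cons (P.lf 1261 0 0) (P.cons (P.lf 0 544 0) (P.lf 0 60 0)))) (P.cons (P.cons (P.lf 83681134 0 0) (P.cons (P.lf 6529 0 0) (P.cons (P.lf 0 2815 0) (P.lf 0 312 0)))) (P.cons (P.cons (P.lf 0 44184 0) (P.cons (P.lf 12857 0 0) (P.cons (P.lf 0 5544 0) (P.lf 0 615 0)))) (P.cons (P.cons (P.lf 0 1225923 0) (P.cons (P.lf 11647 0 0) (P.cons (P.lf 0 5022 0) P.nil))) (P.cons (P.cons (P.lf 0 69931 0) (P.cons (P.lf 4460 0 0) P.nil)) (P.cons (P.cons (P.lf 4926 0 0) P.nil) P.nil)))))) 4597)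
 EL.nil))
noncomputable def S24_53_660_808_17 : EL := (EL.cons 4 (TM.mk (P.cons (P.cons (P.lf 0 1427045076 0) (P.cons (P.lf 0 54841 0) (P.cons (P.lf 23645 0 0) (P.cons (P.lf 2623 0 0) (P.cons (P.lf 0 0 0) (P.cons (P.lf 0 0 0) P.nil)))))) (P.cons (P.cons (P.lf 57544567 0 0) (P.cons (P.lf 0 211699 0) (P.cons (P.lf 91283 0 0) (P.cons (P.lf 10142 0 0) (P.cons (P.lf 0 0 0) P.nil))))) (P.cons (P.cons (P.lf 37353918 0 0) (P.cons (P.lf 0 276229 0) (P.cons (P.lf 119098 0 0) (P.cons (P.lf 13245 0 0) P.nil)))) (P.cons (P.cons (P.lf 384568 0 0) (P.cons (P.lf 0 125444 0) (P.cons (P.lf 54068 0 0) P.nil))) (P.cons (P.cons (P.lf 0 459825 0) (P.cons (P.lf 0 3112 0) P.nil)) (P.cons (P.cons (P.lf 0 31143 0) P.nil) P.nil)))))) 26891)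
 (EL.cons 8 (TM.mk (P.cons (P.cons (P.lf 0 43762630 0) (P.cons (P.lf 0 1681 0) (P.cons (P.lf 725 0 0) (P.cons (P.lf 80 0 0) (P.cons (P.lf 0 0 0) (P.cons (P.lf 0 0 0) P.nil)))))) (P.cons (P.cons (P.lf 0 55038628 0) (P.cons (P.lf 0 8675 0) (P.cons (P.lf 3740 0 0) (P.cons (P.lf 415 0 0) (P.cons (P.lf 0 0 0) P.nil))))) (P.cons (P.cons (P.lf 1445377 0 0) (P.cons (P.lf 0 16974 0) (P.cons (P.lf 7318 0 0) (P.cons (P.lf 813 0 0) P.nil)))) (P.cons (P.cons (P.lf 1446220 0 0) (P.cons (P.lf 0 15142 0) (P.cons (P.lf 6528 0 0) P.nil))) (P.cons (P.cons (P.lf 49818 0 0) (P.cons (P.lf 0 5494 0) P.nil)) (P.cons (P.cons (P.lf 0 15481 0) P.nil) P.nil)))))) 6766)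
 EL.nil))
noncomputable def S24_53_660_808_18 : EL := (EL.cons 4 (TM.mk (P.cons (P.lf 2869758394 0 0) (P.cons (P.lf 0 29479062 0) (P.cons (P.lf 0 19912479 0) (P.cons (P.lf 0 1066604 0) (P.cons (P.lf 20610 0 0) (P.cons (P.lf 6040 0 0) P.nil)))))) 1173)
 (EL.cons 8 (TM.mk (P.cons (P.lf 88005751 0 0) (P.cons (P.lf 113326299 0 0) (P.cons (P.lf 2219186 0 0) (P.cons (P.lf 0 599561 0) (P.cons (P.lf 0 54550 0) (P.cons (P.lf 0 1330 0) P.nil)))))) 337)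
 EL.nil))
noncomputable def S24_53_660_808_19 : EL := (EL.cons 4 (TM.mk (P.cons (P.cons (P.lf 0 1912613481 0) (P.cons (P.lf 0 36751 0) (P.cons (P.lf 15845 0 0) (P.lf 1757 0 0)))) (P.cons (P.cons (P.lf 51660360 0 0) (P.cons (P.lf 0 142355 0) (P.cons (P.lf 61385 0 0) (P.lf 6818 0 0)))) (P.cons (P.cons (P.lf 34026505 0 0) (P.cons (P.lf 0 187326 0) (P.cons (P.lf 80776 0 0) (P.lf 8974 0 0)))) (P.cons (P.cons (P.lf 921630 0 0) (P.cons (P.lf 0 87811 0) (P.cons (P.lf 37864 0 0) P.nil))) (P.cons (P.cons (P.lf 0 254105 0) (P.cons (P.lf 0 4929 0) P.nil)) (P.cons (P.cons (P.lf 0 24078 0) P.nil) P.nil)))))) 14081)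
 (EL.cons 8 (TM.mk (P.cons (P.cons (P.lf 0 58653365 0) (P.cons (P.lf 0 1127 0) (P.cons (P.lf 485 0 0) (P.lf 53 0 0)))) (P.cons (P.cons (P.lf 0 74547057 0) (P.cons (P.lf 0 5828 0) (P.cons (P.lf 2513 0 0) (P.lf 279 0 0)))) (P.cons (P.cons (P.lf 431760 0 0) (P.cons (P.lf 0 11462 0) (P.cons (P.lf 4942 0 0) (P.lf 549 0 0)))) (P.cons (P.cons (P.lf 1276878 0 0) (P.cons (P.lf 0 10351 0) (P.cons (P.lf 4463 0 0) P.nil))) (P.cons (P.cons (P.lf 69305 0 0) (P.cons (P.lf 0 3921 0) P.nil)) (P.cons (P.cons (P.lf 0 6873 0) P.nil) P.nil)))))) 4458)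
 EL.nil))
noncomputable def S24_53_660_808_20 : EL := (EL.cons 4 (TM.mk (P.cons (P.cons (P.lf 1274703241 0 0) (P.cons (P.lf 48987 0 0) (P.cons (P.lf 0 21120 0) (P.cons (P.lf 0 2343 0) (P.cons (P.lf 0 0 0) (P.cons (P.lf 0 0 0) P.nil)))))) (P.cons (P.cons (P.lf 0 55766210 0) (P.cons (P.lf 188932 0 0) (P.cons (P.lf 0 81465 0) (P.cons (P.lf 0 9051 0) (P.cons (P.lf 0 0 0) P.nil))))) (P.cons (P.cons (P.lf 0 36153478 0) (P.cons (P.lf 245980 0 0) (P.cons (P.lf 0 106055 0) (P.cons (P.lf 0 11794 0) P.nil)))) (P.cons (P.cons (P.lf 0 287972 0) (P.cons (P.lf 110760 0 0) (P.cons (P.lf 0 47739 0) P.nil))) (P.cons (P.cons (P.lf 491640 0 0) (P.cons (P.lf 1796 0 0) P.nil)) (P.cons (P.cons (P.lf 32134 0 0) P.nil) P.nil)))))) 26412)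
 (EL.cons 8 (TM.mk (P.cons (P.cons (P.lf 39090822 0 0) (P.cons (P.lf 1502 0 0) (P.cons (P.lf 0 647 0) (P.cons (P.lf 0 71 0) (P.cons (P.lf 0 0 0) (P.cons (P.lf 0 0 0) P.nil)))))) (P.cons (P.cons (P.lf 49029219 0 0) (P.cons (P.lf 7743 0 0) (P.cons (P.lf 0 3339 0) (P.cons (P.lf 0 370 0) (P.cons (P.lf 0 0 0) P.nil))))) (P.cons (P.cons (P.lf 0 1550289 0) (P.cons (P.lf 15132 0 0) (P.cons (P.lf 0 6524 0) (P.cons (P.lf 0 725 0) P.nil)))) (P.cons (P.cons (P.lf 0 1407162 0) (P.cons (P.lf 13455 0 0) (P.cons (P.lf 0 5801 0) P.nil))) (P.cons (P.cons (P.lf 0 44102 0) (P.cons (P.lf 4824 0 0) P.nil)) (P.cons (P.cons (P.lf 16972 0 0) P.nil) P.nil)))))) 6402)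
 EL.nil))
noncomputable def S24_53_660_808_21 : EL := (EL.cons 4 (TM.mk (P.cons (P.cons (P.lf 0 30993171 0) (P.cons (P.lf 138183 0 0) (P.cons (P.lf 0 59580 0) (P.lf 0 6612 0)))) (P.cons (P.cons (P.lf 0 78987120 0) (P.cons (P.lf 536193 0 0) (P.cons (P.lf 0 231210 0) (P.lf 0 25680 0)))) (P.cons (P.cons (P.lf 0 50882478 0) (P.cons (P.lf 708648 0 0) (P.cons (P.lf 0 305571 0) (P.lf 0 33951 0)))) (P.cons (P.cons (P.lf 0 354732 0) (P.cons (P.lf 337542 0 0) (P.cons (P.lf 0 145548 0) P.nil))) (P.cons (P.cons (P.lf 479661 0 0) (P.cons (P.lf 24273 0 0) P.nil)) (P.cons (P.cons (P.lf 41961 0 0) P.nil) P.nil)))))) 43206)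
 (EL.cons 8 (TM.mk (P.cons (P.cons (P.lf 359341626 0 0) (P.cons (P.lf 0 1602174 0) (P.cons (P.lf 690873 0 0) (P.lf 76764 0 0)))) (P.cons (P.cons (P.lf 449373750 0 0) (P.cons (P.lf 0 4137258 0) (P.cons (P.lf 1784031 0 0) (P.lf 198225 0 0)))) (P.cons (P.cons (P.lf 0 9684255 0) (P.cons (P.lf 0 2773305 0) (P.cons (P.lf 1195878 0 0) (P.lf 132876 0 0)))) (P.cons (P.cons (P.lf 0 4848009 0) (P.cons (P.lf 0 120822 0) (P.cons (P.lf 52101 0 0) P.nil))) (P.cons (P.cons (P.lf 0 263571 0) (P.cons (P.lf 14298 0 0) P.nil)) (P.cons (P.cons (P.lf 9531 0 0) P.nil) P.nil)))))) 23889)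
 (EL.cons 11 (TM.mk (P.cons (P.cons (P.lf 3356610 0 0) (P.cons (P.lf 0 3126993 0) (P.cons (P.lf 0 320931 0) (P.cons (P.lf 66744 0 0) (P.lf 5562 0 0))))) (P.cons (P.cons (P.lf 8690688 0 0) (P.cons (P.lf 0 8096181 0) (P.cons (P.lf 0 830931 0) (P.cons (P.lf 172809 0 0) (P.lf 14400 0 0))))) (P.cons (P.cons (P.lf 5885253 0 0) (P.cons (P.lf 0 5482659 0) (P.cons (P.lf 0 562698 0) (P.cons (P.lf 117024 0 0) P.nil)))) (P.cons (P.cons (P.lf 334614 0 0) (P.cons (P.lf 0 311724 0) (P.cons (P.lf 0 31992 0) P.nil))) (P.cons (P.cons (P.lf 1926 0 0) (P.cons (P.lf 0 1794 0) P.nil)) (P.cons (P.cons (P.lf 0 972 0) P.nil) P.nil)))))) 18522)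
 EL.nil)))
noncomputable def S24_53_660_808_22 : EL := (EL.cons 4 (TM.mk (P.cons (P.cons (P.lf 20656077 0 0) (P.cons (P.lf 0 91698 0) (P.cons (P.lf 39534 0 0) (P.cons (P.lf 4389 0 0) (P.cons (P.lf 0 0 0) (P.cons (P.lf 0 0 0) P.nil)))))) (P.cons (P.cons (P.lf 52296957 0 0) (P.cons (P.lf 0 353262 0) (P.cons (P.lf 152313 0 0) (P.cons (P.lf 16929 0 0) (P.cons (P.lf 0 0 0) P.nil))))) (P.cons (P.cons (P.lf 32802900 0 0) (P.cons (P.lf 0 458673 0) (P.cons (P.lf 197736 0 0) (P.cons (P.lf 22011 0 0) P.nil)))) (P.cons (P.cons (P.lf 0 918531 0) (P.cons (P.lf 0 204366 0) (P.cons (P.lf 88041 0 0) P.nil))) (P.cons (P.cons (P.lf 0 714534 0) (P.cons (P.lf 0 1146 0) P.nil)) (P.cons (P.cons (P.lf 0 34563 0) P.nil) P.nil)))))) 51921)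
 (EL.cons 8 (TM.mk (P.cons (P.cons (P.lf 0 239491113 0) (P.cons (P.lf 1063200 0 0) (P.cons (P.lf 0 458442 0) (P.cons (P.lf 0 50958 0) (P.cons (P.lf 0 0 0) (P.cons (P.lf 0 0 0) P.nil)))))) (P.cons (P.cons (P.lf 0 295486389 0) (P.cons (P.lf 2715864 0 0) (P.cons (P.lf 0 1170978 0) (P.cons (P.lf 0 130236 0) (P.cons (P.lf 9 0 0) P.nil))))) (P.cons (P.cons (P.lf 14107341 0 0) (P.cons (P.lf 1744506 0 0) (P.cons (P.lf 0 751902 0) (P.cons (P.lf 0 83883 0) P.nil)))) (P.cons (P.cons (P.lf 6505926 0 0) (P.cons (P.lf 0 21594 0) (P.cons (P.lf 9774 0 0) P.nil))) (P.cons (P.cons (P.lf 142677 0 0) (P.cons (P.lf 0 46380 0) P.nil)) (P.cons (P.cons (P.lf 0 60015 0) P.nil) P.nil)))))) 52815)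
 (EL.cons 11 (TM.mk (P.cons (P.cons (P.lf 0 2237085 0) (P.cons (P.lf 2084010 0 0) (P.cons (P.lf 213948 0 0) (P.cons (P.lf 0 44493 0) (P.cons (P.lf 0 3711 0) (P.cons (P.lf 0 0 0) P.nil)))))) (P.cons (P.cons (P.lf 0 5754654 0) (P.cons (P.lf 5360715 0 0) (P.cons (P.lf 550590 0 0) (P.cons (P.lf 0 114498 0) (P.cons (P.lf 0 9564 0) P.nil))))) (P.cons (P.cons (P.lf 0 3800745 0) (P.cons (P.lf 3540018 0 0) (P.cons (P.lf 364386 0 0) (P.cons (P.lf 0 75762 0) P.nil)))) (P.cons (P.cons (P.lf 0 92745 0) (P.cons (P.lf 85425 0 0) (P.cons (P.lf 10194 0 0) P.nil))) (P.cons (P.cons (P.lf 47565 0 0) (P.cons (P.lf 0 45000 0) P.nil)) (P.cons (P.cons (P.lf 4218 0 0) P.nil) P.nil)))))) 29007)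
 EL.nil)))
noncomputable def S24_53_660_808_23 : EL := (EL.cons 4 (TM.mk (P.cons (P.cons (P.lf 27684546 0 0) (P.cons (P.lf 0 123429 0) (P.cons (P.lf 53217 0 0) (P.lf 5904 0 0)))) (P.cons (P.cons (P.lf 70460184 0 0) (P.cons (P.lf 0 478527 0) (P.cons (P.lf 206343 0 0) (P.lf 22917 0 0)))) (P.cons (P.cons (P.lf 45144657 0 0) (P.cons (P.lf 0 631068 0) (P.cons (P.lf 272118 0 0) (P.lf 30234 0 0)))) (P.cons (P.cons (P.lf 0 6648 0) (P.cons (P.lf 0 298209 0) (P.cons (P.lf 128586 0 0) P.nil))) (P.cons (P.cons (P.lf 0 545169 0) (P.cons (P.lf 0 19110 0) P.nil)) (P.cons (P.cons (P.lf 0 43380 0) P.nil) P.nil)))))) 43071)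
 (EL.cons 8 (TM.mk (P.cons (P.cons (P.lf 0 320980704 0) (P.cons (P.lf 1431135 0 0) (P.cons (P.lf 0 617118 0) (P.lf 0 68568 0)))) (P.cons (P.cons (P.lf 0 400302525 0) (P.cons (P.lf 3690690 0 0) (P.cons (P.lf 0 1591464 0) (P.lf 0 176829 0)))) (P.cons (P.cons (P.lf 10771032 0 0) (P.cons (P.lf 2461263 0 0) (P.cons (P.lf 0 1061322 0) (P.lf 0 117924 0)))) (P.cons (P.cons (P.lf 5278830 0 0) (P.cons (P.lf 90648 0 0) (P.cons (P.lf 0 39090 0) P.nil))) (P.cons (P.cons (P.lf 257874 0 0) (P.cons (P.lf 0 19422 0) P.nil)) (P.cons (P.cons (P.lf 0 19026 0) P.nil) P.nil)))))) 27900)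
 (EL.cons 11 (TM.mk (P.cons (P.cons (P.lf 0 2998278 0) (P.cons (P.lf 2793174 0 0) (P.cons (P.lf 286668 0 0) (P.cons (P.lf 0 59616 0) (P.lf 0 4968 0))))) (P.cons (P.cons (P.lf 0 7752660 0) (P.cons (P.lf 7222320 0 0) (P.cons (P.lf 741243 0 0) (P.cons (P.lf 0 154155 0) (P.lf 0 12843 0))))) (P.cons (P.cons (P.lf 0 5223429 0) (P.cons (P.lf 4866108 0 0) (P.cons (P.lf 499419 0 0) (P.cons (P.lf 0 103863 0) P.nil)))) (P.cons (P.cons (P.lf 0 262425 0) (P.cons (P.lf 244473 0 0) (P.cons (P.lf 25089 0 0) P.nil))) (P.cons (P.cons (P.lf 12618 0 0) (P.cons (P.lf 0 11757 0) P.nil)) (P.cons (P.cons (P.lf 2334 0 0) P.nil) P.nil)))))) 20820)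
 EL.nil)))
noncomputable def S24_53_660_808_24 : EL := (EL.cons 4 (TM.mk (P.cons (P.cons (P.lf 0 18450972 0) (P.cons (P.lf 81909 0 0) (P.cons (P.lf 0 35313 0) (P.cons (P.lf 0 3918 0) (P.cons (P.lf 0 0 0) (P.cons (P.lf 0 0 0) P.nil)))))) (P.cons (P.cons (P.lf 0 46650903 0) (P.cons (P.lf 315270 0 0) (P.cons (P.lf 0 135933 0) (P.cons (P.lf 0 15108 0) (P.cons (P.lf 0 0 0) P.nil))))) (P.cons (P.cons (P.lf 0 29098233 0) (P.cons (P.lf 408438 0 0) (P.cons (P.lf 0 176079 0) (P.cons (P.lf 0 19602 0) P.nil)))) (P.cons (P.cons (P.lf 1031979 0 0) (P.cons (P.lf 180402 0 0) (P.cons (P.lf 0 77718 0) P.nil))) (P.cons (P.cons (P.lf 710163 0 0) (P.cons (P.lf 0 594 0) P.nil)) (P.cons (P.cons (P.lf 31059 0 0) P.nil) P.nil)))))) 50016)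
 (EL.cons 8 (TM.mk (P.cons (P.cons (P.lf 213924636 0 0) (P.cons (P.lf 0 949701 0) (P.cons (P.lf 409500 0 0) (P.cons (P.lf 45516 0 0) (P.cons (P.lf 0 0 0) (P.cons (P.lf 0 0 0) P.nil)))))) (P.cons (P.cons (P.lf 263209728 0 0) (P.cons (P.lf 0 2422686 0) (P.cons (P.lf 1044570 0 0) (P.cons (P.lf 116178 0 0) (P.cons (P.lf 0 9 0) P.nil))))) (P.cons (P.cons (P.lf 0 14002398 0) (P.cons (P.lf 0 1547760 0) (P.cons (P.lf 667101 0 0) (P.cons (P.lf 74424 0 0) P.nil)))) (P.cons (P.cons (P.lf 0 6411723 0) (P.cons (P.lf 30396 0 0) (P.cons (P.lf 0 13518 0) P.nil))) (P.cons (P.cons (P.lf 0 115995 0) (P.cons (P.lf 45327 0 0) P.nil)) (P.cons (P.cons (P.lf 68286 0 0) P.nil) P.nil)))))) 52041)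
 (EL.cons 11 (TM.mk (P.cons (P.cons (P.lf 1998267 0 0) (P.cons (P.lf 0 1861533 0) (P.cons (P.lf 0 191109 0) (P.cons (P.lf 39744 0 0) (P.cons (P.lf 3315 0 0) (P.cons (P.lf 0 0 0) P.nil)))))) (P.cons (P.cons (P.lf 5133483 0 0) (P.cons (P.lf 0 4782066 0) (P.cons (P.lf 0 491157 0) (P.cons (P.lf 102138 0 0) (P.cons (P.lf 8532 0 0) P.nil))))) (P.cons (P.cons (P.lf 3372756 0 0) (P.cons (P.lf 0 3141384 0) (P.cons (P.lf 0 323358 0) (P.cons (P.lf 67230 0 0) P.nil)))) (P.cons (P.cons (P.lf 58992 0 0) (P.cons (P.lf 0 54087 0) (P.cons (P.lf 0 6822 0) P.nil))) (P.cons (P.cons (P.lf 0 51390 0) (P.cons (P.lf 48483 0 0) P.nil)) (P.cons (P.cons (P.lf 0 4311 0) P.nil) P.nil)))))) 28638)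
 EL.nil)))
noncomputable def S24_53_660_808_25 : EL := (EL.cons 4 (TM.mk (P.cons (P.cons (P.lf 0 24729126 0) (P.cons (P.lf 110253 0 0) (P.cons (P.lf 0 47538 0) (P.lf 0 5274 0)))) (P.cons (P.cons (P.lf 0 62853648 0) (P.cons (P.lf 427065 0 0) (P.cons (P.lf 0 184152 0) (P.lf 0 20451 0)))) (P.cons (P.cons (P.lf 0 40052322 0) (P.cons (P.lf 561981 0 0) (P.cons (P.lf 0 242328 0) (P.lf 0 26922 0)))) (P.cons (P.cons (P.lf 293781 0 0) (P.cons (P.lf 263433 0 0) (P.cons (P.lf 0 113592 0) P.nil))) (P.cons (P.cons (P.lf 589587 0 0) (P.cons (P.lf 14787 0 0) P.nil)) (P.cons (P.cons (P.lf 42951 0 0) P.nil) P.nil)))))) 42180)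
 (EL.cons 8 (TM.mk (P.cons (P.cons (P.lf 286714941 0 0) (P.cons (P.lf 0 1278357 0) (P.cons (P.lf 551238 0 0) (P.lf 61248 0 0)))) (P.cons (P.cons (P.lf 356587152 0 0) (P.cons (P.lf 0 3292320 0) (P.cons (P.lf 1419684 0 0) (P.lf 157740 0 0)))) (P.cons (P.cons (P.lf 0 11512047 0) (P.cons (P.lf 0 2184255 0) (P.cons (P.lf 941874 0 0) (P.lf 104652 0 0)))) (P.cons (P.cons (P.lf 0 5553651 0) (P.cons (P.lf 0 65601 0) (P.cons (P.lf 28287 0 0) P.nil))) (P.cons (P.cons (P.lf 0 242949 0) (P.cons (P.lf 23202 0 0) P.nil)) (P.cons (P.cons (P.lf 28695 0 0) P.nil) P.nil)))))) 30729)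
 (EL.cons 11 (TM.mk (P.cons (P.cons (P.lf 2678202 0 0) (P.cons (P.lf 0 2494995 0) (P.cons (P.lf 0 256065 0) (P.cons (P.lf 53253 0 0) (P.lf 4437 0 0))))) (P.cons (P.cons (P.lf 6915867 0 0) (P.cons (P.lf 0 6442770 0) (P.cons (P.lf 0 661236 0) (P.cons (P.lf 137517 0 0) (P.lf 11457 0 0))))) (P.cons (P.cons (P.lf 4635873 0 0) (P.cons (P.lf 0 4318746 0) (P.cons (P.lf 0 443241 0) (P.cons (P.lf 92181 0 0) P.nil)))) (P.cons (P.cons (P.lf 201963 0 0) (P.cons (P.lf 0 188145 0) (P.cons (P.lf 0 19308 0) P.nil))) (P.cons (P.cons (P.lf 0 23898 0) (P.cons (P.lf 22266 0 0) P.nil)) (P.cons (P.cons (P.lf 0 3270 0) P.nil) P.nil)))))) 22164)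
 EL.nil)))
noncomputable def S24_53_660_808_26 : EL := (EL.cons 4 (TM.mk (P.cons (P.cons (P.lf 16481268 0 0) (P.cons (P.lf 0 73164 0) (P.cons (P.lf 31542 0 0) (P.cons (P.lf 3501 0 0) (P.cons (P.lf 0 0 0) (P.cons (P.lf 0 0 0) P.nil)))))) (P.cons (P.cons (P.lf 41614329 0 0) (P.cons (P.lf 0 281361 0) (P.cons (P.lf 121314 0 0) (P.cons (P.lf 13482 0 0) (P.cons (P.lf 0 0 0) P.nil))))) (P.cons (P.cons (P.lf 25810902 0 0) (P.cons (P.lf 0 363702 0) (P.cons (P.lf 156792 0 0) (P.cons (P.lf 17454 0 0) P.nil)))) (P.cons (P.cons (P.lf 0 1109982 0) (P.cons (P.lf 0 159228 0) (P.cons (P.lf 68595 0 0) P.nil))) (P.cons (P.cons (P.lf 0 697506 0) (P.cons (P.lf 1971 0 0) P.nil)) (P.cons (P.cons (P.lf 0 27225 0) P.nil) P.nil)))))) 48093)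
 (EL.cons 8 (TM.mk (P.cons (P.cons (P.lf 0 191087466 0) (P.cons (P.lf 848316 0 0) (P.cons (P.lf 0 365784 0) (P.cons (P.lf 0 40659 0) (P.cons (P.lf 0 0 0) (P.cons (P.lf 0 0 0) P.nil)))))) (P.cons (P.cons (P.lf 0 234456906 0) (P.cons (P.lf 2161149 0 0) (P.cons (P.lf 0 931806 0) (P.cons (P.lf 0 103635 0) (P.cons (P.lf 9 0 0) P.nil))))) (P.cons (P.cons (P.lf 13756848 0 0) (P.cons (P.lf 1373148 0 0) (P.cons (P.lf 0 591840 0) (P.cons (P.lf 0 66027 0) P.nil)))) (P.cons (P.cons (P.lf 6257682 0 0) (P.cons (P.lf 0 37035 0) (P.cons (P.lf 16335 0 0) P.nil))) (P.cons (P.cons (P.lf 88545 0 0) (P.cons (P.lf 0 43914 0) P.nil)) (P.cons (P.cons (P.lf 0 75495 0) P.nil) P.nil)))))) 50892)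
 (EL.cons 11 (TM.mk (P.cons (P.cons (P.lf 0 1784946 0) (P.cons (P.lf 1662807 0 0) (P.cons (P.lf 170706 0 0) (P.cons (P.lf 0 35499 0) (P.cons (P.lf 0 2961 0) (P.cons (P.lf 0 0 0) P.nil)))))) (P.cons (P.cons (P.lf 0 4579353 0) (P.cons (P.lf 4265871 0 0) (P.cons (P.lf 438141 0 0) (P.cons (P.lf 0 91113 0) (P.cons (P.lf 0 7611 0) P.nil))))) (P.cons (P.cons (P.lf 0 2992854 0) (P.cons (P.lf 2787540 0 0) (P.cons (P.lf 286941 0 0) (P.cons (P.lf 0 59658 0) P.nil)))) (P.cons (P.cons (P.lf 0 31470 0) (P.cons (P.lf 28542 0 0) (P.cons (P.lf 4062 0 0) P.nil))) (P.cons (P.cons (P.lf 53736 0 0) (P.cons (P.lf 0 50601 0) P.nil)) (P.cons (P.cons (P.lf 4254 0 0) P.nil) P.nil)))))) 28023)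
 EL.nil)))
noncomputable def S24_53_660_808_27 : EL := (EL.cons 13 (TM.mk (P.lf 0 4294967296 0) 0)
 EL.nil)
noncomputable def S24_53_660_808_28 : EL := (EL.cons 13 (TM.mk (P.cons (P.cons (P.lf 2862475242 0 0) (P.cons (P.lf 55004 0 0) (P.cons (P.lf 0 23716 0) (P.lf 0 2632 0)))) (P.cons (P.cons (P.lf 0 47912214 0) (P.cons (P.lf 213620 0 0) (P.cons (P.lf 0 92116 0) (P.lf 0 10232 0)))) (P.cons (P.cons (P.lf 0 31555325 0) (P.cons (P.lf 282936 0 0) (P.cons (P.lf 0 122004 0) (P.lf 0 13556 0)))) (P.cons (P.cons (P.lf 0 972040 0) (P.cons (P.lf 135832 0 0) (P.cons (P.lf 0 58572 0) P.nil))) (P.cons (P.cons (P.lf 112999 0 0) (P.cons (P.lf 10816 0 0) P.nil)) (P.cons (P.cons (P.lf 13045 0 0) P.nil) P.nil)))))) 14186)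
 EL.nil)
noncomputable def S24_53_660_808_29 : EL := (EL.cons 13 (TM.mk (P.cons (P.cons (P.lf 0 1907759465 0) (P.cons (P.lf 0 73317 0) (P.cons (P.lf 31611 0 0) (P.cons (P.lf 3508 0 0) (P.cons (P.lf 0 0 0) (P.cons (P.lf 0 0 0) P.nil)))))) (P.cons (P.cons (P.lf 63864293 0 0) (P.cons (P.lf 0 283516 0) (P.cons (P.lf 122250 0 0) (P.cons (P.lf 13584 0 0) (P.cons (P.lf 0 0 0) P.nil))))) (P.cons (P.cons (P.lf 41526996 0 0) (P.cons (P.lf 0 371563 0) (P.cons (P.lf 160202 0 0) (P.cons (P.lf 17817 0 0) P.nil)))) (P.cons (P.cons (P.lf 591648 0 0) (P.cons (P.lf 0 171580 0) (P.cons (P.lf 73955 0 0) P.nil))) (P.cons (P.cons (P.lf 0 404146 0) (P.cons (P.lf 0 7135 0) P.nil)) (P.cons (P.cons (P.lf 0 29150 0) P.nil) P.nil)))))) 29453)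
 EL.nil)
noncomputable def S24_53_660_808_30 : EL := (EL.cons 13 (TM.mk (P.cons (P.lf 3836465176 0 0) (P.cons (P.lf 0 13136460 0) (P.cons (P.lf 0 8918380 0) (P.cons (P.lf 0 536324 0) (P.cons (P.lf 0 15116 0) (P.cons (P.lf 172 0 0) P.nil)))))) 376)
 EL.nil)
noncomputable def S24_53_660_808_31 : EL := (EL.cons 13 (TM.mk (P.cons (P.cons (P.lf 0 2556896438 0) (P.cons (P.lf 0 49132 0) (P.cons (P.lf 21184 0 0) (P.lf 2351 0 0)))) (P.cons (P.cons (P.lf 51552507 0 0) (P.cons (P.lf 0 190647 0) (P.cons (P.lf 82209 0 0) (P.lf 9131 0 0)))) (P.cons (P.cons (P.lf 33983995 0 0) (P.cons (P.lf 0 251964 0) (P.cons (P.lf 108648 0 0) (P.lf 12072 0 0)))) (P.cons (P.cons (P.lf 1029713 0 0) (P.cons (P.lf 0 120015 0) (P.cons (P.lf 51751 0 0) P.nil))) (P.cons (P.cons (P.lf 0 165341 0) (P.cons (P.lf 0 8631 0) P.nil)) (P.cons (P.cons (P.lf 0 17548 0) P.nil) P.nil)))))) 14656)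
 EL.nil)
noncomputable def S24_53_660_808_32 : EL := (EL.cons 13 (TM.mk (P.cons (P.cons (P.lf 1704099763 0 0) (P.cons (P.lf 65490 0 0) (P.cons (P.lf 0 28236 0) (P.cons (P.lf 0 3133 0) (P.cons (P.lf 0 0 0) (P.cons (P.lf 0 0 0) P.nil)))))) (P.cons (P.cons (P.lf 0 62881582 0) (P.cons (P.lf 253025 0 0) (P.cons (P.lf 0 109102 0) (P.cons (P.lf 0 12123 0) (P.cons (P.lf 0 0 0) P.nil))))) (P.cons (P.cons (P.lf 0 40859926 0) (P.cons (P.lf 330878 0 0) (P.cons (P.lf 0 142660 0) (P.cons (P.lf 0 15866 0) P.nil)))) (P.cons (P.cons (P.lf 0 507088 0) (P.cons (P.lf 151528 0 0) (P.cons (P.lf 0 65312 0) P.nil))) (P.cons (P.cons (P.lf 450301 0 0) (P.cons (P.lf 5041 0 0) P.nil)) (P.cons (P.cons (P.lf 31517 0 0) P.nil) P.nil)))))) 29280)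
 EL.nil)
noncomputable def S24_53_660_808_33 : EL := (EL.cons 14 (TM.mk (P.lf 8589934592 0 0) 0)
 EL.nil)
noncomputable def S24_53_660_808_34 : EL := (EL.cons 14 (TM.mk (P.cons (P.cons (P.lf 0 5724950484 0) (P.cons (P.lf 0 110008 0) (P.cons (P.lf 47432 0 0) (P.lf 5264 0 0)))) (P.cons (P.cons (P.lf 95824428 0 0) (P.cons (P.lf 0 427240 0) (P.cons (P.lf 184232 0 0) (P.lf 20464 0 0)))) (P.cons (P.cons (P.lf 63110650 0 0) (P.cons (P.lf 0 565872 0) (P.cons (P.lf 244008 0 0) (P.lf 27112 0 0)))) (P.cons (P.cons (P.lf 1944080 0 0) (P.cons (P.lf 0 271664 0) (P.cons (P.lf 117144 0 0) P.nil))) (P.cons (P.cons (P.lf 0 225998 0) (P.cons (P.lf 0 21632 0) P.nil)) (P.cons (P.cons (P.lf 0 26090 0) P.nil) P.nil)))))) 28372)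
 EL.nil)
noncomputable def S24_53_660_808_35 : EL := (EL.cons 14 (TM.mk (P.cons (P.cons (P.lf 3815518930 0 0) (P.cons (P.lf 146634 0 0) (P.cons (P.lf 0 63222 0) (P.cons (P.lf 0 7016 0) (P.cons (P.lf 0 0 0) (P.cons (P.lf 0 0 0) P.nil)))))) (P.cons (P.cons (P.lf 0 127728586 0) (P.cons (P.lf 567032 0 0) (P.cons (P.lf 0 244500 0) (P.cons (P.lf 0 27168 0) (P.cons (P.lf 0 0 0) P.nil))))) (P.cons (P.cons (P.lf 0 83053992 0) (P.cons (P.lf 743126 0 0) (P.cons (P.lf 0 320404 0) (P.cons (P.lf 0 35634 0) P.nil)))) (P.cons (P.cons (P.lf 0 1183296 0) (P.cons (P.lf 343160 0 0) (P.cons (P.lf 0 147910 0) P.nil))) (P.cons (P.cons (P.lf 808292 0 0) (P.cons (P.lf 14270 0 0) P.nil)) (P.cons (P.cons (P.lf 58300 0 0) P.nil) P.nil)))))) 58906)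
 EL.nil)
noncomputable def S24_53_660_808_36 : EL := (EL.cons 14 (TM.mk (P.cons (P.lf 0 7672930352 0) (P.cons (P.lf 26272920 0 0) (P.cons (P.lf 17836760 0 0) (P.cons (P.lf 1072648 0 0) (P.cons (P.lf 30232 0 0) (P.cons (P.lf 0 344 0) P.nil)))))) 752)
 EL.nil)
noncomputable def S24_53_660_808_37 : EL := (EL.cons 14 (TM.mk (P.cons (P.cons (P.lf 5113792876 0 0) (P.cons (P.lf 98264 0 0) (P.cons (P.lf 0 42368 0) (P.lf 0 4702 0)))) (P.cons (P.cons (P.lf 0 103105014 0) (P.cons (P.lf 381294 0 0) (P.cons (P.lf 0 164418 0) (P.lf 0 18262 0)))) (P.cons (P.cons (P.lf 0 67967990 0) (P.cons (P.lf 503928 0 0) (P.cons (P.lf 0 217296 0) (P.lf 0 24144 0)))) (P.cons (P.cons (P.lf 0 2059426 0) (P.cons (P.lf 240030 0 0) (P.cons (P.lf 0 103502 0) P.nil))) (P.cons (P.cons (P.lf 330682 0 0) (P.cons (P.lf 17262 0 0) P.nil)) (P.cons (P.cons (P.lf 35096 0 0) P.nil) P.nil)))))) 29312)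
 EL.nil)
noncomputable def S24_53_660_808_38 : EL := (EL.cons 14 (TM.mk (P.cons (P.cons (P.lf 0 3408199526 0) (P.cons (P.lf 0 130980 0) (P.cons (P.lf 56472 0 0) (P.cons (P.lf 6266 0 0) (P.cons (P.lf 0 0 0) (P.cons (P.lf 0 0 0) P.nil)))))) (P.cons (P.cons (P.lf 125763164 0 0) (P.cons (P.lf 0 506050 0) (P.cons (P.lf 218204 0 0) (P.cons (P.lf 24246 0 0) (P.cons (P.lf 0 0 0) P.nil))))) (P.cons (P.cons (P.lf 81719852 0 0) (P.cons (P.lf 0 661756 0) (P.cons (P.lf 285320 0 0) (P.cons (P.lf 31732 0 0) P.nil)))) (P.cons (P.cons (P.lf 1014176 0 0) (P.cons (P.lf 0 303056 0) (P.cons (P.lf 130624 0 0) P.nil))) (P.cons (P.cons (P.lf 0 900602 0) (P.cons (P.lf 0 10082 0) P.nil)) (P.cons (P.cons (P.lf 0 63034 0) P.nil) P.nil)))))) 58560)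
 EL.nil)
noncomputable def S24_53_660_808_39 : EL := (EL.cons 14 (TM.mk (P.cons (P.lf 6853819380 0 0) (P.cons (P.lf 0 46936394 0) (P.cons (P.lf 0 31784894 0) (P.cons (P.lf 0 1807168 0) (P.cons (P.lf 0 10410 0) (P.cons (P.lf 5254 0 0) P.nil)))))) 1636)
 EL.nil)
noncomputable def S24_53_660_808_40 : EL := (EL.cons 14 (TM.mk (P.cons (P.cons (P.lf 0 4567878386 0) (P.cons (P.lf 0 87774 0) (P.cons (P.lf 37844 0 0) (P.lf 4200 0 0)))) (P.cons (P.cons (P.lf 107739102 0 0) (P.cons (P.lf 0 340288 0) (P.cons (P.lf 146736 0 0) (P.lf 16298 0 0)))) (P.cons (P.cons (P.lf 71015474 0 0) (P.cons (P.lf 0 448760 0) (P.cons (P.lf 193508 0 0) (P.lf 21500 0 0)))) (P.cons (P.cons (P.lf 2056168 0 0) (P.cons (P.lf 0 212060 0) (P.cons (P.lf 91442 0 0) P.nil))) (P.cons (P.cons (P.lf 0 437690 0) (P.cons (P.lf 0 13590 0) P.nil)) (P.cons (P.cons (P.lf 0 43670 0) P.nil) P.nil)))))) 29592)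
 EL.nil)
noncomputable def S24_53_660_808_41 : EL := (EL.cons 14 (TM.mk (P.cons (P.cons (P.lf 3044362830 0 0) (P.cons (P.lf 116996 0 0) (P.cons (P.lf 0 50444 0) (P.cons (P.lf 0 5596 0) (P.cons (P.lf 0 0 0) (P.cons (P.lf 0 0 0) P.nil)))))) (P.cons (P.cons (P.lf 0 122761744 0) (P.cons (P.lf 451626 0 0) (P.cons (P.lf 0 194738 0) (P.cons (P.lf 0 21638 0) (P.cons (P.lf 0 0 0) P.nil))))) (P.cons (P.cons (P.lf 0 79688360 0) (P.cons (P.lf 589290 0 0) (P.cons (P.lf 0 254076 0) (P.cons (P.lf 0 28256 0) P.nil)))) (P.cons (P.cons (P.lf 0 820412 0) (P.cons (P.lf 267614 0 0) (P.cons (P.lf 0 115346 0) P.nil))) (P.cons (P.cons (P.lf 980960 0 0) (P.cons (P.lf 6640 0 0) P.nil)) (P.cons (P.cons (P.lf 66440 0 0) P.nil) P.nil)))))) 57322)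
 EL.nil)
noncomputable def S24_53_660_808_42 : EL := (EL.cons 14 (TM.mk (P.cons (P.lf 0 6122151242 0) (P.cons (P.lf 62888666 0 0) (P.cons (P.lf 42479956 0 0) (P.cons (P.lf 2275422 0 0) (P.cons (P.lf 0 43968 0) (P.cons (P.lf 0 12886 0) P.nil)))))) 2488)
 EL.nil)
noncomputable def S24_53_660_808_43 : EL := (EL.cons 14 (TM.mk (P.cons (P.cons (P.lf 4080242094 0 0) (P.cons (P.lf 78404 0 0) (P.cons (P.lf 0 33804 0) (P.lf 0 3750 0)))) (P.cons (P.cons (P.lf 0 110208770 0) (P.cons (P.lf 303692 0 0) (P.cons (P.lf 0 130956 0) (P.lf 0 14546 0)))) (P.cons (P.cons (P.lf 0 72589878 0) (P.cons (P.lf 399630 0 0) (P.cons (P.lf 0 172324 0) (P.lf 0 19146 0)))) (P.cons (P.cons (P.lf 0 1966146 0) (P.cons (P.lf 187332 0 0) (P.cons (P.lf 0 80778 0) P.nil))) (P.cons (P.cons (P.lf 542092 0 0) (P.cons (P.lf 10516 0 0) P.nil)) (P.cons (P.cons (P.lf 51368 0 0) P.nil) P.nil)))))) 30000)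
 EL.nil)
noncomputable def S24_53_660_808_44 : EL := (EL.cons 14 (TM.mk (P.cons (P.cons (P.lf 0 2719366916 0) (P.cons (P.lf 0 104506 0) (P.cons (P.lf 45058 0 0) (P.cons (P.lf 5000 0 0) (P.cons (P.lf 0 0 0) (P.cons (P.lf 0 0 0) P.nil)))))) (P.cons (P.cons (P.lf 118967916 0 0) (P.cons (P.lf 0 403056 0) (P.cons (P.lf 173794 0 0) (P.cons (P.lf 19310 0 0) (P.cons (P.lf 0 0 0) P.nil))))) (P.cons (P.cons (P.lf 77127420 0 0) (P.cons (P.lf 0 524758 0) (P.cons (P.lf 226252 0 0) (P.cons (P.lf 25162 0 0) P.nil)))) (P.cons (P.cons (P.lf 614342 0 0) (P.cons (P.lf 0 236290 0) (P.cons (P.lf 101844 0 0) P.nil))) (P.cons (P.cons (P.lf 0 1048834 0) (P.cons (P.lf 0 3832 0) P.nil)) (P.cons (P.cons (P.lf 0 68554 0) P.nil) P.nil)))))) 56300)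
 EL.nil)
noncomputable def S24_53_660_808_45 : EL := (EL.cons 14 (TM.mk (P.cons (P.cons (P.lf 0 2542936352 0) (P.cons (P.lf 0 146590 0) (P.cons (P.lf 63202 0 0) (P.cons (P.lf 7014 0 0) (P.cons (P.lf 0 0 0) (P.cons (P.lf 0 0 0) P.nil)))))) (P.cons (P.cons (P.lf 127691280 0 0) (P.cons (P.lf 0 564412 0) (P.cons (P.lf 243360 0 0) (P.cons (P.lf 27052 0 0) (P.cons (P.lf 0 0 0) P.nil))))) (P.cons (P.cons (P.lf 81961084 0 0) (P.cons (P.lf 0 731804 0) (P.cons (P.lf 315486 0 0) (P.cons (P.lf 35122 0 0) P.nil)))) (P.cons (P.cons (P.lf 0 212766 0) (P.cons (P.lf 0 324326 0) (P.cons (P.lf 139726 0 0) P.nil))) (P.cons (P.cons (P.lf 0 1291398 0) (P.cons (P.lf 0 146 0) P.nil)) (P.cons (P.cons (P.lf 0 65556 0) P.nil) P.nil)))))) 83414)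
 EL.nil)
noncomputable def S24_53_660_808_46 : EL := (EL.cons 15 (TM.mk (P.lf 4294967296 0 0) 0)
 EL.nil)
noncomputable def S24_53_660_808_47 : EL := (EL.cons 15 (TM.mk (P.cons (P.cons (P.lf 0 2862475242 0) (P.cons (P.lf 0 55004 0) (P.cons (P.lf 23716 0 0) (P.lf 2632 0 0)))) (P.cons (P.cons (P.lf 47912214 0 0) (P.cons (P.lf 0 213620 0) (P.cons (P.lf 92116 0 0) (P.lf 10232 0 0)))) (P.cons (P.cons (P.lf 31555325 0 0) (P.cons (P.lf 0 282936 0) (P.cons (P.lf 122004 0 0) (P.lf 13556 0 0)))) (P.cons (P.cons (P.lf 972040 0 0) (P.cons (P.lf 0 135832 0) (P.cons (P.lf 58572 0 0) P.nil))) (P.cons (P.cons (P.lf 0 112999 0) (P.cons (P.lf 0 10816 0) P.nil)) (P.cons (P.cons (P.lf 0 13045 0) P.nil) P.nil)))))) 14186)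
 EL.nil)
noncomputable def S24_53_660_808_48 : EL := (EL.cons 15 (TM.mk (P.cons (P.cons (P.lf 1907759465 0 0) (P.cons (P.lf 73317 0 0) (P.cons (P.lf 0 31611 0) (P.cons (P.lf 0 3508 0) (P.cons (P.lf 0 0 0) (P.cons (P.lf 0 0 0) P.nil)))))) (P.cons (P.cons (P.lf 0 63864293 0) (P.cons (P.lf 283516 0 0) (P.cons (P.lf 0 122250 0) (P.cons (P.lf 0 13584 0) (P.cons (P.lf 0 0 0) P.nil))))) (P.cons (P.cons (P.lf 0 41526996 0) (P.cons (P.lf 371563 0 0) (P.cons (P.lf 0 160202 0) (P.cons (P.lf 0 17817 0) P.nil)))) (P.cons (P.cons (P.lf 0 591648 0) (P.cons (P.lf 171580 0 0) (P.cons (P.lf 0 73955 0) P.nil))) (P.cons (P.cons (P.lf 404146 0 0) (P.cons (P.lf 7135 0 0) P.nil)) (P.cons (P.cons (P.lf 29150 0 0) P.nil) P.nil)))))) 29453)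
 EL.nil)
noncomputable def S24_53_660_808 : SL := (SL.cons S24_53_660_808_0 (SL.cons S24_53_660_808_1 (SL.cons S24_53_660_808_2 (SL.cons S24_53_660_808_3 (SL.cons S24_53_660_808_4 (SL.cons S24_53_660_808_5 (SL.cons S24_53_660_808_6 (SL.cons S24_53_660_808_7 (SL.cons S24_53_660_808_8 (SL.cons S24_53_660_808_9 (SL.cons S24_53_660_808_10 (SL.cons S24_53_660_808_11 (SL.cons S24_53_660_808_12 (SL.cons S24_53_660_808_13 (SL.cons S24_53_660_808_14 (SL.cons S24_53_660_808_15 (SL.cons S24_53_660_808_16 (SL.cons S24_53_660_808_17 (SL.cons S24_53_660_808_18 (SL.cons S24_53_660_808_19 (SL.cons S24_53_660_808_20 (SL.cons S24_53_660_808_21 (SL.cons S24_53_660_808_22 (SL.cons S24_53_660_808_23 (SL.cons S24_53_660_808_24 (SL.cons S24_53_660_808_25 (SL.cons S24_53_660_808_26 (SL.cons S24_53_660_808_27 (SL.cons S24_53_660_808_28 (SL.cons S24_53_660_808_29 (SL.cons S24_53_660_808_30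 (SL.cons S24_53_660_808_31 (SL.cons S24_53_660_808_32 (SL.cons S24_53_660_808_33 (SL.cons S24_53_660_808_34 (SL.cons S24_53_660_808_35 (SL.cons S24_53_660_808_36 (SL.cons S24_53_660_808_37 (SL.cons S24_53_660_808_38 (SL.cons S24_53_660_808_39 (SL.cons S24_53_660_808_40 (SL.cons S24_53_660_808_41 (SL.cons S24_53_660_808_42 (SL.cons S24_53_660_808_43 (SL.cons S24_53_660_808_44 (SL.cons S24_53_660_808_45 (SL.cons S24_53_660_808_46 (SL.cons S24_53_660_808_47 (SL.cons S24_53_660_808_48 SL.nil)))))))))))))))))))))))))))))))))))))))))))))))))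
noncomputable def S24_82_216_364_0 : EL := (EL.cons 0 (TM.mk (P.cons (P.lf 2502633316 0 0) (P.cons (P.lf 203801712 0 0) (P.cons (P.lf 130815949 0 0) (P.cons (P.lf 12568577 0 0) (P.cons (P.lf 0 316826 0) (P.cons (P.lf 0 225130 0) P.nil)))))) 89741)
 (EL.cons 1 (TM.mk (P.cons (P.lf 0 428420096 0) (P.cons (P.lf 0 496117890 0) (P.cons (P.lf 0 13955407 0) (P.cons (P.lf 7690831 0 0) (P.cons (P.lf 1319411 0 0) (P.cons (P.lf 80557 0 0) P.nil)))))) 32420)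
 (EL.cons 5 (TM.mk (P.cons (P.lf 6411619230 0 0) (P.cons (P.lf 0 72462834 0) (P.cons (P.lf 0 46512338 0) (P.cons (P.lf 0 4468832 0) (P.cons (P.lf 112646 0 0) (P.cons (P.lf 80044 0 0) P.nil)))))) 15705)
 (EL.cons 9 (TM.mk (P.lf 6442450944 0 0) 2)
 EL.nil))))
noncomputable def S24_82_216_364_1 : EL := (EL.cons 0 (TM.mk (P.cons (P.cons (P.lf 0 1916593381 0) (P.cons (P.lf 2497030 0 0) (P.cons (P.lf 1076743 0 0) (P.lf 0 119625 0)))) (P.cons (P.cons (P.lf 0 690490275 0) (P.cons (P.lf 8670527 0 0) (P.cons (P.lf 3738820 0 0) (P.lf 0 415406 0)))) (P.cons (P.cons (P.lf 0 421033706 0) (P.cons (P.lf 10270501 0 0) (P.cons (P.lf 4428753 0 0) (P.lf 0 492070 0)))) (P.cons (P.cons (P.lf 0 1781977 0) (P.cons (P.lf 4274224 0 0) (P.cons (P.lf 1843088 0 0) P.nil))) (P.cons (P.cons (P.lf 26109053 0 0) (P.cons (P.lf 0 31617 0) P.nil)) (P.cons (P.cons (P.lf 5057655 0 0) P.nil)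 P.nil)))))) 4526186)
 (EL.cons 1 (TM.mk (P.cons (P.cons (P.lf 1007043517 0 0) (P.cons (P.lf 0 6999548 0) (P.cons (P.lf 0 3018287 0) (P.lf 335365 0 0)))) (P.cons (P.cons (P.lf 1119837535 0 0) (P.cons (P.lf 0 15676108 0) (P.cons (P.lf 0 6759717 0) (P.lf 751082 0 0)))) (P.cons (P.cons (P.lf 0 80638668 0) (P.cons (P.lf 0 8251544 0) (P.cons (P.lf 0 3558160 0) (P.lf 395354 0 0)))) (P.cons (P.cons (P.lf 0 95972271 0) (P.cons (P.lf 1333607 0 0) (P.cons (P.lf 575062 0 0) P.nil))) (P.cons (P.cons (P.lf 0 12101857 0) (P.cons (P.lf 947240 0 0) P.nil)) (P.cons (P.cons (P.lf 1468291 0 0) P.nil) P.nil)))))) 1896847)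
 (EL.cons 5 (TM.mk (P.cons (P.cons (P.lf 0 4034953460 0) (P.cons (P.lf 0 2075074 0) (P.cons (P.lf 0 894798 0) (P.lf 99420 0 0)))) (P.cons (P.cons (P.lf 677902554 0 0) (P.cons (P.lf 0 7268362 0) (P.cons (P.lf 0 3134198 0) (P.lf 348240 0 0)))) (P.cons (P.cons (P.lf 436061134 0 0) (P.cons (P.lf 0 8797596 0) (P.cons (P.lf 0 3793618 0) (P.lf 421510 0 0)))) (P.cons (P.cons (P.lf 33197732 0 0) (P.cons (P.lf 0 3971628 0) (P.cons (P.lf 0 1712612 0) P.nil))) (P.cons (P.cons (P.lf 0 10927201 0) (P.cons (P.lf 0 292838 0) P.nil)) (P.cons (P.cons (P.lf 0 2701812 0) P.nil) P.nil)))))) 1174073)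
 (EL.cons 9 (TM.mk (P.cons (P.cons (P.lf 0 4161537240 0) (P.cons (P.lf 0 1047564 0) (P.cons (P.lf 0 451722 0) (P.lf 50190 0 0)))) (P.cons (P.cons (P.lf 381524904 0 0) (P.cons (P.lf 0 3693096 0) (P.cons (P.lf 0 1592502 0) (P.lf 176940 0 0)))) (P.cons (P.cons (P.lf 252670806 0 0) (P.cons (P.lf 0 4540458 0) (P.cons (P.lf 0 1957896 0) (P.lf 217542 0 0)))) (P.cons (P.cons (P.lf 28733050 0 0) (P.cons (P.lf 0 2163438 0) (P.cons (P.lf 0 932898 0) P.nil))) (P.cons (P.cons (P.lf 0 1450581 0) (P.cons (P.lf 0 268302 0) P.nil)) (P.cons (P.cons (P.lf 0 797230 0) P.nil) P.nil)))))) 500867)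
 (EL.cons 2 (TM.mk (P.cons (P.cons (P.lf 15207862 0 0) (P.cons (P.lf 14167530 0 0) (P.cons (P.lf 0 1454048 0) (P.cons (P.lf 0 302400 0) (P.lf 25197 0 0))))) (P.cons (P.cons (P.lf 35482258 0 0) (P.cons (P.lf 33055005 0 0) (P.cons (P.lf 0 3392516 0) (P.cons (P.lf 0 705546 0) (P.lf 58795 0 0))))) (P.cons (P.cons (P.lf 22161254 0 0) (P.cons (P.lf 20645260 0 0) (P.cons (P.lf 0 2118872 0) (P.cons (P.lf 0 440662 0) P.nil)))) (P.cons (P.cons (P.lf 1394651 0 0) (P.cons (P.lf 1299248 0 0) (P.cons (P.lf 0 133343 0) P.nil))) (P.cons (P.cons (P.lf 0 394129 0) (P.cons (P.lf 0 367169 0) P.nil)) (P.cons (P.cons (P.lf 0 93625 0) P.nil) P.nil)))))) 280981)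
 (EL.cons 6 (TM.mk (P.cons (P.cons (P.lf 1094448 0 0) (P.cons (P.lf 1019580 0 0) (P.cons (P.lf 0 104640 0) (P.cons (P.lf 0 21762 0) (P.lf 1812 0 0))))) (P.cons (P.cons (P.lf 3858378 0 0) (P.cons (P.lf 3594435 0 0) (P.cons (P.lf 0 368904 0) (P.cons (P.lf 0 76722 0) (P.lf 6393 0 0))))) (P.cons (P.cons (P.lf 4743669 0 0) (P.cons (P.lf 4419165 0 0) (P.cons (P.lf 0 453549 0) (P.cons (P.lf 0 94323 0) P.nil)))) (P.cons (P.cons (P.lf 2260266 0 0) (P.cons (P.lf 2105646 0 0) (P.cons (P.lf 0 216105 0) P.nil))) (P.cons (P.cons (P.lf 280311 0 0) (P.cons (P.lf 261135 0 0) P.nil)) (P.cons (P.cons (P.lf 0 3981 0) P.nil) P.nil)))))) 133362)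
 EL.nil))))))
noncomputable def S24_82_216_364_2 : EL := (EL.cons 0 (TM.mk (P.cons (P.cons (P.lf 1431823087 0 0) (P.cons (P.lf 0 3128375 0) (P.cons (P.lf 0 1349865 0) (P.cons (P.lf 149118 0 0) (P.cons (P.lf 0 71 0) (P.cons (P.lf 31 0 0) P.nil)))))) (P.cons (P.cons (P.lf 771481417 0 0) (P.cons (P.lf 0 10331908 0) (P.cons (P.lf 0 4461376 0) (P.cons (P.lf 489687 0 0) (P.cons (P.lf 0 552 0) P.nil))))) (P.cons (P.cons (P.lf 390855188 0 0) (P.cons (P.lf 0 10666981 0) (P.cons (P.lf 0 4617955 0) (P.cons (P.lf 495339 0 0) P.nil)))) (P.cons (P.cons (P.lf 0 101652711 0) (P.cons (P.lf 0 1886100 0) (P.cons (P.lf 0 842790 0) P.nil))) (P.cons (P.cons (P.lf 0 70671941 0) (P.cons (P.lf 2575661 0 0) P.nil)) (P.cons (P.cons (P.lf 0 7432501 0) P.nil) P.nil)))))) 16458304)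
 (EL.cons 1 (TM.mk (P.cons (P.cons (P.lf 0 1122248806 0) (P.cons (P.lf 8805294 0 0) (P.cons (P.lf 3799230 0 0) (P.cons (P.lf 0 419910 0) (P.cons (P.lf 208 0 0) (P.cons (P.lf 0 95 0) P.nil)))))) (P.cons (P.cons (P.lf 0 1153223395 0) (P.cons (P.lf 18317613 0 0) (P.cons (P.lf 7911980 0 0) (P.cons (P.lf 0 866247 0) (P.cons (P.lf 1189 0 0) P.nil))))) (P.cons (P.cons (P.lf 263465815 0 0) (P.cons (P.lf 6293722 0 0) (P.cons (P.lf 2744779 0 0) (P.cons (P.lf 0 274944 0) P.nil)))) (P.cons (P.cons (P.lf 183106082 0 0) (P.cons (P.lf 0 5573055 0) (P.cons (P.lf 0 2366659 0) P.nil))) (P.cons (P.cons (P.lf 7313248 0 0) (P.cons (P.lf 0 2321352 0) P.nil)) (P.cons (P.cons (P.lf 0 10540164 0) P.nil) P.nil)))))) 6962468)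
 (EL.cons 5 (TM.mk (P.cons (P.cons (P.lf 2537498062 0 0) (P.cons (P.lf 2646122 0 0) (P.cons (P.lf 1141543 0 0) (P.cons (P.lf 0 126341 0) (P.cons (P.lf 39 0 0) (P.cons (P.lf 0 18 0) P.nil)))))) (P.cons (P.cons (P.lf 0 832920319 0) (P.cons (P.lf 8940248 0 0) (P.cons (P.lf 3858677 0 0) (P.cons (P.lf 0 425274 0) (P.cons (P.lf 312 0 0) P.nil))))) (P.cons (P.cons (P.lf 0 483316134 0) (P.cons (P.lf 9851827 0 0) (P.cons (P.lf 4258775 0 0) (P.cons (P.lf 0 462913 0) P.nil)))) (P.cons (P.cons (P.lf 27989975 0 0) (P.cons (P.lf 2889868 0 0) (P.cons (P.lf 1263326 0 0) P.nil))) (P.cons (P.cons (P.lf 42339570 0 0) (P.cons (P.lf 0 1253779 0) P.nil)) (P.cons (P.cons (P.lf 6169547 0 0) P.nil) P.nil)))))) 5252791)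
 (EL.cons 9 (TM.mk (P.cons (P.cons (P.lf 2688168268 0 0) (P.cons (P.lf 1353358 0 0) (P.cons (P.lf 583755 0 0) (P.cons (P.lf 0 64693 0) (P.cons (P.lf 15 0 0) (P.cons (P.lf 0 6 0) P.nil)))))) (P.cons (P.cons (P.lf 0 492896293 0) (P.cons (P.lf 4647076 0 0) (P.cons (P.lf 2005069 0 0) (P.cons (P.lf 0 221610 0) (P.cons (P.lf 108 0 0) P.nil))))) (P.cons (P.cons (P.lf 0 303834162 0) (P.cons (P.lf 5346283 0 0) (P.cons (P.lf 2308971 0 0) (P.cons (P.lf 0 253051 0) P.nil)))) (P.cons (P.cons (P.lf 0 7193986 0) (P.cons (P.lf 1958164 0 0) (P.cons (P.lf 850290 0 0) P.nil))) (P.cons (P.cons (P.lf 15186856 0 0) (P.cons (P.lf 0 298237 0) P.nil)) (P.cons (P.cons (P.lf 3111943 0 0) P.nil) P.nil)))))) 1936829)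
 (EL.cons 2 (TM.mk (P.cons (P.cons (P.lf 0 19647202 0) (P.cons (P.lf 0 18308137 0) (P.cons (P.lf 1871758 0 0) (P.cons (P.lf 389396 0 0) (P.cons (P.lf 0 32028 0) (P.cons (P.lf 11 0 0) P.nil)))))) (P.cons (P.cons (P.lf 0 44038693 0) (P.cons (P.lf 0 41055091 0) (P.cons (P.lf 4171123 0 0) (P.cons (P.lf 868207 0 0) (P.cons (P.lf 0 69907 0) P.nil))))) (P.cons (P.cons (P.lf 0 23234928 0) (P.cons (P.lf 0 21714806 0) (P.cons (P.lf 2127054 0 0) (P.cons (P.lf 444110 0 0) P.nil)))) (P.cons (P.cons (P.lf 3741885 0 0) (P.cons (P.lf 3399823 0 0) (P.cons (P.lf 0 475087 0) P.nil))) (P.cons (P.cons (P.lf 2722331 0 0) (P.cons (P.lf 2478296 0 0) P.nil)) (P.cons (P.cons (P.lf 361603 0 0) P.nil) P.nil)))))) 1620427)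
 (EL.cons 6 (TM.mk (P.cons (P.cons (P.lf 0 1413930 0) (P.cons (P.lf 0 1317564 0) (P.cons (P.lf 134700 0 0) (P.cons (P.lf 28020 0 0) (P.cons (P.lf 0 2304 0) (P.cons (P.lf 0 0 0) P.nil)))))) (P.cons (P.cons (P.lf 0 4855050 0) (P.cons (P.lf 0 4525440 0) (P.cons (P.lf 460776 0 0) (P.cons (P.lf 95892 0 0) (P.cons (P.lf 0 7776 0) P.nil))))) (P.cons (P.cons (P.lf 0 5585556 0) (P.cons (P.lf 0 5210976 0) (P.cons (P.lf 523806 0 0) (P.cons (P.lf 109122 0 0) P.nil)))) (P.cons (P.cons (P.lf 0 2045808 0) (P.cons (P.lf 0 1918206 0) (P.cons (P.lf 178776 0 0) P.nil))) (P.cons (P.cons (P.lf 311580 0 0) (P.cons (P.lf 278214 0 0) P.nil)) (P.cons (P.cons (P.lf 255942 0 0) P.nil) P.nil)))))) 600228)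
 EL.nil))))))
noncomputable def S24_82_216_364_3 : EL := (EL.cons 0 (TM.mk (P.cons (P.lf 5953083547 0 0) (P.cons (P.lf 0 203801712 0) (P.cons (P.lf 0 130815949 0) (P.cons (P.lf 0 12568577 0) (P.cons (P.lf 316826 0 0) (P.cons (P.lf 225130 0 0) P.nil)))))) 89741)
 (EL.cons 1 (TM.mk (P.cons (P.lf 428420096 0 0) (P.cons (P.lf 496117890 0 0) (P.cons (P.lf 13955407 0 0) (P.cons (P.lf 0 7690831 0) (P.cons (P.lf 0 1319411 0) (P.cons (P.lf 0 80557 0) P.nil)))))) 32420)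
 (EL.cons 5 (TM.mk (P.cons (P.lf 30831714 0 0) (P.cons (P.lf 72462834 0 0) (P.cons (P.lf 46512338 0 0) (P.cons (P.lf 4468832 0 0) (P.cons (P.lf 0 112646 0) (P.cons (P.lf 0 80044 0) P.nil)))))) 15698)
 EL.nil)))
noncomputable def S24_82_216_364_4 : EL := (EL.cons 0 (TM.mk (P.cons (P.cons (P.lf 0 3845427630 0) (P.cons (P.lf 0 967990 0) (P.cons (P.lf 0 417408 0) (P.lf 46376 0 0)))) (P.cons (P.cons (P.lf 484191198 0 0) (P.cons (P.lf 0 3379429 0) (P.cons (P.lf 0 1457245 0) (P.lf 161910 0 0)))) (P.cons (P.cons (P.lf 305910040 0 0) (P.cons (P.lf 0 4057465 0) (P.cons (P.lf 0 1749624 0) (P.lf 194400 0 0)))) (P.cons (P.cons (P.lf 18929218 0 0) (P.cons (P.lf 0 1778435 0) (P.cons (P.lf 0 766880 0) P.nil))) (P.cons (P.cons (P.lf 0 8328872 0) (P.cons (P.lf 0 80133 0) P.nil)) (P.cons (P.cons (P.lf 0 1893814 0) P.nil) P.nil)))))) 911428)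
 (EL.cons 1 (TM.mk (P.cons (P.cons (P.lf 0 276740358 0) (P.cons (P.lf 0 69661 0) (P.cons (P.lf 0 30037 0) (P.lf 3337 0 0)))) (P.cons (P.cons (P.lf 0 295098890 0) (P.cons (P.lf 0 326259 0) (P.cons (P.lf 0 140685 0) (P.lf 15630 0 0)))) (P.cons (P.cons (P.lf 37168248 0 0) (P.cons (P.lf 0 588603 0) (P.cons (P.lf 0 253811 0) (P.lf 28200 0 0)))) (P.cons (P.cons (P.lf 27162697 0 0) (P.cons (P.lf 0 500265 0) (P.cons (P.lf 0 215718 0) P.nil))) (P.cons (P.cons (P.lf 3060354 0 0) (P.cons (P.lf 0 189654 0) P.nil)) (P.cons (P.cons (P.lf 0 430211 0) P.nil) P.nil)))))) 417540)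
 (EL.cons 5 (TM.mk (P.cons (P.cons (P.lf 0 19915918 0) (P.cons (P.lf 0 5012 0) (P.cons (P.lf 0 2160 0) (P.lf 240 0 0)))) (P.cons (P.cons (P.lf 0 44981904 0) (P.cons (P.lf 0 29456 0) (P.cons (P.lf 0 12700 0) (P.lf 1410 0 0)))) (P.cons (P.cons (P.lf 0 24544414 0) (P.cons (P.lf 0 70830 0) (P.cons (P.lf 0 30542 0) (P.lf 3392 0 0)))) (P.cons (P.cons (P.lf 2847290 0 0) (P.cons (P.lf 0 88812 0) (P.cons (P.lf 0 38296 0) P.nil))) (P.cons (P.cons (P.lf 2477848 0 0) (P.cons (P.lf 0 60940 0) P.nil)) (P.cons (P.cons (P.lf 407612 0 0) P.nil) P.nil)))))) 132570)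
 EL.nil)))
noncomputable def S24_82_216_364_5 : EL := (EL.cons 0 (TM.mk (P.cons (P.cons (P.lf 2483975497 0 0) (P.cons (P.lf 1250557 0 0) (P.cons (P.lf 539412 0 0) (P.cons (P.lf 0 59777 0) (P.cons (P.lf 12 0 0) (P.cons (P.lf 0 5 0) P.nil)))))) (P.cons (P.cons (P.lf 0 540494005 0) (P.cons (P.lf 4251271 0 0) (P.cons (P.lf 1834296 0 0) (P.cons (P.lf 0 202728 0) (P.cons (P.lf 98 0 0) P.nil))))) (P.cons (P.cons (P.lf 0 319746682 0) (P.cons (P.lf 4765693 0 0) (P.cons (P.lf 2058298 0 0) (P.cons (P.lf 0 225504 0) P.nil)))) (P.cons (P.cons (P.lf 7728076 0 0) (P.cons (P.lf 1543296 0 0) (P.cons (P.lf 670805 0 0) P.nil))) (P.cons (P.cons (P.lf 21524076 0 0) (P.cons (P.lf 0 455085 0) P.nil)) (P.cons (P.cons (P.lf 3203660 0 0) P.nil) P.nil)))))) 2699668)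
 (EL.cons 1 (TM.mk (P.cons (P.cons (P.lf 178761982 0 0) (P.cons (P.lf 89996 0 0) (P.cons (P.lf 38818 0 0) (P.cons (P.lf 0 4301 0) (P.cons (P.lf 0 0 0) (P.cons (P.lf 0 0 0) P.nil)))))) (P.cons (P.cons (P.lf 174232089 0 0) (P.cons (P.lf 413246 0 0) (P.cons (P.lf 178288 0 0) (P.cons (P.lf 0 19717 0) (P.cons (P.lf 7 0 0) P.nil))))) (P.cons (P.cons (P.lf 0 52338596 0) (P.cons (P.lf 716315 0 0) (P.cons (P.lf 309213 0 0) (P.cons (P.lf 0 34033 0) P.nil)))) (P.cons (P.cons (P.lf 0 28152706 0) (P.cons (P.lf 550370 0 0) (P.cons (P.lf 237997 0 0) P.nil))) (P.cons (P.cons (P.lf 0 164355 0) (P.cons (P.lf 136715 0 0) P.nil)) (P.cons (P.cons (P.lf 1790902 0 0) P.nil) P.nil)))))) 898137)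
 (EL.cons 5 (TM.mk (P.cons (P.cons (P.lf 12864798 0 0) (P.cons (P.lf 6476 0 0) (P.cons (P.lf 2792 0 0) (P.cons (P.lf 0 308 0) (P.cons (P.lf 0 0 0) (P.cons (P.lf 0 0 0) P.nil)))))) (P.cons (P.cons (P.lf 27876882 0 0) (P.cons (P.lf 37460 0 0) (P.cons (P.lf 16160 0 0) (P.cons (P.lf 0 1788 0) (P.cons (P.lf 0 0 0) P.nil))))) (P.cons (P.cons (P.lf 12409656 0 0) (P.cons (P.lf 87624 0 0) (P.cons (P.lf 37816 0 0) (P.cons (P.lf 0 4170 0) P.nil)))) (P.cons (P.cons (P.lf 0 5145754 0) (P.cons (P.lf 103992 0 0) (P.cons (P.lf 44920 0 0) P.nil))) (P.cons (P.cons (P.lf 0 2590718 0) (P.cons (P.lf 62394 0 0) P.nil)) (P.cons (P.cons (P.lf 0 101764 0) P.nil) P.nil)))))) 314666)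
 EL.nil)))
noncomputable def S24_82_216_364_6 : EL := (EL.cons 12 (TM.mk (P.lf 8589934592 0 0) 0)
 (EL.cons 3 (TM.mk (P.cons (P.lf 0 3575492913 0) (P.cons (P.lf 61202868 0 0) (P.cons (P.lf 39808623 0 0) (P.cons (P.lf 4455836 0 0) (P.cons (P.lf 202736 0 0) (P.cons (P.lf 0 14527 0) P.nil)))))) 20620)
 (EL.cons 7 (TM.mk (P.cons (P.lf 0 257314215 0) (P.cons (P.lf 0 302378847 0) (P.cons (P.lf 0 16422572 0) (P.cons (P.lf 650818 0 0) (P.cons (P.lf 229331 0 0) (P.cons (P.lf 22990 0 0) P.nil)))))) 9250)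
 EL.nil)))
noncomputable def S24_82_216_364_7 : EL := (EL.cons 12 (TM.mk (P.cons (P.cons (P.lf 0 5548716320 0) (P.cons (P.lf 0 1396752 0) (P.cons (P.lf 0 602296 0) (P.lf 66920 0 0)))) (P.cons (P.cons (P.lf 508699872 0 0) (P.cons (P.lf 0 4924128 0) (P.cons (P.lf 0 2123336 0) (P.lf 235920 0 0)))) (P.cons (P.cons (P.lf 336894408 0 0) (P.cons (P.lf 0 6053944 0) (P.cons (P.lf 0 2610528 0) (P.lf 290056 0 0)))) (P.cons (P.cons (P.lf 38310734 0 0) (P.cons (P.lf 0 2884584 0) (P.cons (P.lf 0 1243864 0) P.nil))) (P.cons (P.cons (P.lf 0 1934108 0) (P.cons (P.lf 0 357736 0) P.nil)) (P.cons (P.cons (P.lf 0 1062974 0) P.nil) P.nil)))))) 667798)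
 (EL.cons 3 (TM.mk (P.cons (P.cons (P.lf 2489795265 0 0) (P.cons (P.lf 0 1162772 0) (P.cons (P.lf 0 501400 0) (P.lf 55708 0 0)))) (P.cons (P.cons (P.lf 176470592 0 0) (P.cons (P.lf 0 4079354 0) (P.cons (P.lf 0 1759060 0) (P.lf 195444 0 0)))) (P.cons (P.cons (P.lf 115334071 0 0) (P.cons (P.lf 0 4956696 0) (P.cons (P.lf 0 2137382 0) (P.lf 237482 0 0)))) (P.cons (P.cons (P.lf 8024215 0 0) (P.cons (P.lf 0 2268012 0) (P.cons (P.lf 0 977990 0) P.nil))) (P.cons (P.cons (P.lf 0 5037517 0) (P.cons (P.lf 0 195416 0) P.nil)) (P.cons (P.cons (P.lf 0 1244523 0) P.nil) P.nil)))))) 1775810)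
 (EL.cons 7 (TM.mk (P.cons (P.cons (P.lf 0 724011252 0) (P.cons (P.lf 8659064 0 0) (P.cons (P.lf 3733886 0 0) (P.lf 0 414876 0)))) (P.cons (P.cons (P.lf 0 871870499 0) (P.cons (P.lf 20154465 0 0) (P.cons (P.lf 8690834 0 0) (P.lf 0 965648 0)))) (P.cons (P.cons (P.lf 0 50074820 0) (P.cons (P.lf 12474484 0 0) (P.cons (P.lf 5379138 0 0) (P.lf 0 597681 0)))) (P.cons (P.cons (P.lf 27872016 0 0) (P.cons (P.lf 649547 0 0) (P.cons (P.lf 280093 0 0) P.nil))) (P.cons (P.cons (P.lf 5322685 0 0) (P.cons (P.lf 0 278783 0) P.nil)) (P.cons (P.cons (P.lf 89390 0 0) P.nil) P.nil)))))) 941419)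
 (EL.cons 10 (TM.mk (P.cons (P.cons (P.lf 0 18268047 0) (P.cons (P.lf 0 17018376 0) (P.cons (P.lf 1746639 0 0) (P.cons (P.lf 363252 0 0) (P.lf 0 30270 0))))) (P.cons (P.cons (P.lf 0 42934836 0) (P.cons (P.lf 0 39997773 0) (P.cons (P.lf 4105071 0 0) (P.cons (P.lf 853740 0 0) (P.lf 0 71145 0))))) (P.cons (P.cons (P.lf 0 27558951 0) (P.cons (P.lf 0 25673712 0) (P.cons (P.lf 2634957 0 0) (P.cons (P.lf 547995 0 0) P.nil)))) (P.cons (P.cons (P.lf 0 2647818 0) (P.cons (P.lf 0 2466687 0) (P.cons (P.lf 253161 0 0) P.nil))) (P.cons (P.cons (P.lf 66741 0 0) (P.cons (P.lf 62175 0 0) P.nil)) (P.cons (P.cons (P.lf 47424 0 0) P.nil) P.nil)))))) 179412)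
 EL.nil))))
noncomputable def S24_82_216_364_8 : EL := (EL.cons 12 (TM.mk (P.cons (P.cons (P.lf 3584224358 0 0) (P.cons (P.lf 1804478 0 0) (P.cons (P.lf 778340 0 0) (P.cons (P.lf 0 86258 0) (P.cons (P.lf 20 0 0) (P.cons (P.lf 0 8 0) P.nil)))))) (P.cons (P.cons (P.lf 0 657195058 0) (P.cons (P.lf 6196102 0 0) (P.cons (P.lf 2673426 0 0) (P.cons (P.lf 0 295480 0) (P.cons (P.lf 144 0 0) P.nil))))) (P.cons (P.cons (P.lf 0 405112216 0) (P.cons (P.lf 7128378 0 0) (P.cons (P.lf 3078628 0 0) (P.cons (P.lf 0 337402 0) P.nil)))) (P.cons (P.cons (P.lf 0 9591982 0) (P.cons (P.lf 2610886 0 0) (P.cons (P.lf 1133720 0 0) P.nil))) (P.cons (P.cons (P.lf 20249142 0 0) (P.cons (P.lf 0 397650 0) P.nil)) (P.cons (P.cons (P.lf 4149258 0 0) P.nil) P.nil)))))) 2582410)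
 (EL.cons 3 (TM.mk (P.cons (P.cons (P.lf 0 1724689087 0) (P.cons (P.lf 1443599 0 0) (P.cons (P.lf 622967 0 0) (P.cons (P.lf 0 68755 0) (P.cons (P.lf 41 0 0) (P.cons (P.lf 0 16 0) P.nil)))))) (P.cons (P.cons (P.lf 0 232180407 0) (P.cons (P.lf 4786755 0 0) (P.cons (P.lf 2067420 0 0) (P.cons (P.lf 0 226464 0) (P.cons (P.lf 295 0 0) P.nil))))) (P.cons (P.cons (P.lf 0 113354923 0) (P.cons (P.lf 4994555 0 0) (P.cons (P.lf 2163619 0 0) (P.cons (P.lf 0 230747 0) P.nil)))) (P.cons (P.cons (P.lf 39424934 0 0) (P.cons (P.lf 963180 0 0) (P.cons (P.lf 431519 0 0) P.nil))) (P.cons (P.cons (P.lf 27588673 0 0) (P.cons (P.lf 0 1157272 0) P.nil)) (P.cons (P.cons (P.lf 3832665 0 0) P.nil) P.nil)))))) 7225970)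
 (EL.cons 7 (TM.mk (P.cons (P.cons (P.lf 1042724817 0 0) (P.cons (P.lf 0 10897229 0) (P.cons (P.lf 0 4701815 0) (P.cons (P.lf 519687 0 0) (P.cons (P.lf 0 252 0) (P.cons (P.lf 114 0 0) P.nil)))))) (P.cons (P.cons (P.lf 1147110391 0 0) (P.cons (P.lf 0 23649456 0) (P.cons (P.lf 0 10214338 0) (P.cons (P.lf 1118935 0 0) (P.cons (P.lf 0 1475 0) P.nil))))) (P.cons (P.cons (P.lf 0 123780963 0) (P.cons (P.lf 0 10578100 0) (P.cons (P.lf 0 4600566 0) (P.cons (P.lf 473043 0 0) P.nil)))) (P.cons (P.cons (P.lf 0 132862053 0) (P.cons (P.lf 4400868 0 0) (P.cons (P.lf 1849367 0 0) P.nil))) (P.cons (P.cons (P.lf 0 15505542 0) (P.cons (P.lf 2367332 0 0) P.nil)) (P.cons (P.cons (P.lf 3683748 0 0) P.nil) P.nil)))))) 5173099)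
 (EL.cons 10 (TM.mk (P.cons (P.cons (P.lf 23600694 0 0) (P.cons (P.lf 21992166 0 0) (P.cons (P.lf 0 2248404 0) (P.cons (P.lf 0 467754 0) (P.cons (P.lf 38472 0 0) (P.cons (P.lf 0 12 0) P.nil)))))) (P.cons (P.cons (P.lf 53304306 0 0) (P.cons (P.lf 49692804 0 0) (P.cons (P.lf 0 5048940 0) (P.cons (P.lf 0 1050918 0) (P.cons (P.lf 84636 0 0) P.nil))))) (P.cons (P.cons (P.lf 29085540 0 0) (P.cons (P.lf 27179808 0 0) (P.cons (P.lf 0 2666526 0) (P.cons (P.lf 0 556674 0) P.nil)))) (P.cons (P.cons (P.lf 0 3374088 0) (P.cons (P.lf 0 3038034 0) (P.cons (P.lf 466032 0 0) P.nil))) (P.cons (P.cons (P.lf 0 2936286 0) (P.cons (P.lf 0 2663202 0) P.nil)) (P.cons (P.cons (P.lf 0 483018 0) P.nil) P.nil)))))) 1719246)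
 EL.nil))))
noncomputable def S24_82_216_364_9 : EL := (EL.cons 3 (TM.mk (P.cons (P.lf 0 3575492913 0) (P.cons (P.lf 61202868 0 0) (P.cons (P.lf 39808623 0 0) (P.cons (P.lf 4455836 0 0) (P.cons (P.lf 202736 0 0) (P.cons (P.lf 0 14527 0) P.nil)))))) 20620)
 (EL.cons 7 (TM.mk (P.cons (P.lf 0 257314215 0) (P.cons (P.lf 0 302378847 0) (P.cons (P.lf 0 16422572 0) (P.cons (P.lf 650818 0 0) (P.cons (P.lf 229331 0 0) (P.cons (P.lf 22990 0 0) P.nil)))))) 9250)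
 EL.nil))
noncomputable def S24_82_216_364_10 : EL := (EL.cons 3 (TM.mk (P.cons (P.cons (P.lf 2309609655 0 0) (P.cons (P.lf 581386 0 0) (P.cons (P.lf 250700 0 0) (P.lf 0 27854 0)))) (P.cons (P.cons (P.lf 0 251276668 0) (P.cons (P.lf 2039677 0 0) (P.cons (P.lf 879530 0 0) (P.lf 0 97722 0)))) (P.cons (P.cons (P.lf 0 162319796 0) (P.cons (P.lf 2478348 0 0) (P.cons (P.lf 1068691 0 0) (P.lf 0 118741 0)))) (P.cons (P.cons (P.lf 0 14066972 0) (P.cons (P.lf 1134006 0 0) (P.cons (P.lf 488995 0 0) P.nil))) (P.cons (P.cons (P.lf 2772218 0 0) (P.cons (P.lf 97708 0 0) P.nil)) (P.cons (P.cons (P.lf 802365 0 0) P.nil) P.nil)))))) 412612)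
 (EL.cons 7 (TM.mk (P.cons (P.cons (P.lf 166213557 0 0) (P.cons (P.lf 41840 0 0) (P.cons (P.lf 18041 0 0) (P.lf 0 2004 0)))) (P.cons (P.cons (P.lf 180085042 0 0) (P.cons (P.lf 196671 0 0) (P.cons (P.lf 84806 0 0) (P.lf 0 9422 0)))) (P.cons (P.cons (P.lf 0 17390540 0) (P.cons (P.lf 357355 0 0) (P.cons (P.lf 154095 0 0) (P.lf 0 17121 0)))) (P.cons (P.cons (P.lf 0 14399760 0) (P.cons (P.lf 308825 0 0) (P.cons (P.lf 133168 0 0) P.nil))) (P.cons (P.cons (P.lf 0 2044343 0) (P.cons (P.lf 123421 0 0) P.nil)) (P.cons (P.cons (P.lf 50936 0 0) P.nil) P.nil)))))) 193578)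
 EL.nil))
noncomputable def S24_82_216_364_11 : EL := (EL.cons 3 (TM.mk (P.cons (P.cons (P.lf 0 1491905281 0) (P.cons (P.lf 0 751099 0) (P.cons (P.lf 0 323977 0) (P.cons (P.lf 35903 0 0) (P.cons (P.lf 0 7 0) (P.cons (P.lf 2 0 0) P.nil)))))) (P.cons (P.cons (P.lf 299089713 0 0) (P.cons (P.lf 0 2566221 0) (P.cons (P.lf 0 1107246 0) (P.cons (P.lf 122376 0 0) (P.cons (P.lf 0 59 0) P.nil))))) (P.cons (P.cons (P.lf 180552791 0 0) (P.cons (P.lf 0 2914621 0) (P.cons (P.lf 0 1258799 0) (P.cons (P.lf 137935 0 0) P.nil)))) (P.cons (P.cons (P.lf 0 80242 0) (P.cons (P.lf 0 1006320 0) (P.cons (P.lf 0 437173 0) P.nil))) (P.cons (P.cons (P.lf 0 10630625 0) (P.cons (P.lf 220412 0 0) P.nil)) (P.cons (P.cons (P.lf 0 1858989 0) P.nil) P.nil)))))) 1350052)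
 (EL.cons 7 (TM.mk (P.cons (P.cons (P.lf 0 107366577 0) (P.cons (P.lf 0 54053 0) (P.cons (P.lf 0 23315 0) (P.cons (P.lf 2583 0 0) (P.cons (P.lf 0 0 0) (P.cons (P.lf 0 0 0) P.nil)))))) (P.cons (P.cons (P.lf 0 106483697 0) (P.cons (P.lf 0 249126 0) (P.cons (P.lf 0 107482 0) (P.cons (P.lf 11887 0 0) (P.cons (P.lf 0 5 0) P.nil))))) (P.cons (P.cons (P.lf 28417077 0 0) (P.cons (P.lf 0 435094 0) (P.cons (P.lf 0 187818 0) (P.cons (P.lf 20673 0 0) P.nil)))) (P.cons (P.cons (P.lf 16075911 0 0) (P.cons (P.lf 0 340848 0) (P.cons (P.lf 0 147385 0) P.nil))) (P.cons (P.cons (P.lf 551490 0 0) (P.cons (P.lf 0 93106 0) P.nil)) (P.cons (P.cons (P.lf 0 857400 0) P.nil) P.nil)))))) 471381)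
 EL.nil))
noncomputable def S24_82_216_364_12 : EL := (EL.cons 4 (TM.mk (P.cons (P.lf 3575492913 0 0) (P.cons (P.lf 0 61202868 0) (P.cons (P.lf 0 39808623 0) (P.cons (P.lf 0 4455836 0) (P.cons (P.lf 0 202736 0) (P.cons (P.lf 14527 0 0) P.nil)))))) 20620)
 (EL.cons 8 (TM.mk (P.cons (P.lf 257314215 0 0) (P.cons (P.lf 302378847 0 0) (P.cons (P.lf 16422572 0 0) (P.cons (P.lf 0 650818 0) (P.cons (P.lf 0 229331 0) (P.cons (P.lf 0 22990 0) P.nil)))))) 9250)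
 EL.nil))
noncomputable def S24_82_216_364_13 : EL := (EL.cons 4 (TM.mk (P.cons (P.cons (P.lf 0 2309609655 0) (P.cons (P.lf 0 581386 0) (P.cons (P.lf 0 250700 0) (P.lf 27854 0 0)))) (P.cons (P.cons (P.lf 251276668 0 0) (P.cons (P.lf 0 2039677 0) (P.cons (P.lf 0 879530 0) (P.lf 97722 0 0)))) (P.cons (P.cons (P.lf 162319796 0 0) (P.cons (P.lf 0 2478348 0) (P.cons (P.lf 0 1068691 0) (P.lf 118741 0 0)))) (P.cons (P.cons (P.lf 14066972 0 0) (P.cons (P.lf 0 1134006 0) (P.cons (P.lf 0 488995 0) P.nil))) (P.cons (P.cons (P.lf 0 2772218 0) (P.cons (P.lf 0 97708 0) P.nil)) (P.cons (P.cons (P.lf 0 802365 0) P.nil) P.nil)))))) 412612)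
 (EL.cons 8 (TM.mk (P.cons (P.cons (P.lf 0 166213557 0) (P.cons (P.lf 0 41840 0) (P.cons (P.lf 0 18041 0) (P.lf 2004 0 0)))) (P.cons (P.cons (P.lf 0 180085042 0) (P.cons (P.lf 0 196671 0) (P.cons (P.lf 0 84806 0) (P.lf 9422 0 0)))) (P.cons (P.cons (P.lf 17390540 0 0) (P.cons (P.lf 0 357355 0) (P.cons (P.lf 0 154095 0) (P.lf 17121 0 0)))) (P.cons (P.cons (P.lf 14399760 0 0) (P.cons (P.lf 0 308825 0) (P.cons (P.lf 0 133168 0) P.nil))) (P.cons (P.cons (P.lf 2044343 0 0) (P.cons (P.lf 0 123421 0) P.nil)) (P.cons (P.cons (P.lf 0 50936 0) P.nil) P.nil)))))) 193578)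
 EL.nil))
noncomputable def S24_82_216_364_14 : EL := (EL.cons 4 (TM.mk (P.cons (P.cons (P.lf 1491905281 0 0) (P.cons (P.lf 751099 0 0) (P.cons (P.lf 323977 0 0) (P.cons (P.lf 0 35903 0) (P.cons (P.lf 7 0 0) (P.cons (P.lf 0 2 0) P.nil)))))) (P.cons (P.cons (P.lf 0 299089713 0) (P.cons (P.lf 2566221 0 0) (P.cons (P.lf 1107246 0 0) (P.cons (P.lf 0 122376 0) (P.cons (P.lf 59 0 0) P.nil))))) (P.cons (P.cons (P.lf 0 180552791 0) (P.cons (P.lf 2914621 0 0) (P.cons (P.lf 1258799 0 0) (P.cons (P.lf 0 137935 0) P.nil)))) (P.cons (P.cons (P.lf 80242 0 0) (P.cons (P.lf 1006320 0 0) (P.cons (P.lf 437173 0 0) P.nil))) (P.cons (P.cons (P.lf 10630625 0 0) (P.cons (P.lf 0 220412 0) P.nil)) (P.cons (P.cons (P.lf 1858989 0 0) P.nil) P.nil)))))) 1350052)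
 (EL.cons 8 (TM.mk (P.cons (P.cons (P.lf 107366577 0 0) (P.cons (P.lf 54053 0 0) (P.cons (P.lf 23315 0 0) (P.cons (P.lf 0 2583 0) (P.cons (P.lf 0 0 0) (P.cons (P.lf 0 0 0) P.nil)))))) (P.cons (P.cons (P.lf 106483697 0 0) (P.cons (P.lf 249126 0 0) (P.cons (P.lf 107482 0 0) (P.cons (P.lf 0 11887 0) (P.cons (P.lf 5 0 0) P.nil))))) (P.cons (P.cons (P.lf 0 28417077 0) (P.cons (P.lf 435094 0 0) (P.cons (P.lf 187818 0 0) (P.cons (P.lf 0 20673 0) P.nil)))) (P.cons (P.cons (P.lf 0 16075911 0) (P.cons (P.lf 340848 0 0) (P.cons (P.lf 147385 0 0) P.nil))) (P.cons (P.cons (P.lf 0 551490 0) (P.cons (P.lf 93106 0 0) P.nil)) (P.cons (P.cons (P.lf 857400 0 0) P.nil) P.nil)))))) 471381)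
 EL.nil))
noncomputable def S24_82_216_364_15 : EL := (EL.cons 4 (TM.mk (P.cons (P.lf 0 3174977892 0) (P.cons (P.lf 108694246 0 0) (P.cons (P.lf 69768506 0 0) (P.cons (P.lf 6703241 0 0) (P.cons (P.lf 0 168974 0) (P.cons (P.lf 0 120069 0) P.nil)))))) 47865)
 (EL.cons 8 (TM.mk (P.cons (P.lf 0 228490718 0) (P.cons (P.lf 0 264596208 0) (P.cons (P.lf 0 7442884 0) (P.cons (P.lf 4101777 0 0) (P.cons (P.lf 703686 0 0) (P.cons (P.lf 42964 0 0) P.nil)))))) 17287)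
 EL.nil))
noncomputable def S24_82_216_364_16 : EL := (EL.cons 4 (TM.mk (P.cons (P.cons (P.lf 2050894736 0 0) (P.cons (P.lf 516261 0 0) (P.cons (P.lf 222617 0 0) (P.lf 0 24734 0)))) (P.cons (P.cons (P.lf 0 258235305 0) (P.cons (P.lf 1802362 0 0) (P.cons (P.lf 777197 0 0) (P.lf 0 86352 0)))) (P.cons (P.cons (P.lf 0 163152021 0) (P.cons (P.lf 2163981 0 0) (P.cons (P.lf 933133 0 0) (P.lf 0 103680 0)))) (P.cons (P.cons (P.lf 0 10095583 0) (P.cons (P.lf 948498 0 0) (P.cons (P.lf 409003 0 0) P.nil))) (P.cons (P.cons (P.lf 4442065 0 0) (P.cons (P.lf 42737 0 0) P.nil)) (P.cons (P.cons (P.lf 1010034 0 0) P.nil) P.nil)))))) 486104)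
 (EL.cons 8 (TM.mk (P.cons (P.cons (P.lf 147594858 0 0) (P.cons (P.lf 37153 0 0) (P.cons (P.lf 16020 0 0) (P.lf 0 1780 0)))) (P.cons (P.cons (P.lf 157386075 0 0) (P.cons (P.lf 174005 0 0) (P.cons (P.lf 75032 0 0) (P.lf 0 8336 0)))) (P.cons (P.cons (P.lf 0 19823066 0) (P.cons (P.lf 313922 0 0) (P.cons (P.lf 135366 0 0) (P.lf 0 15040 0)))) (P.cons (P.cons (P.lf 0 14486772 0) (P.cons (P.lf 266808 0 0) (P.cons (P.lf 115050 0 0) P.nil))) (P.cons (P.cons (P.lf 0 1632189 0) (P.cons (P.lf 101149 0 0) P.nil)) (P.cons (P.cons (P.lf 229446 0 0) P.nil) P.nil)))))) 222678)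
 EL.nil))
noncomputable def S24_82_216_364_17 : EL := (EL.cons 4 (TM.mk (P.cons (P.cons (P.lf 0 1324786932 0) (P.cons (P.lf 0 666963 0) (P.cons (P.lf 0 287686 0) (P.cons (P.lf 31881 0 0) (P.cons (P.lf 0 6 0) (P.cons (P.lf 2 0 0) P.nil)))))) (P.cons (P.cons (P.lf 288263469 0 0) (P.cons (P.lf 0 2267344 0) (P.cons (P.lf 0 978291 0) (P.cons (P.lf 108121 0 0) (P.cons (P.lf 0 52 0) P.nil))))) (P.cons (P.cons (P.lf 170531564 0 0) (P.cons (P.lf 0 2541703 0) (P.cons (P.lf 0 1097759 0) (P.cons (P.lf 120269 0 0) P.nil)))) (P.cons (P.cons (P.lf 0 4121640 0) (P.cons (P.lf 0 823091 0) (P.cons (P.lf 0 357763 0) P.nil))) (P.cons (P.cons (P.lf 0 11479507 0) (P.cons (P.lf 242712 0 0) P.nil)) (P.cons (P.cons (P.lf 0 1708619 0) P.nil) P.nil)))))) 1439833)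
 (EL.cons 8 (TM.mk (P.cons (P.cons (P.lf 0 95339724 0) (P.cons (P.lf 0 47998 0) (P.cons (P.lf 0 20703 0) (P.cons (P.lf 2294 0 0) (P.cons (P.lf 0 0 0) (P.cons (P.lf 0 0 0) P.nil)))))) (P.cons (P.cons (P.lf 0 92923781 0) (P.cons (P.lf 0 220398 0) (P.cons (P.lf 0 95087 0) (P.cons (P.lf 10516 0 0) (P.cons (P.lf 0 4 0) P.nil))))) (P.cons (P.cons (P.lf 27913918 0 0) (P.cons (P.lf 0 382035 0) (P.cons (P.lf 0 164914 0) (P.cons (P.lf 18151 0 0) P.nil)))) (P.cons (P.cons (P.lf 15014777 0 0) (P.cons (P.lf 0 293531 0) (P.cons (P.lf 0 126932 0) P.nil))) (P.cons (P.cons (P.lf 87656 0 0) (P.cons (P.lf 0 72915 0) P.nil)) (P.cons (P.cons (P.lf 0 955148 0) P.nil) P.nil)))))) 478995)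
 EL.nil))
noncomputable def S24_82_216_364_18 : EL := (EL.cons 4 (TM.mk (P.cons (P.lf 2819327253 0 0) (P.cons (P.lf 0 144778008 0) (P.cons (P.lf 0 91690793 0) (P.cons (P.lf 0 7330768 0) (P.cons (P.lf 902129 0 0) (P.cons (P.lf 264457 0 0) P.nil)))))) 77925)
 (EL.cons 8 (TM.mk (P.cons (P.lf 202895935 0 0) (P.cons (P.lf 231483970 0 0) (P.cons (P.lf 328330 0 0) (P.cons (P.lf 0 6624244 0) (P.cons (P.lf 0 940411 0) (P.cons (P.lf 0 7637 0) P.nil)))))) 31341)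
 EL.nil))
noncomputable def S24_82_216_364_19 : EL := (EL.cons 4 (TM.mk (P.cons (P.cons (P.lf 0 1821160215 0) (P.cons (P.lf 0 458431 0) (P.cons (P.lf 0 197681 0) (P.lf 21963 0 0)))) (P.cons (P.cons (P.lf 260482019 0 0) (P.cons (P.lf 0 1592620 0) (P.cons (P.lf 0 686754 0) (P.lf 76304 0 0)))) (P.cons (P.cons (P.lf 161227447 0 0) (P.cons (P.lf 0 1889079 0) (P.cons (P.lf 0 814591 0) (P.lf 90509 0 0)))) (P.cons (P.cons (P.lf 6201310 0 0) (P.cons (P.lf 0 790968 0) (P.cons (P.lf 0 341073 0) P.nil))) (P.cons (P.cons (P.lf 0 5893452 0) (P.cons (P.lf 0 118 0) P.nil)) (P.cons (P.cons (P.lf 0 1130133 0) P.nil) P.nil)))))) 578772)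
 (EL.cons 8 (TM.mk (P.cons (P.cons (P.lf 0 131061764 0) (P.cons (P.lf 0 32991 0) (P.cons (P.lf 0 14226 0) (P.lf 1580 0 0)))) (P.cons (P.cons (P.lf 0 137512775 0) (P.cons (P.lf 0 153948 0) (P.cons (P.lf 0 66384 0) (P.lf 7375 0 0)))) (P.cons (P.cons (P.lf 21454011 0 0) (P.cons (P.lf 0 275745 0) (P.cons (P.lf 0 118904 0) (P.lf 13211 0 0)))) (P.cons (P.cons (P.lf 14282043 0 0) (P.cons (P.lf 0 230388 0) (P.cons (P.lf 0 99346 0) P.nil))) (P.cons (P.cons (P.lf 1214774 0 0) (P.cons (P.lf 0 82465 0) P.nil)) (P.cons (P.cons (P.lf 0 386322 0) P.nil) P.nil)))))) 242047)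
 EL.nil))
noncomputable def S24_82_216_364_20 : EL := (EL.cons 4 (TM.mk (P.cons (P.cons (P.lf 1176388633 0 0) (P.cons (P.lf 592252 0 0) (P.cons (P.lf 255460 0 0) (P.cons (P.lf 0 28310 0) (P.cons (P.lf 6 0 0) (P.cons (P.lf 0 1 0) P.nil)))))) (P.cons (P.cons (P.lf 0 276109762 0) (P.cons (P.lf 2003226 0 0) (P.cons (P.lf 864333 0 0) (P.cons (P.lf 0 95525 0) (P.cons (P.lf 46 0 0) P.nil))))) (P.cons (P.cons (P.lf 0 160145211 0) (P.cons (P.lf 2215932 0 0) (P.cons (P.lf 957077 0 0) (P.cons (P.lf 0 104838 0) P.nil)))) (P.cons (P.cons (P.lf 7635915 0 0) (P.cons (P.lf 669103 0 0) (P.cons (P.lf 291012 0 0) P.nil))) (P.cons (P.cons (P.lf 12069230 0 0) (P.cons (P.lf 0 255705 0) P.nil)) (P.cons (P.cons (P.lf 1509995 0 0) P.nil) P.nil)))))) 1537117)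
 (EL.cons 8 (TM.mk (P.cons (P.cons (P.lf 84660080 0 0) (P.cons (P.lf 42622 0 0) (P.cons (P.lf 18384 0 0) (P.cons (P.lf 0 2037 0) (P.cons (P.lf 0 0 0) (P.cons (P.lf 0 0 0) P.nil)))))) (P.cons (P.cons (P.lf 81065609 0 0) (P.cons (P.lf 194980 0 0) (P.cons (P.lf 84121 0 0) (P.cons (P.lf 0 9303 0) (P.cons (P.lf 3 0 0) P.nil))))) (P.cons (P.cons (P.lf 0 27142108 0) (P.cons (P.lf 335416 0 0) (P.cons (P.lf 144791 0 0) (P.cons (P.lf 0 15935 0) P.nil)))) (P.cons (P.cons (P.lf 0 13932785 0) (P.cons (P.lf 252612 0 0) (P.cons (P.lf 109244 0 0) P.nil))) (P.cons (P.cons (P.lf 318726 0 0) (P.cons (P.lf 56263 0 0) P.nil)) (P.cons (P.cons (P.lf 1024488 0 0) P.nil) P.nil)))))) 475752)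
 EL.nil))
noncomputable def S24_82_216_364_21 : EL := (EL.cons 4 (TM.mk (P.cons (P.cons (P.lf 0 180185610 0) (P.cons (P.lf 1744158 0 0) (P.cons (P.lf 752100 0 0) (P.lf 0 83562 0)))) (P.cons (P.cons (P.lf 0 427747260 0) (P.cons (P.lf 6119031 0 0) (P.cons (P.lf 2638590 0 0) (P.lf 0 293166 0)))) (P.cons (P.cons (P.lf 0 277653867 0) (P.cons (P.lf 7435044 0 0) (P.cons (P.lf 3206073 0 0) (P.lf 0 356223 0)))) (P.cons (P.cons (P.lf 0 22091187 0) (P.cons (P.lf 3402018 0 0) (P.cons (P.lf 1466985 0 0) P.nil))) (P.cons (P.cons (P.lf 7809735 0 0) (P.cons (P.lf 293124 0 0) P.nil)) (P.cons (P.cons (P.lf 2046888 0 0) P.nil) P.nil)))))) 1363179)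
 (EL.cons 8 (TM.mk (P.cons (P.cons (P.lf 890224809 0 0) (P.cons (P.lf 0 8617224 0) (P.cons (P.lf 0 3715845 0) (P.lf 412872 0 0)))) (P.cons (P.cons (P.lf 1051955541 0 0) (P.cons (P.lf 0 19957794 0) (P.cons (P.lf 0 8606028 0) (P.lf 956226 0 0)))) (P.cons (P.cons (P.lf 32684280 0 0) (P.cons (P.lf 0 12117129 0) (P.cons (P.lf 0 5225043 0) (P.lf 580560 0 0)))) (P.cons (P.cons (P.lf 0 42271776 0) (P.cons (P.lf 0 340722 0) (P.cons (P.lf 0 146925 0) P.nil))) (P.cons (P.cons (P.lf 0 7367028 0) (P.cons (P.lf 402204 0 0) P.nil)) (P.cons (P.cons (P.lf 0 38454 0) P.nil) P.nil)))))) 747822)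
 (EL.cons 11 (TM.mk (P.cons (P.cons (P.lf 18268047 0 0) (P.cons (P.lf 17018376 0 0) (P.cons (P.lf 0 1746639 0) (P.cons (P.lf 0 363252 0) (P.lf 30270 0 0))))) (P.cons (P.cons (P.lf 42934836 0 0) (P.cons (P.lf 39997773 0 0) (P.cons (P.lf 0 4105071 0) (P.cons (P.lf 0 853740 0) (P.lf 71145 0 0))))) (P.cons (P.cons (P.lf 27558951 0 0) (P.cons (P.lf 25673712 0 0) (P.cons (P.lf 0 2634957 0) (P.cons (P.lf 0 547995 0) P.nil)))) (P.cons (P.cons (P.lf 2647818 0 0) (P.cons (P.lf 2466687 0 0) (P.cons (P.lf 0 253161 0) P.nil))) (P.cons (P.cons (P.lf 0 66741 0) (P.cons (P.lf 0 62175 0) P.nil)) (P.cons (P.cons (P.lf 0 47424 0) P.nil) P.nil)))))) 179412)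
 EL.nil)))
noncomputable def S24_82_216_364_22 : EL := (EL.cons 4 (TM.mk (P.cons (P.cons (P.lf 116391903 0 0) (P.cons (P.lf 0 1097349 0) (P.cons (P.lf 0 473472 0) (P.cons (P.lf 52329 0 0) (P.cons (P.lf 0 24 0) (P.cons (P.lf 9 0 0) P.nil)))))) (P.cons (P.cons (P.lf 265635060 0 0) (P.cons (P.lf 0 3676488 0) (P.cons (P.lf 0 1587333 0) (P.cons (P.lf 174420 0 0) (P.cons (P.lf 0 177 0) P.nil))))) (P.cons (P.cons (P.lf 146953857 0 0) (P.cons (P.lf 0 3954588 0) (P.cons (P.lf 0 1711209 0) (P.cons (P.lf 184341 0 0) P.nil)))) (P.cons (P.cons (P.lf 0 19752588 0) (P.cons (P.lf 0 984750 0) (P.cons (P.lf 0 434346 0) P.nil))) (P.cons (P.cons (P.lf 0 19109649 0) (P.cons (P.lf 688842 0 0) P.nil)) (P.cons (P.cons (P.lf 0 2845827 0) P.nil) P.nil)))))) 2937948)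
 (EL.cons 8 (TM.mk (P.cons (P.cons (P.lf 0 575045697 0) (P.cons (P.lf 5421588 0 0) (P.cons (P.lf 2339250 0 0) (P.cons (P.lf 0 258552 0) (P.cons (P.lf 126 0 0) (P.cons (P.lf 0 57 0) P.nil)))))) (P.cons (P.cons (P.lf 0 626797044 0) (P.cons (P.lf 11700165 0 0) (P.cons (P.lf 5053428 0 0) (P.cons (P.lf 0 553524 0) (P.cons (P.lf 735 0 0) P.nil))))) (P.cons (P.cons (P.lf 76099020 0 0) (P.cons (P.lf 5071503 0 0) (P.cons (P.lf 2206374 0 0) (P.cons (P.lf 0 226185 0) P.nil)))) (P.cons (P.cons (P.lf 74468982 0 0) (P.cons (P.lf 0 2370858 0) (P.cons (P.lf 0 998376 0) P.nil))) (P.cons (P.cons (P.lf 8028516 0 0) (P.cons (P.lf 0 1230219 0) P.nil)) (P.cons (P.cons (P.lf 0 2270574 0) P.nil) P.nil)))))) 2350848)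
 (EL.cons 11 (TM.mk (P.cons (P.cons (P.lf 0 11800347 0) (P.cons (P.lf 0 10996083 0) (P.cons (P.lf 1124202 0 0) (P.cons (P.lf 233877 0 0) (P.cons (P.lf 0 19236 0) (P.cons (P.lf 6 0 0) P.nil)))))) (P.cons (P.cons (P.lf 0 26652153 0) (P.cons (P.lf 0 24846402 0) (P.cons (P.lf 2524470 0 0) (P.cons (P.lf 525459 0 0) (P.cons (P.lf 0 42318 0) P.nil))))) (P.cons (P.cons (P.lf 0 14542770 0) (P.cons (P.lf 0 13589904 0) (P.cons (P.lf 1333263 0 0) (P.cons (P.lf 278337 0 0) P.nil)))) (P.cons (P.cons (P.lf 1687044 0 0) (P.cons (P.lf 1519017 0 0) (P.cons (P.lf 0 233016 0) P.nil))) (P.cons (P.cons (P.lf 1468143 0 0) (P.cons (P.lf 1331601 0 0) P.nil)) (P.cons (P.cons (P.lf 241509 0 0) P.nil) P.nil)))))) 859623)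
 EL.nil)))
noncomputable def S24_82_216_364_23 : EL := (EL.cons 4 (TM.mk (P.cons (P.cons (P.lf 160001805 0 0) (P.cons (P.lf 0 1548783 0) (P.cons (P.lf 0 667851 0) (P.lf 74199 0 0)))) (P.cons (P.cons (P.lf 377093607 0 0) (P.cons (P.lf 0 5407086 0) (P.cons (P.lf 0 2331591 0) (P.lf 259056 0 0)))) (P.cons (P.cons (P.lf 238268853 0 0) (P.cons (P.lf 0 6491940 0) (P.cons (P.lf 0 2799396 0) (P.lf 311037 0 0)))) (P.cons (P.cons (P.lf 10967940 0 0) (P.cons (P.lf 0 2845494 0) (P.cons (P.lf 0 1227006 0) P.nil))) (P.cons (P.cons (P.lf 0 10498170 0) (P.cons (P.lf 0 128211 0) P.nil)) (P.cons (P.cons (P.lf 0 2245443 0) P.nil) P.nil)))))) 1577277)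
 (EL.cons 8 (TM.mk (P.cons (P.cons (P.lf 0 790504737 0) (P.cons (P.lf 7651950 0 0) (P.cons (P.lf 3299607 0 0) (P.lf 0 366621 0)))) (P.cons (P.cons (P.lf 0 920587596 0) (P.cons (P.lf 17591205 0 0) (P.cons (P.lf 7585527 0 0) (P.lf 0 842835 0)))) (P.cons (P.cons (P.lf 0 4232199 0) (P.cons (P.lf 10371255 0 0) (P.cons (P.lf 4472202 0 0) (P.lf 0 496911 0)))) (P.cons (P.cons (P.lf 49418808 0 0) (P.cons (P.lf 0 88473 0) (P.cons (P.lf 0 38148 0) P.nil))) (P.cons (P.cons (P.lf 7431342 0 0) (P.cons (P.lf 0 504645 0) P.nil)) (P.cons (P.cons (P.lf 0 409830 0) P.nil) P.nil)))))) 958971)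
 (EL.cons 11 (TM.mk (P.cons (P.cons (P.lf 0 16221720 0) (P.cons (P.lf 0 15112032 0) (P.cons (P.lf 1550985 0 0) (P.cons (P.lf 322560 0 0) (P.lf 0 26877 0))))) (P.cons (P.cons (P.lf 0 37847742 0) (P.cons (P.lf 0 35258673 0) (P.cons (P.lf 3618684 0 0) (P.cons (P.lf 752583 0 0) (P.lf 0 62715 0))))) (P.cons (P.cons (P.lf 0 23638671 0) (P.cons (P.lf 0 22021611 0) (P.cons (P.lf 2260131 0 0) (P.cons (P.lf 470040 0 0) P.nil)))) (P.cons (P.cons (P.lf 0 1487628 0) (P.cons (P.lf 0 1385865 0) (P.cons (P.lf 142233 0 0) P.nil))) (P.cons (P.cons (P.lf 420405 0 0) (P.cons (P.lf 391647 0 0) P.nil)) (P.cons (P.cons (P.lf 99867 0 0) P.nil) P.nil)))))) 299691)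
 EL.nil)))
noncomputable def S24_82_216_364_24 : EL := (EL.cons 4 (TM.mk (P.cons (P.cons (P.lf 0 103354062 0) (P.cons (P.lf 974427 0 0) (P.cons (P.lf 420435 0 0) (P.cons (P.lf 0 46467 0) (P.cons (P.lf 21 0 0) (P.cons (P.lf 0 9 0) P.nil)))))) (P.cons (P.cons (P.lf 0 234110346 0) (P.cons (P.lf 3247980 0 0) (P.cons (P.lf 1402329 0 0) (P.cons (P.lf 0 154086 0) (P.cons (P.lf 159 0 0) P.nil))))) (P.cons (P.cons (P.lf 0 125304225 0) (P.cons (P.lf 3444876 0 0) (P.cons (P.lf 1490715 0 0) (P.cons (P.lf 0 160524 0) P.nil)))) (P.cons (P.cons (P.lf 22528674 0 0) (P.cons (P.lf 776772 0 0) (P.cons (P.lf 343464 0 0) P.nil))) (P.cons (P.cons (P.lf 18421497 0 0) (P.cons (P.lf 0 669870 0) P.nil)) (P.cons (P.cons (P.lf 2216871 0 0) P.nil) P.nil)))))) 2991087)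
 (EL.cons 8 (TM.mk (P.cons (P.cons (P.lf 510630957 0 0) (P.cons (P.lf 0 4814280 0) (P.cons (P.lf 0 2077215 0) (P.cons (P.lf 229590 0 0) (P.cons (P.lf 0 111 0) (P.cons (P.lf 51 0 0) P.nil)))))) (P.cons (P.cons (P.lf 547844655 0 0) (P.cons (P.lf 0 10307142 0) (P.cons (P.lf 0 4451802 0) (P.cons (P.lf 487590 0 0) (P.cons (P.lf 0 651 0) P.nil))))) (P.cons (P.cons (P.lf 0 82787142 0) (P.cons (P.lf 0 4271970 0) (P.cons (P.lf 0 1859283 0) (P.cons (P.lf 189879 0 0) P.nil)))) (P.cons (P.cons (P.lf 0 71803746 0) (P.cons (P.lf 2304042 0 0) (P.cons (P.lf 972627 0 0) P.nil))) (P.cons (P.cons (P.lf 0 5967489 0) (P.cons (P.lf 1119738 0 0) P.nil)) (P.cons (P.cons (P.lf 2929233 0 0) P.nil) P.nil)))))) 2370825)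
 (EL.cons 11 (TM.mk (P.cons (P.cons (P.lf 10478508 0 0) (P.cons (P.lf 9764340 0 0) (P.cons (P.lf 0 998271 0) (P.cons (P.lf 0 207678 0) (P.cons (P.lf 17082 0 0) (P.cons (P.lf 0 6 0) P.nil)))))) (P.cons (P.cons (P.lf 23487303 0 0) (P.cons (P.lf 21896049 0 0) (P.cons (P.lf 0 2224599 0) (P.cons (P.lf 0 463044 0) (P.cons (P.lf 37284 0 0) P.nil))))) (P.cons (P.cons (P.lf 12391962 0 0) (P.cons (P.lf 11581230 0 0) (P.cons (P.lf 0 1134429 0) (P.cons (P.lf 0 236859 0) P.nil)))) (P.cons (P.cons (P.lf 0 1995672 0) (P.cons (P.lf 0 1813239 0) (P.cons (P.lf 253380 0 0) P.nil))) (P.cons (P.cons (P.lf 0 1451910 0) (P.cons (P.lf 0 1321758 0) P.nil)) (P.cons (P.cons (P.lf 0 192855 0) P.nil) P.nil)))))) 864216)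
 EL.nil)))
noncomputable def S24_82_216_364_25 : EL := (EL.cons 4 (TM.mk (P.cons (P.cons (P.lf 0 142078926 0) (P.cons (P.lf 1375293 0 0) (P.cons (P.lf 593040 0 0) (P.lf 0 65889 0)))) (P.cons (P.cons (P.lf 0 332420802 0) (P.cons (P.lf 4777860 0 0) (P.cons (P.lf 2060262 0 0) (P.lf 0 228909 0)))) (P.cons (P.cons (P.lf 0 204265101 0) (P.cons (P.lf 5667234 0 0) (P.cons (P.lf 2443773 0 0) (P.lf 0 271524 0)))) (P.cons (P.cons (P.lf 0 2212458 0) (P.cons (P.lf 2372904 0 0) (P.cons (P.lf 1023219 0 0) P.nil))) (P.cons (P.cons (P.lf 12269928 0 0) (P.cons (P.lf 354 0 0) P.nil)) (P.cons (P.cons (P.lf 2224863 0 0) P.nil) P.nil)))))) 1710408)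
 (EL.cons 8 (TM.mk (P.cons (P.cons (P.lf 701954982 0 0) (P.cons (P.lf 0 6794802 0) (P.cons (P.lf 0 2929995 0) (P.lf 325554 0 0)))) (P.cons (P.cons (P.lf 805450794 0 0) (P.cons (P.lf 0 15504387 0) (P.cons (P.lf 0 6685668 0) (P.lf 742851 0 0)))) (P.cons (P.cons (P.lf 0 18050100 0) (P.cons (P.lf 0 8866464 0) (P.cons (P.lf 0 3823320 0) (P.lf 424812 0 0)))) (P.cons (P.cons (P.lf 0 53923653 0) (P.cons (P.lf 418590 0 0) (P.cons (P.lf 180498 0 0) P.nil))) (P.cons (P.cons (P.lf 0 6948129 0) (P.cons (P.lf 569160 0 0) P.nil)) (P.cons (P.cons (P.lf 917277 0 0) P.nil) P.nil)))))) 1113327)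
 (EL.cons 11 (TM.mk (P.cons (P.cons (P.lf 14404614 0 0) (P.cons (P.lf 13419231 0 0) (P.cons (P.lf 0 1377249 0) (P.cons (P.lf 0 286428 0) (P.lf 23868 0 0))))) (P.cons (P.cons (P.lf 33361593 0 0) (P.cons (P.lf 31079412 0 0) (P.cons (P.lf 0 3189756 0) (P.cons (P.lf 0 663378 0) (P.lf 55281 0 0))))) (P.cons (P.cons (P.lf 20255085 0 0) (P.cons (P.lf 18869487 0 0) (P.cons (P.lf 0 1936620 0) (P.cons (P.lf 0 402759 0) P.nil)))) (P.cons (P.cons (P.lf 569547 0 0) (P.cons (P.lf 530586 0 0) (P.cons (P.lf 0 54453 0) P.nil))) (P.cons (P.cons (P.lf 0 672330 0) (P.cons (P.lf 0 626337 0) P.nil)) (P.cons (P.cons (P.lf 0 125004 0) P.nil) P.nil)))))) 376332)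
 EL.nil)))
noncomputable def S24_82_216_364_26 : EL := (EL.cons 4 (TM.mk (P.cons (P.cons (P.lf 91776678 0 0) (P.cons (P.lf 0 865275 0) (P.cons (P.lf 0 373338 0) (P.cons (P.lf 41262 0 0) (P.cons (P.lf 0 18 0) (P.cons (P.lf 9 0 0) P.nil)))))) (P.cons (P.cons (P.lf 206315097 0 0) (P.cons (P.lf 0 2869341 0) (P.cons (P.lf 0 1238853 0) (P.cons (P.lf 136119 0 0) (P.cons (P.lf 0 141 0) P.nil))))) (P.cons (P.cons (P.lf 106687785 0 0) (P.cons (P.lf 0 2999991 0) (P.cons (P.lf 0 1298259 0) (P.cons (P.lf 139740 0 0) P.nil)))) (P.cons (P.cons (P.lf 0 24338622 0) (P.cons (P.lf 0 604209 0) (P.cons (P.lf 0 268002 0) P.nil))) (P.cons (P.cons (P.lf 0 17518653 0) (P.cons (P.lf 644340 0 0) P.nil)) (P.cons (P.cons (P.lf 0 1615887 0) P.nil) P.nil)))))) 2998761)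
 (EL.cons 8 (TM.mk (P.cons (P.cons (P.lf 0 453431748 0) (P.cons (P.lf 4275000 0 0) (P.cons (P.lf 1844532 0 0) (P.cons (P.lf 0 203871 0) (P.cons (P.lf 99 0 0) (P.cons (P.lf 0 45 0) P.nil)))))) (P.cons (P.cons (P.lf 0 478715349 0) (P.cons (P.lf 9079392 0 0) (P.cons (P.lf 3921552 0 0) (P.cons (P.lf 0 429483 0) (P.cons (P.lf 576 0 0) P.nil))))) (P.cons (P.cons (P.lf 86889171 0 0) (P.cons (P.lf 3589173 0 0) (P.cons (P.lf 1562808 0 0) (P.cons (P.lf 0 158928 0) P.nil)))) (P.cons (P.cons (P.lf 68483553 0 0) (P.cons (P.lf 0 2218113 0) (P.cons (P.lf 0 938250 0) P.nil))) (P.cons (P.cons (P.lf 4021104 0 0) (P.cons (P.lf 0 1013169 0) P.nil)) (P.cons (P.cons (P.lf 0 3467580 0) P.nil) P.nil)))))) 2342130)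
 (EL.cons 11 (TM.mk (P.cons (P.cons (P.lf 0 9304740 0) (P.cons (P.lf 0 8670570 0) (P.cons (P.lf 886449 0 0) (P.cons (P.lf 184413 0 0) (P.cons (P.lf 0 15168 0) (P.cons (P.lf 3 0 0) P.nil)))))) (P.cons (P.cons (P.lf 0 20697060 0) (P.cons (P.lf 0 19294908 0) (P.cons (P.lf 1960233 0 0) (P.cons (P.lf 408018 0 0) (P.cons (P.lf 0 32847 0) P.nil))))) (P.cons (P.cons (P.lf 0 10543254 0) (P.cons (P.lf 0 9854586 0) (P.cons (P.lf 963669 0 0) (P.cons (P.lf 201237 0 0) P.nil)))) (P.cons (P.cons (P.lf 2204286 0 0) (P.cons (P.lf 2013441 0 0) (P.cons (P.lf 0 265338 0) P.nil))) (P.cons (P.cons (P.lf 1407969 0 0) (P.cons (P.lf 1285359 0 0) P.nil)) (P.cons (P.cons (P.lf 144309 0 0) P.nil) P.nil)))))) 854217)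
 EL.nil)))
noncomputable def S24_82_216_364_27 : EL := (EL.cons 13 (TM.mk (P.lf 0 4294967296 0) 0)
 EL.nil)
noncomputable def S24_82_216_364_28 : EL := (EL.cons 13 (TM.mk (P.cons (P.cons (P.lf 2774358160 0 0) (P.cons (P.lf 698376 0 0) (P.cons (P.lf 301148 0 0) (P.lf 0 33460 0)))) (P.cons (P.cons (P.lf 0 254349936 0) (P.cons (P.lf 2462064 0 0) (P.cons (P.lf 1061668 0 0) (P.lf 0 117960 0)))) (P.cons (P.cons (P.lf 0 168447204 0) (P.cons (P.lf 3026972 0 0) (P.cons (P.lf 1305264 0 0) (P.lf 0 145028 0)))) (P.cons (P.cons (P.lf 0 19155367 0) (P.cons (P.lf 1442292 0 0) (P.cons (P.lf 621932 0 0) P.nil))) (P.cons (P.cons (P.lf 967054 0 0) (P.cons (P.lf 178868 0 0) P.nil)) (P.cons (P.cons (P.lf 531487 0 0) P.nil) P.nil)))))) 333899)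
 EL.nil)
noncomputable def S24_82_216_364_29 : EL := (EL.cons 13 (TM.mk (P.cons (P.cons (P.lf 0 1792112179 0) (P.cons (P.lf 0 902239 0) (P.cons (P.lf 0 389170 0) (P.cons (P.lf 43129 0 0) (P.cons (P.lf 0 10 0) (P.cons (P.lf 4 0 0) P.nil)))))) (P.cons (P.cons (P.lf 328597529 0 0) (P.cons (P.lf 0 3098051 0) (P.cons (P.lf 0 1336713 0) (P.cons (P.lf 147740 0 0) (P.cons (P.lf 0 72 0) P.nil))))) (P.cons (P.cons (P.lf 202556108 0 0) (P.cons (P.lf 0 3564189 0) (P.cons (P.lf 0 1539314 0) (P.cons (P.lf 168701 0 0) P.nil)))) (P.cons (P.cons (P.lf 4795991 0 0) (P.cons (P.lf 0 1305443 0) (P.cons (P.lf 0 566860 0) P.nil))) (P.cons (P.cons (P.lf 0 10124571 0) (P.cons (P.lf 198825 0 0) P.nil)) (P.cons (P.cons (P.lf 0 2074629 0) P.nil) P.nil)))))) 1291205)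
 EL.nil)
noncomputable def S24_82_216_364_30 : EL := (EL.cons 13 (TM.mk (P.cons (P.lf 3813859108 0 0) (P.cons (P.lf 0 65283060 0) (P.cons (P.lf 0 42462532 0) (P.cons (P.lf 0 4752892 0) (P.cons (P.lf 0 216252 0) (P.cons (P.lf 15496 0 0) P.nil)))))) 21988)
 EL.nil)
noncomputable def S24_82_216_364_31 : EL := (EL.cons 13 (TM.mk (P.cons (P.cons (P.lf 0 2463583633 0) (P.cons (P.lf 0 620146 0) (P.cons (P.lf 0 267414 0) (P.lf 29711 0 0)))) (P.cons (P.cons (P.lf 268028446 0 0) (P.cons (P.lf 0 2175656 0) (P.cons (P.lf 0 938166 0) (P.lf 104237 0 0)))) (P.cons (P.cons (P.lf 173141116 0 0) (P.cons (P.lf 0 2643572 0) (P.cons (P.lf 0 1139938 0) (P.lf 126658 0 0)))) (P.cons (P.cons (P.lf 15004771 0 0) (P.cons (P.lf 0 1209607 0) (P.cons (P.lf 0 521595 0) P.nil))) (P.cons (P.cons (P.lf 0 2957033 0) (P.cons (P.lf 0 104222 0) P.nil)) (P.cons (P.cons (P.lf 0 855856 0) P.nil)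 P.nil)))))) 440100)
 EL.nil)
noncomputable def S24_82_216_364_32 : EL := (EL.cons 13 (TM.mk (P.cons (P.cons (P.lf 1591365634 0 0) (P.cons (P.lf 801173 0 0) (P.cons (P.lf 345576 0 0) (P.cons (P.lf 0 38297 0) (P.cons (P.lf 8 0 0) (P.cons (P.lf 0 3 0) P.nil)))))) (P.cons (P.cons (P.lf 0 319029028 0) (P.cons (P.lf 2737303 0 0) (P.cons (P.lf 1181063 0 0) (P.cons (P.lf 0 130535 0) (P.cons (P.lf 63 0 0) P.nil))))) (P.cons (P.cons (P.lf 0 192589644 0) (P.cons (P.lf 3108930 0 0) (P.cons (P.lf 1342719 0 0) (P.cons (P.lf 0 147131 0) P.nil)))) (P.cons (P.cons (P.lf 85592 0 0) (P.cons (P.lf 1073408 0 0) (P.cons (P.lf 466318 0 0) P.nil))) (P.cons (P.cons (P.lf 11339334 0 0) (P.cons (P.lf 0 235107 0) P.nil)) (P.cons (P.cons (P.lf 1982922 0 0) P.nil) P.nil)))))) 1440032)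
 EL.nil)
noncomputable def S24_82_216_364_33 : EL := (EL.cons 14 (TM.mk (P.lf 8589934592 0 0) 0)
 EL.nil)
noncomputable def S24_82_216_364_34 : EL := (EL.cons 14 (TM.mk (P.cons (P.cons (P.lf 0 5548716320 0) (P.cons (P.lf 0 1396752 0) (P.cons (P.lf 0 602296 0) (P.lf 66920 0 0)))) (P.cons (P.cons (P.lf 508699872 0 0) (P.cons (P.lf 0 4924128 0) (P.cons (P.lf 0 2123336 0) (P.lf 235920 0 0)))) (P.cons (P.cons (P.lf 336894408 0 0) (P.cons (P.lf 0 6053944 0) (P.cons (P.lf 0 2610528 0) (P.lf 290056 0 0)))) (P.cons (P.cons (P.lf 38310734 0 0) (P.cons (P.lf 0 2884584 0) (P.cons (P.lf 0 1243864 0) P.nil))) (P.cons (P.cons (P.lf 0 1934108 0) (P.cons (P.lf 0 357736 0) P.nil)) (P.cons (P.cons (P.lf 0 1062974 0) P.nil) P.nil)))))) 667798)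
 EL.nil)
noncomputable def S24_82_216_364_35 : EL := (EL.cons 14 (TM.mk (P.cons (P.cons (P.lf 3584224358 0 0) (P.cons (P.lf 1804478 0 0) (P.cons (P.lf 778340 0 0) (P.cons (P.lf 0 86258 0) (P.cons (P.lf 20 0 0) (P.cons (P.lf 0 8 0) P.nil)))))) (P.cons (P.cons (P.lf 0 657195058 0) (P.cons (P.lf 6196102 0 0) (P.cons (P.lf 2673426 0 0) (P.cons (P.lf 0 295480 0) (P.cons (P.lf 144 0 0) P.nil))))) (P.cons (P.cons (P.lf 0 405112216 0) (P.cons (P.lf 7128378 0 0) (P.cons (P.lf 3078628 0 0) (P.cons (P.lf 0 337402 0) P.nil)))) (P.cons (P.cons (P.lf 0 9591982 0) (P.cons (P.lf 2610886 0 0) (P.cons (P.lf 1133720 0 0) P.nil))) (P.cons (P.cons (P.lf 20249142 0 0) (P.cons (P.lf 0 397650 0) P.nil)) (P.cons (P.cons (P.lf 4149258 0 0) P.nil) P.nil)))))) 2582410)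
 EL.nil)
noncomputable def S24_82_216_364_36 : EL := (EL.cons 14 (TM.mk (P.cons (P.lf 0 7627718216 0) (P.cons (P.lf 130566120 0 0) (P.cons (P.lf 84925064 0 0) (P.cons (P.lf 9505784 0 0) (P.cons (P.lf 432504 0 0) (P.cons (P.lf 0 30992 0) P.nil)))))) 43976)
 EL.nil)
noncomputable def S24_82_216_364_37 : EL := (EL.cons 14 (TM.mk (P.cons (P.cons (P.lf 4927167266 0 0) (P.cons (P.lf 1240292 0 0) (P.cons (P.lf 534828 0 0) (P.lf 0 59422 0)))) (P.cons (P.cons (P.lf 0 536056892 0) (P.cons (P.lf 4351312 0 0) (P.cons (P.lf 1876332 0 0) (P.lf 0 208474 0)))) (P.cons (P.cons (P.lf 0 346282232 0) (P.cons (P.lf 5287144 0 0) (P.cons (P.lf 2279876 0 0) (P.lf 0 253316 0)))) (P.cons (P.cons (P.lf 0 30009542 0) (P.cons (P.lf 2419214 0 0) (P.cons (P.lf 1043190 0 0) P.nil))) (P.cons (P.cons (P.lf 5914066 0 0) (P.cons (P.lf 208444 0 0) P.nil)) (P.cons (P.cons (P.lf 1711712 0 0)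 P.nil) P.nil)))))) 880200)
 EL.nil)
noncomputable def S24_82_216_364_38 : EL := (EL.cons 14 (TM.mk (P.cons (P.cons (P.lf 0 3182731268 0) (P.cons (P.lf 0 1602346 0) (P.cons (P.lf 0 691152 0) (P.cons (P.lf 76594 0 0) (P.cons (P.lf 0 16 0) (P.cons (P.lf 6 0 0) P.nil)))))) (P.cons (P.cons (P.lf 638058056 0 0) (P.cons (P.lf 0 5474606 0) (P.cons (P.lf 0 2362126 0) (P.cons (P.lf 261070 0 0) (P.cons (P.lf 0 126 0) P.nil))))) (P.cons (P.cons (P.lf 385179288 0 0) (P.cons (P.lf 0 6217860 0) (P.cons (P.lf 0 2685438 0) (P.cons (P.lf 294262 0 0) P.nil)))) (P.cons (P.cons (P.lf 0 171184 0) (P.cons (P.lf 0 2146816 0) (P.cons (P.lf 0 932636 0) P.nil))) (P.cons (P.cons (P.lf 0 22678668 0) (P.cons (P.lf 470214 0 0) P.nil)) (P.cons (P.cons (P.lf 0 3965844 0) P.nil) P.nil)))))) 2880064)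
 EL.nil)
noncomputable def S24_82_216_364_39 : EL := (EL.cons 14 (TM.mk (P.cons (P.lf 6773286170 0 0) (P.cons (P.lf 0 231881060 0) (P.cons (P.lf 0 148839480 0) (P.cons (P.lf 0 14300248 0) (P.cons (P.lf 360478 0 0) (P.cons (P.lf 256148 0 0) P.nil)))))) 102098)
 EL.nil)
noncomputable def S24_82_216_364_40 : EL := (EL.cons 14 (TM.mk (P.cons (P.cons (P.lf 0 4375242104 0) (P.cons (P.lf 0 1101358 0) (P.cons (P.lf 0 474918 0) (P.lf 52766 0 0)))) (P.cons (P.cons (P.lf 550901986 0 0) (P.cons (P.lf 0 3845040 0) (P.cons (P.lf 0 1658022 0) (P.lf 184218 0 0)))) (P.cons (P.cons (P.lf 348057646 0 0) (P.cons (P.lf 0 4616494 0) (P.cons (P.lf 0 1990684 0) (P.lf 221184 0 0)))) (P.cons (P.cons (P.lf 21537244 0 0) (P.cons (P.lf 0 2023464 0) (P.cons (P.lf 0 872540 0) P.nil))) (P.cons (P.cons (P.lf 0 9476406 0) (P.cons (P.lf 0 91174 0) P.nil)) (P.cons (P.cons (P.lf 0 2154740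 0) P.nil) P.nil)))))) 1036982)
 EL.nil)
noncomputable def S24_82_216_364_41 : EL := (EL.cons 14 (TM.mk (P.cons (P.cons (P.lf 2826212122 0 0) (P.cons (P.lf 1422856 0 0) (P.cons (P.lf 613732 0 0) (P.cons (P.lf 0 68014 0) (P.cons (P.lf 14 0 0) (P.cons (P.lf 0 6 0) P.nil)))))) (P.cons (P.cons (P.lf 0 614962068 0) (P.cons (P.lf 4837002 0 0) (P.cons (P.lf 2087022 0 0) (P.cons (P.lf 0 230660 0) (P.cons (P.lf 112 0 0) P.nil))))) (P.cons (P.cons (P.lf 0 363800670 0) (P.cons (P.lf 5422300 0 0) (P.cons (P.lf 2341886 0 0) (P.cons (P.lf 0 256574 0) P.nil)))) (P.cons (P.cons (P.lf 8792834 0 0) (P.cons (P.lf 1755928 0 0) (P.cons (P.lf 763228 0 0) P.nil))) (P.cons (P.cons (P.lf 24489616 0 0) (P.cons (P.lf 0 517786 0) P.nil)) (P.cons (P.cons (P.lf 3645054 0 0) P.nil) P.nil)))))) 3071598)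
 EL.nil)
noncomputable def S24_82_216_364_42 : EL := (EL.cons 14 (TM.mk (P.cons (P.lf 0 6014564808 0) (P.cons (P.lf 308859752 0 0) (P.cons (P.lf 195607026 0 0) (P.cons (P.lf 15638972 0 0) (P.cons (P.lf 0 1924542 0) (P.cons (P.lf 0 564176 0) P.nil)))))) 166226)
 EL.nil)
noncomputable def S24_82_216_364_43 : EL := (EL.cons 14 (TM.mk (P.cons (P.cons (P.lf 3885141794 0 0) (P.cons (P.lf 977988 0 0) (P.cons (P.lf 421720 0 0) (P.lf 0 46856 0)))) (P.cons (P.cons (P.lf 0 555694974 0) (P.cons (P.lf 3397590 0 0) (P.cons (P.lf 1465076 0 0) (P.lf 0 162782 0)))) (P.cons (P.cons (P.lf 0 343951888 0) (P.cons (P.lf 4030036 0 0) (P.cons (P.lf 1737796 0 0) (P.lf 0 193086 0)))) (P.cons (P.cons (P.lf 0 13229462 0) (P.cons (P.lf 1687400 0 0) (P.cons (P.lf 727624 0 0) P.nil))) (P.cons (P.cons (P.lf 12572698 0 0) (P.cons (P.lf 252 0 0) P.nil)) (P.cons (P.cons (P.lf 2410952 0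 0) P.nil) P.nil)))))) 1234674)
 EL.nil)
noncomputable def S24_82_216_364_44 : EL := (EL.cons 14 (TM.mk (P.cons (P.cons (P.lf 0 2509629084 0) (P.cons (P.lf 0 1263472 0) (P.cons (P.lf 0 544982 0) (P.cons (P.lf 60396 0 0) (P.cons (P.lf 0 14 0) (P.cons (P.lf 4 0 0) P.nil)))))) (P.cons (P.cons (P.lf 589034160 0 0) (P.cons (P.lf 0 4273550 0) (P.cons (P.lf 0 1843912 0) (P.cons (P.lf 203788 0 0) (P.cons (P.lf 0 100 0) P.nil))))) (P.cons (P.cons (P.lf 341643118 0 0) (P.cons (P.lf 0 4727322 0) (P.cons (P.lf 0 2041766 0) (P.cons (P.lf 223656 0 0) P.nil)))) (P.cons (P.cons (P.lf 0 16289954 0) (P.cons (P.lf 0 1427420 0) (P.cons (P.lf 0 620826 0) P.nil))) (P.cons (P.cons (P.lf 0 25747692 0) (P.cons (P.lf 545506 0 0) P.nil)) (P.cons (P.cons (P.lf 0 3221324 0) P.nil) P.nil)))))) 3279136)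
 EL.nil)
noncomputable def S24_82_216_364_45 : EL := (EL.cons 14 (TM.mk (P.cons (P.cons (P.lf 0 2315249780 0) (P.cons (P.lf 0 1748418 0) (P.cons (P.lf 0 754378 0) (P.cons (P.lf 83388 0 0) (P.cons (P.lf 0 38 0) (P.cons (P.lf 16 0 0) P.nil)))))) (P.cons (P.cons (P.lf 636778238 0 0) (P.cons (P.lf 0 5843316 0) (P.cons (P.lf 0 2522762 0) (P.cons (P.lf 277316 0 0) (P.cons (P.lf 0 276 0) P.nil))))) (P.cons (P.cons (P.lf 363337208 0 0) (P.cons (P.lf 0 6250362 0) (P.cons (P.lf 0 2704200 0) (P.cons (P.lf 291726 0 0) P.nil)))) (P.cons (P.cons (P.lf 0 27584426 0) (P.cons (P.lf 0 1519970 0) (P.cons (P.lf 0 669652 0) P.nil))) (P.cons (P.cons (P.lf 0 33274540 0) (P.cons (P.lf 1077424 0 0) P.nil)) (P.cons (P.cons (P.lf 0 3959610 0) P.nil) P.nil)))))) 5031306)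
 EL.nil)
noncomputable def S24_82_216_364_46 : EL := (EL.cons 15 (TM.mk (P.lf 4294967296 0 0) 0)
 EL.nil)
noncomputable def S24_82_216_364_47 : EL := (EL.cons 15 (TM.mk (P.cons (P.cons (P.lf 0 2774358160 0) (P.cons (P.lf 0 698376 0) (P.cons (P.lf 0 301148 0) (P.lf 33460 0 0)))) (P.cons (P.cons (P.lf 254349936 0 0) (P.cons (P.lf 0 2462064 0) (P.cons (P.lf 0 1061668 0) (P.lf 117960 0 0)))) (P.cons (P.cons (P.lf 168447204 0 0) (P.cons (P.lf 0 3026972 0) (P.cons (P.lf 0 1305264 0) (P.lf 145028 0 0)))) (P.cons (P.cons (P.lf 19155367 0 0) (P.cons (P.lf 0 1442292 0) (P.cons (P.lf 0 621932 0) P.nil))) (P.cons (P.cons (P.lf 0 967054 0) (P.cons (P.lf 0 178868 0) P.nil)) (P.cons (P.cons (P.lf 0 531487 0) P.nil) P.nil)))))) 333899)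
 EL.nil)
noncomputable def S24_82_216_364_48 : EL := (EL.cons 15 (TM.mk (P.cons (P.cons (P.lf 1792112179 0 0) (P.cons (P.lf 902239 0 0) (P.cons (P.lf 389170 0 0) (P.cons (P.lf 0 43129 0) (P.cons (P.lf 10 0 0) (P.cons (P.lf 0 4 0) P.nil)))))) (P.cons (P.cons (P.lf 0 328597529 0) (P.cons (P.lf 3098051 0 0) (P.cons (P.lf 1336713 0 0) (P.cons (P.lf 0 147740 0) (P.cons (P.lf 72 0 0) P.nil))))) (P.cons (P.cons (P.lf 0 202556108 0) (P.cons (P.lf 3564189 0 0) (P.cons (P.lf 1539314 0 0) (P.cons (P.lf 0 168701 0) P.nil)))) (P.cons (P.cons (P.lf 0 4795991 0) (P.cons (P.lf 1305443 0 0) (P.cons (P.lf 566860 0 0) P.nil))) (P.cons (P.cons (P.lf 10124571 0 0) (P.cons (P.lf 0 198825 0) P.nil)) (P.cons (P.cons (P.lf 2074629 0 0) P.nil) P.nil)))))) 1291205)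
 EL.nil)
noncomputable def S24_82_216_364 : SL := (SL.cons S24_82_216_364_0 (SL.cons S24_82_216_364_1 (SL.cons S24_82_216_364_2 (SL.cons S24_82_216_364_3 (SL.cons S24_82_216_364_4 (SL.cons S24_82_216_364_5 (SL.cons S24_82_216_364_6 (SL.cons S24_82_216_364_7 (SL.cons S24_82_216_364_8 (SL.cons S24_82_216_364_9 (SL.cons S24_82_216_364_10 (SL.cons S24_82_216_364_11 (SL.cons S24_82_216_364_12 (SL.cons S24_82_216_364_13 (SL.cons S24_82_216_364_14 (SL.cons S24_82_216_364_15 (SL.cons S24_82_216_364_16 (SL.cons S24_82_216_364_17 (SL.cons S24_82_216_364_18 (SL.cons S24_82_216_364_19 (SL.cons S24_82_216_364_20 (SL.cons S24_82_216_364_21 (SL.cons S24_82_216_364_22 (SL.cons S24_82_216_364_23 (SL.cons S24_82_216_364_24 (SL.cons S24_82_216_364_25 (SL.cons S24_82_216_364_26 (SL.cons S24_82_216_364_27 (SL.cons S24_82_216_364_28 (SL.cons S24_82_216_364_29 (SL.cons S24_82_216_364_30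 (SL.cons S24_82_216_364_31 (SL.cons S24_82_216_364_32 (SL.cons S24_82_216_364_33 (SL.cons S24_82_216_364_34 (SL.cons S24_82_216_364_35 (SL.cons S24_82_216_364_36 (SL.cons S24_82_216_364_37 (SL.cons S24_82_216_364_38 (SL.cons S24_82_216_364_39 (SL.cons S24_82_216_364_40 (SL.cons S24_82_216_364_41 (SL.cons S24_82_216_364_42 (SL.cons S24_82_216_364_43 (SL.cons S24_82_216_364_44 (SL.cons S24_82_216_364_45 (SL.cons S24_82_216_364_46 (SL.cons S24_82_216_364_47 (SL.cons S24_82_216_364_48 SL.nil)))))))))))))))))))))))))))))))))))))))))))))))))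
noncomputable def S24_82_364_512_0 : EL := (EL.cons 0 (TM.mk (P.cons (P.lf 2502633316 0 0) (P.cons (P.lf 203801712 0 0) (P.cons (P.lf 130815949 0 0) (P.cons (P.lf 12568577 0 0) (P.cons (P.lf 0 316826 0) (P.cons (P.lf 0 225130 0) P.nil)))))) 89741)
 (EL.cons 1 (TM.mk (P.cons (P.lf 0 428420096 0) (P.cons (P.lf 0 496117890 0) (P.cons (P.lf 0 13955407 0) (P.cons (P.lf 7690831 0 0) (P.cons (P.lf 1319411 0 0) (P.cons (P.lf 80557 0 0) P.nil)))))) 32420)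
 (EL.cons 5 (TM.mk (P.cons (P.lf 6411619230 0 0) (P.cons (P.lf 0 72462834 0) (P.cons (P.lf 0 46512338 0) (P.cons (P.lf 0 4468832 0) (P.cons (P.lf 112646 0 0) (P.cons (P.lf 80044 0 0) P.nil)))))) 15705)
 (EL.cons 9 (TM.mk (P.lf 6442450944 0 0) 2)
 EL.nil))))
noncomputable def S24_82_364_512_1 : EL := (EL.cons 0 (TM.mk (P.cons (P.cons (P.lf 0 1908249388 0) (P.cons (P.lf 5368374 0 0) (P.cons (P.lf 358901 0 0) (P.lf 0 119625 0)))) (P.cons (P.cons (P.lf 0 661517273 0) (P.cons (P.lf 18640728 0 0) (P.cons (P.lf 1246264 0 0) (P.lf 0 415406 0)))) (P.cons (P.cons (P.lf 0 386714280 0) (P.cons (P.lf 22080549 0 0) (P.cons (P.lf 1476244 0 0) (P.lf 0 492070 0)))) (P.cons (P.cons (P.lf 12500620 0 0) (P.cons (P.lf 9189175 0 0) (P.cons (P.lf 614347 0 0) P.nil))) (P.cons (P.cons (P.lf 26003438 0 0) (P.cons (P.lf 0 67968 0) P.nil)) (P.cons (P.cons (P.lf 4211198 0 0) P.nil)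 P.nil)))))) 4155530)
 (EL.cons 1 (TM.mk (P.cons (P.cons (P.lf 983654199 0 0) (P.cons (P.lf 0 15048306 0) (P.cons (P.lf 0 1006096 0) (P.lf 335365 0 0)))) (P.cons (P.cons (P.lf 1067455105 0 0) (P.cons (P.lf 0 33702009 0) (P.cons (P.lf 0 2253244 0) (P.lf 751082 0 0)))) (P.cons (P.cons (P.lf 0 108211581 0) (P.cons (P.lf 0 17739971 0) (P.cons (P.lf 0 1186055 0) (P.lf 395354 0 0)))) (P.cons (P.cons (P.lf 0 91515938 0) (P.cons (P.lf 2867126 0 0) (P.cons (P.lf 191684 0 0) P.nil))) (P.cons (P.cons (P.lf 0 8936579 0) (P.cons (P.lf 2036475 0 0) P.nil)) (P.cons (P.cons (P.lf 1870705 0 0) P.nil) P.nil)))))) 1706205)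
 (EL.cons 5 (TM.mk (P.cons (P.cons (P.lf 0 4041887438 0) (P.cons (P.lf 0 4461202 0) (P.cons (P.lf 0 298260 0) (P.lf 99420 0 0)))) (P.cons (P.cons (P.lf 653614976 0 0) (P.cons (P.lf 0 15626228 0) (P.cons (P.lf 0 1044730 0) (P.lf 348240 0 0)))) (P.cons (P.cons (P.lf 406663550 0 0) (P.cons (P.lf 0 18913922 0) (P.cons (P.lf 0 1264538 0) (P.lf 421510 0 0)))) (P.cons (P.cons (P.lf 19926328 0 0) (P.cons (P.lf 0 8538600 0) (P.cons (P.lf 0 570862 0) P.nil))) (P.cons (P.cons (P.lf 0 11905741 0) (P.cons (P.lf 0 629572 0) P.nil)) (P.cons (P.cons (P.lf 0 2386416 0) P.nil) P.nil)))))) 1133579)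
 (EL.cons 9 (TM.mk (P.cons (P.cons (P.lf 0 4165037736 0) (P.cons (P.lf 0 2252160 0) (P.cons (P.lf 0 150570 0) (P.lf 50190 0 0)))) (P.cons (P.cons (P.lf 369184248 0 0) (P.cons (P.lf 0 7939770 0) (P.cons (P.lf 0 530832 0) (P.lf 176940 0 0)))) (P.cons (P.cons (P.lf 237498642 0 0) (P.cons (P.lf 0 9761520 0) (P.cons (P.lf 0 652632 0) (P.lf 217542 0 0)))) (P.cons (P.cons (P.lf 21503800 0 0) (P.cons (P.lf 0 4651176 0) (P.cons (P.lf 0 310962 0) P.nil))) (P.cons (P.cons (P.lf 0 2347131 0) (P.cons (P.lf 0 576822 0) P.nil)) (P.cons (P.cons (P.lf 0 784492 0) P.nil) P.nil)))))) 419261)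
 (EL.cons 2 (TM.mk (P.cons (P.cons (P.lf 35710717 0 0) (P.cons (P.lf 5528913 0 0) (P.cons (P.lf 0 2663654 0) (P.cons (P.lf 0 100797 0) (P.lf 25197 0 0))))) (P.cons (P.cons (P.lf 83318535 0 0) (P.cons (P.lf 12899798 0 0) (P.cons (P.lf 0 6214713 0) (P.cons (P.lf 0 235181 0) (P.lf 58795 0 0))))) (P.cons (P.cons (P.lf 52038492 0 0) (P.cons (P.lf 8056864 0 0) (P.cons (P.lf 0 3881542 0) (P.cons (P.lf 0 146885 0) P.nil)))) (P.cons (P.cons (P.lf 3274891 0 0) (P.cons (P.lf 507034 0 0) (P.cons (P.lf 0 244271 0) P.nil))) (P.cons (P.cons (P.lf 0 925492 0) (P.cons (P.lf 0 143288 0) P.nil)) (P.cons (P.cons (P.lf 0 219855 0) P.nil) P.nil)))))) 231591)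
 (EL.cons 6 (TM.mk (P.cons (P.cons (P.lf 2569959 0 0) (P.cons (P.lf 397893 0 0) (P.cons (P.lf 0 191691 0) (P.cons (P.lf 0 7254 0) (P.lf 1812 0 0))))) (P.cons (P.cons (P.lf 9060147 0 0) (P.cons (P.lf 1402737 0 0) (P.cons (P.lf 0 675792 0) (P.cons (P.lf 0 25572 0) (P.lf 6393 0 0))))) (P.cons (P.cons (P.lf 11138961 0 0) (P.cons (P.lf 1724589 0 0) (P.cons (P.lf 0 830853 0) (P.cons (P.lf 0 31440 0) P.nil)))) (P.cons (P.cons (P.lf 5307501 0 0) (P.cons (P.lf 821733 0 0) (P.cons (P.lf 0 395883 0) P.nil))) (P.cons (P.cons (P.lf 658218 0 0) (P.cons (P.lf 101907 0 0) P.nil)) (P.cons (P.cons (P.lf 0 9348 0) P.nil) P.nil)))))) 117744)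
 EL.nil))))))
noncomputable def S24_82_364_512_2 : EL := (EL.cons 0 (TM.mk (P.cons (P.cons (P.lf 1421359593 0 0) (P.cons (P.lf 0 6738333 0) (P.cons (P.lf 0 454548 0) (P.cons (P.lf 149611 0 0) (P.cons (P.lf 155 0 0) (P.cons (P.lf 9 0 0) P.nil)))))) (P.cons (P.cons (P.lf 736888093 0 0) (P.cons (P.lf 0 22300955 0) (P.cons (P.lf 0 1519418 0) (P.cons (P.lf 493168 0 0) (P.cons (P.lf 1138 0 0) P.nil))))) (P.cons (P.cons (P.lf 355007241 0 0) (P.cons (P.lf 0 23194996 0) (P.cons (P.lf 0 1635047 0) (P.cons (P.lf 505632 0 0) P.nil)))) (P.cons (P.cons (P.lf 0 108284635 0) (P.cons (P.lf 0 4478768 0) (P.cons (P.lf 0 435750 0) P.nil))) (P.cons (P.cons (P.lf 0 62376792 0) (P.cons (P.lf 5136532 0 0) P.nil)) (P.cons (P.cons (P.lf 0 3894034 0) P.nil) P.nil)))))) 15594965)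
 (EL.cons 1 (TM.mk (P.cons (P.cons (P.lf 0 1092799963 0) (P.cons (P.lf 18963339 0 0) (P.cons (P.lf 1278423 0 0) (P.cons (P.lf 0 421202 0) (P.cons (P.lf 0 419 0) (P.cons (P.lf 0 28 0) P.nil)))))) (P.cons (P.cons (P.lf 0 1091866705 0) (P.cons (P.lf 39570859 0 0) (P.cons (P.lf 2706709 0 0) (P.cons (P.lf 0 873711 0) (P.cons (P.lf 0 2449 0) P.nil))))) (P.cons (P.cons (P.lf 284841081 0 0) (P.cons (P.lf 13974158 0 0) (P.cons (P.lf 1076889 0 0) (P.cons (P.lf 0 292367 0) P.nil)))) (P.cons (P.cons (P.lf 164890927 0 0) (P.cons (P.lf 0 11457140 0) (P.cons (P.lf 0 597300 0) P.nil))) (P.cons (P.cons (P.lf 0 200849 0) (P.cons (P.lf 0 4678179 0) P.nil)) (P.cons (P.cons (P.lf 0 10273303 0) P.nil) P.nil)))))) 6164218)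
 (EL.cons 5 (TM.mk (P.cons (P.cons (P.lf 2546345877 0 0) (P.cons (P.lf 5696165 0 0) (P.cons (P.lf 383156 0 0) (P.cons (P.lf 0 126629 0) (P.cons (P.lf 0 91 0) (P.cons (P.lf 0 1 0) P.nil)))))) (P.cons (P.cons (P.lf 0 803006389 0) (P.cons (P.lf 19271617 0 0) (P.cons (P.lf 1304848 0 0) (P.cons (P.lf 0 427280 0) (P.cons (P.lf 0 654 0) P.nil))))) (P.cons (P.cons (P.lf 0 450277863 0) (P.cons (P.lf 21332125 0 0) (P.cons (P.lf 1475013 0 0) (P.cons (P.lf 0 468871 0) P.nil)))) (P.cons (P.cons (P.lf 37838545 0 0) (P.cons (P.lf 6459853 0 0) (P.cons (P.lf 511307 0 0) P.nil))) (P.cons (P.cons (P.lf 38333714 0 0) (P.cons (P.lf 0 2459068 0) P.nil)) (P.cons (P.cons (P.lf 4026132 0 0) P.nil) P.nil)))))) 5170969)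
 (EL.cons 9 (TM.mk (P.cons (P.cons (P.lf 2692692499 0 0) (P.cons (P.lf 2912037 0 0) (P.cons (P.lf 195474 0 0) (P.cons (P.lf 0 64789 0) (P.cons (P.lf 0 31 0) (P.cons (P.lf 0 1 0) P.nil)))))) (P.cons (P.cons (P.lf 0 477354453 0) (P.cons (P.lf 10007985 0 0) (P.cons (P.lf 674658 0 0) (P.cons (P.lf 0 222288 0) (P.cons (P.lf 0 222 0) P.nil))))) (P.cons (P.cons (P.lf 0 285929161 0) (P.cons (P.lf 11545597 0 0) (P.cons (P.lf 788521 0 0) (P.cons (P.lf 0 255079 0) P.nil)))) (P.cons (P.cons (P.lf 0 584679 0) (P.cons (P.lf 4294765 0 0) (P.cons (P.lf 314443 0 0) P.nil))) (P.cons (P.cons (P.lf 14254684 0 0) (P.cons (P.lf 0 558312 0) P.nil)) (P.cons (P.cons (P.lf 2330802 0 0) P.nil) P.nil)))))) 1854829)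
 (EL.cons 2 (TM.mk (P.cons (P.cons (P.lf 0 46173881 0) (P.cons (P.lf 0 7173838 0) (P.cons (P.lf 3438562 0 0) (P.cons (P.lf 132491 0 0) (P.cons (P.lf 0 32298 0) (P.cons (P.lf 0 50 0) P.nil)))))) (P.cons (P.cons (P.lf 0 103637885 0) (P.cons (P.lf 0 16192018 0) (P.cons (P.lf 7697902 0 0) (P.cons (P.lf 305190 0 0) (P.cons (P.lf 0 71482 0) P.nil))))) (P.cons (P.cons (P.lf 0 55103608 0) (P.cons (P.lf 0 8881385 0) (P.cons (P.lf 4032585 0 0) (P.cons (P.lf 185816 0 0) P.nil)))) (P.cons (P.cons (P.lf 8111103 0 0) (P.cons (P.lf 821193 0 0) (P.cons (P.lf 0 701347 0) P.nil))) (P.cons (P.cons (P.lf 5938942 0 0) (P.cons (P.lf 627671 0 0) P.nil)) (P.cons (P.cons (P.lf 697640 0 0) P.nil) P.nil)))))) 1513934)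
 (EL.cons 6 (TM.mk (P.cons (P.cons (P.lf 0 3322950 0) (P.cons (P.lf 0 516270 0) (P.cons (P.lf 247458 0 0) (P.cons (P.lf 9534 0 0) (P.cons (P.lf 0 2322 0) (P.cons (P.lf 0 0 0) P.nil)))))) (P.cons (P.cons (P.lf 0 11420208 0) (P.cons (P.lf 0 1780800 0) (P.cons (P.lf 849018 0 0) (P.cons (P.lf 33330 0 0) (P.cons (P.lf 0 7914 0) P.nil))))) (P.cons (P.cons (P.lf 0 13174788 0) (P.cons (P.lf 0 2077692 0) (P.cons (P.lf 974298 0 0) (P.cons (P.lf 40464 0 0) P.nil)))) (P.cons (P.cons (P.lf 0 4900800 0) (P.cons (P.lf 0 821094 0) (P.cons (P.lf 351726 0 0) P.nil))) (P.cons (P.cons (P.lf 637092 0 0) (P.cons (P.lf 37794 0 0) P.nil)) (P.cons (P.cons (P.lf 545976 0 0) P.nil) P.nil)))))) 463194)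
 EL.nil))))))
noncomputable def S24_82_364_512_3 : EL := (EL.cons 0 (TM.mk (P.cons (P.lf 5953083547 0 0) (P.cons (P.lf 0 203801712 0) (P.cons (P.lf 0 130815949 0) (P.cons (P.lf 0 12568577 0) (P.cons (P.lf 316826 0 0) (P.cons (P.lf 225130 0 0) P.nil)))))) 89741)
 (EL.cons 1 (TM.mk (P.cons (P.lf 428420096 0 0) (P.cons (P.lf 496117890 0 0) (P.cons (P.lf 13955407 0 0) (P.cons (P.lf 0 7690831 0) (P.cons (P.lf 0 1319411 0) (P.cons (P.lf 0 80557 0) P.nil)))))) 32420)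
 (EL.cons 5 (TM.mk (P.cons (P.lf 30831714 0 0) (P.cons (P.lf 72462834 0 0) (P.cons (P.lf 46512338 0 0) (P.cons (P.lf 4468832 0 0) (P.cons (P.lf 0 112646 0) (P.cons (P.lf 0 80044 0) P.nil)))))) 15698)
 EL.nil)))
noncomputable def S24_82_364_512_4 : EL := (EL.cons 0 (TM.mk (P.cons (P.cons (P.lf 0 3848662230 0) (P.cons (P.lf 0 2081084 0) (P.cons (P.lf 0 139132 0) (P.lf 46376 0 0)))) (P.cons (P.cons (P.lf 472898671 0 0) (P.cons (P.lf 0 7265420 0) (P.cons (P.lf 0 485746 0) (P.lf 161910 0 0)))) (P.cons (P.cons (P.lf 292351816 0 0) (P.cons (P.lf 0 8723137 0) (P.cons (P.lf 0 583207 0) (P.lf 194400 0 0)))) (P.cons (P.cons (P.lf 12986470 0 0) (P.cons (P.lf 0 3823461 0) (P.cons (P.lf 0 255622 0) P.nil))) (P.cons (P.cons (P.lf 0 8596650 0) (P.cons (P.lf 0 172279 0) P.nil)) (P.cons (P.cons (P.lf 0 1678020 0) P.nil) P.nil)))))) 852596)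
 (EL.cons 1 (TM.mk (P.cons (P.cons (P.lf 0 276973140 0) (P.cons (P.lf 0 149767 0) (P.cons (P.lf 0 10012 0) (P.lf 3337 0 0)))) (P.cons (P.cons (P.lf 0 296189103 0) (P.cons (P.lf 0 701424 0) (P.cons (P.lf 0 46893 0) (P.lf 15630 0 0)))) (P.cons (P.cons (P.lf 35201400 0 0) (P.cons (P.lf 0 1265437 0) (P.cons (P.lf 0 84603 0) (P.lf 28200 0 0)))) (P.cons (P.cons (P.lf 25491030 0 0) (P.cons (P.lf 0 1075522 0) (P.cons (P.lf 0 71906 0) P.nil))) (P.cons (P.cons (P.lf 2426610 0 0) (P.cons (P.lf 0 407739 0) P.nil)) (P.cons (P.cons (P.lf 0 493381 0) P.nil) P.nil)))))) 370243)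
 (EL.cons 5 (TM.mk (P.cons (P.cons (P.lf 0 19932670 0) (P.cons (P.lf 0 10778 0) (P.cons (P.lf 0 720 0) (P.lf 240 0 0)))) (P.cons (P.cons (P.lf 0 45080336 0) (P.cons (P.lf 0 63328 0) (P.cons (P.lf 0 4232 0) (P.lf 1410 0 0)))) (P.cons (P.cons (P.lf 0 24781100 0) (P.cons (P.lf 0 152278 0) (P.cons (P.lf 0 10180 0) (P.lf 3392 0 0)))) (P.cons (P.cons (P.lf 2550516 0 0) (P.cons (P.lf 0 190938 0) (P.cons (P.lf 0 12764 0) P.nil))) (P.cons (P.cons (P.lf 2274208 0 0) (P.cons (P.lf 0 131018 0) P.nil)) (P.cons (P.cons (P.lf 335132 0 0) P.nil) P.nil)))))) 142368)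
 EL.nil)))
noncomputable def S24_82_364_512_5 : EL := (EL.cons 0 (TM.mk (P.cons (P.cons (P.lf 2488156068 0 0) (P.cons (P.lf 2690838 0 0) (P.cons (P.lf 180625 0 0) (P.cons (P.lf 0 59867 0) (P.cons (P.lf 0 28 0) (P.cons (P.lf 0 0 0) P.nil)))))) (P.cons (P.cons (P.lf 0 526275840 0) (P.cons (P.lf 9155659 0 0) (P.cons (P.lf 617225 0 0) (P.cons (P.lf 0 203352 0) (P.cons (P.lf 0 203 0) P.nil))))) (P.cons (P.cons (P.lf 0 303785261 0) (P.cons (P.lf 10292871 0 0) (P.cons (P.lf 703313 0 0) (P.cons (P.lf 0 227355 0) P.nil)))) (P.cons (P.cons (P.lf 12944524 0 0) (P.cons (P.lf 3394402 0 0) (P.cons (P.lf 251532 0 0) P.nil))) (P.cons (P.cons (P.lf 20059968 0 0) (P.cons (P.lf 0 905581 0) P.nil)) (P.cons (P.cons (P.lf 2343130 0 0) P.nil) P.nil)))))) 2554492)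
 (EL.cons 1 (TM.mk (P.cons (P.cons (P.lf 179062841 0 0) (P.cons (P.lf 193648 0 0) (P.cons (P.lf 12997 0 0) (P.cons (P.lf 0 4306 0) (P.cons (P.lf 0 1 0) (P.cons (P.lf 0 0 0) P.nil)))))) (P.cons (P.cons (P.lf 175614015 0 0) (P.cons (P.lf 889773 0 0) (P.cons (P.lf 59915 0 0) (P.cons (P.lf 0 19770 0) (P.cons (P.lf 0 16 0) P.nil))))) (P.cons (P.cons (P.lf 0 49941281 0) (P.cons (P.lf 1544775 0 0) (P.cons (P.lf 104812 0 0) (P.cons (P.lf 0 34220 0) P.nil)))) (P.cons (P.cons (P.lf 0 26306103 0) (P.cons (P.lf 1192901 0 0) (P.cons (P.lf 82860 0 0) P.nil))) (P.cons (P.cons (P.lf 301925 0 0) (P.cons (P.lf 306067 0 0) P.nil)) (P.cons (P.cons (P.lf 1656875 0 0) P.nil) P.nil)))))) 798323)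
 (EL.cons 5 (TM.mk (P.cons (P.cons (P.lf 12886450 0 0) (P.cons (P.lf 13936 0 0) (P.cons (P.lf 934 0 0) (P.cons (P.lf 0 308 0) (P.cons (P.lf 0 0 0) (P.cons (P.lf 0 0 0) P.nil)))))) (P.cons (P.cons (P.lf 28002148 0 0) (P.cons (P.lf 80648 0 0) (P.cons (P.lf 5426 0 0) (P.cons (P.lf 0 1792 0) (P.cons (P.lf 0 0 0) P.nil))))) (P.cons (P.cons (P.lf 12702818 0 0) (P.cons (P.lf 188844 0 0) (P.cons (P.lf 12772 0 0) (P.cons (P.lf 0 4188 0) P.nil)))) (P.cons (P.cons (P.lf 0 4797388 0) (P.cons (P.lf 224688 0 0) (P.cons (P.lf 15380 0 0) P.nil))) (P.cons (P.cons (P.lf 0 2380870 0) (P.cons (P.lf 135880 0 0) P.nil)) (P.cons (P.cons (P.lf 0 56178 0) P.nil) P.nil)))))) 291288)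
 EL.nil)))
noncomputable def S24_82_364_512_6 : EL := (EL.cons 12 (TM.mk (P.lf 8589934592 0 0) 0)
 (EL.cons 3 (TM.mk (P.cons (P.lf 0 3575492913 0) (P.cons (P.lf 61202868 0 0) (P.cons (P.lf 39808623 0 0) (P.cons (P.lf 4455836 0 0) (P.cons (P.lf 202736 0 0) (P.cons (P.lf 0 14527 0) P.nil)))))) 20620)
 (EL.cons 7 (TM.mk (P.cons (P.lf 0 257314215 0) (P.cons (P.lf 0 302378847 0) (P.cons (P.lf 0 16422572 0) (P.cons (P.lf 650818 0 0) (P.cons (P.lf 229331 0 0) (P.cons (P.lf 22990 0 0) P.nil)))))) 9250)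
 EL.nil)))
noncomputable def S24_82_364_512_7 : EL := (EL.cons 12 (TM.mk (P.cons (P.cons (P.lf 0 5553383648 0) (P.cons (P.lf 0 3002880 0) (P.cons (P.lf 0 200760 0) (P.lf 66920 0 0)))) (P.cons (P.cons (P.lf 492245664 0 0) (P.cons (P.lf 0 10586360 0) (P.cons (P.lf 0 707776 0) (P.lf 235920 0 0)))) (P.cons (P.cons (P.lf 316664856 0 0) (P.cons (P.lf 0 13015360 0) (P.cons (P.lf 0 870176 0) (P.lf 290056 0 0)))) (P.cons (P.cons (P.lf 28671734 0 0) (P.cons (P.lf 0 6201568 0) (P.cons (P.lf 0 414616 0) P.nil))) (P.cons (P.cons (P.lf 0 3129508 0) (P.cons (P.lf 0 769096 0) P.nil)) (P.cons (P.cons (P.lf 0 1045990 0) P.nil) P.nil)))))) 558990)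
 (EL.cons 3 (TM.mk (P.cons (P.cons (P.lf 2485909788 0 0) (P.cons (P.lf 0 2499848 0) (P.cons (P.lf 0 167128 0) (P.lf 55708 0 0)))) (P.cons (P.cons (P.lf 162839228 0 0) (P.cons (P.lf 0 8770186 0) (P.cons (P.lf 0 586350 0) (P.lf 195444 0 0)))) (P.cons (P.cons (P.lf 98771017 0 0) (P.cons (P.lf 0 10656394 0) (P.cons (P.lf 0 712460 0) (P.lf 237482 0 0)))) (P.cons (P.cons (P.lf 445521 0 0) (P.cons (P.lf 0 4876002 0) (P.cons (P.lf 0 325990 0) P.nil))) (P.cons (P.cons (P.lf 0 5690521 0) (P.cons (P.lf 0 420126 0) P.nil)) (P.cons (P.cons (P.lf 0 1102261 0) P.nil) P.nil)))))) 1614530)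
 (EL.cons 7 (TM.mk (P.cons (P.cons (P.lf 0 695076583 0) (P.cons (P.lf 18616095 0 0) (P.cons (P.lf 1244629 0 0) (P.lf 0 414876 0)))) (P.cons (P.cons (P.lf 0 804523425 0) (P.cons (P.lf 43330017 0 0) (P.cons (P.lf 2896946 0 0) (P.lf 0 965648 0)))) (P.cons (P.cons (P.lf 0 8390745 0) (P.cons (P.lf 26818857 0 0) (P.cons (P.lf 1793045 0 0) (P.lf 0 597681 0)))) (P.cons (P.cons (P.lf 30042506 0 0) (P.cons (P.lf 1396458 0 0) (P.cons (P.lf 93364 0 0) P.nil))) (P.cons (P.cons (P.lf 4391106 0 0) (P.cons (P.lf 0 599358 0) P.nil)) (P.cons (P.cons (P.lf 0 102486 0) P.nil) P.nil)))))) 865409)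
 (EL.cons 10 (TM.mk (P.cons (P.cons (P.lf 0 42896565 0) (P.cons (P.lf 0 6641463 0) (P.cons (P.lf 3199647 0 0) (P.cons (P.lf 121083 0 0) (P.lf 0 30270 0))))) (P.cons (P.cons (P.lf 0 100818486 0) (P.cons (P.lf 0 15609231 0) (P.cons (P.lf 7520034 0 0) (P.cons (P.lf 284580 0 0) (P.lf 0 71145 0))))) (P.cons (P.cons (P.lf 0 64713222 0) (P.cons (P.lf 0 10019232 0) (P.cons (P.lf 4826949 0 0) (P.cons (P.lf 182664 0 0) P.nil)))) (P.cons (P.cons (P.lf 0 6217542 0) (P.cons (P.lf 0 962631 0) (P.cons (P.lf 463764 0 0) P.nil))) (P.cons (P.cons (P.lf 156723 0 0) (P.cons (P.lf 24264 0 0) P.nil)) (P.cons (P.cons (P.lf 111366 0 0) P.nil) P.nil)))))) 132813)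
 EL.nil))))
noncomputable def S24_82_364_512_8 : EL := (EL.cons 12 (TM.mk (P.cons (P.cons (P.lf 3590256666 0 0) (P.cons (P.lf 3882716 0 0) (P.cons (P.lf 260632 0 0) (P.cons (P.lf 0 86386 0) (P.cons (P.lf 0 42 0) (P.cons (P.lf 0 2 0) P.nil)))))) (P.cons (P.cons (P.lf 0 636472604 0) (P.cons (P.lf 13343980 0 0) (P.cons (P.lf 899544 0 0) (P.cons (P.lf 0 296384 0) (P.cons (P.lf 0 296 0) P.nil))))) (P.cons (P.cons (P.lf 0 381238882 0) (P.cons (P.lf 15394130 0 0) (P.cons (P.lf 1051362 0 0) (P.cons (P.lf 0 340106 0) P.nil)))) (P.cons (P.cons (P.lf 0 779572 0) (P.cons (P.lf 5726354 0 0) (P.cons (P.lf 419258 0 0) P.nil))) (P.cons (P.cons (P.lf 19006246 0 0) (P.cons (P.lf 0 744416 0) P.nil)) (P.cons (P.cons (P.lf 3107736 0 0) P.nil) P.nil)))))) 2473076)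
 (EL.cons 3 (TM.mk (P.cons (P.cons (P.lf 0 1719859918 0) (P.cons (P.lf 3110393 0 0) (P.cons (P.lf 210127 0 0) (P.cons (P.lf 0 69020 0) (P.cons (P.lf 0 86 0) (P.cons (P.lf 0 6 0) P.nil)))))) (P.cons (P.cons (P.lf 0 216148100 0) (P.cons (P.lf 10338790 0 0) (P.cons (P.lf 706590 0 0) (P.cons (P.lf 0 228345 0) (P.cons (P.lf 0 616 0) P.nil))))) (P.cons (P.cons (P.lf 0 96554691 0) (P.cons (P.lf 10880180 0 0) (P.cons (P.lf 773224 0 0) (P.cons (P.lf 0 236343 0) P.nil)))) (P.cons (P.cons (P.lf 42824260 0 0) (P.cons (P.lf 2303362 0 0) (P.cons (P.lf 228813 0 0) P.nil))) (P.cons (P.cons (P.lf 23895881 0 0) (P.cons (P.lf 0 2263752 0) P.nil)) (P.cons (P.cons (P.lf 2121788 0 0) P.nil) P.nil)))))) 6895631)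
 (EL.cons 7 (TM.mk (P.cons (P.cons (P.lf 1006279829 0 0) (P.cons (P.lf 0 23468289 0) (P.cons (P.lf 0 1582021 0) (P.cons (P.lf 521275 0 0) (P.cons (P.lf 517 0 0) (P.cons (P.lf 36 0 0) P.nil)))))) (P.cons (P.cons (P.lf 1067901241 0 0) (P.cons (P.lf 0 51079890 0) (P.cons (P.lf 0 3491004 0) (P.cons (P.lf 1128207 0 0) (P.cons (P.lf 3040 0 0) P.nil))))) (P.cons (P.cons (P.lf 0 159565558 0) (P.cons (P.lf 0 23304613 0) (P.cons (P.lf 0 1739127 0) (P.cons (P.lf 495152 0 0) P.nil)))) (P.cons (P.cons (P.lf 0 118695976 0) (P.cons (P.lf 8767019 0 0) (P.cons (P.lf 362756 0 0) P.nil))) (P.cons (P.cons (P.lf 0 7952022 0) (P.cons (P.lf 4630075 0 0) P.nil)) (P.cons (P.cons (P.lf 4347181 0 0) P.nil) P.nil)))))) 4581133)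
 (EL.cons 10 (TM.mk (P.cons (P.cons (P.lf 55465164 0 0) (P.cons (P.lf 8617386 0 0) (P.cons (P.lf 0 4130484 0) (P.cons (P.lf 0 159150 0) (P.cons (P.lf 38796 0 0) (P.cons (P.lf 60 0 0) P.nil)))))) (P.cons (P.cons (P.lf 125441718 0 0) (P.cons (P.lf 19597746 0 0) (P.cons (P.lf 0 9317610 0) (P.cons (P.lf 0 369330 0) (P.cons (P.lf 86532 0 0) P.nil))))) (P.cons (P.cons (P.lf 68956530 0 0) (P.cons (P.lf 11099940 0 0) (P.cons (P.lf 0 5049516 0) (P.cons (P.lf 0 231300 0) P.nil)))) (P.cons (P.cons (P.lf 0 7097142 0) (P.cons (P.lf 0 567504 0) (P.cons (P.lf 647154 0 0) P.nil))) (P.cons (P.cons (P.lf 0 6328266 0) (P.cons (P.lf 0 615198 0) P.nil)) (P.cons (P.cons (P.lf 0 932544 0) P.nil) P.nil)))))) 1589196)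
 EL.nil))))
noncomputable def S24_82_364_512_9 : EL := (EL.cons 3 (TM.mk (P.cons (P.lf 0 3575492913 0) (P.cons (P.lf 61202868 0 0) (P.cons (P.lf 39808623 0 0) (P.cons (P.lf 4455836 0 0) (P.cons (P.lf 202736 0 0) (P.cons (P.lf 0 14527 0) P.nil)))))) 20620)
 (EL.cons 7 (TM.mk (P.cons (P.lf 0 257314215 0) (P.cons (P.lf 0 302378847 0) (P.cons (P.lf 0 16422572 0) (P.cons (P.lf 650818 0 0) (P.cons (P.lf 229331 0 0) (P.cons (P.lf 22990 0 0) P.nil)))))) 9250)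
 EL.nil))
noncomputable def S24_82_364_512_10 : EL := (EL.cons 3 (TM.mk (P.cons (P.cons (P.lf 2311552395 0 0) (P.cons (P.lf 1249924 0 0) (P.cons (P.lf 83564 0 0) (P.lf 0 27854 0)))) (P.cons (P.cons (P.lf 0 244460986 0) (P.cons (P.lf 4385093 0 0) (P.cons (P.lf 293175 0 0) (P.lf 0 97722 0)))) (P.cons (P.cons (P.lf 0 154038269 0) (P.cons (P.lf 5328197 0 0) (P.cons (P.lf 356230 0 0) (P.lf 0 118741 0)))) (P.cons (P.cons (P.lf 0 10277625 0) (P.cons (P.lf 2438001 0 0) (P.cons (P.lf 162995 0 0) P.nil))) (P.cons (P.cons (P.lf 3098720 0 0) (P.cons (P.lf 210063 0 0) P.nil)) (P.cons (P.cons (P.lf 731234 0 0) P.nil) P.nil)))))) 372292)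
 (EL.cons 7 (TM.mk (P.cons (P.cons (P.lf 166353368 0 0) (P.cons (P.lf 89952 0 0) (P.cons (P.lf 6013 0 0) (P.lf 0 2004 0)))) (P.cons (P.cons (P.lf 180742230 0 0) (P.cons (P.lf 422823 0 0) (P.cons (P.lf 28268 0 0) (P.lf 0 9422 0)))) (P.cons (P.cons (P.lf 0 16196421 0) (P.cons (P.lf 768276 0 0) (P.cons (P.lf 51365 0 0) (P.lf 0 17121 0)))) (P.cons (P.cons (P.lf 0 13367806 0) (P.cons (P.lf 663942 0 0) (P.cons (P.lf 44389 0 0) P.nil))) (P.cons (P.cons (P.lf 0 1631922 0) (P.cons (P.lf 265344 0 0) P.nil)) (P.cons (P.cons (P.lf 108951 0 0) P.nil) P.nil)))))) 174736)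
 EL.nil))
noncomputable def S24_82_364_512_11 : EL := (EL.cons 3 (TM.mk (P.cons (P.cons (P.lf 0 1494416182 0) (P.cons (P.lf 0 1616149 0) (P.cons (P.lf 0 108485 0) (P.cons (P.lf 35956 0 0) (P.cons (P.lf 16 0 0) (P.cons (P.lf 0 0 0) P.nil)))))) (P.cons (P.cons (P.lf 290507134 0 0) (P.cons (P.lf 0 5526662 0) (P.cons (P.lf 0 372570 0) (P.cons (P.lf 122751 0 0) (P.cons (P.lf 122 0 0) P.nil))))) (P.cons (P.cons (P.lf 170791305 0 0) (P.cons (P.lf 0 6294616 0) (P.cons (P.lf 0 430004 0) (P.cons (P.lf 139053 0 0) P.nil)))) (P.cons (P.cons (P.lf 0 3479078 0) (P.cons (P.lf 0 2210012 0) (P.cons (P.lf 0 162717 0) P.nil))) (P.cons (P.cons (P.lf 0 9928963 0) (P.cons (P.lf 429012 0 0) P.nil)) (P.cons (P.cons (P.lf 0 1380616 0) P.nil) P.nil)))))) 1283287)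
 (EL.cons 7 (TM.mk (P.cons (P.cons (P.lf 0 107547277 0) (P.cons (P.lf 0 116307 0) (P.cons (P.lf 0 7807 0) (P.cons (P.lf 2587 0 0) (P.cons (P.lf 1 0 0) (P.cons (P.lf 0 0 0) P.nil)))))) (P.cons (P.cons (P.lf 0 107316791 0) (P.cons (P.lf 0 536400 0) (P.cons (P.lf 0 36120 0) (P.cons (P.lf 11919 0 0) (P.cons (P.lf 10 0 0) P.nil))))) (P.cons (P.cons (P.lf 26960948 0 0) (P.cons (P.lf 0 938287 0) (P.cons (P.lf 0 63657 0) (P.cons (P.lf 20786 0 0) P.nil)))) (P.cons (P.cons (P.lf 14932394 0 0) (P.cons (P.lf 0 738649 0) (P.cons (P.lf 0 51268 0) P.nil))) (P.cons (P.cons (P.lf 234600 0 0) (P.cons (P.lf 0 207593 0) P.nil)) (P.cons (P.cons (P.lf 0 796919 0) P.nil) P.nil)))))) 410547)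
 EL.nil))
noncomputable def S24_82_364_512_12 : EL := (EL.cons 4 (TM.mk (P.cons (P.lf 3575492913 0 0) (P.cons (P.lf 0 61202868 0) (P.cons (P.lf 0 39808623 0) (P.cons (P.lf 0 4455836 0) (P.cons (P.lf 0 202736 0) (P.cons (P.lf 14527 0 0) P.nil)))))) 20620)
 (EL.cons 8 (TM.mk (P.cons (P.lf 257314215 0 0) (P.cons (P.lf 302378847 0 0) (P.cons (P.lf 16422572 0 0) (P.cons (P.lf 0 650818 0) (P.cons (P.lf 0 229331 0) (P.cons (P.lf 0 22990 0) P.nil)))))) 9250)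
 EL.nil))
noncomputable def S24_82_364_512_13 : EL := (EL.cons 4 (TM.mk (P.cons (P.cons (P.lf 0 2311552395 0) (P.cons (P.lf 0 1249924 0) (P.cons (P.lf 0 83564 0) (P.lf 27854 0 0)))) (P.cons (P.cons (P.lf 244460986 0 0) (P.cons (P.lf 0 4385093 0) (P.cons (P.lf 0 293175 0) (P.lf 97722 0 0)))) (P.cons (P.cons (P.lf 154038269 0 0) (P.cons (P.lf 0 5328197 0) (P.cons (P.lf 0 356230 0) (P.lf 118741 0 0)))) (P.cons (P.cons (P.lf 10277625 0 0) (P.cons (P.lf 0 2438001 0) (P.cons (P.lf 0 162995 0) P.nil))) (P.cons (P.cons (P.lf 0 3098720 0) (P.cons (P.lf 0 210063 0) P.nil)) (P.cons (P.cons (P.lf 0 731234 0) P.nil) P.nil)))))) 372292)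
 (EL.cons 8 (TM.mk (P.cons (P.cons (P.lf 0 166353368 0) (P.cons (P.lf 0 89952 0) (P.cons (P.lf 0 6013 0) (P.lf 2004 0 0)))) (P.cons (P.cons (P.lf 0 180742230 0) (P.cons (P.lf 0 422823 0) (P.cons (P.lf 0 28268 0) (P.lf 9422 0 0)))) (P.cons (P.cons (P.lf 16196421 0 0) (P.cons (P.lf 0 768276 0) (P.cons (P.lf 0 51365 0) (P.lf 17121 0 0)))) (P.cons (P.cons (P.lf 13367806 0 0) (P.cons (P.lf 0 663942 0) (P.cons (P.lf 0 44389 0) P.nil))) (P.cons (P.cons (P.lf 1631922 0 0) (P.cons (P.lf 0 265344 0) P.nil)) (P.cons (P.cons (P.lf 0 108951 0) P.nil) P.nil)))))) 174736)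
 EL.nil))
noncomputable def S24_82_364_512_14 : EL := (EL.cons 4 (TM.mk (P.cons (P.cons (P.lf 1494416182 0 0) (P.cons (P.lf 1616149 0 0) (P.cons (P.lf 108485 0 0) (P.cons (P.lf 0 35956 0) (P.cons (P.lf 0 16 0) (P.cons (P.lf 0 0 0) P.nil)))))) (P.cons (P.cons (P.lf 0 290507134 0) (P.cons (P.lf 5526662 0 0) (P.cons (P.lf 372570 0 0) (P.cons (P.lf 0 122751 0) (P.cons (P.lf 0 122 0) P.nil))))) (P.cons (P.cons (P.lf 0 170791305 0) (P.cons (P.lf 6294616 0 0) (P.cons (P.lf 430004 0 0) (P.cons (P.lf 0 139053 0) P.nil)))) (P.cons (P.cons (P.lf 3479078 0 0) (P.cons (P.lf 2210012 0 0) (P.cons (P.lf 162717 0 0) P.nil))) (P.cons (P.cons (P.lf 9928963 0 0) (P.cons (P.lf 0 429012 0) P.nil)) (P.cons (P.cons (P.lf 1380616 0 0) P.nil) P.nil)))))) 1283287)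
 (EL.cons 8 (TM.mk (P.cons (P.cons (P.lf 107547277 0 0) (P.cons (P.lf 116307 0 0) (P.cons (P.lf 7807 0 0) (P.cons (P.lf 0 2587 0) (P.cons (P.lf 0 1 0) (P.cons (P.lf 0 0 0) P.nil)))))) (P.cons (P.cons (P.lf 107316791 0 0) (P.cons (P.lf 536400 0 0) (P.cons (P.lf 36120 0 0) (P.cons (P.lf 0 11919 0) (P.cons (P.lf 0 10 0) P.nil))))) (P.cons (P.cons (P.lf 0 26960948 0) (P.cons (P.lf 938287 0 0) (P.cons (P.lf 63657 0 0) (P.cons (P.lf 0 20786 0) P.nil)))) (P.cons (P.cons (P.lf 0 14932394 0) (P.cons (P.lf 738649 0 0) (P.cons (P.lf 51268 0 0) P.nil))) (P.cons (P.cons (P.lf 0 234600 0) (P.cons (P.lf 207593 0 0) P.nil)) (P.cons (P.cons (P.lf 796919 0 0) P.nil) P.nil)))))) 410547)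
 EL.nil))
noncomputable def S24_82_364_512_15 : EL := (EL.cons 4 (TM.mk (P.cons (P.lf 0 3174977892 0) (P.cons (P.lf 108694246 0 0) (P.cons (P.lf 69768506 0 0) (P.cons (P.lf 6703241 0 0) (P.cons (P.lf 0 168974 0) (P.cons (P.lf 0 120069 0) P.nil)))))) 47865)
 (EL.cons 8 (TM.mk (P.cons (P.lf 0 228490718 0) (P.cons (P.lf 0 264596208 0) (P.cons (P.lf 0 7442884 0) (P.cons (P.lf 4101777 0 0) (P.cons (P.lf 703686 0 0) (P.cons (P.lf 42964 0 0) P.nil)))))) 17287)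
 EL.nil))
noncomputable def S24_82_364_512_16 : EL := (EL.cons 4 (TM.mk (P.cons (P.cons (P.lf 2052619856 0 0) (P.cons (P.lf 1109911 0 0) (P.cons (P.lf 74204 0 0) (P.lf 0 24734 0)))) (P.cons (P.cons (P.lf 0 252212625 0) (P.cons (P.lf 3874890 0 0) (P.cons (P.lf 259065 0 0) (P.lf 0 86352 0)))) (P.cons (P.cons (P.lf 0 155920968 0) (P.cons (P.lf 4652340 0 0) (P.cons (P.lf 311043 0 0) (P.lf 0 103680 0)))) (P.cons (P.cons (P.lf 0 6926117 0) (P.cons (P.lf 2039179 0 0) (P.cons (P.lf 136332 0 0) P.nil))) (P.cons (P.cons (P.lf 4584880 0 0) (P.cons (P.lf 91882 0 0) P.nil)) (P.cons (P.cons (P.lf 894944 0 0) P.nil) P.nil)))))) 454727)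
 (EL.cons 8 (TM.mk (P.cons (P.cons (P.lf 147719008 0 0) (P.cons (P.lf 79876 0 0) (P.cons (P.lf 5340 0 0) (P.lf 0 1780 0)))) (P.cons (P.cons (P.lf 157967522 0 0) (P.cons (P.lf 374093 0 0) (P.cons (P.lf 25010 0 0) (P.lf 0 8336 0)))) (P.cons (P.cons (P.lf 0 18774080 0) (P.cons (P.lf 674900 0 0) (P.cons (P.lf 45122 0 0) (P.lf 0 15040 0)))) (P.cons (P.cons (P.lf 0 13595216 0) (P.cons (P.lf 573612 0 0) (P.cons (P.lf 38350 0 0) P.nil))) (P.cons (P.cons (P.lf 0 1294192 0) (P.cons (P.lf 217461 0 0) P.nil)) (P.cons (P.cons (P.lf 263137 0 0) P.nil) P.nil)))))) 197453)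
 EL.nil))
noncomputable def S24_82_364_512_17 : EL := (EL.cons 4 (TM.mk (P.cons (P.cons (P.lf 0 1327016569 0) (P.cons (P.lf 0 1435113 0) (P.cons (P.lf 0 96333 0) (P.cons (P.lf 31929 0 0) (P.cons (P.lf 15 0 0) (P.cons (P.lf 0 0 0) P.nil)))))) (P.cons (P.cons (P.lf 280680448 0 0) (P.cons (P.lf 0 4883018 0) (P.cons (P.lf 0 329187 0) (P.cons (P.lf 108454 0 0) (P.cons (P.lf 108 0 0) P.nil))))) (P.cons (P.cons (P.lf 162018806 0 0) (P.cons (P.lf 0 5489531 0) (P.cons (P.lf 0 375100 0) (P.cons (P.lf 121256 0 0) P.nil)))) (P.cons (P.cons (P.lf 0 6903746 0) (P.cons (P.lf 0 1810348 0) (P.cons (P.lf 0 134150 0) P.nil))) (P.cons (P.cons (P.lf 0 10698649 0) (P.cons (P.lf 482976 0 0) P.nil)) (P.cons (P.cons (P.lf 0 1249669 0) P.nil) P.nil)))))) 1362406)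
 (EL.cons 8 (TM.mk (P.cons (P.cons (P.lf 0 95500182 0) (P.cons (P.lf 0 103279 0) (P.cons (P.lf 0 6932 0) (P.cons (P.lf 2297 0 0) (P.cons (P.lf 1 0 0) (P.cons (P.lf 0 0 0) P.nil)))))) (P.cons (P.cons (P.lf 0 93660808 0) (P.cons (P.lf 0 474546 0) (P.cons (P.lf 0 31955 0) (P.cons (P.lf 10544 0 0) (P.cons (P.lf 9 0 0) P.nil))))) (P.cons (P.cons (P.lf 26635350 0 0) (P.cons (P.lf 0 823880 0) (P.cons (P.lf 0 55900 0) (P.cons (P.lf 18251 0 0) P.nil)))) (P.cons (P.cons (P.lf 14029922 0 0) (P.cons (P.lf 0 636214 0) (P.cons (P.lf 0 44192 0) P.nil))) (P.cons (P.cons (P.lf 0 161027 0) (P.cons (P.lf 0 163236 0) P.nil)) (P.cons (P.cons (P.lf 0 883667 0) P.nil) P.nil)))))) 425761)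
 EL.nil))
noncomputable def S24_82_364_512_18 : EL := (EL.cons 4 (TM.mk (P.cons (P.lf 2819327253 0 0) (P.cons (P.lf 0 144778008 0) (P.cons (P.lf 0 91690793 0) (P.cons (P.lf 0 7330768 0) (P.cons (P.lf 902129 0 0) (P.cons (P.lf 264457 0 0) P.nil)))))) 77925)
 (EL.cons 8 (TM.mk (P.cons (P.lf 202895935 0 0) (P.cons (P.lf 231483970 0 0) (P.cons (P.lf 328330 0 0) (P.cons (P.lf 0 6624244 0) (P.cons (P.lf 0 940411 0) (P.cons (P.lf 0 7637 0) P.nil)))))) 31341)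
 EL.nil))
noncomputable def S24_82_364_512_19 : EL := (EL.cons 4 (TM.mk (P.cons (P.cons (P.lf 0 1822692093 0) (P.cons (P.lf 0 985583 0) (P.cons (P.lf 0 65891 0) (P.lf 21963 0 0)))) (P.cons (P.cons (P.lf 255160200 0 0) (P.cons (P.lf 0 3423967 0) (P.cons (P.lf 0 228916 0) (P.lf 76304 0 0)))) (P.cons (P.cons (P.lf 154914993 0 0) (P.cons (P.lf 0 4061328 0) (P.cons (P.lf 0 271530 0) (P.lf 90509 0 0)))) (P.cons (P.cons (P.lf 3558241 0 0) (P.cons (P.lf 0 1700504 0) (P.cons (P.lf 0 113689 0) P.nil))) (P.cons (P.cons (P.lf 0 5893851 0) (P.cons (P.lf 0 255 0) P.nil)) (P.cons (P.cons (P.lf 0 986130 0) P.nil) P.nil)))))) 553102)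
 (EL.cons 8 (TM.mk (P.cons (P.cons (P.lf 0 131172008 0) (P.cons (P.lf 0 70928 0) (P.cons (P.lf 0 4741 0) (P.lf 1580 0 0)))) (P.cons (P.cons (P.lf 0 138027204 0) (P.cons (P.lf 0 330974 0) (P.cons (P.lf 0 22127 0) (P.lf 7375 0 0)))) (P.cons (P.cons (P.lf 20532594 0 0) (P.cons (P.lf 0 592824 0) (P.cons (P.lf 0 39634 0) (P.lf 13211 0 0)))) (P.cons (P.cons (P.lf 13512187 0 0) (P.cons (P.lf 0 495312 0) (P.cons (P.lf 0 33115 0) P.nil))) (P.cons (P.cons (P.lf 939211 0 0) (P.cons (P.lf 0 177292 0) P.nil)) (P.cons (P.cons (P.lf 0 401098 0) P.nil) P.nil)))))) 212640)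
 EL.nil))
noncomputable def S24_82_364_512_20 : EL := (EL.cons 4 (TM.mk (P.cons (P.cons (P.lf 1178368514 0 0) (P.cons (P.lf 1274356 0 0) (P.cons (P.lf 85542 0 0) (P.cons (P.lf 0 28352 0) (P.cons (P.lf 0 13 0) (P.cons (P.lf 0 0 0) P.nil)))))) (P.cons (P.cons (P.lf 0 269410056 0) (P.cons (P.lf 4314225 0 0) (P.cons (P.lf 290849 0 0) (P.cons (P.lf 0 95820 0) (P.cons (P.lf 0 95 0) P.nil))))) (P.cons (P.cons (P.lf 0 152723329 0) (P.cons (P.lf 4786201 0 0) (P.cons (P.lf 327126 0 0) (P.cons (P.lf 0 105709 0) P.nil)))) (P.cons (P.cons (P.lf 9899548 0 0) (P.cons (P.lf 1474254 0 0) (P.cons (P.lf 110060 0 0) P.nil))) (P.cons (P.cons (P.lf 11240887 0 0) (P.cons (P.lf 0 516140 0) P.nil)) (P.cons (P.cons (P.lf 1077025 0 0) P.nil) P.nil)))))) 1450696)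
 (EL.cons 8 (TM.mk (P.cons (P.cons (P.lf 84802564 0 0) (P.cons (P.lf 91710 0 0) (P.cons (P.lf 6156 0 0) (P.cons (P.lf 0 2040 0) (P.cons (P.lf 0 0 0) (P.cons (P.lf 0 0 0) P.nil)))))) (P.cons (P.cons (P.lf 81717637 0 0) (P.cons (P.lf 419819 0 0) (P.cons (P.lf 28270 0 0) (P.cons (P.lf 0 9328 0) (P.cons (P.lf 0 8 0) P.nil))))) (P.cons (P.cons (P.lf 0 26019550 0) (P.cons (P.lf 723358 0 0) (P.cons (P.lf 49084 0 0) (P.cons (P.lf 0 16023 0) P.nil)))) (P.cons (P.cons (P.lf 0 13085148 0) (P.cons (P.lf 547618 0 0) (P.cons (P.lf 38068 0 0) P.nil))) (P.cons (P.cons (P.lf 511120 0 0) (P.cons (P.lf 126605 0 0) P.nil)) (P.cons (P.cons (P.lf 946046 0 0) P.nil) P.nil)))))) 428105)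
 EL.nil))
noncomputable def S24_82_364_512_21 : EL := (EL.cons 4 (TM.mk (P.cons (P.cons (P.lf 0 174357393 0) (P.cons (P.lf 3749772 0 0) (P.cons (P.lf 250692 0 0) (P.lf 0 83562 0)))) (P.cons (P.cons (P.lf 0 407300214 0) (P.cons (P.lf 13155279 0 0) (P.cons (P.lf 879525 0 0) (P.lf 0 293166 0)))) (P.cons (P.cons (P.lf 0 252809286 0) (P.cons (P.lf 15984591 0 0) (P.cons (P.lf 1068690 0 0) (P.lf 0 356223 0)))) (P.cons (P.cons (P.lf 0 10723146 0) (P.cons (P.lf 7314003 0 0) (P.cons (P.lf 488985 0 0) P.nil))) (P.cons (P.cons (P.lf 8789241 0 0) (P.cons (P.lf 630189 0 0) P.nil)) (P.cons (P.cons (P.lf 1833495 0 0) P.nil) P.nil)))))) 1242219)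
 (EL.cons 8 (TM.mk (P.cons (P.cons (P.lf 861429951 0 0) (P.cons (P.lf 0 18526143 0) (P.cons (P.lf 0 1238616 0) (P.lf 412872 0 0)))) (P.cons (P.cons (P.lf 985265655 0 0) (P.cons (P.lf 0 42907194 0) (P.cons (P.lf 0 2868678 0) (P.lf 956226 0 0)))) (P.cons (P.cons (P.lf 0 7805676 0) (P.cons (P.lf 0 26050581 0) (P.cons (P.lf 0 1741680 0) (P.lf 580560 0 0)))) (P.cons (P.cons (P.lf 0 43410312 0) (P.cons (P.lf 0 732516 0) (P.cons (P.lf 0 48975 0) P.nil))) (P.cons (P.cons (P.lf 0 6023028 0) (P.cons (P.lf 864702 0 0) P.nil)) (P.cons (P.cons (P.lf 211437 0 0) P.nil) P.nil)))))) 690654)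
 (EL.cons 11 (TM.mk (P.cons (P.cons (P.lf 42896565 0 0) (P.cons (P.lf 6641463 0 0) (P.cons (P.lf 0 3199647 0) (P.cons (P.lf 0 121083 0) (P.lf 30270 0 0))))) (P.cons (P.cons (P.lf 100818486 0 0) (P.cons (P.lf 15609231 0 0) (P.cons (P.lf 0 7520034 0) (P.cons (P.lf 0 284580 0) (P.lf 71145 0 0))))) (P.cons (P.cons (P.lf 64713222 0 0) (P.cons (P.lf 10019232 0 0) (P.cons (P.lf 0 4826949 0) (P.cons (P.lf 0 182664 0) P.nil)))) (P.cons (P.cons (P.lf 6217542 0 0) (P.cons (P.lf 962631 0 0) (P.cons (P.lf 0 463764 0) P.nil))) (P.cons (P.cons (P.lf 0 156723 0) (P.cons (P.lf 0 24264 0) P.nil)) (P.cons (P.cons (P.lf 0 111366 0) P.nil) P.nil)))))) 132813)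
 EL.nil)))
noncomputable def S24_82_364_512_22 : EL := (EL.cons 4 (TM.mk (P.cons (P.cons (P.lf 112721868 0 0) (P.cons (P.lf 0 2363271 0) (P.cons (P.lf 0 159306 0) (P.cons (P.lf 52488 0 0) (P.cons (P.lf 51 0 0) (P.cons (P.lf 3 0 0) P.nil)))))) (P.cons (P.cons (P.lf 253327617 0 0) (P.cons (P.lf 0 7932726 0) (P.cons (P.lf 0 539580 0) (P.cons (P.lf 175548 0 0) (P.cons (P.lf 369 0 0) P.nil))))) (P.cons (P.cons (P.lf 133672998 0 0) (P.cons (P.lf 0 8587398 0) (P.cons (P.lf 0 601614 0) (P.cons (P.lf 187698 0 0) P.nil)))) (P.cons (P.cons (P.lf 0 23151669 0) (P.cons (P.lf 0 2256687 0) (P.cons (P.lf 0 195765 0) P.nil))) (P.cons (P.cons (P.lf 0 16912422 0) (P.cons (P.lf 1346382 0 0) P.nil)) (P.cons (P.cons (P.lf 0 1751202 0) P.nil) P.nil)))))) 2806161)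
 (EL.cons 8 (TM.mk (P.cons (P.cons (P.lf 0 556913553 0) (P.cons (P.lf 11675991 0 0) (P.cons (P.lf 787107 0 0) (P.cons (P.lf 0 259344 0) (P.cons (P.lf 0 258 0) (P.cons (P.lf 0 18 0) P.nil)))))) (P.cons (P.cons (P.lf 0 587609016 0) (P.cons (P.lf 25271745 0 0) (P.cons (P.lf 1727442 0 0) (P.cons (P.lf 0 558144 0) (P.cons (P.lf 0 1515 0) P.nil))))) (P.cons (P.cons (P.lf 93263253 0 0) (P.cons (P.lf 11183163 0 0) (P.cons (P.lf 837735 0 0) (P.cons (P.lf 0 237183 0) P.nil)))) (P.cons (P.cons (P.lf 66814185 0 0) (P.cons (P.lf 0 4752834 0) (P.cons (P.lf 0 207012 0) P.nil))) (P.cons (P.cons (P.lf 4093311 0 0) (P.cons (P.lf 0 2418834 0) P.nil)) (P.cons (P.cons (P.lf 0 2572050 0) P.nil) P.nil)))))) 2085282)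
 (EL.cons 11 (TM.mk (P.cons (P.cons (P.lf 0 27732582 0) (P.cons (P.lf 0 4308693 0) (P.cons (P.lf 2065242 0 0) (P.cons (P.lf 79575 0 0) (P.cons (P.lf 0 19398 0) (P.cons (P.lf 0 30 0) P.nil)))))) (P.cons (P.cons (P.lf 0 62720859 0) (P.cons (P.lf 0 9798873 0) (P.cons (P.lf 4658805 0 0) (P.cons (P.lf 184665 0 0) (P.cons (P.lf 0 43266 0) P.nil))))) (P.cons (P.cons (P.lf 0 34478265 0) (P.cons (P.lf 0 5549970 0) (P.cons (P.lf 2524758 0 0) (P.cons (P.lf 115650 0 0) P.nil)))) (P.cons (P.cons (P.lf 3548571 0 0) (P.cons (P.lf 283752 0 0) (P.cons (P.lf 0 323577 0) P.nil))) (P.cons (P.cons (P.lf 3164133 0 0) (P.cons (P.lf 307599 0 0) P.nil)) (P.cons (P.cons (P.lf 466272 0 0) P.nil) P.nil)))))) 794598)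
 EL.nil)))
noncomputable def S24_82_364_512_23 : EL := (EL.cons 4 (TM.mk (P.cons (P.cons (P.lf 154826448 0 0) (P.cons (P.lf 0 3329733 0) (P.cons (P.lf 0 222609 0) (P.lf 74199 0 0)))) (P.cons (P.cons (P.lf 359025561 0 0) (P.cons (P.lf 0 11624670 0) (P.cons (P.lf 0 777192 0) (P.lf 259056 0 0)))) (P.cons (P.cons (P.lf 216575697 0 0) (P.cons (P.lf 0 13957017 0) (P.cons (P.lf 0 933129 0) (P.lf 311037 0 0)))) (P.cons (P.cons (P.lf 1459545 0 0) (P.cons (P.lf 0 6117537 0) (P.cons (P.lf 0 408993 0) P.nil))) (P.cons (P.cons (P.lf 0 10926612 0) (P.cons (P.lf 0 275643 0) P.nil)) (P.cons (P.cons (P.lf 0 1900173 0) P.nil) P.nil)))))) 1468095)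
 (EL.cons 8 (TM.mk (P.cons (P.cons (P.lf 0 764935383 0) (P.cons (P.lf 16450905 0 0) (P.cons (P.lf 1099869 0 0) (P.lf 0 366621 0)))) (P.cons (P.cons (P.lf 0 861805770 0) (P.cons (P.lf 37819275 0 0) (P.cons (P.lf 2528511 0 0) (P.lf 0 842835 0)))) (P.cons (P.cons (P.lf 30423840 0 0) (P.cons (P.lf 22297134 0 0) (P.cons (P.lf 1490733 0 0) (P.lf 0 496911 0)))) (P.cons (P.cons (P.lf 49123164 0 0) (P.cons (P.lf 0 190209 0) (P.cons (P.lf 0 12714 0) P.nil))) (P.cons (P.cons (P.lf 5745030 0 0) (P.cons (P.lf 0 1084938 0) P.nil)) (P.cons (P.cons (P.lf 0 670617 0) P.nil) P.nil)))))) 881772)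
 (EL.cons 11 (TM.mk (P.cons (P.cons (P.lf 0 38091432 0) (P.cons (P.lf 0 5897508 0) (P.cons (P.lf 2841231 0 0) (P.cons (P.lf 107517 0 0) (P.lf 0 26877 0))))) (P.cons (P.cons (P.lf 0 88873104 0) (P.cons (P.lf 0 13759785 0) (P.cons (P.lf 6629028 0 0) (P.cons (P.lf 250860 0 0) (P.lf 0 62715 0))))) (P.cons (P.cons (P.lf 0 55507725 0) (P.cons (P.lf 0 8593989 0) (P.cons (P.lf 4140312 0 0) (P.cons (P.lf 156678 0 0) P.nil)))) (P.cons (P.cons (P.lf 0 3493218 0) (P.cons (P.lf 0 540837 0) (P.cons (P.lf 260556 0 0) P.nil))) (P.cons (P.cons (P.lf 987192 0 0) (P.cons (P.lf 152841 0 0) P.nil)) (P.cons (P.cons (P.lf 234513 0 0) P.nil) P.nil)))))) 247008)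
 EL.nil)))
noncomputable def S24_82_364_512_24 : EL := (EL.cons 4 (TM.mk (P.cons (P.cons (P.lf 0 100095135 0) (P.cons (P.lf 2098545 0 0) (P.cons (P.lf 141462 0 0) (P.cons (P.lf 0 46608 0) (P.cons (P.lf 0 45 0) (P.cons (P.lf 0 3 0) P.nil)))))) (P.cons (P.cons (P.lf 0 223237326 0) (P.cons (P.lf 7008207 0 0) (P.cons (P.lf 476715 0 0) (P.cons (P.lf 0 155085 0) (P.cons (P.lf 0 327 0) P.nil))))) (P.cons (P.cons (P.lf 0 113734401 0) (P.cons (P.lf 7481526 0 0) (P.cons (P.lf 524445 0 0) (P.cons (P.lf 0 163485 0) P.nil)))) (P.cons (P.cons (P.lf 25219392 0 0) (P.cons (P.lf 1792332 0 0) (P.cons (P.lf 159180 0 0) P.nil))) (P.cons (P.cons (P.lf 16273626 0 0) (P.cons (P.lf 0 1323663 0) P.nil)) (P.cons (P.cons (P.lf 1229355 0 0) P.nil) P.nil)))))) 2828277)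
 (EL.cons 8 (TM.mk (P.cons (P.cons (P.lf 494529918 0 0) (P.cons (P.lf 0 10368084 0) (P.cons (P.lf 0 698937 0) (P.cons (P.lf 230292 0 0) (P.cons (P.lf 228 0 0) (P.cons (P.lf 15 0 0) P.nil)))))) (P.cons (P.cons (P.lf 513321948 0 0) (P.cons (P.lf 0 22263414 0) (P.cons (P.lf 0 1521978 0) (P.cons (P.lf 491682 0 0) (P.cons (P.lf 1341 0 0) P.nil))))) (P.cons (P.cons (P.lf 0 97253775 0) (P.cons (P.lf 0 9430899 0) (P.cons (P.lf 0 709857 0) (P.cons (P.lf 199569 0 0) P.nil)))) (P.cons (P.cons (P.lf 0 64338021 0) (P.cons (P.lf 4653192 0 0) (P.cons (P.lf 214506 0 0) P.nil))) (P.cons (P.cons (P.lf 0 2375469 0) (P.cons (P.lf 2214756 0 0) P.nil)) (P.cons (P.cons (P.lf 3082350 0 0) P.nil) P.nil)))))) 2078457)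
 (EL.cons 11 (TM.mk (P.cons (P.cons (P.lf 24626070 0 0) (P.cons (P.lf 3826047 0 0) (P.cons (P.lf 0 1833900 0) (P.cons (P.lf 0 70662 0) (P.cons (P.lf 17226 0 0) (P.cons (P.lf 27 0 0) P.nil)))))) (P.cons (P.cons (P.lf 55273539 0 0) (P.cons (P.lf 8635743 0 0) (P.cons (P.lf 0 4105548 0) (P.cons (P.lf 0 162768 0) (P.cons (P.lf 38124 0 0) P.nil))))) (P.cons (P.cons (P.lf 29388591 0 0) (P.cons (P.lf 4736739 0 0) (P.cons (P.lf 0 2150712 0) (P.cons (P.lf 0 99102 0) P.nil)))) (P.cons (P.cons (P.lf 0 4325922 0) (P.cons (P.lf 0 437970 0) (P.cons (P.lf 374052 0 0) P.nil))) (P.cons (P.cons (P.lf 0 3167436 0) (P.cons (P.lf 0 334758 0) P.nil)) (P.cons (P.cons (P.lf 0 372075 0) P.nil) P.nil)))))) 807420)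
 EL.nil)))
noncomputable def S24_82_364_512_25 : EL := (EL.cons 4 (TM.mk (P.cons (P.cons (P.lf 0 137483295 0) (P.cons (P.lf 2956746 0 0) (P.cons (P.lf 197673 0 0) (P.lf 0 65889 0)))) (P.cons (P.cons (P.lf 0 316455345 0) (P.cons (P.lf 10271901 0 0) (P.cons (P.lf 686748 0 0) (P.lf 0 228909 0)))) (P.cons (P.cons (P.lf 0 185327739 0) (P.cons (P.lf 12183984 0 0) (P.cons (P.lf 814590 0 0) (P.lf 0 271524 0)))) (P.cons (P.cons (P.lf 5716743 0 0) (P.cons (P.lf 5101512 0 0) (P.cons (P.lf 341064 0 0) P.nil))) (P.cons (P.cons (P.lf 12271125 0 0) (P.cons (P.lf 762 0 0) P.nil)) (P.cons (P.cons (P.lf 1792854 0 0) P.nil) P.nil)))))) 1612263)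
 (EL.cons 8 (TM.mk (P.cons (P.cons (P.lf 679249824 0 0) (P.cons (P.lf 0 14608128 0) (P.cons (P.lf 0 976665 0) (P.lf 325554 0 0)))) (P.cons (P.cons (P.lf 753642168 0 0) (P.cons (P.lf 0 33332829 0) (P.cons (P.lf 0 2228556 0) (P.lf 742851 0 0)))) (P.cons (P.cons (P.lf 0 47677812 0) (P.cons (P.lf 0 19061988 0) (P.cons (P.lf 0 1274439 0) (P.lf 424812 0 0)))) (P.cons (P.cons (P.lf 0 52524912 0) (P.cons (P.lf 899925 0 0) (P.cons (P.lf 60165 0 0) P.nil))) (P.cons (P.cons (P.lf 0 5046240 0) (P.cons (P.lf 1223640 0 0) P.nil)) (P.cons (P.cons (P.lf 1161516 0 0) P.nil) P.nil)))))) 1019010)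
 (EL.cons 11 (TM.mk (P.cons (P.cons (P.lf 33824553 0 0) (P.cons (P.lf 5236887 0 0) (P.cons (P.lf 0 2522967 0) (P.cons (P.lf 0 95475 0) (P.lf 23868 0 0))))) (P.cons (P.cons (P.lf 78338844 0 0) (P.cons (P.lf 12128817 0 0) (P.cons (P.lf 0 5843280 0) (P.cons (P.lf 0 221124 0) (P.lf 55281 0 0))))) (P.cons (P.cons (P.lf 47562477 0 0) (P.cons (P.lf 7363866 0 0) (P.cons (P.lf 0 3547677 0) (P.cons (P.lf 0 134253 0) P.nil)))) (P.cons (P.cons (P.lf 1337403 0 0) (P.cons (P.lf 207063 0 0) (P.cons (P.lf 0 99753 0) P.nil))) (P.cons (P.cons (P.lf 0 1578753 0) (P.cons (P.lf 0 244428 0) P.nil)) (P.cons (P.cons (P.lf 0 293538 0) P.nil) P.nil)))))) 323376)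
 EL.nil)))
noncomputable def S24_82_364_512_26 : EL := (EL.cons 4 (TM.mk (P.cons (P.cons (P.lf 88882803 0 0) (P.cons (P.lf 0 1863471 0) (P.cons (P.lf 0 125616 0) (P.cons (P.lf 41388 0 0) (P.cons (P.lf 39 0 0) (P.cons (P.lf 3 0 0) P.nil)))))) (P.cons (P.cons (P.lf 196709574 0 0) (P.cons (P.lf 0 6191274 0) (P.cons (P.lf 0 421164 0) (P.cons (P.lf 137004 0 0) (P.cons (P.lf 288 0 0) P.nil))))) (P.cons (P.cons (P.lf 96611460 0 0) (P.cons (P.lf 0 6516198 0) (P.cons (P.lf 0 457056 0) (P.cons (P.lf 142353 0 0) P.nil)))) (P.cons (P.cons (P.lf 0 26440971 0) (P.cons (P.lf 0 1406232 0) (P.cons (P.lf 0 128508 0) P.nil))) (P.cons (P.cons (P.lf 0 15443898 0) (P.cons (P.lf 1284462 0 0) P.nil)) (P.cons (P.cons (P.lf 0 731694 0) P.nil) P.nil)))))) 2814303)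
 (EL.cons 8 (TM.mk (P.cons (P.cons (P.lf 0 439134294 0) (P.cons (P.lf 9206685 0 0) (P.cons (P.lf 620643 0 0) (P.cons (P.lf 0 204495 0) (P.cons (P.lf 0 204 0) (P.cons (P.lf 0 15 0) P.nil)))))) (P.cons (P.cons (P.lf 0 448304496 0) (P.cons (P.lf 19611945 0 0) (P.cons (P.lf 1340865 0 0) (P.cons (P.lf 0 433104 0) (P.cons (P.lf 0 1188 0) P.nil))))) (P.cons (P.cons (P.lf 99051372 0 0) (P.cons (P.lf 7933572 0 0) (P.cons (P.lf 600297 0 0) (P.cons (P.lf 0 167463 0) P.nil)))) (P.cons (P.cons (P.lf 61275093 0 0) (P.cons (P.lf 0 4506885 0) (P.cons (P.lf 0 217089 0) P.nil))) (P.cons (P.cons (P.lf 762888 0 0) (P.cons (P.lf 0 2014338 0) P.nil)) (P.cons (P.cons (P.lf 0 3492825 0) P.nil) P.nil)))))) 2034207)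
 (EL.cons 11 (TM.mk (P.cons (P.cons (P.lf 0 21867537 0) (P.cons (P.lf 0 3397467 0) (P.cons (P.lf 1628472 0 0) (P.cons (P.lf 62748 0 0) (P.cons (P.lf 0 15297 0) (P.cons (P.lf 0 24 0) P.nil)))))) (P.cons (P.cons (P.lf 0 48707664 0) (P.cons (P.lf 0 7610238 0) (P.cons (P.lf 3617784 0 0) (P.cons (P.lf 143463 0 0) (P.cons (P.lf 0 33594 0) P.nil))))) (P.cons (P.cons (P.lf 0 25012956 0) (P.cons (P.lf 0 4037055 0) (P.cons (P.lf 1829262 0 0) (P.cons (P.lf 84828 0 0) P.nil)))) (P.cons (P.cons (P.lf 4861767 0 0) (P.cons (P.lf 550521 0 0) (P.cons (P.lf 0 407463 0) P.nil))) (P.cons (P.cons (P.lf 3099834 0 0) (P.cons (P.lf 347181 0 0) P.nil)) (P.cons (P.cons (P.lf 274698 0 0) P.nil) P.nil)))))) 806763)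
 EL.nil)))
noncomputable def S24_82_364_512_27 : EL := (EL.cons 13 (TM.mk (P.lf 0 4294967296 0) 0)
 EL.nil)
noncomputable def S24_82_364_512_28 : EL := (EL.cons 13 (TM.mk (P.cons (P.cons (P.lf 2776691824 0 0) (P.cons (P.lf 1501440 0 0) (P.cons (P.lf 100380 0 0) (P.lf 0 33460 0)))) (P.cons (P.cons (P.lf 0 246122832 0) (P.cons (P.lf 5293180 0 0) (P.cons (P.lf 353888 0 0) (P.lf 0 117960 0)))) (P.cons (P.cons (P.lf 0 158332428 0) (P.cons (P.lf 6507680 0 0) (P.cons (P.lf 435088 0 0) (P.lf 0 145028 0)))) (P.cons (P.cons (P.lf 0 14335867 0) (P.cons (P.lf 3100784 0 0) (P.cons (P.lf 207308 0 0) P.nil))) (P.cons (P.cons (P.lf 1564754 0 0) (P.cons (P.lf 384548 0 0) P.nil)) (P.cons (P.cons (P.lf 522995 0 0) P.nil) P.nil)))))) 279495)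
 EL.nil)
noncomputable def S24_82_364_512_29 : EL := (EL.cons 13 (TM.mk (P.cons (P.cons (P.lf 0 1795128333 0) (P.cons (P.lf 0 1941358 0) (P.cons (P.lf 0 130316 0) (P.cons (P.lf 43193 0 0) (P.cons (P.lf 21 0 0) (P.cons (P.lf 1 0 0) P.nil)))))) (P.cons (P.cons (P.lf 318236302 0 0) (P.cons (P.lf 0 6671990 0) (P.cons (P.lf 0 449772 0) (P.cons (P.lf 148192 0 0) (P.cons (P.lf 148 0 0) P.nil))))) (P.cons (P.cons (P.lf 190619441 0 0) (P.cons (P.lf 0 7697065 0) (P.cons (P.lf 0 525681 0) (P.cons (P.lf 170053 0 0) P.nil)))) (P.cons (P.cons (P.lf 389786 0 0) (P.cons (P.lf 0 2863177 0) (P.cons (P.lf 0 209629 0) P.nil))) (P.cons (P.cons (P.lf 0 9503123 0) (P.cons (P.lf 372208 0 0) P.nil)) (P.cons (P.cons (P.lf 0 1553868 0) P.nil) P.nil)))))) 1236538)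
 EL.nil)
noncomputable def S24_82_364_512_30 : EL := (EL.cons 13 (TM.mk (P.cons (P.lf 3813859108 0 0) (P.cons (P.lf 0 65283060 0) (P.cons (P.lf 0 42462532 0) (P.cons (P.lf 0 4752892 0) (P.cons (P.lf 0 216252 0) (P.cons (P.lf 15496 0 0) P.nil)))))) 21988)
 EL.nil)
noncomputable def S24_82_364_512_31 : EL := (EL.cons 13 (TM.mk (P.cons (P.cons (P.lf 0 2465655888 0) (P.cons (P.lf 0 1333253 0) (P.cons (P.lf 0 89135 0) (P.lf 29711 0 0)))) (P.cons (P.cons (P.lf 260758386 0 0) (P.cons (P.lf 0 4677433 0) (P.cons (P.lf 0 312720 0) (P.lf 104237 0 0)))) (P.cons (P.cons (P.lf 164307487 0 0) (P.cons (P.lf 0 5683411 0) (P.cons (P.lf 0 379979 0) (P.lf 126658 0 0)))) (P.cons (P.cons (P.lf 10962800 0 0) (P.cons (P.lf 0 2600535 0) (P.cons (P.lf 0 173862 0) P.nil))) (P.cons (P.cons (P.lf 0 3305302 0) (P.cons (P.lf 0 224068 0) P.nil)) (P.cons (P.cons (P.lf 0 779983 0) P.nil)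 P.nil)))))) 397092)
 EL.nil)
noncomputable def S24_82_364_512_32 : EL := (EL.cons 13 (TM.mk (P.cons (P.cons (P.lf 1594043928 0 0) (P.cons (P.lf 1723893 0 0) (P.cons (P.lf 115718 0 0) (P.cons (P.lf 0 38354 0) (P.cons (P.lf 0 18 0) (P.cons (P.lf 0 0 0) P.nil)))))) (P.cons (P.cons (P.lf 0 309874277 0) (P.cons (P.lf 5895107 0 0) (P.cons (P.lf 397409 0 0) (P.cons (P.lf 0 130935 0) (P.cons (P.lf 0 131 0) P.nil))))) (P.cons (P.cons (P.lf 0 182177393 0) (P.cons (P.lf 6714258 0 0) (P.cons (P.lf 458671 0 0) (P.cons (P.lf 0 148324 0) P.nil)))) (P.cons (P.cons (P.lf 3711017 0 0) (P.cons (P.lf 2357347 0 0) (P.cons (P.lf 173565 0 0) P.nil))) (P.cons (P.cons (P.lf 10590894 0 0) (P.cons (P.lf 0 457613 0) P.nil)) (P.cons (P.cons (P.lf 1472658 0 0) P.nil) P.nil)))))) 1368816)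
 EL.nil)
noncomputable def S24_82_364_512_33 : EL := (EL.cons 14 (TM.mk (P.lf 8589934592 0 0) 0)
 EL.nil)
noncomputable def S24_82_364_512_34 : EL := (EL.cons 14 (TM.mk (P.cons (P.cons (P.lf 0 5553383648 0) (P.cons (P.lf 0 3002880 0) (P.cons (P.lf 0 200760 0) (P.lf 66920 0 0)))) (P.cons (P.cons (P.lf 492245664 0 0) (P.cons (P.lf 0 10586360 0) (P.cons (P.lf 0 707776 0) (P.lf 235920 0 0)))) (P.cons (P.cons (P.lf 316664856 0 0) (P.cons (P.lf 0 13015360 0) (P.cons (P.lf 0 870176 0) (P.lf 290056 0 0)))) (P.cons (P.cons (P.lf 28671734 0 0) (P.cons (P.lf 0 6201568 0) (P.cons (P.lf 0 414616 0) P.nil))) (P.cons (P.cons (P.lf 0 3129508 0) (P.cons (P.lf 0 769096 0) P.nil)) (P.cons (P.cons (P.lf 0 1045990 0) P.nil) P.nil)))))) 558990)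
 EL.nil)
noncomputable def S24_82_364_512_35 : EL := (EL.cons 14 (TM.mk (P.cons (P.cons (P.lf 3590256666 0 0) (P.cons (P.lf 3882716 0 0) (P.cons (P.lf 260632 0 0) (P.cons (P.lf 0 86386 0) (P.cons (P.lf 0 42 0) (P.cons (P.lf 0 2 0) P.nil)))))) (P.cons (P.cons (P.lf 0 636472604 0) (P.cons (P.lf 13343980 0 0) (P.cons (P.lf 899544 0 0) (P.cons (P.lf 0 296384 0) (P.cons (P.lf 0 296 0) P.nil))))) (P.cons (P.cons (P.lf 0 381238882 0) (P.cons (P.lf 15394130 0 0) (P.cons (P.lf 1051362 0 0) (P.cons (P.lf 0 340106 0) P.nil)))) (P.cons (P.cons (P.lf 0 779572 0) (P.cons (P.lf 5726354 0 0) (P.cons (P.lf 419258 0 0) P.nil))) (P.cons (P.cons (P.lf 19006246 0 0) (P.cons (P.lf 0 744416 0) P.nil)) (P.cons (P.cons (P.lf 3107736 0 0) P.nil) P.nil)))))) 2473076)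
 EL.nil)
noncomputable def S24_82_364_512_36 : EL := (EL.cons 14 (TM.mk (P.cons (P.lf 0 7627718216 0) (P.cons (P.lf 130566120 0 0) (P.cons (P.lf 84925064 0 0) (P.cons (P.lf 9505784 0 0) (P.cons (P.lf 432504 0 0) (P.cons (P.lf 0 30992 0) P.nil)))))) 43976)
 EL.nil)
noncomputable def S24_82_364_512_37 : EL := (EL.cons 14 (TM.mk (P.cons (P.cons (P.lf 4931311776 0 0) (P.cons (P.lf 2666506 0 0) (P.cons (P.lf 178270 0 0) (P.lf 0 59422 0)))) (P.cons (P.cons (P.lf 0 521516772 0) (P.cons (P.lf 9354866 0 0) (P.cons (P.lf 625440 0 0) (P.lf 0 208474 0)))) (P.cons (P.cons (P.lf 0 328614974 0) (P.cons (P.lf 11366822 0 0) (P.cons (P.lf 759958 0 0) (P.lf 0 253316 0)))) (P.cons (P.cons (P.lf 0 21925600 0) (P.cons (P.lf 5201070 0 0) (P.cons (P.lf 347724 0 0) P.nil))) (P.cons (P.cons (P.lf 6610604 0 0) (P.cons (P.lf 448136 0 0) P.nil)) (P.cons (P.cons (P.lf 1559966 0 0)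 P.nil) P.nil)))))) 794184)
 EL.nil)
noncomputable def S24_82_364_512_38 : EL := (EL.cons 14 (TM.mk (P.cons (P.cons (P.lf 0 3188087856 0) (P.cons (P.lf 0 3447786 0) (P.cons (P.lf 0 231436 0) (P.cons (P.lf 76708 0 0) (P.cons (P.lf 36 0 0) (P.cons (P.lf 0 0 0) P.nil)))))) (P.cons (P.cons (P.lf 619748554 0 0) (P.cons (P.lf 0 11790214 0) (P.cons (P.lf 0 794818 0) (P.cons (P.lf 261870 0 0) (P.cons (P.lf 262 0 0) P.nil))))) (P.cons (P.cons (P.lf 364354786 0 0) (P.cons (P.lf 0 13428516 0) (P.cons (P.lf 0 917342 0) (P.cons (P.lf 296648 0 0) P.nil)))) (P.cons (P.cons (P.lf 0 7422034 0) (P.cons (P.lf 0 4714694 0) (P.cons (P.lf 0 347130 0) P.nil))) (P.cons (P.cons (P.lf 0 21181788 0) (P.cons (P.lf 915226 0 0) P.nil)) (P.cons (P.cons (P.lf 0 2945316 0) P.nil) P.nil)))))) 2737632)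
 EL.nil)
noncomputable def S24_82_364_512_39 : EL := (EL.cons 14 (TM.mk (P.cons (P.lf 6773286170 0 0) (P.cons (P.lf 0 231881060 0) (P.cons (P.lf 0 148839480 0) (P.cons (P.lf 0 14300248 0) (P.cons (P.lf 360478 0 0) (P.cons (P.lf 256148 0 0) P.nil)))))) 102098)
 EL.nil)
noncomputable def S24_82_364_512_40 : EL := (EL.cons 14 (TM.mk (P.cons (P.cons (P.lf 0 4378922360 0) (P.cons (P.lf 0 2367812 0) (P.cons (P.lf 0 158302 0) (P.lf 52766 0 0)))) (P.cons (P.cons (P.lf 538053600 0 0) (P.cons (P.lf 0 8266434 0) (P.cons (P.lf 0 552672 0) (P.lf 184218 0 0)))) (P.cons (P.cons (P.lf 332631400 0 0) (P.cons (P.lf 0 9924992 0) (P.cons (P.lf 0 663560 0) (P.lf 221184 0 0)))) (P.cons (P.cons (P.lf 14775718 0 0) (P.cons (P.lf 0 4350250 0) (P.cons (P.lf 0 290842 0) P.nil))) (P.cons (P.cons (P.lf 0 9781078 0) (P.cons (P.lf 0 196016 0) P.nil)) (P.cons (P.cons (P.lf 0 1909214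 0) P.nil) P.nil)))))) 970044)
 EL.nil)
noncomputable def S24_82_364_512_41 : EL := (EL.cons 14 (TM.mk (P.cons (P.cons (P.lf 2830968682 0 0) (P.cons (P.lf 3061576 0 0) (P.cons (P.lf 205512 0 0) (P.cons (P.lf 0 68116 0) (P.cons (P.lf 0 32 0) (P.cons (P.lf 0 0 0) P.nil)))))) (P.cons (P.cons (P.lf 0 598784956 0) (P.cons (P.lf 10417106 0 0) (P.cons (P.lf 702266 0 0) (P.cons (P.lf 0 231370 0) (P.cons (P.lf 0 232 0) P.nil))))) (P.cons (P.cons (P.lf 0 345640120 0) (P.cons (P.lf 11711000 0 0) (P.cons (P.lf 800214 0 0) (P.cons (P.lf 0 258680 0) P.nil)))) (P.cons (P.cons (P.lf 14727992 0 0) (P.cons (P.lf 3862076 0 0) (P.cons (P.lf 286188 0 0) P.nil))) (P.cons (P.cons (P.lf 22823786 0 0) (P.cons (P.lf 0 1030350 0) P.nil)) (P.cons (P.cons (P.lf 2665962 0 0) P.nil) P.nil)))))) 2906420)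
 EL.nil)
noncomputable def S24_82_364_512_42 : EL := (EL.cons 14 (TM.mk (P.cons (P.lf 0 6014564808 0) (P.cons (P.lf 308859752 0 0) (P.cons (P.lf 195607026 0 0) (P.cons (P.lf 15638972 0 0) (P.cons (P.lf 0 1924542 0) (P.cons (P.lf 0 564176 0) P.nil)))))) 166226)
 EL.nil)
noncomputable def S24_82_364_512_43 : EL := (EL.cons 14 (TM.mk (P.cons (P.cons (P.lf 3888409800 0 0) (P.cons (P.lf 2102578 0 0) (P.cons (P.lf 140568 0 0) (P.lf 0 46856 0)))) (P.cons (P.cons (P.lf 0 544341762 0) (P.cons (P.lf 7304464 0 0) (P.cons (P.lf 488356 0 0) (P.lf 0 162782 0)))) (P.cons (P.cons (P.lf 0 330485320 0) (P.cons (P.lf 8664168 0 0) (P.cons (P.lf 579264 0 0) (P.lf 0 193086 0)))) (P.cons (P.cons (P.lf 0 7590916 0) (P.cons (P.lf 3627742 0 0) (P.cons (P.lf 242538 0 0) P.nil))) (P.cons (P.cons (P.lf 12573550 0 0) (P.cons (P.lf 544 0 0) P.nil)) (P.cons (P.cons (P.lf 2103744 0 0)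 P.nil) P.nil)))))) 1179912)
 EL.nil)
noncomputable def S24_82_364_512_44 : EL := (EL.cons 14 (TM.mk (P.cons (P.cons (P.lf 0 2513852830 0) (P.cons (P.lf 0 2718628 0) (P.cons (P.lf 0 182490 0) (P.cons (P.lf 60486 0 0) (P.cons (P.lf 28 0 0) (P.cons (P.lf 0 0 0) P.nil)))))) (P.cons (P.cons (P.lf 574741454 0 0) (P.cons (P.lf 0 9203680 0) (P.cons (P.lf 0 620478 0) (P.cons (P.lf 204418 0 0) (P.cons (P.lf 204 0 0) P.nil))))) (P.cons (P.cons (P.lf 325809770 0 0) (P.cons (P.lf 0 10210564 0) (P.cons (P.lf 0 697870 0) (P.cons (P.lf 225514 0 0) P.nil)))) (P.cons (P.cons (P.lf 0 21119036 0) (P.cons (P.lf 0 3145076 0) (P.cons (P.lf 0 234796 0) P.nil))) (P.cons (P.cons (P.lf 0 23980560 0) (P.cons (P.lf 1101100 0 0) P.nil)) (P.cons (P.cons (P.lf 0 2297654 0) P.nil) P.nil)))))) 3094772)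
 EL.nil)
noncomputable def S24_82_364_512_45 : EL := (EL.cons 14 (TM.mk (P.cons (P.cons (P.lf 0 2321097144 0) (P.cons (P.lf 0 3765258 0) (P.cons (P.lf 0 253764 0) (P.cons (P.lf 83636 0 0) (P.cons (P.lf 80 0 0) (P.cons (P.lf 4 0 0) P.nil)))))) (P.cons (P.cons (P.lf 617218300 0 0) (P.cons (P.lf 0 12606554 0) (P.cons (P.lf 0 857016 0) (P.cons (P.lf 279040 0 0) (P.cons (P.lf 566 0 0) P.nil))))) (P.cons (P.cons (P.lf 342351034 0 0) (P.cons (P.lf 0 13566716 0) (P.cons (P.lf 0 948604 0) (P.cons (P.lf 296766 0 0) P.nil)))) (P.cons (P.cons (P.lf 0 32822548 0) (P.cons (P.lf 0 3472562 0) (P.cons (P.lf 0 298152 0) P.nil))) (P.cons (P.cons (P.lf 0 29818874 0) (P.cons (P.lf 2130054 0 0) P.nil)) (P.cons (P.cons (P.lf 0 2426546 0) P.nil) P.nil)))))) 4684004)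
 EL.nil)
noncomputable def S24_82_364_512_46 : EL := (EL.cons 15 (TM.mk (P.lf 4294967296 0 0) 0)
 EL.nil)
noncomputable def S24_82_364_512_47 : EL := (EL.cons 15 (TM.mk (P.cons (P.cons (P.lf 0 2776691824 0) (P.cons (P.lf 0 1501440 0) (P.cons (P.lf 0 100380 0) (P.lf 33460 0 0)))) (P.cons (P.cons (P.lf 246122832 0 0) (P.cons (P.lf 0 5293180 0) (P.cons (P.lf 0 353888 0) (P.lf 117960 0 0)))) (P.cons (P.cons (P.lf 158332428 0 0) (P.cons (P.lf 0 6507680 0) (P.cons (P.lf 0 435088 0) (P.lf 145028 0 0)))) (P.cons (P.cons (P.lf 14335867 0 0) (P.cons (P.lf 0 3100784 0) (P.cons (P.lf 0 207308 0) P.nil))) (P.cons (P.cons (P.lf 0 1564754 0) (P.cons (P.lf 0 384548 0) P.nil)) (P.cons (P.cons (P.lf 0 522995 0) P.nil) P.nil)))))) 279495)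
 EL.nil)
noncomputable def S24_82_364_512_48 : EL := (EL.cons 15 (TM.mk (P.cons (P.cons (P.lf 1795128333 0 0) (P.cons (P.lf 1941358 0 0) (P.cons (P.lf 130316 0 0) (P.cons (P.lf 0 43193 0) (P.cons (P.lf 0 21 0) (P.cons (P.lf 0 1 0) P.nil)))))) (P.cons (P.cons (P.lf 0 318236302 0) (P.cons (P.lf 6671990 0 0) (P.cons (P.lf 449772 0 0) (P.cons (P.lf 0 148192 0) (P.cons (P.lf 0 148 0) P.nil))))) (P.cons (P.cons (P.lf 0 190619441 0) (P.cons (P.lf 7697065 0 0) (P.cons (P.lf 525681 0 0) (P.cons (P.lf 0 170053 0) P.nil)))) (P.cons (P.cons (P.lf 0 389786 0) (P.cons (P.lf 2863177 0 0) (P.cons (P.lf 209629 0 0) P.nil))) (P.cons (P.cons (P.lf 9503123 0 0) (P.cons (P.lf 0 372208 0) P.nil)) (P.cons (P.cons (P.lf 1553868 0 0) P.nil) P.nil)))))) 1236538)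
 EL.nil)
noncomputable def S24_82_364_512 : SL := (SL.cons S24_82_364_512_0 (SL.cons S24_82_364_512_1 (SL.cons S24_82_364_512_2 (SL.cons S24_82_364_512_3 (SL.cons S24_82_364_512_4 (SL.cons S24_82_364_512_5 (SL.cons S24_82_364_512_6 (SL.cons S24_82_364_512_7 (SL.cons S24_82_364_512_8 (SL.cons S24_82_364_512_9 (SL.cons S24_82_364_512_10 (SL.cons S24_82_364_512_11 (SL.cons S24_82_364_512_12 (SL.cons S24_82_364_512_13 (SL.cons S24_82_364_512_14 (SL.cons S24_82_364_512_15 (SL.cons S24_82_364_512_16 (SL.cons S24_82_364_512_17 (SL.cons S24_82_364_512_18 (SL.cons S24_82_364_512_19 (SL.cons S24_82_364_512_20 (SL.cons S24_82_364_512_21 (SL.cons S24_82_364_512_22 (SL.cons S24_82_364_512_23 (SL.cons S24_82_364_512_24 (SL.cons S24_82_364_512_25 (SL.cons S24_82_364_512_26 (SL.cons S24_82_364_512_27 (SL.cons S24_82_364_512_28 (SL.cons S24_82_364_512_29 (SL.cons S24_82_364_512_30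 (SL.cons S24_82_364_512_31 (SL.cons S24_82_364_512_32 (SL.cons S24_82_364_512_33 (SL.cons S24_82_364_512_34 (SL.cons S24_82_364_512_35 (SL.cons S24_82_364_512_36 (SL.cons S24_82_364_512_37 (SL.cons S24_82_364_512_38 (SL.cons S24_82_364_512_39 (SL.cons S24_82_364_512_40 (SL.cons S24_82_364_512_41 (SL.cons S24_82_364_512_42 (SL.cons S24_82_364_512_43 (SL.cons S24_82_364_512_44 (SL.cons S24_82_364_512_45 (SL.cons S24_82_364_512_46 (SL.cons S24_82_364_512_47 (SL.cons S24_82_364_512_48 SL.nil)))))))))))))))))))))))))))))))))))))))))))))))))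
theorem S24_53_216_364_ok : band (seq (shp 5 24 53 216 364) S24_53_216_364) (sok S24_53_216_364) = true := by decide +kernel

theorem S24_53_364_512_ok : band (seq (shp 5 24 53 364 512) S24_53_364_512) (sok S24_53_364_512) = true := by decide +kernel

theorem S24_53_512_660_ok : band (seq (shp 5 24 53 512 660) S24_53_512_660) (sok S24_53_512_660) = true := by decide +kernel

theorem S24_53_660_808_ok : band (seq (shp 5 24 53 660 808) S24_53_660_808) (sok S24_53_660_808) = true := by decide +kernel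

theorem S24_82_216_364_ok : band (seq (shp 5 24 82 216 364) S24_82_216_364) (sok S24_82_216_364) = true := by decide +kernel

theorem S24_82_364_512_ok : band (seq (shp 5 24 82 364 512) S24_82_364_512) (sok S24_82_364_512) = true := by decide +kernel

end Vale.Agent.P098.Ck
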