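import Vale.Agent.P098.CkDefs

namespace Vale.Agent.P098.Ck

noncomputable def S140_198_216_364_0 : EL := (EL.cons 0 (TM.mk (P.cons (P.lf 5792416443 0 0) (P.cons (P.lf 1327550055 0 0) (P.cons (P.lf 20882153 0 0) (P.cons (P.lf 0 49374168 0) (P.cons (P.lf 0 5384801 0) (P.cons (P.lf 616050 0 0) P.nil)))))) 235193)
 (EL.cons 1 (TM.mk (P.cons (P.lf 0 1788121471 0) (P.cons (P.lf 94132764 0 0) (P.cons (P.lf 179177853 0 0) (P.cons (P.lf 11443897 0 0) (P.cons (P.lf 0 3792305 0) (P.cons (P.lf 0 635690 0) P.nil)))))) 110845)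
 (EL.cons 5 (TM.mk (P.cons (P.lf 5241918562 0 0) (P.cons (P.lf 0 472017796 0) (P.cons (P.lf 0 7424770 0) (P.cons (P.lf 17555260 0 0) (P.cons (P.lf 1914598 0 0) (P.cons (P.lf 0 219040 0) P.nil)))))) 72457)
 (EL.cons 9 (TM.mk (P.lf 6442450944 0 0) 2)
 EL.nil))))
noncomputable def S140_198_216_364_1 : EL := (EL.cons 0 (TM.mk (P.cons (P.cons (P.lf 0 2655747164 0) (P.cons (P.lf 86820204 0 0) (P.cons (P.lf 37437842 0 0) (P.lf 0 4159756 0)))) (P.cons (P.cons (P.lf 3641583056 0 0) (P.cons (P.lf 0 158597043 0) (P.cons (P.lf 0 68388835 0) (P.lf 7598765 0 0)))) (P.cons (P.cons (P.lf 1275847864 0 0) (P.cons (P.lf 0 121193638 0) (P.cons (P.lf 0 52260061 0) (P.lf 5806659 0 0)))) (P.cons (P.cons (P.lf 0 338445406 0) (P.cons (P.lf 0 10327520 0) (P.cons (P.lf 0 4453344 0) P.nil))) (P.cons (P.cons (P.lf 0 165427090 0) (P.cons (P.lf 9699323 0 0) P.nil)) (P.cons (P.cons (P.lf 3196272 0 0) P.nil)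 P.nil)))))) 33750213)
 (EL.cons 1 (TM.mk (P.cons (P.cons (P.lf 0 789360399 0) (P.cons (P.lf 93030122 0 0) (P.cons (P.lf 40115629 0 0) (P.lf 0 4457287 0)))) (P.cons (P.cons (P.lf 0 1564640456 0) (P.cons (P.lf 124496797 0 0) (P.cons (P.lf 53684418 0 0) (P.lf 0 5964923 0)))) (P.cons (P.cons (P.lf 496047973 0 0) (P.cons (P.lf 5945848 0 0) (P.cons (P.lf 2563919 0 0) (P.lf 0 284876 0)))) (P.cons (P.cons (P.lf 317045447 0 0) (P.cons (P.lf 0 20698968 0) (P.cons (P.lf 0 8925629 0) P.nil))) (P.cons (P.cons (P.lf 0 21929071 0) (P.cons (P.lf 0 4289004 0) P.nil)) (P.cons (P.cons (P.lf 0 24842600 0) P.nil) P.nil)))))) 17710440)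
 (EL.cons 5 (TM.mk (P.cons (P.cons (P.lf 2940097866 0 0) (P.cons (P.lf 0 319341452 0) (P.cons (P.lf 0 137703636 0) (P.lf 15300398 0 0)))) (P.cons (P.cons (P.lf 989844440 0 0) (P.cons (P.lf 0 113739382 0) (P.cons (P.lf 0 49045706 0) (P.lf 5449520 0 0)))) (P.cons (P.cons (P.lf 0 692539427 0) (P.cons (P.lf 23692352 0 0) (P.cons (P.lf 10216404 0 0) (P.lf 0 1135150 0)))) (P.cons (P.cons (P.lf 0 26781804 0) (P.cons (P.lf 10569180 0 0) (P.cons (P.lf 4557550 0 0) P.nil))) (P.cons (P.cons (P.lf 56311855 0 0) (P.cons (P.lf 0 1628668 0) P.nil)) (P.cons (P.cons (P.lf 3758364 0 0) P.nil) P.nil)))))) 13362780)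
 (EL.cons 9 (TM.mk (P.cons (P.cons (P.lf 1761028410 0 0) (P.cons (P.lf 0 254534154 0) (P.cons (P.lf 0 109757994 0) (P.lf 12195330 0 0)))) (P.cons (P.cons (P.lf 2015849568 0 0) (P.cons (P.lf 0 150114210 0) (P.cons (P.lf 0 64730940 0) (P.lf 7192320 0 0)))) (P.cons (P.cons (P.lf 0 210798199 0) (P.cons (P.lf 0 17116512 0) (P.cons (P.lf 0 7380834 0) (P.lf 820086 0 0)))) (P.cons (P.cons (P.lf 0 129809940 0) (P.cons (P.lf 6085734 0 0) (P.cons (P.lf 2624238 0 0) P.nil))) (P.cons (P.cons (P.lf 0 2211766 0) (P.cons (P.lf 1605858 0 0) P.nil)) (P.cons (P.cons (P.lf 4318942 0 0) P.nil) P.nil)))))) 2640982)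
 (EL.cons 2 (TM.mk (P.cons (P.cons (P.lf 396080575 0 0) (P.cons (P.lf 368985698 0 0) (P.cons (P.lf 0 37869935 0) (P.cons (P.lf 0 7875891 0) (P.lf 656322 0 0))))) (P.cons (P.cons (P.lf 57013214 0 0) (P.cons (P.lf 53113083 0 0) (P.cons (P.lf 0 5451128 0) (P.cons (P.lf 0 1133682 0) (P.lf 94471 0 0))))) (P.cons (P.cons (P.lf 0 50216852 0) (P.cons (P.lf 0 46781642 0) (P.cons (P.lf 4801317 0 0) (P.cons (P.lf 998541 0 0) P.nil)))) (P.cons (P.cons (P.lf 0 11630927 0) (P.cons (P.lf 0 10835285 0) (P.cons (P.lf 1112051 0 0) P.nil))) (P.cons (P.cons (P.lf 1024650 0 0) (P.cons (P.lf 954556 0 0) P.nil)) (P.cons (P.cons (P.lf 532029 0 0) P.nil) P.nil)))))) 1390234)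
 (EL.cons 6 (TM.mk (P.cons (P.cons (P.lf 265925757 0 0) (P.cons (P.lf 247734444 0 0) (P.cons (P.lf 0 25425612 0) (P.cons (P.lf 0 5287818 0) (P.lf 440649 0 0))))) (P.cons (P.cons (P.lf 156832533 0 0) (P.cons (P.lf 146104011 0 0) (P.cons (P.lf 0 14995023 0) (P.cons (P.lf 0 3118545 0) (P.lf 259878 0 0))))) (P.cons (P.cons (P.lf 17882559 0 0) (P.cons (P.lf 16659258 0 0) (P.cons (P.lf 0 1709781 0) (P.cons (P.lf 0 355584 0) P.nil)))) (P.cons (P.cons (P.lf 0 6358104 0) (P.cons (P.lf 0 5923161 0) (P.cons (P.lf 607908 0 0) P.nil))) (P.cons (P.cons (P.lf 0 1677732 0) (P.cons (P.lf 0 1562961 0) P.nil)) (P.cons (P.cons (P.lf 21735 0 0) P.nil) P.nil)))))) 759483)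
 EL.nil))))))
noncomputable def S140_198_216_364_2 : EL := (EL.cons 0 (TM.mk (P.cons (P.cons (P.lf 0 1884687146 0) (P.cons (P.lf 382427773 0 0) (P.cons (P.lf 149005122 0 0) (P.cons (P.lf 0 32037280 0) (P.cons (P.lf 0 1433061 0) (P.cons (P.lf 657082 0 0) P.nil)))))) (P.cons (P.cons (P.lf 0 761188631 0) (P.cons (P.lf 49316697 0 0) (P.cons (P.lf 17014835 0 0) (P.cons (P.lf 0 6029092 0) (P.cons (P.lf 0 383095 0) P.nil))))) (P.cons (P.cons (P.lf 2458046300 0 0) (P.cons (P.lf 0 299508678 0) (P.cons (P.lf 0 119483273 0) (P.cons (P.lf 22688267 0 0) P.nil)))) (P.cons (P.cons (P.lf 558418678 0 0) (P.cons (P.lf 0 125535776 0) (P.cons (P.lf 0 47907462 0) P.nil))) (P.cons (P.cons (P.lf 0 413747255 0) (P.cons (P.lf 25604251 0 0) P.nil)) (P.cons (P.cons (P.lf 0 124569970 0) P.nil) P.nil)))))) 212897593)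
 (EL.cons 1 (TM.mk (P.cons (P.cons (P.lf 0 297933040 0) (P.cons (P.lf 74610419 0 0) (P.cons (P.lf 27612988 0 0) (P.cons (P.lf 0 7507287 0) (P.cons (P.lf 0 410922 0) (P.cons (P.lf 188413 0 0) P.nil)))))) (P.cons (P.cons (P.lf 0 1050519532 0) (P.cons (P.lf 221744615 0 0) (P.cons (P.lf 84591267 0 0) (P.cons (P.lf 0 20134667 0) (P.cons (P.lf 0 993781 0) P.nil))))) (P.cons (P.cons (P.lf 0 542718775 0) (P.cons (P.lf 96334246 0 0) (P.cons (P.lf 35667709 0 0) (P.cons (P.lf 0 9680329 0) P.nil)))) (P.cons (P.cons (P.lf 522606503 0 0) (P.cons (P.lf 0 49087750 0) (P.cons (P.lf 0 20625168 0) P.nil))) (P.cons (P.cons (P.lf 183536141 0 0) (P.cons (P.lf 0 33885473 0) P.nil)) (P.cons (P.cons (P.lf 0 58870191 0) P.nil) P.nil)))))) 116639081)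
 (EL.cons 5 (TM.mk (P.cons (P.cons (P.lf 1215666903 0 0) (P.cons (P.lf 0 293680592 0) (P.cons (P.lf 0 109587107 0) (P.cons (P.lf 28776327 0 0) (P.cons (P.lf 1536620 0 0) (P.cons (P.lf 0 704558 0) P.nil)))))) (P.cons (P.cons (P.lf 1519640777 0 0) (P.cons (P.lf 0 291070165 0) (P.cons (P.lf 0 110557990 0) (P.cons (P.lf 26843162 0 0) (P.cons (P.lf 1347695 0 0) P.nil))))) (P.cons (P.cons (P.lf 0 289717072 0) (P.cons (P.lf 8297151 0 0) (P.cons (P.lf 5637210 0 0) (P.cons (P.lf 1378537 0 0) P.nil)))) (P.cons (P.cons (P.lf 0 428484541 0) (P.cons (P.lf 59024098 0 0) (P.cons (P.lf 23597540 0 0) P.nil))) (P.cons (P.cons (P.lf 61490034 0 0) (P.cons (P.lf 4530967 0 0) P.nil)) (P.cons (P.cons (P.lf 55026292 0 0) P.nil) P.nil)))))) 94436787)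
 (EL.cons 9 (TM.mk (P.cons (P.cons (P.lf 481372863 0 0) (P.cons (P.lf 0 139152592 0) (P.cons (P.lf 0 49947799 0) (P.cons (P.lf 15339963 0 0) (P.cons (P.lf 906262 0 0) (P.cons (P.lf 0 415534 0) P.nil)))))) (P.cons (P.cons (P.lf 1102055223 0 0) (P.cons (P.lf 0 241354713 0) (P.cons (P.lf 0 92213176 0) (P.cons (P.lf 21793662 0 0) (P.cons (P.lf 1068957 0 0) P.nil))))) (P.cons (P.cons (P.lf 515519058 0 0) (P.cons (P.lf 0 86642487 0) (P.cons (P.lf 0 32510928 0) (P.cons (P.lf 8334237 0 0) P.nil)))) (P.cons (P.cons (P.lf 0 202884415 0) (P.cons (P.lf 12696318 0 0) (P.cons (P.lf 5791570 0 0) P.nil))) (P.cons (P.cons (P.lf 0 75547134 0) (P.cons (P.lf 12030607 0 0) P.nil)) (P.cons (P.cons (P.lf 9471826 0 0) P.nil) P.nil)))))) 25396337)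
 (EL.cons 2 (TM.mk (P.cons (P.cons (P.lf 216535336 0 0) (P.cons (P.lf 170425282 0 0) (P.cons (P.lf 0 63355545 0) (P.cons (P.lf 0 12386362 0) (P.cons (P.lf 3668450 0 0) (P.cons (P.lf 73119 0 0) P.nil)))))) (P.cons (P.cons (P.lf 279036894 0 0) (P.cons (P.lf 236985637 0 0) (P.cons (P.lf 0 57973308 0) (P.cons (P.lf 0 11477334 0) (P.cons (P.lf 2890676 0 0) P.nil))))) (P.cons (P.cons (P.lf 0 17693983 0) (P.cons (P.lf 0 17277097 0) (P.cons (P.lf 610335 0 0) (P.cons (P.lf 146958 0 0) P.nil)))) (P.cons (P.cons (P.lf 0 57476722 0) (P.cons (P.lf 0 49840301 0) (P.cons (P.lf 10544068 0 0) P.nil))) (P.cons (P.cons (P.lf 0 6001768 0) (P.cons (P.lf 0 4558145 0) P.nil)) (P.cons (P.cons (P.lf 4208776 0 0) P.nil) P.nil)))))) 20009390)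
 (EL.cons 6 (TM.mk (P.cons (P.cons (P.lf 145380324 0 0) (P.cons (P.lf 114422352 0 0) (P.cons (P.lf 0 42536472 0) (P.cons (P.lf 0 8316114 0) (P.cons (P.lf 2462970 0 0) (P.cons (P.lf 49092 0 0) P.nil)))))) (P.cons (P.cons (P.lf 252156474 0 0) (P.cons (P.lf 210121956 0 0) (P.cons (P.lf 0 57886368 0) (P.cons (P.lf 0 11413272 0) (P.cons (P.lf 3038814 0 0) P.nil))))) (P.cons (P.cons (P.lf 90520146 0 0) (P.cons (P.lf 74193168 0 0) (P.cons (P.lf 0 22466424 0) (P.cons (P.lf 0 4416624 0) P.nil)))) (P.cons (P.cons (P.lf 0 13264536 0) (P.cons (P.lf 0 13019046 0) (P.cons (P.lf 366192 0 0) P.nil))) (P.cons (P.cons (P.lf 0 12569034 0) (P.cons (P.lf 0 10946508 0) P.nil)) (P.cons (P.cons (P.lf 0 1093740 0) P.nil) P.nil)))))) 13487490)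
 EL.nil))))))
noncomputable def S140_198_216_364_3 : EL := (EL.cons 0 (TM.mk (P.cons (P.lf 2663300420 0 0) (P.cons (P.lf 0 1327550055 0) (P.cons (P.lf 0 20882153 0) (P.cons (P.lf 49374168 0 0) (P.cons (P.lf 5384801 0 0) (P.cons (P.lf 0 616050 0) P.nil)))))) 235193)
 (EL.cons 1 (TM.mk (P.cons (P.lf 1788121471 0 0) (P.cons (P.lf 0 94132764 0) (P.cons (P.lf 0 179177853 0) (P.cons (P.lf 0 11443897 0) (P.cons (P.lf 3792305 0 0) (P.cons (P.lf 635690 0 0) P.nil)))))) 110845)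
 (EL.cons 5 (TM.mk (P.cons (P.lf 1200532382 0 0) (P.cons (P.lf 472017796 0 0) (P.cons (P.lf 7424770 0 0) (P.cons (P.lf 0 17555260 0) (P.cons (P.lf 0 1914598 0) (P.cons (P.lf 219040 0 0) P.nil)))))) 72450)
 EL.nil)))
noncomputable def S140_198_216_364_4 : EL := (EL.cons 0 (TM.mk (P.cons (P.cons (P.lf 728006739 0 0) (P.cons (P.lf 0 105224071 0) (P.cons (P.lf 0 45373804 0) (P.lf 5041531 0 0)))) (P.cons (P.cons (P.lf 470466854 0 0) (P.cons (P.lf 0 9606965 0) (P.cons (P.lf 0 4142631 0) (P.lf 460290 0 0)))) (P.cons (P.cons (P.lf 0 508243559 0) (P.cons (P.lf 24682055 0 0) (P.cons (P.lf 10643180 0 0) (P.lf 0 1182575 0)))) (P.cons (P.cons (P.lf 0 3263303 0) (P.cons (P.lf 4578762 0 0) (P.cons (P.lf 1974413 0 0) P.nil))) (P.cons (P.cons (P.lf 43439088 0 0) (P.cons (P.lf 0 1897908 0) P.nil)) (P.cons (P.cons (P.lf 2562946 0 0) P.nil) P.nil)))))) 6732924)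
 (EL.cons 1 (TM.mk (P.cons (P.cons (P.lf 488778686 0 0) (P.cons (P.lf 0 70646713 0) (P.cons (P.lf 0 30463657 0) (P.lf 3384849 0 0)))) (P.cons (P.cons (P.lf 533774094 0 0) (P.cons (P.lf 0 37945563 0) (P.cons (P.lf 0 16362553 0) (P.lf 1818058 0 0)))) (P.cons (P.cons (P.lf 0 136939741 0) (P.cons (P.lf 4521748 0 0) (P.cons (P.lf 1949827 0 0) (P.lf 0 216646 0)))) (P.cons (P.cons (P.lf 0 92142191 0) (P.cons (P.lf 6566328 0 0) (P.cons (P.lf 2831475 0 0) P.nil))) (P.cons (P.cons (P.lf 4601355 0 0) (P.cons (P.lf 949655 0 0) P.nil)) (P.cons (P.cons (P.lf 6576161 0 0) P.nil) P.nil)))))) 4451424)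
 (EL.cons 5 (TM.mk (P.cons (P.cons (P.lf 328162626 0 0) (P.cons (P.lf 0 47431714 0) (P.cons (P.lf 0 20453088 0) (P.lf 2272564 0 0)))) (P.cons (P.cons (P.lf 504672748 0 0) (P.cons (P.lf 0 46622258 0) (P.cons (P.lf 0 20104042 0) (P.lf 2233780 0 0)))) (P.cons (P.cons (P.lf 110442754 0 0) (P.cons (P.lf 0 14481344 0) (P.cons (P.lf 0 6244518 0) (P.lf 693832 0 0)))) (P.cons (P.cons (P.lf 0 42109692 0) (P.cons (P.lf 400572 0 0) (P.cons (P.lf 172730 0 0) P.nil))) (P.cons (P.cons (P.lf 0 16182264 0) (P.cons (P.lf 1210096 0 0) P.nil)) (P.cons (P.cons (P.lf 528376 0 0) P.nil) P.nil)))))) 2759882)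
 EL.nil)))
noncomputable def S140_198_216_364_5 : EL := (EL.cons 0 (TM.mk (P.cons (P.cons (P.lf 198998883 0 0) (P.cons (P.lf 0 57525491 0) (P.cons (P.lf 0 20648351 0) (P.cons (P.lf 6341519 0 0) (P.cons (P.lf 374646 0 0) (P.cons (P.lf 0 171780 0) P.nil)))))) (P.cons (P.cons (P.lf 356395039 0 0) (P.cons (P.lf 0 71101522 0) (P.cons (P.lf 0 27828413 0) (P.cons (P.lf 5848472 0 0) (P.cons (P.lf 255157 0 0) P.nil))))) (P.cons (P.cons (P.lf 0 15538099 0) (P.cons (P.lf 14367403 0 0) (P.cons (P.lf 5723637 0 0) (P.cons (P.lf 0 1095224 0) P.nil)))) (P.cons (P.cons (P.lf 0 189984434 0) (P.cons (P.lf 22818304 0 0) (P.cons (P.lf 9009622 0 0) P.nil))) (P.cons (P.cons (P.lf 17753259 0 0) (P.cons (P.lf 672011 0 0) P.nil)) (P.cons (P.cons (P.lf 24966694 0 0) P.nil) P.nil)))))) 30215171)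
 (EL.cons 1 (TM.mk (P.cons (P.cons (P.lf 133606471 0 0) (P.cons (P.lf 0 38622215 0) (P.cons (P.lf 0 13863159 0) (P.cons (P.lf 4257650 0 0) (P.cons (P.lf 251535 0 0) (P.cons (P.lf 0 115331 0) P.nil)))))) (P.cons (P.cons (P.lf 298845215 0 0) (P.cons (P.lf 0 64955514 0) (P.cons (P.lf 0 24864236 0) (P.cons (P.lf 5824756 0 0) (P.cons (P.lf 283449 0 0) P.nil))))) (P.cons (P.cons (P.lf 113593387 0 0) (P.cons (P.lf 0 16651245 0) (P.cons (P.lf 0 6286995 0) (P.cons (P.lf 1568120 0 0) P.nil)))) (P.cons (P.cons (P.lf 0 95349097 0) (P.cons (P.lf 11749614 0 0) (P.cons (P.lf 4735856 0 0) P.nil))) (P.cons (P.cons (P.lf 0 34015822 0) (P.cons (P.lf 5910140 0 0) P.nil)) (P.cons (P.cons (P.lf 9155896 0 0) P.nil) P.nil)))))) 22084722)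
 (EL.cons 5 (TM.mk (P.cons (P.cons (P.lf 89702460 0 0) (P.cons (P.lf 0 25930688 0) (P.cons (P.lf 0 9307628 0) (P.cons (P.lf 2858556 0 0) (P.cons (P.lf 168878 0 0) (P.cons (P.lf 0 77432 0) P.nil)))))) (P.cons (P.cons (P.lf 240633502 0 0) (P.cons (P.lf 0 55171028 0) (P.cons (P.lf 0 20843178 0) (P.cons (P.lf 5185096 0 0) (P.cons (P.lf 265594 0 0) P.nil))))) (P.cons (P.cons (P.lf 177364342 0 0) (P.cons (P.lf 0 33989238 0) (P.cons (P.lf 0 12872046 0) (P.cons (P.lf 3167492 0 0) P.nil)))) (P.cons (P.cons (P.lf 0 78114 0) (P.cons (P.lf 0 3881068 0) (P.cons (P.lf 0 1272898 0) P.nil))) (P.cons (P.cons (P.lf 0 31494648 0) (P.cons (P.lf 3771264 0 0) P.nil)) (P.cons (P.cons (P.lf 0 5719770 0) P.nil) P.nil)))))) 12539002)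
 EL.nil)))
noncomputable def S140_198_216_364_6 : EL := (EL.cons 12 (TM.mk (P.lf 8589934592 0 0) 0)
 (EL.cons 3 (TM.mk (P.cons (P.lf 0 2391525476 0) (P.cons (P.lf 596040491 0 0) (P.cons (P.lf 83651283 0 0) (P.cons (P.lf 0 1319475 0) (P.cons (P.lf 0 1283523 0) (P.cons (P.lf 0 89452 0) P.nil)))))) 26268)
 (EL.cons 7 (TM.mk (P.cons (P.lf 0 1605653656 0) (P.cons (P.lf 0 315650420 0) (P.cons (P.lf 26061229 0 0) (P.cons (P.lf 6616358 0 0) (P.cons (P.lf 191151 0 0) (P.cons (P.lf 0 76666 0) P.nil)))))) 11720)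
 EL.nil)))
noncomputable def S140_198_216_364_7 : EL := (EL.cons 12 (TM.mk (P.cons (P.cons (P.lf 2348037880 0 0) (P.cons (P.lf 0 339378872 0) (P.cons (P.lf 0 146343992 0) (P.lf 16260440 0 0)))) (P.cons (P.cons (P.lf 2687799424 0 0) (P.cons (P.lf 0 200152280 0) (P.cons (P.lf 0 86307920 0) (P.lf 9589760 0 0)))) (P.cons (P.cons (P.lf 0 281064266 0) (P.cons (P.lf 0 22822016 0) (P.cons (P.lf 0 9841112 0) (P.lf 1093448 0 0)))) (P.cons (P.cons (P.lf 0 173079920 0) (P.cons (P.lf 8114312 0 0) (P.cons (P.lf 3498984 0 0) P.nil))) (P.cons (P.cons (P.lf 0 2949022 0) (P.cons (P.lf 2141144 0 0) P.nil)) (P.cons (P.cons (P.lf 5758590 0 0) P.nil) P.nil)))))) 3521284)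
 (EL.cons 3 (TM.mk (P.cons (P.cons (P.lf 3152797003 0 0) (P.cons (P.lf 0 188973084 0) (P.cons (P.lf 0 81487320 0) (P.lf 9054144 0 0)))) (P.cons (P.cons (P.lf 0 953310951 0) (P.cons (P.lf 0 64351064 0) (P.cons (P.lf 0 27748904 0) (P.lf 3083206 0 0)))) (P.cons (P.cons (P.lf 0 608648896 0) (P.cons (P.lf 21678604 0 0) (P.cons (P.lf 9348058 0 0) (P.lf 0 1038674 0)))) (P.cons (P.cons (P.lf 0 29998444 0) (P.cons (P.lf 11479392 0 0) (P.cons (P.lf 4950044 0 0) P.nil))) (P.cons (P.cons (P.lf 37994629 0 0) (P.cons (P.lf 347738 0 0) P.nil)) (P.cons (P.cons (P.lf 6766866 0 0) P.nil) P.nil)))))) 11579008)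
 (EL.cons 7 (TM.mk (P.cons (P.cons (P.lf 0 2454751138 0) (P.cons (P.lf 213551829 0 0) (P.cons (P.lf 92085961 0 0) (P.lf 0 10231774 0)))) (P.cons (P.cons (P.lf 504853278 0 0) (P.cons (P.lf 34078965 0 0) (P.cons (P.lf 14695237 0 0) (P.lf 0 1632807 0)))) (P.cons (P.cons (P.lf 209791452 0 0) (P.cons (P.lf 0 19077021 0) (P.cons (P.lf 0 8226227 0) (P.lf 914022 0 0)))) (P.cons (P.cons (P.lf 0 68319010 0) (P.cons (P.lf 0 1884487 0) (P.cons (P.lf 0 812611 0) P.nil))) (P.cons (P.cons (P.lf 0 16362692 0) (P.cons (P.lf 1315813 0 0) P.nil)) (P.cons (P.cons (P.lf 2485992 0 0) P.nil) P.nil)))))) 7702427)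
 (EL.cons 10 (TM.mk (P.cons (P.cons (P.lf 0 711325530 0) (P.cons (P.lf 0 662665536 0) (P.cons (P.lf 68011041 0 0) (P.cons (P.lf 14144403 0 0) (P.lf 0 1178700 0))))) (P.cons (P.cons (P.lf 0 279674511 0) (P.cons (P.lf 0 260542680 0) (P.cons (P.lf 26740155 0 0) (P.cons (P.lf 5561208 0 0) (P.lf 0 463434 0))))) (P.cons (P.cons (P.lf 0 4399236 0) (P.cons (P.lf 0 4098297 0) (P.cons (P.lf 420618 0 0) (P.cons (P.lf 87474 0 0) P.nil)))) (P.cons (P.cons (P.lf 10401639 0 0) (P.cons (P.lf 9690087 0 0) (P.cons (P.lf 0 994518 0) P.nil))) (P.cons (P.cons (P.lf 1134414 0 0) (P.cons (P.lf 1056810 0 0) P.nil)) (P.cons (P.cons (P.lf 0 129783 0) P.nil) P.nil)))))) 588420)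
 EL.nil))))
noncomputable def S140_198_216_364_8 : EL := (EL.cons 12 (TM.mk (P.cons (P.cons (P.lf 641830484 0 0) (P.cons (P.lf 0 185536790 0) (P.cons (P.lf 0 66597066 0) (P.cons (P.lf 20453284 0 0) (P.cons (P.lf 1208350 0 0) (P.cons (P.lf 0 554046 0) P.nil)))))) (P.cons (P.cons (P.lf 1469406964 0 0) (P.cons (P.lf 0 321806284 0) (P.cons (P.lf 0 122950902 0) (P.cons (P.lf 29058216 0 0) (P.cons (P.lf 1425276 0 0) P.nil))))) (P.cons (P.cons (P.lf 687358744 0 0) (P.cons (P.lf 0 115523316 0) (P.cons (P.lf 0 43347904 0) (P.cons (P.lf 11112316 0 0) P.nil)))) (P.cons (P.cons (P.lf 0 270512554 0) (P.cons (P.lf 16928424 0 0) (P.cons (P.lf 7722094 0 0) P.nil))) (P.cons (P.cons (P.lf 0 100729512 0) (P.cons (P.lf 16040810 0 0) P.nil)) (P.cons (P.cons (P.lf 12629102 0 0) P.nil) P.nil)))))) 33861754)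
 (EL.cons 3 (TM.mk (P.cons (P.cons (P.lf 1902311050 0 0) (P.cons (P.lf 0 404093091 0) (P.cons (P.lf 0 155584194 0) (P.cons (P.lf 35458422 0 0) (P.cons (P.lf 1682086 0 0) (P.cons (P.lf 0 771261 0) P.nil)))))) (P.cons (P.cons (P.lf 1816418802 0 0) (P.cons (P.lf 0 301757045 0) (P.cons (P.lf 0 112756877 0) (P.cons (P.lf 29433118 0 0) (P.cons (P.lf 1564831 0 0) P.nil))))) (P.cons (P.cons (P.lf 0 1052491800 0) (P.cons (P.lf 51687531 0 0) (P.cons (P.lf 25150751 0 0) (P.cons (P.lf 0 7793 0) P.nil)))) (P.cons (P.cons (P.lf 0 599180103 0) (P.cons (P.lf 89259485 0 0) (P.cons (P.lf 36074182 0 0) P.nil))) (P.cons (P.cons (P.lf 62434819 0 0) (P.cons (P.lf 14417974 0 0) P.nil)) (P.cons (P.cons (P.lf 72320593 0 0) P.nil) P.nil)))))) 101578519)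
 (EL.cons 7 (TM.mk (P.cons (P.cons (P.lf 0 1222027910 0) (P.cons (P.lf 276035751 0 0) (P.cons (P.lf 104661680 0 0) (P.cons (P.lf 0 25616850 0) (P.cons (P.lf 0 1294822 0) (P.cons (P.lf 593691 0 0) P.nil)))))) (P.cons (P.cons (P.lf 0 961936939 0) (P.cons (P.lf 159804141 0 0) (P.cons (P.lf 59713663 0 0) (P.cons (P.lf 0 15587159 0) (P.cons (P.lf 0 828697 0) P.nil))))) (P.cons (P.cons (P.lf 771801336 0 0) (P.cons (P.lf 0 62994326 0) (P.cons (P.lf 0 26629984 0) (P.cons (P.lf 3478625 0 0) P.nil)))) (P.cons (P.cons (P.lf 129563465 0 0) (P.cons (P.lf 0 35464605 0) (P.cons (P.lf 0 13774160 0) P.nil))) (P.cons (P.cons (P.lf 0 116088173 0) (P.cons (P.lf 6583426 0 0) P.nil)) (P.cons (P.cons (P.lf 0 17578547 0) P.nil) P.nil)))))) 58970935)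
 (EL.cons 10 (TM.mk (P.cons (P.cons (P.lf 0 388878228 0) (P.cons (P.lf 0 306068664 0) (P.cons (P.lf 113780934 0 0) (P.cons (P.lf 22244808 0 0) (P.cons (P.lf 0 6588216 0) (P.cons (P.lf 0 131322 0) P.nil)))))) (P.cons (P.cons (P.lf 0 598045692 0) (P.cons (P.lf 0 501886722 0) (P.cons (P.lf 132472566 0 0) (P.cons (P.lf 26156358 0 0) (P.cons (P.lf 0 6833382 0) P.nil))))) (P.cons (P.cons (P.lf 0 130876518 0) (P.cons (P.lf 0 104762946 0) (P.cons (P.lf 35899908 0 0) (P.cons (P.lf 7033110 0 0) P.nil)))) (P.cons (P.cons (P.lf 49900692 0 0) (P.cons (P.lf 46012422 0 0) (P.cons (P.lf 0 5417988 0) P.nil))) (P.cons (P.cons (P.lf 19176252 0 0) (P.cons (P.lf 16430466 0 0) P.nil)) (P.cons (P.cons (P.lf 0 626130 0) P.nil) P.nil)))))) 19637010)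
 EL.nil))))
noncomputable def S140_198_216_364_9 : EL := (EL.cons 3 (TM.mk (P.cons (P.lf 0 2391525476 0) (P.cons (P.lf 596040491 0 0) (P.cons (P.lf 83651283 0 0) (P.cons (P.lf 0 1319475 0) (P.cons (P.lf 0 1283523 0) (P.cons (P.lf 0 89452 0) P.nil)))))) 26268)
 (EL.cons 7 (TM.mk (P.cons (P.lf 0 1605653656 0) (P.cons (P.lf 0 315650420 0) (P.cons (P.lf 26061229 0 0) (P.cons (P.lf 6616358 0 0) (P.cons (P.lf 191151 0 0) (P.cons (P.lf 0 76666 0) P.nil)))))) 11720)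
 EL.nil))
noncomputable def S140_198_216_364_10 : EL := (EL.cons 3 (TM.mk (P.cons (P.cons (P.lf 0 653717714 0) (P.cons (P.lf 94486542 0 0) (P.cons (P.lf 40743660 0 0) (P.lf 0 4527072 0)))) (P.cons (P.cons (P.lf 0 585384567 0) (P.cons (P.lf 32175532 0 0) (P.cons (P.lf 13874452 0 0) (P.lf 0 1541603 0)))) (P.cons (P.cons (P.lf 287618723 0 0) (P.cons (P.lf 0 10839302 0) (P.cons (P.lf 0 4674029 0) (P.lf 519337 0 0)))) (P.cons (P.cons (P.lf 54498557 0 0) (P.cons (P.lf 0 5739696 0) (P.cons (P.lf 0 2475022 0) P.nil))) (P.cons (P.cons (P.lf 0 14689472 0) (P.cons (P.lf 0 173869 0) P.nil)) (P.cons (P.cons (P.lf 0 3876273 0) P.nil) P.nil)))))) 2803815)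
 (EL.cons 7 (TM.mk (P.cons (P.cons (P.lf 0 438901549 0) (P.cons (P.lf 63437610 0 0) (P.cons (P.lf 27355012 0 0) (P.lf 0 3039445 0)))) (P.cons (P.cons (P.lf 0 588692970 0) (P.cons (P.lf 49884003 0 0) (P.cons (P.lf 21510544 0 0) (P.lf 0 2390058 0)))) (P.cons (P.cons (P.lf 0 39106281 0) (P.cons (P.lf 10591206 0 0) (P.cons (P.lf 4567048 0 0) (P.lf 0 507447 0)))) (P.cons (P.cons (P.lf 52643855 0 0) (P.cons (P.lf 0 1546771 0) (P.cons (P.lf 0 666985 0) P.nil))) (P.cons (P.cons (P.lf 8181115 0 0) (P.cons (P.lf 0 929360 0) P.nil)) (P.cons (P.cons (P.lf 0 1670790 0) P.nil) P.nil)))))) 1719484)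
 EL.nil))
noncomputable def S140_198_216_364_11 : EL := (EL.cons 3 (TM.mk (P.cons (P.cons (P.lf 0 178692158 0) (P.cons (P.lf 51655335 0 0) (P.cons (P.lf 18541302 0 0) (P.cons (P.lf 0 5694402 0) (P.cons (P.lf 0 336416 0) (P.cons (P.lf 154251 0 0) P.nil)))))) (P.cons (P.cons (P.lf 0 364562406 0) (P.cons (P.lf 76720081 0 0) (P.cons (P.lf 29609731 0 0) (P.cons (P.lf 0 6670886 0) (P.cons (P.lf 0 312965 0) P.nil))))) (P.cons (P.cons (P.lf 0 83157786 0) (P.cons (P.lf 8026485 0 0) (P.cons (P.lf 2888609 0 0) (P.cons (P.lf 0 878303 0) P.nil)))) (P.cons (P.cons (P.lf 137218995 0 0) (P.cons (P.lf 0 15834349 0) (P.cons (P.lf 0 6344846 0) P.nil))) (P.cons (P.cons (P.lf 15645817 0 0) (P.cons (P.lf 0 4339136 0) P.nil)) (P.cons (P.cons (P.lf 0 13471673 0) P.nil) P.nil)))))) 18338973)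
 (EL.cons 7 (TM.mk (P.cons (P.cons (P.lf 0 119972678 0) (P.cons (P.lf 34681035 0 0) (P.cons (P.lf 12448502 0 0) (P.cons (P.lf 0 3823182 0) (P.cons (P.lf 0 225868 0) (P.cons (P.lf 103563 0 0) P.nil)))))) (P.cons (P.cons (P.lf 0 298250551 0) (P.cons (P.lf 66970731 0 0) (P.cons (P.lf 25429525 0 0) (P.cons (P.lf 0 6183227 0) (P.cons (P.lf 0 310819 0) P.nil))))) (P.cons (P.cons (P.lf 0 180531306 0) (P.cons (P.lf 32856292 0 0) (P.cons (P.lf 12418676 0 0) (P.cons (P.lf 0 3082879 0) P.nil)))) (P.cons (P.cons (P.lf 30259313 0 0) (P.cons (P.lf 0 38469 0) (P.cons (P.lf 0 274868 0) P.nil))) (P.cons (P.cons (P.lf 32000515 0 0) (P.cons (P.lf 0 4222940 0) P.nil)) (P.cons (P.cons (P.lf 1076485 0 0) P.nil) P.nil)))))) 10923777)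
 EL.nil))
noncomputable def S140_198_216_364_12 : EL := (EL.cons 4 (TM.mk (P.cons (P.lf 2391525476 0 0) (P.cons (P.lf 0 596040491 0) (P.cons (P.lf 0 83651283 0) (P.cons (P.lf 1319475 0 0) (P.cons (P.lf 1283523 0 0) (P.cons (P.lf 89452 0 0) P.nil)))))) 26268)
 (EL.cons 8 (TM.mk (P.cons (P.lf 1605653656 0 0) (P.cons (P.lf 315650420 0 0) (P.cons (P.lf 0 26061229 0) (P.cons (P.lf 0 6616358 0) (P.cons (P.lf 0 191151 0) (P.cons (P.lf 76666 0 0) P.nil)))))) 11720)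
 EL.nil))
noncomputable def S140_198_216_364_13 : EL := (EL.cons 4 (TM.mk (P.cons (P.cons (P.lf 653717714 0 0) (P.cons (P.lf 0 94486542 0) (P.cons (P.lf 0 40743660 0) (P.lf 4527072 0 0)))) (P.cons (P.cons (P.lf 585384567 0 0) (P.cons (P.lf 0 32175532 0) (P.cons (P.lf 0 13874452 0) (P.lf 1541603 0 0)))) (P.cons (P.cons (P.lf 0 287618723 0) (P.cons (P.lf 10839302 0 0) (P.cons (P.lf 4674029 0 0) (P.lf 0 519337 0)))) (P.cons (P.cons (P.lf 0 54498557 0) (P.cons (P.lf 5739696 0 0) (P.cons (P.lf 2475022 0 0) P.nil))) (P.cons (P.cons (P.lf 14689472 0 0) (P.cons (P.lf 173869 0 0) P.nil)) (P.cons (P.cons (P.lf 3876273 0 0) P.nil) P.nil)))))) 2803815)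
 (EL.cons 8 (TM.mk (P.cons (P.cons (P.lf 438901549 0 0) (P.cons (P.lf 0 63437610 0) (P.cons (P.lf 0 27355012 0) (P.lf 3039445 0 0)))) (P.cons (P.cons (P.lf 588692970 0 0) (P.cons (P.lf 0 49884003 0) (P.cons (P.lf 0 21510544 0) (P.lf 2390058 0 0)))) (P.cons (P.cons (P.lf 39106281 0 0) (P.cons (P.lf 0 10591206 0) (P.cons (P.lf 0 4567048 0) (P.lf 507447 0 0)))) (P.cons (P.cons (P.lf 0 52643855 0) (P.cons (P.lf 1546771 0 0) (P.cons (P.lf 666985 0 0) P.nil))) (P.cons (P.cons (P.lf 0 8181115 0) (P.cons (P.lf 929360 0 0) P.nil)) (P.cons (P.cons (P.lf 1670790 0 0) P.nil) P.nil)))))) 1719484)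
 EL.nil))
noncomputable def S140_198_216_364_14 : EL := (EL.cons 4 (TM.mk (P.cons (P.cons (P.lf 178692158 0 0) (P.cons (P.lf 0 51655335 0) (P.cons (P.lf 0 18541302 0) (P.cons (P.lf 5694402 0 0) (P.cons (P.lf 336416 0 0) (P.cons (P.lf 0 154251 0) P.nil)))))) (P.cons (P.cons (P.lf 364562406 0 0) (P.cons (P.lf 0 76720081 0) (P.cons (P.lf 0 29609731 0) (P.cons (P.lf 6670886 0 0) (P.cons (P.lf 312965 0 0) P.nil))))) (P.cons (P.cons (P.lf 83157786 0 0) (P.cons (P.lf 0 8026485 0) (P.cons (P.lf 0 2888609 0) (P.cons (P.lf 878303 0 0) P.nil)))) (P.cons (P.cons (P.lf 0 137218995 0) (P.cons (P.lf 15834349 0 0) (P.cons (P.lf 6344846 0 0) P.nil))) (P.cons (P.cons (P.lf 0 15645817 0) (P.cons (P.lf 4339136 0 0) P.nil)) (P.cons (P.cons (P.lf 13471673 0 0) P.nil) P.nil)))))) 18338973)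
 (EL.cons 8 (TM.mk (P.cons (P.cons (P.lf 119972678 0 0) (P.cons (P.lf 0 34681035 0) (P.cons (P.lf 0 12448502 0) (P.cons (P.lf 3823182 0 0) (P.cons (P.lf 225868 0 0) (P.cons (P.lf 0 103563 0) P.nil)))))) (P.cons (P.cons (P.lf 298250551 0 0) (P.cons (P.lf 0 66970731 0) (P.cons (P.lf 0 25429525 0) (P.cons (P.lf 6183227 0 0) (P.cons (P.lf 310819 0 0) P.nil))))) (P.cons (P.cons (P.lf 180531306 0 0) (P.cons (P.lf 0 32856292 0) (P.cons (P.lf 0 12418676 0) (P.cons (P.lf 3082879 0 0) P.nil)))) (P.cons (P.cons (P.lf 0 30259313 0) (P.cons (P.lf 38469 0 0) (P.cons (P.lf 274868 0 0) P.nil))) (P.cons (P.cons (P.lf 0 32000515 0) (P.cons (P.lf 4222940 0 0) P.nil)) (P.cons (P.cons (P.lf 0 1076485 0) P.nil) P.nil)))))) 10923777)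
 EL.nil))
noncomputable def S140_198_216_364_15 : EL := (EL.cons 4 (TM.mk (P.cons (P.lf 0 1420426890 0) (P.cons (P.lf 708026696 0 0) (P.cons (P.lf 11137148 0 0) (P.cons (P.lf 0 26332890 0) (P.cons (P.lf 0 2871894 0) (P.cons (P.lf 328560 0 0) P.nil)))))) 125439)
 (EL.cons 8 (TM.mk (P.cons (P.lf 0 953664785 0) (P.cons (P.lf 50204141 0 0) (P.cons (P.lf 95561522 0 0) (P.cons (P.lf 6103412 0 0) (P.cons (P.lf 0 2022563 0) (P.cons (P.lf 0 339035 0) P.nil)))))) 59114)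
 EL.nil))
noncomputable def S140_198_216_364_16 : EL := (EL.cons 4 (TM.mk (P.cons (P.cons (P.lf 0 388270260 0) (P.cons (P.lf 56119504 0 0) (P.cons (P.lf 24199362 0 0) (P.lf 0 2688816 0)))) (P.cons (P.cons (P.lf 0 250915655 0) (P.cons (P.lf 5123715 0 0) (P.cons (P.lf 2209403 0 0) (P.lf 0 245488 0)))) (P.cons (P.cons (P.lf 271063231 0 0) (P.cons (P.lf 0 13163762 0) (P.cons (P.lf 0 5676362 0) (P.lf 630706 0 0)))) (P.cons (P.cons (P.lf 1740428 0 0) (P.cons (P.lf 0 2442006 0) (P.cons (P.lf 0 1053020 0) P.nil))) (P.cons (P.cons (P.lf 0 23167514 0) (P.cons (P.lf 1012217 0 0) P.nil)) (P.cons (P.cons (P.lf 0 1366905 0) P.nil) P.nil)))))) 3590901)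
 (EL.cons 8 (TM.mk (P.cons (P.cons (P.lf 0 260681966 0) (P.cons (P.lf 37678247 0 0) (P.cons (P.lf 16247284 0 0) (P.lf 0 1805253 0)))) (P.cons (P.cons (P.lf 0 284679517 0) (P.cons (P.lf 20237634 0 0) (P.cons (P.lf 8726695 0 0) (P.lf 0 969631 0)))) (P.cons (P.cons (P.lf 73034529 0 0) (P.cons (P.lf 0 2411599 0) (P.cons (P.lf 0 1039908 0) (P.lf 115545 0 0)))) (P.cons (P.cons (P.lf 49142502 0 0) (P.cons (P.lf 0 3502042 0) (P.cons (P.lf 0 1510120 0) P.nil))) (P.cons (P.cons (P.lf 0 2454056 0) (P.cons (P.lf 0 506483 0) P.nil)) (P.cons (P.cons (P.lf 0 3507286 0) P.nil) P.nil)))))) 2374083)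
 EL.nil))
noncomputable def S140_198_216_364_17 : EL := (EL.cons 4 (TM.mk (P.cons (P.cons (P.lf 0 106132738 0) (P.cons (P.lf 30680262 0 0) (P.cons (P.lf 11012454 0 0) (P.cons (P.lf 0 3382143 0) (P.cons (P.lf 0 199811 0) (P.cons (P.lf 91616 0 0) P.nil)))))) (P.cons (P.cons (P.lf 0 190077354 0) (P.cons (P.lf 37920811 0 0) (P.cons (P.lf 14841820 0 0) (P.cons (P.lf 0 3119185 0) (P.cons (P.lf 0 136083 0) P.nil))))) (P.cons (P.cons (P.lf 8286986 0 0) (P.cons (P.lf 0 7662615 0) (P.cons (P.lf 0 3052606 0) (P.cons (P.lf 584119 0 0) P.nil)))) (P.cons (P.cons (P.lf 101325031 0 0) (P.cons (P.lf 0 12169762 0) (P.cons (P.lf 0 4805131 0) P.nil))) (P.cons (P.cons (P.lf 0 9468405 0) (P.cons (P.lf 0 358406 0) P.nil)) (P.cons (P.cons (P.lf 0 13315570 0) P.nil) P.nil)))))) 16114768)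
 (EL.cons 8 (TM.mk (P.cons (P.cons (P.lf 0 71256785 0) (P.cons (P.lf 20598515 0 0) (P.cons (P.lf 7393685 0 0) (P.cons (P.lf 0 2270747 0) (P.cons (P.lf 0 134152 0) (P.cons (P.lf 61510 0 0) P.nil)))))) (P.cons (P.cons (P.lf 0 159384115 0) (P.cons (P.lf 34642941 0 0) (P.cons (P.lf 13260926 0 0) (P.cons (P.lf 0 3106537 0) (P.cons (P.lf 0 151173 0) P.nil))))) (P.cons (P.cons (P.lf 0 60583140 0) (P.cons (P.lf 8880664 0 0) (P.cons (P.lf 3353064 0 0) (P.cons (P.lf 0 836331 0) P.nil)))) (P.cons (P.cons (P.lf 50852852 0 0) (P.cons (P.lf 0 6266461 0) (P.cons (P.lf 0 2525790 0) P.nil))) (P.cons (P.cons (P.lf 18141772 0 0) (P.cons (P.lf 0 3152075 0) P.nil)) (P.cons (P.cons (P.lf 0 4883145 0) P.nil) P.nil)))))) 11778507)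
 EL.nil))
noncomputable def S140_198_216_364_18 : EL := (EL.cons 4 (TM.mk (P.cons (P.lf 843650871 0 0) (P.cons (P.lf 0 630789950 0) (P.cons (P.lf 68683740 0 0) (P.cons (P.lf 32463552 0 0) (P.cons (P.lf 0 1740131 0) (P.cons (P.lf 0 1365121 0) P.nil)))))) 264319)
 (EL.cons 8 (TM.mk (P.cons (P.lf 566421357 0 0) (P.cons (P.lf 0 170987672 0) (P.cons (P.lf 0 69138754 0) (P.cons (P.lf 11876237 0 0) (P.cons (P.lf 4377599 0 0) (P.cons (P.lf 2637 0 0) P.nil)))))) 178385)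
 EL.nil))
noncomputable def S140_198_216_364_19 : EL := (EL.cons 4 (TM.mk (P.cons (P.cons (P.lf 230609927 0 0) (P.cons (P.lf 0 33331717 0) (P.cons (P.lf 0 14373012 0) (P.lf 1597000 0 0)))) (P.cons (P.cons (P.lf 91554320 0 0) (P.cons (P.lf 5264083 0 0) (P.cons (P.lf 2269931 0 0) (P.lf 0 252214 0)))) (P.cons (P.cons (P.lf 0 206204707 0) (P.cons (P.lf 9742846 0 0) (P.cons (P.lf 4201225 0 0) (P.lf 0 466802 0)))) (P.cons (P.cons (P.lf 34005760 0 0) (P.cons (P.lf 0 410143 0) (P.cons (P.lf 0 176857 0) P.nil))) (P.cons (P.cons (P.lf 19855122 0 0) (P.cons (P.lf 0 1255729 0) P.nil)) (P.cons (P.cons (P.lf 0 2581643 0) P.nil) P.nil)))))) 4225402)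
 (EL.cons 8 (TM.mk (P.cons (P.cons (P.lf 154829910 0 0) (P.cons (P.lf 0 22378685 0) (P.cons (P.lf 0 9649940 0) (P.lf 1072215 0 0)))) (P.cons (P.cons (P.lf 130494761 0 0) (P.cons (P.lf 0 6442531 0) (P.cons (P.lf 0 2778091 0) (P.lf 308676 0 0)))) (P.cons (P.cons (P.lf 0 90934544 0) (P.cons (P.lf 5210857 0 0) (P.cons (P.lf 2246980 0 0) (P.lf 0 249664 0)))) (P.cons (P.cons (P.lf 0 24205409 0) (P.cons (P.lf 2131114 0 0) (P.cons (P.lf 918960 0 0) P.nil))) (P.cons (P.cons (P.lf 10425724 0 0) (P.cons (P.lf 0 286322 0) P.nil)) (P.cons (P.cons (P.lf 2813395 0 0) P.nil) P.nil)))))) 2415313)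
 EL.nil))
noncomputable def S140_198_216_364_20 : EL := (EL.cons 4 (TM.mk (P.cons (P.cons (P.lf 63036666 0 0) (P.cons (P.lf 0 18222288 0) (P.cons (P.lf 0 6540756 0) (P.cons (P.lf 2008796 0 0) (P.cons (P.lf 118676 0 0) (P.cons (P.lf 0 54414 0) P.nil)))))) (P.cons (P.cons (P.lf 97184237 0 0) (P.cons (P.lf 0 17981208 0) (P.cons (P.lf 0 7185022 0) (P.cons (P.lf 1351961 0 0) (P.cons (P.lf 51247 0 0) P.nil))))) (P.cons (P.cons (P.lf 0 35263716 0) (P.cons (P.lf 10801881 0 0) (P.cons (P.lf 4238863 0 0) (P.cons (P.lf 0 878924 0) P.nil)))) (P.cons (P.cons (P.lf 0 62868542 0) (P.cons (P.lf 6871598 0 0) (P.cons (P.lf 2706826 0 0) P.nil))) (P.cons (P.cons (P.lf 20890930 0 0) (P.cons (P.lf 0 1769992 0) P.nil)) (P.cons (P.cons (P.lf 8672343 0 0) P.nil) P.nil)))))) 15751702)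
 (EL.cons 8 (TM.mk (P.cons (P.cons (P.lf 42322382 0 0) (P.cons (P.lf 0 12234319 0) (P.cons (P.lf 0 4391418 0) (P.cons (P.lf 1348692 0 0) (P.cons (P.lf 79678 0 0) (P.cons (P.lf 0 36533 0) P.nil)))))) (P.cons (P.cons (P.lf 84116866 0 0) (P.cons (P.lf 0 17526727 0) (P.cons (P.lf 0 6781744 0) (P.cons (P.lf 1508967 0 0) (P.cons (P.lf 69929 0 0) P.nil))))) (P.cons (P.cons (P.lf 10909144 0 0) (P.cons (P.lf 281470 0 0) (P.cons (P.lf 125070 0 0) (P.cons (P.lf 0 10297 0) P.nil)))) (P.cons (P.cons (P.lf 0 42459507 0) (P.cons (P.lf 5749460 0 0) (P.cons (P.lf 2269594 0 0) P.nil))) (P.cons (P.cons (P.lf 0 4431170 0) (P.cons (P.lf 1111113 0 0) P.nil)) (P.cons (P.cons (P.lf 6714509 0 0) P.nil) P.nil)))))) 9947664)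
 EL.nil))
noncomputable def S140_198_216_364_21 : EL := (EL.cons 4 (TM.mk (P.cons (P.cons (P.lf 0 3806514717 0) (P.cons (P.lf 283459626 0 0) (P.cons (P.lf 122230980 0 0) (P.lf 0 13581216 0)))) (P.cons (P.cons (P.lf 367926384 0 0) (P.cons (P.lf 96526596 0 0) (P.cons (P.lf 41623356 0 0) (P.lf 0 4624809 0)))) (P.cons (P.cons (P.lf 896267619 0 0) (P.cons (P.lf 0 32517906 0) (P.cons (P.lf 0 14022087 0) (P.lf 1558011 0 0)))) (P.cons (P.cons (P.lf 84497001 0 0) (P.cons (P.lf 0 17219088 0) (P.cons (P.lf 0 7425066 0) P.nil))) (P.cons (P.cons (P.lf 0 52684101 0) (P.cons (P.lf 0 521607 0) P.nil)) (P.cons (P.cons (P.lf 0 10643139 0) P.nil) P.nil)))))) 8775174)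
 (EL.cons 8 (TM.mk (P.cons (P.cons (P.lf 2015849589 0 0) (P.cons (P.lf 0 150114219 0) (P.cons (P.lf 0 64730949 0) (P.lf 7192329 0 0)))) (P.cons (P.cons (P.lf 0 1093546248 0) (P.cons (P.lf 15805038 0 0) (P.cons (P.lf 6815307 0 0) (P.lf 0 757251 0)))) (P.cons (P.cons (P.lf 0 248897733 0) (P.cons (P.lf 29668227 0 0) (P.cons (P.lf 12793275 0 0) (P.lf 0 1421469 0)))) (P.cons (P.cons (P.lf 120962865 0 0) (P.cons (P.lf 337716 0 0) (P.cons (P.lf 145626 0 0) P.nil))) (P.cons (P.cons (P.lf 24543807 0 0) (P.cons (P.lf 0 2245173 0) P.nil)) (P.cons (P.cons (P.lf 0 4156782 0) P.nil) P.nil)))))) 5982924)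
 (EL.cons 11 (TM.mk (P.cons (P.cons (P.lf 711325530 0 0) (P.cons (P.lf 662665536 0 0) (P.cons (P.lf 0 68011041 0) (P.cons (P.lf 0 14144403 0) (P.lf 1178700 0 0))))) (P.cons (P.cons (P.lf 279674511 0 0) (P.cons (P.lf 260542680 0 0) (P.cons (P.lf 0 26740155 0) (P.cons (P.lf 0 5561208 0) (P.lf 463434 0 0))))) (P.cons (P.cons (P.lf 4399236 0 0) (P.cons (P.lf 4098297 0 0) (P.cons (P.lf 0 420618 0) (P.cons (P.lf 0 87474 0) P.nil)))) (P.cons (P.cons (P.lf 0 10401639 0) (P.cons (P.lf 0 9690087 0) (P.cons (P.lf 994518 0 0) P.nil))) (P.cons (P.cons (P.lf 0 1134414 0) (P.cons (P.lf 0 1056810 0) P.nil)) (P.cons (P.cons (P.lf 129783 0 0) P.nil) P.nil)))))) 588420)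
 EL.nil)))
noncomputable def S140_198_216_364_22 : EL := (EL.cons 4 (TM.mk (P.cons (P.cons (P.lf 0 1040501604 0) (P.cons (P.lf 227874213 0 0) (P.cons (P.lf 87062748 0 0) (P.cons (P.lf 0 20576412 0) (P.cons (P.lf 0 1009251 0) (P.cons (P.lf 462756 0 0) P.nil)))))) (P.cons (P.cons (P.lf 0 1090490604 0) (P.cons (P.lf 189238563 0 0) (P.cons (P.lf 71183304 0 0) (P.cons (P.lf 0 18052002 0) (P.cons (P.lf 0 938898 0) P.nil))))) (P.cons (P.cons (P.lf 484667007 0 0) (P.cons (P.lf 0 21830523 0) (P.cons (P.lf 0 11131071 0) (P.cons (P.lf 0 435255 0) P.nil)))) (P.cons (P.cons (P.lf 368199549 0 0) (P.cons (P.lf 0 52546917 0) (P.cons (P.lf 0 21209514 0) P.nil))) (P.cons (P.cons (P.lf 0 23394501 0) (P.cons (P.lf 0 9378555 0) P.nil)) (P.cons (P.cons (P.lf 0 42896133 0) P.nil) P.nil)))))) 41619762)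
 (EL.cons 8 (TM.mk (P.cons (P.cons (P.lf 551027616 0 0) (P.cons (P.lf 0 120677358 0) (P.cons (P.lf 0 46106589 0) (P.cons (P.lf 10896834 0 0) (P.cons (P.lf 534477 0 0) (P.cons (P.lf 0 245064 0) P.nil)))))) (P.cons (P.cons (P.lf 331843194 0 0) (P.cons (P.lf 0 46416705 0) (P.cons (P.lf 0 17142069 0) (P.cons (P.lf 4701966 0 0) (P.cons (P.lf 258939 0 0) P.nil))))) (P.cons (P.cons (P.lf 0 476166321 0) (P.cons (P.lf 47925309 0 0) (P.cons (P.lf 19524330 0 0) (P.cons (P.lf 0 3280752 0) P.nil)))) (P.cons (P.cons (P.lf 0 49652076 0) (P.cons (P.lf 17713068 0 0) (P.cons (P.lf 6749646 0 0) P.nil))) (P.cons (P.cons (P.lf 74044344 0 0) (P.cons (P.lf 0 5403183 0) P.nil)) (P.cons (P.cons (P.lf 9327516 0 0) P.nil) P.nil)))))) 24023568)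
 (EL.cons 11 (TM.mk (P.cons (P.cons (P.lf 194439114 0 0) (P.cons (P.lf 153034332 0 0) (P.cons (P.lf 0 56890467 0) (P.cons (P.lf 0 11122404 0) (P.cons (P.lf 3294108 0 0) (P.cons (P.lf 65661 0 0) P.nil)))))) (P.cons (P.cons (P.lf 299022846 0 0) (P.cons (P.lf 250943361 0 0) (P.cons (P.lf 0 66236283 0) (P.cons (P.lf 0 13078179 0) (P.cons (P.lf 3416691 0 0) P.nil))))) (P.cons (P.cons (P.lf 65438259 0 0) (P.cons (P.lf 52381473 0 0) (P.cons (P.lf 0 17949954 0) (P.cons (P.lf 0 3516555 0) P.nil)))) (P.cons (P.cons (P.lf 0 24950346 0) (P.cons (P.lf 0 23006211 0) (P.cons (P.lf 2708994 0 0) P.nil))) (P.cons (P.cons (P.lf 0 9588126 0) (P.cons (P.lf 0 8215233 0) P.nil)) (P.cons (P.cons (P.lf 313065 0 0) P.nil) P.nil)))))) 9818505)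
 EL.nil)))
noncomputable def S140_198_216_364_23 : EL := (EL.cons 4 (TM.mk (P.cons (P.cons (P.lf 2260848114 0 0) (P.cons (P.lf 0 168358512 0) (P.cons (P.lf 0 72598083 0) (P.lf 8066451 0 0)))) (P.cons (P.cons (P.lf 0 781998588 0) (P.cons (P.lf 0 15371142 0) (P.cons (P.lf 0 6628209 0) (P.lf 736461 0 0)))) (P.cons (P.cons (P.lf 0 556947702 0) (P.cons (P.lf 39491286 0 0) (P.cons (P.lf 17029086 0 0) (P.lf 0 1892118 0)))) (P.cons (P.cons (P.lf 91377687 0 0) (P.cons (P.lf 7326018 0 0) (P.cons (P.lf 3159063 0 0) P.nil))) (P.cons (P.cons (P.lf 63512031 0 0) (P.cons (P.lf 0 3036654 0) P.nil)) (P.cons (P.cons (P.lf 0 48324 0) P.nil) P.nil)))))) 12560547)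
 (EL.cons 8 (TM.mk (P.cons (P.cons (P.lf 0 1197297285 0) (P.cons (P.lf 89159103 0 0) (P.cons (P.lf 38446413 0 0) (P.lf 0 4271823 0)))) (P.cons (P.cons (P.lf 947905503 0 0) (P.cons (P.lf 0 31608417 0) (P.cons (P.lf 0 13629903 0) (P.lf 1514430 0 0)))) (P.cons (P.cons (P.lf 27834333 0 0) (P.cons (P.lf 0 18400233 0) (P.cons (P.lf 0 7934388 0) (P.lf 881595 0 0)))) (P.cons (P.cons (P.lf 0 132067827 0) (P.cons (P.lf 4568691 0 0) (P.cons (P.lf 1970073 0 0) P.nil))) (P.cons (P.cons (P.lf 0 2126760 0) (P.cons (P.lf 2042523 0 0) P.nil)) (P.cons (P.cons (P.lf 9000432 0 0) P.nil) P.nil)))))) 7017030)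
 (EL.cons 11 (TM.mk (P.cons (P.cons (P.lf 0 422485947 0) (P.cons (P.lf 0 393584745 0) (P.cons (P.lf 40394598 0 0) (P.cons (P.lf 8400951 0 0) (P.lf 0 700077 0))))) (P.cons (P.cons (P.lf 0 60814095 0) (P.cons (P.lf 0 56653956 0) (P.cons (P.lf 5814537 0 0) (P.cons (P.lf 1209261 0 0) (P.lf 0 100770 0))))) (P.cons (P.cons (P.lf 53564643 0 0) (P.cons (P.lf 49900419 0 0) (P.cons (P.lf 0 5121405 0) (P.cons (P.lf 0 1065111 0) P.nil)))) (P.cons (P.cons (P.lf 12406323 0 0) (P.cons (P.lf 11557638 0 0) (P.cons (P.lf 0 1186188 0) P.nil))) (P.cons (P.cons (P.lf 0 1092960 0) (P.cons (P.lf 0 1018194 0) P.nil)) (P.cons (P.cons (P.lf 0 567498 0) P.nil) P.nil)))))) 1482894)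
 EL.nil)))
noncomputable def S140_198_216_364_24 : EL := (EL.cons 4 (TM.mk (P.cons (P.cons (P.lf 617997372 0 0) (P.cons (P.lf 0 135344016 0) (P.cons (P.lf 0 51710202 0) (P.cons (P.lf 12221190 0 0) (P.cons (P.lf 599436 0 0) (P.cons (P.lf 0 274851 0) P.nil)))))) (P.cons (P.cons (P.lf 493664286 0 0) (P.cons (P.lf 0 78664863 0) (P.cons (P.lf 0 29390991 0) (P.cons (P.lf 7675947 0 0) (P.cons (P.lf 408252 0 0) P.nil))))) (P.cons (P.cons (P.lf 0 470903850 0) (P.cons (P.lf 45712803 0 0) (P.cons (P.lf 18957078 0 0) (P.cons (P.lf 0 2841162 0) P.nil)))) (P.cons (P.cons (P.lf 0 169258677 0) (P.cons (P.lf 31835037 0 0) (P.cons (P.lf 12399807 0 0) P.nil))) (P.cons (P.cons (P.lf 79156902 0 0) (P.cons (P.lf 0 2796291 0) P.nil)) (P.cons (P.cons (P.lf 29876013 0 0) P.nil) P.nil)))))) 39826602)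
 (EL.cons 8 (TM.mk (P.cons (P.cons (P.lf 0 327278322 0) (P.cons (P.lf 71675325 0 0) (P.cons (P.lf 27384630 0 0) (P.cons (P.lf 0 6472083 0) (P.cons (P.lf 0 317448 0) (P.cons (P.lf 145554 0 0) P.nil)))))) (P.cons (P.cons (P.lf 0 115527879 0) (P.cons (P.lf 9705162 0 0) (P.cons (P.lf 3356313 0 0) (P.cons (P.lf 0 1179654 0) (P.cons (P.lf 0 74676 0) P.nil))))) (P.cons (P.cons (P.lf 343384851 0 0) (P.cons (P.lf 0 37842903 0) (P.cons (P.lf 0 15091692 0) (P.cons (P.lf 2870982 0 0) P.nil)))) (P.cons (P.cons (P.lf 0 34282146 0) (P.cons (P.lf 0 4350993 0) (P.cons (P.lf 0 1459761 0) P.nil))) (P.cons (P.cons (P.lf 0 61504698 0) (P.cons (P.lf 6880539 0 0) P.nil)) (P.cons (P.cons (P.lf 4427145 0 0) P.nil) P.nil)))))) 21929193)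
 (EL.cons 11 (TM.mk (P.cons (P.cons (P.lf 0 115485513 0) (P.cons (P.lf 0 90893484 0) (P.cons (P.lf 33789624 0 0) (P.cons (P.lf 6606060 0 0) (P.cons (P.lf 0 1956507 0) (P.cons (P.lf 0 38997 0) P.nil)))))) (P.cons (P.cons (P.lf 0 148819677 0) (P.cons (P.lf 0 126392340 0) (P.cons (P.lf 30919098 0 0) (P.cons (P.lf 6121245 0 0) (P.cons (P.lf 0 1541694 0) P.nil))))) (P.cons (P.cons (P.lf 9436791 0 0) (P.cons (P.lf 9214452 0 0) (P.cons (P.lf 0 325512 0) (P.cons (P.lf 0 78378 0) P.nil)))) (P.cons (P.cons (P.lf 30654252 0 0) (P.cons (P.lf 26581494 0 0) (P.cons (P.lf 0 5623503 0) P.nil))) (P.cons (P.cons (P.lf 3200943 0 0) (P.cons (P.lf 2431011 0 0) P.nil)) (P.cons (P.cons (P.lf 0 2244681 0) P.nil) P.nil)))))) 10671663)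
 EL.nil)))
noncomputable def S140_198_216_364_25 : EL := (EL.cons 4 (TM.mk (P.cons (P.cons (P.lf 0 1342812144 0) (P.cons (P.lf 99995154 0 0) (P.cons (P.lf 43119033 0 0) (P.lf 0 4791000 0)))) (P.cons (P.cons (P.lf 799131036 0 0) (P.cons (P.lf 0 15792252 0) (P.cons (P.lf 0 6809796 0) (P.lf 756645 0 0)))) (P.cons (P.cons (P.lf 262005786 0 0) (P.cons (P.lf 0 29228538 0) (P.cons (P.lf 0 12603675 0) (P.lf 1400406 0 0)))) (P.cons (P.cons (P.lf 0 153703929 0) (P.cons (P.lf 1230429 0 0) (P.cons (P.lf 530574 0 0) P.nil))) (P.cons (P.cons (P.lf 0 36230994 0) (P.cons (P.lf 3767190 0 0) P.nil)) (P.cons (P.cons (P.lf 11710206 0 0) P.nil) P.nil)))))) 11753253)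
 (EL.cons 8 (TM.mk (P.cons (P.cons (P.lf 711124878 0 0) (P.cons (P.lf 0 52955316 0) (P.cons (P.lf 0 22834929 0) (P.lf 2537214 0 0)))) (P.cons (P.cons (P.lf 0 740234508 0) (P.cons (P.lf 31971627 0 0) (P.cons (P.lf 13786524 0 0) (P.lf 0 1531833 0)))) (P.cons (P.cons (P.lf 98910948 0 0) (P.cons (P.lf 8102010 0 0) (P.cons (P.lf 3493677 0 0) (P.lf 0 388185 0)))) (P.cons (P.cons (P.lf 102645972 0 0) (P.cons (P.lf 0 6123174 0) (P.cons (P.lf 0 2640381 0) P.nil))) (P.cons (P.cons (P.lf 0 17637303 0) (P.cons (P.lf 0 937170 0) P.nil)) (P.cons (P.cons (P.lf 0 8688948 0) P.nil) P.nil)))))) 6782529)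
 (EL.cons 11 (TM.mk (P.cons (P.cons (P.lf 250932054 0 0) (P.cons (P.lf 233766423 0 0) (P.cons (P.lf 0 23992038 0) (P.cons (P.lf 0 4989675 0) (P.lf 415806 0 0))))) (P.cons (P.cons (P.lf 0 26419824 0) (P.cons (P.lf 0 24612510 0) (P.cons (P.lf 2526042 0 0) (P.cons (P.lf 525345 0 0) (P.lf 0 43776 0))))) (P.cons (P.cons (P.lf 0 49593636 0) (P.cons (P.lf 0 46201059 0) (P.cons (P.lf 4741731 0 0) (P.cons (P.lf 986148 0 0) P.nil)))) (P.cons (P.cons (P.lf 0 564519 0) (P.cons (P.lf 0 525903 0) (P.cons (P.lf 53973 0 0) P.nil))) (P.cons (P.cons (P.lf 3753051 0 0) (P.cons (P.lf 3496314 0 0) P.nil)) (P.cons (P.cons (P.lf 444231 0 0) P.nil) P.nil)))))) 1818744)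
 EL.nil)))
noncomputable def S140_198_216_364_26 : EL := (EL.cons 4 (TM.mk (P.cons (P.cons (P.lf 0 367054458 0) (P.cons (P.lf 80386464 0 0) (P.cons (P.lf 30712848 0 0) (P.cons (P.lf 0 7258674 0) (P.cons (P.lf 0 356028 0) (P.cons (P.lf 163245 0 0) P.nil)))))) (P.cons (P.cons (P.lf 0 201726768 0) (P.cons (P.lf 26687610 0 0) (P.cons (P.lf 9801966 0 0) (P.cons (P.lf 0 2749983 0) (P.cons (P.lf 0 153744 0) P.nil))))) (P.cons (P.cons (P.lf 365604642 0 0) (P.cons (P.lf 0 41607141 0) (P.cons (P.lf 0 16684377 0) (P.cons (P.lf 3077637 0 0) P.nil)))) (P.cons (P.cons (P.lf 40876095 0 0) (P.cons (P.lf 0 13731282 0) (P.cons (P.lf 0 5152233 0) P.nil))) (P.cons (P.cons (P.lf 0 82211463 0) (P.cons (P.lf 7391925 0 0) P.nil)) (P.cons (P.cons (P.lf 0 9560286 0) P.nil) P.nil)))))) 31543272)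
 (EL.cons 8 (TM.mk (P.cons (P.cons (P.lf 194384268 0 0) (P.cons (P.lf 0 42570969 0) (P.cons (P.lf 0 16264875 0) (P.cons (P.lf 3844041 0 0) (P.cons (P.lf 188544 0 0) (P.cons (P.lf 0 86451 0) P.nil)))))) (P.cons (P.cons (P.lf 20170392 0 0) (P.cons (P.lf 4845672 0 0) (P.cons (P.lf 2060244 0 0) (P.cons (P.lf 0 257403 0) (P.cons (P.lf 0 2637 0) P.nil))))) (P.cons (P.cons (P.lf 0 227851212 0) (P.cons (P.lf 25402173 0 0) (P.cons (P.lf 10029330 0 0) (P.cons (P.lf 0 2014275 0) P.nil)))) (P.cons (P.cons (P.lf 68899413 0 0) (P.cons (P.lf 0 2839443 0) (P.cons (P.lf 0 1306230 0) P.nil))) (P.cons (P.cons (P.lf 38731491 0 0) (P.cons (P.lf 0 5542923 0) P.nil)) (P.cons (P.cons (P.lf 0 12514539 0) P.nil) P.nil)))))) 16095810)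
 (EL.cons 11 (TM.mk (P.cons (P.cons (P.lf 68591670 0 0) (P.cons (P.lf 53985435 0 0) (P.cons (P.lf 0 20069070 0) (P.cons (P.lf 0 3923613 0) (P.cons (P.lf 1162050 0 0) (P.cons (P.lf 23163 0 0) P.nil)))))) (P.cons (P.cons (P.lf 71295102 0 0) (P.cons (P.lf 61614885 0 0) (P.cons (P.lf 0 13362324 0) (P.cons (P.lf 0 2657778 0) (P.cons (P.lf 626058 0 0) P.nil))))) (P.cons (P.cons (P.lf 0 30033633 0) (P.cons (P.lf 0 26070801 0) (P.cons (P.lf 5472216 0 0) (P.cons (P.lf 1089909 0 0) P.nil)))) (P.cons (P.cons (P.lf 0 19863816 0) (P.cons (P.lf 0 17019876 0) (P.cons (P.lf 3923118 0 0) P.nil))) (P.cons (P.cons (P.lf 2918148 0 0) (P.cons (P.lf 2752755 0 0) P.nil)) (P.cons (P.cons (P.lf 2490795 0 0) P.nil) P.nil)))))) 8688702)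
 EL.nil)))
noncomputable def S140_198_216_364_27 : EL := (EL.cons 13 (TM.mk (P.lf 0 4294967296 0) 0)
 EL.nil)
noncomputable def S140_198_216_364_28 : EL := (EL.cons 13 (TM.mk (P.cons (P.cons (P.lf 0 1174018940 0) (P.cons (P.lf 169689436 0 0) (P.cons (P.lf 73171996 0 0) (P.lf 0 8130220 0)))) (P.cons (P.cons (P.lf 0 1343899712 0) (P.cons (P.lf 100076140 0 0) (P.cons (P.lf 43153960 0 0) (P.lf 0 4794880 0)))) (P.cons (P.cons (P.lf 140532133 0 0) (P.cons (P.lf 11411008 0 0) (P.cons (P.lf 4920556 0 0) (P.lf 0 546724 0)))) (P.cons (P.cons (P.lf 86539960 0 0) (P.cons (P.lf 0 4057156 0) (P.cons (P.lf 0 1749492 0) P.nil))) (P.cons (P.cons (P.lf 1474511 0 0) (P.cons (P.lf 0 1070572 0) P.nil)) (P.cons (P.cons (P.lf 0 2879295 0) P.nil) P.nil)))))) 1760642)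
 EL.nil)
noncomputable def S140_198_216_364_29 : EL := (EL.cons 13 (TM.mk (P.cons (P.cons (P.lf 0 320915242 0) (P.cons (P.lf 92768395 0 0) (P.cons (P.lf 33298533 0 0) (P.cons (P.lf 0 10226642 0) (P.cons (P.lf 0 604175 0) (P.cons (P.lf 277023 0 0) P.nil)))))) (P.cons (P.cons (P.lf 0 734703482 0) (P.cons (P.lf 160903142 0 0) (P.cons (P.lf 61475451 0 0) (P.cons (P.lf 0 14529108 0) (P.cons (P.lf 0 712638 0) P.nil))))) (P.cons (P.cons (P.lf 0 343679372 0) (P.cons (P.lf 57761658 0 0) (P.cons (P.lf 21673952 0 0) (P.cons (P.lf 0 5556158 0) P.nil)))) (P.cons (P.cons (P.lf 135256277 0 0) (P.cons (P.lf 0 8464212 0) (P.cons (P.lf 0 3861047 0) P.nil))) (P.cons (P.cons (P.lf 50364756 0 0) (P.cons (P.lf 0 8020405 0) P.nil)) (P.cons (P.cons (P.lf 0 6314551 0) P.nil) P.nil)))))) 16930877)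
 EL.nil)
noncomputable def S140_198_216_364_30 : EL := (EL.cons 13 (TM.mk (P.cons (P.lf 2550960508 0 0) (P.cons (P.lf 0 635776524 0) (P.cons (P.lf 0 89228036 0) (P.cons (P.lf 1407440 0 0) (P.cons (P.lf 1369092 0 0) (P.cons (P.lf 95416 0 0) P.nil)))))) 28012)
 EL.nil)
noncomputable def S140_198_216_364_31 : EL := (EL.cons 13 (TM.mk (P.cons (P.cons (P.lf 697298895 0 0) (P.cons (P.lf 0 100785645 0) (P.cons (P.lf 0 43459905 0) (P.lf 4828877 0 0)))) (P.cons (P.cons (P.lf 624410205 0 0) (P.cons (P.lf 0 34320568 0) (P.cons (P.lf 0 14799416 0) (P.lf 1644377 0 0)))) (P.cons (P.cons (P.lf 0 306793305 0) (P.cons (P.lf 11561923 0 0) (P.cons (P.lf 4985631 0 0) (P.lf 0 553960 0)))) (P.cons (P.cons (P.lf 0 58131795 0) (P.cons (P.lf 6122343 0 0) (P.cons (P.lf 2640024 0 0) P.nil))) (P.cons (P.cons (P.lf 15668771 0 0) (P.cons (P.lf 185461 0 0) P.nil)) (P.cons (P.cons (P.lf 4134692 0 0) P.nil)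 P.nil)))))) 2990716)
 EL.nil)
noncomputable def S140_198_216_364_32 : EL := (EL.cons 13 (TM.mk (P.cons (P.cons (P.lf 190604969 0 0) (P.cons (P.lf 0 55099025 0) (P.cons (P.lf 0 19777389 0) (P.cons (P.lf 6074029 0 0) (P.cons (P.lf 358844 0 0) (P.cons (P.lf 0 164535 0) P.nil)))))) (P.cons (P.cons (P.lf 388866567 0 0) (P.cons (P.lf 0 81834754 0) (P.cons (P.lf 0 31583714 0) (P.cons (P.lf 7115612 0 0) (P.cons (P.lf 333830 0 0) P.nil))))) (P.cons (P.cons (P.lf 88701639 0 0) (P.cons (P.lf 0 8561584 0) (P.cons (P.lf 0 3081183 0) (P.cons (P.lf 936857 0 0) P.nil)))) (P.cons (P.cons (P.lf 0 146366929 0) (P.cons (P.lf 16889973 0 0) (P.cons (P.lf 6767836 0 0) P.nil))) (P.cons (P.cons (P.lf 0 16688872 0) (P.cons (P.lf 4628412 0 0) P.nil)) (P.cons (P.cons (P.lf 14369785 0 0) P.nil) P.nil)))))) 19561548)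
 EL.nil)
noncomputable def S140_198_216_364_33 : EL := (EL.cons 14 (TM.mk (P.lf 8589934592 0 0) 0)
 EL.nil)
noncomputable def S140_198_216_364_34 : EL := (EL.cons 14 (TM.mk (P.cons (P.cons (P.lf 2348037880 0 0) (P.cons (P.lf 0 339378872 0) (P.cons (P.lf 0 146343992 0) (P.lf 16260440 0 0)))) (P.cons (P.cons (P.lf 2687799424 0 0) (P.cons (P.lf 0 200152280 0) (P.cons (P.lf 0 86307920 0) (P.lf 9589760 0 0)))) (P.cons (P.cons (P.lf 0 281064266 0) (P.cons (P.lf 0 22822016 0) (P.cons (P.lf 0 9841112 0) (P.lf 1093448 0 0)))) (P.cons (P.cons (P.lf 0 173079920 0) (P.cons (P.lf 8114312 0 0) (P.cons (P.lf 3498984 0 0) P.nil))) (P.cons (P.cons (P.lf 0 2949022 0) (P.cons (P.lf 2141144 0 0) P.nil)) (P.cons (P.cons (P.lf 5758590 0 0) P.nil) P.nil)))))) 3521284)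
 EL.nil)
noncomputable def S140_198_216_364_35 : EL := (EL.cons 14 (TM.mk (P.cons (P.cons (P.lf 641830484 0 0) (P.cons (P.lf 0 185536790 0) (P.cons (P.lf 0 66597066 0) (P.cons (P.lf 20453284 0 0) (P.cons (P.lf 1208350 0 0) (P.cons (P.lf 0 554046 0) P.nil)))))) (P.cons (P.cons (P.lf 1469406964 0 0) (P.cons (P.lf 0 321806284 0) (P.cons (P.lf 0 122950902 0) (P.cons (P.lf 29058216 0 0) (P.cons (P.lf 1425276 0 0) P.nil))))) (P.cons (P.cons (P.lf 687358744 0 0) (P.cons (P.lf 0 115523316 0) (P.cons (P.lf 0 43347904 0) (P.cons (P.lf 11112316 0 0) P.nil)))) (P.cons (P.cons (P.lf 0 270512554 0) (P.cons (P.lf 16928424 0 0) (P.cons (P.lf 7722094 0 0) P.nil))) (P.cons (P.cons (P.lf 0 100729512 0) (P.cons (P.lf 16040810 0 0) P.nil)) (P.cons (P.cons (P.lf 12629102 0 0) P.nil) P.nil)))))) 33861754)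
 EL.nil)
noncomputable def S140_198_216_364_36 : EL := (EL.cons 14 (TM.mk (P.cons (P.lf 0 5101921016 0) (P.cons (P.lf 1271553048 0 0) (P.cons (P.lf 178456072 0 0) (P.cons (P.lf 0 2814880 0) (P.cons (P.lf 0 2738184 0) (P.cons (P.lf 0 190832 0) P.nil)))))) 56024)
 EL.nil)
noncomputable def S140_198_216_364_37 : EL := (EL.cons 14 (TM.mk (P.cons (P.cons (P.lf 0 1394597790 0) (P.cons (P.lf 201571290 0 0) (P.cons (P.lf 86919810 0 0) (P.lf 0 9657754 0)))) (P.cons (P.cons (P.lf 0 1248820410 0) (P.cons (P.lf 68641136 0 0) (P.cons (P.lf 29598832 0 0) (P.lf 0 3288754 0)))) (P.cons (P.cons (P.lf 613586610 0 0) (P.cons (P.lf 0 23123846 0) (P.cons (P.lf 0 9971262 0) (P.lf 1107920 0 0)))) (P.cons (P.cons (P.lf 116263590 0 0) (P.cons (P.lf 0 12244686 0) (P.cons (P.lf 0 5280048 0) P.nil))) (P.cons (P.cons (P.lf 0 31337542 0) (P.cons (P.lf 0 370922 0) P.nil)) (P.cons (P.cons (P.lf 0 8269384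 0) P.nil) P.nil)))))) 5981432)
 EL.nil)
noncomputable def S140_198_216_364_38 : EL := (EL.cons 14 (TM.mk (P.cons (P.cons (P.lf 0 381209938 0) (P.cons (P.lf 110198050 0 0) (P.cons (P.lf 39554778 0 0) (P.cons (P.lf 0 12148058 0) (P.cons (P.lf 0 717688 0) (P.cons (P.lf 329070 0 0) P.nil)))))) (P.cons (P.cons (P.lf 0 777733134 0) (P.cons (P.lf 163669508 0 0) (P.cons (P.lf 63167428 0 0) (P.cons (P.lf 0 14231224 0) (P.cons (P.lf 0 667660 0) P.nil))))) (P.cons (P.cons (P.lf 0 177403278 0) (P.cons (P.lf 17123168 0 0) (P.cons (P.lf 6162366 0 0) (P.cons (P.lf 0 1873714 0) P.nil)))) (P.cons (P.cons (P.lf 292733858 0 0) (P.cons (P.lf 0 33779946 0) (P.cons (P.lf 0 13535672 0) P.nil))) (P.cons (P.cons (P.lf 33377744 0 0) (P.cons (P.lf 0 9256824 0) P.nil)) (P.cons (P.cons (P.lf 0 28739570 0) P.nil) P.nil)))))) 39123096)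
 EL.nil)
noncomputable def S140_198_216_364_39 : EL := (EL.cons 14 (TM.mk (P.cons (P.lf 3030244034 0 0) (P.cons (P.lf 0 1510456952 0) (P.cons (P.lf 0 23759250 0) (P.cons (P.lf 56176832 0 0) (P.cons (P.lf 6126708 0 0) (P.cons (P.lf 0 700928 0) P.nil)))))) 267590)
 EL.nil)
noncomputable def S140_198_216_364_40 : EL := (EL.cons 14 (TM.mk (P.cons (P.cons (P.lf 828309890 0 0) (P.cons (P.lf 0 119721610 0) (P.cons (P.lf 0 51625306 0) (P.lf 5736142 0 0)))) (P.cons (P.cons (P.lf 535286732 0 0) (P.cons (P.lf 0 10930592 0) (P.cons (P.lf 0 4713394 0) (P.lf 523708 0 0)))) (P.cons (P.cons (P.lf 0 578268228 0) (P.cons (P.lf 28082694 0 0) (P.cons (P.lf 12109574 0 0) (P.lf 0 1345508 0)))) (P.cons (P.cons (P.lf 0 3712914 0) (P.cons (P.lf 5209614 0 0) (P.cons (P.lf 2246444 0 0) P.nil))) (P.cons (P.cons (P.lf 49424030 0 0) (P.cons (P.lf 0 2159398 0) P.nil)) (P.cons (P.cons (P.lf 2916064 0 0)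 P.nil) P.nil)))))) 7660550)
 EL.nil)
noncomputable def S140_198_216_364_41 : EL := (EL.cons 14 (TM.mk (P.cons (P.cons (P.lf 226416508 0 0) (P.cons (P.lf 0 65451226 0) (P.cons (P.lf 0 23493236 0) (P.cons (P.lf 7215240 0 0) (P.cons (P.lf 426264 0 0) (P.cons (P.lf 0 195448 0) P.nil)))))) (P.cons (P.cons (P.lf 405498356 0 0) (P.cons (P.lf 0 80897732 0) (P.cons (P.lf 0 31662550 0) (P.cons (P.lf 6654262 0 0) (P.cons (P.lf 290312 0 0) P.nil))))) (P.cons (P.cons (P.lf 0 17678904 0) (P.cons (P.lf 16346912 0 0) (P.cons (P.lf 6512228 0 0) (P.cons (P.lf 0 1246122 0) P.nil)))) (P.cons (P.cons (P.lf 0 216160068 0) (P.cons (P.lf 25962160 0 0) (P.cons (P.lf 10250948 0 0) P.nil))) (P.cons (P.cons (P.lf 20199264 0 0) (P.cons (P.lf 764600 0 0) P.nil)) (P.cons (P.cons (P.lf 28406550 0 0) P.nil) P.nil)))))) 34378126)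
 EL.nil)
noncomputable def S140_198_216_364_42 : EL := (EL.cons 14 (TM.mk (P.cons (P.lf 0 1799788526 0) (P.cons (P.lf 1345685228 0 0) (P.cons (P.lf 0 146525314 0) (P.cons (P.lf 0 69255578 0) (P.cons (P.lf 3712280 0 0) (P.cons (P.lf 2912260 0 0) P.nil)))))) 563866)
 EL.nil)
noncomputable def S140_198_216_364_43 : EL := (EL.cons 14 (TM.mk (P.cons (P.cons (P.lf 0 491967846 0) (P.cons (P.lf 71107664 0 0) (P.cons (P.lf 30662426 0 0) (P.lf 0 3406934 0)))) (P.cons (P.cons (P.lf 0 195315884 0) (P.cons (P.lf 0 11230044 0) (P.cons (P.lf 0 4842520 0) (P.lf 538058 0 0)))) (P.cons (P.cons (P.lf 439903376 0 0) (P.cons (P.lf 0 20784740 0) (P.cons (P.lf 0 8962614 0) (P.lf 995846 0 0)))) (P.cons (P.cons (P.lf 0 72545622 0) (P.cons (P.lf 874972 0 0) (P.cons (P.lf 377296 0 0) P.nil))) (P.cons (P.cons (P.lf 0 42357594 0) (P.cons (P.lf 2678890 0 0) P.nil)) (P.cons (P.cons (P.lf 5507506 0 0) P.nil)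 P.nil)))))) 9014152)
 EL.nil)
noncomputable def S140_198_216_364_44 : EL := (EL.cons 14 (TM.mk (P.cons (P.cons (P.lf 0 134478222 0) (P.cons (P.lf 38874216 0 0) (P.cons (P.lf 13953614 0 0) (P.cons (P.lf 0 4285432 0) (P.cons (P.lf 0 253176 0) (P.cons (P.lf 116084 0 0) P.nil)))))) (P.cons (P.cons (P.lf 0 207326374 0) (P.cons (P.lf 38359912 0 0) (P.cons (P.lf 15328048 0 0) (P.cons (P.lf 0 2884184 0) (P.cons (P.lf 0 109328 0) P.nil))))) (P.cons (P.cons (P.lf 75229262 0 0) (P.cons (P.lf 0 23044014 0) (P.cons (P.lf 0 9042908 0) (P.cons (P.lf 1875038 0 0) P.nil)))) (P.cons (P.cons (P.lf 134119558 0 0) (P.cons (P.lf 0 14659410 0) (P.cons (P.lf 0 5774564 0) P.nil))) (P.cons (P.cons (P.lf 0 44567318 0) (P.cons (P.lf 3775984 0 0) P.nil)) (P.cons (P.cons (P.lf 0 18501000 0) P.nil) P.nil)))))) 33603584)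
 EL.nil)
noncomputable def S140_198_216_364_45 : EL := (EL.cons 14 (TM.mk (P.cons (P.cons (P.lf 175442812 0 0) (P.cons (P.lf 0 76074050 0) (P.cons (P.lf 0 21808454 0) (P.cons (P.lf 12597926 0 0) (P.cons (P.lf 305590 0 0) (P.cons (P.lf 0 673708 0) P.nil)))))) (P.cons (P.cons (P.lf 602488268 0 0) (P.cons (P.lf 0 219029436 0) (P.cons (P.lf 0 68891908 0) (P.cons (P.lf 31597042 0 0) (P.cons (P.lf 1090566 0 0) P.nil))))) (P.cons (P.cons (P.lf 626665998 0 0) (P.cons (P.lf 0 189301110 0) (P.cons (P.lf 0 62795550 0) (P.cons (P.lf 24652404 0 0) P.nil)))) (P.cons (P.cons (P.lf 80119696 0 0) (P.cons (P.lf 0 25878074 0) (P.cons (P.lf 0 7104892 0) P.nil))) (P.cons (P.cons (P.lf 0 164495988 0) (P.cons (P.lf 30014106 0 0) P.nil)) (P.cons (P.cons (P.lf 0 33138898 0) P.nil) P.nil)))))) 100154960)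
 EL.nil)
noncomputable def S140_198_216_364_46 : EL := (EL.cons 15 (TM.mk (P.lf 4294967296 0 0) 0)
 EL.nil)
noncomputable def S140_198_216_364_47 : EL := (EL.cons 15 (TM.mk (P.cons (P.cons (P.lf 1174018940 0 0) (P.cons (P.lf 0 169689436 0) (P.cons (P.lf 0 73171996 0) (P.lf 8130220 0 0)))) (P.cons (P.cons (P.lf 1343899712 0 0) (P.cons (P.lf 0 100076140 0) (P.cons (P.lf 0 43153960 0) (P.lf 4794880 0 0)))) (P.cons (P.cons (P.lf 0 140532133 0) (P.cons (P.lf 0 11411008 0) (P.cons (P.lf 0 4920556 0) (P.lf 546724 0 0)))) (P.cons (P.cons (P.lf 0 86539960 0) (P.cons (P.lf 4057156 0 0) (P.cons (P.lf 1749492 0 0) P.nil))) (P.cons (P.cons (P.lf 0 1474511 0) (P.cons (P.lf 1070572 0 0) P.nil)) (P.cons (P.cons (P.lf 2879295 0 0) P.nil) P.nil)))))) 1760642)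
 EL.nil)
noncomputable def S140_198_216_364_48 : EL := (EL.cons 15 (TM.mk (P.cons (P.cons (P.lf 320915242 0 0) (P.cons (P.lf 0 92768395 0) (P.cons (P.lf 0 33298533 0) (P.cons (P.lf 10226642 0 0) (P.cons (P.lf 604175 0 0) (P.cons (P.lf 0 277023 0) P.nil)))))) (P.cons (P.cons (P.lf 734703482 0 0) (P.cons (P.lf 0 160903142 0) (P.cons (P.lf 0 61475451 0) (P.cons (P.lf 14529108 0 0) (P.cons (P.lf 712638 0 0) P.nil))))) (P.cons (P.cons (P.lf 343679372 0 0) (P.cons (P.lf 0 57761658 0) (P.cons (P.lf 0 21673952 0) (P.cons (P.lf 5556158 0 0) P.nil)))) (P.cons (P.cons (P.lf 0 135256277 0) (P.cons (P.lf 8464212 0 0) (P.cons (P.lf 3861047 0 0) P.nil))) (P.cons (P.cons (P.lf 0 50364756 0) (P.cons (P.lf 8020405 0 0) P.nil)) (P.cons (P.cons (P.lf 6314551 0 0) P.nil) P.nil)))))) 16930877)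
 EL.nil)
noncomputable def S140_198_216_364 : SL := (SL.cons S140_198_216_364_0 (SL.cons S140_198_216_364_1 (SL.cons S140_198_216_364_2 (SL.cons S140_198_216_364_3 (SL.cons S140_198_216_364_4 (SL.cons S140_198_216_364_5 (SL.cons S140_198_216_364_6 (SL.cons S140_198_216_364_7 (SL.cons S140_198_216_364_8 (SL.cons S140_198_216_364_9 (SL.cons S140_198_216_364_10 (SL.cons S140_198_216_364_11 (SL.cons S140_198_216_364_12 (SL.cons S140_198_216_364_13 (SL.cons S140_198_216_364_14 (SL.cons S140_198_216_364_15 (SL.cons S140_198_216_364_16 (SL.cons S140_198_216_364_17 (SL.cons S140_198_216_364_18 (SL.cons S140_198_216_364_19 (SL.cons S140_198_216_364_20 (SL.cons S140_198_216_364_21 (SL.cons S140_198_216_364_22 (SL.cons S140_198_216_364_23 (SL.cons S140_198_216_364_24 (SL.cons S140_198_216_364_25 (SL.cons S140_198_216_364_26 (SL.cons S140_198_216_364_27 (SL.cons S140_198_216_364_28 (SL.cons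 S140_198_216_364_29 (SL.cons S140_198_216_364_30 (SL.cons S140_198_216_364_31 (SL.cons S140_198_216_364_32 (SL.cons S140_198_216_364_33 (SL.cons S140_198_216_364_34 (SL.cons S140_198_216_364_35 (SL.cons S140_198_216_364_36 (SL.cons S140_198_216_364_37 (SL.cons S140_198_216_364_38 (SL.cons S140_198_216_364_39 (SL.cons S140_198_216_364_40 (SL.cons S140_198_216_364_41 (SL.cons S140_198_216_364_42 (SL.cons S140_198_216_364_43 (SL.cons S140_198_216_364_44 (SL.cons S140_198_216_364_45 (SL.cons S140_198_216_364_46 (SL.cons S140_198_216_364_47 (SL.cons S140_198_216_364_48 SL.nil)))))))))))))))))))))))))))))))))))))))))))))))))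
noncomputable def S140_198_364_512_0 : EL := (EL.cons 0 (TM.mk (P.cons (P.lf 5792416443 0 0) (P.cons (P.lf 1327550055 0 0) (P.cons (P.lf 20882153 0 0) (P.cons (P.lf 0 49374168 0) (P.cons (P.lf 0 5384801 0) (P.cons (P.lf 616050 0 0) P.nil)))))) 235193)
 (EL.cons 1 (TM.mk (P.cons (P.lf 0 1788121471 0) (P.cons (P.lf 94132764 0 0) (P.cons (P.lf 179177853 0 0) (P.cons (P.lf 11443897 0 0) (P.cons (P.lf 0 3792305 0) (P.cons (P.lf 0 635690 0) P.nil)))))) 110845)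
 (EL.cons 5 (TM.mk (P.cons (P.lf 5241918562 0 0) (P.cons (P.lf 0 472017796 0) (P.cons (P.lf 0 7424770 0) (P.cons (P.lf 17555260 0 0) (P.cons (P.lf 1914598 0 0) (P.cons (P.lf 0 219040 0) P.nil)))))) 72457)
 (EL.cons 9 (TM.mk (P.lf 6442450944 0 0) 2)
 EL.nil))))
noncomputable def S140_198_364_512_1 : EL := (EL.cons 0 (TM.mk (P.cons (P.cons (P.lf 0 2365633420 0) (P.cons (P.lf 186654476 0 0) (P.cons (P.lf 12479278 0 0) (P.lf 0 4159756 0)))) (P.cons (P.cons (P.lf 3111623737 0 0) (P.cons (P.lf 0 340967257 0) (P.cons (P.lf 0 22796280 0) (P.lf 7598765 0 0)))) (P.cons (P.cons (P.lf 870873683 0 0) (P.cons (P.lf 0 260553827 0) (P.cons (P.lf 0 17420013 0) (P.lf 5806659 0 0)))) (P.cons (P.cons (P.lf 0 372955341 0) (P.cons (P.lf 0 22203121 0) (P.cons (P.lf 0 1484441 0) P.nil))) (P.cons (P.cons (P.lf 0 133016340 0) (P.cons (P.lf 20852551 0 0) P.nil)) (P.cons (P.cons (P.lf 11011720 0 0)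 P.nil) P.nil)))))) 30184431)
 (EL.cons 1 (TM.mk (P.cons (P.cons (P.lf 0 478495938 0) (P.cons (P.lf 200005155 0 0) (P.cons (P.lf 13371871 0 0) (P.lf 0 4457287 0)))) (P.cons (P.cons (P.lf 0 1148628617 0) (P.cons (P.lf 267655279 0 0) (P.cons (P.lf 17894799 0 0) (P.lf 0 5964923 0)))) (P.cons (P.cons (P.lf 515916307 0 0) (P.cons (P.lf 12782960 0 0) (P.cons (P.lf 854638 0 0) (P.lf 0 284876 0)))) (P.cons (P.cons (P.lf 247878830 0 0) (P.cons (P.lf 0 44500667 0) (P.cons (P.lf 0 2975205 0) P.nil))) (P.cons (P.cons (P.lf 0 36261007 0) (P.cons (P.lf 0 9220929 0) P.nil)) (P.cons (P.cons (P.lf 0 21929904 0) P.nil) P.nil)))))) 16192177)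
 (EL.cons 5 (TM.mk (P.cons (P.cons (P.lf 1873003648 0 0) (P.cons (P.lf 0 686551146 0) (P.cons (P.lf 0 45901210 0) (P.lf 15300398 0 0)))) (P.cons (P.cons (P.lf 609779018 0 0) (P.cons (P.lf 0 244527938 0) (P.cons (P.lf 0 16348572 0) (P.lf 5449520 0 0)))) (P.cons (P.cons (P.lf 0 613370313 0) (P.cons (P.lf 50936118 0 0) (P.cons (P.lf 3405464 0 0) (P.lf 0 1135150 0)))) (P.cons (P.cons (P.lf 8535616 0 0) (P.cons (P.lf 22722650 0 0) (P.cons (P.lf 1519182 0 0) P.nil))) (P.cons (P.cons (P.lf 50869568 0 0) (P.cons (P.lf 0 3501472 0) P.nil)) (P.cons (P.cons (P.lf 900752 0 0) P.nil) P.nil)))))) 12663740)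
 (EL.cons 9 (TM.mk (P.cons (P.cons (P.lf 910490766 0 0) (P.cons (P.lf 0 547222152 0) (P.cons (P.lf 0 36585996 0) (P.lf 12195330 0 0)))) (P.cons (P.cons (P.lf 1514235978 0 0) (P.cons (P.lf 0 322730064 0) (P.cons (P.lf 0 21576978 0) (P.lf 7192320 0 0)))) (P.cons (P.cons (P.lf 0 267993829 0) (P.cons (P.lf 0 36798738 0) (P.cons (P.lf 0 2460276 0) (P.lf 820086 0 0)))) (P.cons (P.cons (P.lf 0 109474158 0) (P.cons (P.lf 13083708 0 0) (P.cons (P.lf 874746 0 0) P.nil))) (P.cons (P.cons (P.lf 3154296 0 0) (P.cons (P.lf 3452436 0 0) P.nil)) (P.cons (P.cons (P.lf 4249420 0 0) P.nil) P.nil)))))) 2216086)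
 (EL.cons 2 (TM.mk (P.cons (P.cons (P.lf 930066274 0 0) (P.cons (P.lf 143997612 0 0) (P.cons (P.lf 0 69373507 0) (P.cons (P.lf 0 2625294 0) (P.lf 656322 0 0))))) (P.cons (P.cons (P.lf 133876977 0 0) (P.cons (P.lf 20727517 0 0) (P.cons (P.lf 0 9985862 0) (P.cons (P.lf 0 377893 0) (P.lf 94471 0 0))))) (P.cons (P.cons (P.lf 0 117917924 0) (P.cons (P.lf 0 18256654 0) (P.cons (P.lf 8795480 0 0) (P.cons (P.lf 332845 0 0) P.nil)))) (P.cons (P.cons (P.lf 0 27311450 0) (P.cons (P.lf 0 4228495 0) (P.cons (P.lf 2037155 0 0) P.nil))) (P.cons (P.cons (P.lf 2406057 0 0) (P.cons (P.lf 372518 0 0) P.nil)) (P.cons (P.cons (P.lf 1249295 0 0) P.nil) P.nil)))))) 1205931)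
 (EL.cons 6 (TM.mk (P.cons (P.cons (P.lf 624440061 0 0) (P.cons (P.lf 96679002 0 0) (P.cons (P.lf 0 46576893 0) (P.cons (P.lf 0 1762605 0) (P.lf 440649 0 0))))) (P.cons (P.cons (P.lf 368270142 0 0) (P.cons (P.lf 57017466 0 0) (P.cons (P.lf 0 27469215 0) (P.cons (P.lf 0 1039515 0) (P.lf 259878 0 0))))) (P.cons (P.cons (P.lf 41991369 0 0) (P.cons (P.lf 6501315 0 0) (P.cons (P.lf 0 3132129 0) (P.cons (P.lf 0 118527 0) P.nil)))) (P.cons (P.cons (P.lf 0 14929938 0) (P.cons (P.lf 0 2311527 0) (P.cons (P.lf 1113621 0 0) P.nil))) (P.cons (P.cons (P.lf 0 3939606 0) (P.cons (P.lf 0 609948 0) P.nil)) (P.cons (P.cons (P.lf 51039 0 0) P.nil) P.nil)))))) 717678)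
 EL.nil))))))
noncomputable def S140_198_364_512_2 : EL := (EL.cons 0 (TM.mk (P.cons (P.cons (P.lf 0 784348056 0) (P.cons (P.lf 593700470 0 0) (P.cons (P.lf 0 33806657 0) (P.cons (P.lf 0 23059225 0) (P.cons (P.lf 2947486 0 0) (P.cons (P.lf 219026 0 0) P.nil)))))) (P.cons (P.cons (P.lf 0 643861814 0) (P.cons (P.lf 44946495 0 0) (P.cons (P.lf 0 16643712 0) (P.cons (P.lf 0 3628999 0) (P.cons (P.lf 787936 0 0) P.nil))))) (P.cons (P.cons (P.lf 1565179087 0 0) (P.cons (P.lf 0 504999856 0) (P.cons (P.lf 10924050 0 0) (P.cons (P.lf 17229722 0 0) P.nil)))) (P.cons (P.cons (P.lf 208442675 0 0) (P.cons (P.lf 0 180448764 0) (P.cons (P.lf 16707816 0 0) P.nil))) (P.cons (P.cons (P.lf 0 323175969 0) (P.cons (P.lf 61497694 0 0) P.nil)) (P.cons (P.cons (P.lf 0 57535416 0) P.nil) P.nil)))))) 189516403)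
 (EL.cons 1 (TM.mk (P.cons (P.cons (P.lf 0 99533959 0) (P.cons (P.lf 94888798 0 0) (P.cons (P.lf 0 14731888 0) (P.cons (P.lf 0 4932856 0) (P.cons (P.lf 845175 0 0) (P.cons (P.lf 62807 0 0) P.nil)))))) (P.cons (P.cons (P.lf 0 432681961 0) (P.cons (P.lf 318285332 0 0) (P.cons (P.lf 0 29689922 0) (P.cons (P.lf 0 13908694 0) (P.cons (P.lf 2043973 0 0) P.nil))))) (P.cons (P.cons (P.lf 0 286387552 0) (P.cons (P.lf 122730010 0 0) (P.cons (P.lf 0 18938491 0) (P.cons (P.lf 0 6364692 0) P.nil)))) (P.cons (P.cons (P.lf 364629626 0 0) (P.cons (P.lf 0 97745925 0) (P.cons (P.lf 0 4029829 0) P.nil))) (P.cons (P.cons (P.lf 84794187 0 0) (P.cons (P.lf 0 54207633 0) P.nil)) (P.cons (P.cons (P.lf 0 55176134 0) P.nil) P.nil)))))) 98556356)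
 (EL.cons 5 (TM.mk (P.cons (P.cons (P.lf 424712917 0 0) (P.cons (P.lf 0 386391012 0) (P.cons (P.lf 52978712 0 0) (P.cons (P.lf 19149428 0 0) (P.cons (P.lf 0 3160499 0) (P.cons (P.lf 0 234849 0) P.nil)))))) (P.cons (P.cons (P.lf 714000015 0 0) (P.cons (P.lf 0 410901601 0) (P.cons (P.lf 41649755 0 0) (P.cons (P.lf 18399933 0 0) (P.cons (P.lf 0 2771894 0) P.nil))))) (P.cons (P.cons (P.lf 0 238996663 0) (P.cons (P.lf 47427360 0 0) (P.cons (P.lf 12689526 0 0) (P.cons (P.lf 215837 0 0) P.nil)))) (P.cons (P.cons (P.lf 0 251957868 0) (P.cons (P.lf 100253035 0 0) (P.cons (P.lf 0 1868049 0) P.nil))) (P.cons (P.cons (P.lf 70228642 0 0) (P.cons (P.lf 1503459 0 0) P.nil)) (P.cons (P.cons (P.lf 33820995 0 0) P.nil) P.nil)))))) 84572532)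
 (EL.cons 9 (TM.mk (P.cons (P.cons (P.lf 128676715 0 0) (P.cons (P.lf 0 154674274 0) (P.cons (P.lf 36139918 0 0) (P.cons (P.lf 9662286 0 0) (P.cons (P.lf 0 1863975 0) (P.cons (P.lf 0 138511 0) P.nil)))))) (P.cons (P.cons (P.lf 428004151 0 0) (P.cons (P.lf 0 348459373 0) (P.cons (P.lf 31528239 0 0) (P.cons (P.lf 15096723 0 0) (P.cons (P.lf 0 2198598 0) P.nil))))) (P.cons (P.cons (P.lf 280157163 0 0) (P.cons (P.lf 0 116583649 0) (P.cons (P.lf 14623800 0 0) (P.cons (P.lf 5595837 0 0) P.nil)))) (P.cons (P.cons (P.lf 0 156921988 0) (P.cons (P.lf 31847187 0 0) (P.cons (P.lf 3593380 0 0) P.nil))) (P.cons (P.cons (P.lf 0 39422077 0) (P.cons (P.lf 20619967 0 0) P.nil)) (P.cons (P.cons (P.lf 11791725 0 0) P.nil) P.nil)))))) 22707820)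
 (EL.cons 2 (TM.mk (P.cons (P.cons (P.lf 262886518 0 0) (P.cons (P.lf 0 117298327 0) (P.cons (P.lf 0 54634488 0) (P.cons (P.lf 12928798 0 0) (P.cons (P.lf 1964587 0 0) (P.cons (P.lf 0 344317 0) P.nil)))))) (P.cons (P.cons (P.lf 475047016 0 0) (P.cons (P.lf 0 42375858 0) (P.cons (P.lf 0 61132275 0) (P.cons (P.lf 8689438 0 0) (P.cons (P.lf 1640542 0 0) P.nil))))) (P.cons (P.cons (P.lf 0 47774941 0) (P.cons (P.lf 0 11402713 0) (P.cons (P.lf 2675475 0 0) (P.cons (P.lf 481466 0 0) P.nil)))) (P.cons (P.cons (P.lf 0 105897217 0) (P.cons (P.lf 2306430 0 0) (P.cons (P.lf 12044761 0 0) P.nil))) (P.cons (P.cons (P.lf 0 5987278 0) (P.cons (P.lf 4288241 0 0) P.nil)) (P.cons (P.cons (P.lf 9121871 0 0) P.nil) P.nil)))))) 17331108)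
 (EL.cons 6 (TM.mk (P.cons (P.cons (P.lf 176500188 0 0) (P.cons (P.lf 0 78753282 0) (P.cons (P.lf 0 36681216 0) (P.cons (P.lf 8680302 0 0) (P.cons (P.lf 1319010 0 0) (P.cons (P.lf 0 231168 0) P.nil)))))) (P.cons (P.cons (P.lf 397630086 0 0) (P.cons (P.lf 0 63560424 0) (P.cons (P.lf 0 57396900 0) (P.cons (P.lf 9703854 0 0) (P.cons (P.lf 1689486 0 0) P.nil))))) (P.cons (P.cons (P.lf 133034634 0 0) (P.cons (P.lf 0 30566358 0) (P.cons (P.lf 0 21265086 0) (P.cons (P.lf 4051368 0 0) P.nil)))) (P.cons (P.cons (P.lf 0 36341106 0) (P.cons (P.lf 0 8968026 0) (P.cons (P.lf 1969920 0 0) P.nil))) (P.cons (P.cons (P.lf 0 23529630 0) (P.cons (P.lf 207456 0 0) P.nil)) (P.cons (P.cons (P.lf 0 838104 0) P.nil) P.nil)))))) 11954526)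
 EL.nil))))))
noncomputable def S140_198_364_512_3 : EL := (EL.cons 0 (TM.mk (P.cons (P.lf 2663300420 0 0) (P.cons (P.lf 0 1327550055 0) (P.cons (P.lf 0 20882153 0) (P.cons (P.lf 49374168 0 0) (P.cons (P.lf 5384801 0 0) (P.cons (P.lf 0 616050 0) P.nil)))))) 235193)
 (EL.cons 1 (TM.mk (P.cons (P.lf 1788121471 0 0) (P.cons (P.lf 0 94132764 0) (P.cons (P.lf 0 179177853 0) (P.cons (P.lf 0 11443897 0) (P.cons (P.lf 3792305 0 0) (P.cons (P.lf 635690 0 0) P.nil)))))) 110845)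
 (EL.cons 5 (TM.mk (P.cons (P.lf 1200532382 0 0) (P.cons (P.lf 472017796 0 0) (P.cons (P.lf 7424770 0 0) (P.cons (P.lf 0 17555260 0) (P.cons (P.lf 0 1914598 0) (P.cons (P.lf 219040 0 0) P.nil)))))) 72450)
 EL.nil)))
noncomputable def S140_198_364_512_4 : EL := (EL.cons 0 (TM.mk (P.cons (P.cons (P.lf 376395637 0 0) (P.cons (P.lf 0 226220888 0) (P.cons (P.lf 0 15124600 0) (P.lf 5041531 0 0)))) (P.cons (P.cons (P.lf 438364726 0 0) (P.cons (P.lf 0 20653989 0) (P.cons (P.lf 0 1380875 0) (P.lf 460290 0 0)))) (P.cons (P.cons (P.lf 0 425767329 0) (P.cons (P.lf 53063871 0 0) (P.cons (P.lf 3547726 0 0) (P.lf 0 1182575 0)))) (P.cons (P.cons (P.lf 12036856 0 0) (P.cons (P.lf 9843873 0 0) (P.cons (P.lf 658137 0 0) P.nil))) (P.cons (P.cons (P.lf 37097138 0 0) (P.cons (P.lf 0 4080306 0) P.nil)) (P.cons (P.cons (P.lf 586272 0 0) P.nil) P.nil)))))) 6221362)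
 (EL.cons 1 (TM.mk (P.cons (P.cons (P.lf 252709426 0 0) (P.cons (P.lf 0 151883139 0) (P.cons (P.lf 0 10154551 0) (P.lf 3384849 0 0)))) (P.cons (P.cons (P.lf 406977230 0 0) (P.cons (P.lf 0 81579048 0) (P.cons (P.lf 0 5454183 0) (P.lf 1818058 0 0)))) (P.cons (P.cons (P.lf 0 121830110 0) (P.cons (P.lf 9721291 0 0) (P.cons (P.lf 649942 0 0) (P.lf 0 216646 0)))) (P.cons (P.cons (P.lf 0 70200487 0) (P.cons (P.lf 14116933 0 0) (P.cons (P.lf 943824 0 0) P.nil))) (P.cons (P.cons (P.lf 7774683 0 0) (P.cons (P.lf 2041666 0 0) P.nil)) (P.cons (P.cons (P.lf 5635282 0 0) P.nil) P.nil)))))) 3936926)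
 (EL.cons 5 (TM.mk (P.cons (P.cons (P.lf 169667360 0 0) (P.cons (P.lf 0 101973288 0) (P.cons (P.lf 0 6817694 0) (P.lf 2272564 0 0)))) (P.cons (P.cons (P.lf 348882310 0 0) (P.cons (P.lf 0 100233046 0) (P.cons (P.lf 0 6701346 0) (P.lf 2233780 0 0)))) (P.cons (P.cons (P.lf 62052662 0 0) (P.cons (P.lf 0 31133400 0) (P.cons (P.lf 0 2081504 0) (P.lf 693832 0 0)))) (P.cons (P.cons (P.lf 0 40771156 0) (P.cons (P.lf 861190 0 0) (P.cons (P.lf 57576 0 0) P.nil))) (P.cons (P.cons (P.lf 0 12138662 0) (P.cons (P.lf 2601586 0 0) P.nil)) (P.cons (P.cons (P.lf 1208018 0 0) P.nil) P.nil)))))) 2660464)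
 EL.nil)))
noncomputable def S140_198_364_512_5 : EL := (EL.cons 0 (TM.mk (P.cons (P.cons (P.lf 53194777 0 0) (P.cons (P.lf 0 63942133 0) (P.cons (P.lf 14940191 0 0) (P.cons (P.lf 3994375 0 0) (P.cons (P.lf 0 770563 0) (P.cons (P.lf 0 57258 0) P.nil)))))) (P.cons (P.cons (P.lf 150420835 0 0) (P.cons (P.lf 0 112180000 0) (P.cons (P.lf 5586633 0 0) (P.cons (P.lf 4249924 0 0) (P.cons (P.lf 0 524800 0) P.nil))))) (P.cons (P.cons (P.lf 27203730 0 0) (P.cons (P.lf 24110374 0 0) (P.cons (P.lf 0 568481 0) (P.cons (P.lf 0 828880 0) P.nil)))) (P.cons (P.cons (P.lf 0 123002472 0) (P.cons (P.lf 37133216 0 0) (P.cons (P.lf 0 1353144 0) P.nil))) (P.cons (P.cons (P.lf 18518405 0 0) (P.cons (P.lf 0 460202 0) P.nil)) (P.cons (P.cons (P.lf 15999271 0 0) P.nil) P.nil)))))) 28574712)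
 (EL.cons 1 (TM.mk (P.cons (P.cons (P.lf 35714604 0 0) (P.cons (P.lf 0 42930303 0) (P.cons (P.lf 10030740 0 0) (P.cons (P.lf 2681795 0 0) (P.cons (P.lf 0 517350 0) (P.cons (P.lf 0 38443 0) P.nil)))))) (P.cons (P.cons (P.lf 116913690 0 0) (P.cons (P.lf 0 94455941 0) (P.cons (P.lf 8222703 0 0) (P.cons (P.lf 4048959 0 0) (P.cons (P.lf 0 582991 0) P.nil))))) (P.cons (P.cons (P.lf 67925981 0 0) (P.cons (P.lf 0 22964872 0) (P.cons (P.lf 2593081 0 0) (P.cons (P.lf 1063828 0 0) P.nil)))) (P.cons (P.cons (P.lf 0 59779882 0) (P.cons (P.lf 20508849 0 0) (P.cons (P.lf 0 157380 0) P.nil))) (P.cons (P.cons (P.lf 0 17125155 0) (P.cons (P.lf 9028164 0 0) P.nil)) (P.cons (P.cons (P.lf 7980148 0 0) P.nil) P.nil)))))) 19508911)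
 (EL.cons 5 (TM.mk (P.cons (P.cons (P.lf 23978538 0 0) (P.cons (P.lf 0 28823110 0) (P.cons (P.lf 6734570 0 0) (P.cons (P.lf 1800538 0 0) (P.cons (P.lf 0 347344 0) (P.cons (P.lf 0 25810 0) P.nil)))))) (P.cons (P.cons (P.lf 89185084 0 0) (P.cons (P.lf 0 76266900 0) (P.cons (P.lf 8523052 0 0) (P.cons (P.lf 3521154 0 0) (P.cons (P.lf 0 546268 0) P.nil))))) (P.cons (P.cons (P.lf 83713282 0 0) (P.cons (P.lf 0 47433794 0) (P.cons (P.lf 5076726 0 0) (P.cons (P.lf 2159992 0 0) P.nil)))) (P.cons (P.cons (P.lf 0 8573116 0) (P.cons (P.lf 0 2587192 0) (P.cons (P.lf 1678910 0 0) P.nil))) (P.cons (P.cons (P.lf 0 19725012 0) (P.cons (P.lf 7036948 0 0) P.nil)) (P.cons (P.cons (P.lf 0 1758054 0) P.nil) P.nil)))))) 12181292)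
 EL.nil)))
noncomputable def S140_198_364_512_6 : EL := (EL.cons 12 (TM.mk (P.lf 8589934592 0 0) 0)
 (EL.cons 3 (TM.mk (P.cons (P.lf 0 2391525476 0) (P.cons (P.lf 596040491 0 0) (P.cons (P.lf 83651283 0 0) (P.cons (P.lf 0 1319475 0) (P.cons (P.lf 0 1283523 0) (P.cons (P.lf 0 89452 0) P.nil)))))) 26268)
 (EL.cons 7 (TM.mk (P.cons (P.lf 0 1605653656 0) (P.cons (P.lf 0 315650420 0) (P.cons (P.lf 26061229 0 0) (P.cons (P.lf 6616358 0 0) (P.cons (P.lf 191151 0 0) (P.cons (P.lf 0 76666 0) P.nil)))))) 11720)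
 EL.nil)))
noncomputable def S140_198_364_512_7 : EL := (EL.cons 12 (TM.mk (P.cons (P.cons (P.lf 1213987688 0 0) (P.cons (P.lf 0 729629536 0) (P.cons (P.lf 0 48781328 0) (P.lf 16260440 0 0)))) (P.cons (P.cons (P.lf 2018981304 0 0) (P.cons (P.lf 0 430306752 0) (P.cons (P.lf 0 28769304 0) (P.lf 9589760 0 0)))) (P.cons (P.cons (P.lf 0 357325106 0) (P.cons (P.lf 0 49064984 0) (P.cons (P.lf 0 3280368 0) (P.lf 1093448 0 0)))) (P.cons (P.cons (P.lf 0 145965544 0) (P.cons (P.lf 17444944 0 0) (P.cons (P.lf 1166328 0 0) P.nil))) (P.cons (P.cons (P.lf 4205728 0 0) (P.cons (P.lf 4603248 0 0) P.nil)) (P.cons (P.cons (P.lf 5665894 0 0) P.nil) P.nil)))))) 2954756)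
 (EL.cons 3 (TM.mk (P.cons (P.cons (P.lf 2521334703 0 0) (P.cons (P.lf 0 406272620 0) (P.cons (P.lf 0 27162438 0) (P.lf 9054144 0 0)))) (P.cons (P.cons (P.lf 0 1168343029 0) (P.cons (P.lf 0 138348156 0) (P.cons (P.lf 0 9249632 0) (P.lf 3083206 0 0)))) (P.cons (P.cons (P.lf 0 536208836 0) (P.cons (P.lf 46606764 0 0) (P.cons (P.lf 3116018 0 0) (P.lf 0 1038674 0)))) (P.cons (P.cons (P.lf 8360500 0 0) (P.cons (P.lf 24679518 0 0) (P.cons (P.lf 1650012 0 0) P.nil))) (P.cons (P.cons (P.lf 39156629 0 0) (P.cons (P.lf 747608 0 0) P.nil)) (P.cons (P.cons (P.lf 4947326 0 0) P.nil) P.nil)))))) 10974955)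
 (EL.cons 7 (TM.mk (P.cons (P.cons (P.lf 0 1741157836 0) (P.cons (P.lf 459114383 0 0) (P.cons (P.lf 30695323 0 0) (P.lf 0 10231774 0)))) (P.cons (P.cons (P.lf 618729715 0 0) (P.cons (P.lf 73266256 0 0) (P.cons (P.lf 4898415 0 0) (P.lf 0 1632807 0)))) (P.cons (P.cons (P.lf 146044695 0 0) (P.cons (P.lf 0 41013628 0) (P.cons (P.lf 0 2742074 0) (P.lf 914022 0 0)))) (P.cons (P.cons (P.lf 0 74616102 0) (P.cons (P.lf 0 4051450 0) (P.cons (P.lf 0 270871 0) P.nil))) (P.cons (P.cons (P.lf 0 11965841 0) (P.cons (P.lf 2828862 0 0) P.nil)) (P.cons (P.cons (P.lf 3147187 0 0) P.nil) P.nil)))))) 6923165)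
 (EL.cons 10 (TM.mk (P.cons (P.cons (P.lf 0 1670316408 0) (P.cons (P.lf 0 258606924 0) (P.cons (P.lf 124588659 0 0) (P.cons (P.lf 4714800 0 0) (P.lf 0 1178700 0))))) (P.cons (P.cons (P.lf 0 656724534 0) (P.cons (P.lf 0 101677449 0) (P.cons (P.lf 48984987 0 0) (P.cons (P.lf 1853736 0 0) (P.lf 0 463434 0))))) (P.cons (P.cons (P.lf 0 10330179 0) (P.cons (P.lf 0 1599369 0) (P.cons (P.lf 770526 0 0) (P.cons (P.lf 29157 0 0) P.nil)))) (P.cons (P.cons (P.lf 24424860 0 0) (P.cons (P.lf 3781581 0 0) (P.cons (P.lf 0 1821846 0) P.nil))) (P.cons (P.cons (P.lf 2663805 0 0) (P.cons (P.lf 412422 0 0) P.nil)) (P.cons (P.cons (P.lf 0 304752 0) P.nil) P.nil)))))) 496941)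
 EL.nil))))
noncomputable def S140_198_364_512_8 : EL := (EL.cons 12 (TM.mk (P.cons (P.cons (P.lf 171568954 0 0) (P.cons (P.lf 0 206232366 0) (P.cons (P.lf 48186558 0 0) (P.cons (P.lf 12883048 0 0) (P.cons (P.lf 0 2485300 0) (P.cons (P.lf 0 184682 0) P.nil)))))) (P.cons (P.cons (P.lf 570672202 0 0) (P.cons (P.lf 0 464612498 0) (P.cons (P.lf 42037652 0 0) (P.cons (P.lf 20128964 0 0) (P.cons (P.lf 0 2931464 0) P.nil))))) (P.cons (P.cons (P.lf 373542884 0 0) (P.cons (P.lf 0 155444866 0) (P.cons (P.lf 19498400 0 0) (P.cons (P.lf 7461116 0 0) P.nil)))) (P.cons (P.cons (P.lf 0 209229318 0) (P.cons (P.lf 42462916 0 0) (P.cons (P.lf 4791174 0 0) P.nil))) (P.cons (P.cons (P.lf 0 52562770 0) (P.cons (P.lf 27493290 0 0) P.nil)) (P.cons (P.cons (P.lf 15722300 0 0) P.nil) P.nil)))))) 30277064)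
 (EL.cons 3 (TM.mk (P.cons (P.cons (P.lf 760430711 0 0) (P.cons (P.lf 0 600576213 0) (P.cons (P.lf 46118922 0 0) (P.cons (P.lf 24920267 0 0) (P.cons (P.lf 0 3459666 0) (P.cons (P.lf 0 257085 0) P.nil)))))) (P.cons (P.cons (P.lf 1001970629 0 0) (P.cons (P.lf 0 399259019 0) (P.cons (P.lf 53564580 0 0) (P.cons (P.lf 19629568 0 0) (P.cons (P.lf 0 3218490 0) P.nil))))) (P.cons (P.cons (P.lf 0 847812980 0) (P.cons (P.lf 152251237 0 0) (P.cons (P.lf 23409831 0 0) (P.cons (P.lf 0 1623911 0) P.nil)))) (P.cons (P.cons (P.lf 0 327886844 0) (P.cons (P.lf 157192658 0 0) (P.cons (P.lf 0 655122 0) P.nil))) (P.cons (P.cons (P.lf 98143468 0 0) (P.cons (P.lf 14951538 0 0) P.nil)) (P.cons (P.cons (P.lf 49721301 0 0) P.nil) P.nil)))))) 92340824)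
 (EL.cons 7 (TM.mk (P.cons (P.cons (P.lf 0 460074285 0) (P.cons (P.lf 387008886 0 0) (P.cons (P.lf 0 40535396 0) (P.cons (P.lf 0 17504859 0) (P.cons (P.lf 2663156 0 0) (P.cons (P.lf 197895 0 0) P.nil)))))) (P.cons (P.cons (P.lf 0 530622431 0) (P.cons (P.lf 211439127 0 0) (P.cons (P.lf 0 28366660 0) (P.cons (P.lf 0 10395411 0) (P.cons (P.lf 1704445 0 0) P.nil))))) (P.cons (P.cons (P.lf 567264077 0 0) (P.cons (P.lf 0 127760616 0) (P.cons (P.lf 0 6074175 0) (P.cons (P.lf 3177211 0 0) P.nil)))) (P.cons (P.cons (P.lf 28013167 0 0) (P.cons (P.lf 0 54426368 0) (P.cons (P.lf 3380135 0 0) P.nil))) (P.cons (P.cons (P.lf 0 92431119 0) (P.cons (P.lf 16287430 0 0) P.nil)) (P.cons (P.cons (P.lf 0 3838731 0) P.nil) P.nil)))))) 54267142)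
 (EL.cons 10 (TM.mk (P.cons (P.cons (P.lf 0 472120836 0) (P.cons (P.lf 210657378 0 0) (P.cons (P.lf 98118696 0 0) (P.cons (P.lf 0 23218974 0) (P.cons (P.lf 0 3528228 0) (P.cons (P.lf 618366 0 0) P.nil)))))) (P.cons (P.cons (P.lf 0 970809042 0) (P.cons (P.lf 128605476 0 0) (P.cons (P.lf 134242290 0 0) (P.cons (P.lf 0 21392334 0) (P.cons (P.lf 0 3825618 0) P.nil))))) (P.cons (P.cons (P.lf 0 172669362 0) (P.cons (P.lf 59899062 0 0) (P.cons (P.lf 32084334 0 0) (P.cons (P.lf 0 7008444 0) P.nil)))) (P.cons (P.cons (P.lf 113450886 0 0) (P.cons (P.lf 15168672 0 0) (P.cons (P.lf 0 8993520 0) P.nil))) (P.cons (P.cons (P.lf 33777354 0 0) (P.cons (P.lf 0 2009664 0) P.nil)) (P.cons (P.cons (P.lf 0 3361464 0) P.nil) P.nil)))))) 18599886)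
 EL.nil))))
noncomputable def S140_198_364_512_9 : EL := (EL.cons 3 (TM.mk (P.cons (P.lf 0 2391525476 0) (P.cons (P.lf 596040491 0 0) (P.cons (P.lf 83651283 0 0) (P.cons (P.lf 0 1319475 0) (P.cons (P.lf 0 1283523 0) (P.cons (P.lf 0 89452 0) P.nil)))))) 26268)
 (EL.cons 7 (TM.mk (P.cons (P.lf 0 1605653656 0) (P.cons (P.lf 0 315650420 0) (P.cons (P.lf 26061229 0 0) (P.cons (P.lf 6616358 0 0) (P.cons (P.lf 191151 0 0) (P.cons (P.lf 0 76666 0) P.nil)))))) 11720)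
 EL.nil))
noncomputable def S140_198_364_512_10 : EL := (EL.cons 3 (TM.mk (P.cons (P.cons (P.lf 0 337986564 0) (P.cons (P.lf 203136310 0 0) (P.cons (P.lf 13581219 0 0) (P.lf 0 4527072 0)))) (P.cons (P.cons (P.lf 0 477868528 0) (P.cons (P.lf 69174078 0 0) (P.cons (P.lf 4624816 0 0) (P.lf 0 1541603 0)))) (P.cons (P.cons (P.lf 251398693 0 0) (P.cons (P.lf 0 23303382 0) (P.cons (P.lf 0 1558009 0) (P.lf 519337 0 0)))) (P.cons (P.cons (P.lf 35319085 0 0) (P.cons (P.lf 0 12339759 0) (P.cons (P.lf 0 825006 0) P.nil))) (P.cons (P.cons (P.lf 0 15270472 0) (P.cons (P.lf 0 373804 0) P.nil)) (P.cons (P.cons (P.lf 0 2966503 0) P.nil) P.nil)))))) 2652801)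
 (EL.cons 7 (TM.mk (P.cons (P.cons (P.lf 0 226921840 0) (P.cons (P.lf 136384313 0 0) (P.cons (P.lf 9118336 0 0) (P.lf 0 3039445 0)))) (P.cons (P.cons (P.lf 0 422003264 0) (P.cons (P.lf 107245459 0 0) (P.cons (P.lf 7170180 0 0) (P.lf 0 2390058 0)))) (P.cons (P.cons (P.lf 0 3715269 0) (P.cons (P.lf 22770002 0 0) (P.cons (P.lf 1522348 0 0) (P.lf 0 507447 0)))) (P.cons (P.cons (P.lf 47475243 0 0) (P.cons (P.lf 0 3325399 0) (P.cons (P.lf 0 222328 0) P.nil))) (P.cons (P.cons (P.lf 5075611 0 0) (P.cons (P.lf 0 1998030 0) P.nil)) (P.cons (P.cons (P.lf 0 1897613 0) P.nil) P.nil)))))) 1563028)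
 EL.nil))
noncomputable def S140_198_364_512_11 : EL := (EL.cons 3 (TM.mk (P.cons (P.cons (P.lf 0 47766547 0) (P.cons (P.lf 57417195 0 0) (P.cons (P.lf 0 13415628 0) (P.cons (P.lf 0 3586771 0) (P.cons (P.lf 691932 0 0) (P.cons (P.lf 51417 0 0) P.nil)))))) (P.cons (P.cons (P.lf 0 146976097 0) (P.cons (P.lf 115042759 0 0) (P.cons (P.lf 0 8360130 0) (P.cons (P.lf 0 4710176 0) (P.cons (P.lf 643698 0 0) P.nil))))) (P.cons (P.cons (P.lf 0 62729420 0) (P.cons (P.lf 9030439 0 0) (P.cons (P.lf 0 2042379 0) (P.cons (P.lf 0 555077 0) P.nil)))) (P.cons (P.cons (P.lf 89702080 0 0) (P.cons (P.lf 0 27101008 0) (P.cons (P.lf 421020 0 0) P.nil))) (P.cons (P.cons (P.lf 3640330 0 0) (P.cons (P.lf 0 6119568 0) P.nil)) (P.cons (P.cons (P.lf 0 10206459 0) P.nil) P.nil)))))) 17155948)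
 (EL.cons 7 (TM.mk (P.cons (P.cons (P.lf 0 32070129 0) (P.cons (P.lf 38549508 0 0) (P.cons (P.lf 0 9007160 0) (P.cons (P.lf 0 2408133 0) (P.cons (P.lf 464558 0 0) (P.cons (P.lf 34521 0 0) P.nil)))))) (P.cons (P.cons (P.lf 0 112976147 0) (P.cons (P.lf 94424943 0 0) (P.cons (P.lf 0 9628480 0) (P.cons (P.lf 0 4235967 0) (P.cons (P.lf 639283 0 0) P.nil))))) (P.cons (P.cons (P.lf 0 90273343 0) (P.cons (P.lf 45503382 0 0) (P.cons (P.lf 0 5043237 0) (P.cons (P.lf 0 2095235 0) P.nil)))) (P.cons (P.cons (P.lf 27246823 0 0) (P.cons (P.lf 0 3793670 0) (P.cons (P.lf 0 1447423 0) P.nil))) (P.cons (P.cons (P.lf 19090305 0 0) (P.cons (P.lf 0 7533548 0) P.nil)) (P.cons (P.cons (P.lf 0 1343253 0) P.nil) P.nil)))))) 10165842)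
 EL.nil))
noncomputable def S140_198_364_512_12 : EL := (EL.cons 4 (TM.mk (P.cons (P.lf 2391525476 0 0) (P.cons (P.lf 0 596040491 0) (P.cons (P.lf 0 83651283 0) (P.cons (P.lf 1319475 0 0) (P.cons (P.lf 1283523 0 0) (P.cons (P.lf 89452 0 0) P.nil)))))) 26268)
 (EL.cons 8 (TM.mk (P.cons (P.lf 1605653656 0 0) (P.cons (P.lf 315650420 0 0) (P.cons (P.lf 0 26061229 0) (P.cons (P.lf 0 6616358 0) (P.cons (P.lf 0 191151 0) (P.cons (P.lf 76666 0 0) P.nil)))))) 11720)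
 EL.nil))
noncomputable def S140_198_364_512_13 : EL := (EL.cons 4 (TM.mk (P.cons (P.cons (P.lf 337986564 0 0) (P.cons (P.lf 0 203136310 0) (P.cons (P.lf 0 13581219 0) (P.lf 4527072 0 0)))) (P.cons (P.cons (P.lf 477868528 0 0) (P.cons (P.lf 0 69174078 0) (P.cons (P.lf 0 4624816 0) (P.lf 1541603 0 0)))) (P.cons (P.cons (P.lf 0 251398693 0) (P.cons (P.lf 23303382 0 0) (P.cons (P.lf 1558009 0 0) (P.lf 0 519337 0)))) (P.cons (P.cons (P.lf 0 35319085 0) (P.cons (P.lf 12339759 0 0) (P.cons (P.lf 825006 0 0) P.nil))) (P.cons (P.cons (P.lf 15270472 0 0) (P.cons (P.lf 373804 0 0) P.nil)) (P.cons (P.cons (P.lf 2966503 0 0) P.nil) P.nil)))))) 2652801)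
 (EL.cons 8 (TM.mk (P.cons (P.cons (P.lf 226921840 0 0) (P.cons (P.lf 0 136384313 0) (P.cons (P.lf 0 9118336 0) (P.lf 3039445 0 0)))) (P.cons (P.cons (P.lf 422003264 0 0) (P.cons (P.lf 0 107245459 0) (P.cons (P.lf 0 7170180 0) (P.lf 2390058 0 0)))) (P.cons (P.cons (P.lf 3715269 0 0) (P.cons (P.lf 0 22770002 0) (P.cons (P.lf 0 1522348 0) (P.lf 507447 0 0)))) (P.cons (P.cons (P.lf 0 47475243 0) (P.cons (P.lf 3325399 0 0) (P.cons (P.lf 222328 0 0) P.nil))) (P.cons (P.cons (P.lf 0 5075611 0) (P.cons (P.lf 1998030 0 0) P.nil)) (P.cons (P.cons (P.lf 1897613 0 0) P.nil) P.nil)))))) 1563028)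
 EL.nil))
noncomputable def S140_198_364_512_14 : EL := (EL.cons 4 (TM.mk (P.cons (P.cons (P.lf 47766547 0 0) (P.cons (P.lf 0 57417195 0) (P.cons (P.lf 13415628 0 0) (P.cons (P.lf 3586771 0 0) (P.cons (P.lf 0 691932 0) (P.cons (P.lf 0 51417 0) P.nil)))))) (P.cons (P.cons (P.lf 146976097 0 0) (P.cons (P.lf 0 115042759 0) (P.cons (P.lf 8360130 0 0) (P.cons (P.lf 4710176 0 0) (P.cons (P.lf 0 643698 0) P.nil))))) (P.cons (P.cons (P.lf 62729420 0 0) (P.cons (P.lf 0 9030439 0) (P.cons (P.lf 2042379 0 0) (P.cons (P.lf 555077 0 0) P.nil)))) (P.cons (P.cons (P.lf 0 89702080 0) (P.cons (P.lf 27101008 0 0) (P.cons (P.lf 0 421020 0) P.nil))) (P.cons (P.cons (P.lf 0 3640330 0) (P.cons (P.lf 6119568 0 0) P.nil)) (P.cons (P.cons (P.lf 10206459 0 0) P.nil) P.nil)))))) 17155948)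
 (EL.cons 8 (TM.mk (P.cons (P.cons (P.lf 32070129 0 0) (P.cons (P.lf 0 38549508 0) (P.cons (P.lf 9007160 0 0) (P.cons (P.lf 2408133 0 0) (P.cons (P.lf 0 464558 0) (P.cons (P.lf 0 34521 0) P.nil)))))) (P.cons (P.cons (P.lf 112976147 0 0) (P.cons (P.lf 0 94424943 0) (P.cons (P.lf 9628480 0 0) (P.cons (P.lf 4235967 0 0) (P.cons (P.lf 0 639283 0) P.nil))))) (P.cons (P.cons (P.lf 90273343 0 0) (P.cons (P.lf 0 45503382 0) (P.cons (P.lf 5043237 0 0) (P.cons (P.lf 2095235 0 0) P.nil)))) (P.cons (P.cons (P.lf 0 27246823 0) (P.cons (P.lf 3793670 0 0) (P.cons (P.lf 1447423 0 0) P.nil))) (P.cons (P.cons (P.lf 0 19090305 0) (P.cons (P.lf 7533548 0 0) P.nil)) (P.cons (P.cons (P.lf 1343253 0 0) P.nil) P.nil)))))) 10165842)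
 EL.nil))
noncomputable def S140_198_364_512_15 : EL := (EL.cons 4 (TM.mk (P.cons (P.lf 0 1420426890 0) (P.cons (P.lf 708026696 0 0) (P.cons (P.lf 11137148 0 0) (P.cons (P.lf 0 26332890 0) (P.cons (P.lf 0 2871894 0) (P.cons (P.lf 328560 0 0) P.nil)))))) 125439)
 (EL.cons 8 (TM.mk (P.cons (P.lf 0 953664785 0) (P.cons (P.lf 50204141 0 0) (P.cons (P.lf 95561522 0 0) (P.cons (P.lf 6103412 0 0) (P.cons (P.lf 0 2022563 0) (P.cons (P.lf 0 339035 0) P.nil)))))) 59114)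
 EL.nil))
noncomputable def S140_198_364_512_16 : EL := (EL.cons 4 (TM.mk (P.cons (P.cons (P.lf 0 200744340 0) (P.cons (P.lf 120651140 0 0) (P.cons (P.lf 8066453 0 0) (P.lf 0 2688816 0)))) (P.cons (P.cons (P.lf 0 233794520 0) (P.cons (P.lf 11015460 0 0) (P.cons (P.lf 736467 0 0) (P.lf 0 245488 0)))) (P.cons (P.cons (P.lf 227075909 0 0) (P.cons (P.lf 0 28300731 0) (P.cons (P.lf 0 1892120 0) (P.lf 630706 0 0)))) (P.cons (P.cons (P.lf 0 6419656 0) (P.cons (P.lf 0 5250065 0) (P.cons (P.lf 0 351006 0) P.nil))) (P.cons (P.cons (P.lf 0 19785140 0) (P.cons (P.lf 2176163 0 0) P.nil)) (P.cons (P.cons (P.lf 0 312678 0) P.nil) P.nil)))))) 3318068)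
 (EL.cons 8 (TM.mk (P.cons (P.cons (P.lf 0 134778361 0) (P.cons (P.lf 81004341 0 0) (P.cons (P.lf 5415761 0 0) (P.lf 0 1805253 0)))) (P.cons (P.cons (P.lf 0 217054523 0) (P.cons (P.lf 43508826 0 0) (P.cons (P.lf 2908898 0 0) (P.lf 0 969631 0)))) (P.cons (P.cons (P.lf 64976059 0 0) (P.cons (P.lf 0 5184689 0) (P.cons (P.lf 0 346636 0) (P.lf 115545 0 0)))) (P.cons (P.cons (P.lf 37440260 0 0) (P.cons (P.lf 0 7529031 0) (P.cons (P.lf 0 503373 0) P.nil))) (P.cons (P.cons (P.lf 0 4146498 0) (P.cons (P.lf 0 1088889 0) P.nil)) (P.cons (P.cons (P.lf 0 3005484 0) P.nil) P.nil)))))) 2099684)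
 EL.nil))
noncomputable def S140_198_364_512_17 : EL := (EL.cons 4 (TM.mk (P.cons (P.cons (P.lf 0 28370548 0) (P.cons (P.lf 34102470 0 0) (P.cons (P.lf 0 7968102 0) (P.cons (P.lf 0 2130333 0) (P.cons (P.lf 410967 0 0) (P.cons (P.lf 30538 0 0) P.nil)))))) (P.cons (P.cons (P.lf 0 80224445 0) (P.cons (P.lf 59829333 0 0) (P.cons (P.lf 0 2979538 0) (P.cons (P.lf 0 2266626 0) (P.cons (P.lf 279893 0 0) P.nil))))) (P.cons (P.cons (P.lf 0 14508656 0) (P.cons (P.lf 0 12858866 0) (P.cons (P.lf 303190 0 0) (P.cons (P.lf 442069 0 0) P.nil)))) (P.cons (P.cons (P.lf 65601318 0 0) (P.cons (P.lf 0 19804381 0) (P.cons (P.lf 721677 0 0) P.nil))) (P.cons (P.cons (P.lf 0 9876482 0) (P.cons (P.lf 245441 0 0) P.nil)) (P.cons (P.cons (P.lf 0 8532945 0) P.nil) P.nil)))))) 15239857)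
 (EL.cons 8 (TM.mk (P.cons (P.cons (P.lf 0 19047789 0) (P.cons (P.lf 22896162 0 0) (P.cons (P.lf 0 5349728 0) (P.cons (P.lf 0 1430291 0) (P.cons (P.lf 275920 0 0) (P.cons (P.lf 20503 0 0) P.nil)))))) (P.cons (P.cons (P.lf 0 62353968 0) (P.cons (P.lf 50376502 0 0) (P.cons (P.lf 0 4385442 0) (P.cons (P.lf 0 2159445 0) (P.cons (P.lf 310929 0 0) P.nil))))) (P.cons (P.cons (P.lf 0 36227190 0) (P.cons (P.lf 12247932 0 0) (P.cons (P.lf 0 1382977 0) (P.cons (P.lf 0 567375 0) P.nil)))) (P.cons (P.cons (P.lf 31882604 0 0) (P.cons (P.lf 0 10938053 0) (P.cons (P.lf 83936 0 0) P.nil))) (P.cons (P.cons (P.lf 9133416 0 0) (P.cons (P.lf 0 4815021 0) P.nil)) (P.cons (P.cons (P.lf 0 4256079 0) P.nil) P.nil)))))) 10404741)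
 EL.nil))
noncomputable def S140_198_364_512_18 : EL := (EL.cons 4 (TM.mk (P.cons (P.lf 843650871 0 0) (P.cons (P.lf 0 630789950 0) (P.cons (P.lf 68683740 0 0) (P.cons (P.lf 32463552 0 0) (P.cons (P.lf 0 1740131 0) (P.cons (P.lf 0 1365121 0) P.nil)))))) 264319)
 (EL.cons 8 (TM.mk (P.cons (P.lf 566421357 0 0) (P.cons (P.lf 0 170987672 0) (P.cons (P.lf 0 69138754 0) (P.cons (P.lf 11876237 0 0) (P.cons (P.lf 4377599 0 0) (P.cons (P.lf 2637 0 0) P.nil)))))) 178385)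
 EL.nil))
noncomputable def S140_198_364_512_19 : EL := (EL.cons 4 (TM.mk (P.cons (P.cons (P.lf 119230450 0 0) (P.cons (P.lf 0 71659753 0) (P.cons (P.lf 0 4791003 0) (P.lf 1597000 0 0)))) (P.cons (P.cons (P.lf 109144498 0 0) (P.cons (P.lf 11317234 0 0) (P.cons (P.lf 756644 0 0) (P.lf 0 252214 0)))) (P.cons (P.cons (P.lf 0 173648532 0) (P.cons (P.lf 20946116 0 0) (P.cons (P.lf 1400408 0 0) (P.lf 0 466802 0)))) (P.cons (P.cons (P.lf 32635250 0 0) (P.cons (P.lf 0 881764 0) (P.cons (P.lf 0 58952 0) P.nil))) (P.cons (P.cons (P.lf 15659041 0 0) (P.cons (P.lf 0 2699689 0) P.nil)) (P.cons (P.cons (P.lf 0 2871840 0) P.nil) P.nil)))))) 3923936)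
 (EL.cons 8 (TM.mk (P.cons (P.cons (P.lf 80050499 0 0) (P.cons (P.lf 0 48111862 0) (P.cons (P.lf 0 3216646 0) (P.lf 1072215 0 0)))) (P.cons (P.cons (P.lf 108966743 0 0) (P.cons (P.lf 0 13850777 0) (P.cons (P.lf 0 926030 0) (P.lf 308676 0 0)))) (P.cons (P.cons (P.lf 0 73522222 0) (P.cons (P.lf 11202806 0 0) (P.cons (P.lf 748993 0 0) (P.lf 0 249664 0)))) (P.cons (P.cons (P.lf 0 17084188 0) (P.cons (P.lf 4581678 0 0) (P.cons (P.lf 306320 0 0) P.nil))) (P.cons (P.cons (P.lf 9468964 0 0) (P.cons (P.lf 0 615563 0) P.nil)) (P.cons (P.cons (P.lf 1999997 0 0) P.nil) P.nil)))))) 2224085)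
 EL.nil))
noncomputable def S140_198_364_512_20 : EL := (EL.cons 4 (TM.mk (P.cons (P.cons (P.lf 16850453 0 0) (P.cons (P.lf 0 20254881 0) (P.cons (P.lf 4732589 0 0) (P.cons (P.lf 1265294 0 0) (P.cons (P.lf 0 244090 0) (P.cons (P.lf 0 18137 0) P.nil)))))) (P.cons (P.cons (P.lf 43449006 0 0) (P.cons (P.lf 0 30487010 0) (P.cons (P.lf 590167 0 0) (P.cons (P.lf 1030894 0 0) (P.cons (P.lf 0 105405 0) P.nil))))) (P.cons (P.cons (P.lf 0 3847585 0) (P.cons (P.lf 17202329 0 0) (P.cons (P.lf 0 786670 0) (P.cons (P.lf 0 642345 0) P.nil)))) (P.cons (P.cons (P.lf 0 42768421 0) (P.cons (P.lf 11090954 0 0) (P.cons (P.lf 0 443041 0) P.nil))) (P.cons (P.cons (P.lf 15310819 0 0) (P.cons (P.lf 0 3375005 0) P.nil)) (P.cons (P.cons (P.lf 4999900 0 0) P.nil) P.nil)))))) 14499564)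
 (EL.cons 8 (TM.mk (P.cons (P.cons (P.lf 11313278 0 0) (P.cons (P.lf 0 13598987 0) (P.cons (P.lf 3177427 0 0) (P.cons (P.lf 849509 0 0) (P.cons (P.lf 0 163880 0) (P.cons (P.lf 0 12177 0) P.nil)))))) (P.cons (P.cons (P.lf 34215015 0 0) (P.cons (P.lf 0 26531430 0) (P.cons (P.lf 1812786 0 0) (P.cons (P.lf 1070861 0 0) (P.cons (P.lf 0 143829 0) P.nil))))) (P.cons (P.cons (P.lf 11890974 0 0) (P.cons (P.lf 658254 0 0) (P.cons (P.lf 61098 0 0) (P.cons (P.lf 0 12384 0) P.nil)))) (P.cons (P.cons (P.lf 0 25588222 0) (P.cons (P.lf 9348676 0 0) (P.cons (P.lf 0 343927 0) P.nil))) (P.cons (P.cons (P.lf 0 1431306 0) (P.cons (P.lf 1471345 0 0) P.nil)) (P.cons (P.cons (P.lf 4574399 0 0) P.nil) P.nil)))))) 8703022)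
 EL.nil))
noncomputable def S140_198_364_512_21 : EL := (EL.cons 4 (TM.mk (P.cons (P.cons (P.lf 0 2859321267 0) (P.cons (P.lf 609408930 0 0) (P.cons (P.lf 40743657 0 0) (P.lf 0 13581216 0)))) (P.cons (P.cons (P.lf 690474501 0 0) (P.cons (P.lf 207522234 0 0) (P.cons (P.lf 13874448 0 0) (P.lf 0 4624809 0)))) (P.cons (P.cons (P.lf 787607529 0 0) (P.cons (P.lf 0 69910146 0) (P.cons (P.lf 0 4674027 0) (P.lf 1558011 0 0)))) (P.cons (P.cons (P.lf 26958585 0 0) (P.cons (P.lf 0 37019277 0) (P.cons (P.lf 0 2475018 0) P.nil))) (P.cons (P.cons (P.lf 0 54427101 0) (P.cons (P.lf 0 1121412 0) P.nil)) (P.cons (P.cons (P.lf 0 7913829 0) P.nil) P.nil)))))) 8322135)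
 (EL.cons 8 (TM.mk (P.cons (P.cons (P.lf 1514235996 0 0) (P.cons (P.lf 0 322730070 0) (P.cons (P.lf 0 21576987 0) (P.lf 7192329 0 0)))) (P.cons (P.cons (P.lf 0 1040732979 0) (P.cons (P.lf 33979203 0 0) (P.cons (P.lf 2271765 0 0) (P.lf 0 757251 0)))) (P.cons (P.cons (P.lf 0 149759964 0) (P.cons (P.lf 63783630 0 0) (P.cons (P.lf 4264422 0 0) (P.lf 0 1421469 0)))) (P.cons (P.cons (P.lf 122091345 0 0) (P.cons (P.lf 726051 0 0) (P.cons (P.lf 48543 0 0) P.nil))) (P.cons (P.cons (P.lf 17041452 0 0) (P.cons (P.lf 0 4826892 0) P.nil)) (P.cons (P.cons (P.lf 0 5044800 0) P.nil) P.nil)))))) 5360118)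
 (EL.cons 11 (TM.mk (P.cons (P.cons (P.lf 1670316408 0 0) (P.cons (P.lf 258606924 0 0) (P.cons (P.lf 0 124588659 0) (P.cons (P.lf 0 4714800 0) (P.lf 1178700 0 0))))) (P.cons (P.cons (P.lf 656724534 0 0) (P.cons (P.lf 101677449 0 0) (P.cons (P.lf 0 48984987 0) (P.cons (P.lf 0 1853736 0) (P.lf 463434 0 0))))) (P.cons (P.cons (P.lf 10330179 0 0) (P.cons (P.lf 1599369 0 0) (P.cons (P.lf 0 770526 0) (P.cons (P.lf 0 29157 0) P.nil)))) (P.cons (P.cons (P.lf 0 24424860 0) (P.cons (P.lf 0 3781581 0) (P.cons (P.lf 1821846 0 0) P.nil))) (P.cons (P.cons (P.lf 0 2663805 0) (P.cons (P.lf 0 412422 0) P.nil)) (P.cons (P.cons (P.lf 304752 0 0) P.nil) P.nil)))))) 496941)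
 EL.nil)))
noncomputable def S140_198_364_512_22 : EL := (EL.cons 4 (TM.mk (P.cons (P.cons (P.lf 0 404098629 0) (P.cons (P.lf 328996704 0 0) (P.cons (P.lf 0 29767275 0) (P.cons (P.lf 0 14253519 0) (P.cons (P.lf 2075799 0 0) (P.cons (P.lf 154251 0 0) P.nil)))))) (P.cons (P.cons (P.lf 0 574473363 0) (P.cons (P.lf 257150889 0 0) (P.cons (P.lf 0 30962355 0) (P.cons (P.lf 0 12169872 0) (P.cons (P.lf 1931094 0 0) P.nil))))) (P.cons (P.cons (P.lf 392541780 0 0) (P.cons (P.lf 0 71610399 0) (P.cons (P.lf 0 12726105 0) (P.cons (P.lf 534417 0 0) P.nil)))) (P.cons (P.cons (P.lf 208794462 0 0) (P.cons (P.lf 0 92146833 0) (P.cons (P.lf 538071 0 0) P.nil))) (P.cons (P.cons (P.lf 0 47251569 0) (P.cons (P.lf 0 10535553 0) P.nil)) (P.cons (P.cons (P.lf 0 29963880 0) P.nil) P.nil)))))) 37592427)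
 (EL.cons 8 (TM.mk (P.cons (P.cons (P.lf 214002078 0 0) (P.cons (P.lf 0 174229689 0) (P.cons (P.lf 15764118 0 0) (P.cons (P.lf 7548363 0 0) (P.cons (P.lf 0 1099299 0) (P.cons (P.lf 0 81687 0) P.nil)))))) (P.cons (P.cons (P.lf 208823142 0 0) (P.cons (P.lf 0 58507092 0) (P.cons (P.lf 9369090 0 0) (P.cons (P.lf 3079722 0 0) (P.cons (P.lf 0 532581 0) P.nil))))) (P.cons (P.cons (P.lf 0 328768710 0) (P.cons (P.lf 86631999 0 0) (P.cons (P.lf 515469 0 0) (P.cons (P.lf 0 2636223 0) P.nil)))) (P.cons (P.cons (P.lf 0 383172 0) (P.cons (P.lf 25316349 0 0) (P.cons (P.lf 0 2413779 0) P.nil))) (P.cons (P.cons (P.lf 55760712 0 0) (P.cons (P.lf 0 11910489 0) P.nil)) (P.cons (P.cons (P.lf 1247739 0 0) P.nil) P.nil)))))) 22050639)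
 (EL.cons 11 (TM.mk (P.cons (P.cons (P.lf 236060418 0 0) (P.cons (P.lf 0 105328689 0) (P.cons (P.lf 0 49059348 0) (P.cons (P.lf 11609487 0 0) (P.cons (P.lf 1764114 0 0) (P.cons (P.lf 0 309183 0) P.nil)))))) (P.cons (P.cons (P.lf 485404521 0 0) (P.cons (P.lf 0 64302738 0) (P.cons (P.lf 0 67121145 0) (P.cons (P.lf 10696167 0 0) (P.cons (P.lf 1912809 0 0) P.nil))))) (P.cons (P.cons (P.lf 86334681 0 0) (P.cons (P.lf 0 29949531 0) (P.cons (P.lf 0 16042167 0) (P.cons (P.lf 3504222 0 0) P.nil)))) (P.cons (P.cons (P.lf 0 56725443 0) (P.cons (P.lf 0 7584336 0) (P.cons (P.lf 4496760 0 0) P.nil))) (P.cons (P.cons (P.lf 0 16888677 0) (P.cons (P.lf 1004832 0 0) P.nil)) (P.cons (P.cons (P.lf 1680732 0 0) P.nil) P.nil)))))) 9299943)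
 EL.nil)))
noncomputable def S140_198_364_512_23 : EL := (EL.cons 4 (TM.mk (P.cons (P.cons (P.lf 1698270354 0 0) (P.cons (P.lf 0 361953420 0) (P.cons (P.lf 0 24199359 0) (P.lf 8066451 0 0)))) (P.cons (P.cons (P.lf 0 833361996 0) (P.cons (P.lf 0 33046380 0) (P.cons (P.lf 0 2209401 0) (P.lf 736461 0 0)))) (P.cons (P.cons (P.lf 0 424985736 0) (P.cons (P.lf 84902193 0 0) (P.cons (P.lf 5676360 0 0) (P.lf 0 1892118 0)))) (P.cons (P.cons (P.lf 115857948 0 0) (P.cons (P.lf 15750195 0 0) (P.cons (P.lf 1053018 0 0) P.nil))) (P.cons (P.cons (P.lf 53364915 0 0) (P.cons (P.lf 0 6528492 0) P.nil)) (P.cons (P.cons (P.lf 0 3211002 0) P.nil) P.nil)))))) 11229057)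
 (EL.cons 8 (TM.mk (P.cons (P.cons (P.lf 0 899368017 0) (P.cons (P.lf 191682870 0 0) (P.cons (P.lf 12815472 0 0) (P.lf 0 4271823 0)))) (P.cons (P.cons (P.lf 842284509 0 0) (P.cons (P.lf 0 67954836 0) (P.cons (P.lf 0 4543299 0) (P.lf 1514430 0 0)))) (P.cons (P.cons (P.lf 0 33650904 0) (P.cons (P.lf 0 39558603 0) (P.cons (P.lf 0 2644794 0) (P.lf 881595 0 0)))) (P.cons (P.cons (P.lf 0 116801313 0) (P.cons (P.lf 9822222 0 0) (P.cons (P.lf 656688 0 0) P.nil))) (P.cons (P.cons (P.lf 4698426 0 0) (P.cons (P.lf 4391214 0 0) P.nil)) (P.cons (P.cons (P.lf 8402568 0 0) P.nil) P.nil)))))) 6755385)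
 (EL.cons 11 (TM.mk (P.cons (P.cons (P.lf 0 992070693 0) (P.cons (P.lf 0 153597453 0) (P.cons (P.lf 73998408 0 0) (P.cons (P.lf 2800314 0 0) (P.lf 0 700077 0))))) (P.cons (P.cons (P.lf 0 142802109 0) (P.cons (P.lf 0 22109352 0) (P.cons (P.lf 10651587 0 0) (P.cons (P.lf 403086 0 0) (P.lf 0 100770 0))))) (P.cons (P.cons (P.lf 125779119 0 0) (P.cons (P.lf 19473765 0 0) (P.cons (P.lf 0 9381846 0) (P.cons (P.lf 0 355035 0) P.nil)))) (P.cons (P.cons (P.lf 29132214 0 0) (P.cons (P.lf 4510395 0 0) (P.cons (P.lf 0 2172966 0) P.nil))) (P.cons (P.cons (P.lf 0 2566461 0) (P.cons (P.lf 0 397353 0) P.nil)) (P.cons (P.cons (P.lf 0 1332582 0) P.nil) P.nil)))))) 1286304)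
 EL.nil)))
noncomputable def S140_198_364_512_24 : EL := (EL.cons 4 (TM.mk (P.cons (P.cons (P.lf 240011058 0 0) (P.cons (P.lf 0 195404886 0) (P.cons (P.lf 17680029 0 0) (P.cons (P.lf 8465760 0 0) (P.cons (P.lf 0 1232904 0) (P.cons (P.lf 0 91617 0) P.nil)))))) (P.cons (P.cons (P.lf 281385714 0 0) (P.cons (P.lf 0 104031846 0) (P.cons (P.lf 13983438 0 0) (P.cons (P.lf 5118273 0 0) (P.cons (P.lf 0 839679 0) P.nil))))) (P.cons (P.cons (P.lf 0 326580411 0) (P.cons (P.lf 87432918 0 0) (P.cons (P.lf 2356845 0 0) (P.cons (P.lf 0 2415015 0) P.nil)))) (P.cons (P.cons (P.lf 0 77706750 0) (P.cons (P.lf 49363995 0 0) (P.cons (P.lf 0 2836896 0) P.nil))) (P.cons (P.cons (P.lf 67444290 0 0) (P.cons (P.lf 0 9059676 0) P.nil)) (P.cons (P.cons (P.lf 15203409 0 0) P.nil) P.nil)))))) 34970055)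
 (EL.cons 8 (TM.mk (P.cons (P.cons (P.lf 0 127104774 0) (P.cons (P.lf 103482291 0 0) (P.cons (P.lf 0 9362967 0) (P.cons (P.lf 0 4483287 0) (P.cons (P.lf 652920 0 0) (P.cons (P.lf 48516 0 0) P.nil)))))) (P.cons (P.cons (P.lf 0 92350431 0) (P.cons (P.lf 8958888 0 0) (P.cons (P.lf 0 3231159 0) (P.cons (P.lf 0 711804 0) (P.cons (P.lf 153594 0 0) P.nil))))) (P.cons (P.cons (P.lf 230627094 0 0) (P.cons (P.lf 0 63734691 0) (P.cons (P.lf 1408230 0 0) (P.cons (P.lf 2178465 0 0) P.nil)))) (P.cons (P.cons (P.lf 0 44171298 0) (P.cons (P.lf 0 3370845 0) (P.cons (P.lf 1699425 0 0) P.nil))) (P.cons (P.cons (P.lf 0 40142160 0) (P.cons (P.lf 12696165 0 0) P.nil)) (P.cons (P.cons (P.lf 7541532 0 0) P.nil) P.nil)))))) 18145911)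
 (EL.cons 11 (TM.mk (P.cons (P.cons (P.lf 0 140206143 0) (P.cons (P.lf 62559108 0 0) (P.cons (P.lf 29138394 0 0) (P.cons (P.lf 0 6895359 0) (P.cons (P.lf 0 1047780 0) (P.cons (P.lf 183636 0 0) P.nil)))))) (P.cons (P.cons (P.lf 0 253358409 0) (P.cons (P.lf 22600458 0 0) (P.cons (P.lf 32603880 0 0) (P.cons (P.lf 0 4634367 0) (P.cons (P.lf 0 874956 0) P.nil))))) (P.cons (P.cons (P.lf 25479969 0 0) (P.cons (P.lf 6081447 0 0) (P.cons (P.lf 0 1426920 0) (P.cons (P.lf 0 256782 0) P.nil)))) (P.cons (P.cons (P.lf 56478516 0 0) (P.cons (P.lf 0 1230096 0) (P.cons (P.lf 0 6423873 0) P.nil))) (P.cons (P.cons (P.lf 3193215 0 0) (P.cons (P.lf 0 2287062 0) P.nil)) (P.cons (P.cons (P.lf 0 4864998 0) P.nil) P.nil)))))) 9243246)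
 EL.nil)))
noncomputable def S140_198_364_512_25 : EL := (EL.cons 4 (TM.mk (P.cons (P.cons (P.lf 0 1008673710 0) (P.cons (P.lf 214979259 0 0) (P.cons (P.lf 14373009 0 0) (P.lf 0 4791000 0)))) (P.cons (P.cons (P.lf 746360505 0 0) (P.cons (P.lf 0 33951705 0) (P.cons (P.lf 0 2269932 0) (P.lf 756645 0 0)))) (P.cons (P.cons (P.lf 164337261 0 0) (P.cons (P.lf 0 62838348 0) (P.cons (P.lf 0 4201221 0) (P.lf 1400406 0 0)))) (P.cons (P.cons (P.lf 0 149592399 0) (P.cons (P.lf 2645295 0 0) (P.cons (P.lf 176859 0 0) P.nil))) (P.cons (P.cons (P.lf 0 23642751 0) (P.cons (P.lf 8099070 0 0) P.nil)) (P.cons (P.cons (P.lf 12580800 0 0) P.nil) P.nil)))))) 9941589)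
 (EL.cons 8 (TM.mk (P.cons (P.cons (P.lf 534172236 0 0) (P.cons (P.lf 0 113848464 0) (P.cons (P.lf 0 7611645 0) (P.lf 2537214 0 0)))) (P.cons (P.cons (P.lf 0 633399837 0) (P.cons (P.lf 68735697 0 0) (P.cons (P.lf 4595505 0 0) (P.lf 0 1531833 0)))) (P.cons (P.cons (P.lf 125984196 0 0) (P.cons (P.lf 17418486 0 0) (P.cons (P.lf 1164558 0 0) (P.lf 0 388185 0)))) (P.cons (P.cons (P.lf 82185090 0 0) (P.cons (P.lf 0 13164195 0) (P.cons (P.lf 0 880125 0) P.nil))) (P.cons (P.cons (P.lf 0 20768907 0) (P.cons (P.lf 0 2014824 0) P.nil)) (P.cons (P.cons (P.lf 0 6959169 0) P.nil) P.nil)))))) 7037223)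
 (EL.cons 11 (TM.mk (P.cons (P.cons (P.lf 589232229 0 0) (P.cons (P.lf 91227945 0 0) (P.cons (P.lf 0 43950744 0) (P.cons (P.lf 0 1663224 0) (P.lf 415806 0 0))))) (P.cons (P.cons (P.lf 0 62038356 0) (P.cons (P.lf 0 9605094 0) (P.cons (P.lf 4627431 0 0) (P.cons (P.lf 175113 0 0) (P.lf 0 43776 0))))) (P.cons (P.cons (P.lf 0 116454510 0) (P.cons (P.lf 0 18030081 0) (P.cons (P.lf 8686323 0 0) (P.cons (P.lf 328716 0 0) P.nil)))) (P.cons (P.cons (P.lf 0 1325595 0) (P.cons (P.lf 0 205233 0) (P.cons (P.lf 98874 0 0) P.nil))) (P.cons (P.cons (P.lf 8812815 0 0) (P.cons (P.lf 1364445 0 0) P.nil)) (P.cons (P.cons (P.lf 1043133 0 0) P.nil) P.nil)))))) 1873311)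
 EL.nil)))
noncomputable def S140_198_364_512_26 : EL := (EL.cons 4 (TM.mk (P.cons (P.cons (P.lf 0 142552593 0) (P.cons (P.lf 116059125 0 0) (P.cons (P.lf 0 10500906 0) (P.cons (P.lf 0 5028168 0) (P.cons (P.lf 732273 0 0) (P.cons (P.lf 54414 0 0) P.nil)))))) (P.cons (P.cons (P.lf 0 131598312 0) (P.cons (P.lf 32863413 0 0) (P.cons (P.lf 0 5688204 0) (P.cons (P.lf 0 1786782 0) (P.cons (P.lf 316215 0 0) P.nil))))) (P.cons (P.cons (P.lf 240609021 0 0) (P.cons (P.lf 0 71389257 0) (P.cons (P.lf 1037415 0 0) (P.cons (P.lf 2367903 0 0) P.nil)))) (P.cons (P.cons (P.lf 3577302 0 0) (P.cons (P.lf 0 18474024 0) (P.cons (P.lf 2318544 0 0) P.nil))) (P.cons (P.cons (P.lf 0 58514208 0) (P.cons (P.lf 14600985 0 0) P.nil)) (P.cons (P.cons (P.lf 0 648648 0) P.nil) P.nil)))))) 27462906)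
 (EL.cons 8 (TM.mk (P.cons (P.cons (P.lf 75492834 0 0) (P.cons (P.lf 0 61462455 0) (P.cons (P.lf 5561058 0 0) (P.cons (P.lf 2662812 0 0) (P.cons (P.lf 0 387795 0) (P.cons (P.lf 0 28815 0) P.nil)))))) (P.cons (P.cons (P.lf 36035682 0 0) (P.cons (P.lf 9997242 0 0) (P.cons (P.lf 533136 0 0) (P.cons (P.lf 0 240882 0) (P.cons (P.lf 5421 0 0) P.nil))))) (P.cons (P.cons (P.lf 0 153290142 0) (P.cons (P.lf 41330712 0 0) (P.cons (P.lf 0 1509225 0) (P.cons (P.lf 0 1492389 0) P.nil)))) (P.cons (P.cons (P.lf 58497573 0 0) (P.cons (P.lf 0 7280238 0) (P.cons (P.lf 0 864960 0) P.nil))) (P.cons (P.cons (P.lf 22165566 0 0) (P.cons (P.lf 0 9399774 0) P.nil)) (P.cons (P.cons (P.lf 0 11382375 0) P.nil) P.nil)))))) 13635369)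
 (EL.cons 11 (TM.mk (P.cons (P.cons (P.lf 83274285 0 0) (P.cons (P.lf 0 37156467 0) (P.cons (P.lf 0 17306511 0) (P.cons (P.lf 4095441 0 0) (P.cons (P.lf 622320 0 0) (P.cons (P.lf 0 109068 0) P.nil)))))) (P.cons (P.cons (P.lf 129725673 0 0) (P.cons (P.lf 0 4162839 0) (P.cons (P.lf 0 15051501 0) (P.cons (P.lf 1731837 0 0) (P.cons (P.lf 364572 0 0) P.nil))))) (P.cons (P.cons (P.lf 0 55550607 0) (P.cons (P.lf 1033146 0 0) (P.cons (P.lf 6279153 0 0) (P.cons (P.lf 0 676755 0) P.nil)))) (P.cons (P.cons (P.lf 0 34990776 0) (P.cons (P.lf 2079855 0 0) (P.cons (P.lf 4271979 0 0) P.nil))) (P.cons (P.cons (P.lf 7120893 0 0) (P.cons (P.lf 1275285 0 0) P.nil)) (P.cons (P.cons (P.lf 4611081 0 0) P.nil) P.nil)))))) 7767288)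
 EL.nil)))
noncomputable def S140_198_364_512_27 : EL := (EL.cons 13 (TM.mk (P.lf 0 4294967296 0) 0)
 EL.nil)
noncomputable def S140_198_364_512_28 : EL := (EL.cons 13 (TM.mk (P.cons (P.cons (P.lf 0 606993844 0) (P.cons (P.lf 364814768 0 0) (P.cons (P.lf 24390664 0 0) (P.lf 0 8130220 0)))) (P.cons (P.cons (P.lf 0 1009490652 0) (P.cons (P.lf 215153376 0 0) (P.cons (P.lf 14384652 0 0) (P.lf 0 4794880 0)))) (P.cons (P.cons (P.lf 178662553 0 0) (P.cons (P.lf 24532492 0 0) (P.cons (P.lf 1640184 0 0) (P.lf 0 546724 0)))) (P.cons (P.cons (P.lf 72982772 0 0) (P.cons (P.lf 0 8722472 0) (P.cons (P.lf 0 583164 0) P.nil))) (P.cons (P.cons (P.lf 0 2102864 0) (P.cons (P.lf 0 2301624 0) P.nil)) (P.cons (P.cons (P.lf 0 2832947 0) P.nil) P.nil)))))) 1477378)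
 EL.nil)
noncomputable def S140_198_364_512_29 : EL := (EL.cons 13 (TM.mk (P.cons (P.cons (P.lf 0 85784477 0) (P.cons (P.lf 103116183 0 0) (P.cons (P.lf 0 24093279 0) (P.cons (P.lf 0 6441524 0) (P.cons (P.lf 1242650 0 0) (P.cons (P.lf 92341 0 0) P.nil)))))) (P.cons (P.cons (P.lf 0 285336101 0) (P.cons (P.lf 232306249 0 0) (P.cons (P.lf 0 21018826 0) (P.cons (P.lf 0 10064482 0) (P.cons (P.lf 1465732 0 0) P.nil))))) (P.cons (P.cons (P.lf 0 186771442 0) (P.cons (P.lf 77722433 0 0) (P.cons (P.lf 0 9749200 0) (P.cons (P.lf 0 3730558 0) P.nil)))) (P.cons (P.cons (P.lf 104614659 0 0) (P.cons (P.lf 0 21231458 0) (P.cons (P.lf 0 2395587 0) P.nil))) (P.cons (P.cons (P.lf 26281385 0 0) (P.cons (P.lf 0 13746645 0) P.nil)) (P.cons (P.cons (P.lf 0 7861150 0) P.nil) P.nil)))))) 15138532)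
 EL.nil)
noncomputable def S140_198_364_512_30 : EL := (EL.cons 13 (TM.mk (P.cons (P.lf 2550960508 0 0) (P.cons (P.lf 0 635776524 0) (P.cons (P.lf 0 89228036 0) (P.cons (P.lf 1407440 0 0) (P.cons (P.lf 1369092 0 0) (P.cons (P.lf 95416 0 0) P.nil)))))) 28012)
 EL.nil)
noncomputable def S140_198_364_512_31 : EL := (EL.cons 13 (TM.mk (P.cons (P.cons (P.lf 360519002 0 0) (P.cons (P.lf 0 216678731 0) (P.cons (P.lf 0 14486634 0) (P.lf 4828877 0 0)))) (P.cons (P.cons (P.lf 509726430 0 0) (P.cons (P.lf 0 73785684 0) (P.cons (P.lf 0 4933138 0) (P.lf 1644377 0 0)))) (P.cons (P.cons (P.lf 0 268158606 0) (P.cons (P.lf 24856941 0 0) (P.cons (P.lf 1661877 0 0) (P.lf 0 553960 0)))) (P.cons (P.cons (P.lf 0 37673691 0) (P.cons (P.lf 13162410 0 0) (P.cons (P.lf 880007 0 0) P.nil))) (P.cons (P.cons (P.lf 16288504 0 0) (P.cons (P.lf 398725 0 0) P.nil)) (P.cons (P.cons (P.lf 3164270 0 0) P.nil)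 P.nil)))))) 2829635)
 EL.nil)
noncomputable def S140_198_364_512_32 : EL := (EL.cons 13 (TM.mk (P.cons (P.cons (P.lf 50950984 0 0) (P.cons (P.lf 0 61245008 0) (P.cons (P.lf 14310004 0 0) (P.cons (P.lf 3825890 0 0) (P.cons (P.lf 0 738061 0) (P.cons (P.lf 0 54845 0) P.nil)))))) (P.cons (P.cons (P.lf 156774504 0 0) (P.cons (P.lf 0 122712277 0) (P.cons (P.lf 8917472 0 0) (P.cons (P.lf 5024188 0 0) (P.cons (P.lf 0 686612 0) P.nil))))) (P.cons (P.cons (P.lf 66911382 0 0) (P.cons (P.lf 0 9632469 0) (P.cons (P.lf 2178538 0 0) (P.cons (P.lf 592083 0 0) P.nil)))) (P.cons (P.cons (P.lf 0 95682219 0) (P.cons (P.lf 28907742 0 0) (P.cons (P.lf 0 449089 0) P.nil))) (P.cons (P.cons (P.lf 0 3883019 0) (P.cons (P.lf 6527540 0 0) P.nil)) (P.cons (P.cons (P.lf 10886890 0 0) P.nil) P.nil)))))) 18299655)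
 EL.nil)
noncomputable def S140_198_364_512_33 : EL := (EL.cons 14 (TM.mk (P.lf 8589934592 0 0) 0)
 EL.nil)
noncomputable def S140_198_364_512_34 : EL := (EL.cons 14 (TM.mk (P.cons (P.cons (P.lf 1213987688 0 0) (P.cons (P.lf 0 729629536 0) (P.cons (P.lf 0 48781328 0) (P.lf 16260440 0 0)))) (P.cons (P.cons (P.lf 2018981304 0 0) (P.cons (P.lf 0 430306752 0) (P.cons (P.lf 0 28769304 0) (P.lf 9589760 0 0)))) (P.cons (P.cons (P.lf 0 357325106 0) (P.cons (P.lf 0 49064984 0) (P.cons (P.lf 0 3280368 0) (P.lf 1093448 0 0)))) (P.cons (P.cons (P.lf 0 145965544 0) (P.cons (P.lf 17444944 0 0) (P.cons (P.lf 1166328 0 0) P.nil))) (P.cons (P.cons (P.lf 4205728 0 0) (P.cons (P.lf 4603248 0 0) P.nil)) (P.cons (P.cons (P.lf 5665894 0 0) P.nil) P.nil)))))) 2954756)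
 EL.nil)
noncomputable def S140_198_364_512_35 : EL := (EL.cons 14 (TM.mk (P.cons (P.cons (P.lf 171568954 0 0) (P.cons (P.lf 0 206232366 0) (P.cons (P.lf 48186558 0 0) (P.cons (P.lf 12883048 0 0) (P.cons (P.lf 0 2485300 0) (P.cons (P.lf 0 184682 0) P.nil)))))) (P.cons (P.cons (P.lf 570672202 0 0) (P.cons (P.lf 0 464612498 0) (P.cons (P.lf 42037652 0 0) (P.cons (P.lf 20128964 0 0) (P.cons (P.lf 0 2931464 0) P.nil))))) (P.cons (P.cons (P.lf 373542884 0 0) (P.cons (P.lf 0 155444866 0) (P.cons (P.lf 19498400 0 0) (P.cons (P.lf 7461116 0 0) P.nil)))) (P.cons (P.cons (P.lf 0 209229318 0) (P.cons (P.lf 42462916 0 0) (P.cons (P.lf 4791174 0 0) P.nil))) (P.cons (P.cons (P.lf 0 52562770 0) (P.cons (P.lf 27493290 0 0) P.nil)) (P.cons (P.cons (P.lf 15722300 0 0) P.nil) P.nil)))))) 30277064)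
 EL.nil)
noncomputable def S140_198_364_512_36 : EL := (EL.cons 14 (TM.mk (P.cons (P.lf 0 5101921016 0) (P.cons (P.lf 1271553048 0 0) (P.cons (P.lf 178456072 0 0) (P.cons (P.lf 0 2814880 0) (P.cons (P.lf 0 2738184 0) (P.cons (P.lf 0 190832 0) P.nil)))))) 56024)
 EL.nil)
noncomputable def S140_198_364_512_37 : EL := (EL.cons 14 (TM.mk (P.cons (P.cons (P.lf 0 721038004 0) (P.cons (P.lf 433357462 0 0) (P.cons (P.lf 28973268 0 0) (P.lf 0 9657754 0)))) (P.cons (P.cons (P.lf 0 1019452860 0) (P.cons (P.lf 147571368 0 0) (P.cons (P.lf 9866276 0 0) (P.lf 0 3288754 0)))) (P.cons (P.cons (P.lf 536317212 0 0) (P.cons (P.lf 0 49713882 0) (P.cons (P.lf 0 3323754 0) (P.lf 1107920 0 0)))) (P.cons (P.cons (P.lf 75347382 0 0) (P.cons (P.lf 0 26324820 0) (P.cons (P.lf 0 1760014 0) P.nil))) (P.cons (P.cons (P.lf 0 32577008 0) (P.cons (P.lf 0 797450 0) P.nil)) (P.cons (P.cons (P.lf 0 6328540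 0) P.nil) P.nil)))))) 5659270)
 EL.nil)
noncomputable def S140_198_364_512_38 : EL := (EL.cons 14 (TM.mk (P.cons (P.cons (P.lf 0 101901968 0) (P.cons (P.lf 122490016 0 0) (P.cons (P.lf 0 28620008 0) (P.cons (P.lf 0 7651780 0) (P.cons (P.lf 1476122 0 0) (P.cons (P.lf 109690 0 0) P.nil)))))) (P.cons (P.cons (P.lf 0 313549008 0) (P.cons (P.lf 245424554 0 0) (P.cons (P.lf 0 17834944 0) (P.cons (P.lf 0 10048376 0) (P.cons (P.lf 1373224 0 0) P.nil))))) (P.cons (P.cons (P.lf 0 133822764 0) (P.cons (P.lf 19264938 0 0) (P.cons (P.lf 0 4357076 0) (P.cons (P.lf 0 1184166 0) P.nil)))) (P.cons (P.cons (P.lf 191364438 0 0) (P.cons (P.lf 0 57815484 0) (P.cons (P.lf 898178 0 0) P.nil))) (P.cons (P.cons (P.lf 7766038 0 0) (P.cons (P.lf 0 13055080 0) P.nil)) (P.cons (P.cons (P.lf 0 21773780 0) P.nil) P.nil)))))) 36599310)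
 EL.nil)
noncomputable def S140_198_364_512_39 : EL := (EL.cons 14 (TM.mk (P.cons (P.lf 3030244034 0 0) (P.cons (P.lf 0 1510456952 0) (P.cons (P.lf 0 23759250 0) (P.cons (P.lf 56176832 0 0) (P.cons (P.lf 6126708 0 0) (P.cons (P.lf 0 700928 0) P.nil)))))) 267590)
 EL.nil)
noncomputable def S140_198_364_512_40 : EL := (EL.cons 14 (TM.mk (P.cons (P.cons (P.lf 428254592 0 0) (P.cons (P.lf 0 257389100 0) (P.cons (P.lf 0 17208434 0) (P.lf 5736142 0 0)))) (P.cons (P.cons (P.lf 498761644 0 0) (P.cons (P.lf 0 23499650 0) (P.cons (P.lf 0 1571130 0) (P.lf 523708 0 0)))) (P.cons (P.cons (P.lf 0 484428606 0) (P.cons (P.lf 60374894 0 0) (P.cons (P.lf 4036524 0 0) (P.lf 0 1345508 0)))) (P.cons (P.cons (P.lf 13695268 0 0) (P.cons (P.lf 11200140 0 0) (P.cons (P.lf 748814 0 0) P.nil))) (P.cons (P.cons (P.lf 42208300 0 0) (P.cons (P.lf 0 4642482 0) P.nil)) (P.cons (P.cons (P.lf 667048 0 0)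 P.nil) P.nil)))))) 7078506)
 EL.nil)
noncomputable def S140_198_364_512_41 : EL := (EL.cons 14 (TM.mk (P.cons (P.cons (P.lf 60523836 0 0) (P.cons (P.lf 0 72751938 0) (P.cons (P.lf 16998618 0 0) (P.cons (P.lf 4544712 0 0) (P.cons (P.lf 0 876730 0) (P.cons (P.lf 0 65148 0) P.nil)))))) (P.cons (P.cons (P.lf 171145484 0 0) (P.cons (P.lf 0 127635912 0) (P.cons (P.lf 6356348 0 0) (P.cons (P.lf 4835470 0 0) (P.cons (P.lf 0 597106 0) P.nil))))) (P.cons (P.cons (P.lf 30951800 0 0) (P.cons (P.lf 27432248 0 0) (P.cons (P.lf 0 646806 0) (P.cons (P.lf 0 943082 0) P.nil)))) (P.cons (P.cons (P.lf 0 139949480 0) (P.cons (P.lf 42249348 0 0) (P.cons (P.lf 0 1539578 0) P.nil))) (P.cons (P.cons (P.lf 21069830 0 0) (P.cons (P.lf 0 523608 0) P.nil)) (P.cons (P.cons (P.lf 18203616 0 0) P.nil) P.nil)))))) 32511648)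
 EL.nil)
noncomputable def S140_198_364_512_42 : EL := (EL.cons 14 (TM.mk (P.cons (P.lf 0 1799788526 0) (P.cons (P.lf 1345685228 0 0) (P.cons (P.lf 0 146525314 0) (P.cons (P.lf 0 69255578 0) (P.cons (P.lf 3712280 0 0) (P.cons (P.lf 2912260 0 0) P.nil)))))) 563866)
 EL.nil)
noncomputable def S140_198_364_512_43 : EL := (EL.cons 14 (TM.mk (P.cons (P.cons (P.lf 0 254358294 0) (P.cons (P.lf 152874140 0 0) (P.cons (P.lf 10220808 0 0) (P.lf 0 3406934 0)))) (P.cons (P.cons (P.lf 0 232841596 0) (P.cons (P.lf 0 24143434 0) (P.cons (P.lf 0 1614174 0) (P.lf 538058 0 0)))) (P.cons (P.cons (P.lf 370450202 0 0) (P.cons (P.lf 0 44685048 0) (P.cons (P.lf 0 2987538 0) (P.lf 995846 0 0)))) (P.cons (P.cons (P.lf 0 69621868 0) (P.cons (P.lf 1881098 0 0) (P.cons (P.lf 125766 0 0) P.nil))) (P.cons (P.cons (P.lf 0 33405956 0) (P.cons (P.lf 5759338 0 0) P.nil)) (P.cons (P.cons (P.lf 6126594 0 0)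 P.nil) P.nil)))))) 8371024)
 EL.nil)
noncomputable def S140_198_364_512_44 : EL := (EL.cons 14 (TM.mk (P.cons (P.cons (P.lf 0 35947634 0) (P.cons (P.lf 43210414 0 0) (P.cons (P.lf 0 10096190 0) (P.cons (P.lf 0 2699294 0) (P.cons (P.lf 520726 0 0) (P.cons (P.lf 38694 0 0) P.nil)))))) (P.cons (P.cons (P.lf 0 92691214 0) (P.cons (P.lf 65038956 0 0) (P.cons (P.lf 0 1259024 0) (P.cons (P.lf 0 2199242 0) (P.cons (P.lf 224864 0 0) P.nil))))) (P.cons (P.cons (P.lf 8208182 0 0) (P.cons (P.lf 0 36698302 0) (P.cons (P.lf 1678230 0 0) (P.cons (P.lf 1370338 0 0) P.nil)))) (P.cons (P.cons (P.lf 91239300 0 0) (P.cons (P.lf 0 23660702 0) (P.cons (P.lf 945156 0 0) P.nil))) (P.cons (P.cons (P.lf 0 32663082 0) (P.cons (P.lf 7200012 0 0) P.nil)) (P.cons (P.cons (P.lf 0 10666454 0) P.nil) P.nil)))))) 30932358)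
 EL.nil)
noncomputable def S140_198_364_512_45 : EL := (EL.cons 14 (TM.mk (P.cons (P.cons (P.lf 24247284 0 0) (P.cons (P.lf 0 43719230 0) (P.cons (P.lf 23353116 0 0) (P.cons (P.lf 0 776302 0) (P.cons (P.lf 0 2109562 0) (P.cons (P.lf 203054 0 0) P.nil)))))) (P.cons (P.cons (P.lf 120976884 0 0) (P.cons (P.lf 0 171202666 0) (P.cons (P.lf 63246704 0 0) (P.cons (P.lf 4489242 0 0) (P.cons (P.lf 0 4863406 0) P.nil))))) (P.cons (P.cons (P.lf 179785660 0 0) (P.cons (P.lf 0 183888494 0) (P.cons (P.lf 44189516 0 0) (P.cons (P.lf 5096008 0 0) P.nil)))) (P.cons (P.cons (P.lf 31573652 0 0) (P.cons (P.lf 0 11554852 0) (P.cons (P.lf 8850116 0 0) P.nil))) (P.cons (P.cons (P.lf 0 81757756 0) (P.cons (P.lf 42189394 0 0) P.nil)) (P.cons (P.cons (P.lf 0 7383744 0) P.nil) P.nil)))))) 83138156)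
 EL.nil)
noncomputable def S140_198_364_512_46 : EL := (EL.cons 15 (TM.mk (P.lf 4294967296 0 0) 0)
 EL.nil)
noncomputable def S140_198_364_512_47 : EL := (EL.cons 15 (TM.mk (P.cons (P.cons (P.lf 606993844 0 0) (P.cons (P.lf 0 364814768 0) (P.cons (P.lf 0 24390664 0) (P.lf 8130220 0 0)))) (P.cons (P.cons (P.lf 1009490652 0 0) (P.cons (P.lf 0 215153376 0) (P.cons (P.lf 0 14384652 0) (P.lf 4794880 0 0)))) (P.cons (P.cons (P.lf 0 178662553 0) (P.cons (P.lf 0 24532492 0) (P.cons (P.lf 0 1640184 0) (P.lf 546724 0 0)))) (P.cons (P.cons (P.lf 0 72982772 0) (P.cons (P.lf 8722472 0 0) (P.cons (P.lf 583164 0 0) P.nil))) (P.cons (P.cons (P.lf 2102864 0 0) (P.cons (P.lf 2301624 0 0) P.nil)) (P.cons (P.cons (P.lf 2832947 0 0) P.nil) P.nil)))))) 1477378)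
 EL.nil)
noncomputable def S140_198_364_512_48 : EL := (EL.cons 15 (TM.mk (P.cons (P.cons (P.lf 85784477 0 0) (P.cons (P.lf 0 103116183 0) (P.cons (P.lf 24093279 0 0) (P.cons (P.lf 6441524 0 0) (P.cons (P.lf 0 1242650 0) (P.cons (P.lf 0 92341 0) P.nil)))))) (P.cons (P.cons (P.lf 285336101 0 0) (P.cons (P.lf 0 232306249 0) (P.cons (P.lf 21018826 0 0) (P.cons (P.lf 10064482 0 0) (P.cons (P.lf 0 1465732 0) P.nil))))) (P.cons (P.cons (P.lf 186771442 0 0) (P.cons (P.lf 0 77722433 0) (P.cons (P.lf 9749200 0 0) (P.cons (P.lf 3730558 0 0) P.nil)))) (P.cons (P.cons (P.lf 0 104614659 0) (P.cons (P.lf 21231458 0 0) (P.cons (P.lf 2395587 0 0) P.nil))) (P.cons (P.cons (P.lf 0 26281385 0) (P.cons (P.lf 13746645 0 0) P.nil)) (P.cons (P.cons (P.lf 7861150 0 0) P.nil) P.nil)))))) 15138532)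
 EL.nil)
noncomputable def S140_198_364_512 : SL := (SL.cons S140_198_364_512_0 (SL.cons S140_198_364_512_1 (SL.cons S140_198_364_512_2 (SL.cons S140_198_364_512_3 (SL.cons S140_198_364_512_4 (SL.cons S140_198_364_512_5 (SL.cons S140_198_364_512_6 (SL.cons S140_198_364_512_7 (SL.cons S140_198_364_512_8 (SL.cons S140_198_364_512_9 (SL.cons S140_198_364_512_10 (SL.cons S140_198_364_512_11 (SL.cons S140_198_364_512_12 (SL.cons S140_198_364_512_13 (SL.cons S140_198_364_512_14 (SL.cons S140_198_364_512_15 (SL.cons S140_198_364_512_16 (SL.cons S140_198_364_512_17 (SL.cons S140_198_364_512_18 (SL.cons S140_198_364_512_19 (SL.cons S140_198_364_512_20 (SL.cons S140_198_364_512_21 (SL.cons S140_198_364_512_22 (SL.cons S140_198_364_512_23 (SL.cons S140_198_364_512_24 (SL.cons S140_198_364_512_25 (SL.cons S140_198_364_512_26 (SL.cons S140_198_364_512_27 (SL.cons S140_198_364_512_28 (SL.cons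 S140_198_364_512_29 (SL.cons S140_198_364_512_30 (SL.cons S140_198_364_512_31 (SL.cons S140_198_364_512_32 (SL.cons S140_198_364_512_33 (SL.cons S140_198_364_512_34 (SL.cons S140_198_364_512_35 (SL.cons S140_198_364_512_36 (SL.cons S140_198_364_512_37 (SL.cons S140_198_364_512_38 (SL.cons S140_198_364_512_39 (SL.cons S140_198_364_512_40 (SL.cons S140_198_364_512_41 (SL.cons S140_198_364_512_42 (SL.cons S140_198_364_512_43 (SL.cons S140_198_364_512_44 (SL.cons S140_198_364_512_45 (SL.cons S140_198_364_512_46 (SL.cons S140_198_364_512_47 (SL.cons S140_198_364_512_48 SL.nil)))))))))))))))))))))))))))))))))))))))))))))))))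
noncomputable def S140_198_438_512_0 : EL := (EL.cons 0 (TM.mk (P.cons (P.lf 5792416443 0 0) (P.cons (P.lf 1327550055 0 0) (P.cons (P.lf 20882153 0 0) (P.cons (P.lf 0 49374168 0) (P.cons (P.lf 0 5384801 0) (P.cons (P.lf 616050 0 0) P.nil)))))) 235193)
 (EL.cons 1 (TM.mk (P.cons (P.lf 0 1788121471 0) (P.cons (P.lf 94132764 0 0) (P.cons (P.lf 179177853 0 0) (P.cons (P.lf 11443897 0 0) (P.cons (P.lf 0 3792305 0) (P.cons (P.lf 0 635690 0) P.nil)))))) 110845)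
 (EL.cons 5 (TM.mk (P.cons (P.lf 5241918562 0 0) (P.cons (P.lf 0 472017796 0) (P.cons (P.lf 0 7424770 0) (P.cons (P.lf 17555260 0 0) (P.cons (P.lf 1914598 0 0) (P.cons (P.lf 0 219040 0) P.nil)))))) 72457)
 (EL.cons 9 (TM.mk (P.lf 6442450944 0 0) 2)
 EL.nil))))
noncomputable def S140_198_438_512_1 : EL := (EL.cons 0 (TM.mk (P.cons (P.cons (P.lf 0 2269706321 0) (P.cons (P.lf 98006967 0 0) (P.cons (P.lf 1559900 0 0) (P.lf 0 519958 0)))) (P.cons (P.cons (P.lf 2936390884 0 0) (P.cons (P.lf 0 179032234 0) (P.cons (P.lf 0 2849540 0) (P.lf 949844 0 0)))) (P.cons (P.cons (P.lf 736967587 0 0) (P.cons (P.lf 0 136809416 0) (P.cons (P.lf 0 2177496 0) (P.lf 725829 0 0)))) (P.cons (P.cons (P.lf 0 384366164 0) (P.cons (P.lf 0 11658226 0) (P.cons (P.lf 0 185543 0) P.nil))) (P.cons (P.cons (P.lf 0 122299614 0) (P.cons (P.lf 10949075 0 0) P.nil)) (P.cons (P.cons (P.lf 13595929 0 0) P.nil) P.nil))))))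 19597008)
 (EL.cons 1 (TM.mk (P.cons (P.cons (P.lf 0 375707551 0) (P.cons (P.lf 105017031 0 0) (P.cons (P.lf 1671477 0 0) (P.lf 0 557155 0)))) (P.cons (P.cons (P.lf 0 1011072887 0) (P.cons (P.lf 140538189 0 0) (P.cons (P.lf 2236840 0 0) (P.lf 0 745611 0)))) (P.cons (P.cons (P.lf 522485836 0 0) (P.cons (P.lf 6711970 0 0) (P.cons (P.lf 106827 0 0) (P.lf 0 35608 0)))) (P.cons (P.cons (P.lf 225008656 0 0) (P.cons (P.lf 0 23366030 0) (P.cons (P.lf 0 371891 0) P.nil))) (P.cons (P.cons (P.lf 0 40999910 0) (P.cons (P.lf 0 4841644 0) P.nil)) (P.cons (P.cons (P.lf 0 20966815 0) P.nil) P.nil)))))) 10335033)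
 (EL.cons 5 (TM.mk (P.cons (P.cons (P.lf 1520165318 0 0) (P.cons (P.lf 0 360488526 0) (P.cons (P.lf 0 5737650 0) (P.lf 1912548 0 0)))) (P.cons (P.cons (P.lf 484109094 0 0) (P.cons (P.lf 0 128394678 0) (P.cons (P.lf 0 2043570 0) (P.lf 681186 0 0)))) (P.cons (P.cons (P.lf 0 587192785 0) (P.cons (P.lf 26745108 0 0) (P.cons (P.lf 425678 0 0) (P.lf 0 141892 0)))) (P.cons (P.cons (P.lf 20213438 0 0) (P.cons (P.lf 11931016 0 0) (P.cons (P.lf 189894 0 0) P.nil))) (P.cons (P.cons (P.lf 49070062 0 0) (P.cons (P.lf 0 1838524 0) P.nil)) (P.cons (P.cons (P.lf 0 44131 0) P.nil) P.nil)))))) 7965108)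
 (EL.cons 9 (TM.mk (P.cons (P.cons (P.lf 629257608 0 0) (P.cons (P.lf 0 287330826 0) (P.cons (P.lf 0 4573248 0) (P.lf 1524414 0 0)))) (P.cons (P.cons (P.lf 1348375740 0 0) (P.cons (P.lf 0 169456398 0) (P.cons (P.lf 0 2697120 0) (P.lf 899040 0 0)))) (P.cons (P.cons (P.lf 0 286905757 0) (P.cons (P.lf 0 19321974 0) (P.cons (P.lf 0 307530 0) (P.lf 102510 0 0)))) (P.cons (P.cons (P.lf 0 102750060 0) (P.cons (P.lf 6869880 0 0) (P.cons (P.lf 109338 0 0) P.nil))) (P.cons (P.cons (P.lf 4928604 0 0) (P.cons (P.lf 1812774 0 0) P.nil)) (P.cons (P.cons (P.lf 4226434 0 0) P.nil) P.nil)))))) 1268200)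
 (EL.cons 2 (TM.mk (P.cons (P.cons (P.lf 984434563 0 0) (P.cons (P.lf 36491644 0 0) (P.cons (P.lf 0 18081739 0) (P.cons (P.lf 0 164078 0) (P.lf 41017 0 0))))) (P.cons (P.cons (P.lf 141702935 0 0) (P.cons (P.lf 5252731 0 0) (P.cons (P.lf 0 2602746 0) (P.cons (P.lf 0 23616 0) (P.lf 5900 0 0))))) (P.cons (P.cons (P.lf 0 124810979 0) (P.cons (P.lf 0 4626570 0) (P.cons (P.lf 2292482 0 0) (P.cons (P.lf 20801 0 0) P.nil)))) (P.cons (P.cons (P.lf 0 28907977 0) (P.cons (P.lf 0 1071576 0) (P.cons (P.lf 530969 0 0) P.nil))) (P.cons (P.cons (P.lf 2546707 0 0) (P.cons (P.lf 94401 0 0) P.nil)) (P.cons (P.cons (P.lf 1322325 0 0) P.nil) P.nil)))))) 446024)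
 (EL.cons 6 (TM.mk (P.cons (P.cons (P.lf 660942555 0 0) (P.cons (P.lf 24500238 0 0) (P.cons (P.lf 0 12139956 0) (P.cons (P.lf 0 110160 0) (P.lf 27540 0 0))))) (P.cons (P.cons (P.lf 389797875 0 0) (P.cons (P.lf 14449275 0 0) (P.cons (P.lf 0 7159665 0) (P.cons (P.lf 0 64968 0) (P.lf 16239 0 0))))) (P.cons (P.cons (P.lf 44446032 0 0) (P.cons (P.lf 1647552 0 0) (P.cons (P.lf 0 816366 0) (P.cons (P.lf 0 7407 0) P.nil)))) (P.cons (P.cons (P.lf 0 15802689 0) (P.cons (P.lf 0 585783 0) (P.cons (P.lf 290256 0 0) P.nil))) (P.cons (P.cons (P.lf 0 4169901 0) (P.cons (P.lf 0 154569 0) P.nil)) (P.cons (P.cons (P.lf 54021 0 0) P.nil) P.nil)))))) 281817)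
 EL.nil))))))
noncomputable def S140_198_438_512_2 : EL := (EL.cons 0 (TM.mk (P.cons (P.cons (P.lf 0 498641390 0) (P.cons (P.lf 272067368 0 0) (P.cons (P.lf 0 15933672 0) (P.cons (P.lf 0 2088479 0) (P.cons (P.lf 209881 0 0) (P.cons (P.lf 3420 0 0) P.nil)))))) (P.cons (P.cons (P.lf 0 625952189 0) (P.cons (P.lf 12995723 0 0) (P.cons (P.lf 0 5210308 0) (P.cons (P.lf 0 241384 0) (P.cons (P.lf 56099 0 0) P.nil))))) (P.cons (P.cons (P.lf 1317448057 0 0) (P.cons (P.lf 0 241043494 0) (P.cons (P.lf 8483727 0 0) (P.cons (P.lf 1671020 0 0) P.nil)))) (P.cons (P.cons (P.lf 123304267 0 0) (P.cons (P.lf 0 79220198 0) (P.cons (P.lf 6671613 0 0) P.nil))) (P.cons (P.cons (P.lf 0 291022404 0) (P.cons (P.lf 33410729 0 0) P.nil)) (P.cons (P.cons (P.lf 0 38688018 0) P.nil) P.nil)))))) 98254748)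
 (EL.cons 1 (TM.mk (P.cons (P.cons (P.lf 0 56334519 0) (P.cons (P.lf 38448759 0 0) (P.cons (P.lf 0 5198675 0) (P.cons (P.lf 0 388955 0) (P.cons (P.lf 60181 0 0) (P.cons (P.lf 982 0 0) P.nil)))))) (P.cons (P.cons (P.lf 0 282568261 0) (P.cons (P.lf 139614291 0 0) (P.cons (P.lf 0 11830219 0) (P.cons (P.lf 0 1188031 0) (P.cons (P.lf 145545 0 0) P.nil))))) (P.cons (P.cons (P.lf 0 230482407 0) (P.cons (P.lf 49792499 0 0) (P.cons (P.lf 0 6691073 0) (P.cons (P.lf 0 502382 0) P.nil)))) (P.cons (P.cons (P.lf 315056874 0 0) (P.cons (P.lf 0 49971536 0) (P.cons (P.lf 0 104674 0) P.nil))) (P.cons (P.cons (P.lf 58519311 0 0) (P.cons (P.lf 0 25226208 0) P.nil)) (P.cons (P.cons (P.lf 0 52577734 0) P.nil) P.nil)))))) 51681987)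
 (EL.cons 5 (TM.mk (P.cons (P.cons (P.lf 246951505 0 0) (P.cons (P.lf 0 160348264 0) (P.cons (P.lf 19176304 0 0) (P.cons (P.lf 1542384 0 0) (P.cons (P.lf 0 225045 0) (P.cons (P.lf 0 3657 0) P.nil)))))) (P.cons (P.cons (P.lf 521082499 0 0) (P.cons (P.lf 0 178447880 0) (P.cons (P.lf 16216622 0 0) (P.cons (P.lf 1553361 0 0) (P.cons (P.lf 0 197376 0) P.nil))))) (P.cons (P.cons (P.lf 0 212108275 0) (P.cons (P.lf 30039965 0 0) (P.cons (P.lf 3102427 0 0) (P.cons (P.lf 0 75826 0) P.nil)))) (P.cons (P.cons (P.lf 0 202698690 0) (P.cons (P.lf 48014402 0 0) (P.cons (P.lf 0 1598740 0) P.nil))) (P.cons (P.cons (P.lf 70301390 0 0) (P.cons (P.lf 0 640760 0) P.nil)) (P.cons (P.cons (P.lf 27401477 0 0) P.nil) P.nil)))))) 42121691)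
 (EL.cons 9 (TM.mk (P.cons (P.cons (P.lf 61461877 0 0) (P.cons (P.lf 0 56129292 0) (P.cons (P.lf 11921472 0 0) (P.cons (P.lf 705720 0 0) (P.cons (P.lf 0 132729 0) (P.cons (P.lf 0 2163 0) P.nil)))))) (P.cons (P.cons (P.lf 263401521 0 0) (P.cons (P.lf 0 153376920 0) (P.cons (P.lf 12674184 0 0) (P.cons (P.lf 1294893 0 0) (P.cons (P.lf 0 156558 0) P.nil))))) (P.cons (P.cons (P.lf 226162665 0 0) (P.cons (P.lf 0 49115632 0) (P.cons (P.lf 5398993 0 0) (P.cons (P.lf 457327 0 0) P.nil)))) (P.cons (P.cons (P.lf 0 140168088 0) (P.cons (P.lf 17512254 0 0) (P.cons (P.lf 682398 0 0) P.nil))) (P.cons (P.cons (P.lf 0 29270496 0) (P.cons (P.lf 9916405 0 0) P.nil)) (P.cons (P.cons (P.lf 12040357 0 0) P.nil) P.nil)))))) 10348723)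
 (EL.cons 2 (TM.mk (P.cons (P.cons (P.lf 192306605 0 0) (P.cons (P.lf 0 80682255 0) (P.cons (P.lf 0 8184864 0) (P.cons (P.lf 1994889 0 0) (P.cons (P.lf 65587 0 0) (P.cons (P.lf 0 11981 0) P.nil)))))) (P.cons (P.cons (P.lf 439756650 0 0) (P.cons (P.lf 0 48125958 0) (P.cons (P.lf 0 11490958 0) (P.cons (P.lf 1413877 0 0) (P.cons (P.lf 60564 0 0) P.nil))))) (P.cons (P.cons (P.lf 0 52746817 0) (P.cons (P.lf 0 4181625 0) (P.cons (P.lf 850871 0 0) (P.cons (P.lf 60181 0 0) P.nil)))) (P.cons (P.cons (P.lf 0 101914245 0) (P.cons (P.lf 6616085 0 0) (P.cons (P.lf 2422642 0 0) P.nil))) (P.cons (P.cons (P.lf 0 3500341 0) (P.cons (P.lf 2768686 0 0) P.nil)) (P.cons (P.cons (P.lf 9388738 0 0) P.nil) P.nil)))))) 6289525)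
 (EL.cons 6 (TM.mk (P.cons (P.cons (P.lf 129113322 0 0) (P.cons (P.lf 0 54169506 0) (P.cons (P.lf 0 5495262 0) (P.cons (P.lf 1339350 0 0) (P.cons (P.lf 44034 0 0) (P.cons (P.lf 0 8040 0) P.nil)))))) (P.cons (P.cons (P.lf 352810500 0 0) (P.cons (P.lf 0 56461128 0) (P.cons (P.lf 0 10164828 0) (P.cons (P.lf 1546374 0 0) (P.cons (P.lf 60294 0 0) P.nil))))) (P.cons (P.cons (P.lf 112979910 0 0) (P.cons (P.lf 0 24246870 0) (P.cons (P.lf 0 3581790 0) (P.cons (P.lf 637530 0 0) P.nil)))) (P.cons (P.cons (P.lf 0 40283160 0) (P.cons (P.lf 0 3350334 0) (P.cons (P.lf 641502 0 0) P.nil))) (P.cons (P.cons (P.lf 0 22810554 0) (P.cons (P.lf 1294380 0 0) P.nil)) (P.cons (P.cons (P.lf 0 281556 0) P.nil) P.nil)))))) 4406382)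
 EL.nil))))))
noncomputable def S140_198_438_512_3 : EL := (EL.cons 0 (TM.mk (P.cons (P.lf 2663300420 0 0) (P.cons (P.lf 0 1327550055 0) (P.cons (P.lf 0 20882153 0) (P.cons (P.lf 49374168 0 0) (P.cons (P.lf 5384801 0 0) (P.cons (P.lf 0 616050 0) P.nil)))))) 235193)
 (EL.cons 1 (TM.mk (P.cons (P.lf 1788121471 0 0) (P.cons (P.lf 0 94132764 0) (P.cons (P.lf 0 179177853 0) (P.cons (P.lf 0 11443897 0) (P.cons (P.lf 3792305 0 0) (P.cons (P.lf 635690 0 0) P.nil)))))) 110845)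
 (EL.cons 5 (TM.mk (P.cons (P.lf 1200532382 0 0) (P.cons (P.lf 472017796 0 0) (P.cons (P.lf 7424770 0 0) (P.cons (P.lf 0 17555260 0) (P.cons (P.lf 0 1914598 0) (P.cons (P.lf 219040 0 0) P.nil)))))) 72450)
 EL.nil)))
noncomputable def S140_198_438_512_4 : EL := (EL.cons 0 (TM.mk (P.cons (P.cons (P.lf 260134235 0 0) (P.cons (P.lf 0 118782170 0) (P.cons (P.lf 0 1890573 0) (P.lf 630189 0 0)))) (P.cons (P.cons (P.lf 427750047 0 0) (P.cons (P.lf 0 10844822 0) (P.cons (P.lf 0 172608 0) (P.lf 57536 0 0)))) (P.cons (P.cons (P.lf 0 398496283 0) (P.cons (P.lf 27862331 0 0) (P.cons (P.lf 443466 0 0) (P.lf 0 147821 0)))) (P.cons (P.cons (P.lf 17095907 0 0) (P.cons (P.lf 5168736 0 0) (P.cons (P.lf 82263 0 0) P.nil))) (P.cons (P.cons (P.lf 35000152 0 0) (P.cons (P.lf 0 2142453 0) P.nil)) (P.cons (P.cons (P.lf 0 67320 0) P.nil) P.nil)))))) 4092849)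
 (EL.cons 1 (TM.mk (P.cons (P.cons (P.lf 174652323 0 0) (P.cons (P.lf 0 79749526 0) (P.cons (P.lf 0 1269316 0) (P.lf 423105 0 0)))) (P.cons (P.cons (P.lf 365051416 0 0) (P.cons (P.lf 0 42834841 0) (P.cons (P.lf 0 681770 0) (P.lf 227255 0 0)))) (P.cons (P.cons (P.lf 0 116834060 0) (P.cons (P.lf 5104374 0 0) (P.cons (P.lf 81243 0 0) (P.lf 0 27080 0)))) (P.cons (P.cons (P.lf 0 62945388 0) (P.cons (P.lf 7412400 0 0) (P.cons (P.lf 117975 0 0) P.nil))) (P.cons (P.cons (P.lf 8823956 0 0) (P.cons (P.lf 1072020 0 0) P.nil)) (P.cons (P.cons (P.lf 5324176 0 0) P.nil) P.nil)))))) 2511172)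
 (EL.cons 5 (TM.mk (P.cons (P.cons (P.lf 117260362 0 0) (P.cons (P.lf 0 53543280 0) (P.cons (P.lf 0 852210 0) (P.lf 284070 0 0)))) (P.cons (P.cons (P.lf 297369672 0 0) (P.cons (P.lf 0 52629528 0) (P.cons (P.lf 0 837666 0) (P.lf 279222 0 0)))) (P.cons (P.cons (P.lf 46052316 0 0) (P.cons (P.lf 0 16347264 0) (P.cons (P.lf 0 260186 0) (P.lf 86728 0 0)))) (P.cons (P.cons (P.lf 0 40328564 0) (P.cons (P.lf 452186 0 0) (P.cons (P.lf 7194 0 0) P.nil))) (P.cons (P.cons (P.lf 0 10801630 0) (P.cons (P.lf 1366018 0 0) P.nil)) (P.cons (P.cons (P.lf 1432746 0 0) P.nil) P.nil)))))) 1699820)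
 EL.nil)))
noncomputable def S140_198_438_512_5 : EL := (EL.cons 0 (TM.mk (P.cons (P.cons (P.lf 25408255 0 0) (P.cons (P.lf 0 23203771 0) (P.cons (P.lf 4928319 0 0) (P.cons (P.lf 291742 0 0) (P.cons (P.lf 0 54868 0) (P.cons (P.lf 0 892 0) P.nil)))))) (P.cons (P.cons (P.lf 96224816 0 0) (P.cons (P.lf 0 51839644 0) (P.cons (P.lf 2782916 0 0) (P.cons (P.lf 389882 0 0) (P.cons (P.lf 0 37369 0) P.nil))))) (P.cons (P.cons (P.lf 39018839 0 0) (P.cons (P.lf 11482889 0 0) (P.cons (P.lf 0 418382 0) (P.cons (P.lf 0 80057 0) P.nil)))) (P.cons (P.cons (P.lf 0 104931764 0) (P.cons (P.lf 17427427 0 0) (P.cons (P.lf 0 780145 0) P.nil))) (P.cons (P.cons (P.lf 18120037 0 0) (P.cons (P.lf 0 572373 0) P.nil)) (P.cons (P.cons (P.lf 13410926 0 0) P.nil) P.nil)))))) 14410957)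
 (EL.cons 1 (TM.mk (P.cons (P.cons (P.lf 17058926 0 0) (P.cons (P.lf 0 15578850 0) (P.cons (P.lf 3308838 0 0) (P.cons (P.lf 195873 0 0) (P.cons (P.lf 0 36838 0) (P.cons (P.lf 0 600 0) P.nil)))))) (P.cons (P.cons (P.lf 72209836 0 0) (P.cons (P.lf 0 41750096 0) (P.cons (P.lf 3343567 0 0) (P.cons (P.lf 349089 0 0) (P.cons (P.lf 0 41512 0) P.nil))))) (P.cons (P.cons (P.lf 57214093 0 0) (P.cons (P.lf 0 9830077 0) (P.cons (P.lf 981757 0 0) (P.cons (P.lf 88383 0 0) P.nil)))) (P.cons (P.cons (P.lf 0 49643521 0) (P.cons (P.lf 9943653 0 0) (P.cons (P.lf 0 263154 0) P.nil))) (P.cons (P.cons (P.lf 0 12797827 0) (P.cons (P.lf 4101864 0 0) P.nil)) (P.cons (P.cons (P.lf 7427255 0 0) P.nil) P.nil)))))) 10055513)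
 (EL.cons 5 (TM.mk (P.cons (P.cons (P.lf 11453244 0 0) (P.cons (P.lf 0 10459532 0) (P.cons (P.lf 2221532 0 0) (P.cons (P.lf 131508 0 0) (P.cons (P.lf 0 24732 0) (P.cons (P.lf 0 402 0) P.nil)))))) (P.cons (P.cons (P.lf 53587238 0 0) (P.cons (P.lf 0 32693764 0) (P.cons (P.lf 3235246 0 0) (P.cons (P.lf 293004 0 0) (P.cons (P.lf 0 38898 0) P.nil))))) (P.cons (P.cons (P.lf 61514188 0 0) (P.cons (P.lf 0 20454682 0) (P.cons (P.lf 1948422 0 0) (P.cons (P.lf 180906 0 0) P.nil)))) (P.cons (P.cons (P.lf 0 9413622 0) (P.cons (P.lf 0 359000 0) (P.cons (P.lf 504850 0 0) P.nil))) (P.cons (P.cons (P.lf 0 16199510 0) (P.cons (P.lf 3508978 0 0) P.nil)) (P.cons (P.cons (P.lf 0 754876 0) P.nil) P.nil)))))) 5955784)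
 EL.nil)))
noncomputable def S140_198_438_512_6 : EL := (EL.cons 12 (TM.mk (P.lf 8589934592 0 0) 0)
 (EL.cons 3 (TM.mk (P.cons (P.lf 0 2391525476 0) (P.cons (P.lf 596040491 0 0) (P.cons (P.lf 83651283 0 0) (P.cons (P.lf 0 1319475 0) (P.cons (P.lf 0 1283523 0) (P.cons (P.lf 0 89452 0) P.nil)))))) 26268)
 (EL.cons 7 (TM.mk (P.cons (P.lf 0 1605653656 0) (P.cons (P.lf 0 315650420 0) (P.cons (P.lf 26061229 0 0) (P.cons (P.lf 6616358 0 0) (P.cons (P.lf 191151 0 0) (P.cons (P.lf 0 76666 0) P.nil)))))) 11720)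
 EL.nil)))
noncomputable def S140_198_438_512_7 : EL := (EL.cons 12 (TM.mk (P.cons (P.cons (P.lf 839010144 0 0) (P.cons (P.lf 0 383107768 0) (P.cons (P.lf 0 6097664 0) (P.lf 2032552 0 0)))) (P.cons (P.cons (P.lf 1797834320 0 0) (P.cons (P.lf 0 225941864 0) (P.cons (P.lf 0 3596160 0) (P.lf 1198720 0 0)))) (P.cons (P.cons (P.lf 0 382541010 0) (P.cons (P.lf 0 25762632 0) (P.cons (P.lf 0 410040 0) (P.lf 136680 0 0)))) (P.cons (P.cons (P.lf 0 137000080 0) (P.cons (P.lf 9159840 0 0) (P.cons (P.lf 145784 0 0) P.nil))) (P.cons (P.cons (P.lf 6571472 0 0) (P.cons (P.lf 2417032 0 0) P.nil)) (P.cons (P.cons (P.lf 5635246 0 0) P.nil) P.nil)))))) 1690908)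
 (EL.cons 3 (TM.mk (P.cons (P.cons (P.lf 2312539549 0 0) (P.cons (P.lf 0 213322226 0) (P.cons (P.lf 0 3395302 0) (P.lf 1131764 0 0)))) (P.cons (P.cons (P.lf 0 1239444117 0) (P.cons (P.lf 0 72642690 0) (P.cons (P.lf 0 1156200 0) (P.lf 385400 0 0)))) (P.cons (P.cons (P.lf 0 512256280 0) (P.cons (P.lf 24471888 0 0) (P.cons (P.lf 389504 0 0) (P.lf 0 129834 0)))) (P.cons (P.cons (P.lf 21044016 0 0) (P.cons (P.lf 12958510 0 0) (P.cons (P.lf 206246 0 0) P.nil))) (P.cons (P.cons (P.lf 39540849 0 0) (P.cons (P.lf 392548 0 0) P.nil)) (P.cons (P.cons (P.lf 4345688 0 0) P.nil) P.nil)))))) 6871636)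
 (EL.cons 7 (TM.mk (P.cons (P.cons (P.lf 0 1505205785 0) (P.cons (P.lf 241067937 0 0) (P.cons (P.lf 3836917 0 0) (P.lf 0 1278973 0)))) (P.cons (P.cons (P.lf 656383344 0 0) (P.cons (P.lf 38470031 0 0) (P.cons (P.lf 612303 0 0) (P.lf 0 204101 0)))) (P.cons (P.cons (P.lf 124966617 0 0) (P.cons (P.lf 0 21535092 0) (P.cons (P.lf 0 342757 0) (P.lf 114251 0 0)))) (P.cons (P.cons (P.lf 0 76698258 0) (P.cons (P.lf 0 2127303 0) (P.cons (P.lf 0 33861 0) P.nil))) (P.cons (P.cons (P.lf 0 10512008 0) (P.cons (P.lf 1485355 0 0) P.nil)) (P.cons (P.cons (P.lf 3365817 0 0) P.nil) P.nil)))))) 4123389)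
 (EL.cons 10 (TM.mk (P.cons (P.cons (P.lf 0 1767957024 0) (P.cons (P.lf 0 65535756 0) (P.cons (P.lf 32473203 0 0) (P.cons (P.lf 294672 0 0) (P.lf 0 73668 0))))) (P.cons (P.cons (P.lf 0 695114259 0) (P.cons (P.lf 0 25766937 0) (P.cons (P.lf 12767610 0 0) (P.cons (P.lf 115857 0 0) (P.lf 0 28962 0))))) (P.cons (P.cons (P.lf 0 10934043 0) (P.cons (P.lf 0 405309 0) (P.cons (P.lf 200832 0 0) (P.cons (P.lf 1821 0 0) P.nil)))) (P.cons (P.cons (P.lf 25852650 0 0) (P.cons (P.lf 958320 0 0) (P.cons (P.lf 0 474852 0) P.nil))) (P.cons (P.cons (P.lf 2819520 0 0) (P.cons (P.lf 104514 0 0) P.nil)) (P.cons (P.cons (P.lf 0 322566 0) P.nil) P.nil)))))) 188904)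
 EL.nil))))
noncomputable def S140_198_438_512_8 : EL := (EL.cons 12 (TM.mk (P.cons (P.cons (P.lf 81949170 0 0) (P.cons (P.lf 0 74839056 0) (P.cons (P.lf 15895296 0 0) (P.cons (P.lf 940960 0 0) (P.cons (P.lf 0 176972 0) (P.cons (P.lf 0 2884 0) P.nil)))))) (P.cons (P.cons (P.lf 351202028 0 0) (P.cons (P.lf 0 204502560 0) (P.cons (P.lf 16898912 0 0) (P.cons (P.lf 1726524 0 0) (P.cons (P.lf 0 208744 0) P.nil))))) (P.cons (P.cons (P.lf 301550220 0 0) (P.cons (P.lf 0 65487510 0) (P.cons (P.lf 7198658 0 0) (P.cons (P.lf 609770 0 0) P.nil)))) (P.cons (P.cons (P.lf 0 186890784 0) (P.cons (P.lf 23349672 0 0) (P.cons (P.lf 909864 0 0) P.nil))) (P.cons (P.cons (P.lf 0 39027328 0) (P.cons (P.lf 13221874 0 0) P.nil)) (P.cons (P.cons (P.lf 16053810 0 0) P.nil) P.nil)))))) 13798268)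
 (EL.cons 3 (TM.mk (P.cons (P.cons (P.lf 474563774 0 0) (P.cons (P.lf 0 268784614 0) (P.cons (P.lf 19507160 0 0) (P.cons (P.lf 2183160 0 0) (P.cons (P.lf 0 246356 0) (P.cons (P.lf 0 4016 0) P.nil)))))) (P.cons (P.cons (P.lf 817977953 0 0) (P.cons (P.lf 0 166324381 0) (P.cons (P.lf 19479908 0 0) (P.cons (P.lf 1586786 0 0) (P.cons (P.lf 0 229180 0) P.nil))))) (P.cons (P.cons (P.lf 0 766072181 0) (P.cons (P.lf 87083376 0 0) (P.cons (P.lf 5033748 0 0) (P.cons (P.lf 0 345895 0) P.nil)))) (P.cons (P.cons (P.lf 0 250049861 0) (P.cons (P.lf 76511844 0 0) (P.cons (P.lf 0 1860313 0) P.nil))) (P.cons (P.cons (P.lf 104464161 0 0) (P.cons (P.lf 5064833 0 0) P.nil)) (P.cons (P.cons (P.lf 42100896 0 0) P.nil) P.nil)))))) 44199508)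
 (EL.cons 7 (TM.mk (P.cons (P.cons (P.lf 0 278719683 0) (P.cons (P.lf 167366037 0 0) (P.cons (P.lf 0 15645375 0) (P.cons (P.lf 0 1470776 0) (P.cons (P.lf 189638 0 0) (P.cons (P.lf 3089 0 0) P.nil)))))) (P.cons (P.cons (P.lf 0 433183803 0) (P.cons (P.lf 88081872 0 0) (P.cons (P.lf 0 10316139 0) (P.cons (P.lf 0 840327 0) (P.cons (P.lf 121368 0 0) P.nil))))) (P.cons (P.cons (P.lf 502255976 0 0) (P.cons (P.lf 0 65751713 0) (P.cons (P.lf 0 366209 0) (P.cons (P.lf 370496 0 0) P.nil)))) (P.cons (P.cons (P.lf 1895766 0 0) (P.cons (P.lf 0 24789619 0) (P.cons (P.lf 1540568 0 0) P.nil))) (P.cons (P.cons (P.lf 0 83879240 0) (P.cons (P.lf 8922516 0 0) P.nil)) (P.cons (P.cons (P.lf 26153 0 0) P.nil) P.nil)))))) 27626152)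
 (EL.cons 10 (TM.mk (P.cons (P.cons (P.lf 0 345365580 0) (P.cons (P.lf 144898170 0 0) (P.cons (P.lf 14699298 0 0) (P.cons (P.lf 0 3582642 0) (P.cons (P.lf 0 117792 0) (P.cons (P.lf 21516 0 0) P.nil)))))) (P.cons (P.cons (P.lf 0 875839434 0) (P.cons (P.lf 122542962 0 0) (P.cons (P.lf 24300252 0 0) (P.cons (P.lf 0 3432108 0) (P.cons (P.lf 0 138126 0) P.nil))))) (P.cons (P.cons (P.lf 0 135637344 0) (P.cons (P.lf 43119516 0 0) (P.cons (P.lf 5042418 0 0) (P.cons (P.lf 0 1088778 0) P.nil)))) (P.cons (P.cons (P.lf 118779246 0 0) (P.cons (P.lf 3071160 0 0) (P.cons (P.lf 0 2252256 0) P.nil))) (P.cons (P.cons (P.lf 31813914 0 0) (P.cons (P.lf 0 2844018 0) P.nil)) (P.cons (P.cons (P.lf 0 4219854 0) P.nil) P.nil)))))) 6309120)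
 EL.nil))))
noncomputable def S140_198_438_512_9 : EL := (EL.cons 3 (TM.mk (P.cons (P.lf 0 2391525476 0) (P.cons (P.lf 596040491 0 0) (P.cons (P.lf 83651283 0 0) (P.cons (P.lf 0 1319475 0) (P.cons (P.lf 0 1283523 0) (P.cons (P.lf 0 89452 0) P.nil)))))) 26268)
 (EL.cons 7 (TM.mk (P.cons (P.lf 0 1605653656 0) (P.cons (P.lf 0 315650420 0) (P.cons (P.lf 26061229 0 0) (P.cons (P.lf 6616358 0 0) (P.cons (P.lf 191151 0 0) (P.cons (P.lf 0 76666 0) P.nil)))))) 11720)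
 EL.nil))
noncomputable def S140_198_438_512_10 : EL := (EL.cons 3 (TM.mk (P.cons (P.cons (P.lf 0 233588987 0) (P.cons (P.lf 106661113 0 0) (P.cons (P.lf 1697651 0 0) (P.lf 0 565882 0)))) (P.cons (P.cons (P.lf 0 442317984 0) (P.cons (P.lf 36321345 0 0) (P.cons (P.lf 578100 0 0) (P.lf 0 192700 0)))) (P.cons (P.cons (P.lf 239422415 0 0) (P.cons (P.lf 0 12235944 0) (P.cons (P.lf 0 194752 0) (P.lf 64917 0 0)))) (P.cons (P.cons (P.lf 28977327 0 0) (P.cons (P.lf 0 6479255 0) (P.cons (P.lf 0 103123 0) P.nil))) (P.cons (P.cons (P.lf 0 15462582 0) (P.cons (P.lf 0 196274 0) P.nil)) (P.cons (P.cons (P.lf 0 2665684 0) P.nil) P.nil)))))) 1626972)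
 (EL.cons 7 (TM.mk (P.cons (P.cons (P.lf 0 156830030 0) (P.cons (P.lf 71611533 0 0) (P.cons (P.lf 1139791 0 0) (P.lf 0 379930 0)))) (P.cons (P.cons (P.lf 0 366886746 0) (P.cons (P.lf 56311547 0 0) (P.cons (P.lf 896271 0 0) (P.lf 0 298757 0)))) (P.cons (P.cons (P.lf 7986888 0 0) (P.cons (P.lf 11955882 0 0) (P.cons (P.lf 190292 0 0) (P.lf 0 63430 0)))) (P.cons (P.cons (P.lf 45766224 0 0) (P.cons (P.lf 0 1746072 0) (P.cons (P.lf 0 27789 0) P.nil))) (P.cons (P.cons (P.lf 4048765 0 0) (P.cons (P.lf 0 1049108 0) P.nil)) (P.cons (P.cons (P.lf 0 1972614 0) P.nil) P.nil)))))) 968258)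
 EL.nil))
noncomputable def S140_198_438_512_11 : EL := (EL.cons 3 (TM.mk (P.cons (P.cons (P.lf 0 22815484 0) (P.cons (P.lf 20835956 0 0) (P.cons (P.lf 0 4425412 0) (P.cons (P.lf 0 261972 0) (P.cons (P.lf 49270 0 0) (P.cons (P.lf 802 0 0) P.nil)))))) (P.cons (P.cons (P.lf 0 92091919 0) (P.cons (P.lf 51742649 0 0) (P.cons (P.lf 0 3601882 0) (P.cons (P.lf 0 415390 0) (P.cons (P.lf 45836 0 0) P.nil))))) (P.cons (P.cons (P.lf 0 58787321 0) (P.cons (P.lf 3313512 0 0) (P.cons (P.lf 0 676800 0) (P.cons (P.lf 0 40801 0) P.nil)))) (P.cons (P.cons (P.lf 76363861 0 0) (P.cons (P.lf 0 13024860 0) (P.cons (P.lf 408311 0 0) P.nil))) (P.cons (P.cons (P.lf 767973 0 0) (P.cons (P.lf 0 2656051 0) P.nil)) (P.cons (P.cons (P.lf 0 9097230 0) P.nil) P.nil)))))) 8296326)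
 (EL.cons 7 (TM.mk (P.cons (P.cons (P.lf 0 15318159 0) (P.cons (P.lf 13989117 0 0) (P.cons (P.lf 0 2971191 0) (P.cons (P.lf 0 175886 0) (P.cons (P.lf 33080 0 0) (P.cons (P.lf 539 0 0) P.nil)))))) (P.cons (P.cons (P.lf 0 68658975 0) (P.cons (P.lf 40976244 0 0) (P.cons (P.lf 0 3742887 0) (P.cons (P.lf 0 357303 0) (P.cons (P.lf 45522 0 0) P.nil))))) (P.cons (P.cons (P.lf 0 69023410 0) (P.cons (P.lf 19528807 0 0) (P.cons (P.lf 0 1918343 0) (P.cons (P.lf 0 174568 0) P.nil)))) (P.cons (P.cons (P.lf 24981840 0 0) (P.cons (P.lf 0 2636233 0) (P.cons (P.lf 0 371086 0) P.nil))) (P.cons (P.cons (P.lf 15349900 0 0) (P.cons (P.lf 0 3687354 0) P.nil)) (P.cons (P.cons (P.lf 0 1894363 0) P.nil) P.nil)))))) 4910226)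
 EL.nil))
noncomputable def S140_198_438_512_12 : EL := (EL.cons 4 (TM.mk (P.cons (P.lf 2391525476 0 0) (P.cons (P.lf 0 596040491 0) (P.cons (P.lf 0 83651283 0) (P.cons (P.lf 1319475 0 0) (P.cons (P.lf 1283523 0 0) (P.cons (P.lf 89452 0 0) P.nil)))))) 26268)
 (EL.cons 8 (TM.mk (P.cons (P.lf 1605653656 0 0) (P.cons (P.lf 315650420 0 0) (P.cons (P.lf 0 26061229 0) (P.cons (P.lf 0 6616358 0) (P.cons (P.lf 0 191151 0) (P.cons (P.lf 76666 0 0) P.nil)))))) 11720)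
 EL.nil))
noncomputable def S140_198_438_512_13 : EL := (EL.cons 4 (TM.mk (P.cons (P.cons (P.lf 233588987 0 0) (P.cons (P.lf 0 106661113 0) (P.cons (P.lf 0 1697651 0) (P.lf 565882 0 0)))) (P.cons (P.cons (P.lf 442317984 0 0) (P.cons (P.lf 0 36321345 0) (P.cons (P.lf 0 578100 0) (P.lf 192700 0 0)))) (P.cons (P.cons (P.lf 0 239422415 0) (P.cons (P.lf 12235944 0 0) (P.cons (P.lf 194752 0 0) (P.lf 0 64917 0)))) (P.cons (P.cons (P.lf 0 28977327 0) (P.cons (P.lf 6479255 0 0) (P.cons (P.lf 103123 0 0) P.nil))) (P.cons (P.cons (P.lf 15462582 0 0) (P.cons (P.lf 196274 0 0) P.nil)) (P.cons (P.cons (P.lf 2665684 0 0) P.nil) P.nil)))))) 1626972)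
 (EL.cons 8 (TM.mk (P.cons (P.cons (P.lf 156830030 0 0) (P.cons (P.lf 0 71611533 0) (P.cons (P.lf 0 1139791 0) (P.lf 379930 0 0)))) (P.cons (P.cons (P.lf 366886746 0 0) (P.cons (P.lf 0 56311547 0) (P.cons (P.lf 0 896271 0) (P.lf 298757 0 0)))) (P.cons (P.cons (P.lf 0 7986888 0) (P.cons (P.lf 0 11955882 0) (P.cons (P.lf 0 190292 0) (P.lf 63430 0 0)))) (P.cons (P.cons (P.lf 0 45766224 0) (P.cons (P.lf 1746072 0 0) (P.cons (P.lf 27789 0 0) P.nil))) (P.cons (P.cons (P.lf 0 4048765 0) (P.cons (P.lf 1049108 0 0) P.nil)) (P.cons (P.cons (P.lf 1972614 0 0) P.nil) P.nil)))))) 968258)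
 EL.nil))
noncomputable def S140_198_438_512_14 : EL := (EL.cons 4 (TM.mk (P.cons (P.cons (P.lf 22815484 0 0) (P.cons (P.lf 0 20835956 0) (P.cons (P.lf 4425412 0 0) (P.cons (P.lf 261972 0 0) (P.cons (P.lf 0 49270 0) (P.cons (P.lf 0 802 0) P.nil)))))) (P.cons (P.cons (P.lf 92091919 0 0) (P.cons (P.lf 0 51742649 0) (P.cons (P.lf 3601882 0 0) (P.cons (P.lf 415390 0 0) (P.cons (P.lf 0 45836 0) P.nil))))) (P.cons (P.cons (P.lf 58787321 0 0) (P.cons (P.lf 0 3313512 0) (P.cons (P.lf 676800 0 0) (P.cons (P.lf 40801 0 0) P.nil)))) (P.cons (P.cons (P.lf 0 76363861 0) (P.cons (P.lf 13024860 0 0) (P.cons (P.lf 0 408311 0) P.nil))) (P.cons (P.cons (P.lf 0 767973 0) (P.cons (P.lf 2656051 0 0) P.nil)) (P.cons (P.cons (P.lf 9097230 0 0) P.nil) P.nil)))))) 8296326)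
 (EL.cons 8 (TM.mk (P.cons (P.cons (P.lf 15318159 0 0) (P.cons (P.lf 0 13989117 0) (P.cons (P.lf 2971191 0 0) (P.cons (P.lf 175886 0 0) (P.cons (P.lf 0 33080 0) (P.cons (P.lf 0 539 0) P.nil)))))) (P.cons (P.cons (P.lf 68658975 0 0) (P.cons (P.lf 0 40976244 0) (P.cons (P.lf 3742887 0 0) (P.cons (P.lf 357303 0 0) (P.cons (P.lf 0 45522 0) P.nil))))) (P.cons (P.cons (P.lf 69023410 0 0) (P.cons (P.lf 0 19528807 0) (P.cons (P.lf 1918343 0 0) (P.cons (P.lf 174568 0 0) P.nil)))) (P.cons (P.cons (P.lf 0 24981840 0) (P.cons (P.lf 2636233 0 0) (P.cons (P.lf 371086 0 0) P.nil))) (P.cons (P.cons (P.lf 0 15349900 0) (P.cons (P.lf 3687354 0 0) P.nil)) (P.cons (P.cons (P.lf 1894363 0 0) P.nil) P.nil)))))) 4910226)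
 EL.nil))
noncomputable def S140_198_438_512_15 : EL := (EL.cons 4 (TM.mk (P.cons (P.lf 0 1420426890 0) (P.cons (P.lf 708026696 0 0) (P.cons (P.lf 11137148 0 0) (P.cons (P.lf 0 26332890 0) (P.cons (P.lf 0 2871894 0) (P.cons (P.lf 328560 0 0) P.nil)))))) 125439)
 (EL.cons 8 (TM.mk (P.cons (P.lf 0 953664785 0) (P.cons (P.lf 50204141 0 0) (P.cons (P.lf 95561522 0 0) (P.cons (P.lf 6103412 0 0) (P.cons (P.lf 0 2022563 0) (P.cons (P.lf 0 339035 0) P.nil)))))) 59114)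
 EL.nil))
noncomputable def S140_198_438_512_16 : EL := (EL.cons 4 (TM.mk (P.cons (P.cons (P.lf 0 138738258 0) (P.cons (P.lf 63350490 0 0) (P.cons (P.lf 1008305 0 0) (P.lf 0 336101 0)))) (P.cons (P.cons (P.lf 0 228133358 0) (P.cons (P.lf 5783905 0 0) (P.cons (P.lf 92057 0 0) (P.lf 0 30686 0)))) (P.cons (P.cons (P.lf 212531351 0 0) (P.cons (P.lf 0 14859910 0) (P.cons (P.lf 0 236515 0) (P.lf 78838 0 0)))) (P.cons (P.cons (P.lf 0 9117817 0) (P.cons (P.lf 0 2756659 0) (P.cons (P.lf 0 43874 0) P.nil))) (P.cons (P.cons (P.lf 0 18666748 0) (P.cons (P.lf 1142641 0 0) P.nil)) (P.cons (P.cons (P.lf 35904 0 0) P.nil) P.nil)))))) 2182862)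
 (EL.cons 8 (TM.mk (P.cons (P.cons (P.lf 0 93147906 0) (P.cons (P.lf 42533081 0 0) (P.cons (P.lf 676969 0 0) (P.lf 0 225656 0)))) (P.cons (P.cons (P.lf 0 194694089 0) (P.cons (P.lf 22845249 0 0) (P.cons (P.lf 363611 0 0) (P.lf 0 121203 0)))) (P.cons (P.cons (P.lf 62311499 0 0) (P.cons (P.lf 0 2722333 0) (P.cons (P.lf 0 43330 0) (P.lf 14443 0 0)))) (P.cons (P.cons (P.lf 33570874 0 0) (P.cons (P.lf 0 3953280 0) (P.cons (P.lf 0 62920 0) P.nil))) (P.cons (P.cons (P.lf 0 4706110 0) (P.cons (P.lf 0 571744 0) P.nil)) (P.cons (P.cons (P.lf 0 2839561 0) P.nil) P.nil)))))) 1339282)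
 EL.nil))
noncomputable def S140_198_438_512_17 : EL := (EL.cons 4 (TM.mk (P.cons (P.cons (P.lf 0 13551069 0) (P.cons (P.lf 12375345 0 0) (P.cons (P.lf 0 2628436 0) (P.cons (P.lf 0 155595 0) (P.cons (P.lf 29263 0 0) (P.cons (P.lf 476 0 0) P.nil)))))) (P.cons (P.cons (P.lf 0 51319902 0) (P.cons (P.lf 27647810 0 0) (P.cons (P.lf 0 1484221 0) (P.cons (P.lf 0 207937 0) (P.cons (P.lf 19930 0 0) P.nil))))) (P.cons (P.cons (P.lf 0 20810047 0) (P.cons (P.lf 0 6124207 0) (P.cons (P.lf 223137 0 0) (P.cons (P.lf 42697 0 0) P.nil)))) (P.cons (P.cons (P.lf 55963607 0 0) (P.cons (P.lf 0 9294628 0) (P.cons (P.lf 416077 0 0) P.nil))) (P.cons (P.cons (P.lf 0 9664020 0) (P.cons (P.lf 305265 0 0) P.nil)) (P.cons (P.cons (P.lf 0 7152494 0) P.nil) P.nil)))))) 7685854)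
 (EL.cons 8 (TM.mk (P.cons (P.cons (P.lf 0 9098094 0) (P.cons (P.lf 8308720 0 0) (P.cons (P.lf 0 1764714 0) (P.cons (P.lf 0 104466 0) (P.cons (P.lf 19647 0 0) (P.cons (P.lf 320 0 0) P.nil)))))) (P.cons (P.cons (P.lf 0 38511913 0) (P.cons (P.lf 22266718 0 0) (P.cons (P.lf 0 1783236 0) (P.cons (P.lf 0 186181 0) (P.cons (P.lf 22140 0 0) P.nil))))) (P.cons (P.cons (P.lf 0 30514183 0) (P.cons (P.lf 5242708 0 0) (P.cons (P.lf 0 523604 0) (P.cons (P.lf 0 47138 0) P.nil)))) (P.cons (P.cons (P.lf 26476545 0 0) (P.cons (P.lf 0 5303282 0) (P.cons (P.lf 140349 0 0) P.nil))) (P.cons (P.cons (P.lf 6825508 0 0) (P.cons (P.lf 0 2187661 0) P.nil)) (P.cons (P.cons (P.lf 0 3961203 0) P.nil) P.nil)))))) 5362929)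
 EL.nil))
noncomputable def S140_198_438_512_18 : EL := (EL.cons 4 (TM.mk (P.cons (P.lf 843650871 0 0) (P.cons (P.lf 0 630789950 0) (P.cons (P.lf 68683740 0 0) (P.cons (P.lf 32463552 0 0) (P.cons (P.lf 0 1740131 0) (P.cons (P.lf 0 1365121 0) P.nil)))))) 264319)
 (EL.cons 8 (TM.mk (P.cons (P.lf 566421357 0 0) (P.cons (P.lf 0 170987672 0) (P.cons (P.lf 0 69138754 0) (P.cons (P.lf 11876237 0 0) (P.cons (P.lf 4377599 0 0) (P.cons (P.lf 2637 0 0) P.nil)))))) 178385)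
 EL.nil))
noncomputable def S140_198_438_512_19 : EL := (EL.cons 4 (TM.mk (P.cons (P.cons (P.lf 82402447 0 0) (P.cons (P.lf 0 37626502 0) (P.cons (P.lf 0 598875 0) (P.lf 199624 0 0)))) (P.cons (P.cons (P.lf 114960750 0 0) (P.cons (P.lf 5942358 0 0) (P.cons (P.lf 94580 0 0) (P.lf 0 31526 0)))) (P.cons (P.cons (P.lf 0 162883722 0) (P.cons (P.lf 10998210 0 0) (P.cons (P.lf 175050 0 0) (P.lf 0 58350 0)))) (P.cons (P.cons (P.lf 32182086 0 0) (P.cons (P.lf 0 462990 0) (P.cons (P.lf 0 7369 0) P.nil))) (P.cons (P.cons (P.lf 14271593 0 0) (P.cons (P.lf 0 1417530 0) P.nil)) (P.cons (P.cons (P.lf 0 2967795 0) P.nil) P.nil)))))) 2618346)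
 (EL.cons 8 (TM.mk (P.cons (P.cons (P.lf 55324433 0 0) (P.cons (P.lf 0 25262173 0) (P.cons (P.lf 0 402080 0) (P.lf 134026 0 0)))) (P.cons (P.cons (P.lf 101848431 0 0) (P.cons (P.lf 0 7272650 0) (P.cons (P.lf 0 115753 0) (P.lf 38584 0 0)))) (P.cons (P.cons (P.lf 0 67764779 0) (P.cons (P.lf 5882275 0 0) (P.cons (P.lf 93624 0 0) (P.lf 0 31207 0)))) (P.cons (P.cons (P.lf 0 14729532 0) (P.cons (P.lf 2405708 0 0) (P.cons (P.lf 38289 0 0) P.nil))) (P.cons (P.cons (P.lf 9152609 0 0) (P.cons (P.lf 0 323215 0) P.nil)) (P.cons (P.cons (P.lf 1731044 0 0) P.nil) P.nil)))))) 1413476)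
 EL.nil))
noncomputable def S140_198_438_512_20 : EL := (EL.cons 4 (TM.mk (P.cons (P.cons (P.lf 8048546 0 0) (P.cons (P.lf 0 7350234 0) (P.cons (P.lf 1561138 0 0) (P.cons (P.lf 92415 0 0) (P.cons (P.lf 0 17380 0) (P.cons (P.lf 0 283 0) P.nil)))))) (P.cons (P.cons (P.lf 28475092 0 0) (P.cons (P.lf 0 14589288 0) (P.cons (P.lf 492458 0 0) (P.cons (P.lf 100470 0 0) (P.cons (P.lf 0 7505 0) P.nil))))) (P.cons (P.cons (P.lf 4481637 0 0) (P.cons (P.lf 7987177 0 0) (P.cons (P.lf 0 406843 0) (P.cons (P.lf 0 59372 0) P.nil)))) (P.cons (P.cons (P.lf 0 37381331 0) (P.cons (P.lf 5184240 0 0) (P.cons (P.lf 0 244068 0) P.nil))) (P.cons (P.cons (P.lf 13612867 0 0) (P.cons (P.lf 0 1697413 0) P.nil)) (P.cons (P.cons (P.lf 4003741 0 0) P.nil) P.nil)))))) 7475610)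
 (EL.cons 8 (TM.mk (P.cons (P.cons (P.lf 5403738 0 0) (P.cons (P.lf 0 4934896 0) (P.cons (P.lf 1048137 0 0) (P.cons (P.lf 62046 0 0) (P.cons (P.lf 0 11669 0) (P.cons (P.lf 0 189 0) P.nil)))))) (P.cons (P.cons (P.lf 21527059 0 0) (P.cons (P.lf 0 11995209 0) (P.cons (P.lf 797910 0 0) (P.cons (P.lf 95116 0 0) (P.cons (P.lf 0 10241 0) P.nil))))) (P.cons (P.cons (P.lf 12233783 0 0) (P.cons (P.lf 354853 0 0) (P.cons (P.lf 10359 0 0) (P.cons (P.lf 0 1732 0) P.nil)))) (P.cons (P.cons (P.lf 0 21039592 0) (P.cons (P.lf 4385778 0 0) (P.cons (P.lf 0 197336 0) P.nil))) (P.cons (P.cons (P.lf 0 753090 0) (P.cons (P.lf 613279 0 0) P.nil)) (P.cons (P.cons (P.lf 3935620 0 0) P.nil) P.nil)))))) 4690540)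
 EL.nil))
noncomputable def S140_198_438_512_21 : EL := (EL.cons 4 (TM.mk (P.cons (P.cons (P.lf 0 2546128536 0) (P.cons (P.lf 319983339 0 0) (P.cons (P.lf 5092953 0 0) (P.lf 0 1697646 0)))) (P.cons (P.cons (P.lf 797126133 0 0) (P.cons (P.lf 108964035 0 0) (P.cons (P.lf 1734300 0 0) (P.lf 0 578100 0)))) (P.cons (P.cons (P.lf 751678695 0 0) (P.cons (P.lf 0 36707832 0) (P.cons (P.lf 0 584256 0) (P.lf 194751 0 0)))) (P.cons (P.cons (P.lf 7933311 0 0) (P.cons (P.lf 0 19437765 0) (P.cons (P.lf 0 309369 0) P.nil))) (P.cons (P.cons (P.lf 0 55003431 0) (P.cons (P.lf 0 588822 0) P.nil)) (P.cons (P.cons (P.lf 0 7011372 0) P.nil) P.nil)))))) 5244645)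
 (EL.cons 8 (TM.mk (P.cons (P.cons (P.lf 1348375755 0 0) (P.cons (P.lf 0 169456404 0) (P.cons (P.lf 0 2697126 0) (P.lf 899043 0 0)))) (P.cons (P.cons (P.lf 0 1023270090 0) (P.cons (P.lf 17841516 0 0) (P.cons (P.lf 283968 0 0) (P.lf 0 94656 0)))) (P.cons (P.cons (P.lf 0 116979729 0) (P.cons (P.lf 33490974 0 0) (P.cons (P.lf 533049 0 0) (P.lf 0 177681 0)))) (P.cons (P.cons (P.lf 122464482 0 0) (P.cons (P.lf 381231 0 0) (P.cons (P.lf 6072 0 0) P.nil))) (P.cons (P.cons (P.lf 14560773 0 0) (P.cons (P.lf 0 2534463 0) P.nil)) (P.cons (P.cons (P.lf 0 5338431 0) P.nil) P.nil)))))) 3155112)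
 (EL.cons 11 (TM.mk (P.cons (P.cons (P.lf 1767957024 0 0) (P.cons (P.lf 65535756 0 0) (P.cons (P.lf 0 32473203 0) (P.cons (P.lf 0 294672 0) (P.lf 73668 0 0))))) (P.cons (P.cons (P.lf 695114259 0 0) (P.cons (P.lf 25766937 0 0) (P.cons (P.lf 0 12767610 0) (P.cons (P.lf 0 115857 0) (P.lf 28962 0 0))))) (P.cons (P.cons (P.lf 10934043 0 0) (P.cons (P.lf 405309 0 0) (P.cons (P.lf 0 200832 0) (P.cons (P.lf 0 1821 0) P.nil)))) (P.cons (P.cons (P.lf 0 25852650 0) (P.cons (P.lf 0 958320 0) (P.cons (P.lf 474852 0 0) P.nil))) (P.cons (P.cons (P.lf 0 2819520 0) (P.cons (P.lf 0 104514 0) P.nil)) (P.cons (P.cons (P.lf 322566 0 0) P.nil) P.nil)))))) 188904)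
 EL.nil)))
noncomputable def S140_198_438_512_22 : EL := (EL.cons 4 (TM.mk (P.cons (P.cons (P.lf 0 248689629 0) (P.cons (P.lf 144810285 0 0) (P.cons (P.lf 0 11966286 0) (P.cons (P.lf 0 1222566 0) (P.cons (P.lf 147813 0 0) (P.cons (P.lf 2409 0 0) P.nil)))))) (P.cons (P.cons (P.lf 0 455034936 0) (P.cons (P.lf 109033515 0 0) (P.cons (P.lf 0 11540895 0) (P.cons (P.lf 0 1001088 0) (P.cons (P.lf 137508 0 0) P.nil))))) (P.cons (P.cons (P.lf 353642430 0 0) (P.cons (P.lf 0 41884932 0) (P.cons (P.lf 0 2855274 0) (P.cons (P.lf 152547 0 0) P.nil)))) (P.cons (P.cons (P.lf 163206861 0 0) (P.cons (P.lf 0 44768352 0) (P.cons (P.lf 1134312 0 0) P.nil))) (P.cons (P.cons (P.lf 0 51848094 0) (P.cons (P.lf 0 3860442 0) P.nil)) (P.cons (P.cons (P.lf 0 25599063 0) P.nil) P.nil)))))) 17951580)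
 (EL.cons 8 (TM.mk (P.cons (P.cons (P.lf 131700762 0 0) (P.cons (P.lf 0 76688460 0) (P.cons (P.lf 6337092 0 0) (P.cons (P.lf 647445 0 0) (P.cons (P.lf 0 78279 0) (P.cons (P.lf 0 1275 0) P.nil)))))) (P.cons (P.cons (P.lf 182262414 0 0) (P.cons (P.lf 0 23552814 0) (P.cons (P.lf 3286626 0 0) (P.cons (P.lf 241512 0 0) (P.cons (P.lf 0 37923 0) P.nil))))) (P.cons (P.cons (P.lf 0 285639693 0) (P.cons (P.lf 42640260 0 0) (P.cons (P.lf 0 776067 0) (P.cons (P.lf 0 272532 0) P.nil)))) (P.cons (P.cons (P.lf 11543037 0 0) (P.cons (P.lf 11076693 0 0) (P.cons (P.lf 0 955827 0) P.nil))) (P.cons (P.cons (P.lf 49614570 0 0) (P.cons (P.lf 0 6304935 0) P.nil)) (P.cons (P.cons (P.lf 0 960258 0) P.nil) P.nil)))))) 11357952)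
 (EL.cons 11 (TM.mk (P.cons (P.cons (P.lf 172682790 0 0) (P.cons (P.lf 0 72449085 0) (P.cons (P.lf 0 7349649 0) (P.cons (P.lf 1791321 0 0) (P.cons (P.lf 58896 0 0) (P.cons (P.lf 0 10758 0) P.nil)))))) (P.cons (P.cons (P.lf 437919717 0 0) (P.cons (P.lf 0 61271481 0) (P.cons (P.lf 0 12150126 0) (P.cons (P.lf 1716054 0 0) (P.cons (P.lf 69063 0 0) P.nil))))) (P.cons (P.cons (P.lf 67818672 0 0) (P.cons (P.lf 0 21559758 0) (P.cons (P.lf 0 2521209 0) (P.cons (P.lf 544389 0 0) P.nil)))) (P.cons (P.cons (P.lf 0 59389623 0) (P.cons (P.lf 0 1535580 0) (P.cons (P.lf 1126128 0 0) P.nil))) (P.cons (P.cons (P.lf 0 15906957 0) (P.cons (P.lf 1422009 0 0) P.nil)) (P.cons (P.cons (P.lf 2109927 0 0) P.nil) P.nil)))))) 3154560)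
 EL.nil)))
noncomputable def S140_198_438_512_23 : EL := (EL.cons 4 (TM.mk (P.cons (P.cons (P.lf 1512252105 0 0) (P.cons (P.lf 0 190051470 0) (P.cons (P.lf 0 3024915 0) (P.lf 1008300 0 0)))) (P.cons (P.cons (P.lf 0 850345479 0) (P.cons (P.lf 0 17351715 0) (P.cons (P.lf 0 276171 0) (P.lf 92058 0 0)))) (P.cons (P.cons (P.lf 0 381352059 0) (P.cons (P.lf 44579730 0 0) (P.cons (P.lf 709545 0 0) (P.lf 0 236514 0)))) (P.cons (P.cons (P.lf 123952428 0 0) (P.cons (P.lf 8269977 0 0) (P.cons (P.lf 131619 0 0) P.nil))) (P.cons (P.cons (P.lf 50009736 0 0) (P.cons (P.lf 0 3427923 0) P.nil)) (P.cons (P.cons (P.lf 0 4256754 0) P.nil) P.nil)))))) 7381158)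
 (EL.cons 8 (TM.mk (P.cons (P.cons (P.lf 0 800856690 0) (P.cons (P.lf 100647237 0 0) (P.cons (P.lf 1601934 0 0) (P.lf 0 533979 0)))) (P.cons (P.cons (P.lf 807360567 0 0) (P.cons (P.lf 0 35681157 0) (P.cons (P.lf 0 567909 0) (P.lf 189303 0 0)))) (P.cons (P.cons (P.lf 0 53981205 0) (P.cons (P.lf 0 20771100 0) (P.cons (P.lf 0 330597 0) (P.lf 110196 0 0)))) (P.cons (P.cons (P.lf 0 111753390 0) (P.cons (P.lf 5157369 0 0) (P.cons (P.lf 82083 0 0) P.nil))) (P.cons (P.cons (P.lf 6955197 0 0) (P.cons (P.lf 2305701 0 0) P.nil)) (P.cons (P.cons (P.lf 8204886 0 0) P.nil) P.nil)))))) 4305093)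
 (EL.cons 11 (TM.mk (P.cons (P.cons (P.lf 0 1050063534 0) (P.cons (P.lf 0 38924421 0) (P.cons (P.lf 19287189 0 0) (P.cons (P.lf 175017 0 0) (P.lf 0 43752 0))))) (P.cons (P.cons (P.lf 0 151149798 0) (P.cons (P.lf 0 5602914 0) (P.cons (P.lf 2776263 0 0) (P.cons (P.lf 25191 0 0) (P.lf 0 6294 0))))) (P.cons (P.cons (P.lf 133131711 0 0) (P.cons (P.lf 4935009 0 0) (P.cons (P.lf 0 2445315 0) (P.cons (P.lf 0 22188 0) P.nil)))) (P.cons (P.cons (P.lf 30835176 0 0) (P.cons (P.lf 1143015 0 0) (P.cons (P.lf 0 566367 0) P.nil))) (P.cons (P.cons (P.lf 0 2716488 0) (P.cons (P.lf 0 100695 0) P.nil)) (P.cons (P.cons (P.lf 0 1410480 0) P.nil) P.nil)))))) 475737)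
 EL.nil)))
noncomputable def S140_198_438_512_24 : EL := (EL.cons 4 (TM.mk (P.cons (P.cons (P.lf 147707160 0 0) (P.cons (P.lf 0 86008878 0) (P.cons (P.lf 7107276 0 0) (P.cons (P.lf 726132 0 0) (P.cons (P.lf 0 87792 0) (P.cons (P.lf 0 1431 0) P.nil)))))) (P.cons (P.cons (P.lf 233451165 0 0) (P.cons (P.lf 0 43323543 0) (P.cons (P.lf 5083269 0 0) (P.cons (P.lf 413613 0 0) (P.cons (P.lf 0 59790 0) P.nil))))) (P.cons (P.cons (P.lf 0 282567573 0) (P.cons (P.lf 44025690 0 0) (P.cons (P.lf 0 261111 0) (P.cons (P.lf 0 264192 0) P.nil)))) (P.cons (P.cons (P.lf 0 53958165 0) (P.cons (P.lf 22607361 0 0) (P.cons (P.lf 0 1332219 0) P.nil))) (P.cons (P.cons (P.lf 62529291 0 0) (P.cons (P.lf 0 5286153 0) P.nil)) (P.cons (P.cons (P.lf 10954683 0 0) P.nil) P.nil)))))) 18736299)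
 (EL.cons 8 (TM.mk (P.cons (P.cons (P.lf 0 78222582 0) (P.cons (P.lf 45548478 0 0) (P.cons (P.lf 0 3763863 0) (P.cons (P.lf 0 384543 0) (P.cons (P.lf 46491 0 0) (P.cons (P.lf 756 0 0) P.nil)))))) (P.cons (P.cons (P.lf 0 88757826 0) (P.cons (P.lf 2636940 0 0) (P.cons (P.lf 0 1013997 0) (P.cons (P.lf 0 47604 0) (P.cons (P.lf 10935 0 0) P.nil))))) (P.cons (P.cons (P.lf 199369419 0 0) (P.cons (P.lf 0 30405519 0) (P.cons (P.lf 1079106 0 0) (P.cons (P.lf 211068 0 0) P.nil)))) (P.cons (P.cons (P.lf 0 45395289 0) (P.cons (P.lf 0 731124 0) (P.cons (P.lf 519030 0 0) P.nil))) (P.cons (P.cons (P.lf 0 33795348 0) (P.cons (P.lf 6302445 0 0) P.nil)) (P.cons (P.cons (P.lf 8187081 0 0) P.nil) P.nil)))))) 9570405)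
 (EL.cons 11 (TM.mk (P.cons (P.cons (P.lf 0 102563523 0) (P.cons (P.lf 43030536 0 0) (P.cons (P.lf 4365261 0 0) (P.cons (P.lf 0 1063941 0) (P.cons (P.lf 0 34980 0) (P.cons (P.lf 6390 0 0) P.nil)))))) (P.cons (P.cons (P.lf 0 234536880 0) (P.cons (P.lf 25667178 0 0) (P.cons (P.lf 6128511 0 0) (P.cons (P.lf 0 754068 0) (P.cons (P.lf 0 32301 0) P.nil))))) (P.cons (P.cons (P.lf 28131636 0 0) (P.cons (P.lf 2230200 0 0) (P.cons (P.lf 0 453798 0) (P.cons (P.lf 0 32097 0) P.nil)))) (P.cons (P.cons (P.lf 54354264 0 0) (P.cons (P.lf 0 3528579 0) (P.cons (P.lf 0 1292076 0) P.nil))) (P.cons (P.cons (P.lf 1866849 0 0) (P.cons (P.lf 0 1476633 0) P.nil)) (P.cons (P.cons (P.lf 0 5007327 0) P.nil) P.nil)))))) 3354402)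
 EL.nil)))
noncomputable def S140_198_438_512_25 : EL := (EL.cons 4 (TM.mk (P.cons (P.cons (P.lf 0 898189701 0) (P.cons (P.lf 112879509 0 0) (P.cons (P.lf 1796622 0 0) (P.lf 0 598872 0)))) (P.cons (P.cons (P.lf 728911749 0 0) (P.cons (P.lf 0 17827077 0) (P.cons (P.lf 0 283743 0) (P.lf 94578 0 0)))) (P.cons (P.cons (P.lf 132042828 0 0) (P.cons (P.lf 0 32994630 0) (P.cons (P.lf 0 525150 0) (P.lf 175050 0 0)))) (P.cons (P.cons (P.lf 0 148232907 0) (P.cons (P.lf 1388970 0 0) (P.cons (P.lf 22110 0 0) P.nil))) (P.cons (P.cons (P.lf 0 19480407 0) (P.cons (P.lf 4252590 0 0) P.nil)) (P.cons (P.cons (P.lf 12868665 0 0) P.nil) P.nil)))))) 6373185)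
 (EL.cons 8 (TM.mk (P.cons (P.cons (P.lf 475662246 0 0) (P.cons (P.lf 0 59778597 0) (P.cons (P.lf 0 951456 0) (P.lf 317151 0 0)))) (P.cons (P.cons (P.lf 0 598074591 0) (P.cons (P.lf 36091164 0 0) (P.cons (P.lf 574437 0 0) (P.lf 0 191478 0)))) (P.cons (P.cons (P.lf 134936055 0 0) (P.cons (P.lf 9145953 0 0) (P.cons (P.lf 145569 0 0) (P.lf 0 48522 0)))) (P.cons (P.cons (P.lf 75419631 0 0) (P.cons (P.lf 0 6912144 0) (P.cons (P.lf 0 110013 0) P.nil))) (P.cons (P.cons (P.lf 0 21804384 0) (P.cons (P.lf 0 1057926 0) P.nil)) (P.cons (P.cons (P.lf 0 6387216 0) P.nil) P.nil)))))) 4803429)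
 (EL.cons 11 (TM.mk (P.cons (P.cons (P.lf 623676600 0 0) (P.cons (P.lf 23118840 0 0) (P.cons (P.lf 0 11455467 0) (P.cons (P.lf 0 103950 0) (P.lf 25986 0 0))))) (P.cons (P.cons (P.lf 0 65664891 0) (P.cons (P.lf 0 2434107 0) (P.cons (P.lf 1206108 0 0) (P.cons (P.lf 10944 0 0) (P.lf 0 2736 0))))) (P.cons (P.cons (P.lf 0 123262017 0) (P.cons (P.lf 0 4569153 0) (P.cons (P.lf 2264031 0 0) (P.cons (P.lf 20544 0 0) P.nil)))) (P.cons (P.cons (P.lf 0 1403085 0) (P.cons (P.lf 0 52008 0) (P.cons (P.lf 25770 0 0) P.nil))) (P.cons (P.cons (P.lf 9327981 0 0) (P.cons (P.lf 345774 0 0) P.nil)) (P.cons (P.cons (P.lf 1104111 0 0) P.nil) P.nil)))))) 805125)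
 EL.nil)))
noncomputable def S140_198_438_512_26 : EL := (EL.cons 4 (TM.mk (P.cons (P.cons (P.lf 0 87729453 0) (P.cons (P.lf 51084264 0 0) (P.cons (P.lf 0 4221309 0) (P.cons (P.lf 0 431280 0) (P.cons (P.lf 52143 0 0) (P.cons (P.lf 849 0 0) P.nil)))))) (P.cons (P.cons (P.lf 0 116791566 0) (P.cons (P.lf 12999918 0 0) (P.cons (P.lf 0 1967088 0) (P.cons (P.lf 0 138174 0) (P.cons (P.lf 22515 0 0) P.nil))))) (P.cons (P.cons (P.lf 205454673 0 0) (P.cons (P.lf 0 34348641 0) (P.cons (P.lf 1055205 0 0) (P.cons (P.lf 233226 0 0) P.nil)))) (P.cons (P.cons (P.lf 0 4978425 0) (P.cons (P.lf 0 7782273 0) (P.cons (P.lf 855882 0 0) P.nil))) (P.cons (P.cons (P.lf 0 51120024 0) (P.cons (P.lf 7442442 0 0) P.nil)) (P.cons (P.cons (P.lf 1643571 0 0) P.nil) P.nil)))))) 15439257)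
 (EL.cons 8 (TM.mk (P.cons (P.cons (P.lf 46459659 0 0) (P.cons (P.lf 0 27053145 0) (P.cons (P.lf 2235516 0 0) (P.cons (P.lf 228396 0 0) (P.cons (P.lf 0 27612 0) (P.cons (P.lf 0 450 0) P.nil)))))) (P.cons (P.cons (P.lf 41137827 0 0) (P.cons (P.lf 5176272 0 0) (P.cons (P.lf 45096 0 0) (P.cons (P.lf 0 28647 0) (P.cons (P.lf 384 0 0) P.nil))))) (P.cons (P.cons (P.lf 0 133177569 0) (P.cons (P.lf 19395720 0 0) (P.cons (P.lf 0 869220 0) (P.cons (P.lf 0 140397 0) P.nil)))) (P.cons (P.cons (P.lf 54656154 0 0) (P.cons (P.lf 0 4026771 0) (P.cons (P.lf 0 168366 0) P.nil))) (P.cons (P.cons (P.lf 17548608 0 0) (P.cons (P.lf 0 4498569 0) P.nil)) (P.cons (P.cons (P.lf 0 10843704 0) P.nil) P.nil)))))) 7266693)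
 (EL.cons 11 (TM.mk (P.cons (P.cons (P.lf 60916761 0 0) (P.cons (P.lf 0 25557633 0) (P.cons (P.lf 0 2592711 0) (P.cons (P.lf 631917 0 0) (P.cons (P.lf 20775 0 0) (P.cons (P.lf 0 3795 0) P.nil)))))) (P.cons (P.cons (P.lf 124118952 0 0) (P.cons (P.lf 0 8875074 0) (P.cons (P.lf 0 2993796 0) (P.cons (P.lf 290379 0 0) (P.cons (P.lf 14007 0 0) P.nil))))) (P.cons (P.cons (P.lf 0 53557398 0) (P.cons (P.lf 3368817 0 0) (P.cons (P.lf 1267410 0 0) (P.cons (P.lf 0 114660 0) P.nil)))) (P.cons (P.cons (P.lf 0 32957889 0) (P.cons (P.lf 2945040 0 0) (P.cons (P.lf 826131 0 0) P.nil))) (P.cons (P.cons (P.lf 7631151 0 0) (P.cons (P.lf 378909 0 0) P.nil)) (P.cons (P.cons (P.lf 4447440 0 0) P.nil) P.nil)))))) 2974314)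
 EL.nil)))
noncomputable def S140_198_438_512_27 : EL := (EL.cons 13 (TM.mk (P.lf 0 4294967296 0) 0)
 EL.nil)
noncomputable def S140_198_438_512_28 : EL := (EL.cons 13 (TM.mk (P.cons (P.cons (P.lf 0 419505072 0) (P.cons (P.lf 191553884 0 0) (P.cons (P.lf 3048832 0 0) (P.lf 0 1016276 0)))) (P.cons (P.cons (P.lf 0 898917160 0) (P.cons (P.lf 112970932 0 0) (P.cons (P.lf 1798080 0 0) (P.lf 0 599360 0)))) (P.cons (P.cons (P.lf 191270505 0 0) (P.cons (P.lf 12881316 0 0) (P.cons (P.lf 205020 0 0) (P.lf 0 68340 0)))) (P.cons (P.cons (P.lf 68500040 0 0) (P.cons (P.lf 0 4579920 0) (P.cons (P.lf 0 72892 0) P.nil))) (P.cons (P.cons (P.lf 0 3285736 0) (P.cons (P.lf 0 1208516 0) P.nil)) (P.cons (P.cons (P.lf 0 2817623 0) P.nil) P.nil)))))) 845454)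
 EL.nil)
noncomputable def S140_198_438_512_29 : EL := (EL.cons 13 (TM.mk (P.cons (P.cons (P.lf 0 40974585 0) (P.cons (P.lf 37419528 0 0) (P.cons (P.lf 0 7947648 0) (P.cons (P.lf 0 470480 0) (P.cons (P.lf 88486 0 0) (P.cons (P.lf 1442 0 0) P.nil)))))) (P.cons (P.cons (P.lf 0 175601014 0) (P.cons (P.lf 102251280 0 0) (P.cons (P.lf 0 8449456 0) (P.cons (P.lf 0 863262 0) (P.cons (P.lf 104372 0 0) P.nil))))) (P.cons (P.cons (P.lf 0 150775110 0) (P.cons (P.lf 32743755 0 0) (P.cons (P.lf 0 3599329 0) (P.cons (P.lf 0 304885 0) P.nil)))) (P.cons (P.cons (P.lf 93445392 0 0) (P.cons (P.lf 0 11674836 0) (P.cons (P.lf 0 454932 0) P.nil))) (P.cons (P.cons (P.lf 19513664 0 0) (P.cons (P.lf 0 6610937 0) P.nil)) (P.cons (P.cons (P.lf 0 8026905 0) P.nil) P.nil)))))) 6899134)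
 EL.nil)
noncomputable def S140_198_438_512_30 : EL := (EL.cons 13 (TM.mk (P.cons (P.lf 2550960508 0 0) (P.cons (P.lf 0 635776524 0) (P.cons (P.lf 0 89228036 0) (P.cons (P.lf 1407440 0 0) (P.cons (P.lf 1369092 0 0) (P.cons (P.lf 95416 0 0) P.nil)))))) 28012)
 EL.nil)
noncomputable def S140_198_438_512_31 : EL := (EL.cons 13 (TM.mk (P.cons (P.cons (P.lf 249161587 0 0) (P.cons (P.lf 0 113771854 0) (P.cons (P.lf 0 1810828 0) (P.lf 603608 0 0)))) (P.cons (P.cons (P.lf 471805850 0 0) (P.cons (P.lf 0 38742768 0) (P.cons (P.lf 0 616641 0) (P.lf 205547 0 0)))) (P.cons (P.cons (P.lf 0 255383910 0) (P.cons (P.lf 13051674 0 0) (P.cons (P.lf 207736 0 0) (P.lf 0 69245 0)))) (P.cons (P.cons (P.lf 0 30909149 0) (P.cons (P.lf 6911206 0 0) (P.cons (P.lf 109998 0 0) P.nil))) (P.cons (P.cons (P.lf 16493421 0 0) (P.cons (P.lf 209359 0 0) P.nil)) (P.cons (P.cons (P.lf 2843397 0 0) P.nil) P.nil))))))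 1735417)
 EL.nil)
noncomputable def S140_198_438_512_32 : EL := (EL.cons 13 (TM.mk (P.cons (P.cons (P.lf 24336517 0 0) (P.cons (P.lf 0 22225020 0) (P.cons (P.lf 4720440 0 0) (P.cons (P.lf 279437 0 0) (P.cons (P.lf 0 52555 0) (P.cons (P.lf 0 856 0) P.nil)))))) (P.cons (P.cons (P.lf 98231381 0 0) (P.cons (P.lf 0 55192159 0) (P.cons (P.lf 3842008 0 0) (P.cons (P.lf 443083 0 0) (P.cons (P.lf 0 48892 0) P.nil))))) (P.cons (P.cons (P.lf 62706476 0 0) (P.cons (P.lf 0 3534413 0) (P.cons (P.lf 721921 0 0) (P.cons (P.lf 43522 0 0) P.nil)))) (P.cons (P.cons (P.lf 0 81454786 0) (P.cons (P.lf 13893184 0 0) (P.cons (P.lf 0 435532 0) P.nil))) (P.cons (P.cons (P.lf 0 819172 0) (P.cons (P.lf 2833122 0 0) P.nil)) (P.cons (P.cons (P.lf 9703712 0 0) P.nil) P.nil)))))) 8849391)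
 EL.nil)
noncomputable def S140_198_438_512_33 : EL := (EL.cons 14 (TM.mk (P.lf 8589934592 0 0) 0)
 EL.nil)
noncomputable def S140_198_438_512_34 : EL := (EL.cons 14 (TM.mk (P.cons (P.cons (P.lf 839010144 0 0) (P.cons (P.lf 0 383107768 0) (P.cons (P.lf 0 6097664 0) (P.lf 2032552 0 0)))) (P.cons (P.cons (P.lf 1797834320 0 0) (P.cons (P.lf 0 225941864 0) (P.cons (P.lf 0 3596160 0) (P.lf 1198720 0 0)))) (P.cons (P.cons (P.lf 0 382541010 0) (P.cons (P.lf 0 25762632 0) (P.cons (P.lf 0 410040 0) (P.lf 136680 0 0)))) (P.cons (P.cons (P.lf 0 137000080 0) (P.cons (P.lf 9159840 0 0) (P.cons (P.lf 145784 0 0) P.nil))) (P.cons (P.cons (P.lf 6571472 0 0) (P.cons (P.lf 2417032 0 0) P.nil)) (P.cons (P.cons (P.lf 5635246 0 0) P.nil) P.nil)))))) 1690908)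
 EL.nil)
noncomputable def S140_198_438_512_35 : EL := (EL.cons 14 (TM.mk (P.cons (P.cons (P.lf 81949170 0 0) (P.cons (P.lf 0 74839056 0) (P.cons (P.lf 15895296 0 0) (P.cons (P.lf 940960 0 0) (P.cons (P.lf 0 176972 0) (P.cons (P.lf 0 2884 0) P.nil)))))) (P.cons (P.cons (P.lf 351202028 0 0) (P.cons (P.lf 0 204502560 0) (P.cons (P.lf 16898912 0 0) (P.cons (P.lf 1726524 0 0) (P.cons (P.lf 0 208744 0) P.nil))))) (P.cons (P.cons (P.lf 301550220 0 0) (P.cons (P.lf 0 65487510 0) (P.cons (P.lf 7198658 0 0) (P.cons (P.lf 609770 0 0) P.nil)))) (P.cons (P.cons (P.lf 0 186890784 0) (P.cons (P.lf 23349672 0 0) (P.cons (P.lf 909864 0 0) P.nil))) (P.cons (P.cons (P.lf 0 39027328 0) (P.cons (P.lf 13221874 0 0) P.nil)) (P.cons (P.cons (P.lf 16053810 0 0) P.nil) P.nil)))))) 13798268)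
 EL.nil)
noncomputable def S140_198_438_512_36 : EL := (EL.cons 14 (TM.mk (P.cons (P.lf 0 5101921016 0) (P.cons (P.lf 1271553048 0 0) (P.cons (P.lf 178456072 0 0) (P.cons (P.lf 0 2814880 0) (P.cons (P.lf 0 2738184 0) (P.cons (P.lf 0 190832 0) P.nil)))))) 56024)
 EL.nil)
noncomputable def S140_198_438_512_37 : EL := (EL.cons 14 (TM.mk (P.cons (P.cons (P.lf 0 498323174 0) (P.cons (P.lf 227543708 0 0) (P.cons (P.lf 3621656 0 0) (P.lf 0 1207216 0)))) (P.cons (P.cons (P.lf 0 943611700 0) (P.cons (P.lf 77485536 0 0) (P.cons (P.lf 1233282 0 0) (P.lf 0 411094 0)))) (P.cons (P.cons (P.lf 510767820 0 0) (P.cons (P.lf 0 26103348 0) (P.cons (P.lf 0 415472 0) (P.lf 138490 0 0)))) (P.cons (P.cons (P.lf 61818298 0 0) (P.cons (P.lf 0 13822412 0) (P.cons (P.lf 0 219996 0) P.nil))) (P.cons (P.cons (P.lf 0 32986842 0) (P.cons (P.lf 0 418718 0) P.nil)) (P.cons (P.cons (P.lf 0 5686794 0) P.nil)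 P.nil)))))) 3470834)
 EL.nil)
noncomputable def S140_198_438_512_38 : EL := (EL.cons 14 (TM.mk (P.cons (P.cons (P.lf 0 48673034 0) (P.cons (P.lf 44450040 0 0) (P.cons (P.lf 0 9440880 0) (P.cons (P.lf 0 558874 0) (P.cons (P.lf 105110 0 0) (P.cons (P.lf 1712 0 0) P.nil)))))) (P.cons (P.cons (P.lf 0 196462762 0) (P.cons (P.lf 110384318 0 0) (P.cons (P.lf 0 7684016 0) (P.cons (P.lf 0 886166 0) (P.cons (P.lf 97784 0 0) P.nil))))) (P.cons (P.cons (P.lf 0 125412952 0) (P.cons (P.lf 7068826 0 0) (P.cons (P.lf 0 1443842 0) (P.cons (P.lf 0 87044 0) P.nil)))) (P.cons (P.cons (P.lf 162909572 0 0) (P.cons (P.lf 0 27786368 0) (P.cons (P.lf 871064 0 0) P.nil))) (P.cons (P.cons (P.lf 1638344 0 0) (P.cons (P.lf 0 5666244 0) P.nil)) (P.cons (P.cons (P.lf 0 19407424 0) P.nil) P.nil)))))) 17698782)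
 EL.nil)
noncomputable def S140_198_438_512_39 : EL := (EL.cons 14 (TM.mk (P.cons (P.lf 3030244034 0 0) (P.cons (P.lf 0 1510456952 0) (P.cons (P.lf 0 23759250 0) (P.cons (P.lf 56176832 0 0) (P.cons (P.lf 6126708 0 0) (P.cons (P.lf 0 700928 0) P.nil)))))) 267590)
 EL.nil)
noncomputable def S140_198_438_512_40 : EL := (EL.cons 14 (TM.mk (P.cons (P.cons (P.lf 295974952 0 0) (P.cons (P.lf 0 135147714 0) (P.cons (P.lf 0 2151052 0) (P.lf 717016 0 0)))) (P.cons (P.cons (P.lf 486684498 0 0) (P.cons (P.lf 0 12338998 0) (P.cons (P.lf 0 196390 0) (P.lf 65464 0 0)))) (P.cons (P.cons (P.lf 0 453400216 0) (P.cons (P.lf 31701142 0 0) (P.cons (P.lf 504566 0 0) (P.lf 0 168188 0)))) (P.cons (P.cons (P.lf 19451344 0 0) (P.cons (P.lf 5880874 0 0) (P.cons (P.lf 93598 0 0) P.nil))) (P.cons (P.cons (P.lf 39822396 0 0) (P.cons (P.lf 0 2437636 0) P.nil)) (P.cons (P.cons (P.lf 0 76596 0) P.nil) P.nil))))))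 4656732)
 EL.nil)
noncomputable def S140_198_438_512_41 : EL := (EL.cons 14 (TM.mk (P.cons (P.cons (P.lf 28908948 0 0) (P.cons (P.lf 0 26400736 0) (P.cons (P.lf 5607332 0 0) (P.cons (P.lf 331938 0 0) (P.cons (P.lf 0 62428 0) (P.cons (P.lf 0 1016 0) P.nil)))))) (P.cons (P.cons (P.lf 109482458 0 0) (P.cons (P.lf 0 58981996 0) (P.cons (P.lf 3166340 0 0) (P.cons (P.lf 443600 0 0) (P.cons (P.lf 0 42518 0) P.nil))))) (P.cons (P.cons (P.lf 44394768 0 0) (P.cons (P.lf 13064976 0 0) (P.cons (P.lf 0 476026 0) (P.cons (P.lf 0 91088 0) P.nil)))) (P.cons (P.cons (P.lf 0 119389030 0) (P.cons (P.lf 19828540 0 0) (P.cons (P.lf 0 887632 0) P.nil))) (P.cons (P.cons (P.lf 20616576 0 0) (P.cons (P.lf 0 651234 0) P.nil)) (P.cons (P.cons (P.lf 15258654 0 0) P.nil) P.nil)))))) 16396442)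
 EL.nil)
noncomputable def S140_198_438_512_42 : EL := (EL.cons 14 (TM.mk (P.cons (P.lf 0 1799788526 0) (P.cons (P.lf 1345685228 0 0) (P.cons (P.lf 0 146525314 0) (P.cons (P.lf 0 69255578 0) (P.cons (P.lf 3712280 0 0) (P.cons (P.lf 2912260 0 0) P.nil)))))) 563866)
 EL.nil)
noncomputable def S140_198_438_512_43 : EL := (EL.cons 14 (TM.mk (P.cons (P.cons (P.lf 0 175791888 0) (P.cons (P.lf 80269872 0 0) (P.cons (P.lf 1277600 0 0) (P.lf 0 425866 0)))) (P.cons (P.cons (P.lf 0 245249600 0) (P.cons (P.lf 0 12677032 0) (P.cons (P.lf 0 201772 0) (P.lf 67256 0 0)))) (P.cons (P.cons (P.lf 347485274 0 0) (P.cons (P.lf 0 23462850 0) (P.cons (P.lf 0 373442 0) (P.lf 124480 0 0)))) (P.cons (P.cons (P.lf 0 68655118 0) (P.cons (P.lf 987712 0 0) (P.cons (P.lf 15722 0 0) P.nil))) (P.cons (P.cons (P.lf 0 30446066 0) (P.cons (P.lf 3024064 0 0) P.nil)) (P.cons (P.cons (P.lf 6331298 0 0) P.nil)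 P.nil)))))) 5585766)
 EL.nil)
noncomputable def S140_198_438_512_44 : EL := (EL.cons 14 (TM.mk (P.cons (P.cons (P.lf 0 17170232 0) (P.cons (P.lf 15680500 0 0) (P.cons (P.lf 0 3330428 0) (P.cons (P.lf 0 197152 0) (P.cons (P.lf 37078 0 0) (P.cons (P.lf 604 0 0) P.nil)))))) (P.cons (P.cons (P.lf 0 60746864 0) (P.cons (P.lf 31123816 0 0) (P.cons (P.lf 0 1050578 0) (P.cons (P.lf 0 214336 0) (P.cons (P.lf 16012 0 0) P.nil))))) (P.cons (P.cons (P.lf 0 9560826 0) (P.cons (P.lf 0 17039312 0) (P.cons (P.lf 867932 0 0) (P.cons (P.lf 126662 0 0) P.nil)))) (P.cons (P.cons (P.lf 79746840 0 0) (P.cons (P.lf 0 11059714 0) (P.cons (P.lf 520680 0 0) P.nil))) (P.cons (P.cons (P.lf 0 29040784 0) (P.cons (P.lf 3621148 0 0) P.nil)) (P.cons (P.cons (P.lf 0 8541316 0) P.nil) P.nil)))))) 15947922)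
 EL.nil)
noncomputable def S140_198_438_512_45 : EL := (EL.cons 14 (TM.mk (P.cons (P.cons (P.lf 8004272 0 0) (P.cons (P.lf 0 10964704 0) (P.cons (P.lf 4832170 0 0) (P.cons (P.lf 0 544500 0) (P.cons (P.lf 0 88242 0) (P.cons (P.lf 10704 0 0) P.nil)))))) (P.cons (P.cons (P.lf 51454768 0 0) (P.cons (P.lf 0 53456974 0) (P.cons (P.lf 15783012 0 0) (P.cons (P.lf 0 535168 0) (P.cons (P.lf 0 236664 0) P.nil))))) (P.cons (P.cons (P.lf 99309002 0 0) (P.cons (P.lf 0 68797508 0) (P.cons (P.lf 11691330 0 0) (P.cons (P.lf 0 176874 0) P.nil)))) (P.cons (P.cons (P.lf 27911486 0 0) (P.cons (P.lf 0 1687120 0) (P.cons (P.lf 1795152 0 0) P.nil))) (P.cons (P.cons (P.lf 0 61895056 0) (P.cons (P.lf 18448716 0 0) P.nil)) (P.cons (P.cons (P.lf 0 2764240 0) P.nil) P.nil)))))) 32027598)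
 EL.nil)
noncomputable def S140_198_438_512_46 : EL := (EL.cons 15 (TM.mk (P.lf 4294967296 0 0) 0)
 EL.nil)
noncomputable def S140_198_438_512_47 : EL := (EL.cons 15 (TM.mk (P.cons (P.cons (P.lf 419505072 0 0) (P.cons (P.lf 0 191553884 0) (P.cons (P.lf 0 3048832 0) (P.lf 1016276 0 0)))) (P.cons (P.cons (P.lf 898917160 0 0) (P.cons (P.lf 0 112970932 0) (P.cons (P.lf 0 1798080 0) (P.lf 599360 0 0)))) (P.cons (P.cons (P.lf 0 191270505 0) (P.cons (P.lf 0 12881316 0) (P.cons (P.lf 0 205020 0) (P.lf 68340 0 0)))) (P.cons (P.cons (P.lf 0 68500040 0) (P.cons (P.lf 4579920 0 0) (P.cons (P.lf 72892 0 0) P.nil))) (P.cons (P.cons (P.lf 3285736 0 0) (P.cons (P.lf 1208516 0 0) P.nil)) (P.cons (P.cons (P.lf 2817623 0 0) P.nil) P.nil)))))) 845454)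
 EL.nil)
noncomputable def S140_198_438_512_48 : EL := (EL.cons 15 (TM.mk (P.cons (P.cons (P.lf 40974585 0 0) (P.cons (P.lf 0 37419528 0) (P.cons (P.lf 7947648 0 0) (P.cons (P.lf 470480 0 0) (P.cons (P.lf 0 88486 0) (P.cons (P.lf 0 1442 0) P.nil)))))) (P.cons (P.cons (P.lf 175601014 0 0) (P.cons (P.lf 0 102251280 0) (P.cons (P.lf 8449456 0 0) (P.cons (P.lf 863262 0 0) (P.cons (P.lf 0 104372 0) P.nil))))) (P.cons (P.cons (P.lf 150775110 0 0) (P.cons (P.lf 0 32743755 0) (P.cons (P.lf 3599329 0 0) (P.cons (P.lf 304885 0 0) P.nil)))) (P.cons (P.cons (P.lf 0 93445392 0) (P.cons (P.lf 11674836 0 0) (P.cons (P.lf 454932 0 0) P.nil))) (P.cons (P.cons (P.lf 0 19513664 0) (P.cons (P.lf 6610937 0 0) P.nil)) (P.cons (P.cons (P.lf 8026905 0 0) P.nil) P.nil)))))) 6899134)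
 EL.nil)
noncomputable def S140_198_438_512 : SL := (SL.cons S140_198_438_512_0 (SL.cons S140_198_438_512_1 (SL.cons S140_198_438_512_2 (SL.cons S140_198_438_512_3 (SL.cons S140_198_438_512_4 (SL.cons S140_198_438_512_5 (SL.cons S140_198_438_512_6 (SL.cons S140_198_438_512_7 (SL.cons S140_198_438_512_8 (SL.cons S140_198_438_512_9 (SL.cons S140_198_438_512_10 (SL.cons S140_198_438_512_11 (SL.cons S140_198_438_512_12 (SL.cons S140_198_438_512_13 (SL.cons S140_198_438_512_14 (SL.cons S140_198_438_512_15 (SL.cons S140_198_438_512_16 (SL.cons S140_198_438_512_17 (SL.cons S140_198_438_512_18 (SL.cons S140_198_438_512_19 (SL.cons S140_198_438_512_20 (SL.cons S140_198_438_512_21 (SL.cons S140_198_438_512_22 (SL.cons S140_198_438_512_23 (SL.cons S140_198_438_512_24 (SL.cons S140_198_438_512_25 (SL.cons S140_198_438_512_26 (SL.cons S140_198_438_512_27 (SL.cons S140_198_438_512_28 (SL.cons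 S140_198_438_512_29 (SL.cons S140_198_438_512_30 (SL.cons S140_198_438_512_31 (SL.cons S140_198_438_512_32 (SL.cons S140_198_438_512_33 (SL.cons S140_198_438_512_34 (SL.cons S140_198_438_512_35 (SL.cons S140_198_438_512_36 (SL.cons S140_198_438_512_37 (SL.cons S140_198_438_512_38 (SL.cons S140_198_438_512_39 (SL.cons S140_198_438_512_40 (SL.cons S140_198_438_512_41 (SL.cons S140_198_438_512_42 (SL.cons S140_198_438_512_43 (SL.cons S140_198_438_512_44 (SL.cons S140_198_438_512_45 (SL.cons S140_198_438_512_46 (SL.cons S140_198_438_512_47 (SL.cons S140_198_438_512_48 SL.nil)))))))))))))))))))))))))))))))))))))))))))))))))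
noncomputable def S140_198_512_660_0 : EL := (EL.cons 0 (TM.mk (P.cons (P.lf 5792416443 0 0) (P.cons (P.lf 1327550055 0 0) (P.cons (P.lf 20882153 0 0) (P.cons (P.lf 0 49374168 0) (P.cons (P.lf 0 5384801 0) (P.cons (P.lf 616050 0 0) P.nil)))))) 235193)
 (EL.cons 1 (TM.mk (P.cons (P.lf 0 1788121471 0) (P.cons (P.lf 94132764 0 0) (P.cons (P.lf 179177853 0 0) (P.cons (P.lf 11443897 0 0) (P.cons (P.lf 0 3792305 0) (P.cons (P.lf 0 635690 0) P.nil)))))) 110845)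
 (EL.cons 5 (TM.mk (P.cons (P.lf 5241918562 0 0) (P.cons (P.lf 0 472017796 0) (P.cons (P.lf 0 7424770 0) (P.cons (P.lf 17555260 0 0) (P.cons (P.lf 1914598 0 0) (P.cons (P.lf 0 219040 0) P.nil)))))) 72457)
 (EL.cons 9 (TM.mk (P.lf 6442450944 0 0) 2)
 EL.nil))))
noncomputable def S140_198_512_660_1 : EL := (EL.cons 0 (TM.mk (P.cons (P.cons (P.lf 0 1975685405 0) (P.cons (P.lf 186654476 0 0) (P.cons (P.lf 0 12479278 0) (P.lf 0 4159756 0)))) (P.cons (P.cons (P.lf 2399294200 0 0) (P.cons (P.lf 0 340967257 0) (P.cons (P.lf 22796280 0 0) (P.lf 7598765 0 0)))) (P.cons (P.cons (P.lf 326539316 0 0) (P.cons (P.lf 0 260553827 0) (P.cons (P.lf 17420013 0 0) (P.lf 5806659 0 0)))) (P.cons (P.cons (P.lf 0 419340855 0) (P.cons (P.lf 0 22203121 0) (P.cons (P.lf 1484441 0 0) P.nil))) (P.cons (P.cons (P.lf 0 89452370 0) (P.cons (P.lf 20852551 0 0) P.nil)) (P.cons (P.cons (P.lf 21516626 0 0) P.nil)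 P.nil)))))) 29176144)
 (EL.cons 1 (TM.mk (P.cons (P.cons (P.lf 0 60656457 0) (P.cons (P.lf 200005155 0 0) (P.cons (P.lf 0 13371871 0) (P.lf 0 4457287 0)))) (P.cons (P.cons (P.lf 0 589458309 0) (P.cons (P.lf 267655279 0 0) (P.cons (P.lf 0 17894799 0) (P.lf 0 5964923 0)))) (P.cons (P.cons (P.lf 542621744 0 0) (P.cons (P.lf 12782960 0 0) (P.cons (P.lf 0 854638 0) (P.lf 0 284876 0)))) (P.cons (P.cons (P.lf 154910538 0 0) (P.cons (P.lf 0 44500667 0) (P.cons (P.lf 2975205 0 0) P.nil))) (P.cons (P.cons (P.lf 0 55524861 0) (P.cons (P.lf 0 9220929 0) P.nil)) (P.cons (P.cons (P.lf 0 18014906 0) P.nil) P.nil)))))) 15766937)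
 (EL.cons 5 (TM.mk (P.cons (P.cons (P.lf 438699729 0 0) (P.cons (P.lf 0 686551146 0) (P.cons (P.lf 45901210 0 0) (P.lf 15300398 0 0)))) (P.cons (P.cons (P.lf 98925044 0 0) (P.cons (P.lf 0 244527938 0) (P.cons (P.lf 16348572 0 0) (P.lf 5449520 0 0)))) (P.cons (P.cons (P.lf 0 506957447 0) (P.cons (P.lf 50936118 0 0) (P.cons (P.lf 0 3405464 0) (P.lf 0 1135150 0)))) (P.cons (P.cons (P.lf 56006494 0 0) (P.cons (P.lf 22722650 0 0) (P.cons (P.lf 0 1519182 0) P.nil))) (P.cons (P.cons (P.lf 43554478 0 0) (P.cons (P.lf 0 3501472 0) P.nil)) (P.cons (P.cons (P.lf 0 2940229 0) P.nil) P.nil)))))) 12625268)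
 (EL.cons 9 (TM.mk (P.cons (P.cons (P.lf 0 232734868 0) (P.cons (P.lf 0 547222152 0) (P.cons (P.lf 36585996 0 0) (P.lf 12195330 0 0)))) (P.cons (P.cons (P.lf 840006546 0 0) (P.cons (P.lf 0 322730064 0) (P.cons (P.lf 21576978 0 0) (P.lf 7192320 0 0)))) (P.cons (P.cons (P.lf 0 344871673 0) (P.cons (P.lf 0 36798738 0) (P.cons (P.lf 2460276 0 0) (P.lf 820086 0 0)))) (P.cons (P.cons (P.lf 0 82140414 0) (P.cons (P.lf 13083708 0 0) (P.cons (P.lf 0 874746 0) P.nil))) (P.cons (P.cons (P.lf 10366932 0 0) (P.cons (P.lf 3452436 0 0) P.nil)) (P.cons (P.cons (P.lf 4155988 0 0) P.nil) P.nil)))))) 2216086)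
 (EL.cons 2 (TM.mk (P.cons (P.cons (P.lf 930066274 0 0) (P.cons (P.lf 0 143997612 0) (P.cons (P.lf 0 69373507 0) (P.cons (P.lf 2625294 0 0) (P.lf 656322 0 0))))) (P.cons (P.cons (P.lf 133876977 0 0) (P.cons (P.lf 0 20727517 0) (P.cons (P.lf 0 9985862 0) (P.cons (P.lf 377893 0 0) (P.lf 94471 0 0))))) (P.cons (P.cons (P.lf 0 117917924 0) (P.cons (P.lf 18256654 0 0) (P.cons (P.lf 8795480 0 0) (P.cons (P.lf 0 332845 0) P.nil)))) (P.cons (P.cons (P.lf 0 27311450 0) (P.cons (P.lf 4228495 0 0) (P.cons (P.lf 2037155 0 0) P.nil))) (P.cons (P.cons (P.lf 2406057 0 0) (P.cons (P.lf 0 372518 0) P.nil)) (P.cons (P.cons (P.lf 1249295 0 0) P.nil) P.nil)))))) 1205931)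
 (EL.cons 6 (TM.mk (P.cons (P.cons (P.lf 624440061 0 0) (P.cons (P.lf 0 96679002 0) (P.cons (P.lf 0 46576893 0) (P.cons (P.lf 1762605 0 0) (P.lf 440649 0 0))))) (P.cons (P.cons (P.lf 368270142 0 0) (P.cons (P.lf 0 57017466 0) (P.cons (P.lf 0 27469215 0) (P.cons (P.lf 1039515 0 0) (P.lf 259878 0 0))))) (P.cons (P.cons (P.lf 41991369 0 0) (P.cons (P.lf 0 6501315 0) (P.cons (P.lf 0 3132129 0) (P.cons (P.lf 118527 0 0) P.nil)))) (P.cons (P.cons (P.lf 0 14929938 0) (P.cons (P.lf 2311527 0 0) (P.cons (P.lf 1113621 0 0) P.nil))) (P.cons (P.cons (P.lf 0 3939606 0) (P.cons (P.lf 609948 0 0) P.nil)) (P.cons (P.cons (P.lf 51039 0 0) P.nil) P.nil)))))) 717678)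
 EL.nil))))))
noncomputable def S140_198_512_660_2 : EL := (EL.cons 0 (TM.mk (P.cons (P.cons (P.lf 135184804 0 0) (P.cons (P.lf 286595999 0 0) (P.cons (P.lf 0 92661227 0) (P.cons (P.lf 3441034 0 0) (P.cons (P.lf 2947486 0 0) (P.cons (P.lf 0 219026 0) P.nil)))))) (P.cons (P.cons (P.lf 0 635719414 0) (P.cons (P.lf 0 37151542 0) (P.cons (P.lf 0 17164858 0) (P.cons (P.lf 3455289 0 0) (P.cons (P.lf 787936 0 0) P.nil))))) (P.cons (P.cons (P.lf 705199890 0 0) (P.cons (P.lf 0 318284085 0) (P.cons (P.lf 65966887 0 0) (P.cons (P.lf 1117878 0 0) P.nil)))) (P.cons (P.cons (P.lf 0 42963839 0) (P.cons (P.lf 0 60230251 0) (P.cons (P.lf 32799042 0 0) P.nil))) (P.cons (P.cons (P.lf 0 185640761 0) (P.cons (P.lf 70168888 0 0) P.nil)) (P.cons (P.cons (P.lf 8807897 0 0) P.nil) P.nil)))))) 157074359)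
 (EL.cons 1 (TM.mk (P.cons (P.cons (P.lf 6716005 0 0) (P.cons (P.lf 6827488 0 0) (P.cons (P.lf 0 21532407 0) (P.cons (P.lf 2666017 0 0) (P.cons (P.lf 845175 0 0) (P.cons (P.lf 0 62807 0) P.nil)))))) (P.cons (P.cons (P.lf 9803314 0 0) (P.cons (P.lf 105319127 0 0) (P.cons (P.lf 0 58011126 0) (P.cons (P.lf 4468303 0 0) (P.cons (P.lf 2043973 0 0) P.nil))))) (P.cons (P.cons (P.lf 0 148457239 0) (P.cons (P.lf 9314828 0 0) (P.cons (P.lf 0 27766698 0) (P.cons (P.lf 3421966 0 0) P.nil)))) (P.cons (P.cons (P.lf 171358488 0 0) (P.cons (P.lf 0 87278337 0) (P.cons (P.lf 8340456 0 0) P.nil))) (P.cons (P.cons (P.lf 0 2278497 0) (P.cons (P.lf 0 29149648 0) P.nil)) (P.cons (P.cons (P.lf 0 40350397 0) P.nil) P.nil)))))) 78818946)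
 (EL.cons 5 (TM.mk (P.cons (P.cons (P.lf 0 38537087 0) (P.cons (P.lf 0 57092164 0) (P.cons (P.lf 82628964 0 0) (P.cons (P.lf 0 9266002 0) (P.cons (P.lf 0 3160499 0) (P.cons (P.lf 234849 0 0) P.nil)))))) (P.cons (P.cons (P.lf 157250639 0 0) (P.cons (P.lf 0 122091325 0) (P.cons (P.lf 77284429 0 0) (P.cons (P.lf 0 6521718 0) (P.cons (P.lf 0 2771894 0) P.nil))))) (P.cons (P.cons (P.lf 0 98369716 0) (P.cons (P.lf 87199016 0 0) (P.cons (P.lf 3688738 0 0) (P.cons (P.lf 0 3216084 0) P.nil)))) (P.cons (P.cons (P.lf 0 79922064 0) (P.cons (P.lf 64442011 0 0) (P.cons (P.lf 0 12879168 0) P.nil))) (P.cons (P.cons (P.lf 61803658 0 0) (P.cons (P.lf 0 9568931 0) P.nil)) (P.cons (P.cons (P.lf 9558551 0 0) P.nil) P.nil)))))) 73077910)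
 (EL.cons 9 (TM.mk (P.cons (P.cons (P.lf 8407594 0 0) (P.cons (P.lf 39537025 0 0) (P.cons (P.lf 43837726 0 0) (P.cons (P.lf 0 7096350 0) (P.cons (P.lf 0 1863975 0) (P.cons (P.lf 138511 0 0) P.nil)))))) (P.cons (P.cons (P.lf 0 60690819 0) (P.cons (P.lf 0 119383027 0) (P.cons (P.lf 62807089 0 0) (P.cons (P.lf 0 4670442 0) (P.cons (P.lf 0 2198598 0) P.nil))))) (P.cons (P.cons (P.lf 134442361 0 0) (P.cons (P.lf 0 22913514 0) (P.cons (P.lf 23950254 0 0) (P.cons (P.lf 0 2487024 0) P.nil)))) (P.cons (P.cons (P.lf 0 83998318 0) (P.cons (P.lf 37964835 0 0) (P.cons (P.lf 0 1074088 0) P.nil))) (P.cons (P.cons (P.lf 0 3707593 0) (P.cons (P.lf 13570582 0 0) P.nil)) (P.cons (P.cons (P.lf 11197275 0 0) P.nil) P.nil)))))) 20920262)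
 (EL.cons 2 (TM.mk (P.cons (P.cons (P.lf 0 67197667 0) (P.cons (P.lf 0 147595876 0) (P.cons (P.lf 40038086 0 0) (P.cons (P.lf 13481167 0 0) (P.cons (P.lf 0 1826499 0) (P.cons (P.lf 0 344317 0) P.nil)))))) (P.cons (P.cons (P.lf 232862900 0 0) (P.cons (P.lf 0 151978095 0) (P.cons (P.lf 8329376 0 0) (P.cons (P.lf 10687657 0 0) (P.cons (P.lf 0 1140991 0) P.nil))))) (P.cons (P.cons (P.lf 0 56143957 0) (P.cons (P.lf 4686536 0 0) (P.cons (P.lf 5075820 0 0) (P.cons (P.lf 188133 0 0) P.nil)))) (P.cons (P.cons (P.lf 0 66826091 0) (P.cons (P.lf 29048338 0 0) (P.cons (P.lf 838636 0 0) P.nil))) (P.cons (P.cons (P.lf 4908071 0 0) (P.cons (P.lf 4455326 0 0) P.nil)) (P.cons (P.cons (P.lf 8098891 0 0) P.nil) P.nil)))))) 15116197)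
 (EL.cons 6 (TM.mk (P.cons (P.cons (P.lf 0 45116046 0) (P.cons (P.lf 0 99094848 0) (P.cons (P.lf 26881296 0 0) (P.cons (P.lf 9051162 0 0) (P.cons (P.lf 0 1226298 0) (P.cons (P.lf 0 231168 0) P.nil)))))) (P.cons (P.cons (P.lf 136229028 0 0) (P.cons (P.lf 0 146215218 0) (P.cons (P.lf 17576430 0 0) (P.cons (P.lf 11210778 0 0) (P.cons (P.lf 0 1312758 0) P.nil))))) (P.cons (P.cons (P.lf 26146812 0 0) (P.cons (P.lf 0 55211646 0) (P.cons (P.lf 9391770 0 0) (P.cons (P.lf 4500690 0 0) P.nil)))) (P.cons (P.cons (P.lf 0 43322004 0) (P.cons (P.lf 3365820 0 0) (P.cons (P.lf 3972132 0 0) P.nil))) (P.cons (P.cons (P.lf 0 15485508 0) (P.cons (P.lf 6247980 0 0) P.nil)) (P.cons (P.cons (P.lf 1487484 0 0) P.nil) P.nil)))))) 12097212)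
 EL.nil))))))
noncomputable def S140_198_512_660_3 : EL := (EL.cons 0 (TM.mk (P.cons (P.lf 2663300420 0 0) (P.cons (P.lf 0 1327550055 0) (P.cons (P.lf 0 20882153 0) (P.cons (P.lf 49374168 0 0) (P.cons (P.lf 5384801 0 0) (P.cons (P.lf 0 616050 0) P.nil)))))) 235193)
 (EL.cons 1 (TM.mk (P.cons (P.lf 1788121471 0 0) (P.cons (P.lf 0 94132764 0) (P.cons (P.lf 0 179177853 0) (P.cons (P.lf 0 11443897 0) (P.cons (P.lf 3792305 0 0) (P.cons (P.lf 635690 0 0) P.nil)))))) 110845)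
 (EL.cons 5 (TM.mk (P.cons (P.lf 1200532382 0 0) (P.cons (P.lf 472017796 0 0) (P.cons (P.lf 7424770 0 0) (P.cons (P.lf 0 17555260 0) (P.cons (P.lf 0 1914598 0) (P.cons (P.lf 219040 0 0) P.nil)))))) 72450)
 EL.nil)))
noncomputable def S140_198_512_660_4 : EL := (EL.cons 0 (TM.mk (P.cons (P.cons (P.lf 0 96212276 0) (P.cons (P.lf 0 226220888 0) (P.cons (P.lf 15124600 0 0) (P.lf 5041531 0 0)))) (P.cons (P.cons (P.lf 395215577 0 0) (P.cons (P.lf 0 20653989 0) (P.cons (P.lf 1380875 0 0) (P.lf 460290 0 0)))) (P.cons (P.cons (P.lf 0 314909281 0) (P.cons (P.lf 53063871 0 0) (P.cons (P.lf 0 3547726 0) (P.lf 0 1182575 0)))) (P.cons (P.cons (P.lf 32602122 0 0) (P.cons (P.lf 9843873 0 0) (P.cons (P.lf 0 658137 0) P.nil))) (P.cons (P.cons (P.lf 28572792 0 0) (P.cons (P.lf 0 4080306 0) P.nil)) (P.cons (P.cons (P.lf 0 2070609 0) P.nil) P.nil)))))) 6011284)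
 (EL.cons 1 (TM.mk (P.cons (P.cons (P.lf 0 64596255 0) (P.cons (P.lf 0 151883139 0) (P.cons (P.lf 10154551 0 0) (P.lf 3384849 0 0)))) (P.cons (P.cons (P.lf 236546887 0 0) (P.cons (P.lf 0 81579048 0) (P.cons (P.lf 5454183 0 0) (P.lf 1818058 0 0)))) (P.cons (P.cons (P.lf 0 101520935 0) (P.cons (P.lf 9721291 0 0) (P.cons (P.lf 0 649942 0) (P.lf 0 216646 0)))) (P.cons (P.cons (P.lf 0 40708185 0) (P.cons (P.lf 14116933 0 0) (P.cons (P.lf 0 943824 0) P.nil))) (P.cons (P.cons (P.lf 12040021 0 0) (P.cons (P.lf 2041666 0 0) P.nil)) (P.cons (P.cons (P.lf 4370630 0 0) P.nil) P.nil)))))) 3724115)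
 (EL.cons 5 (TM.mk (P.cons (P.cons (P.lf 0 43369478 0) (P.cons (P.lf 0 101973288 0) (P.cons (P.lf 6817694 0 0) (P.lf 2272564 0 0)))) (P.cons (P.cons (P.lf 139481086 0 0) (P.cons (P.lf 0 100233046 0) (P.cons (P.lf 6701346 0 0) (P.lf 2233780 0 0)))) (P.cons (P.cons (P.lf 0 2989478 0) (P.cons (P.lf 0 31133400 0) (P.cons (P.lf 2081504 0 0) (P.lf 693832 0 0)))) (P.cons (P.cons (P.lf 0 38972002 0) (P.cons (P.lf 861190 0 0) (P.cons (P.lf 0 57576 0) P.nil))) (P.cons (P.cons (P.lf 0 6703570 0) (P.cons (P.lf 2601586 0 0) P.nil)) (P.cons (P.cons (P.lf 2121546 0 0) P.nil) P.nil)))))) 2614516)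
 EL.nil)))
noncomputable def S140_198_512_660_5 : EL := (EL.cons 0 (TM.mk (P.cons (P.cons (P.lf 3475687 0 0) (P.cons (P.lf 16344551 0 0) (P.cons (P.lf 18122456 0 0) (P.cons (P.lf 0 2933620 0) (P.cons (P.lf 0 770563 0) (P.cons (P.lf 57258 0 0) P.nil)))))) (P.cons (P.cons (P.lf 0 26821993 0) (P.cons (P.lf 0 57499892 0) (P.cons (P.lf 16931035 0 0) (P.cons (P.lf 0 468458 0) (P.cons (P.lf 0 524800 0) P.nil))))) (P.cons (P.cons (P.lf 68057161 0 0) (P.cons (P.lf 14999842 0 0) (P.cons (P.lf 0 3183300 0) (P.cons (P.lf 0 42725 0) P.nil)))) (P.cons (P.cons (P.lf 0 62167216 0) (P.cons (P.lf 21106202 0 0) (P.cons (P.lf 0 5246896 0) P.nil))) (P.cons (P.cons (P.lf 14882349 0 0) (P.cons (P.lf 0 3020702 0) P.nil)) (P.cons (P.cons (P.lf 6644019 0 0) P.nil) P.nil)))))) 22575629)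
 (EL.cons 1 (TM.mk (P.cons (P.cons (P.lf 2333551 0 0) (P.cons (P.lf 10973617 0 0) (P.cons (P.lf 12167291 0 0) (P.cons (P.lf 0 1969612 0) (P.cons (P.lf 0 517350 0) (P.cons (P.lf 38443 0 0) P.nil)))))) (P.cons (P.cons (P.lf 0 16967761 0) (P.cons (P.lf 0 33712801 0) (P.cons (P.lf 16791766 0 0) (P.cons (P.lf 0 1192606 0) (P.cons (P.lf 0 582991 0) P.nil))))) (P.cons (P.cons (P.lf 37967818 0 0) (P.cons (P.lf 0 5714975 0) (P.cons (P.lf 4510550 0 0) (P.cons (P.lf 0 424674 0) P.nil)))) (P.cons (P.cons (P.lf 0 23605361 0) (P.cons (P.lf 14122106 0 0) (P.cons (P.lf 0 2472725 0) P.nil))) (P.cons (P.cons (P.lf 0 3428090 0) (P.cons (P.lf 4084445 0 0) P.nil)) (P.cons (P.cons (P.lf 5224466 0 0) P.nil) P.nil)))))) 15625788)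
 (EL.cons 5 (TM.mk (P.cons (P.cons (P.lf 1566730 0 0) (P.cons (P.lf 7367610 0 0) (P.cons (P.lf 8169034 0 0) (P.cons (P.lf 0 1322384 0) (P.cons (P.lf 0 347344 0) (P.cons (P.lf 25810 0 0) P.nil)))))) (P.cons (P.cons (P.lf 0 10693562 0) (P.cons (P.lf 0 19349934 0) (P.cons (P.lf 14915772 0 0) (P.cons (P.lf 0 1390248 0) (P.cons (P.lf 0 546268 0) P.nil))))) (P.cons (P.cons (P.lf 20616018 0 0) (P.cons (P.lf 0 12971114 0) (P.cons (P.lf 9115256 0 0) (P.cons (P.lf 0 813816 0) P.nil)))) (P.cons (P.cons (P.lf 0 5895538 0) (P.cons (P.lf 5150516 0 0) (P.cons (P.lf 1507532 0 0) P.nil))) (P.cons (P.cons (P.lf 0 6527364 0) (P.cons (P.lf 5597554 0 0) P.nil)) (P.cons (P.cons (P.lf 1370104 0 0) P.nil) P.nil)))))) 10031372)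
 EL.nil)))
noncomputable def S140_198_512_660_6 : EL := (EL.cons 12 (TM.mk (P.lf 8589934592 0 0) 0)
 (EL.cons 3 (TM.mk (P.cons (P.lf 0 2391525476 0) (P.cons (P.lf 596040491 0 0) (P.cons (P.lf 83651283 0 0) (P.cons (P.lf 0 1319475 0) (P.cons (P.lf 0 1283523 0) (P.cons (P.lf 0 89452 0) P.nil)))))) 26268)
 (EL.cons 7 (TM.mk (P.cons (P.lf 0 1605653656 0) (P.cons (P.lf 0 315650420 0) (P.cons (P.lf 26061229 0 0) (P.cons (P.lf 6616358 0 0) (P.cons (P.lf 191151 0 0) (P.cons (P.lf 0 76666 0) P.nil)))))) 11720)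
 EL.nil)))
noncomputable def S140_198_512_660_7 : EL := (EL.cons 12 (TM.mk (P.cons (P.cons (P.lf 0 310313158 0) (P.cons (P.lf 0 729629536 0) (P.cons (P.lf 48781328 0 0) (P.lf 16260440 0 0)))) (P.cons (P.cons (P.lf 1120008728 0 0) (P.cons (P.lf 0 430306752 0) (P.cons (P.lf 28769304 0 0) (P.lf 9589760 0 0)))) (P.cons (P.cons (P.lf 0 459828898 0) (P.cons (P.lf 0 49064984 0) (P.cons (P.lf 3280368 0 0) (P.lf 1093448 0 0)))) (P.cons (P.cons (P.lf 0 109520552 0) (P.cons (P.lf 17444944 0 0) (P.cons (P.lf 0 1166328 0) P.nil))) (P.cons (P.cons (P.lf 13822576 0 0) (P.cons (P.lf 4603248 0 0) P.nil)) (P.cons (P.cons (P.lf 5541318 0 0) P.nil) P.nil)))))) 2954756)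
 (EL.cons 3 (TM.mk (P.cons (P.cons (P.lf 1672572872 0 0) (P.cons (P.lf 0 406272620 0) (P.cons (P.lf 27162438 0 0) (P.lf 9054144 0 0)))) (P.cons (P.cons (P.lf 0 1457372189 0) (P.cons (P.lf 0 138348156 0) (P.cons (P.lf 9249632 0 0) (P.lf 3083206 0 0)))) (P.cons (P.cons (P.lf 0 438840608 0) (P.cons (P.lf 46606764 0 0) (P.cons (P.lf 0 3116018 0) (P.lf 0 1038674 0)))) (P.cons (P.cons (P.lf 59919557 0 0) (P.cons (P.lf 24679518 0 0) (P.cons (P.lf 0 1650012 0) P.nil))) (P.cons (P.cons (P.lf 40718497 0 0) (P.cons (P.lf 747608 0 0) P.nil)) (P.cons (P.cons (P.lf 2501652 0 0) P.nil) P.nil)))))) 11283308)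
 (EL.cons 7 (TM.mk (P.cons (P.cons (P.lf 0 782001974 0) (P.cons (P.lf 459114383 0 0) (P.cons (P.lf 0 30695323 0) (P.lf 0 10231774 0)))) (P.cons (P.cons (P.lf 771793441 0 0) (P.cons (P.lf 73266256 0 0) (P.cons (P.lf 0 4898415 0) (P.lf 0 1632807 0)))) (P.cons (P.cons (P.lf 60361341 0 0) (P.cons (P.lf 0 41013628 0) (P.cons (P.lf 2742074 0 0) (P.lf 914022 0 0)))) (P.cons (P.cons (P.lf 0 83080158 0) (P.cons (P.lf 0 4051450 0) (P.cons (P.lf 270871 0 0) P.nil))) (P.cons (P.cons (P.lf 0 6055943 0) (P.cons (P.lf 2828862 0 0) P.nil)) (P.cons (P.cons (P.lf 4035921 0 0) P.nil) P.nil)))))) 6904913)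
 (EL.cons 10 (TM.mk (P.cons (P.cons (P.lf 0 1670316408 0) (P.cons (P.lf 258606924 0 0) (P.cons (P.lf 124588659 0 0) (P.cons (P.lf 0 4714800 0) (P.lf 0 1178700 0))))) (P.cons (P.cons (P.lf 0 656724534 0) (P.cons (P.lf 101677449 0 0) (P.cons (P.lf 48984987 0 0) (P.cons (P.lf 0 1853736 0) (P.lf 0 463434 0))))) (P.cons (P.cons (P.lf 0 10330179 0) (P.cons (P.lf 1599369 0 0) (P.cons (P.lf 770526 0 0) (P.cons (P.lf 0 29157 0) P.nil)))) (P.cons (P.cons (P.lf 24424860 0 0) (P.cons (P.lf 0 3781581 0) (P.cons (P.lf 0 1821846 0) P.nil))) (P.cons (P.cons (P.lf 2663805 0 0) (P.cons (P.lf 0 412422 0) P.nil)) (P.cons (P.cons (P.lf 0 304752 0) P.nil) P.nil)))))) 496941)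
 EL.nil))))
noncomputable def S140_198_512_660_8 : EL := (EL.cons 12 (TM.mk (P.cons (P.cons (P.lf 11210126 0 0) (P.cons (P.lf 52716034 0 0) (P.cons (P.lf 58450302 0 0) (P.cons (P.lf 0 9461800 0) (P.cons (P.lf 0 2485300 0) (P.cons (P.lf 184682 0 0) P.nil)))))) (P.cons (P.cons (P.lf 0 80921092 0) (P.cons (P.lf 0 159177370 0) (P.cons (P.lf 83742786 0 0) (P.cons (P.lf 0 6227256 0) (P.cons (P.lf 0 2931464 0) P.nil))))) (P.cons (P.cons (P.lf 179256482 0 0) (P.cons (P.lf 0 30551352 0) (P.cons (P.lf 31933672 0 0) (P.cons (P.lf 0 3316032 0) P.nil)))) (P.cons (P.cons (P.lf 0 111997758 0) (P.cons (P.lf 50619780 0 0) (P.cons (P.lf 0 1432118 0) P.nil))) (P.cons (P.cons (P.lf 0 4943458 0) (P.cons (P.lf 18094110 0 0) P.nil)) (P.cons (P.cons (P.lf 14929700 0 0) P.nil) P.nil)))))) 27893654)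
 (EL.cons 3 (TM.mk (P.cons (P.cons (P.lf 0 117723065 0) (P.cons (P.lf 0 240106821 0) (P.cons (P.lf 102325030 0 0) (P.cons (P.lf 0 6184899 0) (P.cons (P.lf 0 3459666 0) (P.cons (P.lf 257085 0 0) P.nil)))))) (P.cons (P.cons (P.lf 518149392 0 0) (P.cons (P.lf 0 63917609 0) (P.cons (P.lf 84531486 0 0) (P.cons (P.lf 0 9307277 0) (P.cons (P.lf 0 3218490 0) P.nil))))) (P.cons (P.cons (P.lf 0 471992747 0) (P.cons (P.lf 207532775 0 0) (P.cons (P.lf 0 644490 0) (P.cons (P.lf 0 6394194 0) P.nil)))) (P.cons (P.cons (P.lf 0 48217180 0) (P.cons (P.lf 110543518 0 0) (P.cons (P.lf 0 18555334 0) P.nil))) (P.cons (P.cons (P.lf 106850797 0 0) (P.cons (P.lf 0 6615746 0) P.nil)) (P.cons (P.cons (P.lf 18286181 0 0) P.nil) P.nil)))))) 85231484)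
 (EL.cons 7 (TM.mk (P.cons (P.cons (P.lf 58595390 0 0) (P.cons (P.lf 109529204 0 0) (P.cons (P.lf 0 73732775 0) (P.cons (P.lf 6439067 0 0) (P.cons (P.lf 2663156 0 0) (P.cons (P.lf 0 197895 0) P.nil)))))) (P.cons (P.cons (P.lf 0 274400944 0) (P.cons (P.lf 33849411 0 0) (P.cons (P.lf 0 44766083 0) (P.cons (P.lf 4928937 0 0) (P.cons (P.lf 1704445 0 0) P.nil))))) (P.cons (P.cons (P.lf 311123678 0 0) (P.cons (P.lf 0 117450289 0) (P.cons (P.lf 10320047 0 0) (P.cons (P.lf 2287523 0 0) P.nil)))) (P.cons (P.cons (P.lf 0 55056943 0) (P.cons (P.lf 0 25099148 0) (P.cons (P.lf 8697024 0 0) P.nil))) (P.cons (P.cons (P.lf 0 55408492 0) (P.cons (P.lf 19155432 0 0) P.nil)) (P.cons (P.cons (P.lf 9772346 0 0) P.nil) P.nil)))))) 43483263)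
 (EL.cons 10 (TM.mk (P.cons (P.cons (P.lf 120681048 0 0) (P.cons (P.lf 265069080 0 0) (P.cons (P.lf 0 71904852 0) (P.cons (P.lf 0 24210984 0) (P.cons (P.lf 3280230 0 0) (P.cons (P.lf 618366 0 0) P.nil)))))) (P.cons (P.cons (P.lf 0 388123716 0) (P.cons (P.lf 339002394 0 0) (P.cons (P.lf 0 32879694 0) (P.cons (P.lf 0 25228194 0) (P.cons (P.lf 2866650 0 0) P.nil))))) (P.cons (P.cons (P.lf 8318604 0 0) (P.cons (P.lf 85344684 0 0) (P.cons (P.lf 0 19825440 0) (P.cons (P.lf 0 7472358 0) P.nil)))) (P.cons (P.cons (P.lf 108444510 0 0) (P.cons (P.lf 0 19186308 0) (P.cons (P.lf 0 7557624 0) P.nil))) (P.cons (P.cons (P.lf 18653532 0 0) (P.cons (P.lf 0 10127280 0) P.nil)) (P.cons (P.cons (P.lf 0 5903466 0) P.nil) P.nil)))))) 17995164)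
 EL.nil))))
noncomputable def S140_198_512_660_9 : EL := (EL.cons 3 (TM.mk (P.cons (P.lf 0 2391525476 0) (P.cons (P.lf 596040491 0 0) (P.cons (P.lf 83651283 0 0) (P.cons (P.lf 0 1319475 0) (P.cons (P.lf 0 1283523 0) (P.cons (P.lf 0 89452 0) P.nil)))))) 26268)
 (EL.cons 7 (TM.mk (P.cons (P.lf 0 1605653656 0) (P.cons (P.lf 0 315650420 0) (P.cons (P.lf 26061229 0 0) (P.cons (P.lf 6616358 0 0) (P.cons (P.lf 191151 0 0) (P.cons (P.lf 0 76666 0) P.nil)))))) 11720)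
 EL.nil))
noncomputable def S140_198_512_660_10 : EL := (EL.cons 3 (TM.mk (P.cons (P.cons (P.lf 86394350 0 0) (P.cons (P.lf 203136310 0 0) (P.cons (P.lf 0 13581219 0) (P.lf 0 4527072 0)))) (P.cons (P.cons (P.lf 0 333353948 0) (P.cons (P.lf 69174078 0 0) (P.cons (P.lf 0 4624816 0) (P.lf 0 1541603 0)))) (P.cons (P.cons (P.lf 202714579 0 0) (P.cons (P.lf 0 23303382 0) (P.cons (P.lf 1558009 0 0) (P.lf 519337 0 0)))) (P.cons (P.cons (P.lf 9539555 0 0) (P.cons (P.lf 0 12339759 0) (P.cons (P.lf 825006 0 0) P.nil))) (P.cons (P.cons (P.lf 0 16051406 0) (P.cons (P.lf 0 373804 0) P.nil)) (P.cons (P.cons (P.lf 0 1743666 0) P.nil) P.nil)))))) 2729890)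
 (EL.cons 7 (TM.mk (P.cons (P.cons (P.lf 58004569 0 0) (P.cons (P.lf 136384313 0 0) (P.cons (P.lf 0 9118336 0) (P.lf 0 3039445 0)))) (P.cons (P.cons (P.lf 0 197952104 0) (P.cons (P.lf 107245459 0 0) (P.cons (P.lf 0 7170180 0) (P.lf 0 2390058 0)))) (P.cons (P.cons (P.lf 43854534 0 0) (P.cons (P.lf 22770002 0 0) (P.cons (P.lf 0 1522348 0) (P.lf 0 507447 0)))) (P.cons (P.cons (P.lf 40528005 0 0) (P.cons (P.lf 0 3325399 0) (P.cons (P.lf 222328 0 0) P.nil))) (P.cons (P.cons (P.lf 901438 0 0) (P.cons (P.lf 0 1998030 0) P.nil)) (P.cons (P.cons (P.lf 0 2202495 0) P.nil) P.nil)))))) 1558465)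
 EL.nil))
noncomputable def S140_198_512_660_11 : EL := (EL.cons 3 (TM.mk (P.cons (P.cons (P.lf 0 3121013 0) (P.cons (P.lf 0 14676681 0) (P.cons (P.lf 0 16273160 0) (P.cons (P.lf 2634261 0 0) (P.cons (P.lf 691932 0 0) (P.cons (P.lf 0 51417 0) P.nil)))))) (P.cons (P.cons (P.lf 23307108 0 0) (P.cons (P.lf 47974477 0 0) (P.cons (P.lf 0 19259082 0) (P.cons (P.lf 1077193 0 0) (P.cons (P.lf 643698 0 0) P.nil))))) (P.cons (P.cons (P.lf 0 55412639 0) (P.cons (P.lf 0 2025865 0) (P.cons (P.lf 0 2510688 0) (P.cons (P.lf 398976 0 0) P.nil)))) (P.cons (P.cons (P.lf 42829856 0 0) (P.cons (P.lf 0 17771180 0) (P.cons (P.lf 3421070 0 0) P.nil))) (P.cons (P.cons (P.lf 0 4638611 0) (P.cons (P.lf 0 1806110 0) P.nil)) (P.cons (P.cons (P.lf 0 5605825 0) P.nil) P.nil)))))) 14338618)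
 (EL.cons 7 (TM.mk (P.cons (P.cons (P.lf 0 2095426 0) (P.cons (P.lf 0 9853822 0) (P.cons (P.lf 0 10925687 0) (P.cons (P.lf 1768625 0 0) (P.cons (P.lf 464558 0 0) (P.cons (P.lf 0 34521 0) P.nil)))))) (P.cons (P.cons (P.lf 14714054 0 0) (P.cons (P.lf 27816729 0 0) (P.cons (P.lf 0 17801273 0) (P.cons (P.lf 1511703 0 0) (P.cons (P.lf 639283 0 0) P.nil))))) (P.cons (P.cons (P.lf 0 30499522 0) (P.cons (P.lf 11719895 0 0) (P.cons (P.lf 0 8869051 0) (P.cons (P.lf 819965 0 0) P.nil)))) (P.cons (P.cons (P.lf 14110991 0 0) (P.cons (P.lf 0 8781656 0) (P.cons (P.lf 0 606666 0) P.nil))) (P.cons (P.cons (P.lf 5521346 0 0) (P.cons (P.lf 0 5456424 0) P.nil)) (P.cons (P.cons (P.lf 0 2812666 0) P.nil) P.nil)))))) 8578061)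
 EL.nil))
noncomputable def S140_198_512_660_12 : EL := (EL.cons 4 (TM.mk (P.cons (P.lf 2391525476 0 0) (P.cons (P.lf 0 596040491 0) (P.cons (P.lf 0 83651283 0) (P.cons (P.lf 1319475 0 0) (P.cons (P.lf 1283523 0 0) (P.cons (P.lf 89452 0 0) P.nil)))))) 26268)
 (EL.cons 8 (TM.mk (P.cons (P.lf 1605653656 0 0) (P.cons (P.lf 315650420 0 0) (P.cons (P.lf 0 26061229 0) (P.cons (P.lf 0 6616358 0) (P.cons (P.lf 0 191151 0) (P.cons (P.lf 76666 0 0) P.nil)))))) 11720)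
 EL.nil))
noncomputable def S140_198_512_660_13 : EL := (EL.cons 4 (TM.mk (P.cons (P.cons (P.lf 0 86394350 0) (P.cons (P.lf 0 203136310 0) (P.cons (P.lf 13581219 0 0) (P.lf 4527072 0 0)))) (P.cons (P.cons (P.lf 333353948 0 0) (P.cons (P.lf 0 69174078 0) (P.cons (P.lf 4624816 0 0) (P.lf 1541603 0 0)))) (P.cons (P.cons (P.lf 0 202714579 0) (P.cons (P.lf 23303382 0 0) (P.cons (P.lf 0 1558009 0) (P.lf 0 519337 0)))) (P.cons (P.cons (P.lf 0 9539555 0) (P.cons (P.lf 12339759 0 0) (P.cons (P.lf 0 825006 0) P.nil))) (P.cons (P.cons (P.lf 16051406 0 0) (P.cons (P.lf 373804 0 0) P.nil)) (P.cons (P.cons (P.lf 1743666 0 0) P.nil) P.nil)))))) 2729890)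
 (EL.cons 8 (TM.mk (P.cons (P.cons (P.lf 0 58004569 0) (P.cons (P.lf 0 136384313 0) (P.cons (P.lf 9118336 0 0) (P.lf 3039445 0 0)))) (P.cons (P.cons (P.lf 197952104 0 0) (P.cons (P.lf 0 107245459 0) (P.cons (P.lf 7170180 0 0) (P.lf 2390058 0 0)))) (P.cons (P.cons (P.lf 0 43854534 0) (P.cons (P.lf 0 22770002 0) (P.cons (P.lf 1522348 0 0) (P.lf 507447 0 0)))) (P.cons (P.cons (P.lf 0 40528005 0) (P.cons (P.lf 3325399 0 0) (P.cons (P.lf 0 222328 0) P.nil))) (P.cons (P.cons (P.lf 0 901438 0) (P.cons (P.lf 1998030 0 0) P.nil)) (P.cons (P.cons (P.lf 2202495 0 0) P.nil) P.nil)))))) 1558465)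
 EL.nil))
noncomputable def S140_198_512_660_14 : EL := (EL.cons 4 (TM.mk (P.cons (P.cons (P.lf 3121013 0 0) (P.cons (P.lf 14676681 0 0) (P.cons (P.lf 16273160 0 0) (P.cons (P.lf 0 2634261 0) (P.cons (P.lf 0 691932 0) (P.cons (P.lf 51417 0 0) P.nil)))))) (P.cons (P.cons (P.lf 0 23307108 0) (P.cons (P.lf 0 47974477 0) (P.cons (P.lf 19259082 0 0) (P.cons (P.lf 0 1077193 0) (P.cons (P.lf 0 643698 0) P.nil))))) (P.cons (P.cons (P.lf 55412639 0 0) (P.cons (P.lf 2025865 0 0) (P.cons (P.lf 2510688 0 0) (P.cons (P.lf 0 398976 0) P.nil)))) (P.cons (P.cons (P.lf 0 42829856 0) (P.cons (P.lf 17771180 0 0) (P.cons (P.lf 0 3421070 0) P.nil))) (P.cons (P.cons (P.lf 4638611 0 0) (P.cons (P.lf 1806110 0 0) P.nil)) (P.cons (P.cons (P.lf 5605825 0 0) P.nil) P.nil)))))) 14338618)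
 (EL.cons 8 (TM.mk (P.cons (P.cons (P.lf 2095426 0 0) (P.cons (P.lf 9853822 0 0) (P.cons (P.lf 10925687 0 0) (P.cons (P.lf 0 1768625 0) (P.cons (P.lf 0 464558 0) (P.cons (P.lf 34521 0 0) P.nil)))))) (P.cons (P.cons (P.lf 0 14714054 0) (P.cons (P.lf 0 27816729 0) (P.cons (P.lf 17801273 0 0) (P.cons (P.lf 0 1511703 0) (P.cons (P.lf 0 639283 0) P.nil))))) (P.cons (P.cons (P.lf 30499522 0 0) (P.cons (P.lf 0 11719895 0) (P.cons (P.lf 8869051 0 0) (P.cons (P.lf 0 819965 0) P.nil)))) (P.cons (P.cons (P.lf 0 14110991 0) (P.cons (P.lf 8781656 0 0) (P.cons (P.lf 606666 0 0) P.nil))) (P.cons (P.cons (P.lf 0 5521346 0) (P.cons (P.lf 5456424 0 0) P.nil)) (P.cons (P.cons (P.lf 2812666 0 0) P.nil) P.nil)))))) 8578061)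
 EL.nil))
noncomputable def S140_198_512_660_15 : EL := (EL.cons 4 (TM.mk (P.cons (P.lf 0 1420426890 0) (P.cons (P.lf 708026696 0 0) (P.cons (P.lf 11137148 0 0) (P.cons (P.lf 0 26332890 0) (P.cons (P.lf 0 2871894 0) (P.cons (P.lf 328560 0 0) P.nil)))))) 125439)
 (EL.cons 8 (TM.mk (P.cons (P.lf 0 953664785 0) (P.cons (P.lf 50204141 0 0) (P.cons (P.lf 95561522 0 0) (P.cons (P.lf 6103412 0 0) (P.cons (P.lf 0 2022563 0) (P.cons (P.lf 0 339035 0) P.nil)))))) 59114)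
 EL.nil))
noncomputable def S140_198_512_660_16 : EL := (EL.cons 4 (TM.mk (P.cons (P.cons (P.lf 51313214 0 0) (P.cons (P.lf 120651140 0 0) (P.cons (P.lf 0 8066453 0) (P.lf 0 2688816 0)))) (P.cons (P.cons (P.lf 0 210781641 0) (P.cons (P.lf 11015460 0 0) (P.cons (P.lf 0 736467 0) (P.lf 0 245488 0)))) (P.cons (P.cons (P.lf 167951616 0 0) (P.cons (P.lf 0 28300731 0) (P.cons (P.lf 1892120 0 0) (P.lf 630706 0 0)))) (P.cons (P.cons (P.lf 0 17387798 0) (P.cons (P.lf 0 5250065 0) (P.cons (P.lf 351006 0 0) P.nil))) (P.cons (P.cons (P.lf 0 15238822 0) (P.cons (P.lf 2176163 0 0) P.nil)) (P.cons (P.cons (P.lf 1104325 0 0) P.nil) P.nil)))))) 3206027)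
 (EL.cons 8 (TM.mk (P.cons (P.cons (P.lf 34451336 0 0) (P.cons (P.lf 81004341 0 0) (P.cons (P.lf 0 5415761 0) (P.lf 0 1805253 0)))) (P.cons (P.cons (P.lf 0 126158340 0) (P.cons (P.lf 43508826 0 0) (P.cons (P.lf 0 2908898 0) (P.lf 0 969631 0)))) (P.cons (P.cons (P.lf 54144499 0 0) (P.cons (P.lf 0 5184689 0) (P.cons (P.lf 346636 0 0) (P.lf 115545 0 0)))) (P.cons (P.cons (P.lf 21711032 0 0) (P.cons (P.lf 0 7529031 0) (P.cons (P.lf 503373 0 0) P.nil))) (P.cons (P.cons (P.lf 0 6421345 0) (P.cons (P.lf 0 1088889 0) P.nil)) (P.cons (P.cons (P.lf 0 2331003 0) P.nil) P.nil)))))) 1986185)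
 EL.nil))
noncomputable def S140_198_512_660_17 : EL := (EL.cons 4 (TM.mk (P.cons (P.cons (P.lf 0 1853700 0) (P.cons (P.lf 0 8717094 0) (P.cons (P.lf 0 9665310 0) (P.cons (P.lf 1564597 0 0) (P.cons (P.lf 410967 0 0) (P.cons (P.lf 0 30538 0) P.nil)))))) (P.cons (P.cons (P.lf 14305063 0 0) (P.cons (P.lf 30666609 0 0) (P.cons (P.lf 0 9029885 0) (P.cons (P.lf 249844 0 0) (P.cons (P.lf 279893 0 0) P.nil))))) (P.cons (P.cons (P.lf 0 36297152 0) (P.cons (P.lf 0 7999916 0) (P.cons (P.lf 1697760 0 0) (P.cons (P.lf 22786 0 0) P.nil)))) (P.cons (P.cons (P.lf 33155849 0 0) (P.cons (P.lf 0 11256641 0) (P.cons (P.lf 2798344 0 0) P.nil))) (P.cons (P.cons (P.lf 0 7937252 0) (P.cons (P.lf 1611041 0 0) P.nil)) (P.cons (P.cons (P.lf 0 3543477 0) P.nil) P.nil)))))) 12040345)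
 (EL.cons 8 (TM.mk (P.cons (P.cons (P.lf 0 1244561 0) (P.cons (P.lf 0 5852596 0) (P.cons (P.lf 0 6489222 0) (P.cons (P.lf 1050460 0 0) (P.cons (P.lf 275920 0 0) (P.cons (P.lf 0 20503 0) P.nil)))))) (P.cons (P.cons (P.lf 9049473 0 0) (P.cons (P.lf 17980161 0 0) (P.cons (P.lf 0 8955609 0) (P.cons (P.lf 636057 0 0) (P.cons (P.lf 310929 0 0) P.nil))))) (P.cons (P.cons (P.lf 0 20249503 0) (P.cons (P.lf 3047987 0 0) (P.cons (P.lf 0 2405627 0) (P.cons (P.lf 226493 0 0) P.nil)))) (P.cons (P.cons (P.lf 12589526 0 0) (P.cons (P.lf 0 7531790 0) (P.cons (P.lf 1318787 0 0) P.nil))) (P.cons (P.cons (P.lf 1828315 0 0) (P.cons (P.lf 0 2178371 0) P.nil)) (P.cons (P.cons (P.lf 0 2786382 0) P.nil) P.nil)))))) 8333742)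
 EL.nil))
noncomputable def S140_198_512_660_18 : EL := (EL.cons 4 (TM.mk (P.cons (P.lf 843650871 0 0) (P.cons (P.lf 0 630789950 0) (P.cons (P.lf 68683740 0 0) (P.cons (P.lf 32463552 0 0) (P.cons (P.lf 0 1740131 0) (P.cons (P.lf 0 1365121 0) P.nil)))))) 264319)
 (EL.cons 8 (TM.mk (P.cons (P.lf 566421357 0 0) (P.cons (P.lf 0 170987672 0) (P.cons (P.lf 0 69138754 0) (P.cons (P.lf 11876237 0 0) (P.cons (P.lf 4377599 0 0) (P.cons (P.lf 2637 0 0) P.nil)))))) 178385)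
 EL.nil))
noncomputable def S140_198_512_660_19 : EL := (EL.cons 4 (TM.mk (P.cons (P.cons (P.lf 0 30477060 0) (P.cons (P.lf 0 71659753 0) (P.cons (P.lf 4791003 0 0) (P.lf 1597000 0 0)))) (P.cons (P.cons (P.lf 132787828 0 0) (P.cons (P.lf 11317234 0 0) (P.cons (P.lf 0 756644 0) (P.lf 0 252214 0)))) (P.cons (P.cons (P.lf 0 129889087 0) (P.cons (P.lf 20946116 0 0) (P.cons (P.lf 0 1400408 0) (P.lf 0 466802 0)))) (P.cons (P.cons (P.lf 30793116 0 0) (P.cons (P.lf 0 881764 0) (P.cons (P.lf 58952 0 0) P.nil))) (P.cons (P.cons (P.lf 10019001 0 0) (P.cons (P.lf 0 2699689 0) P.nil)) (P.cons (P.cons (P.lf 0 3261900 0) P.nil) P.nil)))))) 3720129)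
 (EL.cons 8 (TM.mk (P.cons (P.cons (P.lf 0 20462088 0) (P.cons (P.lf 0 48111862 0) (P.cons (P.lf 3216646 0 0) (P.lf 1072215 0 0)))) (P.cons (P.cons (P.lf 80030479 0 0) (P.cons (P.lf 0 13850777 0) (P.cons (P.lf 926030 0 0) (P.lf 308676 0 0)))) (P.cons (P.cons (P.lf 0 50117951 0) (P.cons (P.lf 11202806 0 0) (P.cons (P.lf 0 748993 0) (P.lf 0 249664 0)))) (P.cons (P.cons (P.lf 0 7512405 0) (P.cons (P.lf 4581678 0 0) (P.cons (P.lf 0 306320 0) P.nil))) (P.cons (P.cons (P.lf 8182963 0 0) (P.cons (P.lf 0 615563 0) P.nil)) (P.cons (P.cons (P.lf 906694 0 0) P.nil) P.nil)))))) 2214773)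
 EL.nil))
noncomputable def S140_198_512_660_20 : EL := (EL.cons 4 (TM.mk (P.cons (P.cons (P.lf 1100989 0 0) (P.cons (P.lf 5177445 0 0) (P.cons (P.lf 5740631 0 0) (P.cons (P.lf 0 929280 0) (P.cons (P.lf 0 244090 0) (P.cons (P.lf 18137 0 0) P.nil)))))) (P.cons (P.cons (P.lf 0 8770774 0) (P.cons (P.lf 0 19504557 0) (P.cons (P.lf 3932487 0 0) (P.cons (P.lf 83210 0 0) (P.cons (P.lf 0 105405 0) P.nil))))) (P.cons (P.cons (P.lf 23637437 0 0) (P.cons (P.lf 9109911 0 0) (P.cons (P.lf 0 2545845 0) (P.cons (P.lf 55953 0 0) P.nil)))) (P.cons (P.cons (P.lf 0 24767852 0) (P.cons (P.lf 6141531 0 0) (P.cons (P.lf 0 1595165 0) P.nil))) (P.cons (P.cons (P.lf 8864097 0 0) (P.cons (P.lf 0 2796634 0) P.nil)) (P.cons (P.cons (P.lf 1625870 0 0) P.nil) P.nil)))))) 10962819)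
 (EL.cons 8 (TM.mk (P.cons (P.cons (P.lf 739196 0 0) (P.cons (P.lf 3476101 0 0) (P.cons (P.lf 3854220 0 0) (P.cons (P.lf 0 623912 0) (P.cons (P.lf 0 163880 0) (P.cons (P.lf 12177 0 0) P.nil)))))) (P.cons (P.cons (P.lf 0 5559090 0) (P.cons (P.lf 0 11545518 0) (P.cons (P.lf 4358522 0 0) (P.cons (P.lf 0 222283 0) (P.cons (P.lf 0 143829 0) P.nil))))) (P.cons (P.cons (P.lf 13340748 0 0) (P.cons (P.lf 729657 0 0) (P.cons (P.lf 0 31694 0) (P.cons (P.lf 0 18546 0) P.nil)))) (P.cons (P.cons (P.lf 0 10286533 0) (P.cons (P.lf 5300089 0 0) (P.cons (P.lf 0 1323310 0) P.nil))) (P.cons (P.cons (P.lf 354440 0 0) (P.cons (P.lf 238204 0 0) P.nil)) (P.cons (P.cons (P.lf 2190917 0 0) P.nil) P.nil)))))) 6831999)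
 EL.nil))
noncomputable def S140_198_512_660_21 : EL := (EL.cons 4 (TM.mk (P.cons (P.cons (P.lf 0 1586178522 0) (P.cons (P.lf 609408930 0 0) (P.cons (P.lf 0 40743657 0) (P.lf 0 13581216 0)))) (P.cons (P.cons (P.lf 1124018241 0 0) (P.cons (P.lf 207522234 0 0) (P.cons (P.lf 0 13874448 0) (P.lf 0 4624809 0)))) (P.cons (P.cons (P.lf 641555187 0 0) (P.cons (P.lf 0 69910146 0) (P.cons (P.lf 4674027 0 0) (P.lf 1558011 0 0)))) (P.cons (P.cons (P.lf 0 50380002 0) (P.cons (P.lf 0 37019277 0) (P.cons (P.lf 2475018 0 0) P.nil))) (P.cons (P.cons (P.lf 0 56769903 0) (P.cons (P.lf 0 1121412 0) P.nil)) (P.cons (P.cons (P.lf 0 4245318 0) P.nil) P.nil)))))) 8553399)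
 (EL.cons 8 (TM.mk (P.cons (P.cons (P.lf 840006543 0 0) (P.cons (P.lf 0 322730070 0) (P.cons (P.lf 21576987 0 0) (P.lf 7192329 0 0)))) (P.cons (P.cons (P.lf 0 969745545 0) (P.cons (P.lf 33979203 0 0) (P.cons (P.lf 0 2271765 0) (P.lf 0 757251 0)))) (P.cons (P.cons (P.lf 0 16506807 0) (P.cons (P.lf 63783630 0 0) (P.cons (P.lf 0 4264422 0) (P.lf 0 1421469 0)))) (P.cons (P.cons (P.lf 123608163 0 0) (P.cons (P.lf 726051 0 0) (P.cons (P.lf 0 48543 0) P.nil))) (P.cons (P.cons (P.lf 6957381 0 0) (P.cons (P.lf 0 4826892 0) P.nil)) (P.cons (P.cons (P.lf 0 6238416 0) P.nil) P.nil)))))) 5346429)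
 (EL.cons 11 (TM.mk (P.cons (P.cons (P.lf 1670316408 0 0) (P.cons (P.lf 0 258606924 0) (P.cons (P.lf 0 124588659 0) (P.cons (P.lf 4714800 0 0) (P.lf 1178700 0 0))))) (P.cons (P.cons (P.lf 656724534 0 0) (P.cons (P.lf 0 101677449 0) (P.cons (P.lf 0 48984987 0) (P.cons (P.lf 1853736 0 0) (P.lf 463434 0 0))))) (P.cons (P.cons (P.lf 10330179 0 0) (P.cons (P.lf 0 1599369 0) (P.cons (P.lf 0 770526 0) (P.cons (P.lf 29157 0 0) P.nil)))) (P.cons (P.cons (P.lf 0 24424860 0) (P.cons (P.lf 3781581 0 0) (P.cons (P.lf 1821846 0 0) P.nil))) (P.cons (P.cons (P.lf 0 2663805 0) (P.cons (P.lf 412422 0 0) P.nil)) (P.cons (P.cons (P.lf 304752 0 0) P.nil) P.nil)))))) 496941)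
 EL.nil)))
noncomputable def S140_198_512_660_22 : EL := (EL.cons 4 (TM.mk (P.cons (P.cons (P.lf 57301026 0 0) (P.cons (P.lf 112715070 0 0) (P.cons (P.lf 0 59299095 0) (P.cons (P.lf 4409580 0 0) (P.cons (P.lf 2075799 0 0) (P.cons (P.lf 0 154251 0) P.nil)))))) (P.cons (P.cons (P.lf 0 247421142 0) (P.cons (P.lf 55946043 0 0) (P.cons (P.lf 0 51895284 0) (P.cons (P.lf 5192235 0 0) (P.cons (P.lf 1931094 0 0) P.nil))))) (P.cons (P.cons (P.lf 208290054 0 0) (P.cons (P.lf 0 104779320 0) (P.cons (P.lf 0 933099 0) (P.cons (P.lf 3396585 0 0) P.nil)))) (P.cons (P.cons (P.lf 45523518 0 0) (P.cons (P.lf 0 64157349 0) (P.cons (P.lf 10988202 0 0) P.nil))) (P.cons (P.cons (P.lf 0 55744704 0) (P.cons (P.lf 2404818 0 0) P.nil)) (P.cons (P.cons (P.lf 0 11946003 0) P.nil) P.nil)))))) 35446422)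
 (EL.cons 8 (TM.mk (P.cons (P.cons (P.lf 0 30345408 0) (P.cons (P.lf 0 59691513 0) (P.cons (P.lf 31403544 0 0) (P.cons (P.lf 0 2335221 0) (P.cons (P.lf 0 1099299 0) (P.cons (P.lf 81687 0 0) P.nil)))))) (P.cons (P.cons (P.lf 144557499 0 0) (P.cons (P.lf 0 3016341 0) (P.cons (P.lf 13482405 0 0) (P.cons (P.lf 0 1708617 0) (P.cons (P.lf 0 532581 0) P.nil))))) (P.cons (P.cons (P.lf 0 170811600 0) (P.cons (P.lf 64585092 0 0) (P.cons (P.lf 0 9594549 0) (P.cons (P.lf 0 733779 0) P.nil)))) (P.cons (P.cons (P.lf 34583967 0 0) (P.cons (P.lf 8158746 0 0) (P.cons (P.lf 0 4651845 0) P.nil))) (P.cons (P.cons (P.lf 30464919 0 0) (P.cons (P.lf 0 12305928 0) P.nil)) (P.cons (P.cons (P.lf 0 6292506 0) P.nil) P.nil)))))) 17452590)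
 (EL.cons 11 (TM.mk (P.cons (P.cons (P.lf 0 60340524 0) (P.cons (P.lf 0 132534540 0) (P.cons (P.lf 35952426 0 0) (P.cons (P.lf 12105492 0 0) (P.cons (P.lf 0 1640115 0) (P.cons (P.lf 0 309183 0) P.nil)))))) (P.cons (P.cons (P.lf 194061858 0 0) (P.cons (P.lf 0 169501197 0) (P.cons (P.lf 16439847 0 0) (P.cons (P.lf 12614097 0 0) (P.cons (P.lf 0 1433325 0) P.nil))))) (P.cons (P.cons (P.lf 0 4159302 0) (P.cons (P.lf 0 42672342 0) (P.cons (P.lf 9912720 0 0) (P.cons (P.lf 3736179 0 0) P.nil)))) (P.cons (P.cons (P.lf 0 54222255 0) (P.cons (P.lf 9593154 0 0) (P.cons (P.lf 3778812 0 0) P.nil))) (P.cons (P.cons (P.lf 0 9326766 0) (P.cons (P.lf 5063640 0 0) P.nil)) (P.cons (P.cons (P.lf 2951733 0 0) P.nil) P.nil)))))) 8997582)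
 EL.nil)))
noncomputable def S140_198_512_660_23 : EL := (EL.cons 4 (TM.mk (P.cons (P.cons (P.lf 942097689 0 0) (P.cons (P.lf 0 361953420 0) (P.cons (P.lf 24199359 0 0) (P.lf 8066451 0 0)))) (P.cons (P.cons (P.lf 0 902400633 0) (P.cons (P.lf 0 33046380 0) (P.cons (P.lf 2209401 0 0) (P.lf 736461 0 0)))) (P.cons (P.cons (P.lf 0 247612857 0) (P.cons (P.lf 84902193 0 0) (P.cons (P.lf 0 5676360 0) (P.lf 0 1892118 0)))) (P.cons (P.cons (P.lf 148762368 0 0) (P.cons (P.lf 15750195 0 0) (P.cons (P.lf 0 1053018 0) P.nil))) (P.cons (P.cons (P.lf 39725961 0 0) (P.cons (P.lf 0 6528492 0) P.nil)) (P.cons (P.cons (P.lf 0 7462017 0) P.nil) P.nil)))))) 10803345)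
 (EL.cons 8 (TM.mk (P.cons (P.cons (P.lf 0 498914976 0) (P.cons (P.lf 191682870 0 0) (P.cons (P.lf 0 12815472 0) (P.lf 0 4271823 0)))) (P.cons (P.cons (P.lf 700317096 0 0) (P.cons (P.lf 0 67954836 0) (P.cons (P.lf 4543299 0 0) (P.lf 1514430 0 0)))) (P.cons (P.cons (P.lf 0 116294505 0) (P.cons (P.lf 0 39558603 0) (P.cons (P.lf 2644794 0 0) (P.lf 881595 0 0)))) (P.cons (P.cons (P.lf 0 96281274 0) (P.cons (P.lf 9822222 0 0) (P.cons (P.lf 0 656688 0) P.nil))) (P.cons (P.cons (P.lf 13872306 0 0) (P.cons (P.lf 4391214 0 0) P.nil)) (P.cons (P.cons (P.lf 7598976 0 0) P.nil) P.nil)))))) 6679203)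
 (EL.cons 11 (TM.mk (P.cons (P.cons (P.lf 0 992070693 0) (P.cons (P.lf 153597453 0 0) (P.cons (P.lf 73998408 0 0) (P.cons (P.lf 0 2800314 0) (P.lf 0 700077 0))))) (P.cons (P.cons (P.lf 0 142802109 0) (P.cons (P.lf 22109352 0 0) (P.cons (P.lf 10651587 0 0) (P.cons (P.lf 0 403086 0) (P.lf 0 100770 0))))) (P.cons (P.cons (P.lf 125779119 0 0) (P.cons (P.lf 0 19473765 0) (P.cons (P.lf 0 9381846 0) (P.cons (P.lf 355035 0 0) P.nil)))) (P.cons (P.cons (P.lf 29132214 0 0) (P.cons (P.lf 0 4510395 0) (P.cons (P.lf 0 2172966 0) P.nil))) (P.cons (P.cons (P.lf 0 2566461 0) (P.cons (P.lf 397353 0 0) P.nil)) (P.cons (P.cons (P.lf 0 1332582 0) P.nil) P.nil)))))) 1286304)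
 EL.nil)))
noncomputable def S140_198_512_660_24 : EL := (EL.cons 4 (TM.mk (P.cons (P.cons (P.lf 0 34033473 0) (P.cons (P.lf 0 66946188 0) (P.cons (P.lf 35220210 0 0) (P.cons (P.lf 0 2619033 0) (P.cons (P.lf 0 1232904 0) (P.cons (P.lf 91617 0 0) P.nil)))))) (P.cons (P.cons (P.lf 155435922 0 0) (P.cons (P.lf 0 16543677 0) (P.cons (P.lf 22044834 0 0) (P.cons (P.lf 0 2431143 0) (P.cons (P.lf 0 839679 0) P.nil))))) (P.cons (P.cons (P.lf 0 159147054 0) (P.cons (P.lf 72856068 0 0) (P.cons (P.lf 0 8359701 0) (P.cons (P.lf 0 1157166 0) P.nil)))) (P.cons (P.cons (P.lf 0 1364463 0) (P.cons (P.lf 23720772 0 0) (P.cons (P.lf 0 7723170 0) P.nil))) (P.cons (P.cons (P.lf 44237919 0 0) (P.cons (P.lf 0 13156479 0) P.nil)) (P.cons (P.cons (P.lf 0 201465 0) P.nil) P.nil)))))) 28544244)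
 (EL.cons 8 (TM.mk (P.cons (P.cons (P.lf 18023406 0 0) (P.cons (P.lf 35453283 0 0) (P.cons (P.lf 0 18651876 0) (P.cons (P.lf 1386984 0 0) (P.cons (P.lf 652920 0 0) (P.cons (P.lf 0 48516 0) P.nil)))))) (P.cons (P.cons (P.lf 0 90350715 0) (P.cons (P.lf 0 7044498 0) (P.cons (P.lf 0 3359151 0) (P.cons (P.lf 669138 0 0) (P.cons (P.lf 153594 0 0) P.nil))))) (P.cons (P.cons (P.lf 122220312 0 0) (P.cons (P.lf 0 40046379 0) (P.cons (P.lf 8346789 0 0) (P.cons (P.lf 134385 0 0) P.nil)))) (P.cons (P.cons (P.lf 0 42812679 0) (P.cons (P.lf 4671492 0 0) (P.cons (P.lf 1612467 0 0) P.nil))) (P.cons (P.cons (P.lf 0 16561296 0) (P.cons (P.lf 9878502 0 0) P.nil)) (P.cons (P.cons (P.lf 8976102 0 0) P.nil) P.nil)))))) 12397869)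
 (EL.cons 11 (TM.mk (P.cons (P.cons (P.lf 35838756 0 0) (P.cons (P.lf 78717801 0 0) (P.cons (P.lf 0 21353646 0) (P.cons (P.lf 0 7189956 0) (P.cons (P.lf 974133 0 0) (P.cons (P.lf 183636 0 0) P.nil)))))) (P.cons (P.cons (P.lf 0 124193547 0) (P.cons (P.lf 81054984 0 0) (P.cons (P.lf 0 4442334 0) (P.cons (P.lf 0 5700084 0) (P.cons (P.lf 608529 0 0) P.nil))))) (P.cons (P.cons (P.lf 29943444 0 0) (P.cons (P.lf 0 2499486 0) (P.cons (P.lf 0 2707104 0) (P.cons (P.lf 0 100338 0) P.nil)))) (P.cons (P.cons (P.lf 35640582 0 0) (P.cons (P.lf 0 15492447 0) (P.cons (P.lf 0 447273 0) P.nil))) (P.cons (P.cons (P.lf 0 2617638 0) (P.cons (P.lf 0 2376174 0) P.nil)) (P.cons (P.cons (P.lf 0 4319409 0) P.nil) P.nil)))))) 8061960)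
 EL.nil)))
noncomputable def S140_198_512_660_25 : EL := (EL.cons 4 (TM.mk (P.cons (P.cons (P.lf 0 559551174 0) (P.cons (P.lf 214979259 0 0) (P.cons (P.lf 0 14373009 0) (P.lf 0 4791000 0)))) (P.cons (P.cons (P.lf 675430512 0 0) (P.cons (P.lf 0 33951705 0) (P.cons (P.lf 2269932 0 0) (P.lf 756645 0 0)))) (P.cons (P.cons (P.lf 33058926 0 0) (P.cons (P.lf 0 62838348 0) (P.cons (P.lf 4201221 0 0) (P.lf 1400406 0 0)))) (P.cons (P.cons (P.lf 0 144065997 0) (P.cons (P.lf 2645295 0 0) (P.cons (P.lf 0 176859 0) P.nil))) (P.cons (P.cons (P.lf 0 6722631 0) (P.cons (P.lf 8099070 0 0) P.nil)) (P.cons (P.cons (P.lf 13750977 0 0) P.nil) P.nil)))))) 9468777)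
 (EL.cons 8 (TM.mk (P.cons (P.cons (P.lf 296326449 0 0) (P.cons (P.lf 0 113848464 0) (P.cons (P.lf 7611645 0 0) (P.lf 2537214 0 0)))) (P.cons (P.cons (P.lf 0 489801093 0) (P.cons (P.lf 68735697 0 0) (P.cons (P.lf 0 4595505 0) (P.lf 0 1531833 0)))) (P.cons (P.cons (P.lf 162373914 0 0) (P.cons (P.lf 17418486 0 0) (P.cons (P.lf 0 1164558 0) (P.lf 0 388185 0)))) (P.cons (P.cons (P.lf 54683193 0 0) (P.cons (P.lf 0 13164195 0) (P.cons (P.lf 880125 0 0) P.nil))) (P.cons (P.cons (P.lf 0 24978165 0) (P.cons (P.lf 0 2014824 0) P.nil)) (P.cons (P.cons (P.lf 0 4634145 0) P.nil) P.nil)))))) 7021758)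
 (EL.cons 11 (TM.mk (P.cons (P.cons (P.lf 589232229 0 0) (P.cons (P.lf 0 91227945 0) (P.cons (P.lf 0 43950744 0) (P.cons (P.lf 1663224 0 0) (P.lf 415806 0 0))))) (P.cons (P.cons (P.lf 0 62038356 0) (P.cons (P.lf 9605094 0 0) (P.cons (P.lf 4627431 0 0) (P.cons (P.lf 0 175113 0) (P.lf 0 43776 0))))) (P.cons (P.cons (P.lf 0 116454510 0) (P.cons (P.lf 18030081 0 0) (P.cons (P.lf 8686323 0 0) (P.cons (P.lf 0 328716 0) P.nil)))) (P.cons (P.cons (P.lf 0 1325595 0) (P.cons (P.lf 205233 0 0) (P.cons (P.lf 98874 0 0) P.nil))) (P.cons (P.cons (P.lf 8812815 0 0) (P.cons (P.lf 0 1364445 0) P.nil)) (P.cons (P.cons (P.lf 1043133 0 0) P.nil) P.nil)))))) 1873311)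
 EL.nil)))
noncomputable def S140_198_512_660_26 : EL := (EL.cons 4 (TM.mk (P.cons (P.cons (P.lf 20213901 0 0) (P.cons (P.lf 39762138 0 0) (P.cons (P.lf 0 20918754 0) (P.cons (P.lf 1555554 0 0) (P.cons (P.lf 732273 0 0) (P.cons (P.lf 0 54414 0) P.nil)))))) (P.cons (P.cons (P.lf 0 97357803 0) (P.cons (P.lf 0 83946 0) (P.cons (P.lf 0 7879761 0) (P.cons (P.lf 1056264 0 0) (P.cons (P.lf 316215 0 0) P.nil))))) (P.cons (P.cons (P.lf 116825946 0 0) (P.cons (P.lf 0 47112003 0) (P.cons (P.lf 8960133 0 0) (P.cons (P.lf 273000 0 0) P.nil)))) (P.cons (P.cons (P.lf 0 19507509 0) (P.cons (P.lf 0 3625758 0) (P.cons (P.lf 3796080 0 0) P.nil))) (P.cons (P.cons (P.lf 0 29823096 0) (P.cons (P.lf 12865875 0 0) P.nil)) (P.cons (P.cons (P.lf 6643134 0 0) P.nil) P.nil)))))) 23625345)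
 (EL.cons 8 (TM.mk (P.cons (P.cons (P.lf 0 10704852 0) (P.cons (P.lf 0 21057186 0) (P.cons (P.lf 11078127 0 0) (P.cons (P.lf 0 823788 0) (P.cons (P.lf 0 387795 0) (P.cons (P.lf 28815 0 0) P.nil)))))) (P.cons (P.cons (P.lf 56331036 0 0) (P.cons (P.lf 9432108 0 0) (P.cons (P.lf 0 765861 0) (P.cons (P.lf 0 192117 0) (P.cons (P.lf 5421 0 0) P.nil))))) (P.cons (P.cons (P.lf 0 85591770 0) (P.cons (P.lf 23478975 0 0) (P.cons (P.lf 0 5842248 0) (P.cons (P.lf 48048 0 0) P.nil)))) (P.cons (P.cons (P.lf 41637354 0 0) (P.cons (P.lf 0 8860557 0) (P.cons (P.lf 214173 0 0) P.nil))) (P.cons (P.cons (P.lf 6061950 0 0) (P.cons (P.lf 0 6016698 0) P.nil)) (P.cons (P.cons (P.lf 0 8683905 0) P.nil) P.nil)))))) 11039682)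
 (EL.cons 11 (TM.mk (P.cons (P.cons (P.lf 0 21286134 0) (P.cons (P.lf 0 46753788 0) (P.cons (P.lf 12682821 0 0) (P.cons (P.lf 4270413 0 0) (P.cons (P.lf 0 578577 0) (P.cons (P.lf 0 109068 0) P.nil)))))) (P.cons (P.cons (P.lf 79068885 0 0) (P.cons (P.lf 0 36489480 0) (P.cons (P.lf 0 522453 0) (P.cons (P.lf 2321199 0 0) (P.cons (P.lf 0 217230 0) P.nil))))) (P.cons (P.cons (P.lf 0 35424267 0) (P.cons (P.lf 15118341 0 0) (P.cons (P.lf 506646 0 0) (P.cons (P.lf 0 933549 0) P.nil)))) (P.cons (P.cons (P.lf 0 19327821 0) (P.cons (P.lf 10489740 0 0) (P.cons (P.lf 0 220362 0) P.nil))) (P.cons (P.cons (P.lf 7481886 0 0) (P.cons (P.lf 0 985590 0) P.nil)) (P.cons (P.cons (P.lf 2947407 0 0) P.nil) P.nil)))))) 7572096)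
 EL.nil)))
noncomputable def S140_198_512_660_27 : EL := (EL.cons 13 (TM.mk (P.lf 0 4294967296 0) 0)
 EL.nil)
noncomputable def S140_198_512_660_28 : EL := (EL.cons 13 (TM.mk (P.cons (P.cons (P.lf 155156579 0 0) (P.cons (P.lf 364814768 0 0) (P.cons (P.lf 0 24390664 0) (P.lf 0 8130220 0)))) (P.cons (P.cons (P.lf 0 560004364 0) (P.cons (P.lf 215153376 0 0) (P.cons (P.lf 0 14384652 0) (P.lf 0 4794880 0)))) (P.cons (P.cons (P.lf 229914449 0 0) (P.cons (P.lf 24532492 0 0) (P.cons (P.lf 0 1640184 0) (P.lf 0 546724 0)))) (P.cons (P.cons (P.lf 54760276 0 0) (P.cons (P.lf 0 8722472 0) (P.cons (P.lf 583164 0 0) P.nil))) (P.cons (P.cons (P.lf 0 6911288 0) (P.cons (P.lf 0 2301624 0) P.nil)) (P.cons (P.cons (P.lf 0 2770659 0) P.nil) P.nil)))))) 1477378)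
 EL.nil)
noncomputable def S140_198_512_660_29 : EL := (EL.cons 13 (TM.mk (P.cons (P.cons (P.lf 0 5605063 0) (P.cons (P.lf 0 26358017 0) (P.cons (P.lf 0 29225151 0) (P.cons (P.lf 4730900 0 0) (P.cons (P.lf 1242650 0 0) (P.cons (P.lf 0 92341 0) P.nil)))))) (P.cons (P.cons (P.lf 40460546 0 0) (P.cons (P.lf 79588685 0 0) (P.cons (P.lf 0 41871393 0) (P.cons (P.lf 3113628 0 0) (P.cons (P.lf 1465732 0 0) P.nil))))) (P.cons (P.cons (P.lf 0 89628241 0) (P.cons (P.lf 15275676 0 0) (P.cons (P.lf 0 15966836 0) (P.cons (P.lf 1658016 0 0) P.nil)))) (P.cons (P.cons (P.lf 55998879 0 0) (P.cons (P.lf 0 25309890 0) (P.cons (P.lf 716059 0 0) P.nil))) (P.cons (P.cons (P.lf 2471729 0 0) (P.cons (P.lf 0 9047055 0) P.nil)) (P.cons (P.cons (P.lf 0 7464850 0) P.nil) P.nil)))))) 13946827)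
 EL.nil)
noncomputable def S140_198_512_660_30 : EL := (EL.cons 13 (TM.mk (P.cons (P.lf 2550960508 0 0) (P.cons (P.lf 0 635776524 0) (P.cons (P.lf 0 89228036 0) (P.cons (P.lf 1407440 0 0) (P.cons (P.lf 1369092 0 0) (P.cons (P.lf 95416 0 0) P.nil)))))) 28012)
 EL.nil)
noncomputable def S140_198_512_660_31 : EL := (EL.cons 13 (TM.mk (P.cons (P.cons (P.lf 0 92153974 0) (P.cons (P.lf 0 216678731 0) (P.cons (P.lf 14486634 0 0) (P.lf 4828877 0 0)))) (P.cons (P.cons (P.lf 355577545 0 0) (P.cons (P.lf 0 73785684 0) (P.cons (P.lf 4933138 0 0) (P.lf 1644377 0 0)))) (P.cons (P.cons (P.lf 0 216228885 0) (P.cons (P.lf 24856941 0 0) (P.cons (P.lf 0 1661877 0) (P.lf 0 553960 0)))) (P.cons (P.cons (P.lf 0 10175526 0) (P.cons (P.lf 13162410 0 0) (P.cons (P.lf 0 880007 0) P.nil))) (P.cons (P.cons (P.lf 17121500 0 0) (P.cons (P.lf 398725 0 0) P.nil)) (P.cons (P.cons (P.lf 1859911 0 0) P.nil)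 P.nil)))))) 2911863)
 EL.nil)
noncomputable def S140_198_512_660_32 : EL := (EL.cons 13 (TM.mk (P.cons (P.cons (P.lf 3329081 0 0) (P.cons (P.lf 15655127 0 0) (P.cons (P.lf 17358038 0 0) (P.cons (P.lf 0 2809879 0) (P.cons (P.lf 0 738061 0) (P.cons (P.lf 54845 0 0) P.nil)))))) (P.cons (P.cons (P.lf 0 24860916 0) (P.cons (P.lf 0 51172776 0) (P.cons (P.lf 20543021 0 0) (P.cons (P.lf 0 1149006 0) (P.cons (P.lf 0 686612 0) P.nil))))) (P.cons (P.cons (P.lf 59106815 0 0) (P.cons (P.lf 2160923 0 0) (P.cons (P.lf 2678068 0 0) (P.cons (P.lf 0 425575 0) P.nil)))) (P.cons (P.cons (P.lf 0 45685180 0) (P.cons (P.lf 18955926 0 0) (P.cons (P.lf 0 3649142 0) P.nil))) (P.cons (P.cons (P.lf 4947852 0 0) (P.cons (P.lf 1926518 0 0) P.nil)) (P.cons (P.cons (P.lf 5979547 0 0) P.nil) P.nil)))))) 15294503)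
 EL.nil)
noncomputable def S140_198_512_660_33 : EL := (EL.cons 14 (TM.mk (P.lf 8589934592 0 0) 0)
 EL.nil)
noncomputable def S140_198_512_660_34 : EL := (EL.cons 14 (TM.mk (P.cons (P.cons (P.lf 0 310313158 0) (P.cons (P.lf 0 729629536 0) (P.cons (P.lf 48781328 0 0) (P.lf 16260440 0 0)))) (P.cons (P.cons (P.lf 1120008728 0 0) (P.cons (P.lf 0 430306752 0) (P.cons (P.lf 28769304 0 0) (P.lf 9589760 0 0)))) (P.cons (P.cons (P.lf 0 459828898 0) (P.cons (P.lf 0 49064984 0) (P.cons (P.lf 3280368 0 0) (P.lf 1093448 0 0)))) (P.cons (P.cons (P.lf 0 109520552 0) (P.cons (P.lf 17444944 0 0) (P.cons (P.lf 0 1166328 0) P.nil))) (P.cons (P.cons (P.lf 13822576 0 0) (P.cons (P.lf 4603248 0 0) P.nil)) (P.cons (P.cons (P.lf 5541318 0 0) P.nil) P.nil)))))) 2954756)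
 EL.nil)
noncomputable def S140_198_512_660_35 : EL := (EL.cons 14 (TM.mk (P.cons (P.cons (P.lf 11210126 0 0) (P.cons (P.lf 52716034 0 0) (P.cons (P.lf 58450302 0 0) (P.cons (P.lf 0 9461800 0) (P.cons (P.lf 0 2485300 0) (P.cons (P.lf 184682 0 0) P.nil)))))) (P.cons (P.cons (P.lf 0 80921092 0) (P.cons (P.lf 0 159177370 0) (P.cons (P.lf 83742786 0 0) (P.cons (P.lf 0 6227256 0) (P.cons (P.lf 0 2931464 0) P.nil))))) (P.cons (P.cons (P.lf 179256482 0 0) (P.cons (P.lf 0 30551352 0) (P.cons (P.lf 31933672 0 0) (P.cons (P.lf 0 3316032 0) P.nil)))) (P.cons (P.cons (P.lf 0 111997758 0) (P.cons (P.lf 50619780 0 0) (P.cons (P.lf 0 1432118 0) P.nil))) (P.cons (P.cons (P.lf 0 4943458 0) (P.cons (P.lf 18094110 0 0) P.nil)) (P.cons (P.cons (P.lf 14929700 0 0) P.nil) P.nil)))))) 27893654)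
 EL.nil)
noncomputable def S140_198_512_660_36 : EL := (EL.cons 14 (TM.mk (P.cons (P.lf 0 5101921016 0) (P.cons (P.lf 1271553048 0 0) (P.cons (P.lf 178456072 0 0) (P.cons (P.lf 0 2814880 0) (P.cons (P.lf 0 2738184 0) (P.cons (P.lf 0 190832 0) P.nil)))))) 56024)
 EL.nil)
noncomputable def S140_198_512_660_37 : EL := (EL.cons 14 (TM.mk (P.cons (P.cons (P.lf 184307948 0 0) (P.cons (P.lf 433357462 0 0) (P.cons (P.lf 0 28973268 0) (P.lf 0 9657754 0)))) (P.cons (P.cons (P.lf 0 711155090 0) (P.cons (P.lf 147571368 0 0) (P.cons (P.lf 0 9866276 0) (P.lf 0 3288754 0)))) (P.cons (P.cons (P.lf 432457770 0 0) (P.cons (P.lf 0 49713882 0) (P.cons (P.lf 3323754 0 0) (P.lf 1107920 0 0)))) (P.cons (P.cons (P.lf 20351052 0 0) (P.cons (P.lf 0 26324820 0) (P.cons (P.lf 1760014 0 0) P.nil))) (P.cons (P.cons (P.lf 0 34243000 0) (P.cons (P.lf 0 797450 0) P.nil)) (P.cons (P.cons (P.lf 0 3719822 0)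 P.nil) P.nil)))))) 5823726)
 EL.nil)
noncomputable def S140_198_512_660_38 : EL := (EL.cons 14 (TM.mk (P.cons (P.cons (P.lf 0 6658162 0) (P.cons (P.lf 0 31310254 0) (P.cons (P.lf 0 34716076 0) (P.cons (P.lf 5619758 0 0) (P.cons (P.lf 1476122 0 0) (P.cons (P.lf 0 109690 0) P.nil)))))) (P.cons (P.cons (P.lf 49721832 0 0) (P.cons (P.lf 102345552 0 0) (P.cons (P.lf 0 41086042 0) (P.cons (P.lf 2298012 0 0) (P.cons (P.lf 1373224 0 0) P.nil))))) (P.cons (P.cons (P.lf 0 118213630 0) (P.cons (P.lf 0 4321846 0) (P.cons (P.lf 0 5356136 0) (P.cons (P.lf 851150 0 0) P.nil)))) (P.cons (P.cons (P.lf 91370360 0 0) (P.cons (P.lf 0 37911852 0) (P.cons (P.lf 7298284 0 0) P.nil))) (P.cons (P.cons (P.lf 0 9895704 0) (P.cons (P.lf 0 3853036 0) P.nil)) (P.cons (P.cons (P.lf 0 11959094 0) P.nil) P.nil)))))) 30589006)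
 EL.nil)
noncomputable def S140_198_512_660_39 : EL := (EL.cons 14 (TM.mk (P.cons (P.lf 3030244034 0 0) (P.cons (P.lf 0 1510456952 0) (P.cons (P.lf 0 23759250 0) (P.cons (P.lf 56176832 0 0) (P.cons (P.lf 6126708 0 0) (P.cons (P.lf 0 700928 0) P.nil)))))) 267590)
 EL.nil)
noncomputable def S140_198_512_660_40 : EL := (EL.cons 14 (TM.mk (P.cons (P.cons (P.lf 0 109468190 0) (P.cons (P.lf 0 257389100 0) (P.cons (P.lf 17208434 0 0) (P.lf 5736142 0 0)))) (P.cons (P.cons (P.lf 449667502 0 0) (P.cons (P.lf 0 23499650 0) (P.cons (P.lf 1571130 0 0) (P.lf 523708 0 0)))) (P.cons (P.cons (P.lf 0 358296782 0) (P.cons (P.lf 60374894 0 0) (P.cons (P.lf 0 4036524 0) (P.lf 0 1345508 0)))) (P.cons (P.cons (P.lf 37093970 0 0) (P.cons (P.lf 11200140 0 0) (P.cons (P.lf 0 748814 0) P.nil))) (P.cons (P.cons (P.lf 32509488 0 0) (P.cons (P.lf 0 4642482 0) P.nil)) (P.cons (P.cons (P.lf 0 2355894 0)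 P.nil) P.nil)))))) 6839484)
 EL.nil)
noncomputable def S140_198_512_660_41 : EL := (EL.cons 14 (TM.mk (P.cons (P.cons (P.lf 3954560 0 0) (P.cons (P.lf 18596468 0 0) (P.cons (P.lf 20619328 0 0) (P.cons (P.lf 0 3337808 0) (P.cons (P.lf 0 876730 0) (P.cons (P.lf 65148 0 0) P.nil)))))) (P.cons (P.cons (P.lf 0 30517468 0) (P.cons (P.lf 0 65422100 0) (P.cons (P.lf 19263756 0 0) (P.cons (P.lf 0 533002 0) (P.cons (P.lf 0 597106 0) P.nil))))) (P.cons (P.cons (P.lf 77433926 0 0) (P.cons (P.lf 17066488 0 0) (P.cons (P.lf 0 3621888 0) (P.cons (P.lf 0 48612 0) P.nil)))) (P.cons (P.cons (P.lf 0 70732478 0) (P.cons (P.lf 24014168 0 0) (P.cons (P.lf 0 5969802 0) P.nil))) (P.cons (P.cons (P.lf 16932806 0 0) (P.cons (P.lf 0 3436888 0) P.nil)) (P.cons (P.cons (P.lf 7559418 0 0) P.nil) P.nil)))))) 25686024)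
 EL.nil)
noncomputable def S140_198_512_660_42 : EL := (EL.cons 14 (TM.mk (P.cons (P.lf 0 1799788526 0) (P.cons (P.lf 1345685228 0 0) (P.cons (P.lf 0 146525314 0) (P.cons (P.lf 0 69255578 0) (P.cons (P.lf 3712280 0 0) (P.cons (P.lf 2912260 0 0) P.nil)))))) 563866)
 EL.nil)
noncomputable def S140_198_512_660_43 : EL := (EL.cons 14 (TM.mk (P.cons (P.cons (P.lf 65017730 0 0) (P.cons (P.lf 152874140 0 0) (P.cons (P.lf 0 10220808 0) (P.lf 0 3406934 0)))) (P.cons (P.cons (P.lf 0 283280700 0) (P.cons (P.lf 0 24143434 0) (P.cons (P.lf 1614174 0 0) (P.lf 538058 0 0)))) (P.cons (P.cons (P.lf 277096720 0 0) (P.cons (P.lf 0 44685048 0) (P.cons (P.lf 2987538 0 0) (P.lf 995846 0 0)))) (P.cons (P.cons (P.lf 0 65691982 0) (P.cons (P.lf 1881098 0 0) (P.cons (P.lf 0 125766 0) P.nil))) (P.cons (P.cons (P.lf 0 21373870 0) (P.cons (P.lf 5759338 0 0) P.nil)) (P.cons (P.cons (P.lf 6958720 0 0)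 P.nil) P.nil)))))) 7936236)
 EL.nil)
noncomputable def S140_198_512_660_44 : EL := (EL.cons 14 (TM.mk (P.cons (P.cons (P.lf 0 2348778 0) (P.cons (P.lf 0 11045218 0) (P.cons (P.lf 0 12246680 0) (P.cons (P.lf 1982464 0 0) (P.cons (P.lf 520726 0 0) (P.cons (P.lf 0 38694 0) P.nil)))))) (P.cons (P.cons (P.lf 18710986 0 0) (P.cons (P.lf 41609722 0 0) (P.cons (P.lf 0 8389306 0) (P.cons (P.lf 0 177516 0) (P.cons (P.lf 224864 0 0) P.nil))))) (P.cons (P.cons (P.lf 0 50426534 0) (P.cons (P.lf 0 19434478 0) (P.cons (P.lf 5431138 0 0) (P.cons (P.lf 0 119368 0) P.nil)))) (P.cons (P.cons (P.lf 52838086 0 0) (P.cons (P.lf 0 13101934 0) (P.cons (P.lf 3403020 0 0) P.nil))) (P.cons (P.cons (P.lf 0 18910074 0) (P.cons (P.lf 5966154 0 0) P.nil)) (P.cons (P.cons (P.lf 0 3468524 0) P.nil) P.nil)))))) 23387302)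
 EL.nil)
noncomputable def S140_198_512_660_45 : EL := (EL.cons 14 (TM.mk (P.cons (P.cons (P.lf 0 404968 0) (P.cons (P.lf 0 2856566 0) (P.cons (P.lf 0 6525570 0) (P.cons (P.lf 0 4302372 0) (P.cons (P.lf 1325190 0 0) (P.cons (P.lf 261340 0 0) P.nil)))))) (P.cons (P.cons (P.lf 4384936 0 0) (P.cons (P.lf 18935636 0 0) (P.cons (P.lf 15053650 0 0) (P.cons (P.lf 0 11917932 0) (P.cons (P.lf 1213638 0 0) P.nil))))) (P.cons (P.cons (P.lf 0 17626758 0) (P.cons (P.lf 0 33709204 0) (P.cons (P.lf 17655422 0 0) (P.cons (P.lf 0 7863070 0) P.nil)))) (P.cons (P.cons (P.lf 31607378 0 0) (P.cons (P.lf 3055046 0 0) (P.cons (P.lf 0 2833650 0) P.nil))) (P.cons (P.cons (P.lf 0 22970404 0) (P.cons (P.lf 14544350 0 0) P.nil)) (P.cons (P.cons (P.lf 2402988 0 0) P.nil) P.nil)))))) 49119160)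
 EL.nil)
noncomputable def S140_198_512_660_46 : EL := (EL.cons 15 (TM.mk (P.lf 4294967296 0 0) 0)
 EL.nil)
noncomputable def S140_198_512_660_47 : EL := (EL.cons 15 (TM.mk (P.cons (P.cons (P.lf 0 155156579 0) (P.cons (P.lf 0 364814768 0) (P.cons (P.lf 24390664 0 0) (P.lf 8130220 0 0)))) (P.cons (P.cons (P.lf 560004364 0 0) (P.cons (P.lf 0 215153376 0) (P.cons (P.lf 14384652 0 0) (P.lf 4794880 0 0)))) (P.cons (P.cons (P.lf 0 229914449 0) (P.cons (P.lf 0 24532492 0) (P.cons (P.lf 1640184 0 0) (P.lf 546724 0 0)))) (P.cons (P.cons (P.lf 0 54760276 0) (P.cons (P.lf 8722472 0 0) (P.cons (P.lf 0 583164 0) P.nil))) (P.cons (P.cons (P.lf 6911288 0 0) (P.cons (P.lf 2301624 0 0) P.nil)) (P.cons (P.cons (P.lf 2770659 0 0) P.nil) P.nil)))))) 1477378)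
 EL.nil)
noncomputable def S140_198_512_660_48 : EL := (EL.cons 15 (TM.mk (P.cons (P.cons (P.lf 5605063 0 0) (P.cons (P.lf 26358017 0 0) (P.cons (P.lf 29225151 0 0) (P.cons (P.lf 0 4730900 0) (P.cons (P.lf 0 1242650 0) (P.cons (P.lf 92341 0 0) P.nil)))))) (P.cons (P.cons (P.lf 0 40460546 0) (P.cons (P.lf 0 79588685 0) (P.cons (P.lf 41871393 0 0) (P.cons (P.lf 0 3113628 0) (P.cons (P.lf 0 1465732 0) P.nil))))) (P.cons (P.cons (P.lf 89628241 0 0) (P.cons (P.lf 0 15275676 0) (P.cons (P.lf 15966836 0 0) (P.cons (P.lf 0 1658016 0) P.nil)))) (P.cons (P.cons (P.lf 0 55998879 0) (P.cons (P.lf 25309890 0 0) (P.cons (P.lf 0 716059 0) P.nil))) (P.cons (P.cons (P.lf 0 2471729 0) (P.cons (P.lf 9047055 0 0) P.nil)) (P.cons (P.cons (P.lf 7464850 0 0) P.nil) P.nil)))))) 13946827)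
 EL.nil)
noncomputable def S140_198_512_660 : SL := (SL.cons S140_198_512_660_0 (SL.cons S140_198_512_660_1 (SL.cons S140_198_512_660_2 (SL.cons S140_198_512_660_3 (SL.cons S140_198_512_660_4 (SL.cons S140_198_512_660_5 (SL.cons S140_198_512_660_6 (SL.cons S140_198_512_660_7 (SL.cons S140_198_512_660_8 (SL.cons S140_198_512_660_9 (SL.cons S140_198_512_660_10 (SL.cons S140_198_512_660_11 (SL.cons S140_198_512_660_12 (SL.cons S140_198_512_660_13 (SL.cons S140_198_512_660_14 (SL.cons S140_198_512_660_15 (SL.cons S140_198_512_660_16 (SL.cons S140_198_512_660_17 (SL.cons S140_198_512_660_18 (SL.cons S140_198_512_660_19 (SL.cons S140_198_512_660_20 (SL.cons S140_198_512_660_21 (SL.cons S140_198_512_660_22 (SL.cons S140_198_512_660_23 (SL.cons S140_198_512_660_24 (SL.cons S140_198_512_660_25 (SL.cons S140_198_512_660_26 (SL.cons S140_198_512_660_27 (SL.cons S140_198_512_660_28 (SL.cons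 S140_198_512_660_29 (SL.cons S140_198_512_660_30 (SL.cons S140_198_512_660_31 (SL.cons S140_198_512_660_32 (SL.cons S140_198_512_660_33 (SL.cons S140_198_512_660_34 (SL.cons S140_198_512_660_35 (SL.cons S140_198_512_660_36 (SL.cons S140_198_512_660_37 (SL.cons S140_198_512_660_38 (SL.cons S140_198_512_660_39 (SL.cons S140_198_512_660_40 (SL.cons S140_198_512_660_41 (SL.cons S140_198_512_660_42 (SL.cons S140_198_512_660_43 (SL.cons S140_198_512_660_44 (SL.cons S140_198_512_660_45 (SL.cons S140_198_512_660_46 (SL.cons S140_198_512_660_47 (SL.cons S140_198_512_660_48 SL.nil)))))))))))))))))))))))))))))))))))))))))))))))))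
noncomputable def S140_198_660_808_0 : EL := (EL.cons 0 (TM.mk (P.cons (P.lf 5792416443 0 0) (P.cons (P.lf 1327550055 0 0) (P.cons (P.lf 20882153 0 0) (P.cons (P.lf 0 49374168 0) (P.cons (P.lf 0 5384801 0) (P.cons (P.lf 616050 0 0) P.nil)))))) 235193)
 (EL.cons 1 (TM.mk (P.cons (P.lf 0 1788121471 0) (P.cons (P.lf 94132764 0 0) (P.cons (P.lf 179177853 0 0) (P.cons (P.lf 11443897 0 0) (P.cons (P.lf 0 3792305 0) (P.cons (P.lf 0 635690 0) P.nil)))))) 110845)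
 (EL.cons 5 (TM.mk (P.cons (P.lf 5241918562 0 0) (P.cons (P.lf 0 472017796 0) (P.cons (P.lf 0 7424770 0) (P.cons (P.lf 17555260 0 0) (P.cons (P.lf 1914598 0 0) (P.cons (P.lf 0 219040 0) P.nil)))))) 72457)
 (EL.cons 9 (TM.mk (P.lf 6442450944 0 0) 2)
 EL.nil))))
noncomputable def S140_198_660_808_1 : EL := (EL.cons 0 (TM.mk (P.cons (P.cons (P.lf 0 1685571663 0) (P.cons (P.lf 86820204 0 0) (P.cons (P.lf 0 37437842 0) (P.lf 0 4159756 0)))) (P.cons (P.cons (P.lf 1869334877 0 0) (P.cons (P.lf 0 158597043 0) (P.cons (P.lf 68388835 0 0) (P.lf 7598765 0 0)))) (P.cons (P.cons (P.lf 0 78434862 0) (P.cons (P.lf 0 121193638 0) (P.cons (P.lf 52260061 0 0) (P.lf 5806659 0 0)))) (P.cons (P.cons (P.lf 0 453850787 0) (P.cons (P.lf 0 10327520 0) (P.cons (P.lf 4453344 0 0) P.nil))) (P.cons (P.cons (P.lf 0 57041615 0) (P.cons (P.lf 9699323 0 0) P.nil)) (P.cons (P.cons (P.lf 29332081 0 0) P.nil)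 P.nil)))))) 30944779)
 (EL.cons 1 (TM.mk (P.cons (P.cons (P.lf 250208005 0 0) (P.cons (P.lf 93030122 0 0) (P.cons (P.lf 0 40115629 0) (P.lf 0 4457287 0)))) (P.cons (P.cons (P.lf 0 173446467 0) (P.cons (P.lf 124496797 0 0) (P.cons (P.lf 0 53684418 0) (P.lf 0 5964923 0)))) (P.cons (P.cons (P.lf 562490080 0 0) (P.cons (P.lf 5945848 0 0) (P.cons (P.lf 0 2563919 0) (P.lf 0 284876 0)))) (P.cons (P.cons (P.lf 85743932 0 0) (P.cons (P.lf 0 20698968 0) (P.cons (P.lf 8925629 0 0) P.nil))) (P.cons (P.cons (P.lf 0 69856795 0) (P.cons (P.lf 0 4289004 0) P.nil)) (P.cons (P.cons (P.lf 0 15102208 0) P.nil) P.nil)))))) 16565991)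
 (EL.cons 5 (TM.mk (P.cons (P.cons (P.lf 0 628394492 0) (P.cons (P.lf 0 319341452 0) (P.cons (P.lf 137703636 0 0) (P.lf 15300398 0 0)))) (P.cons (P.cons (P.lf 0 281140378 0) (P.cons (P.lf 0 113739382 0) (P.cons (P.lf 49045706 0 0) (P.lf 5449520 0 0)))) (P.cons (P.cons (P.lf 0 427788333 0) (P.cons (P.lf 23692352 0 0) (P.cons (P.lf 0 10216404 0) (P.lf 0 1135150 0)))) (P.cons (P.cons (P.lf 91323914 0 0) (P.cons (P.lf 10569180 0 0) (P.cons (P.lf 0 4557550 0) P.nil))) (P.cons (P.cons (P.lf 38112198 0 0) (P.cons (P.lf 0 1628668 0) P.nil)) (P.cons (P.cons (P.lf 0 5797841 0) P.nil) P.nil)))))) 13290834)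
 (EL.cons 9 (TM.mk (P.cons (P.cons (P.lf 0 1083272512 0) (P.cons (P.lf 0 254534154 0) (P.cons (P.lf 109757994 0 0) (P.lf 12195330 0 0)))) (P.cons (P.cons (P.lf 338392956 0 0) (P.cons (P.lf 0 150114210 0) (P.cons (P.lf 64730940 0 0) (P.lf 7192320 0 0)))) (P.cons (P.cons (P.lf 0 402067303 0) (P.cons (P.lf 0 17116512 0) (P.cons (P.lf 7380834 0 0) (P.lf 820086 0 0)))) (P.cons (P.cons (P.lf 0 61804632 0) (P.cons (P.lf 6085734 0 0) (P.cons (P.lf 0 2624238 0) P.nil))) (P.cons (P.cons (P.lf 15732996 0 0) (P.cons (P.lf 1605858 0 0) P.nil)) (P.cons (P.cons (P.lf 4086466 0 0) P.nil) P.nil)))))) 2640982)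
 (EL.cons 2 (TM.mk (P.cons (P.cons (P.lf 396080575 0 0) (P.cons (P.lf 0 368985698 0) (P.cons (P.lf 0 37869935 0) (P.cons (P.lf 7875891 0 0) (P.lf 656322 0 0))))) (P.cons (P.cons (P.lf 57013214 0 0) (P.cons (P.lf 0 53113083 0) (P.cons (P.lf 0 5451128 0) (P.cons (P.lf 1133682 0 0) (P.lf 94471 0 0))))) (P.cons (P.cons (P.lf 0 50216852 0) (P.cons (P.lf 46781642 0 0) (P.cons (P.lf 4801317 0 0) (P.cons (P.lf 0 998541 0) P.nil)))) (P.cons (P.cons (P.lf 0 11630927 0) (P.cons (P.lf 10835285 0 0) (P.cons (P.lf 1112051 0 0) P.nil))) (P.cons (P.cons (P.lf 1024650 0 0) (P.cons (P.lf 0 954556 0) P.nil)) (P.cons (P.cons (P.lf 532029 0 0) P.nil) P.nil)))))) 1390234)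
 (EL.cons 6 (TM.mk (P.cons (P.cons (P.lf 265925757 0 0) (P.cons (P.lf 0 247734444 0) (P.cons (P.lf 0 25425612 0) (P.cons (P.lf 5287818 0 0) (P.lf 440649 0 0))))) (P.cons (P.cons (P.lf 156832533 0 0) (P.cons (P.lf 0 146104011 0) (P.cons (P.lf 0 14995023 0) (P.cons (P.lf 3118545 0 0) (P.lf 259878 0 0))))) (P.cons (P.cons (P.lf 17882559 0 0) (P.cons (P.lf 0 16659258 0) (P.cons (P.lf 0 1709781 0) (P.cons (P.lf 355584 0 0) P.nil)))) (P.cons (P.cons (P.lf 0 6358104 0) (P.cons (P.lf 5923161 0 0) (P.cons (P.lf 607908 0 0) P.nil))) (P.cons (P.cons (P.lf 0 1677732 0) (P.cons (P.lf 1562961 0 0) P.nil)) (P.cons (P.cons (P.lf 21735 0 0) P.nil) P.nil)))))) 759483)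
 EL.nil))))))
noncomputable def S140_198_660_808_2 : EL := (EL.cons 0 (TM.mk (P.cons (P.cons (P.lf 403074861 0 0) (P.cons (P.lf 27032114 0 0) (P.cons (P.lf 0 27558585 0) (P.cons (P.lf 12419089 0 0) (P.cons (P.lf 0 1433061 0) (P.cons (P.lf 0 657082 0) P.nil)))))) (P.cons (P.cons (P.lf 0 740930668 0) (P.cons (P.lf 0 45690978 0) (P.cons (P.lf 15451382 0 0) (P.cons (P.lf 5855382 0 0) (P.cons (P.lf 0 383095 0) P.nil))))) (P.cons (P.cons (P.lf 318451522 0 0) (P.cons (P.lf 0 83432459 0) (P.cons (P.lf 45645249 0 0) (P.cons (P.lf 0 4340664 0) P.nil)))) (P.cons (P.cons (P.lf 0 67070984 0) (P.cons (P.lf 13586691 0 0) (P.cons (P.lf 366238 0 0) P.nil))) (P.cons (P.cons (P.lf 0 71565013 0) (P.cons (P.lf 35638950 0 0) P.nil)) (P.cons (P.cons (P.lf 40489649 0 0) P.nil) P.nil)))))) 139221384)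
 (EL.cons 1 (TM.mk (P.cons (P.cons (P.lf 0 33587251 0) (P.cons (P.lf 0 27298246 0) (P.cons (P.lf 7211449 0 0) (P.cons (P.lf 5240448 0 0) (P.cons (P.lf 0 410922 0) (P.cons (P.lf 0 188413 0) P.nil)))))) (P.cons (P.cons (P.lf 50366628 0 0) (P.cons (P.lf 0 24709818 0) (P.cons (P.lf 0 372343 0) (P.cons (P.lf 10694270 0 0) (P.cons (P.lf 0 993781 0) P.nil))))) (P.cons (P.cons (P.lf 0 199553506 0) (P.cons (P.lf 0 34915097 0) (P.cons (P.lf 9183081 0 0) (P.cons (P.lf 6737602 0 0) P.nil)))) (P.cons (P.cons (P.lf 41755450 0 0) (P.cons (P.lf 0 36974173 0) (P.cons (P.lf 16485689 0 0) P.nil))) (P.cons (P.cons (P.lf 0 33097315 0) (P.cons (P.lf 0 4887215 0) P.nil)) (P.cons (P.cons (P.lf 0 21984337 0) P.nil) P.nil)))))) 70459465)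
 (EL.cons 5 (TM.mk (P.cons (P.cons (P.lf 63118865 0 0) (P.cons (P.lf 87399428 0 0) (P.cons (P.lf 0 20636365 0) (P.cons (P.lf 0 18892901 0) (P.cons (P.lf 1536620 0 0) (P.cons (P.lf 704558 0 0) P.nil)))))) (P.cons (P.cons (P.lf 134469965 0 0) (P.cons (P.lf 43154577 0 0) (P.cons (P.lf 0 3653983 0) (P.cons (P.lf 0 14964947 0) (P.cons (P.lf 1347695 0 0) P.nil))))) (P.cons (P.cons (P.lf 60157270 0 0) (P.cons (P.lf 54322770 0 0) (P.cons (P.lf 0 21365191 0) (P.cons (P.lf 0 4378796 0) P.nil)))) (P.cons (P.cons (P.lf 0 466129 0) (P.cons (P.lf 17581919 0 0) (P.cons (P.lf 0 9435829 0) P.nil))) (P.cons (P.cons (P.lf 40529004 0 0) (P.cons (P.lf 0 8282521 0) P.nil)) (P.cons (P.cons (P.lf 0 5337742 0) P.nil) P.nil)))))) 62585966)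
 (EL.cons 9 (TM.mk (P.cons (P.cons (P.lf 182147965 0 0) (P.cons (P.lf 85597812 0 0) (P.cons (P.lf 0 26854375 0) (P.cons (P.lf 0 12774027 0) (P.cons (P.lf 906262 0 0) (P.cons (P.lf 415534 0 0) P.nil)))))) (P.cons (P.cons (P.lf 0 113798859 0) (P.cons (P.lf 23743147 0 0) (P.cons (P.lf 1623381 0 0) (P.cons (P.lf 0 11367381 0) (P.cons (P.lf 1068957 0 0) P.nil))))) (P.cons (P.cons (P.lf 152986296 0 0) (P.cons (P.lf 21756972 0 0) (P.cons (P.lf 0 4531563 0) (P.cons (P.lf 0 5225424 0) P.nil)))) (P.cons (P.cons (P.lf 0 21453165 0) (P.cons (P.lf 19775947 0 0) (P.cons (P.lf 0 8210835 0) P.nil))) (P.cons (P.cons (P.lf 13309122 0 0) (P.cons (P.lf 3872733 0 0) P.nil)) (P.cons (P.cons (P.lf 7992858 0 0) P.nil) P.nil)))))) 19415302)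
 (EL.cons 2 (TM.mk (P.cons (P.cons (P.lf 0 133198745 0) (P.cons (P.lf 92789538 0 0) (P.cons (P.lf 55387591 0 0) (P.cons (P.lf 0 10729248 0) (P.cons (P.lf 0 3530356 0) (P.cons (P.lf 73119 0 0) P.nil)))))) (P.cons (P.cons (P.lf 22435565 0 0) (P.cons (P.lf 0 43863845 0) (P.cons (P.lf 29149014 0 0) (P.cons (P.lf 0 5482681 0) (P.cons (P.lf 0 2391120 0) P.nil))))) (P.cons (P.cons (P.lf 0 26561205 0) (P.cons (P.lf 23950698 0 0) (P.cons (P.lf 3620970 0 0) (P.cons (P.lf 0 733033 0) P.nil)))) (P.cons (P.cons (P.lf 0 16079692 0) (P.cons (P.lf 18684309 0 0) (P.cons (P.lf 0 3511215 0) P.nil))) (P.cons (P.cons (P.lf 5542177 0 0) (P.cons (P.lf 0 4129993 0) P.nil)) (P.cons (P.cons (P.lf 3124895 0 0) P.nil) P.nil)))))) 15167350)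
 (EL.cons 6 (TM.mk (P.cons (P.cons (P.lf 0 89428716 0) (P.cons (P.lf 62298252 0 0) (P.cons (P.lf 37186842 0 0) (P.cons (P.lf 0 7203540 0) (P.cons (P.lf 0 2370258 0) (P.cons (P.lf 49092 0 0) P.nil)))))) (P.cons (P.cons (P.lf 0 24805764 0) (P.cons (P.lf 0 1676250 0) (P.cons (P.lf 36148974 0 0) (P.cons (P.lf 0 6892500 0) (P.cons (P.lf 0 2662080 0) P.nil))))) (P.cons (P.cons (P.lf 0 22730700 0) (P.cons (P.lf 11041020 0 0) (P.cons (P.lf 15984960 0 0) (P.cons (P.lf 0 3068664 0) P.nil)))) (P.cons (P.cons (P.lf 0 20661012 0) (P.cons (P.lf 18585738 0 0) (P.cons (P.lf 2877480 0 0) P.nil))) (P.cons (P.cons (P.lf 0 4046052 0) (P.cons (P.lf 4531986 0 0) P.nil)) (P.cons (P.cons (P.lf 1370292 0 0) P.nil) P.nil)))))) 11571186)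
 EL.nil))))))
noncomputable def S140_198_660_808_3 : EL := (EL.cons 0 (TM.mk (P.cons (P.lf 2663300420 0 0) (P.cons (P.lf 0 1327550055 0) (P.cons (P.lf 0 20882153 0) (P.cons (P.lf 49374168 0 0) (P.cons (P.lf 5384801 0 0) (P.cons (P.lf 0 616050 0) P.nil)))))) 235193)
 (EL.cons 1 (TM.mk (P.cons (P.lf 1788121471 0 0) (P.cons (P.lf 0 94132764 0) (P.cons (P.lf 0 179177853 0) (P.cons (P.lf 0 11443897 0) (P.cons (P.lf 3792305 0 0) (P.cons (P.lf 635690 0 0) P.nil)))))) 110845)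
 (EL.cons 5 (TM.mk (P.cons (P.lf 1200532382 0 0) (P.cons (P.lf 472017796 0 0) (P.cons (P.lf 7424770 0 0) (P.cons (P.lf 0 17555260 0) (P.cons (P.lf 0 1914598 0) (P.cons (P.lf 219040 0 0) P.nil)))))) 72450)
 EL.nil)))
noncomputable def S140_198_660_808_4 : EL := (EL.cons 0 (TM.mk (P.cons (P.cons (P.lf 0 447823376 0) (P.cons (P.lf 0 105224071 0) (P.cons (P.lf 45373804 0 0) (P.lf 5041531 0 0)))) (P.cons (P.cons (P.lf 363113448 0 0) (P.cons (P.lf 0 9606965 0) (P.cons (P.lf 4142631 0 0) (P.lf 460290 0 0)))) (P.cons (P.cons (P.lf 0 232433052 0) (P.cons (P.lf 24682055 0 0) (P.cons (P.lf 0 10643180 0) (P.lf 0 1182575 0)))) (P.cons (P.cons (P.lf 47902283 0 0) (P.cons (P.lf 4578762 0 0) (P.cons (P.lf 0 1974413 0) P.nil))) (P.cons (P.cons (P.lf 22230843 0 0) (P.cons (P.lf 0 1897908 0) P.nil)) (P.cons (P.cons (P.lf 0 4047285 0) P.nil) P.nil)))))) 6194544)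
 (EL.cons 1 (TM.mk (P.cons (P.cons (P.lf 0 300665516 0) (P.cons (P.lf 0 70646713 0) (P.cons (P.lf 30463657 0 0) (P.lf 3384849 0 0)))) (P.cons (P.cons (P.lf 109750023 0 0) (P.cons (P.lf 0 37945563 0) (P.cons (P.lf 16362553 0 0) (P.lf 1818058 0 0)))) (P.cons (P.cons (P.lf 0 86411304 0) (P.cons (P.lf 4521748 0 0) (P.cons (P.lf 0 1949827 0) (P.lf 0 216646 0)))) (P.cons (P.cons (P.lf 0 18766483 0) (P.cons (P.lf 6566328 0 0) (P.cons (P.lf 0 2831475 0) P.nil))) (P.cons (P.cons (P.lf 15213348 0 0) (P.cons (P.lf 949655 0 0) P.nil)) (P.cons (P.cons (P.lf 3429750 0 0) P.nil) P.nil)))))) 3935687)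
 (EL.cons 5 (TM.mk (P.cons (P.cons (P.lf 0 201864746 0) (P.cons (P.lf 0 47431714 0) (P.cons (P.lf 20453088 0 0) (P.lf 2272564 0 0)))) (P.cons (P.cons (P.lf 0 16309352 0) (P.cons (P.lf 0 46622258 0) (P.cons (P.lf 20104042 0 0) (P.lf 2233780 0 0)))) (P.cons (P.cons (P.lf 0 51379570 0) (P.cons (P.lf 0 14481344 0) (P.cons (P.lf 6244518 0 0) (P.lf 693832 0 0)))) (P.cons (P.cons (P.lf 0 37633466 0) (P.cons (P.lf 400572 0 0) (P.cons (P.lf 0 172730 0) P.nil))) (P.cons (P.cons (P.lf 0 2659968 0) (P.cons (P.lf 1210096 0 0) P.nil)) (P.cons (P.cons (P.lf 2801188 0 0) P.nil) P.nil)))))) 2687888)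
 EL.nil)))
noncomputable def S140_198_660_808_5 : EL := (EL.cons 0 (TM.mk (P.cons (P.cons (P.lf 75299719 0 0) (P.cons (P.lf 35386017 0 0) (P.cons (P.lf 0 11101561 0) (P.cons (P.lf 0 5280764 0) (P.cons (P.lf 374646 0 0) (P.cons (P.lf 171780 0 0) P.nil)))))) (P.cons (P.cons (P.lf 0 84578227 0) (P.cons (P.lf 0 7823146 0) (P.cons (P.lf 6204793 0 0) (P.cons (P.lf 0 2067006 0) (P.cons (P.lf 255157 0 0) P.nil))))) (P.cons (P.cons (P.lf 86103643 0 0) (P.cons (P.lf 3824268 0 0) (P.cons (P.lf 0 2120814 0) (P.cons (P.lf 223616 0 0) P.nil)))) (P.cons (P.cons (P.lf 0 38628685 0) (P.cons (P.lf 4271095 0 0) (P.cons (P.lf 0 2671630 0) P.nil))) (P.cons (P.cons (P.lf 8706897 0 0) (P.cons (P.lf 0 2291116 0) P.nil)) (P.cons (P.cons (P.lf 1691191 0 0) P.nil) P.nil)))))) 19414981)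
 (EL.cons 1 (TM.mk (P.cons (P.cons (P.lf 50555709 0 0) (P.cons (P.lf 23757926 0 0) (P.cons (P.lf 0 7453511 0) (P.cons (P.lf 0 3545467 0) (P.cons (P.lf 251535 0 0) (P.cons (P.lf 115331 0 0) P.nil)))))) (P.cons (P.cons (P.lf 0 34246635 0) (P.cons (P.lf 5339281 0 0) (P.cons (P.lf 842951 0 0) (P.cons (P.lf 0 2968404 0) (P.cons (P.lf 283449 0 0) P.nil))))) (P.cons (P.cons (P.lf 39058642 0 0) (P.cons (P.lf 3311141 0 0) (P.cons (P.lf 0 534592 0) (P.cons (P.lf 0 928965 0) P.nil)))) (P.cons (P.cons (P.lf 0 5348295 0) (P.cons (P.lf 4358578 0 0) (P.cons (P.lf 0 2210175 0) P.nil))) (P.cons (P.cons (P.lf 61944 0 0) (P.cons (P.lf 189039 0 0) P.nil)) (P.cons (P.cons (P.lf 2299865 0 0) P.nil) P.nil)))))) 13094628)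
 (EL.cons 5 (TM.mk (P.cons (P.cons (P.lf 33942752 0 0) (P.cons (P.lf 15950908 0 0) (P.cons (P.lf 0 5004234 0) (P.cons (P.lf 0 2380402 0) (P.cons (P.lf 168878 0 0) (P.cons (P.lf 77432 0 0) P.nil)))))) (P.cons (P.cons (P.lf 0 7860692 0) (P.cons (P.lf 10695946 0 0) (P.cons (P.lf 0 1665020 0) (P.cons (P.lf 0 3054190 0) (P.cons (P.lf 265594 0 0) P.nil))))) (P.cons (P.cons (P.lf 20380802 0 0) (P.cons (P.lf 5892582 0 0) (P.cons (P.lf 0 756452 0) (P.cons (P.lf 0 1821316 0) P.nil)))) (P.cons (P.cons (P.lf 6583588 0 0) (P.cons (P.lf 5073368 0 0) (P.cons (P.lf 0 1787030 0) P.nil))) (P.cons (P.cons (P.lf 1340586 0 0) (P.cons (P.lf 2105530 0 0) P.nil)) (P.cons (P.cons (P.lf 2062972 0 0) P.nil) P.nil)))))) 8653768)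
 EL.nil)))
noncomputable def S140_198_660_808_6 : EL := (EL.cons 12 (TM.mk (P.lf 8589934592 0 0) 0)
 (EL.cons 3 (TM.mk (P.cons (P.lf 0 2391525476 0) (P.cons (P.lf 596040491 0 0) (P.cons (P.lf 83651283 0 0) (P.cons (P.lf 0 1319475 0) (P.cons (P.lf 0 1283523 0) (P.cons (P.lf 0 89452 0) P.nil)))))) 26268)
 (EL.cons 7 (TM.mk (P.cons (P.lf 0 1605653656 0) (P.cons (P.lf 0 315650420 0) (P.cons (P.lf 26061229 0 0) (P.cons (P.lf 6616358 0 0) (P.cons (P.lf 191151 0 0) (P.cons (P.lf 0 76666 0) P.nil)))))) 11720)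
 EL.nil)))
noncomputable def S140_198_660_808_7 : EL := (EL.cons 12 (TM.mk (P.cons (P.cons (P.lf 0 1444363350 0) (P.cons (P.lf 0 339378872 0) (P.cons (P.lf 146343992 0 0) (P.lf 16260440 0 0)))) (P.cons (P.cons (P.lf 451190608 0 0) (P.cons (P.lf 0 200152280 0) (P.cons (P.lf 86307920 0 0) (P.lf 9589760 0 0)))) (P.cons (P.cons (P.lf 0 536089738 0) (P.cons (P.lf 0 22822016 0) (P.cons (P.lf 9841112 0 0) (P.lf 1093448 0 0)))) (P.cons (P.cons (P.lf 0 82406176 0) (P.cons (P.lf 8114312 0 0) (P.cons (P.lf 0 3498984 0) P.nil))) (P.cons (P.cons (P.lf 20977328 0 0) (P.cons (P.lf 2141144 0 0) P.nil)) (P.cons (P.cons (P.lf 5448622 0 0) P.nil) P.nil)))))) 3521284)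
 (EL.cons 3 (TM.mk (P.cons (P.cons (P.lf 1041110572 0 0) (P.cons (P.lf 0 188973084 0) (P.cons (P.lf 81487320 0 0) (P.lf 9054144 0 0)))) (P.cons (P.cons (P.lf 0 1672404267 0) (P.cons (P.lf 0 64351064 0) (P.cons (P.lf 27748904 0 0) (P.lf 3083206 0 0)))) (P.cons (P.cons (P.lf 0 366400548 0) (P.cons (P.lf 21678604 0 0) (P.cons (P.lf 0 9348058 0) (P.lf 0 1038674 0)))) (P.cons (P.cons (P.lf 98278500 0 0) (P.cons (P.lf 11479392 0 0) (P.cons (P.lf 0 4950044 0) P.nil))) (P.cons (P.cons (P.lf 41880495 0 0) (P.cons (P.lf 347738 0 0) P.nil)) (P.cons (P.cons (P.lf 682110 0 0) P.nil) P.nil)))))) 12125403)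
 (EL.cons 7 (TM.mk (P.cons (P.cons (P.lf 0 68408672 0) (P.cons (P.lf 213551829 0 0) (P.cons (P.lf 0 92085961 0) (P.lf 0 10231774 0)))) (P.cons (P.cons (P.lf 885669876 0 0) (P.cons (P.lf 34078965 0 0) (P.cons (P.lf 0 14695237 0) (P.lf 0 1632807 0)))) (P.cons (P.cons (P.lf 0 3385416 0) (P.cons (P.lf 0 19077021 0) (P.cons (P.lf 8226227 0 0) (P.lf 914022 0 0)))) (P.cons (P.cons (P.lf 0 89377252 0) (P.cons (P.lf 0 1884487 0) (P.cons (P.lf 812611 0 0) P.nil))) (P.cons (P.cons (P.lf 0 1659095 0) (P.cons (P.lf 1315813 0 0) P.nil)) (P.cons (P.cons (P.lf 4697116 0 0) P.nil) P.nil)))))) 7573831)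
 (EL.cons 10 (TM.mk (P.cons (P.cons (P.lf 0 711325530 0) (P.cons (P.lf 662665536 0 0) (P.cons (P.lf 68011041 0 0) (P.cons (P.lf 0 14144403 0) (P.lf 0 1178700 0))))) (P.cons (P.cons (P.lf 0 279674511 0) (P.cons (P.lf 260542680 0 0) (P.cons (P.lf 26740155 0 0) (P.cons (P.lf 0 5561208 0) (P.lf 0 463434 0))))) (P.cons (P.cons (P.lf 0 4399236 0) (P.cons (P.lf 4098297 0 0) (P.cons (P.lf 420618 0 0) (P.cons (P.lf 0 87474 0) P.nil)))) (P.cons (P.cons (P.lf 10401639 0 0) (P.cons (P.lf 0 9690087 0) (P.cons (P.lf 0 994518 0) P.nil))) (P.cons (P.cons (P.lf 1134414 0 0) (P.cons (P.lf 0 1056810 0) P.nil)) (P.cons (P.cons (P.lf 0 129783 0) P.nil) P.nil)))))) 588420)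
 EL.nil))))
noncomputable def S140_198_660_808_8 : EL := (EL.cons 12 (TM.mk (P.cons (P.cons (P.lf 242863954 0 0) (P.cons (P.lf 114130416 0 0) (P.cons (P.lf 0 35805834 0) (P.cons (P.lf 0 17032036 0) (P.cons (P.lf 1208350 0 0) (P.cons (P.lf 554046 0 0) P.nil)))))) (P.cons (P.cons (P.lf 0 151731812 0) (P.cons (P.lf 31657530 0 0) (P.cons (P.lf 2164508 0 0) (P.cons (P.lf 0 15156508 0) (P.cons (P.lf 1425276 0 0) P.nil))))) (P.cons (P.cons (P.lf 203981728 0 0) (P.cons (P.lf 29009296 0 0) (P.cons (P.lf 0 6042084 0) (P.cons (P.lf 0 6967232 0) P.nil)))) (P.cons (P.cons (P.lf 0 28604220 0) (P.cons (P.lf 26367930 0 0) (P.cons (P.lf 0 10947780 0) P.nil))) (P.cons (P.cons (P.lf 17745496 0 0) (P.cons (P.lf 5163644 0 0) P.nil)) (P.cons (P.cons (P.lf 10657144 0 0) P.nil) P.nil)))))) 25887040)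
 (EL.cons 3 (TM.mk (P.cons (P.cons (P.lf 0 282501399 0) (P.cons (P.lf 13058950 0 0) (P.cons (P.lf 13034127 0 0) (P.cons (P.lf 0 16723055 0) (P.cons (P.lf 1682086 0 0) (P.cons (P.lf 771261 0 0) P.nil)))))) (P.cons (P.cons (P.lf 612690370 0 0) (P.cons (P.lf 86315711 0 0) (P.cons (P.lf 0 19856146 0) (P.cons (P.lf 0 19110827 0) (P.cons (P.lf 1564831 0 0) P.nil))))) (P.cons (P.cons (P.lf 0 117465690 0) (P.cons (P.lf 115661908 0 0) (P.cons (P.lf 0 47012208 0) (P.cons (P.lf 0 8010325 0) P.nil)))) (P.cons (P.cons (P.lf 96627142 0 0) (P.cons (P.lf 35274932 0 0) (P.cons (P.lf 0 17626463 0) P.nil))) (P.cons (P.cons (P.lf 84098322 0 0) (P.cons (P.lf 0 10540685 0) P.nil)) (P.cons (P.cons (P.lf 0 5888784 0) P.nil) P.nil)))))) 80934892)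
 (EL.cons 7 (TM.mk (P.cons (P.cons (P.lf 68402074 0 0) (P.cons (P.lf 0 45076710 0) (P.cons (P.lf 5069544 0 0) (P.cons (P.lf 14551057 0 0) (P.cons (P.lf 0 1294822 0) (P.cons (P.lf 0 593691 0) P.nil)))))) (P.cons (P.cons (P.lf 0 324467840 0) (P.cons (P.lf 0 45710975 0) (P.cons (P.lf 10515393 0 0) (P.cons (P.lf 10120691 0 0) (P.cons (P.lf 0 828697 0) P.nil))))) (P.cons (P.cons (P.lf 134533993 0 0) (P.cons (P.lf 0 51062729 0) (P.cons (P.lf 22552698 0 0) (P.cons (P.lf 1986109 0 0) P.nil)))) (P.cons (P.cons (P.lf 0 77111768 0) (P.cons (P.lf 0 1525780 0) (P.cons (P.lf 2176517 0 0) P.nil))) (P.cons (P.cons (P.lf 0 23977322 0) (P.cons (P.lf 9902416 0 0) P.nil)) (P.cons (P.cons (P.lf 16285296 0 0) P.nil) P.nil)))))) 38432777)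
 (EL.cons 10 (TM.mk (P.cons (P.cons (P.lf 239213118 0 0) (P.cons (P.lf 0 166641768 0) (P.cons (P.lf 0 99471198 0) (P.cons (P.lf 19268784 0 0) (P.cons (P.lf 6340212 0 0) (P.cons (P.lf 0 131322 0) P.nil)))))) (P.cons (P.cons (P.lf 19326852 0 0) (P.cons (P.lf 37243404 0 0) (P.cons (P.lf 0 77140272 0) (P.cons (P.lf 14648778 0 0) (P.cons (P.lf 5874414 0 0) P.nil))))) (P.cons (P.cons (P.lf 60885654 0 0) (P.cons (P.lf 0 39559980 0) (P.cons (P.lf 0 29207964 0) (P.cons (P.lf 5641374 0 0) P.nil)))) (P.cons (P.cons (P.lf 44596290 0 0) (P.cons (P.lf 0 42020256 0) (P.cons (P.lf 0 3617022 0) P.nil))) (P.cons (P.cons (P.lf 3152106 0 0) (P.cons (P.lf 0 4370466 0) P.nil)) (P.cons (P.cons (P.lf 0 3319458 0) P.nil) P.nil)))))) 19052022)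
 EL.nil))))
noncomputable def S140_198_660_808_9 : EL := (EL.cons 3 (TM.mk (P.cons (P.lf 0 2391525476 0) (P.cons (P.lf 596040491 0 0) (P.cons (P.lf 83651283 0 0) (P.cons (P.lf 0 1319475 0) (P.cons (P.lf 0 1283523 0) (P.cons (P.lf 0 89452 0) P.nil)))))) 26268)
 (EL.cons 7 (TM.mk (P.cons (P.lf 0 1605653656 0) (P.cons (P.lf 0 315650420 0) (P.cons (P.lf 26061229 0 0) (P.cons (P.lf 6616358 0 0) (P.cons (P.lf 191151 0 0) (P.cons (P.lf 0 76666 0) P.nil)))))) 11720)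
 EL.nil))
noncomputable def S140_198_660_808_10 : EL := (EL.cons 3 (TM.mk (P.cons (P.cons (P.lf 402125500 0 0) (P.cons (P.lf 94486542 0 0) (P.cons (P.lf 0 40743660 0) (P.lf 0 4527072 0)))) (P.cons (P.cons (P.lf 0 225837909 0) (P.cons (P.lf 32175532 0 0) (P.cons (P.lf 0 13874452 0) (P.lf 0 1541603 0)))) (P.cons (P.cons (P.lf 166494549 0 0) (P.cons (P.lf 0 10839302 0) (P.cons (P.lf 4674029 0 0) (P.lf 519337 0 0)))) (P.cons (P.cons (P.lf 0 9639915 0) (P.cons (P.lf 0 5739696 0) (P.cons (P.lf 2475022 0 0) P.nil))) (P.cons (P.cons (P.lf 0 16632405 0) (P.cons (P.lf 0 173869 0) P.nil)) (P.cons (P.cons (P.lf 0 833895 0) P.nil) P.nil)))))) 2940413)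
 (EL.cons 7 (TM.mk (P.cons (P.cons (P.lf 269984278 0 0) (P.cons (P.lf 63437610 0 0) (P.cons (P.lf 0 27355012 0) (P.lf 0 3039445 0)))) (P.cons (P.cons (P.lf 0 31262397 0) (P.cons (P.lf 49884003 0 0) (P.cons (P.lf 0 21510544 0) (P.lf 0 2390058 0)))) (P.cons (P.cons (P.lf 79245546 0 0) (P.cons (P.lf 10591206 0 0) (P.cons (P.lf 0 4567048 0) (P.lf 0 507447 0)))) (P.cons (P.cons (P.lf 35359394 0 0) (P.cons (P.lf 0 1546771 0) (P.cons (P.lf 666985 0 0) P.nil))) (P.cons (P.cons (P.lf 0 2204066 0) (P.cons (P.lf 0 929360 0) P.nil)) (P.cons (P.cons (P.lf 0 2429318 0) P.nil) P.nil)))))) 1687335)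
 EL.nil))
noncomputable def S140_198_660_808_11 : EL := (EL.cons 3 (TM.mk (P.cons (P.cons (P.lf 0 67615803 0) (P.cons (P.lf 0 31775072 0) (P.cons (P.lf 9968709 0 0) (P.cons (P.lf 4741891 0 0) (P.cons (P.lf 0 336416 0) (P.cons (P.lf 0 154251 0) P.nil)))))) (P.cons (P.cons (P.lf 59095588 0 0) (P.cons (P.lf 0 894469 0) (P.cons (P.lf 0 3087124 0) (P.cons (P.lf 3037903 0 0) (P.cons (P.lf 0 312965 0) P.nil))))) (P.cons (P.cons (P.lf 0 64953918 0) (P.cons (P.lf 0 4768388 0) (P.cons (P.lf 1483680 0 0) (P.cons (P.lf 722201 0 0) P.nil)))) (P.cons (P.cons (P.lf 20602726 0 0) (P.cons (P.lf 0 5037436 0) (P.cons (P.lf 2655301 0 0) P.nil))) (P.cons (P.cons (P.lf 0 4951872 0) (P.cons (P.lf 652597 0 0) P.nil)) (P.cons (P.cons (P.lf 0 2025474 0) P.nil) P.nil)))))) 12842820)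
 (EL.cons 7 (TM.mk (P.cons (P.cons (P.lf 0 45396782 0) (P.cons (P.lf 0 21333564 0) (P.cons (P.lf 6692922 0 0) (P.cons (P.lf 3183673 0 0) (P.cons (P.lf 0 225868 0) (P.cons (P.lf 0 103563 0) P.nil)))))) (P.cons (P.cons (P.lf 19437706 0 0) (P.cons (P.lf 0 10111409 0) (P.cons (P.lf 911145 0 0) (P.cons (P.lf 3458963 0 0) (P.cons (P.lf 0 310819 0) P.nil))))) (P.cons (P.cons (P.lf 0 31816361 0) (P.cons (P.lf 0 6239537 0) (P.cons (P.lf 941232 0 0) (P.cons (P.lf 1807609 0 0) P.nil)))) (P.cons (P.cons (P.lf 0 2422124 0) (P.cons (P.lf 0 5810800 0) (P.cons (P.lf 2247401 0 0) P.nil))) (P.cons (P.cons (P.lf 0 1758530 0) (P.cons (P.lf 0 1819196 0) P.nil)) (P.cons (P.cons (P.lf 0 2579358 0) P.nil) P.nil)))))) 7667695)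
 EL.nil))
noncomputable def S140_198_660_808_12 : EL := (EL.cons 4 (TM.mk (P.cons (P.lf 2391525476 0 0) (P.cons (P.lf 0 596040491 0) (P.cons (P.lf 0 83651283 0) (P.cons (P.lf 1319475 0 0) (P.cons (P.lf 1283523 0 0) (P.cons (P.lf 89452 0 0) P.nil)))))) 26268)
 (EL.cons 8 (TM.mk (P.cons (P.lf 1605653656 0 0) (P.cons (P.lf 315650420 0 0) (P.cons (P.lf 0 26061229 0) (P.cons (P.lf 0 6616358 0) (P.cons (P.lf 0 191151 0) (P.cons (P.lf 76666 0 0) P.nil)))))) 11720)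
 EL.nil))
noncomputable def S140_198_660_808_13 : EL := (EL.cons 4 (TM.mk (P.cons (P.cons (P.lf 0 402125500 0) (P.cons (P.lf 0 94486542 0) (P.cons (P.lf 40743660 0 0) (P.lf 4527072 0 0)))) (P.cons (P.cons (P.lf 225837909 0 0) (P.cons (P.lf 0 32175532 0) (P.cons (P.lf 13874452 0 0) (P.lf 1541603 0 0)))) (P.cons (P.cons (P.lf 0 166494549 0) (P.cons (P.lf 10839302 0 0) (P.cons (P.lf 0 4674029 0) (P.lf 0 519337 0)))) (P.cons (P.cons (P.lf 9639915 0 0) (P.cons (P.lf 5739696 0 0) (P.cons (P.lf 0 2475022 0) P.nil))) (P.cons (P.cons (P.lf 16632405 0 0) (P.cons (P.lf 173869 0 0) P.nil)) (P.cons (P.cons (P.lf 833895 0 0) P.nil) P.nil)))))) 2940413)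
 (EL.cons 8 (TM.mk (P.cons (P.cons (P.lf 0 269984278 0) (P.cons (P.lf 0 63437610 0) (P.cons (P.lf 27355012 0 0) (P.lf 3039445 0 0)))) (P.cons (P.cons (P.lf 31262397 0 0) (P.cons (P.lf 0 49884003 0) (P.cons (P.lf 21510544 0 0) (P.lf 2390058 0 0)))) (P.cons (P.cons (P.lf 0 79245546 0) (P.cons (P.lf 0 10591206 0) (P.cons (P.lf 4567048 0 0) (P.lf 507447 0 0)))) (P.cons (P.cons (P.lf 0 35359394 0) (P.cons (P.lf 1546771 0 0) (P.cons (P.lf 0 666985 0) P.nil))) (P.cons (P.cons (P.lf 2204066 0 0) (P.cons (P.lf 929360 0 0) P.nil)) (P.cons (P.cons (P.lf 2429318 0 0) P.nil) P.nil)))))) 1687335)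
 EL.nil))
noncomputable def S140_198_660_808_14 : EL := (EL.cons 4 (TM.mk (P.cons (P.cons (P.lf 67615803 0 0) (P.cons (P.lf 31775072 0 0) (P.cons (P.lf 0 9968709 0) (P.cons (P.lf 0 4741891 0) (P.cons (P.lf 336416 0 0) (P.cons (P.lf 154251 0 0) P.nil)))))) (P.cons (P.cons (P.lf 0 59095588 0) (P.cons (P.lf 894469 0 0) (P.cons (P.lf 3087124 0 0) (P.cons (P.lf 0 3037903 0) (P.cons (P.lf 312965 0 0) P.nil))))) (P.cons (P.cons (P.lf 64953918 0 0) (P.cons (P.lf 4768388 0 0) (P.cons (P.lf 0 1483680 0) (P.cons (P.lf 0 722201 0) P.nil)))) (P.cons (P.cons (P.lf 0 20602726 0) (P.cons (P.lf 5037436 0 0) (P.cons (P.lf 0 2655301 0) P.nil))) (P.cons (P.cons (P.lf 4951872 0 0) (P.cons (P.lf 0 652597 0) P.nil)) (P.cons (P.cons (P.lf 2025474 0 0) P.nil) P.nil)))))) 12842820)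
 (EL.cons 8 (TM.mk (P.cons (P.cons (P.lf 45396782 0 0) (P.cons (P.lf 21333564 0 0) (P.cons (P.lf 0 6692922 0) (P.cons (P.lf 0 3183673 0) (P.cons (P.lf 225868 0 0) (P.cons (P.lf 103563 0 0) P.nil)))))) (P.cons (P.cons (P.lf 0 19437706 0) (P.cons (P.lf 10111409 0 0) (P.cons (P.lf 0 911145 0) (P.cons (P.lf 0 3458963 0) (P.cons (P.lf 310819 0 0) P.nil))))) (P.cons (P.cons (P.lf 31816361 0 0) (P.cons (P.lf 6239537 0 0) (P.cons (P.lf 0 941232 0) (P.cons (P.lf 0 1807609 0) P.nil)))) (P.cons (P.cons (P.lf 2422124 0 0) (P.cons (P.lf 5810800 0 0) (P.cons (P.lf 0 2247401 0) P.nil))) (P.cons (P.cons (P.lf 1758530 0 0) (P.cons (P.lf 1819196 0 0) P.nil)) (P.cons (P.cons (P.lf 2579358 0 0) P.nil) P.nil)))))) 7667695)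
 EL.nil))
noncomputable def S140_198_660_808_15 : EL := (EL.cons 4 (TM.mk (P.cons (P.lf 0 1420426890 0) (P.cons (P.lf 708026696 0 0) (P.cons (P.lf 11137148 0 0) (P.cons (P.lf 0 26332890 0) (P.cons (P.lf 0 2871894 0) (P.cons (P.lf 328560 0 0) P.nil)))))) 125439)
 (EL.cons 8 (TM.mk (P.cons (P.lf 0 953664785 0) (P.cons (P.lf 50204141 0 0) (P.cons (P.lf 95561522 0 0) (P.cons (P.lf 6103412 0 0) (P.cons (P.lf 0 2022563 0) (P.cons (P.lf 0 339035 0) P.nil)))))) 59114)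
 EL.nil))
noncomputable def S140_198_660_808_16 : EL := (EL.cons 4 (TM.mk (P.cons (P.cons (P.lf 238839134 0 0) (P.cons (P.lf 56119504 0 0) (P.cons (P.lf 0 24199362 0) (P.lf 0 2688816 0)))) (P.cons (P.cons (P.lf 0 193660505 0) (P.cons (P.lf 5123715 0 0) (P.cons (P.lf 0 2209403 0) (P.lf 0 245488 0)))) (P.cons (P.cons (P.lf 123964294 0 0) (P.cons (P.lf 0 13163762 0) (P.cons (P.lf 5676362 0 0) (P.lf 630706 0 0)))) (P.cons (P.cons (P.lf 0 25547884 0) (P.cons (P.lf 0 2442006 0) (P.cons (P.lf 1053020 0 0) P.nil))) (P.cons (P.cons (P.lf 0 11856450 0) (P.cons (P.lf 1012217 0 0) P.nil)) (P.cons (P.cons (P.lf 2158552 0 0) P.nil) P.nil)))))) 3303766)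
 (EL.cons 8 (TM.mk (P.cons (P.cons (P.lf 160354942 0 0) (P.cons (P.lf 37678247 0 0) (P.cons (P.lf 0 16247284 0) (P.lf 0 1805253 0)))) (P.cons (P.cons (P.lf 0 58533346 0) (P.cons (P.lf 20237634 0 0) (P.cons (P.lf 0 8726695 0) (P.lf 0 969631 0)))) (P.cons (P.cons (P.lf 46086029 0 0) (P.cons (P.lf 0 2411599 0) (P.cons (P.lf 1039908 0 0) (P.lf 115545 0 0)))) (P.cons (P.cons (P.lf 10008791 0 0) (P.cons (P.lf 0 3502042 0) (P.cons (P.lf 1510120 0 0) P.nil))) (P.cons (P.cons (P.lf 0 8113786 0) (P.cons (P.lf 0 506483 0) P.nil)) (P.cons (P.cons (P.lf 0 1829200 0) P.nil) P.nil)))))) 2099023)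
 EL.nil))
noncomputable def S140_198_660_808_17 : EL := (EL.cons 4 (TM.mk (P.cons (P.cons (P.lf 0 40159850 0) (P.cons (P.lf 0 18872542 0) (P.cons (P.lf 5920832 0 0) (P.cons (P.lf 2816407 0 0) (P.cons (P.lf 0 199811 0) (P.cons (P.lf 0 91616 0) P.nil)))))) (P.cons (P.cons (P.lf 45108388 0 0) (P.cons (P.lf 4172344 0 0) (P.cons (P.lf 0 3309223 0) (P.cons (P.lf 1102403 0 0) (P.cons (P.lf 0 136083 0) P.nil))))) (P.cons (P.cons (P.lf 0 45921943 0) (P.cons (P.lf 0 2039610 0) (P.cons (P.lf 1131101 0 0) (P.cons (P.lf 0 119262 0) P.nil)))) (P.cons (P.cons (P.lf 20601965 0 0) (P.cons (P.lf 0 2277917 0) (P.cons (P.lf 1424869 0 0) P.nil))) (P.cons (P.cons (P.lf 0 4643678 0) (P.cons (P.lf 1221929 0 0) P.nil)) (P.cons (P.cons (P.lf 0 901968 0) P.nil) P.nil)))))) 10354667)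
 (EL.cons 8 (TM.mk (P.cons (P.cons (P.lf 0 26963045 0) (P.cons (P.lf 0 12670894 0) (P.cons (P.lf 3975206 0 0) (P.cons (P.lf 1890916 0 0) (P.cons (P.lf 0 134152 0) (P.cons (P.lf 0 61510 0) P.nil)))))) (P.cons (P.cons (P.lf 18264872 0 0) (P.cons (P.lf 0 2847617 0) (P.cons (P.lf 0 449574 0) (P.cons (P.lf 1583149 0 0) (P.cons (P.lf 0 151173 0) P.nil))))) (P.cons (P.cons (P.lf 0 20831276 0) (P.cons (P.lf 0 1765942 0) (P.cons (P.lf 285116 0 0) (P.cons (P.lf 495448 0 0) P.nil)))) (P.cons (P.cons (P.lf 2852424 0 0) (P.cons (P.lf 0 2324575 0) (P.cons (P.lf 1178760 0 0) P.nil))) (P.cons (P.cons (P.lf 0 33037 0) (P.cons (P.lf 0 100821 0) P.nil)) (P.cons (P.cons (P.lf 0 1226595 0) P.nil) P.nil)))))) 6983790)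
 EL.nil))
noncomputable def S140_198_660_808_18 : EL := (EL.cons 4 (TM.mk (P.cons (P.lf 843650871 0 0) (P.cons (P.lf 0 630789950 0) (P.cons (P.lf 68683740 0 0) (P.cons (P.lf 32463552 0 0) (P.cons (P.lf 0 1740131 0) (P.cons (P.lf 0 1365121 0) P.nil)))))) 264319)
 (EL.cons 8 (TM.mk (P.cons (P.lf 566421357 0 0) (P.cons (P.lf 0 170987672 0) (P.cons (P.lf 0 69138754 0) (P.cons (P.lf 11876237 0 0) (P.cons (P.lf 4377599 0 0) (P.cons (P.lf 2637 0 0) P.nil)))))) 178385)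
 EL.nil))
noncomputable def S140_198_660_808_19 : EL := (EL.cons 4 (TM.mk (P.cons (P.cons (P.lf 0 141856539 0) (P.cons (P.lf 0 33331717 0) (P.cons (P.lf 14373012 0 0) (P.lf 1597000 0 0)))) (P.cons (P.cons (P.lf 150378005 0 0) (P.cons (P.lf 5264083 0 0) (P.cons (P.lf 0 2269931 0) (P.lf 0 252214 0)))) (P.cons (P.cons (P.lf 0 97332912 0) (P.cons (P.lf 9742846 0 0) (P.cons (P.lf 0 4201225 0) (P.lf 0 466802 0)))) (P.cons (P.cons (P.lf 29422606 0 0) (P.cons (P.lf 0 410143 0) (P.cons (P.lf 176857 0 0) P.nil))) (P.cons (P.cons (P.lf 5822920 0 0) (P.cons (P.lf 0 1255729 0) P.nil)) (P.cons (P.cons (P.lf 0 3552098 0) P.nil) P.nil)))))) 3687946)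
 (EL.cons 8 (TM.mk (P.cons (P.cons (P.lf 0 95241499 0) (P.cons (P.lf 0 22378685 0) (P.cons (P.lf 9649940 0 0) (P.lf 1072215 0 0)))) (P.cons (P.cons (P.lf 58502461 0 0) (P.cons (P.lf 0 6442531 0) (P.cons (P.lf 2778091 0 0) (P.lf 308676 0 0)))) (P.cons (P.cons (P.lf 0 32705630 0) (P.cons (P.lf 5210857 0 0) (P.cons (P.lf 0 2246980 0) (P.lf 0 249664 0)))) (P.cons (P.cons (P.lf 0 391183 0) (P.cons (P.lf 2131114 0 0) (P.cons (P.lf 0 918960 0) P.nil))) (P.cons (P.cons (P.lf 7226204 0 0) (P.cons (P.lf 0 286322 0) P.nil)) (P.cons (P.cons (P.lf 93296 0 0) P.nil) P.nil)))))) 2280780)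
 EL.nil))
noncomputable def S140_198_660_808_20 : EL := (EL.cons 4 (TM.mk (P.cons (P.cons (P.lf 23852612 0 0) (P.cons (P.lf 11209191 0 0) (P.cons (P.lf 0 3516630 0) (P.cons (P.lf 0 1672782 0) (P.cons (P.lf 118676 0 0) (P.cons (P.lf 54414 0 0) P.nil)))))) (P.cons (P.cons (P.lf 0 32736548 0) (P.cons (P.lf 0 5271799 0) (P.cons (P.lf 2841936 0 0) (P.cons (P.lf 0 237855 0) (P.cons (P.lf 51247 0 0) P.nil))))) (P.cons (P.cons (P.lf 33117954 0 0) (P.cons (P.lf 1436956 0 0) (P.cons (P.lf 0 1038661 0) (P.cons (P.lf 292531 0 0) P.nil)))) (P.cons (P.cons (P.lf 0 18083825 0) (P.cons (P.lf 1143895 0 0) (P.cons (P.lf 0 749543 0) P.nil))) (P.cons (P.cons (P.lf 4851737 0 0) (P.cons (P.lf 0 1100674 0) P.nil)) (P.cons (P.cons (P.lf 277889 0 0) P.nil) P.nil)))))) 9109891)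
 (EL.cons 8 (TM.mk (P.cons (P.cons (P.lf 16014479 0 0) (P.cons (P.lf 7525773 0 0) (P.cons (P.lf 0 2361041 0) (P.cons (P.lf 0 1123094 0) (P.cons (P.lf 79678 0 0) (P.cons (P.lf 36533 0 0) P.nil)))))) (P.cons (P.cons (P.lf 0 14839563 0) (P.cons (P.lf 0 184330 0) (P.cons (P.lf 855463 0 0) (P.cons (P.lf 0 660389 0) (P.cons (P.lf 69929 0 0) P.nil))))) (P.cons (P.cons (P.lf 14516124 0 0) (P.cons (P.lf 364100 0 0) (P.cons (P.lf 0 153306 0) (P.cons (P.lf 0 20633 0) P.nil)))) (P.cons (P.cons (P.lf 0 4389502 0) (P.cons (P.lf 1064245 0 0) (P.cons (P.lf 0 668552 0) P.nil))) (P.cons (P.cons (P.lf 11701 0 0) (P.cons (P.lf 0 315935 0) P.nil)) (P.cons (P.cons (P.lf 784498 0 0) P.nil) P.nil)))))) 5494137)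
 EL.nil))
noncomputable def S140_198_660_808_21 : EL := (EL.cons 4 (TM.mk (P.cons (P.cons (P.lf 0 638985072 0) (P.cons (P.lf 283459626 0 0) (P.cons (P.lf 0 122230980 0) (P.lf 0 13581216 0)))) (P.cons (P.cons (P.lf 1446566358 0 0) (P.cons (P.lf 96526596 0 0) (P.cons (P.lf 0 41623356 0) (P.lf 0 4624809 0)))) (P.cons (P.cons (P.lf 532895097 0 0) (P.cons (P.lf 0 32517906 0) (P.cons (P.lf 14022087 0 0) (P.lf 1558011 0 0)))) (P.cons (P.cons (P.lf 0 107918415 0) (P.cons (P.lf 0 17219088 0) (P.cons (P.lf 7425066 0 0) P.nil))) (P.cons (P.cons (P.lf 0 58512900 0) (P.cons (P.lf 0 521607 0) P.nil)) (P.cons (P.cons (P.lf 0 1516005 0) P.nil) P.nil)))))) 9184971)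
 (EL.cons 8 (TM.mk (P.cons (P.cons (P.lf 338392950 0 0) (P.cons (P.lf 0 150114219 0) (P.cons (P.lf 64730949 0 0) (P.lf 7192329 0 0)))) (P.cons (P.cons (P.lf 0 916932273 0) (P.cons (P.lf 15805038 0 0) (P.cons (P.lf 0 6815307 0) (P.lf 0 757251 0)))) (P.cons (P.cons (P.lf 82630962 0 0) (P.cons (P.lf 29668227 0 0) (P.cons (P.lf 0 12793275 0) (P.lf 0 1421469 0)))) (P.cons (P.cons (P.lf 124736646 0 0) (P.cons (P.lf 337716 0 0) (P.cons (P.lf 0 145626 0) P.nil))) (P.cons (P.cons (P.lf 0 544971 0) (P.cons (P.lf 0 2245173 0) P.nil)) (P.cons (P.cons (P.lf 0 7126434 0) P.nil) P.nil)))))) 5886477)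
 (EL.cons 11 (TM.mk (P.cons (P.cons (P.lf 711325530 0 0) (P.cons (P.lf 0 662665536 0) (P.cons (P.lf 0 68011041 0) (P.cons (P.lf 14144403 0 0) (P.lf 1178700 0 0))))) (P.cons (P.cons (P.lf 279674511 0 0) (P.cons (P.lf 0 260542680 0) (P.cons (P.lf 0 26740155 0) (P.cons (P.lf 5561208 0 0) (P.lf 463434 0 0))))) (P.cons (P.cons (P.lf 4399236 0 0) (P.cons (P.lf 0 4098297 0) (P.cons (P.lf 0 420618 0) (P.cons (P.lf 87474 0 0) P.nil)))) (P.cons (P.cons (P.lf 0 10401639 0) (P.cons (P.lf 9690087 0 0) (P.cons (P.lf 994518 0 0) P.nil))) (P.cons (P.cons (P.lf 0 1134414 0) (P.cons (P.lf 1056810 0 0) P.nil)) (P.cons (P.cons (P.lf 129783 0 0) P.nil) P.nil)))))) 588420)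
 EL.nil)))
noncomputable def S140_198_660_808_22 : EL := (EL.cons 4 (TM.mk (P.cons (P.cons (P.lf 107442798 0 0) (P.cons (P.lf 0 22417011 0) (P.cons (P.lf 0 1532709 0) (P.cons (P.lf 10732473 0 0) (P.cons (P.lf 0 1009251 0) (P.cons (P.lf 0 462756 0) P.nil)))))) (P.cons (P.cons (P.lf 0 276797391 0) (P.cons (P.lf 0 43605090 0) (P.cons (P.lf 8384511 0 0) (P.cons (P.lf 11074365 0 0) (P.cons (P.lf 0 938898 0) P.nil))))) (P.cons (P.cons (P.lf 26255886 0 0) (P.cons (P.lf 0 60215148 0) (P.cons (P.lf 24247944 0 0) (P.cons (P.lf 4366263 0 0) P.nil)))) (P.cons (P.cons (P.lf 0 38012208 0) (P.cons (P.lf 0 20156184 0) (P.cons (P.lf 10140882 0 0) P.nil))) (P.cons (P.cons (P.lf 0 44525097 0) (P.cons (P.lf 5596641 0 0) P.nil)) (P.cons (P.cons (P.lf 1931655 0 0) P.nil) P.nil)))))) 34046025)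
 (EL.cons 8 (TM.mk (P.cons (P.cons (P.lf 0 56899428 0) (P.cons (P.lf 11871573 0 0) (P.cons (P.lf 811689 0 0) (P.cons (P.lf 0 5683692 0) (P.cons (P.lf 534477 0 0) (P.cons (P.lf 245064 0 0) P.nil)))))) (P.cons (P.cons (P.lf 171952773 0 0) (P.cons (P.lf 17799783 0 0) (P.cons (P.lf 0 4802124 0) (P.cons (P.lf 0 3330864 0) (P.cons (P.lf 258939 0 0) P.nil))))) (P.cons (P.cons (P.lf 0 83175177 0) (P.cons (P.lf 22411596 0 0) (P.cons (P.lf 0 10805733 0) (P.cons (P.lf 0 89250 0) P.nil)))) (P.cons (P.cons (P.lf 37344822 0 0) (P.cons (P.lf 0 2142510 0) (P.cons (P.lf 35442 0 0) P.nil))) (P.cons (P.cons (P.lf 11109396 0 0) (P.cons (P.lf 0 5860806 0) P.nil)) (P.cons (P.cons (P.lf 0 9432327 0) P.nil) P.nil)))))) 15382530)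
 (EL.cons 11 (TM.mk (P.cons (P.cons (P.lf 0 119606559 0) (P.cons (P.lf 83320884 0 0) (P.cons (P.lf 49735599 0 0) (P.cons (P.lf 0 9634392 0) (P.cons (P.lf 0 3170106 0) (P.cons (P.lf 65661 0 0) P.nil)))))) (P.cons (P.cons (P.lf 0 9663426 0) (P.cons (P.lf 0 18621702 0) (P.cons (P.lf 38570136 0 0) (P.cons (P.lf 0 7324389 0) (P.cons (P.lf 0 2937207 0) P.nil))))) (P.cons (P.cons (P.lf 0 30442827 0) (P.cons (P.lf 19779990 0 0) (P.cons (P.lf 14603982 0 0) (P.cons (P.lf 0 2820687 0) P.nil)))) (P.cons (P.cons (P.lf 0 22298145 0) (P.cons (P.lf 21010128 0 0) (P.cons (P.lf 1808511 0 0) P.nil))) (P.cons (P.cons (P.lf 0 1576053 0) (P.cons (P.lf 2185233 0 0) P.nil)) (P.cons (P.cons (P.lf 1659729 0 0) P.nil) P.nil)))))) 9526011)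
 EL.nil)))
noncomputable def S140_198_660_808_23 : EL := (EL.cons 4 (TM.mk (P.cons (P.cons (P.lf 379519929 0 0) (P.cons (P.lf 0 168358512 0) (P.cons (P.lf 72598083 0 0) (P.lf 8066451 0 0)))) (P.cons (P.cons (P.lf 0 953764038 0) (P.cons (P.lf 0 15371142 0) (P.cons (P.lf 6628209 0 0) (P.lf 736461 0 0)))) (P.cons (P.cons (P.lf 0 115650891 0) (P.cons (P.lf 39491286 0 0) (P.cons (P.lf 0 17029086 0) (P.lf 0 1892118 0)))) (P.cons (P.cons (P.lf 173242626 0 0) (P.cons (P.lf 7326018 0 0) (P.cons (P.lf 0 3159063 0) P.nil))) (P.cons (P.cons (P.lf 29578842 0 0) (P.cons (P.lf 0 3036654 0) P.nil)) (P.cons (P.cons (P.lf 0 10624698 0) P.nil) P.nil)))))) 11351451)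
 (EL.cons 8 (TM.mk (P.cons (P.cons (P.lf 0 200985708 0) (P.cons (P.lf 89159103 0 0) (P.cons (P.lf 0 38446413 0) (P.lf 0 4271823 0)))) (P.cons (P.cons (P.lf 594696102 0 0) (P.cons (P.lf 0 31608417 0) (P.cons (P.lf 13629903 0 0) (P.lf 1514430 0 0)))) (P.cons (P.cons (P.lf 0 177779745 0) (P.cons (P.lf 0 18400233 0) (P.cons (P.lf 7934388 0 0) (P.lf 881595 0 0)))) (P.cons (P.cons (P.lf 0 81014763 0) (P.cons (P.lf 4568691 0 0) (P.cons (P.lf 0 1970073 0) P.nil))) (P.cons (P.cons (P.lf 20697495 0 0) (P.cons (P.lf 2042523 0 0) P.nil)) (P.cons (P.cons (P.lf 7001112 0 0) P.nil) P.nil)))))) 6860667)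
 (EL.cons 11 (TM.mk (P.cons (P.cons (P.lf 0 422485947 0) (P.cons (P.lf 393584745 0 0) (P.cons (P.lf 40394598 0 0) (P.cons (P.lf 0 8400951 0) (P.lf 0 700077 0))))) (P.cons (P.cons (P.lf 0 60814095 0) (P.cons (P.lf 56653956 0 0) (P.cons (P.lf 5814537 0 0) (P.cons (P.lf 0 1209261 0) (P.lf 0 100770 0))))) (P.cons (P.cons (P.lf 53564643 0 0) (P.cons (P.lf 0 49900419 0) (P.cons (P.lf 0 5121405 0) (P.cons (P.lf 1065111 0 0) P.nil)))) (P.cons (P.cons (P.lf 12406323 0 0) (P.cons (P.lf 0 11557638 0) (P.cons (P.lf 0 1186188 0) P.nil))) (P.cons (P.cons (P.lf 0 1092960 0) (P.cons (P.lf 1018194 0 0) P.nil)) (P.cons (P.cons (P.lf 0 567498 0) P.nil) P.nil)))))) 1482894)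
 EL.nil)))
noncomputable def S140_198_660_808_24 : EL := (EL.cons 4 (TM.mk (P.cons (P.cons (P.lf 0 63814767 0) (P.cons (P.lf 13314399 0 0) (P.cons (P.lf 910341 0 0) (P.cons (P.lf 0 6374463 0) (P.cons (P.lf 599436 0 0) (P.cons (P.lf 274851 0 0) P.nil)))))) (P.cons (P.cons (P.lf 180306105 0 0) (P.cons (P.lf 22580535 0 0) (P.cons (P.lf 0 5206797 0) (P.cons (P.lf 0 4988817 0) (P.cons (P.lf 408252 0 0) P.nil))))) (P.cons (P.cons (P.lf 0 54336174 0) (P.cons (P.lf 28843791 0 0) (P.cons (P.lf 0 13192563 0) (P.cons (P.lf 0 731019 0) P.nil)))) (P.cons (P.cons (P.lf 20677971 0 0) (P.cons (P.lf 2159505 0 0) (P.cons (P.lf 0 2259021 0) P.nil))) (P.cons (P.cons (P.lf 21420357 0 0) (P.cons (P.lf 0 7537299 0) P.nil)) (P.cons (P.cons (P.lf 0 8450724 0) P.nil) P.nil)))))) 25153026)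
 (EL.cons 8 (TM.mk (P.cons (P.cons (P.lf 33794946 0 0) (P.cons (P.lf 0 7051023 0) (P.cons (P.lf 0 482094 0) (P.cons (P.lf 3375780 0 0) (P.cons (P.lf 0 317448 0) (P.cons (P.lf 0 145554 0) P.nil)))))) (P.cons (P.cons (P.lf 0 110552658 0) (P.cons (P.lf 0 8814705 0) (P.cons (P.lf 2972334 0 0) (P.cons (P.lf 1136991 0 0) (P.cons (P.lf 0 74676 0) P.nil))))) (P.cons (P.cons (P.lf 73672995 0 0) (P.cons (P.lf 0 10429680 0) (P.cons (P.lf 5723988 0 0) (P.cons (P.lf 0 558129 0) P.nil)))) (P.cons (P.cons (P.lf 0 30901959 0) (P.cons (P.lf 4955976 0 0) (P.cons (P.lf 0 1720635 0) P.nil))) (P.cons (P.cons (P.lf 0 2836422 0) (P.cons (P.lf 3619809 0 0) P.nil)) (P.cons (P.cons (P.lf 7996302 0 0) P.nil) P.nil)))))) 11001687)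
 (EL.cons 11 (TM.mk (P.cons (P.cons (P.lf 71039331 0 0) (P.cons (P.lf 0 49487754 0) (P.cons (P.lf 0 29540049 0) (P.cons (P.lf 5722266 0 0) (P.cons (P.lf 1882857 0 0) (P.cons (P.lf 0 38997 0) P.nil)))))) (P.cons (P.cons (P.lf 0 11965635 0) (P.cons (P.lf 23394051 0 0) (P.cons (P.lf 0 15546141 0) (P.cons (P.lf 2924097 0 0) (P.cons (P.lf 1275264 0 0) P.nil))))) (P.cons (P.cons (P.lf 14165976 0 0) (P.cons (P.lf 0 12773706 0) (P.cons (P.lf 0 1931184 0) (P.cons (P.lf 390951 0 0) P.nil)))) (P.cons (P.cons (P.lf 8575836 0 0) (P.cons (P.lf 0 9964965 0) (P.cons (P.lf 1872648 0 0) P.nil))) (P.cons (P.cons (P.lf 0 2955828 0) (P.cons (P.lf 2202663 0 0) P.nil)) (P.cons (P.cons (P.lf 0 1666611 0) P.nil) P.nil)))))) 8089242)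
 EL.nil)))
noncomputable def S140_198_660_808_25 : EL := (EL.cons 4 (TM.mk (P.cons (P.cons (P.lf 0 225412740 0) (P.cons (P.lf 99995154 0 0) (P.cons (P.lf 0 43119033 0) (P.lf 0 4791000 0)))) (P.cons (P.cons (P.lf 622659981 0 0) (P.cons (P.lf 0 15792252 0) (P.cons (P.lf 6809796 0 0) (P.lf 756645 0 0)))) (P.cons (P.cons (P.lf 0 64609596 0) (P.cons (P.lf 0 29228538 0) (P.cons (P.lf 12603675 0 0) (P.lf 1400406 0 0)))) (P.cons (P.cons (P.lf 0 139954467 0) (P.cons (P.lf 1230429 0 0) (P.cons (P.lf 0 530574 0) P.nil))) (P.cons (P.cons (P.lf 5865609 0 0) (P.cons (P.lf 3767190 0 0) P.nil)) (P.cons (P.cons (P.lf 14621571 0 0) P.nil) P.nil)))))) 10231008)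
 (EL.cons 8 (TM.mk (P.cons (P.cons (P.lf 119373807 0 0) (P.cons (P.lf 0 52955316 0) (P.cons (P.lf 22834929 0 0) (P.lf 2537214 0 0)))) (P.cons (P.cons (P.lf 0 382966422 0) (P.cons (P.lf 31971627 0 0) (P.cons (P.lf 0 13786524 0) (P.lf 0 1531833 0)))) (P.cons (P.cons (P.lf 189447162 0 0) (P.cons (P.lf 8102010 0 0) (P.cons (P.lf 0 3493677 0) (P.lf 0 388185 0)))) (P.cons (P.cons (P.lf 34222311 0 0) (P.cons (P.lf 0 6123174 0) (P.cons (P.lf 2640381 0 0) P.nil))) (P.cons (P.cons (P.lf 0 28109769 0) (P.cons (P.lf 0 937170 0) P.nil)) (P.cons (P.cons (P.lf 0 2904369 0) P.nil) P.nil)))))) 6857982)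
 (EL.cons 11 (TM.mk (P.cons (P.cons (P.lf 250932054 0 0) (P.cons (P.lf 0 233766423 0) (P.cons (P.lf 0 23992038 0) (P.cons (P.lf 4989675 0 0) (P.lf 415806 0 0))))) (P.cons (P.cons (P.lf 0 26419824 0) (P.cons (P.lf 24612510 0 0) (P.cons (P.lf 2526042 0 0) (P.cons (P.lf 0 525345 0) (P.lf 0 43776 0))))) (P.cons (P.cons (P.lf 0 49593636 0) (P.cons (P.lf 46201059 0 0) (P.cons (P.lf 4741731 0 0) (P.cons (P.lf 0 986148 0) P.nil)))) (P.cons (P.cons (P.lf 0 564519 0) (P.cons (P.lf 525903 0 0) (P.cons (P.lf 53973 0 0) P.nil))) (P.cons (P.cons (P.lf 3753051 0 0) (P.cons (P.lf 0 3496314 0) P.nil)) (P.cons (P.cons (P.lf 444231 0 0) P.nil) P.nil)))))) 1818744)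
 EL.nil)))
noncomputable def S140_198_660_808_26 : EL := (EL.cons 4 (TM.mk (P.cons (P.cons (P.lf 37902255 0 0) (P.cons (P.lf 0 7907976 0) (P.cons (P.lf 0 540687 0) (P.cons (P.lf 3786060 0 0) (P.cons (P.lf 0 356028 0) (P.cons (P.lf 0 163245 0) P.nil)))))) (P.cons (P.cons (P.lf 0 116537715 0) (P.cons (P.lf 0 11440614 0) (P.cons (P.lf 3227289 0 0) (P.cons (P.lf 2019465 0 0) (P.cons (P.lf 0 153744 0) P.nil))))) (P.cons (P.cons (P.lf 57637170 0 0) (P.cons (P.lf 0 13512369 0) (P.cons (P.lf 7083774 0 0) (P.cons (P.lf 0 436731 0) P.nil)))) (P.cons (P.cons (P.lf 0 16558026 0) (P.cons (P.lf 3451821 0 0) (P.cons (P.lf 0 719613 0) P.nil))) (P.cons (P.cons (P.lf 0 10829097 0) (P.cons (P.lf 5383971 0 0) P.nil)) (P.cons (P.cons (P.lf 8581389 0 0) P.nil) P.nil)))))) 21033933)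
 (EL.cons 8 (TM.mk (P.cons (P.cons (P.lf 0 20072229 0) (P.cons (P.lf 4187898 0 0) (P.cons (P.lf 286335 0 0) (P.cons (P.lf 0 2005017 0) (P.cons (P.lf 188544 0 0) (P.cons (P.lf 86451 0 0) P.nil)))))) (P.cons (P.cons (P.lf 70664448 0 0) (P.cons (P.lf 4191669 0 0) (P.cons (P.lf 0 1836756 0) (P.cons (P.lf 0 175593 0) (P.cons (P.lf 0 2637 0) P.nil))))) (P.cons (P.cons (P.lf 0 59420295 0) (P.cons (P.lf 4743312 0 0) (P.cons (P.lf 0 2969739 0) (P.cons (P.lf 569934 0 0) P.nil)))) (P.cons (P.cons (P.lf 26951841 0 0) (P.cons (P.lf 0 4668264 0) (P.cons (P.lf 1931178 0 0) P.nil))) (P.cons (P.cons (P.lf 0 1333680 0) (P.cons (P.lf 0 1627872 0) P.nil)) (P.cons (P.cons (P.lf 0 5800851 0) P.nil) P.nil)))))) 9742359)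
 (EL.cons 11 (TM.mk (P.cons (P.cons (P.lf 0 42193227 0) (P.cons (P.lf 29392845 0 0) (P.cons (P.lf 17545068 0 0) (P.cons (P.lf 0 3398694 0) (P.cons (P.lf 0 1118307 0) (P.cons (P.lf 23163 0 0) P.nil)))))) (P.cons (P.cons (P.lf 17622720 0 0) (P.cons (P.lf 0 21220290 0) (P.cons (P.lf 4860738 0 0) (P.cons (P.lf 0 889686 0) (P.cons (P.lf 0 478716 0) P.nil))))) (P.cons (P.cons (P.lf 0 8709174 0) (P.cons (P.lf 10021710 0 0) (P.cons (P.lf 0 1767951 0) (P.cons (P.lf 319524 0 0) P.nil)))) (P.cons (P.cons (P.lf 0 3268449 0) (P.cons (P.lf 4529967 0 0) (P.cons (P.lf 0 1711404 0) P.nil))) (P.cons (P.cons (P.lf 3300630 0 0) (P.cons (P.lf 0 3040614 0) P.nil)) (P.cons (P.cons (P.lf 728082 0 0) P.nil) P.nil)))))) 7262685)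
 EL.nil)))
noncomputable def S140_198_660_808_27 : EL := (EL.cons 13 (TM.mk (P.lf 0 4294967296 0) 0)
 EL.nil)
noncomputable def S140_198_660_808_28 : EL := (EL.cons 13 (TM.mk (P.cons (P.cons (P.lf 722181675 0 0) (P.cons (P.lf 169689436 0 0) (P.cons (P.lf 0 73171996 0) (P.lf 0 8130220 0)))) (P.cons (P.cons (P.lf 0 225595304 0) (P.cons (P.lf 100076140 0 0) (P.cons (P.lf 0 43153960 0) (P.lf 0 4794880 0)))) (P.cons (P.cons (P.lf 268044869 0 0) (P.cons (P.lf 11411008 0 0) (P.cons (P.lf 0 4920556 0) (P.lf 0 546724 0)))) (P.cons (P.cons (P.lf 41203088 0 0) (P.cons (P.lf 0 4057156 0) (P.cons (P.lf 1749492 0 0) P.nil))) (P.cons (P.cons (P.lf 0 10488664 0) (P.cons (P.lf 0 1070572 0) P.nil)) (P.cons (P.cons (P.lf 0 2724311 0) P.nil) P.nil)))))) 1760642)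
 EL.nil)
noncomputable def S140_198_660_808_29 : EL := (EL.cons 13 (TM.mk (P.cons (P.cons (P.lf 0 121431977 0) (P.cons (P.lf 0 57065208 0) (P.cons (P.lf 17902917 0 0) (P.cons (P.lf 8516018 0 0) (P.cons (P.lf 0 604175 0) (P.cons (P.lf 0 277023 0) P.nil)))))) (P.cons (P.cons (P.lf 75865906 0 0) (P.cons (P.lf 0 15828765 0) (P.cons (P.lf 0 1082254 0) (P.cons (P.lf 7578254 0 0) (P.cons (P.lf 0 712638 0) P.nil))))) (P.cons (P.cons (P.lf 0 101990864 0) (P.cons (P.lf 0 14504648 0) (P.cons (P.lf 3021042 0 0) (P.cons (P.lf 3483616 0 0) P.nil)))) (P.cons (P.cons (P.lf 14302110 0 0) (P.cons (P.lf 0 13183965 0) (P.cons (P.lf 5473890 0 0) P.nil))) (P.cons (P.cons (P.lf 0 8872748 0) (P.cons (P.lf 0 2581822 0) P.nil)) (P.cons (P.cons (P.lf 0 5328572 0) P.nil) P.nil)))))) 12943520)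
 EL.nil)
noncomputable def S140_198_660_808_30 : EL := (EL.cons 13 (TM.mk (P.cons (P.lf 2550960508 0 0) (P.cons (P.lf 0 635776524 0) (P.cons (P.lf 0 89228036 0) (P.cons (P.lf 1407440 0 0) (P.cons (P.lf 1369092 0 0) (P.cons (P.lf 95416 0 0) P.nil)))))) 28012)
 EL.nil)
noncomputable def S140_198_660_808_31 : EL := (EL.cons 13 (TM.mk (P.cons (P.cons (P.lf 0 428933867 0) (P.cons (P.lf 0 100785645 0) (P.cons (P.lf 43459905 0 0) (P.lf 4828877 0 0)))) (P.cons (P.cons (P.lf 240893770 0 0) (P.cons (P.lf 0 34320568 0) (P.cons (P.lf 14799416 0 0) (P.lf 1644377 0 0)))) (P.cons (P.cons (P.lf 0 177594186 0) (P.cons (P.lf 11561923 0 0) (P.cons (P.lf 0 4985631 0) (P.lf 0 553960 0)))) (P.cons (P.cons (P.lf 10282576 0 0) (P.cons (P.lf 6122343 0 0) (P.cons (P.lf 0 2640024 0) P.nil))) (P.cons (P.cons (P.lf 17741233 0 0) (P.cons (P.lf 185461 0 0) P.nil)) (P.cons (P.cons (P.lf 889489 0 0) P.nil)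 P.nil)))))) 3136421)
 EL.nil)
noncomputable def S140_198_660_808_32 : EL := (EL.cons 13 (TM.mk (P.cons (P.cons (P.lf 72123524 0 0) (P.cons (P.lf 33893411 0 0) (P.cons (P.lf 0 10633290 0) (P.cons (P.lf 0 5058018 0) (P.cons (P.lf 358844 0 0) (P.cons (P.lf 164535 0 0) P.nil)))))) (P.cons (P.cons (P.lf 0 63035294 0) (P.cons (P.lf 954101 0 0) (P.cons (P.lf 3292933 0 0) (P.cons (P.lf 0 3240430 0) (P.cons (P.lf 333830 0 0) P.nil))))) (P.cons (P.cons (P.lf 69284180 0 0) (P.cons (P.lf 5086281 0 0) (P.cons (P.lf 0 1582593 0) (P.cons (P.lf 0 770348 0) P.nil)))) (P.cons (P.cons (P.lf 0 21976242 0) (P.cons (P.lf 5373266 0 0) (P.cons (P.lf 0 2832322 0) P.nil))) (P.cons (P.cons (P.lf 5281997 0 0) (P.cons (P.lf 0 696104 0) P.nil)) (P.cons (P.cons (P.lf 2160506 0 0) P.nil) P.nil)))))) 13698985)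
 EL.nil)
noncomputable def S140_198_660_808_33 : EL := (EL.cons 14 (TM.mk (P.lf 8589934592 0 0) 0)
 EL.nil)
noncomputable def S140_198_660_808_34 : EL := (EL.cons 14 (TM.mk (P.cons (P.cons (P.lf 0 1444363350 0) (P.cons (P.lf 0 339378872 0) (P.cons (P.lf 146343992 0 0) (P.lf 16260440 0 0)))) (P.cons (P.cons (P.lf 451190608 0 0) (P.cons (P.lf 0 200152280 0) (P.cons (P.lf 86307920 0 0) (P.lf 9589760 0 0)))) (P.cons (P.cons (P.lf 0 536089738 0) (P.cons (P.lf 0 22822016 0) (P.cons (P.lf 9841112 0 0) (P.lf 1093448 0 0)))) (P.cons (P.cons (P.lf 0 82406176 0) (P.cons (P.lf 8114312 0 0) (P.cons (P.lf 0 3498984 0) P.nil))) (P.cons (P.cons (P.lf 20977328 0 0) (P.cons (P.lf 2141144 0 0) P.nil)) (P.cons (P.cons (P.lf 5448622 0 0) P.nil) P.nil)))))) 3521284)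
 EL.nil)
noncomputable def S140_198_660_808_35 : EL := (EL.cons 14 (TM.mk (P.cons (P.cons (P.lf 242863954 0 0) (P.cons (P.lf 114130416 0 0) (P.cons (P.lf 0 35805834 0) (P.cons (P.lf 0 17032036 0) (P.cons (P.lf 1208350 0 0) (P.cons (P.lf 554046 0 0) P.nil)))))) (P.cons (P.cons (P.lf 0 151731812 0) (P.cons (P.lf 31657530 0 0) (P.cons (P.lf 2164508 0 0) (P.cons (P.lf 0 15156508 0) (P.cons (P.lf 1425276 0 0) P.nil))))) (P.cons (P.cons (P.lf 203981728 0 0) (P.cons (P.lf 29009296 0 0) (P.cons (P.lf 0 6042084 0) (P.cons (P.lf 0 6967232 0) P.nil)))) (P.cons (P.cons (P.lf 0 28604220 0) (P.cons (P.lf 26367930 0 0) (P.cons (P.lf 0 10947780 0) P.nil))) (P.cons (P.cons (P.lf 17745496 0 0) (P.cons (P.lf 5163644 0 0) P.nil)) (P.cons (P.cons (P.lf 10657144 0 0) P.nil) P.nil)))))) 25887040)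
 EL.nil)
noncomputable def S140_198_660_808_36 : EL := (EL.cons 14 (TM.mk (P.cons (P.lf 0 5101921016 0) (P.cons (P.lf 1271553048 0 0) (P.cons (P.lf 178456072 0 0) (P.cons (P.lf 0 2814880 0) (P.cons (P.lf 0 2738184 0) (P.cons (P.lf 0 190832 0) P.nil)))))) 56024)
 EL.nil)
noncomputable def S140_198_660_808_37 : EL := (EL.cons 14 (TM.mk (P.cons (P.cons (P.lf 857867734 0 0) (P.cons (P.lf 201571290 0 0) (P.cons (P.lf 0 86919810 0) (P.lf 0 9657754 0)))) (P.cons (P.cons (P.lf 0 481787540 0) (P.cons (P.lf 68641136 0 0) (P.cons (P.lf 0 29598832 0) (P.lf 0 3288754 0)))) (P.cons (P.cons (P.lf 355188372 0 0) (P.cons (P.lf 0 23123846 0) (P.cons (P.lf 9971262 0 0) (P.lf 1107920 0 0)))) (P.cons (P.cons (P.lf 0 20565152 0) (P.cons (P.lf 0 12244686 0) (P.cons (P.lf 5280048 0 0) P.nil))) (P.cons (P.cons (P.lf 0 35482466 0) (P.cons (P.lf 0 370922 0) P.nil)) (P.cons (P.cons (P.lf 0 1778978 0)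 P.nil) P.nil)))))) 6272842)
 EL.nil)
noncomputable def S140_198_660_808_38 : EL := (EL.cons 14 (TM.mk (P.cons (P.cons (P.lf 0 144247048 0) (P.cons (P.lf 0 67786822 0) (P.cons (P.lf 21266580 0 0) (P.cons (P.lf 10116036 0 0) (P.cons (P.lf 0 717688 0) (P.cons (P.lf 0 329070 0) P.nil)))))) (P.cons (P.cons (P.lf 126070588 0 0) (P.cons (P.lf 0 1908202 0) (P.cons (P.lf 0 6585866 0) (P.cons (P.lf 6480860 0 0) (P.cons (P.lf 0 667660 0) P.nil))))) (P.cons (P.cons (P.lf 0 138568360 0) (P.cons (P.lf 0 10172562 0) (P.cons (P.lf 3165186 0 0) (P.cons (P.lf 1540696 0 0) P.nil)))) (P.cons (P.cons (P.lf 43952484 0 0) (P.cons (P.lf 0 10746532 0) (P.cons (P.lf 5664644 0 0) P.nil))) (P.cons (P.cons (P.lf 0 10563994 0) (P.cons (P.lf 1392208 0 0) P.nil)) (P.cons (P.cons (P.lf 0 4321012 0) P.nil) P.nil)))))) 27397970)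
 EL.nil)
noncomputable def S140_198_660_808_39 : EL := (EL.cons 14 (TM.mk (P.cons (P.lf 3030244034 0 0) (P.cons (P.lf 0 1510456952 0) (P.cons (P.lf 0 23759250 0) (P.cons (P.lf 56176832 0 0) (P.cons (P.lf 6126708 0 0) (P.cons (P.lf 0 700928 0) P.nil)))))) 267590)
 EL.nil)
noncomputable def S140_198_660_808_40 : EL := (EL.cons 14 (TM.mk (P.cons (P.cons (P.lf 0 509523486 0) (P.cons (P.lf 0 119721610 0) (P.cons (P.lf 51625306 0 0) (P.lf 5736142 0 0)))) (P.cons (P.cons (P.lf 413142412 0 0) (P.cons (P.lf 0 10930592 0) (P.cons (P.lf 4713394 0 0) (P.lf 523708 0 0)))) (P.cons (P.cons (P.lf 0 264457162 0) (P.cons (P.lf 28082694 0 0) (P.cons (P.lf 0 12109574 0) (P.lf 0 1345508 0)))) (P.cons (P.cons (P.lf 54502154 0 0) (P.cons (P.lf 5209614 0 0) (P.cons (P.lf 0 2246444 0) P.nil))) (P.cons (P.cons (P.lf 25293760 0 0) (P.cons (P.lf 0 2159398 0) P.nil)) (P.cons (P.cons (P.lf 0 4604912 0)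 P.nil) P.nil)))))) 7047994)
 EL.nil)
noncomputable def S140_198_660_808_41 : EL := (EL.cons 14 (TM.mk (P.cons (P.cons (P.lf 85674348 0 0) (P.cons (P.lf 40261424 0 0) (P.cons (P.lf 0 12631110 0) (P.cons (P.lf 0 6008336 0) (P.cons (P.lf 426264 0 0) (P.cons (P.lf 195448 0 0) P.nil)))))) (P.cons (P.cons (P.lf 0 96231228 0) (P.cons (P.lf 0 8901002 0) (P.cons (P.lf 7059676 0 0) (P.cons (P.lf 0 2351794 0) (P.cons (P.lf 290312 0 0) P.nil))))) (P.cons (P.cons (P.lf 97966812 0 0) (P.cons (P.lf 4351168 0 0) (P.cons (P.lf 0 2413016 0) (P.cons (P.lf 254426 0 0) P.nil)))) (P.cons (P.cons (P.lf 0 43950860 0) (P.cons (P.lf 4859558 0 0) (P.cons (P.lf 0 3039722 0) P.nil))) (P.cons (P.cons (P.lf 9906514 0 0) (P.cons (P.lf 0 2606782 0) P.nil)) (P.cons (P.cons (P.lf 1924200 0 0) P.nil) P.nil)))))) 22089910)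
 EL.nil)
noncomputable def S140_198_660_808_42 : EL := (EL.cons 14 (TM.mk (P.cons (P.lf 0 1799788526 0) (P.cons (P.lf 1345685228 0 0) (P.cons (P.lf 0 146525314 0) (P.cons (P.lf 0 69255578 0) (P.cons (P.lf 3712280 0 0) (P.cons (P.lf 2912260 0 0) P.nil)))))) 563866)
 EL.nil)
noncomputable def S140_198_660_808_43 : EL := (EL.cons 14 (TM.mk (P.cons (P.cons (P.lf 302627284 0 0) (P.cons (P.lf 71107664 0 0) (P.cons (P.lf 0 30662426 0) (P.lf 0 3406934 0)))) (P.cons (P.cons (P.lf 0 320806412 0) (P.cons (P.lf 0 11230044 0) (P.cons (P.lf 4842520 0 0) (P.lf 538058 0 0)))) (P.cons (P.cons (P.lf 207643546 0 0) (P.cons (P.lf 0 20784740 0) (P.cons (P.lf 8962614 0 0) (P.lf 995846 0 0)))) (P.cons (P.cons (P.lf 0 62768228 0) (P.cons (P.lf 874972 0 0) (P.cons (P.lf 0 377296 0) P.nil))) (P.cons (P.cons (P.lf 0 12422230 0) (P.cons (P.lf 2678890 0 0) P.nil)) (P.cons (P.cons (P.lf 7577810 0 0) P.nil)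 P.nil)))))) 7867578)
 EL.nil)
noncomputable def S140_198_660_808_44 : EL := (EL.cons 14 (TM.mk (P.cons (P.cons (P.lf 0 50885574 0) (P.cons (P.lf 0 23912942 0) (P.cons (P.lf 7502144 0 0) (P.cons (P.lf 3568602 0 0) (P.cons (P.lf 0 253176 0) (P.cons (P.lf 0 116084 0) P.nil)))))) (P.cons (P.cons (P.lf 69837970 0 0) (P.cons (P.lf 11246506 0 0) (P.cons (P.lf 0 6062798 0) (P.cons (P.lf 507424 0 0) (P.cons (P.lf 0 109328 0) P.nil))))) (P.cons (P.cons (P.lf 0 70651636 0) (P.cons (P.lf 0 3065508 0) (P.cons (P.lf 2215812 0 0) (P.cons (P.lf 0 624068 0) P.nil)))) (P.cons (P.cons (P.lf 38578828 0 0) (P.cons (P.lf 0 2440310 0) (P.cons (P.lf 1599026 0 0) P.nil))) (P.cons (P.cons (P.lf 0 10350374 0) (P.cons (P.lf 2348106 0 0) P.nil)) (P.cons (P.cons (P.lf 0 592830 0) P.nil) P.nil)))))) 19434388)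
 EL.nil)
noncomputable def S140_198_660_808_45 : EL := (EL.cons 14 (TM.mk (P.cons (P.cons (P.lf 0 40836608 0) (P.cons (P.lf 0 28785862 0) (P.cons (P.lf 5649036 0 0) (P.cons (P.lf 6682654 0 0) (P.cons (P.lf 75768 0 0) (P.cons (P.lf 0 498848 0) P.nil)))))) (P.cons (P.cons (P.lf 38269650 0 0) (P.cons (P.lf 1007502 0 0) (P.cons (P.lf 0 6299570 0) (P.cons (P.lf 4072658 0 0) (P.cons (P.lf 683946 0 0) P.nil))))) (P.cons (P.cons (P.lf 0 57425416 0) (P.cons (P.lf 0 15506612 0) (P.cons (P.lf 3406130 0 0) (P.cons (P.lf 2912484 0 0) P.nil)))) (P.cons (P.cons (P.lf 22663490 0 0) (P.cons (P.lf 0 8970814 0) (P.cons (P.lf 1327308 0 0) P.nil))) (P.cons (P.cons (P.lf 0 15167884 0) (P.cons (P.lf 0 1978028 0) P.nil)) (P.cons (P.cons (P.lf 0 1248060 0) P.nil) P.nil)))))) 32291384)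
 EL.nil)
noncomputable def S140_198_660_808_46 : EL := (EL.cons 15 (TM.mk (P.lf 4294967296 0 0) 0)
 EL.nil)
noncomputable def S140_198_660_808_47 : EL := (EL.cons 15 (TM.mk (P.cons (P.cons (P.lf 0 722181675 0) (P.cons (P.lf 0 169689436 0) (P.cons (P.lf 73171996 0 0) (P.lf 8130220 0 0)))) (P.cons (P.cons (P.lf 225595304 0 0) (P.cons (P.lf 0 100076140 0) (P.cons (P.lf 43153960 0 0) (P.lf 4794880 0 0)))) (P.cons (P.cons (P.lf 0 268044869 0) (P.cons (P.lf 0 11411008 0) (P.cons (P.lf 4920556 0 0) (P.lf 546724 0 0)))) (P.cons (P.cons (P.lf 0 41203088 0) (P.cons (P.lf 4057156 0 0) (P.cons (P.lf 0 1749492 0) P.nil))) (P.cons (P.cons (P.lf 10488664 0 0) (P.cons (P.lf 1070572 0 0) P.nil)) (P.cons (P.cons (P.lf 2724311 0 0) P.nil) P.nil)))))) 1760642)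
 EL.nil)
noncomputable def S140_198_660_808_48 : EL := (EL.cons 15 (TM.mk (P.cons (P.cons (P.lf 121431977 0 0) (P.cons (P.lf 57065208 0 0) (P.cons (P.lf 0 17902917 0) (P.cons (P.lf 0 8516018 0) (P.cons (P.lf 604175 0 0) (P.cons (P.lf 277023 0 0) P.nil)))))) (P.cons (P.cons (P.lf 0 75865906 0) (P.cons (P.lf 15828765 0 0) (P.cons (P.lf 1082254 0 0) (P.cons (P.lf 0 7578254 0) (P.cons (P.lf 712638 0 0) P.nil))))) (P.cons (P.cons (P.lf 101990864 0 0) (P.cons (P.lf 14504648 0 0) (P.cons (P.lf 0 3021042 0) (P.cons (P.lf 0 3483616 0) P.nil)))) (P.cons (P.cons (P.lf 0 14302110 0) (P.cons (P.lf 13183965 0 0) (P.cons (P.lf 0 5473890 0) P.nil))) (P.cons (P.cons (P.lf 8872748 0 0) (P.cons (P.lf 2581822 0 0) P.nil)) (P.cons (P.cons (P.lf 5328572 0 0) P.nil) P.nil)))))) 12943520)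
 EL.nil)
noncomputable def S140_198_660_808 : SL := (SL.cons S140_198_660_808_0 (SL.cons S140_198_660_808_1 (SL.cons S140_198_660_808_2 (SL.cons S140_198_660_808_3 (SL.cons S140_198_660_808_4 (SL.cons S140_198_660_808_5 (SL.cons S140_198_660_808_6 (SL.cons S140_198_660_808_7 (SL.cons S140_198_660_808_8 (SL.cons S140_198_660_808_9 (SL.cons S140_198_660_808_10 (SL.cons S140_198_660_808_11 (SL.cons S140_198_660_808_12 (SL.cons S140_198_660_808_13 (SL.cons S140_198_660_808_14 (SL.cons S140_198_660_808_15 (SL.cons S140_198_660_808_16 (SL.cons S140_198_660_808_17 (SL.cons S140_198_660_808_18 (SL.cons S140_198_660_808_19 (SL.cons S140_198_660_808_20 (SL.cons S140_198_660_808_21 (SL.cons S140_198_660_808_22 (SL.cons S140_198_660_808_23 (SL.cons S140_198_660_808_24 (SL.cons S140_198_660_808_25 (SL.cons S140_198_660_808_26 (SL.cons S140_198_660_808_27 (SL.cons S140_198_660_808_28 (SL.cons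 S140_198_660_808_29 (SL.cons S140_198_660_808_30 (SL.cons S140_198_660_808_31 (SL.cons S140_198_660_808_32 (SL.cons S140_198_660_808_33 (SL.cons S140_198_660_808_34 (SL.cons S140_198_660_808_35 (SL.cons S140_198_660_808_36 (SL.cons S140_198_660_808_37 (SL.cons S140_198_660_808_38 (SL.cons S140_198_660_808_39 (SL.cons S140_198_660_808_40 (SL.cons S140_198_660_808_41 (SL.cons S140_198_660_808_42 (SL.cons S140_198_660_808_43 (SL.cons S140_198_660_808_44 (SL.cons S140_198_660_808_45 (SL.cons S140_198_660_808_46 (SL.cons S140_198_660_808_47 (SL.cons S140_198_660_808_48 SL.nil)))))))))))))))))))))))))))))))))))))))))))))))))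
noncomputable def S147_154_216_364_0 : EL := (EL.cons 0 (TM.mk (P.cons (P.lf 4965901668 0 0) (P.cons (P.lf 150454580 0 0) (P.cons (P.lf 1471735 0 0) (P.cons (P.lf 0 59739 0) (P.cons (P.lf 0 1341 0) (P.cons (P.lf 7 0 0) P.nil)))))) 154)
 (EL.cons 1 (TM.mk (P.cons (P.lf 0 1778785389 0) (P.cons (P.lf 0 14132201 0) (P.cons (P.lf 2180268 0 0) (P.cons (P.lf 32548 0 0) (P.cons (P.lf 0 373 0) (P.cons (P.lf 0 13 0) P.nil)))))) 112)
 (EL.cons 5 (TM.mk (P.cons (P.lf 5535790480 0 0) (P.cons (P.lf 0 53494960 0) (P.cons (P.lf 0 523288 0) (P.cons (P.lf 21238 0 0) (P.cons (P.lf 478 0 0) (P.cons (P.lf 0 0 0) P.nil)))))) 79)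
 (EL.cons 9 (TM.mk (P.lf 6442450944 0 0) 2)
 EL.nil))))
noncomputable def S147_154_216_364_1 : EL := (EL.cons 0 (TM.mk (P.cons (P.cons (P.lf 0 4398894445 0) (P.cons (P.lf 142706432 0 0) (P.cons (P.lf 61536616 0 0) (P.lf 0 6837392 0)))) (P.cons (P.cons (P.lf 213567694 0 0) (P.cons (P.lf 0 2975118 0) (P.cons (P.lf 0 1282915 0) (P.lf 142551 0 0)))) (P.cons (P.cons (P.lf 22318534 0 0) (P.cons (P.lf 0 1223906 0) (P.cons (P.lf 0 527757 0) (P.lf 58634 0 0)))) (P.cons (P.cons (P.lf 95758 0 0) (P.cons (P.lf 0 44390 0) (P.cons (P.lf 0 19131 0) P.nil))) (P.cons (P.cons (P.lf 0 27346 0) (P.cons (P.lf 452 0 0) P.nil)) (P.cons (P.cons (P.lf 0 544 0) P.nil) P.nil)))))) 8088)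
 (EL.cons 1 (TM.mk (P.cons (P.cons (P.lf 327188781 0 0) (P.cons (P.lf 20624390 0 0) (P.cons (P.lf 8893463 0 0) (P.lf 0 988157 0)))) (P.cons (P.cons (P.lf 0 218075265 0) (P.cons (P.lf 11657907 0 0) (P.cons (P.lf 5027011 0 0) (P.lf 0 558549 0)))) (P.cons (P.cons (P.lf 0 1533977 0) (P.cons (P.lf 490625 0 0) (P.cons (P.lf 211558 0 0) (P.lf 0 23501 0)))) (P.cons (P.cons (P.lf 499743 0 0) (P.cons (P.lf 0 14017 0) (P.cons (P.lf 0 6041 0) P.nil))) (P.cons (P.cons (P.lf 8760 0 0) (P.cons (P.lf 0 1058 0) P.nil)) (P.cons (P.cons (P.lf 0 342 0) P.nil) P.nil)))))) 3952)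
 (EL.cons 5 (TM.mk (P.cons (P.cons (P.lf 2042526038 0 0) (P.cons (P.lf 0 240065924 0) (P.cons (P.lf 0 103519136 0) (P.lf 11502124 0 0)))) (P.cons (P.cons (P.lf 215662215 0 0) (P.cons (P.lf 0 15698146 0) (P.cons (P.lf 0 6769216 0) (P.lf 752134 0 0)))) (P.cons (P.cons (P.lf 0 7565972 0) (P.cons (P.lf 24098 0 0) (P.cons (P.lf 10394 0 0) (P.lf 0 1152 0)))) (P.cons (P.cons (P.lf 0 252173 0) (P.cons (P.lf 20024 0 0) (P.cons (P.lf 8634 0 0) P.nil))) (P.cons (P.cons (P.lf 6717 0 0) (P.cons (P.lf 186 0 0) P.nil)) (P.cons (P.cons (P.lf 255 0 0) P.nil) P.nil)))))) 3848)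
 (EL.cons 9 (TM.mk (P.cons (P.cons (P.lf 422183536 0 0) (P.cons (P.lf 0 167052222 0) (P.cons (P.lf 0 72034800 0) (P.lf 8003862 0 0)))) (P.cons (P.cons (P.lf 257291805 0 0) (P.cons (P.lf 0 14784672 0) (P.cons (P.lf 0 6375312 0) (P.lf 708366 0 0)))) (P.cons (P.cons (P.lf 326034 0 0) (P.cons (P.lf 0 362700 0) (P.cons (P.lf 0 156396 0) (P.lf 17376 0 0)))) (P.cons (P.cons (P.lf 0 192451 0) (P.cons (P.lf 3744 0 0) (P.cons (P.lf 1614 0 0) P.nil))) (P.cons (P.cons (P.lf 0 2644 0) (P.cons (P.lf 294 0 0) P.nil)) (P.cons (P.cons (P.lf 57 0 0) P.nil) P.nil)))))) 1222)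
 (EL.cons 2 (TM.mk (P.cons (P.cons (P.lf 342409244 0 0) (P.cons (P.lf 318985886 0 0) (P.cons (P.lf 0 32738326 0) (P.cons (P.lf 0 6808660 0) (P.lf 567385 0 0))))) (P.cons (P.cons (P.lf 12821838 0 0) (P.cons (P.lf 11944729 0 0) (P.cons (P.lf 0 1225915 0) (P.cons (P.lf 0 254953 0) (P.lf 21245 0 0))))) (P.cons (P.cons (P.lf 0 389629 0) (P.cons (P.lf 0 362975 0) (P.cons (P.lf 37251 0 0) (P.cons (P.lf 7745 0 0) P.nil)))) (P.cons (P.cons (P.lf 0 21571 0) (P.cons (P.lf 0 20095 0) (P.cons (P.lf 2061 0 0) P.nil))) (P.cons (P.cons (P.lf 0 87 0) (P.cons (P.lf 0 81 0) P.nil)) (P.cons (P.cons (P.lf 8 0 0) P.nil) P.nil)))))) 2046)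
 (EL.cons 6 (TM.mk (P.cons (P.cons (P.lf 174528600 0 0) (P.cons (P.lf 162589536 0 0) (P.cons (P.lf 0 16686972 0) (P.cons (P.lf 0 3470424 0) (P.lf 289200 0 0))))) (P.cons (P.cons (P.lf 15446355 0 0) (P.cons (P.lf 14389707 0 0) (P.cons (P.lf 0 1476852 0) (P.cons (P.lf 0 307143 0) (P.lf 25593 0 0))))) (P.cons (P.cons (P.lf 378936 0 0) (P.cons (P.lf 353013 0 0) (P.cons (P.lf 0 36228 0) (P.cons (P.lf 0 7533 0) P.nil)))) (P.cons (P.cons (P.lf 0 3912 0) (P.cons (P.lf 0 3645 0) (P.cons (P.lf 372 0 0) P.nil))) (P.cons (P.cons (P.lf 0 312 0) (P.cons (P.lf 0 291 0) P.nil)) (P.cons (P.cons (P.lf 0 3 0) P.nil) P.nil)))))) 1101)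
 EL.nil))))))
noncomputable def S147_154_216_364_2 : EL := (EL.cons 0 (TM.mk (P.cons (P.cons (P.lf 0 597857842 0) (P.cons (P.lf 263705849 0 0) (P.cons (P.lf 102973321 0 0) (P.cons (P.lf 0 21896842 0) (P.cons (P.lf 0 967834 0) (P.cons (P.lf 443761 0 0) P.nil)))))) (P.cons (P.cons (P.lf 0 350004888 0) (P.cons (P.lf 32412818 0 0) (P.cons (P.lf 12783893 0 0) (P.cons (P.lf 0 2581714 0) (P.cons (P.lf 0 107497 0) P.nil))))) (P.cons (P.cons (P.lf 10791189 0 0) (P.cons (P.lf 0 704169 0) (P.cons (P.lf 0 302143 0) (P.cons (P.lf 35046 0 0) P.nil)))) (P.cons (P.cons (P.lf 1830589 0 0) (P.cons (P.lf 0 201175 0) (P.cons (P.lf 0 80822 0) P.nil))) (P.cons (P.cons (P.lf 7211 0 0) (P.cons (P.lf 0 5640 0) P.nil)) (P.cons (P.cons (P.lf 0 3181 0) P.nil) P.nil)))))) 288200)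
 (EL.cons 1 (TM.mk (P.cons (P.cons (P.lf 50521131 0 0) (P.cons (P.lf 0 20309985 0) (P.cons (P.lf 0 8631492 0) (P.cons (P.lf 1082122 0 0) (P.cons (P.lf 11388 0 0) (P.cons (P.lf 0 5222 0) P.nil)))))) (P.cons (P.cons (P.lf 6923543 0 0) (P.cons (P.lf 8715775 0 0) (P.cons (P.lf 3280295 0 0) (P.cons (P.lf 0 829860 0) (P.cons (P.lf 0 43076 0) P.nil))))) (P.cons (P.cons (P.lf 0 14672946 0) (P.cons (P.lf 1671210 0 0) (P.cons (P.lf 654147 0 0) (P.cons (P.lf 0 137413 0) P.nil)))) (P.cons (P.cons (P.lf 0 87338 0) (P.cons (P.lf 40385 0 0) (P.cons (P.lf 14844 0 0) P.nil))) (P.cons (P.cons (P.lf 45666 0 0) (P.cons (P.lf 0 3891 0) P.nil)) (P.cons (P.cons (P.lf 831 0 0) P.nil) P.nil)))))) 122254)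
 (EL.cons 5 (TM.mk (P.cons (P.cons (P.lf 243926846 0 0) (P.cons (P.lf 0 118575701 0) (P.cons (P.lf 0 42403445 0) (P.cons (P.lf 13208222 0 0) (P.cons (P.lf 786519 0 0) (P.cons (P.lf 0 360630 0) P.nil)))))) (P.cons (P.cons (P.lf 162663812 0 0) (P.cons (P.lf 0 28842829 0) (P.cons (P.lf 0 11144256 0) (P.cons (P.lf 2497108 0 0) (P.cons (P.lf 116528 0 0) P.nil))))) (P.cons (P.cons (P.lf 7857071 0 0) (P.cons (P.lf 0 1161030 0) (P.cons (P.lf 0 441408 0) (P.cons (P.lf 106702 0 0) P.nil)))) (P.cons (P.cons (P.lf 0 649940 0) (P.cons (P.lf 48867 0 0) (P.cons (P.lf 20627 0 0) P.nil))) (P.cons (P.cons (P.lf 0 20356 0) (P.cons (P.lf 3496 0 0) P.nil)) (P.cons (P.cons (P.lf 874 0 0) P.nil) P.nil)))))) 140124)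
 (EL.cons 9 (TM.mk (P.cons (P.cons (P.lf 27666324 0 0) (P.cons (P.lf 0 21894367 0) (P.cons (P.lf 0 5109447 0) (P.cons (P.lf 4784722 0 0) (P.cons (P.lf 390361 0 0) (P.cons (P.lf 0 178986 0) P.nil)))))) (P.cons (P.cons (P.lf 33721440 0 0) (P.cons (P.lf 0 15280833 0) (P.cons (P.lf 0 5822536 0) (P.cons (P.lf 1393384 0 0) (P.cons (P.lf 69096 0 0) P.nil))))) (P.cons (P.cons (P.lf 10318179 0 0) (P.cons (P.lf 0 1245352 0) (P.cons (P.lf 0 484270 0) (P.cons (P.lf 105150 0 0) P.nil)))) (P.cons (P.cons (P.lf 817 0 0) (P.cons (P.lf 0 19995 0) (P.cons (P.lf 0 7150 0) P.nil))) (P.cons (P.cons (P.lf 0 15700 0) (P.cons (P.lf 1320 0 0) P.nil)) (P.cons (P.cons (P.lf 0 222 0) P.nil) P.nil)))))) 65918)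
 (EL.cons 2 (TM.mk (P.cons (P.cons (P.lf 44877189 0 0) (P.cons (P.lf 24049963 0 0) (P.cons (P.lf 0 28490478 0) (P.cons (P.lf 0 5477101 0) (P.cons (P.lf 1952161 0 0) (P.cons (P.lf 41484 0 0) P.nil)))))) (P.cons (P.cons (P.lf 29030023 0 0) (P.cons (P.lf 24807633 0 0) (P.cons (P.lf 0 5823540 0) (P.cons (P.lf 0 1154688 0) (P.cons (P.lf 284608 0 0) P.nil))))) (P.cons (P.cons (P.lf 1007718 0 0) (P.cons (P.lf 861586 0 0) (P.cons (P.lf 0 201549 0) (P.cons (P.lf 0 39965 0) P.nil)))) (P.cons (P.cons (P.lf 0 53105 0) (P.cons (P.lf 0 47610 0) (P.cons (P.lf 7610 0 0) P.nil))) (P.cons (P.cons (P.lf 0 2818 0) (P.cons (P.lf 0 2430 0) P.nil)) (P.cons (P.cons (P.lf 5 0 0) P.nil) P.nil)))))) 87080)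
 (EL.cons 6 (TM.mk (P.cons (P.cons (P.lf 22874244 0 0) (P.cons (P.lf 12258450 0 0) (P.cons (P.lf 0 14521812 0) (P.cons (P.lf 0 2791716 0) (P.cons (P.lf 995028 0 0) (P.cons (P.lf 21144 0 0) P.nil)))))) (P.cons (P.cons (P.lf 15964722 0 0) (P.cons (P.lf 13270524 0 0) (P.cons (P.lf 0 3709746 0) (P.cons (P.lf 0 731088 0) (P.cons (P.lf 195870 0 0) P.nil))))) (P.cons (P.cons (P.lf 1301088 0 0) (P.cons (P.lf 1101882 0 0) (P.cons (P.lf 0 274572 0) (P.cons (P.lf 0 54318 0) P.nil)))) (P.cons (P.cons (P.lf 20886 0 0) (P.cons (P.lf 16386 0 0) (P.cons (P.lf 0 6180 0) P.nil))) (P.cons (P.cons (P.lf 0 1380 0) (P.cons (P.lf 0 1254 0) P.nil)) (P.cons (P.cons (P.lf 0 54 0) P.nil) P.nil)))))) 59052)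
 EL.nil))))))
noncomputable def S147_154_216_364_3 : EL := (EL.cons 0 (TM.mk (P.cons (P.lf 3489815195 0 0) (P.cons (P.lf 0 150454580 0) (P.cons (P.lf 0 1471735 0) (P.cons (P.lf 59739 0 0) (P.cons (P.lf 1341 0 0) (P.cons (P.lf 0 7 0) P.nil)))))) 154)
 (EL.cons 1 (TM.mk (P.cons (P.lf 1778785389 0 0) (P.cons (P.lf 14132201 0 0) (P.cons (P.lf 0 2180268 0) (P.cons (P.lf 0 32548 0) (P.cons (P.lf 373 0 0) (P.cons (P.lf 13 0 0) P.nil)))))) 112)
 (EL.cons 5 (TM.mk (P.cons (P.lf 906660464 0 0) (P.cons (P.lf 53494960 0 0) (P.cons (P.lf 523288 0 0) (P.cons (P.lf 0 21238 0) (P.cons (P.lf 0 478 0) (P.cons (P.lf 0 0 0) P.nil)))))) 72)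
 EL.nil)))
noncomputable def S147_154_216_364_4 : EL := (EL.cons 0 (TM.mk (P.cons (P.cons (P.lf 228692858 0 0) (P.cons (P.lf 0 90490619 0) (P.cons (P.lf 0 39020574 0) (P.lf 4335616 0 0)))) (P.cons (P.cons (P.lf 129513039 0 0) (P.cons (P.lf 0 4107441 0) (P.cons (P.lf 0 1771171 0) (P.lf 196795 0 0)))) (P.cons (P.cons (P.lf 0 5928530 0) (P.cons (P.lf 186966 0 0) (P.cons (P.lf 80623 0 0) (P.lf 0 8957 0)))) (P.cons (P.cons (P.lf 0 166725 0) (P.cons (P.lf 12325 0 0) (P.cons (P.lf 5313 0 0) P.nil))) (P.cons (P.cons (P.lf 5459 0 0) (P.cons (P.lf 0 15 0) P.nil)) (P.cons (P.cons (P.lf 191 0 0) P.nil) P.nil)))))) 1576)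
 (EL.cons 1 (TM.mk (P.cons (P.cons (P.lf 116566490 0 0) (P.cons (P.lf 0 46123756 0) (P.cons (P.lf 0 19889083 0) (P.lf 2209895 0 0)))) (P.cons (P.cons (P.lf 71965355 0 0) (P.cons (P.lf 0 4448550 0) (P.cons (P.lf 0 1918261 0) (P.lf 213138 0 0)))) (P.cons (P.cons (P.lf 511539 0 0) (P.cons (P.lf 0 76038 0) (P.cons (P.lf 0 32788 0) (P.lf 3641 0 0)))) (P.cons (P.cons (P.lf 0 141626 0) (P.cons (P.lf 6084 0 0) (P.cons (P.lf 2623 0 0) P.nil))) (P.cons (P.cons (P.lf 0 2536 0) (P.cons (P.lf 275 0 0) P.nil)) (P.cons (P.cons (P.lf 88 0 0) P.nil) P.nil)))))) 799)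
 (EL.cons 5 (TM.mk (P.cons (P.cons (P.lf 59414828 0 0) (P.cons (P.lf 0 23509630 0) (P.cons (P.lf 0 10137616 0) (P.lf 1126400 0 0)))) (P.cons (P.cons (P.lf 39714852 0 0) (P.cons (P.lf 0 3467798 0) (P.cons (P.lf 0 1495352 0) (P.lf 166148 0 0)))) (P.cons (P.cons (P.lf 2216600 0 0) (P.cons (P.lf 0 187376 0) (P.cons (P.lf 0 80798 0) (P.lf 8976 0 0)))) (P.cons (P.cons (P.lf 0 4868 0) (P.cons (P.lf 0 3134 0) (P.cons (P.lf 0 1350 0) P.nil))) (P.cons (P.cons (P.lf 0 2822 0) (P.cons (P.lf 102 0 0) P.nil)) (P.cons (P.cons (P.lf 0 48 0) P.nil) P.nil)))))) 568)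
 EL.nil)))
noncomputable def S147_154_216_364_5 : EL := (EL.cons 0 (TM.mk (P.cons (P.cons (P.lf 14986587 0 0) (P.cons (P.lf 0 11859973 0) (P.cons (P.lf 0 2767739 0) (P.cons (P.lf 2591838 0 0) (P.cons (P.lf 211454 0 0) (P.cons (P.lf 0 96953 0) P.nil)))))) (P.cons (P.cons (P.lf 17620477 0 0) (P.cons (P.lf 0 7766170 0) (P.cons (P.lf 0 3034687 0) (P.cons (P.lf 643041 0 0) (P.cons (P.lf 28311 0 0) P.nil))))) (P.cons (P.cons (P.lf 4795421 0 0) (P.cons (P.lf 0 312730 0) (P.cons (P.lf 0 125179 0) (P.cons (P.lf 23324 0 0) P.nil)))) (P.cons (P.cons (P.lf 0 247969 0) (P.cons (P.lf 21538 0 0) (P.cons (P.lf 8718 0 0) P.nil))) (P.cons (P.cons (P.lf 0 10560 0) (P.cons (P.lf 1320 0 0) P.nil)) (P.cons (P.cons (P.lf 348 0 0) P.nil) P.nil)))))) 46517)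
 (EL.cons 1 (TM.mk (P.cons (P.cons (P.lf 7638776 0 0) (P.cons (P.lf 0 6045118 0) (P.cons (P.lf 0 1410736 0) (P.cons (P.lf 1321080 0 0) (P.cons (P.lf 107778 0 0) (P.cons (P.lf 0 49417 0) P.nil)))))) (P.cons (P.cons (P.lf 9371306 0 0) (P.cons (P.lf 0 4267123 0) (P.cons (P.lf 0 1618831 0) (P.cons (P.lf 395214 0 0) (P.cons (P.lf 19933 0 0) P.nil))))) (P.cons (P.cons (P.lf 2913496 0 0) (P.cons (P.lf 0 369956 0) (P.cons (P.lf 0 144751 0) (P.cons (P.lf 30468 0 0) P.nil)))) (P.cons (P.cons (P.lf 11308 0 0) (P.cons (P.lf 0 2970 0) (P.cons (P.lf 0 1038 0) P.nil))) (P.cons (P.cons (P.lf 0 7993 0) (P.cons (P.lf 815 0 0) P.nil)) (P.cons (P.cons (P.lf 0 144 0) P.nil) P.nil)))))) 24522)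
 (EL.cons 5 (TM.mk (P.cons (P.cons (P.lf 3893542 0 0) (P.cons (P.lf 0 3081242 0) (P.cons (P.lf 0 719062 0) (P.cons (P.lf 673364 0 0) (P.cons (P.lf 54934 0 0) (P.cons (P.lf 0 25188 0) P.nil)))))) (P.cons (P.cons (P.lf 4975420 0 0) (P.cons (P.lf 0 2332304 0) (P.cons (P.lf 0 861844 0) (P.cons (P.lf 235824 0 0) (P.cons (P.lf 12964 0 0) P.nil))))) (P.cons (P.cons (P.lf 1734352 0 0) (P.cons (P.lf 0 303922 0) (P.cons (P.lf 0 116914 0) (P.cons (P.lf 26756 0 0) P.nil)))) (P.cons (P.cons (P.lf 88438 0 0) (P.cons (P.lf 0 14322 0) (P.cons (P.lf 0 5482 0) P.nil))) (P.cons (P.cons (P.lf 0 1476 0) (P.cons (P.lf 0 28 0) P.nil)) (P.cons (P.cons (P.lf 0 196 0) P.nil) P.nil)))))) 13366)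
 EL.nil)))
noncomputable def S147_154_216_364_6 : EL := (EL.cons 12 (TM.mk (P.lf 8589934592 0 0) 0)
 (EL.cons 3 (TM.mk (P.cons (P.lf 0 2737575765 0) (P.cons (P.lf 59011837 0 0) (P.cons (P.lf 1213286 0 0) (P.cons (P.lf 2722 0 0) (P.cons (P.lf 0 198 0) (P.cons (P.lf 0 0 0) P.nil)))))) 59)
 (EL.cons 7 (TM.mk (P.cons (P.lf 0 1395363222 0) (P.cons (P.lf 0 41164749 0) (P.cons (P.lf 204528 0 0) (P.cons (P.lf 10310 0 0) (P.cons (P.lf 80 0 0) (P.cons (P.lf 0 1 0) P.nil)))))) 44)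
 EL.nil)))
noncomputable def S147_154_216_364_7 : EL := (EL.cons 12 (TM.mk (P.cons (P.cons (P.lf 562911382 0 0) (P.cons (P.lf 0 222736296 0) (P.cons (P.lf 0 96046400 0) (P.lf 10671816 0 0)))) (P.cons (P.cons (P.lf 343055740 0 0) (P.cons (P.lf 0 19712896 0) (P.cons (P.lf 0 8500416 0) (P.lf 944488 0 0)))) (P.cons (P.cons (P.lf 434712 0 0) (P.cons (P.lf 0 483600 0) (P.cons (P.lf 0 208528 0) (P.lf 23168 0 0)))) (P.cons (P.cons (P.lf 0 256602 0) (P.cons (P.lf 4992 0 0) (P.cons (P.lf 2152 0 0) P.nil))) (P.cons (P.cons (P.lf 0 3526 0) (P.cons (P.lf 392 0 0) P.nil)) (P.cons (P.cons (P.lf 76 0 0) P.nil) P.nil)))))) 1604)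
 (EL.cons 3 (TM.mk (P.cons (P.cons (P.lf 3526580156 0 0) (P.cons (P.lf 0 141970226 0) (P.cons (P.lf 0 61219160 0) (P.lf 6802124 0 0)))) (P.cons (P.cons (P.lf 0 29800776 0) (P.cons (P.lf 0 9504486 0) (P.cons (P.lf 0 4098436 0) (P.lf 455378 0 0)))) (P.cons (P.cons (P.lf 0 6950219 0) (P.cons (P.lf 25528 0 0) (P.cons (P.lf 11010 0 0) (P.lf 0 1224 0)))) (P.cons (P.cons (P.lf 0 171212 0) (P.cons (P.lf 15536 0 0) (P.cons (P.lf 6696 0 0) P.nil))) (P.cons (P.cons (P.lf 3110 0 0) (P.cons (P.lf 318 0 0) P.nil)) (P.cons (P.cons (P.lf 176 0 0) P.nil) P.nil)))))) 3957)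
 (EL.cons 7 (TM.mk (P.cons (P.cons (P.lf 0 2676610452 0) (P.cons (P.lf 184732422 0 0) (P.cons (P.lf 79658707 0 0) (P.lf 0 8850969 0)))) (P.cons (P.cons (P.lf 20788049 0 0) (P.cons (P.lf 6630024 0 0) (P.cons (P.lf 2858944 0 0) (P.lf 0 317662 0)))) (P.cons (P.cons (P.lf 4317559 0 0) (P.cons (P.lf 0 187059 0) (P.cons (P.lf 0 80660 0) (P.lf 8963 0 0)))) (P.cons (P.cons (P.lf 0 37198 0) (P.cons (P.lf 0 7559 0) (P.cons (P.lf 0 3259 0) P.nil))) (P.cons (P.cons (P.lf 0 3999 0) (P.cons (P.lf 113 0 0) P.nil)) (P.cons (P.cons (P.lf 0 13 0) P.nil) P.nil)))))) 2606)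
 (EL.cons 10 (TM.mk (P.cons (P.cons (P.lf 0 537203949 0) (P.cons (P.lf 0 500455176 0) (P.cons (P.lf 51362979 0 0) (P.cons (P.lf 10682070 0 0) (P.lf 0 890172 0))))) (P.cons (P.cons (P.lf 0 31696212 0) (P.cons (P.lf 0 29527953 0) (P.cons (P.lf 3030528 0 0) (P.cons (P.lf 630264 0 0) (P.lf 0 52521 0))))) (P.cons (P.cons (P.lf 0 310050 0) (P.cons (P.lf 0 288840 0) (P.cons (P.lf 29643 0 0) (P.cons (P.lf 6165 0 0) P.nil)))) (P.cons (P.cons (P.lf 12582 0 0) (P.cons (P.lf 11721 0 0) (P.cons (P.lf 0 1203 0) P.nil))) (P.cons (P.cons (P.lf 282 0 0) (P.cons (P.lf 261 0 0) P.nil)) (P.cons P.nil P.nil)))))) 1002)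
 EL.nil))))
noncomputable def S147_154_216_364_8 : EL := (EL.cons 12 (TM.mk (P.cons (P.cons (P.lf 36888432 0 0) (P.cons (P.lf 0 29192490 0) (P.cons (P.lf 0 6812596 0) (P.cons (P.lf 6379630 0 0) (P.cons (P.lf 520482 0 0) (P.cons (P.lf 0 238648 0) P.nil)))))) (P.cons (P.cons (P.lf 44961920 0 0) (P.cons (P.lf 0 20374444 0) (P.cons (P.lf 0 7763382 0) (P.cons (P.lf 1857846 0 0) (P.cons (P.lf 92128 0 0) P.nil))))) (P.cons (P.cons (P.lf 13757572 0 0) (P.cons (P.lf 0 1660470 0) (P.cons (P.lf 0 645694 0) (P.cons (P.lf 140200 0 0) P.nil)))) (P.cons (P.cons (P.lf 1090 0 0) (P.cons (P.lf 0 26660 0) (P.cons (P.lf 0 9534 0) P.nil))) (P.cons (P.cons (P.lf 0 20934 0) (P.cons (P.lf 1760 0 0) P.nil)) (P.cons (P.cons (P.lf 0 296 0) P.nil) P.nil)))))) 87862)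
 (EL.cons 3 (TM.mk (P.cons (P.cons (P.lf 473960428 0 0) (P.cons (P.lf 0 210798432 0) (P.cons (P.lf 0 81695469 0) (P.cons (P.lf 18036882 0 0) (P.cons (P.lf 829376 0 0) (P.cons (P.lf 0 380281 0) P.nil)))))) (P.cons (P.cons (P.lf 291851647 0 0) (P.cons (P.lf 0 33518813 0) (P.cons (P.lf 0 13023042 0) (P.cons (P.lf 2839772 0 0) (P.cons (P.lf 128925 0 0) P.nil))))) (P.cons (P.cons (P.lf 1136103 0 0) (P.cons (P.lf 0 1055143 0) (P.cons (P.lf 0 382126 0) (P.cons (P.lf 113380 0 0) P.nil)))) (P.cons (P.cons (P.lf 0 891819 0) (P.cons (P.lf 65621 0 0) (P.cons (P.lf 28273 0 0) P.nil))) (P.cons (P.cons (P.lf 0 23723 0) (P.cons (P.lf 4645 0 0) P.nil)) (P.cons (P.cons (P.lf 801 0 0) P.nil) P.nil)))))) 175984)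
 (EL.cons 7 (TM.mk (P.cons (P.cons (P.lf 0 344812428 0) (P.cons (P.lf 158278086 0 0) (P.cons (P.lf 59609289 0 0) (P.cons (P.lf 0 15036531 0) (P.cons (P.lf 0 778801 0) (P.cons (P.lf 357090 0 0) P.nil)))))) (P.cons (P.cons (P.lf 0 203586271 0) (P.cons (P.lf 23381638 0 0) (P.cons (P.lf 9084456 0 0) (P.cons (P.lf 0 1980936 0) (P.cons (P.lf 0 89933 0) P.nil))))) (P.cons (P.cons (P.lf 4404775 0 0) (P.cons (P.lf 139134 0 0) (P.cons (P.lf 34649 0 0) (P.cons (P.lf 0 28525 0) P.nil)))) (P.cons (P.cons (P.lf 566989 0 0) (P.cons (P.lf 0 61403 0) (P.cons (P.lf 0 25131 0) P.nil))) (P.cons (P.cons (P.lf 0 5877 0) (P.cons (P.lf 0 1260 0) P.nil)) (P.cons (P.cons (P.lf 0 813 0) P.nil) P.nil)))))) 94897)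
 (EL.cons 10 (TM.mk (P.cons (P.cons (P.lf 0 70407570 0) (P.cons (P.lf 0 37731858 0) (P.cons (P.lf 44698554 0 0) (P.cons (P.lf 8592990 0 0) (P.cons (P.lf 0 3062736 0) (P.cons (P.lf 0 65088 0) P.nil)))))) (P.cons (P.cons (P.lf 0 47062764 0) (P.cons (P.lf 0 39733920 0) (P.cons (P.lf 10100052 0 0) (P.cons (P.lf 1996824 0 0) (P.cons (P.lf 0 512544 0) P.nil))))) (P.cons (P.cons (P.lf 0 2626704 0) (P.cons (P.lf 0 2224974 0) (P.cons (P.lf 553746 0 0) (P.cons (P.lf 109560 0 0) P.nil)))) (P.cons (P.cons (P.lf 5766 0 0) (P.cons (P.lf 9090 0 0) (P.cons (P.lf 4506 0 0) P.nil))) (P.cons (P.cons (P.lf 3342 0 0) (P.cons (P.lf 2988 0 0) P.nil)) (P.cons (P.cons (P.lf 54 0 0) P.nil) P.nil)))))) 155130)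
 EL.nil))))
noncomputable def S147_154_216_364_9 : EL := (EL.cons 3 (TM.mk (P.cons (P.lf 0 2737575765 0) (P.cons (P.lf 59011837 0 0) (P.cons (P.lf 1213286 0 0) (P.cons (P.lf 2722 0 0) (P.cons (P.lf 0 198 0) (P.cons (P.lf 0 0 0) P.nil)))))) 59)
 (EL.cons 7 (TM.mk (P.cons (P.lf 0 1395363222 0) (P.cons (P.lf 0 41164749 0) (P.cons (P.lf 204528 0 0) (P.cons (P.lf 10310 0 0) (P.cons (P.lf 80 0 0) (P.cons (P.lf 0 1 0) P.nil)))))) 44)
 EL.nil))
noncomputable def S147_154_216_364_10 : EL := (EL.cons 3 (TM.mk (P.cons (P.cons (P.lf 0 179397472 0) (P.cons (P.lf 70985113 0 0) (P.cons (P.lf 30609580 0 0) (P.lf 0 3401062 0)))) (P.cons (P.cons (P.lf 0 105463275 0) (P.cons (P.lf 4752243 0 0) (P.cons (P.lf 2049218 0 0) (P.lf 0 227689 0)))) (P.cons (P.cons (P.lf 2297719 0 0) (P.cons (P.lf 0 12764 0) (P.cons (P.lf 0 5505 0) (P.lf 612 0 0)))) (P.cons (P.cons (P.lf 133396 0 0) (P.cons (P.lf 0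 7768 0) (P.cons (P.lf 0 3348 0) P.nil))) (P.cons (P.cons (P.lf 0 481 0) (P.cons (P.lf 0 159 0) P.nil)) (P.cons (P.cons (P.lf 0 91 0) P.nil) P.nil)))))) 920)
 (EL.cons 7 (TM.mk (P.cons (P.cons (P.lf 0 91440258 0) (P.cons (P.lf 36181653 0 0) (P.cons (P.lf 15601936 0 0) (P.lf 0 1733547 0)))) (P.cons (P.cons (P.lf 0 58424131 0) (P.cons (P.lf 4269594 0 0) (P.cons (P.lf 1841095 0 0) (P.lf 0 204565 0)))) (P.cons (P.cons (P.lf 0 1701206 0) (P.cons (P.lf 167721 0 0) (P.cons (P.lf 72322 0 0) (P.lf 0 8035 0)))) (P.cons (P.cons (P.lf 48443 0 0) (P.cons (P.lf 769 0 0) (P.cons (P.lf 332 0 0) P.nil))) (P.cons (P.cons (P.lf 2229 0 0) (P.cons (P.lf 0 124 0) P.nil)) (P.cons (P.cons (P.lf 2 0 0) P.nil) P.nil)))))) 472)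
 EL.nil))
noncomputable def S147_154_216_364_11 : EL := (EL.cons 3 (TM.mk (P.cons (P.cons (P.lf 0 11756186 0) (P.cons (P.lf 9303522 0 0) (P.cons (P.lf 2171145 0 0) (P.cons (P.lf 0 2033160 0) (P.cons (P.lf 0 165874 0) (P.cons (P.lf 76055 0 0) P.nil)))))) (P.cons (P.cons (P.lf 0 14075753 0) (P.cons (P.lf 6292699 0 0) (P.cons (P.lf 2427354 0 0) (P.cons (P.lf 0 548260 0) (P.cons (P.lf 0 25785 0) P.nil))))) (P.cons (P.cons (P.lf 0 4070385 0) (P.cons (P.lf 385091 0 0) (P.cons (P.lf 151484 0 0) (P.cons (P.lf 0 31016 0) P.nil)))) (P.cons (P.cons (P.lf 100527 0 0) (P.cons (P.lf 0 5797 0) (P.cons (P.lf 0 2495 0) P.nil))) (P.cons (P.cons (P.lf 8635 0 0) (P.cons (P.lf 0 983 0) P.nil)) (P.cons (P.cons (P.lf 0 45 0) P.nil) P.nil)))))) 32484)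
 (EL.cons 7 (TM.mk (P.cons (P.cons (P.lf 0 5992218 0) (P.cons (P.lf 4742076 0 0) (P.cons (P.lf 1106649 0 0) (P.cons (P.lf 0 1036317 0) (P.cons (P.lf 0 84547 0) (P.cons (P.lf 38766 0 0) P.nil)))))) (P.cons (P.cons (P.lf 0 7480465 0) (P.cons (P.lf 3449554 0 0) (P.cons (P.lf 1293744 0 0) (P.cons (P.lf 0 332364 0) (P.cons (P.lf 0 17459 0) P.nil))))) (P.cons (P.cons (P.lf 0 2449391 0) (P.cons (P.lf 366672 0 0) (P.cons (P.lf 141929 0 0) (P.cons (P.lf 0 31525 0) P.nil)))) (P.cons (P.cons (P.lf 0 64991 0) (P.cons (P.lf 11767 0 0) (P.cons (P.lf 4449 0 0) P.nil))) (P.cons (P.cons (P.lf 3777 0 0) (P.cons (P.lf 0 222 0) P.nil)) (P.cons (P.cons (P.lf 165 0 0) P.nil) P.nil)))))) 17139)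
 EL.nil))
noncomputable def S147_154_216_364_12 : EL := (EL.cons 4 (TM.mk (P.cons (P.lf 2737575765 0 0) (P.cons (P.lf 0 59011837 0) (P.cons (P.lf 0 1213286 0) (P.cons (P.lf 0 2722 0) (P.cons (P.lf 198 0 0) (P.cons (P.lf 0 0 0) P.nil)))))) 59)
 (EL.cons 8 (TM.mk (P.cons (P.lf 1395363222 0 0) (P.cons (P.lf 41164749 0 0) (P.cons (P.lf 0 204528 0) (P.cons (P.lf 0 10310 0) (P.cons (P.lf 0 80 0) (P.cons (P.lf 1 0 0) P.nil)))))) 44)
 EL.nil))
noncomputable def S147_154_216_364_13 : EL := (EL.cons 4 (TM.mk (P.cons (P.cons (P.lf 179397472 0 0) (P.cons (P.lf 0 70985113 0) (P.cons (P.lf 0 30609580 0) (P.lf 3401062 0 0)))) (P.cons (P.cons (P.lf 105463275 0 0) (P.cons (P.lf 0 4752243 0) (P.cons (P.lf 0 2049218 0) (P.lf 227689 0 0)))) (P.cons (P.cons (P.lf 0 2297719 0) (P.cons (P.lf 12764 0 0) (P.cons (P.lf 5505 0 0) (P.lf 0 612 0)))) (P.cons (P.cons (P.lf 0 133396 0) (P.cons (P.lf 7768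 0 0) (P.cons (P.lf 3348 0 0) P.nil))) (P.cons (P.cons (P.lf 481 0 0) (P.cons (P.lf 159 0 0) P.nil)) (P.cons (P.cons (P.lf 91 0 0) P.nil) P.nil)))))) 920)
 (EL.cons 8 (TM.mk (P.cons (P.cons (P.lf 91440258 0 0) (P.cons (P.lf 0 36181653 0) (P.cons (P.lf 0 15601936 0) (P.lf 1733547 0 0)))) (P.cons (P.cons (P.lf 58424131 0 0) (P.cons (P.lf 0 4269594 0) (P.cons (P.lf 0 1841095 0) (P.lf 204565 0 0)))) (P.cons (P.cons (P.lf 1701206 0 0) (P.cons (P.lf 0 167721 0) (P.cons (P.lf 0 72322 0) (P.lf 8035 0 0)))) (P.cons (P.cons (P.lf 0 48443 0) (P.cons (P.lf 0 769 0) (P.cons (P.lf 0 332 0) P.nil))) (P.cons (P.cons (P.lf 0 2229 0) (P.cons (P.lf 124 0 0) P.nil)) (P.cons (P.cons (P.lf 0 2 0) P.nil) P.nil)))))) 472)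
 EL.nil))
noncomputable def S147_154_216_364_14 : EL := (EL.cons 4 (TM.mk (P.cons (P.cons (P.lf 11756186 0 0) (P.cons (P.lf 0 9303522 0) (P.cons (P.lf 0 2171145 0) (P.cons (P.lf 2033160 0 0) (P.cons (P.lf 165874 0 0) (P.cons (P.lf 0 76055 0) P.nil)))))) (P.cons (P.cons (P.lf 14075753 0 0) (P.cons (P.lf 0 6292699 0) (P.cons (P.lf 0 2427354 0) (P.cons (P.lf 548260 0 0) (P.cons (P.lf 25785 0 0) P.nil))))) (P.cons (P.cons (P.lf 4070385 0 0) (P.cons (P.lf 0 385091 0) (P.cons (P.lf 0 151484 0) (P.cons (P.lf 31016 0 0) P.nil)))) (P.cons (P.cons (P.lf 0 100527 0) (P.cons (P.lf 5797 0 0) (P.cons (P.lf 2495 0 0) P.nil))) (P.cons (P.cons (P.lf 0 8635 0) (P.cons (P.lf 983 0 0) P.nil)) (P.cons (P.cons (P.lf 45 0 0) P.nil) P.nil)))))) 32484)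
 (EL.cons 8 (TM.mk (P.cons (P.cons (P.lf 5992218 0 0) (P.cons (P.lf 0 4742076 0) (P.cons (P.lf 0 1106649 0) (P.cons (P.lf 1036317 0 0) (P.cons (P.lf 84547 0 0) (P.cons (P.lf 0 38766 0) P.nil)))))) (P.cons (P.cons (P.lf 7480465 0 0) (P.cons (P.lf 0 3449554 0) (P.cons (P.lf 0 1293744 0) (P.cons (P.lf 332364 0 0) (P.cons (P.lf 17459 0 0) P.nil))))) (P.cons (P.cons (P.lf 2449391 0 0) (P.cons (P.lf 0 366672 0) (P.cons (P.lf 0 141929 0) (P.cons (P.lf 31525 0 0) P.nil)))) (P.cons (P.cons (P.lf 64991 0 0) (P.cons (P.lf 0 11767 0) (P.cons (P.lf 0 4449 0) P.nil))) (P.cons (P.cons (P.lf 0 3777 0) (P.cons (P.lf 222 0 0) P.nil)) (P.cons (P.cons (P.lf 0 165 0) P.nil) P.nil)))))) 17139)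
 EL.nil))
noncomputable def S147_154_216_364_15 : EL := (EL.cons 4 (TM.mk (P.cons (P.lf 0 1861234770 0) (P.cons (P.lf 80242442 0 0) (P.cons (P.lf 784925 0 0) (P.cons (P.lf 0 31860 0) (P.cons (P.lf 0 715 0) (P.cons (P.lf 3 0 0) P.nil)))))) 85)
 (EL.cons 8 (TM.mk (P.cons (P.lf 0 948685541 0) (P.cons (P.lf 0 7537174 0) (P.cons (P.lf 1162810 0 0) (P.cons (P.lf 17359 0 0) (P.cons (P.lf 0 199 0) (P.cons (P.lf 0 7 0) P.nil)))))) 56)
 EL.nil))
noncomputable def S147_154_216_364_16 : EL := (EL.cons 4 (TM.mk (P.cons (P.cons (P.lf 0 121969524 0) (P.cons (P.lf 48261663 0 0) (P.cons (P.lf 20810972 0 0) (P.lf 0 2312328 0)))) (P.cons (P.cons (P.lf 0 69073620 0) (P.cons (P.lf 2190635 0 0) (P.cons (P.lf 944625 0 0) (P.lf 0 104957 0)))) (P.cons (P.cons (P.lf 3161882 0 0) (P.cons (P.lf 0 99715 0) (P.cons (P.lf 0 42999 0) (P.lf 4777 0 0)))) (P.cons (P.cons (P.lf 88920 0 0) (P.cons (P.lf 0 6573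 0) (P.cons (P.lf 0 2834 0) P.nil))) (P.cons (P.cons (P.lf 0 2911 0) (P.cons (P.lf 8 0 0) P.nil)) (P.cons (P.cons (P.lf 0 102 0) P.nil) P.nil)))))) 849)
 (EL.cons 8 (TM.mk (P.cons (P.cons (P.lf 0 62168795 0) (P.cons (P.lf 24599337 0 0) (P.cons (P.lf 10607511 0 0) (P.lf 0 1178611 0)))) (P.cons (P.cons (P.lf 0 38381523 0) (P.cons (P.lf 2372560 0 0) (P.cons (P.lf 1023073 0 0) (P.lf 0 113674 0)))) (P.cons (P.cons (P.lf 0 272821 0) (P.cons (P.lf 40554 0 0) (P.cons (P.lf 17487 0 0) (P.lf 0 1942 0)))) (P.cons (P.cons (P.lf 75534 0 0) (P.cons (P.lf 0 3245 0) (P.cons (P.lf 0 1399 0) P.nil))) (P.cons (P.cons (P.lf 1353 0 0) (P.cons (P.lf 0 147 0) P.nil)) (P.cons (P.cons (P.lf 0 47 0) P.nil) P.nil)))))) 416)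
 EL.nil))
noncomputable def S147_154_216_364_17 : EL := (EL.cons 4 (TM.mk (P.cons (P.cons (P.lf 0 7992846 0) (P.cons (P.lf 6325319 0 0) (P.cons (P.lf 1476127 0 0) (P.cons (P.lf 0 1382313 0) (P.cons (P.lf 0 112775 0) (P.cons (P.lf 51708 0 0) P.nil)))))) (P.cons (P.cons (P.lf 0 9397588 0) (P.cons (P.lf 4141957 0 0) (P.cons (P.lf 1618500 0 0) (P.cons (P.lf 0 342955 0) (P.cons (P.lf 0 15099 0) P.nil))))) (P.cons (P.cons (P.lf 0 2557558 0) (P.cons (P.lf 166789 0 0) (P.cons (P.lf 66762 0 0) (P.cons (P.lf 0 12439 0) P.nil)))) (P.cons (P.cons (P.lf 132250 0 0) (P.cons (P.lf 0 11487 0) (P.cons (P.lf 0 4650 0) P.nil))) (P.cons (P.cons (P.lf 5632 0 0) (P.cons (P.lf 0 704 0) P.nil)) (P.cons (P.cons (P.lf 0 185 0) P.nil) P.nil)))))) 24819)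
 (EL.cons 8 (TM.mk (P.cons (P.cons (P.lf 0 4074014 0) (P.cons (P.lf 3224063 0 0) (P.cons (P.lf 752393 0 0) (P.cons (P.lf 0 704576 0) (P.cons (P.lf 0 57482 0) (P.cons (P.lf 26356 0 0) P.nil)))))) (P.cons (P.cons (P.lf 0 4998030 0) (P.cons (P.lf 2275799 0 0) (P.cons (P.lf 863377 0 0) (P.cons (P.lf 0 210781 0) (P.cons (P.lf 0 10631 0) P.nil))))) (P.cons (P.cons (P.lf 0 1553865 0) (P.cons (P.lf 197310 0 0) (P.cons (P.lf 77201 0 0) (P.cons (P.lf 0 16250 0) P.nil)))) (P.cons (P.cons (P.lf 0 6031 0) (P.cons (P.lf 1584 0 0) (P.cons (P.lf 554 0 0) P.nil))) (P.cons (P.cons (P.lf 4263 0 0) (P.cons (P.lf 0 435 0) P.nil)) (P.cons (P.cons (P.lf 77 0 0) P.nil) P.nil)))))) 13067)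
 EL.nil))
noncomputable def S147_154_216_364_18 : EL := (EL.cons 4 (TM.mk (P.cons (P.lf 1265424291 0 0) (P.cons (P.lf 0 81833364 0) (P.cons (P.lf 81521 0 0) (P.cons (P.lf 56085 0 0) (P.cons (P.lf 401 0 0) (P.cons (P.lf 0 25 0) P.nil)))))) 93)
 (EL.cons 8 (TM.mk (P.cons (P.lf 644996401 0 0) (P.cons (P.lf 0 8779290 0) (P.cons (P.lf 0 1186900 0) (P.cons (P.lf 2326 0 0) (P.cons (P.lf 781 0 0) (P.cons (P.lf 8 0 0) P.nil)))))) 56)
 EL.nil))
noncomputable def S147_154_216_364_19 : EL := (EL.cons 4 (TM.mk (P.cons (P.cons (P.lf 82925163 0 0) (P.cons (P.lf 0 32812347 0) (P.cons (P.lf 0 14149053 0) (P.lf 1572115 0 0)))) (P.cons (P.cons (P.lf 45174515 0 0) (P.cons (P.lf 0 782068 0) (P.cons (P.lf 0 337235 0) (P.lf 37470 0 0)))) (P.cons (P.cons (P.lf 0 3198792 0) (P.cons (P.lf 114442 0 0) (P.cons (P.lf 49349 0 0) (P.lf 0 5483 0)))) (P.cons (P.cons (P.lf 0 35010 0) (P.cons (P.lf 3700 0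 0) (P.cons (P.lf 1595 0 0) P.nil))) (P.cons (P.cons (P.lf 4195 0 0) (P.cons (P.lf 0 133 0) P.nil)) (P.cons (P.cons (P.lf 59 0 0) P.nil) P.nil)))))) 704)
 (EL.cons 8 (TM.mk (P.cons (P.cons (P.lf 42267587 0 0) (P.cons (P.lf 0 16724703 0) (P.cons (P.lf 0 7211880 0) (P.lf 801319 0 0)))) (P.cons (P.cons (P.lf 25183865 0 0) (P.cons (P.lf 0 1252544 0) (P.cons (P.lf 0 540110 0) (P.lf 60012 0 0)))) (P.cons (P.cons (P.lf 0 395755 0) (P.cons (P.lf 14611 0 0) (P.cons (P.lf 6300 0 0) (P.lf 0 700 0)))) (P.cons (P.cons (P.lf 0 66960 0) (P.cons (P.lf 3532 0 0) (P.cons (P.lf 1522 0 0) P.nil))) (P.cons (P.cons (P.lf 81 0 0) (P.cons (P.lf 65 0 0) P.nil)) (P.cons (P.cons (P.lf 76 0 0) P.nil) P.nil)))))) 415)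
 EL.nil))
noncomputable def S147_154_216_364_20 : EL := (EL.cons 4 (TM.mk (P.cons (P.cons (P.lf 5434210 0 0) (P.cons (P.lf 0 4300485 0) (P.cons (P.lf 0 1003595 0) (P.cons (P.lf 939813 0 0) (P.cons (P.lf 76674 0 0) (P.cons (P.lf 0 35156 0) P.nil)))))) (P.cons (P.cons (P.lf 6272130 0 0) (P.cons (P.lf 0 2723349 0) (P.cons (P.lf 0 1078758 0) (P.cons (P.lf 212910 0 0) (P.cons (P.lf 8612 0 0) P.nil))))) (P.cons (P.cons (P.lf 1598706 0 0) (P.cons (P.lf 0 50788 0) (P.cons (P.lf 0 21225 0) (P.cons (P.lf 3015 0 0) P.nil)))) (P.cons (P.cons (P.lf 0 130234 0) (P.cons (P.lf 11506 0 0) (P.cons (P.lf 4628 0 0) P.nil))) (P.cons (P.cons (P.lf 0 2668 0) (P.cons (P.lf 362 0 0) P.nil)) (P.cons (P.cons (P.lf 247 0 0) P.nil) P.nil)))))) 18586)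
 (EL.cons 8 (TM.mk (P.cons (P.cons (P.lf 2769858 0 0) (P.cons (P.lf 0 2191990 0) (P.cons (P.lf 0 511540 0) (P.cons (P.lf 479030 0 0) (P.cons (P.lf 39081 0 0) (P.cons (P.lf 0 17919 0) P.nil)))))) (P.cons (P.cons (P.lf 3338374 0 0) (P.cons (P.lf 0 1500029 0) (P.cons (P.lf 0 575969 0) (P.cons (P.lf 132980 0 0) (P.cons (P.lf 6385 0 0) P.nil))))) (P.cons (P.cons (P.lf 981970 0 0) (P.cons (P.lf 0 99823 0) (P.cons (P.lf 0 39607 0) (P.cons (P.lf 7746 0 0) P.nil)))) (P.cons (P.cons (P.lf 0 20181 0) (P.cons (P.lf 2502 0 0) (P.cons (P.lf 1014 0 0) P.nil))) (P.cons (P.cons (P.lf 0 3458 0) (P.cons (P.lf 380 0 0) P.nil)) (P.cons (P.cons (P.lf 6 0 0) P.nil) P.nil)))))) 9779)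
 EL.nil))
noncomputable def S147_154_216_364_21 : EL := (EL.cons 4 (TM.mk (P.cons (P.cons (P.lf 0 3705977628 0) (P.cons (P.lf 212955339 0 0) (P.cons (P.lf 91828740 0 0) (P.lf 0 10203186 0)))) (P.cons (P.cons (P.lf 0 75662499 0) (P.cons (P.lf 14256729 0 0) (P.cons (P.lf 6147654 0 0) (P.lf 0 683067 0)))) (P.cons (P.cons (P.lf 9247938 0 0) (P.cons (P.lf 0 38292 0) (P.cons (P.lf 0 16515 0) (P.lf 1836 0 0)))) (P.cons (P.cons (P.lf 304608 0 0) (P.cons (P.lf 0 23304 0) (P.cons (P.lf 0 10044 0) P.nil))) (P.cons (P.cons (P.lf 0 3591 0) (P.cons (P.lf 0 477 0) P.nil)) (P.cons (P.cons (P.lf 0 267 0) P.nil) P.nil)))))) 3018)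
 (EL.cons 8 (TM.mk (P.cons (P.cons (P.lf 2585170194 0 0) (P.cons (P.lf 0 148550769 0) (P.cons (P.lf 0 64056771 0) (P.lf 7117422 0 0)))) (P.cons (P.cons (P.lf 0 79212180 0) (P.cons (P.lf 0 2360430 0) (P.cons (P.lf 0 1017849 0) (P.lf 113097 0 0)))) (P.cons (P.cons (P.lf 0 6018765 0) (P.cons (P.lf 354780 0 0) (P.cons (P.lf 152982 0 0) (P.lf 0 16998 0)))) (P.cons (P.cons (P.lf 85641 0 0) (P.cons (P.lf 8328 0 0) (P.cons (P.lf 3591 0 0) P.nil))) (P.cons (P.cons (P.lf 6228 0 0) (P.cons (P.lf 0 237 0) P.nil)) (P.cons (P.cons (P.lf 15 0 0) P.nil) P.nil)))))) 2115)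
 (EL.cons 11 (TM.mk (P.cons (P.cons (P.lf 537203949 0 0) (P.cons (P.lf 500455176 0 0) (P.cons (P.lf 0 51362979 0) (P.cons (P.lf 0 10682070 0) (P.lf 890172 0 0))))) (P.cons (P.cons (P.lf 31696212 0 0) (P.cons (P.lf 29527953 0 0) (P.cons (P.lf 0 3030528 0) (P.cons (P.lf 0 630264 0) (P.lf 52521 0 0))))) (P.cons (P.cons (P.lf 310050 0 0) (P.cons (P.lf 288840 0 0) (P.cons (P.lf 0 29643 0) (P.cons (P.lf 0 6165 0) P.nil)))) (P.cons (P.cons (P.lf 0 12582 0) (P.cons (P.lf 0 11721 0) (P.cons (P.lf 1203 0 0) P.nil))) (P.cons (P.cons (P.lf 0 282 0) (P.cons (P.lf 0 261 0) P.nil)) (P.cons P.nil P.nil)))))) 1002)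
 EL.nil)))
noncomputable def S147_154_216_364_22 : EL := (EL.cons 4 (TM.mk (P.cons (P.cons (P.lf 0 242858307 0) (P.cons (P.lf 110050977 0 0) (P.cons (P.lf 41933307 0 0) (P.cons (P.lf 0 10035021 0) (P.cons (P.lf 0 497625 0) (P.cons (P.lf 228168 0 0) P.nil)))))) (P.cons (P.cons (P.lf 0 152963700 0) (P.cons (P.lf 19905756 0 0) (P.cons (P.lf 7725198 0 0) (P.cons (P.lf 0 1694016 0) (P.cons (P.lf 0 77355 0) P.nil))))) (P.cons (P.cons (P.lf 0 2603244 0) (P.cons (P.lf 720117 0 0) (P.cons (P.lf 266805 0 0) (P.cons (P.lf 0 72198 0) P.nil)))) (P.cons (P.cons (P.lf 496173 0 0) (P.cons (P.lf 0 35709 0) (P.cons (P.lf 0 15384 0) P.nil))) (P.cons (P.cons (P.lf 16179 0 0) (P.cons (P.lf 0 2814 0) P.nil)) (P.cons (P.cons (P.lf 0 423 0) P.nil) P.nil)))))) 71739)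
 (EL.cons 8 (TM.mk (P.cons (P.cons (P.lf 169410105 0 0) (P.cons (P.lf 0 76768005 0) (P.cons (P.lf 0 29251320 0) (P.cons (P.lf 7000107 0 0) (P.cons (P.lf 347127 0 0) (P.cons (P.lf 0 159162 0) P.nil)))))) (P.cons (P.cons (P.lf 98052903 0 0) (P.cons (P.lf 0 9966042 0) (P.cons (P.lf 0 3895356 0) (P.cons (P.lf 824286 0 0) (P.cons (P.lf 36237 0 0) P.nil))))) (P.cons (P.cons (P.lf 0 3427083 0) (P.cons (P.lf 113769 0 0) (P.cons (P.lf 53640 0 0) (P.cons (P.lf 0 1500 0) P.nil)))) (P.cons (P.cons (P.lf 0 315990 0) (P.cons (P.lf 36585 0 0) (P.cons (P.lf 14790 0 0) P.nil))) (P.cons (P.cons (P.lf 4827 0 0) (P.cons (P.lf 519 0 0) P.nil)) (P.cons (P.cons (P.lf 489 0 0) P.nil) P.nil)))))) 38868)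
 (EL.cons 11 (TM.mk (P.cons (P.cons (P.lf 35203785 0 0) (P.cons (P.lf 18865929 0 0) (P.cons (P.lf 0 22349277 0) (P.cons (P.lf 0 4296495 0) (P.cons (P.lf 1531368 0 0) (P.cons (P.lf 32544 0 0) P.nil)))))) (P.cons (P.cons (P.lf 23531382 0 0) (P.cons (P.lf 19866960 0 0) (P.cons (P.lf 0 5050026 0) (P.cons (P.lf 0 998412 0) (P.cons (P.lf 256272 0 0) P.nil))))) (P.cons (P.cons (P.lf 1313352 0 0) (P.cons (P.lf 1112487 0 0) (P.cons (P.lf 0 276873 0) (P.cons (P.lf 0 54780 0) P.nil)))) (P.cons (P.cons (P.lf 0 2883 0) (P.cons (P.lf 0 4545 0) (P.cons (P.lf 0 2253 0) P.nil))) (P.cons (P.cons (P.lf 0 1671 0) (P.cons (P.lf 0 1494 0) P.nil)) (P.cons (P.cons (P.lf 0 27 0) P.nil) P.nil)))))) 77565)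
 EL.nil)))
noncomputable def S147_154_216_364_23 : EL := (EL.cons 4 (TM.mk (P.cons (P.cons (P.lf 2519635989 0 0) (P.cons (P.lf 0 144784989 0) (P.cons (P.lf 0 62432916 0) (P.lf 6936984 0 0)))) (P.cons (P.cons (P.lf 0 2872128 0) (P.cons (P.lf 0 6571905 0) (P.cons (P.lf 0 2833872 0) (P.lf 314871 0 0)))) (P.cons (P.cons (P.lf 0 8513112 0) (P.cons (P.lf 299145 0 0) (P.cons (P.lf 128994 0 0) (P.lf 0 14331 0)))) (P.cons (P.cons (P.lf 0 96867 0) (P.cons (P.lf 19722 0 0) (P.cons (P.lf 8499 0 0) P.nil))) (P.cons (P.cons (P.lf 9822 0 0) (P.cons (P.lf 0 27 0) P.nil)) (P.cons (P.cons (P.lf 228 0 0) P.nil) P.nil)))))) 2631)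
 (EL.cons 8 (TM.mk (P.cons (P.cons (P.lf 0 1757616615 0) (P.cons (P.lf 100997334 0 0) (P.cons (P.lf 43551192 0 0) (P.lf 0 4839021 0)))) (P.cons (P.cons (P.lf 91742721 0 0) (P.cons (P.lf 0 572301 0) (P.cons (P.lf 0 246780 0) (P.lf 27417 0 0)))) (P.cons (P.cons (P.lf 3710121 0 0) (P.cons (P.lf 0 320562 0) (P.cons (P.lf 0 138228 0) (P.lf 15357 0 0)))) (P.cons (P.cons (P.lf 0 168555 0) (P.cons (P.lf 0 1272 0) (P.cons (P.lf 0 549 0) P.nil))) (P.cons (P.cons (P.lf 0 4971 0) (P.cons (P.lf 393 0 0) P.nil)) (P.cons (P.cons (P.lf 105 0 0) P.nil) P.nil)))))) 1968)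
 (EL.cons 11 (TM.mk (P.cons (P.cons (P.lf 0 365236527 0) (P.cons (P.lf 0 340251612 0) (P.cons (P.lf 34920882 0 0) (P.cons (P.lf 7262571 0 0) (P.lf 0 605211 0))))) (P.cons (P.cons (P.lf 0 13676628 0) (P.cons (P.lf 0 12741045 0) (P.cons (P.lf 1307643 0 0) (P.cons (P.lf 271950 0 0) (P.lf 0 22662 0))))) (P.cons (P.cons (P.lf 415605 0 0) (P.cons (P.lf 387174 0 0) (P.cons (P.lf 0 39735 0) (P.cons (P.lf 0 8262 0) P.nil)))) (P.cons (P.cons (P.lf 23010 0 0) (P.cons (P.lf 21435 0 0) (P.cons (P.lf 0 2199 0) P.nil))) (P.cons (P.cons (P.lf 93 0 0) (P.cons (P.lf 87 0 0) P.nil)) (P.cons (P.cons (P.lf 0 9 0) P.nil) P.nil)))))) 2160)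
 EL.nil)))
noncomputable def S147_154_216_364_24 : EL := (EL.cons 4 (TM.mk (P.cons (P.cons (P.lf 165115548 0 0) (P.cons (P.lf 0 74821929 0) (P.cons (P.lf 0 28509795 0) (P.cons (P.lf 6822654 0 0) (P.cons (P.lf 338328 0 0) (P.cons (P.lf 0 155127 0) P.nil)))))) (P.cons (P.cons (P.lf 100438347 0 0) (P.cons (P.lf 0 11920731 0) (P.cons (P.lf 0 4637676 0) (P.cons (P.lf 1004664 0 0) (P.cons (P.lf 45300 0 0) P.nil))))) (P.cons (P.cons (P.lf 0 545067 0) (P.cons (P.lf 0 164700 0) (P.cons (P.lf 0 55542 0) (P.cons (P.lf 21237 0 0) P.nil)))) (P.cons (P.cons (P.lf 0 421746 0) (P.cons (P.lf 40905 0 0) (P.cons (P.lf 16725 0 0) P.nil))) (P.cons (P.cons (P.lf 0 4602 0) (P.cons (P.lf 1614 0 0) P.nil)) (P.cons (P.cons (P.lf 678 0 0) P.nil) P.nil)))))) 41385)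
 (EL.cons 8 (TM.mk (P.cons (P.cons (P.lf 0 115179270 0) (P.cons (P.lf 52193361 0 0) (P.cons (P.lf 19887513 0 0) (P.cons (P.lf 0 4759263 0) (P.cons (P.lf 0 236004 0) (P.cons (P.lf 108210 0 0) P.nil)))))) (P.cons (P.cons (P.lf 0 64181796 0) (P.cons (P.lf 5650662 0 0) (P.cons (P.lf 2219691 0 0) (P.cons (P.lf 0 457827 0) (P.cons (P.lf 0 19548 0) P.nil))))) (P.cons (P.cons (P.lf 3818103 0 0) (P.cons (P.lf 0 246540 0) (P.cons (P.lf 0 102372 0) (P.cons (P.lf 15210 0 0) P.nil)))) (P.cons (P.cons (P.lf 194271 0 0) (P.cons (P.lf 0 26259 0) (P.cons (P.lf 0 10464 0) P.nil))) (P.cons (P.cons (P.lf 0 8886 0) (P.cons (P.lf 213 0 0) P.nil)) (P.cons (P.cons (P.lf 0 363 0) P.nil) P.nil)))))) 22194)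
 (EL.cons 11 (TM.mk (P.cons (P.cons (P.lf 0 23934501 0) (P.cons (P.lf 0 12826647 0) (P.cons (P.lf 15194922 0 0) (P.cons (P.lf 2921121 0 0) (P.cons (P.lf 0 1041153 0) (P.cons (P.lf 0 22125 0) P.nil)))))) (P.cons (P.cons (P.lf 0 15482679 0) (P.cons (P.lf 0 13230738 0) (P.cons (P.lf 3105888 0 0) (P.cons (P.lf 615834 0 0) (P.cons (P.lf 0 151791 0) P.nil))))) (P.cons (P.cons (P.lf 0 537450 0) (P.cons (P.lf 0 459513 0) (P.cons (P.lf 107493 0 0) (P.cons (P.lf 21315 0 0) P.nil)))) (P.cons (P.cons (P.lf 28323 0 0) (P.cons (P.lf 25392 0 0) (P.cons (P.lf 0 4059 0) P.nil))) (P.cons (P.cons (P.lf 1503 0 0) (P.cons (P.lf 1296 0 0) P.nil)) (P.cons (P.cons (P.lf 0 3 0) P.nil) P.nil)))))) 46431)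
 EL.nil)))
noncomputable def S147_154_216_364_25 : EL := (EL.cons 4 (TM.mk (P.cons (P.cons (P.lf 0 1713060939 0) (P.cons (P.lf 98437041 0 0) (P.cons (P.lf 42447159 0 0) (P.lf 0 4716345 0)))) (P.cons (P.cons (P.lf 38879865 0 0) (P.cons (P.lf 2346201 0 0) (P.cons (P.lf 1011705 0 0) (P.lf 0 112407 0)))) (P.cons (P.cons (P.lf 6505062 0 0) (P.cons (P.lf 0 343326 0) (P.cons (P.lf 0 148047 0) (P.lf 16449 0 0)))) (P.cons (P.cons (P.lf 0 58068 0) (P.cons (P.lf 0 11103 0) (P.cons (P.lf 0 4785 0) P.nil))) (P.cons (P.cons (P.lf 0 10788 0) (P.cons (P.lf 402 0 0) P.nil)) (P.cons (P.cons (P.lf 0 48 0) P.nil) P.nil)))))) 2151)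
 (EL.cons 8 (TM.mk (P.cons (P.cons (P.lf 1194975933 0 0) (P.cons (P.lf 0 68666499 0) (P.cons (P.lf 0 29609769 0) (P.lf 3289974 0 0)))) (P.cons (P.cons (P.lf 0 88133619 0) (P.cons (P.lf 1869291 0 0) (P.cons (P.lf 806055 0 0) (P.lf 0 89559 0)))) (P.cons (P.cons (P.lf 0 1707504 0) (P.cons (P.lf 239991 0 0) (P.cons (P.lf 103485 0 0) (P.lf 0 11496 0)))) (P.cons (P.cons (P.lf 195426 0 0) (P.cons (P.lf 0 3933 0) (P.cons (P.lf 0 1695 0) P.nil))) (P.cons (P.cons (P.lf 2175 0 0) (P.cons (P.lf 0 387 0) P.nil)) (P.cons (P.cons (P.lf 0 195 0) P.nil) P.nil)))))) 1692)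
 (EL.cons 11 (TM.mk (P.cons (P.cons (P.lf 248318580 0 0) (P.cons (P.lf 231331728 0 0) (P.cons (P.lf 0 23742159 0) (P.cons (P.lf 0 4937706 0) (P.lf 411474 0 0))))) (P.cons (P.cons (P.lf 3945711 0 0) (P.cons (P.lf 3675795 0 0) (P.cons (P.lf 0 377253 0) (P.cons (P.lf 0 78456 0) (P.lf 6537 0 0))))) (P.cons (P.cons (P.lf 0 593058 0) (P.cons (P.lf 0 552489 0) (P.cons (P.lf 56703 0 0) (P.cons (P.lf 11790 0 0) P.nil)))) (P.cons (P.cons (P.lf 0 13920 0) (P.cons (P.lf 0 12969 0) (P.cons (P.lf 1329 0 0) P.nil))) (P.cons (P.cons (P.lf 405 0 0) (P.cons (P.lf 378 0 0) P.nil)) (P.cons (P.cons (P.lf 15 0 0) P.nil) P.nil)))))) 2223)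
 EL.nil)))
noncomputable def S147_154_216_364_26 : EL := (EL.cons 4 (TM.mk (P.cons (P.cons (P.lf 0 112259469 0) (P.cons (P.lf 50870256 0 0) (P.cons (P.lf 19383363 0 0) (P.cons (P.lf 0 4638615 0) (P.cons (P.lf 0 230022 0) (P.cons (P.lf 105468 0 0) P.nil)))))) (P.cons (P.cons (P.lf 0 65866560 0) (P.cons (P.lf 7008147 0 0) (P.cons (P.lf 2735250 0 0) (P.cons (P.lf 0 583065 0) (P.cons (P.lf 0 25839 0) P.nil))))) (P.cons (P.cons (P.lf 1892334 0 0) (P.cons (P.lf 0 85272 0) (P.cons (P.lf 0 38796 0) (P.cons (P.lf 2340 0 0) P.nil)))) (P.cons (P.cons (P.lf 309126 0 0) (P.cons (P.lf 0 33867 0) (P.cons (P.lf 0 13602 0) P.nil))) (P.cons (P.cons (P.lf 0 3153 0) (P.cons (P.lf 0 552 0) P.nil)) (P.cons (P.cons (P.lf 0 660 0) P.nil) P.nil)))))) 27204)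
 (EL.cons 8 (TM.mk (P.cons (P.cons (P.lf 78308577 0 0) (P.cons (P.lf 0 35485446 0) (P.cons (P.lf 0 13521207 0) (P.cons (P.lf 3235746 0 0) (P.cons (P.lf 160455 0 0) (P.cons (P.lf 0 73572 0) P.nil)))))) (P.cons (P.cons (P.lf 41948157 0 0) (P.cons (P.lf 0 3076863 0) (P.cons (P.lf 0 1217664 0) (P.cons (P.lf 241518 0 0) (P.cons (P.lf 9831 0 0) P.nil))))) (P.cons (P.cons (P.lf 0 3571206 0) (P.cons (P.lf 266160 0 0) (P.cons (P.lf 108123 0 0) (P.cons (P.lf 0 18483 0) P.nil)))) (P.cons (P.cons (P.lf 0 95541 0) (P.cons (P.lf 15978 0 0) (P.cons (P.lf 6294 0 0) P.nil))) (P.cons (P.cons (P.lf 10002 0 0) (P.cons (P.lf 0 603 0) P.nil)) (P.cons (P.cons (P.lf 180 0 0) P.nil) P.nil)))))) 14739)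
 (EL.cons 11 (TM.mk (P.cons (P.cons (P.lf 16272690 0 0) (P.cons (P.lf 8720637 0 0) (P.cons (P.lf 0 10330788 0) (P.cons (P.lf 0 1986024 0) (P.cons (P.lf 707862 0 0) (P.cons (P.lf 15042 0 0) P.nil)))))) (P.cons (P.cons (P.lf 10175652 0 0) (P.cons (P.lf 8807388 0 0) (P.cons (P.lf 0 1888950 0) (P.cons (P.lf 0 375885 0) (P.cons (P.lf 87942 0 0) P.nil))))) (P.cons (P.cons (P.lf 131280 0 0) (P.cons (P.lf 114642 0 0) (P.cons (P.lf 0 22986 0) (P.cons (P.lf 0 4587 0) P.nil)))) (P.cons (P.cons (P.lf 0 31815 0) (P.cons (P.lf 0 27993 0) (P.cons (P.lf 5280 0 0) P.nil))) (P.cons (P.cons (P.lf 0 777 0) (P.cons (P.lf 0 657 0) P.nil)) (P.cons (P.cons (P.lf 33 0 0) P.nil) P.nil)))))) 31038)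
 EL.nil)))
noncomputable def S147_154_216_364_27 : EL := (EL.cons 13 (TM.mk (P.lf 0 4294967296 0) 0)
 EL.nil)
noncomputable def S147_154_216_364_28 : EL := (EL.cons 13 (TM.mk (P.cons (P.cons (P.lf 0 281455691 0) (P.cons (P.lf 111368148 0 0) (P.cons (P.lf 48023200 0 0) (P.lf 0 5335908 0)))) (P.cons (P.cons (P.lf 0 171527870 0) (P.cons (P.lf 9856448 0 0) (P.cons (P.lf 4250208 0 0) (P.lf 0 472244 0)))) (P.cons (P.cons (P.lf 0 217356 0) (P.cons (P.lf 241800 0 0) (P.cons (P.lf 104264 0 0) (P.lf 0 11584 0)))) (P.cons (P.cons (P.lf 128301 0 0) (P.cons (P.lf 0 2496 0) (P.cons (P.lf 0 1076 0) P.nil))) (P.cons (P.cons (P.lf 1763 0 0) (P.cons (P.lf 0 196 0) P.nil)) (P.cons (P.cons (P.lf 0 38 0) P.nil) P.nil)))))) 802)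
 EL.nil)
noncomputable def S147_154_216_364_29 : EL := (EL.cons 13 (TM.mk (P.cons (P.cons (P.lf 0 18444216 0) (P.cons (P.lf 14596245 0 0) (P.cons (P.lf 3406298 0 0) (P.cons (P.lf 0 3189815 0) (P.cons (P.lf 0 260241 0) (P.cons (P.lf 119324 0 0) P.nil)))))) (P.cons (P.cons (P.lf 0 22480960 0) (P.cons (P.lf 10187222 0 0) (P.cons (P.lf 3881691 0 0) (P.cons (P.lf 0 928923 0) (P.cons (P.lf 0 46064 0) P.nil))))) (P.cons (P.cons (P.lf 0 6878786 0) (P.cons (P.lf 830235 0 0) (P.cons (P.lf 322847 0 0) (P.cons (P.lf 0 70100 0) P.nil)))) (P.cons (P.cons (P.lf 0 545 0) (P.cons (P.lf 13330 0 0) (P.cons (P.lf 4767 0 0) P.nil))) (P.cons (P.cons (P.lf 10467 0 0) (P.cons (P.lf 0 880 0) P.nil)) (P.cons (P.cons (P.lf 148 0 0) P.nil) P.nil)))))) 43931)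
 EL.nil)
noncomputable def S147_154_216_364_30 : EL := (EL.cons 13 (TM.mk (P.cons (P.lf 2920080816 0 0) (P.cons (P.lf 0 62945960 0) (P.cons (P.lf 0 1294172 0) (P.cons (P.lf 0 2904 0) (P.cons (P.lf 212 0 0) (P.cons (P.lf 0 0 0) P.nil)))))) 56)
 EL.nil)
noncomputable def S147_154_216_364_31 : EL := (EL.cons 13 (TM.mk (P.cons (P.cons (P.lf 191357304 0 0) (P.cons (P.lf 0 75717454 0) (P.cons (P.lf 0 32650219 0) (P.lf 3627800 0 0)))) (P.cons (P.cons (P.lf 112494161 0 0) (P.cons (P.lf 0 5069060 0) (P.cons (P.lf 0 2185833 0) (P.lf 242869 0 0)))) (P.cons (P.cons (P.lf 0 2450901 0) (P.cons (P.lf 13615 0 0) (P.cons (P.lf 5873 0 0) (P.lf 0 653 0)))) (P.cons (P.cons (P.lf 0 142290 0) (P.cons (P.lf 8286 0 0) (P.cons (P.lf 3572 0 0) P.nil))) (P.cons (P.cons (P.lf 514 0 0) (P.cons (P.lf 170 0 0) P.nil)) (P.cons (P.cons (P.lf 98 0 0) P.nil) P.nil)))))) 962)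
 EL.nil)
noncomputable def S147_154_216_364_32 : EL := (EL.cons 13 (TM.mk (P.cons (P.cons (P.lf 12539932 0 0) (P.cons (P.lf 0 9923757 0) (P.cons (P.lf 0 2315888 0) (P.cons (P.lf 2168705 0 0) (P.cons (P.lf 176933 0 0) (P.cons (P.lf 0 81126 0) P.nil)))))) (P.cons (P.cons (P.lf 15014137 0 0) (P.cons (P.lf 0 6712213 0) (P.cons (P.lf 0 2589178 0) (P.cons (P.lf 584811 0 0) (P.cons (P.lf 27504 0 0) P.nil))))) (P.cons (P.cons (P.lf 4341745 0 0) (P.cons (P.lf 0 410764 0) (P.cons (P.lf 0 161583 0) (P.cons (P.lf 33084 0 0) P.nil)))) (P.cons (P.cons (P.lf 0 107229 0) (P.cons (P.lf 6184 0 0) (P.cons (P.lf 2662 0 0) P.nil))) (P.cons (P.cons (P.lf 0 9211 0) (P.cons (P.lf 1049 0 0) P.nil)) (P.cons (P.cons (P.lf 49 0 0) P.nil) P.nil)))))) 34627)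
 EL.nil)
noncomputable def S147_154_216_364_33 : EL := (EL.cons 14 (TM.mk (P.lf 8589934592 0 0) 0)
 EL.nil)
noncomputable def S147_154_216_364_34 : EL := (EL.cons 14 (TM.mk (P.cons (P.cons (P.lf 562911382 0 0) (P.cons (P.lf 0 222736296 0) (P.cons (P.lf 0 96046400 0) (P.lf 10671816 0 0)))) (P.cons (P.cons (P.lf 343055740 0 0) (P.cons (P.lf 0 19712896 0) (P.cons (P.lf 0 8500416 0) (P.lf 944488 0 0)))) (P.cons (P.cons (P.lf 434712 0 0) (P.cons (P.lf 0 483600 0) (P.cons (P.lf 0 208528 0) (P.lf 23168 0 0)))) (P.cons (P.cons (P.lf 0 256602 0) (P.cons (P.lf 4992 0 0) (P.cons (P.lf 2152 0 0) P.nil))) (P.cons (P.cons (P.lf 0 3526 0) (P.cons (P.lf 392 0 0) P.nil)) (P.cons (P.cons (P.lf 76 0 0) P.nil) P.nil)))))) 1604)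
 EL.nil)
noncomputable def S147_154_216_364_35 : EL := (EL.cons 14 (TM.mk (P.cons (P.cons (P.lf 36888432 0 0) (P.cons (P.lf 0 29192490 0) (P.cons (P.lf 0 6812596 0) (P.cons (P.lf 6379630 0 0) (P.cons (P.lf 520482 0 0) (P.cons (P.lf 0 238648 0) P.nil)))))) (P.cons (P.cons (P.lf 44961920 0 0) (P.cons (P.lf 0 20374444 0) (P.cons (P.lf 0 7763382 0) (P.cons (P.lf 1857846 0 0) (P.cons (P.lf 92128 0 0) P.nil))))) (P.cons (P.cons (P.lf 13757572 0 0) (P.cons (P.lf 0 1660470 0) (P.cons (P.lf 0 645694 0) (P.cons (P.lf 140200 0 0) P.nil)))) (P.cons (P.cons (P.lf 1090 0 0) (P.cons (P.lf 0 26660 0) (P.cons (P.lf 0 9534 0) P.nil))) (P.cons (P.cons (P.lf 0 20934 0) (P.cons (P.lf 1760 0 0) P.nil)) (P.cons (P.cons (P.lf 0 296 0) P.nil) P.nil)))))) 87862)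
 EL.nil)
noncomputable def S147_154_216_364_36 : EL := (EL.cons 14 (TM.mk (P.cons (P.lf 0 5840161632 0) (P.cons (P.lf 125891920 0 0) (P.cons (P.lf 2588344 0 0) (P.cons (P.lf 5808 0 0) (P.cons (P.lf 0 424 0) (P.cons (P.lf 0 0 0) P.nil)))))) 112)
 EL.nil)
noncomputable def S147_154_216_364_37 : EL := (EL.cons 14 (TM.mk (P.cons (P.cons (P.lf 0 382714608 0) (P.cons (P.lf 151434908 0 0) (P.cons (P.lf 65300438 0 0) (P.lf 0 7255600 0)))) (P.cons (P.cons (P.lf 0 224988322 0) (P.cons (P.lf 10138120 0 0) (P.cons (P.lf 4371666 0 0) (P.lf 0 485738 0)))) (P.cons (P.cons (P.lf 4901802 0 0) (P.cons (P.lf 0 27230 0) (P.cons (P.lf 0 11746 0) (P.lf 1306 0 0)))) (P.cons (P.cons (P.lf 284580 0 0) (P.cons (P.lf 0 16572 0) (P.cons (P.lf 0 7144 0) P.nil))) (P.cons (P.cons (P.lf 0 1028 0) (P.cons (P.lf 0 340 0) P.nil)) (P.cons (P.cons (P.lf 0 196 0) P.nil) P.nil)))))) 1924)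
 EL.nil)
noncomputable def S147_154_216_364_38 : EL := (EL.cons 14 (TM.mk (P.cons (P.cons (P.lf 0 25079864 0) (P.cons (P.lf 19847514 0 0) (P.cons (P.lf 4631776 0 0) (P.cons (P.lf 0 4337410 0) (P.cons (P.lf 0 353866 0) (P.cons (P.lf 162252 0 0) P.nil)))))) (P.cons (P.cons (P.lf 0 30028274 0) (P.cons (P.lf 13424426 0 0) (P.cons (P.lf 5178356 0 0) (P.cons (P.lf 0 1169622 0) (P.cons (P.lf 0 55008 0) P.nil))))) (P.cons (P.cons (P.lf 0 8683490 0) (P.cons (P.lf 821528 0 0) (P.cons (P.lf 323166 0 0) (P.cons (P.lf 0 66168 0) P.nil)))) (P.cons (P.cons (P.lf 214458 0 0) (P.cons (P.lf 0 12368 0) (P.cons (P.lf 0 5324 0) P.nil))) (P.cons (P.cons (P.lf 18422 0 0) (P.cons (P.lf 0 2098 0) P.nil)) (P.cons (P.cons (P.lf 0 98 0) P.nil) P.nil)))))) 69254)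
 EL.nil)
noncomputable def S147_154_216_364_39 : EL := (EL.cons 14 (TM.mk (P.cons (P.lf 3970634178 0 0) (P.cons (P.lf 0 171183878 0) (P.cons (P.lf 0 1674508 0) (P.cons (P.lf 67970 0 0) (P.cons (P.lf 1526 0 0) (P.cons (P.lf 0 8 0) P.nil)))))) 168)
 EL.nil)
noncomputable def S147_154_216_364_40 : EL := (EL.cons 14 (TM.mk (P.cons (P.cons (P.lf 260201652 0 0) (P.cons (P.lf 0 102958216 0) (P.cons (P.lf 0 44396742 0) (P.lf 4932968 0 0)))) (P.cons (P.cons (P.lf 147357058 0 0) (P.cons (P.lf 0 4673356 0) (P.cons (P.lf 0 2015200 0) (P.lf 223910 0 0)))) (P.cons (P.cons (P.lf 0 6745350 0) (P.cons (P.lf 212726 0 0) (P.cons (P.lf 91732 0 0) (P.lf 0 10192 0)))) (P.cons (P.cons (P.lf 0 189696 0) (P.cons (P.lf 14024 0 0) (P.cons (P.lf 6046 0 0) P.nil))) (P.cons (P.cons (P.lf 6212 0 0) (P.cons (P.lf 0 18 0) P.nil)) (P.cons (P.cons (P.lf 218 0 0) P.nil) P.nil)))))) 1772)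
 EL.nil)
noncomputable def S147_154_216_364_41 : EL := (EL.cons 14 (TM.mk (P.cons (P.cons (P.lf 17051406 0 0) (P.cons (P.lf 0 13494014 0) (P.cons (P.lf 0 3149072 0) (P.cons (P.lf 2948936 0 0) (P.cons (P.lf 240588 0 0) (P.cons (P.lf 0 110312 0) P.nil)))))) (P.cons (P.cons (P.lf 20048188 0 0) (P.cons (P.lf 0 8836176 0) (P.cons (P.lf 0 3452800 0) (P.cons (P.lf 731638 0 0) (P.cons (P.lf 32212 0 0) P.nil))))) (P.cons (P.cons (P.lf 5456124 0 0) (P.cons (P.lf 0 355818 0) (P.cons (P.lf 0 142426 0) (P.cons (P.lf 26538 0 0) P.nil)))) (P.cons (P.cons (P.lf 0 282134 0) (P.cons (P.lf 24506 0 0) (P.cons (P.lf 9920 0 0) P.nil))) (P.cons (P.cons (P.lf 0 12016 0) (P.cons (P.lf 1502 0 0) P.nil)) (P.cons (P.cons (P.lf 396 0 0) P.nil) P.nil)))))) 52902)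
 EL.nil)
noncomputable def S147_154_216_364_42 : EL := (EL.cons 14 (TM.mk (P.cons (P.lf 0 2699571822 0) (P.cons (P.lf 174577844 0 0) (P.cons (P.lf 0 173912 0) (P.cons (P.lf 0 119648 0) (P.cons (P.lf 0 856 0) (P.cons (P.lf 54 0 0) P.nil)))))) 184)
 EL.nil)
noncomputable def S147_154_216_364_43 : EL := (EL.cons 14 (TM.mk (P.cons (P.cons (P.lf 0 176907016 0) (P.cons (P.lf 69999674 0 0) (P.cons (P.lf 30184648 0 0) (P.lf 0 3353846 0)))) (P.cons (P.cons (P.lf 0 96372300 0) (P.cons (P.lf 1668412 0 0) (P.cons (P.lf 719436 0 0) (P.lf 0 79936 0)))) (P.cons (P.cons (P.lf 6824090 0 0) (P.cons (P.lf 0 244144 0) (P.cons (P.lf 0 105278 0) (P.lf 11698 0 0)))) (P.cons (P.cons (P.lf 74690 0 0) (P.cons (P.lf 0 7894 0) (P.cons (P.lf 0 3404 0) P.nil))) (P.cons (P.cons (P.lf 0 8950 0) (P.cons (P.lf 284 0 0) P.nil)) (P.cons (P.cons (P.lf 0 126 0) P.nil) P.nil)))))) 1462)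
 EL.nil)
noncomputable def S147_154_216_364_44 : EL := (EL.cons 14 (TM.mk (P.cons (P.cons (P.lf 0 11592982 0) (P.cons (P.lf 9174368 0 0) (P.cons (P.lf 2141004 0 0) (P.cons (P.lf 0 2004936 0) (P.cons (P.lf 0 163572 0) (P.cons (P.lf 75000 0 0) P.nil)))))) (P.cons (P.cons (P.lf 0 13380546 0) (P.cons (P.lf 5809812 0 0) (P.cons (P.lf 2301352 0 0) (P.cons (P.lf 0 454210 0) (P.cons (P.lf 0 18374 0) P.nil))))) (P.cons (P.cons (P.lf 0 3410574 0) (P.cons (P.lf 108348 0 0) (P.cons (P.lf 45280 0 0) (P.cons (P.lf 0 6432 0) P.nil)))) (P.cons (P.cons (P.lf 277834 0 0) (P.cons (P.lf 0 24548 0) (P.cons (P.lf 0 9874 0) P.nil))) (P.cons (P.cons (P.lf 5692 0 0) (P.cons (P.lf 0 774 0) P.nil)) (P.cons (P.cons (P.lf 0 528 0) P.nil) P.nil)))))) 39604)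
 EL.nil)
noncomputable def S147_154_216_364_45 : EL := (EL.cons 14 (TM.mk (P.cons (P.cons (P.lf 2417354 0 0) (P.cons (P.lf 0 2869540 0) (P.cons (P.lf 0 101940 0) (P.cons (P.lf 966954 0 0) (P.cons (P.lf 0 91408 0) (P.cons (P.lf 0 108930 0) P.nil)))))) (P.cons (P.cons (P.lf 4419632 0 0) (P.cons (P.lf 0 3751540 0) (P.cons (P.lf 0 724754 0) (P.cons (P.lf 910082 0 0) (P.cons (P.lf 29032 0 0) P.nil))))) (P.cons (P.cons (P.lf 2699062 0 0) (P.cons (P.lf 0 1385974 0) (P.cons (P.lf 0 460462 0) (P.cons (P.lf 180220 0 0) P.nil)))) (P.cons (P.cons (P.lf 550680 0 0) (P.cons (P.lf 0 102330 0) (P.cons (P.lf 0 35676 0) P.nil))) (P.cons (P.cons (P.lf 0 1990 0) (P.cons (P.lf 0 618 0) P.nil)) (P.cons (P.cons (P.lf 0 1284 0) P.nil) P.nil)))))) 146320)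
 EL.nil)
noncomputable def S147_154_216_364_46 : EL := (EL.cons 15 (TM.mk (P.lf 4294967296 0 0) 0)
 EL.nil)
noncomputable def S147_154_216_364_47 : EL := (EL.cons 15 (TM.mk (P.cons (P.cons (P.lf 281455691 0 0) (P.cons (P.lf 0 111368148 0) (P.cons (P.lf 0 48023200 0) (P.lf 5335908 0 0)))) (P.cons (P.cons (P.lf 171527870 0 0) (P.cons (P.lf 0 9856448 0) (P.cons (P.lf 0 4250208 0) (P.lf 472244 0 0)))) (P.cons (P.cons (P.lf 217356 0 0) (P.cons (P.lf 0 241800 0) (P.cons (P.lf 0 104264 0) (P.lf 11584 0 0)))) (P.cons (P.cons (P.lf 0 128301 0) (P.cons (P.lf 2496 0 0) (P.cons (P.lf 1076 0 0) P.nil))) (P.cons (P.cons (P.lf 0 1763 0) (P.cons (P.lf 196 0 0) P.nil)) (P.cons (P.cons (P.lf 38 0 0) P.nil) P.nil)))))) 802)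
 EL.nil)
noncomputable def S147_154_216_364_48 : EL := (EL.cons 15 (TM.mk (P.cons (P.cons (P.lf 18444216 0 0) (P.cons (P.lf 0 14596245 0) (P.cons (P.lf 0 3406298 0) (P.cons (P.lf 3189815 0 0) (P.cons (P.lf 260241 0 0) (P.cons (P.lf 0 119324 0) P.nil)))))) (P.cons (P.cons (P.lf 22480960 0 0) (P.cons (P.lf 0 10187222 0) (P.cons (P.lf 0 3881691 0) (P.cons (P.lf 928923 0 0) (P.cons (P.lf 46064 0 0) P.nil))))) (P.cons (P.cons (P.lf 6878786 0 0) (P.cons (P.lf 0 830235 0) (P.cons (P.lf 0 322847 0) (P.cons (P.lf 70100 0 0) P.nil)))) (P.cons (P.cons (P.lf 545 0 0) (P.cons (P.lf 0 13330 0) (P.cons (P.lf 0 4767 0) P.nil))) (P.cons (P.cons (P.lf 0 10467 0) (P.cons (P.lf 880 0 0) P.nil)) (P.cons (P.cons (P.lf 0 148 0) P.nil) P.nil)))))) 43931)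
 EL.nil)
noncomputable def S147_154_216_364 : SL := (SL.cons S147_154_216_364_0 (SL.cons S147_154_216_364_1 (SL.cons S147_154_216_364_2 (SL.cons S147_154_216_364_3 (SL.cons S147_154_216_364_4 (SL.cons S147_154_216_364_5 (SL.cons S147_154_216_364_6 (SL.cons S147_154_216_364_7 (SL.cons S147_154_216_364_8 (SL.cons S147_154_216_364_9 (SL.cons S147_154_216_364_10 (SL.cons S147_154_216_364_11 (SL.cons S147_154_216_364_12 (SL.cons S147_154_216_364_13 (SL.cons S147_154_216_364_14 (SL.cons S147_154_216_364_15 (SL.cons S147_154_216_364_16 (SL.cons S147_154_216_364_17 (SL.cons S147_154_216_364_18 (SL.cons S147_154_216_364_19 (SL.cons S147_154_216_364_20 (SL.cons S147_154_216_364_21 (SL.cons S147_154_216_364_22 (SL.cons S147_154_216_364_23 (SL.cons S147_154_216_364_24 (SL.cons S147_154_216_364_25 (SL.cons S147_154_216_364_26 (SL.cons S147_154_216_364_27 (SL.cons S147_154_216_364_28 (SL.cons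 S147_154_216_364_29 (SL.cons S147_154_216_364_30 (SL.cons S147_154_216_364_31 (SL.cons S147_154_216_364_32 (SL.cons S147_154_216_364_33 (SL.cons S147_154_216_364_34 (SL.cons S147_154_216_364_35 (SL.cons S147_154_216_364_36 (SL.cons S147_154_216_364_37 (SL.cons S147_154_216_364_38 (SL.cons S147_154_216_364_39 (SL.cons S147_154_216_364_40 (SL.cons S147_154_216_364_41 (SL.cons S147_154_216_364_42 (SL.cons S147_154_216_364_43 (SL.cons S147_154_216_364_44 (SL.cons S147_154_216_364_45 (SL.cons S147_154_216_364_46 (SL.cons S147_154_216_364_47 (SL.cons S147_154_216_364_48 SL.nil)))))))))))))))))))))))))))))))))))))))))))))))))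
theorem S140_198_216_364_ok : band (seq (shp 5 140 198 216 364) S140_198_216_364) (sok S140_198_216_364) = true := by decide +kernel

theorem S140_198_364_512_ok : band (seq (shp 5 140 198 364 512) S140_198_364_512) (sok S140_198_364_512) = true := by decide +kernel

theorem S140_198_438_512_ok : band (seq (shp 5 140 198 438 512) S140_198_438_512) (sok S140_198_438_512) = true := by decide +kernel

theorem S140_198_512_660_ok : band (seq (shp 5 140 198 512 660) S140_198_512_660) (sok S140_198_512_660) = true := by decide +kernel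

theorem S140_198_660_808_ok : band (seq (shp 5 140 198 660 808) S140_198_660_808) (sok S140_198_660_808) = true := by decide +kernel

theorem S147_154_216_364_ok : band (seq (shp 5 147 154 216 364) S147_154_216_364) (sok S147_154_216_364) = true := by decide +kernel

end Vale.Agent.P098.Ck
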