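import Vale.Agent.P098.CkDefs

namespace Vale.Agent.P098.Ck

noncomputable def S169_198_216_364_0 : EL := (EL.cons 0 (TM.mk (P.cons (P.lf 6454925654 0 0) (P.cons (P.lf 654467131 0 0) (P.cons (P.lf 0 15080835 0) (P.cons (P.lf 0 7271133 0) (P.cons (P.lf 0 199596 0) (P.cons (P.lf 35412 0 0) P.nil)))))) 3454)
 (EL.cons 1 (TM.mk (P.cons (P.lf 0 1695086628 0) (P.cons (P.lf 139901857 0 0) (P.cons (P.lf 47471786 0 0) (P.cons (P.lf 293435 0 0) (P.cons (P.lf 0 328029 0) (P.cons (P.lf 0 15684 0) P.nil)))))) 1940)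
 (EL.cons 5 (TM.mk (P.cons (P.lf 5006359730 0 0) (P.cons (P.lf 0 232699422 0) (P.cons (P.lf 5362070 0 0) (P.cons (P.lf 2585292 0 0) (P.cons (P.lf 70970 0 0) (P.cons (P.lf 0 12590 0) P.nil)))))) 1169)
 (EL.cons 9 (TM.mk (P.lf 6442450944 0 0) 2)
 EL.nil))))
noncomputable def S169_198_216_364_1 : EL := (EL.cons 0 (TM.mk (P.cons (P.cons (P.lf 0 568384717 0) (P.cons (P.lf 0 23392452 0) (P.cons (P.lf 0 10087093 0) (P.lf 1120792 0 0)))) (P.cons (P.cons (P.lf 2291869785 0 0) (P.cons (P.lf 0 141003468 0) (P.cons (P.lf 0 60802287 0) (P.lf 6755803 0 0)))) (P.cons (P.cons (P.lf 133347067 0 0) (P.cons (P.lf 0 29870851 0) (P.cons (P.lf 0 12880643 0) (P.lf 1431177 0 0)))) (P.cons (P.cons (P.lf 0 79515991 0) (P.cons (P.lf 1766795 0 0) (P.cons (P.lf 761861 0 0) P.nil))) (P.cons (P.cons (P.lf 0 7448894 0) (P.cons (P.lf 888606 0 0) P.nil)) (P.cons (P.cons (P.lf 1071724 0 0) P.nil)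 P.nil)))))) 1352539)
 (EL.cons 1 (TM.mk (P.cons (P.cons (P.lf 0 1410199921 0) (P.cons (P.lf 153942398 0 0) (P.cons (P.lf 66381697 0 0) (P.lf 0 7375736 0)))) (P.cons (P.cons (P.lf 0 424849635 0) (P.cons (P.lf 56556766 0 0) (P.cons (P.lf 24387910 0 0) (P.lf 0 2709761 0)))) (P.cons (P.cons (P.lf 226745028 0 0) (P.cons (P.lf 0 7527905 0) (P.cons (P.lf 0 3246122 0) (P.lf 360675 0 0)))) (P.cons (P.cons (P.lf 26219762 0 0) (P.cons (P.lf 0 3276390 0) (P.cons (P.lf 0 1412810 0) P.nil))) (P.cons (P.cons (P.lf 0 5293506 0) (P.cons (P.lf 0 50061 0) P.nil)) (P.cons (P.cons (P.lf 0 724278 0) P.nil) P.nil)))))) 746028)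
 (EL.cons 5 (TM.mk (P.cons (P.cons (P.lf 3262128053 0 0) (P.cons (P.lf 0 369094900 0) (P.cons (P.lf 0 159157882 0) (P.lf 17684204 0 0)))) (P.cons (P.cons (P.lf 152993596 0 0) (P.cons (P.lf 0 41597360 0) (P.cons (P.lf 0 17937252 0) (P.lf 1993036 0 0)))) (P.cons (P.cons (P.lf 0 161597494 0) (P.cons (P.lf 9018528 0 0) (P.cons (P.lf 3888894 0 0) (P.lf 0 432092 0)))) (P.cons (P.cons (P.lf 10940834 0 0) (P.cons (P.lf 662554 0 0) (P.cons (P.lf 285704 0 0) P.nil))) (P.cons (P.cons (P.lf 3365855 0 0) (P.cons (P.lf 0 220412 0) P.nil)) (P.cons (P.cons (P.lf 0 190655 0) P.nil) P.nil)))))) 627680)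
 (EL.cons 9 (TM.mk (P.cons (P.cons (P.lf 2700031497 0 0) (P.cons (P.lf 0 333010770 0) (P.cons (P.lf 0 143598000 0) (P.lf 15955326 0 0)))) (P.cons (P.cons (P.lf 854012314 0 0) (P.cons (P.lf 0 80939928 0) (P.cons (P.lf 0 34902210 0) (P.lf 3878022 0 0)))) (P.cons (P.cons (P.lf 0 100751644 0) (P.cons (P.lf 0 1413720 0) (P.cons (P.lf 0 609606 0) (P.lf 67734 0 0)))) (P.cons (P.cons (P.lf 0 15292506 0) (P.cons (P.lf 1138890 0 0) (P.cons (P.lf 491100 0 0) P.nil))) (P.cons (P.cons (P.lf 632959 0 0) (P.cons (P.lf 84294 0 0) P.nil)) (P.cons (P.cons (P.lf 167985 0 0) P.nil) P.nil)))))) 134576)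
 (EL.cons 2 (TM.mk (P.cons (P.cons (P.lf 410660091 0 0) (P.cons (P.lf 382567865 0 0) (P.cons (P.lf 0 39263906 0) (P.cons (P.lf 0 8165798 0) (P.lf 680481 0 0))))) (P.cons (P.cons (P.lf 0 622321 0) (P.cons (P.lf 0 579751 0) (P.cons (P.lf 59501 0 0) (P.cons (P.lf 12375 0 0) (P.lf 0 1032 0))))) (P.cons (P.cons (P.lf 0 16361167 0) (P.cons (P.lf 0 15241941 0) (P.cons (P.lf 1564318 0 0) (P.cons (P.lf 325333 0 0) P.nil)))) (P.cons (P.cons (P.lf 0 1026677 0) (P.cons (P.lf 0 956446 0) (P.cons (P.lf 98161 0 0) P.nil))) (P.cons (P.cons (P.lf 149774 0 0) (P.cons (P.lf 139528 0 0) P.nil)) (P.cons (P.cons (P.lf 16858 0 0) P.nil) P.nil)))))) 108690)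
 (EL.cons 6 (TM.mk (P.cons (P.cons (P.lf 347914578 0 0) (P.cons (P.lf 324114615 0 0) (P.cons (P.lf 0 33264702 0) (P.cons (P.lf 0 6918132 0) (P.lf 576510 0 0))))) (P.cons (P.cons (P.lf 84562371 0 0) (P.cons (P.lf 78777672 0 0) (P.cons (P.lf 0 8085150 0) (P.cons (P.lf 0 1681485 0) (P.lf 140121 0 0))))) (P.cons (P.cons (P.lf 1476987 0 0) (P.cons (P.lf 1375950 0 0) (P.cons (P.lf 0 141216 0) (P.cons (P.lf 0 29367 0) P.nil)))) (P.cons (P.cons (P.lf 0 1189866 0) (P.cons (P.lf 0 1108470 0) (P.cons (P.lf 113763 0 0) P.nil))) (P.cons (P.cons (P.lf 0 88068 0) (P.cons (P.lf 0 82044 0) P.nil)) (P.cons (P.cons (P.lf 6201 0 0) P.nil) P.nil)))))) 62133)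
 EL.nil))))))
noncomputable def S169_198_216_364_2 : EL := (EL.cons 0 (TM.mk (P.cons (P.cons (P.lf 0 1610194569 0) (P.cons (P.lf 318822282 0 0) (P.cons (P.lf 122651393 0 0) (P.cons (P.lf 0 28063833 0) (P.cons (P.lf 0 1336308 0) (P.cons (P.lf 612716 0 0) P.nil)))))) (P.cons (P.cons (P.lf 938182059 0 0) (P.cons (P.lf 0 162252994 0) (P.cons (P.lf 0 64933011 0) (P.cons (P.lf 12113912 0 0) (P.cons (P.lf 453510 0 0) P.nil))))) (P.cons (P.cons (P.lf 638286483 0 0) (P.cons (P.lf 0 105353653 0) (P.cons (P.lf 0 40763399 0) (P.cons (P.lf 9072045 0 0) P.nil)))) (P.cons (P.cons (P.lf 0 60645324 0) (P.cons (P.lf 0 2393936 0) (P.cons (P.lf 0 407512 0) P.nil))) (P.cons (P.cons (P.lf 0 35609956 0) (P.cons (P.lf 4890086 0 0) P.nil)) (P.cons (P.cons (P.lf 563526 0 0) P.nil) P.nil)))))) 11746077)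
 (EL.cons 1 (TM.mk (P.cons (P.cons (P.lf 0 884296472 0) (P.cons (P.lf 201378829 0 0) (P.cons (P.lf 75451266 0 0) (P.cons (P.lf 0 19467674 0) (P.cons (P.lf 0 1026042 0) (P.cons (P.lf 470456 0 0) P.nil)))))) (P.cons (P.cons (P.lf 0 566210330 0) (P.cons (P.lf 132555660 0 0) (P.cons (P.lf 49272334 0 0) (P.cons (P.lf 0 13153103 0) (P.cons (P.lf 0 710769 0) P.nil))))) (P.cons (P.cons (P.lf 105212488 0 0) (P.cons (P.lf 0 6047337 0) (P.cons (P.lf 0 3320652 0) (P.cons (P.lf 0 325134 0) P.nil)))) (P.cons (P.cons (P.lf 85723724 0 0) (P.cons (P.lf 0 13298680 0) (P.cons (P.lf 0 5286390 0) P.nil))) (P.cons (P.cons (P.lf 0 2678863 0) (P.cons (P.lf 0 1136932 0) P.nil)) (P.cons (P.cons (P.lf 0 3485541 0) P.nil) P.nil)))))) 6233481)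
 (EL.cons 5 (TM.mk (P.cons (P.cons (P.lf 1854974735 0 0) (P.cons (P.lf 0 429705980 0) (P.cons (P.lf 0 160513294 0) (P.cons (P.lf 41959719 0 0) (P.cons (P.lf 2233194 0 0) (P.cons (P.lf 0 1023947 0) P.nil)))))) (P.cons (P.cons (P.lf 477701800 0 0) (P.cons (P.lf 0 119259397 0) (P.cons (P.lf 0 43732006 0) (P.cons (P.lf 12349462 0 0) (P.cons (P.lf 693356 0 0) P.nil))))) (P.cons (P.cons (P.lf 0 194353939 0) (P.cons (P.lf 23600586 0 0) (P.cons (P.lf 9835820 0 0) (P.cons (P.lf 0 1424840 0) P.nil)))) (P.cons (P.cons (P.lf 0 23237328 0) (P.cons (P.lf 6169167 0 0) (P.cons (P.lf 2344901 0 0) P.nil))) (P.cons (P.cons (P.lf 10453379 0 0) (P.cons (P.lf 0 904961 0) P.nil)) (P.cons (P.cons (P.lf 691501 0 0) P.nil) P.nil)))))) 6166811)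
 (EL.cons 9 (TM.mk (P.cons (P.cons (P.lf 1131583327 0 0) (P.cons (P.lf 0 279129658 0) (P.cons (P.lf 0 103150504 0) (P.cons (P.lf 28218937 0 0) (P.cons (P.lf 1551240 0 0) (P.cons (P.lf 0 711267 0) P.nil)))))) (P.cons (P.cons (P.lf 715833202 0 0) (P.cons (P.lf 0 156131775 0) (P.cons (P.lf 0 58958200 0) (P.cons (P.lf 14697030 0 0) (P.cons (P.lf 754072 0 0) P.nil))))) (P.cons (P.cons (P.lf 28757968 0 0) (P.cons (P.lf 0 12228078 0) (P.cons (P.lf 0 4109838 0) (P.cons (P.lf 1588908 0 0) P.nil)))) (P.cons (P.cons (P.lf 0 39529486 0) (P.cons (P.lf 4692345 0 0) (P.cons (P.lf 1941175 0 0) P.nil))) (P.cons (P.cons (P.lf 0 1948180 0) (P.cons (P.lf 735634 0 0) P.nil)) (P.cons (P.cons (P.lf 786925 0 0) P.nil) P.nil)))))) 2056661)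
 (EL.cons 2 (TM.mk (P.cons (P.cons (P.lf 344215327 0 0) (P.cons (P.lf 278214316 0 0) (P.cons (P.lf 0 90767615 0) (P.cons (P.lf 0 17805763 0) (P.cons (P.lf 5059822 0 0) (P.cons (P.lf 99185 0 0) P.nil)))))) (P.cons (P.cons (P.lf 108352698 0 0) (P.cons (P.lf 90686216 0 0) (P.cons (P.lf 0 24334441 0) (P.cons (P.lf 0 4802101 0) (P.cons (P.lf 1263920 0 0) P.nil))))) (P.cons (P.cons (P.lf 0 26723311 0) (P.cons (P.lf 0 23368410 0) (P.cons (P.lf 4635826 0 0) (P.cons (P.lf 925588 0 0) P.nil)))) (P.cons (P.cons (P.lf 0 7128348 0) (P.cons (P.lf 0 5978002 0) (P.cons (P.lf 1584697 0 0) P.nil))) (P.cons (P.cons (P.lf 448728 0 0) (P.cons (P.lf 446051 0 0) P.nil)) (P.cons (P.cons (P.lf 184916 0 0) P.nil) P.nil)))))) 1814602)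
 (EL.cons 6 (TM.mk (P.cons (P.cons (P.lf 291622032 0 0) (P.cons (P.lf 235705434 0 0) (P.cons (P.lf 0 76899066 0) (P.cons (P.lf 0 15085182 0) (P.cons (P.lf 4286718 0 0) (P.cons (P.lf 84030 0 0) P.nil)))))) (P.cons (P.cons (P.lf 163119408 0 0) (P.cons (P.lf 134476674 0 0) (P.cons (P.lf 0 39423570 0) (P.cons (P.lf 0 7757772 0) (P.cons (P.lf 2119206 0 0) P.nil))))) (P.cons (P.cons (P.lf 12775338 0 0) (P.cons (P.lf 9471222 0 0) (P.cons (P.lf 0 4533336 0) (P.cons (P.lf 0 881478 0) P.nil)))) (P.cons (P.cons (P.lf 0 4902354 0) (P.cons (P.lf 0 4395204 0) (P.cons (P.lf 702834 0 0) P.nil))) (P.cons (P.cons (P.lf 0 768558 0) (P.cons (P.lf 0 638628 0) P.nil)) (P.cons (P.cons (P.lf 46806 0 0) P.nil) P.nil)))))) 1578864)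
 EL.nil))))))
noncomputable def S169_198_216_364_3 : EL := (EL.cons 0 (TM.mk (P.cons (P.lf 2000791209 0 0) (P.cons (P.lf 0 654467131 0) (P.cons (P.lf 15080835 0 0) (P.cons (P.lf 7271133 0 0) (P.cons (P.lf 199596 0 0) (P.cons (P.lf 0 35412 0) P.nil)))))) 3454)
 (EL.cons 1 (TM.mk (P.cons (P.lf 1695086628 0 0) (P.cons (P.lf 0 139901857 0) (P.cons (P.lf 0 47471786 0) (P.cons (P.lf 0 293435 0) (P.cons (P.lf 328029 0 0) (P.cons (P.lf 15684 0 0) P.nil)))))) 1940)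
 (EL.cons 5 (TM.mk (P.cons (P.lf 1436091214 0 0) (P.cons (P.lf 232699422 0 0) (P.cons (P.lf 0 5362070 0) (P.cons (P.lf 0 2585292 0) (P.cons (P.lf 0 70970 0) (P.cons (P.lf 12590 0 0) P.nil)))))) 1162)
 EL.nil)))
noncomputable def S169_198_216_364_4 : EL := (EL.cons 0 (TM.mk (P.cons (P.cons (P.lf 838531689 0 0) (P.cons (P.lf 0 103421046 0) (P.cons (P.lf 0 44596321 0) (P.lf 4955143 0 0)))) (P.cons (P.cons (P.lf 0 9062006 0) (P.cons (P.lf 8692453 0 0) (P.cons (P.lf 3748283 0 0) (P.lf 0 416475 0)))) (P.cons (P.cons (P.lf 0 111725687 0) (P.cons (P.lf 7003836 0 0) (P.cons (P.lf 3020134 0 0) (P.lf 0 335569 0)))) (P.cons (P.cons (P.lf 10532176 0 0) (P.cons (P.lf 0 68000 0) (P.cons (P.lf 0 29323 0) P.nil))) (P.cons (P.cons (P.lf 2561756 0 0) (P.cons (P.lf 0 194494 0) P.nil)) (P.cons (P.cons (P.lf 0 150020 0) P.nil) P.nil)))))) 262572)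
 (EL.cons 1 (TM.mk (P.cons (P.cons (P.lf 710410886 0 0) (P.cons (P.lf 0 87619153 0) (P.cons (P.lf 0 37782365 0) (P.lf 4198036 0 0)))) (P.cons (P.cons (P.lf 166068075 0 0) (P.cons (P.lf 0 14064733 0) (P.cons (P.lf 0 6064871 0) (P.lf 673873 0 0)))) (P.cons (P.cons (P.lf 0 64949814 0) (P.cons (P.lf 3839512 0 0) (P.cons (P.lf 1655641 0 0) (P.lf 0 183958 0)))) (P.cons (P.cons (P.lf 0 8251603 0) (P.cons (P.lf 941934 0 0) (P.cons (P.lf 406171 0 0) P.nil))) (P.cons (P.cons (P.lf 1339601 0 0) (P.cons (P.lf 0 5403 0) P.nil)) (P.cons (P.cons (P.lf 197782 0 0) P.nil) P.nil)))))) 186277)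
 (EL.cons 5 (TM.mk (P.cons (P.cons (P.lf 601865896 0 0) (P.cons (P.lf 0 74231660 0) (P.cons (P.lf 0 32009528 0) (P.lf 3556612 0 0)))) (P.cons (P.cons (P.lf 287892816 0 0) (P.cons (P.lf 0 30070624 0) (P.cons (P.lf 0 12966792 0) (P.lf 1440752 0 0)))) (P.cons (P.cons (P.lf 6140808 0 0) (P.cons (P.lf 0 2961492 0) (P.cons (P.lf 0 1277028 0) (P.lf 141890 0 0)))) (P.cons (P.cons (P.lf 0 8842274 0) (P.cons (P.lf 403808 0 0) (P.cons (P.lf 174124 0 0) P.nil))) (P.cons (P.cons (P.lf 0 699862 0) (P.cons (P.lf 97250 0 0) P.nil)) (P.cons (P.cons (P.lf 109334 0 0) P.nil) P.nil)))))) 124098)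
 EL.nil)))
noncomputable def S169_198_216_364_5 : EL := (EL.cons 0 (TM.mk (P.cons (P.cons (P.lf 351428670 0 0) (P.cons (P.lf 0 86687530 0) (P.cons (P.lf 0 32034798 0) (P.cons (P.lf 8763776 0 0) (P.cons (P.lf 481758 0 0) (P.cons (P.lf 0 220891 0) P.nil)))))) (P.cons (P.cons (P.lf 107358004 0 0) (P.cons (P.lf 0 20133003 0) (P.cons (P.lf 0 7831557 0) (P.cons (P.lf 1697695 0 0) (P.cons (P.lf 76601 0 0) P.nil))))) (P.cons (P.cons (P.lf 0 61139058 0) (P.cons (P.lf 11409908 0 0) (P.cons (P.lf 4471539 0 0) (P.cons (P.lf 0 933507 0) P.nil)))) (P.cons (P.cons (P.lf 0 12245050 0) (P.cons (P.lf 2018965 0 0) (P.cons (P.lf 765931 0 0) P.nil))) (P.cons (P.cons (P.lf 4320919 0 0) (P.cons (P.lf 0 461703 0) P.nil)) (P.cons (P.cons (P.lf 398179 0 0) P.nil) P.nil)))))) 1813797)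
 (EL.cons 1 (TM.mk (P.cons (P.cons (P.lf 297733235 0 0) (P.cons (P.lf 0 73442381 0) (P.cons (P.lf 0 27140141 0) (P.cons (P.lf 7424741 0 0) (P.cons (P.lf 408148 0 0) (P.cons (P.lf 0 187141 0) P.nil)))))) (P.cons (P.cons (P.lf 163771316 0 0) (P.cons (P.lf 0 35018677 0) (P.cons (P.lf 0 13272635 0) (P.cons (P.lf 3254173 0 0) (P.cons (P.lf 164718 0 0) P.nil))))) (P.cons (P.cons (P.lf 0 16316371 0) (P.cons (P.lf 2229935 0 0) (P.cons (P.lf 959038 0 0) (P.cons (P.lf 0 109027 0) P.nil)))) (P.cons (P.cons (P.lf 0 16351404 0) (P.cons (P.lf 2663336 0 0) (P.cons (P.lf 1039130 0 0) P.nil))) (P.cons (P.cons (P.lf 158923 0 0) (P.cons (P.lf 174658 0 0) P.nil)) (P.cons (P.cons (P.lf 578523 0 0) P.nil) P.nil)))))) 1328986)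
 (EL.cons 5 (TM.mk (P.cons (P.cons (P.lf 252242024 0 0) (P.cons (P.lf 0 62220986 0) (P.cons (P.lf 0 22993350 0) (P.cons (P.lf 6290302 0 0) (P.cons (P.lf 345786 0 0) (P.cons (P.lf 0 158548 0) P.nil)))))) (P.cons (P.cons (P.lf 200439330 0 0) (P.cons (P.lf 0 44885522 0) (P.cons (P.lf 0 16868178 0) (P.cons (P.lf 4295384 0 0) (P.cons (P.lf 224120 0 0) P.nil))))) (P.cons (P.cons (P.lf 31324320 0 0) (P.cons (P.lf 0 8132880 0) (P.cons (P.lf 0 2959826 0) (P.cons (P.lf 861548 0 0) P.nil)))) (P.cons (P.cons (P.lf 0 8822698 0) (P.cons (P.lf 846258 0 0) (P.cons (P.lf 374726 0 0) P.nil))) (P.cons (P.cons (P.lf 0 2185720 0) (P.cons (P.lf 409372 0 0) P.nil)) (P.cons (P.cons (P.lf 120732 0 0) P.nil) P.nil)))))) 956538)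
 EL.nil)))
noncomputable def S169_198_216_364_6 : EL := (EL.cons 12 (TM.mk (P.lf 8589934592 0 0) 0)
 (EL.cons 3 (TM.mk (P.cons (P.lf 0 2072840178 0) (P.cons (P.lf 339017325 0 0) (P.cons (P.lf 19911543 0 0) (P.cons (P.lf 0 509910 0) (P.cons (P.lf 0 91155 0) (P.cons (P.lf 0 1462 0) P.nil)))))) 487)
 (EL.cons 7 (TM.mk (P.cons (P.lf 0 1756127103 0) (P.cons (P.lf 0 142278485 0) (P.cons (P.lf 9042093 0 0) (P.cons (P.lf 848140 0 0) (P.cons (P.lf 0 2043 0) (P.cons (P.lf 0 3166 0) P.nil)))))) 195)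
 EL.nil)))
noncomputable def S169_198_216_364_7 : EL := (EL.cons 12 (TM.mk (P.cons (P.cons (P.lf 3600041996 0 0) (P.cons (P.lf 0 444014360 0) (P.cons (P.lf 0 191464000 0) (P.lf 21273768 0 0)))) (P.cons (P.cons (P.lf 1138683086 0 0) (P.cons (P.lf 0 107919904 0) (P.cons (P.lf 0 46536280 0) (P.lf 5170696 0 0)))) (P.cons (P.cons (P.lf 0 134335526 0) (P.cons (P.lf 0 1884960 0) (P.cons (P.lf 0 812808 0) (P.lf 90312 0 0)))) (P.cons (P.cons (P.lf 0 20390008 0) (P.cons (P.lf 1518520 0 0) (P.cons (P.lf 654800 0 0) P.nil))) (P.cons (P.cons (P.lf 843946 0 0) (P.cons (P.lf 112392 0 0) P.nil)) (P.cons (P.cons (P.lf 223980 0 0) P.nil) P.nil)))))) 179410)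
 (EL.cons 3 (TM.mk (P.cons (P.cons (P.lf 2522801669 0 0) (P.cons (P.lf 0 214290526 0) (P.cons (P.lf 0 92404490 0) (P.lf 10267160 0 0)))) (P.cons (P.cons (P.lf 0 781759716 0) (P.cons (P.lf 0 17036718 0) (P.cons (P.lf 0 7346424 0) (P.lf 816268 0 0)))) (P.cons (P.cons (P.lf 0 147274011 0) (P.cons (P.lf 9667244 0 0) (P.cons (P.lf 4168628 0 0) (P.lf 0 463178 0)))) (P.cons (P.cons (P.lf 7545215 0 0) (P.cons (P.lf 1329258 0 0) (P.cons (P.lf 573188 0 0) P.nil))) (P.cons (P.cons (P.lf 3170494 0 0) (P.cons (P.lf 0 79114 0) P.nil)) (P.cons (P.cons (P.lf 88794 0 0) P.nil) P.nil)))))) 515941)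
 (EL.cons 7 (TM.mk (P.cons (P.cons (P.lf 0 2159346837 0) (P.cons (P.lf 225674233 0 0) (P.cons (P.lf 97313276 0 0) (P.lf 0 10812588 0)))) (P.cons (P.cons (P.lf 328088212 0 0) (P.cons (P.lf 7149957 0 0) (P.cons (P.lf 3083144 0 0) (P.lf 0 342573 0)))) (P.cons (P.cons (P.lf 21687491 0 0) (P.cons (P.lf 0 4931474 0) (P.cons (P.lf 0 2126504 0) (P.lf 236277 0 0)))) (P.cons (P.cons (P.lf 0 11564585 0) (P.cons (P.lf 140240 0 0) (P.cons (P.lf 60472 0 0) P.nil))) (P.cons (P.cons (P.lf 0 420698 0) (P.cons (P.lf 101202 0 0) P.nil)) (P.cons (P.cons (P.lf 159693 0 0) P.nil) P.nil)))))) 368363)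
 (EL.cons 10 (TM.mk (P.cons (P.cons (P.lf 0 850896120 0) (P.cons (P.lf 0 792688452 0) (P.cons (P.lf 81355620 0 0) (P.cons (P.lf 16919706 0 0) (P.lf 0 1409973 0))))) (P.cons (P.cons (P.lf 0 137876364 0) (P.cons (P.lf 0 128444586 0) (P.cons (P.lf 13182591 0 0) (P.cons (P.lf 2741610 0 0) (P.lf 0 228465 0))))) (P.cons (P.cons (P.lf 3177069 0 0) (P.cons (P.lf 2959734 0 0) (P.cons (P.lf 0 303765 0) (P.cons (P.lf 0 63174 0) P.nil)))) (P.cons (P.cons (P.lf 1531806 0 0) (P.cons (P.lf 1427019 0 0) (P.cons (P.lf 0 146457 0) P.nil))) (P.cons (P.cons (P.lf 42048 0 0) (P.cons (P.lf 39171 0 0) P.nil)) (P.cons (P.cons (P.lf 0 7458 0) P.nil) P.nil)))))) 52527)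
 EL.nil))))
noncomputable def S169_198_216_364_8 : EL := (EL.cons 12 (TM.mk (P.cons (P.cons (P.lf 1508777770 0 0) (P.cons (P.lf 0 372172878 0) (P.cons (P.lf 0 137534006 0) (P.cons (P.lf 37625250 0 0) (P.cons (P.lf 2068320 0 0) (P.cons (P.lf 0 948356 0) P.nil)))))) (P.cons (P.cons (P.lf 954444270 0 0) (P.cons (P.lf 0 208175700 0) (P.cons (P.lf 0 78610934 0) (P.cons (P.lf 19596040 0 0) (P.cons (P.lf 1005430 0 0) P.nil))))) (P.cons (P.cons (P.lf 38343958 0 0) (P.cons (P.lf 0 16304104 0) (P.cons (P.lf 0 5479784 0) (P.cons (P.lf 2118544 0 0) P.nil)))) (P.cons (P.cons (P.lf 0 52705982 0) (P.cons (P.lf 6256460 0 0) (P.cons (P.lf 2588234 0 0) P.nil))) (P.cons (P.cons (P.lf 0 2597574 0) (P.cons (P.lf 980846 0 0) P.nil)) (P.cons (P.cons (P.lf 1049234 0 0) P.nil) P.nil)))))) 2742186)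
 (EL.cons 3 (TM.mk (P.cons (P.cons (P.lf 2478696295 0 0) (P.cons (P.lf 0 530235121 0) (P.cons (P.lf 0 200951625 0) (P.cons (P.lf 49286778 0 0) (P.cons (P.lf 2495536 0 0) (P.cons (P.lf 0 1144241 0) P.nil)))))) (P.cons (P.cons (P.lf 184345541 0 0) (P.cons (P.lf 0 89211579 0) (P.cons (P.lf 0 29536849 0) (P.cons (P.lf 11977652 0 0) (P.cons (P.lf 804956 0 0) P.nil))))) (P.cons (P.cons (P.lf 0 441525653 0) (P.cons (P.lf 49194475 0 0) (P.cons (P.lf 20616630 0 0) (P.cons (P.lf 0 2871533 0) P.nil)))) (P.cons (P.cons (P.lf 0 36600951 0) (P.cons (P.lf 11996627 0 0) (P.cons (P.lf 4612303 0 0) P.nil))) (P.cons (P.cons (P.lf 14908411 0 0) (P.cons (P.lf 0 629334 0) P.nil)) (P.cons (P.cons (P.lf 1846655 0 0) P.nil) P.nil)))))) 6804205)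
 (EL.cons 7 (TM.mk (P.cons (P.cons (P.lf 0 1501510040 0) (P.cons (P.lf 336306701 0 0) (P.cons (P.lf 126381140 0 0) (P.cons (P.lf 0 32187163 0) (P.cons (P.lf 0 1679631 0) (P.cons (P.lf 770133 0 0) P.nil)))))) (P.cons (P.cons (P.lf 0 77365982 0) (P.cons (P.lf 37440241 0 0) (P.cons (P.lf 12396009 0 0) (P.cons (P.lf 0 5026774 0) (P.cons (P.lf 0 337818 0) P.nil))))) (P.cons (P.cons (P.lf 194759803 0 0) (P.cons (P.lf 0 25224281 0) (P.cons (P.lf 0 10168210 0) (P.cons (P.lf 1819818 0 0) P.nil)))) (P.cons (P.cons (P.lf 0 15247834 0) (P.cons (P.lf 0 1476820 0) (P.cons (P.lf 0 461497 0) P.nil))) (P.cons (P.cons (P.lf 0 7617120 0) (P.cons (P.lf 1012480 0 0) P.nil)) (P.cons (P.cons (P.lf 456886 0 0) P.nil) P.nil)))))) 3785100)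
 (EL.cons 10 (TM.mk (P.cons (P.cons (P.lf 0 713221206 0) (P.cons (P.lf 0 576465762 0) (P.cons (P.lf 188072370 0 0) (P.cons (P.lf 36893904 0 0) (P.cons (P.lf 0 10484058 0) (P.cons (P.lf 0 205524 0) P.nil)))))) (P.cons (P.cons (P.lf 0 341157828 0) (P.cons (P.lf 0 282185874 0) (P.cons (P.lf 81181092 0 0) (P.cons (P.lf 15984138 0 0) (P.cons (P.lf 0 4333560 0) P.nil))))) (P.cons (P.cons (P.lf 0 7276962 0) (P.cons (P.lf 0 3269742 0) (P.cons (P.lf 5478408 0 0) (P.cons (P.lf 1050792 0 0) P.nil)))) (P.cons (P.cons (P.lf 10478238 0 0) (P.cons (P.lf 9282930 0 0) (P.cons (P.lf 0 1653966 0) P.nil))) (P.cons (P.cons (P.lf 829344 0 0) (P.cons (P.lf 657366 0 0) P.nil)) (P.cons (P.cons (P.lf 0 129558 0) P.nil) P.nil)))))) 2632722)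
 EL.nil))))
noncomputable def S169_198_216_364_9 : EL := (EL.cons 3 (TM.mk (P.cons (P.lf 0 2072840178 0) (P.cons (P.lf 339017325 0 0) (P.cons (P.lf 19911543 0 0) (P.cons (P.lf 0 509910 0) (P.cons (P.lf 0 91155 0) (P.cons (P.lf 0 1462 0) P.nil)))))) 487)
 (EL.cons 7 (TM.mk (P.cons (P.lf 0 1756127103 0) (P.cons (P.lf 0 142278485 0) (P.cons (P.lf 9042093 0 0) (P.cons (P.lf 848140 0 0) (P.cons (P.lf 0 2043 0) (P.cons (P.lf 0 3166 0) P.nil)))))) 195)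
 EL.nil))
noncomputable def S169_198_216_364_10 : EL := (EL.cons 3 (TM.mk (P.cons (P.cons (P.lf 0 868727416 0) (P.cons (P.lf 107145263 0 0) (P.cons (P.lf 46202245 0 0) (P.lf 0 5133580 0)))) (P.cons (P.cons (P.lf 0 132693843 0) (P.cons (P.lf 8518359 0 0) (P.cons (P.lf 3673212 0 0) (P.lf 0 408134 0)))) (P.cons (P.cons (P.lf 85701672 0 0) (P.cons (P.lf 0 4833622 0) (P.cons (P.lf 0 2084314 0) (P.lf 231589 0 0)))) (P.cons (P.cons (P.lf 2044298 0 0) (P.cons (P.lf 0 664629 0) (P.cons (P.lf 0 286594 0) P.nil))) (P.cons (P.cons (P.lf 0 1425569 0) (P.cons (P.lf 39557 0 0) P.nil)) (P.cons (P.cons (P.lf 0 72726 0) P.nil) P.nil)))))) 127620)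
 (EL.cons 7 (TM.mk (P.cons (P.cons (P.lf 0 735992952 0) (P.cons (P.lf 90774340 0 0) (P.cons (P.lf 39142919 0 0) (P.lf 0 4349211 0)))) (P.cons (P.cons (P.lf 0 292421405 0) (P.cons (P.lf 29417541 0 0) (P.cons (P.lf 12685175 0 0) (P.lf 0 1409463 0)))) (P.cons (P.cons (P.lf 12392651 0 0) (P.cons (P.lf 1705495 0 0) (P.cons (P.lf 735427 0 0) (P.lf 0 81714 0)))) (P.cons (P.cons (P.lf 7947664 0 0) (P.cons (P.lf 0 436666 0) (P.cons (P.lf 0 188294 0) P.nil))) (P.cons (P.cons (P.lf 135358 0 0) (P.cons (P.lf 0 60663 0) P.nil)) (P.cons (P.cons (P.lf 0 96093 0) P.nil) P.nil)))))) 78574)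
 EL.nil))
noncomputable def S169_198_216_364_11 : EL := (EL.cons 3 (TM.mk (P.cons (P.cons (P.lf 0 364083701 0) (P.cons (P.lf 89809169 0 0) (P.cons (P.lf 33188379 0 0) (P.cons (P.lf 0 9079362 0) (P.cons (P.lf 0 499106 0) (P.cons (P.lf 228847 0 0) P.nil)))))) (P.cons (P.cons (P.lf 0 170770639 0) (P.cons (P.lf 35546475 0 0) (P.cons (P.lf 13541603 0 0) (P.cons (P.lf 0 3243778 0) (P.cons (P.lf 0 160990 0) P.nil))))) (P.cons (P.cons (P.lf 31913437 0 0) (P.cons (P.lf 0 5144381 0) (P.cons (P.lf 0 2098998 0) (P.cons (P.lf 349381 0 0) P.nil)))) (P.cons (P.cons (P.lf 16354659 0 0) (P.cons (P.lf 0 2613679 0) (P.cons (P.lf 0 1014893 0) P.nil))) (P.cons (P.cons (P.lf 0 1437101 0) (P.cons (P.lf 0 11250 0) P.nil)) (P.cons (P.cons (P.lf 0 490543 0) P.nil) P.nil)))))) 1243803)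
 (EL.cons 7 (TM.mk (P.cons (P.cons (P.lf 0 308454680 0) (P.cons (P.lf 76087061 0 0) (P.cons (P.lf 28117466 0 0) (P.cons (P.lf 0 7692109 0) (P.cons (P.lf 0 422847 0) (P.cons (P.lf 193881 0 0) P.nil)))))) (P.cons (P.cons (P.lf 0 220117166 0) (P.cons (P.lf 48723907 0 0) (P.cons (P.lf 18349257 0 0) (P.cons (P.lf 0 4629418 0) (P.cons (P.lf 0 239808 0) P.nil))))) (P.cons (P.cons (P.lf 0 22059683 0) (P.cons (P.lf 6389545 0 0) (P.cons (P.lf 2277578 0 0) (P.cons (P.lf 0 718086 0) P.nil)))) (P.cons (P.cons (P.lf 11293766 0 0) (P.cons (P.lf 0 1264900 0) (P.cons (P.lf 0 534703 0) P.nil))) (P.cons (P.cons (P.lf 1538280 0 0) (P.cons (P.lf 0 341780 0) P.nil)) (P.cons (P.cons (P.lf 0 223958 0) P.nil) P.nil)))))) 823844)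
 EL.nil))
noncomputable def S169_198_216_364_12 : EL := (EL.cons 4 (TM.mk (P.cons (P.lf 2072840178 0 0) (P.cons (P.lf 0 339017325 0) (P.cons (P.lf 0 19911543 0) (P.cons (P.lf 509910 0 0) (P.cons (P.lf 91155 0 0) (P.cons (P.lf 1462 0 0) P.nil)))))) 487)
 (EL.cons 8 (TM.mk (P.cons (P.lf 1756127103 0 0) (P.cons (P.lf 142278485 0 0) (P.cons (P.lf 0 9042093 0) (P.cons (P.lf 0 848140 0) (P.cons (P.lf 2043 0 0) (P.cons (P.lf 3166 0 0) P.nil)))))) 195)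
 EL.nil))
noncomputable def S169_198_216_364_13 : EL := (EL.cons 4 (TM.mk (P.cons (P.cons (P.lf 868727416 0 0) (P.cons (P.lf 0 107145263 0) (P.cons (P.lf 0 46202245 0) (P.lf 5133580 0 0)))) (P.cons (P.cons (P.lf 132693843 0 0) (P.cons (P.lf 0 8518359 0) (P.cons (P.lf 0 3673212 0) (P.lf 408134 0 0)))) (P.cons (P.cons (P.lf 0 85701672 0) (P.cons (P.lf 4833622 0 0) (P.cons (P.lf 2084314 0 0) (P.lf 0 231589 0)))) (P.cons (P.cons (P.lf 0 2044298 0) (P.cons (P.lf 664629 0 0) (P.cons (P.lf 286594 0 0) P.nil))) (P.cons (P.cons (P.lf 1425569 0 0) (P.cons (P.lf 0 39557 0) P.nil)) (P.cons (P.cons (P.lf 72726 0 0) P.nil) P.nil)))))) 127620)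
 (EL.cons 8 (TM.mk (P.cons (P.cons (P.lf 735992952 0 0) (P.cons (P.lf 0 90774340 0) (P.cons (P.lf 0 39142919 0) (P.lf 4349211 0 0)))) (P.cons (P.cons (P.lf 292421405 0 0) (P.cons (P.lf 0 29417541 0) (P.cons (P.lf 0 12685175 0) (P.lf 1409463 0 0)))) (P.cons (P.cons (P.lf 0 12392651 0) (P.cons (P.lf 0 1705495 0) (P.cons (P.lf 0 735427 0) (P.lf 81714 0 0)))) (P.cons (P.cons (P.lf 0 7947664 0) (P.cons (P.lf 436666 0 0) (P.cons (P.lf 188294 0 0) P.nil))) (P.cons (P.cons (P.lf 0 135358 0) (P.cons (P.lf 60663 0 0) P.nil)) (P.cons (P.cons (P.lf 96093 0 0) P.nil) P.nil)))))) 78574)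
 EL.nil))
noncomputable def S169_198_216_364_14 : EL := (EL.cons 4 (TM.mk (P.cons (P.cons (P.lf 364083701 0 0) (P.cons (P.lf 0 89809169 0) (P.cons (P.lf 0 33188379 0) (P.cons (P.lf 9079362 0 0) (P.cons (P.lf 499106 0 0) (P.cons (P.lf 0 228847 0) P.nil)))))) (P.cons (P.cons (P.lf 170770639 0 0) (P.cons (P.lf 0 35546475 0) (P.cons (P.lf 0 13541603 0) (P.cons (P.lf 3243778 0 0) (P.cons (P.lf 160990 0 0) P.nil))))) (P.cons (P.cons (P.lf 0 31913437 0) (P.cons (P.lf 5144381 0 0) (P.cons (P.lf 2098998 0 0) (P.cons (P.lf 0 349381 0) P.nil)))) (P.cons (P.cons (P.lf 0 16354659 0) (P.cons (P.lf 2613679 0 0) (P.cons (P.lf 1014893 0 0) P.nil))) (P.cons (P.cons (P.lf 1437101 0 0) (P.cons (P.lf 11250 0 0) P.nil)) (P.cons (P.cons (P.lf 490543 0 0) P.nil) P.nil)))))) 1243803)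
 (EL.cons 8 (TM.mk (P.cons (P.cons (P.lf 308454680 0 0) (P.cons (P.lf 0 76087061 0) (P.cons (P.lf 0 28117466 0) (P.cons (P.lf 7692109 0 0) (P.cons (P.lf 422847 0 0) (P.cons (P.lf 0 193881 0) P.nil)))))) (P.cons (P.cons (P.lf 220117166 0 0) (P.cons (P.lf 0 48723907 0) (P.cons (P.lf 0 18349257 0) (P.cons (P.lf 4629418 0 0) (P.cons (P.lf 239808 0 0) P.nil))))) (P.cons (P.cons (P.lf 22059683 0 0) (P.cons (P.lf 0 6389545 0) (P.cons (P.lf 0 2277578 0) (P.cons (P.lf 718086 0 0) P.nil)))) (P.cons (P.cons (P.lf 0 11293766 0) (P.cons (P.lf 1264900 0 0) (P.cons (P.lf 534703 0 0) P.nil))) (P.cons (P.cons (P.lf 0 1538280 0) (P.cons (P.lf 341780 0 0) P.nil)) (P.cons (P.cons (P.lf 223958 0 0) P.nil) P.nil)))))) 823844)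
 EL.nil))
noncomputable def S169_198_216_364_15 : EL := (EL.cons 4 (TM.mk (P.cons (P.lf 0 1067088645 0) (P.cons (P.lf 349049136 0 0) (P.cons (P.lf 0 8043112 0) (P.cons (P.lf 0 3877937 0) (P.cons (P.lf 0 106451 0) (P.cons (P.lf 18886 0 0) P.nil)))))) 1845)
 (EL.cons 8 (TM.mk (P.cons (P.lf 0 904046202 0) (P.cons (P.lf 74614324 0 0) (P.cons (P.lf 25318286 0 0) (P.cons (P.lf 156499 0 0) (P.cons (P.lf 0 174949 0) (P.cons (P.lf 0 8365 0) P.nil)))))) 1031)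
 EL.nil))
noncomputable def S169_198_216_364_16 : EL := (EL.cons 4 (TM.mk (P.cons (P.cons (P.lf 0 447216900 0) (P.cons (P.lf 55157891 0 0) (P.cons (P.lf 23784705 0 0) (P.lf 0 2642743 0)))) (P.cons (P.cons (P.lf 4833070 0 0) (P.cons (P.lf 0 4635975 0) (P.cons (P.lf 0 1999084 0) (P.lf 222120 0 0)))) (P.cons (P.cons (P.lf 59587033 0 0) (P.cons (P.lf 0 3735379 0) (P.cons (P.lf 0 1610738 0) (P.lf 178970 0 0)))) (P.cons (P.cons (P.lf 0 5617160 0) (P.cons (P.lf 36267 0 0) (P.cons (P.lf 15639 0 0) P.nil))) (P.cons (P.cons (P.lf 0 1366270 0) (P.cons (P.lf 103730 0 0) P.nil)) (P.cons (P.cons (P.lf 80010 0 0) P.nil) P.nil)))))) 140047)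
 (EL.cons 8 (TM.mk (P.cons (P.cons (P.lf 0 378885806 0) (P.cons (P.lf 46730215 0 0) (P.cons (P.lf 20150595 0 0) (P.lf 0 2238953 0)))) (P.cons (P.cons (P.lf 0 88569640 0) (P.cons (P.lf 7501191 0 0) (P.cons (P.lf 3234598 0 0) (P.lf 0 359399 0)))) (P.cons (P.cons (P.lf 34639901 0 0) (P.cons (P.lf 0 2047740 0) (P.cons (P.lf 0 883009 0) (P.lf 98111 0 0)))) (P.cons (P.cons (P.lf 4400855 0 0) (P.cons (P.lf 0 502365 0) (P.cons (P.lf 0 216625 0) P.nil))) (P.cons (P.cons (P.lf 0 714454 0) (P.cons (P.lf 2882 0 0) P.nil)) (P.cons (P.cons (P.lf 0 105484 0) P.nil) P.nil)))))) 99338)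
 EL.nil))
noncomputable def S169_198_216_364_17 : EL := (EL.cons 4 (TM.mk (P.cons (P.cons (P.lf 0 187428624 0) (P.cons (P.lf 46233349 0 0) (P.cons (P.lf 17085225 0 0) (P.cons (P.lf 0 4674014 0) (P.cons (P.lf 0 256937 0) (P.cons (P.lf 117809 0 0) P.nil)))))) (P.cons (P.cons (P.lf 0 57257602 0) (P.cons (P.lf 10737601 0 0) (P.cons (P.lf 4176830 0 0) (P.cons (P.lf 0 905437 0) (P.cons (P.lf 0 40854 0) P.nil))))) (P.cons (P.cons (P.lf 32607497 0 0) (P.cons (P.lf 0 6085284 0) (P.cons (P.lf 0 2384820 0) (P.cons (P.lf 497870 0 0) P.nil)))) (P.cons (P.cons (P.lf 6530693 0 0) (P.cons (P.lf 0 1076781 0) (P.cons (P.lf 0 408496 0) P.nil))) (P.cons (P.cons (P.lf 0 2304490 0) (P.cons (P.lf 246241 0 0) P.nil)) (P.cons (P.cons (P.lf 0 212362 0) P.nil) P.nil)))))) 967369)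
 (EL.cons 8 (TM.mk (P.cons (P.cons (P.lf 0 158791059 0) (P.cons (P.lf 39169270 0 0) (P.cons (P.lf 14474742 0 0) (P.cons (P.lf 0 3959862 0) (P.cons (P.lf 0 217679 0) (P.cons (P.lf 99809 0 0) P.nil)))))) (P.cons (P.cons (P.lf 0 87344702 0) (P.cons (P.lf 18676628 0 0) (P.cons (P.lf 7078739 0 0) (P.cons (P.lf 0 1735559 0) (P.cons (P.lf 0 87850 0) P.nil))))) (P.cons (P.cons (P.lf 8702065 0 0) (P.cons (P.lf 0 1189299 0) (P.cons (P.lf 0 511487 0) (P.cons (P.lf 58148 0 0) P.nil)))) (P.cons (P.cons (P.lf 8720749 0 0) (P.cons (P.lf 0 1420446 0) (P.cons (P.lf 0 554203 0) P.nil))) (P.cons (P.cons (P.lf 0 84759 0) (P.cons (P.lf 0 93151 0) P.nil)) (P.cons (P.cons (P.lf 0 308546 0) P.nil) P.nil)))))) 708781)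
 EL.nil))
noncomputable def S169_198_216_364_18 : EL := (EL.cons 4 (TM.mk (P.cons (P.lf 549332354 0 0) (P.cons (P.lf 0 269533349 0) (P.cons (P.lf 28252205 0 0) (P.cons (P.lf 3180359 0 0) (P.cons (P.lf 0 331524 0) (P.cons (P.lf 0 44357 0) P.nil)))))) 4415)
 (EL.cons 8 (TM.mk (P.cons (P.lf 465398850 0 0) (P.cons (P.lf 0 114528063 0) (P.cons (P.lf 0 11222106 0) (P.cons (P.lf 2534590 0 0) (P.cons (P.lf 239457 0 0) (P.cons (P.lf 0 14216 0) P.nil)))))) 3029)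
 EL.nil))
noncomputable def S169_198_216_364_19 : EL := (EL.cons 4 (TM.mk (P.cons (P.cons (P.lf 230225215 0 0) (P.cons (P.lf 0 28395030 0) (P.cons (P.lf 0 12244257 0) (P.lf 1360471 0 0)))) (P.cons (P.cons (P.lf 0 40141855 0) (P.cons (P.lf 7030644 0 0) (P.cons (P.lf 3031693 0 0) (P.lf 0 336854 0)))) (P.cons (P.cons (P.lf 0 32479733 0) (P.cons (P.lf 1805386 0 0) (P.cons (P.lf 778503 0 0) (P.lf 0 86500 0)))) (P.cons (P.cons (P.lf 7989204 0 0) (P.cons (P.lf 0 363083 0) (P.cons (P.lf 0 156566 0) P.nil))) (P.cons (P.cons (P.lf 534583 0 0) (P.cons (P.lf 0 69479 0) P.nil)) (P.cons (P.cons (P.lf 0 191493 0) P.nil) P.nil)))))) 154028)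
 (EL.cons 8 (TM.mk (P.cons (P.cons (P.lf 195048680 0 0) (P.cons (P.lf 0 24056501 0) (P.cons (P.lf 0 10373434 0) (P.lf 1152603 0 0)))) (P.cons (P.cons (P.lf 13694628 0 0) (P.cons (P.lf 72911 0 0) (P.cons (P.lf 31440 0 0) (P.lf 0 3493 0)))) (P.cons (P.cons (P.lf 0 27163282 0) (P.cons (P.lf 1916821 0 0) (P.cons (P.lf 826555 0 0) (P.lf 0 91839 0)))) (P.cons (P.cons (P.lf 260992 0 0) (P.cons (P.lf 117380 0 0) (P.cons (P.lf 50615 0 0) P.nil))) (P.cons (P.cons (P.lf 929422 0 0) (P.cons (P.lf 0 55915 0) P.nil)) (P.cons (P.cons (P.lf 13668 0 0) P.nil) P.nil)))))) 91789)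
 EL.nil))
noncomputable def S169_198_216_364_20 : EL := (EL.cons 4 (TM.mk (P.cons (P.cons (P.lf 96487397 0 0) (P.cons (P.lf 0 23800716 0) (P.cons (P.lf 0 8795396 0) (P.cons (P.lf 2406160 0 0) (P.cons (P.lf 132270 0 0) (P.cons (P.lf 0 60647 0) P.nil)))))) (P.cons (P.cons (P.lf 13695237 0 0) (P.cons (P.lf 0 1635011 0) (P.cons (P.lf 0 711707 0) (P.cons (P.lf 72582 0 0) (P.cons (P.lf 0 600 0) P.nil))))) (P.cons (P.cons (P.lf 0 22533894 0) (P.cons (P.lf 4265366 0 0) (P.cons (P.lf 1663854 0 0) (P.cons (P.lf 0 355649 0) P.nil)))) (P.cons (P.cons (P.lf 0 875962 0) (P.cons (P.lf 89209 0 0) (P.cons (P.lf 27990 0 0) P.nil))) (P.cons (P.cons (P.lf 1908939 0 0) (P.cons (P.lf 0 249923 0) P.nil)) (P.cons (P.cons (P.lf 0 55174 0) P.nil) P.nil)))))) 811900)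
 (EL.cons 8 (TM.mk (P.cons (P.cons (P.lf 81744911 0 0) (P.cons (P.lf 0 20164161 0) (P.cons (P.lf 0 7451531 0) (P.cons (P.lf 2038519 0 0) (P.cons (P.lf 112060 0 0) (P.cons (P.lf 0 51381 0) P.nil)))))) (P.cons (P.cons (P.lf 31595103 0 0) (P.cons (P.lf 0 6316752 0) (P.cons (P.lf 0 2425388 0) (P.cons (P.lf 560053 0 0) (P.cons (P.lf 26897 0 0) P.nil))))) (P.cons (P.cons (P.lf 0 12619081 0) (P.cons (P.lf 2378436 0 0) (P.cons (P.lf 930890 0 0) (P.cons (P.lf 0 195642 0) P.nil)))) (P.cons (P.cons (P.lf 0 4168542 0) (P.cons (P.lf 718502 0 0) (P.cons (P.lf 275408 0 0) P.nil))) (P.cons (P.cons (P.lf 835572 0 0) (P.cons (P.lf 0 80774 0) P.nil)) (P.cons (P.cons (P.lf 195759 0 0) P.nil) P.nil)))))) 537815)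
 EL.nil))
noncomputable def S169_198_216_364_21 : EL := (EL.cons 4 (TM.mk (P.cons (P.cons (P.lf 0 3391529085 0) (P.cons (P.lf 321435789 0 0) (P.cons (P.lf 138606735 0 0) (P.lf 0 15400740 0)))) (P.cons (P.cons (P.lf 649065873 0 0) (P.cons (P.lf 25555077 0 0) (P.cons (P.lf 11019636 0 0) (P.lf 0 1224402 0)))) (P.cons (P.cons (P.lf 232975683 0 0) (P.cons (P.lf 0 14500866 0) (P.cons (P.lf 0 6252942 0) (P.lf 694767 0 0)))) (P.cons (P.cons (P.lf 0 5500917 0) (P.cons (P.lf 0 1993887 0) (P.cons (P.lf 0 859782 0) P.nil))) (P.cons (P.cons (P.lf 0 4596063 0) (P.cons (P.lf 118671 0 0) P.nil)) (P.cons (P.cons (P.lf 0 161520 0) P.nil) P.nil)))))) 388302)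
 (EL.cons 8 (TM.mk (P.cons (P.cons (P.lf 1423353885 0 0) (P.cons (P.lf 0 134899893 0) (P.cons (P.lf 0 58170357 0) (P.lf 6463377 0 0)))) (P.cons (P.cons (P.lf 0 620509617 0) (P.cons (P.lf 22267584 0 0) (P.cons (P.lf 9602031 0 0) (P.lf 0 1066890 0)))) (P.cons (P.cons (P.lf 0 9294840 0) (P.cons (P.lf 6636969 0 0) (P.cons (P.lf 2861931 0 0) (P.lf 0 317991 0)))) (P.cons (P.cons (P.lf 19512249 0 0) (P.cons (P.lf 0 576906 0) (P.cons (P.lf 0 248766 0) P.nil))) (P.cons (P.cons (P.lf 556056 0 0) (P.cons (P.lf 0 161865 0) P.nil)) (P.cons (P.cons (P.lf 0 255786 0) P.nil) P.nil)))))) 289770)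
 (EL.cons 11 (TM.mk (P.cons (P.cons (P.lf 850896120 0 0) (P.cons (P.lf 792688452 0 0) (P.cons (P.lf 0 81355620 0) (P.cons (P.lf 0 16919706 0) (P.lf 1409973 0 0))))) (P.cons (P.cons (P.lf 137876364 0 0) (P.cons (P.lf 128444586 0 0) (P.cons (P.lf 0 13182591 0) (P.cons (P.lf 0 2741610 0) (P.lf 228465 0 0))))) (P.cons (P.cons (P.lf 0 3177069 0) (P.cons (P.lf 0 2959734 0) (P.cons (P.lf 303765 0 0) (P.cons (P.lf 63174 0 0) P.nil)))) (P.cons (P.cons (P.lf 0 1531806 0) (P.cons (P.lf 0 1427019 0) (P.cons (P.lf 146457 0 0) P.nil))) (P.cons (P.cons (P.lf 0 42048 0) (P.cons (P.lf 0 39171 0) P.nil)) (P.cons (P.cons (P.lf 7458 0 0) P.nil) P.nil)))))) 52527)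
 EL.nil)))
noncomputable def S169_198_216_364_22 : EL := (EL.cons 4 (TM.mk (P.cons (P.cons (P.lf 0 1421389998 0) (P.cons (P.lf 310022145 0 0) (P.cons (P.lf 117070002 0 0) (P.cons (P.lf 0 29183070 0) (P.cons (P.lf 0 1497321 0) (P.cons (P.lf 686544 0 0) P.nil)))))) (P.cons (P.cons (P.lf 0 177558090 0) (P.cons (P.lf 62379027 0 0) (P.cons (P.lf 21539226 0 0) (P.cons (P.lf 0 7610715 0) (P.cons (P.lf 0 482973 0) P.nil))))) (P.cons (P.cons (P.lf 236719545 0 0) (P.cons (P.lf 0 27169428 0) (P.cons (P.lf 0 11357814 0) (P.cons (P.lf 1610457 0 0) P.nil)))) (P.cons (P.cons (P.lf 26477805 0 0) (P.cons (P.lf 0 7305153 0) (P.cons (P.lf 0 2813598 0) P.nil))) (P.cons (P.cons (P.lf 0 8172756 0) (P.cons (P.lf 309042 0 0) P.nil)) (P.cons (P.cons (P.lf 0 1168599 0) P.nil) P.nil)))))) 2780190)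
 (EL.cons 8 (TM.mk (P.cons (P.cons (P.lf 596527680 0 0) (P.cons (P.lf 0 130109820 0) (P.cons (P.lf 0 49131837 0) (P.cons (P.lf 12247527 0 0) (P.cons (P.lf 628392 0 0) (P.cons (P.lf 0 288126 0) P.nil)))))) (P.cons (P.cons (P.lf 0 71375592 0) (P.cons (P.lf 5641833 0 0) (P.cons (P.lf 2976624 0 0) (P.cons (P.lf 198678 0 0) (P.cons (P.lf 49005 0 0) P.nil))))) (P.cons (P.cons (P.lf 0 108409743 0) (P.cons (P.lf 15806913 0 0) (P.cons (P.lf 6222894 0 0) (P.cons (P.lf 0 1268952 0) P.nil)))) (P.cons (P.cons (P.lf 13270800 0 0) (P.cons (P.lf 105960 0 0) (P.cons (P.lf 0 36603 0) P.nil))) (P.cons (P.cons (P.lf 4577700 0 0) (P.cons (P.lf 0 677130 0) P.nil)) (P.cons (P.cons (P.lf 0 340422 0) P.nil) P.nil)))))) 1480617)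
 (EL.cons 11 (TM.mk (P.cons (P.cons (P.lf 356610603 0 0) (P.cons (P.lf 288232881 0 0) (P.cons (P.lf 0 94036185 0) (P.cons (P.lf 0 18446952 0) (P.cons (P.lf 5242029 0 0) (P.cons (P.lf 102762 0 0) P.nil)))))) (P.cons (P.cons (P.lf 170578914 0 0) (P.cons (P.lf 141092937 0 0) (P.cons (P.lf 0 40590546 0) (P.cons (P.lf 0 7992069 0) (P.cons (P.lf 2166780 0 0) P.nil))))) (P.cons (P.cons (P.lf 3638481 0 0) (P.cons (P.lf 1634871 0 0) (P.cons (P.lf 0 2739204 0) (P.cons (P.lf 0 525396 0) P.nil)))) (P.cons (P.cons (P.lf 0 5239119 0) (P.cons (P.lf 0 4641465 0) (P.cons (P.lf 826983 0 0) P.nil))) (P.cons (P.cons (P.lf 0 414672 0) (P.cons (P.lf 0 328683 0) P.nil)) (P.cons (P.cons (P.lf 64779 0 0) P.nil) P.nil)))))) 1316361)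
 EL.nil)))
noncomputable def S169_198_216_364_23 : EL := (EL.cons 4 (TM.mk (P.cons (P.cons (P.lf 1745943663 0 0) (P.cons (P.lf 0 165473673 0) (P.cons (P.lf 0 71354112 0) (P.lf 7928229 0 0)))) (P.cons (P.cons (P.lf 0 619688862 0) (P.cons (P.lf 13907925 0 0) (P.cons (P.lf 5997255 0 0) (P.lf 0 666360 0)))) (P.cons (P.cons (P.lf 0 82057554 0) (P.cons (P.lf 11206137 0 0) (P.cons (P.lf 4832214 0 0) (P.lf 0 536910 0)))) (P.cons (P.cons (P.lf 26086614 0 0) (P.cons (P.lf 0 108801 0) (P.cons (P.lf 0 46917 0) P.nil))) (P.cons (P.cons (P.lf 3049545 0 0) (P.cons (P.lf 0 311187 0) P.nil)) (P.cons (P.cons (P.lf 0 373986 0) P.nil) P.nil)))))) 487125)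
 (EL.cons 8 (TM.mk (P.cons (P.cons (P.lf 0 732736071 0) (P.cons (P.lf 69445848 0 0) (P.cons (P.lf 29945832 0 0) (P.lf 0 3327315 0)))) (P.cons (P.cons (P.lf 439276020 0 0) (P.cons (P.lf 0 22821261 0) (P.cons (P.lf 0 9840783 0) (P.lf 1093419 0 0)))) (P.cons (P.cons (P.lf 0 40420794 0) (P.cons (P.lf 0 2208933 0) (P.cons (P.lf 0 952515 0) (P.lf 105834 0 0)))) (P.cons (P.cons (P.lf 0 14076126 0) (P.cons (P.lf 982992 0 0) (P.cons (P.lf 423873 0 0) P.nil))) (P.cons (P.cons (P.lf 1356987 0 0) (P.cons (P.lf 67806 0 0) P.nil)) (P.cons (P.cons (P.lf 289692 0 0) P.nil) P.nil)))))) 297720)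
 (EL.cons 11 (TM.mk (P.cons (P.cons (P.lf 0 438037431 0) (P.cons (P.lf 0 408072390 0) (P.cons (P.lf 41881500 0 0) (P.cons (P.lf 8710185 0 0) (P.lf 0 725847 0))))) (P.cons (P.cons (P.lf 663810 0 0) (P.cons (P.lf 618402 0 0) (P.cons (P.lf 0 63468 0) (P.cons (P.lf 0 13200 0) (P.lf 1101 0 0))))) (P.cons (P.cons (P.lf 17451912 0 0) (P.cons (P.lf 16258071 0 0) (P.cons (P.lf 0 1668606 0) (P.cons (P.lf 0 347022 0) P.nil)))) (P.cons (P.cons (P.lf 1095123 0 0) (P.cons (P.lf 1020210 0 0) (P.cons (P.lf 0 104706 0) P.nil))) (P.cons (P.cons (P.lf 0 159759 0) (P.cons (P.lf 0 148830 0) P.nil)) (P.cons (P.cons (P.lf 0 17982 0) P.nil) P.nil)))))) 115914)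
 EL.nil)))
noncomputable def S169_198_216_364_24 : EL := (EL.cons 4 (TM.mk (P.cons (P.cons (P.lf 731725071 0 0) (P.cons (P.lf 0 159597981 0) (P.cons (P.lf 0 60267102 0) (P.cons (P.lf 15023310 0 0) (P.cons (P.lf 770814 0 0) (P.cons (P.lf 0 353430 0) P.nil)))))) (P.cons (P.cons (P.lf 0 28269063 0) (P.cons (P.lf 0 6009855 0) (P.cons (P.lf 0 1231485 0) (P.cons (P.lf 1460865 0 0) (P.cons (P.lf 122562 0 0) P.nil))))) (P.cons (P.cons (P.lf 0 143840691 0) (P.cons (P.lf 20771838 0 0) (P.cons (P.lf 8239386 0 0) (P.cons (P.lf 0 1614159 0) P.nil)))) (P.cons (P.cons (P.lf 5602113 0 0) (P.cons (P.lf 1742313 0 0) (P.cons (P.lf 583833 0 0) P.nil))) (P.cons (P.cons (P.lf 7661880 0 0) (P.cons (P.lf 0 923430 0) P.nil)) (P.cons (P.cons (P.lf 18969 0 0) P.nil) P.nil)))))) 1928784)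
 (EL.cons 8 (TM.mk (P.cons (P.cons (P.lf 0 307089720 0) (P.cons (P.lf 66979938 0 0) (P.cons (P.lf 25292844 0 0) (P.cons (P.lf 0 6304971 0) (P.cons (P.lf 0 323493 0) (P.cons (P.lf 148326 0 0) P.nil)))))) (P.cons (P.cons (P.lf 86968992 0 0) (P.cons (P.lf 0 13859097 0) (P.cons (P.lf 0 5669049 0) (P.cons (P.lf 928911 0 0) (P.cons (P.lf 27678 0 0) P.nil))))) (P.cons (P.cons (P.lf 52749189 0 0) (P.cons (P.lf 0 8305710 0) (P.cons (P.lf 0 3195858 0) (P.cons (P.lf 730542 0 0) P.nil)))) (P.cons (P.cons (P.lf 0 16387902 0) (P.cons (P.lf 1320702 0 0) (P.cons (P.lf 563727 0 0) P.nil))) (P.cons (P.cons (P.lf 0 1779792 0) (P.cons (P.lf 437901 0 0) P.nil)) (P.cons (P.cons (P.lf 641424 0 0) P.nil) P.nil)))))) 919305)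
 (EL.cons 11 (TM.mk (P.cons (P.cons (P.lf 0 183581508 0) (P.cons (P.lf 0 148380969 0) (P.cons (P.lf 48409395 0 0) (P.cons (P.lf 9496407 0 0) (P.cons (P.lf 0 2698572 0) (P.cons (P.lf 0 52899 0) P.nil)))))) (P.cons (P.cons (P.lf 0 57788106 0) (P.cons (P.lf 0 48365982 0) (P.cons (P.lf 12978369 0 0) (P.cons (P.lf 2561121 0 0) (P.cons (P.lf 0 674091 0) P.nil))))) (P.cons (P.cons (P.lf 14252433 0 0) (P.cons (P.lf 12463152 0 0) (P.cons (P.lf 0 2472441 0) (P.cons (P.lf 0 493647 0) P.nil)))) (P.cons (P.cons (P.lf 3801786 0 0) (P.cons (P.lf 3188268 0 0) (P.cons (P.lf 0 845172 0) P.nil))) (P.cons (P.cons (P.lf 0 239322 0) (P.cons (P.lf 0 237894 0) P.nil)) (P.cons (P.cons (P.lf 0 98622 0) P.nil) P.nil)))))) 967776)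
 EL.nil)))
noncomputable def S169_198_216_364_25 : EL := (EL.cons 4 (TM.mk (P.cons (P.cons (P.lf 0 898803813 0) (P.cons (P.lf 85185090 0 0) (P.cons (P.lf 36732771 0 0) (P.lf 0 4081416 0)))) (P.cons (P.cons (P.lf 466014225 0 0) (P.cons (P.lf 0 21091935 0) (P.cons (P.lf 0 9095079 0) (P.lf 1010562 0 0)))) (P.cons (P.cons (P.lf 0 1298541 0) (P.cons (P.lf 0 5416158 0) (P.cons (P.lf 0 2335509 0) (P.lf 259497 0 0)))) (P.cons (P.cons (P.lf 0 23623692 0) (P.cons (P.lf 1089252 0 0) (P.cons (P.lf 469698 0 0) P.nil))) (P.cons (P.cons (P.lf 259662 0 0) (P.cons (P.lf 208437 0 0) P.nil)) (P.cons (P.cons (P.lf 602070 0 0) P.nil) P.nil)))))) 409677)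
 (EL.cons 8 (TM.mk (P.cons (P.cons (P.lf 377209176 0 0) (P.cons (P.lf 0 35750403 0) (P.cons (P.lf 0 15415977 0) (P.lf 1712886 0 0)))) (P.cons (P.cons (P.lf 0 287830632 0) (P.cons (P.lf 17595333 0 0) (P.cons (P.lf 7587306 0 0) (P.lf 0 843033 0)))) (P.cons (P.cons (P.lf 54170220 0 0) (P.cons (P.lf 0 440889 0) (P.cons (P.lf 0 190116 0) (P.lf 21123 0 0)))) (P.cons (P.cons (P.lf 6108111 0 0) (P.cons (P.lf 0 813669 0) (P.cons (P.lf 0 350862 0) P.nil))) (P.cons (P.cons (P.lf 0 2122647 0) (P.cons (P.lf 38250 0 0) P.nil)) (P.cons (P.cons (P.lf 0 109044 0) P.nil) P.nil)))))) 255624)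
 (EL.cons 11 (TM.mk (P.cons (P.cons (P.lf 225499665 0 0) (P.cons (P.lf 210073800 0 0) (P.cons (P.lf 0 21560403 0) (P.cons (P.lf 0 4483962 0) (P.lf 373662 0 0))))) (P.cons (P.cons (P.lf 0 37222665 0) (P.cons (P.lf 0 34676358 0) (P.cons (P.lf 3558921 0 0) (P.cons (P.lf 740157 0 0) (P.lf 0 61680 0))))) (P.cons (P.cons (P.lf 0 11094405 0) (P.cons (P.lf 0 10335465 0) (P.cons (P.lf 1060755 0 0) (P.cons (P.lf 220605 0 0) P.nil)))) (P.cons (P.cons (P.lf 964365 0 0) (P.cons (P.lf 898395 0 0) (P.cons (P.lf 0 92205 0) P.nil))) (P.cons (P.cons (P.lf 270582 0 0) (P.cons (P.lf 252072 0 0) P.nil)) (P.cons (P.cons (P.lf 0 843 0) P.nil) P.nil)))))) 126204)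
 EL.nil)))
noncomputable def S169_198_216_364_26 : EL := (EL.cons 4 (TM.mk (P.cons (P.cons (P.lf 0 376688718 0) (P.cons (P.lf 82160310 0 0) (P.cons (P.lf 31025229 0 0) (P.cons (P.lf 0 7733931 0) (P.cons (P.lf 0 396810 0) (P.cons (P.lf 181944 0 0) P.nil)))))) (P.cons (P.cons (P.lf 76161006 0 0) (P.cons (P.lf 0 10343643 0) (P.cons (P.lf 0 4440276 0) (P.cons (P.lf 512850 0 0) (P.cons (P.lf 1803 0 0) P.nil))))) (P.cons (P.cons (P.lf 75286833 0 0) (P.cons (P.lf 0 11988477 0) (P.cons (P.lf 0 4643310 0) (P.cons (P.lf 1028250 0 0) P.nil)))) (P.cons (P.cons (P.lf 0 15227187 0) (P.cons (P.lf 842457 0 0) (P.cons (P.lf 394707 0 0) P.nil))) (P.cons (P.cons (P.lf 0 4196916 0) (P.cons (P.lf 729165 0 0) P.nil)) (P.cons (P.cons (P.lf 681624 0 0) P.nil) P.nil)))))) 1321920)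
 (EL.cons 8 (TM.mk (P.cons (P.cons (P.lf 158088384 0 0) (P.cons (P.lf 0 34480965 0) (P.cons (P.lf 0 13020639 0) (P.cons (P.lf 3245769 0 0) (P.cons (P.lf 166533 0 0) (P.cons (P.lf 0 76356 0) P.nil)))))) (P.cons (P.cons (P.lf 0 70626921 0) (P.cons (P.lf 12774033 0 0) (P.cons (P.lf 5047953 0 0) (P.cons (P.lf 0 1009050 0) (P.cons (P.lf 0 41484 0) P.nil))))) (P.cons (P.cons (P.lf 0 21351195 0) (P.cons (P.lf 3440085 0 0) (P.cons (P.lf 1292976 0 0) (P.cons (P.lf 0 329049 0) P.nil)))) (P.cons (P.cons (P.lf 13346637 0 0) (P.cons (P.lf 0 1456215 0) (P.cons (P.lf 0 590517 0) P.nil))) (P.cons (P.cons (P.lf 0 206775 0) (P.cons (P.lf 0 155064 0) P.nil)) (P.cons (P.cons (P.lf 0 569628 0) P.nil) P.nil)))))) 634125)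
 (EL.cons 11 (TM.mk (P.cons (P.cons (P.lf 94506918 0 0) (P.cons (P.lf 76385844 0 0) (P.cons (P.lf 0 24920934 0) (P.cons (P.lf 0 4888707 0) (P.cons (P.lf 1389213 0 0) (P.cons (P.lf 27231 0 0) P.nil)))))) (P.cons (P.cons (P.lf 14292249 0 0) (P.cons (P.lf 12405522 0 0) (P.cons (P.lf 0 2605332 0) (P.cons (P.lf 0 518895 0) (P.cons (P.lf 119808 0 0) P.nil))))) (P.cons (P.cons (P.lf 0 13110432 0) (P.cons (P.lf 0 11221944 0) (P.cons (P.lf 2604915 0 0) (P.cons (P.lf 516723 0 0) P.nil)))) (P.cons (P.cons (P.lf 0 1019664 0) (P.cons (P.lf 0 812343 0) (P.cons (P.lf 284970 0 0) P.nil))) (P.cons (P.cons (P.lf 525249 0 0) (P.cons (P.lf 462021 0 0) P.nil)) (P.cons (P.cons (P.lf 48990 0 0) P.nil) P.nil)))))) 684042)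
 EL.nil)))
noncomputable def S169_198_216_364_27 : EL := (EL.cons 13 (TM.mk (P.lf 0 4294967296 0) 0)
 EL.nil)
noncomputable def S169_198_216_364_28 : EL := (EL.cons 13 (TM.mk (P.cons (P.cons (P.lf 0 1800020998 0) (P.cons (P.lf 222007180 0 0) (P.cons (P.lf 95732000 0 0) (P.lf 0 10636884 0)))) (P.cons (P.cons (P.lf 0 569341543 0) (P.cons (P.lf 53959952 0 0) (P.cons (P.lf 23268140 0 0) (P.lf 0 2585348 0)))) (P.cons (P.cons (P.lf 67167763 0 0) (P.cons (P.lf 942480 0 0) (P.cons (P.lf 406404 0 0) (P.lf 0 45156 0)))) (P.cons (P.cons (P.lf 10195004 0 0) (P.cons (P.lf 0 759260 0) (P.cons (P.lf 0 327400 0) P.nil))) (P.cons (P.cons (P.lf 0 421973 0) (P.cons (P.lf 0 56196 0) P.nil)) (P.cons (P.cons (P.lf 0 111990 0) P.nil) P.nil)))))) 89705)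
 EL.nil)
noncomputable def S169_198_216_364_29 : EL := (EL.cons 13 (TM.mk (P.cons (P.cons (P.lf 0 754388885 0) (P.cons (P.lf 186086439 0 0) (P.cons (P.lf 68767003 0 0) (P.cons (P.lf 0 18812625 0) (P.cons (P.lf 0 1034160 0) (P.cons (P.lf 474178 0 0) P.nil)))))) (P.cons (P.cons (P.lf 0 477222135 0) (P.cons (P.lf 104087850 0 0) (P.cons (P.lf 39305467 0 0) (P.cons (P.lf 0 9798020 0) (P.cons (P.lf 0 502715 0) P.nil))))) (P.cons (P.cons (P.lf 0 19171979 0) (P.cons (P.lf 8152052 0 0) (P.cons (P.lf 2739892 0 0) (P.cons (P.lf 0 1059272 0) P.nil)))) (P.cons (P.cons (P.lf 26352991 0 0) (P.cons (P.lf 0 3128230 0) (P.cons (P.lf 0 1294117 0) P.nil))) (P.cons (P.cons (P.lf 1298787 0 0) (P.cons (P.lf 0 490423 0) P.nil)) (P.cons (P.cons (P.lf 0 524617 0) P.nil) P.nil)))))) 1371093)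
 EL.nil)
noncomputable def S169_198_216_364_30 : EL := (EL.cons 13 (TM.mk (P.cons (P.lf 2211029524 0 0) (P.cons (P.lf 0 361618480 0) (P.cons (P.lf 0 21238980 0) (P.cons (P.lf 543904 0 0) (P.cons (P.lf 97232 0 0) (P.cons (P.lf 1560 0 0) P.nil)))))) 512)
 EL.nil)
noncomputable def S169_198_216_364_31 : EL := (EL.cons 13 (TM.mk (P.cons (P.cons (P.lf 926642578 0 0) (P.cons (P.lf 0 114288281 0) (P.cons (P.lf 0 49282395 0) (P.lf 5475819 0 0)))) (P.cons (P.cons (P.lf 141540100 0 0) (P.cons (P.lf 0 9086250 0) (P.cons (P.lf 0 3918093 0) (P.lf 435343 0 0)))) (P.cons (P.cons (P.lf 0 91415117 0) (P.cons (P.lf 5155864 0 0) (P.cons (P.lf 2223269 0 0) (P.lf 0 247029 0)))) (P.cons (P.cons (P.lf 0 2180585 0) (P.cons (P.lf 708938 0 0) (P.cons (P.lf 305701 0 0) P.nil))) (P.cons (P.cons (P.lf 1520607 0 0) (P.cons (P.lf 0 42195 0) P.nil)) (P.cons (P.cons (P.lf 77575 0 0) P.nil) P.nil))))))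 136108)
 EL.nil)
noncomputable def S169_198_216_364_32 : EL := (EL.cons 13 (TM.mk (P.cons (P.cons (P.lf 388355948 0 0) (P.cons (P.lf 0 95796447 0) (P.cons (P.lf 0 35400938 0) (P.cons (P.lf 9684653 0 0) (P.cons (P.lf 532380 0 0) (P.cons (P.lf 0 244104 0) P.nil)))))) (P.cons (P.cons (P.lf 182155349 0 0) (P.cons (P.lf 0 37916240 0) (P.cons (P.lf 0 14444377 0) (P.cons (P.lf 3460030 0 0) (P.cons (P.lf 171723 0 0) P.nil))))) (P.cons (P.cons (P.lf 0 34041000 0) (P.cons (P.lf 5487340 0 0) (P.cons (P.lf 2238932 0 0) (P.cons (P.lf 0 372674 0) P.nil)))) (P.cons (P.cons (P.lf 0 17444970 0) (P.cons (P.lf 2787925 0 0) (P.cons (P.lf 1082553 0 0) P.nil))) (P.cons (P.cons (P.lf 1532908 0 0) (P.cons (P.lf 12001 0 0) P.nil)) (P.cons (P.cons (P.lf 523246 0 0) P.nil) P.nil)))))) 1326700)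
 EL.nil)
noncomputable def S169_198_216_364_33 : EL := (EL.cons 14 (TM.mk (P.lf 8589934592 0 0) 0)
 EL.nil)
noncomputable def S169_198_216_364_34 : EL := (EL.cons 14 (TM.mk (P.cons (P.cons (P.lf 3600041996 0 0) (P.cons (P.lf 0 444014360 0) (P.cons (P.lf 0 191464000 0) (P.lf 21273768 0 0)))) (P.cons (P.cons (P.lf 1138683086 0 0) (P.cons (P.lf 0 107919904 0) (P.cons (P.lf 0 46536280 0) (P.lf 5170696 0 0)))) (P.cons (P.cons (P.lf 0 134335526 0) (P.cons (P.lf 0 1884960 0) (P.cons (P.lf 0 812808 0) (P.lf 90312 0 0)))) (P.cons (P.cons (P.lf 0 20390008 0) (P.cons (P.lf 1518520 0 0) (P.cons (P.lf 654800 0 0) P.nil))) (P.cons (P.cons (P.lf 843946 0 0) (P.cons (P.lf 112392 0 0) P.nil)) (P.cons (P.cons (P.lf 223980 0 0) P.nil) P.nil)))))) 179410)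
 EL.nil)
noncomputable def S169_198_216_364_35 : EL := (EL.cons 14 (TM.mk (P.cons (P.cons (P.lf 1508777770 0 0) (P.cons (P.lf 0 372172878 0) (P.cons (P.lf 0 137534006 0) (P.cons (P.lf 37625250 0 0) (P.cons (P.lf 2068320 0 0) (P.cons (P.lf 0 948356 0) P.nil)))))) (P.cons (P.cons (P.lf 954444270 0 0) (P.cons (P.lf 0 208175700 0) (P.cons (P.lf 0 78610934 0) (P.cons (P.lf 19596040 0 0) (P.cons (P.lf 1005430 0 0) P.nil))))) (P.cons (P.cons (P.lf 38343958 0 0) (P.cons (P.lf 0 16304104 0) (P.cons (P.lf 0 5479784 0) (P.cons (P.lf 2118544 0 0) P.nil)))) (P.cons (P.cons (P.lf 0 52705982 0) (P.cons (P.lf 6256460 0 0) (P.cons (P.lf 2588234 0 0) P.nil))) (P.cons (P.cons (P.lf 0 2597574 0) (P.cons (P.lf 980846 0 0) P.nil)) (P.cons (P.cons (P.lf 1049234 0 0) P.nil) P.nil)))))) 2742186)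
 EL.nil)
noncomputable def S169_198_216_364_36 : EL := (EL.cons 14 (TM.mk (P.cons (P.lf 0 4422059048 0) (P.cons (P.lf 723236960 0 0) (P.cons (P.lf 42477960 0 0) (P.cons (P.lf 0 1087808 0) (P.cons (P.lf 0 194464 0) (P.cons (P.lf 0 3120 0) P.nil)))))) 1024)
 EL.nil)
noncomputable def S169_198_216_364_37 : EL := (EL.cons 14 (TM.mk (P.cons (P.cons (P.lf 0 1853285156 0) (P.cons (P.lf 228576562 0 0) (P.cons (P.lf 98564790 0 0) (P.lf 0 10951638 0)))) (P.cons (P.cons (P.lf 0 283080200 0) (P.cons (P.lf 18172500 0 0) (P.cons (P.lf 7836186 0 0) (P.lf 0 870686 0)))) (P.cons (P.cons (P.lf 182830234 0 0) (P.cons (P.lf 0 10311728 0) (P.cons (P.lf 0 4446538 0) (P.lf 494058 0 0)))) (P.cons (P.cons (P.lf 4361170 0 0) (P.cons (P.lf 0 1417876 0) (P.cons (P.lf 0 611402 0) P.nil))) (P.cons (P.cons (P.lf 0 3041214 0) (P.cons (P.lf 84390 0 0) P.nil)) (P.cons (P.cons (P.lf 0 155150 0)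 P.nil) P.nil)))))) 272216)
 EL.nil)
noncomputable def S169_198_216_364_38 : EL := (EL.cons 14 (TM.mk (P.cons (P.cons (P.lf 0 776711896 0) (P.cons (P.lf 191592894 0 0) (P.cons (P.lf 70801876 0 0) (P.cons (P.lf 0 19369306 0) (P.cons (P.lf 0 1064760 0) (P.cons (P.lf 488208 0 0) P.nil)))))) (P.cons (P.cons (P.lf 0 364310698 0) (P.cons (P.lf 75832480 0 0) (P.cons (P.lf 28888754 0 0) (P.cons (P.lf 0 6920060 0) (P.cons (P.lf 0 343446 0) P.nil))))) (P.cons (P.cons (P.lf 68082000 0 0) (P.cons (P.lf 0 10974680 0) (P.cons (P.lf 0 4477864 0) (P.cons (P.lf 745348 0 0) P.nil)))) (P.cons (P.cons (P.lf 34889940 0 0) (P.cons (P.lf 0 5575850 0) (P.cons (P.lf 0 2165106 0) P.nil))) (P.cons (P.cons (P.lf 0 3065816 0) (P.cons (P.lf 0 24002 0) P.nil)) (P.cons (P.cons (P.lf 0 1046492 0) P.nil) P.nil)))))) 2653400)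
 EL.nil)
noncomputable def S169_198_216_364_39 : EL := (EL.cons 14 (TM.mk (P.cons (P.lf 2276455776 0 0) (P.cons (P.lf 0 744638158 0) (P.cons (P.lf 17158640 0 0) (P.cons (P.lf 8272934 0 0) (P.cons (P.lf 227096 0 0) (P.cons (P.lf 0 40292 0) P.nil)))))) 3922)
 EL.nil)
noncomputable def S169_198_216_364_40 : EL := (EL.cons 14 (TM.mk (P.cons (P.cons (P.lf 954062722 0 0) (P.cons (P.lf 0 117670168 0) (P.cons (P.lf 0 50740704 0) (P.lf 5637852 0 0)))) (P.cons (P.cons (P.lf 0 10310550 0) (P.cons (P.lf 9890080 0 0) (P.cons (P.lf 4264714 0 0) (P.lf 0 473856 0)))) (P.cons (P.cons (P.lf 0 127119004 0) (P.cons (P.lf 7968810 0 0) (P.cons (P.lf 3436242 0 0) (P.lf 0 381804 0)))) (P.cons (P.cons (P.lf 11983276 0 0) (P.cons (P.lf 0 77370 0) (P.cons (P.lf 0 33364 0) P.nil))) (P.cons (P.cons (P.lf 2914710 0 0) (P.cons (P.lf 0 221292 0) P.nil)) (P.cons (P.cons (P.lf 0 170690 0) P.nil)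 P.nil)))))) 298728)
 EL.nil)
noncomputable def S169_198_216_364_41 : EL := (EL.cons 14 (TM.mk (P.cons (P.cons (P.lf 399847732 0 0) (P.cons (P.lf 0 98631146 0) (P.cons (P.lf 0 36448482 0) (P.cons (P.lf 9971230 0 0) (P.cons (P.lf 548134 0 0) (P.cons (P.lf 0 251326 0) P.nil)))))) (P.cons (P.cons (P.lf 122149552 0 0) (P.cons (P.lf 0 22906884 0) (P.cons (P.lf 0 8910572 0) (P.cons (P.lf 1931600 0 0) (P.cons (P.lf 87156 0 0) P.nil))))) (P.cons (P.cons (P.lf 0 69562662 0) (P.cons (P.lf 12981940 0 0) (P.cons (P.lf 5087618 0 0) (P.cons (P.lf 0 1062124 0) P.nil)))) (P.cons (P.cons (P.lf 0 13932146 0) (P.cons (P.lf 2297134 0 0) (P.cons (P.lf 871460 0 0) P.nil))) (P.cons (P.cons (P.lf 4916246 0 0) (P.cons (P.lf 0 525316 0) P.nil)) (P.cons (P.cons (P.lf 453040 0 0) P.nil) P.nil)))))) 2063674)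
 EL.nil)
noncomputable def S169_198_216_364_42 : EL := (EL.cons 14 (TM.mk (P.cons (P.lf 0 1171909022 0) (P.cons (P.lf 575004478 0 0) (P.cons (P.lf 0 60271372 0) (P.cons (P.lf 0 6784766 0) (P.cons (P.lf 707252 0 0) (P.cons (P.lf 94630 0 0) P.nil)))))) 9404)
 EL.nil)
noncomputable def S169_198_216_364_43 : EL := (EL.cons 14 (TM.mk (P.cons (P.cons (P.lf 0 491147126 0) (P.cons (P.lf 60576064 0 0) (P.cons (P.lf 26121082 0 0) (P.lf 0 2902340 0)))) (P.cons (P.cons (P.lf 85635958 0 0) (P.cons (P.lf 0 14998708 0) (P.cons (P.lf 0 6467612 0) (P.lf 718622 0 0)))) (P.cons (P.cons (P.lf 69290098 0 0) (P.cons (P.lf 0 3851492 0) (P.cons (P.lf 0 1660808 0) (P.lf 184534 0 0)))) (P.cons (P.cons (P.lf 0 17043636 0) (P.cons (P.lf 774578 0 0) (P.cons (P.lf 334008 0 0) P.nil))) (P.cons (P.cons (P.lf 0 1140444 0) (P.cons (P.lf 148222 0 0) P.nil)) (P.cons (P.cons (P.lf 408520 0 0) P.nil)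 P.nil)))))) 328554)
 EL.nil)
noncomputable def S169_198_216_364_44 : EL := (EL.cons 14 (TM.mk (P.cons (P.cons (P.lf 0 205839782 0) (P.cons (P.lf 50774862 0 0) (P.cons (P.lf 18763512 0 0) (P.cons (P.lf 0 5133142 0) (P.cons (P.lf 0 282176 0) (P.cons (P.lf 129382 0 0) P.nil)))))) (P.cons (P.cons (P.lf 0 29216506 0) (P.cons (P.lf 3488024 0 0) (P.cons (P.lf 1518310 0 0) (P.cons (P.lf 0 154842 0) (P.cons (P.lf 1282 0 0) P.nil))))) (P.cons (P.cons (P.lf 48072308 0 0) (P.cons (P.lf 0 9099448 0) (P.cons (P.lf 0 3549556 0) (P.cons (P.lf 758718 0 0) P.nil)))) (P.cons (P.cons (P.lf 1868720 0 0) (P.cons (P.lf 0 190314 0) (P.cons (P.lf 0 59714 0) P.nil))) (P.cons (P.cons (P.lf 0 4072404 0) (P.cons (P.lf 533170 0 0) P.nil)) (P.cons (P.cons (P.lf 117706 0 0) P.nil) P.nil)))))) 1732008)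
 EL.nil)
noncomputable def S169_198_216_364_45 : EL := (EL.cons 14 (TM.mk (P.cons (P.cons (P.lf 632328834 0 0) (P.cons (P.lf 0 233966506 0) (P.cons (P.lf 0 72032530 0) (P.cons (P.lf 34910002 0 0) (P.cons (P.lf 1065802 0 0) (P.cons (P.lf 0 1683624 0) P.nil)))))) (P.cons (P.cons (P.lf 600011458 0 0) (P.cons (P.lf 0 204872612 0) (P.cons (P.lf 0 65188746 0) (P.cons (P.lf 28919962 0 0) (P.cons (P.lf 967612 0 0) P.nil))))) (P.cons (P.cons (P.lf 118995894 0 0) (P.cons (P.lf 0 42912824 0) (P.cons (P.lf 0 13194712 0) (P.cons (P.lf 6409960 0 0) P.nil)))) (P.cons (P.cons (P.lf 0 35513878 0) (P.cons (P.lf 6899756 0 0) (P.cons (P.lf 2767248 0 0) P.nil))) (P.cons (P.cons (P.lf 0 10792344 0) (P.cons (P.lf 2929482 0 0) P.nil)) (P.cons (P.cons (P.lf 961748 0 0) P.nil) P.nil)))))) 9006800)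
 EL.nil)
noncomputable def S169_198_216_364_46 : EL := (EL.cons 15 (TM.mk (P.lf 4294967296 0 0) 0)
 EL.nil)
noncomputable def S169_198_216_364_47 : EL := (EL.cons 15 (TM.mk (P.cons (P.cons (P.lf 1800020998 0 0) (P.cons (P.lf 0 222007180 0) (P.cons (P.lf 0 95732000 0) (P.lf 10636884 0 0)))) (P.cons (P.cons (P.lf 569341543 0 0) (P.cons (P.lf 0 53959952 0) (P.cons (P.lf 0 23268140 0) (P.lf 2585348 0 0)))) (P.cons (P.cons (P.lf 0 67167763 0) (P.cons (P.lf 0 942480 0) (P.cons (P.lf 0 406404 0) (P.lf 45156 0 0)))) (P.cons (P.cons (P.lf 0 10195004 0) (P.cons (P.lf 759260 0 0) (P.cons (P.lf 327400 0 0) P.nil))) (P.cons (P.cons (P.lf 421973 0 0) (P.cons (P.lf 56196 0 0) P.nil)) (P.cons (P.cons (P.lf 111990 0 0) P.nil) P.nil)))))) 89705)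
 EL.nil)
noncomputable def S169_198_216_364_48 : EL := (EL.cons 15 (TM.mk (P.cons (P.cons (P.lf 754388885 0 0) (P.cons (P.lf 0 186086439 0) (P.cons (P.lf 0 68767003 0) (P.cons (P.lf 18812625 0 0) (P.cons (P.lf 1034160 0 0) (P.cons (P.lf 0 474178 0) P.nil)))))) (P.cons (P.cons (P.lf 477222135 0 0) (P.cons (P.lf 0 104087850 0) (P.cons (P.lf 0 39305467 0) (P.cons (P.lf 9798020 0 0) (P.cons (P.lf 502715 0 0) P.nil))))) (P.cons (P.cons (P.lf 19171979 0 0) (P.cons (P.lf 0 8152052 0) (P.cons (P.lf 0 2739892 0) (P.cons (P.lf 1059272 0 0) P.nil)))) (P.cons (P.cons (P.lf 0 26352991 0) (P.cons (P.lf 3128230 0 0) (P.cons (P.lf 1294117 0 0) P.nil))) (P.cons (P.cons (P.lf 0 1298787 0) (P.cons (P.lf 490423 0 0) P.nil)) (P.cons (P.cons (P.lf 524617 0 0) P.nil) P.nil)))))) 1371093)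
 EL.nil)
noncomputable def S169_198_216_364 : SL := (SL.cons S169_198_216_364_0 (SL.cons S169_198_216_364_1 (SL.cons S169_198_216_364_2 (SL.cons S169_198_216_364_3 (SL.cons S169_198_216_364_4 (SL.cons S169_198_216_364_5 (SL.cons S169_198_216_364_6 (SL.cons S169_198_216_364_7 (SL.cons S169_198_216_364_8 (SL.cons S169_198_216_364_9 (SL.cons S169_198_216_364_10 (SL.cons S169_198_216_364_11 (SL.cons S169_198_216_364_12 (SL.cons S169_198_216_364_13 (SL.cons S169_198_216_364_14 (SL.cons S169_198_216_364_15 (SL.cons S169_198_216_364_16 (SL.cons S169_198_216_364_17 (SL.cons S169_198_216_364_18 (SL.cons S169_198_216_364_19 (SL.cons S169_198_216_364_20 (SL.cons S169_198_216_364_21 (SL.cons S169_198_216_364_22 (SL.cons S169_198_216_364_23 (SL.cons S169_198_216_364_24 (SL.cons S169_198_216_364_25 (SL.cons S169_198_216_364_26 (SL.cons S169_198_216_364_27 (SL.cons S169_198_216_364_28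 (SL.cons S169_198_216_364_29 (SL.cons S169_198_216_364_30 (SL.cons S169_198_216_364_31 (SL.cons S169_198_216_364_32 (SL.cons S169_198_216_364_33 (SL.cons S169_198_216_364_34 (SL.cons S169_198_216_364_35 (SL.cons S169_198_216_364_36 (SL.cons S169_198_216_364_37 (SL.cons S169_198_216_364_38 (SL.cons S169_198_216_364_39 (SL.cons S169_198_216_364_40 (SL.cons S169_198_216_364_41 (SL.cons S169_198_216_364_42 (SL.cons S169_198_216_364_43 (SL.cons S169_198_216_364_44 (SL.cons S169_198_216_364_45 (SL.cons S169_198_216_364_46 (SL.cons S169_198_216_364_47 (SL.cons S169_198_216_364_48 SL.nil)))))))))))))))))))))))))))))))))))))))))))))))))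
noncomputable def S169_198_290_308_0 : EL := (EL.cons 0 (TM.mk (P.cons (P.lf 6454925654 0 0) (P.cons (P.lf 654467131 0 0) (P.cons (P.lf 0 15080835 0) (P.cons (P.lf 0 7271133 0) (P.cons (P.lf 0 199596 0) (P.cons (P.lf 35412 0 0) P.nil)))))) 3454)
 (EL.cons 1 (TM.mk (P.cons (P.lf 0 1695086628 0) (P.cons (P.lf 139901857 0 0) (P.cons (P.lf 47471786 0 0) (P.cons (P.lf 293435 0 0) (P.cons (P.lf 0 328029 0) (P.cons (P.lf 0 15684 0) P.nil)))))) 1940)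
 (EL.cons 5 (TM.mk (P.cons (P.lf 5006359730 0 0) (P.cons (P.lf 0 232699422 0) (P.cons (P.lf 5362070 0 0) (P.cons (P.lf 2585292 0 0) (P.cons (P.lf 70970 0 0) (P.cons (P.lf 0 12590 0) P.nil)))))) 1169)
 (EL.cons 9 (TM.mk (P.lf 6442450944 0 0) 2)
 EL.nil))))
noncomputable def S169_198_290_308_1 : EL := (EL.cons 0 (TM.mk (P.cons (P.cons (P.lf 0 571376936 0) (P.cons (P.lf 0 3137395 0) (P.cons (P.lf 0 143165 0) (P.lf 2018 0 0)))) (P.cons (P.cons (P.lf 2273833494 0 0) (P.cons (P.lf 0 18911358 0) (P.cons (P.lf 0 862915 0) (P.lf 12149 0 0)))) (P.cons (P.cons (P.lf 129526169 0 0) (P.cons (P.lf 0 4006267 0) (P.cons (P.lf 0 182798 0) (P.lf 2566 0 0)))) (P.cons (P.cons (P.lf 0 79289994 0) (P.cons (P.lf 236961 0 0) (P.cons (P.lf 10813 0 0) P.nil))) (P.cons (P.cons (P.lf 0 7335224 0) (P.cons (P.lf 119171 0 0) P.nil)) (P.cons (P.cons (P.lf 1075853 0 0) P.nil) P.nil)))))) 269102)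
 (EL.cons 1 (TM.mk (P.cons (P.cons (P.lf 0 1390508563 0) (P.cons (P.lf 20646723 0 0) (P.cons (P.lf 942090 0 0) (P.lf 0 13261 0)))) (P.cons (P.cons (P.lf 0 417615245 0) (P.cons (P.lf 7585372 0 0) (P.cons (P.lf 346107 0 0) (P.lf 0 4866 0)))) (P.cons (P.cons (P.lf 225782103 0 0) (P.cons (P.lf 0 1009641 0) (P.cons (P.lf 0 46069 0) (P.lf 650 0 0)))) (P.cons (P.cons (P.lf 25800659 0 0) (P.cons (P.lf 0 439420 0) (P.cons (P.lf 0 20041 0) P.nil))) (P.cons (P.cons (P.lf 0 5299907 0) (P.cons (P.lf 0 6714 0) P.nil)) (P.cons (P.cons (P.lf 0 716792 0) P.nil) P.nil)))))) 149079)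
 (EL.cons 5 (TM.mk (P.cons (P.cons (P.lf 3214915707 0 0) (P.cons (P.lf 0 49502942 0) (P.cons (P.lf 0 2258792 0) (P.lf 31812 0 0)))) (P.cons (P.cons (P.lf 147672722 0 0) (P.cons (P.lf 0 5579032 0) (P.cons (P.lf 0 254576 0) (P.lf 3590 0 0)))) (P.cons (P.cons (P.lf 0 160443898 0) (P.cons (P.lf 1209558 0 0) (P.cons (P.lf 55184 0 0) (P.lf 0 770 0)))) (P.cons (P.cons (P.lf 11025584 0 0) (P.cons (P.lf 88864 0 0) (P.cons (P.lf 4058 0 0) P.nil))) (P.cons (P.cons (P.lf 3337657 0 0) (P.cons (P.lf 0 29560 0) P.nil)) (P.cons (P.cons (P.lf 0 192983 0) P.nil) P.nil)))))) 120874)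
 (EL.cons 9 (TM.mk (P.cons (P.cons (P.lf 2657434815 0 0) (P.cons (P.lf 0 44663346 0) (P.cons (P.lf 0 2037960 0) (P.lf 28698 0 0)))) (P.cons (P.cons (P.lf 843658978 0 0) (P.cons (P.lf 0 10855644 0) (P.cons (P.lf 0 495336 0) (P.lf 6972 0 0)))) (P.cons (P.cons (P.lf 0 100932478 0) (P.cons (P.lf 0 189606 0) (P.cons (P.lf 0 8652 0) (P.lf 120 0 0)))) (P.cons (P.cons (P.lf 0 15146820 0) (P.cons (P.lf 152748 0 0) (P.cons (P.lf 6966 0 0) P.nil))) (P.cons (P.cons (P.lf 643741 0 0) (P.cons (P.lf 11304 0 0) P.nil)) (P.cons (P.cons (P.lf 167229 0 0) P.nil) P.nil)))))) 20726)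
 (EL.cons 2 (TM.mk (P.cons (P.cons (P.lf 456593287 0 0) (P.cons (P.lf 45323476 0 0) (P.cons (P.lf 0 623961 0) (P.cons (P.lf 0 14093 0) (P.lf 146 0 0))))) (P.cons (P.cons (P.lf 0 691931 0) (P.cons (P.lf 0 68684 0) (P.cons (P.lf 945 0 0) (P.cons (P.lf 19 0 0) (P.lf 0 0 0))))) (P.cons (P.cons (P.lf 0 18191199 0) (P.cons (P.lf 0 1805737 0) (P.cons (P.lf 24856 0 0) (P.cons (P.lf 559 0 0) P.nil)))) (P.cons (P.cons (P.lf 0 1141515 0) (P.cons (P.lf 0 113310 0) (P.cons (P.lf 1558 0 0) P.nil))) (P.cons (P.cons (P.lf 166525 0 0) (P.cons (P.lf 16529 0 0) P.nil)) (P.cons (P.cons (P.lf 18742 0 0) P.nil) P.nil)))))) 4498)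
 (EL.cons 6 (TM.mk (P.cons (P.cons (P.lf 386829558 0 0) (P.cons (P.lf 38398419 0 0) (P.cons (P.lf 0 528624 0) (P.cons (P.lf 0 11940 0) (P.lf 123 0 0))))) (P.cons (P.cons (P.lf 94020852 0 0) (P.cons (P.lf 9332925 0 0) (P.cons (P.lf 0 128484 0) (P.cons (P.lf 0 2901 0) (P.lf 27 0 0))))) (P.cons (P.cons (P.lf 1642191 0 0) (P.cons (P.lf 163011 0 0) (P.cons (P.lf 0 2244 0) (P.cons (P.lf 0 51 0) P.nil)))) (P.cons (P.cons (P.lf 0 1322955 0) (P.cons (P.lf 0 131319 0) (P.cons (P.lf 1806 0 0) P.nil))) (P.cons (P.cons (P.lf 0 97920 0) (P.cons (P.lf 0 9717 0) P.nil)) (P.cons (P.cons (P.lf 6894 0 0) P.nil) P.nil)))))) 2691)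
 EL.nil))))))
noncomputable def S169_198_290_308_2 : EL := (EL.cons 0 (TM.mk (P.cons (P.cons (P.lf 0 1569655408 0) (P.cons (P.lf 42251602 0 0) (P.cons (P.lf 1661175 0 0) (P.cons (P.lf 0 51479 0) (P.cons (P.lf 0 202 0) (P.cons (P.lf 15 0 0) P.nil)))))) (P.cons (P.cons (P.lf 917509994 0 0) (P.cons (P.lf 0 21588686 0) (P.cons (P.lf 0 894567 0) (P.cons (P.lf 22150 0 0) (P.cons (P.lf 77 0 0) P.nil))))) (P.cons (P.cons (P.lf 624886634 0 0) (P.cons (P.lf 0 13969897 0) (P.cons (P.lf 0 553493 0) (P.cons (P.lf 16619 0 0) P.nil)))) (P.cons (P.cons (P.lf 0 60941323 0) (P.cons (P.lf 0 299630 0) (P.cons (P.lf 0 2416 0) P.nil))) (P.cons (P.cons (P.lf 0 34986332 0) (P.cons (P.lf 651885 0 0) P.nil)) (P.cons (P.cons (P.lf 627410 0 0) P.nil) P.nil)))))) 1505545)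
 (EL.cons 1 (TM.mk (P.cons (P.cons (P.lf 0 858723627 0) (P.cons (P.lf 26618231 0 0) (P.cons (P.lf 1009762 0 0) (P.cons (P.lf 0 35787 0) (P.cons (P.lf 0 160 0) (P.cons (P.lf 10 0 0) P.nil)))))) (P.cons (P.cons (P.lf 0 549383679 0) (P.cons (P.lf 17507707 0 0) (P.cons (P.lf 656976 0 0) (P.cons (P.lf 0 24178 0) (P.cons (P.lf 0 102 0) P.nil))))) (P.cons (P.cons (P.lf 104427284 0 0) (P.cons (P.lf 0 835528 0) (P.cons (P.lf 0 50944 0) (P.cons (P.lf 0 633 0) P.nil)))) (P.cons (P.cons (P.lf 84029964 0 0) (P.cons (P.lf 0 1768235 0) (P.cons (P.lf 0 72612 0) P.nil))) (P.cons (P.cons (P.lf 0 2822679 0) (P.cons (P.lf 0 149087 0) P.nil)) (P.cons (P.cons (P.lf 0 3435616 0) P.nil) P.nil)))))) 718763)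
 (EL.cons 5 (TM.mk (P.cons (P.cons (P.lf 1800414858 0 0) (P.cons (P.lf 0 56781814 0) (P.cons (P.lf 0 2145149 0) (P.cons (P.lf 77161 0 0) (P.cons (P.lf 348 0 0) (P.cons (P.lf 0 16 0) P.nil)))))) (P.cons (P.cons (P.lf 462572767 0 0) (P.cons (P.lf 0 15731053 0) (P.cons (P.lf 0 579389 0) (P.cons (P.lf 22733 0 0) (P.cons (P.lf 96 0 0) P.nil))))) (P.cons (P.cons (P.lf 0 191340678 0) (P.cons (P.lf 3153593 0 0) (P.cons (P.lf 137749 0 0) (P.cons (P.lf 0 2574 0) P.nil)))) (P.cons (P.cons (P.lf 0 22453355 0) (P.cons (P.lf 816579 0 0) (P.cons (P.lf 31577 0 0) P.nil))) (P.cons (P.cons (P.lf 10337601 0 0) (P.cons (P.lf 0 121395 0) P.nil)) (P.cons (P.cons (P.lf 662256 0 0) P.nil) P.nil)))))) 667888)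
 (EL.cons 9 (TM.mk (P.cons (P.cons (P.lf 1096160428 0 0) (P.cons (P.lf 0 36846202 0) (P.cons (P.lf 0 1371631 0) (P.cons (P.lf 51931 0 0) (P.cons (P.lf 246 0 0) (P.cons (P.lf 0 18 0) P.nil)))))) (P.cons (P.cons (P.lf 695998699 0 0) (P.cons (P.lf 0 20653257 0) (P.cons (P.lf 0 791877 0) (P.cons (P.lf 27003 0 0) (P.cons (P.lf 118 0 0) P.nil))))) (P.cons (P.cons (P.lf 27212857 0 0) (P.cons (P.lf 0 1600119 0) (P.cons (P.lf 0 52090 0) (P.cons (P.lf 2934 0 0) P.nil)))) (P.cons (P.cons (P.lf 0 38930611 0) (P.cons (P.lf 626515 0 0) (P.cons (P.lf 27105 0 0) P.nil))) (P.cons (P.cons (P.lf 0 1854687 0) (P.cons (P.lf 97390 0 0) P.nil)) (P.cons (P.cons (P.lf 781162 0 0) P.nil) P.nil)))))) 154246)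
 (EL.cons 2 (TM.mk (P.cons (P.cons (P.lf 376678659 0 0) (P.cons (P.lf 31059978 0 0) (P.cons (P.lf 0 1432046 0) (P.cons (P.lf 0 27579 0) (P.cons (P.lf 1113 0 0) (P.cons (P.lf 0 0 0) P.nil)))))) (P.cons (P.cons (P.lf 119013789 0 0) (P.cons (P.lf 10284693 0 0) (P.cons (P.lf 0 384198 0) (P.cons (P.lf 0 7526 0) (P.cons (P.lf 275 0 0) P.nil))))) (P.cons (P.cons (P.lf 0 29495221 0) (P.cons (P.lf 0 2700140 0) (P.cons (P.lf 73293 0 0) (P.cons (P.lf 1479 0 0) P.nil)))) (P.cons (P.cons (P.lf 0 7831417 0) (P.cons (P.lf 0 678555 0) (P.cons (P.lf 25014 0 0) P.nil))) (P.cons (P.cons (P.lf 502903 0 0) (P.cons (P.lf 54095 0 0) P.nil)) (P.cons (P.cons (P.lf 203945 0 0) P.nil) P.nil)))))) 55237)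
 (EL.cons 6 (TM.mk (P.cons (P.cons (P.lf 319125228 0 0) (P.cons (P.lf 26314266 0 0) (P.cons (P.lf 0 1213242 0) (P.cons (P.lf 0 23364 0) (P.cons (P.lf 942 0 0) (P.cons (P.lf 0 0 0) P.nil)))))) (P.cons (P.cons (P.lf 178878042 0 0) (P.cons (P.lf 15148968 0 0) (P.cons (P.lf 0 622218 0) (P.cons (P.lf 0 12090 0) (P.cons (P.lf 462 0 0) P.nil))))) (P.cons (P.cons (P.lf 13858662 0 0) (P.cons (P.lf 1013274 0 0) (P.cons (P.lf 0 71442 0) (P.cons (P.lf 0 1338 0) P.nil)))) (P.cons (P.cons (P.lf 0 5426256 0) (P.cons (P.lf 0 513012 0) (P.cons (P.lf 11124 0 0) P.nil))) (P.cons (P.cons (P.lf 0 843522 0) (P.cons (P.lf 0 72192 0) P.nil)) (P.cons (P.cons (P.lf 52638 0 0) P.nil) P.nil)))))) 41862)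
 EL.nil))))))
noncomputable def S169_198_290_308_3 : EL := (EL.cons 0 (TM.mk (P.cons (P.lf 2000791209 0 0) (P.cons (P.lf 0 654467131 0) (P.cons (P.lf 15080835 0 0) (P.cons (P.lf 7271133 0 0) (P.cons (P.lf 199596 0 0) (P.cons (P.lf 0 35412 0) P.nil)))))) 3454)
 (EL.cons 1 (TM.mk (P.cons (P.lf 1695086628 0 0) (P.cons (P.lf 0 139901857 0) (P.cons (P.lf 0 47471786 0) (P.cons (P.lf 0 293435 0) (P.cons (P.lf 328029 0 0) (P.cons (P.lf 15684 0 0) P.nil)))))) 1940)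
 (EL.cons 5 (TM.mk (P.cons (P.lf 1436091214 0 0) (P.cons (P.lf 232699422 0 0) (P.cons (P.lf 0 5362070 0) (P.cons (P.lf 0 2585292 0) (P.cons (P.lf 0 70970 0) (P.cons (P.lf 12590 0 0) P.nil)))))) 1162)
 EL.nil)))
noncomputable def S169_198_290_308_4 : EL := (EL.cons 0 (TM.mk (P.cons (P.cons (P.lf 825302708 0 0) (P.cons (P.lf 0 13870812 0) (P.cons (P.lf 0 632916 0) (P.lf 8912 0 0)))) (P.cons (P.cons (P.lf 0 7950121 0) (P.cons (P.lf 1165830 0 0) (P.cons (P.lf 53194 0 0) (P.lf 0 748 0)))) (P.cons (P.cons (P.lf 0 110829798 0) (P.cons (P.lf 939352 0 0) (P.cons (P.lf 42860 0 0) (P.lf 0 602 0)))) (P.cons (P.cons (P.lf 10523480 0 0) (P.cons (P.lf 0 9119 0) (P.cons (P.lf 0 416 0) P.nil))) (P.cons (P.cons (P.lf 2536876 0 0) (P.cons (P.lf 0 26085 0) P.nil)) (P.cons (P.cons (P.lf 0 151300 0) P.nil) P.nil)))))) 60494)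
 (EL.cons 1 (TM.mk (P.cons (P.cons (P.lf 699203184 0 0) (P.cons (P.lf 0 11751465 0) (P.cons (P.lf 0 536210 0) (P.lf 7550 0 0)))) (P.cons (P.cons (P.lf 164269001 0 0) (P.cons (P.lf 0 1886356 0) (P.cons (P.lf 0 86071 0) (P.lf 1209 0 0)))) (P.cons (P.cons (P.lf 0 64458686 0) (P.cons (P.lf 514953 0 0) (P.cons (P.lf 23495 0 0) (P.lf 0 330 0)))) (P.cons (P.cons (P.lf 0 8131115 0) (P.cons (P.lf 126330 0 0) (P.cons (P.lf 5761 0 0) P.nil))) (P.cons (P.cons (P.lf 1338909 0 0) (P.cons (P.lf 0 723 0) P.nil)) (P.cons (P.cons (P.lf 195654 0 0) P.nil) P.nil)))))) 36142)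
 (EL.cons 5 (TM.mk (P.cons (P.cons (P.lf 592370640 0 0) (P.cons (P.lf 0 9955936 0) (P.cons (P.lf 0 454282 0) (P.lf 6396 0 0)))) (P.cons (P.cons (P.lf 284046368 0 0) (P.cons (P.lf 0 4033064 0) (P.cons (P.lf 0 184024 0) (P.lf 2590 0 0)))) (P.cons (P.cons (P.lf 5761992 0 0) (P.cons (P.lf 0 397194 0) (P.cons (P.lf 0 18122 0) (P.lf 254 0 0)))) (P.cons (P.cons (P.lf 0 8790620 0) (P.cons (P.lf 54158 0 0) (P.cons (P.lf 2470 0 0) P.nil))) (P.cons (P.cons (P.lf 0 687420 0) (P.cons (P.lf 13042 0 0) P.nil)) (P.cons (P.cons (P.lf 109538 0 0) P.nil) P.nil)))))) 25316)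
 EL.nil)))
noncomputable def S169_198_290_308_5 : EL := (EL.cons 0 (TM.mk (P.cons (P.cons (P.lf 340427605 0 0) (P.cons (P.lf 0 11443090 0) (P.cons (P.lf 0 425977 0) (P.cons (P.lf 16127 0 0) (P.cons (P.lf 75 0 0) (P.cons (P.lf 0 5 0) P.nil)))))) (P.cons (P.cons (P.lf 104796622 0 0) (P.cons (P.lf 0 2671068 0) (P.cons (P.lf 0 106588 0) (P.cons (P.lf 3109 0 0) (P.cons (P.lf 10 0 0) P.nil))))) (P.cons (P.cons (P.lf 0 59686911 0) (P.cons (P.lf 1514903 0 0) (P.cons (P.lf 61055 0 0) (P.cons (P.lf 0 1710 0) P.nil)))) (P.cons (P.cons (P.lf 0 11988508 0) (P.cons (P.lf 267191 0 0) (P.cons (P.lf 10306 0 0) P.nil))) (P.cons (P.cons (P.lf 4262018 0 0) (P.cons (P.lf 0 61595 0) P.nil)) (P.cons (P.cons (P.lf 386131 0 0) P.nil) P.nil)))))) 223700)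
 (EL.cons 1 (TM.mk (P.cons (P.cons (P.lf 288413041 0 0) (P.cons (P.lf 0 9694680 0) (P.cons (P.lf 0 360890 0) (P.cons (P.lf 13663 0 0) (P.cons (P.lf 63 0 0) (P.cons (P.lf 0 3 0) P.nil)))))) (P.cons (P.cons (P.lf 159321849 0 0) (P.cons (P.lf 0 4633981 0) (P.cons (P.lf 0 178565 0) (P.cons (P.lf 5975 0 0) (P.cons (P.lf 24 0 0) P.nil))))) (P.cons (P.cons (P.lf 0 16031173 0) (P.cons (P.lf 298991 0 0) (P.cons (P.lf 13595 0 0) (P.cons (P.lf 0 195 0) P.nil)))) (P.cons (P.cons (P.lf 0 16012513 0) (P.cons (P.lf 353454 0 0) (P.cons (P.lf 14160 0 0) P.nil))) (P.cons (P.cons (P.lf 181003 0 0) (P.cons (P.lf 22873 0 0) P.nil)) (P.cons (P.cons (P.lf 569538 0 0) P.nil) P.nil)))))) 159213)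
 (EL.cons 5 (TM.mk (P.cons (P.cons (P.lf 244345882 0 0) (P.cons (P.lf 0 8213412 0) (P.cons (P.lf 0 305750 0) (P.cons (P.lf 11574 0 0) (P.cons (P.lf 54 0 0) (P.cons (P.lf 0 2 0) P.nil)))))) (P.cons (P.cons (P.lf 194738544 0 0) (P.cons (P.lf 0 5934704 0) (P.cons (P.lf 0 226060 0) (P.cons (P.lf 7894 0 0) (P.cons (P.lf 34 0 0) P.nil))))) (P.cons (P.cons (P.lf 30292964 0 0) (P.cons (P.lf 0 1072004 0) (P.cons (P.lf 0 39072 0) (P.cons (P.lf 1584 0 0) P.nil)))) (P.cons (P.cons (P.lf 0 8714288 0) (P.cons (P.lf 113836 0 0) (P.cons (P.lf 5368 0 0) P.nil))) (P.cons (P.cons (P.lf 0 2133612 0) (P.cons (P.lf 54362 0 0) P.nil)) (P.cons (P.cons (P.lf 123094 0 0) P.nil) P.nil)))))) 101358)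
 EL.nil)))
noncomputable def S169_198_290_308_6 : EL := (EL.cons 12 (TM.mk (P.lf 8589934592 0 0) 0)
 (EL.cons 3 (TM.mk (P.cons (P.lf 0 2072840178 0) (P.cons (P.lf 339017325 0 0) (P.cons (P.lf 19911543 0 0) (P.cons (P.lf 0 509910 0) (P.cons (P.lf 0 91155 0) (P.cons (P.lf 0 1462 0) P.nil)))))) 487)
 (EL.cons 7 (TM.mk (P.cons (P.lf 0 1756127103 0) (P.cons (P.lf 0 142278485 0) (P.cons (P.lf 9042093 0 0) (P.cons (P.lf 848140 0 0) (P.cons (P.lf 0 2043 0) (P.cons (P.lf 0 3166 0) P.nil)))))) 195)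
 EL.nil)))
noncomputable def S169_198_290_308_7 : EL := (EL.cons 12 (TM.mk (P.cons (P.cons (P.lf 3543246420 0 0) (P.cons (P.lf 0 59551128 0) (P.cons (P.lf 0 2717280 0) (P.lf 38264 0 0)))) (P.cons (P.cons (P.lf 1124878638 0 0) (P.cons (P.lf 0 14474192 0) (P.cons (P.lf 0 660448 0) (P.lf 9296 0 0)))) (P.cons (P.cons (P.lf 0 134576638 0) (P.cons (P.lf 0 252808 0) (P.cons (P.lf 0 11536 0) (P.lf 160 0 0)))) (P.cons (P.cons (P.lf 0 20195760 0) (P.cons (P.lf 203664 0 0) (P.cons (P.lf 9288 0 0) P.nil))) (P.cons (P.cons (P.lf 858322 0 0) (P.cons (P.lf 15072 0 0) P.nil)) (P.cons (P.cons (P.lf 222972 0 0) P.nil) P.nil)))))) 27610)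
 (EL.cons 3 (TM.mk (P.cons (P.cons (P.lf 2495390949 0 0) (P.cons (P.lf 0 28740606 0) (P.cons (P.lf 0 1311414 0) (P.lf 18466 0 0)))) (P.cons (P.cons (P.lf 0 783938948 0) (P.cons (P.lf 0 2284956 0) (P.cons (P.lf 0 104258 0) (P.lf 1464 0 0)))) (P.cons (P.cons (P.lf 0 146037437 0) (P.cons (P.lf 1296570 0 0) (P.cons (P.lf 59160 0 0) (P.lf 0 832 0)))) (P.cons (P.cons (P.lf 7715249 0 0) (P.cons (P.lf 178278 0 0) (P.cons (P.lf 8130 0 0) P.nil))) (P.cons (P.cons (P.lf 3160372 0 0) (P.cons (P.lf 0 10610 0) P.nil)) (P.cons (P.cons (P.lf 85929 0 0) P.nil) P.nil)))))) 103040)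
 (EL.cons 7 (TM.mk (P.cons (P.cons (P.lf 0 2130479982 0) (P.cons (P.lf 30267392 0 0) (P.cons (P.lf 1381087 0 0) (P.lf 0 19456 0)))) (P.cons (P.cons (P.lf 329002790 0 0) (P.cons (P.lf 958953 0 0) (P.cons (P.lf 43757 0 0) (P.lf 0 617 0)))) (P.cons (P.cons (P.lf 21056687 0 0) (P.cons (P.lf 0 661405 0) (P.cons (P.lf 0 30177 0) (P.lf 421 0 0)))) (P.cons (P.cons (P.lf 0 11546645 0) (P.cons (P.lf 18808 0 0) (P.cons (P.lf 857 0 0) P.nil))) (P.cons (P.cons (P.lf 0 407752 0) (P.cons (P.lf 13573 0 0) P.nil)) (P.cons (P.cons (P.lf 159805 0 0) P.nil) P.nil)))))) 62325)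
 (EL.cons 10 (TM.mk (P.cons (P.cons (P.lf 0 946070646 0) (P.cons (P.lf 0 93911175 0) (P.cons (P.lf 1292862 0 0) (P.cons (P.lf 29202 0 0) (P.lf 0 306 0))))) (P.cons (P.cons (P.lf 0 153298125 0) (P.cons (P.lf 0 15217053 0) (P.cons (P.lf 209490 0 0) (P.cons (P.lf 4731 0 0) (P.lf 0 48 0))))) (P.cons (P.cons (P.lf 3532431 0 0) (P.cons (P.lf 350643 0 0) (P.cons (P.lf 0 4827 0) (P.cons (P.lf 0 108 0) P.nil)))) (P.cons (P.cons (P.lf 1703142 0 0) (P.cons (P.lf 169059 0 0) (P.cons (P.lf 0 2325 0) P.nil))) (P.cons (P.cons (P.lf 46752 0 0) (P.cons (P.lf 4638 0 0) P.nil)) (P.cons (P.cons (P.lf 0 8292 0) P.nil) P.nil)))))) 1902)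
 EL.nil))))
noncomputable def S169_198_290_308_8 : EL := (EL.cons 12 (TM.mk (P.cons (P.cons (P.lf 1461547238 0 0) (P.cons (P.lf 0 49128270 0) (P.cons (P.lf 0 1828842 0) (P.cons (P.lf 69242 0 0) (P.cons (P.lf 328 0 0) (P.cons (P.lf 0 24 0) P.nil)))))) (P.cons (P.cons (P.lf 927998266 0 0) (P.cons (P.lf 0 27537676 0) (P.cons (P.lf 0 1055836 0) (P.cons (P.lf 36004 0 0) (P.cons (P.lf 158 0 0) P.nil))))) (P.cons (P.cons (P.lf 36283810 0 0) (P.cons (P.lf 0 2133492 0) (P.cons (P.lf 0 69454 0) (P.cons (P.lf 3912 0 0) P.nil)))) (P.cons (P.cons (P.lf 0 51907482 0) (P.cons (P.lf 835354 0 0) (P.cons (P.lf 36140 0 0) P.nil))) (P.cons (P.cons (P.lf 0 2472916 0) (P.cons (P.lf 129854 0 0) P.nil)) (P.cons (P.cons (P.lf 1041550 0 0) P.nil) P.nil)))))) 205632)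
 (EL.cons 3 (TM.mk (P.cons (P.cons (P.lf 2411324984 0 0) (P.cons (P.lf 0 70164888 0) (P.cons (P.lf 0 2703451 0) (P.cons (P.lf 90536 0 0) (P.cons (P.lf 396 0 0) (P.cons (P.lf 0 25 0) P.nil)))))) (P.cons (P.cons (P.lf 173080299 0 0) (P.cons (P.lf 0 11658552 0) (P.cons (P.lf 0 371291 0) (P.cons (P.lf 22143 0 0) (P.cons (P.lf 126 0 0) P.nil))))) (P.cons (P.cons (P.lf 0 435242763 0) (P.cons (P.lf 6577485 0 0) (P.cons (P.lf 289391 0 0) (P.cons (P.lf 0 5202 0) P.nil)))) (P.cons (P.cons (P.lf 0 35075585 0) (P.cons (P.lf 1589743 0 0) (P.cons (P.lf 62442 0 0) P.nil))) (P.cons (P.cons (P.lf 14827070 0 0) (P.cons (P.lf 0 86169 0) P.nil)) (P.cons (P.cons (P.lf 1797948 0 0) P.nil) P.nil)))))) 653531)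
 (EL.cons 7 (TM.mk (P.cons (P.cons (P.lf 0 1458796716 0) (P.cons (P.lf 44465890 0 0) (P.cons (P.lf 1693684 0 0) (P.cons (P.lf 0 59173 0) (P.cons (P.lf 0 265 0) (P.cons (P.lf 16 0 0) P.nil)))))) (P.cons (P.cons (P.lf 0 72638193 0) (P.cons (P.lf 4892860 0 0) (P.cons (P.lf 155829 0 0) (P.cons (P.lf 0 9293 0) (P.cons (P.lf 0 49 0) P.nil))))) (P.cons (P.cons (P.lf 191544865 0 0) (P.cons (P.lf 0 3358748 0) (P.cons (P.lf 0 140506 0) (P.cons (P.lf 3315 0 0) P.nil)))) (P.cons (P.cons (P.lf 0 15433878 0) (P.cons (P.lf 0 192049 0) (P.cons (P.lf 0 5610 0) P.nil))) (P.cons (P.cons (P.lf 0 7487902 0) (P.cons (P.lf 135174 0 0) P.nil)) (P.cons (P.cons (P.lf 466761 0 0) P.nil) P.nil)))))) 408304)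
 (EL.cons 10 (TM.mk (P.cons (P.cons (P.lf 0 780485898 0) (P.cons (P.lf 0 64356918 0) (P.cons (P.lf 2967234 0 0) (P.cons (P.lf 57150 0 0) (P.cons (P.lf 0 2310 0) (P.cons (P.lf 0 0 0) P.nil)))))) (P.cons (P.cons (P.lf 0 374249106 0) (P.cons (P.lf 0 31835808 0) (P.cons (P.lf 1281372 0 0) (P.cons (P.lf 24942 0 0) (P.cons (P.lf 0 948 0) P.nil))))) (P.cons (P.cons (P.lf 0 7591788 0) (P.cons (P.lf 0 230262 0) (P.cons (P.lf 86196 0 0) (P.cons (P.lf 1554 0 0) P.nil)))) (P.cons (P.cons (P.lf 11582196 0 0) (P.cons (P.lf 1078338 0 0) (P.cons (P.lf 0 26160 0) P.nil))) (P.cons (P.cons (P.lf 905718 0 0) (P.cons (P.lf 72714 0 0) P.nil)) (P.cons (P.cons (P.lf 0 144318 0) P.nil) P.nil)))))) 56598)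
 EL.nil))))
noncomputable def S169_198_290_308_9 : EL := (EL.cons 3 (TM.mk (P.cons (P.lf 0 2072840178 0) (P.cons (P.lf 339017325 0 0) (P.cons (P.lf 19911543 0 0) (P.cons (P.lf 0 509910 0) (P.cons (P.lf 0 91155 0) (P.cons (P.lf 0 1462 0) P.nil)))))) 487)
 (EL.cons 7 (TM.mk (P.cons (P.lf 0 1756127103 0) (P.cons (P.lf 0 142278485 0) (P.cons (P.lf 9042093 0 0) (P.cons (P.lf 848140 0 0) (P.cons (P.lf 0 2043 0) (P.cons (P.lf 0 3166 0) P.nil)))))) 195)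
 EL.nil))
noncomputable def S169_198_290_308_10 : EL := (EL.cons 3 (TM.mk (P.cons (P.cons (P.lf 0 855022056 0) (P.cons (P.lf 14370303 0 0) (P.cons (P.lf 655707 0 0) (P.lf 0 9233 0)))) (P.cons (P.cons (P.lf 0 131604227 0) (P.cons (P.lf 1142478 0 0) (P.cons (P.lf 52129 0 0) (P.lf 0 732 0)))) (P.cons (P.cons (P.lf 85083385 0 0) (P.cons (P.lf 0 648285 0) (P.cons (P.lf 0 29580 0) (P.lf 416 0 0)))) (P.cons (P.cons (P.lf 1959281 0 0) (P.cons (P.lf 0 89139 0) (P.cons (P.lf 0 4065 0) P.nil))) (P.cons (P.cons (P.lf 0 1420508 0) (P.cons (P.lf 5305 0 0) P.nil)) (P.cons (P.cons (P.lf 0 71295 0) P.nil) P.nil)))))) 24394)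
 (EL.cons 7 (TM.mk (P.cons (P.cons (P.lf 0 724381659 0) (P.cons (P.lf 12174638 0 0) (P.cons (P.lf 555520 0 0) (P.lf 0 7822 0)))) (P.cons (P.cons (P.lf 0 288658495 0) (P.cons (P.lf 3945474 0 0) (P.cons (P.lf 180029 0 0) (P.lf 0 2534 0)))) (P.cons (P.cons (P.lf 12610808 0 0) (P.cons (P.lf 228740 0 0) (P.cons (P.lf 10437 0 0) (P.lf 0 146 0)))) (P.cons (P.cons (P.lf 7891807 0 0) (P.cons (P.lf 0 58565 0) (P.cons (P.lf 0 2671 0) P.nil))) (P.cons (P.cons (P.lf 127598 0 0) (P.cons (P.lf 0 8135 0) P.nil)) (P.cons (P.cons (P.lf 0 95921 0) P.nil) P.nil)))))) 14525)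
 EL.nil))
noncomputable def S169_198_290_308_11 : EL := (EL.cons 3 (TM.mk (P.cons (P.cons (P.lf 0 352686484 0) (P.cons (P.lf 11855160 0 0) (P.cons (P.lf 441317 0 0) (P.cons (P.lf 0 16708 0) (P.cons (P.lf 0 78 0) (P.cons (P.lf 5 0 0) P.nil)))))) (P.cons (P.cons (P.lf 0 166252983 0) (P.cons (P.lf 4706190 0 0) (P.cons (P.lf 182605 0 0) (P.cons (P.lf 0 5955 0) (P.cons (P.lf 0 24 0) P.nil))))) (P.cons (P.cons (P.lf 31257351 0 0) (P.cons (P.lf 0 685869 0) (P.cons (P.lf 0 29149 0) (P.cons (P.lf 636 0 0) P.nil)))) (P.cons (P.cons (P.lf 16022167 0 0) (P.cons (P.lf 0 346697 0) (P.cons (P.lf 0 13800 0) P.nil))) (P.cons (P.cons (P.lf 0 1438372 0) (P.cons (P.lf 0 1155 0) P.nil)) (P.cons (P.cons (P.lf 0 481506 0) P.nil) P.nil)))))) 122023)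
 (EL.cons 7 (TM.mk (P.cons (P.cons (P.lf 0 298798866 0) (P.cons (P.lf 10043788 0 0) (P.cons (P.lf 373888 0 0) (P.cons (P.lf 0 14155 0) (P.cons (P.lf 0 67 0) (P.cons (P.lf 4 0 0) P.nil)))))) (P.cons (P.cons (P.lf 0 213928245 0) (P.cons (P.lf 6443536 0 0) (P.cons (P.lf 246147 0 0) (P.cons (P.lf 0 8507 0) (P.cons (P.lf 0 37 0) P.nil))))) (P.cons (P.cons (P.lf 0 21250187 0) (P.cons (P.lf 840574 0 0) (P.cons (P.lf 29762 0 0) (P.cons (P.lf 0 1323 0) P.nil)))) (P.cons (P.cons (P.lf 11132142 0 0) (P.cons (P.lf 0 169279 0) (P.cons (P.lf 0 7530 0) P.nil))) (P.cons (P.cons (P.lf 1494800 0 0) (P.cons (P.lf 0 45336 0) P.nil)) (P.cons (P.cons (P.lf 0 223791 0) P.nil) P.nil)))))) 77040)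
 EL.nil))
noncomputable def S169_198_290_308_12 : EL := (EL.cons 4 (TM.mk (P.cons (P.lf 2072840178 0 0) (P.cons (P.lf 0 339017325 0) (P.cons (P.lf 0 19911543 0) (P.cons (P.lf 509910 0 0) (P.cons (P.lf 91155 0 0) (P.cons (P.lf 1462 0 0) P.nil)))))) 487)
 (EL.cons 8 (TM.mk (P.cons (P.lf 1756127103 0 0) (P.cons (P.lf 142278485 0 0) (P.cons (P.lf 0 9042093 0) (P.cons (P.lf 0 848140 0) (P.cons (P.lf 2043 0 0) (P.cons (P.lf 3166 0 0) P.nil)))))) 195)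
 EL.nil))
noncomputable def S169_198_290_308_13 : EL := (EL.cons 4 (TM.mk (P.cons (P.cons (P.lf 855022056 0 0) (P.cons (P.lf 0 14370303 0) (P.cons (P.lf 0 655707 0) (P.lf 9233 0 0)))) (P.cons (P.cons (P.lf 131604227 0 0) (P.cons (P.lf 0 1142478 0) (P.cons (P.lf 0 52129 0) (P.lf 732 0 0)))) (P.cons (P.cons (P.lf 0 85083385 0) (P.cons (P.lf 648285 0 0) (P.cons (P.lf 29580 0 0) (P.lf 0 416 0)))) (P.cons (P.cons (P.lf 0 1959281 0) (P.cons (P.lf 89139 0 0) (P.cons (P.lf 4065 0 0) P.nil))) (P.cons (P.cons (P.lf 1420508 0 0) (P.cons (P.lf 0 5305 0) P.nil)) (P.cons (P.cons (P.lf 71295 0 0) P.nil) P.nil)))))) 24394)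
 (EL.cons 8 (TM.mk (P.cons (P.cons (P.lf 724381659 0 0) (P.cons (P.lf 0 12174638 0) (P.cons (P.lf 0 555520 0) (P.lf 7822 0 0)))) (P.cons (P.cons (P.lf 288658495 0 0) (P.cons (P.lf 0 3945474 0) (P.cons (P.lf 0 180029 0) (P.lf 2534 0 0)))) (P.cons (P.cons (P.lf 0 12610808 0) (P.cons (P.lf 0 228740 0) (P.cons (P.lf 0 10437 0) (P.lf 146 0 0)))) (P.cons (P.cons (P.lf 0 7891807 0) (P.cons (P.lf 58565 0 0) (P.cons (P.lf 2671 0 0) P.nil))) (P.cons (P.cons (P.lf 0 127598 0) (P.cons (P.lf 8135 0 0) P.nil)) (P.cons (P.cons (P.lf 95921 0 0) P.nil) P.nil)))))) 14525)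
 EL.nil))
noncomputable def S169_198_290_308_14 : EL := (EL.cons 4 (TM.mk (P.cons (P.cons (P.lf 352686484 0 0) (P.cons (P.lf 0 11855160 0) (P.cons (P.lf 0 441317 0) (P.cons (P.lf 16708 0 0) (P.cons (P.lf 78 0 0) (P.cons (P.lf 0 5 0) P.nil)))))) (P.cons (P.cons (P.lf 166252983 0 0) (P.cons (P.lf 0 4706190 0) (P.cons (P.lf 0 182605 0) (P.cons (P.lf 5955 0 0) (P.cons (P.lf 24 0 0) P.nil))))) (P.cons (P.cons (P.lf 0 31257351 0) (P.cons (P.lf 685869 0 0) (P.cons (P.lf 29149 0 0) (P.cons (P.lf 0 636 0) P.nil)))) (P.cons (P.cons (P.lf 0 16022167 0) (P.cons (P.lf 346697 0 0) (P.cons (P.lf 13800 0 0) P.nil))) (P.cons (P.cons (P.lf 1438372 0 0) (P.cons (P.lf 1155 0 0) P.nil)) (P.cons (P.cons (P.lf 481506 0 0) P.nil) P.nil)))))) 122023)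
 (EL.cons 8 (TM.mk (P.cons (P.cons (P.lf 298798866 0 0) (P.cons (P.lf 0 10043788 0) (P.cons (P.lf 0 373888 0) (P.cons (P.lf 14155 0 0) (P.cons (P.lf 67 0 0) (P.cons (P.lf 0 4 0) P.nil)))))) (P.cons (P.cons (P.lf 213928245 0 0) (P.cons (P.lf 0 6443536 0) (P.cons (P.lf 0 246147 0) (P.cons (P.lf 8507 0 0) (P.cons (P.lf 37 0 0) P.nil))))) (P.cons (P.cons (P.lf 21250187 0 0) (P.cons (P.lf 0 840574 0) (P.cons (P.lf 0 29762 0) (P.cons (P.lf 1323 0 0) P.nil)))) (P.cons (P.cons (P.lf 0 11132142 0) (P.cons (P.lf 169279 0 0) (P.cons (P.lf 7530 0 0) P.nil))) (P.cons (P.cons (P.lf 0 1494800 0) (P.cons (P.lf 45336 0 0) P.nil)) (P.cons (P.cons (P.lf 223791 0 0) P.nil) P.nil)))))) 77040)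
 EL.nil))
noncomputable def S169_198_290_308_15 : EL := (EL.cons 4 (TM.mk (P.cons (P.lf 0 1067088645 0) (P.cons (P.lf 349049136 0 0) (P.cons (P.lf 0 8043112 0) (P.cons (P.lf 0 3877937 0) (P.cons (P.lf 0 106451 0) (P.cons (P.lf 18886 0 0) P.nil)))))) 1845)
 (EL.cons 8 (TM.mk (P.cons (P.lf 0 904046202 0) (P.cons (P.lf 74614324 0 0) (P.cons (P.lf 25318286 0 0) (P.cons (P.lf 156499 0 0) (P.cons (P.lf 0 174949 0) (P.cons (P.lf 0 8365 0) P.nil)))))) 1031)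
 EL.nil))
noncomputable def S169_198_290_308_16 : EL := (EL.cons 4 (TM.mk (P.cons (P.cons (P.lf 0 440161444 0) (P.cons (P.lf 7397766 0 0) (P.cons (P.lf 337555 0 0) (P.lf 0 4753 0)))) (P.cons (P.cons (P.lf 4240065 0 0) (P.cons (P.lf 0 621776 0) (P.cons (P.lf 0 28370 0) (P.lf 399 0 0)))) (P.cons (P.cons (P.lf 59109225 0 0) (P.cons (P.lf 0 500987 0) (P.cons (P.lf 0 22859 0) (P.lf 321 0 0)))) (P.cons (P.cons (P.lf 0 5612522 0) (P.cons (P.lf 4863 0 0) (P.cons (P.lf 222 0 0) P.nil))) (P.cons (P.cons (P.lf 0 1353000 0) (P.cons (P.lf 13912 0 0) P.nil)) (P.cons (P.cons (P.lf 80693 0 0) P.nil) P.nil)))))) 32272)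
 (EL.cons 8 (TM.mk (P.cons (P.cons (P.lf 0 372908365 0) (P.cons (P.lf 6267448 0 0) (P.cons (P.lf 285979 0 0) (P.lf 0 4027 0)))) (P.cons (P.cons (P.lf 0 87610134 0) (P.cons (P.lf 1006057 0 0) (P.cons (P.lf 45905 0 0) (P.lf 0 645 0)))) (P.cons (P.cons (P.lf 34377966 0 0) (P.cons (P.lf 0 274642 0) (P.cons (P.lf 0 12531 0) (P.lf 176 0 0)))) (P.cons (P.cons (P.lf 4336595 0 0) (P.cons (P.lf 0 67376 0) (P.cons (P.lf 0 3073 0) P.nil))) (P.cons (P.cons (P.lf 0 714085 0) (P.cons (P.lf 386 0 0) P.nil)) (P.cons (P.cons (P.lf 0 104349 0) P.nil) P.nil)))))) 19266)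
 EL.nil))
noncomputable def S169_198_290_308_17 : EL := (EL.cons 4 (TM.mk (P.cons (P.cons (P.lf 0 181561389 0) (P.cons (P.lf 6102981 0 0) (P.cons (P.lf 227188 0 0) (P.cons (P.lf 0 8601 0) (P.cons (P.lf 0 40 0) (P.cons (P.lf 2 0 0) P.nil)))))) (P.cons (P.cons (P.lf 0 55891531 0) (P.cons (P.lf 1424569 0 0) (P.cons (P.lf 56847 0 0) (P.cons (P.lf 0 1658 0) (P.cons (P.lf 0 5 0) P.nil))))) (P.cons (P.cons (P.lf 31833019 0 0) (P.cons (P.lf 0 807948 0) (P.cons (P.lf 0 32563 0) (P.cons (P.lf 912 0 0) P.nil)))) (P.cons (P.cons (P.lf 6393870 0 0) (P.cons (P.lf 0 142501 0) (P.cons (P.lf 0 5496 0) P.nil))) (P.cons (P.cons (P.lf 0 2273076 0) (P.cons (P.lf 32850 0 0) P.nil)) (P.cons (P.cons (P.lf 0 205936 0) P.nil) P.nil)))))) 119317)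
 (EL.cons 8 (TM.mk (P.cons (P.cons (P.lf 0 153820289 0) (P.cons (P.lf 5170496 0 0) (P.cons (P.lf 192475 0 0) (P.cons (P.lf 0 7287 0) (P.cons (P.lf 0 34 0) (P.cons (P.lf 2 0 0) P.nil)))))) (P.cons (P.cons (P.lf 0 84971653 0) (P.cons (P.lf 2471457 0 0) (P.cons (P.lf 95235 0 0) (P.cons (P.lf 0 3187 0) (P.cons (P.lf 0 13 0) P.nil))))) (P.cons (P.cons (P.lf 8549959 0 0) (P.cons (P.lf 0 159462 0) (P.cons (P.lf 0 7251 0) (P.cons (P.lf 104 0 0) P.nil)))) (P.cons (P.cons (P.lf 8540007 0 0) (P.cons (P.lf 0 188509 0) (P.cons (P.lf 0 7552 0) P.nil))) (P.cons (P.cons (P.lf 0 96535 0) (P.cons (P.lf 0 12199 0) P.nil)) (P.cons (P.cons (P.lf 0 303754 0) P.nil) P.nil)))))) 84902)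
 EL.nil))
noncomputable def S169_198_290_308_18 : EL := (EL.cons 4 (TM.mk (P.cons (P.lf 549332354 0 0) (P.cons (P.lf 0 269533349 0) (P.cons (P.lf 28252205 0 0) (P.cons (P.lf 3180359 0 0) (P.cons (P.lf 0 331524 0) (P.cons (P.lf 0 44357 0) P.nil)))))) 4415)
 (EL.cons 8 (TM.mk (P.cons (P.lf 465398850 0 0) (P.cons (P.lf 0 114528063 0) (P.cons (P.lf 0 11222106 0) (P.cons (P.lf 2534590 0 0) (P.cons (P.lf 239457 0 0) (P.cons (P.lf 0 14216 0) P.nil)))))) 3029)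
 EL.nil))
noncomputable def S169_198_290_308_19 : EL := (EL.cons 4 (TM.mk (P.cons (P.cons (P.lf 226593098 0 0) (P.cons (P.lf 0 3808335 0) (P.cons (P.lf 0 173771 0) (P.lf 2446 0 0)))) (P.cons (P.cons (P.lf 0 39242538 0) (P.cons (P.lf 942948 0 0) (P.cons (P.lf 43025 0 0) (P.lf 0 605 0)))) (P.cons (P.cons (P.lf 0 32248799 0) (P.cons (P.lf 242137 0 0) (P.cons (P.lf 11048 0 0) (P.lf 0 154 0)))) (P.cons (P.cons (P.lf 7942761 0 0) (P.cons (P.lf 0 48696 0) (P.cons (P.lf 0 2221 0) P.nil))) (P.cons (P.cons (P.lf 525695 0 0) (P.cons (P.lf 0 9318 0) P.nil)) (P.cons (P.cons (P.lf 0 190633 0) P.nil) P.nil)))))) 39490)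
 (EL.cons 8 (TM.mk (P.cons (P.cons (P.lf 191971521 0 0) (P.cons (P.lf 0 3226453 0) (P.cons (P.lf 0 147220 0) (P.lf 2073 0 0)))) (P.cons (P.cons (P.lf 13703954 0 0) (P.cons (P.lf 9778 0 0) (P.cons (P.lf 445 0 0) (P.lf 0 6 0)))) (P.cons (P.cons (P.lf 0 26918094 0) (P.cons (P.lf 257083 0 0) (P.cons (P.lf 11730 0 0) (P.lf 0 165 0)))) (P.cons (P.cons (P.lf 276007 0 0) (P.cons (P.lf 15743 0 0) (P.cons (P.lf 718 0 0) P.nil))) (P.cons (P.cons (P.lf 922269 0 0) (P.cons (P.lf 0 7499 0) P.nil)) (P.cons (P.cons (P.lf 12806 0 0) P.nil) P.nil)))))) 23709)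
 EL.nil))
noncomputable def S169_198_290_308_20 : EL := (EL.cons 4 (TM.mk (P.cons (P.cons (P.lf 93466972 0 0) (P.cons (P.lf 0 3141786 0) (P.cons (P.lf 0 116955 0) (P.cons (P.lf 4427 0 0) (P.cons (P.lf 20 0 0) (P.cons (P.lf 0 0 0) P.nil)))))) (P.cons (P.cons (P.lf 13485987 0 0) (P.cons (P.lf 0 219515 0) (P.cons (P.lf 0 10136 0) (P.cons (P.lf 129 0 0) (P.cons (P.lf 0 0 0) P.nil))))) (P.cons (P.cons (P.lf 0 21991165 0) (P.cons (P.lf 566051 0 0) (P.cons (P.lf 22672 0 0) (P.cons (P.lf 0 651 0) P.nil)))) (P.cons (P.cons (P.lf 0 864722 0) (P.cons (P.lf 11604 0 0) (P.cons (P.lf 340 0 0) P.nil))) (P.cons (P.cons (P.lf 1877112 0 0) (P.cons (P.lf 0 33223 0) P.nil)) (P.cons (P.cons (P.lf 0 56449 0) P.nil) P.nil)))))) 107627)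
 (EL.cons 8 (TM.mk (P.cons (P.cons (P.lf 79185981 0 0) (P.cons (P.lf 0 2661747 0) (P.cons (P.lf 0 99085 0) (P.cons (P.lf 3751 0 0) (P.cons (P.lf 17 0 0) (P.cons (P.lf 0 1 0) P.nil)))))) (P.cons (P.cons (P.lf 30791986 0 0) (P.cons (P.lf 0 836960 0) (P.cons (P.lf 0 32821 0) (P.cons (P.lf 1027 0 0) (P.cons (P.lf 3 0 0) P.nil))))) (P.cons (P.cons (P.lf 0 12316396 0) (P.cons (P.lf 315745 0 0) (P.cons (P.lf 12703 0 0) (P.cons (P.lf 0 358 0) P.nil)))) (P.cons (P.cons (P.lf 0 4077198 0) (P.cons (P.lf 95184 0 0) (P.cons (P.lf 3723 0 0) P.nil))) (P.cons (P.cons (P.lf 825252 0 0) (P.cons (P.lf 0 10809 0) P.nil)) (P.cons (P.cons (P.lf 191371 0 0) P.nil) P.nil)))))) 73493)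
 EL.nil))
noncomputable def S169_198_290_308_21 : EL := (EL.cons 4 (TM.mk (P.cons (P.cons (P.lf 0 3350413005 0) (P.cons (P.lf 43110909 0 0) (P.cons (P.lf 1967121 0 0) (P.lf 0 27699 0)))) (P.cons (P.cons (P.lf 652334721 0 0) (P.cons (P.lf 3427434 0 0) (P.cons (P.lf 156387 0 0) (P.lf 0 2196 0)))) (P.cons (P.cons (P.lf 231120822 0 0) (P.cons (P.lf 0 1944855 0) (P.cons (P.lf 0 88740 0) (P.lf 1248 0 0)))) (P.cons (P.cons (P.lf 0 5755968 0) (P.cons (P.lf 0 267417 0) (P.cons (P.lf 0 12195 0) P.nil))) (P.cons (P.cons (P.lf 0 4580880 0) (P.cons (P.lf 15915 0 0) P.nil)) (P.cons (P.cons (P.lf 0 157224 0) P.nil) P.nil)))))) 78627)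
 (EL.cons 8 (TM.mk (P.cons (P.cons (P.lf 1406098323 0 0) (P.cons (P.lf 0 18092754 0) (P.cons (P.lf 0 825567 0) (P.lf 11634 0 0)))) (P.cons (P.cons (P.lf 0 617661285 0) (P.cons (P.lf 2986521 0 0) (P.cons (P.lf 136272 0 0) (P.lf 0 1917 0)))) (P.cons (P.cons (P.lf 0 8445879 0) (P.cons (P.lf 890145 0 0) (P.cons (P.lf 40614 0 0) (P.lf 0 567 0)))) (P.cons (P.cons (P.lf 19438452 0 0) (P.cons (P.lf 0 77373 0) (P.cons (P.lf 0 3528 0) P.nil))) (P.cons (P.cons (P.lf 535350 0 0) (P.cons (P.lf 0 21708 0) P.nil)) (P.cons (P.cons (P.lf 0 255726 0) P.nil) P.nil)))))) 47781)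
 (EL.cons 11 (TM.mk (P.cons (P.cons (P.lf 946070646 0 0) (P.cons (P.lf 93911175 0 0) (P.cons (P.lf 0 1292862 0) (P.cons (P.lf 0 29202 0) (P.lf 306 0 0))))) (P.cons (P.cons (P.lf 153298125 0 0) (P.cons (P.lf 15217053 0 0) (P.cons (P.lf 0 209490 0) (P.cons (P.lf 0 4731 0) (P.lf 48 0 0))))) (P.cons (P.cons (P.lf 0 3532431 0) (P.cons (P.lf 0 350643 0) (P.cons (P.lf 4827 0 0) (P.cons (P.lf 108 0 0) P.nil)))) (P.cons (P.cons (P.lf 0 1703142 0) (P.cons (P.lf 0 169059 0) (P.cons (P.lf 2325 0 0) P.nil))) (P.cons (P.cons (P.lf 0 46752 0) (P.cons (P.lf 0 4638 0) P.nil)) (P.cons (P.cons (P.lf 8292 0 0) P.nil) P.nil)))))) 1902)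
 EL.nil)))
noncomputable def S169_198_290_308_22 : EL := (EL.cons 4 (TM.mk (P.cons (P.cons (P.lf 0 1382005734 0) (P.cons (P.lf 41010024 0 0) (P.cons (P.lf 1572384 0 0) (P.cons (P.lf 0 53622 0) (P.cons (P.lf 0 237 0) (P.cons (P.lf 15 0 0) P.nil)))))) (P.cons (P.cons (P.lf 0 169666641 0) (P.cons (P.lf 8182371 0 0) (P.cons (P.lf 276948 0 0) (P.cons (P.lf 0 14049 0) (P.cons (P.lf 0 75 0) P.nil))))) (P.cons (P.cons (P.lf 233250057 0 0) (P.cons (P.lf 0 3631677 0) (P.cons (P.lf 0 159270 0) (P.cons (P.lf 2919 0 0) P.nil)))) (P.cons (P.cons (P.lf 25548876 0 0) (P.cons (P.lf 0 968220 0) (P.cons (P.lf 0 38121 0) P.nil))) (P.cons (P.cons (P.lf 0 8132721 0) (P.cons (P.lf 42507 0 0) P.nil)) (P.cons (P.cons (P.lf 0 1139727 0) P.nil) P.nil)))))) 265743)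
 (EL.cons 8 (TM.mk (P.cons (P.cons (P.lf 579998925 0 0) (P.cons (P.lf 0 17211051 0) (P.cons (P.lf 0 659898 0) (P.cons (P.lf 22509 0 0) (P.cons (P.lf 99 0 0) (P.cons (P.lf 0 6 0) P.nil)))))) (P.cons (P.cons (P.lf 0 70645026 0) (P.cons (P.lf 775338 0 0) (P.cons (P.lf 45159 0 0) (P.cons (P.lf 393 0 0) (P.cons (P.lf 6 0 0) P.nil))))) (P.cons (P.cons (P.lf 0 106397526 0) (P.cons (P.lf 2099661 0 0) (P.cons (P.lf 85134 0 0) (P.cons (P.lf 0 2319 0) P.nil)))) (P.cons (P.cons (P.lf 13283010 0 0) (P.cons (P.lf 11385 0 0) (P.cons (P.lf 0 960 0) P.nil))) (P.cons (P.cons (P.lf 4491351 0 0) (P.cons (P.lf 0 90255 0) P.nil)) (P.cons (P.cons (P.lf 0 345276 0) P.nil) P.nil)))))) 165621)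
 (EL.cons 11 (TM.mk (P.cons (P.cons (P.lf 390242949 0 0) (P.cons (P.lf 32178459 0 0) (P.cons (P.lf 0 1483617 0) (P.cons (P.lf 0 28575 0) (P.cons (P.lf 1155 0 0) (P.cons (P.lf 0 0 0) P.nil)))))) (P.cons (P.cons (P.lf 187124553 0 0) (P.cons (P.lf 15917904 0 0) (P.cons (P.lf 0 640686 0) (P.cons (P.lf 0 12471 0) (P.cons (P.lf 474 0 0) P.nil))))) (P.cons (P.cons (P.lf 3795894 0 0) (P.cons (P.lf 115131 0 0) (P.cons (P.lf 0 43098 0) (P.cons (P.lf 0 777 0) P.nil)))) (P.cons (P.cons (P.lf 0 5791098 0) (P.cons (P.lf 0 539169 0) (P.cons (P.lf 13080 0 0) P.nil))) (P.cons (P.cons (P.lf 0 452859 0) (P.cons (P.lf 0 36357 0) P.nil)) (P.cons (P.cons (P.lf 72159 0 0) P.nil) P.nil)))))) 28299)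
 EL.nil)))
noncomputable def S169_198_290_308_23 : EL := (EL.cons 4 (TM.mk (P.cons (P.cons (P.lf 1724777292 0 0) (P.cons (P.lf 0 22193298 0) (P.cons (P.lf 0 1012662 0) (P.lf 14259 0 0)))) (P.cons (P.cons (P.lf 0 617909847 0) (P.cons (P.lf 1865331 0 0) (P.cons (P.lf 85116 0 0) (P.lf 0 1200 0)))) (P.cons (P.cons (P.lf 0 80624133 0) (P.cons (P.lf 1502964 0 0) (P.cons (P.lf 68577 0 0) (P.lf 0 963 0)))) (P.cons (P.cons (P.lf 26072700 0 0) (P.cons (P.lf 0 14592 0) (P.cons (P.lf 0 669 0) P.nil))) (P.cons (P.cons (P.lf 3009738 0 0) (P.cons (P.lf 0 41733 0) P.nil)) (P.cons (P.cons (P.lf 0 376035 0) P.nil) P.nil)))))) 96762)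
 (EL.cons 8 (TM.mk (P.cons (P.cons (P.lf 0 723852984 0) (P.cons (P.lf 9314067 0 0) (P.cons (P.lf 424998 0 0) (P.lf 0 5988 0)))) (P.cons (P.cons (P.lf 436356867 0 0) (P.cons (P.lf 0 3060780 0) (P.cons (P.lf 0 139659 0) (P.lf 1965 0 0)))) (P.cons (P.cons (P.lf 0 40703349 0) (P.cons (P.lf 0 296259 0) (P.cons (P.lf 0 13515 0) (P.lf 186 0 0)))) (P.cons (P.cons (P.lf 0 13950384 0) (P.cons (P.lf 131835 0 0) (P.cons (P.lf 6012 0 0) P.nil))) (P.cons (P.cons (P.lf 1365660 0 0) (P.cons (P.lf 9093 0 0) P.nil)) (P.cons (P.cons (P.lf 287385 0 0) P.nil) P.nil)))))) 61221)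
 (EL.cons 11 (TM.mk (P.cons (P.cons (P.lf 0 487032840 0) (P.cons (P.lf 0 48345042 0) (P.cons (P.lf 665559 0 0) (P.cons (P.lf 15033 0 0) (P.lf 0 156 0))))) (P.cons (P.cons (P.lf 738060 0 0) (P.cons (P.lf 73263 0 0) (P.cons (P.lf 0 1008 0) (P.cons (P.lf 0 21 0) (P.lf 0 0 0))))) (P.cons (P.cons (P.lf 19403946 0 0) (P.cons (P.lf 1926120 0 0) (P.cons (P.lf 0 26514 0) (P.cons (P.lf 0 597 0) P.nil)))) (P.cons (P.cons (P.lf 1217616 0 0) (P.cons (P.lf 120864 0 0) (P.cons (P.lf 0 1662 0) P.nil))) (P.cons (P.cons (P.lf 0 177627 0) (P.cons (P.lf 0 17631 0) P.nil)) (P.cons (P.cons (P.lf 0 19992 0) P.nil) P.nil)))))) 4776)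
 EL.nil)))
noncomputable def S169_198_290_308_24 : EL := (EL.cons 4 (TM.mk (P.cons (P.cons (P.lf 711450231 0 0) (P.cons (P.lf 0 21111774 0) (P.cons (P.lf 0 809457 0) (P.cons (P.lf 27603 0 0) (P.cons (P.lf 120 0 0) (P.cons (P.lf 0 9 0) P.nil)))))) (P.cons (P.cons (P.lf 0 29015553 0) (P.cons (P.lf 0 759372 0) (P.cons (P.lf 0 10182 0) (P.cons (P.lf 2715 0 0) (P.cons (P.lf 18 0 0) P.nil))))) (P.cons (P.cons (P.lf 0 141195426 0) (P.cons (P.lf 2761290 0 0) (P.cons (P.lf 113085 0 0) (P.cons (P.lf 0 2949 0) P.nil)))) (P.cons (P.cons (P.lf 5822241 0 0) (P.cons (P.lf 227931 0 0) (P.cons (P.lf 7383 0 0) P.nil))) (P.cons (P.cons (P.lf 7544010 0 0) (P.cons (P.lf 0 123324 0) P.nil)) (P.cons (P.cons (P.lf 3129 0 0) P.nil) P.nil)))))) 287847)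
 (EL.cons 8 (TM.mk (P.cons (P.cons (P.lf 0 298580793 0) (P.cons (P.lf 8860170 0 0) (P.cons (P.lf 339711 0 0) (P.cons (P.lf 0 11586 0) (P.cons (P.lf 0 51 0) (P.cons (P.lf 3 0 0) P.nil)))))) (P.cons (P.cons (P.lf 85201248 0 0) (P.cons (P.lf 0 1848240 0) (P.cons (P.lf 0 78807 0) (P.cons (P.lf 1689 0 0) (P.cons (P.lf 3 0 0) P.nil))))) (P.cons (P.cons (P.lf 51693084 0 0) (P.cons (P.lf 0 1100727 0) (P.cons (P.lf 0 43287 0) (P.cons (P.lf 1338 0 0) P.nil)))) (P.cons (P.cons (P.lf 0 16219059 0) (P.cons (P.lf 176934 0 0) (P.cons (P.lf 7968 0 0) P.nil))) (P.cons (P.cons (P.lf 0 1724079 0) (P.cons (P.lf 58095 0 0) P.nil)) (P.cons (P.cons (P.lf 636447 0 0) P.nil) P.nil)))))) 96561)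
 (EL.cons 11 (TM.mk (P.cons (P.cons (P.lf 0 200895285 0) (P.cons (P.lf 0 16565322 0) (P.cons (P.lf 763758 0 0) (P.cons (P.lf 14709 0 0) (P.cons (P.lf 0 594 0) (P.cons (P.lf 0 0 0) P.nil)))))) (P.cons (P.cons (P.lf 0 63474021 0) (P.cons (P.lf 0 5485170 0) (P.cons (P.lf 204906 0 0) (P.cons (P.lf 4014 0 0) (P.cons (P.lf 0 147 0) P.nil))))) (P.cons (P.cons (P.lf 15730785 0 0) (P.cons (P.lf 1440075 0 0) (P.cons (P.lf 0 39090 0) (P.cons (P.lf 0 789 0) P.nil)))) (P.cons (P.cons (P.lf 4176756 0 0) (P.cons (P.lf 361896 0 0) (P.cons (P.lf 0 13341 0) P.nil))) (P.cons (P.cons (P.lf 0 268215 0) (P.cons (P.lf 0 28851 0) P.nil)) (P.cons (P.cons (P.lf 0 108771 0) P.nil) P.nil)))))) 29448)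
 EL.nil)))
noncomputable def S169_198_290_308_25 : EL := (EL.cons 4 (TM.mk (P.cons (P.cons (P.lf 0 887907462 0) (P.cons (P.lf 11425008 0 0) (P.cons (P.lf 521313 0 0) (P.lf 0 7338 0)))) (P.cons (P.cons (P.lf 463316274 0 0) (P.cons (P.lf 0 2828847 0) (P.cons (P.lf 0 129078 0) (P.lf 1818 0 0)))) (P.cons (P.cons (P.lf 0 1991343 0) (P.cons (P.lf 0 726414 0) (P.cons (P.lf 0 33144 0) (P.lf 465 0 0)))) (P.cons (P.cons (P.lf 0 23484363 0) (P.cons (P.lf 146091 0 0) (P.cons (P.lf 6666 0 0) P.nil))) (P.cons (P.cons (P.lf 286323 0 0) (P.cons (P.lf 27954 0 0) P.nil)) (P.cons (P.cons (P.lf 599490 0 0) P.nil) P.nil)))))) 79878)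
 (EL.cons 8 (TM.mk (P.cons (P.cons (P.lf 372636207 0 0) (P.cons (P.lf 0 4794837 0) (P.cons (P.lf 0 218787 0) (P.lf 3081 0 0)))) (P.cons (P.cons (P.lf 0 285579945 0) (P.cons (P.lf 2359881 0 0) (P.cons (P.lf 107679 0 0) (P.lf 0 1515 0)))) (P.cons (P.cons (P.lf 54113826 0 0) (P.cons (P.lf 0 59133 0) (P.cons (P.lf 0 2697 0) (P.lf 39 0 0)))) (P.cons (P.cons (P.lf 6004029 0 0) (P.cons (P.lf 0 109128 0) (P.cons (P.lf 0 4977 0) P.nil))) (P.cons (P.cons (P.lf 0 2117754 0) (P.cons (P.lf 5130 0 0) P.nil)) (P.cons (P.cons (P.lf 0 106407 0) P.nil) P.nil)))))) 68880)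
 (EL.cons 11 (TM.mk (P.cons (P.cons (P.lf 250722279 0 0) (P.cons (P.lf 24887805 0 0) (P.cons (P.lf 0 342624 0) (P.cons (P.lf 0 7737 0) (P.lf 81 0 0))))) (P.cons (P.cons (P.lf 0 41386101 0) (P.cons (P.lf 0 4108167 0) (P.cons (P.lf 56556 0 0) (P.cons (P.lf 1275 0 0) (P.lf 0 12 0))))) (P.cons (P.cons (P.lf 0 12335340 0) (P.cons (P.lf 0 1224459 0) (P.cons (P.lf 16854 0 0) (P.cons (P.lf 378 0 0) P.nil)))) (P.cons (P.cons (P.lf 1072233 0 0) (P.cons (P.lf 106434 0 0) (P.cons (P.lf 0 1464 0) P.nil))) (P.cons (P.cons (P.lf 300846 0 0) (P.cons (P.lf 29862 0 0) P.nil)) (P.cons (P.cons (P.lf 0 936 0) P.nil) P.nil)))))) 7410)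
 EL.nil)))
noncomputable def S169_198_290_308_26 : EL := (EL.cons 4 (TM.mk (P.cons (P.cons (P.lf 0 366251325 0) (P.cons (P.lf 10868244 0 0) (P.cons (P.lf 416703 0 0) (P.cons (P.lf 0 14211 0) (P.cons (P.lf 0 63 0) (P.cons (P.lf 3 0 0) P.nil)))))) (P.cons (P.cons (P.lf 74838240 0 0) (P.cons (P.lf 0 1386600 0) (P.cons (P.lf 0 62907 0) (P.cons (P.lf 924 0 0) (P.cons (P.lf 0 0 0) P.nil))))) (P.cons (P.cons (P.lf 73761951 0 0) (P.cons (P.lf 0 1589835 0) (P.cons (P.lf 0 63075 0) (P.cons (P.lf 1884 0 0) P.nil)))) (P.cons (P.cons (P.lf 0 15118914 0) (P.cons (P.lf 114066 0 0) (P.cons (P.lf 5769 0 0) P.nil))) (P.cons (P.cons (P.lf 0 4104066 0) (P.cons (P.lf 96906 0 0) P.nil)) (P.cons (P.cons (P.lf 680631 0 0) P.nil) P.nil)))))) 249405)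
 (EL.cons 8 (TM.mk (P.cons (P.cons (P.lf 153708027 0 0) (P.cons (P.lf 0 4561173 0) (P.cons (P.lf 0 174882 0) (P.cons (P.lf 5964 0 0) (P.cons (P.lf 24 0 0) (P.cons (P.lf 0 0 0) P.nil)))))) (P.cons (P.cons (P.lf 0 69000480 0) (P.cons (P.lf 1697454 0 0) (P.cons (P.lf 69171 0 0) (P.cons (P.lf 0 1845 0) (P.cons (P.lf 0 6 0) P.nil))))) (P.cons (P.cons (P.lf 0 20914278 0) (P.cons (P.lf 454848 0 0) (P.cons (P.lf 17328 0 0) (P.cons (P.lf 0 603 0) P.nil)))) (P.cons (P.cons (P.lf 13160979 0 0) (P.cons (P.lf 0 194022 0) (P.cons (P.lf 0 8178 0) P.nil))) (P.cons (P.cons (P.lf 0 226431 0) (P.cons (P.lf 0 20418 0) P.nil)) (P.cons (P.cons (P.lf 0 561372 0) P.nil) P.nil)))))) 97701)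
 (EL.cons 11 (TM.mk (P.cons (P.cons (P.lf 103419975 0 0) (P.cons (P.lf 8527752 0 0) (P.cons (P.lf 0 393180 0) (P.cons (P.lf 0 7572 0) (P.cons (P.lf 306 0 0) (P.cons (P.lf 0 0 0) P.nil)))))) (P.cons (P.cons (P.lf 15761583 0 0) (P.cons (P.lf 1429008 0 0) (P.cons (P.lf 0 41178 0) (P.cons (P.lf 0 828 0) (P.cons (P.lf 24 0 0) P.nil))))) (P.cons (P.cons (P.lf 0 14435832 0) (P.cons (P.lf 0 1285089 0) (P.cons (P.lf 41151 0 0) (P.cons (P.lf 816 0 0) P.nil)))) (P.cons (P.cons (P.lf 0 1114152 0) (P.cons (P.lf 0 90078 0) (P.cons (P.lf 4494 0 0) P.nil))) (P.cons (P.cons (P.lf 580116 0 0) (P.cons (P.lf 53514 0 0) P.nil)) (P.cons (P.cons (P.lf 53583 0 0) P.nil) P.nil)))))) 31677)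
 EL.nil)))
noncomputable def S169_198_290_308_27 : EL := (EL.cons 13 (TM.mk (P.lf 0 4294967296 0) 0)
 EL.nil)
noncomputable def S169_198_290_308_28 : EL := (EL.cons 13 (TM.mk (P.cons (P.cons (P.lf 0 1771623210 0) (P.cons (P.lf 29775564 0 0) (P.cons (P.lf 1358640 0 0) (P.lf 0 19132 0)))) (P.cons (P.cons (P.lf 0 562439319 0) (P.cons (P.lf 7237096 0 0) (P.cons (P.lf 330224 0 0) (P.lf 0 4648 0)))) (P.cons (P.cons (P.lf 67288319 0 0) (P.cons (P.lf 126404 0 0) (P.cons (P.lf 5768 0 0) (P.lf 0 80 0)))) (P.cons (P.cons (P.lf 10097880 0 0) (P.cons (P.lf 0 101832 0) (P.cons (P.lf 0 4644 0) P.nil))) (P.cons (P.cons (P.lf 0 429161 0) (P.cons (P.lf 0 7536 0) P.nil)) (P.cons (P.cons (P.lf 0 111486 0) P.nil) P.nil)))))) 13805)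
 EL.nil)
noncomputable def S169_198_290_308_29 : EL := (EL.cons 13 (TM.mk (P.cons (P.cons (P.lf 0 730773619 0) (P.cons (P.lf 24564135 0 0) (P.cons (P.lf 914421 0 0) (P.cons (P.lf 0 34621 0) (P.cons (P.lf 0 164 0) (P.cons (P.lf 12 0 0) P.nil)))))) (P.cons (P.cons (P.lf 0 463999133 0) (P.cons (P.lf 13768838 0 0) (P.cons (P.lf 527918 0 0) (P.cons (P.lf 0 18002 0) (P.cons (P.lf 0 79 0) P.nil))))) (P.cons (P.cons (P.lf 0 18141905 0) (P.cons (P.lf 1066746 0 0) (P.cons (P.lf 34727 0 0) (P.cons (P.lf 0 1956 0) P.nil)))) (P.cons (P.cons (P.lf 25953741 0 0) (P.cons (P.lf 0 417677 0) (P.cons (P.lf 0 18070 0) P.nil))) (P.cons (P.cons (P.lf 1236458 0 0) (P.cons (P.lf 0 64927 0) P.nil)) (P.cons (P.cons (P.lf 0 520775 0) P.nil) P.nil)))))) 102816)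
 EL.nil)
noncomputable def S169_198_290_308_30 : EL := (EL.cons 13 (TM.mk (P.cons (P.lf 2211029524 0 0) (P.cons (P.lf 0 361618480 0) (P.cons (P.lf 0 21238980 0) (P.cons (P.lf 543904 0 0) (P.cons (P.lf 97232 0 0) (P.cons (P.lf 1560 0 0) P.nil)))))) 512)
 EL.nil)
noncomputable def S169_198_290_308_31 : EL := (EL.cons 13 (TM.mk (P.cons (P.cons (P.lf 912023527 0 0) (P.cons (P.lf 0 15328324 0) (P.cons (P.lf 0 699421 0) (P.lf 9849 0 0)))) (P.cons (P.cons (P.lf 140377843 0 0) (P.cons (P.lf 0 1218644 0) (P.cons (P.lf 0 55605 0) (P.lf 781 0 0)))) (P.cons (P.cons (P.lf 0 90755611 0) (P.cons (P.lf 691504 0 0) (P.cons (P.lf 31552 0 0) (P.lf 0 444 0)))) (P.cons (P.cons (P.lf 0 2089900 0) (P.cons (P.lf 95082 0 0) (P.cons (P.lf 4337 0 0) P.nil))) (P.cons (P.cons (P.lf 1515209 0 0) (P.cons (P.lf 0 5659 0) P.nil)) (P.cons (P.cons (P.lf 76048 0 0) P.nil) P.nil)))))) 26001)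
 EL.nil)
noncomputable def S169_198_290_308_32 : EL := (EL.cons 13 (TM.mk (P.cons (P.cons (P.lf 376198917 0 0) (P.cons (P.lf 0 12645504 0) (P.cons (P.lf 0 470739 0) (P.cons (P.lf 17822 0 0) (P.cons (P.lf 84 0 0) (P.cons (P.lf 0 6 0) P.nil)))))) (P.cons (P.cons (P.lf 177336516 0 0) (P.cons (P.lf 0 5019936 0) (P.cons (P.lf 0 194779 0) (P.cons (P.lf 6352 0 0) (P.cons (P.lf 26 0 0) P.nil))))) (P.cons (P.cons (P.lf 0 33341175 0) (P.cons (P.lf 731594 0 0) (P.cons (P.lf 31093 0 0) (P.cons (P.lf 0 679 0) P.nil)))) (P.cons (P.cons (P.lf 0 17090312 0) (P.cons (P.lf 369811 0 0) (P.cons (P.lf 14721 0 0) P.nil))) (P.cons (P.cons (P.lf 1534264 0 0) (P.cons (P.lf 1232 0 0) P.nil)) (P.cons (P.cons (P.lf 513607 0 0) P.nil) P.nil)))))) 130135)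
 EL.nil)
noncomputable def S169_198_290_308_33 : EL := (EL.cons 14 (TM.mk (P.lf 8589934592 0 0) 0)
 EL.nil)
noncomputable def S169_198_290_308_34 : EL := (EL.cons 14 (TM.mk (P.cons (P.cons (P.lf 3543246420 0 0) (P.cons (P.lf 0 59551128 0) (P.cons (P.lf 0 2717280 0) (P.lf 38264 0 0)))) (P.cons (P.cons (P.lf 1124878638 0 0) (P.cons (P.lf 0 14474192 0) (P.cons (P.lf 0 660448 0) (P.lf 9296 0 0)))) (P.cons (P.cons (P.lf 0 134576638 0) (P.cons (P.lf 0 252808 0) (P.cons (P.lf 0 11536 0) (P.lf 160 0 0)))) (P.cons (P.cons (P.lf 0 20195760 0) (P.cons (P.lf 203664 0 0) (P.cons (P.lf 9288 0 0) P.nil))) (P.cons (P.cons (P.lf 858322 0 0) (P.cons (P.lf 15072 0 0) P.nil)) (P.cons (P.cons (P.lf 222972 0 0) P.nil) P.nil)))))) 27610)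
 EL.nil)
noncomputable def S169_198_290_308_35 : EL := (EL.cons 14 (TM.mk (P.cons (P.cons (P.lf 1461547238 0 0) (P.cons (P.lf 0 49128270 0) (P.cons (P.lf 0 1828842 0) (P.cons (P.lf 69242 0 0) (P.cons (P.lf 328 0 0) (P.cons (P.lf 0 24 0) P.nil)))))) (P.cons (P.cons (P.lf 927998266 0 0) (P.cons (P.lf 0 27537676 0) (P.cons (P.lf 0 1055836 0) (P.cons (P.lf 36004 0 0) (P.cons (P.lf 158 0 0) P.nil))))) (P.cons (P.cons (P.lf 36283810 0 0) (P.cons (P.lf 0 2133492 0) (P.cons (P.lf 0 69454 0) (P.cons (P.lf 3912 0 0) P.nil)))) (P.cons (P.cons (P.lf 0 51907482 0) (P.cons (P.lf 835354 0 0) (P.cons (P.lf 36140 0 0) P.nil))) (P.cons (P.cons (P.lf 0 2472916 0) (P.cons (P.lf 129854 0 0) P.nil)) (P.cons (P.cons (P.lf 1041550 0 0) P.nil) P.nil)))))) 205632)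
 EL.nil)
noncomputable def S169_198_290_308_36 : EL := (EL.cons 14 (TM.mk (P.cons (P.lf 0 4422059048 0) (P.cons (P.lf 723236960 0 0) (P.cons (P.lf 42477960 0 0) (P.cons (P.lf 0 1087808 0) (P.cons (P.lf 0 194464 0) (P.cons (P.lf 0 3120 0) P.nil)))))) 1024)
 EL.nil)
noncomputable def S169_198_290_308_37 : EL := (EL.cons 14 (TM.mk (P.cons (P.cons (P.lf 0 1824047054 0) (P.cons (P.lf 30656648 0 0) (P.cons (P.lf 1398842 0 0) (P.lf 0 19698 0)))) (P.cons (P.cons (P.lf 0 280755686 0) (P.cons (P.lf 2437288 0 0) (P.cons (P.lf 111210 0 0) (P.lf 0 1562 0)))) (P.cons (P.cons (P.lf 181511222 0 0) (P.cons (P.lf 0 1383008 0) (P.cons (P.lf 0 63104 0) (P.lf 888 0 0)))) (P.cons (P.cons (P.lf 4179800 0 0) (P.cons (P.lf 0 190164 0) (P.cons (P.lf 0 8674 0) P.nil))) (P.cons (P.cons (P.lf 0 3030418 0) (P.cons (P.lf 11318 0 0) P.nil)) (P.cons (P.cons (P.lf 0 152096 0) P.nil) P.nil))))))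 52002)
 EL.nil)
noncomputable def S169_198_290_308_38 : EL := (EL.cons 14 (TM.mk (P.cons (P.cons (P.lf 0 752397834 0) (P.cons (P.lf 25291008 0 0) (P.cons (P.lf 941478 0 0) (P.cons (P.lf 0 35644 0) (P.cons (P.lf 0 168 0) (P.cons (P.lf 12 0 0) P.nil)))))) (P.cons (P.cons (P.lf 0 354673032 0) (P.cons (P.lf 10039872 0 0) (P.cons (P.lf 389558 0 0) (P.cons (P.lf 0 12704 0) (P.cons (P.lf 0 52 0) P.nil))))) (P.cons (P.cons (P.lf 66682350 0 0) (P.cons (P.lf 0 1463188 0) (P.cons (P.lf 0 62186 0) (P.cons (P.lf 1358 0 0) P.nil)))) (P.cons (P.cons (P.lf 34180624 0 0) (P.cons (P.lf 0 739622 0) (P.cons (P.lf 0 29442 0) P.nil))) (P.cons (P.cons (P.lf 0 3068528 0) (P.cons (P.lf 0 2464 0) P.nil)) (P.cons (P.cons (P.lf 0 1027214 0) P.nil) P.nil)))))) 260270)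
 EL.nil)
noncomputable def S169_198_290_308_39 : EL := (EL.cons 14 (TM.mk (P.cons (P.lf 2276455776 0 0) (P.cons (P.lf 0 744638158 0) (P.cons (P.lf 17158640 0 0) (P.cons (P.lf 8272934 0 0) (P.cons (P.lf 227096 0 0) (P.cons (P.lf 0 40292 0) P.nil)))))) 3922)
 EL.nil)
noncomputable def S169_198_290_308_40 : EL := (EL.cons 14 (TM.mk (P.cons (P.cons (P.lf 939011082 0 0) (P.cons (P.lf 0 15781902 0) (P.cons (P.lf 0 720118 0) (P.lf 10140 0 0)))) (P.cons (P.cons (P.lf 0 9045472 0) (P.cons (P.lf 1326456 0 0) (P.cons (P.lf 60524 0 0) (P.lf 0 852 0)))) (P.cons (P.cons (P.lf 0 126099682 0) (P.cons (P.lf 1068774 0 0) (P.cons (P.lf 48766 0 0) (P.lf 0 686 0)))) (P.cons (P.cons (P.lf 11973382 0 0) (P.cons (P.lf 0 10376 0) (P.cons (P.lf 0 474 0) P.nil))) (P.cons (P.cons (P.lf 2886402 0 0) (P.cons (P.lf 0 29680 0) P.nil)) (P.cons (P.cons (P.lf 0 172146 0) P.nil) P.nil)))))) 68808)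
 EL.nil)
noncomputable def S169_198_290_308_41 : EL := (EL.cons 14 (TM.mk (P.cons (P.cons (P.lf 387330964 0 0) (P.cons (P.lf 0 13019694 0) (P.cons (P.lf 0 484668 0) (P.cons (P.lf 18350 0 0) (P.cons (P.lf 86 0 0) (P.cons (P.lf 0 6 0) P.nil)))))) (P.cons (P.cons (P.lf 119235268 0 0) (P.cons (P.lf 0 3039082 0) (P.cons (P.lf 0 121274 0) (P.cons (P.lf 3538 0 0) (P.cons (P.lf 12 0 0) P.nil))))) (P.cons (P.cons (P.lf 0 67910442 0) (P.cons (P.lf 1723624 0 0) (P.cons (P.lf 69468 0 0) (P.cons (P.lf 0 1946 0) P.nil)))) (P.cons (P.cons (P.lf 0 13640258 0) (P.cons (P.lf 304004 0 0) (P.cons (P.lf 11726 0 0) P.nil))) (P.cons (P.cons (P.lf 4849230 0 0) (P.cons (P.lf 0 70082 0) P.nil)) (P.cons (P.cons (P.lf 439332 0 0) P.nil) P.nil)))))) 254496)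
 EL.nil)
noncomputable def S169_198_290_308_42 : EL := (EL.cons 14 (TM.mk (P.cons (P.lf 0 1171909022 0) (P.cons (P.lf 575004478 0 0) (P.cons (P.lf 0 60271372 0) (P.cons (P.lf 0 6784766 0) (P.cons (P.lf 707252 0 0) (P.cons (P.lf 94630 0 0) P.nil)))))) 9404)
 EL.nil)
noncomputable def S169_198_290_308_43 : EL := (EL.cons 14 (TM.mk (P.cons (P.cons (P.lf 0 483398610 0) (P.cons (P.lf 8124450 0 0) (P.cons (P.lf 370712 0 0) (P.lf 0 5220 0)))) (P.cons (P.cons (P.lf 83717416 0 0) (P.cons (P.lf 0 2011624 0) (P.cons (P.lf 0 91788 0) (P.lf 1292 0 0)))) (P.cons (P.cons (P.lf 68797438 0 0) (P.cons (P.lf 0 516560 0) (P.cons (P.lf 0 23570 0) (P.lf 330 0 0)))) (P.cons (P.cons (P.lf 0 16944558 0) (P.cons (P.lf 103886 0 0) (P.cons (P.lf 4740 0 0) P.nil))) (P.cons (P.cons (P.lf 0 1121484 0) (P.cons (P.lf 19880 0 0) P.nil)) (P.cons (P.cons (P.lf 406684 0 0) P.nil) P.nil)))))) 84206)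
 EL.nil)
noncomputable def S169_198_290_308_44 : EL := (EL.cons 14 (TM.mk (P.cons (P.cons (P.lf 0 199396208 0) (P.cons (P.lf 6702478 0 0) (P.cons (P.lf 249504 0 0) (P.cons (P.lf 0 9446 0) (P.cons (P.lf 0 44 0) (P.cons (P.lf 2 0 0) P.nil)))))) (P.cons (P.cons (P.lf 0 28770106 0) (P.cons (P.lf 468300 0 0) (P.cons (P.lf 21624 0 0) (P.cons (P.lf 0 276 0) (P.cons (P.lf 0 0 0) P.nil))))) (P.cons (P.cons (P.lf 46914486 0 0) (P.cons (P.lf 0 1207576 0) (P.cons (P.lf 0 48368 0) (P.cons (P.lf 1390 0 0) P.nil)))) (P.cons (P.cons (P.lf 1844742 0 0) (P.cons (P.lf 0 24756 0) (P.cons (P.lf 0 726 0) P.nil))) (P.cons (P.cons (P.lf 0 4004506 0) (P.cons (P.lf 70876 0 0) P.nil)) (P.cons (P.cons (P.lf 120426 0 0) P.nil) P.nil)))))) 229558)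
 EL.nil)
noncomputable def S169_198_290_308_45 : EL := (EL.cons 14 (TM.mk (P.cons (P.cons (P.lf 602870948 0 0) (P.cons (P.lf 0 30397244 0) (P.cons (P.lf 0 876120 0) (P.cons (P.lf 63290 0 0) (P.cons (P.lf 14 0 0) (P.cons (P.lf 0 42 0) P.nil)))))) (P.cons (P.cons (P.lf 574182462 0 0) (P.cons (P.lf 0 26688698 0) (P.cons (P.lf 0 807250 0) (P.cons (P.lf 52522 0 0) (P.cons (P.lf 40 0 0) P.nil))))) (P.cons (P.cons (P.lf 113593156 0 0) (P.cons (P.lf 0 5574752 0) (P.cons (P.lf 0 160414 0) (P.cons (P.lf 11608 0 0) P.nil)))) (P.cons (P.cons (P.lf 0 34634728 0) (P.cons (P.lf 918176 0 0) (P.cons (P.lf 38066 0 0) P.nil))) (P.cons (P.cons (P.lf 0 10421716 0) (P.cons (P.lf 384322 0 0) P.nil)) (P.cons (P.cons (P.lf 964372 0 0) P.nil) P.nil)))))) 569206)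
 EL.nil)
noncomputable def S169_198_290_308_46 : EL := (EL.cons 15 (TM.mk (P.lf 4294967296 0 0) 0)
 EL.nil)
noncomputable def S169_198_290_308_47 : EL := (EL.cons 15 (TM.mk (P.cons (P.cons (P.lf 1771623210 0 0) (P.cons (P.lf 0 29775564 0) (P.cons (P.lf 0 1358640 0) (P.lf 19132 0 0)))) (P.cons (P.cons (P.lf 562439319 0 0) (P.cons (P.lf 0 7237096 0) (P.cons (P.lf 0 330224 0) (P.lf 4648 0 0)))) (P.cons (P.cons (P.lf 0 67288319 0) (P.cons (P.lf 0 126404 0) (P.cons (P.lf 0 5768 0) (P.lf 80 0 0)))) (P.cons (P.cons (P.lf 0 10097880 0) (P.cons (P.lf 101832 0 0) (P.cons (P.lf 4644 0 0) P.nil))) (P.cons (P.cons (P.lf 429161 0 0) (P.cons (P.lf 7536 0 0) P.nil)) (P.cons (P.cons (P.lf 111486 0 0) P.nil) P.nil)))))) 13805)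
 EL.nil)
noncomputable def S169_198_290_308_48 : EL := (EL.cons 15 (TM.mk (P.cons (P.cons (P.lf 730773619 0 0) (P.cons (P.lf 0 24564135 0) (P.cons (P.lf 0 914421 0) (P.cons (P.lf 34621 0 0) (P.cons (P.lf 164 0 0) (P.cons (P.lf 0 12 0) P.nil)))))) (P.cons (P.cons (P.lf 463999133 0 0) (P.cons (P.lf 0 13768838 0) (P.cons (P.lf 0 527918 0) (P.cons (P.lf 18002 0 0) (P.cons (P.lf 79 0 0) P.nil))))) (P.cons (P.cons (P.lf 18141905 0 0) (P.cons (P.lf 0 1066746 0) (P.cons (P.lf 0 34727 0) (P.cons (P.lf 1956 0 0) P.nil)))) (P.cons (P.cons (P.lf 0 25953741 0) (P.cons (P.lf 417677 0 0) (P.cons (P.lf 18070 0 0) P.nil))) (P.cons (P.cons (P.lf 0 1236458 0) (P.cons (P.lf 64927 0 0) P.nil)) (P.cons (P.cons (P.lf 520775 0 0) P.nil) P.nil)))))) 102816)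
 EL.nil)
noncomputable def S169_198_290_308 : SL := (SL.cons S169_198_290_308_0 (SL.cons S169_198_290_308_1 (SL.cons S169_198_290_308_2 (SL.cons S169_198_290_308_3 (SL.cons S169_198_290_308_4 (SL.cons S169_198_290_308_5 (SL.cons S169_198_290_308_6 (SL.cons S169_198_290_308_7 (SL.cons S169_198_290_308_8 (SL.cons S169_198_290_308_9 (SL.cons S169_198_290_308_10 (SL.cons S169_198_290_308_11 (SL.cons S169_198_290_308_12 (SL.cons S169_198_290_308_13 (SL.cons S169_198_290_308_14 (SL.cons S169_198_290_308_15 (SL.cons S169_198_290_308_16 (SL.cons S169_198_290_308_17 (SL.cons S169_198_290_308_18 (SL.cons S169_198_290_308_19 (SL.cons S169_198_290_308_20 (SL.cons S169_198_290_308_21 (SL.cons S169_198_290_308_22 (SL.cons S169_198_290_308_23 (SL.cons S169_198_290_308_24 (SL.cons S169_198_290_308_25 (SL.cons S169_198_290_308_26 (SL.cons S169_198_290_308_27 (SL.cons S169_198_290_308_28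 (SL.cons S169_198_290_308_29 (SL.cons S169_198_290_308_30 (SL.cons S169_198_290_308_31 (SL.cons S169_198_290_308_32 (SL.cons S169_198_290_308_33 (SL.cons S169_198_290_308_34 (SL.cons S169_198_290_308_35 (SL.cons S169_198_290_308_36 (SL.cons S169_198_290_308_37 (SL.cons S169_198_290_308_38 (SL.cons S169_198_290_308_39 (SL.cons S169_198_290_308_40 (SL.cons S169_198_290_308_41 (SL.cons S169_198_290_308_42 (SL.cons S169_198_290_308_43 (SL.cons S169_198_290_308_44 (SL.cons S169_198_290_308_45 (SL.cons S169_198_290_308_46 (SL.cons S169_198_290_308_47 (SL.cons S169_198_290_308_48 SL.nil)))))))))))))))))))))))))))))))))))))))))))))))))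
noncomputable def S169_198_290_364_0 : EL := (EL.cons 0 (TM.mk (P.cons (P.lf 6454925654 0 0) (P.cons (P.lf 654467131 0 0) (P.cons (P.lf 0 15080835 0) (P.cons (P.lf 0 7271133 0) (P.cons (P.lf 0 199596 0) (P.cons (P.lf 35412 0 0) P.nil)))))) 3454)
 (EL.cons 1 (TM.mk (P.cons (P.lf 0 1695086628 0) (P.cons (P.lf 139901857 0 0) (P.cons (P.lf 47471786 0 0) (P.cons (P.lf 293435 0 0) (P.cons (P.lf 0 328029 0) (P.cons (P.lf 0 15684 0) P.nil)))))) 1940)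
 (EL.cons 5 (TM.mk (P.cons (P.lf 5006359730 0 0) (P.cons (P.lf 0 232699422 0) (P.cons (P.lf 5362070 0 0) (P.cons (P.lf 2585292 0 0) (P.cons (P.lf 70970 0 0) (P.cons (P.lf 0 12590 0) P.nil)))))) 1169)
 (EL.cons 9 (TM.mk (P.lf 6442450944 0 0) 2)
 EL.nil))))
noncomputable def S169_198_290_364_1 : EL := (EL.cons 0 (TM.mk (P.cons (P.cons (P.lf 0 582462617 0) (P.cons (P.lf 0 16319476 0) (P.cons (P.lf 0 2101483 0) (P.lf 140100 0 0)))) (P.cons (P.cons (P.lf 2207011951 0 0) (P.cons (P.lf 0 98369449 0) (P.cons (P.lf 0 12667140 0) (P.lf 844472 0 0)))) (P.cons (P.cons (P.lf 115370375 0 0) (P.cons (P.lf 0 20839056 0) (P.cons (P.lf 0 2683458 0) (P.lf 178887 0 0)))) (P.cons (P.cons (P.lf 0 78452711 0) (P.cons (P.lf 1232587 0 0) (P.cons (P.lf 158718 0 0) P.nil))) (P.cons (P.cons (P.lf 0 6914107 0) (P.cons (P.lf 619928 0 0) P.nil)) (P.cons (P.cons (P.lf 1091145 0 0) P.nil) P.nil))))))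 495330)
 (EL.cons 1 (TM.mk (P.cons (P.cons (P.lf 0 1317555261 0) (P.cons (P.lf 107396146 0 0) (P.cons (P.lf 13829514 0 0) (P.lf 0 921961 0)))) (P.cons (P.cons (P.lf 0 390812990 0) (P.cons (P.lf 39456176 0 0) (P.cons (P.lf 5080810 0 0) (P.lf 0 338712 0)))) (P.cons (P.cons (P.lf 222214623 0 0) (P.cons (P.lf 0 5251761 0) (P.cons (P.lf 0 676273 0) (P.lf 45083 0 0)))) (P.cons (P.cons (P.lf 24247978 0 0) (P.cons (P.lf 0 2285738 0) (P.cons (P.lf 0 294326 0) P.nil))) (P.cons (P.cons (P.lf 0 5323638 0) (P.cons (P.lf 0 34926 0) P.nil)) (P.cons (P.cons (P.lf 0 689053 0) P.nil) P.nil)))))) 278205)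
 (EL.cons 5 (TM.mk (P.cons (P.cons (P.lf 3040001653 0 0) (P.cons (P.lf 0 257494812 0) (P.cons (P.lf 0 33157892 0) (P.lf 2210522 0 0)))) (P.cons (P.cons (P.lf 127959736 0 0) (P.cons (P.lf 0 29019924 0) (P.cons (P.lf 0 3736934 0) (P.lf 249136 0 0)))) (P.cons (P.cons (P.lf 0 156170016 0) (P.cons (P.lf 6291676 0 0) (P.cons (P.lf 810180 0 0) (P.lf 0 54006 0)))) (P.cons (P.cons (P.lf 11339570 0 0) (P.cons (P.lf 462228 0 0) (P.cons (P.lf 59522 0 0) P.nil))) (P.cons (P.cons (P.lf 3233201 0 0) (P.cons (P.lf 0 153772 0) P.nil)) (P.cons (P.cons (P.lf 0 201611 0) P.nil) P.nil)))))) 225628)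
 (EL.cons 9 (TM.mk (P.cons (P.cons (P.lf 2499621027 0 0) (P.cons (P.lf 0 232321134 0) (P.cons (P.lf 0 29916246 0) (P.lf 1994412 0 0)))) (P.cons (P.cons (P.lf 805301548 0 0) (P.cons (P.lf 0 56466810 0) (P.cons (P.lf 0 7271292 0) (P.lf 484752 0 0)))) (P.cons (P.cons (P.lf 0 101602438 0) (P.cons (P.lf 0 986262 0) (P.cons (P.lf 0 127002 0) (P.lf 8466 0 0)))) (P.cons (P.cons (P.lf 0 14607102 0) (P.cons (P.lf 794538 0 0) (P.cons (P.lf 102306 0 0) P.nil))) (P.cons (P.cons (P.lf 683695 0 0) (P.cons (P.lf 58806 0 0) P.nil)) (P.cons (P.cons (P.lf 164415 0 0) P.nil) P.nil)))))) 42032)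
 (EL.cons 2 (TM.mk (P.cons (P.cons (P.lf 591149851 0 0) (P.cons (P.lf 168759922 0 0) (P.cons (P.lf 0 12622969 0) (P.cons (P.lf 0 850601 0) (P.lf 42527 0 0))))) (P.cons (P.cons (P.lf 0 895840 0) (P.cons (P.lf 0 255743 0) (P.cons (P.lf 19127 0 0) (P.cons (P.lf 1288 0 0) (P.lf 0 64 0))))) (P.cons (P.cons (P.lf 0 23552088 0) (P.cons (P.lf 0 6723587 0) (P.cons (P.lf 502911 0 0) (P.cons (P.lf 33887 0 0) P.nil)))) (P.cons (P.cons (P.lf 0 1477915 0) (P.cons (P.lf 0 421911 0) (P.cons (P.lf 31556 0 0) P.nil))) (P.cons (P.cons (P.lf 215600 0 0) (P.cons (P.lf 61548 0 0) P.nil)) (P.cons (P.cons (P.lf 24266 0 0) P.nil) P.nil)))))) 22799)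
 (EL.cons 6 (TM.mk (P.cons (P.cons (P.lf 500826975 0 0) (P.cons (P.lf 142974783 0 0) (P.cons (P.lf 0 10694283 0) (P.cons (P.lf 0 720636 0) (P.lf 36030 0 0))))) (P.cons (P.cons (P.lf 121728495 0 0) (P.cons (P.lf 34750731 0 0) (P.cons (P.lf 0 2599296 0) (P.cons (P.lf 0 175152 0) (P.lf 8754 0 0))))) (P.cons (P.cons (P.lf 2126142 0 0) (P.cons (P.lf 606966 0 0) (P.cons (P.lf 0 45399 0) (P.cons (P.lf 0 3057 0) P.nil)))) (P.cons (P.cons (P.lf 0 1712826 0) (P.cons (P.lf 0 488973 0) (P.cons (P.lf 36573 0 0) P.nil))) (P.cons (P.cons (P.lf 0 126777 0) (P.cons (P.lf 0 36192 0) P.nil)) (P.cons (P.cons (P.lf 8925 0 0) P.nil) P.nil)))))) 12957)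
 EL.nil))))))
noncomputable def S169_198_290_364_2 : EL := (EL.cons 0 (TM.mk (P.cons (P.cons (P.lf 0 1423693456 0) (P.cons (P.lf 209971355 0 0) (P.cons (P.lf 19821278 0 0) (P.cons (P.lf 0 3661206 0) (P.cons (P.lf 4238 0 0) (P.cons (P.lf 15945 0 0) P.nil)))))) (P.cons (P.cons (P.lf 842358578 0 0) (P.cons (P.lf 0 108968321 0) (P.cons (P.lf 0 11582742 0) (P.cons (P.lf 1566256 0 0) (P.cons (P.lf 0 1444 0) P.nil))))) (P.cons (P.cons (P.lf 576573221 0 0) (P.cons (P.lf 0 69580495 0) (P.cons (P.lf 0 6688862 0) (P.cons (P.lf 1182216 0 0) P.nil)))) (P.cons (P.cons (P.lf 0 61859758 0) (P.cons (P.lf 0 1145484 0) (P.cons (P.lf 156583 0 0) P.nil))) (P.cons (P.cons (P.lf 0 32708856 0) (P.cons (P.lf 3314550 0 0) P.nil)) (P.cons (P.cons (P.lf 854502 0 0) P.nil) P.nil)))))) 3196200)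
 (EL.cons 1 (TM.mk (P.cons (P.cons (P.lf 0 767227528 0) (P.cons (P.lf 130929218 0 0) (P.cons (P.lf 11318556 0 0) (P.cons (P.lf 0 2551113 0) (P.cons (P.lf 3252 0 0) (P.cons (P.lf 12247 0 0) P.nil)))))) (P.cons (P.cons (P.lf 0 489293070 0) (P.cons (P.lf 85853107 0 0) (P.cons (P.lf 7216715 0 0) (P.cons (P.lf 0 1725630 0) (P.cons (P.lf 2244 0 0) P.nil))))) (P.cons (P.cons (P.lf 101314894 0 0) (P.cons (P.lf 0 4817533 0) (P.cons (P.lf 0 967356 0) (P.cons (P.lf 0 48011 0) P.nil)))) (P.cons (P.cons (P.lf 77882693 0 0) (P.cons (P.lf 0 8901369 0) (P.cons (P.lf 0 928107 0) P.nil))) (P.cons (P.cons (P.lf 0 3327317 0) (P.cons (P.lf 0 710200 0) P.nil)) (P.cons (P.cons (P.lf 0 3251655 0) P.nil) P.nil)))))) 1630453)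
 (EL.cons 5 (TM.mk (P.cons (P.cons (P.lf 1605346837 0 0) (P.cons (P.lf 0 278971095 0) (P.cons (P.lf 0 23862627 0) (P.cons (P.lf 5501048 0 0) (P.cons (P.lf 0 7076 0) (P.cons (P.lf 0 26658 0) P.nil)))))) (P.cons (P.cons (P.lf 408716456 0 0) (P.cons (P.lf 0 76739326 0) (P.cons (P.lf 0 6137150 0) (P.cons (P.lf 1623188 0 0) (P.cons (P.lf 0 2185 0) P.nil))))) (P.cons (P.cons (P.lf 0 180274287 0) (P.cons (P.lf 16178323 0 0) (P.cons (P.lf 1917319 0 0) (P.cons (P.lf 0 181618 0) P.nil)))) (P.cons (P.cons (P.lf 0 19638824 0) (P.cons (P.lf 4039080 0 0) (P.cons (P.lf 366648 0 0) P.nil))) (P.cons (P.cons (P.lf 9908417 0 0) (P.cons (P.lf 0 632095 0) P.nil)) (P.cons (P.cons (P.lf 556661 0 0) P.nil) P.nil)))))) 1527912)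
 (EL.cons 9 (TM.mk (P.cons (P.cons (P.lf 969833581 0 0) (P.cons (P.lf 0 180277597 0) (P.cons (P.lf 0 14836813 0) (P.cons (P.lf 3705250 0 0) (P.cons (P.lf 0 4920 0) (P.cons (P.lf 0 18522 0) P.nil)))))) (P.cons (P.cons (P.lf 624901516 0 0) (P.cons (P.lf 0 101897304 0) (P.cons (P.lf 0 9048928 0) (P.cons (P.lf 1923598 0 0) (P.cons (P.lf 0 2391 0) P.nil))))) (P.cons (P.cons (P.lf 21820173 0 0) (P.cons (P.lf 0 7554172 0) (P.cons (P.lf 0 406707 0) (P.cons (P.lf 210631 0 0) P.nil)))) (P.cons (P.cons (P.lf 0 36735342 0) (P.cons (P.lf 3204528 0 0) (P.cons (P.lf 372628 0 0) P.nil))) (P.cons (P.cons (P.lf 0 1518867 0) (P.cons (P.lf 482121 0 0) P.nil)) (P.cons (P.cons (P.lf 759235 0 0) P.nil) P.nil)))))) 413584)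
 (EL.cons 2 (TM.mk (P.cons (P.cons (P.lf 458723120 0 0) (P.cons (P.lf 88320189 0 0) (P.cons (P.lf 0 27456665 0) (P.cons (P.lf 0 950962 0) (P.cons (P.lf 316068 0 0) (P.cons (P.lf 0 2981 0) P.nil)))))) (P.cons (P.cons (P.lf 147091415 0 0) (P.cons (P.lf 31693258 0 0) (P.cons (P.lf 0 7406814 0) (P.cons (P.lf 0 281913 0) (P.cons (P.lf 78952 0 0) P.nil))))) (P.cons (P.cons (P.lf 0 37145795 0) (P.cons (P.lf 0 9070953 0) (P.cons (P.lf 1428361 0 0) (P.cons (P.lf 63905 0 0) P.nil)))) (P.cons (P.cons (P.lf 0 9687223 0) (P.cons (P.lf 0 2099947 0) (P.cons (P.lf 482546 0 0) P.nil))) (P.cons (P.cons (P.lf 670224 0 0) (P.cons (P.lf 219470 0 0) P.nil)) (P.cons (P.cons (P.lf 256128 0 0) P.nil) P.nil)))))) 307040)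
 (EL.cons 6 (TM.mk (P.cons (P.cons (P.lf 388633968 0 0) (P.cons (P.lf 74825580 0 0) (P.cons (P.lf 0 23261508 0) (P.cons (P.lf 0 805662 0) (P.cons (P.lf 267774 0 0) (P.cons (P.lf 0 2526 0) P.nil)))))) (P.cons (P.cons (P.lf 219665418 0 0) (P.cons (P.lf 45150912 0 0) (P.cons (P.lf 0 11964186 0) (P.cons (P.lf 0 435876 0) (P.cons (P.lf 132378 0 0) P.nil))))) (P.cons (P.cons (P.lf 16284930 0 0) (P.cons (P.lf 2208444 0 0) (P.cons (P.lf 0 1358718 0) (P.cons (P.lf 0 40080 0) P.nil)))) (P.cons (P.cons (P.lf 0 6908166 0) (P.cons (P.lf 0 1799598 0) (P.cons (P.lf 218976 0 0) P.nil))) (P.cons (P.cons (P.lf 0 1039338 0) (P.cons (P.lf 0 219018 0) P.nil)) (P.cons (P.cons (P.lf 71010 0 0) P.nil) P.nil)))))) 227856)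
 EL.nil))))))
noncomputable def S169_198_290_364_3 : EL := (EL.cons 0 (TM.mk (P.cons (P.lf 2000791209 0 0) (P.cons (P.lf 0 654467131 0) (P.cons (P.lf 15080835 0 0) (P.cons (P.lf 7271133 0 0) (P.cons (P.lf 199596 0 0) (P.cons (P.lf 0 35412 0) P.nil)))))) 3454)
 (EL.cons 1 (TM.mk (P.cons (P.lf 1695086628 0 0) (P.cons (P.lf 0 139901857 0) (P.cons (P.lf 0 47471786 0) (P.cons (P.lf 0 293435 0) (P.cons (P.lf 328029 0 0) (P.cons (P.lf 15684 0 0) P.nil)))))) 1940)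
 (EL.cons 5 (TM.mk (P.cons (P.lf 1436091214 0 0) (P.cons (P.lf 232699422 0 0) (P.cons (P.lf 0 5362070 0) (P.cons (P.lf 0 2585292 0) (P.cons (P.lf 0 70970 0) (P.cons (P.lf 12590 0 0) P.nil)))))) 1162)
 EL.nil)))
noncomputable def S169_198_290_364_4 : EL := (EL.cons 0 (TM.mk (P.cons (P.cons (P.lf 776291479 0 0) (P.cons (P.lf 0 72150503 0) (P.cons (P.lf 0 9290898 0) (P.lf 619391 0 0)))) (P.cons (P.cons (P.lf 0 3830769 0) (P.cons (P.lf 6064189 0 0) (P.cons (P.lf 780892 0 0) (P.lf 0 52057 0)))) (P.cons (P.cons (P.lf 0 107510679 0) (P.cons (P.lf 4886147 0 0) (P.cons (P.lf 629193 0 0) (P.lf 0 41944 0)))) (P.cons (P.cons (P.lf 10491254 0 0) (P.cons (P.lf 0 47438 0) (P.cons (P.lf 0 6110 0) P.nil))) (P.cons (P.cons (P.lf 2444707 0 0) (P.cons (P.lf 0 135687 0) P.nil)) (P.cons (P.cons (P.lf 0 156048 0) P.nil) P.nil)))))) 103475)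
 (EL.cons 1 (TM.mk (P.cons (P.cons (P.lf 657680471 0 0) (P.cons (P.lf 0 61126494 0) (P.cons (P.lf 0 7871325 0) (P.lf 524752 0 0)))) (P.cons (P.cons (P.lf 157603723 0 0) (P.cons (P.lf 0 9812100 0) (P.cons (P.lf 0 1263513 0) (P.lf 84232 0 0)))) (P.cons (P.cons (P.lf 0 62639139 0) (P.cons (P.lf 2678593 0 0) (P.cons (P.lf 344923 0 0) (P.lf 0 22993 0)))) (P.cons (P.cons (P.lf 0 7684732 0) (P.cons (P.lf 657131 0 0) (P.cons (P.lf 84616 0 0) P.nil))) (P.cons (P.cons (P.lf 1336350 0 0) (P.cons (P.lf 0 3768 0) P.nil)) (P.cons (P.cons (P.lf 187762 0 0) P.nil) P.nil)))))) 68503)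
 (EL.cons 5 (TM.mk (P.cons (P.cons (P.lf 557192258 0 0) (P.cons (P.lf 0 51786864 0) (P.cons (P.lf 0 6668650 0) (P.lf 444574 0 0)))) (P.cons (P.cons (P.lf 269795898 0 0) (P.cons (P.lf 0 20978424 0) (P.cons (P.lf 0 2701414 0) (P.lf 180092 0 0)))) (P.cons (P.cons (P.lf 4358540 0 0) (P.cons (P.lf 0 2066050 0) (P.cons (P.lf 0 266046 0) (P.lf 17736 0 0)))) (P.cons (P.cons (P.lf 0 8599256 0) (P.cons (P.lf 281712 0 0) (P.cons (P.lf 36274 0 0) P.nil))) (P.cons (P.cons (P.lf 0 641332 0) (P.cons (P.lf 67846 0 0) P.nil)) (P.cons (P.cons (P.lf 110288 0 0) P.nil) P.nil)))))) 46712)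
 EL.nil)))
noncomputable def S169_198_290_364_5 : EL := (EL.cons 0 (TM.mk (P.cons (P.cons (P.lf 301195075 0 0) (P.cons (P.lf 0 55987671 0) (P.cons (P.lf 0 4607775 0) (P.cons (P.lf 1150715 0 0) (P.cons (P.lf 0 1527 0) (P.cons (P.lf 0 5751 0) P.nil)))))) (P.cons (P.cons (P.lf 95549544 0 0) (P.cons (P.lf 0 13331798 0) (P.cons (P.lf 0 1303045 0) (P.cons (P.lf 220995 0 0) (P.cons (P.lf 0 242 0) P.nil))))) (P.cons (P.cons (P.lf 0 54434870 0) (P.cons (P.lf 7583352 0 0) (P.cons (P.lf 758209 0 0) (P.cons (P.lf 0 121322 0) P.nil)))) (P.cons (P.cons (P.lf 0 11067915 0) (P.cons (P.lf 1320619 0 0) (P.cons (P.lf 119112 0 0) P.nil))) (P.cons (P.cons (P.lf 4046521 0 0) (P.cons (P.lf 0 314080 0) P.nil)) (P.cons (P.cons (P.lf 342750 0 0) P.nil) P.nil)))))) 467659)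
 (EL.cons 1 (TM.mk (P.cons (P.cons (P.lf 255174924 0 0) (P.cons (P.lf 0 47433211 0) (P.cons (P.lf 0 3903744 0) (P.cons (P.lf 974895 0 0) (P.cons (P.lf 0 1293 0) (P.cons (P.lf 0 4871 0) P.nil)))))) (P.cons (P.cons (P.lf 143358588 0 0) (P.cons (P.lf 0 22895568 0) (P.cons (P.lf 0 2058690 0) (P.cons (P.lf 425658 0 0) (P.cons (P.lf 0 521 0) P.nil))))) (P.cons (P.cons (P.lf 0 14975283 0) (P.cons (P.lf 1553559 0 0) (P.cons (P.lf 198819 0 0) (P.cons (P.lf 0 13653 0) P.nil)))) (P.cons (P.cons (P.lf 0 14788166 0) (P.cons (P.lf 1766242 0 0) (P.cons (P.lf 174226 0 0) P.nil))) (P.cons (P.cons (P.lf 258232 0 0) (P.cons (P.lf 108388 0 0) P.nil)) (P.cons (P.cons (P.lf 536619 0 0) P.nil) P.nil)))))) 331983)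
 (EL.cons 5 (TM.mk (P.cons (P.cons (P.lf 216186276 0 0) (P.cons (P.lf 0 40185802 0) (P.cons (P.lf 0 3307282 0) (P.cons (P.lf 825938 0 0) (P.cons (P.lf 0 1096 0) (P.cons (P.lf 0 4128 0) P.nil)))))) (P.cons (P.cons (P.lf 174327332 0 0) (P.cons (P.lf 0 29225570 0) (P.cons (P.lf 0 2553002 0) (P.cons (P.lf 562622 0 0) (P.cons (P.lf 0 710 0) P.nil))))) (P.cons (P.cons (P.lf 26628012 0 0) (P.cons (P.lf 0 5214360 0) (P.cons (P.lf 0 405154 0) (P.cons (P.lf 113346 0 0) P.nil)))) (P.cons (P.cons (P.lf 0 8309854 0) (P.cons (P.lf 598620 0 0) (P.cons (P.lf 81856 0 0) P.nil))) (P.cons (P.cons (P.lf 0 1945052 0) (P.cons (P.lf 272380 0 0) P.nil)) (P.cons (P.cons (P.lf 131210 0 0) P.nil) P.nil)))))) 233216)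
 EL.nil)))
noncomputable def S169_198_290_364_6 : EL := (EL.cons 12 (TM.mk (P.lf 8589934592 0 0) 0)
 (EL.cons 3 (TM.mk (P.cons (P.lf 0 2072840178 0) (P.cons (P.lf 339017325 0 0) (P.cons (P.lf 19911543 0 0) (P.cons (P.lf 0 509910 0) (P.cons (P.lf 0 91155 0) (P.cons (P.lf 0 1462 0) P.nil)))))) 487)
 (EL.cons 7 (TM.mk (P.cons (P.lf 0 1756127103 0) (P.cons (P.lf 0 142278485 0) (P.cons (P.lf 9042093 0 0) (P.cons (P.lf 848140 0 0) (P.cons (P.lf 0 2043 0) (P.cons (P.lf 0 3166 0) P.nil)))))) 195)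
 EL.nil)))
noncomputable def S169_198_290_364_7 : EL := (EL.cons 12 (TM.mk (P.cons (P.cons (P.lf 3332828036 0 0) (P.cons (P.lf 0 309761512 0) (P.cons (P.lf 0 39888328 0) (P.lf 2659216 0 0)))) (P.cons (P.cons (P.lf 1073735398 0 0) (P.cons (P.lf 0 75289080 0) (P.cons (P.lf 0 9695056 0) (P.lf 646336 0 0)))) (P.cons (P.cons (P.lf 0 135469918 0) (P.cons (P.lf 0 1315016 0) (P.cons (P.lf 0 169336 0) (P.lf 11288 0 0)))) (P.cons (P.cons (P.lf 0 19476136 0) (P.cons (P.lf 1059384 0 0) (P.cons (P.lf 136408 0 0) P.nil))) (P.cons (P.cons (P.lf 911594 0 0) (P.cons (P.lf 78408 0 0) P.nil)) (P.cons (P.cons (P.lf 219220 0 0) P.nil) P.nil)))))) 56018)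
 (EL.cons 3 (TM.mk (P.cons (P.cons (P.lf 2393838676 0 0) (P.cons (P.lf 0 149497320 0) (P.cons (P.lf 0 19250932 0) (P.lf 1283392 0 0)))) (P.cons (P.cons (P.lf 0 792012651 0) (P.cons (P.lf 0 11885470 0) (P.cons (P.lf 0 1530504 0) (P.lf 102030 0 0)))) (P.cons (P.cons (P.lf 0 141456130 0) (P.cons (P.lf 6744244 0 0) (P.cons (P.lf 868462 0 0) (P.lf 0 57896 0)))) (P.cons (P.cons (P.lf 8345183 0 0) (P.cons (P.lf 927344 0 0) (P.cons (P.lf 119408 0 0) P.nil))) (P.cons (P.cons (P.lf 3122884 0 0) (P.cons (P.lf 0 55194 0) P.nil)) (P.cons (P.cons (P.lf 75316 0 0) P.nil) P.nil)))))) 192404)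
 (EL.cons 7 (TM.mk (P.cons (P.cons (P.lf 0 2023532974 0) (P.cons (P.lf 157439034 0 0) (P.cons (P.lf 20273603 0 0) (P.lf 0 1351574 0)))) (P.cons (P.cons (P.lf 332391154 0 0) (P.cons (P.lf 4988086 0 0) (P.cons (P.lf 642323 0 0) (P.lf 0 42823 0)))) (P.cons (P.cons (P.lf 18719663 0 0) (P.cons (P.lf 0 3440385 0) (P.cons (P.lf 0 443021 0) (P.lf 29533 0 0)))) (P.cons (P.cons (P.lf 0 11480185 0) (P.cons (P.lf 97838 0 0) (P.cons (P.lf 12596 0 0) P.nil))) (P.cons (P.cons (P.lf 0 359787 0) (P.cons (P.lf 70605 0 0) P.nil)) (P.cons (P.cons (P.lf 160209 0 0) P.nil) P.nil)))))) 123269)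
 (EL.cons 10 (TM.mk (P.cons (P.cons (P.lf 0 1224874602 0) (P.cons (P.lf 0 349674018 0) (P.cons (P.lf 26155053 0 0) (P.cons (P.lf 1762467 0 0) (P.lf 0 88122 0))))) (P.cons (P.cons (P.lf 0 198474588 0) (P.cons (P.lf 0 56660007 0) (P.cons (P.lf 4238076 0 0) (P.cons (P.lf 285582 0 0) (P.lf 0 14277 0))))) (P.cons (P.cons (P.lf 4573428 0 0) (P.cons (P.lf 1305609 0 0) (P.cons (P.lf 0 97656 0) (P.cons (P.lf 0 6579 0) P.nil)))) (P.cons (P.cons (P.lf 2205051 0 0) (P.cons (P.lf 629493 0 0) (P.cons (P.lf 0 47085 0) P.nil))) (P.cons (P.cons (P.lf 60531 0 0) (P.cons (P.lf 17280 0 0) P.nil)) (P.cons (P.cons (P.lf 0 10737 0) P.nil) P.nil)))))) 9759)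
 EL.nil))))
noncomputable def S169_198_290_364_8 : EL := (EL.cons 12 (TM.mk (P.cons (P.cons (P.lf 1293111442 0 0) (P.cons (P.lf 0 240370130 0) (P.cons (P.lf 0 19782418 0) (P.cons (P.lf 4940334 0 0) (P.cons (P.lf 0 6560 0) (P.cons (P.lf 0 24696 0) P.nil)))))) (P.cons (P.cons (P.lf 833202022 0 0) (P.cons (P.lf 0 135863072 0) (P.cons (P.lf 0 12065238 0) (P.cons (P.lf 2564798 0 0) (P.cons (P.lf 0 3188 0) P.nil))))) (P.cons (P.cons (P.lf 29093564 0 0) (P.cons (P.lf 0 10072230 0) (P.cons (P.lf 0 542276 0) (P.cons (P.lf 280842 0 0) P.nil)))) (P.cons (P.cons (P.lf 0 48980456 0) (P.cons (P.lf 4272704 0 0) (P.cons (P.lf 496838 0 0) P.nil))) (P.cons (P.cons (P.lf 0 2025156 0) (P.cons (P.lf 642828 0 0) P.nil)) (P.cons (P.cons (P.lf 1012314 0 0) P.nil) P.nil)))))) 551416)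
 (EL.cons 3 (TM.mk (P.cons (P.cons (P.lf 2169622880 0 0) (P.cons (P.lf 0 346659768 0) (P.cons (P.lf 0 31162200 0) (P.cons (P.lf 6447011 0 0) (P.cons (P.lf 0 7916 0) (P.cons (P.lf 0 29796 0) P.nil)))))) (P.cons (P.cons (P.lf 133891841 0 0) (P.cons (P.lf 0 54737099 0) (P.cons (P.lf 0 2701263 0) (P.cons (P.lf 1589506 0 0) (P.cons (P.lf 0 2550 0) P.nil))))) (P.cons (P.cons (P.lf 0 412135811 0) (P.cons (P.lf 33819008 0 0) (P.cons (P.lf 4064546 0 0) (P.cons (P.lf 0 365105 0) P.nil)))) (P.cons (P.cons (P.lf 0 29584313 0) (P.cons (P.lf 7898437 0 0) (P.cons (P.lf 744148 0 0) P.nil))) (P.cons (P.cons (P.lf 14511069 0 0) (P.cons (P.lf 0 482187 0) P.nil)) (P.cons (P.cons (P.lf 1620009 0 0) P.nil) P.nil)))))) 1673796)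
 (EL.cons 7 (TM.mk (P.cons (P.cons (P.lf 0 1305866376 0) (P.cons (P.lf 218970141 0 0) (P.cons (P.lf 19125871 0 0) (P.cons (P.lf 0 4216000 0) (P.cons (P.lf 5325 0 0) (P.cons (P.lf 20054 0 0) P.nil)))))) (P.cons (P.cons (P.lf 0 56191612 0) (P.cons (P.lf 22972023 0 0) (P.cons (P.lf 1133668 0 0) (P.cons (P.lf 0 667088 0) (P.cons (P.lf 1066 0 0) P.nil))))) (P.cons (P.cons (P.lf 179836187 0 0) (P.cons (P.lf 0 17002266 0) (P.cons (P.lf 0 1844434 0) (P.cons (P.lf 234800 0 0) P.nil)))) (P.cons (P.cons (P.lf 0 16073108 0) (P.cons (P.lf 0 883065 0) (P.cons (P.lf 0 28381 0) P.nil))) (P.cons (P.cons (P.lf 0 7014314 0) (P.cons (P.lf 691214 0 0) P.nil)) (P.cons (P.cons (P.lf 501630 0 0) P.nil) P.nil)))))) 932119)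
 (EL.cons 10 (TM.mk (P.cons (P.cons (P.lf 0 950483700 0) (P.cons (P.lf 0 183001242 0) (P.cons (P.lf 56890776 0 0) (P.cons (P.lf 1970412 0 0) (P.cons (P.lf 0 654900 0) (P.cons (P.lf 6180 0 0) P.nil)))))) (P.cons (P.cons (P.lf 0 460230018 0) (P.cons (P.lf 0 95599320 0) (P.cons (P.lf 24651678 0 0) (P.cons (P.lf 906396 0 0) (P.cons (P.lf 0 270702 0) P.nil))))) (P.cons (P.cons (P.lf 0 7434996 0) (P.cons (P.lf 1401834 0 0) (P.cons (P.lf 1618722 0 0) (P.cons (P.lf 34746 0 0) P.nil)))) (P.cons (P.cons (P.lf 14668998 0 0) (P.cons (P.lf 3707106 0 0) (P.cons (P.lf 0 512298 0) P.nil))) (P.cons (P.cons (P.lf 1094010 0 0) (P.cons (P.lf 196578 0 0) P.nil)) (P.cons (P.cons (P.lf 0 188130 0) P.nil) P.nil)))))) 353994)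
 EL.nil))))
noncomputable def S169_198_290_364_9 : EL := (EL.cons 3 (TM.mk (P.cons (P.lf 0 2072840178 0) (P.cons (P.lf 339017325 0 0) (P.cons (P.lf 19911543 0 0) (P.cons (P.lf 0 509910 0) (P.cons (P.lf 0 91155 0) (P.cons (P.lf 0 1462 0) P.nil)))))) 487)
 (EL.cons 7 (TM.mk (P.cons (P.lf 0 1756127103 0) (P.cons (P.lf 0 142278485 0) (P.cons (P.lf 9042093 0 0) (P.cons (P.lf 848140 0 0) (P.cons (P.lf 0 2043 0) (P.cons (P.lf 0 3166 0) P.nil)))))) 195)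
 EL.nil))
noncomputable def S169_198_290_364_10 : EL := (EL.cons 3 (TM.mk (P.cons (P.cons (P.lf 0 804245921 0) (P.cons (P.lf 74748660 0 0) (P.cons (P.lf 9625466 0 0) (P.lf 0 641696 0)))) (P.cons (P.cons (P.lf 0 127567377 0) (P.cons (P.lf 5942735 0 0) (P.cons (P.lf 765252 0 0) (P.lf 0 51015 0)))) (P.cons (P.cons (P.lf 82792730 0 0) (P.cons (P.lf 0 3372122 0) (P.cons (P.lf 0 434231 0) (P.lf 28948 0 0)))) (P.cons (P.cons (P.lf 1644314 0 0) (P.cons (P.lf 0 463672 0) (P.cons (P.lf 0 59704 0) P.nil))) (P.cons (P.cons (P.lf 0 1401764 0) (P.cons (P.lf 27597 0 0) P.nil)) (P.cons (P.cons (P.lf 0 65987 0) P.nil) P.nil)))))) 46735)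
 (EL.cons 7 (TM.mk (P.cons (P.cons (P.lf 0 681363703 0) (P.cons (P.lf 63327675 0 0) (P.cons (P.lf 8154773 0 0) (P.lf 0 543650 0)))) (P.cons (P.cons (P.lf 0 274717523 0) (P.cons (P.lf 20522809 0 0) (P.cons (P.lf 2642744 0 0) (P.lf 0 176182 0)))) (P.cons (P.cons (P.lf 13419041 0 0) (P.cons (P.lf 1189818 0 0) (P.cons (P.lf 153214 0 0) (P.lf 0 10214 0)))) (P.cons (P.cons (P.lf 7684871 0 0) (P.cons (P.lf 0 304636 0) (P.cons (P.lf 0 39226 0) P.nil))) (P.cons (P.cons (P.lf 98847 0 0) (P.cons (P.lf 0 42321 0) P.nil)) (P.cons (P.cons (P.lf 0 95277 0) P.nil) P.nil)))))) 27631)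
 EL.nil))
noncomputable def S169_198_290_364_11 : EL := (EL.cons 3 (TM.mk (P.cons (P.cons (P.lf 0 312041182 0) (P.cons (P.lf 58003800 0 0) (P.cons (P.lf 4773702 0 0) (P.cons (P.lf 0 1192153 0) (P.cons (P.lf 1582 0 0) (P.cons (P.lf 5958 0 0) P.nil)))))) (P.cons (P.cons (P.lf 0 150025291 0) (P.cons (P.lf 23298523 0 0) (P.cons (P.lf 2130717 0 0) (P.cons (P.lf 0 423932 0) (P.cons (P.lf 510 0 0) P.nil))))) (P.cons (P.cons (P.lf 28860691 0 0) (P.cons (P.lf 0 3488728 0) (P.cons (P.lf 0 391174 0) (P.cons (P.lf 44905 0 0) P.nil)))) (P.cons (P.cons (P.lf 14822329 0 0) (P.cons (P.lf 0 1729229 0) (P.cons (P.lf 0 168086 0) P.nil))) (P.cons (P.cons (P.lf 0 1440153 0) (P.cons (P.lf 777 0 0) P.nil)) (P.cons (P.cons (P.lf 0 448533 0) P.nil) P.nil)))))) 289310)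
 (EL.cons 7 (TM.mk (P.cons (P.cons (P.lf 0 264363834 0) (P.cons (P.lf 49141293 0 0) (P.cons (P.lf 4044319 0 0) (P.cons (P.lf 0 1010002 0) (P.cons (P.lf 1341 0 0) (P.cons (P.lf 5048 0 0) P.nil)))))) (P.cons (P.cons (P.lf 0 191758222 0) (P.cons (P.lf 31757205 0 0) (P.cons (P.lf 2794282 0 0) (P.cons (P.lf 0 606176 0) (P.cons (P.lf 760 0 0) P.nil))))) (P.cons (P.cons (P.lf 0 18387367 0) (P.cons (P.lf 4056498 0 0) (P.cons (P.lf 289880 0 0) (P.cons (P.lf 0 94696 0) P.nil)))) (P.cons (P.cons (P.lf 10536418 0 0) (P.cons (P.lf 0 873429 0) (P.cons (P.lf 0 107245 0) P.nil))) (P.cons (P.cons (P.lf 1337890 0 0) (P.cons (P.lf 0 226150 0) P.nil)) (P.cons (P.cons (P.lf 0 222774 0) P.nil) P.nil)))))) 185079)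
 EL.nil))
noncomputable def S169_198_290_364_12 : EL := (EL.cons 4 (TM.mk (P.cons (P.lf 2072840178 0 0) (P.cons (P.lf 0 339017325 0) (P.cons (P.lf 0 19911543 0) (P.cons (P.lf 509910 0 0) (P.cons (P.lf 91155 0 0) (P.cons (P.lf 1462 0 0) P.nil)))))) 487)
 (EL.cons 8 (TM.mk (P.cons (P.lf 1756127103 0 0) (P.cons (P.lf 142278485 0 0) (P.cons (P.lf 0 9042093 0) (P.cons (P.lf 0 848140 0) (P.cons (P.lf 2043 0 0) (P.cons (P.lf 3166 0 0) P.nil)))))) 195)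
 EL.nil))
noncomputable def S169_198_290_364_13 : EL := (EL.cons 4 (TM.mk (P.cons (P.cons (P.lf 804245921 0 0) (P.cons (P.lf 0 74748660 0) (P.cons (P.lf 0 9625466 0) (P.lf 641696 0 0)))) (P.cons (P.cons (P.lf 127567377 0 0) (P.cons (P.lf 0 5942735 0) (P.cons (P.lf 0 765252 0) (P.lf 51015 0 0)))) (P.cons (P.cons (P.lf 0 82792730 0) (P.cons (P.lf 3372122 0 0) (P.cons (P.lf 434231 0 0) (P.lf 0 28948 0)))) (P.cons (P.cons (P.lf 0 1644314 0) (P.cons (P.lf 463672 0 0) (P.cons (P.lf 59704 0 0) P.nil))) (P.cons (P.cons (P.lf 1401764 0 0) (P.cons (P.lf 0 27597 0) P.nil)) (P.cons (P.cons (P.lf 65987 0 0) P.nil) P.nil)))))) 46735)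
 (EL.cons 8 (TM.mk (P.cons (P.cons (P.lf 681363703 0 0) (P.cons (P.lf 0 63327675 0) (P.cons (P.lf 0 8154773 0) (P.lf 543650 0 0)))) (P.cons (P.cons (P.lf 274717523 0 0) (P.cons (P.lf 0 20522809 0) (P.cons (P.lf 0 2642744 0) (P.lf 176182 0 0)))) (P.cons (P.cons (P.lf 0 13419041 0) (P.cons (P.lf 0 1189818 0) (P.cons (P.lf 0 153214 0) (P.lf 10214 0 0)))) (P.cons (P.cons (P.lf 0 7684871 0) (P.cons (P.lf 304636 0 0) (P.cons (P.lf 39226 0 0) P.nil))) (P.cons (P.cons (P.lf 0 98847 0) (P.cons (P.lf 42321 0 0) P.nil)) (P.cons (P.cons (P.lf 95277 0 0) P.nil) P.nil)))))) 27631)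
 EL.nil))
noncomputable def S169_198_290_364_14 : EL := (EL.cons 4 (TM.mk (P.cons (P.cons (P.lf 312041182 0 0) (P.cons (P.lf 0 58003800 0) (P.cons (P.lf 0 4773702 0) (P.cons (P.lf 1192153 0 0) (P.cons (P.lf 0 1582 0) (P.cons (P.lf 0 5958 0) P.nil)))))) (P.cons (P.cons (P.lf 150025291 0 0) (P.cons (P.lf 0 23298523 0) (P.cons (P.lf 0 2130717 0) (P.cons (P.lf 423932 0 0) (P.cons (P.lf 0 510 0) P.nil))))) (P.cons (P.cons (P.lf 0 28860691 0) (P.cons (P.lf 3488728 0 0) (P.cons (P.lf 391174 0 0) (P.cons (P.lf 0 44905 0) P.nil)))) (P.cons (P.cons (P.lf 0 14822329 0) (P.cons (P.lf 1729229 0 0) (P.cons (P.lf 168086 0 0) P.nil))) (P.cons (P.cons (P.lf 1440153 0 0) (P.cons (P.lf 0 777 0) P.nil)) (P.cons (P.cons (P.lf 448533 0 0) P.nil) P.nil)))))) 289310)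
 (EL.cons 8 (TM.mk (P.cons (P.cons (P.lf 264363834 0 0) (P.cons (P.lf 0 49141293 0) (P.cons (P.lf 0 4044319 0) (P.cons (P.lf 1010002 0 0) (P.cons (P.lf 0 1341 0) (P.cons (P.lf 0 5048 0) P.nil)))))) (P.cons (P.cons (P.lf 191758222 0 0) (P.cons (P.lf 0 31757205 0) (P.cons (P.lf 0 2794282 0) (P.cons (P.lf 606176 0 0) (P.cons (P.lf 0 760 0) P.nil))))) (P.cons (P.cons (P.lf 18387367 0 0) (P.cons (P.lf 0 4056498 0) (P.cons (P.lf 0 289880 0) (P.cons (P.lf 94696 0 0) P.nil)))) (P.cons (P.cons (P.lf 0 10536418 0) (P.cons (P.lf 873429 0 0) (P.cons (P.lf 107245 0 0) P.nil))) (P.cons (P.cons (P.lf 0 1337890 0) (P.cons (P.lf 226150 0 0) P.nil)) (P.cons (P.cons (P.lf 222774 0 0) P.nil) P.nil)))))) 185079)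
 EL.nil))
noncomputable def S169_198_290_364_15 : EL := (EL.cons 4 (TM.mk (P.cons (P.lf 0 1067088645 0) (P.cons (P.lf 349049136 0 0) (P.cons (P.lf 0 8043112 0) (P.cons (P.lf 0 3877937 0) (P.cons (P.lf 0 106451 0) (P.cons (P.lf 18886 0 0) P.nil)))))) 1845)
 (EL.cons 8 (TM.mk (P.cons (P.lf 0 904046202 0) (P.cons (P.lf 74614324 0 0) (P.cons (P.lf 25318286 0 0) (P.cons (P.lf 156499 0 0) (P.cons (P.lf 0 174949 0) (P.cons (P.lf 0 8365 0) P.nil)))))) 1031)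
 EL.nil))
noncomputable def S169_198_290_364_16 : EL := (EL.cons 4 (TM.mk (P.cons (P.cons (P.lf 0 414022122 0) (P.cons (P.lf 38480268 0 0) (P.cons (P.lf 4955145 0 0) (P.lf 0 330342 0)))) (P.cons (P.cons (P.lf 2043076 0 0) (P.cons (P.lf 0 3234234 0) (P.cons (P.lf 0 416475 0) (P.lf 27764 0 0)))) (P.cons (P.cons (P.lf 57339029 0 0) (P.cons (P.lf 0 2605945 0) (P.cons (P.lf 0 335569 0) (P.lf 22370 0 0)))) (P.cons (P.cons (P.lf 0 5595335 0) (P.cons (P.lf 25300 0 0) (P.cons (P.lf 3258 0 0) P.nil))) (P.cons (P.cons (P.lf 0 1303844 0) (P.cons (P.lf 72366 0 0) P.nil)) (P.cons (P.cons (P.lf 83225 0 0) P.nil) P.nil)))))) 55195)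
 (EL.cons 8 (TM.mk (P.cons (P.cons (P.lf 0 350762918 0) (P.cons (P.lf 32600797 0 0) (P.cons (P.lf 4198040 0 0) (P.lf 0 279868 0)))) (P.cons (P.cons (P.lf 0 84055319 0) (P.cons (P.lf 5233120 0 0) (P.cons (P.lf 673874 0 0) (P.lf 0 44924 0)))) (P.cons (P.cons (P.lf 33407541 0 0) (P.cons (P.lf 0 1428583 0) (P.cons (P.lf 0 183959 0) (P.lf 12263 0 0)))) (P.cons (P.cons (P.lf 4098524 0 0) (P.cons (P.lf 0 350470 0) (P.cons (P.lf 0 45129 0) P.nil))) (P.cons (P.cons (P.lf 0 712720 0) (P.cons (P.lf 2010 0 0) P.nil)) (P.cons (P.cons (P.lf 0 100140 0) P.nil) P.nil)))))) 36525)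
 EL.nil))
noncomputable def S169_198_290_364_17 : EL := (EL.cons 4 (TM.mk (P.cons (P.cons (P.lf 0 160637373 0) (P.cons (P.lf 29860091 0 0) (P.cons (P.lf 2457480 0 0) (P.cons (P.lf 0 613714 0) (P.cons (P.lf 814 0 0) (P.cons (P.lf 3067 0 0) P.nil)))))) (P.cons (P.cons (P.lf 0 50959756 0) (P.cons (P.lf 7110292 0 0) (P.cons (P.lf 694957 0 0) (P.cons (P.lf 0 117864 0) (P.cons (P.lf 129 0 0) P.nil))))) (P.cons (P.cons (P.lf 29031930 0 0) (P.cons (P.lf 0 4044454 0) (P.cons (P.lf 0 404378 0) (P.cons (P.lf 64705 0 0) P.nil)))) (P.cons (P.cons (P.lf 5902888 0 0) (P.cons (P.lf 0 704330 0) (P.cons (P.lf 0 63526 0) P.nil))) (P.cons (P.cons (P.lf 0 2158144 0) (P.cons (P.lf 167509 0 0) P.nil)) (P.cons (P.cons (P.lf 0 182800 0) P.nil) P.nil)))))) 249428)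
 (EL.cons 8 (TM.mk (P.cons (P.cons (P.lf 0 136093293 0) (P.cons (P.lf 25297713 0 0) (P.cons (P.lf 2081997 0 0) (P.cons (P.lf 0 519944 0) (P.cons (P.lf 690 0 0) (P.cons (P.lf 2598 0 0) P.nil)))))) (P.cons (P.cons (P.lf 0 76457914 0) (P.cons (P.lf 12210970 0 0) (P.cons (P.lf 1097968 0 0) (P.cons (P.lf 0 227018 0) (P.cons (P.lf 278 0 0) P.nil))))) (P.cons (P.cons (P.lf 7986818 0 0) (P.cons (P.lf 0 828565 0) (P.cons (P.lf 0 106037 0) (P.cons (P.lf 7282 0 0) P.nil)))) (P.cons (P.cons (P.lf 7887022 0 0) (P.cons (P.lf 0 941996 0) (P.cons (P.lf 0 92921 0) P.nil))) (P.cons (P.cons (P.lf 0 137724 0) (P.cons (P.lf 0 57807 0) P.nil)) (P.cons (P.cons (P.lf 0 286197 0) P.nil) P.nil)))))) 177046)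
 EL.nil))
noncomputable def S169_198_290_364_18 : EL := (EL.cons 4 (TM.mk (P.cons (P.lf 549332354 0 0) (P.cons (P.lf 0 269533349 0) (P.cons (P.lf 28252205 0 0) (P.cons (P.lf 3180359 0 0) (P.cons (P.lf 0 331524 0) (P.cons (P.lf 0 44357 0) P.nil)))))) 4415)
 (EL.cons 8 (TM.mk (P.cons (P.lf 465398850 0 0) (P.cons (P.lf 0 114528063 0) (P.cons (P.lf 0 11222106 0) (P.cons (P.lf 2534590 0 0) (P.cons (P.lf 239457 0 0) (P.cons (P.lf 0 14216 0) P.nil)))))) 3029)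
 EL.nil))
noncomputable def S169_198_290_364_19 : EL := (EL.cons 4 (TM.mk (P.cons (P.cons (P.lf 213136695 0 0) (P.cons (P.lf 0 19809465 0) (P.cons (P.lf 0 2550885 0) (P.lf 170057 0 0)))) (P.cons (P.cons (P.lf 0 35910716 0) (P.cons (P.lf 4904848 0 0) (P.cons (P.lf 631602 0 0) (P.lf 0 42105 0)))) (P.cons (P.cons (P.lf 0 31393226 0) (P.cons (P.lf 1259507 0 0) (P.cons (P.lf 162187 0 0) (P.lf 0 10812 0)))) (P.cons (P.cons (P.lf 7770695 0 0) (P.cons (P.lf 0 253300 0) (P.cons (P.lf 0 32618 0) P.nil))) (P.cons (P.cons (P.lf 492769 0 0) (P.cons (P.lf 0 48471 0) P.nil)) (P.cons (P.cons (P.lf 0 187448 0) P.nil) P.nil)))))) 65927)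
 (EL.cons 8 (TM.mk (P.cons (P.cons (P.lf 180571146 0 0) (P.cons (P.lf 0 16782741 0) (P.cons (P.lf 0 2161131 0) (P.lf 144075 0 0)))) (P.cons (P.cons (P.lf 13738507 0 0) (P.cons (P.lf 50865 0 0) (P.cons (P.lf 6550 0 0) (P.lf 0 436 0)))) (P.cons (P.cons (P.lf 0 26009712 0) (P.cons (P.lf 1337248 0 0) (P.cons (P.lf 172198 0 0) (P.lf 0 11479 0)))) (P.cons (P.cons (P.lf 331634 0 0) (P.cons (P.lf 81889 0 0) (P.cons (P.lf 10544 0 0) P.nil))) (P.cons (P.cons (P.lf 895772 0 0) (P.cons (P.lf 0 39008 0) P.nil)) (P.cons (P.cons (P.lf 9610 0 0) P.nil) P.nil)))))) 39215)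
 EL.nil))
noncomputable def S169_198_290_364_20 : EL := (EL.cons 4 (TM.mk (P.cons (P.cons (P.lf 82695385 0 0) (P.cons (P.lf 0 15371837 0) (P.cons (P.lf 0 1265099 0) (P.cons (P.lf 315937 0 0) (P.cons (P.lf 0 419 0) (P.cons (P.lf 0 1578 0) P.nil)))))) (P.cons (P.cons (P.lf 12708847 0 0) (P.cons (P.lf 0 1146249 0) (P.cons (P.lf 0 150851 0) (P.cons (P.lf 9003 0 0) (P.cons (P.lf 1 0 0) P.nil))))) (P.cons (P.cons (P.lf 0 20030471 0) (P.cons (P.lf 2828384 0 0) (P.cons (P.lf 278836 0 0) (P.cons (P.lf 0 46268 0) P.nil)))) (P.cons (P.cons (P.lf 0 826068 0) (P.cons (P.lf 53439 0 0) (P.cons (P.lf 1781 0 0) P.nil))) (P.cons (P.cons (P.lf 1761657 0 0) (P.cons (P.lf 0 167111 0) P.nil)) (P.cons (P.cons (P.lf 0 60875 0) P.nil) P.nil)))))) 222294)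
 (EL.cons 8 (TM.mk (P.cons (P.cons (P.lf 70060204 0 0) (P.cons (P.lf 0 13023146 0) (P.cons (P.lf 0 1071802 0) (P.cons (P.lf 267664 0 0) (P.cons (P.lf 0 355 0) (P.cons (P.lf 0 1337 0) P.nil)))))) (P.cons (P.cons (P.lf 27901692 0 0) (P.cons (P.lf 0 4156188 0) (P.cons (P.lf 0 389933 0) (P.cons (P.lf 73090 0 0) (P.cons (P.lf 0 85 0) P.nil))))) (P.cons (P.cons (P.lf 0 11222010 0) (P.cons (P.lf 1579754 0 0) (P.cons (P.lf 157327 0 0) (P.cons (P.lf 0 25433 0) P.nil)))) (P.cons (P.cons (P.lf 0 3748602 0) (P.cons (P.lf 472354 0 0) (P.cons (P.lf 44073 0 0) P.nil))) (P.cons (P.cons (P.lf 787213 0 0) (P.cons (P.lf 0 55769 0) P.nil)) (P.cons (P.cons (P.lf 175507 0 0) P.nil) P.nil)))))) 147263)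
 EL.nil))
noncomputable def S169_198_290_364_21 : EL := (EL.cons 4 (TM.mk (P.cons (P.cons (P.lf 0 3198084597 0) (P.cons (P.lf 224245980 0 0) (P.cons (P.lf 28876398 0 0) (P.lf 0 1925088 0)))) (P.cons (P.cons (P.lf 664445274 0 0) (P.cons (P.lf 17828205 0 0) (P.cons (P.lf 2295756 0 0) (P.lf 0 153045 0)))) (P.cons (P.cons (P.lf 224248860 0 0) (P.cons (P.lf 0 10116366 0) (P.cons (P.lf 0 1302693 0) (P.lf 86844 0 0)))) (P.cons (P.cons (P.lf 0 6700869 0) (P.cons (P.lf 0 1391016 0) (P.cons (P.lf 0 179112 0) P.nil))) (P.cons (P.cons (P.lf 0 4524648 0) (P.cons (P.lf 82791 0 0) P.nil)) (P.cons (P.cons (P.lf 0 141303 0) P.nil) P.nil)))))) 145650)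
 (EL.cons 8 (TM.mk (P.cons (P.cons (P.lf 1342169271 0 0) (P.cons (P.lf 0 94111359 0) (P.cons (P.lf 0 12118830 0) (P.lf 807924 0 0)))) (P.cons (P.cons (P.lf 0 607108677 0) (P.cons (P.lf 15534723 0 0) (P.cons (P.lf 2000421 0 0) (P.lf 0 133359 0)))) (P.cons (P.cons (P.lf 0 5300622 0) (P.cons (P.lf 4630203 0 0) (P.cons (P.lf 596235 0 0) (P.lf 0 39747 0)))) (P.cons (P.cons (P.lf 19165056 0 0) (P.cons (P.lf 0 402474 0) (P.cons (P.lf 0 51822 0) P.nil))) (P.cons (P.cons (P.lf 458634 0 0) (P.cons (P.lf 0 112926 0) P.nil)) (P.cons (P.cons (P.lf 0 255486 0) P.nil) P.nil)))))) 95619)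
 (EL.cons 11 (TM.mk (P.cons (P.cons (P.lf 1224874602 0 0) (P.cons (P.lf 349674018 0 0) (P.cons (P.lf 0 26155053 0) (P.cons (P.lf 0 1762467 0) (P.lf 88122 0 0))))) (P.cons (P.cons (P.lf 198474588 0 0) (P.cons (P.lf 56660007 0 0) (P.cons (P.lf 0 4238076 0) (P.cons (P.lf 0 285582 0) (P.lf 14277 0 0))))) (P.cons (P.cons (P.lf 0 4573428 0) (P.cons (P.lf 0 1305609 0) (P.cons (P.lf 97656 0 0) (P.cons (P.lf 6579 0 0) P.nil)))) (P.cons (P.cons (P.lf 0 2205051 0) (P.cons (P.lf 0 629493 0) (P.cons (P.lf 47085 0 0) P.nil))) (P.cons (P.cons (P.lf 0 60531 0) (P.cons (P.lf 0 17280 0) P.nil)) (P.cons (P.cons (P.lf 10737 0 0) P.nil) P.nil)))))) 9759)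
 EL.nil)))
noncomputable def S169_198_290_364_22 : EL := (EL.cons 4 (TM.mk (P.cons (P.cons (P.lf 0 1240832031 0) (P.cons (P.lf 202331784 0 0) (P.cons (P.lf 17967951 0 0) (P.cons (P.lf 0 3819582 0) (P.cons (P.lf 4749 0 0) (P.cons (P.lf 17877 0 0) P.nil)))))) (P.cons (P.cons (P.lf 0 141958566 0) (P.cons (P.lf 39017811 0 0) (P.cons (P.lf 2415990 0 0) (P.cons (P.lf 0 1006719 0) (P.cons (P.lf 1530 0 0) P.nil))))) (P.cons (P.cons (P.lf 220498251 0 0) (P.cons (P.lf 0 18653868 0) (P.cons (P.lf 0 2227860 0) (P.cons (P.lf 205005 0 0) P.nil)))) (P.cons (P.cons (P.lf 22203321 0 0) (P.cons (P.lf 0 4813833 0) (P.cons (P.lf 0 456117 0) P.nil))) (P.cons (P.cons (P.lf 0 7975611 0) (P.cons (P.lf 241482 0 0) P.nil)) (P.cons (P.cons (P.lf 0 1034271 0) P.nil) P.nil)))))) 692232)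
 (EL.cons 8 (TM.mk (P.cons (P.cons (P.lf 520751271 0 0) (P.cons (P.lf 0 84914424 0) (P.cons (P.lf 0 7540776 0) (P.cons (P.lf 1602999 0 0) (P.cons (P.lf 0 1992 0) (P.cons (P.lf 0 7503 0) P.nil)))))) (P.cons (P.cons (P.lf 0 67783305 0) (P.cons (P.lf 4392591 0 0) (P.cons (P.lf 830307 0 0) (P.cons (P.lf 30456 0 0) (P.cons (P.lf 0 153 0) P.nil))))) (P.cons (P.cons (P.lf 0 99111777 0) (P.cons (P.lf 10529382 0 0) (P.cons (P.lf 1067157 0 0) (P.cons (P.lf 0 164748 0) P.nil)))) (P.cons (P.cons (P.lf 13304763 0 0) (P.cons (P.lf 4818 0 0) (P.cons (P.lf 0 39432 0) P.nil))) (P.cons (P.cons (P.lf 4176102 0 0) (P.cons (P.lf 0 458682 0) P.nil)) (P.cons (P.cons (P.lf 0 362202 0) P.nil) P.nil)))))) 373509)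
 (EL.cons 11 (TM.mk (P.cons (P.cons (P.lf 475241850 0 0) (P.cons (P.lf 91500621 0 0) (P.cons (P.lf 0 28445388 0) (P.cons (P.lf 0 985206 0) (P.cons (P.lf 327450 0 0) (P.cons (P.lf 0 3090 0) P.nil)))))) (P.cons (P.cons (P.lf 230115009 0 0) (P.cons (P.lf 47799660 0 0) (P.cons (P.lf 0 12325839 0) (P.cons (P.lf 0 453198 0) (P.cons (P.lf 135351 0 0) P.nil))))) (P.cons (P.cons (P.lf 3717498 0 0) (P.cons (P.lf 0 700917 0) (P.cons (P.lf 0 809361 0) (P.cons (P.lf 0 17373 0) P.nil)))) (P.cons (P.cons (P.lf 0 7334499 0) (P.cons (P.lf 0 1853553 0) (P.cons (P.lf 256149 0 0) P.nil))) (P.cons (P.cons (P.lf 0 547005 0) (P.cons (P.lf 0 98289 0) P.nil)) (P.cons (P.cons (P.lf 94065 0 0) P.nil) P.nil)))))) 176997)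
 EL.nil)))
noncomputable def S169_198_290_364_23 : EL := (EL.cons 4 (TM.mk (P.cons (P.cons (P.lf 1646359326 0 0) (P.cons (P.lf 0 115440804 0) (P.cons (P.lf 0 14865435 0) (P.lf 991026 0 0)))) (P.cons (P.cons (P.lf 0 611318880 0) (P.cons (P.lf 9702705 0 0) (P.cons (P.lf 1249428 0 0) (P.lf 0 83295 0)))) (P.cons (P.cons (P.lf 0 75313545 0) (P.cons (P.lf 7817835 0 0) (P.cons (P.lf 1006707 0 0) (P.lf 0 67110 0)))) (P.cons (P.cons (P.lf 26021139 0 0) (P.cons (P.lf 0 75903 0) (P.cons (P.lf 0 9777 0) P.nil))) (P.cons (P.cons (P.lf 2862267 0 0) (P.cons (P.lf 0 217098 0) P.nil)) (P.cons (P.cons (P.lf 0 383628 0) P.nil) P.nil)))))) 179580)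
 (EL.cons 8 (TM.mk (P.cons (P.cons (P.lf 0 690942603 0) (P.cons (P.lf 48448095 0 0) (P.cons (P.lf 6238716 0 0) (P.lf 0 415914 0)))) (P.cons (P.cons (P.lf 425541870 0 0) (P.cons (P.lf 0 15920991 0) (P.cons (P.lf 0 2050161 0) (P.lf 136674 0 0)))) (P.cons (P.cons (P.lf 0 41750160 0) (P.cons (P.lf 0 1541034 0) (P.cons (P.lf 0 198438 0) (P.lf 13227 0 0)))) (P.cons (P.cons (P.lf 0 13484544 0) (P.cons (P.lf 685773 0 0) (P.cons (P.lf 88305 0 0) P.nil))) (P.cons (P.cons (P.lf 1397799 0 0) (P.cons (P.lf 47307 0 0) P.nil)) (P.cons (P.cons (P.lf 278838 0 0) P.nil) P.nil)))))) 112239)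
 (EL.cons 11 (TM.mk (P.cons (P.cons (P.lf 0 630559842 0) (P.cons (P.lf 0 180010584 0) (P.cons (P.lf 13464501 0 0) (P.cons (P.lf 907308 0 0) (P.lf 0 45363 0))))) (P.cons (P.cons (P.lf 955563 0 0) (P.cons (P.lf 272793 0 0) (P.cons (P.lf 0 20403 0) (P.cons (P.lf 0 1374 0) (P.lf 69 0 0))))) (P.cons (P.cons (P.lf 25122228 0 0) (P.cons (P.lf 7171827 0 0) (P.cons (P.lf 0 536439 0) (P.cons (P.lf 0 36147 0) P.nil)))) (P.cons (P.cons (P.lf 1576443 0 0) (P.cons (P.lf 450039 0 0) (P.cons (P.lf 0 33660 0) P.nil))) (P.cons (P.cons (P.lf 0 229974 0) (P.cons (P.lf 0 65652 0) P.nil)) (P.cons (P.cons (P.lf 0 25884 0) P.nil) P.nil)))))) 24297)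
 EL.nil)))
noncomputable def S169_198_290_364_24 : EL := (EL.cons 4 (TM.mk (P.cons (P.cons (P.lf 638774655 0 0) (P.cons (P.lf 0 104159475 0) (P.cons (P.lf 0 9249819 0) (P.cons (P.lf 1966302 0 0) (P.cons (P.lf 0 2445 0) (P.cons (P.lf 0 9201 0) P.nil)))))) (P.cons (P.cons (P.lf 0 31393302 0) (P.cons (P.lf 0 3050691 0) (P.cons (P.lf 269085 0 0) (P.cons (P.lf 196659 0 0) (P.cons (P.lf 0 387 0) P.nil))))) (P.cons (P.cons (P.lf 0 131599833 0) (P.cons (P.lf 13888611 0 0) (P.cons (P.lf 1439160 0 0) (P.cons (P.lf 0 209184 0) P.nil)))) (P.cons (P.cons (P.lf 6590010 0 0) (P.cons (P.lf 1074882 0 0) (P.cons (P.lf 56901 0 0) P.nil))) (P.cons (P.cons (P.lf 7111686 0 0) (P.cons (P.lf 0 631383 0) P.nil)) (P.cons (P.cons (P.lf 0 53535 0) P.nil) P.nil)))))) 582864)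
 (EL.cons 8 (TM.mk (P.cons (P.cons (P.lf 0 268080372 0) (P.cons (P.lf 43713555 0 0) (P.cons (P.lf 3881955 0 0) (P.cons (P.lf 0 825216 0) (P.cons (P.lf 1026 0 0) (P.cons (P.lf 3861 0 0) P.nil)))))) (P.cons (P.cons (P.lf 78739638 0 0) (P.cons (P.lf 0 9410727 0) (P.cons (P.lf 0 1062339 0) (P.cons (P.lf 119286 0 0) (P.cons (P.lf 0 87 0) P.nil))))) (P.cons (P.cons (P.lf 47890374 0 0) (P.cons (P.lf 0 5470548 0) (P.cons (P.lf 0 516747 0) (P.cons (P.lf 95301 0 0) P.nil)))) (P.cons (P.cons (P.lf 0 15595173 0) (P.cons (P.lf 916524 0 0) (P.cons (P.lf 115209 0 0) P.nil))) (P.cons (P.cons (P.lf 0 1522953 0) (P.cons (P.lf 289965 0 0) P.nil)) (P.cons (P.cons (P.lf 617760 0 0) P.nil) P.nil)))))) 240348)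
 (EL.cons 11 (TM.mk (P.cons (P.cons (P.lf 0 244652331 0) (P.cons (P.lf 0 47104101 0) (P.cons (P.lf 14643555 0 0) (P.cons (P.lf 507180 0 0) (P.cons (P.lf 0 168570 0) (P.cons (P.lf 1590 0 0) P.nil)))))) (P.cons (P.cons (P.lf 0 78448755 0) (P.cons (P.lf 0 16903071 0) (P.cons (P.lf 3950301 0 0) (P.cons (P.lf 150354 0 0) (P.cons (P.lf 0 42108 0) P.nil))))) (P.cons (P.cons (P.lf 19811091 0 0) (P.cons (P.lf 4837842 0 0) (P.cons (P.lf 0 761793 0) (P.cons (P.lf 0 34083 0) P.nil)))) (P.cons (P.cons (P.lf 5166519 0 0) (P.cons (P.lf 1119972 0 0) (P.cons (P.lf 0 257358 0) P.nil))) (P.cons (P.cons (P.lf 0 357453 0) (P.cons (P.lf 0 117051 0) P.nil)) (P.cons (P.cons (P.lf 0 136602 0) P.nil) P.nil)))))) 163743)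
 EL.nil)))
noncomputable def S169_198_290_364_25 : EL := (EL.cons 4 (TM.mk (P.cons (P.cons (P.lf 0 847538250 0) (P.cons (P.lf 59428398 0 0) (P.cons (P.lf 7652658 0 0) (P.lf 0 510174 0)))) (P.cons (P.cons (P.lf 453320808 0 0) (P.cons (P.lf 0 14714544 0) (P.cons (P.lf 0 1894806 0) (P.lf 126321 0 0)))) (P.cons (P.cons (P.lf 0 4558062 0) (P.cons (P.lf 0 3778521 0) (P.cons (P.lf 0 486561 0) (P.lf 32436 0 0)))) (P.cons (P.cons (P.lf 0 22968165 0) (P.cons (P.lf 759903 0 0) (P.cons (P.lf 97854 0 0) P.nil))) (P.cons (P.cons (P.lf 385101 0 0) (P.cons (P.lf 145413 0 0) P.nil)) (P.cons (P.cons (P.lf 589935 0 0) P.nil) P.nil)))))) 153240)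
 (EL.cons 8 (TM.mk (P.cons (P.cons (P.lf 355694091 0 0) (P.cons (P.lf 0 24940857 0) (P.cons (P.lf 0 3211662 0) (P.lf 214110 0 0)))) (P.cons (P.cons (P.lf 0 277241517 0) (P.cons (P.lf 12275181 0 0) (P.cons (P.lf 1580688 0 0) (P.lf 0 105378 0)))) (P.cons (P.cons (P.lf 53904885 0 0) (P.cons (P.lf 0 307581 0) (P.cons (P.lf 0 39606 0) (P.lf 2640 0 0)))) (P.cons (P.cons (P.lf 5618430 0 0) (P.cons (P.lf 0 567648 0) (P.cons (P.lf 0 73095 0) P.nil))) (P.cons (P.cons (P.lf 0 2099628 0) (P.cons (P.lf 26682 0 0) P.nil)) (P.cons (P.cons (P.lf 0 96633 0) P.nil) P.nil)))))) 111708)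
 (EL.cons 11 (TM.mk (P.cons (P.cons (P.lf 324609324 0 0) (P.cons (P.lf 92668626 0 0) (P.cons (P.lf 0 6931461 0) (P.cons (P.lf 0 467079 0) (P.lf 23352 0 0))))) (P.cons (P.cons (P.lf 0 53582448 0) (P.cons (P.lf 0 15296577 0) (P.cons (P.lf 1144158 0 0) (P.cons (P.lf 77100 0 0) (P.lf 0 3855 0))))) (P.cons (P.cons (P.lf 0 15970524 0) (P.cons (P.lf 0 4559223 0) (P.cons (P.lf 341022 0 0) (P.cons (P.lf 22977 0 0) P.nil)))) (P.cons (P.cons (P.lf 1388217 0 0) (P.cons (P.lf 396303 0 0) (P.cons (P.lf 0 29640 0) P.nil))) (P.cons (P.cons (P.lf 389505 0 0) (P.cons (P.lf 111195 0 0) P.nil)) (P.cons (P.cons (P.lf 0 1212 0) P.nil) P.nil)))))) 31206)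
 EL.nil)))
noncomputable def S169_198_290_364_26 : EL := (EL.cons 4 (TM.mk (P.cons (P.cons (P.lf 0 328838271 0) (P.cons (P.lf 53620821 0 0) (P.cons (P.lf 4761762 0 0) (P.cons (P.lf 0 1012242 0) (P.cons (P.lf 1257 0 0) (P.cons (P.lf 4737 0 0) P.nil)))))) (P.cons (P.cons (P.lf 69943311 0 0) (P.cons (P.lf 0 7199313 0) (P.cons (P.lf 0 917319 0) (P.cons (P.lf 64311 0 0) (P.cons (P.lf 0 3 0) P.nil))))) (P.cons (P.cons (P.lf 68262600 0 0) (P.cons (P.lf 0 7921725 0) (P.cons (P.lf 0 763959 0) (P.cons (P.lf 133968 0 0) P.nil)))) (P.cons (P.cons (P.lf 0 14708802 0) (P.cons (P.lf 614121 0 0) (P.cons (P.lf 94377 0 0) P.nil))) (P.cons (P.cons (P.lf 0 3767469 0) (P.cons (P.lf 486957 0 0) P.nil)) (P.cons (P.cons (P.lf 676065 0 0) P.nil) P.nil)))))) 456006)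
 (EL.cons 8 (TM.mk (P.cons (P.cons (P.lf 138006549 0 0) (P.cons (P.lf 0 22503537 0) (P.cons (P.lf 0 1998414 0) (P.cons (P.lf 424818 0 0) (P.cons (P.lf 0 528 0) (P.cons (P.lf 0 1986 0) P.nil)))))) (P.cons (P.cons (P.lf 0 63106062 0) (P.cons (P.lf 8525100 0 0) (P.cons (P.lf 873732 0 0) (P.cons (P.lf 0 130887 0) (P.cons (P.lf 129 0 0) P.nil))))) (P.cons (P.cons (P.lf 0 19349874 0) (P.cons (P.lf 2240034 0 0) (P.cons (P.lf 195771 0 0) (P.cons (P.lf 0 43098 0) P.nil)))) (P.cons (P.cons (P.lf 12483819 0 0) (P.cons (P.lf 0 984492 0) (P.cons (P.lf 0 108561 0) P.nil))) (P.cons (P.cons (P.lf 0 296118 0) (P.cons (P.lf 0 98955 0) P.nil)) (P.cons (P.cons (P.lf 0 531114 0) P.nil) P.nil)))))) 203427)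
 (EL.cons 11 (TM.mk (P.cons (P.cons (P.lf 125945901 0 0) (P.cons (P.lf 24248976 0 0) (P.cons (P.lf 0 7538436 0) (P.cons (P.lf 0 261093 0) (P.cons (P.lf 86778 0 0) (P.cons (P.lf 0 819 0) P.nil)))))) (P.cons (P.cons (P.lf 19786347 0 0) (P.cons (P.lf 4735653 0 0) (P.cons (P.lf 0 800670 0) (P.cons (P.lf 0 34698 0) (P.cons (P.lf 7482 0 0) P.nil))))) (P.cons (P.cons (P.lf 0 18013545 0) (P.cons (P.lf 0 4146600 0) (P.cons (P.lf 797178 0 0) (P.cons (P.lf 32712 0 0) P.nil)))) (P.cons (P.cons (P.lf 0 1348641 0) (P.cons (P.lf 0 246852 0) (P.cons (P.lf 86025 0 0) P.nil))) (P.cons (P.cons (P.lf 732453 0 0) (P.cons (P.lf 181683 0 0) P.nil)) (P.cons (P.cons (P.lf 65130 0 0) P.nil) P.nil)))))) 142698)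
 EL.nil)))
noncomputable def S169_198_290_364_27 : EL := (EL.cons 13 (TM.mk (P.lf 0 4294967296 0) 0)
 EL.nil)
noncomputable def S169_198_290_364_28 : EL := (EL.cons 13 (TM.mk (P.cons (P.cons (P.lf 0 1666414018 0) (P.cons (P.lf 154880756 0 0) (P.cons (P.lf 19944164 0 0) (P.lf 0 1329608 0)))) (P.cons (P.cons (P.lf 0 536867699 0) (P.cons (P.lf 37644540 0 0) (P.cons (P.lf 4847528 0 0) (P.lf 0 323168 0)))) (P.cons (P.cons (P.lf 67734959 0 0) (P.cons (P.lf 657508 0 0) (P.cons (P.lf 84668 0 0) (P.lf 0 5644 0)))) (P.cons (P.cons (P.lf 9738068 0 0) (P.cons (P.lf 0 529692 0) (P.cons (P.lf 0 68204 0) P.nil))) (P.cons (P.cons (P.lf 0 455797 0) (P.cons (P.lf 0 39204 0) P.nil)) (P.cons (P.cons (P.lf 0 109610 0) P.nil) P.nil)))))) 28009)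
 EL.nil)
noncomputable def S169_198_290_364_29 : EL := (EL.cons 13 (TM.mk (P.cons (P.cons (P.lf 0 646555721 0) (P.cons (P.lf 120185065 0 0) (P.cons (P.lf 9891209 0 0) (P.cons (P.lf 0 2470167 0) (P.cons (P.lf 3280 0 0) (P.cons (P.lf 12348 0 0) P.nil)))))) (P.cons (P.cons (P.lf 0 416601011 0) (P.cons (P.lf 67931536 0 0) (P.cons (P.lf 6032619 0 0) (P.cons (P.lf 0 1282399 0) (P.cons (P.lf 1594 0 0) P.nil))))) (P.cons (P.cons (P.lf 0 14546782 0) (P.cons (P.lf 5036115 0 0) (P.cons (P.lf 271138 0 0) (P.cons (P.lf 0 140421 0) P.nil)))) (P.cons (P.cons (P.lf 24490228 0 0) (P.cons (P.lf 0 2136352 0) (P.cons (P.lf 0 248419 0) P.nil))) (P.cons (P.cons (P.lf 1012578 0 0) (P.cons (P.lf 0 321414 0) P.nil)) (P.cons (P.cons (P.lf 0 506157 0) P.nil) P.nil)))))) 275708)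
 EL.nil)
noncomputable def S169_198_290_364_30 : EL := (EL.cons 13 (TM.mk (P.cons (P.lf 2211029524 0 0) (P.cons (P.lf 0 361618480 0) (P.cons (P.lf 0 21238980 0) (P.cons (P.lf 543904 0 0) (P.cons (P.lf 97232 0 0) (P.cons (P.lf 1560 0 0) P.nil)))))) 512)
 EL.nil)
noncomputable def S169_198_290_364_31 : EL := (EL.cons 13 (TM.mk (P.cons (P.cons (P.lf 857862316 0 0) (P.cons (P.lf 0 79731904 0) (P.cons (P.lf 0 10267164 0) (P.lf 684476 0 0)))) (P.cons (P.cons (P.lf 136071869 0 0) (P.cons (P.lf 0 6338918 0) (P.cons (P.lf 0 816269 0) (P.lf 54417 0 0)))) (P.cons (P.cons (P.lf 0 88312246 0) (P.cons (P.lf 3596931 0 0) (P.cons (P.lf 463180 0 0) (P.lf 0 30878 0)))) (P.cons (P.cons (P.lf 0 1753935 0) (P.cons (P.lf 494584 0 0) (P.cons (P.lf 63685 0 0) P.nil))) (P.cons (P.cons (P.lf 1495215 0 0) (P.cons (P.lf 0 29437 0) P.nil)) (P.cons (P.cons (P.lf 70387 0 0) P.nil) P.nil))))))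 49831)
 EL.nil)
noncomputable def S169_198_290_364_32 : EL := (EL.cons 13 (TM.mk (P.cons (P.cons (P.lf 332843928 0 0) (P.cons (P.lf 0 61870721 0) (P.cons (P.lf 0 5091949 0) (P.cons (P.lf 1271630 0 0) (P.cons (P.lf 0 1688 0) (P.cons (P.lf 0 6356 0) P.nil)))))) (P.cons (P.cons (P.lf 160026978 0 0) (P.cons (P.lf 0 24851758 0) (P.cons (P.lf 0 2272765 0) (P.cons (P.lf 452195 0 0) (P.cons (P.lf 0 544 0) P.nil))))) (P.cons (P.cons (P.lf 0 30784738 0) (P.cons (P.lf 3721310 0 0) (P.cons (P.lf 417253 0 0) (P.cons (P.lf 0 47899 0) P.nil)))) (P.cons (P.cons (P.lf 0 15810485 0) (P.cons (P.lf 1844511 0 0) (P.cons (P.lf 179292 0 0) P.nil))) (P.cons (P.cons (P.lf 1536164 0 0) (P.cons (P.lf 0 829 0) P.nil)) (P.cons (P.cons (P.lf 478436 0 0) P.nil) P.nil)))))) 308574)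
 EL.nil)
noncomputable def S169_198_290_364_33 : EL := (EL.cons 14 (TM.mk (P.lf 8589934592 0 0) 0)
 EL.nil)
noncomputable def S169_198_290_364_34 : EL := (EL.cons 14 (TM.mk (P.cons (P.cons (P.lf 3332828036 0 0) (P.cons (P.lf 0 309761512 0) (P.cons (P.lf 0 39888328 0) (P.lf 2659216 0 0)))) (P.cons (P.cons (P.lf 1073735398 0 0) (P.cons (P.lf 0 75289080 0) (P.cons (P.lf 0 9695056 0) (P.lf 646336 0 0)))) (P.cons (P.cons (P.lf 0 135469918 0) (P.cons (P.lf 0 1315016 0) (P.cons (P.lf 0 169336 0) (P.lf 11288 0 0)))) (P.cons (P.cons (P.lf 0 19476136 0) (P.cons (P.lf 1059384 0 0) (P.cons (P.lf 136408 0 0) P.nil))) (P.cons (P.cons (P.lf 911594 0 0) (P.cons (P.lf 78408 0 0) P.nil)) (P.cons (P.cons (P.lf 219220 0 0) P.nil) P.nil)))))) 56018)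
 EL.nil)
noncomputable def S169_198_290_364_35 : EL := (EL.cons 14 (TM.mk (P.cons (P.cons (P.lf 1293111442 0 0) (P.cons (P.lf 0 240370130 0) (P.cons (P.lf 0 19782418 0) (P.cons (P.lf 4940334 0 0) (P.cons (P.lf 0 6560 0) (P.cons (P.lf 0 24696 0) P.nil)))))) (P.cons (P.cons (P.lf 833202022 0 0) (P.cons (P.lf 0 135863072 0) (P.cons (P.lf 0 12065238 0) (P.cons (P.lf 2564798 0 0) (P.cons (P.lf 0 3188 0) P.nil))))) (P.cons (P.cons (P.lf 29093564 0 0) (P.cons (P.lf 0 10072230 0) (P.cons (P.lf 0 542276 0) (P.cons (P.lf 280842 0 0) P.nil)))) (P.cons (P.cons (P.lf 0 48980456 0) (P.cons (P.lf 4272704 0 0) (P.cons (P.lf 496838 0 0) P.nil))) (P.cons (P.cons (P.lf 0 2025156 0) (P.cons (P.lf 642828 0 0) P.nil)) (P.cons (P.cons (P.lf 1012314 0 0) P.nil) P.nil)))))) 551416)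
 EL.nil)
noncomputable def S169_198_290_364_36 : EL := (EL.cons 14 (TM.mk (P.cons (P.lf 0 4422059048 0) (P.cons (P.lf 723236960 0 0) (P.cons (P.lf 42477960 0 0) (P.cons (P.lf 0 1087808 0) (P.cons (P.lf 0 194464 0) (P.cons (P.lf 0 3120 0) P.nil)))))) 1024)
 EL.nil)
noncomputable def S169_198_290_364_37 : EL := (EL.cons 14 (TM.mk (P.cons (P.cons (P.lf 0 1715724632 0) (P.cons (P.lf 159463808 0 0) (P.cons (P.lf 20534328 0 0) (P.lf 0 1368952 0)))) (P.cons (P.cons (P.lf 0 272143738 0) (P.cons (P.lf 12677836 0 0) (P.cons (P.lf 1632538 0 0) (P.lf 0 108834 0)))) (P.cons (P.cons (P.lf 176624492 0 0) (P.cons (P.lf 0 7193862 0) (P.cons (P.lf 0 926360 0) (P.lf 61756 0 0)))) (P.cons (P.cons (P.lf 3507870 0 0) (P.cons (P.lf 0 989168 0) (P.cons (P.lf 0 127370 0) P.nil))) (P.cons (P.cons (P.lf 0 2990430 0) (P.cons (P.lf 58874 0 0) P.nil)) (P.cons (P.cons (P.lf 0 140774 0) P.nil)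 P.nil)))))) 99662)
 EL.nil)
noncomputable def S169_198_290_364_38 : EL := (EL.cons 14 (TM.mk (P.cons (P.cons (P.lf 0 665687856 0) (P.cons (P.lf 123741442 0 0) (P.cons (P.lf 10183898 0 0) (P.cons (P.lf 0 2543260 0) (P.cons (P.lf 3376 0 0) (P.cons (P.lf 12712 0 0) P.nil)))))) (P.cons (P.cons (P.lf 0 320053956 0) (P.cons (P.lf 49703516 0 0) (P.cons (P.lf 4545530 0 0) (P.cons (P.lf 0 904390 0) (P.cons (P.lf 1088 0 0) P.nil))))) (P.cons (P.cons (P.lf 61569476 0 0) (P.cons (P.lf 0 7442620 0) (P.cons (P.lf 0 834506 0) (P.cons (P.lf 95798 0 0) P.nil)))) (P.cons (P.cons (P.lf 31620970 0 0) (P.cons (P.lf 0 3689022 0) (P.cons (P.lf 0 358584 0) P.nil))) (P.cons (P.cons (P.lf 0 3072328 0) (P.cons (P.lf 1658 0 0) P.nil)) (P.cons (P.cons (P.lf 0 956872 0) P.nil) P.nil)))))) 617148)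
 EL.nil)
noncomputable def S169_198_290_364_39 : EL := (EL.cons 14 (TM.mk (P.cons (P.lf 2276455776 0 0) (P.cons (P.lf 0 744638158 0) (P.cons (P.lf 17158640 0 0) (P.cons (P.lf 8272934 0 0) (P.cons (P.lf 227096 0 0) (P.cons (P.lf 0 40292 0) P.nil)))))) 3922)
 EL.nil)
noncomputable def S169_198_290_364_40 : EL := (EL.cons 14 (TM.mk (P.cons (P.cons (P.lf 883247194 0 0) (P.cons (P.lf 0 82091240 0) (P.cons (P.lf 0 10570978 0) (P.lf 704730 0 0)))) (P.cons (P.cons (P.lf 0 4358564 0) (P.cons (P.lf 6899700 0 0) (P.cons (P.lf 888482 0 0) (P.lf 0 59230 0)))) (P.cons (P.cons (P.lf 0 122323262 0) (P.cons (P.lf 5559350 0 0) (P.cons (P.lf 715882 0 0) (P.lf 0 47724 0)))) (P.cons (P.cons (P.lf 11936716 0 0) (P.cons (P.lf 0 53974 0) (P.cons (P.lf 0 6952 0) P.nil))) (P.cons (P.cons (P.lf 2781534 0 0) (P.cons (P.lf 0 154382 0) P.nil)) (P.cons (P.cons (P.lf 0 177548 0) P.nil) P.nil))))))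 117710)
 EL.nil)
noncomputable def S169_198_290_364_41 : EL := (EL.cons 14 (TM.mk (P.cons (P.cons (P.lf 342693064 0 0) (P.cons (P.lf 0 63701528 0) (P.cons (P.lf 0 5242624 0) (P.cons (P.lf 1309258 0 0) (P.cons (P.lf 0 1738 0) (P.cons (P.lf 0 6544 0) P.nil)))))) (P.cons (P.cons (P.lf 108714148 0 0) (P.cons (P.lf 0 15168624 0) (P.cons (P.lf 0 1482576 0) (P.cons (P.lf 251444 0 0) (P.cons (P.lf 0 276 0) P.nil))))) (P.cons (P.cons (P.lf 0 61934786 0) (P.cons (P.lf 8628170 0 0) (P.cons (P.lf 862674 0 0) (P.cons (P.lf 0 138038 0) P.nil)))) (P.cons (P.cons (P.lf 0 12592828 0) (P.cons (P.lf 1502572 0 0) (P.cons (P.lf 135524 0 0) P.nil))) (P.cons (P.cons (P.lf 4604042 0 0) (P.cons (P.lf 0 357354 0) P.nil)) (P.cons (P.cons (P.lf 389974 0 0) P.nil) P.nil)))))) 532068)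
 EL.nil)
noncomputable def S169_198_290_364_42 : EL := (EL.cons 14 (TM.mk (P.cons (P.lf 0 1171909022 0) (P.cons (P.lf 575004478 0 0) (P.cons (P.lf 0 60271372 0) (P.cons (P.lf 0 6784766 0) (P.cons (P.lf 707252 0 0) (P.cons (P.lf 94630 0 0) P.nil)))))) 9404)
 EL.nil)
noncomputable def S169_198_290_364_43 : EL := (EL.cons 14 (TM.mk (P.cons (P.cons (P.lf 0 454691616 0) (P.cons (P.lf 42260194 0 0) (P.cons (P.lf 5441890 0 0) (P.lf 0 362790 0)))) (P.cons (P.cons (P.lf 76609528 0 0) (P.cons (P.lf 0 10463676 0) (P.cons (P.lf 0 1347418 0) (P.lf 89826 0 0)))) (P.cons (P.cons (P.lf 66972216 0 0) (P.cons (P.lf 0 2686950 0) (P.cons (P.lf 0 346000 0) (P.lf 23066 0 0)))) (P.cons (P.cons (P.lf 0 16577484 0) (P.cons (P.lf 540374 0 0) (P.cons (P.lf 69586 0 0) P.nil))) (P.cons (P.cons (P.lf 0 1051242 0) (P.cons (P.lf 103406 0 0) P.nil)) (P.cons (P.cons (P.lf 399890 0 0) P.nil) P.nil))))))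 140604)
 EL.nil)
noncomputable def S169_198_290_364_44 : EL := (EL.cons 14 (TM.mk (P.cons (P.cons (P.lf 0 176416822 0) (P.cons (P.lf 32793254 0 0) (P.cons (P.lf 2698878 0 0) (P.cons (P.lf 0 674000 0) (P.cons (P.lf 894 0 0) (P.cons (P.lf 3368 0 0) P.nil)))))) (P.cons (P.cons (P.lf 0 27112208 0) (P.cons (P.lf 2445332 0 0) (P.cons (P.lf 321816 0 0) (P.cons (P.lf 0 19208 0) (P.cons (P.lf 0 4 0) P.nil))))) (P.cons (P.cons (P.lf 42731672 0 0) (P.cons (P.lf 0 6033886 0) (P.cons (P.lf 0 594852 0) (P.cons (P.lf 98706 0 0) P.nil)))) (P.cons (P.cons (P.lf 1762280 0 0) (P.cons (P.lf 0 114004 0) (P.cons (P.lf 0 3800 0) P.nil))) (P.cons (P.cons (P.lf 0 3758202 0) (P.cons (P.lf 356504 0 0) P.nil)) (P.cons (P.cons (P.lf 129868 0 0) P.nil) P.nil)))))) 474182)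
 EL.nil)
noncomputable def S169_198_290_364_45 : EL := (EL.cons 14 (TM.mk (P.cons (P.cons (P.lf 501717214 0 0) (P.cons (P.lf 0 139892620 0) (P.cons (P.lf 0 5012148 0) (P.cons (P.lf 4146682 0 0) (P.cons (P.lf 0 163248 0) (P.cons (P.lf 0 38410 0) P.nil)))))) (P.cons (P.cons (P.lf 484913888 0 0) (P.cons (P.lf 0 124139858 0) (P.cons (P.lf 0 5476394 0) (P.cons (P.lf 3478558 0 0) (P.cons (P.lf 0 119638 0) P.nil))))) (P.cons (P.cons (P.lf 95044338 0 0) (P.cons (P.lf 0 25649860 0) (P.cons (P.lf 0 916720 0) (P.cons (P.lf 758232 0 0) P.nil)))) (P.cons (P.cons (P.lf 0 31439502 0) (P.cons (P.lf 4629624 0 0) (P.cons (P.lf 484192 0 0) P.nil))) (P.cons (P.cons (P.lf 0 9118998 0) (P.cons (P.lf 1837320 0 0) P.nil)) (P.cons (P.cons (P.lf 967544 0 0) P.nil) P.nil)))))) 1578724)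
 EL.nil)
noncomputable def S169_198_290_364_46 : EL := (EL.cons 15 (TM.mk (P.lf 4294967296 0 0) 0)
 EL.nil)
noncomputable def S169_198_290_364_47 : EL := (EL.cons 15 (TM.mk (P.cons (P.cons (P.lf 1666414018 0 0) (P.cons (P.lf 0 154880756 0) (P.cons (P.lf 0 19944164 0) (P.lf 1329608 0 0)))) (P.cons (P.cons (P.lf 536867699 0 0) (P.cons (P.lf 0 37644540 0) (P.cons (P.lf 0 4847528 0) (P.lf 323168 0 0)))) (P.cons (P.cons (P.lf 0 67734959 0) (P.cons (P.lf 0 657508 0) (P.cons (P.lf 0 84668 0) (P.lf 5644 0 0)))) (P.cons (P.cons (P.lf 0 9738068 0) (P.cons (P.lf 529692 0 0) (P.cons (P.lf 68204 0 0) P.nil))) (P.cons (P.cons (P.lf 455797 0 0) (P.cons (P.lf 39204 0 0) P.nil)) (P.cons (P.cons (P.lf 109610 0 0) P.nil) P.nil)))))) 28009)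
 EL.nil)
noncomputable def S169_198_290_364_48 : EL := (EL.cons 15 (TM.mk (P.cons (P.cons (P.lf 646555721 0 0) (P.cons (P.lf 0 120185065 0) (P.cons (P.lf 0 9891209 0) (P.cons (P.lf 2470167 0 0) (P.cons (P.lf 0 3280 0) (P.cons (P.lf 0 12348 0) P.nil)))))) (P.cons (P.cons (P.lf 416601011 0 0) (P.cons (P.lf 0 67931536 0) (P.cons (P.lf 0 6032619 0) (P.cons (P.lf 1282399 0 0) (P.cons (P.lf 0 1594 0) P.nil))))) (P.cons (P.cons (P.lf 14546782 0 0) (P.cons (P.lf 0 5036115 0) (P.cons (P.lf 0 271138 0) (P.cons (P.lf 140421 0 0) P.nil)))) (P.cons (P.cons (P.lf 0 24490228 0) (P.cons (P.lf 2136352 0 0) (P.cons (P.lf 248419 0 0) P.nil))) (P.cons (P.cons (P.lf 0 1012578 0) (P.cons (P.lf 321414 0 0) P.nil)) (P.cons (P.cons (P.lf 506157 0 0) P.nil) P.nil)))))) 275708)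
 EL.nil)
noncomputable def S169_198_290_364 : SL := (SL.cons S169_198_290_364_0 (SL.cons S169_198_290_364_1 (SL.cons S169_198_290_364_2 (SL.cons S169_198_290_364_3 (SL.cons S169_198_290_364_4 (SL.cons S169_198_290_364_5 (SL.cons S169_198_290_364_6 (SL.cons S169_198_290_364_7 (SL.cons S169_198_290_364_8 (SL.cons S169_198_290_364_9 (SL.cons S169_198_290_364_10 (SL.cons S169_198_290_364_11 (SL.cons S169_198_290_364_12 (SL.cons S169_198_290_364_13 (SL.cons S169_198_290_364_14 (SL.cons S169_198_290_364_15 (SL.cons S169_198_290_364_16 (SL.cons S169_198_290_364_17 (SL.cons S169_198_290_364_18 (SL.cons S169_198_290_364_19 (SL.cons S169_198_290_364_20 (SL.cons S169_198_290_364_21 (SL.cons S169_198_290_364_22 (SL.cons S169_198_290_364_23 (SL.cons S169_198_290_364_24 (SL.cons S169_198_290_364_25 (SL.cons S169_198_290_364_26 (SL.cons S169_198_290_364_27 (SL.cons S169_198_290_364_28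 (SL.cons S169_198_290_364_29 (SL.cons S169_198_290_364_30 (SL.cons S169_198_290_364_31 (SL.cons S169_198_290_364_32 (SL.cons S169_198_290_364_33 (SL.cons S169_198_290_364_34 (SL.cons S169_198_290_364_35 (SL.cons S169_198_290_364_36 (SL.cons S169_198_290_364_37 (SL.cons S169_198_290_364_38 (SL.cons S169_198_290_364_39 (SL.cons S169_198_290_364_40 (SL.cons S169_198_290_364_41 (SL.cons S169_198_290_364_42 (SL.cons S169_198_290_364_43 (SL.cons S169_198_290_364_44 (SL.cons S169_198_290_364_45 (SL.cons S169_198_290_364_46 (SL.cons S169_198_290_364_47 (SL.cons S169_198_290_364_48 SL.nil)))))))))))))))))))))))))))))))))))))))))))))))))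
noncomputable def S169_198_308_327_0 : EL := (EL.cons 0 (TM.mk (P.cons (P.lf 6454925654 0 0) (P.cons (P.lf 654467131 0 0) (P.cons (P.lf 0 15080835 0) (P.cons (P.lf 0 7271133 0) (P.cons (P.lf 0 199596 0) (P.cons (P.lf 35412 0 0) P.nil)))))) 3454)
 (EL.cons 1 (TM.mk (P.cons (P.lf 0 1695086628 0) (P.cons (P.lf 139901857 0 0) (P.cons (P.lf 47471786 0 0) (P.cons (P.lf 293435 0 0) (P.cons (P.lf 0 328029 0) (P.cons (P.lf 0 15684 0) P.nil)))))) 1940)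
 (EL.cons 5 (TM.mk (P.cons (P.lf 5006359730 0 0) (P.cons (P.lf 0 232699422 0) (P.cons (P.lf 5362070 0 0) (P.cons (P.lf 2585292 0 0) (P.cons (P.lf 70970 0 0) (P.cons (P.lf 0 12590 0) P.nil)))))) 1169)
 (EL.cons 9 (TM.mk (P.lf 6442450944 0 0) 2)
 EL.nil))))
noncomputable def S169_198_308_327_1 : EL := (EL.cons 0 (TM.mk (P.cons (P.cons (P.lf 0 578413388 0) (P.cons (P.lf 0 3905951 0) (P.cons (P.lf 0 145656 0) (P.lf 2379 0 0)))) (P.cons (P.cons (P.lf 2231419615 0 0) (P.cons (P.lf 0 23544000 0) (P.cons (P.lf 0 877947 0) (P.lf 14289 0 0)))) (P.cons (P.cons (P.lf 120541006 0 0) (P.cons (P.lf 0 4987665 0) (P.cons (P.lf 0 185981 0) (P.lf 3023 0 0)))) (P.cons (P.cons (P.lf 0 78758544 0) (P.cons (P.lf 295008 0 0) (P.cons (P.lf 10995 0 0) P.nil))) (P.cons (P.cons (P.lf 0 7067929 0) (P.cons (P.lf 148367 0 0) P.nil)) (P.cons (P.cons (P.lf 1085561 0 0) P.nil) P.nil)))))) 269581)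
 (EL.cons 1 (TM.mk (P.cons (P.cons (P.lf 0 1344202644 0) (P.cons (P.lf 25704471 0 0) (P.cons (P.lf 958510 0 0) (P.lf 0 15601 0)))) (P.cons (P.cons (P.lf 0 400602949 0) (P.cons (P.lf 9443532 0 0) (P.cons (P.lf 352136 0 0) (P.lf 0 5724 0)))) (P.cons (P.cons (P.lf 223517709 0 0) (P.cons (P.lf 0 1256971 0) (P.cons (P.lf 0 46870 0) (P.lf 762 0 0)))) (P.cons (P.cons (P.lf 24815120 0 0) (P.cons (P.lf 0 547065 0) (P.cons (P.lf 0 20390 0) P.nil))) (P.cons (P.cons (P.lf 0 5314972 0) (P.cons (P.lf 0 8356 0) P.nil)) (P.cons (P.cons (P.lf 0 699185 0) P.nil) P.nil)))))) 150144)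
 (EL.cons 5 (TM.mk (P.cons (P.cons (P.lf 3103891869 0 0) (P.cons (P.lf 0 61629478 0) (P.cons (P.lf 0 2298150 0) (P.lf 37416 0 0)))) (P.cons (P.cons (P.lf 135160226 0 0) (P.cons (P.lf 0 6945708 0) (P.cons (P.lf 0 259008 0) (P.lf 4220 0 0)))) (P.cons (P.cons (P.lf 0 157731120 0) (P.cons (P.lf 1505858 0 0) (P.cons (P.lf 56142 0 0) (P.lf 0 912 0)))) (P.cons (P.cons (P.lf 11224880 0 0) (P.cons (P.lf 110632 0 0) (P.cons (P.lf 4130 0 0) P.nil))) (P.cons (P.cons (P.lf 3271359 0 0) (P.cons (P.lf 0 36798 0) P.nil)) (P.cons (P.cons (P.lf 0 198463 0) P.nil) P.nil)))))) 121564)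
 (EL.cons 9 (TM.mk (P.cons (P.cons (P.lf 2557265091 0 0) (P.cons (P.lf 0 55604346 0) (P.cons (P.lf 0 2073474 0) (P.lf 33756 0 0)))) (P.cons (P.cons (P.lf 819312226 0 0) (P.cons (P.lf 0 13514910 0) (P.cons (P.lf 0 503964 0) (P.lf 8202 0 0)))) (P.cons (P.cons (P.lf 0 101357728 0) (P.cons (P.lf 0 236052 0) (P.cons (P.lf 0 8802 0) (P.lf 144 0 0)))) (P.cons (P.cons (P.lf 0 14804244 0) (P.cons (P.lf 190164 0 0) (P.cons (P.lf 7086 0 0) P.nil))) (P.cons (P.cons (P.lf 669103 0 0) (P.cons (P.lf 14070 0 0) P.nil)) (P.cons (P.cons (P.lf 165441 0 0) P.nil) P.nil)))))) 20750)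
 (EL.cons 2 (TM.mk (P.cons (P.cons (P.lf 547002025 0 0) (P.cons (P.lf 44950629 0 0) (P.cons (P.lf 0 787851 0) (P.cons (P.lf 0 15134 0) (P.lf 182 0 0))))) (P.cons (P.cons (P.lf 0 828939 0) (P.cons (P.lf 0 68118 0) (P.cons (P.lf 1192 0 0) (P.cons (P.lf 22 0 0) (P.lf 0 0 0))))) (P.cons (P.cons (P.lf 0 21793187 0) (P.cons (P.lf 0 1790881 0) (P.cons (P.lf 31387 0 0) (P.cons (P.lf 601 0 0) P.nil)))) (P.cons (P.cons (P.lf 0 1367544 0) (P.cons (P.lf 0 112379 0) (P.cons (P.lf 1968 0 0) P.nil))) (P.cons (P.cons (P.lf 199499 0 0) (P.cons (P.lf 16394 0 0) P.nil)) (P.cons (P.cons (P.lf 22455 0 0) P.nil) P.nil)))))) 4934)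
 (EL.cons 6 (TM.mk (P.cons (P.cons (P.lf 463424577 0 0) (P.cons (P.lf 38082540 0 0) (P.cons (P.lf 0 667476 0) (P.cons (P.lf 0 12822 0) (P.lf 153 0 0))))) (P.cons (P.cons (P.lf 112637655 0 0) (P.cons (P.lf 9256149 0 0) (P.cons (P.lf 0 162231 0) (P.cons (P.lf 0 3114 0) (P.lf 36 0 0))))) (P.cons (P.cons (P.lf 1967358 0 0) (P.cons (P.lf 161670 0 0) (P.cons (P.lf 0 2832 0) (P.cons (P.lf 0 54 0) P.nil)))) (P.cons (P.cons (P.lf 0 1584909 0) (P.cons (P.lf 0 130242 0) (P.cons (P.lf 2280 0 0) P.nil))) (P.cons (P.cons (P.lf 0 117309 0) (P.cons (P.lf 0 9639 0) P.nil)) (P.cons (P.cons (P.lf 8259 0 0) P.nil) P.nil)))))) 2976)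
 EL.nil))))))
noncomputable def S169_198_308_327_2 : EL := (EL.cons 0 (TM.mk (P.cons (P.cons (P.lf 0 1476236354 0) (P.cons (P.lf 51112262 0 0) (P.cons (P.lf 1492532 0 0) (P.cons (P.lf 0 61848 0) (P.cons (P.lf 0 71 0) (P.cons (P.lf 11 0 0) P.nil)))))) (P.cons (P.cons (P.lf 869546835 0 0) (P.cons (P.lf 0 26371670 0) (P.cons (P.lf 0 843094 0) (P.cons (P.lf 26485 0 0) (P.cons (P.lf 27 0 0) P.nil))))) (P.cons (P.cons (P.lf 593977530 0 0) (P.cons (P.lf 0 16923314 0) (P.cons (P.lf 0 500956 0) (P.cons (P.lf 19970 0 0) P.nil)))) (P.cons (P.cons (P.lf 0 61556822 0) (P.cons (P.lf 0 310269 0) (P.cons (P.lf 5864 0 0) P.nil))) (P.cons (P.cons (P.lf 0 33534735 0) (P.cons (P.lf 799983 0 0) P.nil)) (P.cons (P.cons (P.lf 773306 0 0) P.nil) P.nil)))))) 1500468)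
 (EL.cons 1 (TM.mk (P.cons (P.cons (P.lf 0 800055143 0) (P.cons (P.lf 31995096 0 0) (P.cons (P.lf 875651 0 0) (P.cons (P.lf 0 43090 0) (P.cons (P.lf 0 58 0) (P.cons (P.lf 10 0 0) P.nil)))))) (P.cons (P.cons (P.lf 0 510831469 0) (P.cons (P.lf 21004224 0 0) (P.cons (P.lf 563332 0 0) (P.cons (P.lf 0 29136 0) (P.cons (P.lf 0 31 0) P.nil))))) (P.cons (P.cons (P.lf 102488874 0 0) (P.cons (P.lf 0 1111828 0) (P.cons (P.lf 0 61334 0) (P.cons (P.lf 0 812 0) P.nil)))) (P.cons (P.cons (P.lf 80104754 0 0) (P.cons (P.lf 0 2156370 0) (P.cons (P.lf 0 67906 0) P.nil))) (P.cons (P.cons (P.lf 0 3148127 0) (P.cons (P.lf 0 175678 0) P.nil)) (P.cons (P.cons (P.lf 0 3318667 0) P.nil) P.nil)))))) 714805)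
 (EL.cons 5 (TM.mk (P.cons (P.cons (P.lf 1675308323 0 0) (P.cons (P.lf 0 68202153 0) (P.cons (P.lf 0 1852336 0) (P.cons (P.lf 92919 0 0) (P.cons (P.lf 116 0 0) (P.cons (P.lf 0 17 0) P.nil)))))) (P.cons (P.cons (P.lf 427987736 0 0) (P.cons (P.lf 0 18811746 0) (P.cons (P.lf 0 486985 0) (P.cons (P.lf 27408 0 0) (P.cons (P.lf 30 0 0) P.nil))))) (P.cons (P.cons (P.lf 0 184298707 0) (P.cons (P.lf 3891866 0 0) (P.cons (P.lf 135612 0 0) (P.cons (P.lf 0 3061 0) P.nil)))) (P.cons (P.cons (P.lf 0 20650458 0) (P.cons (P.lf 984944 0 0) (P.cons (P.lf 27931 0 0) P.nil))) (P.cons (P.cons (P.lf 10065234 0 0) (P.cons (P.lf 0 151227 0) P.nil)) (P.cons (P.cons (P.lf 594731 0 0) P.nil) P.nil)))))) 670068)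
 (EL.cons 9 (TM.mk (P.cons (P.cons (P.lf 1015080253 0 0) (P.cons (P.lf 0 44143153 0) (P.cons (P.lf 0 1166170 0) (P.cons (P.lf 62589 0 0) (P.cons (P.lf 84 0 0) (P.cons (P.lf 0 21 0) P.nil)))))) (P.cons (P.cons (P.lf 650435236 0 0) (P.cons (P.lf 0 24872064 0) (P.cons (P.lf 0 694177 0) (P.cons (P.lf 32494 0 0) (P.cons (P.lf 40 0 0) P.nil))))) (P.cons (P.cons (P.lf 23729379 0 0) (P.cons (P.lf 0 1875264 0) (P.cons (P.lf 0 37500 0) (P.cons (P.lf 3556 0 0) P.nil)))) (P.cons (P.cons (P.lf 0 37532920 0) (P.cons (P.lf 771730 0 0) (P.cons (P.lf 26481 0 0) P.nil))) (P.cons (P.cons (P.lf 0 1639602 0) (P.cons (P.lf 117526 0 0) P.nil)) (P.cons (P.cons (P.lf 767349 0 0) P.nil) P.nil)))))) 155300)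
 (EL.cons 2 (TM.mk (P.cons (P.cons (P.lf 434253729 0 0) (P.cons (P.lf 26243111 0 0) (P.cons (P.lf 0 1753492 0) (P.cons (P.lf 0 21616 0) (P.cons (P.lf 1383 0 0) (P.cons (P.lf 0 0 0) P.nil)))))) (P.cons (P.cons (P.lf 138470782 0 0) (P.cons (P.lf 9098341 0 0) (P.cons (P.lf 0 471903 0) (P.cons (P.lf 0 6148 0) (P.cons (P.lf 343 0 0) P.nil))))) (P.cons (P.cons (P.lf 0 34723738 0) (P.cons (P.lf 0 2513885 0) (P.cons (P.lf 90579 0 0) (P.cons (P.lf 1305 0 0) P.nil)))) (P.cons (P.cons (P.lf 0 9116566 0) (P.cons (P.lf 0 601768 0) (P.cons (P.lf 30735 0 0) P.nil))) (P.cons (P.cons (P.lf 613710 0 0) (P.cons (P.lf 56660 0 0) P.nil)) (P.cons (P.cons (P.lf 239675 0 0) P.nil) P.nil)))))) 60867)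
 (EL.cons 6 (TM.mk (P.cons (P.cons (P.lf 367903302 0 0) (P.cons (P.lf 22233378 0 0) (P.cons (P.lf 0 1485570 0) (P.cons (P.lf 0 18312 0) (P.cons (P.lf 1170 0 0) (P.cons (P.lf 0 0 0) P.nil)))))) (P.cons (P.cons (P.lf 207291840 0 0) (P.cons (P.lf 13145814 0 0) (P.cons (P.lf 0 763128 0) (P.cons (P.lf 0 9684 0) (P.cons (P.lf 576 0 0) P.nil))))) (P.cons (P.cons (P.lf 15629082 0 0) (P.cons (P.lf 743838 0 0) (P.cons (P.lf 0 87078 0) (P.cons (P.lf 0 978 0) P.nil)))) (P.cons (P.cons (P.lf 0 6431868 0) (P.cons (P.lf 0 490332 0) (P.cons (P.lf 13824 0 0) P.nil))) (P.cons (P.cons (P.lf 0 979554 0) (P.cons (P.lf 0 63288 0) P.nil)) (P.cons (P.cons (P.lf 64740 0 0) P.nil) P.nil)))))) 46530)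
 EL.nil))))))
noncomputable def S169_198_308_327_3 : EL := (EL.cons 0 (TM.mk (P.cons (P.lf 2000791209 0 0) (P.cons (P.lf 0 654467131 0) (P.cons (P.lf 15080835 0 0) (P.cons (P.lf 7271133 0 0) (P.cons (P.lf 199596 0 0) (P.cons (P.lf 0 35412 0) P.nil)))))) 3454)
 (EL.cons 1 (TM.mk (P.cons (P.lf 1695086628 0 0) (P.cons (P.lf 0 139901857 0) (P.cons (P.lf 0 47471786 0) (P.cons (P.lf 0 293435 0) (P.cons (P.lf 328029 0 0) (P.cons (P.lf 15684 0 0) P.nil)))))) 1940)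
 (EL.cons 5 (TM.mk (P.cons (P.lf 1436091214 0 0) (P.cons (P.lf 232699422 0 0) (P.cons (P.lf 0 5362070 0) (P.cons (P.lf 0 2585292 0) (P.cons (P.lf 0 70970 0) (P.cons (P.lf 12590 0 0) P.nil)))))) 1162)
 EL.nil)))
noncomputable def S169_198_308_327_4 : EL := (EL.cons 0 (TM.mk (P.cons (P.cons (P.lf 794193630 0 0) (P.cons (P.lf 0 17268688 0) (P.cons (P.lf 0 643944 0) (P.lf 10481 0 0)))) (P.cons (P.cons (P.lf 0 5335428 0) (P.cons (P.lf 1451418 0 0) (P.cons (P.lf 54123 0 0) (P.lf 0 880 0)))) (P.cons (P.cons (P.lf 0 108723042 0) (P.cons (P.lf 1169462 0 0) (P.cons (P.lf 43607 0 0) (P.lf 0 708 0)))) (P.cons (P.cons (P.lf 10503024 0 0) (P.cons (P.lf 0 11353 0) (P.cons (P.lf 0 423 0) P.nil))) (P.cons (P.cons (P.lf 2478375 0 0) (P.cons (P.lf 0 32475 0) P.nil)) (P.cons (P.cons (P.lf 0 154314 0) P.nil) P.nil)))))) 60498)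
 (EL.cons 1 (TM.mk (P.cons (P.cons (P.lf 672847320 0 0) (P.cons (P.lf 0 14630173 0) (P.cons (P.lf 0 545553 0) (P.lf 8880 0 0)))) (P.cons (P.cons (P.lf 160038324 0 0) (P.cons (P.lf 0 2348450 0) (P.cons (P.lf 0 87570 0) (P.lf 1423 0 0)))) (P.cons (P.cons (P.lf 0 63303759 0) (P.cons (P.lf 641101 0 0) (P.cons (P.lf 23904 0 0) (P.lf 0 388 0)))) (P.cons (P.cons (P.lf 0 7847780 0) (P.cons (P.lf 157276 0 0) (P.cons (P.lf 5863 0 0) P.nil))) (P.cons (P.cons (P.lf 1337285 0 0) (P.cons (P.lf 0 901 0) P.nil)) (P.cons (P.cons (P.lf 190644 0 0) P.nil) P.nil)))))) 36287)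
 (EL.cons 5 (TM.mk (P.cons (P.cons (P.lf 570041736 0 0) (P.cons (P.lf 0 12394802 0) (P.cons (P.lf 0 462198 0) (P.lf 7524 0 0)))) (P.cons (P.cons (P.lf 275001116 0 0) (P.cons (P.lf 0 5021028 0) (P.cons (P.lf 0 187230 0) (P.lf 3046 0 0)))) (P.cons (P.cons (P.lf 4871174 0 0) (P.cons (P.lf 0 494492 0) (P.cons (P.lf 0 18438 0) (P.lf 300 0 0)))) (P.cons (P.cons (P.lf 0 8669156 0) (P.cons (P.lf 67424 0 0) (P.cons (P.lf 2512 0 0) P.nil))) (P.cons (P.cons (P.lf 0 658166 0) (P.cons (P.lf 16236 0 0) P.nil)) (P.cons (P.cons (P.lf 110014 0 0) P.nil) P.nil)))))) 25460)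
 EL.nil)))
noncomputable def S169_198_308_327_5 : EL := (EL.cons 0 (TM.mk (P.cons (P.cons (P.lf 315247048 0 0) (P.cons (P.lf 0 13709258 0) (P.cons (P.lf 0 362169 0) (P.cons (P.lf 19436 0 0) (P.cons (P.lf 24 0 0) (P.cons (P.lf 0 5 0) P.nil)))))) (P.cons (P.cons (P.lf 98882931 0 0) (P.cons (P.lf 0 3240003 0) (P.cons (P.lf 0 97117 0) (P.cons (P.lf 3731 0 0) (P.cons (P.lf 3 0 0) P.nil))))) (P.cons (P.cons (P.lf 0 56329910 0) (P.cons (P.lf 1840948 0 0) (P.cons (P.lf 56142 0 0) (P.cons (P.lf 0 2049 0) P.nil)))) (P.cons (P.cons (P.lf 0 11398726 0) (P.cons (P.lf 322129 0 0) (P.cons (P.lf 9091 0 0) P.nil))) (P.cons (P.cons (P.lf 4124738 0 0) (P.cons (P.lf 0 75726 0) P.nil)) (P.cons (P.cons (P.lf 358365 0 0) P.nil) P.nil)))))) 222852)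
 (EL.cons 1 (TM.mk (P.cons (P.cons (P.lf 267079869 0 0) (P.cons (P.lf 0 11614595 0) (P.cons (P.lf 0 306832 0) (P.cons (P.lf 16466 0 0) (P.cons (P.lf 20 0 0) (P.cons (P.lf 0 3 0) P.nil)))))) (P.cons (P.cons (P.lf 149094258 0 0) (P.cons (P.lf 0 5585542 0) (P.cons (P.lf 0 157320 0) (P.cons (P.lf 7188 0 0) (P.cons (P.lf 7 0 0) P.nil))))) (P.cons (P.cons (P.lf 0 15360832 0) (P.cons (P.lf 371979 0 0) (P.cons (P.lf 13800 0 0) (P.cons (P.lf 0 228 0) P.nil)))) (P.cons (P.cons (P.lf 0 15229687 0) (P.cons (P.lf 429054 0 0) (P.cons (P.lf 12948 0 0) P.nil))) (P.cons (P.cons (P.lf 230857 0 0) (P.cons (P.lf 26866 0 0) P.nil)) (P.cons (P.cons (P.lf 548576 0 0) P.nil) P.nil)))))) 158000)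
 (EL.cons 5 (TM.mk (P.cons (P.cons (P.lf 226272242 0 0) (P.cons (P.lf 0 9839980 0) (P.cons (P.lf 0 259950 0) (P.cons (P.lf 13950 0 0) (P.cons (P.lf 16 0 0) (P.cons (P.lf 0 4 0) P.nil)))))) (P.cons (P.cons (P.lf 181653368 0 0) (P.cons (P.lf 0 7138686 0) (P.cons (P.lf 0 196860 0) (P.cons (P.lf 9502 0 0) (P.cons (P.lf 10 0 0) P.nil))))) (P.cons (P.cons (P.lf 27938206 0 0) (P.cons (P.lf 0 1279646 0) (P.cons (P.lf 0 32460 0) (P.cons (P.lf 1914 0 0) P.nil)))) (P.cons (P.cons (P.lf 0 8458090 0) (P.cons (P.lf 142706 0 0) (P.cons (P.lf 5594 0 0) P.nil))) (P.cons (P.cons (P.lf 0 2013108 0) (P.cons (P.lf 66098 0 0) P.nil)) (P.cons (P.cons (P.lf 128362 0 0) P.nil) P.nil)))))) 101740)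
 EL.nil)))
noncomputable def S169_198_308_327_6 : EL := (EL.cons 12 (TM.mk (P.lf 8589934592 0 0) 0)
 (EL.cons 3 (TM.mk (P.cons (P.lf 0 2072840178 0) (P.cons (P.lf 339017325 0 0) (P.cons (P.lf 19911543 0 0) (P.cons (P.lf 0 509910 0) (P.cons (P.lf 0 91155 0) (P.cons (P.lf 0 1462 0) P.nil)))))) 487)
 (EL.cons 7 (TM.mk (P.cons (P.lf 0 1756127103 0) (P.cons (P.lf 0 142278485 0) (P.cons (P.lf 9042093 0 0) (P.cons (P.lf 848140 0 0) (P.cons (P.lf 0 2043 0) (P.cons (P.lf 0 3166 0) P.nil)))))) 195)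
 EL.nil)))
noncomputable def S169_198_308_327_7 : EL := (EL.cons 12 (TM.mk (P.cons (P.cons (P.lf 3409686788 0 0) (P.cons (P.lf 0 74139128 0) (P.cons (P.lf 0 2764632 0) (P.lf 45008 0 0)))) (P.cons (P.cons (P.lf 1092416302 0 0) (P.cons (P.lf 0 18019880 0) (P.cons (P.lf 0 671952 0) (P.lf 10936 0 0)))) (P.cons (P.cons (P.lf 0 135143638 0) (P.cons (P.lf 0 314736 0) (P.cons (P.lf 0 11736 0) (P.lf 192 0 0)))) (P.cons (P.cons (P.lf 0 19738992 0) (P.cons (P.lf 253552 0 0) (P.cons (P.lf 9448 0 0) P.nil))) (P.cons (P.cons (P.lf 892138 0 0) (P.cons (P.lf 18760 0 0) P.nil)) (P.cons (P.cons (P.lf 220588 0 0) P.nil) P.nil)))))) 27642)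
 (EL.cons 3 (TM.mk (P.cons (P.cons (P.lf 2430932302 0 0) (P.cons (P.lf 0 35781078 0) (P.cons (P.lf 0 1334266 0) (P.lf 21720 0 0)))) (P.cons (P.cons (P.lf 0 789063601 0) (P.cons (P.lf 0 2844694 0) (P.cons (P.lf 0 106074 0) (P.lf 1724 0 0)))) (P.cons (P.cons (P.lf 0 143129530 0) (P.cons (P.lf 1614184 0 0) (P.cons (P.lf 60190 0 0) (P.lf 0 978 0)))) (P.cons (P.cons (P.lf 8115089 0 0) (P.cons (P.lf 221948 0 0) (P.cons (P.lf 8272 0 0) P.nil))) (P.cons (P.cons (P.lf 3136578 0 0) (P.cons (P.lf 0 13212 0) P.nil)) (P.cons (P.cons (P.lf 79192 0 0) P.nil) P.nil)))))) 104173)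
 (EL.cons 7 (TM.mk (P.cons (P.cons (P.lf 0 2062597115 0) (P.cons (P.lf 37681871 0 0) (P.cons (P.lf 1405150 0 0) (P.lf 0 22878 0)))) (P.cons (P.cons (P.lf 331153500 0 0) (P.cons (P.lf 1193865 0 0) (P.cons (P.lf 44520 0 0) (P.lf 0 725 0)))) (P.cons (P.cons (P.lf 19573297 0 0) (P.cons (P.lf 0 823427 0) (P.cons (P.lf 0 30701 0) (P.lf 499 0 0)))) (P.cons (P.cons (P.lf 0 11504462 0) (P.cons (P.lf 23416 0 0) (P.cons (P.lf 871 0 0) P.nil))) (P.cons (P.cons (P.lf 0 377308 0) (P.cons (P.lf 16894 0 0) P.nil)) (P.cons (P.cons (P.lf 160061 0 0) P.nil) P.nil)))))) 62715)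
 (EL.cons 10 (TM.mk (P.cons (P.cons (P.lf 0 1133399403 0) (P.cons (P.lf 0 93138630 0) (P.cons (P.lf 1632450 0 0) (P.cons (P.lf 31362 0 0) (P.lf 0 381 0))))) (P.cons (P.cons (P.lf 0 183652251 0) (P.cons (P.lf 0 15091872 0) (P.cons (P.lf 264516 0 0) (P.cons (P.lf 5082 0 0) (P.lf 0 60 0))))) (P.cons (P.cons (P.lf 4231878 0 0) (P.cons (P.lf 347760 0 0) (P.cons (P.lf 0 6093 0) (P.cons (P.lf 0 117 0) P.nil)))) (P.cons (P.cons (P.lf 2040375 0 0) (P.cons (P.lf 167670 0 0) (P.cons (P.lf 0 2937 0) P.nil))) (P.cons (P.cons (P.lf 56010 0 0) (P.cons (P.lf 4602 0 0) P.nil)) (P.cons (P.cons (P.lf 0 9936 0) P.nil) P.nil)))))) 2070)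
 EL.nil))))
noncomputable def S169_198_308_327_8 : EL := (EL.cons 12 (TM.mk (P.cons (P.cons (P.lf 1353440338 0 0) (P.cons (P.lf 0 58857538 0) (P.cons (P.lf 0 1554894 0) (P.cons (P.lf 83452 0 0) (P.cons (P.lf 112 0 0) (P.cons (P.lf 0 28 0) P.nil)))))) (P.cons (P.cons (P.lf 867246982 0 0) (P.cons (P.lf 0 33162752 0) (P.cons (P.lf 0 925570 0) (P.cons (P.lf 43326 0 0) (P.cons (P.lf 54 0 0) P.nil))))) (P.cons (P.cons (P.lf 31639172 0 0) (P.cons (P.lf 0 2500352 0) (P.cons (P.lf 0 50000 0) (P.cons (P.lf 4742 0 0) P.nil)))) (P.cons (P.cons (P.lf 0 50043894 0) (P.cons (P.lf 1028974 0 0) (P.cons (P.lf 35308 0 0) P.nil))) (P.cons (P.cons (P.lf 0 2186136 0) (P.cons (P.lf 156702 0 0) P.nil)) (P.cons (P.cons (P.lf 1023132 0 0) P.nil) P.nil)))))) 207038)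
 (EL.cons 3 (TM.mk (P.cons (P.cons (P.lf 2256466656 0 0) (P.cons (P.lf 0 84571216 0) (P.cons (P.lf 0 2381579 0) (P.cons (P.lf 108917 0 0) (P.cons (P.lf 136 0 0) (P.cons (P.lf 0 30 0) P.nil)))))) (P.cons (P.cons (P.lf 147740974 0 0) (P.cons (P.lf 0 13617251 0) (P.cons (P.lf 0 258738 0) (P.cons (P.lf 26830 0 0) (P.cons (P.lf 40 0 0) P.nil))))) (P.cons (P.cons (P.lf 0 420544944 0) (P.cons (P.lf 8128815 0 0) (P.cons (P.lf 286483 0 0) (P.cons (P.lf 0 6172 0) P.nil)))) (P.cons (P.cons (P.lf 0 31560892 0) (P.cons (P.lf 1922838 0 0) (P.cons (P.lf 56058 0 0) P.nil))) (P.cons (P.cons (P.lf 14629168 0 0) (P.cons (P.lf 0 112443 0) P.nil)) (P.cons (P.cons (P.lf 1684539 0 0) P.nil) P.nil)))))) 665014)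
 (EL.cons 7 (TM.mk (P.cons (P.cons (P.lf 0 1360756228 0) (P.cons (P.lf 53486289 0 0) (P.cons (P.lf 1474850 0 0) (P.cons (P.lf 0 71222 0) (P.cons (P.lf 0 88 0) (P.cons (P.lf 17 0 0) P.nil)))))) (P.cons (P.cons (P.lf 0 62003805 0) (P.cons (P.lf 5714887 0 0) (P.cons (P.lf 108597 0 0) (P.cons (P.lf 0 11259 0) (P.cons (P.lf 0 12 0) P.nil))))) (P.cons (P.cons (P.lf 184076071 0 0) (P.cons (P.lf 0 4110334 0) (P.cons (P.lf 0 133507 0) (P.cons (P.lf 3963 0 0) P.nil)))) (P.cons (P.cons (P.lf 0 15848749 0) (P.cons (P.lf 0 221482 0) (P.cons (P.lf 0 3372 0) P.nil))) (P.cons (P.cons (P.lf 0 7186362 0) (P.cons (P.lf 166471 0 0) P.nil)) (P.cons (P.cons (P.lf 489210 0 0) P.nil) P.nil)))))) 405832)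
 (EL.cons 10 (TM.mk (P.cons (P.cons (P.lf 0 899782626 0) (P.cons (P.lf 0 54376272 0) (P.cons (P.lf 3633270 0 0) (P.cons (P.lf 44790 0 0) (P.cons (P.lf 0 2868 0) (P.cons (P.lf 0 0 0) P.nil)))))) (P.cons (P.cons (P.lf 0 434075628 0) (P.cons (P.lf 0 27745302 0) (P.cons (P.lf 1572024 0 0) (P.cons (P.lf 20070 0 0) (P.cons (P.lf 0 1182 0) P.nil))))) (P.cons (P.cons (P.lf 0 7688904 0) (P.cons (P.lf 148686 0 0) (P.cons (P.lf 104322 0 0) (P.cons (P.lf 1002 0 0) P.nil)))) (P.cons (P.cons (P.lf 13683828 0 0) (P.cons (P.lf 1018056 0 0) (P.cons (P.lf 0 32418 0) P.nil))) (P.cons (P.cons (P.lf 1038882 0 0) (P.cons (P.lf 59736 0 0) P.nil)) (P.cons (P.cons (P.lf 0 173646 0) P.nil) P.nil)))))) 63762)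
 EL.nil))))
noncomputable def S169_198_308_327_9 : EL := (EL.cons 3 (TM.mk (P.cons (P.lf 0 2072840178 0) (P.cons (P.lf 339017325 0 0) (P.cons (P.lf 19911543 0 0) (P.cons (P.lf 0 509910 0) (P.cons (P.lf 0 91155 0) (P.cons (P.lf 0 1462 0) P.nil)))))) 487)
 (EL.cons 7 (TM.mk (P.cons (P.lf 0 1756127103 0) (P.cons (P.lf 0 142278485 0) (P.cons (P.lf 9042093 0 0) (P.cons (P.lf 848140 0 0) (P.cons (P.lf 0 2043 0) (P.cons (P.lf 0 3166 0) P.nil)))))) 195)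
 EL.nil))
noncomputable def S169_198_308_327_10 : EL := (EL.cons 3 (TM.mk (P.cons (P.cons (P.lf 0 822792734 0) (P.cons (P.lf 17890539 0 0) (P.cons (P.lf 667133 0 0) (P.lf 0 10860 0)))) (P.cons (P.cons (P.lf 0 129041902 0) (P.cons (P.lf 1422347 0 0) (P.cons (P.lf 53037 0 0) (P.lf 0 862 0)))) (P.cons (P.cons (P.lf 83629430 0 0) (P.cons (P.lf 0 807092 0) (P.cons (P.lf 0 30095 0) (P.lf 489 0 0)))) (P.cons (P.cons (P.lf 1759361 0 0) (P.cons (P.lf 0 110974 0) (P.cons (P.lf 0 4136 0) P.nil))) (P.cons (P.cons (P.lf 0 1408611 0) (P.cons (P.lf 6606 0 0) P.nil)) (P.cons (P.cons (P.lf 0 67925 0) P.nil) P.nil)))))) 24678)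
 (EL.cons 7 (TM.mk (P.cons (P.cons (P.lf 0 697076714 0) (P.cons (P.lf 15157010 0 0) (P.cons (P.lf 565201 0 0) (P.lf 0 9201 0)))) (P.cons (P.cons (P.lf 0 279809691 0) (P.cons (P.lf 4911981 0 0) (P.cons (P.lf 183165 0 0) (P.lf 0 2981 0)))) (P.cons (P.cons (P.lf 13123822 0 0) (P.cons (P.lf 284773 0 0) (P.cons (P.lf 10618 0 0) (P.lf 0 173 0)))) (P.cons (P.cons (P.lf 7760458 0 0) (P.cons (P.lf 0 72911 0) (P.cons (P.lf 0 2717 0) P.nil))) (P.cons (P.cons (P.lf 109349 0 0) (P.cons (P.lf 0 10127 0) P.nil)) (P.cons (P.cons (P.lf 0 95512 0) P.nil) P.nil)))))) 14612)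
 EL.nil))
noncomputable def S169_198_308_327_11 : EL := (EL.cons 3 (TM.mk (P.cons (P.cons (P.lf 0 326599170 0) (P.cons (P.lf 14202932 0 0) (P.cons (P.lf 375211 0 0) (P.cons (P.lf 0 20137 0) (P.cons (P.lf 0 26 0) (P.cons (P.lf 6 0 0) P.nil)))))) (P.cons (P.cons (P.lf 0 155859704 0) (P.cons (P.lf 5679595 0 0) (P.cons (P.lf 161982 0 0) (P.cons (P.lf 0 7160 0) (P.cons (P.lf 0 8 0) P.nil))))) (P.cons (P.cons (P.lf 29729898 0 0) (P.cons (P.lf 0 841899 0) (P.cons (P.lf 0 28067 0) (P.cons (P.lf 758 0 0) P.nil)))) (P.cons (P.cons (P.lf 15254750 0 0) (P.cons (P.lf 0 420360 0) (P.cons (P.lf 0 12546 0) P.nil))) (P.cons (P.cons (P.lf 0 1440038 0) (P.cons (P.lf 0 405 0) P.nil)) (P.cons (P.cons (P.lf 0 460485 0) P.nil) P.nil)))))) 122394)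
 (EL.cons 7 (TM.mk (P.cons (P.cons (P.lf 0 276697480 0) (P.cons (P.lf 12032841 0 0) (P.cons (P.lf 317882 0 0) (P.cons (P.lf 0 17060 0) (P.cons (P.lf 0 22 0) (P.cons (P.lf 5 0 0) P.nil)))))) (P.cons (P.cons (P.lf 0 199717629 0) (P.cons (P.lf 7754677 0 0) (P.cons (P.lf 214977 0 0) (P.cons (P.lf 0 10239 0) (P.cons (P.lf 0 12 0) P.nil))))) (P.cons (P.cons (P.lf 0 19408187 0) (P.cons (P.lf 998504 0 0) (P.cons (P.lf 23915 0 0) (P.cons (P.lf 0 1599 0) P.nil)))) (P.cons (P.cons (P.lf 10753457 0 0) (P.cons (P.lf 0 209668 0) (P.cons (P.lf 0 7518 0) P.nil))) (P.cons (P.cons (P.lf 1394442 0 0) (P.cons (P.lf 0 54971 0) P.nil)) (P.cons (P.cons (P.lf 0 223218 0) P.nil) P.nil)))))) 77196)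
 EL.nil))
noncomputable def S169_198_308_327_12 : EL := (EL.cons 4 (TM.mk (P.cons (P.lf 2072840178 0 0) (P.cons (P.lf 0 339017325 0) (P.cons (P.lf 0 19911543 0) (P.cons (P.lf 509910 0 0) (P.cons (P.lf 91155 0 0) (P.cons (P.lf 1462 0 0) P.nil)))))) 487)
 (EL.cons 8 (TM.mk (P.cons (P.lf 1756127103 0 0) (P.cons (P.lf 142278485 0 0) (P.cons (P.lf 0 9042093 0) (P.cons (P.lf 0 848140 0) (P.cons (P.lf 2043 0 0) (P.cons (P.lf 3166 0 0) P.nil)))))) 195)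
 EL.nil))
noncomputable def S169_198_308_327_13 : EL := (EL.cons 4 (TM.mk (P.cons (P.cons (P.lf 822792734 0 0) (P.cons (P.lf 0 17890539 0) (P.cons (P.lf 0 667133 0) (P.lf 10860 0 0)))) (P.cons (P.cons (P.lf 129041902 0 0) (P.cons (P.lf 0 1422347 0) (P.cons (P.lf 0 53037 0) (P.lf 862 0 0)))) (P.cons (P.cons (P.lf 0 83629430 0) (P.cons (P.lf 807092 0 0) (P.cons (P.lf 30095 0 0) (P.lf 0 489 0)))) (P.cons (P.cons (P.lf 0 1759361 0) (P.cons (P.lf 110974 0 0) (P.cons (P.lf 4136 0 0) P.nil))) (P.cons (P.cons (P.lf 1408611 0 0) (P.cons (P.lf 0 6606 0) P.nil)) (P.cons (P.cons (P.lf 67925 0 0) P.nil) P.nil)))))) 24678)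
 (EL.cons 8 (TM.mk (P.cons (P.cons (P.lf 697076714 0 0) (P.cons (P.lf 0 15157010 0) (P.cons (P.lf 0 565201 0) (P.lf 9201 0 0)))) (P.cons (P.cons (P.lf 279809691 0 0) (P.cons (P.lf 0 4911981 0) (P.cons (P.lf 0 183165 0) (P.lf 2981 0 0)))) (P.cons (P.cons (P.lf 0 13123822 0) (P.cons (P.lf 0 284773 0) (P.cons (P.lf 0 10618 0) (P.lf 173 0 0)))) (P.cons (P.cons (P.lf 0 7760458 0) (P.cons (P.lf 72911 0 0) (P.cons (P.lf 2717 0 0) P.nil))) (P.cons (P.cons (P.lf 0 109349 0) (P.cons (P.lf 10127 0 0) P.nil)) (P.cons (P.cons (P.lf 95512 0 0) P.nil) P.nil)))))) 14612)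
 EL.nil))
noncomputable def S169_198_308_327_14 : EL := (EL.cons 4 (TM.mk (P.cons (P.cons (P.lf 326599170 0 0) (P.cons (P.lf 0 14202932 0) (P.cons (P.lf 0 375211 0) (P.cons (P.lf 20137 0 0) (P.cons (P.lf 26 0 0) (P.cons (P.lf 0 6 0) P.nil)))))) (P.cons (P.cons (P.lf 155859704 0 0) (P.cons (P.lf 0 5679595 0) (P.cons (P.lf 0 161982 0) (P.cons (P.lf 7160 0 0) (P.cons (P.lf 8 0 0) P.nil))))) (P.cons (P.cons (P.lf 0 29729898 0) (P.cons (P.lf 841899 0 0) (P.cons (P.lf 28067 0 0) (P.cons (P.lf 0 758 0) P.nil)))) (P.cons (P.cons (P.lf 0 15254750 0) (P.cons (P.lf 420360 0 0) (P.cons (P.lf 12546 0 0) P.nil))) (P.cons (P.cons (P.lf 1440038 0 0) (P.cons (P.lf 405 0 0) P.nil)) (P.cons (P.cons (P.lf 460485 0 0) P.nil) P.nil)))))) 122394)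
 (EL.cons 8 (TM.mk (P.cons (P.cons (P.lf 276697480 0 0) (P.cons (P.lf 0 12032841 0) (P.cons (P.lf 0 317882 0) (P.cons (P.lf 17060 0 0) (P.cons (P.lf 22 0 0) (P.cons (P.lf 0 5 0) P.nil)))))) (P.cons (P.cons (P.lf 199717629 0 0) (P.cons (P.lf 0 7754677 0) (P.cons (P.lf 0 214977 0) (P.cons (P.lf 10239 0 0) (P.cons (P.lf 12 0 0) P.nil))))) (P.cons (P.cons (P.lf 19408187 0 0) (P.cons (P.lf 0 998504 0) (P.cons (P.lf 0 23915 0) (P.cons (P.lf 1599 0 0) P.nil)))) (P.cons (P.cons (P.lf 0 10753457 0) (P.cons (P.lf 209668 0 0) (P.cons (P.lf 7518 0 0) P.nil))) (P.cons (P.cons (P.lf 0 1394442 0) (P.cons (P.lf 54971 0 0) P.nil)) (P.cons (P.cons (P.lf 223218 0 0) P.nil) P.nil)))))) 77196)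
 EL.nil))
noncomputable def S169_198_308_327_15 : EL := (EL.cons 4 (TM.mk (P.cons (P.lf 0 1067088645 0) (P.cons (P.lf 349049136 0 0) (P.cons (P.lf 0 8043112 0) (P.cons (P.lf 0 3877937 0) (P.cons (P.lf 0 106451 0) (P.cons (P.lf 18886 0 0) P.nil)))))) 1845)
 (EL.cons 8 (TM.mk (P.cons (P.lf 0 904046202 0) (P.cons (P.lf 74614324 0 0) (P.cons (P.lf 25318286 0 0) (P.cons (P.lf 156499 0 0) (P.cons (P.lf 0 174949 0) (P.cons (P.lf 0 8365 0) P.nil)))))) 1031)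
 EL.nil))
noncomputable def S169_198_308_327_16 : EL := (EL.cons 4 (TM.mk (P.cons (P.cons (P.lf 0 423569936 0) (P.cons (P.lf 9209967 0 0) (P.cons (P.lf 343437 0 0) (P.lf 0 5590 0)))) (P.cons (P.cons (P.lf 2845561 0 0) (P.cons (P.lf 0 774090 0) (P.cons (P.lf 0 28865 0) (P.lf 469 0 0)))) (P.cons (P.cons (P.lf 57985622 0 0) (P.cons (P.lf 0 623713 0) (P.cons (P.lf 0 23257 0) (P.lf 377 0 0)))) (P.cons (P.cons (P.lf 0 5601613 0) (P.cons (P.lf 6055 0 0) (P.cons (P.lf 225 0 0) P.nil))) (P.cons (P.cons (P.lf 0 1321800 0) (P.cons (P.lf 17320 0 0) P.nil)) (P.cons (P.cons (P.lf 82301 0 0) P.nil) P.nil)))))) 32274)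
 (EL.cons 8 (TM.mk (P.cons (P.cons (P.lf 0 358851904 0) (P.cons (P.lf 7802759 0 0) (P.cons (P.lf 290962 0 0) (P.lf 0 4736 0)))) (P.cons (P.cons (P.lf 0 85353773 0) (P.cons (P.lf 1252507 0 0) (P.cons (P.lf 46704 0 0) (P.lf 0 759 0)))) (P.cons (P.cons (P.lf 33762005 0 0) (P.cons (P.lf 0 341921 0) (P.cons (P.lf 0 12749 0) (P.lf 207 0 0)))) (P.cons (P.cons (P.lf 4185483 0 0) (P.cons (P.lf 0 83881 0) (P.cons (P.lf 0 3127 0) P.nil))) (P.cons (P.cons (P.lf 0 713219 0) (P.cons (P.lf 481 0 0) P.nil)) (P.cons (P.cons (P.lf 0 101677 0) P.nil) P.nil)))))) 19343)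
 EL.nil))
noncomputable def S169_198_308_327_17 : EL := (EL.cons 4 (TM.mk (P.cons (P.cons (P.lf 0 168131759 0) (P.cons (P.lf 7311604 0 0) (P.cons (P.lf 193156 0 0) (P.cons (P.lf 0 10365 0) (P.cons (P.lf 0 13 0) (P.cons (P.lf 2 0 0) P.nil)))))) (P.cons (P.cons (P.lf 0 52737563 0) (P.cons (P.lf 1728001 0 0) (P.cons (P.lf 51795 0 0) (P.cons (P.lf 0 1990 0) (P.cons (P.lf 0 1 0) P.nil))))) (P.cons (P.cons (P.lf 30042618 0 0) (P.cons (P.lf 0 981839 0) (P.cons (P.lf 0 29942 0) (P.cons (P.lf 1093 0 0) P.nil)))) (P.cons (P.cons (P.lf 6079320 0 0) (P.cons (P.lf 0 171802 0) (P.cons (P.lf 0 4848 0) P.nil))) (P.cons (P.cons (P.lf 0 2199860 0) (P.cons (P.lf 40387 0 0) P.nil)) (P.cons (P.cons (P.lf 0 191128 0) P.nil) P.nil)))))) 118865)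
 (EL.cons 8 (TM.mk (P.cons (P.cons (P.lf 0 142442597 0) (P.cons (P.lf 6194451 0 0) (P.cons (P.lf 163644 0 0) (P.cons (P.lf 0 8782 0) (P.cons (P.lf 0 11 0) (P.cons (P.lf 2 0 0) P.nil)))))) (P.cons (P.cons (P.lf 0 79516938 0) (P.cons (P.lf 2978956 0 0) (P.cons (P.lf 83904 0 0) (P.cons (P.lf 0 3834 0) (P.cons (P.lf 0 4 0) P.nil))))) (P.cons (P.cons (P.lf 8192444 0 0) (P.cons (P.lf 0 198389 0) (P.cons (P.lf 0 7360 0) (P.cons (P.lf 122 0 0) P.nil)))) (P.cons (P.cons (P.lf 8122500 0 0) (P.cons (P.lf 0 228829 0) (P.cons (P.lf 0 6906 0) P.nil))) (P.cons (P.cons (P.lf 0 123124 0) (P.cons (P.lf 0 14329 0) P.nil)) (P.cons (P.cons (P.lf 0 292574 0) P.nil) P.nil)))))) 84255)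
 EL.nil))
noncomputable def S169_198_308_327_18 : EL := (EL.cons 4 (TM.mk (P.cons (P.lf 549332354 0 0) (P.cons (P.lf 0 269533349 0) (P.cons (P.lf 28252205 0 0) (P.cons (P.lf 3180359 0 0) (P.cons (P.lf 0 331524 0) (P.cons (P.lf 0 44357 0) P.nil)))))) 4415)
 (EL.cons 8 (TM.mk (P.cons (P.lf 465398850 0 0) (P.cons (P.lf 0 114528063 0) (P.cons (P.lf 0 11222106 0) (P.cons (P.lf 2534590 0 0) (P.cons (P.lf 239457 0 0) (P.cons (P.lf 0 14216 0) P.nil)))))) 3029)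
 EL.nil))
noncomputable def S169_198_308_327_19 : EL := (EL.cons 4 (TM.mk (P.cons (P.cons (P.lf 218051865 0 0) (P.cons (P.lf 0 4741248 0) (P.cons (P.lf 0 176799 0) (P.lf 2878 0 0)))) (P.cons (P.cons (P.lf 0 37127718 0) (P.cons (P.lf 1173939 0 0) (P.cons (P.lf 43775 0 0) (P.lf 0 712 0)))) (P.cons (P.cons (P.lf 0 31705739 0) (P.cons (P.lf 301453 0 0) (P.cons (P.lf 11240 0 0) (P.lf 0 182 0)))) (P.cons (P.cons (P.lf 7833545 0 0) (P.cons (P.lf 0 60625 0) (P.cons (P.lf 0 2260 0) P.nil))) (P.cons (P.cons (P.lf 504796 0 0) (P.cons (P.lf 0 11601 0) P.nil)) (P.cons (P.cons (P.lf 0 188611 0) P.nil) P.nil)))))) 39721)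
 (EL.cons 8 (TM.mk (P.cons (P.cons (P.lf 184735319 0 0) (P.cons (P.lf 0 4016824 0) (P.cons (P.lf 0 149786 0) (P.lf 2438 0 0)))) (P.cons (P.cons (P.lf 13725886 0 0) (P.cons (P.lf 12174 0 0) (P.cons (P.lf 453 0 0) (P.lf 0 7 0)))) (P.cons (P.cons (P.lf 0 26341513 0) (P.cons (P.lf 320060 0 0) (P.cons (P.lf 11934 0 0) (P.lf 0 193 0)))) (P.cons (P.cons (P.lf 311315 0 0) (P.cons (P.lf 19599 0 0) (P.cons (P.lf 730 0 0) P.nil))) (P.cons (P.cons (P.lf 905451 0 0) (P.cons (P.lf 0 9336 0) P.nil)) (P.cons (P.cons (P.lf 10777 0 0) P.nil) P.nil)))))) 23852)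
 EL.nil))
noncomputable def S169_198_308_327_20 : EL := (EL.cons 4 (TM.mk (P.cons (P.cons (P.lf 86553460 0 0) (P.cons (P.lf 0 3763980 0) (P.cons (P.lf 0 99435 0) (P.cons (P.lf 5336 0 0) (P.cons (P.lf 6 0 0) (P.cons (P.lf 0 0 0) P.nil)))))) (P.cons (P.cons (P.lf 12993057 0 0) (P.cons (P.lf 0 273960 0) (P.cons (P.lf 0 10401 0) (P.cons (P.lf 151 0 0) (P.cons (P.lf 0 0 0) P.nil))))) (P.cons (P.cons (P.lf 0 20737513 0) (P.cons (P.lf 687092 0 0) (P.cons (P.lf 20730 0 0) (P.cons (P.lf 0 780 0) P.nil)))) (P.cons (P.cons (P.lf 0 839641 0) (P.cons (P.lf 13395 0 0) (P.cons (P.lf 206 0 0) P.nil))) (P.cons (P.cons (P.lf 1803379 0 0) (P.cons (P.lf 0 40495 0) P.nil)) (P.cons (P.cons (P.lf 0 59312 0) P.nil) P.nil)))))) 106685)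
 (EL.cons 8 (TM.mk (P.cons (P.cons (P.lf 73328797 0 0) (P.cons (P.lf 0 3188875 0) (P.cons (P.lf 0 84243 0) (P.cons (P.lf 4520 0 0) (P.cons (P.lf 5 0 0) (P.cons (P.lf 0 1 0) P.nil)))))) (P.cons (P.cons (P.lf 28941878 0 0) (P.cons (P.lf 0 1012006 0) (P.cons (P.lf 0 29415 0) (P.cons (P.lf 1234 0 0) (P.cons (P.lf 1 0 0) P.nil))))) (P.cons (P.cons (P.lf 0 11616820 0) (P.cons (P.lf 383577 0 0) (P.cons (P.lf 11662 0 0) (P.cons (P.lf 0 429 0) P.nil)))) (P.cons (P.cons (P.lf 0 3866835 0) (P.cons (P.lf 115043 0 0) (P.cons (P.lf 3329 0 0) P.nil))) (P.cons (P.cons (P.lf 801071 0 0) (P.cons (P.lf 0 13388 0) P.nil)) (P.cons (P.cons (P.lf 181229 0 0) P.nil) P.nil)))))) 72838)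
 EL.nil))
noncomputable def S169_198_308_327_21 : EL := (EL.cons 4 (TM.mk (P.cons (P.cons (P.lf 0 3253725036 0) (P.cons (P.lf 53671617 0 0) (P.cons (P.lf 2001399 0 0) (P.lf 0 32580 0)))) (P.cons (P.cons (P.lf 660021699 0 0) (P.cons (P.lf 4267041 0 0) (P.cons (P.lf 159111 0 0) (P.lf 0 2586 0)))) (P.cons (P.cons (P.lf 226758960 0 0) (P.cons (P.lf 0 2421276 0) (P.cons (P.lf 0 90285 0) (P.lf 1467 0 0)))) (P.cons (P.cons (P.lf 0 6355728 0) (P.cons (P.lf 0 332922 0) (P.cons (P.lf 0 12408 0) P.nil))) (P.cons (P.cons (P.lf 0 4545189 0) (P.cons (P.lf 19818 0 0) P.nil)) (P.cons (P.cons (P.lf 0 147117 0) P.nil) P.nil)))))) 79476)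
 (EL.cons 8 (TM.mk (P.cons (P.cons (P.lf 1365520401 0 0) (P.cons (P.lf 0 22524861 0) (P.cons (P.lf 0 839949 0) (P.lf 13677 0 0)))) (P.cons (P.cons (P.lf 0 610963191 0) (P.cons (P.lf 3718116 0 0) (P.cons (P.lf 138645 0 0) (P.lf 0 2256 0)))) (P.cons (P.cons (P.lf 0 6449475 0) (P.cons (P.lf 1108200 0 0) (P.cons (P.lf 41319 0 0) (P.lf 0 672 0)))) (P.cons (P.cons (P.lf 19264920 0 0) (P.cons (P.lf 0 96327 0) (P.cons (P.lf 0 3588 0) P.nil))) (P.cons (P.cons (P.lf 486657 0 0) (P.cons (P.lf 0 27021 0) P.nil)) (P.cons (P.cons (P.lf 0 255573 0) P.nil) P.nil)))))) 48084)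
 (EL.cons 11 (TM.mk (P.cons (P.cons (P.lf 1133399403 0 0) (P.cons (P.lf 93138630 0 0) (P.cons (P.lf 0 1632450 0) (P.cons (P.lf 0 31362 0) (P.lf 381 0 0))))) (P.cons (P.cons (P.lf 183652251 0 0) (P.cons (P.lf 15091872 0 0) (P.cons (P.lf 0 264516 0) (P.cons (P.lf 0 5082 0) (P.lf 60 0 0))))) (P.cons (P.cons (P.lf 0 4231878 0) (P.cons (P.lf 0 347760 0) (P.cons (P.lf 6093 0 0) (P.cons (P.lf 117 0 0) P.nil)))) (P.cons (P.cons (P.lf 0 2040375 0) (P.cons (P.lf 0 167670 0) (P.cons (P.lf 2937 0 0) P.nil))) (P.cons (P.cons (P.lf 0 56010 0) (P.cons (P.lf 0 4602 0) P.nil)) (P.cons (P.cons (P.lf 9936 0 0) P.nil) P.nil)))))) 2070)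
 EL.nil)))
noncomputable def S169_198_308_327_22 : EL := (EL.cons 4 (TM.mk (P.cons (P.cons (P.lf 0 1291532913 0) (P.cons (P.lf 49387074 0 0) (P.cons (P.lf 1378395 0 0) (P.cons (P.lf 0 64527 0) (P.cons (P.lf 0 81 0) (P.cons (P.lf 18 0 0) P.nil)))))) (P.cons (P.cons (P.lf 0 151800339 0) (P.cons (P.lf 9648423 0 0) (P.cons (P.lf 210360 0 0) (P.cons (P.lf 0 16995 0) (P.cons (P.lf 0 24 0) P.nil))))) (P.cons (P.cons (P.lf 225137421 0 0) (P.cons (P.lf 0 4485357 0) (P.cons (P.lf 0 157275 0) (P.cons (P.lf 3465 0 0) P.nil)))) (P.cons (P.cons (P.lf 23407821 0 0) (P.cons (P.lf 0 1171599 0) (P.cons (P.lf 0 34302 0) P.nil))) (P.cons (P.cons (P.lf 0 8034603 0) (P.cons (P.lf 56019 0 0) P.nil)) (P.cons (P.cons (P.lf 0 1072512 0) P.nil) P.nil)))))) 271299)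
 (EL.cons 8 (TM.mk (P.cons (P.cons (P.lf 542029374 0 0) (P.cons (P.lf 0 20726724 0) (P.cons (P.lf 0 578484 0) (P.cons (P.lf 27081 0 0) (P.cons (P.lf 33 0 0) (P.cons (P.lf 0 6 0) P.nil)))))) (P.cons (P.cons (P.lf 0 68856912 0) (P.cons (P.lf 1019895 0 0) (P.cons (P.lf 53190 0 0) (P.cons (P.lf 510 0 0) (P.cons (P.lf 0 0 0) P.nil))))) (P.cons (P.cons (P.lf 0 101742129 0) (P.cons (P.lf 2554419 0 0) (P.cons (P.lf 78711 0 0) (P.cons (P.lf 0 2781 0) P.nil)))) (P.cons (P.cons (P.lf 13301103 0 0) (P.cons (P.lf 5907 0 0) (P.cons (P.lf 0 2073 0) P.nil))) (P.cons (P.cons (P.lf 4290402 0 0) (P.cons (P.lf 0 110721 0) P.nil)) (P.cons (P.cons (P.lf 0 356214 0) P.nil) P.nil)))))) 164307)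
 (EL.cons 11 (TM.mk (P.cons (P.cons (P.lf 449891313 0 0) (P.cons (P.lf 27188136 0 0) (P.cons (P.lf 0 1816635 0) (P.cons (P.lf 0 22395 0) (P.cons (P.lf 1434 0 0) (P.cons (P.lf 0 0 0) P.nil)))))) (P.cons (P.cons (P.lf 217037814 0 0) (P.cons (P.lf 13872651 0 0) (P.cons (P.lf 0 786012 0) (P.cons (P.lf 0 10035 0) (P.cons (P.lf 591 0 0) P.nil))))) (P.cons (P.cons (P.lf 3844452 0 0) (P.cons (P.lf 0 74343 0) (P.cons (P.lf 0 52161 0) (P.cons (P.lf 0 501 0) P.nil)))) (P.cons (P.cons (P.lf 0 6841914 0) (P.cons (P.lf 0 509028 0) (P.cons (P.lf 16209 0 0) P.nil))) (P.cons (P.cons (P.lf 0 519441 0) (P.cons (P.lf 0 29868 0) P.nil)) (P.cons (P.cons (P.lf 86823 0 0) P.nil) P.nil)))))) 31881)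
 EL.nil)))
noncomputable def S169_198_308_327_23 : EL := (EL.cons 4 (TM.mk (P.cons (P.cons (P.lf 1675002768 0 0) (P.cons (P.lf 0 27629901 0) (P.cons (P.lf 0 1030311 0) (P.lf 16770 0 0)))) (P.cons (P.cons (P.lf 0 613726341 0) (P.cons (P.lf 2322273 0 0) (P.cons (P.lf 86598 0 0) (P.lf 0 1410 0)))) (P.cons (P.cons (P.lf 0 77253324 0) (P.cons (P.lf 1871139 0 0) (P.cons (P.lf 69771 0 0) (P.lf 0 1134 0)))) (P.cons (P.cons (P.lf 26039973 0 0) (P.cons (P.lf 0 18168 0) (P.cons (P.lf 0 678 0) P.nil))) (P.cons (P.cons (P.lf 2916135 0 0) (P.cons (P.lf 0 51960 0) P.nil)) (P.cons (P.cons (P.lf 0 380856 0) P.nil) P.nil)))))) 96999)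
 (EL.cons 8 (TM.mk (P.cons (P.cons (P.lf 0 702963657 0) (P.cons (P.lf 11595693 0 0) (P.cons (P.lf 432399 0 0) (P.lf 0 7038 0)))) (P.cons (P.cons (P.lf 429492225 0 0) (P.cons (P.lf 0 3810567 0) (P.cons (P.lf 0 142092 0) (P.lf 2310 0 0)))) (P.cons (P.cons (P.lf 0 41367798 0) (P.cons (P.lf 0 368832 0) (P.cons (P.lf 0 13749 0) (P.lf 222 0 0)))) (P.cons (P.cons (P.lf 0 13654701 0) (P.cons (P.lf 164133 0 0) (P.cons (P.lf 6117 0 0) P.nil))) (P.cons (P.cons (P.lf 1386060 0 0) (P.cons (P.lf 11319 0 0) P.nil)) (P.cons (P.cons (P.lf 281961 0 0) P.nil) P.nil)))))) 61704)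
 (EL.cons 11 (TM.mk (P.cons (P.cons (P.lf 0 583468827 0) (P.cons (P.lf 0 47947338 0) (P.cons (P.lf 840375 0 0) (P.cons (P.lf 16143 0 0) (P.lf 0 195 0))))) (P.cons (P.cons (P.lf 884202 0 0) (P.cons (P.lf 72660 0 0) (P.cons (P.lf 0 1272 0) (P.cons (P.lf 0 24 0) (P.lf 0 0 0))))) (P.cons (P.cons (P.lf 23246067 0 0) (P.cons (P.lf 1910274 0 0) (P.cons (P.lf 0 33480 0) (P.cons (P.lf 0 642 0) P.nil)))) (P.cons (P.cons (P.lf 1458714 0 0) (P.cons (P.lf 119871 0 0) (P.cons (P.lf 0 2100 0) P.nil))) (P.cons (P.cons (P.lf 0 212799 0) (P.cons (P.lf 0 17487 0) P.nil)) (P.cons (P.cons (P.lf 0 23952 0) P.nil) P.nil)))))) 5241)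
 EL.nil)))
noncomputable def S169_198_308_327_24 : EL := (EL.cons 4 (TM.mk (P.cons (P.cons (P.lf 664875237 0 0) (P.cons (P.lf 0 25424238 0) (P.cons (P.lf 0 709590 0) (P.cons (P.lf 33216 0 0) (P.cons (P.lf 42 0 0) (P.cons (P.lf 0 9 0) P.nil)))))) (P.cons (P.cons (P.lf 0 30595605 0) (P.cons (P.lf 0 808776 0) (P.cons (P.lf 7761 0 0) (P.cons (P.lf 3315 0 0) (P.cons (P.lf 6 0 0) P.nil))))) (P.cons (P.cons (P.lf 0 135067416 0) (P.cons (P.lf 3365622 0 0) (P.cons (P.lf 105492 0 0) (P.cons (P.lf 0 3534 0) P.nil)))) (P.cons (P.cons (P.lf 6318291 0 0) (P.cons (P.lf 266943 0 0) (P.cons (P.lf 5280 0 0) P.nil))) (P.cons (P.cons (P.lf 7268805 0 0) (P.cons (P.lf 0 152001 0) P.nil)) (P.cons (P.cons (P.lf 0 33207 0) P.nil) P.nil)))))) 286350)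
 (EL.cons 8 (TM.mk (P.cons (P.cons (P.lf 0 279034242 0) (P.cons (P.lf 10670022 0 0) (P.cons (P.lf 297801 0 0) (P.cons (P.lf 0 13941 0) (P.cons (P.lf 0 15 0) (P.cons (P.lf 3 0 0) P.nil)))))) (P.cons (P.cons (P.lf 81083853 0 0) (P.cons (P.lf 0 2270142 0) (P.cons (P.lf 0 76089 0) (P.cons (P.lf 2016 0 0) (P.cons (P.lf 0 0 0) P.nil))))) (P.cons (P.cons (P.lf 49259295 0 0) (P.cons (P.lf 0 1331625 0) (P.cons (P.lf 0 38901 0) (P.cons (P.lf 1608 0 0) P.nil)))) (P.cons (P.cons (P.lf 0 15822759 0) (P.cons (P.lf 219696 0 0) (P.cons (P.lf 8031 0 0) P.nil))) (P.cons (P.cons (P.lf 0 1595457 0) (P.cons (P.lf 70467 0 0) P.nil)) (P.cons (P.cons (P.lf 624633 0 0) P.nil) P.nil)))))) 94665)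
 (EL.cons 11 (TM.mk (P.cons (P.cons (P.lf 0 231601989 0) (P.cons (P.lf 0 13996326 0) (P.cons (P.lf 935196 0 0) (P.cons (P.lf 11529 0 0) (P.cons (P.lf 0 738 0) (P.cons (P.lf 0 0 0) P.nil)))))) (P.cons (P.cons (P.lf 0 73851084 0) (P.cons (P.lf 0 4852449 0) (P.cons (P.lf 251682 0 0) (P.cons (P.lf 3279 0 0) (P.cons (P.lf 0 183 0) P.nil))))) (P.cons (P.cons (P.lf 18519327 0 0) (P.cons (P.lf 1340739 0 0) (P.cons (P.lf 0 48309 0) (P.cons (P.lf 0 696 0) P.nil)))) (P.cons (P.cons (P.lf 4862169 0 0) (P.cons (P.lf 320943 0 0) (P.cons (P.lf 0 16392 0) P.nil))) (P.cons (P.cons (P.lf 0 327312 0) (P.cons (P.lf 0 30219 0) P.nil)) (P.cons (P.cons (P.lf 0 127827 0) P.nil) P.nil)))))) 32451)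
 EL.nil)))
noncomputable def S169_198_308_327_25 : EL := (EL.cons 4 (TM.mk (P.cons (P.cons (P.lf 0 862283766 0) (P.cons (P.lf 14223747 0 0) (P.cons (P.lf 530397 0 0) (P.lf 0 8634 0)))) (P.cons (P.cons (P.lf 456971817 0 0) (P.cons (P.lf 0 3521820 0) (P.cons (P.lf 0 131328 0) (P.lf 2136 0 0)))) (P.cons (P.cons (P.lf 0 3620526 0) (P.cons (P.lf 0 904359 0) (P.cons (P.lf 0 33720 0) (P.lf 546 0 0)))) (P.cons (P.cons (P.lf 0 23156715 0) (P.cons (P.lf 181878 0 0) (P.cons (P.lf 6783 0 0) P.nil))) (P.cons (P.cons (P.lf 349020 0 0) (P.cons (P.lf 34803 0 0) P.nil)) (P.cons (P.cons (P.lf 593427 0 0) P.nil) P.nil)))))) 80775)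
 (EL.cons 8 (TM.mk (P.cons (P.cons (P.lf 361882476 0 0) (P.cons (P.lf 0 5969409 0) (P.cons (P.lf 0 222597 0) (P.lf 3624 0 0)))) (P.cons (P.cons (P.lf 0 280287264 0) (P.cons (P.lf 2937972 0 0) (P.cons (P.lf 109554 0 0) (P.lf 0 1782 0)))) (P.cons (P.cons (P.lf 53981205 0 0) (P.cons (P.lf 0 73617 0) (P.cons (P.lf 0 2745 0) (P.lf 42 0 0)))) (P.cons (P.cons (P.lf 5759277 0 0) (P.cons (P.lf 0 135861 0) (P.cons (P.lf 0 5064 0) P.nil))) (P.cons (P.cons (P.lf 0 2106249 0) (P.cons (P.lf 6387 0 0) P.nil)) (P.cons (P.cons (P.lf 0 100203 0) P.nil) P.nil)))))) 69357)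
 (EL.cons 11 (TM.mk (P.cons (P.cons (P.lf 300367083 0 0) (P.cons (P.lf 24683070 0 0) (P.cons (P.lf 0 432621 0) (P.cons (P.lf 0 8310 0) (P.lf 99 0 0))))) (P.cons (P.cons (P.lf 0 49580844 0) (P.cons (P.lf 0 4074372 0) (P.cons (P.lf 71412 0 0) (P.cons (P.lf 1371 0 0) (P.lf 0 15 0))))) (P.cons (P.cons (P.lf 0 14777826 0) (P.cons (P.lf 0 1214385 0) (P.cons (P.lf 21282 0 0) (P.cons (P.lf 408 0 0) P.nil)))) (P.cons (P.cons (P.lf 1284543 0 0) (P.cons (P.lf 105558 0 0) (P.cons (P.lf 0 1848 0) P.nil))) (P.cons (P.cons (P.lf 360414 0 0) (P.cons (P.lf 29616 0 0) P.nil)) (P.cons (P.cons (P.lf 0 1122 0) P.nil) P.nil)))))) 8355)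
 EL.nil)))
noncomputable def S169_198_308_327_26 : EL := (EL.cons 4 (TM.mk (P.cons (P.cons (P.lf 0 342274731 0) (P.cons (P.lf 13088280 0 0) (P.cons (P.lf 365292 0 0) (P.cons (P.lf 0 17100 0) (P.cons (P.lf 0 21 0) (P.cons (P.lf 3 0 0) P.nil)))))) (P.cons (P.cons (P.lf 71730222 0 0) (P.cons (P.lf 0 1724259 0) (P.cons (P.lf 0 63738 0) (P.cons (P.lf 1086 0 0) (P.cons (P.lf 0 0 0) P.nil))))) (P.cons (P.cons (P.lf 70243929 0 0) (P.cons (P.lf 0 1926426 0) (P.cons (P.lf 0 57162 0) (P.cons (P.lf 2262 0 0) P.nil)))) (P.cons (P.cons (P.lf 0 14860239 0) (P.cons (P.lf 145167 0 0) (P.cons (P.lf 6288 0 0) P.nil))) (P.cons (P.cons (P.lf 0 3889068 0) (P.cons (P.lf 118044 0 0) P.nil)) (P.cons (P.cons (P.lf 677898 0 0) P.nil) P.nil)))))) 248733)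
 (EL.cons 8 (TM.mk (P.cons (P.cons (P.lf 143645550 0 0) (P.cons (P.lf 0 5492877 0) (P.cons (P.lf 0 153306 0) (P.cons (P.lf 7176 0 0) (P.cons (P.lf 9 0 0) (P.cons (P.lf 0 0 0) P.nil)))))) (P.cons (P.cons (P.lf 0 65235126 0) (P.cons (P.lf 2067030 0 0) (P.cons (P.lf 64242 0 0) (P.cons (P.lf 0 2211 0) (P.cons (P.lf 0 0 0) P.nil))))) (P.cons (P.cons (P.lf 0 19911381 0) (P.cons (P.lf 547143 0 0) (P.cons (P.lf 15090 0 0) (P.cons (P.lf 0 726 0) P.nil)))) (P.cons (P.cons (P.lf 12729213 0 0) (P.cons (P.lf 0 237792 0) (P.cons (P.lf 0 7821 0) P.nil))) (P.cons (P.cons (P.lf 0 271236 0) (P.cons (P.lf 0 24318 0) P.nil)) (P.cons (P.cons (P.lf 0 542106 0) P.nil) P.nil)))))) 97401)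
 (EL.cons 11 (TM.mk (P.cons (P.cons (P.lf 119227644 0 0) (P.cons (P.lf 7205244 0 0) (P.cons (P.lf 0 481434 0) (P.cons (P.lf 0 5934 0) (P.cons (P.lf 378 0 0) (P.cons (P.lf 0 0 0) P.nil)))))) (P.cons (P.cons (P.lf 18518271 0 0) (P.cons (P.lf 1319583 0 0) (P.cons (P.lf 0 50823 0) (P.cons (P.lf 0 717 0) (P.cons (P.lf 30 0 0) P.nil))))) (P.cons (P.cons (P.lf 0 16896912 0) (P.cons (P.lf 0 1167975 0) (P.cons (P.lf 50682 0 0) (P.cons (P.lf 690 0 0) P.nil)))) (P.cons (P.cons (P.lf 0 1279641 0) (P.cons (P.lf 0 74559 0) (P.cons (P.lf 5496 0 0) P.nil))) (P.cons (P.cons (P.lf 684048 0 0) (P.cons (P.lf 50139 0 0) P.nil)) (P.cons (P.cons (P.lf 61701 0 0) P.nil) P.nil)))))) 35646)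
 EL.nil)))
noncomputable def S169_198_308_327_27 : EL := (EL.cons 13 (TM.mk (P.lf 0 4294967296 0) 0)
 EL.nil)
noncomputable def S169_198_308_327_28 : EL := (EL.cons 13 (TM.mk (P.cons (P.cons (P.lf 0 1704843394 0) (P.cons (P.lf 37069564 0 0) (P.cons (P.lf 1382316 0 0) (P.lf 0 22504 0)))) (P.cons (P.cons (P.lf 0 546208151 0) (P.cons (P.lf 9009940 0 0) (P.cons (P.lf 335976 0 0) (P.lf 0 5468 0)))) (P.cons (P.cons (P.lf 67571819 0 0) (P.cons (P.lf 157368 0 0) (P.cons (P.lf 5868 0 0) (P.lf 0 96 0)))) (P.cons (P.cons (P.lf 9869496 0 0) (P.cons (P.lf 0 126776 0) (P.cons (P.lf 0 4724 0) P.nil))) (P.cons (P.cons (P.lf 0 446069 0) (P.cons (P.lf 0 9380 0) P.nil)) (P.cons (P.cons (P.lf 0 110294 0) P.nil) P.nil)))))) 13821)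
 EL.nil)
noncomputable def S169_198_308_327_29 : EL := (EL.cons 13 (TM.mk (P.cons (P.cons (P.lf 0 676720169 0) (P.cons (P.lf 29428769 0 0) (P.cons (P.lf 777447 0 0) (P.cons (P.lf 0 41726 0) (P.cons (P.lf 0 56 0) (P.cons (P.lf 14 0 0) P.nil)))))) (P.cons (P.cons (P.lf 0 433623491 0) (P.cons (P.lf 16581376 0 0) (P.cons (P.lf 462785 0 0) (P.cons (P.lf 0 21663 0) (P.cons (P.lf 0 27 0) P.nil))))) (P.cons (P.cons (P.lf 0 15819586 0) (P.cons (P.lf 1250176 0 0) (P.cons (P.lf 25000 0 0) (P.cons (P.lf 0 2371 0) P.nil)))) (P.cons (P.cons (P.lf 25021947 0 0) (P.cons (P.lf 0 514487 0) (P.cons (P.lf 0 17654 0) P.nil))) (P.cons (P.cons (P.lf 1093068 0 0) (P.cons (P.lf 0 78351 0) P.nil)) (P.cons (P.cons (P.lf 0 511566 0) P.nil) P.nil)))))) 103519)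
 EL.nil)
noncomputable def S169_198_308_327_30 : EL := (EL.cons 13 (TM.mk (P.cons (P.lf 2211029524 0 0) (P.cons (P.lf 0 361618480 0) (P.cons (P.lf 0 21238980 0) (P.cons (P.lf 543904 0 0) (P.cons (P.lf 97232 0 0) (P.cons (P.lf 1560 0 0) P.nil)))))) 512)
 EL.nil)
noncomputable def S169_198_308_327_31 : EL := (EL.cons 13 (TM.mk (P.cons (P.cons (P.lf 877645583 0 0) (P.cons (P.lf 0 19083242 0) (P.cons (P.lf 0 711609 0) (P.lf 11584 0 0)))) (P.cons (P.cons (P.lf 137644696 0 0) (P.cons (P.lf 0 1517171 0) (P.cons (P.lf 0 56573 0) (P.lf 920 0 0)))) (P.cons (P.cons (P.lf 0 89204726 0) (P.cons (P.lf 860899 0 0) (P.cons (P.lf 32102 0 0) (P.lf 0 522 0)))) (P.cons (P.cons (P.lf 0 1876652 0) (P.cons (P.lf 118373 0 0) (P.cons (P.lf 4412 0 0) P.nil))) (P.cons (P.cons (P.lf 1502519 0 0) (P.cons (P.lf 0 7047 0) P.nil)) (P.cons (P.cons (P.lf 72454 0 0) P.nil) P.nil)))))) 26303)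
 EL.nil)
noncomputable def S169_198_308_327_32 : EL := (EL.cons 13 (TM.mk (P.cons (P.cons (P.lf 348372448 0 0) (P.cons (P.lf 0 15149795 0) (P.cons (P.lf 0 400226 0) (P.cons (P.lf 21480 0 0) (P.cons (P.lf 28 0 0) (P.cons (P.lf 0 7 0) P.nil)))))) (P.cons (P.cons (P.lf 166250351 0 0) (P.cons (P.lf 0 6058235 0) (P.cons (P.lf 0 172781 0) (P.cons (P.lf 7638 0 0) (P.cons (P.lf 9 0 0) P.nil))))) (P.cons (P.cons (P.lf 0 31711892 0) (P.cons (P.lf 898026 0 0) (P.cons (P.lf 29939 0 0) (P.cons (P.lf 0 809 0) P.nil)))) (P.cons (P.cons (P.lf 0 16271734 0) (P.cons (P.lf 448384 0 0) (P.cons (P.lf 13383 0 0) P.nil))) (P.cons (P.cons (P.lf 1536041 0 0) (P.cons (P.lf 433 0 0) P.nil)) (P.cons (P.cons (P.lf 491185 0 0) P.nil) P.nil)))))) 130531)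
 EL.nil)
noncomputable def S169_198_308_327_33 : EL := (EL.cons 14 (TM.mk (P.lf 8589934592 0 0) 0)
 EL.nil)
noncomputable def S169_198_308_327_34 : EL := (EL.cons 14 (TM.mk (P.cons (P.cons (P.lf 3409686788 0 0) (P.cons (P.lf 0 74139128 0) (P.cons (P.lf 0 2764632 0) (P.lf 45008 0 0)))) (P.cons (P.cons (P.lf 1092416302 0 0) (P.cons (P.lf 0 18019880 0) (P.cons (P.lf 0 671952 0) (P.lf 10936 0 0)))) (P.cons (P.cons (P.lf 0 135143638 0) (P.cons (P.lf 0 314736 0) (P.cons (P.lf 0 11736 0) (P.lf 192 0 0)))) (P.cons (P.cons (P.lf 0 19738992 0) (P.cons (P.lf 253552 0 0) (P.cons (P.lf 9448 0 0) P.nil))) (P.cons (P.cons (P.lf 892138 0 0) (P.cons (P.lf 18760 0 0) P.nil)) (P.cons (P.cons (P.lf 220588 0 0) P.nil) P.nil)))))) 27642)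
 EL.nil)
noncomputable def S169_198_308_327_35 : EL := (EL.cons 14 (TM.mk (P.cons (P.cons (P.lf 1353440338 0 0) (P.cons (P.lf 0 58857538 0) (P.cons (P.lf 0 1554894 0) (P.cons (P.lf 83452 0 0) (P.cons (P.lf 112 0 0) (P.cons (P.lf 0 28 0) P.nil)))))) (P.cons (P.cons (P.lf 867246982 0 0) (P.cons (P.lf 0 33162752 0) (P.cons (P.lf 0 925570 0) (P.cons (P.lf 43326 0 0) (P.cons (P.lf 54 0 0) P.nil))))) (P.cons (P.cons (P.lf 31639172 0 0) (P.cons (P.lf 0 2500352 0) (P.cons (P.lf 0 50000 0) (P.cons (P.lf 4742 0 0) P.nil)))) (P.cons (P.cons (P.lf 0 50043894 0) (P.cons (P.lf 1028974 0 0) (P.cons (P.lf 35308 0 0) P.nil))) (P.cons (P.cons (P.lf 0 2186136 0) (P.cons (P.lf 156702 0 0) P.nil)) (P.cons (P.cons (P.lf 1023132 0 0) P.nil) P.nil)))))) 207038)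
 EL.nil)
noncomputable def S169_198_308_327_36 : EL := (EL.cons 14 (TM.mk (P.cons (P.lf 0 4422059048 0) (P.cons (P.lf 723236960 0 0) (P.cons (P.lf 42477960 0 0) (P.cons (P.lf 0 1087808 0) (P.cons (P.lf 0 194464 0) (P.cons (P.lf 0 3120 0) P.nil)))))) 1024)
 EL.nil)
noncomputable def S169_198_308_327_37 : EL := (EL.cons 14 (TM.mk (P.cons (P.cons (P.lf 0 1755291166 0) (P.cons (P.lf 38166484 0 0) (P.cons (P.lf 1423218 0 0) (P.lf 0 23168 0)))) (P.cons (P.cons (P.lf 0 275289392 0) (P.cons (P.lf 3034342 0 0) (P.cons (P.lf 113146 0 0) (P.lf 0 1840 0)))) (P.cons (P.cons (P.lf 178409452 0 0) (P.cons (P.lf 0 1721798 0) (P.cons (P.lf 0 64204 0) (P.lf 1044 0 0)))) (P.cons (P.cons (P.lf 3753304 0 0) (P.cons (P.lf 0 236746 0) (P.cons (P.lf 0 8824 0) P.nil))) (P.cons (P.cons (P.lf 0 3005038 0) (P.cons (P.lf 14094 0 0) P.nil)) (P.cons (P.cons (P.lf 0 144908 0) P.nil) P.nil))))))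 52606)
 EL.nil)
noncomputable def S169_198_308_327_38 : EL := (EL.cons 14 (TM.mk (P.cons (P.cons (P.lf 0 696744896 0) (P.cons (P.lf 30299590 0 0) (P.cons (P.lf 800452 0 0) (P.cons (P.lf 0 42960 0) (P.cons (P.lf 0 56 0) (P.cons (P.lf 14 0 0) P.nil)))))) (P.cons (P.cons (P.lf 0 332500702 0) (P.cons (P.lf 12116470 0 0) (P.cons (P.lf 345562 0 0) (P.cons (P.lf 0 15276 0) (P.cons (P.lf 0 18 0) P.nil))))) (P.cons (P.cons (P.lf 63423784 0 0) (P.cons (P.lf 0 1796052 0) (P.cons (P.lf 0 59878 0) (P.cons (P.lf 1618 0 0) P.nil)))) (P.cons (P.cons (P.lf 32543468 0 0) (P.cons (P.lf 0 896768 0) (P.cons (P.lf 0 26766 0) P.nil))) (P.cons (P.cons (P.lf 0 3072082 0) (P.cons (P.lf 0 866 0) P.nil)) (P.cons (P.cons (P.lf 0 982370 0) P.nil) P.nil)))))) 261062)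
 EL.nil)
noncomputable def S169_198_308_327_39 : EL := (EL.cons 14 (TM.mk (P.cons (P.lf 2276455776 0 0) (P.cons (P.lf 0 744638158 0) (P.cons (P.lf 17158640 0 0) (P.cons (P.lf 8272934 0 0) (P.cons (P.lf 227096 0 0) (P.cons (P.lf 0 40292 0) P.nil)))))) 3922)
 EL.nil)
noncomputable def S169_198_308_327_40 : EL := (EL.cons 14 (TM.mk (P.cons (P.cons (P.lf 903615864 0 0) (P.cons (P.lf 0 19647930 0) (P.cons (P.lf 0 732666 0) (P.lf 11926 0 0)))) (P.cons (P.cons (P.lf 0 6070532 0) (P.cons (P.lf 1651392 0 0) (P.cons (P.lf 61580 0 0) (P.lf 0 1002 0)))) (P.cons (P.cons (P.lf 0 123702662 0) (P.cons (P.lf 1330588 0 0) (P.cons (P.lf 49616 0 0) (P.lf 0 806 0)))) (P.cons (P.cons (P.lf 11950108 0 0) (P.cons (P.lf 0 12918 0) (P.cons (P.lf 0 482 0) P.nil))) (P.cons (P.cons (P.lf 2819840 0 0) (P.cons (P.lf 0 36950 0) P.nil)) (P.cons (P.cons (P.lf 0 175576 0) P.nil) P.nil)))))) 68812)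
 EL.nil)
noncomputable def S169_198_308_327_41 : EL := (EL.cons 14 (TM.mk (P.cons (P.cons (P.lf 358681086 0 0) (P.cons (P.lf 0 15598090 0) (P.cons (P.lf 0 412068 0) (P.cons (P.lf 22114 0 0) (P.cons (P.lf 28 0 0) (P.cons (P.lf 0 6 0) P.nil)))))) (P.cons (P.cons (P.lf 112506802 0 0) (P.cons (P.lf 0 3686404 0) (P.cons (P.lf 0 110498 0) (P.cons (P.lf 4246 0 0) (P.cons (P.lf 4 0 0) P.nil))))) (P.cons (P.cons (P.lf 0 64090920 0) (P.cons (P.lf 2094590 0 0) (P.cons (P.lf 63878 0 0) (P.cons (P.lf 0 2332 0) P.nil)))) (P.cons (P.cons (P.lf 0 12969218 0) (P.cons (P.lf 366512 0 0) (P.cons (P.lf 10344 0 0) P.nil))) (P.cons (P.cons (P.lf 4693036 0 0) (P.cons (P.lf 0 86160 0) P.nil)) (P.cons (P.cons (P.lf 407740 0 0) P.nil) P.nil)))))) 253532)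
 EL.nil)
noncomputable def S169_198_308_327_42 : EL := (EL.cons 14 (TM.mk (P.cons (P.lf 0 1171909022 0) (P.cons (P.lf 575004478 0 0) (P.cons (P.lf 0 60271372 0) (P.cons (P.lf 0 6784766 0) (P.cons (P.lf 707252 0 0) (P.cons (P.lf 94630 0 0) P.nil)))))) 9404)
 EL.nil)
noncomputable def S169_198_308_327_43 : EL := (EL.cons 14 (TM.mk (P.cons (P.cons (P.lf 0 465177314 0) (P.cons (P.lf 10114664 0 0) (P.cons (P.lf 377172 0 0) (P.lf 0 6140 0)))) (P.cons (P.cons (P.lf 79205800 0 0) (P.cons (P.lf 0 2504404 0) (P.cons (P.lf 0 93388 0) (P.lf 1520 0 0)))) (P.cons (P.cons (P.lf 67638910 0 0) (P.cons (P.lf 0 643100 0) (P.cons (P.lf 0 23980 0) (P.lf 390 0 0)))) (P.cons (P.cons (P.lf 0 16711564 0) (P.cons (P.lf 129334 0 0) (P.cons (P.lf 4822 0 0) P.nil))) (P.cons (P.cons (P.lf 0 1076900 0) (P.cons (P.lf 24750 0 0) P.nil)) (P.cons (P.cons (P.lf 402372 0 0) P.nil) P.nil)))))) 84698)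
 EL.nil)
noncomputable def S169_198_308_327_44 : EL := (EL.cons 14 (TM.mk (P.cons (P.cons (P.lf 0 184647382 0) (P.cons (P.lf 8029824 0 0) (P.cons (P.lf 212130 0 0) (P.cons (P.lf 0 11384 0) (P.cons (P.lf 0 14 0) (P.cons (P.lf 2 0 0) P.nil)))))) (P.cons (P.cons (P.lf 0 27718522 0) (P.cons (P.lf 584448 0 0) (P.cons (P.lf 22190 0 0) (P.cons (P.lf 0 324 0) (P.cons (P.lf 0 0 0) P.nil))))) (P.cons (P.cons (P.lf 44240028 0 0) (P.cons (P.lf 0 1465798 0) (P.cons (P.lf 0 44224 0) (P.cons (P.lf 1666 0 0) P.nil)))) (P.cons (P.cons (P.lf 1791236 0 0) (P.cons (P.lf 0 28576 0) (P.cons (P.lf 0 440 0) P.nil))) (P.cons (P.cons (P.lf 0 3847210 0) (P.cons (P.lf 86390 0 0) P.nil)) (P.cons (P.cons (P.lf 126534 0 0) P.nil) P.nil)))))) 227548)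
 EL.nil)
noncomputable def S169_198_308_327_45 : EL := (EL.cons 14 (TM.mk (P.cons (P.cons (P.lf 537234316 0 0) (P.cons (P.lf 0 35044346 0) (P.cons (P.lf 0 544802 0) (P.cons (P.lf 72580 0 0) (P.cons (P.lf 0 482 0) (P.cons (P.lf 0 46 0) P.nil)))))) (P.cons (P.cons (P.lf 516367244 0 0) (P.cons (P.lf 0 30973146 0) (P.cons (P.lf 0 540434 0) (P.cons (P.lf 60604 0 0) (P.cons (P.lf 0 342 0) P.nil))))) (P.cons (P.cons (P.lf 101556716 0 0) (P.cons (P.lf 0 6425902 0) (P.cons (P.lf 0 99660 0) (P.cons (P.lf 13288 0 0) P.nil)))) (P.cons (P.cons (P.lf 0 32595046 0) (P.cons (P.lf 1121180 0 0) (P.cons (P.lf 35568 0 0) P.nil))) (P.cons (P.cons (P.lf 0 9582116 0) (P.cons (P.lf 453734 0 0) P.nil)) (P.cons (P.cons (P.lf 967554 0 0) P.nil) P.nil)))))) 558072)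
 EL.nil)
noncomputable def S169_198_308_327_46 : EL := (EL.cons 15 (TM.mk (P.lf 4294967296 0 0) 0)
 EL.nil)
noncomputable def S169_198_308_327_47 : EL := (EL.cons 15 (TM.mk (P.cons (P.cons (P.lf 1704843394 0 0) (P.cons (P.lf 0 37069564 0) (P.cons (P.lf 0 1382316 0) (P.lf 22504 0 0)))) (P.cons (P.cons (P.lf 546208151 0 0) (P.cons (P.lf 0 9009940 0) (P.cons (P.lf 0 335976 0) (P.lf 5468 0 0)))) (P.cons (P.cons (P.lf 0 67571819 0) (P.cons (P.lf 0 157368 0) (P.cons (P.lf 0 5868 0) (P.lf 96 0 0)))) (P.cons (P.cons (P.lf 0 9869496 0) (P.cons (P.lf 126776 0 0) (P.cons (P.lf 4724 0 0) P.nil))) (P.cons (P.cons (P.lf 446069 0 0) (P.cons (P.lf 9380 0 0) P.nil)) (P.cons (P.cons (P.lf 110294 0 0) P.nil) P.nil)))))) 13821)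
 EL.nil)
noncomputable def S169_198_308_327_48 : EL := (EL.cons 15 (TM.mk (P.cons (P.cons (P.lf 676720169 0 0) (P.cons (P.lf 0 29428769 0) (P.cons (P.lf 0 777447 0) (P.cons (P.lf 41726 0 0) (P.cons (P.lf 56 0 0) (P.cons (P.lf 0 14 0) P.nil)))))) (P.cons (P.cons (P.lf 433623491 0 0) (P.cons (P.lf 0 16581376 0) (P.cons (P.lf 0 462785 0) (P.cons (P.lf 21663 0 0) (P.cons (P.lf 27 0 0) P.nil))))) (P.cons (P.cons (P.lf 15819586 0 0) (P.cons (P.lf 0 1250176 0) (P.cons (P.lf 0 25000 0) (P.cons (P.lf 2371 0 0) P.nil)))) (P.cons (P.cons (P.lf 0 25021947 0) (P.cons (P.lf 514487 0 0) (P.cons (P.lf 17654 0 0) P.nil))) (P.cons (P.cons (P.lf 0 1093068 0) (P.cons (P.lf 78351 0 0) P.nil)) (P.cons (P.cons (P.lf 511566 0 0) P.nil) P.nil)))))) 103519)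
 EL.nil)
noncomputable def S169_198_308_327 : SL := (SL.cons S169_198_308_327_0 (SL.cons S169_198_308_327_1 (SL.cons S169_198_308_327_2 (SL.cons S169_198_308_327_3 (SL.cons S169_198_308_327_4 (SL.cons S169_198_308_327_5 (SL.cons S169_198_308_327_6 (SL.cons S169_198_308_327_7 (SL.cons S169_198_308_327_8 (SL.cons S169_198_308_327_9 (SL.cons S169_198_308_327_10 (SL.cons S169_198_308_327_11 (SL.cons S169_198_308_327_12 (SL.cons S169_198_308_327_13 (SL.cons S169_198_308_327_14 (SL.cons S169_198_308_327_15 (SL.cons S169_198_308_327_16 (SL.cons S169_198_308_327_17 (SL.cons S169_198_308_327_18 (SL.cons S169_198_308_327_19 (SL.cons S169_198_308_327_20 (SL.cons S169_198_308_327_21 (SL.cons S169_198_308_327_22 (SL.cons S169_198_308_327_23 (SL.cons S169_198_308_327_24 (SL.cons S169_198_308_327_25 (SL.cons S169_198_308_327_26 (SL.cons S169_198_308_327_27 (SL.cons S169_198_308_327_28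 (SL.cons S169_198_308_327_29 (SL.cons S169_198_308_327_30 (SL.cons S169_198_308_327_31 (SL.cons S169_198_308_327_32 (SL.cons S169_198_308_327_33 (SL.cons S169_198_308_327_34 (SL.cons S169_198_308_327_35 (SL.cons S169_198_308_327_36 (SL.cons S169_198_308_327_37 (SL.cons S169_198_308_327_38 (SL.cons S169_198_308_327_39 (SL.cons S169_198_308_327_40 (SL.cons S169_198_308_327_41 (SL.cons S169_198_308_327_42 (SL.cons S169_198_308_327_43 (SL.cons S169_198_308_327_44 (SL.cons S169_198_308_327_45 (SL.cons S169_198_308_327_46 (SL.cons S169_198_308_327_47 (SL.cons S169_198_308_327_48 SL.nil)))))))))))))))))))))))))))))))))))))))))))))))))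
noncomputable def S169_198_327_345_0 : EL := (EL.cons 0 (TM.mk (P.cons (P.lf 6454925654 0 0) (P.cons (P.lf 654467131 0 0) (P.cons (P.lf 0 15080835 0) (P.cons (P.lf 0 7271133 0) (P.cons (P.lf 0 199596 0) (P.cons (P.lf 35412 0 0) P.nil)))))) 3454)
 (EL.cons 1 (TM.mk (P.cons (P.lf 0 1695086628 0) (P.cons (P.lf 139901857 0 0) (P.cons (P.lf 47471786 0 0) (P.cons (P.lf 293435 0 0) (P.cons (P.lf 0 328029 0) (P.cons (P.lf 0 15684 0) P.nil)))))) 1940)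
 (EL.cons 5 (TM.mk (P.cons (P.lf 5006359730 0 0) (P.cons (P.lf 0 232699422 0) (P.cons (P.lf 5362070 0 0) (P.cons (P.lf 2585292 0 0) (P.cons (P.lf 70970 0 0) (P.cons (P.lf 0 12590 0) P.nil)))))) 1169)
 (EL.cons 9 (TM.mk (P.lf 6442450944 0 0) 2)
 EL.nil))))
noncomputable def S169_198_327_345_1 : EL := (EL.cons 0 (TM.mk (P.cons (P.cons (P.lf 0 586554539 0) (P.cons (P.lf 0 4212236 0) (P.cons (P.lf 0 118295 0) (P.lf 2018 0 0)))) (P.cons (P.cons (P.lf 2182346919 0 0) (P.cons (P.lf 0 25390203 0) (P.cons (P.lf 0 713015 0) (P.lf 12149 0 0)))) (P.cons (P.cons (P.lf 110145211 0 0) (P.cons (P.lf 0 5378778 0) (P.cons (P.lf 0 151040 0) (P.lf 2566 0 0)))) (P.cons (P.cons (P.lf 0 78143649 0) (P.cons (P.lf 318141 0 0) (P.cons (P.lf 8931 0 0) P.nil))) (P.cons (P.cons (P.lf 0 6758665 0) (P.cons (P.lf 160002 0 0) P.nil)) (P.cons (P.cons (P.lf 1096787 0 0) P.nil) P.nil)))))) 265019)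
 (EL.cons 1 (TM.mk (P.cons (P.cons (P.lf 0 1290626881 0) (P.cons (P.lf 27720086 0 0) (P.cons (P.lf 778439 0 0) (P.lf 0 13261 0)))) (P.cons (P.cons (P.lf 0 380919798 0) (P.cons (P.lf 10184054 0 0) (P.cons (P.lf 285986 0 0) (P.lf 0 4866 0)))) (P.cons (P.cons (P.lf 220897807 0 0) (P.cons (P.lf 0 1355538 0) (P.cons (P.lf 0 38066 0) (P.lf 650 0 0)))) (P.cons (P.cons (P.lf 23674850 0 0) (P.cons (P.lf 0 589963 0) (P.cons (P.lf 0 16555 0) P.nil))) (P.cons (P.cons (P.lf 0 5332390 0) (P.cons (P.lf 0 9009 0) P.nil)) (P.cons (P.cons (P.lf 0 678811 0) P.nil) P.nil)))))) 148314)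
 (EL.cons 5 (TM.mk (P.cons (P.cons (P.lf 2975437737 0 0) (P.cons (P.lf 0 66462156 0) (P.cons (P.lf 0 1866416 0) (P.lf 31812 0 0)))) (P.cons (P.cons (P.lf 120683320 0 0) (P.cons (P.lf 0 7490352 0) (P.cons (P.lf 0 210354 0) (P.lf 3590 0 0)))) (P.cons (P.cons (P.lf 0 154592450 0) (P.cons (P.lf 1623942 0 0) (P.cons (P.lf 45598 0 0) (P.lf 0 770 0)))) (P.cons (P.cons (P.lf 11455468 0 0) (P.cons (P.lf 119308 0 0) (P.cons (P.lf 3354 0 0) P.nil))) (P.cons (P.cons (P.lf 3194649 0 0) (P.cons (P.lf 0 39686 0) P.nil)) (P.cons (P.cons (P.lf 0 204791 0) P.nil) P.nil)))))) 119992)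
 (EL.cons 9 (TM.mk (P.cons (P.cons (P.lf 2441369115 0 0) (P.cons (P.lf 0 59964558 0) (P.cons (P.lf 0 1683948 0) (P.lf 28698 0 0)))) (P.cons (P.cons (P.lf 791143132 0 0) (P.cons (P.lf 0 14574684 0) (P.cons (P.lf 0 409290 0) (P.lf 6972 0 0)))) (P.cons (P.cons (P.lf 0 101849734 0) (P.cons (P.lf 0 254562 0) (P.cons (P.lf 0 7146 0) (P.lf 120 0 0)))) (P.cons (P.cons (P.lf 0 14407878 0) (P.cons (P.lf 205074 0 0) (P.cons (P.lf 5754 0 0) P.nil))) (P.cons (P.cons (P.lf 698437 0 0) (P.cons (P.lf 15174 0 0) P.nil)) (P.cons (P.cons (P.lf 163377 0 0) P.nil) P.nil)))))) 20360)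
 (EL.cons 2 (TM.mk (P.cons (P.cons (P.lf 631440604 0 0) (P.cons (P.lf 39519846 0 0) (P.cons (P.lf 0 782696 0) (P.cons (P.lf 0 11643 0) (P.lf 146 0 0))))) (P.cons (P.cons (P.lf 0 956896 0) (P.cons (P.lf 0 59886 0) (P.cons (P.lf 1184 0 0) (P.cons (P.lf 16 0 0) (P.lf 0 0 0))))) (P.cons (P.cons (P.lf 0 25157317 0) (P.cons (P.lf 0 1574513 0) (P.cons (P.lf 31182 0 0) (P.cons (P.lf 461 0 0) P.nil)))) (P.cons (P.cons (P.lf 0 1578647 0) (P.cons (P.lf 0 98800 0) (P.cons (P.lf 1954 0 0) P.nil))) (P.cons (P.cons (P.lf 230295 0 0) (P.cons (P.lf 14414 0 0) P.nil)) (P.cons (P.cons (P.lf 25922 0 0) P.nil) P.nil)))))) 5001)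
 (EL.cons 6 (TM.mk (P.cons (P.cons (P.lf 534961629 0 0) (P.cons (P.lf 33481536 0 0) (P.cons (P.lf 0 663108 0) (P.cons (P.lf 0 9864 0) (P.lf 123 0 0))))) (P.cons (P.cons (P.lf 130025091 0 0) (P.cons (P.lf 8137854 0 0) (P.cons (P.lf 0 161169 0) (P.cons (P.lf 0 2397 0) (P.lf 27 0 0))))) (P.cons (P.cons (P.lf 2271051 0 0) (P.cons (P.lf 142137 0 0) (P.cons (P.lf 0 2814 0) (P.cons (P.lf 0 39 0) P.nil)))) (P.cons (P.cons (P.lf 0 1829568 0) (P.cons (P.lf 0 114504 0) (P.cons (P.lf 2265 0 0) P.nil))) (P.cons (P.cons (P.lf 0 135417 0) (P.cons (P.lf 0 8472 0) P.nil)) (P.cons (P.cons (P.lf 9534 0 0) P.nil) P.nil)))))) 3060)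
 EL.nil))))))
noncomputable def S169_198_327_345_2 : EL := (EL.cons 0 (TM.mk (P.cons (P.cons (P.lf 0 1371499230 0) (P.cons (P.lf 53261698 0 0) (P.cons (P.lf 1014901 0 0) (P.cons (P.lf 0 52480 0) (P.cons (P.lf 74 0 0) (P.cons (P.lf 6 0 0) P.nil)))))) (P.cons (P.cons (P.lf 815189982 0 0) (P.cons (P.lf 0 27808873 0) (P.cons (P.lf 0 617761 0) (P.cons (P.lf 22488 0 0) (P.cons (P.lf 0 33 0) P.nil))))) (P.cons (P.cons (P.lf 559269481 0 0) (P.cons (P.lf 0 17665495 0) (P.cons (P.lf 0 344775 0) (P.cons (P.lf 16945 0 0) P.nil)))) (P.cons (P.cons (P.lf 0 62127868 0) (P.cons (P.lf 0 256285 0) (P.cons (P.lf 13071 0 0) P.nil))) (P.cons (P.cons (P.lf 0 31881291 0) (P.cons (P.lf 848237 0 0) P.nil)) (P.cons (P.cons (P.lf 934521 0 0) P.nil) P.nil)))))) 1456072)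
 (EL.cons 1 (TM.mk (P.cons (P.cons (P.lf 0 734746880 0) (P.cons (P.lf 33076969 0 0) (P.cons (P.lf 559699 0 0) (P.cons (P.lf 0 36555 0) (P.cons (P.lf 60 0 0) (P.cons (P.lf 4 0 0) P.nil)))))) (P.cons (P.cons (P.lf 0 468007701 0) (P.cons (P.lf 21662730 0 0) (P.cons (P.lf 352589 0 0) (P.cons (P.lf 0 24713 0) (P.cons (P.lf 33 0 0) P.nil))))) (P.cons (P.cons (P.lf 100085133 0 0) (P.cons (P.lf 0 1288371 0) (P.cons (P.lf 0 59301 0) (P.cons (P.lf 0 684 0) P.nil)))) (P.cons (P.cons (P.lf 75664485 0 0) (P.cons (P.lf 0 2269296 0) (P.cons (P.lf 0 49182 0) P.nil))) (P.cons (P.cons (P.lf 0 3502366 0) (P.cons (P.lf 0 177078 0) P.nil)) (P.cons (P.cons (P.lf 0 3184137 0) P.nil) P.nil)))))) 689127)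
 (EL.cons 5 (TM.mk (P.cons (P.cons (P.lf 1536156249 0 0) (P.cons (P.lf 0 70444299 0) (P.cons (P.lf 0 1174733 0) (P.cons (P.lf 78847 0 0) (P.cons (P.lf 0 121 0) (P.cons (P.lf 0 13 0) P.nil)))))) (P.cons (P.cons (P.lf 389710361 0 0) (P.cons (P.lf 0 19322542 0) (P.cons (P.lf 0 293163 0) (P.cons (P.lf 23252 0 0) (P.cons (P.lf 0 33 0) P.nil))))) (P.cons (P.cons (P.lf 0 176228182 0) (P.cons (P.lf 4154312 0 0) (P.cons (P.lf 105596 0 0) (P.cons (P.lf 0 2604 0) P.nil)))) (P.cons (P.cons (P.lf 0 18635713 0) (P.cons (P.lf 1022662 0 0) (P.cons (P.lf 18488 0 0) P.nil))) (P.cons (P.cons (P.lf 9749899 0 0) (P.cons (P.lf 0 163207 0) P.nil)) (P.cons (P.cons (P.lf 518779 0 0) P.nil) P.nil)))))) 653203)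
 (EL.cons 9 (TM.mk (P.cons (P.cons (P.lf 925157707 0 0) (P.cons (P.lf 0 45447181 0) (P.cons (P.lf 0 718131 0) (P.cons (P.lf 53097 0 0) (P.cons (P.lf 0 93 0) (P.cons (P.lf 0 15 0) P.nil)))))) (P.cons (P.cons (P.lf 599607951 0 0) (P.cons (P.lf 0 25773648 0) (P.cons (P.lf 0 452469 0) (P.cons (P.lf 27570 0 0) (P.cons (P.lf 0 45 0) P.nil))))) (P.cons (P.cons (P.lf 19961635 0 0) (P.cons (P.lf 0 1876542 0) (P.cons (P.lf 0 14983 0) (P.cons (P.lf 3013 0 0) P.nil)))) (P.cons (P.cons (P.lf 0 35934357 0) (P.cons (P.lf 821940 0 0) (P.cons (P.lf 20412 0 0) P.nil))) (P.cons (P.cons (P.lf 0 1399114 0) (P.cons (P.lf 122103 0 0) P.nil)) (P.cons (P.cons (P.lf 750913 0 0) P.nil) P.nil)))))) 151579)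
 (EL.cons 2 (TM.mk (P.cons (P.cons (P.lf 478569290 0 0) (P.cons (P.lf 18197566 0 0) (P.cons (P.lf 0 1658981 0) (P.cons (P.lf 0 9286 0) (P.cons (P.lf 1085 0 0) (P.cons (P.lf 0 0 0) P.nil)))))) (P.cons (P.cons (P.lf 154358566 0 0) (P.cons (P.lf 6821617 0 0) (P.cons (P.lf 0 448756 0) (P.cons (P.lf 0 2958 0) (P.cons (P.lf 270 0 0) P.nil))))) (P.cons (P.cons (P.lf 0 39266853 0) (P.cons (P.lf 0 2034838 0) (P.cons (P.lf 87001 0 0) (P.cons (P.lf 736 0 0) P.nil)))) (P.cons (P.cons (P.lf 0 10169218 0) (P.cons (P.lf 0 452964 0) (P.cons (P.lf 29238 0 0) P.nil))) (P.cons (P.cons (P.lf 723442 0 0) (P.cons (P.lf 53032 0 0) P.nil)) (P.cons (P.cons (P.lf 270461 0 0) P.nil) P.nil)))))) 61497)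
 (EL.cons 6 (TM.mk (P.cons (P.cons (P.lf 405447804 0 0) (P.cons (P.lf 15417126 0 0) (P.cons (P.lf 0 1405500 0) (P.cons (P.lf 0 7866 0) (P.cons (P.lf 918 0 0) (P.cons (P.lf 0 0 0) P.nil)))))) (P.cons (P.cons (P.lf 229934370 0 0) (P.cons (P.lf 9549900 0 0) (P.cons (P.lf 0 723936 0) (P.cons (P.lf 0 4428 0) (P.cons (P.lf 450 0 0) P.nil))))) (P.cons (P.cons (P.lf 16741212 0 0) (P.cons (P.lf 374916 0 0) (P.cons (P.lf 0 81756 0) (P.cons (P.lf 0 330 0) P.nil)))) (P.cons (P.cons (P.lf 0 7332798 0) (P.cons (P.lf 0 411366 0) (P.cons (P.lf 13398 0 0) P.nil))) (P.cons (P.cons (P.lf 0 1089366 0) (P.cons (P.lf 0 46758 0) P.nil)) (P.cons (P.cons (P.lf 76980 0 0) P.nil) P.nil)))))) 47916)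
 EL.nil))))))
noncomputable def S169_198_327_345_3 : EL := (EL.cons 0 (TM.mk (P.cons (P.lf 2000791209 0 0) (P.cons (P.lf 0 654467131 0) (P.cons (P.lf 15080835 0 0) (P.cons (P.lf 7271133 0 0) (P.cons (P.lf 199596 0 0) (P.cons (P.lf 0 35412 0) P.nil)))))) 3454)
 (EL.cons 1 (TM.mk (P.cons (P.lf 1695086628 0 0) (P.cons (P.lf 0 139901857 0) (P.cons (P.lf 0 47471786 0) (P.cons (P.lf 0 293435 0) (P.cons (P.lf 328029 0 0) (P.cons (P.lf 15684 0 0) P.nil)))))) 1940)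
 (EL.cons 5 (TM.mk (P.cons (P.lf 1436091214 0 0) (P.cons (P.lf 232699422 0 0) (P.cons (P.lf 0 5362070 0) (P.cons (P.lf 0 2585292 0) (P.cons (P.lf 0 70970 0) (P.cons (P.lf 12590 0 0) P.nil)))))) 1162)
 EL.nil)))
noncomputable def S169_198_327_345_4 : EL := (EL.cons 0 (TM.mk (P.cons (P.cons (P.lf 758200550 0 0) (P.cons (P.lf 0 18622812 0) (P.cons (P.lf 0 522972 0) (P.lf 8912 0 0)))) (P.cons (P.cons (P.lf 0 2310240 0) (P.cons (P.lf 1565231 0 0) (P.cons (P.lf 43955 0 0) (P.lf 0 748 0)))) (P.cons (P.cons (P.lf 0 106285533 0) (P.cons (P.lf 1261167 0 0) (P.cons (P.lf 35416 0 0) (P.lf 0 602 0)))) (P.cons (P.cons (P.lf 10479359 0 0) (P.cons (P.lf 0 12244 0) (P.cons (P.lf 0 344 0) P.nil))) (P.cons (P.cons (P.lf 2410685 0 0) (P.cons (P.lf 0 35022 0) P.nil)) (P.cons (P.cons (P.lf 0 157798 0) P.nil) P.nil)))))) 59519)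
 (EL.cons 1 (TM.mk (P.cons (P.cons (P.lf 642353688 0 0) (P.cons (P.lf 0 15777397 0) (P.cons (P.lf 0 443066 0) (P.lf 7550 0 0)))) (P.cons (P.cons (P.lf 155143449 0 0) (P.cons (P.lf 0 2532605 0) (P.cons (P.lf 0 71120 0) (P.lf 1209 0 0)))) (P.cons (P.cons (P.lf 0 61967512 0) (P.cons (P.lf 691372 0 0) (P.cons (P.lf 19413 0 0) (P.lf 0 330 0)))) (P.cons (P.cons (P.lf 0 7519963 0) (P.cons (P.lf 169610 0 0) (P.cons (P.lf 4760 0 0) P.nil))) (P.cons (P.cons (P.lf 1335403 0 0) (P.cons (P.lf 0 973 0) P.nil)) (P.cons (P.cons (P.lf 184850 0 0) P.nil) P.nil)))))) 35687)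
 (EL.cons 5 (TM.mk (P.cons (P.cons (P.lf 544207284 0 0) (P.cons (P.lf 0 13366740 0) (P.cons (P.lf 0 375370 0) (P.lf 6396 0 0)))) (P.cons (P.cons (P.lf 264535794 0 0) (P.cons (P.lf 0 5414754 0) (P.cons (P.lf 0 152058 0) (P.lf 2590 0 0)))) (P.cons (P.cons (P.lf 3840502 0 0) (P.cons (P.lf 0 533268 0) (P.cons (P.lf 0 14974 0) (P.lf 254 0 0)))) (P.cons (P.cons (P.lf 0 8528620 0) (P.cons (P.lf 72710 0 0) (P.cons (P.lf 2040 0 0) P.nil))) (P.cons (P.cons (P.lf 0 624320 0) (P.cons (P.lf 17510 0 0) P.nil)) (P.cons (P.cons (P.lf 110564 0 0) P.nil) P.nil)))))) 25118)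
 EL.nil)))
noncomputable def S169_198_327_345_5 : EL := (EL.cons 0 (TM.mk (P.cons (P.cons (P.lf 287320371 0 0) (P.cons (P.lf 0 14114242 0) (P.cons (P.lf 0 223024 0) (P.cons (P.lf 16488 0 0) (P.cons (P.lf 0 28 0) (P.cons (P.lf 0 3 0) P.nil)))))) (P.cons (P.cons (P.lf 92232755 0 0) (P.cons (P.lf 0 3387529 0) (P.cons (P.lf 0 67566 0) (P.cons (P.lf 3167 0 0) (P.cons (P.lf 0 3 0) P.nil))))) (P.cons (P.cons (P.lf 0 52547155 0) (P.cons (P.lf 1929086 0 0) (P.cons (P.lf 39629 0 0) (P.cons (P.lf 0 1740 0) P.nil)))) (P.cons (P.cons (P.lf 0 10739986 0) (P.cons (P.lf 334270 0 0) (P.cons (P.lf 5990 0 0) P.nil))) (P.cons (P.cons (P.lf 3968061 0 0) (P.cons (P.lf 0 80465 0) P.nil)) (P.cons (P.cons (P.lf 327239 0 0) P.nil) P.nil)))))) 215978)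
 (EL.cons 1 (TM.mk (P.cons (P.cons (P.lf 243420161 0 0) (P.cons (P.lf 0 11957701 0) (P.cons (P.lf 0 188947 0) (P.cons (P.lf 13968 0 0) (P.cons (P.lf 0 22 0) (P.cons (P.lf 0 3 0) P.nil)))))) (P.cons (P.cons (P.lf 137673710 0 0) (P.cons (P.lf 0 5794441 0) (P.cons (P.lf 0 103453 0) (P.cons (P.lf 6099 0 0) (P.cons (P.lf 0 9 0) P.nil))))) (P.cons (P.cons (P.lf 0 14585821 0) (P.cons (P.lf 400830 0 0) (P.cons (P.lf 11173 0 0) (P.cons (P.lf 0 195 0) P.nil)))) (P.cons (P.cons (P.lf 0 14348645 0) (P.cons (P.lf 448996 0 0) (P.cons (P.lf 9061 0 0) P.nil))) (P.cons (P.cons (P.lf 284919 0 0) (P.cons (P.lf 26964 0 0) P.nil)) (P.cons (P.cons (P.lf 524613 0 0) P.nil) P.nil)))))) 152738)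
 (EL.cons 5 (TM.mk (P.cons (P.cons (P.lf 206227546 0 0) (P.cons (P.lf 0 10130662 0) (P.cons (P.lf 0 160078 0) (P.cons (P.lf 11834 0 0) (P.cons (P.lf 0 20 0) (P.cons (P.lf 0 2 0) P.nil)))))) (P.cons (P.cons (P.lf 167075446 0 0) (P.cons (P.lf 0 7386758 0) (P.cons (P.lf 0 126798 0) (P.cons (P.lf 8062 0 0) (P.cons (P.lf 0 12 0) P.nil))))) (P.cons (P.cons (P.lf 25337310 0 0) (P.cons (P.lf 0 1311410 0) (P.cons (P.lf 0 19084 0) (P.cons (P.lf 1622 0 0) P.nil)))) (P.cons (P.cons (P.lf 0 8159456 0) (P.cons (P.lf 155126 0 0) (P.cons (P.lf 4672 0 0) P.nil))) (P.cons (P.cons (P.lf 0 1877238 0) (P.cons (P.lf 69310 0 0) P.nil)) (P.cons (P.cons (P.lf 133950 0 0) P.nil) P.nil)))))) 99072)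
 EL.nil)))
noncomputable def S169_198_327_345_6 : EL := (EL.cons 12 (TM.mk (P.lf 8589934592 0 0) 0)
 (EL.cons 3 (TM.mk (P.cons (P.lf 0 2072840178 0) (P.cons (P.lf 339017325 0 0) (P.cons (P.lf 19911543 0 0) (P.cons (P.lf 0 509910 0) (P.cons (P.lf 0 91155 0) (P.cons (P.lf 0 1462 0) P.nil)))))) 487)
 (EL.cons 7 (TM.mk (P.cons (P.lf 0 1756127103 0) (P.cons (P.lf 0 142278485 0) (P.cons (P.lf 9042093 0 0) (P.cons (P.lf 848140 0 0) (P.cons (P.lf 0 2043 0) (P.cons (P.lf 0 3166 0) P.nil)))))) 195)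
 EL.nil)))
noncomputable def S169_198_327_345_7 : EL := (EL.cons 12 (TM.mk (P.cons (P.cons (P.lf 3255158820 0 0) (P.cons (P.lf 0 79952744 0) (P.cons (P.lf 0 2245264 0) (P.lf 38264 0 0)))) (P.cons (P.cons (P.lf 1054857510 0 0) (P.cons (P.lf 0 19432912 0) (P.cons (P.lf 0 545720 0) (P.lf 9296 0 0)))) (P.cons (P.cons (P.lf 0 135799646 0) (P.cons (P.lf 0 339416 0) (P.cons (P.lf 0 9528 0) (P.lf 160 0 0)))) (P.cons (P.cons (P.lf 0 19210504 0) (P.cons (P.lf 273432 0 0) (P.cons (P.lf 7672 0 0) P.nil))) (P.cons (P.cons (P.lf 931250 0 0) (P.cons (P.lf 20232 0 0) P.nil)) (P.cons (P.cons (P.lf 217836 0 0) P.nil) P.nil)))))) 27122)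
 (EL.cons 3 (TM.mk (P.cons (P.cons (P.lf 2356353905 0 0) (P.cons (P.lf 0 38586848 0) (P.cons (P.lf 0 1083608 0) (P.lf 18466 0 0)))) (P.cons (P.cons (P.lf 0 794992799 0) (P.cons (P.lf 0 3067764 0) (P.cons (P.lf 0 86148 0) (P.lf 1464 0 0)))) (P.cons (P.cons (P.lf 0 139765086 0) (P.cons (P.lf 1740762 0 0) (P.cons (P.lf 48884 0 0) (P.lf 0 832 0)))) (P.cons (P.cons (P.lf 8577707 0 0) (P.cons (P.lf 239352 0 0) (P.cons (P.lf 6718 0 0) P.nil))) (P.cons (P.cons (P.lf 3109040 0 0) (P.cons (P.lf 0 14248 0) P.nil)) (P.cons (P.cons (P.lf 71397 0 0) P.nil) P.nil)))))) 103416)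
 (EL.cons 7 (TM.mk (P.cons (P.cons (P.lf 0 1984056916 0) (P.cons (P.lf 40636694 0 0) (P.cons (P.lf 1141180 0 0) (P.lf 0 19456 0)))) (P.cons (P.cons (P.lf 333641862 0 0) (P.cons (P.lf 1287478 0 0) (P.cons (P.lf 36157 0 0) (P.lf 0 617 0)))) (P.cons (P.cons (P.lf 17857024 0 0) (P.cons (P.lf 0 887995 0) (P.cons (P.lf 0 24932 0) (P.lf 421 0 0)))) (P.cons (P.cons (P.lf 0 11455653 0) (P.cons (P.lf 25250 0 0) (P.cons (P.lf 707 0 0) P.nil))) (P.cons (P.cons (P.lf 0 342089 0) (P.cons (P.lf 18223 0 0) P.nil)) (P.cons (P.cons (P.lf 160357 0 0) P.nil) P.nil)))))) 61873)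
 (EL.cons 10 (TM.mk (P.cons (P.cons (P.lf 0 1308357864 0) (P.cons (P.lf 0 81885933 0) (P.cons (P.lf 1621767 0 0) (P.cons (P.lf 24129 0 0) (P.lf 0 306 0))))) (P.cons (P.cons (P.lf 0 212001936 0) (P.cons (P.lf 0 13268523 0) (P.cons (P.lf 262785 0 0) (P.cons (P.lf 3909 0 0) (P.lf 0 48 0))))) (P.cons (P.cons (P.lf 4885137 0 0) (P.cons (P.lf 305745 0 0) (P.cons (P.lf 0 6054 0) (P.cons (P.lf 0 90 0) P.nil)))) (P.cons (P.cons (P.lf 2355342 0 0) (P.cons (P.lf 147411 0 0) (P.cons (P.lf 0 2919 0) P.nil))) (P.cons (P.cons (P.lf 64656 0 0) (P.cons (P.lf 4044 0 0) P.nil)) (P.cons (P.cons (P.lf 0 11469 0) P.nil) P.nil)))))) 2091)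
 EL.nil))))
noncomputable def S169_198_327_345_8 : EL := (EL.cons 12 (TM.mk (P.cons (P.cons (P.lf 1233543610 0 0) (P.cons (P.lf 0 60596242 0) (P.cons (P.lf 0 957508 0) (P.cons (P.lf 70796 0 0) (P.cons (P.lf 0 124 0) (P.cons (P.lf 0 20 0) P.nil)))))) (P.cons (P.cons (P.lf 799477268 0 0) (P.cons (P.lf 0 34364864 0) (P.cons (P.lf 0 603292 0) (P.cons (P.lf 36760 0 0) (P.cons (P.lf 0 60 0) P.nil))))) (P.cons (P.cons (P.lf 26615514 0 0) (P.cons (P.lf 0 2502056 0) (P.cons (P.lf 0 19978 0) (P.cons (P.lf 4018 0 0) P.nil)))) (P.cons (P.cons (P.lf 0 47912476 0) (P.cons (P.lf 1095920 0 0) (P.cons (P.lf 27216 0 0) P.nil))) (P.cons (P.cons (P.lf 0 1865486 0) (P.cons (P.lf 162804 0 0) P.nil)) (P.cons (P.cons (P.lf 1001218 0 0) P.nil) P.nil)))))) 202076)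
 (EL.cons 3 (TM.mk (P.cons (P.cons (P.lf 2083549175 0 0) (P.cons (P.lf 0 87732082 0) (P.cons (P.lf 0 1565830 0) (P.cons (P.lf 92411 0 0) (P.cons (P.lf 0 151 0) (P.cons (P.lf 0 20 0) P.nil)))))) (P.cons (P.cons (P.lf 120440441 0 0) (P.cons (P.lf 0 13565524 0) (P.cons (P.lf 0 91326 0) (P.cons (P.lf 22749 0 0) (P.cons (P.lf 0 45 0) P.nil))))) (P.cons (P.cons (P.lf 0 403674327 0) (P.cons (P.lf 8691462 0 0) (P.cons (P.lf 224732 0 0) (P.cons (P.lf 0 5247 0) P.nil)))) (P.cons (P.cons (P.lf 0 27621018 0) (P.cons (P.lf 2003335 0 0) (P.cons (P.lf 38067 0 0) P.nil))) (P.cons (P.cons (P.lf 14388584 0 0) (P.cons (P.lf 0 127696 0) P.nil)) (P.cons (P.cons (P.lf 1555329 0 0) P.nil) P.nil)))))) 655403)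
 (EL.cons 7 (TM.mk (P.cons (P.cons (P.lf 0 1251532389 0) (P.cons (P.lf 55344383 0 0) (P.cons (P.lf 949875 0 0) (P.cons (P.lf 0 60433 0) (P.cons (P.lf 97 0 0) (P.cons (P.lf 16 0 0) P.nil)))))) (P.cons (P.cons (P.lf 0 50546342 0) (P.cons (P.lf 5693171 0 0) (P.cons (P.lf 38336 0 0) (P.cons (P.lf 0 9551 0) (P.cons (P.lf 14 0 0) P.nil))))) (P.cons (P.cons (P.lf 175594747 0 0) (P.cons (P.lf 0 4343809 0) (P.cons (P.lf 0 99000 0) (P.cons (P.lf 3367 0 0) P.nil)))) (P.cons (P.cons (P.lf 0 16289166 0) (P.cons (P.lf 0 216886 0) (P.cons (P.lf 0 406 0) P.nil))) (P.cons (P.cons (P.lf 0 6841556 0) (P.cons (P.lf 177272 0 0) P.nil)) (P.cons (P.cons (P.lf 513803 0 0) P.nil) P.nil)))))) 391467)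
 (EL.cons 10 (TM.mk (P.cons (P.cons (P.lf 0 991605366 0) (P.cons (P.lf 0 37705734 0) (P.cons (P.lf 3437442 0 0) (P.cons (P.lf 19248 0 0) (P.cons (P.lf 0 2256 0) (P.cons (P.lf 6 0 0) P.nil)))))) (P.cons (P.cons (P.lf 0 482013234 0) (P.cons (P.lf 0 20301384 0) (P.cons (P.lf 1492038 0 0) (P.cons (P.lf 9276 0 0) (P.cons (P.lf 0 930 0) P.nil))))) (P.cons (P.cons (P.lf 0 6997818 0) (P.cons (P.lf 533700 0 0) (P.cons (P.lf 96774 0 0) (P.cons (P.lf 168 0 0) P.nil)))) (P.cons (P.cons (P.lf 15540078 0 0) (P.cons (P.lf 840108 0 0) (P.cons (P.lf 0 31272 0) P.nil))) (P.cons (P.cons (P.lf 1137576 0 0) (P.cons (P.lf 39288 0 0) P.nil)) (P.cons (P.cons (P.lf 0 201456 0) P.nil) P.nil)))))) 65988)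
 EL.nil))))
noncomputable def S169_198_327_345_9 : EL := (EL.cons 3 (TM.mk (P.cons (P.lf 0 2072840178 0) (P.cons (P.lf 339017325 0 0) (P.cons (P.lf 19911543 0 0) (P.cons (P.lf 0 509910 0) (P.cons (P.lf 0 91155 0) (P.cons (P.lf 0 1462 0) P.nil)))))) 487)
 (EL.cons 7 (TM.mk (P.cons (P.lf 0 1756127103 0) (P.cons (P.lf 0 142278485 0) (P.cons (P.lf 9042093 0 0) (P.cons (P.lf 848140 0 0) (P.cons (P.lf 0 2043 0) (P.cons (P.lf 0 3166 0) P.nil)))))) 195)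
 EL.nil))
noncomputable def S169_198_327_345_10 : EL := (EL.cons 3 (TM.mk (P.cons (P.cons (P.lf 0 785503534 0) (P.cons (P.lf 19293424 0 0) (P.cons (P.lf 541804 0 0) (P.lf 0 9233 0)))) (P.cons (P.cons (P.lf 0 126077303 0) (P.cons (P.lf 1533882 0 0) (P.cons (P.lf 43074 0 0) (P.lf 0 732 0)))) (P.cons (P.cons (P.lf 81947208 0 0) (P.cons (P.lf 0 870381 0) (P.cons (P.lf 0 24442 0) (P.lf 416 0 0)))) (P.cons (P.cons (P.lf 1528052 0 0) (P.cons (P.lf 0 119676 0) (P.cons (P.lf 0 3359 0) P.nil))) (P.cons (P.cons (P.lf 0 1394842 0) (P.cons (P.lf 7124 0 0) P.nil)) (P.cons (P.cons (P.lf 0 64029 0) P.nil) P.nil)))))) 24488)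
 (EL.cons 7 (TM.mk (P.cons (P.cons (P.lf 0 665485000 0) (P.cons (P.lf 16345547 0 0) (P.cons (P.lf 459022 0 0) (P.lf 0 7822 0)))) (P.cons (P.cons (P.lf 0 269571660 0) (P.cons (P.lf 5297155 0 0) (P.cons (P.lf 148756 0 0) (P.lf 0 2534 0)))) (P.cons (P.cons (P.lf 13717375 0 0) (P.cons (P.lf 307103 0 0) (P.cons (P.lf 8623 0 0) (P.lf 0 146 0)))) (P.cons (P.cons (P.lf 7608486 0 0) (P.cons (P.lf 0 78628 0) (P.cons (P.lf 0 2206 0) P.nil))) (P.cons (P.cons (P.lf 88237 0 0) (P.cons (P.lf 0 10922 0) P.nil)) (P.cons (P.cons (P.lf 0 95039 0) P.nil) P.nil)))))) 14427)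
 EL.nil))
noncomputable def S169_198_327_345_11 : EL := (EL.cons 3 (TM.mk (P.cons (P.cons (P.lf 0 297666847 0) (P.cons (P.lf 14622500 0 0) (P.cons (P.lf 231056 0 0) (P.cons (P.lf 0 17083 0) (P.cons (P.lf 29 0 0) (P.cons (P.lf 4 0 0) P.nil)))))) (P.cons (P.cons (P.lf 0 144238111 0) (P.cons (P.lf 5901056 0 0) (P.cons (P.lf 107790 0 0) (P.cons (P.lf 0 6075 0) (P.cons (P.lf 9 0 0) P.nil))))) (P.cons (P.cons (P.lf 27989583 0 0) (P.cons (P.lf 0 892962 0) (P.cons (P.lf 0 21208 0) (P.cons (P.lf 645 0 0) P.nil)))) (P.cons (P.cons (P.lf 14392176 0 0) (P.cons (P.lf 0 439265 0) (P.cons (P.lf 0 8697 0) P.nil))) (P.cons (P.cons (P.lf 0 1439644 0) (P.cons (P.lf 848 0 0) P.nil)) (P.cons (P.cons (P.lf 0 436563 0) P.nil) P.nil)))))) 119023)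
 (EL.cons 7 (TM.mk (P.cons (P.cons (P.lf 0 252185781 0) (P.cons (P.lf 12388301 0 0) (P.cons (P.lf 195753 0 0) (P.cons (P.lf 0 14473 0) (P.cons (P.lf 25 0 0) (P.cons (P.lf 4 0 0) P.nil)))))) (P.cons (P.cons (P.lf 0 183876884 0) (P.cons (P.lf 8029235 0 0) (P.cons (P.lf 139196 0 0) (P.cons (P.lf 0 8687 0) (P.cons (P.lf 14 0 0) P.nil))))) (P.cons (P.cons (P.lf 0 17384861 0) (P.cons (P.lf 1016933 0 0) (P.cons (P.lf 13068 0 0) (P.cons (P.lf 0 1355 0) P.nil)))) (P.cons (P.cons (P.lf 10317744 0 0) (P.cons (P.lf 0 224764 0) (P.cons (P.lf 0 5962 0) P.nil))) (P.cons (P.cons (P.lf 1281634 0 0) (P.cons (P.lf 0 57448 0) P.nil)) (P.cons (P.cons (P.lf 0 222241 0) P.nil) P.nil)))))) 75047)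
 EL.nil))
noncomputable def S169_198_327_345_12 : EL := (EL.cons 4 (TM.mk (P.cons (P.lf 2072840178 0 0) (P.cons (P.lf 0 339017325 0) (P.cons (P.lf 0 19911543 0) (P.cons (P.lf 509910 0 0) (P.cons (P.lf 91155 0 0) (P.cons (P.lf 1462 0 0) P.nil)))))) 487)
 (EL.cons 8 (TM.mk (P.cons (P.lf 1756127103 0 0) (P.cons (P.lf 142278485 0 0) (P.cons (P.lf 0 9042093 0) (P.cons (P.lf 0 848140 0) (P.cons (P.lf 2043 0 0) (P.cons (P.lf 3166 0 0) P.nil)))))) 195)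
 EL.nil))
noncomputable def S169_198_327_345_13 : EL := (EL.cons 4 (TM.mk (P.cons (P.cons (P.lf 785503534 0 0) (P.cons (P.lf 0 19293424 0) (P.cons (P.lf 0 541804 0) (P.lf 9233 0 0)))) (P.cons (P.cons (P.lf 126077303 0 0) (P.cons (P.lf 0 1533882 0) (P.cons (P.lf 0 43074 0) (P.lf 732 0 0)))) (P.cons (P.cons (P.lf 0 81947208 0) (P.cons (P.lf 870381 0 0) (P.cons (P.lf 24442 0 0) (P.lf 0 416 0)))) (P.cons (P.cons (P.lf 0 1528052 0) (P.cons (P.lf 119676 0 0) (P.cons (P.lf 3359 0 0) P.nil))) (P.cons (P.cons (P.lf 1394842 0 0) (P.cons (P.lf 0 7124 0) P.nil)) (P.cons (P.cons (P.lf 64029 0 0) P.nil) P.nil)))))) 24488)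
 (EL.cons 8 (TM.mk (P.cons (P.cons (P.lf 665485000 0 0) (P.cons (P.lf 0 16345547 0) (P.cons (P.lf 0 459022 0) (P.lf 7822 0 0)))) (P.cons (P.cons (P.lf 269571660 0 0) (P.cons (P.lf 0 5297155 0) (P.cons (P.lf 0 148756 0) (P.lf 2534 0 0)))) (P.cons (P.cons (P.lf 0 13717375 0) (P.cons (P.lf 0 307103 0) (P.cons (P.lf 0 8623 0) (P.lf 146 0 0)))) (P.cons (P.cons (P.lf 0 7608486 0) (P.cons (P.lf 78628 0 0) (P.cons (P.lf 2206 0 0) P.nil))) (P.cons (P.cons (P.lf 0 88237 0) (P.cons (P.lf 10922 0 0) P.nil)) (P.cons (P.cons (P.lf 95039 0 0) P.nil) P.nil)))))) 14427)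
 EL.nil))
noncomputable def S169_198_327_345_14 : EL := (EL.cons 4 (TM.mk (P.cons (P.cons (P.lf 297666847 0 0) (P.cons (P.lf 0 14622500 0) (P.cons (P.lf 0 231056 0) (P.cons (P.lf 17083 0 0) (P.cons (P.lf 0 29 0) (P.cons (P.lf 0 4 0) P.nil)))))) (P.cons (P.cons (P.lf 144238111 0 0) (P.cons (P.lf 0 5901056 0) (P.cons (P.lf 0 107790 0) (P.cons (P.lf 6075 0 0) (P.cons (P.lf 0 9 0) P.nil))))) (P.cons (P.cons (P.lf 0 27989583 0) (P.cons (P.lf 892962 0 0) (P.cons (P.lf 21208 0 0) (P.cons (P.lf 0 645 0) P.nil)))) (P.cons (P.cons (P.lf 0 14392176 0) (P.cons (P.lf 439265 0 0) (P.cons (P.lf 8697 0 0) P.nil))) (P.cons (P.cons (P.lf 1439644 0 0) (P.cons (P.lf 0 848 0) P.nil)) (P.cons (P.cons (P.lf 436563 0 0) P.nil) P.nil)))))) 119023)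
 (EL.cons 8 (TM.mk (P.cons (P.cons (P.lf 252185781 0 0) (P.cons (P.lf 0 12388301 0) (P.cons (P.lf 0 195753 0) (P.cons (P.lf 14473 0 0) (P.cons (P.lf 0 25 0) (P.cons (P.lf 0 4 0) P.nil)))))) (P.cons (P.cons (P.lf 183876884 0 0) (P.cons (P.lf 0 8029235 0) (P.cons (P.lf 0 139196 0) (P.cons (P.lf 8687 0 0) (P.cons (P.lf 0 14 0) P.nil))))) (P.cons (P.cons (P.lf 17384861 0 0) (P.cons (P.lf 0 1016933 0) (P.cons (P.lf 0 13068 0) (P.cons (P.lf 1355 0 0) P.nil)))) (P.cons (P.cons (P.lf 0 10317744 0) (P.cons (P.lf 224764 0 0) (P.cons (P.lf 5962 0 0) P.nil))) (P.cons (P.cons (P.lf 0 1281634 0) (P.cons (P.lf 57448 0 0) P.nil)) (P.cons (P.cons (P.lf 222241 0 0) P.nil) P.nil)))))) 75047)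
 EL.nil))
noncomputable def S169_198_327_345_15 : EL := (EL.cons 4 (TM.mk (P.cons (P.lf 0 1067088645 0) (P.cons (P.lf 349049136 0 0) (P.cons (P.lf 0 8043112 0) (P.cons (P.lf 0 3877937 0) (P.cons (P.lf 0 106451 0) (P.cons (P.lf 18886 0 0) P.nil)))))) 1845)
 (EL.cons 8 (TM.mk (P.cons (P.lf 0 904046202 0) (P.cons (P.lf 74614324 0 0) (P.cons (P.lf 25318286 0 0) (P.cons (P.lf 156499 0 0) (P.cons (P.lf 0 174949 0) (P.cons (P.lf 0 8365 0) P.nil)))))) 1031)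
 EL.nil))
noncomputable def S169_198_327_345_16 : EL := (EL.cons 4 (TM.mk (P.cons (P.cons (P.lf 0 404373627 0) (P.cons (P.lf 9932166 0 0) (P.cons (P.lf 278918 0 0) (P.lf 0 4753 0)))) (P.cons (P.cons (P.lf 1232128 0 0) (P.cons (P.lf 0 834790 0) (P.cons (P.lf 0 23443 0) (P.lf 399 0 0)))) (P.cons (P.cons (P.lf 56685617 0 0) (P.cons (P.lf 0 672622 0) (P.cons (P.lf 0 18888 0) (P.lf 321 0 0)))) (P.cons (P.cons (P.lf 0 5588991 0) (P.cons (P.lf 6530 0 0) (P.cons (P.lf 183 0 0) P.nil))) (P.cons (P.cons (P.lf 0 1285698 0) (P.cons (P.lf 18678 0 0) P.nil)) (P.cons (P.cons (P.lf 84159 0 0) P.nil) P.nil)))))) 31752)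
 (EL.cons 8 (TM.mk (P.cons (P.cons (P.lf 0 342588634 0) (P.cons (P.lf 8414612 0 0) (P.cons (P.lf 236302 0 0) (P.lf 0 4027 0)))) (P.cons (P.cons (P.lf 0 82743173 0) (P.cons (P.lf 1350723 0 0) (P.cons (P.lf 37931 0 0) (P.lf 0 645 0)))) (P.cons (P.cons (P.lf 33049340 0 0) (P.cons (P.lf 0 368732 0) (P.cons (P.lf 0 10354 0) (P.lf 176 0 0)))) (P.cons (P.cons (P.lf 4010647 0 0) (P.cons (P.lf 0 90459 0) (P.cons (P.lf 0 2539 0) P.nil))) (P.cons (P.cons (P.lf 0 712215 0) (P.cons (P.lf 519 0 0) P.nil)) (P.cons (P.cons (P.lf 0 98587 0) P.nil) P.nil)))))) 19023)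
 EL.nil))
noncomputable def S169_198_327_345_17 : EL := (EL.cons 4 (TM.mk (P.cons (P.cons (P.lf 0 153237531 0) (P.cons (P.lf 7527596 0 0) (P.cons (P.lf 118946 0 0) (P.cons (P.lf 0 8793 0) (P.cons (P.lf 15 0 0) (P.cons (P.lf 1 0 0) P.nil)))))) (P.cons (P.cons (P.lf 0 49190803 0) (P.cons (P.lf 1806682 0 0) (P.cons (P.lf 36035 0 0) (P.cons (P.lf 0 1689 0) (P.cons (P.lf 1 0 0) P.nil))))) (P.cons (P.cons (P.lf 28025149 0 0) (P.cons (P.lf 0 1028846 0) (P.cons (P.lf 0 21135 0) (P.cons (P.lf 928 0 0) P.nil)))) (P.cons (P.cons (P.lf 5727992 0 0) (P.cons (P.lf 0 178277 0) (P.cons (P.lf 0 3195 0) P.nil))) (P.cons (P.cons (P.lf 0 2116299 0) (P.cons (P.lf 42915 0 0) P.nil)) (P.cons (P.cons (P.lf 0 174527 0) P.nil) P.nil)))))) 115198)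
 (EL.cons 8 (TM.mk (P.cons (P.cons (P.lf 0 129824086 0) (P.cons (P.lf 6377441 0 0) (P.cons (P.lf 100772 0 0) (P.cons (P.lf 0 7450 0) (P.cons (P.lf 12 0 0) (P.cons (P.lf 2 0 0) P.nil)))))) (P.cons (P.cons (P.lf 0 73425979 0) (P.cons (P.lf 3090369 0 0) (P.cons (P.lf 55175 0 0) (P.cons (P.lf 0 3253 0) (P.cons (P.lf 5 0 0) P.nil))))) (P.cons (P.cons (P.lf 7779105 0 0) (P.cons (P.lf 0 213776 0) (P.cons (P.lf 0 5959 0) (P.cons (P.lf 104 0 0) P.nil)))) (P.cons (P.cons (P.lf 7652611 0 0) (P.cons (P.lf 0 239465 0) (P.cons (P.lf 0 4833 0) P.nil))) (P.cons (P.cons (P.lf 0 151957 0) (P.cons (P.lf 0 14381 0) P.nil)) (P.cons (P.cons (P.lf 0 279794 0) P.nil) P.nil)))))) 81449)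
 EL.nil))
noncomputable def S169_198_327_345_18 : EL := (EL.cons 4 (TM.mk (P.cons (P.lf 549332354 0 0) (P.cons (P.lf 0 269533349 0) (P.cons (P.lf 28252205 0 0) (P.cons (P.lf 3180359 0 0) (P.cons (P.lf 0 331524 0) (P.cons (P.lf 0 44357 0) P.nil)))))) 4415)
 (EL.cons 8 (TM.mk (P.cons (P.lf 465398850 0 0) (P.cons (P.lf 0 114528063 0) (P.cons (P.lf 0 11222106 0) (P.cons (P.lf 2534590 0 0) (P.cons (P.lf 239457 0 0) (P.cons (P.lf 0 14216 0) P.nil)))))) 3029)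
 EL.nil))
noncomputable def S169_198_327_345_19 : EL := (EL.cons 4 (TM.mk (P.cons (P.cons (P.lf 208169693 0 0) (P.cons (P.lf 0 5113034 0) (P.cons (P.lf 0 143585 0) (P.lf 2446 0 0)))) (P.cons (P.cons (P.lf 0 34680880 0) (P.cons (P.lf 1265993 0 0) (P.cons (P.lf 35551 0 0) (P.lf 0 605 0)))) (P.cons (P.cons (P.lf 0 31077419 0) (P.cons (P.lf 325092 0 0) (P.cons (P.lf 9129 0 0) (P.lf 0 154 0)))) (P.cons (P.cons (P.lf 7707183 0 0) (P.cons (P.lf 0 65379 0) (P.cons (P.lf 0 1835 0) P.nil))) (P.cons (P.cons (P.lf 480615 0 0) (P.cons (P.lf 0 12510 0) P.nil)) (P.cons (P.cons (P.lf 0 186272 0) P.nil) P.nil)))))) 39310)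
 (EL.cons 8 (TM.mk (P.cons (P.cons (P.lf 176363062 0 0) (P.cons (P.lf 0 4331804 0) (P.cons (P.lf 0 121647 0) (P.lf 2073 0 0)))) (P.cons (P.cons (P.lf 13751261 0 0) (P.cons (P.lf 13128 0 0) (P.cons (P.lf 368 0 0) (P.lf 0 6 0)))) (P.cons (P.cons (P.lf 0 25674412 0) (P.cons (P.lf 345158 0 0) (P.cons (P.lf 9692 0 0) (P.lf 0 165 0)))) (P.cons (P.cons (P.lf 352166 0 0) (P.cons (P.lf 21136 0 0) (P.cons (P.lf 593 0 0) P.nil))) (P.cons (P.cons (P.lf 885991 0 0) (P.cons (P.lf 0 10068 0) P.nil)) (P.cons (P.cons (P.lf 8431 0 0) P.nil) P.nil)))))) 23627)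
 EL.nil))
noncomputable def S169_198_327_345_20 : EL := (EL.cons 4 (TM.mk (P.cons (P.cons (P.lf 78885980 0 0) (P.cons (P.lf 0 3875172 0) (P.cons (P.lf 0 61232 0) (P.cons (P.lf 4527 0 0) (P.cons (P.lf 0 7 0) (P.cons (P.lf 0 0 0) P.nil)))))) (P.cons (P.cons (P.lf 12421233 0 0) (P.cons (P.lf 0 296279 0) (P.cons (P.lf 0 8535 0) (P.cons (P.lf 129 0 0) (P.cons (P.lf 0 0 0) P.nil))))) (P.cons (P.cons (P.lf 0 19326653 0) (P.cons (P.lf 718984 0 0) (P.cons (P.lf 14503 0 0) (P.cons (P.lf 0 662 0) P.nil)))) (P.cons (P.cons (P.lf 0 812989 0) (P.cons (P.lf 13132 0 0) (P.cons (P.lf 28 0 0) P.nil))) (P.cons (P.cons (P.lf 1720020 0 0) (P.cons (P.lf 0 42589 0) P.nil)) (P.cons (P.cons (P.lf 0 62390 0) P.nil) P.nil)))))) 102601)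
 (EL.cons 8 (TM.mk (P.cons (P.cons (P.lf 66832845 0 0) (P.cons (P.lf 0 3283077 0) (P.cons (P.lf 0 51877 0) (P.cons (P.lf 3835 0 0) (P.cons (P.lf 0 6 0) (P.cons (P.lf 0 0 0) P.nil)))))) (P.cons (P.cons (P.lf 26868707 0 0) (P.cons (P.lf 0 1053953 0) (P.cons (P.lf 0 19919 0) (P.cons (P.lf 1047 0 0) (P.cons (P.lf 0 1 0) P.nil))))) (P.cons (P.cons (P.lf 0 10828802 0) (P.cons (P.lf 401784 0 0) (P.cons (P.lf 8211 0 0) (P.cons (P.lf 0 364 0) P.nil)))) (P.cons (P.cons (P.lf 0 3631217 0) (P.cons (P.lf 119751 0 0) (P.cons (P.lf 2246 0 0) P.nil))) (P.cons (P.cons (P.lf 773250 0 0) (P.cons (P.lf 0 14351 0) P.nil)) (P.cons (P.cons (P.lf 169809 0 0) P.nil) P.nil)))))) 70213)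
 EL.nil))
noncomputable def S169_198_327_345_21 : EL := (EL.cons 4 (TM.mk (P.cons (P.cons (P.lf 0 3141857439 0) (P.cons (P.lf 57880272 0 0) (P.cons (P.lf 1625412 0 0) (P.lf 0 27699 0)))) (P.cons (P.cons (P.lf 668915496 0 0) (P.cons (P.lf 4601646 0 0) (P.cons (P.lf 129222 0 0) (P.lf 0 2196 0)))) (P.cons (P.cons (P.lf 221712294 0 0) (P.cons (P.lf 0 2611143 0) (P.cons (P.lf 0 73326 0) (P.lf 1248 0 0)))) (P.cons (P.cons (P.lf 0 7049655 0) (P.cons (P.lf 0 359028 0) (P.cons (P.lf 0 10077 0) P.nil))) (P.cons (P.cons (P.lf 0 4503882 0) (P.cons (P.lf 21372 0 0) P.nil)) (P.cons (P.cons (P.lf 0 135426 0) P.nil) P.nil)))))) 78909)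
 (EL.cons 8 (TM.mk (P.cons (P.cons (P.lf 1318571916 0 0) (P.cons (P.lf 0 24291147 0) (P.cons (P.lf 0 682158 0) (P.lf 11634 0 0)))) (P.cons (P.cons (P.lf 0 603213522 0) (P.cons (P.lf 4009677 0 0) (P.cons (P.lf 112599 0 0) (P.lf 0 1917 0)))) (P.cons (P.cons (P.lf 0 4139649 0) (P.cons (P.lf 1195098 0 0) (P.cons (P.lf 33555 0 0) (P.lf 0 567 0)))) (P.cons (P.cons (P.lf 19064139 0 0) (P.cons (P.lf 0 103878 0) (P.cons (P.lf 0 2913 0) P.nil))) (P.cons (P.cons (P.lf 430326 0 0) (P.cons (P.lf 0 29145 0) P.nil)) (P.cons (P.cons (P.lf 0 255396 0) P.nil) P.nil)))))) 47427)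
 (EL.cons 11 (TM.mk (P.cons (P.cons (P.lf 1308357864 0 0) (P.cons (P.lf 81885933 0 0) (P.cons (P.lf 0 1621767 0) (P.cons (P.lf 0 24129 0) (P.lf 306 0 0))))) (P.cons (P.cons (P.lf 212001936 0 0) (P.cons (P.lf 13268523 0 0) (P.cons (P.lf 0 262785 0) (P.cons (P.lf 0 3909 0) (P.lf 48 0 0))))) (P.cons (P.cons (P.lf 0 4885137 0) (P.cons (P.lf 0 305745 0) (P.cons (P.lf 6054 0 0) (P.cons (P.lf 90 0 0) P.nil)))) (P.cons (P.cons (P.lf 0 2355342 0) (P.cons (P.lf 0 147411 0) (P.cons (P.lf 2919 0 0) P.nil))) (P.cons (P.cons (P.lf 0 64656 0) (P.cons (P.lf 0 4044 0) P.nil)) (P.cons (P.cons (P.lf 11469 0 0) P.nil) P.nil)))))) 2091)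
 EL.nil)))
noncomputable def S169_198_327_345_22 : EL := (EL.cons 4 (TM.mk (P.cons (P.cons (P.lf 0 1190608011 0) (P.cons (P.lf 51177291 0 0) (P.cons (P.lf 898443 0 0) (P.cons (P.lf 0 54747 0) (P.cons (P.lf 90 0 0) (P.cons (P.lf 12 0 0) P.nil)))))) (P.cons (P.cons (P.lf 0 132339276 0) (P.cons (P.lf 9733290 0 0) (P.cons (P.lf 99558 0 0) (P.cons (P.lf 0 14412 0) (P.cons (P.lf 27 0 0) P.nil))))) (P.cons (P.cons (P.lf 215831955 0 0) (P.cons (P.lf 0 4792212 0) (P.cons (P.lf 0 122970 0) (P.cons (P.lf 2946 0 0) P.nil)))) (P.cons (P.cons (P.lf 21006597 0 0) (P.cons (P.lf 0 1221300 0) (P.cons (P.lf 0 23382 0) P.nil))) (P.cons (P.cons (P.lf 0 7914114 0) (P.cons (P.lf 64272 0 0) P.nil)) (P.cons (P.cons (P.lf 0 995946 0) P.nil) P.nil)))))) 268179)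
 (EL.cons 8 (TM.mk (P.cons (P.cons (P.lf 499673304 0 0) (P.cons (P.lf 0 21478041 0) (P.cons (P.lf 0 377061 0) (P.cons (P.lf 22980 0 0) (P.cons (P.lf 0 36 0) (P.cons (P.lf 0 6 0) P.nil)))))) (P.cons (P.cons (P.lf 0 66665271 0) (P.cons (P.lf 1168032 0 0) (P.cons (P.lf 50430 0 0) (P.cons (P.lf 432 0 0) (P.cons (P.lf 0 0 0) P.nil))))) (P.cons (P.cons (P.lf 0 96489804 0) (P.cons (P.lf 2680371 0 0) (P.cons (P.lf 56034 0 0) (P.cons (P.lf 0 2361 0) P.nil)))) (P.cons (P.cons (P.lf 13303455 0 0) (P.cons (P.lf 0 3939 0) (P.cons (P.lf 0 2778 0) P.nil))) (P.cons (P.cons (P.lf 4061595 0 0) (P.cons (P.lf 0 117360 0) P.nil)) (P.cons (P.cons (P.lf 0 368022 0) P.nil) P.nil)))))) 158199)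
 (EL.cons 11 (TM.mk (P.cons (P.cons (P.lf 495802683 0 0) (P.cons (P.lf 18852867 0 0) (P.cons (P.lf 0 1718721 0) (P.cons (P.lf 0 9624 0) (P.cons (P.lf 1128 0 0) (P.cons (P.lf 0 3 0) P.nil)))))) (P.cons (P.cons (P.lf 241006617 0 0) (P.cons (P.lf 10150692 0 0) (P.cons (P.lf 0 746019 0) (P.cons (P.lf 0 4638 0) (P.cons (P.lf 465 0 0) P.nil))))) (P.cons (P.cons (P.lf 3498909 0 0) (P.cons (P.lf 0 266850 0) (P.cons (P.lf 0 48387 0) (P.cons (P.lf 0 84 0) P.nil)))) (P.cons (P.cons (P.lf 0 7770039 0) (P.cons (P.lf 0 420054 0) (P.cons (P.lf 15636 0 0) P.nil))) (P.cons (P.cons (P.lf 0 568788 0) (P.cons (P.lf 0 19644 0) P.nil)) (P.cons (P.cons (P.lf 100728 0 0) P.nil) P.nil)))))) 32994)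
 EL.nil)))
noncomputable def S169_198_327_345_23 : EL := (EL.cons 4 (TM.mk (P.cons (P.cons (P.lf 1617413841 0 0) (P.cons (P.lf 0 29796498 0) (P.cons (P.lf 0 836754 0) (P.lf 14259 0 0)))) (P.cons (P.cons (P.lf 0 608886036 0) (P.cons (P.lf 2504373 0 0) (P.cons (P.lf 70329 0 0) (P.lf 0 1200 0)))) (P.cons (P.cons (P.lf 0 73353309 0) (P.cons (P.lf 2017866 0 0) (P.cons (P.lf 56664 0 0) (P.lf 0 963 0)))) (P.cons (P.cons (P.lf 26002107 0 0) (P.cons (P.lf 0 19593 0) (P.cons (P.lf 0 552 0) P.nil))) (P.cons (P.cons (P.lf 2807829 0 0) (P.cons (P.lf 0 56034 0) P.nil)) (P.cons (P.cons (P.lf 0 386430 0) P.nil) P.nil)))))) 95361)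
 (EL.cons 8 (TM.mk (P.cons (P.cons (P.lf 0 678794790 0) (P.cons (P.lf 12504969 0 0) (P.cons (P.lf 351171 0 0) (P.lf 0 5988 0)))) (P.cons (P.cons (P.lf 421549863 0 0) (P.cons (P.lf 0 4109376 0) (P.cons (P.lf 0 115398 0) (P.lf 1965 0 0)))) (P.cons (P.cons (P.lf 0 42136560 0) (P.cons (P.lf 0 397752 0) (P.cons (P.lf 0 11166 0) (P.lf 186 0 0)))) (P.cons (P.cons (P.lf 0 13312593 0) (P.cons (P.lf 177000 0 0) (P.cons (P.lf 4965 0 0) P.nil))) (P.cons (P.cons (P.lf 1409658 0 0) (P.cons (P.lf 12207 0 0) P.nil)) (P.cons (P.cons (P.lf 275682 0 0) P.nil) P.nil)))))) 61041)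
 (EL.cons 11 (TM.mk (P.cons (P.cons (P.lf 0 673536645 0) (P.cons (P.lf 0 42154503 0) (P.cons (P.lf 834876 0 0) (P.cons (P.lf 12420 0 0) (P.lf 0 156 0))))) (P.cons (P.cons (P.lf 1020690 0 0) (P.cons (P.lf 63879 0 0) (P.cons (P.lf 0 1263 0) (P.cons (P.lf 0 18 0) (P.lf 0 0 0))))) (P.cons (P.cons (P.lf 26834472 0 0) (P.cons (P.lf 1679481 0 0) (P.cons (P.lf 0 33261 0) (P.cons (P.lf 0 492 0) P.nil)))) (P.cons (P.cons (P.lf 1683891 0 0) (P.cons (P.lf 105387 0 0) (P.cons (P.lf 0 2085 0) P.nil))) (P.cons (P.cons (P.lf 0 245649 0) (P.cons (P.lf 0 15375 0) P.nil)) (P.cons (P.cons (P.lf 0 27651 0) P.nil) P.nil)))))) 5313)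
 EL.nil)))
noncomputable def S169_198_327_345_24 : EL := (EL.cons 4 (TM.mk (P.cons (P.cons (P.lf 612919560 0 0) (P.cons (P.lf 0 26345835 0) (P.cons (P.lf 0 462513 0) (P.cons (P.lf 28182 0 0) (P.cons (P.lf 0 45 0) (P.cons (P.lf 0 6 0) P.nil)))))) (P.cons (P.cons (P.lf 0 32116614 0) (P.cons (P.lf 0 701736 0) (P.cons (P.lf 24390 0 0) (P.cons (P.lf 2808 0 0) (P.cons (P.lf 0 6 0) P.nil))))) (P.cons (P.cons (P.lf 0 128139381 0) (P.cons (P.lf 3539586 0 0) (P.cons (P.lf 76128 0 0) (P.cons (P.lf 0 3000 0) P.nil)))) (P.cons (P.cons (P.lf 6854403 0 0) (P.cons (P.lf 266883 0 0) (P.cons (P.lf 2061 0 0) P.nil))) (P.cons (P.cons (P.lf 6953838 0 0) (P.cons (P.lf 0 162003 0) P.nil)) (P.cons (P.cons (P.lf 0 73650 0) P.nil) P.nil)))))) 277647)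
 (EL.cons 8 (TM.mk (P.cons (P.cons (P.lf 0 257229531 0) (P.cons (P.lf 11056797 0 0) (P.cons (P.lf 194109 0 0) (P.cons (P.lf 0 11829 0) (P.cons (P.lf 18 0 0) (P.cons (P.lf 3 0 0) P.nil)))))) (P.cons (P.cons (P.lf 76389402 0 0) (P.cons (P.lf 0 2409660 0) (P.cons (P.lf 0 57708 0) (P.cons (P.lf 1710 0 0) (P.cons (P.lf 0 0 0) P.nil))))) (P.cons (P.cons (P.lf 46530495 0 0) (P.cons (P.lf 0 1387710 0) (P.cons (P.lf 0 26463 0) (P.cons (P.lf 1365 0 0) P.nil)))) (P.cons (P.cons (P.lf 0 15365541 0) (P.cons (P.lf 236199 0 0) (P.cons (P.lf 6444 0 0) P.nil))) (P.cons (P.cons (P.lf 0 1450812 0) (P.cons (P.lf 73677 0 0) P.nil)) (P.cons (P.cons (P.lf 610758 0 0) P.nil) P.nil)))))) 89037)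
 (EL.cons 11 (TM.mk (P.cons (P.cons (P.lf 0 255236955 0) (P.cons (P.lf 0 9705369 0) (P.cons (P.lf 884790 0 0) (P.cons (P.lf 4953 0 0) (P.cons (P.lf 0 579 0) (P.cons (P.lf 0 0 0) P.nil)))))) (P.cons (P.cons (P.lf 0 82324569 0) (P.cons (P.lf 0 3638196 0) (P.cons (P.lf 239337 0 0) (P.cons (P.lf 1578 0 0) (P.cons (P.lf 0 144 0) P.nil))))) (P.cons (P.cons (P.lf 20942322 0 0) (P.cons (P.lf 1085247 0 0) (P.cons (P.lf 0 46401 0) (P.cons (P.lf 0 393 0) P.nil)))) (P.cons (P.cons (P.lf 5423583 0 0) (P.cons (P.lf 241581 0 0) (P.cons (P.lf 0 15594 0) P.nil))) (P.cons (P.cons (P.lf 0 385836 0) (P.cons (P.lf 0 28284 0) P.nil)) (P.cons (P.cons (P.lf 0 144246 0) P.nil) P.nil)))))) 32787)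
 EL.nil)))
noncomputable def S169_198_327_345_25 : EL := (EL.cons 4 (TM.mk (P.cons (P.cons (P.lf 0 832637247 0) (P.cons (P.lf 15339099 0 0) (P.cons (P.lf 430755 0 0) (P.lf 0 7338 0)))) (P.cons (P.cons (P.lf 449631300 0 0) (P.cons (P.lf 0 3797979 0) (P.cons (P.lf 0 106656 0) (P.lf 1818 0 0)))) (P.cons (P.cons (P.lf 0 5505486 0) (P.cons (P.lf 0 975276 0) (P.cons (P.lf 0 27387 0) (P.lf 465 0 0)))) (P.cons (P.cons (P.lf 0 22777629 0) (P.cons (P.lf 196140 0 0) (P.cons (P.lf 5508 0 0) P.nil))) (P.cons (P.cons (P.lf 421566 0 0) (P.cons (P.lf 37533 0 0) P.nil)) (P.cons (P.cons (P.lf 586407 0 0) P.nil) P.nil)))))) 80037)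
 (EL.cons 8 (TM.mk (P.cons (P.cons (P.lf 349440453 0 0) (P.cons (P.lf 0 6437502 0) (P.cons (P.lf 0 180780 0) (P.lf 3081 0 0)))) (P.cons (P.cons (P.lf 0 274163655 0) (P.cons (P.lf 3168354 0 0) (P.cons (P.lf 88974 0 0) (P.lf 0 1515 0)))) (P.cons (P.cons (P.lf 53827764 0 0) (P.cons (P.lf 0 79392 0) (P.cons (P.lf 0 2229 0) (P.lf 39 0 0)))) (P.cons (P.cons (P.lf 5476098 0 0) (P.cons (P.lf 0 146514 0) (P.cons (P.lf 0 4110 0) P.nil))) (P.cons (P.cons (P.lf 0 2092938 0) (P.cons (P.lf 6885 0 0) P.nil)) (P.cons (P.cons (P.lf 0 93024 0) P.nil) P.nil)))))) 68799)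
 (EL.cons 11 (TM.mk (P.cons (P.cons (P.lf 346733583 0 0) (P.cons (P.lf 21700944 0 0) (P.cons (P.lf 0 429789 0) (P.cons (P.lf 0 6393 0) (P.lf 81 0 0))))) (P.cons (P.cons (P.lf 0 57234447 0) (P.cons (P.lf 0 3582120 0) (P.cons (P.lf 70944 0 0) (P.cons (P.lf 1053 0 0) (P.lf 0 12 0))))) (P.cons (P.cons (P.lf 0 17059020 0) (P.cons (P.lf 0 1067667 0) (P.cons (P.lf 21144 0 0) (P.cons (P.lf 312 0 0) P.nil)))) (P.cons (P.cons (P.lf 1482834 0 0) (P.cons (P.lf 92805 0 0) (P.cons (P.lf 0 1836 0) P.nil))) (P.cons (P.cons (P.lf 416052 0 0) (P.cons (P.lf 26037 0 0) P.nil)) (P.cons (P.cons (P.lf 0 1296 0) P.nil) P.nil)))))) 8802)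
 EL.nil)))
noncomputable def S169_198_327_345_26 : EL := (EL.cons 4 (TM.mk (P.cons (P.cons (P.lf 0 315528186 0) (P.cons (P.lf 13562715 0 0) (P.cons (P.lf 238098 0 0) (P.cons (P.lf 0 14508 0) (P.cons (P.lf 24 0 0) (P.cons (P.lf 3 0 0) P.nil)))))) (P.cons (P.cons (P.lf 68138775 0 0) (P.cons (P.lf 0 1856958 0) (P.cons (P.lf 0 51498 0) (P.cons (P.lf 924 0 0) (P.cons (P.lf 0 0 0) P.nil))))) (P.cons (P.cons (P.lf 66292419 0 0) (P.cons (P.lf 0 2011527 0) (P.cons (P.lf 0 39423 0) (P.cons (P.lf 1920 0 0) P.nil)))) (P.cons (P.cons (P.lf 0 14553858 0) (P.cons (P.lf 160491 0 0) (P.cons (P.lf 5526 0 0) P.nil))) (P.cons (P.cons (P.lf 0 3646158 0) (P.cons (P.lf 124059 0 0) P.nil)) (P.cons (P.cons (P.lf 674025 0 0) P.nil) P.nil)))))) 242970)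
 (EL.cons 8 (TM.mk (P.cons (P.cons (P.lf 132420585 0 0) (P.cons (P.lf 0 5691987 0) (P.cons (P.lf 0 99924 0) (P.cons (P.lf 6090 0 0) (P.cons (P.lf 0 9 0) (P.cons (P.lf 0 0 0) P.nil)))))) (P.cons (P.cons (P.lf 0 60982575 0) (P.cons (P.lf 2171418 0 0) (P.cons (P.lf 46050 0 0) (P.cons (P.lf 0 1875 0) (P.cons (P.lf 0 0 0) P.nil))))) (P.cons (P.cons (P.lf 0 18794037 0) (P.cons (P.lf 566178 0 0) (P.cons (P.lf 9723 0 0) (P.cons (P.lf 0 615 0) P.nil)))) (P.cons (P.cons (P.lf 12238113 0 0) (P.cons (P.lf 0 251748 0) (P.cons (P.lf 0 5856 0) P.nil))) (P.cons (P.cons (P.lf 0 320595 0) (P.cons (P.lf 0 24849 0) P.nil)) (P.cons (P.cons (P.lf 0 520080 0) P.nil) P.nil)))))) 94269)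
 (EL.cons 11 (TM.mk (P.cons (P.cons (P.lf 131394816 0 0) (P.cons (P.lf 4996278 0 0) (P.cons (P.lf 0 455484 0) (P.cons (P.lf 0 2550 0) (P.cons (P.lf 297 0 0) (P.cons (P.lf 0 0 0) P.nil)))))) (P.cons (P.cons (P.lf 20890416 0 0) (P.cons (P.lf 1055775 0 0) (P.cons (P.lf 0 48714 0) (P.cons (P.lf 0 393 0) (P.cons (P.lf 24 0 0) P.nil))))) (P.cons (P.cons (P.lf 0 18974568 0) (P.cons (P.lf 0 912996 0) (P.cons (P.lf 48411 0 0) (P.cons (P.lf 360 0 0) P.nil)))) (P.cons (P.cons (P.lf 0 1403559 0) (P.cons (P.lf 0 49752 0) (P.cons (P.lf 5193 0 0) P.nil))) (P.cons (P.cons (P.lf 775035 0 0) (P.cons (P.lf 40947 0 0) P.nil)) (P.cons (P.cons (P.lf 67896 0 0) P.nil) P.nil)))))) 37227)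
 EL.nil)))
noncomputable def S169_198_327_345_27 : EL := (EL.cons 13 (TM.mk (P.lf 0 4294967296 0) 0)
 EL.nil)
noncomputable def S169_198_327_345_28 : EL := (EL.cons 13 (TM.mk (P.cons (P.cons (P.lf 0 1627579410 0) (P.cons (P.lf 39976372 0 0) (P.cons (P.lf 1122632 0 0) (P.lf 0 19132 0)))) (P.cons (P.cons (P.lf 0 527428755 0) (P.cons (P.lf 9716456 0 0) (P.cons (P.lf 272860 0 0) (P.lf 0 4648 0)))) (P.cons (P.cons (P.lf 67899823 0 0) (P.cons (P.lf 169708 0 0) (P.cons (P.lf 4764 0 0) (P.lf 0 80 0)))) (P.cons (P.cons (P.lf 9605252 0 0) (P.cons (P.lf 0 136716 0) (P.cons (P.lf 0 3836 0) P.nil))) (P.cons (P.cons (P.lf 0 465625 0) (P.cons (P.lf 0 10116 0) P.nil)) (P.cons (P.cons (P.lf 0 108918 0) P.nil) P.nil)))))) 13561)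
 EL.nil)
noncomputable def S169_198_327_345_29 : EL := (EL.cons 13 (TM.mk (P.cons (P.cons (P.lf 0 616771805 0) (P.cons (P.lf 30298121 0 0) (P.cons (P.lf 478754 0 0) (P.cons (P.lf 0 35398 0) (P.cons (P.lf 62 0 0) (P.cons (P.lf 10 0 0) P.nil)))))) (P.cons (P.cons (P.lf 0 399738634 0) (P.cons (P.lf 17182432 0 0) (P.cons (P.lf 301646 0 0) (P.cons (P.lf 0 18380 0) (P.cons (P.lf 30 0 0) P.nil))))) (P.cons (P.cons (P.lf 0 13307757 0) (P.cons (P.lf 1251028 0 0) (P.cons (P.lf 9989 0 0) (P.cons (P.lf 0 2009 0) P.nil)))) (P.cons (P.cons (P.lf 23956238 0 0) (P.cons (P.lf 0 547960 0) (P.cons (P.lf 0 13608 0) P.nil))) (P.cons (P.cons (P.lf 932743 0 0) (P.cons (P.lf 0 81402 0) P.nil)) (P.cons (P.cons (P.lf 0 500609 0) P.nil) P.nil)))))) 101038)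
 EL.nil)
noncomputable def S169_198_327_345_30 : EL := (EL.cons 13 (TM.mk (P.cons (P.lf 2211029524 0 0) (P.cons (P.lf 0 361618480 0) (P.cons (P.lf 0 21238980 0) (P.cons (P.lf 543904 0 0) (P.cons (P.lf 97232 0 0) (P.cons (P.lf 1560 0 0) P.nil)))))) 512)
 EL.nil)
noncomputable def S169_198_327_345_31 : EL := (EL.cons 13 (TM.mk (P.cons (P.cons (P.lf 837870437 0 0) (P.cons (P.lf 0 20579653 0) (P.cons (P.lf 0 577925 0) (P.lf 9849 0 0)))) (P.cons (P.cons (P.lf 134482457 0 0) (P.cons (P.lf 0 1636141 0) (P.cons (P.lf 0 45946 0) (P.lf 781 0 0)))) (P.cons (P.cons (P.lf 0 87410356 0) (P.cons (P.lf 928407 0 0) (P.cons (P.lf 26072 0 0) (P.lf 0 444 0)))) (P.cons (P.cons (P.lf 0 1629923 0) (P.cons (P.lf 127655 0 0) (P.cons (P.lf 3583 0 0) P.nil))) (P.cons (P.cons (P.lf 1487832 0 0) (P.cons (P.lf 0 7599 0) P.nil)) (P.cons (P.cons (P.lf 68298 0 0) P.nil) P.nil)))))) 26101)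
 EL.nil)
noncomputable def S169_198_327_345_32 : EL := (EL.cons 13 (TM.mk (P.cons (P.cons (P.lf 317511304 0 0) (P.cons (P.lf 0 15597334 0) (P.cons (P.lf 0 246460 0) (P.cons (P.lf 18222 0 0) (P.cons (P.lf 0 31 0) (P.cons (P.lf 0 5 0) P.nil)))))) (P.cons (P.cons (P.lf 153853986 0 0) (P.cons (P.lf 0 6294460 0) (P.cons (P.lf 0 114976 0) (P.cons (P.lf 6481 0 0) (P.cons (P.lf 0 10 0) P.nil))))) (P.cons (P.cons (P.lf 0 29855556 0) (P.cons (P.lf 952493 0 0) (P.cons (P.lf 22622 0 0) (P.cons (P.lf 0 688 0) P.nil)))) (P.cons (P.cons (P.lf 0 15351655 0) (P.cons (P.lf 468550 0 0) (P.cons (P.lf 9277 0 0) P.nil))) (P.cons (P.cons (P.lf 1535621 0 0) (P.cons (P.lf 0 905 0) P.nil)) (P.cons (P.cons (P.lf 465668 0 0) P.nil) P.nil)))))) 126935)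
 EL.nil)
noncomputable def S169_198_327_345_33 : EL := (EL.cons 14 (TM.mk (P.lf 8589934592 0 0) 0)
 EL.nil)
noncomputable def S169_198_327_345_34 : EL := (EL.cons 14 (TM.mk (P.cons (P.cons (P.lf 3255158820 0 0) (P.cons (P.lf 0 79952744 0) (P.cons (P.lf 0 2245264 0) (P.lf 38264 0 0)))) (P.cons (P.cons (P.lf 1054857510 0 0) (P.cons (P.lf 0 19432912 0) (P.cons (P.lf 0 545720 0) (P.lf 9296 0 0)))) (P.cons (P.cons (P.lf 0 135799646 0) (P.cons (P.lf 0 339416 0) (P.cons (P.lf 0 9528 0) (P.lf 160 0 0)))) (P.cons (P.cons (P.lf 0 19210504 0) (P.cons (P.lf 273432 0 0) (P.cons (P.lf 7672 0 0) P.nil))) (P.cons (P.cons (P.lf 931250 0 0) (P.cons (P.lf 20232 0 0) P.nil)) (P.cons (P.cons (P.lf 217836 0 0) P.nil) P.nil)))))) 27122)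
 EL.nil)
noncomputable def S169_198_327_345_35 : EL := (EL.cons 14 (TM.mk (P.cons (P.cons (P.lf 1233543610 0 0) (P.cons (P.lf 0 60596242 0) (P.cons (P.lf 0 957508 0) (P.cons (P.lf 70796 0 0) (P.cons (P.lf 0 124 0) (P.cons (P.lf 0 20 0) P.nil)))))) (P.cons (P.cons (P.lf 799477268 0 0) (P.cons (P.lf 0 34364864 0) (P.cons (P.lf 0 603292 0) (P.cons (P.lf 36760 0 0) (P.cons (P.lf 0 60 0) P.nil))))) (P.cons (P.cons (P.lf 26615514 0 0) (P.cons (P.lf 0 2502056 0) (P.cons (P.lf 0 19978 0) (P.cons (P.lf 4018 0 0) P.nil)))) (P.cons (P.cons (P.lf 0 47912476 0) (P.cons (P.lf 1095920 0 0) (P.cons (P.lf 27216 0 0) P.nil))) (P.cons (P.cons (P.lf 0 1865486 0) (P.cons (P.lf 162804 0 0) P.nil)) (P.cons (P.cons (P.lf 1001218 0 0) P.nil) P.nil)))))) 202076)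
 EL.nil)
noncomputable def S169_198_327_345_36 : EL := (EL.cons 14 (TM.mk (P.cons (P.lf 0 4422059048 0) (P.cons (P.lf 723236960 0 0) (P.cons (P.lf 42477960 0 0) (P.cons (P.lf 0 1087808 0) (P.cons (P.lf 0 194464 0) (P.cons (P.lf 0 3120 0) P.nil)))))) 1024)
 EL.nil)
noncomputable def S169_198_327_345_37 : EL := (EL.cons 14 (TM.mk (P.cons (P.cons (P.lf 0 1675740874 0) (P.cons (P.lf 41159306 0 0) (P.cons (P.lf 1155850 0 0) (P.lf 0 19698 0)))) (P.cons (P.cons (P.lf 0 268964914 0) (P.cons (P.lf 3272282 0 0) (P.cons (P.lf 91892 0 0) (P.lf 0 1562 0)))) (P.cons (P.cons (P.lf 174820712 0 0) (P.cons (P.lf 0 1856814 0) (P.cons (P.lf 0 52144 0) (P.lf 888 0 0)))) (P.cons (P.cons (P.lf 3259846 0 0) (P.cons (P.lf 0 255310 0) (P.cons (P.lf 0 7166 0) P.nil))) (P.cons (P.cons (P.lf 0 2975664 0) (P.cons (P.lf 15198 0 0) P.nil)) (P.cons (P.cons (P.lf 0 136596 0) P.nil) P.nil))))))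 52202)
 EL.nil)
noncomputable def S169_198_327_345_38 : EL := (EL.cons 14 (TM.mk (P.cons (P.cons (P.lf 0 635022608 0) (P.cons (P.lf 31194668 0 0) (P.cons (P.lf 492920 0 0) (P.cons (P.lf 0 36444 0) (P.cons (P.lf 62 0 0) (P.cons (P.lf 10 0 0) P.nil)))))) (P.cons (P.cons (P.lf 0 307707972 0) (P.cons (P.lf 12588920 0 0) (P.cons (P.lf 229952 0 0) (P.cons (P.lf 0 12962 0) (P.cons (P.lf 20 0 0) P.nil))))) (P.cons (P.cons (P.lf 59711112 0 0) (P.cons (P.lf 0 1904986 0) (P.cons (P.lf 0 45244 0) (P.cons (P.lf 1376 0 0) P.nil)))) (P.cons (P.cons (P.lf 30703310 0 0) (P.cons (P.lf 0 937100 0) (P.cons (P.lf 0 18554 0) P.nil))) (P.cons (P.cons (P.lf 0 3071242 0) (P.cons (P.lf 1810 0 0) P.nil)) (P.cons (P.cons (P.lf 0 931336 0) P.nil) P.nil)))))) 253870)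
 EL.nil)
noncomputable def S169_198_327_345_39 : EL := (EL.cons 14 (TM.mk (P.cons (P.lf 2276455776 0 0) (P.cons (P.lf 0 744638158 0) (P.cons (P.lf 17158640 0 0) (P.cons (P.lf 8272934 0 0) (P.cons (P.lf 227096 0 0) (P.cons (P.lf 0 40292 0) P.nil)))))) 3922)
 EL.nil)
noncomputable def S169_198_327_345_40 : EL := (EL.cons 14 (TM.mk (P.cons (P.cons (P.lf 862663738 0 0) (P.cons (P.lf 0 21188622 0) (P.cons (P.lf 0 595026 0) (P.lf 10140 0 0)))) (P.cons (P.cons (P.lf 0 2628540 0) (P.cons (P.lf 1780886 0 0) (P.cons (P.lf 50012 0 0) (P.lf 0 852 0)))) (P.cons (P.cons (P.lf 0 120929318 0) (P.cons (P.lf 1434928 0 0) (P.cons (P.lf 40296 0 0) (P.lf 0 686 0)))) (P.cons (P.cons (P.lf 11923182 0 0) (P.cons (P.lf 0 13932 0) (P.cons (P.lf 0 392 0) P.nil))) (P.cons (P.cons (P.lf 2742824 0 0) (P.cons (P.lf 0 39848 0) P.nil)) (P.cons (P.cons (P.lf 0 179540 0) P.nil) P.nil)))))) 67698)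
 EL.nil)
noncomputable def S169_198_327_345_41 : EL := (EL.cons 14 (TM.mk (P.cons (P.cons (P.lf 326906734 0 0) (P.cons (P.lf 0 16058872 0) (P.cons (P.lf 0 253752 0) (P.cons (P.lf 18760 0 0) (P.cons (P.lf 0 32 0) (P.cons (P.lf 0 4 0) P.nil)))))) (P.cons (P.cons (P.lf 104940380 0 0) (P.cons (P.lf 0 3854256 0) (P.cons (P.lf 0 76876 0) (P.cons (P.lf 3604 0 0) (P.cons (P.lf 0 4 0) P.nil))))) (P.cons (P.cons (P.lf 0 59786986 0) (P.cons (P.lf 2194872 0 0) (P.cons (P.lf 45090 0 0) (P.cons (P.lf 0 1980 0) P.nil)))) (P.cons (P.cons (P.lf 0 12219718 0) (P.cons (P.lf 380326 0 0) (P.cons (P.lf 6816 0 0) P.nil))) (P.cons (P.cons (P.lf 4514772 0 0) (P.cons (P.lf 0 91552 0) P.nil)) (P.cons (P.cons (P.lf 372326 0 0) P.nil) P.nil)))))) 245710)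
 EL.nil)
noncomputable def S169_198_327_345_42 : EL := (EL.cons 14 (TM.mk (P.cons (P.lf 0 1171909022 0) (P.cons (P.lf 575004478 0 0) (P.cons (P.lf 0 60271372 0) (P.cons (P.lf 0 6784766 0) (P.cons (P.lf 707252 0 0) (P.cons (P.lf 94630 0 0) P.nil)))))) 9404)
 EL.nil)
noncomputable def S169_198_327_345_43 : EL := (EL.cons 14 (TM.mk (P.cons (P.cons (P.lf 0 444095346 0) (P.cons (P.lf 10907806 0 0) (P.cons (P.lf 306316 0 0) (P.lf 0 5220 0)))) (P.cons (P.cons (P.lf 73985878 0 0) (P.cons (P.lf 0 2700786 0) (P.cons (P.lf 0 75844 0) (P.lf 1292 0 0)))) (P.cons (P.cons (P.lf 66298494 0 0) (P.cons (P.lf 0 693530 0) (P.cons (P.lf 0 19476 0) (P.lf 330 0 0)))) (P.cons (P.cons (P.lf 0 16441992 0) (P.cons (P.lf 139476 0 0) (P.cons (P.lf 3916 0 0) P.nil))) (P.cons (P.cons (P.lf 0 1025312 0) (P.cons (P.lf 26690 0 0) P.nil)) (P.cons (P.cons (P.lf 397382 0 0) P.nil) P.nil)))))) 83822)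
 EL.nil)
noncomputable def S169_198_327_345_44 : EL := (EL.cons 14 (TM.mk (P.cons (P.cons (P.lf 0 168290092 0) (P.cons (P.lf 8267034 0 0) (P.cons (P.lf 130630 0 0) (P.cons (P.lf 0 9658 0) (P.cons (P.lf 16 0 0) (P.cons (P.lf 2 0 0) P.nil)))))) (P.cons (P.cons (P.lf 0 26498632 0) (P.cons (P.lf 632062 0 0) (P.cons (P.lf 18210 0 0) (P.cons (P.lf 0 276 0) (P.cons (P.lf 0 0 0) P.nil))))) (P.cons (P.cons (P.lf 41230194 0 0) (P.cons (P.lf 0 1533834 0) (P.cons (P.lf 0 30940 0) (P.cons (P.lf 1414 0 0) P.nil)))) (P.cons (P.cons (P.lf 1734378 0 0) (P.cons (P.lf 0 28016 0) (P.cons (P.lf 0 60 0) P.nil))) (P.cons (P.cons (P.lf 0 3669376 0) (P.cons (P.lf 90858 0 0) P.nil)) (P.cons (P.cons (P.lf 133100 0 0) P.nil) P.nil)))))) 218836)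
 EL.nil)
noncomputable def S169_198_327_345_45 : EL := (EL.cons 14 (TM.mk (P.cons (P.cons (P.lf 467451796 0 0) (P.cons (P.lf 0 34444450 0) (P.cons (P.lf 0 121262 0) (P.cons (P.lf 57074 0 0) (P.cons (P.lf 0 724 0) (P.cons (P.lf 0 28 0) P.nil)))))) (P.cons (P.cons (P.lf 454443298 0 0) (P.cons (P.lf 0 30695836 0) (P.cons (P.lf 0 176592 0) (P.cons (P.lf 48132 0 0) (P.cons (P.lf 0 540 0) P.nil))))) (P.cons (P.cons (P.lf 88761738 0 0) (P.cons (P.lf 0 6315358 0) (P.cons (P.lf 0 22208 0) (P.cons (P.lf 10416 0 0) P.nil)))) (P.cons (P.cons (P.lf 0 30285778 0) (P.cons (P.lf 1180258 0 0) (P.cons (P.lf 25474 0 0) P.nil))) (P.cons (P.cons (P.lf 0 8665640 0) (P.cons (P.lf 459172 0 0) P.nil)) (P.cons (P.cons (P.lf 966214 0 0) P.nil) P.nil)))))) 523972)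
 EL.nil)
noncomputable def S169_198_327_345_46 : EL := (EL.cons 15 (TM.mk (P.lf 4294967296 0 0) 0)
 EL.nil)
noncomputable def S169_198_327_345_47 : EL := (EL.cons 15 (TM.mk (P.cons (P.cons (P.lf 1627579410 0 0) (P.cons (P.lf 0 39976372 0) (P.cons (P.lf 0 1122632 0) (P.lf 19132 0 0)))) (P.cons (P.cons (P.lf 527428755 0 0) (P.cons (P.lf 0 9716456 0) (P.cons (P.lf 0 272860 0) (P.lf 4648 0 0)))) (P.cons (P.cons (P.lf 0 67899823 0) (P.cons (P.lf 0 169708 0) (P.cons (P.lf 0 4764 0) (P.lf 80 0 0)))) (P.cons (P.cons (P.lf 0 9605252 0) (P.cons (P.lf 136716 0 0) (P.cons (P.lf 3836 0 0) P.nil))) (P.cons (P.cons (P.lf 465625 0 0) (P.cons (P.lf 10116 0 0) P.nil)) (P.cons (P.cons (P.lf 108918 0 0) P.nil) P.nil)))))) 13561)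
 EL.nil)
noncomputable def S169_198_327_345_48 : EL := (EL.cons 15 (TM.mk (P.cons (P.cons (P.lf 616771805 0 0) (P.cons (P.lf 0 30298121 0) (P.cons (P.lf 0 478754 0) (P.cons (P.lf 35398 0 0) (P.cons (P.lf 0 62 0) (P.cons (P.lf 0 10 0) P.nil)))))) (P.cons (P.cons (P.lf 399738634 0 0) (P.cons (P.lf 0 17182432 0) (P.cons (P.lf 0 301646 0) (P.cons (P.lf 18380 0 0) (P.cons (P.lf 0 30 0) P.nil))))) (P.cons (P.cons (P.lf 13307757 0 0) (P.cons (P.lf 0 1251028 0) (P.cons (P.lf 0 9989 0) (P.cons (P.lf 2009 0 0) P.nil)))) (P.cons (P.cons (P.lf 0 23956238 0) (P.cons (P.lf 547960 0 0) (P.cons (P.lf 13608 0 0) P.nil))) (P.cons (P.cons (P.lf 0 932743 0) (P.cons (P.lf 81402 0 0) P.nil)) (P.cons (P.cons (P.lf 500609 0 0) P.nil) P.nil)))))) 101038)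
 EL.nil)
noncomputable def S169_198_327_345 : SL := (SL.cons S169_198_327_345_0 (SL.cons S169_198_327_345_1 (SL.cons S169_198_327_345_2 (SL.cons S169_198_327_345_3 (SL.cons S169_198_327_345_4 (SL.cons S169_198_327_345_5 (SL.cons S169_198_327_345_6 (SL.cons S169_198_327_345_7 (SL.cons S169_198_327_345_8 (SL.cons S169_198_327_345_9 (SL.cons S169_198_327_345_10 (SL.cons S169_198_327_345_11 (SL.cons S169_198_327_345_12 (SL.cons S169_198_327_345_13 (SL.cons S169_198_327_345_14 (SL.cons S169_198_327_345_15 (SL.cons S169_198_327_345_16 (SL.cons S169_198_327_345_17 (SL.cons S169_198_327_345_18 (SL.cons S169_198_327_345_19 (SL.cons S169_198_327_345_20 (SL.cons S169_198_327_345_21 (SL.cons S169_198_327_345_22 (SL.cons S169_198_327_345_23 (SL.cons S169_198_327_345_24 (SL.cons S169_198_327_345_25 (SL.cons S169_198_327_345_26 (SL.cons S169_198_327_345_27 (SL.cons S169_198_327_345_28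 (SL.cons S169_198_327_345_29 (SL.cons S169_198_327_345_30 (SL.cons S169_198_327_345_31 (SL.cons S169_198_327_345_32 (SL.cons S169_198_327_345_33 (SL.cons S169_198_327_345_34 (SL.cons S169_198_327_345_35 (SL.cons S169_198_327_345_36 (SL.cons S169_198_327_345_37 (SL.cons S169_198_327_345_38 (SL.cons S169_198_327_345_39 (SL.cons S169_198_327_345_40 (SL.cons S169_198_327_345_41 (SL.cons S169_198_327_345_42 (SL.cons S169_198_327_345_43 (SL.cons S169_198_327_345_44 (SL.cons S169_198_327_345_45 (SL.cons S169_198_327_345_46 (SL.cons S169_198_327_345_47 (SL.cons S169_198_327_345_48 SL.nil)))))))))))))))))))))))))))))))))))))))))))))))))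
noncomputable def S169_198_345_364_0 : EL := (EL.cons 0 (TM.mk (P.cons (P.lf 6454925654 0 0) (P.cons (P.lf 654467131 0 0) (P.cons (P.lf 0 15080835 0) (P.cons (P.lf 0 7271133 0) (P.cons (P.lf 0 199596 0) (P.cons (P.lf 35412 0 0) P.nil)))))) 3454)
 (EL.cons 1 (TM.mk (P.cons (P.lf 0 1695086628 0) (P.cons (P.lf 139901857 0 0) (P.cons (P.lf 47471786 0 0) (P.cons (P.lf 293435 0 0) (P.cons (P.lf 0 328029 0) (P.cons (P.lf 0 15684 0) P.nil)))))) 1940)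
 (EL.cons 5 (TM.mk (P.cons (P.lf 5006359730 0 0) (P.cons (P.lf 0 232699422 0) (P.cons (P.lf 5362070 0 0) (P.cons (P.lf 2585292 0 0) (P.cons (P.lf 70970 0 0) (P.cons (P.lf 0 12590 0) P.nil)))))) 1169)
 (EL.cons 9 (TM.mk (P.lf 6442450944 0 0) 2)
 EL.nil))))
noncomputable def S169_198_345_364_1 : EL := (EL.cons 0 (TM.mk (P.cons (P.cons (P.lf 0 595695311 0) (P.cons (P.lf 0 4932588 0) (P.cons (P.lf 0 117950 0) (P.lf 2379 0 0)))) (P.cons (P.cons (P.lf 2127248782 0 0) (P.cons (P.lf 0 29732297 0) (P.cons (P.lf 0 710936 0) (P.lf 14289 0 0)))) (P.cons (P.cons (P.lf 98472956 0 0) (P.cons (P.lf 0 6298628 0) (P.cons (P.lf 0 150603 0) (P.lf 3023 0 0)))) (P.cons (P.cons (P.lf 0 77453262 0) (P.cons (P.lf 372549 0 0) (P.cons (P.lf 8908 0 0) P.nil))) (P.cons (P.cons (P.lf 0 6411432 0) (P.cons (P.lf 187367 0 0) P.nil)) (P.cons (P.cons (P.lf 1109397 0 0) P.nil) P.nil)))))) 263903)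
 (EL.cons 1 (TM.mk (P.cons (P.cons (P.lf 0 1230472759 0) (P.cons (P.lf 32460629 0 0) (P.cons (P.lf 776167 0 0) (P.lf 0 15601 0)))) (P.cons (P.cons (P.lf 0 358819823 0) (P.cons (P.lf 11925675 0 0) (P.cons (P.lf 285151 0 0) (P.lf 0 5724 0)))) (P.cons (P.cons (P.lf 217956215 0 0) (P.cons (P.lf 0 1587354 0) (P.cons (P.lf 0 37951 0) (P.lf 762 0 0)))) (P.cons (P.cons (P.lf 22394571 0 0) (P.cons (P.lf 0 690859 0) (P.cons (P.lf 0 16512 0) P.nil))) (P.cons (P.cons (P.lf 0 5351954 0) (P.cons (P.lf 0 10554 0) P.nil)) (P.cons (P.cons (P.lf 0 655932 0) P.nil) P.nil)))))) 148601)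
 (EL.cons 5 (TM.mk (P.cons (P.cons (P.lf 2831211199 0 0) (P.cons (P.lf 0 77828160 0) (P.cons (P.lf 0 1860968 0) (P.lf 37416 0 0)))) (P.cons (P.cons (P.lf 104428848 0 0) (P.cons (P.lf 0 8771318 0) (P.cons (P.lf 0 209736 0) (P.lf 4220 0 0)))) (P.cons (P.cons (P.lf 0 151068386 0) (P.cons (P.lf 1901660 0 0) (P.cons (P.lf 45464 0 0) (P.lf 0 912 0)))) (P.cons (P.cons (P.lf 11714364 0 0) (P.cons (P.lf 139710 0 0) (P.cons (P.lf 3348 0 0) P.nil))) (P.cons (P.cons (P.lf 3108515 0 0) (P.cons (P.lf 0 46472 0) P.nil)) (P.cons (P.cons (P.lf 0 211907 0) P.nil) P.nil)))))) 120046)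
 (EL.cons 9 (TM.mk (P.cons (P.cons (P.lf 2311242717 0 0) (P.cons (P.lf 0 70219380 0) (P.cons (P.lf 0 1679028 0) (P.lf 33756 0 0)))) (P.cons (P.cons (P.lf 759515260 0 0) (P.cons (P.lf 0 17067168 0) (P.cons (P.lf 0 408096 0) (P.lf 8202 0 0)))) (P.cons (P.cons (P.lf 0 102402154 0) (P.cons (P.lf 0 298098 0) (P.cons (P.lf 0 7128 0) (P.lf 144 0 0)))) (P.cons (P.cons (P.lf 0 13962846 0) (P.cons (P.lf 240144 0 0) (P.cons (P.lf 5742 0 0) P.nil))) (P.cons (P.cons (P.lf 731377 0 0) (P.cons (P.lf 17772 0 0) P.nil)) (P.cons (P.cons (P.lf 161055 0 0) P.nil) P.nil)))))) 20252)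
 (EL.cons 2 (TM.mk (P.cons (P.cons (P.lf 709270205 0 0) (P.cons (P.lf 38168493 0 0) (P.cons (P.lf 0 947894 0) (P.cons (P.lf 0 12254 0) (P.lf 182 0 0))))) (P.cons (P.cons (P.lf 0 1074841 0) (P.cons (P.lf 0 57839 0) (P.cons (P.lf 1434 0 0) (P.cons (P.lf 16 0 0) (P.lf 0 0 0))))) (P.cons (P.cons (P.lf 0 28258138 0) (P.cons (P.lf 0 1520673 0) (P.cons (P.lf 37763 0 0) (P.cons (P.lf 486 0 0) P.nil)))) (P.cons (P.cons (P.lf 0 1773227 0) (P.cons (P.lf 0 95422 0) (P.cons (P.lf 2368 0 0) P.nil))) (P.cons (P.cons (P.lf 258679 0 0) (P.cons (P.lf 13919 0 0) P.nil)) (P.cons (P.cons (P.lf 29117 0 0) P.nil) P.nil)))))) 5339)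
 (EL.cons 6 (TM.mk (P.cons (P.cons (P.lf 600899502 0 0) (P.cons (P.lf 32336658 0 0) (P.cons (P.lf 0 803064 0) (P.cons (P.lf 0 10383 0) (P.lf 153 0 0))))) (P.cons (P.cons (P.lf 146051619 0 0) (P.cons (P.lf 7859586 0 0) (P.cons (P.lf 0 195186 0) (P.cons (P.lf 0 2520 0) (P.lf 36 0 0))))) (P.cons (P.cons (P.lf 2550975 0 0) (P.cons (P.lf 137277 0 0) (P.cons (P.lf 0 3408 0) (P.cons (P.lf 0 42 0) P.nil)))) (P.cons (P.cons (P.lf 0 2055075 0) (P.cons (P.lf 0 110589 0) (P.cons (P.lf 2745 0 0) P.nil))) (P.cons (P.cons (P.lf 0 152109 0) (P.cons (P.lf 0 8184 0) P.nil)) (P.cons (P.cons (P.lf 10710 0 0) P.nil) P.nil)))))) 3288)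
 EL.nil))))))
noncomputable def S169_198_345_364_2 : EL := (EL.cons 0 (TM.mk (P.cons (P.cons (P.lf 0 1258182540 0) (P.cons (P.lf 59926636 0 0) (P.cons (P.lf 773601 0 0) (P.cons (P.lf 0 60324 0) (P.cons (P.lf 252 0 0) (P.cons (P.lf 4 0 0) P.nil)))))) (P.cons (P.cons (P.lf 755611605 0 0) (P.cons (P.lf 0 31735313 0) (P.cons (P.lf 0 535081 0) (P.cons (P.lf 25961 0 0) (P.cons (P.lf 0 96 0) P.nil))))) (P.cons (P.cons (P.lf 521646855 0 0) (P.cons (P.lf 0 19917593 0) (P.cons (P.lf 0 268772 0) (P.cons (P.lf 19485 0 0) P.nil)))) (P.cons (P.cons (P.lf 0 62588667 0) (P.cons (P.lf 0 197165 0) (P.cons (P.lf 23064 0 0) P.nil))) (P.cons (P.cons (P.lf 0 30058175 0) (P.cons (P.lf 974269 0 0) P.nil)) (P.cons (P.cons (P.lf 1105841 0 0) P.nil) P.nil)))))) 1434597)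
 (EL.cons 1 (TM.mk (P.cons (P.cons (P.lf 0 664706499 0) (P.cons (P.lf 36857374 0 0) (P.cons (P.lf 375063 0 0) (P.cons (P.lf 0 41919 0) (P.cons (P.lf 192 0 0) (P.cons (P.lf 10 0 0) P.nil)))))) (P.cons (P.cons (P.lf 0 422202664 0) (P.cons (P.lf 24067630 0 0) (P.cons (P.lf 224786 0 0) (P.cons (P.lf 0 28329 0) (P.cons (P.lf 125 0 0) P.nil))))) (P.cons (P.cons (P.lf 97180436 0 0) (P.cons (P.lf 0 1626190 0) (P.cons (P.lf 0 70587 0) (P.cons (P.lf 0 739 0) P.nil)))) (P.cons (P.cons (P.lf 70808391 0 0) (P.cons (P.lf 0 2583527 0) (P.cons (P.lf 0 41839 0) P.nil))) (P.cons (P.cons (P.lf 0 3871576 0) (P.cons (P.lf 0 191085 0) P.nil)) (P.cons (P.cons (P.lf 0 3034122 0) P.nil) P.nil)))))) 676215)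
 (EL.cons 5 (TM.mk (P.cons (P.cons (P.lf 1387072026 0 0) (P.cons (P.lf 0 78407637 0) (P.cons (P.lf 0 772998 0) (P.cons (P.lf 90380 0 0) (P.cons (P.lf 0 425 0) (P.cons (P.lf 0 14 0) P.nil)))))) (P.cons (P.cons (P.lf 348954194 0 0) (P.cons (P.lf 0 21359074 0) (P.cons (P.lf 0 168639 0) (P.cons (P.lf 26611 0 0) (P.cons (P.lf 0 126 0) P.nil))))) (P.cons (P.cons (P.lf 0 167265152 0) (P.cons (P.lf 4808562 0 0) (P.cons (P.lf 99808 0 0) (P.cons (P.lf 0 3029 0) P.nil)))) (P.cons (P.cons (P.lf 0 16464619 0) (P.cons (P.lf 1145590 0 0) (P.cons (P.lf 13379 0 0) P.nil))) (P.cons (P.cons (P.lf 9395596 0 0) (P.cons (P.lf 0 191260 0) P.nil)) (P.cons (P.cons (P.lf 436302 0 0) P.nil) P.nil)))))) 648316)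
 (EL.cons 9 (TM.mk (P.cons (P.cons (P.lf 829163146 0 0) (P.cons (P.lf 0 50382697 0) (P.cons (P.lf 0 439354 0) (P.cons (P.lf 60820 0 0) (P.cons (P.lf 0 297 0) (P.cons (P.lf 0 16 0) P.nil)))))) (P.cons (P.cons (P.lf 544955368 0 0) (P.cons (P.lf 0 28802410 0) (P.cons (P.lf 0 316651 0) (P.cons (P.lf 31635 0 0) (P.cons (P.lf 0 144 0) P.nil))))) (P.cons (P.cons (P.lf 16067016 0 0) (P.cons (P.lf 0 2005800 0) (P.cons (P.lf 3750 0 0) (P.cons (P.lf 3436 0 0) P.nil)))) (P.cons (P.cons (P.lf 0 34163247 0) (P.cons (P.lf 948954 0 0) (P.cons (P.lf 19035 0 0) P.nil))) (P.cons (P.cons (P.lf 0 1139784 0) (P.cons (P.lf 136885 0 0) P.nil)) (P.cons (P.cons (P.lf 731880 0 0) P.nil) P.nil)))))) 151400)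
 (EL.cons 2 (TM.mk (P.cons (P.cons (P.lf 508904330 0 0) (P.cons (P.lf 11924696 0 0) (P.cons (P.lf 0 1881849 0) (P.cons (P.lf 0 590 0) (P.cons (P.lf 1288 0 0) (P.cons (P.lf 0 5 0) P.nil)))))) (P.cons (P.cons (P.lf 166463763 0 0) (P.cons (P.lf 5223510 0 0) (P.cons (P.lf 0 512730 0) (P.cons (P.lf 0 894 0) (P.cons (P.lf 320 0 0) P.nil))))) (P.cons (P.cons (P.lf 0 43076328 0) (P.cons (P.lf 0 1762042 0) (P.cons (P.lf 100783 0 0) (P.cons (P.lf 444 0 0) P.nil)))) (P.cons (P.cons (P.lf 0 10975387 0) (P.cons (P.lf 0 349273 0) (P.cons (P.lf 33423 0 0) P.nil))) (P.cons (P.cons (P.lf 831521 0 0) (P.cons (P.lf 54950 0 0) P.nil)) (P.cons (P.cons (P.lf 295959 0 0) P.nil) P.nil)))))) 65187)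
 (EL.cons 6 (TM.mk (P.cons (P.cons (P.lf 431147898 0 0) (P.cons (P.lf 10102698 0 0) (P.cons (P.lf 0 1594314 0) (P.cons (P.lf 0 498 0) (P.cons (P.lf 1092 0 0) (P.cons (P.lf 0 0 0) P.nil)))))) (P.cons (P.cons (P.lf 246475476 0 0) (P.cons (P.lf 6896220 0 0) (P.cons (P.lf 0 824316 0) (P.cons (P.lf 0 876 0) (P.cons (P.lf 540 0 0) P.nil))))) (P.cons (P.cons (P.lf 17164566 0 0) (P.cons (P.lf 38640 0 0) (P.cons (P.lf 0 91728 0) (P.cons (P.lf 168 0 0) P.nil)))) (P.cons (P.cons (P.lf 0 8120676 0) (P.cons (P.lf 0 374436 0) (P.cons (P.lf 15714 0 0) P.nil))) (P.cons (P.cons (P.lf 0 1171434 0) (P.cons (P.lf 0 34860 0) P.nil)) (P.cons (P.cons (P.lf 89292 0 0) P.nil) P.nil)))))) 51204)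
 EL.nil))))))
noncomputable def S169_198_345_364_3 : EL := (EL.cons 0 (TM.mk (P.cons (P.lf 2000791209 0 0) (P.cons (P.lf 0 654467131 0) (P.cons (P.lf 15080835 0 0) (P.cons (P.lf 7271133 0 0) (P.cons (P.lf 199596 0 0) (P.cons (P.lf 0 35412 0) P.nil)))))) 3454)
 (EL.cons 1 (TM.mk (P.cons (P.lf 1695086628 0 0) (P.cons (P.lf 0 139901857 0) (P.cons (P.lf 0 47471786 0) (P.cons (P.lf 0 293435 0) (P.cons (P.lf 328029 0 0) (P.cons (P.lf 15684 0 0) P.nil)))))) 1940)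
 (EL.cons 5 (TM.mk (P.cons (P.lf 1436091214 0 0) (P.cons (P.lf 232699422 0 0) (P.cons (P.lf 0 5362070 0) (P.cons (P.lf 0 2585292 0) (P.cons (P.lf 0 70970 0) (P.cons (P.lf 12590 0 0) P.nil)))))) 1162)
 EL.nil)))
noncomputable def S169_198_345_364_4 : EL := (EL.cons 0 (TM.mk (P.cons (P.cons (P.lf 717788019 0 0) (P.cons (P.lf 0 21807587 0) (P.cons (P.lf 0 521444 0) (P.lf 10481 0 0)))) (P.cons (P.cons (P.lf 1086396 0 0) (P.cons (P.lf 1832909 0 0) (P.cons (P.lf 43825 0 0) (P.lf 0 880 0)))) (P.cons (P.cons (P.lf 0 103548731 0) (P.cons (P.lf 1476843 0 0) (P.cons (P.lf 35312 0 0) (P.lf 0 708 0)))) (P.cons (P.cons (P.lf 10452788 0 0) (P.cons (P.lf 0 14340 0) (P.cons (P.lf 0 342 0) P.nil))) (P.cons (P.cons (P.lf 2334684 0 0) (P.cons (P.lf 0 41011 0) P.nil)) (P.cons (P.cons (P.lf 0 161711 0) P.nil) P.nil)))))) 59197)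
 (EL.cons 1 (TM.mk (P.cons (P.cons (P.lf 608115862 0 0) (P.cons (P.lf 0 18475565 0) (P.cons (P.lf 0 441770 0) (P.lf 8880 0 0)))) (P.cons (P.cons (P.lf 149647550 0 0) (P.cons (P.lf 0 2965719 0) (P.cons (P.lf 0 70912 0) (P.lf 1423 0 0)))) (P.cons (P.cons (P.lf 0 60467193 0) (P.cons (P.lf 809608 0 0) (P.cons (P.lf 19357 0 0) (P.lf 0 388 0)))) (P.cons (P.cons (P.lf 0 7151893 0) (P.cons (P.lf 198616 0 0) (P.cons (P.lf 4747 0 0) P.nil))) (P.cons (P.cons (P.lf 1333291 0 0) (P.cons (P.lf 0 1140 0) P.nil)) (P.cons (P.cons (P.lf 178342 0 0) P.nil) P.nil)))))) 35604)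
 (EL.cons 5 (TM.mk (P.cons (P.cons (P.lf 515200718 0 0) (P.cons (P.lf 0 15652650 0) (P.cons (P.lf 0 374272 0) (P.lf 7524 0 0)))) (P.cons (P.cons (P.lf 252785476 0 0) (P.cons (P.lf 0 6340756 0) (P.cons (P.lf 0 151614 0) (P.lf 3046 0 0)))) (P.cons (P.cons (P.lf 2683276 0 0) (P.cons (P.lf 0 624464 0) (P.cons (P.lf 0 14930 0) (P.lf 300 0 0)))) (P.cons (P.cons (P.lf 0 8370828 0) (P.cons (P.lf 85146 0 0) (P.cons (P.lf 2034 0 0) P.nil))) (P.cons (P.cons (P.lf 0 586318 0) (P.cons (P.lf 20504 0 0) P.nil)) (P.cons (P.cons (P.lf 111182 0 0) P.nil) P.nil)))))) 25124)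
 EL.nil)))
noncomputable def S169_198_345_364_5 : EL := (EL.cons 0 (TM.mk (P.cons (P.cons (P.lf 257507949 0 0) (P.cons (P.lf 0 15647034 0) (P.cons (P.lf 0 136446 0) (P.cons (P.lf 18887 0 0) (P.cons (P.lf 0 91 0) (P.cons (P.lf 0 3 0) P.nil)))))) (P.cons (P.cons (P.lf 85011416 0 0) (P.cons (P.lf 0 3826771 0) (P.cons (P.lf 0 53706 0) (P.cons (P.lf 3645 0 0) (P.cons (P.lf 0 14 0) P.nil))))) (P.cons (P.cons (P.lf 0 48429418 0) (P.cons (P.lf 2185073 0 0) (P.cons (P.lf 32303 0 0) (P.cons (P.lf 0 2003 0) P.nil)))) (P.cons (P.cons (P.lf 0 10030579 0) (P.cons (P.lf 374187 0 0) (P.cons (P.lf 4292 0 0) P.nil))) (P.cons (P.cons (P.lf 3794906 0 0) (P.cons (P.lf 0 92652 0) P.nil)) (P.cons (P.cons (P.lf 293568 0 0) P.nil) P.nil)))))) 212422)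
 (EL.cons 1 (TM.mk (P.cons (P.cons (P.lf 218162833 0 0) (P.cons (P.lf 0 13256295 0) (P.cons (P.lf 0 115599 0) (P.cons (P.lf 16001 0 0) (P.cons (P.lf 0 76 0) (P.cons (P.lf 0 3 0) P.nil)))))) (P.cons (P.cons (P.lf 125378538 0 0) (P.cons (P.lf 0 6484168 0) (P.cons (P.lf 0 73771 0) (P.cons (P.lf 7001 0 0) (P.cons (P.lf 0 30 0) P.nil))))) (P.cons (P.cons (P.lf 0 13716384 0) (P.cons (P.lf 468960 0 0) (P.cons (P.lf 11100 0 0) (P.cons (P.lf 0 228 0) P.nil)))) (P.cons (P.cons (P.lf 0 13390985 0) (P.cons (P.lf 507765 0 0) (P.cons (P.lf 7278 0 0) P.nil))) (P.cons (P.cons (P.lf 340989 0 0) (P.cons (P.lf 28935 0 0) P.nil)) (P.cons (P.cons (P.lf 498086 0 0) P.nil) P.nil)))))) 149879)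
 (EL.cons 5 (TM.mk (P.cons (P.cons (P.lf 184829332 0 0) (P.cons (P.lf 0 11230840 0) (P.cons (P.lf 0 97936 0) (P.cons (P.lf 13556 0 0) (P.cons (P.lf 0 64 0) (P.cons (P.lf 0 2 0) P.nil)))))) (P.cons (P.cons (P.lf 151425506 0 0) (P.cons (P.lf 0 8240172 0) (P.cons (P.lf 0 86452 0) (P.cons (P.lf 9248 0 0) (P.cons (P.lf 0 42 0) P.nil))))) (P.cons (P.cons (P.lf 22575020 0 0) (P.cons (P.lf 0 1445514 0) (P.cons (P.lf 0 10234 0) (P.cons (P.lf 1858 0 0) P.nil)))) (P.cons (P.cons (P.lf 0 7821320 0) (P.cons (P.lf 183272 0 0) (P.cons (P.lf 4816 0 0) P.nil))) (P.cons (P.cons (P.lf 0 1729228 0) (P.cons (P.lf 78570 0 0) P.nil)) (P.cons (P.cons (P.lf 139578 0 0) P.nil) P.nil)))))) 98288)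
 EL.nil)))
noncomputable def S169_198_345_364_6 : EL := (EL.cons 12 (TM.mk (P.lf 8589934592 0 0) 0)
 (EL.cons 3 (TM.mk (P.cons (P.lf 0 2072840178 0) (P.cons (P.lf 339017325 0 0) (P.cons (P.lf 19911543 0 0) (P.cons (P.lf 0 509910 0) (P.cons (P.lf 0 91155 0) (P.cons (P.lf 0 1462 0) P.nil)))))) 487)
 (EL.cons 7 (TM.mk (P.cons (P.lf 0 1756127103 0) (P.cons (P.lf 0 142278485 0) (P.cons (P.lf 9042093 0 0) (P.cons (P.lf 848140 0 0) (P.cons (P.lf 0 2043 0) (P.cons (P.lf 0 3166 0) P.nil)))))) 195)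
 EL.nil)))
noncomputable def S169_198_345_364_7 : EL := (EL.cons 12 (TM.mk (P.cons (P.cons (P.lf 3081656956 0 0) (P.cons (P.lf 0 93625840 0) (P.cons (P.lf 0 2238704 0) (P.lf 45008 0 0)))) (P.cons (P.cons (P.lf 1012687014 0 0) (P.cons (P.lf 0 22756224 0) (P.cons (P.lf 0 544128 0) (P.lf 10936 0 0)))) (P.cons (P.cons (P.lf 0 136536206 0) (P.cons (P.lf 0 397464 0) (P.cons (P.lf 0 9504 0) (P.lf 192 0 0)))) (P.cons (P.cons (P.lf 0 18617128 0) (P.cons (P.lf 320192 0 0) (P.cons (P.lf 7656 0 0) P.nil))) (P.cons (P.cons (P.lf 975170 0 0) (P.cons (P.lf 23696 0 0) P.nil)) (P.cons (P.cons (P.lf 214740 0 0) P.nil) P.nil)))))) 26978)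
 (EL.cons 3 (TM.mk (P.cons (P.cons (P.lf 2272618310 0 0) (P.cons (P.lf 0 45185768 0) (P.cons (P.lf 0 1080444 0) (P.lf 21720 0 0)))) (P.cons (P.cons (P.lf 0 801650022 0) (P.cons (P.lf 0 3592396 0) (P.cons (P.lf 0 85896 0) (P.lf 1724 0 0)))) (P.cons (P.cons (P.lf 0 135987537 0) (P.cons (P.lf 2038456 0 0) (P.cons (P.lf 48740 0 0) (P.lf 0 978 0)))) (P.cons (P.cons (P.lf 9097127 0 0) (P.cons (P.lf 280286 0 0) (P.cons (P.lf 6700 0 0) P.nil))) (P.cons (P.cons (P.lf 3078126 0 0) (P.cons (P.lf 0 16682 0) P.nil)) (P.cons (P.cons (P.lf 62643 0 0) P.nil) P.nil)))))) 104161)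
 (EL.cons 7 (TM.mk (P.cons (P.cons (P.lf 0 1895873054 0) (P.cons (P.lf 47586168 0 0) (P.cons (P.lf 1137849 0 0) (P.lf 0 22878 0)))) (P.cons (P.cons (P.lf 336435759 0 0) (P.cons (P.lf 1507659 0 0) (P.cons (P.lf 36050 0 0) (P.lf 0 725 0)))) (P.cons (P.cons (P.lf 15930015 0 0) (P.cons (P.lf 0 1039859 0) (P.cons (P.lf 0 24863 0) (P.lf 499 0 0)))) (P.cons (P.cons (P.lf 0 11400852 0) (P.cons (P.lf 29569 0 0) (P.cons (P.lf 706 0 0) P.nil))) (P.cons (P.cons (P.lf 0 302542 0) (P.cons (P.lf 21338 0 0) P.nil)) (P.cons (P.cons (P.lf 160690 0 0) P.nil) P.nil)))))) 61937)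
 (EL.cons 10 (TM.mk (P.cons (P.cons (P.lf 0 1469622390 0) (P.cons (P.lf 0 79085904 0) (P.cons (P.lf 1964061 0 0) (P.cons (P.lf 25395 0 0) (P.lf 0 381 0))))) (P.cons (P.cons (P.lf 0 238132701 0) (P.cons (P.lf 0 12814815 0) (P.cons (P.lf 318249 0 0) (P.cons (P.lf 4113 0 0) (P.lf 0 60 0))))) (P.cons (P.cons (P.lf 5487267 0 0) (P.cons (P.lf 295290 0 0) (P.cons (P.lf 0 7332 0) (P.cons (P.lf 0 93 0) P.nil)))) (P.cons (P.cons (P.lf 2645655 0 0) (P.cons (P.lf 142371 0 0) (P.cons (P.lf 0 3534 0) P.nil))) (P.cons (P.cons (P.lf 72627 0 0) (P.cons (P.lf 3906 0 0) P.nil)) (P.cons (P.cons (P.lf 0 12882 0) P.nil) P.nil)))))) 2217)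
 EL.nil))))
noncomputable def S169_198_345_364_8 : EL := (EL.cons 12 (TM.mk (P.cons (P.cons (P.lf 1105550862 0 0) (P.cons (P.lf 0 67176930 0) (P.cons (P.lf 0 585806 0) (P.cons (P.lf 81094 0 0) (P.cons (P.lf 0 396 0) (P.cons (P.lf 0 22 0) P.nil)))))) (P.cons (P.cons (P.lf 726607158 0 0) (P.cons (P.lf 0 38403214 0) (P.cons (P.lf 0 422202 0) (P.cons (P.lf 42180 0 0) (P.cons (P.lf 0 192 0) P.nil))))) (P.cons (P.cons (P.lf 21422688 0 0) (P.cons (P.lf 0 2674400 0) (P.cons (P.lf 5000 0 0) (P.cons (P.lf 4582 0 0) P.nil)))) (P.cons (P.cons (P.lf 0 45550996 0) (P.cons (P.lf 1265272 0 0) (P.cons (P.lf 25380 0 0) P.nil))) (P.cons (P.cons (P.lf 0 1519712 0) (P.cons (P.lf 182514 0 0) P.nil)) (P.cons (P.cons (P.lf 975840 0 0) P.nil) P.nil)))))) 201838)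
 (EL.cons 3 (TM.mk (P.cons (P.cons (P.lf 1897393988 0 0) (P.cons (P.lf 0 98172192 0) (P.cons (P.lf 0 1116156 0) (P.cons (P.lf 106072 0 0) (P.cons (P.lf 0 476 0) (P.cons (P.lf 0 26 0) P.nil)))))) (P.cons (P.cons (P.lf 92366355 0 0) (P.cons (P.lf 0 14413477 0) (P.cons (P.lf 52511 0 0) (P.cons (P.lf 25915 0 0) (P.cons (P.lf 0 150 0) P.nil))))) (P.cons (P.cons (P.lf 0 384904467 0) (P.cons (P.lf 10079518 0 0) (P.cons (P.lf 214485 0 0) (P.cons (P.lf 0 6112 0) P.nil)))) (P.cons (P.cons (P.lf 0 23359274 0) (P.cons (P.lf 2253525 0 0) (P.cons (P.lf 28944 0 0) P.nil))) (P.cons (P.cons (P.lf 14103645 0 0) (P.cons (P.lf 0 157994 0) P.nil)) (P.cons (P.cons (P.lf 1412806 0 0) P.nil) P.nil)))))) 660955)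
 (EL.cons 7 (TM.mk (P.cons (P.cons (P.lf 0 1134277894 0) (P.cons (P.lf 61737684 0 0) (P.cons (P.lf 647522 0 0) (P.cons (P.lf 0 69306 0) (P.cons (P.lf 320 0 0) (P.cons (P.lf 16 0 0) P.nil)))))) (P.cons (P.cons (P.lf 0 38764237 0) (P.cons (P.lf 6049047 0 0) (P.cons (P.lf 0 22033 0) (P.cons (P.lf 0 10872 0) (P.cons (P.lf 63 0 0) P.nil))))) (P.cons (P.cons (P.lf 166276655 0 0) (P.cons (P.lf 0 4969867 0) (P.cons (P.lf 0 87316 0) (P.cons (P.lf 3892 0 0) P.nil)))) (P.cons (P.cons (P.lf 0 16733040 0) (P.cons (P.lf 0 225084 0) (P.cons (P.lf 2411 0 0) P.nil))) (P.cons (P.cons (P.lf 0 6459613 0) (P.cons (P.lf 204617 0 0) P.nil)) (P.cons (P.cons (P.lf 539679 0 0) P.nil) P.nil)))))) 383711)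
 (EL.cons 10 (TM.mk (P.cons (P.cons (P.lf 0 1054460196 0) (P.cons (P.lf 0 24708216 0) (P.cons (P.lf 3899232 0 0) (P.cons (P.lf 1224 0 0) (P.cons (P.lf 0 2676 0) (P.cons (P.lf 12 0 0) P.nil)))))) (P.cons (P.cons (P.lf 0 517375488 0) (P.cons (P.lf 0 14864304 0) (P.cons (P.lf 1700124 0 0) (P.cons (P.lf 2052 0 0) (P.cons (P.lf 0 1104 0) P.nil))))) (P.cons (P.cons (P.lf 0 5491854 0) (P.cons (P.lf 982554 0 0) (P.cons (P.lf 106680 0 0) (P.cons (P.lf 0 582 0) P.nil)))) (P.cons (P.cons (P.lf 17132556 0 0) (P.cons (P.lf 747696 0 0) (P.cons (P.lf 0 36438 0) P.nil))) (P.cons (P.cons (P.lf 1200012 0 0) (P.cons (P.lf 22602 0 0) P.nil)) (P.cons (P.cons (P.lf 0 227550 0) P.nil) P.nil)))))) 71298)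
 EL.nil))))
noncomputable def S169_198_345_364_9 : EL := (EL.cons 3 (TM.mk (P.cons (P.lf 0 2072840178 0) (P.cons (P.lf 339017325 0 0) (P.cons (P.lf 19911543 0 0) (P.cons (P.lf 0 509910 0) (P.cons (P.lf 0 91155 0) (P.cons (P.lf 0 1462 0) P.nil)))))) 487)
 (EL.cons 7 (TM.mk (P.cons (P.lf 0 1756127103 0) (P.cons (P.lf 0 142278485 0) (P.cons (P.lf 9042093 0 0) (P.cons (P.lf 848140 0 0) (P.cons (P.lf 0 2043 0) (P.cons (P.lf 0 3166 0) P.nil)))))) 195)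
 EL.nil))
noncomputable def S169_198_345_364_10 : EL := (EL.cons 3 (TM.mk (P.cons (P.cons (P.lf 0 743635738 0) (P.cons (P.lf 22592884 0 0) (P.cons (P.lf 540222 0 0) (P.lf 0 10860 0)))) (P.cons (P.cons (P.lf 0 122748690 0) (P.cons (P.lf 1796198 0 0) (P.cons (P.lf 42948 0 0) (P.lf 0 862 0)))) (P.cons (P.cons (P.lf 80058435 0 0) (P.cons (P.lf 0 1019228 0) (P.cons (P.lf 0 24370 0) (P.lf 489 0 0)))) (P.cons (P.cons (P.lf 1268342 0 0) (P.cons (P.lf 0 140143 0) (P.cons (P.lf 0 3350 0) P.nil))) (P.cons (P.cons (P.lf 0 1379385 0) (P.cons (P.lf 8341 0 0) P.nil)) (P.cons (P.cons (P.lf 0 59652 0) P.nil) P.nil)))))) 24675)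
 (EL.cons 7 (TM.mk (P.cons (P.cons (P.lf 0 630014261 0) (P.cons (P.lf 19140876 0 0) (P.cons (P.lf 457680 0 0) (P.lf 0 9201 0)))) (P.cons (P.cons (P.lf 0 258076539 0) (P.cons (P.lf 6203046 0 0) (P.cons (P.lf 148322 0 0) (P.lf 0 2981 0)))) (P.cons (P.cons (P.lf 14383809 0 0) (P.cons (P.lf 359623 0 0) (P.cons (P.lf 8599 0 0) (P.lf 0 173 0)))) (P.cons (P.cons (P.lf 7437855 0 0) (P.cons (P.lf 0 92075 0) (P.cons (P.lf 0 2201 0) P.nil))) (P.cons (P.cons (P.lf 64532 0 0) (P.cons (P.lf 0 12790 0) P.nil)) (P.cons (P.cons (P.lf 0 94508 0) P.nil) P.nil)))))) 14443)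
 EL.nil))
noncomputable def S169_198_345_364_11 : EL := (EL.cons 3 (TM.mk (P.cons (P.cons (P.lf 0 266780872 0) (P.cons (P.lf 16210488 0 0) (P.cons (P.lf 141360 0 0) (P.cons (P.lf 0 19568 0) (P.cons (P.lf 94 0 0) (P.cons (P.lf 4 0 0) P.nil)))))) (P.cons (P.cons (P.lf 0 131705265 0) (P.cons (P.lf 6615833 0 0) (P.cons (P.lf 78761 0 0) (P.cons (P.lf 0 6977 0) (P.cons (P.lf 30 0 0) P.nil))))) (P.cons (P.cons (P.lf 26070027 0 0) (P.cons (P.lf 0 1026008 0) (P.cons (P.lf 0 19227 0) (P.cons (P.lf 746 0 0) P.nil)))) (P.cons (P.cons (P.lf 13456066 0 0) (P.cons (P.lf 0 495903 0) (P.cons (P.lf 0 6870 0) P.nil))) (P.cons (P.cons (P.lf 0 1436235 0) (P.cons (P.lf 2686 0 0) P.nil)) (P.cons (P.cons (P.lf 0 410216 0) P.nil) P.nil)))))) 118023)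
 (EL.cons 7 (TM.mk (P.cons (P.cons (P.lf 0 226018930 0) (P.cons (P.lf 13733658 0 0) (P.cons (P.lf 119762 0 0) (P.cons (P.lf 0 16578 0) (P.cons (P.lf 80 0 0) (P.cons (P.lf 4 0 0) P.nil)))))) (P.cons (P.cons (P.lf 0 166859317 0) (P.cons (P.lf 8963835 0 0) (P.cons (P.lf 96017 0 0) (P.cons (P.lf 0 9966 0) (P.cons (P.lf 45 0 0) P.nil))))) (P.cons (P.cons (P.lf 0 15250993 0) (P.cons (P.lf 1112129 0 0) (P.cons (P.lf 5354 0 0) (P.cons (P.lf 0 1550 0) P.nil)))) (P.cons (P.cons (P.lf 9831630 0 0) (P.cons (P.lf 0 261432 0) (P.cons (P.lf 0 5773 0) P.nil))) (P.cons (P.cons (P.lf 1159199 0 0) (P.cons (P.lf 0 64861 0) P.nil)) (P.cons (P.cons (P.lf 0 220743 0) P.nil) P.nil)))))) 74395)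
 EL.nil))
noncomputable def S169_198_345_364_12 : EL := (EL.cons 4 (TM.mk (P.cons (P.lf 2072840178 0 0) (P.cons (P.lf 0 339017325 0) (P.cons (P.lf 0 19911543 0) (P.cons (P.lf 509910 0 0) (P.cons (P.lf 91155 0 0) (P.cons (P.lf 1462 0 0) P.nil)))))) 487)
 (EL.cons 8 (TM.mk (P.cons (P.lf 1756127103 0 0) (P.cons (P.lf 142278485 0 0) (P.cons (P.lf 0 9042093 0) (P.cons (P.lf 0 848140 0) (P.cons (P.lf 2043 0 0) (P.cons (P.lf 3166 0 0) P.nil)))))) 195)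
 EL.nil))
noncomputable def S169_198_345_364_13 : EL := (EL.cons 4 (TM.mk (P.cons (P.cons (P.lf 743635738 0 0) (P.cons (P.lf 0 22592884 0) (P.cons (P.lf 0 540222 0) (P.lf 10860 0 0)))) (P.cons (P.cons (P.lf 122748690 0 0) (P.cons (P.lf 0 1796198 0) (P.cons (P.lf 0 42948 0) (P.lf 862 0 0)))) (P.cons (P.cons (P.lf 0 80058435 0) (P.cons (P.lf 1019228 0 0) (P.cons (P.lf 24370 0 0) (P.lf 0 489 0)))) (P.cons (P.cons (P.lf 0 1268342 0) (P.cons (P.lf 140143 0 0) (P.cons (P.lf 3350 0 0) P.nil))) (P.cons (P.cons (P.lf 1379385 0 0) (P.cons (P.lf 0 8341 0) P.nil)) (P.cons (P.cons (P.lf 59652 0 0) P.nil) P.nil)))))) 24675)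
 (EL.cons 8 (TM.mk (P.cons (P.cons (P.lf 630014261 0 0) (P.cons (P.lf 0 19140876 0) (P.cons (P.lf 0 457680 0) (P.lf 9201 0 0)))) (P.cons (P.cons (P.lf 258076539 0 0) (P.cons (P.lf 0 6203046 0) (P.cons (P.lf 0 148322 0) (P.lf 2981 0 0)))) (P.cons (P.cons (P.lf 0 14383809 0) (P.cons (P.lf 0 359623 0) (P.cons (P.lf 0 8599 0) (P.lf 173 0 0)))) (P.cons (P.cons (P.lf 0 7437855 0) (P.cons (P.lf 92075 0 0) (P.cons (P.lf 2201 0 0) P.nil))) (P.cons (P.cons (P.lf 0 64532 0) (P.cons (P.lf 12790 0 0) P.nil)) (P.cons (P.cons (P.lf 94508 0 0) P.nil) P.nil)))))) 14443)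
 EL.nil))
noncomputable def S169_198_345_364_14 : EL := (EL.cons 4 (TM.mk (P.cons (P.cons (P.lf 266780872 0 0) (P.cons (P.lf 0 16210488 0) (P.cons (P.lf 0 141360 0) (P.cons (P.lf 19568 0 0) (P.cons (P.lf 0 94 0) (P.cons (P.lf 0 4 0) P.nil)))))) (P.cons (P.cons (P.lf 131705265 0 0) (P.cons (P.lf 0 6615833 0) (P.cons (P.lf 0 78761 0) (P.cons (P.lf 6977 0 0) (P.cons (P.lf 0 30 0) P.nil))))) (P.cons (P.cons (P.lf 0 26070027 0) (P.cons (P.lf 1026008 0 0) (P.cons (P.lf 19227 0 0) (P.cons (P.lf 0 746 0) P.nil)))) (P.cons (P.cons (P.lf 0 13456066 0) (P.cons (P.lf 495903 0 0) (P.cons (P.lf 6870 0 0) P.nil))) (P.cons (P.cons (P.lf 1436235 0 0) (P.cons (P.lf 0 2686 0) P.nil)) (P.cons (P.cons (P.lf 410216 0 0) P.nil) P.nil)))))) 118023)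
 (EL.cons 8 (TM.mk (P.cons (P.cons (P.lf 226018930 0 0) (P.cons (P.lf 0 13733658 0) (P.cons (P.lf 0 119762 0) (P.cons (P.lf 16578 0 0) (P.cons (P.lf 0 80 0) (P.cons (P.lf 0 4 0) P.nil)))))) (P.cons (P.cons (P.lf 166859317 0 0) (P.cons (P.lf 0 8963835 0) (P.cons (P.lf 0 96017 0) (P.cons (P.lf 9966 0 0) (P.cons (P.lf 0 45 0) P.nil))))) (P.cons (P.cons (P.lf 15250993 0 0) (P.cons (P.lf 0 1112129 0) (P.cons (P.lf 0 5354 0) (P.cons (P.lf 1550 0 0) P.nil)))) (P.cons (P.cons (P.lf 0 9831630 0) (P.cons (P.lf 261432 0 0) (P.cons (P.lf 5773 0 0) P.nil))) (P.cons (P.cons (P.lf 0 1159199 0) (P.cons (P.lf 64861 0 0) P.nil)) (P.cons (P.cons (P.lf 220743 0 0) P.nil) P.nil)))))) 74395)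
 EL.nil))
noncomputable def S169_198_345_364_15 : EL := (EL.cons 4 (TM.mk (P.cons (P.lf 0 1067088645 0) (P.cons (P.lf 349049136 0 0) (P.cons (P.lf 0 8043112 0) (P.cons (P.lf 0 3877937 0) (P.cons (P.lf 0 106451 0) (P.cons (P.lf 18886 0 0) P.nil)))))) 1845)
 (EL.cons 8 (TM.mk (P.cons (P.lf 0 904046202 0) (P.cons (P.lf 74614324 0 0) (P.cons (P.lf 25318286 0 0) (P.cons (P.lf 156499 0 0) (P.cons (P.lf 0 174949 0) (P.cons (P.lf 0 8365 0) P.nil)))))) 1031)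
 EL.nil))
noncomputable def S169_198_345_364_16 : EL := (EL.cons 4 (TM.mk (P.cons (P.cons (P.lf 0 382820277 0) (P.cons (P.lf 11630713 0 0) (P.cons (P.lf 278103 0 0) (P.lf 0 5590 0)))) (P.cons (P.cons (P.lf 0 579411 0) (P.cons (P.lf 0 977551 0) (P.cons (P.lf 0 23373 0) (P.lf 469 0 0)))) (P.cons (P.cons (P.lf 55225990 0 0) (P.cons (P.lf 0 787650 0) (P.cons (P.lf 0 18833 0) (P.lf 377 0 0)))) (P.cons (P.cons (P.lf 0 5574820 0) (P.cons (P.lf 7648 0 0) (P.cons (P.lf 182 0 0) P.nil))) (P.cons (P.cons (P.lf 0 1245165 0) (P.cons (P.lf 21872 0 0) P.nil)) (P.cons (P.cons (P.lf 86246 0 0) P.nil) P.nil)))))) 31580)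
 (EL.cons 8 (TM.mk (P.cons (P.cons (P.lf 0 324328460 0) (P.cons (P.lf 9853635 0 0) (P.cons (P.lf 235611 0 0) (P.lf 0 4736 0)))) (P.cons (P.cons (P.lf 0 79812027 0) (P.cons (P.lf 1581717 0 0) (P.cons (P.lf 37820 0 0) (P.lf 0 759 0)))) (P.cons (P.cons (P.lf 32249170 0 0) (P.cons (P.lf 0 431791 0) (P.cons (P.lf 0 10324 0) (P.lf 207 0 0)))) (P.cons (P.cons (P.lf 3814343 0 0) (P.cons (P.lf 0 105929 0) (P.cons (P.lf 0 2532 0) P.nil))) (P.cons (P.cons (P.lf 0 711089 0) (P.cons (P.lf 608 0 0) P.nil)) (P.cons (P.cons (P.lf 0 95116 0) P.nil) P.nil)))))) 18979)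
 EL.nil))
noncomputable def S169_198_345_364_17 : EL := (EL.cons 4 (TM.mk (P.cons (P.cons (P.lf 0 137337572 0) (P.cons (P.lf 8345085 0 0) (P.cons (P.lf 72771 0 0) (P.cons (P.lf 0 10073 0) (P.cons (P.lf 48 0 0) (P.cons (P.lf 1 0 0) P.nil)))))) (P.cons (P.cons (P.lf 0 45339421 0) (P.cons (P.lf 2040945 0 0) (P.cons (P.lf 28643 0 0) (P.cons (P.lf 0 1944 0) (P.cons (P.lf 7 0 0) P.nil))))) (P.cons (P.cons (P.lf 25829023 0 0) (P.cons (P.lf 0 1165372 0) (P.cons (P.lf 0 17228 0) (P.cons (P.lf 1068 0 0) P.nil)))) (P.cons (P.cons (P.lf 5349642 0 0) (P.cons (P.lf 0 199566 0) (P.cons (P.lf 0 2289 0) P.nil))) (P.cons (P.cons (P.lf 0 2023950 0) (P.cons (P.lf 49414 0 0) P.nil)) (P.cons (P.cons (P.lf 0 156570 0) P.nil) P.nil)))))) 113302)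
 (EL.cons 8 (TM.mk (P.cons (P.cons (P.lf 0 116353511 0) (P.cons (P.lf 7070024 0 0) (P.cons (P.lf 61653 0 0) (P.cons (P.lf 0 8534 0) (P.cons (P.lf 41 0 0) (P.cons (P.lf 2 0 0) P.nil)))))) (P.cons (P.cons (P.lf 0 66868554 0) (P.cons (P.lf 3458223 0 0) (P.cons (P.lf 39345 0 0) (P.cons (P.lf 0 3734 0) (P.cons (P.lf 16 0 0) P.nil))))) (P.cons (P.cons (P.lf 7315405 0 0) (P.cons (P.lf 0 250112 0) (P.cons (P.lf 0 5920 0) (P.cons (P.lf 122 0 0) P.nil)))) (P.cons (P.cons (P.lf 7141859 0 0) (P.cons (P.lf 0 270808 0) (P.cons (P.lf 0 3882 0) P.nil))) (P.cons (P.cons (P.lf 0 181861 0) (P.cons (P.lf 0 15432 0) P.nil)) (P.cons (P.cons (P.lf 0 265646 0) P.nil) P.nil)))))) 79924)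
 EL.nil))
noncomputable def S169_198_345_364_18 : EL := (EL.cons 4 (TM.mk (P.cons (P.lf 549332354 0 0) (P.cons (P.lf 0 269533349 0) (P.cons (P.lf 28252205 0 0) (P.cons (P.lf 3180359 0 0) (P.cons (P.lf 0 331524 0) (P.cons (P.lf 0 44357 0) P.nil)))))) 4415)
 (EL.cons 8 (TM.mk (P.cons (P.lf 465398850 0 0) (P.cons (P.lf 0 114528063 0) (P.cons (P.lf 0 11222106 0) (P.cons (P.lf 2534590 0 0) (P.cons (P.lf 239457 0 0) (P.cons (P.lf 0 14216 0) P.nil)))))) 3029)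
 EL.nil))
noncomputable def S169_198_345_364_19 : EL := (EL.cons 4 (TM.mk (P.cons (P.cons (P.lf 197074127 0 0) (P.cons (P.lf 0 5987437 0) (P.cons (P.lf 0 143166 0) (P.lf 2878 0 0)))) (P.cons (P.cons (P.lf 0 31933605 0) (P.cons (P.lf 1482496 0 0) (P.cons (P.lf 35447 0 0) (P.lf 0 712 0)))) (P.cons (P.cons (P.lf 0 30371950 0) (P.cons (P.lf 380687 0 0) (P.cons (P.lf 9102 0 0) (P.lf 0 182 0)))) (P.cons (P.cons (P.lf 7565306 0 0) (P.cons (P.lf 0 76560 0) (P.cons (P.lf 0 1830 0) P.nil))) (P.cons (P.cons (P.lf 453465 0 0) (P.cons (P.lf 0 14650 0) P.nil)) (P.cons (P.cons (P.lf 0 183645 0) P.nil) P.nil)))))) 39360)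
 (EL.cons 8 (TM.mk (P.cons (P.cons (P.lf 166962808 0 0) (P.cons (P.lf 0 5072606 0) (P.cons (P.lf 0 121291 0) (P.lf 2438 0 0)))) (P.cons (P.cons (P.lf 13779751 0 0) (P.cons (P.lf 15374 0 0) (P.cons (P.lf 367 0 0) (P.lf 0 7 0)))) (P.cons (P.cons (P.lf 0 24925400 0) (P.cons (P.lf 404185 0 0) (P.cons (P.lf 9664 0 0) (P.lf 0 193 0)))) (P.cons (P.cons (P.lf 398034 0 0) (P.cons (P.lf 24750 0 0) (P.cons (P.lf 591 0 0) P.nil))) (P.cons (P.cons (P.lf 864141 0 0) (P.cons (P.lf 0 11790 0) P.nil)) (P.cons (P.cons (P.lf 5797 0 0) P.nil) P.nil)))))) 23670)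
 EL.nil))
noncomputable def S169_198_345_364_20 : EL := (EL.cons 4 (TM.mk (P.cons (P.cons (P.lf 70700754 0 0) (P.cons (P.lf 0 4296011 0) (P.cons (P.lf 0 37462 0) (P.cons (P.lf 5185 0 0) (P.cons (P.lf 0 25 0) (P.cons (P.lf 0 0 0) P.nil)))))) (P.cons (P.cons (P.lf 11777271 0 0) (P.cons (P.lf 0 348046 0) (P.cons (P.lf 0 8618 0) (P.cons (P.lf 152 0 0) (P.cons (P.lf 0 0 0) P.nil))))) (P.cons (P.cons (P.lf 0 17793200 0) (P.cons (P.lf 813034 0 0) (P.cons (P.lf 11640 0 0) (P.cons (P.lf 0 763 0) P.nil)))) (P.cons (P.cons (P.lf 0 786089 0) (P.cons (P.lf 13651 0 0) (P.cons (P.lf 0 138 0) P.nil))) (P.cons (P.cons (P.lf 1628914 0 0) (P.cons (P.lf 0 48450 0) P.nil)) (P.cons (P.cons (P.lf 0 65546 0) P.nil) P.nil)))))) 100162)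
 (EL.cons 8 (TM.mk (P.cons (P.cons (P.lf 59898255 0 0) (P.cons (P.lf 0 3639616 0) (P.cons (P.lf 0 31738 0) (P.cons (P.lf 4393 0 0) (P.cons (P.lf 0 21 0) (P.cons (P.lf 0 0 0) P.nil)))))) (P.cons (P.cons (P.lf 24627141 0 0) (P.cons (P.lf 0 1185011 0) (P.cons (P.lf 0 15063 0) (P.cons (P.lf 1203 0 0) (P.cons (P.lf 0 4 0) P.nil))))) (P.cons (P.cons (P.lf 0 9971370 0) (P.cons (P.lf 454886 0 0) (P.cons (P.lf 6665 0 0) (P.cons (P.lf 0 420 0) P.nil)))) (P.cons (P.cons (P.lf 0 3376605 0) (P.cons (P.lf 134558 0 0) (P.cons (P.lf 1686 0 0) P.nil))) (P.cons (P.cons (P.lf 742214 0 0) (P.cons (P.lf 0 16691 0) P.nil)) (P.cons (P.cons (P.lf 157387 0 0) P.nil) P.nil)))))) 68610)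
 EL.nil))
noncomputable def S169_198_345_364_21 : EL := (EL.cons 4 (TM.mk (P.cons (P.cons (P.lf 0 3016254048 0) (P.cons (P.lf 67778652 0 0) (P.cons (P.lf 1620666 0 0) (P.lf 0 32580 0)))) (P.cons (P.cons (P.lf 678901332 0 0) (P.cons (P.lf 5388594 0 0) (P.cons (P.lf 128844 0 0) (P.lf 0 2586 0)))) (P.cons (P.cons (P.lf 216045972 0 0) (P.cons (P.lf 0 3057684 0) (P.cons (P.lf 0 73110 0) (P.lf 1467 0 0)))) (P.cons (P.cons (P.lf 0 7828785 0) (P.cons (P.lf 0 420429 0) (P.cons (P.lf 0 10050 0) P.nil))) (P.cons (P.cons (P.lf 0 4457511 0) (P.cons (P.lf 25023 0 0) P.nil)) (P.cons (P.cons (P.lf 0 122295 0) P.nil) P.nil)))))) 79467)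
 (EL.cons 8 (TM.mk (P.cons (P.cons (P.lf 1265858793 0 0) (P.cons (P.lf 0 28445292 0) (P.cons (P.lf 0 680169 0) (P.lf 13677 0 0)))) (P.cons (P.cons (P.lf 0 594512298 0) (P.cons (P.lf 4695387 0 0) (P.cons (P.lf 112272 0 0) (P.lf 0 2256 0)))) (P.cons (P.cons (P.lf 0 1546206 0) (P.cons (P.lf 1399482 0 0) (P.cons (P.lf 33462 0 0) (P.lf 0 672 0)))) (P.cons (P.cons (P.lf 18838707 0 0) (P.cons (P.lf 0 121644 0) (P.cons (P.lf 0 2907 0) P.nil))) (P.cons (P.cons (P.lf 367074 0 0) (P.cons (P.lf 0 34128 0) P.nil)) (P.cons (P.cons (P.lf 0 255198 0) P.nil) P.nil)))))) 47475)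
 (EL.cons 11 (TM.mk (P.cons (P.cons (P.lf 1469622390 0 0) (P.cons (P.lf 79085904 0 0) (P.cons (P.lf 0 1964061 0) (P.cons (P.lf 0 25395 0) (P.lf 381 0 0))))) (P.cons (P.cons (P.lf 238132701 0 0) (P.cons (P.lf 12814815 0 0) (P.cons (P.lf 0 318249 0) (P.cons (P.lf 0 4113 0) (P.lf 60 0 0))))) (P.cons (P.cons (P.lf 0 5487267 0) (P.cons (P.lf 0 295290 0) (P.cons (P.lf 7332 0 0) (P.cons (P.lf 93 0 0) P.nil)))) (P.cons (P.cons (P.lf 0 2645655 0) (P.cons (P.lf 0 142371 0) (P.cons (P.lf 3534 0 0) P.nil))) (P.cons (P.cons (P.lf 0 72627 0) (P.cons (P.lf 0 3906 0) P.nil)) (P.cons (P.cons (P.lf 12882 0 0) P.nil) P.nil)))))) 2217)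
 EL.nil)))
noncomputable def S169_198_345_364_22 : EL := (EL.cons 4 (TM.mk (P.cons (P.cons (P.lf 0 1082087430 0) (P.cons (P.lf 57191340 0 0) (P.cons (P.lf 628758 0 0) (P.cons (P.lf 0 62820 0) (P.cons (P.lf 285 0 0) (P.cons (P.lf 15 0 0) P.nil)))))) (P.cons (P.cons (P.lf 0 112035810 0) (P.cons (P.lf 10514655 0 0) (P.cons (P.lf 13125 0 0) (P.cons (P.lf 0 16446 0) (P.cons (P.lf 90 0 0) P.nil))))) (P.cons (P.cons (P.lf 205487247 0 0) (P.cons (P.lf 0 5552763 0) (P.cons (P.lf 0 116856 0) (P.cons (P.lf 3429 0 0) P.nil)))) (P.cons (P.cons (P.lf 18407670 0 0) (P.cons (P.lf 0 1374714 0) (P.cons (P.lf 0 17907 0) P.nil))) (P.cons (P.cons (P.lf 0 7769940 0) (P.cons (P.lf 80340 0 0) P.nil)) (P.cons (P.cons (P.lf 0 911511 0) P.nil) P.nil)))))) 271455)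
 (EL.cons 8 (TM.mk (P.cons (P.cons (P.lf 454129482 0 0) (P.cons (P.lf 0 24002013 0) (P.cons (P.lf 0 263880 0) (P.cons (P.lf 26364 0 0) (P.cons (P.lf 0 120 0) (P.cons (P.lf 0 6 0) P.nil)))))) (P.cons (P.cons (P.lf 0 64047540 0) (P.cons (P.lf 1457394 0 0) (P.cons (P.lf 59025 0 0) (P.cons (P.lf 453 0 0) (P.cons (P.lf 0 9 0) P.nil))))) (P.cons (P.cons (P.lf 0 90763824 0) (P.cons (P.lf 3040998 0 0) (P.cons (P.lf 46335 0 0) (P.cons (P.lf 0 2721 0) P.nil)))) (P.cons (P.cons (P.lf 13282335 0 0) (P.cons (P.lf 0 18174 0) (P.cons (P.lf 0 4092 0) P.nil))) (P.cons (P.cons (P.lf 3809406 0 0) (P.cons (P.lf 0 134739 0) P.nil)) (P.cons (P.cons (P.lf 0 380211 0) P.nil) P.nil)))))) 154647)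
 (EL.cons 11 (TM.mk (P.cons (P.cons (P.lf 527230098 0 0) (P.cons (P.lf 12354108 0 0) (P.cons (P.lf 0 1949616 0) (P.cons (P.lf 0 612 0) (P.cons (P.lf 1338 0 0) (P.cons (P.lf 0 6 0) P.nil)))))) (P.cons (P.cons (P.lf 258687744 0 0) (P.cons (P.lf 7432152 0 0) (P.cons (P.lf 0 850062 0) (P.cons (P.lf 0 1026 0) (P.cons (P.lf 552 0 0) P.nil))))) (P.cons (P.cons (P.lf 2745927 0 0) (P.cons (P.lf 0 491277 0) (P.cons (P.lf 0 53340 0) (P.cons (P.lf 291 0 0) P.nil)))) (P.cons (P.cons (P.lf 0 8566278 0) (P.cons (P.lf 0 373848 0) (P.cons (P.lf 18219 0 0) P.nil))) (P.cons (P.cons (P.lf 0 600006 0) (P.cons (P.lf 0 11301 0) P.nil)) (P.cons (P.cons (P.lf 113775 0 0) P.nil) P.nil)))))) 35649)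
 EL.nil)))
noncomputable def S169_198_345_364_23 : EL := (EL.cons 4 (TM.mk (P.cons (P.cons (P.lf 1552753791 0 0) (P.cons (P.lf 0 34892139 0) (P.cons (P.lf 0 834309 0) (P.lf 16770 0 0)))) (P.cons (P.cons (P.lf 0 603451413 0) (P.cons (P.lf 2932656 0 0) (P.cons (P.lf 70125 0 0) (P.lf 0 1410 0)))) (P.cons (P.cons (P.lf 0 68974428 0) (P.cons (P.lf 2362950 0 0) (P.cons (P.lf 56499 0 0) (P.lf 0 1134 0)))) (P.cons (P.cons (P.lf 25959594 0 0) (P.cons (P.lf 0 22944 0) (P.cons (P.lf 0 549 0) P.nil))) (P.cons (P.cons (P.lf 2686230 0 0) (P.cons (P.lf 0 65616 0) P.nil)) (P.cons (P.cons (P.lf 0 392694 0) P.nil) P.nil)))))) 95013)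
 (EL.cons 8 (TM.mk (P.cons (P.cons (P.lf 0 651658317 0) (P.cons (P.lf 14643504 0 0) (P.cons (P.lf 350145 0 0) (P.lf 0 7038 0)))) (P.cons (P.cons (P.lf 412632285 0 0) (P.cons (P.lf 0 4812138 0) (P.cons (P.lf 0 115062 0) (P.lf 2310 0 0)))) (P.cons (P.cons (P.lf 0 42999714 0) (P.cons (P.lf 0 465777 0) (P.cons (P.lf 0 11136 0) (P.lf 222 0 0)))) (P.cons (P.cons (P.lf 0 12928482 0) (P.cons (P.lf 207273 0 0) (P.cons (P.lf 4953 0 0) P.nil))) (P.cons (P.cons (P.lf 1436157 0 0) (P.cons (P.lf 14295 0 0) P.nil)) (P.cons (P.cons (P.lf 268632 0 0) P.nil) P.nil)))))) 61221)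
 (EL.cons 11 (TM.mk (P.cons (P.cons (P.lf 0 756554886 0) (P.cons (P.lf 0 40713060 0) (P.cons (P.lf 1011087 0 0) (P.cons (P.lf 13071 0 0) (P.lf 0 195 0))))) (P.cons (P.cons (P.lf 1146498 0 0) (P.cons (P.lf 61695 0 0) (P.cons (P.lf 0 1530 0) (P.cons (P.lf 0 18 0) (P.lf 0 0 0))))) (P.cons (P.cons (P.lf 30142014 0 0) (P.cons (P.lf 1622052 0 0) (P.cons (P.lf 0 40281 0) (P.cons (P.lf 0 519 0) P.nil)))) (P.cons (P.cons (P.lf 1891443 0 0) (P.cons (P.lf 101784 0 0) (P.cons (P.lf 0 2526 0) P.nil))) (P.cons (P.cons (P.lf 0 275925 0) (P.cons (P.lf 0 14847 0) P.nil)) (P.cons (P.cons (P.lf 0 31059 0) P.nil) P.nil)))))) 5673)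
 EL.nil)))
noncomputable def S169_198_345_364_24 : EL := (EL.cons 4 (TM.mk (P.cons (P.cons (P.lf 557053659 0 0) (P.cons (P.lf 0 29441838 0) (P.cons (P.lf 0 323682 0) (P.cons (P.lf 32337 0 0) (P.cons (P.lf 0 147 0) (P.cons (P.lf 0 6 0) P.nil)))))) (P.cons (P.cons (P.lf 0 33431760 0) (P.cons (P.lf 0 597621 0) (P.cons (P.lf 46182 0 0) (P.cons (P.lf 3177 0 0) (P.cons (P.lf 0 21 0) P.nil))))) (P.cons (P.cons (P.lf 0 120567861 0) (P.cons (P.lf 4026642 0 0) (P.cons (P.lf 64371 0 0) (P.cons (P.lf 0 3459 0) P.nil)))) (P.cons (P.cons (P.lf 7407996 0 0) (P.cons (P.lf 284928 0 0) (P.cons (P.lf 0 633 0) P.nil))) (P.cons (P.cons (P.lf 6604614 0 0) (P.cons (P.lf 0 187188 0) P.nil)) (P.cons (P.cons (P.lf 0 117018 0) P.nil) P.nil)))))) 272931)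
 (EL.cons 8 (TM.mk (P.cons (P.cons (P.lf 0 233783781 0) (P.cons (P.lf 12356124 0 0) (P.cons (P.lf 135843 0 0) (P.cons (P.lf 0 13572 0) (P.cons (P.lf 60 0 0) (P.cons (P.lf 3 0 0) P.nil)))))) (P.cons (P.cons (P.lf 71207205 0 0) (P.cons (P.lf 0 2771130 0) (P.cons (P.lf 0 52602 0) (P.cons (P.lf 1983 0 0) (P.cons (P.lf 0 3 0) P.nil))))) (P.cons (P.cons (P.lf 43577970 0 0) (P.cons (P.lf 0 1561476 0) (P.cons (P.lf 0 20187 0) (P.cons (P.lf 1569 0 0) P.nil)))) (P.cons (P.cons (P.lf 0 14853855 0) (P.cons (P.lf 275643 0 0) (P.cons (P.lf 6333 0 0) P.nil))) (P.cons (P.cons (P.lf 0 1293750 0) (P.cons (P.lf 83229 0 0) P.nil)) (P.cons (P.cons (P.lf 594927 0 0) P.nil) P.nil)))))) 85314)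
 (EL.cons 11 (TM.mk (P.cons (P.cons (P.lf 0 271415643 0) (P.cons (P.lf 0 6359838 0) (P.cons (P.lf 1003653 0 0) (P.cons (P.lf 315 0 0) (P.cons (P.lf 0 687 0) (P.cons (P.lf 3 0 0) P.nil)))))) (P.cons (P.cons (P.lf 0 88780674 0) (P.cons (P.lf 0 2785872 0) (P.cons (P.lf 273456 0 0) (P.cons (P.lf 477 0 0) (P.cons (P.lf 0 171 0) P.nil))))) (P.cons (P.cons (P.lf 22974042 0 0) (P.cons (P.lf 939756 0 0) (P.cons (P.lf 0 53751 0) (P.cons (P.lf 0 237 0) P.nil)))) (P.cons (P.cons (P.lf 5853540 0 0) (P.cons (P.lf 186279 0 0) (P.cons (P.lf 0 17826 0) P.nil))) (P.cons (P.cons (P.lf 0 443478 0) (P.cons (P.lf 0 29307 0) P.nil)) (P.cons (P.cons (P.lf 0 157845 0) P.nil) P.nil)))))) 34755)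
 EL.nil)))
noncomputable def S169_198_345_364_25 : EL := (EL.cons 4 (TM.mk (P.cons (P.cons (P.lf 0 799350549 0) (P.cons (P.lf 17962314 0 0) (P.cons (P.lf 429498 0 0) (P.lf 0 8634 0)))) (P.cons (P.cons (P.lf 441389472 0 0) (P.cons (P.lf 0 4447491 0) (P.cons (P.lf 0 106344 0) (P.lf 2136 0 0)))) (P.cons (P.cons (P.lf 0 7621890 0) (P.cons (P.lf 0 1142061 0) (P.cons (P.lf 0 27306 0) (P.lf 546 0 0)))) (P.cons (P.cons (P.lf 0 22351998 0) (P.cons (P.lf 229683 0 0) (P.cons (P.lf 5490 0 0) P.nil))) (P.cons (P.cons (P.lf 503013 0 0) (P.cons (P.lf 43950 0 0) P.nil)) (P.cons (P.cons (P.lf 578529 0 0) P.nil) P.nil)))))) 80562)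
 (EL.cons 8 (TM.mk (P.cons (P.cons (P.lf 335470722 0 0) (P.cons (P.lf 0 7538409 0) (P.cons (P.lf 0 180252 0) (P.lf 3624 0 0)))) (P.cons (P.cons (P.lf 0 267288147 0) (P.cons (P.lf 3710190 0 0) (P.cons (P.lf 88713 0 0) (P.lf 0 1782 0)))) (P.cons (P.cons (P.lf 53655480 0 0) (P.cons (P.lf 0 92967 0) (P.cons (P.lf 0 2223 0) (P.lf 42 0 0)))) (P.cons (P.cons (P.lf 5158152 0 0) (P.cons (P.lf 0 171570 0) (P.cons (P.lf 0 4101 0) P.nil))) (P.cons (P.cons (P.lf 0 2077989 0) (P.cons (P.lf 8064 0 0) P.nil)) (P.cons (P.cons (P.lf 0 84963 0) P.nil) P.nil)))))) 68991)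
 (EL.cons 11 (TM.mk (P.cons (P.cons (P.lf 389470995 0 0) (P.cons (P.lf 20958897 0 0) (P.cons (P.lf 0 520503 0) (P.cons (P.lf 0 6729 0) (P.lf 99 0 0))))) (P.cons (P.cons (P.lf 0 64289004 0) (P.cons (P.lf 0 3459633 0) (P.cons (P.lf 85917 0 0) (P.cons (P.lf 1110 0 0) (P.lf 0 15 0))))) (P.cons (P.cons (P.lf 0 19161669 0) (P.cons (P.lf 0 1031160 0) (P.cons (P.lf 25605 0 0) (P.cons (P.lf 330 0 0) P.nil)))) (P.cons (P.cons (P.lf 1665603 0 0) (P.cons (P.lf 89631 0 0) (P.cons (P.lf 0 2226 0) P.nil))) (P.cons (P.cons (P.lf 467334 0 0) (P.cons (P.lf 25149 0 0) P.nil)) (P.cons (P.cons (P.lf 0 1455 0) P.nil) P.nil)))))) 9573)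
 EL.nil)))
noncomputable def S169_198_345_364_26 : EL := (EL.cons 4 (TM.mk (P.cons (P.cons (P.lf 0 286768677 0) (P.cons (P.lf 15156522 0 0) (P.cons (P.lf 166629 0 0) (P.cons (P.lf 0 16647 0) (P.cons (P.lf 75 0 0) (P.cons (P.lf 3 0 0) P.nil)))))) (P.cons (P.cons (P.lf 64112130 0 0) (P.cons (P.lf 0 2171226 0) (P.cons (P.lf 0 51024 0) (P.cons (P.lf 1086 0 0) (P.cons (P.lf 0 0 0) P.nil))))) (P.cons (P.cons (P.lf 62007645 0 0) (P.cons (P.lf 0 2268807 0) (P.cons (P.lf 0 30849 0) (P.cons (P.lf 2208 0 0) P.nil)))) (P.cons (P.cons (P.lf 0 14200782 0) (P.cons (P.lf 193116 0 0) (P.cons (P.lf 6015 0 0) P.nil))) (P.cons (P.cons (P.lf 0 3380898 0) (P.cons (P.lf 141006 0 0) P.nil)) (P.cons (P.cons (P.lf 668775 0 0) P.nil) P.nil)))))) 240534)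
 (EL.cons 8 (TM.mk (P.cons (P.cons (P.lf 120350820 0 0) (P.cons (P.lf 0 6360876 0) (P.cons (P.lf 0 69930 0) (P.cons (P.lf 6987 0 0) (P.cons (P.lf 0 30 0) (P.cons (P.lf 0 0 0) P.nil)))))) (P.cons (P.cons (P.lf 0 56340771 0) (P.cons (P.lf 2466900 0 0) (P.cons (P.lf 38517 0 0) (P.cons (P.lf 0 2163 0) (P.cons (P.lf 6 0 0) P.nil))))) (P.cons (P.cons (P.lf 0 17594469 0) (P.cons (P.lf 631623 0 0) (P.cons (P.lf 6636 0 0) (P.cons (P.lf 0 708 0) P.nil)))) (P.cons (P.cons (P.lf 11697513 0 0) (P.cons (P.lf 0 288636 0) (P.cons (P.lf 0 5235 0) P.nil))) (P.cons (P.cons (P.lf 0 372843 0) (P.cons (P.lf 0 27288 0) P.nil)) (P.cons (P.cons (P.lf 0 495693 0) P.nil) P.nil)))))) 92934)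
 (EL.cons 11 (TM.mk (P.cons (P.cons (P.lf 139723530 0 0) (P.cons (P.lf 3274014 0 0) (P.cons (P.lf 0 516675 0) (P.cons (P.lf 0 162 0) (P.cons (P.lf 354 0 0) (P.cons (P.lf 0 0 0) P.nil)))))) (P.cons (P.cons (P.lf 22851810 0 0) (P.cons (P.lf 898680 0 0) (P.cons (P.lf 0 56271 0) (P.cons (P.lf 0 219 0) (P.cons (P.lf 30 0 0) P.nil))))) (P.cons (P.cons (P.lf 0 20644071 0) (P.cons (P.lf 0 749790 0) (P.cons (P.lf 55659 0 0) (P.cons (P.lf 165 0 0) P.nil)))) (P.cons (P.cons (P.lf 0 1483713 0) (P.cons (P.lf 0 29742 0) (P.cons (P.lf 5874 0 0) P.nil))) (P.cons (P.cons (P.lf 852141 0 0) (P.cons (P.lf 35913 0 0) P.nil)) (P.cons (P.cons (P.lf 72063 0 0) P.nil) P.nil)))))) 40371)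
 EL.nil)))
noncomputable def S169_198_345_364_27 : EL := (EL.cons 13 (TM.mk (P.lf 0 4294967296 0) 0)
 EL.nil)
noncomputable def S169_198_345_364_28 : EL := (EL.cons 13 (TM.mk (P.cons (P.cons (P.lf 0 1540828478 0) (P.cons (P.lf 46812920 0 0) (P.cons (P.lf 1119352 0 0) (P.lf 0 22504 0)))) (P.cons (P.cons (P.lf 0 506343507 0) (P.cons (P.lf 11378112 0 0) (P.cons (P.lf 272064 0 0) (P.lf 0 5468 0)))) (P.cons (P.cons (P.lf 68268103 0 0) (P.cons (P.lf 198732 0 0) (P.cons (P.lf 4752 0 0) (P.lf 0 96 0)))) (P.cons (P.cons (P.lf 9308564 0 0) (P.cons (P.lf 0 160096 0) (P.cons (P.lf 0 3828 0) P.nil))) (P.cons (P.cons (P.lf 0 487585 0) (P.cons (P.lf 0 11848 0) P.nil)) (P.cons (P.cons (P.lf 0 107370 0) P.nil) P.nil)))))) 13489)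
 EL.nil)
noncomputable def S169_198_345_364_29 : EL := (EL.cons 13 (TM.mk (P.cons (P.cons (P.lf 0 552775431 0) (P.cons (P.lf 33588465 0 0) (P.cons (P.lf 292903 0 0) (P.cons (P.lf 0 40547 0) (P.cons (P.lf 198 0 0) (P.cons (P.lf 11 0 0) P.nil)))))) (P.cons (P.cons (P.lf 0 363303579 0) (P.cons (P.lf 19201607 0 0) (P.cons (P.lf 211101 0 0) (P.cons (P.lf 0 21090 0) (P.cons (P.lf 96 0 0) P.nil))))) (P.cons (P.cons (P.lf 0 10711344 0) (P.cons (P.lf 1337200 0 0) (P.cons (P.lf 0 2500 0) (P.cons (P.lf 0 2291 0) P.nil)))) (P.cons (P.cons (P.lf 22775498 0 0) (P.cons (P.lf 0 632636 0) (P.cons (P.lf 0 12690 0) P.nil))) (P.cons (P.cons (P.lf 759856 0 0) (P.cons (P.lf 0 91257 0) P.nil)) (P.cons (P.cons (P.lf 0 487920 0) P.nil) P.nil)))))) 100919)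
 EL.nil)
noncomputable def S169_198_345_364_30 : EL := (EL.cons 13 (TM.mk (P.cons (P.lf 2211029524 0 0) (P.cons (P.lf 0 361618480 0) (P.cons (P.lf 0 21238980 0) (P.cons (P.lf 543904 0 0) (P.cons (P.lf 97232 0 0) (P.cons (P.lf 1560 0 0) P.nil)))))) 512)
 EL.nil)
noncomputable def S169_198_345_364_31 : EL := (EL.cons 13 (TM.mk (P.cons (P.cons (P.lf 793211454 0 0) (P.cons (P.lf 0 24099077 0) (P.cons (P.lf 0 576237 0) (P.lf 11584 0 0)))) (P.cons (P.cons (P.lf 130931937 0 0) (P.cons (P.lf 0 1915945 0) (P.cons (P.lf 0 45812 0) (P.lf 920 0 0)))) (P.cons (P.cons (P.lf 0 85395664 0) (P.cons (P.lf 1087177 0 0) (P.cons (P.lf 25995 0 0) (P.lf 0 522 0)))) (P.cons (P.cons (P.lf 0 1352899 0) (P.cons (P.lf 149486 0 0) (P.cons (P.lf 3574 0 0) P.nil))) (P.cons (P.cons (P.lf 1471344 0 0) (P.cons (P.lf 0 8898 0) P.nil)) (P.cons (P.cons (P.lf 63629 0 0) P.nil) P.nil)))))) 26300)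
 EL.nil)
noncomputable def S169_198_345_364_32 : EL := (EL.cons 13 (TM.mk (P.cons (P.cons (P.lf 284566264 0 0) (P.cons (P.lf 0 17291188 0) (P.cons (P.lf 0 150785 0) (P.cons (P.lf 20873 0 0) (P.cons (P.lf 0 101 0) (P.cons (P.lf 0 5 0) P.nil)))))) (P.cons (P.cons (P.lf 140485616 0 0) (P.cons (P.lf 0 7056889 0) (P.cons (P.lf 0 84012 0) (P.cons (P.lf 7443 0 0) (P.cons (P.lf 0 32 0) P.nil))))) (P.cons (P.cons (P.lf 0 27808029 0) (P.cons (P.lf 1094409 0 0) (P.cons (P.lf 20509 0 0) (P.cons (P.lf 0 796 0) P.nil)))) (P.cons (P.cons (P.lf 0 14353138 0) (P.cons (P.lf 528964 0 0) (P.cons (P.lf 7329 0 0) P.nil))) (P.cons (P.cons (P.lf 1531985 0 0) (P.cons (P.lf 0 2866 0) P.nil)) (P.cons (P.cons (P.lf 437564 0 0) P.nil) P.nil)))))) 125868)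
 EL.nil)
noncomputable def S169_198_345_364_33 : EL := (EL.cons 14 (TM.mk (P.lf 8589934592 0 0) 0)
 EL.nil)
noncomputable def S169_198_345_364_34 : EL := (EL.cons 14 (TM.mk (P.cons (P.cons (P.lf 3081656956 0 0) (P.cons (P.lf 0 93625840 0) (P.cons (P.lf 0 2238704 0) (P.lf 45008 0 0)))) (P.cons (P.cons (P.lf 1012687014 0 0) (P.cons (P.lf 0 22756224 0) (P.cons (P.lf 0 544128 0) (P.lf 10936 0 0)))) (P.cons (P.cons (P.lf 0 136536206 0) (P.cons (P.lf 0 397464 0) (P.cons (P.lf 0 9504 0) (P.lf 192 0 0)))) (P.cons (P.cons (P.lf 0 18617128 0) (P.cons (P.lf 320192 0 0) (P.cons (P.lf 7656 0 0) P.nil))) (P.cons (P.cons (P.lf 975170 0 0) (P.cons (P.lf 23696 0 0) P.nil)) (P.cons (P.cons (P.lf 214740 0 0) P.nil) P.nil)))))) 26978)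
 EL.nil)
noncomputable def S169_198_345_364_35 : EL := (EL.cons 14 (TM.mk (P.cons (P.cons (P.lf 1105550862 0 0) (P.cons (P.lf 0 67176930 0) (P.cons (P.lf 0 585806 0) (P.cons (P.lf 81094 0 0) (P.cons (P.lf 0 396 0) (P.cons (P.lf 0 22 0) P.nil)))))) (P.cons (P.cons (P.lf 726607158 0 0) (P.cons (P.lf 0 38403214 0) (P.cons (P.lf 0 422202 0) (P.cons (P.lf 42180 0 0) (P.cons (P.lf 0 192 0) P.nil))))) (P.cons (P.cons (P.lf 21422688 0 0) (P.cons (P.lf 0 2674400 0) (P.cons (P.lf 5000 0 0) (P.cons (P.lf 4582 0 0) P.nil)))) (P.cons (P.cons (P.lf 0 45550996 0) (P.cons (P.lf 1265272 0 0) (P.cons (P.lf 25380 0 0) P.nil))) (P.cons (P.cons (P.lf 0 1519712 0) (P.cons (P.lf 182514 0 0) P.nil)) (P.cons (P.cons (P.lf 975840 0 0) P.nil) P.nil)))))) 201838)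
 EL.nil)
noncomputable def S169_198_345_364_36 : EL := (EL.cons 14 (TM.mk (P.cons (P.lf 0 4422059048 0) (P.cons (P.lf 723236960 0 0) (P.cons (P.lf 42477960 0 0) (P.cons (P.lf 0 1087808 0) (P.cons (P.lf 0 194464 0) (P.cons (P.lf 0 3120 0) P.nil)))))) 1024)
 EL.nil)
noncomputable def S169_198_345_364_37 : EL := (EL.cons 14 (TM.mk (P.cons (P.cons (P.lf 0 1586422908 0) (P.cons (P.lf 48198154 0 0) (P.cons (P.lf 1152474 0 0) (P.lf 0 23168 0)))) (P.cons (P.cons (P.lf 0 261863874 0) (P.cons (P.lf 3831890 0 0) (P.cons (P.lf 91624 0 0) (P.lf 0 1840 0)))) (P.cons (P.cons (P.lf 170791328 0 0) (P.cons (P.lf 0 2174354 0) (P.cons (P.lf 0 51990 0) (P.lf 1044 0 0)))) (P.cons (P.cons (P.lf 2705798 0 0) (P.cons (P.lf 0 298972 0) (P.cons (P.lf 0 7148 0) P.nil))) (P.cons (P.cons (P.lf 0 2942688 0) (P.cons (P.lf 17796 0 0) P.nil)) (P.cons (P.cons (P.lf 0 127258 0) P.nil) P.nil))))))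 52600)
 EL.nil)
noncomputable def S169_198_345_364_38 : EL := (EL.cons 14 (TM.mk (P.cons (P.cons (P.lf 0 569132528 0) (P.cons (P.lf 34582376 0 0) (P.cons (P.lf 301570 0 0) (P.cons (P.lf 0 41746 0) (P.cons (P.lf 202 0 0) (P.cons (P.lf 10 0 0) P.nil)))))) (P.cons (P.cons (P.lf 0 280971232 0) (P.cons (P.lf 14113778 0 0) (P.cons (P.lf 168024 0 0) (P.cons (P.lf 0 14886 0) (P.cons (P.lf 64 0 0) P.nil))))) (P.cons (P.cons (P.lf 55616058 0 0) (P.cons (P.lf 0 2188818 0) (P.cons (P.lf 0 41018 0) (P.cons (P.lf 1592 0 0) P.nil)))) (P.cons (P.cons (P.lf 28706276 0 0) (P.cons (P.lf 0 1057928 0) (P.cons (P.lf 0 14658 0) P.nil))) (P.cons (P.cons (P.lf 0 3063970 0) (P.cons (P.lf 5732 0 0) P.nil)) (P.cons (P.cons (P.lf 0 875128 0) P.nil) P.nil)))))) 251736)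
 EL.nil)
noncomputable def S169_198_345_364_39 : EL := (EL.cons 14 (TM.mk (P.cons (P.lf 2276455776 0 0) (P.cons (P.lf 0 744638158 0) (P.cons (P.lf 17158640 0 0) (P.cons (P.lf 8272934 0 0) (P.cons (P.lf 227096 0 0) (P.cons (P.lf 0 40292 0) P.nil)))))) 3922)
 EL.nil)
noncomputable def S169_198_345_364_40 : EL := (EL.cons 14 (TM.mk (P.cons (P.cons (P.lf 816683258 0 0) (P.cons (P.lf 0 24812188 0) (P.cons (P.lf 0 593288 0) (P.lf 11926 0 0)))) (P.cons (P.cons (P.lf 1236078 0 0) (P.cons (P.lf 2085444 0 0) (P.cons (P.lf 49864 0 0) (P.lf 0 1002 0)))) (P.cons (P.cons (P.lf 0 117815446 0) (P.cons (P.lf 1680320 0 0) (P.cons (P.lf 40178 0 0) (P.lf 0 806 0)))) (P.cons (P.cons (P.lf 11892950 0 0) (P.cons (P.lf 0 16316 0) (P.cons (P.lf 0 390 0) P.nil))) (P.cons (P.cons (P.lf 2656352 0 0) (P.cons (P.lf 0 46662 0) P.nil)) (P.cons (P.cons (P.lf 0 183992 0) P.nil) P.nil)))))) 67332)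
 EL.nil)
noncomputable def S169_198_345_364_41 : EL := (EL.cons 14 (TM.mk (P.cons (P.cons (P.lf 292986822 0 0) (P.cons (P.lf 0 17802848 0) (P.cons (P.lf 0 155246 0) (P.cons (P.lf 21490 0 0) (P.cons (P.lf 0 104 0) (P.cons (P.lf 0 4 0) P.nil)))))) (P.cons (P.cons (P.lf 96724100 0 0) (P.cons (P.lf 0 4354016 0) (P.cons (P.lf 0 61106 0) (P.cons (P.lf 4148 0 0) (P.cons (P.lf 0 16 0) P.nil))))) (P.cons (P.cons (P.lf 0 55101916 0) (P.cons (P.lf 2486128 0 0) (P.cons (P.lf 36754 0 0) (P.cons (P.lf 0 2280 0) P.nil)))) (P.cons (P.cons (P.lf 0 11412570 0) (P.cons (P.lf 425742 0 0) (P.cons (P.lf 4884 0 0) P.nil))) (P.cons (P.cons (P.lf 4317760 0 0) (P.cons (P.lf 0 105418 0) P.nil)) (P.cons (P.cons (P.lf 334016 0 0) P.nil) P.nil)))))) 241664)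
 EL.nil)
noncomputable def S169_198_345_364_42 : EL := (EL.cons 14 (TM.mk (P.cons (P.lf 0 1171909022 0) (P.cons (P.lf 575004478 0 0) (P.cons (P.lf 0 60271372 0) (P.cons (P.lf 0 6784766 0) (P.cons (P.lf 707252 0 0) (P.cons (P.lf 94630 0 0) P.nil)))))) 9404)
 EL.nil)
noncomputable def S169_198_345_364_43 : EL := (EL.cons 14 (TM.mk (P.cons (P.cons (P.lf 0 420424806 0) (P.cons (P.lf 12773200 0 0) (P.cons (P.lf 305422 0 0) (P.lf 0 6140 0)))) (P.cons (P.cons (P.lf 68125024 0 0) (P.cons (P.lf 0 3162660 0) (P.cons (P.lf 0 75622 0) (P.lf 1520 0 0)))) (P.cons (P.cons (P.lf 64793494 0 0) (P.cons (P.lf 0 812134 0) (P.cons (P.lf 0 19418 0) (P.lf 390 0 0)))) (P.cons (P.cons (P.lf 0 16139320 0) (P.cons (P.lf 163330 0 0) (P.cons (P.lf 3904 0 0) P.nil))) (P.cons (P.cons (P.lf 0 967394 0) (P.cons (P.lf 31254 0 0) P.nil)) (P.cons (P.cons (P.lf 391778 0 0) P.nil) P.nil)))))) 83928)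
 EL.nil)
noncomputable def S169_198_345_364_44 : EL := (EL.cons 14 (TM.mk (P.cons (P.cons (P.lf 0 150828276 0) (P.cons (P.lf 9164824 0 0) (P.cons (P.lf 79920 0 0) (P.cons (P.lf 0 11062 0) (P.cons (P.lf 54 0 0) (P.cons (P.lf 2 0 0) P.nil)))))) (P.cons (P.cons (P.lf 0 25124846 0) (P.cons (P.lf 742500 0 0) (P.cons (P.lf 18386 0 0) (P.cons (P.lf 0 326 0) (P.cons (P.lf 0 0 0) P.nil))))) (P.cons (P.cons (P.lf 37958828 0 0) (P.cons (P.lf 0 1734474 0) (P.cons (P.lf 0 24832 0) (P.cons (P.lf 1628 0 0) P.nil)))) (P.cons (P.cons (P.lf 1676990 0 0) (P.cons (P.lf 0 29124 0) (P.cons (P.lf 296 0 0) P.nil))) (P.cons (P.cons (P.lf 0 3475018 0) (P.cons (P.lf 103362 0 0) P.nil)) (P.cons (P.cons (P.lf 139832 0 0) P.nil) P.nil)))))) 213634)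
 EL.nil)
noncomputable def S169_198_345_364_45 : EL := (EL.cons 14 (TM.mk (P.cons (P.cons (P.lf 396618678 0 0) (P.cons (P.lf 0 36149794 0) (P.cons (P.lf 233906 0 0) (P.cons (P.lf 58776 0 0) (P.cons (P.lf 0 1224 0) (P.cons (P.lf 0 26 0) P.nil)))))) (P.cons (P.cons (P.lf 391007750 0 0) (P.cons (P.lf 0 32545312 0) (P.cons (P.lf 116610 0 0) (P.cons (P.lf 50324 0 0) (P.cons (P.lf 0 928 0) P.nil))))) (P.cons (P.cons (P.lf 75774184 0 0) (P.cons (P.lf 0 6628676 0) (P.cons (P.lf 42492 0 0) (P.cons (P.lf 10684 0 0) P.nil)))) (P.cons (P.cons (P.lf 0 27761378 0) (P.cons (P.lf 1341954 0 0) (P.cons (P.lf 20938 0 0) P.nil))) (P.cons (P.cons (P.lf 0 7705104 0) (P.cons (P.lf 499136 0 0) P.nil)) (P.cons (P.cons (P.lf 958646 0 0) P.nil) P.nil)))))) 501472)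
 EL.nil)
noncomputable def S169_198_345_364_46 : EL := (EL.cons 15 (TM.mk (P.lf 4294967296 0 0) 0)
 EL.nil)
noncomputable def S169_198_345_364_47 : EL := (EL.cons 15 (TM.mk (P.cons (P.cons (P.lf 1540828478 0 0) (P.cons (P.lf 0 46812920 0) (P.cons (P.lf 0 1119352 0) (P.lf 22504 0 0)))) (P.cons (P.cons (P.lf 506343507 0 0) (P.cons (P.lf 0 11378112 0) (P.cons (P.lf 0 272064 0) (P.lf 5468 0 0)))) (P.cons (P.cons (P.lf 0 68268103 0) (P.cons (P.lf 0 198732 0) (P.cons (P.lf 0 4752 0) (P.lf 96 0 0)))) (P.cons (P.cons (P.lf 0 9308564 0) (P.cons (P.lf 160096 0 0) (P.cons (P.lf 3828 0 0) P.nil))) (P.cons (P.cons (P.lf 487585 0 0) (P.cons (P.lf 11848 0 0) P.nil)) (P.cons (P.cons (P.lf 107370 0 0) P.nil) P.nil)))))) 13489)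
 EL.nil)
noncomputable def S169_198_345_364_48 : EL := (EL.cons 15 (TM.mk (P.cons (P.cons (P.lf 552775431 0 0) (P.cons (P.lf 0 33588465 0) (P.cons (P.lf 0 292903 0) (P.cons (P.lf 40547 0 0) (P.cons (P.lf 0 198 0) (P.cons (P.lf 0 11 0) P.nil)))))) (P.cons (P.cons (P.lf 363303579 0 0) (P.cons (P.lf 0 19201607 0) (P.cons (P.lf 0 211101 0) (P.cons (P.lf 21090 0 0) (P.cons (P.lf 0 96 0) P.nil))))) (P.cons (P.cons (P.lf 10711344 0 0) (P.cons (P.lf 0 1337200 0) (P.cons (P.lf 2500 0 0) (P.cons (P.lf 2291 0 0) P.nil)))) (P.cons (P.cons (P.lf 0 22775498 0) (P.cons (P.lf 632636 0 0) (P.cons (P.lf 12690 0 0) P.nil))) (P.cons (P.cons (P.lf 0 759856 0) (P.cons (P.lf 91257 0 0) P.nil)) (P.cons (P.cons (P.lf 487920 0 0) P.nil) P.nil)))))) 100919)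
 EL.nil)
noncomputable def S169_198_345_364 : SL := (SL.cons S169_198_345_364_0 (SL.cons S169_198_345_364_1 (SL.cons S169_198_345_364_2 (SL.cons S169_198_345_364_3 (SL.cons S169_198_345_364_4 (SL.cons S169_198_345_364_5 (SL.cons S169_198_345_364_6 (SL.cons S169_198_345_364_7 (SL.cons S169_198_345_364_8 (SL.cons S169_198_345_364_9 (SL.cons S169_198_345_364_10 (SL.cons S169_198_345_364_11 (SL.cons S169_198_345_364_12 (SL.cons S169_198_345_364_13 (SL.cons S169_198_345_364_14 (SL.cons S169_198_345_364_15 (SL.cons S169_198_345_364_16 (SL.cons S169_198_345_364_17 (SL.cons S169_198_345_364_18 (SL.cons S169_198_345_364_19 (SL.cons S169_198_345_364_20 (SL.cons S169_198_345_364_21 (SL.cons S169_198_345_364_22 (SL.cons S169_198_345_364_23 (SL.cons S169_198_345_364_24 (SL.cons S169_198_345_364_25 (SL.cons S169_198_345_364_26 (SL.cons S169_198_345_364_27 (SL.cons S169_198_345_364_28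 (SL.cons S169_198_345_364_29 (SL.cons S169_198_345_364_30 (SL.cons S169_198_345_364_31 (SL.cons S169_198_345_364_32 (SL.cons S169_198_345_364_33 (SL.cons S169_198_345_364_34 (SL.cons S169_198_345_364_35 (SL.cons S169_198_345_364_36 (SL.cons S169_198_345_364_37 (SL.cons S169_198_345_364_38 (SL.cons S169_198_345_364_39 (SL.cons S169_198_345_364_40 (SL.cons S169_198_345_364_41 (SL.cons S169_198_345_364_42 (SL.cons S169_198_345_364_43 (SL.cons S169_198_345_364_44 (SL.cons S169_198_345_364_45 (SL.cons S169_198_345_364_46 (SL.cons S169_198_345_364_47 (SL.cons S169_198_345_364_48 SL.nil)))))))))))))))))))))))))))))))))))))))))))))))))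
theorem S169_198_216_364_ok : band (seq (shp 5 169 198 216 364) S169_198_216_364) (sok S169_198_216_364) = true := by decide +kernel

theorem S169_198_290_308_ok : band (seq (shp 5 169 198 290 308) S169_198_290_308) (sok S169_198_290_308) = true := by decide +kernel

theorem S169_198_290_364_ok : band (seq (shp 5 169 198 290 364) S169_198_290_364) (sok S169_198_290_364) = true := by decide +kernel

theorem S169_198_308_327_ok : band (seq (shp 5 169 198 308 327) S169_198_308_327) (sok S169_198_308_327) = true := by decide +kernel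

theorem S169_198_327_345_ok : band (seq (shp 5 169 198 327 345) S169_198_327_345) (sok S169_198_327_345) = true := by decide +kernel

theorem S169_198_345_364_ok : band (seq (shp 5 169 198 345 364) S169_198_345_364) (sok S169_198_345_364) = true := by decide +kernel

end Vale.Agent.P098.Ck
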