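import Vale.Agent.P098.CkDefs

namespace Vale.Agent.P098.Ck

noncomputable def S198_212_586_660_0 : EL := (EL.cons 0 (TM.mk (P.cons (P.lf 7367797296 0 0) (P.cons (P.lf 270413532 0 0) (P.cons (P.lf 0 11357528 0) (P.cons (P.lf 0 846949 0) (P.cons (P.lf 7275 0 0) (P.cons (P.lf 1360 0 0) P.nil)))))) 123)
 (EL.cons 1 (TM.mk (P.cons (P.lf 0 1384003233 0) (P.cons (P.lf 134215061 0 0) (P.cons (P.lf 10263551 0 0) (P.cons (P.lf 0 214061 0) (P.cons (P.lf 0 21358 0) (P.cons (P.lf 0 5 0) P.nil)))))) 123)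
 (EL.cons 5 (TM.mk (P.cons (P.lf 4681783146 0 0) (P.cons (P.lf 0 96147034 0) (P.cons (P.lf 4038232 0 0) (P.cons (P.lf 301136 0 0) (P.cons (P.lf 0 2584 0) (P.cons (P.lf 0 484 0) P.nil)))))) 121)
 (EL.cons 9 (TM.mk (P.lf 6442450944 0 0) 2)
 EL.nil))))
noncomputable def S198_212_586_660_1 : EL := (EL.cons 0 (TM.mk (P.cons (P.cons (P.lf 283908645 0 0) (P.cons (P.lf 0 283692344 0) (P.cons (P.lf 15522509 0 0) (P.lf 1724727 0 0)))) (P.cons (P.cons (P.lf 130760393 0 0) (P.cons (P.lf 0 98007431 0) (P.cons (P.lf 5362566 0 0) (P.lf 595832 0 0)))) (P.cons (P.cons (P.lf 0 84601376 0) (P.cons (P.lf 0 2325423 0) (P.cons (P.lf 127233 0 0) (P.lf 14134 0 0)))) (P.cons (P.cons (P.lf 0 3346441 0) (P.cons (P.lf 767350 0 0) (P.cons (P.lf 0 41979 0) P.nil))) (P.cons (P.cons (P.lf 588068 0 0) (P.cons (P.lf 37216 0 0) P.nil)) (P.cons (P.cons (P.lf 30080 0 0) P.nil) P.nil)))))) 18734)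
 (EL.cons 1 (TM.mk (P.cons (P.cons (P.lf 382521370 0 0) (P.cons (P.lf 207645985 0 0) (P.cons (P.lf 0 11361550 0) (P.lf 0 1262386 0)))) (P.cons (P.cons (P.lf 220413913 0 0) (P.cons (P.lf 6430297 0 0) (P.cons (P.lf 0 351839 0) (P.lf 0 39094 0)))) (P.cons (P.cons (P.lf 16727823 0 0) (P.cons (P.lf 0 4738864 0) (P.cons (P.lf 259281 0 0) (P.lf 28797 0 0)))) (P.cons (P.cons (P.lf 0 3959726 0) (P.cons (P.lf 0 234824 0) (P.cons (P.lf 12837 0 0) P.nil))) (P.cons (P.cons (P.lf 0 220299 0) (P.cons (P.lf 23914 0 0) P.nil)) (P.cons (P.cons (P.lf 17872 0 0) P.nil) P.nil)))))) 10117)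
 (EL.cons 5 (TM.mk (P.cons (P.cons (P.lf 0 450901780 0) (P.cons (P.lf 0 403845156 0) (P.cons (P.lf 22096782 0 0) (P.lf 2455196 0 0)))) (P.cons (P.cons (P.lf 0 163230210 0) (P.cons (P.lf 0 6495222 0) (P.cons (P.lf 355396 0 0) (P.lf 39496 0 0)))) (P.cons (P.cons (P.lf 0 298770 0) (P.cons (P.lf 1998812 0 0) (P.cons (P.lf 0 109370 0) (P.lf 0 12148 0)))) (P.cons (P.cons (P.lf 1822404 0 0) (P.cons (P.lf 0 90804 0) (P.cons (P.lf 4962 0 0) P.nil))) (P.cons (P.cons (P.lf 0 90939 0) (P.cons (P.lf 0 12550 0) P.nil)) (P.cons (P.cons (P.lf 0 10247 0) P.nil) P.nil)))))) 10529)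
 (EL.cons 9 (TM.mk (P.cons (P.cons (P.lf 0 308785132 0) (P.cons (P.lf 0 445335474 0) (P.cons (P.lf 24366966 0 0) (P.lf 2707434 0 0)))) (P.cons (P.cons (P.lf 0 103003780 0) (P.cons (P.lf 0 36478500 0) (P.cons (P.lf 1995954 0 0) (P.lf 221772 0 0)))) (P.cons (P.cons (P.lf 0 26805222 0) (P.cons (P.lf 1034106 0 0) (P.cons (P.lf 0 56580 0) (P.lf 0 6282 0)))) (P.cons (P.cons (P.lf 558142 0 0) (P.cons (P.lf 160614 0 0) (P.cons (P.lf 0 8784 0) P.nil))) (P.cons (P.cons (P.lf 104241 0 0) (P.cons (P.lf 594 0 0) P.nil)) (P.cons (P.cons (P.lf 387 0 0) P.nil) P.nil)))))) 2549)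
 (EL.cons 2 (TM.mk (P.cons (P.cons (P.lf 788380759 0 0) (P.cons (P.lf 0 98922839 0) (P.cons (P.lf 0 15102956 0) (P.cons (P.lf 461390 0 0) (P.lf 38446 0 0))))) (P.cons (P.cons (P.lf 0 54927933 0) (P.cons (P.lf 6892135 0 0) (P.cons (P.lf 1052249 0 0) (P.cons (P.lf 0 32144 0) (P.lf 0 2677 0))))) (P.cons (P.cons (P.lf 0 9131999 0) (P.cons (P.lf 1145846 0 0) (P.cons (P.lf 174940 0 0) (P.cons (P.lf 0 5343 0) P.nil)))) (P.cons (P.cons (P.lf 43768 0 0) (P.cons (P.lf 0 5490 0) (P.cons (P.lf 0 838 0) P.nil))) (P.cons (P.cons (P.lf 28361 0 0) (P.cons (P.lf 0 3555 0) P.nil)) (P.cons (P.cons (P.lf 385 0 0) P.nil) P.nil)))))) 1759)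
 (EL.cons 6 (TM.mk (P.cons (P.cons (P.lf 1002943191 0 0) (P.cons (P.lf 0 125845269 0) (P.cons (P.lf 0 19213314 0) (P.cons (P.lf 586962 0 0) (P.lf 48912 0 0))))) (P.cons (P.cons (P.lf 82153497 0 0) (P.cons (P.lf 0 10308288 0) (P.cons (P.lf 0 1573806 0) (P.cons (P.lf 48078 0 0) (P.lf 4005 0 0))))) (P.cons (P.cons (P.lf 0 2328927 0) (P.cons (P.lf 292224 0 0) (P.cons (P.lf 44613 0 0) (P.cons (P.lf 0 1362 0) P.nil)))) (P.cons (P.cons (P.lf 0 361728 0) (P.cons (P.lf 45387 0 0) (P.cons (P.lf 6927 0 0) P.nil))) (P.cons (P.cons (P.lf 0 1344 0) (P.cons (P.lf 168 0 0) P.nil)) (P.cons (P.cons (P.lf 768 0 0) P.nil) P.nil)))))) 1098)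
 EL.nil))))))
noncomputable def S198_212_586_660_2 : EL := (EL.cons 0 (TM.mk (P.cons (P.cons (P.lf 0 44141105 0) (P.cons (P.lf 0 60877117 0) (P.cons (P.lf 7346057 0 0) (P.cons (P.lf 0 69285 0) (P.cons (P.lf 0 36803 0) (P.cons (P.lf 2676 0 0) P.nil)))))) (P.cons (P.cons (P.lf 0 33526365 0) (P.cons (P.lf 0 24902893 0) (P.cons (P.lf 11065150 0 0) (P.cons (P.lf 0 910362 0) (P.cons (P.lf 0 88922 0) P.nil))))) (P.cons (P.cons (P.lf 0 3644296 0) (P.cons (P.lf 9896128 0 0) (P.cons (P.lf 568681 0 0) (P.cons (P.lf 0 181642 0) P.nil)))) (P.cons (P.cons (P.lf 910446 0 0) (P.cons (P.lf 1877090 0 0) (P.cons (P.lf 0 178998 0) P.nil))) (P.cons (P.cons (P.lf 665753 0 0) (P.cons (P.lf 0 56187 0) P.nil)) (P.cons (P.cons (P.lf 3370 0 0) P.nil) P.nil)))))) 133851)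
 (EL.cons 1 (TM.mk (P.cons (P.cons (P.lf 0 33488891 0) (P.cons (P.lf 0 63617720 0) (P.cons (P.lf 0 18613048 0) (P.cons (P.lf 2804548 0 0) (P.cons (P.lf 202490 0 0) (P.cons (P.lf 0 14695 0) P.nil)))))) (P.cons (P.cons (P.lf 0 31547655 0) (P.cons (P.lf 0 39139300 0) (P.cons (P.lf 0 656830 0) (P.cons (P.lf 544167 0 0) (P.cons (P.lf 25638 0 0) P.nil))))) (P.cons (P.cons (P.lf 0 11158225 0) (P.cons (P.lf 0 5577273 0) (P.cons (P.lf 813703 0 0) (P.cons (P.lf 0 21737 0) P.nil)))) (P.cons (P.cons (P.lf 0 1853634 0) (P.cons (P.lf 516290 0 0) (P.cons (P.lf 54667 0 0) P.nil))) (P.cons (P.cons (P.lf 54002 0 0) (P.cons (P.lf 126208 0 0) P.nil)) (P.cons (P.cons (P.lf 43776 0 0) P.nil) P.nil)))))) 67493)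
 (EL.cons 5 (TM.mk (P.cons (P.cons (P.lf 32467939 0 0) (P.cons (P.lf 70026788 0 0) (P.cons (P.lf 29629228 0 0) (P.cons (P.lf 0 4087403 0) (P.cons (P.lf 0 306663 0) (P.cons (P.lf 22251 0 0) P.nil)))))) (P.cons (P.cons (P.lf 23110898 0 0) (P.cons (P.lf 28956421 0 0) (P.cons (P.lf 681414 0 0) (P.cons (P.lf 0 424001 0) (P.cons (P.lf 0 20777 0) P.nil))))) (P.cons (P.cons (P.lf 6074327 0 0) (P.cons (P.lf 1890971 0 0) (P.cons (P.lf 0 426128 0) (P.cons (P.lf 23798 0 0) P.nil)))) (P.cons (P.cons (P.lf 587065 0 0) (P.cons (P.lf 0 465760 0) (P.cons (P.lf 14168 0 0) P.nil))) (P.cons (P.cons (P.lf 0 141852 0) (P.cons (P.lf 0 19170 0) P.nil)) (P.cons (P.cons (P.lf 0 10278 0) P.nil) P.nil)))))) 73748)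
 (EL.cons 9 (TM.mk (P.cons (P.cons (P.lf 14799997 0 0) (P.cons (P.lf 42689644 0 0) (P.cons (P.lf 28448080 0 0) (P.cons (P.lf 0 3628273 0) (P.cons (P.lf 0 282141 0) (P.cons (P.lf 20479 0 0) P.nil)))))) (P.cons (P.cons (P.lf 9873892 0 0) (P.cons (P.lf 17737117 0 0) (P.cons (P.lf 4072660 0 0) (P.cons (P.lf 0 659715 0) (P.cons (P.lf 0 46221 0) P.nil))))) (P.cons (P.cons (P.lf 4216389 0 0) (P.cons (P.lf 4773159 0 0) (P.cons (P.lf 0 197584 0) (P.cons (P.lf 0 35976 0) P.nil)))) (P.cons (P.cons (P.lf 803635 0 0) (P.cons (P.lf 177925 0 0) (P.cons (P.lf 0 43650 0) P.nil))) (P.cons (P.cons (P.lf 83688 0 0) (P.cons (P.lf 0 34530 0) P.nil)) (P.cons (P.cons (P.lf 0 8014 0) P.nil) P.nil)))))) 26044)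
 (EL.cons 2 (TM.mk (P.cons (P.cons (P.lf 0 75573798 0) (P.cons (P.lf 0 99511200 0) (P.cons (P.lf 21087579 0 0) (P.cons (P.lf 1958085 0 0) (P.cons (P.lf 0 264858 0) (P.cons (P.lf 0 14518 0) P.nil)))))) (P.cons (P.cons (P.lf 0 19944354 0) (P.cons (P.lf 1168385 0 0) (P.cons (P.lf 622473 0 0) (P.cons (P.lf 12836 0 0) (P.cons (P.lf 0 4168 0) P.nil))))) (P.cons (P.cons (P.lf 0 3928657 0) (P.cons (P.lf 2630570 0 0) (P.cons (P.lf 0 309915 0) (P.cons (P.lf 0 41563 0) P.nil)))) (P.cons (P.cons (P.lf 881493 0 0) (P.cons (P.lf 8431 0 0) (P.cons (P.lf 0 38334 0) P.nil))) (P.cons (P.cons (P.lf 87862 0 0) (P.cons (P.lf 0 20964 0) P.nil)) (P.cons (P.cons (P.lf 0 4567 0) P.nil) P.nil)))))) 22960)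
 (EL.cons 6 (TM.mk (P.cons (P.cons (P.lf 0 96141648 0) (P.cons (P.lf 0 126593754 0) (P.cons (P.lf 26826690 0 0) (P.cons (P.lf 2490990 0 0) (P.cons (P.lf 0 336942 0) (P.cons (P.lf 0 18468 0) P.nil)))))) (P.cons (P.cons (P.lf 0 39945888 0) (P.cons (P.lf 0 17703240 0) (P.cons (P.lf 4858386 0 0) (P.cons (P.lf 393924 0 0) (P.cons (P.lf 0 56376 0) P.nil))))) (P.cons (P.cons (P.lf 0 10749660 0) (P.cons (P.lf 1062426 0 0) (P.cons (P.lf 257532 0 0) (P.cons (P.lf 0 1026 0) P.nil)))) (P.cons (P.cons (P.lf 0 400704 0) (P.cons (P.lf 203040 0 0) (P.cons (P.lf 0 19848 0) P.nil))) (P.cons (P.cons (P.lf 77760 0 0) (P.cons (P.lf 0 1938 0) P.nil)) (P.cons (P.cons (P.lf 5352 0 0) P.nil) P.nil)))))) 22800)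
 EL.nil))))))
noncomputable def S198_212_586_660_3 : EL := (EL.cons 0 (TM.mk (P.cons (P.lf 1087919567 0 0) (P.cons (P.lf 0 270413532 0) (P.cons (P.lf 11357528 0 0) (P.cons (P.lf 846949 0 0) (P.cons (P.lf 0 7275 0) (P.cons (P.lf 0 1360 0) P.nil)))))) 123)
 (EL.cons 1 (TM.mk (P.cons (P.lf 1384003233 0 0) (P.cons (P.lf 0 134215061 0) (P.cons (P.lf 0 10263551 0) (P.cons (P.lf 214061 0 0) (P.cons (P.lf 21358 0 0) (P.cons (P.lf 5 0 0) P.nil)))))) 123)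
 (EL.cons 5 (TM.mk (P.cons (P.lf 1760667798 0 0) (P.cons (P.lf 96147034 0 0) (P.cons (P.lf 0 4038232 0) (P.cons (P.lf 0 301136 0) (P.cons (P.lf 2584 0 0) (P.cons (P.lf 484 0 0) P.nil)))))) 114)
 EL.nil)))
noncomputable def S198_212_586_660_4 : EL := (EL.cons 0 (TM.mk (P.cons (P.cons (P.lf 0 52143723 0) (P.cons (P.lf 0 75202616 0) (P.cons (P.lf 4114784 0 0) (P.lf 457196 0 0)))) (P.cons (P.cons (P.lf 0 4433116 0) (P.cons (P.lf 12532350 0 0) (P.cons (P.lf 0 685719 0) (P.lf 0 76190 0)))) (P.cons (P.cons (P.lf 0 747439 0) (P.cons (P.lf 920671 0 0) (P.cons (P.lf 0 50373 0) (P.lf 0 5595 0)))) (P.cons (P.cons (P.lf 997184 0 0) (P.cons (P.lf 0 139136 0) (P.cons (P.lf 7613 0 0) P.nil))) (P.cons (P.cons (P.lf 0 66271 0) (P.cons (P.lf 0 9110 0) P.nil)) (P.cons (P.cons (P.lf 0 6667 0) P.nil) P.nil)))))) 3409)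
 (EL.cons 1 (TM.mk (P.cons (P.cons (P.lf 0 66334942 0) (P.cons (P.lf 0 95669448 0) (P.cons (P.lf 5234645 0 0) (P.lf 581625 0 0)))) (P.cons (P.cons (P.lf 0 15694950 0) (P.cons (P.lf 1441121 0 0) (P.cons (P.lf 0 78851 0) (P.lf 0 8760 0)))) (P.cons (P.cons (P.lf 0 3120646 0) (P.cons (P.lf 1691574 0 0) (P.cons (P.lf 0 92553 0) (P.lf 0 10280 0)))) (P.cons (P.cons (P.lf 832170 0 0) (P.cons (P.lf 56276 0 0) (P.cons (P.lf 0 3076 0) P.nil))) (P.cons (P.cons (P.lf 49021 0 0) (P.cons (P.lf 0 7552 0) P.nil)) (P.cons (P.cons (P.lf 0 4209 0) P.nil) P.nil)))))) 2576)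
 (EL.cons 5 (TM.mk (P.cons (P.cons (P.lf 0 84388386 0) (P.cons (P.lf 0 121706448 0) (P.cons (P.lf 6659286 0 0) (P.lf 739918 0 0)))) (P.cons (P.cons (P.lf 0 32758372 0) (P.cons (P.lf 0 16615446 0) (P.cons (P.lf 909128 0 0) (P.lf 101012 0 0)))) (P.cons (P.cons (P.lf 0 8669316 0) (P.cons (P.lf 17350 0 0) (P.cons (P.lf 0 946 0) (P.lf 0 104 0)))) (P.cons (P.cons (P.lf 0 168506 0) (P.cons (P.lf 103008 0 0) (P.cons (P.lf 0 5634 0) P.nil))) (P.cons (P.cons (P.lf 58308 0 0) (P.cons (P.lf 3436 0 0) P.nil)) (P.cons (P.cons (P.lf 2498 0 0) P.nil) P.nil)))))) 1920)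
 EL.nil)))
noncomputable def S198_212_586_660_5 : EL := (EL.cons 0 (TM.mk (P.cons (P.cons (P.lf 2499234 0 0) (P.cons (P.lf 7208885 0 0) (P.cons (P.lf 4803950 0 0) (P.cons (P.lf 0 612696 0) (P.cons (P.lf 0 47643 0) (P.cons (P.lf 3457 0 0) P.nil)))))) (P.cons (P.cons (P.lf 1046165 0 0) (P.cons (P.lf 1203377 0 0) (P.cons (P.lf 0 506330 0) (P.cons (P.lf 40886 0 0) (P.cons (P.lf 4035 0 0) P.nil))))) (P.cons (P.cons (P.lf 323657 0 0) (P.cons (P.lf 136796 0 0) (P.cons (P.lf 0 154158 0) (P.cons (P.lf 15219 0 0) P.nil)))) (P.cons (P.cons (P.lf 0 21916 0) (P.cons (P.lf 0 133419 0) (P.cons (P.lf 11840 0 0) P.nil))) (P.cons (P.cons (P.lf 0 10884 0) (P.cons (P.lf 0 2599 0) P.nil)) (P.cons (P.cons (P.lf 0 2909 0) P.nil) P.nil)))))) 18382)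
 (EL.cons 1 (TM.mk (P.cons (P.cons (P.lf 3179416 0 0) (P.cons (P.lf 9170825 0 0) (P.cons (P.lf 6111375 0 0) (P.cons (P.lf 0 779445 0) (P.cons (P.lf 0 60609 0) (P.cons (P.lf 4398 0 0) P.nil)))))) (P.cons (P.cons (P.lf 1812836 0 0) (P.cons (P.lf 2921034 0 0) (P.cons (P.lf 282253 0 0) (P.cons (P.lf 0 66135 0) (P.cons (P.lf 0 4050 0) P.nil))))) (P.cons (P.cons (P.lf 676507 0 0) (P.cons (P.lf 587870 0 0) (P.cons (P.lf 0 172610 0) (P.cons (P.lf 11793 0 0) P.nil)))) (P.cons (P.cons (P.lf 69562 0 0) (P.cons (P.lf 0 88053 0) (P.cons (P.lf 0 10801 0) P.nil))) (P.cons (P.cons (P.lf 0 5101 0) (P.cons (P.lf 0 17996 0) P.nil)) (P.cons (P.cons (P.lf 0 4571 0) P.nil) P.nil)))))) 14843)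
 (EL.cons 5 (TM.mk (P.cons (P.cons (P.lf 4044714 0 0) (P.cons (P.lf 11666720 0 0) (P.cons (P.lf 7774620 0 0) (P.cons (P.lf 0 991574 0) (P.cons (P.lf 0 77106 0) (P.cons (P.lf 5596 0 0) P.nil)))))) (P.cons (P.cons (P.lf 2919326 0 0) (P.cons (P.lf 5484504 0 0) (P.cons (P.lf 1537582 0 0) (P.cons (P.lf 0 234442 0) (P.cons (P.lf 0 16840 0) P.nil))))) (P.cons (P.cons (P.lf 1290382 0 0) (P.cons (P.lf 1542412 0 0) (P.cons (P.lf 0 11048 0) (P.cons (P.lf 0 17402 0) P.nil)))) (P.cons (P.cons (P.lf 275670 0 0) (P.cons (P.lf 106746 0 0) (P.cons (P.lf 0 18758 0) P.nil))) (P.cons (P.cons (P.lf 31764 0 0) (P.cons (P.lf 0 10584 0) P.nil)) (P.cons (P.cons (P.lf 0 1636 0) P.nil) P.nil)))))) 12544)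
 EL.nil)))
noncomputable def S198_212_586_660_6 : EL := (EL.cons 12 (TM.mk (P.lf 8589934592 0 0) 0)
 (EL.cons 3 (TM.mk (P.cons (P.lf 0 1528492552 0) (P.cons (P.lf 189961226 0 0) (P.cons (P.lf 3825716 0 0) (P.cons (P.lf 0 119508 0) (P.cons (P.lf 0 4953 0) (P.cons (P.lf 41 0 0) P.nil)))))) 52)
 (EL.cons 7 (TM.mk (P.cons (P.lf 0 1944480730 0) (P.cons (P.lf 0 53092371 0) (P.cons (P.lf 2954732 0 0) (P.cons (P.lf 85611 0 0) (P.cons (P.lf 0 1520 0) (P.cons (P.lf 0 96 0) P.nil)))))) 47)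
 EL.nil)))
noncomputable def S198_212_586_660_7 : EL := (EL.cons 12 (TM.mk (P.cons (P.cons (P.lf 0 411713510 0) (P.cons (P.lf 0 593780632 0) (P.cons (P.lf 32489288 0 0) (P.lf 3609912 0 0)))) (P.cons (P.cons (P.lf 0 137338374 0) (P.cons (P.lf 0 48638000 0) (P.cons (P.lf 2661272 0 0) (P.lf 295696 0 0)))) (P.cons (P.cons (P.lf 0 35740296 0) (P.cons (P.lf 1378808 0 0) (P.cons (P.lf 0 75440 0) (P.lf 0 8376 0)))) (P.cons (P.cons (P.lf 744190 0 0) (P.cons (P.lf 214152 0 0) (P.cons (P.lf 0 11712 0) P.nil))) (P.cons (P.cons (P.lf 138988 0 0) (P.cons (P.lf 792 0 0) P.nil)) (P.cons (P.cons (P.lf 516 0 0) P.nil) P.nil)))))) 3374)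
 (EL.cons 3 (TM.mk (P.cons (P.cons (P.lf 0 821768355 0) (P.cons (P.lf 0 211314594 0) (P.cons (P.lf 11562282 0 0) (P.lf 1284692 0 0)))) (P.cons (P.cons (P.lf 0 463328027 0) (P.cons (P.lf 8952912 0 0) (P.cons (P.lf 0 489868 0) (P.lf 0 54428 0)))) (P.cons (P.cons (P.lf 11893834 0 0) (P.cons (P.lf 3170794 0 0) (P.cons (P.lf 0 173490 0) (P.lf 0 19272 0)))) (P.cons (P.cons (P.lf 3311586 0 0) (P.cons (P.lf 42030 0 0) (P.cons (P.lf 0 2296 0) P.nil))) (P.cons (P.cons (P.lf 32449 0 0) (P.cons (P.lf 0 12454 0) P.nil)) (P.cons (P.cons (P.lf 0 9950 0) P.nil) P.nil)))))) 7202)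
 (EL.cons 7 (TM.mk (P.cons (P.cons (P.lf 343350556 0 0) (P.cons (P.lf 223003208 0 0) (P.cons (P.lf 0 12201839 0) (P.lf 0 1355762 0)))) (P.cons (P.cons (P.lf 129495817 0 0) (P.cons (P.lf 0 2502250 0) (P.cons (P.lf 136910 0 0) (P.lf 15210 0 0)))) (P.cons (P.cons (P.lf 0 13138976 0) (P.cons (P.lf 0 696559 0) (P.cons (P.lf 38116 0 0) (P.lf 4238 0 0)))) (P.cons (P.cons (P.lf 0 453418 0) (P.cons (P.lf 75177 0 0) (P.cons (P.lf 0 4110 0) P.nil))) (P.cons (P.cons (P.lf 84614 0 0) (P.cons (P.lf 3536 0 0) P.nil)) (P.cons (P.cons (P.lf 2535 0 0) P.nil) P.nil)))))) 6370)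
 (EL.cons 10 (TM.mk (P.cons (P.cons (P.lf 0 2215300023 0) (P.cons (P.lf 277966920 0 0) (P.cons (P.lf 42438357 0 0) (P.cons (P.lf 0 1296486 0) (P.lf 0 108039 0))))) (P.cons (P.cons (P.lf 0 120973716 0) (P.cons (P.lf 15179292 0 0) (P.cons (P.lf 2317485 0 0) (P.cons (P.lf 0 70797 0) (P.lf 0 5898 0))))) (P.cons (P.cons (P.lf 5080965 0 0) (P.cons (P.lf 0 637539 0) (P.cons (P.lf 0 97335 0) (P.cons (P.lf 2973 0 0) P.nil)))) (P.cons (P.cons (P.lf 378894 0 0) (P.cons (P.lf 0 47541 0) (P.cons (P.lf 0 7257 0) P.nil))) (P.cons (P.cons (P.lf 0 3249 0) (P.cons (P.lf 405 0 0) P.nil)) (P.cons (P.cons (P.lf 0 606 0) P.nil) P.nil)))))) 912)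
 EL.nil))))
noncomputable def S198_212_586_660_8 : EL := (EL.cons 12 (TM.mk (P.cons (P.cons (P.lf 19733330 0 0) (P.cons (P.lf 56919526 0 0) (P.cons (P.lf 37930774 0 0) (P.cons (P.lf 0 4837698 0) (P.cons (P.lf 0 376188 0) (P.cons (P.lf 27306 0 0) P.nil)))))) (P.cons (P.cons (P.lf 13165190 0 0) (P.cons (P.lf 23649490 0 0) (P.cons (P.lf 5430214 0 0) (P.cons (P.lf 0 879620 0) (P.cons (P.lf 0 61628 0) P.nil))))) (P.cons (P.cons (P.lf 5621852 0 0) (P.cons (P.lf 6364212 0 0) (P.cons (P.lf 0 263446 0) (P.cons (P.lf 0 47968 0) P.nil)))) (P.cons (P.cons (P.lf 1071514 0 0) (P.cons (P.lf 237234 0 0) (P.cons (P.lf 0 58200 0) P.nil))) (P.cons (P.cons (P.lf 111584 0 0) (P.cons (P.lf 0 46040 0) P.nil)) (P.cons (P.cons (P.lf 0 10686 0) P.nil) P.nil)))))) 34696)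
 (EL.cons 3 (TM.mk (P.cons (P.cons (P.lf 82285665 0 0) (P.cons (P.lf 143994518 0 0) (P.cons (P.lf 28639086 0 0) (P.cons (P.lf 0 4871641 0) (P.cons (P.lf 0 334690 0) (P.cons (P.lf 24296 0 0) P.nil)))))) (P.cons (P.cons (P.lf 72597968 0 0) (P.cons (P.lf 82209639 0 0) (P.cons (P.lf 0 3054085 0) (P.cons (P.lf 0 657822 0) (P.cons (P.lf 0 13236 0) P.nil))))) (P.cons (P.cons (P.lf 21214223 0 0) (P.cons (P.lf 5091088 0 0) (P.cons (P.lf 0 1038051 0) (P.cons (P.lf 52156 0 0) P.nil)))) (P.cons (P.cons (P.lf 3076145 0 0) (P.cons (P.lf 0 1107038 0) (P.cons (P.lf 0 1152 0) P.nil))) (P.cons (P.cons (P.lf 0 321001 0) (P.cons (P.lf 0 109154 0) P.nil)) (P.cons (P.cons (P.lf 0 45431 0) P.nil) P.nil)))))) 79135)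
 (EL.cons 7 (TM.mk (P.cons (P.cons (P.lf 0 28446437 0) (P.cons (P.lf 0 55960582 0) (P.cons (P.lf 0 18477036 0) (P.cons (P.lf 2697264 0 0) (P.cons (P.lf 197404 0 0) (P.cons (P.lf 0 14329 0) P.nil)))))) (P.cons (P.cons (P.lf 0 20290444 0) (P.cons (P.lf 0 22976818 0) (P.cons (P.lf 853584 0 0) (P.cons (P.lf 183861 0 0) (P.cons (P.lf 3699 0 0) P.nil))))) (P.cons (P.cons (P.lf 0 4391316 0) (P.cons (P.lf 318546 0 0) (P.cons (P.lf 225425 0 0) (P.cons (P.lf 0 28509 0) P.nil)))) (P.cons (P.cons (P.lf 0 281913 0) (P.cons (P.lf 429031 0 0) (P.cons (P.lf 0 28096 0) P.nil))) (P.cons (P.cons (P.lf 179088 0 0) (P.cons (P.lf 0 5790 0) P.nil)) (P.cons (P.cons (P.lf 633 0 0) P.nil) P.nil)))))) 42600)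
 (EL.cons 10 (TM.mk (P.cons (P.cons (P.lf 212357598 0 0) (P.cons (P.lf 279620172 0 0) (P.cons (P.lf 0 59254776 0) (P.cons (P.lf 0 5502108 0) (P.cons (P.lf 744246 0 0) (P.cons (P.lf 40794 0 0) P.nil)))))) (P.cons (P.cons (P.lf 82434204 0 0) (P.cons (P.lf 31468122 0 0) (P.cons (P.lf 0 9113304 0) (P.cons (P.lf 0 719874 0) (P.cons (P.lf 104208 0 0) P.nil))))) (P.cons (P.cons (P.lf 21815742 0 0) (P.cons (P.lf 0 2781012 0) (P.cons (P.lf 0 410052 0) (P.cons (P.lf 13566 0 0) P.nil)))) (P.cons (P.cons (P.lf 424032 0 0) (P.cons (P.lf 0 312420 0) (P.cons (P.lf 38580 0 0) P.nil))) (P.cons (P.cons (P.lf 0 146730 0) (P.cons (P.lf 9756 0 0) P.nil)) (P.cons (P.cons (P.lf 0 6288 0) P.nil) P.nil)))))) 38244)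
 EL.nil))))
noncomputable def S198_212_586_660_9 : EL := (EL.cons 3 (TM.mk (P.cons (P.lf 0 1528492552 0) (P.cons (P.lf 189961226 0 0) (P.cons (P.lf 3825716 0 0) (P.cons (P.lf 0 119508 0) (P.cons (P.lf 0 4953 0) (P.cons (P.lf 41 0 0) P.nil)))))) 52)
 (EL.cons 7 (TM.mk (P.cons (P.lf 0 1944480730 0) (P.cons (P.lf 0 53092371 0) (P.cons (P.lf 2954732 0 0) (P.cons (P.lf 85611 0 0) (P.cons (P.lf 0 1520 0) (P.cons (P.lf 0 96 0) P.nil)))))) 47)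
 EL.nil))
noncomputable def S198_212_586_660_10 : EL := (EL.cons 3 (TM.mk (P.cons (P.cons (P.lf 73260282 0 0) (P.cons (P.lf 105657297 0 0) (P.cons (P.lf 0 5781141 0) (P.lf 0 642346 0)))) (P.cons (P.cons (P.lf 15333187 0 0) (P.cons (P.lf 0 4476456 0) (P.cons (P.lf 244934 0 0) (P.lf 27214 0 0)))) (P.cons (P.cons (P.lf 3139105 0 0) (P.cons (P.lf 0 1585397 0) (P.cons (P.lf 86745 0 0) (P.lf 9636 0 0)))) (P.cons (P.cons (P.lf 0 978234 0) (P.cons (P.lf 0 21015 0) (P.cons (P.lf 1148 0 0) P.nil))) (P.cons (P.cons (P.lf 0 22043 0) (P.cons (P.lf 6227 0 0) P.nil)) (P.cons (P.cons (P.lf 3886 0 0) P.nil) P.nil)))))) 1729)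
 (EL.cons 7 (TM.mk (P.cons (P.cons (P.lf 93198496 0 0) (P.cons (P.lf 134412548 0 0) (P.cons (P.lf 0 7354514 0) (P.lf 0 817166 0)))) (P.cons (P.cons (P.lf 33633628 0 0) (P.cons (P.lf 14680073 0 0) (P.cons (P.lf 0 803233 0) (P.lf 0 89247 0)))) (P.cons (P.cons (P.lf 8797672 0 0) (P.cons (P.lf 0 215743 0) (P.cons (P.lf 11803 0 0) (P.lf 1310 0 0)))) (P.cons (P.cons (P.lf 1097 0 0) (P.cons (P.lf 0 79647 0) (P.cons (P.lf 4356 0 0) P.nil))) (P.cons (P.cons (P.lf 0 49651 0) (P.cons (P.lf 0 1408 0) P.nil)) (P.cons (P.cons (P.lf 0 1047 0) P.nil) P.nil)))))) 1323)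
 EL.nil))
noncomputable def S198_212_586_660_11 : EL := (EL.cons 3 (TM.mk (P.cons (P.cons (P.lf 0 3511347 0) (P.cons (P.lf 0 10128256 0) (P.cons (P.lf 0 6749400 0) (P.cons (P.lf 860819 0 0) (P.cons (P.lf 66938 0 0) (P.cons (P.lf 0 4858 0) P.nil)))))) (P.cons (P.cons (P.lf 0 1906222 0) (P.cons (P.lf 0 2949447 0) (P.cons (P.lf 0 127435 0) (P.cons (P.lf 49536 0 0) (P.cons (P.lf 2646 0 0) P.nil))))) (P.cons (P.cons (P.lf 0 700423 0) (P.cons (P.lf 0 584102 0) (P.cons (P.lf 183855 0 0) (P.cons (P.lf 0 13070 0) P.nil)))) (P.cons (P.cons (P.lf 0 60751 0) (P.cons (P.lf 108268 0 0) (P.cons (P.lf 6420 0 0) P.nil))) (P.cons (P.cons (P.lf 6149 0 0) (P.cons (P.lf 15910 0 0) P.nil)) (P.cons (P.cons (P.lf 4759 0 0) P.nil) P.nil)))))) 13839)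
 (EL.cons 7 (TM.mk (P.cons (P.cons (P.lf 0 4466981 0) (P.cons (P.lf 0 12884722 0) (P.cons (P.lf 0 8586288 0) (P.cons (P.lf 1095096 0 0) (P.cons (P.lf 85156 0 0) (P.cons (P.lf 0 6181 0) P.nil)))))) (P.cons (P.cons (P.lf 0 3102136 0) (P.cons (P.lf 0 5705278 0) (P.cons (P.lf 0 1463664 0) (P.cons (P.lf 229017 0 0) (P.cons (P.lf 16275 0 0) P.nil))))) (P.cons (P.cons (P.lf 0 1347186 0) (P.cons (P.lf 0 1567242 0) (P.cons (P.lf 39119 0 0) (P.cons (P.lf 14631 0 0) P.nil)))) (P.cons (P.cons (P.lf 0 272577 0) (P.cons (P.lf 0 84335 0) (P.cons (P.lf 17048 0 0) P.nil))) (P.cons (P.cons (P.lf 0 29820 0) (P.cons (P.lf 11370 0 0) P.nil)) (P.cons (P.cons (P.lf 2151 0 0) P.nil) P.nil)))))) 10604)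
 EL.nil))
noncomputable def S198_212_586_660_12 : EL := (EL.cons 4 (TM.mk (P.cons (P.lf 1528492552 0 0) (P.cons (P.lf 0 189961226 0) (P.cons (P.lf 0 3825716 0) (P.cons (P.lf 119508 0 0) (P.cons (P.lf 4953 0 0) (P.cons (P.lf 0 41 0) P.nil)))))) 52)
 (EL.cons 8 (TM.mk (P.cons (P.lf 1944480730 0 0) (P.cons (P.lf 53092371 0 0) (P.cons (P.lf 0 2954732 0) (P.cons (P.lf 0 85611 0) (P.cons (P.lf 1520 0 0) (P.cons (P.lf 96 0 0) P.nil)))))) 47)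
 EL.nil))
noncomputable def S198_212_586_660_13 : EL := (EL.cons 4 (TM.mk (P.cons (P.cons (P.lf 0 73260282 0) (P.cons (P.lf 0 105657297 0) (P.cons (P.lf 5781141 0 0) (P.lf 642346 0 0)))) (P.cons (P.cons (P.lf 0 15333187 0) (P.cons (P.lf 4476456 0 0) (P.cons (P.lf 0 244934 0) (P.lf 0 27214 0)))) (P.cons (P.cons (P.lf 0 3139105 0) (P.cons (P.lf 1585397 0 0) (P.cons (P.lf 0 86745 0) (P.lf 0 9636 0)))) (P.cons (P.cons (P.lf 978234 0 0) (P.cons (P.lf 21015 0 0) (P.cons (P.lf 0 1148 0) P.nil))) (P.cons (P.cons (P.lf 22043 0 0) (P.cons (P.lf 0 6227 0) P.nil)) (P.cons (P.cons (P.lf 0 3886 0) P.nil) P.nil)))))) 1729)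
 (EL.cons 8 (TM.mk (P.cons (P.cons (P.lf 0 93198496 0) (P.cons (P.lf 0 134412548 0) (P.cons (P.lf 7354514 0 0) (P.lf 817166 0 0)))) (P.cons (P.cons (P.lf 0 33633628 0) (P.cons (P.lf 0 14680073 0) (P.cons (P.lf 803233 0 0) (P.lf 89247 0 0)))) (P.cons (P.cons (P.lf 0 8797672 0) (P.cons (P.lf 215743 0 0) (P.cons (P.lf 0 11803 0) (P.lf 0 1310 0)))) (P.cons (P.cons (P.lf 0 1097 0) (P.cons (P.lf 79647 0 0) (P.cons (P.lf 0 4356 0) P.nil))) (P.cons (P.cons (P.lf 49651 0 0) (P.cons (P.lf 1408 0 0) P.nil)) (P.cons (P.cons (P.lf 1047 0 0) P.nil) P.nil)))))) 1323)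
 EL.nil))
noncomputable def S198_212_586_660_14 : EL := (EL.cons 4 (TM.mk (P.cons (P.cons (P.lf 3511347 0 0) (P.cons (P.lf 10128256 0 0) (P.cons (P.lf 6749400 0 0) (P.cons (P.lf 0 860819 0) (P.cons (P.lf 0 66938 0) (P.cons (P.lf 4858 0 0) P.nil)))))) (P.cons (P.cons (P.lf 1906222 0 0) (P.cons (P.lf 2949447 0 0) (P.cons (P.lf 127435 0 0) (P.cons (P.lf 0 49536 0) (P.cons (P.lf 0 2646 0) P.nil))))) (P.cons (P.cons (P.lf 700423 0 0) (P.cons (P.lf 584102 0 0) (P.cons (P.lf 0 183855 0) (P.cons (P.lf 13070 0 0) P.nil)))) (P.cons (P.cons (P.lf 60751 0 0) (P.cons (P.lf 0 108268 0) (P.cons (P.lf 0 6420 0) P.nil))) (P.cons (P.cons (P.lf 0 6149 0) (P.cons (P.lf 0 15910 0) P.nil)) (P.cons (P.cons (P.lf 0 4759 0) P.nil) P.nil)))))) 13839)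
 (EL.cons 8 (TM.mk (P.cons (P.cons (P.lf 4466981 0 0) (P.cons (P.lf 12884722 0 0) (P.cons (P.lf 8586288 0 0) (P.cons (P.lf 0 1095096 0) (P.cons (P.lf 0 85156 0) (P.cons (P.lf 6181 0 0) P.nil)))))) (P.cons (P.cons (P.lf 3102136 0 0) (P.cons (P.lf 5705278 0 0) (P.cons (P.lf 1463664 0 0) (P.cons (P.lf 0 229017 0) (P.cons (P.lf 0 16275 0) P.nil))))) (P.cons (P.cons (P.lf 1347186 0 0) (P.cons (P.lf 1567242 0 0) (P.cons (P.lf 0 39119 0) (P.cons (P.lf 0 14631 0) P.nil)))) (P.cons (P.cons (P.lf 272577 0 0) (P.cons (P.lf 84335 0 0) (P.cons (P.lf 0 17048 0) P.nil))) (P.cons (P.cons (P.lf 29820 0 0) (P.cons (P.lf 0 11370 0) P.nil)) (P.cons (P.cons (P.lf 0 2151 0) P.nil) P.nil)))))) 10604)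
 EL.nil))
noncomputable def S198_212_586_660_15 : EL := (EL.cons 4 (TM.mk (P.cons (P.lf 0 580223769 0) (P.cons (P.lf 144220550 0 0) (P.cons (P.lf 0 6057348 0) (P.cons (P.lf 0 451706 0) (P.cons (P.lf 3880 0 0) (P.cons (P.lf 725 0 0) P.nil)))))) 68)
 (EL.cons 8 (TM.mk (P.cons (P.lf 0 738135058 0) (P.cons (P.lf 71581366 0 0) (P.cons (P.lf 5473894 0 0) (P.cons (P.lf 0 114166 0) (P.cons (P.lf 0 11391 0) (P.cons (P.lf 0 3 0) P.nil)))))) 62)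
 EL.nil))
noncomputable def S198_212_586_660_16 : EL := (EL.cons 4 (TM.mk (P.cons (P.cons (P.lf 27809985 0 0) (P.cons (P.lf 40108062 0 0) (P.cons (P.lf 0 2194551 0) (P.lf 0 243838 0)))) (P.cons (P.cons (P.lf 2364329 0 0) (P.cons (P.lf 0 6683920 0) (P.cons (P.lf 365716 0 0) (P.lf 40635 0 0)))) (P.cons (P.cons (P.lf 398634 0 0) (P.cons (P.lf 0 491025 0) (P.cons (P.lf 26865 0 0) (P.lf 2984 0 0)))) (P.cons (P.cons (P.lf 0 531831 0) (P.cons (P.lf 74205 0 0) (P.cons (P.lf 0 4060 0) P.nil))) (P.cons (P.cons (P.lf 35344 0 0) (P.cons (P.lf 4859 0 0) P.nil)) (P.cons (P.cons (P.lf 3555 0 0) P.nil) P.nil)))))) 1827)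
 (EL.cons 8 (TM.mk (P.cons (P.cons (P.lf 35378636 0 0) (P.cons (P.lf 51023706 0 0) (P.cons (P.lf 0 2791811 0) (P.lf 0 310200 0)))) (P.cons (P.cons (P.lf 8370640 0 0) (P.cons (P.lf 0 768598 0) (P.cons (P.lf 42054 0 0) (P.lf 4672 0 0)))) (P.cons (P.cons (P.lf 1664345 0 0) (P.cons (P.lf 0 902173 0) (P.cons (P.lf 49362 0 0) (P.lf 5483 0 0)))) (P.cons (P.cons (P.lf 0 443824 0) (P.cons (P.lf 0 30014 0) (P.cons (P.lf 1641 0 0) P.nil))) (P.cons (P.cons (P.lf 0 26145 0) (P.cons (P.lf 4028 0 0) P.nil)) (P.cons (P.cons (P.lf 2245 0 0) P.nil) P.nil)))))) 1364)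
 EL.nil))
noncomputable def S198_212_586_660_17 : EL := (EL.cons 4 (TM.mk (P.cons (P.cons (P.lf 0 1332925 0) (P.cons (P.lf 0 3844739 0) (P.cons (P.lf 0 2562106 0) (P.cons (P.lf 326771 0 0) (P.cons (P.lf 25410 0 0) (P.cons (P.lf 0 1844 0) P.nil)))))) (P.cons (P.cons (P.lf 0 557955 0) (P.cons (P.lf 0 641801 0) (P.cons (P.lf 270043 0 0) (P.cons (P.lf 0 21806 0) (P.cons (P.lf 0 2152 0) P.nil))))) (P.cons (P.cons (P.lf 0 172617 0) (P.cons (P.lf 0 72958 0) (P.cons (P.lf 82217 0 0) (P.cons (P.lf 0 8116 0) P.nil)))) (P.cons (P.cons (P.lf 11688 0 0) (P.cons (P.lf 71157 0 0) (P.cons (P.lf 0 6315 0) P.nil))) (P.cons (P.cons (P.lf 5805 0 0) (P.cons (P.lf 1386 0 0) P.nil)) (P.cons (P.cons (P.lf 1551 0 0) P.nil) P.nil)))))) 9814)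
 (EL.cons 8 (TM.mk (P.cons (P.cons (P.lf 0 1695689 0) (P.cons (P.lf 0 4891107 0) (P.cons (P.lf 0 3259400 0) (P.cons (P.lf 415704 0 0) (P.cons (P.lf 32325 0 0) (P.cons (P.lf 0 2346 0) P.nil)))))) (P.cons (P.cons (P.lf 0 966846 0) (P.cons (P.lf 0 1557885 0) (P.cons (P.lf 0 150535 0) (P.cons (P.lf 35272 0 0) (P.cons (P.lf 2160 0 0) P.nil))))) (P.cons (P.cons (P.lf 0 360804 0) (P.cons (P.lf 0 313531 0) (P.cons (P.lf 92059 0 0) (P.cons (P.lf 0 6290 0) P.nil)))) (P.cons (P.cons (P.lf 0 37100 0) (P.cons (P.lf 46962 0 0) (P.cons (P.lf 5761 0 0) P.nil))) (P.cons (P.cons (P.lf 2721 0 0) (P.cons (P.lf 9598 0 0) P.nil)) (P.cons (P.cons (P.lf 2438 0 0) P.nil) P.nil)))))) 7905)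
 EL.nil))
noncomputable def S198_212_586_660_18 : EL := (EL.cons 4 (TM.mk (P.cons (P.lf 220255978 0 0) (P.cons (P.lf 0 82120312 0) (P.cons (P.lf 8552062 0 0) (P.cons (P.lf 39948 0 0) (P.cons (P.lf 0 32104 0) (P.cons (P.lf 0 525 0) P.nil)))))) 109)
 (EL.cons 8 (TM.mk (P.cons (P.lf 280199929 0 0) (P.cons (P.lf 0 61995939 0) (P.cons (P.lf 597780 0 0) (P.cons (P.lf 391501 0 0) (P.cons (P.lf 2922 0 0) (P.cons (P.lf 0 902 0) P.nil)))))) 74)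
 EL.nil))
noncomputable def S198_212_586_660_19 : EL := (EL.cons 4 (TM.mk (P.cons (P.cons (P.lf 0 10556816 0) (P.cons (P.lf 0 15225229 0) (P.cons (P.lf 833062 0 0) (P.lf 92562 0 0)))) (P.cons (P.cons (P.lf 414489 0 0) (P.cons (P.lf 4429444 0 0) (P.cons (P.lf 0 242360 0) (P.lf 0 26928 0)))) (P.cons (P.cons (P.lf 0 13357 0) (P.cons (P.lf 0 90825 0) (P.cons (P.lf 4969 0 0) (P.lf 552 0 0)))) (P.cons (P.cons (P.lf 222113 0 0) (P.cons (P.lf 0 58875 0) (P.cons (P.lf 3221 0 0) P.nil))) (P.cons (P.cons (P.lf 0 38233 0) (P.cons (P.lf 1338 0 0) P.nil)) (P.cons (P.cons (P.lf 0 201 0) P.nil) P.nil)))))) 1686)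
 (EL.cons 8 (TM.mk (P.cons (P.cons (P.lf 0 13429915 0) (P.cons (P.lf 0 19368865 0) (P.cons (P.lf 1059786 0 0) (P.lf 117753 0 0)))) (P.cons (P.cons (P.lf 0 1508466 0) (P.cons (P.lf 2698928 0 0) (P.cons (P.lf 0 147674 0) (P.lf 0 16408 0)))) (P.cons (P.cons (P.lf 0 203275 0) (P.cons (P.lf 354687 0 0) (P.cons (P.lf 0 19406 0) (P.lf 0 2155 0)))) (P.cons (P.cons (P.lf 253900 0 0) (P.cons (P.lf 0 33412 0) (P.cons (P.lf 1828 0 0) P.nil))) (P.cons (P.cons (P.lf 0 9723 0) (P.cons (P.lf 0 3842 0) P.nil)) (P.cons (P.cons (P.lf 0 2566 0) P.nil) P.nil)))))) 1307)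
 EL.nil))
noncomputable def S198_212_586_660_20 : EL := (EL.cons 4 (TM.mk (P.cons (P.cons (P.lf 505985 0 0) (P.cons (P.lf 1459483 0 0) (P.cons (P.lf 972588 0 0) (P.cons (P.lf 0 124043 0) (P.cons (P.lf 0 9645 0) (P.cons (P.lf 699 0 0) P.nil)))))) (P.cons (P.cons (P.lf 148918 0 0) (P.cons (P.lf 62246 0 0) (P.cons (P.lf 0 223382 0) (P.cons (P.lf 23693 0 0) (P.cons (P.lf 2015 0 0) P.nil))))) (P.cons (P.cons (P.lf 37936 0 0) (P.cons (P.lf 0 6235 0) (P.cons (P.lf 0 20904 0) (P.cons (P.lf 2362 0 0) P.nil)))) (P.cons (P.cons (P.lf 0 13070 0) (P.cons (P.lf 0 30948 0) (P.cons (P.lf 6608 0 0) P.nil))) (P.cons (P.cons (P.lf 0 1797 0) (P.cons (P.lf 2784 0 0) P.nil)) (P.cons (P.cons (P.lf 0 298 0) P.nil) P.nil)))))) 6245)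
 (EL.cons 8 (TM.mk (P.cons (P.cons (P.lf 643692 0 0) (P.cons (P.lf 1856689 0 0) (P.cons (P.lf 1237284 0 0) (P.cons (P.lf 0 157803 0) (P.cons (P.lf 0 12270 0) (P.cons (P.lf 890 0 0) P.nil)))))) (P.cons (P.cons (P.lf 287021 0 0) (P.cons (P.lf 360632 0 0) (P.cons (P.lf 0 96625 0) (P.cons (P.lf 6221 0 0) (P.cons (P.lf 704 0 0) P.nil))))) (P.cons (P.cons (P.lf 89738 0 0) (P.cons (P.lf 40873 0 0) (P.cons (P.lf 0 45145 0) (P.cons (P.lf 4447 0 0) P.nil)))) (P.cons (P.cons (P.lf 0 3806 0) (P.cons (P.lf 0 33953 0) (P.cons (P.lf 2109 0 0) P.nil))) (P.cons (P.cons (P.lf 0 3095 0) (P.cons (P.lf 0 1673 0) P.nil)) (P.cons (P.cons (P.lf 0 820 0) P.nil) P.nil)))))) 5357)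
 EL.nil))
noncomputable def S198_212_586_660_21 : EL := (EL.cons 4 (TM.mk (P.cons (P.cons (P.lf 895028637 0 0) (P.cons (P.lf 316971891 0 0) (P.cons (P.lf 0 17343423 0) (P.lf 0 1927038 0)))) (P.cons (P.cons (P.lf 478661214 0 0) (P.cons (P.lf 0 13429368 0) (P.cons (P.lf 734802 0 0) (P.lf 81642 0 0)))) (P.cons (P.cons (P.lf 0 8754729 0) (P.cons (P.lf 0 4756191 0) (P.cons (P.lf 260235 0 0) (P.lf 28908 0 0)))) (P.cons (P.cons (P.lf 0 4289820 0) (P.cons (P.lf 0 63045 0) (P.cons (P.lf 3444 0 0) P.nil))) (P.cons (P.cons (P.lf 0 54492 0) (P.cons (P.lf 18681 0 0) P.nil)) (P.cons (P.cons (P.lf 13836 0 0) P.nil) P.nil)))))) 5454)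
 (EL.cons 8 (TM.mk (P.cons (P.cons (P.lf 0 250152060 0) (P.cons (P.lf 0 88590660 0) (P.cons (P.lf 4847325 0 0) (P.lf 538596 0 0)))) (P.cons (P.cons (P.lf 0 95862189 0) (P.cons (P.lf 17182323 0 0) (P.cons (P.lf 0 940143 0) (P.lf 0 104457 0)))) (P.cons (P.cons (P.lf 21936648 0 0) (P.cons (P.lf 480816 0 0) (P.cons (P.lf 0 26313 0) (P.lf 0 2928 0)))) (P.cons (P.cons (P.lf 454515 0 0) (P.cons (P.lf 0 154824 0) (P.cons (P.lf 8466 0 0) P.nil))) (P.cons (P.cons (P.lf 0 134265 0) (P.cons (P.lf 0 4944 0) P.nil)) (P.cons (P.cons (P.lf 0 3582 0) P.nil) P.nil)))))) 5028)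
 (EL.cons 11 (TM.mk (P.cons (P.cons (P.lf 2215300023 0 0) (P.cons (P.lf 0 277966920 0) (P.cons (P.lf 0 42438357 0) (P.cons (P.lf 1296486 0 0) (P.lf 108039 0 0))))) (P.cons (P.cons (P.lf 120973716 0 0) (P.cons (P.lf 0 15179292 0) (P.cons (P.lf 0 2317485 0) (P.cons (P.lf 70797 0 0) (P.lf 5898 0 0))))) (P.cons (P.cons (P.lf 0 5080965 0) (P.cons (P.lf 637539 0 0) (P.cons (P.lf 97335 0 0) (P.cons (P.lf 0 2973 0) P.nil)))) (P.cons (P.cons (P.lf 0 378894 0) (P.cons (P.lf 47541 0 0) (P.cons (P.lf 7257 0 0) P.nil))) (P.cons (P.cons (P.lf 3249 0 0) (P.cons (P.lf 0 405 0) P.nil)) (P.cons (P.cons (P.lf 606 0 0) P.nil) P.nil)))))) 912)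
 EL.nil)))
noncomputable def S198_212_586_660_22 : EL := (EL.cons 4 (TM.mk (P.cons (P.cons (P.lf 0 42898506 0) (P.cons (P.lf 0 77061387 0) (P.cons (P.lf 0 17694243 0) (P.cons (P.lf 2866230 0 0) (P.cons (P.lf 200814 0 0) (P.cons (P.lf 0 14577 0) P.nil)))))) (P.cons (P.cons (P.lf 0 37252095 0) (P.cons (P.lf 0 42579543 0) (P.cons (P.lf 1463325 0 0) (P.cons (P.lf 353679 0 0) (P.cons (P.lf 7941 0 0) P.nil))))) (P.cons (P.cons (P.lf 0 10957323 0) (P.cons (P.lf 0 2837595 0) (P.cons (P.lf 610953 0 0) (P.cons (P.lf 0 32613 0) P.nil)))) (P.cons (P.cons (P.lf 0 1568448 0) (P.cons (P.lf 607653 0 0) (P.cons (P.lf 3786 0 0) P.nil))) (P.cons (P.cons (P.lf 163575 0 0) (P.cons (P.lf 62532 0 0) P.nil)) (P.cons (P.cons (P.lf 25095 0 0) P.nil) P.nil)))))) 32637)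
 (EL.cons 8 (TM.mk (P.cons (P.cons (P.lf 11989728 0 0) (P.cons (P.lf 21537930 0 0) (P.cons (P.lf 4945374 0 0) (P.cons (P.lf 0 801084 0) (P.cons (P.lf 0 56124 0) (P.cons (P.lf 4074 0 0) P.nil)))))) (P.cons (P.cons (P.lf 8594154 0 0) (P.cons (P.lf 8635770 0 0) (P.cons (P.lf 0 1158624 0) (P.cons (P.lf 22578 0 0) (P.cons (P.lf 6288 0 0) P.nil))))) (P.cons (P.cons (P.lf 1522065 0 0) (P.cons (P.lf 0 942894 0) (P.cons (P.lf 0 93153 0) (P.cons (P.lf 21570 0 0) P.nil)))) (P.cons (P.cons (P.lf 4668 0 0) (P.cons (P.lf 0 256683 0) (P.cons (P.lf 22572 0 0) P.nil))) (P.cons (P.cons (P.lf 0 104454 0) (P.cons (P.lf 8580 0 0) P.nil)) (P.cons (P.cons (P.lf 759 0 0) P.nil) P.nil)))))) 15987)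
 (EL.cons 11 (TM.mk (P.cons (P.cons (P.lf 0 106178799 0) (P.cons (P.lf 0 139810086 0) (P.cons (P.lf 29627388 0 0) (P.cons (P.lf 2751054 0 0) (P.cons (P.lf 0 372123 0) (P.cons (P.lf 0 20397 0) P.nil)))))) (P.cons (P.cons (P.lf 0 41217102 0) (P.cons (P.lf 0 15734061 0) (P.cons (P.lf 4556652 0 0) (P.cons (P.lf 359937 0 0) (P.cons (P.lf 0 52104 0) P.nil))))) (P.cons (P.cons (P.lf 0 10907871 0) (P.cons (P.lf 1390506 0 0) (P.cons (P.lf 205026 0 0) (P.cons (P.lf 0 6783 0) P.nil)))) (P.cons (P.cons (P.lf 0 212016 0) (P.cons (P.lf 156210 0 0) (P.cons (P.lf 0 19290 0) P.nil))) (P.cons (P.cons (P.lf 73365 0 0) (P.cons (P.lf 0 4878 0) P.nil)) (P.cons (P.cons (P.lf 3144 0 0) P.nil) P.nil)))))) 19122)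
 EL.nil)))
noncomputable def S198_212_586_660_23 : EL := (EL.cons 4 (TM.mk (P.cons (P.cons (P.lf 0 339757551 0) (P.cons (P.lf 0 120324186 0) (P.cons (P.lf 6583653 0 0) (P.lf 731511 0 0)))) (P.cons (P.cons (P.lf 0 139477194 0) (P.cons (P.lf 20051760 0 0) (P.cons (P.lf 0 1097151 0) (P.lf 0 121902 0)))) (P.cons (P.cons (P.lf 26755713 0 0) (P.cons (P.lf 1473075 0 0) (P.cons (P.lf 0 80598 0) (P.lf 0 8952 0)))) (P.cons (P.cons (P.lf 1643637 0 0) (P.cons (P.lf 0 222618 0) (P.cons (P.lf 12180 0 0) P.nil))) (P.cons (P.cons (P.lf 0 205323 0) (P.cons (P.lf 0 14574 0) P.nil)) (P.cons (P.cons (P.lf 0 12216 0) P.nil) P.nil)))))) 6402)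
 (EL.cons 8 (TM.mk (P.cons (P.cons (P.lf 94959030 0 0) (P.cons (P.lf 33629478 0 0) (P.cons (P.lf 0 1840068 0) (P.lf 0 204453 0)))) (P.cons (P.cons (P.lf 24588267 0 0) (P.cons (P.lf 0 10701975 0) (P.cons (P.lf 585567 0 0) (P.lf 65061 0 0)))) (P.cons (P.cons (P.lf 0 13087467 0) (P.cons (P.lf 543924 0 0) (P.cons (P.lf 0 29757 0) (P.lf 0 3303 0)))) (P.cons (P.cons (P.lf 778719 0 0) (P.cons (P.lf 100410 0 0) (P.cons (P.lf 0 5490 0) P.nil))) (P.cons (P.cons (P.lf 96405 0 0) (P.cons (P.lf 0 5370 0) P.nil)) (P.cons (P.cons (P.lf 0 5076 0) P.nil) P.nil)))))) 3714)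
 (EL.cons 11 (TM.mk (P.cons (P.cons (P.lf 0 840939477 0) (P.cons (P.lf 105517695 0 0) (P.cons (P.lf 16109820 0 0) (P.cons (P.lf 0 492150 0) (P.lf 0 41010 0))))) (P.cons (P.cons (P.lf 58589796 0 0) (P.cons (P.lf 0 7351611 0) (P.cons (P.lf 0 1122399 0) (P.cons (P.lf 34287 0 0) (P.lf 2856 0 0))))) (P.cons (P.cons (P.lf 9740799 0 0) (P.cons (P.lf 0 1222236 0) (P.cons (P.lf 0 186603 0) (P.cons (P.lf 5700 0 0) P.nil)))) (P.cons (P.cons (P.lf 0 46686 0) (P.cons (P.lf 5856 0 0) (P.cons (P.lf 894 0 0) P.nil))) (P.cons (P.cons (P.lf 0 30252 0) (P.cons (P.lf 3792 0 0) P.nil)) (P.cons (P.cons (P.lf 0 411 0) P.nil) P.nil)))))) 1854)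
 EL.nil)))
noncomputable def S198_212_586_660_24 : EL := (EL.cons 4 (TM.mk (P.cons (P.cons (P.lf 16284498 0 0) (P.cons (P.lf 29252904 0 0) (P.cons (P.lf 6716826 0 0) (P.cons (P.lf 0 1088034 0) (P.cons (P.lf 0 76230 0) (P.cons (P.lf 5532 0 0) P.nil)))))) (P.cons (P.cons (P.lf 12117249 0 0) (P.cons (P.lf 12527862 0 0) (P.cons (P.lf 0 1390254 0) (P.cons (P.lf 960 0 0) (P.cons (P.lf 6459 0 0) P.nil))))) (P.cons (P.cons (P.lf 2361240 0 0) (P.cons (P.lf 0 1004841 0) (P.cons (P.lf 0 179694 0) (P.cons (P.lf 31788 0 0) P.nil)))) (P.cons (P.cons (P.lf 44331 0 0) (P.cons (P.lf 0 402705 0) (P.cons (P.lf 29298 0 0) P.nil))) (P.cons (P.cons (P.lf 0 145341 0) (P.cons (P.lf 3591 0 0) P.nil)) (P.cons (P.cons (P.lf 0 2928 0) P.nil) P.nil)))))) 21684)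
 (EL.cons 8 (TM.mk (P.cons (P.cons (P.lf 0 4551363 0) (P.cons (P.lf 0 8175909 0) (P.cons (P.lf 0 1877289 0) (P.cons (P.lf 304095 0 0) (P.cons (P.lf 21306 0 0) (P.cons (P.lf 0 1545 0) P.nil)))))) (P.cons (P.cons (P.lf 0 2696742 0) (P.cons (P.lf 0 2262078 0) (P.cons (P.lf 673128 0 0) (P.cons (P.lf 0 46362 0) (P.cons (P.lf 0 5034 0) P.nil))))) (P.cons (P.cons (P.lf 0 160941 0) (P.cons (P.lf 785805 0 0) (P.cons (P.lf 0 14598 0) (P.cons (P.lf 0 7884 0) P.nil)))) (P.cons (P.cons (P.lf 77844 0 0) (P.cons (P.lf 60519 0 0) (P.cons (P.lf 0 14211 0) P.nil))) (P.cons (P.cons (P.lf 41046 0 0) (P.cons (P.lf 0 16545 0) P.nil)) (P.cons (P.cons (P.lf 0 5268 0) P.nil) P.nil)))))) 8067)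
 (EL.cons 11 (TM.mk (P.cons (P.cons (P.lf 40306026 0 0) (P.cons (P.lf 53072640 0 0) (P.cons (P.lf 0 11246709 0) (P.cons (P.lf 0 1044312 0) (P.cons (P.lf 141258 0 0) (P.cons (P.lf 7743 0 0) P.nil)))))) (P.cons (P.cons (P.lf 10636989 0 0) (P.cons (P.lf 0 623139 0) (P.cons (P.lf 0 331986 0) (P.cons (P.lf 0 6846 0) (P.cons (P.lf 2223 0 0) P.nil))))) (P.cons (P.cons (P.lf 2095284 0 0) (P.cons (P.lf 0 1402971 0) (P.cons (P.lf 165288 0 0) (P.cons (P.lf 22167 0 0) P.nil)))) (P.cons (P.cons (P.lf 0 470130 0) (P.cons (P.lf 0 4497 0) (P.cons (P.lf 20445 0 0) P.nil))) (P.cons (P.cons (P.lf 0 46860 0) (P.cons (P.lf 11181 0 0) P.nil)) (P.cons (P.cons (P.lf 2436 0 0) P.nil) P.nil)))))) 12234)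
 EL.nil)))
noncomputable def S198_212_586_660_25 : EL := (EL.cons 4 (TM.mk (P.cons (P.cons (P.lf 128973744 0 0) (P.cons (P.lf 45675690 0 0) (P.cons (P.lf 0 2499189 0) (P.lf 0 277686 0)))) (P.cons (P.cons (P.lf 36917400 0 0) (P.cons (P.lf 0 13288332 0) (P.cons (P.lf 727083 0 0) (P.lf 80784 0 0)))) (P.cons (P.cons (P.lf 0 17059590 0) (P.cons (P.lf 272478 0 0) (P.cons (P.lf 0 14907 0) (P.lf 0 1656 0)))) (P.cons (P.cons (P.lf 515892 0 0) (P.cons (P.lf 176625 0 0) (P.cons (P.lf 0 9663 0) P.nil))) (P.cons (P.cons (P.lf 185463 0 0) (P.cons (P.lf 0 4014 0) P.nil)) (P.cons (P.cons (P.lf 0 4110 0) P.nil) P.nil)))))) 5760)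
 (EL.cons 8 (TM.mk (P.cons (P.cons (P.lf 0 36046944 0) (P.cons (P.lf 0 12765924 0) (P.cons (P.lf 698499 0 0) (P.lf 77610 0 0)))) (P.cons (P.cons (P.lf 0 4853916 0) (P.cons (P.lf 5649075 0 0) (P.cons (P.lf 0 309093 0) (P.lf 0 34341 0)))) (P.cons (P.cons (P.lf 6218304 0 0) (P.cons (P.lf 0 679413 0) (P.cons (P.lf 37173 0 0) (P.lf 4128 0 0)))) (P.cons (P.cons (P.lf 0 892494 0) (P.cons (P.lf 0 23619 0) (P.cons (P.lf 1290 0 0) P.nil))) (P.cons (P.cons (P.lf 0 13137 0) (P.cons (P.lf 7569 0 0) P.nil)) (P.cons (P.cons (P.lf 7575 0 0) P.nil) P.nil)))))) 2757)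
 (EL.cons 11 (TM.mk (P.cons (P.cons (P.lf 319225023 0 0) (P.cons (P.lf 0 40055067 0) (P.cons (P.lf 0 6115371 0) (P.cons (P.lf 186822 0 0) (P.lf 15567 0 0))))) (P.cons (P.cons (P.lf 0 61914315 0) (P.cons (P.lf 7768758 0 0) (P.cons (P.lf 1186086 0 0) (P.cons (P.lf 0 36234 0) (P.lf 0 3018 0))))) (P.cons (P.cons (P.lf 0 1732545 0) (P.cons (P.lf 217392 0 0) (P.cons (P.lf 33189 0 0) (P.cons (P.lf 0 1011 0) P.nil)))) (P.cons (P.cons (P.lf 557892 0 0) (P.cons (P.lf 0 70002 0) (P.cons (P.lf 0 10686 0) P.nil))) (P.cons (P.cons (P.lf 17829 0 0) (P.cons (P.lf 0 2235 0) P.nil)) (P.cons (P.cons (P.lf 0 1683 0) P.nil) P.nil)))))) 2106)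
 EL.nil)))
noncomputable def S198_212_586_660_26 : EL := (EL.cons 4 (TM.mk (P.cons (P.cons (P.lf 0 6181680 0) (P.cons (P.lf 0 11104554 0) (P.cons (P.lf 0 2549742 0) (P.cons (P.lf 413022 0 0) (P.cons (P.lf 28935 0 0) (P.cons (P.lf 0 2100 0) P.nil)))))) (P.cons (P.cons (P.lf 0 3831510 0) (P.cons (P.lf 0 3375567 0) (P.cons (P.lf 844629 0 0) (P.cons (P.lf 0 51693 0) (P.cons (P.lf 0 6048 0) P.nil))))) (P.cons (P.cons (P.lf 0 309207 0) (P.cons (P.lf 1000269 0 0) (P.cons (P.lf 9006 0 0) (P.cons (P.lf 0 13053 0) P.nil)))) (P.cons (P.cons (P.lf 105597 0 0) (P.cons (P.lf 116496 0 0) (P.cons (P.lf 0 21120 0) P.nil))) (P.cons (P.cons (P.lf 59127 0 0) (P.cons (P.lf 0 21723 0) P.nil)) (P.cons (P.cons (P.lf 0 5787 0) P.nil) P.nil)))))) 13338)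
 (EL.cons 8 (TM.mk (P.cons (P.cons (P.lf 1727721 0 0) (P.cons (P.lf 3103617 0 0) (P.cons (P.lf 712629 0 0) (P.cons (P.lf 0 115434 0) (P.cons (P.lf 0 8085 0) (P.cons (P.lf 585 0 0) P.nil)))))) (P.cons (P.cons (P.lf 808974 0 0) (P.cons (P.lf 472977 0 0) (P.cons (P.lf 0 344088 0) (P.cons (P.lf 31944 0 0) (P.cons (P.lf 2916 0 0) P.nil))))) (P.cons (P.cons (P.lf 0 70452 0) (P.cons (P.lf 0 412782 0) (P.cons (P.lf 35514 0 0) (P.cons (P.lf 1092 0 0) P.nil)))) (P.cons (P.cons (P.lf 0 39570 0) (P.cons (P.lf 12189 0 0) (P.cons (P.lf 5400 0 0) P.nil))) (P.cons (P.cons (P.lf 0 11976 0) (P.cons (P.lf 9960 0 0) P.nil)) (P.cons (P.cons (P.lf 4017 0 0) P.nil) P.nil)))))) 5709)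
 (EL.cons 11 (TM.mk (P.cons (P.cons (P.lf 0 15300378 0) (P.cons (P.lf 0 20146650 0) (P.cons (P.lf 4269309 0 0) (P.cons (P.lf 396426 0 0) (P.cons (P.lf 0 53622 0) (P.cons (P.lf 0 2937 0) P.nil)))))) (P.cons (P.cons (P.lf 0 2136321 0) (P.cons (P.lf 2740374 0 0) (P.cons (P.lf 0 404565 0) (P.cons (P.lf 0 46668 0) (P.cons (P.lf 5820 0 0) P.nil))))) (P.cons (P.cons (P.lf 0 255258 0) (P.cons (P.lf 553602 0 0) (P.cons (P.lf 0 89091 0) (P.cons (P.lf 0 9729 0) P.nil)))) (P.cons (P.cons (P.lf 286224 0 0) (P.cons (P.lf 0 66648 0) (P.cons (P.lf 54 0 0) P.nil))) (P.cons (P.cons (P.lf 0 2763 0) (P.cons (P.lf 0 5835 0) P.nil)) (P.cons (P.cons (P.lf 0 3657 0) P.nil) P.nil)))))) 9045)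
 EL.nil)))
noncomputable def S198_212_586_660_27 : EL := (EL.cons 13 (TM.mk (P.lf 0 4294967296 0) 0)
 EL.nil)
noncomputable def S198_212_586_660_28 : EL := (EL.cons 13 (TM.mk (P.cons (P.cons (P.lf 205856755 0 0) (P.cons (P.lf 296890316 0 0) (P.cons (P.lf 0 16244644 0) (P.lf 0 1804956 0)))) (P.cons (P.cons (P.lf 68669187 0 0) (P.cons (P.lf 24319000 0 0) (P.cons (P.lf 0 1330636 0) (P.lf 0 147848 0)))) (P.cons (P.cons (P.lf 17870148 0 0) (P.cons (P.lf 0 689404 0) (P.cons (P.lf 37720 0 0) (P.lf 4188 0 0)))) (P.cons (P.cons (P.lf 0 372095 0) (P.cons (P.lf 0 107076 0) (P.cons (P.lf 5856 0 0) P.nil))) (P.cons (P.cons (P.lf 0 69494 0) (P.cons (P.lf 0 396 0) P.nil)) (P.cons (P.cons (P.lf 0 258 0) P.nil) P.nil)))))) 1687)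
 EL.nil)
noncomputable def S198_212_586_660_29 : EL := (EL.cons 13 (TM.mk (P.cons (P.cons (P.lf 0 9866665 0) (P.cons (P.lf 0 28459763 0) (P.cons (P.lf 0 18965387 0) (P.cons (P.lf 2418849 0 0) (P.cons (P.lf 188094 0 0) (P.cons (P.lf 0 13653 0) P.nil)))))) (P.cons (P.cons (P.lf 0 6582595 0) (P.cons (P.lf 0 11824745 0) (P.cons (P.lf 0 2715107 0) (P.cons (P.lf 439810 0 0) (P.cons (P.lf 30814 0 0) P.nil))))) (P.cons (P.cons (P.lf 0 2810926 0) (P.cons (P.lf 0 3182106 0) (P.cons (P.lf 131723 0 0) (P.cons (P.lf 23984 0 0) P.nil)))) (P.cons (P.cons (P.lf 0 535757 0) (P.cons (P.lf 0 118617 0) (P.cons (P.lf 29100 0 0) P.nil))) (P.cons (P.cons (P.lf 0 55792 0) (P.cons (P.lf 23020 0 0) P.nil)) (P.cons (P.cons (P.lf 5343 0 0) P.nil) P.nil)))))) 17348)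
 EL.nil)
noncomputable def S198_212_586_660_30 : EL := (EL.cons 13 (TM.mk (P.cons (P.lf 1630392056 0 0) (P.cons (P.lf 0 202625308 0) (P.cons (P.lf 0 4080764 0) (P.cons (P.lf 127476 0 0) (P.cons (P.lf 5284 0 0) (P.cons (P.lf 0 44 0) P.nil)))))) 48)
 EL.nil)
noncomputable def S198_212_586_660_31 : EL := (EL.cons 13 (TM.mk (P.cons (P.cons (P.lf 0 78144301 0) (P.cons (P.lf 0 112701117 0) (P.cons (P.lf 6166551 0 0) (P.lf 685170 0 0)))) (P.cons (P.cons (P.lf 0 16355400 0) (P.cons (P.lf 4774887 0 0) (P.cons (P.lf 0 261263 0) (P.lf 0 29029 0)))) (P.cons (P.cons (P.lf 0 3348379 0) (P.cons (P.lf 1691091 0 0) (P.cons (P.lf 0 92529 0) (P.lf 0 10279 0)))) (P.cons (P.cons (P.lf 1043450 0 0) (P.cons (P.lf 22416 0 0) (P.cons (P.lf 0 1225 0) P.nil))) (P.cons (P.cons (P.lf 23513 0 0) (P.cons (P.lf 0 6643 0) P.nil)) (P.cons (P.cons (P.lf 0 4146 0) P.nil) P.nil)))))) 1824)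
 EL.nil)
noncomputable def S198_212_586_660_32 : EL := (EL.cons 13 (TM.mk (P.cons (P.cons (P.lf 3745437 0 0) (P.cons (P.lf 10803474 0 0) (P.cons (P.lf 7199360 0 0) (P.cons (P.lf 0 918207 0) (P.cons (P.lf 0 71401 0) (P.cons (P.lf 5182 0 0) P.nil)))))) (P.cons (P.cons (P.lf 2033304 0 0) (P.cons (P.lf 3146077 0 0) (P.cons (P.lf 135931 0 0) (P.cons (P.lf 0 52839 0) (P.cons (P.lf 0 2823 0) P.nil))))) (P.cons (P.cons (P.lf 747118 0 0) (P.cons (P.lf 623043 0 0) (P.cons (P.lf 0 196113 0) (P.cons (P.lf 13942 0 0) P.nil)))) (P.cons (P.cons (P.lf 64802 0 0) (P.cons (P.lf 0 115486 0) (P.cons (P.lf 0 6848 0) P.nil))) (P.cons (P.cons (P.lf 0 6559 0) (P.cons (P.lf 0 16971 0) P.nil)) (P.cons (P.cons (P.lf 0 5077 0) P.nil) P.nil)))))) 14739)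
 EL.nil)
noncomputable def S198_212_586_660_33 : EL := (EL.cons 14 (TM.mk (P.lf 8589934592 0 0) 0)
 EL.nil)
noncomputable def S198_212_586_660_34 : EL := (EL.cons 14 (TM.mk (P.cons (P.cons (P.lf 0 411713510 0) (P.cons (P.lf 0 593780632 0) (P.cons (P.lf 32489288 0 0) (P.lf 3609912 0 0)))) (P.cons (P.cons (P.lf 0 137338374 0) (P.cons (P.lf 0 48638000 0) (P.cons (P.lf 2661272 0 0) (P.lf 295696 0 0)))) (P.cons (P.cons (P.lf 0 35740296 0) (P.cons (P.lf 1378808 0 0) (P.cons (P.lf 0 75440 0) (P.lf 0 8376 0)))) (P.cons (P.cons (P.lf 744190 0 0) (P.cons (P.lf 214152 0 0) (P.cons (P.lf 0 11712 0) P.nil))) (P.cons (P.cons (P.lf 138988 0 0) (P.cons (P.lf 792 0 0) P.nil)) (P.cons (P.cons (P.lf 516 0 0) P.nil) P.nil)))))) 3374)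
 EL.nil)
noncomputable def S198_212_586_660_35 : EL := (EL.cons 14 (TM.mk (P.cons (P.cons (P.lf 19733330 0 0) (P.cons (P.lf 56919526 0 0) (P.cons (P.lf 37930774 0 0) (P.cons (P.lf 0 4837698 0) (P.cons (P.lf 0 376188 0) (P.cons (P.lf 27306 0 0) P.nil)))))) (P.cons (P.cons (P.lf 13165190 0 0) (P.cons (P.lf 23649490 0 0) (P.cons (P.lf 5430214 0 0) (P.cons (P.lf 0 879620 0) (P.cons (P.lf 0 61628 0) P.nil))))) (P.cons (P.cons (P.lf 5621852 0 0) (P.cons (P.lf 6364212 0 0) (P.cons (P.lf 0 263446 0) (P.cons (P.lf 0 47968 0) P.nil)))) (P.cons (P.cons (P.lf 1071514 0 0) (P.cons (P.lf 237234 0 0) (P.cons (P.lf 0 58200 0) P.nil))) (P.cons (P.cons (P.lf 111584 0 0) (P.cons (P.lf 0 46040 0) P.nil)) (P.cons (P.cons (P.lf 0 10686 0) P.nil) P.nil)))))) 34696)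
 EL.nil)
noncomputable def S198_212_586_660_36 : EL := (EL.cons 14 (TM.mk (P.cons (P.lf 0 3260784112 0) (P.cons (P.lf 405250616 0 0) (P.cons (P.lf 8161528 0 0) (P.cons (P.lf 0 254952 0) (P.cons (P.lf 0 10568 0) (P.cons (P.lf 88 0 0) P.nil)))))) 96)
 EL.nil)
noncomputable def S198_212_586_660_37 : EL := (EL.cons 14 (TM.mk (P.cons (P.cons (P.lf 156288602 0 0) (P.cons (P.lf 225402234 0 0) (P.cons (P.lf 0 12333102 0) (P.lf 0 1370340 0)))) (P.cons (P.cons (P.lf 32710800 0 0) (P.cons (P.lf 0 9549774 0) (P.cons (P.lf 522526 0 0) (P.lf 58058 0 0)))) (P.cons (P.cons (P.lf 6696758 0 0) (P.cons (P.lf 0 3382182 0) (P.cons (P.lf 185058 0 0) (P.lf 20558 0 0)))) (P.cons (P.cons (P.lf 0 2086900 0) (P.cons (P.lf 0 44832 0) (P.cons (P.lf 2450 0 0) P.nil))) (P.cons (P.cons (P.lf 0 47026 0) (P.cons (P.lf 13286 0 0) P.nil)) (P.cons (P.cons (P.lf 8292 0 0) P.nil) P.nil)))))) 3648)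
 EL.nil)
noncomputable def S198_212_586_660_38 : EL := (EL.cons 14 (TM.mk (P.cons (P.cons (P.lf 0 7490874 0) (P.cons (P.lf 0 21606948 0) (P.cons (P.lf 0 14398720 0) (P.cons (P.lf 1836414 0 0) (P.cons (P.lf 142802 0 0) (P.cons (P.lf 0 10364 0) P.nil)))))) (P.cons (P.cons (P.lf 0 4066608 0) (P.cons (P.lf 0 6292154 0) (P.cons (P.lf 0 271862 0) (P.cons (P.lf 105678 0 0) (P.cons (P.lf 5646 0 0) P.nil))))) (P.cons (P.cons (P.lf 0 1494236 0) (P.cons (P.lf 0 1246086 0) (P.cons (P.lf 392226 0 0) (P.cons (P.lf 0 27884 0) P.nil)))) (P.cons (P.cons (P.lf 0 129604 0) (P.cons (P.lf 230972 0 0) (P.cons (P.lf 13696 0 0) P.nil))) (P.cons (P.cons (P.lf 13118 0 0) (P.cons (P.lf 33942 0 0) P.nil)) (P.cons (P.cons (P.lf 10154 0 0) P.nil) P.nil)))))) 29478)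
 EL.nil)
noncomputable def S198_212_586_660_39 : EL := (EL.cons 14 (TM.mk (P.cons (P.lf 1237810708 0 0) (P.cons (P.lf 0 307670508 0) (P.cons (P.lf 12922344 0 0) (P.cons (P.lf 963640 0 0) (P.cons (P.lf 0 8278 0) (P.cons (P.lf 0 1548 0) P.nil)))))) 132)
 EL.nil)
noncomputable def S198_212_586_660_40 : EL := (EL.cons 14 (TM.mk (P.cons (P.cons (P.lf 0 59327970 0) (P.cons (P.lf 0 85563866 0) (P.cons (P.lf 4681710 0 0) (P.lf 520188 0 0)))) (P.cons (P.cons (P.lf 0 5043902 0) (P.cons (P.lf 14259030 0 0) (P.cons (P.lf 0 780196 0) (P.lf 0 86688 0)))) (P.cons (P.cons (P.lf 0 850420 0) (P.cons (P.lf 1047520 0 0) (P.cons (P.lf 0 57314 0) (P.lf 0 6366 0)))) (P.cons (P.cons (P.lf 1134574 0 0) (P.cons (P.lf 0 158306 0) (P.cons (P.lf 8662 0 0) P.nil))) (P.cons (P.cons (P.lf 0 75402 0) (P.cons (P.lf 0 10366 0) P.nil)) (P.cons (P.cons (P.lf 0 7586 0) P.nil) P.nil)))))) 3858)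
 EL.nil)
noncomputable def S198_212_586_660_41 : EL := (EL.cons 14 (TM.mk (P.cons (P.cons (P.lf 2843574 0 0) (P.cons (P.lf 8202110 0 0) (P.cons (P.lf 5465828 0 0) (P.cons (P.lf 0 697112 0) (P.cons (P.lf 0 54208 0) (P.cons (P.lf 3934 0 0) P.nil)))))) (P.cons (P.cons (P.lf 1190304 0 0) (P.cons (P.lf 1369176 0 0) (P.cons (P.lf 0 576092 0) (P.cons (P.lf 46520 0 0) (P.cons (P.lf 4592 0 0) P.nil))))) (P.cons (P.cons (P.lf 368250 0 0) (P.cons (P.lf 155644 0 0) (P.cons (P.lf 0 175398 0) (P.cons (P.lf 17316 0 0) P.nil)))) (P.cons (P.cons (P.lf 0 24936 0) (P.cons (P.lf 0 151802 0) (P.cons (P.lf 13472 0 0) P.nil))) (P.cons (P.cons (P.lf 0 12384 0) (P.cons (P.lf 0 2958 0) P.nil)) (P.cons (P.cons (P.lf 0 3310 0) P.nil) P.nil)))))) 20890)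
 EL.nil)
noncomputable def S198_212_586_660_42 : EL := (EL.cons 14 (TM.mk (P.cons (P.lf 0 469879420 0) (P.cons (P.lf 175190000 0 0) (P.cons (P.lf 0 18244400 0) (P.cons (P.lf 0 85224 0) (P.cons (P.lf 68490 0 0) (P.cons (P.lf 1120 0 0) P.nil)))))) 218)
 EL.nil)
noncomputable def S198_212_586_660_43 : EL := (EL.cons 14 (TM.mk (P.cons (P.cons (P.lf 22521208 0 0) (P.cons (P.lf 32480490 0 0) (P.cons (P.lf 0 1777200 0) (P.lf 0 197466 0)))) (P.cons (P.cons (P.lf 0 884244 0) (P.cons (P.lf 0 9449482 0) (P.cons (P.lf 517036 0 0) (P.lf 57448 0 0)))) (P.cons (P.cons (P.lf 28496 0 0) (P.cons (P.lf 193762 0 0) (P.cons (P.lf 0 10602 0) (P.lf 0 1178 0)))) (P.cons (P.cons (P.lf 0 473842 0) (P.cons (P.lf 125600 0 0) (P.cons (P.lf 0 6872 0) P.nil))) (P.cons (P.cons (P.lf 81564 0 0) (P.cons (P.lf 0 2856 0) P.nil)) (P.cons (P.cons (P.lf 430 0 0) P.nil) P.nil)))))) 3558)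
 EL.nil)
noncomputable def S198_212_586_660_44 : EL := (EL.cons 14 (TM.mk (P.cons (P.cons (P.lf 0 1079436 0) (P.cons (P.lf 0 3113564 0) (P.cons (P.lf 0 2074856 0) (P.cons (P.lf 264626 0 0) (P.cons (P.lf 20576 0 0) (P.cons (P.lf 0 1492 0) P.nil)))))) (P.cons (P.cons (P.lf 0 317692 0) (P.cons (P.lf 0 132792 0) (P.cons (P.lf 476550 0 0) (P.cons (P.lf 0 50546 0) (P.cons (P.lf 0 4300 0) P.nil))))) (P.cons (P.cons (P.lf 0 80932 0) (P.cons (P.lf 13302 0 0) (P.cons (P.lf 44596 0 0) (P.cons (P.lf 0 5040 0) P.nil)))) (P.cons (P.cons (P.lf 27884 0 0) (P.cons (P.lf 66024 0 0) (P.cons (P.lf 0 14098 0) P.nil))) (P.cons (P.cons (P.lf 3834 0 0) (P.cons (P.lf 0 5940 0) P.nil)) (P.cons (P.cons (P.lf 636 0 0) P.nil) P.nil)))))) 13276)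
 EL.nil)
noncomputable def S198_212_586_660_45 : EL := (EL.cons 14 (TM.mk (P.cons (P.cons (P.lf 0 945812 0) (P.cons (P.lf 0 4092208 0) (P.cons (P.lf 0 5677948 0) (P.cons (P.lf 0 2166524 0) (P.cons (P.lf 519820 0 0) (P.cons (P.lf 22338 0 0) P.nil)))))) (P.cons (P.cons (P.lf 0 946506 0) (P.cons (P.lf 0 3065340 0) (P.cons (P.lf 0 2767874 0) (P.cons (P.lf 0 357334 0) (P.cons (P.lf 141352 0 0) P.nil))))) (P.cons (P.cons (P.lf 0 562046 0) (P.cons (P.lf 0 1379964 0) (P.cons (P.lf 0 771542 0) (P.cons (P.lf 63736 0 0) P.nil)))) (P.cons (P.cons (P.lf 0 194308 0) (P.cons (P.lf 0 309886 0) (P.cons (P.lf 0 53872 0) P.nil))) (P.cons (P.cons (P.lf 0 44410 0) (P.cons (P.lf 0 37644 0) P.nil)) (P.cons (P.cons (P.lf 0 5028 0) P.nil) P.nil)))))) 82614)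
 EL.nil)
noncomputable def S198_212_586_660_46 : EL := (EL.cons 15 (TM.mk (P.lf 4294967296 0 0) 0)
 EL.nil)
noncomputable def S198_212_586_660_47 : EL := (EL.cons 15 (TM.mk (P.cons (P.cons (P.lf 0 205856755 0) (P.cons (P.lf 0 296890316 0) (P.cons (P.lf 16244644 0 0) (P.lf 1804956 0 0)))) (P.cons (P.cons (P.lf 0 68669187 0) (P.cons (P.lf 0 24319000 0) (P.cons (P.lf 1330636 0 0) (P.lf 147848 0 0)))) (P.cons (P.cons (P.lf 0 17870148 0) (P.cons (P.lf 689404 0 0) (P.cons (P.lf 0 37720 0) (P.lf 0 4188 0)))) (P.cons (P.cons (P.lf 372095 0 0) (P.cons (P.lf 107076 0 0) (P.cons (P.lf 0 5856 0) P.nil))) (P.cons (P.cons (P.lf 69494 0 0) (P.cons (P.lf 396 0 0) P.nil)) (P.cons (P.cons (P.lf 258 0 0) P.nil) P.nil)))))) 1687)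
 EL.nil)
noncomputable def S198_212_586_660_48 : EL := (EL.cons 15 (TM.mk (P.cons (P.cons (P.lf 9866665 0 0) (P.cons (P.lf 28459763 0 0) (P.cons (P.lf 18965387 0 0) (P.cons (P.lf 0 2418849 0) (P.cons (P.lf 0 188094 0) (P.cons (P.lf 13653 0 0) P.nil)))))) (P.cons (P.cons (P.lf 6582595 0 0) (P.cons (P.lf 11824745 0 0) (P.cons (P.lf 2715107 0 0) (P.cons (P.lf 0 439810 0) (P.cons (P.lf 0 30814 0) P.nil))))) (P.cons (P.cons (P.lf 2810926 0 0) (P.cons (P.lf 3182106 0 0) (P.cons (P.lf 0 131723 0) (P.cons (P.lf 0 23984 0) P.nil)))) (P.cons (P.cons (P.lf 535757 0 0) (P.cons (P.lf 118617 0 0) (P.cons (P.lf 0 29100 0) P.nil))) (P.cons (P.cons (P.lf 55792 0 0) (P.cons (P.lf 0 23020 0) P.nil)) (P.cons (P.cons (P.lf 0 5343 0) P.nil) P.nil)))))) 17348)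
 EL.nil)
noncomputable def S198_212_586_660 : SL := (SL.cons S198_212_586_660_0 (SL.cons S198_212_586_660_1 (SL.cons S198_212_586_660_2 (SL.cons S198_212_586_660_3 (SL.cons S198_212_586_660_4 (SL.cons S198_212_586_660_5 (SL.cons S198_212_586_660_6 (SL.cons S198_212_586_660_7 (SL.cons S198_212_586_660_8 (SL.cons S198_212_586_660_9 (SL.cons S198_212_586_660_10 (SL.cons S198_212_586_660_11 (SL.cons S198_212_586_660_12 (SL.cons S198_212_586_660_13 (SL.cons S198_212_586_660_14 (SL.cons S198_212_586_660_15 (SL.cons S198_212_586_660_16 (SL.cons S198_212_586_660_17 (SL.cons S198_212_586_660_18 (SL.cons S198_212_586_660_19 (SL.cons S198_212_586_660_20 (SL.cons S198_212_586_660_21 (SL.cons S198_212_586_660_22 (SL.cons S198_212_586_660_23 (SL.cons S198_212_586_660_24 (SL.cons S198_212_586_660_25 (SL.cons S198_212_586_660_26 (SL.cons S198_212_586_660_27 (SL.cons S198_212_586_660_28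 (SL.cons S198_212_586_660_29 (SL.cons S198_212_586_660_30 (SL.cons S198_212_586_660_31 (SL.cons S198_212_586_660_32 (SL.cons S198_212_586_660_33 (SL.cons S198_212_586_660_34 (SL.cons S198_212_586_660_35 (SL.cons S198_212_586_660_36 (SL.cons S198_212_586_660_37 (SL.cons S198_212_586_660_38 (SL.cons S198_212_586_660_39 (SL.cons S198_212_586_660_40 (SL.cons S198_212_586_660_41 (SL.cons S198_212_586_660_42 (SL.cons S198_212_586_660_43 (SL.cons S198_212_586_660_44 (SL.cons S198_212_586_660_45 (SL.cons S198_212_586_660_46 (SL.cons S198_212_586_660_47 (SL.cons S198_212_586_660_48 SL.nil)))))))))))))))))))))))))))))))))))))))))))))))))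
noncomputable def S198_212_660_808_0 : EL := (EL.cons 0 (TM.mk (P.cons (P.lf 7367797296 0 0) (P.cons (P.lf 270413532 0 0) (P.cons (P.lf 0 11357528 0) (P.cons (P.lf 0 846949 0) (P.cons (P.lf 7275 0 0) (P.cons (P.lf 1360 0 0) P.nil)))))) 123)
 (EL.cons 1 (TM.mk (P.cons (P.lf 0 1384003233 0) (P.cons (P.lf 134215061 0 0) (P.cons (P.lf 10263551 0 0) (P.cons (P.lf 0 214061 0) (P.cons (P.lf 0 21358 0) (P.cons (P.lf 0 5 0) P.nil)))))) 123)
 (EL.cons 5 (TM.mk (P.cons (P.lf 4681783146 0 0) (P.cons (P.lf 0 96147034 0) (P.cons (P.lf 4038232 0 0) (P.cons (P.lf 301136 0 0) (P.cons (P.lf 0 2584 0) (P.cons (P.lf 0 484 0) P.nil)))))) 121)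
 (EL.cons 9 (TM.mk (P.lf 6442450944 0 0) 2)
 EL.nil))))
noncomputable def S198_212_660_808_1 : EL := (EL.cons 0 (TM.mk (P.cons (P.cons (P.lf 0 380898309 0) (P.cons (P.lf 0 287979582 0) (P.cons (P.lf 124180046 0 0) (P.lf 13797786 0 0)))) (P.cons (P.cons (P.lf 0 98911058 0) (P.cons (P.lf 0 99488553 0) (P.cons (P.lf 42900583 0 0) (P.lf 4766723 0 0)))) (P.cons (P.cons (P.lf 0 90050789 0) (P.cons (P.lf 0 2360566 0) (P.cons (P.lf 1017901 0 0) (P.lf 113093 0 0)))) (P.cons (P.cons (P.lf 0 1548207 0) (P.cons (P.lf 778947 0 0) (P.cons (P.lf 0 335885 0) P.nil))) (P.cons (P.cons (P.lf 675299 0 0) (P.cons (P.lf 37780 0 0) P.nil)) (P.cons (P.cons (P.lf 24614 0 0) P.nil) P.nil)))))) 91248)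
 (EL.cons 1 (TM.mk (P.cons (P.cons (P.lf 869120694 0 0) (P.cons (P.lf 210783989 0 0) (P.cons (P.lf 0 90892430 0) (P.lf 0 10099153 0)))) (P.cons (P.cons (P.lf 235482722 0 0) (P.cons (P.lf 6527472 0 0) (P.cons (P.lf 0 2814720 0) (P.lf 0 312747 0)))) (P.cons (P.cons (P.lf 5622716 0 0) (P.cons (P.lf 0 4810480 0) (P.cons (P.lf 2074324 0 0) (P.lf 230472 0 0)))) (P.cons (P.cons (P.lf 0 4510028 0) (P.cons (P.lf 0 238369 0) (P.cons (P.lf 102783 0 0) P.nil))) (P.cons (P.cons (P.lf 0 164246 0) (P.cons (P.lf 24276 0 0) P.nil)) (P.cons (P.cons (P.lf 21689 0 0) P.nil) P.nil)))))) 49312)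
 (EL.cons 5 (TM.mk (P.cons (P.cons (P.lf 0 1397275830 0) (P.cons (P.lf 0 409948178 0) (P.cons (P.lf 176774284 0 0) (P.lf 19641582 0 0)))) (P.cons (P.cons (P.lf 0 178451146 0) (P.cons (P.lf 0 6593378 0) (P.cons (P.lf 2843144 0 0) (P.lf 315908 0 0)))) (P.cons (P.cons (P.lf 4385270 0 0) (P.cons (P.lf 2029018 0 0) (P.cons (P.lf 0 874936 0) (P.lf 0 97216 0)))) (P.cons (P.cons (P.lf 1609620 0 0) (P.cons (P.lf 0 92172 0) (P.cons (P.lf 39742 0 0) P.nil))) (P.cons (P.cons (P.lf 0 120375 0) (P.cons (P.lf 0 12740 0) P.nil)) (P.cons (P.cons (P.lf 0 9217 0) P.nil) P.nil)))))) 50011)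
 (EL.cons 9 (TM.mk (P.cons (P.cons (P.lf 0 1352387944 0) (P.cons (P.lf 0 452065512 0) (P.cons (P.lf 194935746 0 0) (P.lf 21659526 0 0)))) (P.cons (P.cons (P.lf 0 188487808 0) (P.cons (P.lf 0 37029774 0) (P.cons (P.lf 15967656 0 0) (P.lf 1774182 0 0)))) (P.cons (P.cons (P.lf 0 24381870 0) (P.cons (P.lf 1049736 0 0) (P.cons (P.lf 0 452652 0) (P.lf 0 50292 0)))) (P.cons (P.cons (P.lf 934534 0 0) (P.cons (P.lf 163038 0 0) (P.cons (P.lf 0 70302 0) P.nil))) (P.cons (P.cons (P.lf 105639 0 0) (P.cons (P.lf 606 0 0) P.nil)) (P.cons (P.cons (P.lf 0 411 0) P.nil) P.nil)))))) 12107)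
 (EL.cons 2 (TM.mk (P.cons (P.cons (P.lf 371257644 0 0) (P.cons (P.lf 0 345860839 0) (P.cons (P.lf 0 35496570 0) (P.cons (P.lf 7382297 0 0) (P.lf 615189 0 0))))) (P.cons (P.cons (P.lf 0 25866199 0) (P.cons (P.lf 24096760 0 0) (P.cons (P.lf 2473110 0 0) (P.cons (P.lf 0 514335 0) (P.lf 0 42859 0))))) (P.cons (P.cons (P.lf 0 4300363 0) (P.cons (P.lf 4006186 0 0) (P.cons (P.lf 411162 0 0) (P.cons (P.lf 0 85508 0) P.nil)))) (P.cons (P.cons (P.lf 20610 0 0) (P.cons (P.lf 0 19200 0) (P.cons (P.lf 0 1968 0) P.nil))) (P.cons (P.cons (P.lf 13353 0 0) (P.cons (P.lf 0 12439 0) P.nil)) (P.cons (P.cons (P.lf 180 0 0) P.nil) P.nil)))))) 14797)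
 (EL.cons 6 (TM.mk (P.cons (P.cons (P.lf 472297581 0 0) (P.cons (P.lf 0 439988889 0) (P.cons (P.lf 0 45157173 0) (P.cons (P.lf 9391434 0 0) (P.lf 782616 0 0))))) (P.cons (P.cons (P.lf 38687034 0 0) (P.cons (P.lf 0 36040551 0) (P.cons (P.lf 0 3698931 0) (P.cons (P.lf 769272 0 0) (P.lf 64104 0 0))))) (P.cons (P.cons (P.lf 0 1096719 0) (P.cons (P.lf 1021695 0 0) (P.cons (P.lf 104856 0 0) (P.cons (P.lf 0 21807 0) P.nil)))) (P.cons (P.cons (P.lf 0 170340 0) (P.cons (P.lf 158688 0 0) (P.cons (P.lf 16284 0 0) P.nil))) (P.cons (P.cons (P.lf 0 633 0) (P.cons (P.lf 588 0 0) P.nil)) (P.cons (P.cons (P.lf 360 0 0) P.nil) P.nil)))))) 9132)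
 EL.nil))))))
noncomputable def S198_212_660_808_2 : EL := (EL.cons 0 (TM.mk (P.cons (P.cons (P.lf 0 164751887 0) (P.cons (P.lf 0 42694694 0) (P.cons (P.lf 22547800 0 0) (P.cons (P.lf 0 1522567 0) (P.cons (P.lf 372864 0 0) (P.cons (P.lf 170963 0 0) P.nil)))))) (P.cons (P.cons (P.lf 0 38601763 0) (P.cons (P.lf 20882140 0 0) (P.cons (P.lf 993420 0 0) (P.cons (P.lf 0 9623043 0) (P.cons (P.lf 900996 0 0) P.nil))))) (P.cons (P.cons (P.lf 25642932 0 0) (P.cons (P.lf 15327463 0 0) (P.cons (P.lf 0 5465390 0) (P.cons (P.lf 0 1720961 0) P.nil)))) (P.cons (P.cons (P.lf 4890211 0 0) (P.cons (P.lf 1542426 0 0) (P.cons (P.lf 0 743737 0) P.nil))) (P.cons (P.cons (P.lf 449655 0 0) (P.cons (P.lf 0 130173 0) P.nil)) (P.cons (P.cons (P.lf 0 48452 0) P.nil) P.nil)))))) 1704180)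
 (EL.cons 1 (TM.mk (P.cons (P.cons (P.lf 0 303901542 0) (P.cons (P.lf 0 169694346 0) (P.cons (P.lf 50407329 0 0) (P.cons (P.lf 27765036 0 0) (P.cons (P.lf 0 2051704 0) (P.cons (P.lf 0 940736 0) P.nil)))))) (P.cons (P.cons (P.lf 0 138634494 0) (P.cons (P.lf 0 53044473 0) (P.cons (P.lf 19989780 0 0) (P.cons (P.lf 5028356 0 0) (P.cons (P.lf 0 259860 0) P.nil))))) (P.cons (P.cons (P.lf 0 21435353 0) (P.cons (P.lf 0 3242085 0) (P.cons (P.lf 1922051 0 0) (P.cons (P.lf 0 296599 0) P.nil)))) (P.cons (P.cons (P.lf 0 188352 0) (P.cons (P.lf 918619 0 0) (P.cons (P.lf 0 310671 0) P.nil))) (P.cons (P.cons (P.lf 342599 0 0) (P.cons (P.lf 121893 0 0) P.nil)) (P.cons (P.cons (P.lf 40347 0 0) P.nil) P.nil)))))) 876679)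
 (EL.cons 5 (TM.mk (P.cons (P.cons (P.lf 380321458 0 0) (P.cons (P.lf 230279738 0 0) (P.cons (P.lf 0 64819428 0) (P.cons (P.lf 0 40769400 0) (P.cons (P.lf 3107253 0 0) (P.cons (P.lf 1424720 0 0) P.nil)))))) (P.cons (P.cons (P.lf 103410331 0 0) (P.cons (P.lf 40173819 0 0) (P.cons (P.lf 0 14988617 0) (P.cons (P.lf 0 3938411 0) (P.cons (P.lf 210420 0 0) P.nil))))) (P.cons (P.cons (P.lf 8733673 0 0) (P.cons (P.lf 384410 0 0) (P.cons (P.lf 0 498256 0) (P.cons (P.lf 268318 0 0) P.nil)))) (P.cons (P.cons (P.lf 0 566486 0) (P.cons (P.lf 0 526593 0) (P.cons (P.lf 215411 0 0) P.nil))) (P.cons (P.cons (P.lf 0 167533 0) (P.cons (P.lf 0 2804 0) P.nil)) (P.cons (P.cons (P.lf 2400 0 0) P.nil) P.nil)))))) 1136722)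
 (EL.cons 9 (TM.mk (P.cons (P.cons (P.lf 283890892 0 0) (P.cons (P.lf 189793590 0 0) (P.cons (P.lf 0 50119788 0) (P.cons (P.lf 0 36450664 0) (P.cons (P.lf 2858677 0 0) (P.cons (P.lf 1310748 0 0) P.nil)))))) (P.cons (P.cons (P.lf 79134055 0 0) (P.cons (P.lf 41998753 0 0) (P.cons (P.lf 0 12913591 0) (P.cons (P.lf 0 6494047 0) (P.cons (P.lf 468322 0 0) P.nil))))) (P.cons (P.cons (P.lf 15751015 0 0) (P.cons (P.lf 5147796 0 0) (P.cons (P.lf 0 2154270 0) (P.cons (P.lf 0 303150 0) P.nil)))) (P.cons (P.cons (P.lf 1034335 0 0) (P.cons (P.lf 19257 0 0) (P.cons (P.lf 0 43252 0) P.nil))) (P.cons (P.cons (P.lf 0 6759 0) (P.cons (P.lf 0 43308 0) P.nil)) (P.cons (P.cons (P.lf 0 13081 0) P.nil) P.nil)))))) 517906)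
 (EL.cons 2 (TM.mk (P.cons (P.cons (P.lf 0 155867495 0) (P.cons (P.lf 93102840 0 0) (P.cons (P.lf 85907761 0 0) (P.cons (P.lf 0 16551568 0) (P.cons (P.lf 0 5767987 0) (P.cons (P.lf 121730 0 0) P.nil)))))) (P.cons (P.cons (P.lf 0 10864310 0) (P.cons (P.lf 9483350 0 0) (P.cons (P.lf 1907893 0 0) (P.cons (P.lf 0 380694 0) (P.cons (P.lf 0 85443 0) P.nil))))) (P.cons (P.cons (P.lf 508893 0 0) (P.cons (P.lf 547756 0 0) (P.cons (P.lf 0 1441226 0) (P.cons (P.lf 273943 0 0) P.nil)))) (P.cons (P.cons (P.lf 546468 0 0) (P.cons (P.lf 0 452182 0) (P.cons (P.lf 0 129796 0) P.nil))) (P.cons (P.cons (P.lf 30403 0 0) (P.cons (P.lf 0 33075 0) P.nil)) (P.cons (P.cons (P.lf 0 3155 0) P.nil) P.nil)))))) 384243)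
 (EL.cons 6 (TM.mk (P.cons (P.cons (P.lf 0 198287748 0) (P.cons (P.lf 118441326 0 0) (P.cons (P.lf 109288062 0 0) (P.cons (P.lf 0 21056172 0) (P.cons (P.lf 0 7337778 0) (P.cons (P.lf 154860 0 0) P.nil)))))) (P.cons (P.cons (P.lf 0 43878396 0) (P.cons (P.lf 30018138 0 0) (P.cons (P.lf 18993486 0 0) (P.cons (P.lf 0 3676086 0) (P.cons (P.lf 0 1220982 0) P.nil))))) (P.cons (P.cons (P.lf 0 5378178 0) (P.cons (P.lf 4873368 0 0) (P.cons (P.lf 700788 0 0) (P.cons (P.lf 0 142284 0) P.nil)))) (P.cons (P.cons (P.lf 0 20112 0) (P.cons (P.lf 91764 0 0) (P.cons (P.lf 0 97590 0) P.nil))) (P.cons (P.cons (P.lf 45240 0 0) (P.cons (P.lf 0 38412 0) P.nil)) (P.cons (P.cons (P.lf 2058 0 0) P.nil) P.nil)))))) 479778)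
 EL.nil))))))
noncomputable def S198_212_660_808_3 : EL := (EL.cons 0 (TM.mk (P.cons (P.lf 1087919567 0 0) (P.cons (P.lf 0 270413532 0) (P.cons (P.lf 11357528 0 0) (P.cons (P.lf 846949 0 0) (P.cons (P.lf 0 7275 0) (P.cons (P.lf 0 1360 0) P.nil)))))) 123)
 (EL.cons 1 (TM.mk (P.cons (P.lf 1384003233 0 0) (P.cons (P.lf 0 134215061 0) (P.cons (P.lf 0 10263551 0) (P.cons (P.lf 214061 0 0) (P.cons (P.lf 21358 0 0) (P.cons (P.lf 5 0 0) P.nil)))))) 123)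
 (EL.cons 5 (TM.mk (P.cons (P.lf 1760667798 0 0) (P.cons (P.lf 96147034 0 0) (P.cons (P.lf 0 4038232 0) (P.cons (P.lf 0 301136 0) (P.cons (P.lf 2584 0 0) (P.cons (P.lf 484 0 0) P.nil)))))) 114)
 EL.nil)))
noncomputable def S198_212_660_808_4 : EL := (EL.cons 0 (TM.mk (P.cons (P.cons (P.lf 0 228374156 0) (P.cons (P.lf 0 76339100 0) (P.cons (P.lf 32918280 0 0) (P.lf 3657585 0 0)))) (P.cons (P.cons (P.lf 24935296 0 0) (P.cons (P.lf 12721744 0 0) (P.cons (P.lf 0 5485758 0) (P.lf 0 609528 0)))) (P.cons (P.cons (P.lf 1410076 0 0) (P.cons (P.lf 934586 0 0) (P.cons (P.lf 0 403003 0) (P.lf 0 44776 0)))) (P.cons (P.cons (P.lf 671129 0 0) (P.cons (P.lf 0 141240 0) (P.cons (P.lf 60902 0 0) P.nil))) (P.cons (P.cons (P.lf 0 87621 0) (P.cons (P.lf 0 9247 0) P.nil)) (P.cons (P.cons (P.lf 0 5561 0) P.nil) P.nil)))))) 18469)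
 (EL.cons 1 (TM.mk (P.cons (P.cons (P.lf 0 290527518 0) (P.cons (P.lf 0 97115231 0) (P.cons (P.lf 41877181 0 0) (P.lf 4653018 0 0)))) (P.cons (P.cons (P.lf 0 12317812 0) (P.cons (P.lf 1462901 0 0) (P.cons (P.lf 0 630819 0) (P.lf 0 70089 0)))) (P.cons (P.cons (P.lf 843406 0 0) (P.cons (P.lf 1717138 0 0) (P.cons (P.lf 0 740446 0) (P.lf 0 82269 0)))) (P.cons (P.cons (P.lf 964053 0 0) (P.cons (P.lf 57125 0 0) (P.cons (P.lf 0 24631 0) P.nil))) (P.cons (P.cons (P.lf 31320 0 0) (P.cons (P.lf 0 7666 0) P.nil)) (P.cons (P.cons (P.lf 0 5212 0) P.nil) P.nil)))))) 13149)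
 (EL.cons 5 (TM.mk (P.cons (P.cons (P.lf 0 369596278 0) (P.cons (P.lf 0 123545710 0) (P.cons (P.lf 53274302 0 0) (P.lf 5919366 0 0)))) (P.cons (P.cons (P.lf 0 71695152 0) (P.cons (P.lf 0 16866544 0) (P.cons (P.lf 7273042 0 0) (P.lf 808114 0 0)))) (P.cons (P.cons (P.lf 0 8628650 0) (P.cons (P.lf 17612 0 0) (P.cons (P.lf 0 7592 0) (P.lf 0 842 0)))) (P.cons (P.cons (P.lf 72886 0 0) (P.cons (P.lf 104562 0 0) (P.cons (P.lf 0 45088 0) P.nil))) (P.cons (P.cons (P.lf 66366 0 0) (P.cons (P.lf 3488 0 0) P.nil)) (P.cons (P.cons (P.lf 1840 0 0) P.nil) P.nil)))))) 9422)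
 EL.nil)))
noncomputable def S198_212_660_808_5 : EL := (EL.cons 0 (TM.mk (P.cons (P.cons (P.lf 47939899 0 0) (P.cons (P.lf 32049938 0 0) (P.cons (P.lf 0 8463594 0) (P.cons (P.lf 0 6155326 0) (P.cons (P.lf 482735 0 0) (P.cons (P.lf 221341 0 0) P.nil)))))) (P.cons (P.cons (P.lf 1447203 0 0) (P.cons (P.lf 0 874121 0) (P.cons (P.lf 0 76969 0) (P.cons (P.lf 433335 0 0) (P.cons (P.lf 0 40904 0) P.nil))))) (P.cons (P.cons (P.lf 0 161238 0) (P.cons (P.lf 0 558956 0) (P.cons (P.lf 89887 0 0) (P.cons (P.lf 157127 0 0) P.nil)))) (P.cons (P.cons (P.lf 0 309633 0) (P.cons (P.lf 0 113827 0) (P.cons (P.lf 53762 0 0) P.nil))) (P.cons (P.cons (P.lf 0 6704 0) (P.cons (P.lf 6259 0 0) P.nil)) (P.cons (P.cons (P.lf 1819 0 0) P.nil) P.nil)))))) 235405)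
 (EL.cons 1 (TM.mk (P.cons (P.cons (P.lf 60987024 0 0) (P.cons (P.lf 40772516 0 0) (P.cons (P.lf 0 10767011 0) (P.cons (P.lf 0 7830534 0) (P.cons (P.lf 614115 0 0) (P.cons (P.lf 281581 0 0) P.nil)))))) (P.cons (P.cons (P.lf 11085742 0 0) (P.cons (P.lf 5068451 0 0) (P.cons (P.lf 0 1730026 0) (P.cons (P.lf 0 635713 0) (P.cons (P.lf 41051 0 0) P.nil))))) (P.cons (P.cons (P.lf 1282856 0 0) (P.cons (P.lf 0 71439 0) (P.cons (P.lf 0 113915 0) (P.cons (P.lf 128235 0 0) P.nil)))) (P.cons (P.cons (P.lf 0 222573 0) (P.cons (P.lf 0 163708 0) (P.cons (P.lf 54495 0 0) P.nil))) (P.cons (P.cons (P.lf 0 44521 0) (P.cons (P.lf 0 15879 0) P.nil)) (P.cons (P.cons (P.lf 0 3530 0) P.nil) P.nil)))))) 214942)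
 (EL.cons 5 (TM.mk (P.cons (P.cons (P.lf 77584998 0 0) (P.cons (P.lf 51868996 0 0) (P.cons (P.lf 0 13697316 0) (P.cons (P.lf 0 9961660 0) (P.cons (P.lf 781252 0 0) (P.cons (P.lf 358216 0 0) P.nil)))))) (P.cons (P.cons (P.lf 25863456 0 0) (P.cons (P.lf 14310382 0 0) (P.cons (P.lf 0 4277162 0) (P.cons (P.lf 0 2318756 0) (P.cons (P.lf 170650 0 0) P.nil))))) (P.cons (P.cons (P.lf 5307666 0 0) (P.cons (P.lf 1914670 0 0) (P.cons (P.lf 0 750050 0) (P.cons (P.lf 0 156916 0) P.nil)))) (P.cons (P.cons (P.lf 454870 0 0) (P.cons (P.lf 46890 0 0) (P.cons (P.lf 0 33532 0) P.nil))) (P.cons (P.cons (P.lf 130 0 0) (P.cons (P.lf 0 16660 0) P.nil)) (P.cons (P.cons (P.lf 0 5006 0) P.nil) P.nil)))))) 198828)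
 EL.nil)))
noncomputable def S198_212_660_808_6 : EL := (EL.cons 12 (TM.mk (P.lf 8589934592 0 0) 0)
 (EL.cons 3 (TM.mk (P.cons (P.lf 0 1528492552 0) (P.cons (P.lf 189961226 0 0) (P.cons (P.lf 3825716 0 0) (P.cons (P.lf 0 119508 0) (P.cons (P.lf 0 4953 0) (P.cons (P.lf 41 0 0) P.nil)))))) 52)
 (EL.cons 7 (TM.mk (P.cons (P.lf 0 1944480730 0) (P.cons (P.lf 0 53092371 0) (P.cons (P.lf 2954732 0 0) (P.cons (P.lf 85611 0 0) (P.cons (P.lf 0 1520 0) (P.cons (P.lf 0 96 0) P.nil)))))) 47)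
 EL.nil)))
noncomputable def S198_212_660_808_7 : EL := (EL.cons 12 (TM.mk (P.cons (P.cons (P.lf 0 1803183926 0) (P.cons (P.lf 0 602754016 0) (P.cons (P.lf 259914328 0 0) (P.lf 28879368 0 0)))) (P.cons (P.cons (P.lf 0 251317078 0) (P.cons (P.lf 0 49373032 0) (P.cons (P.lf 21290208 0 0) (P.lf 2365576 0 0)))) (P.cons (P.cons (P.lf 0 32509160 0) (P.cons (P.lf 1399648 0 0) (P.cons (P.lf 0 603536 0) (P.lf 0 67056 0)))) (P.cons (P.cons (P.lf 1246046 0 0) (P.cons (P.lf 217384 0 0) (P.cons (P.lf 0 93736 0) P.nil))) (P.cons (P.cons (P.lf 140852 0 0) (P.cons (P.lf 808 0 0) P.nil)) (P.cons (P.cons (P.lf 0 548 0) P.nil) P.nil)))))) 16118)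
 (EL.cons 3 (TM.mk (P.cons (P.cons (P.lf 0 1316964716 0) (P.cons (P.lf 0 214508040 0) (P.cons (P.lf 92498284 0 0) (P.lf 10277584 0 0)))) (P.cons (P.cons (P.lf 0 442347697 0) (P.cons (P.lf 9088212 0 0) (P.cons (P.lf 0 3918938 0) (P.lf 0 435436 0)))) (P.cons (P.cons (P.lf 19324312 0 0) (P.cons (P.lf 3218714 0 0) (P.cons (P.lf 0 1387942 0) (P.lf 0 154212 0)))) (P.cons (P.cons (P.lf 3410083 0 0) (P.cons (P.lf 42662 0 0) (P.cons (P.lf 0 18394 0) P.nil))) (P.cons (P.cons (P.lf 3261 0 0) (P.cons (P.lf 0 12640 0) P.nil)) (P.cons (P.cons (P.lf 0 10888 0) P.nil) P.nil)))))) 38054)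
 (EL.cons 7 (TM.mk (P.cons (P.cons (P.lf 865938094 0 0) (P.cons (P.lf 226373296 0 0) (P.cons (P.lf 0 97614723 0) (P.lf 0 10846081 0)))) (P.cons (P.cons (P.lf 123632012 0 0) (P.cons (P.lf 0 2540068 0) (P.cons (P.lf 1095306 0 0) (P.lf 121698 0 0)))) (P.cons (P.cons (P.lf 0 14771293 0) (P.cons (P.lf 0 707086 0) (P.cons (P.lf 304906 0 0) (P.lf 33880 0 0)))) (P.cons (P.cons (P.lf 0 277249 0) (P.cons (P.lf 76309 0 0) (P.cons (P.lf 0 32905 0) P.nil))) (P.cons (P.cons (P.lf 92910 0 0) (P.cons (P.lf 3592 0 0) P.nil)) (P.cons (P.cons (P.lf 1913 0 0) P.nil) P.nil)))))) 31664)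
 (EL.cons 10 (TM.mk (P.cons (P.cons (P.lf 0 1043210475 0) (P.cons (P.lf 971847066 0 0) (P.cons (P.lf 99743124 0 0) (P.cons (P.lf 0 20743794 0) (P.lf 0 1728648 0))))) (P.cons (P.cons (P.lf 0 56967924 0) (P.cons (P.lf 53070891 0 0) (P.cons (P.lf 5446800 0 0) (P.cons (P.lf 0 1132782 0) (P.lf 0 94398 0))))) (P.cons (P.cons (P.lf 2392686 0 0) (P.cons (P.lf 0 2229006 0) (P.cons (P.lf 0 228768 0) (P.cons (P.lf 47577 0 0) P.nil)))) (P.cons (P.cons (P.lf 178425 0 0) (P.cons (P.lf 0 166218 0) (P.cons (P.lf 0 17058 0) P.nil))) (P.cons (P.cons (P.lf 0 1530 0) (P.cons (P.lf 1425 0 0) P.nil)) (P.cons (P.cons (P.lf 0 285 0) P.nil) P.nil)))))) 8535)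
 EL.nil))))
noncomputable def S198_212_660_808_8 : EL := (EL.cons 12 (TM.mk (P.cons (P.cons (P.lf 378521190 0 0) (P.cons (P.lf 253058120 0 0) (P.cons (P.lf 0 66826384 0) (P.cons (P.lf 0 48600886 0) (P.cons (P.lf 3811570 0 0) (P.cons (P.lf 1747664 0 0) P.nil)))))) (P.cons (P.cons (P.lf 105512074 0 0) (P.cons (P.lf 55998338 0 0) (P.cons (P.lf 0 17218122 0) (P.cons (P.lf 0 8658730 0) (P.cons (P.lf 624430 0 0) P.nil))))) (P.cons (P.cons (P.lf 21001354 0 0) (P.cons (P.lf 6863728 0 0) (P.cons (P.lf 0 2872360 0) (P.cons (P.lf 0 404200 0) P.nil)))) (P.cons (P.cons (P.lf 1379114 0 0) (P.cons (P.lf 25676 0 0) (P.cons (P.lf 0 57670 0) P.nil))) (P.cons (P.cons (P.lf 0 9012 0) (P.cons (P.lf 0 57744 0) P.nil)) (P.cons (P.cons (P.lf 0 17442 0) P.nil) P.nil)))))) 690512)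
 (EL.cons 3 (TM.mk (P.cons (P.cons (P.lf 620263862 0 0) (P.cons (P.lf 319909757 0 0) (P.cons (P.lf 0 100318727 0) (P.cons (P.lf 0 47780557 0) (P.cons (P.lf 3391151 0 0) (P.cons (P.lf 1554895 0 0) P.nil)))))) (P.cons (P.cons (P.lf 273179031 0 0) (P.cons (P.lf 90322483 0 0) (P.cons (P.lf 0 37460007 0) (P.cons (P.lf 0 5610906 0) (P.cons (P.lf 134100 0 0) P.nil))))) (P.cons (P.cons (P.lf 28973956 0 0) (P.cons (P.lf 1554658 0 0) (P.cons (P.lf 0 1453005 0) (P.cons (P.lf 600450 0 0) P.nil)))) (P.cons (P.cons (P.lf 142930 0 0) (P.cons (P.lf 0 1417433 0) (P.cons (P.lf 547605 0 0) P.nil))) (P.cons (P.cons (P.lf 0 558468 0) (P.cons (P.lf 0 94924 0) P.nil)) (P.cons (P.cons (P.lf 0 33332 0) P.nil) P.nil)))))) 1158227)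
 (EL.cons 7 (TM.mk (P.cons (P.cons (P.lf 0 277867556 0) (P.cons (P.lf 0 159281078 0) (P.cons (P.lf 46488897 0 0) (P.cons (P.lf 26772917 0 0) (P.cons (P.lf 0 2000169 0) (P.cons (P.lf 0 917104 0) P.nil)))))) (P.cons (P.cons (P.lf 0 76350961 0) (P.cons (P.lf 0 25244282 0) (P.cons (P.lf 10469718 0 0) (P.cons (P.lf 1568200 0 0) (P.cons (P.lf 0 37480 0) P.nil))))) (P.cons (P.cons (P.lf 0 2311147 0) (P.cons (P.lf 1478804 0 0) (P.cons (P.lf 0 387421 0) (P.cons (P.lf 0 286675 0) P.nil)))) (P.cons (P.cons (P.lf 698092 0 0) (P.cons (P.lf 413517 0 0) (P.cons (P.lf 0 183075 0) P.nil))) (P.cons (P.cons (P.lf 151562 0 0) (P.cons (P.lf 0 17964 0) P.nil)) (P.cons (P.cons (P.lf 0 9148 0) P.nil) P.nil)))))) 593060)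
 (EL.cons 10 (TM.mk (P.cons (P.cons (P.lf 437977806 0 0) (P.cons (P.lf 0 261613098 0) (P.cons (P.lf 0 241395378 0) (P.cons (P.lf 46508856 0 0) (P.cons (P.lf 16207680 0 0) (P.cons (P.lf 0 342060 0) P.nil)))))) (P.cons (P.cons (P.lf 84959958 0 0) (P.cons (P.lf 0 59160918 0) (P.cons (P.lf 0 35361714 0) (P.cons (P.lf 6849852 0 0) (P.cons (P.lf 2254380 0 0) P.nil))))) (P.cons (P.cons (P.lf 10225092 0 0) (P.cons (P.lf 0 9546492 0) (P.cons (P.lf 0 949194 0) (P.cons (P.lf 197928 0 0) P.nil)))) (P.cons (P.cons (P.lf 0 86370 0) (P.cons (P.lf 0 43446 0) (P.cons (P.lf 177120 0 0) P.nil))) (P.cons (P.cons (P.lf 0 78642 0) (P.cons (P.lf 69126 0 0) P.nil)) (P.cons (P.cons (P.lf 0 2178 0) P.nil) P.nil)))))) 903366)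
 EL.nil))))
noncomputable def S198_212_660_808_9 : EL := (EL.cons 3 (TM.mk (P.cons (P.lf 0 1528492552 0) (P.cons (P.lf 189961226 0 0) (P.cons (P.lf 3825716 0 0) (P.cons (P.lf 0 119508 0) (P.cons (P.lf 0 4953 0) (P.cons (P.lf 41 0 0) P.nil)))))) 52)
 (EL.cons 7 (TM.mk (P.cons (P.lf 0 1944480730 0) (P.cons (P.lf 0 53092371 0) (P.cons (P.lf 2954732 0 0) (P.cons (P.lf 85611 0 0) (P.cons (P.lf 0 1520 0) (P.cons (P.lf 0 96 0) P.nil)))))) 47)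
 EL.nil))
noncomputable def S198_212_660_808_10 : EL := (EL.cons 3 (TM.mk (P.cons (P.cons (P.lf 320858461 0 0) (P.cons (P.lf 107254020 0 0) (P.cons (P.lf 0 46249142 0) (P.lf 0 5138792 0)))) (P.cons (P.cons (P.lf 4843022 0 0) (P.cons (P.lf 0 4544106 0) (P.cons (P.lf 1959469 0 0) (P.lf 217718 0 0)))) (P.cons (P.cons (P.lf 0 576134 0) (P.cons (P.lf 0 1609357 0) (P.cons (P.lf 693971 0 0) (P.lf 77106 0 0)))) (P.cons (P.cons (P.lf 0 1027484 0) (P.cons (P.lf 0 21331 0) (P.cons (P.lf 9197 0 0) P.nil))) (P.cons (P.cons (P.lf 0 7449 0) (P.cons (P.lf 6320 0 0) P.nil)) (P.cons (P.cons (P.lf 4355 0 0) P.nil) P.nil)))))) 9442)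
 (EL.cons 7 (TM.mk (P.cons (P.cons (P.lf 408181966 0 0) (P.cons (P.lf 136443829 0 0) (P.cons (P.lf 0 58836117 0) (P.lf 0 6537346 0)))) (P.cons (P.cons (P.lf 68035037 0 0) (P.cons (P.lf 14901923 0 0) (P.cons (P.lf 0 6425877 0) (P.lf 0 713985 0)))) (P.cons (P.cons (P.lf 8292092 0 0) (P.cons (P.lf 0 219004 0) (P.cons (P.lf 94435 0 0) (P.lf 10492 0 0)))) (P.cons (P.cons (P.lf 0 185551 0) (P.cons (P.lf 0 80849 0) (P.cons (P.lf 34862 0 0) P.nil))) (P.cons (P.cons (P.lf 0 52953 0) (P.cons (P.lf 0 1430 0) P.nil)) (P.cons (P.cons (P.lf 0 577 0) P.nil) P.nil)))))) 6637)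
 EL.nil))
noncomputable def S198_212_660_808_11 : EL := (EL.cons 3 (TM.mk (P.cons (P.cons (P.lf 0 67354042 0) (P.cons (P.lf 0 45029149 0) (P.cons (P.lf 11891083 0 0) (P.cons (P.lf 8648039 0 0) (P.cons (P.lf 0 678229 0) (P.cons (P.lf 0 310979 0) P.nil)))))) (P.cons (P.cons (P.lf 0 10404045 0) (P.cons (P.lf 0 4368113 0) (P.cons (P.lf 1585965 0 0) (P.cons (P.lf 465954 0 0) (P.cons (P.lf 0 26820 0) P.nil))))) (P.cons (P.cons (P.lf 0 1235060 0) (P.cons (P.lf 129742 0 0) (P.cons (P.lf 100575 0 0) (P.cons (P.lf 0 141204 0) P.nil)))) (P.cons (P.cons (P.lf 260758 0 0) (P.cons (P.lf 168637 0 0) (P.cons (P.lf 0 59997 0) P.nil))) (P.cons (P.cons (P.lf 39768 0 0) (P.cons (P.lf 12974 0 0) P.nil)) (P.cons (P.cons (P.lf 3166 0 0) P.nil) P.nil)))))) 212407)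
 (EL.cons 7 (TM.mk (P.cons (P.cons (P.lf 0 85684838 0) (P.cons (P.lf 0 57284096 0) (P.cons (P.lf 15127311 0 0) (P.cons (P.lf 11001653 0 0) (P.cons (P.lf 0 862815 0) (P.cons (P.lf 0 395614 0) P.nil)))))) (P.cons (P.cons (P.lf 0 26224039 0) (P.cons (P.lf 0 14240288 0) (P.cons (P.lf 4310658 0 0) (P.cons (P.lf 2260444 0 0) (P.cons (P.lf 0 164908 0) P.nil))))) (P.cons (P.cons (P.lf 0 5275963 0) (P.cons (P.lf 0 1812790 0) (P.cons (P.lf 733643 0 0) (P.cons (P.lf 128297 0 0) P.nil)))) (P.cons (P.cons (P.lf 0 401924 0) (P.cons (P.lf 0 26451 0) (P.cons (P.lf 24219 0 0) P.nil))) (P.cons (P.cons (P.lf 1724 0 0) (P.cons (P.lf 15786 0 0) P.nil)) (P.cons (P.cons (P.lf 4664 0 0) P.nil) P.nil)))))) 186088)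
 EL.nil))
noncomputable def S198_212_660_808_12 : EL := (EL.cons 4 (TM.mk (P.cons (P.lf 1528492552 0 0) (P.cons (P.lf 0 189961226 0) (P.cons (P.lf 0 3825716 0) (P.cons (P.lf 119508 0 0) (P.cons (P.lf 4953 0 0) (P.cons (P.lf 0 41 0) P.nil)))))) 52)
 (EL.cons 8 (TM.mk (P.cons (P.lf 1944480730 0 0) (P.cons (P.lf 53092371 0 0) (P.cons (P.lf 0 2954732 0) (P.cons (P.lf 0 85611 0) (P.cons (P.lf 1520 0 0) (P.cons (P.lf 96 0 0) P.nil)))))) 47)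
 EL.nil))
noncomputable def S198_212_660_808_13 : EL := (EL.cons 4 (TM.mk (P.cons (P.cons (P.lf 0 320858461 0) (P.cons (P.lf 0 107254020 0) (P.cons (P.lf 46249142 0 0) (P.lf 5138792 0 0)))) (P.cons (P.cons (P.lf 0 4843022 0) (P.cons (P.lf 4544106 0 0) (P.cons (P.lf 0 1959469 0) (P.lf 0 217718 0)))) (P.cons (P.cons (P.lf 576134 0 0) (P.cons (P.lf 1609357 0 0) (P.cons (P.lf 0 693971 0) (P.lf 0 77106 0)))) (P.cons (P.cons (P.lf 1027484 0 0) (P.cons (P.lf 21331 0 0) (P.cons (P.lf 0 9197 0) P.nil))) (P.cons (P.cons (P.lf 7449 0 0) (P.cons (P.lf 0 6320 0) P.nil)) (P.cons (P.cons (P.lf 0 4355 0) P.nil) P.nil)))))) 9442)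
 (EL.cons 8 (TM.mk (P.cons (P.cons (P.lf 0 408181966 0) (P.cons (P.lf 0 136443829 0) (P.cons (P.lf 58836117 0 0) (P.lf 6537346 0 0)))) (P.cons (P.cons (P.lf 0 68035037 0) (P.cons (P.lf 0 14901923 0) (P.cons (P.lf 6425877 0 0) (P.lf 713985 0 0)))) (P.cons (P.cons (P.lf 0 8292092 0) (P.cons (P.lf 219004 0 0) (P.cons (P.lf 0 94435 0) (P.lf 0 10492 0)))) (P.cons (P.cons (P.lf 185551 0 0) (P.cons (P.lf 80849 0 0) (P.cons (P.lf 0 34862 0) P.nil))) (P.cons (P.cons (P.lf 52953 0 0) (P.cons (P.lf 1430 0 0) P.nil)) (P.cons (P.cons (P.lf 577 0 0) P.nil) P.nil)))))) 6637)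
 EL.nil))
noncomputable def S198_212_660_808_14 : EL := (EL.cons 4 (TM.mk (P.cons (P.cons (P.lf 67354042 0 0) (P.cons (P.lf 45029149 0 0) (P.cons (P.lf 0 11891083 0) (P.cons (P.lf 0 8648039 0) (P.cons (P.lf 678229 0 0) (P.cons (P.lf 310979 0 0) P.nil)))))) (P.cons (P.cons (P.lf 10404045 0 0) (P.cons (P.lf 4368113 0 0) (P.cons (P.lf 0 1585965 0) (P.cons (P.lf 0 465954 0) (P.cons (P.lf 26820 0 0) P.nil))))) (P.cons (P.cons (P.lf 1235060 0 0) (P.cons (P.lf 0 129742 0) (P.cons (P.lf 0 100575 0) (P.cons (P.lf 141204 0 0) P.nil)))) (P.cons (P.cons (P.lf 0 260758 0) (P.cons (P.lf 0 168637 0) (P.cons (P.lf 59997 0 0) P.nil))) (P.cons (P.cons (P.lf 0 39768 0) (P.cons (P.lf 0 12974 0) P.nil)) (P.cons (P.cons (P.lf 0 3166 0) P.nil) P.nil)))))) 212407)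
 (EL.cons 8 (TM.mk (P.cons (P.cons (P.lf 85684838 0 0) (P.cons (P.lf 57284096 0 0) (P.cons (P.lf 0 15127311 0) (P.cons (P.lf 0 11001653 0) (P.cons (P.lf 862815 0 0) (P.cons (P.lf 395614 0 0) P.nil)))))) (P.cons (P.cons (P.lf 26224039 0 0) (P.cons (P.lf 14240288 0 0) (P.cons (P.lf 0 4310658 0) (P.cons (P.lf 0 2260444 0) (P.cons (P.lf 164908 0 0) P.nil))))) (P.cons (P.cons (P.lf 5275963 0 0) (P.cons (P.lf 1812790 0 0) (P.cons (P.lf 0 733643 0) (P.cons (P.lf 0 128297 0) P.nil)))) (P.cons (P.cons (P.lf 401924 0 0) (P.cons (P.lf 26451 0 0) (P.cons (P.lf 0 24219 0) P.nil))) (P.cons (P.cons (P.lf 0 1724 0) (P.cons (P.lf 0 15786 0) P.nil)) (P.cons (P.cons (P.lf 0 4664 0) P.nil) P.nil)))))) 186088)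
 EL.nil))
noncomputable def S198_212_660_808_15 : EL := (EL.cons 4 (TM.mk (P.cons (P.lf 0 580223769 0) (P.cons (P.lf 144220550 0 0) (P.cons (P.lf 0 6057348 0) (P.cons (P.lf 0 451706 0) (P.cons (P.lf 3880 0 0) (P.cons (P.lf 725 0 0) P.nil)))))) 68)
 (EL.cons 8 (TM.mk (P.cons (P.lf 0 738135058 0) (P.cons (P.lf 71581366 0 0) (P.cons (P.lf 5473894 0 0) (P.cons (P.lf 0 114166 0) (P.cons (P.lf 0 11391 0) (P.cons (P.lf 0 3 0) P.nil)))))) 62)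
 EL.nil))
noncomputable def S198_212_660_808_16 : EL := (EL.cons 4 (TM.mk (P.cons (P.cons (P.lf 121799550 0 0) (P.cons (P.lf 40714186 0 0) (P.cons (P.lf 0 17556416 0) (P.lf 0 1950712 0)))) (P.cons (P.cons (P.lf 0 13298824 0) (P.cons (P.lf 0 6784930 0) (P.cons (P.lf 2925737 0 0) (P.lf 325081 0 0)))) (P.cons (P.cons (P.lf 0 752040 0) (P.cons (P.lf 0 498446 0) (P.cons (P.lf 214935 0 0) (P.lf 23880 0 0)))) (P.cons (P.cons (P.lf 0 357935 0) (P.cons (P.lf 75328 0 0) (P.cons (P.lf 0 32481 0) P.nil))) (P.cons (P.cons (P.lf 46731 0 0) (P.cons (P.lf 4932 0 0) P.nil)) (P.cons (P.cons (P.lf 2966 0 0) P.nil) P.nil)))))) 9859)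
 (EL.cons 8 (TM.mk (P.cons (P.cons (P.lf 154948010 0 0) (P.cons (P.lf 51794790 0 0) (P.cons (P.lf 0 22334497 0) (P.lf 0 2481610 0)))) (P.cons (P.cons (P.lf 6569500 0 0) (P.cons (P.lf 0 780214 0) (P.cons (P.lf 336437 0 0) (P.lf 37381 0 0)))) (P.cons (P.cons (P.lf 0 449817 0) (P.cons (P.lf 0 915807 0) (P.cons (P.lf 394905 0 0) (P.lf 43877 0 0)))) (P.cons (P.cons (P.lf 0 514162 0) (P.cons (P.lf 0 30467 0) (P.cons (P.lf 13137 0 0) P.nil))) (P.cons (P.cons (P.lf 0 16704 0) (P.cons (P.lf 4089 0 0) P.nil)) (P.cons (P.cons (P.lf 2780 0 0) P.nil) P.nil)))))) 7003)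
 EL.nil))
noncomputable def S198_212_660_808_17 : EL := (EL.cons 4 (TM.mk (P.cons (P.cons (P.lf 0 25567946 0) (P.cons (P.lf 0 17093300 0) (P.cons (P.lf 4513917 0 0) (P.cons (P.lf 3282840 0 0) (P.cons (P.lf 0 257459 0) (P.cons (P.lf 0 118049 0) P.nil)))))) (P.cons (P.cons (P.lf 0 771841 0) (P.cons (P.lf 466198 0 0) (P.cons (P.lf 41050 0 0) (P.cons (P.lf 0 231112 0) (P.cons (P.lf 21815 0 0) P.nil))))) (P.cons (P.cons (P.lf 85994 0 0) (P.cons (P.lf 298110 0 0) (P.cons (P.lf 0 47940 0) (P.cons (P.lf 0 83801 0) P.nil)))) (P.cons (P.cons (P.lf 165137 0 0) (P.cons (P.lf 60707 0 0) (P.cons (P.lf 0 28673 0) P.nil))) (P.cons (P.cons (P.lf 3575 0 0) (P.cons (P.lf 0 3338 0) P.nil)) (P.cons (P.cons (P.lf 0 970 0) P.nil) P.nil)))))) 125559)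
 (EL.cons 8 (TM.mk (P.cons (P.cons (P.lf 0 32526413 0) (P.cons (P.lf 0 21745342 0) (P.cons (P.lf 5742406 0 0) (P.cons (P.lf 4176285 0 0) (P.cons (P.lf 0 327528 0) (P.cons (P.lf 0 150177 0) P.nil)))))) (P.cons (P.cons (P.lf 0 5912396 0) (P.cons (P.lf 0 2703174 0) (P.cons (P.lf 922681 0 0) (P.cons (P.lf 339047 0 0) (P.cons (P.lf 0 21894 0) P.nil))))) (P.cons (P.cons (P.lf 0 684190 0) (P.cons (P.lf 38101 0 0) (P.cons (P.lf 60755 0 0) (P.cons (P.lf 0 68392 0) P.nil)))) (P.cons (P.cons (P.lf 118706 0 0) (P.cons (P.lf 87311 0 0) (P.cons (P.lf 0 29064 0) P.nil))) (P.cons (P.cons (P.lf 23745 0 0) (P.cons (P.lf 8469 0 0) P.nil)) (P.cons (P.cons (P.lf 1883 0 0) P.nil) P.nil)))))) 114624)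
 EL.nil))
noncomputable def S198_212_660_808_18 : EL := (EL.cons 4 (TM.mk (P.cons (P.lf 220255978 0 0) (P.cons (P.lf 0 82120312 0) (P.cons (P.lf 8552062 0 0) (P.cons (P.lf 39948 0 0) (P.cons (P.lf 0 32104 0) (P.cons (P.lf 0 525 0) P.nil)))))) 109)
 (EL.cons 8 (TM.mk (P.cons (P.lf 280199929 0 0) (P.cons (P.lf 0 61995939 0) (P.cons (P.lf 597780 0 0) (P.cons (P.lf 391501 0 0) (P.cons (P.lf 2922 0 0) (P.cons (P.lf 0 902 0) P.nil)))))) 74)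
 EL.nil))
noncomputable def S198_212_660_808_19 : EL := (EL.cons 4 (TM.mk (P.cons (P.cons (P.lf 0 46235745 0) (P.cons (P.lf 0 15455318 0) (P.cons (P.lf 6664507 0 0) (P.lf 740500 0 0)))) (P.cons (P.cons (P.lf 10794486 0 0) (P.cons (P.lf 4496383 0 0) (P.cons (P.lf 0 1938890 0) (P.lf 0 215431 0)))) (P.cons (P.cons (P.lf 0 226199 0) (P.cons (P.lf 0 92198 0) (P.cons (P.lf 39756 0 0) (P.lf 4417 0 0)))) (P.cons (P.cons (P.lf 84144 0 0) (P.cons (P.lf 0 59764 0) (P.cons (P.lf 25770 0 0) P.nil))) (P.cons (P.cons (P.lf 0 35095 0) (P.cons (P.lf 1358 0 0) P.nil)) (P.cons (P.cons (P.lf 778 0 0) P.nil) P.nil)))))) 7506)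
 (EL.cons 8 (TM.mk (P.cons (P.cons (P.lf 0 58819074 0) (P.cons (P.lf 0 19661573 0) (P.cons (P.lf 8478292 0 0) (P.lf 942032 0 0)))) (P.cons (P.cons (P.lf 4816224 0 0) (P.cons (P.lf 2739715 0 0) (P.cons (P.lf 0 1181396 0) (P.lf 0 131266 0)))) (P.cons (P.cons (P.lf 627905 0 0) (P.cons (P.lf 360048 0 0) (P.cons (P.lf 0 155256 0) (P.lf 0 17250 0)))) (P.cons (P.cons (P.lf 175600 0 0) (P.cons (P.lf 0 33918 0) (P.cons (P.lf 14625 0 0) P.nil))) (P.cons (P.cons (P.lf 0 18728 0) (P.cons (P.lf 0 3900 0) P.nil)) (P.cons (P.cons (P.lf 0 2325 0) P.nil) P.nil)))))) 6442)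
 EL.nil))
noncomputable def S198_212_660_808_20 : EL := (EL.cons 4 (TM.mk (P.cons (P.cons (P.lf 9705725 0 0) (P.cons (P.lf 6488705 0 0) (P.cons (P.lf 0 1713506 0) (P.cons (P.lf 0 1246183 0) (P.cons (P.lf 97732 0 0) (P.cons (P.lf 44811 0 0) P.nil)))))) (P.cons (P.cons (P.lf 0 913232 0) (P.cons (P.lf 0 983387 0) (P.cons (P.lf 197370 0 0) (P.cons (P.lf 242607 0 0) (P.cons (P.lf 0 20427 0) P.nil))))) (P.cons (P.cons (P.lf 0 93349 0) (P.cons (P.lf 0 107410 0) (P.cons (P.lf 24423 0 0) (P.cons (P.lf 24027 0 0) P.nil)))) (P.cons (P.cons (P.lf 0 58604 0) (P.cons (P.lf 0 8030 0) (P.cons (P.lf 8527 0 0) P.nil))) (P.cons (P.cons (P.lf 6569 0 0) (P.cons (P.lf 4421 0 0) P.nil)) (P.cons (P.cons (P.lf 691 0 0) P.nil) P.nil)))))) 72420)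
 (EL.cons 8 (TM.mk (P.cons (P.cons (P.lf 12347196 0 0) (P.cons (P.lf 8254645 0 0) (P.cons (P.lf 0 2179847 0) (P.cons (P.lf 0 1585339 0) (P.cons (P.lf 124331 0 0) (P.cons (P.lf 57007 0 0) P.nil)))))) (P.cons (P.cons (P.lf 709865 0 0) (P.cons (P.lf 250 0 0) (P.cons (P.lf 0 79342 0) (P.cons (P.lf 68321 0 0) (P.cons (P.lf 0 7140 0) P.nil))))) (P.cons (P.cons (P.lf 0 50112 0) (P.cons (P.lf 0 162652 0) (P.cons (P.lf 25922 0 0) (P.cons (P.lf 45925 0 0) P.nil)))) (P.cons (P.cons (P.lf 0 81991 0) (P.cons (P.lf 0 33268 0) (P.cons (P.lf 14605 0 0) P.nil))) (P.cons (P.cons (P.lf 0 3847 0) (P.cons (P.lf 1046 0 0) P.nil)) (P.cons (P.cons (P.lf 545 0 0) P.nil) P.nil)))))) 66513)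
 EL.nil))
noncomputable def S198_212_660_808_21 : EL := (EL.cons 4 (TM.mk (P.cons (P.cons (P.lf 1637823177 0 0) (P.cons (P.lf 321762060 0 0) (P.cons (P.lf 0 138747426 0) (P.lf 0 15416376 0)))) (P.cons (P.cons (P.lf 447190719 0 0) (P.cons (P.lf 0 13632318 0) (P.cons (P.lf 5878407 0 0) (P.lf 653154 0 0)))) (P.cons (P.cons (P.lf 0 19900446 0) (P.cons (P.lf 0 4828071 0) (P.cons (P.lf 2081913 0 0) (P.lf 231318 0 0)))) (P.cons (P.cons (P.lf 0 4437567 0) (P.cons (P.lf 0 63993 0) (P.cons (P.lf 27591 0 0) P.nil))) (P.cons (P.cons (P.lf 0 10710 0) (P.cons (P.lf 18960 0 0) P.nil)) (P.cons (P.cons (P.lf 15243 0 0) P.nil) P.nil)))))) 28593)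
 (EL.cons 8 (TM.mk (P.cons (P.cons (P.lf 0 457756128 0) (P.cons (P.lf 0 89929467 0) (P.cons (P.lf 38778606 0 0) (P.lf 4308735 0 0)))) (P.cons (P.cons (P.lf 0 55596975 0) (P.cons (P.lf 17441991 0 0) (P.cons (P.lf 0 7521183 0) (P.lf 0 835683 0)))) (P.cons (P.cons (P.lf 23063385 0 0) (P.cons (P.lf 488082 0 0) (P.cons (P.lf 0 210471 0) (P.lf 0 23388 0)))) (P.cons (P.cons (P.lf 91698 0 0) (P.cons (P.lf 0 157158 0) (P.cons (P.lf 67767 0 0) P.nil))) (P.cons (P.cons (P.lf 0 145863 0) (P.cons (P.lf 0 5022 0) P.nil)) (P.cons (P.cons (P.lf 0 2490 0) P.nil) P.nil)))))) 25008)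
 (EL.cons 11 (TM.mk (P.cons (P.cons (P.lf 1043210475 0 0) (P.cons (P.lf 0 971847066 0) (P.cons (P.lf 0 99743124 0) (P.cons (P.lf 20743794 0 0) (P.lf 1728648 0 0))))) (P.cons (P.cons (P.lf 56967924 0 0) (P.cons (P.lf 0 53070891 0) (P.cons (P.lf 0 5446800 0) (P.cons (P.lf 1132782 0 0) (P.lf 94398 0 0))))) (P.cons (P.cons (P.lf 0 2392686 0) (P.cons (P.lf 2229006 0 0) (P.cons (P.lf 228768 0 0) (P.cons (P.lf 0 47577 0) P.nil)))) (P.cons (P.cons (P.lf 0 178425 0) (P.cons (P.lf 166218 0 0) (P.cons (P.lf 17058 0 0) P.nil))) (P.cons (P.cons (P.lf 1530 0 0) (P.cons (P.lf 0 1425 0) P.nil)) (P.cons (P.cons (P.lf 285 0 0) P.nil) P.nil)))))) 8535)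
 EL.nil)))
noncomputable def S198_212_660_808_22 : EL := (EL.cons 4 (TM.mk (P.cons (P.cons (P.lf 0 343808952 0) (P.cons (P.lf 0 182469453 0) (P.cons (P.lf 56104905 0 0) (P.cons (P.lf 28214298 0 0) (P.cons (P.lf 0 2034690 0) (P.cons (P.lf 0 932937 0) P.nil)))))) (P.cons (P.cons (P.lf 0 141791538 0) (P.cons (P.lf 0 47345298 0) (P.cons (P.lf 19522986 0 0) (P.cons (P.lf 3038430 0 0) (P.cons (P.lf 0 80460 0) P.nil))))) (P.cons (P.cons (P.lf 0 15104508 0) (P.cons (P.lf 0 712458 0) (P.cons (P.lf 776790 0 0) (P.cons (P.lf 0 370827 0) P.nil)))) (P.cons (P.cons (P.lf 58914 0 0) (P.cons (P.lf 793035 0 0) (P.cons (P.lf 0 303801 0) P.nil))) (P.cons (P.cons (P.lf 299118 0 0) (P.cons (P.lf 53949 0 0) P.nil)) (P.cons (P.cons (P.lf 18249 0 0) P.nil) P.nil)))))) 472899)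
 (EL.cons 8 (TM.mk (P.cons (P.cons (P.lf 96091359 0 0) (P.cons (P.lf 50998491 0 0) (P.cons (P.lf 0 15680793 0) (P.cons (P.lf 0 7885632 0) (P.cons (P.lf 568677 0 0) (P.cons (P.lf 260745 0 0) P.nil)))))) (P.cons (P.cons (P.lf 25063461 0 0) (P.cons (P.lf 5501997 0 0) (P.cons (P.lf 0 3079530 0) (P.cons (P.lf 346122 0 0) (P.cons (P.lf 0 63714 0) P.nil))))) (P.cons (P.cons (P.lf 0 1482408 0) (P.cons (P.lf 0 1645797 0) (P.cons (P.lf 560532 0 0) (P.cons (P.lf 207486 0 0) P.nil)))) (P.cons (P.cons (P.lf 0 550008 0) (P.cons (P.lf 0 219984 0) (P.cons (P.lf 103647 0 0) P.nil))) (P.cons (P.cons (P.lf 0 74919 0) (P.cons (P.lf 16875 0 0) P.nil)) (P.cons (P.cons (P.lf 6906 0 0) P.nil) P.nil)))))) 203475)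
 (EL.cons 11 (TM.mk (P.cons (P.cons (P.lf 0 218988903 0) (P.cons (P.lf 130806549 0 0) (P.cons (P.lf 120697689 0 0) (P.cons (P.lf 0 23254428 0) (P.cons (P.lf 0 8103840 0) (P.cons (P.lf 171030 0 0) P.nil)))))) (P.cons (P.cons (P.lf 0 42479979 0) (P.cons (P.lf 29580459 0 0) (P.cons (P.lf 17680857 0 0) (P.cons (P.lf 0 3424926 0) (P.cons (P.lf 0 1127190 0) P.nil))))) (P.cons (P.cons (P.lf 0 5112546 0) (P.cons (P.lf 4773246 0 0) (P.cons (P.lf 474597 0 0) (P.cons (P.lf 0 98964 0) P.nil)))) (P.cons (P.cons (P.lf 43185 0 0) (P.cons (P.lf 21723 0 0) (P.cons (P.lf 0 88560 0) P.nil))) (P.cons (P.cons (P.lf 39321 0 0) (P.cons (P.lf 0 34563 0) P.nil)) (P.cons (P.cons (P.lf 1089 0 0) P.nil) P.nil)))))) 451683)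
 EL.nil)))
noncomputable def S198_212_660_808_23 : EL := (EL.cons 4 (TM.mk (P.cons (P.cons (P.lf 0 621726246 0) (P.cons (P.lf 0 122142561 0) (P.cons (P.lf 52669248 0 0) (P.lf 5852136 0 0)))) (P.cons (P.cons (P.lf 0 92487726 0) (P.cons (P.lf 20354790 0 0) (P.cons (P.lf 0 8777214 0) (P.lf 0 975243 0)))) (P.cons (P.cons (P.lf 30207738 0 0) (P.cons (P.lf 1495338 0 0) (P.cons (P.lf 0 644802 0) (P.lf 0 71640 0)))) (P.cons (P.cons (P.lf 1121949 0 0) (P.cons (P.lf 0 225984 0) (P.cons (P.lf 97446 0 0) P.nil))) (P.cons (P.cons (P.lf 0 239481 0) (P.cons (P.lf 0 14793 0) P.nil)) (P.cons (P.cons (P.lf 0 10449 0) P.nil) P.nil)))))) 30354)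
 (EL.cons 8 (TM.mk (P.cons (P.cons (P.lf 173766621 0 0) (P.cons (P.lf 34137696 0 0) (P.cons (P.lf 0 14720559 0) (P.lf 0 1635618 0)))) (P.cons (P.cons (P.lf 0 490830 0) (P.cons (P.lf 0 10863705 0) (P.cons (P.lf 4684551 0 0) (P.lf 520503 0 0)))) (P.cons (P.cons (P.lf 0 11812827 0) (P.cons (P.lf 552144 0 0) (P.cons (P.lf 0 238089 0) (P.lf 0 26451 0)))) (P.cons (P.cons (P.lf 1014021 0 0) (P.cons (P.lf 101925 0 0) (P.cons (P.lf 0 43950 0) P.nil))) (P.cons (P.cons (P.lf 83820 0 0) (P.cons (P.lf 0 5451 0) P.nil)) (P.cons (P.cons (P.lf 0 6468 0) P.nil) P.nil)))))) 17319)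
 (EL.cons 11 (TM.mk (P.cons (P.cons (P.lf 0 396008154 0) (P.cons (P.lf 368918229 0 0) (P.cons (P.lf 37863009 0 0) (P.cons (P.lf 0 7874451 0) (P.lf 0 656202 0))))) (P.cons (P.cons (P.lf 27590613 0 0) (P.cons (P.lf 0 25703211 0) (P.cons (P.lf 0 2637984 0) (P.cons (P.lf 548625 0 0) (P.lf 45717 0 0))))) (P.cons (P.cons (P.lf 4587054 0 0) (P.cons (P.lf 0 4273266 0) (P.cons (P.lf 0 438573 0) (P.cons (P.lf 91209 0 0) P.nil)))) (P.cons (P.cons (P.lf 0 21984 0) (P.cons (P.lf 20481 0 0) (P.cons (P.lf 2100 0 0) P.nil))) (P.cons (P.cons (P.lf 0 14244 0) (P.cons (P.lf 13269 0 0) P.nil)) (P.cons (P.cons (P.lf 0 192 0) P.nil) P.nil)))))) 15762)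
 EL.nil)))
noncomputable def S198_212_660_808_24 : EL := (EL.cons 4 (TM.mk (P.cons (P.cons (P.lf 130511676 0 0) (P.cons (P.lf 69266358 0 0) (P.cons (P.lf 0 21297714 0) (P.cons (P.lf 0 10710294 0) (P.cons (P.lf 772377 0 0) (P.cons (P.lf 354147 0 0) P.nil)))))) (P.cons (P.cons (P.lf 37604802 0 0) (P.cons (P.lf 9364092 0 0) (P.cons (P.lf 0 4764144 0) (P.cons (P.lf 177672 0 0) (P.cons (P.lf 0 65445 0) P.nil))))) (P.cons (P.cons (P.lf 0 1282263 0) (P.cons (P.lf 0 2136540 0) (P.cons (P.lf 679473 0 0) (P.cons (P.lf 310920 0 0) P.nil)))) (P.cons (P.cons (P.lf 0 859470 0) (P.cons (P.lf 0 374220 0) (P.cons (P.lf 168855 0 0) P.nil))) (P.cons (P.cons (P.lf 0 120486 0) (P.cons (P.lf 17886 0 0) P.nil)) (P.cons (P.cons (P.lf 7857 0 0) P.nil) P.nil)))))) 210414)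
 (EL.cons 8 (TM.mk (P.cons (P.cons (P.lf 0 36476781 0) (P.cons (P.lf 0 19359294 0) (P.cons (P.lf 5952510 0 0) (P.cons (P.lf 2993427 0 0) (P.cons (P.lf 0 215871 0) (P.cons (P.lf 0 98979 0) P.nil)))))) (P.cons (P.cons (P.lf 0 4980882 0) (P.cons (P.lf 317388 0 0) (P.cons (P.lf 429225 0 0) (P.cons (P.lf 0 503412 0) (P.cons (P.lf 51015 0 0) P.nil))))) (P.cons (P.cons (P.lf 1836456 0 0) (P.cons (P.lf 932778 0 0) (P.cons (P.lf 0 372963 0) (P.cons (P.lf 0 69924 0) P.nil)))) (P.cons (P.cons (P.lf 159810 0 0) (P.cons (P.lf 9576 0 0) (P.cons (P.lf 0 15360 0) P.nil))) (P.cons (P.cons (P.lf 219 0 0) (P.cons (P.lf 0 18573 0) P.nil)) (P.cons (P.cons (P.lf 0 6663 0) P.nil) P.nil)))))) 86994)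
 (EL.cons 11 (TM.mk (P.cons (P.cons (P.lf 83129331 0 0) (P.cons (P.lf 0 49654848 0) (P.cons (P.lf 0 45817473 0) (P.cons (P.lf 8827503 0 0) (P.cons (P.lf 3076260 0 0) (P.cons (P.lf 0 64923 0) P.nil)))))) (P.cons (P.cons (P.lf 5794299 0 0) (P.cons (P.lf 0 5057787 0) (P.cons (P.lf 0 1017543 0) (P.cons (P.lf 203037 0 0) (P.cons (P.lf 45570 0 0) P.nil))))) (P.cons (P.cons (P.lf 0 271410 0) (P.cons (P.lf 0 292137 0) (P.cons (P.lf 768654 0 0) (P.cons (P.lf 0 146103 0) P.nil)))) (P.cons (P.cons (P.lf 0 291450 0) (P.cons (P.lf 241164 0 0) (P.cons (P.lf 69225 0 0) P.nil))) (P.cons (P.cons (P.lf 0 16215 0) (P.cons (P.lf 17640 0 0) P.nil)) (P.cons (P.cons (P.lf 1683 0 0) P.nil) P.nil)))))) 204918)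
 EL.nil)))
noncomputable def S198_212_660_808_25 : EL := (EL.cons 4 (TM.mk (P.cons (P.cons (P.lf 236010534 0 0) (P.cons (P.lf 46365954 0 0) (P.cons (P.lf 0 19993521 0) (P.lf 0 2221500 0)))) (P.cons (P.cons (P.lf 5777409 0 0) (P.cons (P.lf 0 13489149 0) (P.cons (P.lf 5816673 0 0) (P.lf 646296 0 0)))) (P.cons (P.cons (P.lf 0 16421064 0) (P.cons (P.lf 276594 0 0) (P.cons (P.lf 0 119271 0) (P.lf 0 13251 0)))) (P.cons (P.cons (P.lf 929799 0 0) (P.cons (P.lf 179295 0 0) (P.cons (P.lf 0 77313 0) P.nil))) (P.cons (P.cons (P.lf 176049 0 0) (P.cons (P.lf 0 4077 0) P.nil)) (P.cons (P.cons (P.lf 0 7053 0) P.nil) P.nil)))))) 24603)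
 (EL.cons 8 (TM.mk (P.cons (P.cons (P.lf 0 65962716 0) (P.cons (P.lf 0 12958848 0) (P.cons (P.lf 5588001 0 0) (P.lf 620889 0 0)))) (P.cons (P.cons (P.lf 8384175 0 0) (P.cons (P.lf 5734446 0 0) (P.cons (P.lf 0 2472756 0) (P.lf 0 274749 0)))) (P.cons (P.cons (P.lf 4626153 0 0) (P.cons (P.lf 0 689682 0) (P.cons (P.lf 297396 0 0) (P.lf 33042 0 0)))) (P.cons (P.cons (P.lf 0 947850 0) (P.cons (P.lf 0 23976 0) (P.cons (P.lf 10338 0 0) P.nil))) (P.cons (P.cons (P.lf 4596 0 0) (P.cons (P.lf 7680 0 0) P.nil)) (P.cons (P.cons (P.lf 7725 0 0) P.nil) P.nil)))))) 12006)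
 (EL.cons 11 (TM.mk (P.cons (P.cons (P.lf 150326766 0 0) (P.cons (P.lf 0 140043288 0) (P.cons (P.lf 0 14372997 0) (P.cons (P.lf 2989182 0 0) (P.lf 249096 0 0))))) (P.cons (P.cons (P.lf 0 29156169 0) (P.cons (P.lf 27161667 0 0) (P.cons (P.lf 2787669 0 0) (P.cons (P.lf 0 579756 0) (P.lf 0 48312 0))))) (P.cons (P.cons (P.lf 0 815874 0) (P.cons (P.lf 760062 0 0) (P.cons (P.lf 78006 0 0) (P.cons (P.lf 0 16221 0) P.nil)))) (P.cons (P.cons (P.lf 262719 0 0) (P.cons (P.lf 0 244746 0) (P.cons (P.lf 0 25119 0) P.nil))) (P.cons (P.cons (P.lf 8397 0 0) (P.cons (P.lf 0 7821 0) P.nil)) (P.cons (P.cons (P.lf 0 792 0) P.nil) P.nil)))))) 16536)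
 EL.nil)))
noncomputable def S198_212_660_808_26 : EL := (EL.cons 4 (TM.mk (P.cons (P.cons (P.lf 0 49542915 0) (P.cons (P.lf 0 26293872 0) (P.cons (P.lf 8084724 0 0) (P.cons (P.lf 4065684 0 0) (P.cons (P.lf 0 293199 0) (P.cons (P.lf 0 134436 0) P.nil)))))) (P.cons (P.cons (P.lf 0 8117781 0) (P.cons (P.lf 0 286851 0) (P.cons (P.lf 803724 0 0) (P.cons (P.lf 0 572727 0) (P.cons (P.lf 61281 0 0) P.nil))))) (P.cons (P.cons (P.lf 2384850 0 0) (P.cons (P.lf 1318626 0 0) (P.cons (P.lf 0 502926 0) (P.cons (P.lf 0 119820 0) P.nil)))) (P.cons (P.cons (P.lf 297621 0 0) (P.cons (P.lf 48099 0 0) (P.cons (P.lf 0 35937 0) P.nil))) (P.cons (P.cons (P.lf 2694 0 0) (P.cons (P.lf 0 26835 0) P.nil)) (P.cons (P.cons (P.lf 0 9489 0) P.nil) P.nil)))))) 128541)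
 (EL.cons 8 (TM.mk (P.cons (P.cons (P.lf 13846776 0 0) (P.cons (P.lf 7348887 0 0) (P.cons (P.lf 0 2259603 0) (P.cons (P.lf 0 1136319 0) (P.cons (P.lf 81945 0 0) (P.cons (P.lf 37572 0 0) P.nil)))))) (P.cons (P.cons (P.lf 169890 0 0) (P.cons (P.lf 0 1033800 0) (P.cons (P.lf 117885 0 0) (P.cons (P.lf 332319 0 0) (P.cons (P.lf 0 29547 0) P.nil))))) (P.cons (P.cons (P.lf 0 966771 0) (P.cons (P.lf 0 357507 0) (P.cons (P.lf 167484 0 0) (P.cons (P.lf 5637 0 0) P.nil)))) (P.cons (P.cons (P.lf 22323 0 0) (P.cons (P.lf 41244 0 0) (P.cons (P.lf 0 11532 0) P.nil))) (P.cons (P.cons (P.lf 9393 0 0) (P.cons (P.lf 8403 0 0) P.nil)) (P.cons (P.cons (P.lf 2643 0 0) P.nil) P.nil)))))) 52254)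
 (EL.cons 11 (TM.mk (P.cons (P.cons (P.lf 0 31556328 0) (P.cons (P.lf 18849240 0 0) (P.cons (P.lf 17392551 0 0) (P.cons (P.lf 0 3350964 0) (P.cons (P.lf 0 1167762 0) (P.cons (P.lf 24645 0 0) P.nil)))))) (P.cons (P.cons (P.lf 1722276 0 0) (P.cons (P.lf 0 422622 0) (P.cons (P.lf 0 1775280 0) (P.cons (P.lf 339384 0 0) (P.cons (P.lf 127830 0 0) P.nil))))) (P.cons (P.cons (P.lf 455370 0 0) (P.cons (P.lf 0 174894 0) (P.cons (P.lf 0 383322 0) (P.cons (P.lf 73428 0 0) P.nil)))) (P.cons (P.cons (P.lf 100869 0 0) (P.cons (P.lf 0 108660 0) (P.cons (P.lf 10377 0 0) P.nil))) (P.cons (P.cons (P.lf 0 8124 0) (P.cons (P.lf 4611 0 0) P.nil)) (P.cons (P.cons (P.lf 0 1677 0) P.nil) P.nil)))))) 125262)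
 EL.nil)))
noncomputable def S198_212_660_808_27 : EL := (EL.cons 13 (TM.mk (P.lf 0 4294967296 0) 0)
 EL.nil)
noncomputable def S198_212_660_808_28 : EL := (EL.cons 13 (TM.mk (P.cons (P.cons (P.lf 901591963 0 0) (P.cons (P.lf 301377008 0 0) (P.cons (P.lf 0 129957164 0) (P.lf 0 14439684 0)))) (P.cons (P.cons (P.lf 125658539 0 0) (P.cons (P.lf 24686516 0 0) (P.cons (P.lf 0 10645104 0) (P.lf 0 1182788 0)))) (P.cons (P.cons (P.lf 16254580 0 0) (P.cons (P.lf 0 699824 0) (P.cons (P.lf 301768 0 0) (P.lf 33528 0 0)))) (P.cons (P.cons (P.lf 0 623023 0) (P.cons (P.lf 0 108692 0) (P.cons (P.lf 46868 0 0) P.nil))) (P.cons (P.cons (P.lf 0 70426 0) (P.cons (P.lf 0 404 0) P.nil)) (P.cons (P.cons (P.lf 274 0 0) P.nil) P.nil)))))) 8059)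
 EL.nil)
noncomputable def S198_212_660_808_29 : EL := (EL.cons 13 (TM.mk (P.cons (P.cons (P.lf 0 189260595 0) (P.cons (P.lf 0 126529060 0) (P.cons (P.lf 33413192 0 0) (P.cons (P.lf 24300443 0 0) (P.cons (P.lf 0 1905785 0) (P.cons (P.lf 0 873832 0) P.nil)))))) (P.cons (P.cons (P.lf 0 52756037 0) (P.cons (P.lf 0 27999169 0) (P.cons (P.lf 8609061 0 0) (P.cons (P.lf 4329365 0 0) (P.cons (P.lf 0 312215 0) P.nil))))) (P.cons (P.cons (P.lf 0 10500677 0) (P.cons (P.lf 0 3431864 0) (P.cons (P.lf 1436180 0 0) (P.cons (P.lf 202100 0 0) P.nil)))) (P.cons (P.cons (P.lf 0 689557 0) (P.cons (P.lf 0 12838 0) (P.cons (P.lf 28835 0 0) P.nil))) (P.cons (P.cons (P.lf 4506 0 0) (P.cons (P.lf 28872 0 0) P.nil)) (P.cons (P.cons (P.lf 8721 0 0) P.nil) P.nil)))))) 345256)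
 EL.nil)
noncomputable def S198_212_660_808_30 : EL := (EL.cons 13 (TM.mk (P.cons (P.lf 1630392056 0 0) (P.cons (P.lf 0 202625308 0) (P.cons (P.lf 0 4080764 0) (P.cons (P.lf 127476 0 0) (P.cons (P.lf 5284 0 0) (P.cons (P.lf 0 44 0) P.nil)))))) 48)
 EL.nil)
noncomputable def S198_212_660_808_31 : EL := (EL.cons 13 (TM.mk (P.cons (P.cons (P.lf 0 342249026 0) (P.cons (P.lf 0 114404288 0) (P.cons (P.lf 49332419 0 0) (P.lf 5481379 0 0)))) (P.cons (P.cons (P.lf 0 5165891 0) (P.cons (P.lf 4847047 0 0) (P.cons (P.lf 0 2090101 0) (P.lf 0 232233 0)))) (P.cons (P.cons (P.lf 614543 0 0) (P.cons (P.lf 1716648 0 0) (P.cons (P.lf 0 740236 0) (P.lf 0 82247 0)))) (P.cons (P.cons (P.lf 1095983 0 0) (P.cons (P.lf 22754 0 0) (P.cons (P.lf 0 9811 0) P.nil))) (P.cons (P.cons (P.lf 7946 0 0) (P.cons (P.lf 0 6742 0) P.nil)) (P.cons (P.cons (P.lf 0 4646 0) P.nil) P.nil)))))) 10052)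
 EL.nil)
noncomputable def S198_212_660_808_32 : EL := (EL.cons 13 (TM.mk (P.cons (P.cons (P.lf 71844312 0 0) (P.cons (P.lf 48031093 0 0) (P.cons (P.lf 0 12683822 0) (P.cons (P.lf 0 9224575 0) (P.cons (P.lf 723445 0 0) (P.cons (P.lf 331711 0 0) P.nil)))))) (P.cons (P.cons (P.lf 11097648 0 0) (P.cons (P.lf 4659321 0 0) (P.cons (P.lf 0 1691697 0) (P.cons (P.lf 0 497018 0) (P.cons (P.lf 28608 0 0) P.nil))))) (P.cons (P.cons (P.lf 1317398 0 0) (P.cons (P.lf 0 138392 0) (P.cons (P.lf 0 107281 0) (P.cons (P.lf 150618 0 0) P.nil)))) (P.cons (P.cons (P.lf 0 278142 0) (P.cons (P.lf 0 179880 0) (P.cons (P.lf 63997 0 0) P.nil))) (P.cons (P.cons (P.lf 0 42420 0) (P.cons (P.lf 0 13839 0) P.nil)) (P.cons (P.cons (P.lf 0 3378 0) P.nil) P.nil)))))) 226544)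
 EL.nil)
noncomputable def S198_212_660_808_33 : EL := (EL.cons 14 (TM.mk (P.lf 8589934592 0 0) 0)
 EL.nil)
noncomputable def S198_212_660_808_34 : EL := (EL.cons 14 (TM.mk (P.cons (P.cons (P.lf 0 1803183926 0) (P.cons (P.lf 0 602754016 0) (P.cons (P.lf 259914328 0 0) (P.lf 28879368 0 0)))) (P.cons (P.cons (P.lf 0 251317078 0) (P.cons (P.lf 0 49373032 0) (P.cons (P.lf 21290208 0 0) (P.lf 2365576 0 0)))) (P.cons (P.cons (P.lf 0 32509160 0) (P.cons (P.lf 1399648 0 0) (P.cons (P.lf 0 603536 0) (P.lf 0 67056 0)))) (P.cons (P.cons (P.lf 1246046 0 0) (P.cons (P.lf 217384 0 0) (P.cons (P.lf 0 93736 0) P.nil))) (P.cons (P.cons (P.lf 140852 0 0) (P.cons (P.lf 808 0 0) P.nil)) (P.cons (P.cons (P.lf 0 548 0) P.nil) P.nil)))))) 16118)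
 EL.nil)
noncomputable def S198_212_660_808_35 : EL := (EL.cons 14 (TM.mk (P.cons (P.cons (P.lf 378521190 0 0) (P.cons (P.lf 253058120 0 0) (P.cons (P.lf 0 66826384 0) (P.cons (P.lf 0 48600886 0) (P.cons (P.lf 3811570 0 0) (P.cons (P.lf 1747664 0 0) P.nil)))))) (P.cons (P.cons (P.lf 105512074 0 0) (P.cons (P.lf 55998338 0 0) (P.cons (P.lf 0 17218122 0) (P.cons (P.lf 0 8658730 0) (P.cons (P.lf 624430 0 0) P.nil))))) (P.cons (P.cons (P.lf 21001354 0 0) (P.cons (P.lf 6863728 0 0) (P.cons (P.lf 0 2872360 0) (P.cons (P.lf 0 404200 0) P.nil)))) (P.cons (P.cons (P.lf 1379114 0 0) (P.cons (P.lf 25676 0 0) (P.cons (P.lf 0 57670 0) P.nil))) (P.cons (P.cons (P.lf 0 9012 0) (P.cons (P.lf 0 57744 0) P.nil)) (P.cons (P.cons (P.lf 0 17442 0) P.nil) P.nil)))))) 690512)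
 EL.nil)
noncomputable def S198_212_660_808_36 : EL := (EL.cons 14 (TM.mk (P.cons (P.lf 0 3260784112 0) (P.cons (P.lf 405250616 0 0) (P.cons (P.lf 8161528 0 0) (P.cons (P.lf 0 254952 0) (P.cons (P.lf 0 10568 0) (P.cons (P.lf 88 0 0) P.nil)))))) 96)
 EL.nil)
noncomputable def S198_212_660_808_37 : EL := (EL.cons 14 (TM.mk (P.cons (P.cons (P.lf 684498052 0 0) (P.cons (P.lf 228808576 0 0) (P.cons (P.lf 0 98664838 0) (P.lf 0 10962758 0)))) (P.cons (P.cons (P.lf 10331782 0 0) (P.cons (P.lf 0 9694094 0) (P.cons (P.lf 4180202 0 0) (P.lf 464466 0 0)))) (P.cons (P.cons (P.lf 0 1229086 0) (P.cons (P.lf 0 3433296 0) (P.cons (P.lf 1480472 0 0) (P.lf 164494 0 0)))) (P.cons (P.cons (P.lf 0 2191966 0) (P.cons (P.lf 0 45508 0) (P.cons (P.lf 19622 0 0) P.nil))) (P.cons (P.cons (P.lf 0 15892 0) (P.cons (P.lf 13484 0 0) P.nil)) (P.cons (P.cons (P.lf 9292 0 0) P.nil) P.nil)))))) 20104)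
 EL.nil)
noncomputable def S198_212_660_808_38 : EL := (EL.cons 14 (TM.mk (P.cons (P.cons (P.lf 0 143688624 0) (P.cons (P.lf 0 96062186 0) (P.cons (P.lf 25367644 0 0) (P.cons (P.lf 18449150 0 0) (P.cons (P.lf 0 1446890 0) (P.cons (P.lf 0 663422 0) P.nil)))))) (P.cons (P.cons (P.lf 0 22195296 0) (P.cons (P.lf 0 9318642 0) (P.cons (P.lf 3383394 0 0) (P.cons (P.lf 994036 0 0) (P.cons (P.lf 0 57216 0) P.nil))))) (P.cons (P.cons (P.lf 0 2634796 0) (P.cons (P.lf 276784 0 0) (P.cons (P.lf 214562 0 0) (P.cons (P.lf 0 301236 0) P.nil)))) (P.cons (P.cons (P.lf 556284 0 0) (P.cons (P.lf 359760 0 0) (P.cons (P.lf 0 127994 0) P.nil))) (P.cons (P.cons (P.lf 84840 0 0) (P.cons (P.lf 27678 0 0) P.nil)) (P.cons (P.cons (P.lf 6756 0 0) P.nil) P.nil)))))) 453088)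
 EL.nil)
noncomputable def S198_212_660_808_39 : EL := (EL.cons 14 (TM.mk (P.cons (P.lf 1237810708 0 0) (P.cons (P.lf 0 307670508 0) (P.cons (P.lf 12922344 0 0) (P.cons (P.lf 963640 0 0) (P.cons (P.lf 0 8278 0) (P.cons (P.lf 0 1548 0) P.nil)))))) 132)
 EL.nil)
noncomputable def S198_212_660_808_40 : EL := (EL.cons 14 (TM.mk (P.cons (P.cons (P.lf 0 259839040 0) (P.cons (P.lf 0 86856932 0) (P.cons (P.lf 37453688 0 0) (P.lf 4161520 0 0)))) (P.cons (P.cons (P.lf 28370826 0 0) (P.cons (P.lf 14474518 0 0) (P.cons (P.lf 0 6241574 0) (P.lf 0 693508 0)))) (P.cons (P.cons (P.lf 1604354 0 0) (P.cons (P.lf 1063352 0 0) (P.cons (P.lf 0 458528 0) (P.lf 0 50946 0)))) (P.cons (P.cons (P.lf 763596 0 0) (P.cons (P.lf 0 160700 0) (P.cons (P.lf 69294 0 0) P.nil))) (P.cons (P.cons (P.lf 0 99694 0) (P.cons (P.lf 0 10522 0) P.nil)) (P.cons (P.cons (P.lf 0 6328 0) P.nil) P.nil)))))) 20992)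
 EL.nil)
noncomputable def S198_212_660_808_41 : EL := (EL.cons 14 (TM.mk (P.cons (P.cons (P.lf 54544952 0 0) (P.cons (P.lf 36465708 0 0) (P.cons (P.lf 0 9629690 0) (P.cons (P.lf 0 7003394 0) (P.cons (P.lf 549246 0 0) (P.cons (P.lf 251838 0 0) P.nil)))))) (P.cons (P.cons (P.lf 1646596 0 0) (P.cons (P.lf 0 994556 0) (P.cons (P.lf 0 87574 0) (P.cons (P.lf 493040 0 0) (P.cons (P.lf 0 46540 0) P.nil))))) (P.cons (P.cons (P.lf 0 183454 0) (P.cons (P.lf 0 635968 0) (P.cons (P.lf 102272 0 0) (P.cons (P.lf 178776 0 0) P.nil)))) (P.cons (P.cons (P.lf 0 352294 0) (P.cons (P.lf 0 129510 0) (P.cons (P.lf 61170 0 0) P.nil))) (P.cons (P.cons (P.lf 0 7628 0) (P.cons (P.lf 7122 0 0) P.nil)) (P.cons (P.cons (P.lf 2070 0 0) P.nil) P.nil)))))) 267814)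
 EL.nil)
noncomputable def S198_212_660_808_42 : EL := (EL.cons 14 (TM.mk (P.cons (P.lf 0 469879420 0) (P.cons (P.lf 175190000 0 0) (P.cons (P.lf 0 18244400 0) (P.cons (P.lf 0 85224 0) (P.cons (P.lf 68490 0 0) (P.cons (P.lf 1120 0 0) P.nil)))))) 218)
 EL.nil)
noncomputable def S198_212_660_808_43 : EL := (EL.cons 14 (TM.mk (P.cons (P.cons (P.lf 98636258 0 0) (P.cons (P.lf 32971346 0 0) (P.cons (P.lf 0 14217616 0) (P.lf 0 1579734 0)))) (P.cons (P.cons (P.lf 0 23028238 0) (P.cons (P.lf 0 9592284 0) (P.cons (P.lf 4136300 0 0) (P.lf 459588 0 0)))) (P.cons (P.cons (P.lf 482558 0 0) (P.cons (P.lf 196690 0 0) (P.cons (P.lf 0 84814 0) (P.lf 0 9424 0)))) (P.cons (P.cons (P.lf 0 179508 0) (P.cons (P.lf 127498 0 0) (P.cons (P.lf 0 54978 0) P.nil))) (P.cons (P.cons (P.lf 74870 0 0) (P.cons (P.lf 0 2898 0) P.nil)) (P.cons (P.cons (P.lf 0 1660 0) P.nil) P.nil)))))) 15974)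
 EL.nil)
noncomputable def S198_212_660_808_44 : EL := (EL.cons 14 (TM.mk (P.cons (P.cons (P.lf 0 20705548 0) (P.cons (P.lf 0 13842572 0) (P.cons (P.lf 3655480 0 0) (P.cons (P.lf 2658524 0 0) (P.cons (P.lf 0 208496 0) (P.cons (P.lf 0 95598 0) P.nil)))))) (P.cons (P.cons (P.lf 1948230 0 0) (P.cons (P.lf 2097894 0 0) (P.cons (P.lf 0 421058 0) (P.cons (P.lf 0 517562 0) (P.cons (P.lf 43578 0 0) P.nil))))) (P.cons (P.cons (P.lf 199146 0 0) (P.cons (P.lf 229142 0 0) (P.cons (P.lf 0 52104 0) (P.cons (P.lf 0 51258 0) P.nil)))) (P.cons (P.cons (P.lf 125022 0 0) (P.cons (P.lf 17132 0 0) (P.cons (P.lf 0 18192 0) P.nil))) (P.cons (P.cons (P.lf 0 14014 0) (P.cons (P.lf 0 9432 0) P.nil)) (P.cons (P.cons (P.lf 0 1476 0) P.nil) P.nil)))))) 154450)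
 EL.nil)
noncomputable def S198_212_660_808_45 : EL := (EL.cons 14 (TM.mk (P.cons (P.cons (P.lf 0 79458500 0) (P.cons (P.lf 0 79682270 0) (P.cons (P.lf 7724336 0 0) (P.cons (P.lf 23821030 0 0) (P.cons (P.lf 1438944 0 0) (P.cons (P.lf 0 2329560 0) P.nil)))))) (P.cons (P.cons (P.lf 0 33223362 0) (P.cons (P.lf 0 28738250 0) (P.cons (P.lf 4316386 0 0) (P.cons (P.lf 7612420 0 0) (P.cons (P.lf 215672 0 0) P.nil))))) (P.cons (P.cons (P.lf 0 8928088 0) (P.cons (P.lf 0 6055332 0) (P.cons (P.lf 1467740 0 0) (P.cons (P.lf 1237144 0 0) P.nil)))) (P.cons (P.cons (P.lf 0 1248350 0) (P.cons (P.lf 0 572134 0) (P.cons (P.lf 208124 0 0) P.nil))) (P.cons (P.cons (P.lf 0 96424 0) (P.cons (P.lf 0 3500 0) P.nil)) (P.cons (P.cons (P.lf 3458 0 0) P.nil) P.nil)))))) 1934868)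
 EL.nil)
noncomputable def S198_212_660_808_46 : EL := (EL.cons 15 (TM.mk (P.lf 4294967296 0 0) 0)
 EL.nil)
noncomputable def S198_212_660_808_47 : EL := (EL.cons 15 (TM.mk (P.cons (P.cons (P.lf 0 901591963 0) (P.cons (P.lf 0 301377008 0) (P.cons (P.lf 129957164 0 0) (P.lf 14439684 0 0)))) (P.cons (P.cons (P.lf 0 125658539 0) (P.cons (P.lf 0 24686516 0) (P.cons (P.lf 10645104 0 0) (P.lf 1182788 0 0)))) (P.cons (P.cons (P.lf 0 16254580 0) (P.cons (P.lf 699824 0 0) (P.cons (P.lf 0 301768 0) (P.lf 0 33528 0)))) (P.cons (P.cons (P.lf 623023 0 0) (P.cons (P.lf 108692 0 0) (P.cons (P.lf 0 46868 0) P.nil))) (P.cons (P.cons (P.lf 70426 0 0) (P.cons (P.lf 404 0 0) P.nil)) (P.cons (P.cons (P.lf 0 274 0) P.nil) P.nil)))))) 8059)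
 EL.nil)
noncomputable def S198_212_660_808_48 : EL := (EL.cons 15 (TM.mk (P.cons (P.cons (P.lf 189260595 0 0) (P.cons (P.lf 126529060 0 0) (P.cons (P.lf 0 33413192 0) (P.cons (P.lf 0 24300443 0) (P.cons (P.lf 1905785 0 0) (P.cons (P.lf 873832 0 0) P.nil)))))) (P.cons (P.cons (P.lf 52756037 0 0) (P.cons (P.lf 27999169 0 0) (P.cons (P.lf 0 8609061 0) (P.cons (P.lf 0 4329365 0) (P.cons (P.lf 312215 0 0) P.nil))))) (P.cons (P.cons (P.lf 10500677 0 0) (P.cons (P.lf 3431864 0 0) (P.cons (P.lf 0 1436180 0) (P.cons (P.lf 0 202100 0) P.nil)))) (P.cons (P.cons (P.lf 689557 0 0) (P.cons (P.lf 12838 0 0) (P.cons (P.lf 0 28835 0) P.nil))) (P.cons (P.cons (P.lf 0 4506 0) (P.cons (P.lf 0 28872 0) P.nil)) (P.cons (P.cons (P.lf 0 8721 0) P.nil) P.nil)))))) 345256)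
 EL.nil)
noncomputable def S198_212_660_808 : SL := (SL.cons S198_212_660_808_0 (SL.cons S198_212_660_808_1 (SL.cons S198_212_660_808_2 (SL.cons S198_212_660_808_3 (SL.cons S198_212_660_808_4 (SL.cons S198_212_660_808_5 (SL.cons S198_212_660_808_6 (SL.cons S198_212_660_808_7 (SL.cons S198_212_660_808_8 (SL.cons S198_212_660_808_9 (SL.cons S198_212_660_808_10 (SL.cons S198_212_660_808_11 (SL.cons S198_212_660_808_12 (SL.cons S198_212_660_808_13 (SL.cons S198_212_660_808_14 (SL.cons S198_212_660_808_15 (SL.cons S198_212_660_808_16 (SL.cons S198_212_660_808_17 (SL.cons S198_212_660_808_18 (SL.cons S198_212_660_808_19 (SL.cons S198_212_660_808_20 (SL.cons S198_212_660_808_21 (SL.cons S198_212_660_808_22 (SL.cons S198_212_660_808_23 (SL.cons S198_212_660_808_24 (SL.cons S198_212_660_808_25 (SL.cons S198_212_660_808_26 (SL.cons S198_212_660_808_27 (SL.cons S198_212_660_808_28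 (SL.cons S198_212_660_808_29 (SL.cons S198_212_660_808_30 (SL.cons S198_212_660_808_31 (SL.cons S198_212_660_808_32 (SL.cons S198_212_660_808_33 (SL.cons S198_212_660_808_34 (SL.cons S198_212_660_808_35 (SL.cons S198_212_660_808_36 (SL.cons S198_212_660_808_37 (SL.cons S198_212_660_808_38 (SL.cons S198_212_660_808_39 (SL.cons S198_212_660_808_40 (SL.cons S198_212_660_808_41 (SL.cons S198_212_660_808_42 (SL.cons S198_212_660_808_43 (SL.cons S198_212_660_808_44 (SL.cons S198_212_660_808_45 (SL.cons S198_212_660_808_46 (SL.cons S198_212_660_808_47 (SL.cons S198_212_660_808_48 SL.nil)))))))))))))))))))))))))))))))))))))))))))))))))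
noncomputable def S198_227_216_290_0 : EL := (EL.cons 0 (TM.mk (P.cons (P.lf 7643457911 0 0) (P.cons (P.lf 503779721 0 0) (P.cons (P.lf 0 60126632 0) (P.cons (P.lf 0 7110123 0) (P.cons (P.lf 270363 0 0) (P.cons (P.lf 53070 0 0) P.nil)))))) 3984)
 (EL.cons 1 (TM.mk (P.cons (P.lf 0 1228710643 0) (P.cons (P.lf 321830180 0 0) (P.cons (P.lf 40457490 0 0) (P.cons (P.lf 0 2710608 0) (P.cons (P.lf 0 384633 0) (P.cons (P.lf 7027 0 0) P.nil)))))) 2881)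
 (EL.cons 5 (TM.mk (P.cons (P.lf 4583770480 0 0) (P.cons (P.lf 0 179121676 0) (P.cons (P.lf 21378358 0 0) (P.cons (P.lf 2528040 0 0) (P.cons (P.lf 0 96128 0) (P.cons (P.lf 0 18870 0) P.nil)))))) 1697)
 (EL.cons 9 (TM.mk (P.lf 6442450944 0 0) 2)
 EL.nil))))
noncomputable def S198_227_216_290_1 : EL := (EL.cons 0 (TM.mk (P.cons (P.cons (P.lf 3990060075 0 0) (P.cons (P.lf 0 105579791 0) (P.cons (P.lf 0 49840131 0) (P.lf 2373343 0 0)))) (P.cons (P.cons (P.lf 1826860956 0 0) (P.cons (P.lf 0 56124216 0) (P.cons (P.lf 0 26494057 0) (P.lf 1261616 0 0)))) (P.cons (P.cons (P.lf 0 405070630 0) (P.cons (P.lf 423944 0 0) (P.cons (P.lf 200127 0 0) (P.lf 0 9532 0)))) (P.cons (P.cons (P.lf 0 79461248 0) (P.cons (P.lf 2153444 0 0) (P.cons (P.lf 1016553 0 0) P.nil))) (P.cons (P.cons (P.lf 9414889 0 0) (P.cons (P.lf 108523 0 0) P.nil)) (P.cons (P.cons (P.lf 1852301 0 0) P.nil) P.nil))))))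 575614)
 (EL.cons 1 (TM.mk (P.cons (P.cons (P.lf 0 1328690592 0) (P.cons (P.lf 56481640 0 0) (P.cons (P.lf 26662787 0 0) (P.lf 0 1269653 0)))) (P.cons (P.cons (P.lf 586297892 0 0) (P.cons (P.lf 0 2467926 0) (P.cons (P.lf 0 1165012 0) (P.lf 55474 0 0)))) (P.cons (P.cons (P.lf 225687056 0 0) (P.cons (P.lf 0 6162151 0) (P.cons (P.lf 0 2908905 0) (P.lf 138513 0 0)))) (P.cons (P.cons (P.lf 0 31904365 0) (P.cons (P.lf 0 276739 0) (P.cons (P.lf 0 130639 0) P.nil))) (P.cons (P.cons (P.lf 0 7395127 0) (P.cons (P.lf 156986 0 0) P.nil)) (P.cons (P.cons (P.lf 518684 0 0) P.nil) P.nil)))))) 340941)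
 (EL.cons 5 (TM.mk (P.cons (P.cons (P.lf 3213913141 0 0) (P.cons (P.lf 0 110517404 0) (P.cons (P.lf 0 52170978 0) (P.lf 2484334 0 0)))) (P.cons (P.cons (P.lf 0 277249519 0) (P.cons (P.lf 0 1447164 0) (P.cons (P.lf 0 683154 0) (P.lf 32540 0 0)))) (P.cons (P.cons (P.lf 0 44907544 0) (P.cons (P.lf 1888026 0 0) (P.cons (P.lf 891266 0 0) (P.lf 0 42438 0)))) (P.cons (P.cons (P.lf 23317106 0 0) (P.cons (P.lf 0 332236 0) (P.cons (P.lf 0 156836 0) P.nil))) (P.cons (P.cons (P.lf 0 942581 0) (P.cons (P.lf 0 46120 0) P.nil)) (P.cons (P.cons (P.lf 0 548904 0) P.nil) P.nil)))))) 303894)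
 (EL.cons 9 (TM.mk (P.cons (P.cons (P.lf 4087589257 0 0) (P.cons (P.lf 0 130638426 0) (P.cons (P.lf 0 61669332 0) (P.lf 2936634 0 0)))) (P.cons (P.cons (P.lf 328500915 0 0) (P.cons (P.lf 0 18884502 0) (P.cons (P.lf 0 8914638 0) (P.lf 424506 0 0)))) (P.cons (P.cons (P.lf 0 166705282 0) (P.cons (P.lf 1798908 0 0) (P.cons (P.lf 849192 0 0) (P.lf 0 40434 0)))) (P.cons (P.cons (P.lf 0 4355094 0) (P.cons (P.lf 382434 0 0) (P.cons (P.lf 180534 0 0) P.nil))) (P.cons (P.cons (P.lf 2121988 0 0) (P.cons (P.lf 0 6648 0) P.nil)) (P.cons (P.cons (P.lf 96781 0 0) P.nil) P.nil)))))) 59990)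
 (EL.cons 2 (TM.mk (P.cons (P.cons (P.lf 173690381 0 0) (P.cons (P.lf 171266040 0 0) (P.cons (P.lf 0 5359078 0) (P.cons (P.lf 0 982029 0) (P.lf 35071 0 0))))) (P.cons (P.cons (P.lf 0 37124572 0) (P.cons (P.lf 0 36606394 0) (P.cons (P.lf 1145446 0 0) (P.cons (P.lf 209896 0 0) (P.lf 0 7495 0))))) (P.cons (P.cons (P.lf 0 9111715 0) (P.cons (P.lf 0 8984536 0) (P.cons (P.lf 281131 0 0) (P.cons (P.lf 51513 0 0) P.nil)))) (P.cons (P.cons (P.lf 361769 0 0) (P.cons (P.lf 356720 0 0) (P.cons (P.lf 0 11160 0) P.nil))) (P.cons (P.cons (P.lf 131397 0 0) (P.cons (P.lf 129563 0 0) P.nil)) (P.cons (P.cons (P.lf 419 0 0) P.nil) P.nil)))))) 27355)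
 (EL.cons 6 (TM.mk (P.cons (P.cons (P.lf 262742835 0 0) (P.cons (P.lf 259075515 0 0) (P.cons (P.lf 0 8106720 0) (P.cons (P.lf 0 1485522 0) (P.lf 53052 0 0))))) (P.cons (P.cons (P.lf 37980924 0 0) (P.cons (P.lf 37450794 0 0) (P.cons (P.lf 0 1171869 0) (P.cons (P.lf 0 214740 0) (P.lf 7668 0 0))))) (P.cons (P.cons (P.lf 0 3618003 0) (P.cons (P.lf 0 3567504 0) (P.cons (P.lf 111627 0 0) (P.cons (P.lf 20454 0 0) P.nil)))) (P.cons (P.cons (P.lf 0 769167 0) (P.cons (P.lf 0 758433 0) (P.cons (P.lf 23730 0 0) P.nil))) (P.cons (P.cons (P.lf 13380 0 0) (P.cons (P.lf 13194 0 0) P.nil)) (P.cons (P.cons (P.lf 7779 0 0) P.nil) P.nil)))))) 17778)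
 EL.nil))))))
noncomputable def S198_227_216_290_2 : EL := (EL.cons 0 (TM.mk (P.cons (P.cons (P.lf 1986243529 0 0) (P.cons (P.lf 0 99116858 0) (P.cons (P.lf 0 45650285 0) (P.cons (P.lf 3303375 0 0) (P.cons (P.lf 202600 0 0) (P.cons (P.lf 0 24176 0) P.nil)))))) (P.cons (P.cons (P.lf 2027745420 0 0) (P.cons (P.lf 0 122267165 0) (P.cons (P.lf 0 55938255 0) (P.cons (P.lf 4428338 0 0) (P.cons (P.lf 316503 0 0) P.nil))))) (P.cons (P.cons (P.lf 0 311494540 0) (P.cons (P.lf 1148407 0 0) (P.cons (P.lf 780717 0 0) (P.cons (P.lf 199443 0 0) P.nil)))) (P.cons (P.cons (P.lf 0 193369067 0) (P.cons (P.lf 9664412 0 0) (P.cons (P.lf 4470843 0 0) P.nil))) (P.cons (P.cons (P.lf 17474630 0 0) (P.cons (P.lf 443879 0 0) P.nil)) (P.cons (P.cons (P.lf 7646812 0 0) P.nil) P.nil)))))) 3809153)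
 (EL.cons 1 (TM.mk (P.cons (P.cons (P.lf 0 1191416568 0) (P.cons (P.lf 93941736 0 0) (P.cons (P.lf 42560833 0 0) (P.cons (P.lf 0 3797365 0) (P.cons (P.lf 0 317591 0) (P.cons (P.lf 37892 0 0) P.nil)))))) (P.cons (P.cons (P.lf 558431599 0 0) (P.cons (P.lf 0 12189864 0) (P.cons (P.lf 0 5971662 0) (P.cons (P.lf 68856 0 0) (P.cons (P.lf 0 38646 0) P.nil))))) (P.cons (P.cons (P.lf 340678822 0 0) (P.cons (P.lf 0 20065120 0) (P.cons (P.lf 0 9234289 0) (P.cons (P.lf 675421 0 0) P.nil)))) (P.cons (P.cons (P.lf 0 42107621 0) (P.cons (P.lf 0 631294 0) (P.cons (P.lf 0 253122 0) P.nil))) (P.cons (P.cons (P.lf 0 22055061 0) (P.cons (P.lf 1030965 0 0) P.nil)) (P.cons (P.cons (P.lf 1457760 0 0) P.nil) P.nil)))))) 2142896)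
 (EL.cons 5 (TM.mk (P.cons (P.cons (P.lf 2233060638 0 0) (P.cons (P.lf 0 152635932 0) (P.cons (P.lf 0 69456191 0) (P.cons (P.lf 5883281 0 0) (P.cons (P.lf 462006 0 0) (P.cons (P.lf 0 55122 0) P.nil)))))) (P.cons (P.cons (P.lf 0 248542982 0) (P.cons (P.lf 1215181 0 0) (P.cons (P.lf 808977 0 0) (P.cons (P.lf 194889 0 0) (P.cons (P.lf 41866 0 0) P.nil))))) (P.cons (P.cons (P.lf 0 110009726 0) (P.cons (P.lf 7658411 0 0) (P.cons (P.lf 3510454 0 0) (P.cons (P.lf 0 271066 0) P.nil)))) (P.cons (P.cons (P.lf 43222793 0 0) (P.cons (P.lf 0 1370518 0) (P.cons (P.lf 0 644022 0) P.nil))) (P.cons (P.cons (P.lf 1224035 0 0) (P.cons (P.lf 0 297290 0) P.nil)) (P.cons (P.cons (P.lf 0 2078977 0) P.nil) P.nil)))))) 1957909)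
 (EL.cons 9 (TM.mk (P.cons (P.cons (P.lf 2593482834 0 0) (P.cons (P.lf 0 165774246 0) (P.cons (P.lf 0 75606535 0) (P.cons (P.lf 6227485 0 0) (P.cons (P.lf 471222 0 0) (P.cons (P.lf 0 56220 0) P.nil)))))) (P.cons (P.cons (P.lf 416852785 0 0) (P.cons (P.lf 0 37286097 0) (P.cons (P.lf 0 16835445 0) (P.cons (P.lf 1561231 0 0) (P.cons (P.lf 136234 0 0) P.nil))))) (P.cons (P.cons (P.lf 0 194791174 0) (P.cons (P.lf 7117705 0 0) (P.cons (P.lf 3342388 0 0) (P.cons (P.lf 0 176610 0) P.nil)))) (P.cons (P.cons (P.lf 0 22527039 0) (P.cons (P.lf 1822680 0 0) (P.cons (P.lf 834361 0 0) P.nil))) (P.cons (P.cons (P.lf 6562251 0 0) (P.cons (P.lf 0 123058 0) P.nil)) (P.cons (P.cons (P.lf 564597 0 0) P.nil) P.nil)))))) 526729)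
 (EL.cons 2 (TM.mk (P.cons (P.cons (P.lf 220405230 0 0) (P.cons (P.lf 210284746 0 0) (P.cons (P.lf 0 17071453 0) (P.cons (P.lf 0 4149298 0) (P.cons (P.lf 343063 0 0) (P.cons (P.lf 12487 0 0) P.nil)))))) (P.cons (P.cons (P.lf 0 29396435 0) (P.cons (P.lf 0 28498786 0) (P.cons (P.lf 1617598 0 0) (P.cons (P.lf 367053 0 0) (P.cons (P.lf 0 26589 0) P.nil))))) (P.cons (P.cons (P.lf 0 24337170 0) (P.cons (P.lf 0 23313301 0) (P.cons (P.lf 1748491 0 0) (P.cons (P.lf 419568 0 0) P.nil)))) (P.cons (P.cons (P.lf 1216299 0 0) (P.cons (P.lf 1237961 0 0) (P.cons (P.lf 18804 0 0) P.nil))) (P.cons (P.cons (P.lf 839790 0 0) (P.cons (P.lf 810765 0 0) P.nil)) (P.cons (P.cons (P.lf 0 11705 0) P.nil) P.nil)))))) 364426)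
 (EL.cons 6 (TM.mk (P.cons (P.cons (P.lf 333408756 0 0) (P.cons (P.lf 318099426 0 0) (P.cons (P.lf 0 25824126 0) (P.cons (P.lf 0 6276672 0) (P.cons (P.lf 518952 0 0) (P.cons (P.lf 18894 0 0) P.nil)))))) (P.cons (P.cons (P.lf 74990616 0 0) (P.cons (P.lf 70863234 0 0) (P.cons (P.lf 0 6805710 0) (P.cons (P.lf 0 1693650 0) (P.cons (P.lf 145710 0 0) P.nil))))) (P.cons (P.cons (P.lf 0 14315280 0) (P.cons (P.lf 0 14044674 0) (P.cons (P.lf 544908 0 0) (P.cons (P.lf 110106 0 0) P.nil)))) (P.cons (P.cons (P.lf 0 3665820 0) (P.cons (P.lf 0 3509844 0) (P.cons (P.lf 265920 0 0) P.nil))) (P.cons (P.cons (P.lf 247506 0 0) (P.cons (P.lf 249966 0 0) P.nil)) (P.cons (P.cons (P.lf 88848 0 0) P.nil) P.nil)))))) 305358)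
 EL.nil))))))
noncomputable def S198_227_216_290_3 : EL := (EL.cons 0 (TM.mk (P.cons (P.lf 812258952 0 0) (P.cons (P.lf 0 503779721 0) (P.cons (P.lf 60126632 0 0) (P.cons (P.lf 7110123 0 0) (P.cons (P.lf 0 270363 0) (P.cons (P.lf 0 53070 0) P.nil)))))) 3984)
 (EL.cons 1 (TM.mk (P.cons (P.lf 1228710643 0 0) (P.cons (P.lf 0 321830180 0) (P.cons (P.lf 0 40457490 0) (P.cons (P.lf 2710608 0 0) (P.cons (P.lf 384633 0 0) (P.cons (P.lf 0 7027 0) P.nil)))))) 2881)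
 (EL.cons 5 (TM.mk (P.cons (P.lf 1858680464 0 0) (P.cons (P.lf 179121676 0 0) (P.cons (P.lf 0 21378358 0) (P.cons (P.lf 0 2528040 0) (P.cons (P.lf 96128 0 0) (P.cons (P.lf 18870 0 0) P.nil)))))) 1690)
 EL.nil)))
noncomputable def S198_227_216_290_4 : EL := (EL.cons 0 (TM.mk (P.cons (P.cons (P.lf 515359914 0 0) (P.cons (P.lf 0 16470785 0) (P.cons (P.lf 0 7775217 0) (P.lf 370248 0 0)))) (P.cons (P.cons (P.lf 0 278219698 0) (P.cons (P.lf 7834577 0 0) (P.cons (P.lf 3698400 0 0) (P.lf 0 176113 0)))) (P.cons (P.cons (P.lf 0 8556832 0) (P.cons (P.lf 484280 0 0) (P.cons (P.lf 228608 0 0) (P.lf 0 10884 0)))) (P.cons (P.cons (P.lf 20063821 0 0) (P.cons (P.lf 0 412875 0) (P.cons (P.lf 0 194900 0) P.nil))) (P.cons (P.cons (P.lf 0 756740 0) (P.cons (P.lf 0 29313 0) P.nil)) (P.cons (P.cons (P.lf 0 425816 0) P.nil) P.nil)))))) 121264)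
 (EL.cons 1 (TM.mk (P.cons (P.cons (P.lf 779589082 0 0) (P.cons (P.lf 0 24915489 0) (P.cons (P.lf 0 11761635 0) (P.lf 560075 0 0)))) (P.cons (P.cons (P.lf 0 141541942 0) (P.cons (P.lf 2924321 0 0) (P.cons (P.lf 1380457 0 0) (P.lf 0 65733 0)))) (P.cons (P.cons (P.lf 0 73873695 0) (P.cons (P.lf 2106843 0 0) (P.cons (P.lf 994558 0 0) (P.lf 0 47358 0)))) (P.cons (P.cons (P.lf 7153980 0 0) (P.cons (P.lf 46700 0 0) (P.cons (P.lf 22046 0 0) P.nil))) (P.cons (P.cons (P.lf 2051400 0 0) (P.cons (P.lf 0 47413 0) P.nil)) (P.cons (P.cons (P.lf 0 115181 0) P.nil) P.nil)))))) 87129)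
 (EL.cons 5 (TM.mk (P.cons (P.cons (P.lf 1179290670 0 0) (P.cons (P.lf 0 37689862 0) (P.cons (P.lf 0 17791920 0) (P.lf 847232 0 0)))) (P.cons (P.cons (P.lf 208422862 0 0) (P.cons (P.lf 0 9080460 0) (P.cons (P.lf 0 4286532 0) (P.lf 204118 0 0)))) (P.cons (P.cons (P.lf 0 52525998 0) (P.cons (P.lf 427446 0 0) (P.cons (P.lf 201778 0 0) (P.lf 0 9606 0)))) (P.cons (P.cons (P.lf 0 8585498 0) (P.cons (P.lf 274276 0 0) (P.cons (P.lf 129476 0 0) P.nil))) (P.cons (P.cons (P.lf 976390 0 0) (P.cons (P.lf 8206 0 0) P.nil)) (P.cons (P.cons (P.lf 183662 0 0) P.nil) P.nil)))))) 63850)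
 EL.nil)))
noncomputable def S198_227_216_290_5 : EL := (EL.cons 0 (TM.mk (P.cons (P.cons (P.lf 326984196 0 0) (P.cons (P.lf 0 20900680 0) (P.cons (P.lf 0 9532409 0) (P.cons (P.lf 785155 0 0) (P.cons (P.lf 59410 0 0) (P.cons (P.lf 0 7087 0) P.nil)))))) (P.cons (P.cons (P.lf 0 150245869 0) (P.cons (P.lf 8262031 0 0) (P.cons (P.lf 3789597 0 0) (P.cons (P.lf 0 290130 0) (P.cons (P.lf 0 19671 0) P.nil))))) (P.cons (P.cons (P.lf 0 32951040 0) (P.cons (P.lf 2265899 0 0) (P.cons (P.lf 1032257 0 0) (P.cons (P.lf 0 86229 0) P.nil)))) (P.cons (P.cons (P.lf 19144575 0 0) (P.cons (P.lf 0 857721 0) (P.cons (P.lf 0 396733 0) P.nil))) (P.cons (P.cons (P.lf 1122159 0 0) (P.cons (P.lf 0 125806 0) P.nil)) (P.cons (P.cons (P.lf 0 906041 0) P.nil) P.nil)))))) 508435)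
 (EL.cons 1 (TM.mk (P.cons (P.cons (P.lf 494631620 0 0) (P.cons (P.lf 0 31616626 0) (P.cons (P.lf 0 14419753 0) (P.cons (P.lf 1187711 0 0) (P.cons (P.lf 89870 0 0) (P.cons (P.lf 0 10721 0) P.nil)))))) (P.cons (P.cons (P.lf 0 50053867 0) (P.cons (P.lf 1169947 0 0) (P.cons (P.lf 566021 0 0) (P.cons (P.lf 0 13331 0) (P.cons (P.lf 2441 0 0) P.nil))))) (P.cons (P.cons (P.lf 0 74261115 0) (P.cons (P.lf 4261141 0 0) (P.cons (P.lf 1953266 0 0) (P.cons (P.lf 0 150780 0) P.nil)))) (P.cons (P.cons (P.lf 3907760 0 0) (P.cons (P.lf 156463 0 0) (P.cons (P.lf 66075 0 0) P.nil))) (P.cons (P.cons (P.lf 3930369 0 0) (P.cons (P.lf 0 184803 0) P.nil)) (P.cons (P.cons (P.lf 0 138566 0) P.nil) P.nil)))))) 388192)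
 (EL.cons 5 (TM.mk (P.cons (P.cons (P.lf 748233228 0 0) (P.cons (P.lf 0 47826726 0) (P.cons (P.lf 0 21812876 0) (P.cons (P.lf 1796660 0 0) (P.cons (P.lf 135948 0 0) (P.cons (P.lf 0 16218 0) P.nil)))))) (P.cons (P.cons (P.lf 192371680 0 0) (P.cons (P.lf 0 15366310 0) (P.cons (P.lf 0 6959226 0) (P.cons (P.lf 623566 0 0) (P.cons (P.lf 52404 0 0) P.nil))))) (P.cons (P.cons (P.lf 0 53214464 0) (P.cons (P.lf 1566914 0 0) (P.cons (P.lf 747102 0 0) (P.cons (P.lf 0 28208 0) P.nil)))) (P.cons (P.cons (P.lf 0 14315972 0) (P.cons (P.lf 912526 0 0) (P.cons (P.lf 419180 0 0) P.nil))) (P.cons (P.cons (P.lf 1788424 0 0) (P.cons (P.lf 3712 0 0) P.nil)) (P.cons (P.cons (P.lf 510346 0 0) P.nil) P.nil)))))) 323424)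
 EL.nil)))
noncomputable def S198_227_216_290_6 : EL := (EL.cons 12 (TM.mk (P.lf 8589934592 0 0) 0)
 (EL.cons 3 (TM.mk (P.cons (P.lf 0 1320724353 0) (P.cons (P.lf 409570215 0 0) (P.cons (P.lf 14623338 0 0) (P.cons (P.lf 0 1245645 0) (P.cons (P.lf 0 85526 0) (P.cons (P.lf 2831 0 0) P.nil)))))) 532)
 (EL.cons 7 (TM.mk (P.cons (P.lf 0 1997870342 0) (P.cons (P.lf 0 96267727 0) (P.cons (P.lf 13808992 0 0) (P.cons (P.lf 693290 0 0) (P.cons (P.lf 0 37347 0) (P.cons (P.lf 0 3551 0) P.nil)))))) 296)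
 EL.nil)))
noncomputable def S198_227_216_290_7 : EL := (EL.cons 12 (TM.mk (P.cons (P.cons (P.lf 5450119010 0 0) (P.cons (P.lf 0 174184568 0) (P.cons (P.lf 0 82225776 0) (P.lf 3915512 0 0)))) (P.cons (P.cons (P.lf 438001220 0 0) (P.cons (P.lf 0 25179336 0) (P.cons (P.lf 0 11886184 0) (P.lf 566008 0 0)))) (P.cons (P.cons (P.lf 0 222273710 0) (P.cons (P.lf 2398544 0 0) (P.cons (P.lf 1132256 0 0) (P.lf 0 53912 0)))) (P.cons (P.cons (P.lf 0 5806792 0) (P.cons (P.lf 509912 0 0) (P.cons (P.lf 240712 0 0) P.nil))) (P.cons (P.cons (P.lf 2829318 0 0) (P.cons (P.lf 0 8864 0) P.nil)) (P.cons (P.cons (P.lf 129042 0 0) P.nil) P.nil)))))) 79962)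
 (EL.cons 3 (TM.mk (P.cons (P.cons (P.lf 559634617 0 0) (P.cons (P.lf 0 53562642 0) (P.cons (P.lf 0 25284842 0) (P.lf 1204038 0 0)))) (P.cons (P.cons (P.lf 0 1191085997 0) (P.cons (P.lf 8867550 0 0) (P.cons (P.lf 4186026 0 0) (P.lf 0 199332 0)))) (P.cons (P.cons (P.lf 0 32472055 0) (P.cons (P.lf 3731732 0 0) (P.cons (P.lf 1761604 0 0) (P.lf 0 83882 0)))) (P.cons (P.cons (P.lf 30876080 0 0) (P.cons (P.lf 0 36712 0) (P.cons (P.lf 0 17328 0) P.nil))) (P.cons (P.cons (P.lf 1983535 0 0) (P.cons (P.lf 0 70288 0) P.nil)) (P.cons (P.cons (P.lf 0 354600 0) P.nil) P.nil)))))) 225854)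
 (EL.cons 7 (TM.mk (P.cons (P.cons (P.lf 0 1596104427 0) (P.cons (P.lf 59396828 0 0) (P.cons (P.lf 28038941 0 0) (P.lf 0 1335189 0)))) (P.cons (P.cons (P.lf 279959670 0 0) (P.cons (P.lf 0 2084279 0) (P.cons (P.lf 0 983904 0) (P.lf 46851 0 0)))) (P.cons (P.cons (P.lf 0 42521722 0) (P.cons (P.lf 0 503735 0) (P.cons (P.lf 0 237796 0) (P.lf 11326 0 0)))) (P.cons (P.cons (P.lf 0 7857518 0) (P.cons (P.lf 209037 0 0) (P.cons (P.lf 98679 0 0) P.nil))) (P.cons (P.cons (P.lf 1406748 0 0) (P.cons (P.lf 9404 0 0) P.nil)) (P.cons (P.cons (P.lf 159966 0 0) P.nil) P.nil)))))) 166925)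
 (EL.cons 10 (TM.mk (P.cons (P.cons (P.lf 0 564837402 0) (P.cons (P.lf 0 556953498 0) (P.cons (P.lf 17427612 0 0) (P.cons (P.lf 3193539 0 0) (P.lf 0 114054 0))))) (P.cons (P.cons (P.lf 0 54433575 0) (P.cons (P.lf 0 53673798 0) (P.cons (P.lf 1679505 0 0) (P.cons (P.lf 307761 0 0) (P.lf 0 10989 0))))) (P.cons (P.cons (P.lf 6496701 0 0) (P.cons (P.lf 6406023 0 0) (P.cons (P.lf 0 200448 0) (P.cons (P.lf 0 36729 0) P.nil)))) (P.cons (P.cons (P.lf 768249 0 0) (P.cons (P.lf 757527 0 0) (P.cons (P.lf 0 23703 0) P.nil))) (P.cons (P.cons (P.lf 0 29211 0) (P.cons (P.lf 0 28803 0) P.nil)) (P.cons (P.cons (P.lf 0 5733 0) P.nil) P.nil)))))) 13893)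
 EL.nil))))
noncomputable def S198_227_216_290_8 : EL := (EL.cons 12 (TM.mk (P.cons (P.cons (P.lf 3457977112 0 0) (P.cons (P.lf 0 221032328 0) (P.cons (P.lf 0 100808714 0) (P.cons (P.lf 8303314 0 0) (P.cons (P.lf 628296 0 0) (P.cons (P.lf 0 74960 0) P.nil)))))) (P.cons (P.cons (P.lf 555803714 0 0) (P.cons (P.lf 0 49714796 0) (P.cons (P.lf 0 22447260 0) (P.cons (P.lf 2081642 0 0) (P.cons (P.lf 181646 0 0) P.nil))))) (P.cons (P.cons (P.lf 0 259721566 0) (P.cons (P.lf 9490274 0 0) (P.cons (P.lf 4456518 0 0) (P.cons (P.lf 0 235480 0) P.nil)))) (P.cons (P.cons (P.lf 0 30036052 0) (P.cons (P.lf 2430240 0 0) (P.cons (P.lf 1112482 0 0) P.nil))) (P.cons (P.cons (P.lf 8749668 0 0) (P.cons (P.lf 0 164078 0) P.nil)) (P.cons (P.cons (P.lf 752796 0 0) P.nil) P.nil)))))) 702276)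
 (EL.cons 3 (TM.mk (P.cons (P.cons (P.lf 1241823784 0 0) (P.cons (P.lf 0 124649110 0) (P.cons (P.lf 0 56126676 0) (P.cons (P.lf 5365591 0 0) (P.cons (P.lf 483011 0 0) (P.cons (P.lf 0 57626 0) P.nil)))))) (P.cons (P.cons (P.lf 0 1533783564 0) (P.cons (P.lf 53709513 0 0) (P.cons (P.lf 25297160 0 0) (P.cons (P.lf 0 1261171 0) (P.cons (P.lf 0 10140 0) P.nil))))) (P.cons (P.cons (P.lf 0 263955429 0) (P.cons (P.lf 21229754 0 0) (P.cons (P.lf 9730186 0 0) (P.cons (P.lf 0 752476 0) P.nil)))) (P.cons (P.cons (P.lf 104074181 0 0) (P.cons (P.lf 0 1739335 0) (P.cons (P.lf 0 848309 0) P.nil))) (P.cons (P.cons (P.lf 12659846 0 0) (P.cons (P.lf 0 922153 0) P.nil)) (P.cons (P.cons (P.lf 0 2853085 0) P.nil) P.nil)))))) 2025560)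
 (EL.cons 7 (TM.mk (P.cons (P.cons (P.lf 0 1221118520 0) (P.cons (P.lf 88694405 0 0) (P.cons (P.lf 40281818 0 0) (P.cons (P.lf 0 3492443 0) (P.cons (P.lf 0 282360 0) (P.cons (P.lf 33688 0 0) P.nil)))))) (P.cons (P.cons (P.lf 360509265 0 0) (P.cons (P.lf 0 12624188 0) (P.cons (P.lf 0 5945981 0) (P.cons (P.lf 296427 0 0) (P.cons (P.lf 2383 0 0) P.nil))))) (P.cons (P.cons (P.lf 0 2542819 0) (P.cons (P.lf 0 2728366 0) (P.cons (P.lf 0 1221829 0) (P.cons (P.lf 123759 0 0) P.nil)))) (P.cons (P.cons (P.lf 0 37706946 0) (P.cons (P.lf 1545595 0 0) (P.cons (P.lf 719710 0 0) P.nil))) (P.cons (P.cons (P.lf 3840540 0 0) (P.cons (P.lf 79932 0 0) P.nil)) (P.cons (P.cons (P.lf 1293286 0 0) P.nil) P.nil)))))) 1128195)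
 (EL.cons 10 (TM.mk (P.cons (P.cons (P.lf 0 716753082 0) (P.cons (P.lf 0 683841498 0) (P.cons (P.lf 55516008 0 0) (P.cons (P.lf 13493430 0 0) (P.cons (P.lf 0 1115634 0) (P.cons (P.lf 0 40620 0) P.nil)))))) (P.cons (P.cons (P.lf 0 126675918 0) (P.cons (P.lf 0 119388840 0) (P.cons (P.lf 11955684 0 0) (P.cons (P.lf 2990784 0 0) (P.cons (P.lf 0 259488 0) P.nil))))) (P.cons (P.cons (P.lf 31924416 0 0) (P.cons (P.lf 31219026 0 0) (P.cons (P.lf 0 1363806 0) (P.cons (P.lf 0 287562 0) P.nil)))) (P.cons (P.cons (P.lf 5218116 0 0) (P.cons (P.lf 4978584 0 0) (P.cons (P.lf 0 404064 0) P.nil))) (P.cons (P.cons (P.lf 0 593430 0) (P.cons (P.lf 0 590136 0) P.nil)) (P.cons (P.cons (P.lf 0 111624 0) P.nil) P.nil)))))) 429366)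
 EL.nil))))
noncomputable def S198_227_216_290_9 : EL := (EL.cons 3 (TM.mk (P.cons (P.lf 0 1320724353 0) (P.cons (P.lf 409570215 0 0) (P.cons (P.lf 14623338 0 0) (P.cons (P.lf 0 1245645 0) (P.cons (P.lf 0 85526 0) (P.cons (P.lf 2831 0 0) P.nil)))))) 532)
 (EL.cons 7 (TM.mk (P.cons (P.lf 0 1997870342 0) (P.cons (P.lf 0 96267727 0) (P.cons (P.lf 13808992 0 0) (P.cons (P.lf 693290 0 0) (P.cons (P.lf 0 37347 0) (P.cons (P.lf 0 3551 0) P.nil)))))) 296)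
 EL.nil))
noncomputable def S198_227_216_290_10 : EL := (EL.cons 3 (TM.mk (P.cons (P.cons (P.lf 0 837969698 0) (P.cons (P.lf 26781321 0 0) (P.cons (P.lf 12642421 0 0) (P.lf 0 602019 0)))) (P.cons (P.cons (P.lf 192519223 0 0) (P.cons (P.lf 0 4433775 0) (P.cons (P.lf 0 2093013 0) (P.lf 99666 0 0)))) (P.cons (P.cons (P.lf 64337333 0 0) (P.cons (P.lf 0 1865866 0) (P.cons (P.lf 0 880802 0) (P.lf 41941 0 0)))) (P.cons (P.cons (P.lf 0 9749944 0) (P.cons (P.lf 18356 0 0) (P.cons (P.lf 8664 0 0) P.nil))) (P.cons (P.cons (P.lf 0 1208057 0) (P.cons (P.lf 35144 0 0) P.nil)) (P.cons (P.cons (P.lf 134844 0 0) P.nil) P.nil)))))) 54790)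
 (EL.cons 7 (TM.mk (P.cons (P.cons (P.lf 0 1267603497 0) (P.cons (P.lf 40512320 0 0) (P.cons (P.lf 19124294 0 0) (P.lf 0 910680 0)))) (P.cons (P.cons (P.lf 0 162951207 0) (P.cons (P.lf 7808371 0 0) (P.cons (P.lf 3686028 0 0) (P.lf 0 175524 0)))) (P.cons (P.cons (P.lf 55549820 0 0) (P.cons (P.lf 0 555689 0) (P.cons (P.lf 0 262318 0) (P.lf 12490 0 0)))) (P.cons (P.cons (P.lf 4985587 0 0) (P.cons (P.lf 0 200013 0) (P.cons (P.lf 0 94419 0) P.nil))) (P.cons (P.cons (P.lf 0 938640 0) (P.cons (P.lf 0 1072 0) P.nil)) (P.cons (P.cons (P.lf 0 93153 0) P.nil) P.nil)))))) 37852)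
 EL.nil))
noncomputable def S198_227_216_290_11 : EL := (EL.cons 3 (TM.mk (P.cons (P.cons (P.lf 0 531672800 0) (P.cons (P.lf 33984284 0 0) (P.cons (P.lf 15499596 0 0) (P.cons (P.lf 0 1276655 0) (P.cons (P.lf 0 96601 0) (P.cons (P.lf 11524 0 0) P.nil)))))) (P.cons (P.cons (P.lf 79420968 0 0) (P.cons (P.lf 0 2895099 0) (P.cons (P.lf 0 1355260 0) (P.cons (P.lf 75845 0 0) (P.cons (P.lf 2028 0 0) P.nil))))) (P.cons (P.cons (P.lf 72320505 0 0) (P.cons (P.lf 0 4205848 0) (P.cons (P.lf 0 1927106 0) (P.cons (P.lf 149594 0 0) P.nil)))) (P.cons (P.cons (P.lf 0 7320727 0) (P.cons (P.lf 26261 0 0) (P.cons (P.lf 17845 0 0) P.nil))) (P.cons (P.cons (P.lf 0 3334582 0) (P.cons (P.lf 166667 0 0) P.nil)) (P.cons (P.cons (P.lf 283577 0 0) P.nil) P.nil)))))) 317476)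
 (EL.cons 7 (TM.mk (P.cons (P.cons (P.lf 0 804265718 0) (P.cons (P.lf 51408299 0 0) (P.cons (P.lf 23446364 0 0) (P.cons (P.lf 0 1931207 0) (P.cons (P.lf 0 146130 0) (P.cons (P.lf 17434 0 0) P.nil)))))) (P.cons (P.cons (P.lf 0 168024021 0) (P.cons (P.lf 14039920 0 0) (P.cons (P.lf 6350611 0 0) (P.cons (P.lf 0 577209 0) (P.cons (P.lf 0 49289 0) P.nil))))) (P.cons (P.cons (P.lf 59736803 0 0) (P.cons (P.lf 0 2005444 0) (P.cons (P.lf 0 946999 0) (P.cons (P.lf 44787 0 0) P.nil)))) (P.cons (P.cons (P.lf 11069166 0 0) (P.cons (P.lf 0 769349 0) (P.cons (P.lf 0 352910 0) P.nil))) (P.cons (P.cons (P.lf 0 2086104 0) (P.cons (P.lf 23130 0 0) P.nil)) (P.cons (P.cons (P.lf 0 346238 0) P.nil) P.nil)))))) 244451)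
 EL.nil))
noncomputable def S198_227_216_290_12 : EL := (EL.cons 4 (TM.mk (P.cons (P.lf 1320724353 0 0) (P.cons (P.lf 0 409570215 0) (P.cons (P.lf 0 14623338 0) (P.cons (P.lf 1245645 0 0) (P.cons (P.lf 85526 0 0) (P.cons (P.lf 0 2831 0) P.nil)))))) 532)
 (EL.cons 8 (TM.mk (P.cons (P.lf 1997870342 0 0) (P.cons (P.lf 96267727 0 0) (P.cons (P.lf 0 13808992 0) (P.cons (P.lf 0 693290 0) (P.cons (P.lf 37347 0 0) (P.cons (P.lf 3551 0 0) P.nil)))))) 296)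
 EL.nil))
noncomputable def S198_227_216_290_13 : EL := (EL.cons 4 (TM.mk (P.cons (P.cons (P.lf 837969698 0 0) (P.cons (P.lf 0 26781321 0) (P.cons (P.lf 0 12642421 0) (P.lf 602019 0 0)))) (P.cons (P.cons (P.lf 0 192519223 0) (P.cons (P.lf 4433775 0 0) (P.cons (P.lf 2093013 0 0) (P.lf 0 99666 0)))) (P.cons (P.cons (P.lf 0 64337333 0) (P.cons (P.lf 1865866 0 0) (P.cons (P.lf 880802 0 0) (P.lf 0 41941 0)))) (P.cons (P.cons (P.lf 9749944 0 0) (P.cons (P.lf 0 18356 0) (P.cons (P.lf 0 8664 0) P.nil))) (P.cons (P.cons (P.lf 1208057 0 0) (P.cons (P.lf 0 35144 0) P.nil)) (P.cons (P.cons (P.lf 0 134844 0) P.nil) P.nil)))))) 54790)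
 (EL.cons 8 (TM.mk (P.cons (P.cons (P.lf 1267603497 0 0) (P.cons (P.lf 0 40512320 0) (P.cons (P.lf 0 19124294 0) (P.lf 910680 0 0)))) (P.cons (P.cons (P.lf 162951207 0 0) (P.cons (P.lf 0 7808371 0) (P.cons (P.lf 0 3686028 0) (P.lf 175524 0 0)))) (P.cons (P.cons (P.lf 0 55549820 0) (P.cons (P.lf 555689 0 0) (P.cons (P.lf 262318 0 0) (P.lf 0 12490 0)))) (P.cons (P.cons (P.lf 0 4985587 0) (P.cons (P.lf 200013 0 0) (P.cons (P.lf 94419 0 0) P.nil))) (P.cons (P.cons (P.lf 938640 0 0) (P.cons (P.lf 1072 0 0) P.nil)) (P.cons (P.cons (P.lf 93153 0 0) P.nil) P.nil)))))) 37852)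
 EL.nil))
noncomputable def S198_227_216_290_14 : EL := (EL.cons 4 (TM.mk (P.cons (P.cons (P.lf 531672800 0 0) (P.cons (P.lf 0 33984284 0) (P.cons (P.lf 0 15499596 0) (P.cons (P.lf 1276655 0 0) (P.cons (P.lf 96601 0 0) (P.cons (P.lf 0 11524 0) P.nil)))))) (P.cons (P.cons (P.lf 0 79420968 0) (P.cons (P.lf 2895099 0 0) (P.cons (P.lf 1355260 0 0) (P.cons (P.lf 0 75845 0) (P.cons (P.lf 0 2028 0) P.nil))))) (P.cons (P.cons (P.lf 0 72320505 0) (P.cons (P.lf 4205848 0 0) (P.cons (P.lf 1927106 0 0) (P.cons (P.lf 0 149594 0) P.nil)))) (P.cons (P.cons (P.lf 7320727 0 0) (P.cons (P.lf 0 26261 0) (P.cons (P.lf 0 17845 0) P.nil))) (P.cons (P.cons (P.lf 3334582 0 0) (P.cons (P.lf 0 166667 0) P.nil)) (P.cons (P.cons (P.lf 0 283577 0) P.nil) P.nil)))))) 317476)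
 (EL.cons 8 (TM.mk (P.cons (P.cons (P.lf 804265718 0 0) (P.cons (P.lf 0 51408299 0) (P.cons (P.lf 0 23446364 0) (P.cons (P.lf 1931207 0 0) (P.cons (P.lf 146130 0 0) (P.cons (P.lf 0 17434 0) P.nil)))))) (P.cons (P.cons (P.lf 168024021 0 0) (P.cons (P.lf 0 14039920 0) (P.cons (P.lf 0 6350611 0) (P.cons (P.lf 577209 0 0) (P.cons (P.lf 49289 0 0) P.nil))))) (P.cons (P.cons (P.lf 0 59736803 0) (P.cons (P.lf 2005444 0 0) (P.cons (P.lf 946999 0 0) (P.cons (P.lf 0 44787 0) P.nil)))) (P.cons (P.cons (P.lf 0 11069166 0) (P.cons (P.lf 769349 0 0) (P.cons (P.lf 352910 0 0) P.nil))) (P.cons (P.cons (P.lf 2086104 0 0) (P.cons (P.lf 0 23130 0) P.nil)) (P.cons (P.cons (P.lf 346238 0 0) P.nil) P.nil)))))) 244451)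
 EL.nil))
noncomputable def S198_227_216_290_15 : EL := (EL.cons 4 (TM.mk (P.cons (P.lf 0 433204774 0) (P.cons (P.lf 268682518 0 0) (P.cons (P.lf 0 32067537 0) (P.cons (P.lf 0 3792065 0) (P.cons (P.lf 144194 0 0) (P.cons (P.lf 28304 0 0) P.nil)))))) 2128)
 (EL.cons 8 (TM.mk (P.cons (P.lf 0 655312343 0) (P.cons (P.lf 171642763 0 0) (P.cons (P.lf 21577328 0 0) (P.cons (P.lf 0 1445658 0) (P.cons (P.lf 0 205138 0) (P.cons (P.lf 3748 0 0) P.nil)))))) 1533)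
 EL.nil))
noncomputable def S198_227_216_290_16 : EL := (EL.cons 4 (TM.mk (P.cons (P.cons (P.lf 0 274858620 0) (P.cons (P.lf 8784419 0 0) (P.cons (P.lf 4146782 0 0) (P.lf 0 197465 0)))) (P.cons (P.cons (P.lf 148383839 0 0) (P.cons (P.lf 0 4178441 0) (P.cons (P.lf 0 1972480 0) (P.lf 93927 0 0)))) (P.cons (P.cons (P.lf 4563644 0 0) (P.cons (P.lf 0 258283 0) (P.cons (P.lf 0 121924 0) (P.lf 5805 0 0)))) (P.cons (P.cons (P.lf 0 10700704 0) (P.cons (P.lf 220200 0 0) (P.cons (P.lf 103947 0 0) P.nil))) (P.cons (P.cons (P.lf 403594 0 0) (P.cons (P.lf 15633 0 0) P.nil)) (P.cons (P.cons (P.lf 227101 0 0) P.nil) P.nil)))))) 64683)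
 (EL.cons 8 (TM.mk (P.cons (P.cons (P.lf 0 415780844 0) (P.cons (P.lf 13288261 0 0) (P.cons (P.lf 6272872 0 0) (P.lf 0 298707 0)))) (P.cons (P.cons (P.lf 75489036 0 0) (P.cons (P.lf 0 1559638 0) (P.cons (P.lf 0 736244 0) (P.lf 35058 0 0)))) (P.cons (P.cons (P.lf 39399304 0 0) (P.cons (P.lf 0 1123650 0) (P.cons (P.lf 0 530431 0) (P.lf 25258 0 0)))) (P.cons (P.cons (P.lf 0 3815456 0) (P.cons (P.lf 0 24907 0) (P.cons (P.lf 0 11758 0) P.nil))) (P.cons (P.cons (P.lf 0 1094080 0) (P.cons (P.lf 25287 0 0) P.nil)) (P.cons (P.cons (P.lf 61430 0 0) P.nil) P.nil)))))) 46459)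
 EL.nil))
noncomputable def S198_227_216_290_17 : EL := (EL.cons 4 (TM.mk (P.cons (P.cons (P.lf 0 174391571 0) (P.cons (P.lf 11147029 0 0) (P.cons (P.lf 5083951 0 0) (P.cons (P.lf 0 418749 0) (P.cons (P.lf 0 31685 0) (P.cons (P.lf 3780 0 0) P.nil)))))) (P.cons (P.cons (P.lf 80131130 0 0) (P.cons (P.lf 0 4406416 0) (P.cons (P.lf 0 2021118 0) (P.cons (P.lf 154736 0 0) (P.cons (P.lf 10491 0 0) P.nil))))) (P.cons (P.cons (P.lf 17573888 0 0) (P.cons (P.lf 0 1208479 0) (P.cons (P.lf 0 550537 0) (P.cons (P.lf 45989 0 0) P.nil)))) (P.cons (P.cons (P.lf 0 10210440 0) (P.cons (P.lf 457451 0 0) (P.cons (P.lf 211590 0 0) P.nil))) (P.cons (P.cons (P.lf 0 598485 0) (P.cons (P.lf 67096 0 0) P.nil)) (P.cons (P.cons (P.lf 483222 0 0) P.nil) P.nil)))))) 271176)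
 (EL.cons 8 (TM.mk (P.cons (P.cons (P.lf 0 263803531 0) (P.cons (P.lf 16862201 0 0) (P.cons (P.lf 7690535 0 0) (P.cons (P.lf 0 633446 0) (P.cons (P.lf 0 47931 0) (P.cons (P.lf 5718 0 0) P.nil)))))) (P.cons (P.cons (P.lf 26695396 0 0) (P.cons (P.lf 0 623972 0) (P.cons (P.lf 0 301878 0) (P.cons (P.lf 7110 0 0) (P.cons (P.lf 0 1302 0) P.nil))))) (P.cons (P.cons (P.lf 39605928 0 0) (P.cons (P.lf 0 2272609 0) (P.cons (P.lf 0 1041742 0) (P.cons (P.lf 80416 0 0) P.nil)))) (P.cons (P.cons (P.lf 0 2084139 0) (P.cons (P.lf 0 83447 0) (P.cons (P.lf 0 35240 0) P.nil))) (P.cons (P.cons (P.lf 0 2096197 0) (P.cons (P.lf 98562 0 0) P.nil)) (P.cons (P.cons (P.lf 73902 0 0) P.nil) P.nil)))))) 207024)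
 EL.nil))
noncomputable def S198_227_216_290_18 : EL := (EL.cons 4 (TM.mk (P.cons (P.lf 142093522 0 0) (P.cons (P.lf 0 132193991 0) (P.cons (P.lf 36274848 0 0) (P.cons (P.lf 0 908220 0) (P.cons (P.lf 0 623396 0) (P.cons (P.lf 0 4479 0) P.nil)))))) 6741)
 (EL.cons 8 (TM.mk (P.cons (P.lf 214946014 0 0) (P.cons (P.lf 0 122956731 0) (P.cons (P.lf 8001726 0 0) (P.cons (P.lf 3495072 0 0) (P.cons (P.lf 0 40579 0) (P.cons (P.lf 0 38127 0) P.nil)))))) 3726)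
 EL.nil))
noncomputable def S198_227_216_290_19 : EL := (EL.cons 4 (TM.mk (P.cons (P.cons (P.lf 90155122 0 0) (P.cons (P.lf 0 2881336 0) (P.cons (P.lf 0 1360167 0) (P.lf 64769 0 0)))) (P.cons (P.cons (P.lf 0 76628737 0) (P.cons (P.lf 2264083 0 0) (P.cons (P.lf 1068785 0 0) (P.lf 0 50894 0)))) (P.cons (P.cons (P.lf 12598170 0 0) (P.cons (P.lf 0 308400 0) (P.cons (P.lf 0 145583 0) (P.lf 6931 0 0)))) (P.cons (P.cons (P.lf 4598016 0 0) (P.cons (P.lf 0 116391 0) (P.cons (P.lf 0 54943 0) P.nil))) (P.cons (P.cons (P.lf 0 1244325 0) (P.cons (P.lf 17437 0 0) P.nil)) (P.cons (P.cons (P.lf 0 77055 0) P.nil) P.nil)))))) 67419)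
 (EL.cons 8 (TM.mk (P.cons (P.cons (P.lf 136378379 0 0) (P.cons (P.lf 0 4358622 0) (P.cons (P.lf 0 2057536 0) (P.lf 97977 0 0)))) (P.cons (P.cons (P.lf 0 67053153 0) (P.cons (P.lf 1863223 0 0) (P.cons (P.lf 879555 0 0) (P.lf 0 41883 0)))) (P.cons (P.cons (P.lf 0 6754613 0) (P.cons (P.lf 258179 0 0) (P.cons (P.lf 121876 0 0) (P.lf 0 5803 0)))) (P.cons (P.cons (P.lf 5661885 0 0) (P.cons (P.lf 0 115900 0) (P.cons (P.lf 0 54711 0) P.nil))) (P.cons (P.cons (P.lf 99331 0 0) (P.cons (P.lf 0 14708 0) P.nil)) (P.cons (P.cons (P.lf 0 159378 0) P.nil) P.nil)))))) 49313)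
 EL.nil))
noncomputable def S198_227_216_290_20 : EL := (EL.cons 4 (TM.mk (P.cons (P.cons (P.lf 57201383 0 0) (P.cons (P.lf 0 3656285 0) (P.cons (P.lf 0 1667563 0) (P.cons (P.lf 137352 0 0) (P.cons (P.lf 10393 0 0) (P.cons (P.lf 0 1239 0) P.nil)))))) (P.cons (P.cons (P.lf 0 44022184 0) (P.cons (P.lf 2579180 0 0) (P.cons (P.lf 1180065 0 0) (P.cons (P.lf 0 93348 0) (P.cons (P.lf 0 6663 0) P.nil))))) (P.cons (P.cons (P.lf 1753090 0 0) (P.cons (P.lf 0 11340 0) (P.cons (P.lf 0 6540 0) (P.cons (P.lf 0 865 0) P.nil)))) (P.cons (P.cons (P.lf 5481623 0 0) (P.cons (P.lf 0 292421 0) (P.cons (P.lf 0 134315 0) P.nil))) (P.cons (P.cons (P.lf 0 799538 0) (P.cons (P.lf 21259 0 0) P.nil)) (P.cons (P.cons (P.lf 0 263718 0) P.nil) P.nil)))))) 202889)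
 (EL.cons 8 (TM.mk (P.cons (P.cons (P.lf 86528993 0 0) (P.cons (P.lf 0 5530893 0) (P.cons (P.lf 0 2522537 0) (P.cons (P.lf 207773 0 0) (P.cons (P.lf 15721 0 0) (P.cons (P.lf 0 1875 0) P.nil)))))) (P.cons (P.cons (P.lf 0 35589766 0) (P.cons (P.lf 1919853 0 0) (P.cons (P.lf 881282 0 0) (P.cons (P.lf 0 66764 0) (P.cons (P.lf 0 4448 0) P.nil))))) (P.cons (P.cons (P.lf 0 11233628 0) (P.cons (P.lf 743198 0 0) (P.cons (P.lf 338920 0 0) (P.cons (P.lf 0 27954 0) P.nil)))) (P.cons (P.cons (P.lf 4890800 0 0) (P.cons (P.lf 0 211276 0) (P.cons (P.lf 0 97880 0) P.nil))) (P.cons (P.cons (P.lf 616753 0 0) (P.cons (P.lf 0 49235 0) P.nil)) (P.cons (P.cons (P.lf 0 258034 0) P.nil) P.nil)))))) 174031)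
 EL.nil))
noncomputable def S198_227_216_290_21 : EL := (EL.cons 4 (TM.mk (P.cons (P.cons (P.lf 0 1397604315 0) (P.cons (P.lf 80343963 0 0) (P.cons (P.lf 37927263 0 0) (P.lf 0 1806057 0)))) (P.cons (P.cons (P.lf 1383605220 0 0) (P.cons (P.lf 0 13301325 0) (P.cons (P.lf 0 6279039 0) (P.lf 298998 0 0)))) (P.cons (P.cons (P.lf 96809388 0 0) (P.cons (P.lf 0 5597598 0) (P.cons (P.lf 0 2642406 0) (P.lf 125823 0 0)))) (P.cons (P.cons (P.lf 0 40626024 0) (P.cons (P.lf 55068 0 0) (P.cons (P.lf 25992 0 0) P.nil))) (P.cons (P.cons (P.lf 0 3191592 0) (P.cons (P.lf 105432 0 0) P.nil)) (P.cons (P.cons (P.lf 489444 0 0) P.nil) P.nil)))))) 171045)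
 (EL.cons 8 (TM.mk (P.cons (P.cons (P.lf 328500930 0 0) (P.cons (P.lf 0 18884508 0) (P.cons (P.lf 0 8914647 0) (P.lf 424509 0 0)))) (P.cons (P.cons (P.lf 0 442910877 0) (P.cons (P.lf 9892650 0 0) (P.cons (P.lf 4669932 0 0) (P.lf 0 222375 0)))) (P.cons (P.cons (P.lf 98071542 0 0) (P.cons (P.lf 0 51954 0) (P.cons (P.lf 0 24522 0) (P.lf 1164 0 0)))) (P.cons (P.cons (P.lf 12843105 0 0) (P.cons (P.lf 0 409050 0) (P.cons (P.lf 0 193098 0) P.nil))) (P.cons (P.cons (P.lf 0 2345388 0) (P.cons (P.lf 0 10476 0) P.nil)) (P.cons (P.cons (P.lf 0 253119 0) P.nil) P.nil)))))) 129054)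
 (EL.cons 11 (TM.mk (P.cons (P.cons (P.lf 564837402 0 0) (P.cons (P.lf 556953498 0 0) (P.cons (P.lf 0 17427612 0) (P.cons (P.lf 0 3193539 0) (P.lf 114054 0 0))))) (P.cons (P.cons (P.lf 54433575 0 0) (P.cons (P.lf 53673798 0 0) (P.cons (P.lf 0 1679505 0) (P.cons (P.lf 0 307761 0) (P.lf 10989 0 0))))) (P.cons (P.cons (P.lf 0 6496701 0) (P.cons (P.lf 0 6406023 0) (P.cons (P.lf 200448 0 0) (P.cons (P.lf 36729 0 0) P.nil)))) (P.cons (P.cons (P.lf 0 768249 0) (P.cons (P.lf 0 757527 0) (P.cons (P.lf 23703 0 0) P.nil))) (P.cons (P.cons (P.lf 29211 0 0) (P.cons (P.lf 28803 0 0) P.nil)) (P.cons (P.cons (P.lf 5733 0 0) P.nil) P.nil)))))) 13893)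
 EL.nil)))
noncomputable def S198_227_216_290_22 : EL := (EL.cons 4 (TM.mk (P.cons (P.cons (P.lf 0 886748292 0) (P.cons (P.lf 79316697 0 0) (P.cons (P.lf 35813136 0 0) (P.cons (P.lf 0 3321123 0) (P.cons (P.lf 0 289806 0) (P.cons (P.lf 34575 0 0) P.nil)))))) (P.cons (P.cons (P.lf 806602266 0 0) (P.cons (P.lf 0 28302306 0) (P.cons (P.lf 0 13326210 0) (P.cons (P.lf 668508 0 0) (P.cons (P.lf 6084 0 0) P.nil))))) (P.cons (P.cons (P.lf 168137967 0 0) (P.cons (P.lf 0 12717801 0) (P.cons (P.lf 0 5828646 0) (P.cons (P.lf 451035 0 0) P.nil)))) (P.cons (P.cons (P.lf 0 55697454 0) (P.cons (P.lf 882798 0 0) (P.cons (P.lf 433077 0 0) P.nil))) (P.cons (P.cons (P.lf 0 7997214 0) (P.cons (P.lf 544410 0 0) P.nil)) (P.cons (P.cons (P.lf 1568331 0 0) P.nil) P.nil)))))) 854031)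
 (EL.cons 8 (TM.mk (P.cons (P.cons (P.lf 208426401 0 0) (P.cons (P.lf 0 18643053 0) (P.cons (P.lf 0 8417727 0) (P.cons (P.lf 780618 0 0) (P.cons (P.lf 68115 0 0) (P.cons (P.lf 0 8127 0) P.nil)))))) (P.cons (P.cons (P.lf 0 264266643 0) (P.cons (P.lf 13332054 0 0) (P.cons (P.lf 6148296 0 0) (P.cons (P.lf 0 436818 0) (P.cons (P.lf 0 25836 0) P.nil))))) (P.cons (P.cons (P.lf 31139811 0 0) (P.cons (P.lf 361461 0 0) (P.cons (P.lf 137415 0 0) (P.cons (P.lf 0 39486 0) P.nil)))) (P.cons (P.cons (P.lf 24388056 0 0) (P.cons (P.lf 0 1157472 0) (P.cons (P.lf 0 536310 0) P.nil))) (P.cons (P.cons (P.lf 0 2963322 0) (P.cons (P.lf 0 28401 0) P.nil)) (P.cons (P.cons (P.lf 0 819762 0) P.nil) P.nil)))))) 441861)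
 (EL.cons 11 (TM.mk (P.cons (P.cons (P.lf 358376541 0 0) (P.cons (P.lf 341920749 0 0) (P.cons (P.lf 0 27758004 0) (P.cons (P.lf 0 6746715 0) (P.cons (P.lf 557817 0 0) (P.cons (P.lf 20310 0 0) P.nil)))))) (P.cons (P.cons (P.lf 63337959 0 0) (P.cons (P.lf 59694420 0 0) (P.cons (P.lf 0 5977842 0) (P.cons (P.lf 0 1495392 0) (P.cons (P.lf 129744 0 0) P.nil))))) (P.cons (P.cons (P.lf 0 15962208 0) (P.cons (P.lf 0 15609513 0) (P.cons (P.lf 681903 0 0) (P.cons (P.lf 143781 0 0) P.nil)))) (P.cons (P.cons (P.lf 0 2609058 0) (P.cons (P.lf 0 2489292 0) (P.cons (P.lf 202032 0 0) P.nil))) (P.cons (P.cons (P.lf 296715 0 0) (P.cons (P.lf 295068 0 0) P.nil)) (P.cons (P.cons (P.lf 55812 0 0) P.nil) P.nil)))))) 214683)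
 EL.nil)))
noncomputable def S198_227_216_290_23 : EL := (EL.cons 4 (TM.mk (P.cons (P.cons (P.lf 458421819 0 0) (P.cons (P.lf 0 26353257 0) (P.cons (P.lf 0 12440346 0) (P.lf 592395 0 0)))) (P.cons (P.cons (P.lf 0 595991364 0) (P.cons (P.lf 12535323 0 0) (P.cons (P.lf 5917437 0 0) (P.lf 0 281781 0)))) (P.cons (P.cons (P.lf 103907616 0 0) (P.cons (P.lf 774849 0 0) (P.cons (P.lf 365775 0 0) (P.lf 0 17415 0)))) (P.cons (P.cons (P.lf 28630062 0 0) (P.cons (P.lf 0 660600 0) (P.cons (P.lf 0 311841 0) P.nil))) (P.cons (P.cons (P.lf 0 3132288 0) (P.cons (P.lf 0 46899 0) P.nil)) (P.cons (P.cons (P.lf 0 693045 0) P.nil) P.nil)))))) 200340)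
 (EL.cons 8 (TM.mk (P.cons (P.cons (P.lf 0 107750091 0) (P.cons (P.lf 6194220 0 0) (P.cons (P.lf 2924052 0 0) (P.lf 0 139239 0)))) (P.cons (P.cons (P.lf 178691589 0 0) (P.cons (P.lf 0 5165733 0) (P.cons (P.lf 0 2438541 0) (P.lf 116118 0 0)))) (P.cons (P.cons (P.lf 0 76026915 0) (P.cons (P.lf 954714 0 0) (P.cons (P.lf 450681 0 0) (P.lf 0 21459 0)))) (P.cons (P.cons (P.lf 4052853 0 0) (P.cons (P.lf 170655 0 0) (P.cons (P.lf 80559 0 0) P.nil))) (P.cons (P.cons (P.lf 2561883 0 0) (P.cons (P.lf 0 41019 0) P.nil)) (P.cons (P.cons (P.lf 0 129600 0) P.nil) P.nil)))))) 125277)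
 (EL.cons 11 (TM.mk (P.cons (P.cons (P.lf 0 185269740 0) (P.cons (P.lf 0 182683776 0) (P.cons (P.lf 5716350 0 0) (P.cons (P.lf 1047498 0 0) (P.lf 0 37410 0))))) (P.cons (P.cons (P.lf 39599544 0 0) (P.cons (P.lf 39046821 0 0) (P.cons (P.lf 0 1221810 0) (P.cons (P.lf 0 223890 0) (P.lf 7995 0 0))))) (P.cons (P.cons (P.lf 9719163 0 0) (P.cons (P.lf 9583506 0 0) (P.cons (P.lf 0 299874 0) (P.cons (P.lf 0 54948 0) P.nil)))) (P.cons (P.cons (P.lf 0 385887 0) (P.cons (P.lf 0 380502 0) (P.cons (P.lf 11904 0 0) P.nil))) (P.cons (P.cons (P.lf 0 140157 0) (P.cons (P.lf 0 138201 0) P.nil)) (P.cons (P.cons (P.lf 0 447 0) P.nil) P.nil)))))) 29157)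
 EL.nil)))
noncomputable def S198_227_216_290_24 : EL := (EL.cons 4 (TM.mk (P.cons (P.cons (P.lf 290858265 0 0) (P.cons (P.lf 0 26016309 0) (P.cons (P.lf 0 11746902 0) (P.cons (P.lf 1089345 0 0) (P.cons (P.lf 95058 0 0) (P.cons (P.lf 0 11340 0) P.nil)))))) (P.cons (P.cons (P.lf 0 354768072 0) (P.cons (P.lf 17351235 0 0) (P.cons (P.lf 8013903 0 0) (P.cons (P.lf 0 557091 0) (P.cons (P.lf 0 31473 0) P.nil))))) (P.cons (P.cons (P.lf 23675244 0 0) (P.cons (P.lf 1580715 0 0) (P.cons (P.lf 686376 0 0) (P.cons (P.lf 0 92004 0) P.nil)))) (P.cons (P.cons (P.lf 38575401 0 0) (P.cons (P.lf 0 1710513 0) (P.cons (P.lf 0 794403 0) P.nil))) (P.cons (P.cons (P.lf 0 2662356 0) (P.cons (P.lf 0 127890 0) P.nil)) (P.cons (P.cons (P.lf 0 1599930 0) P.nil) P.nil)))))) 695844)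
 (EL.cons 8 (TM.mk (P.cons (P.cons (P.lf 0 68364993 0) (P.cons (P.lf 6115020 0 0) (P.cons (P.lf 2761059 0 0) (P.cons (P.lf 0 256047 0) (P.cons (P.lf 0 22341 0) (P.cons (P.lf 2664 0 0) P.nil)))))) (P.cons (P.cons (P.lf 107881584 0 0) (P.cons (P.lf 0 6269316 0) (P.cons (P.lf 0 2872908 0) (P.cons (P.lf 222681 0 0) (P.cons (P.lf 15402 0 0) P.nil))))) (P.cons (P.cons (P.lf 0 36337713 0) (P.cons (P.lf 1169838 0 0) (P.cons (P.lf 549747 0 0) (P.cons (P.lf 0 28644 0) P.nil)))) (P.cons (P.cons (P.lf 0 5856165 0) (P.cons (P.lf 470610 0 0) (P.cons (P.lf 214821 0 0) P.nil))) (P.cons (P.cons (P.lf 3643104 0 0) (P.cons (P.lf 0 110835 0) P.nil)) (P.cons (P.cons (P.lf 52161 0 0) P.nil) P.nil)))))) 329535)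
 (EL.cons 11 (TM.mk (P.cons (P.cons (P.lf 0 117549456 0) (P.cons (P.lf 0 112151865 0) (P.cons (P.lf 9104775 0 0) (P.cons (P.lf 2212959 0 0) (P.cons (P.lf 0 182967 0) (P.cons (P.lf 0 6660 0) P.nil)))))) (P.cons (P.cons (P.lf 15678099 0 0) (P.cons (P.lf 15199353 0 0) (P.cons (P.lf 0 862719 0) (P.cons (P.lf 0 195762 0) (P.cons (P.lf 14181 0 0) P.nil))))) (P.cons (P.cons (P.lf 12979824 0 0) (P.cons (P.lf 12433761 0 0) (P.cons (P.lf 0 932529 0) (P.cons (P.lf 0 223770 0) P.nil)))) (P.cons (P.cons (P.lf 0 648693 0) (P.cons (P.lf 0 660246 0) (P.cons (P.lf 0 10029 0) P.nil))) (P.cons (P.cons (P.lf 0 447888 0) (P.cons (P.lf 0 432408 0) P.nil)) (P.cons (P.cons (P.lf 6243 0 0) P.nil) P.nil)))))) 194349)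
 EL.nil)))
noncomputable def S198_227_216_290_25 : EL := (EL.cons 4 (TM.mk (P.cons (P.cons (P.lf 0 150364851 0) (P.cons (P.lf 8644011 0 0) (P.cons (P.lf 4080501 0 0) (P.lf 0 194307 0)))) (P.cons (P.cons (P.lf 242118096 0 0) (P.cons (P.lf 0 6792249 0) (P.cons (P.lf 0 3206355 0) (P.lf 152682 0 0)))) (P.cons (P.cons (P.lf 0 93040359 0) (P.cons (P.lf 925203 0 0) (P.cons (P.lf 436752 0 0) (P.lf 0 20796 0)))) (P.cons (P.cons (P.lf 0 1127862 0) (P.cons (P.lf 349173 0 0) (P.cons (P.lf 164829 0 0) P.nil))) (P.cons (P.cons (P.lf 4491600 0 0) (P.cons (P.lf 0 52314 0) P.nil)) (P.cons (P.cons (P.lf 0 6471 0) P.nil) P.nil)))))) 215007)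
 (EL.cons 8 (TM.mk (P.cons (P.cons (P.lf 35342616 0 0) (P.cons (P.lf 0 2031738 0) (P.cons (P.lf 0 959103 0) (P.lf 45669 0 0)))) (P.cons (P.cons (P.lf 0 69571923 0) (P.cons (P.lf 2324451 0 0) (P.cons (P.lf 1097283 0 0) (P.lf 0 52251 0)))) (P.cons (P.cons (P.lf 42722046 0 0) (P.cons (P.lf 0 816102 0) (P.cons (P.lf 0 385248 0) (P.lf 18342 0 0)))) (P.cons (P.cons (P.lf 0 8380356 0) (P.cons (P.lf 20457 0 0) (P.cons (P.lf 9657 0 0) P.nil))) (P.cons (P.cons (P.lf 0 757164 0) (P.cons (P.lf 35745 0 0) P.nil)) (P.cons (P.cons (P.lf 337464 0 0) P.nil) P.nil)))))) 111669)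
 (EL.cons 11 (TM.mk (P.cons (P.cons (P.lf 60769482 0 0) (P.cons (P.lf 59921271 0 0) (P.cons (P.lf 0 1874994 0) (P.cons (P.lf 0 343584 0) (P.lf 12270 0 0))))) (P.cons (P.cons (P.lf 0 31834107 0) (P.cons (P.lf 0 31389771 0) (P.cons (P.lf 982215 0 0) (P.cons (P.lf 179985 0 0) (P.lf 0 6426 0))))) (P.cons (P.cons (P.lf 167187 0 0) (P.cons (P.lf 164853 0 0) (P.cons (P.lf 0 5157 0) (P.cons (P.lf 0 945 0) P.nil)))) (P.cons (P.cons (P.lf 1316316 0 0) (P.cons (P.lf 1297941 0 0) (P.cons (P.lf 0 40611 0) P.nil))) (P.cons (P.cons (P.lf 33702 0 0) (P.cons (P.lf 33231 0 0) P.nil)) (P.cons (P.cons (P.lf 0 19488 0) P.nil) P.nil)))))) 43386)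
 EL.nil)))
noncomputable def S198_227_216_290_26 : EL := (EL.cons 4 (TM.mk (P.cons (P.cons (P.lf 0 95403093 0) (P.cons (P.lf 8533488 0 0) (P.cons (P.lf 3853047 0 0) (P.cons (P.lf 0 357309 0) (P.cons (P.lf 0 31179 0) (P.cons (P.lf 3717 0 0) P.nil)))))) (P.cons (P.cons (P.lf 145951338 0 0) (P.cons (P.lf 0 8337621 0) (P.cons (P.lf 0 3823473 0) (P.cons (P.lf 293535 0 0) (P.cons (P.lf 19992 0 0) P.nil))))) (P.cons (P.cons (P.lf 0 42795534 0) (P.cons (P.lf 1151961 0 0) (P.cons (P.lf 547359 0 0) (P.cons (P.lf 0 22530 0) P.nil)))) (P.cons (P.cons (P.lf 0 11623152 0) (P.cons (P.lf 792906 0 0) (P.cons (P.lf 363123 0 0) P.nil))) (P.cons (P.cons (P.lf 4986627 0 0) (P.cons (P.lf 0 131115 0) P.nil)) (P.cons (P.cons (P.lf 394488 0 0) P.nil) P.nil)))))) 510045)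
 (EL.cons 8 (TM.mk (P.cons (P.cons (P.lf 22424088 0 0) (P.cons (P.lf 0 2005758 0) (P.cons (P.lf 0 905640 0) (P.cons (P.lf 83982 0 0) (P.cons (P.lf 7326 0 0) (P.cons (P.lf 0 873 0) P.nil)))))) (P.cons (P.cons (P.lf 0 42339687 0) (P.cons (P.lf 2678376 0 0) (P.cons (P.lf 1223178 0 0) (P.cons (P.lf 0 99084 0) (P.cons (P.lf 0 7323 0) P.nil))))) (P.cons (P.cons (P.lf 22644168 0 0) (P.cons (P.lf 0 999207 0) (P.cons (P.lf 0 462516 0) (P.cons (P.lf 31116 0 0) P.nil)))) (P.cons (P.cons (P.lf 0 1362390 0) (P.cons (P.lf 0 60027 0) (P.cons (P.lf 0 25830 0) P.nil))) (P.cons (P.cons (P.lf 0 1954524 0) (P.cons (P.lf 90282 0 0) P.nil)) (P.cons (P.cons (P.lf 341091 0 0) P.nil) P.nil)))))) 209961)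
 (EL.cons 11 (TM.mk (P.cons (P.cons (P.lf 38556861 0 0) (P.cons (P.lf 36786420 0 0) (P.cons (P.lf 0 2986416 0) (P.cons (P.lf 0 725862 0) (P.cons (P.lf 60012 0 0) (P.cons (P.lf 2184 0 0) P.nil)))))) (P.cons (P.cons (P.lf 0 17099379 0) (P.cons (P.lf 0 16393317 0) (P.cons (P.lf 1209093 0 0) (P.cons (P.lf 289308 0 0) (P.cons (P.lf 0 23262 0) P.nil))))) (P.cons (P.cons (P.lf 0 3089619 0) (P.cons (P.lf 0 2939601 0) (P.cons (P.lf 251187 0 0) (P.cons (P.lf 61521 0 0) P.nil)))) (P.cons (P.cons (P.lf 1626357 0 0) (P.cons (P.lf 1571193 0 0) (P.cons (P.lf 0 97515 0) P.nil))) (P.cons (P.cons (P.lf 125712 0 0) (P.cons (P.lf 117510 0 0) P.nil)) (P.cons (P.cons (P.lf 0 54393 0) P.nil) P.nil)))))) 155721)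
 EL.nil)))
noncomputable def S198_227_216_290_27 : EL := (EL.cons 13 (TM.mk (P.lf 0 4294967296 0) 0)
 EL.nil)
noncomputable def S198_227_216_290_28 : EL := (EL.cons 13 (TM.mk (P.cons (P.cons (P.lf 0 2725059505 0) (P.cons (P.lf 87092284 0 0) (P.cons (P.lf 41112888 0 0) (P.lf 0 1957756 0)))) (P.cons (P.cons (P.lf 0 219000610 0) (P.cons (P.lf 12589668 0 0) (P.cons (P.lf 5943092 0 0) (P.lf 0 283004 0)))) (P.cons (P.cons (P.lf 111136855 0 0) (P.cons (P.lf 0 1199272 0) (P.cons (P.lf 0 566128 0) (P.lf 26956 0 0)))) (P.cons (P.cons (P.lf 2903396 0 0) (P.cons (P.lf 0 254956 0) (P.cons (P.lf 0 120356 0) P.nil))) (P.cons (P.cons (P.lf 0 1414659 0) (P.cons (P.lf 4432 0 0) P.nil)) (P.cons (P.cons (P.lf 0 64521 0) P.nil) P.nil)))))) 39981)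
 EL.nil)
noncomputable def S198_227_216_290_29 : EL := (EL.cons 13 (TM.mk (P.cons (P.cons (P.lf 0 1728988556 0) (P.cons (P.lf 110516164 0 0) (P.cons (P.lf 50404357 0 0) (P.cons (P.lf 0 4151657 0) (P.cons (P.lf 0 314148 0) (P.cons (P.lf 37480 0 0) P.nil)))))) (P.cons (P.cons (P.lf 0 277901857 0) (P.cons (P.lf 24857398 0 0) (P.cons (P.lf 11223630 0 0) (P.cons (P.lf 0 1040821 0) (P.cons (P.lf 0 90823 0) P.nil))))) (P.cons (P.cons (P.lf 129860783 0 0) (P.cons (P.lf 0 4745137 0) (P.cons (P.lf 0 2228259 0) (P.cons (P.lf 117740 0 0) P.nil)))) (P.cons (P.cons (P.lf 15018026 0 0) (P.cons (P.lf 0 1215120 0) (P.cons (P.lf 0 556241 0) P.nil))) (P.cons (P.cons (P.lf 0 4374834 0) (P.cons (P.lf 82039 0 0) P.nil)) (P.cons (P.cons (P.lf 0 376398 0) P.nil) P.nil)))))) 351138)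
 EL.nil)
noncomputable def S198_227_216_290_30 : EL := (EL.cons 13 (TM.mk (P.cons (P.lf 1408772644 0 0) (P.cons (P.lf 0 436874896 0) (P.cons (P.lf 0 15598228 0) (P.cons (P.lf 1328688 0 0) (P.cons (P.lf 91228 0 0) (P.cons (P.lf 0 3020 0) P.nil)))))) 560)
 EL.nil)
noncomputable def S198_227_216_290_31 : EL := (EL.cons 13 (TM.mk (P.cons (P.cons (P.lf 893834345 0 0) (P.cons (P.lf 0 28566743 0) (P.cons (P.lf 0 13485250 0) (P.lf 642154 0 0)))) (P.cons (P.cons (P.lf 0 205353838 0) (P.cons (P.lf 4729361 0 0) (P.cons (P.lf 2232548 0 0) (P.lf 0 106311 0)))) (P.cons (P.cons (P.lf 0 68626489 0) (P.cons (P.lf 1990258 0 0) (P.cons (P.lf 939523 0 0) (P.lf 0 44738 0)))) (P.cons (P.cons (P.lf 10399941 0 0) (P.cons (P.lf 0 19580 0) (P.cons (P.lf 0 9242 0) P.nil))) (P.cons (P.cons (P.lf 1288595 0 0) (P.cons (P.lf 0 37487 0) P.nil)) (P.cons (P.cons (P.lf 0 143834 0) P.nil) P.nil))))))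 58423)
 EL.nil)
noncomputable def S198_227_216_290_32 : EL := (EL.cons 13 (TM.mk (P.cons (P.cons (P.lf 567117654 0 0) (P.cons (P.lf 0 36249903 0) (P.cons (P.lf 0 16532903 0) (P.cons (P.lf 1361766 0 0) (P.cons (P.lf 103042 0 0) (P.cons (P.lf 0 12293 0) P.nil)))))) (P.cons (P.cons (P.lf 0 84715700 0) (P.cons (P.lf 3088106 0 0) (P.cons (P.lf 1445611 0 0) (P.cons (P.lf 0 80902 0) (P.cons (P.lf 0 2164 0) P.nil))))) (P.cons (P.cons (P.lf 0 77141872 0) (P.cons (P.lf 4486238 0 0) (P.cons (P.lf 2055580 0 0) (P.cons (P.lf 0 159567 0) P.nil)))) (P.cons (P.cons (P.lf 7808776 0 0) (P.cons (P.lf 0 28012 0) (P.cons (P.lf 0 19035 0) P.nil))) (P.cons (P.cons (P.lf 3556888 0 0) (P.cons (P.lf 0 177779 0) P.nil)) (P.cons (P.cons (P.lf 0 302483 0) P.nil) P.nil)))))) 338618)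
 EL.nil)
noncomputable def S198_227_216_290_33 : EL := (EL.cons 14 (TM.mk (P.lf 8589934592 0 0) 0)
 EL.nil)
noncomputable def S198_227_216_290_34 : EL := (EL.cons 14 (TM.mk (P.cons (P.cons (P.lf 5450119010 0 0) (P.cons (P.lf 0 174184568 0) (P.cons (P.lf 0 82225776 0) (P.lf 3915512 0 0)))) (P.cons (P.cons (P.lf 438001220 0 0) (P.cons (P.lf 0 25179336 0) (P.cons (P.lf 0 11886184 0) (P.lf 566008 0 0)))) (P.cons (P.cons (P.lf 0 222273710 0) (P.cons (P.lf 2398544 0 0) (P.cons (P.lf 1132256 0 0) (P.lf 0 53912 0)))) (P.cons (P.cons (P.lf 0 5806792 0) (P.cons (P.lf 509912 0 0) (P.cons (P.lf 240712 0 0) P.nil))) (P.cons (P.cons (P.lf 2829318 0 0) (P.cons (P.lf 0 8864 0) P.nil)) (P.cons (P.cons (P.lf 129042 0 0) P.nil) P.nil)))))) 79962)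
 EL.nil)
noncomputable def S198_227_216_290_35 : EL := (EL.cons 14 (TM.mk (P.cons (P.cons (P.lf 3457977112 0 0) (P.cons (P.lf 0 221032328 0) (P.cons (P.lf 0 100808714 0) (P.cons (P.lf 8303314 0 0) (P.cons (P.lf 628296 0 0) (P.cons (P.lf 0 74960 0) P.nil)))))) (P.cons (P.cons (P.lf 555803714 0 0) (P.cons (P.lf 0 49714796 0) (P.cons (P.lf 0 22447260 0) (P.cons (P.lf 2081642 0 0) (P.cons (P.lf 181646 0 0) P.nil))))) (P.cons (P.cons (P.lf 0 259721566 0) (P.cons (P.lf 9490274 0 0) (P.cons (P.lf 4456518 0 0) (P.cons (P.lf 0 235480 0) P.nil)))) (P.cons (P.cons (P.lf 0 30036052 0) (P.cons (P.lf 2430240 0 0) (P.cons (P.lf 1112482 0 0) P.nil))) (P.cons (P.cons (P.lf 8749668 0 0) (P.cons (P.lf 0 164078 0) P.nil)) (P.cons (P.cons (P.lf 752796 0 0) P.nil) P.nil)))))) 702276)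
 EL.nil)
noncomputable def S198_227_216_290_36 : EL := (EL.cons 14 (TM.mk (P.cons (P.lf 0 2817545288 0) (P.cons (P.lf 873749792 0 0) (P.cons (P.lf 31196456 0 0) (P.cons (P.lf 0 2657376 0) (P.cons (P.lf 0 182456 0) (P.cons (P.lf 6040 0 0) P.nil)))))) 1120)
 EL.nil)
noncomputable def S198_227_216_290_37 : EL := (EL.cons 14 (TM.mk (P.cons (P.cons (P.lf 0 1787668690 0) (P.cons (P.lf 57133486 0 0) (P.cons (P.lf 26970500 0 0) (P.lf 0 1284308 0)))) (P.cons (P.cons (P.lf 410707676 0 0) (P.cons (P.lf 0 9458722 0) (P.cons (P.lf 0 4465096 0) (P.lf 212622 0 0)))) (P.cons (P.cons (P.lf 137252978 0 0) (P.cons (P.lf 0 3980516 0) (P.cons (P.lf 0 1879046 0) (P.lf 89476 0 0)))) (P.cons (P.cons (P.lf 0 20799882 0) (P.cons (P.lf 39160 0 0) (P.cons (P.lf 18484 0 0) P.nil))) (P.cons (P.cons (P.lf 0 2577190 0) (P.cons (P.lf 74974 0 0) P.nil)) (P.cons (P.cons (P.lf 287668 0 0) P.nil) P.nil))))))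 116846)
 EL.nil)
noncomputable def S198_227_216_290_38 : EL := (EL.cons 14 (TM.mk (P.cons (P.cons (P.lf 0 1134235308 0) (P.cons (P.lf 72499806 0 0) (P.cons (P.lf 33065806 0 0) (P.cons (P.lf 0 2723532 0) (P.cons (P.lf 0 206084 0) (P.cons (P.lf 24586 0 0) P.nil)))))) (P.cons (P.cons (P.lf 169431400 0 0) (P.cons (P.lf 0 6176212 0) (P.cons (P.lf 0 2891222 0) (P.cons (P.lf 161804 0 0) (P.cons (P.lf 4328 0 0) P.nil))))) (P.cons (P.cons (P.lf 154283744 0 0) (P.cons (P.lf 0 8972476 0) (P.cons (P.lf 0 4111160 0) (P.cons (P.lf 319134 0 0) P.nil)))) (P.cons (P.cons (P.lf 0 15617552 0) (P.cons (P.lf 56024 0 0) (P.cons (P.lf 38070 0 0) P.nil))) (P.cons (P.cons (P.lf 0 7113776 0) (P.cons (P.lf 355558 0 0) P.nil)) (P.cons (P.cons (P.lf 604966 0 0) P.nil) P.nil)))))) 677236)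
 EL.nil)
noncomputable def S198_227_216_290_39 : EL := (EL.cons 14 (TM.mk (P.cons (P.lf 924170186 0 0) (P.cons (P.lf 0 573189372 0) (P.cons (P.lf 68410746 0 0) (P.cons (P.lf 8089740 0 0) (P.cons (P.lf 0 307614 0) (P.cons (P.lf 0 60382 0) P.nil)))))) 4526)
 EL.nil)
noncomputable def S198_227_216_290_40 : EL := (EL.cons 14 (TM.mk (P.cons (P.cons (P.lf 586365058 0 0) (P.cons (P.lf 0 18740094 0) (P.cons (P.lf 0 8846470 0) (P.lf 421260 0 0)))) (P.cons (P.cons (P.lf 0 316552190 0) (P.cons (P.lf 8914008 0 0) (P.cons (P.lf 4207958 0 0) (P.lf 0 200378 0)))) (P.cons (P.cons (P.lf 0 9735774 0) (P.cons (P.lf 551004 0 0) (P.cons (P.lf 260106 0 0) (P.lf 0 12384 0)))) (P.cons (P.cons (P.lf 22828170 0 0) (P.cons (P.lf 0 469760 0) (P.cons (P.lf 0 221754 0) P.nil))) (P.cons (P.cons (P.lf 0 861002 0) (P.cons (P.lf 0 33352 0) P.nil)) (P.cons (P.cons (P.lf 0 484484 0) P.nil) P.nil))))))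 137950)
 EL.nil)
noncomputable def S198_227_216_290_41 : EL := (EL.cons 14 (TM.mk (P.cons (P.cons (P.lf 372035352 0 0) (P.cons (P.lf 0 23780330 0) (P.cons (P.lf 0 10845764 0) (P.cons (P.lf 893332 0 0) (P.cons (P.lf 67596 0 0) (P.cons (P.lf 0 8064 0) P.nil)))))) (P.cons (P.cons (P.lf 0 170946412 0) (P.cons (P.lf 9400356 0 0) (P.cons (P.lf 4311720 0 0) (P.cons (P.lf 0 330104 0) (P.cons (P.lf 0 22382 0) P.nil))))) (P.cons (P.cons (P.lf 0 37490962 0) (P.cons (P.lf 2578090 0 0) (P.cons (P.lf 1174480 0 0) (P.cons (P.lf 0 98110 0) P.nil)))) (P.cons (P.cons (P.lf 21782272 0 0) (P.cons (P.lf 0 975896 0) (P.cons (P.lf 0 451394 0) P.nil))) (P.cons (P.cons (P.lf 1276768 0 0) (P.cons (P.lf 0 143140 0) P.nil)) (P.cons (P.cons (P.lf 0 1030874 0) P.nil) P.nil)))))) 578462)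
 EL.nil)
noncomputable def S198_227_216_290_42 : EL := (EL.cons 14 (TM.mk (P.cons (P.lf 0 303132848 0) (P.cons (P.lf 282013848 0 0) (P.cons (P.lf 0 77386344 0) (P.cons (P.lf 1937536 0 0) (P.cons (P.lf 1329912 0 0) (P.cons (P.lf 9556 0 0) P.nil)))))) 14366)
 EL.nil)
noncomputable def S198_227_216_290_43 : EL := (EL.cons 14 (TM.mk (P.cons (P.cons (P.lf 0 192330928 0) (P.cons (P.lf 6146852 0 0) (P.cons (P.lf 2901690 0 0) (P.lf 0 138174 0)))) (P.cons (P.cons (P.lf 163474640 0 0) (P.cons (P.lf 0 4830044 0) (P.cons (P.lf 0 2280076 0) (P.lf 108574 0 0)))) (P.cons (P.cons (P.lf 0 26876096 0) (P.cons (P.lf 657922 0 0) (P.cons (P.lf 310578 0 0) (P.lf 0 14788 0)))) (P.cons (P.cons (P.lf 0 9809102 0) (P.cons (P.lf 248302 0 0) (P.cons (P.lf 117212 0 0) P.nil))) (P.cons (P.cons (P.lf 2654562 0 0) (P.cons (P.lf 0 37200 0) P.nil)) (P.cons (P.cons (P.lf 164386 0 0) P.nil) P.nil))))))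 143788)
 EL.nil)
noncomputable def S198_227_216_290_44 : EL := (EL.cons 14 (TM.mk (P.cons (P.cons (P.lf 0 122029618 0) (P.cons (P.lf 7800076 0 0) (P.cons (P.lf 3557468 0 0) (P.cons (P.lf 0 293018 0) (P.cons (P.lf 0 22172 0) (P.cons (P.lf 2644 0 0) P.nil)))))) (P.cons (P.cons (P.lf 93913994 0 0) (P.cons (P.lf 0 5502252 0) (P.cons (P.lf 0 2517474 0) (P.cons (P.lf 199144 0 0) (P.cons (P.lf 14216 0 0) P.nil))))) (P.cons (P.cons (P.lf 0 3739926 0) (P.cons (P.lf 24192 0 0) (P.cons (P.lf 13952 0 0) (P.cons (P.lf 1846 0 0) P.nil)))) (P.cons (P.cons (P.lf 0 11694130 0) (P.cons (P.lf 623832 0 0) (P.cons (P.lf 286540 0 0) P.nil))) (P.cons (P.cons (P.lf 1705682 0 0) (P.cons (P.lf 0 45354 0) P.nil)) (P.cons (P.cons (P.lf 562600 0 0) P.nil) P.nil)))))) 432784)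
 EL.nil)
noncomputable def S198_227_216_290_45 : EL := (EL.cons 14 (TM.mk (P.cons (P.cons (P.lf 2194008182 0 0) (P.cons (P.lf 0 210360010 0) (P.cons (P.lf 0 92579740 0) (P.cons (P.lf 11004468 0 0) (P.cons (P.lf 1094490 0 0) (P.cons (P.lf 0 185734 0) P.nil)))))) (P.cons (P.cons (P.lf 528967308 0 0) (P.cons (P.lf 0 64220044 0) (P.cons (P.lf 0 27831774 0) (P.cons (P.lf 3757756 0 0) (P.cons (P.lf 397876 0 0) P.nil))))) (P.cons (P.cons (P.lf 0 225925834 0) (P.cons (P.lf 13808776 0 0) (P.cons (P.lf 6355934 0 0) (P.cons (P.lf 0 465492 0) P.nil)))) (P.cons (P.cons (P.lf 0 49020014 0) (P.cons (P.lf 5192524 0 0) (P.cons (P.lf 2295038 0 0) P.nil))) (P.cons (P.cons (P.lf 11503750 0 0) (P.cons (P.lf 0 397428 0) P.nil)) (P.cons (P.cons (P.lf 2111580 0 0) P.nil) P.nil)))))) 2162854)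
 EL.nil)
noncomputable def S198_227_216_290_46 : EL := (EL.cons 15 (TM.mk (P.lf 4294967296 0 0) 0)
 EL.nil)
noncomputable def S198_227_216_290_47 : EL := (EL.cons 15 (TM.mk (P.cons (P.cons (P.lf 2725059505 0 0) (P.cons (P.lf 0 87092284 0) (P.cons (P.lf 0 41112888 0) (P.lf 1957756 0 0)))) (P.cons (P.cons (P.lf 219000610 0 0) (P.cons (P.lf 0 12589668 0) (P.cons (P.lf 0 5943092 0) (P.lf 283004 0 0)))) (P.cons (P.cons (P.lf 0 111136855 0) (P.cons (P.lf 1199272 0 0) (P.cons (P.lf 566128 0 0) (P.lf 0 26956 0)))) (P.cons (P.cons (P.lf 0 2903396 0) (P.cons (P.lf 254956 0 0) (P.cons (P.lf 120356 0 0) P.nil))) (P.cons (P.cons (P.lf 1414659 0 0) (P.cons (P.lf 0 4432 0) P.nil)) (P.cons (P.cons (P.lf 64521 0 0) P.nil) P.nil)))))) 39981)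
 EL.nil)
noncomputable def S198_227_216_290_48 : EL := (EL.cons 15 (TM.mk (P.cons (P.cons (P.lf 1728988556 0 0) (P.cons (P.lf 0 110516164 0) (P.cons (P.lf 0 50404357 0) (P.cons (P.lf 4151657 0 0) (P.cons (P.lf 314148 0 0) (P.cons (P.lf 0 37480 0) P.nil)))))) (P.cons (P.cons (P.lf 277901857 0 0) (P.cons (P.lf 0 24857398 0) (P.cons (P.lf 0 11223630 0) (P.cons (P.lf 1040821 0 0) (P.cons (P.lf 90823 0 0) P.nil))))) (P.cons (P.cons (P.lf 0 129860783 0) (P.cons (P.lf 4745137 0 0) (P.cons (P.lf 2228259 0 0) (P.cons (P.lf 0 117740 0) P.nil)))) (P.cons (P.cons (P.lf 0 15018026 0) (P.cons (P.lf 1215120 0 0) (P.cons (P.lf 556241 0 0) P.nil))) (P.cons (P.cons (P.lf 4374834 0 0) (P.cons (P.lf 0 82039 0) P.nil)) (P.cons (P.cons (P.lf 376398 0 0) P.nil) P.nil)))))) 351138)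
 EL.nil)
noncomputable def S198_227_216_290 : SL := (SL.cons S198_227_216_290_0 (SL.cons S198_227_216_290_1 (SL.cons S198_227_216_290_2 (SL.cons S198_227_216_290_3 (SL.cons S198_227_216_290_4 (SL.cons S198_227_216_290_5 (SL.cons S198_227_216_290_6 (SL.cons S198_227_216_290_7 (SL.cons S198_227_216_290_8 (SL.cons S198_227_216_290_9 (SL.cons S198_227_216_290_10 (SL.cons S198_227_216_290_11 (SL.cons S198_227_216_290_12 (SL.cons S198_227_216_290_13 (SL.cons S198_227_216_290_14 (SL.cons S198_227_216_290_15 (SL.cons S198_227_216_290_16 (SL.cons S198_227_216_290_17 (SL.cons S198_227_216_290_18 (SL.cons S198_227_216_290_19 (SL.cons S198_227_216_290_20 (SL.cons S198_227_216_290_21 (SL.cons S198_227_216_290_22 (SL.cons S198_227_216_290_23 (SL.cons S198_227_216_290_24 (SL.cons S198_227_216_290_25 (SL.cons S198_227_216_290_26 (SL.cons S198_227_216_290_27 (SL.cons S198_227_216_290_28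 (SL.cons S198_227_216_290_29 (SL.cons S198_227_216_290_30 (SL.cons S198_227_216_290_31 (SL.cons S198_227_216_290_32 (SL.cons S198_227_216_290_33 (SL.cons S198_227_216_290_34 (SL.cons S198_227_216_290_35 (SL.cons S198_227_216_290_36 (SL.cons S198_227_216_290_37 (SL.cons S198_227_216_290_38 (SL.cons S198_227_216_290_39 (SL.cons S198_227_216_290_40 (SL.cons S198_227_216_290_41 (SL.cons S198_227_216_290_42 (SL.cons S198_227_216_290_43 (SL.cons S198_227_216_290_44 (SL.cons S198_227_216_290_45 (SL.cons S198_227_216_290_46 (SL.cons S198_227_216_290_47 (SL.cons S198_227_216_290_48 SL.nil)))))))))))))))))))))))))))))))))))))))))))))))))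
noncomputable def S198_227_216_364_0 : EL := (EL.cons 0 (TM.mk (P.cons (P.lf 7643457911 0 0) (P.cons (P.lf 503779721 0 0) (P.cons (P.lf 0 60126632 0) (P.cons (P.lf 0 7110123 0) (P.cons (P.lf 270363 0 0) (P.cons (P.lf 53070 0 0) P.nil)))))) 3984)
 (EL.cons 1 (TM.mk (P.cons (P.lf 0 1228710643 0) (P.cons (P.lf 321830180 0 0) (P.cons (P.lf 40457490 0 0) (P.cons (P.lf 0 2710608 0) (P.cons (P.lf 0 384633 0) (P.cons (P.lf 7027 0 0) P.nil)))))) 2881)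
 (EL.cons 5 (TM.mk (P.cons (P.lf 4583770480 0 0) (P.cons (P.lf 0 179121676 0) (P.cons (P.lf 21378358 0 0) (P.cons (P.lf 2528040 0 0) (P.cons (P.lf 0 96128 0) (P.cons (P.lf 0 18870 0) P.nil)))))) 1697)
 (EL.cons 9 (TM.mk (P.lf 6442450944 0 0) 2)
 EL.nil))))
noncomputable def S198_227_216_364_1 : EL := (EL.cons 0 (TM.mk (P.cons (P.cons (P.lf 3837013495 0 0) (P.cons (P.lf 0 396280047 0) (P.cons (P.lf 0 170880427 0) (P.lf 18986718 0 0)))) (P.cons (P.cons (P.lf 1745504287 0 0) (P.cons (P.lf 0 210654983 0) (P.cons (P.lf 0 90836798 0) (P.lf 10092970 0 0)))) (P.cons (P.cons (P.lf 0 404456091 0) (P.cons (P.lf 1591210 0 0) (P.cons (P.lf 686149 0 0) (P.lf 0 76236 0)))) (P.cons (P.cons (P.lf 0 76339644 0) (P.cons (P.lf 8082697 0 0) (P.cons (P.lf 3485349 0 0) P.nil))) (P.cons (P.cons (P.lf 9572213 0 0) (P.cons (P.lf 407331 0 0) P.nil)) (P.cons (P.cons (P.lf 1801706 0 0) P.nil)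 P.nil)))))) 1558797)
 (EL.cons 1 (TM.mk (P.cons (P.cons (P.lf 0 1246815810 0) (P.cons (P.lf 211996516 0 0) (P.cons (P.lf 91415288 0 0) (P.lf 0 10157251 0)))) (P.cons (P.cons (P.lf 582720430 0 0) (P.cons (P.lf 0 9263037 0) (P.cons (P.lf 0 3994322 0) (P.lf 443816 0 0)))) (P.cons (P.cons (P.lf 216754502 0 0) (P.cons (P.lf 0 23128857 0) (P.cons (P.lf 0 9973423 0) (P.lf 1108148 0 0)))) (P.cons (P.cons (P.lf 0 32305530 0) (P.cons (P.lf 0 1038720 0) (P.cons (P.lf 0 447905 0) P.nil))) (P.cons (P.cons (P.lf 0 7167553 0) (P.cons (P.lf 589254 0 0) P.nil)) (P.cons (P.cons (P.lf 536133 0 0) P.nil) P.nil)))))) 894402)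
 (EL.cons 5 (TM.mk (P.cons (P.cons (P.lf 3053709089 0 0) (P.cons (P.lf 0 414812732 0) (P.cons (P.lf 0 178871932 0) (P.lf 19874660 0 0)))) (P.cons (P.cons (P.lf 0 279347295 0) (P.cons (P.lf 0 5431732 0) (P.cons (P.lf 0 2342228 0) (P.lf 260254 0 0)))) (P.cons (P.cons (P.lf 0 42170692 0) (P.cons (P.lf 7086466 0 0) (P.cons (P.lf 3055762 0 0) (P.lf 0 339528 0)))) (P.cons (P.cons (P.lf 22835498 0 0) (P.cons (P.lf 0 1247018 0) (P.cons (P.lf 0 537728 0) P.nil))) (P.cons (P.cons (P.lf 0 1009449 0) (P.cons (P.lf 0 173128 0) P.nil)) (P.cons (P.cons (P.lf 0 537276 0) P.nil) P.nil)))))) 841316)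
 (EL.cons 9 (TM.mk (P.cons (P.cons (P.lf 3898218127 0 0) (P.cons (P.lf 0 490334382 0) (P.cons (P.lf 0 211437714 0) (P.lf 23493078 0 0)))) (P.cons (P.cons (P.lf 301126275 0 0) (P.cons (P.lf 0 70880538 0) (P.cons (P.lf 0 30564486 0) (P.lf 3396048 0 0)))) (P.cons (P.cons (P.lf 0 164097616 0) (P.cons (P.lf 6751968 0 0) (P.cons (P.lf 2911524 0 0) (P.lf 0 323496 0)))) (P.cons (P.cons (P.lf 0 3800718 0) (P.cons (P.lf 1435428 0 0) (P.cons (P.lf 618972 0 0) P.nil))) (P.cons (P.cons (P.lf 2112346 0 0) (P.cons (P.lf 0 24972 0) P.nil)) (P.cons (P.cons (P.lf 91171 0 0) P.nil) P.nil)))))) 179270)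
 (EL.cons 2 (TM.mk (P.cons (P.cons (P.lf 338650385 0 0) (P.cons (P.lf 315484163 0 0) (P.cons (P.lf 0 32378937 0) (P.cons (P.lf 0 6733915 0) (P.lf 561158 0 0))))) (P.cons (P.cons (P.lf 0 72383115 0) (P.cons (P.lf 0 67431566 0) (P.cons (P.lf 6920670 0 0) (P.cons (P.lf 1439305 0 0) (P.lf 0 119941 0))))) (P.cons (P.cons (P.lf 0 17765443 0) (P.cons (P.lf 0 16550153 0) (P.cons (P.lf 1698581 0 0) (P.cons (P.lf 353255 0 0) P.nil)))) (P.cons (P.cons (P.lf 705358 0 0) (P.cons (P.lf 657106 0 0) (P.cons (P.lf 0 67438 0) P.nil))) (P.cons (P.cons (P.lf 256190 0 0) (P.cons (P.lf 238663 0 0) P.nil)) (P.cons (P.cons (P.lf 818 0 0) P.nil) P.nil)))))) 137136)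
 (EL.cons 6 (TM.mk (P.cons (P.cons (P.lf 512279160 0 0) (P.cons (P.lf 477235428 0 0) (P.cons (P.lf 0 48979878 0) (P.cons (P.lf 0 10186449 0) (P.lf 848868 0 0))))) (P.cons (P.cons (P.lf 74052777 0 0) (P.cons (P.lf 68987013 0 0) (P.cons (P.lf 0 7080309 0) (P.cons (P.lf 0 1472505 0) (P.lf 122706 0 0))))) (P.cons (P.cons (P.lf 0 7054152 0) (P.cons (P.lf 0 6571593 0) (P.cons (P.lf 674457 0 0) (P.cons (P.lf 140268 0 0) P.nil)))) (P.cons (P.cons (P.lf 0 1499673 0) (P.cons (P.lf 0 1397085 0) (P.cons (P.lf 143385 0 0) P.nil))) (P.cons (P.cons (P.lf 26088 0 0) (P.cons (P.lf 24303 0 0) P.nil)) (P.cons (P.cons (P.lf 15168 0 0) P.nil) P.nil)))))) 85959)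
 EL.nil))))))
noncomputable def S198_227_216_364_2 : EL := (EL.cons 0 (TM.mk (P.cons (P.cons (P.lf 1844958762 0 0) (P.cons (P.lf 0 359628638 0) (P.cons (P.lf 0 139030649 0) (P.cons (P.lf 31068476 0 0) (P.cons (P.lf 1445978 0 0) (P.cons (P.lf 0 663006 0) P.nil)))))) (P.cons (P.cons (P.lf 1854247966 0 0) (P.cons (P.lf 0 439552091 0) (P.cons (P.lf 0 164473169 0) (P.cons (P.lf 42677999 0 0) (P.cons (P.lf 2258964 0 0) P.nil))))) (P.cons (P.cons (P.lf 0 309328505 0) (P.cons (P.lf 6906625 0 0) (P.cons (P.lf 6339436 0 0) (P.cons (P.lf 2567866 0 0) P.nil)))) (P.cons (P.cons (P.lf 0 179551608 0) (P.cons (P.lf 35280269 0 0) (P.cons (P.lf 13926513 0 0) P.nil))) (P.cons (P.cons (P.lf 18078390 0 0) (P.cons (P.lf 1460561 0 0) P.nil)) (P.cons (P.cons (P.lf 7176282 0 0) P.nil) P.nil)))))) 15390254)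
 (EL.cons 1 (TM.mk (P.cons (P.cons (P.lf 0 1058991971 0) (P.cons (P.lf 333169917 0 0) (P.cons (P.lf 118514123 0 0) (P.cons (P.lf 0 37655028 0) (P.cons (P.lf 0 2266703 0) (P.cons (P.lf 1039314 0 0) P.nil)))))) (P.cons (P.cons (P.lf 540304775 0 0) (P.cons (P.lf 0 48117670 0) (P.cons (P.lf 0 23810181 0) (P.cons (P.lf 0 334697 0) (P.cons (P.lf 0 275879 0) P.nil))))) (P.cons (P.cons (P.lf 312092181 0 0) (P.cons (P.lf 0 72725633 0) (P.cons (P.lf 0 28011870 0) (P.cons (P.lf 6372028 0 0) P.nil)))) (P.cons (P.cons (P.lf 0 42928408 0) (P.cons (P.lf 0 1880991 0) (P.cons (P.lf 0 178680 0) P.nil))) (P.cons (P.cons (P.lf 0 20575237 0) (P.cons (P.lf 3793655 0 0) P.nil)) (P.cons (P.cons (P.lf 1559237 0 0) P.nil) P.nil)))))) 8404039)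
 (EL.cons 5 (TM.mk (P.cons (P.cons (P.lf 2017259988 0 0) (P.cons (P.lf 0 544636272 0) (P.cons (P.lf 0 198263069 0) (P.cons (P.lf 57651040 0 0) (P.cons (P.lf 3297443 0 0) (P.cons (P.lf 0 1511924 0) P.nil)))))) (P.cons (P.cons (P.lf 0 246286944 0) (P.cons (P.lf 7121935 0 0) (P.cons (P.lf 6386481 0 0) (P.cons (P.lf 2518089 0 0) (P.cons (P.lf 298791 0 0) P.nil))))) (P.cons (P.cons (P.lf 0 99128398 0) (P.cons (P.lf 27604689 0 0) (P.cons (P.lf 10427346 0 0) (P.cons (P.lf 0 2595631 0) P.nil)))) (P.cons (P.cons (P.lf 41242276 0 0) (P.cons (P.lf 0 5112046 0) (P.cons (P.lf 0 2162883 0) P.nil))) (P.cons (P.cons (P.lf 803686 0 0) (P.cons (P.lf 0 1060930 0) P.nil)) (P.cons (P.cons (P.lf 0 1983283 0) P.nil) P.nil)))))) 8369166)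
 (EL.cons 9 (TM.mk (P.cons (P.cons (P.lf 2358745870 0 0) (P.cons (P.lf 0 593386086 0) (P.cons (P.lf 0 218555463 0) (P.cons (P.lf 60615540 0 0) (P.cons (P.lf 3363157 0 0) (P.cons (P.lf 0 1542058 0) P.nil)))))) (P.cons (P.cons (P.lf 364412833 0 0) (P.cons (P.lf 0 131614618 0) (P.cons (P.lf 0 45964282 0) (P.cons (P.lf 15611001 0 0) (P.cons (P.lf 972325 0 0) P.nil))))) (P.cons (P.cons (P.lf 0 184510456 0) (P.cons (P.lf 26523865 0 0) (P.cons (P.lf 11189440 0 0) (P.cons (P.lf 0 1484649 0) P.nil)))) (P.cons (P.cons (P.lf 0 19939656 0) (P.cons (P.lf 6557676 0 0) (P.cons (P.lf 2460670 0 0) P.nil))) (P.cons (P.cons (P.lf 6380770 0 0) (P.cons (P.lf 0 477904 0) P.nil)) (P.cons (P.cons (P.lf 501417 0 0) P.nil) P.nil)))))) 2948054)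
 (EL.cons 2 (TM.mk (P.cons (P.cons (P.lf 409823240 0 0) (P.cons (P.lf 330238963 0 0) (P.cons (P.lf 0 109435477 0) (P.cons (P.lf 0 21458626 0) (P.cons (P.lf 6130338 0 0) (P.cons (P.lf 120436 0 0) P.nil)))))) (P.cons (P.cons (P.lf 0 55937913 0) (P.cons (P.lf 0 48544931 0) (P.cons (P.lf 10208632 0 0) (P.cons (P.lf 2033105 0 0) (P.cons (P.lf 0 469833 0) P.nil))))) (P.cons (P.cons (P.lf 0 45517381 0) (P.cons (P.lf 0 37396822 0) (P.cons (P.lf 11175311 0 0) (P.cons (P.lf 2197800 0 0) P.nil)))) (P.cons (P.cons (P.lf 2480664 0 0) (P.cons (P.lf 2593698 0 0) (P.cons (P.lf 148123 0 0) P.nil))) (P.cons (P.cons (P.lf 1588466 0 0) (P.cons (P.lf 1353166 0 0) P.nil)) (P.cons (P.cons (P.lf 0 27905 0) P.nil) P.nil)))))) 2476827)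
 (EL.cons 6 (TM.mk (P.cons (P.cons (P.lf 619942914 0 0) (P.cons (P.lf 499555128 0 0) (P.cons (P.lf 0 165543930 0) (P.cons (P.lf 0 32460636 0) (P.cons (P.lf 9273414 0 0) (P.cons (P.lf 182190 0 0) P.nil)))))) (P.cons (P.cons (P.lf 137504994 0 0) (P.cons (P.lf 105554022 0 0) (P.cons (P.lf 0 43870950 0) (P.cons (P.lf 0 8554992 0) (P.cons (P.lf 2611896 0 0) P.nil))))) (P.cons (P.cons (P.lf 0 27710934 0) (P.cons (P.lf 0 25297206 0) (P.cons (P.lf 3355536 0 0) (P.cons (P.lf 684780 0 0) P.nil)))) (P.cons (P.cons (P.lf 0 6851166 0) (P.cons (P.lf 0 5615490 0) (P.cons (P.lf 1700322 0 0) P.nil))) (P.cons (P.cons (P.lf 499290 0 0) (P.cons (P.lf 508404 0 0) P.nil)) (P.cons (P.cons (P.lf 168570 0 0) P.nil) P.nil)))))) 2341116)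
 EL.nil))))))
noncomputable def S198_227_216_364_3 : EL := (EL.cons 0 (TM.mk (P.cons (P.lf 812258952 0 0) (P.cons (P.lf 0 503779721 0) (P.cons (P.lf 60126632 0 0) (P.cons (P.lf 7110123 0 0) (P.cons (P.lf 0 270363 0) (P.cons (P.lf 0 53070 0) P.nil)))))) 3984)
 (EL.cons 1 (TM.mk (P.cons (P.lf 1228710643 0 0) (P.cons (P.lf 0 321830180 0) (P.cons (P.lf 0 40457490 0) (P.cons (P.lf 2710608 0 0) (P.cons (P.lf 384633 0 0) (P.cons (P.lf 0 7027 0) P.nil)))))) 2881)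
 (EL.cons 5 (TM.mk (P.cons (P.lf 1858680464 0 0) (P.cons (P.lf 179121676 0 0) (P.cons (P.lf 0 21378358 0) (P.cons (P.lf 0 2528040 0) (P.cons (P.lf 96128 0 0) (P.cons (P.lf 18870 0 0) P.nil)))))) 1690)
 EL.nil)))
noncomputable def S198_227_216_364_4 : EL := (EL.cons 0 (TM.mk (P.cons (P.cons (P.lf 491484157 0 0) (P.cons (P.lf 0 61820957 0) (P.cons (P.lf 0 26657892 0) (P.lf 2961987 0 0)))) (P.cons (P.cons (P.lf 0 266862835 0) (P.cons (P.lf 29406069 0 0) (P.cons (P.lf 12680228 0 0) (P.lf 0 1408914 0)))) (P.cons (P.cons (P.lf 0 7854827 0) (P.cons (P.lf 1817687 0 0) (P.cons (P.lf 783806 0 0) (P.lf 0 87087 0)))) (P.cons (P.cons (P.lf 19465324 0 0) (P.cons (P.lf 0 1549675 0) (P.cons (P.lf 0 668237 0) P.nil))) (P.cons (P.cons (P.lf 0 799233 0) (P.cons (P.lf 0 110026 0) P.nil)) (P.cons (P.cons (P.lf 0 415007 0) P.nil) P.nil)))))) 342479)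
 (EL.cons 1 (TM.mk (P.cons (P.cons (P.lf 743472031 0 0) (P.cons (P.lf 0 93517059 0) (P.cons (P.lf 0 40325610 0) (P.lf 4480621 0 0)))) (P.cons (P.cons (P.lf 0 137302897 0) (P.cons (P.lf 10976058 0 0) (P.cons (P.lf 4732998 0 0) (P.lf 0 525888 0)))) (P.cons (P.cons (P.lf 0 70819651 0) (P.cons (P.lf 7907767 0 0) (P.cons (P.lf 3409918 0 0) (P.lf 0 378877 0)))) (P.cons (P.cons (P.lf 7221678 0 0) (P.cons (P.lf 175286 0 0) (P.cons (P.lf 75585 0 0) P.nil))) (P.cons (P.cons (P.lf 1982668 0 0) (P.cons (P.lf 0 177965 0) P.nil)) (P.cons (P.cons (P.lf 0 119581 0) P.nil) P.nil)))))) 239942)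
 (EL.cons 5 (TM.mk (P.cons (P.cons (P.lf 1124656118 0 0) (P.cons (P.lf 0 141464008 0) (P.cons (P.lf 0 61000874 0) (P.lf 6777874 0 0)))) (P.cons (P.cons (P.lf 195259986 0 0) (P.cons (P.lf 0 34082336 0) (P.cons (P.lf 0 14696686 0) (P.lf 1632962 0 0)))) (P.cons (P.cons (P.lf 0 51906378 0) (P.cons (P.lf 1604366 0 0) (P.cons (P.lf 691820 0 0) (P.lf 0 76866 0)))) (P.cons (P.cons (P.lf 0 8187908 0) (P.cons (P.lf 1029470 0 0) (P.cons (P.lf 443918 0 0) P.nil))) (P.cons (P.cons (P.lf 988286 0 0) (P.cons (P.lf 30796 0 0) P.nil)) (P.cons (P.cons (P.lf 177950 0 0) P.nil) P.nil)))))) 174522)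
 EL.nil)))
noncomputable def S198_227_216_364_5 : EL := (EL.cons 0 (TM.mk (P.cons (P.cons (P.lf 297388752 0 0) (P.cons (P.lf 0 74813632 0) (P.cons (P.lf 0 27555292 0) (P.cons (P.lf 7642357 0 0) (P.cons (P.lf 424023 0 0) (P.cons (P.lf 0 194421 0) P.nil)))))) (P.cons (P.cons (P.lf 0 138501752 0) (P.cons (P.lf 29807091 0 0) (P.cons (P.lf 11295221 0 0) (P.cons (P.lf 0 2771724 0) (P.cons (P.lf 0 140398 0) P.nil))))) (P.cons (P.cons (P.lf 0 29744985 0) (P.cons (P.lf 8097960 0 0) (P.cons (P.lf 2965266 0 0) (P.cons (P.lf 0 842196 0) P.nil)))) (P.cons (P.cons (P.lf 17918390 0 0) (P.cons (P.lf 0 3130523 0) (P.cons (P.lf 0 1234924 0) P.nil))) (P.cons (P.cons (P.lf 944878 0 0) (P.cons (P.lf 0 445851 0) P.nil)) (P.cons (P.cons (P.lf 0 860187 0) P.nil) P.nil)))))) 1958731)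
 (EL.cons 1 (TM.mk (P.cons (P.cons (P.lf 449862354 0 0) (P.cons (P.lf 0 113171182 0) (P.cons (P.lf 0 41683113 0) (P.cons (P.lf 11560653 0 0) (P.cons (P.lf 641422 0 0) (P.cons (P.lf 0 294101 0) P.nil)))))) (P.cons (P.cons (P.lf 0 48329071 0) (P.cons (P.lf 4540702 0 0) (P.cons (P.lf 2151498 0 0) (P.cons (P.lf 0 50679 0) (P.cons (P.lf 17437 0 0) P.nil))))) (P.cons (P.cons (P.lf 0 68206640 0) (P.cons (P.lf 15359776 0 0) (P.cons (P.lf 5802678 0 0) (P.cons (P.lf 0 1443648 0) P.nil)))) (P.cons (P.cons (P.lf 4118210 0 0) (P.cons (P.lf 502550 0 0) (P.cons (P.lf 107028 0 0) P.nil))) (P.cons (P.cons (P.lf 3665865 0 0) (P.cons (P.lf 0 676098 0) P.nil)) (P.cons (P.cons (P.lf 0 156346 0) P.nil) P.nil)))))) 1641980)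
 (EL.cons 5 (TM.mk (P.cons (P.cons (P.lf 680510398 0 0) (P.cons (P.lf 0 171194958 0) (P.cons (P.lf 0 63054382 0) (P.cons (P.lf 17487896 0 0) (P.cons (P.lf 970286 0 0) (P.cons (P.lf 0 444890 0) P.nil)))))) (P.cons (P.cons (P.lf 170716010 0 0) (P.cons (P.lf 0 54469614 0) (P.cons (P.lf 0 19337504 0) (P.cons (P.lf 6189168 0 0) (P.cons (P.lf 374026 0 0) P.nil))))) (P.cons (P.cons (P.lf 0 50927490 0) (P.cons (P.lf 5962012 0 0) (P.cons (P.lf 2675494 0 0) (P.cons (P.lf 0 195434 0) P.nil)))) (P.cons (P.cons (P.lf 0 13017532 0) (P.cons (P.lf 3298966 0 0) (P.cons (P.lf 1259306 0 0) P.nil))) (P.cons (P.cons (P.lf 1790964 0 0) (P.cons (P.lf 0 774 0) P.nil)) (P.cons (P.cons (P.lf 472984 0 0) P.nil) P.nil)))))) 1449904)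
 EL.nil)))
noncomputable def S198_227_216_364_6 : EL := (EL.cons 12 (TM.mk (P.lf 8589934592 0 0) 0)
 (EL.cons 3 (TM.mk (P.cons (P.lf 0 1320724353 0) (P.cons (P.lf 409570215 0 0) (P.cons (P.lf 14623338 0 0) (P.cons (P.lf 0 1245645 0) (P.cons (P.lf 0 85526 0) (P.cons (P.lf 2831 0 0) P.nil)))))) 532)
 (EL.cons 7 (TM.mk (P.cons (P.lf 0 1997870342 0) (P.cons (P.lf 0 96267727 0) (P.cons (P.lf 13808992 0 0) (P.cons (P.lf 693290 0 0) (P.cons (P.lf 0 37347 0) (P.cons (P.lf 0 3551 0) P.nil)))))) 296)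
 EL.nil)))
noncomputable def S198_227_216_364_7 : EL := (EL.cons 12 (TM.mk (P.cons (P.cons (P.lf 5197624170 0 0) (P.cons (P.lf 0 653779176 0) (P.cons (P.lf 0 281916952 0) (P.lf 31324104 0 0)))) (P.cons (P.cons (P.lf 401501700 0 0) (P.cons (P.lf 0 94507384 0) (P.cons (P.lf 0 40752648 0) (P.lf 4528064 0 0)))) (P.cons (P.cons (P.lf 0 218796822 0) (P.cons (P.lf 9002624 0 0) (P.cons (P.lf 3882032 0 0) (P.lf 0 431328 0)))) (P.cons (P.cons (P.lf 0 5067624 0) (P.cons (P.lf 1913904 0 0) (P.cons (P.lf 825296 0 0) P.nil))) (P.cons (P.cons (P.lf 2816462 0 0) (P.cons (P.lf 0 33296 0) P.nil)) (P.cons (P.cons (P.lf 121562 0 0) P.nil) P.nil)))))) 239002)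
 (EL.cons 3 (TM.mk (P.cons (P.cons (P.lf 481991167 0 0) (P.cons (P.lf 0 201040430 0) (P.cons (P.lf 0 86690900 0) (P.lf 9632320 0 0)))) (P.cons (P.cons (P.lf 0 1178231754 0) (P.cons (P.lf 33283202 0 0) (P.cons (P.lf 14352090 0 0) (P.lf 0 1594678 0)))) (P.cons (P.cons (P.lf 0 27062597 0) (P.cons (P.lf 14006584 0 0) (P.cons (P.lf 6039796 0 0) (P.lf 0 671084 0)))) (P.cons (P.cons (P.lf 30822864 0 0) (P.cons (P.lf 0 137794 0) (P.cons (P.lf 0 59418 0) P.nil))) (P.cons (P.cons (P.lf 1881642 0 0) (P.cons (P.lf 0 263828 0) P.nil)) (P.cons (P.cons (P.lf 0 357742 0) P.nil) P.nil)))))) 659610)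
 (EL.cons 7 (TM.mk (P.cons (P.cons (P.lf 0 1510003850 0) (P.cons (P.lf 222938285 0 0) (P.cons (P.lf 96133506 0 0) (P.lf 0 10681502 0)))) (P.cons (P.cons (P.lf 276938334 0 0) (P.cons (P.lf 0 7823072 0) (P.cons (P.lf 0 3373395 0) (P.lf 374819 0 0)))) (P.cons (P.cons (P.lf 0 43251925 0) (P.cons (P.lf 0 1890702 0) (P.cons (P.lf 0 815293 0) (P.lf 90590 0 0)))) (P.cons (P.cons (P.lf 0 7554500 0) (P.cons (P.lf 784597 0 0) (P.cons (P.lf 338327 0 0) P.nil))) (P.cons (P.cons (P.lf 1420381 0 0) (P.cons (P.lf 35292 0 0) P.nil)) (P.cons (P.cons (P.lf 154801 0 0) P.nil) P.nil)))))) 501228)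
 (EL.cons 10 (TM.mk (P.cons (P.cons (P.lf 0 1101283803 0) (P.cons (P.lf 0 1025947743 0) (P.cons (P.lf 105295614 0 0) (P.cons (P.lf 21898557 0 0) (P.lf 0 1824879 0))))) (P.cons (P.cons (P.lf 0 106131099 0) (P.cons (P.lf 0 98870937 0) (P.cons (P.lf 10147374 0 0) (P.cons (P.lf 2110371 0 0) (P.lf 0 175863 0))))) (P.cons (P.cons (P.lf 12666855 0 0) (P.cons (P.lf 11800347 0 0) (P.cons (P.lf 0 1211097 0) (P.cons (P.lf 0 251874 0) P.nil)))) (P.cons (P.cons (P.lf 1497882 0 0) (P.cons (P.lf 1395417 0 0) (P.cons (P.lf 0 143214 0) P.nil))) (P.cons (P.cons (P.lf 0 56955 0) (P.cons (P.lf 0 53058 0) P.nil)) (P.cons (P.cons (P.lf 0 11178 0) P.nil) P.nil)))))) 73815)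
 EL.nil))))
noncomputable def S198_227_216_364_8 : EL := (EL.cons 12 (TM.mk (P.cons (P.cons (P.lf 3144994494 0 0) (P.cons (P.lf 0 791181448 0) (P.cons (P.lf 0 291407284 0) (P.cons (P.lf 80820720 0 0) (P.cons (P.lf 4484210 0 0) (P.cons (P.lf 0 2056078 0) P.nil)))))) (P.cons (P.cons (P.lf 485883778 0 0) (P.cons (P.lf 0 175486158 0) (P.cons (P.lf 0 61285710 0) (P.cons (P.lf 20814668 0 0) (P.cons (P.lf 1296434 0 0) P.nil))))) (P.cons (P.cons (P.lf 0 246013942 0) (P.cons (P.lf 35365154 0 0) (P.cons (P.lf 14919254 0 0) (P.cons (P.lf 0 1979532 0) P.nil)))) (P.cons (P.cons (P.lf 0 26586208 0) (P.cons (P.lf 8743568 0 0) (P.cons (P.lf 3280894 0 0) P.nil))) (P.cons (P.cons (P.lf 8507694 0 0) (P.cons (P.lf 0 637206 0) P.nil)) (P.cons (P.cons (P.lf 668556 0 0) P.nil) P.nil)))))) 3930710)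
 (EL.cons 3 (TM.mk (P.cons (P.cons (P.lf 1066840334 0 0) (P.cons (P.lf 0 438307105 0) (P.cons (P.lf 0 150750040 0) (P.cons (P.lf 53990508 0 0) (P.cons (P.lf 3447290 0 0) (P.cons (P.lf 0 1580636 0) P.nil)))))) (P.cons (P.cons (P.lf 0 1456047020 0) (P.cons (P.lf 200971240 0 0) (P.cons (P.lf 85857780 0 0) (P.cons (P.lf 0 10321777 0) (P.cons (P.lf 0 72385 0) P.nil))))) (P.cons (P.cons (P.lf 0 233793775 0) (P.cons (P.lf 76510613 0 0) (P.cons (P.lf 28884926 0 0) (P.cons (P.lf 0 7208031 0) P.nil)))) (P.cons (P.cons (P.lf 101495625 0 0) (P.cons (P.lf 0 6824826 0) (P.cons (P.lf 0 3326755 0) P.nil))) (P.cons (P.cons (P.lf 11339678 0 0) (P.cons (P.lf 0 3375345 0) P.nil)) (P.cons (P.cons (P.lf 0 2843754 0) P.nil) P.nil)))))) 9361010)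
 (EL.cons 7 (TM.mk (P.cons (P.cons (P.lf 0 1095884220 0) (P.cons (P.lf 315629764 0 0) (P.cons (P.lf 113740588 0 0) (P.cons (P.lf 0 34408512 0) (P.cons (P.lf 0 2015273 0) (P.cons (P.lf 924032 0 0) P.nil)))))) (P.cons (P.cons (P.lf 342237620 0 0) (P.cons (P.lf 0 47237424 0) (P.cons (P.lf 0 20180501 0) (P.cons (P.lf 2426080 0 0) (P.cons (P.lf 17014 0 0) P.nil))))) (P.cons (P.cons (P.lf 0 6358864 0) (P.cons (P.lf 0 9521011 0) (P.cons (P.lf 0 3173991 0) (P.cons (P.lf 1259591 0 0) P.nil)))) (P.cons (P.cons (P.lf 0 35487285 0) (P.cons (P.lf 5693407 0 0) (P.cons (P.lf 2315498 0 0) P.nil))) (P.cons (P.cons (P.lf 3949830 0 0) (P.cons (P.lf 265926 0 0) P.nil)) (P.cons (P.cons (P.lf 1211706 0 0) P.nil) P.nil)))))) 4695611)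
 (EL.cons 10 (TM.mk (P.cons (P.cons (P.lf 0 1332736410 0) (P.cons (P.lf 0 1073930028 0) (P.cons (P.lf 355881840 0 0) (P.cons (P.lf 69783000 0 0) (P.cons (P.lf 0 19935738 0) (P.cons (P.lf 0 391668 0) P.nil)))))) (P.cons (P.cons (P.lf 0 231386364 0) (P.cons (P.lf 0 175169664 0) (P.cons (P.lf 77164356 0 0) (P.cons (P.lf 15028794 0 0) (P.cons (P.lf 0 4654386 0) P.nil))))) (P.cons (P.cons (P.lf 61509924 0 0) (P.cons (P.lf 55400982 0 0) (P.cons (P.lf 0 8472024 0) (P.cons (P.lf 0 1713966 0) P.nil)))) (P.cons (P.cons (P.lf 9702804 0 0) (P.cons (P.lf 7819116 0 0) (P.cons (P.lf 0 2590236 0) P.nil))) (P.cons (P.cons (P.lf 0 1171134 0) (P.cons (P.lf 0 1127514 0) P.nil)) (P.cons (P.cons (P.lf 0 210864 0) P.nil) P.nil)))))) 3756852)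
 EL.nil))))
noncomputable def S198_227_216_364_9 : EL := (EL.cons 3 (TM.mk (P.cons (P.lf 0 1320724353 0) (P.cons (P.lf 409570215 0 0) (P.cons (P.lf 14623338 0 0) (P.cons (P.lf 0 1245645 0) (P.cons (P.lf 0 85526 0) (P.cons (P.lf 2831 0 0) P.nil)))))) 532)
 (EL.cons 7 (TM.mk (P.cons (P.lf 0 1997870342 0) (P.cons (P.lf 0 96267727 0) (P.cons (P.lf 13808992 0 0) (P.cons (P.lf 693290 0 0) (P.cons (P.lf 0 37347 0) (P.cons (P.lf 0 3551 0) P.nil)))))) 296)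
 EL.nil))
noncomputable def S198_227_216_364_10 : EL := (EL.cons 3 (TM.mk (P.cons (P.cons (P.lf 0 799147973 0) (P.cons (P.lf 100520215 0 0) (P.cons (P.lf 43345450 0 0) (P.lf 0 4816160 0)))) (P.cons (P.cons (P.lf 186092100 0 0) (P.cons (P.lf 0 16641601 0) (P.cons (P.lf 0 7176045 0) (P.lf 797339 0 0)))) (P.cons (P.cons (P.lf 61632604 0 0) (P.cons (P.lf 0 7003292 0) (P.cons (P.lf 0 3019898 0) (P.lf 335542 0 0)))) (P.cons (P.cons (P.lf 0 9723336 0) (P.cons (P.lf 68897 0 0) (P.cons (P.lf 29709 0 0) P.nil))) (P.cons (P.cons (P.lf 0 1157112 0) (P.cons (P.lf 131914 0 0) P.nil)) (P.cons (P.cons (P.lf 136415 0 0) P.nil) P.nil)))))) 163229)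
 (EL.cons 7 (TM.mk (P.cons (P.cons (P.lf 0 1208877560 0) (P.cons (P.lf 152057738 0 0) (P.cons (P.lf 65569011 0 0) (P.lf 0 7285445 0)))) (P.cons (P.cons (P.lf 0 151632330 0) (P.cons (P.lf 29307712 0 0) (P.cons (P.lf 12637815 0 0) (P.lf 0 1404199 0)))) (P.cons (P.cons (P.lf 54744302 0 0) (P.cons (P.lf 0 2085708 0) (P.cons (P.lf 0 899380 0) (P.lf 99929 0 0)))) (P.cons (P.cons (P.lf 4695649 0 0) (P.cons (P.lf 0 750728 0) (P.cons (P.lf 0 323722 0) P.nil))) (P.cons (P.cons (P.lf 0 940193 0) (P.cons (P.lf 0 4017 0) P.nil)) (P.cons (P.cons (P.lf 0 89537 0) P.nil) P.nil)))))) 110018)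
 EL.nil))
noncomputable def S198_227_216_364_11 : EL := (EL.cons 3 (TM.mk (P.cons (P.cons (P.lf 0 483550924 0) (P.cons (P.lf 121646165 0 0) (P.cons (P.lf 44804612 0 0) (P.cons (P.lf 0 12426390 0) (P.cons (P.lf 0 689458 0) (P.cons (P.lf 316126 0 0) P.nil)))))) (P.cons (P.cons (P.lf 75248248 0 0) (P.cons (P.lf 0 10742282 0) (P.cons (P.lf 0 4471536 0) (P.cons (P.lf 653243 0 0) (P.cons (P.lf 14477 0 0) P.nil))))) (P.cons (P.cons (P.lf 66346307 0 0) (P.cons (P.lf 0 15151597 0) (P.cons (P.lf 0 5712076 0) (P.cons (P.lf 1434393 0 0) P.nil)))) (P.cons (P.cons (P.lf 0 7271211 0) (P.cons (P.lf 157860 0 0) (P.cons (P.lf 144833 0 0) P.nil))) (P.cons (P.cons (P.lf 0 3096298 0) (P.cons (P.lf 608397 0 0) P.nil)) (P.cons (P.cons (P.lf 289470 0 0) P.nil) P.nil)))))) 1437004)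
 (EL.cons 7 (TM.mk (P.cons (P.cons (P.lf 0 731471370 0) (P.cons (P.lf 184015132 0 0) (P.cons (P.lf 67776298 0 0) (P.cons (P.lf 0 18797502 0) (P.cons (P.lf 0 1042949 0) (P.cons (P.lf 478208 0 0) P.nil)))))) (P.cons (P.cons (P.lf 0 148254244 0) (P.cons (P.lf 49681848 0 0) (P.cons (P.lf 17519809 0 0) (P.cons (P.lf 0 5746892 0) (P.cons (P.lf 0 351782 0) P.nil))))) (P.cons (P.cons (P.lf 56829098 0 0) (P.cons (P.lf 0 7530529 0) (P.cons (P.lf 0 3251589 0) (P.cons (P.lf 357059 0 0) P.nil)))) (P.cons (P.cons (P.lf 9975507 0 0) (P.cons (P.lf 0 2775905 0) (P.cons (P.lf 0 1052320 0) P.nil))) (P.cons (P.cons (P.lf 0 2050734 0) (P.cons (P.lf 96342 0 0) P.nil)) (P.cons (P.cons (P.lf 0 316848 0) P.nil) P.nil)))))) 1211743)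
 EL.nil))
noncomputable def S198_227_216_364_12 : EL := (EL.cons 4 (TM.mk (P.cons (P.lf 1320724353 0 0) (P.cons (P.lf 0 409570215 0) (P.cons (P.lf 0 14623338 0) (P.cons (P.lf 1245645 0 0) (P.cons (P.lf 85526 0 0) (P.cons (P.lf 0 2831 0) P.nil)))))) 532)
 (EL.cons 8 (TM.mk (P.cons (P.lf 1997870342 0 0) (P.cons (P.lf 96267727 0 0) (P.cons (P.lf 0 13808992 0) (P.cons (P.lf 0 693290 0) (P.cons (P.lf 37347 0 0) (P.cons (P.lf 3551 0 0) P.nil)))))) 296)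
 EL.nil))
noncomputable def S198_227_216_364_13 : EL := (EL.cons 4 (TM.mk (P.cons (P.cons (P.lf 799147973 0 0) (P.cons (P.lf 0 100520215 0) (P.cons (P.lf 0 43345450 0) (P.lf 4816160 0 0)))) (P.cons (P.cons (P.lf 0 186092100 0) (P.cons (P.lf 16641601 0 0) (P.cons (P.lf 7176045 0 0) (P.lf 0 797339 0)))) (P.cons (P.cons (P.lf 0 61632604 0) (P.cons (P.lf 7003292 0 0) (P.cons (P.lf 3019898 0 0) (P.lf 0 335542 0)))) (P.cons (P.cons (P.lf 9723336 0 0) (P.cons (P.lf 0 68897 0) (P.cons (P.lf 0 29709 0) P.nil))) (P.cons (P.cons (P.lf 1157112 0 0) (P.cons (P.lf 0 131914 0) P.nil)) (P.cons (P.cons (P.lf 0 136415 0) P.nil) P.nil)))))) 163229)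
 (EL.cons 8 (TM.mk (P.cons (P.cons (P.lf 1208877560 0 0) (P.cons (P.lf 0 152057738 0) (P.cons (P.lf 0 65569011 0) (P.lf 7285445 0 0)))) (P.cons (P.cons (P.lf 151632330 0 0) (P.cons (P.lf 0 29307712 0) (P.cons (P.lf 0 12637815 0) (P.lf 1404199 0 0)))) (P.cons (P.cons (P.lf 0 54744302 0) (P.cons (P.lf 2085708 0 0) (P.cons (P.lf 899380 0 0) (P.lf 0 99929 0)))) (P.cons (P.cons (P.lf 0 4695649 0) (P.cons (P.lf 750728 0 0) (P.cons (P.lf 323722 0 0) P.nil))) (P.cons (P.cons (P.lf 940193 0 0) (P.cons (P.lf 4017 0 0) P.nil)) (P.cons (P.cons (P.lf 89537 0 0) P.nil) P.nil)))))) 110018)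
 EL.nil))
noncomputable def S198_227_216_364_14 : EL := (EL.cons 4 (TM.mk (P.cons (P.cons (P.lf 483550924 0 0) (P.cons (P.lf 0 121646165 0) (P.cons (P.lf 0 44804612 0) (P.cons (P.lf 12426390 0 0) (P.cons (P.lf 689458 0 0) (P.cons (P.lf 0 316126 0) P.nil)))))) (P.cons (P.cons (P.lf 0 75248248 0) (P.cons (P.lf 10742282 0 0) (P.cons (P.lf 4471536 0 0) (P.cons (P.lf 0 653243 0) (P.cons (P.lf 0 14477 0) P.nil))))) (P.cons (P.cons (P.lf 0 66346307 0) (P.cons (P.lf 15151597 0 0) (P.cons (P.lf 5712076 0 0) (P.cons (P.lf 0 1434393 0) P.nil)))) (P.cons (P.cons (P.lf 7271211 0 0) (P.cons (P.lf 0 157860 0) (P.cons (P.lf 0 144833 0) P.nil))) (P.cons (P.cons (P.lf 3096298 0 0) (P.cons (P.lf 0 608397 0) P.nil)) (P.cons (P.cons (P.lf 0 289470 0) P.nil) P.nil)))))) 1437004)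
 (EL.cons 8 (TM.mk (P.cons (P.cons (P.lf 731471370 0 0) (P.cons (P.lf 0 184015132 0) (P.cons (P.lf 0 67776298 0) (P.cons (P.lf 18797502 0 0) (P.cons (P.lf 1042949 0 0) (P.cons (P.lf 0 478208 0) P.nil)))))) (P.cons (P.cons (P.lf 148254244 0 0) (P.cons (P.lf 0 49681848 0) (P.cons (P.lf 0 17519809 0) (P.cons (P.lf 5746892 0 0) (P.cons (P.lf 351782 0 0) P.nil))))) (P.cons (P.cons (P.lf 0 56829098 0) (P.cons (P.lf 7530529 0 0) (P.cons (P.lf 3251589 0 0) (P.cons (P.lf 0 357059 0) P.nil)))) (P.cons (P.cons (P.lf 0 9975507 0) (P.cons (P.lf 2775905 0 0) (P.cons (P.lf 1052320 0 0) P.nil))) (P.cons (P.cons (P.lf 2050734 0 0) (P.cons (P.lf 0 96342 0) P.nil)) (P.cons (P.cons (P.lf 316848 0 0) P.nil) P.nil)))))) 1211743)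
 EL.nil))
noncomputable def S198_227_216_364_15 : EL := (EL.cons 4 (TM.mk (P.cons (P.lf 0 433204774 0) (P.cons (P.lf 268682518 0 0) (P.cons (P.lf 0 32067537 0) (P.cons (P.lf 0 3792065 0) (P.cons (P.lf 144194 0 0) (P.cons (P.lf 28304 0 0) P.nil)))))) 2128)
 (EL.cons 8 (TM.mk (P.cons (P.lf 0 655312343 0) (P.cons (P.lf 171642763 0 0) (P.cons (P.lf 21577328 0 0) (P.cons (P.lf 0 1445658 0) (P.cons (P.lf 0 205138 0) (P.cons (P.lf 3748 0 0) P.nil)))))) 1533)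
 EL.nil))
noncomputable def S198_227_216_364_16 : EL := (EL.cons 4 (TM.mk (P.cons (P.cons (P.lf 0 262124883 0) (P.cons (P.lf 32971177 0 0) (P.cons (P.lf 14217542 0 0) (P.lf 0 1579726 0)))) (P.cons (P.cons (P.lf 142326845 0 0) (P.cons (P.lf 0 15683236 0) (P.cons (P.lf 0 6762788 0) (P.lf 751421 0 0)))) (P.cons (P.cons (P.lf 4189241 0 0) (P.cons (P.lf 0 969433 0) (P.cons (P.lf 0 418030 0) (P.lf 46446 0 0)))) (P.cons (P.cons (P.lf 0 10381506 0) (P.cons (P.lf 826493 0 0) (P.cons (P.lf 356393 0 0) P.nil))) (P.cons (P.cons (P.lf 426257 0 0) (P.cons (P.lf 58680 0 0) P.nil)) (P.cons (P.cons (P.lf 221337 0 0) P.nil) P.nil)))))) 182664)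
 (EL.cons 8 (TM.mk (P.cons (P.cons (P.lf 0 396518417 0) (P.cons (P.lf 49875765 0 0) (P.cons (P.lf 21506992 0 0) (P.lf 0 2389665 0)))) (P.cons (P.cons (P.lf 73228212 0 0) (P.cons (P.lf 0 5853898 0) (P.cons (P.lf 0 2524266 0) (P.lf 280474 0 0)))) (P.cons (P.cons (P.lf 37770481 0 0) (P.cons (P.lf 0 4217476 0) (P.cons (P.lf 0 1818623 0) (P.lf 202068 0 0)))) (P.cons (P.cons (P.lf 0 3851562 0) (P.cons (P.lf 0 93486 0) (P.cons (P.lf 0 40312 0) P.nil))) (P.cons (P.cons (P.lf 0 1057423 0) (P.cons (P.lf 94915 0 0) P.nil)) (P.cons (P.cons (P.lf 63777 0 0) P.nil) P.nil)))))) 127959)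
 EL.nil))
noncomputable def S198_227_216_364_17 : EL := (EL.cons 4 (TM.mk (P.cons (P.cons (P.lf 0 158607334 0) (P.cons (P.lf 39900603 0 0) (P.cons (P.lf 14696156 0 0) (P.cons (P.lf 0 4075923 0) (P.cons (P.lf 0 226145 0) (P.cons (P.lf 103691 0 0) P.nil)))))) (P.cons (P.cons (P.lf 73867601 0 0) (P.cons (P.lf 0 15897115 0) (P.cons (P.lf 0 6024118 0) (P.cons (P.lf 1478252 0 0) (P.cons (P.lf 74879 0 0) P.nil))))) (P.cons (P.cons (P.lf 15863992 0 0) (P.cons (P.lf 0 4318912 0) (P.cons (P.lf 0 1581475 0) (P.cons (P.lf 449171 0 0) P.nil)))) (P.cons (P.cons (P.lf 0 9556474 0) (P.cons (P.lf 1669612 0 0) (P.cons (P.lf 658626 0 0) P.nil))) (P.cons (P.cons (P.lf 0 503935 0) (P.cons (P.lf 237787 0 0) P.nil)) (P.cons (P.cons (P.lf 458766 0 0) P.nil) P.nil)))))) 1044667)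
 (EL.cons 8 (TM.mk (P.cons (P.cons (P.lf 0 239926589 0) (P.cons (P.lf 60357964 0 0) (P.cons (P.lf 22230994 0 0) (P.cons (P.lf 0 6165682 0) (P.cons (P.lf 0 342092 0) (P.cons (P.lf 156854 0 0) P.nil)))))) (P.cons (P.cons (P.lf 25775505 0 0) (P.cons (P.lf 0 2421708 0) (P.cons (P.lf 0 1147466 0) (P.cons (P.lf 27029 0 0) (P.cons (P.lf 0 9300 0) P.nil))))) (P.cons (P.cons (P.lf 36376875 0 0) (P.cons (P.lf 0 8191881 0) (P.cons (P.lf 0 3094762 0) (P.cons (P.lf 769946 0 0) P.nil)))) (P.cons (P.cons (P.lf 0 2196379 0) (P.cons (P.lf 0 268027 0) (P.cons (P.lf 0 57082 0) P.nil))) (P.cons (P.cons (P.lf 0 1955128 0) (P.cons (P.lf 360586 0 0) P.nil)) (P.cons (P.cons (P.lf 83385 0 0) P.nil) P.nil)))))) 875711)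
 EL.nil))
noncomputable def S198_227_216_364_18 : EL := (EL.cons 4 (TM.mk (P.cons (P.lf 142093522 0 0) (P.cons (P.lf 0 132193991 0) (P.cons (P.lf 36274848 0 0) (P.cons (P.lf 0 908220 0) (P.cons (P.lf 0 623396 0) (P.cons (P.lf 0 4479 0) P.nil)))))) 6741)
 (EL.cons 8 (TM.mk (P.cons (P.lf 214946014 0 0) (P.cons (P.lf 0 122956731 0) (P.cons (P.lf 8001726 0 0) (P.cons (P.lf 3495072 0 0) (P.cons (P.lf 0 40579 0) (P.cons (P.lf 0 38127 0) P.nil)))))) 3726)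
 EL.nil))
noncomputable def S198_227_216_364_19 : EL := (EL.cons 4 (TM.mk (P.cons (P.cons (P.lf 85978387 0 0) (P.cons (P.lf 0 10814725 0) (P.cons (P.lf 0 4663431 0) (P.lf 518158 0 0)))) (P.cons (P.cons (P.lf 0 73346761 0) (P.cons (P.lf 8497944 0 0) (P.cons (P.lf 3664409 0 0) (P.lf 0 407156 0)))) (P.cons (P.cons (P.lf 12151117 0 0) (P.cons (P.lf 0 1157542 0) (P.cons (P.lf 0 499144 0) (P.lf 55460 0 0)))) (P.cons (P.cons (P.lf 4429297 0 0) (P.cons (P.lf 0 436860 0) (P.cons (P.lf 0 188378 0) P.nil))) (P.cons (P.cons (P.lf 0 1219047 0) (P.cons (P.lf 65451 0 0) P.nil)) (P.cons (P.cons (P.lf 0 71447 0) P.nil) P.nil)))))) 159407)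
 (EL.cons 8 (TM.mk (P.cons (P.cons (P.lf 130060198 0 0) (P.cons (P.lf 0 16359522 0) (P.cons (P.lf 0 7054410 0) (P.lf 783823 0 0)))) (P.cons (P.cons (P.lf 0 64352258 0) (P.cons (P.lf 6993366 0 0) (P.cons (P.lf 3015618 0 0) (P.lf 0 335068 0)))) (P.cons (P.cons (P.lf 0 6380360 0) (P.cons (P.lf 969044 0 0) (P.cons (P.lf 417862 0 0) (P.lf 0 46428 0)))) (P.cons (P.cons (P.lf 5493878 0 0) (P.cons (P.lf 0 435017 0) (P.cons (P.lf 0 187584 0) P.nil))) (P.cons (P.cons (P.lf 78009 0 0) (P.cons (P.lf 0 55207 0) P.nil)) (P.cons (P.cons (P.lf 0 155984 0) P.nil) P.nil)))))) 127338)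
 EL.nil))
noncomputable def S198_227_216_364_20 : EL := (EL.cons 4 (TM.mk (P.cons (P.cons (P.lf 52024067 0 0) (P.cons (P.lf 0 13087614 0) (P.cons (P.lf 0 4820418 0) (P.cons (P.lf 1336924 0 0) (P.cons (P.lf 74176 0 0) (P.cons (P.lf 0 34010 0) P.nil)))))) (P.cons (P.cons (P.lf 0 40362173 0) (P.cons (P.lf 9272943 0 0) (P.cons (P.lf 3470805 0 0) (P.cons (P.lf 0 899469 0) (P.cons (P.lf 0 47563 0) P.nil))))) (P.cons (P.cons (P.lf 1734156 0 0) (P.cons (P.lf 0 55484 0) (P.cons (P.lf 0 40654 0) (P.cons (P.lf 0 11768 0) P.nil)))) (P.cons (P.cons (P.lf 5065561 0 0) (P.cons (P.lf 0 1057030 0) (P.cons (P.lf 0 403321 0) P.nil))) (P.cons (P.cons (P.lf 0 768638 0) (P.cons (P.lf 80218 0 0) P.nil)) (P.cons (P.cons (P.lf 0 243031 0) P.nil) P.nil)))))) 685634)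
 (EL.cons 8 (TM.mk (P.cons (P.cons (P.lf 78697226 0 0) (P.cons (P.lf 0 19797740 0) (P.cons (P.lf 0 7291886 0) (P.cons (P.lf 2022377 0 0) (P.cons (P.lf 112208 0 0) (P.cons (P.lf 0 51449 0) P.nil)))))) (P.cons (P.cons (P.lf 0 32859325 0) (P.cons (P.lf 6933816 0 0) (P.cons (P.lf 2637664 0 0) (P.cons (P.lf 0 636025 0) (P.cons (P.lf 0 31746 0) P.nil))))) (P.cons (P.cons (P.lf 0 10181336 0) (P.cons (P.lf 2659855 0 0) (P.cons (P.lf 979118 0 0) (P.cons (P.lf 0 272189 0) P.nil)))) (P.cons (P.cons (P.lf 4588435 0 0) (P.cons (P.lf 0 772813 0) (P.cons (P.lf 0 307113 0) P.nil))) (P.cons (P.cons (P.lf 547115 0 0) (P.cons (P.lf 0 175821 0) P.nil)) (P.cons (P.cons (P.lf 0 246168 0) P.nil) P.nil)))))) 626357)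
 EL.nil))
noncomputable def S198_227_216_364_21 : EL := (EL.cons 4 (TM.mk (P.cons (P.cons (P.lf 0 1281139140 0) (P.cons (P.lf 301560645 0 0) (P.cons (P.lf 130036350 0 0) (P.lf 0 14448480 0)))) (P.cons (P.cons (P.lf 1364323854 0 0) (P.cons (P.lf 0 49924803 0) (P.cons (P.lf 0 21528135 0) (P.lf 2392017 0 0)))) (P.cons (P.cons (P.lf 88695201 0 0) (P.cons (P.lf 0 21009876 0) (P.cons (P.lf 0 9059694 0) (P.lf 1006626 0 0)))) (P.cons (P.cons (P.lf 0 40546200 0) (P.cons (P.lf 206691 0 0) (P.cons (P.lf 89127 0 0) P.nil))) (P.cons (P.cons (P.lf 0 3038754 0) (P.cons (P.lf 395742 0 0) P.nil)) (P.cons (P.cons (P.lf 494157 0 0) P.nil) P.nil)))))) 496362)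
 (EL.cons 8 (TM.mk (P.cons (P.cons (P.lf 301126290 0 0) (P.cons (P.lf 0 70880547 0) (P.cons (P.lf 0 30564495 0) (P.lf 3396057 0 0)))) (P.cons (P.cons (P.lf 0 428570664 0) (P.cons (P.lf 37130784 0 0) (P.cons (P.lf 16011210 0 0) (P.lf 0 1779018 0)))) (P.cons (P.cons (P.lf 97996227 0 0) (P.cons (P.lf 0 195006 0) (P.cons (P.lf 0 84087 0) (P.lf 9339 0 0)))) (P.cons (P.cons (P.lf 12250149 0 0) (P.cons (P.lf 0 1535325 0) (P.cons (P.lf 0 662049 0) P.nil))) (P.cons (P.cons (P.lf 0 2360574 0) (P.cons (P.lf 0 39309 0) P.nil)) (P.cons (P.cons (P.lf 0 244338 0) P.nil) P.nil)))))) 391191)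
 (EL.cons 11 (TM.mk (P.cons (P.cons (P.lf 1101283803 0 0) (P.cons (P.lf 1025947743 0 0) (P.cons (P.lf 0 105295614 0) (P.cons (P.lf 0 21898557 0) (P.lf 1824879 0 0))))) (P.cons (P.cons (P.lf 106131099 0 0) (P.cons (P.lf 98870937 0 0) (P.cons (P.lf 0 10147374 0) (P.cons (P.lf 0 2110371 0) (P.lf 175863 0 0))))) (P.cons (P.cons (P.lf 0 12666855 0) (P.cons (P.lf 0 11800347 0) (P.cons (P.lf 1211097 0 0) (P.cons (P.lf 251874 0 0) P.nil)))) (P.cons (P.cons (P.lf 0 1497882 0) (P.cons (P.lf 0 1395417 0) (P.cons (P.lf 143214 0 0) P.nil))) (P.cons (P.cons (P.lf 56955 0 0) (P.cons (P.lf 53058 0 0) P.nil)) (P.cons (P.cons (P.lf 11178 0 0) P.nil) P.nil)))))) 73815)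
 EL.nil)))
noncomputable def S198_227_216_364_22 : EL := (EL.cons 4 (TM.mk (P.cons (P.cons (P.lf 0 775195629 0) (P.cons (P.lf 279976635 0 0) (P.cons (P.lf 97777326 0 0) (P.cons (P.lf 0 33208449 0) (P.cons (P.lf 0 2068374 0) (P.cons (P.lf 948381 0 0) P.nil)))))) (P.cons (P.cons (P.lf 765647634 0 0) (P.cons (P.lf 0 105856761 0) (P.cons (P.lf 0 45164658 0) (P.cons (P.lf 5487510 0 0) (P.cons (P.lf 43431 0 0) P.nil))))) (P.cons (P.cons (P.lf 150070041 0 0) (P.cons (P.lf 0 45831105 0) (P.cons (P.lf 0 17298501 0) (P.cons (P.lf 4321212 0 0) P.nil)))) (P.cons (P.cons (P.lf 0 54383418 0) (P.cons (P.lf 3491343 0 0) (P.cons (P.lf 1735794 0 0) P.nil))) (P.cons (P.cons (P.lf 0 7217988 0) (P.cons (P.lf 1991871 0 0) P.nil)) (P.cons (P.cons (P.lf 1566612 0 0) P.nil) P.nil)))))) 3961992)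
 (EL.cons 8 (TM.mk (P.cons (P.cons (P.lf 182206425 0 0) (P.cons (P.lf 0 65807316 0) (P.cons (P.lf 0 22982145 0) (P.cons (P.lf 7805505 0 0) (P.cons (P.lf 486162 0 0) (P.cons (P.lf 0 222912 0) P.nil)))))) (P.cons (P.cons (P.lf 0 245245932 0) (P.cons (P.lf 48459636 0 0) (P.cons (P.lf 18850155 0 0) (P.cons (P.lf 0 4086486 0) (P.cons (P.lf 0 184398 0) P.nil))))) (P.cons (P.cons (P.lf 31593981 0 0) (P.cons (P.lf 995241 0 0) (P.cons (P.lf 0 38799 0) (P.cons (P.lf 0 451266 0) P.nil)))) (P.cons (P.cons (P.lf 22731396 0 0) (P.cons (P.lf 0 4234656 0) (P.cons (P.lf 0 1683909 0) P.nil))) (P.cons (P.cons (P.lf 0 3000282 0) (P.cons (P.lf 0 84792 0) P.nil)) (P.cons (P.cons (P.lf 0 764277 0) P.nil) P.nil)))))) 1741923)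
 (EL.cons 11 (TM.mk (P.cons (P.cons (P.lf 666368205 0 0) (P.cons (P.lf 536965014 0 0) (P.cons (P.lf 0 177940920 0) (P.cons (P.lf 0 34891500 0) (P.cons (P.lf 9967869 0 0) (P.cons (P.lf 195834 0 0) P.nil)))))) (P.cons (P.cons (P.lf 115693182 0 0) (P.cons (P.lf 87584832 0 0) (P.cons (P.lf 0 38582178 0) (P.cons (P.lf 0 7514397 0) (P.cons (P.lf 2327193 0 0) P.nil))))) (P.cons (P.cons (P.lf 0 30754962 0) (P.cons (P.lf 0 27700491 0) (P.cons (P.lf 4236012 0 0) (P.cons (P.lf 856983 0 0) P.nil)))) (P.cons (P.cons (P.lf 0 4851402 0) (P.cons (P.lf 0 3909558 0) (P.cons (P.lf 1295118 0 0) P.nil))) (P.cons (P.cons (P.lf 585567 0 0) (P.cons (P.lf 563757 0 0) P.nil)) (P.cons (P.cons (P.lf 105432 0 0) P.nil) P.nil)))))) 1878426)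
 EL.nil)))
noncomputable def S198_227_216_364_23 : EL := (EL.cons 4 (TM.mk (P.cons (P.cons (P.lf 420220608 0 0) (P.cons (P.lf 0 98913531 0) (P.cons (P.lf 0 42652629 0) (P.lf 4739178 0 0)))) (P.cons (P.cons (P.lf 0 577820382 0) (P.cons (P.lf 47049711 0 0) (P.cons (P.lf 20288364 0 0) (P.lf 0 2254263 0)))) (P.cons (P.cons (P.lf 105030825 0 0) (P.cons (P.lf 2908299 0 0) (P.cons (P.lf 1254090 0 0) (P.lf 0 139341 0)))) (P.cons (P.cons (P.lf 27672468 0 0) (P.cons (P.lf 0 2479479 0) (P.cons (P.lf 0 1069179 0) P.nil))) (P.cons (P.cons (P.lf 0 3200280 0) (P.cons (P.lf 0 176043 0) P.nil)) (P.cons (P.cons (P.lf 0 675753 0) P.nil) P.nil)))))) 523227)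
 (EL.cons 8 (TM.mk (P.cons (P.cons (P.lf 0 98771061 0) (P.cons (P.lf 23249205 0 0) (P.cons (P.lf 10025319 0 0) (P.lf 0 1113924 0)))) (P.cons (P.cons (P.lf 171203430 0 0) (P.cons (P.lf 0 19388916 0) (P.cons (P.lf 0 8360718 0) (P.lf 928965 0 0)))) (P.cons (P.cons (P.lf 0 74642973 0) (P.cons (P.lf 3583404 0 0) (P.cons (P.lf 1545204 0 0) (P.lf 0 171687 0)))) (P.cons (P.cons (P.lf 4300233 0 0) (P.cons (P.lf 640536 0 0) (P.cons (P.lf 276204 0 0) P.nil))) (P.cons (P.cons (P.lf 2502423 0 0) (P.cons (P.lf 0 153963 0) P.nil)) (P.cons (P.cons (P.lf 0 136479 0) P.nil) P.nil)))))) 308133)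
 (EL.cons 11 (TM.mk (P.cons (P.cons (P.lf 0 361227078 0) (P.cons (P.lf 0 336516441 0) (P.cons (P.lf 34537533 0 0) (P.cons (P.lf 7182843 0 0) (P.lf 0 598569 0))))) (P.cons (P.cons (P.lf 77208657 0 0) (P.cons (P.lf 71927004 0 0) (P.cons (P.lf 0 7382049 0) (P.cons (P.lf 0 1535259 0) (P.lf 127938 0 0))))) (P.cons (P.cons (P.lf 18949806 0 0) (P.cons (P.lf 17653497 0 0) (P.cons (P.lf 0 1811820 0) (P.cons (P.lf 0 376806 0) P.nil)))) (P.cons (P.cons (P.lf 0 752382 0) (P.cons (P.lf 0 700914 0) (P.cons (P.lf 71934 0 0) P.nil))) (P.cons (P.cons (P.lf 0 273270 0) (P.cons (P.lf 0 254574 0) P.nil)) (P.cons (P.cons (P.lf 0 873 0) P.nil) P.nil)))))) 146256)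
 EL.nil)))
noncomputable def S198_227_216_364_24 : EL := (EL.cons 4 (TM.mk (P.cons (P.cons (P.lf 254268384 0 0) (P.cons (P.lf 0 91833858 0) (P.cons (P.lf 0 32071494 0) (P.cons (P.lf 10892550 0 0) (P.cons (P.lf 678438 0 0) (P.cons (P.lf 0 311073 0) P.nil)))))) (P.cons (P.cons (P.lf 0 329987832 0) (P.cons (P.lf 63200217 0 0) (P.cons (P.lf 24759954 0 0) (P.cons (P.lf 0 5177823 0) (P.cons (P.lf 0 224637 0) P.nil))))) (P.cons (P.cons (P.lf 25840938 0 0) (P.cons (P.lf 5282130 0 0) (P.cons (P.lf 1435050 0 0) (P.cons (P.lf 0 979806 0) P.nil)))) (P.cons (P.cons (P.lf 36123312 0 0) (P.cons (P.lf 0 6278079 0) (P.cons (P.lf 0 2523189 0) P.nil))) (P.cons (P.cons (P.lf 0 2839602 0) (P.cons (P.lf 0 437856 0) P.nil)) (P.cons (P.cons (P.lf 0 1508796 0) P.nil) P.nil)))))) 2549928)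
 (EL.cons 8 (TM.mk (P.cons (P.cons (P.lf 0 59764698 0) (P.cons (P.lf 21585156 0 0) (P.cons (P.lf 7538268 0 0) (P.cons (P.lf 0 2560248 0) (P.cons (P.lf 0 159462 0) (P.cons (P.lf 73116 0 0) P.nil)))))) (P.cons (P.cons (P.lf 98975646 0 0) (P.cons (P.lf 0 22588803 0) (P.cons (P.lf 0 8520648 0) (P.cons (P.lf 2134347 0 0) (P.cons (P.lf 109935 0 0) P.nil))))) (P.cons (P.cons (P.lf 0 34647162 0) (P.cons (P.lf 4363770 0 0) (P.cons (P.lf 1846656 0 0) (P.cons (P.lf 0 239301 0) P.nil)))) (P.cons (P.cons (P.lf 0 5189388 0) (P.cons (P.lf 1686573 0 0) (P.cons (P.lf 623952 0 0) P.nil))) (P.cons (P.cons (P.lf 3483036 0 0) (P.cons (P.lf 0 412905 0) P.nil)) (P.cons (P.cons (P.lf 23622 0 0) P.nil) P.nil)))))) 1073862)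
 (EL.cons 11 (TM.mk (P.cons (P.cons (P.lf 0 218572395 0) (P.cons (P.lf 0 176127447 0) (P.cons (P.lf 58365588 0 0) (P.cons (P.lf 11444601 0 0) (P.cons (P.lf 0 3269514 0) (P.cons (P.lf 0 64233 0) P.nil)))))) (P.cons (P.cons (P.lf 29833554 0 0) (P.cons (P.lf 25890630 0 0) (P.cons (P.lf 0 5444604 0) (P.cons (P.lf 0 1084323 0) (P.cons (P.lf 250578 0 0) P.nil))))) (P.cons (P.cons (P.lf 24275937 0 0) (P.cons (P.lf 19944972 0 0) (P.cons (P.lf 0 5960166 0) (P.cons (P.lf 0 1172160 0) P.nil)))) (P.cons (P.cons (P.lf 0 1323021 0) (P.cons (P.lf 0 1383306 0) (P.cons (P.lf 0 78999 0) P.nil))) (P.cons (P.cons (P.lf 0 847182 0) (P.cons (P.lf 0 721689 0) P.nil)) (P.cons (P.cons (P.lf 14883 0 0) P.nil) P.nil)))))) 1320963)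
 EL.nil)))
noncomputable def S198_227_216_364_25 : EL := (EL.cons 4 (TM.mk (P.cons (P.cons (P.lf 0 137834646 0) (P.cons (P.lf 32444175 0 0) (P.cons (P.lf 13990293 0 0) (P.lf 0 1554474 0)))) (P.cons (P.cons (P.lf 232272171 0 0) (P.cons (P.lf 0 25493832 0) (P.cons (P.lf 0 10993227 0) (P.lf 1221468 0 0)))) (P.cons (P.cons (P.lf 0 91699203 0) (P.cons (P.lf 3472626 0 0) (P.cons (P.lf 1497435 0 0) (P.lf 0 166380 0)))) (P.cons (P.cons (P.lf 0 621705 0) (P.cons (P.lf 1310580 0 0) (P.cons (P.lf 565137 0 0) P.nil))) (P.cons (P.cons (P.lf 4415766 0 0) (P.cons (P.lf 0 196353 0) P.nil)) (P.cons (P.cons (P.lf 0 23298 0) P.nil) P.nil)))))) 493815)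
 (EL.cons 8 (TM.mk (P.cons (P.cons (P.lf 32397444 0 0) (P.cons (P.lf 0 7625865 0) (P.cons (P.lf 0 3288357 0) (P.lf 365373 0 0)))) (P.cons (P.cons (P.lf 0 66202437 0) (P.cons (P.lf 8724528 0 0) (P.cons (P.lf 3762114 0 0) (P.lf 0 418011 0)))) (P.cons (P.cons (P.lf 41539035 0 0) (P.cons (P.lf 0 3063138 0) (P.cons (P.lf 0 1320858 0) (P.lf 146760 0 0)))) (P.cons (P.cons (P.lf 0 8350701 0) (P.cons (P.lf 76788 0 0) (P.cons (P.lf 33111 0 0) P.nil))) (P.cons (P.cons (P.lf 0 705345 0) (P.cons (P.lf 134172 0 0) P.nil)) (P.cons (P.cons (P.lf 334308 0 0) P.nil) P.nil)))))) 238056)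
 (EL.cons 11 (TM.mk (P.cons (P.cons (P.lf 118484445 0 0) (P.cons (P.lf 110379222 0 0) (P.cons (P.lf 0 11328498 0) (P.cons (P.lf 0 2356011 0) (P.lf 196332 0 0))))) (P.cons (P.cons (P.lf 0 62068104 0) (P.cons (P.lf 0 57822183 0) (P.cons (P.lf 5934435 0 0) (P.cons (P.lf 1234197 0 0) (P.lf 0 102849 0))))) (P.cons (P.cons (P.lf 325974 0 0) (P.cons (P.lf 303675 0 0) (P.cons (P.lf 0 31167 0) (P.cons (P.lf 0 6480 0) P.nil)))) (P.cons (P.cons (P.lf 2566470 0 0) (P.cons (P.lf 2390904 0 0) (P.cons (P.lf 0 245382 0) P.nil))) (P.cons (P.cons (P.lf 65709 0 0) (P.cons (P.lf 61215 0 0) P.nil)) (P.cons (P.cons (P.lf 0 37998 0) P.nil) P.nil)))))) 183921)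
 EL.nil)))
noncomputable def S198_227_216_364_26 : EL := (EL.cons 4 (TM.mk (P.cons (P.cons (P.lf 0 83401413 0) (P.cons (P.lf 30122004 0 0) (P.cons (P.lf 10519623 0 0) (P.cons (P.lf 0 3572814 0) (P.cons (P.lf 0 222531 0) (P.cons (P.lf 102033 0 0) P.nil)))))) (P.cons (P.cons (P.lf 134101440 0 0) (P.cons (P.lf 0 30071157 0) (P.cons (P.lf 0 11383641 0) (P.cons (P.lf 2806320 0 0) (P.cons (P.lf 142689 0 0) P.nil))))) (P.cons (P.cons (P.lf 0 41118186 0) (P.cons (P.lf 4362504 0 0) (P.cons (P.lf 1931346 0 0) (P.cons (P.lf 0 165735 0) P.nil)))) (P.cons (P.cons (P.lf 0 10497249 0) (P.cons (P.lf 2854467 0 0) (P.cons (P.lf 1073433 0 0) P.nil))) (P.cons (P.cons (P.lf 4796322 0 0) (P.cons (P.lf 0 493389 0) P.nil)) (P.cons (P.cons (P.lf 336438 0 0) P.nil) P.nil)))))) 1576146)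
 (EL.cons 8 (TM.mk (P.cons (P.cons (P.lf 19603146 0 0) (P.cons (P.lf 0 7080048 0) (P.cons (P.lf 0 2472591 0) (P.cons (P.lf 839775 0 0) (P.cons (P.lf 52305 0 0) (P.cons (P.lf 0 23982 0) P.nil)))))) (P.cons (P.cons (P.lf 0 38543688 0) (P.cons (P.lf 9604845 0 0) (P.cons (P.lf 3561594 0 0) (P.cons (P.lf 0 960501 0) (P.cons (P.lf 0 52278 0) P.nil))))) (P.cons (P.cons (P.lf 21214998 0 0) (P.cons (P.lf 0 3650631 0) (P.cons (P.lf 0 1445037 0) (P.cons (P.lf 286296 0 0) P.nil)))) (P.cons (P.cons (P.lf 0 1444143 0) (P.cons (P.lf 0 198045 0) (P.cons (P.lf 0 50097 0) P.nil))) (P.cons (P.cons (P.lf 0 1825488 0) (P.cons (P.lf 329367 0 0) P.nil)) (P.cons (P.cons (P.lf 336264 0 0) P.nil) P.nil)))))) 622950)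
 (EL.cons 11 (TM.mk (P.cons (P.cons (P.lf 71692935 0 0) (P.cons (P.lf 57770760 0 0) (P.cons (P.lf 0 19144230 0) (P.cons (P.lf 0 3753891 0) (P.cons (P.lf 1072419 0 0) (P.cons (P.lf 21069 0 0) P.nil)))))) (P.cons (P.cons (P.lf 0 32018283 0) (P.cons (P.lf 0 26407575 0) (P.cons (P.lf 7722681 0 0) (P.cons (P.lf 1519782 0 0) (P.cons (P.lf 0 414759 0) P.nil))))) (P.cons (P.cons (P.lf 0 5721831 0) (P.cons (P.lf 0 4548168 0) (P.cons (P.lf 1613121 0 0) (P.cons (P.lf 315744 0 0) P.nil)))) (P.cons (P.cons (P.lf 3079218 0 0) (P.cons (P.lf 2631006 0 0) (P.cons (P.lf 0 618171 0) P.nil))) (P.cons (P.cons (P.lf 226881 0 0) (P.cons (P.lf 164178 0 0) P.nil)) (P.cons (P.cons (P.lf 0 104157 0) P.nil) P.nil)))))) 868455)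
 EL.nil)))
noncomputable def S198_227_216_364_27 : EL := (EL.cons 13 (TM.mk (P.lf 0 4294967296 0) 0)
 EL.nil)
noncomputable def S198_227_216_364_28 : EL := (EL.cons 13 (TM.mk (P.cons (P.cons (P.lf 0 2598812085 0) (P.cons (P.lf 326889588 0 0) (P.cons (P.lf 140958476 0 0) (P.lf 0 15662052 0)))) (P.cons (P.cons (P.lf 0 200750850 0) (P.cons (P.lf 47253692 0 0) (P.cons (P.lf 20376324 0 0) (P.lf 0 2264032 0)))) (P.cons (P.cons (P.lf 109398411 0 0) (P.cons (P.lf 0 4501312 0) (P.cons (P.lf 0 1941016 0) (P.lf 215664 0 0)))) (P.cons (P.cons (P.lf 2533812 0 0) (P.cons (P.lf 0 956952 0) (P.cons (P.lf 0 412648 0) P.nil))) (P.cons (P.cons (P.lf 0 1408231 0) (P.cons (P.lf 16648 0 0) P.nil)) (P.cons (P.cons (P.lf 0 60781 0) P.nil) P.nil)))))) 119501)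
 EL.nil)
noncomputable def S198_227_216_364_29 : EL := (EL.cons 13 (TM.mk (P.cons (P.cons (P.lf 0 1572497247 0) (P.cons (P.lf 395590724 0 0) (P.cons (P.lf 145703642 0 0) (P.cons (P.lf 0 40410360 0) (P.cons (P.lf 0 2242105 0) (P.cons (P.lf 1028039 0 0) P.nil)))))) (P.cons (P.cons (P.lf 0 242941889 0) (P.cons (P.lf 87743079 0 0) (P.cons (P.lf 30642855 0 0) (P.cons (P.lf 0 10407334 0) (P.cons (P.lf 0 648217 0) P.nil))))) (P.cons (P.cons (P.lf 123006971 0 0) (P.cons (P.lf 0 17682577 0) (P.cons (P.lf 0 7459627 0) (P.cons (P.lf 989766 0 0) P.nil)))) (P.cons (P.cons (P.lf 13293104 0 0) (P.cons (P.lf 0 4371784 0) (P.cons (P.lf 0 1640447 0) P.nil))) (P.cons (P.cons (P.lf 0 4253847 0) (P.cons (P.lf 318603 0 0) P.nil)) (P.cons (P.cons (P.lf 0 334278 0) P.nil) P.nil)))))) 1965355)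
 EL.nil)
noncomputable def S198_227_216_364_30 : EL := (EL.cons 13 (TM.mk (P.cons (P.lf 1408772644 0 0) (P.cons (P.lf 0 436874896 0) (P.cons (P.lf 0 15598228 0) (P.cons (P.lf 1328688 0 0) (P.cons (P.lf 91228 0 0) (P.cons (P.lf 0 3020 0) P.nil)))))) 560)
 EL.nil)
noncomputable def S198_227_216_364_31 : EL := (EL.cons 13 (TM.mk (P.cons (P.cons (P.lf 852424505 0 0) (P.cons (P.lf 0 107221563 0) (P.cons (P.lf 0 46235147 0) (P.lf 5137238 0 0)))) (P.cons (P.cons (P.lf 0 198498241 0) (P.cons (P.lf 17751042 0 0) (P.cons (P.lf 7654449 0 0) (P.lf 0 850495 0)))) (P.cons (P.cons (P.lf 0 65741445 0) (P.cons (P.lf 7470179 0 0) (P.cons (P.lf 3221225 0 0) (P.lf 0 357912 0)))) (P.cons (P.cons (P.lf 10371559 0 0) (P.cons (P.lf 0 73491 0) (P.cons (P.lf 0 31690 0) P.nil))) (P.cons (P.cons (P.lf 1234253 0 0) (P.cons (P.lf 0 140709 0) P.nil)) (P.cons (P.cons (P.lf 0 145510 0) P.nil) P.nil))))))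 174091)
 EL.nil)
noncomputable def S198_227_216_364_32 : EL := (EL.cons 13 (TM.mk (P.cons (P.cons (P.lf 515787653 0 0) (P.cons (P.lf 0 129755910 0) (P.cons (P.lf 0 47791587 0) (P.cons (P.lf 13254817 0 0) (P.cons (P.lf 735422 0 0) (P.cons (P.lf 0 337202 0) P.nil)))))) (P.cons (P.cons (P.lf 0 80264798 0) (P.cons (P.lf 11458435 0 0) (P.cons (P.lf 4769639 0 0) (P.cons (P.lf 0 696793 0) (P.cons (P.lf 0 15443 0) P.nil))))) (P.cons (P.cons (P.lf 0 70769395 0) (P.cons (P.lf 16161704 0 0) (P.cons (P.lf 6092882 0 0) (P.cons (P.lf 0 1530020 0) P.nil)))) (P.cons (P.cons (P.lf 7755959 0 0) (P.cons (P.lf 0 168384 0) (P.cons (P.lf 0 154489 0) P.nil))) (P.cons (P.cons (P.lf 3302718 0 0) (P.cons (P.lf 0 648957 0) P.nil)) (P.cons (P.cons (P.lf 0 308768 0) P.nil) P.nil)))))) 1532781)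
 EL.nil)
noncomputable def S198_227_216_364_33 : EL := (EL.cons 14 (TM.mk (P.lf 8589934592 0 0) 0)
 EL.nil)
noncomputable def S198_227_216_364_34 : EL := (EL.cons 14 (TM.mk (P.cons (P.cons (P.lf 5197624170 0 0) (P.cons (P.lf 0 653779176 0) (P.cons (P.lf 0 281916952 0) (P.lf 31324104 0 0)))) (P.cons (P.cons (P.lf 401501700 0 0) (P.cons (P.lf 0 94507384 0) (P.cons (P.lf 0 40752648 0) (P.lf 4528064 0 0)))) (P.cons (P.cons (P.lf 0 218796822 0) (P.cons (P.lf 9002624 0 0) (P.cons (P.lf 3882032 0 0) (P.lf 0 431328 0)))) (P.cons (P.cons (P.lf 0 5067624 0) (P.cons (P.lf 1913904 0 0) (P.cons (P.lf 825296 0 0) P.nil))) (P.cons (P.cons (P.lf 2816462 0 0) (P.cons (P.lf 0 33296 0) P.nil)) (P.cons (P.cons (P.lf 121562 0 0) P.nil) P.nil)))))) 239002)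
 EL.nil)
noncomputable def S198_227_216_364_35 : EL := (EL.cons 14 (TM.mk (P.cons (P.cons (P.lf 3144994494 0 0) (P.cons (P.lf 0 791181448 0) (P.cons (P.lf 0 291407284 0) (P.cons (P.lf 80820720 0 0) (P.cons (P.lf 4484210 0 0) (P.cons (P.lf 0 2056078 0) P.nil)))))) (P.cons (P.cons (P.lf 485883778 0 0) (P.cons (P.lf 0 175486158 0) (P.cons (P.lf 0 61285710 0) (P.cons (P.lf 20814668 0 0) (P.cons (P.lf 1296434 0 0) P.nil))))) (P.cons (P.cons (P.lf 0 246013942 0) (P.cons (P.lf 35365154 0 0) (P.cons (P.lf 14919254 0 0) (P.cons (P.lf 0 1979532 0) P.nil)))) (P.cons (P.cons (P.lf 0 26586208 0) (P.cons (P.lf 8743568 0 0) (P.cons (P.lf 3280894 0 0) P.nil))) (P.cons (P.cons (P.lf 8507694 0 0) (P.cons (P.lf 0 637206 0) P.nil)) (P.cons (P.cons (P.lf 668556 0 0) P.nil) P.nil)))))) 3930710)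
 EL.nil)
noncomputable def S198_227_216_364_36 : EL := (EL.cons 14 (TM.mk (P.cons (P.lf 0 2817545288 0) (P.cons (P.lf 873749792 0 0) (P.cons (P.lf 31196456 0 0) (P.cons (P.lf 0 2657376 0) (P.cons (P.lf 0 182456 0) (P.cons (P.lf 6040 0 0) P.nil)))))) 1120)
 EL.nil)
noncomputable def S198_227_216_364_37 : EL := (EL.cons 14 (TM.mk (P.cons (P.cons (P.lf 0 1704849010 0) (P.cons (P.lf 214443126 0 0) (P.cons (P.lf 92470294 0 0) (P.lf 0 10274476 0)))) (P.cons (P.cons (P.lf 396996482 0 0) (P.cons (P.lf 0 35502084 0) (P.cons (P.lf 0 15308898 0) (P.lf 1700990 0 0)))) (P.cons (P.cons (P.lf 131482890 0 0) (P.cons (P.lf 0 14940358 0) (P.cons (P.lf 0 6442450 0) (P.lf 715824 0 0)))) (P.cons (P.cons (P.lf 0 20743118 0) (P.cons (P.lf 146982 0 0) (P.cons (P.lf 63380 0 0) P.nil))) (P.cons (P.cons (P.lf 0 2468506 0) (P.cons (P.lf 281418 0 0) P.nil)) (P.cons (P.cons (P.lf 291020 0 0) P.nil)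 P.nil)))))) 348182)
 EL.nil)
noncomputable def S198_227_216_364_38 : EL := (EL.cons 14 (TM.mk (P.cons (P.cons (P.lf 0 1031575306 0) (P.cons (P.lf 259511820 0 0) (P.cons (P.lf 95583174 0 0) (P.cons (P.lf 0 26509634 0) (P.cons (P.lf 0 1470844 0) (P.cons (P.lf 674404 0 0) P.nil)))))) (P.cons (P.cons (P.lf 160529596 0 0) (P.cons (P.lf 0 22916870 0) (P.cons (P.lf 0 9539278 0) (P.cons (P.lf 1393586 0 0) (P.cons (P.lf 30886 0 0) P.nil))))) (P.cons (P.cons (P.lf 141538790 0 0) (P.cons (P.lf 0 32323408 0) (P.cons (P.lf 0 12185764 0) (P.cons (P.lf 3060040 0 0) P.nil)))) (P.cons (P.cons (P.lf 0 15511918 0) (P.cons (P.lf 336768 0 0) (P.cons (P.lf 308978 0 0) P.nil))) (P.cons (P.cons (P.lf 0 6605436 0) (P.cons (P.lf 1297914 0 0) P.nil)) (P.cons (P.cons (P.lf 617536 0 0) P.nil) P.nil)))))) 3065562)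
 EL.nil)
noncomputable def S198_227_216_364_39 : EL := (EL.cons 14 (TM.mk (P.cons (P.lf 924170186 0 0) (P.cons (P.lf 0 573189372 0) (P.cons (P.lf 68410746 0 0) (P.cons (P.lf 8089740 0 0) (P.cons (P.lf 0 307614 0) (P.cons (P.lf 0 60382 0) P.nil)))))) 4526)
 EL.nil)
noncomputable def S198_227_216_364_40 : EL := (EL.cons 14 (TM.mk (P.cons (P.cons (P.lf 559199752 0 0) (P.cons (P.lf 0 70338512 0) (P.cons (P.lf 0 30330758 0) (P.lf 3370084 0 0)))) (P.cons (P.cons (P.lf 0 303630604 0) (P.cons (P.lf 33457572 0 0) (P.cons (P.lf 14427282 0 0) (P.lf 0 1603032 0)))) (P.cons (P.cons (P.lf 0 8937048 0) (P.cons (P.lf 2068124 0 0) (P.cons (P.lf 891798 0 0) (P.lf 0 99086 0)))) (P.cons (P.cons (P.lf 22147214 0 0) (P.cons (P.lf 0 1763186 0) (P.cons (P.lf 0 760306 0) P.nil))) (P.cons (P.cons (P.lf 0 909350 0) (P.cons (P.lf 0 125186 0) P.nil)) (P.cons (P.cons (P.lf 0 472186 0) P.nil) P.nil))))))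 389644)
 EL.nil)
noncomputable def S198_227_216_364_41 : EL := (EL.cons 14 (TM.mk (P.cons (P.cons (P.lf 338362314 0 0) (P.cons (P.lf 0 85121288 0) (P.cons (P.lf 0 31351800 0) (P.cons (P.lf 8695304 0 0) (P.cons (P.lf 482444 0 0) (P.cons (P.lf 0 221208 0) P.nil)))))) (P.cons (P.cons (P.lf 0 157584216 0) (P.cons (P.lf 33913846 0 0) (P.cons (P.lf 12851452 0 0) (P.cons (P.lf 0 3153606 0) (P.cons (P.lf 0 159742 0) P.nil))))) (P.cons (P.cons (P.lf 0 33843184 0) (P.cons (P.lf 9213680 0 0) (P.cons (P.lf 3373814 0 0) (P.cons (P.lf 0 958232 0) P.nil)))) (P.cons (P.cons (P.lf 20387146 0 0) (P.cons (P.lf 0 3561840 0) (P.cons (P.lf 0 1405070 0) P.nil))) (P.cons (P.cons (P.lf 1075062 0 0) (P.cons (P.lf 0 507280 0) P.nil)) (P.cons (P.cons (P.lf 0 978702 0) P.nil) P.nil)))))) 2228576)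
 EL.nil)
noncomputable def S198_227_216_364_42 : EL := (EL.cons 14 (TM.mk (P.cons (P.lf 0 303132848 0) (P.cons (P.lf 282013848 0 0) (P.cons (P.lf 0 77386344 0) (P.cons (P.lf 1937536 0 0) (P.cons (P.lf 1329912 0 0) (P.cons (P.lf 9556 0 0) P.nil)))))) 14366)
 EL.nil)
noncomputable def S198_227_216_364_43 : EL := (EL.cons 14 (TM.mk (P.cons (P.cons (P.lf 0 183420560 0) (P.cons (P.lf 23071414 0 0) (P.cons (P.lf 9948654 0 0) (P.lf 0 1105404 0)))) (P.cons (P.cons (P.lf 156473092 0 0) (P.cons (P.lf 0 18128948 0) (P.cons (P.lf 0 7817406 0) (P.lf 868600 0 0)))) (P.cons (P.cons (P.lf 0 25922384 0) (P.cons (P.lf 2469424 0 0) (P.cons (P.lf 1064842 0 0) (P.lf 0 118316 0)))) (P.cons (P.cons (P.lf 0 9449168 0) (P.cons (P.lf 931968 0 0) (P.cons (P.lf 401874 0 0) P.nil))) (P.cons (P.cons (P.lf 2600634 0 0) (P.cons (P.lf 0 139630 0) P.nil)) (P.cons (P.cons (P.lf 152422 0 0) P.nil) P.nil))))))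 340028)
 EL.nil)
noncomputable def S198_227_216_364_44 : EL := (EL.cons 14 (TM.mk (P.cons (P.cons (P.lf 0 110984678 0) (P.cons (P.lf 27920244 0 0) (P.cons (P.lf 10283560 0 0) (P.cons (P.lf 0 2852106 0) (P.cons (P.lf 0 158244 0) (P.cons (P.lf 72556 0 0) P.nil)))))) (P.cons (P.cons (P.lf 86105970 0 0) (P.cons (P.lf 0 19782280 0) (P.cons (P.lf 0 7404384 0) (P.cons (P.lf 1918868 0 0) (P.cons (P.lf 101468 0 0) P.nil))))) (P.cons (P.cons (P.lf 0 3699534 0) (P.cons (P.lf 118366 0 0) (P.cons (P.lf 86730 0 0) (P.cons (P.lf 25106 0 0) P.nil)))) (P.cons (P.cons (P.lf 0 10806532 0) (P.cons (P.lf 2254998 0 0) (P.cons (P.lf 860420 0 0) P.nil))) (P.cons (P.cons (P.lf 1639762 0 0) (P.cons (P.lf 0 171132 0) P.nil)) (P.cons (P.cons (P.lf 518468 0 0) P.nil) P.nil)))))) 1462640)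
 EL.nil)
noncomputable def S198_227_216_364_45 : EL := (EL.cons 14 (TM.mk (P.cons (P.cons (P.lf 1902982986 0 0) (P.cons (P.lf 0 718095772 0) (P.cons (P.lf 0 219325866 0) (P.cons (P.lf 108516930 0 0) (P.cons (P.lf 3240762 0 0) (P.cons (P.lf 0 5300530 0) P.nil)))))) (P.cons (P.cons (P.lf 441000086 0 0) (P.cons (P.lf 0 214746418 0) (P.cons (P.lf 0 59509724 0) (P.cons (P.lf 37185360 0 0) (P.cons (P.lf 857524 0 0) P.nil))))) (P.cons (P.cons (P.lf 0 206255312 0) (P.cons (P.lf 50023332 0 0) (P.cons (P.lf 19185452 0 0) (P.cons (P.lf 0 4534714 0) P.nil)))) (P.cons (P.cons (P.lf 0 41817268 0) (P.cons (P.lf 17820306 0 0) (P.cons (P.lf 5562172 0 0) P.nil))) (P.cons (P.cons (P.lf 10916024 0 0) (P.cons (P.lf 0 1550340 0) P.nil)) (P.cons (P.cons (P.lf 1828328 0 0) P.nil) P.nil)))))) 13818052)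
 EL.nil)
noncomputable def S198_227_216_364_46 : EL := (EL.cons 15 (TM.mk (P.lf 4294967296 0 0) 0)
 EL.nil)
noncomputable def S198_227_216_364_47 : EL := (EL.cons 15 (TM.mk (P.cons (P.cons (P.lf 2598812085 0 0) (P.cons (P.lf 0 326889588 0) (P.cons (P.lf 0 140958476 0) (P.lf 15662052 0 0)))) (P.cons (P.cons (P.lf 200750850 0 0) (P.cons (P.lf 0 47253692 0) (P.cons (P.lf 0 20376324 0) (P.lf 2264032 0 0)))) (P.cons (P.cons (P.lf 0 109398411 0) (P.cons (P.lf 4501312 0 0) (P.cons (P.lf 1941016 0 0) (P.lf 0 215664 0)))) (P.cons (P.cons (P.lf 0 2533812 0) (P.cons (P.lf 956952 0 0) (P.cons (P.lf 412648 0 0) P.nil))) (P.cons (P.cons (P.lf 1408231 0 0) (P.cons (P.lf 0 16648 0) P.nil)) (P.cons (P.cons (P.lf 60781 0 0) P.nil) P.nil)))))) 119501)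
 EL.nil)
noncomputable def S198_227_216_364_48 : EL := (EL.cons 15 (TM.mk (P.cons (P.cons (P.lf 1572497247 0 0) (P.cons (P.lf 0 395590724 0) (P.cons (P.lf 0 145703642 0) (P.cons (P.lf 40410360 0 0) (P.cons (P.lf 2242105 0 0) (P.cons (P.lf 0 1028039 0) P.nil)))))) (P.cons (P.cons (P.lf 242941889 0 0) (P.cons (P.lf 0 87743079 0) (P.cons (P.lf 0 30642855 0) (P.cons (P.lf 10407334 0 0) (P.cons (P.lf 648217 0 0) P.nil))))) (P.cons (P.cons (P.lf 0 123006971 0) (P.cons (P.lf 17682577 0 0) (P.cons (P.lf 7459627 0 0) (P.cons (P.lf 0 989766 0) P.nil)))) (P.cons (P.cons (P.lf 0 13293104 0) (P.cons (P.lf 4371784 0 0) (P.cons (P.lf 1640447 0 0) P.nil))) (P.cons (P.cons (P.lf 4253847 0 0) (P.cons (P.lf 0 318603 0) P.nil)) (P.cons (P.cons (P.lf 334278 0 0) P.nil) P.nil)))))) 1965355)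
 EL.nil)
noncomputable def S198_227_216_364 : SL := (SL.cons S198_227_216_364_0 (SL.cons S198_227_216_364_1 (SL.cons S198_227_216_364_2 (SL.cons S198_227_216_364_3 (SL.cons S198_227_216_364_4 (SL.cons S198_227_216_364_5 (SL.cons S198_227_216_364_6 (SL.cons S198_227_216_364_7 (SL.cons S198_227_216_364_8 (SL.cons S198_227_216_364_9 (SL.cons S198_227_216_364_10 (SL.cons S198_227_216_364_11 (SL.cons S198_227_216_364_12 (SL.cons S198_227_216_364_13 (SL.cons S198_227_216_364_14 (SL.cons S198_227_216_364_15 (SL.cons S198_227_216_364_16 (SL.cons S198_227_216_364_17 (SL.cons S198_227_216_364_18 (SL.cons S198_227_216_364_19 (SL.cons S198_227_216_364_20 (SL.cons S198_227_216_364_21 (SL.cons S198_227_216_364_22 (SL.cons S198_227_216_364_23 (SL.cons S198_227_216_364_24 (SL.cons S198_227_216_364_25 (SL.cons S198_227_216_364_26 (SL.cons S198_227_216_364_27 (SL.cons S198_227_216_364_28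 (SL.cons S198_227_216_364_29 (SL.cons S198_227_216_364_30 (SL.cons S198_227_216_364_31 (SL.cons S198_227_216_364_32 (SL.cons S198_227_216_364_33 (SL.cons S198_227_216_364_34 (SL.cons S198_227_216_364_35 (SL.cons S198_227_216_364_36 (SL.cons S198_227_216_364_37 (SL.cons S198_227_216_364_38 (SL.cons S198_227_216_364_39 (SL.cons S198_227_216_364_40 (SL.cons S198_227_216_364_41 (SL.cons S198_227_216_364_42 (SL.cons S198_227_216_364_43 (SL.cons S198_227_216_364_44 (SL.cons S198_227_216_364_45 (SL.cons S198_227_216_364_46 (SL.cons S198_227_216_364_47 (SL.cons S198_227_216_364_48 SL.nil)))))))))))))))))))))))))))))))))))))))))))))))))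
noncomputable def S198_227_290_364_0 : EL := (EL.cons 0 (TM.mk (P.cons (P.lf 7643457911 0 0) (P.cons (P.lf 503779721 0 0) (P.cons (P.lf 0 60126632 0) (P.cons (P.lf 0 7110123 0) (P.cons (P.lf 270363 0 0) (P.cons (P.lf 53070 0 0) P.nil)))))) 3984)
 (EL.cons 1 (TM.mk (P.cons (P.lf 0 1228710643 0) (P.cons (P.lf 321830180 0 0) (P.cons (P.lf 40457490 0 0) (P.cons (P.lf 0 2710608 0) (P.cons (P.lf 0 384633 0) (P.cons (P.lf 7027 0 0) P.nil)))))) 2881)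
 (EL.cons 5 (TM.mk (P.cons (P.lf 4583770480 0 0) (P.cons (P.lf 0 179121676 0) (P.cons (P.lf 21378358 0 0) (P.cons (P.lf 2528040 0 0) (P.cons (P.lf 0 96128 0) (P.cons (P.lf 0 18870 0) P.nil)))))) 1697)
 (EL.cons 9 (TM.mk (P.lf 6442450944 0 0) 2)
 EL.nil))))
noncomputable def S198_227_290_364_1 : EL := (EL.cons 0 (TM.mk (P.cons (P.cons (P.lf 3598526708 0 0) (P.cons (P.lf 0 276460225 0) (P.cons (P.lf 0 35600093 0) (P.lf 2373343 0 0)))) (P.cons (P.cons (P.lf 1618729207 0 0) (P.cons (P.lf 0 146961022 0) (P.cons (P.lf 0 18924325 0) (P.lf 1261616 0 0)))) (P.cons (P.cons (P.lf 0 403498477 0) (P.cons (P.lf 1110088 0 0) (P.cons (P.lf 142947 0 0) (P.lf 0 9532 0)))) (P.cons (P.cons (P.lf 0 71475362 0) (P.cons (P.lf 5638793 0 0) (P.cons (P.lf 726101 0 0) P.nil))) (P.cons (P.cons (P.lf 9817349 0 0) (P.cons (P.lf 284167 0 0) P.nil)) (P.cons (P.cons (P.lf 1722875 0 0) P.nil) P.nil))))))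 599434)
 (EL.cons 1 (TM.mk (P.cons (P.cons (P.lf 0 1119233383 0) (P.cons (P.lf 147896933 0 0) (P.cons (P.lf 19044844 0 0) (P.lf 0 1269653 0)))) (P.cons (P.cons (P.lf 577145806 0 0) (P.cons (P.lf 0 6462254 0) (P.cons (P.lf 0 832153 0) (P.lf 55474 0 0)))) (P.cons (P.cons (P.lf 202835226 0 0) (P.cons (P.lf 0 16135580 0) (P.cons (P.lf 0 2077790 0) (P.lf 138513 0 0)))) (P.cons (P.cons (P.lf 0 32930646 0) (P.cons (P.lf 0 724644 0) (P.cons (P.lf 0 93309 0) P.nil))) (P.cons (P.cons (P.lf 0 6812927 0) (P.cons (P.lf 411081 0 0) P.nil)) (P.cons (P.cons (P.lf 563316 0 0) P.nil) P.nil)))))) 334022)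
 (EL.cons 5 (TM.mk (P.cons (P.cons (P.lf 2804069069 0 0) (P.cons (P.lf 0 289389334 0) (P.cons (P.lf 0 37264982 0) (P.lf 2484334 0 0)))) (P.cons (P.cons (P.lf 0 282616181 0) (P.cons (P.lf 0 3789384 0) (P.cons (P.lf 0 487968 0) (P.lf 32540 0 0)))) (P.cons (P.cons (P.lf 0 37905958 0) (P.cons (P.lf 4943794 0 0) (P.cons (P.lf 636618 0 0) (P.lf 0 42438 0)))) (P.cons (P.cons (P.lf 22085020 0 0) (P.cons (P.lf 0 869966 0) (P.cons (P.lf 0 112022 0) P.nil))) (P.cons (P.cons (P.lf 0 1113645 0) (P.cons (P.lf 0 120780 0) P.nil)) (P.cons (P.cons (P.lf 0 519146 0) P.nil) P.nil)))))) 305778)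
 (EL.cons 9 (TM.mk (P.cons (P.cons (P.lf 3603128137 0 0) (P.cons (P.lf 0 342076146 0) (P.cons (P.lf 0 44049522 0) (P.lf 2936634 0 0)))) (P.cons (P.cons (P.lf 258469389 0 0) (P.cons (P.lf 0 49448988 0) (P.cons (P.lf 0 6367596 0) (P.lf 424506 0 0)))) (P.cons (P.cons (P.lf 0 160034182 0) (P.cons (P.lf 4710432 0 0) (P.cons (P.lf 606564 0 0) (P.lf 0 40434 0)))) (P.cons (P.cons (P.lf 0 2936856 0) (P.cons (P.lf 1001406 0 0) (P.cons (P.lf 128946 0 0) P.nil))) (P.cons (P.cons (P.lf 2097316 0 0) (P.cons (P.lf 0 17418 0) P.nil)) (P.cons (P.cons (P.lf 82435 0 0) P.nil) P.nil)))))) 60476)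
 (EL.cons 2 (TM.mk (P.cons (P.cons (P.lf 487491066 0 0) (P.cons (P.lf 139167683 0 0) (P.cons (P.lf 0 10409518 0) (P.cons (P.lf 0 701448 0) (P.lf 35071 0 0))))) (P.cons (P.cons (P.lf 0 104196315 0) (P.cons (P.lf 0 29745691 0) (P.cons (P.lf 2224929 0 0) (P.cons (P.lf 149925 0 0) (P.lf 0 7495 0))))) (P.cons (P.cons (P.lf 0 25573559 0) (P.cons (P.lf 0 7300670 0) (P.cons (P.lf 546075 0 0) (P.cons (P.lf 36795 0 0) P.nil)))) (P.cons (P.cons (P.lf 1015371 0 0) (P.cons (P.lf 289864 0 0) (P.cons (P.lf 0 21681 0) P.nil))) (P.cons (P.cons (P.lf 368789 0 0) (P.cons (P.lf 105280 0 0) P.nil)) (P.cons (P.cons (P.lf 1178 0 0) P.nil) P.nil)))))) 29625)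
 (EL.cons 6 (TM.mk (P.cons (P.cons (P.lf 737431656 0 0) (P.cons (P.lf 210520071 0 0) (P.cons (P.lf 0 15746562 0) (P.cons (P.lf 0 1061085 0) (P.lf 53052 0 0))))) (P.cons (P.cons (P.lf 106599813 0 0) (P.cons (P.lf 30431835 0 0) (P.cons (P.lf 0 2276250 0) (P.cons (P.lf 0 153384 0) (P.lf 7668 0 0))))) (P.cons (P.cons (P.lf 0 10154532 0) (P.cons (P.lf 0 2898888 0) (P.cons (P.lf 216831 0 0) (P.cons (P.lf 14610 0 0) P.nil)))) (P.cons (P.cons (P.lf 0 2158800 0) (P.cons (P.lf 0 616287 0) (P.cons (P.lf 46095 0 0) P.nil))) (P.cons (P.cons (P.lf 37557 0 0) (P.cons (P.lf 10722 0 0) P.nil)) (P.cons (P.cons (P.lf 21837 0 0) P.nil) P.nil)))))) 18396)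
 EL.nil))))))
noncomputable def S198_227_290_364_2 : EL := (EL.cons 0 (TM.mk (P.cons (P.cons (P.lf 1634340573 0 0) (P.cons (P.lf 0 237417619 0) (P.cons (P.lf 0 22763309 0) (P.cons (P.lf 4049379 0 0) (P.cons (P.lf 0 4592 0) (P.cons (P.lf 0 17267 0) P.nil)))))) (P.cons (P.cons (P.lf 1598798085 0 0) (P.cons (P.lf 0 285600068 0) (P.cons (P.lf 0 24577097 0) (P.cons (P.lf 5593789 0 0) (P.cons (P.lf 0 7158 0) P.nil))))) (P.cons (P.cons (P.lf 0 303954631 0) (P.cons (P.lf 7640727 0 0) (P.cons (P.lf 2619801 0 0) (P.cons (P.lf 355712 0 0) P.nil)))) (P.cons (P.cons (P.lf 0 158785469 0) (P.cons (P.lf 23532402 0 0) (P.cons (P.lf 2404031 0 0) P.nil))) (P.cons (P.cons (P.lf 18861035 0 0) (P.cons (P.lf 795565 0 0) P.nil)) (P.cons (P.cons (P.lf 6456364 0 0) P.nil) P.nil)))))) 4002827)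
 (EL.cons 1 (TM.mk (P.cons (P.cons (P.lf 0 867595446 0) (P.cons (P.lf 211311688 0 0) (P.cons (P.lf 14969123 0 0) (P.cons (P.lf 0 4966807 0) (P.cons (P.lf 7191 0 0) (P.cons (P.lf 27065 0 0) P.nil)))))) (P.cons (P.cons (P.lf 510238151 0 0) (P.cons (P.lf 0 36139306 0) (P.cons (P.lf 0 6143636 0) (P.cons (P.lf 0 73480 0) (P.cons (P.lf 874 0 0) P.nil))))) (P.cons (P.cons (P.lf 269537537 0 0) (P.cons (P.lf 0 47924702 0) (P.cons (P.lf 0 4541719 0) (P.cons (P.lf 831092 0 0) P.nil)))) (P.cons (P.cons (P.lf 0 43831361 0) (P.cons (P.lf 0 781209 0) (P.cons (P.lf 207203 0 0) P.nil))) (P.cons (P.cons (P.lf 0 18327788 0) (P.cons (P.lf 2563983 0 0) P.nil)) (P.cons (P.cons (P.lf 1700551 0 0) P.nil) P.nil)))))) 2160980)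
 (EL.cons 5 (TM.mk (P.cons (P.cons (P.lf 1702742606 0 0) (P.cons (P.lf 0 349234529 0) (P.cons (P.lf 0 27162867 0) (P.cons (P.lf 7584505 0 0) (P.cons (P.lf 0 10461 0) (P.cons (P.lf 0 39372 0) P.nil)))))) (P.cons (P.cons (P.lf 0 240800067 0) (P.cons (P.lf 7752493 0 0) (P.cons (P.lf 2611905 0 0) (P.cons (P.lf 349039 0 0) (P.cons (P.lf 0 964 0) P.nil))))) (P.cons (P.cons (P.lf 0 83050124 0) (P.cons (P.lf 18018611 0 0) (P.cons (P.lf 1601858 0 0) (P.cons (P.lf 0 339705 0) P.nil)))) (P.cons (P.cons (P.lf 38180804 0 0) (P.cons (P.lf 0 3531527 0) (P.cons (P.lf 0 434558 0) P.nil))) (P.cons (P.cons (P.lf 190951 0 0) (P.cons (P.lf 0 680432 0) P.nil)) (P.cons (P.cons (P.lf 0 1834993 0) P.nil) P.nil)))))) 2006452)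
 (EL.cons 9 (TM.mk (P.cons (P.cons (P.lf 2015154246 0 0) (P.cons (P.lf 0 382632075 0) (P.cons (P.lf 0 31108665 0) (P.cons (P.lf 7962609 0 0) (P.cons (P.lf 0 10669 0) (P.cons (P.lf 0 40156 0) P.nil)))))) (P.cons (P.cons (P.lf 289113051 0 0) (P.cons (P.lf 0 82759575 0) (P.cons (P.lf 0 5405829 0) (P.cons (P.lf 2062875 0 0) (P.cons (P.lf 0 3084 0) P.nil))))) (P.cons (P.cons (P.lf 0 168637822 0) (P.cons (P.lf 18295867 0 0) (P.cons (P.lf 2235298 0 0) (P.cons (P.lf 0 188139 0) P.nil)))) (P.cons (P.cons (P.lf 0 16126099 0) (P.cons (P.lf 4266652 0 0) (P.cons (P.lf 370759 0 0) P.nil))) (P.cons (P.cons (P.lf 6085659 0 0) (P.cons (P.lf 0 350790 0) P.nil)) (P.cons (P.cons (P.lf 406402 0 0) P.nil) P.nil)))))) 551294)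
 (EL.cons 2 (TM.mk (P.cons (P.cons (P.lf 545287123 0 0) (P.cons (P.lf 103898323 0 0) (P.cons (P.lf 0 33088809 0) (P.cons (P.lf 0 1137841 0) (P.cons (P.lf 382938 0 0) (P.cons (P.lf 0 3616 0) P.nil)))))) (P.cons (P.cons (P.lf 0 77433620 0) (P.cons (P.lf 0 18523951 0) (P.cons (P.lf 3137130 0 0) (P.cons (P.lf 135855 0 0) (P.cons (P.lf 0 29345 0) P.nil))))) (P.cons (P.cons (P.lf 0 61185285 0) (P.cons (P.lf 0 12438866 0) (P.cons (P.lf 3389405 0 0) (P.cons (P.lf 122343 0 0) P.nil)))) (P.cons (P.cons (P.lf 3815876 0 0) (P.cons (P.lf 1373281 0 0) (P.cons (P.lf 36135 0 0) P.nil))) (P.cons (P.cons (P.lf 2176908 0 0) (P.cons (P.lf 494280 0 0) P.nil)) (P.cons (P.cons (P.lf 0 51581 0) P.nil) P.nil)))))) 433034)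
 (EL.cons 6 (TM.mk (P.cons (P.cons (P.lf 824860212 0 0) (P.cons (P.lf 157167828 0 0) (P.cons (P.lf 0 50053704 0) (P.cons (P.lf 0 1721220 0) (P.cons (P.lf 579276 0 0) (P.cons (P.lf 0 5478 0) P.nil)))))) (P.cons (P.cons (P.lf 178409208 0 0) (P.cons (P.lf 28291188 0 0) (P.cons (P.lf 0 13188444 0) (P.cons (P.lf 0 411186 0) (P.cons (P.lf 163146 0 0) P.nil))))) (P.cons (P.cons (P.lf 0 39441372 0) (P.cons (P.lf 0 10739322 0) (P.cons (P.lf 1057728 0 0) (P.cons (P.lf 60300 0 0) P.nil)))) (P.cons (P.cons (P.lf 0 9197868 0) (P.cons (P.lf 0 1855512 0) (P.cons (P.lf 515478 0 0) P.nil))) (P.cons (P.cons (P.lf 756222 0 0) (P.cons (P.lf 259332 0 0) P.nil)) (P.cons (P.cons (P.lf 232224 0 0) P.nil) P.nil)))))) 333474)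
 EL.nil))))))
noncomputable def S198_227_290_364_3 : EL := (EL.cons 0 (TM.mk (P.cons (P.lf 812258952 0 0) (P.cons (P.lf 0 503779721 0) (P.cons (P.lf 60126632 0 0) (P.cons (P.lf 7110123 0 0) (P.cons (P.lf 0 270363 0) (P.cons (P.lf 0 53070 0) P.nil)))))) 3984)
 (EL.cons 1 (TM.mk (P.cons (P.lf 1228710643 0 0) (P.cons (P.lf 0 321830180 0) (P.cons (P.lf 0 40457490 0) (P.cons (P.lf 2710608 0 0) (P.cons (P.lf 384633 0 0) (P.cons (P.lf 0 7027 0) P.nil)))))) 2881)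
 (EL.cons 5 (TM.mk (P.cons (P.lf 1858680464 0 0) (P.cons (P.lf 179121676 0 0) (P.cons (P.lf 0 21378358 0) (P.cons (P.lf 0 2528040 0) (P.cons (P.lf 96128 0 0) (P.cons (P.lf 18870 0 0) P.nil)))))) 1690)
 EL.nil)))
noncomputable def S198_227_290_364_4 : EL := (EL.cons 0 (TM.mk (P.cons (P.cons (P.lf 454279450 0 0) (P.cons (P.lf 0 43128680 0) (P.cons (P.lf 0 5553727 0) (P.lf 370248 0 0)))) (P.cons (P.cons (P.lf 0 249165856 0) (P.cons (P.lf 20514807 0 0) (P.cons (P.lf 2641714 0 0) (P.lf 0 176113 0)))) (P.cons (P.cons (P.lf 0 6760916 0) (P.cons (P.lf 1268087 0 0) (P.cons (P.lf 163291 0 0) (P.lf 0 10884 0)))) (P.cons (P.cons (P.lf 18532708 0 0) (P.cons (P.lf 0 1081112 0) (P.cons (P.lf 0 139215 0) P.nil))) (P.cons (P.cons (P.lf 0 865450 0) (P.cons (P.lf 0 76758 0) P.nil)) (P.cons (P.cons (P.lf 0 398165 0) P.nil) P.nil)))))) 120219)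
 (EL.cons 1 (TM.mk (P.cons (P.cons (P.lf 687192176 0 0) (P.cons (P.lf 0 65241101 0) (P.cons (P.lf 0 8401166 0) (P.lf 560075 0 0)))) (P.cons (P.cons (P.lf 0 130697353 0) (P.cons (P.lf 7657321 0 0) (P.cons (P.lf 986041 0 0) (P.lf 0 65733 0)))) (P.cons (P.cons (P.lf 0 66060645 0) (P.cons (P.lf 5516761 0 0) (P.cons (P.lf 710398 0 0) (P.lf 0 47358 0)))) (P.cons (P.cons (P.lf 7327168 0 0) (P.cons (P.lf 122285 0 0) (P.cons (P.lf 15746 0 0) P.nil))) (P.cons (P.cons (P.lf 1875564 0 0) (P.cons (P.lf 0 124155 0) P.nil)) (P.cons (P.cons (P.lf 0 126436 0) P.nil) P.nil)))))) 85843)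
 (EL.cons 5 (TM.mk (P.cons (P.cons (P.lf 1039521128 0 0) (P.cons (P.lf 0 98690738 0) (P.cons (P.lf 0 12708514 0) (P.lf 847232 0 0)))) (P.cons (P.cons (P.lf 174748766 0 0) (P.cons (P.lf 0 23777148 0) (P.cons (P.lf 0 3061806 0) (P.lf 204118 0 0)))) (P.cons (P.cons (P.lf 0 50940846 0) (P.cons (P.lf 1119266 0 0) (P.cons (P.lf 144126 0 0) (P.lf 0 9606 0)))) (P.cons (P.cons (P.lf 0 7568356 0) (P.cons (P.lf 718196 0 0) (P.cons (P.lf 92480 0 0) P.nil))) (P.cons (P.cons (P.lf 1006820 0 0) (P.cons (P.lf 21486 0 0) P.nil)) (P.cons (P.cons (P.lf 169048 0 0) P.nil) P.nil)))))) 63604)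
 EL.nil)))
noncomputable def S198_227_290_364_5 : EL := (EL.cons 0 (TM.mk (P.cons (P.cons (P.lf 254068999 0 0) (P.cons (P.lf 0 48241938 0) (P.cons (P.lf 0 3922154 0) (P.cons (P.lf 1003918 0 0) (P.cons (P.lf 0 1344 0) (P.cons (P.lf 0 5062 0) P.nil)))))) (P.cons (P.cons (P.lf 0 121127686 0) (P.cons (P.lf 19486383 0 0) (P.cons (P.lf 1751037 0 0) (P.cons (P.lf 0 362564 0) (P.cons (P.lf 444 0 0) P.nil))))) (P.cons (P.cons (P.lf 0 25062268 0) (P.cons (P.lf 5207210 0 0) (P.cons (P.lf 414209 0 0) (P.cons (P.lf 0 110715 0) P.nil)))) (P.cons (P.cons (P.lf 16076044 0 0) (P.cons (P.lf 0 2087414 0) (P.cons (P.lf 0 212832 0) P.nil))) (P.cons (P.cons (P.lf 688916 0 0) (P.cons (P.lf 0 282390 0) P.nil)) (P.cons (P.cons (P.lf 0 789990 0) P.nil) P.nil)))))) 469482)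
 (EL.cons 1 (TM.mk (P.cons (P.cons (P.lf 384332218 0 0) (P.cons (P.lf 0 72975967 0) (P.cons (P.lf 0 5933073 0) (P.cons (P.lf 1518635 0 0) (P.cons (P.lf 0 2034 0) (P.cons (P.lf 0 7657 0) P.nil)))))) (P.cons (P.cons (P.lf 0 45526333 0) (P.cons (P.lf 3330249 0 0) (P.cons (P.lf 523014 0 0) (P.cons (P.lf 0 4335 0) (P.cons (P.lf 0 54 0) P.nil))))) (P.cons (P.cons (P.lf 0 59260128 0) (P.cons (P.lf 10026491 0 0) (P.cons (P.lf 891720 0 0) (P.cons (P.lf 0 188934 0) P.nil)))) (P.cons (P.cons (P.lf 4380930 0 0) (P.cons (P.lf 258504 0 0) (P.cons (P.lf 0 20092 0) P.nil))) (P.cons (P.cons (P.lf 3267204 0 0) (P.cons (P.lf 0 452600 0) P.nil)) (P.cons (P.cons (P.lf 0 181117 0) P.nil) P.nil)))))) 368712)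
 (EL.cons 5 (TM.mk (P.cons (P.cons (P.lf 581382436 0 0) (P.cons (P.lf 0 110391334 0) (P.cons (P.lf 0 8975010 0) (P.cons (P.lf 2297252 0 0) (P.cons (P.lf 0 3076 0) (P.cons (P.lf 0 11584 0) P.nil)))))) (P.cons (P.cons (P.lf 139438638 0 0) (P.cons (P.lf 0 34515016 0) (P.cons (P.lf 0 2424534 0) (P.cons (P.lf 816536 0 0) (P.cons (P.lf 0 1184 0) P.nil))))) (P.cons (P.cons (P.lf 0 47301578 0) (P.cons (P.lf 4247168 0 0) (P.cons (P.lf 597824 0 0) (P.cons (P.lf 0 23346 0) P.nil)))) (P.cons (P.cons (P.lf 0 11091292 0) (P.cons (P.lf 2164408 0 0) (P.cons (P.lf 199258 0 0) P.nil))) (P.cons (P.cons (P.lf 1783604 0 0) (P.cons (P.lf 0 16522 0) P.nil)) (P.cons (P.cons (P.lf 416352 0 0) P.nil) P.nil)))))) 313850)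
 EL.nil)))
noncomputable def S198_227_290_364_6 : EL := (EL.cons 12 (TM.mk (P.lf 8589934592 0 0) 0)
 (EL.cons 3 (TM.mk (P.cons (P.lf 0 1320724353 0) (P.cons (P.lf 409570215 0 0) (P.cons (P.lf 14623338 0 0) (P.cons (P.lf 0 1245645 0) (P.cons (P.lf 0 85526 0) (P.cons (P.lf 2831 0 0) P.nil)))))) 532)
 (EL.cons 7 (TM.mk (P.cons (P.lf 0 1997870342 0) (P.cons (P.lf 0 96267727 0) (P.cons (P.lf 13808992 0 0) (P.cons (P.lf 693290 0 0) (P.cons (P.lf 0 37347 0) (P.cons (P.lf 0 3551 0) P.nil)))))) 296)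
 EL.nil)))
noncomputable def S198_227_290_364_7 : EL := (EL.cons 12 (TM.mk (P.cons (P.cons (P.lf 4804170850 0 0) (P.cons (P.lf 0 456101528 0) (P.cons (P.lf 0 58732696 0) (P.lf 3915512 0 0)))) (P.cons (P.cons (P.lf 344625852 0 0) (P.cons (P.lf 0 65931984 0) (P.cons (P.lf 0 8490128 0) (P.lf 566008 0 0)))) (P.cons (P.cons (P.lf 0 213378910 0) (P.cons (P.lf 6280576 0 0) (P.cons (P.lf 808752 0 0) (P.lf 0 53912 0)))) (P.cons (P.cons (P.lf 0 3915808 0) (P.cons (P.lf 1335208 0 0) (P.cons (P.lf 171928 0 0) P.nil))) (P.cons (P.cons (P.lf 2796422 0 0) (P.cons (P.lf 0 23224 0) P.nil)) (P.cons (P.cons (P.lf 109914 0 0) P.nil) P.nil)))))) 80610)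
 (EL.cons 3 (TM.mk (P.cons (P.cons (P.lf 361002263 0 0) (P.cons (P.lf 0 140253544 0) (P.cons (P.lf 0 18060600 0) (P.lf 1204038 0 0)))) (P.cons (P.cons (P.lf 0 1158201461 0) (P.cons (P.lf 23219644 0 0) (P.cons (P.lf 2990020 0 0) (P.lf 0 199332 0)))) (P.cons (P.cons (P.lf 0 18633239 0) (P.cons (P.lf 9771532 0 0) (P.cons (P.lf 1258288 0 0) (P.lf 0 83882 0)))) (P.cons (P.cons (P.lf 30739937 0 0) (P.cons (P.lf 0 96132 0) (P.cons (P.lf 0 12380 0) P.nil))) (P.cons (P.cons (P.lf 1722867 0 0) (P.cons (P.lf 0 184054 0) P.nil)) (P.cons (P.cons (P.lf 0 362636 0) P.nil) P.nil)))))) 214902)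
 (EL.cons 7 (TM.mk (P.cons (P.cons (P.lf 0 1375836519 0) (P.cons (P.lf 155530330 0 0) (P.cons (P.lf 20027815 0 0) (P.lf 0 1335189 0)))) (P.cons (P.cons (P.lf 272230299 0 0) (P.cons (P.lf 0 5457676 0) (P.cons (P.lf 0 702788 0) (P.lf 46851 0 0)))) (P.cons (P.cons (P.lf 0 44389775 0) (P.cons (P.lf 0 1319026 0) (P.cons (P.lf 0 169855 0) (P.lf 11326 0 0)))) (P.cons (P.cons (P.lf 0 7082317 0) (P.cons (P.lf 547364 0 0) (P.cons (P.lf 70482 0 0) P.nil))) (P.cons (P.cons (P.lf 1441619 0 0) (P.cons (P.lf 24622 0 0) P.nil)) (P.cons (P.cons (P.lf 146754 0 0) P.nil) P.nil)))))) 167718)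
 (EL.cons 10 (TM.mk (P.cons (P.cons (P.lf 0 1585310508 0) (P.cons (P.lf 0 452570325 0) (P.cons (P.lf 33851532 0 0) (P.cons (P.lf 2281098 0 0) (P.lf 0 114054 0))))) (P.cons (P.cons (P.lf 0 152776917 0) (P.cons (P.lf 0 43614357 0) (P.cons (P.lf 3262281 0 0) (P.cons (P.lf 219828 0 0) (P.lf 0 10989 0))))) (P.cons (P.cons (P.lf 18234081 0 0) (P.cons (P.lf 5205417 0 0) (P.cons (P.lf 0 389355 0) (P.cons (P.lf 0 26235 0) P.nil)))) (P.cons (P.cons (P.lf 2156220 0 0) (P.cons (P.lf 615552 0 0) (P.cons (P.lf 0 46041 0) P.nil))) (P.cons (P.cons (P.lf 0 81987 0) (P.cons (P.lf 0 23406 0) P.nil)) (P.cons (P.cons (P.lf 0 16092 0) P.nil) P.nil)))))) 13401)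
 EL.nil))))
noncomputable def S198_227_290_364_8 : EL := (EL.cons 12 (TM.mk (P.cons (P.cons (P.lf 2686872328 0 0) (P.cons (P.lf 0 510176100 0) (P.cons (P.lf 0 41478220 0) (P.cons (P.lf 10616812 0 0) (P.cons (P.lf 0 14226 0) (P.cons (P.lf 0 53542 0) P.nil)))))) (P.cons (P.cons (P.lf 385484068 0 0) (P.cons (P.lf 0 110346100 0) (P.cons (P.lf 0 7207772 0) (P.cons (P.lf 2750500 0 0) (P.cons (P.lf 0 4112 0) P.nil))))) (P.cons (P.cons (P.lf 0 224850430 0) (P.cons (P.lf 24394490 0 0) (P.cons (P.lf 2980398 0 0) (P.cons (P.lf 0 250852 0) P.nil)))) (P.cons (P.cons (P.lf 0 21501466 0) (P.cons (P.lf 5688870 0 0) (P.cons (P.lf 494346 0 0) P.nil))) (P.cons (P.cons (P.lf 8114212 0 0) (P.cons (P.lf 0 467720 0) P.nil)) (P.cons (P.cons (P.lf 541870 0 0) P.nil) P.nil)))))) 735030)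
 (EL.cons 3 (TM.mk (P.cons (P.cons (P.lf 816915507 0 0) (P.cons (P.lf 0 273659044 0) (P.cons (P.lf 0 16621693 0) (P.cons (P.lf 7144121 0 0) (P.cons (P.lf 0 10935 0) (P.cons (P.lf 0 41160 0) P.nil)))))) (P.cons (P.cons (P.lf 0 1335390685 0) (P.cons (P.lf 139530764 0 0) (P.cons (P.lf 17576575 0 0) (P.cons (P.lf 0 1298515 0) (P.cons (P.lf 225 0 0) P.nil))))) (P.cons (P.cons (P.lf 0 189236210 0) (P.cons (P.lf 49927850 0 0) (P.cons (P.lf 4430229 0 0) (P.cons (P.lf 0 943442 0) P.nil)))) (P.cons (P.cons (P.lf 97249337 0 0) (P.cons (P.lf 0 5083550 0) (P.cons (P.lf 0 841417 0) P.nil))) (P.cons (P.cons (P.lf 9348612 0 0) (P.cons (P.lf 0 2261411 0) P.nil)) (P.cons (P.cons (P.lf 0 2819075 0) P.nil) P.nil)))))) 1982632)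
 (EL.cons 7 (TM.mk (P.cons (P.cons (P.lf 0 914033131 0) (P.cons (P.lf 201417728 0 0) (P.cons (P.lf 15052955 0 0) (P.cons (P.lf 0 4532165 0) (P.cons (P.lf 6392 0 0) (P.cons (P.lf 24062 0 0) P.nil)))))) (P.cons (P.cons (P.lf 313877862 0 0) (P.cons (P.lf 0 32796103 0) (P.cons (P.lf 0 4131293 0) (P.cons (P.lf 305207 0 0) (P.cons (P.lf 0 49 0) P.nil))))) (P.cons (P.cons (P.lf 0 11751339 0) (P.cons (P.lf 0 5859973 0) (P.cons (P.lf 0 301198 0) (P.cons (P.lf 167076 0 0) P.nil)))) (P.cons (P.cons (P.lf 0 32111460 0) (P.cons (P.lf 3854750 0 0) (P.cons (P.lf 428450 0 0) P.nil))) (P.cons (P.cons (P.lf 4093884 0 0) (P.cons (P.lf 148458 0 0) P.nil)) (P.cons (P.cons (P.lf 1086655 0 0) P.nil) P.nil)))))) 1181583)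
 (EL.cons 10 (TM.mk (P.cons (P.cons (P.lf 0 1773262050 0) (P.cons (P.lf 0 337875126 0) (P.cons (P.lf 107604102 0 0) (P.cons (P.lf 3700242 0 0) (P.cons (P.lf 0 1245312 0) (P.cons (P.lf 11778 0 0) P.nil)))))) (P.cons (P.cons (P.lf 0 298094328 0) (P.cons (P.lf 0 44539056 0) (P.cons (P.lf 23167248 0 0) (P.cons (P.lf 705672 0 0) (P.cons (P.lf 0 290730 0) P.nil))))) (P.cons (P.cons (P.lf 86897190 0 0) (P.cons (P.lf 22897884 0 0) (P.cons (P.lf 0 2646456 0) (P.cons (P.lf 0 138060 0) P.nil)))) (P.cons (P.cons (P.lf 12910440 0 0) (P.cons (P.lf 2460504 0 0) (P.cons (P.lf 0 783180 0) P.nil))) (P.cons (P.cons (P.lf 0 1717476 0) (P.cons (P.lf 0 526950 0) P.nil)) (P.cons (P.cons (P.lf 0 288366 0) P.nil) P.nil)))))) 483372)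
 EL.nil))))
noncomputable def S198_227_290_364_9 : EL := (EL.cons 3 (TM.mk (P.cons (P.lf 0 1320724353 0) (P.cons (P.lf 409570215 0 0) (P.cons (P.lf 14623338 0 0) (P.cons (P.lf 0 1245645 0) (P.cons (P.lf 0 85526 0) (P.cons (P.lf 2831 0 0) P.nil)))))) 532)
 (EL.cons 7 (TM.mk (P.cons (P.lf 0 1997870342 0) (P.cons (P.lf 0 96267727 0) (P.cons (P.lf 13808992 0 0) (P.cons (P.lf 693290 0 0) (P.cons (P.lf 0 37347 0) (P.cons (P.lf 0 3551 0) P.nil)))))) 296)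
 EL.nil))
noncomputable def S198_227_290_364_10 : EL := (EL.cons 3 (TM.mk (P.cons (P.cons (P.lf 0 738653521 0) (P.cons (P.lf 70126772 0 0) (P.cons (P.lf 9030300 0 0) (P.lf 0 602019 0)))) (P.cons (P.cons (P.lf 176076955 0 0) (P.cons (P.lf 0 11609822 0) (P.cons (P.lf 0 1495010 0) (P.lf 99666 0 0)))) (P.cons (P.cons (P.lf 57417925 0 0) (P.cons (P.lf 0 4885766 0) (P.cons (P.lf 0 629144 0) (P.lf 41941 0 0)))) (P.cons (P.cons (P.lf 0 9681871 0) (P.cons (P.lf 48066 0 0) (P.cons (P.lf 6190 0 0) P.nil))) (P.cons (P.cons (P.lf 0 1077723 0) (P.cons (P.lf 92027 0 0) P.nil)) (P.cons (P.cons (P.lf 138862 0 0) P.nil) P.nil)))))) 52052)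
 (EL.cons 7 (TM.mk (P.cons (P.cons (P.lf 0 1117367118 0) (P.cons (P.lf 106081333 0 0) (P.cons (P.lf 13660210 0 0) (P.lf 0 910680 0)))) (P.cons (P.cons (P.lf 0 133994544 0) (P.cons (P.lf 20446187 0 0) (P.cons (P.lf 2632876 0 0) (P.lf 0 175524 0)))) (P.cons (P.cons (P.lf 53489092 0 0) (P.cons (P.lf 0 1455070 0) (P.cons (P.lf 0 187369 0) (P.lf 12490 0 0)))) (P.cons (P.cons (P.lf 4243850 0 0) (P.cons (P.lf 0 523735 0) (P.cons (P.lf 0 67440 0) P.nil))) (P.cons (P.cons (P.lf 0 942610 0) (P.cons (P.lf 0 2804 0) P.nil)) (P.cons (P.cons (P.lf 0 83904 0) P.nil) P.nil)))))) 37838)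
 EL.nil))
noncomputable def S198_227_290_364_11 : EL := (EL.cons 3 (TM.mk (P.cons (P.cons (P.lf 0 413113473 0) (P.cons (P.lf 78440876 0 0) (P.cons (P.lf 6377381 0 0) (P.cons (P.lf 0 1632361 0) (P.cons (P.lf 2187 0 0) (P.cons (P.lf 8232 0 0) P.nil)))))) (P.cons (P.cons (P.lf 68841581 0 0) (P.cons (P.lf 0 7359328 0) (P.cons (P.lf 0 869477 0) (P.cons (P.lf 83315 0 0) (P.cons (P.lf 0 45 0) P.nil))))) (P.cons (P.cons (P.lf 57525382 0 0) (P.cons (P.lf 0 9880558 0) (P.cons (P.lf 0 872523 0) (P.cons (P.lf 187786 0 0) P.nil)))) (P.cons (P.cons (P.lf 0 7148407 0) (P.cons (P.lf 174586 0 0) (P.cons (P.lf 59843 0 0) P.nil))) (P.cons (P.cons (P.lf 0 2738208 0) (P.cons (P.lf 405769 0 0) P.nil)) (P.cons (P.cons (P.lf 296623 0 0) P.nil) P.nil)))))) 289878)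
 (EL.cons 7 (TM.mk (P.cons (P.cons (P.lf 0 624920071 0) (P.cons (P.lf 118658144 0 0) (P.cons (P.lf 9647117 0 0) (P.cons (P.lf 0 2469287 0) (P.cons (P.lf 3308 0 0) (P.cons (P.lf 12452 0 0) P.nil)))))) (P.cons (P.cons (P.lf 0 119768814 0) (P.cons (P.lf 31382159 0 0) (P.cons (P.lf 2141251 0 0) (P.cons (P.lf 0 758701 0) (P.cons (P.lf 1115 0 0) P.nil))))) (P.cons (P.cons (P.lf 52295547 0 0) (P.cons (P.lf 0 5257231 0) (P.cons (P.lf 0 679090 0) (P.cons (P.lf 44586 0 0) P.nil)))) (P.cons (P.cons (P.lf 8357328 0 0) (P.cons (P.lf 0 1815088 0) (P.cons (P.lf 0 163312 0) P.nil))) (P.cons (P.cons (P.lf 0 1988292 0) (P.cons (P.lf 77556 0 0) P.nil)) (P.cons (P.cons (P.lf 0 272465 0) P.nil) P.nil)))))) 244685)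
 EL.nil))
noncomputable def S198_227_290_364_12 : EL := (EL.cons 4 (TM.mk (P.cons (P.lf 1320724353 0 0) (P.cons (P.lf 0 409570215 0) (P.cons (P.lf 0 14623338 0) (P.cons (P.lf 1245645 0 0) (P.cons (P.lf 85526 0 0) (P.cons (P.lf 0 2831 0) P.nil)))))) 532)
 (EL.cons 8 (TM.mk (P.cons (P.lf 1997870342 0 0) (P.cons (P.lf 96267727 0 0) (P.cons (P.lf 0 13808992 0) (P.cons (P.lf 0 693290 0) (P.cons (P.lf 37347 0 0) (P.cons (P.lf 3551 0 0) P.nil)))))) 296)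
 EL.nil))
noncomputable def S198_227_290_364_13 : EL := (EL.cons 4 (TM.mk (P.cons (P.cons (P.lf 738653521 0 0) (P.cons (P.lf 0 70126772 0) (P.cons (P.lf 0 9030300 0) (P.lf 602019 0 0)))) (P.cons (P.cons (P.lf 0 176076955 0) (P.cons (P.lf 11609822 0 0) (P.cons (P.lf 1495010 0 0) (P.lf 0 99666 0)))) (P.cons (P.cons (P.lf 0 57417925 0) (P.cons (P.lf 4885766 0 0) (P.cons (P.lf 629144 0 0) (P.lf 0 41941 0)))) (P.cons (P.cons (P.lf 9681871 0 0) (P.cons (P.lf 0 48066 0) (P.cons (P.lf 0 6190 0) P.nil))) (P.cons (P.cons (P.lf 1077723 0 0) (P.cons (P.lf 0 92027 0) P.nil)) (P.cons (P.cons (P.lf 0 138862 0) P.nil) P.nil)))))) 52052)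
 (EL.cons 8 (TM.mk (P.cons (P.cons (P.lf 1117367118 0 0) (P.cons (P.lf 0 106081333 0) (P.cons (P.lf 0 13660210 0) (P.lf 910680 0 0)))) (P.cons (P.cons (P.lf 133994544 0 0) (P.cons (P.lf 0 20446187 0) (P.cons (P.lf 0 2632876 0) (P.lf 175524 0 0)))) (P.cons (P.cons (P.lf 0 53489092 0) (P.cons (P.lf 1455070 0 0) (P.cons (P.lf 187369 0 0) (P.lf 0 12490 0)))) (P.cons (P.cons (P.lf 0 4243850 0) (P.cons (P.lf 523735 0 0) (P.cons (P.lf 67440 0 0) P.nil))) (P.cons (P.cons (P.lf 942610 0 0) (P.cons (P.lf 2804 0 0) P.nil)) (P.cons (P.cons (P.lf 83904 0 0) P.nil) P.nil)))))) 37838)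
 EL.nil))
noncomputable def S198_227_290_364_14 : EL := (EL.cons 4 (TM.mk (P.cons (P.cons (P.lf 413113473 0 0) (P.cons (P.lf 0 78440876 0) (P.cons (P.lf 0 6377381 0) (P.cons (P.lf 1632361 0 0) (P.cons (P.lf 0 2187 0) (P.cons (P.lf 0 8232 0) P.nil)))))) (P.cons (P.cons (P.lf 0 68841581 0) (P.cons (P.lf 7359328 0 0) (P.cons (P.lf 869477 0 0) (P.cons (P.lf 0 83315 0) (P.cons (P.lf 45 0 0) P.nil))))) (P.cons (P.cons (P.lf 0 57525382 0) (P.cons (P.lf 9880558 0 0) (P.cons (P.lf 872523 0 0) (P.cons (P.lf 0 187786 0) P.nil)))) (P.cons (P.cons (P.lf 7148407 0 0) (P.cons (P.lf 0 174586 0) (P.cons (P.lf 0 59843 0) P.nil))) (P.cons (P.cons (P.lf 2738208 0 0) (P.cons (P.lf 0 405769 0) P.nil)) (P.cons (P.cons (P.lf 0 296623 0) P.nil) P.nil)))))) 289878)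
 (EL.cons 8 (TM.mk (P.cons (P.cons (P.lf 624920071 0 0) (P.cons (P.lf 0 118658144 0) (P.cons (P.lf 0 9647117 0) (P.cons (P.lf 2469287 0 0) (P.cons (P.lf 0 3308 0) (P.cons (P.lf 0 12452 0) P.nil)))))) (P.cons (P.cons (P.lf 119768814 0 0) (P.cons (P.lf 0 31382159 0) (P.cons (P.lf 0 2141251 0) (P.cons (P.lf 758701 0 0) (P.cons (P.lf 0 1115 0) P.nil))))) (P.cons (P.cons (P.lf 0 52295547 0) (P.cons (P.lf 5257231 0 0) (P.cons (P.lf 679090 0 0) (P.cons (P.lf 0 44586 0) P.nil)))) (P.cons (P.cons (P.lf 0 8357328 0) (P.cons (P.lf 1815088 0 0) (P.cons (P.lf 163312 0 0) P.nil))) (P.cons (P.cons (P.lf 1988292 0 0) (P.cons (P.lf 0 77556 0) P.nil)) (P.cons (P.cons (P.lf 272465 0 0) P.nil) P.nil)))))) 244685)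
 EL.nil))
noncomputable def S198_227_290_364_15 : EL := (EL.cons 4 (TM.mk (P.cons (P.lf 0 433204774 0) (P.cons (P.lf 268682518 0 0) (P.cons (P.lf 0 32067537 0) (P.cons (P.lf 0 3792065 0) (P.cons (P.lf 144194 0 0) (P.cons (P.lf 28304 0 0) P.nil)))))) 2128)
 (EL.cons 8 (TM.mk (P.cons (P.lf 0 655312343 0) (P.cons (P.lf 171642763 0 0) (P.cons (P.lf 21577328 0 0) (P.cons (P.lf 0 1445658 0) (P.cons (P.lf 0 205138 0) (P.cons (P.lf 3748 0 0) P.nil)))))) 1533)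
 EL.nil))
noncomputable def S198_227_290_364_16 : EL := (EL.cons 4 (TM.mk (P.cons (P.cons (P.lf 0 242282373 0) (P.cons (P.lf 23001962 0 0) (P.cons (P.lf 2961988 0 0) (P.lf 0 197465 0)))) (P.cons (P.cons (P.lf 132888456 0 0) (P.cons (P.lf 0 10941230 0) (P.cons (P.lf 0 1408914 0) (P.lf 93927 0 0)))) (P.cons (P.cons (P.lf 3605821 0 0) (P.cons (P.lf 0 676313 0) (P.cons (P.lf 0 87089 0) (P.lf 5805 0 0)))) (P.cons (P.cons (P.lf 0 9884111 0) (P.cons (P.lf 576593 0 0) (P.cons (P.lf 74248 0 0) P.nil))) (P.cons (P.cons (P.lf 461573 0 0) (P.cons (P.lf 40937 0 0) P.nil)) (P.cons (P.cons (P.lf 212355 0 0) P.nil) P.nil)))))) 64126)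
 (EL.cons 8 (TM.mk (P.cons (P.cons (P.lf 0 366502494 0) (P.cons (P.lf 34795254 0 0) (P.cons (P.lf 4480622 0 0) (P.lf 0 298707 0)))) (P.cons (P.cons (P.lf 69705255 0 0) (P.cons (P.lf 0 4083905 0) (P.cons (P.lf 0 525889 0) (P.lf 35058 0 0)))) (P.cons (P.cons (P.lf 35232344 0 0) (P.cons (P.lf 0 2942273 0) (P.cons (P.lf 0 378879 0) (P.lf 25258 0 0)))) (P.cons (P.cons (P.lf 0 3907823 0) (P.cons (P.lf 0 65219 0) (P.cons (P.lf 0 8398 0) P.nil))) (P.cons (P.cons (P.lf 0 1000301 0) (P.cons (P.lf 66216 0 0) P.nil)) (P.cons (P.cons (P.lf 67433 0 0) P.nil) P.nil)))))) 45773)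
 EL.nil))
noncomputable def S198_227_290_364_17 : EL := (EL.cons 4 (TM.mk (P.cons (P.cons (P.lf 0 135503466 0) (P.cons (P.lf 25729034 0 0) (P.cons (P.lf 2091815 0 0) (P.cons (P.lf 0 535423 0) (P.cons (P.lf 717 0 0) (P.cons (P.lf 2700 0 0) P.nil)))))) (P.cons (P.cons (P.lf 64601432 0 0) (P.cons (P.lf 0 10392737 0) (P.cons (P.lf 0 933886 0) (P.cons (P.lf 193367 0 0) (P.cons (P.lf 0 237 0) P.nil))))) (P.cons (P.cons (P.lf 13366543 0 0) (P.cons (P.lf 0 2777178 0) (P.cons (P.lf 0 220911 0) (P.cons (P.lf 59048 0 0) P.nil)))) (P.cons (P.cons (P.lf 0 8573890 0) (P.cons (P.lf 1113287 0 0) (P.cons (P.lf 113510 0 0) P.nil))) (P.cons (P.cons (P.lf 0 367422 0) (P.cons (P.lf 150608 0 0) P.nil)) (P.cons (P.cons (P.lf 421328 0 0) P.nil) P.nil)))))) 250401)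
 (EL.cons 8 (TM.mk (P.cons (P.cons (P.lf 0 204977183 0) (P.cons (P.lf 38920516 0 0) (P.cons (P.lf 3164306 0 0) (P.cons (P.lf 0 809939 0) (P.cons (P.lf 1085 0 0) (P.cons (P.lf 4084 0 0) P.nil)))))) (P.cons (P.cons (P.lf 24280711 0 0) (P.cons (P.lf 0 1776133 0) (P.cons (P.lf 0 278941 0) (P.cons (P.lf 2312 0 0) (P.cons (P.lf 29 0 0) P.nil))))) (P.cons (P.cons (P.lf 31605402 0 0) (P.cons (P.lf 0 5347462 0) (P.cons (P.lf 0 475584 0) (P.cons (P.lf 100765 0 0) P.nil)))) (P.cons (P.cons (P.lf 0 2336496 0) (P.cons (P.lf 0 137869 0) (P.cons (P.lf 10716 0 0) P.nil))) (P.cons (P.cons (P.lf 0 1742509 0) (P.cons (P.lf 241387 0 0) P.nil)) (P.cons (P.cons (P.lf 96596 0 0) P.nil) P.nil)))))) 196635)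
 EL.nil))
noncomputable def S198_227_290_364_18 : EL := (EL.cons 4 (TM.mk (P.cons (P.lf 142093522 0 0) (P.cons (P.lf 0 132193991 0) (P.cons (P.lf 36274848 0 0) (P.cons (P.lf 0 908220 0) (P.cons (P.lf 0 623396 0) (P.cons (P.lf 0 4479 0) P.nil)))))) 6741)
 (EL.cons 8 (TM.mk (P.cons (P.lf 214946014 0 0) (P.cons (P.lf 0 122956731 0) (P.cons (P.lf 8001726 0 0) (P.cons (P.lf 3495072 0 0) (P.cons (P.lf 0 40579 0) (P.cons (P.lf 0 38127 0) P.nil)))))) 3726)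
 EL.nil))
noncomputable def S198_227_290_364_19 : EL := (EL.cons 4 (TM.mk (P.cons (P.cons (P.lf 79469936 0 0) (P.cons (P.lf 0 7544768 0) (P.cons (P.lf 0 971548 0) (P.lf 64769 0 0)))) (P.cons (P.cons (P.lf 0 68232582 0) (P.cons (P.lf 5928493 0 0) (P.cons (P.lf 763418 0 0) (P.lf 0 50894 0)))) (P.cons (P.cons (P.lf 11454492 0 0) (P.cons (P.lf 0 807546 0) (P.cons (P.lf 0 103988 0) (P.lf 6931 0 0)))) (P.cons (P.cons (P.lf 4166387 0 0) (P.cons (P.lf 0 304770 0) (P.cons (P.lf 0 39245 0) P.nil))) (P.cons (P.cons (P.lf 0 1179657 0) (P.cons (P.lf 45661 0 0) P.nil)) (P.cons (P.cons (P.lf 0 62707 0) P.nil) P.nil)))))) 68157)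
 (EL.cons 8 (TM.mk (P.cons (P.cons (P.lf 120214812 0 0) (P.cons (P.lf 0 11413032 0) (P.cons (P.lf 0 1469668 0) (P.lf 97977 0 0)))) (P.cons (P.cons (P.lf 0 60143553 0) (P.cons (P.lf 4878842 0 0) (P.cons (P.lf 628253 0 0) (P.lf 0 41883 0)))) (P.cons (P.cons (P.lf 0 5797174 0) (P.cons (P.lf 676042 0 0) (P.cons (P.lf 87054 0 0) (P.lf 0 5803 0)))) (P.cons (P.cons (P.lf 5232078 0 0) (P.cons (P.lf 0 303485 0) (P.cons (P.lf 0 39079 0) P.nil))) (P.cons (P.cons (P.lf 44785 0 0) (P.cons (P.lf 0 38514 0) P.nil)) (P.cons (P.cons (P.lf 0 150696 0) P.nil) P.nil)))))) 49734)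
 EL.nil))
noncomputable def S198_227_290_364_20 : EL := (EL.cons 4 (TM.mk (P.cons (P.cons (P.lf 44445873 0 0) (P.cons (P.lf 0 8439262 0) (P.cons (P.lf 0 686126 0) (P.cons (P.lf 175620 0 0) (P.cons (P.lf 0 235 0) (P.cons (P.lf 0 885 0) P.nil)))))) (P.cons (P.cons (P.lf 0 34972743 0) (P.cons (P.lf 6025976 0 0) (P.cons (P.lf 519094 0 0) (P.cons (P.lf 0 117887 0) (P.cons (P.lf 150 0 0) P.nil))))) (P.cons (P.cons (P.lf 1694706 0 0) (P.cons (P.lf 0 52755 0) (P.cons (P.lf 0 14935 0) (P.cons (P.lf 0 1643 0) P.nil)))) (P.cons (P.cons (P.lf 4448433 0 0) (P.cons (P.lf 0 693356 0) (P.cons (P.lf 0 63741 0) P.nil))) (P.cons (P.cons (P.lf 0 720164 0) (P.cons (P.lf 56422 0 0) P.nil)) (P.cons (P.cons (P.lf 0 212311 0) P.nil) P.nil)))))) 191230)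
 (EL.cons 8 (TM.mk (P.cons (P.cons (P.lf 67233631 0 0) (P.cons (P.lf 0 12766141 0) (P.cons (P.lf 0 1037909 0) (P.cons (P.lf 265664 0 0) (P.cons (P.lf 0 355 0) (P.cons (P.lf 0 1339 0) P.nil)))))) (P.cons (P.cons (P.lf 0 28814046 0) (P.cons (P.lf 4541493 0 0) (P.cons (P.lf 413360 0 0) (P.cons (P.lf 0 83143 0) (P.cons (P.lf 100 0 0) P.nil))))) (P.cons (P.cons (P.lf 0 8641386 0) (P.cons (P.lf 1714681 0 0) (P.cons (P.lf 139112 0 0) (P.cons (P.lf 0 35757 0) P.nil)))) (P.cons (P.cons (P.lf 4132810 0 0) (P.cons (P.lf 0 517201 0) (P.cons (P.lf 0 53882 0) P.nil))) (P.cons (P.cons (P.lf 445514 0 0) (P.cons (P.lf 0 112897 0) P.nil)) (P.cons (P.cons (P.lf 0 227851 0) P.nil) P.nil)))))) 161260)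
 EL.nil))
noncomputable def S198_227_290_364_21 : EL := (EL.cons 4 (TM.mk (P.cons (P.cons (P.lf 0 1099655784 0) (P.cons (P.lf 210380316 0 0) (P.cons (P.lf 27090900 0 0) (P.lf 0 1806057 0)))) (P.cons (P.cons (P.lf 1334278416 0 0) (P.cons (P.lf 0 34829466 0) (P.cons (P.lf 0 4485030 0) (P.lf 298998 0 0)))) (P.cons (P.cons (P.lf 76051164 0 0) (P.cons (P.lf 0 14657298 0) (P.cons (P.lf 0 1887432 0) (P.lf 125823 0 0)))) (P.cons (P.cons (P.lf 0 40421808 0) (P.cons (P.lf 144198 0 0) (P.cons (P.lf 18570 0 0) P.nil))) (P.cons (P.cons (P.lf 0 2800590 0) (P.cons (P.lf 276081 0 0) P.nil)) (P.cons (P.cons (P.lf 501498 0 0) P.nil) P.nil)))))) 162831)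
 (EL.cons 8 (TM.mk (P.cons (P.cons (P.lf 258469401 0 0) (P.cons (P.lf 0 49448997 0) (P.cons (P.lf 0 6367605 0) (P.lf 424509 0 0)))) (P.cons (P.cons (P.lf 0 406224843 0) (P.cons (P.lf 25903863 0 0) (P.cons (P.lf 3335664 0 0) (P.lf 0 222375 0)))) (P.cons (P.cons (P.lf 97878867 0 0) (P.cons (P.lf 0 136044 0) (P.cons (P.lf 0 17514 0) (P.lf 1164 0 0)))) (P.cons (P.cons (P.lf 11326167 0 0) (P.cons (P.lf 0 1071099 0) (P.cons (P.lf 0 137922 0) P.nil))) (P.cons (P.cons (P.lf 0 2384229 0) (P.cons (P.lf 0 27426 0) P.nil)) (P.cons (P.cons (P.lf 0 230658 0) P.nil) P.nil)))))) 129861)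
 (EL.cons 11 (TM.mk (P.cons (P.cons (P.lf 1585310508 0 0) (P.cons (P.lf 452570325 0 0) (P.cons (P.lf 0 33851532 0) (P.cons (P.lf 0 2281098 0) (P.lf 114054 0 0))))) (P.cons (P.cons (P.lf 152776917 0 0) (P.cons (P.lf 43614357 0 0) (P.cons (P.lf 0 3262281 0) (P.cons (P.lf 0 219828 0) (P.lf 10989 0 0))))) (P.cons (P.cons (P.lf 0 18234081 0) (P.cons (P.lf 0 5205417 0) (P.cons (P.lf 389355 0 0) (P.cons (P.lf 26235 0 0) P.nil)))) (P.cons (P.cons (P.lf 0 2156220 0) (P.cons (P.lf 0 615552 0) (P.cons (P.lf 46041 0 0) P.nil))) (P.cons (P.cons (P.lf 81987 0 0) (P.cons (P.lf 23406 0 0) P.nil)) (P.cons (P.cons (P.lf 16092 0 0) P.nil) P.nil)))))) 13401)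
 EL.nil)))
noncomputable def S198_227_290_364_22 : EL := (EL.cons 4 (TM.mk (P.cons (P.cons (P.lf 0 615014490 0) (P.cons (P.lf 176049960 0 0) (P.cons (P.lf 11499537 0 0) (P.cons (P.lf 0 4388241 0) (P.cons (P.lf 6561 0 0) (P.cons (P.lf 24696 0 0) P.nil)))))) (P.cons (P.cons (P.lf 702116133 0 0) (P.cons (P.lf 0 73445046 0) (P.cons (P.lf 0 9223026 0) (P.cons (P.lf 690915 0 0) (P.cons (P.lf 0 135 0) P.nil))))) (P.cons (P.cons (P.lf 123380796 0 0) (P.cons (P.lf 0 29904204 0) (P.cons (P.lf 0 2651376 0) (P.cons (P.lf 565614 0 0) P.nil)))) (P.cons (P.cons (P.lf 0 52198872 0) (P.cons (P.lf 2629068 0 0) (P.cons (P.lf 450630 0 0) P.nil))) (P.cons (P.cons (P.lf 0 6043410 0) (P.cons (P.lf 1333590 0 0) P.nil)) (P.cons (P.cons (P.lf 1557849 0 0) P.nil) P.nil)))))) 846366)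
 (EL.cons 8 (TM.mk (P.cons (P.cons (P.lf 144556530 0 0) (P.cons (P.lf 0 41379792 0) (P.cons (P.lf 0 2702919 0) (P.cons (P.lf 1031439 0 0) (P.cons (P.lf 0 1542 0) (P.cons (P.lf 0 5805 0) P.nil)))))) (P.cons (P.cons (P.lf 0 216823338 0) (P.cons (P.lf 32089131 0 0) (P.cons (P.lf 3136272 0 0) (P.cons (P.lf 0 531954 0) (P.cons (P.lf 582 0 0) P.nil))))) (P.cons (P.cons (P.lf 32023443 0 0) (P.cons (P.lf 301371 0 0) (P.cons (P.lf 0 188946 0) (P.cons (P.lf 0 61245 0) P.nil)))) (P.cons (P.cons (P.lf 20234394 0 0) (P.cons (P.lf 0 2834919 0) (P.cons (P.lf 0 295881 0) P.nil))) (P.cons (P.cons (P.lf 0 3041088 0) (P.cons (P.lf 0 35451 0) P.nil)) (P.cons (P.cons (P.lf 0 679560 0) P.nil) P.nil)))))) 468438)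
 (EL.cons 11 (TM.mk (P.cons (P.cons (P.lf 886631025 0 0) (P.cons (P.lf 168937563 0 0) (P.cons (P.lf 0 53802051 0) (P.cons (P.lf 0 1850121 0) (P.cons (P.lf 622656 0 0) (P.cons (P.lf 0 5889 0) P.nil)))))) (P.cons (P.cons (P.lf 149047164 0 0) (P.cons (P.lf 22269528 0 0) (P.cons (P.lf 0 11583624 0) (P.cons (P.lf 0 352836 0) (P.cons (P.lf 145365 0 0) P.nil))))) (P.cons (P.cons (P.lf 0 43448595 0) (P.cons (P.lf 0 11448942 0) (P.cons (P.lf 1323228 0 0) (P.cons (P.lf 69030 0 0) P.nil)))) (P.cons (P.cons (P.lf 0 6455220 0) (P.cons (P.lf 0 1230252 0) (P.cons (P.lf 391590 0 0) P.nil))) (P.cons (P.cons (P.lf 858738 0 0) (P.cons (P.lf 263475 0 0) P.nil)) (P.cons (P.cons (P.lf 144183 0 0) P.nil) P.nil)))))) 241686)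
 EL.nil)))
noncomputable def S198_227_290_364_23 : EL := (EL.cons 4 (TM.mk (P.cons (P.cons (P.lf 360693078 0 0) (P.cons (P.lf 0 69005886 0) (P.cons (P.lf 0 8885961 0) (P.lf 592395 0 0)))) (P.cons (P.cons (P.lf 0 549505215 0) (P.cons (P.lf 32823690 0 0) (P.cons (P.lf 4226742 0 0) (P.lf 0 281781 0)))) (P.cons (P.cons (P.lf 106781082 0 0) (P.cons (P.lf 2028942 0 0) (P.cons (P.lf 261267 0 0) (P.lf 0 17415 0)))) (P.cons (P.cons (P.lf 26180283 0 0) (P.cons (P.lf 0 1729779 0) (P.cons (P.lf 0 222744 0) P.nil))) (P.cons (P.cons (P.lf 0 3306225 0) (P.cons (P.lf 0 122811 0) P.nil)) (P.cons (P.cons (P.lf 0 648807 0) P.nil) P.nil)))))) 213261)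
 (EL.cons 8 (TM.mk (P.cons (P.cons (P.lf 0 84779367 0) (P.cons (P.lf 16219539 0 0) (P.cons (P.lf 2088609 0 0) (P.lf 0 139239 0)))) (P.cons (P.cons (P.lf 159534912 0 0) (P.cons (P.lf 0 13526454 0) (P.cons (P.lf 0 1741815 0) (P.lf 116118 0 0)))) (P.cons (P.cons (P.lf 0 72486426 0) (P.cons (P.lf 2499921 0 0) (P.cons (P.lf 321915 0 0) (P.lf 0 21459 0)))) (P.cons (P.cons (P.lf 4685718 0 0) (P.cons (P.lf 446859 0 0) (P.cons (P.lf 57540 0 0) P.nil))) (P.cons (P.cons (P.lf 2409762 0 0) (P.cons (P.lf 0 107409 0) P.nil)) (P.cons (P.cons (P.lf 0 147195 0) P.nil) P.nil)))))) 121323)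
 (EL.cons 11 (TM.mk (P.cons (P.cons (P.lf 0 519990471 0) (P.cons (P.lf 0 148445529 0) (P.cons (P.lf 11103486 0 0) (P.cons (P.lf 748212 0 0) (P.lf 0 37410 0))))) (P.cons (P.cons (P.lf 111142737 0 0) (P.cons (P.lf 31728738 0 0) (P.cons (P.lf 0 2373258 0) (P.cons (P.lf 0 159921 0) (P.lf 7995 0 0))))) (P.cons (P.cons (P.lf 27278463 0 0) (P.cons (P.lf 7787382 0 0) (P.cons (P.lf 0 582480 0) (P.cons (P.lf 0 39249 0) P.nil)))) (P.cons (P.cons (P.lf 0 1083063 0) (P.cons (P.lf 0 309189 0) (P.cons (P.lf 23127 0 0) P.nil))) (P.cons (P.cons (P.lf 0 393375 0) (P.cons (P.lf 0 112299 0) P.nil)) (P.cons (P.cons (P.lf 0 1257 0) P.nil) P.nil)))))) 31578)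
 EL.nil)))
noncomputable def S198_227_290_364_24 : EL := (EL.cons 4 (TM.mk (P.cons (P.cons (P.lf 201728100 0 0) (P.cons (P.lf 0 57745344 0) (P.cons (P.lf 0 3771909 0) (P.cons (P.lf 1439367 0 0) (P.cons (P.lf 0 2151 0) (P.cons (P.lf 0 8100 0) P.nil)))))) (P.cons (P.cons (P.lf 0 292855872 0) (P.cons (P.lf 41997798 0 0) (P.cons (P.lf 4194909 0 0) (P.cons (P.lf 0 672987 0) (P.cons (P.lf 711 0 0) P.nil))))) (P.cons (P.cons (P.lf 28714602 0 0) (P.cons (P.lf 2977437 0 0) (P.cons (P.lf 0 26715 0) (P.cons (P.lf 0 131181 0) P.nil)))) (P.cons (P.cons (P.lf 32411712 0 0) (P.cons (P.lf 0 4225335 0) (P.cons (P.lf 0 454554 0) P.nil))) (P.cons (P.cons (P.lf 0 3083340 0) (P.cons (P.lf 0 259623 0) P.nil)) (P.cons (P.cons (P.lf 0 1368792 0) P.nil) P.nil)))))) 749280)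
 (EL.cons 8 (TM.mk (P.cons (P.cons (P.lf 0 47415327 0) (P.cons (P.lf 13572795 0 0) (P.cons (P.lf 886572 0 0) (P.cons (P.lf 0 338316 0) (P.cons (P.lf 504 0 0) (P.cons (P.lf 1902 0 0) P.nil)))))) (P.cons (P.cons (P.lf 85823217 0 0) (P.cons (P.lf 0 14734473 0) (P.cons (P.lf 0 1303647 0) (P.cons (P.lf 279399 0 0) (P.cons (P.lf 0 348 0) P.nil))))) (P.cons (P.cons (P.lf 0 32033676 0) (P.cons (P.lf 3014904 0 0) (P.cons (P.lf 371172 0 0) (P.cons (P.lf 0 30273 0) P.nil)))) (P.cons (P.cons (P.lf 0 4211802 0) (P.cons (P.lf 1089864 0 0) (P.cons (P.lf 90057 0 0) P.nil))) (P.cons (P.cons (P.lf 3235998 0 0) (P.cons (P.lf 0 284685 0) P.nil)) (P.cons (P.cons (P.lf 0 18144 0) P.nil) P.nil)))))) 340449)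
 (EL.cons 11 (TM.mk (P.cons (P.cons (P.lf 0 290819799 0) (P.cons (P.lf 0 55412439 0) (P.cons (P.lf 17647365 0 0) (P.cons (P.lf 606849 0 0) (P.cons (P.lf 0 204234 0) (P.cons (P.lf 1929 0 0) P.nil)))))) (P.cons (P.cons (P.lf 41297931 0 0) (P.cons (P.lf 9879441 0 0) (P.cons (P.lf 0 1673136 0) (P.cons (P.lf 0 72456 0) (P.cons (P.lf 15651 0 0) P.nil))))) (P.cons (P.cons (P.lf 32632152 0 0) (P.cons (P.lf 6634062 0 0) (P.cons (P.lf 0 1807683 0) (P.cons (P.lf 0 65250 0) P.nil)))) (P.cons (P.cons (P.lf 0 2035134 0) (P.cons (P.lf 0 732417 0) (P.cons (P.lf 0 19272 0) P.nil))) (P.cons (P.cons (P.lf 0 1161018 0) (P.cons (P.lf 0 263616 0) P.nil)) (P.cons (P.cons (P.lf 27510 0 0) P.nil) P.nil)))))) 230940)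
 EL.nil)))
noncomputable def S198_227_290_364_25 : EL := (EL.cons 4 (TM.mk (P.cons (P.cons (P.lf 0 118309293 0) (P.cons (P.lf 22634304 0 0) (P.cons (P.lf 2914644 0 0) (P.lf 0 194307 0)))) (P.cons (P.cons (P.lf 216929628 0 0) (P.cons (P.lf 0 17785479 0) (P.cons (P.lf 0 2290254 0) (P.lf 152682 0 0)))) (P.cons (P.cons (P.lf 0 89609325 0) (P.cons (P.lf 2422638 0 0) (P.cons (P.lf 311964 0 0) (P.lf 0 20796 0)))) (P.cons (P.cons (P.lf 167019 0 0) (P.cons (P.lf 914310 0 0) (P.cons (P.lf 117735 0 0) P.nil))) (P.cons (P.cons (P.lf 4297596 0 0) (P.cons (P.lf 0 136986 0) P.nil)) (P.cons (P.cons (P.lf 0 49518 0) P.nil) P.nil)))))) 224283)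
 (EL.cons 8 (TM.mk (P.cons (P.cons (P.lf 27808092 0 0) (P.cons (P.lf 0 5320095 0) (P.cons (P.lf 0 685074 0) (P.lf 45669 0 0)))) (P.cons (P.cons (P.lf 0 60951894 0) (P.cons (P.lf 6086565 0 0) (P.cons (P.lf 783771 0 0) (P.lf 0 52251 0)))) (P.cons (P.cons (P.lf 39695595 0 0) (P.cons (P.lf 0 2136963 0) (P.cons (P.lf 0 275178 0) (P.lf 18342 0 0)))) (P.cons (P.cons (P.lf 0 8304486 0) (P.cons (P.lf 53571 0 0) (P.cons (P.lf 6897 0 0) P.nil))) (P.cons (P.cons (P.lf 0 624597 0) (P.cons (P.lf 93603 0 0) P.nil)) (P.cons (P.cons (P.lf 329391 0 0) P.nil) P.nil)))))) 111201)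
 (EL.cons 11 (TM.mk (P.cons (P.cons (P.lf 170559702 0 0) (P.cons (P.lf 48690939 0 0) (P.cons (P.lf 0 3642003 0) (P.cons (P.lf 0 245415 0) (P.lf 12270 0 0))))) (P.cons (P.cons (P.lf 0 89347740 0) (P.cons (P.lf 0 25506759 0) (P.cons (P.lf 1907862 0 0) (P.cons (P.lf 128562 0 0) (P.lf 0 6426 0))))) (P.cons (P.cons (P.lf 469242 0 0) (P.cons (P.lf 133956 0 0) (P.cons (P.lf 0 10020 0) (P.cons (P.lf 0 675 0) P.nil)))) (P.cons (P.cons (P.lf 3694461 0 0) (P.cons (P.lf 1054683 0 0) (P.cons (P.lf 0 78888 0) P.nil))) (P.cons (P.cons (P.lf 94590 0 0) (P.cons (P.lf 27003 0 0) P.nil)) (P.cons (P.cons (P.lf 0 54696 0) P.nil) P.nil)))))) 46797)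
 EL.nil)))
noncomputable def S198_227_290_364_26 : EL := (EL.cons 4 (TM.mk (P.cons (P.cons (P.lf 0 66167913 0) (P.cons (P.lf 18940785 0 0) (P.cons (P.lf 1237206 0 0) (P.cons (P.lf 0 472119 0) (P.cons (P.lf 705 0 0) (P.cons (P.lf 2655 0 0) P.nil)))))) (P.cons (P.cons (P.lf 116577669 0 0) (P.cons (P.lf 0 19649238 0) (P.cons (P.lf 0 1759623 0) (P.cons (P.lf 367152 0 0) (P.cons (P.lf 0 450 0) P.nil))))) (P.cons (P.cons (P.lf 0 38474592 0) (P.cons (P.lf 3085593 0 0) (P.cons (P.lf 421761 0 0) (P.cons (P.lf 0 20196 0) P.nil)))) (P.cons (P.cons (P.lf 0 8836413 0) (P.cons (P.lf 1859181 0 0) (P.cons (P.lf 162780 0 0) P.nil))) (P.cons (P.cons (P.lf 4498797 0 0) (P.cons (P.lf 0 345585 0) P.nil)) (P.cons (P.cons (P.lf 250530 0 0) P.nil) P.nil)))))) 535623)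
 (EL.cons 8 (TM.mk (P.cons (P.cons (P.lf 15552483 0 0) (P.cons (P.lf 0 4451949 0) (P.cons (P.lf 0 290799 0) (P.cons (P.lf 110970 0 0) (P.cons (P.lf 0 165 0) (P.cons (P.lf 0 624 0) P.nil)))))) (P.cons (P.cons (P.lf 0 32973468 0) (P.cons (P.lf 6213582 0 0) (P.cons (P.lf 517782 0 0) (P.cons (P.lf 0 126057 0) (P.cons (P.lf 165 0 0) P.nil))))) (P.cons (P.cons (P.lf 19064772 0 0) (P.cons (P.lf 0 2438370 0) (P.cons (P.lf 0 251130 0) (P.cons (P.lf 37119 0 0) P.nil)))) (P.cons (P.cons (P.lf 0 1550544 0) (P.cons (P.lf 0 108522 0) (P.cons (P.lf 3204 0 0) P.nil))) (P.cons (P.cons (P.lf 0 1631721 0) (P.cons (P.lf 219456 0 0) P.nil)) (P.cons (P.cons (P.lf 327867 0 0) P.nil) P.nil)))))) 214554)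
 (EL.cons 11 (TM.mk (P.cons (P.cons (P.lf 95390475 0 0) (P.cons (P.lf 18175581 0 0) (P.cons (P.lf 0 5788431 0) (P.cons (P.lf 0 199050 0) (P.cons (P.lf 66990 0 0) (P.cons (P.lf 0 633 0) P.nil)))))) (P.cons (P.cons (P.lf 0 43127514 0) (P.cons (P.lf 0 8876943 0) (P.cons (P.lf 2343849 0 0) (P.cons (P.lf 85494 0 0) (P.cons (P.lf 0 25908 0) P.nil))))) (P.cons (P.cons (P.lf 0 7558968 0) (P.cons (P.lf 0 1372335 0) (P.cons (P.lf 486831 0 0) (P.cons (P.lf 16236 0 0) P.nil)))) (P.cons (P.cons (P.lf 4226760 0 0) (P.cons (P.lf 968061 0 0) (P.cons (P.lf 0 189087 0) P.nil))) (P.cons (P.cons (P.lf 285723 0 0) (P.cons (P.lf 34182 0 0) P.nil)) (P.cons (P.cons (P.lf 0 145686 0) P.nil) P.nil)))))) 185835)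
 EL.nil)))
noncomputable def S198_227_290_364_27 : EL := (EL.cons 13 (TM.mk (P.lf 0 4294967296 0) 0)
 EL.nil)
noncomputable def S198_227_290_364_28 : EL := (EL.cons 13 (TM.mk (P.cons (P.cons (P.lf 0 2402085425 0) (P.cons (P.lf 228050764 0 0) (P.cons (P.lf 29366348 0 0) (P.lf 0 1957756 0)))) (P.cons (P.cons (P.lf 0 172312926 0) (P.cons (P.lf 32965992 0 0) (P.cons (P.lf 4245064 0 0) (P.lf 0 283004 0)))) (P.cons (P.cons (P.lf 106689455 0 0) (P.cons (P.lf 0 3140288 0) (P.cons (P.lf 0 404376 0) (P.lf 26956 0 0)))) (P.cons (P.cons (P.lf 1957904 0 0) (P.cons (P.lf 0 667604 0) (P.cons (P.lf 0 85964 0) P.nil))) (P.cons (P.cons (P.lf 0 1398211 0) (P.cons (P.lf 11612 0 0) P.nil)) (P.cons (P.cons (P.lf 0 54957 0) P.nil) P.nil)))))) 40305)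
 EL.nil)
noncomputable def S198_227_290_364_29 : EL := (EL.cons 13 (TM.mk (P.cons (P.cons (P.lf 0 1343436164 0) (P.cons (P.lf 255088050 0 0) (P.cons (P.lf 20739110 0 0) (P.cons (P.lf 0 5308406 0) (P.cons (P.lf 7113 0 0) (P.cons (P.lf 26771 0 0) P.nil)))))) (P.cons (P.cons (P.lf 0 192742034 0) (P.cons (P.lf 55173050 0 0) (P.cons (P.lf 3603886 0 0) (P.cons (P.lf 0 1375250 0) (P.cons (P.lf 2056 0 0) P.nil))))) (P.cons (P.cons (P.lf 112425215 0 0) (P.cons (P.lf 0 12197245 0) (P.cons (P.lf 0 1490199 0) (P.cons (P.lf 125426 0 0) P.nil)))) (P.cons (P.cons (P.lf 10750733 0 0) (P.cons (P.lf 0 2844435 0) (P.cons (P.lf 0 247173 0) P.nil))) (P.cons (P.cons (P.lf 0 4057106 0) (P.cons (P.lf 233860 0 0) P.nil)) (P.cons (P.cons (P.lf 0 270935 0) P.nil) P.nil)))))) 367515)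
 EL.nil)
noncomputable def S198_227_290_364_30 : EL := (EL.cons 13 (TM.mk (P.cons (P.lf 1408772644 0 0) (P.cons (P.lf 0 436874896 0) (P.cons (P.lf 0 15598228 0) (P.cons (P.lf 1328688 0 0) (P.cons (P.lf 91228 0 0) (P.cons (P.lf 0 3020 0) P.nil)))))) 560)
 EL.nil)
noncomputable def S198_227_290_364_31 : EL := (EL.cons 13 (TM.mk (P.cons (P.cons (P.lf 787897090 0 0) (P.cons (P.lf 0 74801891 0) (P.cons (P.lf 0 9632321 0) (P.lf 642154 0 0)))) (P.cons (P.cons (P.lf 0 187815419 0) (P.cons (P.lf 12383811 0 0) (P.cons (P.lf 1594678 0 0) (P.lf 0 106311 0)))) (P.cons (P.cons (P.lf 0 61245787 0) (P.cons (P.lf 5211484 0 0) (P.cons (P.lf 671087 0 0) (P.lf 0 44738 0)))) (P.cons (P.cons (P.lf 10327330 0 0) (P.cons (P.lf 0 51271 0) (P.cons (P.lf 0 6603 0) P.nil))) (P.cons (P.cons (P.lf 1149572 0 0) (P.cons (P.lf 0 98163 0) P.nil)) (P.cons (P.cons (P.lf 0 148120 0) P.nil) P.nil))))))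 55502)
 EL.nil)
noncomputable def S198_227_290_364_32 : EL := (EL.cons 13 (TM.mk (P.cons (P.cons (P.lf 440654372 0 0) (P.cons (P.lf 0 83670268 0) (P.cons (P.lf 0 6802540 0) (P.cons (P.lf 1741186 0 0) (P.cons (P.lf 0 2333 0) (P.cons (P.lf 0 8781 0) P.nil)))))) (P.cons (P.cons (P.lf 0 73431020 0) (P.cons (P.lf 7849950 0 0) (P.cons (P.lf 927443 0 0) (P.cons (P.lf 0 88870 0) (P.cons (P.lf 49 0 0) P.nil))))) (P.cons (P.cons (P.lf 0 61360408 0) (P.cons (P.lf 10539262 0 0) (P.cons (P.lf 930692 0 0) (P.cons (P.lf 0 200306 0) P.nil)))) (P.cons (P.cons (P.lf 7624968 0 0) (P.cons (P.lf 0 186226 0) (P.cons (P.lf 0 63833 0) P.nil))) (P.cons (P.cons (P.lf 2920756 0 0) (P.cons (P.lf 0 432821 0) P.nil)) (P.cons (P.cons (P.lf 0 316398 0) P.nil) P.nil)))))) 309180)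
 EL.nil)
noncomputable def S198_227_290_364_33 : EL := (EL.cons 14 (TM.mk (P.lf 8589934592 0 0) 0)
 EL.nil)
noncomputable def S198_227_290_364_34 : EL := (EL.cons 14 (TM.mk (P.cons (P.cons (P.lf 4804170850 0 0) (P.cons (P.lf 0 456101528 0) (P.cons (P.lf 0 58732696 0) (P.lf 3915512 0 0)))) (P.cons (P.cons (P.lf 344625852 0 0) (P.cons (P.lf 0 65931984 0) (P.cons (P.lf 0 8490128 0) (P.lf 566008 0 0)))) (P.cons (P.cons (P.lf 0 213378910 0) (P.cons (P.lf 6280576 0 0) (P.cons (P.lf 808752 0 0) (P.lf 0 53912 0)))) (P.cons (P.cons (P.lf 0 3915808 0) (P.cons (P.lf 1335208 0 0) (P.cons (P.lf 171928 0 0) P.nil))) (P.cons (P.cons (P.lf 2796422 0 0) (P.cons (P.lf 0 23224 0) P.nil)) (P.cons (P.cons (P.lf 109914 0 0) P.nil) P.nil)))))) 80610)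
 EL.nil)
noncomputable def S198_227_290_364_35 : EL := (EL.cons 14 (TM.mk (P.cons (P.cons (P.lf 2686872328 0 0) (P.cons (P.lf 0 510176100 0) (P.cons (P.lf 0 41478220 0) (P.cons (P.lf 10616812 0 0) (P.cons (P.lf 0 14226 0) (P.cons (P.lf 0 53542 0) P.nil)))))) (P.cons (P.cons (P.lf 385484068 0 0) (P.cons (P.lf 0 110346100 0) (P.cons (P.lf 0 7207772 0) (P.cons (P.lf 2750500 0 0) (P.cons (P.lf 0 4112 0) P.nil))))) (P.cons (P.cons (P.lf 0 224850430 0) (P.cons (P.lf 24394490 0 0) (P.cons (P.lf 2980398 0 0) (P.cons (P.lf 0 250852 0) P.nil)))) (P.cons (P.cons (P.lf 0 21501466 0) (P.cons (P.lf 5688870 0 0) (P.cons (P.lf 494346 0 0) P.nil))) (P.cons (P.cons (P.lf 8114212 0 0) (P.cons (P.lf 0 467720 0) P.nil)) (P.cons (P.cons (P.lf 541870 0 0) P.nil) P.nil)))))) 735030)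
 EL.nil)
noncomputable def S198_227_290_364_36 : EL := (EL.cons 14 (TM.mk (P.cons (P.lf 0 2817545288 0) (P.cons (P.lf 873749792 0 0) (P.cons (P.lf 31196456 0 0) (P.cons (P.lf 0 2657376 0) (P.cons (P.lf 0 182456 0) (P.cons (P.lf 6040 0 0) P.nil)))))) 1120)
 EL.nil)
noncomputable def S198_227_290_364_37 : EL := (EL.cons 14 (TM.mk (P.cons (P.cons (P.lf 0 1575794180 0) (P.cons (P.lf 149603782 0 0) (P.cons (P.lf 19264642 0 0) (P.lf 0 1284308 0)))) (P.cons (P.cons (P.lf 375630838 0 0) (P.cons (P.lf 0 24767622 0) (P.cons (P.lf 0 3189356 0) (P.lf 212622 0 0)))) (P.cons (P.cons (P.lf 122491574 0 0) (P.cons (P.lf 0 10422968 0) (P.cons (P.lf 0 1342174 0) (P.lf 89476 0 0)))) (P.cons (P.cons (P.lf 0 20654660 0) (P.cons (P.lf 102542 0 0) (P.cons (P.lf 13206 0 0) P.nil))) (P.cons (P.cons (P.lf 0 2299144 0) (P.cons (P.lf 196326 0 0) P.nil)) (P.cons (P.cons (P.lf 296240 0 0) P.nil)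 P.nil)))))) 111004)
 EL.nil)
noncomputable def S198_227_290_364_38 : EL := (EL.cons 14 (TM.mk (P.cons (P.cons (P.lf 0 881308744 0) (P.cons (P.lf 167340536 0 0) (P.cons (P.lf 13605080 0 0) (P.cons (P.lf 0 3482372 0) (P.cons (P.lf 4666 0 0) (P.cons (P.lf 17562 0 0) P.nil)))))) (P.cons (P.cons (P.lf 146862040 0 0) (P.cons (P.lf 0 15699900 0) (P.cons (P.lf 0 1854886 0) (P.cons (P.lf 177740 0 0) (P.cons (P.lf 0 98 0) P.nil))))) (P.cons (P.cons (P.lf 122720816 0 0) (P.cons (P.lf 0 21078524 0) (P.cons (P.lf 0 1861384 0) (P.cons (P.lf 400612 0 0) P.nil)))) (P.cons (P.cons (P.lf 0 15249936 0) (P.cons (P.lf 372452 0 0) (P.cons (P.lf 127666 0 0) P.nil))) (P.cons (P.cons (P.lf 0 5841512 0) (P.cons (P.lf 865642 0 0) P.nil)) (P.cons (P.cons (P.lf 632796 0 0) P.nil) P.nil)))))) 618360)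
 EL.nil)
noncomputable def S198_227_290_364_39 : EL := (EL.cons 14 (TM.mk (P.cons (P.lf 924170186 0 0) (P.cons (P.lf 0 573189372 0) (P.cons (P.lf 68410746 0 0) (P.cons (P.lf 8089740 0 0) (P.cons (P.lf 0 307614 0) (P.cons (P.lf 0 60382 0) P.nil)))))) 4526)
 EL.nil)
noncomputable def S198_227_290_364_40 : EL := (EL.cons 14 (TM.mk (P.cons (P.cons (P.lf 516869064 0 0) (P.cons (P.lf 0 49070854 0) (P.cons (P.lf 0 6318908 0) (P.lf 421260 0 0)))) (P.cons (P.cons (P.lf 0 283495374 0) (P.cons (P.lf 23341292 0 0) (P.cons (P.lf 3005684 0 0) (P.lf 0 200378 0)))) (P.cons (P.cons (P.lf 0 7692420 0) (P.cons (P.lf 1442802 0 0) (P.cons (P.lf 185790 0 0) (P.lf 0 12384 0)))) (P.cons (P.cons (P.lf 21086104 0 0) (P.cons (P.lf 0 1230066 0) (P.cons (P.lf 0 158396 0) P.nil))) (P.cons (P.cons (P.lf 0 984690 0) (P.cons (P.lf 0 87334 0) P.nil)) (P.cons (P.cons (P.lf 0 453024 0) P.nil) P.nil))))))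 136762)
 EL.nil)
noncomputable def S198_227_290_364_41 : EL := (EL.cons 14 (TM.mk (P.cons (P.cons (P.lf 289074062 0 0) (P.cons (P.lf 0 54888606 0) (P.cons (P.lf 0 4462540 0) (P.cons (P.lf 1142236 0 0) (P.cons (P.lf 0 1530 0) (P.cons (P.lf 0 5760 0) P.nil)))))) (P.cons (P.cons (P.lf 0 137816390 0) (P.cons (P.lf 22171174 0 0) (P.cons (P.lf 1992292 0 0) (P.cons (P.lf 0 412518 0) (P.cons (P.lf 506 0 0) P.nil))))) (P.cons (P.cons (P.lf 0 28515292 0) (P.cons (P.lf 5924648 0 0) (P.cons (P.lf 471278 0 0) (P.cons (P.lf 0 125970 0) P.nil)))) (P.cons (P.cons (P.lf 18290966 0 0) (P.cons (P.lf 0 2375014 0) (P.cons (P.lf 0 242156 0) P.nil))) (P.cons (P.cons (P.lf 783834 0 0) (P.cons (P.lf 0 321298 0) P.nil)) (P.cons (P.cons (P.lf 0 898834 0) P.nil) P.nil)))))) 534142)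
 EL.nil)
noncomputable def S198_227_290_364_42 : EL := (EL.cons 14 (TM.mk (P.cons (P.lf 0 303132848 0) (P.cons (P.lf 282013848 0 0) (P.cons (P.lf 0 77386344 0) (P.cons (P.lf 1937536 0 0) (P.cons (P.lf 1329912 0 0) (P.cons (P.lf 9556 0 0) P.nil)))))) 14366)
 EL.nil)
noncomputable def S198_227_290_364_43 : EL := (EL.cons 14 (TM.mk (P.cons (P.cons (P.lf 0 169535864 0) (P.cons (P.lf 16095506 0 0) (P.cons (P.lf 2072636 0 0) (P.lf 0 138174 0)))) (P.cons (P.cons (P.lf 145562842 0 0) (P.cons (P.lf 0 12647452 0) (P.cons (P.lf 0 1628626 0) (P.lf 108574 0 0)))) (P.cons (P.cons (P.lf 0 24436250 0) (P.cons (P.lf 1722766 0 0) (P.cons (P.lf 221842 0 0) (P.lf 0 14788 0)))) (P.cons (P.cons (P.lf 0 8888294 0) (P.cons (P.lf 650176 0 0) (P.cons (P.lf 83724 0 0) P.nil))) (P.cons (P.cons (P.lf 2516602 0 0) (P.cons (P.lf 0 97412 0) P.nil)) (P.cons (P.cons (P.lf 133776 0 0) P.nil) P.nil))))))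 145362)
 EL.nil)
noncomputable def S198_227_290_364_44 : EL := (EL.cons 14 (TM.mk (P.cons (P.cons (P.lf 0 94817864 0) (P.cons (P.lf 18003760 0 0) (P.cons (P.lf 1463736 0 0) (P.cons (P.lf 0 374658 0) (P.cons (P.lf 502 0 0) (P.cons (P.lf 1888 0 0) P.nil)))))) (P.cons (P.cons (P.lf 74608520 0 0) (P.cons (P.lf 0 12855416 0) (P.cons (P.lf 0 1107402 0) (P.cons (P.lf 251494 0 0) (P.cons (P.lf 0 320 0) P.nil))))) (P.cons (P.cons (P.lf 0 3615374 0) (P.cons (P.lf 112546 0 0) (P.cons (P.lf 31862 0 0) (P.cons (P.lf 3506 0 0) P.nil)))) (P.cons (P.cons (P.lf 0 9489992 0) (P.cons (P.lf 1479160 0 0) (P.cons (P.lf 135982 0 0) P.nil))) (P.cons (P.cons (P.lf 1536350 0 0) (P.cons (P.lf 0 120368 0) P.nil)) (P.cons (P.cons (P.lf 452932 0 0) P.nil) P.nil)))))) 407912)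
 EL.nil)
noncomputable def S198_227_290_364_45 : EL := (EL.cons 14 (TM.mk (P.cons (P.cons (P.lf 1502711524 0 0) (P.cons (P.lf 0 427996240 0) (P.cons (P.lf 0 14480158 0) (P.cons (P.lf 12853154 0 0) (P.cons (P.lf 0 520628 0) (P.cons (P.lf 0 120686 0) P.nil)))))) (P.cons (P.cons (P.lf 323389770 0 0) (P.cons (P.lf 0 123273590 0) (P.cons (P.lf 0 1211684 0) (P.cons (P.lf 4276802 0 0) (P.cons (P.lf 0 224040 0) P.nil))))) (P.cons (P.cons (P.lf 0 177032080 0) (P.cons (P.lf 32834010 0 0) (P.cons (P.lf 2996062 0 0) (P.cons (P.lf 0 626648 0) P.nil)))) (P.cons (P.cons (P.lf 0 31846742 0) (P.cons (P.lf 10700994 0 0) (P.cons (P.lf 404042 0 0) P.nil))) (P.cons (P.cons (P.lf 9959864 0 0) (P.cons (P.lf 0 1132660 0) P.nil)) (P.cons (P.cons (P.lf 1425078 0 0) P.nil) P.nil)))))) 2135128)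
 EL.nil)
noncomputable def S198_227_290_364_46 : EL := (EL.cons 15 (TM.mk (P.lf 4294967296 0 0) 0)
 EL.nil)
noncomputable def S198_227_290_364_47 : EL := (EL.cons 15 (TM.mk (P.cons (P.cons (P.lf 2402085425 0 0) (P.cons (P.lf 0 228050764 0) (P.cons (P.lf 0 29366348 0) (P.lf 1957756 0 0)))) (P.cons (P.cons (P.lf 172312926 0 0) (P.cons (P.lf 0 32965992 0) (P.cons (P.lf 0 4245064 0) (P.lf 283004 0 0)))) (P.cons (P.cons (P.lf 0 106689455 0) (P.cons (P.lf 3140288 0 0) (P.cons (P.lf 404376 0 0) (P.lf 0 26956 0)))) (P.cons (P.cons (P.lf 0 1957904 0) (P.cons (P.lf 667604 0 0) (P.cons (P.lf 85964 0 0) P.nil))) (P.cons (P.cons (P.lf 1398211 0 0) (P.cons (P.lf 0 11612 0) P.nil)) (P.cons (P.cons (P.lf 54957 0 0) P.nil) P.nil)))))) 40305)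
 EL.nil)
noncomputable def S198_227_290_364_48 : EL := (EL.cons 15 (TM.mk (P.cons (P.cons (P.lf 1343436164 0 0) (P.cons (P.lf 0 255088050 0) (P.cons (P.lf 0 20739110 0) (P.cons (P.lf 5308406 0 0) (P.cons (P.lf 0 7113 0) (P.cons (P.lf 0 26771 0) P.nil)))))) (P.cons (P.cons (P.lf 192742034 0 0) (P.cons (P.lf 0 55173050 0) (P.cons (P.lf 0 3603886 0) (P.cons (P.lf 1375250 0 0) (P.cons (P.lf 0 2056 0) P.nil))))) (P.cons (P.cons (P.lf 0 112425215 0) (P.cons (P.lf 12197245 0 0) (P.cons (P.lf 1490199 0 0) (P.cons (P.lf 0 125426 0) P.nil)))) (P.cons (P.cons (P.lf 0 10750733 0) (P.cons (P.lf 2844435 0 0) (P.cons (P.lf 247173 0 0) P.nil))) (P.cons (P.cons (P.lf 4057106 0 0) (P.cons (P.lf 0 233860 0) P.nil)) (P.cons (P.cons (P.lf 270935 0 0) P.nil) P.nil)))))) 367515)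
 EL.nil)
noncomputable def S198_227_290_364 : SL := (SL.cons S198_227_290_364_0 (SL.cons S198_227_290_364_1 (SL.cons S198_227_290_364_2 (SL.cons S198_227_290_364_3 (SL.cons S198_227_290_364_4 (SL.cons S198_227_290_364_5 (SL.cons S198_227_290_364_6 (SL.cons S198_227_290_364_7 (SL.cons S198_227_290_364_8 (SL.cons S198_227_290_364_9 (SL.cons S198_227_290_364_10 (SL.cons S198_227_290_364_11 (SL.cons S198_227_290_364_12 (SL.cons S198_227_290_364_13 (SL.cons S198_227_290_364_14 (SL.cons S198_227_290_364_15 (SL.cons S198_227_290_364_16 (SL.cons S198_227_290_364_17 (SL.cons S198_227_290_364_18 (SL.cons S198_227_290_364_19 (SL.cons S198_227_290_364_20 (SL.cons S198_227_290_364_21 (SL.cons S198_227_290_364_22 (SL.cons S198_227_290_364_23 (SL.cons S198_227_290_364_24 (SL.cons S198_227_290_364_25 (SL.cons S198_227_290_364_26 (SL.cons S198_227_290_364_27 (SL.cons S198_227_290_364_28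 (SL.cons S198_227_290_364_29 (SL.cons S198_227_290_364_30 (SL.cons S198_227_290_364_31 (SL.cons S198_227_290_364_32 (SL.cons S198_227_290_364_33 (SL.cons S198_227_290_364_34 (SL.cons S198_227_290_364_35 (SL.cons S198_227_290_364_36 (SL.cons S198_227_290_364_37 (SL.cons S198_227_290_364_38 (SL.cons S198_227_290_364_39 (SL.cons S198_227_290_364_40 (SL.cons S198_227_290_364_41 (SL.cons S198_227_290_364_42 (SL.cons S198_227_290_364_43 (SL.cons S198_227_290_364_44 (SL.cons S198_227_290_364_45 (SL.cons S198_227_290_364_46 (SL.cons S198_227_290_364_47 (SL.cons S198_227_290_364_48 SL.nil)))))))))))))))))))))))))))))))))))))))))))))))))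
noncomputable def S198_227_364_401_0 : EL := (EL.cons 0 (TM.mk (P.cons (P.lf 7643457911 0 0) (P.cons (P.lf 503779721 0 0) (P.cons (P.lf 0 60126632 0) (P.cons (P.lf 0 7110123 0) (P.cons (P.lf 270363 0 0) (P.cons (P.lf 53070 0 0) P.nil)))))) 3984)
 (EL.cons 1 (TM.mk (P.cons (P.lf 0 1228710643 0) (P.cons (P.lf 321830180 0 0) (P.cons (P.lf 40457490 0 0) (P.cons (P.lf 0 2710608 0) (P.cons (P.lf 0 384633 0) (P.cons (P.lf 7027 0 0) P.nil)))))) 2881)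
 (EL.cons 5 (TM.mk (P.cons (P.lf 4583770480 0 0) (P.cons (P.lf 0 179121676 0) (P.cons (P.lf 21378358 0 0) (P.cons (P.lf 2528040 0 0) (P.cons (P.lf 0 96128 0) (P.cons (P.lf 0 18870 0) P.nil)))))) 1697)
 (EL.cons 9 (TM.mk (P.lf 6442450944 0 0) 2)
 EL.nil))))
noncomputable def S198_227_364_401_1 : EL := (EL.cons 0 (TM.mk (P.cons (P.cons (P.lf 3111746200 0 0) (P.cons (P.lf 0 183620223 0) (P.cons (P.lf 0 6230015 0) (P.lf 296668 0 0)))) (P.cons (P.cons (P.lf 1359965874 0 0) (P.cons (P.lf 0 97609035 0) (P.cons (P.lf 0 3311746 0) (P.lf 157689 0 0)))) (P.cons (P.cons (P.lf 0 401543884 0) (P.cons (P.lf 737305 0 0) (P.cons (P.lf 25016 0 0) (P.lf 0 1193 0)))) (P.cons (P.cons (P.lf 0 61546759 0) (P.cons (P.lf 3745190 0 0) (P.cons (P.lf 127058 0 0) P.nil))) (P.cons (P.cons (P.lf 10317715 0 0) (P.cons (P.lf 188742 0 0) P.nil)) (P.cons (P.cons (P.lf 1561960 0 0) P.nil) P.nil))))))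 391824)
 (EL.cons 1 (TM.mk (P.cons (P.cons (P.lf 0 858822147 0) (P.cons (P.lf 98230650 0 0) (P.cons (P.lf 3332844 0 0) (P.lf 0 158700 0)))) (P.cons (P.cons (P.lf 565767321 0 0) (P.cons (P.lf 0 4292120 0) (P.cons (P.lf 0 145626 0) (P.lf 6936 0 0)))) (P.cons (P.cons (P.lf 174424301 0 0) (P.cons (P.lf 0 10716975 0) (P.cons (P.lf 0 363605 0) (P.lf 17306 0 0)))) (P.cons (P.cons (P.lf 0 34206596 0) (P.cons (P.lf 0 481300 0) (P.cons (P.lf 0 16324 0) P.nil))) (P.cons (P.cons (P.lf 0 6089088 0) (P.cons (P.lf 273031 0 0) P.nil)) (P.cons (P.cons (P.lf 618812 0 0) P.nil) P.nil)))))) 208386)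
 (EL.cons 5 (TM.mk (P.cons (P.cons (P.lf 2294523475 0 0) (P.cons (P.lf 0 192207524 0) (P.cons (P.lf 0 6521372 0) (P.lf 310540 0 0)))) (P.cons (P.cons (P.lf 0 289288385 0) (P.cons (P.lf 0 2516846 0) (P.cons (P.lf 0 85402 0) (P.lf 4074 0 0)))) (P.cons (P.cons (P.lf 0 29201116 0) (P.cons (P.lf 3283588 0 0) (P.cons (P.lf 111412 0 0) (P.lf 0 5306 0)))) (P.cons (P.cons (P.lf 20553206 0 0) (P.cons (P.lf 0 577814 0) (P.cons (P.lf 0 19602 0) P.nil))) (P.cons (P.cons (P.lf 0 1326315 0) (P.cons (P.lf 0 80216 0) P.nil)) (P.cons (P.cons (P.lf 0 482150 0) P.nil) P.nil)))))) 190578)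
 (EL.cons 9 (TM.mk (P.cons (P.cons (P.lf 3000813631 0 0) (P.cons (P.lf 0 227201214 0) (P.cons (P.lf 0 7708662 0) (P.lf 367074 0 0)))) (P.cons (P.cons (P.lf 171401499 0 0) (P.cons (P.lf 0 32843184 0) (P.cons (P.lf 0 1114326 0) (P.lf 53058 0 0)))) (P.cons (P.cons (P.lf 0 151740232 0) (P.cons (P.lf 3128586 0 0) (P.cons (P.lf 106146 0 0) (P.lf 0 5052 0)))) (P.cons (P.cons (P.lf 0 1173600 0) (P.cons (P.lf 665118 0 0) (P.cons (P.lf 22560 0 0) P.nil))) (P.cons (P.cons (P.lf 2066638 0 0) (P.cons (P.lf 0 11568 0) P.nil)) (P.cons (P.cons (P.lf 64597 0 0) P.nil) P.nil)))))) 36470)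
 (EL.cons 2 (TM.mk (P.cons (P.cons (P.lf 670631335 0 0) (P.cons (P.lf 51838908 0 0) (P.cons (P.lf 0 3273139 0) (P.cons (P.lf 0 61374 0) (P.lf 2190 0 0))))) (P.cons (P.cons (P.lf 0 143340707 0) (P.cons (P.lf 0 11080043 0) (P.cons (P.lf 699600 0 0) (P.cons (P.lf 13117 0 0) (P.lf 0 466 0))))) (P.cons (P.cons (P.lf 0 35181014 0) (P.cons (P.lf 0 2719442 0) (P.cons (P.lf 171705 0 0) (P.cons (P.lf 3217 0 0) P.nil)))) (P.cons (P.cons (P.lf 1396825 0 0) (P.cons (P.lf 107971 0 0) (P.cons (P.lf 0 6817 0) P.nil))) (P.cons (P.cons (P.lf 507335 0 0) (P.cons (P.lf 39214 0 0) P.nil)) (P.cons (P.cons (P.lf 1622 0 0) P.nil) P.nil)))))) 12266)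
 (EL.cons 6 (TM.mk (P.cons (P.cons (P.lf 1014469413 0 0) (P.cons (P.lf 78417132 0 0) (P.cons (P.lf 0 4951305 0) (P.cons (P.lf 0 92844 0) (P.lf 3315 0 0))))) (P.cons (P.cons (P.lf 146647146 0 0) (P.cons (P.lf 11335626 0 0) (P.cons (P.lf 0 715737 0) (P.cons (P.lf 0 13419 0) (P.lf 477 0 0))))) (P.cons (P.cons (P.lf 0 13969377 0) (P.cons (P.lf 0 1079814 0) (P.cons (P.lf 68178 0 0) (P.cons (P.lf 1278 0 0) P.nil)))) (P.cons (P.cons (P.lf 0 2969817 0) (P.cons (P.lf 0 229560 0) (P.cons (P.lf 14493 0 0) P.nil))) (P.cons (P.cons (P.lf 51666 0 0) (P.cons (P.lf 3993 0 0) P.nil)) (P.cons (P.cons (P.lf 30042 0 0) P.nil) P.nil)))))) 7461)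
 EL.nil))))))
noncomputable def S198_227_364_401_2 : EL := (EL.cons 0 (TM.mk (P.cons (P.cons (P.lf 1240515595 0 0) (P.cons (P.lf 0 139423504 0) (P.cons (P.lf 0 1285503 0) (P.cons (P.lf 459025 0 0) (P.cons (P.lf 0 7174 0) (P.cons (P.lf 0 378 0) P.nil)))))) (P.cons (P.cons (P.lf 1133747634 0 0) (P.cons (P.lf 0 161155907 0) (P.cons (P.lf 0 85956 0) (P.cons (P.lf 625555 0 0) (P.cons (P.lf 0 11191 0) P.nil))))) (P.cons (P.cons (P.lf 0 285429396 0) (P.cons (P.lf 8901120 0 0) (P.cons (P.lf 1023654 0 0) (P.cons (P.lf 34583 0 0) P.nil)))) (P.cons (P.cons (P.lf 0 119292019 0) (P.cons (P.lf 14165069 0 0) (P.cons (P.lf 204319 0 0) P.nil))) (P.cons (P.cons (P.lf 19860455 0 0) (P.cons (P.lf 225577 0 0) P.nil)) (P.cons (P.cons (P.lf 5037202 0 0) P.nil) P.nil)))))) 2111356)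
 (EL.cons 1 (TM.mk (P.cons (P.cons (P.lf 0 533478690 0) (P.cons (P.lf 111717082 0 0) (P.cons (P.lf 0 1609871 0) (P.cons (P.lf 0 546943 0) (P.cons (P.lf 11232 0 0) (P.cons (P.lf 589 0 0) P.nil)))))) (P.cons (P.cons (P.lf 441986236 0 0) (P.cons (P.lf 0 27487980 0) (P.cons (P.lf 0 1589901 0) (P.cons (P.lf 0 186 0) (P.cons (P.lf 1362 0 0) P.nil))))) (P.cons (P.cons (P.lf 190205713 0 0) (P.cons (P.lf 0 28019277 0) (P.cons (P.lf 0 231775 0) (P.cons (P.lf 94032 0 0) P.nil)))) (P.cons (P.cons (P.lf 0 44252633 0) (P.cons (P.lf 201055 0 0) (P.cons (P.lf 142596 0 0) P.nil))) (P.cons (P.cons (P.lf 0 13961644 0) (P.cons (P.lf 1590955 0 0) P.nil)) (P.cons (P.cons (P.lf 1925448 0 0) P.nil) P.nil)))))) 1069423)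
 (EL.cons 5 (TM.mk (P.cons (P.cons (P.lf 1143035076 0 0) (P.cons (P.lf 0 190302875 0) (P.cons (P.lf 1399252 0 0) (P.cons (P.lf 840545 0 0) (P.cons (P.lf 0 16336 0) (P.cons (P.lf 0 853 0) P.nil)))))) (P.cons (P.cons (P.lf 0 222147097 0) (P.cons (P.lf 8923225 0 0) (P.cons (P.lf 1014575 0 0) (P.cons (P.lf 33898 0 0) (P.cons (P.lf 0 1490 0) P.nil))))) (P.cons (P.cons (P.lf 0 53550933 0) (P.cons (P.lf 10287323 0 0) (P.cons (P.lf 32128 0 0) (P.cons (P.lf 0 38114 0) P.nil)))) (P.cons (P.cons (P.lf 32025207 0 0) (P.cons (P.lf 0 2298342 0) (P.cons (P.lf 0 69065 0) P.nil))) (P.cons (P.cons (P.lf 0 899835 0) (P.cons (P.lf 0 370980 0) P.nil)) (P.cons (P.cons (P.lf 0 1535506 0) P.nil) P.nil)))))) 1007810)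
 (EL.cons 9 (TM.mk (P.cons (P.cons (P.lf 1397741718 0 0) (P.cons (P.lf 0 211655007 0) (P.cons (P.lf 831340 0 0) (P.cons (P.lf 885667 0 0) (P.cons (P.lf 0 16666 0) (P.cons (P.lf 0 877 0) P.nil)))))) (P.cons (P.cons (P.lf 159673378 0 0) (P.cons (P.lf 0 42685276 0) (P.cons (P.lf 868255 0 0) (P.cons (P.lf 226152 0 0) (P.cons (P.lf 0 4818 0) P.nil))))) (P.cons (P.cons (P.lf 0 136797291 0) (P.cons (P.lf 11869549 0 0) (P.cons (P.lf 349480 0 0) (P.cons (P.lf 0 22786 0) P.nil)))) (P.cons (P.cons (P.lf 0 9167398 0) (P.cons (P.lf 2415979 0 0) (P.cons (P.lf 3153 0 0) P.nil))) (P.cons (P.cons (P.lf 5436747 0 0) (P.cons (P.lf 0 256560 0) P.nil)) (P.cons (P.cons (P.lf 225426 0 0) P.nil) P.nil)))))) 244372)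
 (EL.cons 2 (TM.mk (P.cons (P.cons (P.lf 624743493 0 0) (P.cons (P.lf 990506 0 0) (P.cons (P.lf 0 8310380 0) (P.cons (P.lf 126050 0 0) (P.cons (P.lf 20109 0 0) (P.cons (P.lf 0 376 0) P.nil)))))) (P.cons (P.cons (P.lf 0 97848326 0) (P.cons (P.lf 0 4291025 0) (P.cons (P.lf 841561 0 0) (P.cons (P.lf 0 3718 0) (P.cons (P.lf 0 1569 0) P.nil))))) (P.cons (P.cons (P.lf 0 71991928 0) (P.cons (P.lf 0 970644 0) (P.cons (P.lf 862368 0 0) (P.cons (P.lf 0 11205 0) P.nil)))) (P.cons (P.cons (P.lf 5937187 0 0) (P.cons (P.lf 718368 0 0) (P.cons (P.lf 0 118 0) P.nil))) (P.cons (P.cons (P.lf 2686674 0 0) (P.cons (P.lf 91473 0 0) P.nil)) (P.cons (P.cons (P.lf 0 102982 0) P.nil) P.nil)))))) 168952)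
 (EL.cons 6 (TM.mk (P.cons (P.cons (P.lf 945054504 0 0) (P.cons (P.lf 1498344 0 0) (P.cons (P.lf 0 12571182 0) (P.cons (P.lf 190680 0 0) (P.cons (P.lf 30420 0 0) (P.cons (P.lf 0 570 0) P.nil)))))) (P.cons (P.cons (P.lf 190592784 0 0) (P.cons (P.lf 0 5954220 0) (P.cons (P.lf 0 3231156 0) (P.cons (P.lf 62688 0 0) (P.cons (P.lf 8520 0 0) P.nil))))) (P.cons (P.cons (P.lf 0 52998390 0) (P.cons (P.lf 0 3621306 0) (P.cons (P.lf 311544 0 0) (P.cons (P.lf 3006 0 0) P.nil)))) (P.cons (P.cons (P.lf 0 10787532 0) (P.cons (P.lf 0 130062 0) (P.cons (P.lf 130926 0 0) P.nil))) (P.cons (P.cons (P.lf 1145574 0 0) (P.cons (P.lf 128250 0 0) P.nil)) (P.cons (P.cons (P.lf 290148 0 0) P.nil) P.nil)))))) 113586)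
 EL.nil))))))
noncomputable def S198_227_364_401_3 : EL := (EL.cons 0 (TM.mk (P.cons (P.lf 812258952 0 0) (P.cons (P.lf 0 503779721 0) (P.cons (P.lf 60126632 0 0) (P.cons (P.lf 7110123 0 0) (P.cons (P.lf 0 270363 0) (P.cons (P.lf 0 53070 0) P.nil)))))) 3984)
 (EL.cons 1 (TM.mk (P.cons (P.lf 1228710643 0 0) (P.cons (P.lf 0 321830180 0) (P.cons (P.lf 0 40457490 0) (P.cons (P.lf 2710608 0 0) (P.cons (P.lf 384633 0 0) (P.cons (P.lf 0 7027 0) P.nil)))))) 2881)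
 (EL.cons 5 (TM.mk (P.cons (P.lf 1858680464 0 0) (P.cons (P.lf 179121676 0 0) (P.cons (P.lf 0 21378358 0) (P.cons (P.lf 0 2528040 0) (P.cons (P.lf 96128 0 0) (P.cons (P.lf 18870 0 0) P.nil)))))) 1690)
 EL.nil)))
noncomputable def S198_227_364_401_4 : EL := (EL.cons 0 (TM.mk (P.cons (P.cons (P.lf 378340131 0 0) (P.cons (P.lf 0 28645342 0) (P.cons (P.lf 0 971901 0) (P.lf 46279 0 0)))) (P.cons (P.cons (P.lf 0 213044175 0) (P.cons (P.lf 13625588 0 0) (P.cons (P.lf 462299 0 0) (P.lf 0 22013 0)))) (P.cons (P.cons (P.lf 0 4528112 0) (P.cons (P.lf 842241 0 0) (P.cons (P.lf 28575 0 0) (P.lf 0 1358 0)))) (P.cons (P.cons (P.lf 16629125 0 0) (P.cons (P.lf 0 718055 0) (P.cons (P.lf 0 24363 0) P.nil))) (P.cons (P.cons (P.lf 0 1000608 0) (P.cons (P.lf 0 50981 0) P.nil)) (P.cons (P.cons (P.lf 0 363791 0) P.nil) P.nil)))))) 69234)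
 (EL.cons 1 (TM.mk (P.cons (P.cons (P.lf 572318154 0 0) (P.cons (P.lf 0 43332039 0) (P.cons (P.lf 0 1470202 0) (P.lf 70006 0 0)))) (P.cons (P.cons (P.lf 0 117214636 0) (P.cons (P.lf 5085864 0 0) (P.cons (P.lf 172556 0 0) (P.lf 0 8216 0)))) (P.cons (P.cons (P.lf 0 56346939 0) (P.cons (P.lf 3664140 0 0) (P.cons (P.lf 124318 0 0) (P.lf 0 5917 0)))) (P.cons (P.cons (P.lf 7542489 0 0) (P.cons (P.lf 81221 0 0) (P.cons (P.lf 2754 0 0) P.nil))) (P.cons (P.cons (P.lf 1656952 0 0) (P.cons (P.lf 0 82460 0) P.nil)) (P.cons (P.cons (P.lf 0 140430 0) P.nil) P.nil)))))) 51980)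
 (EL.cons 5 (TM.mk (P.cons (P.cons (P.lf 865750272 0 0) (P.cons (P.lf 0 65548726 0) (P.cons (P.lf 0 2223988 0) (P.lf 105902 0 0)))) (P.cons (P.cons (P.lf 132882872 0 0) (P.cons (P.lf 0 15792382 0) (P.cons (P.lf 0 535814 0) (P.lf 25512 0 0)))) (P.cons (P.cons (P.lf 0 48970080 0) (P.cons (P.lf 743396 0 0) (P.cons (P.lf 25220 0 0) (P.lf 0 1198 0)))) (P.cons (P.cons (P.lf 0 6303776 0) (P.cons (P.lf 477014 0 0) (P.cons (P.lf 16182 0 0) P.nil))) (P.cons (P.cons (P.lf 1044650 0 0) (P.cons (P.lf 14270 0 0) P.nil)) (P.cons (P.cons (P.lf 150880 0 0) P.nil) P.nil)))))) 39196)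
 EL.nil)))
noncomputable def S198_227_364_401_5 : EL := (EL.cons 0 (TM.mk (P.cons (P.cons (P.lf 176226133 0 0) (P.cons (P.lf 0 26685290 0) (P.cons (P.lf 104813 0 0) (P.cons (P.lf 111663 0 0) (P.cons (P.lf 0 2100 0) (P.cons (P.lf 0 108 0) P.nil)))))) (P.cons (P.cons (P.lf 0 89167586 0) (P.cons (P.lf 11169040 0 0) (P.cons (P.lf 44460 0 0) (P.cons (P.lf 0 40742 0) (P.cons (P.lf 694 0 0) P.nil))))) (P.cons (P.cons (P.lf 0 16688295 0) (P.cons (P.lf 2859008 0 0) (P.cons (P.lf 0 16073 0) (P.cons (P.lf 0 12290 0) P.nil)))) (P.cons (P.cons (P.lf 12574116 0 0) (P.cons (P.lf 0 1255522 0) (P.cons (P.lf 0 17908 0) P.nil))) (P.cons (P.cons (P.lf 243172 0 0) (P.cons (P.lf 0 148717 0) P.nil)) (P.cons (P.cons (P.lf 0 651461 0) P.nil) P.nil)))))) 226278)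
 (EL.cons 1 (TM.mk (P.cons (P.cons (P.lf 266578687 0 0) (P.cons (P.lf 0 40367051 0) (P.cons (P.lf 158551 0 0) (P.cons (P.lf 168915 0 0) (P.cons (P.lf 0 3178 0) (P.cons (P.lf 0 165 0) P.nil)))))) (P.cons (P.cons (P.lf 0 39370588 0) (P.cons (P.lf 2432165 0 0) (P.cons (P.lf 124063 0 0) (P.cons (P.lf 0 1110 0) (P.cons (P.lf 0 86 0) P.nil))))) (P.cons (P.cons (P.lf 0 42844115 0) (P.cons (P.lf 5725254 0 0) (P.cons (P.lf 18058 0 0) (P.cons (P.lf 0 21202 0) P.nil)))) (P.cons (P.cons (P.lf 4670606 0 0) (P.cons (P.lf 46843 0 0) (P.cons (P.lf 0 21958 0) P.nil))) (P.cons (P.cons (P.lf 2504548 0 0) (P.cons (P.lf 0 274753 0) P.nil)) (P.cons (P.cons (P.lf 0 220575 0) P.nil) P.nil)))))) 177854)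
 (EL.cons 5 (TM.mk (P.cons (P.cons (P.lf 403255722 0 0) (P.cons (P.lf 0 61063564 0) (P.cons (P.lf 239844 0 0) (P.cons (P.lf 255518 0 0) (P.cons (P.lf 0 4806 0) (P.cons (P.lf 0 252 0) P.nil)))))) (P.cons (P.cons (P.lf 84928488 0 0) (P.cons (P.lf 0 18199638 0) (P.cons (P.lf 273608 0 0) (P.cons (P.lf 89870 0 0) (P.cons (P.lf 0 1852 0) P.nil))))) (P.cons (P.cons (P.lf 0 39665478 0) (P.cons (P.lf 2939978 0 0) (P.cons (P.lf 122208 0 0) (P.cons (P.lf 0 3224 0) P.nil)))) (P.cons (P.cons (P.lf 0 7526594 0) (P.cons (P.lf 1251734 0 0) (P.cons (P.lf 7418 0 0) P.nil))) (P.cons (P.cons (P.lf 1725786 0 0) (P.cons (P.lf 0 32640 0) P.nil)) (P.cons (P.cons (P.lf 306772 0 0) P.nil) P.nil)))))) 149158)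
 EL.nil)))
noncomputable def S198_227_364_401_6 : EL := (EL.cons 12 (TM.mk (P.lf 8589934592 0 0) 0)
 (EL.cons 3 (TM.mk (P.cons (P.lf 0 1320724353 0) (P.cons (P.lf 409570215 0 0) (P.cons (P.lf 14623338 0 0) (P.cons (P.lf 0 1245645 0) (P.cons (P.lf 0 85526 0) (P.cons (P.lf 2831 0 0) P.nil)))))) 532)
 (EL.cons 7 (TM.mk (P.cons (P.lf 0 1997870342 0) (P.cons (P.lf 0 96267727 0) (P.cons (P.lf 13808992 0 0) (P.cons (P.lf 693290 0 0) (P.cons (P.lf 0 37347 0) (P.cons (P.lf 0 3551 0) P.nil)))))) 296)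
 EL.nil)))
noncomputable def S198_227_364_401_7 : EL := (EL.cons 12 (TM.mk (P.cons (P.cons (P.lf 4001084842 0 0) (P.cons (P.lf 0 302934952 0) (P.cons (P.lf 0 10278216 0) (P.lf 489432 0 0)))) (P.cons (P.cons (P.lf 228535332 0 0) (P.cons (P.lf 0 43790912 0) (P.cons (P.lf 0 1485768 0) (P.lf 70744 0 0)))) (P.cons (P.cons (P.lf 0 202320310 0) (P.cons (P.lf 4171448 0 0) (P.cons (P.lf 141528 0 0) (P.lf 0 6736 0)))) (P.cons (P.cons (P.lf 0 1564800 0) (P.cons (P.lf 886824 0 0) (P.cons (P.lf 30080 0 0) P.nil))) (P.cons (P.cons (P.lf 2755518 0 0) (P.cons (P.lf 0 15424 0) P.nil)) (P.cons (P.cons (P.lf 86130 0 0) P.nil) P.nil)))))) 48602)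
 (EL.cons 3 (TM.mk (P.cons (P.cons (P.lf 114049219 0 0) (P.cons (P.lf 0 93154042 0) (P.cons (P.lf 0 3160602 0) (P.lf 150502 0 0)))) (P.cons (P.cons (P.lf 0 1117317207 0) (P.cons (P.lf 15422098 0 0) (P.cons (P.lf 523254 0 0) (P.lf 0 24916 0)))) (P.cons (P.cons (P.lf 0 1427895 0) (P.cons (P.lf 6490084 0 0) (P.cons (P.lf 220198 0 0) (P.lf 0 10482 0)))) (P.cons (P.cons (P.lf 30570677 0 0) (P.cons (P.lf 0 63846 0) (P.cons (P.lf 0 2166 0) P.nil))) (P.cons (P.cons (P.lf 1398783 0 0) (P.cons (P.lf 0 122246 0) P.nil)) (P.cons (P.cons (P.lf 0 372630 0) P.nil) P.nil)))))) 119630)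
 (EL.cons 7 (TM.mk (P.cons (P.cons (P.lf 0 1101984704 0) (P.cons (P.lf 103300630 0 0) (P.cons (P.lf 3504870 0 0) (P.lf 0 166900 0)))) (P.cons (P.cons (P.lf 262620630 0 0) (P.cons (P.lf 0 3624897 0) (P.cons (P.lf 0 122985 0) (P.lf 5854 0 0)))) (P.cons (P.cons (P.lf 0 46712266 0) (P.cons (P.lf 0 876080 0) (P.cons (P.lf 0 29728 0) (P.lf 1416 0 0)))) (P.cons (P.cons (P.lf 0 6118531 0) (P.cons (P.lf 363549 0 0) (P.cons (P.lf 12332 0 0) P.nil))) (P.cons (P.cons (P.lf 1484972 0 0) (P.cons (P.lf 16354 0 0) P.nil)) (P.cons (P.cons (P.lf 130329 0 0) P.nil) P.nil)))))) 98129)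
 (EL.cons 10 (TM.mk (P.cons (P.cons (P.lf 0 2180878740 0) (P.cons (P.lf 0 168579021 0) (P.cons (P.lf 10644183 0 0) (P.cons (P.lf 199596 0 0) (P.lf 0 7128 0))))) (P.cons (P.cons (P.lf 0 210172032 0) (P.cons (P.lf 0 16246017 0) (P.cons (P.lf 1025781 0 0) (P.cons (P.lf 19233 0 0) (P.lf 0 684 0))))) (P.cons (P.cons (P.lf 25084248 0 0) (P.cons (P.lf 1938978 0 0) (P.cons (P.lf 0 122427 0) (P.cons (P.lf 0 2295 0) P.nil)))) (P.cons (P.cons (P.lf 2966268 0 0) (P.cons (P.lf 229287 0 0) (P.cons (P.lf 0 14475 0) P.nil))) (P.cons (P.cons (P.lf 0 112791 0) (P.cons (P.lf 0 8718 0) P.nil)) (P.cons (P.cons (P.lf 0 22140 0) P.nil) P.nil)))))) 5001)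
 EL.nil))))
noncomputable def S198_227_364_401_8 : EL := (EL.cons 12 (TM.mk (P.cons (P.cons (P.lf 1863655624 0 0) (P.cons (P.lf 0 282206676 0) (P.cons (P.lf 1108454 0 0) (P.cons (P.lf 1180890 0 0) (P.cons (P.lf 0 22222 0) (P.cons (P.lf 0 1170 0) P.nil)))))) (P.cons (P.cons (P.lf 212897838 0 0) (P.cons (P.lf 0 56913702 0) (P.cons (P.lf 1157674 0 0) (P.cons (P.lf 301536 0 0) (P.cons (P.lf 0 6424 0) P.nil))))) (P.cons (P.cons (P.lf 0 182396388 0) (P.cons (P.lf 15826066 0 0) (P.cons (P.lf 465974 0 0) (P.cons (P.lf 0 30382 0) P.nil)))) (P.cons (P.cons (P.lf 0 12223198 0) (P.cons (P.lf 3221306 0 0) (P.cons (P.lf 4204 0 0) P.nil))) (P.cons (P.cons (P.lf 7248996 0 0) (P.cons (P.lf 0 342080 0) P.nil)) (P.cons (P.cons (P.lf 300568 0 0) P.nil) P.nil)))))) 325800)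
 (EL.cons 3 (TM.mk (P.cons (P.cons (P.lf 392787225 0 0) (P.cons (P.lf 0 138214165 0) (P.cons (P.lf 3523551 0 0) (P.cons (P.lf 780614 0 0) (P.cons (P.lf 0 17080 0) (P.cons (P.lf 0 901 0) P.nil)))))) (P.cons (P.cons (P.lf 0 1090922367 0) (P.cons (P.lf 91759559 0 0) (P.cons (P.lf 2940821 0 0) (P.cons (P.lf 0 159953 0) (P.cons (P.lf 355 0 0) P.nil))))) (P.cons (P.cons (P.lf 0 107522694 0) (P.cons (P.lf 28485638 0 0) (P.cons (P.lf 84627 0 0) (P.cons (P.lf 0 105854 0) P.nil)))) (P.cons (P.cons (P.lf 87719283 0 0) (P.cons (P.lf 0 3813324 0) (P.cons (P.lf 0 211783 0) P.nil))) (P.cons (P.cons (P.lf 5534537 0 0) (P.cons (P.lf 0 1375430 0) P.nil)) (P.cons (P.cons (P.lf 0 2730363 0) P.nil) P.nil)))))) 820761)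
 (EL.cons 7 (TM.mk (P.cons (P.cons (P.lf 0 593127483 0) (P.cons (P.lf 108321679 0 0) (P.cons (P.lf 0 1126055 0) (P.cons (P.lf 0 500812 0) (P.cons (P.lf 9986 0 0) (P.cons (P.lf 524 0 0) P.nil)))))) (P.cons (P.cons (P.lf 256416634 0 0) (P.cons (P.lf 0 21567688 0) (P.cons (P.lf 0 691219 0) (P.cons (P.lf 37588 0 0) (P.cons (P.lf 0 81 0) P.nil))))) (P.cons (P.cons (P.lf 0 20663705 0) (P.cons (P.lf 0 2831634 0) (P.cons (P.lf 103931 0 0) (P.cons (P.lf 18143 0 0) P.nil)))) (P.cons (P.cons (P.lf 0 25534738 0) (P.cons (P.lf 2401383 0 0) (P.cons (P.lf 51509 0 0) P.nil))) (P.cons (P.cons (P.lf 4288701 0 0) (P.cons (P.lf 48369 0 0) P.nil)) (P.cons (P.cons (P.lf 839267 0 0) P.nil) P.nil)))))) 596440)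
 (EL.cons 10 (TM.mk (P.cons (P.cons (P.lf 0 2031652458 0) (P.cons (P.lf 0 3221106 0) (P.cons (P.lf 27025188 0 0) (P.cons (P.lf 0 409920 0) (P.cons (P.lf 0 65400 0) (P.cons (P.lf 1236 0 0) P.nil)))))) (P.cons (P.cons (P.lf 0 311835660 0) (P.cons (P.lf 12955434 0 0) (P.cons (P.lf 5644044 0 0) (P.cons (P.lf 0 115014 0) (P.cons (P.lf 0 15168 0) P.nil))))) (P.cons (P.cons (P.lf 114917874 0 0) (P.cons (P.lf 7138464 0 0) (P.cons (P.lf 0 754914 0) (P.cons (P.lf 0 3756 0) P.nil)))) (P.cons (P.cons (P.lf 14793042 0 0) (P.cons (P.lf 24066 0 0) (P.cons (P.lf 0 196698 0) P.nil))) (P.cons (P.cons (P.lf 0 2451474 0) (P.cons (P.lf 0 222984 0) P.nil)) (P.cons (P.cons (P.lf 0 354066 0) P.nil) P.nil)))))) 152208)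
 EL.nil))))
noncomputable def S198_227_364_401_9 : EL := (EL.cons 3 (TM.mk (P.cons (P.lf 0 1320724353 0) (P.cons (P.lf 409570215 0 0) (P.cons (P.lf 14623338 0 0) (P.cons (P.lf 0 1245645 0) (P.cons (P.lf 0 85526 0) (P.cons (P.lf 2831 0 0) P.nil)))))) 532)
 (EL.cons 7 (TM.mk (P.cons (P.lf 0 1997870342 0) (P.cons (P.lf 0 96267727 0) (P.cons (P.lf 13808992 0 0) (P.cons (P.lf 693290 0 0) (P.cons (P.lf 0 37347 0) (P.cons (P.lf 0 3551 0) P.nil)))))) 296)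
 EL.nil))
noncomputable def S198_227_364_401_10 : EL := (EL.cons 3 (TM.mk (P.cons (P.cons (P.lf 0 615176999 0) (P.cons (P.lf 46577021 0 0) (P.cons (P.lf 1580301 0 0) (P.lf 0 75251 0)))) (P.cons (P.cons (P.lf 155634828 0 0) (P.cons (P.lf 0 7711049 0) (P.cons (P.lf 0 261627 0) (P.lf 12458 0 0)))) (P.cons (P.cons (P.lf 48815253 0 0) (P.cons (P.lf 0 3245042 0) (P.cons (P.lf 0 110099 0) (P.lf 5241 0 0)))) (P.cons (P.cons (P.lf 0 9597241 0) (P.cons (P.lf 31923 0 0) (P.cons (P.lf 1083 0 0) P.nil))) (P.cons (P.cons (P.lf 0 915681 0) (P.cons (P.lf 61123 0 0) P.nil)) (P.cons (P.cons (P.lf 143859 0 0) P.nil) P.nil)))))) 28234)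
 (EL.cons 7 (TM.mk (P.cons (P.cons (P.lf 0 930583190 0) (P.cons (P.lf 70457434 0 0) (P.cons (P.lf 2390535 0 0) (P.lf 0 113833 0)))) (P.cons (P.cons (P.lf 0 97993680 0) (P.cons (P.lf 13580013 0 0) (P.cons (P.lf 460752 0 0) (P.lf 0 21938 0)))) (P.cons (P.cons (P.lf 50927060 0 0) (P.cons (P.lf 0 966431 0) (P.cons (P.lf 0 32788 0) (P.lf 1560 0 0)))) (P.cons (P.cons (P.lf 3321671 0 0) (P.cons (P.lf 0 347856 0) (P.cons (P.lf 0 11800 0) P.nil))) (P.cons (P.cons (P.lf 0 947545 0) (P.cons (P.lf 0 1862 0) P.nil)) (P.cons (P.cons (P.lf 0 72405 0) P.nil) P.nil)))))) 22525)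
 EL.nil))
noncomputable def S198_227_364_401_11 : EL := (EL.cons 3 (TM.mk (P.cons (P.cons (P.lf 0 286541805 0) (P.cons (P.lf 43389995 0 0) (P.cons (P.lf 0 170427 0) (P.cons (P.lf 0 181564 0) (P.cons (P.lf 3416 0 0) (P.cons (P.lf 179 0 0) P.nil)))))) (P.cons (P.cons (P.lf 56125977 0 0) (P.cons (P.lf 0 4705057 0) (P.cons (P.lf 0 125143 0) (P.cons (P.lf 9943 0 0) (P.cons (P.lf 0 71 0) P.nil))))) (P.cons (P.cons (P.lf 41367582 0 0) (P.cons (P.lf 0 5627380 0) (P.cons (P.lf 0 14559 0) (P.cons (P.lf 21058 0 0) P.nil)))) (P.cons (P.cons (P.lf 0 6725175 0) (P.cons (P.lf 203340 0 0) (P.cons (P.lf 23381 0 0) P.nil))) (P.cons (P.cons (P.lf 0 2057293 0) (P.cons (P.lf 244192 0 0) P.nil)) (P.cons (P.cons (P.lf 303555 0 0) P.nil) P.nil)))))) 128633)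
 (EL.cons 7 (TM.mk (P.cons (P.cons (P.lf 0 433454091 0) (P.cons (P.lf 65636395 0 0) (P.cons (P.lf 0 257807 0) (P.cons (P.lf 0 274654 0) (P.cons (P.lf 5168 0 0) (P.cons (P.lf 272 0 0) P.nil)))))) (P.cons (P.cons (P.lf 0 70402418 0) (P.cons (P.lf 16399844 0 0) (P.cons (P.lf 0 281677 0) (P.cons (P.lf 0 83366 0) (P.cons (P.lf 1743 0 0) P.nil))))) (P.cons (P.cons (P.lf 43032265 0 0) (P.cons (P.lf 0 3496704 0) (P.cons (P.lf 0 119569 0) (P.cons (P.lf 5585 0 0) P.nil)))) (P.cons (P.cons (P.lf 5379692 0 0) (P.cons (P.lf 0 1040853 0) (P.cons (P.lf 0 4249 0) P.nil))) (P.cons (P.cons (P.lf 0 1833141 0) (P.cons (P.lf 65535 0 0) P.nil)) (P.cons (P.cons (P.lf 0 187213 0) P.nil) P.nil)))))) 111936)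
 EL.nil))
noncomputable def S198_227_364_401_12 : EL := (EL.cons 4 (TM.mk (P.cons (P.lf 1320724353 0 0) (P.cons (P.lf 0 409570215 0) (P.cons (P.lf 0 14623338 0) (P.cons (P.lf 1245645 0 0) (P.cons (P.lf 85526 0 0) (P.cons (P.lf 0 2831 0) P.nil)))))) 532)
 (EL.cons 8 (TM.mk (P.cons (P.lf 1997870342 0 0) (P.cons (P.lf 96267727 0 0) (P.cons (P.lf 0 13808992 0) (P.cons (P.lf 0 693290 0) (P.cons (P.lf 37347 0 0) (P.cons (P.lf 3551 0 0) P.nil)))))) 296)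
 EL.nil))
noncomputable def S198_227_364_401_13 : EL := (EL.cons 4 (TM.mk (P.cons (P.cons (P.lf 615176999 0 0) (P.cons (P.lf 0 46577021 0) (P.cons (P.lf 0 1580301 0) (P.lf 75251 0 0)))) (P.cons (P.cons (P.lf 0 155634828 0) (P.cons (P.lf 7711049 0 0) (P.cons (P.lf 261627 0 0) (P.lf 0 12458 0)))) (P.cons (P.cons (P.lf 0 48815253 0) (P.cons (P.lf 3245042 0 0) (P.cons (P.lf 110099 0 0) (P.lf 0 5241 0)))) (P.cons (P.cons (P.lf 9597241 0 0) (P.cons (P.lf 0 31923 0) (P.cons (P.lf 0 1083 0) P.nil))) (P.cons (P.cons (P.lf 915681 0 0) (P.cons (P.lf 0 61123 0) P.nil)) (P.cons (P.cons (P.lf 0 143859 0) P.nil) P.nil)))))) 28234)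
 (EL.cons 8 (TM.mk (P.cons (P.cons (P.lf 930583190 0 0) (P.cons (P.lf 0 70457434 0) (P.cons (P.lf 0 2390535 0) (P.lf 113833 0 0)))) (P.cons (P.cons (P.lf 97993680 0 0) (P.cons (P.lf 0 13580013 0) (P.cons (P.lf 0 460752 0) (P.lf 21938 0 0)))) (P.cons (P.cons (P.lf 0 50927060 0) (P.cons (P.lf 966431 0 0) (P.cons (P.lf 32788 0 0) (P.lf 0 1560 0)))) (P.cons (P.cons (P.lf 0 3321671 0) (P.cons (P.lf 347856 0 0) (P.cons (P.lf 11800 0 0) P.nil))) (P.cons (P.cons (P.lf 947545 0 0) (P.cons (P.lf 1862 0 0) P.nil)) (P.cons (P.cons (P.lf 72405 0 0) P.nil) P.nil)))))) 22525)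
 EL.nil))
noncomputable def S198_227_364_401_14 : EL := (EL.cons 4 (TM.mk (P.cons (P.cons (P.lf 286541805 0 0) (P.cons (P.lf 0 43389995 0) (P.cons (P.lf 170427 0 0) (P.cons (P.lf 181564 0 0) (P.cons (P.lf 0 3416 0) (P.cons (P.lf 0 179 0) P.nil)))))) (P.cons (P.cons (P.lf 0 56125977 0) (P.cons (P.lf 4705057 0 0) (P.cons (P.lf 125143 0 0) (P.cons (P.lf 0 9943 0) (P.cons (P.lf 71 0 0) P.nil))))) (P.cons (P.cons (P.lf 0 41367582 0) (P.cons (P.lf 5627380 0 0) (P.cons (P.lf 14559 0 0) (P.cons (P.lf 0 21058 0) P.nil)))) (P.cons (P.cons (P.lf 6725175 0 0) (P.cons (P.lf 0 203340 0) (P.cons (P.lf 0 23381 0) P.nil))) (P.cons (P.cons (P.lf 2057293 0 0) (P.cons (P.lf 0 244192 0) P.nil)) (P.cons (P.cons (P.lf 0 303555 0) P.nil) P.nil)))))) 128633)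
 (EL.cons 8 (TM.mk (P.cons (P.cons (P.lf 433454091 0 0) (P.cons (P.lf 0 65636395 0) (P.cons (P.lf 257807 0 0) (P.cons (P.lf 274654 0 0) (P.cons (P.lf 0 5168 0) (P.cons (P.lf 0 272 0) P.nil)))))) (P.cons (P.cons (P.lf 70402418 0 0) (P.cons (P.lf 0 16399844 0) (P.cons (P.lf 281677 0 0) (P.cons (P.lf 83366 0 0) (P.cons (P.lf 0 1743 0) P.nil))))) (P.cons (P.cons (P.lf 0 43032265 0) (P.cons (P.lf 3496704 0 0) (P.cons (P.lf 119569 0 0) (P.cons (P.lf 0 5585 0) P.nil)))) (P.cons (P.cons (P.lf 0 5379692 0) (P.cons (P.lf 1040853 0 0) (P.cons (P.lf 4249 0 0) P.nil))) (P.cons (P.cons (P.lf 1833141 0 0) (P.cons (P.lf 0 65535 0) P.nil)) (P.cons (P.cons (P.lf 187213 0 0) P.nil) P.nil)))))) 111936)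
 EL.nil))
noncomputable def S198_227_364_401_15 : EL := (EL.cons 4 (TM.mk (P.cons (P.lf 0 433204774 0) (P.cons (P.lf 268682518 0 0) (P.cons (P.lf 0 32067537 0) (P.cons (P.lf 0 3792065 0) (P.cons (P.lf 144194 0 0) (P.cons (P.lf 28304 0 0) P.nil)))))) 2128)
 (EL.cons 8 (TM.mk (P.cons (P.lf 0 655312343 0) (P.cons (P.lf 171642763 0 0) (P.cons (P.lf 21577328 0 0) (P.cons (P.lf 0 1445658 0) (P.cons (P.lf 0 205138 0) (P.cons (P.lf 3748 0 0) P.nil)))))) 1533)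
 EL.nil))
noncomputable def S198_227_364_401_16 : EL := (EL.cons 4 (TM.mk (P.cons (P.cons (P.lf 0 201781403 0) (P.cons (P.lf 15277515 0 0) (P.cons (P.lf 518347 0 0) (P.lf 0 24682 0)))) (P.cons (P.cons (P.lf 113623560 0 0) (P.cons (P.lf 0 7266980 0) (P.cons (P.lf 0 246559 0) (P.lf 11740 0 0)))) (P.cons (P.cons (P.lf 2414993 0 0) (P.cons (P.lf 0 449195 0) (P.cons (P.lf 0 15240 0) (P.lf 724 0 0)))) (P.cons (P.cons (P.lf 0 8868867 0) (P.cons (P.lf 382963 0 0) (P.cons (P.lf 12993 0 0) P.nil))) (P.cons (P.cons (P.lf 533657 0 0) (P.cons (P.lf 27190 0 0) P.nil)) (P.cons (P.cons (P.lf 194022 0 0) P.nil) P.nil)))))) 36934)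
 (EL.cons 8 (TM.mk (P.cons (P.cons (P.lf 0 305236349 0) (P.cons (P.lf 23110421 0 0) (P.cons (P.lf 784108 0 0) (P.lf 0 37337 0)))) (P.cons (P.cons (P.lf 62514473 0 0) (P.cons (P.lf 0 2712461 0) (P.cons (P.lf 0 92030 0) (P.lf 4382 0 0)))) (P.cons (P.cons (P.lf 30051701 0 0) (P.cons (P.lf 0 1954208 0) (P.cons (P.lf 0 66303 0) (P.lf 3156 0 0)))) (P.cons (P.cons (P.lf 0 4022661 0) (P.cons (P.lf 0 43318 0) (P.cons (P.lf 0 1469 0) P.nil))) (P.cons (P.cons (P.lf 0 883708 0) (P.cons (P.lf 43979 0 0) P.nil)) (P.cons (P.cons (P.lf 74896 0 0) P.nil) P.nil)))))) 27713)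
 EL.nil))
noncomputable def S198_227_364_401_17 : EL := (EL.cons 4 (TM.mk (P.cons (P.cons (P.lf 0 93987270 0) (P.cons (P.lf 14232154 0 0) (P.cons (P.lf 0 55900 0) (P.cons (P.lf 0 59553 0) (P.cons (P.lf 1120 0 0) (P.cons (P.lf 58 0 0) P.nil)))))) (P.cons (P.cons (P.lf 47556045 0 0) (P.cons (P.lf 0 5956821 0) (P.cons (P.lf 0 23712 0) (P.cons (P.lf 21729 0 0) (P.cons (P.lf 0 370 0) P.nil))))) (P.cons (P.cons (P.lf 8900424 0 0) (P.cons (P.lf 0 1524804 0) (P.cons (P.lf 8572 0 0) (P.cons (P.lf 6555 0 0) P.nil)))) (P.cons (P.cons (P.lf 0 6706195 0) (P.cons (P.lf 669612 0 0) (P.cons (P.lf 9551 0 0) P.nil))) (P.cons (P.cons (P.lf 0 129691 0) (P.cons (P.lf 79316 0 0) P.nil)) (P.cons (P.cons (P.lf 347445 0 0) P.nil) P.nil)))))) 120692)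
 (EL.cons 8 (TM.mk (P.cons (P.cons (P.lf 0 142175300 0) (P.cons (P.lf 21529094 0 0) (P.cons (P.lf 0 84561 0) (P.cons (P.lf 0 90088 0) (P.cons (P.lf 1695 0 0) (P.cons (P.lf 88 0 0) P.nil)))))) (P.cons (P.cons (P.lf 20997647 0 0) (P.cons (P.lf 0 1297155 0) (P.cons (P.lf 0 66167 0) (P.cons (P.lf 592 0 0) (P.cons (P.lf 46 0 0) P.nil))))) (P.cons (P.cons (P.lf 22850195 0 0) (P.cons (P.lf 0 3053469 0) (P.cons (P.lf 0 9631 0) (P.cons (P.lf 11308 0 0) P.nil)))) (P.cons (P.cons (P.lf 0 2490990 0) (P.cons (P.lf 0 24983 0) (P.cons (P.lf 11711 0 0) P.nil))) (P.cons (P.cons (P.lf 0 1335759 0) (P.cons (P.lf 146535 0 0) P.nil)) (P.cons (P.cons (P.lf 117640 0 0) P.nil) P.nil)))))) 94844)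
 EL.nil))
noncomputable def S198_227_364_401_18 : EL := (EL.cons 4 (TM.mk (P.cons (P.lf 142093522 0 0) (P.cons (P.lf 0 132193991 0) (P.cons (P.lf 36274848 0 0) (P.cons (P.lf 0 908220 0) (P.cons (P.lf 0 623396 0) (P.cons (P.lf 0 4479 0) P.nil)))))) 6741)
 (EL.cons 8 (TM.mk (P.cons (P.lf 214946014 0 0) (P.cons (P.lf 0 122956731 0) (P.cons (P.lf 8001726 0 0) (P.cons (P.lf 3495072 0 0) (P.cons (P.lf 0 40579 0) (P.cons (P.lf 0 38127 0) P.nil)))))) 3726)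
 EL.nil))
noncomputable def S198_227_364_401_19 : EL := (EL.cons 4 (TM.mk (P.cons (P.cons (P.lf 66185397 0 0) (P.cons (P.lf 0 5011108 0) (P.cons (P.lf 0 170020 0) (P.lf 8095 0 0)))) (P.cons (P.cons (P.lf 0 57793918 0) (P.cons (P.lf 3937605 0 0) (P.cons (P.lf 133597 0 0) (P.lf 0 6360 0)))) (P.cons (P.cons (P.lf 10032595 0 0) (P.cons (P.lf 0 536358 0) (P.cons (P.lf 0 18197 0) (P.lf 866 0 0)))) (P.cons (P.cons (P.lf 3629759 0 0) (P.cons (P.lf 0 202423 0) (P.cons (P.lf 0 6867 0) P.nil))) (P.cons (P.cons (P.lf 0 1099258 0) (P.cons (P.lf 30327 0 0) P.nil)) (P.cons (P.cons (P.lf 0 44868 0) P.nil) P.nil)))))) 45667)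
 (EL.cons 8 (TM.mk (P.cons (P.cons (P.lf 100119183 0 0) (P.cons (P.lf 0 7580343 0) (P.cons (P.lf 0 257191 0) (P.lf 12246 0 0)))) (P.cons (P.cons (P.lf 0 51553076 0) (P.cons (P.lf 3240444 0 0) (P.cons (P.lf 109944 0 0) (P.lf 0 5235 0)))) (P.cons (P.cons (P.lf 0 4606823 0) (P.cons (P.lf 449016 0 0) (P.cons (P.lf 15234 0 0) (P.lf 0 724 0)))) (P.cons (P.cons (P.lf 4697713 0 0) (P.cons (P.lf 0 201569 0) (P.cons (P.lf 0 6839 0) P.nil))) (P.cons (P.cons (P.lf 0 23030 0) (P.cons (P.lf 0 25580 0) P.nil)) (P.cons (P.cons (P.lf 0 139904 0) P.nil) P.nil)))))) 31216)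
 EL.nil))
noncomputable def S198_227_364_401_20 : EL := (EL.cons 4 (TM.mk (P.cons (P.cons (P.lf 30828335 0 0) (P.cons (P.lf 0 4668224 0) (P.cons (P.lf 18335 0 0) (P.cons (P.lf 19533 0 0) (P.cons (P.lf 0 367 0) (P.cons (P.lf 0 18 0) P.nil)))))) (P.cons (P.cons (P.lf 0 25158825 0) (P.cons (P.lf 3401534 0 0) (P.cons (P.lf 2091 0 0) (P.cons (P.lf 0 13185 0) (P.cons (P.lf 235 0 0) P.nil))))) (P.cons (P.cons (P.lf 1576573 0 0) (P.cons (P.lf 0 54083 0) (P.cons (P.lf 0 5426 0) (P.cons (P.lf 0 155 0) P.nil)))) (P.cons (P.cons (P.lf 3306788 0 0) (P.cons (P.lf 0 400772 0) (P.cons (P.lf 0 2329 0) P.nil))) (P.cons (P.cons (P.lf 0 619991 0) (P.cons (P.lf 38097 0 0) P.nil)) (P.cons (P.cons (P.lf 0 155340 0) P.nil) P.nil)))))) 100333)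
 (EL.cons 8 (TM.mk (P.cons (P.cons (P.lf 46634272 0 0) (P.cons (P.lf 0 7061660 0) (P.cons (P.lf 27736 0 0) (P.cons (P.lf 29549 0 0) (P.cons (P.lf 0 555 0) (P.cons (P.lf 0 28 0) P.nil)))))) (P.cons (P.cons (P.lf 0 21349110 0) (P.cons (P.lf 2615367 0 0) (P.cons (P.lf 13101 0 0) (P.cons (P.lf 0 9357 0) (P.cons (P.lf 156 0 0) P.nil))))) (P.cons (P.cons (P.lf 0 5875497 0) (P.cons (P.lf 947798 0 0) (P.cons (P.lf 0 3878 0) (P.cons (P.lf 0 3976 0) P.nil)))) (P.cons (P.cons (P.lf 3261572 0 0) (P.cons (P.lf 0 313768 0) (P.cons (P.lf 0 5035 0) P.nil))) (P.cons (P.cons (P.lf 264268 0 0) (P.cons (P.lf 0 61751 0) P.nil)) (P.cons (P.cons (P.lf 0 191118 0) P.nil) P.nil)))))) 80151)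
 EL.nil))
noncomputable def S198_227_364_401_21 : EL := (EL.cons 4 (TM.mk (P.cons (P.cons (P.lf 0 729226218 0) (P.cons (P.lf 139731063 0 0) (P.cons (P.lf 4740903 0 0) (P.lf 0 225753 0)))) (P.cons (P.cons (P.lf 1272952035 0 0) (P.cons (P.lf 0 23133147 0) (P.cons (P.lf 0 784881 0) (P.lf 37374 0 0)))) (P.cons (P.cons (P.lf 50243148 0 0) (P.cons (P.lf 0 9735126 0) (P.cons (P.lf 0 330297 0) (P.lf 15723 0 0)))) (P.cons (P.cons (P.lf 0 40167918 0) (P.cons (P.lf 95769 0 0) (P.cons (P.lf 3249 0 0) P.nil))) (P.cons (P.cons (P.lf 0 2314464 0) (P.cons (P.lf 183369 0 0) P.nil)) (P.cons (P.cons (P.lf 516489 0 0) P.nil) P.nil)))))) 91377)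
 (EL.cons 8 (TM.mk (P.cons (P.cons (P.lf 171401514 0 0) (P.cons (P.lf 0 32843196 0) (P.cons (P.lf 0 1114335 0) (P.lf 53067 0 0)))) (P.cons (P.cons (P.lf 0 360614310 0) (P.cons (P.lf 17204910 0 0) (P.cons (P.lf 583737 0 0) (P.lf 0 27792 0)))) (P.cons (P.cons (P.lf 97639326 0 0) (P.cons (P.lf 0 90351 0) (P.cons (P.lf 0 3060 0) (P.lf 144 0 0)))) (P.cons (P.cons (P.lf 9440202 0 0) (P.cons (P.lf 0 711405 0) (P.cons (P.lf 0 24132 0) P.nil))) (P.cons (P.cons (P.lf 0 2432517 0) (P.cons (P.lf 0 18216 0) P.nil)) (P.cons (P.cons (P.lf 0 202734 0) P.nil) P.nil)))))) 75585)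
 (EL.cons 11 (TM.mk (P.cons (P.cons (P.lf 2180878740 0 0) (P.cons (P.lf 168579021 0 0) (P.cons (P.lf 0 10644183 0) (P.cons (P.lf 0 199596 0) (P.lf 7128 0 0))))) (P.cons (P.cons (P.lf 210172032 0 0) (P.cons (P.lf 16246017 0 0) (P.cons (P.lf 0 1025781 0) (P.cons (P.lf 0 19233 0) (P.lf 684 0 0))))) (P.cons (P.cons (P.lf 0 25084248 0) (P.cons (P.lf 0 1938978 0) (P.cons (P.lf 122427 0 0) (P.cons (P.lf 2295 0 0) P.nil)))) (P.cons (P.cons (P.lf 0 2966268 0) (P.cons (P.lf 0 229287 0) (P.cons (P.lf 14475 0 0) P.nil))) (P.cons (P.cons (P.lf 112791 0 0) (P.cons (P.lf 8718 0 0) P.nil)) (P.cons (P.cons (P.lf 22140 0 0) P.nil) P.nil)))))) 5001)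
 EL.nil)))
noncomputable def S198_227_364_401_22 : EL := (EL.cons 4 (TM.mk (P.cons (P.cons (P.lf 0 339664515 0) (P.cons (P.lf 90802080 0 0) (P.cons (P.lf 0 1846989 0) (P.cons (P.lf 0 481089 0) (P.cons (P.lf 10248 0 0) (P.cons (P.lf 540 0 0) P.nil)))))) (P.cons (P.cons (P.lf 573524172 0 0) (P.cons (P.lf 0 48232308 0) (P.cons (P.lf 0 1532982 0) (P.cons (P.lf 84948 0 0) (P.cons (P.lf 0 213 0) P.nil))))) (P.cons (P.cons (P.lf 74445138 0 0) (P.cons (P.lf 0 17056509 0) (P.cons (P.lf 0 49593 0) (P.cons (P.lf 63456 0 0) P.nil)))) (P.cons (P.cons (P.lf 0 47222229 0) (P.cons (P.lf 2008332 0 0) (P.cons (P.lf 117582 0 0) P.nil))) (P.cons (P.cons (P.lf 0 3795915 0) (P.cons (P.lf 809811 0 0) P.nil)) (P.cons (P.cons (P.lf 1516959 0 0) P.nil) P.nil)))))) 346053)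
 (EL.cons 8 (TM.mk (P.cons (P.cons (P.lf 79836696 0 0) (P.cons (P.lf 0 21342642 0) (P.cons (P.lf 434124 0 0) (P.cons (P.lf 113079 0 0) (P.cons (P.lf 0 2409 0) (P.cons (P.lf 0 126 0) P.nil)))))) (P.cons (P.cons (P.lf 0 163409526 0) (P.cons (P.lf 18983766 0 0) (P.cons (P.lf 204771 0 0) (P.cons (P.lf 0 60477 0) (P.cons (P.lf 912 0 0) P.nil))))) (P.cons (P.cons (P.lf 31847985 0 0) (P.cons (P.lf 0 332535 0) (P.cons (P.lf 0 111750 0) (P.cons (P.lf 0 6279 0) P.nil)))) (P.cons (P.cons (P.lf 15457215 0 0) (P.cons (P.lf 0 1721118 0) (P.cons (P.lf 0 27879 0) P.nil))) (P.cons (P.cons (P.lf 0 3060921 0) (P.cons (P.lf 8583 0 0) P.nil)) (P.cons (P.cons (P.lf 0 513240 0) P.nil) P.nil)))))) 242241)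
 (EL.cons 11 (TM.mk (P.cons (P.cons (P.lf 1015826229 0 0) (P.cons (P.lf 1610553 0 0) (P.cons (P.lf 0 13512594 0) (P.cons (P.lf 204960 0 0) (P.cons (P.lf 32700 0 0) (P.cons (P.lf 0 618 0) P.nil)))))) (P.cons (P.cons (P.lf 155917830 0 0) (P.cons (P.lf 0 6477717 0) (P.cons (P.lf 0 2822022 0) (P.cons (P.lf 57507 0 0) (P.cons (P.lf 7584 0 0) P.nil))))) (P.cons (P.cons (P.lf 0 57458937 0) (P.cons (P.lf 0 3569232 0) (P.cons (P.lf 377457 0 0) (P.cons (P.lf 1878 0 0) P.nil)))) (P.cons (P.cons (P.lf 0 7396521 0) (P.cons (P.lf 0 12033 0) (P.cons (P.lf 98349 0 0) P.nil))) (P.cons (P.cons (P.lf 1225737 0 0) (P.cons (P.lf 111492 0 0) P.nil)) (P.cons (P.cons (P.lf 177033 0 0) P.nil) P.nil)))))) 76104)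
 EL.nil)))
noncomputable def S198_227_364_401_23 : EL := (EL.cons 4 (TM.mk (P.cons (P.cons (P.lf 239190165 0 0) (P.cons (P.lf 0 45832548 0) (P.cons (P.lf 0 1555041 0) (P.lf 74046 0 0)))) (P.cons (P.cons (P.lf 0 491710524 0) (P.cons (P.lf 21800943 0 0) (P.cons (P.lf 739677 0 0) (P.lf 0 35220 0)))) (P.cons (P.cons (P.lf 110353569 0 0) (P.cons (P.lf 1347585 0 0) (P.cons (P.lf 45720 0 0) (P.lf 0 2175 0)))) (P.cons (P.cons (P.lf 23134551 0 0) (P.cons (P.lf 0 1148889 0) (P.cons (P.lf 0 38979 0) P.nil))) (P.cons (P.cons (P.lf 0 3522477 0) (P.cons (P.lf 0 81570 0) P.nil)) (P.cons (P.cons (P.lf 0 593805 0) P.nil) P.nil)))))) 146532)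
 (EL.cons 8 (TM.mk (P.cons (P.cons (P.lf 0 56220627 0) (P.cons (P.lf 10772745 0 0) (P.cons (P.lf 365505 0 0) (P.lf 0 17406 0)))) (P.cons (P.cons (P.lf 135718050 0 0) (P.cons (P.lf 0 8984043 0) (P.cons (P.lf 0 304815 0) (P.lf 14511 0 0)))) (P.cons (P.cons (P.lf 0 68084658 0) (P.cons (P.lf 1660404 0 0) (P.cons (P.lf 56331 0 0) (P.lf 0 2679 0)))) (P.cons (P.cons (P.lf 5472540 0 0) (P.cons (P.lf 296796 0 0) (P.cons (P.lf 10068 0 0) P.nil))) (P.cons (P.cons (P.lf 2220633 0 0) (P.cons (P.lf 0 71340 0) P.nil)) (P.cons (P.cons (P.lf 0 169071 0) P.nil) P.nil)))))) 77613)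
 (EL.cons 11 (TM.mk (P.cons (P.cons (P.lf 0 715340091 0) (P.cons (P.lf 0 55294836 0) (P.cons (P.lf 3491349 0 0) (P.cons (P.lf 65466 0 0) (P.lf 0 2337 0))))) (P.cons (P.cons (P.lf 152896755 0 0) (P.cons (P.lf 11818713 0 0) (P.cons (P.lf 0 746241 0) (P.cons (P.lf 0 13992 0) (P.lf 498 0 0))))) (P.cons (P.cons (P.lf 37526415 0 0) (P.cons (P.lf 2900739 0 0) (P.cons (P.lf 0 183153 0) (P.cons (P.lf 0 3432 0) P.nil)))) (P.cons (P.cons (P.lf 0 1489947 0) (P.cons (P.lf 0 115170 0) (P.cons (P.lf 7272 0 0) P.nil))) (P.cons (P.cons (P.lf 0 541158 0) (P.cons (P.lf 0 41829 0) P.nil)) (P.cons (P.cons (P.lf 0 1731 0) P.nil) P.nil)))))) 13062)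
 EL.nil)))
noncomputable def S198_227_364_401_24 : EL := (EL.cons 4 (TM.mk (P.cons (P.cons (P.lf 111411807 0 0) (P.cons (P.lf 0 29783574 0) (P.cons (P.lf 605820 0 0) (P.cons (P.lf 157800 0 0) (P.cons (P.lf 0 3360 0) (P.cons (P.lf 0 177 0) P.nil)))))) (P.cons (P.cons (P.lf 0 222668997 0) (P.cons (P.lf 25056651 0 0) (P.cons (P.lf 314955 0 0) (P.cons (P.lf 0 76797 0) (P.cons (P.lf 1113 0 0) P.nil))))) (P.cons (P.cons (P.lf 32685666 0 0) (P.cons (P.lf 1018308 0 0) (P.cons (P.lf 0 146370 0) (P.cons (P.lf 0 13920 0) P.nil)))) (P.cons (P.cons (P.lf 25249518 0 0) (P.cons (P.lf 0 2596953 0) (P.cons (P.lf 0 48606 0) P.nil))) (P.cons (P.cons (P.lf 0 3458106 0) (P.cons (P.lf 0 110292 0) P.nil)) (P.cons (P.cons (P.lf 0 1090632 0) P.nil) P.nil)))))) 417165)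
 (EL.cons 8 (TM.mk (P.cons (P.cons (P.lf 0 26186868 0) (P.cons (P.lf 7000503 0 0) (P.cons (P.lf 0 142395 0) (P.cons (P.lf 0 37089 0) (P.cons (P.lf 789 0 0) (P.cons (P.lf 39 0 0) P.nil)))))) (P.cons (P.cons (P.lf 61720032 0 0) (P.cons (P.lf 0 8397705 0) (P.cons (P.lf 0 23007 0) (P.cons (P.lf 31338 0 0) (P.cons (P.lf 0 543 0) P.nil))))) (P.cons (P.cons (P.lf 0 26778033 0) (P.cons (P.lf 1962549 0 0) (P.cons (P.lf 59061 0 0) (P.cons (P.lf 0 3678 0) P.nil)))) (P.cons (P.cons (P.lf 0 2448699 0) (P.cons (P.lf 606258 0 0) (P.cons (P.lf 0 1611 0) P.nil))) (P.cons (P.cons (P.lf 2740794 0 0) (P.cons (P.lf 0 184509 0) P.nil)) (P.cons (P.cons (P.lf 0 93192 0) P.nil) P.nil)))))) 189657)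
 (EL.cons 11 (TM.mk (P.cons (P.cons (P.lf 0 333196530 0) (P.cons (P.lf 0 528270 0) (P.cons (P.lf 4432203 0 0) (P.cons (P.lf 0 67227 0) (P.cons (P.lf 0 10725 0) (P.cons (P.lf 201 0 0) P.nil)))))) (P.cons (P.cons (P.lf 52185774 0 0) (P.cons (P.lf 2288547 0 0) (P.cons (P.lf 0 448833 0) (P.cons (P.lf 1983 0 0) (P.cons (P.lf 837 0 0) P.nil))))) (P.cons (P.cons (P.lf 38395695 0 0) (P.cons (P.lf 517677 0 0) (P.cons (P.lf 0 459930 0) (P.cons (P.lf 5976 0 0) P.nil)))) (P.cons (P.cons (P.lf 0 3166500 0) (P.cons (P.lf 0 383130 0) (P.cons (P.lf 63 0 0) P.nil))) (P.cons (P.cons (P.lf 0 1432893 0) (P.cons (P.lf 0 48786 0) P.nil)) (P.cons (P.cons (P.lf 54924 0 0) P.nil) P.nil)))))) 90096)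
 EL.nil)))
noncomputable def S198_227_364_401_25 : EL := (EL.cons 4 (TM.mk (P.cons (P.cons (P.lf 0 78455676 0) (P.cons (P.lf 15033324 0 0) (P.cons (P.lf 510060 0 0) (P.lf 0 24288 0)))) (P.cons (P.cons (P.lf 185613639 0 0) (P.cons (P.lf 0 11812815 0) (P.cons (P.lf 0 400794 0) (P.lf 19083 0 0)))) (P.cons (P.cons (P.lf 0 85343637 0) (P.cons (P.lf 1609077 0 0) (P.cons (P.lf 54594 0 0) (P.lf 0 2598 0)))) (P.cons (P.cons (P.lf 1776906 0 0) (P.cons (P.lf 607269 0 0) (P.cons (P.lf 20601 0 0) P.nil))) (P.cons (P.cons (P.lf 4056399 0 0) (P.cons (P.lf 0 90981 0) P.nil)) (P.cons (P.cons (P.lf 0 103032 0) P.nil) P.nil)))))) 160665)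
 (EL.cons 8 (TM.mk (P.cons (P.cons (P.lf 18440670 0 0) (P.cons (P.lf 0 3533517 0) (P.cons (P.lf 0 119886 0) (P.lf 5709 0 0)))) (P.cons (P.cons (P.lf 0 50234901 0) (P.cons (P.lf 4042596 0 0) (P.cons (P.lf 137160 0 0) (P.lf 0 6531 0)))) (P.cons (P.cons (P.lf 35932908 0 0) (P.cons (P.lf 0 1419333 0) (P.cons (P.lf 0 48153 0) (P.lf 2292 0 0)))) (P.cons (P.cons (P.lf 0 8210163 0) (P.cons (P.lf 35580 0 0) (P.cons (P.lf 1206 0 0) P.nil))) (P.cons (P.cons (P.lf 0 459780 0) (P.cons (P.lf 62169 0 0) P.nil)) (P.cons (P.cons (P.lf 319350 0 0) P.nil) P.nil)))))) 78987)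
 (EL.cons 11 (TM.mk (P.cons (P.cons (P.lf 234635442 0 0) (P.cons (P.lf 18137007 0 0) (P.cons (P.lf 0 1145181 0) (P.cons (P.lf 0 21474 0) (P.lf 765 0 0))))) (P.cons (P.cons (P.lf 0 122913831 0) (P.cons (P.lf 0 9501075 0) (P.cons (P.lf 599904 0 0) (P.cons (P.lf 11247 0 0) (P.lf 0 402 0))))) (P.cons (P.cons (P.lf 645528 0 0) (P.cons (P.lf 49896 0 0) (P.cons (P.lf 0 3150 0) (P.cons (P.lf 0 57 0) P.nil)))) (P.cons (P.cons (P.lf 5082396 0 0) (P.cons (P.lf 392862 0 0) (P.cons (P.lf 0 24804 0) P.nil))) (P.cons (P.cons (P.lf 130128 0 0) (P.cons (P.lf 10056 0 0) P.nil)) (P.cons (P.cons (P.lf 0 75246 0) P.nil) P.nil)))))) 21333)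
 EL.nil)))
noncomputable def S198_227_364_401_26 : EL := (EL.cons 4 (TM.mk (P.cons (P.cons (P.lf 0 36543678 0) (P.cons (P.lf 9769173 0 0) (P.cons (P.lf 0 198711 0) (P.cons (P.lf 0 51759 0) (P.cons (P.lf 1101 0 0) (P.cons (P.lf 57 0 0) P.nil)))))) (P.cons (P.cons (P.lf 84369213 0 0) (P.cons (P.lf 0 11248239 0) (P.cons (P.lf 0 41682 0) (P.cons (P.lf 41241 0 0) (P.cons (P.lf 0 705 0) P.nil))))) (P.cons (P.cons (P.lf 0 32965869 0) (P.cons (P.lf 2106531 0 0) (P.cons (P.lf 82245 0 0) (P.cons (P.lf 0 2670 0) P.nil)))) (P.cons (P.cons (P.lf 0 5800407 0) (P.cons (P.lf 1055607 0 0) (P.cons (P.lf 2010 0 0) P.nil))) (P.cons (P.cons (P.lf 3887829 0 0) (P.cons (P.lf 0 231399 0) P.nil)) (P.cons (P.cons (P.lf 92376 0 0) P.nil) P.nil)))))) 311562)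
 (EL.cons 8 (TM.mk (P.cons (P.cons (P.lf 8589435 0 0) (P.cons (P.lf 0 2296203 0) (P.cons (P.lf 46704 0 0) (P.cons (P.lf 12165 0 0) (P.cons (P.lf 0 258 0) (P.cons (P.lf 0 12 0) P.nil)))))) (P.cons (P.cons (P.lf 0 22908177 0) (P.cons (P.lf 3466569 0 0) (P.cons (P.lf 0 6936 0) (P.cons (P.lf 0 14052 0) (P.cons (P.lf 258 0 0) P.nil))))) (P.cons (P.cons (P.lf 14966265 0 0) (P.cons (P.lf 0 1472499 0) (P.cons (P.lf 0 22227 0) (P.cons (P.lf 4260 0 0) P.nil)))) (P.cons (P.cons (P.lf 0 1688364 0) (P.cons (P.lf 0 31893 0) (P.cons (P.lf 6495 0 0) P.nil))) (P.cons (P.cons (P.lf 0 1263858 0) (P.cons (P.lf 131763 0 0) P.nil)) (P.cons (P.cons (P.lf 307416 0 0) P.nil) P.nil)))))) 122778)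
 (EL.cons 11 (TM.mk (P.cons (P.cons (P.lf 109290273 0 0) (P.cons (P.lf 173274 0 0) (P.cons (P.lf 0 1453785 0) (P.cons (P.lf 22050 0 0) (P.cons (P.lf 3516 0 0) (P.cons (P.lf 0 66 0) P.nil)))))) (P.cons (P.cons (P.lf 0 51009255 0) (P.cons (P.lf 0 804390 0) (P.cons (P.lf 598053 0 0) (P.cons (P.lf 0 7488 0) (P.cons (P.lf 0 1365 0) P.nil))))) (P.cons (P.cons (P.lf 0 8495856 0) (P.cons (P.lf 61065 0 0) (P.cons (P.lf 121302 0 0) (P.cons (P.lf 0 2001 0) P.nil)))) (P.cons (P.cons (P.lf 5236758 0 0) (P.cons (P.lf 186801 0 0) (P.cons (P.lf 0 49806 0) P.nil))) (P.cons (P.cons (P.lf 278283 0 0) (P.cons (P.lf 0 21783 0) P.nil)) (P.cons (P.cons (P.lf 0 188487 0) P.nil) P.nil)))))) 82566)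
 EL.nil)))
noncomputable def S198_227_364_401_27 : EL := (EL.cons 13 (TM.mk (P.lf 0 4294967296 0) 0)
 EL.nil)
noncomputable def S198_227_364_401_28 : EL := (EL.cons 13 (TM.mk (P.cons (P.cons (P.lf 0 2000542421 0) (P.cons (P.lf 151467476 0 0) (P.cons (P.lf 5139108 0 0) (P.lf 0 244716 0)))) (P.cons (P.cons (P.lf 0 114267666 0) (P.cons (P.lf 21895456 0 0) (P.cons (P.lf 742884 0 0) (P.lf 0 35372 0)))) (P.cons (P.cons (P.lf 101160155 0 0) (P.cons (P.lf 0 2085724 0) (P.cons (P.lf 0 70764 0) (P.lf 3368 0 0)))) (P.cons (P.cons (P.lf 782400 0 0) (P.cons (P.lf 0 443412 0) (P.cons (P.lf 0 15040 0) P.nil))) (P.cons (P.cons (P.lf 0 1377759 0) (P.cons (P.lf 7712 0 0) P.nil)) (P.cons (P.cons (P.lf 0 43065 0) P.nil) P.nil)))))) 24301)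
 EL.nil)
noncomputable def S198_227_364_401_29 : EL := (EL.cons 13 (TM.mk (P.cons (P.cons (P.lf 0 931827812 0) (P.cons (P.lf 141103338 0 0) (P.cons (P.lf 0 554227 0) (P.cons (P.lf 0 590445 0) (P.cons (P.lf 11111 0 0) (P.cons (P.lf 585 0 0) P.nil)))))) (P.cons (P.cons (P.lf 0 106448919 0) (P.cons (P.lf 28456851 0 0) (P.cons (P.lf 0 578837 0) (P.cons (P.lf 0 150768 0) (P.cons (P.lf 3212 0 0) P.nil))))) (P.cons (P.cons (P.lf 91198194 0 0) (P.cons (P.lf 0 7913033 0) (P.cons (P.lf 0 232987 0) (P.cons (P.lf 15191 0 0) P.nil)))) (P.cons (P.cons (P.lf 6111599 0 0) (P.cons (P.lf 0 1610653 0) (P.cons (P.lf 0 2102 0) P.nil))) (P.cons (P.cons (P.lf 0 3624498 0) (P.cons (P.lf 171040 0 0) P.nil)) (P.cons (P.cons (P.lf 0 150284 0) P.nil) P.nil)))))) 162900)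
 EL.nil)
noncomputable def S198_227_364_401_30 : EL := (EL.cons 13 (TM.mk (P.cons (P.lf 1408772644 0 0) (P.cons (P.lf 0 436874896 0) (P.cons (P.lf 0 15598228 0) (P.cons (P.lf 1328688 0 0) (P.cons (P.lf 91228 0 0) (P.cons (P.lf 0 3020 0) P.nil)))))) 560)
 EL.nil)
noncomputable def S198_227_364_401_31 : EL := (EL.cons 13 (TM.mk (P.cons (P.cons (P.lf 656188799 0 0) (P.cons (P.lf 0 49682156 0) (P.cons (P.lf 0 1685655 0) (P.lf 80268 0 0)))) (P.cons (P.cons (P.lf 0 166010484 0) (P.cons (P.lf 8225119 0 0) (P.cons (P.lf 279069 0 0) (P.lf 0 13289 0)))) (P.cons (P.cons (P.lf 0 52069604 0) (P.cons (P.lf 3461379 0 0) (P.cons (P.lf 117439 0 0) (P.lf 0 5591 0)))) (P.cons (P.cons (P.lf 10237058 0 0) (P.cons (P.lf 0 34052 0) (P.cons (P.lf 0 1156 0) P.nil))) (P.cons (P.cons (P.lf 976727 0 0) (P.cons (P.lf 0 65198 0) P.nil)) (P.cons (P.cons (P.lf 0 153450 0) P.nil) P.nil)))))) 30097)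
 EL.nil)
noncomputable def S198_227_364_401_32 : EL := (EL.cons 13 (TM.mk (P.cons (P.cons (P.lf 305644592 0 0) (P.cons (P.lf 0 46282662 0) (P.cons (P.lf 181789 0 0) (P.cons (P.lf 193669 0 0) (P.cons (P.lf 0 3644 0) (P.cons (P.lf 0 191 0) P.nil)))))) (P.cons (P.cons (P.lf 0 59867709 0) (P.cons (P.lf 5018728 0 0) (P.cons (P.lf 133486 0 0) (P.cons (P.lf 0 10606 0) (P.cons (P.lf 76 0 0) P.nil))))) (P.cons (P.cons (P.lf 0 44125421 0) (P.cons (P.lf 6002539 0 0) (P.cons (P.lf 15530 0 0) (P.cons (P.lf 0 22462 0) P.nil)))) (P.cons (P.cons (P.lf 7173521 0 0) (P.cons (P.lf 0 216897 0) (P.cons (P.lf 0 24940 0) P.nil))) (P.cons (P.cons (P.lf 2194446 0 0) (P.cons (P.lf 0 260472 0) P.nil)) (P.cons (P.cons (P.lf 0 323793 0) P.nil) P.nil)))))) 137186)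
 EL.nil)
noncomputable def S198_227_364_401_33 : EL := (EL.cons 14 (TM.mk (P.lf 8589934592 0 0) 0)
 EL.nil)
noncomputable def S198_227_364_401_34 : EL := (EL.cons 14 (TM.mk (P.cons (P.cons (P.lf 4001084842 0 0) (P.cons (P.lf 0 302934952 0) (P.cons (P.lf 0 10278216 0) (P.lf 489432 0 0)))) (P.cons (P.cons (P.lf 228535332 0 0) (P.cons (P.lf 0 43790912 0) (P.cons (P.lf 0 1485768 0) (P.lf 70744 0 0)))) (P.cons (P.cons (P.lf 0 202320310 0) (P.cons (P.lf 4171448 0 0) (P.cons (P.lf 141528 0 0) (P.lf 0 6736 0)))) (P.cons (P.cons (P.lf 0 1564800 0) (P.cons (P.lf 886824 0 0) (P.cons (P.lf 30080 0 0) P.nil))) (P.cons (P.cons (P.lf 2755518 0 0) (P.cons (P.lf 0 15424 0) P.nil)) (P.cons (P.cons (P.lf 86130 0 0) P.nil) P.nil)))))) 48602)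
 EL.nil)
noncomputable def S198_227_364_401_35 : EL := (EL.cons 14 (TM.mk (P.cons (P.cons (P.lf 1863655624 0 0) (P.cons (P.lf 0 282206676 0) (P.cons (P.lf 1108454 0 0) (P.cons (P.lf 1180890 0 0) (P.cons (P.lf 0 22222 0) (P.cons (P.lf 0 1170 0) P.nil)))))) (P.cons (P.cons (P.lf 212897838 0 0) (P.cons (P.lf 0 56913702 0) (P.cons (P.lf 1157674 0 0) (P.cons (P.lf 301536 0 0) (P.cons (P.lf 0 6424 0) P.nil))))) (P.cons (P.cons (P.lf 0 182396388 0) (P.cons (P.lf 15826066 0 0) (P.cons (P.lf 465974 0 0) (P.cons (P.lf 0 30382 0) P.nil)))) (P.cons (P.cons (P.lf 0 12223198 0) (P.cons (P.lf 3221306 0 0) (P.cons (P.lf 4204 0 0) P.nil))) (P.cons (P.cons (P.lf 7248996 0 0) (P.cons (P.lf 0 342080 0) P.nil)) (P.cons (P.cons (P.lf 300568 0 0) P.nil) P.nil)))))) 325800)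
 EL.nil)
noncomputable def S198_227_364_401_36 : EL := (EL.cons 14 (TM.mk (P.cons (P.lf 0 2817545288 0) (P.cons (P.lf 873749792 0 0) (P.cons (P.lf 31196456 0 0) (P.cons (P.lf 0 2657376 0) (P.cons (P.lf 0 182456 0) (P.cons (P.lf 6040 0 0) P.nil)))))) 1120)
 EL.nil)
noncomputable def S198_227_364_401_37 : EL := (EL.cons 14 (TM.mk (P.cons (P.cons (P.lf 0 1312377598 0) (P.cons (P.lf 99364312 0 0) (P.cons (P.lf 3371310 0 0) (P.lf 0 160536 0)))) (P.cons (P.cons (P.lf 332020968 0 0) (P.cons (P.lf 0 16450238 0) (P.cons (P.lf 0 558138 0) (P.lf 26578 0 0)))) (P.cons (P.cons (P.lf 104139208 0 0) (P.cons (P.lf 0 6922758 0) (P.cons (P.lf 0 234878 0) (P.lf 11182 0 0)))) (P.cons (P.cons (P.lf 0 20474116 0) (P.cons (P.lf 68104 0 0) (P.cons (P.lf 2312 0 0) P.nil))) (P.cons (P.cons (P.lf 0 1953454 0) (P.cons (P.lf 130396 0 0) P.nil)) (P.cons (P.cons (P.lf 306900 0 0) P.nil) P.nil))))))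 60194)
 EL.nil)
noncomputable def S198_227_364_401_38 : EL := (EL.cons 14 (TM.mk (P.cons (P.cons (P.lf 0 611289184 0) (P.cons (P.lf 92565324 0 0) (P.cons (P.lf 0 363578 0) (P.cons (P.lf 0 387338 0) (P.cons (P.lf 7288 0 0) (P.cons (P.lf 382 0 0) P.nil)))))) (P.cons (P.cons (P.lf 119735418 0 0) (P.cons (P.lf 0 10037456 0) (P.cons (P.lf 0 266972 0) (P.cons (P.lf 21212 0 0) (P.cons (P.lf 0 152 0) P.nil))))) (P.cons (P.cons (P.lf 88250842 0 0) (P.cons (P.lf 0 12005078 0) (P.cons (P.lf 0 31060 0) (P.cons (P.lf 44924 0 0) P.nil)))) (P.cons (P.cons (P.lf 0 14347042 0) (P.cons (P.lf 433794 0 0) (P.cons (P.lf 49880 0 0) P.nil))) (P.cons (P.cons (P.lf 0 4388892 0) (P.cons (P.lf 520944 0 0) P.nil)) (P.cons (P.cons (P.lf 647586 0 0) P.nil) P.nil)))))) 274372)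
 EL.nil)
noncomputable def S198_227_364_401_39 : EL := (EL.cons 14 (TM.mk (P.cons (P.lf 924170186 0 0) (P.cons (P.lf 0 573189372 0) (P.cons (P.lf 68410746 0 0) (P.cons (P.lf 8089740 0 0) (P.cons (P.lf 0 307614 0) (P.cons (P.lf 0 60382 0) P.nil)))))) 4526)
 EL.nil)
noncomputable def S198_227_364_401_40 : EL := (EL.cons 14 (TM.mk (P.cons (P.cons (P.lf 430466994 0 0) (P.cons (P.lf 0 32592034 0) (P.cons (P.lf 0 1105808 0) (P.lf 52656 0 0)))) (P.cons (P.cons (P.lf 0 242396928 0) (P.cons (P.lf 15502892 0 0) (P.cons (P.lf 525994 0 0) (P.lf 0 25046 0)))) (P.cons (P.cons (P.lf 0 5151986 0) (P.cons (P.lf 958284 0 0) (P.cons (P.lf 32512 0 0) (P.lf 0 1546 0)))) (P.cons (P.cons (P.lf 18920250 0 0) (P.cons (P.lf 0 816988 0) (P.cons (P.lf 0 27720 0) P.nil))) (P.cons (P.cons (P.lf 0 1138470 0) (P.cons (P.lf 0 58006 0) P.nil)) (P.cons (P.cons (P.lf 0 413914 0) P.nil) P.nil)))))) 78752)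
 EL.nil)
noncomputable def S198_227_364_401_41 : EL := (EL.cons 14 (TM.mk (P.cons (P.cons (P.lf 200506178 0 0) (P.cons (P.lf 0 30361930 0) (P.cons (P.lf 119254 0 0) (P.cons (P.lf 127048 0 0) (P.cons (P.lf 0 2390 0) (P.cons (P.lf 0 124 0) P.nil)))))) (P.cons (P.cons (P.lf 0 101452898 0) (P.cons (P.lf 12707886 0 0) (P.cons (P.lf 50586 0 0) (P.cons (P.lf 0 46356 0) (P.cons (P.lf 790 0 0) P.nil))))) (P.cons (P.cons (P.lf 0 18987572 0) (P.cons (P.lf 3252916 0 0) (P.cons (P.lf 0 18288 0) (P.cons (P.lf 0 13984 0) P.nil)))) (P.cons (P.cons (P.lf 14306550 0 0) (P.cons (P.lf 0 1428506 0) (P.cons (P.lf 0 20376 0) P.nil))) (P.cons (P.cons (P.lf 276676 0 0) (P.cons (P.lf 0 169208 0) P.nil)) (P.cons (P.cons (P.lf 0 741218 0) P.nil) P.nil)))))) 257430)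
 EL.nil)
noncomputable def S198_227_364_401_42 : EL := (EL.cons 14 (TM.mk (P.cons (P.lf 0 303132848 0) (P.cons (P.lf 282013848 0 0) (P.cons (P.lf 0 77386344 0) (P.cons (P.lf 1937536 0 0) (P.cons (P.lf 1329912 0 0) (P.cons (P.lf 9556 0 0) P.nil)))))) 14366)
 EL.nil)
noncomputable def S198_227_364_401_43 : EL := (EL.cons 14 (TM.mk (P.cons (P.cons (P.lf 0 141195514 0) (P.cons (P.lf 10690364 0 0) (P.cons (P.lf 362710 0 0) (P.lf 0 17270 0)))) (P.cons (P.cons (P.lf 123293692 0 0) (P.cons (P.lf 0 8400224 0) (P.cons (P.lf 0 285008 0) (P.lf 13570 0 0)))) (P.cons (P.cons (P.lf 0 21402870 0) (P.cons (P.lf 1144232 0 0) (P.cons (P.lf 38822 0 0) (P.lf 0 1848 0)))) (P.cons (P.cons (P.lf 0 7743486 0) (P.cons (P.lf 431836 0 0) (P.cons (P.lf 14650 0 0) P.nil))) (P.cons (P.cons (P.lf 2345084 0 0) (P.cons (P.lf 0 64698 0) P.nil)) (P.cons (P.cons (P.lf 95720 0 0) P.nil) P.nil)))))) 97384)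
 EL.nil)
noncomputable def S198_227_364_401_44 : EL := (EL.cons 14 (TM.mk (P.cons (P.cons (P.lf 0 65767116 0) (P.cons (P.lf 9958878 0 0) (P.cons (P.lf 0 39116 0) (P.cons (P.lf 0 41672 0) (P.cons (P.lf 784 0 0) (P.cons (P.lf 40 0 0) P.nil)))))) (P.cons (P.cons (P.lf 53672162 0 0) (P.cons (P.lf 0 7256606 0) (P.cons (P.lf 0 4462 0) (P.cons (P.lf 28128 0 0) (P.cons (P.lf 0 502 0) P.nil))))) (P.cons (P.cons (P.lf 0 3363356 0) (P.cons (P.lf 115378 0 0) (P.cons (P.lf 11576 0 0) (P.cons (P.lf 332 0 0) P.nil)))) (P.cons (P.cons (P.lf 0 7054482 0) (P.cons (P.lf 854982 0 0) (P.cons (P.lf 4970 0 0) P.nil))) (P.cons (P.cons (P.lf 1322648 0 0) (P.cons (P.lf 0 81274 0) P.nil)) (P.cons (P.cons (P.lf 331394 0 0) P.nil) P.nil)))))) 213998)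
 EL.nil)
noncomputable def S198_227_364_401_45 : EL := (EL.cons 14 (TM.mk (P.cons (P.cons (P.lf 868067642 0 0) (P.cons (P.lf 0 197172546 0) (P.cons (P.lf 8238738 0 0) (P.cons (P.lf 954810 0 0) (P.cons (P.lf 0 69402 0) (P.cons (P.lf 0 1110 0) P.nil)))))) (P.cons (P.cons (P.lf 148747752 0 0) (P.cons (P.lf 0 51026712 0) (P.cons (P.lf 3437434 0 0) (P.cons (P.lf 269782 0 0) (P.cons (P.lf 0 27380 0) P.nil))))) (P.cons (P.cons (P.lf 0 123188844 0) (P.cons (P.lf 18756390 0 0) (P.cons (P.lf 28834 0 0) (P.cons (P.lf 0 79582 0) P.nil)))) (P.cons (P.cons (P.lf 0 15899990 0) (P.cons (P.lf 4970106 0 0) (P.cons (P.lf 0 207962 0) P.nil))) (P.cons (P.cons (P.lf 7906358 0 0) (P.cons (P.lf 0 789820 0) P.nil)) (P.cons (P.cons (P.lf 740962 0 0) P.nil) P.nil)))))) 773382)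
 EL.nil)
noncomputable def S198_227_364_401_46 : EL := (EL.cons 15 (TM.mk (P.lf 4294967296 0 0) 0)
 EL.nil)
noncomputable def S198_227_364_401_47 : EL := (EL.cons 15 (TM.mk (P.cons (P.cons (P.lf 2000542421 0 0) (P.cons (P.lf 0 151467476 0) (P.cons (P.lf 0 5139108 0) (P.lf 244716 0 0)))) (P.cons (P.cons (P.lf 114267666 0 0) (P.cons (P.lf 0 21895456 0) (P.cons (P.lf 0 742884 0) (P.lf 35372 0 0)))) (P.cons (P.cons (P.lf 0 101160155 0) (P.cons (P.lf 2085724 0 0) (P.cons (P.lf 70764 0 0) (P.lf 0 3368 0)))) (P.cons (P.cons (P.lf 0 782400 0) (P.cons (P.lf 443412 0 0) (P.cons (P.lf 15040 0 0) P.nil))) (P.cons (P.cons (P.lf 1377759 0 0) (P.cons (P.lf 0 7712 0) P.nil)) (P.cons (P.cons (P.lf 43065 0 0) P.nil) P.nil)))))) 24301)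
 EL.nil)
noncomputable def S198_227_364_401_48 : EL := (EL.cons 15 (TM.mk (P.cons (P.cons (P.lf 931827812 0 0) (P.cons (P.lf 0 141103338 0) (P.cons (P.lf 554227 0 0) (P.cons (P.lf 590445 0 0) (P.cons (P.lf 0 11111 0) (P.cons (P.lf 0 585 0) P.nil)))))) (P.cons (P.cons (P.lf 106448919 0 0) (P.cons (P.lf 0 28456851 0) (P.cons (P.lf 578837 0 0) (P.cons (P.lf 150768 0 0) (P.cons (P.lf 0 3212 0) P.nil))))) (P.cons (P.cons (P.lf 0 91198194 0) (P.cons (P.lf 7913033 0 0) (P.cons (P.lf 232987 0 0) (P.cons (P.lf 0 15191 0) P.nil)))) (P.cons (P.cons (P.lf 0 6111599 0) (P.cons (P.lf 1610653 0 0) (P.cons (P.lf 2102 0 0) P.nil))) (P.cons (P.cons (P.lf 3624498 0 0) (P.cons (P.lf 0 171040 0) P.nil)) (P.cons (P.cons (P.lf 150284 0 0) P.nil) P.nil)))))) 162900)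
 EL.nil)
noncomputable def S198_227_364_401 : SL := (SL.cons S198_227_364_401_0 (SL.cons S198_227_364_401_1 (SL.cons S198_227_364_401_2 (SL.cons S198_227_364_401_3 (SL.cons S198_227_364_401_4 (SL.cons S198_227_364_401_5 (SL.cons S198_227_364_401_6 (SL.cons S198_227_364_401_7 (SL.cons S198_227_364_401_8 (SL.cons S198_227_364_401_9 (SL.cons S198_227_364_401_10 (SL.cons S198_227_364_401_11 (SL.cons S198_227_364_401_12 (SL.cons S198_227_364_401_13 (SL.cons S198_227_364_401_14 (SL.cons S198_227_364_401_15 (SL.cons S198_227_364_401_16 (SL.cons S198_227_364_401_17 (SL.cons S198_227_364_401_18 (SL.cons S198_227_364_401_19 (SL.cons S198_227_364_401_20 (SL.cons S198_227_364_401_21 (SL.cons S198_227_364_401_22 (SL.cons S198_227_364_401_23 (SL.cons S198_227_364_401_24 (SL.cons S198_227_364_401_25 (SL.cons S198_227_364_401_26 (SL.cons S198_227_364_401_27 (SL.cons S198_227_364_401_28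 (SL.cons S198_227_364_401_29 (SL.cons S198_227_364_401_30 (SL.cons S198_227_364_401_31 (SL.cons S198_227_364_401_32 (SL.cons S198_227_364_401_33 (SL.cons S198_227_364_401_34 (SL.cons S198_227_364_401_35 (SL.cons S198_227_364_401_36 (SL.cons S198_227_364_401_37 (SL.cons S198_227_364_401_38 (SL.cons S198_227_364_401_39 (SL.cons S198_227_364_401_40 (SL.cons S198_227_364_401_41 (SL.cons S198_227_364_401_42 (SL.cons S198_227_364_401_43 (SL.cons S198_227_364_401_44 (SL.cons S198_227_364_401_45 (SL.cons S198_227_364_401_46 (SL.cons S198_227_364_401_47 (SL.cons S198_227_364_401_48 SL.nil)))))))))))))))))))))))))))))))))))))))))))))))))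
theorem S198_212_586_660_ok : band (seq (shp 5 198 212 586 660) S198_212_586_660) (sok S198_212_586_660) = true := by decide +kernel

theorem S198_212_660_808_ok : band (seq (shp 5 198 212 660 808) S198_212_660_808) (sok S198_212_660_808) = true := by decide +kernel

theorem S198_227_216_290_ok : band (seq (shp 5 198 227 216 290) S198_227_216_290) (sok S198_227_216_290) = true := by decide +kernel

theorem S198_227_216_364_ok : band (seq (shp 5 198 227 216 364) S198_227_216_364) (sok S198_227_216_364) = true := by decide +kernel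

theorem S198_227_290_364_ok : band (seq (shp 5 198 227 290 364) S198_227_290_364) (sok S198_227_290_364) = true := by decide +kernel

theorem S198_227_364_401_ok : band (seq (shp 5 198 227 364 401) S198_227_364_401) (sok S198_227_364_401) = true := by decide +kernel

end Vale.Agent.P098.Ck
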