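import Vale.Agent.P098.CkDefs

namespace Vale.Agent.P098.Ck

noncomputable def S198_227_364_438_0 : EL := (EL.cons 0 (TM.mk (P.cons (P.lf 7643457911 0 0) (P.cons (P.lf 503779721 0 0) (P.cons (P.lf 0 60126632 0) (P.cons (P.lf 0 7110123 0) (P.cons (P.lf 270363 0 0) (P.cons (P.lf 53070 0 0) P.nil)))))) 3984)
 (EL.cons 1 (TM.mk (P.cons (P.lf 0 1228710643 0) (P.cons (P.lf 321830180 0 0) (P.cons (P.lf 40457490 0 0) (P.cons (P.lf 0 2710608 0) (P.cons (P.lf 0 384633 0) (P.cons (P.lf 7027 0 0) P.nil)))))) 2881)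
 (EL.cons 5 (TM.mk (P.cons (P.lf 4583770480 0 0) (P.cons (P.lf 0 179121676 0) (P.cons (P.lf 21378358 0 0) (P.cons (P.lf 2528040 0 0) (P.cons (P.lf 0 96128 0) (P.cons (P.lf 0 18870 0) P.nil)))))) 1697)
 (EL.cons 9 (TM.mk (P.lf 6442450944 0 0) 2)
 EL.nil))))
noncomputable def S198_227_364_438_1 : EL := (EL.cons 0 (TM.mk (P.cons (P.cons (P.lf 2922192624 0 0) (P.cons (P.lf 0 390380509 0) (P.cons (P.lf 0 21360056 0) (P.lf 2373343 0 0)))) (P.cons (P.cons (P.lf 1259202773 0 0) (P.cons (P.lf 0 207518900 0) (P.cons (P.lf 0 11354595 0) (P.lf 1261616 0 0)))) (P.cons (P.cons (P.lf 0 400782761 0) (P.cons (P.lf 1567512 0 0) (P.cons (P.lf 85767 0 0) (P.lf 0 9532 0)))) (P.cons (P.cons (P.lf 0 57680540 0) (P.cons (P.lf 7962365 0 0) (P.cons (P.lf 435657 0 0) P.nil))) (P.cons (P.cons (P.lf 10512553 0 0) (P.cons (P.lf 401273 0 0) P.nil)) (P.cons (P.cons (P.lf 1499298 0 0) P.nil) P.nil))))))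 587689)
 (EL.cons 1 (TM.mk (P.cons (P.cons (P.lf 0 757417352 0) (P.cons (P.lf 208840461 0 0) (P.cons (P.lf 11426906 0 0) (P.lf 0 1269653 0)))) (P.cons (P.cons (P.lf 561336509 0 0) (P.cons (P.lf 0 9125139 0) (P.cons (P.lf 0 499289 0) (P.lf 55474 0 0)))) (P.cons (P.cons (P.lf 163361020 0 0) (P.cons (P.lf 0 22784528 0) (P.cons (P.lf 0 1246672 0) (P.lf 138513 0 0)))) (P.cons (P.cons (P.lf 0 34703449 0) (P.cons (P.lf 0 1023256 0) (P.cons (P.lf 0 55978 0) P.nil))) (P.cons (P.cons (P.lf 0 5807228 0) (P.cons (P.lf 580476 0 0) P.nil)) (P.cons (P.cons (P.lf 640422 0 0) P.nil) P.nil)))))) 307636)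
 (EL.cons 5 (TM.mk (P.cons (P.cons (P.lf 2096105121 0 0) (P.cons (P.lf 0 408637286 0) (P.cons (P.lf 0 22358992 0) (P.lf 2484334 0 0)))) (P.cons (P.cons (P.lf 0 291886557 0) (P.cons (P.lf 0 5350868 0) (P.cons (P.lf 0 292784 0) (P.lf 32540 0 0)))) (P.cons (P.cons (P.lf 0 25811424 0) (P.cons (P.lf 6980976 0 0) (P.cons (P.lf 381968 0 0) (P.lf 0 42438 0)))) (P.cons (P.cons (P.lf 19956712 0 0) (P.cons (P.lf 0 1228450 0) (P.cons (P.lf 0 67210 0) P.nil))) (P.cons (P.cons (P.lf 0 1409133 0) (P.cons (P.lf 0 170546 0) P.nil)) (P.cons (P.cons (P.lf 0 467742 0) P.nil) P.nil)))))) 289750)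
 (EL.cons 9 (TM.mk (P.cons (P.cons (P.lf 2766270823 0 0) (P.cons (P.lf 0 483034626 0) (P.cons (P.lf 0 26429712 0) (P.lf 2936634 0 0)))) (P.cons (P.cons (P.lf 137497041 0 0) (P.cons (P.lf 0 69825318 0) (P.cons (P.lf 0 3820560 0) (P.lf 424506 0 0)))) (P.cons (P.cons (P.lf 0 148510546 0) (P.cons (P.lf 6651444 0 0) (P.cons (P.lf 363936 0 0) (P.lf 0 40434 0)))) (P.cons (P.cons (P.lf 0 486990 0) (P.cons (P.lf 1414056 0 0) (P.cons (P.lf 77364 0 0) P.nil))) (P.cons (P.cons (P.lf 2054692 0 0) (P.cons (P.lf 0 24594 0) P.nil)) (P.cons (P.cons (P.lf 57649 0 0) P.nil) P.nil)))))) 57626)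
 (EL.cons 2 (TM.mk (P.cons (P.cons (P.lf 719137918 0 0) (P.cons (P.lf 90234525 0 0) (P.cons (P.lf 0 13776477 0) (P.cons (P.lf 0 420868 0) (P.lf 35071 0 0))))) (P.cons (P.cons (P.lf 0 153708499 0) (P.cons (P.lf 0 19286721 0) (P.cons (P.lf 2944583 0 0) (P.cons (P.lf 89955 0 0) (P.lf 0 7495 0))))) (P.cons (P.cons (P.lf 0 37725645 0) (P.cons (P.lf 0 4733659 0) (P.cons (P.lf 722705 0 0) (P.cons (P.lf 22078 0 0) P.nil)))) (P.cons (P.cons (P.lf 1497855 0 0) (P.cons (P.lf 187945 0 0) (P.cons (P.lf 0 28693 0) P.nil))) (P.cons (P.cons (P.lf 544030 0 0) (P.cons (P.lf 68262 0 0) P.nil)) (P.cons (P.cons (P.lf 1740 0 0) P.nil) P.nil)))))) 28708)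
 (EL.cons 6 (TM.mk (P.cons (P.cons (P.lf 1087845708 0 0) (P.cons (P.lf 136498494 0 0) (P.cons (P.lf 0 20839788 0) (P.cons (P.lf 0 636651 0) (P.lf 53052 0 0))))) (P.cons (P.cons (P.lf 157254096 0 0) (P.cons (P.lf 19731609 0 0) (P.cons (P.lf 0 3012504 0) (P.cons (P.lf 0 92031 0) (P.lf 7668 0 0))))) (P.cons (P.cons (P.lf 0 14979780 0) (P.cons (P.lf 0 1879602 0) (P.cons (P.lf 286965 0 0) (P.cons (P.lf 8766 0 0) P.nil)))) (P.cons (P.cons (P.lf 0 3184623 0) (P.cons (P.lf 0 399591 0) (P.cons (P.lf 61005 0 0) P.nil))) (P.cons (P.cons (P.lf 55404 0 0) (P.cons (P.lf 6951 0 0) P.nil)) (P.cons (P.cons (P.lf 32214 0 0) P.nil) P.nil)))))) 17097)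
 EL.nil))))))
noncomputable def S198_227_364_438_2 : EL := (EL.cons 0 (TM.mk (P.cons (P.cons (P.lf 1100258077 0 0) (P.cons (P.lf 0 281295888 0) (P.cons (P.lf 179714 0 0) (P.cons (P.lf 3414138 0 0) (P.cons (P.lf 0 142723 0) (P.cons (P.lf 0 10361 0) P.nil)))))) (P.cons (P.cons (P.lf 973119538 0 0) (P.cons (P.lf 0 318997543 0) (P.cons (P.lf 6871594 0 0) (P.cons (P.lf 4601378 0 0) (P.cons (P.lf 0 222947 0) P.nil))))) (P.cons (P.cons (P.lf 0 275471609 0) (P.cons (P.lf 22091632 0 0) (P.cons (P.lf 4470634 0 0) (P.cons (P.lf 222644 0 0) P.nil)))) (P.cons (P.cons (P.lf 0 104963630 0) (P.cons (P.lf 28902608 0 0) (P.cons (P.lf 332717 0 0) P.nil))) (P.cons (P.cons (P.lf 20032457 0 0) (P.cons (P.lf 228872 0 0) P.nil)) (P.cons (P.cons (P.lf 4502828 0 0) P.nil) P.nil)))))) 3739549)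
 (EL.cons 1 (TM.mk (P.cons (P.cons (P.lf 0 423906599 0) (P.cons (P.lf 213808626 0 0) (P.cons (P.lf 0 12710414 0) (P.cons (P.lf 0 3971002 0) (P.cons (P.lf 223714 0 0) (P.cons (P.lf 16238 0 0) P.nil)))))) (P.cons (P.cons (P.lf 412909601 0 0) (P.cons (P.lf 0 61325073 0) (P.cons (P.lf 0 6326283 0) (P.cons (P.lf 47722 0 0) (P.cons (P.lf 27219 0 0) P.nil))))) (P.cons (P.cons (P.lf 162047109 0 0) (P.cons (P.lf 0 56414156 0) (P.cons (P.lf 162525 0 0) (P.cons (P.lf 698529 0 0) P.nil)))) (P.cons (P.cons (P.lf 0 43900374 0) (P.cons (P.lf 1023464 0 0) (P.cons (P.lf 669731 0 0) P.nil))) (P.cons (P.cons (P.lf 0 12341764 0) (P.cons (P.lf 3289715 0 0) P.nil)) (P.cons (P.cons (P.lf 1989943 0 0) P.nil) P.nil)))))) 1892014)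
 (EL.cons 5 (TM.mk (P.cons (P.cons (P.lf 954954820 0 0) (P.cons (P.lf 0 370104509 0) (P.cons (P.lf 15258231 0 0) (P.cons (P.lf 6135864 0 0) (P.cons (P.lf 0 325438 0) (P.cons (P.lf 0 23624 0) P.nil)))))) (P.cons (P.cons (P.lf 0 212176948 0) (P.cons (P.lf 22095504 0 0) (P.cons (P.lf 4426411 0 0) (P.cons (P.lf 217774 0 0) (P.cons (P.lf 0 29494 0) P.nil))))) (P.cons (P.cons (P.lf 0 43268934 0) (P.cons (P.lf 20479957 0 0) (P.cons (P.lf 0 311903 0) (P.cons (P.lf 0 281263 0) P.nil)))) (P.cons (P.cons (P.lf 29662073 0 0) (P.cons (P.lf 0 4847245 0) (P.cons (P.lf 0 224951 0) P.nil))) (P.cons (P.cons (P.lf 0 1266530 0) (P.cons (P.lf 0 721678 0) P.nil)) (P.cons (P.cons (P.lf 0 1420045 0) P.nil) P.nil)))))) 1798025)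
 (EL.cons 9 (TM.mk (P.cons (P.cons (P.lf 1187786190 0 0) (P.cons (P.lf 0 414812499 0) (P.cons (P.lf 13519539 0 0) (P.cons (P.lf 6485106 0 0) (P.cons (P.lf 0 331932 0) (P.cons (P.lf 0 24094 0) P.nil)))))) (P.cons (P.cons (P.lf 118077438 0 0) (P.cons (P.lf 0 80581620 0) (P.cons (P.lf 6061461 0 0) (P.cons (P.lf 1635712 0 0) (P.cons (P.lf 0 95964 0) P.nil))))) (P.cons (P.cons (P.lf 0 124600924 0) (P.cons (P.lf 25001247 0 0) (P.cons (P.lf 1127343 0 0) (P.cons (P.lf 0 178323 0) P.nil)))) (P.cons (P.cons (P.lf 0 6757336 0) (P.cons (P.lf 4790488 0 0) (P.cons (P.lf 0 94113 0) P.nil))) (P.cons (P.cons (P.lf 5167153 0 0) (P.cons (P.lf 0 564970 0) P.nil)) (P.cons (P.cons (P.lf 159663 0 0) P.nil) P.nil)))))) 494831)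
 (EL.cons 2 (TM.mk (P.cons (P.cons (P.lf 617569385 0 0) (P.cons (P.lf 0 30347257 0) (P.cons (P.lf 0 31262158 0) (P.cons (P.lf 1619645 0 0) (P.cons (P.lf 288523 0 0) (P.cons (P.lf 0 14360 0) P.nil)))))) (P.cons (P.cons (P.lf 0 101303060 0) (P.cons (P.lf 0 5250431 0) (P.cons (P.lf 3285005 0 0) (P.cons (P.lf 0 77771 0) (P.cons (P.lf 0 22815 0) P.nil))))) (P.cons (P.cons (P.lf 0 72113355 0) (P.cons (P.lf 1425420 0 0) (P.cons (P.lf 3268783 0 0) (P.cons (P.lf 0 150210 0) P.nil)))) (P.cons (P.cons (P.lf 6653812 0 0) (P.cons (P.lf 1426348 0 0) (P.cons (P.lf 0 20891 0) P.nil))) (P.cons (P.cons (P.lf 2752368 0 0) (P.cons (P.lf 80443 0 0) P.nil)) (P.cons (P.cons (P.lf 0 123806 0) P.nil) P.nil)))))) 410393)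
 (EL.cons 6 (TM.mk (P.cons (P.cons (P.lf 934202172 0 0) (P.cons (P.lf 0 45906540 0) (P.cons (P.lf 0 47290524 0) (P.cons (P.lf 2450052 0 0) (P.cons (P.lf 436452 0 0) (P.cons (P.lf 0 21726 0) P.nil)))))) (P.cons (P.cons (P.lf 181478442 0 0) (P.cons (P.lf 0 24390474 0) (P.cons (P.lf 0 11974716 0) (P.cons (P.lf 760188 0 0) (P.cons (P.lf 121860 0 0) P.nil))))) (P.cons (P.cons (P.lf 0 56305500 0) (P.cons (P.lf 0 5981178 0) (P.cons (P.lf 1273926 0 0) (P.cons (P.lf 13044 0 0) P.nil)))) (P.cons (P.cons (P.lf 0 10788708 0) (P.cons (P.lf 250788 0 0) (P.cons (P.lf 495792 0 0) P.nil))) (P.cons (P.cons (P.lf 1272384 0 0) (P.cons (P.lf 250164 0 0) P.nil)) (P.cons (P.cons (P.lf 298890 0 0) P.nil) P.nil)))))) 306666)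
 EL.nil))))))
noncomputable def S198_227_364_438_3 : EL := (EL.cons 0 (TM.mk (P.cons (P.lf 812258952 0 0) (P.cons (P.lf 0 503779721 0) (P.cons (P.lf 60126632 0 0) (P.cons (P.lf 7110123 0 0) (P.cons (P.lf 0 270363 0) (P.cons (P.lf 0 53070 0) P.nil)))))) 3984)
 (EL.cons 1 (TM.mk (P.cons (P.lf 1228710643 0 0) (P.cons (P.lf 0 321830180 0) (P.cons (P.lf 0 40457490 0) (P.cons (P.lf 2710608 0 0) (P.cons (P.lf 384633 0 0) (P.cons (P.lf 0 7027 0) P.nil)))))) 2881)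
 (EL.cons 5 (TM.mk (P.cons (P.lf 1858680464 0 0) (P.cons (P.lf 179121676 0 0) (P.cons (P.lf 0 21378358 0) (P.cons (P.lf 0 2528040 0) (P.cons (P.lf 96128 0 0) (P.cons (P.lf 18870 0 0) P.nil)))))) 1690)
 EL.nil)))
noncomputable def S198_227_364_438_4 : EL := (EL.cons 0 (TM.mk (P.cons (P.cons (P.lf 348769165 0 0) (P.cons (P.lf 0 60900609 0) (P.cons (P.lf 0 3332235 0) (P.lf 370248 0 0)))) (P.cons (P.cons (P.lf 0 198978300 0) (P.cons (P.lf 28968292 0 0) (P.cons (P.lf 1585028 0 0) (P.lf 0 176113 0)))) (P.cons (P.cons (P.lf 0 3658652 0) (P.cons (P.lf 1790627 0 0) (P.cons (P.lf 97975 0 0) (P.lf 0 10884 0)))) (P.cons (P.cons (P.lf 15887865 0 0) (P.cons (P.lf 0 1526603 0) (P.cons (P.lf 0 83529 0) P.nil))) (P.cons (P.cons (P.lf 0 1053237 0) (P.cons (P.lf 0 108388 0) P.nil)) (P.cons (P.cons (P.lf 0 350405 0) P.nil) P.nil)))))) 110494)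
 (EL.cons 1 (TM.mk (P.cons (P.cons (P.lf 527585919 0 0) (P.cons (P.lf 0 92124841 0) (P.cons (P.lf 0 5040699 0) (P.lf 560075 0 0)))) (P.cons (P.cons (P.lf 0 111964430 0) (P.cons (P.lf 10812656 0 0) (P.cons (P.lf 591624 0 0) (P.lf 0 65733 0)))) (P.cons (P.cons (P.lf 0 52564398 0) (P.cons (P.lf 7790041 0 0) (P.cons (P.lf 426238 0 0) (P.lf 0 47358 0)))) (P.cons (P.cons (P.lf 7626335 0 0) (P.cons (P.lf 172678 0 0) (P.cons (P.lf 9446 0 0) P.nil))) (P.cons (P.cons (P.lf 1571825 0 0) (P.cons (P.lf 0 175314 0) P.nil)) (P.cons (P.cons (P.lf 0 145880 0) P.nil) P.nil)))))) 79417)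
 (EL.cons 5 (TM.mk (P.cons (P.cons (P.lf 798083458 0 0) (P.cons (P.lf 0 139357990 0) (P.cons (P.lf 0 7625108 0) (P.lf 847232 0 0)))) (P.cons (P.cons (P.lf 116580186 0 0) (P.cons (P.lf 0 33574942 0) (P.cons (P.lf 0 1837084 0) (P.lf 204118 0 0)))) (P.cons (P.cons (P.lf 0 48202660 0) (P.cons (P.lf 1580478 0 0) (P.cons (P.lf 86476 0 0) (P.lf 0 9606 0)))) (P.cons (P.cons (P.lf 0 5811346 0) (P.cons (P.lf 1014142 0 0) (P.cons (P.lf 55486 0 0) P.nil))) (P.cons (P.cons (P.lf 1059380 0 0) (P.cons (P.lf 30338 0 0) P.nil)) (P.cons (P.cons (P.lf 143804 0 0) P.nil) P.nil)))))) 59570)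
 EL.nil)))
noncomputable def S198_227_364_438_5 : EL := (EL.cons 0 (TM.mk (P.cons (P.cons (P.lf 149755111 0 0) (P.cons (P.lf 0 52299219 0) (P.cons (P.lf 1704531 0 0) (P.cons (P.lf 817635 0 0) (P.cons (P.lf 0 41848 0) (P.cons (P.lf 0 3037 0) P.nil)))))) (P.cons (P.cons (P.lf 0 77994094 0) (P.cons (P.lf 22277387 0 0) (P.cons (P.lf 0 292960 0) (P.cons (P.lf 0 300884 0) (P.cons (P.lf 13856 0 0) P.nil))))) (P.cons (P.cons (P.lf 0 13857403 0) (P.cons (P.lf 5581974 0 0) (P.cons (P.lf 0 205676 0) (P.cons (P.lf 0 89864 0) P.nil)))) (P.cons (P.cons (P.lf 11304332 0 0) (P.cons (P.lf 0 2560899 0) (P.cons (P.lf 0 28527 0) P.nil))) (P.cons (P.cons (P.lf 97454 0 0) (P.cons (P.lf 0 284022 0) P.nil)) (P.cons (P.cons (P.lf 0 599243 0) P.nil) P.nil)))))) 410001)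
 (EL.cons 1 (TM.mk (P.cons (P.cons (P.lf 226535760 0 0) (P.cons (P.lf 0 79113450 0) (P.cons (P.lf 2578458 0 0) (P.cons (P.lf 1236845 0 0) (P.cons (P.lf 0 63305 0) (P.cons (P.lf 0 4593 0) P.nil)))))) (P.cons (P.cons (P.lf 0 36815559 0) (P.cons (P.lf 5353192 0 0) (P.cons (P.lf 480682 0 0) (P.cons (P.lf 0 11994 0) (P.cons (P.lf 0 1719 0) P.nil))))) (P.cons (P.cons (P.lf 0 37121619 0) (P.cons (P.lf 11398636 0 0) (P.cons (P.lf 0 172689 0) (P.cons (P.lf 0 156446 0) P.nil)))) (P.cons (P.cons (P.lf 4693869 0 0) (P.cons (P.lf 0 3770 0) (P.cons (P.lf 0 106640 0) P.nil))) (P.cons (P.cons (P.lf 2226110 0 0) (P.cons (P.lf 0 562730 0) P.nil)) (P.cons (P.cons (P.lf 0 231907 0) P.nil) P.nil)))))) 329050)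
 (EL.cons 5 (TM.mk (P.cons (P.cons (P.lf 342682466 0 0) (P.cons (P.lf 0 119675554 0) (P.cons (P.lf 3900456 0 0) (P.cons (P.lf 1870986 0 0) (P.cons (P.lf 0 95762 0) (P.cons (P.lf 0 6950 0) P.nil)))))) (P.cons (P.cons (P.lf 67090378 0 0) (P.cons (P.lf 0 34781388 0) (P.cons (P.lf 2124650 0 0) (P.cons (P.lf 652218 0 0) (P.cons (P.lf 0 36914 0) P.nil))))) (P.cons (P.cons (P.lf 0 36606562 0) (P.cons (P.lf 6349046 0 0) (P.cons (P.lf 448910 0 0) (P.cons (P.lf 0 27488 0) P.nil)))) (P.cons (P.cons (P.lf 0 6271762 0) (P.cons (P.lf 2507370 0 0) (P.cons (P.lf 0 21226 0) P.nil))) (P.cons (P.cons (P.lf 1687732 0 0) (P.cons (P.lf 0 87336 0) P.nil)) (P.cons (P.cons (P.lf 266284 0 0) P.nil) P.nil)))))) 276114)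
 EL.nil)))
noncomputable def S198_227_364_438_6 : EL := (EL.cons 12 (TM.mk (P.lf 8589934592 0 0) 0)
 (EL.cons 3 (TM.mk (P.cons (P.lf 0 1320724353 0) (P.cons (P.lf 409570215 0 0) (P.cons (P.lf 14623338 0 0) (P.cons (P.lf 0 1245645 0) (P.cons (P.lf 0 85526 0) (P.cons (P.lf 2831 0 0) P.nil)))))) 532)
 (EL.cons 7 (TM.mk (P.cons (P.lf 0 1997870342 0) (P.cons (P.lf 0 96267727 0) (P.cons (P.lf 13808992 0 0) (P.cons (P.lf 693290 0 0) (P.cons (P.lf 0 37347 0) (P.cons (P.lf 0 3551 0) P.nil)))))) 296)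
 EL.nil)))
noncomputable def S198_227_364_438_7 : EL := (EL.cons 12 (TM.mk (P.cons (P.cons (P.lf 3688361098 0 0) (P.cons (P.lf 0 644046168 0) (P.cons (P.lf 0 35239616 0) (P.lf 3915512 0 0)))) (P.cons (P.cons (P.lf 183329388 0 0) (P.cons (P.lf 0 93100424 0) (P.cons (P.lf 0 5094080 0) (P.lf 566008 0 0)))) (P.cons (P.cons (P.lf 0 198014062 0) (P.cons (P.lf 8868592 0 0) (P.cons (P.lf 485248 0 0) (P.lf 0 53912 0)))) (P.cons (P.cons (P.lf 0 649320 0) (P.cons (P.lf 1885408 0 0) (P.cons (P.lf 103152 0 0) P.nil))) (P.cons (P.cons (P.lf 2739590 0 0) (P.cons (P.lf 0 32792 0) P.nil)) (P.cons (P.cons (P.lf 76866 0 0) P.nil) P.nil)))))) 76810)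
 (EL.cons 3 (TM.mk (P.cons (P.cons (P.lf 17885073 0 0) (P.cons (P.lf 0 198047480 0) (P.cons (P.lf 0 10836360 0) (P.lf 1204038 0 0)))) (P.cons (P.cons (P.lf 0 1101396773 0) (P.cons (P.lf 32787706 0 0) (P.cons (P.lf 1794010 0 0) (P.lf 0 199332 0)))) (P.cons (P.cons (P.lf 5271907 0 0) (P.cons (P.lf 13798062 0 0) (P.cons (P.lf 754972 0 0) (P.lf 0 83882 0)))) (P.cons (P.cons (P.lf 30504762 0 0) (P.cons (P.lf 0 135744 0) (P.cons (P.lf 0 7428 0) P.nil))) (P.cons (P.cons (P.lf 1272582 0 0) (P.cons (P.lf 0 259896 0) P.nil)) (P.cons (P.cons (P.lf 0 376520 0) P.nil) P.nil)))))) 191546)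
 (EL.cons 7 (TM.mk (P.cons (P.cons (P.lf 0 995346108 0) (P.cons (P.lf 219619332 0 0) (P.cons (P.lf 12016691 0 0) (P.lf 0 1335189 0)))) (P.cons (P.cons (P.lf 258878600 0 0) (P.cons (P.lf 0 7706608 0) (P.cons (P.lf 0 421673 0) (P.lf 46851 0 0)))) (P.cons (P.cons (P.lf 0 47616652 0) (P.cons (P.lf 0 1862559 0) (P.cons (P.lf 0 101912 0) (P.lf 11326 0 0)))) (P.cons (P.cons (P.lf 0 5743234 0) (P.cons (P.lf 772915 0 0) (P.cons (P.lf 42287 0 0) P.nil))) (P.cons (P.cons (P.lf 1501854 0 0) (P.cons (P.lf 34768 0 0) P.nil)) (P.cons (P.cons (P.lf 123932 0 0) P.nil) P.nil)))))) 158324)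
 (EL.cons 10 (TM.mk (P.cons (P.cons (P.lf 0 2338621107 0) (P.cons (P.lf 0 293440752 0) (P.cons (P.lf 44800812 0 0) (P.cons (P.lf 1368657 0 0) (P.lf 0 114054 0))))) (P.cons (P.cons (P.lf 0 225373719 0) (P.cons (P.lf 0 28278984 0) (P.cons (P.lf 4317468 0 0) (P.cons (P.lf 131898 0 0) (P.lf 0 10989 0))))) (P.cons (P.cons (P.lf 26898585 0 0) (P.cons (P.lf 3375126 0 0) (P.cons (P.lf 0 515292 0) (P.cons (P.lf 0 15741 0) P.nil)))) (P.cons (P.cons (P.lf 3180819 0 0) (P.cons (P.lf 399114 0 0) (P.cons (P.lf 0 60933 0) P.nil))) (P.cons (P.cons (P.lf 0 120948 0) (P.cons (P.lf 0 15174 0) P.nil)) (P.cons (P.cons (P.lf 0 23742 0) P.nil) P.nil)))))) 11715)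
 EL.nil))))
noncomputable def S198_227_364_438_8 : EL := (EL.cons 12 (TM.mk (P.cons (P.cons (P.lf 1583714920 0 0) (P.cons (P.lf 0 553083332 0) (P.cons (P.lf 18026052 0 0) (P.cons (P.lf 8646808 0 0) (P.cons (P.lf 0 442576 0) (P.cons (P.lf 0 32126 0) P.nil)))))) (P.cons (P.cons (P.lf 157436584 0 0) (P.cons (P.lf 0 107442160 0) (P.cons (P.lf 8081948 0 0) (P.cons (P.lf 2180950 0 0) (P.cons (P.lf 0 127952 0) P.nil))))) (P.cons (P.cons (P.lf 0 166134566 0) (P.cons (P.lf 33334996 0 0) (P.cons (P.lf 1503124 0 0) (P.cons (P.lf 0 237764 0) P.nil)))) (P.cons (P.cons (P.lf 0 9009782 0) (P.cons (P.lf 6387318 0 0) (P.cons (P.lf 0 125484 0) P.nil))) (P.cons (P.cons (P.lf 6889538 0 0) (P.cons (P.lf 0 753294 0) P.nil)) (P.cons (P.cons (P.lf 212884 0 0) P.nil) P.nil)))))) 659746)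
 (EL.cons 3 (TM.mk (P.cons (P.cons (P.lf 258859255 0 0) (P.cons (P.lf 0 257795848 0) (P.cons (P.lf 23016882 0 0) (P.cons (P.lf 5629662 0 0) (P.cons (P.lf 0 340236 0) (P.cons (P.lf 0 24696 0) P.nil)))))) (P.cons (P.cons (P.lf 0 996381555 0) (P.cons (P.lf 194325747 0 0) (P.cons (P.lf 9853174 0 0) (P.cons (P.lf 0 1266716 0) (P.cons (P.lf 7140 0 0) P.nil))))) (P.cons (P.cons (P.lf 0 79056348 0) (P.cons (P.lf 56690261 0 0) (P.cons (P.lf 0 884064 0) (P.cons (P.lf 0 780831 0) P.nil)))) (P.cons (P.cons (P.lf 83694912 0 0) (P.cons (P.lf 0 8468926 0) (P.cons (P.lf 0 835856 0) P.nil))) (P.cons (P.cons (P.lf 4140092 0 0) (P.cons (P.lf 0 2819423 0) P.nil)) (P.cons (P.cons (P.lf 0 2681890 0) P.nil) P.nil)))))) 1667869)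
 (EL.cons 7 (TM.mk (P.cons (P.cons (P.lf 0 486422171 0) (P.cons (P.lf 209219251 0 0) (P.cons (P.lf 0 10254000 0) (P.cons (P.lf 0 3646812 0) (P.cons (P.lf 198899 0 0) (P.cons (P.lf 14437 0 0) P.nil)))))) (P.cons (P.cons (P.lf 234195218 0 0) (P.cons (P.lf 0 45675433 0) (P.cons (P.lf 0 2315944 0) (P.cons (P.lf 297734 0 0) (P.cons (P.lf 0 1677 0) P.nil))))) (P.cons (P.cons (P.lf 0 23373680 0) (P.cons (P.lf 0 5142164 0) (P.cons (P.lf 622693 0 0) (P.cons (P.lf 130192 0 0) P.nil)))) (P.cons (P.cons (P.lf 0 23087680 0) (P.cons (P.lf 4973875 0 0) (P.cons (P.lf 136707 0 0) P.nil))) (P.cons (P.cons (P.lf 4328533 0 0) (P.cons (P.lf 61235 0 0) P.nil)) (P.cons (P.cons (P.lf 745784 0 0) P.nil) P.nil)))))) 1079378)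
 (EL.cons 10 (TM.mk (P.cons (P.cons (P.lf 0 2008322418 0) (P.cons (P.lf 98688642 0 0) (P.cons (P.lf 101663886 0 0) (P.cons (P.lf 0 5267058 0) (P.cons (P.lf 0 938280 0) (P.cons (P.lf 46710 0 0) P.nil)))))) (P.cons (P.cons (P.lf 0 293366058 0) (P.cons (P.lf 47678658 0 0) (P.cons (P.lf 20844234 0 0) (P.cons (P.lf 0 1380450 0) (P.cons (P.lf 0 216762 0) P.nil))))) (P.cons (P.cons (P.lf 121298694 0 0) (P.cons (P.lf 11242896 0 0) (P.cons (P.lf 0 3040356 0) (P.cons (P.lf 2070 0 0) P.nil)))) (P.cons (P.cons (P.lf 14623854 0 0) (P.cons (P.lf 0 717084 0) (P.cons (P.lf 0 739992 0) P.nil))) (P.cons (P.cons (P.lf 0 2665860 0) (P.cons (P.lf 0 410844 0) P.nil)) (P.cons (P.cons (P.lf 0 361872 0) P.nil) P.nil)))))) 446232)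
 EL.nil))))
noncomputable def S198_227_364_438_9 : EL := (EL.cons 3 (TM.mk (P.cons (P.lf 0 1320724353 0) (P.cons (P.lf 409570215 0 0) (P.cons (P.lf 14623338 0 0) (P.cons (P.lf 0 1245645 0) (P.cons (P.lf 0 85526 0) (P.cons (P.lf 2831 0 0) P.nil)))))) 532)
 (EL.cons 7 (TM.mk (P.cons (P.lf 0 1997870342 0) (P.cons (P.lf 0 96267727 0) (P.cons (P.lf 13808992 0 0) (P.cons (P.lf 693290 0 0) (P.cons (P.lf 0 37347 0) (P.cons (P.lf 0 3551 0) P.nil)))))) 296)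
 EL.nil))
noncomputable def S198_227_364_438_10 : EL := (EL.cons 3 (TM.mk (P.cons (P.cons (P.lf 0 567094926 0) (P.cons (P.lf 99023740 0 0) (P.cons (P.lf 5418180 0 0) (P.lf 0 602019 0)))) (P.cons (P.cons (P.lf 147674611 0 0) (P.cons (P.lf 0 16393853 0) (P.cons (P.lf 0 897005 0) (P.lf 99666 0 0)))) (P.cons (P.cons (P.lf 45465352 0 0) (P.cons (P.lf 0 6899031 0) (P.cons (P.lf 0 377486 0) (P.lf 41941 0 0)))) (P.cons (P.cons (P.lf 0 9564285 0) (P.cons (P.lf 67872 0 0) (P.cons (P.lf 3714 0 0) P.nil))) (P.cons (P.cons (P.lf 0 852582 0) (P.cons (P.lf 129948 0 0) P.nil)) (P.cons (P.cons (P.lf 145804 0 0) P.nil) P.nil)))))) 46213)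
 (EL.cons 7 (TM.mk (P.cons (P.cons (P.lf 0 857849052 0) (P.cons (P.lf 149794008 0 0) (P.cons (P.lf 8196125 0 0) (P.lf 0 910680 0)))) (P.cons (P.cons (P.lf 0 83974852 0) (P.cons (P.lf 28871399 0 0) (P.cons (P.lf 1579726 0 0) (P.lf 0 175524 0)))) (P.cons (P.cons (P.lf 49929398 0 0) (P.cons (P.lf 0 2054655 0) (P.cons (P.lf 0 112421 0) (P.lf 12490 0 0)))) (P.cons (P.cons (P.lf 2962574 0 0) (P.cons (P.lf 0 739550 0) (P.cons (P.lf 0 40462 0) P.nil))) (P.cons (P.cons (P.lf 0 949467 0) (P.cons (P.lf 0 3959 0) P.nil)) (P.cons (P.cons (P.lf 0 67927 0) P.nil) P.nil)))))) 35572)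
 EL.nil))
noncomputable def S198_227_364_438_11 : EL := (EL.cons 3 (TM.mk (P.cons (P.cons (P.lf 0 243500207 0) (P.cons (P.lf 85037972 0 0) (P.cons (P.lf 0 2771550 0) (P.cons (P.lf 0 1329468 0) (P.cons (P.lf 68046 0 0) (P.cons (P.lf 4938 0 0) P.nil)))))) (P.cons (P.cons (P.lf 51305643 0 0) (P.cons (P.lf 0 9851643 0) (P.cons (P.lf 0 383132 0) (P.cons (P.lf 76954 0 0) (P.cons (P.lf 0 1428 0) P.nil))))) (P.cons (P.cons (P.lf 35746314 0 0) (P.cons (P.lf 0 11189767 0) (P.cons (P.lf 184926 0 0) (P.cons (P.lf 155265 0 0) P.nil)))) (P.cons (P.cons (P.lf 0 6497700 0) (P.cons (P.lf 504650 0 0) (P.cons (P.lf 102106 0 0) P.nil))) (P.cons (P.cons (P.lf 0 1810294 0) (P.cons (P.lf 498205 0 0) P.nil)) (P.cons (P.cons (P.lf 303470 0 0) P.nil) P.nil)))))) 252849)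
 (EL.cons 7 (TM.mk (P.cons (P.cons (P.lf 0 368344721 0) (P.cons (P.lf 128637625 0 0) (P.cons (P.lf 0 4192548 0) (P.cons (P.lf 0 2011098 0) (P.cons (P.lf 102935 0 0) (P.cons (P.lf 7471 0 0) P.nil)))))) (P.cons (P.cons (P.lf 0 54365782 0) (P.cons (P.lf 31187615 0 0) (P.cons (P.lf 0 2081740 0) (P.cons (P.lf 0 604156 0) (P.cons (P.lf 34719 0 0) P.nil))))) (P.cons (P.cons (P.lf 39421576 0 0) (P.cons (P.lf 0 7438160 0) (P.cons (P.lf 0 411197 0) (P.cons (P.lf 44758 0 0) P.nil)))) (P.cons (P.cons (P.lf 4338308 0 0) (P.cons (P.lf 0 2076527 0) (P.cons (P.lf 26787 0 0) P.nil))) (P.cons (P.cons (P.lf 0 1762667 0) (P.cons (P.lf 150941 0 0) P.nil)) (P.cons (P.cons (P.lf 0 155956 0) P.nil) P.nil)))))) 217480)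
 EL.nil))
noncomputable def S198_227_364_438_12 : EL := (EL.cons 4 (TM.mk (P.cons (P.lf 1320724353 0 0) (P.cons (P.lf 0 409570215 0) (P.cons (P.lf 0 14623338 0) (P.cons (P.lf 1245645 0 0) (P.cons (P.lf 85526 0 0) (P.cons (P.lf 0 2831 0) P.nil)))))) 532)
 (EL.cons 8 (TM.mk (P.cons (P.lf 1997870342 0 0) (P.cons (P.lf 96267727 0 0) (P.cons (P.lf 0 13808992 0) (P.cons (P.lf 0 693290 0) (P.cons (P.lf 37347 0 0) (P.cons (P.lf 3551 0 0) P.nil)))))) 296)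
 EL.nil))
noncomputable def S198_227_364_438_13 : EL := (EL.cons 4 (TM.mk (P.cons (P.cons (P.lf 567094926 0 0) (P.cons (P.lf 0 99023740 0) (P.cons (P.lf 0 5418180 0) (P.lf 602019 0 0)))) (P.cons (P.cons (P.lf 0 147674611 0) (P.cons (P.lf 16393853 0 0) (P.cons (P.lf 897005 0 0) (P.lf 0 99666 0)))) (P.cons (P.cons (P.lf 0 45465352 0) (P.cons (P.lf 6899031 0 0) (P.cons (P.lf 377486 0 0) (P.lf 0 41941 0)))) (P.cons (P.cons (P.lf 9564285 0 0) (P.cons (P.lf 0 67872 0) (P.cons (P.lf 0 3714 0) P.nil))) (P.cons (P.cons (P.lf 852582 0 0) (P.cons (P.lf 0 129948 0) P.nil)) (P.cons (P.cons (P.lf 0 145804 0) P.nil) P.nil)))))) 46213)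
 (EL.cons 8 (TM.mk (P.cons (P.cons (P.lf 857849052 0 0) (P.cons (P.lf 0 149794008 0) (P.cons (P.lf 0 8196125 0) (P.lf 910680 0 0)))) (P.cons (P.cons (P.lf 83974852 0 0) (P.cons (P.lf 0 28871399 0) (P.cons (P.lf 0 1579726 0) (P.lf 175524 0 0)))) (P.cons (P.cons (P.lf 0 49929398 0) (P.cons (P.lf 2054655 0 0) (P.cons (P.lf 112421 0 0) (P.lf 0 12490 0)))) (P.cons (P.cons (P.lf 0 2962574 0) (P.cons (P.lf 739550 0 0) (P.cons (P.lf 40462 0 0) P.nil))) (P.cons (P.cons (P.lf 949467 0 0) (P.cons (P.lf 3959 0 0) P.nil)) (P.cons (P.cons (P.lf 67927 0 0) P.nil) P.nil)))))) 35572)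
 EL.nil))
noncomputable def S198_227_364_438_14 : EL := (EL.cons 4 (TM.mk (P.cons (P.cons (P.lf 243500207 0 0) (P.cons (P.lf 0 85037972 0) (P.cons (P.lf 2771550 0 0) (P.cons (P.lf 1329468 0 0) (P.cons (P.lf 0 68046 0) (P.cons (P.lf 0 4938 0) P.nil)))))) (P.cons (P.cons (P.lf 0 51305643 0) (P.cons (P.lf 9851643 0 0) (P.cons (P.lf 383132 0 0) (P.cons (P.lf 0 76954 0) (P.cons (P.lf 1428 0 0) P.nil))))) (P.cons (P.cons (P.lf 0 35746314 0) (P.cons (P.lf 11189767 0 0) (P.cons (P.lf 0 184926 0) (P.cons (P.lf 0 155265 0) P.nil)))) (P.cons (P.cons (P.lf 6497700 0 0) (P.cons (P.lf 0 504650 0) (P.cons (P.lf 0 102106 0) P.nil))) (P.cons (P.cons (P.lf 1810294 0 0) (P.cons (P.lf 0 498205 0) P.nil)) (P.cons (P.cons (P.lf 0 303470 0) P.nil) P.nil)))))) 252849)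
 (EL.cons 8 (TM.mk (P.cons (P.cons (P.lf 368344721 0 0) (P.cons (P.lf 0 128637625 0) (P.cons (P.lf 4192548 0 0) (P.cons (P.lf 2011098 0 0) (P.cons (P.lf 0 102935 0) (P.cons (P.lf 0 7471 0) P.nil)))))) (P.cons (P.cons (P.lf 54365782 0 0) (P.cons (P.lf 0 31187615 0) (P.cons (P.lf 2081740 0 0) (P.cons (P.lf 604156 0 0) (P.cons (P.lf 0 34719 0) P.nil))))) (P.cons (P.cons (P.lf 0 39421576 0) (P.cons (P.lf 7438160 0 0) (P.cons (P.lf 411197 0 0) (P.cons (P.lf 0 44758 0) P.nil)))) (P.cons (P.cons (P.lf 0 4338308 0) (P.cons (P.lf 2076527 0 0) (P.cons (P.lf 0 26787 0) P.nil))) (P.cons (P.cons (P.lf 1762667 0 0) (P.cons (P.lf 0 150941 0) P.nil)) (P.cons (P.cons (P.lf 155956 0 0) P.nil) P.nil)))))) 217480)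
 EL.nil))
noncomputable def S198_227_364_438_15 : EL := (EL.cons 4 (TM.mk (P.cons (P.lf 0 433204774 0) (P.cons (P.lf 268682518 0 0) (P.cons (P.lf 0 32067537 0) (P.cons (P.lf 0 3792065 0) (P.cons (P.lf 144194 0 0) (P.cons (P.lf 28304 0 0) P.nil)))))) 2128)
 (EL.cons 8 (TM.mk (P.cons (P.lf 0 655312343 0) (P.cons (P.lf 171642763 0 0) (P.cons (P.lf 21577328 0 0) (P.cons (P.lf 0 1445658 0) (P.cons (P.lf 0 205138 0) (P.cons (P.lf 3748 0 0) P.nil)))))) 1533)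
 EL.nil))
noncomputable def S198_227_364_438_16 : EL := (EL.cons 4 (TM.mk (P.cons (P.cons (P.lf 0 186010221 0) (P.cons (P.lf 32480325 0 0) (P.cons (P.lf 1777192 0 0) (P.lf 0 197465 0)))) (P.cons (P.cons (P.lf 106121760 0 0) (P.cons (P.lf 0 15449756 0) (P.cons (P.lf 0 845348 0) (P.lf 93927 0 0)))) (P.cons (P.cons (P.lf 1951281 0 0) (P.cons (P.lf 0 955001 0) (P.cons (P.lf 0 52253 0) (P.lf 5805 0 0)))) (P.cons (P.cons (P.lf 0 8473528 0) (P.cons (P.lf 814188 0 0) (P.cons (P.lf 44549 0 0) P.nil))) (P.cons (P.cons (P.lf 561726 0 0) (P.cons (P.lf 57807 0 0) P.nil)) (P.cons (P.cons (P.lf 186883 0 0) P.nil) P.nil)))))) 58939)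
 (EL.cons 8 (TM.mk (P.cons (P.cons (P.lf 0 281379157 0) (P.cons (P.lf 49133249 0 0) (P.cons (P.lf 2688373 0 0) (P.lf 0 298707 0)))) (P.cons (P.cons (P.lf 59714363 0 0) (P.cons (P.lf 0 5766750 0) (P.cons (P.lf 0 315533 0) (P.lf 35058 0 0)))) (P.cons (P.cons (P.lf 28034346 0 0) (P.cons (P.lf 0 4154689 0) (P.cons (P.lf 0 227327 0) (P.lf 25258 0 0)))) (P.cons (P.cons (P.lf 0 4067379 0) (P.cons (P.lf 0 92095 0) (P.cons (P.lf 0 5038 0) P.nil))) (P.cons (P.cons (P.lf 0 838307 0) (P.cons (P.lf 93501 0 0) P.nil)) (P.cons (P.cons (P.lf 77803 0 0) P.nil) P.nil)))))) 42346)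
 EL.nil))
noncomputable def S198_227_364_438_17 : EL := (EL.cons 4 (TM.mk (P.cons (P.cons (P.lf 0 79869392 0) (P.cons (P.lf 27892917 0 0) (P.cons (P.lf 0 909083 0) (P.cons (P.lf 0 436072 0) (P.cons (P.lf 22319 0 0) (P.cons (P.lf 1620 0 0) P.nil)))))) (P.cons (P.cons (P.lf 41596850 0 0) (P.cons (P.lf 0 11881273 0) (P.cons (P.lf 156245 0 0) (P.cons (P.lf 160471 0 0) (P.cons (P.lf 0 7390 0) P.nil))))) (P.cons (P.cons (P.lf 7390615 0 0) (P.cons (P.lf 0 2977052 0) (P.cons (P.lf 109694 0 0) (P.cons (P.lf 47927 0 0) P.nil)))) (P.cons (P.cons (P.lf 0 6028977 0) (P.cons (P.lf 1365812 0 0) (P.cons (P.lf 15214 0 0) P.nil))) (P.cons (P.cons (P.lf 0 51975 0) (P.cons (P.lf 151478 0 0) P.nil)) (P.cons (P.cons (P.lf 319596 0 0) P.nil) P.nil)))))) 218677)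
 (EL.cons 8 (TM.mk (P.cons (P.cons (P.lf 0 120819072 0) (P.cons (P.lf 42193840 0 0) (P.cons (P.lf 0 1375178 0) (P.cons (P.lf 0 659651 0) (P.cons (P.lf 33763 0 0) (P.cons (P.lf 2450 0 0) P.nil)))))) (P.cons (P.cons (P.lf 19634965 0 0) (P.cons (P.lf 0 2855036 0) (P.cons (P.lf 0 256364 0) (P.cons (P.lf 6397 0 0) (P.cons (P.lf 917 0 0) P.nil))))) (P.cons (P.cons (P.lf 19798197 0 0) (P.cons (P.lf 0 6079273 0) (P.cons (P.lf 92101 0 0) (P.cons (P.lf 83438 0 0) P.nil)))) (P.cons (P.cons (P.lf 0 2503397 0) (P.cons (P.lf 2011 0 0) (P.cons (P.lf 56875 0 0) P.nil))) (P.cons (P.cons (P.lf 0 1187259 0) (P.cons (P.lf 300123 0 0) P.nil)) (P.cons (P.cons (P.lf 123684 0 0) P.nil) P.nil)))))) 175482)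
 EL.nil))
noncomputable def S198_227_364_438_18 : EL := (EL.cons 4 (TM.mk (P.cons (P.lf 142093522 0 0) (P.cons (P.lf 0 132193991 0) (P.cons (P.lf 36274848 0 0) (P.cons (P.lf 0 908220 0) (P.cons (P.lf 0 623396 0) (P.cons (P.lf 0 4479 0) P.nil)))))) 6741)
 (EL.cons 8 (TM.mk (P.cons (P.lf 214946014 0 0) (P.cons (P.lf 0 122956731 0) (P.cons (P.lf 8001726 0 0) (P.cons (P.lf 3495072 0 0) (P.cons (P.lf 0 40579 0) (P.cons (P.lf 0 38127 0) P.nil)))))) 3726)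
 EL.nil))
noncomputable def S198_227_364_438_19 : EL := (EL.cons 4 (TM.mk (P.cons (P.cons (P.lf 61012364 0 0) (P.cons (P.lf 0 10653722 0) (P.cons (P.lf 0 582928 0) (P.lf 64769 0 0)))) (P.cons (P.cons (P.lf 0 53729076 0) (P.cons (P.lf 8371433 0 0) (P.cons (P.lf 458050 0 0) (P.lf 0 50894 0)))) (P.cons (P.cons (P.lf 9478905 0 0) (P.cons (P.lf 0 1140310 0) (P.cons (P.lf 0 62392 0) (P.lf 6931 0 0)))) (P.cons (P.cons (P.lf 3420795 0 0) (P.cons (P.lf 0 430356 0) (P.cons (P.lf 0 23547 0) P.nil))) (P.cons (P.cons (P.lf 0 1067950 0) (P.cons (P.lf 64477 0 0) P.nil)) (P.cons (P.cons (P.lf 0 37922 0) P.nil) P.nil)))))) 64505)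
 (EL.cons 8 (TM.mk (P.cons (P.cons (P.lf 92293894 0 0) (P.cons (P.lf 0 16115972 0) (P.cons (P.lf 0 881801 0) (P.lf 97977 0 0)))) (P.cons (P.cons (P.lf 0 48207922 0) (P.cons (P.lf 6889254 0 0) (P.cons (P.lf 376952 0 0) (P.lf 0 41883 0)))) (P.cons (P.cons (P.lf 0 4143298 0) (P.cons (P.lf 954618 0 0) (P.cons (P.lf 52232 0 0) (P.lf 0 5803 0)))) (P.cons (P.cons (P.lf 4489630 0 0) (P.cons (P.lf 0 428541 0) (P.cons (P.lf 0 23448 0) P.nil))) (P.cons (P.cons (P.lf 0 49438 0) (P.cons (P.lf 0 54385 0) P.nil)) (P.cons (P.cons (P.lf 0 135701 0) P.nil) P.nil)))))) 46744)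
 EL.nil))
noncomputable def S198_227_364_438_20 : EL := (EL.cons 4 (TM.mk (P.cons (P.cons (P.lf 26197594 0 0) (P.cons (P.lf 0 9149028 0) (P.cons (P.lf 298184 0 0) (P.cons (P.lf 143033 0 0) (P.cons (P.lf 0 7320 0) (P.cons (P.lf 0 530 0) P.nil)))))) (P.cons (P.cons (P.lf 0 21768136 0) (P.cons (P.lf 6734329 0 0) (P.cons (P.lf 0 143719 0) (P.cons (P.lf 0 96991 0) (P.cons (P.lf 4694 0 0) P.nil))))) (P.cons (P.cons (P.lf 1516914 0 0) (P.cons (P.lf 0 130747 0) (P.cons (P.lf 0 23388 0) (P.cons (P.lf 0 980 0) P.nil)))) (P.cons (P.cons (P.lf 2905072 0 0) (P.cons (P.lf 0 802591 0) (P.cons (P.lf 7015 0 0) P.nil))) (P.cons (P.cons (P.lf 0 580536 0) (P.cons (P.lf 81512 0 0) P.nil)) (P.cons (P.cons (P.lf 0 135238 0) P.nil) P.nil)))))) 164436)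
 (EL.cons 8 (TM.mk (P.cons (P.cons (P.lf 39629313 0 0) (P.cons (P.lf 0 13839809 0) (P.cons (P.lf 451065 0 0) (P.cons (P.lf 216368 0 0) (P.cons (P.lf 0 11074 0) (P.cons (P.lf 0 803 0) P.nil)))))) (P.cons (P.cons (P.lf 0 18729833 0) (P.cons (P.lf 5228334 0 0) (P.cons (P.lf 0 55790 0) (P.cons (P.lf 0 69196 0) (P.cons (P.lf 3133 0 0) P.nil))))) (P.cons (P.cons (P.lf 0 4935473 0) (P.cons (P.lf 1856863 0 0) (P.cons (P.lf 0 61280 0) (P.cons (P.lf 0 29112 0) P.nil)))) (P.cons (P.cons (P.lf 2943643 0 0) (P.cons (P.lf 0 642451 0) (P.cons (P.lf 0 9792 0) P.nil))) (P.cons (P.cons (P.lf 203181 0 0) (P.cons (P.lf 0 120328 0) P.nil)) (P.cons (P.cons (P.lf 0 177052 0) P.nil) P.nil)))))) 137688)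
 EL.nil))
noncomputable def S198_227_364_438_21 : EL := (EL.cons 4 (TM.mk (P.cons (P.cons (P.lf 0 584979999 0) (P.cons (P.lf 297071220 0 0) (P.cons (P.lf 16254540 0 0) (P.lf 0 1806057 0)))) (P.cons (P.cons (P.lf 1249071384 0 0) (P.cons (P.lf 0 49181559 0) (P.cons (P.lf 0 2691015 0) (P.lf 298998 0 0)))) (P.cons (P.cons (P.lf 40193445 0 0) (P.cons (P.lf 0 20697093 0) (P.cons (P.lf 0 1132458 0) (P.lf 125823 0 0)))) (P.cons (P.cons (P.lf 0 40069047 0) (P.cons (P.lf 203616 0 0) (P.cons (P.lf 11142 0 0) P.nil))) (P.cons (P.cons (P.lf 0 2125164 0) (P.cons (P.lf 389844 0 0) P.nil)) (P.cons (P.cons (P.lf 522324 0 0) P.nil) P.nil)))))) 145314)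
 (EL.cons 8 (TM.mk (P.cons (P.cons (P.lf 137497056 0 0) (P.cons (P.lf 0 69825324 0) (P.cons (P.lf 0 3820566 0) (P.lf 424509 0 0)))) (P.cons (P.cons (P.lf 0 342853452 0) (P.cons (P.lf 36578007 0 0) (P.cons (P.lf 2001399 0 0) (P.lf 0 222375 0)))) (P.cons (P.cons (P.lf 97546050 0 0) (P.cons (P.lf 0 192096 0) (P.cons (P.lf 0 10509 0) (P.lf 1164 0 0)))) (P.cons (P.cons (P.lf 8705808 0 0) (P.cons (P.lf 0 1512465 0) (P.cons (P.lf 0 82749 0) P.nil))) (P.cons (P.cons (P.lf 0 2451321 0) (P.cons (P.lf 0 38727 0) P.nil)) (P.cons (P.cons (P.lf 0 191859 0) P.nil) P.nil)))))) 122733)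
 (EL.cons 11 (TM.mk (P.cons (P.cons (P.lf 2338621107 0 0) (P.cons (P.lf 293440752 0 0) (P.cons (P.lf 0 44800812 0) (P.cons (P.lf 0 1368657 0) (P.lf 114054 0 0))))) (P.cons (P.cons (P.lf 225373719 0 0) (P.cons (P.lf 28278984 0 0) (P.cons (P.lf 0 4317468 0) (P.cons (P.lf 0 131898 0) (P.lf 10989 0 0))))) (P.cons (P.cons (P.lf 0 26898585 0) (P.cons (P.lf 0 3375126 0) (P.cons (P.lf 515292 0 0) (P.cons (P.lf 15741 0 0) P.nil)))) (P.cons (P.cons (P.lf 0 3180819 0) (P.cons (P.lf 0 399114 0) (P.cons (P.lf 60933 0 0) P.nil))) (P.cons (P.cons (P.lf 120948 0 0) (P.cons (P.lf 15174 0 0) P.nil)) (P.cons (P.cons (P.lf 23742 0 0) P.nil) P.nil)))))) 11715)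
 EL.nil)))
noncomputable def S198_227_364_438_22 : EL := (EL.cons 4 (TM.mk (P.cons (P.cons (P.lf 0 251179731 0) (P.cons (P.lf 171416910 0 0) (P.cons (P.lf 0 12894216 0) (P.cons (P.lf 0 3479565 0) (P.cons (P.lf 204141 0 0) (P.cons (P.lf 14817 0 0) P.nil)))))) (P.cons (P.cons (P.lf 523843599 0 0) (P.cons (P.lf 0 102088695 0) (P.cons (P.lf 0 5118153 0) (P.cons (P.lf 671835 0 0) (P.cons (P.lf 0 4284 0) P.nil))))) (P.cons (P.cons (P.lf 57401331 0 0) (P.cons (P.lf 0 33940014 0) (P.cons (P.lf 534495 0 0) (P.cons (P.lf 468048 0 0) P.nil)))) (P.cons (P.cons (P.lf 0 45096306 0) (P.cons (P.lf 4486788 0 0) (P.cons (P.lf 468981 0 0) P.nil))) (P.cons (P.cons (P.lf 0 2975193 0) (P.cons (P.lf 1658814 0 0) P.nil)) (P.cons (P.cons (P.lf 1492680 0 0) P.nil) P.nil)))))) 707499)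
 (EL.cons 8 (TM.mk (P.cons (P.cons (P.lf 59038725 0 0) (P.cons (P.lf 0 40290813 0) (P.cons (P.lf 3030726 0 0) (P.cons (P.lf 817857 0 0) (P.cons (P.lf 0 47982 0) (P.cons (P.lf 0 3483 0) P.nil)))))) (P.cons (P.cons (P.lf 0 144280500 0) (P.cons (P.lf 38431524 0 0) (P.cons (P.lf 117102 0 0) (P.cons (P.lf 0 450945 0) (P.cons (P.lf 18198 0 0) P.nil))))) (P.cons (P.cons (P.lf 31397628 0 0) (P.cons (P.lf 0 1147998 0) (P.cons (P.lf 0 516945 0) (P.cons (P.lf 0 42717 0) P.nil)))) (P.cons (P.cons (P.lf 13712994 0 0) (P.cons (P.lf 0 3525201 0) (P.cons (P.lf 0 54960 0) P.nil))) (P.cons (P.cons (P.lf 0 3045600 0) (P.cons (P.lf 44853 0 0) P.nil)) (P.cons (P.cons (P.lf 0 450870 0) P.nil) P.nil)))))) 430938)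
 (EL.cons 11 (TM.mk (P.cons (P.cons (P.lf 1004161209 0 0) (P.cons (P.lf 0 49344321 0) (P.cons (P.lf 0 50831943 0) (P.cons (P.lf 2633529 0 0) (P.cons (P.lf 469140 0 0) (P.cons (P.lf 0 23355 0) P.nil)))))) (P.cons (P.cons (P.lf 146683029 0 0) (P.cons (P.lf 0 23839329 0) (P.cons (P.lf 0 10422117 0) (P.cons (P.lf 690225 0 0) (P.cons (P.lf 108381 0 0) P.nil))))) (P.cons (P.cons (P.lf 0 60649347 0) (P.cons (P.lf 0 5621448 0) (P.cons (P.lf 1520178 0 0) (P.cons (P.lf 0 1035 0) P.nil)))) (P.cons (P.cons (P.lf 0 7311927 0) (P.cons (P.lf 358542 0 0) (P.cons (P.lf 369996 0 0) P.nil))) (P.cons (P.cons (P.lf 1332930 0 0) (P.cons (P.lf 205422 0 0) P.nil)) (P.cons (P.cons (P.lf 180936 0 0) P.nil) P.nil)))))) 223116)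
 EL.nil)))
noncomputable def S198_227_364_438_23 : EL := (EL.cons 4 (TM.mk (P.cons (P.cons (P.lf 191876622 0 0) (P.cons (P.lf 0 97440975 0) (P.cons (P.lf 0 5331576 0) (P.lf 592395 0 0)))) (P.cons (P.cons (P.lf 0 469205124 0) (P.cons (P.lf 46349268 0 0) (P.cons (P.lf 2536044 0 0) (P.lf 0 281781 0)))) (P.cons (P.cons (P.lf 111744705 0 0) (P.cons (P.lf 2865003 0 0) (P.cons (P.lf 156759 0 0) (P.lf 0 17415 0)))) (P.cons (P.cons (P.lf 21948534 0 0) (P.cons (P.lf 0 2442567 0) (P.cons (P.lf 0 133647 0) P.nil))) (P.cons (P.cons (P.lf 0 3606684 0) (P.cons (P.lf 0 173421 0) P.nil)) (P.cons (P.cons (P.lf 0 572388 0) P.nil) P.nil)))))) 214179)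
 (EL.cons 8 (TM.mk (P.cons (P.cons (P.lf 0 45099780 0) (P.cons (P.lf 22903086 0 0) (P.cons (P.lf 1253166 0 0) (P.lf 0 139239 0)))) (P.cons (P.cons (P.lf 126443703 0 0) (P.cons (P.lf 0 19100268 0) (P.cons (P.lf 0 1045089 0) (P.lf 116118 0 0)))) (P.cons (P.cons (P.lf 0 66370599 0) (P.cons (P.lf 3530055 0 0) (P.cons (P.lf 193149 0 0) (P.lf 0 21459 0)))) (P.cons (P.cons (P.lf 5778930 0 0) (P.cons (P.lf 630999 0 0) (P.cons (P.lf 34521 0 0) P.nil))) (P.cons (P.cons (P.lf 2146989 0 0) (P.cons (P.lf 0 151671 0) P.nil)) (P.cons (P.cons (P.lf 0 177591 0) P.nil) P.nil)))))) 110313)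
 (EL.cons 11 (TM.mk (P.cons (P.cons (P.lf 0 767080446 0) (P.cons (P.lf 0 96250161 0) (P.cons (P.lf 14694909 0 0) (P.cons (P.lf 448926 0 0) (P.lf 0 37410 0))))) (P.cons (P.cons (P.lf 163955733 0 0) (P.cons (P.lf 20572503 0 0) (P.cons (P.lf 0 3140889 0) (P.cons (P.lf 0 95952 0) (P.lf 7995 0 0))))) (P.cons (P.cons (P.lf 40240689 0 0) (P.cons (P.lf 5049237 0 0) (P.cons (P.lf 0 770886 0) (P.cons (P.lf 0 23550 0) P.nil)))) (P.cons (P.cons (P.lf 0 1597713 0) (P.cons (P.lf 0 200475 0) (P.cons (P.lf 30606 0 0) P.nil))) (P.cons (P.cons (P.lf 0 580299 0) (P.cons (P.lf 0 72813 0) P.nil)) (P.cons (P.cons (P.lf 0 1857 0) P.nil) P.nil)))))) 30600)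
 EL.nil)))
noncomputable def S198_227_364_438_24 : EL := (EL.cons 4 (TM.mk (P.cons (P.cons (P.lf 82388316 0 0) (P.cons (P.lf 0 56225679 0) (P.cons (P.lf 4229373 0 0) (P.cons (P.lf 1141314 0 0) (P.cons (P.lf 0 66957 0) (P.cons (P.lf 0 4860 0) P.nil)))))) (P.cons (P.cons (P.lf 0 197373015 0) (P.cons (P.lf 50921808 0 0) (P.cons (P.lf 367209 0 0) (P.cons (P.lf 0 574299 0) (P.cons (P.lf 22170 0 0) P.nil))))) (P.cons (P.cons (P.lf 33544080 0 0) (P.cons (P.lf 1370808 0 0) (P.cons (P.lf 0 742752 0) (P.cons (P.lf 0 97821 0) P.nil)))) (P.cons (P.cons (P.lf 22610745 0 0) (P.cons (P.lf 0 5347785 0) (P.cons (P.lf 0 114057 0) P.nil))) (P.cons (P.cons (P.lf 0 3559473 0) (P.cons (P.lf 0 183033 0) P.nil)) (P.cons (P.cons (P.lf 0 985074 0) P.nil) P.nil)))))) 714696)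
 (EL.cons 8 (TM.mk (P.cons (P.cons (P.lf 0 19365021 0) (P.cons (P.lf 13215606 0 0) (P.cons (P.lf 0 994095 0) (P.cons (P.lf 0 268260 0) (P.cons (P.lf 15738 0 0) (P.cons (P.lf 1140 0 0) P.nil)))))) (P.cons (P.cons (P.lf 53330082 0 0) (P.cons (P.lf 0 16704042 0) (P.cons (P.lf 269868 0 0) (P.cons (P.lf 231102 0 0) (P.cons (P.lf 0 10848 0) P.nil))))) (P.cons (P.cons (P.lf 0 24760083 0) (P.cons (P.lf 4139397 0 0) (P.cons (P.lf 192477 0 0) (P.cons (P.lf 0 28884 0) P.nil)))) (P.cons (P.cons (P.lf 0 1846491 0) (P.cons (P.lf 1191549 0 0) (P.cons (P.lf 0 35067 0) P.nil))) (P.cons (P.cons (P.lf 2551236 0 0) (P.cons (P.lf 0 388491 0) P.nil)) (P.cons (P.cons (P.lf 0 118707 0) P.nil) P.nil)))))) 299475)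
 (EL.cons 11 (TM.mk (P.cons (P.cons (P.lf 0 329370339 0) (P.cons (P.lf 16185204 0 0) (P.cons (P.lf 16673151 0 0) (P.cons (P.lf 0 863811 0) (P.cons (P.lf 0 153879 0) (P.cons (P.lf 7659 0 0) P.nil)))))) (P.cons (P.cons (P.lf 54028299 0 0) (P.cons (P.lf 2800230 0 0) (P.cons (P.lf 0 1752003 0) (P.cons (P.lf 41478 0 0) (P.cons (P.lf 12168 0 0) P.nil))))) (P.cons (P.cons (P.lf 38460456 0 0) (P.cons (P.lf 0 760224 0) (P.cons (P.lf 0 1743351 0) (P.cons (P.lf 80112 0 0) P.nil)))) (P.cons (P.cons (P.lf 0 3548700 0) (P.cons (P.lf 0 760719 0) (P.cons (P.lf 11142 0 0) P.nil))) (P.cons (P.cons (P.lf 0 1467930 0) (P.cons (P.lf 0 42903 0) P.nil)) (P.cons (P.cons (P.lf 66030 0 0) P.nil) P.nil)))))) 218865)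
 EL.nil)))
noncomputable def S198_227_364_438_25 : EL := (EL.cons 4 (TM.mk (P.cons (P.cons (P.lf 0 62936574 0) (P.cons (P.lf 31961169 0 0) (P.cons (P.lf 1748784 0 0) (P.lf 0 194307 0)))) (P.cons (P.cons (P.lf 173419113 0 0) (P.cons (P.lf 0 25114299 0) (P.cons (P.lf 0 1374153 0) (P.lf 152682 0 0)))) (P.cons (P.cons (P.lf 0 83682564 0) (P.cons (P.lf 3420930 0 0) (P.cons (P.lf 187179 0 0) (P.lf 0 20796 0)))) (P.cons (P.cons (P.lf 2403801 0 0) (P.cons (P.lf 1291068 0 0) (P.cons (P.lf 70641 0 0) P.nil))) (P.cons (P.cons (P.lf 3962475 0 0) (P.cons (P.lf 0 193431 0) P.nil)) (P.cons (P.cons (P.lf 0 123873 0) P.nil) P.nil)))))) 220599)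
 (EL.cons 8 (TM.mk (P.cons (P.cons (P.lf 14792973 0 0) (P.cons (P.lf 0 7512336 0) (P.cons (P.lf 0 411045 0) (P.lf 45669 0 0)))) (P.cons (P.cons (P.lf 0 46061676 0) (P.cons (P.lf 8594643 0 0) (P.cons (P.lf 470262 0 0) (P.lf 0 52251 0)))) (P.cons (P.cons (P.lf 34467708 0 0) (P.cons (P.lf 0 3017538 0) (P.cons (P.lf 0 165105 0) (P.lf 18342 0 0)))) (P.cons (P.cons (P.lf 0 8173431 0) (P.cons (P.lf 75645 0 0) (P.cons (P.lf 4137 0 0) P.nil))) (P.cons (P.cons (P.lf 0 395601 0) (P.cons (P.lf 132174 0 0) P.nil)) (P.cons (P.cons (P.lf 315441 0 0) P.nil) P.nil)))))) 104235)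
 (EL.cons 11 (TM.mk (P.cons (P.cons (P.lf 251606559 0 0) (P.cons (P.lf 31570575 0 0) (P.cons (P.lf 0 4820010 0) (P.cons (P.lf 0 147249 0) (P.lf 12270 0 0))))) (P.cons (P.cons (P.lf 0 131804157 0) (P.cons (P.lf 0 16538253 0) (P.cons (P.lf 2524962 0 0) (P.cons (P.lf 77136 0 0) (P.lf 0 6426 0))))) (P.cons (P.cons (P.lf 692217 0 0) (P.cons (P.lf 86856 0 0) (P.cons (P.lf 0 13260 0) (P.cons (P.lf 0 405 0) P.nil)))) (P.cons (P.cons (P.lf 5450004 0 0) (P.cons (P.lf 683844 0 0) (P.cons (P.lf 0 104403 0) P.nil))) (P.cons (P.cons (P.lf 139542 0 0) (P.cons (P.lf 17508 0 0) P.nil)) (P.cons (P.cons (P.lf 0 80688 0) P.nil) P.nil)))))) 44802)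
 EL.nil)))
noncomputable def S198_227_364_438_26 : EL := (EL.cons 4 (TM.mk (P.cons (P.cons (P.lf 0 27023814 0) (P.cons (P.lf 18442326 0 0) (P.cons (P.lf 0 1387257 0) (P.cons (P.lf 0 374355 0) (P.cons (P.lf 21963 0 0) (P.cons (P.lf 1593 0 0) P.nil)))))) (P.cons (P.cons (P.lf 73119786 0 0) (P.cons (P.lf 0 22421784 0) (P.cons (P.lf 309753 0 0) (P.cons (P.lf 304464 0 0) (P.cons (P.lf 0 14082 0) P.nil))))) (P.cons (P.cons (P.lf 0 30779787 0) (P.cons (P.lf 4525827 0 0) (P.cons (P.lf 296337 0 0) (P.cons (P.lf 0 22185 0) P.nil)))) (P.cons (P.cons (P.lf 0 4746711 0) (P.cons (P.lf 2095866 0 0) (P.cons (P.lf 0 38112 0) P.nil))) (P.cons (P.cons (P.lf 3648573 0 0) (P.cons (P.lf 0 493509 0) P.nil)) (P.cons (P.cons (P.lf 37038 0 0) P.nil) P.nil)))))) 480510)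
 (EL.cons 8 (TM.mk (P.cons (P.cons (P.lf 6351831 0 0) (P.cons (P.lf 0 4334790 0) (P.cons (P.lf 326067 0 0) (P.cons (P.lf 87990 0 0) (P.cons (P.lf 0 5160 0) (P.cons (P.lf 0 372 0) P.nil)))))) (P.cons (P.cons (P.lf 0 19462326 0) (P.cons (P.lf 6823278 0 0) (P.cons (P.lf 0 189633 0) (P.cons (P.lf 0 103089 0) (P.cons (P.lf 5157 0 0) P.nil))))) (P.cons (P.cons (P.lf 13475733 0 0) (P.cons (P.lf 0 3008847 0) (P.cons (P.lf 0 39291 0) (P.cons (P.lf 32007 0 0) P.nil)))) (P.cons (P.cons (P.lf 0 1713210 0) (P.cons (P.lf 0 34536 0) (P.cons (P.lf 32367 0 0) P.nil))) (P.cons (P.cons (P.lf 0 1130649 0) (P.cons (P.lf 268548 0 0) P.nil)) (P.cons (P.cons (P.lf 298248 0 0) P.nil) P.nil)))))) 194352)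
 (EL.cons 11 (TM.mk (P.cons (P.cons (P.lf 108035262 0 0) (P.cons (P.lf 0 5308833 0) (P.cons (P.lf 0 5468883 0) (P.cons (P.lf 283332 0 0) (P.cons (P.lf 50472 0 0) (P.cons (P.lf 0 2511 0) P.nil)))))) (P.cons (P.cons (P.lf 0 51224421 0) (P.cons (P.lf 727833 0 0) (P.cons (P.lf 2270622 0 0) (P.cons (P.lf 0 101469 0) (P.cons (P.lf 0 19644 0) P.nil))))) (P.cons (P.cons (P.lf 0 8315784 0) (P.cons (P.lf 592971 0 0) (P.cons (P.lf 454170 0 0) (P.cons (P.lf 0 25194 0) P.nil)))) (P.cons (P.cons (P.lf 5374218 0 0) (P.cons (P.lf 177354 0 0) (P.cons (P.lf 0 192504 0) P.nil))) (P.cons (P.cons (P.lf 250482 0 0) (P.cons (P.lf 0 67275 0) P.nil)) (P.cons (P.cons (P.lf 0 197136 0) P.nil) P.nil)))))) 180432)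
 EL.nil)))
noncomputable def S198_227_364_438_27 : EL := (EL.cons 13 (TM.mk (P.lf 0 4294967296 0) 0)
 EL.nil)
noncomputable def S198_227_364_438_28 : EL := (EL.cons 13 (TM.mk (P.cons (P.cons (P.lf 0 1844180549 0) (P.cons (P.lf 322023084 0 0) (P.cons (P.lf 17619808 0 0) (P.lf 0 1957756 0)))) (P.cons (P.cons (P.lf 0 91664694 0) (P.cons (P.lf 46550212 0 0) (P.cons (P.lf 2547040 0 0) (P.lf 0 283004 0)))) (P.cons (P.cons (P.lf 99007031 0 0) (P.cons (P.lf 0 4434296 0) (P.cons (P.lf 0 242624 0) (P.lf 26956 0 0)))) (P.cons (P.cons (P.lf 324660 0 0) (P.cons (P.lf 0 942704 0) (P.cons (P.lf 0 51576 0) P.nil))) (P.cons (P.cons (P.lf 0 1369795 0) (P.cons (P.lf 16396 0 0) P.nil)) (P.cons (P.cons (P.lf 0 38433 0) P.nil) P.nil)))))) 38405)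
 EL.nil)
noncomputable def S198_227_364_438_29 : EL := (EL.cons 13 (TM.mk (P.cons (P.cons (P.lf 0 791857460 0) (P.cons (P.lf 276541666 0 0) (P.cons (P.lf 0 9013026 0) (P.cons (P.lf 0 4323404 0) (P.cons (P.lf 221288 0 0) (P.cons (P.lf 16063 0 0) P.nil)))))) (P.cons (P.cons (P.lf 0 78718292 0) (P.cons (P.lf 53721080 0 0) (P.cons (P.lf 0 4040974 0) (P.cons (P.lf 0 1090475 0) (P.cons (P.lf 63976 0 0) P.nil))))) (P.cons (P.cons (P.lf 83067283 0 0) (P.cons (P.lf 0 16667498 0) (P.cons (P.lf 0 751562 0) (P.cons (P.lf 118882 0 0) P.nil)))) (P.cons (P.cons (P.lf 4504891 0 0) (P.cons (P.lf 0 3193659 0) (P.cons (P.lf 62742 0 0) P.nil))) (P.cons (P.cons (P.lf 0 3444769 0) (P.cons (P.lf 376647 0 0) P.nil)) (P.cons (P.cons (P.lf 0 106442 0) P.nil) P.nil)))))) 329873)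
 EL.nil)
noncomputable def S198_227_364_438_30 : EL := (EL.cons 13 (TM.mk (P.cons (P.lf 1408772644 0 0) (P.cons (P.lf 0 436874896 0) (P.cons (P.lf 0 15598228 0) (P.cons (P.lf 1328688 0 0) (P.cons (P.lf 91228 0 0) (P.cons (P.lf 0 3020 0) P.nil)))))) 560)
 EL.nil)
noncomputable def S198_227_364_438_31 : EL := (EL.cons 13 (TM.mk (P.cons (P.cons (P.lf 604901255 0 0) (P.cons (P.lf 0 105625323 0) (P.cons (P.lf 0 5779392 0) (P.lf 642154 0 0)))) (P.cons (P.cons (P.lf 0 157519586 0) (P.cons (P.lf 17486777 0 0) (P.cons (P.lf 956806 0 0) (P.lf 0 106311 0)))) (P.cons (P.cons (P.lf 0 48496376 0) (P.cons (P.lf 7358967 0 0) (P.cons (P.lf 402652 0 0) (P.lf 0 44738 0)))) (P.cons (P.cons (P.lf 10201904 0 0) (P.cons (P.lf 0 72397 0) (P.cons (P.lf 0 3962 0) P.nil))) (P.cons (P.cons (P.lf 909421 0 0) (P.cons (P.lf 0 138612 0) P.nil)) (P.cons (P.cons (P.lf 0 155525 0) P.nil) P.nil))))))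 49274)
 EL.nil)
noncomputable def S198_227_364_438_32 : EL := (EL.cons 13 (TM.mk (P.cons (P.cons (P.lf 259733555 0 0) (P.cons (P.lf 0 90707171 0) (P.cons (P.lf 2956321 0 0) (P.cons (P.lf 1418100 0 0) (P.cons (P.lf 0 72583 0) (P.cons (P.lf 0 5268 0) P.nil)))))) (P.cons (P.cons (P.lf 0 54726020 0) (P.cons (P.lf 10508420 0 0) (P.cons (P.lf 408675 0 0) (P.cons (P.lf 0 82085 0) (P.cons (P.lf 1524 0 0) P.nil))))) (P.cons (P.cons (P.lf 0 38129402 0) (P.cons (P.lf 11935752 0 0) (P.cons (P.lf 0 197255 0) (P.cons (P.lf 0 165616 0) P.nil)))) (P.cons (P.cons (P.lf 6930881 0 0) (P.cons (P.lf 0 538294 0) (P.cons (P.lf 0 108914 0) P.nil))) (P.cons (P.cons (P.lf 1930981 0 0) (P.cons (P.lf 0 531419 0) P.nil)) (P.cons (P.cons (P.lf 0 323702 0) P.nil) P.nil)))))) 269683)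
 EL.nil)
noncomputable def S198_227_364_438_33 : EL := (EL.cons 14 (TM.mk (P.lf 8589934592 0 0) 0)
 EL.nil)
noncomputable def S198_227_364_438_34 : EL := (EL.cons 14 (TM.mk (P.cons (P.cons (P.lf 3688361098 0 0) (P.cons (P.lf 0 644046168 0) (P.cons (P.lf 0 35239616 0) (P.lf 3915512 0 0)))) (P.cons (P.cons (P.lf 183329388 0 0) (P.cons (P.lf 0 93100424 0) (P.cons (P.lf 0 5094080 0) (P.lf 566008 0 0)))) (P.cons (P.cons (P.lf 0 198014062 0) (P.cons (P.lf 8868592 0 0) (P.cons (P.lf 485248 0 0) (P.lf 0 53912 0)))) (P.cons (P.cons (P.lf 0 649320 0) (P.cons (P.lf 1885408 0 0) (P.cons (P.lf 103152 0 0) P.nil))) (P.cons (P.cons (P.lf 2739590 0 0) (P.cons (P.lf 0 32792 0) P.nil)) (P.cons (P.cons (P.lf 76866 0 0) P.nil) P.nil)))))) 76810)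
 EL.nil)
noncomputable def S198_227_364_438_35 : EL := (EL.cons 14 (TM.mk (P.cons (P.cons (P.lf 1583714920 0 0) (P.cons (P.lf 0 553083332 0) (P.cons (P.lf 18026052 0 0) (P.cons (P.lf 8646808 0 0) (P.cons (P.lf 0 442576 0) (P.cons (P.lf 0 32126 0) P.nil)))))) (P.cons (P.cons (P.lf 157436584 0 0) (P.cons (P.lf 0 107442160 0) (P.cons (P.lf 8081948 0 0) (P.cons (P.lf 2180950 0 0) (P.cons (P.lf 0 127952 0) P.nil))))) (P.cons (P.cons (P.lf 0 166134566 0) (P.cons (P.lf 33334996 0 0) (P.cons (P.lf 1503124 0 0) (P.cons (P.lf 0 237764 0) P.nil)))) (P.cons (P.cons (P.lf 0 9009782 0) (P.cons (P.lf 6387318 0 0) (P.cons (P.lf 0 125484 0) P.nil))) (P.cons (P.cons (P.lf 6889538 0 0) (P.cons (P.lf 0 753294 0) P.nil)) (P.cons (P.cons (P.lf 212884 0 0) P.nil) P.nil)))))) 659746)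
 EL.nil)
noncomputable def S198_227_364_438_36 : EL := (EL.cons 14 (TM.mk (P.cons (P.lf 0 2817545288 0) (P.cons (P.lf 873749792 0 0) (P.cons (P.lf 31196456 0 0) (P.cons (P.lf 0 2657376 0) (P.cons (P.lf 0 182456 0) (P.cons (P.lf 6040 0 0) P.nil)))))) 1120)
 EL.nil)
noncomputable def S198_227_364_438_37 : EL := (EL.cons 14 (TM.mk (P.cons (P.cons (P.lf 0 1209802510 0) (P.cons (P.lf 211250646 0 0) (P.cons (P.lf 11558784 0 0) (P.lf 0 1284308 0)))) (P.cons (P.cons (P.lf 315039172 0 0) (P.cons (P.lf 0 34973554 0) (P.cons (P.lf 0 1913612 0) (P.lf 212622 0 0)))) (P.cons (P.cons (P.lf 96992752 0 0) (P.cons (P.lf 0 14717934 0) (P.cons (P.lf 0 805304 0) (P.lf 89476 0 0)))) (P.cons (P.cons (P.lf 0 20403808 0) (P.cons (P.lf 144794 0 0) (P.cons (P.lf 7924 0 0) P.nil))) (P.cons (P.cons (P.lf 0 1818842 0) (P.cons (P.lf 277224 0 0) P.nil)) (P.cons (P.cons (P.lf 311050 0 0) P.nil) P.nil))))))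 98548)
 EL.nil)
noncomputable def S198_227_364_438_38 : EL := (EL.cons 14 (TM.mk (P.cons (P.cons (P.lf 0 519467110 0) (P.cons (P.lf 181414342 0 0) (P.cons (P.lf 0 5912642 0) (P.cons (P.lf 0 2836200 0) (P.cons (P.lf 145166 0 0) (P.cons (P.lf 10536 0 0) P.nil)))))) (P.cons (P.cons (P.lf 109452040 0 0) (P.cons (P.lf 0 21016840 0) (P.cons (P.lf 0 817350 0) (P.cons (P.lf 164170 0 0) (P.cons (P.lf 0 3048 0) P.nil))))) (P.cons (P.cons (P.lf 76258804 0 0) (P.cons (P.lf 0 23871504 0) (P.cons (P.lf 394510 0 0) (P.cons (P.lf 331232 0 0) P.nil)))) (P.cons (P.cons (P.lf 0 13861762 0) (P.cons (P.lf 1076588 0 0) (P.cons (P.lf 217828 0 0) P.nil))) (P.cons (P.cons (P.lf 0 3861962 0) (P.cons (P.lf 1062838 0 0) P.nil)) (P.cons (P.cons (P.lf 647404 0 0) P.nil) P.nil)))))) 539366)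
 EL.nil)
noncomputable def S198_227_364_438_39 : EL := (EL.cons 14 (TM.mk (P.cons (P.lf 924170186 0 0) (P.cons (P.lf 0 573189372 0) (P.cons (P.lf 68410746 0 0) (P.cons (P.lf 8089740 0 0) (P.cons (P.lf 0 307614 0) (P.cons (P.lf 0 60382 0) P.nil)))))) 4526)
 EL.nil)
noncomputable def S198_227_364_438_40 : EL := (EL.cons 14 (TM.mk (P.cons (P.cons (P.lf 396821806 0 0) (P.cons (P.lf 0 69291360 0) (P.cons (P.lf 0 3791344 0) (P.lf 421260 0 0)))) (P.cons (P.cons (P.lf 0 226393088 0) (P.cons (P.lf 32959480 0 0) (P.cons (P.lf 1803410 0 0) (P.lf 0 200378 0)))) (P.cons (P.cons (P.lf 0 4162734 0) (P.cons (P.lf 2037336 0 0) (P.cons (P.lf 111474 0 0) (P.lf 0 12384 0)))) (P.cons (P.cons (P.lf 18076860 0 0) (P.cons (P.lf 0 1736936 0) (P.cons (P.lf 0 95038 0) P.nil))) (P.cons (P.cons (P.lf 0 1198350 0) (P.cons (P.lf 0 123322 0) P.nil)) (P.cons (P.cons (P.lf 0 398684 0) P.nil) P.nil))))))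 125696)
 EL.nil)
noncomputable def S198_227_364_438_41 : EL := (EL.cons 14 (TM.mk (P.cons (P.cons (P.lf 170388038 0 0) (P.cons (P.lf 0 59504890 0) (P.cons (P.lf 1939378 0 0) (P.cons (P.lf 930288 0 0) (P.cons (P.lf 0 47614 0) (P.cons (P.lf 0 3456 0) P.nil)))))) (P.cons (P.cons (P.lf 0 88739948 0) (P.cons (P.lf 25346716 0 0) (P.cons (P.lf 0 333324 0) (P.cons (P.lf 0 342340 0) (P.cons (P.lf 15766 0 0) P.nil))))) (P.cons (P.cons (P.lf 0 15766646 0) (P.cons (P.lf 6351046 0 0) (P.cons (P.lf 0 234014 0) (P.cons (P.lf 0 102246 0) P.nil)))) (P.cons (P.cons (P.lf 12861818 0 0) (P.cons (P.lf 0 2913734 0) (P.cons (P.lf 0 32458 0) P.nil))) (P.cons (P.cons (P.lf 110882 0 0) (P.cons (P.lf 0 323154 0) P.nil)) (P.cons (P.cons (P.lf 0 681806 0) P.nil) P.nil)))))) 466466)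
 EL.nil)
noncomputable def S198_227_364_438_42 : EL := (EL.cons 14 (TM.mk (P.cons (P.lf 0 303132848 0) (P.cons (P.lf 282013848 0 0) (P.cons (P.lf 0 77386344 0) (P.cons (P.lf 1937536 0 0) (P.cons (P.lf 1329912 0 0) (P.cons (P.lf 9556 0 0) P.nil)))))) 14366)
 EL.nil)
noncomputable def S198_227_364_438_43 : EL := (EL.cons 14 (TM.mk (P.cons (P.cons (P.lf 0 130159710 0) (P.cons (P.lf 22727942 0 0) (P.cons (P.lf 1243580 0 0) (P.lf 0 138174 0)))) (P.cons (P.cons (P.lf 114622030 0 0) (P.cons (P.lf 0 17859058 0) (P.cons (P.lf 0 977174 0) (P.lf 108574 0 0)))) (P.cons (P.cons (P.lf 0 20221664 0) (P.cons (P.lf 2432662 0 0) (P.cons (P.lf 133104 0 0) (P.lf 0 14788 0)))) (P.cons (P.cons (P.lf 0 7297696 0) (P.cons (P.lf 918094 0 0) (P.cons (P.lf 50234 0 0) P.nil))) (P.cons (P.cons (P.lf 2278294 0 0) (P.cons (P.lf 0 137552 0) P.nil)) (P.cons (P.cons (P.lf 80902 0 0) P.nil) P.nil))))))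 137572)
 EL.nil)
noncomputable def S198_227_364_438_44 : EL := (EL.cons 14 (TM.mk (P.cons (P.cons (P.lf 0 55888202 0) (P.cons (P.lf 19517928 0 0) (P.cons (P.lf 0 636126 0) (P.cons (P.lf 0 305138 0) (P.cons (P.lf 15618 0 0) (P.cons (P.lf 1132 0 0) P.nil)))))) (P.cons (P.cons (P.lf 46438692 0 0) (P.cons (P.lf 0 14366570 0) (P.cons (P.lf 306602 0 0) (P.cons (P.lf 206916 0 0) (P.cons (P.lf 0 10014 0) P.nil))))) (P.cons (P.cons (P.lf 0 3236084 0) (P.cons (P.lf 278928 0 0) (P.cons (P.lf 49896 0 0) (P.cons (P.lf 2092 0 0) P.nil)))) (P.cons (P.cons (P.lf 0 6197488 0) (P.cons (P.lf 1712196 0 0) (P.cons (P.lf 0 14966 0) P.nil))) (P.cons (P.cons (P.lf 1238478 0 0) (P.cons (P.lf 0 173894 0) P.nil)) (P.cons (P.cons (P.lf 288508 0 0) P.nil) P.nil)))))) 350750)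
 EL.nil)
noncomputable def S198_227_364_438_45 : EL := (EL.cons 14 (TM.mk (P.cons (P.cons (P.lf 680018274 0 0) (P.cons (P.lf 0 356225828 0) (P.cons (P.lf 42711416 0 0) (P.cons (P.lf 5352128 0 0) (P.cons (P.lf 0 1164404 0) (P.cons (P.lf 0 7866 0) P.nil)))))) (P.cons (P.cons (P.lf 101400592 0 0) (P.cons (P.lf 0 86906700 0) (P.cons (P.lf 16320062 0 0) (P.cons (P.lf 1264558 0 0) (P.cons (P.lf 0 450886 0) P.nil))))) (P.cons (P.cons (P.lf 0 104482674 0) (P.cons (P.lf 37154964 0 0) (P.cons (P.lf 0 825862 0) (P.cons (P.lf 0 616128 0) P.nil)))) (P.cons (P.cons (P.lf 0 11163258 0) (P.cons (P.lf 8958892 0 0) (P.cons (P.lf 0 1118590 0) P.nil))) (P.cons (P.cons (P.lf 7088858 0 0) (P.cons (P.lf 0 1685756 0) P.nil)) (P.cons (P.cons (P.lf 523080 0 0) P.nil) P.nil)))))) 1704820)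
 EL.nil)
noncomputable def S198_227_364_438_46 : EL := (EL.cons 15 (TM.mk (P.lf 4294967296 0 0) 0)
 EL.nil)
noncomputable def S198_227_364_438_47 : EL := (EL.cons 15 (TM.mk (P.cons (P.cons (P.lf 1844180549 0 0) (P.cons (P.lf 0 322023084 0) (P.cons (P.lf 0 17619808 0) (P.lf 1957756 0 0)))) (P.cons (P.cons (P.lf 91664694 0 0) (P.cons (P.lf 0 46550212 0) (P.cons (P.lf 0 2547040 0) (P.lf 283004 0 0)))) (P.cons (P.cons (P.lf 0 99007031 0) (P.cons (P.lf 4434296 0 0) (P.cons (P.lf 242624 0 0) (P.lf 0 26956 0)))) (P.cons (P.cons (P.lf 0 324660 0) (P.cons (P.lf 942704 0 0) (P.cons (P.lf 51576 0 0) P.nil))) (P.cons (P.cons (P.lf 1369795 0 0) (P.cons (P.lf 0 16396 0) P.nil)) (P.cons (P.cons (P.lf 38433 0 0) P.nil) P.nil)))))) 38405)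
 EL.nil)
noncomputable def S198_227_364_438_48 : EL := (EL.cons 15 (TM.mk (P.cons (P.cons (P.lf 791857460 0 0) (P.cons (P.lf 0 276541666 0) (P.cons (P.lf 9013026 0 0) (P.cons (P.lf 4323404 0 0) (P.cons (P.lf 0 221288 0) (P.cons (P.lf 0 16063 0) P.nil)))))) (P.cons (P.cons (P.lf 78718292 0 0) (P.cons (P.lf 0 53721080 0) (P.cons (P.lf 4040974 0 0) (P.cons (P.lf 1090475 0 0) (P.cons (P.lf 0 63976 0) P.nil))))) (P.cons (P.cons (P.lf 0 83067283 0) (P.cons (P.lf 16667498 0 0) (P.cons (P.lf 751562 0 0) (P.cons (P.lf 0 118882 0) P.nil)))) (P.cons (P.cons (P.lf 0 4504891 0) (P.cons (P.lf 3193659 0 0) (P.cons (P.lf 0 62742 0) P.nil))) (P.cons (P.cons (P.lf 3444769 0 0) (P.cons (P.lf 0 376647 0) P.nil)) (P.cons (P.cons (P.lf 106442 0 0) P.nil) P.nil)))))) 329873)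
 EL.nil)
noncomputable def S198_227_364_438 : SL := (SL.cons S198_227_364_438_0 (SL.cons S198_227_364_438_1 (SL.cons S198_227_364_438_2 (SL.cons S198_227_364_438_3 (SL.cons S198_227_364_438_4 (SL.cons S198_227_364_438_5 (SL.cons S198_227_364_438_6 (SL.cons S198_227_364_438_7 (SL.cons S198_227_364_438_8 (SL.cons S198_227_364_438_9 (SL.cons S198_227_364_438_10 (SL.cons S198_227_364_438_11 (SL.cons S198_227_364_438_12 (SL.cons S198_227_364_438_13 (SL.cons S198_227_364_438_14 (SL.cons S198_227_364_438_15 (SL.cons S198_227_364_438_16 (SL.cons S198_227_364_438_17 (SL.cons S198_227_364_438_18 (SL.cons S198_227_364_438_19 (SL.cons S198_227_364_438_20 (SL.cons S198_227_364_438_21 (SL.cons S198_227_364_438_22 (SL.cons S198_227_364_438_23 (SL.cons S198_227_364_438_24 (SL.cons S198_227_364_438_25 (SL.cons S198_227_364_438_26 (SL.cons S198_227_364_438_27 (SL.cons S198_227_364_438_28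 (SL.cons S198_227_364_438_29 (SL.cons S198_227_364_438_30 (SL.cons S198_227_364_438_31 (SL.cons S198_227_364_438_32 (SL.cons S198_227_364_438_33 (SL.cons S198_227_364_438_34 (SL.cons S198_227_364_438_35 (SL.cons S198_227_364_438_36 (SL.cons S198_227_364_438_37 (SL.cons S198_227_364_438_38 (SL.cons S198_227_364_438_39 (SL.cons S198_227_364_438_40 (SL.cons S198_227_364_438_41 (SL.cons S198_227_364_438_42 (SL.cons S198_227_364_438_43 (SL.cons S198_227_364_438_44 (SL.cons S198_227_364_438_45 (SL.cons S198_227_364_438_46 (SL.cons S198_227_364_438_47 (SL.cons S198_227_364_438_48 SL.nil)))))))))))))))))))))))))))))))))))))))))))))))))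
noncomputable def S198_227_364_512_0 : EL := (EL.cons 0 (TM.mk (P.cons (P.lf 7643457911 0 0) (P.cons (P.lf 503779721 0 0) (P.cons (P.lf 0 60126632 0) (P.cons (P.lf 0 7110123 0) (P.cons (P.lf 270363 0 0) (P.cons (P.lf 53070 0 0) P.nil)))))) 3984)
 (EL.cons 1 (TM.mk (P.cons (P.lf 0 1228710643 0) (P.cons (P.lf 321830180 0 0) (P.cons (P.lf 40457490 0 0) (P.cons (P.lf 0 2710608 0) (P.cons (P.lf 0 384633 0) (P.cons (P.lf 7027 0 0) P.nil)))))) 2881)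
 (EL.cons 5 (TM.mk (P.cons (P.lf 4583770480 0 0) (P.cons (P.lf 0 179121676 0) (P.cons (P.lf 21378358 0 0) (P.cons (P.lf 2528040 0 0) (P.cons (P.lf 0 96128 0) (P.cons (P.lf 0 18870 0) P.nil)))))) 1697)
 (EL.cons 9 (TM.mk (P.lf 6442450944 0 0) 2)
 EL.nil))))
noncomputable def S198_227_364_512_1 : EL := (EL.cons 0 (TM.mk (P.cons (P.cons (P.lf 2512825409 0 0) (P.cons (P.lf 0 851961194 0) (P.cons (P.lf 0 56960143 0) (P.lf 18986718 0 0)))) (P.cons (P.cons (P.lf 1041590894 0 0) (P.cons (P.lf 0 452886472 0) (P.cons (P.lf 0 30278921 0) (P.lf 10092970 0 0)))) (P.cons (P.cons (P.lf 0 399139005 0) (P.cons (P.lf 3420928 0 0) (P.cons (P.lf 228723 0 0) (P.lf 0 76236 0)))) (P.cons (P.cons (P.lf 0 49330898 0) (P.cons (P.lf 17376975 0 0) (P.cons (P.lf 1161775 0 0) P.nil))) (P.cons (P.cons (P.lf 10933342 0 0) (P.cons (P.lf 875727 0 0) P.nil)) (P.cons (P.cons (P.lf 1363973 0 0) P.nil)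 P.nil)))))) 1391863)
 (EL.cons 1 (TM.mk (P.cons (P.cons (P.lf 0 538419622 0) (P.cons (P.lf 455770639 0 0) (P.cons (P.lf 30471752 0 0) (P.lf 0 10157251 0)))) (P.cons (P.cons (P.lf 551767556 0 0) (P.cons (P.lf 0 19914581 0) (P.cons (P.lf 0 1331442 0) (P.lf 443816 0 0)))) (P.cons (P.cons (P.lf 139468322 0 0) (P.cons (P.lf 0 49724666 0) (P.cons (P.lf 0 3324465 0) (P.lf 1108148 0 0)))) (P.cons (P.cons (P.lf 0 35776480 0) (P.cons (P.lf 0 2233147 0) (P.cons (P.lf 0 149301 0) P.nil))) (P.cons (P.cons (P.lf 0 5198503 0) (P.cons (P.lf 1266845 0 0) P.nil)) (P.cons (P.cons (P.lf 687095 0 0) P.nil) P.nil)))))) 704404)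
 (EL.cons 5 (TM.mk (P.cons (P.cons (P.lf 1667593173 0 0) (P.cons (P.lf 0 891804552 0) (P.cons (P.lf 0 59623980 0) (P.lf 19874660 0 0)))) (P.cons (P.cons (P.lf 0 297497661 0) (P.cons (P.lf 0 11677656 0) (P.cons (P.lf 0 780744 0) (P.lf 260254 0 0)))) (P.cons (P.cons (P.lf 0 18490922 0) (P.cons (P.lf 15235180 0 0) (P.cons (P.lf 1018582 0 0) (P.lf 0 339528 0)))) (P.cons (P.cons (P.lf 18668504 0 0) (P.cons (P.lf 0 2680970 0) (P.cons (P.lf 0 179236 0) P.nil))) (P.cons (P.cons (P.lf 0 1587983 0) (P.cons (P.lf 0 372214 0) P.nil)) (P.cons (P.cons (P.lf 0 436628 0) P.nil) P.nil)))))) 705400)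
 (EL.cons 9 (TM.mk (P.cons (P.cons (P.lf 2259743113 0 0) (P.cons (P.lf 0 1054168308 0) (P.cons (P.lf 0 70479234 0) (P.lf 23493078 0 0)))) (P.cons (P.cons (P.lf 64275669 0 0) (P.cons (P.lf 0 152385840 0) (P.cons (P.lf 0 10188156 0) (P.lf 3396048 0 0)))) (P.cons (P.cons (P.lf 0 141535594 0) (P.cons (P.lf 14516034 0 0) (P.cons (P.lf 970506 0 0) (P.lf 0 323496 0)))) (P.cons (P.cons (P.lf 995850 0 0) (P.cons (P.lf 3086028 0 0) (P.cons (P.lf 206322 0 0) P.nil))) (P.cons (P.cons (P.lf 2028892 0 0) (P.cons (P.lf 0 53688 0) P.nil)) (P.cons (P.cons (P.lf 42643 0 0) P.nil) P.nil)))))) 153092)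
 (EL.cons 2 (TM.mk (P.cons (P.cons (P.lf 795210173 0 0) (P.cons (P.lf 123118503 0 0) (P.cons (P.lf 0 59314609 0) (P.cons (P.lf 0 2244636 0) (P.lf 561158 0 0))))) (P.cons (P.cons (P.lf 0 169968180 0) (P.cons (P.lf 0 26315341 0) (P.cons (P.lf 12677900 0 0) (P.cons (P.lf 479767 0 0) (P.lf 0 119941 0))))) (P.cons (P.cons (P.lf 0 41716364 0) (P.cons (P.lf 0 6458737 0) (P.cons (P.lf 3111615 0 0) (P.cons (P.lf 117750 0 0) P.nil)))) (P.cons (P.cons (P.lf 1656303 0 0) (P.cons (P.lf 256438 0 0) (P.cons (P.lf 0 123541 0) P.nil))) (P.cons (P.cons (P.lf 601579 0 0) (P.cons (P.lf 93138 0 0) P.nil)) (P.cons (P.cons (P.lf 1923 0 0) P.nil) P.nil)))))) 114956)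
 (EL.cons 6 (TM.mk (P.cons (P.cons (P.lf 1202920818 0 0) (P.cons (P.lf 186242349 0 0) (P.cons (P.lf 0 89725689 0) (P.cons (P.lf 0 3395481 0) (P.lf 848868 0 0))))) (P.cons (P.cons (P.lf 173888838 0 0) (P.cons (P.lf 26922357 0 0) (P.cons (P.lf 0 12970341 0) (P.cons (P.lf 0 490833 0) (P.lf 122706 0 0))))) (P.cons (P.cons (P.lf 0 16564380 0) (P.cons (P.lf 0 2564580 0) (P.cons (P.lf 1235532 0 0) (P.cons (P.lf 46755 0 0) P.nil)))) (P.cons (P.cons (P.lf 0 3521499 0) (P.cons (P.lf 0 545214 0) (P.cons (P.lf 262665 0 0) P.nil))) (P.cons (P.cons (P.lf 61266 0 0) (P.cons (P.lf 9483 0 0) P.nil)) (P.cons (P.cons (P.lf 35622 0 0) P.nil) P.nil)))))) 68205)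
 EL.nil))))))
noncomputable def S198_227_364_512_2 : EL := (EL.cons 0 (TM.mk (P.cons (P.cons (P.lf 822403527 0 0) (P.cons (P.lf 0 542626562 0) (P.cons (P.lf 37883432 0 0) (P.cons (P.lf 22009537 0 0) (P.cons (P.lf 0 2974046 0) (P.cons (P.lf 0 221008 0) P.nil)))))) (P.cons (P.cons (P.lf 665356720 0 0) (P.cons (P.lf 0 584835093 0) (P.cons (P.lf 76758732 0 0) (P.cons (P.lf 28525741 0 0) (P.cons (P.lf 0 4646168 0) P.nil))))) (P.cons (P.cons (P.lf 0 248718628 0) (P.cons (P.lf 63142312 0 0) (P.cons (P.lf 19757273 0 0) (P.cons (P.lf 670170 0 0) P.nil)))) (P.cons (P.cons (P.lf 0 76028401 0) (P.cons (P.lf 57361321 0 0) (P.cons (P.lf 0 2112271 0) P.nil))) (P.cons (P.cons (P.lf 19988578 0 0) (P.cons (P.lf 0 682125 0) P.nil)) (P.cons (P.cons (P.lf 3383701 0 0) P.nil) P.nil)))))) 12180353)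
 (EL.cons 1 (TM.mk (P.cons (P.cons (P.lf 0 226540333 0) (P.cons (P.lf 354890873 0 0) (P.cons (P.lf 0 92529089 0) (P.cons (P.lf 0 23454302 0) (P.cons (P.lf 4662082 0 0) (P.cons (P.lf 346431 0 0) P.nil)))))) (P.cons (P.cons (P.lf 345335065 0 0) (P.cons (P.lf 0 147432684 0) (P.cons (P.lf 0 24006500 0) (P.cons (P.lf 1393662 0 0) (P.cons (P.lf 567413 0 0) P.nil))))) (P.cons (P.cons (P.lf 106462187 0 0) (P.cons (P.lf 0 108245359 0) (P.cons (P.lf 8238683 0 0) (P.cons (P.lf 4481674 0 0) P.nil)))) (P.cons (P.cons (P.lf 0 42152252 0) (P.cons (P.lf 5042691 0 0) (P.cons (P.lf 3260228 0 0) P.nil))) (P.cons (P.cons (P.lf 0 8997027 0) (P.cons (P.lf 6742462 0 0) P.nil)) (P.cons (P.cons (P.lf 2085082 0 0) P.nil) P.nil)))))) 6237756)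
 (EL.cons 5 (TM.mk (P.cons (P.cons (P.lf 605896655 0 0) (P.cons (P.lf 0 645184873 0) (P.cons (P.lf 125986521 0 0) (P.cons (P.lf 36992731 0 0) (P.cons (P.lf 0 6782099 0) (P.cons (P.lf 0 503974 0) P.nil)))))) (P.cons (P.cons (P.lf 0 185468763 0) (P.cons (P.lf 62947388 0 0) (P.cons (P.lf 19532622 0 0) (P.cons (P.lf 646236 0 0) (P.cons (P.lf 0 614540 0) P.nil))))) (P.cons (P.cons (P.lf 0 23368121 0) (P.cons (P.lf 38138623 0 0) (P.cons (P.lf 0 4272786 0) (P.cons (P.lf 0 1762229 0) P.nil)))) (P.cons (P.cons (P.lf 24623340 0 0) (P.cons (P.lf 0 10394307 0) (P.cons (P.lf 0 503196 0) P.nil))) (P.cons (P.cons (P.lf 0 1947422 0) (P.cons (P.lf 0 1259103 0) P.nil)) (P.cons (P.cons (P.lf 0 1172885 0) P.nil) P.nil)))))) 6135366)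
 (EL.cons 9 (TM.mk (P.cons (P.cons (P.lf 792623643 0 0) (P.cons (P.lf 0 739516557 0) (P.cons (P.lf 123049581 0 0) (P.cons (P.lf 39545599 0 0) (P.cons (P.lf 0 6917241 0) (P.cons (P.lf 0 514018 0) P.nil)))))) (P.cons (P.cons (P.lf 45090447 0 0) (P.cons (P.lf 0 127935852 0) (P.cons (P.lf 41315830 0 0) (P.cons (P.lf 9519450 0 0) (P.cons (P.lf 0 1999848 0) P.nil))))) (P.cons (P.cons (P.lf 0 98648295 0) (P.cons (P.lf 53461063 0 0) (P.cons (P.lf 2428249 0 0) (P.cons (P.lf 0 1344663 0) P.nil)))) (P.cons (P.cons (P.lf 0 2125566 0) (P.cons (P.lf 8824245 0 0) (P.cons (P.lf 0 1106664 0) P.nil))) (P.cons (P.cons (P.lf 4552597 0 0) (P.cons (P.lf 0 1324975 0) P.nil)) (P.cons (P.cons (P.lf 26643 0 0) P.nil) P.nil)))))) 2087398)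
 (EL.cons 2 (TM.mk (P.cons (P.cons (P.lf 557853125 0 0) (P.cons (P.lf 0 173868350 0) (P.cons (P.lf 0 99300470 0) (P.cons (P.lf 20942308 0 0) (P.cons (P.lf 3323947 0 0) (P.cons (P.lf 0 567123 0) P.nil)))))) (P.cons (P.cons (P.lf 0 103368037 0) (P.cons (P.lf 2000446 0 0) (P.cons (P.lf 11701473 0 0) (P.cons (P.lf 0 1266041 0) (P.cons (P.lf 0 275670 0) P.nil))))) (P.cons (P.cons (P.lf 0 67596513 0) (P.cons (P.lf 14810490 0 0) (P.cons (P.lf 10645290 0 0) (P.cons (P.lf 0 1996194 0) P.nil)))) (P.cons (P.cons (P.lf 8043502 0 0) (P.cons (P.lf 2672656 0 0) (P.cons (P.lf 0 283545 0) P.nil))) (P.cons (P.cons (P.lf 2736337 0 0) (P.cons (P.lf 0 215645 0) P.nil)) (P.cons (P.cons (P.lf 0 168840 0) P.nil) P.nil)))))) 1874260)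
 (EL.cons 6 (TM.mk (P.cons (P.cons (P.lf 843868908 0 0) (P.cons (P.lf 0 263012052 0) (P.cons (P.lf 0 150212622 0) (P.cons (P.lf 31679598 0 0) (P.cons (P.lf 5028156 0 0) (P.cons (P.lf 0 857892 0) P.nil)))))) (P.cons (P.cons (P.lf 145988736 0 0) (P.cons (P.lf 0 91209924 0) (P.cons (P.lf 0 36119574 0) (P.cons (P.lf 9435498 0 0) (P.cons (P.lf 1384548 0 0) P.nil))))) (P.cons (P.cons (P.lf 0 61004898 0) (P.cons (P.lf 0 6829596 0) (P.cons (P.lf 5130150 0 0) (P.cons (P.lf 0 54102 0) P.nil)))) (P.cons (P.cons (P.lf 0 10069428 0) (P.cons (P.lf 2313078 0 0) (P.cons (P.lf 1609446 0 0) P.nil))) (P.cons (P.cons (P.lf 1511940 0 0) (P.cons (P.lf 452520 0 0) P.nil)) (P.cons (P.cons (P.lf 301266 0 0) P.nil) P.nil)))))) 1770450)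
 EL.nil))))))
noncomputable def S198_227_364_512_3 : EL := (EL.cons 0 (TM.mk (P.cons (P.lf 812258952 0 0) (P.cons (P.lf 0 503779721 0) (P.cons (P.lf 60126632 0 0) (P.cons (P.lf 7110123 0 0) (P.cons (P.lf 0 270363 0) (P.cons (P.lf 0 53070 0) P.nil)))))) 3984)
 (EL.cons 1 (TM.mk (P.cons (P.lf 1228710643 0 0) (P.cons (P.lf 0 321830180 0) (P.cons (P.lf 0 40457490 0) (P.cons (P.lf 2710608 0 0) (P.cons (P.lf 384633 0 0) (P.cons (P.lf 0 7027 0) P.nil)))))) 2881)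
 (EL.cons 5 (TM.mk (P.cons (P.lf 1858680464 0 0) (P.cons (P.lf 179121676 0 0) (P.cons (P.lf 0 21378358 0) (P.cons (P.lf 0 2528040 0) (P.cons (P.lf 96128 0 0) (P.cons (P.lf 18870 0 0) P.nil)))))) 1690)
 EL.nil)))
noncomputable def S198_227_364_512_4 : EL := (EL.cons 0 (TM.mk (P.cons (P.cons (P.lf 284906564 0 0) (P.cons (P.lf 0 132908677 0) (P.cons (P.lf 0 8885963 0) (P.lf 2961987 0 0)))) (P.cons (P.cons (P.lf 0 168601092 0) (P.cons (P.lf 63220014 0 0) (P.cons (P.lf 4226742 0 0) (P.lf 0 1408914 0)))) (P.cons (P.cons (P.lf 0 1780934 0) (P.cons (P.lf 3907842 0 0) (P.cons (P.lf 261267 0 0) (P.lf 0 87087 0)))) (P.cons (P.cons (P.lf 14287013 0 0) (P.cons (P.lf 0 3331641 0) (P.cons (P.lf 0 222744 0) P.nil))) (P.cons (P.cons (P.lf 0 1166900 0) (P.cons (P.lf 0 236548 0) P.nil)) (P.cons (P.cons (P.lf 0 321496 0) P.nil) P.nil)))))) 274501)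
 (EL.cons 1 (TM.mk (P.cons (P.cons (P.lf 430980450 0 0) (P.cons (P.lf 0 201052025 0) (P.cons (P.lf 0 13441867 0) (P.lf 4480621 0 0)))) (P.cons (P.cons (P.lf 0 100625885 0) (P.cons (P.lf 23597396 0 0) (P.cons (P.lf 1577666 0 0) (P.lf 0 525888 0)))) (P.cons (P.cons (P.lf 0 44395475 0) (P.cons (P.lf 17000885 0 0) (P.cons (P.lf 1136636 0 0) (P.lf 0 378877 0)))) (P.cons (P.cons (P.lf 7807413 0 0) (P.cons (P.lf 376850 0 0) (P.cons (P.lf 25194 0 0) P.nil))) (P.cons (P.cons (P.lf 1387980 0 0) (P.cons (P.lf 0 382610 0) P.nil)) (P.cons (P.cons (P.lf 0 157650 0) P.nil) P.nil)))))) 191694)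
 (EL.cons 5 (TM.mk (P.cons (P.cons (P.lf 651947590 0 0) (P.cons (P.lf 0 304133016 0) (P.cons (P.lf 0 20333622 0) (P.lf 6777874 0 0)))) (P.cons (P.cons (P.lf 81372276 0 0) (P.cons (P.lf 0 73273506 0) (P.cons (P.lf 0 4898892 0) (P.lf 1632962 0 0)))) (P.cons (P.cons (P.lf 0 46545308 0) (P.cons (P.lf 3449222 0 0) (P.cons (P.lf 230606 0 0) (P.lf 0 76866 0)))) (P.cons (P.cons (P.lf 0 4747874 0) (P.cons (P.lf 2213258 0 0) (P.cons (P.lf 147970 0 0) P.nil))) (P.cons (P.cons (P.lf 1091194 0 0) (P.cons (P.lf 66208 0 0) P.nil)) (P.cons (P.cons (P.lf 128524 0 0) P.nil) P.nil)))))) 142040)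
 EL.nil)))
noncomputable def S198_227_364_512_5 : EL := (EL.cons 0 (TM.mk (P.cons (P.cons (P.lf 99933340 0 0) (P.cons (P.lf 0 93237642 0) (P.cons (P.lf 15513989 0 0) (P.cons (P.lf 4985875 0 0) (P.cons (P.lf 0 872119 0) (P.cons (P.lf 0 64807 0) P.nil)))))) (P.cons (P.cons (P.lf 0 56295747 0) (P.cons (P.lf 41697857 0 0) (P.cons (P.lf 0 4413028 0) (P.cons (P.lf 0 1892137 0) (P.cons (P.lf 288766 0 0) P.nil))))) (P.cons (P.cons (P.lf 0 8565966 0) (P.cons (P.lf 9842693 0 0) (P.cons (P.lf 0 1776209 0) (P.cons (P.lf 0 544849 0) P.nil)))) (P.cons (P.cons (P.lf 8741592 0 0) (P.cons (P.lf 0 5078102 0) (P.cons (P.lf 191988 0 0) P.nil))) (P.cons (P.cons (P.lf 0 163970 0) (P.cons (P.lf 0 468293 0) P.nil)) (P.cons (P.cons (P.lf 0 489770 0) P.nil) P.nil)))))) 1529413)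
 (EL.cons 1 (TM.mk (P.cons (P.cons (P.lf 151169968 0 0) (P.cons (P.lf 0 141041330 0) (P.cons (P.lf 23468137 0 0) (P.cons (P.lf 7542174 0 0) (P.cons (P.lf 0 1319261 0) (P.cons (P.lf 0 98032 0) P.nil)))))) (P.cons (P.cons (P.lf 0 30995516 0) (P.cons (P.lf 12542212 0 0) (P.cons (P.lf 1732899 0 0) (P.cons (P.lf 0 159924 0) (P.cons (P.lf 0 35865 0) P.nil))))) (P.cons (P.cons (P.lf 0 26044316 0) (P.cons (P.lf 21231170 0 0) (P.cons (P.lf 0 2373526 0) (P.cons (P.lf 0 980334 0) P.nil)))) (P.cons (P.cons (P.lf 4572877 0 0) (P.cons (P.lf 0 495388 0) (P.cons (P.lf 0 540048 0) P.nil))) (P.cons (P.cons (P.lf 1660245 0 0) (P.cons (P.lf 0 1127216 0) P.nil)) (P.cons (P.cons (P.lf 0 248670 0) P.nil) P.nil)))))) 1285651)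
 (EL.cons 5 (TM.mk (P.cons (P.cons (P.lf 228676024 0 0) (P.cons (P.lf 0 213354356 0) (P.cons (P.lf 35500440 0 0) (P.cons (P.lf 11409108 0 0) (P.cons (P.lf 0 1995658 0) (P.cons (P.lf 0 148296 0) P.nil)))))) (P.cons (P.cons (P.lf 35046414 0 0) (P.cons (P.lf 0 57471188 0) (P.cons (P.lf 15341020 0 0) (P.cons (P.lf 3845910 0 0) (P.cons (P.lf 0 769288 0) P.nil))))) (P.cons (P.cons (P.lf 0 29837086 0) (P.cons (P.lf 14320728 0 0) (P.cons (P.lf 1440956 0 0) (P.cons (P.lf 0 254494 0) P.nil)))) (P.cons (P.cons (P.lf 0 3816642 0) (P.cons (P.lf 4746960 0 0) (P.cons (P.lf 0 437148 0) P.nil))) (P.cons (P.cons (P.lf 1575832 0 0) (P.cons (P.lf 0 275152 0) P.nil)) (P.cons (P.cons (P.lf 183020 0 0) P.nil) P.nil)))))) 1078328)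
 EL.nil)))
noncomputable def S198_227_364_512_6 : EL := (EL.cons 12 (TM.mk (P.lf 8589934592 0 0) 0)
 (EL.cons 3 (TM.mk (P.cons (P.lf 0 1320724353 0) (P.cons (P.lf 409570215 0 0) (P.cons (P.lf 14623338 0 0) (P.cons (P.lf 0 1245645 0) (P.cons (P.lf 0 85526 0) (P.cons (P.lf 2831 0 0) P.nil)))))) 532)
 (EL.cons 7 (TM.mk (P.cons (P.lf 0 1997870342 0) (P.cons (P.lf 0 96267727 0) (P.cons (P.lf 13808992 0 0) (P.cons (P.lf 693290 0 0) (P.cons (P.lf 0 37347 0) (P.cons (P.lf 0 3551 0) P.nil)))))) 296)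
 EL.nil)))
noncomputable def S198_227_364_512_7 : EL := (EL.cons 12 (TM.mk (P.cons (P.cons (P.lf 3012990818 0 0) (P.cons (P.lf 0 1405557744 0) (P.cons (P.lf 0 93972312 0) (P.lf 31324104 0 0)))) (P.cons (P.cons (P.lf 85700892 0 0) (P.cons (P.lf 0 203181120 0) (P.cons (P.lf 0 13584208 0) (P.lf 4528064 0 0)))) (P.cons (P.cons (P.lf 0 188714126 0) (P.cons (P.lf 19354712 0 0) (P.cons (P.lf 1294008 0 0) (P.lf 0 431328 0)))) (P.cons (P.cons (P.lf 1327800 0 0) (P.cons (P.lf 4114704 0 0) (P.cons (P.lf 275096 0 0) P.nil))) (P.cons (P.cons (P.lf 2705190 0 0) (P.cons (P.lf 0 71584 0) P.nil)) (P.cons (P.cons (P.lf 56858 0 0) P.nil) P.nil)))))) 204098)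
 (EL.cons 3 (TM.mk (P.cons (P.cons (P.lf 0 189794735 0) (P.cons (P.lf 0 432216176 0) (P.cons (P.lf 0 28896962 0) (P.lf 9632320 0 0)))) (P.cons (P.cons (P.lf 0 1067014389 0) (P.cons (P.lf 71555452 0 0) (P.cons (P.lf 4784032 0 0) (P.lf 0 1594678 0)))) (P.cons (P.cons (P.lf 19741063 0 0) (P.cons (P.lf 30112712 0 0) (P.cons (P.lf 2013262 0 0) (P.lf 0 671084 0)))) (P.cons (P.cons (P.lf 30362418 0 0) (P.cons (P.lf 0 296244 0) (P.cons (P.lf 0 19804 0) P.nil))) (P.cons (P.cons (P.lf 1000038 0 0) (P.cons (P.lf 0 567206 0) P.nil)) (P.cons (P.cons (P.lf 0 384926 0) P.nil) P.nil)))))) 496114)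
 (EL.cons 7 (TM.mk (P.cons (P.cons (P.lf 0 765045277 0) (P.cons (P.lf 479294290 0 0) (P.cons (P.lf 32044506 0 0) (P.lf 0 10681502 0)))) (P.cons (P.cons (P.lf 250797168 0 0) (P.cons (P.lf 0 16818801 0) (P.cons (P.lf 0 1124463 0) (P.lf 374819 0 0)))) (P.cons (P.cons (P.lf 0 49569794 0) (P.cons (P.lf 0 4064818 0) (P.cons (P.lf 0 271764 0) (P.lf 90590 0 0)))) (P.cons (P.cons (P.lf 0 4932723 0) (P.cons (P.lf 1686806 0 0) (P.cons (P.lf 112774 0 0) P.nil))) (P.cons (P.cons (P.lf 1538313 0 0) (P.cons (P.lf 75876 0 0) P.nil)) (P.cons (P.cons (P.lf 110119 0 0) P.nil) P.nil)))))) 420763)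
 (EL.cons 10 (TM.mk (P.cons (P.cons (P.lf 0 2586006444 0) (P.cons (P.lf 0 400378737 0) (P.cons (P.lf 192889848 0 0) (P.cons (P.lf 7299519 0 0) (P.lf 0 1824879 0))))) (P.cons (P.cons (P.lf 0 249214329 0) (P.cons (P.lf 0 38584635 0) (P.cons (P.lf 18588861 0 0) (P.cons (P.lf 703455 0 0) (P.lf 0 175863 0))))) (P.cons (P.cons (P.lf 29743989 0 0) (P.cons (P.lf 4605114 0 0) (P.cons (P.lf 0 2218599 0) (P.cons (P.lf 0 83958 0) P.nil)))) (P.cons (P.cons (P.lf 3517293 0 0) (P.cons (P.lf 544563 0 0) (P.cons (P.lf 0 262353 0) P.nil))) (P.cons (P.cons (P.lf 0 133743 0) (P.cons (P.lf 0 20706 0) P.nil)) (P.cons (P.cons (P.lf 0 26253 0) P.nil) P.nil)))))) 52971)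
 EL.nil))))
noncomputable def S198_227_364_512_8 : EL := (EL.cons 12 (TM.mk (P.cons (P.cons (P.lf 1056831524 0 0) (P.cons (P.lf 0 986022076 0) (P.cons (P.lf 164066108 0 0) (P.cons (P.lf 52727466 0 0) (P.cons (P.lf 0 9222988 0) (P.cons (P.lf 0 685358 0) P.nil)))))) (P.cons (P.cons (P.lf 60120596 0 0) (P.cons (P.lf 0 170581136 0) (P.cons (P.lf 55087774 0 0) (P.cons (P.lf 12692600 0 0) (P.cons (P.lf 0 2666464 0) P.nil))))) (P.cons (P.cons (P.lf 0 131531060 0) (P.cons (P.lf 71281418 0 0) (P.cons (P.lf 3237666 0 0) (P.cons (P.lf 0 1792884 0) P.nil)))) (P.cons (P.cons (P.lf 0 2834088 0) (P.cons (P.lf 11765660 0 0) (P.cons (P.lf 0 1475552 0) P.nil))) (P.cons (P.cons (P.lf 6070130 0 0) (P.cons (P.lf 0 1766634 0) P.nil)) (P.cons (P.cons (P.lf 35524 0 0) P.nil) P.nil)))))) 2783168)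
 (EL.cons 3 (TM.mk (P.cons (P.cons (P.lf 29346384 0 0) (P.cons (P.lf 0 392698585 0) (P.cons (P.lf 150552254 0 0) (P.cons (P.lf 32393463 0 0) (P.cons (P.lf 0 7090291 0) (P.cons (P.lf 0 526875 0) P.nil)))))) (P.cons (P.cons (P.lf 0 793461717 0) (P.cons (P.lf 420525893 0 0) (P.cons (P.lf 24402558 0 0) (P.cons (P.lf 0 9868252 0) (P.cons (P.lf 148891 0 0) P.nil))))) (P.cons (P.cons (P.lf 0 23991948 0) (P.cons (P.lf 105476243 0 0) (P.cons (P.lf 0 11932331 0) (P.cons (P.lf 0 4889106 0) P.nil)))) (P.cons (P.cons (P.lf 74404498 0 0) (P.cons (P.lf 0 20187304 0) (P.cons (P.lf 0 3123684 0) P.nil))) (P.cons (P.cons (P.lf 1302166 0 0) (P.cons (P.lf 0 5659269 0) P.nil)) (P.cons (P.cons (P.lf 0 2550581 0) P.nil) P.nil)))))) 6660633)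
 (EL.cons 7 (TM.mk (P.cons (P.cons (P.lf 0 290891205 0) (P.cons (P.lf 357267553 0 0) (P.cons (P.lf 0 79474761 0) (P.cons (P.lf 0 21782959 0) (P.cons (P.lf 4144955 0 0) (P.cons (P.lf 308010 0 0) P.nil)))))) (P.cons (P.cons (P.lf 186499777 0 0) (P.cons (P.lf 0 98842807 0) (P.cons (P.lf 0 5735717 0) (P.cons (P.lf 2319482 0 0) (P.cons (P.lf 0 34991 0) P.nil))))) (P.cons (P.cons (P.lf 0 27771805 0) (P.cons (P.lf 0 7084284 0) (P.cons (P.lf 3832182 0 0) (P.cons (P.lf 733628 0 0) P.nil)))) (P.cons (P.cons (P.lf 0 18020820 0) (P.cons (P.lf 10235028 0 0) (P.cons (P.lf 39228 0 0) P.nil))) (P.cons (P.cons (P.lf 4345646 0 0) (P.cons (P.lf 0 62398 0) P.nil)) (P.cons (P.cons (P.lf 549354 0 0) P.nil) P.nil)))))) 3514234)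
 (EL.cons 10 (TM.mk (P.cons (P.cons (P.lf 0 1814126424 0) (P.cons (P.lf 565416162 0 0) (P.cons (P.lf 322923012 0 0) (P.cons (P.lf 0 68103948 0) (P.cons (P.lf 0 10809402 0) (P.cons (P.lf 1844274 0 0) P.nil)))))) (P.cons (P.cons (P.lf 0 226428624 0) (P.cons (P.lf 168835938 0 0) (P.cons (P.lf 62088786 0 0) (P.cons (P.lf 0 17002578 0) (P.cons (P.lf 0 2455614 0) P.nil))))) (P.cons (P.cons (P.lf 129518196 0 0) (P.cons (P.lf 10454766 0 0) (P.cons (P.lf 0 11788428 0) (P.cons (P.lf 464856 0 0) P.nil)))) (P.cons (P.cons (P.lf 13211556 0 0) (P.cons (P.lf 0 4113192 0) (P.cons (P.lf 0 2350710 0) P.nil))) (P.cons (P.cons (P.lf 0 3036384 0) (P.cons (P.lf 0 654348 0) P.nil)) (P.cons (P.cons (P.lf 0 357636 0) P.nil) P.nil)))))) 2788842)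
 EL.nil))))
noncomputable def S198_227_364_512_9 : EL := (EL.cons 3 (TM.mk (P.cons (P.lf 0 1320724353 0) (P.cons (P.lf 409570215 0 0) (P.cons (P.lf 14623338 0 0) (P.cons (P.lf 0 1245645 0) (P.cons (P.lf 0 85526 0) (P.cons (P.lf 2831 0 0) P.nil)))))) 532)
 (EL.cons 7 (TM.mk (P.cons (P.lf 0 1997870342 0) (P.cons (P.lf 0 96267727 0) (P.cons (P.lf 13808992 0 0) (P.cons (P.lf 693290 0 0) (P.cons (P.lf 0 37347 0) (P.cons (P.lf 0 3551 0) P.nil)))))) 296)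
 EL.nil))
noncomputable def S198_227_364_512_10 : EL := (EL.cons 3 (TM.mk (P.cons (P.cons (P.lf 0 463255022 0) (P.cons (P.lf 216108088 0 0) (P.cons (P.lf 14448481 0 0) (P.lf 0 4816160 0)))) (P.cons (P.cons (P.lf 130483419 0 0) (P.cons (P.lf 0 35777726 0) (P.cons (P.lf 0 2392016 0) (P.lf 797339 0 0)))) (P.cons (P.cons (P.lf 38230774 0 0) (P.cons (P.lf 0 15056356 0) (P.cons (P.lf 0 1006631 0) (P.lf 335542 0 0)))) (P.cons (P.cons (P.lf 0 9493113 0) (P.cons (P.lf 148122 0 0) (P.cons (P.lf 9902 0 0) P.nil))) (P.cons (P.cons (P.lf 0 716310 0) (P.cons (P.lf 283603 0 0) P.nil)) (P.cons (P.cons (P.lf 150007 0 0) P.nil) P.nil)))))) 122355)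
 (EL.cons 7 (TM.mk (P.cons (P.cons (P.lf 0 700769596 0) (P.cons (P.lf 326908441 0 0) (P.cons (P.lf 21856335 0 0) (P.lf 0 7285445 0)))) (P.cons (P.cons (P.lf 0 53699250 0) (P.cons (P.lf 63008556 0 0) (P.cons (P.lf 4212603 0 0) (P.lf 0 1404199 0)))) (P.cons (P.cons (P.lf 47774809 0 0) (P.cons (P.lf 0 4484056 0) (P.cons (P.lf 0 299793 0) (P.lf 99929 0 0)))) (P.cons (P.cons (P.lf 2187051 0 0) (P.cons (P.lf 0 1613989 0) (P.cons (P.lf 0 107906 0) P.nil))) (P.cons (P.cons (P.lf 0 953616 0) (P.cons (P.lf 0 8637 0) P.nil)) (P.cons (P.cons (P.lf 0 58256 0) P.nil) P.nil)))))) 91005)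
 EL.nil))
noncomputable def S198_227_364_512_11 : EL := (EL.cons 3 (TM.mk (P.cons (P.cons (P.lf 0 162490542 0) (P.cons (P.lf 151603409 0 0) (P.cons (P.lf 0 25225582 0) (P.cons (P.lf 0 8106981 0) (P.cons (P.lf 1418057 0 0) (P.cons (P.lf 105375 0 0) P.nil)))))) (P.cons (P.cons (P.lf 41146293 0 0) (P.cons (P.lf 0 20786491 0) (P.cons (P.lf 0 647172 0) (P.cons (P.lf 562538 0 0) (P.cons (P.lf 0 29777 0) P.nil))))) (P.cons (P.cons (P.lf 24888930 0 0) (P.cons (P.lf 0 20771635 0) (P.cons (P.lf 2408101 0 0) (P.cons (P.lf 970608 0 0) P.nil)))) (P.cons (P.cons (P.lf 0 5886590 0) (P.cons (P.lf 1442306 0 0) (P.cons (P.lf 451230 0 0) P.nil))) (P.cons (P.cons (P.lf 0 1311584 0) (P.cons (P.lf 988515 0 0) P.nil)) (P.cons (P.cons (P.lf 297961 0 0) P.nil) P.nil)))))) 1096487)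
 (EL.cons 7 (TM.mk (P.cons (P.cons (P.lf 0 245800749 0) (P.cons (P.lf 229331695 0 0) (P.cons (P.lf 0 38158941 0) (P.cons (P.lf 0 12263497 0) (P.cons (P.lf 2145107 0 0) (P.cons (P.lf 159402 0 0) P.nil)))))) (P.cons (P.cons (P.lf 0 25826963 0) (P.cons (P.lf 50724611 0 0) (P.cons (P.lf 0 14651159 0) (P.cons (P.lf 0 3542998 0) (P.cons (P.lf 723535 0 0) P.nil))))) (P.cons (P.cons (P.lf 31617017 0 0) (P.cons (P.lf 0 16252224 0) (P.cons (P.lf 0 1106646 0) (P.cons (P.lf 359510 0 0) P.nil)))) (P.cons (P.cons (P.lf 2315178 0 0) (P.cons (P.lf 0 3889146 0) (P.cons (P.lf 408702 0 0) P.nil))) (P.cons (P.cons (P.lf 0 1591234 0) (P.cons (P.lf 384140 0 0) P.nil)) (P.cons (P.cons (P.lf 0 92160 0) P.nil) P.nil)))))) 882972)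
 EL.nil))
noncomputable def S198_227_364_512_12 : EL := (EL.cons 4 (TM.mk (P.cons (P.lf 1320724353 0 0) (P.cons (P.lf 0 409570215 0) (P.cons (P.lf 0 14623338 0) (P.cons (P.lf 1245645 0 0) (P.cons (P.lf 85526 0 0) (P.cons (P.lf 0 2831 0) P.nil)))))) 532)
 (EL.cons 8 (TM.mk (P.cons (P.lf 1997870342 0 0) (P.cons (P.lf 96267727 0 0) (P.cons (P.lf 0 13808992 0) (P.cons (P.lf 0 693290 0) (P.cons (P.lf 37347 0 0) (P.cons (P.lf 3551 0 0) P.nil)))))) 296)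
 EL.nil))
noncomputable def S198_227_364_512_13 : EL := (EL.cons 4 (TM.mk (P.cons (P.cons (P.lf 463255022 0 0) (P.cons (P.lf 0 216108088 0) (P.cons (P.lf 0 14448481 0) (P.lf 4816160 0 0)))) (P.cons (P.cons (P.lf 0 130483419 0) (P.cons (P.lf 35777726 0 0) (P.cons (P.lf 2392016 0 0) (P.lf 0 797339 0)))) (P.cons (P.cons (P.lf 0 38230774 0) (P.cons (P.lf 15056356 0 0) (P.cons (P.lf 1006631 0 0) (P.lf 0 335542 0)))) (P.cons (P.cons (P.lf 9493113 0 0) (P.cons (P.lf 0 148122 0) (P.cons (P.lf 0 9902 0) P.nil))) (P.cons (P.cons (P.lf 716310 0 0) (P.cons (P.lf 0 283603 0) P.nil)) (P.cons (P.cons (P.lf 0 150007 0) P.nil) P.nil)))))) 122355)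
 (EL.cons 8 (TM.mk (P.cons (P.cons (P.lf 700769596 0 0) (P.cons (P.lf 0 326908441 0) (P.cons (P.lf 0 21856335 0) (P.lf 7285445 0 0)))) (P.cons (P.cons (P.lf 53699250 0 0) (P.cons (P.lf 0 63008556 0) (P.cons (P.lf 0 4212603 0) (P.lf 1404199 0 0)))) (P.cons (P.cons (P.lf 0 47774809 0) (P.cons (P.lf 4484056 0 0) (P.cons (P.lf 299793 0 0) (P.lf 0 99929 0)))) (P.cons (P.cons (P.lf 0 2187051 0) (P.cons (P.lf 1613989 0 0) (P.cons (P.lf 107906 0 0) P.nil))) (P.cons (P.cons (P.lf 953616 0 0) (P.cons (P.lf 8637 0 0) P.nil)) (P.cons (P.cons (P.lf 58256 0 0) P.nil) P.nil)))))) 91005)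
 EL.nil))
noncomputable def S198_227_364_512_14 : EL := (EL.cons 4 (TM.mk (P.cons (P.cons (P.lf 162490542 0 0) (P.cons (P.lf 0 151603409 0) (P.cons (P.lf 25225582 0 0) (P.cons (P.lf 8106981 0 0) (P.cons (P.lf 0 1418057 0) (P.cons (P.lf 0 105375 0) P.nil)))))) (P.cons (P.cons (P.lf 0 41146293 0) (P.cons (P.lf 20786491 0 0) (P.cons (P.lf 647172 0 0) (P.cons (P.lf 0 562538 0) (P.cons (P.lf 29777 0 0) P.nil))))) (P.cons (P.cons (P.lf 0 24888930 0) (P.cons (P.lf 20771635 0 0) (P.cons (P.lf 0 2408101 0) (P.cons (P.lf 0 970608 0) P.nil)))) (P.cons (P.cons (P.lf 5886590 0 0) (P.cons (P.lf 0 1442306 0) (P.cons (P.lf 0 451230 0) P.nil))) (P.cons (P.cons (P.lf 1311584 0 0) (P.cons (P.lf 0 988515 0) P.nil)) (P.cons (P.cons (P.lf 0 297961 0) P.nil) P.nil)))))) 1096487)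
 (EL.cons 8 (TM.mk (P.cons (P.cons (P.lf 245800749 0 0) (P.cons (P.lf 0 229331695 0) (P.cons (P.lf 38158941 0 0) (P.cons (P.lf 12263497 0 0) (P.cons (P.lf 0 2145107 0) (P.cons (P.lf 0 159402 0) P.nil)))))) (P.cons (P.cons (P.lf 25826963 0 0) (P.cons (P.lf 0 50724611 0) (P.cons (P.lf 14651159 0 0) (P.cons (P.lf 3542998 0 0) (P.cons (P.lf 0 723535 0) P.nil))))) (P.cons (P.cons (P.lf 0 31617017 0) (P.cons (P.lf 16252224 0 0) (P.cons (P.lf 1106646 0 0) (P.cons (P.lf 0 359510 0) P.nil)))) (P.cons (P.cons (P.lf 0 2315178 0) (P.cons (P.lf 3889146 0 0) (P.cons (P.lf 0 408702 0) P.nil))) (P.cons (P.cons (P.lf 1591234 0 0) (P.cons (P.lf 0 384140 0) P.nil)) (P.cons (P.cons (P.lf 92160 0 0) P.nil) P.nil)))))) 882972)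
 EL.nil))
noncomputable def S198_227_364_512_15 : EL := (EL.cons 4 (TM.mk (P.cons (P.lf 0 433204774 0) (P.cons (P.lf 268682518 0 0) (P.cons (P.lf 0 32067537 0) (P.cons (P.lf 0 3792065 0) (P.cons (P.lf 144194 0 0) (P.cons (P.lf 28304 0 0) P.nil)))))) 2128)
 (EL.cons 8 (TM.mk (P.cons (P.lf 0 655312343 0) (P.cons (P.lf 171642763 0 0) (P.cons (P.lf 21577328 0 0) (P.cons (P.lf 0 1445658 0) (P.cons (P.lf 0 205138 0) (P.cons (P.lf 3748 0 0) P.nil)))))) 1533)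
 EL.nil))
noncomputable def S198_227_364_512_16 : EL := (EL.cons 4 (TM.mk (P.cons (P.cons (P.lf 0 151950167 0) (P.cons (P.lf 70884628 0 0) (P.cons (P.lf 4739180 0 0) (P.lf 0 1579726 0)))) (P.cons (P.cons (P.lf 89920582 0 0) (P.cons (P.lf 0 33717341 0) (P.cons (P.lf 0 2254262 0) (P.lf 751421 0 0)))) (P.cons (P.cons (P.lf 949831 0 0) (P.cons (P.lf 0 2084182 0) (P.cons (P.lf 0 139342 0) (P.lf 46446 0 0)))) (P.cons (P.cons (P.lf 0 7619740 0) (P.cons (P.lf 1776875 0 0) (P.cons (P.lf 118797 0 0) P.nil))) (P.cons (P.cons (P.lf 622347 0 0) (P.cons (P.lf 126159 0 0) P.nil)) (P.cons (P.cons (P.lf 171465 0 0) P.nil) P.nil)))))) 146409)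
 (EL.cons 8 (TM.mk (P.cons (P.cons (P.lf 0 229856240 0) (P.cons (P.lf 107227747 0 0) (P.cons (P.lf 7168996 0 0) (P.lf 0 2389665 0)))) (P.cons (P.cons (P.lf 53667139 0 0) (P.cons (P.lf 0 12585278 0) (P.cons (P.lf 0 841422 0) (P.lf 280474 0 0)))) (P.cons (P.cons (P.lf 23677587 0 0) (P.cons (P.lf 0 9067139 0) (P.cons (P.lf 0 606206 0) (P.lf 202068 0 0)))) (P.cons (P.cons (P.lf 0 4163954 0) (P.cons (P.lf 0 200987 0) (P.cons (P.lf 0 13437 0) P.nil))) (P.cons (P.cons (P.lf 0 740256 0) (P.cons (P.lf 204059 0 0) P.nil)) (P.cons (P.cons (P.lf 84080 0 0) P.nil) P.nil)))))) 102227)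
 EL.nil))
noncomputable def S198_227_364_512_17 : EL := (EL.cons 4 (TM.mk (P.cons (P.cons (P.lf 0 53297781 0) (P.cons (P.lf 49726742 0 0) (P.cons (P.lf 0 8274127 0) (P.cons (P.lf 0 2659133 0) (P.cons (P.lf 465130 0 0) (P.cons (P.lf 34563 0 0) P.nil)))))) (P.cons (P.cons (P.lf 30024398 0 0) (P.cons (P.lf 0 22238857 0) (P.cons (P.lf 2353615 0 0) (P.cons (P.lf 1009140 0 0) (P.cons (P.lf 0 154008 0) P.nil))))) (P.cons (P.cons (P.lf 4568515 0 0) (P.cons (P.lf 0 5249436 0) (P.cons (P.lf 947311 0 0) (P.cons (P.lf 290586 0 0) P.nil)))) (P.cons (P.cons (P.lf 0 4662182 0) (P.cons (P.lf 2708321 0 0) (P.cons (P.lf 0 102393 0) P.nil))) (P.cons (P.cons (P.lf 87450 0 0) (P.cons (P.lf 249756 0 0) P.nil)) (P.cons (P.cons (P.lf 261210 0 0) P.nil) P.nil)))))) 815697)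
 (EL.cons 8 (TM.mk (P.cons (P.cons (P.lf 0 80623983 0) (P.cons (P.lf 75222043 0 0) (P.cons (P.lf 0 12516340 0) (P.cons (P.lf 0 4022493 0) (P.cons (P.lf 703606 0 0) (P.cons (P.lf 52284 0 0) P.nil)))))) (P.cons (P.cons (P.lf 16530942 0 0) (P.cons (P.lf 0 6689180 0) (P.cons (P.lf 0 924213 0) (P.cons (P.lf 85293 0 0) (P.cons (P.lf 19128 0 0) P.nil))))) (P.cons (P.cons (P.lf 13890302 0 0) (P.cons (P.lf 0 11323291 0) (P.cons (P.lf 1265881 0 0) (P.cons (P.lf 522845 0 0) P.nil)))) (P.cons (P.cons (P.lf 0 2438868 0) (P.cons (P.lf 264207 0 0) (P.cons (P.lf 288026 0 0) P.nil))) (P.cons (P.cons (P.lf 0 885464 0) (P.cons (P.lf 601182 0 0) P.nil)) (P.cons (P.cons (P.lf 132624 0 0) P.nil) P.nil)))))) 685669)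
 EL.nil))
noncomputable def S198_227_364_512_18 : EL := (EL.cons 4 (TM.mk (P.cons (P.lf 142093522 0 0) (P.cons (P.lf 0 132193991 0) (P.cons (P.lf 36274848 0 0) (P.cons (P.lf 0 908220 0) (P.cons (P.lf 0 623396 0) (P.cons (P.lf 0 4479 0) P.nil)))))) 6741)
 (EL.cons 8 (TM.mk (P.cons (P.lf 214946014 0 0) (P.cons (P.lf 0 122956731 0) (P.cons (P.lf 8001726 0 0) (P.cons (P.lf 3495072 0 0) (P.cons (P.lf 0 40579 0) (P.cons (P.lf 0 38127 0) P.nil)))))) 3726)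
 EL.nil))
noncomputable def S198_227_364_512_19 : EL := (EL.cons 4 (TM.mk (P.cons (P.cons (P.lf 49840481 0 0) (P.cons (P.lf 0 23250543 0) (P.cons (P.lf 0 1554476 0) (P.lf 518158 0 0)))) (P.cons (P.cons (P.lf 0 44950485 0) (P.cons (P.lf 18269703 0 0) (P.cons (P.lf 1221469 0 0) (P.lf 0 407156 0)))) (P.cons (P.cons (P.lf 8283135 0 0) (P.cons (P.lf 0 2488597 0) (P.cons (P.lf 0 166381 0) (P.lf 55460 0 0)))) (P.cons (P.cons (P.lf 2969506 0 0) (P.cons (P.lf 0 939205 0) (P.cons (P.lf 0 62792 0) P.nil))) (P.cons (P.cons (P.lf 0 1000336 0) (P.cons (P.lf 140714 0 0) P.nil)) (P.cons (P.cons (P.lf 0 22920 0) P.nil) P.nil)))))) 131616)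
 (EL.cons 8 (TM.mk (P.cons (P.cons (P.lf 75394097 0 0) (P.cons (P.lf 0 35171284 0) (P.cons (P.lf 0 2351469 0) (P.lf 783823 0 0)))) (P.cons (P.cons (P.lf 0 40983599 0) (P.cons (P.lf 15035016 0 0) (P.cons (P.lf 1005206 0 0) (P.lf 0 335068 0)))) (P.cons (P.cons (P.lf 0 3142249 0) (P.cons (P.lf 2083347 0 0) (P.cons (P.lf 139287 0 0) (P.lf 0 46428 0)))) (P.cons (P.cons (P.lf 4040246 0 0) (P.cons (P.lf 0 935243 0) (P.cons (P.lf 0 62527 0) P.nil))) (P.cons (P.cons (P.lf 0 106469 0) (P.cons (P.lf 0 118690 0) P.nil)) (P.cons (P.cons (P.lf 0 126624 0) P.nil) P.nil)))))) 104342)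
 EL.nil))
noncomputable def S198_227_364_512_20 : EL := (EL.cons 4 (TM.mk (P.cons (P.cons (P.lf 17481961 0 0) (P.cons (P.lf 0 16310641 0) (P.cons (P.lf 2713958 0 0) (P.cons (P.lf 872209 0 0) (P.cons (P.lf 0 152565 0) (P.cons (P.lf 0 11336 0) P.nil)))))) (P.cons (P.cons (P.lf 0 15269502 0) (P.cons (P.lf 12352563 0 0) (P.cons (P.lf 0 1613625 0) (P.cons (P.lf 0 601485 0) (P.cons (P.lf 97827 0 0) P.nil))))) (P.cons (P.cons (P.lf 1361955 0 0) (P.cons (P.lf 0 359650 0) (P.cons (P.lf 0 101368 0) (P.cons (P.lf 0 2323 0) P.nil)))) (P.cons (P.cons (P.lf 2119450 0 0) (P.cons (P.lf 0 1518454 0) (P.cons (P.lf 141051 0 0) P.nil))) (P.cons (P.cons (P.lf 0 494475 0) (P.cons (P.lf 180321 0 0) P.nil)) (P.cons (P.cons (P.lf 0 95803 0) P.nil) P.nil)))))) 526433)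
 (EL.cons 8 (TM.mk (P.cons (P.cons (P.lf 26445104 0 0) (P.cons (P.lf 0 24673239 0) (P.cons (P.lf 4105427 0 0) (P.cons (P.lf 1319399 0 0) (P.cons (P.lf 0 230786 0) (P.cons (P.lf 0 17149 0) P.nil)))))) (P.cons (P.cons (P.lf 0 13623137 0) (P.cons (P.lf 9845513 0 0) (P.cons (P.lf 0 969987 0) (P.cons (P.lf 0 437136 0) (P.cons (P.lf 65295 0 0) P.nil))))) (P.cons (P.cons (P.lf 0 3167408 0) (P.cons (P.lf 3306879 0 0) (P.cons (P.lf 0 554681 0) (P.cons (P.lf 0 177428 0) P.nil)))) (P.cons (P.cons (P.lf 2297831 0 0) (P.cons (P.lf 0 1286006 0) (P.cons (P.lf 34803 0 0) P.nil))) (P.cons (P.cons (P.lf 89405 0 0) (P.cons (P.lf 0 210968 0) P.nil)) (P.cons (P.cons (P.lf 0 147131 0) P.nil) P.nil)))))) 479261)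
 EL.nil))
noncomputable def S198_227_364_512_21 : EL := (EL.cons 4 (TM.mk (P.cons (P.cons (P.lf 0 273460287 0) (P.cons (P.lf 648324264 0 0) (P.cons (P.lf 43345443 0 0) (P.lf 0 14448480 0)))) (P.cons (P.cons (P.lf 1197497808 0 0) (P.cons (P.lf 0 107333178 0) (P.cons (P.lf 0 7176048 0) (P.lf 2392017 0 0)))) (P.cons (P.cons (P.lf 18489711 0 0) (P.cons (P.lf 0 45169068 0) (P.cons (P.lf 0 3019893 0) (P.lf 1006626 0 0)))) (P.cons (P.cons (P.lf 0 39855531 0) (P.cons (P.lf 444366 0 0) (P.cons (P.lf 29706 0 0) P.nil))) (P.cons (P.cons (P.lf 0 1716348 0) (P.cons (P.lf 850809 0 0) P.nil)) (P.cons (P.cons (P.lf 534933 0 0) P.nil) P.nil)))))) 373740)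
 (EL.cons 8 (TM.mk (P.cons (P.cons (P.lf 64275681 0 0) (P.cons (P.lf 0 152385849 0) (P.cons (P.lf 0 10188171 0) (P.lf 3396057 0 0)))) (P.cons (P.cons (P.lf 0 304496418 0) (P.cons (P.lf 79827357 0 0) (P.cons (P.lf 5337066 0 0) (P.lf 0 1779018 0)))) (P.cons (P.cons (P.lf 97344603 0 0) (P.cons (P.lf 0 419238 0) (P.cons (P.lf 0 28029 0) (P.lf 9339 0 0)))) (P.cons (P.cons (P.lf 7119774 0 0) (P.cons (P.lf 0 3300795 0) (P.cons (P.lf 0 220680 0) P.nil))) (P.cons (P.cons (P.lf 0 2491929 0) (P.cons (P.lf 0 84513 0) P.nil)) (P.cons (P.cons (P.lf 0 168375 0) P.nil) P.nil)))))) 329739)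
 (EL.cons 11 (TM.mk (P.cons (P.cons (P.lf 2586006444 0 0) (P.cons (P.lf 400378737 0 0) (P.cons (P.lf 0 192889848 0) (P.cons (P.lf 0 7299519 0) (P.lf 1824879 0 0))))) (P.cons (P.cons (P.lf 249214329 0 0) (P.cons (P.lf 38584635 0 0) (P.cons (P.lf 0 18588861 0) (P.cons (P.lf 0 703455 0) (P.lf 175863 0 0))))) (P.cons (P.cons (P.lf 0 29743989 0) (P.cons (P.lf 0 4605114 0) (P.cons (P.lf 2218599 0 0) (P.cons (P.lf 83958 0 0) P.nil)))) (P.cons (P.cons (P.lf 0 3517293 0) (P.cons (P.lf 0 544563 0) (P.cons (P.lf 262353 0 0) P.nil))) (P.cons (P.cons (P.lf 133743 0 0) (P.cons (P.lf 20706 0 0) P.nil)) (P.cons (P.cons (P.lf 26253 0 0) P.nil) P.nil)))))) 52971)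
 EL.nil)))
noncomputable def S198_227_364_512_22 : EL := (EL.cons 4 (TM.mk (P.cons (P.cons (P.lf 0 95918463 0) (P.cons (P.lf 272150997 0 0) (P.cons (P.lf 0 87888918 0) (P.cons (P.lf 0 20250222 0) (P.cons (P.lf 4254174 0 0) (P.cons (P.lf 316125 0 0) P.nil)))))) (P.cons (P.cons (P.lf 417304005 0 0) (P.cons (P.lf 0 220656192 0) (P.cons (P.lf 0 12524865 0) (P.cons (P.lf 5215395 0 0) (P.cons (P.lf 0 89334 0) P.nil))))) (P.cons (P.cons (P.lf 24440439 0 0) (P.cons (P.lf 0 63123939 0) (P.cons (P.lf 7170216 0 0) (P.cons (P.lf 2929857 0 0) P.nil)))) (P.cons (P.cons (P.lf 0 40145544 0) (P.cons (P.lf 10814805 0 0) (P.cons (P.lf 1787457 0 0) P.nil))) (P.cons (P.cons (P.lf 0 1306875 0) (P.cons (P.lf 3323892 0 0) P.nil)) (P.cons (P.cons (P.lf 1424271 0 0) P.nil) P.nil)))))) 2782062)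
 (EL.cons 8 (TM.mk (P.cons (P.cons (P.lf 22545228 0 0) (P.cons (P.lf 0 63967929 0) (P.cons (P.lf 20657910 0 0) (P.cons (P.lf 4759731 0 0) (P.cons (P.lf 0 999924 0) (P.cons (P.lf 0 74304 0) P.nil)))))) (P.cons (P.cons (P.lf 0 106163370 0) (P.cons (P.lf 74783709 0 0) (P.cons (P.lf 0 4457721 0) (P.cons (P.lf 0 2931240 0) (P.cons (P.lf 379263 0 0) P.nil))))) (P.cons (P.cons (P.lf 29694411 0 0) (P.cons (P.lf 0 4583970 0) (P.cons (P.lf 0 2469414 0) (P.cons (P.lf 0 187059 0) P.nil)))) (P.cons (P.cons (P.lf 10167999 0 0) (P.cons (P.lf 0 7062087 0) (P.cons (P.lf 184737 0 0) P.nil))) (P.cons (P.cons (P.lf 0 2968440 0) (P.cons (P.lf 223269 0 0) P.nil)) (P.cons (P.cons (P.lf 0 320757 0) P.nil) P.nil)))))) 1315620)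
 (EL.cons 11 (TM.mk (P.cons (P.cons (P.lf 907063212 0 0) (P.cons (P.lf 0 282708081 0) (P.cons (P.lf 0 161461506 0) (P.cons (P.lf 34051974 0 0) (P.cons (P.lf 5404701 0 0) (P.cons (P.lf 0 922137 0) P.nil)))))) (P.cons (P.cons (P.lf 113214312 0 0) (P.cons (P.lf 0 84417969 0) (P.cons (P.lf 0 31044393 0) (P.cons (P.lf 8501289 0 0) (P.cons (P.lf 1227807 0 0) P.nil))))) (P.cons (P.cons (P.lf 0 64759098 0) (P.cons (P.lf 0 5227383 0) (P.cons (P.lf 5894214 0 0) (P.cons (P.lf 0 232428 0) P.nil)))) (P.cons (P.cons (P.lf 0 6605778 0) (P.cons (P.lf 2056596 0 0) (P.cons (P.lf 1175355 0 0) P.nil))) (P.cons (P.cons (P.lf 1518192 0 0) (P.cons (P.lf 327174 0 0) P.nil)) (P.cons (P.cons (P.lf 178818 0 0) P.nil) P.nil)))))) 1394421)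
 EL.nil)))
noncomputable def S198_227_364_512_23 : EL := (EL.cons 4 (TM.mk (P.cons (P.cons (P.lf 89696460 0 0) (P.cons (P.lf 0 212653884 0) (P.cons (P.lf 0 14217540 0) (P.lf 4739178 0 0)))) (P.cons (P.cons (P.lf 0 420601593 0) (P.cons (P.lf 101152023 0 0) (P.cons (P.lf 6762786 0 0) (P.lf 0 2254263 0)))) (P.cons (P.cons (P.lf 114749052 0 0) (P.cons (P.lf 6252546 0 0) (P.cons (P.lf 418026 0 0) (P.lf 0 139341 0)))) (P.cons (P.cons (P.lf 19387167 0 0) (P.cons (P.lf 0 5330625 0) (P.cons (P.lf 0 356391 0) P.nil))) (P.cons (P.cons (P.lf 0 3788544 0) (P.cons (P.lf 0 378477 0) P.nil)) (P.cons (P.cons (P.lf 0 526137 0) P.nil) P.nil)))))) 488775)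
 (EL.cons 8 (TM.mk (P.cons (P.cons (P.lf 0 21082773 0) (P.cons (P.lf 49983387 0 0) (P.cons (P.lf 3341775 0 0) (P.lf 0 1113924 0)))) (P.cons (P.cons (P.lf 106414464 0 0) (P.cons (P.lf 0 41684169 0) (P.cons (P.lf 0 2786904 0) (P.lf 928965 0 0)))) (P.cons (P.cons (P.lf 0 62668851 0) (P.cons (P.lf 7703952 0 0) (P.cons (P.lf 515067 0 0) (P.lf 0 171687 0)))) (P.cons (P.cons (P.lf 6440622 0 0) (P.cons (P.lf 1377087 0 0) (P.cons (P.lf 92067 0 0) P.nil))) (P.cons (P.cons (P.lf 1987938 0 0) (P.cons (P.lf 0 331008 0) P.nil)) (P.cons (P.cons (P.lf 0 195990 0) P.nil) P.nil)))))) 234129)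
 (EL.cons 11 (TM.mk (P.cons (P.cons (P.lf 0 848224185 0) (P.cons (P.lf 0 131326404 0) (P.cons (P.lf 63268917 0 0) (P.cons (P.lf 2394279 0 0) (P.lf 0 598569 0))))) (P.cons (P.cons (P.lf 181299393 0 0) (P.cons (P.lf 28069698 0 0) (P.cons (P.lf 0 13523094 0) (P.cons (P.lf 0 511752 0) (P.lf 127938 0 0))))) (P.cons (P.cons (P.lf 44497455 0 0) (P.cons (P.lf 6889320 0 0) (P.cons (P.lf 0 3319056 0) (P.cons (P.lf 0 125601 0) P.nil)))) (P.cons (P.cons (P.lf 0 1766724 0) (P.cons (P.lf 0 273534 0) (P.cons (P.lf 131778 0 0) P.nil))) (P.cons (P.cons (P.lf 0 641685 0) (P.cons (P.lf 0 99348 0) P.nil)) (P.cons (P.cons (P.lf 0 2052 0) P.nil) P.nil)))))) 122598)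
 EL.nil)))
noncomputable def S198_227_364_512_24 : EL := (EL.cons 4 (TM.mk (P.cons (P.cons (P.lf 31461777 0 0) (P.cons (P.lf 0 89267007 0) (P.cons (P.lf 28828041 0 0) (P.cons (P.lf 6642183 0 0) (P.cons (P.lf 0 1395390 0) (P.cons (P.lf 0 103689 0) P.nil)))))) (P.cons (P.cons (P.lf 0 146634603 0) (P.cons (P.lf 100059048 0 0) (P.cons (P.lf 0 4831647 0) (P.cons (P.lf 0 3770487 0) (P.cons (P.lf 462027 0 0) P.nil))))) (P.cons (P.cons (P.lf 34082322 0 0) (P.cons (P.lf 0 751296 0) (P.cons (P.lf 0 3945063 0) (P.cons (P.lf 0 504051 0) P.nil)))) (P.cons (P.cons (P.lf 17199201 0 0) (P.cons (P.lf 0 10853706 0) (P.cons (P.lf 124743 0 0) P.nil))) (P.cons (P.cons (P.lf 0 3693153 0) (P.cons (P.lf 0 156963 0) P.nil)) (P.cons (P.cons (P.lf 0 762390 0) P.nil) P.nil)))))) 2109669)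
 (EL.cons 8 (TM.mk (P.cons (P.cons (P.lf 0 7394955 0) (P.cons (P.lf 20981829 0 0) (P.cons (P.lf 0 6775905 0) (P.cons (P.lf 0 1561215 0) (P.cons (P.lf 327981 0 0) (P.cons (P.lf 24372 0 0) P.nil)))))) (P.cons (P.cons (P.lf 37115415 0 0) (P.cons (P.lf 0 31036143 0) (P.cons (P.lf 3563433 0 0) (P.cons (P.lf 1445613 0 0) (P.cons (P.lf 0 226110 0) P.nil))))) (P.cons (P.cons (P.lf 0 20456760 0) (P.cons (P.lf 8878089 0 0) (P.cons (P.lf 431574 0 0) (P.cons (P.lf 0 219516 0) P.nil)))) (P.cons (P.cons (P.lf 0 707238 0) (P.cons (P.lf 2141514 0 0) (P.cons (P.lf 0 334356 0) P.nil))) (P.cons (P.cons (P.lf 2148138 0 0) (P.cons (P.lf 0 829998 0) P.nil)) (P.cons (P.cons (P.lf 0 166719 0) P.nil) P.nil)))))) 779673)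
 (EL.cons 11 (TM.mk (P.cons (P.cons (P.lf 0 297521667 0) (P.cons (P.lf 92729787 0 0) (P.cons (P.lf 52960251 0 0) (P.cons (P.lf 0 11169231 0) (P.cons (P.lf 0 1772772 0) (P.cons (P.lf 302466 0 0) P.nil)))))) (P.cons (P.cons (P.lf 55129620 0 0) (P.cons (P.lf 0 1066905 0) (P.cons (P.lf 0 6240786 0) (P.cons (P.lf 675222 0 0) (P.cons (P.lf 147024 0 0) P.nil))))) (P.cons (P.cons (P.lf 36051474 0 0) (P.cons (P.lf 0 7898928 0) (P.cons (P.lf 0 5677488 0) (P.cons (P.lf 1064637 0 0) P.nil)))) (P.cons (P.cons (P.lf 0 4289868 0) (P.cons (P.lf 0 1425417 0) (P.cons (P.lf 151224 0 0) P.nil))) (P.cons (P.cons (P.lf 0 1459380 0) (P.cons (P.lf 115011 0 0) P.nil)) (P.cons (P.cons (P.lf 90048 0 0) P.nil) P.nil)))))) 999594)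
 EL.nil)))
noncomputable def S198_227_364_512_25 : EL := (EL.cons 4 (TM.mk (P.cons (P.cons (P.lf 0 29420925 0) (P.cons (P.lf 69751629 0 0) (P.cons (P.lf 4663428 0 0) (P.lf 0 1554474 0)))) (P.cons (P.cons (P.lf 147083343 0 0) (P.cons (P.lf 0 54809112 0) (P.cons (P.lf 0 3664407 0) (P.lf 1221468 0 0)))) (P.cons (P.cons (P.lf 0 80095254 0) (P.cons (P.lf 7465791 0 0) (P.cons (P.lf 499146 0 0) (P.lf 0 166380 0)))) (P.cons (P.cons (P.lf 3757662 0 0) (P.cons (P.lf 2817615 0 0) (P.cons (P.lf 188376 0 0) P.nil))) (P.cons (P.cons (P.lf 3759636 0 0) (P.cons (P.lf 0 422142 0) P.nil)) (P.cons (P.cons (P.lf 0 168879 0) P.nil) P.nil)))))) 446106)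
 (EL.cons 8 (TM.mk (P.cons (P.cons (P.lf 6915264 0 0) (P.cons (P.lf 0 16394823 0) (P.cons (P.lf 0 1096119 0) (P.lf 365373 0 0)))) (P.cons (P.cons (P.lf 0 37049016 0) (P.cons (P.lf 18756837 0 0) (P.cons (P.lf 1254036 0 0) (P.lf 0 418011 0)))) (P.cons (P.cons (P.lf 31303407 0 0) (P.cons (P.lf 0 6585435 0) (P.cons (P.lf 0 440286 0) (P.lf 146760 0 0)))) (P.cons (P.cons (P.lf 0 8094108 0) (P.cons (P.lf 165087 0 0) (P.cons (P.lf 11037 0 0) P.nil))) (P.cons (P.cons (P.lf 0 256998 0) (P.cons (P.lf 288459 0 0) P.nil)) (P.cons (P.cons (P.lf 306996 0 0) P.nil) P.nil)))))) 192684)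
 (EL.cons 11 (TM.mk (P.cons (P.cons (P.lf 278222148 0 0) (P.cons (P.lf 43075773 0 0) (P.cons (P.lf 0 20752548 0) (P.cons (P.lf 0 785337 0) (P.lf 196332 0 0))))) (P.cons (P.cons (P.lf 0 145746738 0) (P.cons (P.lf 0 22565253 0) (P.cons (P.lf 10871226 0 0) (P.cons (P.lf 411399 0 0) (P.lf 0 102849 0))))) (P.cons (P.cons (P.lf 765444 0 0) (P.cons (P.lf 118509 0 0) (P.cons (P.lf 0 57093 0) (P.cons (P.lf 0 2160 0) P.nil)))) (P.cons (P.cons (P.lf 6026520 0 0) (P.cons (P.lf 933054 0 0) (P.cons (P.lf 0 449517 0) P.nil))) (P.cons (P.cons (P.lf 154302 0 0) (P.cons (P.lf 23889 0 0) P.nil)) (P.cons (P.cons (P.lf 0 89226 0) P.nil) P.nil)))))) 152496)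
 EL.nil)))
noncomputable def S198_227_364_512_26 : EL := (EL.cons 4 (TM.mk (P.cons (P.cons (P.lf 0 10319634 0) (P.cons (P.lf 29280063 0 0) (P.cons (P.lf 0 9455754 0) (P.cons (P.lf 0 2178672 0) (P.cons (P.lf 457695 0 0) (P.cons (P.lf 34011 0 0) P.nil)))))) (P.cons (P.cons (P.lf 51297171 0 0) (P.cons (P.lf 0 41899959 0) (P.cons (P.lf 4517133 0 0) (P.cons (P.lf 1912368 0 0) (P.cons (P.lf 0 293484 0) P.nil))))) (P.cons (P.cons (P.lf 0 25980282 0) (P.cons (P.lf 10100025 0 0) (P.cons (P.lf 907233 0 0) (P.cons (P.lf 0 194070 0) P.nil)))) (P.cons (P.cons (P.lf 0 2716923 0) (P.cons (P.lf 3874659 0 0) (P.cons (P.lf 0 468666 0) P.nil))) (P.cons (P.cons (P.lf 3129312 0 0) (P.cons (P.lf 0 1084314 0) P.nil)) (P.cons (P.cons (P.lf 0 70533 0) P.nil) P.nil)))))) 1187103)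
 (EL.cons 8 (TM.mk (P.cons (P.cons (P.lf 2425584 0 0) (P.cons (P.lf 0 6882153 0) (P.cons (P.lf 2222532 0 0) (P.cons (P.lf 512085 0 0) (P.cons (P.lf 0 107577 0) (P.cons (P.lf 0 7992 0) P.nil)))))) (P.cons (P.cons (P.lf 0 12926256 0) (P.cons (P.lf 12314250 0 0) (P.cons (P.lf 0 1858056 0) (P.cons (P.lf 0 632970 0) (P.cons (P.lf 107526 0 0) P.nil))))) (P.cons (P.cons (P.lf 10458372 0 0) (P.cons (P.lf 0 5992791 0) (P.cons (P.lf 196296 0 0) (P.cons (P.lf 213375 0 0) P.nil)))) (P.cons (P.cons (P.lf 0 1711758 0) (P.cons (P.lf 81423 0 0) (P.cons (P.lf 168606 0 0) P.nil))) (P.cons (P.cons (P.lf 0 862158 0) (P.cons (P.lf 531471 0 0) P.nil)) (P.cons (P.cons (P.lf 276153 0 0) P.nil) P.nil)))))) 487095)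
 (EL.cons 11 (TM.mk (P.cons (P.cons (P.lf 97588725 0 0) (P.cons (P.lf 0 30415872 0) (P.cons (P.lf 0 17371248 0) (P.cons (P.lf 3663567 0 0) (P.cons (P.lf 581478 0 0) (P.cons (P.lf 0 99210 0) P.nil)))))) (P.cons (P.cons (P.lf 0 48346083 0) (P.cons (P.lf 9782226 0 0) (P.cons (P.lf 7434015 0 0) (P.cons (P.lf 0 1357587 0) (P.cons (P.lf 0 228546 0) P.nil))))) (P.cons (P.cons (P.lf 0 7297935 0) (P.cons (P.lf 2819136 0 0) (P.cons (P.lf 1419783 0 0) (P.cons (P.lf 0 321087 0) P.nil)))) (P.cons (P.cons (P.lf 5366436 0 0) (P.cons (P.lf 0 368478 0) (P.cons (P.lf 0 666153 0) P.nil))) (P.cons (P.cons (P.lf 162522 0 0) (P.cons (P.lf 0 213039 0) P.nil)) (P.cons (P.cons (P.lf 0 206094 0) P.nil) P.nil)))))) 704835)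
 EL.nil)))
noncomputable def S198_227_364_512_27 : EL := (EL.cons 13 (TM.mk (P.lf 0 4294967296 0) 0)
 EL.nil)
noncomputable def S198_227_364_512_28 : EL := (EL.cons 13 (TM.mk (P.cons (P.cons (P.lf 0 1506495409 0) (P.cons (P.lf 702778872 0 0) (P.cons (P.lf 46986156 0 0) (P.lf 0 15662052 0)))) (P.cons (P.cons (P.lf 0 42850446 0) (P.cons (P.lf 101590560 0 0) (P.cons (P.lf 6792104 0 0) (P.lf 0 2264032 0)))) (P.cons (P.cons (P.lf 94357063 0 0) (P.cons (P.lf 0 9677356 0) (P.cons (P.lf 0 647004 0) (P.lf 215664 0 0)))) (P.cons (P.cons (P.lf 0 663900 0) (P.cons (P.lf 0 2057352 0) (P.cons (P.lf 0 137548 0) P.nil))) (P.cons (P.cons (P.lf 0 1352595 0) (P.cons (P.lf 35792 0 0) P.nil)) (P.cons (P.cons (P.lf 0 28429 0) P.nil) P.nil)))))) 102049)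
 EL.nil)
noncomputable def S198_227_364_512_29 : EL := (EL.cons 13 (TM.mk (P.cons (P.cons (P.lf 0 528415762 0) (P.cons (P.lf 493011038 0 0) (P.cons (P.lf 0 82033054 0) (P.cons (P.lf 0 26363733 0) (P.cons (P.lf 4611494 0 0) (P.cons (P.lf 342679 0 0) P.nil)))))) (P.cons (P.cons (P.lf 0 30060298 0) (P.cons (P.lf 85290568 0 0) (P.cons (P.lf 0 27543887 0) (P.cons (P.lf 0 6346300 0) (P.cons (P.lf 1333232 0 0) P.nil))))) (P.cons (P.cons (P.lf 65765530 0 0) (P.cons (P.lf 0 35640709 0) (P.cons (P.lf 0 1618833 0) (P.cons (P.lf 896442 0 0) P.nil)))) (P.cons (P.cons (P.lf 1417044 0 0) (P.cons (P.lf 0 5882830 0) (P.cons (P.lf 737776 0 0) P.nil))) (P.cons (P.cons (P.lf 0 3035065 0) (P.cons (P.lf 883317 0 0) P.nil)) (P.cons (P.cons (P.lf 0 17762 0) P.nil) P.nil)))))) 1391584)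
 EL.nil)
noncomputable def S198_227_364_512_30 : EL := (EL.cons 13 (TM.mk (P.cons (P.lf 1408772644 0 0) (P.cons (P.lf 0 436874896 0) (P.cons (P.lf 0 15598228 0) (P.cons (P.lf 1328688 0 0) (P.cons (P.lf 91228 0 0) (P.cons (P.lf 0 3020 0) P.nil)))))) 560)
 EL.nil)
noncomputable def S198_227_364_512_31 : EL := (EL.cons 13 (TM.mk (P.cons (P.cons (P.lf 494138691 0 0) (P.cons (P.lf 0 230515294 0) (P.cons (P.lf 0 15411714 0) (P.lf 5137238 0 0)))) (P.cons (P.cons (P.lf 0 139182314 0) (P.cons (P.lf 38162908 0 0) (P.cons (P.lf 2551484 0 0) (P.lf 0 850495 0)))) (P.cons (P.cons (P.lf 0 40779493 0) (P.cons (P.lf 16060114 0 0) (P.cons (P.lf 1073740 0 0) (P.lf 0 357912 0)))) (P.cons (P.cons (P.lf 10125988 0 0) (P.cons (P.lf 0 157997 0) (P.cons (P.lf 0 10563 0) P.nil))) (P.cons (P.cons (P.lf 764064 0 0) (P.cons (P.lf 0 302510 0) P.nil)) (P.cons (P.cons (P.lf 0 160008 0) P.nil) P.nil))))))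 130492)
 EL.nil)
noncomputable def S198_227_364_512_32 : EL := (EL.cons 13 (TM.mk (P.cons (P.cons (P.lf 173323245 0 0) (P.cons (P.lf 0 161710303 0) (P.cons (P.lf 26907288 0 0) (P.cons (P.lf 8647447 0 0) (P.cons (P.lf 0 1512595 0) (P.cons (P.lf 0 112400 0) P.nil)))))) (P.cons (P.cons (P.lf 0 43889380 0) (P.cons (P.lf 22172258 0 0) (P.cons (P.lf 690317 0 0) (P.cons (P.lf 0 600041 0) (P.cons (P.lf 31763 0 0) P.nil))))) (P.cons (P.cons (P.lf 0 26548192 0) (P.cons (P.lf 22156411 0 0) (P.cons (P.lf 0 2568642 0) (P.cons (P.lf 0 1035316 0) P.nil)))) (P.cons (P.cons (P.lf 6279030 0 0) (P.cons (P.lf 0 1538460 0) (P.cons (P.lf 0 481313 0) P.nil))) (P.cons (P.cons (P.lf 1399023 0 0) (P.cons (P.lf 0 1054416 0) P.nil)) (P.cons (P.cons (P.lf 0 317826 0) P.nil) P.nil)))))) 1169563)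
 EL.nil)
noncomputable def S198_227_364_512_33 : EL := (EL.cons 14 (TM.mk (P.lf 8589934592 0 0) 0)
 EL.nil)
noncomputable def S198_227_364_512_34 : EL := (EL.cons 14 (TM.mk (P.cons (P.cons (P.lf 3012990818 0 0) (P.cons (P.lf 0 1405557744 0) (P.cons (P.lf 0 93972312 0) (P.lf 31324104 0 0)))) (P.cons (P.cons (P.lf 85700892 0 0) (P.cons (P.lf 0 203181120 0) (P.cons (P.lf 0 13584208 0) (P.lf 4528064 0 0)))) (P.cons (P.cons (P.lf 0 188714126 0) (P.cons (P.lf 19354712 0 0) (P.cons (P.lf 1294008 0 0) (P.lf 0 431328 0)))) (P.cons (P.cons (P.lf 1327800 0 0) (P.cons (P.lf 4114704 0 0) (P.cons (P.lf 275096 0 0) P.nil))) (P.cons (P.cons (P.lf 2705190 0 0) (P.cons (P.lf 0 71584 0) P.nil)) (P.cons (P.cons (P.lf 56858 0 0) P.nil) P.nil)))))) 204098)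
 EL.nil)
noncomputable def S198_227_364_512_35 : EL := (EL.cons 14 (TM.mk (P.cons (P.cons (P.lf 1056831524 0 0) (P.cons (P.lf 0 986022076 0) (P.cons (P.lf 164066108 0 0) (P.cons (P.lf 52727466 0 0) (P.cons (P.lf 0 9222988 0) (P.cons (P.lf 0 685358 0) P.nil)))))) (P.cons (P.cons (P.lf 60120596 0 0) (P.cons (P.lf 0 170581136 0) (P.cons (P.lf 55087774 0 0) (P.cons (P.lf 12692600 0 0) (P.cons (P.lf 0 2666464 0) P.nil))))) (P.cons (P.cons (P.lf 0 131531060 0) (P.cons (P.lf 71281418 0 0) (P.cons (P.lf 3237666 0 0) (P.cons (P.lf 0 1792884 0) P.nil)))) (P.cons (P.cons (P.lf 0 2834088 0) (P.cons (P.lf 11765660 0 0) (P.cons (P.lf 0 1475552 0) P.nil))) (P.cons (P.cons (P.lf 6070130 0 0) (P.cons (P.lf 0 1766634 0) P.nil)) (P.cons (P.cons (P.lf 35524 0 0) P.nil) P.nil)))))) 2783168)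
 EL.nil)
noncomputable def S198_227_364_512_36 : EL := (EL.cons 14 (TM.mk (P.cons (P.lf 0 2817545288 0) (P.cons (P.lf 873749792 0 0) (P.cons (P.lf 31196456 0 0) (P.cons (P.lf 0 2657376 0) (P.cons (P.lf 0 182456 0) (P.cons (P.lf 6040 0 0) P.nil)))))) 1120)
 EL.nil)
noncomputable def S198_227_364_512_37 : EL := (EL.cons 14 (TM.mk (P.cons (P.cons (P.lf 0 988277382 0) (P.cons (P.lf 461030588 0 0) (P.cons (P.lf 30823428 0 0) (P.lf 0 10274476 0)))) (P.cons (P.cons (P.lf 278364628 0 0) (P.cons (P.lf 0 76325816 0) (P.cons (P.lf 0 5102968 0) (P.lf 1700990 0 0)))) (P.cons (P.cons (P.lf 81558986 0 0) (P.cons (P.lf 0 32120228 0) (P.cons (P.lf 0 2147480 0) (P.lf 715824 0 0)))) (P.cons (P.cons (P.lf 0 20251976 0) (P.cons (P.lf 315994 0 0) (P.cons (P.lf 21126 0 0) P.nil))) (P.cons (P.cons (P.lf 0 1528128 0) (P.cons (P.lf 605020 0 0) P.nil)) (P.cons (P.cons (P.lf 320016 0 0) P.nil)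 P.nil)))))) 260984)
 EL.nil)
noncomputable def S198_227_364_512_38 : EL := (EL.cons 14 (TM.mk (P.cons (P.cons (P.lf 0 346646490 0) (P.cons (P.lf 323420606 0 0) (P.cons (P.lf 0 53814576 0) (P.cons (P.lf 0 17294894 0) (P.cons (P.lf 3025190 0 0) (P.cons (P.lf 224800 0 0) P.nil)))))) (P.cons (P.cons (P.lf 87778760 0 0) (P.cons (P.lf 0 44344516 0) (P.cons (P.lf 0 1380634 0) (P.cons (P.lf 1200082 0 0) (P.cons (P.lf 0 63526 0) P.nil))))) (P.cons (P.cons (P.lf 53096384 0 0) (P.cons (P.lf 0 44312822 0) (P.cons (P.lf 5137284 0 0) (P.cons (P.lf 2070632 0 0) P.nil)))) (P.cons (P.cons (P.lf 0 12558060 0) (P.cons (P.lf 3076920 0 0) (P.cons (P.lf 962626 0 0) P.nil))) (P.cons (P.cons (P.lf 0 2798046 0) (P.cons (P.lf 2108832 0 0) P.nil)) (P.cons (P.cons (P.lf 635652 0 0) P.nil) P.nil)))))) 2339126)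
 EL.nil)
noncomputable def S198_227_364_512_39 : EL := (EL.cons 14 (TM.mk (P.cons (P.lf 924170186 0 0) (P.cons (P.lf 0 573189372 0) (P.cons (P.lf 68410746 0 0) (P.cons (P.lf 8089740 0 0) (P.cons (P.lf 0 307614 0) (P.cons (P.lf 0 60382 0) P.nil)))))) 4526)
 EL.nil)
noncomputable def S198_227_364_512_40 : EL := (EL.cons 14 (TM.mk (P.cons (P.cons (P.lf 324160358 0 0) (P.cons (P.lf 0 151220540 0) (P.cons (P.lf 0 10110252 0) (P.lf 3370084 0 0)))) (P.cons (P.cons (P.lf 0 191830576 0) (P.cons (P.lf 71930328 0 0) (P.cons (P.lf 4809094 0 0) (P.lf 0 1603032 0)))) (P.cons (P.cons (P.lf 0 2026308 0) (P.cons (P.lf 4446256 0 0) (P.cons (P.lf 297264 0 0) (P.lf 0 99086 0)))) (P.cons (P.cons (P.lf 16255446 0 0) (P.cons (P.lf 0 3790668 0) (P.cons (P.lf 0 253434 0) P.nil))) (P.cons (P.cons (P.lf 0 1327674 0) (P.cons (P.lf 0 269140 0) P.nil)) (P.cons (P.cons (P.lf 0 365792 0) P.nil)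 P.nil)))))) 312300)
 EL.nil)
noncomputable def S198_227_364_512_41 : EL := (EL.cons 14 (TM.mk (P.cons (P.cons (P.lf 113701934 0 0) (P.cons (P.lf 0 106083718 0) (P.cons (P.lf 17651472 0 0) (P.cons (P.lf 5672818 0 0) (P.cons (P.lf 0 992278 0) (P.cons (P.lf 0 73736 0) P.nil)))))) (P.cons (P.cons (P.lf 0 64052050 0) (P.cons (P.lf 47442896 0 0) (P.cons (P.lf 0 5021046 0) (P.cons (P.lf 0 2152832 0) (P.cons (P.lf 328552 0 0) P.nil))))) (P.cons (P.cons (P.lf 0 9746166 0) (P.cons (P.lf 11198798 0 0) (P.cons (P.lf 0 2020932 0) (P.cons (P.lf 0 619918 0) P.nil)))) (P.cons (P.cons (P.lf 9945990 0 0) (P.cons (P.lf 0 5777752 0) (P.cons (P.lf 218440 0 0) P.nil))) (P.cons (P.cons (P.lf 0 186562 0) (P.cons (P.lf 0 532814 0) P.nil)) (P.cons (P.cons (P.lf 0 557250 0) P.nil) P.nil)))))) 1740108)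
 EL.nil)
noncomputable def S198_227_364_512_42 : EL := (EL.cons 14 (TM.mk (P.cons (P.lf 0 303132848 0) (P.cons (P.lf 282013848 0 0) (P.cons (P.lf 0 77386344 0) (P.cons (P.lf 1937536 0 0) (P.cons (P.lf 1329912 0 0) (P.cons (P.lf 9556 0 0) P.nil)))))) 14366)
 EL.nil)
noncomputable def S198_227_364_512_43 : EL := (EL.cons 14 (TM.mk (P.cons (P.cons (P.lf 0 106326360 0) (P.cons (P.lf 49601160 0 0) (P.cons (P.lf 3316216 0 0) (P.lf 0 1105404 0)))) (P.cons (P.cons (P.lf 95894370 0 0) (P.cons (P.lf 0 38975368 0) (P.cons (P.lf 0 2605802 0) (P.lf 868600 0 0)))) (P.cons (P.cons (P.lf 0 17670688 0) (P.cons (P.lf 5309008 0 0) (P.cons (P.lf 354948 0 0) (P.lf 0 118316 0)))) (P.cons (P.cons (P.lf 0 6334948 0) (P.cons (P.lf 2003638 0 0) (P.cons (P.lf 133958 0 0) P.nil))) (P.cons (P.cons (P.lf 2134052 0 0) (P.cons (P.lf 0 300190 0) P.nil)) (P.cons (P.cons (P.lf 48898 0 0) P.nil) P.nil))))))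 280742)
 EL.nil)
noncomputable def S198_227_364_512_44 : EL := (EL.cons 14 (TM.mk (P.cons (P.cons (P.lf 0 37294852 0) (P.cons (P.lf 34796036 0 0) (P.cons (P.lf 0 5789778 0) (P.cons (P.lf 0 1860714 0) (P.cons (P.lf 325472 0 0) (P.cons (P.lf 24184 0 0) P.nil)))))) (P.cons (P.cons (P.lf 32574938 0 0) (P.cons (P.lf 0 26352136 0) (P.cons (P.lf 3442400 0 0) (P.cons (P.lf 1283168 0 0) (P.cons (P.lf 0 208698 0) P.nil))))) (P.cons (P.cons (P.lf 0 2905504 0) (P.cons (P.lf 767254 0 0) (P.cons (P.lf 216252 0 0) (P.cons (P.lf 4956 0 0) P.nil)))) (P.cons (P.cons (P.lf 0 4521494 0) (P.cons (P.lf 3239370 0 0) (P.cons (P.lf 0 300910 0) P.nil))) (P.cons (P.cons (P.lf 1054882 0 0) (P.cons (P.lf 0 384686 0) P.nil)) (P.cons (P.cons (P.lf 204380 0 0) P.nil) P.nil)))))) 1123012)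
 EL.nil)
noncomputable def S198_227_364_512_45 : EL := (EL.cons 14 (TM.mk (P.cons (P.cons (P.lf 370692424 0 0) (P.cons (P.lf 0 518783134 0) (P.cons (P.lf 207327274 0 0) (P.cons (P.lf 6289460 0 0) (P.cons (P.lf 0 17253240 0) (P.cons (P.lf 1290202 0 0) P.nil)))))) (P.cons (P.cons (P.lf 31631696 0 0) (P.cons (P.lf 0 104505282 0) (P.cons (P.lf 69865070 0 0) (P.cons (P.lf 0 3714794 0) (P.cons (P.lf 0 6355270 0) P.nil))))) (P.cons (P.cons (P.lf 0 68753552 0) (P.cons (P.lf 67444214 0 0) (P.cons (P.lf 0 10266642 0) (P.cons (P.lf 0 4283332 0) P.nil)))) (P.cons (P.cons (P.lf 0 3463792 0) (P.cons (P.lf 12649782 0 0) (P.cons (P.lf 0 5856136 0) P.nil))) (P.cons (P.cons (P.lf 5332622 0 0) (P.cons (P.lf 0 3607746 0) P.nil)) (P.cons (P.cons (P.lf 140880 0 0) P.nil) P.nil)))))) 9060172)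
 EL.nil)
noncomputable def S198_227_364_512_46 : EL := (EL.cons 15 (TM.mk (P.lf 4294967296 0 0) 0)
 EL.nil)
noncomputable def S198_227_364_512_47 : EL := (EL.cons 15 (TM.mk (P.cons (P.cons (P.lf 1506495409 0 0) (P.cons (P.lf 0 702778872 0) (P.cons (P.lf 0 46986156 0) (P.lf 15662052 0 0)))) (P.cons (P.cons (P.lf 42850446 0 0) (P.cons (P.lf 0 101590560 0) (P.cons (P.lf 0 6792104 0) (P.lf 2264032 0 0)))) (P.cons (P.cons (P.lf 0 94357063 0) (P.cons (P.lf 9677356 0 0) (P.cons (P.lf 647004 0 0) (P.lf 0 215664 0)))) (P.cons (P.cons (P.lf 663900 0 0) (P.cons (P.lf 2057352 0 0) (P.cons (P.lf 137548 0 0) P.nil))) (P.cons (P.cons (P.lf 1352595 0 0) (P.cons (P.lf 0 35792 0) P.nil)) (P.cons (P.cons (P.lf 28429 0 0) P.nil) P.nil)))))) 102049)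
 EL.nil)
noncomputable def S198_227_364_512_48 : EL := (EL.cons 15 (TM.mk (P.cons (P.cons (P.lf 528415762 0 0) (P.cons (P.lf 0 493011038 0) (P.cons (P.lf 82033054 0 0) (P.cons (P.lf 26363733 0 0) (P.cons (P.lf 0 4611494 0) (P.cons (P.lf 0 342679 0) P.nil)))))) (P.cons (P.cons (P.lf 30060298 0 0) (P.cons (P.lf 0 85290568 0) (P.cons (P.lf 27543887 0 0) (P.cons (P.lf 6346300 0 0) (P.cons (P.lf 0 1333232 0) P.nil))))) (P.cons (P.cons (P.lf 0 65765530 0) (P.cons (P.lf 35640709 0 0) (P.cons (P.lf 1618833 0 0) (P.cons (P.lf 0 896442 0) P.nil)))) (P.cons (P.cons (P.lf 0 1417044 0) (P.cons (P.lf 5882830 0 0) (P.cons (P.lf 0 737776 0) P.nil))) (P.cons (P.cons (P.lf 3035065 0 0) (P.cons (P.lf 0 883317 0) P.nil)) (P.cons (P.cons (P.lf 17762 0 0) P.nil) P.nil)))))) 1391584)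
 EL.nil)
noncomputable def S198_227_364_512 : SL := (SL.cons S198_227_364_512_0 (SL.cons S198_227_364_512_1 (SL.cons S198_227_364_512_2 (SL.cons S198_227_364_512_3 (SL.cons S198_227_364_512_4 (SL.cons S198_227_364_512_5 (SL.cons S198_227_364_512_6 (SL.cons S198_227_364_512_7 (SL.cons S198_227_364_512_8 (SL.cons S198_227_364_512_9 (SL.cons S198_227_364_512_10 (SL.cons S198_227_364_512_11 (SL.cons S198_227_364_512_12 (SL.cons S198_227_364_512_13 (SL.cons S198_227_364_512_14 (SL.cons S198_227_364_512_15 (SL.cons S198_227_364_512_16 (SL.cons S198_227_364_512_17 (SL.cons S198_227_364_512_18 (SL.cons S198_227_364_512_19 (SL.cons S198_227_364_512_20 (SL.cons S198_227_364_512_21 (SL.cons S198_227_364_512_22 (SL.cons S198_227_364_512_23 (SL.cons S198_227_364_512_24 (SL.cons S198_227_364_512_25 (SL.cons S198_227_364_512_26 (SL.cons S198_227_364_512_27 (SL.cons S198_227_364_512_28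 (SL.cons S198_227_364_512_29 (SL.cons S198_227_364_512_30 (SL.cons S198_227_364_512_31 (SL.cons S198_227_364_512_32 (SL.cons S198_227_364_512_33 (SL.cons S198_227_364_512_34 (SL.cons S198_227_364_512_35 (SL.cons S198_227_364_512_36 (SL.cons S198_227_364_512_37 (SL.cons S198_227_364_512_38 (SL.cons S198_227_364_512_39 (SL.cons S198_227_364_512_40 (SL.cons S198_227_364_512_41 (SL.cons S198_227_364_512_42 (SL.cons S198_227_364_512_43 (SL.cons S198_227_364_512_44 (SL.cons S198_227_364_512_45 (SL.cons S198_227_364_512_46 (SL.cons S198_227_364_512_47 (SL.cons S198_227_364_512_48 SL.nil)))))))))))))))))))))))))))))))))))))))))))))))))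
noncomputable def S198_227_401_438_0 : EL := (EL.cons 0 (TM.mk (P.cons (P.lf 7643457911 0 0) (P.cons (P.lf 503779721 0 0) (P.cons (P.lf 0 60126632 0) (P.cons (P.lf 0 7110123 0) (P.cons (P.lf 270363 0 0) (P.cons (P.lf 53070 0 0) P.nil)))))) 3984)
 (EL.cons 1 (TM.mk (P.cons (P.lf 0 1228710643 0) (P.cons (P.lf 321830180 0 0) (P.cons (P.lf 40457490 0 0) (P.cons (P.lf 0 2710608 0) (P.cons (P.lf 0 384633 0) (P.cons (P.lf 7027 0 0) P.nil)))))) 2881)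
 (EL.cons 5 (TM.mk (P.cons (P.lf 4583770480 0 0) (P.cons (P.lf 0 179121676 0) (P.cons (P.lf 21378358 0 0) (P.cons (P.lf 2528040 0 0) (P.cons (P.lf 0 96128 0) (P.cons (P.lf 0 18870 0) P.nil)))))) 1697)
 (EL.cons 9 (TM.mk (P.lf 6442450944 0 0) 2)
 EL.nil))))
noncomputable def S198_227_401_438_1 : EL := (EL.cons 0 (TM.mk (P.cons (P.cons (P.lf 2721959025 0 0) (P.cons (P.lf 0 204980280 0) (P.cons (P.lf 0 4450017 0) (P.lf 296668 0 0)))) (P.cons (P.cons (P.lf 1152762381 0 0) (P.cons (P.lf 0 108963639 0) (P.cons (P.lf 0 2365531 0) (P.lf 157689 0 0)))) (P.cons (P.cons (P.lf 0 399978752 0) (P.cons (P.lf 823068 0 0) (P.cons (P.lf 17870 0 0) (P.lf 0 1193 0)))) (P.cons (P.cons (P.lf 0 53596481 0) (P.cons (P.lf 4180857 0 0) (P.cons (P.lf 90752 0 0) P.nil))) (P.cons (P.cons (P.lf 10718381 0 0) (P.cons (P.lf 210699 0 0) P.nil)) (P.cons (P.cons (P.lf 1433109 0 0) P.nil) P.nil))))))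 384433)
 (EL.cons 1 (TM.mk (P.cons (P.cons (P.lf 0 650299094 0) (P.cons (P.lf 109657566 0 0) (P.cons (P.lf 2380602 0 0) (P.lf 0 158700 0)))) (P.cons (P.cons (P.lf 556656048 0 0) (P.cons (P.lf 0 4791409 0) (P.cons (P.lf 0 104016 0) (P.lf 6936 0 0)))) (P.cons (P.cons (P.lf 151674394 0 0) (P.cons (P.lf 0 11963655 0) (P.cons (P.lf 0 259711 0) (P.lf 17306 0 0)))) (P.cons (P.cons (P.lf 0 35228302 0) (P.cons (P.lf 0 537286 0) (P.cons (P.lf 0 11660 0) P.nil))) (P.cons (P.cons (P.lf 0 5509484 0) (P.cons (P.lf 304794 0 0) P.nil)) (P.cons (P.cons (P.lf 663250 0 0) P.nil) P.nil)))))) 198416)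
 (EL.cons 5 (TM.mk (P.cons (P.cons (P.lf 1886507267 0 0) (P.cons (P.lf 0 214566514 0) (P.cons (P.lf 0 4658122 0) (P.lf 310540 0 0)))) (P.cons (P.cons (P.lf 0 294631115 0) (P.cons (P.lf 0 2809628 0) (P.cons (P.lf 0 61000 0) (P.lf 4074 0 0)))) (P.cons (P.cons (P.lf 0 22230756 0) (P.cons (P.lf 3665560 0 0) (P.cons (P.lf 79578 0 0) (P.lf 0 5306 0)))) (P.cons (P.cons (P.lf 19326610 0 0) (P.cons (P.lf 0 645034 0) (P.cons (P.lf 0 14000 0) P.nil))) (P.cons (P.cons (P.lf 0 1496617 0) (P.cons (P.lf 0 89544 0) P.nil)) (P.cons (P.cons (P.lf 0 452524 0) P.nil) P.nil)))))) 183798)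
 (EL.cons 9 (TM.mk (P.cons (P.cons (P.lf 2518513159 0 0) (P.cons (P.lf 0 253630932 0) (P.cons (P.lf 0 5506188 0) (P.lf 367074 0 0)))) (P.cons (P.cons (P.lf 101682309 0 0) (P.cons (P.lf 0 36663750 0) (P.cons (P.lf 0 795948 0) (P.lf 53058 0 0)))) (P.cons (P.cons (P.lf 0 145098892 0) (P.cons (P.lf 3492528 0 0) (P.cons (P.lf 75816 0 0) (P.lf 0 5052 0)))) (P.cons (P.cons (P.lf 238314 0 0) (P.cons (P.lf 742488 0 0) (P.cons (P.lf 16116 0 0) P.nil))) (P.cons (P.cons (P.lf 2042074 0 0) (P.cons (P.lf 0 12912 0) P.nil)) (P.cons (P.cons (P.lf 50311 0 0) P.nil) P.nil)))))) 35276)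
 (EL.cons 2 (TM.mk (P.cons (P.cons (P.lf 760760648 0 0) (P.cons (P.lf 38079964 0 0) (P.cons (P.lf 0 3588792 0) (P.cons (P.lf 0 43838 0) (P.lf 2190 0 0))))) (P.cons (P.cons (P.lf 0 162604940 0) (P.cons (P.lf 0 8139209 0) (P.cons (P.lf 767067 0 0) (P.cons (P.lf 9368 0 0) (P.lf 0 466 0))))) (P.cons (P.cons (P.lf 0 39909158 0) (P.cons (P.lf 0 1997656 0) (P.cons (P.lf 188265 0 0) (P.cons (P.lf 2297 0 0) P.nil)))) (P.cons (P.cons (P.lf 1584551 0 0) (P.cons (P.lf 79315 0 0) (P.cons (P.lf 0 7472 0) P.nil))) (P.cons (P.cons (P.lf 575519 0 0) (P.cons (P.lf 28805 0 0) P.nil)) (P.cons (P.cons (P.lf 1842 0 0) P.nil) P.nil)))))) 12159)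
 (EL.cons 6 (TM.mk (P.cons (P.cons (P.lf 1150808745 0 0) (P.cons (P.lf 57603870 0 0) (P.cons (P.lf 0 5428794 0) (P.cons (P.lf 0 66315 0) (P.lf 3315 0 0))))) (P.cons (P.cons (P.lf 166355751 0 0) (P.cons (P.lf 8326956 0 0) (P.cons (P.lf 0 784761 0) (P.cons (P.lf 0 9585 0) (P.lf 477 0 0))))) (P.cons (P.cons (P.lf 0 15846789 0) (P.cons (P.lf 0 793212 0) (P.cons (P.lf 74754 0 0) (P.cons (P.lf 912 0 0) P.nil)))) (P.cons (P.cons (P.lf 0 3368943 0) (P.cons (P.lf 0 168630 0) (P.cons (P.lf 15891 0 0) P.nil))) (P.cons (P.cons (P.lf 58611 0 0) (P.cons (P.lf 2931 0 0) P.nil)) (P.cons (P.cons (P.lf 34080 0 0) P.nil) P.nil)))))) 7236)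
 EL.nil))))))
noncomputable def S198_227_401_438_2 : EL := (EL.cons 0 (TM.mk (P.cons (P.cons (P.lf 960072590 0 0) (P.cons (P.lf 0 139315035 0) (P.cons (P.lf 1268609 0 0) (P.cons (P.lf 388033 0 0) (P.cons (P.lf 0 10402 0) (P.cons (P.lf 0 273 0) P.nil)))))) (P.cons (P.cons (P.lf 815899413 0 0) (P.cons (P.lf 0 154395631 0) (P.cons (P.lf 3354958 0 0) (P.cons (P.lf 514647 0 0) (P.cons (P.lf 0 16241 0) P.nil))))) (P.cons (P.cons (P.lf 0 263282238 0) (P.cons (P.lf 13356839 0 0) (P.cons (P.lf 1189290 0 0) (P.cons (P.lf 19709 0 0) P.nil)))) (P.cons (P.cons (P.lf 0 90467438 0) (P.cons (P.lf 14503516 0 0) (P.cons (P.lf 0 29424 0) P.nil))) (P.cons (P.cons (P.lf 20081931 0 0) (P.cons (P.lf 0 18880 0) P.nil)) (P.cons (P.cons (P.lf 3949474 0 0) P.nil) P.nil)))))) 1981613)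
 (EL.cons 1 (TM.mk (P.cons (P.cons (P.lf 0 320661783 0) (P.cons (P.lf 99118366 0 0) (P.cons (P.lf 0 4577974 0) (P.cons (P.lf 0 435648 0) (P.cons (P.lf 16305 0 0) (P.cons (P.lf 421 0 0) P.nil)))))) (P.cons (P.cons (P.lf 380673219 0 0) (P.cons (P.lf 0 33800672 0) (P.cons (P.lf 0 1552861 0) (P.cons (P.lf 13355 0 0) (P.cons (P.lf 1975 0 0) P.nil))))) (P.cons (P.cons (P.lf 133966045 0 0) (P.cons (P.lf 0 27871627 0) (P.cons (P.lf 290777 0 0) (P.cons (P.lf 79219 0 0) P.nil)))) (P.cons (P.cons (P.lf 0 43213961 0) (P.cons (P.lf 867980 0 0) (P.cons (P.lf 188046 0 0) P.nil))) (P.cons (P.cons (P.lf 0 10679525 0) (P.cons (P.lf 1675923 0 0) P.nil)) (P.cons (P.cons (P.lf 2044017 0 0) P.nil) P.nil)))))) 957702)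
 (EL.cons 5 (TM.mk (P.cons (P.cons (P.lf 774463035 0 0) (P.cons (P.lf 0 175207110 0) (P.cons (P.lf 5986390 0 0) (P.cons (P.lf 678644 0 0) (P.cons (P.lf 0 23707 0) (P.cons (P.lf 0 603 0) P.nil)))))) (P.cons (P.cons (P.lf 0 199997279 0) (P.cons (P.lf 13334924 0 0) (P.cons (P.lf 1176576 0 0) (P.cons (P.lf 19223 0 0) (P.cons (P.lf 0 2156 0) P.nil))))) (P.cons (P.cons (P.lf 0 33141248 0) (P.cons (P.lf 9981969 0 0) (P.cons (P.lf 0 178237 0) (P.cons (P.lf 0 31586 0) P.nil)))) (P.cons (P.cons (P.lf 27186420 0 0) (P.cons (P.lf 0 2523488 0) (P.cons (P.lf 0 43677 0) P.nil))) (P.cons (P.cons (P.lf 0 1618542 0) (P.cons (P.lf 0 341754 0) P.nil)) (P.cons (P.cons (P.lf 0 1298770 0) P.nil) P.nil)))))) 931651)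
 (EL.cons 9 (TM.mk (P.cons (P.cons (P.lf 984548983 0 0) (P.cons (P.lf 0 198301188 0) (P.cons (P.lf 5680110 0 0) (P.cons (P.lf 720538 0 0) (P.cons (P.lf 0 24195 0) (P.cons (P.lf 0 627 0) P.nil)))))) (P.cons (P.cons (P.lf 79500250 0 0) (P.cons (P.lf 0 36671731 0) (P.cons (P.lf 2090686 0 0) (P.cons (P.lf 178411 0 0) (P.cons (P.lf 0 6994 0) P.nil))))) (P.cons (P.cons (P.lf 0 111840610 0) (P.cons (P.lf 12997999 0 0) (P.cons (P.lf 215835 0 0) (P.cons (P.lf 0 21688 0) P.nil)))) (P.cons (P.cons (P.lf 0 4393915 0) (P.cons (P.lf 2323500 0 0) (P.cons (P.lf 0 47773 0) P.nil))) (P.cons (P.cons (P.lf 4872079 0 0) (P.cons (P.lf 0 307476 0) P.nil)) (P.cons (P.cons (P.lf 93061 0 0) P.nil) P.nil)))))) 226903)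
 (EL.cons 2 (TM.mk (P.cons (P.cons (P.lf 594800240 0 0) (P.cons (P.lf 0 30127516 0) (P.cons (P.lf 0 7104611 0) (P.cons (P.lf 269893 0 0) (P.cons (P.lf 15637 0 0) (P.cons (P.lf 0 506 0) P.nil)))))) (P.cons (P.cons (P.lf 0 103118141 0) (P.cons (P.lf 0 1017421 0) (P.cons (P.lf 783849 0 0) (P.cons (P.lf 0 15097 0) (P.cons (P.lf 0 1260 0) P.nil))))) (P.cons (P.cons (P.lf 0 70603970 0) (P.cons (P.lf 2283840 0 0) (P.cons (P.lf 750583 0 0) (P.cons (P.lf 0 25470 0) P.nil)))) (P.cons (P.cons (P.lf 7359851 0 0) (P.cons (P.lf 696931 0 0) (P.cons (P.lf 0 11137 0) P.nil))) (P.cons (P.cons (P.lf 2767927 0 0) (P.cons (P.lf 0 8600 0) P.nil)) (P.cons (P.cons (P.lf 0 145918 0) P.nil) P.nil)))))) 163270)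
 (EL.cons 6 (TM.mk (P.cons (P.cons (P.lf 899759106 0 0) (P.cons (P.lf 0 45574140 0) (P.cons (P.lf 0 10747206 0) (P.cons (P.lf 408270 0 0) (P.cons (P.lf 23652 0 0) (P.cons (P.lf 0 762 0) P.nil)))))) (P.cons (P.cons (P.lf 166391964 0 0) (P.cons (P.lf 0 17868066 0) (P.cons (P.lf 0 2664936 0) (P.cons (P.lf 123432 0 0) (P.cons (P.lf 6564 0 0) P.nil))))) (P.cons (P.cons (P.lf 0 58976304 0) (P.cons (P.lf 0 2350044 0) (P.cons (P.lf 321408 0 0) (P.cons (P.lf 342 0 0) P.nil)))) (P.cons (P.cons (P.lf 0 10542522 0) (P.cons (P.lf 363546 0 0) (P.cons (P.lf 113688 0 0) P.nil))) (P.cons (P.cons (P.lf 1395144 0 0) (P.cons (P.lf 120108 0 0) P.nil)) (P.cons (P.cons (P.lf 302508 0 0) P.nil) P.nil)))))) 112086)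
 EL.nil))))))
noncomputable def S198_227_401_438_3 : EL := (EL.cons 0 (TM.mk (P.cons (P.lf 812258952 0 0) (P.cons (P.lf 0 503779721 0) (P.cons (P.lf 60126632 0 0) (P.cons (P.lf 7110123 0 0) (P.cons (P.lf 0 270363 0) (P.cons (P.lf 0 53070 0) P.nil)))))) 3984)
 (EL.cons 1 (TM.mk (P.cons (P.lf 1228710643 0 0) (P.cons (P.lf 0 321830180 0) (P.cons (P.lf 0 40457490 0) (P.cons (P.lf 2710608 0 0) (P.cons (P.lf 384633 0 0) (P.cons (P.lf 0 7027 0) P.nil)))))) 2881)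
 (EL.cons 5 (TM.mk (P.cons (P.lf 1858680464 0 0) (P.cons (P.lf 179121676 0 0) (P.cons (P.lf 0 21378358 0) (P.cons (P.lf 0 2528040 0) (P.cons (P.lf 96128 0 0) (P.cons (P.lf 18870 0 0) P.nil)))))) 1690)
 EL.nil)))
noncomputable def S198_227_401_438_4 : EL := (EL.cons 0 (TM.mk (P.cons (P.cons (P.lf 317532081 0 0) (P.cons (P.lf 0 31977580 0) (P.cons (P.lf 0 694214 0) (P.lf 46279 0 0)))) (P.cons (P.cons (P.lf 0 184119909 0) (P.cons (P.lf 15210616 0 0) (P.cons (P.lf 330213 0 0) (P.lf 0 22013 0)))) (P.cons (P.cons (P.lf 0 2740204 0) (P.cons (P.lf 940218 0 0) (P.cons (P.lf 20409 0 0) (P.lf 0 1358 0)))) (P.cons (P.cons (P.lf 15104840 0 0) (P.cons (P.lf 0 801587 0) (P.cons (P.lf 0 17400 0) P.nil))) (P.cons (P.cons (P.lf 0 1108833 0) (P.cons (P.lf 0 56910 0) P.nil)) (P.cons (P.cons (P.lf 0 336266 0) P.nil) P.nil)))))) 65530)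
 (EL.cons 1 (TM.mk (P.cons (P.cons (P.lf 480333330 0 0) (P.cons (P.lf 0 48372742 0) (P.cons (P.lf 0 1050144 0) (P.lf 70006 0 0)))) (P.cons (P.cons (P.lf 0 106418413 0) (P.cons (P.lf 5677488 0 0) (P.cons (P.lf 123253 0 0) (P.lf 0 8216 0)))) (P.cons (P.cons (P.lf 0 48568736 0) (P.cons (P.lf 4090380 0 0) (P.cons (P.lf 88796 0 0) (P.lf 0 5917 0)))) (P.cons (P.cons (P.lf 7714906 0 0) (P.cons (P.lf 90669 0 0) (P.cons (P.lf 1966 0 0) P.nil))) (P.cons (P.cons (P.lf 1481900 0 0) (P.cons (P.lf 0 92053 0) P.nil)) (P.cons (P.cons (P.lf 0 151636 0) P.nil) P.nil)))))) 49564)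
 (EL.cons 5 (TM.mk (P.cons (P.cons (P.lf 726604088 0 0) (P.cons (P.lf 0 73173836 0) (P.cons (P.lf 0 1588562 0) (P.lf 105902 0 0)))) (P.cons (P.cons (P.lf 99358958 0 0) (P.cons (P.lf 0 17629468 0) (P.cons (P.lf 0 382724 0) (P.lf 25512 0 0)))) (P.cons (P.cons (P.lf 0 47392000 0) (P.cons (P.lf 829874 0 0) (P.cons (P.lf 18012 0 0) (P.lf 0 1198 0)))) (P.cons (P.cons (P.lf 0 5291170 0) (P.cons (P.lf 532504 0 0) (P.cons (P.lf 11558 0 0) P.nil))) (P.cons (P.cons (P.lf 1074942 0 0) (P.cons (P.lf 15930 0 0) P.nil)) (P.cons (P.cons (P.lf 136332 0 0) P.nil) P.nil)))))) 37618)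
 EL.nil)))
noncomputable def S198_227_401_438_5 : EL := (EL.cons 0 (TM.mk (P.cons (P.cons (P.lf 124131130 0 0) (P.cons (P.lf 0 25001650 0) (P.cons (P.lf 716143 0 0) (P.cons (P.lf 90843 0 0) (P.cons (P.lf 0 3049 0) (P.cons (P.lf 0 77 0) P.nil)))))) (P.cons (P.cons (P.lf 0 66965356 0) (P.cons (P.lf 10882996 0 0) (P.cons (P.lf 0 180574 0) (P.cons (P.lf 0 33848 0) (P.cons (P.lf 1008 0 0) P.nil))))) (P.cons (P.cons (P.lf 0 11128765 0) (P.cons (P.lf 2655671 0 0) (P.cons (P.lf 0 83260 0) (P.cons (P.lf 0 9959 0) P.nil)))) (P.cons (P.cons (P.lf 10020157 0 0) (P.cons (P.lf 0 1284563 0) (P.cons (P.lf 2879 0 0) P.nil))) (P.cons (P.cons (P.lf 0 39513 0) (P.cons (P.lf 0 131298 0) P.nil)) (P.cons (P.cons (P.lf 0 545132 0) P.nil) P.nil)))))) 205222)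
 (EL.cons 1 (TM.mk (P.cons (P.cons (P.lf 187774158 0 0) (P.cons (P.lf 0 37820199 0) (P.cons (P.lf 1083315 0 0) (P.cons (P.lf 137420 0 0) (P.cons (P.lf 0 4612 0) (P.cons (P.lf 0 118 0) P.nil)))))) (P.cons (P.cons (P.lf 0 34020401 0) (P.cons (P.lf 2911989 0 0) (P.cons (P.lf 114988 0 0) (P.cons (P.lf 0 1965 0) (P.cons (P.lf 0 123 0) P.nil))))) (P.cons (P.cons (P.lf 0 31484555 0) (P.cons (P.lf 5556210 0 0) (P.cons (P.lf 0 98943 0) (P.cons (P.lf 0 17572 0) P.nil)))) (P.cons (P.cons (P.lf 4663935 0 0) (P.cons (P.lf 0 59310 0) (P.cons (P.lf 0 30631 0) P.nil))) (P.cons (P.cons (P.lf 1943272 0 0) (P.cons (P.lf 0 283605 0) P.nil)) (P.cons (P.cons (P.lf 0 241423 0) P.nil) P.nil)))))) 165526)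
 (EL.cons 5 (TM.mk (P.cons (P.cons (P.lf 284047480 0 0) (P.cons (P.lf 0 57210918 0) (P.cons (P.lf 1638740 0 0) (P.cons (P.lf 207878 0 0) (P.cons (P.lf 0 6980 0) (P.cons (P.lf 0 180 0) P.nil)))))) (P.cons (P.cons (P.lf 50309986 0 0) (P.cons (P.lf 0 16093420 0) (P.cons (P.lf 761098 0 0) (P.cons (P.lf 71504 0 0) (P.cons (P.lf 0 2690 0) P.nil))))) (P.cons (P.cons (P.lf 0 33323306 0) (P.cons (P.lf 3388426 0 0) (P.cons (P.lf 101548 0 0) (P.cons (P.lf 0 3686 0) P.nil)))) (P.cons (P.cons (P.lf 0 5027360 0) (P.cons (P.lf 1231232 0 0) (P.cons (P.lf 0 16948 0) P.nil))) (P.cons (P.cons (P.lf 1638074 0 0) (P.cons (P.lf 0 55806 0) P.nil)) (P.cons (P.cons (P.lf 224844 0 0) P.nil) P.nil)))))) 136836)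
 EL.nil)))
noncomputable def S198_227_401_438_6 : EL := (EL.cons 12 (TM.mk (P.lf 8589934592 0 0) 0)
 (EL.cons 3 (TM.mk (P.cons (P.lf 0 1320724353 0) (P.cons (P.lf 409570215 0 0) (P.cons (P.lf 14623338 0 0) (P.cons (P.lf 0 1245645 0) (P.cons (P.lf 0 85526 0) (P.cons (P.lf 2831 0 0) P.nil)))))) 532)
 (EL.cons 7 (TM.mk (P.cons (P.lf 0 1997870342 0) (P.cons (P.lf 0 96267727 0) (P.cons (P.lf 13808992 0 0) (P.cons (P.lf 693290 0 0) (P.cons (P.lf 0 37347 0) (P.cons (P.lf 0 3551 0) P.nil)))))) 296)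
 EL.nil)))
noncomputable def S198_227_401_438_7 : EL := (EL.cons 12 (TM.mk (P.cons (P.cons (P.lf 3358017546 0 0) (P.cons (P.lf 0 338174576 0) (P.cons (P.lf 0 7341584 0) (P.lf 489432 0 0)))) (P.cons (P.cons (P.lf 135576412 0 0) (P.cons (P.lf 0 48885000 0) (P.cons (P.lf 0 1061264 0) (P.lf 70744 0 0)))) (P.cons (P.cons (P.lf 0 193465190 0) (P.cons (P.lf 4656704 0 0) (P.cons (P.lf 101088 0 0) (P.lf 0 6736 0)))) (P.cons (P.cons (P.lf 317752 0 0) (P.cons (P.lf 989984 0 0) (P.cons (P.lf 21488 0 0) P.nil))) (P.cons (P.cons (P.lf 2722766 0 0) (P.cons (P.lf 0 17216 0) P.nil)) (P.cons (P.cons (P.lf 67082 0 0) P.nil) P.nil)))))) 47010)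
 (EL.cons 3 (TM.mk (P.cons (P.cons (P.lf 0 83697255 0) (P.cons (P.lf 0 103990406 0) (P.cons (P.lf 0 2257572 0) (P.lf 150502 0 0)))) (P.cons (P.cons (P.lf 0 1084579333 0) (P.cons (P.lf 17216106 0 0) (P.cons (P.lf 373750 0 0) (P.lf 0 24916 0)))) (P.cons (P.cons (P.lf 12349197 0 0) (P.cons (P.lf 7245060 0 0) (P.cons (P.lf 157282 0 0) (P.lf 0 10482 0)))) (P.cons (P.cons (P.lf 30435138 0 0) (P.cons (P.lf 0 71276 0) (P.cons (P.lf 0 1546 0) P.nil))) (P.cons (P.cons (P.lf 1139273 0 0) (P.cons (P.lf 0 136466 0) P.nil)) (P.cons (P.cons (P.lf 0 380632 0) P.nil) P.nil)))))) 112178)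
 (EL.cons 7 (TM.mk (P.cons (P.cons (P.lf 0 882699168 0) (P.cons (P.lf 115317315 0 0) (P.cons (P.lf 2503479 0 0) (P.lf 0 166900 0)))) (P.cons (P.cons (P.lf 254925734 0 0) (P.cons (P.lf 0 4046571 0) (P.cons (P.lf 0 87849 0) (P.lf 5854 0 0)))) (P.cons (P.cons (P.lf 0 48571990 0) (P.cons (P.lf 0 977991 0) (P.cons (P.lf 0 21235 0) (P.lf 1416 0 0)))) (P.cons (P.cons (P.lf 0 5346787 0) (P.cons (P.lf 405839 0 0) (P.cons (P.lf 8809 0 0) P.nil))) (P.cons (P.cons (P.lf 1519687 0 0) (P.cons (P.lf 18255 0 0) P.nil)) (P.cons (P.cons (P.lf 117178 0 0) P.nil) P.nil)))))) 94403)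
 (EL.cons 10 (TM.mk (P.cons (P.cons (P.lf 0 2473977327 0) (P.cons (P.lf 0 123835236 0) (P.cons (P.lf 11670678 0 0) (P.cons (P.lf 142566 0 0) (P.lf 0 7128 0))))) (P.cons (P.cons (P.lf 0 238418046 0) (P.cons (P.lf 0 11934042 0) (P.cons (P.lf 1124706 0 0) (P.cons (P.lf 13737 0 0) (P.lf 0 684 0))))) (P.cons (P.cons (P.lf 28455441 0 0) (P.cons (P.lf 1424340 0 0) (P.cons (P.lf 0 134235 0) (P.cons (P.lf 0 1638 0) P.nil)))) (P.cons (P.cons (P.lf 3364920 0 0) (P.cons (P.lf 168429 0 0) (P.cons (P.lf 0 15873 0) P.nil))) (P.cons (P.cons (P.lf 0 127950 0) (P.cons (P.lf 0 6402 0) P.nil)) (P.cons (P.cons (P.lf 0 25116 0) P.nil) P.nil)))))) 4755)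
 EL.nil))))
noncomputable def S198_227_401_438_8 : EL := (EL.cons 12 (TM.mk (P.cons (P.cons (P.lf 1312731978 0 0) (P.cons (P.lf 0 264401584 0) (P.cons (P.lf 7573480 0 0) (P.cons (P.lf 960718 0 0) (P.cons (P.lf 0 32260 0) (P.cons (P.lf 0 836 0) P.nil)))))) (P.cons (P.cons (P.lf 106000334 0 0) (P.cons (P.lf 0 48895642 0) (P.cons (P.lf 2787582 0 0) (P.cons (P.lf 237882 0 0) (P.cons (P.lf 0 9326 0) P.nil))))) (P.cons (P.cons (P.lf 0 149120814 0) (P.cons (P.lf 17330666 0 0) (P.cons (P.lf 287780 0 0) (P.cons (P.lf 0 28918 0) P.nil)))) (P.cons (P.cons (P.lf 0 5858554 0) (P.cons (P.lf 3098000 0 0) (P.cons (P.lf 0 63698 0) P.nil))) (P.cons (P.cons (P.lf 6496106 0 0) (P.cons (P.lf 0 409968 0) P.nil)) (P.cons (P.cons (P.lf 124082 0 0) P.nil) P.nil)))))) 302508)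
 (EL.cons 3 (TM.mk (P.cons (P.cons (P.lf 136397239 0 0) (P.cons (P.lf 0 115367149 0) (P.cons (P.lf 7730361 0 0) (P.cons (P.lf 611354 0 0) (P.cons (P.lf 0 24801 0) (P.cons (P.lf 0 640 0) P.nil)))))) (P.cons (P.cons (P.lf 0 896913264 0) (P.cons (P.lf 101616304 0 0) (P.cons (P.lf 1991103 0 0) (P.cons (P.lf 0 156399 0) (P.cons (P.lf 520 0 0) P.nil))))) (P.cons (P.cons (P.lf 0 51027477 0) (P.cons (P.lf 27619814 0 0) (P.cons (P.lf 0 499342 0) (P.cons (P.lf 0 87679 0) P.nil)))) (P.cons (P.cons (P.lf 79253046 0 0) (P.cons (P.lf 0 4647479 0) (P.cons (P.lf 0 203580 0) P.nil))) (P.cons (P.cons (P.lf 2722332 0 0) (P.cons (P.lf 0 1422299 0) P.nil)) (P.cons (P.cons (P.lf 0 2622211 0) P.nil) P.nil)))))) 706823)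
 (EL.cons 7 (TM.mk (P.cons (P.cons (P.lf 0 384819024 0) (P.cons (P.lf 98166969 0 0) (P.cons (P.lf 0 3852142 0) (P.cons (P.lf 0 401862 0) (P.cons (P.lf 14493 0 0) (P.cons (P.lf 374 0 0) P.nil)))))) (P.cons (P.cons (P.lf 210815627 0 0) (P.cons (P.lf 0 23884476 0) (P.cons (P.lf 0 468001 0) (P.cons (P.lf 36758 0 0) (P.cons (P.lf 0 122 0) P.nil))))) (P.cons (P.cons (P.lf 0 25773345 0) (P.cons (P.lf 0 2213076 0) (P.cons (P.lf 201204 0 0) (P.cons (P.lf 14022 0 0) P.nil)))) (P.cons (P.cons (P.lf 0 20572114 0) (P.cons (P.lf 2538718 0 0) (P.cons (P.lf 17768 0 0) P.nil))) (P.cons (P.cons (P.lf 4348674 0 0) (P.cons (P.lf 9081 0 0) P.nil)) (P.cons (P.cons (P.lf 648772 0 0) P.nil) P.nil)))))) 555596)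
 (EL.cons 10 (TM.mk (P.cons (P.cons (P.lf 0 1934277654 0) (P.cons (P.lf 97974048 0 0) (P.cons (P.lf 23104056 0 0) (P.cons (P.lf 0 877698 0) (P.cons (P.lf 0 50856 0) (P.cons (P.lf 1644 0 0) P.nil)))))) (P.cons (P.cons (P.lf 0 264501420 0) (P.cons (P.lf 33691392 0 0) (P.cons (P.lf 4615734 0 0) (P.cons (P.lf 0 223068 0) (P.cons (P.lf 0 11670 0) P.nil))))) (P.cons (P.cons (P.lf 126161262 0 0) (P.cons (P.lf 4105818 0 0) (P.cons (P.lf 0 753684 0) (P.cons (P.lf 3942 0 0) P.nil)))) (P.cons (P.cons (P.lf 14085510 0 0) (P.cons (P.lf 0 712518 0) (P.cons (P.lf 0 168174 0) P.nil))) (P.cons (P.cons (P.lf 0 2861580 0) (P.cons (P.lf 0 185646 0) P.nil)) (P.cons (P.cons (P.lf 0 362922 0) P.nil) P.nil)))))) 144972)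
 EL.nil))))
noncomputable def S198_227_401_438_9 : EL := (EL.cons 3 (TM.mk (P.cons (P.lf 0 1320724353 0) (P.cons (P.lf 409570215 0 0) (P.cons (P.lf 14623338 0 0) (P.cons (P.lf 0 1245645 0) (P.cons (P.lf 0 85526 0) (P.cons (P.lf 2831 0 0) P.nil)))))) 532)
 (EL.cons 7 (TM.mk (P.cons (P.lf 0 1997870342 0) (P.cons (P.lf 0 96267727 0) (P.cons (P.lf 13808992 0 0) (P.cons (P.lf 693290 0 0) (P.cons (P.lf 0 37347 0) (P.cons (P.lf 0 3551 0) P.nil)))))) 296)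
 EL.nil))
noncomputable def S198_227_401_438_10 : EL := (EL.cons 3 (TM.mk (P.cons (P.cons (P.lf 0 516303762 0) (P.cons (P.lf 51995203 0 0) (P.cons (P.lf 1128786 0 0) (P.lf 0 75251 0)))) (P.cons (P.cons (P.lf 139265891 0 0) (P.cons (P.lf 0 8608053 0) (P.cons (P.lf 0 186875 0) (P.lf 12458 0 0)))) (P.cons (P.cons (P.lf 41926707 0 0) (P.cons (P.lf 0 3622530 0) (P.cons (P.lf 0 78641 0) (P.lf 5241 0 0)))) (P.cons (P.cons (P.lf 0 9529473 0) (P.cons (P.lf 35638 0 0) (P.cons (P.lf 773 0 0) P.nil))) (P.cons (P.cons (P.lf 0 785926 0) (P.cons (P.lf 68233 0 0) P.nil)) (P.cons (P.cons (P.lf 147860 0 0) P.nil) P.nil)))))) 26371)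
 (EL.cons 7 (TM.mk (P.cons (P.cons (P.lf 0 781016850 0) (P.cons (P.lf 78653562 0 0) (P.cons (P.lf 1707525 0 0) (P.lf 0 113833 0)))) (P.cons (P.cons (P.lf 0 69166162 0) (P.cons (P.lf 15159741 0 0) (P.cons (P.lf 329109 0 0) (P.lf 0 21938 0)))) (P.cons (P.cons (P.lf 48875525 0 0) (P.cons (P.lf 0 1078854 0) (P.cons (P.lf 0 23419 0) (P.lf 1560 0 0)))) (P.cons (P.cons (P.lf 2583242 0 0) (P.cons (P.lf 0 388321 0) (P.cons (P.lf 0 8429 0) P.nil))) (P.cons (P.cons (P.lf 0 951497 0) (P.cons (P.lf 0 2079 0) P.nil)) (P.cons (P.cons (P.lf 0 63197 0) P.nil) P.nil)))))) 21670)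
 EL.nil))
noncomputable def S198_227_401_438_11 : EL := (EL.cons 3 (TM.mk (P.cons (P.cons (P.lf 0 201835889 0) (P.cons (P.lf 40652417 0 0) (P.cons (P.lf 0 1164441 0) (P.cons (P.lf 0 147712 0) (P.cons (P.lf 4959 0 0) (P.cons (P.lf 128 0 0) P.nil)))))) (P.cons (P.cons (P.lf 46293564 0 0) (P.cons (P.lf 0 5088902 0) (P.cons (P.lf 0 67491 0) (P.cons (P.lf 9231 0 0) (P.cons (P.lf 0 104 0) P.nil))))) (P.cons (P.cons (P.lf 30216597 0 0) (P.cons (P.lf 0 5446102 0) (P.cons (P.lf 101558 0 0) (P.cons (P.lf 17423 0 0) P.nil)))) (P.cons (P.cons (P.lf 0 6219258 0) (P.cons (P.lf 305107 0 0) (P.cons (P.lf 27162 0 0) P.nil))) (P.cons (P.cons (P.lf 0 1560432 0) (P.cons (P.lf 249973 0 0) P.nil)) (P.cons (P.cons (P.lf 301685 0 0) P.nil) P.nil)))))) 118483)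
 (EL.cons 7 (TM.mk (P.cons (P.cons (P.lf 0 305318772 0) (P.cons (P.lf 61495239 0 0) (P.cons (P.lf 0 1761460 0) (P.cons (P.lf 0 223446 0) (P.cons (P.lf 7503 0 0) (P.cons (P.lf 194 0 0) P.nil)))))) (P.cons (P.cons (P.lf 0 39365683 0) (P.cons (P.lf 14335440 0 0) (P.cons (P.lf 0 733219 0) (P.cons (P.lf 0 66094 0) (P.cons (P.lf 2530 0 0) P.nil))))) (P.cons (P.cons (P.lf 35605293 0 0) (P.cons (P.lf 0 3907884 0) (P.cons (P.lf 0 85998 0) (P.cons (P.lf 5604 0 0) P.nil)))) (P.cons (P.cons (P.lf 3310154 0 0) (P.cons (P.lf 0 1014710 0) (P.cons (P.lf 16682 0 0) P.nil))) (P.cons (P.cons (P.lf 0 1682100 0) (P.cons (P.lf 85695 0 0) P.nil)) (P.cons (P.cons (P.lf 0 124118 0) P.nil) P.nil)))))) 103186)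
 EL.nil))
noncomputable def S198_227_401_438_12 : EL := (EL.cons 4 (TM.mk (P.cons (P.lf 1320724353 0 0) (P.cons (P.lf 0 409570215 0) (P.cons (P.lf 0 14623338 0) (P.cons (P.lf 1245645 0 0) (P.cons (P.lf 85526 0 0) (P.cons (P.lf 0 2831 0) P.nil)))))) 532)
 (EL.cons 8 (TM.mk (P.cons (P.lf 1997870342 0 0) (P.cons (P.lf 96267727 0 0) (P.cons (P.lf 0 13808992 0) (P.cons (P.lf 0 693290 0) (P.cons (P.lf 37347 0 0) (P.cons (P.lf 3551 0 0) P.nil)))))) 296)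
 EL.nil))
noncomputable def S198_227_401_438_13 : EL := (EL.cons 4 (TM.mk (P.cons (P.cons (P.lf 516303762 0 0) (P.cons (P.lf 0 51995203 0) (P.cons (P.lf 0 1128786 0) (P.lf 75251 0 0)))) (P.cons (P.cons (P.lf 0 139265891 0) (P.cons (P.lf 8608053 0 0) (P.cons (P.lf 186875 0 0) (P.lf 0 12458 0)))) (P.cons (P.cons (P.lf 0 41926707 0) (P.cons (P.lf 3622530 0 0) (P.cons (P.lf 78641 0 0) (P.lf 0 5241 0)))) (P.cons (P.cons (P.lf 9529473 0 0) (P.cons (P.lf 0 35638 0) (P.cons (P.lf 0 773 0) P.nil))) (P.cons (P.cons (P.lf 785926 0 0) (P.cons (P.lf 0 68233 0) P.nil)) (P.cons (P.cons (P.lf 0 147860 0) P.nil) P.nil)))))) 26371)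
 (EL.cons 8 (TM.mk (P.cons (P.cons (P.lf 781016850 0 0) (P.cons (P.lf 0 78653562 0) (P.cons (P.lf 0 1707525 0) (P.lf 113833 0 0)))) (P.cons (P.cons (P.lf 69166162 0 0) (P.cons (P.lf 0 15159741 0) (P.cons (P.lf 0 329109 0) (P.lf 21938 0 0)))) (P.cons (P.cons (P.lf 0 48875525 0) (P.cons (P.lf 1078854 0 0) (P.cons (P.lf 23419 0 0) (P.lf 0 1560 0)))) (P.cons (P.cons (P.lf 0 2583242 0) (P.cons (P.lf 388321 0 0) (P.cons (P.lf 8429 0 0) P.nil))) (P.cons (P.cons (P.lf 951497 0 0) (P.cons (P.lf 2079 0 0) P.nil)) (P.cons (P.cons (P.lf 63197 0 0) P.nil) P.nil)))))) 21670)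
 EL.nil))
noncomputable def S198_227_401_438_14 : EL := (EL.cons 4 (TM.mk (P.cons (P.cons (P.lf 201835889 0 0) (P.cons (P.lf 0 40652417 0) (P.cons (P.lf 1164441 0 0) (P.cons (P.lf 147712 0 0) (P.cons (P.lf 0 4959 0) (P.cons (P.lf 0 128 0) P.nil)))))) (P.cons (P.cons (P.lf 0 46293564 0) (P.cons (P.lf 5088902 0 0) (P.cons (P.lf 67491 0 0) (P.cons (P.lf 0 9231 0) (P.cons (P.lf 104 0 0) P.nil))))) (P.cons (P.cons (P.lf 0 30216597 0) (P.cons (P.lf 5446102 0 0) (P.cons (P.lf 0 101558 0) (P.cons (P.lf 0 17423 0) P.nil)))) (P.cons (P.cons (P.lf 6219258 0 0) (P.cons (P.lf 0 305107 0) (P.cons (P.lf 0 27162 0) P.nil))) (P.cons (P.cons (P.lf 1560432 0 0) (P.cons (P.lf 0 249973 0) P.nil)) (P.cons (P.cons (P.lf 0 301685 0) P.nil) P.nil)))))) 118483)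
 (EL.cons 8 (TM.mk (P.cons (P.cons (P.lf 305318772 0 0) (P.cons (P.lf 0 61495239 0) (P.cons (P.lf 1761460 0 0) (P.cons (P.lf 223446 0 0) (P.cons (P.lf 0 7503 0) (P.cons (P.lf 0 194 0) P.nil)))))) (P.cons (P.cons (P.lf 39365683 0 0) (P.cons (P.lf 0 14335440 0) (P.cons (P.lf 733219 0 0) (P.cons (P.lf 66094 0 0) (P.cons (P.lf 0 2530 0) P.nil))))) (P.cons (P.cons (P.lf 0 35605293 0) (P.cons (P.lf 3907884 0 0) (P.cons (P.lf 85998 0 0) (P.cons (P.lf 0 5604 0) P.nil)))) (P.cons (P.cons (P.lf 0 3310154 0) (P.cons (P.lf 1014710 0 0) (P.cons (P.lf 0 16682 0) P.nil))) (P.cons (P.cons (P.lf 1682100 0 0) (P.cons (P.lf 0 85695 0) P.nil)) (P.cons (P.cons (P.lf 124118 0 0) P.nil) P.nil)))))) 103186)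
 EL.nil))
noncomputable def S198_227_401_438_15 : EL := (EL.cons 4 (TM.mk (P.cons (P.lf 0 433204774 0) (P.cons (P.lf 268682518 0 0) (P.cons (P.lf 0 32067537 0) (P.cons (P.lf 0 3792065 0) (P.cons (P.lf 144194 0 0) (P.cons (P.lf 28304 0 0) P.nil)))))) 2128)
 (EL.cons 8 (TM.mk (P.cons (P.lf 0 655312343 0) (P.cons (P.lf 171642763 0 0) (P.cons (P.lf 21577328 0 0) (P.cons (P.lf 0 1445658 0) (P.cons (P.lf 0 205138 0) (P.cons (P.lf 3748 0 0) P.nil)))))) 1533)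
 EL.nil))
noncomputable def S198_227_401_438_16 : EL := (EL.cons 4 (TM.mk (P.cons (P.cons (P.lf 0 169350443 0) (P.cons (P.lf 17054709 0 0) (P.cons (P.lf 370247 0 0) (P.lf 0 24682 0)))) (P.cons (P.cons (P.lf 98197285 0 0) (P.cons (P.lf 0 8112329 0) (P.cons (P.lf 0 176114 0) (P.lf 11740 0 0)))) (P.cons (P.cons (P.lf 1461442 0 0) (P.cons (P.lf 0 501450 0) (P.cons (P.lf 0 10885 0) (P.lf 724 0 0)))) (P.cons (P.cons (P.lf 0 8055915 0) (P.cons (P.lf 427513 0 0) (P.cons (P.lf 9280 0 0) P.nil))) (P.cons (P.cons (P.lf 591377 0 0) (P.cons (P.lf 30352 0 0) P.nil)) (P.cons (P.cons (P.lf 179341 0 0) P.nil) P.nil)))))) 34958)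
 (EL.cons 8 (TM.mk (P.cons (P.cons (P.lf 0 256177776 0) (P.cons (P.lf 25798796 0 0) (P.cons (P.lf 560077 0 0) (P.lf 0 37337 0)))) (P.cons (P.cons (P.lf 56756487 0 0) (P.cons (P.lf 0 3027994 0) (P.cons (P.lf 0 65735 0) (P.lf 4382 0 0)))) (P.cons (P.cons (P.lf 25903326 0 0) (P.cons (P.lf 0 2181536 0) (P.cons (P.lf 0 47358 0) (P.lf 3156 0 0)))) (P.cons (P.cons (P.lf 0 4114617 0) (P.cons (P.lf 0 48357 0) (P.cons (P.lf 0 1049 0) P.nil))) (P.cons (P.cons (P.lf 0 790347 0) (P.cons (P.lf 49095 0 0) P.nil)) (P.cons (P.cons (P.lf 80873 0 0) P.nil) P.nil)))))) 26424)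
 EL.nil))
noncomputable def S198_227_401_438_17 : EL := (EL.cons 4 (TM.mk (P.cons (P.cons (P.lf 0 66203269 0) (P.cons (P.lf 13334213 0 0) (P.cons (P.lf 0 381943 0) (P.cons (P.lf 0 48450 0) (P.cons (P.lf 1626 0 0) (P.cons (P.lf 41 0 0) P.nil)))))) (P.cons (P.cons (P.lf 35714856 0 0) (P.cons (P.lf 0 5804265 0) (P.cons (P.lf 96306 0 0) (P.cons (P.lf 18052 0 0) (P.cons (P.lf 0 538 0) P.nil))))) (P.cons (P.cons (P.lf 5935341 0 0) (P.cons (P.lf 0 1416358 0) (P.cons (P.lf 44405 0 0) (P.cons (P.lf 5311 0 0) P.nil)))) (P.cons (P.cons (P.lf 0 5344083 0) (P.cons (P.lf 685100 0 0) (P.cons (P.lf 0 1535 0) P.nil))) (P.cons (P.cons (P.lf 21074 0 0) (P.cons (P.lf 70025 0 0) P.nil)) (P.cons (P.cons (P.lf 290737 0 0) P.nil) P.nil)))))) 109462)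
 (EL.cons 8 (TM.mk (P.cons (P.cons (P.lf 0 100146218 0) (P.cons (P.lf 20170773 0 0) (P.cons (P.lf 0 577768 0) (P.cons (P.lf 0 73291 0) (P.cons (P.lf 2460 0 0) (P.cons (P.lf 63 0 0) P.nil)))))) (P.cons (P.cons (P.lf 18144214 0 0) (P.cons (P.lf 0 1553061 0) (P.cons (P.lf 0 61327 0) (P.cons (P.lf 1048 0 0) (P.cons (P.lf 66 0 0) P.nil))))) (P.cons (P.cons (P.lf 16791763 0 0) (P.cons (P.lf 0 2963312 0) (P.cons (P.lf 52770 0 0) (P.cons (P.lf 9372 0 0) P.nil)))) (P.cons (P.cons (P.lf 0 2487432 0) (P.cons (P.lf 31632 0 0) (P.cons (P.lf 16337 0 0) P.nil))) (P.cons (P.cons (P.lf 0 1036412 0) (P.cons (P.lf 151256 0 0) P.nil)) (P.cons (P.cons (P.lf 128759 0 0) P.nil) P.nil)))))) 88269)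
 EL.nil))
noncomputable def S198_227_401_438_18 : EL := (EL.cons 4 (TM.mk (P.cons (P.lf 142093522 0 0) (P.cons (P.lf 0 132193991 0) (P.cons (P.lf 36274848 0 0) (P.cons (P.lf 0 908220 0) (P.cons (P.lf 0 623396 0) (P.cons (P.lf 0 4479 0) P.nil)))))) 6741)
 (EL.cons 8 (TM.mk (P.cons (P.lf 214946014 0 0) (P.cons (P.lf 0 122956731 0) (P.cons (P.lf 8001726 0 0) (P.cons (P.lf 3495072 0 0) (P.cons (P.lf 0 40579 0) (P.cons (P.lf 0 38127 0) P.nil)))))) 3726)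
 EL.nil))
noncomputable def S198_227_401_438_19 : EL := (EL.cons 4 (TM.mk (P.cons (P.cons (P.lf 55547865 0 0) (P.cons (P.lf 0 5594037 0) (P.cons (P.lf 0 121442 0) (P.lf 8095 0 0)))) (P.cons (P.cons (P.lf 0 49435208 0) (P.cons (P.lf 4395656 0 0) (P.cons (P.lf 95427 0 0) (P.lf 0 6360 0)))) (P.cons (P.cons (P.lf 8894018 0 0) (P.cons (P.lf 0 598751 0) (P.cons (P.lf 0 12998 0) (P.lf 866 0 0)))) (P.cons (P.cons (P.lf 3200056 0 0) (P.cons (P.lf 0 225970 0) (P.cons (P.lf 0 4905 0) P.nil))) (P.cons (P.cons (P.lf 0 1034879 0) (P.cons (P.lf 33855 0 0) P.nil)) (P.cons (P.cons (P.lf 0 30585 0) P.nil) P.nil)))))) 43943)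
 (EL.cons 8 (TM.mk (P.cons (P.cons (P.lf 84027704 0 0) (P.cons (P.lf 0 8462145 0) (P.cons (P.lf 0 183708 0) (P.lf 12246 0 0)))) (P.cons (P.cons (P.lf 0 44674292 0) (P.cons (P.lf 3617396 0 0) (P.cons (P.lf 78531 0 0) (P.lf 0 5235 0)))) (P.cons (P.cons (P.lf 0 3653655 0) (P.cons (P.lf 501249 0 0) (P.cons (P.lf 10881 0 0) (P.lf 0 724 0)))) (P.cons (P.cons (P.lf 4269823 0 0) (P.cons (P.lf 0 225017 0) (P.cons (P.lf 0 4884 0) P.nil))) (P.cons (P.cons (P.lf 0 77333 0) (P.cons (P.lf 0 28556 0) P.nil)) (P.cons (P.cons (P.lf 0 131261 0) P.nil) P.nil)))))) 29946)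
 EL.nil))
noncomputable def S198_227_401_438_20 : EL := (EL.cons 4 (TM.mk (P.cons (P.cons (P.lf 21715032 0 0) (P.cons (P.lf 0 4373694 0) (P.cons (P.lf 125279 0 0) (P.cons (P.lf 15891 0 0) (P.cons (P.lf 0 533 0) (P.cons (P.lf 0 13 0) P.nil)))))) (P.cons (P.cons (P.lf 0 18448722 0) (P.cons (P.lf 3260158 0 0) (P.cons (P.lf 0 70439 0) (P.cons (P.lf 0 10849 0) (P.cons (P.lf 342 0 0) P.nil))))) (P.cons (P.cons (P.lf 1445580 0 0) (P.cons (P.lf 0 77397 0) (P.cons (P.lf 0 6155 0) (P.cons (P.lf 0 81 0) P.nil)))) (P.cons (P.cons (P.lf 2506806 0 0) (P.cons (P.lf 0 393990 0) (P.cons (P.lf 5488 0 0) P.nil))) (P.cons (P.cons (P.lf 0 538588 0) (P.cons (P.lf 43086 0 0) P.nil)) (P.cons (P.cons (P.lf 0 115269 0) P.nil) P.nil)))))) 89872)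
 (EL.cons 8 (TM.mk (P.cons (P.cons (P.lf 32848504 0 0) (P.cons (P.lf 0 6616122 0) (P.cons (P.lf 189511 0 0) (P.cons (P.lf 24039 0 0) (P.cons (P.lf 0 807 0) (P.cons (P.lf 0 20 0) P.nil)))))) (P.cons (P.cons (P.lf 0 16138060 0) (P.cons (P.lf 2561140 0 0) (P.cons (P.lf 0 38653 0) (P.cons (P.lf 0 7798 0) (P.cons (P.lf 228 0 0) P.nil))))) (P.cons (P.cons (P.lf 0 4025904 0) (P.cons (P.lf 887263 0 0) (P.cons (P.lf 0 25645 0) (P.cons (P.lf 0 3233 0) P.nil)))) (P.cons (P.cons (P.lf 2620789 0 0) (P.cons (P.lf 0 323677 0) (P.cons (P.lf 0 35 0) P.nil))) (P.cons (P.cons (P.lf 144430 0 0) (P.cons (P.lf 0 57105 0) P.nil)) (P.cons (P.cons (P.lf 0 162339 0) P.nil) P.nil)))))) 71685)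
 EL.nil))
noncomputable def S198_227_401_438_21 : EL := (EL.cons 4 (TM.mk (P.cons (P.cons (P.lf 0 432606507 0) (P.cons (P.lf 155985609 0 0) (P.cons (P.lf 3386358 0 0) (P.lf 0 225753 0)))) (P.cons (P.cons (P.lf 1223845224 0 0) (P.cons (P.lf 0 25824159 0) (P.cons (P.lf 0 560625 0) (P.lf 37374 0 0)))) (P.cons (P.cons (P.lf 29577510 0 0) (P.cons (P.lf 0 10867590 0) (P.cons (P.lf 0 235923 0) (P.lf 15723 0 0)))) (P.cons (P.cons (P.lf 0 39964611 0) (P.cons (P.lf 106914 0 0) (P.cons (P.lf 2319 0 0) P.nil))) (P.cons (P.cons (P.lf 0 1925199 0) (P.cons (P.lf 204699 0 0) P.nil)) (P.cons (P.cons (P.lf 528492 0 0) P.nil) P.nil)))))) 85788)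
 (EL.cons 8 (TM.mk (P.cons (P.cons (P.lf 101682318 0 0) (P.cons (P.lf 0 36663753 0) (P.cons (P.lf 0 795954 0) (P.lf 53067 0 0)))) (P.cons (P.cons (P.lf 0 324091896 0) (P.cons (P.lf 19206312 0 0) (P.cons (P.lf 416958 0 0) (P.lf 0 27792 0)))) (P.cons (P.cons (P.lf 97447515 0 0) (P.cons (P.lf 0 100863 0) (P.cons (P.lf 0 2184 0) (P.lf 144 0 0)))) (P.cons (P.cons (P.lf 7930029 0 0) (P.cons (P.lf 0 794160 0) (P.cons (P.lf 0 17238 0) P.nil))) (P.cons (P.cons (P.lf 0 2471184 0) (P.cons (P.lf 0 20334 0) P.nil)) (P.cons (P.cons (P.lf 0 180375 0) P.nil) P.nil)))))) 72714)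
 (EL.cons 11 (TM.mk (P.cons (P.cons (P.lf 2473977327 0 0) (P.cons (P.lf 123835236 0 0) (P.cons (P.lf 0 11670678 0) (P.cons (P.lf 0 142566 0) (P.lf 7128 0 0))))) (P.cons (P.cons (P.lf 238418046 0 0) (P.cons (P.lf 11934042 0 0) (P.cons (P.lf 0 1124706 0) (P.cons (P.lf 0 13737 0) (P.lf 684 0 0))))) (P.cons (P.cons (P.lf 0 28455441 0) (P.cons (P.lf 0 1424340 0) (P.cons (P.lf 134235 0 0) (P.cons (P.lf 1638 0 0) P.nil)))) (P.cons (P.cons (P.lf 0 3364920 0) (P.cons (P.lf 0 168429 0) (P.cons (P.lf 15873 0 0) P.nil))) (P.cons (P.cons (P.lf 127950 0 0) (P.cons (P.lf 6402 0 0) P.nil)) (P.cons (P.cons (P.lf 25116 0 0) P.nil) P.nil)))))) 4755)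
 EL.nil)))
noncomputable def S198_227_401_438_22 : EL := (EL.cons 4 (TM.mk (P.cons (P.cons (P.lf 0 169116564 0) (P.cons (P.lf 78009783 0 0) (P.cons (P.lf 0 4447401 0) (P.cons (P.lf 0 379533 0) (P.cons (P.lf 14880 0 0) (P.cons (P.lf 384 0 0) P.nil)))))) (P.cons (P.cons (P.lf 471603414 0 0) (P.cons (P.lf 0 53352603 0) (P.cons (P.lf 0 1029297 0) (P.cons (P.lf 82815 0 0) (P.cons (P.lf 0 312 0) P.nil))))) (P.cons (P.cons (P.lf 40622037 0 0) (P.cons (P.lf 0 16532958 0) (P.cons (P.lf 300450 0 0) (P.cons (P.lf 52551 0 0) P.nil)))) (P.cons (P.cons (P.lf 0 42736152 0) (P.cons (P.lf 2476293 0 0) (P.cons (P.lf 115371 0 0) P.nil))) (P.cons (P.cons (P.lf 0 2141382 0) (P.cons (P.lf 836136 0 0) P.nil)) (P.cons (P.cons (P.lf 1461948 0 0) P.nil) P.nil)))))) 294159)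
 (EL.cons 8 (TM.mk (P.cons (P.cons (P.lf 39750126 0 0) (P.cons (P.lf 0 18335865 0) (P.cons (P.lf 1045341 0 0) (P.cons (P.lf 89208 0 0) (P.cons (P.lf 0 3495 0) (P.cons (P.lf 0 90 0) P.nil)))))) (P.cons (P.cons (P.lf 0 125090655 0) (P.cons (P.lf 19109958 0 0) (P.cons (P.lf 0 132609 0) (P.cons (P.lf 0 51426 0) (P.cons (P.lf 1326 0 0) P.nil))))) (P.cons (P.cons (P.lf 30689319 0 0) (P.cons (P.lf 0 847404 0) (P.cons (P.lf 0 143601 0) (P.cons (P.lf 0 4209 0) P.nil)))) (P.cons (P.cons (P.lf 11941134 0 0) (P.cons (P.lf 0 1776714 0) (P.cons (P.lf 0 543 0) P.nil))) (P.cons (P.cons (P.lf 0 3015387 0) (P.cons (P.lf 38307 0 0) P.nil)) (P.cons (P.cons (P.lf 0 386445 0) P.nil) P.nil)))))) 226194)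
 (EL.cons 11 (TM.mk (P.cons (P.cons (P.lf 967138827 0 0) (P.cons (P.lf 0 48987024 0) (P.cons (P.lf 0 11552028 0) (P.cons (P.lf 438849 0 0) (P.cons (P.lf 25428 0 0) (P.cons (P.lf 0 822 0) P.nil)))))) (P.cons (P.cons (P.lf 132250710 0 0) (P.cons (P.lf 0 16845696 0) (P.cons (P.lf 0 2307867 0) (P.cons (P.lf 111534 0 0) (P.cons (P.lf 5835 0 0) P.nil))))) (P.cons (P.cons (P.lf 0 63080631 0) (P.cons (P.lf 0 2052909 0) (P.cons (P.lf 376842 0 0) (P.cons (P.lf 0 1971 0) P.nil)))) (P.cons (P.cons (P.lf 0 7042755 0) (P.cons (P.lf 356259 0 0) (P.cons (P.lf 84087 0 0) P.nil))) (P.cons (P.cons (P.lf 1430790 0 0) (P.cons (P.lf 92823 0 0) P.nil)) (P.cons (P.cons (P.lf 181461 0 0) P.nil) P.nil)))))) 72486)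
 EL.nil)))
noncomputable def S198_227_401_438_23 : EL := (EL.cons 4 (TM.mk (P.cons (P.cons (P.lf 141897288 0 0) (P.cons (P.lf 0 51164127 0) (P.cons (P.lf 0 1110741 0) (P.lf 74046 0 0)))) (P.cons (P.cons (P.lf 0 445431702 0) (P.cons (P.lf 24336987 0 0) (P.cons (P.lf 528339 0 0) (P.lf 0 35220 0)))) (P.cons (P.cons (P.lf 113214219 0 0) (P.cons (P.lf 1504350 0 0) (P.cons (P.lf 32655 0 0) (P.lf 0 2175 0)))) (P.cons (P.cons (P.lf 20695695 0 0) (P.cons (P.lf 0 1282536 0) (P.cons (P.lf 0 27840 0) P.nil))) (P.cons (P.cons (P.lf 0 3695640 0) (P.cons (P.lf 0 91059 0) P.nil)) (P.cons (P.cons (P.lf 0 549765 0) P.nil) P.nil)))))) 145401)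
 (EL.cons 8 (TM.mk (P.cons (P.cons (P.lf 0 33352353 0) (P.cons (P.lf 12025908 0 0) (P.cons (P.lf 261075 0 0) (P.lf 0 17406 0)))) (P.cons (P.cons (P.lf 116646813 0 0) (P.cons (P.lf 0 10029132 0) (P.cons (P.lf 0 217725 0) (P.lf 14511 0 0)))) (P.cons (P.cons (P.lf 0 64559964 0) (P.cons (P.lf 1853553 0 0) (P.cons (P.lf 40236 0 0) (P.lf 0 2679 0)))) (P.cons (P.cons (P.lf 6102582 0 0) (P.cons (P.lf 331323 0 0) (P.cons (P.lf 7191 0 0) P.nil))) (P.cons (P.cons (P.lf 2069193 0 0) (P.cons (P.lf 0 79638 0) P.nil)) (P.cons (P.cons (P.lf 0 186588 0) P.nil) P.nil)))))) 73422)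
 (EL.cons 11 (TM.mk (P.cons (P.cons (P.lf 0 811478025 0) (P.cons (P.lf 0 40618629 0) (P.cons (P.lf 3828045 0 0) (P.cons (P.lf 46761 0 0) (P.lf 0 2337 0))))) (P.cons (P.cons (P.lf 173445270 0 0) (P.cons (P.lf 8681823 0 0) (P.cons (P.lf 0 818205 0) (P.cons (P.lf 0 9993 0) (P.lf 498 0 0))))) (P.cons (P.cons (P.lf 42569769 0 0) (P.cons (P.lf 2130834 0 0) (P.cons (P.lf 0 200817 0) (P.cons (P.lf 0 2451 0) P.nil)))) (P.cons (P.cons (P.lf 0 1690188 0) (P.cons (P.lf 0 84603 0) (P.cons (P.lf 7971 0 0) P.nil))) (P.cons (P.cons (P.lf 0 613887 0) (P.cons (P.lf 0 30726 0) P.nil)) (P.cons (P.cons (P.lf 0 1965 0) P.nil) P.nil)))))) 12948)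
 EL.nil)))
noncomputable def S198_227_401_438_24 : EL := (EL.cons 4 (TM.mk (P.cons (P.cons (P.lf 55471152 0 0) (P.cons (P.lf 0 25587633 0) (P.cons (P.lf 1458771 0 0) (P.cons (P.lf 124488 0 0) (P.cons (P.lf 0 4881 0) (P.cons (P.lf 0 126 0) P.nil)))))) (P.cons (P.cons (P.lf 0 171890661 0) (P.cons (P.lf 25434930 0 0) (P.cons (P.lf 0 114762 0) (P.cons (P.lf 0 65769 0) (P.cons (P.lf 1614 0 0) P.nil))))) (P.cons (P.cons (P.lf 34032054 0 0) (P.cons (P.lf 279297 0 0) (P.cons (P.lf 0 219399 0) (P.cons (P.lf 0 10191 0) P.nil)))) (P.cons (P.cons (P.lf 19914738 0 0) (P.cons (P.lf 0 2711829 0) (P.cons (P.lf 0 9642 0) P.nil))) (P.cons (P.cons (P.lf 0 3639417 0) (P.cons (P.lf 0 67569 0) P.nil)) (P.cons (P.cons (P.lf 0 875253 0) P.nil) P.nil)))))) 394296)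
 (EL.cons 8 (TM.mk (P.cons (P.cons (P.lf 0 13038258 0) (P.cons (P.lf 6014262 0 0) (P.cons (P.lf 0 342876 0) (P.cons (P.lf 0 29259 0) (P.cons (P.lf 1146 0 0) (P.cons (P.lf 27 0 0) P.nil)))))) (P.cons (P.cons (P.lf 45073713 0 0) (P.cons (P.lf 0 8133255 0) (P.cons (P.lf 149826 0 0) (P.cons (P.lf 25941 0 0) (P.cons (P.lf 0 789 0) P.nil))))) (P.cons (P.cons (P.lf 0 22645854 0) (P.cons (P.lf 2155185 0 0) (P.cons (P.lf 37407 0 0) (P.cons (P.lf 0 3525 0) P.nil)))) (P.cons (P.cons (P.lf 0 1261698 0) (P.cons (P.lf 571650 0 0) (P.cons (P.lf 0 15231 0) P.nil))) (P.cons (P.cons (P.lf 2352999 0 0) (P.cons (P.lf 0 201888 0) P.nil)) (P.cons (P.cons (P.lf 0 143403 0) P.nil) P.nil)))))) 169761)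
 (EL.cons 11 (TM.mk (P.cons (P.cons (P.lf 0 317226795 0) (P.cons (P.lf 16068009 0 0) (P.cons (P.lf 3789126 0 0) (P.cons (P.lf 0 143943 0) (P.cons (P.lf 0 8340 0) (P.cons (P.lf 270 0 0) P.nil)))))) (P.cons (P.cons (P.lf 54996342 0 0) (P.cons (P.lf 542625 0 0) (P.cons (P.lf 0 418053 0) (P.cons (P.lf 8052 0 0) (P.cons (P.lf 672 0 0) P.nil))))) (P.cons (P.cons (P.lf 37655451 0 0) (P.cons (P.lf 0 1218048 0) (P.cons (P.lf 0 400311 0) (P.cons (P.lf 13584 0 0) P.nil)))) (P.cons (P.cons (P.lf 0 3925254 0) (P.cons (P.lf 0 371697 0) (P.cons (P.lf 5940 0 0) P.nil))) (P.cons (P.cons (P.lf 0 1476228 0) (P.cons (P.lf 4587 0 0) P.nil)) (P.cons (P.cons (P.lf 77823 0 0) P.nil) P.nil)))))) 87066)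
 EL.nil)))
noncomputable def S198_227_401_438_25 : EL := (EL.cons 4 (TM.mk (P.cons (P.cons (P.lf 0 46543080 0) (P.cons (P.lf 16782111 0 0) (P.cons (P.lf 364329 0 0) (P.lf 0 24288 0)))) (P.cons (P.cons (P.lf 160537509 0 0) (P.cons (P.lf 0 13186968 0) (P.cons (P.lf 0 286281 0) (P.lf 19083 0 0)))) (P.cons (P.cons (P.lf 0 81927906 0) (P.cons (P.lf 1796256 0 0) (P.cons (P.lf 38994 0 0) (P.lf 0 2598 0)))) (P.cons (P.cons (P.lf 3066015 0 0) (P.cons (P.lf 677910 0 0) (P.cons (P.lf 14715 0 0) P.nil))) (P.cons (P.cons (P.lf 3863259 0 0) (P.cons (P.lf 0 101565 0) P.nil)) (P.cons (P.cons (P.lf 0 145887 0) P.nil) P.nil)))))) 157314)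
 (EL.cons 8 (TM.mk (P.cons (P.cons (P.lf 10939752 0 0) (P.cons (P.lf 0 3944562 0) (P.cons (P.lf 0 85632 0) (P.lf 5709 0 0)))) (P.cons (P.cons (P.lf 0 41653317 0) (P.cons (P.lf 4512858 0 0) (P.cons (P.lf 97971 0 0) (P.lf 0 6531 0)))) (P.cons (P.cons (P.lf 32919957 0 0) (P.cons (P.lf 0 1584441 0) (P.cons (P.lf 0 34395 0) (P.lf 2292 0 0)))) (P.cons (P.cons (P.lf 0 8134632 0) (P.cons (P.lf 39720 0 0) (P.cons (P.lf 861 0 0) P.nil))) (P.cons (P.cons (P.lf 0 327807 0) (P.cons (P.lf 69402 0 0) P.nil)) (P.cons (P.cons (P.lf 311310 0 0) P.nil) P.nil)))))) 75624)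
 (EL.cons 11 (TM.mk (P.cons (P.cons (P.lf 266169207 0 0) (P.cons (P.lf 13323132 0 0) (P.cons (P.lf 0 1255617 0) (P.cons (P.lf 0 15336 0) (P.lf 765 0 0))))) (P.cons (P.cons (P.lf 0 139432803 0) (P.cons (P.lf 0 6979326 0) (P.cons (P.lf 657756 0 0) (P.cons (P.lf 8034 0 0) (P.lf 0 402 0))))) (P.cons (P.cons (P.lf 732282 0 0) (P.cons (P.lf 36654 0 0) (P.cons (P.lf 0 3453 0) (P.cons (P.lf 0 42 0) P.nil)))) (P.cons (P.cons (P.lf 5765442 0 0) (P.cons (P.lf 288588 0 0) (P.cons (P.lf 0 27195 0) P.nil))) (P.cons (P.cons (P.lf 147618 0 0) (P.cons (P.lf 7386 0 0) P.nil)) (P.cons (P.cons (P.lf 0 85359 0) P.nil) P.nil)))))) 21000)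
 EL.nil)))
noncomputable def S198_227_401_438_26 : EL := (EL.cons 4 (TM.mk (P.cons (P.cons (P.lf 0 18194838 0) (P.cons (P.lf 8392881 0 0) (P.cons (P.lf 0 478485 0) (P.cons (P.lf 0 40833 0) (P.cons (P.lf 1599 0 0) (P.cons (P.lf 39 0 0) P.nil)))))) (P.cons (P.cons (P.lf 62023479 0 0) (P.cons (P.lf 0 10945515 0) (P.cons (P.lf 186024 0 0) (P.cons (P.lf 34233 0 0) (P.cons (P.lf 0 1026 0) P.nil))))) (P.cons (P.cons (P.lf 0 28445592 0) (P.cons (P.lf 2402646 0 0) (P.cons (P.lf 65586 0 0) (P.cons (P.lf 0 2892 0) P.nil)))) (P.cons (P.cons (P.lf 0 3711897 0) (P.cons (P.lf 1018194 0 0) (P.cons (P.lf 0 20019 0) P.nil))) (P.cons (P.cons (P.lf 3395025 0 0) (P.cons (P.lf 0 259989 0) P.nil)) (P.cons (P.cons (P.lf 0 17616 0) P.nil) P.nil)))))) 282069)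
 (EL.cons 8 (TM.mk (P.cons (P.cons (P.lf 4276617 0 0) (P.cons (P.lf 0 1972710 0) (P.cons (P.lf 112464 0 0) (P.cons (P.lf 9597 0 0) (P.cons (P.lf 0 375 0) (P.cons (P.lf 0 9 0) P.nil)))))) (P.cons (P.cons (P.lf 0 16110645 0) (P.cons (P.lf 3279510 0 0) (P.cons (P.lf 0 84018 0) (P.cons (P.lf 0 11484 0) (P.cons (P.lf 375 0 0) P.nil))))) (P.cons (P.cons (P.lf 11965413 0 0) (P.cons (P.lf 0 1512366 0) (P.cons (P.lf 1722 0 0) (P.cons (P.lf 3687 0 0) P.nil)))) (P.cons (P.cons (P.lf 0 1721913 0) (P.cons (P.lf 315 0 0) (P.cons (P.lf 9450 0 0) P.nil))) (P.cons (P.cons (P.lf 0 996042 0) (P.cons (P.lf 134583 0 0) P.nil)) (P.cons (P.cons (P.lf 287835 0 0) P.nil) P.nil)))))) 111990)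
 (EL.cons 11 (TM.mk (P.cons (P.cons (P.lf 104052114 0 0) (P.cons (P.lf 0 5270394 0) (P.cons (P.lf 0 1242852 0) (P.cons (P.lf 47214 0 0) (P.cons (P.lf 2733 0 0) (P.cons (P.lf 0 87 0) P.nil)))))) (P.cons (P.cons (P.lf 0 50306730 0) (P.cons (P.lf 1456419 0 0) (P.cons (P.lf 522546 0 0) (P.cons (P.lf 0 17283 0) (P.cons (P.lf 0 1068 0) P.nil))))) (P.cons (P.cons (P.lf 0 7909167 0) (P.cons (P.lf 513075 0 0) (P.cons (P.lf 102540 0 0) (P.cons (P.lf 0 4158 0) P.nil)))) (P.cons (P.cons (P.lf 5415606 0 0) (P.cons (P.lf 0 4977 0) (P.cons (P.lf 0 45357 0) P.nil))) (P.cons (P.cons (P.lf 211422 0 0) (P.cons (P.lf 0 44244 0) P.nil)) (P.cons (P.cons (P.lf 0 202980 0) P.nil) P.nil)))))) 80595)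
 EL.nil)))
noncomputable def S198_227_401_438_27 : EL := (EL.cons 13 (TM.mk (P.lf 0 4294967296 0) 0)
 EL.nil)
noncomputable def S198_227_401_438_28 : EL := (EL.cons 13 (TM.mk (P.cons (P.cons (P.lf 0 1679008773 0) (P.cons (P.lf 169087288 0 0) (P.cons (P.lf 3670792 0 0) (P.lf 0 244716 0)))) (P.cons (P.cons (P.lf 0 67788206 0) (P.cons (P.lf 24442500 0 0) (P.cons (P.lf 530632 0 0) (P.lf 0 35372 0)))) (P.cons (P.cons (P.lf 96732595 0 0) (P.cons (P.lf 0 2328352 0) (P.cons (P.lf 0 50544 0) (P.lf 3368 0 0)))) (P.cons (P.cons (P.lf 0 158876 0) (P.cons (P.lf 0 494992 0) (P.cons (P.lf 0 10744 0) P.nil))) (P.cons (P.cons (P.lf 0 1361383 0) (P.cons (P.lf 8608 0 0) P.nil)) (P.cons (P.cons (P.lf 0 33541 0) P.nil) P.nil)))))) 23505)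
 EL.nil)
noncomputable def S198_227_401_438_29 : EL := (EL.cons 13 (TM.mk (P.cons (P.cons (P.lf 0 656365989 0) (P.cons (P.lf 132200792 0 0) (P.cons (P.lf 0 3786740 0) (P.cons (P.lf 0 480359 0) (P.cons (P.lf 16130 0 0) (P.cons (P.lf 418 0 0) P.nil)))))) (P.cons (P.cons (P.lf 0 53000167 0) (P.cons (P.lf 24447821 0 0) (P.cons (P.lf 0 1393791 0) (P.cons (P.lf 0 118941 0) (P.cons (P.lf 4663 0 0) P.nil))))) (P.cons (P.cons (P.lf 74560407 0 0) (P.cons (P.lf 0 8665333 0) (P.cons (P.lf 0 143890 0) (P.cons (P.lf 14459 0 0) P.nil)))) (P.cons (P.cons (P.lf 2929277 0 0) (P.cons (P.lf 0 1549000 0) (P.cons (P.lf 31849 0 0) P.nil))) (P.cons (P.cons (P.lf 0 3248053 0) (P.cons (P.lf 204984 0 0) P.nil)) (P.cons (P.cons (P.lf 0 62041 0) P.nil) P.nil)))))) 151254)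
 EL.nil)
noncomputable def S198_227_401_438_30 : EL := (EL.cons 13 (TM.mk (P.cons (P.lf 1408772644 0 0) (P.cons (P.lf 0 436874896 0) (P.cons (P.lf 0 15598228 0) (P.cons (P.lf 1328688 0 0) (P.cons (P.lf 91228 0 0) (P.cons (P.lf 0 3020 0) P.nil)))))) 560)
 EL.nil)
noncomputable def S198_227_401_438_31 : EL := (EL.cons 13 (TM.mk (P.cons (P.cons (P.lf 550724013 0 0) (P.cons (P.lf 0 55461550 0) (P.cons (P.lf 0 1204039 0) (P.lf 80268 0 0)))) (P.cons (P.cons (P.lf 0 148550284 0) (P.cons (P.lf 9181924 0 0) (P.cons (P.lf 199334 0 0) (P.lf 0 13289 0)))) (P.cons (P.cons (P.lf 0 44721821 0) (P.cons (P.lf 3864032 0 0) (P.cons (P.lf 83884 0 0) (P.lf 0 5591 0)))) (P.cons (P.cons (P.lf 10164772 0 0) (P.cons (P.lf 0 38014 0) (P.cons (P.lf 0 825 0) P.nil))) (P.cons (P.cons (P.lf 838322 0 0) (P.cons (P.lf 0 72782 0) P.nil)) (P.cons (P.cons (P.lf 0 157718 0) P.nil) P.nil)))))) 28109)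
 EL.nil)
noncomputable def S198_227_401_438_32 : EL := (EL.cons 13 (TM.mk (P.cons (P.cons (P.lf 215291615 0 0) (P.cons (P.lf 0 43362579 0) (P.cons (P.lf 1242071 0 0) (P.cons (P.lf 157560 0 0) (P.cons (P.lf 0 5290 0) (P.cons (P.lf 0 137 0) P.nil)))))) (P.cons (P.cons (P.lf 0 49379802 0) (P.cons (P.lf 5428163 0 0) (P.cons (P.lf 71991 0 0) (P.cons (P.lf 0 9847 0) (P.cons (P.lf 111 0 0) P.nil))))) (P.cons (P.cons (P.lf 0 32231037 0) (P.cons (P.lf 5809176 0 0) (P.cons (P.lf 0 108329 0) (P.cons (P.lf 0 18585 0) P.nil)))) (P.cons (P.cons (P.lf 6633876 0 0) (P.cons (P.lf 0 325448 0) (P.cons (P.lf 0 28973 0) P.nil))) (P.cons (P.cons (P.lf 1664461 0 0) (P.cons (P.lf 0 266638 0) P.nil)) (P.cons (P.cons (P.lf 0 321798 0) P.nil) P.nil)))))) 126359)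
 EL.nil)
noncomputable def S198_227_401_438_33 : EL := (EL.cons 14 (TM.mk (P.lf 8589934592 0 0) 0)
 EL.nil)
noncomputable def S198_227_401_438_34 : EL := (EL.cons 14 (TM.mk (P.cons (P.cons (P.lf 3358017546 0 0) (P.cons (P.lf 0 338174576 0) (P.cons (P.lf 0 7341584 0) (P.lf 489432 0 0)))) (P.cons (P.cons (P.lf 135576412 0 0) (P.cons (P.lf 0 48885000 0) (P.cons (P.lf 0 1061264 0) (P.lf 70744 0 0)))) (P.cons (P.cons (P.lf 0 193465190 0) (P.cons (P.lf 4656704 0 0) (P.cons (P.lf 101088 0 0) (P.lf 0 6736 0)))) (P.cons (P.cons (P.lf 317752 0 0) (P.cons (P.lf 989984 0 0) (P.cons (P.lf 21488 0 0) P.nil))) (P.cons (P.cons (P.lf 2722766 0 0) (P.cons (P.lf 0 17216 0) P.nil)) (P.cons (P.cons (P.lf 67082 0 0) P.nil) P.nil)))))) 47010)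
 EL.nil)
noncomputable def S198_227_401_438_35 : EL := (EL.cons 14 (TM.mk (P.cons (P.cons (P.lf 1312731978 0 0) (P.cons (P.lf 0 264401584 0) (P.cons (P.lf 7573480 0 0) (P.cons (P.lf 960718 0 0) (P.cons (P.lf 0 32260 0) (P.cons (P.lf 0 836 0) P.nil)))))) (P.cons (P.cons (P.lf 106000334 0 0) (P.cons (P.lf 0 48895642 0) (P.cons (P.lf 2787582 0 0) (P.cons (P.lf 237882 0 0) (P.cons (P.lf 0 9326 0) P.nil))))) (P.cons (P.cons (P.lf 0 149120814 0) (P.cons (P.lf 17330666 0 0) (P.cons (P.lf 287780 0 0) (P.cons (P.lf 0 28918 0) P.nil)))) (P.cons (P.cons (P.lf 0 5858554 0) (P.cons (P.lf 3098000 0 0) (P.cons (P.lf 0 63698 0) P.nil))) (P.cons (P.cons (P.lf 6496106 0 0) (P.cons (P.lf 0 409968 0) P.nil)) (P.cons (P.cons (P.lf 124082 0 0) P.nil) P.nil)))))) 302508)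
 EL.nil)
noncomputable def S198_227_401_438_36 : EL := (EL.cons 14 (TM.mk (P.cons (P.lf 0 2817545288 0) (P.cons (P.lf 873749792 0 0) (P.cons (P.lf 31196456 0 0) (P.cons (P.lf 0 2657376 0) (P.cons (P.lf 0 182456 0) (P.cons (P.lf 6040 0 0) P.nil)))))) 1120)
 EL.nil)
noncomputable def S198_227_401_438_37 : EL := (EL.cons 14 (TM.mk (P.cons (P.cons (P.lf 0 1101448026 0) (P.cons (P.lf 110923100 0 0) (P.cons (P.lf 2408078 0 0) (P.lf 0 160536 0)))) (P.cons (P.cons (P.lf 297100568 0 0) (P.cons (P.lf 0 18363848 0) (P.cons (P.lf 0 398668 0) (P.lf 26578 0 0)))) (P.cons (P.cons (P.lf 89443642 0 0) (P.cons (P.lf 0 7728064 0) (P.cons (P.lf 0 167768 0) (P.lf 11182 0 0)))) (P.cons (P.cons (P.lf 0 20329544 0) (P.cons (P.lf 76028 0 0) (P.cons (P.lf 1650 0 0) P.nil))) (P.cons (P.cons (P.lf 0 1676644 0) (P.cons (P.lf 145564 0 0) P.nil)) (P.cons (P.cons (P.lf 315436 0 0) P.nil) P.nil))))))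 56218)
 EL.nil)
noncomputable def S198_227_401_438_38 : EL := (EL.cons 14 (TM.mk (P.cons (P.cons (P.lf 0 430583230 0) (P.cons (P.lf 86725158 0 0) (P.cons (P.lf 0 2484142 0) (P.cons (P.lf 0 315120 0) (P.cons (P.lf 10580 0 0) (P.cons (P.lf 274 0 0) P.nil)))))) (P.cons (P.cons (P.lf 98759604 0 0) (P.cons (P.lf 0 10856326 0) (P.cons (P.lf 0 143982 0) (P.cons (P.lf 19694 0 0) (P.cons (P.lf 0 222 0) P.nil))))) (P.cons (P.cons (P.lf 64462074 0 0) (P.cons (P.lf 0 11618352 0) (P.cons (P.lf 216658 0 0) (P.cons (P.lf 37170 0 0) P.nil)))) (P.cons (P.cons (P.lf 0 13267752 0) (P.cons (P.lf 650896 0 0) (P.cons (P.lf 57946 0 0) P.nil))) (P.cons (P.cons (P.lf 0 3328922 0) (P.cons (P.lf 533276 0 0) P.nil)) (P.cons (P.cons (P.lf 643596 0 0) P.nil) P.nil)))))) 252718)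
 EL.nil)
noncomputable def S198_227_401_438_39 : EL := (EL.cons 14 (TM.mk (P.cons (P.lf 924170186 0 0) (P.cons (P.lf 0 573189372 0) (P.cons (P.lf 68410746 0 0) (P.cons (P.lf 8089740 0 0) (P.cons (P.lf 0 307614 0) (P.cons (P.lf 0 60382 0) P.nil)))))) 4526)
 EL.nil)
noncomputable def S198_227_401_438_40 : EL := (EL.cons 14 (TM.mk (P.cons (P.cons (P.lf 361280946 0 0) (P.cons (P.lf 0 36383380 0) (P.cons (P.lf 0 789862 0) (P.lf 52656 0 0)))) (P.cons (P.cons (P.lf 0 209487542 0) (P.cons (P.lf 17306302 0 0) (P.cons (P.lf 375710 0 0) (P.lf 0 25046 0)))) (P.cons (P.cons (P.lf 0 3117744 0) (P.cons (P.lf 1069760 0 0) (P.cons (P.lf 23222 0 0) (P.lf 0 1546 0)))) (P.cons (P.cons (P.lf 17185952 0 0) (P.cons (P.lf 0 912028 0) (P.cons (P.lf 0 19798 0) P.nil))) (P.cons (P.cons (P.lf 0 1261606 0) (P.cons (P.lf 0 64752 0) P.nil)) (P.cons (P.cons (P.lf 0 382596 0) P.nil) P.nil)))))) 74538)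
 EL.nil)
noncomputable def S198_227_401_438_41 : EL := (EL.cons 14 (TM.mk (P.cons (P.cons (P.lf 141233642 0 0) (P.cons (P.lf 0 28446322 0) (P.cons (P.lf 814812 0 0) (P.cons (P.lf 103360 0 0) (P.cons (P.lf 0 3470 0) (P.cons (P.lf 0 88 0) P.nil)))))) (P.cons (P.cons (P.lf 0 76191694 0) (P.cons (P.lf 12382432 0 0) (P.cons (P.lf 0 205454 0) (P.cons (P.lf 0 38512 0) (P.cons (P.lf 1148 0 0) P.nil))))) (P.cons (P.cons (P.lf 0 12662062 0) (P.cons (P.lf 3021564 0 0) (P.cons (P.lf 0 94732 0) (P.cons (P.lf 0 11332 0) P.nil)))) (P.cons (P.cons (P.lf 11400712 0 0) (P.cons (P.lf 0 1461548 0) (P.cons (P.lf 3276 0 0) P.nil))) (P.cons (P.cons (P.lf 0 44958 0) (P.cons (P.lf 0 149388 0) P.nil)) (P.cons (P.cons (P.lf 0 620240 0) P.nil) P.nil)))))) 233472)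
 EL.nil)
noncomputable def S198_227_401_438_42 : EL := (EL.cons 14 (TM.mk (P.cons (P.lf 0 303132848 0) (P.cons (P.lf 282013848 0 0) (P.cons (P.lf 0 77386344 0) (P.cons (P.lf 1937536 0 0) (P.cons (P.lf 1329912 0 0) (P.cons (P.lf 9556 0 0) P.nil)))))) 14366)
 EL.nil)
noncomputable def S198_227_401_438_43 : EL := (EL.cons 14 (TM.mk (P.cons (P.cons (P.lf 0 118502114 0) (P.cons (P.lf 11933946 0 0) (P.cons (P.lf 259078 0 0) (P.lf 0 17270 0)))) (P.cons (P.cons (P.lf 105461778 0 0) (P.cons (P.lf 0 9377400 0) (P.cons (P.lf 0 203578 0) (P.lf 13570 0 0)))) (P.cons (P.cons (P.lf 0 18973906 0) (P.cons (P.lf 1277336 0 0) (P.cons (P.lf 27730 0 0) (P.lf 0 1848 0)))) (P.cons (P.cons (P.lf 0 6826788 0) (P.cons (P.lf 482070 0 0) (P.cons (P.lf 10464 0 0) P.nil))) (P.cons (P.cons (P.lf 2207742 0 0) (P.cons (P.lf 0 72224 0) P.nil)) (P.cons (P.cons (P.lf 65248 0 0) P.nil) P.nil)))))) 93706)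
 EL.nil)
noncomputable def S198_227_401_438_44 : EL := (EL.cons 14 (TM.mk (P.cons (P.cons (P.lf 0 46325402 0) (P.cons (P.lf 9330548 0 0) (P.cons (P.lf 0 267262 0) (P.cons (P.lf 0 33902 0) (P.cons (P.lf 1138 0 0) (P.cons (P.lf 28 0 0) P.nil)))))) (P.cons (P.cons (P.lf 39357274 0 0) (P.cons (P.lf 0 6955004 0) (P.cons (P.lf 150270 0 0) (P.cons (P.lf 23146 0 0) (P.cons (P.lf 0 730 0) P.nil))))) (P.cons (P.cons (P.lf 0 3083904 0) (P.cons (P.lf 165114 0 0) (P.cons (P.lf 13132 0 0) (P.cons (P.lf 174 0 0) P.nil)))) (P.cons (P.cons (P.lf 0 5347854 0) (P.cons (P.lf 840512 0 0) (P.cons (P.lf 0 11708 0) P.nil))) (P.cons (P.cons (P.lf 1148988 0 0) (P.cons (P.lf 0 91918 0) P.nil)) (P.cons (P.cons (P.lf 245908 0 0) P.nil) P.nil)))))) 191680)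
 EL.nil)
noncomputable def S198_227_401_438_45 : EL := (EL.cons 14 (TM.mk (P.cons (P.cons (P.lf 513179344 0 0) (P.cons (P.lf 0 155041662 0) (P.cons (P.lf 12247850 0 0) (P.cons (P.lf 378182 0 0) (P.cons (P.lf 0 71970 0) (P.cons (P.lf 552 0 0) P.nil)))))) (P.cons (P.cons (P.lf 62157222 0 0) (P.cons (P.lf 0 34931414 0) (P.cons (P.lf 4386144 0 0) (P.cons (P.lf 46620 0 0) (P.cons (P.lf 0 27268 0) P.nil))))) (P.cons (P.cons (P.lf 0 86187746 0) (P.cons (P.lf 17937288 0 0) (P.cons (P.lf 0 431630 0) (P.cons (P.lf 0 72810 0) P.nil)))) (P.cons (P.cons (P.lf 0 6982664 0) (P.cons (P.lf 3864120 0 0) (P.cons (P.lf 0 332470 0) P.nil))) (P.cons (P.cons (P.lf 6225586 0 0) (P.cons (P.lf 0 880970 0) P.nil)) (P.cons (P.cons (P.lf 321318 0 0) P.nil) P.nil)))))) 650156)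
 EL.nil)
noncomputable def S198_227_401_438_46 : EL := (EL.cons 15 (TM.mk (P.lf 4294967296 0 0) 0)
 EL.nil)
noncomputable def S198_227_401_438_47 : EL := (EL.cons 15 (TM.mk (P.cons (P.cons (P.lf 1679008773 0 0) (P.cons (P.lf 0 169087288 0) (P.cons (P.lf 0 3670792 0) (P.lf 244716 0 0)))) (P.cons (P.cons (P.lf 67788206 0 0) (P.cons (P.lf 0 24442500 0) (P.cons (P.lf 0 530632 0) (P.lf 35372 0 0)))) (P.cons (P.cons (P.lf 0 96732595 0) (P.cons (P.lf 2328352 0 0) (P.cons (P.lf 50544 0 0) (P.lf 0 3368 0)))) (P.cons (P.cons (P.lf 158876 0 0) (P.cons (P.lf 494992 0 0) (P.cons (P.lf 10744 0 0) P.nil))) (P.cons (P.cons (P.lf 1361383 0 0) (P.cons (P.lf 0 8608 0) P.nil)) (P.cons (P.cons (P.lf 33541 0 0) P.nil) P.nil)))))) 23505)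
 EL.nil)
noncomputable def S198_227_401_438_48 : EL := (EL.cons 15 (TM.mk (P.cons (P.cons (P.lf 656365989 0 0) (P.cons (P.lf 0 132200792 0) (P.cons (P.lf 3786740 0 0) (P.cons (P.lf 480359 0 0) (P.cons (P.lf 0 16130 0) (P.cons (P.lf 0 418 0) P.nil)))))) (P.cons (P.cons (P.lf 53000167 0 0) (P.cons (P.lf 0 24447821 0) (P.cons (P.lf 1393791 0 0) (P.cons (P.lf 118941 0 0) (P.cons (P.lf 0 4663 0) P.nil))))) (P.cons (P.cons (P.lf 0 74560407 0) (P.cons (P.lf 8665333 0 0) (P.cons (P.lf 143890 0 0) (P.cons (P.lf 0 14459 0) P.nil)))) (P.cons (P.cons (P.lf 0 2929277 0) (P.cons (P.lf 1549000 0 0) (P.cons (P.lf 0 31849 0) P.nil))) (P.cons (P.cons (P.lf 3248053 0 0) (P.cons (P.lf 0 204984 0) P.nil)) (P.cons (P.cons (P.lf 62041 0 0) P.nil) P.nil)))))) 151254)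
 EL.nil)
noncomputable def S198_227_401_438 : SL := (SL.cons S198_227_401_438_0 (SL.cons S198_227_401_438_1 (SL.cons S198_227_401_438_2 (SL.cons S198_227_401_438_3 (SL.cons S198_227_401_438_4 (SL.cons S198_227_401_438_5 (SL.cons S198_227_401_438_6 (SL.cons S198_227_401_438_7 (SL.cons S198_227_401_438_8 (SL.cons S198_227_401_438_9 (SL.cons S198_227_401_438_10 (SL.cons S198_227_401_438_11 (SL.cons S198_227_401_438_12 (SL.cons S198_227_401_438_13 (SL.cons S198_227_401_438_14 (SL.cons S198_227_401_438_15 (SL.cons S198_227_401_438_16 (SL.cons S198_227_401_438_17 (SL.cons S198_227_401_438_18 (SL.cons S198_227_401_438_19 (SL.cons S198_227_401_438_20 (SL.cons S198_227_401_438_21 (SL.cons S198_227_401_438_22 (SL.cons S198_227_401_438_23 (SL.cons S198_227_401_438_24 (SL.cons S198_227_401_438_25 (SL.cons S198_227_401_438_26 (SL.cons S198_227_401_438_27 (SL.cons S198_227_401_438_28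 (SL.cons S198_227_401_438_29 (SL.cons S198_227_401_438_30 (SL.cons S198_227_401_438_31 (SL.cons S198_227_401_438_32 (SL.cons S198_227_401_438_33 (SL.cons S198_227_401_438_34 (SL.cons S198_227_401_438_35 (SL.cons S198_227_401_438_36 (SL.cons S198_227_401_438_37 (SL.cons S198_227_401_438_38 (SL.cons S198_227_401_438_39 (SL.cons S198_227_401_438_40 (SL.cons S198_227_401_438_41 (SL.cons S198_227_401_438_42 (SL.cons S198_227_401_438_43 (SL.cons S198_227_401_438_44 (SL.cons S198_227_401_438_45 (SL.cons S198_227_401_438_46 (SL.cons S198_227_401_438_47 (SL.cons S198_227_401_438_48 SL.nil)))))))))))))))))))))))))))))))))))))))))))))))))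
noncomputable def S198_227_438_475_0 : EL := (EL.cons 0 (TM.mk (P.cons (P.lf 7643457911 0 0) (P.cons (P.lf 503779721 0 0) (P.cons (P.lf 0 60126632 0) (P.cons (P.lf 0 7110123 0) (P.cons (P.lf 270363 0 0) (P.cons (P.lf 53070 0 0) P.nil)))))) 3984)
 (EL.cons 1 (TM.mk (P.cons (P.lf 0 1228710643 0) (P.cons (P.lf 321830180 0 0) (P.cons (P.lf 40457490 0 0) (P.cons (P.lf 0 2710608 0) (P.cons (P.lf 0 384633 0) (P.cons (P.lf 7027 0 0) P.nil)))))) 2881)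
 (EL.cons 5 (TM.mk (P.cons (P.lf 4583770480 0 0) (P.cons (P.lf 0 179121676 0) (P.cons (P.lf 21378358 0 0) (P.cons (P.lf 2528040 0 0) (P.cons (P.lf 0 96128 0) (P.cons (P.lf 0 18870 0) P.nil)))))) 1697)
 (EL.cons 9 (TM.mk (P.lf 6442450944 0 0) 2)
 EL.nil))))
noncomputable def S198_227_438_475_1 : EL := (EL.cons 0 (TM.mk (P.cons (P.cons (P.lf 2296571768 0 0) (P.cons (P.lf 0 219220317 0) (P.cons (P.lf 0 2670006 0) (P.lf 296668 0 0)))) (P.cons (P.cons (P.lf 926634541 0 0) (P.cons (P.lf 0 116533369 0) (P.cons (P.lf 0 1419313 0) (P.lf 157689 0 0)))) (P.cons (P.cons (P.lf 0 398270670 0) (P.cons (P.lf 880253 0 0) (P.cons (P.lf 10724 0 0) (P.lf 0 1193 0)))) (P.cons (P.cons (P.lf 0 44920088 0) (P.cons (P.lf 4471307 0 0) (P.cons (P.lf 54446 0 0) P.nil))) (P.cons (P.cons (P.lf 11155636 0 0) (P.cons (P.lf 225330 0 0) P.nil)) (P.cons (P.cons (P.lf 1292492 0 0) P.nil) P.nil))))))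 376925)
 (EL.cons 1 (TM.mk (P.cons (P.cons (P.lf 0 422731189 0) (P.cons (P.lf 117275505 0 0) (P.cons (P.lf 1428355 0 0) (P.lf 0 158700 0)))) (P.cons (P.cons (P.lf 546712631 0 0) (P.cons (P.lf 0 5124273 0) (P.cons (P.lf 0 62412 0) (P.lf 6936 0 0)))) (P.cons (P.cons (P.lf 126846686 0 0) (P.cons (P.lf 0 12794773 0) (P.cons (P.lf 0 155822 0) (P.lf 17306 0 0)))) (P.cons (P.cons (P.lf 0 36343324 0) (P.cons (P.lf 0 574612 0) (P.cons (P.lf 0 6993 0) P.nil))) (P.cons (P.cons (P.lf 0 4876939 0) (P.cons (P.lf 325967 0 0) P.nil)) (P.cons (P.cons (P.lf 711744 0 0) P.nil) P.nil)))))) 187703)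
 (EL.cons 5 (TM.mk (P.cons (P.cons (P.lf 1441226077 0 0) (P.cons (P.lf 0 229472510 0) (P.cons (P.lf 0 2794872 0) (P.lf 310540 0 0)))) (P.cons (P.cons (P.lf 0 300461803 0) (P.cons (P.lf 0 3004812 0) (P.cons (P.lf 0 36606 0) (P.lf 4074 0 0)))) (P.cons (P.cons (P.lf 0 14623770 0) (P.cons (P.lf 3920202 0 0) (P.cons (P.lf 47748 0 0) (P.lf 0 5306 0)))) (P.cons (P.cons (P.lf 17987988 0 0) (P.cons (P.lf 0 689844 0) (P.cons (P.lf 0 8398 0) P.nil))) (P.cons (P.cons (P.lf 0 1682465 0) (P.cons (P.lf 0 95768 0) P.nil)) (P.cons (P.cons (P.lf 0 420194 0) P.nil) P.nil)))))) 175942)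
 (EL.cons 9 (TM.mk (P.cons (P.cons (P.lf 1992163165 0 0) (P.cons (P.lf 0 271250742 0) (P.cons (P.lf 0 3303708 0) (P.lf 367074 0 0)))) (P.cons (P.cons (P.lf 25595511 0 0) (P.cons (P.lf 0 39210786 0) (P.cons (P.lf 0 477564 0) (P.lf 53058 0 0)))) (P.cons (P.cons (P.lf 0 137850982 0) (P.cons (P.lf 3735156 0 0) (P.cons (P.lf 45486 0 0) (P.lf 0 5052 0)))) (P.cons (P.cons (P.lf 1779180 0 0) (P.cons (P.lf 794070 0 0) (P.cons (P.lf 9666 0 0) P.nil))) (P.cons (P.cons (P.lf 2015266 0 0) (P.cons (P.lf 0 13812 0) P.nil)) (P.cons (P.cons (P.lf 34723 0 0) P.nil) P.nil)))))) 33668)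
 (EL.cons 2 (TM.mk (P.cons (P.cons (P.lf 822249756 0 0) (P.cons (P.lf 23268847 0 0) (P.cons (P.lf 0 3799226 0) (P.cons (P.lf 0 26302 0) (P.lf 2190 0 0))))) (P.cons (P.cons (P.lf 0 175747618 0) (P.cons (P.lf 0 4973481 0) (P.cons (P.lf 812044 0 0) (P.cons (P.lf 5622 0 0) (P.lf 0 466 0))))) (P.cons (P.cons (P.lf 0 43134848 0) (P.cons (P.lf 0 1220670 0) (P.cons (P.lf 199305 0 0) (P.cons (P.lf 1378 0 0) P.nil)))) (P.cons (P.cons (P.lf 1712624 0 0) (P.cons (P.lf 48465 0 0) (P.cons (P.lf 0 7911 0) P.nil))) (P.cons (P.cons (P.lf 622037 0 0) (P.cons (P.lf 17600 0 0) P.nil)) (P.cons (P.cons (P.lf 1988 0 0) P.nil) P.nil)))))) 11670)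
 (EL.cons 6 (TM.mk (P.cons (P.cons (P.lf 1243823814 0 0) (P.cons (P.lf 35198976 0 0) (P.cons (P.lf 0 5747121 0) (P.cons (P.lf 0 39789 0) (P.lf 3315 0 0))))) (P.cons (P.cons (P.lf 179801592 0 0) (P.cons (P.lf 5088204 0 0) (P.cons (P.lf 0 830775 0) (P.cons (P.lf 0 5748 0) (P.lf 477 0 0))))) (P.cons (P.cons (P.lf 0 17127618 0) (P.cons (P.lf 0 484692 0) (P.cons (P.lf 79137 0 0) (P.cons (P.lf 546 0 0) P.nil)))) (P.cons (P.cons (P.lf 0 3641241 0) (P.cons (P.lf 0 103041 0) (P.cons (P.lf 16821 0 0) P.nil))) (P.cons (P.cons (P.lf 63348 0 0) (P.cons (P.lf 1791 0 0) P.nil)) (P.cons (P.cons (P.lf 36834 0 0) P.nil) P.nil)))))) 6789)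
 EL.nil))))))
noncomputable def S198_227_438_475_2 : EL := (EL.cons 0 (TM.mk (P.cons (P.cons (P.lf 689446681 0 0) (P.cons (P.lf 0 129937016 0) (P.cons (P.lf 3327693 0 0) (P.cons (P.lf 295453 0 0) (P.cons (P.lf 0 12567 0) (P.cons (P.lf 0 165 0) P.nil)))))) (P.cons (P.cons (P.lf 524372610 0 0) (P.cons (P.lf 0 135350969 0) (P.cons (P.lf 6022514 0 0) (P.cons (P.lf 370008 0 0) (P.cons (P.lf 0 19614 0) P.nil))))) (P.cons (P.cons (P.lf 0 231690225 0) (P.cons (P.lf 18276702 0 0) (P.cons (P.lf 1251212 0 0) (P.cons (P.lf 312 0 0) P.nil)))) (P.cons (P.cons (P.lf 0 61851538 0) (P.cons (P.lf 13982899 0 0) (P.cons (P.lf 0 223468 0) P.nil))) (P.cons (P.cons (P.lf 19736221 0 0) (P.cons (P.lf 0 336140 0) P.nil)) (P.cons (P.cons (P.lf 2811782 0 0) P.nil) P.nil)))))) 1838759)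
 (EL.cons 1 (TM.mk (P.cons (P.cons (P.lf 0 143948616 0) (P.cons (P.lf 76131611 0 0) (P.cons (P.lf 0 6770055 0) (P.cons (P.lf 0 290517 0) (P.cons (P.lf 19687 0 0) (P.cons (P.lf 253 0 0) P.nil)))))) (P.cons (P.cons (P.lf 307000519 0 0) (P.cons (P.lf 0 39784593 0) (P.cons (P.lf 0 1421383 0) (P.cons (P.lf 31017 0 0) (P.cons (P.lf 2394 0 0) P.nil))))) (P.cons (P.cons (P.lf 79983314 0 0) (P.cons (P.lf 0 25831324 0) (P.cons (P.lf 710030 0 0) (P.cons (P.lf 59901 0 0) P.nil)))) (P.cons (P.cons (P.lf 0 40683927 0) (P.cons (P.lf 1679385 0 0) (P.cons (P.lf 213985 0 0) P.nil))) (P.cons (P.cons (P.lf 0 7314875 0) (P.cons (P.lf 1675515 0 0) P.nil)) (P.cons (P.cons (P.lf 2110982 0 0) P.nil) P.nil)))))) 849287)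
 (EL.cons 5 (TM.mk (P.cons (P.cons (P.lf 453025644 0 0) (P.cons (P.lf 0 143922166 0) (P.cons (P.lf 9444613 0 0) (P.cons (P.lf 467530 0 0) (P.cons (P.lf 0 28635 0) (P.cons (P.lf 0 365 0) P.nil)))))) (P.cons (P.cons (P.lf 0 168503470 0) (P.cons (P.lf 18198899 0 0) (P.cons (P.lf 1236262 0 0) (P.cons (P.lf 92 0 0) (P.cons (P.lf 0 2605 0) P.nil))))) (P.cons (P.cons (P.lf 0 14126968 0) (P.cons (P.lf 8922328 0 0) (P.cons (P.lf 0 343046 0) (P.cons (P.lf 0 23073 0) P.nil)))) (P.cons (P.cons (P.lf 21997289 0 0) (P.cons (P.lf 0 2649534 0) (P.cons (P.lf 0 19589 0) P.nil))) (P.cons (P.cons (P.lf 0 2245849 0) (P.cons (P.lf 0 281043 0) P.nil)) (P.cons (P.cons (P.lf 0 1043534 0) P.nil) P.nil)))))) 862363)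
 (EL.cons 9 (TM.mk (P.cons (P.cons (P.lf 616025502 0 0) (P.cons (P.lf 0 167754706 0) (P.cons (P.lf 9377473 0 0) (P.cons (P.lf 505212 0 0) (P.cons (P.lf 0 29215 0) (P.cons (P.lf 0 375 0) P.nil)))))) (P.cons (P.cons (P.lf 15829513 0 0) (P.cons (P.lf 0 26405193 0) (P.cons (P.lf 2980234 0 0) (P.cons (P.lf 116158 0 0) (P.cons (P.lf 0 8445 0) P.nil))))) (P.cons (P.cons (P.lf 0 85152090 0) (P.cons (P.lf 13606498 0 0) (P.cons (P.lf 89838 0 0) (P.cons (P.lf 0 20259 0) P.nil)))) (P.cons (P.cons (P.lf 4981 0 0) (P.cons (P.lf 2048959 0 0) (P.cons (P.lf 0 87381 0) P.nil))) (P.cons (P.cons (P.lf 4210113 0 0) (P.cons (P.lf 0 353433 0) P.nil)) (P.cons (P.cons (P.lf 0 38650 0) P.nil) P.nil)))))) 211651)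
 (EL.cons 2 (TM.mk (P.cons (P.cons (P.lf 508519406 0 0) (P.cons (P.lf 0 54848846 0) (P.cons (P.lf 0 5152336 0) (P.cons (P.lf 373488 0 0) (P.cons (P.lf 10113 0 0) (P.cons (P.lf 0 585 0) P.nil)))))) (P.cons (P.cons (P.lf 0 102157402 0) (P.cons (P.lf 1899337 0 0) (P.cons (P.lf 665921 0 0) (P.cons (P.lf 0 23692 0) (P.cons (P.lf 0 877 0) P.nil))))) (P.cons (P.cons (P.lf 0 63260994 0) (P.cons (P.lf 4934790 0 0) (P.cons (P.lf 564513 0 0) (P.cons (P.lf 0 35831 0) P.nil)))) (P.cons (P.cons (P.lf 8691620 0 0) (P.cons (P.lf 625719 0 0) (P.cons (P.lf 0 24783 0) P.nil))) (P.cons (P.cons (P.lf 2661586 0 0) (P.cons (P.lf 0 94770 0) P.nil)) (P.cons (P.cons (P.lf 0 192026 0) P.nil) P.nil)))))) 150665)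
 (EL.cons 6 (TM.mk (P.cons (P.cons (P.lf 769241394 0 0) (P.cons (P.lf 0 82970292 0) (P.cons (P.lf 0 7793982 0) (P.cons (P.lf 564978 0 0) (P.cons (P.lf 15300 0 0) (P.cons (P.lf 0 888 0) P.nil)))))) (P.cons (P.cons (P.lf 121081374 0 0) (P.cons (P.lf 0 26854728 0) (P.cons (P.lf 0 1785192 0) (P.cons (P.lf 166578 0 0) (P.cons (P.lf 4152 0 0) P.nil))))) (P.cons (P.cons (P.lf 0 62392782 0) (P.cons (P.lf 0 1069770 0) (P.cons (P.lf 316446 0 0) (P.cons (P.lf 0 1920 0) P.nil)))) (P.cons (P.cons (P.lf 0 9395544 0) (P.cons (P.lf 764322 0 0) (P.cons (P.lf 85104 0 0) P.nil))) (P.cons (P.cons (P.lf 1620684 0 0) (P.cons (P.lf 103980 0 0) P.nil)) (P.cons (P.cons (P.lf 295542 0 0) P.nil) P.nil)))))) 107238)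
 EL.nil))))))
noncomputable def S198_227_438_475_3 : EL := (EL.cons 0 (TM.mk (P.cons (P.lf 812258952 0 0) (P.cons (P.lf 0 503779721 0) (P.cons (P.lf 60126632 0 0) (P.cons (P.lf 7110123 0 0) (P.cons (P.lf 0 270363 0) (P.cons (P.lf 0 53070 0) P.nil)))))) 3984)
 (EL.cons 1 (TM.mk (P.cons (P.lf 1228710643 0 0) (P.cons (P.lf 0 321830180 0) (P.cons (P.lf 0 40457490 0) (P.cons (P.lf 2710608 0 0) (P.cons (P.lf 384633 0 0) (P.cons (P.lf 0 7027 0) P.nil)))))) 2881)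
 (EL.cons 5 (TM.mk (P.cons (P.lf 1858680464 0 0) (P.cons (P.lf 179121676 0 0) (P.cons (P.lf 0 21378358 0) (P.cons (P.lf 0 2528040 0) (P.cons (P.lf 96128 0 0) (P.cons (P.lf 18870 0 0) P.nil)))))) 1690)
 EL.nil)))
noncomputable def S198_227_438_475_4 : EL := (EL.cons 0 (TM.mk (P.cons (P.cons (P.lf 251170303 0 0) (P.cons (P.lf 0 34199071 0) (P.cons (P.lf 0 416527 0) (P.lf 46279 0 0)))) (P.cons (P.cons (P.lf 0 152553930 0) (P.cons (P.lf 16267303 0 0) (P.cons (P.lf 198128 0 0) (P.lf 0 22013 0)))) (P.cons (P.cons (P.lf 0 789004 0) (P.cons (P.lf 1005535 0 0) (P.cons (P.lf 12244 0 0) (P.lf 0 1358 0)))) (P.cons (P.cons (P.lf 13441340 0 0) (P.cons (P.lf 0 857272 0) (P.cons (P.lf 0 10439 0) P.nil))) (P.cons (P.cons (P.lf 0 1226944 0) (P.cons (P.lf 0 60866 0) P.nil)) (P.cons (P.cons (P.lf 0 306226 0) P.nil) P.nil)))))) 63750)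
 (EL.cons 1 (TM.mk (P.cons (P.cons (P.lf 379947335 0 0) (P.cons (P.lf 0 51733209 0) (P.cons (P.lf 0 630084 0) (P.lf 70006 0 0)))) (P.cons (P.cons (P.lf 0 94636149 0) (P.cons (P.lf 6071906 0 0) (P.cons (P.lf 73951 0 0) (P.lf 0 8216 0)))) (P.cons (P.cons (P.lf 0 40080133 0) (P.cons (P.lf 4374540 0 0) (P.cons (P.lf 53276 0 0) (P.lf 0 5917 0)))) (P.cons (P.cons (P.lf 7903068 0 0) (P.cons (P.lf 96967 0 0) (P.cons (P.lf 1179 0 0) P.nil))) (P.cons (P.cons (P.lf 1290862 0 0) (P.cons (P.lf 0 98448 0) P.nil)) (P.cons (P.cons (P.lf 0 163865 0) P.nil) P.nil)))))) 47036)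
 (EL.cons 5 (TM.mk (P.cons (P.cons (P.lf 574749390 0 0) (P.cons (P.lf 0 78257242 0) (P.cons (P.lf 0 953136 0) (P.lf 105902 0 0)))) (P.cons (P.cons (P.lf 62773234 0 0) (P.cons (P.lf 0 18854190 0) (P.cons (P.lf 0 229632 0) (P.lf 25512 0 0)))) (P.cons (P.cons (P.lf 0 45669790 0) (P.cons (P.lf 887526 0 0) (P.cons (P.lf 10806 0 0) (P.lf 0 1198 0)))) (P.cons (P.cons (P.lf 0 4186080 0) (P.cons (P.lf 569496 0 0) (P.cons (P.lf 6934 0 0) P.nil))) (P.cons (P.cons (P.lf 1108000 0 0) (P.cons (P.lf 17036 0 0) P.nil)) (P.cons (P.cons (P.lf 120454 0 0) P.nil) P.nil)))))) 35858)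
 EL.nil)))
noncomputable def S198_227_438_475_5 : EL := (EL.cons 0 (TM.mk (P.cons (P.cons (P.lf 77667990 0 0) (P.cons (P.lf 0 21150376 0) (P.cons (P.lf 1182302 0 0) (P.cons (P.lf 63696 0 0) (P.cons (P.lf 0 3682 0) (P.cons (P.lf 0 45 0) P.nil)))))) (P.cons (P.cons (P.lf 0 46175514 0) (P.cons (P.lf 9788753 0 0) (P.cons (P.lf 0 357542 0) (P.cons (P.lf 0 24860 0) (P.cons (P.lf 1218 0 0) P.nil))))) (P.cons (P.cons (P.lf 0 6224431 0) (P.cons (P.lf 2214664 0 0) (P.cons (P.lf 0 134198 0) (P.cons (P.lf 0 6922 0) P.nil)))) (P.cons (P.cons (P.lf 7486860 0 0) (P.cons (P.lf 0 1237231 0) (P.cons (P.lf 20119 0 0) P.nil))) (P.cons (P.cons (P.lf 0 272677 0) (P.cons (P.lf 0 99896 0) P.nil)) (P.cons (P.cons (P.lf 0 433759 0) P.nil) P.nil)))))) 186606)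
 (EL.cons 1 (TM.mk (P.cons (P.cons (P.lf 117488994 0 0) (P.cons (P.lf 0 31994343 0) (P.cons (P.lf 1788480 0 0) (P.cons (P.lf 96352 0 0) (P.cons (P.lf 0 5570 0) (P.cons (P.lf 0 71 0) P.nil)))))) (P.cons (P.cons (P.lf 0 27754297 0) (P.cons (P.lf 3344096 0 0) (P.cons (P.lf 99943 0 0) (P.cons (P.lf 0 3082 0) (P.cons (P.lf 0 150 0) P.nil))))) (P.cons (P.cons (P.lf 0 20899582 0) (P.cons (P.lf 4967576 0 0) (P.cons (P.lf 0 190629 0) (P.cons (P.lf 0 12838 0) P.nil)))) (P.cons (P.cons (P.lf 4414470 0 0) (P.cons (P.lf 0 193687 0) (P.cons (P.lf 0 35921 0) P.nil))) (P.cons (P.cons (P.lf 1380885 0 0) (P.cons (P.lf 0 276331 0) P.nil)) (P.cons (P.cons (P.lf 0 253269 0) P.nil) P.nil)))))) 155785)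
 (EL.cons 5 (TM.mk (P.cons (P.cons (P.lf 177726546 0 0) (P.cons (P.lf 0 48398100 0) (P.cons (P.lf 2705448 0 0) (P.cons (P.lf 145754 0 0) (P.cons (P.lf 0 8428 0) (P.cons (P.lf 0 106 0) P.nil)))))) (P.cons (P.cons (P.lf 21694464 0 0) (P.cons (P.lf 0 12282176 0) (P.cons (P.lf 1120536 0 0) (P.cons (P.lf 47558 0 0) (P.cons (P.lf 0 3248 0) P.nil))))) (P.cons (P.cons (P.lf 0 26170898 0) (P.cons (P.lf 3748062 0 0) (P.cons (P.lf 77660 0 0) (P.cons (P.lf 0 4290 0) P.nil)))) (P.cons (P.cons (P.lf 0 2660332 0) (P.cons (P.lf 1122890 0 0) (P.cons (P.lf 0 36280 0) P.nil))) (P.cons (P.cons (P.lf 1500322 0 0) (P.cons (P.lf 0 82290 0) P.nil)) (P.cons (P.cons (P.lf 141340 0 0) P.nil) P.nil)))))) 124884)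
 EL.nil)))
noncomputable def S198_227_438_475_6 : EL := (EL.cons 12 (TM.mk (P.lf 8589934592 0 0) 0)
 (EL.cons 3 (TM.mk (P.cons (P.lf 0 1320724353 0) (P.cons (P.lf 409570215 0 0) (P.cons (P.lf 14623338 0 0) (P.cons (P.lf 0 1245645 0) (P.cons (P.lf 0 85526 0) (P.cons (P.lf 2831 0 0) P.nil)))))) 532)
 (EL.cons 7 (TM.mk (P.cons (P.lf 0 1997870342 0) (P.cons (P.lf 0 96267727 0) (P.cons (P.lf 13808992 0 0) (P.cons (P.lf 693290 0 0) (P.cons (P.lf 0 37347 0) (P.cons (P.lf 0 3551 0) P.nil)))))) 296)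
 EL.nil)))
noncomputable def S198_227_438_475_7 : EL := (EL.cons 12 (TM.mk (P.cons (P.cons (P.lf 2656217554 0 0) (P.cons (P.lf 0 361667656 0) (P.cons (P.lf 0 4404944 0) (P.lf 489432 0 0)))) (P.cons (P.cons (P.lf 34127348 0 0) (P.cons (P.lf 0 52281048 0) (P.cons (P.lf 0 636752 0) (P.lf 70744 0 0)))) (P.cons (P.cons (P.lf 0 183801310 0) (P.cons (P.lf 4980208 0 0) (P.cons (P.lf 60648 0 0) (P.lf 0 6736 0)))) (P.cons (P.cons (P.lf 2372240 0 0) (P.cons (P.lf 1058760 0 0) (P.cons (P.lf 12888 0 0) P.nil))) (P.cons (P.cons (P.lf 2687022 0 0) (P.cons (P.lf 0 18416 0) P.nil)) (P.cons (P.cons (P.lf 46298 0 0) P.nil) P.nil)))))) 44866)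
 (EL.cons 3 (TM.mk (P.cons (P.cons (P.lf 0 299504333 0) (P.cons (P.lf 0 111214648 0) (P.cons (P.lf 0 1354540 0) (P.lf 150502 0 0)))) (P.cons (P.cons (P.lf 0 1048851444 0) (P.cons (P.lf 18412116 0 0) (P.cons (P.lf 224250 0 0) (P.lf 0 24916 0)))) (P.cons (P.cons (P.lf 27384585 0 0) (P.cons (P.lf 7748376 0 0) (P.cons (P.lf 94366 0 0) (P.lf 0 10482 0)))) (P.cons (P.cons (P.lf 30287222 0 0) (P.cons (P.lf 0 76228 0) (P.cons (P.lf 0 928 0) P.nil))) (P.cons (P.cons (P.lf 856062 0 0) (P.cons (P.lf 0 145946 0) P.nil)) (P.cons (P.cons (P.lf 0 389364 0) P.nil) P.nil)))))) 105334)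
 (EL.cons 7 (TM.mk (P.cons (P.cons (P.lf 0 643385820 0) (P.cons (P.lf 123328441 0 0) (P.cons (P.lf 1502089 0 0) (P.lf 0 166900 0)))) (P.cons (P.cons (P.lf 246528043 0 0) (P.cons (P.lf 0 4327686 0) (P.cons (P.lf 0 52704 0) (P.lf 5854 0 0)))) (P.cons (P.cons (P.lf 0 50601568 0) (P.cons (P.lf 0 1045929 0) (P.cons (P.lf 0 12742 0) (P.lf 1416 0 0)))) (P.cons (P.cons (P.lf 0 4504558 0) (P.cons (P.lf 434035 0 0) (P.cons (P.lf 5285 0 0) P.nil))) (P.cons (P.cons (P.lf 1557573 0 0) (P.cons (P.lf 19524 0 0) P.nil)) (P.cons (P.cons (P.lf 102824 0 0) P.nil) P.nil)))))) 90595)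
 (EL.cons 10 (TM.mk (P.cons (P.cons (P.lf 0 2673938589 0) (P.cons (P.lf 0 75669801 0) (P.cons (P.lf 12355008 0 0) (P.cons (P.lf 85539 0 0) (P.lf 0 7128 0))))) (P.cons (P.cons (P.lf 0 257688381 0) (P.cons (P.lf 0 7292322 0) (P.cons (P.lf 1190655 0 0) (P.cons (P.lf 8241 0 0) (P.lf 0 684 0))))) (P.cons (P.cons (P.lf 30755373 0 0) (P.cons (P.lf 870345 0 0) (P.cons (P.lf 0 142104 0) (P.cons (P.lf 0 981 0) P.nil)))) (P.cons (P.cons (P.lf 3636891 0 0) (P.cons (P.lf 102918 0 0) (P.cons (P.lf 0 16803 0) P.nil))) (P.cons (P.cons (P.lf 0 138291 0) (P.cons (P.lf 0 3912 0) P.nil)) (P.cons (P.cons (P.lf 0 27144 0) P.nil) P.nil)))))) 4368)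
 EL.nil))))
noncomputable def S198_227_438_475_8 : EL := (EL.cons 12 (TM.mk (P.cons (P.cons (P.lf 821367336 0 0) (P.cons (P.lf 0 223672942 0) (P.cons (P.lf 12503298 0 0) (P.cons (P.lf 673616 0 0) (P.cons (P.lf 0 38954 0) (P.cons (P.lf 0 500 0) P.nil)))))) (P.cons (P.cons (P.lf 21106018 0 0) (P.cons (P.lf 0 35206924 0) (P.cons (P.lf 3973646 0 0) (P.cons (P.lf 154878 0 0) (P.cons (P.lf 0 11260 0) P.nil))))) (P.cons (P.cons (P.lf 0 113536120 0) (P.cons (P.lf 18141998 0 0) (P.cons (P.lf 119784 0 0) (P.cons (P.lf 0 27012 0) P.nil)))) (P.cons (P.cons (P.lf 6642 0 0) (P.cons (P.lf 2731946 0 0) (P.cons (P.lf 0 116508 0) P.nil))) (P.cons (P.cons (P.lf 5613484 0 0) (P.cons (P.lf 0 471244 0) P.nil)) (P.cons (P.cons (P.lf 0 51534 0) P.nil) P.nil)))))) 282172)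
 (EL.cons 3 (TM.mk (P.cons (P.cons (P.lf 0 58940790 0) (P.cons (P.lf 0 77950397 0) (P.cons (P.lf 10756961 0 0) (P.cons (P.lf 390639 0 0) (P.cons (P.lf 0 29946 0) (P.cons (P.lf 0 386 0) P.nil)))))) (P.cons (P.cons (P.lf 0 686958681 0) (P.cons (P.lf 107721594 0 0) (P.cons (P.lf 1066169 0 0) (P.cons (P.lf 0 151764 0) (P.cons (P.lf 625 0 0) P.nil))))) (P.cons (P.cons (P.lf 1557979 0 0) (P.cons (P.lf 24660497 0 0) (P.cons (P.lf 0 956591 0) (P.cons (P.lf 0 63984 0) P.nil)))) (P.cons (P.cons (P.lf 69166047 0 0) (P.cons (P.lf 0 5426182 0) (P.cons (P.lf 0 183543 0) P.nil))) (P.cons (P.cons (P.lf 0 101224 0) (P.cons (P.lf 0 1389072 0) P.nil)) (P.cons (P.cons (P.lf 0 2466528 0) P.nil) P.nil)))))) 624276)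
 (EL.cons 7 (TM.mk (P.cons (P.cons (P.lf 0 206865366 0) (P.cons (P.lf 78427656 0 0) (P.cons (P.lf 0 5888275 0) (P.cons (P.lf 0 272837 0) (P.cons (P.lf 17502 0 0) (P.cons (P.lf 224 0 0) P.nil)))))) (P.cons (P.cons (P.lf 161466698 0 0) (P.cons (P.lf 0 25319497 0) (P.cons (P.lf 0 250600 0) (P.cons (P.lf 35665 0 0) (P.cons (P.lf 0 143 0) P.nil))))) (P.cons (P.cons (P.lf 0 29292583 0) (P.cons (P.lf 0 1260415 0) (P.cons (P.lf 269734 0 0) (P.cons (P.lf 8647 0 0) P.nil)))) (P.cons (P.cons (P.lf 0 15464416 0) (P.cons (P.lf 2549337 0 0) (P.cons (P.lf 0 11656 0) P.nil))) (P.cons (P.cons (P.lf 4316663 0 0) (P.cons (P.lf 0 42699 0) P.nil)) (P.cons (P.cons (P.lf 448592 0 0) P.nil) P.nil)))))) 517344)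
 (EL.cons 10 (TM.mk (P.cons (P.cons (P.lf 0 1653694224 0) (P.cons (P.lf 178367280 0 0) (P.cons (P.lf 16755294 0 0) (P.cons (P.lf 0 1214580 0) (P.cons (P.lf 0 32904 0) (P.cons (P.lf 1920 0 0) P.nil)))))) (P.cons (P.cons (P.lf 0 180613908 0) (P.cons (P.lf 49136916 0 0) (P.cons (P.lf 3030408 0 0) (P.cons (P.lf 0 299586 0) (P.cons (P.lf 0 7344 0) P.nil))))) (P.cons (P.cons (P.lf 131403132 0 0) (P.cons (P.lf 1164942 0 0) (P.cons (P.lf 0 710508 0) (P.cons (P.lf 10170 0 0) P.nil)))) (P.cons (P.cons (P.lf 12044376 0 0) (P.cons (P.lf 0 1297740 0) (P.cons (P.lf 0 121968 0) P.nil))) (P.cons (P.cons (P.lf 0 3187992 0) (P.cons (P.lf 0 139236 0) P.nil)) (P.cons (P.cons (P.lf 0 346572 0) P.nil) P.nil)))))) 136242)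
 EL.nil))))
noncomputable def S198_227_438_475_9 : EL := (EL.cons 3 (TM.mk (P.cons (P.lf 0 1320724353 0) (P.cons (P.lf 409570215 0 0) (P.cons (P.lf 14623338 0 0) (P.cons (P.lf 0 1245645 0) (P.cons (P.lf 0 85526 0) (P.cons (P.lf 2831 0 0) P.nil)))))) 532)
 (EL.cons 7 (TM.mk (P.cons (P.lf 0 1997870342 0) (P.cons (P.lf 0 96267727 0) (P.cons (P.lf 13808992 0 0) (P.cons (P.lf 693290 0 0) (P.cons (P.lf 0 37347 0) (P.cons (P.lf 0 3551 0) P.nil)))))) 296)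
 EL.nil))
noncomputable def S198_227_438_475_10 : EL := (EL.cons 3 (TM.mk (P.cons (P.cons (P.lf 0 408400223 0) (P.cons (P.lf 55607324 0 0) (P.cons (P.lf 677270 0 0) (P.lf 0 75251 0)))) (P.cons (P.cons (P.lf 121401945 0 0) (P.cons (P.lf 0 9206058 0) (P.cons (P.lf 0 112125 0) (P.lf 12458 0 0)))) (P.cons (P.cons (P.lf 34409013 0 0) (P.cons (P.lf 0 3874188 0) (P.cons (P.lf 0 47183 0) (P.lf 5241 0 0)))) (P.cons (P.cons (P.lf 0 9455515 0) (P.cons (P.lf 38114 0 0) (P.cons (P.lf 464 0 0) P.nil))) (P.cons (P.cons (P.lf 0 644322 0) (P.cons (P.lf 72973 0 0) P.nil)) (P.cons (P.cons (P.lf 152226 0 0) P.nil) P.nil)))))) 24660)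
 (EL.cons 7 (TM.mk (P.cons (P.cons (P.lf 0 617790300 0) (P.cons (P.lf 84117646 0 0) (P.cons (P.lf 1024513 0 0) (P.lf 0 113833 0)))) (P.cons (P.cons (P.lf 0 37705763 0) (P.cons (P.lf 16212891 0 0) (P.cons (P.lf 197463 0 0) (P.lf 0 21938 0)))) (P.cons (P.cons (P.lf 46636619 0 0) (P.cons (P.lf 0 1153803 0) (P.cons (P.lf 0 14050 0) (P.lf 1560 0 0)))) (P.cons (P.cons (P.lf 1777370 0 0) (P.cons (P.lf 0 415298 0) (P.cons (P.lf 0 5056 0) P.nil))) (P.cons (P.cons (P.lf 0 955809 0) (P.cons (P.lf 0 2223 0) P.nil)) (P.cons (P.cons (P.lf 0 53149 0) P.nil) P.nil)))))) 20832)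
 EL.nil))
noncomputable def S198_227_438_475_11 : EL := (EL.cons 3 (TM.mk (P.cons (P.cons (P.lf 0 126287322 0) (P.cons (P.lf 34390285 0 0) (P.cons (P.lf 0 1922413 0) (P.cons (P.lf 0 103569 0) (P.cons (P.lf 5988 0 0) (P.cons (P.lf 76 0 0) P.nil)))))) (P.cons (P.cons (P.lf 35917893 0 0) (P.cons (P.lf 0 5251626 0) (P.cons (P.lf 0 14797 0) (P.cons (P.lf 8304 0 0) (P.cons (P.lf 0 125 0) P.nil))))) (P.cons (P.cons (P.lf 19861087 0 0) (P.cons (P.lf 0 4848829 0) (P.cons (P.lf 192331 0 0) (P.cons (P.lf 12684 0 0) P.nil)))) (P.cons (P.cons (P.lf 0 5497629 0) (P.cons (P.lf 417470 0 0) (P.cons (P.lf 28575 0 0) P.nil))) (P.cons (P.cons (P.lf 0 1067290 0) (P.cons (P.lf 240930 0 0) P.nil)) (P.cons (P.cons (P.lf 292110 0 0) P.nil) P.nil)))))) 112436)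
 (EL.cons 7 (TM.mk (P.cons (P.cons (P.lf 0 191035848 0) (P.cons (P.lf 52022460 0 0) (P.cons (P.lf 0 2908051 0) (P.cons (P.lf 0 156671 0) (P.cons (P.lf 9060 0 0) (P.cons (P.lf 116 0 0) P.nil)))))) (P.cons (P.cons (P.lf 0 14113990 0) (P.cons (P.lf 10695233 0 0) (P.cons (P.lf 0 1064326 0) (P.cons (P.lf 0 43571 0) (P.cons (P.lf 3055 0 0) P.nil))))) (P.cons (P.cons (P.lf 27490415 0 0) (P.cons (P.lf 0 4184521 0) (P.cons (P.lf 0 52292 0) (P.cons (P.lf 5629 0 0) P.nil)))) (P.cons (P.cons (P.lf 1371080 0 0) (P.cons (P.lf 0 913371 0) (P.cons (P.lf 33152 0 0) P.nil))) (P.cons (P.cons (P.lf 0 1490059 0) (P.cons (P.lf 106281 0 0) P.nil)) (P.cons (P.cons (P.lf 0 60508 0) P.nil) P.nil)))))) 95558)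
 EL.nil))
noncomputable def S198_227_438_475_12 : EL := (EL.cons 4 (TM.mk (P.cons (P.lf 1320724353 0 0) (P.cons (P.lf 0 409570215 0) (P.cons (P.lf 0 14623338 0) (P.cons (P.lf 1245645 0 0) (P.cons (P.lf 85526 0 0) (P.cons (P.lf 0 2831 0) P.nil)))))) 532)
 (EL.cons 8 (TM.mk (P.cons (P.lf 1997870342 0 0) (P.cons (P.lf 96267727 0 0) (P.cons (P.lf 0 13808992 0) (P.cons (P.lf 0 693290 0) (P.cons (P.lf 37347 0 0) (P.cons (P.lf 3551 0 0) P.nil)))))) 296)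
 EL.nil))
noncomputable def S198_227_438_475_13 : EL := (EL.cons 4 (TM.mk (P.cons (P.cons (P.lf 408400223 0 0) (P.cons (P.lf 0 55607324 0) (P.cons (P.lf 0 677270 0) (P.lf 75251 0 0)))) (P.cons (P.cons (P.lf 0 121401945 0) (P.cons (P.lf 9206058 0 0) (P.cons (P.lf 112125 0 0) (P.lf 0 12458 0)))) (P.cons (P.cons (P.lf 0 34409013 0) (P.cons (P.lf 3874188 0 0) (P.cons (P.lf 47183 0 0) (P.lf 0 5241 0)))) (P.cons (P.cons (P.lf 9455515 0 0) (P.cons (P.lf 0 38114 0) (P.cons (P.lf 0 464 0) P.nil))) (P.cons (P.cons (P.lf 644322 0 0) (P.cons (P.lf 0 72973 0) P.nil)) (P.cons (P.cons (P.lf 0 152226 0) P.nil) P.nil)))))) 24660)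
 (EL.cons 8 (TM.mk (P.cons (P.cons (P.lf 617790300 0 0) (P.cons (P.lf 0 84117646 0) (P.cons (P.lf 0 1024513 0) (P.lf 113833 0 0)))) (P.cons (P.cons (P.lf 37705763 0 0) (P.cons (P.lf 0 16212891 0) (P.cons (P.lf 0 197463 0) (P.lf 21938 0 0)))) (P.cons (P.cons (P.lf 0 46636619 0) (P.cons (P.lf 1153803 0 0) (P.cons (P.lf 14050 0 0) (P.lf 0 1560 0)))) (P.cons (P.cons (P.lf 0 1777370 0) (P.cons (P.lf 415298 0 0) (P.cons (P.lf 5056 0 0) P.nil))) (P.cons (P.cons (P.lf 955809 0 0) (P.cons (P.lf 2223 0 0) P.nil)) (P.cons (P.cons (P.lf 53149 0 0) P.nil) P.nil)))))) 20832)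
 EL.nil))
noncomputable def S198_227_438_475_14 : EL := (EL.cons 4 (TM.mk (P.cons (P.cons (P.lf 126287322 0 0) (P.cons (P.lf 0 34390285 0) (P.cons (P.lf 1922413 0 0) (P.cons (P.lf 103569 0 0) (P.cons (P.lf 0 5988 0) (P.cons (P.lf 0 76 0) P.nil)))))) (P.cons (P.cons (P.lf 0 35917893 0) (P.cons (P.lf 5251626 0 0) (P.cons (P.lf 14797 0 0) (P.cons (P.lf 0 8304 0) (P.cons (P.lf 125 0 0) P.nil))))) (P.cons (P.cons (P.lf 0 19861087 0) (P.cons (P.lf 4848829 0 0) (P.cons (P.lf 0 192331 0) (P.cons (P.lf 0 12684 0) P.nil)))) (P.cons (P.cons (P.lf 5497629 0 0) (P.cons (P.lf 0 417470 0) (P.cons (P.lf 0 28575 0) P.nil))) (P.cons (P.cons (P.lf 1067290 0 0) (P.cons (P.lf 0 240930 0) P.nil)) (P.cons (P.cons (P.lf 0 292110 0) P.nil) P.nil)))))) 112436)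
 (EL.cons 8 (TM.mk (P.cons (P.cons (P.lf 191035848 0 0) (P.cons (P.lf 0 52022460 0) (P.cons (P.lf 2908051 0 0) (P.cons (P.lf 156671 0 0) (P.cons (P.lf 0 9060 0) (P.cons (P.lf 0 116 0) P.nil)))))) (P.cons (P.cons (P.lf 14113990 0 0) (P.cons (P.lf 0 10695233 0) (P.cons (P.lf 1064326 0 0) (P.cons (P.lf 43571 0 0) (P.cons (P.lf 0 3055 0) P.nil))))) (P.cons (P.cons (P.lf 0 27490415 0) (P.cons (P.lf 4184521 0 0) (P.cons (P.lf 52292 0 0) (P.cons (P.lf 0 5629 0) P.nil)))) (P.cons (P.cons (P.lf 0 1371080 0) (P.cons (P.lf 913371 0 0) (P.cons (P.lf 0 33152 0) P.nil))) (P.cons (P.cons (P.lf 1490059 0 0) (P.cons (P.lf 0 106281 0) P.nil)) (P.cons (P.cons (P.lf 60508 0 0) P.nil) P.nil)))))) 95558)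
 EL.nil))
noncomputable def S198_227_438_475_15 : EL := (EL.cons 4 (TM.mk (P.cons (P.lf 0 433204774 0) (P.cons (P.lf 268682518 0 0) (P.cons (P.lf 0 32067537 0) (P.cons (P.lf 0 3792065 0) (P.cons (P.lf 144194 0 0) (P.cons (P.lf 28304 0 0) P.nil)))))) 2128)
 (EL.cons 8 (TM.mk (P.cons (P.lf 0 655312343 0) (P.cons (P.lf 171642763 0 0) (P.cons (P.lf 21577328 0 0) (P.cons (P.lf 0 1445658 0) (P.cons (P.lf 0 205138 0) (P.cons (P.lf 3748 0 0) P.nil)))))) 1533)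
 EL.nil))
noncomputable def S198_227_438_475_16 : EL := (EL.cons 4 (TM.mk (P.cons (P.cons (P.lf 0 133957495 0) (P.cons (P.lf 18239505 0 0) (P.cons (P.lf 222148 0 0) (P.lf 0 24682 0)))) (P.cons (P.cons (P.lf 81362096 0 0) (P.cons (P.lf 0 8675895 0) (P.cons (P.lf 0 105668 0) (P.lf 11740 0 0)))) (P.cons (P.cons (P.lf 420802 0 0) (P.cons (P.lf 0 536285 0) (P.cons (P.lf 0 6530 0) (P.lf 724 0 0)))) (P.cons (P.cons (P.lf 0 7168714 0) (P.cons (P.lf 457212 0 0) (P.cons (P.lf 5567 0 0) P.nil))) (P.cons (P.cons (P.lf 654370 0 0) (P.cons (P.lf 32461 0 0) P.nil)) (P.cons (P.cons (P.lf 163320 0 0) P.nil) P.nil)))))) 34009)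
 (EL.cons 8 (TM.mk (P.cons (P.cons (P.lf 0 202638579 0) (P.cons (P.lf 27591045 0 0) (P.cons (P.lf 336045 0 0) (P.lf 0 37337 0)))) (P.cons (P.cons (P.lf 50472613 0 0) (P.cons (P.lf 0 3238350 0) (P.cons (P.lf 0 39441 0) (P.lf 4382 0 0)))) (P.cons (P.cons (P.lf 21376071 0 0) (P.cons (P.lf 0 2333088 0) (P.cons (P.lf 0 28414 0) (P.lf 3156 0 0)))) (P.cons (P.cons (P.lf 0 4214970 0) (P.cons (P.lf 0 51716 0) (P.cons (P.lf 0 629 0) P.nil))) (P.cons (P.cons (P.lf 0 688460 0) (P.cons (P.lf 52506 0 0) P.nil)) (P.cons (P.cons (P.lf 87395 0 0) P.nil) P.nil)))))) 25076)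
 EL.nil))
noncomputable def S198_227_438_475_17 : EL := (EL.cons 4 (TM.mk (P.cons (P.cons (P.lf 0 41422928 0) (P.cons (P.lf 11280200 0 0) (P.cons (P.lf 0 630561 0) (P.cons (P.lf 0 33971 0) (P.cons (P.lf 1964 0 0) (P.cons (P.lf 24 0 0) P.nil)))))) (P.cons (P.cons (P.lf 24626940 0 0) (P.cons (P.lf 0 5220668 0) (P.cons (P.lf 190689 0 0) (P.cons (P.lf 13259 0 0) (P.cons (P.lf 0 649 0) P.nil))))) (P.cons (P.cons (P.lf 3319696 0 0) (P.cons (P.lf 0 1181154 0) (P.cons (P.lf 71572 0 0) (P.cons (P.lf 3691 0 0) P.nil)))) (P.cons (P.cons (P.lf 0 3992992 0) (P.cons (P.lf 659856 0 0) (P.cons (P.lf 0 10730 0) P.nil))) (P.cons (P.cons (P.lf 145427 0 0) (P.cons (P.lf 53278 0 0) P.nil)) (P.cons (P.cons (P.lf 231338 0 0) P.nil) P.nil)))))) 99533)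
 (EL.cons 8 (TM.mk (P.cons (P.cons (P.lf 0 62660797 0) (P.cons (P.lf 17063650 0 0) (P.cons (P.lf 0 953856 0) (P.cons (P.lf 0 51388 0) (P.cons (P.lf 2971 0 0) (P.cons (P.lf 38 0 0) P.nil)))))) (P.cons (P.cons (P.lf 14802292 0 0) (P.cons (P.lf 0 1783518 0) (P.cons (P.lf 0 53303 0) (P.cons (P.lf 1644 0 0) (P.cons (P.lf 80 0 0) P.nil))))) (P.cons (P.cons (P.lf 11146444 0 0) (P.cons (P.lf 0 2649374 0) (P.cons (P.lf 101669 0 0) (P.cons (P.lf 6847 0 0) P.nil)))) (P.cons (P.cons (P.lf 0 2354384 0) (P.cons (P.lf 103300 0 0) (P.cons (P.lf 19158 0 0) P.nil))) (P.cons (P.cons (P.lf 0 736472 0) (P.cons (P.lf 147377 0 0) P.nil)) (P.cons (P.cons (P.lf 135077 0 0) P.nil) P.nil)))))) 83074)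
 EL.nil))
noncomputable def S198_227_438_475_18 : EL := (EL.cons 4 (TM.mk (P.cons (P.lf 142093522 0 0) (P.cons (P.lf 0 132193991 0) (P.cons (P.lf 36274848 0 0) (P.cons (P.lf 0 908220 0) (P.cons (P.lf 0 623396 0) (P.cons (P.lf 0 4479 0) P.nil)))))) 6741)
 (EL.cons 8 (TM.mk (P.cons (P.lf 214946014 0 0) (P.cons (P.lf 0 122956731 0) (P.cons (P.lf 8001726 0 0) (P.cons (P.lf 3495072 0 0) (P.cons (P.lf 0 40579 0) (P.cons (P.lf 0 38127 0) P.nil)))))) 3726)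
 EL.nil))
noncomputable def S198_227_438_475_19 : EL := (EL.cons 4 (TM.mk (P.cons (P.cons (P.lf 43938786 0 0) (P.cons (P.lf 0 5982656 0) (P.cons (P.lf 0 72865 0) (P.lf 8095 0 0)))) (P.cons (P.cons (P.lf 0 40313080 0) (P.cons (P.lf 4701024 0 0) (P.cons (P.lf 57255 0 0) (P.lf 0 6360 0)))) (P.cons (P.cons (P.lf 7651453 0 0) (P.cons (P.lf 0 640347 0) (P.cons (P.lf 0 7799 0) (P.lf 866 0 0)))) (P.cons (P.cons (P.lf 2731108 0 0) (P.cons (P.lf 0 241668 0) (P.cons (P.lf 0 2942 0) P.nil))) (P.cons (P.cons (P.lf 0 964620 0) (P.cons (P.lf 36207 0 0) P.nil)) (P.cons (P.cons (P.lf 0 14996 0) P.nil) P.nil)))))) 42293)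
 (EL.cons 8 (TM.mk (P.cons (P.cons (P.lf 66466556 0 0) (P.cons (P.lf 0 9050013 0) (P.cons (P.lf 0 110224 0) (P.lf 12246 0 0)))) (P.cons (P.cons (P.lf 0 37167254 0) (P.cons (P.lf 3868698 0 0) (P.cons (P.lf 47118 0 0) (P.lf 0 5235 0)))) (P.cons (P.cons (P.lf 0 2613432 0) (P.cons (P.lf 536071 0 0) (P.cons (P.lf 6528 0 0) (P.lf 0 724 0)))) (P.cons (P.cons (P.lf 3802853 0 0) (P.cons (P.lf 0 240649 0) (P.cons (P.lf 0 2930 0) P.nil))) (P.cons (P.cons (P.lf 0 136596 0) (P.cons (P.lf 0 30540 0) P.nil)) (P.cons (P.cons (P.lf 0 121830 0) P.nil) P.nil)))))) 29091)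
 EL.nil))
noncomputable def S198_227_438_475_20 : EL := (EL.cons 4 (TM.mk (P.cons (P.cons (P.lf 13586945 0 0) (P.cons (P.lf 0 3699966 0) (P.cons (P.lf 206827 0 0) (P.cons (P.lf 11142 0 0) (P.cons (P.lf 0 644 0) (P.cons (P.lf 0 7 0) P.nil)))))) (P.cons (P.cons (P.lf 0 12291222 0) (P.cons (P.lf 2859805 0 0) (P.cons (P.lf 0 126686 0) (P.cons (P.lf 0 7803 0) (P.cons (P.lf 412 0 0) P.nil))))) (P.cons (P.cons (P.lf 1265683 0 0) (P.cons (P.lf 0 102643 0) (P.cons (P.lf 0 6369 0) (P.cons (P.lf 14 0 0) P.nil)))) (P.cons (P.cons (P.lf 1749648 0 0) (P.cons (P.lf 0 359030 0) (P.cons (P.lf 11687 0 0) P.nil))) (P.cons (P.cons (P.lf 0 448542 0) (P.cons (P.lf 46728 0 0) P.nil)) (P.cons (P.cons (P.lf 0 77167 0) P.nil) P.nil)))))) 78806)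
 (EL.cons 8 (TM.mk (P.cons (P.cons (P.lf 20553082 0 0) (P.cons (P.lf 0 5596970 0) (P.cons (P.lf 312869 0 0) (P.cons (P.lf 16855 0 0) (P.cons (P.lf 0 974 0) (P.cons (P.lf 0 12 0) P.nil)))))) (P.cons (P.cons (P.lf 0 11228954 0) (P.cons (P.lf 2320681 0 0) (P.cons (P.lf 0 79539 0) (P.cons (P.lf 0 5766 0) (P.cons (P.lf 275 0 0) P.nil))))) (P.cons (P.cons (P.lf 0 2378004 0) (P.cons (P.lf 749564 0 0) (P.cons (P.lf 0 42234 0) (P.cons (P.lf 0 2265 0) P.nil)))) (P.cons (P.cons (P.lf 1979186 0 0) (P.cons (P.lf 0 315127 0) (P.cons (P.lf 4158 0 0) P.nil))) (P.cons (P.cons (P.lf 39317 0 0) (P.cons (P.lf 0 47265 0) P.nil)) (P.cons (P.cons (P.lf 0 131575 0) P.nil) P.nil)))))) 64722)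
 EL.nil))
noncomputable def S198_227_438_475_21 : EL := (EL.cons 4 (TM.mk (P.cons (P.cons (P.lf 0 108895890 0) (P.cons (P.lf 166821972 0 0) (P.cons (P.lf 2031810 0 0) (P.lf 0 225753 0)))) (P.cons (P.cons (P.lf 1170253389 0 0) (P.cons (P.lf 0 27618174 0) (P.cons (P.lf 0 336375 0) (P.lf 37374 0 0)))) (P.cons (P.cons (P.lf 7024428 0 0) (P.cons (P.lf 0 11622564 0) (P.cons (P.lf 0 141549 0) (P.lf 15723 0 0)))) (P.cons (P.cons (P.lf 0 39742737 0) (P.cons (P.lf 114342 0 0) (P.cons (P.lf 1392 0 0) P.nil))) (P.cons (P.cons (P.lf 0 1500384 0) (P.cons (P.lf 218919 0 0) P.nil)) (P.cons (P.cons (P.lf 541590 0 0) P.nil) P.nil)))))) 80655)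
 (EL.cons 8 (TM.mk (P.cons (P.cons (P.lf 25595520 0 0) (P.cons (P.lf 0 39210795 0) (P.cons (P.lf 0 477576 0) (P.lf 53067 0 0)))) (P.cons (P.cons (P.lf 0 284233806 0) (P.cons (P.lf 20540577 0 0) (P.cons (P.lf 250167 0 0) (P.lf 0 27792 0)))) (P.cons (P.cons (P.lf 97238187 0 0) (P.cons (P.lf 0 107874 0) (P.cons (P.lf 0 1308 0) (P.lf 144 0 0)))) (P.cons (P.cons (P.lf 6281928 0 0) (P.cons (P.lf 0 849333 0) (P.cons (P.lf 0 10341 0) P.nil))) (P.cons (P.cons (P.lf 0 2513382 0) (P.cons (P.lf 0 21747 0) P.nil)) (P.cons (P.cons (P.lf 0 155973 0) P.nil) P.nil)))))) 69744)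
 (EL.cons 11 (TM.mk (P.cons (P.cons (P.lf 2673938589 0 0) (P.cons (P.lf 75669801 0 0) (P.cons (P.lf 0 12355008 0) (P.cons (P.lf 0 85539 0) (P.lf 7128 0 0))))) (P.cons (P.cons (P.lf 257688381 0 0) (P.cons (P.lf 7292322 0 0) (P.cons (P.lf 0 1190655 0) (P.cons (P.lf 0 8241 0) (P.lf 684 0 0))))) (P.cons (P.cons (P.lf 0 30755373 0) (P.cons (P.lf 0 870345 0) (P.cons (P.lf 142104 0 0) (P.cons (P.lf 981 0 0) P.nil)))) (P.cons (P.cons (P.lf 0 3636891 0) (P.cons (P.lf 0 102918 0) (P.cons (P.lf 16803 0 0) P.nil))) (P.cons (P.cons (P.lf 138291 0 0) (P.cons (P.lf 3912 0 0) P.nil)) (P.cons (P.cons (P.lf 27144 0 0) P.nil) P.nil)))))) 4368)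
 EL.nil)))
noncomputable def S198_227_438_475_22 : EL := (EL.cons 4 (TM.mk (P.cons (P.cons (P.lf 0 33673266 0) (P.cons (P.lf 56170341 0 0) (P.cons (P.lf 0 6339687 0) (P.cons (P.lf 0 247104 0) (P.cons (P.lf 17967 0 0) (P.cons (P.lf 231 0 0) P.nil)))))) (P.cons (P.cons (P.lf 361438287 0 0) (P.cons (P.lf 0 56486610 0) (P.cons (P.lf 0 540483 0) (P.cons (P.lf 80034 0 0) (P.cons (P.lf 0 375 0) P.nil))))) (P.cons (P.cons (P.lf 9151554 0 0) (P.cons (P.lf 0 14754663 0) (P.cons (P.lf 574461 0 0) (P.cons (P.lf 38334 0 0) P.nil)))) (P.cons (P.cons (P.lf 0 37331838 0) (P.cons (P.lf 2921826 0 0) (P.cons (P.lf 106059 0 0) P.nil))) (P.cons (P.cons (P.lf 0 483033 0) (P.cons (P.lf 815001 0 0) P.nil)) (P.cons (P.cons (P.lf 1379319 0 0) P.nil) P.nil)))))) 255909)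
 (EL.cons 8 (TM.mk (P.cons (P.cons (P.lf 7914759 0 0) (P.cons (P.lf 0 13202598 0) (P.cons (P.lf 1490112 0 0) (P.cons (P.lf 58083 0 0) (P.cons (P.lf 0 4221 0) (P.cons (P.lf 0 54 0) P.nil)))))) (P.cons (P.cons (P.lf 0 87790344 0) (P.cons (P.lf 18007365 0 0) (P.cons (P.lf 0 406863 0) (P.cons (P.lf 0 39618 0) (P.cons (P.lf 1599 0 0) P.nil))))) (P.cons (P.cons (P.lf 28391499 0 0) (P.cons (P.lf 0 1462053 0) (P.cons (P.lf 0 161013 0) (P.cons (P.lf 0 1509 0) P.nil)))) (P.cons (P.cons (P.lf 8417748 0 0) (P.cons (P.lf 0 1731354 0) (P.cons (P.lf 22404 0 0) P.nil))) (P.cons (P.cons (P.lf 0 2903361 0) (P.cons (P.lf 74490 0 0) P.nil)) (P.cons (P.cons (P.lf 0 254550 0) P.nil) P.nil)))))) 210882)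
 (EL.cons 11 (TM.mk (P.cons (P.cons (P.lf 826847112 0 0) (P.cons (P.lf 0 89183640 0) (P.cons (P.lf 0 8377647 0) (P.cons (P.lf 607290 0 0) (P.cons (P.lf 16452 0 0) (P.cons (P.lf 0 960 0) P.nil)))))) (P.cons (P.cons (P.lf 90306954 0 0) (P.cons (P.lf 0 24568458 0) (P.cons (P.lf 0 1515204 0) (P.cons (P.lf 149793 0 0) (P.cons (P.lf 3672 0 0) P.nil))))) (P.cons (P.cons (P.lf 0 65701566 0) (P.cons (P.lf 0 582471 0) (P.cons (P.lf 355254 0 0) (P.cons (P.lf 0 5085 0) P.nil)))) (P.cons (P.cons (P.lf 0 6022188 0) (P.cons (P.lf 648870 0 0) (P.cons (P.lf 60984 0 0) P.nil))) (P.cons (P.cons (P.lf 1593996 0 0) (P.cons (P.lf 69618 0 0) P.nil)) (P.cons (P.cons (P.lf 173286 0 0) P.nil) P.nil)))))) 68121)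
 EL.nil)))
noncomputable def S198_227_438_475_23 : EL := (EL.cons 4 (TM.mk (P.cons (P.cons (P.lf 35718444 0 0) (P.cons (P.lf 0 54718512 0) (P.cons (P.lf 0 666444 0) (P.lf 74046 0 0)))) (P.cons (P.cons (P.lf 0 394926135 0) (P.cons (P.lf 26027685 0 0) (P.cons (P.lf 317004 0 0) (P.lf 0 35220 0)))) (P.cons (P.cons (P.lf 116336139 0 0) (P.cons (P.lf 1608855 0 0) (P.cons (P.lf 19590 0 0) (P.lf 0 2175 0)))) (P.cons (P.cons (P.lf 18034092 0 0) (P.cons (P.lf 0 1371636 0) (P.cons (P.lf 0 16704 0) P.nil))) (P.cons (P.cons (P.lf 0 3884616 0) (P.cons (P.lf 0 97383 0) P.nil)) (P.cons (P.cons (P.lf 0 501702 0) P.nil) P.nil)))))) 143472)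
 (EL.cons 8 (TM.mk (P.cons (P.cons (P.lf 0 8395467 0) (P.cons (P.lf 12861354 0 0) (P.cons (P.lf 156645 0 0) (P.lf 0 17406 0)))) (P.cons (P.cons (P.lf 95833755 0 0) (P.cons (P.lf 0 10725858 0) (P.cons (P.lf 0 130632 0) (P.lf 14511 0 0)))) (P.cons (P.cons (P.lf 0 60713352 0) (P.cons (P.lf 1982322 0 0) (P.cons (P.lf 24141 0 0) (P.lf 0 2679 0)))) (P.cons (P.cons (P.lf 6790170 0 0) (P.cons (P.lf 354339 0 0) (P.cons (P.lf 4314 0 0) P.nil))) (P.cons (P.cons (P.lf 1903917 0 0) (P.cons (P.lf 0 85170 0) P.nil)) (P.cons (P.cons (P.lf 0 205707 0) P.nil) P.nil)))))) 68736)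
 (EL.cons 11 (TM.mk (P.cons (P.cons (P.lf 0 877066407 0) (P.cons (P.lf 0 24820104 0) (P.cons (P.lf 4052508 0 0) (P.cons (P.lf 28056 0 0) (P.lf 0 2337 0))))) (P.cons (P.cons (P.lf 187464126 0 0) (P.cons (P.lf 5305047 0 0) (P.cons (P.lf 0 866181 0) (P.cons (P.lf 0 5997 0) (P.lf 498 0 0))))) (P.cons (P.cons (P.lf 46010505 0 0) (P.cons (P.lf 1302048 0 0) (P.cons (P.lf 0 212592 0) (P.cons (P.lf 0 1470 0) P.nil)))) (P.cons (P.cons (P.lf 0 1826799 0) (P.cons (P.lf 0 51696 0) (P.cons (P.lf 8439 0 0) P.nil))) (P.cons (P.cons (P.lf 0 663507 0) (P.cons (P.lf 0 18774 0) P.nil)) (P.cons (P.cons (P.lf 0 2121 0) P.nil) P.nil)))))) 12426)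
 EL.nil)))
noncomputable def S198_227_438_475_24 : EL := (EL.cons 4 (TM.mk (P.cons (P.cons (P.lf 11045013 0 0) (P.cons (P.lf 0 18424176 0) (P.cons (P.lf 2079450 0 0) (P.cons (P.lf 81051 0 0) (P.cons (P.lf 0 5892 0) (P.cons (P.lf 0 75 0) P.nil)))))) (P.cons (P.cons (P.lf 0 121978896 0) (P.cons (P.lf 24241440 0 0) (P.cons (P.lf 0 467577 0) (P.cons (P.lf 0 51384 0) (P.cons (P.lf 1950 0 0) P.nil))))) (P.cons (P.cons (P.lf 33640677 0 0) (P.cons (P.lf 0 702090 0) (P.cons (P.lf 0 266427 0) (P.cons (P.lf 0 5328 0) P.nil)))) (P.cons (P.cons (P.lf 14498991 0 0) (P.cons (P.lf 0 2681709 0) (P.cons (P.lf 23643 0 0) P.nil))) (P.cons (P.cons (P.lf 0 3716739 0) (P.cons (P.lf 0 7425 0) P.nil)) (P.cons (P.cons (P.lf 0 647667 0) P.nil) P.nil)))))) 366504)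
 (EL.cons 8 (TM.mk (P.cons (P.cons (P.lf 0 2596083 0) (P.cons (P.lf 4330524 0 0) (P.cons (P.lf 0 488763 0) (P.cons (P.lf 0 19050 0) (P.cons (P.lf 1383 0 0) (P.cons (P.lf 15 0 0) P.nil)))))) (P.cons (P.cons (P.lf 29600781 0 0) (P.cons (P.lf 0 7249452 0) (P.cons (P.lf 285024 0 0) (P.cons (P.lf 18903 0 0) (P.cons (P.lf 0 954 0) P.nil))))) (P.cons (P.cons (P.lf 0 18213666 0) (P.cons (P.lf 2263281 0 0) (P.cons (P.lf 16839 0 0) (P.cons (P.lf 0 3321 0) P.nil)))) (P.cons (P.cons (P.lf 0 194424 0) (P.cons (P.lf 488658 0 0) (P.cons (P.lf 0 25665 0) P.nil))) (P.cons (P.cons (P.lf 1938654 0 0) (P.cons (P.lf 0 211143 0) P.nil)) (P.cons (P.cons (P.lf 0 188169 0) P.nil) P.nil)))))) 145893)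
 (EL.cons 11 (TM.mk (P.cons (P.cons (P.lf 0 271210350 0) (P.cons (P.lf 29252718 0 0) (P.cons (P.lf 2747913 0 0) (P.cons (P.lf 0 199194 0) (P.cons (P.lf 0 5394 0) (P.cons (P.lf 312 0 0) P.nil)))))) (P.cons (P.cons (P.lf 54483948 0 0) (P.cons (P.lf 0 1012980 0) (P.cons (P.lf 0 355158 0) (P.cons (P.lf 12636 0 0) (P.cons (P.lf 468 0 0) P.nil))))) (P.cons (P.cons (P.lf 33739197 0 0) (P.cons (P.lf 0 2631888 0) (P.cons (P.lf 0 301074 0) (P.cons (P.lf 19110 0 0) P.nil)))) (P.cons (P.cons (P.lf 0 4635531 0) (P.cons (P.lf 0 333717 0) (P.cons (P.lf 13218 0 0) P.nil))) (P.cons (P.cons (P.lf 0 1419513 0) (P.cons (P.lf 50544 0 0) P.nil)) (P.cons (P.cons (P.lf 102414 0 0) P.nil) P.nil)))))) 80343)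
 EL.nil)))
noncomputable def S198_227_438_475_25 : EL := (EL.cons 4 (TM.mk (P.cons (P.cons (P.lf 0 11715843 0) (P.cons (P.lf 17947968 0 0) (P.cons (P.lf 218595 0 0) (P.lf 0 24288 0)))) (P.cons (P.cons (P.lf 133171125 0 0) (P.cons (P.lf 0 14103072 0) (P.cons (P.lf 0 171768 0) (P.lf 19083 0 0)))) (P.cons (P.cons (P.lf 0 78200208 0) (P.cons (P.lf 1921041 0 0) (P.cons (P.lf 23397 0 0) (P.lf 0 2598 0)))) (P.cons (P.cons (P.lf 4472859 0 0) (P.cons (P.lf 725007 0 0) (P.cons (P.lf 8829 0 0) P.nil))) (P.cons (P.cons (P.lf 3652482 0 0) (P.cons (P.lf 0 108621 0) P.nil)) (P.cons (P.cons (P.lf 0 192654 0) P.nil) P.nil)))))) 152643)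
 (EL.cons 8 (TM.mk (P.cons (P.cons (P.lf 2753757 0 0) (P.cons (P.lf 0 4218594 0) (P.cons (P.lf 0 51381 0) (P.lf 5709 0 0)))) (P.cons (P.cons (P.lf 0 32287962 0) (P.cons (P.lf 4826367 0 0) (P.cons (P.lf 58782 0 0) (P.lf 0 6531 0)))) (P.cons (P.cons (P.lf 29631825 0 0) (P.cons (P.lf 0 1694514 0) (P.cons (P.lf 0 20637 0) (P.lf 2292 0 0)))) (P.cons (P.cons (P.lf 0 8052204 0) (P.cons (P.lf 42477 0 0) (P.cons (P.lf 516 0 0) P.nil))) (P.cons (P.cons (P.lf 0 183777 0) (P.cons (P.lf 74223 0 0) P.nil)) (P.cons (P.cons (P.lf 302535 0 0) P.nil) P.nil)))))) 71613)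
 (EL.cons 11 (TM.mk (P.cons (P.cons (P.lf 287682552 0 0) (P.cons (P.lf 8141127 0 0) (P.cons (P.lf 0 1329243 0) (P.cons (P.lf 0 9201 0) (P.lf 765 0 0))))) (P.cons (P.cons (P.lf 0 150702573 0) (P.cons (P.lf 0 4264731 0) (P.cons (P.lf 696324 0 0) (P.cons (P.lf 4821 0 0) (P.lf 0 402 0))))) (P.cons (P.cons (P.lf 791472 0 0) (P.cons (P.lf 22398 0 0) (P.cons (P.lf 0 3657 0) (P.cons (P.lf 0 24 0) P.nil)))) (P.cons (P.cons (P.lf 6231438 0 0) (P.cons (P.lf 176343 0 0) (P.cons (P.lf 0 28791 0) P.nil))) (P.cons (P.cons (P.lf 159549 0 0) (P.cons (P.lf 4512 0 0) P.nil)) (P.cons (P.cons (P.lf 0 92259 0) P.nil) P.nil)))))) 19989)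
 EL.nil)))
noncomputable def S198_227_438_475_26 : EL := (EL.cons 4 (TM.mk (P.cons (P.cons (P.lf 0 3622824 0) (P.cons (P.lf 6043230 0 0) (P.cons (P.lf 0 682071 0) (P.cons (P.lf 0 26583 0) (P.cons (P.lf 1932 0 0) (P.cons (P.lf 24 0 0) P.nil)))))) (P.cons (P.cons (P.lf 41133216 0 0) (P.cons (P.lf 0 9825393 0) (P.cons (P.lf 364884 0 0) (P.cons (P.lf 25098 0 0) (P.cons (P.lf 0 1239 0) P.nil))))) (P.cons (P.cons (P.lf 0 23401644 0) (P.cons (P.lf 2629164 0 0) (P.cons (P.lf 47379 0 0) (P.cons (P.lf 0 3183 0) P.nil)))) (P.cons (P.cons (P.lf 0 1780302 0) (P.cons (P.lf 901938 0 0) (P.cons (P.lf 0 37197 0) P.nil))) (P.cons (P.cons (P.lf 2853591 0 0) (P.cons (P.lf 0 279999 0) P.nil)) (P.cons (P.cons (P.lf 0 120771 0) P.nil) P.nil)))))) 246588)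
 (EL.cons 8 (TM.mk (P.cons (P.cons (P.lf 851529 0 0) (P.cons (P.lf 0 1420434 0) (P.cons (P.lf 160317 0 0) (P.cons (P.lf 6249 0 0) (P.cons (P.lf 0 453 0) (P.cons (P.lf 0 3 0) P.nil)))))) (P.cons (P.cons (P.lf 0 9973284 0) (P.cons (P.lf 2818350 0 0) (P.cons (P.lf 0 143205 0) (P.cons (P.lf 0 8136 0) (P.cons (P.lf 453 0 0) P.nil))))) (P.cons (P.cons (P.lf 8975682 0 0) (P.cons (P.lf 0 1464039 0) (P.cons (P.lf 21693 0 0) (P.cons (P.lf 2943 0 0) P.nil)))) (P.cons (P.cons (P.lf 0 1680576 0) (P.cons (P.lf 42264 0 0) (P.cons (P.lf 11316 0 0) P.nil))) (P.cons (P.cons (P.lf 0 730914 0) (P.cons (P.lf 129330 0 0) P.nil)) (P.cons (P.cons (P.lf 263214 0 0) P.nil) P.nil)))))) 100143)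
 (EL.cons 11 (TM.mk (P.cons (P.cons (P.lf 88958469 0 0) (P.cons (P.lf 0 9595050 0) (P.cons (P.lf 0 901329 0) (P.cons (P.lf 65334 0 0) (P.cons (P.lf 1770 0 0) (P.cons (P.lf 0 102 0) P.nil)))))) (P.cons (P.cons (P.lf 0 45457968 0) (P.cons (P.lf 3307785 0 0) (P.cons (P.lf 396006 0 0) (P.cons (P.lf 0 24405 0) (P.cons (P.lf 0 702 0) P.nil))))) (P.cons (P.cons (P.lf 0 6509616 0) (P.cons (P.lf 866472 0 0) (P.cons (P.lf 72606 0 0) (P.cons (P.lf 0 5703 0) P.nil)))) (P.cons (P.cons (P.lf 5234130 0 0) (P.cons (P.lf 0 170976 0) (P.cons (P.lf 0 37098 0) P.nil))) (P.cons (P.cons (P.lf 105528 0 0) (P.cons (P.lf 0 60390 0) P.nil)) (P.cons (P.cons (P.lf 0 206601 0) P.nil) P.nil)))))) 76056)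
 EL.nil)))
noncomputable def S198_227_438_475_27 : EL := (EL.cons 13 (TM.mk (P.lf 0 4294967296 0) 0)
 EL.nil)
noncomputable def S198_227_438_475_28 : EL := (EL.cons 13 (TM.mk (P.cons (P.cons (P.lf 0 1328108777 0) (P.cons (P.lf 180833828 0 0) (P.cons (P.lf 2202472 0 0) (P.lf 0 244716 0)))) (P.cons (P.cons (P.lf 0 17063674 0) (P.cons (P.lf 26140524 0 0) (P.cons (P.lf 318376 0 0) (P.lf 0 35372 0)))) (P.cons (P.cons (P.lf 91900655 0 0) (P.cons (P.lf 0 2490104 0) (P.cons (P.lf 0 30324 0) (P.lf 3368 0 0)))) (P.cons (P.cons (P.lf 0 1186120 0) (P.cons (P.lf 0 529380 0) (P.cons (P.lf 0 6444 0) P.nil))) (P.cons (P.cons (P.lf 0 1343511 0) (P.cons (P.lf 9208 0 0) P.nil)) (P.cons (P.cons (P.lf 0 23149 0) P.nil) P.nil)))))) 22433)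
 EL.nil)
noncomputable def S198_227_438_475_29 : EL := (EL.cons 13 (TM.mk (P.cons (P.cons (P.lf 0 410683668 0) (P.cons (P.lf 111836471 0 0) (P.cons (P.lf 0 6251649 0) (P.cons (P.lf 0 336808 0) (P.cons (P.lf 19477 0 0) (P.cons (P.lf 250 0 0) P.nil)))))) (P.cons (P.cons (P.lf 0 10553009 0) (P.cons (P.lf 17603462 0 0) (P.cons (P.lf 0 1986823 0) (P.cons (P.lf 0 77439 0) (P.cons (P.lf 5630 0 0) P.nil))))) (P.cons (P.cons (P.lf 56768060 0 0) (P.cons (P.lf 0 9070999 0) (P.cons (P.lf 0 59892 0) (P.cons (P.lf 13506 0 0) P.nil)))) (P.cons (P.cons (P.lf 0 3321 0) (P.cons (P.lf 0 1365973 0) (P.cons (P.lf 58254 0 0) P.nil))) (P.cons (P.cons (P.lf 0 2806742 0) (P.cons (P.lf 235622 0 0) P.nil)) (P.cons (P.cons (P.lf 25767 0 0) P.nil) P.nil)))))) 141086)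
 EL.nil)
noncomputable def S198_227_438_475_30 : EL := (EL.cons 13 (TM.mk (P.cons (P.lf 1408772644 0 0) (P.cons (P.lf 0 436874896 0) (P.cons (P.lf 0 15598228 0) (P.cons (P.lf 1328688 0 0) (P.cons (P.lf 91228 0 0) (P.cons (P.lf 0 3020 0) P.nil)))))) 560)
 EL.nil)
noncomputable def S198_227_438_475_31 : EL := (EL.cons 13 (TM.mk (P.cons (P.cons (P.lf 435626905 0 0) (P.cons (P.lf 0 59314479 0) (P.cons (P.lf 0 722422 0) (P.lf 80268 0 0)))) (P.cons (P.cons (P.lf 0 129495409 0) (P.cons (P.lf 9819796 0 0) (P.cons (P.lf 119601 0 0) (P.lf 0 13289 0)))) (P.cons (P.cons (P.lf 0 36702948 0) (P.cons (P.lf 4132468 0 0) (P.cons (P.lf 50329 0 0) (P.lf 0 5591 0)))) (P.cons (P.cons (P.lf 10085883 0 0) (P.cons (P.lf 0 40655 0) (P.cons (P.lf 0 495 0) P.nil))) (P.cons (P.cons (P.lf 687277 0 0) (P.cons (P.lf 0 77838 0) P.nil)) (P.cons (P.cons (P.lf 0 162375 0) P.nil) P.nil)))))) 26284)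
 EL.nil)
noncomputable def S198_227_438_475_32 : EL := (EL.cons 13 (TM.mk (P.cons (P.cons (P.lf 134706477 0 0) (P.cons (P.lf 0 36682971 0) (P.cons (P.lf 2050574 0 0) (P.cons (P.lf 110474 0 0) (P.cons (P.lf 0 6388 0) (P.cons (P.lf 0 82 0) P.nil)))))) (P.cons (P.cons (P.lf 0 38312420 0) (P.cons (P.lf 5601735 0 0) (P.cons (P.lf 15784 0 0) (P.cons (P.lf 0 8858 0) (P.cons (P.lf 134 0 0) P.nil))))) (P.cons (P.cons (P.lf 0 21185160 0) (P.cons (P.lf 5172085 0 0) (P.cons (P.lf 0 205154 0) (P.cons (P.lf 0 13530 0) P.nil)))) (P.cons (P.cons (P.lf 5864138 0 0) (P.cons (P.lf 0 445302 0) (P.cons (P.lf 0 30481 0) P.nil))) (P.cons (P.cons (P.lf 1138443 0 0) (P.cons (P.lf 0 256993 0) P.nil)) (P.cons (P.cons (P.lf 0 311585 0) P.nil) P.nil)))))) 119909)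
 EL.nil)
noncomputable def S198_227_438_475_33 : EL := (EL.cons 14 (TM.mk (P.lf 8589934592 0 0) 0)
 EL.nil)
noncomputable def S198_227_438_475_34 : EL := (EL.cons 14 (TM.mk (P.cons (P.cons (P.lf 2656217554 0 0) (P.cons (P.lf 0 361667656 0) (P.cons (P.lf 0 4404944 0) (P.lf 489432 0 0)))) (P.cons (P.cons (P.lf 34127348 0 0) (P.cons (P.lf 0 52281048 0) (P.cons (P.lf 0 636752 0) (P.lf 70744 0 0)))) (P.cons (P.cons (P.lf 0 183801310 0) (P.cons (P.lf 4980208 0 0) (P.cons (P.lf 60648 0 0) (P.lf 0 6736 0)))) (P.cons (P.cons (P.lf 2372240 0 0) (P.cons (P.lf 1058760 0 0) (P.cons (P.lf 12888 0 0) P.nil))) (P.cons (P.cons (P.lf 2687022 0 0) (P.cons (P.lf 0 18416 0) P.nil)) (P.cons (P.cons (P.lf 46298 0 0) P.nil) P.nil)))))) 44866)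
 EL.nil)
noncomputable def S198_227_438_475_35 : EL := (EL.cons 14 (TM.mk (P.cons (P.cons (P.lf 821367336 0 0) (P.cons (P.lf 0 223672942 0) (P.cons (P.lf 12503298 0 0) (P.cons (P.lf 673616 0 0) (P.cons (P.lf 0 38954 0) (P.cons (P.lf 0 500 0) P.nil)))))) (P.cons (P.cons (P.lf 21106018 0 0) (P.cons (P.lf 0 35206924 0) (P.cons (P.lf 3973646 0 0) (P.cons (P.lf 154878 0 0) (P.cons (P.lf 0 11260 0) P.nil))))) (P.cons (P.cons (P.lf 0 113536120 0) (P.cons (P.lf 18141998 0 0) (P.cons (P.lf 119784 0 0) (P.cons (P.lf 0 27012 0) P.nil)))) (P.cons (P.cons (P.lf 6642 0 0) (P.cons (P.lf 2731946 0 0) (P.cons (P.lf 0 116508 0) P.nil))) (P.cons (P.cons (P.lf 5613484 0 0) (P.cons (P.lf 0 471244 0) P.nil)) (P.cons (P.cons (P.lf 0 51534 0) P.nil) P.nil)))))) 282172)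
 EL.nil)
noncomputable def S198_227_438_475_36 : EL := (EL.cons 14 (TM.mk (P.cons (P.lf 0 2817545288 0) (P.cons (P.lf 873749792 0 0) (P.cons (P.lf 31196456 0 0) (P.cons (P.lf 0 2657376 0) (P.cons (P.lf 0 182456 0) (P.cons (P.lf 6040 0 0) P.nil)))))) 1120)
 EL.nil)
noncomputable def S198_227_438_475_37 : EL := (EL.cons 14 (TM.mk (P.cons (P.cons (P.lf 0 871253810 0) (P.cons (P.lf 118628958 0 0) (P.cons (P.lf 1444844 0 0) (P.lf 0 160536 0)))) (P.cons (P.cons (P.lf 258990818 0 0) (P.cons (P.lf 0 19639592 0) (P.cons (P.lf 0 239202 0) (P.lf 26578 0 0)))) (P.cons (P.cons (P.lf 73405896 0 0) (P.cons (P.lf 0 8264936 0) (P.cons (P.lf 0 100658 0) (P.lf 11182 0 0)))) (P.cons (P.cons (P.lf 0 20171766 0) (P.cons (P.lf 81310 0 0) (P.cons (P.lf 990 0 0) P.nil))) (P.cons (P.cons (P.lf 0 1374554 0) (P.cons (P.lf 155676 0 0) P.nil)) (P.cons (P.cons (P.lf 324750 0 0) P.nil) P.nil))))))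 52568)
 EL.nil)
noncomputable def S198_227_438_475_38 : EL := (EL.cons 14 (TM.mk (P.cons (P.cons (P.lf 0 269412954 0) (P.cons (P.lf 73365942 0 0) (P.cons (P.lf 0 4101148 0) (P.cons (P.lf 0 220948 0) (P.cons (P.lf 12776 0 0) (P.cons (P.lf 164 0 0) P.nil)))))) (P.cons (P.cons (P.lf 76624840 0 0) (P.cons (P.lf 0 11203470 0) (P.cons (P.lf 0 31568 0) (P.cons (P.lf 17716 0 0) (P.cons (P.lf 0 268 0) P.nil))))) (P.cons (P.cons (P.lf 42370320 0 0) (P.cons (P.lf 0 10344170 0) (P.cons (P.lf 410308 0 0) (P.cons (P.lf 27060 0 0) P.nil)))) (P.cons (P.cons (P.lf 0 11728276 0) (P.cons (P.lf 890604 0 0) (P.cons (P.lf 60962 0 0) P.nil))) (P.cons (P.cons (P.lf 0 2276886 0) (P.cons (P.lf 513986 0 0) P.nil)) (P.cons (P.cons (P.lf 623170 0 0) P.nil) P.nil)))))) 239818)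
 EL.nil)
noncomputable def S198_227_438_475_39 : EL := (EL.cons 14 (TM.mk (P.cons (P.lf 924170186 0 0) (P.cons (P.lf 0 573189372 0) (P.cons (P.lf 68410746 0 0) (P.cons (P.lf 8089740 0 0) (P.cons (P.lf 0 307614 0) (P.cons (P.lf 0 60382 0) P.nil)))))) 4526)
 EL.nil)
noncomputable def S198_227_438_475_40 : EL := (EL.cons 14 (TM.mk (P.cons (P.cons (P.lf 285775990 0 0) (P.cons (P.lf 0 38910944 0) (P.cons (P.lf 0 473916 0) (P.lf 52656 0 0)))) (P.cons (P.cons (P.lf 0 173572472 0) (P.cons (P.lf 18508576 0 0) (P.cons (P.lf 225426 0 0) (P.lf 0 25046 0)))) (P.cons (P.cons (P.lf 0 897712 0) (P.cons (P.lf 1144076 0 0) (P.cons (P.lf 13932 0 0) (P.lf 0 1546 0)))) (P.cons (P.cons (P.lf 15293258 0 0) (P.cons (P.lf 0 975386 0) (P.cons (P.lf 0 11878 0) P.nil))) (P.cons (P.cons (P.lf 0 1395990 0) (P.cons (P.lf 0 69252 0) P.nil)) (P.cons (P.cons (P.lf 0 348418 0) P.nil) P.nil)))))) 72512)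
 EL.nil)
noncomputable def S198_227_438_475_41 : EL := (EL.cons 14 (TM.mk (P.cons (P.cons (P.lf 88368914 0 0) (P.cons (P.lf 0 24064428 0) (P.cons (P.lf 1345198 0 0) (P.cons (P.lf 72472 0 0) (P.cons (P.lf 0 4190 0) (P.cons (P.lf 0 52 0) P.nil)))))) (P.cons (P.cons (P.lf 0 52537474 0) (P.cons (P.lf 11137426 0 0) (P.cons (P.lf 0 406804 0) (P.cons (P.lf 0 28286 0) (P.cons (P.lf 1386 0 0) P.nil))))) (P.cons (P.cons (P.lf 0 7082020 0) (P.cons (P.lf 2519796 0 0) (P.cons (P.lf 0 152688 0) (P.cons (P.lf 0 7876 0) P.nil)))) (P.cons (P.cons (P.lf 8518384 0 0) (P.cons (P.lf 0 1407694 0) (P.cons (P.lf 22892 0 0) P.nil))) (P.cons (P.cons (P.lf 0 310246 0) (P.cons (P.lf 0 113660 0) P.nil)) (P.cons (P.cons (P.lf 0 493522 0) P.nil) P.nil)))))) 212292)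
 EL.nil)
noncomputable def S198_227_438_475_42 : EL := (EL.cons 14 (TM.mk (P.cons (P.lf 0 303132848 0) (P.cons (P.lf 282013848 0 0) (P.cons (P.lf 0 77386344 0) (P.cons (P.lf 1937536 0 0) (P.cons (P.lf 1329912 0 0) (P.cons (P.lf 9556 0 0) P.nil)))))) 14366)
 EL.nil)
noncomputable def S198_227_438_475_43 : EL := (EL.cons 14 (TM.mk (P.cons (P.cons (P.lf 0 93736078 0) (P.cons (P.lf 12763000 0 0) (P.cons (P.lf 155446 0 0) (P.lf 0 17270 0)))) (P.cons (P.cons (P.lf 86001238 0 0) (P.cons (P.lf 0 10028852 0) (P.cons (P.lf 0 122146 0) (P.lf 13570 0 0)))) (P.cons (P.cons (P.lf 0 16323100 0) (P.cons (P.lf 1366074 0 0) (P.cons (P.lf 16638 0 0) (P.lf 0 1848 0)))) (P.cons (P.cons (P.lf 0 5826364 0) (P.cons (P.lf 515560 0 0) (P.cons (P.lf 6278 0 0) P.nil))) (P.cons (P.cons (P.lf 2057856 0 0) (P.cons (P.lf 0 77242 0) P.nil)) (P.cons (P.cons (P.lf 31992 0 0) P.nil) P.nil)))))) 90186)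
 EL.nil)
noncomputable def S198_227_438_475_44 : EL := (EL.cons 14 (TM.mk (P.cons (P.cons (P.lf 0 28985484 0) (P.cons (P.lf 7893262 0 0) (P.cons (P.lf 0 441232 0) (P.cons (P.lf 0 23770 0) (P.cons (P.lf 1374 0 0) (P.cons (P.lf 16 0 0) P.nil)))))) (P.cons (P.cons (P.lf 26221274 0 0) (P.cons (P.lf 0 6100918 0) (P.cons (P.lf 270264 0 0) (P.cons (P.lf 16648 0 0) (P.cons (P.lf 0 880 0) P.nil))))) (P.cons (P.cons (P.lf 0 2700124 0) (P.cons (P.lf 218972 0 0) (P.cons (P.lf 13588 0 0) (P.cons (P.lf 0 30 0) P.nil)))) (P.cons (P.cons (P.lf 0 3732584 0) (P.cons (P.lf 765932 0 0) (P.cons (P.lf 0 24934 0) P.nil))) (P.cons (P.cons (P.lf 956890 0 0) (P.cons (P.lf 0 99688 0) P.nil)) (P.cons (P.cons (P.lf 164624 0 0) P.nil) P.nil)))))) 168074)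
 EL.nil)
noncomputable def S198_227_438_475_45 : EL := (EL.cons 14 (TM.mk (P.cons (P.cons (P.lf 253986838 0 0) (P.cons (P.lf 0 103747704 0) (P.cons (P.lf 12862574 0 0) (P.cons (P.lf 0 156636 0) (P.cons (P.lf 0 59562 0) (P.cons (P.lf 1852 0 0) P.nil)))))) (P.cons (P.cons (P.lf 9789744 0 0) (P.cons (P.lf 0 17663222 0) (P.cons (P.lf 4050398 0 0) (P.cons (P.lf 0 150234 0) (P.cons (P.lf 0 21070 0) P.nil))))) (P.cons (P.cons (P.lf 0 52599320 0) (P.cons (P.lf 15384102 0 0) (P.cons (P.lf 0 831496 0) (P.cons (P.lf 0 59342 0) P.nil)))) (P.cons (P.cons (P.lf 0 673796 0) (P.cons (P.lf 2412634 0 0) (P.cons (P.lf 0 380752 0) P.nil))) (P.cons (P.cons (P.lf 4427978 0 0) (P.cons (P.lf 0 904118 0) P.nil)) (P.cons (P.cons (P.lf 0 14100 0) P.nil) P.nil)))))) 531138)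
 EL.nil)
noncomputable def S198_227_438_475_46 : EL := (EL.cons 15 (TM.mk (P.lf 4294967296 0 0) 0)
 EL.nil)
noncomputable def S198_227_438_475_47 : EL := (EL.cons 15 (TM.mk (P.cons (P.cons (P.lf 1328108777 0 0) (P.cons (P.lf 0 180833828 0) (P.cons (P.lf 0 2202472 0) (P.lf 244716 0 0)))) (P.cons (P.cons (P.lf 17063674 0 0) (P.cons (P.lf 0 26140524 0) (P.cons (P.lf 0 318376 0) (P.lf 35372 0 0)))) (P.cons (P.cons (P.lf 0 91900655 0) (P.cons (P.lf 2490104 0 0) (P.cons (P.lf 30324 0 0) (P.lf 0 3368 0)))) (P.cons (P.cons (P.lf 1186120 0 0) (P.cons (P.lf 529380 0 0) (P.cons (P.lf 6444 0 0) P.nil))) (P.cons (P.cons (P.lf 1343511 0 0) (P.cons (P.lf 0 9208 0) P.nil)) (P.cons (P.cons (P.lf 23149 0 0) P.nil) P.nil)))))) 22433)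
 EL.nil)
noncomputable def S198_227_438_475_48 : EL := (EL.cons 15 (TM.mk (P.cons (P.cons (P.lf 410683668 0 0) (P.cons (P.lf 0 111836471 0) (P.cons (P.lf 6251649 0 0) (P.cons (P.lf 336808 0 0) (P.cons (P.lf 0 19477 0) (P.cons (P.lf 0 250 0) P.nil)))))) (P.cons (P.cons (P.lf 10553009 0 0) (P.cons (P.lf 0 17603462 0) (P.cons (P.lf 1986823 0 0) (P.cons (P.lf 77439 0 0) (P.cons (P.lf 0 5630 0) P.nil))))) (P.cons (P.cons (P.lf 0 56768060 0) (P.cons (P.lf 9070999 0 0) (P.cons (P.lf 59892 0 0) (P.cons (P.lf 0 13506 0) P.nil)))) (P.cons (P.cons (P.lf 3321 0 0) (P.cons (P.lf 1365973 0 0) (P.cons (P.lf 0 58254 0) P.nil))) (P.cons (P.cons (P.lf 2806742 0 0) (P.cons (P.lf 0 235622 0) P.nil)) (P.cons (P.cons (P.lf 0 25767 0) P.nil) P.nil)))))) 141086)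
 EL.nil)
noncomputable def S198_227_438_475 : SL := (SL.cons S198_227_438_475_0 (SL.cons S198_227_438_475_1 (SL.cons S198_227_438_475_2 (SL.cons S198_227_438_475_3 (SL.cons S198_227_438_475_4 (SL.cons S198_227_438_475_5 (SL.cons S198_227_438_475_6 (SL.cons S198_227_438_475_7 (SL.cons S198_227_438_475_8 (SL.cons S198_227_438_475_9 (SL.cons S198_227_438_475_10 (SL.cons S198_227_438_475_11 (SL.cons S198_227_438_475_12 (SL.cons S198_227_438_475_13 (SL.cons S198_227_438_475_14 (SL.cons S198_227_438_475_15 (SL.cons S198_227_438_475_16 (SL.cons S198_227_438_475_17 (SL.cons S198_227_438_475_18 (SL.cons S198_227_438_475_19 (SL.cons S198_227_438_475_20 (SL.cons S198_227_438_475_21 (SL.cons S198_227_438_475_22 (SL.cons S198_227_438_475_23 (SL.cons S198_227_438_475_24 (SL.cons S198_227_438_475_25 (SL.cons S198_227_438_475_26 (SL.cons S198_227_438_475_27 (SL.cons S198_227_438_475_28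 (SL.cons S198_227_438_475_29 (SL.cons S198_227_438_475_30 (SL.cons S198_227_438_475_31 (SL.cons S198_227_438_475_32 (SL.cons S198_227_438_475_33 (SL.cons S198_227_438_475_34 (SL.cons S198_227_438_475_35 (SL.cons S198_227_438_475_36 (SL.cons S198_227_438_475_37 (SL.cons S198_227_438_475_38 (SL.cons S198_227_438_475_39 (SL.cons S198_227_438_475_40 (SL.cons S198_227_438_475_41 (SL.cons S198_227_438_475_42 (SL.cons S198_227_438_475_43 (SL.cons S198_227_438_475_44 (SL.cons S198_227_438_475_45 (SL.cons S198_227_438_475_46 (SL.cons S198_227_438_475_47 (SL.cons S198_227_438_475_48 SL.nil)))))))))))))))))))))))))))))))))))))))))))))))))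
noncomputable def S198_227_438_512_0 : EL := (EL.cons 0 (TM.mk (P.cons (P.lf 7643457911 0 0) (P.cons (P.lf 503779721 0 0) (P.cons (P.lf 0 60126632 0) (P.cons (P.lf 0 7110123 0) (P.cons (P.lf 270363 0 0) (P.cons (P.lf 53070 0 0) P.nil)))))) 3984)
 (EL.cons 1 (TM.mk (P.cons (P.lf 0 1228710643 0) (P.cons (P.lf 321830180 0 0) (P.cons (P.lf 40457490 0 0) (P.cons (P.lf 0 2710608 0) (P.cons (P.lf 0 384633 0) (P.cons (P.lf 7027 0 0) P.nil)))))) 2881)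
 (EL.cons 5 (TM.mk (P.cons (P.lf 4583770480 0 0) (P.cons (P.lf 0 179121676 0) (P.cons (P.lf 21378358 0 0) (P.cons (P.lf 2528040 0 0) (P.cons (P.lf 0 96128 0) (P.cons (P.lf 0 18870 0) P.nil)))))) 1697)
 (EL.cons 9 (TM.mk (P.lf 6442450944 0 0) 2)
 EL.nil))))
noncomputable def S198_227_438_512_1 : EL := (EL.cons 0 (TM.mk (P.cons (P.cons (P.lf 2074978107 0 0) (P.cons (P.lf 0 447340653 0) (P.cons (P.lf 0 7120019 0) (P.lf 2373343 0 0)))) (P.cons (P.cons (P.lf 808839542 0 0) (P.cons (P.lf 0 237797835 0) (P.cons (P.lf 0 3784858 0) (P.lf 1261616 0 0)))) (P.cons (P.cons (P.lf 0 397380887 0) (P.cons (P.lf 1796235 0 0) (P.cons (P.lf 28589 0 0) (P.lf 0 9532 0)))) (P.cons (P.cons (P.lf 0 40400363 0) (P.cons (P.lf 9124156 0 0) (P.cons (P.lf 145214 0 0) P.nil))) (P.cons (P.cons (P.lf 11383415 0 0) (P.cons (P.lf 459818 0 0) P.nil)) (P.cons (P.cons (P.lf 1219235 0 0) P.nil) P.nil))))))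 553373)
 (EL.cons 1 (TM.mk (P.cons (P.cons (P.lf 0 304186021 0) (P.cons (P.lf 239312226 0 0) (P.cons (P.lf 3808968 0 0) (P.lf 0 1269653 0)))) (P.cons (P.cons (P.lf 541532876 0 0) (P.cons (P.lf 0 10456578 0) (P.cons (P.lf 0 166428 0) (P.lf 55474 0 0)))) (P.cons (P.cons (P.lf 113913380 0 0) (P.cons (P.lf 0 26109004 0) (P.cons (P.lf 0 415548 0) (P.lf 138513 0 0)))) (P.cons (P.cons (P.lf 0 36924163 0) (P.cons (P.lf 0 1172560 0) (P.cons (P.lf 0 18661 0) P.nil))) (P.cons (P.cons (P.lf 0 4547435 0) (P.cons (P.lf 665180 0 0) P.nil)) (P.cons (P.cons (P.lf 737011 0 0) P.nil) P.nil)))))) 268405)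
 (EL.cons 5 (TM.mk (P.cons (P.cons (P.lf 1209269245 0 0) (P.cons (P.lf 0 468261268 0) (P.cons (P.lf 0 7452996 0) (P.lf 2484334 0 0)))) (P.cons (P.cons (P.lf 0 303499139 0) (P.cons (P.lf 0 6131608 0) (P.cons (P.lf 0 97596 0) (P.lf 32540 0 0)))) (P.cons (P.cons (P.lf 0 10661130 0) (P.cons (P.lf 7999560 0 0) (P.cons (P.lf 127322 0 0) (P.lf 0 42438 0)))) (P.cons (P.cons (P.lf 17290666 0 0) (P.cons (P.lf 0 1407698 0) (P.cons (P.lf 0 22400 0) P.nil))) (P.cons (P.cons (P.lf 0 1779285 0) (P.cons (P.lf 0 195438 0) P.nil)) (P.cons (P.cons (P.lf 0 403348 0) P.nil) P.nil)))))) 260566)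
 (EL.cons 9 (TM.mk (P.cons (P.cons (P.lf 1717975783 0 0) (P.cons (P.lf 0 553513866 0) (P.cons (P.lf 0 8809902 0) (P.lf 2936634 0 0)))) (P.cons (P.cons (P.lf 0 14039785 0) (P.cons (P.lf 0 80013480 0) (P.cons (P.lf 0 1273518 0) (P.lf 424506 0 0)))) (P.cons (P.cons (P.lf 0 134075380 0) (P.cons (P.lf 7621956 0 0) (P.cons (P.lf 121308 0 0) (P.lf 0 40434 0)))) (P.cons (P.cons (P.lf 2581854 0 0) (P.cons (P.lf 1620384 0 0) (P.cons (P.lf 25788 0 0) P.nil))) (P.cons (P.cons (P.lf 2001304 0 0) (P.cons (P.lf 0 28188 0) P.nil)) (P.cons (P.cons (P.lf 26599 0 0) P.nil) P.nil)))))) 51848)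
 (EL.cons 2 (TM.mk (P.cons (P.cons (P.lf 841695263 0 0) (P.cons (P.lf 31200494 0 0) (P.cons (P.lf 0 15459955 0) (P.cons (P.lf 0 140287 0) (P.lf 35071 0 0))))) (P.cons (P.cons (P.lf 0 179903902 0) (P.cons (P.lf 0 6668791 0) (P.cons (P.lf 3304409 0 0) (P.cons (P.lf 29984 0 0) (P.lf 0 7495 0))))) (P.cons (P.cons (P.lf 0 44154950 0) (P.cons (P.lf 0 1636762 0) (P.cons (P.lf 811020 0 0) (P.cons (P.lf 7357 0 0) P.nil)))) (P.cons (P.cons (P.lf 1753126 0 0) (P.cons (P.lf 64985 0 0) (P.cons (P.lf 0 32200 0) P.nil))) (P.cons (P.cons (P.lf 636747 0 0) (P.cons (P.lf 23602 0 0) P.nil)) (P.cons (P.cons (P.lf 2036 0 0) P.nil) P.nil)))))) 24849)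
 (EL.cons 6 (TM.mk (P.cons (P.cons (P.lf 1273239189 0 0) (P.cons (P.lf 47197239 0 0) (P.cons (P.lf 0 23386401 0) (P.cons (P.lf 0 212217 0) (P.lf 53052 0 0))))) (P.cons (P.cons (P.lf 184053747 0 0) (P.cons (P.lf 6822618 0 0) (P.cons (P.lf 0 3380631 0) (P.cons (P.lf 0 30675 0) (P.lf 7668 0 0))))) (P.cons (P.cons (P.lf 0 17532675 0) (P.cons (P.lf 0 649911 0) (P.cons (P.lf 322032 0 0) (P.cons (P.lf 2922 0 0) P.nil)))) (P.cons (P.cons (P.lf 0 3727353 0) (P.cons (P.lf 0 138165 0) (P.cons (P.lf 68460 0 0) P.nil))) (P.cons (P.cons (P.lf 64845 0 0) (P.cons (P.lf 2403 0 0) P.nil)) (P.cons (P.cons (P.lf 37704 0 0) P.nil) P.nil)))))) 14091)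
 EL.nil))))))
noncomputable def S198_227_438_512_2 : EL := (EL.cons 0 (TM.mk (P.cons (P.cons (P.lf 563120075 0 0) (P.cons (P.lf 0 244892580 0) (P.cons (P.lf 16548747 0 0) (P.cons (P.lf 1950138 0 0) (P.cons (P.lf 0 211777 0) (P.cons (P.lf 0 3453 0) P.nil)))))) (P.cons (P.cons (P.lf 395394306 0 0) (P.cons (P.lf 0 244551114 0) (P.cons (P.lf 28050113 0 0) (P.cons (P.lf 2314248 0 0) (P.cons (P.lf 0 330835 0) P.nil))))) (P.cons (P.cons (P.lf 0 212164635 0) (P.cons (P.lf 41538842 0 0) (P.cons (P.lf 4944338 0 0) (P.cons (P.lf 0 84044 0) P.nil)))) (P.cons (P.cons (P.lf 0 48119590 0) (P.cons (P.lf 26909032 0 0) (P.cons (P.lf 0 1211383 0) P.nil))) (P.cons (P.cons (P.lf 19313261 0 0) (P.cons (P.lf 0 1021752 0) P.nil)) (P.cons (P.cons (P.lf 2239548 0 0) P.nil) P.nil)))))) 3265328)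
 (EL.cons 1 (TM.mk (P.cons (P.cons (P.lf 0 74857648 0) (P.cons (P.lf 123599770 0 0) (P.cons (P.lf 0 30084618 0) (P.cons (P.lf 0 1676041 0) (P.cons (P.lf 331982 0 0) (P.cons (P.lf 5411 0 0) P.nil)))))) (P.cons (P.cons (P.lf 265827970 0 0) (P.cons (P.lf 0 85049182 0) (P.cons (P.lf 0 5254682 0) (P.cons (P.lf 327037 0 0) (P.cons (P.lf 40399 0 0) P.nil))))) (P.cons (P.cons (P.lf 54919276 0 0) (P.cons (P.lf 0 48484341 0) (P.cons (P.lf 3494967 0 0) (P.cons (P.lf 393040 0 0) P.nil)))) (P.cons (P.cons (P.lf 0 38788604 0) (P.cons (P.lf 4225369 0 0) (P.cons (P.lf 873141 0 0) P.nil))) (P.cons (P.cons (P.lf 0 5651985 0) (P.cons (P.lf 3294859 0 0) P.nil)) (P.cons (P.cons (P.lf 2120064 0 0) P.nil) P.nil)))))) 1551943)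
 (EL.cons 5 (TM.mk (P.cons (P.cons (P.lf 318986643 0 0) (P.cons (P.lf 0 247493289 0) (P.cons (P.lf 42687802 0 0) (P.cons (P.lf 2797318 0 0) (P.cons (P.lf 0 482938 0) (P.cons (P.lf 0 7875 0) P.nil)))))) (P.cons (P.cons (P.lf 0 149070852 0) (P.cons (P.lf 41322276 0 0) (P.cons (P.lf 4882566 0 0) (P.cons (P.lf 0 84729 0) (P.cons (P.lf 0 43767 0) P.nil))))) (P.cons (P.cons (P.lf 0 5569610 0) (P.cons (P.lf 16343338 0 0) (P.cons (P.lf 0 1620871 0) (P.cons (P.lf 0 146581 0) P.nil)))) (P.cons (P.cons (P.lf 19332042 0 0) (P.cons (P.lf 0 5354267 0) (P.cons (P.lf 0 32363 0) P.nil))) (P.cons (P.cons (P.lf 0 2507705 0) (P.cons (P.lf 0 483731 0) P.nil)) (P.cons (P.cons (P.lf 0 911864 0) P.nil) P.nil)))))) 1531509)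
 (EL.cons 9 (TM.mk (P.cons (P.cons (P.lf 458123905 0 0) (P.cons (P.lf 0 295205481 0) (P.cons (P.lf 42857478 0 0) (P.cons (P.lf 3080028 0 0) (P.cons (P.lf 0 492564 0) (P.cons (P.lf 0 8031 0) P.nil)))))) (P.cons (P.cons (P.lf 0 7487836 0) (P.cons (P.lf 0 40261075 0) (P.cons (P.lf 13108174 0 0) (P.cons (P.lf 651267 0 0) (P.cons (P.lf 0 142405 0) P.nil))))) (P.cons (P.cons (P.lf 0 71475808 0) (P.cons (P.lf 27452374 0 0) (P.cons (P.lf 120976 0 0) (P.cons (P.lf 0 155701 0) P.nil)))) (P.cons (P.cons (P.lf 1961350 0 0) (P.cons (P.lf 3717688 0 0) (P.cons (P.lf 0 408589 0) P.nil))) (P.cons (P.cons (P.lf 3846376 0 0) (P.cons (P.lf 0 747363 0) P.nil)) (P.cons (P.cons (P.lf 0 101998 0) P.nil) P.nil)))))) 413081)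
 (EL.cons 2 (TM.mk (P.cons (P.cons (P.lf 448901229 0 0) (P.cons (P.lf 0 127991131 0) (P.cons (P.lf 0 15908535 0) (P.cons (P.lf 3263715 0 0) (P.cons (P.lf 113535 0 0) (P.cons (P.lf 0 19732 0) P.nil)))))) (P.cons (P.cons (P.lf 0 99616674 0) (P.cons (P.lf 6313578 0 0) (P.cons (P.lf 2359901 0 0) (P.cons (P.lf 0 214368 0) (P.cons (P.lf 0 10710 0) P.nil))))) (P.cons (P.cons (P.lf 0 57798478 0) (P.cons (P.lf 11905081 0 0) (P.cons (P.lf 1805928 0 0) (P.cons (P.lf 0 314623 0) P.nil)))) (P.cons (P.cons (P.lf 9290120 0 0) (P.cons (P.lf 1137628 0 0) (P.cons (P.lf 0 128604 0) P.nil))) (P.cons (P.cons (P.lf 2548530 0 0) (P.cons (P.lf 0 260831 0) P.nil)) (P.cons (P.cons (P.lf 0 214863 0) P.nil) P.nil)))))) 313717)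
 (EL.cons 6 (TM.mk (P.cons (P.cons (P.lf 679056498 0 0) (P.cons (P.lf 0 193613214 0) (P.cons (P.lf 0 24064968 0) (P.cons (P.lf 4937046 0 0) (P.cons (P.lf 171744 0 0) (P.cons (P.lf 0 29850 0) P.nil)))))) (P.cons (P.cons (P.lf 92611914 0 0) (P.cons (P.lf 0 59820132 0) (P.cons (P.lf 0 5052522 0) (P.cons (P.lf 1444638 0 0) (P.cons (P.lf 45330 0 0) P.nil))))) (P.cons (P.cons (P.lf 0 63148266 0) (P.cons (P.lf 0 887220 0) (P.cons (P.lf 1236894 0 0) (P.cons (P.lf 0 23022 0) P.nil)))) (P.cons (P.cons (P.lf 0 8551740 0) (P.cons (P.lf 1834962 0 0) (P.cons (P.lf 271092 0 0) P.nil))) (P.cons (P.cons (P.lf 1719150 0 0) (P.cons (P.lf 185124 0 0) P.nil)) (P.cons (P.cons (P.lf 285774 0 0) P.nil) P.nil)))))) 256092)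
 EL.nil))))))
noncomputable def S198_227_438_512_3 : EL := (EL.cons 0 (TM.mk (P.cons (P.lf 812258952 0 0) (P.cons (P.lf 0 503779721 0) (P.cons (P.lf 60126632 0 0) (P.cons (P.lf 7110123 0 0) (P.cons (P.lf 0 270363 0) (P.cons (P.lf 0 53070 0) P.nil)))))) 3984)
 (EL.cons 1 (TM.mk (P.cons (P.lf 1228710643 0 0) (P.cons (P.lf 0 321830180 0) (P.cons (P.lf 0 40457490 0) (P.cons (P.lf 2710608 0 0) (P.cons (P.lf 384633 0 0) (P.cons (P.lf 0 7027 0) P.nil)))))) 2881)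
 (EL.cons 5 (TM.mk (P.cons (P.lf 1858680464 0 0) (P.cons (P.lf 179121676 0 0) (P.cons (P.lf 0 21378358 0) (P.cons (P.lf 0 2528040 0) (P.cons (P.lf 96128 0 0) (P.cons (P.lf 18870 0 0) P.nil)))))) 1690)
 EL.nil)))
noncomputable def S198_227_438_512_4 : EL := (EL.cons 0 (TM.mk (P.cons (P.cons (P.lf 216600982 0 0) (P.cons (P.lf 0 69786574 0) (P.cons (P.lf 0 1110744 0) (P.lf 370248 0 0)))) (P.cons (P.cons (P.lf 0 136110512 0) (P.cons (P.lf 33195035 0 0) (P.cons (P.lf 528342 0 0) (P.lf 0 176113 0)))) (P.cons (P.cons (P.lf 227416 0 0) (P.cons (P.lf 2051896 0 0) (P.cons (P.lf 32656 0 0) (P.lf 0 10884 0)))) (P.cons (P.cons (P.lf 12574785 0 0) (P.cons (P.lf 0 1749350 0) (P.cons (P.lf 0 27841 0) P.nil))) (P.cons (P.cons (P.lf 0 1288469 0) (P.cons (P.lf 0 124203 0) P.nil)) (P.cons (P.cons (P.lf 0 290578 0) P.nil) P.nil)))))) 99674)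
 (EL.cons 1 (TM.mk (P.cons (P.cons (P.lf 327654046 0 0) (P.cons (P.lf 0 105566713 0) (P.cons (P.lf 0 1680232 0) (P.lf 560075 0 0)))) (P.cons (P.cons (P.lf 0 88498505 0) (P.cons (P.lf 12390322 0 0) (P.cons (P.lf 197206 0 0) (P.lf 0 65733 0)))) (P.cons (P.cons (P.lf 0 35658230 0) (P.cons (P.lf 8926680 0 0) (P.cons (P.lf 142078 0 0) (P.lf 0 47358 0)))) (P.cons (P.cons (P.lf 8001088 0 0) (P.cons (P.lf 197872 0 0) (P.cons (P.lf 3148 0 0) P.nil))) (P.cons (P.cons (P.lf 1191345 0 0) (P.cons (P.lf 0 200896 0) P.nil)) (P.cons (P.cons (P.lf 0 170236 0) P.nil) P.nil)))))) 69697)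
 (EL.cons 5 (TM.mk (P.cons (P.cons (P.lf 495644910 0 0) (P.cons (P.lf 0 159691616 0) (P.cons (P.lf 0 2541702 0) (P.lf 847232 0 0)))) (P.cons (P.cons (P.lf 43714918 0 0) (P.cons (P.lf 0 38473838 0) (P.cons (P.lf 0 612360 0) (P.lf 204118 0 0)))) (P.cons (P.cons (P.lf 0 44772652 0) (P.cons (P.lf 1811088 0 0) (P.cons (P.lf 28822 0 0) (P.lf 0 9606 0)))) (P.cons (P.cons (P.lf 0 3610414 0) (P.cons (P.lf 1162118 0 0) (P.cons (P.lf 18494 0 0) P.nil))) (P.cons (P.cons (P.lf 1125224 0 0) (P.cons (P.lf 34764 0 0) P.nil)) (P.cons (P.cons (P.lf 112182 0 0) P.nil) P.nil)))))) 52874)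
 EL.nil)))
noncomputable def S198_227_438_512_5 : EL := (EL.cons 0 (TM.mk (P.cons (P.cons (P.lf 57759887 0 0) (P.cons (P.lf 0 37219264 0) (P.cons (P.lf 5403434 0 0) (P.cons (P.lf 388327 0 0) (P.cons (P.lf 0 62101 0) (P.cons (P.lf 0 1012 0) P.nil)))))) (P.cons (P.cons (P.lf 0 36767930 0) (P.cons (P.lf 18008070 0 0) (P.cons (P.lf 0 1698653 0) (P.cons (P.lf 0 158735 0) (P.cons (P.lf 20561 0 0) P.nil))))) (P.cons (P.cons (P.lf 0 4150469 0) (P.cons (P.lf 3854344 0 0) (P.cons (P.lf 0 609781 0) (P.cons (P.lf 0 41811 0) P.nil)))) (P.cons (P.cons (P.lf 6272191 0 0) (P.cons (P.lf 0 2379517 0) (P.cons (P.lf 108660 0 0) P.nil))) (P.cons (P.cons (P.lf 0 362986 0) (P.cons (P.lf 0 160773 0) P.nil)) (P.cons (P.cons (P.lf 0 377671 0) P.nil) P.nil)))))) 383536)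
 (EL.cons 1 (TM.mk (P.cons (P.cons (P.lf 87373845 0 0) (P.cons (P.lf 0 56301881 0) (P.cons (P.lf 8173818 0 0) (P.cons (P.lf 587424 0 0) (P.cons (P.lf 0 93941 0) (P.cons (P.lf 0 1530 0) P.nil)))))) (P.cons (P.cons (P.lf 0 24313490 0) (P.cons (P.lf 7068243 0 0) (P.cons (P.lf 359073 0 0) (P.cons (P.lf 0 29649 0) (P.cons (P.lf 0 2553 0) P.nil))))) (P.cons (P.cons (P.lf 0 16134823 0) (P.cons (P.lf 9100809 0 0) (P.cons (P.lf 0 900877 0) (P.cons (P.lf 0 81570 0) P.nil)))) (P.cons (P.cons (P.lf 4184390 0 0) (P.cons (P.lf 0 533703 0) (P.cons (P.lf 0 148254 0) P.nil))) (P.cons (P.cons (P.lf 1108661 0 0) (P.cons (P.lf 0 535211 0) P.nil)) (P.cons (P.cons (P.lf 0 254932 0) P.nil) P.nil)))))) 318353)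
 (EL.cons 5 (TM.mk (P.cons (P.cons (P.lf 132171118 0 0) (P.cons (P.lf 0 85168308 0) (P.cons (P.lf 12364604 0 0) (P.cons (P.lf 888602 0 0) (P.cons (P.lf 0 142106 0) (P.cons (P.lf 0 2316 0) P.nil)))))) (P.cons (P.cons (P.lf 10577096 0 0) (P.cons (P.lf 0 19823228 0) (P.cons (P.lf 4973356 0 0) (P.cons (P.lf 273528 0 0) (P.cons (P.lf 0 54778 0) P.nil))))) (P.cons (P.cons (P.lf 0 22349546 0) (P.cons (P.lf 7780356 0 0) (P.cons (P.lf 257136 0 0) (P.cons (P.lf 0 37032 0) P.nil)))) (P.cons (P.cons (P.lf 0 1576328 0) (P.cons (P.lf 2085280 0 0) (P.cons (P.lf 0 174830 0) P.nil))) (P.cons (P.cons (P.lf 1411186 0 0) (P.cons (P.lf 0 191956 0) P.nil)) (P.cons (P.cons (P.lf 100282 0 0) P.nil) P.nil)))))) 242488)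
 EL.nil)))
noncomputable def S198_227_438_512_6 : EL := (EL.cons 12 (TM.mk (P.lf 8589934592 0 0) 0)
 (EL.cons 3 (TM.mk (P.cons (P.lf 0 1320724353 0) (P.cons (P.lf 409570215 0 0) (P.cons (P.lf 14623338 0 0) (P.cons (P.lf 0 1245645 0) (P.cons (P.lf 0 85526 0) (P.cons (P.lf 2831 0 0) P.nil)))))) 532)
 (EL.cons 7 (TM.mk (P.cons (P.lf 0 1997870342 0) (P.cons (P.lf 0 96267727 0) (P.cons (P.lf 13808992 0 0) (P.cons (P.lf 693290 0 0) (P.cons (P.lf 0 37347 0) (P.cons (P.lf 0 3551 0) P.nil)))))) 296)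
 EL.nil)))
noncomputable def S198_227_438_512_7 : EL := (EL.cons 12 (TM.mk (P.cons (P.cons (P.lf 2290634378 0 0) (P.cons (P.lf 0 738018488 0) (P.cons (P.lf 0 11746536 0) (P.lf 3915512 0 0)))) (P.cons (P.cons (P.lf 0 18719714 0) (P.cons (P.lf 0 106684640 0) (P.cons (P.lf 0 1698024 0) (P.lf 566008 0 0)))) (P.cons (P.cons (P.lf 0 178767174 0) (P.cons (P.lf 10162608 0 0) (P.cons (P.lf 161744 0 0) (P.lf 0 53912 0)))) (P.cons (P.cons (P.lf 3442472 0 0) (P.cons (P.lf 2160512 0 0) (P.cons (P.lf 34384 0 0) P.nil))) (P.cons (P.cons (P.lf 2668406 0 0) (P.cons (P.lf 0 37584 0) P.nil)) (P.cons (P.cons (P.lf 35466 0 0) P.nil) P.nil)))))) 69106)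
 (EL.cons 3 (TM.mk (P.cons (P.cons (P.lf 0 411923020 0) (P.cons (P.lf 0 226944448 0) (P.cons (P.lf 0 3612118 0) (P.lf 1204038 0 0)))) (P.cons (P.cons (P.lf 0 1030239989 0) (P.cons (P.lf 37571736 0 0) (P.cons (P.lf 598002 0 0) (P.lf 0 199332 0)))) (P.cons (P.cons (P.lf 35216850 0 0) (P.cons (P.lf 15811328 0 0) (P.cons (P.lf 251654 0 0) (P.lf 0 83882 0)))) (P.cons (P.cons (P.lf 30210170 0 0) (P.cons (P.lf 0 155550 0) (P.cons (P.lf 0 2474 0) P.nil))) (P.cons (P.cons (P.lf 708535 0 0) (P.cons (P.lf 0 297822 0) P.nil)) (P.cons (P.cons (P.lf 0 393917 0) P.nil) P.nil)))))) 162282)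
 (EL.cons 7 (TM.mk (P.cons (P.cons (P.lf 0 518722199 0) (P.cons (P.lf 251663835 0 0) (P.cons (P.lf 4005565 0 0) (P.lf 0 1335189 0)))) (P.cons (P.cons (P.lf 242153503 0 0) (P.cons (P.lf 0 8831074 0) (P.cons (P.lf 0 140557 0) (P.lf 46851 0 0)))) (P.cons (P.cons (P.lf 0 51658816 0) (P.cons (P.lf 0 2134322 0) (P.cons (P.lf 0 33974 0) (P.lf 11326 0 0)))) (P.cons (P.cons (P.lf 0 4065821 0) (P.cons (P.lf 885692 0 0) (P.cons (P.lf 14095 0 0) P.nil))) (P.cons (P.cons (P.lf 1577312 0 0) (P.cons (P.lf 39840 0 0) P.nil)) (P.cons (P.cons (P.lf 95346 0 0) P.nil) P.nil)))))) 142495)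
 (EL.cons 10 (TM.mk (P.cons (P.cons (P.lf 0 2737174968 0) (P.cons (P.lf 0 101463342 0) (P.cons (P.lf 50275452 0 0) (P.cons (P.lf 456219 0 0) (P.lf 0 114054 0))))) (P.cons (P.cons (P.lf 0 263782491 0) (P.cons (P.lf 0 9778056 0) (P.cons (P.lf 4845060 0 0) (P.cons (P.lf 43965 0 0) (P.lf 0 10989 0))))) (P.cons (P.cons (P.lf 31482714 0 0) (P.cons (P.lf 1167021 0 0) (P.cons (P.lf 0 578262 0) (P.cons (P.lf 0 5247 0) P.nil)))) (P.cons (P.cons (P.lf 3722901 0 0) (P.cons (P.lf 138000 0 0) (P.cons (P.lf 0 68379 0) P.nil))) (P.cons (P.cons (P.lf 0 141561 0) (P.cons (P.lf 0 5247 0) P.nil)) (P.cons (P.cons (P.lf 0 27786 0) P.nil) P.nil)))))) 9000)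
 EL.nil))))
noncomputable def S198_227_438_512_8 : EL := (EL.cons 12 (TM.mk (P.cons (P.cons (P.lf 610831874 0 0) (P.cons (P.lf 0 393607308 0) (P.cons (P.lf 57143304 0 0) (P.cons (P.lf 4106704 0 0) (P.cons (P.lf 0 656752 0) (P.cons (P.lf 0 10708 0) P.nil)))))) (P.cons (P.cons (P.lf 0 9983782 0) (P.cons (P.lf 0 53681434 0) (P.cons (P.lf 17477566 0 0) (P.cons (P.lf 868356 0 0) (P.cons (P.lf 0 189874 0) P.nil))))) (P.cons (P.cons (P.lf 0 95301078 0) (P.cons (P.lf 36603166 0 0) (P.cons (P.lf 161302 0 0) (P.cons (P.lf 0 207602 0) P.nil)))) (P.cons (P.cons (P.lf 2615134 0 0) (P.cons (P.lf 4956918 0 0) (P.cons (P.lf 0 544786 0) P.nil))) (P.cons (P.cons (P.lf 5128502 0 0) (P.cons (P.lf 0 996484 0) P.nil)) (P.cons (P.cons (P.lf 0 135998 0) P.nil) P.nil)))))) 550746)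
 (EL.cons 3 (TM.mk (P.cons (P.cons (P.lf 0 125773892 0) (P.cons (P.lf 0 110772279 0) (P.cons (P.lf 46982686 0 0) (P.cons (P.lf 2139397 0 0) (P.cons (P.lf 0 504885 0) (P.cons (P.lf 0 8230 0) P.nil)))))) (P.cons (P.cons (P.lf 0 578322036 0) (P.cons (P.lf 218802405 0 0) (P.cons (P.lf 2458896 0 0) (P.cons (P.lf 0 1193421 0) (P.cons (P.lf 10601 0 0) P.nil))))) (P.cons (P.cons (P.lf 25201150 0 0) (P.cons (P.lf 45136822 0 0) (P.cons (P.lf 0 4515541 0) (P.cons (P.lf 0 406077 0) P.nil)))) (P.cons (P.cons (P.lf 63561106 0 0) (P.cons (P.lf 0 11557210 0) (P.cons (P.lf 0 673038 0) P.nil))) (P.cons (P.cons (P.lf 0 1470565 0) (P.cons (P.lf 0 2694190 0) P.nil)) (P.cons (P.cons (P.lf 0 2369856 0) P.nil) P.nil)))))) 1347289)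
 (EL.cons 7 (TM.mk (P.cons (P.cons (P.lf 0 134581112 0) (P.cons (P.lf 131807337 0 0) (P.cons (P.lf 0 26398715 0) (P.cons (P.lf 0 1606418 0) (P.cons (P.lf 295153 0 0) (P.cons (P.lf 4812 0 0) P.nil)))))) (P.cons (P.cons (P.lf 135932119 0 0) (P.cons (P.lf 0 51428568 0) (P.cons (P.lf 0 577957 0) (P.cons (P.lf 280504 0 0) (P.cons (P.lf 0 2491 0) P.nil))))) (P.cons (P.cons (P.lf 0 30275348 0) (P.cons (P.lf 0 1395912 0) (P.cons (P.lf 1164897 0 0) (P.cons (P.lf 45196 0 0) P.nil)))) (P.cons (P.cons (P.lf 0 12931114 0) (P.cons (P.lf 5025983 0 0) (P.cons (P.lf 0 97848 0) P.nil))) (P.cons (P.cons (P.lf 4259702 0 0) (P.cons (P.lf 0 142855 0) P.nil)) (P.cons (P.cons (P.lf 347499 0 0) P.nil) P.nil)))))) 913757)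
 (EL.cons 10 (TM.mk (P.cons (P.cons (P.lf 0 1459817184 0) (P.cons (P.lf 416224428 0 0) (P.cons (P.lf 51734226 0 0) (P.cons (P.lf 0 10613532 0) (P.cons (P.lf 0 369222 0) (P.cons (P.lf 64182 0 0) P.nil)))))) (P.cons (P.cons (P.lf 0 128753040 0) (P.cons (P.lf 108543852 0 0) (P.cons (P.lf 8368956 0 0) (P.cons (P.lf 0 2594232 0) (P.cons (P.lf 0 79662 0) P.nil))))) (P.cons (P.cons (P.lf 131868372 0 0) (P.cons (P.lf 0 445992 0) (P.cons (P.lf 0 2704734 0) (P.cons (P.lf 101142 0 0) P.nil)))) (P.cons (P.cons (P.lf 10633710 0 0) (P.cons (P.lf 0 3028596 0) (P.cons (P.lf 0 376662 0) P.nil))) (P.cons (P.cons (P.lf 0 3314106 0) (P.cons (P.lf 0 225240 0) P.nil)) (P.cons (P.cons (P.lf 0 330408 0) P.nil) P.nil)))))) 359262)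
 EL.nil))))
noncomputable def S198_227_438_512_9 : EL := (EL.cons 3 (TM.mk (P.cons (P.lf 0 1320724353 0) (P.cons (P.lf 409570215 0 0) (P.cons (P.lf 14623338 0 0) (P.cons (P.lf 0 1245645 0) (P.cons (P.lf 0 85526 0) (P.cons (P.lf 2831 0 0) P.nil)))))) 532)
 (EL.cons 7 (TM.mk (P.cons (P.lf 0 1997870342 0) (P.cons (P.lf 0 96267727 0) (P.cons (P.lf 13808992 0 0) (P.cons (P.lf 693290 0 0) (P.cons (P.lf 0 37347 0) (P.cons (P.lf 0 3551 0) P.nil)))))) 296)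
 EL.nil))
noncomputable def S198_227_438_512_10 : EL := (EL.cons 3 (TM.mk (P.cons (P.cons (P.lf 0 352190878 0) (P.cons (P.lf 113472224 0 0) (P.cons (P.lf 1806059 0 0) (P.lf 0 602019 0)))) (P.cons (P.cons (P.lf 112096219 0 0) (P.cons (P.lf 0 18785868 0) (P.cons (P.lf 0 299001 0) (P.lf 99666 0 0)))) (P.cons (P.cons (P.lf 30492879 0 0) (P.cons (P.lf 0 7905664 0) (P.cons (P.lf 0 125827 0) (P.lf 41941 0 0)))) (P.cons (P.cons (P.lf 0 9416989 0) (P.cons (P.lf 77775 0 0) (P.cons (P.lf 1237 0 0) P.nil))) (P.cons (P.cons (P.lf 0 570557 0) (P.cons (P.lf 148911 0 0) P.nil)) (P.cons (P.cons (P.lf 154501 0 0) P.nil) P.nil)))))) 38897)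
 (EL.cons 7 (TM.mk (P.cons (P.cons (P.lf 0 532761971 0) (P.cons (P.lf 171650346 0 0) (P.cons (P.lf 2732041 0 0) (P.lf 0 910680 0)))) (P.cons (P.cons (P.lf 0 21317345 0) (P.cons (P.lf 33084005 0 0) (P.cons (P.lf 526574 0 0) (P.lf 0 175524 0)))) (P.cons (P.cons (P.lf 45470321 0 0) (P.cons (P.lf 0 2354450 0) (P.cons (P.lf 0 37472 0) (P.lf 12490 0 0)))) (P.cons (P.cons (P.lf 1357573 0 0) (P.cons (P.lf 0 847459 0) (P.cons (P.lf 0 13487 0) P.nil))) (P.cons (P.cons (P.lf 0 958057 0) (P.cons (P.lf 0 4536 0) P.nil)) (P.cons (P.cons (P.lf 0 47913 0) P.nil) P.nil)))))) 31959)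
 EL.nil))
noncomputable def S198_227_438_512_11 : EL := (EL.cons 3 (TM.mk (P.cons (P.cons (P.lf 0 93916958 0) (P.cons (P.lf 60518127 0 0) (P.cons (P.lf 0 8785928 0) (P.cons (P.lf 0 631415 0) (P.cons (P.lf 100977 0 0) (P.cons (P.lf 1646 0 0) P.nil)))))) (P.cons (P.cons (P.lf 30659646 0 0) (P.cons (P.lf 0 10513635 0) (P.cons (P.lf 37386 0 0) (P.cons (P.lf 62295 0 0) (P.cons (P.lf 0 2119 0) P.nil))))) (P.cons (P.cons (P.lf 15216622 0 0) (P.cons (P.lf 0 8857442 0) (P.cons (P.lf 905813 0 0) (P.cons (P.lf 80313 0 0) P.nil)))) (P.cons (P.cons (P.lf 0 5051636 0) (P.cons (P.lf 948800 0 0) (P.cons (P.lf 112920 0 0) P.nil))) (P.cons (P.cons (P.lf 0 830701 0) (P.cons (P.lf 463574 0 0) P.nil)) (P.cons (P.cons (P.lf 284010 0 0) P.nil) P.nil)))))) 248955)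
 (EL.cons 7 (TM.mk (P.cons (P.cons (P.lf 0 142068938 0) (P.cons (P.lf 91546257 0 0) (P.cons (P.lf 0 13290545 0) (P.cons (P.lf 0 955148 0) (P.cons (P.lf 152749 0 0) (P.cons (P.lf 2490 0 0) P.nil)))))) (P.cons (P.cons (P.lf 0 4523561 0) (P.cons (P.lf 16896546 0 0) (P.cons (P.lf 0 4705387 0) (P.cons (P.lf 0 247988 0) (P.cons (P.lf 51521 0 0) P.nil))))) (P.cons (P.cons (P.lf 23259232 0 0) (P.cons (P.lf 0 8544408 0) (P.cons (P.lf 0 141525 0) (P.cons (P.lf 45154 0 0) P.nil)))) (P.cons (P.cons (P.lf 493058 0 0) (P.cons (P.lf 0 1681171 0) (P.cons (P.lf 157608 0 0) P.nil))) (P.cons (P.cons (P.lf 0 1378774 0) (P.cons (P.lf 232433 0 0) P.nil)) (P.cons (P.cons (P.lf 0 29541 0) P.nil) P.nil)))))) 188443)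
 EL.nil))
noncomputable def S198_227_438_512_12 : EL := (EL.cons 4 (TM.mk (P.cons (P.lf 1320724353 0 0) (P.cons (P.lf 0 409570215 0) (P.cons (P.lf 0 14623338 0) (P.cons (P.lf 1245645 0 0) (P.cons (P.lf 85526 0 0) (P.cons (P.lf 0 2831 0) P.nil)))))) 532)
 (EL.cons 8 (TM.mk (P.cons (P.lf 1997870342 0 0) (P.cons (P.lf 96267727 0 0) (P.cons (P.lf 0 13808992 0) (P.cons (P.lf 0 693290 0) (P.cons (P.lf 37347 0 0) (P.cons (P.lf 3551 0 0) P.nil)))))) 296)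
 EL.nil))
noncomputable def S198_227_438_512_13 : EL := (EL.cons 4 (TM.mk (P.cons (P.cons (P.lf 352190878 0 0) (P.cons (P.lf 0 113472224 0) (P.cons (P.lf 0 1806059 0) (P.lf 602019 0 0)))) (P.cons (P.cons (P.lf 0 112096219 0) (P.cons (P.lf 18785868 0 0) (P.cons (P.lf 299001 0 0) (P.lf 0 99666 0)))) (P.cons (P.cons (P.lf 0 30492879 0) (P.cons (P.lf 7905664 0 0) (P.cons (P.lf 125827 0 0) (P.lf 0 41941 0)))) (P.cons (P.cons (P.lf 9416989 0 0) (P.cons (P.lf 0 77775 0) (P.cons (P.lf 0 1237 0) P.nil))) (P.cons (P.cons (P.lf 570557 0 0) (P.cons (P.lf 0 148911 0) P.nil)) (P.cons (P.cons (P.lf 0 154501 0) P.nil) P.nil)))))) 38897)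
 (EL.cons 8 (TM.mk (P.cons (P.cons (P.lf 532761971 0 0) (P.cons (P.lf 0 171650346 0) (P.cons (P.lf 0 2732041 0) (P.lf 910680 0 0)))) (P.cons (P.cons (P.lf 21317345 0 0) (P.cons (P.lf 0 33084005 0) (P.cons (P.lf 0 526574 0) (P.lf 175524 0 0)))) (P.cons (P.cons (P.lf 0 45470321 0) (P.cons (P.lf 2354450 0 0) (P.cons (P.lf 37472 0 0) (P.lf 0 12490 0)))) (P.cons (P.cons (P.lf 0 1357573 0) (P.cons (P.lf 847459 0 0) (P.cons (P.lf 13487 0 0) P.nil))) (P.cons (P.cons (P.lf 958057 0 0) (P.cons (P.lf 4536 0 0) P.nil)) (P.cons (P.cons (P.lf 47913 0 0) P.nil) P.nil)))))) 31959)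
 EL.nil))
noncomputable def S198_227_438_512_14 : EL := (EL.cons 4 (TM.mk (P.cons (P.cons (P.lf 93916958 0 0) (P.cons (P.lf 0 60518127 0) (P.cons (P.lf 8785928 0 0) (P.cons (P.lf 631415 0 0) (P.cons (P.lf 0 100977 0) (P.cons (P.lf 0 1646 0) P.nil)))))) (P.cons (P.cons (P.lf 0 30659646 0) (P.cons (P.lf 10513635 0 0) (P.cons (P.lf 0 37386 0) (P.cons (P.lf 0 62295 0) (P.cons (P.lf 2119 0 0) P.nil))))) (P.cons (P.cons (P.lf 0 15216622 0) (P.cons (P.lf 8857442 0 0) (P.cons (P.lf 0 905813 0) (P.cons (P.lf 0 80313 0) P.nil)))) (P.cons (P.cons (P.lf 5051636 0 0) (P.cons (P.lf 0 948800 0) (P.cons (P.lf 0 112920 0) P.nil))) (P.cons (P.cons (P.lf 830701 0 0) (P.cons (P.lf 0 463574 0) P.nil)) (P.cons (P.cons (P.lf 0 284010 0) P.nil) P.nil)))))) 248955)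
 (EL.cons 8 (TM.mk (P.cons (P.cons (P.lf 142068938 0 0) (P.cons (P.lf 0 91546257 0) (P.cons (P.lf 13290545 0 0) (P.cons (P.lf 955148 0 0) (P.cons (P.lf 0 152749 0) (P.cons (P.lf 0 2490 0) P.nil)))))) (P.cons (P.cons (P.lf 4523561 0 0) (P.cons (P.lf 0 16896546 0) (P.cons (P.lf 4705387 0 0) (P.cons (P.lf 247988 0 0) (P.cons (P.lf 0 51521 0) P.nil))))) (P.cons (P.cons (P.lf 0 23259232 0) (P.cons (P.lf 8544408 0 0) (P.cons (P.lf 141525 0 0) (P.cons (P.lf 0 45154 0) P.nil)))) (P.cons (P.cons (P.lf 0 493058 0) (P.cons (P.lf 1681171 0 0) (P.cons (P.lf 0 157608 0) P.nil))) (P.cons (P.cons (P.lf 1378774 0 0) (P.cons (P.lf 0 232433 0) P.nil)) (P.cons (P.cons (P.lf 29541 0 0) P.nil) P.nil)))))) 188443)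
 EL.nil))
noncomputable def S198_227_438_512_15 : EL := (EL.cons 4 (TM.mk (P.cons (P.lf 0 433204774 0) (P.cons (P.lf 268682518 0 0) (P.cons (P.lf 0 32067537 0) (P.cons (P.lf 0 3792065 0) (P.cons (P.lf 144194 0 0) (P.cons (P.lf 28304 0 0) P.nil)))))) 2128)
 (EL.cons 8 (TM.mk (P.cons (P.lf 0 655312343 0) (P.cons (P.lf 171642763 0 0) (P.cons (P.lf 21577328 0 0) (P.cons (P.lf 0 1445658 0) (P.cons (P.lf 0 205138 0) (P.cons (P.lf 3748 0 0) P.nil)))))) 1533)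
 EL.nil))
noncomputable def S198_227_438_512_16 : EL := (EL.cons 4 (TM.mk (P.cons (P.cons (P.lf 0 115520523 0) (P.cons (P.lf 37219506 0 0) (P.cons (P.lf 592396 0 0) (P.lf 0 197465 0)))) (P.cons (P.cons (P.lf 72592273 0 0) (P.cons (P.lf 0 17704019 0) (P.cons (P.lf 0 281782 0) (P.lf 93927 0 0)))) (P.cons (P.cons (P.lf 0 121289 0) (P.cons (P.lf 0 1094344 0) (P.cons (P.lf 0 17416 0) (P.lf 5805 0 0)))) (P.cons (P.cons (P.lf 0 6706552 0) (P.cons (P.lf 932986 0 0) (P.cons (P.lf 14849 0 0) P.nil))) (P.cons (P.cons (P.lf 687183 0 0) (P.cons (P.lf 66241 0 0) P.nil)) (P.cons (P.cons (P.lf 154975 0 0) P.nil) P.nil)))))) 53168)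
 (EL.cons 8 (TM.mk (P.cons (P.cons (P.lf 0 174748825 0) (P.cons (P.lf 56302247 0 0) (P.cons (P.lf 896124 0 0) (P.lf 0 298707 0)))) (P.cons (P.cons (P.lf 47199203 0 0) (P.cons (P.lf 0 6608172 0) (P.cons (P.lf 0 105177 0) (P.lf 35058 0 0)))) (P.cons (P.cons (P.lf 19017723 0 0) (P.cons (P.lf 0 4760896 0) (P.cons (P.lf 0 75775 0) (P.lf 25258 0 0)))) (P.cons (P.cons (P.lf 0 4267247 0) (P.cons (P.lf 0 105532 0) (P.cons (P.lf 0 1679 0) P.nil))) (P.cons (P.cons (P.lf 0 635384 0) (P.cons (P.lf 107145 0 0) P.nil)) (P.cons (P.cons (P.lf 90793 0 0) P.nil) P.nil)))))) 37162)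
 EL.nil))
noncomputable def S198_227_438_512_17 : EL := (EL.cons 4 (TM.mk (P.cons (P.cons (P.lf 0 30805273 0) (P.cons (P.lf 19850274 0 0) (P.cons (P.lf 0 2881831 0) (P.cons (P.lf 0 207107 0) (P.cons (P.lf 33120 0 0) (P.cons (P.lf 540 0 0) P.nil)))))) (P.cons (P.cons (P.lf 19609562 0 0) (P.cons (P.lf 0 9604304 0) (P.cons (P.lf 905948 0 0) (P.cons (P.lf 84659 0 0) (P.cons (P.lf 0 10965 0) P.nil))))) (P.cons (P.cons (P.lf 2213583 0 0) (P.cons (P.lf 0 2055650 0) (P.cons (P.lf 325216 0 0) (P.cons (P.lf 22299 0 0) P.nil)))) (P.cons (P.cons (P.lf 0 3345168 0) (P.cons (P.lf 1269075 0 0) (P.cons (P.lf 0 57952 0) P.nil))) (P.cons (P.cons (P.lf 193592 0 0) (P.cons (P.lf 85745 0 0) P.nil)) (P.cons (P.cons (P.lf 201424 0 0) P.nil) P.nil)))))) 204562)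
 (EL.cons 8 (TM.mk (P.cons (P.cons (P.lf 0 46599384 0) (P.cons (P.lf 30027670 0 0) (P.cons (P.lf 0 4359370 0) (P.cons (P.lf 0 313293 0) (P.cons (P.lf 50102 0 0) (P.cons (P.lf 816 0 0) P.nil)))))) (P.cons (P.cons (P.lf 12967195 0 0) (P.cons (P.lf 0 3769730 0) (P.cons (P.lf 0 191506 0) (P.cons (P.lf 15813 0 0) (P.cons (P.lf 1362 0 0) P.nil))))) (P.cons (P.cons (P.lf 8605239 0 0) (P.cons (P.lf 0 4853765 0) (P.cons (P.lf 480468 0 0) (P.cons (P.lf 43504 0 0) P.nil)))) (P.cons (P.cons (P.lf 0 2231675 0) (P.cons (P.lf 284642 0 0) (P.cons (P.lf 79069 0 0) P.nil))) (P.cons (P.cons (P.lf 0 591286 0) (P.cons (P.lf 285446 0 0) P.nil)) (P.cons (P.cons (P.lf 135964 0 0) P.nil) P.nil)))))) 169777)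
 EL.nil))
noncomputable def S198_227_438_512_18 : EL := (EL.cons 4 (TM.mk (P.cons (P.lf 142093522 0 0) (P.cons (P.lf 0 132193991 0) (P.cons (P.lf 36274848 0 0) (P.cons (P.lf 0 908220 0) (P.cons (P.lf 0 623396 0) (P.cons (P.lf 0 4479 0) P.nil)))))) 6741)
 (EL.cons 8 (TM.mk (P.cons (P.lf 214946014 0 0) (P.cons (P.lf 0 122956731 0) (P.cons (P.lf 8001726 0 0) (P.cons (P.lf 3495072 0 0) (P.cons (P.lf 0 40579 0) (P.cons (P.lf 0 38127 0) P.nil)))))) 3726)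
 EL.nil))
noncomputable def S198_227_438_512_19 : EL := (EL.cons 4 (TM.mk (P.cons (P.cons (P.lf 37891360 0 0) (P.cons (P.lf 0 12208200 0) (P.cons (P.lf 0 194309 0) (P.lf 64769 0 0)))) (P.cons (P.cons (P.lf 0 35561160 0) (P.cons (P.lf 9592903 0 0) (P.cons (P.lf 152683 0 0) (P.lf 0 50894 0)))) (P.cons (P.cons (P.lf 7004173 0 0) (P.cons (P.lf 0 1306691 0) (P.cons (P.lf 0 20797 0) (P.lf 6931 0 0)))) (P.cons (P.cons (P.lf 2486821 0 0) (P.cons (P.lf 0 493149 0) (P.cons (P.lf 0 7848 0) P.nil))) (P.cons (P.cons (P.lf 0 928020 0) (P.cons (P.lf 73885 0 0) P.nil)) (P.cons (P.cons (P.lf 0 6875 0) P.nil) P.nil)))))) 58396)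
 (EL.cons 8 (TM.mk (P.cons (P.cons (P.lf 57318565 0 0) (P.cons (P.lf 0 18467443 0) (P.cons (P.lf 0 293933 0) (P.lf 97977 0 0)))) (P.cons (P.cons (P.lf 0 33256672 0) (P.cons (P.lf 7894460 0 0) (P.cons (P.lf 125650 0 0) (P.lf 0 41883 0)))) (P.cons (P.cons (P.lf 0 2071558 0) (P.cons (P.lf 1093906 0 0) (P.cons (P.lf 17410 0 0) (P.lf 0 5803 0)))) (P.cons (P.cons (P.lf 3559598 0 0) (P.cons (P.lf 0 491069 0) (P.cons (P.lf 0 7815 0) P.nil))) (P.cons (P.cons (P.lf 0 167467 0) (P.cons (P.lf 0 62320 0) P.nil)) (P.cons (P.cons (P.lf 0 116916 0) P.nil) P.nil)))))) 42575)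
 EL.nil))
noncomputable def S198_227_438_512_20 : EL := (EL.cons 4 (TM.mk (P.cons (P.cons (P.lf 10104297 0 0) (P.cons (P.lf 0 6510997 0) (P.cons (P.lf 945255 0 0) (P.cons (P.lf 67932 0 0) (P.cons (P.lf 0 10863 0) (P.cons (P.lf 0 176 0) P.nil)))))) (P.cons (P.cons (P.lf 0 9565489 0) (P.cons (P.lf 5169390 0 0) (P.cons (P.lf 0 590289 0) (P.cons (P.lf 0 48835 0) (P.cons (P.lf 6965 0 0) P.nil))))) (P.cons (P.cons (P.lf 1156697 0 0) (P.cons (P.lf 0 230572 0) (P.cons (P.lf 0 24987 0) (P.cons (P.lf 544 0 0) P.nil)))) (P.cons (P.cons (P.lf 1403141 0 0) (P.cons (P.lf 0 666381 0) (P.cons (P.lf 56270 0 0) P.nil))) (P.cons (P.cons (P.lf 0 401135 0) (P.cons (P.lf 96045 0 0) P.nil)) (P.cons (P.cons (P.lf 0 59647 0) P.nil) P.nil)))))) 140308)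
 (EL.cons 8 (TM.mk (P.cons (P.cons (P.lf 15284851 0 0) (P.cons (P.lf 0 9849239 0) (P.cons (P.lf 1429897 0 0) (P.cons (P.lf 102762 0 0) (P.cons (P.lf 0 16433 0) (P.cons (P.lf 0 267 0) P.nil)))))) (P.cons (P.cons (P.lf 0 8993300 0) (P.cons (P.lf 4290842 0 0) (P.cons (P.lf 0 380610 0) (P.cons (P.lf 0 37054 0) (P.cons (P.lf 4649 0 0) P.nil))))) (P.cons (P.cons (P.lf 0 1672807 0) (P.cons (P.lf 1317665 0 0) (P.cons (P.lf 0 192907 0) (P.cons (P.lf 0 13798 0) P.nil)))) (P.cons (P.cons (P.lf 1668817 0 0) (P.cons (P.lf 0 610058 0) (P.cons (P.lf 23590 0 0) P.nil))) (P.cons (P.cons (P.lf 0 4825 0) (P.cons (P.lf 0 81774 0) P.nil)) (P.cons (P.cons (P.lf 0 115816 0) P.nil) P.nil)))))) 125829)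
 EL.nil))
noncomputable def S198_227_438_512_21 : EL := (EL.cons 4 (TM.mk (P.cons (P.cons (P.lf 59732142 0 0) (P.cons (P.lf 340416672 0 0) (P.cons (P.lf 5418177 0 0) (P.lf 0 1806057 0)))) (P.cons (P.cons (P.lf 1142336208 0 0) (P.cons (P.lf 0 56357604 0) (P.cons (P.lf 0 897003 0) (P.lf 298998 0 0)))) (P.cons (P.cons (P.lf 0 4723971 0) (P.cons (P.lf 0 23716992 0) (P.cons (P.lf 0 377481 0) (P.lf 125823 0 0)))) (P.cons (P.cons (P.lf 0 39627159 0) (P.cons (P.lf 233325 0 0) (P.cons (P.lf 3711 0 0) P.nil))) (P.cons (P.cons (P.lf 0 1279092 0) (P.cons (P.lf 446733 0 0) P.nil)) (P.cons (P.cons (P.lf 548418 0 0) P.nil) P.nil)))))) 123366)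
 (EL.cons 8 (TM.mk (P.cons (P.cons (P.lf 0 14039772 0) (P.cons (P.lf 0 80013489 0) (P.cons (P.lf 0 1273524 0) (P.lf 424509 0 0)))) (P.cons (P.cons (P.lf 0 263470848 0) (P.cons (P.lf 41915079 0 0) (P.cons (P.lf 667131 0 0) (P.lf 0 222375 0)))) (P.cons (P.cons (P.lf 97129137 0 0) (P.cons (P.lf 0 220128 0) (P.cons (P.lf 0 3498 0) (P.lf 1164 0 0)))) (P.cons (P.cons (P.lf 5423394 0 0) (P.cons (P.lf 0 1733151 0) (P.cons (P.lf 0 27582 0) P.nil))) (P.cons (P.cons (P.lf 0 2535369 0) (P.cons (P.lf 0 44376 0) P.nil)) (P.cons (P.cons (P.lf 0 143259 0) P.nil) P.nil)))))) 110517)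
 (EL.cons 11 (TM.mk (P.cons (P.cons (P.lf 2737174968 0 0) (P.cons (P.lf 101463342 0 0) (P.cons (P.lf 0 50275452 0) (P.cons (P.lf 0 456219 0) (P.lf 114054 0 0))))) (P.cons (P.cons (P.lf 263782491 0 0) (P.cons (P.lf 9778056 0 0) (P.cons (P.lf 0 4845060 0) (P.cons (P.lf 0 43965 0) (P.lf 10989 0 0))))) (P.cons (P.cons (P.lf 0 31482714 0) (P.cons (P.lf 0 1167021 0) (P.cons (P.lf 578262 0 0) (P.cons (P.lf 5247 0 0) P.nil)))) (P.cons (P.cons (P.lf 0 3722901 0) (P.cons (P.lf 0 138000 0) (P.cons (P.lf 68379 0 0) P.nil))) (P.cons (P.cons (P.lf 141561 0 0) (P.cons (P.lf 5247 0 0) P.nil)) (P.cons (P.cons (P.lf 27786 0 0) P.nil) P.nil)))))) 9000)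
 EL.nil)))
noncomputable def S198_227_438_512_22 : EL := (EL.cons 4 (TM.mk (P.cons (P.cons (P.lf 15928467 0 0) (P.cons (P.lf 85645203 0 0) (P.cons (P.lf 0 27884307 0) (P.cons (P.lf 0 1385406 0) (P.cons (P.lf 302931 0 0) (P.cons (P.lf 4938 0 0) P.nil)))))) (P.cons (P.cons (P.lf 304490841 0 0) (P.cons (P.lf 0 114658020 0) (P.cons (P.lf 0 1210755 0) (P.cons (P.lf 627858 0 0) (P.cons (P.lf 0 6360 0) P.nil))))) (P.cons (P.cons (P.lf 0 4992264 0) (P.cons (P.lf 0 26997132 0) (P.cons (P.lf 2710677 0 0) (P.cons (P.lf 243195 0 0) P.nil)))) (P.cons (P.cons (P.lf 0 34306371 0) (P.cons (P.lf 6253005 0 0) (P.cons (P.lf 392979 0 0) P.nil))) (P.cons (P.cons (P.lf 319932 0 0) (P.cons (P.lf 1578882 0 0) P.nil)) (P.cons (P.cons (P.lf 1326933 0 0) P.nil) P.nil)))))) 549156)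
 (EL.cons 8 (TM.mk (P.cons (P.cons (P.lf 0 3743913 0) (P.cons (P.lf 0 20130540 0) (P.cons (P.lf 6554085 0 0) (P.cons (P.lf 325635 0 0) (P.cons (P.lf 0 71202 0) (P.cons (P.lf 0 1161 0) P.nil)))))) (P.cons (P.cons (P.lf 0 70227840 0) (P.cons (P.lf 34162557 0 0) (P.cons (P.lf 0 2063715 0) (P.cons (P.lf 0 264246 0) (P.cons (P.lf 27006 0 0) P.nil))))) (P.cons (P.cons (P.lf 26767290 0 0) (P.cons (P.lf 0 3574248 0) (P.cons (P.lf 0 653211 0) (P.cons (P.lf 0 21 0) P.nil)))) (P.cons (P.cons (P.lf 6712086 0 0) (P.cons (P.lf 0 3353577 0) (P.cons (P.lf 127728 0 0) P.nil))) (P.cons (P.cons (P.lf 0 2819238 0) (P.cons (P.lf 187644 0 0) P.nil)) (P.cons (P.cons (P.lf 0 188520 0) P.nil) P.nil)))))) 362646)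
 (EL.cons 11 (TM.mk (P.cons (P.cons (P.lf 729908592 0 0) (P.cons (P.lf 0 208112214 0) (P.cons (P.lf 0 25867113 0) (P.cons (P.lf 5306766 0 0) (P.cons (P.lf 184611 0 0) (P.cons (P.lf 0 32091 0) P.nil)))))) (P.cons (P.cons (P.lf 64376520 0 0) (P.cons (P.lf 0 54271926 0) (P.cons (P.lf 0 4184478 0) (P.cons (P.lf 1297116 0 0) (P.cons (P.lf 39831 0 0) P.nil))))) (P.cons (P.cons (P.lf 0 65934186 0) (P.cons (P.lf 222996 0 0) (P.cons (P.lf 1352367 0 0) (P.cons (P.lf 0 50571 0) P.nil)))) (P.cons (P.cons (P.lf 0 5316855 0) (P.cons (P.lf 1514298 0 0) (P.cons (P.lf 188331 0 0) P.nil))) (P.cons (P.cons (P.lf 1657053 0 0) (P.cons (P.lf 112620 0 0) P.nil)) (P.cons (P.cons (P.lf 165204 0 0) P.nil) P.nil)))))) 179631)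
 EL.nil)))
noncomputable def S198_227_438_512_23 : EL := (EL.cons 4 (TM.mk (P.cons (P.cons (P.lf 0 19592466 0) (P.cons (P.lf 0 111658518 0) (P.cons (P.lf 0 1777191 0) (P.lf 592395 0 0)))) (P.cons (P.cons (P.lf 0 368616666 0) (P.cons (P.lf 53112057 0 0) (P.cons (P.lf 845346 0 0) (P.lf 0 281781 0)))) (P.cons (P.cons (P.lf 117962418 0 0) (P.cons (P.lf 3283032 0 0) (P.cons (P.lf 52251 0 0) (P.lf 0 17415 0)))) (P.cons (P.cons (P.lf 16647606 0 0) (P.cons (P.lf 0 2798961 0) (P.cons (P.lf 0 44547 0) P.nil))) (P.cons (P.cons (P.lf 0 3983058 0) (P.cons (P.lf 0 198726 0) P.nil)) (P.cons (P.cons (P.lf 0 476664 0) P.nil) P.nil)))))) 205692)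
 (EL.cons 8 (TM.mk (P.cons (P.cons (P.lf 4605120 0 0) (P.cons (P.lf 26244858 0 0) (P.cons (P.lf 417720 0 0) (P.lf 0 139239 0)))) (P.cons (P.cons (P.lf 84991776 0 0) (P.cons (P.lf 0 21887175 0) (P.cons (P.lf 0 348360 0) (P.lf 116118 0 0)))) (P.cons (P.cons (P.lf 0 58709565 0) (P.cons (P.lf 4045125 0 0) (P.cons (P.lf 64380 0 0) (P.lf 0 21459 0)))) (P.cons (P.cons (P.lf 7148349 0 0) (P.cons (P.lf 723069 0 0) (P.cons (P.lf 11508 0 0) P.nil))) (P.cons (P.cons (P.lf 1817823 0 0) (P.cons (P.lf 0 173802 0) P.nil)) (P.cons (P.cons (P.lf 0 215667 0) P.nil) P.nil)))))) 94281)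
 (EL.cons 11 (TM.mk (P.cons (P.cons (P.lf 0 897808281 0) (P.cons (P.lf 0 33280527 0) (P.cons (P.lf 16490619 0 0) (P.cons (P.lf 149640 0 0) (P.lf 0 37410 0))))) (P.cons (P.cons (P.lf 191897496 0 0) (P.cons (P.lf 7113378 0 0) (P.cons (P.lf 0 3524703 0) (P.cons (P.lf 0 31983 0) (P.lf 7995 0 0))))) (P.cons (P.cons (P.lf 47098614 0 0) (P.cons (P.lf 1745880 0 0) (P.cons (P.lf 0 865089 0) (P.cons (P.lf 0 7848 0) P.nil)))) (P.cons (P.cons (P.lf 0 1870002 0) (P.cons (P.lf 0 69318 0) (P.cons (P.lf 34347 0 0) P.nil))) (P.cons (P.cons (P.lf 0 679197 0) (P.cons (P.lf 0 25176 0) P.nil)) (P.cons (P.cons (P.lf 0 2172 0) P.nil) P.nil)))))) 26484)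
 EL.nil)))
noncomputable def S198_227_438_512_24 : EL := (EL.cons 4 (TM.mk (P.cons (P.cons (P.lf 0 5224623 0) (P.cons (P.lf 0 28092093 0) (P.cons (P.lf 9146202 0 0) (P.cons (P.lf 454419 0 0) (P.cons (P.lf 0 99363 0) (P.cons (P.lf 0 1620 0) P.nil)))))) (P.cons (P.cons (P.lf 0 98254443 0) (P.cons (P.lf 46320102 0 0) (P.cons (P.lf 0 2439195 0) (P.cons (P.lf 0 346860 0) (P.cons (P.lf 32898 0 0) P.nil))))) (P.cons (P.cons (P.lf 32667495 0 0) (P.cons (P.lf 0 2496519 0) (P.cons (P.lf 0 1113540 0) (P.cons (P.lf 0 20934 0) P.nil)))) (P.cons (P.cons (P.lf 11845779 0 0) (P.cons (P.lf 0 5240013 0) (P.cons (P.lf 151053 0 0) P.nil))) (P.cons (P.cons (P.lf 0 3707175 0) (P.cons (P.lf 53763 0 0) P.nil)) (P.cons (P.cons (P.lf 0 532200 0) P.nil) P.nil)))))) 623907)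
 (EL.cons 8 (TM.mk (P.cons (P.cons (P.lf 1228023 0 0) (P.cons (P.lf 6602925 0 0) (P.cons (P.lf 0 2149776 0) (P.cons (P.lf 0 106809 0) (P.cons (P.lf 23352 0 0) (P.cons (P.lf 378 0 0) P.nil)))))) (P.cons (P.cons (P.lf 22654290 0 0) (P.cons (P.lf 0 13253139 0) (P.cons (P.lf 1343577 0 0) (P.cons (P.lf 119796 0 0) (P.cons (P.lf 0 16098 0) P.nil))))) (P.cons (P.cons (P.lf 0 15936840 0) (P.cons (P.lf 4574205 0 0) (P.cons (P.lf 28140 0 0) (P.cons (P.lf 0 25689 0) P.nil)))) (P.cons (P.cons (P.lf 267219 0 0) (P.cons (P.lf 866721 0 0) (P.cons (P.lf 0 117861 0) P.nil))) (P.cons (P.cons (P.lf 1726482 0 0) (P.cons (P.lf 0 425787 0) P.nil)) (P.cons (P.cons (P.lf 0 207345 0) P.nil) P.nil)))))) 222033)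
 (EL.cons 11 (TM.mk (P.cons (P.cons (P.lf 0 239413989 0) (P.cons (P.lf 68261937 0 0) (P.cons (P.lf 8484552 0 0) (P.cons (P.lf 0 1740648 0) (P.cons (P.lf 0 60552 0) (P.cons (P.lf 10524 0 0) P.nil)))))) (P.cons (P.cons (P.lf 53128893 0 0) (P.cons (P.lf 0 3367242 0) (P.cons (P.lf 0 1258614 0) (P.cons (P.lf 114330 0 0) (P.cons (P.lf 5712 0 0) P.nil))))) (P.cons (P.cons (P.lf 30825855 0 0) (P.cons (P.lf 0 6349377 0) (P.cons (P.lf 0 963162 0) (P.cons (P.lf 167799 0 0) P.nil)))) (P.cons (P.cons (P.lf 0 4954731 0) (P.cons (P.lf 0 606735 0) (P.cons (P.lf 68589 0 0) P.nil))) (P.cons (P.cons (P.lf 0 1359216 0) (P.cons (P.lf 139110 0 0) P.nil)) (P.cons (P.cons (P.lf 114594 0 0) P.nil) P.nil)))))) 167304)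
 EL.nil)))
noncomputable def S198_227_438_512_25 : EL := (EL.cons 4 (TM.mk (P.cons (P.cons (P.lf 6426435 0 0) (P.cons (P.lf 36624600 0 0) (P.cons (P.lf 582927 0 0) (P.lf 0 194307 0)))) (P.cons (P.cons (P.lf 118915368 0 0) (P.cons (P.lf 0 28778709 0) (P.cons (P.lf 0 458049 0) (P.lf 152682 0 0)))) (P.cons (P.cons (P.lf 0 76258368 0) (P.cons (P.lf 3920076 0 0) (P.cons (P.lf 62391 0 0) (P.lf 0 20796 0)))) (P.cons (P.cons (P.lf 5205717 0 0) (P.cons (P.lf 1479447 0 0) (P.cons (P.lf 23544 0 0) P.nil))) (P.cons (P.cons (P.lf 3542682 0 0) (P.cons (P.lf 0 221655 0) P.nil)) (P.cons (P.cons (P.lf 0 217014 0) P.nil) P.nil)))))) 206550)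
 (EL.cons 8 (TM.mk (P.cons (P.cons (P.lf 0 1510503 0) (P.cons (P.lf 0 8608455 0) (P.cons (P.lf 0 137013 0) (P.lf 45669 0 0)))) (P.cons (P.cons (P.lf 0 27409341 0) (P.cons (P.lf 9848682 0 0) (P.cons (P.lf 156753 0 0) (P.lf 0 52251 0)))) (P.cons (P.cons (P.lf 27918963 0 0) (P.cons (P.lf 0 3457824 0) (P.cons (P.lf 0 55035 0) (P.lf 18342 0 0)))) (P.cons (P.cons (P.lf 0 8009265 0) (P.cons (P.lf 86682 0 0) (P.cons (P.lf 1377 0 0) P.nil))) (P.cons (P.cons (P.lf 0 108750 0) (P.cons (P.lf 151461 0 0) P.nil)) (P.cons (P.cons (P.lf 297966 0 0) P.nil) P.nil)))))) 92229)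
 (EL.cons 11 (TM.mk (P.cons (P.cons (P.lf 294486000 0 0) (P.cons (P.lf 10916193 0 0) (P.cons (P.lf 0 5409012 0) (P.cons (P.lf 0 49083 0) (P.lf 12270 0 0))))) (P.cons (P.cons (P.lf 0 154266561 0) (P.cons (P.lf 0 5718450 0) (P.cons (P.lf 2833512 0 0) (P.cons (P.lf 25710 0 0) (P.lf 0 6426 0))))) (P.cons (P.cons (P.lf 810189 0 0) (P.cons (P.lf 30030 0 0) (P.cons (P.lf 0 14880 0) (P.cons (P.lf 0 135 0) P.nil)))) (P.cons (P.cons (P.lf 6378807 0 0) (P.cons (P.lf 236454 0 0) (P.cons (P.lf 0 117162 0) P.nil))) (P.cons (P.cons (P.lf 163323 0 0) (P.cons (P.lf 6051 0 0) P.nil)) (P.cons (P.cons (P.lf 0 94440 0) P.nil) P.nil)))))) 37917)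
 EL.nil)))
noncomputable def S198_227_438_512_26 : EL := (EL.cons 4 (TM.mk (P.cons (P.cons (P.lf 1713705 0 0) (P.cons (P.lf 9214359 0 0) (P.cons (P.lf 0 3000003 0) (P.cons (P.lf 0 149052 0) (P.cons (P.lf 32589 0 0) (P.cons (P.lf 531 0 0) P.nil)))))) (P.cons (P.cons (P.lf 31696554 0 0) (P.cons (P.lf 0 18050712 0) (P.cons (P.lf 1730400 0 0) (P.cons (P.lf 159993 0 0) (P.cons (P.lf 0 20898 0) P.nil))))) (P.cons (P.cons (P.lf 0 20728323 0) (P.cons (P.lf 5428428 0 0) (P.cons (P.lf 150354 0 0) (P.cons (P.lf 0 26763 0) P.nil)))) (P.cons (P.cons (P.lf 0 917829 0) (P.cons (P.lf 1641723 0 0) (P.cons (P.lf 0 174501 0) P.nil))) (P.cons (P.cons (P.lf 2570046 0 0) (P.cons (P.lf 0 573435 0) P.nil)) (P.cons (P.cons (P.lf 0 167520 0) P.nil) P.nil)))))) 374118)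
 (EL.cons 8 (TM.mk (P.cons (P.cons (P.lf 0 402798 0) (P.cons (P.lf 0 2165796 0) (P.cons (P.lf 705138 0 0) (P.cons (P.lf 35034 0 0) (P.cons (P.lf 0 7659 0) (P.cons (P.lf 0 123 0) P.nil)))))) (P.cons (P.cons (P.lf 0 7305816 0) (P.cons (P.lf 5018736 0 0) (P.cons (P.lf 0 659370 0) (P.cons (P.lf 0 50157 0) (P.cons (P.lf 7656 0 0) P.nil))))) (P.cons (P.cons (P.lf 7536174 0 0) (P.cons (P.lf 0 2824464 0) (P.cons (P.lf 119625 0 0) (P.cons (P.lf 20223 0 0) P.nil)))) (P.cons (P.cons (P.lf 0 1626813 0) (P.cons (P.lf 130812 0 0) (P.cons (P.lf 47064 0 0) P.nil))) (P.cons (P.cons (P.lf 0 604026 0) (P.cons (P.lf 248394 0 0) P.nil)) (P.cons (P.cons (P.lf 249042 0 0) P.nil) P.nil)))))) 159759)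
 (EL.cons 11 (TM.mk (P.cons (P.cons (P.lf 78529089 0 0) (P.cons (P.lf 0 22390284 0) (P.cons (P.lf 0 2782977 0) (P.cons (P.lf 570942 0 0) (P.cons (P.lf 19860 0 0) (P.cons (P.lf 0 3450 0) P.nil)))))) (P.cons (P.cons (P.lf 0 41779245 0) (P.cons (P.lf 8047932 0 0) (P.cons (P.lf 1275861 0 0) (P.cons (P.lf 0 214554 0) (P.cons (P.lf 0 8031 0) P.nil))))) (P.cons (P.cons (P.lf 0 5576382 0) (P.cons (P.lf 1988031 0 0) (P.cons (P.lf 218712 0 0) (P.cons (P.lf 0 49731 0) P.nil)))) (P.cons (P.cons (P.lf 5027733 0 0) (P.cons (P.lf 0 480177 0) (P.cons (P.lf 0 127662 0) P.nil))) (P.cons (P.cons (P.lf 42447 0 0) (P.cons (P.lf 0 130809 0) P.nil)) (P.cons (P.cons (P.lf 0 204672 0) P.nil) P.nil)))))) 146976)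
 EL.nil)))
noncomputable def S198_227_438_512_27 : EL := (EL.cons 13 (TM.mk (P.lf 0 4294967296 0) 0)
 EL.nil)
noncomputable def S198_227_438_512_28 : EL := (EL.cons 13 (TM.mk (P.cons (P.cons (P.lf 0 1145317189 0) (P.cons (P.lf 369009244 0 0) (P.cons (P.lf 5873268 0 0) (P.lf 0 1957756 0)))) (P.cons (P.cons (P.lf 9359857 0 0) (P.cons (P.lf 53342320 0 0) (P.cons (P.lf 849012 0 0) (P.lf 0 283004 0)))) (P.cons (P.cons (P.lf 89383587 0 0) (P.cons (P.lf 0 5081304 0) (P.cons (P.lf 0 80872 0) (P.lf 26956 0 0)))) (P.cons (P.cons (P.lf 0 1721236 0) (P.cons (P.lf 0 1080256 0) (P.cons (P.lf 0 17192 0) P.nil))) (P.cons (P.cons (P.lf 0 1334203 0) (P.cons (P.lf 18792 0 0) P.nil)) (P.cons (P.cons (P.lf 0 17733 0) P.nil) P.nil)))))) 34553)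
 EL.nil)
noncomputable def S198_227_438_512_29 : EL := (EL.cons 13 (TM.mk (P.cons (P.cons (P.lf 0 305415937 0) (P.cons (P.lf 196803654 0 0) (P.cons (P.lf 0 28571652 0) (P.cons (P.lf 0 2053352 0) (P.cons (P.lf 328376 0 0) (P.cons (P.lf 5354 0 0) P.nil)))))) (P.cons (P.cons (P.lf 4991891 0 0) (P.cons (P.lf 26840717 0 0) (P.cons (P.lf 0 8738783 0) (P.cons (P.lf 0 434178 0) (P.cons (P.lf 94937 0 0) P.nil))))) (P.cons (P.cons (P.lf 47650539 0 0) (P.cons (P.lf 0 18301583 0) (P.cons (P.lf 0 80651 0) (P.cons (P.lf 103801 0 0) P.nil)))) (P.cons (P.cons (P.lf 0 1307567 0) (P.cons (P.lf 0 2478459 0) (P.cons (P.lf 272393 0 0) P.nil))) (P.cons (P.cons (P.lf 0 2564251 0) (P.cons (P.lf 498242 0 0) P.nil)) (P.cons (P.cons (P.lf 67999 0 0) P.nil) P.nil)))))) 275373)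
 EL.nil)
noncomputable def S198_227_438_512_30 : EL := (EL.cons 13 (TM.mk (P.cons (P.lf 1408772644 0 0) (P.cons (P.lf 0 436874896 0) (P.cons (P.lf 0 15598228 0) (P.cons (P.lf 1328688 0 0) (P.cons (P.lf 91228 0 0) (P.cons (P.lf 0 3020 0) P.nil)))))) 560)
 EL.nil)
noncomputable def S198_227_438_512_31 : EL := (EL.cons 13 (TM.mk (P.cons (P.cons (P.lf 375670270 0 0) (P.cons (P.lf 0 121037039 0) (P.cons (P.lf 0 1926463 0) (P.lf 642154 0 0)))) (P.cons (P.cons (P.lf 0 119569301 0) (P.cons (P.lf 20038260 0 0) (P.cons (P.lf 318935 0 0) (P.lf 0 106311 0)))) (P.cons (P.cons (P.lf 0 32525738 0) (P.cons (P.lf 8432709 0 0) (P.cons (P.lf 134216 0 0) (P.lf 0 44738 0)))) (P.cons (P.cons (P.lf 10044789 0 0) (P.cons (P.lf 0 82960 0) (P.cons (P.lf 0 1320 0) P.nil))) (P.cons (P.cons (P.lf 608595 0 0) (P.cons (P.lf 0 158839 0) P.nil)) (P.cons (P.cons (P.lf 0 164802 0) P.nil) P.nil))))))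 41470)
 EL.nil)
noncomputable def S198_227_438_512_32 : EL := (EL.cons 13 (TM.mk (P.cons (P.cons (P.lf 100178089 0 0) (P.cons (P.lf 0 64552669 0) (P.cons (P.lf 9371657 0 0) (P.cons (P.lf 673510 0 0) (P.cons (P.lf 0 107709 0) (P.cons (P.lf 0 1756 0) P.nil)))))) (P.cons (P.cons (P.lf 0 32703623 0) (P.cons (P.lf 11214545 0 0) (P.cons (P.lf 0 39879 0) (P.cons (P.lf 0 66449 0) (P.cons (P.lf 2261 0 0) P.nil))))) (P.cons (P.cons (P.lf 0 16231064 0) (P.cons (P.lf 9447939 0 0) (P.cons (P.lf 0 966201 0) (P.cons (P.lf 0 85668 0) P.nil)))) (P.cons (P.cons (P.lf 5388412 0 0) (P.cons (P.lf 0 1012054 0) (P.cons (P.lf 0 120448 0) P.nil))) (P.cons (P.cons (P.lf 886082 0 0) (P.cons (P.lf 0 494479 0) P.nil)) (P.cons (P.cons (P.lf 0 302944 0) P.nil) P.nil)))))) 265529)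
 EL.nil)
noncomputable def S198_227_438_512_33 : EL := (EL.cons 14 (TM.mk (P.lf 8589934592 0 0) 0)
 EL.nil)
noncomputable def S198_227_438_512_34 : EL := (EL.cons 14 (TM.mk (P.cons (P.cons (P.lf 2290634378 0 0) (P.cons (P.lf 0 738018488 0) (P.cons (P.lf 0 11746536 0) (P.lf 3915512 0 0)))) (P.cons (P.cons (P.lf 0 18719714 0) (P.cons (P.lf 0 106684640 0) (P.cons (P.lf 0 1698024 0) (P.lf 566008 0 0)))) (P.cons (P.cons (P.lf 0 178767174 0) (P.cons (P.lf 10162608 0 0) (P.cons (P.lf 161744 0 0) (P.lf 0 53912 0)))) (P.cons (P.cons (P.lf 3442472 0 0) (P.cons (P.lf 2160512 0 0) (P.cons (P.lf 34384 0 0) P.nil))) (P.cons (P.cons (P.lf 2668406 0 0) (P.cons (P.lf 0 37584 0) P.nil)) (P.cons (P.cons (P.lf 35466 0 0) P.nil) P.nil)))))) 69106)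
 EL.nil)
noncomputable def S198_227_438_512_35 : EL := (EL.cons 14 (TM.mk (P.cons (P.cons (P.lf 610831874 0 0) (P.cons (P.lf 0 393607308 0) (P.cons (P.lf 57143304 0 0) (P.cons (P.lf 4106704 0 0) (P.cons (P.lf 0 656752 0) (P.cons (P.lf 0 10708 0) P.nil)))))) (P.cons (P.cons (P.lf 0 9983782 0) (P.cons (P.lf 0 53681434 0) (P.cons (P.lf 17477566 0 0) (P.cons (P.lf 868356 0 0) (P.cons (P.lf 0 189874 0) P.nil))))) (P.cons (P.cons (P.lf 0 95301078 0) (P.cons (P.lf 36603166 0 0) (P.cons (P.lf 161302 0 0) (P.cons (P.lf 0 207602 0) P.nil)))) (P.cons (P.cons (P.lf 2615134 0 0) (P.cons (P.lf 4956918 0 0) (P.cons (P.lf 0 544786 0) P.nil))) (P.cons (P.cons (P.lf 5128502 0 0) (P.cons (P.lf 0 996484 0) P.nil)) (P.cons (P.cons (P.lf 0 135998 0) P.nil) P.nil)))))) 550746)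
 EL.nil)
noncomputable def S198_227_438_512_36 : EL := (EL.cons 14 (TM.mk (P.cons (P.lf 0 2817545288 0) (P.cons (P.lf 873749792 0 0) (P.cons (P.lf 31196456 0 0) (P.cons (P.lf 0 2657376 0) (P.cons (P.lf 0 182456 0) (P.cons (P.lf 6040 0 0) P.nil)))))) 1120)
 EL.nil)
noncomputable def S198_227_438_512_37 : EL := (EL.cons 14 (TM.mk (P.cons (P.cons (P.lf 0 751340540 0) (P.cons (P.lf 242074078 0 0) (P.cons (P.lf 3852926 0 0) (P.lf 0 1284308 0)))) (P.cons (P.cons (P.lf 239138602 0 0) (P.cons (P.lf 0 40076520 0) (P.cons (P.lf 0 637870 0) (P.lf 212622 0 0)))) (P.cons (P.cons (P.lf 65051476 0 0) (P.cons (P.lf 0 16865418 0) (P.cons (P.lf 0 268432 0) (P.lf 89476 0 0)))) (P.cons (P.cons (P.lf 0 20089578 0) (P.cons (P.lf 165920 0 0) (P.cons (P.lf 2640 0 0) P.nil))) (P.cons (P.cons (P.lf 0 1217190 0) (P.cons (P.lf 317678 0 0) P.nil)) (P.cons (P.cons (P.lf 329604 0 0) P.nil) P.nil))))))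 82940)
 EL.nil)
noncomputable def S198_227_438_512_38 : EL := (EL.cons 14 (TM.mk (P.cons (P.cons (P.lf 0 200356178 0) (P.cons (P.lf 129105338 0 0) (P.cons (P.lf 0 18743314 0) (P.cons (P.lf 0 1347020 0) (P.cons (P.lf 215418 0 0) (P.cons (P.lf 3512 0 0) P.nil)))))) (P.cons (P.cons (P.lf 65407246 0 0) (P.cons (P.lf 0 22429090 0) (P.cons (P.lf 79758 0 0) (P.cons (P.lf 132898 0 0) (P.cons (P.lf 0 4522 0) P.nil))))) (P.cons (P.cons (P.lf 32462128 0 0) (P.cons (P.lf 0 18895878 0) (P.cons (P.lf 1932402 0 0) (P.cons (P.lf 171336 0 0) P.nil)))) (P.cons (P.cons (P.lf 0 10776824 0) (P.cons (P.lf 2024108 0 0) (P.cons (P.lf 240896 0 0) P.nil))) (P.cons (P.cons (P.lf 0 1772164 0) (P.cons (P.lf 988958 0 0) P.nil)) (P.cons (P.cons (P.lf 605888 0 0) P.nil) P.nil)))))) 531058)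
 EL.nil)
noncomputable def S198_227_438_512_39 : EL := (EL.cons 14 (TM.mk (P.cons (P.lf 924170186 0 0) (P.cons (P.lf 0 573189372 0) (P.cons (P.lf 68410746 0 0) (P.cons (P.lf 8089740 0 0) (P.cons (P.lf 0 307614 0) (P.cons (P.lf 0 60382 0) P.nil)))))) 4526)
 EL.nil)
noncomputable def S198_227_438_512_40 : EL := (EL.cons 14 (TM.mk (P.cons (P.cons (P.lf 246443784 0 0) (P.cons (P.lf 0 79401614 0) (P.cons (P.lf 0 1263780 0) (P.lf 421260 0 0)))) (P.cons (P.cons (P.lf 0 154863516 0) (P.cons (P.lf 37768574 0 0) (P.cons (P.lf 601136 0 0) (P.lf 0 200378 0)))) (P.cons (P.cons (P.lf 258750 0 0) (P.cons (P.lf 2334602 0 0) (P.cons (P.lf 37156 0 0) (P.lf 0 12384 0)))) (P.cons (P.cons (P.lf 14307312 0 0) (P.cons (P.lf 0 1990372 0) (P.cons (P.lf 0 31678 0) P.nil))) (P.cons (P.cons (P.lf 0 1465992 0) (P.cons (P.lf 0 141316 0) P.nil)) (P.cons (P.cons (P.lf 0 330614 0) P.nil) P.nil))))))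 113386)
 EL.nil)
noncomputable def S198_227_438_512_41 : EL := (EL.cons 14 (TM.mk (P.cons (P.cons (P.lf 65717916 0 0) (P.cons (P.lf 0 42347252 0) (P.cons (P.lf 6147908 0 0) (P.cons (P.lf 441830 0 0) (P.cons (P.lf 0 70658 0) (P.cons (P.lf 0 1152 0) P.nil)))))) (P.cons (P.cons (P.lf 0 41833734 0) (P.cons (P.lf 20489182 0 0) (P.cons (P.lf 0 1932690 0) (P.cons (P.lf 0 180606 0) (P.cons (P.lf 23394 0 0) P.nil))))) (P.cons (P.cons (P.lf 0 4722312 0) (P.cons (P.lf 4385388 0 0) (P.cons (P.lf 0 693796 0) (P.cons (P.lf 0 47572 0) P.nil)))) (P.cons (P.cons (P.lf 7136360 0 0) (P.cons (P.lf 0 2707362 0) (P.cons (P.lf 123632 0 0) P.nil))) (P.cons (P.cons (P.lf 0 412998 0) (P.cons (P.lf 0 182924 0) P.nil)) (P.cons (P.cons (P.lf 0 429706 0) P.nil) P.nil)))))) 436354)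
 EL.nil)
noncomputable def S198_227_438_512_42 : EL := (EL.cons 14 (TM.mk (P.cons (P.lf 0 303132848 0) (P.cons (P.lf 282013848 0 0) (P.cons (P.lf 0 77386344 0) (P.cons (P.lf 1937536 0 0) (P.cons (P.lf 1329912 0 0) (P.cons (P.lf 9556 0 0) P.nil)))))) 14366)
 EL.nil)
noncomputable def S198_227_438_512_43 : EL := (EL.cons 14 (TM.mk (P.cons (P.cons (P.lf 0 80834902 0) (P.cons (P.lf 26044160 0 0) (P.cons (P.lf 414526 0 0) (P.lf 0 138174 0)))) (P.cons (P.cons (P.lf 75863810 0 0) (P.cons (P.lf 0 20464860 0) (P.cons (P.lf 0 325724 0) (P.lf 108574 0 0)))) (P.cons (P.cons (P.lf 0 14942236 0) (P.cons (P.lf 2787608 0 0) (P.cons (P.lf 44368 0 0) (P.lf 0 14788 0)))) (P.cons (P.cons (P.lf 0 5305220 0) (P.cons (P.lf 1052052 0 0) (P.cons (P.lf 16744 0 0) P.nil))) (P.cons (P.cons (P.lf 1979776 0 0) (P.cons (P.lf 0 157622 0) P.nil)) (P.cons (P.cons (P.lf 14668 0 0) P.nil) P.nil))))))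 124538)
 EL.nil)
noncomputable def S198_227_438_512_44 : EL := (EL.cons 14 (TM.mk (P.cons (P.cons (P.lf 0 21555834 0) (P.cons (P.lf 13890128 0 0) (P.cons (P.lf 0 2016546 0) (P.cons (P.lf 0 144922 0) (P.cons (P.lf 23176 0 0) (P.cons (P.lf 376 0 0) P.nil)))))) (P.cons (P.cons (P.lf 20406378 0 0) (P.cons (P.lf 0 11028034 0) (P.cons (P.lf 1259284 0 0) (P.cons (P.lf 104182 0 0) (P.cons (P.lf 0 14860 0) P.nil))))) (P.cons (P.cons (P.lf 0 2467622 0) (P.cons (P.lf 491888 0 0) (P.cons (P.lf 53306 0 0) (P.cons (P.lf 0 1162 0) P.nil)))) (P.cons (P.cons (P.lf 0 2993368 0) (P.cons (P.lf 1421614 0 0) (P.cons (P.lf 0 120044 0) P.nil))) (P.cons (P.cons (P.lf 855756 0 0) (P.cons (P.lf 0 204898 0) P.nil)) (P.cons (P.cons (P.lf 127248 0 0) P.nil) P.nil)))))) 299278)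
 EL.nil)
noncomputable def S198_227_438_512_45 : EL := (EL.cons 14 (TM.mk (P.cons (P.cons (P.lf 162887442 0 0) (P.cons (P.lf 0 157441902 0) (P.cons (P.lf 48220242 0 0) (P.cons (P.lf 0 2997766 0) (P.cons (P.lf 0 785524 0) (P.cons (P.lf 74002 0 0) P.nil)))))) (P.cons (P.cons (P.lf 0 3993486 0) (P.cons (P.lf 0 20185774 0) (P.cons (P.lf 13929654 0 0) (P.cons (P.lf 0 1801794 0) (P.cons (P.lf 0 260412 0) P.nil))))) (P.cons (P.cons (P.lf 0 38103866 0) (P.cons (P.lf 27103832 0 0) (P.cons (P.lf 0 3984282 0) (P.cons (P.lf 0 400824 0) P.nil)))) (P.cons (P.cons (P.lf 1357620 0 0) (P.cons (P.lf 3302256 0 0) (P.cons (P.lf 0 1511926 0) P.nil))) (P.cons (P.cons (P.lf 3530974 0 0) (P.cons (P.lf 0 1773106 0) P.nil)) (P.cons (P.cons (P.lf 0 140638 0) P.nil) P.nil)))))) 1251194)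
 EL.nil)
noncomputable def S198_227_438_512_46 : EL := (EL.cons 15 (TM.mk (P.lf 4294967296 0 0) 0)
 EL.nil)
noncomputable def S198_227_438_512_47 : EL := (EL.cons 15 (TM.mk (P.cons (P.cons (P.lf 1145317189 0 0) (P.cons (P.lf 0 369009244 0) (P.cons (P.lf 0 5873268 0) (P.lf 1957756 0 0)))) (P.cons (P.cons (P.lf 0 9359857 0) (P.cons (P.lf 0 53342320 0) (P.cons (P.lf 0 849012 0) (P.lf 283004 0 0)))) (P.cons (P.cons (P.lf 0 89383587 0) (P.cons (P.lf 5081304 0 0) (P.cons (P.lf 80872 0 0) (P.lf 0 26956 0)))) (P.cons (P.cons (P.lf 1721236 0 0) (P.cons (P.lf 1080256 0 0) (P.cons (P.lf 17192 0 0) P.nil))) (P.cons (P.cons (P.lf 1334203 0 0) (P.cons (P.lf 0 18792 0) P.nil)) (P.cons (P.cons (P.lf 17733 0 0) P.nil) P.nil)))))) 34553)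
 EL.nil)
noncomputable def S198_227_438_512_48 : EL := (EL.cons 15 (TM.mk (P.cons (P.cons (P.lf 305415937 0 0) (P.cons (P.lf 0 196803654 0) (P.cons (P.lf 28571652 0 0) (P.cons (P.lf 2053352 0 0) (P.cons (P.lf 0 328376 0) (P.cons (P.lf 0 5354 0) P.nil)))))) (P.cons (P.cons (P.lf 0 4991891 0) (P.cons (P.lf 0 26840717 0) (P.cons (P.lf 8738783 0 0) (P.cons (P.lf 434178 0 0) (P.cons (P.lf 0 94937 0) P.nil))))) (P.cons (P.cons (P.lf 0 47650539 0) (P.cons (P.lf 18301583 0 0) (P.cons (P.lf 80651 0 0) (P.cons (P.lf 0 103801 0) P.nil)))) (P.cons (P.cons (P.lf 1307567 0 0) (P.cons (P.lf 2478459 0 0) (P.cons (P.lf 0 272393 0) P.nil))) (P.cons (P.cons (P.lf 2564251 0 0) (P.cons (P.lf 0 498242 0) P.nil)) (P.cons (P.cons (P.lf 0 67999 0) P.nil) P.nil)))))) 275373)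
 EL.nil)
noncomputable def S198_227_438_512 : SL := (SL.cons S198_227_438_512_0 (SL.cons S198_227_438_512_1 (SL.cons S198_227_438_512_2 (SL.cons S198_227_438_512_3 (SL.cons S198_227_438_512_4 (SL.cons S198_227_438_512_5 (SL.cons S198_227_438_512_6 (SL.cons S198_227_438_512_7 (SL.cons S198_227_438_512_8 (SL.cons S198_227_438_512_9 (SL.cons S198_227_438_512_10 (SL.cons S198_227_438_512_11 (SL.cons S198_227_438_512_12 (SL.cons S198_227_438_512_13 (SL.cons S198_227_438_512_14 (SL.cons S198_227_438_512_15 (SL.cons S198_227_438_512_16 (SL.cons S198_227_438_512_17 (SL.cons S198_227_438_512_18 (SL.cons S198_227_438_512_19 (SL.cons S198_227_438_512_20 (SL.cons S198_227_438_512_21 (SL.cons S198_227_438_512_22 (SL.cons S198_227_438_512_23 (SL.cons S198_227_438_512_24 (SL.cons S198_227_438_512_25 (SL.cons S198_227_438_512_26 (SL.cons S198_227_438_512_27 (SL.cons S198_227_438_512_28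 (SL.cons S198_227_438_512_29 (SL.cons S198_227_438_512_30 (SL.cons S198_227_438_512_31 (SL.cons S198_227_438_512_32 (SL.cons S198_227_438_512_33 (SL.cons S198_227_438_512_34 (SL.cons S198_227_438_512_35 (SL.cons S198_227_438_512_36 (SL.cons S198_227_438_512_37 (SL.cons S198_227_438_512_38 (SL.cons S198_227_438_512_39 (SL.cons S198_227_438_512_40 (SL.cons S198_227_438_512_41 (SL.cons S198_227_438_512_42 (SL.cons S198_227_438_512_43 (SL.cons S198_227_438_512_44 (SL.cons S198_227_438_512_45 (SL.cons S198_227_438_512_46 (SL.cons S198_227_438_512_47 (SL.cons S198_227_438_512_48 SL.nil)))))))))))))))))))))))))))))))))))))))))))))))))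
noncomputable def S198_227_475_512_0 : EL := (EL.cons 0 (TM.mk (P.cons (P.lf 7643457911 0 0) (P.cons (P.lf 503779721 0 0) (P.cons (P.lf 0 60126632 0) (P.cons (P.lf 0 7110123 0) (P.cons (P.lf 270363 0 0) (P.cons (P.lf 53070 0 0) P.nil)))))) 3984)
 (EL.cons 1 (TM.mk (P.cons (P.lf 0 1228710643 0) (P.cons (P.lf 321830180 0 0) (P.cons (P.lf 40457490 0 0) (P.cons (P.lf 0 2710608 0) (P.cons (P.lf 0 384633 0) (P.cons (P.lf 7027 0 0) P.nil)))))) 2881)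
 (EL.cons 5 (TM.mk (P.cons (P.lf 4583770480 0 0) (P.cons (P.lf 0 179121676 0) (P.cons (P.lf 21378358 0 0) (P.cons (P.lf 2528040 0 0) (P.cons (P.lf 0 96128 0) (P.cons (P.lf 0 18870 0) P.nil)))))) 1697)
 (EL.cons 9 (TM.mk (P.lf 6442450944 0 0) 2)
 EL.nil))))
noncomputable def S198_227_475_512_1 : EL := (EL.cons 0 (TM.mk (P.cons (P.cons (P.lf 1849824447 0 0) (P.cons (P.lf 0 226340330 0) (P.cons (P.lf 0 890001 0) (P.lf 296668 0 0)))) (P.cons (P.cons (P.lf 689152102 0 0) (P.cons (P.lf 0 120318235 0) (P.cons (P.lf 0 473098 0) (P.lf 157689 0 0)))) (P.cons (P.cons (P.lf 0 396476816 0) (P.cons (P.lf 908837 0 0) (P.cons (P.lf 3578 0 0) (P.lf 0 1193 0)))) (P.cons (P.cons (P.lf 0 35808027 0) (P.cons (P.lf 4616531 0 0) (P.cons (P.lf 18141 0 0) P.nil))) (P.cons (P.cons (P.lf 11614850 0 0) (P.cons (P.lf 232652 0 0) P.nil)) (P.cons (P.cons (P.lf 1144813 0 0) P.nil) P.nil)))))) 368286)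
 (EL.cons 1 (TM.mk (P.cons (P.cons (P.lf 0 183736368 0) (P.cons (P.lf 121084474 0 0) (P.cons (P.lf 476115 0 0) (P.lf 0 158700 0)))) (P.cons (P.cons (P.lf 536269916 0 0) (P.cons (P.lf 0 5290698 0) (P.cons (P.lf 0 20805 0) (P.lf 6936 0 0)))) (P.cons (P.cons (P.lf 100772301 0 0) (P.cons (P.lf 0 13210335 0) (P.cons (P.lf 0 51938 0) (P.lf 17306 0 0)))) (P.cons (P.cons (P.lf 0 37514335 0) (P.cons (P.lf 0 593278 0) (P.cons (P.lf 0 2324 0) P.nil))) (P.cons (P.cons (P.lf 0 4212633 0) (P.cons (P.lf 336557 0 0) P.nil)) (P.cons (P.cons (P.lf 762675 0 0) P.nil) P.nil)))))) 175629)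
 (EL.cons 5 (TM.mk (P.cons (P.cons (P.lf 973585899 0 0) (P.cons (P.lf 0 236925504 0) (P.cons (P.lf 0 931628 0) (P.lf 310540 0 0)))) (P.cons (P.cons (P.lf 0 306585275 0) (P.cons (P.lf 0 3102404 0) (P.cons (P.lf 0 12204 0) (P.lf 4074 0 0)))) (P.cons (P.cons (P.lf 0 6634816 0) (P.cons (P.lf 4047526 0 0) (P.cons (P.lf 15916 0 0) (P.lf 0 5306 0)))) (P.cons (P.cons (P.lf 16582154 0 0) (P.cons (P.lf 0 712248 0) (P.cons (P.lf 0 2794 0) P.nil))) (P.cons (P.cons (P.lf 0 1877649 0) (P.cons (P.lf 0 98884 0) P.nil)) (P.cons (P.cons (P.lf 0 386240 0) P.nil) P.nil)))))) 166488)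
 (EL.cons 9 (TM.mk (P.cons (P.cons (P.lf 1439383453 0 0) (P.cons (P.lf 0 280060644 0) (P.cons (P.lf 0 1101234 0) (P.lf 367074 0 0)))) (P.cons (P.cons (P.lf 0 54311845 0) (P.cons (P.lf 0 40484310 0) (P.cons (P.lf 0 159186 0) (P.lf 53058 0 0)))) (P.cons (P.cons (P.lf 0 130239130 0) (P.cons (P.lf 3856470 0 0) (P.cons (P.lf 15162 0 0) (P.lf 0 5052 0)))) (P.cons (P.cons (P.lf 3397422 0 0) (P.cons (P.lf 819864 0 0) (P.cons (P.lf 3216 0 0) P.nil))) (P.cons (P.cons (P.lf 1987114 0 0) (P.cons (P.lf 0 14262 0) P.nil)) (P.cons (P.cons (P.lf 18349 0 0) P.nil) P.nil)))))) 31694)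
 (EL.cons 2 (TM.mk (P.cons (P.cons (P.lf 853415178 0 0) (P.cons (P.lf 7826425 0 0) (P.cons (P.lf 0 3904444 0) (P.cons (P.lf 0 8766 0) (P.lf 2190 0 0))))) (P.cons (P.cons (P.lf 0 182408914 0) (P.cons (P.lf 0 1672818 0) (P.cons (P.lf 834533 0 0) (P.cons (P.lf 1873 0 0) (P.lf 0 466 0))))) (P.cons (P.cons (P.lf 0 44769771 0) (P.cons (P.lf 0 410568 0) (P.cons (P.lf 204823 0 0) (P.cons (P.lf 458 0 0) P.nil)))) (P.cons (P.cons (P.lf 1777536 0 0) (P.cons (P.lf 16298 0 0) (P.cons (P.lf 0 8130 0) P.nil))) (P.cons (P.cons (P.lf 645612 0 0) (P.cons (P.lf 5917 0 0) P.nil)) (P.cons (P.cons (P.lf 2064 0 0) P.nil) P.nil)))))) 10809)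
 (EL.cons 6 (TM.mk (P.cons (P.cons (P.lf 1290967998 0 0) (P.cons (P.lf 11839098 0 0) (P.cons (P.lf 0 5906286 0) (P.cons (P.lf 0 13260 0) (P.lf 3315 0 0))))) (P.cons (P.cons (P.lf 186616545 0 0) (P.cons (P.lf 1711404 0 0) (P.cons (P.lf 0 853785 0) (P.cons (P.lf 0 1914 0) (P.lf 477 0 0))))) (P.cons (P.cons (P.lf 0 17776800 0) (P.cons (P.lf 0 163023 0) (P.cons (P.lf 81327 0 0) (P.cons (P.lf 180 0 0) P.nil)))) (P.cons (P.cons (P.lf 0 3779256 0) (P.cons (P.lf 0 34656 0) (P.cons (P.lf 17289 0 0) P.nil))) (P.cons (P.cons (P.lf 65748 0 0) (P.cons (P.lf 600 0 0) P.nil)) (P.cons (P.cons (P.lf 38229 0 0) P.nil) P.nil)))))) 6126)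
 EL.nil))))))
noncomputable def S198_227_475_512_2 : EL := (EL.cons 0 (TM.mk (P.cons (P.cons (P.lf 445041399 0 0) (P.cons (P.lf 0 113494057 0) (P.cons (P.lf 4788129 0 0) (P.cons (P.lf 189923 0 0) (P.cons (P.lf 0 13643 0) (P.cons (P.lf 0 59 0) P.nil)))))) (P.cons (P.cons (P.lf 280399720 0 0) (P.cons (P.lf 0 107466116 0) (P.cons (P.lf 7754827 0 0) (P.cons (P.lf 205157 0 0) (P.cons (P.lf 0 21303 0) P.nil))))) (P.cons (P.cons (P.lf 0 190172422 0) (P.cons (P.lf 23198882 0 0) (P.cons (P.lf 1187734 0 0) (P.cons (P.lf 0 21779 0) P.nil)))) (P.cons (P.cons (P.lf 0 34991210 0) (P.cons (P.lf 12779995 0 0) (P.cons (P.lf 0 369507 0) P.nil))) (P.cons (P.cons (P.lf 18713124 0 0) (P.cons (P.lf 0 689627 0) P.nil)) (P.cons (P.cons (P.lf 1672454 0 0) P.nil) P.nil)))))) 1741218)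
 (EL.cons 1 (TM.mk (P.cons (P.cons (P.lf 0 20767516 0) (P.cons (P.lf 46212808 0 0) (P.cons (P.lf 0 8023693 0) (P.cons (P.lf 0 125095 0) (P.cons (P.lf 21374 0 0) (P.cons (P.lf 82 0 0) P.nil)))))) (P.cons (P.cons (P.lf 222033130 0 0) (P.cons (P.lf 0 45019098 0) (P.cons (P.lf 0 1175696 0) (P.cons (P.lf 51153 0 0) (P.cons (P.lf 2597 0 0) P.nil))))) (P.cons (P.cons (P.lf 31597191 0 0) (P.cons (P.lf 0 22358435 0) (P.cons (P.lf 1004359 0 0) (P.cons (P.lf 37881 0 0) P.nil)))) (P.cons (P.cons (P.lf 0 36457756 0) (P.cons (P.lf 2548362 0 0) (P.cons (P.lf 216328 0 0) P.nil))) (P.cons (P.cons (P.lf 0 4025377 0) (P.cons (P.lf 1603239 0 0) P.nil)) (P.cons (P.cons (P.lf 2111173 0 0) P.nil) P.nil)))))) 784348)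
 (EL.cons 5 (TM.mk (P.cons (P.cons (P.lf 206231196 0 0) (P.cons (P.lf 0 101475584 0) (P.cons (P.lf 11537682 0 0) (P.cons (P.lf 226873 0 0) (P.cons (P.lf 0 31093 0) (P.cons (P.lf 0 114 0) P.nil)))))) (P.cons (P.cons (P.lf 0 127202409 0) (P.cons (P.lf 23059593 0 0) (P.cons (P.lf 1172269 0 0) (P.cons (P.lf 0 21706 0) (P.cons (P.lf 0 2825 0) P.nil))))) (P.cons (P.cons (P.lf 2179737 0 0) (P.cons (P.lf 7311187 0 0) (P.cons (P.lf 0 452782 0) (P.cons (P.lf 0 13374 0) P.nil)))) (P.cons (P.cons (P.lf 16650545 0 0) (P.cons (P.lf 0 2682159 0) (P.cons (P.lf 2986 0 0) P.nil))) (P.cons (P.cons (P.lf 0 2728212 0) (P.cons (P.lf 0 198597 0) P.nil)) (P.cons (P.cons (P.lf 0 778989 0) P.nil) P.nil)))))) 795557)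
 (EL.cons 9 (TM.mk (P.cons (P.cons (P.lf 321589522 0 0) (P.cons (P.lf 0 125143260 0) (P.cons (P.lf 11682474 0 0) (P.cons (P.lf 259767 0 0) (P.cons (P.lf 0 31725 0) (P.cons (P.lf 0 124 0) P.nil)))))) (P.cons (P.cons (P.lf 0 24268891 0) (P.cons (P.lf 0 13368153 0) (P.cons (P.lf 3467233 0 0) (P.cons (P.lf 45199 0 0) (P.cons (P.lf 0 9171 0) P.nil))))) (P.cons (P.cons (P.lf 0 57738634 0) (P.cons (P.lf 13729113 0 0) (P.cons (P.lf 0 26902 0) (P.cons (P.lf 0 18628 0) P.nil)))) (P.cons (P.cons (P.lf 3714027 0 0) (P.cons (P.lf 1642791 0 0) (P.cons (P.lf 0 113292 0) P.nil))) (P.cons (P.cons (P.lf 3463530 0 0) (P.cons (P.lf 0 391581 0) P.nil)) (P.cons (P.cons (P.lf 0 162667 0) P.nil) P.nil)))))) 196841)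
 (EL.cons 2 (TM.mk (P.cons (P.cons (P.lf 381342965 0 0) (P.cons (P.lf 0 70700658 0) (P.cons (P.lf 0 2716875 0) (P.cons (P.lf 430115 0 0) (P.cons (P.lf 3965 0 0) (P.cons (P.lf 0 630 0) P.nil)))))) (P.cons (P.cons (P.lf 0 95897328 0) (P.cons (P.lf 4253883 0 0) (P.cons (P.lf 505996 0 0) (P.cons (P.lf 0 29041 0) (P.cons (P.lf 0 450 0) P.nil))))) (P.cons (P.cons (P.lf 0 51434443 0) (P.cons (P.lf 6734919 0 0) (P.cons (P.lf 329737 0 0) (P.cons (P.lf 0 41625 0) P.nil)))) (P.cons (P.cons (P.lf 9824293 0 0) (P.cons (P.lf 497047 0 0) (P.cons (P.lf 0 39611 0) P.nil))) (P.cons (P.cons (P.lf 2402696 0 0) (P.cons (P.lf 0 160239 0) P.nil)) (P.cons (P.cons (P.lf 0 236711 0) P.nil) P.nil)))))) 131933)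
 (EL.cons 6 (TM.mk (P.cons (P.cons (P.lf 576860568 0 0) (P.cons (P.lf 0 106949454 0) (P.cons (P.lf 0 4109838 0) (P.cons (P.lf 650640 0 0) (P.cons (P.lf 6000 0 0) (P.cons (P.lf 0 954 0) P.nil)))))) (P.cons (P.cons (P.lf 61621860 0 0) (P.cons (P.lf 0 31884612 0) (P.cons (P.lf 0 707100 0) (P.cons (P.lf 189180 0 0) (P.cons (P.lf 1464 0 0) P.nil))))) (P.cons (P.cons (P.lf 0 63285744 0) (P.cons (P.lf 165336 0 0) (P.cons (P.lf 299304 0 0) (P.cons (P.lf 0 3708 0) P.nil)))) (P.cons (P.cons (P.lf 0 7572618 0) (P.cons (P.lf 1034538 0 0) (P.cons (P.lf 49104 0 0) P.nil))) (P.cons (P.cons (P.lf 1805040 0 0) (P.cons (P.lf 78828 0 0) P.nil)) (P.cons (P.cons (P.lf 272496 0 0) P.nil) P.nil)))))) 98244)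
 EL.nil))))))
noncomputable def S198_227_475_512_3 : EL := (EL.cons 0 (TM.mk (P.cons (P.lf 812258952 0 0) (P.cons (P.lf 0 503779721 0) (P.cons (P.lf 60126632 0 0) (P.cons (P.lf 7110123 0 0) (P.cons (P.lf 0 270363 0) (P.cons (P.lf 0 53070 0) P.nil)))))) 3984)
 (EL.cons 1 (TM.mk (P.cons (P.lf 1228710643 0 0) (P.cons (P.lf 0 321830180 0) (P.cons (P.lf 0 40457490 0) (P.cons (P.lf 2710608 0 0) (P.cons (P.lf 384633 0 0) (P.cons (P.lf 0 7027 0) P.nil)))))) 2881)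
 (EL.cons 5 (TM.mk (P.cons (P.lf 1858680464 0 0) (P.cons (P.lf 179121676 0 0) (P.cons (P.lf 0 21378358 0) (P.cons (P.lf 0 2528040 0) (P.cons (P.lf 96128 0 0) (P.cons (P.lf 18870 0 0) P.nil)))))) 1690)
 EL.nil)))
noncomputable def S198_227_475_512_4 : EL := (EL.cons 0 (TM.mk (P.cons (P.cons (P.lf 181476290 0 0) (P.cons (P.lf 0 35309816 0) (P.cons (P.lf 0 138842 0) (P.lf 46279 0 0)))) (P.cons (P.cons (P.lf 0 119402922 0) (P.cons (P.lf 16795645 0 0) (P.cons (P.lf 66042 0 0) (P.lf 0 22013 0)))) (P.cons (P.cons (P.lf 1260168 0 0) (P.cons (P.lf 1038193 0 0) (P.cons (P.lf 4081 0 0) (P.lf 0 1358 0)))) (P.cons (P.cons (P.lf 11694309 0 0) (P.cons (P.lf 0 885116 0) (P.cons (P.lf 0 3480 0) P.nil))) (P.cons (P.cons (P.lf 0 1350986 0) (P.cons (P.lf 0 62843 0) P.nil)) (P.cons (P.cons (P.lf 0 274679 0) P.nil) P.nil)))))) 62196)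
 (EL.cons 1 (TM.mk (P.cons (P.cons (P.lf 274520640 0 0) (P.cons (P.lf 0 53413443 0) (P.cons (P.lf 0 210028 0) (P.lf 70006 0 0)))) (P.cons (P.cons (P.lf 0 82262259 0) (P.cons (P.lf 6269113 0 0) (P.cons (P.lf 24650 0 0) (P.lf 0 8216 0)))) (P.cons (P.cons (P.lf 0 31165290 0) (P.cons (P.lf 4516620 0 0) (P.cons (P.lf 17758 0 0) (P.lf 0 5917 0)))) (P.cons (P.cons (P.lf 8100682 0 0) (P.cons (P.lf 100117 0 0) (P.cons (P.lf 391 0 0) P.nil))) (P.cons (P.cons (P.lf 1090230 0 0) (P.cons (P.lf 0 101645 0) P.nil)) (P.cons (P.cons (P.lf 0 176709 0) P.nil) P.nil)))))) 44051)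
 (EL.cons 5 (TM.mk (P.cons (P.cons (P.lf 415269580 0 0) (P.cons (P.lf 0 80798946 0) (P.cons (P.lf 0 317710 0) (P.lf 105902 0 0)))) (P.cons (P.cons (P.lf 24350422 0 0) (P.cons (P.lf 0 19466554 0) (P.cons (P.lf 0 76542 0) (P.lf 25512 0 0)))) (P.cons (P.cons (P.lf 0 43861104 0) (P.cons (P.lf 916352 0 0) (P.cons (P.lf 3602 0 0) (P.lf 0 1198 0)))) (P.cons (P.cons (P.lf 0 3025502 0) (P.cons (P.lf 587994 0 0) (P.cons (P.lf 2308 0 0) P.nil))) (P.cons (P.cons (P.lf 1142720 0 0) (P.cons (P.lf 17590 0 0) P.nil)) (P.cons (P.cons (P.lf 103780 0 0) P.nil) P.nil)))))) 33772)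
 EL.nil)))
noncomputable def S198_227_475_512_5 : EL := (EL.cons 0 (TM.mk (P.cons (P.cons (P.lf 40545743 0 0) (P.cons (P.lf 0 15777959 0) (P.cons (P.lf 1472915 0 0) (P.cons (P.lf 32749 0 0) (P.cons (P.lf 0 3999 0) (P.cons (P.lf 0 14 0) P.nil)))))) (P.cons (P.cons (P.lf 0 28207105 0) (P.cons (P.lf 8100369 0 0) (P.cons (P.lf 0 476386 0) (P.cons (P.lf 0 14612 0) (P.cons (P.lf 1323 0 0) P.nil))))) (P.cons (P.cons (P.lf 0 2380529 0) (P.cons (P.lf 1608356 0 0) (P.cons (P.lf 0 165487 0) (P.cons (P.lf 0 3457 0) P.nil)))) (P.cons (P.cons (P.lf 5111662 0 0) (P.cons (P.lf 0 1129327 0) (P.cons (P.lf 33071 0 0) P.nil))) (P.cons (P.cons (P.lf 0 432892 0) (P.cons (P.lf 0 59199 0) P.nil)) (P.cons (P.cons (P.lf 0 322036 0) P.nil) P.nil)))))) 188816)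
 (EL.cons 1 (TM.mk (P.cons (P.cons (P.lf 61333871 0 0) (P.cons (P.lf 0 23867445 0) (P.cons (P.lf 2228092 0 0) (P.cons (P.lf 49541 0 0) (P.cons (P.lf 0 6048 0) (P.cons (P.lf 0 22 0) P.nil)))))) (P.cons (P.cons (P.lf 0 20693467 0) (P.cons (P.lf 3701895 0 0) (P.cons (P.lf 77681 0 0) (P.cons (P.lf 0 4355 0) (P.cons (P.lf 0 165 0) P.nil))))) (P.cons (P.cons (P.lf 0 11819152 0) (P.cons (P.lf 4072108 0 0) (P.cons (P.lf 0 251698 0) (P.cons (P.lf 0 7440 0) P.nil)))) (P.cons (P.cons (P.lf 3880363 0 0) (P.cons (P.lf 0 341220 0) (P.cons (P.lf 0 37119 0) P.nil))) (P.cons (P.cons (P.lf 846611 0 0) (P.cons (P.lf 0 256059 0) P.nil)) (P.cons (P.cons (P.lf 0 253458 0) P.nil) P.nil)))))) 155913)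
 (EL.cons 5 (TM.mk (P.cons (P.cons (P.lf 92780242 0 0) (P.cons (P.lf 0 36104476 0) (P.cons (P.lf 3370452 0 0) (P.cons (P.lf 74942 0 0) (P.cons (P.lf 0 9152 0) (P.cons (P.lf 0 34 0) P.nil)))))) (P.cons (P.cons (P.lf 1939562 0 0) (P.cons (P.lf 0 7336182 0) (P.cons (P.lf 1325124 0 0) (P.cons (P.lf 20262 0 0) (P.cons (P.lf 0 3526 0) P.nil))))) (P.cons (P.cons (P.lf 0 18399800 0) (P.cons (P.lf 4004510 0 0) (P.cons (P.lf 49872 0 0) (P.cons (P.lf 0 4978 0) P.nil)))) (P.cons (P.cons (P.lf 0 579470 0) (P.cons (P.lf 949134 0 0) (P.cons (P.lf 0 49522 0) P.nil))) (P.cons (P.cons (P.lf 1308426 0 0) (P.cons (P.lf 0 109476 0) P.nil)) (P.cons (P.cons (P.lf 60278 0 0) P.nil) P.nil)))))) 115488)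
 EL.nil)))
noncomputable def S198_227_475_512_6 : EL := (EL.cons 12 (TM.mk (P.lf 8589934592 0 0) 0)
 (EL.cons 3 (TM.mk (P.cons (P.lf 0 1320724353 0) (P.cons (P.lf 409570215 0 0) (P.cons (P.lf 14623338 0 0) (P.cons (P.lf 0 1245645 0) (P.cons (P.lf 0 85526 0) (P.cons (P.lf 2831 0 0) P.nil)))))) 532)
 (EL.cons 7 (TM.mk (P.cons (P.lf 0 1997870342 0) (P.cons (P.lf 0 96267727 0) (P.cons (P.lf 13808992 0 0) (P.cons (P.lf 693290 0 0) (P.cons (P.lf 0 37347 0) (P.cons (P.lf 0 3551 0) P.nil)))))) 296)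
 EL.nil)))
noncomputable def S198_227_475_512_7 : EL := (EL.cons 12 (TM.mk (P.cons (P.cons (P.lf 1919177938 0 0) (P.cons (P.lf 0 373414192 0) (P.cons (P.lf 0 1468312 0) (P.lf 489432 0 0)))) (P.cons (P.cons (P.lf 0 72415794 0) (P.cons (P.lf 0 53979080 0) (P.cons (P.lf 0 212248 0) (P.lf 70744 0 0)))) (P.cons (P.cons (P.lf 0 173652174 0) (P.cons (P.lf 5141960 0 0) (P.cons (P.lf 20216 0 0) (P.lf 0 6736 0)))) (P.cons (P.cons (P.lf 4529896 0 0) (P.cons (P.lf 1093152 0 0) (P.cons (P.lf 4288 0 0) P.nil))) (P.cons (P.cons (P.lf 2649486 0 0) (P.cons (P.lf 0 19016 0) P.nil)) (P.cons (P.cons (P.lf 24466 0 0) P.nil) P.nil)))))) 42234)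
 (EL.cons 3 (TM.mk (P.cons (P.cons (P.lf 0 526147772 0) (P.cons (P.lf 0 114826768 0) (P.cons (P.lf 0 451512 0) (P.lf 150502 0 0)))) (P.cons (P.cons (P.lf 0 1011329537 0) (P.cons (P.lf 19010118 0 0) (P.cons (P.lf 74750 0 0) (P.lf 0 24916 0)))) (P.cons (P.cons (P.lf 43174944 0 0) (P.cons (P.lf 8000036 0 0) (P.cons (P.lf 31454 0 0) (P.lf 0 10482 0)))) (P.cons (P.cons (P.lf 30131880 0 0) (P.cons (P.lf 0 78702 0) (P.cons (P.lf 0 310 0) P.nil))) (P.cons (P.cons (P.lf 558632 0 0) (P.cons (P.lf 0 150688 0) P.nil)) (P.cons (P.cons (P.lf 0 398539 0) P.nil) P.nil)))))) 97562)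
 (EL.cons 7 (TM.mk (P.cons (P.cons (P.lf 0 392055790 0) (P.cons (P.lf 127334004 0 0) (P.cons (P.lf 500698 0 0) (P.lf 0 166900 0)))) (P.cons (P.cons (P.lf 237708682 0 0) (P.cons (P.lf 0 4468246 0) (P.cons (P.lf 0 17568 0) (P.lf 5854 0 0)))) (P.cons (P.cons (P.lf 0 52733057 0) (P.cons (P.lf 0 1079902 0) (P.cons (P.lf 0 4248 0) (P.lf 1416 0 0)))) (P.cons (P.cons (P.lf 0 3620039 0) (P.cons (P.lf 448133 0 0) (P.cons (P.lf 1758 0 0) P.nil))) (P.cons (P.cons (P.lf 1597362 0 0) (P.cons (P.lf 20157 0 0) P.nil)) (P.cons (P.cons (P.lf 87749 0 0) P.nil) P.nil)))))) 86009)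
 (EL.cons 10 (TM.mk (P.cons (P.cons (P.lf 0 2775287877 0) (P.cons (P.lf 0 25451376 0) (P.cons (P.lf 12697173 0 0) (P.cons (P.lf 28512 0 0) (P.lf 0 7128 0))))) (P.cons (P.cons (P.lf 0 267455448 0) (P.cons (P.lf 0 2452755 0) (P.cons (P.lf 1223631 0 0) (P.cons (P.lf 2745 0 0) (P.lf 0 684 0))))) (P.cons (P.cons (P.lf 31921083 0 0) (P.cons (P.lf 292737 0 0) (P.cons (P.lf 0 146040 0) (P.cons (P.lf 0 327 0) P.nil)))) (P.cons (P.cons (P.lf 3774741 0 0) (P.cons (P.lf 34617 0 0) (P.cons (P.lf 0 17268 0) P.nil))) (P.cons (P.cons (P.lf 0 143532 0) (P.cons (P.lf 0 1314 0) P.nil)) (P.cons (P.cons (P.lf 0 28173 0) P.nil) P.nil)))))) 3843)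
 EL.nil))))
noncomputable def S198_227_475_512_8 : EL := (EL.cons 12 (TM.mk (P.cons (P.cons (P.lf 428786030 0 0) (P.cons (P.lf 0 166857680 0) (P.cons (P.lf 15576632 0 0) (P.cons (P.lf 346356 0 0) (P.cons (P.lf 0 42300 0) (P.cons (P.lf 0 166 0) P.nil)))))) (P.cons (P.cons (P.lf 0 32358522 0) (P.cons (P.lf 0 17824204 0) (P.cons (P.lf 4622978 0 0) (P.cons (P.lf 60266 0 0) (P.cons (P.lf 0 12228 0) P.nil))))) (P.cons (P.cons (P.lf 0 76984846 0) (P.cons (P.lf 18305484 0 0) (P.cons (P.lf 0 35870 0) (P.cons (P.lf 0 24838 0) P.nil)))) (P.cons (P.cons (P.lf 4952036 0 0) (P.cons (P.lf 2190388 0 0) (P.cons (P.lf 0 151056 0) P.nil))) (P.cons (P.cons (P.lf 4618040 0 0) (P.cons (P.lf 0 522108 0) P.nil)) (P.cons (P.cons (P.lf 0 216890 0) P.nil) P.nil)))))) 262426)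
 (EL.cons 3 (TM.mk (P.cons (P.cons (P.lf 0 169178731 0) (P.cons (P.lf 0 31219897 0) (P.cons (P.lf 12356360 0 0) (P.cons (P.lf 139054 0 0) (P.cons (P.lf 0 32515 0) (P.cons (P.lf 0 125 0) P.nil)))))) (P.cons (P.cons (P.lf 0 468454613 0) (P.cons (P.lf 110185792 0 0) (P.cons (P.lf 171210 0 0) (P.cons (P.lf 0 146479 0) (P.cons (P.lf 681 0 0) P.nil))))) (P.cons (P.cons (P.lf 46593330 0 0) (P.cons (P.lf 20172036 0 0) (P.cons (P.lf 0 1260594 0) (P.cons (P.lf 0 36969 0) P.nil)))) (P.cons (P.cons (P.lf 57620279 0 0) (P.cons (P.lf 0 6096690 0) (P.cons (P.lf 0 149179 0) P.nil))) (P.cons (P.cons (P.lf 0 2790709 0) (P.cons (P.lf 0 1291014 0) P.nil)) (P.cons (P.cons (P.lf 0 2260705 0) P.nil) P.nil)))))) 608553)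
 (EL.cons 7 (TM.mk (P.cons (P.cons (P.lf 0 75459336 0) (P.cons (P.lf 52176368 0 0) (P.cons (P.lf 0 7090081 0) (P.cons (P.lf 0 125760 0) (P.cons (P.lf 19006 0 0) (P.cons (P.lf 74 0 0) P.nil)))))) (P.cons (P.cons (P.lf 110108251 0 0) (P.cons (P.lf 0 25898694 0) (P.cons (P.lf 0 40246 0) (P.cons (P.lf 34428 0 0) (P.cons (P.lf 0 156 0) P.nil))))) (P.cons (P.cons (P.lf 0 30677207 0) (P.cons (P.lf 0 101665 0) (P.cons (P.lf 303504 0 0) (P.cons (P.lf 2526 0 0) P.nil)))) (P.cons (P.cons (P.lf 0 10446505 0) (P.cons (P.lf 2452407 0 0) (P.cons (P.lf 0 35889 0) P.nil))) (P.cons (P.cons (P.lf 4173553 0 0) (P.cons (P.lf 0 100925 0) P.nil)) (P.cons (P.cons (P.lf 247025 0 0) P.nil) P.nil)))))) 484109)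
 (EL.cons 10 (TM.mk (P.cons (P.cons (P.lf 0 1240119162 0) (P.cons (P.lf 229917036 0 0) (P.cons (P.lf 8835228 0 0) (P.cons (P.lf 0 1398732 0) (P.cons (P.lf 0 12900 0) (P.cons (P.lf 2052 0 0) P.nil)))))) (P.cons (P.cons (P.lf 0 72717648 0) (P.cons (P.lf 57466080 0 0) (P.cons (P.lf 1094388 0 0) (P.cons (P.lf 0 339306 0) (P.cons (P.lf 0 2526 0) P.nil))))) (P.cons (P.cons (P.lf 130982370 0 0) (P.cons (P.lf 0 1535304 0) (P.cons (P.lf 0 635106 0) (P.cons (P.lf 14658 0 0) P.nil)))) (P.cons (P.cons (P.lf 9035052 0 0) (P.cons (P.lf 0 1673070 0) (P.cons (P.lf 0 64332 0) P.nil))) (P.cons (P.cons (P.lf 0 3412506 0) (P.cons (P.lf 0 83820 0) P.nil)) (P.cons (P.cons (P.lf 0 309912 0) P.nil) P.nil)))))) 123738)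
 EL.nil))))
noncomputable def S198_227_475_512_9 : EL := (EL.cons 3 (TM.mk (P.cons (P.lf 0 1320724353 0) (P.cons (P.lf 409570215 0 0) (P.cons (P.lf 14623338 0 0) (P.cons (P.lf 0 1245645 0) (P.cons (P.lf 0 85526 0) (P.cons (P.lf 2831 0 0) P.nil)))))) 532)
 (EL.cons 7 (TM.mk (P.cons (P.lf 0 1997870342 0) (P.cons (P.lf 0 96267727 0) (P.cons (P.lf 13808992 0 0) (P.cons (P.lf 693290 0 0) (P.cons (P.lf 0 37347 0) (P.cons (P.lf 0 3551 0) P.nil)))))) 296)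
 EL.nil))
noncomputable def S198_227_475_512_10 : EL := (EL.cons 3 (TM.mk (P.cons (P.cons (P.lf 0 295078502 0) (P.cons (P.lf 57413384 0 0) (P.cons (P.lf 225756 0 0) (P.lf 0 75251 0)))) (P.cons (P.cons (P.lf 102640993 0 0) (P.cons (P.lf 0 9505059 0) (P.cons (P.lf 0 37375 0) (P.lf 12458 0 0)))) (P.cons (P.cons (P.lf 26513832 0 0) (P.cons (P.lf 0 4000018 0) (P.cons (P.lf 0 15727 0) (P.lf 5241 0 0)))) (P.cons (P.cons (P.lf 0 9377844 0) (P.cons (P.lf 39351 0 0) (P.cons (P.lf 155 0 0) P.nil))) (P.cons (P.cons (P.lf 0 495607 0) (P.cons (P.lf 75344 0 0) P.nil)) (P.cons (P.cons (P.lf 156812 0 0) P.nil) P.nil)))))) 22717)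
 (EL.cons 7 (TM.mk (P.cons (P.cons (P.lf 0 446367622 0) (P.cons (P.lf 86849688 0 0) (P.cons (P.lf 341503 0 0) (P.lf 0 113833 0)))) (P.cons (P.cons (P.lf 0 4665638 0) (P.cons (P.lf 16739468 0 0) (P.cons (P.lf 65820 0 0) (P.lf 0 21938 0)))) (P.cons (P.cons (P.lf 44285290 0 0) (P.cons (P.lf 0 1191277 0) (P.cons (P.lf 0 4683 0) (P.lf 1560 0 0)))) (P.cons (P.cons (P.lf 931033 0 0) (P.cons (P.lf 0 428788 0) (P.cons (P.lf 0 1683 0) P.nil))) (P.cons (P.cons (P.lf 0 960339 0) (P.cons (P.lf 0 2295 0) P.nil)) (P.cons (P.cons (P.lf 0 42595 0) P.nil) P.nil)))))) 19831)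
 EL.nil))
noncomputable def S198_227_475_512_11 : EL := (EL.cons 3 (TM.mk (P.cons (P.cons (P.lf 0 65926945 0) (P.cons (P.lf 25654793 0 0) (P.cons (P.lf 0 2394946 0) (P.cons (P.lf 0 53252 0) (P.cons (P.lf 6503 0 0) (P.cons (P.lf 25 0 0) P.nil)))))) (P.cons (P.cons (P.lf 25419829 0 0) (P.cons (P.lf 0 5215298 0) (P.cons (P.lf 31902 0 0) (P.cons (P.lf 7247 0 0) (P.cons (P.lf 0 135 0) P.nil))))) (P.cons (P.cons (P.lf 11023710 0 0) (P.cons (P.lf 0 3948432 0) (P.cons (P.lf 252456 0 0) (P.cons (P.lf 7281 0 0) P.nil)))) (P.cons (P.cons (P.lf 0 4549309 0) (P.cons (P.lf 529884 0 0) (P.cons (P.lf 27125 0 0) P.nil))) (P.cons (P.cons (P.lf 0 604555 0) (P.cons (P.lf 220122 0 0) P.nil)) (P.cons (P.cons (P.lf 273593 0 0) P.nil) P.nil)))))) 117863)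
 (EL.cons 7 (TM.mk (P.cons (P.cons (P.lf 0 99728220 0) (P.cons (P.lf 38808212 0 0) (P.cons (P.lf 0 3622855 0) (P.cons (P.lf 0 80556 0) (P.cons (P.lf 9838 0 0) (P.cons (P.lf 38 0 0) P.nil)))))) (P.cons (P.cons (P.lf 2720611 0 0) (P.cons (P.lf 6015582 0 0) (P.cons (P.lf 0 1249792 0) (P.cons (P.lf 0 17898 0) (P.cons (P.lf 3318 0 0) P.nil))))) (P.cons (P.cons (P.lf 18957295 0 0) (P.cons (P.lf 0 4326019 0) (P.cons (P.lf 0 18426 0) (P.cons (P.lf 5658 0 0) P.nil)))) (P.cons (P.cons (P.lf 0 306397 0) (P.cons (P.lf 0 756717 0) (P.cons (P.lf 44223 0 0) P.nil))) (P.cons (P.cons (P.lf 0 1257809 0) (P.cons (P.lf 125599 0 0) P.nil)) (P.cons (P.cons (P.lf 401 0 0) P.nil) P.nil)))))) 91213)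
 EL.nil))
noncomputable def S198_227_475_512_12 : EL := (EL.cons 4 (TM.mk (P.cons (P.lf 1320724353 0 0) (P.cons (P.lf 0 409570215 0) (P.cons (P.lf 0 14623338 0) (P.cons (P.lf 1245645 0 0) (P.cons (P.lf 85526 0 0) (P.cons (P.lf 0 2831 0) P.nil)))))) 532)
 (EL.cons 8 (TM.mk (P.cons (P.lf 1997870342 0 0) (P.cons (P.lf 96267727 0 0) (P.cons (P.lf 0 13808992 0) (P.cons (P.lf 0 693290 0) (P.cons (P.lf 37347 0 0) (P.cons (P.lf 3551 0 0) P.nil)))))) 296)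
 EL.nil))
noncomputable def S198_227_475_512_13 : EL := (EL.cons 4 (TM.mk (P.cons (P.cons (P.lf 295078502 0 0) (P.cons (P.lf 0 57413384 0) (P.cons (P.lf 0 225756 0) (P.lf 75251 0 0)))) (P.cons (P.cons (P.lf 0 102640993 0) (P.cons (P.lf 9505059 0 0) (P.cons (P.lf 37375 0 0) (P.lf 0 12458 0)))) (P.cons (P.cons (P.lf 0 26513832 0) (P.cons (P.lf 4000018 0 0) (P.cons (P.lf 15727 0 0) (P.lf 0 5241 0)))) (P.cons (P.cons (P.lf 9377844 0 0) (P.cons (P.lf 0 39351 0) (P.cons (P.lf 0 155 0) P.nil))) (P.cons (P.cons (P.lf 495607 0 0) (P.cons (P.lf 0 75344 0) P.nil)) (P.cons (P.cons (P.lf 0 156812 0) P.nil) P.nil)))))) 22717)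
 (EL.cons 8 (TM.mk (P.cons (P.cons (P.lf 446367622 0 0) (P.cons (P.lf 0 86849688 0) (P.cons (P.lf 0 341503 0) (P.lf 113833 0 0)))) (P.cons (P.cons (P.lf 4665638 0 0) (P.cons (P.lf 0 16739468 0) (P.cons (P.lf 0 65820 0) (P.lf 21938 0 0)))) (P.cons (P.cons (P.lf 0 44285290 0) (P.cons (P.lf 1191277 0 0) (P.cons (P.lf 4683 0 0) (P.lf 0 1560 0)))) (P.cons (P.cons (P.lf 0 931033 0) (P.cons (P.lf 428788 0 0) (P.cons (P.lf 1683 0 0) P.nil))) (P.cons (P.cons (P.lf 960339 0 0) (P.cons (P.lf 2295 0 0) P.nil)) (P.cons (P.cons (P.lf 42595 0 0) P.nil) P.nil)))))) 19831)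
 EL.nil))
noncomputable def S198_227_475_512_14 : EL := (EL.cons 4 (TM.mk (P.cons (P.cons (P.lf 65926945 0 0) (P.cons (P.lf 0 25654793 0) (P.cons (P.lf 2394946 0 0) (P.cons (P.lf 53252 0 0) (P.cons (P.lf 0 6503 0) (P.cons (P.lf 0 25 0) P.nil)))))) (P.cons (P.cons (P.lf 0 25419829 0) (P.cons (P.lf 5215298 0 0) (P.cons (P.lf 0 31902 0) (P.cons (P.lf 0 7247 0) (P.cons (P.lf 135 0 0) P.nil))))) (P.cons (P.cons (P.lf 0 11023710 0) (P.cons (P.lf 3948432 0 0) (P.cons (P.lf 0 252456 0) (P.cons (P.lf 0 7281 0) P.nil)))) (P.cons (P.cons (P.lf 4549309 0 0) (P.cons (P.lf 0 529884 0) (P.cons (P.lf 0 27125 0) P.nil))) (P.cons (P.cons (P.lf 604555 0 0) (P.cons (P.lf 0 220122 0) P.nil)) (P.cons (P.cons (P.lf 0 273593 0) P.nil) P.nil)))))) 117863)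
 (EL.cons 8 (TM.mk (P.cons (P.cons (P.lf 99728220 0 0) (P.cons (P.lf 0 38808212 0) (P.cons (P.lf 3622855 0 0) (P.cons (P.lf 80556 0 0) (P.cons (P.lf 0 9838 0) (P.cons (P.lf 0 38 0) P.nil)))))) (P.cons (P.cons (P.lf 0 2720611 0) (P.cons (P.lf 0 6015582 0) (P.cons (P.lf 1249792 0 0) (P.cons (P.lf 17898 0 0) (P.cons (P.lf 0 3318 0) P.nil))))) (P.cons (P.cons (P.lf 0 18957295 0) (P.cons (P.lf 4326019 0 0) (P.cons (P.lf 18426 0 0) (P.cons (P.lf 0 5658 0) P.nil)))) (P.cons (P.cons (P.lf 306397 0 0) (P.cons (P.lf 756717 0 0) (P.cons (P.lf 0 44223 0) P.nil))) (P.cons (P.cons (P.lf 1257809 0 0) (P.cons (P.lf 0 125599 0) P.nil)) (P.cons (P.cons (P.lf 0 401 0) P.nil) P.nil)))))) 91213)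
 EL.nil))
noncomputable def S198_227_475_512_15 : EL := (EL.cons 4 (TM.mk (P.cons (P.lf 0 433204774 0) (P.cons (P.lf 268682518 0 0) (P.cons (P.lf 0 32067537 0) (P.cons (P.lf 0 3792065 0) (P.cons (P.lf 144194 0 0) (P.cons (P.lf 28304 0 0) P.nil)))))) 2128)
 (EL.cons 8 (TM.mk (P.cons (P.lf 0 655312343 0) (P.cons (P.lf 171642763 0 0) (P.cons (P.lf 21577328 0 0) (P.cons (P.lf 0 1445658 0) (P.cons (P.lf 0 205138 0) (P.cons (P.lf 3748 0 0) P.nil)))))) 1533)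
 EL.nil))
noncomputable def S198_227_475_512_16 : EL := (EL.cons 4 (TM.mk (P.cons (P.cons (P.lf 0 96787354 0) (P.cons (P.lf 18831901 0 0) (P.cons (P.lf 74049 0 0) (P.lf 0 24682 0)))) (P.cons (P.cons (P.lf 63681558 0 0) (P.cons (P.lf 0 8957677 0) (P.cons (P.lf 0 35222 0) (P.lf 11740 0 0)))) (P.cons (P.cons (P.lf 0 672090 0) (P.cons (P.lf 0 553703 0) (P.cons (P.lf 0 2176 0) (P.lf 724 0 0)))) (P.cons (P.cons (P.lf 0 6236965 0) (P.cons (P.lf 472062 0 0) (P.cons (P.lf 1856 0 0) P.nil))) (P.cons (P.cons (P.lf 720525 0 0) (P.cons (P.lf 33516 0 0) P.nil)) (P.cons (P.cons (P.lf 146495 0 0) P.nil) P.nil)))))) 33180)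
 (EL.cons 8 (TM.mk (P.cons (P.cons (P.lf 0 146411008 0) (P.cons (P.lf 28487170 0 0) (P.cons (P.lf 112015 0 0) (P.lf 0 37337 0)))) (P.cons (P.cons (P.lf 43873205 0 0) (P.cons (P.lf 0 3343527 0) (P.cons (P.lf 0 13147 0) (P.lf 4382 0 0)))) (P.cons (P.cons (P.lf 16621488 0 0) (P.cons (P.lf 0 2408864 0) (P.cons (P.lf 0 9471 0) (P.lf 3156 0 0)))) (P.cons (P.cons (P.lf 0 4320364 0) (P.cons (P.lf 0 53396 0) (P.cons (P.lf 0 209 0) P.nil))) (P.cons (P.cons (P.lf 0 581456 0) (P.cons (P.lf 54211 0 0) P.nil)) (P.cons (P.cons (P.lf 94245 0 0) P.nil) P.nil)))))) 23484)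
 EL.nil))
noncomputable def S198_227_475_512_17 : EL := (EL.cons 4 (TM.mk (P.cons (P.cons (P.lf 0 21624396 0) (P.cons (P.lf 8414911 0 0) (P.cons (P.lf 0 785554 0) (P.cons (P.lf 0 17466 0) (P.cons (P.lf 2132 0 0) (P.cons (P.lf 7 0 0) P.nil)))))) (P.cons (P.cons (P.lf 15043789 0 0) (P.cons (P.lf 0 4320196 0) (P.cons (P.lf 254072 0 0) (P.cons (P.lf 7793 0 0) (P.cons (P.lf 0 705 0) P.nil))))) (P.cons (P.cons (P.lf 1269615 0 0) (P.cons (P.lf 0 857790 0) (P.cons (P.lf 88260 0 0) (P.cons (P.lf 1844 0 0) P.nil)))) (P.cons (P.cons (P.lf 0 2726220 0) (P.cons (P.lf 602308 0 0) (P.cons (P.lf 0 17638 0) P.nil))) (P.cons (P.cons (P.lf 230876 0 0) (P.cons (P.lf 31573 0 0) P.nil)) (P.cons (P.cons (P.lf 171752 0 0) P.nil) P.nil)))))) 100712)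
 (EL.cons 8 (TM.mk (P.cons (P.cons (P.lf 0 32711398 0) (P.cons (P.lf 12729304 0 0) (P.cons (P.lf 0 1188316 0) (P.cons (P.lf 0 26422 0) (P.cons (P.lf 3226 0 0) (P.cons (P.lf 12 0 0) P.nil)))))) (P.cons (P.cons (P.lf 11036516 0 0) (P.cons (P.lf 0 1974344 0) (P.cons (P.lf 0 41430 0) (P.cons (P.lf 2323 0 0) (P.cons (P.lf 88 0 0) P.nil))))) (P.cons (P.cons (P.lf 6303548 0 0) (P.cons (P.lf 0 2171791 0) (P.cons (P.lf 134239 0 0) (P.cons (P.lf 3968 0 0) P.nil)))) (P.cons (P.cons (P.lf 0 2069527 0) (P.cons (P.lf 181984 0 0) (P.cons (P.lf 19797 0 0) P.nil))) (P.cons (P.cons (P.lf 0 451526 0) (P.cons (P.lf 136565 0 0) P.nil)) (P.cons (P.cons (P.lf 135178 0 0) P.nil) P.nil)))))) 83142)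
 EL.nil))
noncomputable def S198_227_475_512_18 : EL := (EL.cons 4 (TM.mk (P.cons (P.lf 142093522 0 0) (P.cons (P.lf 0 132193991 0) (P.cons (P.lf 36274848 0 0) (P.cons (P.lf 0 908220 0) (P.cons (P.lf 0 623396 0) (P.cons (P.lf 0 4479 0) P.nil)))))) 6741)
 (EL.cons 8 (TM.mk (P.cons (P.lf 214946014 0 0) (P.cons (P.lf 0 122956731 0) (P.cons (P.lf 8001726 0 0) (P.cons (P.lf 3495072 0 0) (P.cons (P.lf 0 40579 0) (P.cons (P.lf 0 38127 0) P.nil)))))) 3726)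
 EL.nil))
noncomputable def S198_227_475_512_19 : EL := (EL.cons 4 (TM.mk (P.cons (P.cons (P.lf 31746778 0 0) (P.cons (P.lf 0 6176966 0) (P.cons (P.lf 0 24287 0) (P.lf 8095 0 0)))) (P.cons (P.cons (P.lf 0 30732900 0) (P.cons (P.lf 4853707 0 0) (P.cons (P.lf 19084 0 0) (P.lf 0 6360 0)))) (P.cons (P.cons (P.lf 6346494 0 0) (P.cons (P.lf 0 661144 0) (P.cons (P.lf 0 2599 0) (P.lf 866 0 0)))) (P.cons (P.cons (P.lf 2238612 0 0) (P.cons (P.lf 0 249518 0) (P.cons (P.lf 0 980 0) P.nil))) (P.cons (P.cons (P.lf 0 890832 0) (P.cons (P.lf 37382 0 0) P.nil)) (P.cons (P.cons (P.lf 1374 0 0) P.nil) P.nil)))))) 40402)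
 (EL.cons 8 (TM.mk (P.cons (P.cons (P.lf 48023607 0 0) (P.cons (P.lf 0 9343946 0) (P.cons (P.lf 0 36741 0) (P.lf 12246 0 0)))) (P.cons (P.cons (P.lf 0 29283265 0) (P.cons (P.lf 3994349 0 0) (P.cons (P.lf 15706 0 0) (P.lf 0 5235 0)))) (P.cons (P.cons (P.lf 0 1520977 0) (P.cons (P.lf 553481 0 0) (P.cons (P.lf 2176 0 0) (P.lf 0 724 0)))) (P.cons (P.cons (P.lf 3312435 0 0) (P.cons (P.lf 0 248465 0) (P.cons (P.lf 0 977 0) P.nil))) (P.cons (P.cons (P.lf 0 198834 0) (P.cons (P.lf 0 31532 0) P.nil)) (P.cons (P.cons (P.lf 0 111924 0) P.nil) P.nil)))))) 28203)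
 EL.nil))
noncomputable def S198_227_475_512_20 : EL := (EL.cons 4 (TM.mk (P.cons (P.cons (P.lf 7092919 0 0) (P.cons (P.lf 0 2760136 0) (P.cons (P.lf 257666 0 0) (P.cons (P.lf 5729 0 0) (P.cons (P.lf 0 699 0) (P.cons (P.lf 0 1 0) P.nil)))))) (P.cons (P.cons (P.lf 0 7134031 0) (P.cons (P.lf 2272995 0 0) (P.cons (P.lf 0 163242 0) (P.cons (P.lf 0 4333 0) (P.cons (P.lf 448 0 0) P.nil))))) (P.cons (P.cons (P.lf 1035246 0 0) (P.cons (P.lf 0 127519 0) (P.cons (P.lf 0 5958 0) (P.cons (P.lf 123 0 0) P.nil)))) (P.cons (P.cons (P.lf 1084681 0 0) (P.cons (P.lf 0 303105 0) (P.cons (P.lf 15928 0 0) P.nil))) (P.cons (P.cons (P.lf 0 352617 0) (P.cons (P.lf 48951 0 0) P.nil)) (P.cons (P.cons (P.lf 0 43479 0) P.nil) P.nil)))))) 72335)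
 (EL.cons 8 (TM.mk (P.cons (P.cons (P.lf 10729516 0 0) (P.cons (P.lf 0 4175281 0) (P.cons (P.lf 389773 0 0) (P.cons (P.lf 8666 0 0) (P.cons (P.lf 0 1058 0) (P.cons (P.lf 0 3 0) P.nil)))))) (P.cons (P.cons (P.lf 0 6947370 0) (P.cons (P.lf 1942393 0 0) (P.cons (P.lf 0 107283 0) (P.cons (P.lf 0 3449 0) (P.cons (P.lf 299 0 0) P.nil))))) (P.cons (P.cons (P.lf 0 1063786 0) (P.cons (P.lf 557762 0 0) (P.cons (P.lf 0 52561 0) (P.cons (P.lf 0 1161 0) P.nil)))) (P.cons (P.cons (P.lf 1370201 0 0) (P.cons (P.lf 0 291710 0) (P.cons (P.lf 7377 0 0) P.nil))) (P.cons (P.cons (P.lf 0 42230 0) (P.cons (P.lf 0 33829 0) P.nil)) (P.cons (P.cons (P.lf 0 99991 0) P.nil) P.nil)))))) 63061)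
 EL.nil))
noncomputable def S198_227_475_512_21 : EL := (EL.cons 4 (TM.mk (P.cons (P.cons (P.lf 231069270 0 0) (P.cons (P.lf 172240152 0 0) (P.cons (P.lf 677268 0 0) (P.lf 0 225753 0)))) (P.cons (P.cons (P.lf 1113970530 0 0) (P.cons (P.lf 0 28515177 0) (P.cons (P.lf 0 112125 0) (P.lf 37374 0 0)))) (P.cons (P.cons (P.lf 0 16661112 0) (P.cons (P.lf 0 12000054 0) (P.cons (P.lf 0 47181 0) (P.lf 15723 0 0)))) (P.cons (P.cons (P.lf 0 39509724 0) (P.cons (P.lf 118053 0 0) (P.cons (P.lf 465 0 0) P.nil))) (P.cons (P.cons (P.lf 0 1054239 0) (P.cons (P.lf 226032 0 0) P.nil)) (P.cons (P.cons (P.lf 555351 0 0) P.nil) P.nil)))))) 74826)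
 (EL.cons 8 (TM.mk (P.cons (P.cons (P.lf 0 54311832 0) (P.cons (P.lf 0 40484316 0) (P.cons (P.lf 0 159195 0) (P.lf 53067 0 0)))) (P.cons (P.cons (P.lf 0 242374320 0) (P.cons (P.lf 21207714 0 0) (P.cons (P.lf 83388 0 0) (P.lf 0 27792 0)))) (P.cons (P.cons (P.lf 97018347 0 0) (P.cons (P.lf 0 111375 0) (P.cons (P.lf 0 435 0) (P.lf 144 0 0)))) (P.cons (P.cons (P.lf 4551072 0 0) (P.cons (P.lf 0 876921 0) (P.cons (P.lf 0 3441 0) P.nil))) (P.cons (P.cons (P.lf 0 2557701 0) (P.cons (P.lf 0 22452 0) P.nil)) (P.cons (P.cons (P.lf 0 130344 0) P.nil) P.nil)))))) 66159)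
 (EL.cons 11 (TM.mk (P.cons (P.cons (P.lf 2775287877 0 0) (P.cons (P.lf 25451376 0 0) (P.cons (P.lf 0 12697173 0) (P.cons (P.lf 0 28512 0) (P.lf 7128 0 0))))) (P.cons (P.cons (P.lf 267455448 0 0) (P.cons (P.lf 2452755 0 0) (P.cons (P.lf 0 1223631 0) (P.cons (P.lf 0 2745 0) (P.lf 684 0 0))))) (P.cons (P.cons (P.lf 0 31921083 0) (P.cons (P.lf 0 292737 0) (P.cons (P.lf 146040 0 0) (P.cons (P.lf 327 0 0) P.nil)))) (P.cons (P.cons (P.lf 0 3774741 0) (P.cons (P.lf 0 34617 0) (P.cons (P.lf 17268 0 0) P.nil))) (P.cons (P.cons (P.lf 143532 0 0) (P.cons (P.lf 1314 0 0) P.nil)) (P.cons (P.cons (P.lf 28173 0 0) P.nil) P.nil)))))) 3843)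
 EL.nil)))
noncomputable def S198_227_475_512_22 : EL := (EL.cons 4 (TM.mk (P.cons (P.cons (P.lf 51625893 0 0) (P.cons (P.lf 28437345 0 0) (P.cons (P.lf 0 7375653 0) (P.cons (P.lf 0 96153 0) (P.cons (P.lf 19509 0 0) (P.cons (P.lf 75 0 0) P.nil)))))) (P.cons (P.cons (P.lf 246937221 0 0) (P.cons (P.lf 0 57700545 0) (P.cons (P.lf 0 69654 0) (P.cons (P.lf 76863 0 0) (P.cons (P.lf 0 408 0) P.nil))))) (P.cons (P.cons (P.lf 0 17784810 0) (P.cons (P.lf 0 12060234 0) (P.cons (P.lf 756525 0 0) (P.cons (P.lf 22125 0 0) P.nil)))) (P.cons (P.cons (P.lf 0 31084794 0) (P.cons (P.lf 3313287 0 0) (P.cons (P.lf 88152 0 0) P.nil))) (P.cons (P.cons (P.lf 1093077 0 0) (P.cons (P.lf 755568 0 0) P.nil)) (P.cons (P.cons (P.lf 1267149 0 0) P.nil) P.nil)))))) 245334)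
 (EL.cons 8 (TM.mk (P.cons (P.cons (P.lf 0 12134442 0) (P.cons (P.lf 0 6684078 0) (P.cons (P.lf 1733613 0 0) (P.cons (P.lf 22602 0 0) (P.cons (P.lf 0 4584 0) (P.cons (P.lf 0 18 0) P.nil)))))) (P.cons (P.cons (P.lf 0 53693820 0) (P.cons (P.lf 15957138 0 0) (P.cons (P.lf 0 604773 0) (P.cons (P.lf 0 26163 0) (P.cons (P.lf 1737 0 0) P.nil))))) (P.cons (P.cons (P.lf 24817251 0 0) (P.cons (P.lf 0 2112177 0) (P.cons (P.lf 0 160965 0) (P.cons (P.lf 1566 0 0) P.nil)))) (P.cons (P.cons (P.lf 5070054 0 0) (P.cons (P.lf 0 1604562 0) (P.cons (P.lf 40056 0 0) P.nil))) (P.cons (P.cons (P.lf 0 2715681 0) (P.cons (P.lf 113262 0 0) P.nil)) (P.cons (P.cons (P.lf 0 123312 0) P.nil) P.nil)))))) 196437)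
 (EL.cons 11 (TM.mk (P.cons (P.cons (P.lf 620059581 0 0) (P.cons (P.lf 0 114958518 0) (P.cons (P.lf 0 4417614 0) (P.cons (P.lf 699366 0 0) (P.cons (P.lf 6450 0 0) (P.cons (P.lf 0 1026 0) P.nil)))))) (P.cons (P.cons (P.lf 36358824 0 0) (P.cons (P.lf 0 28733040 0) (P.cons (P.lf 0 547194 0) (P.cons (P.lf 169653 0 0) (P.cons (P.lf 1263 0 0) P.nil))))) (P.cons (P.cons (P.lf 0 65491185 0) (P.cons (P.lf 767652 0 0) (P.cons (P.lf 317553 0 0) (P.cons (P.lf 0 7329 0) P.nil)))) (P.cons (P.cons (P.lf 0 4517526 0) (P.cons (P.lf 836535 0 0) (P.cons (P.lf 32166 0 0) P.nil))) (P.cons (P.cons (P.lf 1706253 0 0) (P.cons (P.lf 41910 0 0) P.nil)) (P.cons (P.cons (P.lf 154956 0 0) P.nil) P.nil)))))) 61869)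
 EL.nil)))
noncomputable def S198_227_475_512_23 : EL := (EL.cons 4 (TM.mk (P.cons (P.cons (P.lf 0 75791976 0) (P.cons (P.lf 0 56495706 0) (P.cons (P.lf 0 222147 0) (P.lf 74046 0 0)))) (P.cons (P.cons (P.lf 0 341884521 0) (P.cons (P.lf 26873031 0 0) (P.cons (P.lf 105666 0 0) (P.lf 0 35220 0)))) (P.cons (P.cons (P.lf 119614821 0 0) (P.cons (P.lf 1661112 0 0) (P.cons (P.lf 6528 0 0) (P.lf 0 2175 0)))) (P.cons (P.cons (P.lf 15238845 0 0) (P.cons (P.lf 0 1416183 0) (P.cons (P.lf 0 5568 0) P.nil))) (P.cons (P.cons (P.lf 0 4083081 0) (P.cons (P.lf 0 100548 0) P.nil)) (P.cons (P.cons (P.lf 0 451227 0) P.nil) P.nil)))))) 141075)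
 (EL.cons 8 (TM.mk (P.cons (P.cons (P.lf 17814576 0 0) (P.cons (P.lf 13279074 0 0) (P.cons (P.lf 52215 0 0) (P.lf 0 17406 0)))) (P.cons (P.cons (P.lf 73975611 0 0) (P.cons (P.lf 0 11074221 0) (P.cons (P.lf 0 43542 0) (P.lf 14511 0 0)))) (P.cons (P.cons (P.lf 0 56673588 0) (P.cons (P.lf 2046705 0 0) (P.cons (P.lf 8046 0 0) (P.lf 0 2679 0)))) (P.cons (P.cons (P.lf 7512282 0 0) (P.cons (P.lf 365850 0 0) (P.cons (P.lf 1434 0 0) P.nil))) (P.cons (P.cons (P.lf 1730343 0 0) (P.cons (P.lf 0 87939 0) P.nil)) (P.cons (P.cons (P.lf 0 225783 0) P.nil) P.nil)))))) 63444)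
 (EL.cons 11 (TM.mk (P.cons (P.cons (P.lf 0 910309524 0) (P.cons (P.lf 0 8348187 0) (P.cons (P.lf 4164741 0 0) (P.cons (P.lf 9351 0 0) (P.lf 0 2337 0))))) (P.cons (P.cons (P.lf 194569509 0 0) (P.cons (P.lf 1784340 0 0) (P.cons (P.lf 0 890169 0) (P.cons (P.lf 0 1998 0) (P.lf 498 0 0))))) (P.cons (P.cons (P.lf 47754423 0 0) (P.cons (P.lf 437940 0 0) (P.cons (P.lf 0 218478 0) (P.cons (P.lf 0 489 0) P.nil)))) (P.cons (P.cons (P.lf 0 1896039 0) (P.cons (P.lf 0 17385 0) (P.cons (P.lf 8673 0 0) P.nil))) (P.cons (P.cons (P.lf 0 688653 0) (P.cons (P.lf 0 6312 0) P.nil)) (P.cons (P.cons (P.lf 0 2202 0) P.nil) P.nil)))))) 11508)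
 EL.nil)))
noncomputable def S198_227_475_512_24 : EL := (EL.cons 4 (TM.mk (P.cons (P.cons (P.lf 0 16933572 0) (P.cons (P.lf 0 9327603 0) (P.cons (P.lf 2419254 0 0) (P.cons (P.lf 31539 0 0) (P.cons (P.lf 0 6399 0) (P.cons (P.lf 0 24 0) P.nil)))))) (P.cons (P.cons (P.lf 0 75745476 0) (P.cons (P.lf 21818679 0 0) (P.cons (P.lf 0 727386 0) (P.cons (P.lf 0 34992 0) (P.cons (P.lf 2118 0 0) P.nil))))) (P.cons (P.cons (P.lf 31138932 0 0) (P.cons (P.lf 0 1810074 0) (P.cons (P.lf 0 282015 0) (P.cons (P.lf 210 0 0) P.nil)))) (P.cons (P.cons (P.lf 9267789 0 0) (P.cons (P.lf 0 2531868 0) (P.cons (P.lf 50064 0 0) P.nil))) (P.cons (P.cons (P.lf 0 3662493 0) (P.cons (P.lf 62634 0 0) P.nil)) (P.cons (P.cons (P.lf 0 417045 0) P.nil) P.nil)))))) 345087)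
 (EL.cons 8 (TM.mk (P.cons (P.cons (P.lf 3980163 0 0) (P.cons (P.lf 2192412 0 0) (P.cons (P.lf 0 568635 0) (P.cons (P.lf 0 7413 0) (P.cons (P.lf 1503 0 0) (P.cons (P.lf 3 0 0) P.nil)))))) (P.cons (P.cons (P.lf 16377573 0 0) (P.cons (P.lf 0 5913918 0) (P.cons (P.lf 374709 0 0) (P.cons (P.lf 10878 0 0) (P.cons (P.lf 0 1035 0) P.nil))))) (P.cons (P.cons (P.lf 0 13645881 0) (P.cons (P.lf 2291655 0 0) (P.cons (P.lf 0 2421 0) (P.cons (P.lf 0 3093 0) P.nil)))) (P.cons (P.cons (P.lf 670101 0 0) (P.cons (P.lf 371478 0 0) (P.cons (P.lf 0 32244 0) P.nil))) (P.cons (P.cons (P.lf 1513470 0 0) (P.cons (P.lf 0 212829 0) P.nil)) (P.cons (P.cons (P.lf 0 223917 0) P.nil) P.nil)))))) 119892)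
 (EL.cons 11 (TM.mk (P.cons (P.cons (P.lf 0 203382915 0) (P.cons (P.lf 37707018 0 0) (P.cons (P.lf 1449000 0 0) (P.cons (P.lf 0 229395 0) (P.cons (P.lf 0 2115 0) (P.cons (P.lf 336 0 0) P.nil)))))) (P.cons (P.cons (P.lf 51145242 0 0) (P.cons (P.lf 0 2268738 0) (P.cons (P.lf 0 269865 0) (P.cons (P.lf 15489 0 0) (P.cons (P.lf 240 0 0) P.nil))))) (P.cons (P.cons (P.lf 27431703 0 0) (P.cons (P.lf 0 3591957 0) (P.cons (P.lf 0 175860 0) (P.cons (P.lf 22200 0 0) P.nil)))) (P.cons (P.cons (P.lf 0 5239623 0) (P.cons (P.lf 0 265092 0) (P.cons (P.lf 21126 0 0) P.nil))) (P.cons (P.cons (P.lf 0 1281438 0) (P.cons (P.lf 85461 0 0) P.nil)) (P.cons (P.cons (P.lf 126246 0 0) P.nil) P.nil)))))) 70353)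
 EL.nil)))
noncomputable def S198_227_475_512_25 : EL := (EL.cons 4 (TM.mk (P.cons (P.cons (P.lf 24860181 0 0) (P.cons (P.lf 18530898 0 0) (P.cons (P.lf 72864 0 0) (P.lf 0 24288 0)))) (P.cons (P.cons (P.lf 104430585 0 0) (P.cons (P.lf 0 14561121 0) (P.cons (P.lf 0 57255 0) (P.lf 19083 0 0)))) (P.cons (P.cons (P.lf 0 74285331 0) (P.cons (P.lf 1983435 0 0) (P.cons (P.lf 7797 0 0) (P.lf 0 2598 0)))) (P.cons (P.cons (P.lf 5950347 0 0) (P.cons (P.lf 748554 0 0) (P.cons (P.lf 2943 0 0) P.nil))) (P.cons (P.cons (P.lf 3431121 0 0) (P.cons (P.lf 0 112149 0) P.nil)) (P.cons (P.cons (P.lf 0 241767 0) P.nil) P.nil)))))) 148281)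
 (EL.cons 8 (TM.mk (P.cons (P.cons (P.lf 0 5843277 0) (P.cons (P.lf 0 4355607 0) (P.cons (P.lf 0 17127 0) (P.lf 5709 0 0)))) (P.cons (P.cons (P.lf 0 22452342 0) (P.cons (P.lf 4983123 0 0) (P.cons (P.lf 19593 0 0) (P.lf 0 6531 0)))) (P.cons (P.cons (P.lf 26178585 0 0) (P.cons (P.lf 0 1749549 0) (P.cons (P.lf 0 6876 0) (P.lf 2292 0 0)))) (P.cons (P.cons (P.lf 0 7965636 0) (P.cons (P.lf 43857 0 0) (P.cons (P.lf 171 0 0) P.nil))) (P.cons (P.cons (P.lf 0 32514 0) (P.cons (P.lf 76635 0 0) P.nil)) (P.cons (P.cons (P.lf 293322 0 0) P.nil) P.nil)))))) 67032)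
 (EL.cons 11 (TM.mk (P.cons (P.cons (P.lf 298586475 0 0) (P.cons (P.lf 2738250 0 0) (P.cons (P.lf 0 1366056 0) (P.cons (P.lf 0 3066 0) (P.lf 765 0 0))))) (P.cons (P.cons (P.lf 0 156414597 0) (P.cons (P.lf 0 1434432 0) (P.cons (P.lf 715608 0 0) (P.cons (P.lf 1605 0 0) (P.lf 0 402 0))))) (P.cons (P.cons (P.lf 821469 0 0) (P.cons (P.lf 7533 0 0) (P.cons (P.lf 0 3756 0) (P.cons (P.lf 0 6 0) P.nil)))) (P.cons (P.cons (P.lf 6467628 0 0) (P.cons (P.lf 59310 0 0) (P.cons (P.lf 0 29589 0) P.nil))) (P.cons (P.cons (P.lf 165597 0 0) (P.cons (P.lf 1518 0 0) P.nil)) (P.cons (P.cons (P.lf 0 95757 0) P.nil) P.nil)))))) 18327)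
 EL.nil)))
noncomputable def S198_227_475_512_26 : EL := (EL.cons 4 (TM.mk (P.cons (P.cons (P.lf 5554302 0 0) (P.cons (P.lf 3059505 0 0) (P.cons (P.lf 0 793527 0) (P.cons (P.lf 0 10344 0) (P.cons (P.lf 2097 0 0) (P.cons (P.lf 6 0 0) P.nil)))))) (P.cons (P.cons (P.lf 23122479 0 0) (P.cons (P.lf 0 8105427 0) (P.cons (P.lf 484668 0 0) (P.cons (P.lf 14685 0 0) (P.cons (P.lf 0 1344 0) P.nil))))) (P.cons (P.cons (P.lf 0 17979906 0) (P.cons (P.lf 2779188 0 0) (P.cons (P.lf 27300 0 0) (P.cons (P.lf 0 3513 0) P.nil)))) (P.cons (P.cons (P.lf 0 142347 0) (P.cons (P.lf 728475 0 0) (P.cons (P.lf 0 48498 0) P.nil))) (P.cons (P.cons (P.lf 2280897 0 0) (P.cons (P.lf 0 291204 0) P.nil)) (P.cons (P.cons (P.lf 0 210123 0) P.nil) P.nil)))))) 222792)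
 (EL.cons 8 (TM.mk (P.cons (P.cons (P.lf 0 1305513 0) (P.cons (P.lf 0 719121 0) (P.cons (P.lf 186513 0 0) (P.cons (P.lf 2430 0 0) (P.cons (P.lf 0 492 0) (P.cons (P.lf 0 0 0) P.nil)))))) (P.cons (P.cons (P.lf 0 4967079 0) (P.cons (P.lf 2162805 0 0) (P.cons (P.lf 0 180747 0) (P.cons (P.lf 0 4323 0) (P.cons (P.lf 492 0 0) P.nil))))) (P.cons (P.cons (P.lf 6156270 0 0) (P.cons (P.lf 0 1345263 0) (P.cons (P.lf 36843 0 0) (P.cons (P.lf 2094 0 0) P.nil)))) (P.cons (P.cons (P.lf 0 1549578 0) (P.cons (P.lf 89097 0 0) (P.cons (P.lf 11865 0 0) P.nil))) (P.cons (P.cons (P.lf 0 482973 0) (P.cons (P.lf 117699 0 0) P.nil)) (P.cons (P.cons (P.lf 233703 0 0) P.nil) P.nil)))))) 89949)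
 (EL.cons 11 (TM.mk (P.cons (P.cons (P.lf 66710703 0 0) (P.cons (P.lf 0 12368106 0) (P.cons (P.lf 0 475278 0) (P.cons (P.lf 75243 0 0) (P.cons (P.lf 693 0 0) (P.cons (P.lf 0 108 0) P.nil)))))) (P.cons (P.cons (P.lf 0 37463592 0) (P.cons (P.lf 4579635 0 0) (P.cons (P.lf 235905 0 0) (P.cons (P.lf 0 28413 0) (P.cons (P.lf 0 294 0) P.nil))))) (P.cons (P.cons (P.lf 0 4533999 0) (P.cons (P.lf 1084350 0 0) (P.cons (P.lf 35496 0 0) (P.cons (P.lf 0 6537 0) P.nil)))) (P.cons (P.cons (P.lf 4757583 0 0) (P.cons (P.lf 0 298317 0) (P.cons (P.lf 0 26244 0) P.nil))) (P.cons (P.cons (P.lf 0 24519 0) (P.cons (P.lf 0 68139 0) P.nil)) (P.cons (P.cons (P.lf 0 200499 0) P.nil) P.nil)))))) 69045)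
 EL.nil)))
noncomputable def S198_227_475_512_27 : EL := (EL.cons 13 (TM.mk (P.lf 0 4294967296 0) 0)
 EL.nil)
noncomputable def S198_227_475_512_28 : EL := (EL.cons 13 (TM.mk (P.cons (P.cons (P.lf 0 959588969 0) (P.cons (P.lf 186707096 0 0) (P.cons (P.lf 734156 0 0) (P.lf 0 244716 0)))) (P.cons (P.cons (P.lf 36207897 0 0) (P.cons (P.lf 26989540 0 0) (P.cons (P.lf 106124 0 0) (P.lf 0 35372 0)))) (P.cons (P.cons (P.lf 86826087 0 0) (P.cons (P.lf 0 2570980 0) (P.cons (P.lf 0 10108 0) (P.lf 3368 0 0)))) (P.cons (P.cons (P.lf 0 2264948 0) (P.cons (P.lf 0 546576 0) (P.cons (P.lf 0 2144 0) P.nil))) (P.cons (P.cons (P.lf 0 1324743 0) (P.cons (P.lf 9508 0 0) P.nil)) (P.cons (P.cons (P.lf 0 12233 0) P.nil) P.nil)))))) 21117)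
 EL.nil)
noncomputable def S198_227_475_512_29 : EL := (EL.cons 13 (TM.mk (P.cons (P.cons (P.lf 0 214393015 0) (P.cons (P.lf 83428840 0 0) (P.cons (P.lf 0 7788316 0) (P.cons (P.lf 0 173178 0) (P.cons (P.lf 21150 0 0) (P.cons (P.lf 83 0 0) P.nil)))))) (P.cons (P.cons (P.lf 16179261 0 0) (P.cons (P.lf 8912102 0 0) (P.cons (P.lf 0 2311489 0) (P.cons (P.lf 0 30133 0) (P.cons (P.lf 6114 0 0) P.nil))))) (P.cons (P.cons (P.lf 38492423 0 0) (P.cons (P.lf 0 9152742 0) (P.cons (P.lf 17935 0 0) (P.cons (P.lf 12419 0 0) P.nil)))) (P.cons (P.cons (P.lf 0 2476018 0) (P.cons (P.lf 0 1095194 0) (P.cons (P.lf 75528 0 0) P.nil))) (P.cons (P.cons (P.lf 0 2309020 0) (P.cons (P.lf 261054 0 0) P.nil)) (P.cons (P.cons (P.lf 108445 0 0) P.nil) P.nil)))))) 131213)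
 EL.nil)
noncomputable def S198_227_475_512_30 : EL := (EL.cons 13 (TM.mk (P.cons (P.lf 1408772644 0 0) (P.cons (P.lf 0 436874896 0) (P.cons (P.lf 0 15598228 0) (P.cons (P.lf 1328688 0 0) (P.cons (P.lf 91228 0 0) (P.cons (P.lf 0 3020 0) P.nil)))))) 560)
 EL.nil)
noncomputable def S198_227_475_512_31 : EL := (EL.cons 13 (TM.mk (P.cons (P.cons (P.lf 314750403 0 0) (P.cons (P.lf 0 61240943 0) (P.cons (P.lf 0 240807 0) (P.lf 80268 0 0)))) (P.cons (P.cons (P.lf 0 109483726 0) (P.cons (P.lf 10138730 0 0) (P.cons (P.lf 39867 0 0) (P.lf 0 13289 0)))) (P.cons (P.cons (P.lf 0 28281421 0) (P.cons (P.lf 4266686 0 0) (P.cons (P.lf 16776 0 0) (P.lf 0 5591 0)))) (P.cons (P.cons (P.lf 10003034 0 0) (P.cons (P.lf 0 41975 0) (P.cons (P.lf 0 166 0) P.nil))) (P.cons (P.cons (P.lf 528648 0 0) (P.cons (P.lf 0 80367 0) P.nil)) (P.cons (P.cons (P.lf 0 167267 0) P.nil) P.nil)))))) 24212)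
 EL.nil)
noncomputable def S198_227_475_512_32 : EL := (EL.cons 13 (TM.mk (P.cons (P.cons (P.lf 70322075 0 0) (P.cons (P.lf 0 27365113 0) (P.cons (P.lf 2554610 0 0) (P.cons (P.lf 56803 0 0) (P.cons (P.lf 0 6937 0) (P.cons (P.lf 0 27 0) P.nil)))))) (P.cons (P.cons (P.lf 0 27114485 0) (P.cons (P.lf 5562985 0 0) (P.cons (P.lf 0 34029 0) (P.cons (P.lf 0 7731 0) (P.cons (P.lf 145 0 0) P.nil))))) (P.cons (P.cons (P.lf 0 11758625 0) (P.cons (P.lf 4211661 0 0) (P.cons (P.lf 0 269287 0) (P.cons (P.lf 0 7767 0) P.nil)))) (P.cons (P.cons (P.lf 4852597 0 0) (P.cons (P.lf 0 565210 0) (P.cons (P.lf 0 28934 0) P.nil))) (P.cons (P.cons (P.lf 644859 0 0) (P.cons (P.lf 0 234797 0) P.nil)) (P.cons (P.cons (P.lf 0 291833 0) P.nil) P.nil)))))) 125698)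
 EL.nil)
noncomputable def S198_227_475_512_33 : EL := (EL.cons 14 (TM.mk (P.lf 8589934592 0 0) 0)
 EL.nil)
noncomputable def S198_227_475_512_34 : EL := (EL.cons 14 (TM.mk (P.cons (P.cons (P.lf 1919177938 0 0) (P.cons (P.lf 0 373414192 0) (P.cons (P.lf 0 1468312 0) (P.lf 489432 0 0)))) (P.cons (P.cons (P.lf 0 72415794 0) (P.cons (P.lf 0 53979080 0) (P.cons (P.lf 0 212248 0) (P.lf 70744 0 0)))) (P.cons (P.cons (P.lf 0 173652174 0) (P.cons (P.lf 5141960 0 0) (P.cons (P.lf 20216 0 0) (P.lf 0 6736 0)))) (P.cons (P.cons (P.lf 4529896 0 0) (P.cons (P.lf 1093152 0 0) (P.cons (P.lf 4288 0 0) P.nil))) (P.cons (P.cons (P.lf 2649486 0 0) (P.cons (P.lf 0 19016 0) P.nil)) (P.cons (P.cons (P.lf 24466 0 0) P.nil) P.nil)))))) 42234)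
 EL.nil)
noncomputable def S198_227_475_512_35 : EL := (EL.cons 14 (TM.mk (P.cons (P.cons (P.lf 428786030 0 0) (P.cons (P.lf 0 166857680 0) (P.cons (P.lf 15576632 0 0) (P.cons (P.lf 346356 0 0) (P.cons (P.lf 0 42300 0) (P.cons (P.lf 0 166 0) P.nil)))))) (P.cons (P.cons (P.lf 0 32358522 0) (P.cons (P.lf 0 17824204 0) (P.cons (P.lf 4622978 0 0) (P.cons (P.lf 60266 0 0) (P.cons (P.lf 0 12228 0) P.nil))))) (P.cons (P.cons (P.lf 0 76984846 0) (P.cons (P.lf 18305484 0 0) (P.cons (P.lf 0 35870 0) (P.cons (P.lf 0 24838 0) P.nil)))) (P.cons (P.cons (P.lf 4952036 0 0) (P.cons (P.lf 2190388 0 0) (P.cons (P.lf 0 151056 0) P.nil))) (P.cons (P.cons (P.lf 4618040 0 0) (P.cons (P.lf 0 522108 0) P.nil)) (P.cons (P.cons (P.lf 0 216890 0) P.nil) P.nil)))))) 262426)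
 EL.nil)
noncomputable def S198_227_475_512_36 : EL := (EL.cons 14 (TM.mk (P.cons (P.lf 0 2817545288 0) (P.cons (P.lf 873749792 0 0) (P.cons (P.lf 31196456 0 0) (P.cons (P.lf 0 2657376 0) (P.cons (P.lf 0 182456 0) (P.cons (P.lf 6040 0 0) P.nil)))))) 1120)
 EL.nil)
noncomputable def S198_227_475_512_37 : EL := (EL.cons 14 (TM.mk (P.cons (P.cons (P.lf 0 629500806 0) (P.cons (P.lf 122481886 0 0) (P.cons (P.lf 481614 0 0) (P.lf 0 160536 0)))) (P.cons (P.cons (P.lf 218967452 0 0) (P.cons (P.lf 0 20277460 0) (P.cons (P.lf 0 79734 0) (P.lf 26578 0 0)))) (P.cons (P.cons (P.lf 56562842 0 0) (P.cons (P.lf 0 8533372 0) (P.cons (P.lf 0 33552 0) (P.lf 11182 0 0)))) (P.cons (P.cons (P.lf 0 20006068 0) (P.cons (P.lf 83950 0 0) (P.cons (P.lf 332 0 0) P.nil))) (P.cons (P.cons (P.lf 0 1057296 0) (P.cons (P.lf 160734 0 0) P.nil)) (P.cons (P.cons (P.lf 334534 0 0) P.nil) P.nil))))))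 48424)
 EL.nil)
noncomputable def S198_227_475_512_38 : EL := (EL.cons 14 (TM.mk (P.cons (P.cons (P.lf 0 140644150 0) (P.cons (P.lf 54730226 0 0) (P.cons (P.lf 0 5109220 0) (P.cons (P.lf 0 113606 0) (P.cons (P.lf 13874 0 0) (P.cons (P.lf 54 0 0) P.nil)))))) (P.cons (P.cons (P.lf 54228970 0 0) (P.cons (P.lf 0 11125970 0) (P.cons (P.lf 68058 0 0) (P.cons (P.lf 15462 0 0) (P.cons (P.lf 0 290 0) P.nil))))) (P.cons (P.cons (P.lf 23517250 0 0) (P.cons (P.lf 0 8423322 0) (P.cons (P.lf 538574 0 0) (P.cons (P.lf 15534 0 0) P.nil)))) (P.cons (P.cons (P.lf 0 9705194 0) (P.cons (P.lf 1130420 0 0) (P.cons (P.lf 57868 0 0) P.nil))) (P.cons (P.cons (P.lf 0 1289718 0) (P.cons (P.lf 469594 0 0) P.nil)) (P.cons (P.cons (P.lf 583666 0 0) P.nil) P.nil)))))) 251396)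
 EL.nil)
noncomputable def S198_227_475_512_39 : EL := (EL.cons 14 (TM.mk (P.cons (P.lf 924170186 0 0) (P.cons (P.lf 0 573189372 0) (P.cons (P.lf 68410746 0 0) (P.cons (P.lf 8089740 0 0) (P.cons (P.lf 0 307614 0) (P.cons (P.lf 0 60382 0) P.nil)))))) 4526)
 EL.nil)
noncomputable def S198_227_475_512_40 : EL := (EL.cons 14 (TM.mk (P.cons (P.cons (P.lf 206479690 0 0) (P.cons (P.lf 0 40174724 0) (P.cons (P.lf 0 157972 0) (P.lf 52656 0 0)))) (P.cons (P.cons (P.lf 0 135853992 0) (P.cons (P.lf 19109712 0 0) (P.cons (P.lf 75142 0 0) (P.lf 0 25046 0)))) (P.cons (P.cons (P.lf 1433792 0 0) (P.cons (P.lf 1181234 0 0) (P.cons (P.lf 4644 0 0) (P.lf 0 1546 0)))) (P.cons (P.cons (P.lf 13305526 0 0) (P.cons (P.lf 0 1007066 0) (P.cons (P.lf 0 3960 0) P.nil))) (P.cons (P.cons (P.lf 0 1537122 0) (P.cons (P.lf 0 71502 0) P.nil)) (P.cons (P.cons (P.lf 0 312524 0) P.nil) P.nil)))))) 70744)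
 EL.nil)
noncomputable def S198_227_475_512_41 : EL := (EL.cons 14 (TM.mk (P.cons (P.cons (P.lf 46132046 0 0) (P.cons (P.lf 0 17951812 0) (P.cons (P.lf 1675850 0 0) (P.cons (P.lf 37262 0 0) (P.cons (P.lf 0 4550 0) (P.cons (P.lf 0 16 0) P.nil)))))) (P.cons (P.cons (P.lf 0 32093418 0) (P.cons (P.lf 9216420 0 0) (P.cons (P.lf 0 542022 0) (P.cons (P.lf 0 16626 0) (P.cons (P.lf 1506 0 0) P.nil))))) (P.cons (P.cons (P.lf 0 2708514 0) (P.cons (P.lf 1829952 0 0) (P.cons (P.lf 0 188288 0) (P.cons (P.lf 0 3934 0) P.nil)))) (P.cons (P.cons (P.lf 5815936 0 0) (P.cons (P.lf 0 1284924 0) (P.cons (P.lf 37628 0 0) P.nil))) (P.cons (P.cons (P.lf 0 492536 0) (P.cons (P.lf 0 67356 0) P.nil)) (P.cons (P.cons (P.lf 0 366406 0) P.nil) P.nil)))))) 214806)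
 EL.nil)
noncomputable def S198_227_475_512_42 : EL := (EL.cons 14 (TM.mk (P.cons (P.lf 0 303132848 0) (P.cons (P.lf 282013848 0 0) (P.cons (P.lf 0 77386344 0) (P.cons (P.lf 1937536 0 0) (P.cons (P.lf 1329912 0 0) (P.cons (P.lf 9556 0 0) P.nil)))))) 14366)
 EL.nil)
noncomputable def S198_227_475_512_43 : EL := (EL.cons 14 (TM.mk (P.cons (P.cons (P.lf 0 67726460 0) (P.cons (P.lf 13177528 0 0) (P.cons (P.lf 51814 0 0) (P.lf 0 17270 0)))) (P.cons (P.cons (P.lf 65563520 0 0) (P.cons (P.lf 0 10354576 0) (P.cons (P.lf 0 40714 0) (P.lf 13570 0 0)))) (P.cons (P.cons (P.lf 0 13539188 0) (P.cons (P.lf 1410442 0 0) (P.cons (P.lf 5546 0 0) (P.lf 0 1848 0)))) (P.cons (P.cons (P.lf 0 4775706 0) (P.cons (P.lf 532306 0 0) (P.cons (P.lf 2092 0 0) P.nil))) (P.cons (P.cons (P.lf 1900442 0 0) (P.cons (P.lf 0 79750 0) P.nil)) (P.cons (P.cons (P.lf 0 2932 0) P.nil) P.nil)))))) 86152)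
 EL.nil)
noncomputable def S198_227_475_512_44 : EL := (EL.cons 14 (TM.mk (P.cons (P.cons (P.lf 0 15131562 0) (P.cons (P.lf 5888292 0 0) (P.cons (P.lf 0 549688 0) (P.cons (P.lf 0 12222 0) (P.cons (P.lf 1492 0 0) (P.cons (P.lf 4 0 0) P.nil)))))) (P.cons (P.cons (P.lf 15219268 0 0) (P.cons (P.lf 0 4849056 0) (P.cons (P.lf 348250 0 0) (P.cons (P.lf 9244 0 0) (P.cons (P.lf 0 956 0) P.nil))))) (P.cons (P.cons (P.lf 0 2208526 0) (P.cons (P.lf 272042 0 0) (P.cons (P.lf 12712 0 0) (P.cons (P.lf 0 264 0) P.nil)))) (P.cons (P.cons (P.lf 0 2313988 0) (P.cons (P.lf 646626 0 0) (P.cons (P.lf 0 33980 0) P.nil))) (P.cons (P.cons (P.lf 752250 0 0) (P.cons (P.lf 0 104430 0) P.nil)) (P.cons (P.cons (P.lf 92756 0 0) P.nil) P.nil)))))) 154268)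
 EL.nil)
noncomputable def S198_227_475_512_45 : EL := (EL.cons 14 (TM.mk (P.cons (P.cons (P.lf 95800110 0 0) (P.cons (P.lf 0 55919444 0) (P.cons (P.lf 10660356 0 0) (P.cons (P.lf 0 546796 0) (P.cons (P.lf 0 36676 0) (P.cons (P.lf 2630 0 0) P.nil)))))) (P.cons (P.cons (P.lf 0 10844394 0) (P.cons (P.lf 0 3863478 0) (P.cons (P.lf 2719864 0 0) (P.cons (P.lf 0 279446 0) (P.cons (P.lf 0 10736 0) P.nil))))) (P.cons (P.cons (P.lf 0 25595534 0) (P.cons (P.lf 11419894 0 0) (P.cons (P.lf 0 1130546 0) (P.cons (P.lf 0 39296 0) P.nil)))) (P.cons (P.cons (P.lf 2635670 0 0) (P.cons (P.lf 911094 0 0) (P.cons (P.lf 0 359648 0) P.nil))) (P.cons (P.cons (P.lf 2661522 0 0) (P.cons (P.lf 0 849060 0) P.nil)) (P.cons (P.cons (P.lf 0 236854 0) P.nil) P.nil)))))) 452842)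
 EL.nil)
noncomputable def S198_227_475_512_46 : EL := (EL.cons 15 (TM.mk (P.lf 4294967296 0 0) 0)
 EL.nil)
noncomputable def S198_227_475_512_47 : EL := (EL.cons 15 (TM.mk (P.cons (P.cons (P.lf 959588969 0 0) (P.cons (P.lf 0 186707096 0) (P.cons (P.lf 0 734156 0) (P.lf 244716 0 0)))) (P.cons (P.cons (P.lf 0 36207897 0) (P.cons (P.lf 0 26989540 0) (P.cons (P.lf 0 106124 0) (P.lf 35372 0 0)))) (P.cons (P.cons (P.lf 0 86826087 0) (P.cons (P.lf 2570980 0 0) (P.cons (P.lf 10108 0 0) (P.lf 0 3368 0)))) (P.cons (P.cons (P.lf 2264948 0 0) (P.cons (P.lf 546576 0 0) (P.cons (P.lf 2144 0 0) P.nil))) (P.cons (P.cons (P.lf 1324743 0 0) (P.cons (P.lf 0 9508 0) P.nil)) (P.cons (P.cons (P.lf 12233 0 0) P.nil) P.nil)))))) 21117)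
 EL.nil)
noncomputable def S198_227_475_512_48 : EL := (EL.cons 15 (TM.mk (P.cons (P.cons (P.lf 214393015 0 0) (P.cons (P.lf 0 83428840 0) (P.cons (P.lf 7788316 0 0) (P.cons (P.lf 173178 0 0) (P.cons (P.lf 0 21150 0) (P.cons (P.lf 0 83 0) P.nil)))))) (P.cons (P.cons (P.lf 0 16179261 0) (P.cons (P.lf 0 8912102 0) (P.cons (P.lf 2311489 0 0) (P.cons (P.lf 30133 0 0) (P.cons (P.lf 0 6114 0) P.nil))))) (P.cons (P.cons (P.lf 0 38492423 0) (P.cons (P.lf 9152742 0 0) (P.cons (P.lf 0 17935 0) (P.cons (P.lf 0 12419 0) P.nil)))) (P.cons (P.cons (P.lf 2476018 0 0) (P.cons (P.lf 1095194 0 0) (P.cons (P.lf 0 75528 0) P.nil))) (P.cons (P.cons (P.lf 2309020 0 0) (P.cons (P.lf 0 261054 0) P.nil)) (P.cons (P.cons (P.lf 0 108445 0) P.nil) P.nil)))))) 131213)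
 EL.nil)
noncomputable def S198_227_475_512 : SL := (SL.cons S198_227_475_512_0 (SL.cons S198_227_475_512_1 (SL.cons S198_227_475_512_2 (SL.cons S198_227_475_512_3 (SL.cons S198_227_475_512_4 (SL.cons S198_227_475_512_5 (SL.cons S198_227_475_512_6 (SL.cons S198_227_475_512_7 (SL.cons S198_227_475_512_8 (SL.cons S198_227_475_512_9 (SL.cons S198_227_475_512_10 (SL.cons S198_227_475_512_11 (SL.cons S198_227_475_512_12 (SL.cons S198_227_475_512_13 (SL.cons S198_227_475_512_14 (SL.cons S198_227_475_512_15 (SL.cons S198_227_475_512_16 (SL.cons S198_227_475_512_17 (SL.cons S198_227_475_512_18 (SL.cons S198_227_475_512_19 (SL.cons S198_227_475_512_20 (SL.cons S198_227_475_512_21 (SL.cons S198_227_475_512_22 (SL.cons S198_227_475_512_23 (SL.cons S198_227_475_512_24 (SL.cons S198_227_475_512_25 (SL.cons S198_227_475_512_26 (SL.cons S198_227_475_512_27 (SL.cons S198_227_475_512_28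 (SL.cons S198_227_475_512_29 (SL.cons S198_227_475_512_30 (SL.cons S198_227_475_512_31 (SL.cons S198_227_475_512_32 (SL.cons S198_227_475_512_33 (SL.cons S198_227_475_512_34 (SL.cons S198_227_475_512_35 (SL.cons S198_227_475_512_36 (SL.cons S198_227_475_512_37 (SL.cons S198_227_475_512_38 (SL.cons S198_227_475_512_39 (SL.cons S198_227_475_512_40 (SL.cons S198_227_475_512_41 (SL.cons S198_227_475_512_42 (SL.cons S198_227_475_512_43 (SL.cons S198_227_475_512_44 (SL.cons S198_227_475_512_45 (SL.cons S198_227_475_512_46 (SL.cons S198_227_475_512_47 (SL.cons S198_227_475_512_48 SL.nil)))))))))))))))))))))))))))))))))))))))))))))))))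
theorem S198_227_364_438_ok : band (seq (shp 5 198 227 364 438) S198_227_364_438) (sok S198_227_364_438) = true := by decide +kernel

theorem S198_227_364_512_ok : band (seq (shp 5 198 227 364 512) S198_227_364_512) (sok S198_227_364_512) = true := by decide +kernel

theorem S198_227_401_438_ok : band (seq (shp 5 198 227 401 438) S198_227_401_438) (sok S198_227_401_438) = true := by decide +kernel

theorem S198_227_438_475_ok : band (seq (shp 5 198 227 438 475) S198_227_438_475) (sok S198_227_438_475) = true := by decide +kernel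

theorem S198_227_438_512_ok : band (seq (shp 5 198 227 438 512) S198_227_438_512) (sok S198_227_438_512) = true := by decide +kernel

theorem S198_227_475_512_ok : band (seq (shp 5 198 227 475 512) S198_227_475_512) (sok S198_227_475_512) = true := by decide +kernel

end Vale.Agent.P098.Ck
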