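import Vale.Agent.P098.CkDefs

namespace Vale.Agent.P098.Ck

noncomputable def S198_227_512_586_0 : EL := (EL.cons 0 (TM.mk (P.cons (P.lf 7643457911 0 0) (P.cons (P.lf 503779721 0 0) (P.cons (P.lf 0 60126632 0) (P.cons (P.lf 0 7110123 0) (P.cons (P.lf 270363 0 0) (P.cons (P.lf 53070 0 0) P.nil)))))) 3984)
 (EL.cons 1 (TM.mk (P.cons (P.lf 0 1228710643 0) (P.cons (P.lf 321830180 0 0) (P.cons (P.lf 40457490 0 0) (P.cons (P.lf 0 2710608 0) (P.cons (P.lf 0 384633 0) (P.cons (P.lf 7027 0 0) P.nil)))))) 2881)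
 (EL.cons 5 (TM.mk (P.cons (P.lf 4583770480 0 0) (P.cons (P.lf 0 179121676 0) (P.cons (P.lf 21378358 0 0) (P.cons (P.lf 2528040 0 0) (P.cons (P.lf 0 96128 0) (P.cons (P.lf 0 18870 0) P.nil)))))) 1697)
 (EL.cons 9 (TM.mk (P.lf 6442450944 0 0) 2)
 EL.nil))))
noncomputable def S198_227_512_586_1 : EL := (EL.cons 0 (TM.mk (P.cons (P.cons (P.lf 1170803464 0 0) (P.cons (P.lf 0 447340653 0) (P.cons (P.lf 7120019 0 0) (P.lf 2373343 0 0)))) (P.cons (P.cons (P.lf 328197376 0 0) (P.cons (P.lf 0 237797835 0) (P.cons (P.lf 3784858 0 0) (P.lf 1261616 0 0)))) (P.cons (P.cons (P.lf 0 393750308 0) (P.cons (P.lf 1796235 0 0) (P.cons (P.lf 0 28589 0) (P.lf 0 9532 0)))) (P.cons (P.cons (P.lf 0 21958411 0) (P.cons (P.lf 9124156 0 0) (P.cons (P.lf 0 145214 0) P.nil))) (P.cons (P.cons (P.lf 12312818 0 0) (P.cons (P.lf 459818 0 0) P.nil)) (P.cons (P.cons (P.lf 920361 0 0) P.nil) P.nil))))))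 552759)
 (EL.cons 1 (TM.mk (P.cons (P.cons (P.lf 179517067 0 0) (P.cons (P.lf 239312226 0 0) (P.cons (P.lf 0 3808968 0) (P.lf 0 1269653 0)))) (P.cons (P.cons (P.lf 520397804 0 0) (P.cons (P.lf 0 10456578 0) (P.cons (P.lf 166428 0 0) (P.lf 55474 0 0)))) (P.cons (P.cons (P.lf 61141281 0 0) (P.cons (P.lf 0 26109004 0) (P.cons (P.lf 415548 0 0) (P.lf 138513 0 0)))) (P.cons (P.cons (P.lf 0 39294177 0) (P.cons (P.lf 0 1172560 0) (P.cons (P.lf 18661 0 0) P.nil))) (P.cons (P.cons (P.lf 0 3202944 0) (P.cons (P.lf 665180 0 0) P.nil)) (P.cons (P.cons (P.lf 840077 0 0) P.nil) P.nil)))))) 255758)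
 (EL.cons 5 (TM.mk (P.cons (P.cons (P.lf 262809379 0 0) (P.cons (P.lf 0 468261268 0) (P.cons (P.lf 7452996 0 0) (P.lf 2484334 0 0)))) (P.cons (P.cons (P.lf 0 315892481 0) (P.cons (P.lf 0 6131608 0) (P.cons (P.lf 97596 0 0) (P.lf 32540 0 0)))) (P.cons (P.cons (P.lf 5507761 0 0) (P.cons (P.lf 7999560 0 0) (P.cons (P.lf 0 127322 0) (P.lf 0 42438 0)))) (P.cons (P.cons (P.lf 14445392 0 0) (P.cons (P.lf 0 1407698 0) (P.cons (P.lf 22400 0 0) P.nil))) (P.cons (P.cons (P.lf 0 2174315 0) (P.cons (P.lf 0 195438 0) P.nil)) (P.cons (P.cons (P.lf 0 334625 0) P.nil) P.nil)))))) 255080)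
 (EL.cons 9 (TM.mk (P.cons (P.cons (P.lf 599201515 0 0) (P.cons (P.lf 0 553513866 0) (P.cons (P.lf 8809902 0 0) (P.lf 2936634 0 0)))) (P.cons (P.cons (P.lf 0 175764769 0) (P.cons (P.lf 0 80013480 0) (P.cons (P.lf 1273518 0 0) (P.lf 424506 0 0)))) (P.cons (P.cons (P.lf 0 118669720 0) (P.cons (P.lf 7621956 0 0) (P.cons (P.lf 0 121308 0) (P.lf 0 40434 0)))) (P.cons (P.cons (P.lf 5857014 0 0) (P.cons (P.lf 1620384 0 0) (P.cons (P.lf 0 25788 0) P.nil))) (P.cons (P.cons (P.lf 1944328 0 0) (P.cons (P.lf 0 28188 0) P.nil)) (P.cons (P.cons (P.lf 0 6519 0) P.nil) P.nil)))))) 51848)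
 (EL.cons 2 (TM.mk (P.cons (P.cons (P.lf 841695263 0 0) (P.cons (P.lf 0 31200494 0) (P.cons (P.lf 0 15459955 0) (P.cons (P.lf 140287 0 0) (P.lf 35071 0 0))))) (P.cons (P.cons (P.lf 0 179903902 0) (P.cons (P.lf 6668791 0 0) (P.cons (P.lf 3304409 0 0) (P.cons (P.lf 0 29984 0) (P.lf 0 7495 0))))) (P.cons (P.cons (P.lf 0 44154950 0) (P.cons (P.lf 1636762 0 0) (P.cons (P.lf 811020 0 0) (P.cons (P.lf 0 7357 0) P.nil)))) (P.cons (P.cons (P.lf 1753126 0 0) (P.cons (P.lf 0 64985 0) (P.cons (P.lf 0 32200 0) P.nil))) (P.cons (P.cons (P.lf 636747 0 0) (P.cons (P.lf 0 23602 0) P.nil)) (P.cons (P.cons (P.lf 2036 0 0) P.nil) P.nil)))))) 24849)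
 (EL.cons 6 (TM.mk (P.cons (P.cons (P.lf 1273239189 0 0) (P.cons (P.lf 0 47197239 0) (P.cons (P.lf 0 23386401 0) (P.cons (P.lf 212217 0 0) (P.lf 53052 0 0))))) (P.cons (P.cons (P.lf 184053747 0 0) (P.cons (P.lf 0 6822618 0) (P.cons (P.lf 0 3380631 0) (P.cons (P.lf 30675 0 0) (P.lf 7668 0 0))))) (P.cons (P.cons (P.lf 0 17532675 0) (P.cons (P.lf 649911 0 0) (P.cons (P.lf 322032 0 0) (P.cons (P.lf 0 2922 0) P.nil)))) (P.cons (P.cons (P.lf 0 3727353 0) (P.cons (P.lf 138165 0 0) (P.cons (P.lf 68460 0 0) P.nil))) (P.cons (P.cons (P.lf 64845 0 0) (P.cons (P.lf 0 2403 0) P.nil)) (P.cons (P.cons (P.lf 37704 0 0) P.nil) P.nil)))))) 14091)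
 EL.nil))))))
noncomputable def S198_227_512_586_2 : EL := (EL.cons 0 (TM.mk (P.cons (P.cons (P.lf 151668827 0 0) (P.cons (P.lf 0 162238648 0) (P.cons (P.lf 23028770 0 0) (P.cons (P.lf 209872 0 0) (P.cons (P.lf 0 211777 0) (P.cons (P.lf 3453 0 0) P.nil)))))) (P.cons (P.cons (P.lf 31598039 0 0) (P.cons (P.lf 0 115425461 0) (P.cons (P.lf 33779612 0 0) (P.cons (P.lf 0 404439 0) (P.cons (P.lf 0 330835 0) P.nil))))) (P.cons (P.cons (P.lf 0 110707081 0) (P.cons (P.lf 58853445 0 0) (P.cons (P.lf 3346469 0 0) (P.cons (P.lf 0 448579 0) P.nil)))) (P.cons (P.cons (P.lf 0 429080 0) (P.cons (P.lf 20280726 0 0) (P.cons (P.lf 0 1962458 0) P.nil))) (P.cons (P.cons (P.lf 15863162 0 0) (P.cons (P.lf 0 2392109 0) P.nil)) (P.cons (P.cons (P.lf 49613 0 0) P.nil) P.nil)))))) 3055535)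
 (EL.cons 1 (TM.mk (P.cons (P.cons (P.lf 44022183 0 0) (P.cons (P.lf 0 5968116 0) (P.cons (P.lf 0 31956885 0) (P.cons (P.lf 1051948 0 0) (P.cons (P.lf 331982 0 0) (P.cons (P.lf 0 5411 0) P.nil)))))) (P.cons (P.cons (P.lf 77987709 0 0) (P.cons (P.lf 0 100818846 0) (P.cons (P.lf 0 2296361 0) (P.cons (P.lf 659062 0 0) (P.cons (P.lf 40399 0 0) P.nil))))) (P.cons (P.cons (P.lf 0 25647604 0) (P.cons (P.lf 0 31236615 0) (P.cons (P.lf 4763817 0 0) (P.cons (P.lf 29907 0 0) P.nil)))) (P.cons (P.cons (P.lf 0 26955837 0) (P.cons (P.lf 7483162 0 0) (P.cons (P.lf 686790 0 0) P.nil))) (P.cons (P.cons (P.lf 495515 0 0) (P.cons (P.lf 2788079 0 0) P.nil)) (P.cons (P.cons (P.lf 1973839 0 0) P.nil) P.nil)))))) 1426771)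
 (EL.cons 5 (TM.mk (P.cons (P.cons (P.lf 9234798 0 0) (P.cons (P.lf 0 59006313 0) (P.cons (P.lf 47566146 0 0) (P.cons (P.lf 0 1171194 0) (P.cons (P.lf 0 482938 0) (P.cons (P.lf 7875 0 0) P.nil)))))) (P.cons (P.cons (P.lf 0 48289382 0) (P.cons (P.lf 58401017 0 0) (P.cons (P.lf 3295337 0 0) (P.cons (P.lf 0 444319 0) (P.cons (P.lf 0 43767 0) P.nil))))) (P.cons (P.cons (P.lf 19779327 0 0) (P.cons (P.lf 8739485 0 0) (P.cons (P.lf 0 2020102 0) (P.cons (P.lf 13503 0 0) P.nil)))) (P.cons (P.cons (P.lf 8725845 0 0) (P.cons (P.lf 0 5140554 0) (P.cons (P.lf 134682 0 0) P.nil))) (P.cons (P.cons (P.lf 0 3115183 0) (P.cons (P.lf 0 117387 0) P.nil)) (P.cons (P.cons (P.lf 0 383796 0) P.nil) P.nil)))))) 1423218)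
 (EL.cons 9 (TM.mk (P.cons (P.cons (P.lf 55730724 0 0) (P.cons (P.lf 0 102962785 0) (P.cons (P.lf 49194850 0 0) (P.cons (P.lf 0 967570 0) (P.cons (P.lf 0 492564 0) (P.cons (P.lf 8031 0 0) P.nil)))))) (P.cons (P.cons (P.lf 0 32695170 0) (P.cons (P.lf 15318405 0 0) (P.cons (P.lf 13505167 0 0) (P.cons (P.lf 0 518935 0) (P.cons (P.lf 0 142405 0) P.nil))))) (P.cons (P.cons (P.lf 0 17279277 0) (P.cons (P.lf 26175123 0 0) (P.cons (P.lf 0 732570 0) (P.cons (P.lf 0 128812 0) P.nil)))) (P.cons (P.cons (P.lf 7564663 0 0) (P.cons (P.lf 1826790 0 0) (P.cons (P.lf 0 496836 0) P.nil))) (P.cons (P.cons (P.lf 2227983 0 0) (P.cons (P.lf 0 854035 0) P.nil)) (P.cons (P.cons (P.lf 0 323076 0) P.nil) P.nil)))))) 393698)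
 (EL.cons 2 (TM.mk (P.cons (P.cons (P.lf 156569315 0 0) (P.cons (P.lf 0 150435101 0) (P.cons (P.lf 4787471 0 0) (P.cons (P.lf 3364627 0 0) (P.cons (P.lf 0 88306 0) (P.cons (P.lf 0 19732 0) P.nil)))))) (P.cons (P.cons (P.lf 0 79391851 0) (P.cons (P.lf 12949177 0 0) (P.cons (P.lf 928057 0 0) (P.cons (P.lf 0 244203 0) (P.cons (P.lf 3251 0 0) P.nil))))) (P.cons (P.cons (P.lf 0 29405171 0) (P.cons (P.lf 15137606 0 0) (P.cons (P.lf 0 204204 0) (P.cons (P.lf 0 329158 0) P.nil)))) (P.cons (P.cons (P.lf 10893470 0 0) (P.cons (P.lf 389446 0 0) (P.cons (P.lf 0 242116 0) P.nil))) (P.cons (P.cons (P.lf 1830386 0 0) (P.cons (P.lf 0 423151 0) P.nil)) (P.cons (P.cons (P.lf 0 289524 0) P.nil) P.nil)))))) 287285)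
 (EL.cons 6 (TM.mk (P.cons (P.cons (P.lf 236843664 0 0) (P.cons (P.lf 0 227564382 0) (P.cons (P.lf 7242048 0 0) (P.cons (P.lf 5089704 0 0) (P.cons (P.lf 0 133578 0) (P.cons (P.lf 0 29850 0) P.nil)))))) (P.cons (P.cons (P.lf 0 35236680 0) (P.cons (P.lf 0 61946952 0) (P.cons (P.lf 3998676 0 0) (P.cons (P.lf 1454202 0 0) (P.cons (P.lf 0 42936 0) P.nil))))) (P.cons (P.cons (P.lf 0 60210222 0) (P.cons (P.lf 3685506 0 0) (P.cons (P.lf 1028898 0 0) (P.cons (P.lf 0 43584 0) P.nil)))) (P.cons (P.cons (P.lf 0 4202136 0) (P.cons (P.lf 2307732 0 0) (P.cons (P.lf 0 36834 0) P.nil))) (P.cons (P.cons (P.lf 1964526 0 0) (P.cons (P.lf 48576 0 0) P.nil)) (P.cons (P.cons (P.lf 217428 0 0) P.nil) P.nil)))))) 244512)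
 EL.nil))))))
noncomputable def S198_227_512_586_3 : EL := (EL.cons 0 (TM.mk (P.cons (P.lf 812258952 0 0) (P.cons (P.lf 0 503779721 0) (P.cons (P.lf 60126632 0 0) (P.cons (P.lf 7110123 0 0) (P.cons (P.lf 0 270363 0) (P.cons (P.lf 0 53070 0) P.nil)))))) 3984)
 (EL.cons 1 (TM.mk (P.cons (P.lf 1228710643 0 0) (P.cons (P.lf 0 321830180 0) (P.cons (P.lf 0 40457490 0) (P.cons (P.lf 2710608 0 0) (P.cons (P.lf 384633 0 0) (P.cons (P.lf 0 7027 0) P.nil)))))) 2881)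
 (EL.cons 5 (TM.mk (P.cons (P.lf 1858680464 0 0) (P.cons (P.lf 179121676 0 0) (P.cons (P.lf 0 21378358 0) (P.cons (P.lf 0 2528040 0) (P.cons (P.lf 96128 0 0) (P.cons (P.lf 18870 0 0) P.nil)))))) 1690)
 EL.nil)))
noncomputable def S198_227_512_586_4 : EL := (EL.cons 0 (TM.mk (P.cons (P.cons (P.lf 75546836 0 0) (P.cons (P.lf 0 69786574 0) (P.cons (P.lf 1110744 0 0) (P.lf 370248 0 0)))) (P.cons (P.cons (P.lf 0 69015981 0) (P.cons (P.lf 33195035 0 0) (P.cons (P.lf 0 528342 0) (P.lf 0 176113 0)))) (P.cons (P.cons (P.lf 4374755 0 0) (P.cons (P.lf 2051896 0 0) (P.cons (P.lf 0 32656 0) (P.lf 0 10884 0)))) (P.cons (P.cons (P.lf 9038960 0 0) (P.cons (P.lf 0 1749350 0) (P.cons (P.lf 27841 0 0) P.nil))) (P.cons (P.cons (P.lf 0 1539516 0) (P.cons (P.lf 0 124203 0) P.nil)) (P.cons (P.cons (P.lf 0 226726 0) P.nil) P.nil)))))) 101035)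
 (EL.cons 1 (TM.mk (P.cons (P.cons (P.lf 114280306 0 0) (P.cons (P.lf 0 105566713 0) (P.cons (P.lf 1680232 0 0) (P.lf 560075 0 0)))) (P.cons (P.cons (P.lf 0 63454914 0) (P.cons (P.lf 12390322 0 0) (P.cons (P.lf 0 197206 0) (P.lf 0 65733 0)))) (P.cons (P.cons (P.lf 0 17615426 0) (P.cons (P.lf 8926680 0 0) (P.cons (P.lf 0 142078 0) (P.lf 0 47358 0)))) (P.cons (P.cons (P.lf 8401036 0 0) (P.cons (P.lf 197872 0 0) (P.cons (P.lf 0 3148 0) P.nil))) (P.cons (P.cons (P.lf 785285 0 0) (P.cons (P.lf 0 200896 0) P.nil)) (P.cons (P.cons (P.lf 0 196228 0) P.nil) P.nil)))))) 66686)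
 (EL.cons 5 (TM.mk (P.cons (P.cons (P.lf 172872738 0 0) (P.cons (P.lf 0 159691616 0) (P.cons (P.lf 2541702 0 0) (P.lf 847232 0 0)))) (P.cons (P.cons (P.lf 0 34049240 0) (P.cons (P.lf 0 38473838 0) (P.cons (P.lf 612360 0 0) (P.lf 204118 0 0)))) (P.cons (P.cons (P.lf 0 41112042 0) (P.cons (P.lf 1811088 0 0) (P.cons (P.lf 0 28822 0) (P.lf 0 9606 0)))) (P.cons (P.cons (P.lf 0 1261514 0) (P.cons (P.lf 1162118 0 0) (P.cons (P.lf 0 18494 0) P.nil))) (P.cons (P.cons (P.lf 1195492 0 0) (P.cons (P.lf 34764 0 0) P.nil)) (P.cons (P.cons (P.lf 78440 0 0) P.nil) P.nil)))))) 51246)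
 EL.nil)))
noncomputable def S198_227_512_586_5 : EL := (EL.cons 0 (TM.mk (P.cons (P.cons (P.lf 7026482 0 0) (P.cons (P.lf 0 12981462 0) (P.cons (P.lf 6202444 0 0) (P.cons (P.lf 0 121990 0) (P.cons (P.lf 0 62101 0) (P.cons (P.lf 1012 0 0) P.nil)))))) (P.cons (P.cons (P.lf 0 8480149 0) (P.cons (P.lf 9982701 0 0) (P.cons (P.lf 0 2144163 0) (P.cons (P.lf 10233 0 0) (P.cons (P.lf 20561 0 0) P.nil))))) (P.cons (P.cons (P.lf 898231 0 0) (P.cons (P.lf 1141345 0 0) (P.cons (P.lf 0 689292 0) (P.cons (P.lf 15307 0 0) P.nil)))) (P.cons (P.cons (P.lf 2061298 0 0) (P.cons (P.lf 0 1787160 0) (P.cons (P.lf 174977 0 0) P.nil))) (P.cons (P.cons (P.lf 0 510317 0) (P.cons (P.lf 14990 0 0) P.nil)) (P.cons (P.cons (P.lf 0 162509 0) P.nil) P.nil)))))) 379690)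
 (EL.cons 1 (TM.mk (P.cons (P.cons (P.lf 10629016 0 0) (P.cons (P.lf 0 19637163 0) (P.cons (P.lf 9382488 0 0) (P.cons (P.lf 0 184533 0) (P.cons (P.lf 0 93941 0) (P.cons (P.lf 1530 0 0) P.nil)))))) (P.cons (P.cons (P.lf 0 9019661 0) (P.cons (P.lf 8065006 0 0) (P.cons (P.lf 118209 0 0) (P.cons (P.lf 0 50636 0) (P.cons (P.lf 0 2553 0) P.nil))))) (P.cons (P.cons (P.lf 0 2012223 0) (P.cons (P.lf 4873507 0 0) (P.cons (P.lf 0 1123295 0) (P.cons (P.lf 7430 0 0) P.nil)))) (P.cons (P.cons (P.lf 2534686 0 0) (P.cons (P.lf 0 1098676 0) (P.cons (P.lf 0 122272 0) P.nil))) (P.cons (P.cons (P.lf 145113 0 0) (P.cons (P.lf 0 418215 0) P.nil)) (P.cons (P.cons (P.lf 0 229700 0) P.nil) P.nil)))))) 311960)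
 (EL.cons 5 (TM.mk (P.cons (P.cons (P.lf 16078602 0 0) (P.cons (P.lf 0 29705296 0) (P.cons (P.lf 14192968 0 0) (P.cons (P.lf 0 279148 0) (P.cons (P.lf 0 142106 0) (P.cons (P.lf 2316 0 0) P.nil)))))) (P.cons (P.cons (P.lf 0 7883224 0) (P.cons (P.lf 1556728 0 0) (P.cons (P.lf 5264090 0 0) (P.cons (P.lf 0 176616 0) (P.cons (P.lf 0 54778 0) P.nil))))) (P.cons (P.cons (P.lf 0 6079128 0) (P.cons (P.lf 8319226 0 0) (P.cons (P.lf 892 0 0) (P.cons (P.lf 0 48380 0) P.nil)))) (P.cons (P.cons (P.lf 1788646 0 0) (P.cons (P.lf 1244364 0 0) (P.cons (P.lf 0 227826 0) P.nil))) (P.cons (P.cons (P.lf 924106 0 0) (P.cons (P.lf 0 290008 0) P.nil)) (P.cons (P.cons (P.lf 0 49908 0) P.nil) P.nil)))))) 234484)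
 EL.nil)))
noncomputable def S198_227_512_586_6 : EL := (EL.cons 12 (TM.mk (P.lf 8589934592 0 0) 0)
 (EL.cons 3 (TM.mk (P.cons (P.lf 0 1320724353 0) (P.cons (P.lf 409570215 0 0) (P.cons (P.lf 14623338 0 0) (P.cons (P.lf 0 1245645 0) (P.cons (P.lf 0 85526 0) (P.cons (P.lf 2831 0 0) P.nil)))))) 532)
 (EL.cons 7 (TM.mk (P.cons (P.lf 0 1997870342 0) (P.cons (P.lf 0 96267727 0) (P.cons (P.lf 13808992 0 0) (P.cons (P.lf 693290 0 0) (P.cons (P.lf 0 37347 0) (P.cons (P.lf 0 3551 0) P.nil)))))) 296)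
 EL.nil)))
noncomputable def S198_227_512_586_7 : EL := (EL.cons 12 (TM.mk (P.cons (P.cons (P.lf 798935354 0 0) (P.cons (P.lf 0 738018488 0) (P.cons (P.lf 11746536 0 0) (P.lf 3915512 0 0)))) (P.cons (P.cons (P.lf 0 234353026 0) (P.cons (P.lf 0 106684640 0) (P.cons (P.lf 1698024 0 0) (P.lf 566008 0 0)))) (P.cons (P.cons (P.lf 0 158226294 0) (P.cons (P.lf 10162608 0 0) (P.cons (P.lf 0 161744 0) (P.lf 0 53912 0)))) (P.cons (P.cons (P.lf 7809352 0 0) (P.cons (P.lf 2160512 0 0) (P.cons (P.lf 0 34384 0) P.nil))) (P.cons (P.cons (P.lf 2592438 0 0) (P.cons (P.lf 0 37584 0) P.nil)) (P.cons (P.cons (P.lf 0 8692 0) P.nil) P.nil)))))) 69106)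
 (EL.cons 3 (TM.mk (P.cons (P.cons (P.lf 0 870628082 0) (P.cons (P.lf 0 226944448 0) (P.cons (P.lf 3612118 0 0) (P.lf 1204038 0 0)))) (P.cons (P.cons (P.lf 0 954299173 0) (P.cons (P.lf 37571736 0 0) (P.cons (P.lf 0 598002 0) (P.lf 0 199332 0)))) (P.cons (P.cons (P.lf 67175054 0 0) (P.cons (P.lf 15811328 0 0) (P.cons (P.lf 0 251654 0) (P.lf 0 83882 0)))) (P.cons (P.cons (P.lf 29895770 0 0) (P.cons (P.lf 0 155550 0) (P.cons (P.lf 2474 0 0) P.nil))) (P.cons (P.cons (P.lf 106564 0 0) (P.cons (P.lf 0 297822 0) P.nil)) (P.cons (P.cons (P.lf 0 412472 0) P.nil) P.nil)))))) 158246)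
 (EL.cons 7 (TM.mk (P.cons (P.cons (P.lf 0 10053779 0) (P.cons (P.lf 251663835 0 0) (P.cons (P.lf 0 4005565 0) (P.lf 0 1335189 0)))) (P.cons (P.cons (P.lf 224303945 0 0) (P.cons (P.lf 0 8831074 0) (P.cons (P.lf 140557 0 0) (P.lf 46851 0 0)))) (P.cons (P.cons (P.lf 0 55972754 0) (P.cons (P.lf 0 2134322 0) (P.cons (P.lf 33974 0 0) (P.lf 11326 0 0)))) (P.cons (P.cons (P.lf 0 2275637 0) (P.cons (P.lf 885692 0 0) (P.cons (P.lf 0 14095 0) P.nil))) (P.cons (P.cons (P.lf 1657838 0 0) (P.cons (P.lf 39840 0 0) P.nil)) (P.cons (P.cons (P.lf 64842 0 0) P.nil) P.nil)))))) 141879)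
 (EL.cons 10 (TM.mk (P.cons (P.cons (P.lf 0 2737174968 0) (P.cons (P.lf 101463342 0 0) (P.cons (P.lf 50275452 0 0) (P.cons (P.lf 0 456219 0) (P.lf 0 114054 0))))) (P.cons (P.cons (P.lf 0 263782491 0) (P.cons (P.lf 9778056 0 0) (P.cons (P.lf 4845060 0 0) (P.cons (P.lf 0 43965 0) (P.lf 0 10989 0))))) (P.cons (P.cons (P.lf 31482714 0 0) (P.cons (P.lf 0 1167021 0) (P.cons (P.lf 0 578262 0) (P.cons (P.lf 5247 0 0) P.nil)))) (P.cons (P.cons (P.lf 3722901 0 0) (P.cons (P.lf 0 138000 0) (P.cons (P.lf 0 68379 0) P.nil))) (P.cons (P.cons (P.lf 0 141561 0) (P.cons (P.lf 5247 0 0) P.nil)) (P.cons (P.cons (P.lf 0 27786 0) P.nil) P.nil)))))) 9000)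
 EL.nil))))
noncomputable def S198_227_512_586_8 : EL := (EL.cons 12 (TM.mk (P.cons (P.cons (P.lf 74307632 0 0) (P.cons (P.lf 0 137283714 0) (P.cons (P.lf 65593134 0 0) (P.cons (P.lf 0 1290094 0) (P.cons (P.lf 0 656752 0) (P.cons (P.lf 10708 0 0) P.nil)))))) (P.cons (P.cons (P.lf 0 43593560 0) (P.cons (P.lf 20424540 0 0) (P.cons (P.lf 18006890 0 0) (P.cons (P.lf 0 691914 0) (P.cons (P.lf 0 189874 0) P.nil))))) (P.cons (P.cons (P.lf 0 23039036 0) (P.cons (P.lf 34900164 0 0) (P.cons (P.lf 0 976760 0) (P.cons (P.lf 0 171750 0) P.nil)))) (P.cons (P.cons (P.lf 10086218 0 0) (P.cons (P.lf 2435720 0 0) (P.cons (P.lf 0 662448 0) P.nil))) (P.cons (P.cons (P.lf 2970644 0 0) (P.cons (P.lf 0 1138714 0) P.nil)) (P.cons (P.cons (P.lf 0 430768 0) P.nil) P.nil)))))) 524902)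
 (EL.cons 3 (TM.mk (P.cons (P.cons (P.lf 0 150526311 0) (P.cons (P.lf 86279744 0 0) (P.cons (P.lf 47372515 0 0) (P.cons (P.lf 0 2009454 0) (P.cons (P.lf 0 504885 0) (P.cons (P.lf 8230 0 0) P.nil)))))) (P.cons (P.cons (P.lf 0 140255703 0) (P.cons (P.lf 214664460 0 0) (P.cons (P.lf 0 4440288 0) (P.cons (P.lf 0 1106302 0) (P.cons (P.lf 10601 0 0) P.nil))))) (P.cons (P.cons (P.lf 95050211 0 0) (P.cons (P.lf 23978856 0 0) (P.cons (P.lf 0 5615604 0) (P.cons (P.lf 39389 0 0) P.nil)))) (P.cons (P.cons (P.lf 38203298 0 0) (P.cons (P.lf 0 13534351 0) (P.cons (P.lf 0 273677 0) P.nil))) (P.cons (P.cons (P.lf 0 6337345 0) (P.cons (P.lf 0 2121484 0) P.nil)) (P.cons (P.cons (P.lf 0 1864853 0) P.nil) P.nil)))))) 1429577)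
 (EL.cons 7 (TM.mk (P.cons (P.cons (P.lf 15412499 0 0) (P.cons (P.lf 16611417 0 0) (P.cons (P.lf 0 28760995 0) (P.cons (P.lf 818987 0 0) (P.cons (P.lf 295153 0 0) (P.cons (P.lf 0 4812 0) P.nil)))))) (P.cons (P.cons (P.lf 32966500 0 0) (P.cons (P.lf 0 50455959 0) (P.cons (P.lf 1043666 0 0) (P.cons (P.lf 260027 0 0) (P.cons (P.lf 0 2491 0) P.nil))))) (P.cons (P.cons (P.lf 0 28247021 0) (P.cons (P.lf 3402939 0 0) (P.cons (P.lf 1132951 0 0) (P.cons (P.lf 0 55840 0) P.nil)))) (P.cons (P.cons (P.lf 0 3499033 0) (P.cons (P.lf 4307059 0 0) (P.cons (P.lf 0 246394 0) P.nil))) (P.cons (P.cons (P.lf 3741193 0 0) (P.cons (P.lf 0 370204 0) P.nil)) (P.cons (P.cons (P.lf 0 42334 0) P.nil) P.nil)))))) 832777)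
 (EL.cons 10 (TM.mk (P.cons (P.cons (P.lf 0 509160066 0) (P.cons (P.lf 489211728 0 0) (P.cons (P.lf 0 15568758 0) (P.cons (P.lf 0 10941708 0) (P.cons (P.lf 287172 0 0) (P.cons (P.lf 64182 0 0) P.nil)))))) (P.cons (P.cons (P.lf 100284828 0 0) (P.cons (P.lf 109599126 0 0) (P.cons (P.lf 0 7846062 0) (P.cons (P.lf 0 2598978 0) (P.cons (P.lf 78474 0 0) P.nil))))) (P.cons (P.cons (P.lf 121086816 0 0) (P.cons (P.lf 0 9822696 0) (P.cons (P.lf 0 1941450 0) (P.cons (P.lf 143304 0 0) P.nil)))) (P.cons (P.cons (P.lf 3715518 0 0) (P.cons (P.lf 0 3560502 0) (P.cons (P.lf 113106 0 0) P.nil))) (P.cons (P.cons (P.lf 0 3521070 0) (P.cons (P.lf 28122 0 0) P.nil)) (P.cons (P.cons (P.lf 0 231030 0) P.nil) P.nil)))))) 363816)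
 EL.nil))))
noncomputable def S198_227_512_586_9 : EL := (EL.cons 3 (TM.mk (P.cons (P.lf 0 1320724353 0) (P.cons (P.lf 409570215 0 0) (P.cons (P.lf 14623338 0 0) (P.cons (P.lf 0 1245645 0) (P.cons (P.lf 0 85526 0) (P.cons (P.lf 2831 0 0) P.nil)))))) 532)
 (EL.cons 7 (TM.mk (P.cons (P.lf 0 1997870342 0) (P.cons (P.lf 0 96267727 0) (P.cons (P.lf 13808992 0 0) (P.cons (P.lf 693290 0 0) (P.cons (P.lf 0 37347 0) (P.cons (P.lf 0 3551 0) P.nil)))))) 296)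
 EL.nil))
noncomputable def S198_227_512_586_10 : EL := (EL.cons 3 (TM.mk (P.cons (P.cons (P.lf 0 122838347 0) (P.cons (P.lf 113472224 0 0) (P.cons (P.lf 0 1806059 0) (P.lf 0 602019 0)))) (P.cons (P.cons (P.lf 74125811 0 0) (P.cons (P.lf 0 18785868 0) (P.cons (P.lf 299001 0 0) (P.lf 99666 0 0)))) (P.cons (P.cons (P.lf 14513777 0 0) (P.cons (P.lf 0 7905664 0) (P.cons (P.lf 125827 0 0) (P.lf 41941 0 0)))) (P.cons (P.cons (P.lf 0 9259789 0) (P.cons (P.lf 77775 0 0) (P.cons (P.lf 0 1237 0) P.nil))) (P.cons (P.cons (P.lf 0 269573 0) (P.cons (P.lf 148911 0 0) P.nil)) (P.cons (P.cons (P.lf 163780 0 0) P.nil) P.nil)))))) 37888)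
 (EL.cons 7 (TM.mk (P.cons (P.cons (P.lf 0 185818556 0) (P.cons (P.lf 171650346 0 0) (P.cons (P.lf 0 2732041 0) (P.lf 0 910680 0)))) (P.cons (P.cons (P.lf 45552764 0 0) (P.cons (P.lf 33084005 0 0) (P.cons (P.lf 0 526574 0) (P.lf 0 175524 0)))) (P.cons (P.cons (P.lf 40711456 0 0) (P.cons (P.lf 0 2354450 0) (P.cons (P.lf 37472 0 0) (P.lf 12490 0 0)))) (P.cons (P.cons (P.lf 0 355331 0) (P.cons (P.lf 0 847459 0) (P.cons (P.lf 13487 0 0) P.nil))) (P.cons (P.cons (P.lf 0 967225 0) (P.cons (P.lf 0 4536 0) P.nil)) (P.cons (P.cons (P.lf 0 26559 0) P.nil) P.nil)))))) 31805)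
 EL.nil))
noncomputable def S198_227_512_586_11 : EL := (EL.cons 3 (TM.mk (P.cons (P.cons (P.lf 0 11424987 0) (P.cons (P.lf 21107720 0 0) (P.cons (P.lf 0 10085111 0) (P.cons (P.lf 198354 0 0) (P.cons (P.lf 100977 0 0) (P.cons (P.lf 0 1646 0) P.nil)))))) (P.cons (P.cons (P.lf 10245627 0 0) (P.cons (P.lf 0 9686046 0) (P.cons (P.lf 358890 0 0) (P.cons (P.lf 44870 0 0) (P.cons (P.lf 0 2119 0) P.nil))))) (P.cons (P.cons (P.lf 1590257 0 0) (P.cons (P.lf 0 4625850 0) (P.cons (P.lf 1120416 0 0) (P.cons (P.lf 0 8779 0) P.nil)))) (P.cons (P.cons (P.lf 0 2734276 0) (P.cons (P.lf 1344227 0 0) (P.cons (P.lf 76423 0 0) P.nil))) (P.cons (P.cons (P.lf 0 9469 0) (P.cons (P.lf 349034 0 0) P.nil)) (P.cons (P.cons (P.lf 228841 0 0) P.nil) P.nil)))))) 261313)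
 (EL.cons 7 (TM.mk (P.cons (P.cons (P.lf 0 17282671 0) (P.cons (P.lf 31929819 0 0) (P.cons (P.lf 0 15255829 0) (P.cons (P.lf 300053 0 0) (P.cons (P.lf 152749 0 0) (P.cons (P.lf 0 2490 0) P.nil)))))) (P.cons (P.cons (P.lf 9306340 0 0) (P.cons (P.lf 0 3211851 0) (P.cons (P.lf 0 4923196 0) (P.cons (P.lf 175385 0 0) (P.cons (P.lf 51521 0 0) P.nil))))) (P.cons (P.cons (P.lf 5966491 0 0) (P.cons (P.lf 0 8566767 0) (P.cons (P.lf 130819 0 0) (P.cons (P.lf 45626 0 0) P.nil)))) (P.cons (P.cons (P.lf 0 2151763 0) (P.cons (P.lf 0 935879 0) (P.cons (P.lf 199262 0 0) P.nil))) (P.cons (P.cons (P.lf 0 844835 0) (P.cons (P.lf 295898 0 0) P.nil)) (P.cons (P.cons (P.lf 81410 0 0) P.nil) P.nil)))))) 181665)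
 EL.nil))
noncomputable def S198_227_512_586_12 : EL := (EL.cons 4 (TM.mk (P.cons (P.lf 1320724353 0 0) (P.cons (P.lf 0 409570215 0) (P.cons (P.lf 0 14623338 0) (P.cons (P.lf 1245645 0 0) (P.cons (P.lf 85526 0 0) (P.cons (P.lf 0 2831 0) P.nil)))))) 532)
 (EL.cons 8 (TM.mk (P.cons (P.lf 1997870342 0 0) (P.cons (P.lf 96267727 0 0) (P.cons (P.lf 0 13808992 0) (P.cons (P.lf 0 693290 0) (P.cons (P.lf 37347 0 0) (P.cons (P.lf 3551 0 0) P.nil)))))) 296)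
 EL.nil))
noncomputable def S198_227_512_586_13 : EL := (EL.cons 4 (TM.mk (P.cons (P.cons (P.lf 122838347 0 0) (P.cons (P.lf 0 113472224 0) (P.cons (P.lf 1806059 0 0) (P.lf 602019 0 0)))) (P.cons (P.cons (P.lf 0 74125811 0) (P.cons (P.lf 18785868 0 0) (P.cons (P.lf 0 299001 0) (P.lf 0 99666 0)))) (P.cons (P.cons (P.lf 0 14513777 0) (P.cons (P.lf 7905664 0 0) (P.cons (P.lf 0 125827 0) (P.lf 0 41941 0)))) (P.cons (P.cons (P.lf 9259789 0 0) (P.cons (P.lf 0 77775 0) (P.cons (P.lf 1237 0 0) P.nil))) (P.cons (P.cons (P.lf 269573 0 0) (P.cons (P.lf 0 148911 0) P.nil)) (P.cons (P.cons (P.lf 0 163780 0) P.nil) P.nil)))))) 37888)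
 (EL.cons 8 (TM.mk (P.cons (P.cons (P.lf 185818556 0 0) (P.cons (P.lf 0 171650346 0) (P.cons (P.lf 2732041 0 0) (P.lf 910680 0 0)))) (P.cons (P.cons (P.lf 0 45552764 0) (P.cons (P.lf 0 33084005 0) (P.cons (P.lf 526574 0 0) (P.lf 175524 0 0)))) (P.cons (P.cons (P.lf 0 40711456 0) (P.cons (P.lf 2354450 0 0) (P.cons (P.lf 0 37472 0) (P.lf 0 12490 0)))) (P.cons (P.cons (P.lf 355331 0 0) (P.cons (P.lf 847459 0 0) (P.cons (P.lf 0 13487 0) P.nil))) (P.cons (P.cons (P.lf 967225 0 0) (P.cons (P.lf 4536 0 0) P.nil)) (P.cons (P.cons (P.lf 26559 0 0) P.nil) P.nil)))))) 31805)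
 EL.nil))
noncomputable def S198_227_512_586_14 : EL := (EL.cons 4 (TM.mk (P.cons (P.cons (P.lf 11424987 0 0) (P.cons (P.lf 0 21107720 0) (P.cons (P.lf 10085111 0 0) (P.cons (P.lf 0 198354 0) (P.cons (P.lf 0 100977 0) (P.cons (P.lf 1646 0 0) P.nil)))))) (P.cons (P.cons (P.lf 0 10245627 0) (P.cons (P.lf 9686046 0 0) (P.cons (P.lf 0 358890 0) (P.cons (P.lf 0 44870 0) (P.cons (P.lf 2119 0 0) P.nil))))) (P.cons (P.cons (P.lf 0 1590257 0) (P.cons (P.lf 4625850 0 0) (P.cons (P.lf 0 1120416 0) (P.cons (P.lf 8779 0 0) P.nil)))) (P.cons (P.cons (P.lf 2734276 0 0) (P.cons (P.lf 0 1344227 0) (P.cons (P.lf 0 76423 0) P.nil))) (P.cons (P.cons (P.lf 9469 0 0) (P.cons (P.lf 0 349034 0) P.nil)) (P.cons (P.cons (P.lf 0 228841 0) P.nil) P.nil)))))) 261313)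
 (EL.cons 8 (TM.mk (P.cons (P.cons (P.lf 17282671 0 0) (P.cons (P.lf 0 31929819 0) (P.cons (P.lf 15255829 0 0) (P.cons (P.lf 0 300053 0) (P.cons (P.lf 0 152749 0) (P.cons (P.lf 2490 0 0) P.nil)))))) (P.cons (P.cons (P.lf 0 9306340 0) (P.cons (P.lf 3211851 0 0) (P.cons (P.lf 4923196 0 0) (P.cons (P.lf 0 175385 0) (P.cons (P.lf 0 51521 0) P.nil))))) (P.cons (P.cons (P.lf 0 5966491 0) (P.cons (P.lf 8566767 0 0) (P.cons (P.lf 0 130819 0) (P.cons (P.lf 0 45626 0) P.nil)))) (P.cons (P.cons (P.lf 2151763 0 0) (P.cons (P.lf 935879 0 0) (P.cons (P.lf 0 199262 0) P.nil))) (P.cons (P.cons (P.lf 844835 0 0) (P.cons (P.lf 0 295898 0) P.nil)) (P.cons (P.cons (P.lf 0 81410 0) P.nil) P.nil)))))) 181665)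
 EL.nil))
noncomputable def S198_227_512_586_15 : EL := (EL.cons 4 (TM.mk (P.cons (P.lf 0 433204774 0) (P.cons (P.lf 268682518 0 0) (P.cons (P.lf 0 32067537 0) (P.cons (P.lf 0 3792065 0) (P.cons (P.lf 144194 0 0) (P.cons (P.lf 28304 0 0) P.nil)))))) 2128)
 (EL.cons 8 (TM.mk (P.cons (P.lf 0 655312343 0) (P.cons (P.lf 171642763 0 0) (P.cons (P.lf 21577328 0 0) (P.cons (P.lf 0 1445658 0) (P.cons (P.lf 0 205138 0) (P.cons (P.lf 3748 0 0) P.nil)))))) 1533)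
 EL.nil))
noncomputable def S198_227_512_586_16 : EL := (EL.cons 4 (TM.mk (P.cons (P.cons (P.lf 0 40291646 0) (P.cons (P.lf 37219506 0 0) (P.cons (P.lf 0 592396 0) (P.lf 0 197465 0)))) (P.cons (P.cons (P.lf 36808523 0 0) (P.cons (P.lf 0 17704019 0) (P.cons (P.lf 281782 0 0) (P.lf 93927 0 0)))) (P.cons (P.cons (P.lf 0 2333203 0) (P.cons (P.lf 0 1094344 0) (P.cons (P.lf 17416 0 0) (P.lf 5805 0 0)))) (P.cons (P.cons (P.lf 0 4820778 0) (P.cons (P.lf 932986 0 0) (P.cons (P.lf 0 14849 0) P.nil))) (P.cons (P.cons (P.lf 821075 0 0) (P.cons (P.lf 66241 0 0) P.nil)) (P.cons (P.cons (P.lf 120920 0 0) P.nil) P.nil)))))) 53894)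
 (EL.cons 8 (TM.mk (P.cons (P.cons (P.lf 0 60949497 0) (P.cons (P.lf 56302247 0 0) (P.cons (P.lf 0 896124 0) (P.lf 0 298707 0)))) (P.cons (P.cons (P.lf 33842621 0 0) (P.cons (P.lf 0 6608172 0) (P.cons (P.lf 105177 0 0) (P.lf 35058 0 0)))) (P.cons (P.cons (P.lf 9394894 0 0) (P.cons (P.lf 0 4760896 0) (P.cons (P.lf 75775 0 0) (P.lf 25258 0 0)))) (P.cons (P.cons (P.lf 0 4480553 0) (P.cons (P.lf 0 105532 0) (P.cons (P.lf 1679 0 0) P.nil))) (P.cons (P.cons (P.lf 0 418819 0) (P.cons (P.lf 107145 0 0) P.nil)) (P.cons (P.cons (P.lf 104655 0 0) P.nil) P.nil)))))) 35556)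
 EL.nil))
noncomputable def S198_227_512_586_17 : EL := (EL.cons 4 (TM.mk (P.cons (P.cons (P.lf 0 3747457 0) (P.cons (P.lf 6923446 0 0) (P.cons (P.lf 0 3307970 0) (P.cons (P.lf 65061 0 0) (P.cons (P.lf 33120 0 0) (P.cons (P.lf 0 540 0) P.nil)))))) (P.cons (P.cons (P.lf 4522746 0 0) (P.cons (P.lf 0 5324107 0) (P.cons (P.lf 1143554 0 0) (P.cons (P.lf 0 5458 0) (P.cons (P.lf 0 10965 0) P.nil))))) (P.cons (P.cons (P.lf 0 479056 0) (P.cons (P.lf 0 608717 0) (P.cons (P.lf 367622 0 0) (P.cons (P.lf 0 8163 0) P.nil)))) (P.cons (P.cons (P.lf 0 1099359 0) (P.cons (P.lf 953152 0 0) (P.cons (P.lf 0 93321 0) P.nil))) (P.cons (P.cons (P.lf 272169 0 0) (P.cons (P.lf 0 7995 0) P.nil)) (P.cons (P.cons (P.lf 86671 0 0) P.nil) P.nil)))))) 202511)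
 (EL.cons 8 (TM.mk (P.cons (P.cons (P.lf 0 5668809 0) (P.cons (P.lf 10473154 0 0) (P.cons (P.lf 0 5003994 0) (P.cons (P.lf 98418 0 0) (P.cons (P.lf 50102 0 0) (P.cons (P.lf 0 816 0) P.nil)))))) (P.cons (P.cons (P.lf 4810486 0 0) (P.cons (P.lf 0 4301337 0) (P.cons (P.lf 0 63045 0) (P.cons (P.lf 27006 0 0) (P.cons (P.lf 1362 0 0) P.nil))))) (P.cons (P.cons (P.lf 1073186 0 0) (P.cons (P.lf 0 2599204 0) (P.cons (P.lf 599091 0 0) (P.cons (P.lf 0 3963 0) P.nil)))) (P.cons (P.cons (P.lf 0 1351833 0) (P.cons (P.lf 585961 0 0) (P.cons (P.lf 65212 0 0) P.nil))) (P.cons (P.cons (P.lf 0 77394 0) (P.cons (P.lf 223048 0 0) P.nil)) (P.cons (P.cons (P.lf 122507 0 0) P.nil) P.nil)))))) 166367)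
 EL.nil))
noncomputable def S198_227_512_586_18 : EL := (EL.cons 4 (TM.mk (P.cons (P.lf 142093522 0 0) (P.cons (P.lf 0 132193991 0) (P.cons (P.lf 36274848 0 0) (P.cons (P.lf 0 908220 0) (P.cons (P.lf 0 623396 0) (P.cons (P.lf 0 4479 0) P.nil)))))) 6741)
 (EL.cons 8 (TM.mk (P.cons (P.lf 214946014 0 0) (P.cons (P.lf 0 122956731 0) (P.cons (P.lf 8001726 0 0) (P.cons (P.lf 3495072 0 0) (P.cons (P.lf 0 40579 0) (P.cons (P.lf 0 38127 0) P.nil)))))) 3726)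
 EL.nil))
noncomputable def S198_227_512_586_19 : EL := (EL.cons 4 (TM.mk (P.cons (P.cons (P.lf 13215878 0 0) (P.cons (P.lf 0 12208200 0) (P.cons (P.lf 194309 0 0) (P.lf 64769 0 0)))) (P.cons (P.cons (P.lf 0 16171775 0) (P.cons (P.lf 9592903 0 0) (P.cons (P.lf 0 152683 0) (P.lf 0 50894 0)))) (P.cons (P.cons (P.lf 4363058 0 0) (P.cons (P.lf 0 1306691 0) (P.cons (P.lf 20797 0 0) (P.lf 6931 0 0)))) (P.cons (P.cons (P.lf 1490056 0 0) (P.cons (P.lf 0 493149 0) (P.cons (P.lf 7848 0 0) P.nil))) (P.cons (P.cons (P.lf 0 778680 0) (P.cons (P.lf 73885 0 0) P.nil)) (P.cons (P.cons (P.lf 26258 0 0) P.nil) P.nil)))))) 55910)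
 (EL.cons 8 (TM.mk (P.cons (P.cons (P.lf 19991766 0 0) (P.cons (P.lf 0 18467443 0) (P.cons (P.lf 293933 0 0) (P.lf 97977 0 0)))) (P.cons (P.cons (P.lf 0 17300216 0) (P.cons (P.lf 7894460 0 0) (P.cons (P.lf 0 125650 0) (P.lf 0 41883 0)))) (P.cons (P.cons (P.lf 139469 0 0) (P.cons (P.lf 1093906 0 0) (P.cons (P.lf 0 17410 0) (P.lf 0 5803 0)))) (P.cons (P.cons (P.lf 2567037 0 0) (P.cons (P.lf 0 491069 0) (P.cons (P.lf 7815 0 0) P.nil))) (P.cons (P.cons (P.lf 0 293431 0) (P.cons (P.lf 0 62320 0) P.nil)) (P.cons (P.cons (P.lf 0 96868 0) P.nil) P.nil)))))) 42141)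
 EL.nil))
noncomputable def S198_227_512_586_20 : EL := (EL.cons 4 (TM.mk (P.cons (P.cons (P.lf 1229186 0 0) (P.cons (P.lf 0 2270927 0) (P.cons (P.lf 1085032 0 0) (P.cons (P.lf 0 21340 0) (P.cons (P.lf 0 10863 0) (P.cons (P.lf 176 0 0) P.nil)))))) (P.cons (P.cons (P.lf 0 1864668 0) (P.cons (P.lf 2450574 0 0) (P.cons (P.lf 0 711570 0) (P.cons (P.lf 8407 0 0) (P.cons (P.lf 6965 0 0) P.nil))))) (P.cons (P.cons (P.lf 603567 0 0) (P.cons (P.lf 0 316749 0) (P.cons (P.lf 0 16275 0) (P.cons (P.lf 2358 0 0) P.nil)))) (P.cons (P.cons (P.lf 329451 0 0) (P.cons (P.lf 0 396033 0) (P.cons (P.lf 73180 0 0) P.nil))) (P.cons (P.cons (P.lf 0 204156 0) (P.cons (P.lf 98864 0 0) P.nil)) (P.cons (P.cons (P.lf 0 4687 0) P.nil) P.nil)))))) 124594)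
 (EL.cons 8 (TM.mk (P.cons (P.cons (P.lf 1859400 0 0) (P.cons (P.lf 0 3435251 0) (P.cons (P.lf 1641337 0 0) (P.cons (P.lf 0 32282 0) (P.cons (P.lf 0 16433 0) (P.cons (P.lf 267 0 0) P.nil)))))) (P.cons (P.cons (P.lf 0 2154484 0) (P.cons (P.lf 2476168 0 0) (P.cons (P.lf 0 488316 0) (P.cons (P.lf 1152 0 0) (P.cons (P.lf 4649 0 0) P.nil))))) (P.cons (P.cons (P.lf 116713 0 0) (P.cons (P.lf 453066 0 0) (P.cons (P.lf 0 221090 0) (P.cons (P.lf 4404 0 0) P.nil)))) (P.cons (P.cons (P.lf 571795 0 0) (P.cons (P.lf 0 475445 0) (P.cons (P.lf 40866 0 0) P.nil))) (P.cons (P.cons (P.lf 0 109589 0) (P.cons (P.lf 0 21889 0) P.nil)) (P.cons (P.cons (P.lf 0 53403 0) P.nil) P.nil)))))) 118309)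
 EL.nil))
noncomputable def S198_227_512_586_21 : EL := (EL.cons 4 (TM.mk (P.cons (P.cons (P.lf 747789735 0 0) (P.cons (P.lf 340416672 0 0) (P.cons (P.lf 0 5418177 0) (P.lf 0 1806057 0)))) (P.cons (P.cons (P.lf 1028424984 0 0) (P.cons (P.lf 0 56357604 0) (P.cons (P.lf 897003 0 0) (P.lf 298998 0 0)))) (P.cons (P.cons (P.lf 0 52661277 0) (P.cons (P.lf 0 23716992 0) (P.cons (P.lf 377481 0 0) (P.lf 125823 0 0)))) (P.cons (P.cons (P.lf 0 39155559 0) (P.cons (P.lf 233325 0 0) (P.cons (P.lf 0 3711 0) P.nil))) (P.cons (P.cons (P.lf 0 376137 0) (P.cons (P.lf 446733 0 0) P.nil)) (P.cons (P.cons (P.lf 576252 0 0) P.nil) P.nil)))))) 120339)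
 (EL.cons 8 (TM.mk (P.cons (P.cons (P.lf 0 175764777 0) (P.cons (P.lf 0 80013489 0) (P.cons (P.lf 1273524 0 0) (P.lf 424509 0 0)))) (P.cons (P.cons (P.lf 0 178751181 0) (P.cons (P.lf 41915079 0 0) (P.cons (P.lf 0 667131 0) (P.lf 0 222375 0)))) (P.cons (P.cons (P.lf 96684210 0 0) (P.cons (P.lf 0 220128 0) (P.cons (P.lf 3498 0 0) (P.lf 1164 0 0)))) (P.cons (P.cons (P.lf 1920306 0 0) (P.cons (P.lf 0 1733151 0) (P.cons (P.lf 27582 0 0) P.nil))) (P.cons (P.cons (P.lf 0 2625063 0) (P.cons (P.lf 0 44376 0) P.nil)) (P.cons (P.cons (P.lf 0 91401 0) P.nil) P.nil)))))) 110055)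
 (EL.cons 11 (TM.mk (P.cons (P.cons (P.lf 2737174968 0 0) (P.cons (P.lf 0 101463342 0) (P.cons (P.lf 0 50275452 0) (P.cons (P.lf 456219 0 0) (P.lf 114054 0 0))))) (P.cons (P.cons (P.lf 263782491 0 0) (P.cons (P.lf 0 9778056 0) (P.cons (P.lf 0 4845060 0) (P.cons (P.lf 43965 0 0) (P.lf 10989 0 0))))) (P.cons (P.cons (P.lf 0 31482714 0) (P.cons (P.lf 1167021 0 0) (P.cons (P.lf 578262 0 0) (P.cons (P.lf 0 5247 0) P.nil)))) (P.cons (P.cons (P.lf 0 3722901 0) (P.cons (P.lf 138000 0 0) (P.cons (P.lf 68379 0 0) P.nil))) (P.cons (P.cons (P.lf 141561 0 0) (P.cons (P.lf 0 5247 0) P.nil)) (P.cons (P.cons (P.lf 27786 0 0) P.nil) P.nil)))))) 9000)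
 EL.nil)))
noncomputable def S198_227_512_586_22 : EL := (EL.cons 4 (TM.mk (P.cons (P.cons (P.lf 69550662 0 0) (P.cons (P.lf 0 32586012 0) (P.cons (P.lf 0 28728813 0) (P.cons (P.lf 1103904 0 0) (P.cons (P.lf 302931 0 0) (P.cons (P.lf 0 4938 0) P.nil)))))) (P.cons (P.cons (P.lf 75250665 0 0) (P.cons (P.lf 0 112175253 0) (P.cons (P.lf 2399589 0 0) (P.cons (P.lf 575586 0 0) (P.cons (P.lf 0 6360 0) P.nil))))) (P.cons (P.cons (P.lf 0 46729977 0) (P.cons (P.lf 0 14302353 0) (P.cons (P.lf 3368010 0 0) (P.cons (P.lf 0 24084 0) P.nil)))) (P.cons (P.cons (P.lf 0 20468787 0) (P.cons (P.lf 7439289 0 0) (P.cons (P.lf 175050 0 0) P.nil))) (P.cons (P.cons (P.lf 3163938 0 0) (P.cons (P.lf 1235259 0 0) P.nil)) (P.cons (P.cons (P.lf 1046847 0 0) P.nil) P.nil)))))) 584121)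
 (EL.cons 8 (TM.mk (P.cons (P.cons (P.lf 0 16347585 0) (P.cons (P.lf 7659201 0 0) (P.cons (P.lf 6752583 0 0) (P.cons (P.lf 0 259467 0) (P.cons (P.lf 0 71202 0) (P.cons (P.lf 1161 0 0) P.nil)))))) (P.cons (P.cons (P.lf 0 11830080 0) (P.cons (P.lf 23622054 0 0) (P.cons (P.lf 0 2983431 0) (P.cons (P.lf 0 42321 0) (P.cons (P.lf 27006 0 0) P.nil))))) (P.cons (P.cons (P.lf 17106756 0 0) (P.cons (P.lf 0 5984853 0) (P.cons (P.lf 0 501066 0) (P.cons (P.lf 50733 0 0) P.nil)))) (P.cons (P.cons (P.lf 673635 0 0) (P.cons (P.lf 0 2621469 0) (P.cons (P.lf 222828 0 0) P.nil))) (P.cons (P.cons (P.lf 0 2293014 0) (P.cons (P.lf 333051 0 0) P.nil)) (P.cons (P.cons (P.lf 61872 0 0) P.nil) P.nil)))))) 325545)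
 (EL.cons 11 (TM.mk (P.cons (P.cons (P.lf 254580033 0 0) (P.cons (P.lf 0 244605864 0) (P.cons (P.lf 7784379 0 0) (P.cons (P.lf 5470854 0 0) (P.cons (P.lf 0 143586 0) (P.cons (P.lf 0 32091 0) P.nil)))))) (P.cons (P.cons (P.lf 0 50142414 0) (P.cons (P.lf 0 54799563 0) (P.cons (P.lf 3923031 0 0) (P.cons (P.lf 1299489 0 0) (P.cons (P.lf 0 39237 0) P.nil))))) (P.cons (P.cons (P.lf 0 60543408 0) (P.cons (P.lf 4911348 0 0) (P.cons (P.lf 970725 0 0) (P.cons (P.lf 0 71652 0) P.nil)))) (P.cons (P.cons (P.lf 0 1857759 0) (P.cons (P.lf 1780251 0 0) (P.cons (P.lf 0 56553 0) P.nil))) (P.cons (P.cons (P.lf 1760535 0 0) (P.cons (P.lf 0 14061 0) P.nil)) (P.cons (P.cons (P.lf 115515 0 0) P.nil) P.nil)))))) 181908)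
 EL.nil)))
noncomputable def S198_227_512_586_23 : EL := (EL.cons 4 (TM.mk (P.cons (P.cons (P.lf 0 245279100 0) (P.cons (P.lf 0 111658518 0) (P.cons (P.lf 1777191 0 0) (P.lf 592395 0 0)))) (P.cons (P.cons (P.lf 0 261265416 0) (P.cons (P.lf 53112057 0 0) (P.cons (P.lf 0 845346 0) (P.lf 0 281781 0)))) (P.cons (P.cons (P.lf 124598157 0 0) (P.cons (P.lf 3283032 0 0) (P.cons (P.lf 0 52251 0) (P.lf 0 17415 0)))) (P.cons (P.cons (P.lf 10990284 0 0) (P.cons (P.lf 0 2798961 0) (P.cons (P.lf 44547 0 0) P.nil))) (P.cons (P.cons (P.lf 0 4384731 0) (P.cons (P.lf 0 198726 0) P.nil)) (P.cons (P.cons (P.lf 0 374502 0) P.nil) P.nil)))))) 204639)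
 (EL.cons 8 (TM.mk (P.cons (P.cons (P.lf 57651801 0 0) (P.cons (P.lf 26244858 0 0) (P.cons (P.lf 0 417720 0) (P.lf 0 139239 0)))) (P.cons (P.cons (P.lf 40752942 0 0) (P.cons (P.lf 0 21887175 0) (P.cons (P.lf 348360 0 0) (P.lf 116118 0 0)))) (P.cons (P.cons (P.lf 0 50533467 0) (P.cons (P.lf 4045125 0 0) (P.cons (P.lf 0 64380 0) (P.lf 0 21459 0)))) (P.cons (P.cons (P.lf 8609835 0 0) (P.cons (P.lf 723069 0 0) (P.cons (P.lf 0 11508 0) P.nil))) (P.cons (P.cons (P.lf 1466526 0 0) (P.cons (P.lf 0 173802 0) P.nil)) (P.cons (P.cons (P.lf 0 256296 0) P.nil) P.nil)))))) 87738)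
 (EL.cons 11 (TM.mk (P.cons (P.cons (P.lf 0 897808281 0) (P.cons (P.lf 33280527 0 0) (P.cons (P.lf 16490619 0 0) (P.cons (P.lf 0 149640 0) (P.lf 0 37410 0))))) (P.cons (P.cons (P.lf 191897496 0 0) (P.cons (P.lf 0 7113378 0) (P.cons (P.lf 0 3524703 0) (P.cons (P.lf 31983 0 0) (P.lf 7995 0 0))))) (P.cons (P.cons (P.lf 47098614 0 0) (P.cons (P.lf 0 1745880 0) (P.cons (P.lf 0 865089 0) (P.cons (P.lf 7848 0 0) P.nil)))) (P.cons (P.cons (P.lf 0 1870002 0) (P.cons (P.lf 69318 0 0) (P.cons (P.lf 34347 0 0) P.nil))) (P.cons (P.cons (P.lf 0 679197 0) (P.cons (P.lf 25176 0 0) P.nil)) (P.cons (P.cons (P.lf 0 2172 0) P.nil) P.nil)))))) 26484)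
 EL.nil)))
noncomputable def S198_227_512_586_24 : EL := (EL.cons 4 (TM.mk (P.cons (P.cons (P.lf 0 22812996 0) (P.cons (P.lf 10688388 0 0) (P.cons (P.lf 9423207 0 0) (P.cons (P.lf 0 362085 0) (P.cons (P.lf 0 99363 0) (P.cons (P.lf 1620 0 0) P.nil)))))) (P.cons (P.cons (P.lf 0 17608080 0) (P.cons (P.lf 33479511 0 0) (P.cons (P.lf 0 3709311 0) (P.cons (P.lf 0 76506 0) (P.cons (P.lf 32898 0 0) P.nil))))) (P.cons (P.cons (P.lf 23234613 0 0) (P.cons (P.lf 0 6837318 0) (P.cons (P.lf 0 964980 0) (P.cons (P.lf 70455 0 0) P.nil)))) (P.cons (P.cons (P.lf 2212374 0 0) (P.cons (P.lf 0 4292241 0) (P.cons (P.lf 302769 0 0) P.nil))) (P.cons (P.cons (P.lf 0 3314298 0) (P.cons (P.lf 334986 0 0) P.nil)) (P.cons (P.cons (P.lf 0 82971 0) P.nil) P.nil)))))) 575772)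
 (EL.cons 8 (TM.mk (P.cons (P.cons (P.lf 5362095 0 0) (P.cons (P.lf 0 2512260 0) (P.cons (P.lf 0 2214882 0) (P.cons (P.lf 85107 0 0) (P.cons (P.lf 23352 0 0) (P.cons (P.lf 0 378 0) P.nil)))))) (P.cons (P.cons (P.lf 2217489 0 0) (P.cons (P.lf 0 6969084 0) (P.cons (P.lf 1665441 0 0) (P.cons (P.lf 0 12510 0) (P.cons (P.lf 0 16098 0) P.nil))))) (P.cons (P.cons (P.lf 0 6873810 0) (P.cons (P.lf 4393665 0 0) (P.cons (P.lf 0 114591 0) (P.cons (P.lf 0 21888 0) P.nil)))) (P.cons (P.cons (P.lf 1481199 0 0) (P.cons (P.lf 334509 0 0) (P.cons (P.lf 0 136980 0) P.nil))) (P.cons (P.cons (P.lf 886776 0 0) (P.cons (P.lf 0 405099 0) P.nil)) (P.cons (P.cons (P.lf 0 256140 0) P.nil) P.nil)))))) 157353)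
 (EL.cons 11 (TM.mk (P.cons (P.cons (P.lf 0 83503635 0) (P.cons (P.lf 80232054 0 0) (P.cons (P.lf 0 2553318 0) (P.cons (P.lf 0 1794468 0) (P.cons (P.lf 47097 0 0) (P.cons (P.lf 10524 0 0) P.nil)))))) (P.cons (P.cons (P.lf 42342321 0 0) (P.cons (P.lf 0 6906228 0) (P.cons (P.lf 0 494964 0) (P.cons (P.lf 130242 0 0) (P.cons (P.lf 0 1734 0) P.nil))))) (P.cons (P.cons (P.lf 15682758 0 0) (P.cons (P.lf 0 8073390 0) (P.cons (P.lf 108909 0 0) (P.cons (P.lf 175551 0 0) P.nil)))) (P.cons (P.cons (P.lf 0 5809851 0) (P.cons (P.lf 0 207705 0) (P.cons (P.lf 129129 0 0) P.nil))) (P.cons (P.cons (P.lf 0 976206 0) (P.cons (P.lf 225681 0 0) P.nil)) (P.cons (P.cons (P.lf 154413 0 0) P.nil) P.nil)))))) 153207)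
 EL.nil)))
noncomputable def S198_227_512_586_25 : EL := (EL.cons 4 (TM.mk (P.cons (P.cons (P.lf 80452878 0 0) (P.cons (P.lf 36624600 0 0) (P.cons (P.lf 0 582927 0) (P.lf 0 194307 0)))) (P.cons (P.cons (P.lf 60747210 0 0) (P.cons (P.lf 0 28778709 0) (P.cons (P.lf 458049 0 0) (P.lf 152682 0 0)))) (P.cons (P.cons (P.lf 0 68335023 0) (P.cons (P.lf 3920076 0 0) (P.cons (P.lf 0 62391 0) (P.lf 0 20796 0)))) (P.cons (P.cons (P.lf 8196012 0 0) (P.cons (P.lf 1479447 0 0) (P.cons (P.lf 0 23544 0) P.nil))) (P.cons (P.cons (P.lf 3094668 0 0) (P.cons (P.lf 0 221655 0) P.nil)) (P.cons (P.cons (P.lf 0 316419 0) P.nil) P.nil)))))) 201138)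
 (EL.cons 8 (TM.mk (P.cons (P.cons (P.lf 0 18910104 0) (P.cons (P.lf 0 8608455 0) (P.cons (P.lf 137013 0 0) (P.lf 45669 0 0)))) (P.cons (P.cons (P.lf 0 7502967 0) (P.cons (P.lf 9848682 0 0) (P.cons (P.lf 0 156753 0) (P.lf 0 52251 0)))) (P.cons (P.cons (P.lf 20929929 0 0) (P.cons (P.lf 0 3457824 0) (P.cons (P.lf 55035 0 0) (P.lf 18342 0 0)))) (P.cons (P.cons (P.lf 0 7834059 0) (P.cons (P.lf 86682 0 0) (P.cons (P.lf 0 1377 0) P.nil))) (P.cons (P.cons (P.lf 197388 0 0) (P.cons (P.lf 151461 0 0) P.nil)) (P.cons (P.cons (P.lf 279315 0 0) P.nil) P.nil)))))) 84996)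
 (EL.cons 11 (TM.mk (P.cons (P.cons (P.lf 294486000 0 0) (P.cons (P.lf 0 10916193 0) (P.cons (P.lf 0 5409012 0) (P.cons (P.lf 49083 0 0) (P.lf 12270 0 0))))) (P.cons (P.cons (P.lf 0 154266561 0) (P.cons (P.lf 5718450 0 0) (P.cons (P.lf 2833512 0 0) (P.cons (P.lf 0 25710 0) (P.lf 0 6426 0))))) (P.cons (P.cons (P.lf 810189 0 0) (P.cons (P.lf 0 30030 0) (P.cons (P.lf 0 14880 0) (P.cons (P.lf 135 0 0) P.nil)))) (P.cons (P.cons (P.lf 6378807 0 0) (P.cons (P.lf 0 236454 0) (P.cons (P.lf 0 117162 0) P.nil))) (P.cons (P.cons (P.lf 163323 0 0) (P.cons (P.lf 0 6051 0) P.nil)) (P.cons (P.cons (P.lf 0 94440 0) P.nil) P.nil)))))) 37917)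
 EL.nil)))
noncomputable def S198_227_512_586_26 : EL := (EL.cons 4 (TM.mk (P.cons (P.cons (P.lf 7482786 0 0) (P.cons (P.lf 0 3505848 0) (P.cons (P.lf 0 3090861 0) (P.cons (P.lf 118764 0 0) (P.cons (P.lf 32589 0 0) (P.cons (P.lf 0 531 0) P.nil)))))) (P.cons (P.cons (P.lf 3455055 0 0) (P.cons (P.lf 0 9894261 0) (P.cons (P.lf 2175183 0 0) (P.cons (P.lf 0 11733 0) (P.cons (P.lf 0 20898 0) P.nil))))) (P.cons (P.cons (P.lf 0 9494985 0) (P.cons (P.lf 5686959 0 0) (P.cons (P.lf 0 26559 0) (P.cons (P.lf 0 32205 0) P.nil)))) (P.cons (P.cons (P.lf 1580811 0 0) (P.cons (P.lf 830682 0 0) (P.cons (P.lf 0 213852 0) P.nil))) (P.cons (P.cons (P.lf 1402458 0 0) (P.cons (P.lf 0 581889 0) P.nil)) (P.cons (P.cons (P.lf 0 308700 0) P.nil) P.nil)))))) 341397)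
 (EL.cons 8 (TM.mk (P.cons (P.cons (P.lf 0 1758795 0) (P.cons (P.lf 824034 0 0) (P.cons (P.lf 726492 0 0) (P.cons (P.lf 0 27915 0) (P.cons (P.lf 0 7659 0) (P.cons (P.lf 123 0 0) P.nil)))))) (P.cons (P.cons (P.lf 0 181926 0) (P.cons (P.lf 2030355 0 0) (P.cons (P.lf 0 771567 0) (P.cons (P.lf 12759 0 0) (P.cons (P.lf 7656 0 0) P.nil))))) (P.cons (P.cons (P.lf 2499678 0 0) (P.cons (P.lf 0 2159148 0) (P.cons (P.lf 198945 0 0) (P.cons (P.lf 6216 0 0) P.nil)))) (P.cons (P.cons (P.lf 0 1178634 0) (P.cons (P.lf 312660 0 0) (P.cons (P.lf 40005 0 0) P.nil))) (P.cons (P.cons (P.lf 0 165966 0) (P.cons (P.lf 185064 0 0) P.nil)) (P.cons (P.cons (P.lf 181677 0 0) P.nil) P.nil)))))) 141291)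
 (EL.cons 11 (TM.mk (P.cons (P.cons (P.lf 27389646 0 0) (P.cons (P.lf 0 26316549 0) (P.cons (P.lf 837501 0 0) (P.cons (P.lf 588594 0 0) (P.cons (P.lf 0 15447 0) (P.cons (P.lf 0 3450 0) P.nil)))))) (P.cons (P.cons (P.lf 0 22382322 0) (P.cons (P.lf 10426314 0 0) (P.cons (P.lf 0 97365 0) (P.cons (P.lf 0 225249 0) (P.cons (P.lf 5358 0 0) P.nil))))) (P.cons (P.cons (P.lf 0 1140321 0) (P.cons (P.lf 2237010 0 0) (P.cons (P.lf 0 95340 0) (P.cons (P.lf 0 50850 0) P.nil)))) (P.cons (P.cons (P.lf 3680487 0 0) (P.cons (P.lf 0 802980 0) (P.cons (P.lf 0 32283 0) P.nil))) (P.cons (P.cons (P.lf 0 225132 0) (P.cons (P.lf 0 124038 0) P.nil)) (P.cons (P.cons (P.lf 0 176853 0) P.nil) P.nil)))))) 141039)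
 EL.nil)))
noncomputable def S198_227_512_586_27 : EL := (EL.cons 13 (TM.mk (P.lf 0 4294967296 0) 0)
 EL.nil)
noncomputable def S198_227_512_586_28 : EL := (EL.cons 13 (TM.mk (P.cons (P.cons (P.lf 0 399467677 0) (P.cons (P.lf 369009244 0 0) (P.cons (P.lf 0 5873268 0) (P.lf 0 1957756 0)))) (P.cons (P.cons (P.lf 117176513 0 0) (P.cons (P.lf 53342320 0 0) (P.cons (P.lf 0 849012 0) (P.lf 0 283004 0)))) (P.cons (P.cons (P.lf 79113147 0 0) (P.cons (P.lf 0 5081304 0) (P.cons (P.lf 80872 0 0) (P.lf 26956 0 0)))) (P.cons (P.cons (P.lf 0 3904676 0) (P.cons (P.lf 0 1080256 0) (P.cons (P.lf 17192 0 0) P.nil))) (P.cons (P.cons (P.lf 0 1296219 0) (P.cons (P.lf 18792 0 0) P.nil)) (P.cons (P.cons (P.lf 4346 0 0) P.nil) P.nil)))))) 34553)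
 EL.nil)
noncomputable def S198_227_512_586_29 : EL := (EL.cons 13 (TM.mk (P.cons (P.cons (P.lf 0 37153816 0) (P.cons (P.lf 68641857 0 0) (P.cons (P.lf 0 32796567 0) (P.cons (P.lf 645047 0 0) (P.cons (P.lf 328376 0 0) (P.cons (P.lf 0 5354 0) P.nil)))))) (P.cons (P.cons (P.lf 21796780 0 0) (P.cons (P.lf 0 10212270 0) (P.cons (P.lf 0 9003445 0) (P.cons (P.lf 345957 0 0) (P.cons (P.lf 94937 0 0) P.nil))))) (P.cons (P.cons (P.lf 11519518 0 0) (P.cons (P.lf 0 17450082 0) (P.cons (P.lf 488380 0 0) (P.cons (P.lf 85875 0 0) P.nil)))) (P.cons (P.cons (P.lf 0 5043109 0) (P.cons (P.lf 0 1217860 0) (P.cons (P.lf 331224 0 0) P.nil))) (P.cons (P.cons (P.lf 0 1485322 0) (P.cons (P.lf 569357 0 0) P.nil)) (P.cons (P.cons (P.lf 215384 0 0) P.nil) P.nil)))))) 262451)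
 EL.nil)
noncomputable def S198_227_512_586_30 : EL := (EL.cons 13 (TM.mk (P.cons (P.lf 1408772644 0 0) (P.cons (P.lf 0 436874896 0) (P.cons (P.lf 0 15598228 0) (P.cons (P.lf 1328688 0 0) (P.cons (P.lf 91228 0 0) (P.cons (P.lf 0 3020 0) P.nil)))))) 560)
 EL.nil)
noncomputable def S198_227_512_586_31 : EL := (EL.cons 13 (TM.mk (P.cons (P.cons (P.lf 131027571 0 0) (P.cons (P.lf 0 121037039 0) (P.cons (P.lf 1926463 0 0) (P.lf 642154 0 0)))) (P.cons (P.cons (P.lf 0 79067532 0) (P.cons (P.lf 20038260 0 0) (P.cons (P.lf 0 318935 0) (P.lf 0 106311 0)))) (P.cons (P.cons (P.lf 0 15481363 0) (P.cons (P.lf 8432709 0 0) (P.cons (P.lf 0 134216 0) (P.lf 0 44738 0)))) (P.cons (P.cons (P.lf 9877109 0 0) (P.cons (P.lf 0 82960 0) (P.cons (P.lf 1320 0 0) P.nil))) (P.cons (P.cons (P.lf 287545 0 0) (P.cons (P.lf 0 158839 0) P.nil)) (P.cons (P.cons (P.lf 0 174699 0) P.nil) P.nil)))))) 40394)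
 EL.nil)
noncomputable def S198_227_512_586_32 : EL := (EL.cons 13 (TM.mk (P.cons (P.cons (P.lf 12186653 0 0) (P.cons (P.lf 0 22514902 0) (P.cons (P.lf 10757452 0 0) (P.cons (P.lf 0 211578 0) (P.cons (P.lf 0 107709 0) (P.cons (P.lf 1756 0 0) P.nil)))))) (P.cons (P.cons (P.lf 0 10928669 0) (P.cons (P.lf 10331783 0 0) (P.cons (P.lf 0 382817 0) (P.cons (P.lf 0 47862 0) (P.cons (P.lf 2261 0 0) P.nil))))) (P.cons (P.cons (P.lf 0 1696275 0) (P.cons (P.lf 4934241 0 0) (P.cons (P.lf 0 1195111 0) (P.cons (P.lf 9365 0 0) P.nil)))) (P.cons (P.cons (P.lf 2916562 0 0) (P.cons (P.lf 0 1433843 0) (P.cons (P.lf 0 81518 0) P.nil))) (P.cons (P.cons (P.lf 10101 0 0) (P.cons (P.lf 0 372303 0) P.nil)) (P.cons (P.cons (P.lf 0 244098 0) P.nil) P.nil)))))) 278711)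
 EL.nil)
noncomputable def S198_227_512_586_33 : EL := (EL.cons 14 (TM.mk (P.lf 8589934592 0 0) 0)
 EL.nil)
noncomputable def S198_227_512_586_34 : EL := (EL.cons 14 (TM.mk (P.cons (P.cons (P.lf 798935354 0 0) (P.cons (P.lf 0 738018488 0) (P.cons (P.lf 11746536 0 0) (P.lf 3915512 0 0)))) (P.cons (P.cons (P.lf 0 234353026 0) (P.cons (P.lf 0 106684640 0) (P.cons (P.lf 1698024 0 0) (P.lf 566008 0 0)))) (P.cons (P.cons (P.lf 0 158226294 0) (P.cons (P.lf 10162608 0 0) (P.cons (P.lf 0 161744 0) (P.lf 0 53912 0)))) (P.cons (P.cons (P.lf 7809352 0 0) (P.cons (P.lf 2160512 0 0) (P.cons (P.lf 0 34384 0) P.nil))) (P.cons (P.cons (P.lf 2592438 0 0) (P.cons (P.lf 0 37584 0) P.nil)) (P.cons (P.cons (P.lf 0 8692 0) P.nil) P.nil)))))) 69106)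
 EL.nil)
noncomputable def S198_227_512_586_35 : EL := (EL.cons 14 (TM.mk (P.cons (P.cons (P.lf 74307632 0 0) (P.cons (P.lf 0 137283714 0) (P.cons (P.lf 65593134 0 0) (P.cons (P.lf 0 1290094 0) (P.cons (P.lf 0 656752 0) (P.cons (P.lf 10708 0 0) P.nil)))))) (P.cons (P.cons (P.lf 0 43593560 0) (P.cons (P.lf 20424540 0 0) (P.cons (P.lf 18006890 0 0) (P.cons (P.lf 0 691914 0) (P.cons (P.lf 0 189874 0) P.nil))))) (P.cons (P.cons (P.lf 0 23039036 0) (P.cons (P.lf 34900164 0 0) (P.cons (P.lf 0 976760 0) (P.cons (P.lf 0 171750 0) P.nil)))) (P.cons (P.cons (P.lf 10086218 0 0) (P.cons (P.lf 2435720 0 0) (P.cons (P.lf 0 662448 0) P.nil))) (P.cons (P.cons (P.lf 2970644 0 0) (P.cons (P.lf 0 1138714 0) P.nil)) (P.cons (P.cons (P.lf 0 430768 0) P.nil) P.nil)))))) 524902)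
 EL.nil)
noncomputable def S198_227_512_586_36 : EL := (EL.cons 14 (TM.mk (P.cons (P.lf 0 2817545288 0) (P.cons (P.lf 873749792 0 0) (P.cons (P.lf 31196456 0 0) (P.cons (P.lf 0 2657376 0) (P.cons (P.lf 0 182456 0) (P.cons (P.lf 6040 0 0) P.nil)))))) 1120)
 EL.nil)
noncomputable def S198_227_512_586_37 : EL := (EL.cons 14 (TM.mk (P.cons (P.cons (P.lf 0 262055142 0) (P.cons (P.lf 242074078 0 0) (P.cons (P.lf 0 3852926 0) (P.lf 0 1284308 0)))) (P.cons (P.cons (P.lf 158135064 0 0) (P.cons (P.lf 0 40076520 0) (P.cons (P.lf 637870 0 0) (P.lf 212622 0 0)))) (P.cons (P.cons (P.lf 30962726 0 0) (P.cons (P.lf 0 16865418 0) (P.cons (P.lf 268432 0 0) (P.lf 89476 0 0)))) (P.cons (P.cons (P.lf 0 19754218 0) (P.cons (P.lf 165920 0 0) (P.cons (P.lf 0 2640 0) P.nil))) (P.cons (P.cons (P.lf 0 575090 0) (P.cons (P.lf 317678 0 0) P.nil)) (P.cons (P.cons (P.lf 349398 0 0) P.nil) P.nil))))))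 80788)
 EL.nil)
noncomputable def S198_227_512_586_38 : EL := (EL.cons 14 (TM.mk (P.cons (P.cons (P.lf 0 24373306 0) (P.cons (P.lf 45029804 0 0) (P.cons (P.lf 0 21514904 0) (P.cons (P.lf 423156 0 0) (P.cons (P.lf 215418 0 0) (P.cons (P.lf 0 3512 0) P.nil)))))) (P.cons (P.cons (P.lf 21857338 0 0) (P.cons (P.lf 0 20663566 0) (P.cons (P.lf 765634 0 0) (P.cons (P.lf 95724 0 0) (P.cons (P.lf 0 4522 0) P.nil))))) (P.cons (P.cons (P.lf 3392550 0 0) (P.cons (P.lf 0 9868482 0) (P.cons (P.lf 2390222 0 0) (P.cons (P.lf 0 18730 0) P.nil)))) (P.cons (P.cons (P.lf 0 5833124 0) (P.cons (P.lf 2867686 0 0) (P.cons (P.lf 163036 0 0) P.nil))) (P.cons (P.cons (P.lf 0 20202 0) (P.cons (P.lf 744606 0 0) P.nil)) (P.cons (P.cons (P.lf 488196 0 0) P.nil) P.nil)))))) 557422)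
 EL.nil)
noncomputable def S198_227_512_586_39 : EL := (EL.cons 14 (TM.mk (P.cons (P.lf 924170186 0 0) (P.cons (P.lf 0 573189372 0) (P.cons (P.lf 68410746 0 0) (P.cons (P.lf 8089740 0 0) (P.cons (P.lf 0 307614 0) (P.cons (P.lf 0 60382 0) P.nil)))))) 4526)
 EL.nil)
noncomputable def S198_227_512_586_40 : EL := (EL.cons 14 (TM.mk (P.cons (P.cons (P.lf 85955512 0 0) (P.cons (P.lf 0 79401614 0) (P.cons (P.lf 1263780 0 0) (P.lf 421260 0 0)))) (P.cons (P.cons (P.lf 0 78524850 0) (P.cons (P.lf 37768574 0 0) (P.cons (P.lf 0 601136 0) (P.lf 0 200378 0)))) (P.cons (P.cons (P.lf 4977500 0 0) (P.cons (P.lf 2334602 0 0) (P.cons (P.lf 0 37156 0) (P.lf 0 12384 0)))) (P.cons (P.cons (P.lf 10284328 0 0) (P.cons (P.lf 0 1990372 0) (P.cons (P.lf 31678 0 0) P.nil))) (P.cons (P.cons (P.lf 0 1751628 0) (P.cons (P.lf 0 141316 0) P.nil)) (P.cons (P.cons (P.lf 0 257964 0) P.nil) P.nil))))))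 114934)
 EL.nil)
noncomputable def S198_227_512_586_41 : EL := (EL.cons 14 (TM.mk (P.cons (P.cons (P.lf 7994576 0 0) (P.cons (P.lf 0 14770020 0) (P.cons (P.lf 7057004 0 0) (P.cons (P.lf 0 138798 0) (P.cons (P.lf 0 70658 0) (P.cons (P.lf 1152 0 0) P.nil)))))) (P.cons (P.cons (P.lf 0 9648526 0) (P.cons (P.lf 11358096 0 0) (P.cons (P.lf 0 2439582 0) (P.cons (P.lf 11644 0 0) (P.cons (P.lf 23394 0 0) P.nil))))) (P.cons (P.cons (P.lf 1021988 0 0) (P.cons (P.lf 1298598 0 0) (P.cons (P.lf 0 784262 0) (P.cons (P.lf 17416 0 0) P.nil)))) (P.cons (P.cons (P.lf 2345300 0 0) (P.cons (P.lf 0 2033392 0) (P.cons (P.lf 199086 0 0) P.nil))) (P.cons (P.cons (P.lf 0 580628 0) (P.cons (P.lf 17056 0 0) P.nil)) (P.cons (P.cons (P.lf 0 184900 0) P.nil) P.nil)))))) 431978)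
 EL.nil)
noncomputable def S198_227_512_586_42 : EL := (EL.cons 14 (TM.mk (P.cons (P.lf 0 303132848 0) (P.cons (P.lf 282013848 0 0) (P.cons (P.lf 0 77386344 0) (P.cons (P.lf 1937536 0 0) (P.cons (P.lf 1329912 0 0) (P.cons (P.lf 9556 0 0) P.nil)))))) 14366)
 EL.nil)
noncomputable def S198_227_512_586_43 : EL := (EL.cons 14 (TM.mk (P.cons (P.cons (P.lf 0 28193874 0) (P.cons (P.lf 26044160 0 0) (P.cons (P.lf 0 414526 0) (P.lf 0 138174 0)))) (P.cons (P.cons (P.lf 34499788 0 0) (P.cons (P.lf 0 20464860 0) (P.cons (P.lf 325724 0 0) (P.lf 108574 0 0)))) (P.cons (P.cons (P.lf 0 9307858 0) (P.cons (P.lf 2787608 0 0) (P.cons (P.lf 0 44368 0) (P.lf 0 14788 0)))) (P.cons (P.cons (P.lf 0 3178788 0) (P.cons (P.lf 1052052 0 0) (P.cons (P.lf 0 16744 0) P.nil))) (P.cons (P.cons (P.lf 1661186 0 0) (P.cons (P.lf 0 157622 0) P.nil)) (P.cons (P.cons (P.lf 0 56018 0) P.nil) P.nil)))))) 119236)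
 EL.nil)
noncomputable def S198_227_512_586_44 : EL := (EL.cons 14 (TM.mk (P.cons (P.cons (P.lf 0 2622264 0) (P.cons (P.lf 4844646 0 0) (P.cons (P.lf 0 2314736 0) (P.cons (P.lf 45526 0 0) (P.cons (P.lf 23176 0 0) (P.cons (P.lf 0 376 0) P.nil)))))) (P.cons (P.cons (P.lf 3977960 0 0) (P.cons (P.lf 0 5227892 0) (P.cons (P.lf 1518018 0 0) (P.cons (P.lf 0 17936 0) (P.cons (P.lf 0 14860 0) P.nil))))) (P.cons (P.cons (P.lf 0 1287610 0) (P.cons (P.lf 675732 0 0) (P.cons (P.lf 34722 0 0) (P.cons (P.lf 0 5032 0) P.nil)))) (P.cons (P.cons (P.lf 0 702830 0) (P.cons (P.lf 844872 0 0) (P.cons (P.lf 0 156118 0) P.nil))) (P.cons (P.cons (P.lf 435534 0 0) (P.cons (P.lf 0 210910 0) P.nil)) (P.cons (P.cons (P.lf 10000 0 0) P.nil) P.nil)))))) 265754)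
 EL.nil)
noncomputable def S198_227_512_586_45 : EL := (EL.cons 14 (TM.mk (P.cons (P.cons (P.lf 6911226 0 0) (P.cons (P.lf 0 19152790 0) (P.cons (P.lf 17997278 0 0) (P.cons (P.lf 0 5909392 0) (P.cons (P.lf 76876 0 0) (P.cons (P.lf 85556 0 0) P.nil)))))) (P.cons (P.cons (P.lf 0 6081844 0) (P.cons (P.lf 8467596 0 0) (P.cons (P.lf 0 209446 0) (P.cons (P.lf 0 2405080 0) (P.cons (P.lf 113580 0 0) P.nil))))) (P.cons (P.cons (P.lf 0 2322234 0) (P.cons (P.lf 7826306 0 0) (P.cons (P.lf 0 5246450 0) (P.cons (P.lf 5054 0 0) P.nil)))) (P.cons (P.cons (P.lf 2437206 0 0) (P.cons (P.lf 0 1839962 0) (P.cons (P.lf 0 950340 0) P.nil))) (P.cons (P.cons (P.lf 408290 0 0) (P.cons (P.lf 0 1257126 0) P.nil)) (P.cons (P.cons (P.lf 0 341074 0) P.nil) P.nil)))))) 1085988)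
 EL.nil)
noncomputable def S198_227_512_586_46 : EL := (EL.cons 15 (TM.mk (P.lf 4294967296 0 0) 0)
 EL.nil)
noncomputable def S198_227_512_586_47 : EL := (EL.cons 15 (TM.mk (P.cons (P.cons (P.lf 399467677 0 0) (P.cons (P.lf 0 369009244 0) (P.cons (P.lf 5873268 0 0) (P.lf 1957756 0 0)))) (P.cons (P.cons (P.lf 0 117176513 0) (P.cons (P.lf 0 53342320 0) (P.cons (P.lf 849012 0 0) (P.lf 283004 0 0)))) (P.cons (P.cons (P.lf 0 79113147 0) (P.cons (P.lf 5081304 0 0) (P.cons (P.lf 0 80872 0) (P.lf 0 26956 0)))) (P.cons (P.cons (P.lf 3904676 0 0) (P.cons (P.lf 1080256 0 0) (P.cons (P.lf 0 17192 0) P.nil))) (P.cons (P.cons (P.lf 1296219 0 0) (P.cons (P.lf 0 18792 0) P.nil)) (P.cons (P.cons (P.lf 0 4346 0) P.nil) P.nil)))))) 34553)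
 EL.nil)
noncomputable def S198_227_512_586_48 : EL := (EL.cons 15 (TM.mk (P.cons (P.cons (P.lf 37153816 0 0) (P.cons (P.lf 0 68641857 0) (P.cons (P.lf 32796567 0 0) (P.cons (P.lf 0 645047 0) (P.cons (P.lf 0 328376 0) (P.cons (P.lf 5354 0 0) P.nil)))))) (P.cons (P.cons (P.lf 0 21796780 0) (P.cons (P.lf 10212270 0 0) (P.cons (P.lf 9003445 0 0) (P.cons (P.lf 0 345957 0) (P.cons (P.lf 0 94937 0) P.nil))))) (P.cons (P.cons (P.lf 0 11519518 0) (P.cons (P.lf 17450082 0 0) (P.cons (P.lf 0 488380 0) (P.cons (P.lf 0 85875 0) P.nil)))) (P.cons (P.cons (P.lf 5043109 0 0) (P.cons (P.lf 1217860 0 0) (P.cons (P.lf 0 331224 0) P.nil))) (P.cons (P.cons (P.lf 1485322 0 0) (P.cons (P.lf 0 569357 0) P.nil)) (P.cons (P.cons (P.lf 0 215384 0) P.nil) P.nil)))))) 262451)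
 EL.nil)
noncomputable def S198_227_512_586 : SL := (SL.cons S198_227_512_586_0 (SL.cons S198_227_512_586_1 (SL.cons S198_227_512_586_2 (SL.cons S198_227_512_586_3 (SL.cons S198_227_512_586_4 (SL.cons S198_227_512_586_5 (SL.cons S198_227_512_586_6 (SL.cons S198_227_512_586_7 (SL.cons S198_227_512_586_8 (SL.cons S198_227_512_586_9 (SL.cons S198_227_512_586_10 (SL.cons S198_227_512_586_11 (SL.cons S198_227_512_586_12 (SL.cons S198_227_512_586_13 (SL.cons S198_227_512_586_14 (SL.cons S198_227_512_586_15 (SL.cons S198_227_512_586_16 (SL.cons S198_227_512_586_17 (SL.cons S198_227_512_586_18 (SL.cons S198_227_512_586_19 (SL.cons S198_227_512_586_20 (SL.cons S198_227_512_586_21 (SL.cons S198_227_512_586_22 (SL.cons S198_227_512_586_23 (SL.cons S198_227_512_586_24 (SL.cons S198_227_512_586_25 (SL.cons S198_227_512_586_26 (SL.cons S198_227_512_586_27 (SL.cons S198_227_512_586_28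 (SL.cons S198_227_512_586_29 (SL.cons S198_227_512_586_30 (SL.cons S198_227_512_586_31 (SL.cons S198_227_512_586_32 (SL.cons S198_227_512_586_33 (SL.cons S198_227_512_586_34 (SL.cons S198_227_512_586_35 (SL.cons S198_227_512_586_36 (SL.cons S198_227_512_586_37 (SL.cons S198_227_512_586_38 (SL.cons S198_227_512_586_39 (SL.cons S198_227_512_586_40 (SL.cons S198_227_512_586_41 (SL.cons S198_227_512_586_42 (SL.cons S198_227_512_586_43 (SL.cons S198_227_512_586_44 (SL.cons S198_227_512_586_45 (SL.cons S198_227_512_586_46 (SL.cons S198_227_512_586_47 (SL.cons S198_227_512_586_48 SL.nil)))))))))))))))))))))))))))))))))))))))))))))))))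
noncomputable def S198_227_512_660_0 : EL := (EL.cons 0 (TM.mk (P.cons (P.lf 7643457911 0 0) (P.cons (P.lf 503779721 0 0) (P.cons (P.lf 0 60126632 0) (P.cons (P.lf 0 7110123 0) (P.cons (P.lf 270363 0 0) (P.cons (P.lf 53070 0 0) P.nil)))))) 3984)
 (EL.cons 1 (TM.mk (P.cons (P.lf 0 1228710643 0) (P.cons (P.lf 321830180 0 0) (P.cons (P.lf 40457490 0 0) (P.cons (P.lf 0 2710608 0) (P.cons (P.lf 0 384633 0) (P.cons (P.lf 7027 0 0) P.nil)))))) 2881)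
 (EL.cons 5 (TM.mk (P.cons (P.lf 4583770480 0 0) (P.cons (P.lf 0 179121676 0) (P.cons (P.lf 21378358 0 0) (P.cons (P.lf 2528040 0 0) (P.cons (P.lf 0 96128 0) (P.cons (P.lf 0 18870 0) P.nil)))))) 1697)
 (EL.cons 9 (TM.mk (P.lf 6442450944 0 0) 2)
 EL.nil))))
noncomputable def S198_227_512_660_1 : EL := (EL.cons 0 (TM.mk (P.cons (P.cons (P.lf 732956174 0 0) (P.cons (P.lf 0 851961194 0) (P.cons (P.lf 56960143 0 0) (P.lf 18986718 0 0)))) (P.cons (P.cons (P.lf 95446022 0 0) (P.cons (P.lf 0 452886472 0) (P.cons (P.lf 30278921 0 0) (P.lf 10092970 0 0)))) (P.cons (P.cons (P.lf 0 391992192 0) (P.cons (P.lf 3420928 0 0) (P.cons (P.lf 0 228723 0) (P.lf 0 76236 0)))) (P.cons (P.cons (P.lf 0 13027871 0) (P.cons (P.lf 17376975 0 0) (P.cons (P.lf 0 1161775 0) P.nil))) (P.cons (P.cons (P.lf 12762887 0 0) (P.cons (P.lf 875727 0 0) P.nil)) (P.cons (P.cons (P.lf 775629 0 0) P.nil) P.nil))))))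 1393462)
 (EL.cons 1 (TM.mk (P.cons (P.cons (P.lf 413750671 0 0) (P.cons (P.lf 455770639 0 0) (P.cons (P.lf 0 30471752 0) (P.lf 0 10157251 0)))) (P.cons (P.cons (P.lf 510163129 0 0) (P.cons (P.lf 0 19914581 0) (P.cons (P.lf 1331442 0 0) (P.lf 443816 0 0)))) (P.cons (P.cons (P.lf 35586339 0 0) (P.cons (P.lf 0 49724666 0) (P.cons (P.lf 3324465 0 0) (P.lf 1108148 0 0)))) (P.cons (P.cons (P.lf 0 40441859 0) (P.cons (P.lf 0 2233147 0) (P.cons (P.lf 149301 0 0) P.nil))) (P.cons (P.cons (P.lf 0 2551880 0) (P.cons (P.lf 1266845 0 0) P.nil)) (P.cons (P.cons (P.lf 889993 0 0) P.nil) P.nil)))))) 682819)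
 (EL.cons 5 (TM.mk (P.cons (P.cons (P.lf 0 195514560 0) (P.cons (P.lf 0 891804552 0) (P.cons (P.lf 59623980 0 0) (P.lf 19874660 0 0)))) (P.cons (P.cons (P.lf 0 321893955 0) (P.cons (P.lf 0 11677656 0) (P.cons (P.lf 780744 0 0) (P.lf 260254 0 0)))) (P.cons (P.cons (P.lf 13337557 0 0) (P.cons (P.lf 15235180 0 0) (P.cons (P.lf 0 1018582 0) (P.lf 0 339528 0)))) (P.cons (P.cons (P.lf 13067560 0 0) (P.cons (P.lf 0 2680970 0) (P.cons (P.lf 179236 0 0) P.nil))) (P.cons (P.cons (P.lf 0 2365603 0) (P.cons (P.lf 0 372214 0) P.nil)) (P.cons (P.cons (P.lf 0 301345 0) P.nil) P.nil)))))) 695876)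
 (EL.cons 9 (TM.mk (P.cons (P.cons (P.lf 57434185 0 0) (P.cons (P.lf 0 1054168308 0) (P.cons (P.lf 70479234 0 0) (P.lf 23493078 0 0)))) (P.cons (P.cons (P.lf 0 254080225 0) (P.cons (P.lf 0 152385840 0) (P.cons (P.lf 10188156 0 0) (P.lf 3396048 0 0)))) (P.cons (P.cons (P.lf 0 111209506 0) (P.cons (P.lf 14516034 0 0) (P.cons (P.lf 0 970506 0) (P.lf 0 323496 0)))) (P.cons (P.cons (P.lf 7443018 0 0) (P.cons (P.lf 3086028 0 0) (P.cons (P.lf 0 206322 0) P.nil))) (P.cons (P.cons (P.lf 1916740 0 0) (P.cons (P.lf 0 53688 0) P.nil)) (P.cons (P.cons (P.lf 0 22563 0) P.nil) P.nil)))))) 153092)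
 (EL.cons 2 (TM.mk (P.cons (P.cons (P.lf 795210173 0 0) (P.cons (P.lf 0 123118503 0) (P.cons (P.lf 0 59314609 0) (P.cons (P.lf 2244636 0 0) (P.lf 561158 0 0))))) (P.cons (P.cons (P.lf 0 169968180 0) (P.cons (P.lf 26315341 0 0) (P.cons (P.lf 12677900 0 0) (P.cons (P.lf 0 479767 0) (P.lf 0 119941 0))))) (P.cons (P.cons (P.lf 0 41716364 0) (P.cons (P.lf 6458737 0 0) (P.cons (P.lf 3111615 0 0) (P.cons (P.lf 0 117750 0) P.nil)))) (P.cons (P.cons (P.lf 1656303 0 0) (P.cons (P.lf 0 256438 0) (P.cons (P.lf 0 123541 0) P.nil))) (P.cons (P.cons (P.lf 601579 0 0) (P.cons (P.lf 0 93138 0) P.nil)) (P.cons (P.cons (P.lf 1923 0 0) P.nil) P.nil)))))) 114956)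
 (EL.cons 6 (TM.mk (P.cons (P.cons (P.lf 1202920818 0 0) (P.cons (P.lf 0 186242349 0) (P.cons (P.lf 0 89725689 0) (P.cons (P.lf 3395481 0 0) (P.lf 848868 0 0))))) (P.cons (P.cons (P.lf 173888838 0 0) (P.cons (P.lf 0 26922357 0) (P.cons (P.lf 0 12970341 0) (P.cons (P.lf 490833 0 0) (P.lf 122706 0 0))))) (P.cons (P.cons (P.lf 0 16564380 0) (P.cons (P.lf 2564580 0 0) (P.cons (P.lf 1235532 0 0) (P.cons (P.lf 0 46755 0) P.nil)))) (P.cons (P.cons (P.lf 0 3521499 0) (P.cons (P.lf 545214 0 0) (P.cons (P.lf 262665 0 0) P.nil))) (P.cons (P.cons (P.lf 61266 0 0) (P.cons (P.lf 0 9483 0) P.nil)) (P.cons (P.cons (P.lf 35622 0 0) P.nil) P.nil)))))) 68205)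
 EL.nil))))))
noncomputable def S198_227_512_660_2 : EL := (EL.cons 0 (TM.mk (P.cons (P.cons (P.lf 12461071 0 0) (P.cons (P.lf 0 232755718 0) (P.cons (P.lf 89723675 0 0) (P.cons (P.lf 0 4729456 0) (P.cons (P.lf 0 2974046 0) (P.cons (P.lf 221008 0 0) P.nil)))))) (P.cons (P.cons (P.lf 0 50776778 0) (P.cons (P.lf 0 100741064 0) (P.cons (P.lf 122594754 0 0) (P.cons (P.lf 0 13247076 0) (P.cons (P.lf 0 4646168 0) P.nil))))) (P.cons (P.cons (P.lf 0 48999260 0) (P.cons (P.lf 128055037 0 0) (P.cons (P.lf 6974260 0 0) (P.cons (P.lf 0 4931170 0) P.nil)))) (P.cons (P.cons (P.lf 17850430 0 0) (P.cons (P.lf 32511698 0 0) (P.cons (P.lf 0 8120972 0) P.nil))) (P.cons (P.cons (P.lf 13197044 0 0) (P.cons (P.lf 0 5819619 0) P.nil)) (P.cons (P.cons (P.lf 0 927174 0) P.nil) P.nil)))))) 11163059)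
 (EL.cons 1 (TM.mk (P.cons (P.cons (P.lf 7474795 0 0) (P.cons (P.lf 0 130861157 0) (P.cons (P.lf 0 107507182 0) (P.cons (P.lf 18461594 0 0) (P.cons (P.lf 4662082 0 0) (P.cons (P.lf 0 346431 0) P.nil)))))) (P.cons (P.cons (P.lf 0 24428779 0) (P.cons (P.lf 0 206553371 0) (P.cons (P.lf 0 339832 0) (P.cons (P.lf 6495223 0 0) (P.cons (P.lf 567413 0 0) P.nil))))) (P.cons (P.cons (P.lf 0 52133849 0) (P.cons (P.lf 0 43583387 0) (P.cons (P.lf 18389588 0 0) (P.cons (P.lf 0 1098044 0) P.nil)))) (P.cons (P.cons (P.lf 0 18859407 0) (P.cons (P.lf 17256231 0 0) (P.cons (P.lf 1769379 0 0) P.nil))) (P.cons (P.cons (P.lf 3104332 0 0) (P.cons (P.lf 4842526 0 0) P.nil)) (P.cons (P.cons (P.lf 1797250 0 0) P.nil) P.nil)))))) 5514627)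
 (EL.cons 5 (TM.mk (P.cons (P.cons (P.lf 0 3850302 0) (P.cons (P.lf 61455752 0 0) (P.cons (P.lf 165013289 0 0) (P.cons (P.lf 0 23983808 0) (P.cons (P.lf 0 6782099 0) (P.cons (P.lf 503974 0 0) P.nil)))))) (P.cons (P.cons (P.lf 12919700 0 0) (P.cons (P.lf 126975852 0 0) (P.cons (P.lf 6834797 0 0) (P.cons (P.lf 0 4878839 0) (P.cons (P.lf 0 614540 0) P.nil))))) (P.cons (P.cons (P.lf 26531320 0 0) (P.cons (P.lf 9631639 0 0) (P.cons (P.lf 0 7466590 0) (P.cons (P.lf 697630 0 0) P.nil)))) (P.cons (P.cons (P.lf 3745033 0 0) (P.cons (P.lf 0 9593117 0) (P.cons (P.lf 833110 0 0) P.nil))) (P.cons (P.cons (P.lf 0 3143252 0) (P.cons (P.lf 114313 0 0) P.nil)) (P.cons (P.cons (P.lf 0 133376 0) P.nil) P.nil)))))) 5703150)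
 (EL.cons 9 (TM.mk (P.cons (P.cons (P.lf 512022 0 0) (P.cons (P.lf 0 18795733 0) (P.cons (P.lf 173748571 0 0) (P.cons (P.lf 0 22645936 0) (P.cons (P.lf 0 6917241 0) (P.cons (P.lf 514018 0 0) P.nil)))))) (P.cons (P.cons (P.lf 0 4530229 0) (P.cons (P.lf 80432482 0 0) (P.cons (P.lf 44491791 0 0) (P.cons (P.lf 0 8460799 0) (P.cons (P.lf 0 1999848 0) P.nil))))) (P.cons (P.cons (P.lf 8037670 0 0) (P.cons (P.lf 48672619 0 0) (P.cons (P.lf 0 4400166 0) (P.cons (P.lf 0 931470 0) P.nil)))) (P.cons (P.cons (P.lf 8904567 0 0) (P.cons (P.lf 1735228 0 0) (P.cons (P.lf 0 1812643 0) P.nil))) (P.cons (P.cons (P.lf 1366789 0 0) (P.cons (P.lf 0 1724896 0) P.nil)) (P.cons (P.cons (P.lf 0 408550 0) P.nil) P.nil)))))) 2032934)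
 (EL.cons 2 (TM.mk (P.cons (P.cons (P.lf 14178526 0 0) (P.cons (P.lf 0 262433216 0) (P.cons (P.lf 56632708 0 0) (P.cons (P.lf 22556981 0 0) (P.cons (P.lf 0 2920275 0) (P.cons (P.lf 0 567123 0) P.nil)))))) (P.cons (P.cons (P.lf 0 65754213 0) (P.cons (P.lf 28184821 0 0) (P.cons (P.lf 913325 0 0) (P.cons (P.lf 0 1743423 0) (P.cons (P.lf 156324 0 0) P.nil))))) (P.cons (P.cons (P.lf 0 14791050 0) (P.cons (P.lf 27566150 0 0) (P.cons (P.lf 0 4500016 0) (P.cons (P.lf 0 2228748 0) P.nil)))) (P.cons (P.cons (P.lf 11025388 0 0) (P.cons (P.lf 0 279680 0) (P.cons (P.lf 0 1138792 0) P.nil))) (P.cons (P.cons (P.lf 1400737 0 0) (P.cons (P.lf 0 856170 0) P.nil)) (P.cons (P.cons (P.lf 0 307693 0) P.nil) P.nil)))))) 1670821)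
 (EL.cons 6 (TM.mk (P.cons (P.cons (P.lf 21447972 0 0) (P.cons (P.lf 0 396984840 0) (P.cons (P.lf 85668762 0 0) (P.cons (P.lf 34122132 0 0) (P.cons (P.lf 0 4417530 0) (P.cons (P.lf 0 857892 0) P.nil)))))) (P.cons (P.cons (P.lf 0 91782216 0) (P.cons (P.lf 0 99602454 0) (P.cons (P.lf 32076318 0 0) (P.cons (P.lf 9588504 0 0) (P.cons (P.lf 0 1346298 0) P.nil))))) (P.cons (P.cons (P.lf 0 55540758 0) (P.cons (P.lf 11214594 0 0) (P.cons (P.lf 3562962 0 0) (P.cons (P.lf 0 383070 0) P.nil)))) (P.cons (P.cons (P.lf 0 1980084 0) (P.cons (P.lf 4178646 0 0) (P.cons (P.lf 0 710676 0) P.nil))) (P.cons (P.cons (P.lf 1968288 0 0) (P.cons (P.lf 0 86298 0) P.nil)) (P.cons (P.cons (P.lf 174144 0 0) P.nil) P.nil)))))) 1736592)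
 EL.nil))))))
noncomputable def S198_227_512_660_3 : EL := (EL.cons 0 (TM.mk (P.cons (P.lf 812258952 0 0) (P.cons (P.lf 0 503779721 0) (P.cons (P.lf 60126632 0 0) (P.cons (P.lf 7110123 0 0) (P.cons (P.lf 0 270363 0) (P.cons (P.lf 0 53070 0) P.nil)))))) 3984)
 (EL.cons 1 (TM.mk (P.cons (P.lf 1228710643 0 0) (P.cons (P.lf 0 321830180 0) (P.cons (P.lf 0 40457490 0) (P.cons (P.lf 2710608 0 0) (P.cons (P.lf 384633 0 0) (P.cons (P.lf 0 7027 0) P.nil)))))) 2881)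
 (EL.cons 5 (TM.mk (P.cons (P.lf 1858680464 0 0) (P.cons (P.lf 179121676 0 0) (P.cons (P.lf 0 21378358 0) (P.cons (P.lf 0 2528040 0) (P.cons (P.lf 96128 0 0) (P.cons (P.lf 18870 0 0) P.nil)))))) 1690)
 EL.nil)))
noncomputable def S198_227_512_660_4 : EL := (EL.cons 0 (TM.mk (P.cons (P.cons (P.lf 7241254 0 0) (P.cons (P.lf 0 132908677 0) (P.cons (P.lf 8885963 0 0) (P.lf 2961987 0 0)))) (P.cons (P.cons (P.lf 0 36525401 0) (P.cons (P.lf 63220014 0 0) (P.cons (P.lf 0 4226742 0) (P.lf 0 1408914 0)))) (P.cons (P.cons (P.lf 6383109 0 0) (P.cons (P.lf 3907842 0 0) (P.cons (P.lf 0 261267 0) (P.lf 0 87087 0)))) (P.cons (P.cons (P.lf 7326733 0 0) (P.cons (P.lf 0 3331641 0) (P.cons (P.lf 222744 0 0) P.nil))) (P.cons (P.cons (P.lf 0 1661087 0) (P.cons (P.lf 0 236548 0) P.nil)) (P.cons (P.cons (P.lf 0 195808 0) P.nil) P.nil)))))) 277765)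
 (EL.cons 1 (TM.mk (P.cons (P.cons (P.lf 10953903 0 0) (P.cons (P.lf 0 201052025 0) (P.cons (P.lf 13441867 0 0) (P.lf 4480621 0 0)))) (P.cons (P.cons (P.lf 0 51327534 0) (P.cons (P.lf 23597396 0 0) (P.cons (P.lf 0 1577666 0) (P.lf 0 525888 0)))) (P.cons (P.cons (P.lf 0 8878181 0) (P.cons (P.lf 17000885 0 0) (P.cons (P.lf 0 1136636 0) (P.lf 0 378877 0)))) (P.cons (P.cons (P.lf 8594711 0 0) (P.cons (P.lf 376850 0 0) (P.cons (P.lf 0 25194 0) P.nil))) (P.cons (P.cons (P.lf 588652 0 0) (P.cons (P.lf 0 382610 0) P.nil)) (P.cons (P.cons (P.lf 0 208815 0) P.nil) P.nil)))))) 186964)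
 (EL.cons 5 (TM.mk (P.cons (P.cons (P.lf 16570058 0 0) (P.cons (P.lf 0 304133016 0) (P.cons (P.lf 20333622 0 0) (P.lf 6777874 0 0)))) (P.cons (P.cons (P.lf 0 71706598 0) (P.cons (P.lf 0 73273506 0) (P.cons (P.lf 4898892 0 0) (P.lf 1632962 0 0)))) (P.cons (P.cons (P.lf 0 39339384 0) (P.cons (P.lf 3449222 0 0) (P.cons (P.lf 0 230606 0) (P.lf 0 76866 0)))) (P.cons (P.cons (P.lf 0 124054 0) (P.cons (P.lf 2213258 0 0) (P.cons (P.lf 0 147970 0) P.nil))) (P.cons (P.cons (P.lf 1229520 0 0) (P.cons (P.lf 66208 0 0) P.nil)) (P.cons (P.cons (P.lf 62098 0 0) P.nil) P.nil)))))) 139374)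
 EL.nil)))
noncomputable def S198_227_512_660_5 : EL := (EL.cons 0 (TM.mk (P.cons (P.cons (P.lf 64553 0 0) (P.cons (P.lf 0 2369749 0) (P.cons (P.lf 21906077 0 0) (P.cons (P.lf 0 2855179 0) (P.cons (P.lf 0 872119 0) (P.cons (P.lf 64807 0 0) P.nil)))))) (P.cons (P.cons (P.lf 0 611205 0) (P.cons (P.lf 11610629 0 0) (P.cons (P.lf 0 7977111 0) (P.cons (P.lf 704111 0 0) (P.cons (P.lf 288766 0 0) P.nil))))) (P.cons (P.cons (P.lf 1372410 0 0) (P.cons (P.lf 0 328383 0) (P.cons (P.lf 0 2412314 0) (P.cons (P.lf 332817 0 0) P.nil)))) (P.cons (P.cons (P.lf 452443 0 0) (P.cons (P.lf 0 2857347 0) (P.cons (P.lf 722533 0 0) P.nil))) (P.cons (P.cons (P.lf 0 453991 0) (P.cons (P.lf 190648 0 0) P.nil)) (P.cons (P.cons (P.lf 0 66225 0) P.nil) P.nil)))))) 1489622)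
 (EL.cons 1 (TM.mk (P.cons (P.cons (P.lf 97651 0 0) (P.cons (P.lf 0 3584739 0) (P.cons (P.lf 33137499 0 0) (P.cons (P.lf 0 4319053 0) (P.cons (P.lf 0 1319261 0) (P.cons (P.lf 98032 0 0) P.nil)))))) (P.cons (P.cons (P.lf 0 889586 0) (P.cons (P.lf 16279095 0 0) (P.cons (P.lf 0 194023 0) (P.cons (P.lf 0 482381 0) (P.cons (P.lf 0 35865 0) P.nil))))) (P.cons (P.cons (P.lf 1756040 0 0) (P.cons (P.lf 5382948 0 0) (P.cons (P.lf 0 4152885 0) (P.cons (P.lf 387215 0 0) P.nil)))) (P.cons (P.cons (P.lf 1325431 0 0) (P.cons (P.lf 0 2613485 0) (P.cons (P.lf 0 332195 0) P.nil))) (P.cons (P.cons (P.lf 0 236499 0) (P.cons (P.lf 0 688591 0) P.nil)) (P.cons (P.cons (P.lf 0 199003 0) P.nil) P.nil)))))) 1246345)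
 (EL.cons 5 (TM.mk (P.cons (P.cons (P.lf 147720 0 0) (P.cons (P.lf 0 5422666 0) (P.cons (P.lf 50127362 0 0) (P.cons (P.lf 0 6533468 0) (P.cons (P.lf 0 1995658 0) (P.cons (P.lf 148296 0 0) P.nil)))))) (P.cons (P.cons (P.lf 0 1292758 0) (P.cons (P.lf 22682602 0 0) (P.cons (P.lf 17666902 0 0) (P.cons (P.lf 0 3070616 0) (P.cons (P.lf 0 769288 0) P.nil))))) (P.cons (P.cons (P.lf 2191254 0 0) (P.cons (P.lf 16340964 0 0) (P.cons (P.lf 0 609008 0) (P.cons (P.lf 0 428824 0) P.nil)))) (P.cons (P.cons (P.lf 2807318 0 0) (P.cons (P.lf 1594354 0 0) (P.cons (P.lf 0 861114 0) P.nil))) (P.cons (P.cons (P.lf 617014 0 0) (P.cons (P.lf 0 642750 0) P.nil)) (P.cons (P.cons (P.lf 0 112634 0) P.nil) P.nil)))))) 1055068)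
 EL.nil)))
noncomputable def S198_227_512_660_6 : EL := (EL.cons 12 (TM.mk (P.lf 8589934592 0 0) 0)
 (EL.cons 3 (TM.mk (P.cons (P.lf 0 1320724353 0) (P.cons (P.lf 409570215 0 0) (P.cons (P.lf 14623338 0 0) (P.cons (P.lf 0 1245645 0) (P.cons (P.lf 0 85526 0) (P.cons (P.lf 2831 0 0) P.nil)))))) 532)
 (EL.cons 7 (TM.mk (P.cons (P.lf 0 1997870342 0) (P.cons (P.lf 0 96267727 0) (P.cons (P.lf 13808992 0 0) (P.cons (P.lf 693290 0 0) (P.cons (P.lf 0 37347 0) (P.cons (P.lf 0 3551 0) P.nil)))))) 296)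
 EL.nil)))
noncomputable def S198_227_512_660_7 : EL := (EL.cons 12 (TM.mk (P.cons (P.cons (P.lf 76578914 0 0) (P.cons (P.lf 0 1405557744 0) (P.cons (P.lf 93972312 0 0) (P.lf 31324104 0 0)))) (P.cons (P.cons (P.lf 0 338773634 0) (P.cons (P.lf 0 203181120 0) (P.cons (P.lf 13584208 0 0) (P.lf 4528064 0 0)))) (P.cons (P.cons (P.lf 0 148279342 0) (P.cons (P.lf 19354712 0 0) (P.cons (P.lf 0 1294008 0) (P.lf 0 431328 0)))) (P.cons (P.cons (P.lf 9924024 0 0) (P.cons (P.lf 4114704 0 0) (P.cons (P.lf 0 275096 0) P.nil))) (P.cons (P.cons (P.lf 2555654 0 0) (P.cons (P.lf 0 71584 0) P.nil)) (P.cons (P.cons (P.lf 0 30084 0) P.nil) P.nil)))))) 204098)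
 (EL.cons 3 (TM.mk (P.cons (P.cons (P.lf 0 1092756370 0) (P.cons (P.lf 0 432216176 0) (P.cons (P.lf 28896962 0 0) (P.lf 9632320 0 0)))) (P.cons (P.cons (P.lf 0 917524773 0) (P.cons (P.lf 71555452 0 0) (P.cons (P.lf 0 4784032 0) (P.lf 0 1594678 0)))) (P.cons (P.cons (P.lf 82650846 0 0) (P.cons (P.lf 30112712 0 0) (P.cons (P.lf 0 2013262 0) (P.lf 0 671084 0)))) (P.cons (P.cons (P.lf 29743522 0 0) (P.cons (P.lf 0 296244 0) (P.cons (P.lf 19804 0 0) P.nil))) (P.cons (P.cons (P.lf 0 184935 0) (P.cons (P.lf 0 567206 0) P.nil)) (P.cons (P.cons (P.lf 0 421460 0) P.nil) P.nil)))))) 493042)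
 (EL.cons 7 (TM.mk (P.cons (P.cons (P.lf 236269304 0 0) (P.cons (P.lf 479294290 0 0) (P.cons (P.lf 0 32044506 0) (P.lf 0 10681502 0)))) (P.cons (P.cons (P.lf 215660278 0 0) (P.cons (P.lf 0 16818801 0) (P.cons (P.lf 1124463 0 0) (P.lf 374819 0 0)))) (P.cons (P.cons (P.lf 0 58061776 0) (P.cons (P.lf 0 4064818 0) (P.cons (P.lf 271764 0 0) (P.lf 90590 0 0)))) (P.cons (P.cons (P.lf 0 1408737 0) (P.cons (P.lf 1686806 0 0) (P.cons (P.lf 0 112774 0) P.nil))) (P.cons (P.cons (P.lf 1696835 0 0) (P.cons (P.lf 75876 0 0) P.nil)) (P.cons (P.cons (P.lf 50069 0 0) P.nil) P.nil)))))) 420583)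
 (EL.cons 10 (TM.mk (P.cons (P.cons (P.lf 0 2586006444 0) (P.cons (P.lf 400378737 0 0) (P.cons (P.lf 192889848 0 0) (P.cons (P.lf 0 7299519 0) (P.lf 0 1824879 0))))) (P.cons (P.cons (P.lf 0 249214329 0) (P.cons (P.lf 38584635 0 0) (P.cons (P.lf 18588861 0 0) (P.cons (P.lf 0 703455 0) (P.lf 0 175863 0))))) (P.cons (P.cons (P.lf 29743989 0 0) (P.cons (P.lf 0 4605114 0) (P.cons (P.lf 0 2218599 0) (P.cons (P.lf 83958 0 0) P.nil)))) (P.cons (P.cons (P.lf 3517293 0 0) (P.cons (P.lf 0 544563 0) (P.cons (P.lf 0 262353 0) P.nil))) (P.cons (P.cons (P.lf 0 133743 0) (P.cons (P.lf 20706 0 0) P.nil)) (P.cons (P.cons (P.lf 0 26253 0) P.nil) P.nil)))))) 52971)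
 EL.nil))))
noncomputable def S198_227_512_660_8 : EL := (EL.cons 12 (TM.mk (P.cons (P.cons (P.lf 682696 0 0) (P.cons (P.lf 0 25060978 0) (P.cons (P.lf 231664762 0 0) (P.cons (P.lf 0 30194582 0) (P.cons (P.lf 0 9222988 0) (P.cons (P.lf 685358 0 0) P.nil)))))) (P.cons (P.cons (P.lf 0 6040306 0) (P.cons (P.lf 107243310 0 0) (P.cons (P.lf 59322388 0 0) (P.cons (P.lf 0 11281066 0) (P.cons (P.lf 0 2666464 0) P.nil))))) (P.cons (P.cons (P.lf 10716894 0 0) (P.cons (P.lf 64896826 0 0) (P.cons (P.lf 0 5866888 0) (P.cons (P.lf 0 1241960 0) P.nil)))) (P.cons (P.cons (P.lf 11872756 0 0) (P.cons (P.lf 2313638 0 0) (P.cons (P.lf 0 2416858 0) P.nil))) (P.cons (P.cons (P.lf 1822386 0 0) (P.cons (P.lf 0 2299862 0) P.nil)) (P.cons (P.cons (P.lf 0 544734 0) P.nil) P.nil)))))) 2710550)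
 (EL.cons 3 (TM.mk (P.cons (P.cons (P.lf 0 19378784 0) (P.cons (P.lf 346052502 0 0) (P.cons (P.lf 153670897 0 0) (P.cons (P.lf 0 31353913 0) (P.cons (P.lf 0 7090291 0) (P.cons (P.lf 526875 0 0) P.nil)))))) (P.cons (P.cons (P.lf 68872556 0 0) (P.cons (P.lf 405012663 0 0) (P.cons (P.lf 0 30791018 0) (P.cons (P.lf 0 8529603 0) (P.cons (P.lf 148891 0 0) P.nil))))) (P.cons (P.cons (P.lf 113506034 0 0) (P.cons (P.lf 26154709 0 0) (P.cons (P.lf 0 20732860 0) (P.cons (P.lf 1955595 0 0) P.nil)))) (P.cons (P.cons (P.lf 24487605 0 0) (P.cons (P.lf 0 27599629 0) (P.cons (P.lf 71237 0 0) P.nil))) (P.cons (P.cons (P.lf 0 8278096 0) (P.cons (P.lf 0 3512200 0) P.nil)) (P.cons (P.cons (P.lf 0 1556487 0) P.nil) P.nil)))))) 6681463)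
 (EL.cons 7 (TM.mk (P.cons (P.cons (P.lf 4371445 0 0) (P.cons (P.lf 0 74603734 0) (P.cons (P.lf 0 98373014 0) (P.cons (P.lf 15483541 0 0) (P.cons (P.lf 4144955 0 0) (P.cons (P.lf 0 308010 0) P.nil)))))) (P.cons (P.cons (P.lf 0 16188199 0) (P.cons (P.lf 0 95196491 0) (P.cons (P.lf 7237296 0 0) (P.cons (P.lf 2004848 0 0) (P.cons (P.lf 0 34991 0) P.nil))))) (P.cons (P.cons (P.lf 0 23779026 0) (P.cons (P.lf 10906677 0 0) (P.cons (P.lf 3576623 0 0) (P.cons (P.lf 0 818819 0) P.nil)))) (P.cons (P.cons (P.lf 546249 0 0) (P.cons (P.lf 7539776 0 0) (P.cons (P.lf 0 1149148 0) P.nil))) (P.cons (P.cons (P.lf 3324964 0 0) (P.cons (P.lf 0 914734 0) P.nil)) (P.cons (P.cons (P.lf 0 218049 0) P.nil) P.nil)))))) 3066349)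
 (EL.cons 10 (TM.mk (P.cons (P.cons (P.lf 0 46108278 0) (P.cons (P.lf 853427208 0 0) (P.cons (P.lf 0 184168374 0) (P.cons (P.lf 0 73354836 0) (P.cons (P.lf 9496686 0 0) (P.cons (P.lf 1844274 0 0) P.nil)))))) (P.cons (P.cons (P.lf 199532652 0 0) (P.cons (P.lf 173000112 0 0) (P.cons (P.lf 0 60082620 0) (P.cons (P.lf 0 17078490 0) (P.cons (P.lf 2436636 0 0) P.nil))))) (P.cons (P.cons (P.lf 109466802 0 0) (P.cons (P.lf 0 26546106 0) (P.cons (P.lf 0 6037422 0) (P.cons (P.lf 1139436 0 0) P.nil)))) (P.cons (P.cons (P.lf 345198 0 0) (P.cons (P.lf 0 6212118 0) (P.cons (P.lf 1339518 0 0) P.nil))) (P.cons (P.cons (P.lf 0 3421296 0) (P.cons (P.lf 345462 0 0) P.nil)) (P.cons (P.cons (P.lf 0 172800 0) P.nil) P.nil)))))) 2796108)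
 EL.nil))))
noncomputable def S198_227_512_660_9 : EL := (EL.cons 3 (TM.mk (P.cons (P.lf 0 1320724353 0) (P.cons (P.lf 409570215 0 0) (P.cons (P.lf 14623338 0 0) (P.cons (P.lf 0 1245645 0) (P.cons (P.lf 0 85526 0) (P.cons (P.lf 2831 0 0) P.nil)))))) 532)
 (EL.cons 7 (TM.mk (P.cons (P.lf 0 1997870342 0) (P.cons (P.lf 0 96267727 0) (P.cons (P.lf 13808992 0 0) (P.cons (P.lf 693290 0 0) (P.cons (P.lf 0 37347 0) (P.cons (P.lf 0 3551 0) P.nil)))))) 296)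
 EL.nil))
noncomputable def S198_227_512_660_10 : EL := (EL.cons 3 (TM.mk (P.cons (P.cons (P.lf 0 11774203 0) (P.cons (P.lf 216108088 0 0) (P.cons (P.lf 0 14448481 0) (P.lf 0 4816160 0)))) (P.cons (P.cons (P.lf 55738611 0 0) (P.cons (P.lf 0 35777726 0) (P.cons (P.lf 2392016 0 0) (P.lf 797339 0 0)))) (P.cons (P.cons (P.lf 6775881 0 0) (P.cons (P.lf 0 15056356 0) (P.cons (P.lf 1006631 0 0) (P.lf 335542 0 0)))) (P.cons (P.cons (P.lf 0 9183665 0) (P.cons (P.lf 148122 0 0) (P.cons (P.lf 0 9902 0) P.nil))) (P.cons (P.cons (P.lf 0 123822 0) (P.cons (P.lf 283603 0 0) P.nil)) (P.cons (P.cons (P.lf 168274 0 0) P.nil) P.nil)))))) 121587)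
 (EL.cons 7 (TM.mk (P.cons (P.cons (P.lf 0 17810932 0) (P.cons (P.lf 326908441 0 0) (P.cons (P.lf 0 21856335 0) (P.lf 0 7285445 0)))) (P.cons (P.cons (P.lf 77934670 0 0) (P.cons (P.lf 63008556 0 0) (P.cons (P.lf 0 4212603 0) (P.lf 0 1404199 0)))) (P.cons (P.cons (P.lf 38406968 0 0) (P.cons (P.lf 0 4484056 0) (P.cons (P.lf 299793 0 0) (P.lf 99929 0 0)))) (P.cons (P.cons (P.lf 0 1184808 0) (P.cons (P.lf 0 1613989 0) (P.cons (P.lf 107906 0 0) P.nil))) (P.cons (P.cons (P.lf 0 971665 0) (P.cons (P.lf 0 8637 0) P.nil)) (P.cons (P.cons (P.lf 0 16216 0) P.nil) P.nil)))))) 90960)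
 EL.nil))
noncomputable def S198_227_512_660_11 : EL := (EL.cons 3 (TM.mk (P.cons (P.cons (P.lf 0 104966 0) (P.cons (P.lf 3853188 0 0) (P.cons (P.lf 0 35619047 0) (P.cons (P.lf 4642493 0 0) (P.cons (P.lf 1418057 0 0) (P.cons (P.lf 0 105375 0) P.nil)))))) (P.cons (P.cons (P.lf 961262 0 0) (P.cons (P.lf 0 17683845 0) (P.cons (P.lf 1924864 0 0) (P.cons (P.lf 294807 0 0) (P.cons (P.lf 0 29777 0) P.nil))))) (P.cons (P.cons (P.lf 0 1934590 0) (P.cons (P.lf 0 4907327 0) (P.cons (P.lf 4124936 0 0) (P.cons (P.lf 0 398331 0) P.nil)))) (P.cons (P.cons (P.lf 0 1324863 0) (P.cons (P.lf 2924771 0 0) (P.cons (P.lf 159257 0 0) P.nil))) (P.cons (P.cons (P.lf 305012 0 0) (P.cons (P.lf 559100 0 0) P.nil)) (P.cons (P.cons (P.lf 189363 0 0) P.nil) P.nil)))))) 1125417)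
 (EL.cons 7 (TM.mk (P.cons (P.cons (P.lf 0 158783 0) (P.cons (P.lf 5828750 0 0) (P.cons (P.lf 0 53881220 0) (P.cons (P.lf 7022737 0 0) (P.cons (P.lf 2145107 0 0) (P.cons (P.lf 0 159402 0) P.nil)))))) (P.cons (P.cons (P.lf 1397219 0 0) (P.cons (P.lf 0 24662081 0) (P.cons (P.lf 0 16393638 0) (P.cons (P.lf 2962172 0 0) (P.cons (P.lf 723535 0 0) P.nil))))) (P.cons (P.cons (P.lf 0 2423772 0) (P.cons (P.lf 0 16336047 0) (P.cons (P.lf 1072127 0 0) (P.cons (P.lf 366745 0 0) P.nil)))) (P.cons (P.cons (P.lf 0 2891157 0) (P.cons (P.lf 0 1095034 0) (P.cons (P.lf 741932 0 0) P.nil))) (P.cons (P.cons (P.lf 0 540176 0) (P.cons (P.lf 622070 0 0) P.nil)) (P.cons (P.cons (P.lf 126249 0 0) P.nil) P.nil)))))) 860109)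
 EL.nil))
noncomputable def S198_227_512_660_12 : EL := (EL.cons 4 (TM.mk (P.cons (P.lf 1320724353 0 0) (P.cons (P.lf 0 409570215 0) (P.cons (P.lf 0 14623338 0) (P.cons (P.lf 1245645 0 0) (P.cons (P.lf 85526 0 0) (P.cons (P.lf 0 2831 0) P.nil)))))) 532)
 (EL.cons 8 (TM.mk (P.cons (P.lf 1997870342 0 0) (P.cons (P.lf 96267727 0 0) (P.cons (P.lf 0 13808992 0) (P.cons (P.lf 0 693290 0) (P.cons (P.lf 37347 0 0) (P.cons (P.lf 3551 0 0) P.nil)))))) 296)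
 EL.nil))
noncomputable def S198_227_512_660_13 : EL := (EL.cons 4 (TM.mk (P.cons (P.cons (P.lf 11774203 0 0) (P.cons (P.lf 0 216108088 0) (P.cons (P.lf 14448481 0 0) (P.lf 4816160 0 0)))) (P.cons (P.cons (P.lf 0 55738611 0) (P.cons (P.lf 35777726 0 0) (P.cons (P.lf 0 2392016 0) (P.lf 0 797339 0)))) (P.cons (P.cons (P.lf 0 6775881 0) (P.cons (P.lf 15056356 0 0) (P.cons (P.lf 0 1006631 0) (P.lf 0 335542 0)))) (P.cons (P.cons (P.lf 9183665 0 0) (P.cons (P.lf 0 148122 0) (P.cons (P.lf 9902 0 0) P.nil))) (P.cons (P.cons (P.lf 123822 0 0) (P.cons (P.lf 0 283603 0) P.nil)) (P.cons (P.cons (P.lf 0 168274 0) P.nil) P.nil)))))) 121587)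
 (EL.cons 8 (TM.mk (P.cons (P.cons (P.lf 17810932 0 0) (P.cons (P.lf 0 326908441 0) (P.cons (P.lf 21856335 0 0) (P.lf 7285445 0 0)))) (P.cons (P.cons (P.lf 0 77934670 0) (P.cons (P.lf 0 63008556 0) (P.cons (P.lf 4212603 0 0) (P.lf 1404199 0 0)))) (P.cons (P.cons (P.lf 0 38406968 0) (P.cons (P.lf 4484056 0 0) (P.cons (P.lf 0 299793 0) (P.lf 0 99929 0)))) (P.cons (P.cons (P.lf 1184808 0 0) (P.cons (P.lf 1613989 0 0) (P.cons (P.lf 0 107906 0) P.nil))) (P.cons (P.cons (P.lf 971665 0 0) (P.cons (P.lf 8637 0 0) P.nil)) (P.cons (P.cons (P.lf 16216 0 0) P.nil) P.nil)))))) 90960)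
 EL.nil))
noncomputable def S198_227_512_660_14 : EL := (EL.cons 4 (TM.mk (P.cons (P.cons (P.lf 104966 0 0) (P.cons (P.lf 0 3853188 0) (P.cons (P.lf 35619047 0 0) (P.cons (P.lf 0 4642493 0) (P.cons (P.lf 0 1418057 0) (P.cons (P.lf 105375 0 0) P.nil)))))) (P.cons (P.cons (P.lf 0 961262 0) (P.cons (P.lf 17683845 0 0) (P.cons (P.lf 0 1924864 0) (P.cons (P.lf 0 294807 0) (P.cons (P.lf 29777 0 0) P.nil))))) (P.cons (P.cons (P.lf 1934590 0 0) (P.cons (P.lf 4907327 0 0) (P.cons (P.lf 0 4124936 0) (P.cons (P.lf 398331 0 0) P.nil)))) (P.cons (P.cons (P.lf 1324863 0 0) (P.cons (P.lf 0 2924771 0) (P.cons (P.lf 0 159257 0) P.nil))) (P.cons (P.cons (P.lf 0 305012 0) (P.cons (P.lf 0 559100 0) P.nil)) (P.cons (P.cons (P.lf 0 189363 0) P.nil) P.nil)))))) 1125417)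
 (EL.cons 8 (TM.mk (P.cons (P.cons (P.lf 158783 0 0) (P.cons (P.lf 0 5828750 0) (P.cons (P.lf 53881220 0 0) (P.cons (P.lf 0 7022737 0) (P.cons (P.lf 0 2145107 0) (P.cons (P.lf 159402 0 0) P.nil)))))) (P.cons (P.cons (P.lf 0 1397219 0) (P.cons (P.lf 24662081 0 0) (P.cons (P.lf 16393638 0 0) (P.cons (P.lf 0 2962172 0) (P.cons (P.lf 0 723535 0) P.nil))))) (P.cons (P.cons (P.lf 2423772 0 0) (P.cons (P.lf 16336047 0 0) (P.cons (P.lf 0 1072127 0) (P.cons (P.lf 0 366745 0) P.nil)))) (P.cons (P.cons (P.lf 2891157 0 0) (P.cons (P.lf 1095034 0 0) (P.cons (P.lf 0 741932 0) P.nil))) (P.cons (P.cons (P.lf 540176 0 0) (P.cons (P.lf 0 622070 0) P.nil)) (P.cons (P.cons (P.lf 0 126249 0) P.nil) P.nil)))))) 860109)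
 EL.nil))
noncomputable def S198_227_512_660_15 : EL := (EL.cons 4 (TM.mk (P.cons (P.lf 0 433204774 0) (P.cons (P.lf 268682518 0 0) (P.cons (P.lf 0 32067537 0) (P.cons (P.lf 0 3792065 0) (P.cons (P.lf 144194 0 0) (P.cons (P.lf 28304 0 0) P.nil)))))) 2128)
 (EL.cons 8 (TM.mk (P.cons (P.lf 0 655312343 0) (P.cons (P.lf 171642763 0 0) (P.cons (P.lf 21577328 0 0) (P.cons (P.lf 0 1445658 0) (P.cons (P.lf 0 205138 0) (P.cons (P.lf 3748 0 0) P.nil)))))) 1533)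
 EL.nil))
noncomputable def S198_227_512_660_16 : EL := (EL.cons 4 (TM.mk (P.cons (P.cons (P.lf 0 3862002 0) (P.cons (P.lf 70884628 0 0) (P.cons (P.lf 0 4739180 0) (P.lf 0 1579726 0)))) (P.cons (P.cons (P.lf 19480214 0 0) (P.cons (P.lf 0 33717341 0) (P.cons (P.lf 2254262 0 0) (P.lf 751421 0 0)))) (P.cons (P.cons (P.lf 0 3404325 0) (P.cons (P.lf 0 2084182 0) (P.cons (P.lf 139342 0 0) (P.lf 46446 0 0)))) (P.cons (P.cons (P.lf 0 3907590 0) (P.cons (P.lf 1776875 0 0) (P.cons (P.lf 0 118797 0) P.nil))) (P.cons (P.cons (P.lf 885913 0 0) (P.cons (P.lf 126159 0 0) P.nil)) (P.cons (P.cons (P.lf 104430 0 0) P.nil) P.nil)))))) 148150)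
 (EL.cons 8 (TM.mk (P.cons (P.cons (P.lf 0 5842082 0) (P.cons (P.lf 107227747 0 0) (P.cons (P.lf 0 7168996 0) (P.lf 0 2389665 0)))) (P.cons (P.cons (P.lf 27374685 0 0) (P.cons (P.lf 0 12585278 0) (P.cons (P.lf 841422 0 0) (P.lf 280474 0 0)))) (P.cons (P.cons (P.lf 4735030 0 0) (P.cons (P.lf 0 9067139 0) (P.cons (P.lf 606206 0 0) (P.lf 202068 0 0)))) (P.cons (P.cons (P.lf 0 4583846 0) (P.cons (P.lf 0 200987 0) (P.cons (P.lf 13437 0 0) P.nil))) (P.cons (P.cons (P.lf 0 313948 0) (P.cons (P.lf 204059 0 0) P.nil)) (P.cons (P.cons (P.lf 111368 0 0) P.nil) P.nil)))))) 99704)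
 EL.nil))
noncomputable def S198_227_512_660_17 : EL := (EL.cons 4 (TM.mk (P.cons (P.cons (P.lf 0 34428 0) (P.cons (P.lf 1263866 0 0) (P.cons (P.lf 0 11683241 0) (P.cons (P.lf 1522762 0 0) (P.cons (P.lf 465130 0 0) (P.cons (P.lf 0 34563 0) P.nil)))))) (P.cons (P.cons (P.lf 325976 0 0) (P.cons (P.lf 0 6192335 0) (P.cons (P.lf 4254459 0 0) (P.cons (P.lf 0 375525 0) (P.cons (P.lf 0 154008 0) P.nil))))) (P.cons (P.cons (P.lf 0 731952 0) (P.cons (P.lf 175138 0 0) (P.cons (P.lf 1286567 0 0) (P.cons (P.lf 0 177502 0) P.nil)))) (P.cons (P.cons (P.lf 0 241303 0) (P.cons (P.lf 1523918 0 0) (P.cons (P.lf 0 385350 0) P.nil))) (P.cons (P.cons (P.lf 242129 0 0) (P.cons (P.lf 0 101679 0) P.nil)) (P.cons (P.cons (P.lf 35320 0 0) P.nil) P.nil)))))) 794475)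
 (EL.cons 8 (TM.mk (P.cons (P.cons (P.lf 0 52081 0) (P.cons (P.lf 1911861 0 0) (P.cons (P.lf 0 17673333 0) (P.cons (P.lf 2303495 0 0) (P.cons (P.lf 703606 0 0) (P.cons (P.lf 0 52284 0) P.nil)))))) (P.cons (P.cons (P.lf 474446 0 0) (P.cons (P.lf 0 8682184 0) (P.cons (P.lf 103479 0 0) (P.cons (P.lf 257270 0 0) (P.cons (P.lf 19128 0 0) P.nil))))) (P.cons (P.cons (P.lf 0 936555 0) (P.cons (P.lf 0 2870906 0) (P.cons (P.lf 2214872 0 0) (P.cons (P.lf 0 206515 0) P.nil)))) (P.cons (P.cons (P.lf 0 706897 0) (P.cons (P.lf 1393859 0 0) (P.cons (P.lf 177171 0 0) P.nil))) (P.cons (P.cons (P.lf 126133 0 0) (P.cons (P.lf 367249 0 0) P.nil)) (P.cons (P.cons (P.lf 106135 0 0) P.nil) P.nil)))))) 664706)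
 EL.nil))
noncomputable def S198_227_512_660_18 : EL := (EL.cons 4 (TM.mk (P.cons (P.lf 142093522 0 0) (P.cons (P.lf 0 132193991 0) (P.cons (P.lf 36274848 0 0) (P.cons (P.lf 0 908220 0) (P.cons (P.lf 0 623396 0) (P.cons (P.lf 0 4479 0) P.nil)))))) 6741)
 (EL.cons 8 (TM.mk (P.cons (P.lf 214946014 0 0) (P.cons (P.lf 0 122956731 0) (P.cons (P.lf 8001726 0 0) (P.cons (P.lf 3495072 0 0) (P.cons (P.lf 0 40579 0) (P.cons (P.lf 0 38127 0) P.nil)))))) 3726)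
 EL.nil))
noncomputable def S198_227_512_660_19 : EL := (EL.cons 4 (TM.mk (P.cons (P.cons (P.lf 1266757 0 0) (P.cons (P.lf 0 23250543 0) (P.cons (P.lf 1554476 0 0) (P.lf 518158 0 0)))) (P.cons (P.cons (P.lf 0 6782450 0) (P.cons (P.lf 18269703 0 0) (P.cons (P.lf 0 1221469 0) (P.lf 0 407156 0)))) (P.cons (P.cons (P.lf 3084096 0 0) (P.cons (P.lf 0 2488597 0) (P.cons (P.lf 166381 0 0) (P.lf 55460 0 0)))) (P.cons (P.cons (P.lf 1007371 0 0) (P.cons (P.lf 0 939205 0) (P.cons (P.lf 62792 0 0) P.nil))) (P.cons (P.cons (P.lf 0 706364 0) (P.cons (P.lf 140714 0 0) P.nil)) (P.cons (P.cons (P.lf 42303 0 0) P.nil) P.nil)))))) 127013)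
 (EL.cons 8 (TM.mk (P.cons (P.cons (P.lf 1916234 0 0) (P.cons (P.lf 0 35171284 0) (P.cons (P.lf 2351469 0 0) (P.lf 783823 0 0)))) (P.cons (P.cons (P.lf 0 9573289 0) (P.cons (P.lf 15035016 0 0) (P.cons (P.lf 0 1005206 0) (P.lf 0 335068 0)))) (P.cons (P.cons (P.lf 1210161 0 0) (P.cons (P.lf 2083347 0 0) (P.cons (P.lf 0 139287 0) (P.lf 0 46428 0)))) (P.cons (P.cons (P.lf 2086388 0 0) (P.cons (P.lf 0 935243 0) (P.cons (P.lf 62527 0 0) P.nil))) (P.cons (P.cons (P.lf 0 354430 0) (P.cons (P.lf 0 118690 0) P.nil)) (P.cons (P.cons (P.lf 0 87161 0) P.nil) P.nil)))))) 103630)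
 EL.nil))
noncomputable def S198_227_512_660_20 : EL := (EL.cons 4 (TM.mk (P.cons (P.cons (P.lf 11292 0 0) (P.cons (P.lf 0 414555 0) (P.cons (P.lf 3832166 0 0) (P.cons (P.lf 0 499473 0) (P.cons (P.lf 0 152565 0) (P.cons (P.lf 11336 0 0) P.nil)))))) (P.cons (P.cons (P.lf 0 110423 0) (P.cons (P.lf 2159677 0 0) (P.cons (P.lf 0 2583879 0) (P.cons (P.lf 278066 0 0) (P.cons (P.lf 97827 0 0) P.nil))))) (P.cons (P.cons (P.lf 273116 0 0) (P.cons (P.lf 0 682726 0) (P.cons (P.lf 0 31677 0) (P.cons (P.lf 25554 0 0) P.nil)))) (P.cons (P.cons (P.lf 5890 0 0) (P.cons (P.lf 0 504918 0) (P.cons (P.lf 276329 0 0) P.nil))) (P.cons (P.cons (P.lf 0 106722 0) (P.cons (P.lf 190886 0 0) P.nil)) (P.cons (P.cons (P.lf 12386 0 0) P.nil) P.nil)))))) 483627)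
 (EL.cons 8 (TM.mk (P.cons (P.cons (P.lf 17082 0 0) (P.cons (P.lf 0 627100 0) (P.cons (P.lf 5796949 0 0) (P.cons (P.lf 0 755558 0) (P.cons (P.lf 0 230786 0) (P.cons (P.lf 17149 0 0) P.nil)))))) (P.cons (P.cons (P.lf 0 160918 0) (P.cons (P.lf 3042274 0 0) (P.cons (P.lf 0 1831635 0) (P.cons (P.lf 149920 0 0) (P.cons (P.lf 65295 0 0) P.nil))))) (P.cons (P.cons (P.lf 355265 0 0) (P.cons (P.lf 65483 0 0) (P.cons (P.lf 0 780149 0) (P.cons (P.lf 102273 0 0) P.nil)))) (P.cons (P.cons (P.lf 138340 0 0) (P.cons (P.lf 0 781338 0) (P.cons (P.lf 173021 0 0) P.nil))) (P.cons (P.cons (P.lf 0 116823 0) (P.cons (P.lf 13539 0 0) P.nil)) (P.cons (P.cons (P.lf 0 24270 0) P.nil) P.nil)))))) 455908)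
 EL.nil))
noncomputable def S198_227_512_660_21 : EL := (EL.cons 4 (TM.mk (P.cons (P.cons (P.lf 1080982167 0 0) (P.cons (P.lf 648324264 0 0) (P.cons (P.lf 0 43345443 0) (P.lf 0 14448480 0)))) (P.cons (P.cons (P.lf 973263384 0 0) (P.cons (P.lf 0 107333178 0) (P.cons (P.lf 7176048 0 0) (P.lf 2392017 0 0)))) (P.cons (P.cons (P.lf 0 75874965 0) (P.cons (P.lf 0 45169068 0) (P.cons (P.lf 3019893 0 0) (P.lf 1006626 0 0)))) (P.cons (P.cons (P.lf 0 38927187 0) (P.cons (P.lf 444366 0 0) (P.cons (P.lf 0 29706 0) P.nil))) (P.cons (P.cons (P.lf 61113 0 0) (P.cons (P.lf 850809 0 0) P.nil)) (P.cons (P.cons (P.lf 589734 0 0) P.nil) P.nil)))))) 371436)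
 (EL.cons 8 (TM.mk (P.cons (P.cons (P.lf 0 254080236 0) (P.cons (P.lf 0 152385849 0) (P.cons (P.lf 10188171 0 0) (P.lf 3396057 0 0)))) (P.cons (P.cons (P.lf 0 137725608 0) (P.cons (P.lf 79827357 0 0) (P.cons (P.lf 0 5337066 0) (P.lf 0 1779018 0)))) (P.cons (P.cons (P.lf 96468744 0 0) (P.cons (P.lf 0 419238 0) (P.cons (P.lf 28029 0 0) (P.lf 9339 0 0)))) (P.cons (P.cons (P.lf 223929 0 0) (P.cons (P.lf 0 3300795 0) (P.cons (P.lf 220680 0 0) P.nil))) (P.cons (P.cons (P.lf 0 2668500 0) (P.cons (P.lf 0 84513 0) P.nil)) (P.cons (P.cons (P.lf 0 66285 0) P.nil) P.nil)))))) 329604)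
 (EL.cons 11 (TM.mk (P.cons (P.cons (P.lf 2586006444 0 0) (P.cons (P.lf 0 400378737 0) (P.cons (P.lf 0 192889848 0) (P.cons (P.lf 7299519 0 0) (P.lf 1824879 0 0))))) (P.cons (P.cons (P.lf 249214329 0 0) (P.cons (P.lf 0 38584635 0) (P.cons (P.lf 0 18588861 0) (P.cons (P.lf 703455 0 0) (P.lf 175863 0 0))))) (P.cons (P.cons (P.lf 0 29743989 0) (P.cons (P.lf 4605114 0 0) (P.cons (P.lf 2218599 0 0) (P.cons (P.lf 0 83958 0) P.nil)))) (P.cons (P.cons (P.lf 0 3517293 0) (P.cons (P.lf 544563 0 0) (P.cons (P.lf 262353 0 0) P.nil))) (P.cons (P.cons (P.lf 133743 0 0) (P.cons (P.lf 0 20706 0) P.nil)) (P.cons (P.cons (P.lf 26253 0 0) P.nil) P.nil)))))) 52971)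
 EL.nil)))
noncomputable def S198_227_512_660_22 : EL := (EL.cons 4 (TM.mk (P.cons (P.cons (P.lf 9636909 0 0) (P.cons (P.lf 0 171099657 0) (P.cons (P.lf 0 94644972 0) (P.cons (P.lf 17998203 0 0) (P.cons (P.lf 4254174 0 0) (P.cons (P.lf 0 316125 0) P.nil)))))) (P.cons (P.cons (P.lf 0 33955647 0) (P.cons (P.lf 0 211348254 0) (P.cons (P.lf 16357941 0 0) (P.cons (P.lf 4412205 0 0) (P.cons (P.lf 0 89334 0) P.nil))))) (P.cons (P.cons (P.lf 0 57720312 0) (P.cons (P.lf 0 15531018 0) (P.cons (P.lf 12428898 0 0) (P.cons (P.lf 0 1176963 0) P.nil)))) (P.cons (P.cons (P.lf 0 12906234 0) (P.cons (P.lf 15262200 0 0) (P.cons (P.lf 44010 0 0) P.nil))) (P.cons (P.cons (P.lf 4291554 0 0) (P.cons (P.lf 2035650 0 0) P.nil)) (P.cons (P.cons (P.lf 872925 0 0) P.nil) P.nil)))))) 2778012)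
 (EL.cons 8 (TM.mk (P.cons (P.cons (P.lf 0 2265114 0) (P.cons (P.lf 40216242 0 0) (P.cons (P.lf 22245897 0 0) (P.cons (P.lf 0 4230402 0) (P.cons (P.lf 0 999924 0) (P.cons (P.lf 74304 0 0) P.nil)))))) (P.cons (P.cons (P.lf 8792709 0 0) (P.cons (P.lf 35267205 0 0) (P.cons (P.lf 0 11815467 0) (P.cons (P.lf 478662 0 0) (P.cons (P.lf 379263 0 0) P.nil))))) (P.cons (P.cons (P.lf 10677627 0 0) (P.cons (P.lf 0 13621362 0) (P.cons (P.lf 0 1252248 0) (P.cons (P.lf 592782 0 0) P.nil)))) (P.cons (P.cons (P.lf 0 1718703 0) (P.cons (P.lf 0 4317405 0) (P.cons (P.lf 945540 0 0) P.nil))) (P.cons (P.cons (P.lf 0 1932570 0) (P.cons (P.lf 768402 0 0) P.nil)) (P.cons (P.cons (P.lf 172149 0 0) P.nil) P.nil)))))) 1103109)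
 (EL.cons 11 (TM.mk (P.cons (P.cons (P.lf 23054139 0 0) (P.cons (P.lf 0 426713604 0) (P.cons (P.lf 92084187 0 0) (P.cons (P.lf 36677418 0 0) (P.cons (P.lf 0 4748343 0) (P.cons (P.lf 0 922137 0) P.nil)))))) (P.cons (P.cons (P.lf 0 99766326 0) (P.cons (P.lf 0 86500056 0) (P.cons (P.lf 30041310 0 0) (P.cons (P.lf 8539245 0 0) (P.cons (P.lf 0 1218318 0) P.nil))))) (P.cons (P.cons (P.lf 0 54733401 0) (P.cons (P.lf 13273053 0 0) (P.cons (P.lf 3018711 0 0) (P.cons (P.lf 0 569718 0) P.nil)))) (P.cons (P.cons (P.lf 0 172599 0) (P.cons (P.lf 3106059 0 0) (P.cons (P.lf 0 669759 0) P.nil))) (P.cons (P.cons (P.lf 1710648 0 0) (P.cons (P.lf 0 172731 0) P.nil)) (P.cons (P.cons (P.lf 86400 0 0) P.nil) P.nil)))))) 1398054)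
 EL.nil)))
noncomputable def S198_227_512_660_23 : EL := (EL.cons 4 (TM.mk (P.cons (P.cons (P.lf 0 354568032 0) (P.cons (P.lf 0 212653884 0) (P.cons (P.lf 14217540 0 0) (P.lf 4739178 0 0)))) (P.cons (P.cons (P.lf 0 209280489 0) (P.cons (P.lf 101152023 0 0) (P.cons (P.lf 0 6762786 0) (P.lf 0 2254263 0)))) (P.cons (P.cons (P.lf 127811523 0 0) (P.cons (P.lf 6252546 0 0) (P.cons (P.lf 0 418026 0) (P.lf 0 139341 0)))) (P.cons (P.cons (P.lf 8250720 0 0) (P.cons (P.lf 0 5330625 0) (P.cons (P.lf 356391 0 0) P.nil))) (P.cons (P.cons (P.lf 0 4579242 0) (P.cons (P.lf 0 378477 0) P.nil)) (P.cons (P.cons (P.lf 0 325032 0) P.nil) P.nil)))))) 487887)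
 (EL.cons 8 (TM.mk (P.cons (P.cons (P.lf 83339697 0 0) (P.cons (P.lf 49983387 0 0) (P.cons (P.lf 0 3341775 0) (P.lf 0 1113924 0)))) (P.cons (P.cons (P.lf 19330248 0 0) (P.cons (P.lf 0 41684169 0) (P.cons (P.lf 2786904 0 0) (P.lf 928965 0 0)))) (P.cons (P.cons (P.lf 0 46574181 0) (P.cons (P.lf 7703952 0 0) (P.cons (P.lf 0 515067 0) (P.lf 0 171687 0)))) (P.cons (P.cons (P.lf 9317562 0 0) (P.cons (P.lf 1377087 0 0) (P.cons (P.lf 0 92067 0) P.nil))) (P.cons (P.cons (P.lf 1296411 0 0) (P.cons (P.lf 0 331008 0) P.nil)) (P.cons (P.cons (P.lf 0 275973 0) P.nil) P.nil)))))) 221565)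
 (EL.cons 11 (TM.mk (P.cons (P.cons (P.lf 0 848224185 0) (P.cons (P.lf 131326404 0 0) (P.cons (P.lf 63268917 0 0) (P.cons (P.lf 0 2394279 0) (P.lf 0 598569 0))))) (P.cons (P.cons (P.lf 181299393 0 0) (P.cons (P.lf 0 28069698 0) (P.cons (P.lf 0 13523094 0) (P.cons (P.lf 511752 0 0) (P.lf 127938 0 0))))) (P.cons (P.cons (P.lf 44497455 0 0) (P.cons (P.lf 0 6889320 0) (P.cons (P.lf 0 3319056 0) (P.cons (P.lf 125601 0 0) P.nil)))) (P.cons (P.cons (P.lf 0 1766724 0) (P.cons (P.lf 273534 0 0) (P.cons (P.lf 131778 0 0) P.nil))) (P.cons (P.cons (P.lf 0 641685 0) (P.cons (P.lf 99348 0 0) P.nil)) (P.cons (P.cons (P.lf 0 2052 0) P.nil) P.nil)))))) 122598)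
 EL.nil)))
noncomputable def S198_227_512_660_24 : EL := (EL.cons 4 (TM.mk (P.cons (P.cons (P.lf 0 3160959 0) (P.cons (P.lf 56121618 0 0) (P.cons (P.lf 31044066 0 0) (P.cons (P.lf 0 5903508 0) (P.cons (P.lf 0 1395390 0) (P.cons (P.lf 103689 0 0) P.nil)))))) (P.cons (P.cons (P.lf 12117882 0 0) (P.cons (P.lf 51919485 0 0) (P.cons (P.lf 0 14992578 0) (P.cons (P.lf 383511 0 0) (P.cons (P.lf 462027 0 0) P.nil))))) (P.cons (P.cons (P.lf 15513678 0 0) (P.cons (P.lf 0 17025024 0) (P.cons (P.lf 0 2756577 0) (P.cons (P.lf 900213 0 0) P.nil)))) (P.cons (P.cons (P.lf 0 1764168 0) (P.cons (P.lf 0 7300497 0) (P.cons (P.lf 1338492 0 0) P.nil))) (P.cons (P.cons (P.lf 0 2919771 0) (P.cons (P.lf 897345 0 0) P.nil)) (P.cons (P.cons (P.lf 121914 0 0) P.nil) P.nil)))))) 1868064)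
 (EL.cons 8 (TM.mk (P.cons (P.cons (P.lf 742968 0 0) (P.cons (P.lf 0 13191144 0) (P.cons (P.lf 0 7296774 0) (P.cons (P.lf 1387593 0 0) (P.cons (P.lf 327981 0 0) (P.cons (P.lf 0 24372 0) P.nil)))))) (P.cons (P.cons (P.lf 0 3114459 0) (P.cons (P.lf 0 7477125 0) (P.cons (P.lf 6138342 0 0) (P.cons (P.lf 0 587310 0) (P.cons (P.lf 0 226110 0) P.nil))))) (P.cons (P.cons (P.lf 0 2616168 0) (P.cons (P.lf 8201241 0 0) (P.cons (P.lf 0 710307 0) (P.cons (P.lf 0 161109 0) P.nil)))) (P.cons (P.cons (P.lf 1682481 0 0) (P.cons (P.lf 146235 0 0) (P.cons (P.lf 0 487311 0) P.nil))) (P.cons (P.cons (P.lf 495177 0 0) (P.cons (P.lf 0 752430 0) P.nil)) (P.cons (P.cons (P.lf 0 262776 0) P.nil) P.nil)))))) 534516)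
 (EL.cons 11 (TM.mk (P.cons (P.cons (P.lf 0 7561881 0) (P.cons (P.lf 139964382 0 0) (P.cons (P.lf 0 30204111 0) (P.cons (P.lf 0 12030390 0) (P.cons (P.lf 1557480 0 0) (P.cons (P.lf 302466 0 0) P.nil)))))) (P.cons (P.cons (P.lf 35068914 0 0) (P.cons (P.lf 0 15031905 0) (P.cons (P.lf 0 487107 0) (P.cons (P.lf 929826 0 0) (P.cons (P.lf 0 83373 0) P.nil))))) (P.cons (P.cons (P.lf 7888560 0 0) (P.cons (P.lf 0 14701947 0) (P.cons (P.lf 2400009 0 0) (P.cons (P.lf 1188666 0 0) P.nil)))) (P.cons (P.cons (P.lf 0 5880207 0) (P.cons (P.lf 149163 0 0) (P.cons (P.lf 607356 0 0) P.nil))) (P.cons (P.cons (P.lf 0 747060 0) (P.cons (P.lf 456624 0 0) P.nil)) (P.cons (P.cons (P.lf 164103 0 0) P.nil) P.nil)))))) 891093)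
 EL.nil)))
noncomputable def S198_227_512_660_25 : EL := (EL.cons 4 (TM.mk (P.cons (P.cons (P.lf 116300244 0 0) (P.cons (P.lf 69751629 0 0) (P.cons (P.lf 0 4663428 0) (P.lf 0 1554474 0)))) (P.cons (P.cons (P.lf 32579235 0 0) (P.cons (P.lf 0 54809112 0) (P.cons (P.lf 3664407 0 0) (P.lf 1221468 0 0)))) (P.cons (P.cons (P.lf 0 64498140 0) (P.cons (P.lf 7465791 0 0) (P.cons (P.lf 0 499146 0) (P.lf 0 166380 0)))) (P.cons (P.cons (P.lf 9644067 0 0) (P.cons (P.lf 2817615 0 0) (P.cons (P.lf 0 188376 0) P.nil))) (P.cons (P.cons (P.lf 2877714 0 0) (P.cons (P.lf 0 422142 0) P.nil)) (P.cons (P.cons (P.lf 0 364557 0) P.nil) P.nil)))))) 435324)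
 (EL.cons 8 (TM.mk (P.cons (P.cons (P.lf 0 27335874 0) (P.cons (P.lf 0 16394823 0) (P.cons (P.lf 1096119 0 0) (P.lf 365373 0 0)))) (P.cons (P.cons (P.lf 2136708 0 0) (P.cons (P.lf 18756837 0 0) (P.cons (P.lf 0 1254036 0) (P.lf 0 418011 0)))) (P.cons (P.cons (P.lf 17545485 0 0) (P.cons (P.lf 0 6585435 0) (P.cons (P.lf 440286 0 0) (P.lf 146760 0 0)))) (P.cons (P.cons (P.lf 0 7749216 0) (P.cons (P.lf 165087 0 0) (P.cons (P.lf 0 11037 0) P.nil))) (P.cons (P.cons (P.lf 345636 0 0) (P.cons (P.lf 288459 0 0) P.nil)) (P.cons (P.cons (P.lf 270285 0 0) P.nil) P.nil)))))) 178521)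
 (EL.cons 11 (TM.mk (P.cons (P.cons (P.lf 278222148 0 0) (P.cons (P.lf 0 43075773 0) (P.cons (P.lf 0 20752548 0) (P.cons (P.lf 785337 0 0) (P.lf 196332 0 0))))) (P.cons (P.cons (P.lf 0 145746738 0) (P.cons (P.lf 22565253 0 0) (P.cons (P.lf 10871226 0 0) (P.cons (P.lf 0 411399 0) (P.lf 0 102849 0))))) (P.cons (P.cons (P.lf 765444 0 0) (P.cons (P.lf 0 118509 0) (P.cons (P.lf 0 57093 0) (P.cons (P.lf 2160 0 0) P.nil)))) (P.cons (P.cons (P.lf 6026520 0 0) (P.cons (P.lf 0 933054 0) (P.cons (P.lf 0 449517 0) P.nil))) (P.cons (P.cons (P.lf 154302 0 0) (P.cons (P.lf 0 23889 0) P.nil)) (P.cons (P.cons (P.lf 0 89226 0) P.nil) P.nil)))))) 152496)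
 EL.nil)))
noncomputable def S198_227_512_660_26 : EL := (EL.cons 4 (TM.mk (P.cons (P.cons (P.lf 1036809 0 0) (P.cons (P.lf 0 18408195 0) (P.cons (P.lf 0 10182621 0) (P.cons (P.lf 1936383 0 0) (P.cons (P.lf 457695 0 0) (P.cons (P.lf 0 34011 0) P.nil)))))) (P.cons (P.cons (P.lf 0 4296255 0) (P.cons (P.lf 0 11321301 0) (P.cons (P.lf 8075382 0 0) (P.cons (P.lf 0 726285 0) (P.cons (P.lf 0 293484 0) P.nil))))) (P.cons (P.cons (P.lf 0 3867444 0) (P.cons (P.lf 11069256 0 0) (P.cons (P.lf 0 508095 0) (P.cons (P.lf 0 277704 0) P.nil)))) (P.cons (P.cons (P.lf 2201661 0 0) (P.cons (P.lf 834051 0 0) (P.cons (P.lf 0 783477 0) P.nil))) (P.cons (P.cons (P.lf 830913 0 0) (P.cons (P.lf 0 1116009 0) P.nil)) (P.cons (P.cons (P.lf 0 348447 0) P.nil) P.nil)))))) 1040739)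
 (EL.cons 8 (TM.mk (P.cons (P.cons (P.lf 0 243696 0) (P.cons (P.lf 4326765 0 0) (P.cons (P.lf 2393382 0 0) (P.cons (P.lf 0 455136 0) (P.cons (P.lf 0 107577 0) (P.cons (P.lf 7992 0 0) P.nil)))))) (P.cons (P.cons (P.lf 1097130 0 0) (P.cons (P.lf 1110762 0 0) (P.cons (P.lf 0 2755620 0) (P.cons (P.lf 333783 0 0) (P.cons (P.lf 107526 0 0) P.nil))))) (P.cons (P.cons (P.lf 544020 0 0) (P.cons (P.lf 0 3498513 0) (P.cons (P.lf 830862 0 0) (P.cons (P.lf 0 1854 0) P.nil)))) (P.cons (P.cons (P.lf 0 829515 0) (P.cons (P.lf 763170 0 0) (P.cons (P.lf 112140 0 0) P.nil))) (P.cons (P.cons (P.lf 162 0 0) (P.cons (P.lf 294054 0 0) P.nil)) (P.cons (P.cons (P.lf 143544 0 0) P.nil) P.nil)))))) 404634)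
 (EL.cons 11 (TM.mk (P.cons (P.cons (P.lf 2480337 0 0) (P.cons (P.lf 0 45909078 0) (P.cons (P.lf 9907113 0 0) (P.cons (P.lf 3946032 0 0) (P.cons (P.lf 0 510861 0) (P.cons (P.lf 0 99210 0) P.nil)))))) (P.cons (P.cons (P.lf 0 12271971 0) (P.cons (P.lf 19167423 0 0) (P.cons (P.lf 0 2912523 0) (P.cons (P.lf 0 1528692 0) (P.cons (P.lf 185769 0 0) P.nil))))) (P.cons (P.cons (P.lf 952179 0 0) (P.cons (P.lf 3801621 0 0) (P.cons (P.lf 0 946455 0) (P.cons (P.lf 0 339000 0) P.nil)))) (P.cons (P.cons (P.lf 2860848 0 0) (P.cons (P.lf 0 1642266 0) (P.cons (P.lf 52479 0 0) P.nil))) (P.cons (P.cons (P.lf 0 335118 0) (P.cons (P.lf 0 186318 0) P.nil)) (P.cons (P.cons (P.lf 0 154362 0) P.nil) P.nil)))))) 664179)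
 EL.nil)))
noncomputable def S198_227_512_660_27 : EL := (EL.cons 13 (TM.mk (P.lf 0 4294967296 0) 0)
 EL.nil)
noncomputable def S198_227_512_660_28 : EL := (EL.cons 13 (TM.mk (P.cons (P.cons (P.lf 0 38289457 0) (P.cons (P.lf 702778872 0 0) (P.cons (P.lf 0 46986156 0) (P.lf 0 15662052 0)))) (P.cons (P.cons (P.lf 169386817 0 0) (P.cons (P.lf 101590560 0 0) (P.cons (P.lf 0 6792104 0) (P.lf 0 2264032 0)))) (P.cons (P.cons (P.lf 74139671 0 0) (P.cons (P.lf 0 9677356 0) (P.cons (P.lf 647004 0 0) (P.lf 215664 0 0)))) (P.cons (P.cons (P.lf 0 4962012 0) (P.cons (P.lf 0 2057352 0) (P.cons (P.lf 137548 0 0) P.nil))) (P.cons (P.cons (P.lf 0 1277827 0) (P.cons (P.lf 35792 0 0) P.nil)) (P.cons (P.cons (P.lf 15042 0 0) P.nil) P.nil)))))) 102049)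
 EL.nil)
noncomputable def S198_227_512_660_29 : EL := (EL.cons 13 (TM.mk (P.cons (P.cons (P.lf 0 341348 0) (P.cons (P.lf 12530489 0 0) (P.cons (P.lf 0 115832381 0) (P.cons (P.lf 15097291 0 0) (P.cons (P.lf 4611494 0 0) (P.cons (P.lf 0 342679 0) P.nil)))))) (P.cons (P.cons (P.lf 3020153 0 0) (P.cons (P.lf 0 53621655 0) (P.cons (P.lf 0 29661194 0) (P.cons (P.lf 5640533 0 0) (P.cons (P.lf 1333232 0 0) P.nil))))) (P.cons (P.cons (P.lf 0 5358447 0) (P.cons (P.lf 0 32448413 0) (P.cons (P.lf 2933444 0 0) (P.cons (P.lf 620980 0 0) P.nil)))) (P.cons (P.cons (P.lf 0 5936378 0) (P.cons (P.lf 0 1156819 0) (P.cons (P.lf 1208429 0 0) P.nil))) (P.cons (P.cons (P.lf 0 911193 0) (P.cons (P.lf 1149931 0 0) P.nil)) (P.cons (P.cons (P.lf 272367 0 0) P.nil) P.nil)))))) 1355275)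
 EL.nil)
noncomputable def S198_227_512_660_30 : EL := (EL.cons 13 (TM.mk (P.cons (P.lf 1408772644 0 0) (P.cons (P.lf 0 436874896 0) (P.cons (P.lf 0 15598228 0) (P.cons (P.lf 1328688 0 0) (P.cons (P.lf 91228 0 0) (P.cons (P.lf 0 3020 0) P.nil)))))) 560)
 EL.nil)
noncomputable def S198_227_512_660_31 : EL := (EL.cons 13 (TM.mk (P.cons (P.cons (P.lf 12559150 0 0) (P.cons (P.lf 0 230515294 0) (P.cons (P.lf 15411714 0 0) (P.lf 5137238 0 0)))) (P.cons (P.cons (P.lf 0 59454519 0) (P.cons (P.lf 38162908 0 0) (P.cons (P.lf 0 2551484 0) (P.lf 0 850495 0)))) (P.cons (P.cons (P.lf 0 7227607 0) (P.cons (P.lf 16060114 0 0) (P.cons (P.lf 0 1073740 0) (P.lf 0 357912 0)))) (P.cons (P.cons (P.lf 9795910 0 0) (P.cons (P.lf 0 157997 0) (P.cons (P.lf 10563 0 0) P.nil))) (P.cons (P.cons (P.lf 132077 0 0) (P.cons (P.lf 0 302510 0) P.nil)) (P.cons (P.cons (P.lf 0 179493 0) P.nil) P.nil))))))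 129673)
 EL.nil)
noncomputable def S198_227_512_660_32 : EL := (EL.cons 13 (TM.mk (P.cons (P.cons (P.lf 111964 0 0) (P.cons (P.lf 0 4110068 0) (P.cons (P.lf 37993651 0 0) (P.cons (P.lf 0 4951993 0) (P.cons (P.lf 0 1512595 0) (P.cons (P.lf 112400 0 0) P.nil)))))) (P.cons (P.cons (P.lf 0 1025347 0) (P.cons (P.lf 18862769 0 0) (P.cons (P.lf 0 2053189 0) (P.cons (P.lf 0 314461 0) (P.cons (P.lf 31763 0 0) P.nil))))) (P.cons (P.cons (P.lf 2063563 0 0) (P.cons (P.lf 5234483 0 0) (P.cons (P.lf 0 4399932 0) (P.cons (P.lf 424887 0 0) P.nil)))) (P.cons (P.cons (P.lf 1413188 0 0) (P.cons (P.lf 0 3119756 0) (P.cons (P.lf 0 169875 0) P.nil))) (P.cons (P.cons (P.lf 0 325347 0) (P.cons (P.lf 0 596374 0) P.nil)) (P.cons (P.cons (P.lf 0 201988 0) P.nil) P.nil)))))) 1200422)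
 EL.nil)
noncomputable def S198_227_512_660_33 : EL := (EL.cons 14 (TM.mk (P.lf 8589934592 0 0) 0)
 EL.nil)
noncomputable def S198_227_512_660_34 : EL := (EL.cons 14 (TM.mk (P.cons (P.cons (P.lf 76578914 0 0) (P.cons (P.lf 0 1405557744 0) (P.cons (P.lf 93972312 0 0) (P.lf 31324104 0 0)))) (P.cons (P.cons (P.lf 0 338773634 0) (P.cons (P.lf 0 203181120 0) (P.cons (P.lf 13584208 0 0) (P.lf 4528064 0 0)))) (P.cons (P.cons (P.lf 0 148279342 0) (P.cons (P.lf 19354712 0 0) (P.cons (P.lf 0 1294008 0) (P.lf 0 431328 0)))) (P.cons (P.cons (P.lf 9924024 0 0) (P.cons (P.lf 4114704 0 0) (P.cons (P.lf 0 275096 0) P.nil))) (P.cons (P.cons (P.lf 2555654 0 0) (P.cons (P.lf 0 71584 0) P.nil)) (P.cons (P.cons (P.lf 0 30084 0) P.nil) P.nil)))))) 204098)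
 EL.nil)
noncomputable def S198_227_512_660_35 : EL := (EL.cons 14 (TM.mk (P.cons (P.cons (P.lf 682696 0 0) (P.cons (P.lf 0 25060978 0) (P.cons (P.lf 231664762 0 0) (P.cons (P.lf 0 30194582 0) (P.cons (P.lf 0 9222988 0) (P.cons (P.lf 685358 0 0) P.nil)))))) (P.cons (P.cons (P.lf 0 6040306 0) (P.cons (P.lf 107243310 0 0) (P.cons (P.lf 59322388 0 0) (P.cons (P.lf 0 11281066 0) (P.cons (P.lf 0 2666464 0) P.nil))))) (P.cons (P.cons (P.lf 10716894 0 0) (P.cons (P.lf 64896826 0 0) (P.cons (P.lf 0 5866888 0) (P.cons (P.lf 0 1241960 0) P.nil)))) (P.cons (P.cons (P.lf 11872756 0 0) (P.cons (P.lf 2313638 0 0) (P.cons (P.lf 0 2416858 0) P.nil))) (P.cons (P.cons (P.lf 1822386 0 0) (P.cons (P.lf 0 2299862 0) P.nil)) (P.cons (P.cons (P.lf 0 544734 0) P.nil) P.nil)))))) 2710550)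
 EL.nil)
noncomputable def S198_227_512_660_36 : EL := (EL.cons 14 (TM.mk (P.cons (P.lf 0 2817545288 0) (P.cons (P.lf 873749792 0 0) (P.cons (P.lf 31196456 0 0) (P.cons (P.lf 0 2657376 0) (P.cons (P.lf 0 182456 0) (P.cons (P.lf 6040 0 0) P.nil)))))) 1120)
 EL.nil)
noncomputable def S198_227_512_660_37 : EL := (EL.cons 14 (TM.mk (P.cons (P.cons (P.lf 0 25118300 0) (P.cons (P.lf 461030588 0 0) (P.cons (P.lf 0 30823428 0) (P.lf 0 10274476 0)))) (P.cons (P.cons (P.lf 118909038 0 0) (P.cons (P.lf 0 76325816 0) (P.cons (P.lf 5102968 0 0) (P.lf 1700990 0 0)))) (P.cons (P.cons (P.lf 14455214 0 0) (P.cons (P.lf 0 32120228 0) (P.cons (P.lf 2147480 0 0) (P.lf 715824 0 0)))) (P.cons (P.cons (P.lf 0 19591820 0) (P.cons (P.lf 315994 0 0) (P.cons (P.lf 0 21126 0) P.nil))) (P.cons (P.cons (P.lf 0 264154 0) (P.cons (P.lf 605020 0 0) P.nil)) (P.cons (P.cons (P.lf 358986 0 0) P.nil) P.nil))))))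 259346)
 EL.nil)
noncomputable def S198_227_512_660_38 : EL := (EL.cons 14 (TM.mk (P.cons (P.cons (P.lf 0 223928 0) (P.cons (P.lf 8220136 0 0) (P.cons (P.lf 0 75987302 0) (P.cons (P.lf 9903986 0 0) (P.cons (P.lf 3025190 0 0) (P.cons (P.lf 0 224800 0) P.nil)))))) (P.cons (P.cons (P.lf 2050694 0 0) (P.cons (P.lf 0 37725538 0) (P.cons (P.lf 4106378 0 0) (P.cons (P.lf 628922 0 0) (P.cons (P.lf 0 63526 0) P.nil))))) (P.cons (P.cons (P.lf 0 4127126 0) (P.cons (P.lf 0 10468966 0) (P.cons (P.lf 8799864 0 0) (P.cons (P.lf 0 849774 0) P.nil)))) (P.cons (P.cons (P.lf 0 2826376 0) (P.cons (P.lf 6239512 0 0) (P.cons (P.lf 339750 0 0) P.nil))) (P.cons (P.cons (P.lf 650694 0 0) (P.cons (P.lf 1192748 0 0) P.nil)) (P.cons (P.cons (P.lf 403976 0 0) P.nil) P.nil)))))) 2400844)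
 EL.nil)
noncomputable def S198_227_512_660_39 : EL := (EL.cons 14 (TM.mk (P.cons (P.lf 924170186 0 0) (P.cons (P.lf 0 573189372 0) (P.cons (P.lf 68410746 0 0) (P.cons (P.lf 8089740 0 0) (P.cons (P.lf 0 307614 0) (P.cons (P.lf 0 60382 0) P.nil)))))) 4526)
 EL.nil)
noncomputable def S198_227_512_660_40 : EL := (EL.cons 14 (TM.mk (P.cons (P.cons (P.lf 8238938 0 0) (P.cons (P.lf 0 151220540 0) (P.cons (P.lf 10110252 0 0) (P.lf 3370084 0 0)))) (P.cons (P.cons (P.lf 0 41557790 0) (P.cons (P.lf 71930328 0 0) (P.cons (P.lf 0 4809094 0) (P.lf 0 1603032 0)))) (P.cons (P.cons (P.lf 7262560 0 0) (P.cons (P.lf 4446256 0 0) (P.cons (P.lf 0 297264 0) (P.lf 0 99086 0)))) (P.cons (P.cons (P.lf 8336194 0 0) (P.cons (P.lf 0 3790668 0) (P.cons (P.lf 253434 0 0) P.nil))) (P.cons (P.cons (P.lf 0 1889948 0) (P.cons (P.lf 0 269140 0) P.nil)) (P.cons (P.cons (P.lf 0 222786 0) P.nil) P.nil))))))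 316014)
 EL.nil)
noncomputable def S198_227_512_660_41 : EL := (EL.cons 14 (TM.mk (P.cons (P.cons (P.lf 73448 0 0) (P.cons (P.lf 0 2696248 0) (P.cons (P.lf 24924248 0 0) (P.cons (P.lf 0 3248560 0) (P.cons (P.lf 0 992278 0) (P.cons (P.lf 73736 0 0) P.nil)))))) (P.cons (P.cons (P.lf 0 695416 0) (P.cons (P.lf 13210316 0 0) (P.cons (P.lf 0 9076180 0) (P.cons (P.lf 801122 0 0) (P.cons (P.lf 328552 0 0) P.nil))))) (P.cons (P.cons (P.lf 1561498 0 0) (P.cons (P.lf 0 373628 0) (P.cons (P.lf 0 2744678 0) (P.cons (P.lf 378672 0 0) P.nil)))) (P.cons (P.cons (P.lf 514780 0 0) (P.cons (P.lf 0 3251026 0) (P.cons (P.lf 822082 0 0) P.nil))) (P.cons (P.cons (P.lf 0 516542 0) (P.cons (P.lf 216916 0 0) P.nil)) (P.cons (P.cons (P.lf 0 75350 0) P.nil) P.nil)))))) 1694834)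
 EL.nil)
noncomputable def S198_227_512_660_42 : EL := (EL.cons 14 (TM.mk (P.cons (P.lf 0 303132848 0) (P.cons (P.lf 282013848 0 0) (P.cons (P.lf 0 77386344 0) (P.cons (P.lf 1937536 0 0) (P.cons (P.lf 1329912 0 0) (P.cons (P.lf 9556 0 0) P.nil)))))) 14366)
 EL.nil)
noncomputable def S198_227_512_660_43 : EL := (EL.cons 14 (TM.mk (P.cons (P.cons (P.lf 0 2702416 0) (P.cons (P.lf 49601160 0 0) (P.cons (P.lf 0 3316216 0) (P.lf 0 1105404 0)))) (P.cons (P.cons (P.lf 14469228 0 0) (P.cons (P.lf 0 38975368 0) (P.cons (P.lf 2605802 0 0) (P.lf 868600 0 0)))) (P.cons (P.cons (P.lf 0 6579406 0) (P.cons (P.lf 5309008 0 0) (P.cons (P.lf 0 354948 0) (P.lf 0 118316 0)))) (P.cons (P.cons (P.lf 0 2149060 0) (P.cons (P.lf 2003638 0 0) (P.cons (P.lf 0 133958 0) P.nil))) (P.cons (P.cons (P.lf 1506910 0 0) (P.cons (P.lf 0 300190 0) P.nil)) (P.cons (P.cons (P.lf 0 90248 0) P.nil) P.nil))))))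 270922)
 EL.nil)
noncomputable def S198_227_512_660_44 : EL := (EL.cons 14 (TM.mk (P.cons (P.cons (P.lf 0 24090 0) (P.cons (P.lf 884384 0 0) (P.cons (P.lf 0 8175288 0) (P.cons (P.lf 1065544 0 0) (P.cons (P.lf 325472 0 0) (P.cons (P.lf 0 24184 0) P.nil)))))) (P.cons (P.cons (P.lf 235570 0 0) (P.cons (P.lf 0 4607312 0) (P.cons (P.lf 5512276 0 0) (P.cons (P.lf 0 593208 0) (P.cons (P.lf 0 208698 0) P.nil))))) (P.cons (P.cons (P.lf 0 582648 0) (P.cons (P.lf 1456484 0 0) (P.cons (P.lf 67578 0 0) (P.cons (P.lf 0 54516 0) P.nil)))) (P.cons (P.cons (P.lf 0 12566 0) (P.cons (P.lf 1077160 0 0) (P.cons (P.lf 0 589502 0) P.nil))) (P.cons (P.cons (P.lf 227674 0 0) (P.cons (P.lf 0 407224 0) P.nil)) (P.cons (P.cons (P.lf 0 26424 0) P.nil) P.nil)))))) 1031692)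
 EL.nil)
noncomputable def S198_227_512_660_45 : EL := (EL.cons 14 (TM.mk (P.cons (P.cons (P.lf 6086 0 0) (P.cons (P.lf 0 335126 0) (P.cons (P.lf 6173438 0 0) (P.cons (P.lf 0 38447804 0) (P.cons (P.lf 7301452 0 0) (P.cons (P.lf 2029720 0 0) P.nil)))))) (P.cons (P.cons (P.lf 0 80772 0) (P.cons (P.lf 2916652 0 0) (P.cons (P.lf 0 25627920 0) (P.cons (P.lf 0 12984308 0) (P.cons (P.lf 4293272 0 0) P.nil))))) (P.cons (P.cons (P.lf 321976 0 0) (P.cons (P.lf 0 4827530 0) (P.cons (P.lf 0 19495396 0) (P.cons (P.lf 1953042 0 0) P.nil)))) (P.cons (P.cons (P.lf 0 211756 0) (P.cons (P.lf 0 6628484 0) (P.cons (P.lf 0 2082794 0) P.nil))) (P.cons (P.cons (P.lf 0 643766 0) (P.cons (P.lf 0 1673330 0) P.nil)) (P.cons (P.cons (P.lf 0 271092 0) P.nil) P.nil)))))) 7500068)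
 EL.nil)
noncomputable def S198_227_512_660_46 : EL := (EL.cons 15 (TM.mk (P.lf 4294967296 0 0) 0)
 EL.nil)
noncomputable def S198_227_512_660_47 : EL := (EL.cons 15 (TM.mk (P.cons (P.cons (P.lf 38289457 0 0) (P.cons (P.lf 0 702778872 0) (P.cons (P.lf 46986156 0 0) (P.lf 15662052 0 0)))) (P.cons (P.cons (P.lf 0 169386817 0) (P.cons (P.lf 0 101590560 0) (P.cons (P.lf 6792104 0 0) (P.lf 2264032 0 0)))) (P.cons (P.cons (P.lf 0 74139671 0) (P.cons (P.lf 9677356 0 0) (P.cons (P.lf 0 647004 0) (P.lf 0 215664 0)))) (P.cons (P.cons (P.lf 4962012 0 0) (P.cons (P.lf 2057352 0 0) (P.cons (P.lf 0 137548 0) P.nil))) (P.cons (P.cons (P.lf 1277827 0 0) (P.cons (P.lf 0 35792 0) P.nil)) (P.cons (P.cons (P.lf 0 15042 0) P.nil) P.nil)))))) 102049)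
 EL.nil)
noncomputable def S198_227_512_660_48 : EL := (EL.cons 15 (TM.mk (P.cons (P.cons (P.lf 341348 0 0) (P.cons (P.lf 0 12530489 0) (P.cons (P.lf 115832381 0 0) (P.cons (P.lf 0 15097291 0) (P.cons (P.lf 0 4611494 0) (P.cons (P.lf 342679 0 0) P.nil)))))) (P.cons (P.cons (P.lf 0 3020153 0) (P.cons (P.lf 53621655 0 0) (P.cons (P.lf 29661194 0 0) (P.cons (P.lf 0 5640533 0) (P.cons (P.lf 0 1333232 0) P.nil))))) (P.cons (P.cons (P.lf 5358447 0 0) (P.cons (P.lf 32448413 0 0) (P.cons (P.lf 0 2933444 0) (P.cons (P.lf 0 620980 0) P.nil)))) (P.cons (P.cons (P.lf 5936378 0 0) (P.cons (P.lf 1156819 0 0) (P.cons (P.lf 0 1208429 0) P.nil))) (P.cons (P.cons (P.lf 911193 0 0) (P.cons (P.lf 0 1149931 0) P.nil)) (P.cons (P.cons (P.lf 0 272367 0) P.nil) P.nil)))))) 1355275)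
 EL.nil)
noncomputable def S198_227_512_660 : SL := (SL.cons S198_227_512_660_0 (SL.cons S198_227_512_660_1 (SL.cons S198_227_512_660_2 (SL.cons S198_227_512_660_3 (SL.cons S198_227_512_660_4 (SL.cons S198_227_512_660_5 (SL.cons S198_227_512_660_6 (SL.cons S198_227_512_660_7 (SL.cons S198_227_512_660_8 (SL.cons S198_227_512_660_9 (SL.cons S198_227_512_660_10 (SL.cons S198_227_512_660_11 (SL.cons S198_227_512_660_12 (SL.cons S198_227_512_660_13 (SL.cons S198_227_512_660_14 (SL.cons S198_227_512_660_15 (SL.cons S198_227_512_660_16 (SL.cons S198_227_512_660_17 (SL.cons S198_227_512_660_18 (SL.cons S198_227_512_660_19 (SL.cons S198_227_512_660_20 (SL.cons S198_227_512_660_21 (SL.cons S198_227_512_660_22 (SL.cons S198_227_512_660_23 (SL.cons S198_227_512_660_24 (SL.cons S198_227_512_660_25 (SL.cons S198_227_512_660_26 (SL.cons S198_227_512_660_27 (SL.cons S198_227_512_660_28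 (SL.cons S198_227_512_660_29 (SL.cons S198_227_512_660_30 (SL.cons S198_227_512_660_31 (SL.cons S198_227_512_660_32 (SL.cons S198_227_512_660_33 (SL.cons S198_227_512_660_34 (SL.cons S198_227_512_660_35 (SL.cons S198_227_512_660_36 (SL.cons S198_227_512_660_37 (SL.cons S198_227_512_660_38 (SL.cons S198_227_512_660_39 (SL.cons S198_227_512_660_40 (SL.cons S198_227_512_660_41 (SL.cons S198_227_512_660_42 (SL.cons S198_227_512_660_43 (SL.cons S198_227_512_660_44 (SL.cons S198_227_512_660_45 (SL.cons S198_227_512_660_46 (SL.cons S198_227_512_660_47 (SL.cons S198_227_512_660_48 SL.nil)))))))))))))))))))))))))))))))))))))))))))))))))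
noncomputable def S198_227_586_660_0 : EL := (EL.cons 0 (TM.mk (P.cons (P.lf 7643457911 0 0) (P.cons (P.lf 503779721 0 0) (P.cons (P.lf 0 60126632 0) (P.cons (P.lf 0 7110123 0) (P.cons (P.lf 270363 0 0) (P.cons (P.lf 53070 0 0) P.nil)))))) 3984)
 (EL.cons 1 (TM.mk (P.cons (P.lf 0 1228710643 0) (P.cons (P.lf 321830180 0 0) (P.cons (P.lf 40457490 0 0) (P.cons (P.lf 0 2710608 0) (P.cons (P.lf 0 384633 0) (P.cons (P.lf 7027 0 0) P.nil)))))) 2881)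
 (EL.cons 5 (TM.mk (P.cons (P.lf 4583770480 0 0) (P.cons (P.lf 0 179121676 0) (P.cons (P.lf 21378358 0 0) (P.cons (P.lf 2528040 0 0) (P.cons (P.lf 0 96128 0) (P.cons (P.lf 0 18870 0) P.nil)))))) 1697)
 (EL.cons 9 (TM.mk (P.lf 6442450944 0 0) 2)
 EL.nil))))
noncomputable def S198_227_586_660_1 : EL := (EL.cons 0 (TM.mk (P.cons (P.cons (P.lf 323588952 0 0) (P.cons (P.lf 0 390380509 0) (P.cons (P.lf 21360056 0 0) (P.lf 2373343 0 0)))) (P.cons (P.cons (P.lf 0 122165862 0) (P.cons (P.lf 0 207518900 0) (P.cons (P.lf 11354595 0 0) (P.lf 1261616 0 0)))) (P.cons (P.cons (P.lf 0 390348436 0) (P.cons (P.lf 1567512 0 0) (P.cons (P.lf 0 85767 0) (P.lf 0 9532 0)))) (P.cons (P.cons (P.lf 0 4678234 0) (P.cons (P.lf 7962365 0 0) (P.cons (P.lf 0 435657 0) P.nil))) (P.cons (P.cons (P.lf 13183674 0 0) (P.cons (P.lf 401273 0 0) P.nil)) (P.cons (P.cons (P.lf 640298 0 0) P.nil) P.nil))))))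 595033)
 (EL.cons 1 (TM.mk (P.cons (P.cons (P.lf 632748389 0 0) (P.cons (P.lf 208840461 0 0) (P.cons (P.lf 0 11426906 0) (P.lf 0 1269653 0)))) (P.cons (P.cons (P.lf 500594171 0 0) (P.cons (P.lf 0 9125139 0) (P.cons (P.lf 499289 0 0) (P.lf 55474 0 0)))) (P.cons (P.cons (P.lf 11693644 0 0) (P.cons (P.lf 0 22784528 0) (P.cons (P.lf 1246672 0 0) (P.lf 138513 0 0)))) (P.cons (P.cons (P.lf 0 41514891 0) (P.cons (P.lf 0 1023256 0) (P.cons (P.lf 55978 0 0) P.nil))) (P.cons (P.cons (P.lf 0 1943158 0) (P.cons (P.lf 580476 0 0) P.nil)) (P.cons (P.cons (P.lf 936664 0 0) P.nil) P.nil)))))) 280579)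
 (EL.cons 5 (TM.mk (P.cons (P.cons (P.lf 0 624026511 0) (P.cons (P.lf 0 408637286 0) (P.cons (P.lf 22358992 0 0) (P.lf 2484334 0 0)))) (P.cons (P.cons (P.lf 0 327505073 0) (P.cons (P.lf 0 5350868 0) (P.cons (P.lf 292784 0 0) (P.lf 32540 0 0)))) (P.cons (P.cons (P.lf 20658053 0 0) (P.cons (P.lf 6980976 0 0) (P.cons (P.lf 0 381968 0) (P.lf 0 42438 0)))) (P.cons (P.cons (P.lf 11779354 0 0) (P.cons (P.lf 0 1228450 0) (P.cons (P.lf 67210 0 0) P.nil))) (P.cons (P.cons (P.lf 0 2544459 0) (P.cons (P.lf 0 170546 0) P.nil)) (P.cons (P.cons (P.lf 0 270237 0) P.nil) P.nil)))))) 277096)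
 (EL.cons 9 (TM.mk (P.cons (P.cons (P.lf 0 449093523 0) (P.cons (P.lf 0 483034626 0) (P.cons (P.lf 26429712 0 0) (P.lf 2936634 0 0)))) (P.cons (P.cons (P.lf 0 327301597 0) (P.cons (P.lf 0 69825318 0) (P.cons (P.lf 3820560 0 0) (P.lf 424506 0 0)))) (P.cons (P.cons (P.lf 0 104234554 0) (P.cons (P.lf 6651444 0 0) (P.cons (P.lf 0 363936 0) (P.lf 0 40434 0)))) (P.cons (P.cons (P.lf 8925858 0 0) (P.cons (P.lf 1414056 0 0) (P.cons (P.lf 0 77364 0) P.nil))) (P.cons (P.cons (P.lf 1890940 0 0) (P.cons (P.lf 0 24594 0) P.nil)) (P.cons (P.cons (P.lf 0 37569 0) P.nil) P.nil)))))) 57626)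
 (EL.cons 2 (TM.mk (P.cons (P.cons (P.lf 719137918 0 0) (P.cons (P.lf 0 90234525 0) (P.cons (P.lf 0 13776477 0) (P.cons (P.lf 420868 0 0) (P.lf 35071 0 0))))) (P.cons (P.cons (P.lf 0 153708499 0) (P.cons (P.lf 19286721 0 0) (P.cons (P.lf 2944583 0 0) (P.cons (P.lf 0 89955 0) (P.lf 0 7495 0))))) (P.cons (P.cons (P.lf 0 37725645 0) (P.cons (P.lf 4733659 0 0) (P.cons (P.lf 722705 0 0) (P.cons (P.lf 0 22078 0) P.nil)))) (P.cons (P.cons (P.lf 1497855 0 0) (P.cons (P.lf 0 187945 0) (P.cons (P.lf 0 28693 0) P.nil))) (P.cons (P.cons (P.lf 544030 0 0) (P.cons (P.lf 0 68262 0) P.nil)) (P.cons (P.cons (P.lf 1740 0 0) P.nil) P.nil)))))) 28708)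
 (EL.cons 6 (TM.mk (P.cons (P.cons (P.lf 1087845708 0 0) (P.cons (P.lf 0 136498494 0) (P.cons (P.lf 0 20839788 0) (P.cons (P.lf 636651 0 0) (P.lf 53052 0 0))))) (P.cons (P.cons (P.lf 157254096 0 0) (P.cons (P.lf 0 19731609 0) (P.cons (P.lf 0 3012504 0) (P.cons (P.lf 92031 0 0) (P.lf 7668 0 0))))) (P.cons (P.cons (P.lf 0 14979780 0) (P.cons (P.lf 1879602 0 0) (P.cons (P.lf 286965 0 0) (P.cons (P.lf 0 8766 0) P.nil)))) (P.cons (P.cons (P.lf 0 3184623 0) (P.cons (P.lf 399591 0 0) (P.cons (P.lf 61005 0 0) P.nil))) (P.cons (P.cons (P.lf 55404 0 0) (P.cons (P.lf 0 6951 0) P.nil)) (P.cons (P.cons (P.lf 32214 0 0) P.nil) P.nil)))))) 17097)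
 EL.nil))))))
noncomputable def S198_227_586_660_2 : EL := (EL.cons 0 (TM.mk (P.cons (P.cons (P.lf 0 82255441 0) (P.cons (P.lf 0 73995089 0) (P.cons (P.lf 19619806 0 0) (P.cons (P.lf 0 1254126 0) (P.cons (P.lf 0 142723 0) (P.cons (P.lf 10361 0 0) P.nil)))))) (P.cons (P.cons (P.lf 0 72433206 0) (P.cons (P.lf 4856994 0 0) (P.cons (P.lf 24060089 0 0) (P.cons (P.lf 0 2691545 0) (P.cons (P.lf 0 222947 0) P.nil))))) (P.cons (P.cons (P.lf 16118058 0 0) (P.cons (P.lf 65517649 0 0) (P.cons (P.lf 0 322982 0) (P.cons (P.lf 0 755266 0) P.nil)))) (P.cons (P.cons (P.lf 32099186 0 0) (P.cons (P.lf 12278442 0 0) (P.cons (P.lf 0 1920519 0) P.nil))) (P.cons (P.cons (P.lf 10116834 0 0) (P.cons (P.lf 0 3208050 0) P.nil)) (P.cons (P.cons (P.lf 0 1791051 0) P.nil) P.nil)))))) 3001269)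
 (EL.cons 1 (TM.mk (P.cons (P.cons (P.lf 0 82245218 0) (P.cons (P.lf 0 111155088 0) (P.cons (P.lf 0 18327208 0) (P.cons (P.lf 3346914 0 0) (P.cons (P.lf 223714 0 0) (P.cons (P.lf 0 16238 0) P.nil)))))) (P.cons (P.cons (P.lf 0 126944482 0) (P.cons (P.lf 0 100876276 0) (P.cons (P.lf 2548712 0 0) (P.cons (P.lf 938378 0 0) (P.cons (P.lf 27219 0 0) P.nil))))) (P.cons (P.cons (P.lf 0 69502624 0) (P.cons (P.lf 0 13155884 0) (P.cons (P.lf 3969109 0 0) (P.cons (P.lf 0 275587 0) P.nil)))) (P.cons (P.cons (P.lf 0 9892905 0) (P.cons (P.lf 9194209 0 0) (P.cons (P.lf 110671 0 0) P.nil))) (P.cons (P.cons (P.lf 5326183 0 0) (P.cons (P.lf 2018676 0 0) P.nil)) (P.cons (P.cons (P.lf 1569695 0 0) P.nil) P.nil)))))) 1477802)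
 (EL.cons 5 (TM.mk (P.cons (P.cons (P.lf 64726086 0 0) (P.cons (P.lf 102631683 0 0) (P.cons (P.lf 29893277 0 0) (P.cons (P.lf 0 4509754 0) (P.cons (P.lf 0 325438 0) (P.cons (P.lf 23624 0 0) P.nil)))))) (P.cons (P.cons (P.lf 77469609 0 0) (P.cons (P.lf 64929976 0 0) (P.cons (P.lf 0 335248 0) (P.cons (P.lf 0 746847 0) (P.cons (P.lf 0 29494 0) P.nil))))) (P.cons (P.cons (P.lf 29584092 0 0) (P.cons (P.lf 1409048 0 0) (P.cons (P.lf 0 1509566 0) (P.cons (P.lf 148186 0 0) P.nil)))) (P.cons (P.cons (P.lf 0 820192 0) (P.cons (P.lf 0 4311260 0) (P.cons (P.lf 276149 0 0) P.nil))) (P.cons (P.cons (P.lf 0 3012425 0) (P.cons (P.lf 197112 0 0) P.nil)) (P.cons (P.cons (P.lf 97661 0 0) P.nil) P.nil)))))) 1501439)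
 (EL.cons 9 (TM.mk (P.cons (P.cons (P.lf 31305630 0 0) (P.cons (P.lf 67343227 0 0) (P.cons (P.lf 32531659 0 0) (P.cons (P.lf 0 4372648 0) (P.cons (P.lf 0 331932 0) (P.cons (P.lf 24094 0 0) P.nil)))))) (P.cons (P.cons (P.lf 45631399 0 0) (P.cons (P.lf 58814914 0 0) (P.cons (P.lf 7252447 0 0) (P.cons (P.lf 0 1503381 0) (P.cons (P.lf 0 95964 0) P.nil))))) (P.cons (P.cons (P.lf 31160262 0 0) (P.cons (P.lf 21797826 0 0) (P.cons (P.lf 0 1433308 0) (P.cons (P.lf 0 106189 0) P.nil)))) (P.cons (P.cons (P.lf 9346626 0 0) (P.cons (P.lf 48006 0 0) (P.cons (P.lf 0 358851 0) P.nil))) (P.cons (P.cons (P.lf 515878 0 0) (P.cons (P.lf 0 832518 0) P.nil)) (P.cons (P.cons (P.lf 0 475725 0) P.nil) P.nil)))))) 447781)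
 (EL.cons 2 (TM.mk (P.cons (P.cons (P.lf 0 100260033 0) (P.cons (P.lf 0 95257153 0) (P.cons (P.lf 21352100 0 0) (P.cons (P.lf 1922394 0 0) (P.cons (P.lf 0 263295 0) (P.cons (P.lf 0 14360 0) P.nil)))))) (P.cons (P.cons (P.lf 0 51640436 0) (P.cons (P.lf 13940296 0 0) (P.cons (P.lf 0 355078 0) (P.cons (P.lf 0 167276 0) (P.cons (P.lf 15356 0 0) P.nil))))) (P.cons (P.cons (P.lf 0 2392762 0) (P.cons (P.lf 10774147 0 0) (P.cons (P.lf 0 1841473 0) (P.cons (P.lf 0 193809 0) P.nil)))) (P.cons (P.cons (P.lf 10590885 0 0) (P.cons (P.lf 0 737443 0) (P.cons (P.lf 0 309459 0) P.nil))) (P.cons (P.cons (P.lf 988942 0 0) (P.cons (P.lf 0 388996 0) P.nil)) (P.cons (P.cons (P.lf 0 307141 0) P.nil) P.nil)))))) 330597)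
 (EL.cons 6 (TM.mk (P.cons (P.cons (P.lf 0 151664160 0) (P.cons (P.lf 0 144096258 0) (P.cons (P.lf 32299494 0 0) (P.cons (P.lf 2908026 0 0) (P.cons (P.lf 0 398286 0) (P.cons (P.lf 0 21726 0) P.nil)))))) (P.cons (P.cons (P.lf 0 132457488 0) (P.cons (P.lf 0 30541422 0) (P.cons (P.lf 11035626 0 0) (P.cons (P.lf 788880 0 0) (P.cons (P.lf 0 119466 0) P.nil))))) (P.cons (P.cons (P.lf 0 49091034 0) (P.cons (P.lf 7243548 0 0) (P.cons (P.lf 745140 0 0) (P.cons (P.lf 0 48636 0) P.nil)))) (P.cons (P.cons (P.lf 0 108108 0) (P.cons (P.lf 1618074 0 0) (P.cons (P.lf 0 287040 0) P.nil))) (P.cons (P.cons (P.lf 1874916 0 0) (P.cons (P.lf 0 144738 0) P.nil)) (P.cons (P.cons (P.lf 131040 0 0) P.nil) P.nil)))))) 296766)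
 EL.nil))))))
noncomputable def S198_227_586_660_3 : EL := (EL.cons 0 (TM.mk (P.cons (P.lf 812258952 0 0) (P.cons (P.lf 0 503779721 0) (P.cons (P.lf 60126632 0 0) (P.cons (P.lf 7110123 0 0) (P.cons (P.lf 0 270363 0) (P.cons (P.lf 0 53070 0) P.nil)))))) 3984)
 (EL.cons 1 (TM.mk (P.cons (P.lf 1228710643 0 0) (P.cons (P.lf 0 321830180 0) (P.cons (P.lf 0 40457490 0) (P.cons (P.lf 2710608 0 0) (P.cons (P.lf 384633 0 0) (P.cons (P.lf 0 7027 0) P.nil)))))) 2881)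
 (EL.cons 5 (TM.mk (P.cons (P.lf 1858680464 0 0) (P.cons (P.lf 179121676 0 0) (P.cons (P.lf 0 21378358 0) (P.cons (P.lf 0 2528040 0) (P.cons (P.lf 96128 0 0) (P.cons (P.lf 18870 0 0) P.nil)))))) 1690)
 EL.nil)))
noncomputable def S198_227_586_660_4 : EL := (EL.cons 0 (TM.mk (P.cons (P.cons (P.lf 0 56621343 0) (P.cons (P.lf 0 60900609 0) (P.cons (P.lf 3332235 0 0) (P.lf 370248 0 0)))) (P.cons (P.cons (P.lf 0 6148193 0) (P.cons (P.lf 28968292 0 0) (P.cons (P.lf 0 1585028 0) (P.lf 0 176113 0)))) (P.cons (P.cons (P.lf 8260827 0 0) (P.cons (P.lf 1790627 0 0) (P.cons (P.lf 0 97975 0) (P.lf 0 10884 0)))) (P.cons (P.cons (P.lf 5725880 0 0) (P.cons (P.lf 0 1526603 0) (P.cons (P.lf 83529 0 0) P.nil))) (P.cons (P.cons (P.lf 0 1774749 0) (P.cons (P.lf 0 108388 0) P.nil)) (P.cons (P.cons (P.lf 0 166899 0) P.nil) P.nil)))))) 114739)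
 (EL.cons 1 (TM.mk (P.cons (P.cons (P.lf 0 85651561 0) (P.cons (P.lf 0 92124841 0) (P.cons (P.lf 5040699 0 0) (P.lf 560075 0 0)))) (P.cons (P.cons (P.lf 0 39988989 0) (P.cons (P.lf 10812656 0 0) (P.cons (P.lf 0 591624 0) (P.lf 0 65733 0)))) (P.cons (P.cons (P.lf 0 709260 0) (P.cons (P.lf 7790041 0 0) (P.cons (P.lf 0 426238 0) (P.lf 0 47358 0)))) (P.cons (P.cons (P.lf 8775789 0 0) (P.cons (P.lf 172678 0 0) (P.cons (P.lf 0 9446 0) P.nil))) (P.cons (P.cons (P.lf 404806 0 0) (P.cons (P.lf 0 175314 0) P.nil)) (P.cons (P.cons (P.lf 0 220584 0) P.nil) P.nil)))))) 73151)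
 (EL.cons 5 (TM.mk (P.cons (P.cons (P.lf 0 129565806 0) (P.cons (P.lf 0 139357990 0) (P.cons (P.lf 7625108 0 0) (P.lf 847232 0 0)))) (P.cons (P.cons (P.lf 0 106914506 0) (P.cons (P.lf 0 33574942 0) (P.cons (P.lf 1837084 0 0) (P.lf 204118 0 0)))) (P.cons (P.cons (P.lf 0 37682032 0) (P.cons (P.lf 1580478 0 0) (P.cons (P.lf 0 86476 0) (P.lf 0 9606 0)))) (P.cons (P.cons (P.lf 939416 0 0) (P.cons (P.lf 1014142 0 0) (P.cons (P.lf 0 55486 0) P.nil))) (P.cons (P.cons (P.lf 1261334 0 0) (P.cons (P.lf 30338 0 0) P.nil)) (P.cons (P.cons (P.lf 46818 0 0) P.nil) P.nil)))))) 55892)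
 EL.nil)))
noncomputable def S198_227_586_660_5 : EL := (EL.cons 0 (TM.mk (P.cons (P.cons (P.lf 3946986 0 0) (P.cons (P.lf 8490578 0 0) (P.cons (P.lf 4101563 0 0) (P.cons (P.lf 0 551299 0) (P.cons (P.lf 0 41848 0) (P.cons (P.lf 3037 0 0) P.nil)))))) (P.cons (P.cons (P.lf 3305165 0 0) (P.cons (P.lf 2149303 0 0) (P.cons (P.lf 0 1629492 0) (P.cons (P.lf 152381 0 0) (P.cons (P.lf 13856 0 0) P.nil))))) (P.cons (P.cons (P.lf 652596 0 0) (P.cons (P.lf 0 1222384 0) (P.cons (P.lf 0 444215 0) (P.cons (P.lf 63360 0 0) P.nil)))) (P.cons (P.cons (P.lf 0 797797 0) (P.cons (P.lf 0 1075234 0) (P.cons (P.lf 170425 0 0) P.nil))) (P.cons (P.cons (P.lf 0 325972 0) (P.cons (P.lf 156802 0 0) P.nil)) (P.cons (P.cons (P.lf 19128 0 0) P.nil) P.nil)))))) 360944)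
 (EL.cons 1 (TM.mk (P.cons (P.cons (P.lf 5970639 0 0) (P.cons (P.lf 12843766 0 0) (P.cons (P.lf 6204468 0 0) (P.cons (P.lf 0 833955 0) (P.cons (P.lf 0 63305 0) (P.cons (P.lf 4593 0 0) P.nil)))))) (P.cons (P.cons (P.lf 7139004 0 0) (P.cons (P.lf 7853131 0 0) (P.cons (P.lf 0 241912 0) (P.cons (P.lf 0 68291 0) (P.cons (P.lf 0 1719 0) P.nil))))) (P.cons (P.cons (P.lf 3466822 0 0) (P.cons (P.lf 796321 0 0) (P.cons (P.lf 0 839947 0) (P.cons (P.lf 82306 0 0) P.nil)))) (P.cons (P.cons (P.lf 0 47386 0) (P.cons (P.lf 0 1420758 0) (P.cons (P.lf 0 28696 0) P.nil))) (P.cons (P.cons (P.lf 0 543131 0) (P.cons (P.lf 0 269295 0) P.nil)) (P.cons (P.cons (P.lf 0 159393 0) P.nil) P.nil)))))) 306462)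
 (EL.cons 5 (TM.mk (P.cons (P.cons (P.lf 9031836 0 0) (P.cons (P.lf 19428868 0 0) (P.cons (P.lf 9385550 0 0) (P.cons (P.lf 0 1261530 0) (P.cons (P.lf 0 95762 0) (P.cons (P.lf 6950 0 0) P.nil)))))) (P.cons (P.cons (P.lf 14035294 0 0) (P.cons (P.lf 18840774 0 0) (P.cons (P.lf 2996856 0 0) (P.cons (P.lf 0 555306 0) (P.cons (P.lf 0 36914 0) P.nil))))) (P.cons (P.cons (P.lf 10154718 0 0) (P.cons (P.lf 7700566 0 0) (P.cons (P.lf 0 319826 0) (P.cons (P.lf 0 57924 0) P.nil)))) (P.cons (P.cons (P.lf 3399202 0 0) (P.cons (P.lf 398306 0 0) (P.cons (P.lf 0 180212 0) P.nil))) (P.cons (P.cons (P.lf 287860 0 0) (P.cons (P.lf 0 333258 0) P.nil)) (P.cons (P.cons (P.lf 0 165374 0) P.nil) P.nil)))))) 242758)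
 EL.nil)))
noncomputable def S198_227_586_660_6 : EL := (EL.cons 12 (TM.mk (P.lf 8589934592 0 0) 0)
 (EL.cons 3 (TM.mk (P.cons (P.lf 0 1320724353 0) (P.cons (P.lf 409570215 0 0) (P.cons (P.lf 14623338 0 0) (P.cons (P.lf 0 1245645 0) (P.cons (P.lf 0 85526 0) (P.cons (P.lf 2831 0 0) P.nil)))))) 532)
 (EL.cons 7 (TM.mk (P.cons (P.lf 0 1997870342 0) (P.cons (P.lf 0 96267727 0) (P.cons (P.lf 13808992 0 0) (P.cons (P.lf 693290 0 0) (P.cons (P.lf 0 37347 0) (P.cons (P.lf 0 3551 0) P.nil)))))) 296)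
 EL.nil)))
noncomputable def S198_227_586_660_7 : EL := (EL.cons 12 (TM.mk (P.cons (P.cons (P.lf 0 598791364 0) (P.cons (P.lf 0 644046168 0) (P.cons (P.lf 35239616 0 0) (P.lf 3915512 0 0)))) (P.cons (P.cons (P.lf 0 436402130 0) (P.cons (P.lf 0 93100424 0) (P.cons (P.lf 5094080 0 0) (P.lf 566008 0 0)))) (P.cons (P.cons (P.lf 0 138979406 0) (P.cons (P.lf 8868592 0 0) (P.cons (P.lf 0 485248 0) (P.lf 0 53912 0)))) (P.cons (P.cons (P.lf 11901144 0 0) (P.cons (P.lf 1885408 0 0) (P.cons (P.lf 0 103152 0) P.nil))) (P.cons (P.cons (P.lf 2521254 0 0) (P.cons (P.lf 0 32792 0) P.nil)) (P.cons (P.cons (P.lf 0 50092 0) P.nil) P.nil)))))) 76810)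
 (EL.cons 3 (TM.mk (P.cons (P.cons (P.lf 0 1300436175 0) (P.cons (P.lf 0 198047480 0) (P.cons (P.lf 10836360 0 0) (P.lf 1204038 0 0)))) (P.cons (P.cons (P.lf 0 883142389 0) (P.cons (P.lf 32787706 0 0) (P.cons (P.lf 0 1794010 0) (P.lf 0 199332 0)))) (P.cons (P.cons (P.lf 97119999 0 0) (P.cons (P.lf 13798062 0 0) (P.cons (P.lf 0 754972 0) (P.lf 0 83882 0)))) (P.cons (P.cons (P.lf 29601178 0 0) (P.cons (P.lf 0 135744 0) (P.cons (P.lf 7428 0 0) P.nil))) (P.cons (P.cons (P.lf 0 457477 0) (P.cons (P.lf 0 259896 0) P.nil)) (P.cons (P.cons (P.lf 0 429864 0) P.nil) P.nil)))))) 188803)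
 (EL.cons 7 (TM.mk (P.cons (P.cons (P.lf 466570137 0 0) (P.cons (P.lf 219619332 0 0) (P.cons (P.lf 0 12016691 0) (P.lf 0 1335189 0)))) (P.cons (P.cons (P.lf 207578848 0 0) (P.cons (P.lf 0 7706608 0) (P.cons (P.lf 421673 0 0) (P.lf 46851 0 0)))) (P.cons (P.cons (P.lf 0 60014918 0) (P.cons (P.lf 0 1862559 0) (P.cons (P.lf 101912 0 0) (P.lf 11326 0 0)))) (P.cons (P.cons (P.lf 0 598226 0) (P.cons (P.lf 772915 0 0) (P.cons (P.lf 0 42287 0) P.nil))) (P.cons (P.cons (P.lf 1733296 0 0) (P.cons (P.lf 34768 0 0) P.nil)) (P.cons (P.cons (P.lf 36256 0 0) P.nil) P.nil)))))) 158208)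
 (EL.cons 10 (TM.mk (P.cons (P.cons (P.lf 0 2338621107 0) (P.cons (P.lf 293440752 0 0) (P.cons (P.lf 44800812 0 0) (P.cons (P.lf 0 1368657 0) (P.lf 0 114054 0))))) (P.cons (P.cons (P.lf 0 225373719 0) (P.cons (P.lf 28278984 0 0) (P.cons (P.lf 4317468 0 0) (P.cons (P.lf 0 131898 0) (P.lf 0 10989 0))))) (P.cons (P.cons (P.lf 26898585 0 0) (P.cons (P.lf 0 3375126 0) (P.cons (P.lf 0 515292 0) (P.cons (P.lf 15741 0 0) P.nil)))) (P.cons (P.cons (P.lf 3180819 0 0) (P.cons (P.lf 0 399114 0) (P.cons (P.lf 0 60933 0) P.nil))) (P.cons (P.cons (P.lf 0 120948 0) (P.cons (P.lf 15174 0 0) P.nil)) (P.cons (P.cons (P.lf 0 23742 0) P.nil) P.nil)))))) 11715)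
 EL.nil))))
noncomputable def S198_227_586_660_8 : EL := (EL.cons 12 (TM.mk (P.cons (P.cons (P.lf 41740840 0 0) (P.cons (P.lf 89790970 0 0) (P.cons (P.lf 43375546 0 0) (P.cons (P.lf 0 5830198 0) (P.cons (P.lf 0 442576 0) (P.cons (P.lf 32126 0 0) P.nil)))))) (P.cons (P.cons (P.lf 60841866 0 0) (P.cons (P.lf 78419886 0 0) (P.cons (P.lf 9669930 0 0) (P.cons (P.lf 0 2004508 0) (P.cons (P.lf 0 127952 0) P.nil))))) (P.cons (P.cons (P.lf 41547016 0 0) (P.cons (P.lf 29063768 0 0) (P.cons (P.lf 0 1911078 0) (P.cons (P.lf 0 141586 0) P.nil)))) (P.cons (P.cons (P.lf 12462168 0 0) (P.cons (P.lf 64008 0 0) (P.cons (P.lf 0 478468 0) P.nil))) (P.cons (P.cons (P.lf 687838 0 0) (P.cons (P.lf 0 1110024 0) P.nil)) (P.cons (P.cons (P.lf 0 634300 0) P.nil) P.nil)))))) 597012)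
 (EL.cons 3 (TM.mk (P.cons (P.cons (P.lf 187720640 0 0) (P.cons (P.lf 236421962 0 0) (P.cons (P.lf 24186374 0 0) (P.cons (P.lf 0 5499719 0) (P.cons (P.lf 0 340236 0) (P.cons (P.lf 24696 0 0) P.nil)))))) (P.cons (P.cons (P.lf 262623862 0 0) (P.cons (P.lf 183947532 0 0) (P.cons (P.lf 0 10844408 0) (P.cons (P.lf 0 1033012 0) (P.cons (P.lf 7140 0 0) P.nil))))) (P.cons (P.cons (P.lf 121690289 0 0) (P.cons (P.lf 3624876 0 0) (P.cons (P.lf 0 4184268 0) (P.cons (P.lf 414144 0 0) P.nil)))) (P.cons (P.cons (P.lf 10816401 0 0) (P.cons (P.lf 0 13427707 0) (P.cons (P.lf 362230 0 0) P.nil))) (P.cons (P.cons (P.lf 0 9847066 0) (P.cons (P.lf 0 1383065 0) P.nil)) (P.cons (P.cons (P.lf 0 1230503 0) P.nil) P.nil)))))) 1707948)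
 (EL.cons 7 (TM.mk (P.cons (P.cons (P.lf 0 55339596 0) (P.cons (P.lf 0 79698743 0) (P.cons (P.lf 0 17340848 0) (P.cons (P.lf 2859381 0 0) (P.cons (P.lf 198899 0 0) (P.cons (P.lf 0 14437 0) P.nil)))))) (P.cons (P.cons (P.lf 0 61728613 0) (P.cons (P.lf 0 43236083 0) (P.cons (P.lf 2548928 0 0) (P.cons (P.lf 242809 0 0) (P.cons (P.lf 0 1677 0) P.nil))))) (P.cons (P.cons (P.lf 0 17544239 0) (P.cons (P.lf 6893630 0 0) (P.cons (P.lf 526856 0 0) (P.cons (P.lf 0 140842 0) P.nil)))) (P.cons (P.cons (P.lf 4020180 0 0) (P.cons (P.lf 3170780 0 0) (P.cons (P.lf 0 308928 0) P.nil))) (P.cons (P.cons (P.lf 2838338 0 0) (P.cons (P.lf 0 508968 0) P.nil)) (P.cons (P.cons (P.lf 0 374623 0) P.nil) P.nil)))))) 852711)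
 (EL.cons 10 (TM.mk (P.cons (P.cons (P.lf 326043486 0 0) (P.cons (P.lf 309774222 0 0) (P.cons (P.lf 0 69436578 0) (P.cons (P.lf 0 6251598 0) (P.cons (P.lf 856236 0 0) (P.cons (P.lf 46710 0 0) P.nil)))))) (P.cons (P.cons (P.lf 269043042 0 0) (P.cons (P.lf 50730606 0 0) (P.cons (P.lf 0 20378280 0) (P.cons (P.lf 0 1394688 0) (P.cons (P.lf 215574 0 0) P.nil))))) (P.cons (P.cons (P.lf 94824258 0 0) (P.cons (P.lf 0 15875334 0) (P.cons (P.lf 0 1099890 0) (P.cons (P.lf 128556 0 0) P.nil)))) (P.cons (P.cons (P.lf 0 2363976 0) (P.cons (P.lf 0 2255400 0) (P.cons (P.lf 505134 0 0) P.nil))) (P.cons (P.cons (P.lf 0 3174060 0) (P.cons (P.lf 321918 0 0) P.nil)) (P.cons (P.cons (P.lf 0 117816 0) P.nil) P.nil)))))) 452508)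
 EL.nil))))
noncomputable def S198_227_586_660_9 : EL := (EL.cons 3 (TM.mk (P.cons (P.lf 0 1320724353 0) (P.cons (P.lf 409570215 0 0) (P.cons (P.lf 14623338 0 0) (P.cons (P.lf 0 1245645 0) (P.cons (P.lf 0 85526 0) (P.cons (P.lf 2831 0 0) P.nil)))))) 532)
 (EL.cons 7 (TM.mk (P.cons (P.lf 0 1997870342 0) (P.cons (P.lf 0 96267727 0) (P.cons (P.lf 13808992 0 0) (P.cons (P.lf 693290 0 0) (P.cons (P.lf 0 37347 0) (P.cons (P.lf 0 3551 0) P.nil)))))) 296)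
 EL.nil))
noncomputable def S198_227_586_660_10 : EL := (EL.cons 3 (TM.mk (P.cons (P.cons (P.lf 92065698 0 0) (P.cons (P.lf 99023740 0 0) (P.cons (P.lf 0 5418180 0) (P.lf 0 602019 0)))) (P.cons (P.cons (P.lf 38547419 0 0) (P.cons (P.lf 0 16393853 0) (P.cons (P.lf 897005 0 0) (P.lf 99666 0 0)))) (P.cons (P.cons (P.lf 0 458694 0) (P.cons (P.lf 0 6899031 0) (P.cons (P.lf 377486 0 0) (P.lf 41941 0 0)))) (P.cons (P.cons (P.lf 0 9112493 0) (P.cons (P.lf 67872 0 0) (P.cons (P.lf 0 3714 0) P.nil))) (P.cons (P.cons (P.lf 12449 0 0) (P.cons (P.lf 129948 0 0) P.nil)) (P.cons (P.cons (P.lf 172476 0 0) P.nil) P.nil)))))) 45528)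
 (EL.cons 7 (TM.mk (P.cons (P.cons (P.lf 139268523 0 0) (P.cons (P.lf 149794008 0 0) (P.cons (P.lf 0 8196125 0) (P.lf 0 910680 0)))) (P.cons (P.cons (P.lf 108210271 0 0) (P.cons (P.lf 28871399 0 0) (P.cons (P.lf 0 1579726 0) (P.lf 0 175524 0)))) (P.cons (P.cons (P.lf 36252379 0 0) (P.cons (P.lf 0 2054655 0) (P.cons (P.lf 112421 0 0) (P.lf 12490 0 0)))) (P.cons (P.cons (P.lf 0 1960331 0) (P.cons (P.lf 0 739550 0) (P.cons (P.lf 40462 0 0) P.nil))) (P.cons (P.cons (P.lf 0 975815 0) (P.cons (P.lf 0 3959 0) P.nil)) (P.cons (P.cons (P.lf 0 6545 0) P.nil) P.nil)))))) 35543)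
 EL.nil))
noncomputable def S198_227_586_660_11 : EL := (EL.cons 3 (TM.mk (P.cons (P.cons (P.lf 0 6417760 0) (P.cons (P.lf 0 13805590 0) (P.cons (P.lf 0 6669100 0) (P.cons (P.lf 896407 0 0) (P.cons (P.lf 68046 0 0) (P.cons (P.lf 0 4938 0) P.nil)))))) (P.cons (P.cons (P.lf 0 7364378 0) (P.cons (P.lf 0 7776000 0) (P.cons (P.lf 581380 0 0) (P.cons (P.lf 30212 0 0) (P.cons (P.lf 0 1428 0) P.nil))))) (P.cons (P.cons (P.lf 0 3415945 0) (P.cons (P.lf 0 576690 0) (P.cons (P.lf 828738 0 0) (P.cons (P.lf 0 83730 0) P.nil)))) (P.cons (P.cons (P.lf 162405 0 0) (P.cons (P.lf 1496405 0 0) (P.cons (P.lf 0 7382 0) P.nil))) (P.cons (P.cons (P.lf 549932 0 0) (P.cons (P.lf 210931 0 0) P.nil)) (P.cons (P.cons (P.lf 144919 0 0) P.nil) P.nil)))))) 266570)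
 (EL.cons 7 (TM.mk (P.cons (P.cons (P.lf 0 9708198 0) (P.cons (P.lf 0 20883827 0) (P.cons (P.lf 0 10088402 0) (P.cons (P.lf 1356003 0 0) (P.cons (P.lf 102935 0 0) (P.cons (P.lf 0 7471 0) P.nil)))))) (P.cons (P.cons (P.lf 0 14618557 0) (P.cons (P.lf 0 19245401 0) (P.cons (P.lf 0 2735170 0) (P.cons (P.lf 531553 0 0) (P.cons (P.lf 34719 0 0) P.nil))))) (P.cons (P.cons (P.lf 0 10277873 0) (P.cons (P.lf 0 7494238 0) (P.cons (P.lf 405842 0 0) (P.cons (P.lf 46022 0 0) P.nil)))) (P.cons (P.cons (P.lf 0 3262926 0) (P.cons (P.lf 0 207292 0) (P.cons (P.lf 151746 0 0) P.nil))) (P.cons (P.cons (P.lf 0 228124 0) (P.cons (P.lf 310116 0 0) P.nil)) (P.cons (P.cons (P.lf 162923 0 0) P.nil) P.nil)))))) 193523)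
 EL.nil))
noncomputable def S198_227_586_660_12 : EL := (EL.cons 4 (TM.mk (P.cons (P.lf 1320724353 0 0) (P.cons (P.lf 0 409570215 0) (P.cons (P.lf 0 14623338 0) (P.cons (P.lf 1245645 0 0) (P.cons (P.lf 85526 0 0) (P.cons (P.lf 0 2831 0) P.nil)))))) 532)
 (EL.cons 8 (TM.mk (P.cons (P.lf 1997870342 0 0) (P.cons (P.lf 96267727 0 0) (P.cons (P.lf 0 13808992 0) (P.cons (P.lf 0 693290 0) (P.cons (P.lf 37347 0 0) (P.cons (P.lf 3551 0 0) P.nil)))))) 296)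
 EL.nil))
noncomputable def S198_227_586_660_13 : EL := (EL.cons 4 (TM.mk (P.cons (P.cons (P.lf 0 92065698 0) (P.cons (P.lf 0 99023740 0) (P.cons (P.lf 5418180 0 0) (P.lf 602019 0 0)))) (P.cons (P.cons (P.lf 0 38547419 0) (P.cons (P.lf 16393853 0 0) (P.cons (P.lf 0 897005 0) (P.lf 0 99666 0)))) (P.cons (P.cons (P.lf 458694 0 0) (P.cons (P.lf 6899031 0 0) (P.cons (P.lf 0 377486 0) (P.lf 0 41941 0)))) (P.cons (P.cons (P.lf 9112493 0 0) (P.cons (P.lf 0 67872 0) (P.cons (P.lf 3714 0 0) P.nil))) (P.cons (P.cons (P.lf 0 12449 0) (P.cons (P.lf 0 129948 0) P.nil)) (P.cons (P.cons (P.lf 0 172476 0) P.nil) P.nil)))))) 45528)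
 (EL.cons 8 (TM.mk (P.cons (P.cons (P.lf 0 139268523 0) (P.cons (P.lf 0 149794008 0) (P.cons (P.lf 8196125 0 0) (P.lf 910680 0 0)))) (P.cons (P.cons (P.lf 0 108210271 0) (P.cons (P.lf 0 28871399 0) (P.cons (P.lf 1579726 0 0) (P.lf 175524 0 0)))) (P.cons (P.cons (P.lf 0 36252379 0) (P.cons (P.lf 2054655 0 0) (P.cons (P.lf 0 112421 0) (P.lf 0 12490 0)))) (P.cons (P.cons (P.lf 1960331 0 0) (P.cons (P.lf 739550 0 0) (P.cons (P.lf 0 40462 0) P.nil))) (P.cons (P.cons (P.lf 975815 0 0) (P.cons (P.lf 3959 0 0) P.nil)) (P.cons (P.cons (P.lf 6545 0 0) P.nil) P.nil)))))) 35543)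
 EL.nil))
noncomputable def S198_227_586_660_14 : EL := (EL.cons 4 (TM.mk (P.cons (P.cons (P.lf 6417760 0 0) (P.cons (P.lf 13805590 0 0) (P.cons (P.lf 6669100 0 0) (P.cons (P.lf 0 896407 0) (P.cons (P.lf 0 68046 0) (P.cons (P.lf 4938 0 0) P.nil)))))) (P.cons (P.cons (P.lf 7364378 0 0) (P.cons (P.lf 7776000 0 0) (P.cons (P.lf 0 581380 0) (P.cons (P.lf 0 30212 0) (P.cons (P.lf 1428 0 0) P.nil))))) (P.cons (P.cons (P.lf 3415945 0 0) (P.cons (P.lf 576690 0 0) (P.cons (P.lf 0 828738 0) (P.cons (P.lf 83730 0 0) P.nil)))) (P.cons (P.cons (P.lf 0 162405 0) (P.cons (P.lf 0 1496405 0) (P.cons (P.lf 7382 0 0) P.nil))) (P.cons (P.cons (P.lf 0 549932 0) (P.cons (P.lf 0 210931 0) P.nil)) (P.cons (P.cons (P.lf 0 144919 0) P.nil) P.nil)))))) 266570)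
 (EL.cons 8 (TM.mk (P.cons (P.cons (P.lf 9708198 0 0) (P.cons (P.lf 20883827 0 0) (P.cons (P.lf 10088402 0 0) (P.cons (P.lf 0 1356003 0) (P.cons (P.lf 0 102935 0) (P.cons (P.lf 7471 0 0) P.nil)))))) (P.cons (P.cons (P.lf 14618557 0 0) (P.cons (P.lf 19245401 0 0) (P.cons (P.lf 2735170 0 0) (P.cons (P.lf 0 531553 0) (P.cons (P.lf 0 34719 0) P.nil))))) (P.cons (P.cons (P.lf 10277873 0 0) (P.cons (P.lf 7494238 0 0) (P.cons (P.lf 0 405842 0) (P.cons (P.lf 0 46022 0) P.nil)))) (P.cons (P.cons (P.lf 3262926 0 0) (P.cons (P.lf 207292 0 0) (P.cons (P.lf 0 151746 0) P.nil))) (P.cons (P.cons (P.lf 228124 0 0) (P.cons (P.lf 0 310116 0) P.nil)) (P.cons (P.cons (P.lf 0 162923 0) P.nil) P.nil)))))) 193523)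
 EL.nil))
noncomputable def S198_227_586_660_15 : EL := (EL.cons 4 (TM.mk (P.cons (P.lf 0 433204774 0) (P.cons (P.lf 268682518 0 0) (P.cons (P.lf 0 32067537 0) (P.cons (P.lf 0 3792065 0) (P.cons (P.lf 144194 0 0) (P.cons (P.lf 28304 0 0) P.nil)))))) 2128)
 (EL.cons 8 (TM.mk (P.cons (P.lf 0 655312343 0) (P.cons (P.lf 171642763 0 0) (P.cons (P.lf 21577328 0 0) (P.cons (P.lf 0 1445658 0) (P.cons (P.lf 0 205138 0) (P.cons (P.lf 3748 0 0) P.nil)))))) 1533)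
 EL.nil))
noncomputable def S198_227_586_660_16 : EL := (EL.cons 4 (TM.mk (P.cons (P.cons (P.lf 30198049 0 0) (P.cons (P.lf 32480325 0 0) (P.cons (P.lf 0 1777192 0) (P.lf 0 197465 0)))) (P.cons (P.cons (P.lf 3279036 0 0) (P.cons (P.lf 0 15449756 0) (P.cons (P.lf 845348 0 0) (P.lf 93927 0 0)))) (P.cons (P.cons (P.lf 0 4405774 0) (P.cons (P.lf 0 955001 0) (P.cons (P.lf 52253 0 0) (P.lf 5805 0 0)))) (P.cons (P.cons (P.lf 0 3053803 0) (P.cons (P.lf 814188 0 0) (P.cons (P.lf 0 44549 0) P.nil))) (P.cons (P.cons (P.lf 946532 0 0) (P.cons (P.lf 57807 0 0) P.nil)) (P.cons (P.cons (P.lf 89012 0 0) P.nil) P.nil)))))) 61203)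
 (EL.cons 8 (TM.mk (P.cons (P.cons (P.lf 45680833 0 0) (P.cons (P.lf 49133249 0 0) (P.cons (P.lf 0 2688373 0) (P.lf 0 298707 0)))) (P.cons (P.cons (P.lf 21327461 0 0) (P.cons (P.lf 0 5766750 0) (P.cons (P.lf 315533 0 0) (P.lf 35058 0 0)))) (P.cons (P.cons (P.lf 378272 0 0) (P.cons (P.lf 0 4154689 0) (P.cons (P.lf 227327 0 0) (P.lf 25258 0 0)))) (P.cons (P.cons (P.lf 0 4680421 0) (P.cons (P.lf 0 92095 0) (P.cons (P.lf 5038 0 0) P.nil))) (P.cons (P.cons (P.lf 0 215897 0) (P.cons (P.lf 93501 0 0) P.nil)) (P.cons (P.cons (P.lf 117645 0 0) P.nil) P.nil)))))) 39004)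
 EL.nil))
noncomputable def S198_227_586_660_17 : EL := (EL.cons 4 (TM.mk (P.cons (P.cons (P.lf 0 2105059 0) (P.cons (P.lf 0 4528308 0) (P.cons (P.lf 0 2187500 0) (P.cons (P.lf 294026 0 0) (P.cons (P.lf 22319 0 0) (P.cons (P.lf 0 1620 0) P.nil)))))) (P.cons (P.cons (P.lf 0 1762755 0) (P.cons (P.lf 0 1146295 0) (P.cons (P.lf 869062 0 0) (P.cons (P.lf 0 81270 0) (P.cons (P.lf 0 7390 0) P.nil))))) (P.cons (P.cons (P.lf 0 348051 0) (P.cons (P.lf 651938 0 0) (P.cons (P.lf 236914 0 0) (P.cons (P.lf 0 33792 0) P.nil)))) (P.cons (P.cons (P.lf 425491 0 0) (P.cons (P.lf 573458 0 0) (P.cons (P.lf 0 90893 0) P.nil))) (P.cons (P.cons (P.lf 173851 0 0) (P.cons (P.lf 0 83627 0) P.nil)) (P.cons (P.cons (P.lf 0 10201 0) P.nil) P.nil)))))) 192514)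
 (EL.cons 8 (TM.mk (P.cons (P.cons (P.lf 0 3184341 0) (P.cons (P.lf 0 6850009 0) (P.cons (P.lf 0 3309050 0) (P.cons (P.lf 444776 0 0) (P.cons (P.lf 33763 0 0) (P.cons (P.lf 0 2450 0) P.nil)))))) (P.cons (P.cons (P.lf 0 3807469 0) (P.cons (P.lf 0 4188337 0) (P.cons (P.lf 129020 0 0) (P.cons (P.lf 36422 0 0) (P.cons (P.lf 917 0 0) P.nil))))) (P.cons (P.cons (P.lf 0 1848972 0) (P.cons (P.lf 0 424705 0) (P.cons (P.lf 447972 0 0) (P.cons (P.lf 0 43897 0) P.nil)))) (P.cons (P.cons (P.lf 25273 0 0) (P.cons (P.lf 757738 0 0) (P.cons (P.lf 15305 0 0) P.nil))) (P.cons (P.cons (P.lf 289670 0 0) (P.cons (P.lf 143624 0 0) P.nil)) (P.cons (P.cons (P.lf 85010 0 0) P.nil) P.nil)))))) 163435)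
 EL.nil))
noncomputable def S198_227_586_660_18 : EL := (EL.cons 4 (TM.mk (P.cons (P.lf 142093522 0 0) (P.cons (P.lf 0 132193991 0) (P.cons (P.lf 36274848 0 0) (P.cons (P.lf 0 908220 0) (P.cons (P.lf 0 623396 0) (P.cons (P.lf 0 4479 0) P.nil)))))) 6741)
 (EL.cons 8 (TM.mk (P.cons (P.lf 214946014 0 0) (P.cons (P.lf 0 122956731 0) (P.cons (P.lf 8001726 0 0) (P.cons (P.lf 3495072 0 0) (P.cons (P.lf 0 40579 0) (P.cons (P.lf 0 38127 0) P.nil)))))) 3726)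
 EL.nil))
noncomputable def S198_227_586_660_19 : EL := (EL.cons 4 (TM.mk (P.cons (P.cons (P.lf 0 9905124 0) (P.cons (P.lf 0 10653722 0) (P.cons (P.lf 582928 0 0) (P.lf 64769 0 0)))) (P.cons (P.cons (P.lf 1996139 0 0) (P.cons (P.lf 8371433 0 0) (P.cons (P.lf 0 458050 0) (P.lf 0 50894 0)))) (P.cons (P.cons (P.lf 1888325 0 0) (P.cons (P.lf 0 1140310 0) (P.cons (P.lf 62392 0 0) (P.lf 6931 0 0)))) (P.cons (P.cons (P.lf 556083 0 0) (P.cons (P.lf 0 430356 0) (P.cons (P.lf 23547 0 0) P.nil))) (P.cons (P.cons (P.lf 0 638750 0) (P.cons (P.lf 64477 0 0) P.nil)) (P.cons (P.cons (P.lf 57305 0 0) P.nil) P.nil)))))) 58582)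
 (EL.cons 8 (TM.mk (P.cons (P.cons (P.lf 0 14983561 0) (P.cons (P.lf 0 16115972 0) (P.cons (P.lf 881801 0 0) (P.lf 97977 0 0)))) (P.cons (P.cons (P.lf 0 2348966 0) (P.cons (P.lf 6889254 0 0) (P.cons (P.lf 0 376952 0) (P.lf 0 41883 0)))) (P.cons (P.cons (P.lf 2211209 0 0) (P.cons (P.lf 954618 0 0) (P.cons (P.lf 0 52232 0) (P.lf 0 5803 0)))) (P.cons (P.cons (P.lf 1637005 0 0) (P.cons (P.lf 0 428541 0) (P.cons (P.lf 23448 0 0) P.nil))) (P.cons (P.cons (P.lf 0 411461 0) (P.cons (P.lf 0 54385 0) P.nil)) (P.cons (P.cons (P.lf 0 78084 0) P.nil) P.nil)))))) 45553)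
 EL.nil))
noncomputable def S198_227_586_660_20 : EL := (EL.cons 4 (TM.mk (P.cons (P.cons (P.lf 690470 0 0) (P.cons (P.lf 1485309 0 0) (P.cons (P.lf 717511 0 0) (P.cons (P.lf 0 96441 0) (P.cons (P.lf 0 7320 0) (P.cons (P.lf 530 0 0) P.nil)))))) (P.cons (P.cons (P.lf 364070 0 0) (P.cons (P.lf 0 84617 0) (P.cons (P.lf 0 507564 0) (P.cons (P.lf 56564 0 0) (P.cons (P.lf 4694 0 0) P.nil))))) (P.cons (P.cons (P.lf 0 72785 0) (P.cons (P.lf 0 346883 0) (P.cons (P.lf 2745 0 0) (P.cons (P.lf 3885 0 0) P.nil)))) (P.cons (P.cons (P.lf 0 180717 0) (P.cons (P.lf 0 124545 0) (P.cons (P.lf 57744 0 0) P.nil))) (P.cons (P.cons (P.lf 0 14417 0) (P.cons (P.lf 88579 0 0) P.nil)) (P.cons (P.cons (P.lf 22718 0 0) P.nil) P.nil)))))) 116734)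
 (EL.cons 8 (TM.mk (P.cons (P.cons (P.lf 1044481 0 0) (P.cons (P.lf 2246840 0 0) (P.cons (P.lf 1085386 0 0) (P.cons (P.lf 0 145888 0) (P.cons (P.lf 0 11074 0) (P.cons (P.lf 803 0 0) P.nil)))))) (P.cons (P.cons (P.lf 924966 0 0) (P.cons (P.lf 677029 0 0) (P.cons (P.lf 0 378908 0) (P.cons (P.lf 33294 0 0) (P.cons (P.lf 3133 0 0) P.nil))))) (P.cons (P.cons (P.lf 207620 0 0) (P.cons (P.lf 0 311600 0) (P.cons (P.lf 0 145831 0) (P.cons (P.lf 19718 0 0) P.nil)))) (P.cons (P.cons (P.lf 0 209205 0) (P.cons (P.lf 0 304834 0) (P.cons (P.lf 42038 0 0) P.nil))) (P.cons (P.cons (P.lf 0 97911 0) (P.cons (P.lf 29864 0 0) P.nil)) (P.cons (P.cons (P.lf 2322 0 0) P.nil) P.nil)))))) 111472)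
 EL.nil))
noncomputable def S198_227_586_660_21 : EL := (EL.cons 4 (TM.mk (P.cons (P.cons (P.lf 1392501873 0 0) (P.cons (P.lf 297071220 0 0) (P.cons (P.lf 0 16254540 0) (P.lf 0 1806057 0)))) (P.cons (P.cons (P.lf 921689808 0 0) (P.cons (P.lf 0 49181559 0) (P.cons (P.lf 2691015 0 0) (P.lf 298998 0 0)))) (P.cons (P.cons (P.lf 0 97578693 0) (P.cons (P.lf 0 20697093 0) (P.cons (P.lf 1132458 0 0) (P.lf 125823 0 0)))) (P.cons (P.cons (P.lf 0 38713671 0) (P.cons (P.lf 203616 0 0) (P.cons (P.lf 0 11142 0) P.nil))) (P.cons (P.cons (P.lf 469926 0 0) (P.cons (P.lf 389844 0 0) P.nil)) (P.cons (P.cons (P.lf 602340 0 0) P.nil) P.nil)))))) 143256)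
 (EL.cons 8 (TM.mk (P.cons (P.cons (P.lf 0 327301614 0) (P.cons (P.lf 0 69825324 0) (P.cons (P.lf 3820566 0 0) (P.lf 424509 0 0)))) (P.cons (P.cons (P.lf 0 99368577 0) (P.cons (P.lf 36578007 0 0) (P.cons (P.lf 0 2001399 0) (P.lf 0 222375 0)))) (P.cons (P.cons (P.lf 96267297 0 0) (P.cons (P.lf 0 192096 0) (P.cons (P.lf 10509 0 0) (P.lf 1164 0 0)))) (P.cons (P.cons (P.lf 0 1362105 0) (P.cons (P.lf 0 1512465 0) (P.cons (P.lf 82749 0 0) P.nil))) (P.cons (P.cons (P.lf 0 2709111 0) (P.cons (P.lf 0 38727 0) P.nil)) (P.cons (P.cons (P.lf 0 42801 0) P.nil) P.nil)))))) 122646)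
 (EL.cons 11 (TM.mk (P.cons (P.cons (P.lf 2338621107 0 0) (P.cons (P.lf 0 293440752 0) (P.cons (P.lf 0 44800812 0) (P.cons (P.lf 1368657 0 0) (P.lf 114054 0 0))))) (P.cons (P.cons (P.lf 225373719 0 0) (P.cons (P.lf 0 28278984 0) (P.cons (P.lf 0 4317468 0) (P.cons (P.lf 131898 0 0) (P.lf 10989 0 0))))) (P.cons (P.cons (P.lf 0 26898585 0) (P.cons (P.lf 3375126 0 0) (P.cons (P.lf 515292 0 0) (P.cons (P.lf 0 15741 0) P.nil)))) (P.cons (P.cons (P.lf 0 3180819 0) (P.cons (P.lf 399114 0 0) (P.cons (P.lf 60933 0 0) P.nil))) (P.cons (P.cons (P.lf 120948 0 0) (P.cons (P.lf 0 15174 0) P.nil)) (P.cons (P.cons (P.lf 23742 0 0) P.nil) P.nil)))))) 11715)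
 EL.nil)))
noncomputable def S198_227_586_660_22 : EL := (EL.cons 4 (TM.mk (P.cons (P.cons (P.lf 0 97069200 0) (P.cons (P.lf 0 125113776 0) (P.cons (P.lf 0 15427737 0) (P.cons (P.lf 3198063 0 0) (P.cons (P.lf 204141 0 0) (P.cons (P.lf 0 14817 0) P.nil)))))) (P.cons (P.cons (P.lf 0 134994120 0) (P.cons (P.lf 0 95861766 0) (P.cons (P.lf 5712894 0 0) (P.cons (P.lf 531612 0 0) (P.cons (P.lf 0 4284 0) P.nil))))) (P.cons (P.cons (P.lf 0 62553117 0) (P.cons (P.lf 0 2100783 0) (P.cons (P.lf 2506503 0 0) (P.cons (P.lf 0 248937 0) P.nil)))) (P.cons (P.cons (P.lf 0 5326998 0) (P.cons (P.lf 7462056 0 0) (P.cons (P.lf 0 184806 0) P.nil))) (P.cons (P.cons (P.lf 5198499 0 0) (P.cons (P.lf 796998 0 0) P.nil)) (P.cons (P.cons (P.lf 687711 0 0) P.nil) P.nil)))))) 720678)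
 (EL.cons 8 (TM.mk (P.cons (P.cons (P.lf 22815699 0 0) (P.cons (P.lf 29407458 0 0) (P.cons (P.lf 3626223 0 0) (P.cons (P.lf 0 751689 0) (P.cons (P.lf 0 47982 0) (P.cons (P.lf 3483 0 0) P.nil)))))) (P.cons (P.cons (P.lf 23555028 0 0) (P.cons (P.lf 11995341 0 0) (P.cons (P.lf 0 2642049 0) (P.cons (P.lf 144372 0 0) (P.cons (P.lf 18198 0 0) P.nil))))) (P.cons (P.cons (P.lf 3633183 0 0) (P.cons (P.lf 0 7193934 0) (P.cons (P.lf 0 60507 0) (P.cons (P.lf 93432 0 0) P.nil)))) (P.cons (P.cons (P.lf 0 3641553 0) (P.cons (P.lf 0 1689036 0) (P.cons (P.lf 230337 0 0) P.nil))) (P.cons (P.cons (P.lf 0 1533231 0) (P.cons (P.lf 409542 0 0) P.nil)) (P.cons (P.cons (P.lf 268773 0 0) P.nil) P.nil)))))) 329583)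
 (EL.cons 11 (TM.mk (P.cons (P.cons (P.lf 0 163021743 0) (P.cons (P.lf 0 154887111 0) (P.cons (P.lf 34718289 0 0) (P.cons (P.lf 3125799 0 0) (P.cons (P.lf 0 428118 0) (P.cons (P.lf 0 23355 0) P.nil)))))) (P.cons (P.cons (P.lf 0 134521521 0) (P.cons (P.lf 0 25365303 0) (P.cons (P.lf 10189140 0 0) (P.cons (P.lf 697344 0 0) (P.cons (P.lf 0 107787 0) P.nil))))) (P.cons (P.cons (P.lf 0 47412129 0) (P.cons (P.lf 7937667 0 0) (P.cons (P.lf 549945 0 0) (P.cons (P.lf 0 64278 0) P.nil)))) (P.cons (P.cons (P.lf 1181988 0 0) (P.cons (P.lf 1127700 0 0) (P.cons (P.lf 0 252567 0) P.nil))) (P.cons (P.cons (P.lf 1587030 0 0) (P.cons (P.lf 0 160959 0) P.nil)) (P.cons (P.cons (P.lf 58908 0 0) P.nil) P.nil)))))) 226254)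
 EL.nil)))
noncomputable def S198_227_586_660_23 : EL := (EL.cons 4 (TM.mk (P.cons (P.cons (P.lf 0 456748191 0) (P.cons (P.lf 0 97440975 0) (P.cons (P.lf 5331576 0 0) (P.lf 592395 0 0)))) (P.cons (P.cons (P.lf 0 160676955 0) (P.cons (P.lf 46349268 0 0) (P.cons (P.lf 0 2536044 0) (P.lf 0 281781 0)))) (P.cons (P.cons (P.lf 130815870 0 0) (P.cons (P.lf 2865003 0 0) (P.cons (P.lf 0 156759 0) (P.lf 0 17415 0)))) (P.cons (P.cons (P.lf 5689356 0 0) (P.cons (P.lf 0 2442567 0) (P.cons (P.lf 133647 0 0) P.nil))) (P.cons (P.cons (P.lf 0 4761102 0) (P.cons (P.lf 0 173421 0) P.nil)) (P.cons (P.cons (P.lf 0 278778 0) P.nil) P.nil)))))) 215832)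
 (EL.cons 8 (TM.mk (P.cons (P.cons (P.lf 107356710 0 0) (P.cons (P.lf 22903086 0 0) (P.cons (P.lf 0 1253166 0) (P.lf 0 139239 0)))) (P.cons (P.cons (P.lf 0 698985 0) (P.cons (P.lf 0 19100268 0) (P.cons (P.lf 1045089 0 0) (P.lf 116118 0 0)))) (P.cons (P.cons (P.lf 0 42872430 0) (P.cons (P.lf 3530055 0 0) (P.cons (P.lf 0 193149 0) (P.lf 0 21459 0)))) (P.cons (P.cons (P.lf 9979254 0 0) (P.cons (P.lf 630999 0 0) (P.cons (P.lf 0 34521 0) P.nil))) (P.cons (P.cons (P.lf 1137363 0 0) (P.cons (P.lf 0 151671 0) P.nil)) (P.cons (P.cons (P.lf 0 294372 0) P.nil) P.nil)))))) 92904)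
 (EL.cons 11 (TM.mk (P.cons (P.cons (P.lf 0 767080446 0) (P.cons (P.lf 96250161 0 0) (P.cons (P.lf 14694909 0 0) (P.cons (P.lf 0 448926 0) (P.lf 0 37410 0))))) (P.cons (P.cons (P.lf 163955733 0 0) (P.cons (P.lf 0 20572503 0) (P.cons (P.lf 0 3140889 0) (P.cons (P.lf 95952 0 0) (P.lf 7995 0 0))))) (P.cons (P.cons (P.lf 40240689 0 0) (P.cons (P.lf 0 5049237 0) (P.cons (P.lf 0 770886 0) (P.cons (P.lf 23550 0 0) P.nil)))) (P.cons (P.cons (P.lf 0 1597713 0) (P.cons (P.lf 200475 0 0) (P.cons (P.lf 30606 0 0) P.nil))) (P.cons (P.cons (P.lf 0 580299 0) (P.cons (P.lf 72813 0 0) P.nil)) (P.cons (P.cons (P.lf 0 1857 0) P.nil) P.nil)))))) 30600)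
 EL.nil)))
noncomputable def S198_227_586_660_24 : EL := (EL.cons 4 (TM.mk (P.cons (P.cons (P.lf 31839225 0 0) (P.cons (P.lf 41037999 0 0) (P.cons (P.lf 5060382 0 0) (P.cons (P.lf 0 1048980 0) (P.cons (P.lf 0 66957 0) (P.cons (P.lf 4860 0 0) P.nil)))))) (P.cons (P.cons (P.lf 34405134 0 0) (P.cons (P.lf 18716874 0 0) (P.cons (P.lf 0 3443136 0) (P.cons (P.lf 150927 0 0) (P.cons (P.lf 22170 0 0) P.nil))))) (P.cons (P.cons (P.lf 6433917 0 0) (P.cons (P.lf 0 9516165 0) (P.cons (P.lf 0 297072 0) (P.cons (P.lf 147342 0 0) P.nil)))) (P.cons (P.cons (P.lf 0 5075718 0) (P.cons (P.lf 0 2970720 0) (P.cons (P.lf 341094 0 0) P.nil))) (P.cons (P.cons (P.lf 0 2430339 0) (P.cons (P.lf 522285 0 0) P.nil)) (P.cons (P.cons (P.lf 306009 0 0) P.nil) P.nil)))))) 547371)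
 (EL.cons 8 (TM.mk (P.cons (P.cons (P.lf 0 7483674 0) (P.cons (P.lf 0 9645804 0) (P.cons (P.lf 0 1189419 0) (P.cons (P.lf 246558 0 0) (P.cons (P.lf 15738 0 0) (P.cons (P.lf 0 1140 0) P.nil)))))) (P.cons (P.cons (P.lf 0 5405412 0) (P.cons (P.lf 0 943272 0) (P.cons (P.lf 1235457 0 0) (P.cons (P.lf 0 123813 0) (P.cons (P.lf 0 10848 0) P.nil))))) (P.cons (P.cons (P.lf 1287123 0 0) (P.cons (P.lf 3686589 0 0) (P.cons (P.lf 0 235725 0) (P.cons (P.lf 0 18690 0) P.nil)))) (P.cons (P.cons (P.lf 1642494 0 0) (P.cons (P.lf 0 143271 0) (P.cons (P.lf 0 92424 0) P.nil))) (P.cons (P.cons (P.lf 137919 0 0) (P.cons (P.lf 0 336597 0) P.nil)) (P.cons (P.cons (P.lf 0 258948 0) P.nil) P.nil)))))) 131454)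
 (EL.cons 11 (TM.mk (P.cons (P.cons (P.lf 53472018 0 0) (P.cons (P.lf 50803815 0 0) (P.cons (P.lf 0 11387787 0) (P.cons (P.lf 0 1025277 0) (P.cons (P.lf 140424 0 0) (P.cons (P.lf 7659 0 0) P.nil)))))) (P.cons (P.cons (P.lf 27541566 0 0) (P.cons (P.lf 0 7434825 0) (P.cons (P.lf 189375 0 0) (P.cons (P.lf 89214 0 0) (P.cons (P.lf 0 8190 0) P.nil))))) (P.cons (P.cons (P.lf 1276140 0 0) (P.cons (P.lf 0 5746212 0) (P.cons (P.lf 982119 0 0) (P.cons (P.lf 103365 0 0) P.nil)))) (P.cons (P.cons (P.lf 0 5648472 0) (P.cons (P.lf 393303 0 0) (P.cons (P.lf 165045 0 0) P.nil))) (P.cons (P.cons (P.lf 0 527436 0) (P.cons (P.lf 207465 0 0) P.nil)) (P.cons (P.cons (P.lf 163809 0 0) P.nil) P.nil)))))) 176307)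
 EL.nil)))
noncomputable def S198_227_586_660_25 : EL := (EL.cons 4 (TM.mk (P.cons (P.cons (P.lf 149815890 0 0) (P.cons (P.lf 31961169 0 0) (P.cons (P.lf 0 1748784 0) (P.lf 0 194307 0)))) (P.cons (P.cons (P.lf 6243465 0 0) (P.cons (P.lf 0 25114299 0) (P.cons (P.lf 1374153 0 0) (P.lf 152682 0 0)))) (P.cons (P.cons (P.lf 0 60910827 0) (P.cons (P.lf 3420930 0 0) (P.cons (P.lf 0 187179 0) (P.lf 0 20796 0)))) (P.cons (P.cons (P.lf 10997931 0 0) (P.cons (P.lf 1291068 0 0) (P.cons (P.lf 0 70641 0) P.nil))) (P.cons (P.cons (P.lf 2674875 0 0) (P.cons (P.lf 0 193431 0) P.nil)) (P.cons (P.cons (P.lf 0 409560 0) P.nil) P.nil)))))) 210570)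
 (EL.cons 8 (TM.mk (P.cons (P.cons (P.lf 0 35213583 0) (P.cons (P.lf 0 7512336 0) (P.cons (P.lf 411045 0 0) (P.lf 45669 0 0)))) (P.cons (P.cons (P.lf 11149365 0 0) (P.cons (P.lf 8594643 0 0) (P.cons (P.lf 0 470262 0) (P.lf 0 52251 0)))) (P.cons (P.cons (P.lf 14381184 0 0) (P.cons (P.lf 0 3017538 0) (P.cons (P.lf 165105 0 0) (P.lf 18342 0 0)))) (P.cons (P.cons (P.lf 0 7669890 0) (P.cons (P.lf 75645 0 0) (P.cons (P.lf 0 4137 0) P.nil))) (P.cons (P.cons (P.lf 484239 0 0) (P.cons (P.lf 132174 0 0) P.nil)) (P.cons (P.cons (P.lf 261840 0 0) P.nil) P.nil)))))) 86214)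
 (EL.cons 11 (TM.mk (P.cons (P.cons (P.lf 251606559 0 0) (P.cons (P.lf 0 31570575 0) (P.cons (P.lf 0 4820010 0) (P.cons (P.lf 147249 0 0) (P.lf 12270 0 0))))) (P.cons (P.cons (P.lf 0 131804157 0) (P.cons (P.lf 16538253 0 0) (P.cons (P.lf 2524962 0 0) (P.cons (P.lf 0 77136 0) (P.lf 0 6426 0))))) (P.cons (P.cons (P.lf 692217 0 0) (P.cons (P.lf 0 86856 0) (P.cons (P.lf 0 13260 0) (P.cons (P.lf 405 0 0) P.nil)))) (P.cons (P.cons (P.lf 5450004 0 0) (P.cons (P.lf 0 683844 0) (P.cons (P.lf 0 104403 0) P.nil))) (P.cons (P.cons (P.lf 139542 0 0) (P.cons (P.lf 0 17508 0) P.nil)) (P.cons (P.cons (P.lf 0 80688 0) P.nil) P.nil)))))) 44802)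
 EL.nil)))
noncomputable def S198_227_586_660_26 : EL := (EL.cons 4 (TM.mk (P.cons (P.cons (P.lf 0 10443438 0) (P.cons (P.lf 0 13460685 0) (P.cons (P.lf 0 1659831 0) (P.cons (P.lf 344070 0 0) (P.cons (P.lf 21963 0 0) (P.cons (P.lf 0 1593 0) P.nil)))))) (P.cons (P.cons (P.lf 0 8046450 0) (P.cons (P.lf 0 1964937 0) (P.cons (P.lf 1644099 0 0) (P.cons (P.lf 0 156204 0) (P.cons (P.lf 0 14082 0) P.nil))))) (P.cons (P.cons (P.lf 1504887 0 0) (P.cons (P.lf 5174232 0 0) (P.cons (P.lf 0 234408 0) (P.cons (P.lf 0 36786 0) P.nil)))) (P.cons (P.cons (P.lf 2434407 0 0) (P.cons (P.lf 61728 0 0) (P.cons (P.lf 0 156168 0) P.nil))) (P.cons (P.cons (P.lf 292920 0 0) (P.cons (P.lf 0 514710 0) P.nil)) (P.cons (P.cons (P.lf 0 368712 0) P.nil) P.nil)))))) 338202)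
 (EL.cons 8 (TM.mk (P.cons (P.cons (P.lf 2454684 0 0) (P.cons (P.lf 3163875 0 0) (P.cons (P.lf 390135 0 0) (P.cons (P.lf 0 80871 0) (P.cons (P.lf 0 5160 0) (P.cons (P.lf 372 0 0) P.nil)))))) (P.cons (P.cons (P.lf 1011780 0 0) (P.cons (P.lf 0 671751 0) (P.cons (P.lf 0 526221 0) (P.cons (P.lf 65691 0 0) (P.cons (P.lf 5157 0 0) P.nil))))) (P.cons (P.cons (P.lf 0 999189 0) (P.cons (P.lf 0 1340199 0) (P.cons (P.lf 198666 0 0) (P.cons (P.lf 0 5568 0) P.nil)))) (P.cons (P.cons (P.lf 0 425139 0) (P.cons (P.lf 421542 0 0) (P.cons (P.lf 11190 0 0) P.nil))) (P.cons (P.cons (P.lf 128337 0 0) (P.cons (P.lf 109716 0 0) P.nil)) (P.cons (P.cons (P.lf 104640 0 0) P.nil) P.nil)))))) 133977)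
 (EL.cons 11 (TM.mk (P.cons (P.cons (P.lf 0 17539110 0) (P.cons (P.lf 0 16663926 0) (P.cons (P.lf 3735255 0 0) (P.cons (P.lf 336297 0 0) (P.cons (P.lf 0 46059 0) (P.cons (P.lf 0 2511 0) P.nil)))))) (P.cons (P.cons (P.lf 0 3594723 0) (P.cons (P.lf 7606317 0 0) (P.cons (P.lf 0 1220457 0) (P.cons (P.lf 0 133551 0) (P.cons (P.lf 16968 0 0) P.nil))))) (P.cons (P.cons (P.lf 2577084 0 0) (P.cons (P.lf 1313040 0 0) (P.cons (P.lf 0 344235 0) (P.cons (P.lf 0 28551 0) P.nil)))) (P.cons (P.cons (P.lf 2066016 0 0) (P.cons (P.lf 0 756216 0) (P.cons (P.lf 49971 0 0) P.nil))) (P.cons (P.cons (P.lf 0 406569 0) (P.cons (P.lf 0 47691 0) P.nil)) (P.cons (P.cons (P.lf 0 128835 0) P.nil) P.nil)))))) 156081)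
 EL.nil)))
noncomputable def S198_227_586_660_27 : EL := (EL.cons 13 (TM.mk (P.lf 0 4294967296 0) 0)
 EL.nil)
noncomputable def S198_227_586_660_28 : EL := (EL.cons 13 (TM.mk (P.cons (P.cons (P.lf 299395682 0 0) (P.cons (P.lf 322023084 0 0) (P.cons (P.lf 0 17619808 0) (P.lf 0 1957756 0)))) (P.cons (P.cons (P.lf 218201065 0 0) (P.cons (P.lf 46550212 0 0) (P.cons (P.lf 0 2547040 0) (P.lf 0 283004 0)))) (P.cons (P.cons (P.lf 69489703 0 0) (P.cons (P.lf 0 4434296 0) (P.cons (P.lf 242624 0 0) (P.lf 26956 0 0)))) (P.cons (P.cons (P.lf 0 5950572 0) (P.cons (P.lf 0 942704 0) (P.cons (P.lf 51576 0 0) P.nil))) (P.cons (P.cons (P.lf 0 1260627 0) (P.cons (P.lf 16396 0 0) P.nil)) (P.cons (P.cons (P.lf 25046 0 0) P.nil) P.nil)))))) 38405)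
 EL.nil)
noncomputable def S198_227_586_660_29 : EL := (EL.cons 13 (TM.mk (P.cons (P.cons (P.lf 0 20870420 0) (P.cons (P.lf 0 44895485 0) (P.cons (P.lf 0 21687773 0) (P.cons (P.lf 2915099 0 0) (P.cons (P.lf 221288 0 0) (P.cons (P.lf 0 16063 0) P.nil)))))) (P.cons (P.cons (P.lf 0 30420933 0) (P.cons (P.lf 0 39209943 0) (P.cons (P.lf 0 4834965 0) (P.cons (P.lf 1002254 0 0) (P.cons (P.lf 63976 0 0) P.nil))))) (P.cons (P.cons (P.lf 0 20773508 0) (P.cons (P.lf 0 14531884 0) (P.cons (P.lf 955539 0 0) (P.cons (P.lf 70793 0 0) P.nil)))) (P.cons (P.cons (P.lf 0 6231084 0) (P.cons (P.lf 0 32004 0) (P.cons (P.lf 239234 0 0) P.nil))) (P.cons (P.cons (P.lf 0 343919 0) (P.cons (P.lf 555012 0 0) P.nil)) (P.cons (P.cons (P.lf 317150 0 0) P.nil) P.nil)))))) 298506)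
 EL.nil)
noncomputable def S198_227_586_660_30 : EL := (EL.cons 13 (TM.mk (P.cons (P.lf 1408772644 0 0) (P.cons (P.lf 0 436874896 0) (P.cons (P.lf 0 15598228 0) (P.cons (P.lf 1328688 0 0) (P.cons (P.lf 91228 0 0) (P.cons (P.lf 0 3020 0) P.nil)))))) 560)
 EL.nil)
noncomputable def S198_227_586_660_31 : EL := (EL.cons 13 (TM.mk (P.cons (P.cons (P.lf 0 98203412 0) (P.cons (P.lf 0 105625323 0) (P.cons (P.lf 5779392 0 0) (P.lf 642154 0 0)))) (P.cons (P.cons (P.lf 0 41117247 0) (P.cons (P.lf 17486777 0 0) (P.cons (P.lf 0 956806 0) (P.lf 0 106311 0)))) (P.cons (P.cons (P.lf 489274 0 0) (P.cons (P.lf 7358967 0 0) (P.cons (P.lf 0 402652 0) (P.lf 0 44738 0)))) (P.cons (P.cons (P.lf 9719993 0 0) (P.cons (P.lf 0 72397 0) (P.cons (P.lf 3962 0 0) P.nil))) (P.cons (P.cons (P.lf 0 13279 0) (P.cons (P.lf 0 138612 0) P.nil)) (P.cons (P.cons (P.lf 0 183975 0) P.nil) P.nil)))))) 48543)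
 EL.nil)
noncomputable def S198_227_586_660_32 : EL := (EL.cons 13 (TM.mk (P.cons (P.cons (P.lf 6845611 0 0) (P.cons (P.lf 14725963 0 0) (P.cons (P.lf 7113707 0 0) (P.cons (P.lf 0 956168 0) (P.cons (P.lf 0 72583 0) (P.cons (P.lf 5268 0 0) P.nil)))))) (P.cons (P.cons (P.lf 7855337 0 0) (P.cons (P.lf 8294401 0 0) (P.cons (P.lf 0 620139 0) (P.cons (P.lf 0 32227 0) (P.cons (P.lf 1524 0 0) P.nil))))) (P.cons (P.cons (P.lf 3643675 0 0) (P.cons (P.lf 615136 0 0) (P.cons (P.lf 0 883988 0) (P.cons (P.lf 89313 0 0) P.nil)))) (P.cons (P.cons (P.lf 0 173232 0) (P.cons (P.lf 0 1596166 0) (P.cons (P.lf 7875 0 0) P.nil))) (P.cons (P.cons (P.lf 0 586595 0) (P.cons (P.lf 0 224994 0) P.nil)) (P.cons (P.cons (P.lf 0 154581 0) P.nil) P.nil)))))) 284318)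
 EL.nil)
noncomputable def S198_227_586_660_33 : EL := (EL.cons 14 (TM.mk (P.lf 8589934592 0 0) 0)
 EL.nil)
noncomputable def S198_227_586_660_34 : EL := (EL.cons 14 (TM.mk (P.cons (P.cons (P.lf 0 598791364 0) (P.cons (P.lf 0 644046168 0) (P.cons (P.lf 35239616 0 0) (P.lf 3915512 0 0)))) (P.cons (P.cons (P.lf 0 436402130 0) (P.cons (P.lf 0 93100424 0) (P.cons (P.lf 5094080 0 0) (P.lf 566008 0 0)))) (P.cons (P.cons (P.lf 0 138979406 0) (P.cons (P.lf 8868592 0 0) (P.cons (P.lf 0 485248 0) (P.lf 0 53912 0)))) (P.cons (P.cons (P.lf 11901144 0 0) (P.cons (P.lf 1885408 0 0) (P.cons (P.lf 0 103152 0) P.nil))) (P.cons (P.cons (P.lf 2521254 0 0) (P.cons (P.lf 0 32792 0) P.nil)) (P.cons (P.cons (P.lf 0 50092 0) P.nil) P.nil)))))) 76810)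
 EL.nil)
noncomputable def S198_227_586_660_35 : EL := (EL.cons 14 (TM.mk (P.cons (P.cons (P.lf 41740840 0 0) (P.cons (P.lf 89790970 0 0) (P.cons (P.lf 43375546 0 0) (P.cons (P.lf 0 5830198 0) (P.cons (P.lf 0 442576 0) (P.cons (P.lf 32126 0 0) P.nil)))))) (P.cons (P.cons (P.lf 60841866 0 0) (P.cons (P.lf 78419886 0 0) (P.cons (P.lf 9669930 0 0) (P.cons (P.lf 0 2004508 0) (P.cons (P.lf 0 127952 0) P.nil))))) (P.cons (P.cons (P.lf 41547016 0 0) (P.cons (P.lf 29063768 0 0) (P.cons (P.lf 0 1911078 0) (P.cons (P.lf 0 141586 0) P.nil)))) (P.cons (P.cons (P.lf 12462168 0 0) (P.cons (P.lf 64008 0 0) (P.cons (P.lf 0 478468 0) P.nil))) (P.cons (P.cons (P.lf 687838 0 0) (P.cons (P.lf 0 1110024 0) P.nil)) (P.cons (P.cons (P.lf 0 634300 0) P.nil) P.nil)))))) 597012)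
 EL.nil)
noncomputable def S198_227_586_660_36 : EL := (EL.cons 14 (TM.mk (P.cons (P.lf 0 2817545288 0) (P.cons (P.lf 873749792 0 0) (P.cons (P.lf 31196456 0 0) (P.cons (P.lf 0 2657376 0) (P.cons (P.lf 0 182456 0) (P.cons (P.lf 6040 0 0) P.nil)))))) 1120)
 EL.nil)
noncomputable def S198_227_586_660_37 : EL := (EL.cons 14 (TM.mk (P.cons (P.cons (P.lf 196406824 0 0) (P.cons (P.lf 211250646 0 0) (P.cons (P.lf 0 11558784 0) (P.lf 0 1284308 0)))) (P.cons (P.cons (P.lf 82234494 0 0) (P.cons (P.lf 0 34973554 0) (P.cons (P.lf 1913612 0 0) (P.lf 212622 0 0)))) (P.cons (P.cons (P.lf 0 978548 0) (P.cons (P.lf 0 14717934 0) (P.cons (P.lf 805304 0 0) (P.lf 89476 0 0)))) (P.cons (P.cons (P.lf 0 19439986 0) (P.cons (P.lf 144794 0 0) (P.cons (P.lf 0 7924 0) P.nil))) (P.cons (P.cons (P.lf 26558 0 0) (P.cons (P.lf 277224 0 0) P.nil)) (P.cons (P.cons (P.lf 367950 0 0) P.nil) P.nil))))))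 97086)
 EL.nil)
noncomputable def S198_227_586_660_38 : EL := (EL.cons 14 (TM.mk (P.cons (P.cons (P.lf 0 13691222 0) (P.cons (P.lf 0 29451926 0) (P.cons (P.lf 0 14227414 0) (P.cons (P.lf 1912336 0 0) (P.cons (P.lf 145166 0 0) (P.cons (P.lf 0 10536 0) P.nil)))))) (P.cons (P.cons (P.lf 0 15710674 0) (P.cons (P.lf 0 16588802 0) (P.cons (P.lf 1240278 0 0) (P.cons (P.lf 64454 0 0) (P.cons (P.lf 0 3048 0) P.nil))))) (P.cons (P.cons (P.lf 0 7287350 0) (P.cons (P.lf 0 1230272 0) (P.cons (P.lf 1767976 0 0) (P.cons (P.lf 0 178626 0) P.nil)))) (P.cons (P.cons (P.lf 346464 0 0) (P.cons (P.lf 3192332 0 0) (P.cons (P.lf 0 15750 0) P.nil))) (P.cons (P.cons (P.lf 1173190 0 0) (P.cons (P.lf 449988 0 0) P.nil)) (P.cons (P.cons (P.lf 309162 0 0) P.nil) P.nil)))))) 568636)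
 EL.nil)
noncomputable def S198_227_586_660_39 : EL := (EL.cons 14 (TM.mk (P.cons (P.lf 924170186 0 0) (P.cons (P.lf 0 573189372 0) (P.cons (P.lf 68410746 0 0) (P.cons (P.lf 8089740 0 0) (P.cons (P.lf 0 307614 0) (P.cons (P.lf 0 60382 0) P.nil)))))) 4526)
 EL.nil)
noncomputable def S198_227_586_660_40 : EL := (EL.cons 14 (TM.mk (P.cons (P.cons (P.lf 0 64422506 0) (P.cons (P.lf 0 69291360 0) (P.cons (P.lf 3791344 0 0) (P.lf 421260 0 0)))) (P.cons (P.cons (P.lf 0 6995278 0) (P.cons (P.lf 32959480 0 0) (P.cons (P.lf 0 1803410 0) (P.lf 0 200378 0)))) (P.cons (P.cons (P.lf 9398986 0 0) (P.cons (P.lf 2037336 0 0) (P.cons (P.lf 0 111474 0) (P.lf 0 12384 0)))) (P.cons (P.cons (P.lf 6514780 0 0) (P.cons (P.lf 0 1736936 0) (P.cons (P.lf 95038 0 0) P.nil))) (P.cons (P.cons (P.lf 0 2019270 0) (P.cons (P.lf 0 123322 0) P.nil)) (P.cons (P.cons (P.lf 0 189894 0) P.nil) P.nil))))))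 130526)
 EL.nil)
noncomputable def S198_227_586_660_41 : EL := (EL.cons 14 (TM.mk (P.cons (P.cons (P.lf 4490794 0 0) (P.cons (P.lf 9660392 0 0) (P.cons (P.lf 4666668 0 0) (P.cons (P.lf 0 627256 0) (P.cons (P.lf 0 47614 0) (P.cons (P.lf 3456 0 0) P.nil)))))) (P.cons (P.cons (P.lf 3760544 0 0) (P.cons (P.lf 2445430 0 0) (P.cons (P.lf 0 1854000 0) (P.cons (P.lf 173376 0 0) (P.cons (P.lf 15766 0 0) P.nil))))) (P.cons (P.cons (P.lf 742510 0 0) (P.cons (P.lf 0 1390802 0) (P.cons (P.lf 0 505418 0) (P.cons (P.lf 72090 0 0) P.nil)))) (P.cons (P.cons (P.lf 0 907716 0) (P.cons (P.lf 0 1223378 0) (P.cons (P.lf 193906 0 0) P.nil))) (P.cons (P.cons (P.lf 0 370884 0) (P.cons (P.lf 178406 0 0) P.nil)) (P.cons (P.cons (P.lf 21764 0 0) P.nil) P.nil)))))) 410650)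
 EL.nil)
noncomputable def S198_227_586_660_42 : EL := (EL.cons 14 (TM.mk (P.cons (P.lf 0 303132848 0) (P.cons (P.lf 282013848 0 0) (P.cons (P.lf 0 77386344 0) (P.cons (P.lf 1937536 0 0) (P.cons (P.lf 1329912 0 0) (P.cons (P.lf 9556 0 0) P.nil)))))) 14366)
 EL.nil)
noncomputable def S198_227_586_660_43 : EL := (EL.cons 14 (TM.mk (P.cons (P.cons (P.lf 21130932 0 0) (P.cons (P.lf 22727942 0 0) (P.cons (P.lf 0 1243580 0) (P.lf 0 138174 0)))) (P.cons (P.cons (P.lf 0 4258430 0) (P.cons (P.lf 0 17859058 0) (P.cons (P.lf 977174 0 0) (P.lf 108574 0 0)))) (P.cons (P.cons (P.lf 0 4028428 0) (P.cons (P.lf 2432662 0 0) (P.cons (P.lf 0 133104 0) (P.lf 0 14788 0)))) (P.cons (P.cons (P.lf 0 1186312 0) (P.cons (P.lf 918094 0 0) (P.cons (P.lf 0 50234 0) P.nil))) (P.cons (P.cons (P.lf 1362668 0 0) (P.cons (P.lf 0 137552 0) P.nil)) (P.cons (P.cons (P.lf 0 122252 0) P.nil) P.nil)))))) 124936)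
 EL.nil)
noncomputable def S198_227_586_660_44 : EL := (EL.cons 14 (TM.mk (P.cons (P.cons (P.lf 0 1473004 0) (P.cons (P.lf 0 3168660 0) (P.cons (P.lf 0 1530692 0) (P.cons (P.lf 205742 0 0) (P.cons (P.lf 15618 0 0) (P.cons (P.lf 0 1132 0) P.nil)))))) (P.cons (P.cons (P.lf 0 776684 0) (P.cons (P.lf 180518 0 0) (P.cons (P.lf 1082804 0 0) (P.cons (P.lf 0 120670 0) (P.cons (P.lf 0 10014 0) P.nil))))) (P.cons (P.cons (P.lf 155276 0 0) (P.cons (P.lf 740018 0 0) (P.cons (P.lf 0 5856 0) (P.cons (P.lf 0 8288 0) P.nil)))) (P.cons (P.cons (P.lf 385530 0 0) (P.cons (P.lf 265696 0 0) (P.cons (P.lf 0 123188 0) P.nil))) (P.cons (P.cons (P.lf 30758 0 0) (P.cons (P.lf 0 188970 0) P.nil)) (P.cons (P.cons (P.lf 0 48466 0) P.nil) P.nil)))))) 248986)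
 EL.nil)
noncomputable def S198_227_586_660_45 : EL := (EL.cons 14 (TM.mk (P.cons (P.cons (P.lf 0 2909690 0) (P.cons (P.lf 0 9388788 0) (P.cons (P.lf 0 9584648 0) (P.cons (P.lf 0 2458358 0) (P.cons (P.lf 686854 0 0) (P.cons (P.lf 26796 0 0) P.nil)))))) (P.cons (P.cons (P.lf 0 6361790 0) (P.cons (P.lf 0 15042394 0) (P.cons (P.lf 0 9456228 0) (P.cons (P.lf 0 353766 0) (P.cons (P.lf 351940 0 0) P.nil))))) (P.cons (P.cons (P.lf 0 6662522 0) (P.cons (P.lf 0 11194176 0) (P.cons (P.lf 0 3792016 0) (P.cons (P.lf 472648 0 0) P.nil)))) (P.cons (P.cons (P.lf 0 3906018 0) (P.cons (P.lf 0 3938088 0) (P.cons (P.lf 0 113216 0) P.nil))) (P.cons (P.cons (P.lf 0 1256730 0) (P.cons (P.lf 0 391652 0) P.nil)) (P.cons (P.cons (P.lf 0 117180 0) P.nil) P.nil)))))) 1076284)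
 EL.nil)
noncomputable def S198_227_586_660_46 : EL := (EL.cons 15 (TM.mk (P.lf 4294967296 0 0) 0)
 EL.nil)
noncomputable def S198_227_586_660_47 : EL := (EL.cons 15 (TM.mk (P.cons (P.cons (P.lf 0 299395682 0) (P.cons (P.lf 0 322023084 0) (P.cons (P.lf 17619808 0 0) (P.lf 1957756 0 0)))) (P.cons (P.cons (P.lf 0 218201065 0) (P.cons (P.lf 0 46550212 0) (P.cons (P.lf 2547040 0 0) (P.lf 283004 0 0)))) (P.cons (P.cons (P.lf 0 69489703 0) (P.cons (P.lf 4434296 0 0) (P.cons (P.lf 0 242624 0) (P.lf 0 26956 0)))) (P.cons (P.cons (P.lf 5950572 0 0) (P.cons (P.lf 942704 0 0) (P.cons (P.lf 0 51576 0) P.nil))) (P.cons (P.cons (P.lf 1260627 0 0) (P.cons (P.lf 0 16396 0) P.nil)) (P.cons (P.cons (P.lf 0 25046 0) P.nil) P.nil)))))) 38405)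
 EL.nil)
noncomputable def S198_227_586_660_48 : EL := (EL.cons 15 (TM.mk (P.cons (P.cons (P.lf 20870420 0 0) (P.cons (P.lf 44895485 0 0) (P.cons (P.lf 21687773 0 0) (P.cons (P.lf 0 2915099 0) (P.cons (P.lf 0 221288 0) (P.cons (P.lf 16063 0 0) P.nil)))))) (P.cons (P.cons (P.lf 30420933 0 0) (P.cons (P.lf 39209943 0 0) (P.cons (P.lf 4834965 0 0) (P.cons (P.lf 0 1002254 0) (P.cons (P.lf 0 63976 0) P.nil))))) (P.cons (P.cons (P.lf 20773508 0 0) (P.cons (P.lf 14531884 0 0) (P.cons (P.lf 0 955539 0) (P.cons (P.lf 0 70793 0) P.nil)))) (P.cons (P.cons (P.lf 6231084 0 0) (P.cons (P.lf 32004 0 0) (P.cons (P.lf 0 239234 0) P.nil))) (P.cons (P.cons (P.lf 343919 0 0) (P.cons (P.lf 0 555012 0) P.nil)) (P.cons (P.cons (P.lf 0 317150 0) P.nil) P.nil)))))) 298506)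
 EL.nil)
noncomputable def S198_227_586_660 : SL := (SL.cons S198_227_586_660_0 (SL.cons S198_227_586_660_1 (SL.cons S198_227_586_660_2 (SL.cons S198_227_586_660_3 (SL.cons S198_227_586_660_4 (SL.cons S198_227_586_660_5 (SL.cons S198_227_586_660_6 (SL.cons S198_227_586_660_7 (SL.cons S198_227_586_660_8 (SL.cons S198_227_586_660_9 (SL.cons S198_227_586_660_10 (SL.cons S198_227_586_660_11 (SL.cons S198_227_586_660_12 (SL.cons S198_227_586_660_13 (SL.cons S198_227_586_660_14 (SL.cons S198_227_586_660_15 (SL.cons S198_227_586_660_16 (SL.cons S198_227_586_660_17 (SL.cons S198_227_586_660_18 (SL.cons S198_227_586_660_19 (SL.cons S198_227_586_660_20 (SL.cons S198_227_586_660_21 (SL.cons S198_227_586_660_22 (SL.cons S198_227_586_660_23 (SL.cons S198_227_586_660_24 (SL.cons S198_227_586_660_25 (SL.cons S198_227_586_660_26 (SL.cons S198_227_586_660_27 (SL.cons S198_227_586_660_28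 (SL.cons S198_227_586_660_29 (SL.cons S198_227_586_660_30 (SL.cons S198_227_586_660_31 (SL.cons S198_227_586_660_32 (SL.cons S198_227_586_660_33 (SL.cons S198_227_586_660_34 (SL.cons S198_227_586_660_35 (SL.cons S198_227_586_660_36 (SL.cons S198_227_586_660_37 (SL.cons S198_227_586_660_38 (SL.cons S198_227_586_660_39 (SL.cons S198_227_586_660_40 (SL.cons S198_227_586_660_41 (SL.cons S198_227_586_660_42 (SL.cons S198_227_586_660_43 (SL.cons S198_227_586_660_44 (SL.cons S198_227_586_660_45 (SL.cons S198_227_586_660_46 (SL.cons S198_227_586_660_47 (SL.cons S198_227_586_660_48 SL.nil)))))))))))))))))))))))))))))))))))))))))))))))))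
noncomputable def S198_227_660_734_0 : EL := (EL.cons 0 (TM.mk (P.cons (P.lf 7643457911 0 0) (P.cons (P.lf 503779721 0 0) (P.cons (P.lf 0 60126632 0) (P.cons (P.lf 0 7110123 0) (P.cons (P.lf 270363 0 0) (P.cons (P.lf 53070 0 0) P.nil)))))) 3984)
 (EL.cons 1 (TM.mk (P.cons (P.lf 0 1228710643 0) (P.cons (P.lf 321830180 0 0) (P.cons (P.lf 40457490 0 0) (P.cons (P.lf 0 2710608 0) (P.cons (P.lf 0 384633 0) (P.cons (P.lf 7027 0 0) P.nil)))))) 2881)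
 (EL.cons 5 (TM.mk (P.cons (P.lf 4583770480 0 0) (P.cons (P.lf 0 179121676 0) (P.cons (P.lf 21378358 0 0) (P.cons (P.lf 2528040 0 0) (P.cons (P.lf 0 96128 0) (P.cons (P.lf 0 18870 0) P.nil)))))) 1697)
 (EL.cons 9 (TM.mk (P.lf 6442450944 0 0) 2)
 EL.nil))))
noncomputable def S198_227_660_734_1 : EL := (EL.cons 0 (TM.mk (P.cons (P.cons (P.lf 0 352745124 0) (P.cons (P.lf 0 276460225 0) (P.cons (P.lf 35600093 0 0) (P.lf 2373343 0 0)))) (P.cons (P.cons (P.lf 0 481692294 0) (P.cons (P.lf 0 146961022 0) (P.cons (P.lf 18924325 0 0) (P.lf 1261616 0 0)))) (P.cons (P.cons (P.lf 0 387632720 0) (P.cons (P.lf 1110088 0 0) (P.cons (P.lf 0 142947 0) (P.lf 0 9532 0)))) (P.cons (P.cons (P.lf 9116587 0 0) (P.cons (P.lf 5638793 0 0) (P.cons (P.lf 0 726101 0) P.nil))) (P.cons (P.cons (P.lf 13878878 0 0) (P.cons (P.lf 284167 0 0) P.nil)) (P.cons (P.cons (P.lf 416727 0 0) P.nil) P.nil))))))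 610972)
 (EL.cons 1 (TM.mk (P.cons (P.cons (P.lf 994564420 0 0) (P.cons (P.lf 147896933 0 0) (P.cons (P.lf 0 19044844 0) (P.lf 0 1269653 0)))) (P.cons (P.cons (P.lf 484784877 0 0) (P.cons (P.lf 0 6462254 0) (P.cons (P.lf 832153 0 0) (P.lf 55474 0 0)))) (P.cons (P.cons (P.lf 0 27780561 0) (P.cons (P.lf 0 16135580 0) (P.cons (P.lf 2077790 0 0) (P.lf 138513 0 0)))) (P.cons (P.cons (P.lf 0 43287690 0) (P.cons (P.lf 0 724644 0) (P.cons (P.lf 93309 0 0) P.nil))) (P.cons (P.cons (P.lf 0 937460 0) (P.cons (P.lf 411081 0 0) P.nil)) (P.cons (P.cons (P.lf 1013767 0 0) P.nil) P.nil)))))) 299291)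
 (EL.cons 5 (TM.mk (P.cons (P.cons (P.lf 0 1331990465 0) (P.cons (P.lf 0 289389334 0) (P.cons (P.lf 37264982 0 0) (P.lf 2484334 0 0)))) (P.cons (P.cons (P.lf 0 336775443 0) (P.cons (P.lf 0 3789384 0) (P.cons (P.lf 487968 0 0) (P.lf 32540 0 0)))) (P.cons (P.cons (P.lf 32752589 0 0) (P.cons (P.lf 4943794 0 0) (P.cons (P.lf 0 636618 0) (P.lf 0 42438 0)))) (P.cons (P.cons (P.lf 9651046 0 0) (P.cons (P.lf 0 869966 0) (P.cons (P.lf 112022 0 0) P.nil))) (P.cons (P.cons (P.lf 0 2839949 0) (P.cons (P.lf 0 120780 0) P.nil)) (P.cons (P.cons (P.lf 0 218835 0) P.nil) P.nil)))))) 287732)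
 (EL.cons 9 (TM.mk (P.cons (P.cons (P.lf 0 1285950837 0) (P.cons (P.lf 0 342076146 0) (P.cons (P.lf 44049522 0 0) (P.lf 2936634 0 0)))) (P.cons (P.cons (P.lf 0 448273945 0) (P.cons (P.lf 0 49448988 0) (P.cons (P.lf 6367596 0 0) (P.lf 424506 0 0)))) (P.cons (P.cons (P.lf 0 92710918 0) (P.cons (P.lf 4710432 0 0) (P.cons (P.lf 0 606564 0) (P.lf 0 40434 0)))) (P.cons (P.cons (P.lf 11375724 0 0) (P.cons (P.lf 1001406 0 0) (P.cons (P.lf 0 128946 0) P.nil))) (P.cons (P.cons (P.lf 1848316 0 0) (P.cons (P.lf 0 17418 0) P.nil)) (P.cons (P.cons (P.lf 0 62355 0) P.nil) P.nil)))))) 60476)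
 (EL.cons 2 (TM.mk (P.cons (P.cons (P.lf 487491066 0 0) (P.cons (P.lf 0 139167683 0) (P.cons (P.lf 0 10409518 0) (P.cons (P.lf 701448 0 0) (P.lf 35071 0 0))))) (P.cons (P.cons (P.lf 0 104196315 0) (P.cons (P.lf 29745691 0 0) (P.cons (P.lf 2224929 0 0) (P.cons (P.lf 0 149925 0) (P.lf 0 7495 0))))) (P.cons (P.cons (P.lf 0 25573559 0) (P.cons (P.lf 7300670 0 0) (P.cons (P.lf 546075 0 0) (P.cons (P.lf 0 36795 0) P.nil)))) (P.cons (P.cons (P.lf 1015371 0 0) (P.cons (P.lf 0 289864 0) (P.cons (P.lf 0 21681 0) P.nil))) (P.cons (P.cons (P.lf 368789 0 0) (P.cons (P.lf 0 105280 0) P.nil)) (P.cons (P.cons (P.lf 1178 0 0) P.nil) P.nil)))))) 29625)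
 (EL.cons 6 (TM.mk (P.cons (P.cons (P.lf 737431656 0 0) (P.cons (P.lf 0 210520071 0) (P.cons (P.lf 0 15746562 0) (P.cons (P.lf 1061085 0 0) (P.lf 53052 0 0))))) (P.cons (P.cons (P.lf 106599813 0 0) (P.cons (P.lf 0 30431835 0) (P.cons (P.lf 0 2276250 0) (P.cons (P.lf 153384 0 0) (P.lf 7668 0 0))))) (P.cons (P.cons (P.lf 0 10154532 0) (P.cons (P.lf 2898888 0 0) (P.cons (P.lf 216831 0 0) (P.cons (P.lf 0 14610 0) P.nil)))) (P.cons (P.cons (P.lf 0 2158800 0) (P.cons (P.lf 616287 0 0) (P.cons (P.lf 46095 0 0) P.nil))) (P.cons (P.cons (P.lf 37557 0 0) (P.cons (P.lf 0 10722 0) P.nil)) (P.cons (P.cons (P.lf 21837 0 0) P.nil) P.nil)))))) 18396)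
 EL.nil))))))
noncomputable def S198_227_660_734_2 : EL := (EL.cons 0 (TM.mk (P.cons (P.cons (P.lf 0 163714431 0) (P.cons (P.lf 0 14192849 0) (P.cons (P.lf 9636853 0 0) (P.cons (P.lf 0 1889368 0) (P.cons (P.lf 0 4592 0) (P.cons (P.lf 17267 0 0) P.nil)))))) (P.cons (P.cons (P.lf 8996909 0 0) (P.cons (P.lf 63131582 0 0) (P.cons (P.lf 4070394 0 0) (P.cons (P.lf 0 3683955 0) (P.cons (P.lf 0 7158 0) P.nil))))) (P.cons (P.cons (P.lf 139418081 0 0) (P.cons (P.lf 54402544 0 0) (P.cons (P.lf 0 5369566 0) (P.cons (P.lf 0 888334 0) P.nil)))) (P.cons (P.cons (P.lf 49623559 0 0) (P.cons (P.lf 5631247 0 0) (P.cons (P.lf 0 1351382 0) P.nil))) (P.cons (P.cons (P.lf 3783977 0 0) (P.cons (P.lf 0 2905376 0) P.nil)) (P.cons (P.cons (P.lf 0 3113729 0) P.nil) P.nil)))))) 2974827)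
 (EL.cons 1 (TM.mk (P.cons (P.cons (P.lf 0 348086841 0) (P.cons (P.lf 0 138614353 0) (P.cons (P.lf 5607810 0 0) (P.cons (P.lf 4342719 0 0) (P.cons (P.lf 7191 0 0) (P.cons (P.lf 0 27065 0) P.nil)))))) (P.cons (P.cons (P.lf 0 310629717 0) (P.cons (P.lf 0 78728667 0) (P.cons (P.lf 8648039 0 0) (P.cons (P.lf 1059576 0 0) (P.cons (P.lf 874 0 0) P.nil))))) (P.cons (P.cons (P.lf 0 82542297 0) (P.cons (P.lf 0 1343518 0) (P.cons (P.lf 1802577 0 0) (P.cons (P.lf 0 408149 0) P.nil)))) (P.cons (P.cons (P.lf 7878215 0 0) (P.cons (P.lf 8017165 0 0) (P.cons (P.lf 0 724576 0) P.nil))) (P.cons (P.cons (P.lf 8536983 0 0) (P.cons (P.lf 1195312 0 0) P.nil)) (P.cons (P.cons (P.lf 1061558 0 0) P.nil) P.nil)))))) 1564338)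
 (EL.cons 5 (TM.mk (P.cons (P.cons (P.lf 349117305 0 0) (P.cons (P.lf 159815246 0 0) (P.cons (P.lf 0 2771128 0) (P.cons (P.lf 0 5958393 0) (P.cons (P.lf 0 10461 0) (P.cons (P.lf 39372 0 0) P.nil)))))) (P.cons (P.cons (P.lf 199618113 0 0) (P.cons (P.lf 53877319 0 0) (P.cons (P.lf 0 5324225 0) (P.cons (P.lf 0 878111 0) (P.cons (P.lf 0 964 0) P.nil))))) (P.cons (P.cons (P.lf 27725585 0 0) (P.cons (P.lf 0 2517233 0) (P.cons (P.lf 0 394287 0) (P.cons (P.lf 206616 0 0) P.nil)))) (P.cons (P.cons (P.lf 0 8168619 0) (P.cons (P.lf 0 2954361 0) (P.cons (P.lf 400614 0 0) P.nil))) (P.cons (P.cons (P.lf 0 2463749 0) (P.cons (P.lf 308938 0 0) P.nil)) (P.cons (P.cons (P.lf 472741 0 0) P.nil) P.nil)))))) 1536971)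
 (EL.cons 9 (TM.mk (P.cons (P.cons (P.lf 256683297 0 0) (P.cons (P.lf 136560792 0 0) (P.cons (P.lf 578203 0 0) (P.cons (P.lf 0 5850151 0) (P.cons (P.lf 0 10669 0) (P.cons (P.lf 40156 0 0) P.nil)))))) (P.cons (P.cons (P.lf 178956195 0 0) (P.cons (P.lf 67344801 0 0) (P.cons (P.lf 0 3420855 0) (P.cons (P.lf 0 1930543 0) (P.cons (P.lf 0 3084 0) P.nil))))) (P.cons (P.cons (P.lf 68202753 0 0) (P.cons (P.lf 14846368 0 0) (P.cons (P.lf 0 2032459 0) (P.cons (P.lf 0 96373 0) P.nil)))) (P.cons (P.cons (P.lf 8360565 0 0) (P.cons (P.lf 0 840121 0) (P.cons (P.lf 0 70471 0) P.nil))) (P.cons (P.cons (P.lf 0 986775 0) (P.cons (P.lf 0 638886 0) P.nil)) (P.cons (P.cons (P.lf 0 559731 0) P.nil) P.nil)))))) 478211)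
 (EL.cons 2 (TM.mk (P.cons (P.cons (P.lf 0 194612124 0) (P.cons (P.lf 3788533 0 0) (P.cons (P.lf 25600758 0 0) (P.cons (P.lf 0 633256 0) (P.cons (P.lf 0 357710 0) (P.cons (P.lf 0 3616 0) P.nil)))))) (P.cons (P.cons (P.lf 0 26244106 0) (P.cons (P.lf 11073695 0 0) (P.cons (P.lf 0 923270 0) (P.cons (P.lf 0 13320 0) (P.cons (P.lf 21886 0 0) P.nil))))) (P.cons (P.cons (P.lf 10678882 0 0) (P.cons (P.lf 1979566 0 0) (P.cons (P.lf 0 2310930 0) (P.cons (P.lf 49674 0 0) P.nil)))) (P.cons (P.cons (P.lf 7873998 0 0) (P.cons (P.lf 0 1963912 0) (P.cons (P.lf 0 285750 0) P.nil))) (P.cons (P.cons (P.lf 359263 0 0) (P.cons (P.lf 0 229736 0) P.nil)) (P.cons (P.cons (P.lf 0 240547 0) P.nil) P.nil)))))) 351404)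
 (EL.cons 6 (TM.mk (P.cons (P.cons (P.lf 0 294391326 0) (P.cons (P.lf 5730948 0 0) (P.cons (P.lf 38726472 0 0) (P.cons (P.lf 0 957930 0) (P.cons (P.lf 0 541110 0) (P.cons (P.lf 0 5478 0) P.nil)))))) (P.cons (P.cons (P.lf 0 145178754 0) (P.cons (P.lf 18804642 0 0) (P.cons (P.lf 12478872 0 0) (P.cons (P.lf 0 363372 0) (P.cons (P.lf 0 160758 0) P.nil))))) (P.cons (P.cons (P.lf 0 32005098 0) (P.cons (P.lf 9657030 0 0) (P.cons (P.lf 467874 0 0) (P.cons (P.lf 0 42498 0) P.nil)))) (P.cons (P.cons (P.lf 1811100 0 0) (P.cons (P.lf 253236 0 0) (P.cons (P.lf 0 357750 0) P.nil))) (P.cons (P.cons (P.lf 1377276 0 0) (P.cons (P.lf 0 349722 0) P.nil)) (P.cons (P.cons (P.lf 59214 0 0) P.nil) P.nil)))))) 300804)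
 EL.nil))))))
noncomputable def S198_227_660_734_3 : EL := (EL.cons 0 (TM.mk (P.cons (P.lf 812258952 0 0) (P.cons (P.lf 0 503779721 0) (P.cons (P.lf 60126632 0 0) (P.cons (P.lf 7110123 0 0) (P.cons (P.lf 0 270363 0) (P.cons (P.lf 0 53070 0) P.nil)))))) 3984)
 (EL.cons 1 (TM.mk (P.cons (P.lf 1228710643 0 0) (P.cons (P.lf 0 321830180 0) (P.cons (P.lf 0 40457490 0) (P.cons (P.lf 2710608 0 0) (P.cons (P.lf 384633 0 0) (P.cons (P.lf 0 7027 0) P.nil)))))) 2881)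
 (EL.cons 5 (TM.mk (P.cons (P.lf 1858680464 0 0) (P.cons (P.lf 179121676 0 0) (P.cons (P.lf 0 21378358 0) (P.cons (P.lf 0 2528040 0) (P.cons (P.lf 96128 0 0) (P.cons (P.lf 18870 0 0) P.nil)))))) 1690)
 EL.nil)))
noncomputable def S198_227_660_734_4 : EL := (EL.cons 0 (TM.mk (P.cons (P.cons (P.lf 0 162131630 0) (P.cons (P.lf 0 43128680 0) (P.cons (P.lf 5553727 0 0) (P.lf 370248 0 0)))) (P.cons (P.cons (P.lf 44039360 0 0) (P.cons (P.lf 20514807 0 0) (P.cons (P.lf 0 2641714 0) (P.lf 0 176113 0)))) (P.cons (P.cons (P.lf 11363090 0 0) (P.cons (P.lf 1268087 0 0) (P.cons (P.lf 0 163291 0) (P.lf 0 10884 0)))) (P.cons (P.cons (P.lf 3081037 0 0) (P.cons (P.lf 0 1081112 0) (P.cons (P.lf 139215 0 0) P.nil))) (P.cons (P.cons (P.lf 0 1962536 0) (P.cons (P.lf 0 76758 0) P.nil)) (P.cons (P.cons (P.lf 0 119139 0) P.nil) P.nil)))))) 122397)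
 (EL.cons 1 (TM.mk (P.cons (P.cons (P.lf 0 245257818 0) (P.cons (P.lf 0 65241101 0) (P.cons (P.lf 8401166 0 0) (P.lf 560075 0 0)))) (P.cons (P.cons (P.lf 0 21256066 0) (P.cons (P.lf 7657321 0 0) (P.cons (P.lf 0 986041 0) (P.lf 0 65733 0)))) (P.cons (P.cons (P.lf 12786986 0 0) (P.cons (P.lf 5516761 0 0) (P.cons (P.lf 0 710398 0) (P.lf 0 47358 0)))) (P.cons (P.cons (P.lf 9074956 0 0) (P.cons (P.lf 122285 0 0) (P.cons (P.lf 0 15746 0) P.nil))) (P.cons (P.cons (P.lf 101068 0 0) (P.cons (P.lf 0 124155 0) P.nil)) (P.cons (P.cons (P.lf 0 240028 0) P.nil) P.nil)))))) 79594)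
 (EL.cons 5 (TM.mk (P.cons (P.cons (P.lf 0 371003476 0) (P.cons (P.lf 0 98690738 0) (P.cons (P.lf 12708514 0 0) (P.lf 847232 0 0)))) (P.cons (P.cons (P.lf 0 165083086 0) (P.cons (P.lf 0 23777148 0) (P.cons (P.lf 3061806 0 0) (P.lf 204118 0 0)))) (P.cons (P.cons (P.lf 0 34943848 0) (P.cons (P.lf 1119266 0 0) (P.cons (P.lf 0 144126 0) (P.lf 0 9606 0)))) (P.cons (P.cons (P.lf 2696426 0 0) (P.cons (P.lf 718196 0 0) (P.cons (P.lf 0 92480 0) P.nil))) (P.cons (P.cons (P.lf 1313896 0 0) (P.cons (P.lf 21486 0 0) P.nil)) (P.cons (P.cons (P.lf 21576 0 0) P.nil) P.nil)))))) 58872)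
 EL.nil)))
noncomputable def S198_227_660_734_5 : EL := (EL.cons 0 (TM.mk (P.cons (P.cons (P.lf 32362419 0 0) (P.cons (P.lf 17217472 0 0) (P.cons (P.lf 72898 0 0) (P.cons (P.lf 0 737581 0) (P.cons (P.lf 0 1344 0) (P.cons (P.lf 5062 0 0) P.nil)))))) (P.cons (P.cons (P.lf 2490811 0 0) (P.cons (P.lf 0 2187852 0) (P.cons (P.lf 0 476511 0) (P.cons (P.lf 214061 0 0) (P.cons (P.lf 444 0 0) P.nil))))) (P.cons (P.cons (P.lf 0 2999278 0) (P.cons (P.lf 0 2119830 0) (P.cons (P.lf 16644 0 0) (P.cons (P.lf 84211 0 0) P.nil)))) (P.cons (P.cons (P.lf 0 2325687 0) (P.cons (P.lf 0 487625 0) (P.cons (P.lf 118757 0 0) P.nil))) (P.cons (P.cons (P.lf 45075 0 0) (P.cons (P.lf 192295 0 0) P.nil)) (P.cons (P.cons (P.lf 150266 0 0) P.nil) P.nil)))))) 335883)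
 (EL.cons 1 (TM.mk (P.cons (P.cons (P.lf 48954892 0 0) (P.cons (P.lf 26045008 0 0) (P.cons (P.lf 110274 0 0) (P.cons (P.lf 0 1115745 0) (P.cons (P.lf 0 2034 0) (P.cons (P.lf 7657 0 0) P.nil)))))) (P.cons (P.cons (P.lf 21308186 0 0) (P.cons (P.lf 6022224 0 0) (P.cons (P.lf 0 681311 0) (P.cons (P.lf 0 75952 0) (P.cons (P.lf 0 54 0) P.nil))))) (P.cons (P.cons (P.lf 2456079 0 0) (P.cons (P.lf 0 1390246 0) (P.cons (P.lf 0 220374 0) (P.cons (P.lf 114795 0 0) P.nil)))) (P.cons (P.cons (P.lf 0 2828323 0) (P.cons (P.lf 0 1267329 0) (P.cons (P.lf 109815 0 0) P.nil))) (P.cons (P.cons (P.lf 0 943528 0) (P.cons (P.lf 0 136623 0) P.nil)) (P.cons (P.cons (P.lf 0 70860 0) P.nil) P.nil)))))) 280208)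
 (EL.cons 5 (TM.mk (P.cons (P.cons (P.lf 74054460 0 0) (P.cons (P.lf 39398494 0 0) (P.cons (P.lf 166812 0 0) (P.cons (P.lf 0 1687798 0) (P.cons (P.lf 0 3076 0) (P.cons (P.lf 11584 0 0) P.nil)))))) (P.cons (P.cons (P.lf 58766442 0 0) (P.cons (P.lf 23226170 0 0) (P.cons (P.lf 0 970858 0) (P.cons (P.lf 0 719624 0) (P.cons (P.lf 0 1184 0) P.nil))))) (P.cons (P.cons (P.lf 23800660 0 0) (P.cons (P.lf 5702506 0 0) (P.cons (P.lf 0 683404 0) (P.cons (P.lf 0 62066 0) P.nil)))) (P.cons (P.cons (P.lf 3613764 0 0) (P.cons (P.lf 0 106660 0) (P.cons (P.lf 0 65714 0) P.nil))) (P.cons (P.cons (P.lf 0 344950 0) (P.cons (P.lf 0 281332 0) P.nil)) (P.cons (P.cons (P.lf 0 240004 0) P.nil) P.nil)))))) 242244)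
 EL.nil)))
noncomputable def S198_227_660_734_6 : EL := (EL.cons 12 (TM.mk (P.lf 8589934592 0 0) 0)
 (EL.cons 3 (TM.mk (P.cons (P.lf 0 1320724353 0) (P.cons (P.lf 409570215 0 0) (P.cons (P.lf 14623338 0 0) (P.cons (P.lf 0 1245645 0) (P.cons (P.lf 0 85526 0) (P.cons (P.lf 2831 0 0) P.nil)))))) 532)
 (EL.cons 7 (TM.mk (P.cons (P.lf 0 1997870342 0) (P.cons (P.lf 0 96267727 0) (P.cons (P.lf 13808992 0 0) (P.cons (P.lf 693290 0 0) (P.cons (P.lf 0 37347 0) (P.cons (P.lf 0 3551 0) P.nil)))))) 296)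
 EL.nil)))
noncomputable def S198_227_660_734_7 : EL := (EL.cons 12 (TM.mk (P.cons (P.cons (P.lf 0 1714601116 0) (P.cons (P.lf 0 456101528 0) (P.cons (P.lf 58732696 0 0) (P.lf 3915512 0 0)))) (P.cons (P.cons (P.lf 0 597698594 0) (P.cons (P.lf 0 65931984 0) (P.cons (P.lf 8490128 0 0) (P.lf 566008 0 0)))) (P.cons (P.cons (P.lf 0 123614558 0) (P.cons (P.lf 6280576 0 0) (P.cons (P.lf 0 808752 0) (P.lf 0 53912 0)))) (P.cons (P.cons (P.lf 15167632 0 0) (P.cons (P.lf 1335208 0 0) (P.cons (P.lf 0 171928 0) P.nil))) (P.cons (P.cons (P.lf 2464422 0 0) (P.cons (P.lf 0 23224 0) P.nil)) (P.cons (P.cons (P.lf 0 83140 0) P.nil) P.nil)))))) 80610)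
 (EL.cons 3 (TM.mk (P.cons (P.cons (P.lf 0 1643553367 0) (P.cons (P.lf 0 140253544 0) (P.cons (P.lf 18060600 0 0) (P.lf 1204038 0 0)))) (P.cons (P.cons (P.lf 0 826337701 0) (P.cons (P.lf 23219644 0 0) (P.cons (P.lf 0 2990020 0) (P.lf 0 199332 0)))) (P.cons (P.cons (P.lf 121025145 0 0) (P.cons (P.lf 9771532 0 0) (P.cons (P.lf 0 1258288 0) (P.lf 0 83882 0)))) (P.cons (P.cons (P.lf 29366004 0 0) (P.cons (P.lf 0 96132 0) (P.cons (P.lf 12380 0 0) P.nil))) (P.cons (P.cons (P.lf 0 907762 0) (P.cons (P.lf 0 184054 0) P.nil)) (P.cons (P.cons (P.lf 0 443750 0) P.nil) P.nil)))))) 210043)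
 (EL.cons 7 (TM.mk (P.cons (P.cons (P.lf 847060548 0 0) (P.cons (P.lf 155530330 0 0) (P.cons (P.lf 0 20027815 0) (P.lf 0 1335189 0)))) (P.cons (P.cons (P.lf 194227147 0 0) (P.cons (P.lf 0 5457676 0) (P.cons (P.lf 702788 0 0) (P.lf 46851 0 0)))) (P.cons (P.cons (P.lf 0 63241795 0) (P.cons (P.lf 0 1319026 0) (P.cons (P.lf 169855 0 0) (P.lf 11326 0 0)))) (P.cons (P.cons (P.lf 740857 0 0) (P.cons (P.lf 547364 0 0) (P.cons (P.lf 0 70482 0) P.nil))) (P.cons (P.cons (P.lf 1793529 0 0) (P.cons (P.lf 24622 0 0) P.nil)) (P.cons (P.cons (P.lf 13436 0 0) P.nil) P.nil)))))) 166242)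
 (EL.cons 10 (TM.mk (P.cons (P.cons (P.lf 0 1585310508 0) (P.cons (P.lf 452570325 0 0) (P.cons (P.lf 33851532 0 0) (P.cons (P.lf 0 2281098 0) (P.lf 0 114054 0))))) (P.cons (P.cons (P.lf 0 152776917 0) (P.cons (P.lf 43614357 0 0) (P.cons (P.lf 3262281 0 0) (P.cons (P.lf 0 219828 0) (P.lf 0 10989 0))))) (P.cons (P.cons (P.lf 18234081 0 0) (P.cons (P.lf 0 5205417 0) (P.cons (P.lf 0 389355 0) (P.cons (P.lf 26235 0 0) P.nil)))) (P.cons (P.cons (P.lf 2156220 0 0) (P.cons (P.lf 0 615552 0) (P.cons (P.lf 0 46041 0) P.nil))) (P.cons (P.cons (P.lf 0 81987 0) (P.cons (P.lf 23406 0 0) P.nil)) (P.cons (P.cons (P.lf 0 16092 0) P.nil) P.nil)))))) 13401)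
 EL.nil))))
noncomputable def S198_227_660_734_8 : EL := (EL.cons 12 (TM.mk (P.cons (P.cons (P.lf 342244396 0 0) (P.cons (P.lf 182081056 0 0) (P.cons (P.lf 770938 0 0) (P.cons (P.lf 0 7800202 0) (P.cons (P.lf 0 14226 0) (P.cons (P.lf 53542 0 0) P.nil)))))) (P.cons (P.cons (P.lf 238608260 0 0) (P.cons (P.lf 89793068 0 0) (P.cons (P.lf 0 4561140 0) (P.cons (P.lf 0 2574058 0) (P.cons (P.lf 0 4112 0) P.nil))))) (P.cons (P.cons (P.lf 90937004 0 0) (P.cons (P.lf 19795158 0 0) (P.cons (P.lf 0 2709946 0) (P.cons (P.lf 0 128498 0) P.nil)))) (P.cons (P.cons (P.lf 11147420 0 0) (P.cons (P.lf 0 1120162 0) (P.cons (P.lf 0 93962 0) P.nil))) (P.cons (P.cons (P.lf 0 1315700 0) (P.cons (P.lf 0 851848 0) P.nil)) (P.cons (P.cons (P.lf 0 746308 0) P.nil) P.nil)))))) 637586)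
 (EL.cons 3 (TM.mk (P.cons (P.cons (P.lf 708746652 0 0) (P.cons (P.lf 258522460 0 0) (P.cons (P.lf 0 14672540 0) (P.cons (P.lf 0 7014184 0) (P.cons (P.lf 0 10935 0) (P.cons (P.lf 41160 0 0) P.nil)))))) (P.cons (P.cons (P.lf 578973068 0 0) (P.cons (P.lf 128355340 0 0) (P.cons (P.lf 0 16919409 0) (P.cons (P.lf 0 1001207 0) (P.cons (P.lf 225 0 0) P.nil))))) (P.cons (P.cons (P.lf 116006406 0 0) (P.cons (P.lf 0 7213790 0) (P.cons (P.lf 0 1070100 0) (P.cons (P.lf 576754 0 0) P.nil)))) (P.cons (P.cons (P.lf 0 13565100 0) (P.cons (P.lf 0 10423235 0) (P.cons (P.lf 1155402 0 0) P.nil))) (P.cons (P.cons (P.lf 0 11919382 0) (P.cons (P.lf 0 714712 0) P.nil)) (P.cons (P.cons (P.lf 0 612188 0) P.nil) P.nil)))))) 1853307)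
 (EL.cons 7 (TM.mk (P.cons (P.cons (P.lf 0 258556330 0) (P.cons (P.lf 0 109693711 0) (P.cons (P.lf 3241552 0 0) (P.cons (P.lf 3744734 0 0) (P.cons (P.lf 6392 0 0) (P.cons (P.lf 0 24062 0) P.nil)))))) (P.cons (P.cons (P.lf 0 136085143 0) (P.cons (P.lf 0 30169371 0) (P.cons (P.lf 3976836 0 0) (P.cons (P.lf 235336 0 0) (P.cons (P.lf 0 49 0) P.nil))))) (P.cons (P.cons (P.lf 0 2887470 0) (P.cons (P.lf 7100344 0 0) (P.cons (P.lf 0 460916 0) (P.cons (P.lf 0 177720 0) P.nil)))) (P.cons (P.cons (P.lf 9107041 0 0) (P.cons (P.lf 1913142 0 0) (P.cons (P.lf 0 314278 0) P.nil))) (P.cons (P.cons (P.lf 1827985 0 0) (P.cons (P.lf 0 465536 0) P.nil)) (P.cons (P.cons (P.lf 0 616970 0) P.nil) P.nil)))))) 873220)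
 (EL.cons 10 (TM.mk (P.cons (P.cons (P.lf 632874468 0 0) (P.cons (P.lf 0 12320238 0) (P.cons (P.lf 0 83253120 0) (P.cons (P.lf 2059338 0 0) (P.cons (P.lf 1163268 0 0) (P.cons (P.lf 11778 0 0) P.nil)))))) (P.cons (P.cons (P.lf 281606178 0 0) (P.cons (P.lf 0 39832062 0) (P.cons (P.lf 0 22815174 0) (P.cons (P.lf 681948 0 0) (P.cons (P.lf 289548 0 0) P.nil))))) (P.cons (P.cons (P.lf 59608794 0 0) (P.cons (P.lf 0 18926262 0) (P.cons (P.lf 0 481914 0) (P.cons (P.lf 72738 0 0) P.nil)))) (P.cons (P.cons (P.lf 0 4599684 0) (P.cons (P.lf 87966 0 0) (P.cons (P.lf 605724 0 0) P.nil))) (P.cons (P.cons (P.lf 0 2241300 0) (P.cons (P.lf 603186 0 0) P.nil)) (P.cons (P.cons (P.lf 0 36804 0) P.nil) P.nil)))))) 474126)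
 EL.nil))))
noncomputable def S198_227_660_734_9 : EL := (EL.cons 3 (TM.mk (P.cons (P.lf 0 1320724353 0) (P.cons (P.lf 409570215 0 0) (P.cons (P.lf 14623338 0 0) (P.cons (P.lf 0 1245645 0) (P.cons (P.lf 0 85526 0) (P.cons (P.lf 2831 0 0) P.nil)))))) 532)
 (EL.cons 7 (TM.mk (P.cons (P.lf 0 1997870342 0) (P.cons (P.lf 0 96267727 0) (P.cons (P.lf 13808992 0 0) (P.cons (P.lf 693290 0 0) (P.cons (P.lf 0 37347 0) (P.cons (P.lf 0 3551 0) P.nil)))))) 296)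
 EL.nil))
noncomputable def S198_227_660_734_10 : EL := (EL.cons 3 (TM.mk (P.cons (P.cons (P.lf 263624294 0 0) (P.cons (P.lf 70126772 0 0) (P.cons (P.lf 0 9030300 0) (P.lf 0 602019 0)))) (P.cons (P.cons (P.lf 10145075 0 0) (P.cons (P.lf 0 11609822 0) (P.cons (P.lf 1495010 0 0) (P.lf 99666 0 0)))) (P.cons (P.cons (P.lf 0 12411267 0) (P.cons (P.lf 0 4885766 0) (P.cons (P.lf 629144 0 0) (P.lf 41941 0 0)))) (P.cons (P.cons (P.lf 0 8994906 0) (P.cons (P.lf 48066 0 0) (P.cons (P.lf 0 6190 0) P.nil))) (P.cons (P.cons (P.lf 237590 0 0) (P.cons (P.lf 92027 0 0) P.nil)) (P.cons (P.cons (P.lf 179419 0 0) P.nil) P.nil)))))) 50838)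
 (EL.cons 7 (TM.mk (P.cons (P.cons (P.lf 398786589 0 0) (P.cons (P.lf 106081333 0 0) (P.cons (P.lf 0 13660210 0) (P.lf 0 910680 0)))) (P.cons (P.cons (P.lf 158229964 0 0) (P.cons (P.lf 20446187 0 0) (P.cons (P.lf 0 2632876 0) (P.lf 0 175524 0)))) (P.cons (P.cons (P.lf 32692685 0 0) (P.cons (P.lf 0 1455070 0) (P.cons (P.lf 187369 0 0) (P.lf 12490 0 0)))) (P.cons (P.cons (P.lf 0 3241607 0) (P.cons (P.lf 0 523735 0) (P.cons (P.lf 67440 0 0) P.nil))) (P.cons (P.cons (P.lf 0 982671 0) (P.cons (P.lf 0 2804 0) P.nil)) (P.cons (P.cons (P.lf 9431 0 0) P.nil) P.nil)))))) 37469)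
 EL.nil))
noncomputable def S198_227_660_734_11 : EL := (EL.cons 3 (TM.mk (P.cons (P.cons (P.lf 0 52620948 0) (P.cons (P.lf 0 27995426 0) (P.cons (P.lf 0 118532 0) (P.cons (P.lf 1199300 0 0) (P.cons (P.lf 2187 0 0) (P.cons (P.lf 0 8232 0) P.nil)))))) (P.cons (P.cons (P.lf 0 20368330 0) (P.cons (P.lf 0 5124242 0) (P.cons (P.lf 738045 0 0) (P.cons (P.lf 23851 0 0) (P.cons (P.lf 0 45 0) P.nil))))) (P.cons (P.cons (P.lf 0 2022264 0) (P.cons (P.lf 1547770 0 0) (P.cons (P.lf 200496 0 0) (P.cons (P.lf 0 116252 0) P.nil)))) (P.cons (P.cons (P.lf 2978526 0 0) (P.cons (P.lf 1242523 0 0) (P.cons (P.lf 0 122640 0) P.nil))) (P.cons (P.cons (P.lf 850604 0 0) (P.cons (P.lf 96428 0 0) P.nil)) (P.cons (P.cons (P.lf 55540 0 0) P.nil) P.nil)))))) 245861)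
 (EL.cons 7 (TM.mk (P.cons (P.cons (P.lf 0 79600132 0) (P.cons (P.lf 0 42348907 0) (P.cons (P.lf 0 179306 0) (P.cons (P.lf 1814192 0 0) (P.cons (P.lf 3308 0 0) (P.cons (P.lf 0 12452 0) P.nil)))))) (P.cons (P.cons (P.lf 0 59331703 0) (P.cons (P.lf 0 22924905 0) (P.cons (P.lf 1052202 0 0) (P.cons (P.lf 686098 0 0) (P.cons (P.lf 1115 0 0) P.nil))))) (P.cons (P.cons (P.lf 0 23274282 0) (P.cons (P.lf 0 5317616 0) (P.cons (P.lf 682642 0 0) (P.cons (P.lf 46194 0 0) P.nil)))) (P.cons (P.cons (P.lf 0 3200627 0) (P.cons (P.lf 197730 0 0) (P.cons (P.lf 44954 0 0) P.nil))) (P.cons (P.cons (P.lf 345037 0 0) (P.cons (P.lf 248956 0 0) P.nil)) (P.cons (P.cons (P.lf 212404 0 0) P.nil) P.nil)))))) 198636)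
 EL.nil))
noncomputable def S198_227_660_734_12 : EL := (EL.cons 4 (TM.mk (P.cons (P.lf 1320724353 0 0) (P.cons (P.lf 0 409570215 0) (P.cons (P.lf 0 14623338 0) (P.cons (P.lf 1245645 0 0) (P.cons (P.lf 85526 0 0) (P.cons (P.lf 0 2831 0) P.nil)))))) 532)
 (EL.cons 8 (TM.mk (P.cons (P.lf 1997870342 0 0) (P.cons (P.lf 96267727 0 0) (P.cons (P.lf 0 13808992 0) (P.cons (P.lf 0 693290 0) (P.cons (P.lf 37347 0 0) (P.cons (P.lf 3551 0 0) P.nil)))))) 296)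
 EL.nil))
noncomputable def S198_227_660_734_13 : EL := (EL.cons 4 (TM.mk (P.cons (P.cons (P.lf 0 263624294 0) (P.cons (P.lf 0 70126772 0) (P.cons (P.lf 9030300 0 0) (P.lf 602019 0 0)))) (P.cons (P.cons (P.lf 0 10145075 0) (P.cons (P.lf 11609822 0 0) (P.cons (P.lf 0 1495010 0) (P.lf 0 99666 0)))) (P.cons (P.cons (P.lf 12411267 0 0) (P.cons (P.lf 4885766 0 0) (P.cons (P.lf 0 629144 0) (P.lf 0 41941 0)))) (P.cons (P.cons (P.lf 8994906 0 0) (P.cons (P.lf 0 48066 0) (P.cons (P.lf 6190 0 0) P.nil))) (P.cons (P.cons (P.lf 0 237590 0) (P.cons (P.lf 0 92027 0) P.nil)) (P.cons (P.cons (P.lf 0 179419 0) P.nil) P.nil)))))) 50838)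
 (EL.cons 8 (TM.mk (P.cons (P.cons (P.lf 0 398786589 0) (P.cons (P.lf 0 106081333 0) (P.cons (P.lf 13660210 0 0) (P.lf 910680 0 0)))) (P.cons (P.cons (P.lf 0 158229964 0) (P.cons (P.lf 0 20446187 0) (P.cons (P.lf 2632876 0 0) (P.lf 175524 0 0)))) (P.cons (P.cons (P.lf 0 32692685 0) (P.cons (P.lf 1455070 0 0) (P.cons (P.lf 0 187369 0) (P.lf 0 12490 0)))) (P.cons (P.cons (P.lf 3241607 0 0) (P.cons (P.lf 523735 0 0) (P.cons (P.lf 0 67440 0) P.nil))) (P.cons (P.cons (P.lf 982671 0 0) (P.cons (P.lf 2804 0 0) P.nil)) (P.cons (P.cons (P.lf 0 9431 0) P.nil) P.nil)))))) 37469)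
 EL.nil))
noncomputable def S198_227_660_734_14 : EL := (EL.cons 4 (TM.mk (P.cons (P.cons (P.lf 52620948 0 0) (P.cons (P.lf 27995426 0 0) (P.cons (P.lf 118532 0 0) (P.cons (P.lf 0 1199300 0) (P.cons (P.lf 0 2187 0) (P.cons (P.lf 8232 0 0) P.nil)))))) (P.cons (P.cons (P.lf 20368330 0 0) (P.cons (P.lf 5124242 0 0) (P.cons (P.lf 0 738045 0) (P.cons (P.lf 0 23851 0) (P.cons (P.lf 45 0 0) P.nil))))) (P.cons (P.cons (P.lf 2022264 0 0) (P.cons (P.lf 0 1547770 0) (P.cons (P.lf 0 200496 0) (P.cons (P.lf 116252 0 0) P.nil)))) (P.cons (P.cons (P.lf 0 2978526 0) (P.cons (P.lf 0 1242523 0) (P.cons (P.lf 122640 0 0) P.nil))) (P.cons (P.cons (P.lf 0 850604 0) (P.cons (P.lf 0 96428 0) P.nil)) (P.cons (P.cons (P.lf 0 55540 0) P.nil) P.nil)))))) 245861)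
 (EL.cons 8 (TM.mk (P.cons (P.cons (P.lf 79600132 0 0) (P.cons (P.lf 42348907 0 0) (P.cons (P.lf 179306 0 0) (P.cons (P.lf 0 1814192 0) (P.cons (P.lf 0 3308 0) (P.cons (P.lf 12452 0 0) P.nil)))))) (P.cons (P.cons (P.lf 59331703 0 0) (P.cons (P.lf 22924905 0 0) (P.cons (P.lf 0 1052202 0) (P.cons (P.lf 0 686098 0) (P.cons (P.lf 0 1115 0) P.nil))))) (P.cons (P.cons (P.lf 23274282 0 0) (P.cons (P.lf 5317616 0 0) (P.cons (P.lf 0 682642 0) (P.cons (P.lf 0 46194 0) P.nil)))) (P.cons (P.cons (P.lf 3200627 0 0) (P.cons (P.lf 0 197730 0) (P.cons (P.lf 0 44954 0) P.nil))) (P.cons (P.cons (P.lf 0 345037 0) (P.cons (P.lf 0 248956 0) P.nil)) (P.cons (P.cons (P.lf 0 212404 0) P.nil) P.nil)))))) 198636)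
 EL.nil))
noncomputable def S198_227_660_734_15 : EL := (EL.cons 4 (TM.mk (P.cons (P.lf 0 433204774 0) (P.cons (P.lf 268682518 0 0) (P.cons (P.lf 0 32067537 0) (P.cons (P.lf 0 3792065 0) (P.cons (P.lf 144194 0 0) (P.cons (P.lf 28304 0 0) P.nil)))))) 2128)
 (EL.cons 8 (TM.mk (P.cons (P.lf 0 655312343 0) (P.cons (P.lf 171642763 0 0) (P.cons (P.lf 21577328 0 0) (P.cons (P.lf 0 1445658 0) (P.cons (P.lf 0 205138 0) (P.cons (P.lf 3748 0 0) P.nil)))))) 1533)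
 EL.nil))
noncomputable def S198_227_660_734_16 : EL := (EL.cons 4 (TM.mk (P.cons (P.cons (P.lf 86470202 0 0) (P.cons (P.lf 23001962 0 0) (P.cons (P.lf 0 2961988 0) (P.lf 0 197465 0)))) (P.cons (P.cons (P.lf 0 23487659 0) (P.cons (P.lf 0 10941230 0) (P.cons (P.lf 1408914 0 0) (P.lf 93927 0 0)))) (P.cons (P.cons (P.lf 0 6060315 0) (P.cons (P.lf 0 676313 0) (P.cons (P.lf 87089 0 0) (P.lf 5805 0 0)))) (P.cons (P.cons (P.lf 0 1643220 0) (P.cons (P.lf 576593 0 0) (P.cons (P.lf 0 74248 0) P.nil))) (P.cons (P.cons (P.lf 1046685 0 0) (P.cons (P.lf 40937 0 0) P.nil)) (P.cons (P.cons (P.lf 63540 0 0) P.nil) P.nil)))))) 65287)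
 (EL.cons 8 (TM.mk (P.cons (P.cons (P.lf 130804170 0 0) (P.cons (P.lf 34795254 0 0) (P.cons (P.lf 0 4480622 0) (P.lf 0 298707 0)))) (P.cons (P.cons (P.lf 11336569 0 0) (P.cons (P.lf 0 4083905 0) (P.cons (P.lf 525889 0 0) (P.lf 35058 0 0)))) (P.cons (P.cons (P.lf 0 6819726 0) (P.cons (P.lf 0 2942273 0) (P.cons (P.lf 378879 0 0) (P.lf 25258 0 0)))) (P.cons (P.cons (P.lf 0 4839977 0) (P.cons (P.lf 0 65219 0) (P.cons (P.lf 8398 0 0) P.nil))) (P.cons (P.cons (P.lf 0 53903 0) (P.cons (P.lf 66216 0 0) P.nil)) (P.cons (P.cons (P.lf 128015 0 0) P.nil) P.nil)))))) 42440)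
 EL.nil))
noncomputable def S198_227_660_734_17 : EL := (EL.cons 4 (TM.mk (P.cons (P.cons (P.lf 0 17259957 0) (P.cons (P.lf 0 9182652 0) (P.cons (P.lf 0 38879 0) (P.cons (P.lf 393376 0 0) (P.cons (P.lf 717 0 0) (P.cons (P.lf 0 2700 0) P.nil)))))) (P.cons (P.cons (P.lf 0 1328432 0) (P.cons (P.lf 1166854 0 0) (P.cons (P.lf 254139 0 0) (P.cons (P.lf 0 114165 0) (P.cons (P.lf 0 237 0) P.nil))))) (P.cons (P.cons (P.lf 1599615 0 0) (P.cons (P.lf 1130576 0 0) (P.cons (P.lf 0 8877 0) (P.cons (P.lf 0 44912 0) P.nil)))) (P.cons (P.cons (P.lf 1240366 0 0) (P.cons (P.lf 260067 0 0) (P.cons (P.lf 0 63337 0) P.nil))) (P.cons (P.cons (P.lf 0 24040 0) (P.cons (P.lf 0 102557 0) P.nil)) (P.cons (P.cons (P.lf 0 80142 0) P.nil) P.nil)))))) 179148)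
 (EL.cons 8 (TM.mk (P.cons (P.cons (P.lf 0 26109276 0) (P.cons (P.lf 0 13890671 0) (P.cons (P.lf 0 58813 0) (P.cons (P.lf 595064 0 0) (P.cons (P.lf 1085 0 0) (P.cons (P.lf 0 4084 0) P.nil)))))) (P.cons (P.cons (P.lf 0 11364366 0) (P.cons (P.lf 0 3211853 0) (P.cons (P.lf 363366 0 0) (P.cons (P.lf 40508 0 0) (P.cons (P.lf 29 0 0) P.nil))))) (P.cons (P.cons (P.lf 0 1309909 0) (P.cons (P.lf 741465 0 0) (P.cons (P.lf 117533 0 0) (P.cons (P.lf 0 61224 0) P.nil)))) (P.cons (P.cons (P.lf 1508439 0 0) (P.cons (P.lf 675909 0 0) (P.cons (P.lf 0 58568 0) P.nil))) (P.cons (P.cons (P.lf 503215 0 0) (P.cons (P.lf 72866 0 0) P.nil)) (P.cons (P.cons (P.lf 37792 0 0) P.nil) P.nil)))))) 149433)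
 EL.nil))
noncomputable def S198_227_660_734_18 : EL := (EL.cons 4 (TM.mk (P.cons (P.lf 142093522 0 0) (P.cons (P.lf 0 132193991 0) (P.cons (P.lf 36274848 0 0) (P.cons (P.lf 0 908220 0) (P.cons (P.lf 0 623396 0) (P.cons (P.lf 0 4479 0) P.nil)))))) 6741)
 (EL.cons 8 (TM.mk (P.cons (P.lf 214946014 0 0) (P.cons (P.lf 0 122956731 0) (P.cons (P.lf 8001726 0 0) (P.cons (P.lf 3495072 0 0) (P.cons (P.lf 0 40579 0) (P.cons (P.lf 0 38127 0) P.nil)))))) 3726)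
 EL.nil))
noncomputable def S198_227_660_734_19 : EL := (EL.cons 4 (TM.mk (P.cons (P.cons (P.lf 0 28362696 0) (P.cons (P.lf 0 7544768 0) (P.cons (P.lf 971548 0 0) (P.lf 64769 0 0)))) (P.cons (P.cons (P.lf 16499643 0 0) (P.cons (P.lf 5928493 0 0) (P.cons (P.lf 0 763418 0) (P.lf 0 50894 0)))) (P.cons (P.cons (P.lf 0 87259 0) (P.cons (P.lf 0 807546 0) (P.cons (P.lf 103988 0 0) (P.lf 6931 0 0)))) (P.cons (P.cons (P.lf 0 189508 0) (P.cons (P.lf 0 304770 0) (P.cons (P.lf 39245 0 0) P.nil))) (P.cons (P.cons (P.lf 0 527043 0) (P.cons (P.lf 45661 0 0) P.nil)) (P.cons (P.cons (P.lf 82091 0 0) P.nil) P.nil)))))) 59463)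
 (EL.cons 8 (TM.mk (P.cons (P.cons (P.lf 0 42904479 0) (P.cons (P.lf 0 11413032 0) (P.cons (P.lf 1469668 0 0) (P.lf 97977 0 0)))) (P.cons (P.cons (P.lf 9586663 0 0) (P.cons (P.lf 4878842 0 0) (P.cons (P.lf 0 628253 0) (P.lf 0 41883 0)))) (P.cons (P.cons (P.lf 3865086 0 0) (P.cons (P.lf 676042 0 0) (P.cons (P.lf 0 87054 0) (P.lf 0 5803 0)))) (P.cons (P.cons (P.lf 894556 0 0) (P.cons (P.lf 0 303485 0) (P.cons (P.lf 39079 0 0) P.nil))) (P.cons (P.cons (P.lf 0 505684 0) (P.cons (P.lf 0 38514 0) P.nil)) (P.cons (P.cons (P.lf 0 63089 0) P.nil) P.nil)))))) 46766)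
 EL.nil))
noncomputable def S198_227_660_734_20 : EL := (EL.cons 4 (TM.mk (P.cons (P.cons (P.lf 5661359 0 0) (P.cons (P.lf 3011959 0 0) (P.cons (P.lf 12751 0 0) (P.cons (P.lf 0 129029 0) (P.cons (P.lf 0 235 0) (P.cons (P.lf 885 0 0) P.nil)))))) (P.cons (P.cons (P.lf 0 1319911 0) (P.cons (P.lf 0 1316774 0) (P.cons (P.lf 0 87313 0) (P.cons (P.lf 77460 0 0) (P.cons (P.lf 150 0 0) P.nil))))) (P.cons (P.cons (P.lf 0 722490 0) (P.cons (P.lf 0 285494 0) (P.cons (P.lf 28620 0 0) (P.cons (P.lf 4546 0 0) P.nil)))) (P.cons (P.cons (P.lf 0 243622 0) (P.cons (P.lf 36774 0 0) (P.cons (P.lf 20806 0 0) P.nil))) (P.cons (P.cons (P.lf 140640 0 0) (P.cons (P.lf 64033 0 0) P.nil)) (P.cons (P.cons (P.lf 27867 0 0) P.nil) P.nil)))))) 116437)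
 (EL.cons 8 (TM.mk (P.cons (P.cons (P.lf 8563984 0 0) (P.cons (P.lf 4556215 0 0) (P.cons (P.lf 19290 0 0) (P.cons (P.lf 0 195184 0) (P.cons (P.lf 0 355 0) (P.cons (P.lf 1339 0 0) P.nil)))))) (P.cons (P.cons (P.lf 1071794 0 0) (P.cons (P.lf 0 359423 0) (P.cons (P.lf 0 125168 0) (P.cons (P.lf 47241 0 0) (P.cons (P.lf 100 0 0) P.nil))))) (P.cons (P.cons (P.lf 0 821123 0) (P.cons (P.lf 0 620354 0) (P.cons (P.lf 0 1804 0) (P.cons (P.lf 26363 0 0) P.nil)))) (P.cons (P.cons (P.lf 0 661212 0) (P.cons (P.lf 0 153648 0) (P.cons (P.lf 32503 0 0) P.nil))) (P.cons (P.cons (P.lf 0 12309 0) (P.cons (P.lf 48832 0 0) P.nil)) (P.cons (P.cons (P.lf 44896 0 0) P.nil) P.nil)))))) 103981)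
 EL.nil))
noncomputable def S198_227_660_734_21 : EL := (EL.cons 4 (TM.mk (P.cons (P.cons (P.lf 1907177661 0 0) (P.cons (P.lf 210380316 0 0) (P.cons (P.lf 0 27090900 0) (P.lf 0 1806057 0)))) (P.cons (P.cons (P.lf 836482776 0 0) (P.cons (P.lf 0 34829466 0) (P.cons (P.lf 4485030 0 0) (P.lf 298998 0 0)))) (P.cons (P.cons (P.lf 0 133436412 0) (P.cons (P.lf 0 14657298 0) (P.cons (P.lf 1887432 0 0) (P.lf 125823 0 0)))) (P.cons (P.cons (P.lf 0 38360910 0) (P.cons (P.lf 144198 0 0) (P.cons (P.lf 0 18570 0) P.nil))) (P.cons (P.cons (P.lf 1145352 0 0) (P.cons (P.lf 276081 0 0) P.nil)) (P.cons (P.cons (P.lf 623169 0 0) P.nil) P.nil)))))) 159186)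
 (EL.cons 8 (TM.mk (P.cons (P.cons (P.lf 0 448273959 0) (P.cons (P.lf 0 49448997 0) (P.cons (P.lf 6367605 0 0) (P.lf 424509 0 0)))) (P.cons (P.cons (P.lf 0 35997183 0) (P.cons (P.lf 25903863 0 0) (P.cons (P.lf 0 3335664 0) (P.lf 0 222375 0)))) (P.cons (P.cons (P.lf 95934480 0 0) (P.cons (P.lf 0 136044 0) (P.cons (P.lf 17514 0 0) (P.lf 1164 0 0)))) (P.cons (P.cons (P.lf 0 3982464 0) (P.cons (P.lf 0 1071099 0) (P.cons (P.lf 137922 0 0) P.nil))) (P.cons (P.cons (P.lf 0 2776200 0) (P.cons (P.lf 0 27426 0) P.nil)) (P.cons (P.cons (P.lf 0 4005 0) P.nil) P.nil)))))) 128754)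
 (EL.cons 11 (TM.mk (P.cons (P.cons (P.lf 1585310508 0 0) (P.cons (P.lf 0 452570325 0) (P.cons (P.lf 0 33851532 0) (P.cons (P.lf 2281098 0 0) (P.lf 114054 0 0))))) (P.cons (P.cons (P.lf 152776917 0 0) (P.cons (P.lf 0 43614357 0) (P.cons (P.lf 0 3262281 0) (P.cons (P.lf 219828 0 0) (P.lf 10989 0 0))))) (P.cons (P.cons (P.lf 0 18234081 0) (P.cons (P.lf 5205417 0 0) (P.cons (P.lf 389355 0 0) (P.cons (P.lf 0 26235 0) P.nil)))) (P.cons (P.cons (P.lf 0 2156220 0) (P.cons (P.lf 615552 0 0) (P.cons (P.lf 46041 0 0) P.nil))) (P.cons (P.cons (P.lf 81987 0 0) (P.cons (P.lf 0 23406 0) P.nil)) (P.cons (P.cons (P.lf 16092 0 0) P.nil) P.nil)))))) 13401)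
 EL.nil)))
noncomputable def S198_227_660_734_22 : EL := (EL.cons 4 (TM.mk (P.cons (P.cons (P.lf 0 380683800 0) (P.cons (P.lf 0 143258943 0) (P.cons (P.lf 7277004 0 0) (P.cons (P.lf 4106742 0 0) (P.cons (P.lf 6561 0 0) (P.cons (P.lf 0 24696 0) P.nil)))))) (P.cons (P.cons (P.lf 0 299670699 0) (P.cons (P.lf 0 66739791 0) (P.cons (P.lf 8828727 0 0) (P.cons (P.lf 512529 0 0) (P.cons (P.lf 0 135 0) P.nil))))) (P.cons (P.cons (P.lf 0 59014335 0) (P.cons (P.lf 4380780 0 0) (P.cons (P.lf 635298 0 0) (P.cons (P.lf 0 346503 0) P.nil)))) (P.cons (P.cons (P.lf 8271813 0 0) (P.cons (P.lf 5832879 0 0) (P.cons (P.lf 0 639021 0) P.nil))) (P.cons (P.cons (P.lf 6384993 0 0) (P.cons (P.lf 405570 0 0) P.nil)) (P.cons (P.cons (P.lf 333864 0 0) P.nil) P.nil)))))) 803712)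
 (EL.cons 8 (TM.mk (P.cons (P.cons (P.lf 89478099 0 0) (P.cons (P.lf 33672402 0 0) (P.cons (P.lf 0 1710429 0) (P.cons (P.lf 0 965271 0) (P.cons (P.lf 0 1542 0) (P.cons (P.lf 5805 0 0) P.nil)))))) (P.cons (P.cons (P.lf 38376720 0 0) (P.cons (P.lf 3622233 0 0) (P.cons (P.lf 0 1462317 0) (P.cons (P.lf 225381 0 0) (P.cons (P.lf 582 0 0) P.nil))))) (P.cons (P.cons (P.lf 0 10193406 0) (P.cons (P.lf 0 6208980 0) (P.cons (P.lf 571779 0 0) (P.cons (P.lf 111957 0 0) P.nil)))) (P.cons (P.cons (P.lf 0 6153834 0) (P.cons (P.lf 0 857706 0) (P.cons (P.lf 179616 0 0) P.nil))) (P.cons (P.cons (P.lf 0 741474 0) (P.cons (P.lf 357246 0 0) P.nil)) (P.cons (P.cons (P.lf 414687 0 0) P.nil) P.nil)))))) 337281)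
 (EL.cons 11 (TM.mk (P.cons (P.cons (P.lf 0 316437234 0) (P.cons (P.lf 6160119 0 0) (P.cons (P.lf 41626560 0 0) (P.cons (P.lf 0 1029669 0) (P.cons (P.lf 0 581634 0) (P.cons (P.lf 0 5889 0) P.nil)))))) (P.cons (P.cons (P.lf 0 140803089 0) (P.cons (P.lf 19916031 0 0) (P.cons (P.lf 11407587 0 0) (P.cons (P.lf 0 340974 0) (P.cons (P.lf 0 144774 0) P.nil))))) (P.cons (P.cons (P.lf 0 29804397 0) (P.cons (P.lf 9463131 0 0) (P.cons (P.lf 240957 0 0) (P.cons (P.lf 0 36369 0) P.nil)))) (P.cons (P.cons (P.lf 2299842 0 0) (P.cons (P.lf 0 43983 0) (P.cons (P.lf 0 302862 0) P.nil))) (P.cons (P.cons (P.lf 1120650 0 0) (P.cons (P.lf 0 301593 0) P.nil)) (P.cons (P.cons (P.lf 18402 0 0) P.nil) P.nil)))))) 237063)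
 EL.nil)))
noncomputable def S198_227_660_734_23 : EL := (EL.cons 4 (TM.mk (P.cons (P.cons (P.lf 0 625564650 0) (P.cons (P.lf 0 69005886 0) (P.cons (P.lf 8885961 0 0) (P.lf 592395 0 0)))) (P.cons (P.cons (P.lf 0 80376864 0) (P.cons (P.lf 32823690 0 0) (P.cons (P.lf 0 4226742 0) (P.lf 0 281781 0)))) (P.cons (P.cons (P.lf 135779493 0 0) (P.cons (P.lf 2028942 0 0) (P.cons (P.lf 0 261267 0) (P.lf 0 17415 0)))) (P.cons (P.cons (P.lf 1457607 0 0) (P.cons (P.lf 0 1729779 0) (P.cons (P.lf 222744 0 0) P.nil))) (P.cons (P.cons (P.lf 0 5061561 0) (P.cons (P.lf 0 122811 0) P.nil)) (P.cons (P.cons (P.lf 0 202362 0) P.nil) P.nil)))))) 218253)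
 (EL.cons 8 (TM.mk (P.cons (P.cons (P.lf 147036297 0 0) (P.cons (P.lf 16219539 0 0) (P.cons (P.lf 0 2088609 0) (P.lf 0 139239 0)))) (P.cons (P.cons (P.lf 0 33790197 0) (P.cons (P.lf 0 13526454 0) (P.cons (P.lf 1741815 0 0) (P.lf 116118 0 0)))) (P.cons (P.cons (P.lf 0 36756603 0) (P.cons (P.lf 2499921 0 0) (P.cons (P.lf 0 321915 0) (P.lf 0 21459 0)))) (P.cons (P.cons (P.lf 11072463 0 0) (P.cons (P.lf 446859 0 0) (P.cons (P.lf 0 57540 0) P.nil))) (P.cons (P.cons (P.lf 874587 0 0) (P.cons (P.lf 0 107409 0) P.nil)) (P.cons (P.cons (P.lf 0 324765 0) P.nil) P.nil)))))) 95685)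
 (EL.cons 11 (TM.mk (P.cons (P.cons (P.lf 0 519990471 0) (P.cons (P.lf 148445529 0 0) (P.cons (P.lf 11103486 0 0) (P.cons (P.lf 0 748212 0) (P.lf 0 37410 0))))) (P.cons (P.cons (P.lf 111142737 0 0) (P.cons (P.lf 0 31728738 0) (P.cons (P.lf 0 2373258 0) (P.cons (P.lf 159921 0 0) (P.lf 7995 0 0))))) (P.cons (P.cons (P.lf 27278463 0 0) (P.cons (P.lf 0 7787382 0) (P.cons (P.lf 0 582480 0) (P.cons (P.lf 39249 0 0) P.nil)))) (P.cons (P.cons (P.lf 0 1083063 0) (P.cons (P.lf 309189 0 0) (P.cons (P.lf 23127 0 0) P.nil))) (P.cons (P.cons (P.lf 0 393375 0) (P.cons (P.lf 112299 0 0) P.nil)) (P.cons (P.cons (P.lf 0 1257 0) P.nil) P.nil)))))) 31578)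
 EL.nil)))
noncomputable def S198_227_660_734_24 : EL := (EL.cons 4 (TM.mk (P.cons (P.cons (P.lf 124866357 0 0) (P.cons (P.lf 46989711 0 0) (P.cons (P.lf 0 2386896 0) (P.cons (P.lf 0 1347033 0) (P.cons (P.lf 0 2151 0) (P.cons (P.lf 8100 0 0) P.nil)))))) (P.cons (P.cons (P.lf 59571276 0 0) (P.cons (P.lf 7319019 0 0) (P.cons (P.lf 0 2155668 0) (P.cons (P.lf 249615 0 0) (P.cons (P.lf 711 0 0) P.nil))))) (P.cons (P.cons (P.lf 0 12507384 0) (P.cons (P.lf 0 8745828 0) (P.cons (P.lf 716085 0 0) (P.cons (P.lf 180702 0 0) P.nil)))) (P.cons (P.cons (P.lf 0 9686568 0) (P.cons (P.lf 0 1665675 0) (P.cons (P.lf 304035 0 0) P.nil))) (P.cons (P.cons (P.lf 0 1366452 0) (P.cons (P.lf 499878 0 0) P.nil)) (P.cons (P.cons (P.lf 594351 0 0) P.nil) P.nil)))))) 536352)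
 (EL.cons 8 (TM.mk (P.cons (P.cons (P.lf 0 29349303 0) (P.cons (P.lf 0 11044731 0) (P.cons (P.lf 561030 0 0) (P.cons (P.lf 316614 0 0) (P.cons (P.lf 504 0 0) (P.cons (P.lf 0 1902 0) P.nil)))))) (P.cons (P.cons (P.lf 0 3486252 0) (P.cons (P.lf 2236971 0 0) (P.cons (P.lf 305664 0 0) (P.cons (P.lf 0 172110 0) (P.cons (P.lf 0 348 0) P.nil))))) (P.cons (P.cons (P.lf 7572051 0 0) (P.cons (P.lf 2527314 0 0) (P.cons (P.lf 0 342501 0) (P.cons (P.lf 0 17301 0) P.nil)))) (P.cons (P.cons (P.lf 1093332 0 0) (P.cons (P.lf 0 347490 0) (P.cons (P.lf 0 5535 0) P.nil))) (P.cons (P.cons (P.lf 0 433539 0) (P.cons (P.lf 0 228807 0) P.nil)) (P.cons (P.cons (P.lf 0 231387 0) P.nil) P.nil)))))) 160965)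
 (EL.cons 11 (TM.mk (P.cons (P.cons (P.lf 103793133 0 0) (P.cons (P.lf 0 2020551 0) (P.cons (P.lf 0 13653738 0) (P.cons (P.lf 337737 0 0) (P.cons (P.lf 190779 0 0) (P.cons (P.lf 1929 0 0) P.nil)))))) (P.cons (P.cons (P.lf 13996857 0 0) (P.cons (P.lf 0 5905971 0) (P.cons (P.lf 492411 0 0) (P.cons (P.lf 7104 0 0) (P.cons (P.lf 0 11673 0) P.nil))))) (P.cons (P.cons (P.lf 0 5695404 0) (P.cons (P.lf 0 1055769 0) (P.cons (P.lf 1232496 0 0) (P.cons (P.lf 0 26493 0) P.nil)))) (P.cons (P.cons (P.lf 0 4199466 0) (P.cons (P.lf 1047420 0 0) (P.cons (P.lf 152400 0 0) P.nil))) (P.cons (P.cons (P.lf 0 191607 0) (P.cons (P.lf 122526 0 0) P.nil)) (P.cons (P.cons (P.lf 128292 0 0) P.nil) P.nil)))))) 187404)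
 EL.nil)))
noncomputable def S198_227_660_734_25 : EL := (EL.cons 4 (TM.mk (P.cons (P.cons (P.lf 205188609 0 0) (P.cons (P.lf 22634304 0 0) (P.cons (P.lf 0 2914644 0) (P.lf 0 194307 0)))) (P.cons (P.cons (P.lf 0 37267050 0) (P.cons (P.lf 0 17785479 0) (P.cons (P.lf 2290254 0 0) (P.lf 152682 0 0)))) (P.cons (P.cons (P.lf 0 54984066 0) (P.cons (P.lf 2422638 0 0) (P.cons (P.lf 0 311964 0) (P.lf 0 20796 0)))) (P.cons (P.cons (P.lf 13234710 0 0) (P.cons (P.lf 914310 0 0) (P.cons (P.lf 0 117735 0) P.nil))) (P.cons (P.cons (P.lf 2339754 0 0) (P.cons (P.lf 0 136986 0) P.nil)) (P.cons (P.cons (P.lf 0 483918 0) P.nil) P.nil)))))) 215130)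
 (EL.cons 8 (TM.mk (P.cons (P.cons (P.lf 0 48228705 0) (P.cons (P.lf 0 5320095 0) (P.cons (P.lf 685074 0 0) (P.lf 45669 0 0)))) (P.cons (P.cons (P.lf 26039586 0 0) (P.cons (P.lf 6086565 0 0) (P.cons (P.lf 0 783771 0) (P.lf 0 52251 0)))) (P.cons (P.cons (P.lf 9153297 0 0) (P.cons (P.lf 0 2136963 0) (P.cons (P.lf 275178 0 0) (P.lf 18342 0 0)))) (P.cons (P.cons (P.lf 0 7538835 0) (P.cons (P.lf 53571 0 0) (P.cons (P.lf 0 6897 0) P.nil))) (P.cons (P.cons (P.lf 713235 0 0) (P.cons (P.lf 93603 0 0) P.nil)) (P.cons (P.cons (P.lf 247890 0 0) P.nil) P.nil)))))) 87336)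
 (EL.cons 11 (TM.mk (P.cons (P.cons (P.lf 170559702 0 0) (P.cons (P.lf 0 48690939 0) (P.cons (P.lf 0 3642003 0) (P.cons (P.lf 245415 0 0) (P.lf 12270 0 0))))) (P.cons (P.cons (P.lf 0 89347740 0) (P.cons (P.lf 25506759 0 0) (P.cons (P.lf 1907862 0 0) (P.cons (P.lf 0 128562 0) (P.lf 0 6426 0))))) (P.cons (P.cons (P.lf 469242 0 0) (P.cons (P.lf 0 133956 0) (P.cons (P.lf 0 10020 0) (P.cons (P.lf 675 0 0) P.nil)))) (P.cons (P.cons (P.lf 3694461 0 0) (P.cons (P.lf 0 1054683 0) (P.cons (P.lf 0 78888 0) P.nil))) (P.cons (P.cons (P.lf 94590 0 0) (P.cons (P.lf 0 27003 0) P.nil)) (P.cons (P.cons (P.lf 0 54696 0) P.nil) P.nil)))))) 46797)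
 EL.nil)))
noncomputable def S198_227_660_734_26 : EL := (EL.cons 4 (TM.mk (P.cons (P.cons (P.lf 0 40956843 0) (P.cons (P.lf 0 15412881 0) (P.cons (P.lf 782913 0 0) (P.cons (P.lf 441834 0 0) (P.cons (P.lf 705 0 0) (P.cons (P.lf 0 2655 0) P.nil)))))) (P.cons (P.cons (P.lf 0 6838563 0) (P.cons (P.lf 2379012 0 0) (P.cons (P.lf 464280 0 0) (P.cons (P.lf 0 218892 0) (P.cons (P.lf 0 450 0) P.nil))))) (P.cons (P.cons (P.lf 10615434 0 0) (P.cons (P.lf 3783807 0 0) (P.cons (P.lf 0 462816 0) (P.cons (P.lf 0 38772 0) P.nil)))) (P.cons (P.cons (P.lf 2082741 0 0) (P.cons (P.lf 0 331209 0) (P.cons (P.lf 0 33975 0) P.nil))) (P.cons (P.cons (P.lf 0 603597 0) (P.cons (P.lf 0 368415 0) P.nil)) (P.cons (P.cons (P.lf 0 366429 0) P.nil) P.nil)))))) 331119)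
 (EL.cons 8 (TM.mk (P.cons (P.cons (P.lf 9626730 0 0) (P.cons (P.lf 3622731 0 0) (P.cons (P.lf 0 184020 0) (P.cons (P.lf 0 103851 0) (P.cons (P.lf 0 165 0) (P.cons (P.lf 624 0 0) P.nil)))))) (P.cons (P.cons (P.lf 0 1841838 0) (P.cons (P.lf 0 1857183 0) (P.cons (P.lf 0 43191 0) (P.cons (P.lf 88659 0 0) (P.cons (P.lf 165 0 0) P.nil))))) (P.cons (P.cons (P.lf 0 2944875 0) (P.cons (P.lf 0 641544 0) (P.cons (P.lf 145470 0 0) (P.cons (P.lf 0 10680 0) P.nil)))) (P.cons (P.cons (P.lf 408012 0 0) (P.cons (P.lf 382593 0 0) (P.cons (P.lf 0 32085 0) P.nil))) (P.cons (P.cons (P.lf 282615 0 0) (P.cons (P.lf 48423 0 0) P.nil)) (P.cons (P.cons (P.lf 33477 0 0) P.nil) P.nil)))))) 124218)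
 (EL.cons 11 (TM.mk (P.cons (P.cons (P.lf 0 34044711 0) (P.cons (P.lf 662751 0 0) (P.cons (P.lf 4478499 0 0) (P.cons (P.lf 0 110778 0) (P.cons (P.lf 0 62574 0) (P.cons (P.lf 0 633 0) P.nil)))))) (P.cons (P.cons (P.lf 5966568 0 0) (P.cons (P.lf 1731663 0 0) (P.cons (P.lf 0 1550343 0) (P.cons (P.lf 32022 0 0) (P.cons (P.lf 23235 0 0) P.nil))))) (P.cons (P.cons (P.lf 3668802 0 0) (P.cons (P.lf 0 261780 0) (P.cons (P.lf 0 403764 0) (P.cons (P.lf 10638 0 0) P.nil)))) (P.cons (P.cons (P.lf 816846 0 0) (P.cons (P.lf 0 471774 0) (P.cons (P.lf 81390 0 0) P.nil))) (P.cons (P.cons (P.lf 0 391530 0) (P.cons (P.lf 64386 0 0) P.nil)) (P.cons (P.cons (P.lf 0 75282 0) P.nil) P.nil)))))) 143196)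
 EL.nil)))
noncomputable def S198_227_660_734_27 : EL := (EL.cons 13 (TM.mk (P.lf 0 4294967296 0) 0)
 EL.nil)
noncomputable def S198_227_660_734_28 : EL := (EL.cons 13 (TM.mk (P.cons (P.cons (P.lf 857300558 0 0) (P.cons (P.lf 228050764 0 0) (P.cons (P.lf 0 29366348 0) (P.lf 0 1957756 0)))) (P.cons (P.cons (P.lf 298849297 0 0) (P.cons (P.lf 32965992 0 0) (P.cons (P.lf 0 4245064 0) (P.lf 0 283004 0)))) (P.cons (P.cons (P.lf 61807279 0 0) (P.cons (P.lf 0 3140288 0) (P.cons (P.lf 404376 0 0) (P.lf 26956 0 0)))) (P.cons (P.cons (P.lf 0 7583816 0) (P.cons (P.lf 0 667604 0) (P.cons (P.lf 85964 0 0) P.nil))) (P.cons (P.cons (P.lf 0 1232211 0) (P.cons (P.lf 11612 0 0) P.nil)) (P.cons (P.cons (P.lf 41570 0 0) P.nil) P.nil)))))) 40305)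
 EL.nil)
noncomputable def S198_227_660_734_29 : EL := (EL.cons 13 (TM.mk (P.cons (P.cons (P.lf 0 171122198 0) (P.cons (P.lf 0 91040528 0) (P.cons (P.lf 0 385469 0) (P.cons (P.lf 3900101 0 0) (P.cons (P.lf 7113 0 0) (P.cons (P.lf 0 26771 0) P.nil)))))) (P.cons (P.cons (P.lf 0 119304130 0) (P.cons (P.lf 0 44896534 0) (P.cons (P.lf 2280570 0 0) (P.cons (P.lf 1287029 0 0) (P.cons (P.lf 2056 0 0) P.nil))))) (P.cons (P.cons (P.lf 0 45468502 0) (P.cons (P.lf 0 9897579 0) (P.cons (P.lf 1354973 0 0) (P.cons (P.lf 64249 0 0) P.nil)))) (P.cons (P.cons (P.lf 0 5573710 0) (P.cons (P.lf 560081 0 0) (P.cons (P.lf 46981 0 0) P.nil))) (P.cons (P.cons (P.lf 657850 0 0) (P.cons (P.lf 425924 0 0) P.nil)) (P.cons (P.cons (P.lf 373154 0 0) P.nil) P.nil)))))) 318793)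
 EL.nil)
noncomputable def S198_227_660_734_30 : EL := (EL.cons 13 (TM.mk (P.cons (P.lf 1408772644 0 0) (P.cons (P.lf 0 436874896 0) (P.cons (P.lf 0 15598228 0) (P.cons (P.lf 1328688 0 0) (P.cons (P.lf 91228 0 0) (P.cons (P.lf 0 3020 0) P.nil)))))) 560)
 EL.nil)
noncomputable def S198_227_660_734_31 : EL := (EL.cons 13 (TM.mk (P.cons (P.cons (P.lf 0 281199247 0) (P.cons (P.lf 0 74801891 0) (P.cons (P.lf 9632321 0 0) (P.lf 642154 0 0)))) (P.cons (P.cons (P.lf 0 10821414 0) (P.cons (P.lf 12383811 0 0) (P.cons (P.lf 0 1594678 0) (P.lf 0 106311 0)))) (P.cons (P.cons (P.lf 13238685 0 0) (P.cons (P.lf 5211484 0 0) (P.cons (P.lf 0 671087 0) (P.lf 0 44738 0)))) (P.cons (P.cons (P.lf 9594567 0 0) (P.cons (P.lf 0 51271 0) (P.cons (P.lf 6603 0 0) P.nil))) (P.cons (P.cons (P.lf 0 253430 0) (P.cons (P.lf 0 98163 0) P.nil)) (P.cons (P.cons (P.lf 0 191381 0) P.nil) P.nil)))))) 54207)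
 EL.nil)
noncomputable def S198_227_660_734_32 : EL := (EL.cons 13 (TM.mk (P.cons (P.cons (P.lf 56129012 0 0) (P.cons (P.lf 29861788 0 0) (P.cons (P.lf 126435 0 0) (P.cons (P.lf 0 1279254 0) (P.cons (P.lf 0 2333 0) (P.cons (P.lf 8781 0 0) P.nil)))))) (P.cons (P.cons (P.lf 21726219 0 0) (P.cons (P.lf 5465859 0 0) (P.cons (P.lf 0 787248 0) (P.cons (P.lf 0 25442 0) (P.cons (P.lf 49 0 0) P.nil))))) (P.cons (P.cons (P.lf 2157082 0 0) (P.cons (P.lf 0 1650955 0) (P.cons (P.lf 0 213863 0) (P.cons (P.lf 124003 0 0) P.nil)))) (P.cons (P.cons (P.lf 0 3177095 0) (P.cons (P.lf 0 1325358 0) (P.cons (P.lf 130816 0 0) P.nil))) (P.cons (P.cons (P.lf 0 907311 0) (P.cons (P.lf 0 102857 0) P.nil)) (P.cons (P.cons (P.lf 0 59243 0) P.nil) P.nil)))))) 262229)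
 EL.nil)
noncomputable def S198_227_660_734_33 : EL := (EL.cons 14 (TM.mk (P.lf 8589934592 0 0) 0)
 EL.nil)
noncomputable def S198_227_660_734_34 : EL := (EL.cons 14 (TM.mk (P.cons (P.cons (P.lf 0 1714601116 0) (P.cons (P.lf 0 456101528 0) (P.cons (P.lf 58732696 0 0) (P.lf 3915512 0 0)))) (P.cons (P.cons (P.lf 0 597698594 0) (P.cons (P.lf 0 65931984 0) (P.cons (P.lf 8490128 0 0) (P.lf 566008 0 0)))) (P.cons (P.cons (P.lf 0 123614558 0) (P.cons (P.lf 6280576 0 0) (P.cons (P.lf 0 808752 0) (P.lf 0 53912 0)))) (P.cons (P.cons (P.lf 15167632 0 0) (P.cons (P.lf 1335208 0 0) (P.cons (P.lf 0 171928 0) P.nil))) (P.cons (P.cons (P.lf 2464422 0 0) (P.cons (P.lf 0 23224 0) P.nil)) (P.cons (P.cons (P.lf 0 83140 0) P.nil) P.nil)))))) 80610)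
 EL.nil)
noncomputable def S198_227_660_734_35 : EL := (EL.cons 14 (TM.mk (P.cons (P.cons (P.lf 342244396 0 0) (P.cons (P.lf 182081056 0 0) (P.cons (P.lf 770938 0 0) (P.cons (P.lf 0 7800202 0) (P.cons (P.lf 0 14226 0) (P.cons (P.lf 53542 0 0) P.nil)))))) (P.cons (P.cons (P.lf 238608260 0 0) (P.cons (P.lf 89793068 0 0) (P.cons (P.lf 0 4561140 0) (P.cons (P.lf 0 2574058 0) (P.cons (P.lf 0 4112 0) P.nil))))) (P.cons (P.cons (P.lf 90937004 0 0) (P.cons (P.lf 19795158 0 0) (P.cons (P.lf 0 2709946 0) (P.cons (P.lf 0 128498 0) P.nil)))) (P.cons (P.cons (P.lf 11147420 0 0) (P.cons (P.lf 0 1120162 0) (P.cons (P.lf 0 93962 0) P.nil))) (P.cons (P.cons (P.lf 0 1315700 0) (P.cons (P.lf 0 851848 0) P.nil)) (P.cons (P.cons (P.lf 0 746308 0) P.nil) P.nil)))))) 637586)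
 EL.nil)
noncomputable def S198_227_660_734_36 : EL := (EL.cons 14 (TM.mk (P.cons (P.lf 0 2817545288 0) (P.cons (P.lf 873749792 0 0) (P.cons (P.lf 31196456 0 0) (P.cons (P.lf 0 2657376 0) (P.cons (P.lf 0 182456 0) (P.cons (P.lf 6040 0 0) P.nil)))))) 1120)
 EL.nil)
noncomputable def S198_227_660_734_37 : EL := (EL.cons 14 (TM.mk (P.cons (P.cons (P.lf 562398494 0 0) (P.cons (P.lf 149603782 0 0) (P.cons (P.lf 0 19264642 0) (P.lf 0 1284308 0)))) (P.cons (P.cons (P.lf 21642828 0 0) (P.cons (P.lf 0 24767622 0) (P.cons (P.lf 3189356 0 0) (P.lf 212622 0 0)))) (P.cons (P.cons (P.lf 0 26477370 0) (P.cons (P.lf 0 10422968 0) (P.cons (P.lf 1342174 0 0) (P.lf 89476 0 0)))) (P.cons (P.cons (P.lf 0 19189134 0) (P.cons (P.lf 102542 0 0) (P.cons (P.lf 0 13206 0) P.nil))) (P.cons (P.cons (P.lf 506860 0 0) (P.cons (P.lf 196326 0 0) P.nil)) (P.cons (P.cons (P.lf 382762 0 0) P.nil) P.nil))))))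 108414)
 EL.nil)
noncomputable def S198_227_660_734_38 : EL := (EL.cons 14 (TM.mk (P.cons (P.cons (P.lf 0 112258024 0) (P.cons (P.lf 0 59723576 0) (P.cons (P.lf 0 252870 0) (P.cons (P.lf 2558508 0 0) (P.cons (P.lf 4666 0 0) (P.cons (P.lf 0 17562 0) P.nil)))))) (P.cons (P.cons (P.lf 0 43452438 0) (P.cons (P.lf 0 10931718 0) (P.cons (P.lf 1574496 0 0) (P.cons (P.lf 50884 0 0) (P.cons (P.lf 0 98 0) P.nil))))) (P.cons (P.cons (P.lf 0 4314164 0) (P.cons (P.lf 3301910 0 0) (P.cons (P.lf 427726 0 0) (P.cons (P.lf 0 248006 0) P.nil)))) (P.cons (P.cons (P.lf 6354190 0 0) (P.cons (P.lf 2650716 0 0) (P.cons (P.lf 0 261632 0) P.nil))) (P.cons (P.cons (P.lf 1814622 0 0) (P.cons (P.lf 205714 0 0) P.nil)) (P.cons (P.cons (P.lf 118486 0 0) P.nil) P.nil)))))) 524458)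
 EL.nil)
noncomputable def S198_227_660_734_39 : EL := (EL.cons 14 (TM.mk (P.cons (P.lf 924170186 0 0) (P.cons (P.lf 0 573189372 0) (P.cons (P.lf 68410746 0 0) (P.cons (P.lf 8089740 0 0) (P.cons (P.lf 0 307614 0) (P.cons (P.lf 0 60382 0) P.nil)))))) 4526)
 EL.nil)
noncomputable def S198_227_660_734_40 : EL := (EL.cons 14 (TM.mk (P.cons (P.cons (P.lf 0 184469766 0) (P.cons (P.lf 0 49070854 0) (P.cons (P.lf 6318908 0 0) (P.lf 421260 0 0)))) (P.cons (P.cons (P.lf 50107006 0 0) (P.cons (P.lf 23341292 0 0) (P.cons (P.lf 0 3005684 0) (P.lf 0 200378 0)))) (P.cons (P.cons (P.lf 12928672 0 0) (P.cons (P.lf 1442802 0 0) (P.cons (P.lf 0 185790 0) (P.lf 0 12384 0)))) (P.cons (P.cons (P.lf 3505536 0 0) (P.cons (P.lf 0 1230066 0) (P.cons (P.lf 158396 0 0) P.nil))) (P.cons (P.cons (P.lf 0 2232930 0) (P.cons (P.lf 0 87334 0) P.nil)) (P.cons (P.cons (P.lf 0 135554 0) P.nil) P.nil))))))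 139240)
 EL.nil)
noncomputable def S198_227_660_734_41 : EL := (EL.cons 14 (TM.mk (P.cons (P.cons (P.lf 36821242 0 0) (P.cons (P.lf 19589658 0 0) (P.cons (P.lf 82942 0 0) (P.cons (P.lf 0 839204 0) (P.cons (P.lf 0 1530 0) (P.cons (P.lf 5760 0 0) P.nil)))))) (P.cons (P.cons (P.lf 2833990 0 0) (P.cons (P.lf 0 2489290 0) (P.cons (P.lf 0 542164 0) (P.cons (P.lf 243554 0 0) (P.cons (P.lf 506 0 0) P.nil))))) (P.cons (P.cons (P.lf 0 3412512 0) (P.cons (P.lf 0 2411896 0) (P.cons (P.lf 18938 0 0) (P.cons (P.lf 95814 0 0) P.nil)))) (P.cons (P.cons (P.lf 0 2646116 0) (P.cons (P.lf 0 554810 0) (P.cons (P.lf 135120 0 0) P.nil))) (P.cons (P.cons (P.lf 51286 0 0) (P.cons (P.lf 218790 0 0) P.nil)) (P.cons (P.cons (P.lf 170970 0 0) P.nil) P.nil)))))) 382136)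
 EL.nil)
noncomputable def S198_227_660_734_42 : EL := (EL.cons 14 (TM.mk (P.cons (P.lf 0 303132848 0) (P.cons (P.lf 282013848 0 0) (P.cons (P.lf 0 77386344 0) (P.cons (P.lf 1937536 0 0) (P.cons (P.lf 1329912 0 0) (P.cons (P.lf 9556 0 0) P.nil)))))) 14366)
 EL.nil)
noncomputable def S198_227_660_734_43 : EL := (EL.cons 14 (TM.mk (P.cons (P.cons (P.lf 60507086 0 0) (P.cons (P.lf 16095506 0 0) (P.cons (P.lf 0 2072636 0) (P.lf 0 138174 0)))) (P.cons (P.cons (P.lf 0 35199240 0) (P.cons (P.lf 0 12647452 0) (P.cons (P.lf 1628626 0 0) (P.lf 108574 0 0)))) (P.cons (P.cons (P.lf 186154 0 0) (P.cons (P.lf 1722766 0 0) (P.cons (P.lf 0 221842 0) (P.lf 0 14788 0)))) (P.cons (P.cons (P.lf 404284 0 0) (P.cons (P.lf 650176 0 0) (P.cons (P.lf 0 83724 0) P.nil))) (P.cons (P.cons (P.lf 1124360 0 0) (P.cons (P.lf 0 97412 0) P.nil)) (P.cons (P.cons (P.lf 0 175128 0) P.nil) P.nil)))))) 126814)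
 EL.nil)
noncomputable def S198_227_660_734_44 : EL := (EL.cons 14 (TM.mk (P.cons (P.cons (P.lf 0 12077566 0) (P.cons (P.lf 0 6425514 0) (P.cons (P.lf 0 27204 0) (P.cons (P.lf 275262 0 0) (P.cons (P.lf 502 0 0) (P.cons (P.lf 0 1888 0) P.nil)))))) (P.cons (P.cons (P.lf 2815812 0 0) (P.cons (P.lf 2809118 0 0) (P.cons (P.lf 186268 0 0) (P.cons (P.lf 0 165248 0) (P.cons (P.lf 0 320 0) P.nil))))) (P.cons (P.cons (P.lf 1541314 0 0) (P.cons (P.lf 609054 0 0) (P.cons (P.lf 0 61058 0) (P.cons (P.lf 0 9700 0) P.nil)))) (P.cons (P.cons (P.lf 519728 0 0) (P.cons (P.lf 0 78452 0) (P.cons (P.lf 0 44388 0) P.nil))) (P.cons (P.cons (P.lf 0 300032 0) (P.cons (P.lf 0 136604 0) P.nil)) (P.cons (P.cons (P.lf 0 59450 0) P.nil) P.nil)))))) 248352)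
 EL.nil)
noncomputable def S198_227_660_734_45 : EL := (EL.cons 14 (TM.mk (P.cons (P.cons (P.lf 0 68313980 0) (P.cons (P.lf 0 54516662 0) (P.cons (P.lf 0 7481822 0) (P.cons (P.lf 2916992 0 0) (P.cons (P.lf 505276 0 0) (P.cons (P.lf 0 62912 0) P.nil)))))) (P.cons (P.cons (P.lf 0 71441402 0) (P.cons (P.lf 0 45888978 0) (P.cons (P.lf 0 3338810 0) (P.cons (P.lf 2218040 0 0) (P.cons (P.lf 220858 0 0) P.nil))))) (P.cons (P.cons (P.lf 0 39679334 0) (P.cons (P.lf 0 19229108 0) (P.cons (P.lf 65436 0 0) (P.cons (P.lf 758446 0 0) P.nil)))) (P.cons (P.cons (P.lf 0 11382008 0) (P.cons (P.lf 0 3186676 0) (P.cons (P.lf 412594 0 0) P.nil))) (P.cons (P.cons (P.lf 0 1302160 0) (P.cons (P.lf 260852 0 0) P.nil)) (P.cons (P.cons (P.lf 305812 0 0) P.nil) P.nil)))))) 1119588)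
 EL.nil)
noncomputable def S198_227_660_734_46 : EL := (EL.cons 15 (TM.mk (P.lf 4294967296 0 0) 0)
 EL.nil)
noncomputable def S198_227_660_734_47 : EL := (EL.cons 15 (TM.mk (P.cons (P.cons (P.lf 0 857300558 0) (P.cons (P.lf 0 228050764 0) (P.cons (P.lf 29366348 0 0) (P.lf 1957756 0 0)))) (P.cons (P.cons (P.lf 0 298849297 0) (P.cons (P.lf 0 32965992 0) (P.cons (P.lf 4245064 0 0) (P.lf 283004 0 0)))) (P.cons (P.cons (P.lf 0 61807279 0) (P.cons (P.lf 3140288 0 0) (P.cons (P.lf 0 404376 0) (P.lf 0 26956 0)))) (P.cons (P.cons (P.lf 7583816 0 0) (P.cons (P.lf 667604 0 0) (P.cons (P.lf 0 85964 0) P.nil))) (P.cons (P.cons (P.lf 1232211 0 0) (P.cons (P.lf 0 11612 0) P.nil)) (P.cons (P.cons (P.lf 0 41570 0) P.nil) P.nil)))))) 40305)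
 EL.nil)
noncomputable def S198_227_660_734_48 : EL := (EL.cons 15 (TM.mk (P.cons (P.cons (P.lf 171122198 0 0) (P.cons (P.lf 91040528 0 0) (P.cons (P.lf 385469 0 0) (P.cons (P.lf 0 3900101 0) (P.cons (P.lf 0 7113 0) (P.cons (P.lf 26771 0 0) P.nil)))))) (P.cons (P.cons (P.lf 119304130 0 0) (P.cons (P.lf 44896534 0 0) (P.cons (P.lf 0 2280570 0) (P.cons (P.lf 0 1287029 0) (P.cons (P.lf 0 2056 0) P.nil))))) (P.cons (P.cons (P.lf 45468502 0 0) (P.cons (P.lf 9897579 0 0) (P.cons (P.lf 0 1354973 0) (P.cons (P.lf 0 64249 0) P.nil)))) (P.cons (P.cons (P.lf 5573710 0 0) (P.cons (P.lf 0 560081 0) (P.cons (P.lf 0 46981 0) P.nil))) (P.cons (P.cons (P.lf 0 657850 0) (P.cons (P.lf 0 425924 0) P.nil)) (P.cons (P.cons (P.lf 0 373154 0) P.nil) P.nil)))))) 318793)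
 EL.nil)
noncomputable def S198_227_660_734 : SL := (SL.cons S198_227_660_734_0 (SL.cons S198_227_660_734_1 (SL.cons S198_227_660_734_2 (SL.cons S198_227_660_734_3 (SL.cons S198_227_660_734_4 (SL.cons S198_227_660_734_5 (SL.cons S198_227_660_734_6 (SL.cons S198_227_660_734_7 (SL.cons S198_227_660_734_8 (SL.cons S198_227_660_734_9 (SL.cons S198_227_660_734_10 (SL.cons S198_227_660_734_11 (SL.cons S198_227_660_734_12 (SL.cons S198_227_660_734_13 (SL.cons S198_227_660_734_14 (SL.cons S198_227_660_734_15 (SL.cons S198_227_660_734_16 (SL.cons S198_227_660_734_17 (SL.cons S198_227_660_734_18 (SL.cons S198_227_660_734_19 (SL.cons S198_227_660_734_20 (SL.cons S198_227_660_734_21 (SL.cons S198_227_660_734_22 (SL.cons S198_227_660_734_23 (SL.cons S198_227_660_734_24 (SL.cons S198_227_660_734_25 (SL.cons S198_227_660_734_26 (SL.cons S198_227_660_734_27 (SL.cons S198_227_660_734_28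 (SL.cons S198_227_660_734_29 (SL.cons S198_227_660_734_30 (SL.cons S198_227_660_734_31 (SL.cons S198_227_660_734_32 (SL.cons S198_227_660_734_33 (SL.cons S198_227_660_734_34 (SL.cons S198_227_660_734_35 (SL.cons S198_227_660_734_36 (SL.cons S198_227_660_734_37 (SL.cons S198_227_660_734_38 (SL.cons S198_227_660_734_39 (SL.cons S198_227_660_734_40 (SL.cons S198_227_660_734_41 (SL.cons S198_227_660_734_42 (SL.cons S198_227_660_734_43 (SL.cons S198_227_660_734_44 (SL.cons S198_227_660_734_45 (SL.cons S198_227_660_734_46 (SL.cons S198_227_660_734_47 (SL.cons S198_227_660_734_48 SL.nil)))))))))))))))))))))))))))))))))))))))))))))))))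
noncomputable def S198_227_660_808_0 : EL := (EL.cons 0 (TM.mk (P.cons (P.lf 7643457911 0 0) (P.cons (P.lf 503779721 0 0) (P.cons (P.lf 0 60126632 0) (P.cons (P.lf 0 7110123 0) (P.cons (P.lf 270363 0 0) (P.cons (P.lf 53070 0 0) P.nil)))))) 3984)
 (EL.cons 1 (TM.mk (P.cons (P.lf 0 1228710643 0) (P.cons (P.lf 321830180 0 0) (P.cons (P.lf 40457490 0 0) (P.cons (P.lf 0 2710608 0) (P.cons (P.lf 0 384633 0) (P.cons (P.lf 7027 0 0) P.nil)))))) 2881)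
 (EL.cons 5 (TM.mk (P.cons (P.lf 4583770480 0 0) (P.cons (P.lf 0 179121676 0) (P.cons (P.lf 21378358 0 0) (P.cons (P.lf 2528040 0 0) (P.cons (P.lf 0 96128 0) (P.cons (P.lf 0 18870 0) P.nil)))))) 1697)
 (EL.cons 9 (TM.mk (P.lf 6442450944 0 0) 2)
 EL.nil))))
noncomputable def S198_227_660_808_1 : EL := (EL.cons 0 (TM.mk (P.cons (P.cons (P.lf 0 591231918 0) (P.cons (P.lf 0 396280047 0) (P.cons (P.lf 170880427 0 0) (P.lf 18986718 0 0)))) (P.cons (P.cons (P.lf 0 608467369 0) (P.cons (P.lf 0 210654983 0) (P.cons (P.lf 90836798 0 0) (P.lf 10092970 0 0)))) (P.cons (P.cons (P.lf 0 386675106 0) (P.cons (P.lf 1591210 0 0) (P.cons (P.lf 0 686149 0) (P.lf 0 76236 0)))) (P.cons (P.cons (P.lf 13980863 0 0) (P.cons (P.lf 8082697 0 0) (P.cons (P.lf 0 3485349 0) P.nil))) (P.cons (P.cons (P.lf 14124015 0 0) (P.cons (P.lf 407331 0 0) P.nil)) (P.cons (P.cons (P.lf 337895 0 0) P.nil) P.nil))))))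 1571812)
 (EL.cons 1 (TM.mk (P.cons (P.cons (P.lf 1122146851 0 0) (P.cons (P.lf 211996516 0 0) (P.cons (P.lf 0 91415288 0) (P.lf 0 10157251 0)))) (P.cons (P.cons (P.lf 479210255 0 0) (P.cons (P.lf 0 9263037 0) (P.cons (P.lf 3994322 0 0) (P.lf 443816 0 0)))) (P.cons (P.cons (P.lf 0 41699832 0) (P.cons (P.lf 0 23128857 0) (P.cons (P.lf 9973423 0 0) (P.lf 1108148 0 0)))) (P.cons (P.cons (P.lf 0 43912812 0) (P.cons (P.lf 0 1038720 0) (P.cons (P.lf 447905 0 0) P.nil))) (P.cons (P.cons (P.lf 0 582838 0) (P.cons (P.lf 589254 0 0) P.nil)) (P.cons (P.cons (P.lf 1040955 0 0) P.nil) P.nil)))))) 858874)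
 (EL.cons 5 (TM.mk (P.cons (P.cons (P.lf 0 1581630479 0) (P.cons (P.lf 0 414812732 0) (P.cons (P.lf 178871932 0 0) (P.lf 19874660 0 0)))) (P.cons (P.cons (P.lf 0 340044327 0) (P.cons (P.lf 0 5431732 0) (P.cons (P.lf 2342228 0 0) (P.lf 260254 0 0)))) (P.cons (P.cons (P.lf 37017329 0 0) (P.cons (P.lf 7086466 0 0) (P.cons (P.lf 0 3055762 0) (P.lf 0 339528 0)))) (P.cons (P.cons (P.lf 8900570 0 0) (P.cons (P.lf 0 1247018 0) (P.cons (P.lf 537728 0 0) P.nil))) (P.cons (P.cons (P.lf 0 2944145 0) (P.cons (P.lf 0 173128 0) P.nil)) (P.cons (P.cons (P.lf 0 200705 0) P.nil) P.nil)))))) 822610)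
 (EL.cons 9 (TM.mk (P.cons (P.cons (P.lf 0 1581040827 0) (P.cons (P.lf 0 490334382 0) (P.cons (P.lf 211437714 0 0) (P.lf 23493078 0 0)))) (P.cons (P.cons (P.lf 0 490930831 0) (P.cons (P.lf 0 70880538 0) (P.cons (P.lf 30564486 0 0) (P.lf 3396048 0 0)))) (P.cons (P.cons (P.lf 0 88647484 0) (P.cons (P.lf 6751968 0 0) (P.cons (P.lf 0 2911524 0) (P.lf 0 323496 0)))) (P.cons (P.cons (P.lf 12239586 0 0) (P.cons (P.lf 1435428 0 0) (P.cons (P.lf 0 618972 0) P.nil))) (P.cons (P.cons (P.lf 1833286 0 0) (P.cons (P.lf 0 24972 0) P.nil)) (P.cons (P.cons (P.lf 0 71091 0) P.nil) P.nil)))))) 179270)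
 (EL.cons 2 (TM.mk (P.cons (P.cons (P.lf 338650385 0 0) (P.cons (P.lf 0 315484163 0) (P.cons (P.lf 0 32378937 0) (P.cons (P.lf 6733915 0 0) (P.lf 561158 0 0))))) (P.cons (P.cons (P.lf 0 72383115 0) (P.cons (P.lf 67431566 0 0) (P.cons (P.lf 6920670 0 0) (P.cons (P.lf 0 1439305 0) (P.lf 0 119941 0))))) (P.cons (P.cons (P.lf 0 17765443 0) (P.cons (P.lf 16550153 0 0) (P.cons (P.lf 1698581 0 0) (P.cons (P.lf 0 353255 0) P.nil)))) (P.cons (P.cons (P.lf 705358 0 0) (P.cons (P.lf 0 657106 0) (P.cons (P.lf 0 67438 0) P.nil))) (P.cons (P.cons (P.lf 256190 0 0) (P.cons (P.lf 0 238663 0) P.nil)) (P.cons (P.cons (P.lf 818 0 0) P.nil) P.nil)))))) 137136)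
 (EL.cons 6 (TM.mk (P.cons (P.cons (P.lf 512279160 0 0) (P.cons (P.lf 0 477235428 0) (P.cons (P.lf 0 48979878 0) (P.cons (P.lf 10186449 0 0) (P.lf 848868 0 0))))) (P.cons (P.cons (P.lf 74052777 0 0) (P.cons (P.lf 0 68987013 0) (P.cons (P.lf 0 7080309 0) (P.cons (P.lf 1472505 0 0) (P.lf 122706 0 0))))) (P.cons (P.cons (P.lf 0 7054152 0) (P.cons (P.lf 6571593 0 0) (P.cons (P.lf 674457 0 0) (P.cons (P.lf 0 140268 0) P.nil)))) (P.cons (P.cons (P.lf 0 1499673 0) (P.cons (P.lf 1397085 0 0) (P.cons (P.lf 143385 0 0) P.nil))) (P.cons (P.cons (P.lf 26088 0 0) (P.cons (P.lf 0 24303 0) P.nil)) (P.cons (P.cons (P.lf 15168 0 0) P.nil) P.nil)))))) 85959)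
 EL.nil))))))
noncomputable def S198_227_660_808_2 : EL := (EL.cons 0 (TM.mk (P.cons (P.cons (P.lf 0 170146541 0) (P.cons (P.lf 0 1031594 0) (P.cons (P.lf 16490106 0 0) (P.cons (P.lf 0 13788382 0) (P.cons (P.lf 1445978 0 0) (P.cons (P.lf 663006 0 0) P.nil)))))) (P.cons (P.cons (P.lf 72535632 0 0) (P.cons (P.lf 120664155 0 0) (P.cons (P.lf 0 26965102 0) (P.cons (P.lf 0 27399333 0) (P.cons (P.lf 2258964 0 0) P.nil))))) (P.cons (P.cons (P.lf 187565497 0 0) (P.cons (P.lf 82026642 0 0) (P.cons (P.lf 0 32009596 0) (P.cons (P.lf 0 6828866 0) P.nil)))) (P.cons (P.cons (P.lf 54015310 0 0) (P.cons (P.lf 6523138 0 0) (P.cons (P.lf 0 4099567 0) P.nil))) (P.cons (P.cons (P.lf 1181320 0 0) (P.cons (P.lf 0 4484779 0) P.nil)) (P.cons (P.cons (P.lf 0 3549064 0) P.nil) P.nil)))))) 12818341)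
 (EL.cons 1 (TM.mk (P.cons (P.cons (P.lf 0 476771433 0) (P.cons (P.lf 0 228965045 0) (P.cons (P.lf 73579808 0 0) (P.cons (P.lf 32662328 0 0) (P.cons (P.lf 0 2266703 0) (P.cons (P.lf 0 1039314 0) P.nil)))))) (P.cons (P.cons (P.lf 0 379653295 0) (P.cons (P.lf 0 116534901 0) (P.cons (P.lf 47189857 0 0) (P.cons (P.lf 8223582 0 0) (P.cons (P.lf 0 275879 0) P.nil))))) (P.cons (P.cons (P.lf 0 82488612 0) (P.cons (P.lf 2104219 0 0) (P.cons (P.lf 2440867 0 0) (P.cons (P.lf 0 2988405 0) P.nil)))) (P.cons (P.cons (P.lf 15023244 0 0) (P.cons (P.lf 12253076 0 0) (P.cons (P.lf 0 4651236 0) P.nil))) (P.cons (P.cons (P.lf 9532482 0 0) (P.cons (P.lf 1594959 0 0) P.nil)) (P.cons (P.cons (P.lf 843100 0 0) P.nil) P.nil)))))) 6840635)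
 (EL.cons 5 (TM.mk (P.cons (P.cons (P.lf 500233241 0 0) (P.cons (P.lf 273121322 0 0) (P.cons (P.lf 0 81182767 0) (P.cons (P.lf 0 44642117 0) (P.cons (P.lf 3297443 0 0) (P.cons (P.lf 1511924 0 0) P.nil)))))) (P.cons (P.cons (P.lf 247295857 0 0) (P.cons (P.lf 81218683 0 0) (P.cons (P.lf 0 31706975 0) (P.cons (P.lf 0 6750692 0) (P.cons (P.lf 298791 0 0) P.nil))))) (P.cons (P.cons (P.lf 25019489 0 0) (P.cons (P.lf 0 5384911 0) (P.cons (P.lf 845924 0 0) (P.cons (P.lf 1531020 0 0) P.nil)))) (P.cons (P.cons (P.lf 0 10702161 0) (P.cons (P.lf 0 4184868 0) (P.cons (P.lf 1846038 0 0) P.nil))) (P.cons (P.cons (P.lf 0 2171485 0) (P.cons (P.lf 528449 0 0) P.nil)) (P.cons (P.cons (P.lf 603032 0 0) P.nil) P.nil)))))) 7211137)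
 (EL.cons 9 (TM.mk (P.cons (P.cons (P.lf 388002969 0 0) (P.cons (P.lf 240665760 0 0) (P.cons (P.lf 0 66458481 0) (P.cons (P.lf 0 43715875 0) (P.cons (P.lf 3363157 0 0) (P.cons (P.lf 1542058 0 0) P.nil)))))) (P.cons (P.cons (P.lf 240958509 0 0) (P.cons (P.lf 109518967 0 0) (P.cons (P.lf 0 36436389 0) (P.cons (P.lf 0 14552350 0) (P.cons (P.lf 972325 0 0) P.nil))))) (P.cons (P.cons (P.lf 80920083 0 0) (P.cons (P.lf 20982453 0 0) (P.cons (P.lf 0 9295818 0) (P.cons (P.lf 0 791484 0) P.nil)))) (P.cons (P.cons (P.lf 7502889 0 0) (P.cons (P.lf 0 1646058 0) (P.cons (P.lf 342726 0 0) P.nil))) (P.cons (P.cons (P.lf 0 1545405 0) (P.cons (P.lf 0 940707 0) P.nil)) (P.cons (P.cons (P.lf 0 581340 0) P.nil) P.nil)))))) 2793227)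
 (EL.cons 2 (TM.mk (P.cons (P.cons (P.lf 0 166216269 0) (P.cons (P.lf 103296526 0 0) (P.cons (P.lf 86143803 0 0) (P.cons (P.lf 0 16614607 0) (P.cons (P.lf 0 5726671 0) (P.cons (P.lf 120436 0 0) P.nil)))))) (P.cons (P.cons (P.lf 0 16084946 0) (P.cons (P.lf 18551025 0 0) (P.cons (P.lf 0 3322406 0) (P.cons (P.lf 600963 0 0) (P.cons (P.lf 350488 0 0) P.nil))))) (P.cons (P.cons (P.lf 10431585 0 0) (P.cons (P.lf 0 4711156 0) (P.cons (P.lf 0 7820701 0) (P.cons (P.lf 1500131 0 0) P.nil)))) (P.cons (P.cons (P.lf 5640063 0 0) (P.cons (P.lf 0 4971510 0) (P.cons (P.lf 0 924558 0) P.nil))) (P.cons (P.cons (P.lf 173356 0 0) (P.cons (P.lf 0 288135 0) P.nil)) (P.cons (P.cons (P.lf 0 175027 0) P.nil) P.nil)))))) 2149677)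
 (EL.cons 6 (TM.mk (P.cons (P.cons (P.lf 0 251436684 0) (P.cons (P.lf 156257490 0 0) (P.cons (P.lf 130310424 0 0) (P.cons (P.lf 0 25133046 0) (P.cons (P.lf 0 8662782 0) (P.cons (P.lf 182190 0 0) P.nil)))))) (P.cons (P.cons (P.lf 0 114420456 0) (P.cons (P.lf 84048636 0 0) (P.cons (P.lf 41663796 0 0) (P.cons (P.lf 0 8095968 0) (P.cons (P.lf 0 2573646 0) P.nil))))) (P.cons (P.cons (P.lf 0 21921516 0) (P.cons (P.lf 20940006 0 0) (P.cons (P.lf 1389894 0 0) (P.cons (P.lf 0 302130 0) P.nil)))) (P.cons (P.cons (P.lf 1719726 0 0) (P.cons (P.lf 0 835086 0) (P.cons (P.lf 0 1209696 0) P.nil))) (P.cons (P.cons (P.lf 982806 0 0) (P.cons (P.lf 0 872304 0) P.nil)) (P.cons (P.cons (P.lf 33882 0 0) P.nil) P.nil)))))) 2200560)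
 EL.nil))))))
noncomputable def S198_227_660_808_3 : EL := (EL.cons 0 (TM.mk (P.cons (P.lf 812258952 0 0) (P.cons (P.lf 0 503779721 0) (P.cons (P.lf 60126632 0 0) (P.cons (P.lf 7110123 0 0) (P.cons (P.lf 0 270363 0) (P.cons (P.lf 0 53070 0) P.nil)))))) 3984)
 (EL.cons 1 (TM.mk (P.cons (P.lf 1228710643 0 0) (P.cons (P.lf 0 321830180 0) (P.cons (P.lf 0 40457490 0) (P.cons (P.lf 2710608 0 0) (P.cons (P.lf 384633 0 0) (P.cons (P.lf 0 7027 0) P.nil)))))) 2881)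
 (EL.cons 5 (TM.mk (P.cons (P.lf 1858680464 0 0) (P.cons (P.lf 179121676 0 0) (P.cons (P.lf 0 21378358 0) (P.cons (P.lf 0 2528040 0) (P.cons (P.lf 96128 0 0) (P.cons (P.lf 18870 0 0) P.nil)))))) 1690)
 EL.nil)))
noncomputable def S198_227_660_808_4 : EL := (EL.cons 0 (TM.mk (P.cons (P.cons (P.lf 0 199336334 0) (P.cons (P.lf 0 61820957 0) (P.cons (P.lf 26657892 0 0) (P.lf 2961987 0 0)))) (P.cons (P.cons (P.lf 61736340 0 0) (P.cons (P.lf 29406069 0 0) (P.cons (P.lf 0 12680228 0) (P.lf 0 1408914 0)))) (P.cons (P.cons (P.lf 12457001 0 0) (P.cons (P.lf 1817687 0 0) (P.cons (P.lf 0 783806 0) (P.lf 0 87087 0)))) (P.cons (P.cons (P.lf 2148421 0 0) (P.cons (P.lf 0 1549675 0) (P.cons (P.lf 668237 0 0) P.nil))) (P.cons (P.cons (P.lf 0 2028752 0) (P.cons (P.lf 0 110026 0) P.nil)) (P.cons (P.cons (P.lf 0 102297 0) P.nil) P.nil)))))) 343929)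
 (EL.cons 1 (TM.mk (P.cons (P.cons (P.lf 0 301537676 0) (P.cons (P.lf 0 93517059 0) (P.cons (P.lf 40325610 0 0) (P.lf 4480621 0 0)))) (P.cons (P.cons (P.lf 0 14650522 0) (P.cons (P.lf 10976058 0 0) (P.cons (P.lf 0 4732998 0) (P.lf 0 525888 0)))) (P.cons (P.cons (P.lf 17545991 0 0) (P.cons (P.lf 7907767 0 0) (P.cons (P.lf 0 3409918 0) (P.lf 0 378877 0)))) (P.cons (P.cons (P.lf 9180448 0 0) (P.cons (P.lf 175286 0 0) (P.cons (P.lf 0 75585 0) P.nil))) (P.cons (P.cons (P.lf 0 6033 0) (P.cons (P.lf 0 177965 0) P.nil)) (P.cons (P.cons (P.lf 0 246883 0) P.nil) P.nil)))))) 233696)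
 (EL.cons 5 (TM.mk (P.cons (P.cons (P.lf 0 456138466 0) (P.cons (P.lf 0 141464008 0) (P.cons (P.lf 61000874 0 0) (P.lf 6777874 0 0)))) (P.cons (P.cons (P.lf 0 185594308 0) (P.cons (P.lf 0 34082336 0) (P.cons (P.lf 14696686 0 0) (P.lf 1632962 0 0)))) (P.cons (P.cons (P.lf 0 33978316 0) (P.cons (P.lf 1604366 0 0) (P.cons (P.lf 0 691820 0) (P.lf 0 76866 0)))) (P.cons (P.cons (P.lf 3315976 0 0) (P.cons (P.lf 1029470 0 0) (P.cons (P.lf 0 443918 0) P.nil))) (P.cons (P.cons (P.lf 1332430 0 0) (P.cons (P.lf 30796 0 0) P.nil)) (P.cons (P.cons (P.lf 12674 0 0) P.nil) P.nil)))))) 169658)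
 EL.nil)))
noncomputable def S198_227_660_808_5 : EL := (EL.cons 0 (TM.mk (P.cons (P.cons (P.lf 48919095 0 0) (P.cons (P.lf 30342941 0 0) (P.cons (P.lf 0 8379029 0) (P.cons (P.lf 0 5511661 0) (P.cons (P.lf 424023 0 0) (P.cons (P.lf 194421 0 0) P.nil)))))) (P.cons (P.cons (P.lf 39220 0 0) (P.cons (P.lf 0 5011254 0) (P.cons (P.lf 602977 0 0) (P.cons (P.lf 1583697 0 0) (P.cons (P.lf 0 140398 0) P.nil))))) (P.cons (P.cons (P.lf 0 5018684 0) (P.cons (P.lf 0 3672486 0) (P.cons (P.lf 1056953 0 0) (P.cons (P.lf 630163 0 0) P.nil)))) (P.cons (P.cons (P.lf 0 2704689 0) (P.cons (P.lf 0 560561 0) (P.cons (P.lf 356711 0 0) P.nil))) (P.cons (P.cons (P.lf 223317 0 0) (P.cons (P.lf 316708 0 0) P.nil)) (P.cons (P.cons (P.lf 193572 0 0) P.nil) P.nil)))))) 1520315)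
 (EL.cons 1 (TM.mk (P.cons (P.cons (P.lf 74000310 0 0) (P.cons (P.lf 45900011 0 0) (P.cons (P.lf 0 12675026 0) (P.cons (P.lf 0 8337534 0) (P.cons (P.lf 641422 0 0) (P.cons (P.lf 294101 0 0) P.nil)))))) (P.cons (P.cons (P.lf 26573304 0 0) (P.cons (P.lf 8865198 0 0) (P.cons (P.lf 0 3629274 0) (P.cons (P.lf 0 591626 0) (P.cons (P.lf 17437 0 0) P.nil))))) (P.cons (P.cons (P.lf 959574 0 0) (P.cons (P.lf 0 2980522 0) (P.cons (P.lf 464604 0 0) (P.cons (P.lf 850531 0 0) P.nil)))) (P.cons (P.cons (P.lf 0 3961301 0) (P.cons (P.lf 0 1948608 0) (P.cons (P.lf 730586 0 0) P.nil))) (P.cons (P.cons (P.lf 0 1053161 0) (P.cons (P.lf 0 168502 0) P.nil)) (P.cons (P.cons (P.lf 0 32780 0) P.nil) P.nil)))))) 1320710)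
 (EL.cons 5 (TM.mk (P.cons (P.cons (P.lf 111940864 0 0) (P.cons (P.lf 69433318 0 0) (P.cons (P.lf 0 19173614 0) (P.cons (P.lf 0 12612254 0) (P.cons (P.lf 970286 0 0) (P.cons (P.lf 444890 0 0) P.nil)))))) (P.cons (P.cons (P.lf 80305556 0 0) (P.cons (P.lf 38288100 0 0) (P.cons (P.lf 0 12359854 0) (P.cons (P.lf 0 5413874 0) (P.cons (P.lf 374026 0 0) P.nil))))) (P.cons (P.cons (P.lf 28757782 0 0) (P.cons (P.lf 8299924 0 0) (P.cons (P.lf 0 3474410 0) (P.cons (P.lf 0 487884 0) P.nil)))) (P.cons (P.cons (P.lf 3462630 0 0) (P.cons (P.lf 0 349374 0) (P.cons (P.lf 0 12588 0) P.nil))) (P.cons (P.cons (P.lf 0 594536 0) (P.cons (P.lf 0 426176 0) P.nil)) (P.cons (P.cons (P.lf 0 262604 0) P.nil) P.nil)))))) 1247678)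
 EL.nil)))
noncomputable def S198_227_660_808_6 : EL := (EL.cons 12 (TM.mk (P.lf 8589934592 0 0) 0)
 (EL.cons 3 (TM.mk (P.cons (P.lf 0 1320724353 0) (P.cons (P.lf 409570215 0 0) (P.cons (P.lf 14623338 0 0) (P.cons (P.lf 0 1245645 0) (P.cons (P.lf 0 85526 0) (P.cons (P.lf 2831 0 0) P.nil)))))) 532)
 (EL.cons 7 (TM.mk (P.cons (P.lf 0 1997870342 0) (P.cons (P.lf 0 96267727 0) (P.cons (P.lf 13808992 0 0) (P.cons (P.lf 693290 0 0) (P.cons (P.lf 0 37347 0) (P.cons (P.lf 0 3551 0) P.nil)))))) 296)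
 EL.nil)))
noncomputable def S198_227_660_808_7 : EL := (EL.cons 12 (TM.mk (P.cons (P.cons (P.lf 0 2108054436 0) (P.cons (P.lf 0 653779176 0) (P.cons (P.lf 281916952 0 0) (P.lf 31324104 0 0)))) (P.cons (P.cons (P.lf 0 654574442 0) (P.cons (P.lf 0 94507384 0) (P.cons (P.lf 40752648 0 0) (P.lf 4528064 0 0)))) (P.cons (P.cons (P.lf 0 118196646 0) (P.cons (P.lf 9002624 0 0) (P.cons (P.lf 0 3882032 0) (P.lf 0 431328 0)))) (P.cons (P.cons (P.lf 16319448 0 0) (P.cons (P.lf 1913904 0 0) (P.cons (P.lf 0 825296 0) P.nil))) (P.cons (P.cons (P.lf 2444382 0 0) (P.cons (P.lf 0 33296 0) P.nil)) (P.cons (P.cons (P.lf 0 94788 0) P.nil) P.nil)))))) 239002)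
 (EL.cons 3 (TM.mk (P.cons (P.cons (P.lf 0 1764542269 0) (P.cons (P.lf 0 201040430 0) (P.cons (P.lf 86690900 0 0) (P.lf 9632320 0 0)))) (P.cons (P.cons (P.lf 0 806307414 0) (P.cons (P.lf 33283202 0 0) (P.cons (P.lf 0 14352090 0) (P.lf 0 1594678 0)))) (P.cons (P.cons (P.lf 129454503 0 0) (P.cons (P.lf 14006584 0 0) (P.cons (P.lf 0 6039796 0) (P.lf 0 671084 0)))) (P.cons (P.cons (P.lf 29283079 0 0) (P.cons (P.lf 0 137794 0) (P.cons (P.lf 59418 0 0) P.nil))) (P.cons (P.cons (P.lf 0 1066537 0) (P.cons (P.lf 0 263828 0) P.nil)) (P.cons (P.cons (P.lf 0 448644 0) P.nil) P.nil)))))) 654006)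
 (EL.cons 7 (TM.mk (P.cons (P.cons (P.lf 981227877 0 0) (P.cons (P.lf 222938285 0 0) (P.cons (P.lf 0 96133506 0) (P.lf 0 10681502 0)))) (P.cons (P.cons (P.lf 189519112 0 0) (P.cons (P.lf 0 7823072 0) (P.cons (P.lf 3373395 0 0) (P.lf 374819 0 0)))) (P.cons (P.cons (P.lf 0 64379645 0) (P.cons (P.lf 0 1890702 0) (P.cons (P.lf 815293 0 0) (P.lf 90590 0 0)))) (P.cons (P.cons (P.lf 1213042 0 0) (P.cons (P.lf 784597 0 0) (P.cons (P.lf 0 338327 0) P.nil))) (P.cons (P.cons (P.lf 1814769 0 0) (P.cons (P.lf 35292 0 0) P.nil)) (P.cons (P.cons (P.lf 5389 0 0) P.nil) P.nil)))))) 499272)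
 (EL.cons 10 (TM.mk (P.cons (P.cons (P.lf 0 1101283803 0) (P.cons (P.lf 1025947743 0 0) (P.cons (P.lf 105295614 0 0) (P.cons (P.lf 0 21898557 0) (P.lf 0 1824879 0))))) (P.cons (P.cons (P.lf 0 106131099 0) (P.cons (P.lf 98870937 0 0) (P.cons (P.lf 10147374 0 0) (P.cons (P.lf 0 2110371 0) (P.lf 0 175863 0))))) (P.cons (P.cons (P.lf 12666855 0 0) (P.cons (P.lf 0 11800347 0) (P.cons (P.lf 0 1211097 0) (P.cons (P.lf 251874 0 0) P.nil)))) (P.cons (P.cons (P.lf 1497882 0 0) (P.cons (P.lf 0 1395417 0) (P.cons (P.lf 0 143214 0) P.nil))) (P.cons (P.cons (P.lf 0 56955 0) (P.cons (P.lf 53058 0 0) P.nil)) (P.cons (P.cons (P.lf 0 11178 0) P.nil) P.nil)))))) 73815)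
 EL.nil))))
noncomputable def S198_227_660_808_8 : EL := (EL.cons 12 (TM.mk (P.cons (P.cons (P.lf 517337292 0 0) (P.cons (P.lf 320887680 0 0) (P.cons (P.lf 0 88611308 0) (P.cons (P.lf 0 58287834 0) (P.cons (P.lf 4484210 0 0) (P.cons (P.lf 2056078 0 0) P.nil)))))) (P.cons (P.cons (P.lf 321278012 0 0) (P.cons (P.lf 146025290 0 0) (P.cons (P.lf 0 48581852 0) (P.cons (P.lf 0 19403134 0) (P.cons (P.lf 1296434 0 0) P.nil))))) (P.cons (P.cons (P.lf 107893444 0 0) (P.cons (P.lf 27976604 0 0) (P.cons (P.lf 0 12394424 0) (P.cons (P.lf 0 1055312 0) P.nil)))) (P.cons (P.cons (P.lf 10003852 0 0) (P.cons (P.lf 0 2194744 0) (P.cons (P.lf 456968 0 0) P.nil))) (P.cons (P.cons (P.lf 0 2060540 0) (P.cons (P.lf 0 1254276 0) P.nil)) (P.cons (P.cons (P.lf 0 775120 0) P.nil) P.nil)))))) 3724274)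
 (EL.cons 3 (TM.mk (P.cons (P.cons (P.lf 945613981 0 0) (P.cons (P.lf 416610210 0 0) (P.cons (P.lf 0 141394096 0) (P.cons (P.lf 0 52950958 0) (P.cons (P.lf 3447290 0 0) (P.cons (P.lf 1580636 0 0) P.nil)))))) (P.cons (P.cons (P.lf 689407127 0 0) (P.cons (P.lf 183018610 0 0) (P.cons (P.lf 0 79722970 0) (P.cons (P.lf 0 8076078 0) (P.cons (P.lf 0 72385 0) P.nil))))) (P.cons (P.cons (P.lf 108295881 0 0) (P.cons (P.lf 0 15283972 0) (P.cons (P.lf 2483310 0 0) (P.cons (P.lf 4274520 0 0) P.nil)))) (P.cons (P.cons (P.lf 0 22695663 0) (P.cons (P.lf 0 15402718 0) (P.cons (P.lf 6258010 0 0) P.nil))) (P.cons (P.cons (P.lf 0 12495654 0) (P.cons (P.lf 0 890656 0) P.nil)) (P.cons (P.cons (P.lf 0 370463 0) P.nil) P.nil)))))) 8555009)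
 (EL.cons 7 (TM.mk (P.cons (P.cons (P.lf 0 361282225 0) (P.cons (P.lf 0 184151901 0) (P.cons (P.lf 57045850 0 0) (P.cons (P.lf 28109094 0 0) (P.cons (P.lf 0 2015273 0) (P.cons (P.lf 0 924032 0) P.nil)))))) (P.cons (P.cons (P.lf 0 162042194 0) (P.cons (P.lf 0 43017743 0) (P.cons (P.lf 18738541 0 0) (P.cons (P.lf 1898251 0 0) (P.cons (P.lf 17014 0 0) P.nil))))) (P.cons (P.cons (P.lf 3575003 0 0) (P.cons (P.lf 11298963 0 0) (P.cons (P.lf 0 3940655 0) (P.cons (P.lf 0 1344776 0) P.nil)))) (P.cons (P.cons (P.lf 10706857 0 0) (P.cons (P.lf 2574334 0 0) (P.cons (P.lf 0 1249640 0) P.nil))) (P.cons (P.cons (P.lf 1410404 0 0) (P.cons (P.lf 0 720430 0) P.nil)) (P.cons (P.cons (P.lf 0 697575 0) P.nil) P.nil)))))) 3892763)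
 (EL.cons 10 (TM.mk (P.cons (P.cons (P.lf 540531750 0 0) (P.cons (P.lf 0 335918100 0) (P.cons (P.lf 0 280137804 0) (P.cons (P.lf 54030348 0 0) (P.cons (P.lf 18623022 0 0) (P.cons (P.lf 0 391668 0) P.nil)))))) (P.cons (P.cons (P.lf 219932376 0 0) (P.cons (P.lf 0 164499210 0) (P.cons (P.lf 0 76069218 0) (P.cons (P.lf 14801040 0 0) (P.cons (P.lf 4635408 0 0) P.nil))))) (P.cons (P.cons (P.lf 40264878 0 0) (P.cons (P.lf 0 39411660 0) (P.cons (P.lf 0 1258830 0) (P.cons (P.lf 309774 0 0) P.nil)))) (P.cons (P.cons (P.lf 0 3929484 0) (P.cons (P.lf 2440740 0 0) (P.cons (P.lf 2038242 0 0) P.nil))) (P.cons (P.cons (P.lf 0 1578948 0) (P.cons (P.lf 1434444 0 0) P.nil)) (P.cons (P.cons (P.lf 0 15018 0) P.nil) P.nil)))))) 3680214)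
 EL.nil))))
noncomputable def S198_227_660_808_9 : EL := (EL.cons 3 (TM.mk (P.cons (P.lf 0 1320724353 0) (P.cons (P.lf 409570215 0 0) (P.cons (P.lf 14623338 0 0) (P.cons (P.lf 0 1245645 0) (P.cons (P.lf 0 85526 0) (P.cons (P.lf 2831 0 0) P.nil)))))) 532)
 (EL.cons 7 (TM.mk (P.cons (P.lf 0 1997870342 0) (P.cons (P.lf 0 96267727 0) (P.cons (P.lf 13808992 0 0) (P.cons (P.lf 693290 0 0) (P.cons (P.lf 0 37347 0) (P.cons (P.lf 0 3551 0) P.nil)))))) 296)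
 EL.nil))
noncomputable def S198_227_660_808_10 : EL := (EL.cons 3 (TM.mk (P.cons (P.cons (P.lf 324118745 0 0) (P.cons (P.lf 100520215 0 0) (P.cons (P.lf 0 43345450 0) (P.lf 0 4816160 0)))) (P.cons (P.cons (P.lf 129930 0 0) (P.cons (P.lf 0 16641601 0) (P.cons (P.lf 7176045 0 0) (P.lf 797339 0 0)))) (P.cons (P.cons (P.lf 0 16625946 0) (P.cons (P.lf 0 7003292 0) (P.cons (P.lf 3019898 0 0) (P.lf 335542 0 0)))) (P.cons (P.cons (P.lf 0 8953442 0) (P.cons (P.lf 68897 0 0) (P.cons (P.lf 0 29709 0) P.nil))) (P.cons (P.cons (P.lf 316979 0 0) (P.cons (P.lf 131914 0 0) P.nil)) (P.cons (P.cons (P.lf 181866 0 0) P.nil) P.nil)))))) 161828)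
 (EL.cons 7 (TM.mk (P.cons (P.cons (P.lf 490297032 0 0) (P.cons (P.lf 152057738 0 0) (P.cons (P.lf 0 65569011 0) (P.lf 0 7285445 0)))) (P.cons (P.cons (P.lf 175867750 0 0) (P.cons (P.lf 29307712 0 0) (P.cons (P.lf 0 12637815 0) (P.lf 0 1404199 0)))) (P.cons (P.cons (P.lf 31437475 0 0) (P.cons (P.lf 0 2085708 0) (P.cons (P.lf 899380 0 0) (P.lf 99929 0 0)))) (P.cons (P.cons (P.lf 0 3693407 0) (P.cons (P.lf 0 750728 0) (P.cons (P.lf 323722 0 0) P.nil))) (P.cons (P.cons (P.lf 0 985089 0) (P.cons (P.lf 0 4017 0) P.nil)) (P.cons (P.cons (P.lf 15064 0 0) P.nil) P.nil)))))) 109529)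
 EL.nil))
noncomputable def S198_227_660_808_11 : EL := (EL.cons 3 (TM.mk (P.cons (P.cons (P.lf 0 79541927 0) (P.cons (P.lf 0 49337298 0) (P.cons (P.lf 13624214 0 0) (P.cons (P.lf 8961902 0 0) (P.cons (P.lf 0 689458 0) (P.cons (P.lf 0 316126 0) P.nil)))))) (P.cons (P.cons (P.lf 0 24730543 0) (P.cons (P.lf 0 7151756 0) (P.cons (P.lf 3244574 0 0) (P.cons (P.lf 204102 0 0) (P.cons (P.lf 14477 0 0) P.nil))))) (P.cons (P.cons (P.lf 0 389571 0) (P.cons (P.lf 3207320 0 0) (P.cons (P.lf 0 561570 0) (P.cons (P.lf 0 862116 0) P.nil)))) (P.cons (P.cons (P.lf 4078185 0 0) (P.cons (P.lf 1873436 0 0) (P.cons (P.lf 0 731084 0) P.nil))) (P.cons (P.cons (P.lf 925734 0 0) (P.cons (P.lf 111458 0 0) P.nil)) (P.cons (P.cons (P.lf 19285 0 0) P.nil) P.nil)))))) 1200313)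
 (EL.cons 7 (TM.mk (P.cons (P.cons (P.lf 0 120323713 0) (P.cons (P.lf 0 74632929 0) (P.cons (P.lf 20609458 0 0) (P.cons (P.lf 13556742 0 0) (P.cons (P.lf 0 1042949 0) (P.cons (P.lf 0 478208 0) P.nil)))))) (P.cons (P.cons (P.lf 0 80521532 0) (P.cons (P.lf 0 37559159 0) (P.cons (P.lf 12292369 0 0) (P.cons (P.lf 5166067 0 0) (P.cons (P.lf 0 351782 0) P.nil))))) (P.cons (P.cons (P.lf 0 27863065 0) (P.cons (P.lf 0 7627533 0) (P.cons (P.lf 3284737 0 0) (P.cons (P.lf 369196 0 0) P.nil)))) (P.cons (P.cons (P.lf 0 2977655 0) (P.cons (P.lf 457570 0 0) (P.cons (P.lf 0 52628 0) P.nil))) (P.cons (P.cons (P.lf 564260 0 0) (P.cons (P.lf 371684 0 0) P.nil)) (P.cons (P.cons (P.lf 226551 0 0) P.nil) P.nil)))))) 1086169)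
 EL.nil))
noncomputable def S198_227_660_808_12 : EL := (EL.cons 4 (TM.mk (P.cons (P.lf 1320724353 0 0) (P.cons (P.lf 0 409570215 0) (P.cons (P.lf 0 14623338 0) (P.cons (P.lf 1245645 0 0) (P.cons (P.lf 85526 0 0) (P.cons (P.lf 0 2831 0) P.nil)))))) 532)
 (EL.cons 8 (TM.mk (P.cons (P.lf 1997870342 0 0) (P.cons (P.lf 96267727 0 0) (P.cons (P.lf 0 13808992 0) (P.cons (P.lf 0 693290 0) (P.cons (P.lf 37347 0 0) (P.cons (P.lf 3551 0 0) P.nil)))))) 296)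
 EL.nil))
noncomputable def S198_227_660_808_13 : EL := (EL.cons 4 (TM.mk (P.cons (P.cons (P.lf 0 324118745 0) (P.cons (P.lf 0 100520215 0) (P.cons (P.lf 43345450 0 0) (P.lf 4816160 0 0)))) (P.cons (P.cons (P.lf 0 129930 0) (P.cons (P.lf 16641601 0 0) (P.cons (P.lf 0 7176045 0) (P.lf 0 797339 0)))) (P.cons (P.cons (P.lf 16625946 0 0) (P.cons (P.lf 7003292 0 0) (P.cons (P.lf 0 3019898 0) (P.lf 0 335542 0)))) (P.cons (P.cons (P.lf 8953442 0 0) (P.cons (P.lf 0 68897 0) (P.cons (P.lf 29709 0 0) P.nil))) (P.cons (P.cons (P.lf 0 316979 0) (P.cons (P.lf 0 131914 0) P.nil)) (P.cons (P.cons (P.lf 0 181866 0) P.nil) P.nil)))))) 161828)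
 (EL.cons 8 (TM.mk (P.cons (P.cons (P.lf 0 490297032 0) (P.cons (P.lf 0 152057738 0) (P.cons (P.lf 65569011 0 0) (P.lf 7285445 0 0)))) (P.cons (P.cons (P.lf 0 175867750 0) (P.cons (P.lf 0 29307712 0) (P.cons (P.lf 12637815 0 0) (P.lf 1404199 0 0)))) (P.cons (P.cons (P.lf 0 31437475 0) (P.cons (P.lf 2085708 0 0) (P.cons (P.lf 0 899380 0) (P.lf 0 99929 0)))) (P.cons (P.cons (P.lf 3693407 0 0) (P.cons (P.lf 750728 0 0) (P.cons (P.lf 0 323722 0) P.nil))) (P.cons (P.cons (P.lf 985089 0 0) (P.cons (P.lf 4017 0 0) P.nil)) (P.cons (P.cons (P.lf 0 15064 0) P.nil) P.nil)))))) 109529)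
 EL.nil))
noncomputable def S198_227_660_808_14 : EL := (EL.cons 4 (TM.mk (P.cons (P.cons (P.lf 79541927 0 0) (P.cons (P.lf 49337298 0 0) (P.cons (P.lf 0 13624214 0) (P.cons (P.lf 0 8961902 0) (P.cons (P.lf 689458 0 0) (P.cons (P.lf 316126 0 0) P.nil)))))) (P.cons (P.cons (P.lf 24730543 0 0) (P.cons (P.lf 7151756 0 0) (P.cons (P.lf 0 3244574 0) (P.cons (P.lf 0 204102 0) (P.cons (P.lf 0 14477 0) P.nil))))) (P.cons (P.cons (P.lf 389571 0 0) (P.cons (P.lf 0 3207320 0) (P.cons (P.lf 561570 0 0) (P.cons (P.lf 862116 0 0) P.nil)))) (P.cons (P.cons (P.lf 0 4078185 0) (P.cons (P.lf 0 1873436 0) (P.cons (P.lf 731084 0 0) P.nil))) (P.cons (P.cons (P.lf 0 925734 0) (P.cons (P.lf 0 111458 0) P.nil)) (P.cons (P.cons (P.lf 0 19285 0) P.nil) P.nil)))))) 1200313)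
 (EL.cons 8 (TM.mk (P.cons (P.cons (P.lf 120323713 0 0) (P.cons (P.lf 74632929 0 0) (P.cons (P.lf 0 20609458 0) (P.cons (P.lf 0 13556742 0) (P.cons (P.lf 1042949 0 0) (P.cons (P.lf 478208 0 0) P.nil)))))) (P.cons (P.cons (P.lf 80521532 0 0) (P.cons (P.lf 37559159 0 0) (P.cons (P.lf 0 12292369 0) (P.cons (P.lf 0 5166067 0) (P.cons (P.lf 351782 0 0) P.nil))))) (P.cons (P.cons (P.lf 27863065 0 0) (P.cons (P.lf 7627533 0 0) (P.cons (P.lf 0 3284737 0) (P.cons (P.lf 0 369196 0) P.nil)))) (P.cons (P.cons (P.lf 2977655 0 0) (P.cons (P.lf 0 457570 0) (P.cons (P.lf 52628 0 0) P.nil))) (P.cons (P.cons (P.lf 0 564260 0) (P.cons (P.lf 0 371684 0) P.nil)) (P.cons (P.cons (P.lf 0 226551 0) P.nil) P.nil)))))) 1086169)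
 EL.nil))
noncomputable def S198_227_660_808_15 : EL := (EL.cons 4 (TM.mk (P.cons (P.lf 0 433204774 0) (P.cons (P.lf 268682518 0 0) (P.cons (P.lf 0 32067537 0) (P.cons (P.lf 0 3792065 0) (P.cons (P.lf 144194 0 0) (P.cons (P.lf 28304 0 0) P.nil)))))) 2128)
 (EL.cons 8 (TM.mk (P.cons (P.lf 0 655312343 0) (P.cons (P.lf 171642763 0 0) (P.cons (P.lf 21577328 0 0) (P.cons (P.lf 0 1445658 0) (P.cons (P.lf 0 205138 0) (P.cons (P.lf 3748 0 0) P.nil)))))) 1533)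
 EL.nil))
noncomputable def S198_227_660_808_16 : EL := (EL.cons 4 (TM.mk (P.cons (P.cons (P.lf 106312711 0 0) (P.cons (P.lf 32971177 0 0) (P.cons (P.lf 0 14217542 0) (P.lf 0 1579726 0)))) (P.cons (P.cons (P.lf 0 32926048 0) (P.cons (P.lf 0 15683236 0) (P.cons (P.lf 6762788 0 0) (P.lf 751421 0 0)))) (P.cons (P.cons (P.lf 0 6643734 0) (P.cons (P.lf 0 969433 0) (P.cons (P.lf 418030 0 0) (P.lf 46446 0 0)))) (P.cons (P.cons (P.lf 0 1145824 0) (P.cons (P.lf 826493 0 0) (P.cons (P.lf 0 356393 0) P.nil))) (P.cons (P.cons (P.lf 1082001 0 0) (P.cons (P.lf 58680 0 0) P.nil)) (P.cons (P.cons (P.lf 54558 0 0) P.nil) P.nil)))))) 183438)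
 (EL.cons 8 (TM.mk (P.cons (P.cons (P.lf 160820094 0 0) (P.cons (P.lf 49875765 0 0) (P.cons (P.lf 0 21506992 0) (P.lf 0 2389665 0)))) (P.cons (P.cons (P.lf 7813612 0 0) (P.cons (P.lf 0 5853898 0) (P.cons (P.lf 2524266 0 0) (P.lf 280474 0 0)))) (P.cons (P.cons (P.lf 0 9357862 0) (P.cons (P.lf 0 4217476 0) (P.cons (P.lf 1818623 0 0) (P.lf 202068 0 0)))) (P.cons (P.cons (P.lf 0 4896239 0) (P.cons (P.lf 0 93486 0) (P.cons (P.lf 40312 0 0) P.nil))) (P.cons (P.cons (P.lf 3218 0 0) (P.cons (P.lf 94915 0 0) P.nil)) (P.cons (P.cons (P.lf 131671 0 0) P.nil) P.nil)))))) 124628)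
 EL.nil))
noncomputable def S198_227_660_808_17 : EL := (EL.cons 4 (TM.mk (P.cons (P.cons (P.lf 0 26090184 0) (P.cons (P.lf 0 16182901 0) (P.cons (P.lf 4468815 0 0) (P.cons (P.lf 2939552 0 0) (P.cons (P.lf 0 226145 0) (P.cons (P.lf 0 103691 0) P.nil)))))) (P.cons (P.cons (P.lf 0 20917 0) (P.cons (P.lf 2672669 0 0) (P.cons (P.lf 0 321587 0) (P.cons (P.lf 0 844638 0) (P.cons (P.lf 74879 0 0) P.nil))))) (P.cons (P.cons (P.lf 2676631 0 0) (P.cons (P.lf 1958659 0 0) (P.cons (P.lf 0 563708 0) (P.cons (P.lf 0 336087 0) P.nil)))) (P.cons (P.cons (P.lf 1442501 0 0) (P.cons (P.lf 298965 0 0) (P.cons (P.lf 0 190245 0) P.nil))) (P.cons (P.cons (P.lf 0 119102 0) (P.cons (P.lf 0 168911 0) P.nil)) (P.cons (P.cons (P.lf 0 103238 0) P.nil) P.nil)))))) 810845)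
 (EL.cons 8 (TM.mk (P.cons (P.cons (P.lf 0 39466832 0) (P.cons (P.lf 0 24480006 0) (P.cons (P.lf 6760014 0 0) (P.cons (P.lf 4446685 0 0) (P.cons (P.lf 0 342092 0) (P.cons (P.lf 0 156854 0) P.nil)))))) (P.cons (P.cons (P.lf 0 14172429 0) (P.cons (P.lf 0 4728106 0) (P.cons (P.lf 1935613 0 0) (P.cons (P.lf 315534 0 0) (P.cons (P.lf 0 9300 0) P.nil))))) (P.cons (P.cons (P.lf 0 511773 0) (P.cons (P.lf 1589612 0 0) (P.cons (P.lf 0 247789 0) (P.cons (P.lf 0 453617 0) P.nil)))) (P.cons (P.cons (P.lf 2112694 0 0) (P.cons (P.lf 1039258 0 0) (P.cons (P.lf 0 389646 0) P.nil))) (P.cons (P.cons (P.lf 561686 0 0) (P.cons (P.lf 89868 0 0) P.nil)) (P.cons (P.cons (P.lf 17483 0 0) P.nil) P.nil)))))) 704367)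
 EL.nil))
noncomputable def S198_227_660_808_18 : EL := (EL.cons 4 (TM.mk (P.cons (P.lf 142093522 0 0) (P.cons (P.lf 0 132193991 0) (P.cons (P.lf 36274848 0 0) (P.cons (P.lf 0 908220 0) (P.cons (P.lf 0 623396 0) (P.cons (P.lf 0 4479 0) P.nil)))))) 6741)
 (EL.cons 8 (TM.mk (P.cons (P.lf 214946014 0 0) (P.cons (P.lf 0 122956731 0) (P.cons (P.lf 8001726 0 0) (P.cons (P.lf 3495072 0 0) (P.cons (P.lf 0 40579 0) (P.cons (P.lf 0 38127 0) P.nil)))))) 3726)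
 EL.nil))
noncomputable def S198_227_660_808_19 : EL := (EL.cons 4 (TM.mk (P.cons (P.cons (P.lf 0 34871147 0) (P.cons (P.lf 0 10814725 0) (P.cons (P.lf 4663431 0 0) (P.lf 518158 0 0)))) (P.cons (P.cons (P.lf 21613824 0 0) (P.cons (P.lf 8497944 0 0) (P.cons (P.lf 0 3664409 0) (P.lf 0 407156 0)))) (P.cons (P.cons (P.lf 0 783885 0) (P.cons (P.lf 0 1157542 0) (P.cons (P.lf 499144 0 0) (P.lf 55460 0 0)))) (P.cons (P.cons (P.lf 0 452416 0) (P.cons (P.lf 0 436860 0) (P.cons (P.lf 188378 0 0) P.nil))) (P.cons (P.cons (P.lf 0 487653 0) (P.cons (P.lf 65451 0 0) P.nil)) (P.cons (P.cons (P.lf 90830 0 0) P.nil) P.nil)))))) 149735)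
 (EL.cons 8 (TM.mk (P.cons (P.cons (P.lf 0 52749865 0) (P.cons (P.lf 0 16359522 0) (P.cons (P.lf 7054410 0 0) (P.lf 783823 0 0)))) (P.cons (P.cons (P.lf 13795368 0 0) (P.cons (P.lf 6993366 0 0) (P.cons (P.lf 0 3015618 0) (P.lf 0 335068 0)))) (P.cons (P.cons (P.lf 4448271 0 0) (P.cons (P.lf 969044 0 0) (P.cons (P.lf 0 417862 0) (P.lf 0 46428 0)))) (P.cons (P.cons (P.lf 632757 0 0) (P.cons (P.lf 0 435017 0) (P.cons (P.lf 187584 0 0) P.nil))) (P.cons (P.cons (P.lf 0 538908 0) (P.cons (P.lf 0 55207 0) P.nil)) (P.cons (P.cons (P.lf 0 57801 0) P.nil) P.nil)))))) 123747)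
 EL.nil))
noncomputable def S198_227_660_808_20 : EL := (EL.cons 4 (TM.mk (P.cons (P.cons (P.lf 8557722 0 0) (P.cons (P.lf 5308080 0 0) (P.cons (P.lf 0 1465795 0) (P.cons (P.lf 0 964188 0) (P.cons (P.lf 74176 0 0) (P.cons (P.lf 34010 0 0) P.nil)))))) (P.cons (P.cons (P.lf 0 2646975 0) (P.cons (P.lf 0 2522740 0) (P.cons (P.lf 560040 0 0) (P.cons (P.lf 576050 0 0) (P.cons (P.lf 0 47563 0) P.nil))))) (P.cons (P.cons (P.lf 0 974830 0) (P.cons (P.lf 0 429364 0) (P.cons (P.lf 168417 0 0) (P.cons (P.lf 34998 0 0) P.nil)))) (P.cons (P.cons (P.lf 0 192891 0) (P.cons (P.lf 115880 0 0) (P.cons (P.lf 2511 0 0) P.nil))) (P.cons (P.cons (P.lf 196076 0 0) (P.cons (P.lf 92444 0 0) P.nil)) (P.cons (P.cons (P.lf 26140 0 0) P.nil) P.nil)))))) 502841)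
 (EL.cons 8 (TM.mk (P.cons (P.cons (P.lf 12945335 0 0) (P.cons (P.lf 8029575 0 0) (P.cons (P.lf 0 2217321 0) (P.cons (P.lf 0 1458536 0) (P.cons (P.lf 112208 0 0) (P.cons (P.lf 51449 0 0) P.nil)))))) (P.cons (P.cons (P.lf 634151 0 0) (P.cons (P.lf 0 939209 0) (P.cons (P.lf 52722 0 0) (P.cons (P.lf 348810 0 0) (P.cons (P.lf 0 31746 0) P.nil))))) (P.cons (P.cons (P.lf 0 1417057 0) (P.cons (P.lf 0 1091239 0) (P.cons (P.lf 302713 0 0) (P.cons (P.lf 197033 0 0) P.nil)))) (P.cons (P.cons (P.lf 0 784292 0) (P.cons (P.lf 0 188788 0) (P.cons (P.lf 107539 0 0) P.nil))) (P.cons (P.cons (P.lf 34026 0 0) (P.cons (P.lf 83989 0 0) P.nil)) (P.cons (P.cons (P.lf 59503 0 0) P.nil) P.nil)))))) 460282)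
 EL.nil))
noncomputable def S198_227_660_808_21 : EL := (EL.cons 4 (TM.mk (P.cons (P.cons (P.lf 2088661014 0 0) (P.cons (P.lf 301560645 0 0) (P.cons (P.lf 0 130036350 0) (P.lf 0 14448480 0)))) (P.cons (P.cons (P.lf 806437344 0 0) (P.cons (P.lf 0 49924803 0) (P.cons (P.lf 21528135 0 0) (P.lf 2392017 0 0)))) (P.cons (P.cons (P.lf 0 146080449 0) (P.cons (P.lf 0 21009876 0) (P.cons (P.lf 9059694 0 0) (P.lf 1006626 0 0)))) (P.cons (P.cons (P.lf 0 38236521 0) (P.cons (P.lf 206691 0 0) (P.cons (P.lf 0 89127 0) P.nil))) (P.cons (P.cons (P.lf 1383516 0 0) (P.cons (P.lf 395742 0 0) P.nil)) (P.cons (P.cons (P.lf 630510 0 0) P.nil) P.nil)))))) 492159)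
 (EL.cons 8 (TM.mk (P.cons (P.cons (P.lf 0 490930845 0) (P.cons (P.lf 0 70880547 0) (P.cons (P.lf 30564495 0 0) (P.lf 3396057 0 0)))) (P.cons (P.cons (P.lf 0 13651362 0) (P.cons (P.lf 37130784 0 0) (P.cons (P.lf 0 16011210 0) (P.lf 0 1779018 0)))) (P.cons (P.cons (P.lf 95817120 0 0) (P.cons (P.lf 0 195006 0) (P.cons (P.lf 84087 0 0) (P.lf 9339 0 0)))) (P.cons (P.cons (P.lf 0 4906449 0) (P.cons (P.lf 0 1535325 0) (P.cons (P.lf 662049 0 0) P.nil))) (P.cons (P.cons (P.lf 0 2799858 0) (P.cons (P.lf 0 39309 0) P.nil)) (P.cons (P.cons (P.lf 9675 0 0) P.nil) P.nil)))))) 389724)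
 (EL.cons 11 (TM.mk (P.cons (P.cons (P.lf 1101283803 0 0) (P.cons (P.lf 0 1025947743 0) (P.cons (P.lf 0 105295614 0) (P.cons (P.lf 21898557 0 0) (P.lf 1824879 0 0))))) (P.cons (P.cons (P.lf 106131099 0 0) (P.cons (P.lf 0 98870937 0) (P.cons (P.lf 0 10147374 0) (P.cons (P.lf 2110371 0 0) (P.lf 175863 0 0))))) (P.cons (P.cons (P.lf 0 12666855 0) (P.cons (P.lf 11800347 0 0) (P.cons (P.lf 1211097 0 0) (P.cons (P.lf 0 251874 0) P.nil)))) (P.cons (P.cons (P.lf 0 1497882 0) (P.cons (P.lf 1395417 0 0) (P.cons (P.lf 143214 0 0) P.nil))) (P.cons (P.cons (P.lf 56955 0 0) (P.cons (P.lf 0 53058 0) P.nil)) (P.cons (P.cons (P.lf 11178 0 0) P.nil) P.nil)))))) 73815)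
 EL.nil)))
noncomputable def S198_227_660_808_22 : EL := (EL.cons 4 (TM.mk (P.cons (P.cons (P.lf 0 512577954 0) (P.cons (P.lf 0 232973754 0) (P.cons (P.lf 77509155 0 0) (P.cons (P.lf 30956430 0 0) (P.cons (P.lf 0 2068374 0) (P.cons (P.lf 0 948381 0) P.nil)))))) (P.cons (P.cons (P.lf 0 357068835 0) (P.cons (P.lf 0 95085183 0) (P.cons (P.lf 41483772 0 0) (P.cons (P.lf 4140090 0 0) (P.cons (P.lf 43431 0 0) P.nil))))) (P.cons (P.cons (P.lf 0 54342726 0) (P.cons (P.lf 9245646 0 0) (P.cons (P.lf 0 1522440 0) (P.cons (P.lf 0 2568318 0) P.nil)))) (P.cons (P.cons (P.lf 13386924 0 0) (P.cons (P.lf 8638077 0 0) (P.cons (P.lf 0 3494547 0) P.nil))) (P.cons (P.cons (P.lf 6710694 0 0) (P.cons (P.lf 501057 0 0) P.nil)) (P.cons (P.cons (P.lf 194874 0 0) P.nil) P.nil)))))) 3677337)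
 (EL.cons 8 (TM.mk (P.cons (P.cons (P.lf 120479256 0 0) (P.cons (P.lf 54759486 0 0) (P.cons (P.lf 0 18218196 0) (P.cons (P.lf 0 7276176 0) (P.cons (P.lf 486162 0 0) (P.cons (P.lf 222912 0 0) P.nil)))))) (P.cons (P.cons (P.lf 40760331 0 0) (P.cons (P.lf 2729292 0 0) (P.cons (P.lf 0 3223086 0) (P.cons (P.lf 1633908 0 0) (P.cons (P.lf 0 184398 0) P.nil))))) (P.cons (P.cons (P.lf 0 15719034 0) (P.cons (P.lf 0 9463248 0) (P.cons (P.lf 3612696 0 0) (P.cons (P.lf 856986 0 0) P.nil)))) (P.cons (P.cons (P.lf 0 6842256 0) (P.cons (P.lf 0 1058382 0) (P.cons (P.lf 598506 0 0) P.nil))) (P.cons (P.cons (P.lf 0 423072 0) (P.cons (P.lf 546057 0 0) P.nil)) (P.cons (P.cons (P.lf 462063 0 0) P.nil) P.nil)))))) 1403286)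
 (EL.cons 11 (TM.mk (P.cons (P.cons (P.lf 0 270265875 0) (P.cons (P.lf 167959050 0 0) (P.cons (P.lf 140068902 0 0) (P.cons (P.lf 0 27015174 0) (P.cons (P.lf 0 9311511 0) (P.cons (P.lf 195834 0 0) P.nil)))))) (P.cons (P.cons (P.lf 0 109966188 0) (P.cons (P.lf 82249605 0 0) (P.cons (P.lf 38034609 0 0) (P.cons (P.lf 0 7400520 0) (P.cons (P.lf 0 2317704 0) P.nil))))) (P.cons (P.cons (P.lf 0 20132439 0) (P.cons (P.lf 19705830 0 0) (P.cons (P.lf 629415 0 0) (P.cons (P.lf 0 154887 0) P.nil)))) (P.cons (P.cons (P.lf 1964742 0 0) (P.cons (P.lf 0 1220370 0) (P.cons (P.lf 0 1019121 0) P.nil))) (P.cons (P.cons (P.lf 789474 0 0) (P.cons (P.lf 0 717222 0) P.nil)) (P.cons (P.cons (P.lf 7509 0 0) P.nil) P.nil)))))) 1840107)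
 EL.nil)))
noncomputable def S198_227_660_808_23 : EL := (EL.cons 4 (TM.mk (P.cons (P.cons (P.lf 0 685092177 0) (P.cons (P.lf 0 98913531 0) (P.cons (P.lf 42652629 0 0) (P.lf 4739178 0 0)))) (P.cons (P.cons (P.lf 0 52061700 0) (P.cons (P.lf 47049711 0 0) (P.cons (P.lf 0 20288364 0) (P.lf 0 2254263 0)))) (P.cons (P.cons (P.lf 137529750 0 0) (P.cons (P.lf 2908299 0 0) (P.cons (P.lf 0 1254090 0) (P.lf 0 139341 0)))) (P.cons (P.cons (P.lf 0 34575 0) (P.cons (P.lf 0 2479479 0) (P.cons (P.lf 1069179 0 0) P.nil))) (P.cons (P.cons (P.lf 0 5167506 0) (P.cons (P.lf 0 176043 0) P.nil)) (P.cons (P.cons (P.lf 0 175416 0) P.nil) P.nil)))))) 529395)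
 (EL.cons 8 (TM.mk (P.cons (P.cons (P.lf 161027988 0 0) (P.cons (P.lf 23249205 0 0) (P.cons (P.lf 0 10025319 0) (P.lf 0 1113924 0)))) (P.cons (P.cons (P.lf 0 45458715 0) (P.cons (P.lf 0 19388916 0) (P.cons (P.lf 8360718 0 0) (P.lf 928965 0 0)))) (P.cons (P.cons (P.lf 0 34600059 0) (P.cons (P.lf 3583404 0 0) (P.cons (P.lf 0 1545204 0) (P.lf 0 171687 0)))) (P.cons (P.cons (P.lf 11457948 0 0) (P.cons (P.lf 640536 0 0) (P.cons (P.lf 0 276204 0) P.nil))) (P.cons (P.cons (P.lf 781929 0 0) (P.cons (P.lf 0 153963 0) P.nil)) (P.cons (P.cons (P.lf 0 335484 0) P.nil) P.nil)))))) 281634)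
 (EL.cons 11 (TM.mk (P.cons (P.cons (P.lf 0 361227078 0) (P.cons (P.lf 336516441 0 0) (P.cons (P.lf 34537533 0 0) (P.cons (P.lf 0 7182843 0) (P.lf 0 598569 0))))) (P.cons (P.cons (P.lf 77208657 0 0) (P.cons (P.lf 0 71927004 0) (P.cons (P.lf 0 7382049 0) (P.cons (P.lf 1535259 0 0) (P.lf 127938 0 0))))) (P.cons (P.cons (P.lf 18949806 0 0) (P.cons (P.lf 0 17653497 0) (P.cons (P.lf 0 1811820 0) (P.cons (P.lf 376806 0 0) P.nil)))) (P.cons (P.cons (P.lf 0 752382 0) (P.cons (P.lf 700914 0 0) (P.cons (P.lf 71934 0 0) P.nil))) (P.cons (P.cons (P.lf 0 273270 0) (P.cons (P.lf 254574 0 0) P.nil)) (P.cons (P.cons (P.lf 0 873 0) P.nil) P.nil)))))) 146256)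
 EL.nil)))
noncomputable def S198_227_660_808_24 : EL := (EL.cons 4 (TM.mk (P.cons (P.cons (P.lf 168128358 0 0) (P.cons (P.lf 76416657 0 0) (P.cons (P.lf 0 25423422 0) (P.cons (P.lf 0 10153878 0) (P.cons (P.lf 678438 0 0) (P.cons (P.lf 311073 0 0) P.nil)))))) (P.cons (P.cons (P.lf 64982184 0 0) (P.cons (P.lf 7490865 0 0) (P.cons (P.lf 0 5722836 0) (P.cons (P.lf 1790847 0 0) (P.cons (P.lf 0 224637 0) P.nil))))) (P.cons (P.cons (P.lf 0 20357121 0) (P.cons (P.lf 0 13550583 0) (P.cons (P.lf 5000502 0 0) (P.cons (P.lf 1375968 0 0) P.nil)))) (P.cons (P.cons (P.lf 0 11056821 0) (P.cons (P.lf 0 2166141 0) (P.cons (P.lf 1118049 0 0) P.nil))) (P.cons (P.cons (P.lf 0 915462 0) (P.cons (P.lf 782238 0 0) P.nil)) (P.cons (P.cons (P.lf 691329 0 0) P.nil) P.nil)))))) 2035185)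
 (EL.cons 8 (TM.mk (P.cons (P.cons (P.lf 0 39517851 0) (P.cons (P.lf 0 17961408 0) (P.cons (P.lf 5975667 0 0) (P.cons (P.lf 2386626 0 0) (P.cons (P.lf 0 159462 0) (P.cons (P.lf 0 73116 0) P.nil)))))) (P.cons (P.cons (P.lf 0 1114716 0) (P.cons (P.lf 4674795 0 0) (P.cons (P.lf 0 795924 0) (P.cons (P.lf 0 1276047 0) (P.cons (P.lf 109935 0 0) P.nil))))) (P.cons (P.cons (P.lf 9739533 0 0) (P.cons (P.lf 3580485 0 0) (P.cons (P.lf 0 1578993 0) (P.cons (P.lf 0 141321 0) P.nil)))) (P.cons (P.cons (P.lf 756150 0 0) (P.cons (P.lf 0 622452 0) (P.cons (P.lf 165090 0 0) P.nil))) (P.cons (P.cons (P.lf 0 629463 0) (P.cons (P.lf 0 323142 0) P.nil)) (P.cons (P.cons (P.lf 0 215358 0) P.nil) P.nil)))))) 701157)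
 (EL.cons 11 (TM.mk (P.cons (P.cons (P.lf 88648677 0 0) (P.cons (P.lf 0 55091481 0) (P.cons (P.lf 0 45943362 0) (P.cons (P.lf 8861124 0 0) (P.cons (P.lf 3054225 0 0) (P.cons (P.lf 0 64233 0) P.nil)))))) (P.cons (P.cons (P.lf 8578638 0 0) (P.cons (P.lf 0 9893880 0) (P.cons (P.lf 1771950 0 0) (P.cons (P.lf 0 320514 0) (P.cons (P.lf 0 186927 0) P.nil))))) (P.cons (P.cons (P.lf 0 5563512 0) (P.cons (P.lf 2512617 0 0) (P.cons (P.lf 4171041 0 0) (P.cons (P.lf 0 800070 0) P.nil)))) (P.cons (P.cons (P.lf 0 3008034 0) (P.cons (P.lf 2651472 0 0) (P.cons (P.lf 493098 0 0) P.nil))) (P.cons (P.cons (P.lf 0 92457 0) (P.cons (P.lf 153672 0 0) P.nil)) (P.cons (P.cons (P.lf 93348 0 0) P.nil) P.nil)))))) 1146483)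
 EL.nil)))
noncomputable def S198_227_660_808_25 : EL := (EL.cons 4 (TM.mk (P.cons (P.cons (P.lf 224713962 0 0) (P.cons (P.lf 32444175 0 0) (P.cons (P.lf 0 13990293 0) (P.lf 0 1554474 0)))) (P.cons (P.cons (P.lf 0 52609590 0) (P.cons (P.lf 0 25493832 0) (P.cons (P.lf 10993227 0 0) (P.lf 1221468 0 0)))) (P.cons (P.cons (P.lf 0 52894191 0) (P.cons (P.lf 3472626 0 0) (P.cons (P.lf 0 1497435 0) (P.lf 0 166380 0)))) (P.cons (P.cons (P.lf 14023437 0 0) (P.cons (P.lf 1310580 0 0) (P.cons (P.lf 0 565137 0) P.nil))) (P.cons (P.cons (P.lf 2221584 0 0) (P.cons (P.lf 0 196353 0) P.nil)) (P.cons (P.cons (P.lf 0 510135 0) P.nil) P.nil)))))) 484974)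
 (EL.cons 8 (TM.mk (P.cons (P.cons (P.lf 0 52818054 0) (P.cons (P.lf 0 7625865 0) (P.cons (P.lf 3288357 0 0) (P.lf 365373 0 0)))) (P.cons (P.cons (P.lf 31290126 0 0) (P.cons (P.lf 8724528 0 0) (P.cons (P.lf 0 3762114 0) (P.lf 0 418011 0)))) (P.cons (P.cons (P.lf 7309857 0 0) (P.cons (P.lf 0 3063138 0) (P.cons (P.lf 1320858 0 0) (P.lf 146760 0 0)))) (P.cons (P.cons (P.lf 0 7492623 0) (P.cons (P.lf 76788 0 0) (P.cons (P.lf 0 33111 0) P.nil))) (P.cons (P.cons (P.lf 793983 0 0) (P.cons (P.lf 134172 0 0) P.nil)) (P.cons (P.cons (P.lf 242970 0 0) P.nil) P.nil)))))) 213597)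
 (EL.cons 11 (TM.mk (P.cons (P.cons (P.lf 118484445 0 0) (P.cons (P.lf 0 110379222 0) (P.cons (P.lf 0 11328498 0) (P.cons (P.lf 2356011 0 0) (P.lf 196332 0 0))))) (P.cons (P.cons (P.lf 0 62068104 0) (P.cons (P.lf 57822183 0 0) (P.cons (P.lf 5934435 0 0) (P.cons (P.lf 0 1234197 0) (P.lf 0 102849 0))))) (P.cons (P.cons (P.lf 325974 0 0) (P.cons (P.lf 0 303675 0) (P.cons (P.lf 0 31167 0) (P.cons (P.lf 6480 0 0) P.nil)))) (P.cons (P.cons (P.lf 2566470 0 0) (P.cons (P.lf 0 2390904 0) (P.cons (P.lf 0 245382 0) P.nil))) (P.cons (P.cons (P.lf 65709 0 0) (P.cons (P.lf 0 61215 0) P.nil)) (P.cons (P.cons (P.lf 0 37998 0) P.nil) P.nil)))))) 183921)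
 EL.nil)))
noncomputable def S198_227_660_808_26 : EL := (EL.cons 4 (TM.mk (P.cons (P.cons (P.lf 0 55147014 0) (P.cons (P.lf 0 25065078 0) (P.cons (P.lf 8339019 0 0) (P.cons (P.lf 3330525 0 0) (P.cons (P.lf 0 222531 0) (P.cons (P.lf 0 102033 0) P.nil)))))) (P.cons (P.cons (P.lf 0 4212852 0) (P.cons (P.lf 5315892 0 0) (P.cons (P.lf 0 708894 0) (P.cons (P.lf 0 1620237 0) (P.cons (P.lf 142689 0 0) P.nil))))) (P.cons (P.cons (P.lf 13897695 0 0) (P.cons (P.lf 5484144 0 0) (P.cons (P.lf 0 2314638 0) (P.cons (P.lf 0 306039 0) P.nil)))) (P.cons (P.cons (P.lf 1740000 0 0) (P.cons (P.lf 0 664263 0) (P.cons (P.lf 128994 0 0) P.nil))) (P.cons (P.cons (P.lf 0 922002 0) (P.cons (P.lf 0 530064 0) P.nil)) (P.cons (P.cons (P.lf 0 354996 0) P.nil) P.nil)))))) 1183431)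
 (EL.cons 8 (TM.mk (P.cons (P.cons (P.lf 12962070 0 0) (P.cons (P.lf 5891439 0 0) (P.cons (P.lf 0 1960050 0) (P.cons (P.lf 0 782826 0) (P.cons (P.lf 52305 0 0) (P.cons (P.lf 23982 0 0) P.nil)))))) (P.cons (P.cons (P.lf 0 3654036 0) (P.cons (P.lf 0 3360354 0) (P.cons (P.lf 868899 0 0) (P.cons (P.lf 661311 0 0) (P.cons (P.lf 0 52278 0) P.nil))))) (P.cons (P.cons (P.lf 0 3451524 0) (P.cons (P.lf 0 764139 0) (P.cons (P.lf 458658 0 0) (P.cons (P.lf 0 74772 0) P.nil)))) (P.cons (P.cons (P.lf 750837 0 0) (P.cons (P.lf 590901 0 0) (P.cons (P.lf 0 219501 0) P.nil))) (P.cons (P.cons (P.lf 319935 0 0) (P.cons (P.lf 54615 0 0) P.nil)) (P.cons (P.cons (P.lf 6339 0 0) P.nil) P.nil)))))) 397782)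
 (EL.cons 11 (TM.mk (P.cons (P.cons (P.lf 0 29077248 0) (P.cons (P.lf 18070305 0 0) (P.cons (P.lf 15069672 0 0) (P.cons (P.lf 0 2906496 0) (P.cons (P.lf 0 1001802 0) (P.cons (P.lf 21069 0 0) P.nil)))))) (P.cons (P.cons (P.lf 6203313 0 0) (P.cons (P.lf 0 2358540 0) (P.cons (P.lf 0 5254467 0) (P.cons (P.lf 1006464 0 0) (P.cons (P.lf 371982 0 0) P.nil))))) (P.cons (P.cons (P.lf 3019410 0 0) (P.cons (P.lf 0 2030613 0) (P.cons (P.lf 0 1354737 0) (P.cons (P.lf 262005 0 0) P.nil)))) (P.cons (P.cons (P.lf 424473 0 0) (P.cons (P.lf 0 633006 0) (P.cons (P.lf 283176 0 0) P.nil))) (P.cons (P.cons (P.lf 0 300384 0) (P.cons (P.lf 232650 0 0) P.nil)) (P.cons (P.cons (P.lf 0 49347 0) P.nil) P.nil)))))) 716337)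
 EL.nil)))
noncomputable def S198_227_660_808_27 : EL := (EL.cons 13 (TM.mk (P.lf 0 4294967296 0) 0)
 EL.nil)
noncomputable def S198_227_660_808_28 : EL := (EL.cons 13 (TM.mk (P.cons (P.cons (P.lf 1054027218 0 0) (P.cons (P.lf 326889588 0 0) (P.cons (P.lf 0 140958476 0) (P.lf 0 15662052 0)))) (P.cons (P.cons (P.lf 327287221 0 0) (P.cons (P.lf 47253692 0 0) (P.cons (P.lf 0 20376324 0) (P.lf 0 2264032 0)))) (P.cons (P.cons (P.lf 59098323 0 0) (P.cons (P.lf 0 4501312 0) (P.cons (P.lf 1941016 0 0) (P.lf 215664 0 0)))) (P.cons (P.cons (P.lf 0 8159724 0) (P.cons (P.lf 0 956952 0) (P.cons (P.lf 412648 0 0) P.nil))) (P.cons (P.cons (P.lf 0 1222191 0) (P.cons (P.lf 16648 0 0) P.nil)) (P.cons (P.cons (P.lf 47394 0 0) P.nil) P.nil)))))) 119501)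
 EL.nil)
noncomputable def S198_227_660_808_29 : EL := (EL.cons 13 (TM.mk (P.cons (P.cons (P.lf 0 258668646 0) (P.cons (P.lf 0 160443840 0) (P.cons (P.lf 44305654 0 0) (P.cons (P.lf 29143917 0 0) (P.cons (P.lf 0 2242105 0) (P.cons (P.lf 0 1028039 0) P.nil)))))) (P.cons (P.cons (P.lf 0 160639006 0) (P.cons (P.lf 0 73012645 0) (P.cons (P.lf 24290926 0 0) (P.cons (P.lf 9701567 0 0) (P.cons (P.lf 0 648217 0) P.nil))))) (P.cons (P.cons (P.lf 0 53946722 0) (P.cons (P.lf 0 13988302 0) (P.cons (P.lf 6197212 0 0) (P.cons (P.lf 527656 0 0) P.nil)))) (P.cons (P.cons (P.lf 0 5001926 0) (P.cons (P.lf 1097372 0 0) (P.cons (P.lf 0 228484 0) P.nil))) (P.cons (P.cons (P.lf 1030270 0 0) (P.cons (P.lf 627138 0 0) P.nil)) (P.cons (P.cons (P.lf 387560 0 0) P.nil) P.nil)))))) 1862137)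
 EL.nil)
noncomputable def S198_227_660_808_30 : EL := (EL.cons 13 (TM.mk (P.cons (P.lf 1408772644 0 0) (P.cons (P.lf 0 436874896 0) (P.cons (P.lf 0 15598228 0) (P.cons (P.lf 1328688 0 0) (P.cons (P.lf 91228 0 0) (P.cons (P.lf 0 3020 0) P.nil)))))) 560)
 EL.nil)
noncomputable def S198_227_660_808_31 : EL := (EL.cons 13 (TM.mk (P.cons (P.cons (P.lf 0 345726662 0) (P.cons (P.lf 0 107221563 0) (P.cons (P.lf 46235147 0 0) (P.lf 5137238 0 0)))) (P.cons (P.cons (P.lf 0 138593 0) (P.cons (P.lf 17751042 0 0) (P.cons (P.lf 0 7654449 0) (P.lf 0 850495 0)))) (P.cons (P.cons (P.lf 17734343 0 0) (P.cons (P.lf 7470179 0 0) (P.cons (P.lf 0 3221225 0) (P.lf 0 357912 0)))) (P.cons (P.cons (P.lf 9550339 0 0) (P.cons (P.lf 0 73491 0) (P.cons (P.lf 31690 0 0) P.nil))) (P.cons (P.cons (P.lf 0 338111 0) (P.cons (P.lf 0 140709 0) P.nil)) (P.cons (P.cons (P.lf 0 193991 0) P.nil) P.nil))))))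 172597)
 EL.nil)
noncomputable def S198_227_660_808_32 : EL := (EL.cons 13 (TM.mk (P.cons (P.cons (P.lf 84844723 0 0) (P.cons (P.lf 52626452 0 0) (P.cons (P.lf 0 14532495 0) (P.cons (P.lf 0 9559363 0) (P.cons (P.lf 735422 0 0) (P.cons (P.lf 337202 0 0) P.nil)))))) (P.cons (P.cons (P.lf 26379246 0 0) (P.cons (P.lf 7628540 0 0) (P.cons (P.lf 0 3460879 0) (P.cons (P.lf 0 217709 0) (P.cons (P.lf 0 15443 0) P.nil))))) (P.cons (P.cons (P.lf 415543 0 0) (P.cons (P.lf 0 3421142 0) (P.cons (P.lf 599008 0 0) (P.cons (P.lf 919591 0 0) P.nil)))) (P.cons (P.cons (P.lf 0 4350064 0) (P.cons (P.lf 0 1998332 0) (P.cons (P.lf 779823 0 0) P.nil))) (P.cons (P.cons (P.lf 0 987450 0) (P.cons (P.lf 0 118889 0) P.nil)) (P.cons (P.cons (P.lf 0 20571 0) P.nil) P.nil)))))) 1280311)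
 EL.nil)
noncomputable def S198_227_660_808_33 : EL := (EL.cons 14 (TM.mk (P.lf 8589934592 0 0) 0)
 EL.nil)
noncomputable def S198_227_660_808_34 : EL := (EL.cons 14 (TM.mk (P.cons (P.cons (P.lf 0 2108054436 0) (P.cons (P.lf 0 653779176 0) (P.cons (P.lf 281916952 0 0) (P.lf 31324104 0 0)))) (P.cons (P.cons (P.lf 0 654574442 0) (P.cons (P.lf 0 94507384 0) (P.cons (P.lf 40752648 0 0) (P.lf 4528064 0 0)))) (P.cons (P.cons (P.lf 0 118196646 0) (P.cons (P.lf 9002624 0 0) (P.cons (P.lf 0 3882032 0) (P.lf 0 431328 0)))) (P.cons (P.cons (P.lf 16319448 0 0) (P.cons (P.lf 1913904 0 0) (P.cons (P.lf 0 825296 0) P.nil))) (P.cons (P.cons (P.lf 2444382 0 0) (P.cons (P.lf 0 33296 0) P.nil)) (P.cons (P.cons (P.lf 0 94788 0) P.nil) P.nil)))))) 239002)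
 EL.nil)
noncomputable def S198_227_660_808_35 : EL := (EL.cons 14 (TM.mk (P.cons (P.cons (P.lf 517337292 0 0) (P.cons (P.lf 320887680 0 0) (P.cons (P.lf 0 88611308 0) (P.cons (P.lf 0 58287834 0) (P.cons (P.lf 4484210 0 0) (P.cons (P.lf 2056078 0 0) P.nil)))))) (P.cons (P.cons (P.lf 321278012 0 0) (P.cons (P.lf 146025290 0 0) (P.cons (P.lf 0 48581852 0) (P.cons (P.lf 0 19403134 0) (P.cons (P.lf 1296434 0 0) P.nil))))) (P.cons (P.cons (P.lf 107893444 0 0) (P.cons (P.lf 27976604 0 0) (P.cons (P.lf 0 12394424 0) (P.cons (P.lf 0 1055312 0) P.nil)))) (P.cons (P.cons (P.lf 10003852 0 0) (P.cons (P.lf 0 2194744 0) (P.cons (P.lf 456968 0 0) P.nil))) (P.cons (P.cons (P.lf 0 2060540 0) (P.cons (P.lf 0 1254276 0) P.nil)) (P.cons (P.cons (P.lf 0 775120 0) P.nil) P.nil)))))) 3724274)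
 EL.nil)
noncomputable def S198_227_660_808_36 : EL := (EL.cons 14 (TM.mk (P.cons (P.lf 0 2817545288 0) (P.cons (P.lf 873749792 0 0) (P.cons (P.lf 31196456 0 0) (P.cons (P.lf 0 2657376 0) (P.cons (P.lf 0 182456 0) (P.cons (P.lf 6040 0 0) P.nil)))))) 1120)
 EL.nil)
noncomputable def S198_227_660_808_37 : EL := (EL.cons 14 (TM.mk (P.cons (P.cons (P.lf 691453324 0 0) (P.cons (P.lf 214443126 0 0) (P.cons (P.lf 0 92470294 0) (P.lf 0 10274476 0)))) (P.cons (P.cons (P.lf 277186 0 0) (P.cons (P.lf 0 35502084 0) (P.cons (P.lf 15308898 0 0) (P.lf 1700990 0 0)))) (P.cons (P.cons (P.lf 0 35468686 0) (P.cons (P.lf 0 14940358 0) (P.cons (P.lf 6442450 0 0) (P.lf 715824 0 0)))) (P.cons (P.cons (P.lf 0 19100678 0) (P.cons (P.lf 146982 0 0) (P.cons (P.lf 0 63380 0) P.nil))) (P.cons (P.cons (P.lf 676222 0 0) (P.cons (P.lf 281418 0 0) P.nil)) (P.cons (P.cons (P.lf 387982 0 0) P.nil) P.nil))))))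 345194)
 EL.nil)
noncomputable def S198_227_660_808_38 : EL := (EL.cons 14 (TM.mk (P.cons (P.cons (P.lf 0 169689446 0) (P.cons (P.lf 0 105252904 0) (P.cons (P.lf 29064990 0 0) (P.cons (P.lf 19118726 0 0) (P.cons (P.lf 0 1470844 0) (P.cons (P.lf 0 674404 0) P.nil)))))) (P.cons (P.cons (P.lf 0 52758492 0) (P.cons (P.lf 0 15257080 0) (P.cons (P.lf 6921758 0 0) (P.cons (P.lf 435418 0 0) (P.cons (P.lf 30886 0 0) P.nil))))) (P.cons (P.cons (P.lf 0 831086 0) (P.cons (P.lf 6842284 0 0) (P.cons (P.lf 0 1198016 0) (P.cons (P.lf 0 1839182 0) P.nil)))) (P.cons (P.cons (P.lf 8700128 0 0) (P.cons (P.lf 3996664 0 0) (P.cons (P.lf 0 1559646 0) P.nil))) (P.cons (P.cons (P.lf 1974900 0 0) (P.cons (P.lf 237778 0 0) P.nil)) (P.cons (P.cons (P.lf 41142 0 0) P.nil) P.nil)))))) 2560622)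
 EL.nil)
noncomputable def S198_227_660_808_39 : EL := (EL.cons 14 (TM.mk (P.cons (P.lf 924170186 0 0) (P.cons (P.lf 0 573189372 0) (P.cons (P.lf 68410746 0 0) (P.cons (P.lf 8089740 0 0) (P.cons (P.lf 0 307614 0) (P.cons (P.lf 0 60382 0) P.nil)))))) 4526)
 EL.nil)
noncomputable def S198_227_660_808_40 : EL := (EL.cons 14 (TM.mk (P.cons (P.cons (P.lf 0 226800452 0) (P.cons (P.lf 0 70338512 0) (P.cons (P.lf 30330758 0 0) (P.lf 3370084 0 0)))) (P.cons (P.cons (P.lf 70242236 0 0) (P.cons (P.lf 33457572 0 0) (P.cons (P.lf 0 14427282 0) (P.lf 0 1603032 0)))) (P.cons (P.cons (P.lf 14173300 0 0) (P.cons (P.lf 2068124 0 0) (P.cons (P.lf 0 891798 0) (P.lf 0 99086 0)))) (P.cons (P.cons (P.lf 2444426 0 0) (P.cons (P.lf 0 1763186 0) (P.cons (P.lf 760306 0 0) P.nil))) (P.cons (P.cons (P.lf 0 2308270 0) (P.cons (P.lf 0 125186 0) P.nil)) (P.cons (P.cons (P.lf 0 116392 0) P.nil) P.nil))))))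 391294)
 EL.nil)
noncomputable def S198_227_660_808_41 : EL := (EL.cons 14 (TM.mk (P.cons (P.cons (P.lf 55659060 0 0) (P.cons (P.lf 34523524 0 0) (P.cons (P.lf 0 9533474 0) (P.cons (P.lf 0 6271046 0) (P.cons (P.lf 482444 0 0) (P.cons (P.lf 221208 0 0) P.nil)))))) (P.cons (P.cons (P.lf 44624 0 0) (P.cons (P.lf 0 5701694 0) (P.cons (P.lf 686054 0 0) (P.cons (P.lf 1801896 0 0) (P.cons (P.lf 0 159742 0) P.nil))))) (P.cons (P.cons (P.lf 0 5710148 0) (P.cons (P.lf 0 4178474 0) (P.cons (P.lf 1202578 0 0) (P.cons (P.lf 716986 0 0) P.nil)))) (P.cons (P.cons (P.lf 0 3077336 0) (P.cons (P.lf 0 637794 0) (P.cons (P.lf 405858 0 0) P.nil))) (P.cons (P.cons (P.lf 254086 0 0) (P.cons (P.lf 360344 0 0) P.nil)) (P.cons (P.cons (P.lf 220242 0 0) P.nil) P.nil)))))) 1729756)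
 EL.nil)
noncomputable def S198_227_660_808_42 : EL := (EL.cons 14 (TM.mk (P.cons (P.lf 0 303132848 0) (P.cons (P.lf 282013848 0 0) (P.cons (P.lf 0 77386344 0) (P.cons (P.lf 1937536 0 0) (P.cons (P.lf 1329912 0 0) (P.cons (P.lf 9556 0 0) P.nil)))))) 14366)
 EL.nil)
noncomputable def S198_227_660_808_43 : EL := (EL.cons 14 (TM.mk (P.cons (P.cons (P.lf 74391782 0 0) (P.cons (P.lf 23071414 0 0) (P.cons (P.lf 0 9948654 0) (P.lf 0 1105404 0)))) (P.cons (P.cons (P.lf 0 46109492 0) (P.cons (P.lf 0 18128948 0) (P.cons (P.lf 7817406 0 0) (P.lf 868600 0 0)))) (P.cons (P.cons (P.lf 1672288 0 0) (P.cons (P.lf 2469424 0 0) (P.cons (P.lf 0 1064842 0) (P.lf 0 118316 0)))) (P.cons (P.cons (P.lf 965156 0 0) (P.cons (P.lf 931968 0 0) (P.cons (P.lf 0 401874 0) P.nil))) (P.cons (P.cons (P.lf 1040328 0 0) (P.cons (P.lf 0 139630 0) P.nil)) (P.cons (P.cons (P.lf 0 193772 0) P.nil) P.nil))))))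 319396)
 EL.nil)
noncomputable def S198_227_660_808_44 : EL := (EL.cons 14 (TM.mk (P.cons (P.cons (P.lf 0 18256474 0) (P.cons (P.lf 0 11323904 0) (P.cons (P.lf 3127030 0 0) (P.cons (P.lf 2056936 0 0) (P.cons (P.lf 0 158244 0) (P.cons (P.lf 0 72556 0) P.nil)))))) (P.cons (P.cons (P.lf 5646882 0 0) (P.cons (P.lf 5381846 0 0) (P.cons (P.lf 0 1194754 0) (P.cons (P.lf 0 1228908 0) (P.cons (P.lf 101468 0 0) P.nil))))) (P.cons (P.cons (P.lf 2079638 0 0) (P.cons (P.lf 915978 0 0) (P.cons (P.lf 0 359290 0) (P.cons (P.lf 0 74664 0) P.nil)))) (P.cons (P.cons (P.lf 411502 0 0) (P.cons (P.lf 0 247212 0) (P.cons (P.lf 0 5358 0) P.nil))) (P.cons (P.cons (P.lf 0 418296 0) (P.cons (P.lf 0 197214 0) P.nil)) (P.cons (P.cons (P.lf 0 55766 0) P.nil) P.nil)))))) 1072682)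
 EL.nil)
noncomputable def S198_227_660_808_45 : EL := (EL.cons 14 (TM.mk (P.cons (P.cons (P.lf 0 126959658 0) (P.cons (P.lf 0 118123488 0) (P.cons (P.lf 14302078 0 0) (P.cons (P.lf 33466488 0 0) (P.cons (P.lf 1597788 0 0) (P.cons (P.lf 0 3081978 0) P.nil)))))) (P.cons (P.cons (P.lf 0 118267176 0) (P.cons (P.lf 0 90432726 0) (P.cons (P.lf 17028990 0 0) (P.cons (P.lf 21634986 0 0) (P.cons (P.lf 145018 0 0) P.nil))))) (P.cons (P.cons (P.lf 0 58078806 0) (P.cons (P.lf 0 33612910 0) (P.cons (P.lf 9394898 0 0) (P.cons (P.lf 5927320 0 0) P.nil)))) (P.cons (P.cons (P.lf 0 14114690 0) (P.cons (P.lf 0 4489402 0) (P.cons (P.lf 2061546 0 0) P.nil))) (P.cons (P.cons (P.lf 0 983654 0) (P.cons (P.lf 688256 0 0) P.nil)) (P.cons (P.cons (P.lf 500282 0 0) P.nil) P.nil)))))) 8737476)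
 EL.nil)
noncomputable def S198_227_660_808_46 : EL := (EL.cons 15 (TM.mk (P.lf 4294967296 0 0) 0)
 EL.nil)
noncomputable def S198_227_660_808_47 : EL := (EL.cons 15 (TM.mk (P.cons (P.cons (P.lf 0 1054027218 0) (P.cons (P.lf 0 326889588 0) (P.cons (P.lf 140958476 0 0) (P.lf 15662052 0 0)))) (P.cons (P.cons (P.lf 0 327287221 0) (P.cons (P.lf 0 47253692 0) (P.cons (P.lf 20376324 0 0) (P.lf 2264032 0 0)))) (P.cons (P.cons (P.lf 0 59098323 0) (P.cons (P.lf 4501312 0 0) (P.cons (P.lf 0 1941016 0) (P.lf 0 215664 0)))) (P.cons (P.cons (P.lf 8159724 0 0) (P.cons (P.lf 956952 0 0) (P.cons (P.lf 0 412648 0) P.nil))) (P.cons (P.cons (P.lf 1222191 0 0) (P.cons (P.lf 0 16648 0) P.nil)) (P.cons (P.cons (P.lf 0 47394 0) P.nil) P.nil)))))) 119501)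
 EL.nil)
noncomputable def S198_227_660_808_48 : EL := (EL.cons 15 (TM.mk (P.cons (P.cons (P.lf 258668646 0 0) (P.cons (P.lf 160443840 0 0) (P.cons (P.lf 0 44305654 0) (P.cons (P.lf 0 29143917 0) (P.cons (P.lf 2242105 0 0) (P.cons (P.lf 1028039 0 0) P.nil)))))) (P.cons (P.cons (P.lf 160639006 0 0) (P.cons (P.lf 73012645 0 0) (P.cons (P.lf 0 24290926 0) (P.cons (P.lf 0 9701567 0) (P.cons (P.lf 648217 0 0) P.nil))))) (P.cons (P.cons (P.lf 53946722 0 0) (P.cons (P.lf 13988302 0 0) (P.cons (P.lf 0 6197212 0) (P.cons (P.lf 0 527656 0) P.nil)))) (P.cons (P.cons (P.lf 5001926 0 0) (P.cons (P.lf 0 1097372 0) (P.cons (P.lf 228484 0 0) P.nil))) (P.cons (P.cons (P.lf 0 1030270 0) (P.cons (P.lf 0 627138 0) P.nil)) (P.cons (P.cons (P.lf 0 387560 0) P.nil) P.nil)))))) 1862137)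
 EL.nil)
noncomputable def S198_227_660_808 : SL := (SL.cons S198_227_660_808_0 (SL.cons S198_227_660_808_1 (SL.cons S198_227_660_808_2 (SL.cons S198_227_660_808_3 (SL.cons S198_227_660_808_4 (SL.cons S198_227_660_808_5 (SL.cons S198_227_660_808_6 (SL.cons S198_227_660_808_7 (SL.cons S198_227_660_808_8 (SL.cons S198_227_660_808_9 (SL.cons S198_227_660_808_10 (SL.cons S198_227_660_808_11 (SL.cons S198_227_660_808_12 (SL.cons S198_227_660_808_13 (SL.cons S198_227_660_808_14 (SL.cons S198_227_660_808_15 (SL.cons S198_227_660_808_16 (SL.cons S198_227_660_808_17 (SL.cons S198_227_660_808_18 (SL.cons S198_227_660_808_19 (SL.cons S198_227_660_808_20 (SL.cons S198_227_660_808_21 (SL.cons S198_227_660_808_22 (SL.cons S198_227_660_808_23 (SL.cons S198_227_660_808_24 (SL.cons S198_227_660_808_25 (SL.cons S198_227_660_808_26 (SL.cons S198_227_660_808_27 (SL.cons S198_227_660_808_28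 (SL.cons S198_227_660_808_29 (SL.cons S198_227_660_808_30 (SL.cons S198_227_660_808_31 (SL.cons S198_227_660_808_32 (SL.cons S198_227_660_808_33 (SL.cons S198_227_660_808_34 (SL.cons S198_227_660_808_35 (SL.cons S198_227_660_808_36 (SL.cons S198_227_660_808_37 (SL.cons S198_227_660_808_38 (SL.cons S198_227_660_808_39 (SL.cons S198_227_660_808_40 (SL.cons S198_227_660_808_41 (SL.cons S198_227_660_808_42 (SL.cons S198_227_660_808_43 (SL.cons S198_227_660_808_44 (SL.cons S198_227_660_808_45 (SL.cons S198_227_660_808_46 (SL.cons S198_227_660_808_47 (SL.cons S198_227_660_808_48 SL.nil)))))))))))))))))))))))))))))))))))))))))))))))))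
noncomputable def S198_227_734_808_0 : EL := (EL.cons 0 (TM.mk (P.cons (P.lf 7643457911 0 0) (P.cons (P.lf 503779721 0 0) (P.cons (P.lf 0 60126632 0) (P.cons (P.lf 0 7110123 0) (P.cons (P.lf 270363 0 0) (P.cons (P.lf 53070 0 0) P.nil)))))) 3984)
 (EL.cons 1 (TM.mk (P.cons (P.lf 0 1228710643 0) (P.cons (P.lf 321830180 0 0) (P.cons (P.lf 40457490 0 0) (P.cons (P.lf 0 2710608 0) (P.cons (P.lf 0 384633 0) (P.cons (P.lf 7027 0 0) P.nil)))))) 2881)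
 (EL.cons 5 (TM.mk (P.cons (P.lf 4583770480 0 0) (P.cons (P.lf 0 179121676 0) (P.cons (P.lf 21378358 0 0) (P.cons (P.lf 2528040 0 0) (P.cons (P.lf 0 96128 0) (P.cons (P.lf 0 18870 0) P.nil)))))) 1697)
 (EL.cons 9 (TM.mk (P.lf 6442450944 0 0) 2)
 EL.nil))))
noncomputable def S198_227_734_808_1 : EL := (EL.cons 0 (TM.mk (P.cons (P.cons (P.lf 0 744278499 0) (P.cons (P.lf 0 105579791 0) (P.cons (P.lf 49840131 0 0) (P.lf 2373343 0 0)))) (P.cons (P.cons (P.lf 0 689824038 0) (P.cons (P.lf 0 56124216 0) (P.cons (P.lf 26494057 0 0) (P.lf 1261616 0 0)))) (P.cons (P.cons (P.lf 0 386060567 0) (P.cons (P.lf 423944 0 0) (P.cons (P.lf 0 200127 0) (P.lf 0 9532 0)))) (P.cons (P.cons (P.lf 17102472 0 0) (P.cons (P.lf 2153444 0 0) (P.cons (P.lf 0 1016553 0) P.nil))) (P.cons (P.cons (P.lf 14281338 0 0) (P.cons (P.lf 108523 0 0) P.nil)) (P.cons (P.cons (P.lf 287303 0 0) P.nil) P.nil))))))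 589579)
 (EL.cons 1 (TM.mk (P.cons (P.cons (P.lf 1204021634 0 0) (P.cons (P.lf 56481640 0 0) (P.cons (P.lf 0 26662787 0) (P.lf 0 1269653 0)))) (P.cons (P.cons (P.lf 475632789 0 0) (P.cons (P.lf 0 2467926 0) (P.cons (P.lf 1165012 0 0) (P.lf 55474 0 0)))) (P.cons (P.cons (P.lf 0 50632392 0) (P.cons (P.lf 0 6162151 0) (P.cons (P.lf 2908905 0 0) (P.lf 138513 0 0)))) (P.cons (P.cons (P.lf 0 44313975 0) (P.cons (P.lf 0 276739 0) (P.cons (P.lf 130639 0 0) P.nil))) (P.cons (P.cons (P.lf 0 355262 0) (P.cons (P.lf 156986 0 0) P.nil)) (P.cons (P.cons (P.lf 1058405 0 0) P.nil) P.nil)))))) 305440)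
 (EL.cons 5 (TM.mk (P.cons (P.cons (P.lf 0 1741834537 0) (P.cons (P.lf 0 110517404 0) (P.cons (P.lf 52170978 0 0) (P.lf 2484334 0 0)))) (P.cons (P.cons (P.lf 0 342142103 0) (P.cons (P.lf 0 1447164 0) (P.cons (P.lf 683154 0 0) (P.lf 32540 0 0)))) (P.cons (P.cons (P.lf 39754175 0 0) (P.cons (P.lf 1888026 0 0) (P.cons (P.lf 0 891266 0) (P.lf 0 42438 0)))) (P.cons (P.cons (P.lf 8418960 0 0) (P.cons (P.lf 0 332236 0) (P.cons (P.lf 156836 0 0) P.nil))) (P.cons (P.cons (P.lf 0 3011011 0) (P.cons (P.lf 0 46120 0) P.nil)) (P.cons (P.cons (P.lf 0 189077 0) P.nil) P.nil)))))) 285024)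
 (EL.cons 9 (TM.mk (P.cons (P.cons (P.lf 0 1770411957 0) (P.cons (P.lf 0 130638426 0) (P.cons (P.lf 61669332 0 0) (P.lf 2936634 0 0)))) (P.cons (P.cons (P.lf 0 518305471 0) (P.cons (P.lf 0 18884502 0) (P.cons (P.lf 8914638 0 0) (P.lf 424506 0 0)))) (P.cons (P.cons (P.lf 0 86039818 0) (P.cons (P.lf 1798908 0 0) (P.cons (P.lf 0 849192 0) (P.lf 0 40434 0)))) (P.cons (P.cons (P.lf 12793962 0 0) (P.cons (P.lf 382434 0 0) (P.cons (P.lf 0 180534 0) P.nil))) (P.cons (P.cons (P.lf 1823644 0 0) (P.cons (P.lf 0 6648 0) P.nil)) (P.cons (P.cons (P.lf 0 76701 0) P.nil) P.nil)))))) 59990)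
 (EL.cons 2 (TM.mk (P.cons (P.cons (P.lf 173690381 0 0) (P.cons (P.lf 0 171266040 0) (P.cons (P.lf 0 5359078 0) (P.cons (P.lf 982029 0 0) (P.lf 35071 0 0))))) (P.cons (P.cons (P.lf 0 37124572 0) (P.cons (P.lf 36606394 0 0) (P.cons (P.lf 1145446 0 0) (P.cons (P.lf 0 209896 0) (P.lf 0 7495 0))))) (P.cons (P.cons (P.lf 0 9111715 0) (P.cons (P.lf 8984536 0 0) (P.cons (P.lf 281131 0 0) (P.cons (P.lf 0 51513 0) P.nil)))) (P.cons (P.cons (P.lf 361769 0 0) (P.cons (P.lf 0 356720 0) (P.cons (P.lf 0 11160 0) P.nil))) (P.cons (P.cons (P.lf 131397 0 0) (P.cons (P.lf 0 129563 0) P.nil)) (P.cons (P.cons (P.lf 419 0 0) P.nil) P.nil)))))) 27355)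
 (EL.cons 6 (TM.mk (P.cons (P.cons (P.lf 262742835 0 0) (P.cons (P.lf 0 259075515 0) (P.cons (P.lf 0 8106720 0) (P.cons (P.lf 1485522 0 0) (P.lf 53052 0 0))))) (P.cons (P.cons (P.lf 37980924 0 0) (P.cons (P.lf 0 37450794 0) (P.cons (P.lf 0 1171869 0) (P.cons (P.lf 214740 0 0) (P.lf 7668 0 0))))) (P.cons (P.cons (P.lf 0 3618003 0) (P.cons (P.lf 3567504 0 0) (P.cons (P.lf 111627 0 0) (P.cons (P.lf 0 20454 0) P.nil)))) (P.cons (P.cons (P.lf 0 769167 0) (P.cons (P.lf 758433 0 0) (P.cons (P.lf 23730 0 0) P.nil))) (P.cons (P.cons (P.lf 13380 0 0) (P.cons (P.lf 0 13194 0) P.nil)) (P.cons (P.cons (P.lf 7779 0 0) P.nil) P.nil)))))) 17778)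
 EL.nil))))))
noncomputable def S198_227_734_808_2 : EL := (EL.cons 0 (TM.mk (P.cons (P.cons (P.lf 0 168151690 0) (P.cons (P.lf 3027164 0 0) (P.cons (P.lf 0 290061 0) (P.cons (P.lf 0 1143364 0) (P.cons (P.lf 202600 0 0) (P.cons (P.lf 24176 0 0) P.nil)))))) (P.cons (P.cons (P.lf 122875962 0 0) (P.cons (P.lf 37306746 0 0) (P.cons (P.lf 0 15831756 0) (P.cons (P.lf 0 2518504 0) (P.cons (P.lf 316503 0 0) P.nil))))) (P.cons (P.cons (P.lf 219746204 0 0) (P.cons (P.lf 22545838 0 0) (P.cons (P.lf 0 10404422 0) (P.cons (P.lf 0 732054 0) P.nil)))) (P.cons (P.cons (P.lf 56342675 0 0) (P.cons (P.lf 1473134 0 0) (P.cons (P.lf 0 786746 0) P.nil))) (P.cons (P.cons (P.lf 0 590414 0) (P.cons (P.lf 0 1249606 0) P.nil)) (P.cons (P.cons (P.lf 0 3819901 0) P.nil) P.nil)))))) 2707600)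
 (EL.cons 1 (TM.mk (P.cons (P.cons (P.lf 0 568951265 0) (P.cons (P.lf 0 66178717 0) (P.cons (P.lf 29454993 0 0) (P.cons (P.lf 3173283 0 0) (P.cons (P.lf 0 317591 0) (P.cons (P.lf 0 37892 0) P.nil)))))) (P.cons (P.cons (P.lf 0 425116625 0) (P.cons (P.lf 0 31678054 0) (P.cons (P.lf 14736672 0 0) (P.cons (P.lf 917246 0 0) (P.cons (P.lf 0 38646 0) P.nil))))) (P.cons (P.cons (P.lf 0 81176532 0) (P.cons (P.lf 1249658 0 0) (P.cons (P.lf 0 352243 0) (P.cons (P.lf 0 252467 0) P.nil)))) (P.cons (P.cons (P.lf 19849820 0 0) (P.cons (P.lf 3394691 0 0) (P.cons (P.lf 0 1557610 0) P.nil))) (P.cons (P.cons (P.lf 10133804 0 0) (P.cons (P.lf 404692 0 0) P.nil)) (P.cons (P.cons (P.lf 692124 0 0) P.nil) P.nil)))))) 1487105)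
 (EL.cons 5 (TM.mk (P.cons (P.cons (P.lf 611172593 0 0) (P.cons (P.lf 80296955 0 0) (P.cons (P.lf 0 35307764 0) (P.cons (P.lf 0 4257170 0) (P.cons (P.lf 462006 0 0) (P.cons (P.lf 55122 0 0) P.nil)))))) (P.cons (P.cons (P.lf 279157706 0 0) (P.cons (P.lf 22321150 0 0) (P.cons (P.lf 0 10301609 0) (P.cons (P.lf 0 723960 0) (P.cons (P.lf 41866 0 0) P.nil))))) (P.cons (P.cons (P.lf 22719611 0 0) (P.cons (P.lf 0 1738455 0) (P.cons (P.lf 715873 0 0) (P.cons (P.lf 137987 0 0) P.nil)))) (P.cons (P.cons (P.lf 0 12312213 0) (P.cons (P.lf 0 1106421 0) (P.cons (P.lf 525238 0 0) P.nil))) (P.cons (P.cons (P.lf 0 1956777 0) (P.cons (P.lf 155414 0 0) P.nil)) (P.cons (P.cons (P.lf 686102 0 0) P.nil) P.nil)))))) 1420991)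
 (EL.cons 9 (TM.mk (P.cons (P.cons (P.lf 486516469 0 0) (P.cons (P.lf 71799951 0 0) (P.cons (P.lf 0 31244916 0) (P.cons (P.lf 0 4115028 0) (P.cons (P.lf 471222 0 0) (P.cons (P.lf 56220 0 0) P.nil)))))) (P.cons (P.cons (P.lf 284864940 0 0) (P.cons (P.lf 31399216 0 0) (P.cons (P.lf 0 14056479 0) (P.cons (P.lf 0 1428900 0) (P.cons (P.lf 136234 0 0) P.nil))))) (P.cons (P.cons (P.lf 88986693 0 0) (P.cons (P.lf 5539269 0 0) (P.cons (P.lf 0 2632474 0) (P.cons (P.lf 0 107902 0) P.nil)))) (P.cons (P.cons (P.lf 6812415 0 0) (P.cons (P.lf 0 514093 0) (P.cons (P.lf 216628 0 0) P.nil))) (P.cons (P.cons (P.lf 0 1911805 0) (P.cons (P.lf 0 254893 0) P.nil)) (P.cons (P.cons (P.lf 0 593004 0) P.nil) P.nil)))))) 447605)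
 (EL.cons 2 (TM.mk (P.cons (P.cons (P.lf 0 95461655 0) (P.cons (P.lf 87085119 0 0) (P.cons (P.lf 13216421 0 0) (P.cons (P.lf 0 3442876 0) (P.cons (P.lf 0 317835 0) (P.cons (P.lf 12487 0 0) P.nil)))))) (P.cons (P.cons (P.lf 0 7543366 0) (P.cons (P.lf 7925416 0 0) (P.cons (P.lf 0 477849 0) (P.cons (P.lf 158203 0 0) (P.cons (P.lf 19130 0 0) P.nil))))) (P.cons (P.cons (P.lf 6342018 0 0) (P.cons (P.lf 0 5569323 0) (P.cons (P.lf 0 1193270 0) (P.cons (P.lf 317829 0 0) P.nil)))) (P.cons (P.cons (P.lf 2948737 0 0) (P.cons (P.lf 0 2868941 0) (P.cons (P.lf 0 147313 0) P.nil))) (P.cons (P.cons (P.lf 63826 0 0) (P.cons (P.lf 0 80240 0) P.nil)) (P.cons (P.cons (P.lf 0 92373 0) P.nil) P.nil)))))) 293045)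
 (EL.cons 6 (TM.mk (P.cons (P.cons (P.lf 0 144405612 0) (P.cons (P.lf 131734356 0 0) (P.cons (P.lf 19992582 0 0) (P.cons (P.lf 0 5208066 0) (P.cons (P.lf 0 480786 0) (P.cons (P.lf 18894 0 0) P.nil)))))) (P.cons (P.cons (P.lf 0 63150786 0) (P.cons (P.lf 59188668 0 0) (P.cons (P.lf 6440400 0 0) (P.cons (P.lf 0 1626708 0) (P.cons (P.lf 0 143316 0) P.nil))))) (P.cons (P.cons (P.lf 0 11140698 0) (P.cons (P.lf 11055990 0 0) (P.cons (P.lf 240504 0 0) (P.cons (P.lf 0 33810 0) P.nil)))) (P.cons (P.cons (P.lf 1033956 0 0) (P.cons (P.lf 0 914718 0) (P.cons (P.lf 0 184716 0) P.nil))) (P.cons (P.cons (P.lf 512640 0 0) (P.cons (P.lf 0 499572 0) P.nil)) (P.cons (P.cons (P.lf 14988 0 0) P.nil) P.nil)))))) 272550)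
 EL.nil))))))
noncomputable def S198_227_734_808_3 : EL := (EL.cons 0 (TM.mk (P.cons (P.lf 812258952 0 0) (P.cons (P.lf 0 503779721 0) (P.cons (P.lf 60126632 0 0) (P.cons (P.lf 7110123 0 0) (P.cons (P.lf 0 270363 0) (P.cons (P.lf 0 53070 0) P.nil)))))) 3984)
 (EL.cons 1 (TM.mk (P.cons (P.lf 1228710643 0 0) (P.cons (P.lf 0 321830180 0) (P.cons (P.lf 0 40457490 0) (P.cons (P.lf 2710608 0 0) (P.cons (P.lf 384633 0 0) (P.cons (P.lf 0 7027 0) P.nil)))))) 2881)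
 (EL.cons 5 (TM.mk (P.cons (P.lf 1858680464 0 0) (P.cons (P.lf 179121676 0 0) (P.cons (P.lf 0 21378358 0) (P.cons (P.lf 0 2528040 0) (P.cons (P.lf 96128 0 0) (P.cons (P.lf 18870 0 0) P.nil)))))) 1690)
 EL.nil)))
noncomputable def S198_227_734_808_4 : EL := (EL.cons 0 (TM.mk (P.cons (P.cons (P.lf 0 223212091 0) (P.cons (P.lf 0 16470785 0) (P.cons (P.lf 7775217 0 0) (P.lf 370248 0 0)))) (P.cons (P.cons (P.lf 73093202 0 0) (P.cons (P.lf 7834577 0 0) (P.cons (P.lf 0 3698400 0) (P.lf 0 176113 0)))) (P.cons (P.cons (P.lf 13159007 0 0) (P.cons (P.lf 484280 0 0) (P.cons (P.lf 0 228608 0) (P.lf 0 10884 0)))) (P.cons (P.cons (P.lf 1549924 0 0) (P.cons (P.lf 0 412875 0) (P.cons (P.lf 194900 0 0) P.nil))) (P.cons (P.cons (P.lf 0 2071246 0) (P.cons (P.lf 0 29313 0) P.nil)) (P.cons (P.cons (P.lf 0 91490 0) P.nil) P.nil)))))) 122246)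
 (EL.cons 1 (TM.mk (P.cons (P.cons (P.lf 0 337654725 0) (P.cons (P.lf 0 24915489 0) (P.cons (P.lf 11761635 0 0) (P.lf 560075 0 0)))) (P.cons (P.cons (P.lf 0 10411479 0) (P.cons (P.lf 2924321 0 0) (P.cons (P.lf 0 1380457 0) (P.lf 0 65733 0)))) (P.cons (P.cons (P.lf 20600036 0 0) (P.cons (P.lf 2106843 0 0) (P.cons (P.lf 0 994558 0) (P.lf 0 47358 0)))) (P.cons (P.cons (P.lf 9248145 0 0) (P.cons (P.lf 46700 0 0) (P.cons (P.lf 0 22046 0) P.nil))) (P.cons (P.cons (P.lf 0 74765 0) (P.cons (P.lf 0 47413 0) P.nil)) (P.cons (P.cons (P.lf 0 251283 0) P.nil) P.nil)))))) 80910)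
 (EL.cons 5 (TM.mk (P.cons (P.cons (P.lf 0 510773018 0) (P.cons (P.lf 0 37689862 0) (P.cons (P.lf 17791920 0 0) (P.lf 847232 0 0)))) (P.cons (P.cons (P.lf 0 198757184 0) (P.cons (P.lf 0 9080460 0) (P.cons (P.lf 4286532 0 0) (P.lf 204118 0 0)))) (P.cons (P.cons (P.lf 0 33358696 0) (P.cons (P.lf 427446 0 0) (P.cons (P.lf 0 201778 0) (P.lf 0 9606 0)))) (P.cons (P.cons (P.lf 3713568 0 0) (P.cons (P.lf 274276 0 0) (P.cons (P.lf 0 129476 0) P.nil))) (P.cons (P.cons (P.lf 1344324 0 0) (P.cons (P.lf 8206 0 0) P.nil)) (P.cons (P.cons (P.lf 6962 0 0) P.nil) P.nil)))))) 58900)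
 EL.nil)))
noncomputable def S198_227_734_808_5 : EL := (EL.cons 0 (TM.mk (P.cons (P.cons (P.lf 61339598 0 0) (P.cons (P.lf 9052477 0 0) (P.cons (P.lf 0 3939333 0) (P.cons (P.lf 0 518818 0) (P.cons (P.lf 59410 0 0) (P.cons (P.lf 7087 0 0) P.nil)))))) (P.cons (P.cons (P.lf 0 2128542 0) (P.cons (P.lf 0 1655745 0) (P.cons (P.lf 671025 0 0) (P.cons (P.lf 141626 0 0) (P.cons (P.lf 0 19671 0) P.nil))))) (P.cons (P.cons (P.lf 0 6515585 0) (P.cons (P.lf 0 1086834 0) (P.cons (P.lf 475667 0 0) (P.cons (P.lf 59725 0 0) P.nil)))) (P.cons (P.cons (P.lf 0 2904031 0) (P.cons (P.lf 0 125683 0) (P.cons (P.lf 67492 0 0) P.nil))) (P.cons (P.cons (P.lf 350722 0 0) (P.cons (P.lf 91400 0 0) P.nil)) (P.cons (P.cons (P.lf 220556 0 0) P.nil) P.nil)))))) 336606)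
 (EL.cons 1 (TM.mk (P.cons (P.cons (P.lf 92788903 0 0) (P.cons (P.lf 13693756 0 0) (P.cons (P.lf 0 5959059 0) (P.cons (P.lf 0 784820 0) (P.cons (P.lf 89870 0 0) (P.cons (P.lf 10721 0 0) P.nil)))))) (P.cons (P.cons (P.lf 30025978 0 0) (P.cons (P.lf 2401749 0 0) (P.cons (P.lf 0 1120036 0) (P.cons (P.lf 0 66956 0) (P.cons (P.lf 2441 0 0) P.nil))))) (P.cons (P.cons (P.lf 0 313927 0) (P.cons (P.lf 0 962970 0) (P.cons (P.lf 396328 0 0) (P.cons (P.lf 76640 0 0) P.nil)))) (P.cons (P.cons (P.lf 0 4730229 0) (P.cons (P.lf 0 541732 0) (P.cons (P.lf 247944 0 0) P.nil))) (P.cons (P.cons (P.lf 0 1114852 0) (P.cons (P.lf 0 40218 0) P.nil)) (P.cons (P.cons (P.lf 0 6457 0) P.nil) P.nil)))))) 268325)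
 (EL.cons 5 (TM.mk (P.cons (P.cons (P.lf 140362520 0 0) (P.cons (P.lf 20714656 0 0) (P.cons (P.lf 0 9014320 0) (P.cons (P.lf 0 1187206 0) (P.cons (P.lf 135948 0 0) (P.cons (P.lf 16218 0 0) P.nil)))))) (P.cons (P.cons (P.lf 95711794 0 0) (P.cons (P.lf 11055114 0 0) (P.cons (P.lf 0 4924078 0) (P.cons (P.lf 0 526656 0) (P.cons (P.lf 52404 0 0) P.nil))))) (P.cons (P.cons (P.lf 31978882 0 0) (P.cons (P.lf 2232852 0 0) (P.cons (P.lf 0 1046616 0) (P.cons (P.lf 0 57202 0) P.nil)))) (P.cons (P.cons (P.lf 3303348 0 0) (P.cons (P.lf 0 126676 0) (P.cons (P.lf 48210 0 0) P.nil))) (P.cons (P.cons (P.lf 0 761968 0) (P.cons (P.lf 0 117460 0) P.nil)) (P.cons (P.cons (P.lf 0 276086 0) P.nil) P.nil)))))) 235014)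
 EL.nil)))
noncomputable def S198_227_734_808_6 : EL := (EL.cons 12 (TM.mk (P.lf 8589934592 0 0) 0)
 (EL.cons 3 (TM.mk (P.cons (P.lf 0 1320724353 0) (P.cons (P.lf 409570215 0 0) (P.cons (P.lf 14623338 0 0) (P.cons (P.lf 0 1245645 0) (P.cons (P.lf 0 85526 0) (P.cons (P.lf 2831 0 0) P.nil)))))) 532)
 (EL.cons 7 (TM.mk (P.cons (P.lf 0 1997870342 0) (P.cons (P.lf 0 96267727 0) (P.cons (P.lf 13808992 0 0) (P.cons (P.lf 693290 0 0) (P.cons (P.lf 0 37347 0) (P.cons (P.lf 0 3551 0) P.nil)))))) 296)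
 EL.nil)))
noncomputable def S198_227_734_808_7 : EL := (EL.cons 12 (TM.mk (P.cons (P.cons (P.lf 0 2360549276 0) (P.cons (P.lf 0 174184568 0) (P.cons (P.lf 82225776 0 0) (P.lf 3915512 0 0)))) (P.cons (P.cons (P.lf 0 691073962 0) (P.cons (P.lf 0 25179336 0) (P.cons (P.lf 11886184 0 0) (P.lf 566008 0 0)))) (P.cons (P.cons (P.lf 0 114719758 0) (P.cons (P.lf 2398544 0 0) (P.cons (P.lf 0 1132256 0) (P.lf 0 53912 0)))) (P.cons (P.cons (P.lf 17058616 0 0) (P.cons (P.lf 509912 0 0) (P.cons (P.lf 0 240712 0) P.nil))) (P.cons (P.cons (P.lf 2431526 0 0) (P.cons (P.lf 0 8864 0) P.nil)) (P.cons (P.cons (P.lf 0 102268 0) P.nil) P.nil)))))) 79962)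
 (EL.cons 3 (TM.mk (P.cons (P.cons (P.lf 0 1842185721 0) (P.cons (P.lf 0 53562642 0) (P.cons (P.lf 25284842 0 0) (P.lf 1204038 0 0)))) (P.cons (P.cons (P.lf 0 793453166 0) (P.cons (P.lf 8867550 0 0) (P.cons (P.lf 0 4186026 0) (P.lf 0 199332 0)))) (P.cons (P.cons (P.lf 134863963 0 0) (P.cons (P.lf 3731732 0 0) (P.cons (P.lf 0 1761604 0) (P.lf 0 83882 0)))) (P.cons (P.cons (P.lf 29229860 0 0) (P.cons (P.lf 0 36712 0) (P.cons (P.lf 17328 0 0) P.nil))) (P.cons (P.cons (P.lf 0 1168432 0) (P.cons (P.lf 0 70288 0) P.nil)) (P.cons (P.cons (P.lf 0 451789 0) P.nil) P.nil)))))) 219770)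
 (EL.cons 7 (TM.mk (P.cons (P.cons (P.lf 1067328456 0 0) (P.cons (P.lf 59396828 0 0) (P.cons (P.lf 0 28038941 0) (P.lf 0 1335189 0)))) (P.cons (P.cons (P.lf 186497779 0 0) (P.cons (P.lf 0 2084279 0) (P.cons (P.lf 983904 0 0) (P.lf 46851 0 0)))) (P.cons (P.cons (P.lf 0 65109848 0) (P.cons (P.lf 0 503735 0) (P.cons (P.lf 237796 0 0) (P.lf 11326 0 0)))) (P.cons (P.cons (P.lf 1516058 0 0) (P.cons (P.lf 209037 0 0) (P.cons (P.lf 0 98679 0) P.nil))) (P.cons (P.cons (P.lf 1828400 0 0) (P.cons (P.lf 9404 0 0) P.nil)) (P.cons (P.cons (P.lf 224 0 0) P.nil) P.nil)))))) 164661)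
 (EL.cons 10 (TM.mk (P.cons (P.cons (P.lf 0 564837402 0) (P.cons (P.lf 556953498 0 0) (P.cons (P.lf 17427612 0 0) (P.cons (P.lf 0 3193539 0) (P.lf 0 114054 0))))) (P.cons (P.cons (P.lf 0 54433575 0) (P.cons (P.lf 53673798 0 0) (P.cons (P.lf 1679505 0 0) (P.cons (P.lf 0 307761 0) (P.lf 0 10989 0))))) (P.cons (P.cons (P.lf 6496701 0 0) (P.cons (P.lf 0 6406023 0) (P.cons (P.lf 0 200448 0) (P.cons (P.lf 36729 0 0) P.nil)))) (P.cons (P.cons (P.lf 768249 0 0) (P.cons (P.lf 0 757527 0) (P.cons (P.lf 0 23703 0) P.nil))) (P.cons (P.cons (P.lf 0 29211 0) (P.cons (P.lf 28803 0 0) P.nil)) (P.cons (P.cons (P.lf 0 5733 0) P.nil) P.nil)))))) 13893)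
 EL.nil))))
noncomputable def S198_227_734_808_8 : EL := (EL.cons 12 (TM.mk (P.cons (P.cons (P.lf 648688626 0 0) (P.cons (P.lf 95733268 0 0) (P.cons (P.lf 0 41659888 0) (P.cons (P.lf 0 5486704 0) (P.cons (P.lf 628296 0 0) (P.cons (P.lf 74960 0 0) P.nil)))))) (P.cons (P.cons (P.lf 379819920 0 0) (P.cons (P.lf 41865622 0 0) (P.cons (P.lf 0 18741972 0) (P.cons (P.lf 0 1905200 0) (P.cons (P.lf 181646 0 0) P.nil))))) (P.cons (P.cons (P.lf 118648924 0 0) (P.cons (P.lf 7385692 0 0) (P.cons (P.lf 0 3509966 0) (P.cons (P.lf 0 143870 0) P.nil)))) (P.cons (P.cons (P.lf 9083220 0 0) (P.cons (P.lf 0 685458 0) (P.cons (P.lf 288838 0 0) P.nil))) (P.cons (P.cons (P.lf 0 2549074 0) (P.cons (P.lf 0 339858 0) P.nil)) (P.cons (P.cons (P.lf 0 790672 0) P.nil) P.nil)))))) 596778)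
 (EL.cons 3 (TM.mk (P.cons (P.cons (P.lf 1112217920 0 0) (P.cons (P.lf 118868469 0 0) (P.cons (P.lf 0 53397863 0) (P.cons (P.lf 0 5235654 0) (P.cons (P.lf 483011 0 0) (P.cons (P.lf 57626 0 0) P.nil)))))) (P.cons (P.cons (P.lf 759970587 0 0) (P.cons (P.lf 48595824 0 0) (P.cons (P.lf 0 22997220 0) (P.cons (P.lf 0 1038557 0) (P.cons (P.lf 0 10140 0) P.nil))))) (P.cons (P.cons (P.lf 101780443 0 0) (P.cons (P.lf 0 4917314 0) (P.cons (P.lf 2029719 0 0) (P.cons (P.lf 385788 0 0) P.nil)))) (P.cons (P.cons (P.lf 0 28701569 0) (P.cons (P.lf 0 4182685 0) (P.cons (P.lf 1947240 0 0) P.nil))) (P.cons (P.cons (P.lf 0 12823052 0) (P.cons (P.lf 0 214419 0) P.nil)) (P.cons (P.cons (P.lf 0 208826 0) P.nil) P.nil)))))) 1755879)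
 (EL.cons 7 (TM.mk (P.cons (P.cons (P.lf 0 435738710 0) (P.cons (P.lf 0 53665121 0) (P.cons (P.lf 23745852 0 0) (P.cons (P.lf 2705012 0 0) (P.cons (P.lf 0 282360 0) (P.cons (P.lf 0 33688 0) P.nil)))))) (P.cons (P.cons (P.lf 0 178627840 0) (P.cons (P.lf 0 11422238 0) (P.cons (P.lf 5405398 0 0) (P.cons (P.lf 244110 0 0) (P.cons (P.lf 2383 0 0) P.nil))))) (P.cons (P.cons (P.lf 8077708 0 0) (P.cons (P.lf 3202063 0 0) (P.cons (P.lf 0 1445445 0) (P.cons (P.lf 0 134409 0) P.nil)))) (P.cons (P.cons (P.lf 11680277 0 0) (P.cons (P.lf 657152 0 0) (P.cons (P.lf 0 320119 0) P.nil))) (P.cons (P.cons (P.lf 1125584 0 0) (P.cons (P.lf 0 201024 0) P.nil)) (P.cons (P.cons (P.lf 0 747964 0) P.nil) P.nil)))))) 813392)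
 (EL.cons 10 (TM.mk (P.cons (P.cons (P.lf 310439268 0 0) (P.cons (P.lf 0 283198944 0) (P.cons (P.lf 0 42979518 0) (P.cons (P.lf 11196168 0 0) (P.cons (P.lf 1033590 0 0) (P.cons (P.lf 0 40620 0) P.nil)))))) (P.cons (P.cons (P.lf 120801282 0 0) (P.cons (P.lf 0 113596200 0) (P.cons (P.lf 0 11774430 0) (P.cons (P.lf 2957568 0 0) (P.cons (P.lf 258306 0 0) P.nil))))) (P.cons (P.cons (P.lf 20274858 0 0) (P.cons (P.lf 0 20251656 0) (P.cons (P.lf 0 246756 0) (P.cons (P.lf 7560 0 0) P.nil)))) (P.cons (P.cons (P.lf 0 2257038 0) (P.cons (P.lf 2058834 0 0) (P.cons (P.lf 312702 0 0) P.nil))) (P.cons (P.cons (P.lf 0 817056 0) (P.cons (P.lf 800664 0 0) P.nil)) (P.cons (P.cons (P.lf 0 4230 0) P.nil) P.nil)))))) 410892)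
 EL.nil))))
noncomputable def S198_227_734_808_9 : EL := (EL.cons 3 (TM.mk (P.cons (P.lf 0 1320724353 0) (P.cons (P.lf 409570215 0 0) (P.cons (P.lf 14623338 0 0) (P.cons (P.lf 0 1245645 0) (P.cons (P.lf 0 85526 0) (P.cons (P.lf 2831 0 0) P.nil)))))) 532)
 (EL.cons 7 (TM.mk (P.cons (P.lf 0 1997870342 0) (P.cons (P.lf 0 96267727 0) (P.cons (P.lf 13808992 0 0) (P.cons (P.lf 693290 0 0) (P.cons (P.lf 0 37347 0) (P.cons (P.lf 0 3551 0) P.nil)))))) 296)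
 EL.nil))
noncomputable def S198_227_734_808_10 : EL := (EL.cons 3 (TM.mk (P.cons (P.cons (P.lf 362940471 0 0) (P.cons (P.lf 26781321 0 0) (P.cons (P.lf 0 12642421 0) (P.lf 0 602019 0)))) (P.cons (P.cons (P.lf 0 6297191 0) (P.cons (P.lf 0 4433775 0) (P.cons (P.lf 2093013 0 0) (P.lf 99666 0 0)))) (P.cons (P.cons (P.lf 0 19330676 0) (P.cons (P.lf 0 1865866 0) (P.cons (P.lf 880802 0 0) (P.lf 41941 0 0)))) (P.cons (P.cons (P.lf 0 8926834 0) (P.cons (P.lf 18356 0 0) (P.cons (P.lf 0 8664 0) P.nil))) (P.cons (P.cons (P.lf 367925 0 0) (P.cons (P.lf 35144 0 0) P.nil)) (P.cons (P.cons (P.lf 183437 0 0) P.nil) P.nil)))))) 53269)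
 (EL.cons 7 (TM.mk (P.cons (P.cons (P.lf 549022968 0 0) (P.cons (P.lf 40512320 0 0) (P.cons (P.lf 0 19124294 0) (P.lf 0 910680 0)))) (P.cons (P.cons (P.lf 187186627 0 0) (P.cons (P.lf 7808371 0 0) (P.cons (P.lf 0 3686028 0) (P.lf 0 175524 0)))) (P.cons (P.cons (P.lf 30631957 0 0) (P.cons (P.lf 0 555689 0) (P.cons (P.lf 262318 0 0) (P.lf 12490 0 0)))) (P.cons (P.cons (P.lf 0 3983344 0) (P.cons (P.lf 0 200013 0) (P.cons (P.lf 94419 0 0) P.nil))) (P.cons (P.cons (P.lf 0 986641 0) (P.cons (P.lf 0 1072 0) P.nil)) (P.cons (P.cons (P.lf 18680 0 0) P.nil) P.nil)))))) 37286)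
 EL.nil))
noncomputable def S198_227_734_808_11 : EL := (EL.cons 3 (TM.mk (P.cons (P.cons (P.lf 0 99737530 0) (P.cons (P.lf 0 14719233 0) (P.cons (P.lf 6405313 0 0) (P.cons (P.lf 843594 0 0) (P.cons (P.lf 0 96601 0) (P.cons (P.lf 0 11524 0) P.nil)))))) (P.cons (P.cons (P.lf 0 27468645 0) (P.cons (P.lf 0 1872360 0) (P.cons (P.lf 895272 0 0) (P.cons (P.lf 31321 0 0) (P.cons (P.lf 2028 0 0) P.nil))))) (P.cons (P.cons (P.lf 971647 0 0) (P.cons (P.lf 1023568 0 0) (P.cons (P.lf 0 424875 0) (P.cons (P.lf 0 78060 0) P.nil)))) (P.cons (P.cons (P.lf 4813171 0 0) (P.cons (P.lf 514931 0 0) (P.cons (P.lf 0 237630 0) P.nil))) (P.cons (P.cons (P.lf 965464 0 0) (P.cons (P.lf 25119 0 0) P.nil)) (P.cons (P.cons (P.lf 0 5282 0) P.nil) P.nil)))))) 237389)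
 (EL.cons 7 (TM.mk (P.cons (P.cons (P.lf 0 150873764 0) (P.cons (P.lf 0 22265903 0) (P.cons (P.lf 9689370 0 0) (P.cons (P.lf 1276112 0 0) (P.cons (P.lf 0 146130 0) (P.cons (P.lf 0 17434 0) P.nil)))))) (P.cons (P.cons (P.lf 0 95609428 0) (P.cons (P.lf 0 10810106 0) (P.cons (P.lf 4825942 0 0) (P.cons (P.lf 504606 0 0) (P.cons (P.lf 0 49289 0) P.nil))))) (P.cons (P.cons (P.lf 0 30809528 0) (P.cons (P.lf 0 2033075 0) (P.cons (P.lf 959427 0 0) (P.cons (P.lf 45993 0 0) P.nil)))) (P.cons (P.cons (P.lf 0 2779357 0) (P.cons (P.lf 151682 0 0) (P.cons (P.lf 0 61333 0) P.nil))) (P.cons (P.cons (P.lf 709646 0 0) (P.cons (P.lf 101562 0 0) P.nil)) (P.cons (P.cons (P.lf 234722 0 0) P.nil) P.nil)))))) 190390)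
 EL.nil))
noncomputable def S198_227_734_808_12 : EL := (EL.cons 4 (TM.mk (P.cons (P.lf 1320724353 0 0) (P.cons (P.lf 0 409570215 0) (P.cons (P.lf 0 14623338 0) (P.cons (P.lf 1245645 0 0) (P.cons (P.lf 85526 0 0) (P.cons (P.lf 0 2831 0) P.nil)))))) 532)
 (EL.cons 8 (TM.mk (P.cons (P.lf 1997870342 0 0) (P.cons (P.lf 96267727 0 0) (P.cons (P.lf 0 13808992 0) (P.cons (P.lf 0 693290 0) (P.cons (P.lf 37347 0 0) (P.cons (P.lf 3551 0 0) P.nil)))))) 296)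
 EL.nil))
noncomputable def S198_227_734_808_13 : EL := (EL.cons 4 (TM.mk (P.cons (P.cons (P.lf 0 362940471 0) (P.cons (P.lf 0 26781321 0) (P.cons (P.lf 12642421 0 0) (P.lf 602019 0 0)))) (P.cons (P.cons (P.lf 6297191 0 0) (P.cons (P.lf 4433775 0 0) (P.cons (P.lf 0 2093013 0) (P.lf 0 99666 0)))) (P.cons (P.cons (P.lf 19330676 0 0) (P.cons (P.lf 1865866 0 0) (P.cons (P.lf 0 880802 0) (P.lf 0 41941 0)))) (P.cons (P.cons (P.lf 8926834 0 0) (P.cons (P.lf 0 18356 0) (P.cons (P.lf 8664 0 0) P.nil))) (P.cons (P.cons (P.lf 0 367925 0) (P.cons (P.lf 0 35144 0) P.nil)) (P.cons (P.cons (P.lf 0 183437 0) P.nil) P.nil)))))) 53269)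
 (EL.cons 8 (TM.mk (P.cons (P.cons (P.lf 0 549022968 0) (P.cons (P.lf 0 40512320 0) (P.cons (P.lf 19124294 0 0) (P.lf 910680 0 0)))) (P.cons (P.cons (P.lf 0 187186627 0) (P.cons (P.lf 0 7808371 0) (P.cons (P.lf 3686028 0 0) (P.lf 175524 0 0)))) (P.cons (P.cons (P.lf 0 30631957 0) (P.cons (P.lf 555689 0 0) (P.cons (P.lf 0 262318 0) (P.lf 0 12490 0)))) (P.cons (P.cons (P.lf 3983344 0 0) (P.cons (P.lf 200013 0 0) (P.cons (P.lf 0 94419 0) P.nil))) (P.cons (P.cons (P.lf 986641 0 0) (P.cons (P.lf 1072 0 0) P.nil)) (P.cons (P.cons (P.lf 0 18680 0) P.nil) P.nil)))))) 37286)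
 EL.nil))
noncomputable def S198_227_734_808_14 : EL := (EL.cons 4 (TM.mk (P.cons (P.cons (P.lf 99737530 0 0) (P.cons (P.lf 14719233 0 0) (P.cons (P.lf 0 6405313 0) (P.cons (P.lf 0 843594 0) (P.cons (P.lf 96601 0 0) (P.cons (P.lf 11524 0 0) P.nil)))))) (P.cons (P.cons (P.lf 27468645 0 0) (P.cons (P.lf 1872360 0 0) (P.cons (P.lf 0 895272 0) (P.cons (P.lf 0 31321 0) (P.cons (P.lf 0 2028 0) P.nil))))) (P.cons (P.cons (P.lf 0 971647 0) (P.cons (P.lf 0 1023568 0) (P.cons (P.lf 424875 0 0) (P.cons (P.lf 78060 0 0) P.nil)))) (P.cons (P.cons (P.lf 0 4813171 0) (P.cons (P.lf 0 514931 0) (P.cons (P.lf 237630 0 0) P.nil))) (P.cons (P.cons (P.lf 0 965464 0) (P.cons (P.lf 0 25119 0) P.nil)) (P.cons (P.cons (P.lf 5282 0 0) P.nil) P.nil)))))) 237389)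
 (EL.cons 8 (TM.mk (P.cons (P.cons (P.lf 150873764 0 0) (P.cons (P.lf 22265903 0 0) (P.cons (P.lf 0 9689370 0) (P.cons (P.lf 0 1276112 0) (P.cons (P.lf 146130 0 0) (P.cons (P.lf 17434 0 0) P.nil)))))) (P.cons (P.cons (P.lf 95609428 0 0) (P.cons (P.lf 10810106 0 0) (P.cons (P.lf 0 4825942 0) (P.cons (P.lf 0 504606 0) (P.cons (P.lf 49289 0 0) P.nil))))) (P.cons (P.cons (P.lf 30809528 0 0) (P.cons (P.lf 2033075 0 0) (P.cons (P.lf 0 959427 0) (P.cons (P.lf 0 45993 0) P.nil)))) (P.cons (P.cons (P.lf 2779357 0 0) (P.cons (P.lf 0 151682 0) (P.cons (P.lf 61333 0 0) P.nil))) (P.cons (P.cons (P.lf 0 709646 0) (P.cons (P.lf 0 101562 0) P.nil)) (P.cons (P.cons (P.lf 0 234722 0) P.nil) P.nil)))))) 190390)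
 EL.nil))
noncomputable def S198_227_734_808_15 : EL := (EL.cons 4 (TM.mk (P.cons (P.lf 0 433204774 0) (P.cons (P.lf 268682518 0 0) (P.cons (P.lf 0 32067537 0) (P.cons (P.lf 0 3792065 0) (P.cons (P.lf 144194 0 0) (P.cons (P.lf 28304 0 0) P.nil)))))) 2128)
 (EL.cons 8 (TM.mk (P.cons (P.lf 0 655312343 0) (P.cons (P.lf 171642763 0 0) (P.cons (P.lf 21577328 0 0) (P.cons (P.lf 0 1445658 0) (P.cons (P.lf 0 205138 0) (P.cons (P.lf 3748 0 0) P.nil)))))) 1533)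
 EL.nil))
noncomputable def S198_227_734_808_16 : EL := (EL.cons 4 (TM.mk (P.cons (P.cons (P.lf 119046449 0 0) (P.cons (P.lf 8784419 0 0) (P.cons (P.lf 0 4146782 0) (P.lf 0 197465 0)))) (P.cons (P.cons (P.lf 0 38983041 0) (P.cons (P.lf 0 4178441 0) (P.cons (P.lf 1972480 0 0) (P.lf 93927 0 0)))) (P.cons (P.cons (P.lf 0 7018137 0) (P.cons (P.lf 0 258283 0) (P.cons (P.lf 121924 0 0) (P.lf 5805 0 0)))) (P.cons (P.cons (P.lf 0 826626 0) (P.cons (P.lf 220200 0 0) (P.cons (P.lf 0 103947 0) P.nil))) (P.cons (P.cons (P.lf 1104664 0 0) (P.cons (P.lf 15633 0 0) P.nil)) (P.cons (P.cons (P.lf 48795 0 0) P.nil) P.nil)))))) 65207)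
 (EL.cons 8 (TM.mk (P.cons (P.cons (P.lf 180082520 0 0) (P.cons (P.lf 13288261 0 0) (P.cons (P.lf 0 6272872 0) (P.lf 0 298707 0)))) (P.cons (P.cons (P.lf 5552789 0 0) (P.cons (P.lf 0 1559638 0) (P.cons (P.lf 736244 0 0) (P.lf 35058 0 0)))) (P.cons (P.cons (P.lf 0 10986686 0) (P.cons (P.lf 0 1123650 0) (P.cons (P.lf 530431 0 0) (P.lf 25258 0 0)))) (P.cons (P.cons (P.lf 0 4932344 0) (P.cons (P.lf 0 24907 0) (P.cons (P.lf 11758 0 0) P.nil))) (P.cons (P.cons (P.lf 39875 0 0) (P.cons (P.lf 25287 0 0) P.nil)) (P.cons (P.cons (P.lf 134018 0 0) P.nil) P.nil)))))) 43142)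
 EL.nil))
noncomputable def S198_227_734_808_17 : EL := (EL.cons 4 (TM.mk (P.cons (P.cons (P.lf 0 32714452 0) (P.cons (P.lf 0 4827988 0) (P.cons (P.lf 2100977 0 0) (P.cons (P.lf 276703 0 0) (P.cons (P.lf 0 31685 0) (P.cons (P.lf 0 3780 0) P.nil)))))) (P.cons (P.cons (P.lf 1135222 0 0) (P.cons (P.lf 883064 0 0) (P.cons (P.lf 0 357880 0) (P.cons (P.lf 0 75534 0) (P.cons (P.lf 10491 0 0) P.nil))))) (P.cons (P.cons (P.lf 3474978 0 0) (P.cons (P.lf 579645 0 0) (P.cons (P.lf 0 253689 0) (P.cons (P.lf 0 31853 0) P.nil)))) (P.cons (P.cons (P.lf 1548816 0 0) (P.cons (P.lf 67031 0 0) (P.cons (P.lf 0 35996 0) P.nil))) (P.cons (P.cons (P.lf 0 187051 0) (P.cons (P.lf 0 48747 0) P.nil)) (P.cons (P.cons (P.lf 0 117630 0) P.nil) P.nil)))))) 179533)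
 (EL.cons 8 (TM.mk (P.cons (P.cons (P.lf 0 49487415 0) (P.cons (P.lf 0 7303337 0) (P.cons (P.lf 3178165 0 0) (P.cons (P.lf 418571 0 0) (P.cons (P.lf 0 47931 0) (P.cons (P.lf 0 5718 0) P.nil)))))) (P.cons (P.cons (P.lf 0 16013855 0) (P.cons (P.lf 0 1280933 0) (P.cons (P.lf 597353 0 0) (P.cons (P.lf 35710 0 0) (P.cons (P.lf 0 1302 0) P.nil))))) (P.cons (P.cons (P.lf 167428 0 0) (P.cons (P.lf 513584 0 0) (P.cons (P.lf 0 211375 0) (P.cons (P.lf 0 40875 0) P.nil)))) (P.cons (P.cons (P.lf 2522789 0 0) (P.cons (P.lf 288924 0 0) (P.cons (P.lf 0 132237 0) P.nil))) (P.cons (P.cons (P.lf 594588 0 0) (P.cons (P.lf 21450 0 0) P.nil)) (P.cons (P.cons (P.lf 3444 0 0) P.nil) P.nil)))))) 143095)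
 EL.nil))
noncomputable def S198_227_734_808_18 : EL := (EL.cons 4 (TM.mk (P.cons (P.lf 142093522 0 0) (P.cons (P.lf 0 132193991 0) (P.cons (P.lf 36274848 0 0) (P.cons (P.lf 0 908220 0) (P.cons (P.lf 0 623396 0) (P.cons (P.lf 0 4479 0) P.nil)))))) 6741)
 (EL.cons 8 (TM.mk (P.cons (P.lf 214946014 0 0) (P.cons (P.lf 0 122956731 0) (P.cons (P.lf 8001726 0 0) (P.cons (P.lf 3495072 0 0) (P.cons (P.lf 0 40579 0) (P.cons (P.lf 0 38127 0) P.nil)))))) 3726)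
 EL.nil))
noncomputable def S198_227_734_808_19 : EL := (EL.cons 4 (TM.mk (P.cons (P.cons (P.lf 0 39047882 0) (P.cons (P.lf 0 2881336 0) (P.cons (P.lf 1360167 0 0) (P.lf 64769 0 0)))) (P.cons (P.cons (P.lf 24895800 0 0) (P.cons (P.lf 2264083 0 0) (P.cons (P.lf 0 1068785 0) (P.lf 0 50894 0)))) (P.cons (P.cons (P.lf 0 1230937 0) (P.cons (P.lf 0 308400 0) (P.cons (P.lf 145583 0 0) (P.lf 6931 0 0)))) (P.cons (P.cons (P.lf 0 621135 0) (P.cons (P.lf 0 116391 0) (P.cons (P.lf 54943 0 0) P.nil))) (P.cons (P.cons (P.lf 0 462375 0) (P.cons (P.lf 17437 0 0) P.nil)) (P.cons (P.cons (P.lf 96439 0 0) P.nil) P.nil)))))) 57122)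
 (EL.cons 8 (TM.mk (P.cons (P.cons (P.lf 0 59068046 0) (P.cons (P.lf 0 4358622 0) (P.cons (P.lf 2057536 0 0) (P.lf 97977 0 0)))) (P.cons (P.cons (P.lf 16496263 0 0) (P.cons (P.lf 1863223 0 0) (P.cons (P.lf 0 879555 0) (P.lf 0 41883 0)))) (P.cons (P.cons (P.lf 4822524 0 0) (P.cons (P.lf 258179 0 0) (P.cons (P.lf 0 121876 0) (P.lf 0 5803 0)))) (P.cons (P.cons (P.lf 464749 0 0) (P.cons (P.lf 0 115900 0) (P.cons (P.lf 54711 0 0) P.nil))) (P.cons (P.cons (P.lf 0 560230 0) (P.cons (P.lf 0 14708 0) P.nil)) (P.cons (P.cons (P.lf 0 54408 0) P.nil) P.nil)))))) 45321)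
 EL.nil))
noncomputable def S198_227_734_808_20 : EL := (EL.cons 4 (TM.mk (P.cons (P.cons (P.lf 10730518 0 0) (P.cons (P.lf 1583606 0 0) (P.cons (P.lf 0 689131 0) (P.cons (P.lf 0 90759 0) (P.cons (P.lf 10393 0 0) (P.cons (P.lf 1239 0 0) P.nil)))))) (P.cons (P.cons (P.lf 0 3700003 0) (P.cons (P.lf 0 780742 0) (P.cons (P.lf 331093 0 0) (P.cons (P.lf 52920 0 0) (P.cons (P.lf 0 6663 0) P.nil))))) (P.cons (P.cons (P.lf 0 1143150 0) (P.cons (P.lf 0 117837 0) (P.cons (P.lf 54438 0 0) (P.cons (P.lf 3769 0 0) P.nil)))) (P.cons (P.cons (P.lf 0 140309 0) (P.cons (P.lf 41673 0 0) (P.cons (P.lf 0 15946 0) P.nil))) (P.cons (P.cons (P.lf 231860 0 0) (P.cons (P.lf 24741 0 0) P.nil)) (P.cons (P.cons (P.lf 24059 0 0) P.nil) P.nil)))))) 121965)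
 (EL.cons 8 (TM.mk (P.cons (P.cons (P.lf 16232141 0 0) (P.cons (P.lf 2395534 0 0) (P.cons (P.lf 0 1042455 0) (P.cons (P.lf 0 137293 0) (P.cons (P.lf 15721 0 0) (P.cons (P.lf 1875 0 0) P.nil)))))) (P.cons (P.cons (P.lf 218877 0 0) (P.cons (P.lf 0 322726 0) (P.cons (P.lf 127340 0 0) (P.cons (P.lf 30862 0 0) (P.cons (P.lf 0 4448 0) P.nil))))) (P.cons (P.cons (P.lf 0 1863538 0) (P.cons (P.lf 0 325276 0) (P.cons (P.lf 141636 0 0) (P.cons (P.lf 18559 0 0) P.nil)))) (P.cons (P.cons (P.lf 0 853306 0) (P.cons (P.lf 0 44920 0) (P.cons (P.lf 23060 0 0) P.nil))) (P.cons (P.cons (P.lf 68197 0 0) (P.cons (P.lf 24769 0 0) P.nil)) (P.cons (P.cons (P.lf 68765 0 0) P.nil) P.nil)))))) 103669)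
 EL.nil))
noncomputable def S198_227_734_808_21 : EL := (EL.cons 4 (TM.mk (P.cons (P.cons (P.lf 2205126192 0 0) (P.cons (P.lf 80343963 0 0) (P.cons (P.lf 0 37927263 0) (P.lf 0 1806057 0)))) (P.cons (P.cons (P.lf 787155975 0 0) (P.cons (P.lf 0 13301325 0) (P.cons (P.lf 6279039 0 0) (P.lf 298998 0 0)))) (P.cons (P.cons (P.lf 0 154194639 0) (P.cons (P.lf 0 5597598 0) (P.cons (P.lf 2642406 0 0) (P.lf 125823 0 0)))) (P.cons (P.cons (P.lf 0 38156694 0) (P.cons (P.lf 55068 0 0) (P.cons (P.lf 0 25992 0) P.nil))) (P.cons (P.cons (P.lf 1536357 0 0) (P.cons (P.lf 105432 0 0) P.nil)) (P.cons (P.cons (P.lf 635226 0 0) P.nil) P.nil)))))) 166482)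
 (EL.cons 8 (TM.mk (P.cons (P.cons (P.lf 0 518305488 0) (P.cons (P.lf 0 18884508 0) (P.cons (P.lf 8914647 0 0) (P.lf 424509 0 0)))) (P.cons (P.cons (P.lf 688848 0 0) (P.cons (P.lf 9892650 0 0) (P.cons (P.lf 0 4669932 0) (P.lf 0 222375 0)))) (P.cons (P.cons (P.lf 95741805 0 0) (P.cons (P.lf 0 51954 0) (P.cons (P.lf 24522 0 0) (P.lf 1164 0 0)))) (P.cons (P.cons (P.lf 0 5499402 0) (P.cons (P.lf 0 409050 0) (P.cons (P.lf 193098 0 0) P.nil))) (P.cons (P.cons (P.lf 0 2815041 0) (P.cons (P.lf 0 10476 0) P.nil)) (P.cons (P.cons (P.lf 18456 0 0) P.nil) P.nil)))))) 127356)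
 (EL.cons 11 (TM.mk (P.cons (P.cons (P.lf 564837402 0 0) (P.cons (P.lf 0 556953498 0) (P.cons (P.lf 0 17427612 0) (P.cons (P.lf 3193539 0 0) (P.lf 114054 0 0))))) (P.cons (P.cons (P.lf 54433575 0 0) (P.cons (P.lf 0 53673798 0) (P.cons (P.lf 0 1679505 0) (P.cons (P.lf 307761 0 0) (P.lf 10989 0 0))))) (P.cons (P.cons (P.lf 0 6496701 0) (P.cons (P.lf 6406023 0 0) (P.cons (P.lf 200448 0 0) (P.cons (P.lf 0 36729 0) P.nil)))) (P.cons (P.cons (P.lf 0 768249 0) (P.cons (P.lf 757527 0 0) (P.cons (P.lf 23703 0 0) P.nil))) (P.cons (P.cons (P.lf 29211 0 0) (P.cons (P.lf 0 28803 0) P.nil)) (P.cons (P.cons (P.lf 5733 0 0) P.nil) P.nil)))))) 13893)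
 EL.nil)))
noncomputable def S198_227_734_808_22 : EL := (EL.cons 4 (TM.mk (P.cons (P.cons (P.lf 0 605977725 0) (P.cons (P.lf 0 66793851 0) (P.cons (P.lf 29901588 0 0) (P.cons (P.lf 3039624 0 0) (P.cons (P.lf 0 289806 0) (P.cons (P.lf 0 34575 0) P.nil)))))) (P.cons (P.cons (P.lf 0 393719616 0) (P.cons (P.lf 0 25234092 0) (P.cons (P.lf 11946246 0 0) (P.cons (P.lf 534939 0 0) (P.cons (P.lf 6084 0 0) P.nil))))) (P.cons (P.cons (P.lf 0 50404398 0) (P.cons (P.lf 2970441 0 0) (P.cons (P.lf 0 1227297 0) (P.cons (P.lf 0 231924 0) P.nil)))) (P.cons (P.cons (P.lf 16757370 0 0) (P.cons (P.lf 2348808 0 0) (P.cons (P.lf 0 1092435 0) P.nil))) (P.cons (P.cons (P.lf 6894258 0 0) (P.cons (P.lf 119769 0 0) P.nil)) (P.cons (P.cons (P.lf 101772 0 0) P.nil) P.nil)))))) 759234)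
 (EL.cons 8 (TM.mk (P.cons (P.cons (P.lf 142432473 0 0) (P.cons (P.lf 15699609 0 0) (P.cons (P.lf 0 7028241 0) (P.cons (P.lf 0 714450 0) (P.cons (P.lf 68115 0 0) (P.cons (P.lf 8127 0 0) P.nil)))))) (P.cons (P.cons (P.lf 41509206 0 0) (P.cons (P.lf 306066 0 0) (P.cons (P.lf 0 289728 0) (P.cons (P.lf 130248 0 0) (P.cons (P.lf 0 25836 0) P.nil))))) (P.cons (P.cons (P.lf 0 19443618 0) (P.cons (P.lf 0 2617569 0) (P.cons (P.lf 1202436 0 0) (P.cons (P.lf 90201 0 0) P.nil)))) (P.cons (P.cons (P.lf 0 7229817 0) (P.cons (P.lf 0 252735 0) (P.cons (P.lf 129393 0 0) P.nil))) (P.cons (P.cons (P.lf 0 207969 0) (P.cons (P.lf 151293 0 0) P.nil)) (P.cons (P.cons (P.lf 491343 0 0) P.nil) P.nil)))))) 311490)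
 (EL.cons 11 (TM.mk (P.cons (P.cons (P.lf 0 155219634 0) (P.cons (P.lf 141599472 0 0) (P.cons (P.lf 21489759 0 0) (P.cons (P.lf 0 5598084 0) (P.cons (P.lf 0 516795 0) (P.cons (P.lf 20310 0 0) P.nil)))))) (P.cons (P.cons (P.lf 0 60400641 0) (P.cons (P.lf 56798100 0 0) (P.cons (P.lf 5887215 0 0) (P.cons (P.lf 0 1478784 0) (P.cons (P.lf 0 129153 0) P.nil))))) (P.cons (P.cons (P.lf 0 10137429 0) (P.cons (P.lf 10125828 0 0) (P.cons (P.lf 123378 0 0) (P.cons (P.lf 0 3780 0) P.nil)))) (P.cons (P.cons (P.lf 1128519 0 0) (P.cons (P.lf 0 1029417 0) (P.cons (P.lf 0 156351 0) P.nil))) (P.cons (P.cons (P.lf 408528 0 0) (P.cons (P.lf 0 400332 0) P.nil)) (P.cons (P.cons (P.lf 2115 0 0) P.nil) P.nil)))))) 205446)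
 EL.nil)))
noncomputable def S198_227_734_808_23 : EL := (EL.cons 4 (TM.mk (P.cons (P.cons (P.lf 0 723293388 0) (P.cons (P.lf 0 26353257 0) (P.cons (P.lf 12440346 0 0) (P.lf 592395 0 0)))) (P.cons (P.cons (P.lf 0 33890718 0) (P.cons (P.lf 12535323 0 0) (P.cons (P.lf 0 5917437 0) (P.lf 0 281781 0)))) (P.cons (P.cons (P.lf 138652959 0 0) (P.cons (P.lf 774849 0 0) (P.cons (P.lf 0 365775 0) (P.lf 0 17415 0)))) (P.cons (P.cons (P.lf 0 992172 0) (P.cons (P.lf 0 660600 0) (P.cons (P.lf 311841 0 0) P.nil))) (P.cons (P.cons (P.lf 0 5235498 0) (P.cons (P.lf 0 46899 0) P.nil)) (P.cons (P.cons (P.lf 0 158124 0) P.nil) P.nil)))))) 207264)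
 (EL.cons 8 (TM.mk (P.cons (P.cons (P.lf 170007018 0 0) (P.cons (P.lf 6194220 0 0) (P.cons (P.lf 0 2924052 0) (P.lf 0 139239 0)))) (P.cons (P.cons (P.lf 0 52946871 0) (P.cons (P.lf 0 5165733 0) (P.cons (P.lf 2438541 0 0) (P.lf 116118 0 0)))) (P.cons (P.cons (P.lf 0 33216117 0) (P.cons (P.lf 954714 0 0) (P.cons (P.lf 0 450681 0) (P.lf 0 21459 0)))) (P.cons (P.cons (P.lf 11705328 0 0) (P.cons (P.lf 170655 0 0) (P.cons (P.lf 0 80559 0) P.nil))) (P.cons (P.cons (P.lf 722466 0 0) (P.cons (P.lf 0 41019 0) P.nil)) (P.cons (P.cons (P.lf 0 342363 0) P.nil) P.nil)))))) 98772)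
 (EL.cons 11 (TM.mk (P.cons (P.cons (P.lf 0 185269740 0) (P.cons (P.lf 182683776 0 0) (P.cons (P.lf 5716350 0 0) (P.cons (P.lf 0 1047498 0) (P.lf 0 37410 0))))) (P.cons (P.cons (P.lf 39599544 0 0) (P.cons (P.lf 0 39046821 0) (P.cons (P.lf 0 1221810 0) (P.cons (P.lf 223890 0 0) (P.lf 7995 0 0))))) (P.cons (P.cons (P.lf 9719163 0 0) (P.cons (P.lf 0 9583506 0) (P.cons (P.lf 0 299874 0) (P.cons (P.lf 54948 0 0) P.nil)))) (P.cons (P.cons (P.lf 0 385887 0) (P.cons (P.lf 380502 0 0) (P.cons (P.lf 11904 0 0) P.nil))) (P.cons (P.cons (P.lf 0 140157 0) (P.cons (P.lf 138201 0 0) P.nil)) (P.cons (P.cons (P.lf 0 447 0) P.nil) P.nil)))))) 29157)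
 EL.nil)))
noncomputable def S198_227_734_808_24 : EL := (EL.cons 4 (TM.mk (P.cons (P.cons (P.lf 198763989 0 0) (P.cons (P.lf 21908745 0 0) (P.cons (P.lf 0 9807882 0) (P.cons (P.lf 0 997011 0) (P.cons (P.lf 95058 0 0) (P.cons (P.lf 11340 0 0) P.nil)))))) (P.cons (P.cons (P.lf 67503417 0 0) (P.cons (P.lf 1482792 0 0) (P.cons (P.lf 0 876906 0) (P.cons (P.lf 133719 0 0) (P.cons (P.lf 0 31473 0) P.nil))))) (P.cons (P.cons (P.lf 0 25716156 0) (P.cons (P.lf 0 3783657 0) (P.cons (P.lf 1726302 0 0) (P.cons (P.lf 141522 0 0) P.nil)))) (P.cons (P.cons (P.lf 0 11865960 0) (P.cons (P.lf 0 539253 0) (P.cons (P.lf 267621 0 0) P.nil))) (P.cons (P.cons (P.lf 0 605214 0) (P.cons (P.lf 219642 0 0) P.nil)) (P.cons (P.cons (P.lf 752274 0 0) P.nil) P.nil)))))) 475611)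
 (EL.cons 8 (TM.mk (P.cons (P.cons (P.lf 0 46718625 0) (P.cons (P.lf 0 5149557 0) (P.cons (P.lf 2305299 0 0) (P.cons (P.lf 234342 0 0) (P.cons (P.lf 0 22341 0) (P.cons (P.lf 0 2664 0) P.nil)))))) (P.cons (P.cons (P.lf 872679 0 0) (P.cons (P.lf 1496538 0 0) (P.cons (P.lf 0 619863 0) (P.cons (P.lf 0 115392 0) (P.cons (P.lf 15402 0 0) P.nil))))) (P.cons (P.cons (P.lf 11117118 0 0) (P.cons (P.lf 946725 0 0) (P.cons (P.lf 0 449400 0) (P.cons (P.lf 0 18933 0) P.nil)))) (P.cons (P.cons (P.lf 500343 0 0) (P.cons (P.lf 0 187098 0) (P.cons (P.lf 80988 0 0) P.nil))) (P.cons (P.cons (P.lf 0 753666 0) (P.cons (P.lf 0 85266 0) P.nil)) (P.cons (P.cons (P.lf 0 203340 0) P.nil) P.nil)))))) 159984)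
 (EL.cons 11 (TM.mk (P.cons (P.cons (P.lf 50912883 0 0) (P.cons (P.lf 0 46445397 0) (P.cons (P.lf 0 7048758 0) (P.cons (P.lf 1836201 0 0) (P.cons (P.lf 169512 0 0) (P.cons (P.lf 0 6660 0) P.nil)))))) (P.cons (P.cons (P.lf 4023129 0 0) (P.cons (P.lf 0 4226889 0) (P.cons (P.lf 254853 0 0) (P.cons (P.lf 0 84375 0) (P.cons (P.lf 0 10203 0) P.nil))))) (P.cons (P.cons (P.lf 0 3382410 0) (P.cons (P.lf 2970306 0 0) (P.cons (P.lf 636411 0 0) (P.cons (P.lf 0 169509 0) P.nil)))) (P.cons (P.cons (P.lf 0 1572660 0) (P.cons (P.lf 1530102 0 0) (P.cons (P.lf 78567 0 0) P.nil))) (P.cons (P.cons (P.lf 0 34041 0) (P.cons (P.lf 42795 0 0) P.nil)) (P.cons (P.cons (P.lf 49266 0 0) P.nil) P.nil)))))) 156279)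
 EL.nil)))
noncomputable def S198_227_734_808_25 : EL := (EL.cons 4 (TM.mk (P.cons (P.cons (P.lf 237244167 0 0) (P.cons (P.lf 8644011 0 0) (P.cons (P.lf 0 4080501 0) (P.lf 0 194307 0)))) (P.cons (P.cons (P.lf 0 62455515 0) (P.cons (P.lf 0 6792249 0) (P.cons (P.lf 3206355 0 0) (P.lf 152682 0 0)))) (P.cons (P.cons (P.lf 0 51553035 0) (P.cons (P.lf 925203 0 0) (P.cons (P.lf 0 436752 0) (P.lf 0 20796 0)))) (P.cons (P.cons (P.lf 14529594 0 0) (P.cons (P.lf 349173 0 0) (P.cons (P.lf 0 164829 0) P.nil))) (P.cons (P.cons (P.lf 2145750 0 0) (P.cons (P.lf 0 52314 0) P.nil)) (P.cons (P.cons (P.lf 0 526962 0) P.nil) P.nil)))))) 206364)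
 (EL.cons 8 (TM.mk (P.cons (P.cons (P.lf 0 55763226 0) (P.cons (P.lf 0 2031738 0) (P.cons (P.lf 959103 0 0) (P.lf 45669 0 0)))) (P.cons (P.cons (P.lf 34659612 0 0) (P.cons (P.lf 2324451 0 0) (P.cons (P.lf 0 1097283 0) (P.lf 0 52251 0)))) (P.cons (P.cons (P.lf 6126846 0 0) (P.cons (P.lf 0 816102 0) (P.cons (P.lf 385248 0 0) (P.lf 18342 0 0)))) (P.cons (P.cons (P.lf 0 7462965 0) (P.cons (P.lf 20457 0 0) (P.cons (P.lf 0 9657 0) P.nil))) (P.cons (P.cons (P.lf 845802 0 0) (P.cons (P.lf 35745 0 0) P.nil)) (P.cons (P.cons (P.lf 239814 0 0) P.nil) P.nil)))))) 87225)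
 (EL.cons 11 (TM.mk (P.cons (P.cons (P.lf 60769482 0 0) (P.cons (P.lf 0 59921271 0) (P.cons (P.lf 0 1874994 0) (P.cons (P.lf 343584 0 0) (P.lf 12270 0 0))))) (P.cons (P.cons (P.lf 0 31834107 0) (P.cons (P.lf 31389771 0 0) (P.cons (P.lf 982215 0 0) (P.cons (P.lf 0 179985 0) (P.lf 0 6426 0))))) (P.cons (P.cons (P.lf 167187 0 0) (P.cons (P.lf 0 164853 0) (P.cons (P.lf 0 5157 0) (P.cons (P.lf 945 0 0) P.nil)))) (P.cons (P.cons (P.lf 1316316 0 0) (P.cons (P.lf 0 1297941 0) (P.cons (P.lf 0 40611 0) P.nil))) (P.cons (P.cons (P.lf 33702 0 0) (P.cons (P.lf 0 33231 0) P.nil)) (P.cons (P.cons (P.lf 0 19488 0) P.nil) P.nil)))))) 43386)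
 EL.nil)))
noncomputable def S198_227_734_808_26 : EL := (EL.cons 4 (TM.mk (P.cons (P.cons (P.lf 0 65195670 0) (P.cons (P.lf 0 7186188 0) (P.cons (P.lf 3217038 0 0) (P.cons (P.lf 327024 0 0) (P.cons (P.lf 0 31179 0) (P.cons (P.lf 0 3717 0) P.nil)))))) (P.cons (P.cons (P.lf 0 1923639 0) (P.cons (P.lf 1742145 0 0) (P.cons (P.lf 0 710004 0) (P.cons (P.lf 0 145275 0) (P.cons (P.lf 19992 0 0) P.nil))))) (P.cons (P.cons (P.lf 16023201 0 0) (P.cons (P.lf 1471452 0 0) (P.cons (P.lf 0 691053 0) (P.cons (P.lf 0 36438 0) P.nil)))) (P.cons (P.cons (P.lf 1459971 0 0) (P.cons (P.lf 0 209379 0) (P.cons (P.lf 87663 0 0) P.nil))) (P.cons (P.cons (P.lf 0 1126965 0) (P.cons (P.lf 0 141561 0) P.nil)) (P.cons (P.cons (P.lf 0 344742 0) P.nil) P.nil)))))) 288759)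
 (EL.cons 8 (TM.mk (P.cons (P.cons (P.lf 15323961 0 0) (P.cons (P.lf 1689081 0 0) (P.cons (P.lf 0 756150 0) (P.cons (P.lf 0 76866 0) (P.cons (P.lf 7326 0 0) (P.cons (P.lf 873 0 0) P.nil)))))) (P.cons (P.cons (P.lf 0 5038362 0) (P.cons (P.lf 0 1014672 0) (P.cons (P.lf 437808 0 0) (P.cons (P.lf 61686 0 0) (P.cons (P.lf 0 7323 0) P.nil))))) (P.cons (P.cons (P.lf 0 3727377 0) (P.cons (P.lf 0 177006 0) (P.cons (P.lf 92724 0 0) (P.cons (P.lf 0 4674 0) P.nil)))) (P.cons (P.cons (P.lf 984315 0 0) (P.cons (P.lf 164694 0 0) (P.cons (P.lf 0 75240 0) P.nil))) (P.cons (P.cons (P.lf 339195 0 0) (P.cons (P.lf 12021 0 0) P.nil)) (P.cons (P.cons (P.lf 0 11637 0) P.nil) P.nil)))))) 100836)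
 (EL.cons 11 (TM.mk (P.cons (P.cons (P.lf 0 16699701 0) (P.cons (P.lf 15234342 0 0) (P.cons (P.lf 2312028 0 0) (P.cons (P.lf 0 602283 0) (P.cons (P.lf 0 55599 0) (P.cons (P.lf 2184 0 0) P.nil)))))) (P.cons (P.cons (P.lf 3859140 0 0) (P.cons (P.lf 0 3337881 0) (P.cons (P.lf 0 800577 0) (P.cons (P.lf 214449 0 0) (P.cons (P.lf 20589 0 0) P.nil))))) (P.cons (P.cons (P.lf 1703574 0 0) (P.cons (P.lf 0 1572903 0) (P.cons (P.lf 0 208422 0) (P.cons (P.lf 53685 0 0) P.nil)))) (P.cons (P.cons (P.lf 170649 0 0) (P.cons (P.lf 0 200730 0) (P.cons (P.lf 42069 0 0) P.nil))) (P.cons (P.cons (P.lf 0 163410 0) (P.cons (P.lf 154680 0 0) P.nil)) (P.cons (P.cons (P.lf 0 24336 0) P.nil) P.nil)))))) 104496)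
 EL.nil)))
noncomputable def S198_227_734_808_27 : EL := (EL.cons 13 (TM.mk (P.lf 0 4294967296 0) 0)
 EL.nil)
noncomputable def S198_227_734_808_28 : EL := (EL.cons 13 (TM.mk (P.cons (P.cons (P.lf 1180274638 0 0) (P.cons (P.lf 87092284 0 0) (P.cons (P.lf 0 41112888 0) (P.lf 0 1957756 0)))) (P.cons (P.cons (P.lf 345536981 0 0) (P.cons (P.lf 12589668 0 0) (P.cons (P.lf 0 5943092 0) (P.lf 0 283004 0)))) (P.cons (P.cons (P.lf 57359879 0 0) (P.cons (P.lf 0 1199272 0) (P.cons (P.lf 566128 0 0) (P.lf 26956 0 0)))) (P.cons (P.cons (P.lf 0 8529308 0) (P.cons (P.lf 0 254956 0) (P.cons (P.lf 120356 0 0) P.nil))) (P.cons (P.cons (P.lf 0 1215763 0) (P.cons (P.lf 4432 0 0) P.nil)) (P.cons (P.cons (P.lf 51134 0 0) P.nil) P.nil)))))) 39981)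
 EL.nil)
noncomputable def S198_227_734_808_29 : EL := (EL.cons 13 (TM.mk (P.cons (P.cons (P.lf 0 324344313 0) (P.cons (P.lf 0 47866634 0) (P.cons (P.lf 20829944 0 0) (P.cons (P.lf 2743352 0 0) (P.cons (P.lf 0 314148 0) (P.cons (P.lf 0 37480 0) P.nil)))))) (P.cons (P.cons (P.lf 0 189909960 0) (P.cons (P.lf 0 20932811 0) (P.cons (P.lf 9370986 0 0) (P.cons (P.lf 952600 0 0) (P.cons (P.lf 0 90823 0) P.nil))))) (P.cons (P.cons (P.lf 0 59324462 0) (P.cons (P.lf 0 3692846 0) (P.cons (P.lf 1754983 0 0) (P.cons (P.lf 71935 0 0) P.nil)))) (P.cons (P.cons (P.lf 0 4541610 0) (P.cons (P.lf 342729 0 0) (P.cons (P.lf 0 144419 0) P.nil))) (P.cons (P.cons (P.lf 1274537 0 0) (P.cons (P.lf 169929 0 0) P.nil)) (P.cons (P.cons (P.lf 395336 0 0) P.nil) P.nil)))))) 298389)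
 EL.nil)
noncomputable def S198_227_734_808_30 : EL := (EL.cons 13 (TM.mk (P.cons (P.lf 1408772644 0 0) (P.cons (P.lf 0 436874896 0) (P.cons (P.lf 0 15598228 0) (P.cons (P.lf 1328688 0 0) (P.cons (P.lf 91228 0 0) (P.cons (P.lf 0 3020 0) P.nil)))))) 560)
 EL.nil)
noncomputable def S198_227_734_808_31 : EL := (EL.cons 13 (TM.mk (P.cons (P.cons (P.lf 0 387136503 0) (P.cons (P.lf 0 28566743 0) (P.cons (P.lf 13485250 0 0) (P.lf 642154 0 0)))) (P.cons (P.cons (P.lf 6717004 0 0) (P.cons (P.lf 4729361 0 0) (P.cons (P.lf 0 2232548 0) (P.lf 0 106311 0)))) (P.cons (P.cons (P.lf 20619388 0 0) (P.cons (P.lf 1990258 0 0) (P.cons (P.lf 0 939523 0) (P.lf 0 44738 0)))) (P.cons (P.cons (P.lf 9521957 0 0) (P.cons (P.lf 0 19580 0) (P.cons (P.lf 9242 0 0) P.nil))) (P.cons (P.cons (P.lf 0 392454 0) (P.cons (P.lf 0 37487 0) P.nil)) (P.cons (P.cons (P.lf 0 195667 0) P.nil) P.nil)))))) 56801)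
 EL.nil)
noncomputable def S198_227_734_808_32 : EL := (EL.cons 13 (TM.mk (P.cons (P.cons (P.lf 106386699 0 0) (P.cons (P.lf 15700516 0 0) (P.cons (P.lf 0 6832334 0) (P.cons (P.lf 0 899834 0) (P.cons (P.lf 103042 0 0) (P.cons (P.lf 12293 0 0) P.nil)))))) (P.cons (P.cons (P.lf 29299889 0 0) (P.cons (P.lf 1997184 0 0) (P.cons (P.lf 0 954957 0) (P.cons (P.lf 0 33410 0) (P.cons (P.lf 0 2164 0) P.nil))))) (P.cons (P.cons (P.lf 0 1036424 0) (P.cons (P.lf 0 1091806 0) (P.cons (P.lf 453201 0 0) (P.cons (P.lf 83264 0 0) P.nil)))) (P.cons (P.cons (P.lf 0 5134050 0) (P.cons (P.lf 0 549260 0) (P.cons (P.lf 253472 0 0) P.nil))) (P.cons (P.cons (P.lf 0 1029829 0) (P.cons (P.lf 0 26794 0) P.nil)) (P.cons (P.cons (P.lf 5635 0 0) P.nil) P.nil)))))) 253192)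
 EL.nil)
noncomputable def S198_227_734_808_33 : EL := (EL.cons 14 (TM.mk (P.lf 8589934592 0 0) 0)
 EL.nil)
noncomputable def S198_227_734_808_34 : EL := (EL.cons 14 (TM.mk (P.cons (P.cons (P.lf 0 2360549276 0) (P.cons (P.lf 0 174184568 0) (P.cons (P.lf 82225776 0 0) (P.lf 3915512 0 0)))) (P.cons (P.cons (P.lf 0 691073962 0) (P.cons (P.lf 0 25179336 0) (P.cons (P.lf 11886184 0 0) (P.lf 566008 0 0)))) (P.cons (P.cons (P.lf 0 114719758 0) (P.cons (P.lf 2398544 0 0) (P.cons (P.lf 0 1132256 0) (P.lf 0 53912 0)))) (P.cons (P.cons (P.lf 17058616 0 0) (P.cons (P.lf 509912 0 0) (P.cons (P.lf 0 240712 0) P.nil))) (P.cons (P.cons (P.lf 2431526 0 0) (P.cons (P.lf 0 8864 0) P.nil)) (P.cons (P.cons (P.lf 0 102268 0) P.nil) P.nil)))))) 79962)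
 EL.nil)
noncomputable def S198_227_734_808_35 : EL := (EL.cons 14 (TM.mk (P.cons (P.cons (P.lf 648688626 0 0) (P.cons (P.lf 95733268 0 0) (P.cons (P.lf 0 41659888 0) (P.cons (P.lf 0 5486704 0) (P.cons (P.lf 628296 0 0) (P.cons (P.lf 74960 0 0) P.nil)))))) (P.cons (P.cons (P.lf 379819920 0 0) (P.cons (P.lf 41865622 0 0) (P.cons (P.lf 0 18741972 0) (P.cons (P.lf 0 1905200 0) (P.cons (P.lf 181646 0 0) P.nil))))) (P.cons (P.cons (P.lf 118648924 0 0) (P.cons (P.lf 7385692 0 0) (P.cons (P.lf 0 3509966 0) (P.cons (P.lf 0 143870 0) P.nil)))) (P.cons (P.cons (P.lf 9083220 0 0) (P.cons (P.lf 0 685458 0) (P.cons (P.lf 288838 0 0) P.nil))) (P.cons (P.cons (P.lf 0 2549074 0) (P.cons (P.lf 0 339858 0) P.nil)) (P.cons (P.cons (P.lf 0 790672 0) P.nil) P.nil)))))) 596778)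
 EL.nil)
noncomputable def S198_227_734_808_36 : EL := (EL.cons 14 (TM.mk (P.cons (P.lf 0 2817545288 0) (P.cons (P.lf 873749792 0 0) (P.cons (P.lf 31196456 0 0) (P.cons (P.lf 0 2657376 0) (P.cons (P.lf 0 182456 0) (P.cons (P.lf 6040 0 0) P.nil)))))) 1120)
 EL.nil)
noncomputable def S198_227_734_808_37 : EL := (EL.cons 14 (TM.mk (P.cons (P.cons (P.lf 774273006 0 0) (P.cons (P.lf 57133486 0 0) (P.cons (P.lf 0 26970500 0) (P.lf 0 1284308 0)))) (P.cons (P.cons (P.lf 0 13434008 0) (P.cons (P.lf 0 9458722 0) (P.cons (P.lf 4465096 0 0) (P.lf 212622 0 0)))) (P.cons (P.cons (P.lf 0 41238776 0) (P.cons (P.lf 0 3980516 0) (P.cons (P.lf 1879046 0 0) (P.lf 89476 0 0)))) (P.cons (P.cons (P.lf 0 19043914 0) (P.cons (P.lf 39160 0 0) (P.cons (P.lf 0 18484 0) P.nil))) (P.cons (P.cons (P.lf 784908 0 0) (P.cons (P.lf 74974 0 0) P.nil)) (P.cons (P.cons (P.lf 391334 0 0) P.nil) P.nil))))))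 113602)
 EL.nil)
noncomputable def S198_227_734_808_38 : EL := (EL.cons 14 (TM.mk (P.cons (P.cons (P.lf 0 212773398 0) (P.cons (P.lf 0 31401032 0) (P.cons (P.lf 13664668 0 0) (P.cons (P.lf 1799668 0 0) (P.cons (P.lf 0 206084 0) (P.cons (P.lf 0 24586 0) P.nil)))))) (P.cons (P.cons (P.lf 0 58599778 0) (P.cons (P.lf 0 3994368 0) (P.cons (P.lf 1909914 0 0) (P.cons (P.lf 66820 0 0) (P.cons (P.lf 4328 0 0) P.nil))))) (P.cons (P.cons (P.lf 2072848 0 0) (P.cons (P.lf 2183612 0 0) (P.cons (P.lf 0 906402 0) (P.cons (P.lf 0 166528 0) P.nil)))) (P.cons (P.cons (P.lf 10268100 0 0) (P.cons (P.lf 1098520 0 0) (P.cons (P.lf 0 506944 0) P.nil))) (P.cons (P.cons (P.lf 2059658 0 0) (P.cons (P.lf 53588 0 0) P.nil)) (P.cons (P.cons (P.lf 0 11270 0) P.nil) P.nil)))))) 506384)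
 EL.nil)
noncomputable def S198_227_734_808_39 : EL := (EL.cons 14 (TM.mk (P.cons (P.lf 924170186 0 0) (P.cons (P.lf 0 573189372 0) (P.cons (P.lf 68410746 0 0) (P.cons (P.lf 8089740 0 0) (P.cons (P.lf 0 307614 0) (P.cons (P.lf 0 60382 0) P.nil)))))) 4526)
 EL.nil)
noncomputable def S198_227_734_808_40 : EL := (EL.cons 14 (TM.mk (P.cons (P.cons (P.lf 0 253965758 0) (P.cons (P.lf 0 18740094 0) (P.cons (P.lf 8846470 0 0) (P.lf 421260 0 0)))) (P.cons (P.cons (P.lf 83163822 0 0) (P.cons (P.lf 8914008 0 0) (P.cons (P.lf 0 4207958 0) (P.lf 0 200378 0)))) (P.cons (P.cons (P.lf 14972026 0 0) (P.cons (P.lf 551004 0 0) (P.cons (P.lf 0 260106 0) (P.lf 0 12384 0)))) (P.cons (P.cons (P.lf 1763470 0 0) (P.cons (P.lf 0 469760 0) (P.cons (P.lf 221754 0 0) P.nil))) (P.cons (P.cons (P.lf 0 2356618 0) (P.cons (P.lf 0 33352 0) P.nil)) (P.cons (P.cons (P.lf 0 104096 0) P.nil) P.nil))))))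 139068)
 EL.nil)
noncomputable def S198_227_734_808_41 : EL := (EL.cons 14 (TM.mk (P.cons (P.cons (P.lf 69790832 0 0) (P.cons (P.lf 10299708 0 0) (P.cons (P.lf 0 4482086 0) (P.cons (P.lf 0 590300 0) (P.cons (P.lf 67596 0 0) (P.cons (P.lf 8064 0 0) P.nil)))))) (P.cons (P.cons (P.lf 0 2421808 0) (P.cons (P.lf 0 1883870 0) (P.cons (P.lf 763478 0 0) (P.cons (P.lf 161140 0 0) (P.cons (P.lf 0 22382 0) P.nil))))) (P.cons (P.cons (P.lf 0 7413288 0) (P.cons (P.lf 0 1236576 0) (P.cons (P.lf 541204 0 0) (P.cons (P.lf 67954 0 0) P.nil)))) (P.cons (P.cons (P.lf 0 3304142 0) (P.cons (P.lf 0 143000 0) (P.cons (P.lf 76792 0 0) P.nil))) (P.cons (P.cons (P.lf 399044 0 0) (P.cons (P.lf 103994 0 0) P.nil)) (P.cons (P.cons (P.lf 250944 0 0) P.nil) P.nil)))))) 382958)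
 EL.nil)
noncomputable def S198_227_734_808_42 : EL := (EL.cons 14 (TM.mk (P.cons (P.lf 0 303132848 0) (P.cons (P.lf 282013848 0 0) (P.cons (P.lf 0 77386344 0) (P.cons (P.lf 1937536 0 0) (P.cons (P.lf 1329912 0 0) (P.cons (P.lf 9556 0 0) P.nil)))))) 14366)
 EL.nil)
noncomputable def S198_227_734_808_43 : EL := (EL.cons 14 (TM.mk (P.cons (P.cons (P.lf 83302150 0 0) (P.cons (P.lf 6146852 0 0) (P.cons (P.lf 0 2901690 0) (P.lf 0 138174 0)))) (P.cons (P.cons (P.lf 0 53111040 0) (P.cons (P.lf 0 4830044 0) (P.cons (P.lf 2280076 0 0) (P.lf 108574 0 0)))) (P.cons (P.cons (P.lf 2626000 0 0) (P.cons (P.lf 657922 0 0) (P.cons (P.lf 0 310578 0) (P.lf 0 14788 0)))) (P.cons (P.cons (P.lf 1325090 0 0) (P.cons (P.lf 248302 0 0) (P.cons (P.lf 0 117212 0) P.nil))) (P.cons (P.cons (P.lf 986402 0 0) (P.cons (P.lf 0 37200 0) P.nil)) (P.cons (P.cons (P.lf 0 205738 0) P.nil) P.nil)))))) 121820)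
 EL.nil)
noncomputable def S198_227_734_808_44 : EL := (EL.cons 14 (TM.mk (P.cons (P.cons (P.lf 0 22891772 0) (P.cons (P.lf 0 3378360 0) (P.cons (P.lf 1470148 0 0) (P.cons (P.lf 193620 0 0) (P.cons (P.lf 0 22172 0) (P.cons (P.lf 0 2644 0) P.nil)))))) (P.cons (P.cons (P.lf 7893340 0 0) (P.cons (P.lf 1665584 0 0) (P.cons (P.lf 0 706332 0) (P.cons (P.lf 0 112898 0) (P.cons (P.lf 14216 0 0) P.nil))))) (P.cons (P.cons (P.lf 2438720 0 0) (P.cons (P.lf 251386 0 0) (P.cons (P.lf 0 116136 0) (P.cons (P.lf 0 8042 0) P.nil)))) (P.cons (P.cons (P.lf 299326 0 0) (P.cons (P.lf 0 88904 0) (P.cons (P.lf 34020 0 0) P.nil))) (P.cons (P.cons (P.lf 0 494636 0) (P.cons (P.lf 0 52782 0) P.nil)) (P.cons (P.cons (P.lf 0 51326 0) P.nil) P.nil)))))) 260146)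
 EL.nil)
noncomputable def S198_227_734_808_45 : EL := (EL.cons 14 (TM.mk (P.cons (P.cons (P.lf 0 178262296 0) (P.cons (P.lf 0 39461842 0) (P.cons (P.lf 15716520 0 0) (P.cons (P.lf 3564616 0 0) (P.cons (P.lf 0 416544 0) (P.cons (P.lf 0 104848 0) P.nil)))))) (P.cons (P.cons (P.lf 0 156564108 0) (P.cons (P.lf 0 28810108 0) (P.cons (P.lf 11905792 0 0) (P.cons (P.lf 2216228 0 0) (P.cons (P.lf 0 257406 0) P.nil))))) (P.cons (P.cons (P.lf 0 71825656 0) (P.cons (P.lf 0 10014458 0) (P.cons (P.lf 4358806 0 0) (P.cons (P.lf 571616 0 0) P.nil)))) (P.cons (P.cons (P.lf 0 15825928 0) (P.cons (P.lf 0 1162244 0) (P.cons (P.lf 563084 0 0) P.nil))) (P.cons (P.cons (P.lf 0 676934 0) (P.cons (P.lf 240214 0 0) P.nil)) (P.cons (P.cons (P.lf 636462 0 0) P.nil) P.nil)))))) 1109748)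
 EL.nil)
noncomputable def S198_227_734_808_46 : EL := (EL.cons 15 (TM.mk (P.lf 4294967296 0 0) 0)
 EL.nil)
noncomputable def S198_227_734_808_47 : EL := (EL.cons 15 (TM.mk (P.cons (P.cons (P.lf 0 1180274638 0) (P.cons (P.lf 0 87092284 0) (P.cons (P.lf 41112888 0 0) (P.lf 1957756 0 0)))) (P.cons (P.cons (P.lf 0 345536981 0) (P.cons (P.lf 0 12589668 0) (P.cons (P.lf 5943092 0 0) (P.lf 283004 0 0)))) (P.cons (P.cons (P.lf 0 57359879 0) (P.cons (P.lf 1199272 0 0) (P.cons (P.lf 0 566128 0) (P.lf 0 26956 0)))) (P.cons (P.cons (P.lf 8529308 0 0) (P.cons (P.lf 254956 0 0) (P.cons (P.lf 0 120356 0) P.nil))) (P.cons (P.cons (P.lf 1215763 0 0) (P.cons (P.lf 0 4432 0) P.nil)) (P.cons (P.cons (P.lf 0 51134 0) P.nil) P.nil)))))) 39981)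
 EL.nil)
noncomputable def S198_227_734_808_48 : EL := (EL.cons 15 (TM.mk (P.cons (P.cons (P.lf 324344313 0 0) (P.cons (P.lf 47866634 0 0) (P.cons (P.lf 0 20829944 0) (P.cons (P.lf 0 2743352 0) (P.cons (P.lf 314148 0 0) (P.cons (P.lf 37480 0 0) P.nil)))))) (P.cons (P.cons (P.lf 189909960 0 0) (P.cons (P.lf 20932811 0 0) (P.cons (P.lf 0 9370986 0) (P.cons (P.lf 0 952600 0) (P.cons (P.lf 90823 0 0) P.nil))))) (P.cons (P.cons (P.lf 59324462 0 0) (P.cons (P.lf 3692846 0 0) (P.cons (P.lf 0 1754983 0) (P.cons (P.lf 0 71935 0) P.nil)))) (P.cons (P.cons (P.lf 4541610 0 0) (P.cons (P.lf 0 342729 0) (P.cons (P.lf 144419 0 0) P.nil))) (P.cons (P.cons (P.lf 0 1274537 0) (P.cons (P.lf 0 169929 0) P.nil)) (P.cons (P.cons (P.lf 0 395336 0) P.nil) P.nil)))))) 298389)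
 EL.nil)
noncomputable def S198_227_734_808 : SL := (SL.cons S198_227_734_808_0 (SL.cons S198_227_734_808_1 (SL.cons S198_227_734_808_2 (SL.cons S198_227_734_808_3 (SL.cons S198_227_734_808_4 (SL.cons S198_227_734_808_5 (SL.cons S198_227_734_808_6 (SL.cons S198_227_734_808_7 (SL.cons S198_227_734_808_8 (SL.cons S198_227_734_808_9 (SL.cons S198_227_734_808_10 (SL.cons S198_227_734_808_11 (SL.cons S198_227_734_808_12 (SL.cons S198_227_734_808_13 (SL.cons S198_227_734_808_14 (SL.cons S198_227_734_808_15 (SL.cons S198_227_734_808_16 (SL.cons S198_227_734_808_17 (SL.cons S198_227_734_808_18 (SL.cons S198_227_734_808_19 (SL.cons S198_227_734_808_20 (SL.cons S198_227_734_808_21 (SL.cons S198_227_734_808_22 (SL.cons S198_227_734_808_23 (SL.cons S198_227_734_808_24 (SL.cons S198_227_734_808_25 (SL.cons S198_227_734_808_26 (SL.cons S198_227_734_808_27 (SL.cons S198_227_734_808_28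 (SL.cons S198_227_734_808_29 (SL.cons S198_227_734_808_30 (SL.cons S198_227_734_808_31 (SL.cons S198_227_734_808_32 (SL.cons S198_227_734_808_33 (SL.cons S198_227_734_808_34 (SL.cons S198_227_734_808_35 (SL.cons S198_227_734_808_36 (SL.cons S198_227_734_808_37 (SL.cons S198_227_734_808_38 (SL.cons S198_227_734_808_39 (SL.cons S198_227_734_808_40 (SL.cons S198_227_734_808_41 (SL.cons S198_227_734_808_42 (SL.cons S198_227_734_808_43 (SL.cons S198_227_734_808_44 (SL.cons S198_227_734_808_45 (SL.cons S198_227_734_808_46 (SL.cons S198_227_734_808_47 (SL.cons S198_227_734_808_48 SL.nil)))))))))))))))))))))))))))))))))))))))))))))))))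
theorem S198_227_512_586_ok : band (seq (shp 5 198 227 512 586) S198_227_512_586) (sok S198_227_512_586) = true := by decide +kernel

theorem S198_227_512_660_ok : band (seq (shp 5 198 227 512 660) S198_227_512_660) (sok S198_227_512_660) = true := by decide +kernel

theorem S198_227_586_660_ok : band (seq (shp 5 198 227 586 660) S198_227_586_660) (sok S198_227_586_660) = true := by decide +kernel

theorem S198_227_660_734_ok : band (seq (shp 5 198 227 660 734) S198_227_660_734) (sok S198_227_660_734) = true := by decide +kernel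

theorem S198_227_660_808_ok : band (seq (shp 5 198 227 660 808) S198_227_660_808) (sok S198_227_660_808) = true := by decide +kernel

theorem S198_227_734_808_ok : band (seq (shp 5 198 227 734 808) S198_227_734_808) (sok S198_227_734_808) = true := by decide +kernel

end Vale.Agent.P098.Ck
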