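import Vale.Agent.P098.CkDefs

namespace Vale.Agent.P098.Ck

noncomputable def S82_111_438_512_0 : EL := (EL.cons 0 (TM.mk (P.cons (P.lf 3141443055 0 0) (P.cons (P.lf 334885157 0 0) (P.cons (P.lf 43314278 0 0) (P.cons (P.lf 451103 0 0) (P.cons (P.lf 0 186969 0) (P.cons (P.lf 0 14783 0) P.nil)))))) 1615)
 (EL.cons 1 (TM.mk (P.cons (P.lf 0 1170850837 0) (P.cons (P.lf 0 233327645 0) (P.cons (P.lf 10098210 0 0) (P.cons (P.lf 2078180 0 0) (P.cons (P.lf 90420 0 0) (P.cons (P.lf 0 2872 0) P.nil)))))) 983)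
 (EL.cons 5 (TM.mk (P.cons (P.lf 6184486878 0 0) (P.cons (P.lf 0 119070280 0) (P.cons (P.lf 0 15400634 0) (P.cons (P.lf 0 160396 0) (P.cons (P.lf 66480 0 0) (P.cons (P.lf 5256 0 0) P.nil)))))) 413)
 (EL.cons 9 (TM.mk (P.lf 6442450944 0 0) 2)
 EL.nil))))
noncomputable def S82_111_438_512_1 : EL := (EL.cons 0 (TM.mk (P.cons (P.cons (P.lf 0 3512898830 0) (P.cons (P.lf 56867704 0 0) (P.cons (P.lf 905115 0 0) (P.lf 0 301694 0)))) (P.cons (P.cons (P.lf 0 615658651 0) (P.cons (P.lf 33422577 0 0) (P.cons (P.lf 531945 0 0) (P.lf 0 177309 0)))) (P.cons (P.cons (P.lf 36892858 0 0) (P.cons (P.lf 4746308 0 0) (P.cons (P.lf 75538 0 0) (P.lf 0 25168 0)))) (P.cons (P.cons (P.lf 27598425 0 0) (P.cons (P.lf 0 670412 0) (P.cons (P.lf 0 10670 0) P.nil))) (P.cons (P.cons (P.lf 1810122 0 0) (P.cons (P.lf 0 233444 0) P.nil)) (P.cons (P.cons (P.lf 0 203800 0) P.nil) P.nil)))))) 133334)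
 (EL.cons 1 (TM.mk (P.cons (P.cons (P.lf 1965512160 0 0) (P.cons (P.lf 0 44143879 0) (P.cons (P.lf 0 702611 0) (P.lf 234204 0 0)))) (P.cons (P.cons (P.lf 31337804 0 0) (P.cons (P.lf 0 9381741 0) (P.cons (P.lf 0 149329 0) (P.lf 49775 0 0)))) (P.cons (P.cons (P.lf 0 128623919 0) (P.cons (P.lf 3580496 0 0) (P.cons (P.lf 56984 0 0) (P.lf 0 18993 0)))) (P.cons (P.cons (P.lf 0 6360357 0) (P.cons (P.lf 1093830 0 0) (P.cons (P.lf 17402 0 0) P.nil))) (P.cons (P.cons (P.lf 1695654 0 0) (P.cons (P.lf 44497 0 0) P.nil)) (P.cons (P.cons (P.lf 203905 0 0) P.nil) P.nil)))))) 52371)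
 (EL.cons 5 (TM.mk (P.cons (P.cons (P.lf 0 2208771435 0) (P.cons (P.lf 0 52654928 0) (P.cons (P.lf 0 838070 0) (P.lf 279354 0 0)))) (P.cons (P.cons (P.lf 861060307 0 0) (P.cons (P.lf 0 34340660 0) (P.cons (P.lf 0 546572 0) (P.lf 182190 0 0)))) (P.cons (P.cons (P.lf 58238644 0 0) (P.cons (P.lf 0 7183610 0) (P.cons (P.lf 0 114336 0) (P.lf 38114 0 0)))) (P.cons (P.cons (P.lf 0 12374411 0) (P.cons (P.lf 0 262886 0) (P.cons (P.lf 0 4188 0) P.nil))) (P.cons (P.cons (P.lf 0 1355474 0) (P.cons (P.lf 88054 0 0) P.nil)) (P.cons (P.cons (P.lf 38186 0 0) P.nil) P.nil)))))) 43936)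
 (EL.cons 9 (TM.mk (P.cons (P.cons (P.lf 0 3051001875 0) (P.cons (P.lf 0 28619376 0) (P.cons (P.lf 0 455514 0) (P.lf 151836 0 0)))) (P.cons (P.cons (P.lf 566611273 0 0) (P.cons (P.lf 0 19815066 0) (P.cons (P.lf 0 315378 0) (P.lf 105126 0 0)))) (P.cons (P.cons (P.lf 62961264 0 0) (P.cons (P.lf 0 4849440 0) (P.cons (P.lf 0 77184 0) (P.lf 25728 0 0)))) (P.cons (P.cons (P.lf 0 2260279 0) (P.cons (P.lf 0 442272 0) (P.cons (P.lf 0 7038 0) P.nil))) (P.cons (P.cons (P.lf 0 628114 0) (P.cons (P.lf 4452 0 0) P.nil)) (P.cons (P.cons (P.lf 0 30240 0) P.nil) P.nil)))))) 11888)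
 (EL.cons 2 (TM.mk (P.cons (P.cons (P.lf 298802393 0 0) (P.cons (P.lf 11076195 0 0) (P.cons (P.lf 0 5488292 0) (P.cons (P.lf 0 49800 0) (P.lf 12448 0 0))))) (P.cons (P.cons (P.lf 128505619 0 0) (P.cons (P.lf 4763525 0 0) (P.cons (P.lf 0 2360342 0) (P.cons (P.lf 0 21417 0) (P.lf 5352 0 0))))) (P.cons (P.cons (P.lf 12127080 0 0) (P.cons (P.lf 449530 0 0) (P.cons (P.lf 0 222744 0) (P.cons (P.lf 0 2019 0) P.nil)))) (P.cons (P.cons (P.lf 0 1062523 0) (P.cons (P.lf 0 39386 0) (P.cons (P.lf 19515 0 0) P.nil))) (P.cons (P.cons (P.lf 0 189750 0) (P.cons (P.lf 0 7031 0) P.nil)) (P.cons (P.cons (P.lf 0 7489 0) P.nil) P.nil)))))) 7041)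
 (EL.cons 6 (TM.mk (P.cons (P.cons (P.lf 65832705 0 0) (P.cons (P.lf 2440326 0 0) (P.cons (P.lf 0 1209189 0) (P.cons (P.lf 0 10971 0) (P.lf 2742 0 0))))) (P.cons (P.cons (P.lf 45580293 0 0) (P.cons (P.lf 1689597 0 0) (P.cons (P.lf 0 837201 0) (P.cons (P.lf 0 7596 0) (P.lf 1896 0 0))))) (P.cons (P.cons (P.lf 11155089 0 0) (P.cons (P.lf 413502 0 0) (P.cons (P.lf 0 204891 0) (P.cons (P.lf 0 1857 0) P.nil)))) (P.cons (P.cons (P.lf 1017360 0 0) (P.cons (P.lf 37710 0 0) (P.cons (P.lf 0 18684 0) P.nil))) (P.cons (P.cons (P.lf 0 10254 0) (P.cons (P.lf 0 378 0) P.nil)) (P.cons (P.cons (P.lf 0 7923 0) P.nil) P.nil)))))) 2994)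
 EL.nil))))))
noncomputable def S82_111_438_512_2 : EL := (EL.cons 0 (TM.mk (P.cons (P.cons (P.lf 2622711806 0 0) (P.cons (P.lf 0 35869592 0) (P.cons (P.lf 0 1138142 0) (P.cons (P.lf 172237 0 0) (P.cons (P.lf 5871 0 0) (P.cons (P.lf 89 0 0) P.nil)))))) (P.cons (P.cons (P.lf 151789964 0 0) (P.cons (P.lf 0 2680108 0) (P.cons (P.lf 0 781864 0) (P.cons (P.lf 0 9315 0) (P.cons (P.lf 7648 0 0) P.nil))))) (P.cons (P.cons (P.lf 0 188938114 0) (P.cons (P.lf 10079437 0 0) (P.cons (P.lf 0 233678 0) (P.cons (P.lf 0 66013 0) P.nil)))) (P.cons (P.cons (P.lf 0 31646870 0) (P.cons (P.lf 3288254 0 0) (P.cons (P.lf 0 52078 0) P.nil))) (P.cons (P.cons (P.lf 4040325 0 0) (P.cons (P.lf 114187 0 0) P.nil)) (P.cons (P.cons (P.lf 1096788 0 0) P.nil) P.nil)))))) 573726)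
 (EL.cons 1 (TM.mk (P.cons (P.cons (P.lf 0 1599052239 0) (P.cons (P.lf 29274713 0 0) (P.cons (P.lf 881254 0 0) (P.cons (P.lf 0 142101 0) (P.cons (P.lf 0 4301 0) (P.cons (P.lf 0 76 0) P.nil)))))) (P.cons (P.cons (P.lf 270845967 0 0) (P.cons (P.lf 0 7770267 0) (P.cons (P.lf 267831 0 0) (P.cons (P.lf 53676 0 0) (P.cons (P.lf 0 4057 0) P.nil))))) (P.cons (P.cons (P.lf 142273924 0 0) (P.cons (P.lf 0 7358797 0) (P.cons (P.lf 315 0 0) (P.cons (P.lf 42778 0 0) P.nil)))) (P.cons (P.cons (P.lf 0 14945274 0) (P.cons (P.lf 0 183988 0) (P.cons (P.lf 0 4892 0) P.nil))) (P.cons (P.cons (P.lf 0 4849598 0) (P.cons (P.lf 388252 0 0) P.nil)) (P.cons (P.cons (P.lf 43651 0 0) P.nil) P.nil)))))) 277450)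
 (EL.cons 5 (TM.mk (P.cons (P.cons (P.lf 705018653 0 0) (P.cons (P.lf 43474908 0 0) (P.cons (P.lf 1037727 0 0) (P.cons (P.lf 0 219632 0) (P.cons (P.lf 0 3579 0) (P.cons (P.lf 0 57 0) P.nil)))))) (P.cons (P.cons (P.lf 0 662194710 0) (P.cons (P.lf 16517929 0 0) (P.cons (P.lf 725248 0 0) (P.cons (P.lf 0 72916 0) (P.cons (P.lf 0 4786 0) P.nil))))) (P.cons (P.cons (P.lf 56070355 0 0) (P.cons (P.lf 0 2962353 0) (P.cons (P.lf 210878 0 0) (P.cons (P.lf 23922 0 0) P.nil)))) (P.cons (P.cons (P.lf 26229980 0 0) (P.cons (P.lf 0 2077322 0) (P.cons (P.lf 42324 0 0) P.nil))) (P.cons (P.cons (P.lf 0 515540 0) (P.cons (P.lf 0 218888 0) P.nil)) (P.cons (P.cons (P.lf 0 532779 0) P.nil) P.nil)))))) 203952)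
 (EL.cons 9 (TM.mk (P.cons (P.cons (P.lf 1444886817 0 0) (P.cons (P.lf 27107002 0 0) (P.cons (P.lf 558577 0 0) (P.cons (P.lf 0 139764 0) (P.cons (P.lf 0 1315 0) (P.cons (P.lf 0 21 0) P.nil)))))) (P.cons (P.cons (P.lf 0 536669062 0) (P.cons (P.lf 13733823 0 0) (P.cons (P.lf 394636 0 0) (P.cons (P.lf 0 67258 0) (P.cons (P.lf 0 1822 0) P.nil))))) (P.cons (P.cons (P.lf 0 9800854 0) (P.cons (P.lf 548331 0 0) (P.cons (P.lf 112756 0 0) (P.cons (P.lf 402 0 0) P.nil)))) (P.cons (P.cons (P.lf 13215678 0 0) (P.cons (P.lf 0 801330 0) (P.cons (P.lf 21004 0 0) P.nil))) (P.cons (P.cons (P.lf 812652 0 0) (P.cons (P.lf 0 157312 0) P.nil)) (P.cons (P.cons (P.lf 0 126021 0) P.nil) P.nil)))))) 72692)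
 (EL.cons 2 (TM.mk (P.cons (P.cons (P.lf 0 283012368 0) (P.cons (P.lf 0 13145625 0) (P.cons (P.lf 5057606 0 0) (P.cons (P.lf 108450 0 0) (P.cons (P.lf 0 10046 0) (P.cons (P.lf 0 360 0) P.nil)))))) (P.cons (P.cons (P.lf 0 69155690 0) (P.cons (P.lf 0 5543285 0) (P.cons (P.lf 1112338 0 0) (P.cons (P.lf 80308 0 0) (P.cons (P.lf 0 922 0) P.nil))))) (P.cons (P.cons (P.lf 16958126 0 0) (P.cons (P.lf 0 719454 0) (P.cons (P.lf 0 382905 0) (P.cons (P.lf 28288 0 0) P.nil)))) (P.cons (P.cons (P.lf 5441591 0 0) (P.cons (P.lf 0 97925 0) (P.cons (P.lf 0 115824 0) P.nil))) (P.cons (P.cons (P.lf 81421 0 0) (P.cons (P.lf 0 24243 0) P.nil)) (P.cons (P.cons (P.lf 0 83418 0) P.nil) P.nil)))))) 54095)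
 (EL.cons 6 (TM.mk (P.cons (P.cons (P.lf 0 62353818 0) (P.cons (P.lf 0 2896266 0) (P.cons (P.lf 1114296 0 0) (P.cons (P.lf 23892 0 0) (P.cons (P.lf 0 2208 0) (P.cons (P.lf 0 78 0) P.nil)))))) (P.cons (P.cons (P.lf 0 31591704 0) (P.cons (P.lf 0 1980984 0) (P.cons (P.lf 537348 0 0) (P.cons (P.lf 23958 0 0) (P.cons (P.lf 0 780 0) P.nil))))) (P.cons (P.cons (P.lf 0 1261314 0) (P.cons (P.lf 0 525354 0) (P.cons (P.lf 0 2190 0) (P.cons (P.lf 11256 0 0) P.nil)))) (P.cons (P.cons (P.lf 1843278 0 0) (P.cons (P.lf 0 86982 0) (P.cons (P.lf 0 42084 0) P.nil))) (P.cons (P.cons (P.lf 361878 0 0) (P.cons (P.lf 0 15708 0) P.nil)) (P.cons (P.cons (P.lf 8250 0 0) P.nil) P.nil)))))) 26712)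
 EL.nil))))))
noncomputable def S82_111_438_512_3 : EL := (EL.cons 0 (TM.mk (P.cons (P.lf 5314273808 0 0) (P.cons (P.lf 0 334885157 0) (P.cons (P.lf 0 43314278 0) (P.cons (P.lf 0 451103 0) (P.cons (P.lf 186969 0 0) (P.cons (P.lf 14783 0 0) P.nil)))))) 1615)
 (EL.cons 1 (TM.mk (P.cons (P.lf 1170850837 0 0) (P.cons (P.lf 233327645 0 0) (P.cons (P.lf 0 10098210 0) (P.cons (P.lf 0 2078180 0) (P.cons (P.lf 0 90420 0) (P.cons (P.lf 2872 0 0) P.nil)))))) 983)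
 (EL.cons 5 (TM.mk (P.cons (P.lf 257964066 0 0) (P.cons (P.lf 119070280 0 0) (P.cons (P.lf 15400634 0 0) (P.cons (P.lf 160396 0 0) (P.cons (P.lf 0 66480 0) (P.cons (P.lf 0 5256 0) P.nil)))))) 406)
 EL.nil)))
noncomputable def S82_111_438_512_4 : EL := (EL.cons 0 (TM.mk (P.cons (P.cons (P.lf 0 2516722205 0) (P.cons (P.lf 0 23607660 0) (P.cons (P.lf 0 375744 0) (P.lf 125245 0 0)))) (P.cons (P.cons (P.lf 625982675 0 0) (P.cons (P.lf 0 14857463 0) (P.cons (P.lf 0 236471 0) (P.lf 78823 0 0)))) (P.cons (P.cons (P.lf 42995380 0 0) (P.cons (P.lf 0 2777800 0) (P.cons (P.lf 0 44210 0) (P.lf 14735 0 0)))) (P.cons (P.cons (P.lf 0 8733100 0) (P.cons (P.lf 22480 0 0) (P.cons (P.lf 358 0 0) P.nil))) (P.cons (P.cons (P.lf 0 952152 0) (P.cons (P.lf 59821 0 0) P.nil)) (P.cons (P.cons (P.lf 27935 0 0) P.nil) P.nil)))))) 28729)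
 (EL.cons 1 (TM.mk (P.cons (P.cons (P.lf 0 554488987 0) (P.cons (P.lf 0 5201283 0) (P.cons (P.lf 0 82783 0) (P.lf 27594 0 0)))) (P.cons (P.cons (P.lf 0 7522882 0) (P.cons (P.lf 0 4637701 0) (P.cons (P.lf 0 73813 0) (P.lf 24603 0 0)))) (P.cons (P.cons (P.lf 36745950 0 0) (P.cons (P.lf 0 1554123 0) (P.cons (P.lf 0 24735 0) (P.lf 8244 0 0)))) (P.cons (P.cons (P.lf 1965543 0 0) (P.cons (P.lf 0 215718 0) (P.cons (P.lf 0 3431 0) P.nil))) (P.cons (P.cons (P.lf 0 434656 0) (P.cons (P.lf 0 813 0) P.nil)) (P.cons (P.cons (P.lf 0 54322 0) P.nil) P.nil)))))) 11315)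
 (EL.cons 5 (TM.mk (P.cons (P.cons (P.lf 0 122166060 0) (P.cons (P.lf 0 1145956 0) (P.cons (P.lf 0 18238 0) (P.lf 6078 0 0)))) (P.cons (P.cons (P.lf 0 33701196 0) (P.cons (P.lf 0 1322368 0) (P.cons (P.lf 0 21046 0) (P.lf 7014 0 0)))) (P.cons (P.cons (P.lf 5699840 0 0) (P.cons (P.lf 0 628816 0) (P.cons (P.lf 0 10008 0) (P.lf 3334 0 0)))) (P.cons (P.cons (P.lf 2351674 0 0) (P.cons (P.lf 0 155416 0) (P.cons (P.lf 0 2472 0) P.nil))) (P.cons (P.cons (P.lf 129172 0 0) (P.cons (P.lf 0 19786 0) P.nil)) (P.cons (P.cons (P.lf 0 20012 0) P.nil) P.nil)))))) 7250)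
 EL.nil)))
noncomputable def S82_111_438_512_5 : EL := (EL.cons 0 (TM.mk (P.cons (P.cons (P.lf 1191863816 0 0) (P.cons (P.lf 22360127 0 0) (P.cons (P.lf 460761 0 0) (P.cons (P.lf 0 115287 0) (P.cons (P.lf 0 1084 0) (P.cons (P.lf 0 15 0) P.nil)))))) (P.cons (P.cons (P.lf 0 517796335 0) (P.cons (P.lf 9919757 0 0) (P.cons (P.lf 296493 0 0) (P.cons (P.lf 0 48215 0) (P.cons (P.lf 0 1434 0) P.nil))))) (P.cons (P.cons (P.lf 10097685 0 0) (P.cons (P.lf 0 443835 0) (P.cons (P.lf 68741 0 0) (P.cons (P.lf 4767 0 0) P.nil)))) (P.cons (P.cons (P.lf 14917851 0 0) (P.cons (P.lf 0 783740 0) (P.cons (P.lf 8771 0 0) P.nil))) (P.cons (P.cons (P.lf 128782 0 0) (P.cons (P.lf 0 91970 0) P.nil)) (P.cons (P.cons (P.lf 0 246619 0) P.nil) P.nil)))))) 98568)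
 (EL.cons 1 (TM.mk (P.cons (P.cons (P.lf 262593684 0 0) (P.cons (P.lf 4926425 0 0) (P.cons (P.lf 101514 0 0) (P.cons (P.lf 0 25398 0) (P.cons (P.lf 0 238 0) (P.cons (P.lf 0 1 0) P.nil)))))) (P.cons (P.cons (P.lf 0 45204438 0) (P.cons (P.lf 3477723 0 0) (P.cons (P.lf 91950 0 0) (P.cons (P.lf 0 17283 0) (P.cons (P.lf 0 376 0) P.nil))))) (P.cons (P.cons (P.lf 0 23482651 0) (P.cons (P.lf 554565 0 0) (P.cons (P.lf 33907 0 0) (P.cons (P.lf 0 2143 0) P.nil)))) (P.cons (P.cons (P.lf 2421971 0 0) (P.cons (P.lf 0 156045 0) (P.cons (P.lf 7100 0 0) P.nil))) (P.cons (P.cons (P.lf 794525 0 0) (P.cons (P.lf 0 63281 0) P.nil)) (P.cons (P.cons (P.lf 0 2846 0) P.nil) P.nil)))))) 40512)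
 (EL.cons 5 (TM.mk (P.cons (P.cons (P.lf 57855136 0 0) (P.cons (P.lf 1085398 0 0) (P.cons (P.lf 22366 0 0) (P.cons (P.lf 0 5596 0) (P.cons (P.lf 0 52 0) (P.cons (P.lf 0 0 0) P.nil)))))) (P.cons (P.cons (P.lf 5215676 0 0) (P.cons (P.lf 1050914 0 0) (P.cons (P.lf 26124 0 0) (P.cons (P.lf 0 5274 0) (P.cons (P.lf 0 96 0) P.nil))))) (P.cons (P.cons (P.lf 0 6857238 0) (P.cons (P.lf 340584 0 0) (P.cons (P.lf 13142 0 0) (P.cons (P.lf 0 1560 0) P.nil)))) (P.cons (P.cons (P.lf 0 898898 0) (P.cons (P.lf 11552 0 0) (P.cons (P.lf 3880 0 0) P.nil))) (P.cons (P.cons (P.lf 225092 0 0) (P.cons (P.lf 0 19736 0) P.nil)) (P.cons (P.cons (P.lf 45678 0 0) P.nil) P.nil)))))) 15064)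
 EL.nil)))
noncomputable def S82_111_438_512_6 : EL := (EL.cons 12 (TM.mk (P.lf 8589934592 0 0) 0)
 (EL.cons 3 (TM.mk (P.cons (P.lf 0 3378211968 0) (P.cons (P.lf 106440982 0 0) (P.cons (P.lf 15444026 0 0) (P.cons (P.lf 629992 0 0) (P.cons (P.lf 0 4275 0) (P.cons (P.lf 0 1953 0) P.nil)))))) 352)
 (EL.cons 7 (TM.mk (P.cons (P.lf 0 744294039 0) (P.cons (P.lf 0 171774507 0) (P.cons (P.lf 0 2395646 0) (P.cons (P.lf 321494 0 0) (P.cons (P.lf 25565 0 0) (P.cons (P.lf 650 0 0) P.nil)))))) 203)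
 EL.nil)))
noncomputable def S82_111_438_512_7 : EL := (EL.cons 12 (TM.mk (P.cons (P.cons (P.lf 0 4068002500 0) (P.cons (P.lf 0 38159168 0) (P.cons (P.lf 0 607352 0) (P.lf 202448 0 0)))) (P.cons (P.cons (P.lf 755481698 0 0) (P.cons (P.lf 0 26420088 0) (P.cons (P.lf 0 420504 0) (P.lf 140168 0 0)))) (P.cons (P.cons (P.lf 83948352 0 0) (P.cons (P.lf 0 6465920 0) (P.cons (P.lf 0 102912 0) (P.lf 34304 0 0)))) (P.cons (P.cons (P.lf 0 3013706 0) (P.cons (P.lf 0 589696 0) (P.cons (P.lf 0 9384 0) P.nil))) (P.cons (P.cons (P.lf 0 837486 0) (P.cons (P.lf 5936 0 0) P.nil)) (P.cons (P.cons (P.lf 0 40320 0) P.nil) P.nil)))))) 15826)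
 (EL.cons 3 (TM.mk (P.cons (P.cons (P.lf 2887226473 0 0) (P.cons (P.lf 0 30014140 0) (P.cons (P.lf 0 477712 0) (P.lf 159234 0 0)))) (P.cons (P.cons (P.lf 159225008 0 0) (P.cons (P.lf 0 19835064 0) (P.cons (P.lf 0 315694 0) (P.lf 105230 0 0)))) (P.cons (P.cons (P.lf 0 7368163 0) (P.cons (P.lf 0 4293800 0) (P.cons (P.lf 0 68340 0) (P.lf 22778 0 0)))) (P.cons (P.cons (P.lf 0 7292564 0) (P.cons (P.lf 0 202980 0) (P.cons (P.lf 0 3228 0) P.nil))) (P.cons (P.cons (P.lf 0 701612 0) (P.cons (P.lf 46370 0 0) P.nil)) (P.cons (P.cons (P.lf 10117 0 0) P.nil) P.nil)))))) 50824)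
 (EL.cons 7 (TM.mk (P.cons (P.cons (P.lf 0 1725093576 0) (P.cons (P.lf 75961649 0 0) (P.cons (P.lf 1209029 0 0) (P.lf 0 403011 0)))) (P.cons (P.cons (P.lf 0 256957396 0) (P.cons (P.lf 32009848 0 0) (P.cons (P.lf 509479 0 0) (P.lf 0 169826 0)))) (P.cons (P.cons (P.lf 45590258 0 0) (P.cons (P.lf 2731304 0 0) (P.cons (P.lf 43472 0 0) (P.lf 0 14492 0)))) (P.cons (P.cons (P.lf 5171758 0 0) (P.cons (P.lf 0 321328 0) (P.cons (P.lf 0 5114 0) P.nil))) (P.cons (P.cons (P.lf 0 157334 0) (P.cons (P.lf 0 45235 0) P.nil)) (P.cons (P.cons (P.lf 0 52926 0) P.nil) P.nil)))))) 23611)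
 (EL.cons 10 (TM.mk (P.cons (P.cons (P.lf 0 379889280 0) (P.cons (P.lf 0 14081976 0) (P.cons (P.lf 6977670 0 0) (P.cons (P.lf 63318 0 0) (P.lf 0 15828 0))))) (P.cons (P.cons (P.lf 0 175348152 0) (P.cons (P.lf 0 6499917 0) (P.cons (P.lf 3220731 0 0) (P.cons (P.lf 29226 0 0) (P.lf 0 7305 0))))) (P.cons (P.cons (P.lf 0 22679652 0) (P.cons (P.lf 0 840702 0) (P.cons (P.lf 416571 0 0) (P.cons (P.lf 3780 0 0) P.nil)))) (P.cons (P.cons (P.lf 0 236205 0) (P.cons (P.lf 0 8754 0) (P.cons (P.lf 4338 0 0) P.nil))) (P.cons (P.cons (P.lf 97899 0 0) (P.cons (P.lf 3627 0 0) P.nil)) (P.cons (P.cons (P.lf 7740 0 0) P.nil) P.nil)))))) 3972)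
 EL.nil))))
noncomputable def S82_111_438_512_8 : EL := (EL.cons 12 (TM.mk (P.cons (P.cons (P.lf 1926515756 0 0) (P.cons (P.lf 36142670 0 0) (P.cons (P.lf 744770 0 0) (P.cons (P.lf 0 186352 0) (P.cons (P.lf 0 1754 0) (P.cons (P.lf 0 28 0) P.nil)))))) (P.cons (P.cons (P.lf 0 715558750 0) (P.cons (P.lf 18311764 0 0) (P.cons (P.lf 526182 0 0) (P.cons (P.lf 0 89678 0) (P.cons (P.lf 0 2430 0) P.nil))))) (P.cons (P.cons (P.lf 0 13067806 0) (P.cons (P.lf 731108 0 0) (P.cons (P.lf 150342 0 0) (P.cons (P.lf 536 0 0) P.nil)))) (P.cons (P.cons (P.lf 17620904 0 0) (P.cons (P.lf 0 1068440 0) (P.cons (P.lf 28006 0 0) P.nil))) (P.cons (P.cons (P.lf 1083536 0 0) (P.cons (P.lf 0 209750 0) P.nil)) (P.cons (P.cons (P.lf 0 168028 0) P.nil) P.nil)))))) 96894)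
 (EL.cons 3 (TM.mk (P.cons (P.cons (P.lf 0 1977001134 0) (P.cons (P.lf 16990170 0 0) (P.cons (P.lf 603747 0 0) (P.cons (P.lf 0 79527 0) (P.cons (P.lf 0 3451 0) (P.cons (P.lf 0 56 0) P.nil)))))) (P.cons (P.cons (P.lf 51766249 0 0) (P.cons (P.lf 1085983 0 0) (P.cons (P.lf 468349 0 0) (P.cons (P.lf 8604 0 0) (P.cons (P.lf 0 4671 0) P.nil))))) (P.cons (P.cons (P.lf 91683137 0 0) (P.cons (P.lf 0 5273694 0) (P.cons (P.lf 172744 0 0) (P.cons (P.lf 36150 0 0) P.nil)))) (P.cons (P.cons (P.lf 14934417 0 0) (P.cons (P.lf 0 1920483 0) (P.cons (P.lf 47177 0 0) P.nil))) (P.cons (P.cons (P.lf 0 1152230 0) (P.cons (P.lf 0 171351 0) P.nil)) (P.cons (P.cons (P.lf 0 438667 0) P.nil) P.nil)))))) 260770)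
 (EL.cons 7 (TM.mk (P.cons (P.cons (P.lf 1800859363 0 0) (P.cons (P.lf 0 53489032 0) (P.cons (P.lf 0 1511546 0) (P.cons (P.lf 262764 0 0) (P.cons (P.lf 6835 0 0) (P.cons (P.lf 110 0 0) P.nil)))))) (P.cons (P.cons (P.lf 0 83540380 0) (P.cons (P.lf 0 1752573 0) (P.cons (P.lf 0 755831 0) (P.cons (P.lf 0 13872 0) (P.cons (P.lf 7535 0 0) P.nil))))) (P.cons (P.cons (P.lf 0 137002103 0) (P.cons (P.lf 8740538 0 0) (P.cons (P.lf 0 179648 0) (P.cons (P.lf 0 56516 0) P.nil)))) (P.cons (P.cons (P.lf 302693 0 0) (P.cons (P.lf 1580233 0 0) (P.cons (P.lf 0 40681 0) P.nil))) (P.cons (P.cons (P.lf 2930160 0 0) (P.cons (P.lf 0 103847 0) P.nil)) (P.cons (P.cons (P.lf 172345 0 0) P.nil) P.nil)))))) 184922)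
 (EL.cons 10 (TM.mk (P.cons (P.cons (P.lf 359814270 0 0) (P.cons (P.lf 16712994 0 0) (P.cons (P.lf 0 6430104 0) (P.cons (P.lf 0 137880 0) (P.cons (P.lf 12774 0 0) (P.cons (P.lf 456 0 0) P.nil)))))) (P.cons (P.cons (P.lf 99259734 0 0) (P.cons (P.lf 7574178 0 0) (P.cons (P.lf 0 1616802 0) (P.cons (P.lf 0 106446 0) (P.cons (P.lf 1578 0 0) P.nil))))) (P.cons (P.cons (P.lf 0 16787670 0) (P.cons (P.lf 1229748 0 0) (P.cons (P.lf 406476 0 0) (P.cons (P.lf 0 39948 0) P.nil)))) (P.cons (P.cons (P.lf 0 6926358 0) (P.cons (P.lf 200994 0 0) (P.cons (P.lf 151470 0 0) P.nil))) (P.cons (P.cons (P.lf 0 380448 0) (P.cons (P.lf 44172 0 0) P.nil)) (P.cons (P.cons (P.lf 58944 0 0) P.nil) P.nil)))))) 59790)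
 EL.nil))))
noncomputable def S82_111_438_512_9 : EL := (EL.cons 3 (TM.mk (P.cons (P.lf 0 3378211968 0) (P.cons (P.lf 106440982 0 0) (P.cons (P.lf 15444026 0 0) (P.cons (P.lf 629992 0 0) (P.cons (P.lf 0 4275 0) (P.cons (P.lf 0 1953 0) P.nil)))))) 352)
 (EL.cons 7 (TM.mk (P.cons (P.lf 0 744294039 0) (P.cons (P.lf 0 171774507 0) (P.cons (P.lf 0 2395646 0) (P.cons (P.lf 321494 0 0) (P.cons (P.lf 25565 0 0) (P.cons (P.lf 650 0 0) P.nil)))))) 203)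
 EL.nil))
noncomputable def S82_111_438_512_10 : EL := (EL.cons 3 (TM.mk (P.cons (P.cons (P.lf 1599846259 0 0) (P.cons (P.lf 15007070 0 0) (P.cons (P.lf 238856 0 0) (P.lf 0 79617 0)))) (P.cons (P.cons (P.lf 0 347520631 0) (P.cons (P.lf 9917532 0 0) (P.cons (P.lf 157847 0 0) (P.lf 0 52615 0)))) (P.cons (P.cons (P.lf 0 30967342 0) (P.cons (P.lf 2146900 0 0) (P.cons (P.lf 34170 0 0) (P.lf 0 11389 0)))) (P.cons (P.cons (P.lf 3285397 0 0) (P.cons (P.lf 101490 0 0) (P.cons (P.lf 1614 0 0) P.nil))) (P.cons (P.cons (P.lf 500383 0 0) (P.cons (P.lf 0 23185 0) P.nil)) (P.cons (P.cons (P.lf 6766 0 0) P.nil) P.nil)))))) 12105)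
 (EL.cons 7 (TM.mk (P.cons (P.cons (P.lf 352481148 0 0) (P.cons (P.lf 3306386 0 0) (P.cons (P.lf 52625 0 0) (P.lf 0 17541 0)))) (P.cons (P.cons (P.lf 15888200 0 0) (P.cons (P.lf 3052303 0 0) (P.cons (P.lf 48580 0 0) (P.lf 0 16193 0)))) (P.cons (P.cons (P.lf 0 21246874 0) (P.cons (P.lf 1099223 0 0) (P.cons (P.lf 17495 0 0) (P.lf 0 5831 0)))) (P.cons (P.cons (P.lf 0 1780550 0) (P.cons (P.lf 186335 0 0) (P.cons (P.lf 2965 0 0) P.nil))) (P.cons (P.cons (P.lf 125587 0 0) (P.cons (P.lf 11978 0 0) P.nil)) (P.cons (P.cons (P.lf 26163 0 0) P.nil) P.nil)))))) 4998)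
 EL.nil))
noncomputable def S82_111_438_512_11 : EL := (EL.cons 3 (TM.mk (P.cons (P.cons (P.lf 0 757651704 0) (P.cons (P.lf 0 14214030 0) (P.cons (P.lf 0 292899 0) (P.cons (P.lf 73287 0 0) (P.cons (P.lf 689 0 0) (P.cons (P.lf 10 0 0) P.nil)))))) (P.cons (P.cons (P.lf 305283973 0 0) (P.cons (P.lf 0 6753713 0) (P.cons (P.lf 0 197705 0) (P.cons (P.lf 32958 0 0) (P.cons (P.lf 933 0 0) P.nil))))) (P.cons (P.cons (P.lf 0 263773 0) (P.cons (P.lf 4362 0 0) (P.cons (P.lf 0 51266 0) (P.cons (P.lf 0 1656 0) P.nil)))) (P.cons (P.cons (P.lf 0 8237025 0) (P.cons (P.lf 464823 0 0) (P.cons (P.lf 0 8149 0) P.nil))) (P.cons (P.cons (P.lf 0 284714 0) (P.cons (P.lf 71889 0 0) P.nil)) (P.cons (P.cons (P.lf 110147 0 0) P.nil) P.nil)))))) 51558)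
 (EL.cons 7 (TM.mk (P.cons (P.cons (P.lf 0 166927253 0) (P.cons (P.lf 0 3131662 0) (P.cons (P.lf 0 64532 0) (P.cons (P.lf 16146 0 0) (P.cons (P.lf 151 0 0) (P.cons (P.lf 2 0 0) P.nil)))))) (P.cons (P.cons (P.lf 23476292 0 0) (P.cons (P.lf 0 2309415 0) (P.cons (P.lf 0 60485 0) (P.cons (P.lf 11496 0 0) (P.cons (P.lf 245 0 0) P.nil))))) (P.cons (P.cons (P.lf 14904163 0 0) (P.cons (P.lf 0 439612 0) (P.cons (P.lf 0 23756 0) (P.cons (P.lf 1798 0 0) P.nil)))) (P.cons (P.cons (P.lf 0 993817 0) (P.cons (P.lf 74203 0 0) (P.cons (P.lf 0 5551 0) P.nil))) (P.cons (P.cons (P.lf 0 463656 0) (P.cons (P.lf 40129 0 0) P.nil)) (P.cons (P.cons (P.lf 0 14495 0) P.nil) P.nil)))))) 20446)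
 EL.nil))
noncomputable def S82_111_438_512_12 : EL := (EL.cons 4 (TM.mk (P.cons (P.lf 3378211968 0 0) (P.cons (P.lf 0 106440982 0) (P.cons (P.lf 0 15444026 0) (P.cons (P.lf 0 629992 0) (P.cons (P.lf 4275 0 0) (P.cons (P.lf 1953 0 0) P.nil)))))) 352)
 (EL.cons 8 (TM.mk (P.cons (P.lf 744294039 0 0) (P.cons (P.lf 171774507 0 0) (P.cons (P.lf 2395646 0 0) (P.cons (P.lf 0 321494 0) (P.cons (P.lf 0 25565 0) (P.cons (P.lf 0 650 0) P.nil)))))) 203)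
 EL.nil))
noncomputable def S82_111_438_512_13 : EL := (EL.cons 4 (TM.mk (P.cons (P.cons (P.lf 0 1599846259 0) (P.cons (P.lf 0 15007070 0) (P.cons (P.lf 0 238856 0) (P.lf 79617 0 0)))) (P.cons (P.cons (P.lf 347520631 0 0) (P.cons (P.lf 0 9917532 0) (P.cons (P.lf 0 157847 0) (P.lf 52615 0 0)))) (P.cons (P.cons (P.lf 30967342 0 0) (P.cons (P.lf 0 2146900 0) (P.cons (P.lf 0 34170 0) (P.lf 11389 0 0)))) (P.cons (P.cons (P.lf 0 3285397 0) (P.cons (P.lf 0 101490 0) (P.cons (P.lf 0 1614 0) P.nil))) (P.cons (P.cons (P.lf 0 500383 0) (P.cons (P.lf 23185 0 0) P.nil)) (P.cons (P.cons (P.lf 0 6766 0) P.nil) P.nil)))))) 12105)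
 (EL.cons 8 (TM.mk (P.cons (P.cons (P.lf 0 352481148 0) (P.cons (P.lf 0 3306386 0) (P.cons (P.lf 0 52625 0) (P.lf 17541 0 0)))) (P.cons (P.cons (P.lf 0 15888200 0) (P.cons (P.lf 0 3052303 0) (P.cons (P.lf 0 48580 0) (P.lf 16193 0 0)))) (P.cons (P.cons (P.lf 21246874 0 0) (P.cons (P.lf 0 1099223 0) (P.cons (P.lf 0 17495 0) (P.lf 5831 0 0)))) (P.cons (P.cons (P.lf 1780550 0 0) (P.cons (P.lf 0 186335 0) (P.cons (P.lf 0 2965 0) P.nil))) (P.cons (P.cons (P.lf 0 125587 0) (P.cons (P.lf 0 11978 0) P.nil)) (P.cons (P.cons (P.lf 0 26163 0) P.nil) P.nil)))))) 4998)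
 EL.nil))
noncomputable def S82_111_438_512_14 : EL := (EL.cons 4 (TM.mk (P.cons (P.cons (P.lf 757651704 0 0) (P.cons (P.lf 14214030 0 0) (P.cons (P.lf 292899 0 0) (P.cons (P.lf 0 73287 0) (P.cons (P.lf 0 689 0) (P.cons (P.lf 0 10 0) P.nil)))))) (P.cons (P.cons (P.lf 0 305283973 0) (P.cons (P.lf 6753713 0 0) (P.cons (P.lf 197705 0 0) (P.cons (P.lf 0 32958 0) (P.cons (P.lf 0 933 0) P.nil))))) (P.cons (P.cons (P.lf 263773 0 0) (P.cons (P.lf 0 4362 0) (P.cons (P.lf 51266 0 0) (P.cons (P.lf 1656 0 0) P.nil)))) (P.cons (P.cons (P.lf 8237025 0 0) (P.cons (P.lf 0 464823 0) (P.cons (P.lf 8149 0 0) P.nil))) (P.cons (P.cons (P.lf 284714 0 0) (P.cons (P.lf 0 71889 0) P.nil)) (P.cons (P.cons (P.lf 0 110147 0) P.nil) P.nil)))))) 51558)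
 (EL.cons 8 (TM.mk (P.cons (P.cons (P.lf 166927253 0 0) (P.cons (P.lf 3131662 0 0) (P.cons (P.lf 64532 0 0) (P.cons (P.lf 0 16146 0) (P.cons (P.lf 0 151 0) (P.cons (P.lf 0 2 0) P.nil)))))) (P.cons (P.cons (P.lf 0 23476292 0) (P.cons (P.lf 2309415 0 0) (P.cons (P.lf 60485 0 0) (P.cons (P.lf 0 11496 0) (P.cons (P.lf 0 245 0) P.nil))))) (P.cons (P.cons (P.lf 0 14904163 0) (P.cons (P.lf 439612 0 0) (P.cons (P.lf 23756 0 0) (P.cons (P.lf 0 1798 0) P.nil)))) (P.cons (P.cons (P.lf 993817 0 0) (P.cons (P.lf 0 74203 0) (P.cons (P.lf 5551 0 0) P.nil))) (P.cons (P.cons (P.lf 463656 0 0) (P.cons (P.lf 0 40129 0) P.nil)) (P.cons (P.cons (P.lf 14495 0 0) P.nil) P.nil)))))) 20446)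
 EL.nil))
noncomputable def S82_111_438_512_15 : EL := (EL.cons 4 (TM.mk (P.cons (P.lf 0 2834279364 0) (P.cons (P.lf 178605417 0 0) (P.cons (P.lf 23100948 0 0) (P.cons (P.lf 240588 0 0) (P.cons (P.lf 0 99717 0) (P.cons (P.lf 0 7884 0) P.nil)))))) 864)
 (EL.cons 8 (TM.mk (P.cons (P.lf 0 624453780 0) (P.cons (P.lf 0 124441411 0) (P.cons (P.lf 5385712 0 0) (P.cons (P.lf 1108363 0 0) (P.cons (P.lf 48224 0 0) (P.cons (P.lf 0 1532 0) P.nil)))))) 521)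
 EL.nil))
noncomputable def S82_111_438_512_16 : EL := (EL.cons 4 (TM.mk (P.cons (P.cons (P.lf 1342251842 0 0) (P.cons (P.lf 12590752 0 0) (P.cons (P.lf 200397 0 0) (P.lf 0 66797 0)))) (P.cons (P.cons (P.lf 0 333857427 0) (P.cons (P.lf 7923980 0 0) (P.cons (P.lf 126118 0 0) (P.lf 0 42039 0)))) (P.cons (P.cons (P.lf 0 22930869 0) (P.cons (P.lf 1481493 0 0) (P.cons (P.lf 23579 0 0) (P.lf 0 7859 0)))) (P.cons (P.cons (P.lf 4657653 0 0) (P.cons (P.lf 0 11989 0) (P.cons (P.lf 0 191 0) P.nil))) (P.cons (P.cons (P.lf 507814 0 0) (P.cons (P.lf 0 31905 0) P.nil)) (P.cons (P.cons (P.lf 0 14898 0) P.nil) P.nil)))))) 15331)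
 (EL.cons 8 (TM.mk (P.cons (P.cons (P.lf 295727460 0 0) (P.cons (P.lf 2774018 0 0) (P.cons (P.lf 44151 0 0) (P.lf 0 14717 0)))) (P.cons (P.cons (P.lf 4012204 0 0) (P.cons (P.lf 2473441 0 0) (P.cons (P.lf 39367 0 0) (P.lf 0 13122 0)))) (P.cons (P.cons (P.lf 0 19597840 0) (P.cons (P.lf 828866 0 0) (P.cons (P.lf 13192 0 0) (P.lf 0 4397 0)))) (P.cons (P.cons (P.lf 0 1048290 0) (P.cons (P.lf 115050 0 0) (P.cons (P.lf 1830 0 0) P.nil))) (P.cons (P.cons (P.lf 231817 0 0) (P.cons (P.lf 434 0 0) P.nil)) (P.cons (P.cons (P.lf 28972 0 0) P.nil) P.nil)))))) 6025)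
 EL.nil))
noncomputable def S82_111_438_512_17 : EL := (EL.cons 4 (TM.mk (P.cons (P.cons (P.lf 0 635660701 0) (P.cons (P.lf 0 11925401 0) (P.cons (P.lf 0 245739 0) (P.cons (P.lf 61486 0 0) (P.cons (P.lf 578 0 0) (P.cons (P.lf 8 0 0) P.nil)))))) (P.cons (P.cons (P.lf 276158045 0 0) (P.cons (P.lf 0 5290537 0) (P.cons (P.lf 0 158130 0) (P.cons (P.lf 25714 0 0) (P.cons (P.lf 765 0 0) P.nil))))) (P.cons (P.cons (P.lf 0 5385432 0) (P.cons (P.lf 236712 0 0) (P.cons (P.lf 0 36661 0) (P.cons (P.lf 0 2542 0) P.nil)))) (P.cons (P.cons (P.lf 0 7956187 0) (P.cons (P.lf 417994 0 0) (P.cons (P.lf 0 4678 0) P.nil))) (P.cons (P.cons (P.lf 0 68684 0) (P.cons (P.lf 49050 0 0) P.nil)) (P.cons (P.cons (P.lf 131530 0 0) P.nil) P.nil)))))) 52580)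
 (EL.cons 8 (TM.mk (P.cons (P.cons (P.lf 0 140049965 0) (P.cons (P.lf 0 2627427 0) (P.cons (P.lf 0 54141 0) (P.cons (P.lf 13546 0 0) (P.cons (P.lf 127 0 0) (P.cons (P.lf 1 0 0) P.nil)))))) (P.cons (P.cons (P.lf 24109034 0 0) (P.cons (P.lf 0 1854786 0) (P.cons (P.lf 0 49040 0) (P.cons (P.lf 9218 0 0) (P.cons (P.lf 201 0 0) P.nil))))) (P.cons (P.cons (P.lf 12524081 0 0) (P.cons (P.lf 0 295768 0) (P.cons (P.lf 0 18084 0) (P.cons (P.lf 1143 0 0) P.nil)))) (P.cons (P.cons (P.lf 0 1291718 0) (P.cons (P.lf 83224 0 0) (P.cons (P.lf 0 3787 0) P.nil))) (P.cons (P.cons (P.lf 0 423747 0) (P.cons (P.lf 33750 0 0) P.nil)) (P.cons (P.cons (P.lf 1518 0 0) P.nil) P.nil)))))) 21595)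
 EL.nil))
noncomputable def S82_111_438_512_18 : EL := (EL.cons 4 (TM.mk (P.cons (P.lf 2377926426 0 0) (P.cons (P.lf 0 224771707 0) (P.cons (P.lf 0 25531065 0) (P.cons (P.lf 650420 0 0) (P.cons (P.lf 209580 0 0) (P.cons (P.lf 9701 0 0) P.nil)))))) 1817)
 (EL.cons 8 (TM.mk (P.cons (P.lf 523909239 0 0) (P.cons (P.lf 87897477 0 0) (P.cons (P.lf 0 10203278 0) (P.cons (P.lf 0 1362537 0) (P.cons (P.lf 0 9310 0) (P.cons (P.lf 8089 0 0) P.nil)))))) 965)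
 EL.nil))
noncomputable def S82_111_438_512_19 : EL := (EL.cons 4 (TM.mk (P.cons (P.cons (P.lf 0 1126133213 0) (P.cons (P.lf 0 10563490 0) (P.cons (P.lf 0 168131 0) (P.lf 56042 0 0)))) (P.cons (P.cons (P.lf 315584680 0 0) (P.cons (P.lf 0 6315288 0) (P.cons (P.lf 0 100514 0) (P.lf 33504 0 0)))) (P.cons (P.cons (P.lf 15561530 0 0) (P.cons (P.lf 0 985193 0) (P.cons (P.lf 0 15679 0) (P.lf 5226 0 0)))) (P.cons (P.cons (P.lf 0 5584413 0) (P.cons (P.lf 81585 0 0) (P.cons (P.lf 1298 0 0) P.nil))) (P.cons (P.cons (P.lf 0 444539 0) (P.cons (P.lf 33360 0 0) P.nil)) (P.cons (P.cons (P.lf 39904 0 0) P.nil) P.nil)))))) 18446)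
 (EL.cons 8 (TM.mk (P.cons (P.cons (P.lf 0 248111795 0) (P.cons (P.lf 0 2327368 0) (P.cons (P.lf 0 37042 0) (P.lf 12347 0 0)))) (P.cons (P.cons (P.lf 4451335 0 0) (P.cons (P.lf 0 2001857 0) (P.cons (P.lf 0 31861 0) (P.lf 10620 0 0)))) (P.cons (P.cons (P.lf 17682697 0 0) (P.cons (P.lf 0 619383 0) (P.cons (P.lf 0 9858 0) (P.lf 3285 0 0)))) (P.cons (P.cons (P.lf 423094 0 0) (P.cons (P.lf 0 64694 0) (P.cons (P.lf 0 1029 0) P.nil))) (P.cons (P.cons (P.lf 0 297058 0) (P.cons (P.lf 6240 0 0) P.nil)) (P.cons (P.cons (P.lf 0 25414 0) P.nil) P.nil)))))) 7181)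
 EL.nil))
noncomputable def S82_111_438_512_20 : EL := (EL.cons 4 (TM.mk (P.cons (P.cons (P.lf 533311711 0 0) (P.cons (P.lf 10005269 0 0) (P.cons (P.lf 206172 0 0) (P.cons (P.lf 0 51586 0) (P.cons (P.lf 0 484 0) (P.cons (P.lf 0 7 0) P.nil)))))) (P.cons (P.cons (P.lf 0 248496920 0) (P.cons (P.lf 4123451 0 0) (P.cons (P.lf 126172 0 0) (P.cons (P.lf 0 19948 0) (P.cons (P.lf 0 626 0) P.nil))))) (P.cons (P.cons (P.lf 9380406 0 0) (P.cons (P.lf 0 384194 0) (P.cons (P.lf 25635 0 0) (P.cons (P.lf 3048 0 0) P.nil)))) (P.cons (P.cons (P.lf 7492548 0 0) (P.cons (P.lf 0 366593 0) (P.cons (P.lf 2310 0 0) P.nil))) (P.cons (P.cons (P.lf 0 129468 0) (P.cons (P.lf 0 30011 0) P.nil)) (P.cons (P.cons (P.lf 0 143512 0) P.nil) P.nil)))))) 53182)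
 (EL.cons 8 (TM.mk (P.cons (P.cons (P.lf 117500243 0 0) (P.cons (P.lf 2204379 0 0) (P.cons (P.lf 45424 0 0) (P.cons (P.lf 0 11365 0) (P.cons (P.lf 0 106 0) (P.cons (P.lf 0 1 0) P.nil)))))) (P.cons (P.cons (P.lf 0 23929398 0) (P.cons (P.lf 1486687 0 0) (P.cons (P.lf 39713 0 0) (P.cons (P.lf 0 7376 0) (P.cons (P.lf 0 166 0) P.nil))))) (P.cons (P.cons (P.lf 0 10407405 0) (P.cons (P.lf 189037 0 0) (P.cons (P.lf 13668 0 0) (P.cons (P.lf 0 663 0) P.nil)))) (P.cons (P.cons (P.lf 1485368 0 0) (P.cons (P.lf 0 85168 0) (P.cons (P.lf 2503 0 0) P.nil))) (P.cons (P.cons (P.lf 373330 0 0) (P.cons (P.lf 0 27537 0) P.nil)) (P.cons (P.cons (P.lf 0 15428 0) P.nil) P.nil)))))) 21454)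
 EL.nil))
noncomputable def S82_111_438_512_21 : EL := (EL.cons 4 (TM.mk (P.cons (P.cons (P.lf 0 1287380214 0) (P.cons (P.lf 45021210 0 0) (P.cons (P.lf 716568 0 0) (P.lf 0 238851 0)))) (P.cons (P.cons (P.lf 0 506745639 0) (P.cons (P.lf 29752596 0 0) (P.cons (P.lf 473541 0 0) (P.lf 0 157845 0)))) (P.cons (P.cons (P.lf 0 23599179 0) (P.cons (P.lf 6440700 0 0) (P.cons (P.lf 102510 0 0) (P.lf 0 34167 0)))) (P.cons (P.cons (P.lf 10577961 0 0) (P.cons (P.lf 304470 0 0) (P.cons (P.lf 4842 0 0) P.nil))) (P.cons (P.cons (P.lf 1201995 0 0) (P.cons (P.lf 0 69555 0) P.nil)) (P.cons (P.cons (P.lf 0 3351 0) P.nil) P.nil)))))) 38700)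
 (EL.cons 8 (TM.mk (P.cons (P.cons (P.lf 2077574724 0 0) (P.cons (P.lf 0 72655263 0) (P.cons (P.lf 0 1156404 0) (P.lf 385470 0 0)))) (P.cons (P.cons (P.lf 272845596 0 0) (P.cons (P.lf 0 28957545 0) (P.cons (P.lf 0 460899 0) (P.lf 153633 0 0)))) (P.cons (P.cons (P.lf 0 66837132 0) (P.cons (P.lf 0 1632081 0) (P.cons (P.lf 0 25977 0) (P.lf 8661 0 0)))) (P.cons (P.cons (P.lf 0 6952308 0) (P.cons (P.lf 507663 0 0) (P.cons (P.lf 8079 0 0) P.nil))) (P.cons (P.cons (P.lf 282921 0 0) (P.cons (P.lf 57213 0 0) P.nil)) (P.cons (P.cons (P.lf 79089 0 0) P.nil) P.nil)))))) 18594)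
 (EL.cons 11 (TM.mk (P.cons (P.cons (P.lf 379889280 0 0) (P.cons (P.lf 14081976 0 0) (P.cons (P.lf 0 6977670 0) (P.cons (P.lf 0 63318 0) (P.lf 15828 0 0))))) (P.cons (P.cons (P.lf 175348152 0 0) (P.cons (P.lf 6499917 0 0) (P.cons (P.lf 0 3220731 0) (P.cons (P.lf 0 29226 0) (P.lf 7305 0 0))))) (P.cons (P.cons (P.lf 22679652 0 0) (P.cons (P.lf 840702 0 0) (P.cons (P.lf 0 416571 0) (P.cons (P.lf 0 3780 0) P.nil)))) (P.cons (P.cons (P.lf 236205 0 0) (P.cons (P.lf 8754 0 0) (P.cons (P.lf 0 4338 0) P.nil))) (P.cons (P.cons (P.lf 0 97899 0) (P.cons (P.lf 0 3627 0) P.nil)) (P.cons (P.cons (P.lf 0 7740 0) P.nil) P.nil)))))) 3972)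
 EL.nil)))
noncomputable def S82_111_438_512_22 : EL := (EL.cons 4 (TM.mk (P.cons (P.cons (P.lf 609674715 0 0) (P.cons (P.lf 0 15602100 0) (P.cons (P.lf 0 448323 0) (P.cons (P.lf 76407 0 0) (P.cons (P.lf 2070 0 0) (P.cons (P.lf 33 0 0) P.nil)))))) (P.cons (P.cons (P.lf 126758862 0 0) (P.cons (P.lf 0 3919848 0) (P.cons (P.lf 0 333027 0) (P.cons (P.lf 12177 0 0) (P.cons (P.lf 2802 0 0) P.nil))))) (P.cons (P.cons (P.lf 0 45973455 0) (P.cons (P.lf 2639028 0 0) (P.cons (P.lf 0 112005 0) (P.cons (P.lf 0 18903 0) P.nil)))) (P.cons (P.cons (P.lf 0 11585721 0) (P.cons (P.lf 1192653 0 0) (P.cons (P.lf 0 27663 0) P.nil))) (P.cons (P.cons (P.lf 433758 0 0) (P.cons (P.lf 121620 0 0) P.nil)) (P.cons (P.cons (P.lf 274407 0 0) P.nil) P.nil)))))) 104595)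
 (EL.cons 8 (TM.mk (P.cons (P.cons (P.lf 0 983893308 0) (P.cons (P.lf 25178685 0 0) (P.cons (P.lf 723507 0 0) (P.cons (P.lf 0 123309 0) (P.cons (P.lf 0 3342 0) (P.cons (P.lf 0 54 0) P.nil)))))) (P.cons (P.cons (P.lf 53508336 0 0) (P.cons (P.lf 0 278421 0) (P.cons (P.lf 347673 0 0) (P.cons (P.lf 12684 0 0) (P.cons (P.lf 0 3645 0) P.nil))))) (P.cons (P.cons (P.lf 75953133 0 0) (P.cons (P.lf 0 4590075 0) (P.cons (P.lf 77946 0 0) (P.cons (P.lf 29157 0 0) P.nil)))) (P.cons (P.cons (P.lf 0 648255 0) (P.cons (P.lf 0 753015 0) (P.cons (P.lf 17565 0 0) P.nil))) (P.cons (P.cons (P.lf 0 1696908 0) (P.cons (P.lf 71988 0 0) P.nil)) (P.cons (P.cons (P.lf 0 93420 0) P.nil) P.nil)))))) 82227)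
 (EL.cons 11 (TM.mk (P.cons (P.cons (P.lf 0 179907135 0) (P.cons (P.lf 0 8356497 0) (P.cons (P.lf 3215052 0 0) (P.cons (P.lf 68940 0 0) (P.cons (P.lf 0 6387 0) (P.cons (P.lf 0 228 0) P.nil)))))) (P.cons (P.cons (P.lf 0 49629867 0) (P.cons (P.lf 0 3787089 0) (P.cons (P.lf 808401 0 0) (P.cons (P.lf 53223 0 0) (P.cons (P.lf 0 789 0) P.nil))))) (P.cons (P.cons (P.lf 8393835 0 0) (P.cons (P.lf 0 614874 0) (P.cons (P.lf 0 203238 0) (P.cons (P.lf 19974 0 0) P.nil)))) (P.cons (P.cons (P.lf 3463179 0 0) (P.cons (P.lf 0 100497 0) (P.cons (P.lf 0 75735 0) P.nil))) (P.cons (P.cons (P.lf 190224 0 0) (P.cons (P.lf 0 22086 0) P.nil)) (P.cons (P.cons (P.lf 0 29472 0) P.nil) P.nil)))))) 29895)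
 EL.nil)))
noncomputable def S82_111_438_512_23 : EL := (EL.cons 4 (TM.mk (P.cons (P.cons (P.lf 1080096573 0 0) (P.cons (P.lf 0 37772253 0) (P.cons (P.lf 0 601191 0) (P.lf 200391 0 0)))) (P.cons (P.cons (P.lf 391121745 0 0) (P.cons (P.lf 0 23771940 0) (P.cons (P.lf 0 378351 0) (P.lf 126114 0 0)))) (P.cons (P.cons (P.lf 1465824 0 0) (P.cons (P.lf 0 4444479 0) (P.cons (P.lf 0 70737 0) (P.lf 23574 0 0)))) (P.cons (P.cons (P.lf 0 11643702 0) (P.cons (P.lf 35973 0 0) (P.cons (P.lf 573 0 0) P.nil))) (P.cons (P.cons (P.lf 0 897264 0) (P.cons (P.lf 95715 0 0) P.nil)) (P.cons (P.cons (P.lf 72627 0 0) P.nil) P.nil)))))) 47481)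
 (EL.cons 8 (TM.mk (P.cons (P.cons (P.lf 0 1743060300 0) (P.cons (P.lf 60956895 0 0) (P.cons (P.lf 970209 0 0) (P.lf 0 323403 0)))) (P.cons (P.cons (P.lf 0 173993697 0) (P.cons (P.lf 22374396 0 0) (P.cons (P.lf 356118 0 0) (P.lf 0 118704 0)))) (P.cons (P.cons (P.lf 71256873 0 0) (P.cons (P.lf 325131 0 0) (P.cons (P.lf 5175 0 0) (P.lf 0 1725 0)))) (P.cons (P.cons (P.lf 5437644 0 0) (P.cons (P.lf 0 591501 0) (P.cons (P.lf 0 9411 0) P.nil))) (P.cons (P.cons (P.lf 0 637023 0) (P.cons (P.lf 0 45294 0) P.nil)) (P.cons (P.cons (P.lf 0 97296 0) P.nil) P.nil)))))) 26778)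
 (EL.cons 11 (TM.mk (P.cons (P.cons (P.lf 0 318722553 0) (P.cons (P.lf 0 11814609 0) (P.cons (P.lf 5854179 0 0) (P.cons (P.lf 53121 0 0) (P.lf 0 13278 0))))) (P.cons (P.cons (P.lf 0 137072661 0) (P.cons (P.lf 0 5081094 0) (P.cons (P.lf 2517699 0 0) (P.cons (P.lf 22845 0 0) (P.lf 0 5709 0))))) (P.cons (P.cons (P.lf 0 12935553 0) (P.cons (P.lf 0 479499 0) (P.cons (P.lf 237594 0 0) (P.cons (P.lf 2154 0 0) P.nil)))) (P.cons (P.cons (P.lf 1133358 0 0) (P.cons (P.lf 42012 0 0) (P.cons (P.lf 0 20817 0) P.nil))) (P.cons (P.cons (P.lf 202401 0 0) (P.cons (P.lf 7500 0 0) P.nil)) (P.cons (P.cons (P.lf 7989 0 0) P.nil) P.nil)))))) 7488)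
 EL.nil)))
noncomputable def S82_111_438_512_24 : EL := (EL.cons 4 (TM.mk (P.cons (P.cons (P.lf 0 511509780 0) (P.cons (P.lf 13089975 0 0) (P.cons (P.lf 376137 0 0) (P.cons (P.lf 0 64104 0) (P.cons (P.lf 0 1737 0) (P.cons (P.lf 0 27 0) P.nil)))))) (P.cons (P.cons (P.lf 0 90232473 0) (P.cons (P.lf 2876265 0 0) (P.cons (P.lf 267555 0 0) (P.cons (P.lf 0 8199 0) (P.cons (P.lf 0 2295 0) P.nil))))) (P.cons (P.cons (P.lf 44260482 0 0) (P.cons (P.lf 0 2377578 0) (P.cons (P.lf 83448 0 0) (P.cons (P.lf 16473 0 0) P.nil)))) (P.cons (P.cons (P.lf 9086559 0 0) (P.cons (P.lf 0 948336 0) (P.cons (P.lf 18900 0 0) P.nil))) (P.cons (P.cons (P.lf 0 827334 0) (P.cons (P.lf 0 60984 0) P.nil)) (P.cons (P.cons (P.lf 0 270819 0) P.nil) P.nil)))))) 101274)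
 (EL.cons 8 (TM.mk (P.cons (P.cons (P.lf 825474696 0 0) (P.cons (P.lf 0 21124614 0) (P.cons (P.lf 0 607014 0) (P.cons (P.lf 103455 0 0) (P.cons (P.lf 2802 0 0) (P.cons (P.lf 45 0 0) P.nil)))))) (P.cons (P.cons (P.lf 0 70901976 0) (P.cons (P.lf 899187 0 0) (P.cons (P.lf 0 272568 0) (P.cons (P.lf 0 13899 0) (P.cons (P.lf 2970 0 0) P.nil))))) (P.cons (P.cons (P.lf 0 66083067 0) (P.cons (P.lf 3940233 0 0) (P.cons (P.lf 0 53430 0) (P.cons (P.lf 0 24600 0) P.nil)))) (P.cons (P.cons (P.lf 2602986 0 0) (P.cons (P.lf 513303 0 0) (P.cons (P.lf 0 11229 0) P.nil))) (P.cons (P.cons (P.lf 1707288 0 0) (P.cons (P.lf 0 97977 0) P.nil)) (P.cons (P.cons (P.lf 43338 0 0) P.nil) P.nil)))))) 80274)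
 (EL.cons 11 (TM.mk (P.cons (P.cons (P.lf 150939930 0 0) (P.cons (P.lf 7011000 0 0) (P.cons (P.lf 0 2697390 0) (P.cons (P.lf 0 57840 0) (P.cons (P.lf 5358 0 0) (P.cons (P.lf 192 0 0) P.nil)))))) (P.cons (P.cons (P.lf 36883035 0 0) (P.cons (P.lf 2956419 0 0) (P.cons (P.lf 0 593247 0) (P.cons (P.lf 0 42831 0) (P.cons (P.lf 492 0 0) P.nil))))) (P.cons (P.cons (P.lf 0 9044334 0) (P.cons (P.lf 383709 0 0) (P.cons (P.lf 204216 0 0) (P.cons (P.lf 0 15087 0) P.nil)))) (P.cons (P.cons (P.lf 0 2902182 0) (P.cons (P.lf 52227 0 0) (P.cons (P.lf 61773 0 0) P.nil))) (P.cons (P.cons (P.lf 0 43425 0) (P.cons (P.lf 12930 0 0) P.nil)) (P.cons (P.cons (P.lf 44490 0 0) P.nil) P.nil)))))) 28839)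
 EL.nil)))
noncomputable def S82_111_438_512_25 : EL := (EL.cons 4 (TM.mk (P.cons (P.cons (P.lf 0 906188082 0) (P.cons (P.lf 31690467 0 0) (P.cons (P.lf 504390 0 0) (P.lf 0 168126 0)))) (P.cons (P.cons (P.lf 0 299594208 0) (P.cons (P.lf 18945867 0 0) (P.cons (P.lf 301539 0 0) (P.lf 0 100512 0)))) (P.cons (P.cons (P.lf 13252236 0 0) (P.cons (P.lf 2955579 0 0) (P.cons (P.lf 47040 0 0) (P.lf 0 15678 0)))) (P.cons (P.cons (P.lf 11476842 0 0) (P.cons (P.lf 0 244758 0) (P.cons (P.lf 0 3897 0) P.nil))) (P.cons (P.cons (P.lf 510666 0 0) (P.cons (P.lf 0 100077 0) P.nil)) (P.cons (P.cons (P.lf 0 130023 0) P.nil) P.nil)))))) 49611)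
 (EL.cons 8 (TM.mk (P.cons (P.cons (P.lf 1462406706 0 0) (P.cons (P.lf 0 51142104 0) (P.cons (P.lf 0 813993 0) (P.lf 271332 0 0)))) (P.cons (P.cons (P.lf 99900996 0 0) (P.cons (P.lf 0 17160462 0) (P.cons (P.lf 0 273132 0) (P.lf 91044 0 0)))) (P.cons (P.cons (P.lf 0 71068791 0) (P.cons (P.lf 552486 0 0) (P.cons (P.lf 8793 0 0) (P.lf 0 2928 0)))) (P.cons (P.cons (P.lf 0 3618534 0) (P.cons (P.lf 600213 0 0) (P.cons (P.lf 9552 0 0) P.nil))) (P.cons (P.cons (P.lf 926136 0 0) (P.cons (P.lf 27048 0 0) P.nil)) (P.cons (P.cons (P.lf 97824 0 0) P.nil) P.nil)))))) 32028)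
 (EL.cons 11 (TM.mk (P.cons (P.cons (P.lf 267404403 0 0) (P.cons (P.lf 9912315 0 0) (P.cons (P.lf 0 4911588 0) (P.cons (P.lf 0 44568 0) (P.lf 11139 0 0))))) (P.cons (P.cons (P.lf 106576920 0 0) (P.cons (P.lf 3950661 0 0) (P.cons (P.lf 0 1957563 0) (P.cons (P.lf 0 17763 0) (P.lf 4437 0 0))))) (P.cons (P.cons (P.lf 6006789 0 0) (P.cons (P.lf 222660 0 0) (P.cons (P.lf 0 110328 0) (P.cons (P.lf 0 999 0) P.nil)))) (P.cons (P.cons (P.lf 0 1868442 0) (P.cons (P.lf 0 69261 0) (P.cons (P.lf 34317 0 0) P.nil))) (P.cons (P.cons (P.lf 0 210573 0) (P.cons (P.lf 0 7803 0) P.nil)) (P.cons (P.cons (P.lf 1269 0 0) P.nil) P.nil)))))) 9555)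
 EL.nil)))
noncomputable def S82_111_438_512_26 : EL := (EL.cons 4 (TM.mk (P.cons (P.cons (P.lf 429150576 0 0) (P.cons (P.lf 0 10982331 0) (P.cons (P.lf 0 315576 0) (P.cons (P.lf 53781 0 0) (P.cons (P.lf 1458 0 0) (P.cons (P.lf 21 0 0) P.nil)))))) (P.cons (P.cons (P.lf 62182251 0 0) (P.cons (P.lf 0 2067120 0) (P.cons (P.lf 0 214530 0) (P.cons (P.lf 5184 0 0) (P.cons (P.lf 1881 0 0) P.nil))))) (P.cons (P.cons (P.lf 0 41481231 0) (P.cons (P.lf 2121000 0 0) (P.cons (P.lf 0 61497 0) (P.cons (P.lf 0 14283 0) P.nil)))) (P.cons (P.cons (P.lf 0 6879615 0) (P.cons (P.lf 745872 0 0) (P.cons (P.lf 0 12567 0) P.nil))) (P.cons (P.cons (P.lf 1090515 0 0) (P.cons (P.lf 17412 0 0) P.nil)) (P.cons (P.cons (P.lf 247464 0 0) P.nil) P.nil)))))) 98124)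
 (EL.cons 8 (TM.mk (P.cons (P.cons (P.lf 0 692563380 0) (P.cons (P.lf 17723298 0 0) (P.cons (P.lf 509277 0 0) (P.cons (P.lf 0 86799 0) (P.cons (P.lf 0 2352 0) (P.cons (P.lf 0 36 0) P.nil)))))) (P.cons (P.cons (P.lf 81307254 0 0) (P.cons (P.lf 0 1312833 0) (P.cons (P.lf 212634 0 0) (P.cons (P.lf 14397 0 0) (P.cons (P.lf 0 2418 0) P.nil))))) (P.cons (P.cons (P.lf 56734776 0 0) (P.cons (P.lf 0 3363063 0) (P.cons (P.lf 35295 0 0) (P.cons (P.lf 20667 0 0) P.nil)))) (P.cons (P.cons (P.lf 0 4073568 0) (P.cons (P.lf 0 326352 0) (P.cons (P.lf 6867 0 0) P.nil))) (P.cons (P.cons (P.lf 0 1629021 0) (P.cons (P.lf 111048 0 0) P.nil)) (P.cons (P.cons (P.lf 8088 0 0) P.nil) P.nil)))))) 77892)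
 (EL.cons 11 (TM.mk (P.cons (P.cons (P.lf 0 126636792 0) (P.cons (P.lf 0 5882145 0) (P.cons (P.lf 2263077 0 0) (P.cons (P.lf 48525 0 0) (P.cons (P.lf 0 4497 0) (P.cons (P.lf 0 162 0) P.nil)))))) (P.cons (P.cons (P.lf 0 26954343 0) (P.cons (P.lf 0 2295063 0) (P.cons (P.lf 426423 0 0) (P.cons (P.lf 34404 0 0) (P.cons (P.lf 0 273 0) P.nil))))) (P.cons (P.cons (P.lf 9142026 0 0) (P.cons (P.lf 0 216882 0) (P.cons (P.lf 0 197364 0) (P.cons (P.lf 11304 0 0) P.nil)))) (P.cons (P.cons (P.lf 2360892 0 0) (P.cons (P.lf 0 21240 0) (P.cons (P.lf 0 49125 0) P.nil))) (P.cons (P.cons (P.lf 0 69363 0) (P.cons (P.lf 0 7542 0) P.nil)) (P.cons (P.cons (P.lf 0 51135 0) P.nil) P.nil)))))) 27897)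
 EL.nil)))
noncomputable def S82_111_438_512_27 : EL := (EL.cons 13 (TM.mk (P.lf 0 4294967296 0) 0)
 EL.nil)
noncomputable def S82_111_438_512_28 : EL := (EL.cons 13 (TM.mk (P.cons (P.cons (P.lf 2034001250 0 0) (P.cons (P.lf 19079584 0 0) (P.cons (P.lf 303676 0 0) (P.lf 0 101224 0)))) (P.cons (P.cons (P.lf 0 377740849 0) (P.cons (P.lf 13210044 0 0) (P.cons (P.lf 210252 0 0) (P.lf 0 70084 0)))) (P.cons (P.cons (P.lf 0 41974176 0) (P.cons (P.lf 3232960 0 0) (P.cons (P.lf 51456 0 0) (P.lf 0 17152 0)))) (P.cons (P.cons (P.lf 1506853 0 0) (P.cons (P.lf 294848 0 0) (P.cons (P.lf 4692 0 0) P.nil))) (P.cons (P.cons (P.lf 418743 0 0) (P.cons (P.lf 0 2968 0) P.nil)) (P.cons (P.cons (P.lf 20160 0 0) P.nil) P.nil)))))) 7913)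
 EL.nil)
noncomputable def S82_111_438_512_29 : EL := (EL.cons 13 (TM.mk (P.cons (P.cons (P.lf 0 963257878 0) (P.cons (P.lf 0 18071335 0) (P.cons (P.lf 0 372385 0) (P.cons (P.lf 93176 0 0) (P.cons (P.lf 877 0 0) (P.cons (P.lf 14 0 0) P.nil)))))) (P.cons (P.cons (P.lf 357779375 0 0) (P.cons (P.lf 0 9155882 0) (P.cons (P.lf 0 263091 0) (P.cons (P.lf 44839 0 0) (P.cons (P.lf 1215 0 0) P.nil))))) (P.cons (P.cons (P.lf 6533903 0 0) (P.cons (P.lf 0 365554 0) (P.cons (P.lf 0 75171 0) (P.cons (P.lf 0 268 0) P.nil)))) (P.cons (P.cons (P.lf 0 8810452 0) (P.cons (P.lf 534220 0 0) (P.cons (P.lf 0 14003 0) P.nil))) (P.cons (P.cons (P.lf 0 541768 0) (P.cons (P.lf 104875 0 0) P.nil)) (P.cons (P.cons (P.lf 84014 0 0) P.nil) P.nil)))))) 48447)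
 EL.nil)
noncomputable def S82_111_438_512_30 : EL := (EL.cons 13 (TM.mk (P.cons (P.lf 3603426100 0 0) (P.cons (P.lf 0 113537048 0) (P.cons (P.lf 0 16473628 0) (P.cons (P.lf 0 671992 0) (P.cons (P.lf 4560 0 0) (P.cons (P.lf 2084 0 0) P.nil)))))) 368)
 EL.nil)
noncomputable def S82_111_438_512_31 : EL := (EL.cons 13 (TM.mk (P.cons (P.cons (P.lf 0 1706502677 0) (P.cons (P.lf 0 16007542 0) (P.cons (P.lf 0 254780 0) (P.lf 84925 0 0)))) (P.cons (P.cons (P.lf 370688674 0 0) (P.cons (P.lf 0 10578701 0) (P.cons (P.lf 0 168371 0) (P.lf 56123 0 0)))) (P.cons (P.cons (P.lf 33031832 0 0) (P.cons (P.lf 0 2290027 0) (P.cons (P.lf 0 36448 0) (P.lf 12149 0 0)))) (P.cons (P.cons (P.lf 0 3504424 0) (P.cons (P.lf 0 108257 0) (P.cons (P.lf 0 1722 0) P.nil))) (P.cons (P.cons (P.lf 0 533742 0) (P.cons (P.lf 24731 0 0) P.nil)) (P.cons (P.cons (P.lf 0 7218 0) P.nil) P.nil)))))) 12892)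
 EL.nil)
noncomputable def S82_111_438_512_32 : EL := (EL.cons 13 (TM.mk (P.cons (P.cons (P.lf 808161818 0 0) (P.cons (P.lf 15161633 0 0) (P.cons (P.lf 312426 0 0) (P.cons (P.lf 0 78173 0) (P.cons (P.lf 0 735 0) (P.cons (P.lf 0 11 0) P.nil)))))) (P.cons (P.cons (P.lf 0 325636238 0) (P.cons (P.lf 7203961 0 0) (P.cons (P.lf 210886 0 0) (P.cons (P.lf 0 35156 0) (P.cons (P.lf 0 996 0) P.nil))))) (P.cons (P.cons (P.lf 281358 0 0) (P.cons (P.lf 0 4653 0) (P.cons (P.lf 54684 0 0) (P.cons (P.lf 1767 0 0) P.nil)))) (P.cons (P.cons (P.lf 8786161 0 0) (P.cons (P.lf 0 495812 0) (P.cons (P.lf 8693 0 0) P.nil))) (P.cons (P.cons (P.lf 303695 0 0) (P.cons (P.lf 0 76682 0) P.nil)) (P.cons (P.cons (P.lf 0 117491 0) P.nil) P.nil)))))) 54972)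
 EL.nil)
noncomputable def S82_111_438_512_33 : EL := (EL.cons 14 (TM.mk (P.lf 8589934592 0 0) 0)
 EL.nil)
noncomputable def S82_111_438_512_34 : EL := (EL.cons 14 (TM.mk (P.cons (P.cons (P.lf 0 4068002500 0) (P.cons (P.lf 0 38159168 0) (P.cons (P.lf 0 607352 0) (P.lf 202448 0 0)))) (P.cons (P.cons (P.lf 755481698 0 0) (P.cons (P.lf 0 26420088 0) (P.cons (P.lf 0 420504 0) (P.lf 140168 0 0)))) (P.cons (P.cons (P.lf 83948352 0 0) (P.cons (P.lf 0 6465920 0) (P.cons (P.lf 0 102912 0) (P.lf 34304 0 0)))) (P.cons (P.cons (P.lf 0 3013706 0) (P.cons (P.lf 0 589696 0) (P.cons (P.lf 0 9384 0) P.nil))) (P.cons (P.cons (P.lf 0 837486 0) (P.cons (P.lf 5936 0 0) P.nil)) (P.cons (P.cons (P.lf 0 40320 0) P.nil) P.nil)))))) 15826)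
 EL.nil)
noncomputable def S82_111_438_512_35 : EL := (EL.cons 14 (TM.mk (P.cons (P.cons (P.lf 1926515756 0 0) (P.cons (P.lf 36142670 0 0) (P.cons (P.lf 744770 0 0) (P.cons (P.lf 0 186352 0) (P.cons (P.lf 0 1754 0) (P.cons (P.lf 0 28 0) P.nil)))))) (P.cons (P.cons (P.lf 0 715558750 0) (P.cons (P.lf 18311764 0 0) (P.cons (P.lf 526182 0 0) (P.cons (P.lf 0 89678 0) (P.cons (P.lf 0 2430 0) P.nil))))) (P.cons (P.cons (P.lf 0 13067806 0) (P.cons (P.lf 731108 0 0) (P.cons (P.lf 150342 0 0) (P.cons (P.lf 536 0 0) P.nil)))) (P.cons (P.cons (P.lf 17620904 0 0) (P.cons (P.lf 0 1068440 0) (P.cons (P.lf 28006 0 0) P.nil))) (P.cons (P.cons (P.lf 1083536 0 0) (P.cons (P.lf 0 209750 0) P.nil)) (P.cons (P.cons (P.lf 0 168028 0) P.nil) P.nil)))))) 96894)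
 EL.nil)
noncomputable def S82_111_438_512_36 : EL := (EL.cons 14 (TM.mk (P.cons (P.lf 0 7206852200 0) (P.cons (P.lf 227074096 0 0) (P.cons (P.lf 32947256 0 0) (P.cons (P.lf 1343984 0 0) (P.cons (P.lf 0 9120 0) (P.cons (P.lf 0 4168 0) P.nil)))))) 736)
 EL.nil)
noncomputable def S82_111_438_512_37 : EL := (EL.cons 14 (TM.mk (P.cons (P.cons (P.lf 3413005354 0 0) (P.cons (P.lf 32015084 0 0) (P.cons (P.lf 509560 0 0) (P.lf 0 169850 0)))) (P.cons (P.cons (P.lf 0 741377348 0) (P.cons (P.lf 21157402 0 0) (P.cons (P.lf 336742 0 0) (P.lf 0 112246 0)))) (P.cons (P.cons (P.lf 0 66063664 0) (P.cons (P.lf 4580054 0 0) (P.cons (P.lf 72896 0 0) (P.lf 0 24298 0)))) (P.cons (P.cons (P.lf 7008848 0 0) (P.cons (P.lf 216514 0 0) (P.cons (P.lf 3444 0 0) P.nil))) (P.cons (P.cons (P.lf 1067484 0 0) (P.cons (P.lf 0 49462 0) P.nil)) (P.cons (P.cons (P.lf 14436 0 0) P.nil) P.nil)))))) 25784)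
 EL.nil)
noncomputable def S82_111_438_512_38 : EL := (EL.cons 14 (TM.mk (P.cons (P.cons (P.lf 0 1616323636 0) (P.cons (P.lf 0 30323266 0) (P.cons (P.lf 0 624852 0) (P.cons (P.lf 156346 0 0) (P.cons (P.lf 1470 0 0) (P.cons (P.lf 22 0 0) P.nil)))))) (P.cons (P.cons (P.lf 651272476 0 0) (P.cons (P.lf 0 14407922 0) (P.cons (P.lf 0 421772 0) (P.cons (P.lf 70312 0 0) (P.cons (P.lf 1992 0 0) P.nil))))) (P.cons (P.cons (P.lf 0 562716 0) (P.cons (P.lf 9306 0 0) (P.cons (P.lf 0 109368 0) (P.cons (P.lf 0 3534 0) P.nil)))) (P.cons (P.cons (P.lf 0 17572322 0) (P.cons (P.lf 991624 0 0) (P.cons (P.lf 0 17386 0) P.nil))) (P.cons (P.cons (P.lf 0 607390 0) (P.cons (P.lf 153364 0 0) P.nil)) (P.cons (P.cons (P.lf 234982 0 0) P.nil) P.nil)))))) 109944)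
 EL.nil)
noncomputable def S82_111_438_512_39 : EL := (EL.cons 14 (TM.mk (P.cons (P.lf 6046462644 0 0) (P.cons (P.lf 0 381024890 0) (P.cons (P.lf 0 49282024 0) (P.cons (P.lf 0 513256 0) (P.cons (P.lf 212730 0 0) (P.cons (P.lf 16820 0 0) P.nil)))))) 1830)
 EL.nil)
noncomputable def S82_111_438_512_40 : EL := (EL.cons 14 (TM.mk (P.cons (P.cons (P.lf 0 2863470598 0) (P.cons (P.lf 0 26860272 0) (P.cons (P.lf 0 427514 0) (P.lf 142502 0 0)))) (P.cons (P.cons (P.lf 712229178 0 0) (P.cons (P.lf 0 16904492 0) (P.cons (P.lf 0 269052 0) (P.lf 89684 0 0)))) (P.cons (P.cons (P.lf 48919188 0 0) (P.cons (P.lf 0 3160520 0) (P.cons (P.lf 0 50302 0) (P.lf 16766 0 0)))) (P.cons (P.cons (P.lf 0 9936328 0) (P.cons (P.lf 25578 0 0) (P.cons (P.lf 408 0 0) P.nil))) (P.cons (P.cons (P.lf 0 1083338 0) (P.cons (P.lf 68064 0 0) P.nil)) (P.cons (P.cons (P.lf 31784 0 0) P.nil) P.nil)))))) 32666)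
 EL.nil)
noncomputable def S82_111_438_512_41 : EL := (EL.cons 14 (TM.mk (P.cons (P.cons (P.lf 1356076164 0 0) (P.cons (P.lf 25440856 0 0) (P.cons (P.lf 524244 0 0) (P.cons (P.lf 0 131172 0) (P.cons (P.lf 0 1234 0) (P.cons (P.lf 0 18 0) P.nil)))))) (P.cons (P.cons (P.lf 0 589137164 0) (P.cons (P.lf 11286480 0 0) (P.cons (P.lf 337344 0 0) (P.cons (P.lf 0 54858 0) (P.cons (P.lf 0 1632 0) P.nil))))) (P.cons (P.cons (P.lf 11488922 0 0) (P.cons (P.lf 0 504986 0) (P.cons (P.lf 78212 0 0) (P.cons (P.lf 5424 0 0) P.nil)))) (P.cons (P.cons (P.lf 16973200 0 0) (P.cons (P.lf 0 891722 0) (P.cons (P.lf 9980 0 0) P.nil))) (P.cons (P.cons (P.lf 146526 0 0) (P.cons (P.lf 0 104642 0) P.nil)) (P.cons (P.cons (P.lf 0 280598 0) P.nil) P.nil)))))) 112124)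
 EL.nil)
noncomputable def S82_111_438_512_42 : EL := (EL.cons 14 (TM.mk (P.cons (P.lf 0 5072909710 0) (P.cons (P.lf 479512976 0 0) (P.cons (P.lf 54466274 0 0) (P.cons (P.lf 0 1387564 0) (P.cons (P.lf 0 447104 0) (P.cons (P.lf 0 20696 0) P.nil)))))) 3862)
 EL.nil)
noncomputable def S82_111_438_512_43 : EL := (EL.cons 14 (TM.mk (P.cons (P.cons (P.lf 2402417522 0 0) (P.cons (P.lf 22535446 0 0) (P.cons (P.lf 358680 0 0) (P.lf 0 119558 0)))) (P.cons (P.cons (P.lf 0 673247318 0) (P.cons (P.lf 13472616 0 0) (P.cons (P.lf 214430 0 0) (P.lf 0 71476 0)))) (P.cons (P.cons (P.lf 0 33197932 0) (P.cons (P.lf 2101746 0 0) (P.cons (P.lf 33450 0 0) (P.lf 0 11150 0)))) (P.cons (P.cons (P.lf 11913416 0 0) (P.cons (P.lf 0 174048 0) (P.cons (P.lf 0 2770 0) P.nil))) (P.cons (P.cons (P.lf 948350 0 0) (P.cons (P.lf 0 71168 0) P.nil)) (P.cons (P.cons (P.lf 0 85130 0) P.nil) P.nil)))))) 39312)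
 EL.nil)
noncomputable def S82_111_438_512_44 : EL := (EL.cons 14 (TM.mk (P.cons (P.cons (P.lf 0 1137731652 0) (P.cons (P.lf 0 21344574 0) (P.cons (P.lf 0 439834 0) (P.cons (P.lf 110052 0 0) (P.cons (P.lf 1034 0 0) (P.cons (P.lf 16 0 0) P.nil)))))) (P.cons (P.cons (P.lf 530126764 0 0) (P.cons (P.lf 0 8796696 0) (P.cons (P.lf 0 269168 0) (P.cons (P.lf 42556 0 0) (P.cons (P.lf 1336 0 0) P.nil))))) (P.cons (P.cons (P.lf 0 20011534 0) (P.cons (P.lf 819614 0 0) (P.cons (P.lf 0 54690 0) (P.cons (P.lf 0 6504 0) P.nil)))) (P.cons (P.cons (P.lf 0 15984104 0) (P.cons (P.lf 782066 0 0) (P.cons (P.lf 0 4930 0) P.nil))) (P.cons (P.cons (P.lf 276200 0 0) (P.cons (P.lf 64024 0 0) P.nil)) (P.cons (P.cons (P.lf 306160 0 0) P.nil) P.nil)))))) 113410)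
 EL.nil)
noncomputable def S82_111_438_512_45 : EL := (EL.cons 14 (TM.mk (P.cons (P.cons (P.lf 0 912355132 0) (P.cons (P.lf 0 25674550 0) (P.cons (P.lf 0 649478 0) (P.cons (P.lf 127792 0 0) (P.cons (P.lf 2456 0 0) (P.cons (P.lf 50 0 0) P.nil)))))) (P.cons (P.cons (P.lf 508309128 0 0) (P.cons (P.lf 0 8239964 0) (P.cons (P.lf 0 419910 0) (P.cons (P.lf 32958 0 0) (P.cons (P.lf 2914 0 0) P.nil))))) (P.cons (P.cons (P.lf 0 37916918 0) (P.cons (P.lf 2426240 0 0) (P.cons (P.lf 0 91544 0) (P.cons (P.lf 0 18480 0) P.nil)))) (P.cons (P.cons (P.lf 0 17163144 0) (P.cons (P.lf 1104852 0 0) (P.cons (P.lf 0 3064 0) P.nil))) (P.cons (P.cons (P.lf 972122 0 0) (P.cons (P.lf 3840 0 0) P.nil)) (P.cons (P.cons (P.lf 412384 0 0) P.nil) P.nil)))))) 179928)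
 EL.nil)
noncomputable def S82_111_438_512_46 : EL := (EL.cons 15 (TM.mk (P.lf 4294967296 0 0) 0)
 EL.nil)
noncomputable def S82_111_438_512_47 : EL := (EL.cons 15 (TM.mk (P.cons (P.cons (P.lf 0 2034001250 0) (P.cons (P.lf 0 19079584 0) (P.cons (P.lf 0 303676 0) (P.lf 101224 0 0)))) (P.cons (P.cons (P.lf 377740849 0 0) (P.cons (P.lf 0 13210044 0) (P.cons (P.lf 0 210252 0) (P.lf 70084 0 0)))) (P.cons (P.cons (P.lf 41974176 0 0) (P.cons (P.lf 0 3232960 0) (P.cons (P.lf 0 51456 0) (P.lf 17152 0 0)))) (P.cons (P.cons (P.lf 0 1506853 0) (P.cons (P.lf 0 294848 0) (P.cons (P.lf 0 4692 0) P.nil))) (P.cons (P.cons (P.lf 0 418743 0) (P.cons (P.lf 2968 0 0) P.nil)) (P.cons (P.cons (P.lf 0 20160 0) P.nil) P.nil)))))) 7913)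
 EL.nil)
noncomputable def S82_111_438_512_48 : EL := (EL.cons 15 (TM.mk (P.cons (P.cons (P.lf 963257878 0 0) (P.cons (P.lf 18071335 0 0) (P.cons (P.lf 372385 0 0) (P.cons (P.lf 0 93176 0) (P.cons (P.lf 0 877 0) (P.cons (P.lf 0 14 0) P.nil)))))) (P.cons (P.cons (P.lf 0 357779375 0) (P.cons (P.lf 9155882 0 0) (P.cons (P.lf 263091 0 0) (P.cons (P.lf 0 44839 0) (P.cons (P.lf 0 1215 0) P.nil))))) (P.cons (P.cons (P.lf 0 6533903 0) (P.cons (P.lf 365554 0 0) (P.cons (P.lf 75171 0 0) (P.cons (P.lf 268 0 0) P.nil)))) (P.cons (P.cons (P.lf 8810452 0 0) (P.cons (P.lf 0 534220 0) (P.cons (P.lf 14003 0 0) P.nil))) (P.cons (P.cons (P.lf 541768 0 0) (P.cons (P.lf 0 104875 0) P.nil)) (P.cons (P.cons (P.lf 0 84014 0) P.nil) P.nil)))))) 48447)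
 EL.nil)
noncomputable def S82_111_438_512 : SL := (SL.cons S82_111_438_512_0 (SL.cons S82_111_438_512_1 (SL.cons S82_111_438_512_2 (SL.cons S82_111_438_512_3 (SL.cons S82_111_438_512_4 (SL.cons S82_111_438_512_5 (SL.cons S82_111_438_512_6 (SL.cons S82_111_438_512_7 (SL.cons S82_111_438_512_8 (SL.cons S82_111_438_512_9 (SL.cons S82_111_438_512_10 (SL.cons S82_111_438_512_11 (SL.cons S82_111_438_512_12 (SL.cons S82_111_438_512_13 (SL.cons S82_111_438_512_14 (SL.cons S82_111_438_512_15 (SL.cons S82_111_438_512_16 (SL.cons S82_111_438_512_17 (SL.cons S82_111_438_512_18 (SL.cons S82_111_438_512_19 (SL.cons S82_111_438_512_20 (SL.cons S82_111_438_512_21 (SL.cons S82_111_438_512_22 (SL.cons S82_111_438_512_23 (SL.cons S82_111_438_512_24 (SL.cons S82_111_438_512_25 (SL.cons S82_111_438_512_26 (SL.cons S82_111_438_512_27 (SL.cons S82_111_438_512_28 (SL.cons S82_111_438_512_29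 (SL.cons S82_111_438_512_30 (SL.cons S82_111_438_512_31 (SL.cons S82_111_438_512_32 (SL.cons S82_111_438_512_33 (SL.cons S82_111_438_512_34 (SL.cons S82_111_438_512_35 (SL.cons S82_111_438_512_36 (SL.cons S82_111_438_512_37 (SL.cons S82_111_438_512_38 (SL.cons S82_111_438_512_39 (SL.cons S82_111_438_512_40 (SL.cons S82_111_438_512_41 (SL.cons S82_111_438_512_42 (SL.cons S82_111_438_512_43 (SL.cons S82_111_438_512_44 (SL.cons S82_111_438_512_45 (SL.cons S82_111_438_512_46 (SL.cons S82_111_438_512_47 (SL.cons S82_111_438_512_48 SL.nil)))))))))))))))))))))))))))))))))))))))))))))))))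
noncomputable def S82_111_512_660_0 : EL := (EL.cons 0 (TM.mk (P.cons (P.lf 3141443055 0 0) (P.cons (P.lf 334885157 0 0) (P.cons (P.lf 43314278 0 0) (P.cons (P.lf 451103 0 0) (P.cons (P.lf 0 186969 0) (P.cons (P.lf 0 14783 0) P.nil)))))) 1615)
 (EL.cons 1 (TM.mk (P.cons (P.lf 0 1170850837 0) (P.cons (P.lf 0 233327645 0) (P.cons (P.lf 10098210 0 0) (P.cons (P.lf 2078180 0 0) (P.cons (P.lf 90420 0 0) (P.cons (P.lf 0 2872 0) P.nil)))))) 983)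
 (EL.cons 5 (TM.mk (P.cons (P.lf 6184486878 0 0) (P.cons (P.lf 0 119070280 0) (P.cons (P.lf 0 15400634 0) (P.cons (P.lf 0 160396 0) (P.cons (P.lf 66480 0 0) (P.cons (P.lf 5256 0 0) P.nil)))))) 413)
 (EL.cons 9 (TM.mk (P.lf 6442450944 0 0) 2)
 EL.nil))))
noncomputable def S82_111_512_660_1 : EL := (EL.cons 0 (TM.mk (P.cons (P.cons (P.lf 0 3342295672 0) (P.cons (P.lf 108304682 0 0) (P.cons (P.lf 0 7240984 0) (P.lf 0 2413654 0)))) (P.cons (P.cons (P.lf 0 515390887 0) (P.cons (P.lf 63653378 0 0) (P.cons (P.lf 0 4255705 0) (P.lf 0 1418562 0)))) (P.cons (P.cons (P.lf 51131790 0 0) (P.cons (P.lf 9039355 0 0) (P.cons (P.lf 0 604332 0) (P.lf 0 201441 0)))) (P.cons (P.cons (P.lf 25587211 0 0) (P.cons (P.lf 0 1276792 0) (P.cons (P.lf 85372 0 0) P.nil))) (P.cons (P.cons (P.lf 1109753 0 0) (P.cons (P.lf 0 444612 0) P.nil)) (P.cons (P.cons (P.lf 0 253616 0) P.nil) P.nil)))))) 365180)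
 (EL.cons 1 (TM.mk (P.cons (P.cons (P.lf 1833080526 0 0) (P.cons (P.lf 0 84072108 0) (P.cons (P.lf 5620870 0 0) (P.lf 1873623 0 0)))) (P.cons (P.cons (P.lf 3192594 0 0) (P.cons (P.lf 0 17867539 0) (P.cons (P.lf 1194585 0 0) (P.lf 398197 0 0)))) (P.cons (P.cons (P.lf 0 117882416 0) (P.cons (P.lf 6819065 0 0) (P.cons (P.lf 0 455904 0) (P.lf 0 151963 0)))) (P.cons (P.cons (P.lf 0 3078832 0) (P.cons (P.lf 2083212 0 0) (P.cons (P.lf 0 139269 0) P.nil))) (P.cons (P.cons (P.lf 1829149 0 0) (P.cons (P.lf 84739 0 0) P.nil)) (P.cons (P.cons (P.lf 169065 0 0) P.nil) P.nil)))))) 149414)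
 (EL.cons 5 (TM.mk (P.cons (P.cons (P.lf 0 2366736229 0) (P.cons (P.lf 0 100281426 0) (P.cons (P.lf 6704580 0 0) (P.lf 2234854 0 0)))) (P.cons (P.cons (P.lf 758038303 0 0) (P.cons (P.lf 0 65401872 0) (P.cons (P.lf 4372610 0 0) (P.lf 1457538 0 0)))) (P.cons (P.cons (P.lf 36687824 0 0) (P.cons (P.lf 0 13681200 0) (P.cons (P.lf 914686 0 0) (P.lf 304896 0 0)))) (P.cons (P.cons (P.lf 0 13163051 0) (P.cons (P.lf 0 500658 0) (P.cons (P.lf 33474 0 0) P.nil))) (P.cons (P.cons (P.lf 0 1091294 0) (P.cons (P.lf 167708 0 0) P.nil)) (P.cons (P.cons (P.lf 67608 0 0) P.nil) P.nil)))))) 114696)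
 (EL.cons 9 (TM.mk (P.cons (P.cons (P.lf 0 3136860009 0) (P.cons (P.lf 0 54505668 0) (P.cons (P.lf 3644118 0 0) (P.lf 1214706 0 0)))) (P.cons (P.cons (P.lf 507166063 0 0) (P.cons (P.lf 0 37737840 0) (P.cons (P.lf 2523060 0 0) (P.lf 841020 0 0)))) (P.cons (P.cons (P.lf 48412950 0 0) (P.cons (P.lf 0 9235764 0) (P.cons (P.lf 617478 0 0) (P.lf 205824 0 0)))) (P.cons (P.cons (P.lf 0 3587101 0) (P.cons (P.lf 0 842310 0) (P.cons (P.lf 56310 0 0) P.nil))) (P.cons (P.cons (P.lf 0 614746 0) (P.cons (P.lf 8490 0 0) P.nil)) (P.cons (P.cons (P.lf 0 19908 0) P.nil) P.nil)))))) 37130)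
 (EL.cons 2 (TM.mk (P.cons (P.cons (P.lf 282300150 0 0) (P.cons (P.lf 0 43707150 0) (P.cons (P.lf 0 21056726 0) (P.cons (P.lf 796845 0 0) (P.lf 199209 0 0))))) (P.cons (P.cons (P.lf 121408520 0 0) (P.cons (P.lf 0 18797087 0) (P.cons (P.lf 0 9055842 0) (P.cons (P.lf 342697 0 0) (P.lf 85671 0 0))))) (P.cons (P.cons (P.lf 11457326 0 0) (P.cons (P.lf 0 1773877 0) (P.cons (P.lf 0 854597 0) (P.cons (P.lf 32338 0 0) P.nil)))) (P.cons (P.cons (P.lf 0 1003840 0) (P.cons (P.lf 155421 0 0) (P.cons (P.lf 74877 0 0) P.nil))) (P.cons (P.cons (P.lf 0 179271 0) (P.cons (P.lf 27753 0 0) P.nil)) (P.cons (P.cons (P.lf 0 7073 0) P.nil) P.nil)))))) 39044)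
 (EL.cons 6 (TM.mk (P.cons (P.cons (P.lf 62196900 0 0) (P.cons (P.lf 0 9629640 0) (P.cons (P.lf 0 4639257 0) (P.cons (P.lf 175563 0 0) (P.lf 43890 0 0))))) (P.cons (P.cons (P.lf 43062990 0 0) (P.cons (P.lf 0 6667230 0) (P.cons (P.lf 0 3212061 0) (P.cons (P.lf 121551 0 0) (P.lf 30387 0 0))))) (P.cons (P.cons (P.lf 10539018 0 0) (P.cons (P.lf 0 1631703 0) (P.cons (P.lf 0 786102 0) (P.cons (P.lf 29748 0 0) P.nil)))) (P.cons (P.cons (P.lf 961173 0 0) (P.cons (P.lf 0 148812 0) (P.cons (P.lf 0 71691 0) P.nil))) (P.cons (P.cons (P.lf 0 9687 0) (P.cons (P.lf 1497 0 0) P.nil)) (P.cons (P.cons (P.lf 0 7485 0) P.nil) P.nil)))))) 17754)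
 EL.nil))))))
noncomputable def S82_111_512_660_2 : EL := (EL.cons 0 (TM.mk (P.cons (P.cons (P.lf 2509997811 0 0) (P.cons (P.lf 0 74795617 0) (P.cons (P.lf 2943189 0 0) (P.cons (P.lf 1941990 0 0) (P.cons (P.lf 82500 0 0) (P.cons (P.lf 0 6123 0) P.nil)))))) (P.cons (P.cons (P.lf 137096655 0 0) (P.cons (P.lf 0 13551326 0) (P.cons (P.lf 0 1775216 0) (P.cons (P.lf 660507 0 0) (P.cons (P.lf 107511 0 0) P.nil))))) (P.cons (P.cons (P.lf 0 162246777 0) (P.cons (P.lf 14692813 0 0) (P.cons (P.lf 0 2411822 0) (P.cons (P.lf 0 136301 0) P.nil)))) (P.cons (P.cons (P.lf 0 22721964 0) (P.cons (P.lf 5069191 0 0) (P.cons (P.lf 0 717683 0) P.nil))) (P.cons (P.cons (P.lf 4283875 0 0) (P.cons (P.lf 91712 0 0) P.nil)) (P.cons (P.cons (P.lf 826632 0 0) P.nil) P.nil)))))) 1698190)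
 (EL.cons 1 (TM.mk (P.cons (P.cons (P.lf 0 1507490334 0) (P.cons (P.lf 60499474 0 0) (P.cons (P.lf 0 2538487 0) (P.cons (P.lf 0 1549713 0) (P.cons (P.lf 0 60410 0) (P.cons (P.lf 4491 0 0) P.nil)))))) (P.cons (P.cons (P.lf 251058633 0 0) (P.cons (P.lf 0 10324830 0) (P.cons (P.lf 2110301 0 0) (P.cons (P.lf 40214 0 0) (P.cons (P.lf 0 56949 0) P.nil))))) (P.cons (P.cons (P.lf 121254495 0 0) (P.cons (P.lf 0 12672847 0) (P.cons (P.lf 1273248 0 0) (P.cons (P.lf 225458 0 0) P.nil)))) (P.cons (P.cons (P.lf 0 15514993 0) (P.cons (P.lf 0 372940 0) (P.cons (P.lf 17774 0 0) P.nil))) (P.cons (P.cons (P.lf 0 3767023 0) (P.cons (P.lf 635055 0 0) P.nil)) (P.cons (P.cons (P.lf 179461 0 0) P.nil) P.nil)))))) 729612)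
 (EL.cons 5 (TM.mk (P.cons (P.cons (P.lf 838555357 0 0) (P.cons (P.lf 86749217 0 0) (P.cons (P.lf 0 4545677 0) (P.cons (P.lf 0 2100973 0) (P.cons (P.lf 0 50284 0) (P.cons (P.lf 3732 0 0) P.nil)))))) (P.cons (P.cons (P.lf 0 608479702 0) (P.cons (P.lf 36741777 0 0) (P.cons (P.lf 0 779454 0) (P.cons (P.lf 0 1043063 0) (P.cons (P.lf 0 67248 0) P.nil))))) (P.cons (P.cons (P.lf 49505533 0 0) (P.cons (P.lf 0 2693310 0) (P.cons (P.lf 1115965 0 0) (P.cons (P.lf 0 65122 0) P.nil)))) (P.cons (P.cons (P.lf 20676518 0 0) (P.cons (P.lf 0 3094764 0) (P.cons (P.lf 480363 0 0) P.nil))) (P.cons (P.cons (P.lf 0 1072432 0) (P.cons (P.lf 0 290182 0) P.nil)) (P.cons (P.cons (P.lf 0 442729 0) P.nil) P.nil)))))) 598549)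
 (EL.cons 9 (TM.mk (P.cons (P.cons (P.lf 1527352059 0 0) (P.cons (P.lf 53078137 0 0) (P.cons (P.lf 0 3087537 0) (P.cons (P.lf 0 1244553 0) (P.cons (P.lf 0 18492 0) (P.cons (P.lf 1374 0 0) P.nil)))))) (P.cons (P.cons (P.lf 0 493883136 0) (P.cons (P.lf 28167817 0 0) (P.cons (P.lf 0 1244676 0) (P.cons (P.lf 0 713127 0) (P.cons (P.lf 0 25606 0) P.nil))))) (P.cons (P.cons (P.lf 0 7219593 0) (P.cons (P.lf 2233051 0 0) (P.cons (P.lf 228037 0 0) (P.cons (P.lf 0 100216 0) P.nil)))) (P.cons (P.cons (P.lf 11115532 0 0) (P.cons (P.lf 0 1140354 0) (P.cons (P.lf 198697 0 0) P.nil))) (P.cons (P.cons (P.lf 397681 0 0) (P.cons (P.lf 0 227266 0) P.nil)) (P.cons (P.cons (P.lf 0 131313 0) P.nil) P.nil)))))) 244607)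
 (EL.cons 2 (TM.mk (P.cons (P.cons (P.lf 0 274906569 0) (P.cons (P.lf 37785695 0 0) (P.cons (P.lf 21564157 0 0) (P.cons (P.lf 0 362671 0) (P.cons (P.lf 0 247775 0) (P.cons (P.lf 0 10406 0) P.nil)))))) (P.cons (P.cons (P.lf 0 73782005 0) (P.cons (P.lf 6061725 0 0) (P.cons (P.lf 6691955 0 0) (P.cons (P.lf 255639 0 0) (P.cons (P.lf 0 112432 0) P.nil))))) (P.cons (P.cons (P.lf 12200703 0 0) (P.cons (P.lf 0 4314588 0) (P.cons (P.lf 0 372330 0) (P.cons (P.lf 244310 0 0) P.nil)))) (P.cons (P.cons (P.lf 4291773 0 0) (P.cons (P.lf 0 1203631 0) (P.cons (P.lf 0 200598 0) P.nil))) (P.cons (P.cons (P.lf 0 348 0) (P.cons (P.lf 0 48999 0) P.nil)) (P.cons (P.cons (P.lf 0 74092 0) P.nil) P.nil)))))) 293348)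
 (EL.cons 6 (TM.mk (P.cons (P.cons (P.lf 0 60567930 0) (P.cons (P.lf 8325012 0 0) (P.cons (P.lf 4751052 0 0) (P.cons (P.lf 0 79902 0) (P.cons (P.lf 0 54588 0) (P.cons (P.lf 0 2292 0) P.nil)))))) (P.cons (P.cons (P.lf 0 32142552 0) (P.cons (P.lf 3519150 0 0) (P.cons (P.lf 2720568 0 0) (P.cons (P.lf 35364 0 0) (P.cons (P.lf 0 39090 0) P.nil))))) (P.cons (P.cons (P.lf 0 2548158 0) (P.cons (P.lf 0 466632 0) (P.cons (P.lf 380970 0 0) (P.cons (P.lf 67314 0 0) P.nil)))) (P.cons (P.cons (P.lf 1301262 0 0) (P.cons (P.lf 0 480930 0) (P.cons (P.lf 0 35106 0) P.nil))) (P.cons (P.cons (P.lf 259332 0 0) (P.cons (P.lf 0 92556 0) P.nil)) (P.cons (P.cons (P.lf 0 126 0) P.nil) P.nil)))))) 117624)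
 EL.nil))))))
noncomputable def S82_111_512_660_3 : EL := (EL.cons 0 (TM.mk (P.cons (P.lf 5314273808 0 0) (P.cons (P.lf 0 334885157 0) (P.cons (P.lf 0 43314278 0) (P.cons (P.lf 0 451103 0) (P.cons (P.lf 186969 0 0) (P.cons (P.lf 14783 0 0) P.nil)))))) 1615)
 (EL.cons 1 (TM.mk (P.cons (P.lf 1170850837 0 0) (P.cons (P.lf 233327645 0 0) (P.cons (P.lf 0 10098210 0) (P.cons (P.lf 0 2078180 0) (P.cons (P.lf 0 90420 0) (P.cons (P.lf 2872 0 0) P.nil)))))) 983)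
 (EL.cons 5 (TM.mk (P.cons (P.lf 257964066 0 0) (P.cons (P.lf 119070280 0 0) (P.cons (P.lf 15400634 0 0) (P.cons (P.lf 160396 0 0) (P.cons (P.lf 0 66480 0) (P.cons (P.lf 0 5256 0) P.nil)))))) 406)
 EL.nil)))
noncomputable def S82_111_512_660_4 : EL := (EL.cons 0 (TM.mk (P.cons (P.cons (P.lf 0 2587545195 0) (P.cons (P.lf 0 44960844 0) (P.cons (P.lf 3005973 0 0) (P.lf 1001990 0 0)))) (P.cons (P.cons (P.lf 581410276 0 0) (P.cons (P.lf 0 28296073 0) (P.cons (P.lf 1891805 0 0) (P.lf 630601 0 0)))) (P.cons (P.cons (P.lf 34661981 0 0) (P.cons (P.lf 0 5290324 0) (P.cons (P.lf 353694 0 0) (P.lf 117896 0 0)))) (P.cons (P.cons (P.lf 0 8665660 0) (P.cons (P.lf 42813 0 0) (P.cons (P.lf 0 2865 0) P.nil))) (P.cons (P.cons (P.lf 0 772674 0) (P.cons (P.lf 113941 0 0) P.nil)) (P.cons (P.cons (P.lf 43780 0 0) P.nil) P.nil)))))) 76559)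
 (EL.cons 1 (TM.mk (P.cons (P.cons (P.lf 0 570092842 0) (P.cons (P.lf 0 9905857 0) (P.cons (P.lf 662280 0 0) (P.lf 220758 0 0)))) (P.cons (P.cons (P.lf 0 21435995 0) (P.cons (P.lf 0 8832515 0) (P.cons (P.lf 590520 0 0) (P.lf 196839 0 0)))) (P.cons (P.cons (P.lf 32083576 0 0) (P.cons (P.lf 0 2959831 0) (P.cons (P.lf 197885 0 0) (P.lf 65960 0 0)))) (P.cons (P.cons (P.lf 1318381 0 0) (P.cons (P.lf 0 410838 0) (P.cons (P.lf 27465 0 0) P.nil))) (P.cons (P.cons (P.lf 0 437096 0) (P.cons (P.lf 0 1546 0) P.nil)) (P.cons (P.cons (P.lf 0 44392 0) P.nil) P.nil)))))) 31434)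
 (EL.cons 5 (TM.mk (P.cons (P.cons (P.lf 0 125603930 0) (P.cons (P.lf 0 2182476 0) (P.cons (P.lf 145914 0 0) (P.lf 48638 0 0)))) (P.cons (P.cons (P.lf 0 37668300 0) (P.cons (P.lf 0 2518452 0) (P.cons (P.lf 168376 0 0) (P.lf 56124 0 0)))) (P.cons (P.cons (P.lf 3813388 0 0) (P.cons (P.lf 0 1197582 0) (P.cons (P.lf 80066 0 0) (P.lf 26688 0 0)))) (P.cons (P.cons (P.lf 1885420 0 0) (P.cons (P.lf 0 295992 0) (P.cons (P.lf 19788 0 0) P.nil))) (P.cons (P.cons (P.lf 69814 0 0) (P.cons (P.lf 0 37682 0) P.nil)) (P.cons (P.cons (P.lf 0 22200 0) P.nil) P.nil)))))) 18328)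
 EL.nil)))
noncomputable def S82_111_512_660_5 : EL := (EL.cons 0 (TM.mk (P.cons (P.cons (P.lf 1259888062 0 0) (P.cons (P.lf 43783298 0 0) (P.cons (P.lf 0 2546859 0) (P.cons (P.lf 0 1026609 0) (P.cons (P.lf 0 15252 0) (P.cons (P.lf 1132 0 0) P.nil)))))) (P.cons (P.cons (P.lf 0 486789542 0) (P.cons (P.lf 20476121 0 0) (P.cons (P.lf 0 866218 0) (P.cons (P.lf 0 523552 0) (P.cons (P.lf 0 20160 0) P.nil))))) (P.cons (P.cons (P.lf 9448435 0 0) (P.cons (P.lf 20956 0 0) (P.cons (P.lf 273561 0 0) (P.cons (P.lf 0 37228 0) P.nil)))) (P.cons (P.cons (P.lf 12757863 0 0) (P.cons (P.lf 0 1249831 0) (P.cons (P.lf 160632 0 0) P.nil))) (P.cons (P.cons (P.lf 0 122306 0) (P.cons (P.lf 0 143636 0) P.nil)) (P.cons (P.cons (P.lf 0 214045 0) P.nil) P.nil)))))) 278092)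
 (EL.cons 1 (TM.mk (P.cons (P.cons (P.lf 277580915 0 0) (P.cons (P.lf 9646417 0 0) (P.cons (P.lf 0 561127 0) (P.cons (P.lf 0 226185 0) (P.cons (P.lf 0 3360 0) (P.cons (P.lf 249 0 0) P.nil)))))) (P.cons (P.cons (P.lf 0 34441863 0) (P.cons (P.lf 7041558 0 0) (P.cons (P.lf 0 338028 0) (P.cons (P.lf 0 174676 0) (P.cons (P.lf 0 5323 0) P.nil))))) (P.cons (P.cons (P.lf 0 21593206 0) (P.cons (P.lf 1342796 0 0) (P.cons (P.lf 1203 0 0) (P.cons (P.lf 0 42088 0) P.nil)))) (P.cons (P.cons (P.lf 2040110 0 0) (P.cons (P.lf 0 187644 0) (P.cons (P.lf 47315 0 0) P.nil))) (P.cons (P.cons (P.lf 624041 0 0) (P.cons (P.lf 0 95934 0) P.nil)) (P.cons (P.cons (P.lf 0 16942 0) P.nil) P.nil)))))) 99136)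
 (EL.cons 5 (TM.mk (P.cons (P.cons (P.lf 61157150 0 0) (P.cons (P.lf 2125316 0 0) (P.cons (P.lf 0 123628 0) (P.cons (P.lf 0 49832 0) (P.cons (P.lf 0 740 0) (P.cons (P.lf 54 0 0) P.nil)))))) (P.cons (P.cons (P.lf 8453014 0 0) (P.cons (P.lf 2108872 0 0) (P.cons (P.lf 0 106902 0) (P.cons (P.lf 0 51556 0) (P.cons (P.lf 0 1366 0) P.nil))))) (P.cons (P.cons (P.lf 0 5765974 0) (P.cons (P.lf 736898 0 0) (P.cons (P.lf 0 21252 0) (P.cons (P.lf 0 20166 0) P.nil)))) (P.cons (P.cons (P.lf 0 830950 0) (P.cons (P.lf 64266 0 0) (P.cons (P.lf 9118 0 0) P.nil))) (P.cons (P.cons (P.lf 176046 0 0) (P.cons (P.lf 0 24684 0) P.nil)) (P.cons (P.cons (P.lf 32332 0 0) P.nil) P.nil)))))) 35126)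
 EL.nil)))
noncomputable def S82_111_512_660_6 : EL := (EL.cons 12 (TM.mk (P.lf 8589934592 0 0) 0)
 (EL.cons 3 (TM.mk (P.cons (P.lf 0 3378211968 0) (P.cons (P.lf 106440982 0 0) (P.cons (P.lf 15444026 0 0) (P.cons (P.lf 629992 0 0) (P.cons (P.lf 0 4275 0) (P.cons (P.lf 0 1953 0) P.nil)))))) 352)
 (EL.cons 7 (TM.mk (P.cons (P.lf 0 744294039 0) (P.cons (P.lf 0 171774507 0) (P.cons (P.lf 0 2395646 0) (P.cons (P.lf 321494 0 0) (P.cons (P.lf 25565 0 0) (P.cons (P.lf 650 0 0) P.nil)))))) 203)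
 EL.nil)))
noncomputable def S82_111_512_660_7 : EL := (EL.cons 12 (TM.mk (P.cons (P.cons (P.lf 0 4182480012 0) (P.cons (P.lf 0 72674224 0) (P.cons (P.lf 4858824 0 0) (P.lf 1619608 0 0)))) (P.cons (P.cons (P.lf 676221418 0 0) (P.cons (P.lf 0 50317120 0) (P.cons (P.lf 3364080 0 0) (P.lf 1121360 0 0)))) (P.cons (P.cons (P.lf 64550600 0 0) (P.cons (P.lf 0 12314352 0) (P.cons (P.lf 823304 0 0) (P.lf 274432 0 0)))) (P.cons (P.cons (P.lf 0 4782802 0) (P.cons (P.lf 0 1123080 0) (P.cons (P.lf 75080 0 0) P.nil))) (P.cons (P.cons (P.lf 0 819662 0) (P.cons (P.lf 11320 0 0) P.nil)) (P.cons (P.cons (P.lf 0 26544 0) P.nil) P.nil)))))) 49482)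
 (EL.cons 3 (TM.mk (P.cons (P.cons (P.lf 2797184042 0 0) (P.cons (P.lf 0 57162000 0) (P.cons (P.lf 3821712 0 0) (P.lf 1273902 0 0)))) (P.cons (P.cons (P.lf 99719798 0 0) (P.cons (P.lf 0 37775928 0) (P.cons (P.lf 2525606 0 0) (P.lf 841866 0 0)))) (P.cons (P.cons (P.lf 0 20249561 0) (P.cons (P.lf 0 8177548 0) (P.cons (P.lf 546726 0 0) (P.lf 182240 0 0)))) (P.cons (P.cons (P.lf 0 7901520 0) (P.cons (P.lf 0 386582 0) (P.cons (P.lf 25838 0 0) P.nil))) (P.cons (P.cons (P.lf 0 562486 0) (P.cons (P.lf 88322 0 0) P.nil)) (P.cons (P.cons (P.lf 29586 0 0) P.nil) P.nil)))))) 142808)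
 (EL.cons 7 (TM.mk (P.cons (P.cons (P.lf 0 1497208625 0) (P.cons (P.lf 144669119 0 0) (P.cons (P.lf 0 9672241 0) (P.lf 0 3224079 0)))) (P.cons (P.cons (P.lf 0 160927856 0) (P.cons (P.lf 60962820 0 0) (P.cons (P.lf 0 4075831 0) (P.lf 0 1358611 0)))) (P.cons (P.cons (P.lf 53784163 0 0) (P.cons (P.lf 5201773 0 0) (P.cons (P.lf 0 347777 0) (P.lf 0 115927 0)))) (P.cons (P.cons (P.lf 4207763 0 0) (P.cons (P.lf 0 611972 0) (P.cons (P.lf 40913 0 0) P.nil))) (P.cons (P.cons (P.lf 0 293041 0) (P.cons (P.lf 0 86151 0) P.nil)) (P.cons (P.cons (P.lf 0 53915 0) P.nil) P.nil)))))) 74162)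
 (EL.cons 10 (TM.mk (P.cons (P.cons (P.lf 0 358908777 0) (P.cons (P.lf 55568091 0 0) (P.cons (P.lf 26770953 0 0) (P.cons (P.lf 0 1013091 0) (P.lf 0 253272 0))))) (P.cons (P.cons (P.lf 0 165664038 0) (P.cons (P.lf 25648953 0 0) (P.cons (P.lf 12356856 0 0) (P.cons (P.lf 0 467619 0) (P.lf 0 116904 0))))) (P.cons (P.cons (P.lf 0 21427101 0) (P.cons (P.lf 3317451 0 0) (P.cons (P.lf 1598244 0 0) (P.cons (P.lf 0 60480 0) P.nil)))) (P.cons (P.cons (P.lf 0 223161 0) (P.cons (P.lf 34548 0 0) (P.cons (P.lf 16644 0 0) P.nil))) (P.cons (P.cons (P.lf 92493 0 0) (P.cons (P.lf 0 14319 0) P.nil)) (P.cons (P.cons (P.lf 7311 0 0) P.nil) P.nil)))))) 25629)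
 EL.nil))))
noncomputable def S82_111_512_660_8 : EL := (EL.cons 12 (TM.mk (P.cons (P.cons (P.lf 2036469412 0 0) (P.cons (P.lf 70770850 0 0) (P.cons (P.lf 0 4116716 0) (P.cons (P.lf 0 1659404 0) (P.cons (P.lf 0 24656 0) (P.cons (P.lf 1832 0 0) P.nil)))))) (P.cons (P.cons (P.lf 0 658510848 0) (P.cons (P.lf 37557090 0 0) (P.cons (P.lf 0 1659568 0) (P.cons (P.lf 0 950836 0) (P.cons (P.lf 0 34142 0) P.nil))))) (P.cons (P.cons (P.lf 0 9626124 0) (P.cons (P.lf 2977402 0 0) (P.cons (P.lf 304050 0 0) (P.cons (P.lf 0 133622 0) P.nil)))) (P.cons (P.cons (P.lf 14820710 0 0) (P.cons (P.lf 0 1520472 0) (P.cons (P.lf 264930 0 0) P.nil))) (P.cons (P.cons (P.lf 530242 0 0) (P.cons (P.lf 0 303022 0) P.nil)) (P.cons (P.cons (P.lf 0 175084 0) P.nil) P.nil)))))) 326114)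
 (EL.cons 3 (TM.mk (P.cons (P.cons (P.lf 0 1923030628 0) (P.cons (P.lf 36166796 0 0) (P.cons (P.lf 0 1208989 0) (P.cons (P.lf 0 967667 0) (P.cons (P.lf 0 48480 0) (P.cons (P.lf 3600 0 0) P.nil)))))) (P.cons (P.cons (P.lf 59083848 0 0) (P.cons (P.lf 7222646 0 0) (P.cons (P.lf 1153199 0 0) (P.cons (P.lf 0 379727 0) (P.cons (P.lf 0 65611 0) P.nil))))) (P.cons (P.cons (P.lf 78172197 0 0) (P.cons (P.lf 0 7110635 0) (P.cons (P.lf 1406430 0 0) (P.cons (P.lf 33980 0 0) P.nil)))) (P.cons (P.cons (P.lf 9872707 0 0) (P.cons (P.lf 0 2769133 0) (P.cons (P.lf 467144 0 0) P.nil))) (P.cons (P.cons (P.lf 0 1554004 0) (P.cons (P.lf 0 183756 0) P.nil)) (P.cons (P.cons (P.lf 0 351127 0) P.nil) P.nil)))))) 818054)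
 (EL.cons 7 (TM.mk (P.cons (P.cons (P.lf 1634450435 0 0) (P.cons (P.lf 0 109414118 0) (P.cons (P.lf 4920536 0 0) (P.cons (P.lf 2758588 0 0) (P.cons (P.lf 96024 0 0) (P.cons (P.lf 0 7130 0) P.nil)))))) (P.cons (P.cons (P.lf 0 95349520 0) (P.cons (P.lf 0 11655919 0) (P.cons (P.lf 0 1861035 0) (P.cons (P.lf 612814 0 0) (P.cons (P.lf 105877 0 0) P.nil))))) (P.cons (P.cons (P.lf 0 113649399 0) (P.cons (P.lf 13003792 0 0) (P.cons (P.lf 0 2025621 0) (P.cons (P.lf 0 135194 0) P.nil)))) (P.cons (P.cons (P.lf 4450923 0 0) (P.cons (P.lf 2257295 0 0) (P.cons (P.lf 0 389692 0) P.nil))) (P.cons (P.cons (P.lf 2579348 0 0) (P.cons (P.lf 0 247629 0) P.nil)) (P.cons (P.cons (P.lf 51404 0 0) P.nil) P.nil)))))) 574419)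
 (EL.cons 10 (TM.mk (P.cons (P.cons (P.lf 349508778 0 0) (P.cons (P.lf 0 48039714 0) (P.cons (P.lf 0 27416088 0) (P.cons (P.lf 461088 0 0) (P.cons (P.lf 315018 0 0) (P.cons (P.lf 13230 0 0) P.nil)))))) (P.cons (P.cons (P.lf 104816796 0 0) (P.cons (P.lf 0 9220356 0) (P.cons (P.lf 0 9371802 0) (P.cons (P.lf 0 310488 0) (P.cons (P.lf 152874 0 0) P.nil))))) (P.cons (P.cons (P.lf 0 10611234 0) (P.cons (P.lf 4975314 0 0) (P.cons (P.lf 52746 0 0) (P.cons (P.lf 0 318288 0) P.nil)))) (P.cons (P.cons (P.lf 0 5246424 0) (P.cons (P.lf 1635918 0 0) (P.cons (P.lf 208746 0 0) P.nil))) (P.cons (P.cons (P.lf 0 194262 0) (P.cons (P.lf 134928 0 0) P.nil)) (P.cons (P.cons (P.lf 61782 0 0) P.nil) P.nil)))))) 363552)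
 EL.nil))))
noncomputable def S82_111_512_660_9 : EL := (EL.cons 3 (TM.mk (P.cons (P.lf 0 3378211968 0) (P.cons (P.lf 106440982 0 0) (P.cons (P.lf 15444026 0 0) (P.cons (P.lf 629992 0 0) (P.cons (P.lf 0 4275 0) (P.cons (P.lf 0 1953 0) P.nil)))))) 352)
 (EL.cons 7 (TM.mk (P.cons (P.lf 0 744294039 0) (P.cons (P.lf 0 171774507 0) (P.cons (P.lf 0 2395646 0) (P.cons (P.lf 321494 0 0) (P.cons (P.lf 25565 0 0) (P.cons (P.lf 650 0 0) P.nil)))))) 203)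
 EL.nil))
noncomputable def S82_111_512_660_10 : EL := (EL.cons 3 (TM.mk (P.cons (P.cons (P.lf 1644867476 0 0) (P.cons (P.lf 28581000 0 0) (P.cons (P.lf 0 1910856 0) (P.lf 0 636951 0)))) (P.cons (P.cons (P.lf 0 317768026 0) (P.cons (P.lf 18887964 0 0) (P.cons (P.lf 0 1262803 0) (P.lf 0 420933 0)))) (P.cons (P.cons (P.lf 0 24526643 0) (P.cons (P.lf 4088774 0 0) (P.cons (P.lf 0 273363 0) (P.lf 0 91120 0)))) (P.cons (P.cons (P.lf 3589875 0 0) (P.cons (P.lf 193291 0 0) (P.cons (P.lf 0 12919 0) P.nil))) (P.cons (P.cons (P.lf 430820 0 0) (P.cons (P.lf 0 44161 0) P.nil)) (P.cons (P.cons (P.lf 0 2967 0) P.nil) P.nil)))))) 35101)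
 (EL.cons 7 (TM.mk (P.cons (P.cons (P.lf 362400307 0 0) (P.cons (P.lf 6297020 0 0) (P.cons (P.lf 0 421003 0) (P.lf 0 140334 0)))) (P.cons (P.cons (P.lf 25045111 0 0) (P.cons (P.lf 5813118 0 0) (P.cons (P.lf 0 388651 0) (P.lf 0 129550 0)))) (P.cons (P.cons (P.lf 0 17949203 0) (P.cons (P.lf 2093473 0 0) (P.cons (P.lf 0 139964 0) (P.lf 0 46654 0)))) (P.cons (P.cons (P.lf 0 1221541 0) (P.cons (P.lf 354877 0 0) (P.cons (P.lf 0 23725 0) P.nil))) (P.cons (P.cons (P.lf 161522 0 0) (P.cons (P.lf 22812 0 0) P.nil)) (P.cons (P.cons (P.lf 24136 0 0) P.nil) P.nil)))))) 15859)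
 EL.nil))
noncomputable def S82_111_512_660_11 : EL := (EL.cons 3 (TM.mk (P.cons (P.cons (P.lf 0 800893798 0) (P.cons (P.lf 0 27832450 0) (P.cons (P.lf 1619003 0 0) (P.cons (P.lf 652603 0 0) (P.cons (P.lf 9696 0 0) (P.cons (P.lf 0 720 0) P.nil)))))) (P.cons (P.cons (P.lf 284210898 0 0) (P.cons (P.lf 0 13893340 0) (P.cons (P.lf 601655 0 0) (P.cons (P.lf 353377 0 0) (P.cons (P.lf 13121 0 0) P.nil))))) (P.cons (P.cons (P.lf 0 712713 0) (P.cons (P.lf 0 578315 0) (P.cons (P.lf 0 147540 0) (P.cons (P.lf 37784 0 0) P.nil)))) (P.cons (P.cons (P.lf 0 6982499 0) (P.cons (P.lf 707573 0 0) (P.cons (P.lf 0 103708 0) P.nil))) (P.cons (P.cons (P.lf 0 91498 0) (P.cons (P.lf 108402 0 0) P.nil)) (P.cons (P.cons (P.lf 101231 0 0) P.nil) P.nil)))))) 154078)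
 (EL.cons 7 (TM.mk (P.cons (P.cons (P.lf 0 176454433 0) (P.cons (P.lf 0 6132098 0) (P.cons (P.lf 356702 0 0) (P.cons (P.lf 143782 0 0) (P.cons (P.lf 2136 0 0) (P.cons (P.lf 0 158 0) P.nil)))))) (P.cons (P.cons (P.lf 16334486 0 0) (P.cons (P.lf 0 4669435 0) (P.cons (P.lf 226119 0 0) (P.cons (P.lf 115570 0 0) (P.cons (P.lf 3451 0 0) P.nil))))) (P.cons (P.cons (P.lf 13434489 0 0) (P.cons (P.lf 0 1028756 0) (P.cons (P.lf 7989 0 0) (P.cons (P.lf 31054 0 0) P.nil)))) (P.cons (P.cons (P.lf 0 831807 0) (P.cons (P.lf 64379 0 0) (P.cons (P.lf 0 28726 0) P.nil))) (P.cons (P.cons (P.lf 0 358216 0) (P.cons (P.lf 57447 0 0) P.nil)) (P.cons (P.cons (P.lf 0 1732 0) P.nil) P.nil)))))) 55643)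
 EL.nil))
noncomputable def S82_111_512_660_12 : EL := (EL.cons 4 (TM.mk (P.cons (P.lf 3378211968 0 0) (P.cons (P.lf 0 106440982 0) (P.cons (P.lf 0 15444026 0) (P.cons (P.lf 0 629992 0) (P.cons (P.lf 4275 0 0) (P.cons (P.lf 1953 0 0) P.nil)))))) 352)
 (EL.cons 8 (TM.mk (P.cons (P.lf 744294039 0 0) (P.cons (P.lf 171774507 0 0) (P.cons (P.lf 2395646 0 0) (P.cons (P.lf 0 321494 0) (P.cons (P.lf 0 25565 0) (P.cons (P.lf 0 650 0) P.nil)))))) 203)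
 EL.nil))
noncomputable def S82_111_512_660_13 : EL := (EL.cons 4 (TM.mk (P.cons (P.cons (P.lf 0 1644867476 0) (P.cons (P.lf 0 28581000 0) (P.cons (P.lf 1910856 0 0) (P.lf 636951 0 0)))) (P.cons (P.cons (P.lf 317768026 0 0) (P.cons (P.lf 0 18887964 0) (P.cons (P.lf 1262803 0 0) (P.lf 420933 0 0)))) (P.cons (P.cons (P.lf 24526643 0 0) (P.cons (P.lf 0 4088774 0) (P.cons (P.lf 273363 0 0) (P.lf 91120 0 0)))) (P.cons (P.cons (P.lf 0 3589875 0) (P.cons (P.lf 0 193291 0) (P.cons (P.lf 12919 0 0) P.nil))) (P.cons (P.cons (P.lf 0 430820 0) (P.cons (P.lf 44161 0 0) P.nil)) (P.cons (P.cons (P.lf 2967 0 0) P.nil) P.nil)))))) 35101)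
 (EL.cons 8 (TM.mk (P.cons (P.cons (P.lf 0 362400307 0) (P.cons (P.lf 0 6297020 0) (P.cons (P.lf 421003 0 0) (P.lf 140334 0 0)))) (P.cons (P.cons (P.lf 0 25045111 0) (P.cons (P.lf 0 5813118 0) (P.cons (P.lf 388651 0 0) (P.lf 129550 0 0)))) (P.cons (P.cons (P.lf 17949203 0 0) (P.cons (P.lf 0 2093473 0) (P.cons (P.lf 139964 0 0) (P.lf 46654 0 0)))) (P.cons (P.cons (P.lf 1221541 0 0) (P.cons (P.lf 0 354877 0) (P.cons (P.lf 23725 0 0) P.nil))) (P.cons (P.cons (P.lf 0 161522 0) (P.cons (P.lf 0 22812 0) P.nil)) (P.cons (P.cons (P.lf 0 24136 0) P.nil) P.nil)))))) 15859)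
 EL.nil))
noncomputable def S82_111_512_660_14 : EL := (EL.cons 4 (TM.mk (P.cons (P.cons (P.lf 800893798 0 0) (P.cons (P.lf 27832450 0 0) (P.cons (P.lf 0 1619003 0) (P.cons (P.lf 0 652603 0) (P.cons (P.lf 0 9696 0) (P.cons (P.lf 720 0 0) P.nil)))))) (P.cons (P.cons (P.lf 0 284210898 0) (P.cons (P.lf 13893340 0 0) (P.cons (P.lf 0 601655 0) (P.cons (P.lf 0 353377 0) (P.cons (P.lf 0 13121 0) P.nil))))) (P.cons (P.cons (P.lf 712713 0 0) (P.cons (P.lf 578315 0 0) (P.cons (P.lf 147540 0 0) (P.cons (P.lf 0 37784 0) P.nil)))) (P.cons (P.cons (P.lf 6982499 0 0) (P.cons (P.lf 0 707573 0) (P.cons (P.lf 103708 0 0) P.nil))) (P.cons (P.cons (P.lf 91498 0 0) (P.cons (P.lf 0 108402 0) P.nil)) (P.cons (P.cons (P.lf 0 101231 0) P.nil) P.nil)))))) 154078)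
 (EL.cons 8 (TM.mk (P.cons (P.cons (P.lf 176454433 0 0) (P.cons (P.lf 6132098 0 0) (P.cons (P.lf 0 356702 0) (P.cons (P.lf 0 143782 0) (P.cons (P.lf 0 2136 0) (P.cons (P.lf 158 0 0) P.nil)))))) (P.cons (P.cons (P.lf 0 16334486 0) (P.cons (P.lf 4669435 0 0) (P.cons (P.lf 0 226119 0) (P.cons (P.lf 0 115570 0) (P.cons (P.lf 0 3451 0) P.nil))))) (P.cons (P.cons (P.lf 0 13434489 0) (P.cons (P.lf 1028756 0 0) (P.cons (P.lf 0 7989 0) (P.cons (P.lf 0 31054 0) P.nil)))) (P.cons (P.cons (P.lf 831807 0 0) (P.cons (P.lf 0 64379 0) (P.cons (P.lf 28726 0 0) P.nil))) (P.cons (P.cons (P.lf 358216 0 0) (P.cons (P.lf 0 57447 0) P.nil)) (P.cons (P.cons (P.lf 1732 0 0) P.nil) P.nil)))))) 55643)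
 EL.nil))
noncomputable def S82_111_512_660_15 : EL := (EL.cons 4 (TM.mk (P.cons (P.lf 0 2834279364 0) (P.cons (P.lf 178605417 0 0) (P.cons (P.lf 23100948 0 0) (P.cons (P.lf 240588 0 0) (P.cons (P.lf 0 99717 0) (P.cons (P.lf 0 7884 0) P.nil)))))) 864)
 (EL.cons 8 (TM.mk (P.cons (P.lf 0 624453780 0) (P.cons (P.lf 0 124441411 0) (P.cons (P.lf 5385712 0 0) (P.cons (P.lf 1108363 0 0) (P.cons (P.lf 48224 0 0) (P.cons (P.lf 0 1532 0) P.nil)))))) 521)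
 EL.nil))
noncomputable def S82_111_512_660_16 : EL := (EL.cons 4 (TM.mk (P.cons (P.cons (P.lf 1380024104 0 0) (P.cons (P.lf 23979117 0 0) (P.cons (P.lf 0 1603185 0) (P.lf 0 534394 0)))) (P.cons (P.cons (P.lf 0 310085480 0) (P.cons (P.lf 15091239 0 0) (P.cons (P.lf 0 1008962 0) (P.lf 0 336320 0)))) (P.cons (P.cons (P.lf 0 18486390 0) (P.cons (P.lf 2821506 0 0) (P.cons (P.lf 0 188637 0) (P.lf 0 62878 0)))) (P.cons (P.cons (P.lf 4621685 0 0) (P.cons (P.lf 0 22833 0) (P.cons (P.lf 1528 0 0) P.nil))) (P.cons (P.cons (P.lf 412093 0 0) (P.cons (P.lf 0 60768 0) P.nil)) (P.cons (P.cons (P.lf 0 23349 0) P.nil) P.nil)))))) 40840)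
 (EL.cons 8 (TM.mk (P.cons (P.cons (P.lf 304049516 0 0) (P.cons (P.lf 5283124 0 0) (P.cons (P.lf 0 353216 0) (P.lf 0 117738 0)))) (P.cons (P.cons (P.lf 11432531 0 0) (P.cons (P.lf 4710675 0 0) (P.cons (P.lf 0 314944 0) (P.lf 0 104981 0)))) (P.cons (P.cons (P.lf 0 17111241 0) (P.cons (P.lf 1578577 0 0) (P.cons (P.lf 0 105539 0) (P.lf 0 35179 0)))) (P.cons (P.cons (P.lf 0 703137 0) (P.cons (P.lf 219114 0 0) (P.cons (P.lf 0 14648 0) P.nil))) (P.cons (P.cons (P.lf 233118 0 0) (P.cons (P.lf 825 0 0) P.nil)) (P.cons (P.cons (P.lf 23676 0 0) P.nil) P.nil)))))) 16755)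
 EL.nil))
noncomputable def S82_111_512_660_17 : EL := (EL.cons 4 (TM.mk (P.cons (P.cons (P.lf 0 671940300 0) (P.cons (P.lf 0 23351092 0) (P.cons (P.lf 1358325 0 0) (P.cons (P.lf 547525 0 0) (P.cons (P.lf 8134 0 0) (P.cons (P.lf 0 603 0) P.nil)))))) (P.cons (P.cons (P.lf 259621089 0 0) (P.cons (P.lf 0 10920598 0) (P.cons (P.lf 461983 0 0) (P.cons (P.lf 279227 0 0) (P.cons (P.lf 10752 0 0) P.nil))))) (P.cons (P.cons (P.lf 0 5039165 0) (P.cons (P.lf 0 11176 0) (P.cons (P.lf 0 145899 0) (P.cons (P.lf 19855 0 0) P.nil)))) (P.cons (P.cons (P.lf 0 6804194 0) (P.cons (P.lf 666576 0 0) (P.cons (P.lf 0 85670 0) P.nil))) (P.cons (P.cons (P.lf 65230 0 0) (P.cons (P.lf 76605 0 0) P.nil)) (P.cons (P.cons (P.lf 114157 0 0) P.nil) P.nil)))))) 148326)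
 (EL.cons 8 (TM.mk (P.cons (P.cons (P.lf 0 148043155 0) (P.cons (P.lf 0 5144756 0) (P.cons (P.lf 299268 0 0) (P.cons (P.lf 120632 0 0) (P.cons (P.lf 1792 0 0) (P.cons (P.lf 0 133 0) P.nil)))))) (P.cons (P.cons (P.lf 18368994 0 0) (P.cons (P.lf 0 3755498 0) (P.cons (P.lf 180282 0 0) (P.cons (P.lf 93161 0 0) (P.cons (P.lf 2839 0 0) P.nil))))) (P.cons (P.cons (P.lf 11516377 0 0) (P.cons (P.lf 0 716158 0) (P.cons (P.lf 0 642 0) (P.cons (P.lf 22447 0 0) P.nil)))) (P.cons (P.cons (P.lf 0 1088059 0) (P.cons (P.lf 100077 0 0) (P.cons (P.lf 0 25235 0) P.nil))) (P.cons (P.cons (P.lf 0 332822 0) (P.cons (P.lf 51165 0 0) P.nil)) (P.cons (P.cons (P.lf 9036 0 0) P.nil) P.nil)))))) 52861)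
 EL.nil))
noncomputable def S82_111_512_660_18 : EL := (EL.cons 4 (TM.mk (P.cons (P.lf 2377926426 0 0) (P.cons (P.lf 0 224771707 0) (P.cons (P.lf 0 25531065 0) (P.cons (P.lf 650420 0 0) (P.cons (P.lf 209580 0 0) (P.cons (P.lf 9701 0 0) P.nil)))))) 1817)
 (EL.cons 8 (TM.mk (P.cons (P.lf 523909239 0 0) (P.cons (P.lf 87897477 0 0) (P.cons (P.lf 0 10203278 0) (P.cons (P.lf 0 1362537 0) (P.cons (P.lf 0 9310 0) (P.cons (P.lf 8089 0 0) P.nil)))))) 965)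
 EL.nil))
noncomputable def S82_111_512_660_19 : EL := (EL.cons 4 (TM.mk (P.cons (P.cons (P.lf 0 1157823687 0) (P.cons (P.lf 0 20118192 0) (P.cons (P.lf 1345053 0 0) (P.lf 448350 0 0)))) (P.cons (P.cons (P.lf 296638807 0 0) (P.cons (P.lf 0 12027483 0) (P.cons (P.lf 804127 0 0) (P.lf 268042 0 0)))) (P.cons (P.cons (P.lf 12605952 0 0) (P.cons (P.lf 0 1876301 0) (P.cons (P.lf 125443 0 0) (P.lf 41813 0 0)))) (P.cons (P.cons (P.lf 0 5339658 0) (P.cons (P.lf 155378 0 0) (P.cons (P.lf 0 10389 0) P.nil))) (P.cons (P.cons (P.lf 0 344453 0) (P.cons (P.lf 63538 0 0) P.nil)) (P.cons (P.cons (P.lf 44977 0 0) P.nil) P.nil)))))) 45664)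
 (EL.cons 8 (TM.mk (P.cons (P.cons (P.lf 0 255093900 0) (P.cons (P.lf 0 4432478 0) (P.cons (P.lf 296344 0 0) (P.lf 98781 0 0)))) (P.cons (P.cons (P.lf 0 1554237 0) (P.cons (P.lf 0 3812541 0) (P.cons (P.lf 254897 0 0) (P.lf 84965 0 0)))) (P.cons (P.cons (P.lf 15824546 0 0) (P.cons (P.lf 0 1179617 0) (P.cons (P.lf 78865 0 0) (P.lf 26288 0 0)))) (P.cons (P.cons (P.lf 229011 0 0) (P.cons (P.lf 0 123210 0) (P.cons (P.lf 8237 0 0) P.nil))) (P.cons (P.cons (P.lf 0 278336 0) (P.cons (P.lf 11885 0 0) P.nil)) (P.cons (P.cons (P.lf 0 19235 0) P.nil) P.nil)))))) 17573)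
 EL.nil))
noncomputable def S82_111_512_660_20 : EL := (EL.cons 4 (TM.mk (P.cons (P.cons (P.lf 563749860 0 0) (P.cons (P.lf 19591286 0 0) (P.cons (P.lf 0 1139617 0) (P.cons (P.lf 0 459367 0) (P.cons (P.lf 0 6825 0) (P.cons (P.lf 506 0 0) P.nil)))))) (P.cons (P.cons (P.lf 0 235581660 0) (P.cons (P.lf 8544967 0 0) (P.cons (P.lf 0 351690 0) (P.cons (P.lf 0 219795 0) (P.cons (P.lf 0 8805 0) P.nil))))) (P.cons (P.cons (P.lf 8513586 0 0) (P.cons (P.lf 0 368871 0) (P.cons (P.lf 139830 0 0) (P.cons (P.lf 0 7177 0) P.nil)))) (P.cons (P.cons (P.lf 6466088 0 0) (P.cons (P.lf 0 605085 0) (P.cons (P.lf 70004 0 0) P.nil))) (P.cons (P.cons (P.lf 0 212590 0) (P.cons (P.lf 0 48376 0) P.nil)) (P.cons (P.cons (P.lf 0 120887 0) P.nil) P.nil)))))) 141646)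
 (EL.cons 8 (TM.mk (P.cons (P.cons (P.lf 124206433 0 0) (P.cons (P.lf 4316389 0 0) (P.cons (P.lf 0 251082 0) (P.cons (P.lf 0 101208 0) (P.cons (P.lf 0 1503 0) (P.cons (P.lf 111 0 0) P.nil)))))) (P.cons (P.cons (P.lf 0 19324872 0) (P.cons (P.lf 3014817 0 0) (P.cons (P.lf 0 143343 0) (P.cons (P.lf 0 74972 0) (P.cons (P.lf 0 2334 0) P.nil))))) (P.cons (P.cons (P.lf 0 9744349 0) (P.cons (P.lf 481839 0 0) (P.cons (P.lf 6452 0 0) (P.cons (P.lf 0 15908 0) P.nil)))) (P.cons (P.cons (P.lf 1264596 0 0) (P.cons (P.lf 0 118105 0) (P.cons (P.lf 21893 0 0) P.nil))) (P.cons (P.cons (P.lf 297674 0 0) (P.cons (P.lf 0 43610 0) P.nil)) (P.cons (P.cons (P.lf 0 18698 0) P.nil) P.nil)))))) 48874)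
 EL.nil))
noncomputable def S82_111_512_660_21 : EL := (EL.cons 4 (TM.mk (P.cons (P.cons (P.lf 0 1152316566 0) (P.cons (P.lf 85743000 0 0) (P.cons (P.lf 0 5732568 0) (P.lf 0 1910853 0)))) (P.cons (P.cons (P.lf 0 417487824 0) (P.cons (P.lf 56663892 0 0) (P.cons (P.lf 0 3788409 0) (P.lf 0 1262799 0)))) (P.cons (P.cons (P.lf 0 4277082 0) (P.cons (P.lf 12266322 0 0) (P.cons (P.lf 0 820089 0) (P.lf 0 273360 0)))) (P.cons (P.cons (P.lf 11491395 0 0) (P.cons (P.lf 579873 0 0) (P.cons (P.lf 0 38757 0) P.nil))) (P.cons (P.cons (P.lf 993306 0 0) (P.cons (P.lf 0 132483 0) P.nil)) (P.cons (P.cons (P.lf 0 32553 0) P.nil) P.nil)))))) 107688)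
 (EL.cons 8 (TM.mk (P.cons (P.cons (P.lf 1859608932 0 0) (P.cons (P.lf 0 138372099 0) (P.cons (P.lf 9251238 0 0) (P.lf 3083745 0 0)))) (P.cons (P.cons (P.lf 185972967 0 0) (P.cons (P.lf 0 55149702 0) (P.cons (P.lf 3687180 0 0) (P.lf 1229061 0 0)))) (P.cons (P.cons (P.lf 0 71733366 0) (P.cons (P.lf 0 3108300 0) (P.cons (P.lf 207813 0 0) (P.lf 69273 0 0)))) (P.cons (P.cons (P.lf 0 5429304 0) (P.cons (P.lf 966849 0 0) (P.cons (P.lf 0 64638 0) P.nil))) (P.cons (P.cons (P.lf 454563 0 0) (P.cons (P.lf 108963 0 0) P.nil)) (P.cons (P.cons (P.lf 78051 0 0) P.nil) P.nil)))))) 58284)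
 (EL.cons 11 (TM.mk (P.cons (P.cons (P.lf 358908777 0 0) (P.cons (P.lf 0 55568091 0) (P.cons (P.lf 0 26770953 0) (P.cons (P.lf 1013091 0 0) (P.lf 253272 0 0))))) (P.cons (P.cons (P.lf 165664038 0 0) (P.cons (P.lf 0 25648953 0) (P.cons (P.lf 0 12356856 0) (P.cons (P.lf 467619 0 0) (P.lf 116904 0 0))))) (P.cons (P.cons (P.lf 21427101 0 0) (P.cons (P.lf 0 3317451 0) (P.cons (P.lf 0 1598244 0) (P.cons (P.lf 60480 0 0) P.nil)))) (P.cons (P.cons (P.lf 223161 0 0) (P.cons (P.lf 0 34548 0) (P.cons (P.lf 0 16644 0) P.nil))) (P.cons (P.cons (P.lf 0 92493 0) (P.cons (P.lf 14319 0 0) P.nil)) (P.cons (P.cons (P.lf 0 7311 0) P.nil) P.nil)))))) 25629)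
 EL.nil)))
noncomputable def S82_111_512_660_22 : EL := (EL.cons 4 (TM.mk (P.cons (P.cons (P.lf 561068415 0 0) (P.cons (P.lf 0 31999623 0) (P.cons (P.lf 1413996 0 0) (P.cons (P.lf 810135 0 0) (P.cons (P.lf 29088 0 0) (P.cons (P.lf 0 2160 0) P.nil)))))) (P.cons (P.cons (P.lf 112563525 0 0) (P.cons (P.lf 0 10557993 0) (P.cons (P.lf 0 275772 0) (P.cons (P.lf 366552 0 0) (P.cons (P.lf 39366 0 0) P.nil))))) (P.cons (P.cons (P.lf 0 39442455 0) (P.cons (P.lf 3266160 0 0) (P.cons (P.lf 0 776985 0) (P.cons (P.lf 1902 0 0) P.nil)))) (P.cons (P.cons (P.lf 0 8427603 0) (P.cons (P.lf 1738353 0 0) (P.cons (P.lf 0 285426 0) P.nil))) (P.cons (P.cons (P.lf 731253 0 0) (P.cons (P.lf 146079 0 0) P.nil)) (P.cons (P.cons (P.lf 226179 0 0) P.nil) P.nil)))))) 331977)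
 (EL.cons 8 (TM.mk (P.cons (P.cons (P.lf 0 905452434 0) (P.cons (P.lf 51641010 0 0) (P.cons (P.lf 0 2281917 0) (P.cons (P.lf 0 1307403 0) (P.cons (P.lf 0 46944 0) (P.cons (P.lf 3486 0 0) P.nil)))))) (P.cons (P.cons (P.lf 55842003 0 0) (P.cons (P.lf 3493242 0 0) (P.cons (P.lf 1043577 0 0) (P.cons (P.lf 0 248622 0) (P.cons (P.lf 0 51213 0) P.nil))))) (P.cons (P.cons (P.lf 63541944 0 0) (P.cons (P.lf 0 7016274 0) (P.cons (P.lf 1016805 0 0) (P.cons (P.lf 83124 0 0) P.nil)))) (P.cons (P.cons (P.lf 0 2641365 0) (P.cons (P.lf 0 1096458 0) (P.cons (P.lf 180483 0 0) P.nil))) (P.cons (P.cons (P.lf 0 1468782 0) (P.cons (P.lf 152538 0 0) P.nil)) (P.cons (P.cons (P.lf 0 26568 0) P.nil) P.nil)))))) 259377)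
 (EL.cons 11 (TM.mk (P.cons (P.cons (P.lf 0 174754389 0) (P.cons (P.lf 24019857 0 0) (P.cons (P.lf 13708044 0 0) (P.cons (P.lf 0 230544 0) (P.cons (P.lf 0 157509 0) (P.cons (P.lf 0 6615 0) P.nil)))))) (P.cons (P.cons (P.lf 0 52408398 0) (P.cons (P.lf 4610178 0 0) (P.cons (P.lf 4685901 0 0) (P.cons (P.lf 155244 0 0) (P.cons (P.lf 0 76437 0) P.nil))))) (P.cons (P.cons (P.lf 5305617 0 0) (P.cons (P.lf 0 2487657 0) (P.cons (P.lf 0 26373 0) (P.cons (P.lf 159144 0 0) P.nil)))) (P.cons (P.cons (P.lf 2623212 0 0) (P.cons (P.lf 0 817959 0) (P.cons (P.lf 0 104373 0) P.nil))) (P.cons (P.cons (P.lf 97131 0 0) (P.cons (P.lf 0 67464 0) P.nil)) (P.cons (P.cons (P.lf 0 30891 0) P.nil) P.nil)))))) 181776)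
 EL.nil)))
noncomputable def S82_111_512_660_23 : EL := (EL.cons 4 (TM.mk (P.cons (P.cons (P.lf 966779790 0 0) (P.cons (P.lf 0 71937348 0) (P.cons (P.lf 4809555 0 0) (P.lf 1603182 0 0)))) (P.cons (P.cons (P.lf 319805904 0 0) (P.cons (P.lf 0 45273717 0) (P.cons (P.lf 3026889 0 0) (P.lf 1008960 0 0)))) (P.cons (P.cons (P.lf 0 11867613 0) (P.cons (P.lf 0 8464518 0) (P.cons (P.lf 565908 0 0) (P.lf 188634 0 0)))) (P.cons (P.cons (P.lf 0 11535798 0) (P.cons (P.lf 68505 0 0) (P.cons (P.lf 0 4587 0) P.nil))) (P.cons (P.cons (P.lf 0 610098 0) (P.cons (P.lf 182301 0 0) P.nil)) (P.cons (P.cons (P.lf 97977 0 0) P.nil) P.nil)))))) 127953)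
 (EL.cons 8 (TM.mk (P.cons (P.cons (P.lf 0 1560189612 0) (P.cons (P.lf 116092533 0 0) (P.cons (P.lf 0 7761675 0) (P.lf 0 2587224 0)))) (P.cons (P.cons (P.lf 0 106870506 0) (P.cons (P.lf 42612084 0 0) (P.cons (P.lf 0 2848944 0) (P.lf 0 949647 0)))) (P.cons (P.cons (P.lf 72232263 0 0) (P.cons (P.lf 619212 0 0) (P.cons (P.lf 0 41397 0) (P.lf 0 13800 0)))) (P.cons (P.cons (P.lf 3663120 0 0) (P.cons (P.lf 0 1126521 0) (P.cons (P.lf 75312 0 0) P.nil))) (P.cons (P.cons (P.lf 0 772911 0) (P.cons (P.lf 0 86262 0) P.nil)) (P.cons (P.cons (P.lf 0 86613 0) P.nil) P.nil)))))) 74895)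
 (EL.cons 11 (TM.mk (P.cons (P.cons (P.lf 0 301120161 0) (P.cons (P.lf 46620960 0 0) (P.cons (P.lf 22460508 0 0) (P.cons (P.lf 0 849969 0) (P.lf 0 212490 0))))) (P.cons (P.cons (P.lf 0 129502422 0) (P.cons (P.lf 20050227 0 0) (P.cons (P.lf 9659565 0 0) (P.cons (P.lf 0 365544 0) (P.lf 0 91383 0))))) (P.cons (P.cons (P.lf 0 12221148 0) (P.cons (P.lf 1892136 0 0) (P.cons (P.lf 911571 0 0) (P.cons (P.lf 0 34494 0) P.nil)))) (P.cons (P.cons (P.lf 1070763 0 0) (P.cons (P.lf 0 165783 0) (P.cons (P.lf 0 79869 0) P.nil))) (P.cons (P.cons (P.lf 191223 0 0) (P.cons (P.lf 0 29604 0) P.nil)) (P.cons (P.cons (P.lf 7545 0 0) P.nil) P.nil)))))) 41625)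
 EL.nil)))
noncomputable def S82_111_512_660_24 : EL := (EL.cons 4 (TM.mk (P.cons (P.cons (P.lf 0 470729679 0) (P.cons (P.lf 26847300 0 0) (P.cons (P.lf 0 1186326 0) (P.cons (P.lf 0 679695 0) (P.cons (P.lf 0 24405 0) (P.cons (P.lf 1812 0 0) P.nil)))))) (P.cons (P.cons (P.lf 0 79607661 0) (P.cons (P.lf 8012124 0 0) (P.cons (P.lf 268746 0 0) (P.cons (P.lf 0 286116 0) (P.cons (P.lf 0 32256 0) P.nil))))) (P.cons (P.cons (P.lf 38219367 0 0) (P.cons (P.lf 0 3142104 0) (P.cons (P.lf 650016 0 0) (P.cons (P.lf 11199 0 0) P.nil)))) (P.cons (P.cons (P.lf 6547530 0 0) (P.cons (P.lf 0 1417620 0) (P.cons (P.lf 218091 0 0) P.nil))) (P.cons (P.cons (P.lf 0 970563 0) (P.cons (P.lf 0 65697 0) P.nil)) (P.cons (P.cons (P.lf 0 209316 0) P.nil) P.nil)))))) 293088)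
 (EL.cons 8 (TM.mk (P.cons (P.cons (P.lf 759663741 0 0) (P.cons (P.lf 0 43326189 0) (P.cons (P.lf 1914501 0 0) (P.cons (P.lf 1096896 0 0) (P.cons (P.lf 39387 0 0) (P.cons (P.lf 0 2925 0) P.nil)))))) (P.cons (P.cons (P.lf 0 70786320 0) (P.cons (P.lf 0 1565664 0) (P.cons (P.lf 0 935868 0) (P.cons (P.lf 174030 0 0) (P.cons (P.lf 41727 0 0) P.nil))))) (P.cons (P.cons (P.lf 0 55307673 0) (P.cons (P.lf 6176985 0 0) (P.cons (P.lf 0 834252 0) (P.cons (P.lf 0 81327 0) P.nil)))) (P.cons (P.cons (P.lf 3968316 0 0) (P.cons (P.lf 755916 0 0) (P.cons (P.lf 0 120897 0) P.nil))) (P.cons (P.cons (P.lf 1415886 0 0) (P.cons (P.lf 0 183381 0) P.nil)) (P.cons (P.cons (P.lf 0 16344 0) P.nil) P.nil)))))) 226062)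
 (EL.cons 11 (TM.mk (P.cons (P.cons (P.lf 146616837 0 0) (P.cons (P.lf 0 20152371 0) (P.cons (P.lf 0 11500884 0) (P.cons (P.lf 193425 0 0) (P.cons (P.lf 132147 0 0) (P.cons (P.lf 5550 0 0) P.nil)))))) (P.cons (P.cons (P.lf 39350403 0 0) (P.cons (P.lf 0 3232920 0) (P.cons (P.lf 0 3569043 0) (P.cons (P.lf 0 136341 0) (P.cons (P.lf 59964 0 0) P.nil))))) (P.cons (P.cons (P.lf 0 6507042 0) (P.cons (P.lf 2301114 0 0) (P.cons (P.lf 198576 0 0) (P.cons (P.lf 0 130299 0) P.nil)))) (P.cons (P.cons (P.lf 0 2288946 0) (P.cons (P.lf 641937 0 0) (P.cons (P.lf 106986 0 0) P.nil))) (P.cons (P.cons (P.lf 186 0 0) (P.cons (P.lf 26133 0 0) P.nil)) (P.cons (P.cons (P.lf 39516 0 0) P.nil) P.nil)))))) 156441)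
 EL.nil)))
noncomputable def S82_111_512_660_25 : EL := (EL.cons 4 (TM.mk (P.cons (P.cons (P.lf 0 811116660 0) (P.cons (P.lf 60354573 0 0) (P.cons (P.lf 0 4035159 0) (P.lf 0 1345050 0)))) (P.cons (P.cons (P.lf 0 242756589 0) (P.cons (P.lf 36082449 0 0) (P.cons (P.lf 0 2412384 0) (P.lf 0 804123 0)))) (P.cons (P.cons (P.lf 22118970 0 0) (P.cons (P.lf 5628903 0 0) (P.cons (P.lf 0 376329 0) (P.lf 0 125439 0)))) (P.cons (P.cons (P.lf 10742577 0 0) (P.cons (P.lf 0 466140 0) (P.cons (P.lf 31173 0 0) P.nil))) (P.cons (P.cons (P.lf 210408 0 0) (P.cons (P.lf 0 190611 0) P.nil)) (P.cons (P.cons (P.lf 0 145242 0) P.nil) P.nil)))))) 132186)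
 (EL.cons 8 (TM.mk (P.cons (P.cons (P.lf 1308980388 0 0) (P.cons (P.lf 0 97400244 0) (P.cons (P.lf 6511953 0 0) (P.lf 2170650 0 0)))) (P.cons (P.cons (P.lf 48419613 0 0) (P.cons (P.lf 0 32682132 0) (P.cons (P.lf 2185050 0 0) (P.lf 728349 0 0)))) (P.cons (P.cons (P.lf 0 69411324 0) (P.cons (P.lf 1052211 0 0) (P.cons (P.lf 0 70347 0) (P.lf 0 23448 0)))) (P.cons (P.cons (P.lf 0 1817877 0) (P.cons (P.lf 1143111 0 0) (P.cons (P.lf 0 76422 0) P.nil))) (P.cons (P.cons (P.lf 1007283 0 0) (P.cons (P.lf 51513 0 0) P.nil)) (P.cons (P.cons (P.lf 78459 0 0) P.nil) P.nil)))))) 82851)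
 (EL.cons 11 (TM.mk (P.cons (P.cons (P.lf 252636207 0 0) (P.cons (P.lf 0 39114426 0) (P.cons (P.lf 0 18844095 0) (P.cons (P.lf 713115 0 0) (P.lf 178278 0 0))))) (P.cons (P.cons (P.lf 100690899 0 0) (P.cons (P.lf 0 15589479 0) (P.cons (P.lf 0 7510518 0) (P.cons (P.lf 284217 0 0) (P.lf 71052 0 0))))) (P.cons (P.cons (P.lf 5675046 0 0) (P.cons (P.lf 0 878637 0) (P.cons (P.lf 0 423300 0) (P.cons (P.lf 16017 0 0) P.nil)))) (P.cons (P.cons (P.lf 0 1765251 0) (P.cons (P.lf 273306 0 0) (P.cons (P.lf 131670 0 0) P.nil))) (P.cons (P.cons (P.lf 0 198945 0) (P.cons (P.lf 30798 0 0) P.nil)) (P.cons (P.cons (P.lf 1200 0 0) P.nil) P.nil)))))) 48468)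
 EL.nil)))
noncomputable def S82_111_512_660_26 : EL := (EL.cons 4 (TM.mk (P.cons (P.cons (P.lf 394936560 0 0) (P.cons (P.lf 0 22524561 0) (P.cons (P.lf 995313 0 0) (P.cons (P.lf 570255 0 0) (P.cons (P.lf 20475 0 0) (P.cons (P.lf 0 1521 0) P.nil)))))) (P.cons (P.cons (P.lf 54346179 0 0) (P.cons (P.lf 0 6012369 0) (P.cons (P.lf 0 256836 0) (P.cons (P.lf 222081 0 0) (P.cons (P.lf 26418 0 0) P.nil))))) (P.cons (P.cons (P.lf 0 35975526 0) (P.cons (P.lf 2950962 0 0) (P.cons (P.lf 0 542799 0) (P.cons (P.lf 0 19566 0) P.nil)))) (P.cons (P.cons (P.lf 0 4861965 0) (P.cons (P.lf 1141236 0 0) (P.cons (P.lf 0 164949 0) P.nil))) (P.cons (P.cons (P.lf 1122012 0 0) (P.cons (P.lf 6816 0 0) P.nil)) (P.cons (P.cons (P.lf 181365 0 0) P.nil) P.nil)))))) 261750)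
 (EL.cons 8 (TM.mk (P.cons (P.cons (P.lf 0 637348776 0) (P.cons (P.lf 36350151 0 0) (P.cons (P.lf 0 1606242 0) (P.cons (P.lf 0 920283 0) (P.cons (P.lf 0 33045 0) (P.cons (P.lf 2454 0 0) P.nil)))))) (P.cons (P.cons (P.lf 79470513 0 0) (P.cons (P.lf 168249 0 0) (P.cons (P.lf 835791 0 0) (P.cons (P.lf 0 117012 0) (P.cons (P.lf 0 33966 0) P.nil))))) (P.cons (P.cons (P.lf 47444985 0 0) (P.cons (P.lf 0 5389986 0) (P.cons (P.lf 682530 0 0) (P.cons (P.lf 77040 0 0) P.nil)))) (P.cons (P.cons (P.lf 0 4944072 0) (P.cons (P.lf 0 483702 0) (P.cons (P.lf 76089 0 0) P.nil))) (P.cons (P.cons (P.lf 0 1307025 0) (P.cons (P.lf 197331 0 0) P.nil)) (P.cons (P.cons (P.lf 57414 0 0) P.nil) P.nil)))))) 199434)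
 (EL.cons 11 (TM.mk (P.cons (P.cons (P.lf 0 123009771 0) (P.cons (P.lf 16907598 0 0) (P.cons (P.lf 9649104 0 0) (P.cons (P.lf 0 162279 0) (P.cons (P.lf 0 110871 0) (P.cons (P.lf 0 4656 0) P.nil)))))) (P.cons (P.cons (P.lf 0 29138715 0) (P.cons (P.lf 2179656 0 0) (P.cons (P.lf 2690358 0 0) (P.cons (P.lf 119502 0 0) (P.cons (P.lf 0 46815 0) P.nil))))) (P.cons (P.cons (P.lf 7061913 0 0) (P.cons (P.lf 0 2093364 0) (P.cons (P.lf 0 305064 0) (P.cons (P.lf 106458 0 0) P.nil)))) (P.cons (P.cons (P.lf 1922256 0 0) (P.cons (P.lf 0 493299 0) (P.cons (P.lf 0 99999 0) P.nil))) (P.cons (P.cons (P.lf 0 79620 0) (P.cons (P.lf 3384 0 0) P.nil)) (P.cons (P.cons (P.lf 0 43059 0) P.nil) P.nil)))))) 136800)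
 EL.nil)))
noncomputable def S82_111_512_660_27 : EL := (EL.cons 13 (TM.mk (P.lf 0 4294967296 0) 0)
 EL.nil)
noncomputable def S82_111_512_660_28 : EL := (EL.cons 13 (TM.mk (P.cons (P.cons (P.lf 2091240006 0 0) (P.cons (P.lf 36337112 0 0) (P.cons (P.lf 0 2429412 0) (P.lf 0 809804 0)))) (P.cons (P.cons (P.lf 0 338110709 0) (P.cons (P.lf 25158560 0 0) (P.cons (P.lf 0 1682040 0) (P.lf 0 560680 0)))) (P.cons (P.cons (P.lf 0 32275300 0) (P.cons (P.lf 6157176 0 0) (P.cons (P.lf 0 411652 0) (P.lf 0 137216 0)))) (P.cons (P.cons (P.lf 2391401 0 0) (P.cons (P.lf 561540 0 0) (P.cons (P.lf 0 37540 0) P.nil))) (P.cons (P.cons (P.lf 409831 0 0) (P.cons (P.lf 0 5660 0) P.nil)) (P.cons (P.cons (P.lf 13272 0 0) P.nil) P.nil)))))) 24741)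
 EL.nil)
noncomputable def S82_111_512_660_29 : EL := (EL.cons 13 (TM.mk (P.cons (P.cons (P.lf 0 1018234706 0) (P.cons (P.lf 0 35385425 0) (P.cons (P.lf 2058358 0 0) (P.cons (P.lf 829702 0 0) (P.cons (P.lf 12328 0 0) (P.cons (P.lf 0 916 0) P.nil)))))) (P.cons (P.cons (P.lf 329255424 0 0) (P.cons (P.lf 0 18778545 0) (P.cons (P.lf 829784 0 0) (P.cons (P.lf 475418 0 0) (P.cons (P.lf 17071 0 0) P.nil))))) (P.cons (P.cons (P.lf 4813062 0 0) (P.cons (P.lf 0 1488701 0) (P.cons (P.lf 0 152025 0) (P.cons (P.lf 66811 0 0) P.nil)))) (P.cons (P.cons (P.lf 0 7410355 0) (P.cons (P.lf 760236 0 0) (P.cons (P.lf 0 132465 0) P.nil))) (P.cons (P.cons (P.lf 0 265121 0) (P.cons (P.lf 151511 0 0) P.nil)) (P.cons (P.cons (P.lf 87542 0 0) P.nil) P.nil)))))) 163057)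
 EL.nil)
noncomputable def S82_111_512_660_30 : EL := (EL.cons 13 (TM.mk (P.cons (P.lf 3603426100 0 0) (P.cons (P.lf 0 113537048 0) (P.cons (P.lf 0 16473628 0) (P.cons (P.lf 0 671992 0) (P.cons (P.lf 4560 0 0) (P.cons (P.lf 2084 0 0) P.nil)))))) 368)
 EL.nil)
noncomputable def S82_111_512_660_31 : EL := (EL.cons 13 (TM.mk (P.cons (P.cons (P.lf 0 1754525308 0) (P.cons (P.lf 0 30486401 0) (P.cons (P.lf 2038247 0 0) (P.lf 679415 0 0)))) (P.cons (P.cons (P.lf 338952562 0 0) (P.cons (P.lf 0 20147162 0) (P.cons (P.lf 1346990 0 0) (P.lf 448996 0 0)))) (P.cons (P.cons (P.lf 26161753 0 0) (P.cons (P.lf 0 4361359 0) (P.cons (P.lf 291588 0 0) (P.lf 97195 0 0)))) (P.cons (P.cons (P.lf 0 3829200 0) (P.cons (P.lf 0 206178 0) (P.cons (P.lf 13781 0 0) P.nil))) (P.cons (P.cons (P.lf 0 459542 0) (P.cons (P.lf 47106 0 0) P.nil)) (P.cons (P.cons (P.lf 3165 0 0) P.nil) P.nil)))))) 37421)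
 EL.nil)
noncomputable def S82_111_512_660_32 : EL := (EL.cons 13 (TM.mk (P.cons (P.cons (P.lf 854286718 0 0) (P.cons (P.lf 29687947 0 0) (P.cons (P.lf 0 1726937 0) (P.cons (P.lf 0 696110 0) (P.cons (P.lf 0 10343 0) (P.cons (P.lf 768 0 0) P.nil)))))) (P.cons (P.cons (P.lf 0 303158292 0) (P.cons (P.lf 14819563 0 0) (P.cons (P.lf 0 641766 0) (P.cons (P.lf 0 376936 0) (P.cons (P.lf 0 13996 0) P.nil))))) (P.cons (P.cons (P.lf 760228 0 0) (P.cons (P.lf 616870 0 0) (P.cons (P.lf 157377 0 0) (P.cons (P.lf 0 40303 0) P.nil)))) (P.cons (P.cons (P.lf 7447999 0 0) (P.cons (P.lf 0 754745 0) (P.cons (P.lf 110622 0 0) P.nil))) (P.cons (P.cons (P.lf 97598 0 0) (P.cons (P.lf 0 115629 0) P.nil)) (P.cons (P.cons (P.lf 0 107980 0) P.nil) P.nil)))))) 164327)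
 EL.nil)
noncomputable def S82_111_512_660_33 : EL := (EL.cons 14 (TM.mk (P.lf 8589934592 0 0) 0)
 EL.nil)
noncomputable def S82_111_512_660_34 : EL := (EL.cons 14 (TM.mk (P.cons (P.cons (P.lf 0 4182480012 0) (P.cons (P.lf 0 72674224 0) (P.cons (P.lf 4858824 0 0) (P.lf 1619608 0 0)))) (P.cons (P.cons (P.lf 676221418 0 0) (P.cons (P.lf 0 50317120 0) (P.cons (P.lf 3364080 0 0) (P.lf 1121360 0 0)))) (P.cons (P.cons (P.lf 64550600 0 0) (P.cons (P.lf 0 12314352 0) (P.cons (P.lf 823304 0 0) (P.lf 274432 0 0)))) (P.cons (P.cons (P.lf 0 4782802 0) (P.cons (P.lf 0 1123080 0) (P.cons (P.lf 75080 0 0) P.nil))) (P.cons (P.cons (P.lf 0 819662 0) (P.cons (P.lf 11320 0 0) P.nil)) (P.cons (P.cons (P.lf 0 26544 0) P.nil) P.nil)))))) 49482)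
 EL.nil)
noncomputable def S82_111_512_660_35 : EL := (EL.cons 14 (TM.mk (P.cons (P.cons (P.lf 2036469412 0 0) (P.cons (P.lf 70770850 0 0) (P.cons (P.lf 0 4116716 0) (P.cons (P.lf 0 1659404 0) (P.cons (P.lf 0 24656 0) (P.cons (P.lf 1832 0 0) P.nil)))))) (P.cons (P.cons (P.lf 0 658510848 0) (P.cons (P.lf 37557090 0 0) (P.cons (P.lf 0 1659568 0) (P.cons (P.lf 0 950836 0) (P.cons (P.lf 0 34142 0) P.nil))))) (P.cons (P.cons (P.lf 0 9626124 0) (P.cons (P.lf 2977402 0 0) (P.cons (P.lf 304050 0 0) (P.cons (P.lf 0 133622 0) P.nil)))) (P.cons (P.cons (P.lf 14820710 0 0) (P.cons (P.lf 0 1520472 0) (P.cons (P.lf 264930 0 0) P.nil))) (P.cons (P.cons (P.lf 530242 0 0) (P.cons (P.lf 0 303022 0) P.nil)) (P.cons (P.cons (P.lf 0 175084 0) P.nil) P.nil)))))) 326114)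
 EL.nil)
noncomputable def S82_111_512_660_36 : EL := (EL.cons 14 (TM.mk (P.cons (P.lf 0 7206852200 0) (P.cons (P.lf 227074096 0 0) (P.cons (P.lf 32947256 0 0) (P.cons (P.lf 1343984 0 0) (P.cons (P.lf 0 9120 0) (P.cons (P.lf 0 4168 0) P.nil)))))) 736)
 EL.nil)
noncomputable def S82_111_512_660_37 : EL := (EL.cons 14 (TM.mk (P.cons (P.cons (P.lf 3509050616 0 0) (P.cons (P.lf 60972802 0 0) (P.cons (P.lf 0 4076494 0) (P.lf 0 1358830 0)))) (P.cons (P.cons (P.lf 0 677905124 0) (P.cons (P.lf 40294324 0 0) (P.cons (P.lf 0 2693980 0) (P.lf 0 897992 0)))) (P.cons (P.cons (P.lf 0 52323506 0) (P.cons (P.lf 8722718 0 0) (P.cons (P.lf 0 583176 0) (P.lf 0 194390 0)))) (P.cons (P.cons (P.lf 7658400 0 0) (P.cons (P.lf 412356 0 0) (P.cons (P.lf 0 27562 0) P.nil))) (P.cons (P.cons (P.lf 919084 0 0) (P.cons (P.lf 0 94212 0) P.nil)) (P.cons (P.cons (P.lf 0 6330 0) P.nil) P.nil))))))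 74842)
 EL.nil)
noncomputable def S82_111_512_660_38 : EL := (EL.cons 14 (TM.mk (P.cons (P.cons (P.lf 0 1708573436 0) (P.cons (P.lf 0 59375894 0) (P.cons (P.lf 3453874 0 0) (P.cons (P.lf 1392220 0 0) (P.cons (P.lf 20686 0 0) (P.cons (P.lf 0 1536 0) P.nil)))))) (P.cons (P.cons (P.lf 606316584 0 0) (P.cons (P.lf 0 29639126 0) (P.cons (P.lf 1283532 0 0) (P.cons (P.lf 753872 0 0) (P.cons (P.lf 27992 0 0) P.nil))))) (P.cons (P.cons (P.lf 0 1520456 0) (P.cons (P.lf 0 1233740 0) (P.cons (P.lf 0 314754 0) (P.cons (P.lf 80606 0 0) P.nil)))) (P.cons (P.cons (P.lf 0 14895998 0) (P.cons (P.lf 1509490 0 0) (P.cons (P.lf 0 221244 0) P.nil))) (P.cons (P.cons (P.lf 0 195196 0) (P.cons (P.lf 231258 0 0) P.nil)) (P.cons (P.cons (P.lf 215960 0 0) P.nil) P.nil)))))) 328654)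
 EL.nil)
noncomputable def S82_111_512_660_39 : EL := (EL.cons 14 (TM.mk (P.cons (P.lf 6046462644 0 0) (P.cons (P.lf 0 381024890 0) (P.cons (P.lf 0 49282024 0) (P.cons (P.lf 0 513256 0) (P.cons (P.lf 212730 0 0) (P.cons (P.lf 16820 0 0) P.nil)))))) 1830)
 EL.nil)
noncomputable def S82_111_512_660_40 : EL := (EL.cons 14 (TM.mk (P.cons (P.cons (P.lf 0 2944051422 0) (P.cons (P.lf 0 51155450 0) (P.cons (P.lf 3420130 0 0) (P.lf 1140042 0 0)))) (P.cons (P.cons (P.lf 661515692 0 0) (P.cons (P.lf 0 32194644 0) (P.cons (P.lf 2152454 0 0) (P.lf 717484 0 0)))) (P.cons (P.cons (P.lf 39437632 0 0) (P.cons (P.lf 0 6019214 0) (P.cons (P.lf 402426 0 0) (P.lf 134140 0 0)))) (P.cons (P.cons (P.lf 0 9859596 0) (P.cons (P.lf 48712 0 0) (P.cons (P.lf 0 3260 0) P.nil))) (P.cons (P.cons (P.lf 0 879132 0) (P.cons (P.lf 129640 0 0) P.nil)) (P.cons (P.cons (P.lf 49812 0 0) P.nil) P.nil))))))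 87086)
 EL.nil)
noncomputable def S82_111_512_660_41 : EL := (EL.cons 14 (TM.mk (P.cons (P.cons (P.lf 1433472640 0 0) (P.cons (P.lf 49815664 0 0) (P.cons (P.lf 0 2897760 0) (P.cons (P.lf 0 1168054 0) (P.cons (P.lf 0 17354 0) (P.cons (P.lf 1288 0 0) P.nil)))))) (P.cons (P.cons (P.lf 0 553858324 0) (P.cons (P.lf 23297276 0 0) (P.cons (P.lf 0 985564 0) (P.cons (P.lf 0 595686 0) (P.cons (P.lf 0 22938 0) P.nil))))) (P.cons (P.cons (P.lf 10750220 0 0) (P.cons (P.lf 23844 0 0) (P.cons (P.lf 311252 0 0) (P.cons (P.lf 0 42358 0) P.nil)))) (P.cons (P.cons (P.lf 14515614 0 0) (P.cons (P.lf 0 1422030 0) (P.cons (P.lf 182764 0 0) P.nil))) (P.cons (P.cons (P.lf 0 139158 0) (P.cons (P.lf 0 163426 0) P.nil)) (P.cons (P.cons (P.lf 0 243536 0) P.nil) P.nil)))))) 316382)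
 EL.nil)
noncomputable def S82_111_512_660_42 : EL := (EL.cons 14 (TM.mk (P.cons (P.lf 0 5072909710 0) (P.cons (P.lf 479512976 0 0) (P.cons (P.lf 54466274 0 0) (P.cons (P.lf 0 1387564 0) (P.cons (P.lf 0 447104 0) (P.cons (P.lf 0 20696 0) P.nil)))))) 3862)
 EL.nil)
noncomputable def S82_111_512_660_43 : EL := (EL.cons 14 (TM.mk (P.cons (P.cons (P.lf 2470023866 0 0) (P.cons (P.lf 42918810 0 0) (P.cons (P.lf 0 2869448 0) (P.lf 0 956482 0)))) (P.cons (P.cons (P.lf 0 632829456 0) (P.cons (P.lf 25658632 0 0) (P.cons (P.lf 0 1715472 0) (P.lf 0 571824 0)))) (P.cons (P.cons (P.lf 0 26892698 0) (P.cons (P.lf 4002776 0 0) (P.cons (P.lf 0 267612 0) (P.lf 0 89202 0)))) (P.cons (P.cons (P.lf 11391272 0 0) (P.cons (P.lf 0 331474 0) (P.cons (P.lf 22164 0 0) P.nil))) (P.cons (P.cons (P.lf 734834 0 0) (P.cons (P.lf 0 135548 0) P.nil)) (P.cons (P.cons (P.lf 0 95952 0) P.nil) P.nil))))))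 97376)
 EL.nil)
noncomputable def S82_111_512_660_44 : EL := (EL.cons 14 (TM.mk (P.cons (P.cons (P.lf 0 1202666368 0) (P.cons (P.lf 0 41794744 0) (P.cons (P.lf 2431184 0 0) (P.cons (P.lf 979984 0 0) (P.cons (P.lf 14560 0 0) (P.cons (P.lf 0 1080 0) P.nil)))))) (P.cons (P.cons (P.lf 502574208 0 0) (P.cons (P.lf 0 18229264 0) (P.cons (P.lf 750274 0 0) (P.cons (P.lf 468896 0 0) (P.cons (P.lf 18786 0 0) P.nil))))) (P.cons (P.cons (P.lf 0 18162318 0) (P.cons (P.lf 786926 0 0) (P.cons (P.lf 0 298304 0) (P.cons (P.lf 15312 0 0) P.nil)))) (P.cons (P.cons (P.lf 0 13794322 0) (P.cons (P.lf 1290848 0 0) (P.cons (P.lf 0 149342 0) P.nil))) (P.cons (P.cons (P.lf 453526 0 0) (P.cons (P.lf 103204 0 0) P.nil)) (P.cons (P.cons (P.lf 257894 0 0) P.nil) P.nil)))))) 302132)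
 EL.nil)
noncomputable def S82_111_512_660_45 : EL := (EL.cons 14 (TM.mk (P.cons (P.cons (P.lf 0 991566642 0) (P.cons (P.lf 0 51687994 0) (P.cons (P.lf 2557610 0 0) (P.cons (P.lf 1266802 0 0) (P.cons (P.lf 37058 0 0) (P.cons (P.lf 0 2398 0) P.nil)))))) (P.cons (P.cons (P.lf 480948096 0 0) (P.cons (P.lf 0 19073198 0) (P.cons (P.lf 176734 0 0) (P.cons (P.lf 561136 0 0) (P.cons (P.lf 46216 0 0) P.nil))))) (P.cons (P.cons (P.lf 0 31849222 0) (P.cons (P.lf 3058046 0 0) (P.cons (P.lf 0 724418 0) (P.cons (P.lf 0 8752 0) P.nil)))) (P.cons (P.cons (P.lf 0 14056452 0) (P.cons (P.lf 1826308 0 0) (P.cons (P.lf 0 223610 0) P.nil))) (P.cons (P.cons (P.lf 1008540 0 0) (P.cons (P.lf 33834 0 0) P.nil)) (P.cons (P.cons (P.lf 300266 0 0) P.nil) P.nil)))))) 484112)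
 EL.nil)
noncomputable def S82_111_512_660_46 : EL := (EL.cons 15 (TM.mk (P.lf 4294967296 0 0) 0)
 EL.nil)
noncomputable def S82_111_512_660_47 : EL := (EL.cons 15 (TM.mk (P.cons (P.cons (P.lf 0 2091240006 0) (P.cons (P.lf 0 36337112 0) (P.cons (P.lf 2429412 0 0) (P.lf 809804 0 0)))) (P.cons (P.cons (P.lf 338110709 0 0) (P.cons (P.lf 0 25158560 0) (P.cons (P.lf 1682040 0 0) (P.lf 560680 0 0)))) (P.cons (P.cons (P.lf 32275300 0 0) (P.cons (P.lf 0 6157176 0) (P.cons (P.lf 411652 0 0) (P.lf 137216 0 0)))) (P.cons (P.cons (P.lf 0 2391401 0) (P.cons (P.lf 0 561540 0) (P.cons (P.lf 37540 0 0) P.nil))) (P.cons (P.cons (P.lf 0 409831 0) (P.cons (P.lf 5660 0 0) P.nil)) (P.cons (P.cons (P.lf 0 13272 0) P.nil) P.nil)))))) 24741)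
 EL.nil)
noncomputable def S82_111_512_660_48 : EL := (EL.cons 15 (TM.mk (P.cons (P.cons (P.lf 1018234706 0 0) (P.cons (P.lf 35385425 0 0) (P.cons (P.lf 0 2058358 0) (P.cons (P.lf 0 829702 0) (P.cons (P.lf 0 12328 0) (P.cons (P.lf 916 0 0) P.nil)))))) (P.cons (P.cons (P.lf 0 329255424 0) (P.cons (P.lf 18778545 0 0) (P.cons (P.lf 0 829784 0) (P.cons (P.lf 0 475418 0) (P.cons (P.lf 0 17071 0) P.nil))))) (P.cons (P.cons (P.lf 0 4813062 0) (P.cons (P.lf 1488701 0 0) (P.cons (P.lf 152025 0 0) (P.cons (P.lf 0 66811 0) P.nil)))) (P.cons (P.cons (P.lf 7410355 0 0) (P.cons (P.lf 0 760236 0) (P.cons (P.lf 132465 0 0) P.nil))) (P.cons (P.cons (P.lf 265121 0 0) (P.cons (P.lf 0 151511 0) P.nil)) (P.cons (P.cons (P.lf 0 87542 0) P.nil) P.nil)))))) 163057)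
 EL.nil)
noncomputable def S82_111_512_660 : SL := (SL.cons S82_111_512_660_0 (SL.cons S82_111_512_660_1 (SL.cons S82_111_512_660_2 (SL.cons S82_111_512_660_3 (SL.cons S82_111_512_660_4 (SL.cons S82_111_512_660_5 (SL.cons S82_111_512_660_6 (SL.cons S82_111_512_660_7 (SL.cons S82_111_512_660_8 (SL.cons S82_111_512_660_9 (SL.cons S82_111_512_660_10 (SL.cons S82_111_512_660_11 (SL.cons S82_111_512_660_12 (SL.cons S82_111_512_660_13 (SL.cons S82_111_512_660_14 (SL.cons S82_111_512_660_15 (SL.cons S82_111_512_660_16 (SL.cons S82_111_512_660_17 (SL.cons S82_111_512_660_18 (SL.cons S82_111_512_660_19 (SL.cons S82_111_512_660_20 (SL.cons S82_111_512_660_21 (SL.cons S82_111_512_660_22 (SL.cons S82_111_512_660_23 (SL.cons S82_111_512_660_24 (SL.cons S82_111_512_660_25 (SL.cons S82_111_512_660_26 (SL.cons S82_111_512_660_27 (SL.cons S82_111_512_660_28 (SL.cons S82_111_512_660_29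 (SL.cons S82_111_512_660_30 (SL.cons S82_111_512_660_31 (SL.cons S82_111_512_660_32 (SL.cons S82_111_512_660_33 (SL.cons S82_111_512_660_34 (SL.cons S82_111_512_660_35 (SL.cons S82_111_512_660_36 (SL.cons S82_111_512_660_37 (SL.cons S82_111_512_660_38 (SL.cons S82_111_512_660_39 (SL.cons S82_111_512_660_40 (SL.cons S82_111_512_660_41 (SL.cons S82_111_512_660_42 (SL.cons S82_111_512_660_43 (SL.cons S82_111_512_660_44 (SL.cons S82_111_512_660_45 (SL.cons S82_111_512_660_46 (SL.cons S82_111_512_660_47 (SL.cons S82_111_512_660_48 SL.nil)))))))))))))))))))))))))))))))))))))))))))))))))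
noncomputable def S82_111_660_808_0 : EL := (EL.cons 0 (TM.mk (P.cons (P.lf 3141443055 0 0) (P.cons (P.lf 334885157 0 0) (P.cons (P.lf 43314278 0 0) (P.cons (P.lf 451103 0 0) (P.cons (P.lf 0 186969 0) (P.cons (P.lf 0 14783 0) P.nil)))))) 1615)
 (EL.cons 1 (TM.mk (P.cons (P.lf 0 1170850837 0) (P.cons (P.lf 0 233327645 0) (P.cons (P.lf 10098210 0 0) (P.cons (P.lf 2078180 0 0) (P.cons (P.lf 90420 0 0) (P.cons (P.lf 0 2872 0) P.nil)))))) 983)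
 (EL.cons 5 (TM.mk (P.cons (P.lf 6184486878 0 0) (P.cons (P.lf 0 119070280 0) (P.cons (P.lf 0 15400634 0) (P.cons (P.lf 0 160396 0) (P.cons (P.lf 66480 0 0) (P.cons (P.lf 5256 0 0) P.nil)))))) 413)
 (EL.cons 9 (TM.mk (P.lf 6442450944 0 0) 2)
 EL.nil))))
noncomputable def S82_111_660_808_1 : EL := (EL.cons 0 (TM.mk (P.cons (P.cons (P.lf 0 3173959611 0) (P.cons (P.lf 50376681 0 0) (P.cons (P.lf 0 21722992 0) (P.lf 0 2413654 0)))) (P.cons (P.cons (P.lf 0 416455543 0) (P.cons (P.lf 29607634 0 0) (P.cons (P.lf 0 12767142 0) (P.lf 0 1418562 0)))) (P.cons (P.cons (P.lf 65181526 0 0) (P.cons (P.lf 4204551 0 0) (P.cons (P.lf 0 1813035 0) (P.lf 0 201441 0)))) (P.cons (P.cons (P.lf 23602733 0 0) (P.cons (P.lf 0 593892 0) (P.cons (P.lf 256093 0 0) P.nil))) (P.cons (P.cons (P.lf 418680 0 0) (P.cons (P.lf 0 206799 0) P.nil)) (P.cons (P.cons (P.lf 0 302771 0) P.nil) P.nil))))))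 424432)
 (EL.cons 1 (TM.mk (P.cons (P.cons (P.lf 1702408751 0 0) (P.cons (P.lf 0 39105186 0) (P.cons (P.lf 16862597 0 0) (P.lf 1873623 0 0)))) (P.cons (P.cons (P.lf 0 24578588 0) (P.cons (P.lf 0 8310890 0) (P.cons (P.lf 3583748 0 0) (P.lf 398197 0 0)))) (P.cons (P.cons (P.lf 0 107283654 0) (P.cons (P.lf 3171808 0 0) (P.cons (P.lf 0 1367715 0) (P.lf 0 151963 0)))) (P.cons (P.cons (P.lf 159076 0 0) (P.cons (P.lf 968977 0 0) (P.cons (P.lf 0 417831 0) P.nil))) (P.cons (P.cons (P.lf 1960867 0 0) (P.cons (P.lf 39411 0 0) P.nil)) (P.cons (P.cons (P.lf 134691 0 0) P.nil) P.nil)))))) 174424)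
 (EL.cons 5 (TM.mk (P.cons (P.cons (P.lf 0 2522601869 0) (P.cons (P.lf 0 46644760 0) (P.cons (P.lf 20113750 0 0) (P.lf 2234854 0 0)))) (P.cons (P.cons (P.lf 656385331 0 0) (P.cons (P.lf 0 30420936 0) (P.cons (P.lf 13117850 0 0) (P.lf 1457538 0 0)))) (P.cons (P.cons (P.lf 15423366 0 0) (P.cons (P.lf 0 6363652 0) (P.cons (P.lf 2744072 0 0) (P.lf 304896 0 0)))) (P.cons (P.cons (P.lf 0 13941215 0) (P.cons (P.lf 0 232878 0) (P.cons (P.lf 100420 0 0) P.nil))) (P.cons (P.cons (P.lf 0 830626 0) (P.cons (P.lf 78000 0 0) P.nil)) (P.cons (P.cons (P.lf 96644 0 0) P.nil) P.nil)))))) 135536)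
 (EL.cons 9 (TM.mk (P.cons (P.cons (P.lf 0 3221577201 0) (P.cons (P.lf 0 25352688 0) (P.cons (P.lf 10932366 0 0) (P.lf 1214706 0 0)))) (P.cons (P.cons (P.lf 448510801 0 0) (P.cons (P.lf 0 17553324 0) (P.cons (P.lf 7569192 0 0) (P.lf 841020 0 0)))) (P.cons (P.cons (P.lf 34057956 0 0) (P.cons (P.lf 0 4295910 0) (P.cons (P.lf 1852440 0 0) (P.lf 205824 0 0)))) (P.cons (P.cons (P.lf 0 4896295 0) (P.cons (P.lf 0 391788 0) (P.cons (P.lf 168942 0 0) P.nil))) (P.cons (P.cons (P.lf 0 601552 0) (P.cons (P.lf 3948 0 0) P.nil)) (P.cons (P.cons (P.lf 0 9714 0) P.nil) P.nil)))))) 41126)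
 (EL.cons 2 (TM.mk (P.cons (P.cons (P.lf 120221116 0 0) (P.cons (P.lf 0 111997091 0) (P.cons (P.lf 0 11494541 0) (P.cons (P.lf 2390543 0 0) (P.lf 199209 0 0))))) (P.cons (P.cons (P.lf 51703365 0 0) (P.cons (P.lf 0 48166467 0) (P.cons (P.lf 0 4943444 0) (P.cons (P.lf 1028095 0 0) (P.lf 85671 0 0))))) (P.cons (P.cons (P.lf 4879248 0 0) (P.cons (P.lf 0 4545469 0) (P.cons (P.lf 0 466512 0) (P.cons (P.lf 97020 0 0) P.nil)))) (P.cons (P.cons (P.lf 0 427500 0) (P.cons (P.lf 398255 0 0) (P.cons (P.lf 40874 0 0) P.nil))) (P.cons (P.cons (P.lf 0 76342 0) (P.cons (P.lf 71119 0 0) P.nil)) (P.cons (P.cons (P.lf 0 3012 0) P.nil) P.nil)))))) 43814)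
 (EL.cons 6 (TM.mk (P.cons (P.cons (P.lf 26487342 0 0) (P.cons (P.lf 0 24675411 0) (P.cons (P.lf 0 2532498 0) (P.cons (P.lf 526689 0 0) (P.lf 43890 0 0))))) (P.cons (P.cons (P.lf 18338922 0 0) (P.cons (P.lf 0 17084403 0) (P.cons (P.lf 0 1753413 0) (P.cons (P.lf 364659 0 0) (P.lf 30387 0 0))))) (P.cons (P.cons (P.lf 4488174 0 0) (P.cons (P.lf 0 4181148 0) (P.cons (P.lf 0 429120 0) (P.cons (P.lf 89244 0 0) P.nil)))) (P.cons (P.cons (P.lf 409326 0 0) (P.cons (P.lf 0 381324 0) (P.cons (P.lf 0 39135 0) P.nil))) (P.cons (P.cons (P.lf 0 4125 0) (P.cons (P.lf 3843 0 0) P.nil)) (P.cons (P.cons (P.lf 0 3186 0) P.nil) P.nil)))))) 23442)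
 EL.nil))))))
noncomputable def S82_111_660_808_2 : EL := (EL.cons 0 (TM.mk (P.cons (P.cons (P.lf 2388773889 0 0) (P.cons (P.lf 0 37765224 0) (P.cons (P.lf 15839649 0 0) (P.cons (P.lf 2193310 0 0) (P.cons (P.lf 0 40109 0) (P.cons (P.lf 0 18385 0) P.nil)))))) (P.cons (P.cons (P.lf 109556738 0 0) (P.cons (P.lf 0 10180060 0) (P.cons (P.lf 3809663 0 0) (P.cons (P.lf 988029 0 0) (P.cons (P.lf 0 52275 0) P.nil))))) (P.cons (P.cons (P.lf 0 142863348 0) (P.cons (P.lf 4767278 0 0) (P.cons (P.lf 0 2364977 0) (P.cons (P.lf 38300 0 0) P.nil)))) (P.cons (P.cons (P.lf 0 15758046 0) (P.cons (P.lf 1810207 0 0) (P.cons (P.lf 0 862532 0) P.nil))) (P.cons (P.cons (P.lf 4329997 0 0) (P.cons (P.lf 0 15083 0) P.nil)) (P.cons (P.cons (P.lf 581139 0 0) P.nil) P.nil)))))) 1789874)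
 (EL.cons 1 (TM.mk (P.cons (P.cons (P.lf 0 1409818005 0) (P.cons (P.lf 30318733 0 0) (P.cons (P.lf 0 12747868 0) (P.cons (P.lf 0 1733718 0) (P.cons (P.lf 29375 0 0) (P.cons (P.lf 13466 0 0) P.nil)))))) (P.cons (P.cons (P.lf 238441394 0 0) (P.cons (P.lf 0 2749243 0) (P.cons (P.lf 1492730 0 0) (P.cons (P.lf 0 133242 0) (P.cons (P.lf 27690 0 0) P.nil))))) (P.cons (P.cons (P.lf 102586355 0 0) (P.cons (P.lf 0 5278711 0) (P.cons (P.lf 2368390 0 0) (P.cons (P.lf 173423 0 0) P.nil)))) (P.cons (P.cons (P.lf 0 16111932 0) (P.cons (P.lf 0 183809 0) (P.cons (P.lf 77712 0 0) P.nil))) (P.cons (P.cons (P.lf 0 2860006 0) (P.cons (P.lf 247476 0 0) P.nil)) (P.cons (P.cons (P.lf 276091 0 0) P.nil) P.nil)))))) 767494)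
 (EL.cons 5 (TM.mk (P.cons (P.cons (P.lf 976417935 0 0) (P.cons (P.lf 42163827 0 0) (P.cons (P.lf 0 17910167 0) (P.cons (P.lf 0 2254177 0) (P.cons (P.lf 24449 0 0) (P.cons (P.lf 11206 0 0) P.nil)))))) (P.cons (P.cons (P.lf 0 547321259 0) (P.cons (P.lf 19514849 0 0) (P.cons (P.lf 0 8052187 0) (P.cons (P.lf 0 1247903 0) (P.cons (P.lf 32690 0 0) P.nil))))) (P.cons (P.cons (P.lf 47580318 0 0) (P.cons (P.lf 100484 0 0) (P.cons (P.lf 159158 0 0) (P.cons (P.lf 0 179432 0) P.nil)))) (P.cons (P.cons (P.lf 16526975 0 0) (P.cons (P.lf 0 1044104 0) (P.cons (P.lf 509390 0 0) P.nil))) (P.cons (P.cons (P.lf 0 1426294 0) (P.cons (P.lf 0 76810 0) P.nil)) (P.cons (P.cons (P.lf 0 349209 0) P.nil) P.nil)))))) 603442)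
 (EL.cons 9 (TM.mk (P.cons (P.cons (P.lf 1610964483 0 0) (P.cons (P.lf 25355455 0 0) (P.cons (P.lf 0 10833789 0) (P.cons (P.lf 0 1300881 0) (P.cons (P.lf 8991 0 0) (P.cons (P.lf 4122 0 0) P.nil)))))) (P.cons (P.cons (P.lf 0 448559773 0) (P.cons (P.lf 14025231 0 0) (P.cons (P.lf 0 5909685 0) (P.cons (P.lf 0 791127 0) (P.cons (P.lf 12450 0 0) P.nil))))) (P.cons (P.cons (P.lf 0 2837232 0) (P.cons (P.lf 1584268 0 0) (P.cons (P.lf 0 601512 0) (P.cons (P.lf 0 146308 0) P.nil)))) (P.cons (P.cons (P.lf 9638925 0 0) (P.cons (P.lf 0 353368 0) (P.cons (P.lf 178870 0 0) P.nil))) (P.cons (P.cons (P.lf 99924 0 0) (P.cons (P.lf 0 72504 0) P.nil)) (P.cons (P.cons (P.lf 0 125811 0) P.nil) P.nil)))))) 260036)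
 (EL.cons 2 (TM.mk (P.cons (P.cons (P.lf 0 120234245 0) (P.cons (P.lf 111063116 0 0) (P.cons (P.lf 12785281 0 0) (P.cons (P.lf 0 2635098 0) (P.cons (P.lf 0 299289 0) (P.cons (P.lf 2210 0 0) P.nil)))))) (P.cons (P.cons (P.lf 0 34969893 0) (P.cons (P.lf 31515637 0 0) (P.cons (P.lf 4790891 0 0) (P.cons (P.lf 0 969564 0) (P.cons (P.lf 0 170251 0) P.nil))))) (P.cons (P.cons (P.lf 3590285 0 0) (P.cons (P.lf 0 3825157 0) (P.cons (P.lf 311518 0 0) (P.cons (P.lf 0 52661 0) P.nil)))) (P.cons (P.cons (P.lf 1470830 0 0) (P.cons (P.lf 0 1477018 0) (P.cons (P.lf 4910 0 0) P.nil))) (P.cons (P.cons (P.lf 0 32619 0) (P.cons (P.lf 20671 0 0) P.nil)) (P.cons (P.cons (P.lf 0 29565 0) P.nil) P.nil)))))) 341797)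
 (EL.cons 6 (TM.mk (P.cons (P.cons (P.lf 0 26490234 0) (P.cons (P.lf 24469632 0 0) (P.cons (P.lf 2816874 0 0) (P.cons (P.lf 0 580566 0) (P.cons (P.lf 0 65934 0) (P.cons (P.lf 486 0 0) P.nil)))))) (P.cons (P.cons (P.lf 0 14652930 0) (P.cons (P.lf 13361886 0 0) (P.cons (P.lf 1794390 0 0) (P.cons (P.lf 0 365898 0) (P.cons (P.lf 0 54804 0) P.nil))))) (P.cons (P.cons (P.lf 0 1655172 0) (P.cons (P.lf 1371366 0 0) (P.cons (P.lf 390720 0 0) (P.cons (P.lf 0 76950 0) P.nil)))) (P.cons (P.cons (P.lf 369174 0 0) (P.cons (P.lf 0 399276 0) (P.cons (P.lf 40140 0 0) P.nil))) (P.cons (P.cons (P.lf 75750 0 0) (P.cons (P.lf 0 80946 0) P.nil)) (P.cons (P.cons (P.lf 0 3384 0) P.nil) P.nil)))))) 116022)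
 EL.nil))))))
noncomputable def S82_111_660_808_3 : EL := (EL.cons 0 (TM.mk (P.cons (P.lf 5314273808 0 0) (P.cons (P.lf 0 334885157 0) (P.cons (P.lf 0 43314278 0) (P.cons (P.lf 0 451103 0) (P.cons (P.lf 186969 0 0) (P.cons (P.lf 14783 0 0) P.nil)))))) 1615)
 (EL.cons 1 (TM.mk (P.cons (P.lf 1170850837 0 0) (P.cons (P.lf 233327645 0 0) (P.cons (P.lf 0 10098210 0) (P.cons (P.lf 0 2078180 0) (P.cons (P.lf 0 90420 0) (P.cons (P.lf 2872 0 0) P.nil)))))) 983)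
 (EL.cons 5 (TM.mk (P.cons (P.lf 257964066 0 0) (P.cons (P.lf 119070280 0 0) (P.cons (P.lf 15400634 0 0) (P.cons (P.lf 160396 0 0) (P.cons (P.lf 0 66480 0) (P.cons (P.lf 0 5256 0) P.nil)))))) 406)
 EL.nil)))
noncomputable def S82_111_660_808_4 : EL := (EL.cons 0 (TM.mk (P.cons (P.cons (P.lf 0 2657427038 0) (P.cons (P.lf 0 20913022 0) (P.cons (P.lf 9017931 0 0) (P.lf 1001990 0 0)))) (P.cons (P.cons (P.lf 537430181 0 0) (P.cons (P.lf 0 13161594 0) (P.cons (P.lf 5675428 0 0) (P.lf 630601 0 0)))) (P.cons (P.cons (P.lf 26439314 0 0) (P.cons (P.lf 0 2460733 0) (P.cons (P.lf 1061091 0 0) (P.lf 117896 0 0)))) (P.cons (P.cons (P.lf 0 8599120 0) (P.cons (P.lf 19916 0 0) (P.cons (P.lf 0 8588 0) P.nil))) (P.cons (P.cons (P.lf 0 595576 0) (P.cons (P.lf 52996 0 0) P.nil)) (P.cons (P.cons (P.lf 59414 0 0) P.nil) P.nil)))))) 90191)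
 (EL.cons 1 (TM.mk (P.cons (P.cons (P.lf 0 585489341 0) (P.cons (P.lf 0 4607595 0) (P.cons (P.lf 1986847 0 0) (P.lf 220758 0 0)))) (P.cons (P.cons (P.lf 0 35164222 0) (P.cons (P.lf 0 4108342 0) (P.cons (P.lf 1771563 0 0) (P.lf 196839 0 0)))) (P.cons (P.cons (P.lf 27483161 0 0) (P.cons (P.lf 0 1376730 0) (P.cons (P.lf 593660 0 0) (P.lf 65960 0 0)))) (P.cons (P.cons (P.lf 679816 0 0) (P.cons (P.lf 0 191096 0) (P.cons (P.lf 82402 0 0) P.nil))) (P.cons (P.cons (P.lf 0 439503 0) (P.cons (P.lf 0 720 0) P.nil)) (P.cons (P.cons (P.lf 0 34593 0) P.nil) P.nil)))))) 35396)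
 (EL.cons 5 (TM.mk (P.cons (P.cons (P.lf 0 128996116 0) (P.cons (P.lf 0 1015154 0) (P.cons (P.lf 437744 0 0) (P.lf 48638 0 0)))) (P.cons (P.cons (P.lf 0 41582688 0) (P.cons (P.lf 0 1171428 0) (P.cons (P.lf 505132 0 0) (P.lf 56124 0 0)))) (P.cons (P.cons (P.lf 1952004 0 0) (P.cons (P.lf 0 557042 0) (P.cons (P.lf 240202 0 0) (P.lf 26688 0 0)))) (P.cons (P.cons (P.lf 1425364 0 0) (P.cons (P.lf 0 137676 0) (P.cons (P.lf 59366 0 0) P.nil))) (P.cons (P.cons (P.lf 11244 0 0) (P.cons (P.lf 0 17526 0) P.nil)) (P.cons (P.cons (P.lf 0 24362 0) P.nil) P.nil)))))) 22482)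
 EL.nil)))
noncomputable def S82_111_660_808_5 : EL := (EL.cons 0 (TM.mk (P.cons (P.cons (P.lf 1328858600 0 0) (P.cons (P.lf 20915305 0 0) (P.cons (P.lf 0 8936616 0) (P.cons (P.lf 0 1073074 0) (P.cons (P.lf 7416 0 0) (P.cons (P.lf 3399 0 0) P.nil)))))) (P.cons (P.cons (P.lf 0 453749291 0) (P.cons (P.lf 10251182 0 0) (P.cons (P.lf 0 4311652 0) (P.cons (P.lf 0 584966 0) (P.cons (P.lf 9801 0 0) P.nil))))) (P.cons (P.cons (P.lf 10145271 0 0) (P.cons (P.lf 407320 0 0) (P.cons (P.lf 0 116147 0) (P.cons (P.lf 0 70816 0) P.nil)))) (P.cons (P.cons (P.lf 11001459 0 0) (P.cons (P.lf 0 469908 0) (P.cons (P.lf 219304 0 0) P.nil))) (P.cons (P.cons (P.lf 0 321377 0) (P.cons (P.lf 0 52335 0) P.nil)) (P.cons (P.cons (P.lf 0 182900 0) P.nil) P.nil)))))) 278605)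
 (EL.cons 1 (TM.mk (P.cons (P.cons (P.lf 292776635 0 0) (P.cons (P.lf 4608099 0 0) (P.cons (P.lf 0 1968931 0) (P.cons (P.lf 0 236420 0) (P.cons (P.lf 1633 0 0) (P.cons (P.lf 748 0 0) P.nil)))))) (P.cons (P.cons (P.lf 0 23176588 0) (P.cons (P.lf 3467248 0 0) (P.cons (P.lf 0 1466394 0) (P.cons (P.lf 0 190891 0) (P.cons (P.lf 2587 0 0) P.nil))))) (P.cons (P.cons (P.lf 0 19286328 0) (P.cons (P.lf 756135 0 0) (P.cons (P.lf 0 306369 0) (P.cons (P.lf 0 53203 0) P.nil)))) (P.cons (P.cons (P.lf 1832456 0 0) (P.cons (P.lf 0 37005 0) (P.cons (P.lf 23478 0 0) P.nil))) (P.cons (P.cons (P.lf 493786 0 0) (P.cons (P.lf 0 33337 0) P.nil)) (P.cons (P.cons (P.lf 0 26424 0) P.nil) P.nil)))))) 96603)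
 (EL.cons 5 (TM.mk (P.cons (P.cons (P.lf 64505100 0 0) (P.cons (P.lf 1015264 0 0) (P.cons (P.lf 0 433798 0) (P.cons (P.lf 0 52088 0) (P.cons (P.lf 358 0 0) (P.cons (P.lf 164 0 0) P.nil)))))) (P.cons (P.cons (P.lf 11813158 0 0) (P.cons (P.lf 1030210 0 0) (P.cons (P.lf 0 436862 0) (P.cons (P.lf 0 55720 0) (P.cons (P.lf 664 0 0) P.nil))))) (P.cons (P.cons (P.lf 0 4552950 0) (P.cons (P.lf 383264 0 0) (P.cons (P.lf 0 159206 0) (P.cons (P.lf 0 23588 0) P.nil)))) (P.cons (P.cons (P.lf 0 698654 0) (P.cons (P.lf 49288 0 0) (P.cons (P.lf 0 18352 0) P.nil))) (P.cons (P.cons (P.lf 147574 0 0) (P.cons (P.lf 0 5558 0) P.nil)) (P.cons (P.cons (P.lf 23094 0 0) P.nil) P.nil)))))) 30014)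
 EL.nil)))
noncomputable def S82_111_660_808_6 : EL := (EL.cons 12 (TM.mk (P.lf 8589934592 0 0) 0)
 (EL.cons 3 (TM.mk (P.cons (P.lf 0 3378211968 0) (P.cons (P.lf 106440982 0 0) (P.cons (P.lf 15444026 0 0) (P.cons (P.lf 629992 0 0) (P.cons (P.lf 0 4275 0) (P.cons (P.lf 0 1953 0) P.nil)))))) 352)
 (EL.cons 7 (TM.mk (P.cons (P.lf 0 744294039 0) (P.cons (P.lf 0 171774507 0) (P.cons (P.lf 0 2395646 0) (P.cons (P.lf 321494 0 0) (P.cons (P.lf 25565 0 0) (P.cons (P.lf 650 0 0) P.nil)))))) 203)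
 EL.nil)))
noncomputable def S82_111_660_808_7 : EL := (EL.cons 12 (TM.mk (P.cons (P.cons (P.lf 0 4295436268 0) (P.cons (P.lf 0 33803584 0) (P.cons (P.lf 14576488 0 0) (P.lf 1619608 0 0)))) (P.cons (P.cons (P.lf 598014402 0 0) (P.cons (P.lf 0 23404432 0) (P.cons (P.lf 10092256 0 0) (P.lf 1121360 0 0)))) (P.cons (P.cons (P.lf 45410608 0 0) (P.cons (P.lf 0 5727880 0) (P.cons (P.lf 2469920 0 0) (P.lf 274432 0 0)))) (P.cons (P.cons (P.lf 0 6528394 0) (P.cons (P.lf 0 522384 0) (P.cons (P.lf 225256 0 0) P.nil))) (P.cons (P.cons (P.lf 0 802070 0) (P.cons (P.lf 5264 0 0) P.nil)) (P.cons (P.cons (P.lf 0 12952 0) P.nil) P.nil)))))) 54810)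
 (EL.cons 3 (TM.mk (P.cons (P.cons (P.lf 2708338155 0 0) (P.cons (P.lf 0 26588250 0) (P.cons (P.lf 11465154 0 0) (P.lf 1273902 0 0)))) (P.cons (P.cons (P.lf 41005334 0 0) (P.cons (P.lf 0 17571038 0) (P.cons (P.lf 7576830 0 0) (P.lf 841866 0 0)))) (P.cons (P.cons (P.lf 0 32959788 0) (P.cons (P.lf 0 3803692 0) (P.cons (P.lf 1640190 0 0) (P.lf 182240 0 0)))) (P.cons (P.cons (P.lf 0 8502388 0) (P.cons (P.lf 0 179810 0) (P.cons (P.lf 77534 0 0) P.nil))) (P.cons (P.cons (P.lf 0 425204 0) (P.cons (P.lf 41080 0 0) P.nil)) (P.cons (P.cons (P.lf 48797 0 0) P.nil) P.nil)))))) 166980)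
 (EL.cons 7 (TM.mk (P.cons (P.cons (P.lf 0 1272351989 0) (P.cons (P.lf 67291196 0 0) (P.cons (P.lf 0 29016723 0) (P.lf 0 3224079 0)))) (P.cons (P.cons (P.lf 0 66174434 0) (P.cons (P.lf 28356164 0 0) (P.cons (P.lf 0 12227497 0) (P.lf 0 1358611 0)))) (P.cons (P.cons (P.lf 61869186 0 0) (P.cons (P.lf 2419545 0 0) (P.cons (P.lf 0 1043335 0) (P.lf 0 115927 0)))) (P.cons (P.cons (P.lf 3256586 0 0) (P.cons (P.lf 0 284652 0) (P.cons (P.lf 122745 0 0) P.nil))) (P.cons (P.cons (P.lf 0 426949 0) (P.cons (P.lf 0 40069 0) P.nil)) (P.cons (P.cons (P.lf 0 54895 0) P.nil) P.nil)))))) 92605)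
 (EL.cons 10 (TM.mk (P.cons (P.cons (P.lf 0 152845878 0) (P.cons (P.lf 142390074 0 0) (P.cons (P.lf 14613852 0 0) (P.cons (P.lf 0 3039273 0) (P.lf 0 253272 0))))) (P.cons (P.cons (P.lf 0 70550142 0) (P.cons (P.lf 65723982 0 0) (P.cons (P.lf 6745416 0 0) (P.cons (P.lf 0 1402857 0) (P.lf 0 116904 0))))) (P.cons (P.cons (P.lf 0 9125004 0) (P.cons (P.lf 8500785 0 0) (P.cons (P.lf 872457 0 0) (P.cons (P.lf 0 181446 0) P.nil)))) (P.cons (P.cons (P.lf 0 95034 0) (P.cons (P.lf 88533 0 0) (P.cons (P.lf 9084 0 0) P.nil))) (P.cons (P.cons (P.lf 39387 0 0) (P.cons (P.lf 0 36693 0) P.nil)) (P.cons (P.cons (P.lf 3114 0 0) P.nil) P.nil)))))) 25638)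
 EL.nil))))
noncomputable def S82_111_660_808_8 : EL := (EL.cons 12 (TM.mk (P.cons (P.cons (P.lf 2147952644 0 0) (P.cons (P.lf 33807274 0 0) (P.cons (P.lf 0 14445052 0) (P.cons (P.lf 0 1734508 0) (P.cons (P.lf 11988 0 0) (P.cons (P.lf 5496 0 0) P.nil)))))) (P.cons (P.cons (P.lf 0 598079698 0) (P.cons (P.lf 18700308 0 0) (P.cons (P.lf 0 7879580 0) (P.cons (P.lf 0 1054836 0) (P.cons (P.lf 16600 0 0) P.nil))))) (P.cons (P.cons (P.lf 0 3782976 0) (P.cons (P.lf 2112358 0 0) (P.cons (P.lf 0 802016 0) (P.cons (P.lf 0 195078 0) P.nil)))) (P.cons (P.cons (P.lf 12851900 0 0) (P.cons (P.lf 0 471158 0) (P.cons (P.lf 238494 0 0) P.nil))) (P.cons (P.cons (P.lf 133232 0 0) (P.cons (P.lf 0 96672 0) P.nil)) (P.cons (P.cons (P.lf 0 167748 0) P.nil) P.nil)))))) 346686)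
 (EL.cons 3 (TM.mk (P.cons (P.cons (P.lf 0 1863896440 0) (P.cons (P.lf 18570724 0 0) (P.cons (P.lf 0 7746328 0) (P.cons (P.lf 0 1115353 0) (P.cons (P.lf 23571 0 0) (P.cons (P.lf 10806 0 0) P.nil)))))) (P.cons (P.cons (P.lf 74262347 0 0) (P.cons (P.lf 5725173 0 0) (P.cons (P.lf 0 2114784 0) (P.cons (P.lf 0 579577 0) (P.cons (P.lf 31895 0 0) P.nil))))) (P.cons (P.cons (P.lf 69369433 0 0) (P.cons (P.lf 0 1961241 0) (P.cons (P.lf 1047145 0 0) (P.cons (P.lf 0 79745 0) P.nil)))) (P.cons (P.cons (P.lf 6249956 0 0) (P.cons (P.lf 0 880286 0) (P.cons (P.lf 440603 0 0) P.nil))) (P.cons (P.cons (P.lf 0 1730293 0) (P.cons (P.lf 0 20028 0) P.nil)) (P.cons (P.cons (P.lf 0 253883 0) P.nil) P.nil)))))) 872591)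
 (EL.cons 7 (TM.mk (P.cons (P.cons (P.lf 1458605062 0 0) (P.cons (P.lf 0 54355174 0) (P.cons (P.lf 22920473 0 0) (P.cons (P.lf 3051092 0 0) (P.cons (P.lf 0 46686 0) (P.cons (P.lf 0 21404 0) P.nil)))))) (P.cons (P.cons (P.lf 0 119844581 0) (P.cons (P.lf 0 9239298 0) (P.cons (P.lf 3412842 0 0) (P.cons (P.lf 935327 0 0) (P.cons (P.lf 0 51478 0) P.nil))))) (P.cons (P.cons (P.lf 0 96231014 0) (P.cons (P.lf 4376773 0 0) (P.cons (P.lf 0 2137464 0) (P.cons (P.lf 6038 0 0) P.nil)))) (P.cons (P.cons (P.lf 7382547 0 0) (P.cons (P.lf 704692 0 0) (P.cons (P.lf 0 355529 0) P.nil))) (P.cons (P.cons (P.lf 2156244 0 0) (P.cons (P.lf 0 138063 0) P.nil)) (P.cons (P.cons (P.lf 0 54487 0) P.nil) P.nil)))))) 627363)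
 (EL.cons 10 (TM.mk (P.cons (P.cons (P.lf 152862564 0 0) (P.cons (P.lf 0 141202644 0) (P.cons (P.lf 0 16254864 0) (P.cons (P.lf 3350196 0 0) (P.cons (P.lf 380508 0 0) (P.cons (P.lf 0 2808 0) P.nil)))))) (P.cons (P.cons (P.lf 49276182 0 0) (P.cons (P.lf 0 44517156 0) (P.cons (P.lf 0 6603168 0) (P.cons (P.lf 1338240 0 0) (P.cons (P.lf 228444 0 0) P.nil))))) (P.cons (P.cons (P.lf 0 2313156 0) (P.cons (P.lf 2815026 0 0) (P.cons (P.lf 0 678426 0) (P.cons (P.lf 124434 0 0) P.nil)))) (P.cons (P.cons (P.lf 0 1689078 0) (P.cons (P.lf 1736682 0 0) (P.cons (P.lf 0 60840 0) P.nil))) (P.cons (P.cons (P.lf 0 13320 0) (P.cons (P.lf 33180 0 0) P.nil)) (P.cons (P.cons (P.lf 28866 0 0) P.nil) P.nil)))))) 430944)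
 EL.nil))))
noncomputable def S82_111_660_808_9 : EL := (EL.cons 3 (TM.mk (P.cons (P.lf 0 3378211968 0) (P.cons (P.lf 106440982 0 0) (P.cons (P.lf 15444026 0 0) (P.cons (P.lf 629992 0 0) (P.cons (P.lf 0 4275 0) (P.cons (P.lf 0 1953 0) P.nil)))))) 352)
 (EL.cons 7 (TM.mk (P.cons (P.lf 0 744294039 0) (P.cons (P.lf 0 171774507 0) (P.cons (P.lf 0 2395646 0) (P.cons (P.lf 321494 0 0) (P.cons (P.lf 25565 0 0) (P.cons (P.lf 650 0 0) P.nil)))))) 203)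
 EL.nil))
noncomputable def S82_111_660_808_10 : EL := (EL.cons 3 (TM.mk (P.cons (P.cons (P.lf 1689290418 0 0) (P.cons (P.lf 13294125 0 0) (P.cons (P.lf 0 5732577 0) (P.lf 0 636951 0)))) (P.cons (P.cons (P.lf 0 288410794 0) (P.cons (P.lf 8785519 0 0) (P.cons (P.lf 0 3788415 0) (P.lf 0 420933 0)))) (P.cons (P.cons (P.lf 0 18171528 0) (P.cons (P.lf 1901846 0 0) (P.cons (P.lf 0 820095 0) (P.lf 0 91120 0)))) (P.cons (P.cons (P.lf 3890309 0 0) (P.cons (P.lf 89905 0 0) (P.cons (P.lf 0 38767 0) P.nil))) (P.cons (P.cons (P.lf 362179 0 0) (P.cons (P.lf 0 20540 0) P.nil)) (P.cons (P.cons (P.lf 0 12571 0) P.nil) P.nil)))))) 41144)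
 (EL.cons 7 (TM.mk (P.cons (P.cons (P.lf 372187654 0 0) (P.cons (P.lf 2928986 0 0) (P.cons (P.lf 0 1263012 0) (P.lf 0 140334 0)))) (P.cons (P.cons (P.lf 34080340 0 0) (P.cons (P.lf 2703905 0 0) (P.cons (P.lf 0 1165954 0) (P.lf 0 129550 0)))) (P.cons (P.cons (P.lf 0 14695353 0) (P.cons (P.lf 973755 0 0) (P.cons (P.lf 0 419893 0) (P.lf 0 46654 0)))) (P.cons (P.cons (P.lf 0 669961 0) (P.cons (P.lf 165066 0 0) (P.cons (P.lf 0 71178 0) P.nil))) (P.cons (P.cons (P.lf 196979 0 0) (P.cons (P.lf 10610 0 0) P.nil)) (P.cons (P.cons (P.lf 22136 0 0) P.nil) P.nil)))))) 19365)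
 EL.nil))
noncomputable def S82_111_660_808_11 : EL := (EL.cons 3 (TM.mk (P.cons (P.cons (P.lf 0 844737436 0) (P.cons (P.lf 0 13295576 0) (P.cons (P.lf 5680886 0 0) (P.cons (P.lf 682139 0 0) (P.cons (P.lf 0 4713 0) (P.cons (P.lf 0 2160 0) P.nil)))))) (P.cons (P.cons (P.lf 261826229 0 0) (P.cons (P.lf 0 6935457 0) (P.cons (P.lf 2919852 0 0) (P.cons (P.lf 393347 0 0) (P.cons (P.lf 0 6379 0) P.nil))))) (P.cons (P.cons (P.lf 0 2061419 0) (P.cons (P.lf 0 538233 0) (P.cons (P.lf 191803 0 0) (P.cons (P.lf 60529 0 0) P.nil)))) (P.cons (P.cons (P.lf 0 6018982 0) (P.cons (P.lf 247570 0 0) (P.cons (P.lf 0 118957 0) P.nil))) (P.cons (P.cons (P.lf 55121 0 0) (P.cons (P.lf 37332 0 0) P.nil)) (P.cons (P.cons (P.lf 90259 0 0) P.nil) P.nil)))))) 158335)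
 (EL.cons 7 (TM.mk (P.cons (P.cons (P.lf 0 186114146 0) (P.cons (P.lf 0 2929306 0) (P.cons (P.lf 1251623 0 0) (P.cons (P.lf 150290 0 0) (P.cons (P.lf 0 1038 0) (P.cons (P.lf 0 476 0) P.nil)))))) (P.cons (P.cons (P.lf 8868943 0 0) (P.cons (P.lf 0 2296380 0) (P.cons (P.lf 971604 0 0) (P.cons (P.lf 126083 0 0) (P.cons (P.lf 0 1678 0) P.nil))))) (P.cons (P.cons (P.lf 11688652 0 0) (P.cons (P.lf 0 566411 0) (P.cons (P.lf 231090 0 0) (P.cons (P.lf 38480 0 0) P.nil)))) (P.cons (P.cons (P.lf 0 790743 0) (P.cons (P.lf 0 5366 0) (P.cons (P.lf 0 2969 0) P.nil))) (P.cons (P.cons (P.lf 0 283482 0) (P.cons (P.lf 18009 0 0) P.nil)) (P.cons (P.cons (P.lf 6527 0 0) P.nil) P.nil)))))) 53747)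
 EL.nil))
noncomputable def S82_111_660_808_12 : EL := (EL.cons 4 (TM.mk (P.cons (P.lf 3378211968 0 0) (P.cons (P.lf 0 106440982 0) (P.cons (P.lf 0 15444026 0) (P.cons (P.lf 0 629992 0) (P.cons (P.lf 4275 0 0) (P.cons (P.lf 1953 0 0) P.nil)))))) 352)
 (EL.cons 8 (TM.mk (P.cons (P.lf 744294039 0 0) (P.cons (P.lf 171774507 0 0) (P.cons (P.lf 2395646 0 0) (P.cons (P.lf 0 321494 0) (P.cons (P.lf 0 25565 0) (P.cons (P.lf 0 650 0) P.nil)))))) 203)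
 EL.nil))
noncomputable def S82_111_660_808_13 : EL := (EL.cons 4 (TM.mk (P.cons (P.cons (P.lf 0 1689290418 0) (P.cons (P.lf 0 13294125 0) (P.cons (P.lf 5732577 0 0) (P.lf 636951 0 0)))) (P.cons (P.cons (P.lf 288410794 0 0) (P.cons (P.lf 0 8785519 0) (P.cons (P.lf 3788415 0 0) (P.lf 420933 0 0)))) (P.cons (P.cons (P.lf 18171528 0 0) (P.cons (P.lf 0 1901846 0) (P.cons (P.lf 820095 0 0) (P.lf 91120 0 0)))) (P.cons (P.cons (P.lf 0 3890309 0) (P.cons (P.lf 0 89905 0) (P.cons (P.lf 38767 0 0) P.nil))) (P.cons (P.cons (P.lf 0 362179 0) (P.cons (P.lf 20540 0 0) P.nil)) (P.cons (P.cons (P.lf 12571 0 0) P.nil) P.nil)))))) 41144)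
 (EL.cons 8 (TM.mk (P.cons (P.cons (P.lf 0 372187654 0) (P.cons (P.lf 0 2928986 0) (P.cons (P.lf 1263012 0 0) (P.lf 140334 0 0)))) (P.cons (P.cons (P.lf 0 34080340 0) (P.cons (P.lf 0 2703905 0) (P.cons (P.lf 1165954 0 0) (P.lf 129550 0 0)))) (P.cons (P.cons (P.lf 14695353 0 0) (P.cons (P.lf 0 973755 0) (P.cons (P.lf 419893 0 0) (P.lf 46654 0 0)))) (P.cons (P.cons (P.lf 669961 0 0) (P.cons (P.lf 0 165066 0) (P.cons (P.lf 71178 0 0) P.nil))) (P.cons (P.cons (P.lf 0 196979 0) (P.cons (P.lf 0 10610 0) P.nil)) (P.cons (P.cons (P.lf 0 22136 0) P.nil) P.nil)))))) 19365)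
 EL.nil))
noncomputable def S82_111_660_808_14 : EL := (EL.cons 4 (TM.mk (P.cons (P.cons (P.lf 844737436 0 0) (P.cons (P.lf 13295576 0 0) (P.cons (P.lf 0 5680886 0) (P.cons (P.lf 0 682139 0) (P.cons (P.lf 4713 0 0) (P.cons (P.lf 2160 0 0) P.nil)))))) (P.cons (P.cons (P.lf 0 261826229 0) (P.cons (P.lf 6935457 0 0) (P.cons (P.lf 0 2919852 0) (P.cons (P.lf 0 393347 0) (P.cons (P.lf 6379 0 0) P.nil))))) (P.cons (P.cons (P.lf 2061419 0 0) (P.cons (P.lf 538233 0 0) (P.cons (P.lf 0 191803 0) (P.cons (P.lf 0 60529 0) P.nil)))) (P.cons (P.cons (P.lf 6018982 0 0) (P.cons (P.lf 0 247570 0) (P.cons (P.lf 118957 0 0) P.nil))) (P.cons (P.cons (P.lf 0 55121 0) (P.cons (P.lf 0 37332 0) P.nil)) (P.cons (P.cons (P.lf 0 90259 0) P.nil) P.nil)))))) 158335)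
 (EL.cons 8 (TM.mk (P.cons (P.cons (P.lf 186114146 0 0) (P.cons (P.lf 2929306 0 0) (P.cons (P.lf 0 1251623 0) (P.cons (P.lf 0 150290 0) (P.cons (P.lf 1038 0 0) (P.cons (P.lf 476 0 0) P.nil)))))) (P.cons (P.cons (P.lf 0 8868943 0) (P.cons (P.lf 2296380 0 0) (P.cons (P.lf 0 971604 0) (P.cons (P.lf 0 126083 0) (P.cons (P.lf 1678 0 0) P.nil))))) (P.cons (P.cons (P.lf 0 11688652 0) (P.cons (P.lf 566411 0 0) (P.cons (P.lf 0 231090 0) (P.cons (P.lf 0 38480 0) P.nil)))) (P.cons (P.cons (P.lf 790743 0 0) (P.cons (P.lf 5366 0 0) (P.cons (P.lf 2969 0 0) P.nil))) (P.cons (P.cons (P.lf 283482 0 0) (P.cons (P.lf 0 18009 0) P.nil)) (P.cons (P.cons (P.lf 0 6527 0) P.nil) P.nil)))))) 53747)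
 EL.nil))
noncomputable def S82_111_660_808_15 : EL := (EL.cons 4 (TM.mk (P.cons (P.lf 0 2834279364 0) (P.cons (P.lf 178605417 0 0) (P.cons (P.lf 23100948 0 0) (P.cons (P.lf 240588 0 0) (P.cons (P.lf 0 99717 0) (P.cons (P.lf 0 7884 0) P.nil)))))) 864)
 (EL.cons 8 (TM.mk (P.cons (P.lf 0 624453780 0) (P.cons (P.lf 0 124441411 0) (P.cons (P.lf 5385712 0 0) (P.cons (P.lf 1108363 0 0) (P.cons (P.lf 48224 0 0) (P.cons (P.lf 0 1532 0) P.nil)))))) 521)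
 EL.nil))
noncomputable def S82_111_660_808_16 : EL := (EL.cons 4 (TM.mk (P.cons (P.cons (P.lf 1417294420 0 0) (P.cons (P.lf 11153611 0 0) (P.cons (P.lf 0 4809563 0) (P.lf 0 534394 0)))) (P.cons (P.cons (P.lf 0 286629430 0) (P.cons (P.lf 7019517 0 0) (P.cons (P.lf 0 3026895 0) (P.lf 0 336320 0)))) (P.cons (P.cons (P.lf 0 14100967 0) (P.cons (P.lf 1312391 0 0) (P.cons (P.lf 0 565915 0) (P.lf 0 62878 0)))) (P.cons (P.cons (P.lf 4586197 0 0) (P.cons (P.lf 0 10621 0) (P.cons (P.lf 4580 0 0) P.nil))) (P.cons (P.cons (P.lf 317640 0 0) (P.cons (P.lf 0 28264 0) P.nil)) (P.cons (P.cons (P.lf 0 31687 0) P.nil) P.nil)))))) 48110)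
 (EL.cons 8 (TM.mk (P.cons (P.cons (P.lf 312260982 0 0) (P.cons (P.lf 2457384 0 0) (P.cons (P.lf 0 1059652 0) (P.lf 0 117738 0)))) (P.cons (P.cons (P.lf 18754252 0 0) (P.cons (P.lf 2191116 0 0) (P.cons (P.lf 0 944834 0) (P.lf 0 104981 0)))) (P.cons (P.cons (P.lf 0 14657686 0) (P.cons (P.lf 734256 0 0) (P.cons (P.lf 0 316619 0) (P.lf 0 35179 0)))) (P.cons (P.cons (P.lf 0 362569 0) (P.cons (P.lf 101918 0 0) (P.cons (P.lf 0 43948 0) P.nil))) (P.cons (P.cons (P.lf 234402 0 0) (P.cons (P.lf 384 0 0) P.nil)) (P.cons (P.cons (P.lf 18450 0 0) P.nil) P.nil)))))) 18868)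
 EL.nil))
noncomputable def S82_111_660_808_17 : EL := (EL.cons 4 (TM.mk (P.cons (P.cons (P.lf 0 708724587 0) (P.cons (P.lf 0 11154829 0) (P.cons (P.lf 4766195 0 0) (P.cons (P.lf 572306 0 0) (P.cons (P.lf 0 3955 0) (P.cons (P.lf 0 1813 0) P.nil)))))) (P.cons (P.cons (P.lf 241999621 0 0) (P.cons (P.lf 0 5467297 0) (P.cons (P.lf 2299547 0 0) (P.cons (P.lf 311982 0 0) (P.cons (P.lf 0 5227 0) P.nil))))) (P.cons (P.cons (P.lf 0 5410811 0) (P.cons (P.lf 0 217237 0) (P.cons (P.lf 61945 0 0) (P.cons (P.lf 37769 0 0) P.nil)))) (P.cons (P.cons (P.lf 0 5867445 0) (P.cons (P.lf 250618 0 0) (P.cons (P.lf 0 116962 0) P.nil))) (P.cons (P.cons (P.lf 171401 0 0) (P.cons (P.lf 27912 0 0) P.nil)) (P.cons (P.cons (P.lf 97546 0 0) P.nil) P.nil)))))) 148599)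
 (EL.cons 8 (TM.mk (P.cons (P.cons (P.lf 0 156147539 0) (P.cons (P.lf 0 2457653 0) (P.cons (P.lf 1050097 0 0) (P.cons (P.lf 126091 0 0) (P.cons (P.lf 0 871 0) (P.cons (P.lf 0 399 0) P.nil)))))) (P.cons (P.cons (P.lf 12360847 0 0) (P.cons (P.lf 0 1849199 0) (P.cons (P.lf 782077 0 0) (P.cons (P.lf 101809 0 0) (P.cons (P.lf 0 1380 0) P.nil))))) (P.cons (P.cons (P.lf 10286042 0 0) (P.cons (P.lf 0 403272 0) (P.cons (P.lf 163397 0 0) (P.cons (P.lf 28375 0 0) P.nil)))) (P.cons (P.cons (P.lf 0 977310 0) (P.cons (P.lf 19736 0 0) (P.cons (P.lf 0 12522 0) P.nil))) (P.cons (P.cons (P.lf 0 263353 0) (P.cons (P.lf 17780 0 0) P.nil)) (P.cons (P.cons (P.lf 14093 0 0) P.nil) P.nil)))))) 51510)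
 EL.nil))
noncomputable def S82_111_660_808_18 : EL := (EL.cons 4 (TM.mk (P.cons (P.lf 2377926426 0 0) (P.cons (P.lf 0 224771707 0) (P.cons (P.lf 0 25531065 0) (P.cons (P.lf 650420 0 0) (P.cons (P.lf 209580 0 0) (P.cons (P.lf 9701 0 0) P.nil)))))) 1817)
 (EL.cons 8 (TM.mk (P.cons (P.lf 523909239 0 0) (P.cons (P.lf 87897477 0 0) (P.cons (P.lf 0 10203278 0) (P.cons (P.lf 0 1362537 0) (P.cons (P.lf 0 9310 0) (P.cons (P.lf 8089 0 0) P.nil)))))) 965)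
 EL.nil))
noncomputable def S82_111_660_808_19 : EL := (EL.cons 4 (TM.mk (P.cons (P.cons (P.lf 0 1189093036 0) (P.cons (P.lf 0 9357746 0) (P.cons (P.lf 4035165 0 0) (P.lf 448350 0 0)))) (P.cons (P.cons (P.lf 277944699 0 0) (P.cons (P.lf 0 5594445 0) (P.cons (P.lf 2412388 0 0) (P.lf 268042 0 0)))) (P.cons (P.cons (P.lf 9689646 0 0) (P.cons (P.lf 0 872739 0) (P.cons (P.lf 376333 0 0) (P.lf 41813 0 0)))) (P.cons (P.cons (P.lf 0 5098157 0) (P.cons (P.lf 72273 0 0) (P.cons (P.lf 0 31165 0) P.nil))) (P.cons (P.cons (P.lf 0 245697 0) (P.cons (P.lf 29553 0 0) P.nil)) (P.cons (P.cons (P.lf 49983 0 0) P.nil) P.nil)))))) 53395)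
 (EL.cons 8 (TM.mk (P.cons (P.cons (P.lf 0 261983222 0) (P.cons (P.lf 0 2061716 0) (P.cons (P.lf 889035 0 0) (P.lf 98781 0 0)))) (P.cons (P.cons (P.lf 0 7480003 0) (P.cons (P.lf 0 1773360 0) (P.cons (P.lf 764692 0 0) (P.lf 84965 0 0)))) (P.cons (P.cons (P.lf 13991087 0 0) (P.cons (P.lf 0 548685 0) (P.cons (P.lf 236598 0 0) (P.lf 26288 0 0)))) (P.cons (P.cons (P.lf 37506 0 0) (P.cons (P.lf 0 57309 0) (P.cons (P.lf 24712 0 0) P.nil))) (P.cons (P.cons (P.lf 0 259862 0) (P.cons (P.lf 5528 0 0) P.nil)) (P.cons (P.cons (P.lf 0 13138 0) P.nil) P.nil)))))) 18475)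
 EL.nil))
noncomputable def S82_111_660_808_20 : EL := (EL.cons 4 (TM.mk (P.cons (P.cons (P.lf 594611436 0 0) (P.cons (P.lf 9358768 0 0) (P.cons (P.lf 0 3998780 0) (P.cons (P.lf 0 480158 0) (P.cons (P.lf 3317 0 0) (P.cons (P.lf 1520 0 0) P.nil)))))) (P.cons (P.cons (P.lf 0 221769849 0) (P.cons (P.lf 4292120 0 0) (P.cons (P.lf 0 1803299 0) (P.cons (P.lf 0 246619 0) (P.cons (P.lf 4281 0 0) P.nil))))) (P.cons (P.cons (P.lf 8218483 0 0) (P.cons (P.lf 0 5052 0) (P.cons (P.lf 27097 0 0) (P.cons (P.lf 0 21245 0) P.nil)))) (P.cons (P.cons (P.lf 5596999 0 0) (P.cons (P.lf 0 238724 0) (P.cons (P.lf 109333 0 0) P.nil))) (P.cons (P.cons (P.lf 0 281047 0) (P.cons (P.lf 0 18469 0) P.nil)) (P.cons (P.cons (P.lf 0 100574 0) P.nil) P.nil)))))) 139552)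
 (EL.cons 8 (TM.mk (P.cons (P.cons (P.lf 131005914 0 0) (P.cons (P.lf 2061941 0 0) (P.cons (P.lf 0 881018 0) (P.cons (P.lf 0 105789 0) (P.cons (P.lf 731 0 0) (P.cons (P.lf 335 0 0) P.nil)))))) (P.cons (P.cons (P.lf 0 14498347 0) (P.cons (P.lf 1486488 0 0) (P.cons (P.lf 0 628394 0) (P.cons (P.lf 0 82084 0) (P.cons (P.lf 1135 0 0) P.nil))))) (P.cons (P.cons (P.lf 0 8902022 0) (P.cons (P.lf 280031 0 0) (P.cons (P.lf 0 112386 0) (P.cons (P.lf 0 20631 0) P.nil)))) (P.cons (P.cons (P.lf 1114842 0 0) (P.cons (P.lf 0 34696 0) (P.cons (P.lf 17989 0 0) P.nil))) (P.cons (P.cons (P.lf 236667 0 0) (P.cons (P.lf 0 16229 0) P.nil)) (P.cons (P.cons (P.lf 0 20862 0) P.nil) P.nil)))))) 47885)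
 EL.nil))
noncomputable def S82_111_660_808_21 : EL := (EL.cons 4 (TM.mk (P.cons (P.cons (P.lf 0 1019047737 0) (P.cons (P.lf 39882375 0 0) (P.cons (P.lf 0 17197731 0) (P.lf 0 1910853 0)))) (P.cons (P.cons (P.lf 0 329416128 0) (P.cons (P.lf 26356557 0 0) (P.cons (P.lf 0 11365245 0) (P.lf 0 1262799 0)))) (P.cons (P.cons (P.lf 14788260 0 0) (P.cons (P.lf 5705538 0 0) (P.cons (P.lf 0 2460285 0) (P.lf 0 273360 0)))) (P.cons (P.cons (P.lf 12392697 0 0) (P.cons (P.lf 269715 0 0) (P.cons (P.lf 0 116301 0) P.nil))) (P.cons (P.cons (P.lf 787383 0 0) (P.cons (P.lf 0 61620 0) P.nil)) (P.cons (P.cons (P.lf 0 61368 0) P.nil) P.nil)))))) 125817)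
 (EL.cons 8 (TM.mk (P.cons (P.cons (P.lf 1644539643 0 0) (P.cons (P.lf 0 64362210 0) (P.cons (P.lf 27753711 0 0) (P.lf 3083745 0 0)))) (P.cons (P.cons (P.lf 100254774 0 0) (P.cons (P.lf 0 25652259 0) (P.cons (P.lf 11061543 0 0) (P.lf 1229061 0 0)))) (P.cons (P.cons (P.lf 0 76564539 0) (P.cons (P.lf 0 1445790 0) (P.cons (P.lf 623442 0 0) (P.lf 69273 0 0)))) (P.cons (P.cons (P.lf 0 3926547 0) (P.cons (P.lf 449718 0 0) (P.cons (P.lf 0 193923 0) P.nil))) (P.cons (P.cons (P.lf 623928 0 0) (P.cons (P.lf 50679 0 0) P.nil)) (P.cons (P.cons (P.lf 77031 0 0) P.nil) P.nil)))))) 73221)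
 (EL.cons 11 (TM.mk (P.cons (P.cons (P.lf 152845878 0 0) (P.cons (P.lf 0 142390074 0) (P.cons (P.lf 0 14613852 0) (P.cons (P.lf 3039273 0 0) (P.lf 253272 0 0))))) (P.cons (P.cons (P.lf 70550142 0 0) (P.cons (P.lf 0 65723982 0) (P.cons (P.lf 0 6745416 0) (P.cons (P.lf 1402857 0 0) (P.lf 116904 0 0))))) (P.cons (P.cons (P.lf 9125004 0 0) (P.cons (P.lf 0 8500785 0) (P.cons (P.lf 0 872457 0) (P.cons (P.lf 181446 0 0) P.nil)))) (P.cons (P.cons (P.lf 95034 0 0) (P.cons (P.lf 0 88533 0) (P.cons (P.lf 0 9084 0) P.nil))) (P.cons (P.cons (P.lf 0 39387 0) (P.cons (P.lf 36693 0 0) P.nil)) (P.cons (P.cons (P.lf 0 3114 0) P.nil) P.nil)))))) 25638)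
 EL.nil)))
noncomputable def S82_111_660_808_22 : EL := (EL.cons 4 (TM.mk (P.cons (P.cons (P.lf 509579502 0 0) (P.cons (P.lf 0 15933150 0) (P.cons (P.lf 6713607 0 0) (P.cons (P.lf 898746 0 0) (P.cons (P.lf 0 14142 0) (P.cons (P.lf 0 6483 0) P.nil)))))) (P.cons (P.cons (P.lf 93781941 0 0) (P.cons (P.lf 0 6330315 0) (P.cons (P.lf 2517318 0 0) (P.cons (P.lf 486462 0 0) (P.cons (P.lf 0 19137 0) P.nil))))) (P.cons (P.cons (P.lf 0 35715426 0) (P.cons (P.lf 711504 0 0) (P.cons (P.lf 0 427671 0) (P.cons (P.lf 70137 0 0) P.nil)))) (P.cons (P.cons (P.lf 0 6134469 0) (P.cons (P.lf 563928 0 0) (P.cons (P.lf 0 279780 0) P.nil))) (P.cons (P.cons (P.lf 892707 0 0) (P.cons (P.lf 28680 0 0) P.nil)) (P.cons (P.cons (P.lf 172071 0 0) P.nil) P.nil)))))) 357117)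
 (EL.cons 8 (TM.mk (P.cons (P.cons (P.lf 0 822359604 0) (P.cons (P.lf 25712934 0 0) (P.cons (P.lf 0 10834425 0) (P.cons (P.lf 0 1450401 0) (P.cons (P.lf 22824 0 0) (P.cons (P.lf 10464 0 0) P.nil)))))) (P.cons (P.cons (P.lf 64356762 0 0) (P.cons (P.lf 3471459 0 0) (P.cons (P.lf 0 1220619 0) (P.cons (P.lf 0 404622 0) (P.cons (P.lf 24900 0 0) P.nil))))) (P.cons (P.cons (P.lf 53959833 0 0) (P.cons (P.lf 0 2471592 0) (P.cons (P.lf 1184277 0 0) (P.cons (P.lf 16221 0 0) P.nil)))) (P.cons (P.cons (P.lf 0 4086645 0) (P.cons (P.lf 0 355029 0) (P.cons (P.lf 176280 0 0) P.nil))) (P.cons (P.cons (P.lf 0 1219863 0) (P.cons (P.lf 78036 0 0) P.nil)) (P.cons (P.cons (P.lf 30507 0 0) P.nil) P.nil)))))) 286797)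
 (EL.cons 11 (TM.mk (P.cons (P.cons (P.lf 0 76431282 0) (P.cons (P.lf 70601322 0 0) (P.cons (P.lf 8127432 0 0) (P.cons (P.lf 0 1675098 0) (P.cons (P.lf 0 190254 0) (P.cons (P.lf 1404 0 0) P.nil)))))) (P.cons (P.cons (P.lf 0 24638091 0) (P.cons (P.lf 22258578 0 0) (P.cons (P.lf 3301584 0 0) (P.cons (P.lf 0 669120 0) (P.cons (P.lf 0 114222 0) P.nil))))) (P.cons (P.cons (P.lf 1156578 0 0) (P.cons (P.lf 0 1407513 0) (P.cons (P.lf 339213 0 0) (P.cons (P.lf 0 62217 0) P.nil)))) (P.cons (P.cons (P.lf 844539 0 0) (P.cons (P.lf 0 868341 0) (P.cons (P.lf 30420 0 0) P.nil))) (P.cons (P.cons (P.lf 6660 0 0) (P.cons (P.lf 0 16590 0) P.nil)) (P.cons (P.cons (P.lf 0 14433 0) P.nil) P.nil)))))) 215472)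
 EL.nil)))
noncomputable def S82_111_660_808_23 : EL := (EL.cons 4 (TM.mk (P.cons (P.cons (P.lf 854968839 0 0) (P.cons (P.lf 0 33460833 0) (P.cons (P.lf 14428689 0 0) (P.lf 1603182 0 0)))) (P.cons (P.cons (P.lf 249437754 0 0) (P.cons (P.lf 0 21058548 0) (P.cons (P.lf 9080682 0 0) (P.lf 1008960 0 0)))) (P.cons (P.cons (P.lf 0 25023879 0) (P.cons (P.lf 0 3937173 0) (P.cons (P.lf 1697745 0 0) (P.lf 188634 0 0)))) (P.cons (P.cons (P.lf 0 11429334 0) (P.cons (P.lf 31869 0 0) (P.cons (P.lf 0 13743 0) P.nil))) (P.cons (P.cons (P.lf 0 326742 0) (P.cons (P.lf 84792 0 0) P.nil)) (P.cons (P.cons (P.lf 122991 0 0) P.nil) P.nil)))))) 149487)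
 (EL.cons 8 (TM.mk (P.cons (P.cons (P.lf 0 1379749053 0) (P.cons (P.lf 53999121 0 0) (P.cons (P.lf 0 23285028 0) (P.lf 0 2587224 0)))) (P.cons (P.cons (P.lf 0 40639305 0) (P.cons (P.lf 19820529 0 0) (P.cons (P.lf 0 8546835 0) (P.lf 0 949647 0)))) (P.cons (P.cons (P.lf 73194693 0 0) (P.cons (P.lf 288018 0 0) (P.cons (P.lf 0 124197 0) (P.lf 0 13800 0)))) (P.cons (P.cons (P.lf 1912188 0 0) (P.cons (P.lf 0 523986 0) (P.cons (P.lf 225948 0 0) P.nil))) (P.cons (P.cons (P.lf 0 906993 0) (P.cons (P.lf 0 40119 0) P.nil)) (P.cons (P.cons (P.lf 0 76077 0) P.nil) P.nil)))))) 90828)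
 (EL.cons 11 (TM.mk (P.cons (P.cons (P.lf 0 128235858 0) (P.cons (P.lf 119463564 0 0) (P.cons (P.lf 12260844 0 0) (P.cons (P.lf 0 2549913 0) (P.lf 0 212490 0))))) (P.cons (P.cons (P.lf 0 55150257 0) (P.cons (P.lf 51377565 0 0) (P.cons (P.lf 5273007 0 0) (P.cons (P.lf 0 1096635 0) (P.lf 0 91383 0))))) (P.cons (P.cons (P.lf 0 5204532 0) (P.cons (P.lf 4848501 0 0) (P.cons (P.lf 497613 0 0) (P.cons (P.lf 0 103488 0) P.nil)))) (P.cons (P.cons (P.lf 456000 0 0) (P.cons (P.lf 0 424806 0) (P.cons (P.lf 0 43599 0) P.nil))) (P.cons (P.cons (P.lf 81432 0 0) (P.cons (P.lf 0 75861 0) P.nil)) (P.cons (P.cons (P.lf 3213 0 0) P.nil) P.nil)))))) 46713)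
 EL.nil)))
noncomputable def S82_111_660_808_24 : EL := (EL.cons 4 (TM.mk (P.cons (P.cons (P.lf 0 427531095 0) (P.cons (P.lf 13367721 0 0) (P.cons (P.lf 0 5632635 0) (P.cons (P.lf 0 754038 0) (P.cons (P.lf 11865 0 0) (P.cons (P.lf 5439 0 0) P.nil)))))) (P.cons (P.cons (P.lf 0 65211240 0) (P.cons (P.lf 4889865 0 0) (P.cons (P.lf 0 1934526 0) (P.cons (P.lf 0 384378 0) (P.cons (P.lf 15684 0 0) P.nil))))) (P.cons (P.cons (P.lf 34398456 0 0) (P.cons (P.lf 0 825399 0) (P.cons (P.lf 451104 0 0) (P.cons (P.lf 0 42537 0) P.nil)))) (P.cons (P.cons (P.lf 4642047 0 0) (P.cons (P.lf 0 481092 0) (P.cons (P.lf 234132 0 0) P.nil))) (P.cons (P.cons (P.lf 0 1033992 0) (P.cons (P.lf 0 7398 0) P.nil)) (P.cons (P.cons (P.lf 0 150231 0) P.nil) P.nil)))))) 312000)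
 (EL.cons 8 (TM.mk (P.cons (P.cons (P.lf 689949855 0 0) (P.cons (P.lf 0 21572844 0) (P.cons (P.lf 9089952 0 0) (P.cons (P.lf 1216869 0 0) (P.cons (P.lf 0 19149 0) (P.cons (P.lf 0 8778 0) P.nil)))))) (P.cons (P.cons (P.lf 0 75733551 0) (P.cons (P.lf 0 2232795 0) (P.cons (P.lf 737679 0 0) (P.cons (P.lf 301131 0 0) (P.cons (P.lf 0 20286 0) P.nil))))) (P.cons (P.cons (P.lf 0 46724601 0) (P.cons (P.lf 2264028 0 0) (P.cons (P.lf 0 1067415 0) (P.cons (P.lf 0 29868 0) P.nil)))) (P.cons (P.cons (P.lf 4973247 0 0) (P.cons (P.lf 249867 0 0) (P.cons (P.lf 0 122967 0) P.nil))) (P.cons (P.cons (P.lf 1133328 0 0) (P.cons (P.lf 0 83820 0) P.nil)) (P.cons (P.cons (P.lf 0 64743 0) P.nil) P.nil)))))) 248391)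
 (EL.cons 11 (TM.mk (P.cons (P.cons (P.lf 64124931 0 0) (P.cons (P.lf 0 59233662 0) (P.cons (P.lf 0 6818817 0) (P.cons (P.lf 1405386 0 0) (P.cons (P.lf 159621 0 0) (P.cons (P.lf 0 1179 0) P.nil)))))) (P.cons (P.cons (P.lf 18650610 0 0) (P.cons (P.lf 0 16808340 0) (P.cons (P.lf 0 2555142 0) (P.cons (P.lf 517101 0 0) (P.cons (P.lf 90801 0 0) P.nil))))) (P.cons (P.cons (P.lf 0 1914819 0) (P.cons (P.lf 2040084 0 0) (P.cons (P.lf 0 166143 0) (P.cons (P.lf 28086 0 0) P.nil)))) (P.cons (P.cons (P.lf 0 784443 0) (P.cons (P.lf 787743 0 0) (P.cons (P.lf 0 2619 0) P.nil))) (P.cons (P.cons (P.lf 17397 0 0) (P.cons (P.lf 0 11025 0) P.nil)) (P.cons (P.cons (P.lf 15768 0 0) P.nil) P.nil)))))) 182280)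
 EL.nil)))
noncomputable def S82_111_660_808_25 : EL := (EL.cons 4 (TM.mk (P.cons (P.cons (P.lf 0 717308613 0) (P.cons (P.lf 28073238 0 0) (P.cons (P.lf 0 12105498 0) (P.lf 0 1345050 0)))) (P.cons (P.cons (P.lf 0 186674268 0) (P.cons (P.lf 16783335 0 0) (P.cons (P.lf 0 7237164 0) (P.lf 0 804123 0)))) (P.cons (P.cons (P.lf 30867888 0 0) (P.cons (P.lf 2618217 0 0) (P.cons (P.lf 0 1128999 0) (P.lf 0 125439 0)))) (P.cons (P.cons (P.lf 10018074 0 0) (P.cons (P.lf 0 216822 0) (P.cons (P.lf 93498 0 0) P.nil))) (P.cons (P.cons (P.lf 0 85860 0) (P.cons (P.lf 0 88659 0) P.nil)) (P.cons (P.cons (P.lf 0 160257 0) P.nil) P.nil)))))) 153807)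
 (EL.cons 8 (TM.mk (P.cons (P.cons (P.lf 1157592924 0 0) (P.cons (P.lf 0 45304617 0) (P.cons (P.lf 19535862 0 0) (P.lf 2170650 0 0)))) (P.cons (P.cons (P.lf 0 2377641 0) (P.cons (P.lf 0 15201723 0) (P.cons (P.lf 6555153 0 0) (P.lf 728349 0 0)))) (P.cons (P.cons (P.lf 0 67775886 0) (P.cons (P.lf 489423 0 0) (P.cons (P.lf 0 211044 0) (P.lf 0 23448 0)))) (P.cons (P.cons (P.lf 0 41157 0) (P.cons (P.lf 531705 0 0) (P.cons (P.lf 0 229275 0) P.nil))) (P.cons (P.cons (P.lf 1087353 0 0) (P.cons (P.lf 23958 0 0) P.nil)) (P.cons (P.cons (P.lf 59349 0 0) P.nil) P.nil)))))) 97827)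
 (EL.cons 11 (TM.mk (P.cons (P.cons (P.lf 107588349 0 0) (P.cons (P.lf 0 100228500 0) (P.cons (P.lf 0 10286703 0) (P.cons (P.lf 2139345 0 0) (P.lf 178278 0 0))))) (P.cons (P.cons (P.lf 42880500 0 0) (P.cons (P.lf 0 39947151 0) (P.cons (P.lf 0 4099875 0) (P.cons (P.lf 852657 0 0) (P.lf 71052 0 0))))) (P.cons (P.cons (P.lf 2416791 0 0) (P.cons (P.lf 0 2251464 0) (P.cons (P.lf 0 231072 0) (P.cons (P.lf 48054 0 0) P.nil)))) (P.cons (P.cons (P.lf 0 751755 0) (P.cons (P.lf 700329 0 0) (P.cons (P.lf 71877 0 0) P.nil))) (P.cons (P.cons (P.lf 0 84720 0) (P.cons (P.lf 78924 0 0) P.nil)) (P.cons (P.cons (P.lf 510 0 0) P.nil) P.nil)))))) 56790)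
 EL.nil)))
noncomputable def S82_111_660_808_26 : EL := (EL.cons 4 (TM.mk (P.cons (P.cons (P.lf 358693467 0 0) (P.cons (P.lf 0 11215359 0) (P.cons (P.lf 4725714 0 0) (P.cons (P.lf 632628 0 0) (P.cons (P.lf 0 9954 0) (P.cons (P.lf 0 4563 0) P.nil)))))) (P.cons (P.cons (P.lf 43409706 0 0) (P.cons (P.lf 0 3749163 0) (P.cons (P.lf 1474146 0 0) (P.cons (P.lf 302556 0 0) (P.cons (P.lf 0 12843 0) P.nil))))) (P.cons (P.cons (P.lf 0 32223570 0) (P.cons (P.lf 873033 0 0) (P.cons (P.lf 0 451215 0) (P.cons (P.lf 22635 0 0) P.nil)))) (P.cons (P.cons (P.lf 0 3302316 0) (P.cons (P.lf 402657 0 0) (P.cons (P.lf 0 192810 0) P.nil))) (P.cons (P.cons (P.lf 1112406 0 0) (P.cons (P.lf 0 8922 0) P.nil)) (P.cons (P.cons (P.lf 122172 0 0) P.nil) P.nil)))))) 274392)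
 (EL.cons 8 (TM.mk (P.cons (P.cons (P.lf 0 578859660 0) (P.cons (P.lf 18099357 0 0) (P.cons (P.lf 0 7626360 0) (P.cons (P.lf 0 1020939 0) (P.cons (P.lf 16065 0 0) (P.cons (P.lf 7365 0 0) P.nil)))))) (P.cons (P.cons (P.lf 81778299 0 0) (P.cons (P.lf 1303011 0 0) (P.cons (P.lf 0 378612 0) (P.cons (P.lf 0 220479 0) (P.cons (P.lf 16515 0 0) P.nil))))) (P.cons (P.cons (P.lf 39845718 0 0) (P.cons (P.lf 0 2041260 0) (P.cons (P.lf 949914 0 0) (P.cons (P.lf 37686 0 0) P.nil)))) (P.cons (P.cons (P.lf 0 5590188 0) (P.cons (P.lf 0 161724 0) (P.cons (P.lf 79203 0 0) P.nil))) (P.cons (P.cons (P.lf 0 1011180 0) (P.cons (P.lf 85287 0 0) P.nil)) (P.cons (P.cons (P.lf 95787 0 0) P.nil) P.nil)))))) 216015)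
 (EL.cons 11 (TM.mk (P.cons (P.cons (P.lf 0 53800047 0) (P.cons (P.lf 49696332 0 0) (P.cons (P.lf 5720907 0 0) (P.cons (P.lf 0 1179102 0) (P.cons (P.lf 0 133920 0) (P.cons (P.lf 987 0 0) P.nil)))))) (P.cons (P.cons (P.lf 0 13952502 0) (P.cons (P.lf 12536160 0 0) (P.cons (P.lf 1963479 0 0) (P.cons (P.lf 0 396690 0) (P.cons (P.lf 0 71961 0) P.nil))))) (P.cons (P.cons (P.lf 2345493 0 0) (P.cons (P.lf 0 2383128 0) (P.cons (P.lf 45693 0 0) (P.cons (P.lf 0 4503 0) P.nil)))) (P.cons (P.cons (P.lf 689091 0 0) (P.cons (P.lf 0 680712 0) (P.cons (P.lf 0 13059 0) P.nil))) (P.cons (P.cons (P.lf 0 39828 0) (P.cons (P.lf 35331 0 0) P.nil)) (P.cons (P.cons (P.lf 0 16128 0) P.nil) P.nil)))))) 156297)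
 EL.nil)))
noncomputable def S82_111_660_808_27 : EL := (EL.cons 13 (TM.mk (P.lf 0 4294967296 0) 0)
 EL.nil)
noncomputable def S82_111_660_808_28 : EL := (EL.cons 13 (TM.mk (P.cons (P.cons (P.lf 2147718134 0 0) (P.cons (P.lf 16901792 0 0) (P.cons (P.lf 0 7288244 0) (P.lf 0 809804 0)))) (P.cons (P.cons (P.lf 0 299007201 0) (P.cons (P.lf 11702216 0 0) (P.cons (P.lf 0 5046128 0) (P.lf 0 560680 0)))) (P.cons (P.cons (P.lf 0 22705304 0) (P.cons (P.lf 2863940 0 0) (P.cons (P.lf 0 1234960 0) (P.lf 0 137216 0)))) (P.cons (P.cons (P.lf 3264197 0 0) (P.cons (P.lf 261192 0 0) (P.cons (P.lf 0 112628 0) P.nil))) (P.cons (P.cons (P.lf 401035 0 0) (P.cons (P.lf 0 2632 0) P.nil)) (P.cons (P.cons (P.lf 6476 0 0) P.nil) P.nil)))))) 27405)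
 EL.nil)
noncomputable def S82_111_660_808_29 : EL := (EL.cons 13 (TM.mk (P.cons (P.cons (P.lf 0 1073976322 0) (P.cons (P.lf 0 16903637 0) (P.cons (P.lf 7222526 0 0) (P.cons (P.lf 867254 0 0) (P.cons (P.lf 0 5994 0) (P.cons (P.lf 0 2748 0) P.nil)))))) (P.cons (P.cons (P.lf 299039849 0 0) (P.cons (P.lf 0 9350154 0) (P.cons (P.lf 3939790 0 0) (P.cons (P.lf 527418 0 0) (P.cons (P.lf 0 8300 0) P.nil))))) (P.cons (P.cons (P.lf 1891488 0 0) (P.cons (P.lf 0 1056179 0) (P.cons (P.lf 401008 0 0) (P.cons (P.lf 97539 0 0) P.nil)))) (P.cons (P.cons (P.lf 0 6425950 0) (P.cons (P.lf 235579 0 0) (P.cons (P.lf 0 119247 0) P.nil))) (P.cons (P.cons (P.lf 0 66616 0) (P.cons (P.lf 48336 0 0) P.nil)) (P.cons (P.cons (P.lf 83874 0 0) P.nil) P.nil)))))) 173343)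
 EL.nil)
noncomputable def S82_111_660_808_30 : EL := (EL.cons 13 (TM.mk (P.cons (P.lf 3603426100 0 0) (P.cons (P.lf 0 113537048 0) (P.cons (P.lf 0 16473628 0) (P.cons (P.lf 0 671992 0) (P.cons (P.lf 4560 0 0) (P.cons (P.lf 2084 0 0) P.nil)))))) 368)
 EL.nil)
noncomputable def S82_111_660_808_31 : EL := (EL.cons 13 (TM.mk (P.cons (P.cons (P.lf 0 1801909780 0) (P.cons (P.lf 0 14180400 0) (P.cons (P.lf 6114749 0 0) (P.lf 679415 0 0)))) (P.cons (P.cons (P.lf 307638181 0 0) (P.cons (P.lf 0 9371221 0) (P.cons (P.lf 4040976 0 0) (P.lf 448996 0 0)))) (P.cons (P.cons (P.lf 19382964 0 0) (P.cons (P.lf 0 2028636 0) (P.cons (P.lf 874768 0 0) (P.lf 97195 0 0)))) (P.cons (P.cons (P.lf 0 4149663 0) (P.cons (P.lf 0 95899 0) (P.cons (P.lf 41352 0 0) P.nil))) (P.cons (P.cons (P.lf 0 386325 0) (P.cons (P.lf 21910 0 0) P.nil)) (P.cons (P.cons (P.lf 13410 0 0) P.nil) P.nil)))))) 43867)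
 EL.nil)
noncomputable def S82_111_660_808_32 : EL := (EL.cons 13 (TM.mk (P.cons (P.cons (P.lf 901053266 0 0) (P.cons (P.lf 14181948 0 0) (P.cons (P.lf 0 6059612 0) (P.cons (P.lf 0 727615 0) (P.cons (P.lf 5028 0 0) (P.cons (P.lf 2305 0 0) P.nil)))))) (P.cons (P.cons (P.lf 0 279281311 0) (P.cons (P.lf 7397821 0 0) (P.cons (P.lf 0 3114509 0) (P.cons (P.lf 0 419571 0) (P.cons (P.lf 6805 0 0) P.nil))))) (P.cons (P.cons (P.lf 2198847 0 0) (P.cons (P.lf 574116 0 0) (P.cons (P.lf 0 204590 0) (P.cons (P.lf 0 64565 0) P.nil)))) (P.cons (P.cons (P.lf 6420248 0 0) (P.cons (P.lf 0 264075 0) (P.cons (P.lf 126888 0 0) P.nil))) (P.cons (P.cons (P.lf 0 58796 0) (P.cons (P.lf 0 39821 0) P.nil)) (P.cons (P.cons (P.lf 0 96277 0) P.nil) P.nil)))))) 168868)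
 EL.nil)
noncomputable def S82_111_660_808_33 : EL := (EL.cons 14 (TM.mk (P.lf 8589934592 0 0) 0)
 EL.nil)
noncomputable def S82_111_660_808_34 : EL := (EL.cons 14 (TM.mk (P.cons (P.cons (P.lf 0 4295436268 0) (P.cons (P.lf 0 33803584 0) (P.cons (P.lf 14576488 0 0) (P.lf 1619608 0 0)))) (P.cons (P.cons (P.lf 598014402 0 0) (P.cons (P.lf 0 23404432 0) (P.cons (P.lf 10092256 0 0) (P.lf 1121360 0 0)))) (P.cons (P.cons (P.lf 45410608 0 0) (P.cons (P.lf 0 5727880 0) (P.cons (P.lf 2469920 0 0) (P.lf 274432 0 0)))) (P.cons (P.cons (P.lf 0 6528394 0) (P.cons (P.lf 0 522384 0) (P.cons (P.lf 225256 0 0) P.nil))) (P.cons (P.cons (P.lf 0 802070 0) (P.cons (P.lf 5264 0 0) P.nil)) (P.cons (P.cons (P.lf 0 12952 0) P.nil) P.nil)))))) 54810)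
 EL.nil)
noncomputable def S82_111_660_808_35 : EL := (EL.cons 14 (TM.mk (P.cons (P.cons (P.lf 2147952644 0 0) (P.cons (P.lf 33807274 0 0) (P.cons (P.lf 0 14445052 0) (P.cons (P.lf 0 1734508 0) (P.cons (P.lf 11988 0 0) (P.cons (P.lf 5496 0 0) P.nil)))))) (P.cons (P.cons (P.lf 0 598079698 0) (P.cons (P.lf 18700308 0 0) (P.cons (P.lf 0 7879580 0) (P.cons (P.lf 0 1054836 0) (P.cons (P.lf 16600 0 0) P.nil))))) (P.cons (P.cons (P.lf 0 3782976 0) (P.cons (P.lf 2112358 0 0) (P.cons (P.lf 0 802016 0) (P.cons (P.lf 0 195078 0) P.nil)))) (P.cons (P.cons (P.lf 12851900 0 0) (P.cons (P.lf 0 471158 0) (P.cons (P.lf 238494 0 0) P.nil))) (P.cons (P.cons (P.lf 133232 0 0) (P.cons (P.lf 0 96672 0) P.nil)) (P.cons (P.cons (P.lf 0 167748 0) P.nil) P.nil)))))) 346686)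
 EL.nil)
noncomputable def S82_111_660_808_36 : EL := (EL.cons 14 (TM.mk (P.cons (P.lf 0 7206852200 0) (P.cons (P.lf 227074096 0 0) (P.cons (P.lf 32947256 0 0) (P.cons (P.lf 1343984 0 0) (P.cons (P.lf 0 9120 0) (P.cons (P.lf 0 4168 0) P.nil)))))) 736)
 EL.nil)
noncomputable def S82_111_660_808_37 : EL := (EL.cons 14 (TM.mk (P.cons (P.cons (P.lf 3603819560 0 0) (P.cons (P.lf 28360800 0 0) (P.cons (P.lf 0 12229498 0) (P.lf 0 1358830 0)))) (P.cons (P.cons (P.lf 0 615276362 0) (P.cons (P.lf 18742442 0 0) (P.cons (P.lf 0 8081952 0) (P.lf 0 897992 0)))) (P.cons (P.cons (P.lf 0 38765928 0) (P.cons (P.lf 4057272 0 0) (P.cons (P.lf 0 1749536 0) (P.lf 0 194390 0)))) (P.cons (P.cons (P.lf 8299326 0 0) (P.cons (P.lf 191798 0 0) (P.cons (P.lf 0 82704 0) P.nil))) (P.cons (P.cons (P.lf 772650 0 0) (P.cons (P.lf 0 43820 0) P.nil)) (P.cons (P.cons (P.lf 0 26820 0) P.nil) P.nil))))))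 87734)
 EL.nil)
noncomputable def S82_111_660_808_38 : EL := (EL.cons 14 (TM.mk (P.cons (P.cons (P.lf 0 1802106532 0) (P.cons (P.lf 0 28363896 0) (P.cons (P.lf 12119224 0 0) (P.cons (P.lf 1455230 0 0) (P.cons (P.lf 0 10056 0) (P.cons (P.lf 0 4610 0) P.nil)))))) (P.cons (P.cons (P.lf 558562622 0 0) (P.cons (P.lf 0 14795642 0) (P.cons (P.lf 6229018 0 0) (P.cons (P.lf 839142 0 0) (P.cons (P.lf 0 13610 0) P.nil))))) (P.cons (P.cons (P.lf 0 4397694 0) (P.cons (P.lf 0 1148232 0) (P.cons (P.lf 409180 0 0) (P.cons (P.lf 129130 0 0) P.nil)))) (P.cons (P.cons (P.lf 0 12840496 0) (P.cons (P.lf 528150 0 0) (P.cons (P.lf 0 253776 0) P.nil))) (P.cons (P.cons (P.lf 117592 0 0) (P.cons (P.lf 79642 0 0) P.nil)) (P.cons (P.cons (P.lf 192554 0 0) P.nil) P.nil)))))) 337736)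
 EL.nil)
noncomputable def S82_111_660_808_39 : EL := (EL.cons 14 (TM.mk (P.cons (P.lf 6046462644 0 0) (P.cons (P.lf 0 381024890 0) (P.cons (P.lf 0 49282024 0) (P.cons (P.lf 0 513256 0) (P.cons (P.lf 212730 0 0) (P.cons (P.lf 16820 0 0) P.nil)))))) 1830)
 EL.nil)
noncomputable def S82_111_660_808_40 : EL := (EL.cons 14 (TM.mk (P.cons (P.cons (P.lf 0 3023561430 0) (P.cons (P.lf 0 23794372 0) (P.cons (P.lf 10260402 0 0) (P.lf 1140042 0 0)))) (P.cons (P.cons (P.lf 611476118 0 0) (P.cons (P.lf 0 14974970 0) (P.cons (P.lf 6457376 0 0) (P.lf 717484 0 0)))) (P.cons (P.cons (P.lf 30082064 0 0) (P.cons (P.lf 0 2799768 0) (P.cons (P.lf 1207286 0 0) (P.lf 134140 0 0)))) (P.cons (P.cons (P.lf 0 9783888 0) (P.cons (P.lf 22660 0 0) (P.cons (P.lf 0 9772 0) P.nil))) (P.cons (P.cons (P.lf 0 677634 0) (P.cons (P.lf 60298 0 0) P.nil)) (P.cons (P.cons (P.lf 67600 0 0) P.nil) P.nil))))))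 102596)
 EL.nil)
noncomputable def S82_111_660_808_41 : EL := (EL.cons 14 (TM.mk (P.cons (P.cons (P.lf 1511945786 0 0) (P.cons (P.lf 23796970 0 0) (P.cons (P.lf 0 10167884 0) (P.cons (P.lf 0 1220920 0) (P.cons (P.lf 8438 0 0) (P.cons (P.lf 3868 0 0) P.nil)))))) (P.cons (P.cons (P.lf 0 516265860 0) (P.cons (P.lf 11663568 0 0) (P.cons (P.lf 0 4905702 0) (P.cons (P.lf 0 665562 0) (P.cons (P.lf 11152 0 0) P.nil))))) (P.cons (P.cons (P.lf 11543064 0 0) (P.cons (P.lf 463440 0 0) (P.cons (P.lf 0 132150 0) (P.cons (P.lf 0 80574 0) P.nil)))) (P.cons (P.cons (P.lf 12517216 0 0) (P.cons (P.lf 0 534652 0) (P.cons (P.lf 249520 0 0) P.nil))) (P.cons (P.cons (P.lf 0 365656 0) (P.cons (P.lf 0 59546 0) P.nil)) (P.cons (P.cons (P.lf 0 208100 0) P.nil) P.nil)))))) 316966)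
 EL.nil)
noncomputable def S82_111_660_808_42 : EL := (EL.cons 14 (TM.mk (P.cons (P.lf 0 5072909710 0) (P.cons (P.lf 479512976 0 0) (P.cons (P.lf 54466274 0 0) (P.cons (P.lf 0 1387564 0) (P.cons (P.lf 0 447104 0) (P.cons (P.lf 0 20696 0) P.nil)))))) 3862)
 EL.nil)
noncomputable def S82_111_660_808_43 : EL := (EL.cons 14 (TM.mk (P.cons (P.cons (P.lf 2536731812 0 0) (P.cons (P.lf 19963192 0 0) (P.cons (P.lf 0 8608354 0) (P.lf 0 956482 0)))) (P.cons (P.cons (P.lf 0 592948692 0) (P.cons (P.lf 11934818 0 0) (P.cons (P.lf 0 5146428 0) (P.lf 0 571824 0)))) (P.cons (P.cons (P.lf 0 20671246 0) (P.cons (P.lf 1861844 0 0) (P.cons (P.lf 0 802844 0) (P.lf 0 89202 0)))) (P.cons (P.cons (P.lf 10876070 0 0) (P.cons (P.lf 0 154184 0) (P.cons (P.lf 66486 0 0) P.nil))) (P.cons (P.cons (P.lf 524154 0 0) (P.cons (P.lf 0 63048 0) P.nil)) (P.cons (P.cons (P.lf 0 106632 0) P.nil) P.nil))))))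 113870)
 EL.nil)
noncomputable def S82_111_660_808_44 : EL := (EL.cons 14 (TM.mk (P.cons (P.cons (P.lf 0 1268504398 0) (P.cons (P.lf 0 19965372 0) (P.cons (P.lf 8530732 0 0) (P.cons (P.lf 1024338 0 0) (P.cons (P.lf 0 7078 0) (P.cons (P.lf 0 3244 0) P.nil)))))) (P.cons (P.cons (P.lf 473109012 0 0) (P.cons (P.lf 0 9156524 0) (P.cons (P.lf 3847038 0 0) (P.cons (P.lf 526122 0 0) (P.cons (P.lf 0 9134 0) P.nil))))) (P.cons (P.cons (P.lf 0 17532764 0) (P.cons (P.lf 10778 0 0) (P.cons (P.lf 0 57808 0) (P.cons (P.lf 45324 0 0) P.nil)))) (P.cons (P.cons (P.lf 0 11940266 0) (P.cons (P.lf 509278 0 0) (P.cons (P.lf 0 233244 0) P.nil))) (P.cons (P.cons (P.lf 599568 0 0) (P.cons (P.lf 39402 0 0) P.nil)) (P.cons (P.cons (P.lf 214558 0 0) P.nil) P.nil)))))) 297666)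
 EL.nil)
noncomputable def S82_111_660_808_45 : EL := (EL.cons 14 (TM.mk (P.cons (P.cons (P.lf 0 1074093590 0) (P.cons (P.lf 0 25358224 0) (P.cons (P.lf 10735192 0 0) (P.cons (P.lf 1386552 0 0) (P.cons (P.lf 0 17306 0) (P.cons (P.lf 0 8462 0) P.nil)))))) (P.cons (P.cons (P.lf 448608752 0 0) (P.cons (P.lf 0 10496368 0) (P.cons (P.lf 4277598 0 0) (P.cons (P.lf 716176 0 0) (P.cons (P.lf 0 20992 0) P.nil))))) (P.cons (P.cons (P.lf 0 28390308 0) (P.cons (P.lf 636458 0 0) (P.cons (P.lf 0 397164 0) (P.cons (P.lf 74312 0 0) P.nil)))) (P.cons (P.cons (P.lf 0 11484212 0) (P.cons (P.lf 683742 0 0) (P.cons (P.lf 0 322476 0) P.nil))) (P.cons (P.cons (P.lf 1062084 0 0) (P.cons (P.lf 14006 0 0) P.nil)) (P.cons (P.cons (P.lf 216580 0 0) P.nil) P.nil)))))) 462090)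
 EL.nil)
noncomputable def S82_111_660_808_46 : EL := (EL.cons 15 (TM.mk (P.lf 4294967296 0 0) 0)
 EL.nil)
noncomputable def S82_111_660_808_47 : EL := (EL.cons 15 (TM.mk (P.cons (P.cons (P.lf 0 2147718134 0) (P.cons (P.lf 0 16901792 0) (P.cons (P.lf 7288244 0 0) (P.lf 809804 0 0)))) (P.cons (P.cons (P.lf 299007201 0 0) (P.cons (P.lf 0 11702216 0) (P.cons (P.lf 5046128 0 0) (P.lf 560680 0 0)))) (P.cons (P.cons (P.lf 22705304 0 0) (P.cons (P.lf 0 2863940 0) (P.cons (P.lf 1234960 0 0) (P.lf 137216 0 0)))) (P.cons (P.cons (P.lf 0 3264197 0) (P.cons (P.lf 0 261192 0) (P.cons (P.lf 112628 0 0) P.nil))) (P.cons (P.cons (P.lf 0 401035 0) (P.cons (P.lf 2632 0 0) P.nil)) (P.cons (P.cons (P.lf 0 6476 0) P.nil) P.nil)))))) 27405)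
 EL.nil)
noncomputable def S82_111_660_808_48 : EL := (EL.cons 15 (TM.mk (P.cons (P.cons (P.lf 1073976322 0 0) (P.cons (P.lf 16903637 0 0) (P.cons (P.lf 0 7222526 0) (P.cons (P.lf 0 867254 0) (P.cons (P.lf 5994 0 0) (P.cons (P.lf 2748 0 0) P.nil)))))) (P.cons (P.cons (P.lf 0 299039849 0) (P.cons (P.lf 9350154 0 0) (P.cons (P.lf 0 3939790 0) (P.cons (P.lf 0 527418 0) (P.cons (P.lf 8300 0 0) P.nil))))) (P.cons (P.cons (P.lf 0 1891488 0) (P.cons (P.lf 1056179 0 0) (P.cons (P.lf 0 401008 0) (P.cons (P.lf 0 97539 0) P.nil)))) (P.cons (P.cons (P.lf 6425950 0 0) (P.cons (P.lf 0 235579 0) (P.cons (P.lf 119247 0 0) P.nil))) (P.cons (P.cons (P.lf 66616 0 0) (P.cons (P.lf 0 48336 0) P.nil)) (P.cons (P.cons (P.lf 0 83874 0) P.nil) P.nil)))))) 173343)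
 EL.nil)
noncomputable def S82_111_660_808 : SL := (SL.cons S82_111_660_808_0 (SL.cons S82_111_660_808_1 (SL.cons S82_111_660_808_2 (SL.cons S82_111_660_808_3 (SL.cons S82_111_660_808_4 (SL.cons S82_111_660_808_5 (SL.cons S82_111_660_808_6 (SL.cons S82_111_660_808_7 (SL.cons S82_111_660_808_8 (SL.cons S82_111_660_808_9 (SL.cons S82_111_660_808_10 (SL.cons S82_111_660_808_11 (SL.cons S82_111_660_808_12 (SL.cons S82_111_660_808_13 (SL.cons S82_111_660_808_14 (SL.cons S82_111_660_808_15 (SL.cons S82_111_660_808_16 (SL.cons S82_111_660_808_17 (SL.cons S82_111_660_808_18 (SL.cons S82_111_660_808_19 (SL.cons S82_111_660_808_20 (SL.cons S82_111_660_808_21 (SL.cons S82_111_660_808_22 (SL.cons S82_111_660_808_23 (SL.cons S82_111_660_808_24 (SL.cons S82_111_660_808_25 (SL.cons S82_111_660_808_26 (SL.cons S82_111_660_808_27 (SL.cons S82_111_660_808_28 (SL.cons S82_111_660_808_29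 (SL.cons S82_111_660_808_30 (SL.cons S82_111_660_808_31 (SL.cons S82_111_660_808_32 (SL.cons S82_111_660_808_33 (SL.cons S82_111_660_808_34 (SL.cons S82_111_660_808_35 (SL.cons S82_111_660_808_36 (SL.cons S82_111_660_808_37 (SL.cons S82_111_660_808_38 (SL.cons S82_111_660_808_39 (SL.cons S82_111_660_808_40 (SL.cons S82_111_660_808_41 (SL.cons S82_111_660_808_42 (SL.cons S82_111_660_808_43 (SL.cons S82_111_660_808_44 (SL.cons S82_111_660_808_45 (SL.cons S82_111_660_808_46 (SL.cons S82_111_660_808_47 (SL.cons S82_111_660_808_48 SL.nil)))))))))))))))))))))))))))))))))))))))))))))))))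
noncomputable def S82_140_216_290_0 : EL := (EL.cons 0 (TM.mk (P.cons (P.lf 3519891639 0 0) (P.cons (P.lf 844087942 0 0) (P.cons (P.lf 173579589 0 0) (P.cons (P.lf 0 3586566 0) (P.cons (P.lf 0 4211423 0) (P.cons (P.lf 0 490783 0) P.nil)))))) 104301)
 (EL.cons 1 (TM.mk (P.cons (P.lf 0 1391915122 0) (P.cons (P.lf 0 413105733 0) (P.cons (P.lf 67350723 0 0) (P.cons (P.lf 19192974 0 0) (P.cons (P.lf 1069213 0 0) (P.cons (P.lf 0 215523 0) P.nil)))))) 64748)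
 (EL.cons 5 (TM.mk (P.cons (P.lf 6049927380 0 0) (P.cons (P.lf 0 300120158 0) (P.cons (P.lf 0 61717188 0) (P.cons (P.lf 1275220 0 0) (P.cons (P.lf 1497396 0 0) (P.cons (P.lf 174500 0 0) P.nil)))))) 24617)
 (EL.cons 9 (TM.mk (P.lf 6442450944 0 0) 2)
 EL.nil))))
noncomputable def S82_140_216_290_1 : EL := (EL.cons 0 (TM.mk (P.cons (P.cons (P.lf 0 4465416609 0) (P.cons (P.lf 22213240 0 0) (P.cons (P.lf 10486009 0 0) (P.lf 0 499321 0)))) (P.cons (P.cons (P.lf 0 1247735910 0) (P.cons (P.lf 18831640 0 0) (P.cons (P.lf 8889673 0 0) (P.lf 0 423308 0)))) (P.cons (P.cons (P.lf 491476283 0 0) (P.cons (P.lf 1121830 0 0) (P.cons (P.lf 529571 0 0) (P.lf 0 25209 0)))) (P.cons (P.cons (P.lf 316102638 0 0) (P.cons (P.lf 0 3288529 0) (P.cons (P.lf 0 1552385 0) P.nil))) (P.cons (P.cons (P.lf 23690492 0 0) (P.cons (P.lf 0 1104801 0) P.nil)) (P.cons (P.cons (P.lf 0 13111534 0) P.nil)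 P.nil)))))) 8377585)
 (EL.cons 1 (TM.mk (P.cons (P.cons (P.lf 2072762859 0 0) (P.cons (P.lf 0 11522324 0) (P.cons (P.lf 0 5439241 0) (P.lf 259017 0 0)))) (P.cons (P.cons (P.lf 0 484439513 0) (P.cons (P.lf 552837 0 0) (P.cons (P.lf 260971 0 0) (P.lf 0 12423 0)))) (P.cons (P.cons (P.lf 0 661846450 0) (P.cons (P.lf 6598121 0 0) (P.cons (P.lf 3114714 0 0) (P.lf 0 148308 0)))) (P.cons (P.cons (P.lf 0 19442914 0) (P.cons (P.lf 2122066 0 0) (P.cons (P.lf 1001742 0 0) P.nil))) (P.cons (P.cons (P.lf 44740905 0 0) (P.cons (P.lf 0 141229 0) P.nil)) (P.cons (P.cons (P.lf 7896817 0 0) P.nil) P.nil)))))) 3321992)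
 (EL.cons 5 (TM.mk (P.cons (P.cons (P.lf 0 899257545 0) (P.cons (P.lf 0 22266832 0) (P.cons (P.lf 0 10511306 0) (P.lf 500534 0 0)))) (P.cons (P.cons (P.lf 2290911693 0 0) (P.cons (P.lf 0 23175070 0) (P.cons (P.lf 0 10940048 0) (P.lf 520952 0 0)))) (P.cons (P.cons (P.lf 180200883 0 0) (P.cons (P.lf 0 6937720 0) (P.cons (P.lf 0 3275022 0) (P.lf 155948 0 0)))) (P.cons (P.cons (P.lf 0 143139678 0) (P.cons (P.lf 345138 0 0) (P.cons (P.lf 162928 0 0) P.nil))) (P.cons (P.cons (P.lf 0 23996434 0) (P.cons (P.lf 501144 0 0) P.nil)) (P.cons (P.cons (P.lf 3301956 0 0) P.nil) P.nil)))))) 2824896)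
 (EL.cons 9 (TM.mk (P.cons (P.cons (P.lf 0 2194377549 0) (P.cons (P.lf 0 12678336 0) (P.cons (P.lf 0 5984952 0) (P.lf 284994 0 0)))) (P.cons (P.cons (P.lf 1629946101 0 0) (P.cons (P.lf 0 14540622 0) (P.cons (P.lf 0 6864060 0) (P.lf 326856 0 0)))) (P.cons (P.cons (P.lf 313189411 0 0) (P.cons (P.lf 0 5769564 0) (P.cons (P.lf 0 2723586 0) (P.lf 129690 0 0)))) (P.cons (P.cons (P.lf 0 27130266 0) (P.cons (P.lf 0 727152 0) (P.cons (P.lf 0 343260 0) P.nil))) (P.cons (P.cons (P.lf 0 13741008 0) (P.cons (P.lf 95580 0 0) P.nil)) (P.cons (P.cons (P.lf 0 1199928 0) P.nil) P.nil)))))) 646540)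
 (EL.cons 2 (TM.mk (P.cons (P.cons (P.lf 90421017 0 0) (P.cons (P.lf 89158935 0 0) (P.cons (P.lf 0 2789867 0) (P.cons (P.lf 0 511230 0) (P.lf 18255 0 0))))) (P.cons (P.cons (P.lf 61403571 0 0) (P.cons (P.lf 60546512 0 0) (P.cons (P.lf 0 1894556 0) (P.cons (P.lf 0 347169 0) (P.lf 12394 0 0))))) (P.cons (P.cons (P.lf 6385089 0 0) (P.cons (P.lf 6295969 0 0) (P.cons (P.lf 0 197004 0) (P.cons (P.lf 0 36098 0) P.nil)))) (P.cons (P.cons (P.lf 0 3109145 0) (P.cons (P.lf 0 3065748 0) (P.cons (P.lf 95928 0 0) P.nil))) (P.cons (P.cons (P.lf 0 715266 0) (P.cons (P.lf 0 705282 0) P.nil)) (P.cons (P.cons (P.lf 0 17505 0) P.nil) P.nil)))))) 204433)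
 (EL.cons 6 (TM.mk (P.cons (P.cons (P.lf 25498953 0 0) (P.cons (P.lf 25143042 0 0) (P.cons (P.lf 0 786750 0) (P.cons (P.lf 0 144168 0) (P.lf 5148 0 0))))) (P.cons (P.cons (P.lf 29244423 0 0) (P.cons (P.lf 28836234 0 0) (P.cons (P.lf 0 902313 0) (P.cons (P.lf 0 165345 0) (P.lf 5904 0 0))))) (P.cons (P.cons (P.lf 11603877 0 0) (P.cons (P.lf 11441913 0 0) (P.cons (P.lf 0 358026 0) (P.cons (P.lf 0 65604 0) P.nil)))) (P.cons (P.cons (P.lf 1462470 0 0) (P.cons (P.lf 1442055 0 0) (P.cons (P.lf 0 45123 0) P.nil))) (P.cons (P.cons (P.lf 0 192237 0) (P.cons (P.lf 0 189555 0) P.nil)) (P.cons (P.cons (P.lf 0 73920 0) P.nil) P.nil)))))) 119163)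
 EL.nil))))))
noncomputable def S82_140_216_290_2 : EL := (EL.cons 0 (TM.mk (P.cons (P.cons (P.lf 2633584804 0 0) (P.cons (P.lf 0 2275672 0) (P.cons (P.lf 0 1175310 0) (P.cons (P.lf 0 44265 0) (P.cons (P.lf 0 17970 0) (P.cons (P.lf 2139 0 0) P.nil)))))) (P.cons (P.cons (P.lf 0 900794408 0) (P.cons (P.lf 20440728 0 0) (P.cons (P.lf 9440351 0 0) (P.cons (P.lf 0 656725 0) (P.cons (P.lf 0 37157 0) P.nil))))) (P.cons (P.cons (P.lf 0 1383719134 0) (P.cons (P.lf 24476266 0 0) (P.cons (P.lf 11386572 0 0) (P.cons (P.lf 0 708532 0) P.nil)))) (P.cons (P.cons (P.lf 0 142778315 0) (P.cons (P.lf 6791689 0 0) (P.cons (P.lf 3150622 0 0) P.nil))) (P.cons (P.cons (P.lf 186542931 0 0) (P.cons (P.lf 0 2238310 0) P.nil)) (P.cons (P.cons (P.lf 52544486 0 0) P.nil) P.nil)))))) 35758829)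
 (EL.cons 1 (TM.mk (P.cons (P.cons (P.lf 0 1250531355 0) (P.cons (P.lf 1557168 0 0) (P.cons (P.lf 785818 0 0) (P.cons (P.lf 12896 0 0) (P.cons (P.lf 9026 0 0) (P.cons (P.lf 0 1075 0) P.nil)))))) (P.cons (P.cons (P.lf 1186863913 0 0) (P.cons (P.lf 0 12348812 0) (P.cons (P.lf 0 5765590 0) (P.cons (P.lf 337822 0 0) (P.cons (P.lf 11356 0 0) P.nil))))) (P.cons (P.cons (P.lf 371254223 0 0) (P.cons (P.lf 0 5129466 0) (P.cons (P.lf 0 2413847 0) (P.cons (P.lf 122457 0 0) P.nil)))) (P.cons (P.cons (P.lf 0 325833288 0) (P.cons (P.lf 4340613 0 0) (P.cons (P.lf 2021643 0 0) P.nil))) (P.cons (P.cons (P.lf 0 94631782 0) (P.cons (P.lf 2744980 0 0) P.nil)) (P.cons (P.cons (P.lf 18804930 0 0) P.nil) P.nil)))))) 20549320)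
 (EL.cons 5 (TM.mk (P.cons (P.cons (P.lf 0 89296299 0) (P.cons (P.lf 10597489 0 0) (P.cons (P.lf 5066879 0 0) (P.cons (P.lf 0 177595 0) (P.cons (P.lf 11415 0 0) (P.cons (P.lf 0 1361 0) P.nil)))))) (P.cons (P.cons (P.lf 0 938124580 0) (P.cons (P.lf 0 3312288 0) (P.cons (P.lf 0 1424454 0) (P.cons (P.lf 205824 0 0) (P.cons (P.lf 24737 0 0) P.nil))))) (P.cons (P.cons (P.lf 717551371 0 0) (P.cons (P.lf 0 13983878 0) (P.cons (P.lf 0 6478672 0) (P.cons (P.lf 430054 0 0) P.nil)))) (P.cons (P.cons (P.lf 251316015 0 0) (P.cons (P.lf 0 6643299 0) (P.cons (P.lf 0 3083555 0) P.nil))) (P.cons (P.cons (P.lf 0 54020691 0) (P.cons (P.lf 0 130622 0) P.nil)) (P.cons (P.cons (P.lf 0 28625608 0) P.nil) P.nil)))))) 13682572)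
 (EL.cons 9 (TM.mk (P.cons (P.cons (P.lf 747431818 0 0) (P.cons (P.lf 8636791 0 0) (P.cons (P.lf 4102045 0 0) (P.cons (P.lf 0 170587 0) (P.cons (P.lf 4437 0 0) (P.cons (P.lf 0 529 0) P.nil)))))) (P.cons (P.cons (P.lf 0 1110359134 0) (P.cons (P.lf 3490165 0 0) (P.cons (P.lf 1704798 0 0) (P.cons (P.lf 0 24421 0) (P.cons (P.lf 10179 0 0) P.nil))))) (P.cons (P.cons (P.lf 199025599 0 0) (P.cons (P.lf 0 4659886 0) (P.cons (P.lf 0 2144224 0) (P.cons (P.lf 157174 0 0) P.nil)))) (P.cons (P.cons (P.lf 176956227 0 0) (P.cons (P.lf 0 3731013 0) (P.cons (P.lf 0 1732359 0) P.nil))) (P.cons (P.cons (P.lf 10857945 0 0) (P.cons (P.lf 0 817458 0) P.nil)) (P.cons (P.cons (P.lf 0 8773344 0) P.nil) P.nil)))))) 4295530)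
 (EL.cons 2 (TM.mk (P.cons (P.cons (P.lf 0 61597006 0) (P.cons (P.lf 0 61093130 0) (P.cons (P.lf 1381606 0 0) (P.cons (P.lf 201588 0 0) (P.cons (P.lf 2643 0 0) (P.cons (P.lf 630 0 0) P.nil)))))) (P.cons (P.cons (P.lf 3923583 0 0) (P.cons (P.lf 3218985 0 0) (P.cons (P.lf 0 1068586 0) (P.cons (P.lf 0 290002 0) (P.cons (P.lf 28333 0 0) P.nil))))) (P.cons (P.cons (P.lf 35511986 0 0) (P.cons (P.lf 34552051 0 0) (P.cons (P.lf 0 1772634 0) (P.cons (P.lf 0 392118 0) P.nil)))) (P.cons (P.cons (P.lf 10557410 0 0) (P.cons (P.lf 10263071 0 0) (P.cons (P.lf 0 540045 0) P.nil))) (P.cons (P.cons (P.lf 0 1368050 0) (P.cons (P.lf 0 1354719 0) P.nil)) (P.cons (P.cons (P.lf 0 1001683 0) P.nil) P.nil)))))) 2035462)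
 (EL.cons 6 (TM.mk (P.cons (P.cons (P.lf 0 17370510 0) (P.cons (P.lf 0 17228412 0) (P.cons (P.lf 389616 0 0) (P.cons (P.lf 56844 0 0) (P.cons (P.lf 744 0 0) (P.cons (P.lf 174 0 0) P.nil)))))) (P.cons (P.cons (P.lf 0 7019496 0) (P.cons (P.lf 0 7151724 0) (P.cons (P.lf 0 119076 0) (P.cons (P.lf 0 55188 0) (P.cons (P.lf 8334 0 0) P.nil))))) (P.cons (P.cons (P.lf 9372066 0 0) (P.cons (P.lf 9017898 0 0) (P.cons (P.lf 0 614838 0) (P.cons (P.lf 0 145038 0) P.nil)))) (P.cons (P.cons (P.lf 7503888 0 0) (P.cons (P.lf 7282878 0 0) (P.cons (P.lf 0 401058 0) P.nil))) (P.cons (P.cons (P.lf 1644096 0 0) (P.cons (P.lf 1588674 0 0) P.nil)) (P.cons (P.cons (P.lf 0 136704 0) P.nil) P.nil)))))) 965472)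
 EL.nil))))))
noncomputable def S82_140_216_290_3 : EL := (EL.cons 0 (TM.mk (P.cons (P.lf 4935825225 0 0) (P.cons (P.lf 0 844087942 0) (P.cons (P.lf 0 173579589 0) (P.cons (P.lf 3586566 0 0) (P.cons (P.lf 4211423 0 0) (P.cons (P.lf 490783 0 0) P.nil)))))) 104301)
 (EL.cons 1 (TM.mk (P.cons (P.lf 1391915122 0 0) (P.cons (P.lf 413105733 0 0) (P.cons (P.lf 0 67350723 0) (P.cons (P.lf 0 19192974 0) (P.cons (P.lf 0 1069213 0) (P.cons (P.lf 215523 0 0) P.nil)))))) 64748)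
 (EL.cons 5 (TM.mk (P.cons (P.lf 392523564 0 0) (P.cons (P.lf 300120158 0 0) (P.cons (P.lf 61717188 0 0) (P.cons (P.lf 0 1275220 0) (P.cons (P.lf 0 1497396 0) (P.cons (P.lf 0 174500 0) P.nil)))))) 24610)
 EL.nil)))
noncomputable def S82_140_216_290_4 : EL := (EL.cons 0 (TM.mk (P.cons (P.cons (P.lf 0 1681202409 0) (P.cons (P.lf 0 9713390 0) (P.cons (P.lf 0 4585315 0) (P.lf 218344 0 0)))) (P.cons (P.cons (P.lf 1536275060 0 0) (P.cons (P.lf 0 9479053 0) (P.cons (P.lf 0 4474689 0) (P.lf 213076 0 0)))) (P.cons (P.cons (P.lf 85515512 0 0) (P.cons (P.lf 0 2173596 0) (P.cons (P.lf 0 1026070 0) (P.lf 48856 0 0)))) (P.cons (P.cons (P.lf 0 106957012 0) (P.cons (P.lf 583535 0 0) (P.cons (P.lf 275465 0 0) P.nil))) (P.cons (P.cons (P.lf 0 15938298 0) (P.cons (P.lf 307564 0 0) P.nil)) (P.cons (P.cons (P.lf 2684684 0 0) P.nil) P.nil)))))) 1863228)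
 (EL.cons 1 (TM.mk (P.cons (P.cons (P.lf 0 474103306 0) (P.cons (P.lf 0 2739200 0) (P.cons (P.lf 0 1293069 0) (P.lf 61573 0 0)))) (P.cons (P.cons (P.lf 211446960 0 0) (P.cons (P.lf 0 3954519 0) (P.cons (P.lf 0 1866774 0) (P.lf 88891 0 0)))) (P.cons (P.cons (P.lf 195122334 0 0) (P.cons (P.lf 0 2046373 0) (P.cons (P.lf 0 966011 0) (P.lf 45997 0 0)))) (P.cons (P.cons (P.lf 3718443 0 0) (P.cons (P.lf 0 337280 0) (P.cons (P.lf 0 159215 0) P.nil))) (P.cons (P.cons (P.lf 0 12474253 0) (P.cons (P.lf 79760 0 0) P.nil)) (P.cons (P.cons (P.lf 0 2133688 0) P.nil) P.nil)))))) 670217)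
 (EL.cons 5 (TM.mk (P.cons (P.cons (P.lf 0 133698324 0) (P.cons (P.lf 0 772460 0) (P.cons (P.lf 0 364648 0) (P.lf 17362 0 0)))) (P.cons (P.cons (P.lf 0 2915766 0) (P.cons (P.lf 0 1476542 0) (P.cons (P.lf 0 697018 0) (P.lf 33190 0 0)))) (P.cons (P.cons (P.lf 73990954 0 0) (P.cons (P.lf 0 1150352 0) (P.cons (P.lf 0 543036 0) (P.lf 25858 0 0)))) (P.cons (P.cons (P.lf 28985736 0 0) (P.cons (P.lf 0 449862 0) (P.cons (P.lf 0 212362 0) P.nil))) (P.cons (P.cons (P.lf 1086616 0 0) (P.cons (P.lf 0 77496 0) P.nil)) (P.cons (P.cons (P.lf 0 1354530 0) P.nil) P.nil)))))) 519386)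
 EL.nil)))
noncomputable def S82_140_216_290_5 : EL := (EL.cons 0 (TM.mk (P.cons (P.cons (P.lf 572638092 0 0) (P.cons (P.lf 6616998 0 0) (P.cons (P.lf 3142743 0 0) (P.cons (P.lf 0 130693 0) (P.cons (P.lf 3397 0 0) (P.cons (P.lf 0 404 0) P.nil)))))) (P.cons (P.cons (P.lf 0 948619843 0) (P.cons (P.lf 1542367 0 0) (P.cons (P.lf 768665 0 0) (P.cons (P.lf 3638 0 0) (P.cons (P.lf 7215 0 0) P.nil))))) (P.cons (P.cons (P.lf 277822436 0 0) (P.cons (P.lf 0 4260111 0) (P.cons (P.lf 0 1976661 0) (P.cons (P.lf 128213 0 0) P.nil)))) (P.cons (P.cons (P.lf 139829748 0 0) (P.cons (P.lf 0 2337171 0) (P.cons (P.lf 0 1089943 0) P.nil))) (P.cons (P.cons (P.lf 0 20357950 0) (P.cons (P.lf 0 4310 0) P.nil)) (P.cons (P.cons (P.lf 0 13470073 0) P.nil) P.nil)))))) 6787394)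
 (EL.cons 1 (TM.mk (P.cons (P.cons (P.lf 161485381 0 0) (P.cons (P.lf 1866009 0 0) (P.cons (P.lf 886260 0 0) (P.cons (P.lf 0 36855 0) (P.cons (P.lf 958 0 0) (P.cons (P.lf 0 112 0) P.nil)))))) (P.cons (P.cons (P.lf 0 191969998 0) (P.cons (P.lf 1307874 0 0) (P.cons (P.lf 631359 0 0) (P.cons (P.lf 0 16213 0) (P.cons (P.lf 2482 0 0) P.nil))))) (P.cons (P.cons (P.lf 0 36012545 0) (P.cons (P.lf 0 873277 0) (P.cons (P.lf 0 396834 0) (P.cons (P.lf 34173 0 0) P.nil)))) (P.cons (P.cons (P.lf 60375268 0 0) (P.cons (P.lf 0 1167118 0) (P.cons (P.lf 0 541816 0) P.nil))) (P.cons (P.cons (P.lf 14795979 0 0) (P.cons (P.lf 0 378971 0) P.nil)) (P.cons (P.cons (P.lf 0 3432853 0) P.nil) P.nil)))))) 3619297)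
 (EL.cons 5 (TM.mk (P.cons (P.cons (P.lf 45539282 0 0) (P.cons (P.lf 526218 0 0) (P.cons (P.lf 249926 0 0) (P.cons (P.lf 0 10392 0) (P.cons (P.lf 270 0 0) (P.cons (P.lf 0 32 0) P.nil)))))) (P.cons (P.cons (P.lf 0 32832654 0) (P.cons (P.lf 614990 0 0) (P.cons (P.lf 294960 0 0) (P.cons (P.lf 0 9434 0) (P.cons (P.lf 826 0 0) P.nil))))) (P.cons (P.cons (P.lf 0 32439444 0) (P.cons (P.lf 0 38588 0) (P.cons (P.lf 0 11928 0) (P.cons (P.lf 6804 0 0) P.nil)))) (P.cons (P.cons (P.lf 9268164 0 0) (P.cons (P.lf 0 412674 0) (P.cons (P.lf 0 189916 0) P.nil))) (P.cons (P.cons (P.lf 10857696 0 0) (P.cons (P.lf 0 270952 0) P.nil)) (P.cons (P.cons (P.lf 1864912 0 0) P.nil) P.nil)))))) 1321158)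
 EL.nil)))
noncomputable def S82_140_216_290_6 : EL := (EL.cons 12 (TM.mk (P.lf 8589934592 0 0) 0)
 (EL.cons 3 (TM.mk (P.cons (P.lf 0 3255703297 0) (P.cons (P.lf 278383023 0 0) (P.cons (P.lf 69148875 0 0) (P.cons (P.lf 4729800 0 0) (P.cons (P.lf 0 250177 0) (P.cons (P.lf 0 82796 0) P.nil)))))) 14718)
 (EL.cons 7 (TM.mk (P.cons (P.lf 0 918116516 0) (P.cons (P.lf 0 350992016 0) (P.cons (P.lf 0 5087185 0) (P.cons (P.lf 3436187 0 0) (P.cons (P.lf 451667 0 0) (P.cons (P.lf 12370 0 0) P.nil)))))) 9470)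
 EL.nil)))
noncomputable def S82_140_216_290_7 : EL := (EL.cons 12 (TM.mk (P.cons (P.cons (P.lf 0 2925836732 0) (P.cons (P.lf 0 16904448 0) (P.cons (P.lf 0 7979936 0) (P.lf 379992 0 0)))) (P.cons (P.cons (P.lf 2173261468 0 0) (P.cons (P.lf 0 19387496 0) (P.cons (P.lf 0 9152080 0) (P.lf 435808 0 0)))) (P.cons (P.cons (P.lf 417585882 0 0) (P.cons (P.lf 0 7692752 0) (P.cons (P.lf 0 3631448 0) (P.lf 172920 0 0)))) (P.cons (P.cons (P.lf 0 36173688 0) (P.cons (P.lf 0 969536 0) (P.cons (P.lf 0 457680 0) P.nil))) (P.cons (P.cons (P.lf 0 18321344 0) (P.cons (P.lf 127440 0 0) P.nil)) (P.cons (P.cons (P.lf 0 1599904 0) P.nil) P.nil)))))) 862028)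
 (EL.cons 3 (TM.mk (P.cons (P.cons (P.lf 3263536573 0 0) (P.cons (P.lf 0 12814034 0) (P.cons (P.lf 0 6049010 0) (P.lf 288042 0 0)))) (P.cons (P.cons (P.lf 486492556 0 0) (P.cons (P.lf 0 13600572 0) (P.cons (P.lf 0 6420298 0) (P.lf 305724 0 0)))) (P.cons (P.cons (P.lf 0 54942192 0) (P.cons (P.lf 0 4302534 0) (P.cons (P.lf 0 2031058 0) (P.lf 96712 0 0)))) (P.cons (P.cons (P.lf 0 80515838 0) (P.cons (P.lf 94432 0 0) (P.cons (P.lf 44578 0 0) P.nil))) (P.cons (P.cons (P.lf 0 14092003 0) (P.cons (P.lf 303660 0 0) P.nil)) (P.cons (P.cons (P.lf 952717 0 0) P.nil) P.nil)))))) 3113733)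
 (EL.cons 7 (TM.mk (P.cons (P.cons (P.lf 0 2403855145 0) (P.cons (P.lf 26041176 0 0) (P.cons (P.lf 12293028 0 0) (P.lf 0 585384 0)))) (P.cons (P.cons (P.lf 0 613381535 0) (P.cons (P.lf 17147938 0 0) (P.cons (P.lf 8094878 0 0) (P.lf 0 385471 0)))) (P.cons (P.cons (P.lf 212742976 0 0) (P.cons (P.lf 1413826 0 0) (P.cons (P.lf 667410 0 0) (P.lf 0 31783 0)))) (P.cons (P.cons (P.lf 48822494 0 0) (P.cons (P.lf 0 941695 0) (P.cons (P.lf 0 444537 0) P.nil))) (P.cons (P.cons (P.lf 0 4417319 0) (P.cons (P.lf 0 156936 0) P.nil)) (P.cons (P.cons (P.lf 0 2313149 0) P.nil) P.nil)))))) 1410960)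
 (EL.cons 10 (TM.mk (P.cons (P.cons (P.lf 0 119284617 0) (P.cons (P.lf 0 117619662 0) (P.cons (P.lf 3680433 0 0) (P.cons (P.lf 674424 0 0) (P.lf 0 24084 0))))) (P.cons (P.cons (P.lf 0 91203996 0) (P.cons (P.lf 0 89930988 0) (P.cons (P.lf 2814027 0 0) (P.cons (P.lf 515658 0 0) (P.lf 0 18414 0))))) (P.cons (P.cons (P.lf 0 18755334 0) (P.cons (P.lf 0 18493551 0) (P.cons (P.lf 578679 0 0) (P.cons (P.lf 106038 0 0) P.nil)))) (P.cons (P.cons (P.lf 387528 0 0) (P.cons (P.lf 382119 0 0) (P.cons (P.lf 0 11955 0) P.nil))) (P.cons (P.cons (P.lf 455046 0 0) (P.cons (P.lf 448692 0 0) P.nil)) (P.cons (P.cons (P.lf 53028 0 0) P.nil) P.nil)))))) 92223)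
 EL.nil))))
noncomputable def S82_140_216_290_8 : EL := (EL.cons 12 (TM.mk (P.cons (P.cons (P.lf 996575758 0 0) (P.cons (P.lf 11515722 0 0) (P.cons (P.lf 5469394 0 0) (P.cons (P.lf 0 227450 0) (P.cons (P.lf 5916 0 0) (P.cons (P.lf 0 706 0) P.nil)))))) (P.cons (P.cons (P.lf 0 1480478846 0) (P.cons (P.lf 4653554 0 0) (P.cons (P.lf 2273064 0 0) (P.cons (P.lf 0 32562 0) (P.cons (P.lf 13572 0 0) P.nil))))) (P.cons (P.cons (P.lf 265367466 0 0) (P.cons (P.lf 0 6213182 0) (P.cons (P.lf 0 2858966 0) (P.cons (P.lf 209566 0 0) P.nil)))) (P.cons (P.cons (P.lf 235941636 0 0) (P.cons (P.lf 0 4974684 0) (P.cons (P.lf 0 2309812 0) P.nil))) (P.cons (P.cons (P.lf 14477260 0 0) (P.cons (P.lf 0 1089944 0) P.nil)) (P.cons (P.cons (P.lf 0 11697792 0) P.nil) P.nil)))))) 5727344)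
 (EL.cons 3 (TM.mk (P.cons (P.cons (P.lf 0 1845484992 0) (P.cons (P.lf 248982 0 0) (P.cons (P.lf 180578 0 0) (P.cons (P.lf 53925 0 0) (P.cons (P.lf 11211 0 0) (P.cons (P.lf 0 1335 0) P.nil)))))) (P.cons (P.cons (P.lf 726526061 0 0) (P.cons (P.lf 0 12474706 0) (P.cons (P.lf 0 5749608 0) (P.cons (P.lf 411847 0 0) (P.cons (P.lf 24761 0 0) P.nil))))) (P.cons (P.cons (P.lf 741432213 0 0) (P.cons (P.lf 0 15620318 0) (P.cons (P.lf 0 7247140 0) (P.cons (P.lf 470646 0 0) P.nil)))) (P.cons (P.cons (P.lf 139056173 0 0) (P.cons (P.lf 0 6226907 0) (P.cons (P.lf 0 2881599 0) P.nil))) (P.cons (P.cons (P.lf 0 57953426 0) (P.cons (P.lf 0 107948 0) P.nil)) (P.cons (P.cons (P.lf 0 25417862 0) P.nil) P.nil)))))) 15679720)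
 (EL.cons 7 (TM.mk (P.cons (P.cons (P.lf 1744081733 0 0) (P.cons (P.lf 0 7047778 0) (P.cons (P.lf 0 3425920 0) (P.cons (P.lf 65020 0 0) (P.cons (P.lf 0 17594 0) (P.cons (P.lf 2097 0 0) P.nil)))))) (P.cons (P.cons (P.lf 0 916021527 0) (P.cons (P.lf 15728417 0 0) (P.cons (P.lf 7249241 0 0) (P.cons (P.lf 0 519276 0) (P.cons (P.lf 0 31218 0) P.nil))))) (P.cons (P.cons (P.lf 0 720557235 0) (P.cons (P.lf 16015580 0 0) (P.cons (P.lf 7441771 0 0) (P.cons (P.lf 0 471947 0) P.nil)))) (P.cons (P.cons (P.lf 69784056 0 0) (P.cons (P.lf 2506170 0 0) (P.cons (P.lf 1150972 0 0) P.nil))) (P.cons (P.cons (P.lf 75703308 0 0) (P.cons (P.lf 0 1330460 0) P.nil)) (P.cons (P.cons (P.lf 5258902 0 0) P.nil) P.nil)))))) 11658540)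
 (EL.cons 10 (TM.mk (P.cons (P.cons (P.lf 81259596 0 0) (P.cons (P.lf 80594874 0 0) (P.cons (P.lf 0 1822632 0) (P.cons (P.lf 0 265938 0) (P.cons (P.lf 0 3492 0) (P.cons (P.lf 0 828 0) P.nil)))))) (P.cons (P.cons (P.lf 1772148 0 0) (P.cons (P.lf 2644836 0 0) (P.cons (P.lf 1253850 0 0) (P.cons (P.lf 359838 0 0) (P.cons (P.lf 0 37674 0) P.nil))))) (P.cons (P.cons (P.lf 0 44970456 0) (P.cons (P.lf 0 43643604 0) (P.cons (P.lf 2406984 0 0) (P.cons (P.lf 542412 0 0) P.nil)))) (P.cons (P.cons (P.lf 0 17617038 0) (P.cons (P.lf 0 17097726 0) (P.cons (P.lf 942228 0 0) P.nil))) (P.cons (P.cons (P.lf 0 660426 0) (P.cons (P.lf 0 604104 0) P.nil)) (P.cons (P.cons (P.lf 823260 0 0) P.nil) P.nil)))))) 2056050)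
 EL.nil))))
noncomputable def S82_140_216_290_9 : EL := (EL.cons 3 (TM.mk (P.cons (P.lf 0 3255703297 0) (P.cons (P.lf 278383023 0 0) (P.cons (P.lf 69148875 0 0) (P.cons (P.lf 4729800 0 0) (P.cons (P.lf 0 250177 0) (P.cons (P.lf 0 82796 0) P.nil)))))) 14718)
 (EL.cons 7 (TM.mk (P.cons (P.lf 0 918116516 0) (P.cons (P.lf 0 350992016 0) (P.cons (P.lf 0 5087185 0) (P.cons (P.lf 3436187 0 0) (P.cons (P.lf 451667 0 0) (P.cons (P.lf 12370 0 0) P.nil)))))) 9470)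
 EL.nil))
noncomputable def S82_140_216_290_10 : EL := (EL.cons 3 (TM.mk (P.cons (P.cons (P.lf 1108932343 0 0) (P.cons (P.lf 6407017 0 0) (P.cons (P.lf 3024505 0 0) (P.lf 0 144021 0)))) (P.cons (P.cons (P.lf 0 918516632 0) (P.cons (P.lf 6800286 0 0) (P.cons (P.lf 3210149 0 0) (P.lf 0 152862 0)))) (P.cons (P.cons (P.lf 0 111392577 0) (P.cons (P.lf 2151267 0 0) (P.cons (P.lf 1015529 0 0) (P.lf 0 48356 0)))) (P.cons (P.cons (P.lf 43127170 0 0) (P.cons (P.lf 0 47216 0) (P.cons (P.lf 0 22289 0) P.nil))) (P.cons (P.cons (P.lf 10415141 0 0) (P.cons (P.lf 0 151830 0) P.nil)) (P.cons (P.cons (P.lf 0 83732 0) P.nil) P.nil)))))) 740219)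
 (EL.cons 7 (TM.mk (P.cons (P.cons (P.lf 312721709 0 0) (P.cons (P.lf 1806795 0 0) (P.cons (P.lf 852918 0 0) (P.lf 0 40614 0)))) (P.cons (P.cons (P.lf 0 112732163 0) (P.cons (P.lf 2762920 0 0) (P.cons (P.lf 1304267 0 0) (P.lf 0 62107 0)))) (P.cons (P.cons (P.lf 0 131701310 0) (P.cons (P.lf 1624423 0 0) (P.cons (P.lf 766827 0 0) (P.lf 0 36514 0)))) (P.cons (P.cons (P.lf 0 15654037 0) (P.cons (P.lf 422678 0 0) (P.cons (P.lf 199530 0 0) P.nil))) (P.cons (P.cons (P.lf 3904534 0 0) (P.cons (P.lf 21906 0 0) P.nil)) (P.cons (P.cons (P.lf 1218154 0 0) P.nil) P.nil)))))) 309188)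
 EL.nil))
noncomputable def S82_140_216_290_11 : EL := (EL.cons 3 (TM.mk (P.cons (P.cons (P.lf 0 377715912 0) (P.cons (P.lf 0 4364616 0) (P.cons (P.lf 0 2072974 0) (P.cons (P.lf 86205 0 0) (P.cons (P.lf 0 2241 0) (P.cons (P.lf 267 0 0) P.nil)))))) (P.cons (P.cons (P.lf 593418911 0 0) (P.cons (P.lf 0 1390558 0) (P.cons (P.lf 0 684270 0) (P.cons (P.lf 4969 0 0) (P.cons (P.lf 0 4951 0) P.nil))))) (P.cons (P.cons (P.lf 0 140534925 0) (P.cons (P.lf 2598394 0 0) (P.cons (P.lf 1201280 0 0) (P.cons (P.lf 0 82314 0) P.nil)))) (P.cons (P.cons (P.lf 0 92194183 0) (P.cons (P.lf 1727917 0 0) (P.cons (P.lf 804105 0 0) P.nil))) (P.cons (P.cons (P.lf 3451324 0 0) (P.cons (P.lf 204094 0 0) P.nil)) (P.cons (P.cons (P.lf 6981760 0 0) P.nil) P.nil)))))) 3402348)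
 (EL.cons 7 (TM.mk (P.cons (P.cons (P.lf 0 106516837 0) (P.cons (P.lf 0 1230832 0) (P.cons (P.lf 0 584584 0) (P.cons (P.lf 24310 0 0) (P.cons (P.lf 0 632 0) (P.cons (P.lf 75 0 0) P.nil)))))) (P.cons (P.cons (P.lf 117516837 0 0) (P.cons (P.lf 0 967927 0) (P.cons (P.lf 0 466435 0) (P.cons (P.lf 12774 0 0) (P.cons (P.lf 0 1692 0) P.nil))))) (P.cons (P.cons (P.lf 31540197 0 0) (P.cons (P.lf 467114 0 0) (P.cons (P.lf 209455 0 0) (P.cons (P.lf 0 20933 0) P.nil)))) (P.cons (P.cons (P.lf 0 34785816 0) (P.cons (P.lf 787434 0 0) (P.cons (P.lf 364540 0 0) P.nil))) (P.cons (P.cons (P.lf 0 11885130 0) (P.cons (P.lf 325912 0 0) P.nil)) (P.cons (P.cons (P.lf 548752 0 0) P.nil) P.nil)))))) 1649132)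
 EL.nil))
noncomputable def S82_140_216_290_12 : EL := (EL.cons 4 (TM.mk (P.cons (P.lf 3255703297 0 0) (P.cons (P.lf 0 278383023 0) (P.cons (P.lf 0 69148875 0) (P.cons (P.lf 0 4729800 0) (P.cons (P.lf 250177 0 0) (P.cons (P.lf 82796 0 0) P.nil)))))) 14718)
 (EL.cons 8 (TM.mk (P.cons (P.lf 918116516 0 0) (P.cons (P.lf 350992016 0 0) (P.cons (P.lf 5087185 0 0) (P.cons (P.lf 0 3436187 0) (P.cons (P.lf 0 451667 0) (P.cons (P.lf 0 12370 0) P.nil)))))) 9470)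
 EL.nil))
noncomputable def S82_140_216_290_13 : EL := (EL.cons 4 (TM.mk (P.cons (P.cons (P.lf 0 1108932343 0) (P.cons (P.lf 0 6407017 0) (P.cons (P.lf 0 3024505 0) (P.lf 144021 0 0)))) (P.cons (P.cons (P.lf 918516632 0 0) (P.cons (P.lf 0 6800286 0) (P.cons (P.lf 0 3210149 0) (P.lf 152862 0 0)))) (P.cons (P.cons (P.lf 111392577 0 0) (P.cons (P.lf 0 2151267 0) (P.cons (P.lf 0 1015529 0) (P.lf 48356 0 0)))) (P.cons (P.cons (P.lf 0 43127170 0) (P.cons (P.lf 47216 0 0) (P.cons (P.lf 22289 0 0) P.nil))) (P.cons (P.cons (P.lf 0 10415141 0) (P.cons (P.lf 151830 0 0) P.nil)) (P.cons (P.cons (P.lf 83732 0 0) P.nil) P.nil)))))) 740219)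
 (EL.cons 8 (TM.mk (P.cons (P.cons (P.lf 0 312721709 0) (P.cons (P.lf 0 1806795 0) (P.cons (P.lf 0 852918 0) (P.lf 40614 0 0)))) (P.cons (P.cons (P.lf 112732163 0 0) (P.cons (P.lf 0 2762920 0) (P.cons (P.lf 0 1304267 0) (P.lf 62107 0 0)))) (P.cons (P.cons (P.lf 131701310 0 0) (P.cons (P.lf 0 1624423 0) (P.cons (P.lf 0 766827 0) (P.lf 36514 0 0)))) (P.cons (P.cons (P.lf 15654037 0 0) (P.cons (P.lf 0 422678 0) (P.cons (P.lf 0 199530 0) P.nil))) (P.cons (P.cons (P.lf 0 3904534 0) (P.cons (P.lf 0 21906 0) P.nil)) (P.cons (P.cons (P.lf 0 1218154 0) P.nil) P.nil)))))) 309188)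
 EL.nil))
noncomputable def S82_140_216_290_14 : EL := (EL.cons 4 (TM.mk (P.cons (P.cons (P.lf 377715912 0 0) (P.cons (P.lf 4364616 0 0) (P.cons (P.lf 2072974 0 0) (P.cons (P.lf 0 86205 0) (P.cons (P.lf 2241 0 0) (P.cons (P.lf 0 267 0) P.nil)))))) (P.cons (P.cons (P.lf 0 593418911 0) (P.cons (P.lf 1390558 0 0) (P.cons (P.lf 684270 0 0) (P.cons (P.lf 0 4969 0) (P.cons (P.lf 4951 0 0) P.nil))))) (P.cons (P.cons (P.lf 140534925 0 0) (P.cons (P.lf 0 2598394 0) (P.cons (P.lf 0 1201280 0) (P.cons (P.lf 82314 0 0) P.nil)))) (P.cons (P.cons (P.lf 92194183 0 0) (P.cons (P.lf 0 1727917 0) (P.cons (P.lf 0 804105 0) P.nil))) (P.cons (P.cons (P.lf 0 3451324 0) (P.cons (P.lf 0 204094 0) P.nil)) (P.cons (P.cons (P.lf 0 6981760 0) P.nil) P.nil)))))) 3402348)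
 (EL.cons 8 (TM.mk (P.cons (P.cons (P.lf 106516837 0 0) (P.cons (P.lf 1230832 0 0) (P.cons (P.lf 584584 0 0) (P.cons (P.lf 0 24310 0) (P.cons (P.lf 632 0 0) (P.cons (P.lf 0 75 0) P.nil)))))) (P.cons (P.cons (P.lf 0 117516837 0) (P.cons (P.lf 967927 0 0) (P.cons (P.lf 466435 0 0) (P.cons (P.lf 0 12774 0) (P.cons (P.lf 1692 0 0) P.nil))))) (P.cons (P.cons (P.lf 0 31540197 0) (P.cons (P.lf 0 467114 0) (P.cons (P.lf 0 209455 0) (P.cons (P.lf 20933 0 0) P.nil)))) (P.cons (P.cons (P.lf 34785816 0 0) (P.cons (P.lf 0 787434 0) (P.cons (P.lf 0 364540 0) P.nil))) (P.cons (P.cons (P.lf 11885130 0 0) (P.cons (P.lf 0 325912 0) P.nil)) (P.cons (P.cons (P.lf 0 548752 0) P.nil) P.nil)))))) 1649132)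
 EL.nil))
noncomputable def S82_140_216_290_15 : EL := (EL.cons 4 (TM.mk (P.cons (P.lf 0 2632440120 0) (P.cons (P.lf 450180236 0 0) (P.cons (P.lf 92575781 0 0) (P.cons (P.lf 0 1912835 0) (P.cons (P.lf 0 2246092 0) (P.cons (P.lf 0 261750 0) P.nil)))))) 55630)
 (EL.cons 8 (TM.mk (P.cons (P.lf 0 742354732 0) (P.cons (P.lf 0 220323058 0) (P.cons (P.lf 35920386 0 0) (P.cons (P.lf 10236253 0 0) (P.cons (P.lf 570247 0 0) (P.cons (P.lf 0 114946 0) P.nil)))))) 34529)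
 EL.nil))
noncomputable def S82_140_216_290_16 : EL := (EL.cons 4 (TM.mk (P.cons (P.cons (P.lf 896641285 0 0) (P.cons (P.lf 5180475 0 0) (P.cons (P.lf 2445501 0 0) (P.lf 0 116450 0)))) (P.cons (P.cons (P.lf 0 819346698 0) (P.cons (P.lf 5055495 0 0) (P.cons (P.lf 2386500 0 0) (P.lf 0 113640 0)))) (P.cons (P.cons (P.lf 0 45608273 0) (P.cons (P.lf 1159251 0 0) (P.cons (P.lf 547237 0 0) (P.lf 0 26056 0)))) (P.cons (P.cons (P.lf 57043740 0 0) (P.cons (P.lf 0 311219 0) (P.cons (P.lf 0 146914 0) P.nil))) (P.cons (P.cons (P.lf 8500425 0 0) (P.cons (P.lf 0 164034 0) P.nil)) (P.cons (P.cons (P.lf 0 1431831 0) P.nil) P.nil)))))) 993730)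
 (EL.cons 8 (TM.mk (P.cons (P.cons (P.lf 252855097 0 0) (P.cons (P.lf 1460907 0 0) (P.cons (P.lf 689637 0 0) (P.lf 0 32839 0)))) (P.cons (P.cons (P.lf 0 112771712 0) (P.cons (P.lf 2109077 0 0) (P.cons (P.lf 995613 0 0) (P.lf 0 47409 0)))) (P.cons (P.cons (P.lf 0 104065245 0) (P.cons (P.lf 1091399 0 0) (P.cons (P.lf 515206 0 0) (P.lf 0 24532 0)))) (P.cons (P.cons (P.lf 0 1983170 0) (P.cons (P.lf 179883 0 0) (P.cons (P.lf 84915 0 0) P.nil))) (P.cons (P.cons (P.lf 6652935 0 0) (P.cons (P.lf 0 42539 0) P.nil)) (P.cons (P.cons (P.lf 1137967 0 0) P.nil) P.nil)))))) 357439)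
 EL.nil))
noncomputable def S82_140_216_290_17 : EL := (EL.cons 4 (TM.mk (P.cons (P.cons (P.lf 0 305406982 0) (P.cons (P.lf 0 3529065 0) (P.cons (P.lf 0 1676130 0) (P.cons (P.lf 69703 0 0) (P.cons (P.lf 0 1812 0) (P.cons (P.lf 215 0 0) P.nil)))))) (P.cons (P.cons (P.lf 505930583 0 0) (P.cons (P.lf 0 822596 0) (P.cons (P.lf 0 409954 0) (P.cons (P.lf 0 1940 0) (P.cons (P.lf 0 3848 0) P.nil))))) (P.cons (P.cons (P.lf 0 148171965 0) (P.cons (P.lf 2272059 0 0) (P.cons (P.lf 1054219 0 0) (P.cons (P.lf 0 68380 0) P.nil)))) (P.cons (P.cons (P.lf 0 74575865 0) (P.cons (P.lf 1246491 0 0) (P.cons (P.lf 581303 0 0) P.nil))) (P.cons (P.cons (P.lf 10857573 0 0) (P.cons (P.lf 2298 0 0) P.nil)) (P.cons (P.cons (P.lf 7184039 0 0) P.nil) P.nil)))))) 3619954)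
 (EL.cons 8 (TM.mk (P.cons (P.cons (P.lf 0 86125537 0) (P.cons (P.lf 0 995205 0) (P.cons (P.lf 0 472672 0) (P.cons (P.lf 19656 0 0) (P.cons (P.lf 0 511 0) (P.cons (P.lf 60 0 0) P.nil)))))) (P.cons (P.cons (P.lf 102383999 0 0) (P.cons (P.lf 0 697533 0) (P.cons (P.lf 0 336725 0) (P.cons (P.lf 8647 0 0) (P.cons (P.lf 0 1324 0) P.nil))))) (P.cons (P.cons (P.lf 19206691 0 0) (P.cons (P.lf 465748 0 0) (P.cons (P.lf 211645 0 0) (P.cons (P.lf 0 18226 0) P.nil)))) (P.cons (P.cons (P.lf 0 32200143 0) (P.cons (P.lf 622463 0 0) (P.cons (P.lf 288969 0 0) P.nil))) (P.cons (P.cons (P.lf 0 7891189 0) (P.cons (P.lf 202118 0 0) P.nil)) (P.cons (P.cons (P.lf 1830855 0 0) P.nil) P.nil)))))) 1930280)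
 EL.nil))
noncomputable def S82_140_216_290_18 : EL := (EL.cons 4 (TM.mk (P.cons (P.lf 2128492786 0 0) (P.cons (P.lf 0 545998394 0) (P.cons (P.lf 0 88936838 0) (P.cons (P.lf 12585940 0 0) (P.cons (P.lf 3966058 0 0) (P.cons (P.lf 158407 0 0) P.nil)))))) 145112)
 (EL.cons 8 (TM.mk (P.cons (P.lf 600240317 0 0) (P.cons (P.lf 126820692 0 0) (P.cons (P.lf 0 57025083 0) (P.cons (P.lf 0 10448908 0) (P.cons (P.lf 650816 0 0) (P.cons (P.lf 379305 0 0) P.nil)))))) 67460)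
 EL.nil))
noncomputable def S82_140_216_290_19 : EL := (EL.cons 4 (TM.mk (P.cons (P.cons (P.lf 0 724990663 0) (P.cons (P.lf 0 4188738 0) (P.cons (P.lf 0 1977341 0) (P.lf 94157 0 0)))) (P.cons (P.cons (P.lf 724484388 0 0) (P.cons (P.lf 0 3729521 0) (P.cons (P.lf 0 1760560 0) (P.lf 83835 0 0)))) (P.cons (P.cons (P.lf 0 4371868 0) (P.cons (P.lf 0 498839 0) (P.cons (P.lf 0 235482 0) (P.lf 11211 0 0)))) (P.cons (P.cons (P.lf 0 62294311 0) (P.cons (P.lf 424692 0 0) (P.cons (P.lf 200480 0 0) P.nil))) (P.cons (P.cons (P.lf 0 4730692 0) (P.cons (P.lf 136640 0 0) P.nil)) (P.cons (P.cons (P.lf 2703946 0 0) P.nil) P.nil)))))) 1198392)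
 (EL.cons 8 (TM.mk (P.cons (P.cons (P.lf 0 204449189 0) (P.cons (P.lf 0 1181234 0) (P.cons (P.lf 0 557615 0) (P.lf 26552 0 0)))) (P.cons (P.cons (P.lf 108664682 0 0) (P.cons (P.lf 0 1604318 0) (P.cons (P.lf 0 757335 0) (P.lf 36063 0 0)))) (P.cons (P.cons (P.lf 80688913 0 0) (P.cons (P.lf 0 711560 0) (P.cons (P.lf 0 335899 0) (P.lf 15994 0 0)))) (P.cons (P.cons (P.lf 0 7230903 0) (P.cons (P.lf 0 32054 0) (P.cons (P.lf 0 15131 0) P.nil))) (P.cons (P.cons (P.lf 0 7451749 0) (P.cons (P.lf 67962 0 0) P.nil)) (P.cons (P.cons (P.lf 0 614644 0) P.nil) P.nil)))))) 566521)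
 EL.nil))
noncomputable def S82_140_216_290_20 : EL := (EL.cons 4 (TM.mk (P.cons (P.cons (P.lf 246940681 0 0) (P.cons (P.lf 2853470 0 0) (P.cons (P.lf 1355256 0 0) (P.cons (P.lf 0 56358 0) (P.cons (P.lf 1465 0 0) (P.cons (P.lf 0 174 0) P.nil)))))) (P.cons (P.cons (P.lf 0 430191553 0) (P.cons (P.lf 421130 0 0) (P.cons (P.lf 215591 0 0) (P.cons (P.lf 6388 0 0) (P.cons (P.lf 2986 0 0) P.nil))))) (P.cons (P.cons (P.lf 149540080 0 0) (P.cons (P.lf 0 1954579 0) (P.cons (P.lf 0 909529 0) (P.cons (P.lf 56352 0 0) P.nil)))) (P.cons (P.cons (P.lf 58384822 0 0) (P.cons (P.lf 0 869055 0) (P.cons (P.lf 0 406143 0) P.nil))) (P.cons (P.cons (P.lf 0 15866325 0) (P.cons (P.lf 122591 0 0) P.nil)) (P.cons (P.cons (P.lf 0 6538004 0) P.nil) P.nil)))))) 3978168)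
 (EL.cons 8 (TM.mk (P.cons (P.cons (P.lf 69637893 0 0) (P.cons (P.lf 804685 0 0) (P.cons (P.lf 382185 0 0) (P.cons (P.lf 0 15893 0) (P.cons (P.lf 413 0 0) (P.cons (P.lf 0 49 0) P.nil)))))) (P.cons (P.cons (P.lf 0 88738355 0) (P.cons (P.lf 495193 0 0) (P.cons (P.lf 239584 0 0) (P.cons (P.lf 0 5633 0) (P.cons (P.lf 1035 0 0) P.nil))))) (P.cons (P.cons (P.lf 0 9930333 0) (P.cons (P.lf 0 441903 0) (P.cons (P.lf 0 202526 0) (P.cons (P.lf 15672 0 0) P.nil)))) (P.cons (P.cons (P.lf 29020834 0 0) (P.cons (P.lf 0 484248 0) (P.cons (P.lf 0 225355 0) P.nil))) (P.cons (P.cons (P.lf 4609754 0 0) (P.cons (P.lf 0 113148 0) P.nil)) (P.cons (P.cons (P.lf 0 2560947 0) P.nil) P.nil)))))) 1975693)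
 EL.nil))
noncomputable def S82_140_216_290_21 : EL := (EL.cons 4 (TM.mk (P.cons (P.cons (P.lf 0 2154604230 0) (P.cons (P.lf 19221051 0 0) (P.cons (P.lf 9073515 0 0) (P.lf 0 432063 0)))) (P.cons (P.cons (P.lf 0 1405009188 0) (P.cons (P.lf 20400858 0 0) (P.cons (P.lf 9630447 0 0) (P.lf 0 458586 0)))) (P.cons (P.cons (P.lf 0 56450385 0) (P.cons (P.lf 6453801 0 0) (P.cons (P.lf 3046587 0 0) (P.lf 0 145068 0)))) (P.cons (P.cons (P.lf 123643008 0 0) (P.cons (P.lf 0 141648 0) (P.cons (P.lf 0 66867 0) P.nil))) (P.cons (P.cons (P.lf 24507144 0 0) (P.cons (P.lf 0 455490 0) P.nil)) (P.cons (P.cons (P.lf 0 1036449 0) P.nil) P.nil)))))) 2373495)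
 (EL.cons 8 (TM.mk (P.cons (P.cons (P.lf 2716576854 0 0) (P.cons (P.lf 0 24234381 0) (P.cons (P.lf 0 11440110 0) (P.lf 544770 0 0)))) (P.cons (P.cons (P.lf 500649372 0 0) (P.cons (P.lf 0 14385018 0) (P.cons (P.lf 0 6790611 0) (P.lf 323364 0 0)))) (P.cons (P.cons (P.lf 0 344444286 0) (P.cons (P.lf 210597 0 0) (P.cons (P.lf 99417 0 0) (P.lf 0 4731 0)))) (P.cons (P.cons (P.lf 0 64476531 0) (P.cons (P.lf 1364373 0 0) (P.cons (P.lf 644067 0 0) P.nil))) (P.cons (P.cons (P.lf 8321853 0 0) (P.cons (P.lf 178842 0 0) P.nil)) (P.cons (P.cons (P.lf 3531303 0 0) P.nil) P.nil)))))) 1101753)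
 (EL.cons 11 (TM.mk (P.cons (P.cons (P.lf 119284617 0 0) (P.cons (P.lf 117619662 0 0) (P.cons (P.lf 0 3680433 0) (P.cons (P.lf 0 674424 0) (P.lf 24084 0 0))))) (P.cons (P.cons (P.lf 91203996 0 0) (P.cons (P.lf 89930988 0 0) (P.cons (P.lf 0 2814027 0) (P.cons (P.lf 0 515658 0) (P.lf 18414 0 0))))) (P.cons (P.cons (P.lf 18755334 0 0) (P.cons (P.lf 18493551 0 0) (P.cons (P.lf 0 578679 0) (P.cons (P.lf 0 106038 0) P.nil)))) (P.cons (P.cons (P.lf 0 387528 0) (P.cons (P.lf 0 382119 0) (P.cons (P.lf 11955 0 0) P.nil))) (P.cons (P.cons (P.lf 0 455046 0) (P.cons (P.lf 0 448692 0) P.nil)) (P.cons (P.cons (P.lf 0 53028 0) P.nil) P.nil)))))) 92223)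
 EL.nil)))
noncomputable def S82_140_216_290_22 : EL := (EL.cons 4 (TM.mk (P.cons (P.cons (P.lf 733884540 0 0) (P.cons (P.lf 0 2306799 0) (P.cons (P.lf 0 1126776 0) (P.cons (P.lf 16140 0 0) (P.cons (P.lf 0 6726 0) (P.cons (P.lf 801 0 0) P.nil)))))) (P.cons (P.cons (P.lf 0 66553575 0) (P.cons (P.lf 5542074 0 0) (P.cons (P.lf 2532669 0 0) (P.cons (P.lf 0 203439 0) (P.cons (P.lf 0 14856 0) P.nil))))) (P.cons (P.cons (P.lf 0 440983569 0) (P.cons (P.lf 9109356 0 0) (P.cons (P.lf 4224210 0 0) (P.cons (P.lf 0 276480 0) P.nil)))) (P.cons (P.cons (P.lf 0 115625178 0) (P.cons (P.lf 3977412 0 0) (P.cons (P.lf 1842852 0 0) P.nil))) (P.cons (P.cons (P.lf 30702375 0 0) (P.cons (P.lf 156021 0 0) P.nil)) (P.cons (P.cons (P.lf 16199811 0 0) P.nil) P.nil)))))) 6138675)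
 (EL.cons 8 (TM.mk (P.cons (P.cons (P.lf 0 925299285 0) (P.cons (P.lf 2908473 0 0) (P.cons (P.lf 1420668 0 0) (P.cons (P.lf 0 20355 0) (P.cons (P.lf 8481 0 0) (P.cons (P.lf 0 1011 0) P.nil)))))) (P.cons (P.cons (P.lf 516769182 0 0) (P.cons (P.lf 0 8348172 0) (P.cons (P.lf 0 3857838 0) (P.cons (P.lf 266025 0 0) (P.cons (P.lf 14763 0 0) P.nil))))) (P.cons (P.cons (P.lf 376048716 0 0) (P.cons (P.lf 0 7774233 0) (P.cons (P.lf 0 3616158 0) (P.cons (P.lf 225507 0 0) P.nil)))) (P.cons (P.cons (P.lf 0 52284936 0) (P.cons (P.lf 0 859368 0) (P.cons (P.lf 0 393216 0) P.nil))) (P.cons (P.cons (P.lf 0 43794219 0) (P.cons (P.lf 828186 0 0) P.nil)) (P.cons (P.cons (P.lf 0 2355075 0) P.nil) P.nil)))))) 5004693)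
 (EL.cons 11 (TM.mk (P.cons (P.cons (P.lf 0 40629798 0) (P.cons (P.lf 0 40297437 0) (P.cons (P.lf 911316 0 0) (P.cons (P.lf 132969 0 0) (P.cons (P.lf 1746 0 0) (P.cons (P.lf 414 0 0) P.nil)))))) (P.cons (P.cons (P.lf 0 886074 0) (P.cons (P.lf 0 1322418 0) (P.cons (P.lf 0 626925 0) (P.cons (P.lf 0 179919 0) (P.cons (P.lf 18837 0 0) P.nil))))) (P.cons (P.cons (P.lf 22485228 0 0) (P.cons (P.lf 21821802 0 0) (P.cons (P.lf 0 1203492 0) (P.cons (P.lf 0 271206 0) P.nil)))) (P.cons (P.cons (P.lf 8808519 0 0) (P.cons (P.lf 8548863 0 0) (P.cons (P.lf 0 471114 0) P.nil))) (P.cons (P.cons (P.lf 330213 0 0) (P.cons (P.lf 302052 0 0) P.nil)) (P.cons (P.cons (P.lf 0 411630 0) P.nil) P.nil)))))) 1028025)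
 EL.nil)))
noncomputable def S82_140_216_290_23 : EL := (EL.cons 4 (TM.mk (P.cons (P.cons (P.lf 1742132526 0 0) (P.cons (P.lf 0 15541422 0) (P.cons (P.lf 0 7336503 0) (P.lf 349350 0 0)))) (P.cons (P.cons (P.lf 987074724 0 0) (P.cons (P.lf 0 15166482 0) (P.cons (P.lf 0 7159500 0) (P.lf 340923 0 0)))) (P.cons (P.cons (P.lf 0 88496370 0) (P.cons (P.lf 0 3477753 0) (P.cons (P.lf 0 1641711 0) (P.lf 78171 0 0)))) (P.cons (P.cons (P.lf 0 130535520 0) (P.cons (P.lf 933657 0 0) (P.cons (P.lf 440742 0 0) P.nil))) (P.cons (P.cons (P.lf 0 13753209 0) (P.cons (P.lf 492099 0 0) P.nil)) (P.cons (P.cons (P.lf 4721037 0 0) P.nil) P.nil)))))) 3021759)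
 (EL.cons 8 (TM.mk (P.cons (P.cons (P.lf 0 2196522606 0) (P.cons (P.lf 19595013 0 0) (P.cons (P.lf 9250044 0 0) (P.lf 0 440478 0)))) (P.cons (P.cons (P.lf 0 216989946 0) (P.cons (P.lf 9955689 0 0) (P.cons (P.lf 4699695 0 0) (P.lf 0 223794 0)))) (P.cons (P.cons (P.lf 359770881 0 0) (P.cons (P.lf 0 1581003 0) (P.cons (P.lf 0 746331 0) (P.lf 35535 0 0)))) (P.cons (P.cons (P.lf 40108266 0 0) (P.cons (P.lf 0 1364124 0) (P.cons (P.lf 0 643950 0) P.nil))) (P.cons (P.cons (P.lf 0 16682406 0) (P.cons (P.lf 0 62049 0) P.nil)) (P.cons (P.cons (P.lf 0 3878775 0) P.nil) P.nil)))))) 1700874)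
 (EL.cons 11 (TM.mk (P.cons (P.cons (P.lf 0 96449085 0) (P.cons (P.lf 0 95102865 0) (P.cons (P.lf 2975859 0 0) (P.cons (P.lf 545313 0 0) (P.lf 0 19473 0))))) (P.cons (P.cons (P.lf 0 65497143 0) (P.cons (P.lf 0 64582947 0) (P.cons (P.lf 2020860 0 0) (P.cons (P.lf 370314 0 0) (P.lf 0 13221 0))))) (P.cons (P.cons (P.lf 0 6810762 0) (P.cons (P.lf 0 6715701 0) (P.cons (P.lf 210138 0 0) (P.cons (P.lf 38505 0 0) P.nil)))) (P.cons (P.cons (P.lf 3316422 0 0) (P.cons (P.lf 3270132 0 0) (P.cons (P.lf 0 102324 0) P.nil))) (P.cons (P.cons (P.lf 762951 0 0) (P.cons (P.lf 752301 0 0) P.nil)) (P.cons (P.cons (P.lf 18672 0 0) P.nil) P.nil)))))) 218040)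
 EL.nil)))
noncomputable def S82_140_216_290_24 : EL := (EL.cons 4 (TM.mk (P.cons (P.cons (P.lf 0 593391636 0) (P.cons (P.lf 1865190 0 0) (P.cons (P.lf 911067 0 0) (P.cons (P.lf 0 13050 0) (P.cons (P.lf 5439 0 0) (P.cons (P.lf 0 648 0) P.nil)))))) (P.cons (P.cons (P.lf 104551437 0 0) (P.cons (P.lf 0 4640601 0) (P.cons (P.lf 0 2125725 0) (P.cons (P.lf 165609 0 0) (P.cons (P.lf 11547 0 0) P.nil))))) (P.cons (P.cons (P.lf 364564746 0 0) (P.cons (P.lf 0 7021935 0) (P.cons (P.lf 0 3259788 0) (P.cons (P.lf 209763 0 0) P.nil)))) (P.cons (P.cons (P.lf 62720964 0 0) (P.cons (P.lf 0 2493726 0) (P.cons (P.lf 0 1155840 0) P.nil))) (P.cons (P.cons (P.lf 0 40515714 0) (P.cons (P.lf 311922 0 0) P.nil)) (P.cons (P.cons (P.lf 0 13490514 0) P.nil) P.nil)))))) 6222288)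
 (EL.cons 8 (TM.mk (P.cons (P.cons (P.lf 748162452 0 0) (P.cons (P.lf 0 2351682 0) (P.cons (P.lf 0 1148697 0) (P.cons (P.lf 16458 0 0) (P.cons (P.lf 0 6858 0) (P.cons (P.lf 816 0 0) P.nil)))))) (P.cons (P.cons (P.lf 0 481812840 0) (P.cons (P.lf 6951102 0 0) (P.cons (P.lf 3217524 0 0) (P.cons (P.lf 0 216504 0) (P.cons (P.lf 0 11352 0) P.nil))))) (P.cons (P.cons (P.lf 0 284221440 0) (P.cons (P.lf 5758734 0 0) (P.cons (P.lf 2681568 0 0) (P.cons (P.lf 0 164292 0) P.nil)))) (P.cons (P.cons (P.lf 76062315 0 0) (P.cons (P.lf 17415 0 0) (P.cons (P.lf 3345 0 0) P.nil))) (P.cons (P.cons (P.lf 38918055 0 0) (P.cons (P.lf 0 872550 0) P.nil)) (P.cons (P.cons (P.lf 0 1592838 0) P.nil) P.nil)))))) 5161848)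
 (EL.cons 11 (TM.mk (P.cons (P.cons (P.lf 32851737 0 0) (P.cons (P.lf 32583003 0 0) (P.cons (P.lf 0 736857 0) (P.cons (P.lf 0 107514 0) (P.cons (P.lf 0 1410 0) (P.cons (P.lf 0 336 0) P.nil)))))) (P.cons (P.cons (P.lf 0 2092578 0) (P.cons (P.lf 0 1716792 0) (P.cons (P.lf 569913 0 0) (P.cons (P.lf 154668 0 0) (P.cons (P.lf 0 15111 0) P.nil))))) (P.cons (P.cons (P.lf 0 18939726 0) (P.cons (P.lf 0 18427761 0) (P.cons (P.lf 945405 0 0) (P.cons (P.lf 209130 0 0) P.nil)))) (P.cons (P.cons (P.lf 0 5630619 0) (P.cons (P.lf 0 5473638 0) (P.cons (P.lf 288024 0 0) P.nil))) (P.cons (P.cons (P.lf 729627 0 0) (P.cons (P.lf 722517 0 0) P.nil)) (P.cons (P.cons (P.lf 534231 0 0) P.nil) P.nil)))))) 1085568)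
 EL.nil)))
noncomputable def S82_140_216_290_25 : EL := (EL.cons 4 (TM.mk (P.cons (P.cons (P.lf 0 1408623312 0) (P.cons (P.lf 12566214 0 0) (P.cons (P.lf 5932023 0 0) (P.lf 0 282471 0)))) (P.cons (P.cons (P.lf 0 677665647 0) (P.cons (P.lf 11188560 0 0) (P.cons (P.lf 5281680 0 0) (P.lf 0 251505 0)))) (P.cons (P.cons (P.lf 169716594 0 0) (P.cons (P.lf 1496517 0 0) (P.cons (P.lf 706446 0 0) (P.lf 0 33636 0)))) (P.cons (P.cons (P.lf 118425507 0 0) (P.cons (P.lf 0 1274076 0) (P.cons (P.lf 0 601440 0) P.nil))) (P.cons (P.cons (P.lf 1626930 0 0) (P.cons (P.lf 0 409917 0) P.nil)) (P.cons (P.cons (P.lf 0 7210944 0) P.nil) P.nil)))))) 3137067)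
 (EL.cons 8 (TM.mk (P.cons (P.cons (P.lf 1776026163 0 0) (P.cons (P.lf 0 15843795 0) (P.cons (P.lf 0 7479240 0) (P.lf 356154 0 0)))) (P.cons (P.cons (P.lf 23588607 0 0) (P.cons (P.lf 0 6695055 0) (P.cons (P.lf 0 3160476 0) (P.lf 150498 0 0)))) (P.cons (P.cons (P.lf 0 343620933 0) (P.cons (P.lf 2303160 0 0) (P.cons (P.lf 1087233 0 0) (P.lf 0 51771 0)))) (P.cons (P.cons (P.lf 0 13863105 0) (P.cons (P.lf 1187664 0 0) (P.cons (P.lf 560649 0 0) P.nil))) (P.cons (P.cons (P.lf 22321785 0 0) (P.cons (P.lf 0 60813 0) P.nil)) (P.cons (P.cons (P.lf 3152907 0 0) P.nil) P.nil)))))) 2100852)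
 (EL.cons 11 (TM.mk (P.cons (P.cons (P.lf 77985129 0 0) (P.cons (P.lf 76896627 0 0) (P.cons (P.lf 0 2406168 0) (P.cons (P.lf 0 440919 0) (P.lf 15744 0 0))))) (P.cons (P.cons (P.lf 46290327 0 0) (P.cons (P.lf 45644217 0 0) (P.cons (P.lf 0 1428249 0) (P.cons (P.lf 0 261720 0) (P.lf 9345 0 0))))) (P.cons (P.cons (P.lf 0 677706 0) (P.cons (P.lf 0 668247 0) (P.cons (P.lf 20910 0 0) (P.cons (P.lf 3831 0 0) P.nil)))) (P.cons (P.cons (P.lf 0 4390509 0) (P.cons (P.lf 0 4329228 0) (P.cons (P.lf 135462 0 0) P.nil))) (P.cons (P.cons (P.lf 0 575514 0) (P.cons (P.lf 0 567480 0) P.nil)) (P.cons (P.cons (P.lf 92655 0 0) P.nil) P.nil)))))) 321264)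
 EL.nil)))
noncomputable def S82_140_216_290_26 : EL := (EL.cons 4 (TM.mk (P.cons (P.cons (P.lf 479794317 0 0) (P.cons (P.lf 0 1508124 0) (P.cons (P.lf 0 736656 0) (P.cons (P.lf 10551 0 0) (P.cons (P.lf 0 4398 0) (P.cons (P.lf 522 0 0) P.nil)))))) (P.cons (P.cons (P.lf 0 125561808 0) (P.cons (P.lf 3881169 0 0) (P.cons (P.lf 1781769 0 0) (P.cons (P.lf 0 134808 0) (P.cons (P.lf 0 8961 0) P.nil))))) (P.cons (P.cons (P.lf 0 297735549 0) (P.cons (P.lf 5388867 0 0) (P.cons (P.lf 2504421 0 0) (P.cons (P.lf 0 158382 0) P.nil)))) (P.cons (P.cons (P.lf 0 24410391 0) (P.cons (P.lf 1453353 0 0) (P.cons (P.lf 673761 0 0) P.nil))) (P.cons (P.cons (P.lf 43516308 0 0) (P.cons (P.lf 0 550776 0) P.nil)) (P.cons (P.cons (P.lf 9617853 0 0) P.nil) P.nil)))))) 6681513)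
 (EL.cons 8 (TM.mk (P.cons (P.cons (P.lf 0 604936221 0) (P.cons (P.lf 1901484 0 0) (P.cons (P.lf 928794 0 0) (P.cons (P.lf 0 13308 0) (P.cons (P.lf 5544 0 0) (P.cons (P.lf 0 660 0) P.nil)))))) (P.cons (P.cons (P.lf 441301707 0 0) (P.cons (P.lf 0 5782989 0) (P.cons (P.lf 0 2680989 0) (P.cons (P.lf 176193 0 0) (P.cons (P.lf 8703 0 0) P.nil))))) (P.cons (P.cons (P.lf 209348091 0 0) (P.cons (P.lf 0 4216101 0) (P.cons (P.lf 0 1965492 0) (P.cons (P.lf 118155 0 0) P.nil)))) (P.cons (P.cons (P.lf 0 88546899 0) (P.cons (P.lf 500670 0 0) (P.cons (P.lf 236595 0 0) P.nil))) (P.cons (P.cons (P.lf 0 31702425 0) (P.cons (P.lf 813924 0 0) P.nil)) (P.cons (P.cons (P.lf 4965525 0 0) P.nil) P.nil)))))) 5311362)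
 (EL.cons 11 (TM.mk (P.cons (P.cons (P.lf 0 26562687 0) (P.cons (P.lf 0 26345400 0) (P.cons (P.lf 595794 0 0) (P.cons (P.lf 86931 0 0) (P.cons (P.lf 1140 0 0) (P.cons (P.lf 270 0 0) P.nil)))))) (P.cons (P.cons (P.lf 3963258 0 0) (P.cons (P.lf 3640830 0 0) (P.cons (P.lf 0 511755 0) (P.cons (P.lf 0 132492 0) (P.cons (P.lf 12120 0 0) P.nil))))) (P.cons (P.cons (P.lf 15733452 0 0) (P.cons (P.lf 15340863 0 0) (P.cons (P.lf 0 737670 0) (P.cons (P.lf 0 160248 0) P.nil)))) (P.cons (P.cons (P.lf 3245922 0 0) (P.cons (P.lf 3160527 0 0) (P.cons (P.lf 0 158601 0) P.nil))) (P.cons (P.cons (P.lf 0 1308990 0) (P.cons (P.lf 0 1283139 0) P.nil)) (P.cons (P.cons (P.lf 0 501006 0) P.nil) P.nil)))))) 1173615)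
 EL.nil)))
noncomputable def S82_140_216_290_27 : EL := (EL.cons 13 (TM.mk (P.lf 0 4294967296 0) 0)
 EL.nil)
noncomputable def S82_140_216_290_28 : EL := (EL.cons 13 (TM.mk (P.cons (P.cons (P.lf 1462918366 0 0) (P.cons (P.lf 8452224 0 0) (P.cons (P.lf 3989968 0 0) (P.lf 0 189996 0)))) (P.cons (P.cons (P.lf 0 1086630734 0) (P.cons (P.lf 9693748 0 0) (P.cons (P.lf 4576040 0 0) (P.lf 0 217904 0)))) (P.cons (P.cons (P.lf 0 208792941 0) (P.cons (P.lf 3846376 0 0) (P.cons (P.lf 1815724 0 0) (P.lf 0 86460 0)))) (P.cons (P.cons (P.lf 18086844 0 0) (P.cons (P.lf 484768 0 0) (P.cons (P.lf 228840 0 0) P.nil))) (P.cons (P.cons (P.lf 9160672 0 0) (P.cons (P.lf 0 63720 0) P.nil)) (P.cons (P.cons (P.lf 799952 0 0) P.nil) P.nil)))))) 431014)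
 EL.nil)
noncomputable def S82_140_216_290_29 : EL := (EL.cons 13 (TM.mk (P.cons (P.cons (P.lf 0 498287879 0) (P.cons (P.lf 0 5757861 0) (P.cons (P.lf 0 2734697 0) (P.cons (P.lf 113725 0 0) (P.cons (P.lf 0 2958 0) (P.cons (P.lf 353 0 0) P.nil)))))) (P.cons (P.cons (P.lf 740239423 0 0) (P.cons (P.lf 0 2326777 0) (P.cons (P.lf 0 1136532 0) (P.cons (P.lf 16281 0 0) (P.cons (P.lf 0 6786 0) P.nil))))) (P.cons (P.cons (P.lf 0 132683733 0) (P.cons (P.lf 3106591 0 0) (P.cons (P.lf 1429483 0 0) (P.cons (P.lf 0 104783 0) P.nil)))) (P.cons (P.cons (P.lf 0 117970818 0) (P.cons (P.lf 2487342 0 0) (P.cons (P.lf 1154906 0 0) P.nil))) (P.cons (P.cons (P.lf 0 7238630 0) (P.cons (P.lf 544972 0 0) P.nil)) (P.cons (P.cons (P.lf 5848896 0 0) P.nil) P.nil)))))) 2863672)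
 EL.nil)
noncomputable def S82_140_216_290_30 : EL := (EL.cons 13 (TM.mk (P.cons (P.lf 3472750184 0 0) (P.cons (P.lf 0 296941892 0) (P.cons (P.lf 0 73758800 0) (P.cons (P.lf 0 5045120 0) (P.cons (P.lf 266856 0 0) (P.cons (P.lf 88316 0 0) P.nil)))))) 15692)
 EL.nil)
noncomputable def S82_140_216_290_31 : EL := (EL.cons 13 (TM.mk (P.cons (P.cons (P.lf 0 1182861166 0) (P.cons (P.lf 0 6834152 0) (P.cons (P.lf 0 3226139 0) (P.lf 153623 0 0)))) (P.cons (P.cons (P.lf 979751075 0 0) (P.cons (P.lf 0 7253639 0) (P.cons (P.lf 0 3424159 0) (P.lf 163053 0 0)))) (P.cons (P.cons (P.lf 118818749 0 0) (P.cons (P.lf 0 2294685 0) (P.cons (P.lf 0 1083231 0) (P.lf 51580 0 0)))) (P.cons (P.cons (P.lf 0 46002315 0) (P.cons (P.lf 50364 0 0) (P.cons (P.lf 23775 0 0) P.nil))) (P.cons (P.cons (P.lf 0 11109484 0) (P.cons (P.lf 161953 0 0) P.nil)) (P.cons (P.cons (P.lf 89315 0 0) P.nil) P.nil))))))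 789547)
 EL.nil)
noncomputable def S82_140_216_290_32 : EL := (EL.cons 13 (TM.mk (P.cons (P.cons (P.lf 402896973 0 0) (P.cons (P.lf 4655591 0 0) (P.cons (P.lf 2211173 0 0) (P.cons (P.lf 0 91953 0) (P.cons (P.lf 2391 0 0) (P.cons (P.lf 0 285 0) P.nil)))))) (P.cons (P.cons (P.lf 0 632980172 0) (P.cons (P.lf 1483262 0 0) (P.cons (P.lf 729888 0 0) (P.cons (P.lf 0 5301 0) (P.cons (P.lf 5282 0 0) P.nil))))) (P.cons (P.cons (P.lf 149903920 0 0) (P.cons (P.lf 0 2771621 0) (P.cons (P.lf 0 1281366 0) (P.cons (P.lf 87802 0 0) P.nil)))) (P.cons (P.cons (P.lf 98340462 0 0) (P.cons (P.lf 0 1843112 0) (P.cons (P.lf 0 857713 0) P.nil))) (P.cons (P.cons (P.lf 0 3681413 0) (P.cons (P.lf 0 217701 0) P.nil)) (P.cons (P.cons (P.lf 0 7447211 0) P.nil) P.nil)))))) 3629148)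
 EL.nil)
noncomputable def S82_140_216_290_33 : EL := (EL.cons 14 (TM.mk (P.lf 8589934592 0 0) 0)
 EL.nil)
noncomputable def S82_140_216_290_34 : EL := (EL.cons 14 (TM.mk (P.cons (P.cons (P.lf 0 2925836732 0) (P.cons (P.lf 0 16904448 0) (P.cons (P.lf 0 7979936 0) (P.lf 379992 0 0)))) (P.cons (P.cons (P.lf 2173261468 0 0) (P.cons (P.lf 0 19387496 0) (P.cons (P.lf 0 9152080 0) (P.lf 435808 0 0)))) (P.cons (P.cons (P.lf 417585882 0 0) (P.cons (P.lf 0 7692752 0) (P.cons (P.lf 0 3631448 0) (P.lf 172920 0 0)))) (P.cons (P.cons (P.lf 0 36173688 0) (P.cons (P.lf 0 969536 0) (P.cons (P.lf 0 457680 0) P.nil))) (P.cons (P.cons (P.lf 0 18321344 0) (P.cons (P.lf 127440 0 0) P.nil)) (P.cons (P.cons (P.lf 0 1599904 0) P.nil) P.nil)))))) 862028)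
 EL.nil)
noncomputable def S82_140_216_290_35 : EL := (EL.cons 14 (TM.mk (P.cons (P.cons (P.lf 996575758 0 0) (P.cons (P.lf 11515722 0 0) (P.cons (P.lf 5469394 0 0) (P.cons (P.lf 0 227450 0) (P.cons (P.lf 5916 0 0) (P.cons (P.lf 0 706 0) P.nil)))))) (P.cons (P.cons (P.lf 0 1480478846 0) (P.cons (P.lf 4653554 0 0) (P.cons (P.lf 2273064 0 0) (P.cons (P.lf 0 32562 0) (P.cons (P.lf 13572 0 0) P.nil))))) (P.cons (P.cons (P.lf 265367466 0 0) (P.cons (P.lf 0 6213182 0) (P.cons (P.lf 0 2858966 0) (P.cons (P.lf 209566 0 0) P.nil)))) (P.cons (P.cons (P.lf 235941636 0 0) (P.cons (P.lf 0 4974684 0) (P.cons (P.lf 0 2309812 0) P.nil))) (P.cons (P.cons (P.lf 14477260 0 0) (P.cons (P.lf 0 1089944 0) P.nil)) (P.cons (P.cons (P.lf 0 11697792 0) P.nil) P.nil)))))) 5727344)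
 EL.nil)
noncomputable def S82_140_216_290_36 : EL := (EL.cons 14 (TM.mk (P.cons (P.lf 0 6945500368 0) (P.cons (P.lf 593883784 0 0) (P.cons (P.lf 147517600 0 0) (P.cons (P.lf 10090240 0 0) (P.cons (P.lf 0 533712 0) (P.cons (P.lf 0 176632 0) P.nil)))))) 31384)
 EL.nil)
noncomputable def S82_140_216_290_37 : EL := (EL.cons 14 (TM.mk (P.cons (P.cons (P.lf 2365722332 0 0) (P.cons (P.lf 13668304 0 0) (P.cons (P.lf 6452278 0 0) (P.lf 0 307246 0)))) (P.cons (P.cons (P.lf 0 1959502150 0) (P.cons (P.lf 14507278 0 0) (P.cons (P.lf 6848318 0 0) (P.lf 0 326106 0)))) (P.cons (P.cons (P.lf 0 237637498 0) (P.cons (P.lf 4589370 0 0) (P.cons (P.lf 2166462 0 0) (P.lf 0 103160 0)))) (P.cons (P.cons (P.lf 92004630 0 0) (P.cons (P.lf 0 100728 0) (P.cons (P.lf 0 47550 0) P.nil))) (P.cons (P.cons (P.lf 22218968 0 0) (P.cons (P.lf 0 323906 0) P.nil)) (P.cons (P.cons (P.lf 0 178630 0) P.nil)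 P.nil)))))) 1579094)
 EL.nil)
noncomputable def S82_140_216_290_38 : EL := (EL.cons 14 (TM.mk (P.cons (P.cons (P.lf 0 805793946 0) (P.cons (P.lf 0 9311182 0) (P.cons (P.lf 0 4422346 0) (P.cons (P.lf 183906 0 0) (P.cons (P.lf 0 4782 0) (P.cons (P.lf 570 0 0) P.nil)))))) (P.cons (P.cons (P.lf 1265960344 0 0) (P.cons (P.lf 0 2966524 0) (P.cons (P.lf 0 1459776 0) (P.cons (P.lf 10602 0 0) (P.cons (P.lf 0 10564 0) P.nil))))) (P.cons (P.cons (P.lf 0 299807840 0) (P.cons (P.lf 5543242 0 0) (P.cons (P.lf 2562732 0 0) (P.cons (P.lf 0 175604 0) P.nil)))) (P.cons (P.cons (P.lf 0 196680924 0) (P.cons (P.lf 3686224 0 0) (P.cons (P.lf 1715426 0 0) P.nil))) (P.cons (P.cons (P.lf 7362826 0 0) (P.cons (P.lf 435402 0 0) P.nil)) (P.cons (P.cons (P.lf 14894422 0 0) P.nil) P.nil)))))) 7258296)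
 EL.nil)
noncomputable def S82_140_216_290_39 : EL := (EL.cons 14 (TM.mk (P.cons (P.lf 5615872256 0 0) (P.cons (P.lf 0 960384504 0) (P.cons (P.lf 0 197495000 0) (P.cons (P.lf 4080716 0 0) (P.cons (P.lf 4791664 0 0) (P.cons (P.lf 558402 0 0) P.nil)))))) 118664)
 EL.nil)
noncomputable def S82_140_216_290_40 : EL := (EL.cons 14 (TM.mk (P.cons (P.cons (P.lf 0 1912834742 0) (P.cons (P.lf 0 11051680 0) (P.cons (P.lf 0 5217070 0) (P.lf 248428 0 0)))) (P.cons (P.cons (P.lf 1747939624 0 0) (P.cons (P.lf 0 10785056 0) (P.cons (P.lf 0 5091202 0) (P.lf 242434 0 0)))) (P.cons (P.cons (P.lf 97297650 0 0) (P.cons (P.lf 0 2473070 0) (P.cons (P.lf 0 1167440 0) (P.lf 55588 0 0)))) (P.cons (P.cons (P.lf 0 121693312 0) (P.cons (P.lf 663934 0 0) (P.cons (P.lf 313418 0 0) P.nil))) (P.cons (P.cons (P.lf 0 18134242 0) (P.cons (P.lf 349940 0 0) P.nil)) (P.cons (P.cons (P.lf 3054574 0 0) P.nil)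 P.nil)))))) 2119918)
 EL.nil)
noncomputable def S82_140_216_290_41 : EL := (EL.cons 14 (TM.mk (P.cons (P.cons (P.lf 651534896 0 0) (P.cons (P.lf 7528674 0 0) (P.cons (P.lf 3575744 0 0) (P.cons (P.lf 0 148700 0) (P.cons (P.lf 3866 0 0) (P.cons (P.lf 0 460 0) P.nil)))))) (P.cons (P.cons (P.lf 0 1079318578 0) (P.cons (P.lf 1754872 0 0) (P.cons (P.lf 874570 0 0) (P.cons (P.lf 4140 0 0) (P.cons (P.lf 8210 0 0) P.nil))))) (P.cons (P.cons (P.lf 316100194 0 0) (P.cons (P.lf 0 4847060 0) (P.cons (P.lf 0 2249002 0) (P.cons (P.lf 145878 0 0) P.nil)))) (P.cons (P.cons (P.lf 159095180 0 0) (P.cons (P.lf 0 2659182 0) (P.cons (P.lf 0 1240114 0) P.nil))) (P.cons (P.cons (P.lf 0 23162824 0) (P.cons (P.lf 0 4904 0) P.nil)) (P.cons (P.cons (P.lf 0 15325950 0) P.nil) P.nil)))))) 7722522)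
 EL.nil)
noncomputable def S82_140_216_290_42 : EL := (EL.cons 14 (TM.mk (P.cons (P.lf 0 4540784612 0) (P.cons (P.lf 1164796574 0 0) (P.cons (P.lf 189731922 0 0) (P.cons (P.lf 0 26850006 0) (P.cons (P.lf 0 8460924 0) (P.cons (P.lf 0 337936 0) P.nil)))))) 309558)
 EL.nil)
noncomputable def S82_140_216_290_43 : EL := (EL.cons 14 (TM.mk (P.cons (P.cons (P.lf 1546646748 0 0) (P.cons (P.lf 8935976 0 0) (P.cons (P.lf 4218328 0 0) (P.lf 0 200870 0)))) (P.cons (P.cons (P.lf 0 1545566696 0) (P.cons (P.lf 7956312 0 0) (P.cons (P.lf 3755862 0 0) (P.lf 0 178848 0)))) (P.cons (P.cons (P.lf 9326652 0 0) (P.cons (P.lf 1064190 0 0) (P.cons (P.lf 502362 0 0) (P.lf 0 23918 0)))) (P.cons (P.cons (P.lf 132894532 0 0) (P.cons (P.lf 0 906010 0) (P.cons (P.lf 0 427692 0) P.nil))) (P.cons (P.cons (P.lf 10092144 0 0) (P.cons (P.lf 0 291500 0) P.nil)) (P.cons (P.cons (P.lf 0 5768420 0) P.nil)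 P.nil)))))) 2556530)
 EL.nil)
noncomputable def S82_140_216_290_44 : EL := (EL.cons 14 (TM.mk (P.cons (P.cons (P.lf 0 526806788 0) (P.cons (P.lf 0 6087404 0) (P.cons (P.lf 0 2891214 0) (P.cons (P.lf 120232 0 0) (P.cons (P.lf 0 3126 0) (P.cons (P.lf 372 0 0) P.nil)))))) (P.cons (P.cons (P.lf 917741980 0 0) (P.cons (P.lf 0 898412 0) (P.cons (P.lf 0 459928 0) (P.cons (P.lf 0 13628 0) (P.cons (P.lf 0 6372 0) P.nil))))) (P.cons (P.cons (P.lf 0 319018838 0) (P.cons (P.lf 4169770 0 0) (P.cons (P.lf 1940330 0 0) (P.cons (P.lf 0 120218 0) P.nil)))) (P.cons (P.cons (P.lf 0 124554288 0) (P.cons (P.lf 1853984 0 0) (P.cons (P.lf 866440 0 0) P.nil))) (P.cons (P.cons (P.lf 33848160 0 0) (P.cons (P.lf 0 261528 0) P.nil)) (P.cons (P.cons (P.lf 13947742 0 0) P.nil) P.nil)))))) 8486712)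
 EL.nil)
noncomputable def S82_140_216_290_45 : EL := (EL.cons 14 (TM.mk (P.cons (P.cons (P.lf 0 339445886 0) (P.cons (P.lf 0 5883592 0) (P.cons (P.lf 0 2811410 0) (P.cons (P.lf 100096 0 0) (P.cons (P.lf 0 6138 0) (P.cons (P.lf 682 0 0) P.nil)))))) (P.cons (P.cons (P.lf 756403790 0 0) (P.cons (P.lf 1992646 0 0) (P.cons (P.lf 887930 0 0) (P.cons (P.lf 0 94794 0) (P.cons (P.lf 0 9696 0) P.nil))))) (P.cons (P.cons (P.lf 0 416503000 0) (P.cons (P.lf 5780186 0 0) (P.cons (P.lf 2715716 0 0) (P.cons (P.lf 0 142442 0) P.nil)))) (P.cons (P.cons (P.lf 0 89394242 0) (P.cons (P.lf 450340 0 0) (P.cons (P.lf 240106 0 0) P.nil))) (P.cons (P.cons (P.lf 71771704 0 0) (P.cons (P.lf 0 1850330 0) P.nil)) (P.cons (P.cons (P.lf 20971662 0 0) P.nil) P.nil)))))) 13759222)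
 EL.nil)
noncomputable def S82_140_216_290_46 : EL := (EL.cons 15 (TM.mk (P.lf 4294967296 0 0) 0)
 EL.nil)
noncomputable def S82_140_216_290_47 : EL := (EL.cons 15 (TM.mk (P.cons (P.cons (P.lf 0 1462918366 0) (P.cons (P.lf 0 8452224 0) (P.cons (P.lf 0 3989968 0) (P.lf 189996 0 0)))) (P.cons (P.cons (P.lf 1086630734 0 0) (P.cons (P.lf 0 9693748 0) (P.cons (P.lf 0 4576040 0) (P.lf 217904 0 0)))) (P.cons (P.cons (P.lf 208792941 0 0) (P.cons (P.lf 0 3846376 0) (P.cons (P.lf 0 1815724 0) (P.lf 86460 0 0)))) (P.cons (P.cons (P.lf 0 18086844 0) (P.cons (P.lf 0 484768 0) (P.cons (P.lf 0 228840 0) P.nil))) (P.cons (P.cons (P.lf 0 9160672 0) (P.cons (P.lf 63720 0 0) P.nil)) (P.cons (P.cons (P.lf 0 799952 0) P.nil) P.nil)))))) 431014)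
 EL.nil)
noncomputable def S82_140_216_290_48 : EL := (EL.cons 15 (TM.mk (P.cons (P.cons (P.lf 498287879 0 0) (P.cons (P.lf 5757861 0 0) (P.cons (P.lf 2734697 0 0) (P.cons (P.lf 0 113725 0) (P.cons (P.lf 2958 0 0) (P.cons (P.lf 0 353 0) P.nil)))))) (P.cons (P.cons (P.lf 0 740239423 0) (P.cons (P.lf 2326777 0 0) (P.cons (P.lf 1136532 0 0) (P.cons (P.lf 0 16281 0) (P.cons (P.lf 6786 0 0) P.nil))))) (P.cons (P.cons (P.lf 132683733 0 0) (P.cons (P.lf 0 3106591 0) (P.cons (P.lf 0 1429483 0) (P.cons (P.lf 104783 0 0) P.nil)))) (P.cons (P.cons (P.lf 117970818 0 0) (P.cons (P.lf 0 2487342 0) (P.cons (P.lf 0 1154906 0) P.nil))) (P.cons (P.cons (P.lf 7238630 0 0) (P.cons (P.lf 0 544972 0) P.nil)) (P.cons (P.cons (P.lf 0 5848896 0) P.nil) P.nil)))))) 2863672)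
 EL.nil)
noncomputable def S82_140_216_290 : SL := (SL.cons S82_140_216_290_0 (SL.cons S82_140_216_290_1 (SL.cons S82_140_216_290_2 (SL.cons S82_140_216_290_3 (SL.cons S82_140_216_290_4 (SL.cons S82_140_216_290_5 (SL.cons S82_140_216_290_6 (SL.cons S82_140_216_290_7 (SL.cons S82_140_216_290_8 (SL.cons S82_140_216_290_9 (SL.cons S82_140_216_290_10 (SL.cons S82_140_216_290_11 (SL.cons S82_140_216_290_12 (SL.cons S82_140_216_290_13 (SL.cons S82_140_216_290_14 (SL.cons S82_140_216_290_15 (SL.cons S82_140_216_290_16 (SL.cons S82_140_216_290_17 (SL.cons S82_140_216_290_18 (SL.cons S82_140_216_290_19 (SL.cons S82_140_216_290_20 (SL.cons S82_140_216_290_21 (SL.cons S82_140_216_290_22 (SL.cons S82_140_216_290_23 (SL.cons S82_140_216_290_24 (SL.cons S82_140_216_290_25 (SL.cons S82_140_216_290_26 (SL.cons S82_140_216_290_27 (SL.cons S82_140_216_290_28 (SL.cons S82_140_216_290_29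 (SL.cons S82_140_216_290_30 (SL.cons S82_140_216_290_31 (SL.cons S82_140_216_290_32 (SL.cons S82_140_216_290_33 (SL.cons S82_140_216_290_34 (SL.cons S82_140_216_290_35 (SL.cons S82_140_216_290_36 (SL.cons S82_140_216_290_37 (SL.cons S82_140_216_290_38 (SL.cons S82_140_216_290_39 (SL.cons S82_140_216_290_40 (SL.cons S82_140_216_290_41 (SL.cons S82_140_216_290_42 (SL.cons S82_140_216_290_43 (SL.cons S82_140_216_290_44 (SL.cons S82_140_216_290_45 (SL.cons S82_140_216_290_46 (SL.cons S82_140_216_290_47 (SL.cons S82_140_216_290_48 SL.nil)))))))))))))))))))))))))))))))))))))))))))))))))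
noncomputable def S82_140_216_364_0 : EL := (EL.cons 0 (TM.mk (P.cons (P.lf 3519891639 0 0) (P.cons (P.lf 844087942 0 0) (P.cons (P.lf 173579589 0 0) (P.cons (P.lf 0 3586566 0) (P.cons (P.lf 0 4211423 0) (P.cons (P.lf 0 490783 0) P.nil)))))) 104301)
 (EL.cons 1 (TM.mk (P.cons (P.lf 0 1391915122 0) (P.cons (P.lf 0 413105733 0) (P.cons (P.lf 67350723 0 0) (P.cons (P.lf 19192974 0 0) (P.cons (P.lf 1069213 0 0) (P.cons (P.lf 0 215523 0) P.nil)))))) 64748)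
 (EL.cons 5 (TM.mk (P.cons (P.lf 6049927380 0 0) (P.cons (P.lf 0 300120158 0) (P.cons (P.lf 0 61717188 0) (P.cons (P.lf 1275220 0 0) (P.cons (P.lf 1497396 0 0) (P.cons (P.lf 174500 0 0) P.nil)))))) 24617)
 (EL.cons 9 (TM.mk (P.lf 6442450944 0 0) 2)
 EL.nil))))
noncomputable def S82_140_216_364_1 : EL := (EL.cons 0 (TM.mk (P.cons (P.cons (P.lf 0 4433216659 0) (P.cons (P.lf 83374574 0 0) (P.cons (P.lf 35952049 0 0) (P.lf 0 3994659 0)))) (P.cons (P.cons (P.lf 0 1220437885 0) (P.cons (P.lf 70682156 0 0) (P.cons (P.lf 30478936 0 0) (P.lf 0 3386538 0)))) (P.cons (P.cons (P.lf 493102495 0 0) (P.cons (P.lf 4210673 0 0) (P.cons (P.lf 1815678 0 0) (P.lf 0 201734 0)))) (P.cons (P.cons (P.lf 311335640 0 0) (P.cons (P.lf 0 12343073 0) (P.cons (P.lf 0 5322469 0) P.nil))) (P.cons (P.cons (P.lf 22088949 0 0) (P.cons (P.lf 0 4146799 0) P.nil)) (P.cons (P.cons (P.lf 0 13166530 0) P.nil)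 P.nil)))))) 13607055)
 (EL.cons 1 (TM.mk (P.cons (P.cons (P.lf 2056060309 0 0) (P.cons (P.lf 0 43247536 0) (P.cons (P.lf 0 18648829 0) (P.lf 2072097 0 0)))) (P.cons (P.cons (P.lf 0 483638122 0) (P.cons (P.lf 2075027 0 0) (P.cons (P.lf 894770 0 0) (P.lf 0 99411 0)))) (P.cons (P.cons (P.lf 0 652281915 0) (P.cons (P.lf 24765226 0 0) (P.cons (P.lf 10679040 0 0) (P.lf 0 1186556 0)))) (P.cons (P.cons (P.lf 0 16366782 0) (P.cons (P.lf 7964934 0 0) (P.cons (P.lf 3434564 0 0) P.nil))) (P.cons (P.cons (P.lf 44536176 0 0) (P.cons (P.lf 0 530097 0) P.nil)) (P.cons (P.cons (P.lf 7666269 0 0) P.nil) P.nil)))))) 5665232)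
 (EL.cons 5 (TM.mk (P.cons (P.cons (P.lf 0 931535155 0) (P.cons (P.lf 0 83575672 0) (P.cons (P.lf 0 36038774 0) (P.lf 4004304 0 0)))) (P.cons (P.cons (P.lf 2257317511 0 0) (P.cons (P.lf 0 86984638 0) (P.cons (P.lf 0 37508758 0) (P.lf 4167636 0 0)))) (P.cons (P.cons (P.lf 170144087 0 0) (P.cons (P.lf 0 26039826 0) (P.cons (P.lf 0 11228666 0) (P.lf 1247626 0 0)))) (P.cons (P.cons (P.lf 0 142639364 0) (P.cons (P.lf 1295458 0 0) (P.cons (P.lf 558614 0 0) P.nil))) (P.cons (P.cons (P.lf 0 23269972 0) (P.cons (P.lf 1881010 0 0) P.nil)) (P.cons (P.cons (P.lf 3381892 0 0) P.nil) P.nil)))))) 4567544)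
 (EL.cons 9 (TM.mk (P.cons (P.cons (P.lf 0 2212755849 0) (P.cons (P.lf 0 47586504 0) (P.cons (P.lf 0 20519838 0) (P.lf 2279976 0 0)))) (P.cons (P.cons (P.lf 1608868269 0 0) (P.cons (P.lf 0 54576354 0) (P.cons (P.lf 0 23533938 0) (P.lf 2614878 0 0)))) (P.cons (P.cons (P.lf 304825945 0 0) (P.cons (P.lf 0 21655320 0) (P.cons (P.lf 0 9338016 0) (P.lf 1037556 0 0)))) (P.cons (P.cons (P.lf 0 28184340 0) (P.cons (P.lf 0 2729280 0) (P.cons (P.lf 0 1176894 0) P.nil))) (P.cons (P.cons (P.lf 0 13602450 0) (P.cons (P.lf 358758 0 0) P.nil)) (P.cons (P.cons (P.lf 0 1146648 0) P.nil) P.nil)))))) 1105360)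
 (EL.cons 2 (TM.mk (P.cons (P.cons (P.lf 176297115 0 0) (P.cons (P.lf 164237070 0 0) (P.cons (P.lf 0 16856063 0) (P.cons (P.lf 0 3505590 0) (P.lf 292128 0 0))))) (P.cons (P.cons (P.lf 119720756 0 0) (P.cons (P.lf 111530958 0 0) (P.cons (P.lf 0 11446703 0) (P.cons (P.lf 0 2380592 0) (P.lf 198379 0 0))))) (P.cons (P.cons (P.lf 12449244 0 0) (P.cons (P.lf 11597622 0 0) (P.cons (P.lf 0 1190292 0) (P.cons (P.lf 0 247545 0) P.nil)))) (P.cons (P.cons (P.lf 0 6062017 0) (P.cons (P.lf 0 5647328 0) (P.cons (P.lf 579597 0 0) P.nil))) (P.cons (P.cons (P.lf 0 1394583 0) (P.cons (P.lf 0 1299183 0) P.nil)) (P.cons (P.cons (P.lf 0 34129 0) P.nil) P.nil)))))) 684771)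
 (EL.cons 6 (TM.mk (P.cons (P.cons (P.lf 49716228 0 0) (P.cons (P.lf 46315266 0 0) (P.cons (P.lf 0 4753452 0) (P.cons (P.lf 0 988584 0) (P.lf 82380 0 0))))) (P.cons (P.cons (P.lf 57018903 0 0) (P.cons (P.lf 53118384 0 0) (P.cons (P.lf 0 5451672 0) (P.cons (P.lf 0 1133796 0) (P.lf 94482 0 0))))) (P.cons (P.cons (P.lf 22624500 0 0) (P.cons (P.lf 21076815 0 0) (P.cons (P.lf 0 2163165 0) (P.cons (P.lf 0 449877 0) P.nil)))) (P.cons (P.cons (P.lf 2851431 0 0) (P.cons (P.lf 2656371 0 0) (P.cons (P.lf 0 272628 0) P.nil))) (P.cons (P.cons (P.lf 0 374814 0) (P.cons (P.lf 0 349176 0) P.nil)) (P.cons (P.cons (P.lf 0 144126 0) P.nil) P.nil)))))) 362217)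
 EL.nil))))))
noncomputable def S82_140_216_364_2 : EL := (EL.cons 0 (TM.mk (P.cons (P.cons (P.lf 2630073643 0 0) (P.cons (P.lf 0 9641187 0) (P.cons (P.lf 0 5581102 0) (P.cons (P.lf 0 765914 0) (P.cons (P.lf 0 128301 0) (P.cons (P.lf 58821 0 0) P.nil)))))) (P.cons (P.cons (P.lf 0 871602892 0) (P.cons (P.lf 74448172 0 0) (P.cons (P.lf 29159574 0 0) (P.cons (P.lf 0 6105352 0) (P.cons (P.lf 0 265245 0) P.nil))))) (P.cons (P.cons (P.lf 0 1348591176 0) (P.cons (P.lf 90043533 0 0) (P.cons (P.lf 36465034 0 0) (P.cons (P.lf 0 6351874 0) P.nil)))) (P.cons (P.cons (P.lf 0 133049713 0) (P.cons (P.lf 24888240 0 0) (P.cons (P.lf 9950758 0 0) P.nil))) (P.cons (P.cons (P.lf 183306609 0 0) (P.cons (P.lf 0 8358285 0) P.nil)) (P.cons (P.cons (P.lf 50244113 0 0) P.nil) P.nil)))))) 67559971)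
 (EL.cons 1 (TM.mk (P.cons (P.cons (P.lf 0 1248167497 0) (P.cons (P.lf 6396759 0 0) (P.cons (P.lf 3473181 0 0) (P.cons (P.lf 309989 0 0) (P.cons (P.lf 64420 0 0) (P.cons (P.lf 0 29541 0) P.nil)))))) (P.cons (P.cons (P.lf 1169097347 0 0) (P.cons (P.lf 0 45655437 0) (P.cons (P.lf 0 18788327 0) (P.cons (P.lf 2962613 0 0) (P.cons (P.lf 81002 0 0) P.nil))))) (P.cons (P.cons (P.lf 363834563 0 0) (P.cons (P.lf 0 19170307 0) (P.cons (P.lf 0 8159691 0) (P.cons (P.lf 1010577 0 0) P.nil)))) (P.cons (P.cons (P.lf 0 319598774 0) (P.cons (P.lf 15993864 0 0) (P.cons (P.lf 6510833 0 0) P.nil))) (P.cons (P.cons (P.lf 0 90691480 0) (P.cons (P.lf 10102041 0 0) P.nil)) (P.cons (P.cons (P.lf 19035670 0 0) P.nil) P.nil)))))) 34706239)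
 (EL.cons 5 (TM.mk (P.cons (P.cons (P.lf 0 73799434 0) (P.cons (P.lf 40475042 0 0) (P.cons (P.lf 18357865 0 0) (P.cons (P.lf 0 1159142 0) (P.cons (P.lf 81515 0 0) (P.cons (P.lf 0 37375 0) P.nil)))))) (P.cons (P.cons (P.lf 0 942633641 0) (P.cons (P.lf 0 10918122 0) (P.cons (P.lf 0 2747754 0) (P.cons (P.lf 2213667 0 0) (P.cons (P.lf 176651 0 0) P.nil))))) (P.cons (P.cons (P.lf 697538120 0 0) (P.cons (P.lf 0 51153019 0) (P.cons (P.lf 0 20331116 0) (P.cons (P.lf 3939937 0 0) P.nil)))) (P.cons (P.cons (P.lf 241796270 0 0) (P.cons (P.lf 0 24363728 0) (P.cons (P.lf 0 9766587 0) P.nil))) (P.cons (P.cons (P.lf 0 54193745 0) (P.cons (P.lf 0 405945 0) P.nil)) (P.cons (P.cons (P.lf 0 27694290 0) P.nil) P.nil)))))) 26542054)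
 (EL.cons 9 (TM.mk (P.cons (P.cons (P.lf 760003993 0 0) (P.cons (P.lf 32688588 0 0) (P.cons (P.lf 14447181 0 0) (P.cons (P.lf 0 1263048 0) (P.cons (P.lf 31675 0 0) (P.cons (P.lf 0 14523 0) P.nil)))))) (P.cons (P.cons (P.lf 0 1105179597 0) (P.cons (P.lf 13722643 0 0) (P.cons (P.lf 6723601 0 0) (P.cons (P.lf 37839 0 0) (P.cons (P.lf 72657 0 0) P.nil))))) (P.cons (P.cons (P.lf 192387388 0 0) (P.cons (P.lf 0 16886067 0) (P.cons (P.lf 0 6499216 0) (P.cons (P.lf 1483675 0 0) P.nil)))) (P.cons (P.cons (P.lf 171608556 0 0) (P.cons (P.lf 0 13689330 0) (P.cons (P.lf 0 5495773 0) P.nil))) (P.cons (P.cons (P.lf 9689926 0 0) (P.cons (P.lf 0 2980389 0) P.nil)) (P.cons (P.cons (P.lf 0 8673286 0) P.nil) P.nil)))))) 8981872)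
 (EL.cons 2 (TM.mk (P.cons (P.cons (P.lf 0 121103746 0) (P.cons (P.lf 0 115423740 0) (P.cons (P.lf 8029642 0 0) (P.cons (P.lf 1735661 0 0) (P.cons (P.lf 74733 0 0) (P.cons (P.lf 6080 0 0) P.nil)))))) (P.cons (P.cons (P.lf 5813319 0 0) (P.cons (P.lf 660082 0 0) (P.cons (P.lf 0 7036723 0) (P.cons (P.lf 0 1343430 0) (P.cons (P.lf 512521 0 0) P.nil))))) (P.cons (P.cons (P.lf 67926853 0 0) (P.cons (P.lf 59882647 0 0) (P.cons (P.lf 0 11124720 0) (P.cons (P.lf 0 2227888 0) P.nil)))) (P.cons (P.cons (P.lf 20168758 0 0) (P.cons (P.lf 17713473 0 0) (P.cons (P.lf 0 3394186 0) P.nil))) (P.cons (P.cons (P.lf 0 2683631 0) (P.cons (P.lf 0 2542235 0) P.nil)) (P.cons (P.cons (P.lf 0 1923969 0) P.nil) P.nil)))))) 6904349)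
 (EL.cons 6 (TM.mk (P.cons (P.cons (P.lf 0 34151556 0) (P.cons (P.lf 0 32549784 0) (P.cons (P.lf 2264376 0 0) (P.cons (P.lf 489462 0 0) (P.cons (P.lf 21072 0 0) (P.cons (P.lf 1710 0 0) P.nil)))))) (P.cons (P.cons (P.lf 0 14336790 0) (P.cons (P.lf 0 15040704 0) (P.cons (P.lf 0 925086 0) (P.cons (P.lf 0 149874 0) (P.cons (P.lf 154392 0 0) P.nil))))) (P.cons (P.cons (P.lf 17641794 0 0) (P.cons (P.lf 14800452 0 0) (P.cons (P.lf 0 3914274 0) (P.cons (P.lf 0 772806 0) P.nil)))) (P.cons (P.cons (P.lf 14301990 0 0) (P.cons (P.lf 12472734 0 0) (P.cons (P.lf 0 2527026 0) P.nil))) (P.cons (P.cons (P.lf 3113778 0 0) (P.cons (P.lf 2663124 0 0) P.nil)) (P.cons (P.cons (P.lf 0 274794 0) P.nil) P.nil)))))) 3614640)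
 EL.nil))))))
noncomputable def S82_140_216_364_3 : EL := (EL.cons 0 (TM.mk (P.cons (P.lf 4935825225 0 0) (P.cons (P.lf 0 844087942 0) (P.cons (P.lf 0 173579589 0) (P.cons (P.lf 3586566 0 0) (P.cons (P.lf 4211423 0 0) (P.cons (P.lf 490783 0 0) P.nil)))))) 104301)
 (EL.cons 1 (TM.mk (P.cons (P.lf 1391915122 0 0) (P.cons (P.lf 413105733 0 0) (P.cons (P.lf 0 67350723 0) (P.cons (P.lf 0 19192974 0) (P.cons (P.lf 0 1069213 0) (P.cons (P.lf 215523 0 0) P.nil)))))) 64748)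
 (EL.cons 5 (TM.mk (P.cons (P.lf 392523564 0 0) (P.cons (P.lf 300120158 0 0) (P.cons (P.lf 61717188 0 0) (P.cons (P.lf 0 1275220 0) (P.cons (P.lf 0 1497396 0) (P.cons (P.lf 0 174500 0) P.nil)))))) 24610)
 EL.nil)))
noncomputable def S82_140_216_364_4 : EL := (EL.cons 0 (TM.mk (P.cons (P.cons (P.lf 0 1695282778 0) (P.cons (P.lf 0 36457966 0) (P.cons (P.lf 0 15721085 0) (P.lf 1746782 0 0)))) (P.cons (P.cons (P.lf 1522534389 0 0) (P.cons (P.lf 0 35578408 0) (P.cons (P.lf 0 15341809 0) (P.lf 1704642 0 0)))) (P.cons (P.cons (P.lf 82364698 0 0) (P.cons (P.lf 0 8158320 0) (P.cons (P.lf 0 3517957 0) (P.lf 390883 0 0)))) (P.cons (P.cons (P.lf 0 106111132 0) (P.cons (P.lf 2190223 0 0) (P.cons (P.lf 944449 0 0) P.nil))) (P.cons (P.cons (P.lf 0 15492450 0) (P.cons (P.lf 1154418 0 0) P.nil)) (P.cons (P.cons (P.lf 2715915 0 0) P.nil) P.nil)))))) 2985143)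
 (EL.cons 1 (TM.mk (P.cons (P.cons (P.lf 0 478074005 0) (P.cons (P.lf 0 10281238 0) (P.cons (P.lf 0 4433385 0) (P.lf 492596 0 0)))) (P.cons (P.cons (P.lf 205714556 0 0) (P.cons (P.lf 0 14842783 0) (P.cons (P.lf 0 6400374 0) (P.lf 711150 0 0)))) (P.cons (P.cons (P.lf 192155945 0 0) (P.cons (P.lf 0 7680800 0) (P.cons (P.lf 0 3312046 0) (P.lf 368004 0 0)))) (P.cons (P.cons (P.lf 3229526 0 0) (P.cons (P.lf 0 1265941 0) (P.cons (P.lf 0 545887 0) P.nil))) (P.cons (P.cons (P.lf 0 12358629 0) (P.cons (P.lf 299379 0 0) P.nil)) (P.cons (P.cons (P.lf 0 2074473 0) P.nil) P.nil)))))) 1167350)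
 (EL.cons 5 (TM.mk (P.cons (P.cons (P.lf 0 134818070 0) (P.cons (P.lf 0 2899334 0) (P.cons (P.lf 0 1250224 0) (P.lf 138912 0 0)))) (P.cons (P.cons (P.lf 0 5056138 0) (P.cons (P.lf 0 5542016 0) (P.cons (P.lf 0 2389778 0) (P.lf 265530 0 0)))) (P.cons (P.cons (P.lf 72323420 0 0) (P.cons (P.lf 0 4317702 0) (P.cons (P.lf 0 1861840 0) (P.lf 206870 0 0)))) (P.cons (P.cons (P.lf 28333622 0 0) (P.cons (P.lf 0 1688506 0) (P.cons (P.lf 0 728102 0) P.nil))) (P.cons (P.cons (P.lf 974278 0 0) (P.cons (P.lf 0 290872 0) P.nil)) (P.cons (P.cons (P.lf 0 1347874 0) P.nil) P.nil)))))) 822700)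
 EL.nil)))
noncomputable def S82_140_216_364_5 : EL := (EL.cons 0 (TM.mk (P.cons (P.cons (P.lf 582270150 0 0) (P.cons (P.lf 25044064 0 0) (P.cons (P.lf 11068576 0 0) (P.cons (P.lf 0 967672 0) (P.cons (P.lf 24266 0 0) (P.cons (P.lf 0 11125 0) P.nil)))))) (P.cons (P.cons (P.lf 0 946298789 0) (P.cons (P.lf 6230629 0 0) (P.cons (P.lf 3258360 0 0) (P.cons (P.lf 194473 0 0) (P.cons (P.lf 51514 0 0) P.nil))))) (P.cons (P.cons (P.lf 271719275 0 0) (P.cons (P.lf 0 15615773 0) (P.cons (P.lf 0 6249491 0) (P.cons (P.lf 1165775 0 0) P.nil)))) (P.cons (P.cons (P.lf 136469861 0 0) (P.cons (P.lf 0 8627080 0) (P.cons (P.lf 0 3532122 0) P.nil))) (P.cons (P.cons (P.lf 0 20362211 0) (P.cons (P.lf 0 5853 0) P.nil)) (P.cons (P.cons (P.lf 0 13095650 0) P.nil) P.nil)))))) 12677256)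
 (EL.cons 1 (TM.mk (P.cons (P.cons (P.lf 164201645 0 0) (P.cons (P.lf 7062487 0 0) (P.cons (P.lf 3121365 0 0) (P.cons (P.lf 0 272885 0) (P.cons (P.lf 6841 0 0) (P.cons (P.lf 0 3136 0) P.nil)))))) (P.cons (P.cons (P.lf 0 190044781 0) (P.cons (P.lf 5060898 0 0) (P.cons (P.lf 2379046 0 0) (P.cons (P.lf 0 72813 0) (P.cons (P.lf 17728 0 0) P.nil))))) (P.cons (P.cons (P.lf 0 37246061 0) (P.cons (P.lf 0 3110100 0) (P.cons (P.lf 0 1124079 0) (P.cons (P.lf 336181 0 0) P.nil)))) (P.cons (P.cons (P.lf 58702623 0 0) (P.cons (P.lf 0 4281247 0) (P.cons (P.lf 0 1717456 0) P.nil))) (P.cons (P.cons (P.lf 14252600 0 0) (P.cons (P.lf 0 1391491 0) P.nil)) (P.cons (P.cons (P.lf 0 3410887 0) P.nil) P.nil)))))) 6040345)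
 (EL.cons 5 (TM.mk (P.cons (P.cons (P.lf 46305276 0 0) (P.cons (P.lf 1991638 0 0) (P.cons (P.lf 880232 0 0) (P.cons (P.lf 0 76954 0) (P.cons (P.lf 1928 0 0) (P.cons (P.lf 0 884 0) P.nil)))))) (P.cons (P.cons (P.lf 0 31931404 0) (P.cons (P.lf 2358878 0 0) (P.cons (P.lf 1082672 0 0) (P.cons (P.lf 0 56532 0) (P.cons (P.lf 5902 0 0) P.nil))))) (P.cons (P.cons (P.lf 0 32482168 0) (P.cons (P.lf 0 76412 0) (P.cons (P.lf 55636 0 0) (P.cons (P.lf 80058 0 0) P.nil)))) (P.cons (P.cons (P.lf 8680234 0 0) (P.cons (P.lf 0 1495702 0) (P.cons (P.lf 0 576058 0) P.nil))) (P.cons (P.cons (P.lf 10469872 0 0) (P.cons (P.lf 0 991380 0) P.nil)) (P.cons (P.cons (P.lf 1765136 0 0) P.nil) P.nil)))))) 2461482)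
 EL.nil)))
noncomputable def S82_140_216_364_6 : EL := (EL.cons 12 (TM.mk (P.lf 8589934592 0 0) 0)
 (EL.cons 3 (TM.mk (P.cons (P.lf 0 3255703297 0) (P.cons (P.lf 278383023 0 0) (P.cons (P.lf 69148875 0 0) (P.cons (P.lf 4729800 0 0) (P.cons (P.lf 0 250177 0) (P.cons (P.lf 0 82796 0) P.nil)))))) 14718)
 (EL.cons 7 (TM.mk (P.cons (P.lf 0 918116516 0) (P.cons (P.lf 0 350992016 0) (P.cons (P.lf 0 5087185 0) (P.cons (P.lf 3436187 0 0) (P.cons (P.lf 451667 0 0) (P.cons (P.lf 12370 0 0) P.nil)))))) 9470)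
 EL.nil)))
noncomputable def S82_140_216_364_7 : EL := (EL.cons 12 (TM.mk (P.cons (P.cons (P.lf 0 2950341132 0) (P.cons (P.lf 0 63448672 0) (P.cons (P.lf 0 27359784 0) (P.lf 3039968 0 0)))) (P.cons (P.cons (P.lf 2145157692 0 0) (P.cons (P.lf 0 72768472 0) (P.cons (P.lf 0 31378584 0) (P.lf 3486504 0 0)))) (P.cons (P.cons (P.lf 406434594 0 0) (P.cons (P.lf 0 28873760 0) (P.cons (P.lf 0 12450688 0) (P.lf 1383408 0 0)))) (P.cons (P.cons (P.lf 0 37579120 0) (P.cons (P.lf 0 3639040 0) (P.cons (P.lf 0 1569192 0) P.nil))) (P.cons (P.cons (P.lf 0 18136600 0) (P.cons (P.lf 478344 0 0) P.nil)) (P.cons (P.cons (P.lf 0 1528864 0) P.nil) P.nil)))))) 1473788)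
 (EL.cons 3 (TM.mk (P.cons (P.cons (P.lf 3244961565 0 0) (P.cons (P.lf 0 48095836 0) (P.cons (P.lf 0 20739466 0) (P.lf 2304378 0 0)))) (P.cons (P.cons (P.lf 466777402 0 0) (P.cons (P.lf 0 51048004 0) (P.cons (P.lf 0 22012472 0) (P.lf 2445826 0 0)))) (P.cons (P.cons (P.lf 0 61179078 0) (P.cons (P.lf 0 16149012 0) (P.cons (P.lf 0 6963632 0) (P.lf 773734 0 0)))) (P.cons (P.cons (P.lf 0 80378953 0) (P.cons (P.lf 354434 0 0) (P.cons (P.lf 152836 0 0) P.nil))) (P.cons (P.cons (P.lf 0 13651809 0) (P.cons (P.lf 1139770 0 0) P.nil)) (P.cons (P.cons (P.lf 1027391 0 0) P.nil) P.nil)))))) 5188245)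
 (EL.cons 7 (TM.mk (P.cons (P.cons (P.lf 0 2366106322 0) (P.cons (P.lf 97742170 0 0) (P.cons (P.lf 42147527 0 0) (P.lf 0 4683059 0)))) (P.cons (P.cons (P.lf 0 588524189 0) (P.cons (P.lf 64362559 0 0) (P.cons (P.lf 27753863 0 0) (P.lf 0 3083763 0)))) (P.cons (P.cons (P.lf 214792430 0 0) (P.cons (P.lf 5306602 0 0) (P.cons (P.lf 2288266 0 0) (P.lf 0 254252 0)))) (P.cons (P.cons (P.lf 47457420 0 0) (P.cons (P.lf 0 3534547 0) (P.cons (P.lf 0 1524134 0) P.nil))) (P.cons (P.cons (P.lf 0 4644815 0) (P.cons (P.lf 0 589047 0) P.nil)) (P.cons (P.cons (P.lf 0 2291693 0) P.nil) P.nil)))))) 2592653)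
 (EL.cons 10 (TM.mk (P.cons (P.cons (P.lf 0 232573512 0) (P.cons (P.lf 0 216663741 0) (P.cons (P.lf 22236747 0 0) (P.cons (P.lf 4624623 0 0) (P.lf 0 385383 0))))) (P.cons (P.cons (P.lf 0 177823716 0) (P.cons (P.lf 0 165659241 0) (P.cons (P.lf 17002026 0 0) (P.cons (P.lf 3535947 0 0) (P.lf 0 294660 0))))) (P.cons (P.cons (P.lf 0 36567951 0) (P.cons (P.lf 0 34066431 0) (P.cons (P.lf 3496323 0 0) (P.cons (P.lf 727137 0 0) P.nil)))) (P.cons (P.cons (P.lf 755577 0 0) (P.cons (P.lf 703890 0 0) (P.cons (P.lf 0 72240 0) P.nil))) (P.cons (P.cons (P.lf 887217 0 0) (P.cons (P.lf 826527 0 0) P.nil)) (P.cons (P.cons (P.lf 103392 0 0) P.nil) P.nil)))))) 319218)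
 EL.nil))))
noncomputable def S82_140_216_364_8 : EL := (EL.cons 12 (TM.mk (P.cons (P.cons (P.lf 1013338658 0 0) (P.cons (P.lf 43584784 0 0) (P.cons (P.lf 19262908 0 0) (P.cons (P.lf 0 1684064 0) (P.cons (P.lf 42234 0 0) (P.cons (P.lf 0 19364 0) P.nil)))))) (P.cons (P.cons (P.lf 0 1473572796 0) (P.cons (P.lf 18296858 0 0) (P.cons (P.lf 8964802 0 0) (P.cons (P.lf 50452 0 0) (P.cons (P.lf 96876 0 0) P.nil))))) (P.cons (P.cons (P.lf 256516518 0 0) (P.cons (P.lf 0 22514756 0) (P.cons (P.lf 0 8665622 0) (P.cons (P.lf 1978234 0 0) P.nil)))) (P.cons (P.cons (P.lf 228811408 0 0) (P.cons (P.lf 0 18252440 0) (P.cons (P.lf 0 7327698 0) P.nil))) (P.cons (P.cons (P.lf 12919902 0 0) (P.cons (P.lf 0 3973852 0) P.nil)) (P.cons (P.cons (P.lf 0 11564382 0) P.nil) P.nil)))))) 11975800)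
 (EL.cons 3 (TM.mk (P.cons (P.cons (P.lf 0 1844991593 0) (P.cons (P.lf 1620545 0 0) (P.cons (P.lf 1586930 0 0) (P.cons (P.lf 688304 0 0) (P.cons (P.lf 80036 0 0) (P.cons (P.lf 0 36696 0) P.nil)))))) (P.cons (P.cons (P.lf 708735461 0 0) (P.cons (P.lf 0 45307326 0) (P.cons (P.lf 0 17575779 0) (P.cons (P.lf 3862194 0 0) (P.cons (P.lf 176740 0 0) P.nil))))) (P.cons (P.cons (P.lf 719055293 0 0) (P.cons (P.lf 0 57251260 0) (P.cons (P.lf 0 22903899 0) (P.cons (P.lf 4281163 0 0) P.nil)))) (P.cons (P.cons (P.lf 130151363 0 0) (P.cons (P.lf 0 22742091 0) (P.cons (P.lf 0 8991261 0) P.nil))) (P.cons (P.cons (P.lf 0 58086870 0) (P.cons (P.lf 0 285825 0) P.nil)) (P.cons (P.cons (P.lf 0 24539536 0) P.nil) P.nil)))))) 31276961)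
 (EL.cons 7 (TM.mk (P.cons (P.cons (P.lf 1733657501 0 0) (P.cons (P.lf 0 27529541 0) (P.cons (P.lf 0 13264882 0) (P.cons (P.lf 116937 0 0) (P.cons (P.lf 0 125606 0) (P.cons (P.lf 57593 0 0) P.nil)))))) (P.cons (P.cons (P.lf 0 893590718 0) (P.cons (P.lf 57124565 0 0) (P.cons (P.lf 22159966 0 0) (P.cons (P.lf 0 4869553 0) (P.cons (P.lf 0 222842 0) P.nil))))) (P.cons (P.cons (P.lf 0 697590451 0) (P.cons (P.lf 58822273 0 0) (P.cons (P.lf 23694544 0 0) (P.cons (P.lf 0 4258795 0) P.nil)))) (P.cons (P.cons (P.lf 73349536 0 0) (P.cons (P.lf 9057395 0 0) (P.cons (P.lf 3453544 0 0) P.nil))) (P.cons (P.cons (P.lf 73778833 0 0) (P.cons (P.lf 0 4972235 0) P.nil)) (P.cons (P.cons (P.lf 4594159 0 0) P.nil) P.nil)))))) 21904839)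
 (EL.cons 10 (TM.mk (P.cons (P.cons (P.lf 159761676 0 0) (P.cons (P.lf 152268546 0 0) (P.cons (P.lf 0 10592814 0) (P.cons (P.lf 0 2289714 0) (P.cons (P.lf 0 98592 0) (P.cons (P.lf 0 8022 0) P.nil)))))) (P.cons (P.cons (P.lf 5991606 0 0) (P.cons (P.lf 12149118 0 0) (P.cons (P.lf 8377182 0 0) (P.cons (P.lf 1576482 0 0) (P.cons (P.lf 0 684558 0) P.nil))))) (P.cons (P.cons (P.lf 0 85704468 0) (P.cons (P.lf 0 74725086 0) (P.cons (P.lf 15167202 0 0) (P.cons (P.lf 3025230 0 0) P.nil)))) (P.cons (P.cons (P.lf 0 33575814 0) (P.cons (P.lf 0 29278068 0) (P.cons (P.lf 5937084 0 0) P.nil))) (P.cons (P.cons (P.lf 0 1154532 0) (P.cons (P.lf 0 730866 0) P.nil)) (P.cons (P.cons (P.lf 1597248 0 0) P.nil) P.nil)))))) 8030394)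
 EL.nil))))
noncomputable def S82_140_216_364_9 : EL := (EL.cons 3 (TM.mk (P.cons (P.lf 0 3255703297 0) (P.cons (P.lf 278383023 0 0) (P.cons (P.lf 69148875 0 0) (P.cons (P.lf 4729800 0 0) (P.cons (P.lf 0 250177 0) (P.cons (P.lf 0 82796 0) P.nil)))))) 14718)
 (EL.cons 7 (TM.mk (P.cons (P.lf 0 918116516 0) (P.cons (P.lf 0 350992016 0) (P.cons (P.lf 0 5087185 0) (P.cons (P.lf 3436187 0 0) (P.cons (P.lf 451667 0 0) (P.cons (P.lf 12370 0 0) P.nil)))))) 9470)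
 EL.nil))
noncomputable def S82_140_216_364_10 : EL := (EL.cons 3 (TM.mk (P.cons (P.cons (P.lf 1118219847 0 0) (P.cons (P.lf 24047918 0 0) (P.cons (P.lf 10369733 0 0) (P.lf 0 1152189 0)))) (P.cons (P.cons (P.lf 0 908659055 0) (P.cons (P.lf 25524002 0 0) (P.cons (P.lf 11006236 0 0) (P.lf 0 1222913 0)))) (P.cons (P.cons (P.lf 0 108274134 0) (P.cons (P.lf 8074506 0 0) (P.cons (P.lf 3481816 0 0) (P.lf 0 386867 0)))) (P.cons (P.cons (P.lf 43058729 0 0) (P.cons (P.lf 0 177217 0) (P.cons (P.lf 0 76418 0) P.nil))) (P.cons (P.cons (P.lf 10195044 0 0) (P.cons (P.lf 0 569885 0) P.nil)) (P.cons (P.cons (P.lf 0 121069 0) P.nil) P.nil)))))) 1258847)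
 (EL.cons 7 (TM.mk (P.cons (P.cons (P.lf 315340808 0 0) (P.cons (P.lf 6781573 0 0) (P.cons (P.lf 2924291 0 0) (P.lf 0 324920 0)))) (P.cons (P.cons (P.lf 0 108727082 0) (P.cons (P.lf 10370266 0 0) (P.cons (P.lf 4471775 0 0) (P.lf 0 496863 0)))) (P.cons (P.cons (P.lf 0 129346573 0) (P.cons (P.lf 6097066 0 0) (P.cons (P.lf 2629123 0 0) (P.lf 0 292124 0)))) (P.cons (P.cons (P.lf 0 15041328 0) (P.cons (P.lf 1586471 0 0) (P.cons (P.lf 684103 0 0) P.nil))) (P.cons (P.cons (P.lf 3936289 0 0) (P.cons (P.lf 82221 0 0) P.nil)) (P.cons (P.cons (P.lf 1197871 0 0) P.nil) P.nil)))))) 549364)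
 EL.nil))
noncomputable def S82_140_216_364_11 : EL := (EL.cons 3 (TM.mk (P.cons (P.cons (P.lf 0 384069281 0) (P.cons (P.lf 0 16519231 0) (P.cons (P.lf 0 7300906 0) (P.cons (P.lf 638282 0 0) (P.cons (P.lf 0 16006 0) (P.cons (P.lf 7338 0 0) P.nil)))))) (P.cons (P.cons (P.lf 591344675 0 0) (P.cons (P.lf 0 5522262 0) (P.cons (P.lf 0 2773509 0) (P.cons (P.lf 0 73698 0) (P.cons (P.lf 0 35348 0) P.nil))))) (P.cons (P.cons (P.lf 0 136821541 0) (P.cons (P.lf 9477224 0 0) (P.cons (P.lf 3729987 0 0) (P.cons (P.lf 0 761699 0) P.nil)))) (P.cons (P.cons (P.lf 0 89713747 0) (P.cons (P.lf 6359553 0 0) (P.cons (P.lf 2579235 0 0) P.nil))) (P.cons (P.cons (P.lf 3742572 0 0) (P.cons (P.lf 742179 0 0) P.nil)) (P.cons (P.cons (P.lf 6818090 0 0) P.nil) P.nil)))))) 6585991)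
 (EL.cons 7 (TM.mk (P.cons (P.cons (P.lf 0 108308503 0) (P.cons (P.lf 0 4658465 0) (P.cons (P.lf 0 2058874 0) (P.cons (P.lf 179997 0 0) (P.cons (P.lf 0 4514 0) (P.cons (P.lf 2069 0 0) P.nil)))))) (P.cons (P.cons (P.lf 116093752 0 0) (P.cons (P.lf 0 3736531 0) (P.cons (P.lf 0 1745282 0) (P.cons (P.lf 63419 0 0) (P.cons (P.lf 0 12080 0) P.nil))))) (P.cons (P.cons (P.lf 32194097 0 0) (P.cons (P.lf 1633003 0 0) (P.cons (P.lf 548488 0 0) (P.cons (P.lf 0 212503 0) P.nil)))) (P.cons (P.cons (P.lf 0 33659444 0) (P.cons (P.lf 2877443 0 0) (P.cons (P.lf 1139686 0 0) P.nil))) (P.cons (P.cons (P.lf 0 11418443 0) (P.cons (P.lf 1193491 0 0) P.nil)) (P.cons (P.cons (P.lf 599197 0 0) P.nil) P.nil)))))) 3010205)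
 EL.nil))
noncomputable def S82_140_216_364_12 : EL := (EL.cons 4 (TM.mk (P.cons (P.lf 3255703297 0 0) (P.cons (P.lf 0 278383023 0) (P.cons (P.lf 0 69148875 0) (P.cons (P.lf 0 4729800 0) (P.cons (P.lf 250177 0 0) (P.cons (P.lf 82796 0 0) P.nil)))))) 14718)
 (EL.cons 8 (TM.mk (P.cons (P.lf 918116516 0 0) (P.cons (P.lf 350992016 0 0) (P.cons (P.lf 5087185 0 0) (P.cons (P.lf 0 3436187 0) (P.cons (P.lf 0 451667 0) (P.cons (P.lf 0 12370 0) P.nil)))))) 9470)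
 EL.nil))
noncomputable def S82_140_216_364_13 : EL := (EL.cons 4 (TM.mk (P.cons (P.cons (P.lf 0 1118219847 0) (P.cons (P.lf 0 24047918 0) (P.cons (P.lf 0 10369733 0) (P.lf 1152189 0 0)))) (P.cons (P.cons (P.lf 908659055 0 0) (P.cons (P.lf 0 25524002 0) (P.cons (P.lf 0 11006236 0) (P.lf 1222913 0 0)))) (P.cons (P.cons (P.lf 108274134 0 0) (P.cons (P.lf 0 8074506 0) (P.cons (P.lf 0 3481816 0) (P.lf 386867 0 0)))) (P.cons (P.cons (P.lf 0 43058729 0) (P.cons (P.lf 177217 0 0) (P.cons (P.lf 76418 0 0) P.nil))) (P.cons (P.cons (P.lf 0 10195044 0) (P.cons (P.lf 569885 0 0) P.nil)) (P.cons (P.cons (P.lf 121069 0 0) P.nil) P.nil)))))) 1258847)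
 (EL.cons 8 (TM.mk (P.cons (P.cons (P.lf 0 315340808 0) (P.cons (P.lf 0 6781573 0) (P.cons (P.lf 0 2924291 0) (P.lf 324920 0 0)))) (P.cons (P.cons (P.lf 108727082 0 0) (P.cons (P.lf 0 10370266 0) (P.cons (P.lf 0 4471775 0) (P.lf 496863 0 0)))) (P.cons (P.cons (P.lf 129346573 0 0) (P.cons (P.lf 0 6097066 0) (P.cons (P.lf 0 2629123 0) (P.lf 292124 0 0)))) (P.cons (P.cons (P.lf 15041328 0 0) (P.cons (P.lf 0 1586471 0) (P.cons (P.lf 0 684103 0) P.nil))) (P.cons (P.cons (P.lf 0 3936289 0) (P.cons (P.lf 0 82221 0) P.nil)) (P.cons (P.cons (P.lf 0 1197871 0) P.nil) P.nil)))))) 549364)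
 EL.nil))
noncomputable def S82_140_216_364_14 : EL := (EL.cons 4 (TM.mk (P.cons (P.cons (P.lf 384069281 0 0) (P.cons (P.lf 16519231 0 0) (P.cons (P.lf 7300906 0 0) (P.cons (P.lf 0 638282 0) (P.cons (P.lf 16006 0 0) (P.cons (P.lf 0 7338 0) P.nil)))))) (P.cons (P.cons (P.lf 0 591344675 0) (P.cons (P.lf 5522262 0 0) (P.cons (P.lf 2773509 0 0) (P.cons (P.lf 73698 0 0) (P.cons (P.lf 35348 0 0) P.nil))))) (P.cons (P.cons (P.lf 136821541 0 0) (P.cons (P.lf 0 9477224 0) (P.cons (P.lf 0 3729987 0) (P.cons (P.lf 761699 0 0) P.nil)))) (P.cons (P.cons (P.lf 89713747 0 0) (P.cons (P.lf 0 6359553 0) (P.cons (P.lf 0 2579235 0) P.nil))) (P.cons (P.cons (P.lf 0 3742572 0) (P.cons (P.lf 0 742179 0) P.nil)) (P.cons (P.cons (P.lf 0 6818090 0) P.nil) P.nil)))))) 6585991)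
 (EL.cons 8 (TM.mk (P.cons (P.cons (P.lf 108308503 0 0) (P.cons (P.lf 4658465 0 0) (P.cons (P.lf 2058874 0 0) (P.cons (P.lf 0 179997 0) (P.cons (P.lf 4514 0 0) (P.cons (P.lf 0 2069 0) P.nil)))))) (P.cons (P.cons (P.lf 0 116093752 0) (P.cons (P.lf 3736531 0 0) (P.cons (P.lf 1745282 0 0) (P.cons (P.lf 0 63419 0) (P.cons (P.lf 12080 0 0) P.nil))))) (P.cons (P.cons (P.lf 0 32194097 0) (P.cons (P.lf 0 1633003 0) (P.cons (P.lf 0 548488 0) (P.cons (P.lf 212503 0 0) P.nil)))) (P.cons (P.cons (P.lf 33659444 0 0) (P.cons (P.lf 0 2877443 0) (P.cons (P.lf 0 1139686 0) P.nil))) (P.cons (P.cons (P.lf 11418443 0 0) (P.cons (P.lf 0 1193491 0) P.nil)) (P.cons (P.cons (P.lf 0 599197 0) P.nil) P.nil)))))) 3010205)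
 EL.nil))
noncomputable def S82_140_216_364_15 : EL := (EL.cons 4 (TM.mk (P.cons (P.lf 0 2632440120 0) (P.cons (P.lf 450180236 0 0) (P.cons (P.lf 92575781 0 0) (P.cons (P.lf 0 1912835 0) (P.cons (P.lf 0 2246092 0) (P.cons (P.lf 0 261750 0) P.nil)))))) 55630)
 (EL.cons 8 (TM.mk (P.cons (P.lf 0 742354732 0) (P.cons (P.lf 0 220323058 0) (P.cons (P.lf 35920386 0 0) (P.cons (P.lf 10236253 0 0) (P.cons (P.lf 570247 0 0) (P.cons (P.lf 0 114946 0) P.nil)))))) 34529)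
 EL.nil))
noncomputable def S82_140_216_364_16 : EL := (EL.cons 4 (TM.mk (P.cons (P.cons (P.lf 904150815 0 0) (P.cons (P.lf 19444248 0 0) (P.cons (P.lf 8384579 0 0) (P.lf 0 931617 0)))) (P.cons (P.cons (P.lf 0 812018340 0) (P.cons (P.lf 18975150 0 0) (P.cons (P.lf 8182298 0 0) (P.lf 0 909142 0)))) (P.cons (P.cons (P.lf 0 43927839 0) (P.cons (P.lf 4351104 0 0) (P.cons (P.lf 1876244 0 0) (P.lf 0 208470 0)))) (P.cons (P.cons (P.lf 56592603 0 0) (P.cons (P.lf 0 1168119 0) (P.cons (P.lf 0 503706 0) P.nil))) (P.cons (P.cons (P.lf 8262640 0 0) (P.cons (P.lf 0 615690 0) P.nil)) (P.cons (P.cons (P.lf 0 1448488 0) P.nil) P.nil)))))) 1592085)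
 (EL.cons 8 (TM.mk (P.cons (P.cons (P.lf 254972803 0 0) (P.cons (P.lf 5483327 0 0) (P.cons (P.lf 2364472 0 0) (P.lf 0 262718 0)))) (P.cons (P.cons (P.lf 0 109714430 0) (P.cons (P.lf 7916151 0 0) (P.cons (P.lf 3413533 0 0) (P.lf 0 379280 0)))) (P.cons (P.cons (P.lf 0 102483171 0) (P.cons (P.lf 4096427 0 0) (P.cons (P.lf 1766425 0 0) (P.lf 0 196269 0)))) (P.cons (P.cons (P.lf 0 1722414 0) (P.cons (P.lf 675169 0 0) (P.cons (P.lf 291140 0 0) P.nil))) (P.cons (P.cons (P.lf 6591269 0 0) (P.cons (P.lf 0 159669 0) P.nil)) (P.cons (P.cons (P.lf 1106386 0 0) P.nil) P.nil)))))) 622577)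
 EL.nil))
noncomputable def S82_140_216_364_17 : EL := (EL.cons 4 (TM.mk (P.cons (P.cons (P.lf 0 310544080 0) (P.cons (P.lf 0 13356834 0) (P.cons (P.lf 0 5903240 0) (P.cons (P.lf 516091 0 0) (P.cons (P.lf 0 12942 0) (P.cons (P.lf 5933 0 0) P.nil)))))) (P.cons (P.cons (P.lf 504692687 0 0) (P.cons (P.lf 0 3323002 0) (P.cons (P.lf 0 1737792 0) (P.cons (P.lf 0 103719 0) (P.cons (P.lf 0 27474 0) P.nil))))) (P.cons (P.cons (P.lf 0 144916947 0) (P.cons (P.lf 8328412 0 0) (P.cons (P.lf 3333061 0 0) (P.cons (P.lf 0 621747 0) P.nil)))) (P.cons (P.cons (P.lf 0 72783926 0) (P.cons (P.lf 4601109 0 0) (P.cons (P.lf 1883798 0 0) P.nil))) (P.cons (P.cons (P.lf 10859846 0 0) (P.cons (P.lf 3121 0 0) P.nil)) (P.cons (P.cons (P.lf 6984346 0 0) P.nil) P.nil)))))) 6761213)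
 (EL.cons 8 (TM.mk (P.cons (P.cons (P.lf 0 87574211 0) (P.cons (P.lf 0 3766660 0) (P.cons (P.lf 0 1664728 0) (P.cons (P.lf 145539 0 0) (P.cons (P.lf 0 3649 0) (P.cons (P.lf 1673 0 0) P.nil)))))) (P.cons (P.cons (P.lf 101357217 0 0) (P.cons (P.lf 0 2699146 0) (P.cons (P.lf 0 1268825 0) (P.cons (P.lf 38834 0 0) (P.cons (P.lf 0 9455 0) P.nil))))) (P.cons (P.cons (P.lf 19864566 0 0) (P.cons (P.lf 1658720 0 0) (P.cons (P.lf 599509 0 0) (P.cons (P.lf 0 179297 0) P.nil)))) (P.cons (P.cons (P.lf 0 31308066 0) (P.cons (P.lf 2283332 0 0) (P.cons (P.lf 915977 0 0) P.nil))) (P.cons (P.cons (P.lf 0 7601387 0) (P.cons (P.lf 742129 0 0) P.nil)) (P.cons (P.cons (P.lf 1819140 0 0) P.nil) P.nil)))))) 3221506)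
 EL.nil))
noncomputable def S82_140_216_364_18 : EL := (EL.cons 4 (TM.mk (P.cons (P.lf 2128492786 0 0) (P.cons (P.lf 0 545998394 0) (P.cons (P.lf 0 88936838 0) (P.cons (P.lf 12585940 0 0) (P.cons (P.lf 3966058 0 0) (P.cons (P.lf 158407 0 0) P.nil)))))) 145112)
 (EL.cons 8 (TM.mk (P.cons (P.lf 600240317 0 0) (P.cons (P.lf 126820692 0 0) (P.cons (P.lf 0 57025083 0) (P.cons (P.lf 0 10448908 0) (P.cons (P.lf 650816 0 0) (P.cons (P.lf 379305 0 0) P.nil)))))) 67460)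
 EL.nil))
noncomputable def S82_140_216_364_19 : EL := (EL.cons 4 (TM.mk (P.cons (P.cons (P.lf 0 731062588 0) (P.cons (P.lf 0 15721893 0) (P.cons (P.lf 0 6779458 0) (P.lf 753270 0 0)))) (P.cons (P.cons (P.lf 719078140 0 0) (P.cons (P.lf 0 13998277 0) (P.cons (P.lf 0 6036214 0) (P.lf 670689 0 0)))) (P.cons (P.cons (P.lf 0 5094978 0) (P.cons (P.lf 0 1872330 0) (P.cons (P.lf 0 807369 0) (P.lf 89707 0 0)))) (P.cons (P.cons (P.lf 0 61678685 0) (P.cons (P.lf 1594027 0 0) (P.cons (P.lf 687362 0 0) P.nil))) (P.cons (P.cons (P.lf 0 4532617 0) (P.cons (P.lf 512867 0 0) P.nil)) (P.cons (P.cons (P.lf 2694591 0 0) P.nil) P.nil)))))) 1895455)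
 (EL.cons 8 (TM.mk (P.cons (P.cons (P.lf 0 206161488 0) (P.cons (P.lf 0 4433613 0) (P.cons (P.lf 0 1911824 0) (P.lf 212424 0 0)))) (P.cons (P.cons (P.lf 106339090 0 0) (P.cons (P.lf 0 6021602 0) (P.cons (P.lf 0 2596582 0) (P.lf 288508 0 0)))) (P.cons (P.cons (P.lf 79657447 0 0) (P.cons (P.lf 0 2670750 0) (P.cons (P.lf 0 1151657 0) (P.lf 127961 0 0)))) (P.cons (P.cons (P.lf 0 7277370 0) (P.cons (P.lf 0 120314 0) (P.cons (P.lf 0 51880 0) P.nil))) (P.cons (P.cons (P.lf 0 7353231 0) (P.cons (P.lf 255089 0 0) P.nil)) (P.cons (P.cons (P.lf 0 587269 0) P.nil) P.nil)))))) 863932)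
 EL.nil))
noncomputable def S82_140_216_364_20 : EL := (EL.cons 4 (TM.mk (P.cons (P.cons (P.lf 251094347 0 0) (P.cons (P.lf 10799836 0 0) (P.cons (P.lf 4773139 0 0) (P.cons (P.lf 0 417292 0) (P.cons (P.lf 10464 0 0) (P.cons (P.lf 0 4798 0) P.nil)))))) (P.cons (P.cons (P.lf 0 429545802 0) (P.cons (P.lf 1763401 0 0) (P.cons (P.lf 996980 0 0) (P.cons (P.lf 119544 0 0) (P.cons (P.lf 21319 0 0) P.nil))))) (P.cons (P.cons (P.lf 146734388 0 0) (P.cons (P.lf 0 7193167 0) (P.cons (P.lf 0 2916513 0) (P.cons (P.lf 504413 0 0) P.nil)))) (P.cons (P.cons (P.lf 57133677 0 0) (P.cons (P.lf 0 3217238 0) (P.cons (P.lf 0 1329509 0) P.nil))) (P.cons (P.cons (P.lf 0 15689507 0) (P.cons (P.lf 455535 0 0) P.nil)) (P.cons (P.cons (P.lf 0 6341603 0) P.nil) P.nil)))))) 6992907)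
 (EL.cons 8 (TM.mk (P.cons (P.cons (P.lf 70809237 0 0) (P.cons (P.lf 3045581 0 0) (P.cons (P.lf 1346037 0 0) (P.cons (P.lf 0 117677 0) (P.cons (P.lf 2951 0 0) (P.cons (P.lf 0 1352 0) P.nil)))))) (P.cons (P.cons (P.lf 0 88008294 0) (P.cons (P.lf 1922012 0 0) (P.cons (P.lf 910830 0 0) (P.cons (P.lf 0 21337 0) (P.cons (P.lf 7392 0 0) P.nil))))) (P.cons (P.cons (P.lf 0 10558134 0) (P.cons (P.lf 0 1592476 0) (P.cons (P.lf 0 601052 0) (P.cons (P.lf 150157 0 0) P.nil)))) (P.cons (P.cons (P.lf 28325682 0 0) (P.cons (P.lf 0 1782316 0) (P.cons (P.lf 0 722922 0) P.nil))) (P.cons (P.cons (P.lf 4447288 0 0) (P.cons (P.lf 0 416645 0) P.nil)) (P.cons (P.cons (P.lf 0 2515253 0) P.nil) P.nil)))))) 3142736)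
 EL.nil))
noncomputable def S82_140_216_364_21 : EL := (EL.cons 4 (TM.mk (P.cons (P.cons (P.lf 0 2126741718 0) (P.cons (P.lf 72143754 0 0) (P.cons (P.lf 31109199 0 0) (P.lf 0 3456567 0)))) (P.cons (P.cons (P.lf 0 1375436457 0) (P.cons (P.lf 76572006 0 0) (P.cons (P.lf 33018708 0 0) (P.lf 0 3668739 0)))) (P.cons (P.cons (P.lf 0 47095056 0) (P.cons (P.lf 24223518 0 0) (P.cons (P.lf 10445448 0 0) (P.lf 0 1160601 0)))) (P.cons (P.cons (P.lf 123437682 0 0) (P.cons (P.lf 0 531651 0) (P.cons (P.lf 0 229254 0) P.nil))) (P.cons (P.cons (P.lf 23846853 0 0) (P.cons (P.lf 0 1709655 0) P.nil)) (P.cons (P.cons (P.lf 0 1148460 0) P.nil) P.nil)))))) 3929379)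
 (EL.cons 8 (TM.mk (P.cons (P.cons (P.lf 2681447130 0 0) (P.cons (P.lf 0 90960597 0) (P.cons (P.lf 0 39223236 0) (P.lf 4358139 0 0)))) (P.cons (P.cons (P.lf 479797107 0 0) (P.cons (P.lf 0 53992293 0) (P.cons (P.lf 0 23282088 0) (P.lf 2586900 0 0)))) (P.cons (P.cons (P.lf 0 344139003 0) (P.cons (P.lf 790464 0 0) (P.cons (P.lf 340857 0 0) (P.lf 0 37872 0)))) (P.cons (P.cons (P.lf 0 62498748 0) (P.cons (P.lf 5121018 0 0) (P.cons (P.lf 2208237 0 0) P.nil))) (P.cons (P.cons (P.lf 8581104 0 0) (P.cons (P.lf 671268 0 0) P.nil)) (P.cons (P.cons (P.lf 3489564 0 0) P.nil) P.nil)))))) 2043270)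
 (EL.cons 11 (TM.mk (P.cons (P.cons (P.lf 232573512 0 0) (P.cons (P.lf 216663741 0 0) (P.cons (P.lf 0 22236747 0) (P.cons (P.lf 0 4624623 0) (P.lf 385383 0 0))))) (P.cons (P.cons (P.lf 177823716 0 0) (P.cons (P.lf 165659241 0 0) (P.cons (P.lf 0 17002026 0) (P.cons (P.lf 0 3535947 0) (P.lf 294660 0 0))))) (P.cons (P.cons (P.lf 36567951 0 0) (P.cons (P.lf 34066431 0 0) (P.cons (P.lf 0 3496323 0) (P.cons (P.lf 0 727137 0) P.nil)))) (P.cons (P.cons (P.lf 0 755577 0) (P.cons (P.lf 0 703890 0) (P.cons (P.lf 72240 0 0) P.nil))) (P.cons (P.cons (P.lf 0 887217 0) (P.cons (P.lf 0 826527 0) P.nil)) (P.cons (P.cons (P.lf 0 103392 0) P.nil) P.nil)))))) 319218)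
 EL.nil)))
noncomputable def S82_140_216_364_22 : EL := (EL.cons 4 (TM.mk (P.cons (P.cons (P.lf 730461156 0 0) (P.cons (P.lf 0 9069888 0) (P.cons (P.lf 0 4443918 0) (P.cons (P.lf 0 25011 0) (P.cons (P.lf 0 48021 0) (P.cons (P.lf 22017 0 0) P.nil)))))) (P.cons (P.cons (P.lf 0 58695393 0) (P.cons (P.lf 19892532 0 0) (P.cons (P.lf 7401135 0 0) (P.cons (P.lf 0 1967946 0) (P.cons (P.lf 0 106044 0) P.nil))))) (P.cons (P.cons (P.lf 0 427938417 0) (P.cons (P.lf 33364242 0 0) (P.cons (P.lf 13316943 0 0) (P.cons (P.lf 0 2521431 0) P.nil)))) (P.cons (P.cons (P.lf 0 109932555 0) (P.cons (P.lf 14550822 0 0) (P.cons (P.lf 5785248 0 0) P.nil))) (P.cons (P.cons (P.lf 30914721 0 0) (P.cons (P.lf 514002 0 0) P.nil)) (P.cons (P.cons (P.lf 15678813 0 0) P.nil) P.nil)))))) 12345474)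
 (EL.cons 8 (TM.mk (P.cons (P.cons (P.lf 0 920983002 0) (P.cons (P.lf 11435538 0 0) (P.cons (P.lf 5603004 0 0) (P.cons (P.lf 31530 0 0) (P.cons (P.lf 60546 0 0) (P.cons (P.lf 0 27762 0) P.nil)))))) (P.cons (P.cons (P.lf 504842235 0 0) (P.cons (P.lf 0 30430548 0) (P.cons (P.lf 0 11952624 0) (P.cons (P.lf 2466486 0 0) (P.cons (P.lf 105381 0 0) P.nil))))) (P.cons (P.cons (P.lf 364892274 0 0) (P.cons (P.lf 0 28594635 0) (P.cons (P.lf 0 11573028 0) (P.cons (P.lf 2023146 0 0) P.nil)))) (P.cons (P.cons (P.lf 0 53504490 0) (P.cons (P.lf 0 3089976 0) (P.cons (P.lf 0 1156929 0) P.nil))) (P.cons (P.cons (P.lf 0 42598638 0) (P.cons (P.lf 3082863 0 0) P.nil)) (P.cons (P.cons (P.lf 0 1997481 0) P.nil) P.nil)))))) 9447306)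
 (EL.cons 11 (TM.mk (P.cons (P.cons (P.lf 0 79880838 0) (P.cons (P.lf 0 76134273 0) (P.cons (P.lf 5296407 0 0) (P.cons (P.lf 1144857 0 0) (P.cons (P.lf 49296 0 0) (P.cons (P.lf 4011 0 0) P.nil)))))) (P.cons (P.cons (P.lf 0 2995803 0) (P.cons (P.lf 0 6074559 0) (P.cons (P.lf 0 4188591 0) (P.cons (P.lf 0 788241 0) (P.cons (P.lf 342279 0 0) P.nil))))) (P.cons (P.cons (P.lf 42852234 0 0) (P.cons (P.lf 37362543 0 0) (P.cons (P.lf 0 7583601 0) (P.cons (P.lf 0 1512615 0) P.nil)))) (P.cons (P.cons (P.lf 16787907 0 0) (P.cons (P.lf 14639034 0 0) (P.cons (P.lf 0 2968542 0) P.nil))) (P.cons (P.cons (P.lf 577266 0 0) (P.cons (P.lf 365433 0 0) P.nil)) (P.cons (P.cons (P.lf 0 798624 0) P.nil) P.nil)))))) 4015197)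
 EL.nil)))
noncomputable def S82_140_216_364_23 : EL := (EL.cons 4 (TM.mk (P.cons (P.cons (P.lf 1719603939 0 0) (P.cons (P.lf 0 58332744 0) (P.cons (P.lf 0 25153734 0) (P.lf 2794851 0 0)))) (P.cons (P.cons (P.lf 965089653 0 0) (P.cons (P.lf 0 56925447 0) (P.cons (P.lf 0 24546891 0) (P.lf 2727426 0 0)))) (P.cons (P.cons (P.lf 0 93537675 0) (P.cons (P.lf 0 13053312 0) (P.cons (P.lf 0 5628729 0) (P.lf 625410 0 0)))) (P.cons (P.cons (P.lf 0 129182109 0) (P.cons (P.lf 3504357 0 0) (P.cons (P.lf 1511118 0 0) P.nil))) (P.cons (P.cons (P.lf 0 13039848 0) (P.cons (P.lf 1847067 0 0) P.nil)) (P.cons (P.cons (P.lf 4771008 0 0) P.nil) P.nil)))))) 4891281)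
 (EL.cons 8 (TM.mk (P.cons (P.cons (P.lf 0 2168118024 0) (P.cons (P.lf 73547340 0 0) (P.cons (P.lf 31714443 0 0) (P.lf 0 3523827 0)))) (P.cons (P.cons (P.lf 0 202558353 0) (P.cons (P.lf 37367391 0 0) (P.cons (P.lf 16113243 0 0) (P.lf 0 1790361 0)))) (P.cons (P.cons (P.lf 357479082 0 0) (P.cons (P.lf 0 5934108 0) (P.cons (P.lf 0 2558853 0) (P.lf 284316 0 0)))) (P.cons (P.cons (P.lf 38130843 0 0) (P.cons (P.lf 0 5120085 0) (P.cons (P.lf 0 2207835 0) P.nil))) (P.cons (P.cons (P.lf 0 16772358 0) (P.cons (P.lf 0 232905 0) P.nil)) (P.cons (P.cons (P.lf 0 3790761 0) P.nil) P.nil)))))) 2874771)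
 (EL.cons 11 (TM.mk (P.cons (P.cons (P.lf 0 188050257 0) (P.cons (P.lf 0 175186209 0) (P.cons (P.lf 17979801 0 0) (P.cons (P.lf 3739296 0 0) (P.lf 0 311604 0))))) (P.cons (P.cons (P.lf 0 127702140 0) (P.cons (P.lf 0 118966356 0) (P.cons (P.lf 12209817 0 0) (P.cons (P.lf 2539299 0 0) (P.lf 0 211605 0))))) (P.cons (P.cons (P.lf 0 13279194 0) (P.cons (P.lf 0 12370797 0) (P.cons (P.lf 1269645 0 0) (P.cons (P.lf 264048 0 0) P.nil)))) (P.cons (P.cons (P.lf 6466152 0 0) (P.cons (P.lf 6023817 0 0) (P.cons (P.lf 0 618237 0) P.nil))) (P.cons (P.cons (P.lf 1487556 0 0) (P.cons (P.lf 1385796 0 0) P.nil)) (P.cons (P.cons (P.lf 36405 0 0) P.nil) P.nil)))))) 730401)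
 EL.nil)))
noncomputable def S82_140_216_364_24 : EL := (EL.cons 4 (TM.mk (P.cons (P.cons (P.lf 0 590623614 0) (P.cons (P.lf 7333572 0 0) (P.cons (P.lf 3593187 0 0) (P.cons (P.lf 20223 0 0) (P.cons (P.lf 38829 0 0) (P.cons (P.lf 0 17802 0) P.nil)))))) (P.cons (P.cons (P.lf 97960923 0 0) (P.cons (P.lf 0 16711422 0) (P.cons (P.lf 0 6291522 0) (P.cons (P.lf 1589478 0 0) (P.cons (P.lf 82425 0 0) P.nil))))) (P.cons (P.cons (P.lf 354501426 0 0) (P.cons (P.lf 0 25757526 0) (P.cons (P.lf 0 10332204 0) (P.cons (P.lf 1902246 0 0) P.nil)))) (P.cons (P.cons (P.lf 59150955 0 0) (P.cons (P.lf 0 9127575 0) (P.cons (P.lf 0 3635157 0) P.nil))) (P.cons (P.cons (P.lf 0 40060365 0) (P.cons (P.lf 1187301 0 0) P.nil)) (P.cons (P.cons (P.lf 0 12941907 0) P.nil) P.nil)))))) 11491743)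
 (EL.cons 8 (TM.mk (P.cons (P.cons (P.lf 744672465 0 0) (P.cons (P.lf 0 9246348 0) (P.cons (P.lf 0 4530378 0) (P.cons (P.lf 0 25491 0) (P.cons (P.lf 0 48954 0) (P.cons (P.lf 22446 0 0) P.nil)))))) (P.cons (P.cons (P.lf 0 471870741 0) (P.cons (P.lf 25395627 0 0) (P.cons (P.lf 10051821 0 0) (P.cons (P.lf 0 1992129 0) (P.cons (P.lf 0 81021 0) P.nil))))) (P.cons (P.cons (P.lf 0 275951229 0) (P.cons (P.lf 21213057 0 0) (P.cons (P.lf 8627370 0 0) (P.cons (P.lf 0 1464774 0) P.nil)))) (P.cons (P.cons (P.lf 76077324 0 0) (P.cons (P.lf 12327 0 0) (P.cons (P.lf 0 63357 0) P.nil))) (P.cons (P.cons (P.lf 37661166 0 0) (P.cons (P.lf 0 3233841 0) P.nil)) (P.cons (P.cons (P.lf 0 1832712 0) P.nil) P.nil)))))) 8830419)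
 (EL.cons 11 (TM.mk (P.cons (P.cons (P.lf 64588665 0 0) (P.cons (P.lf 61559328 0 0) (P.cons (P.lf 0 4282476 0) (P.cons (P.lf 0 925686 0) (P.cons (P.lf 0 39858 0) (P.cons (P.lf 0 3243 0) P.nil)))))) (P.cons (P.cons (P.lf 0 3100437 0) (P.cons (P.lf 0 352044 0) (P.cons (P.lf 3752919 0 0) (P.cons (P.lf 716496 0 0) (P.cons (P.lf 0 273345 0) P.nil))))) (P.cons (P.cons (P.lf 0 36227655 0) (P.cons (P.lf 0 31937412 0) (P.cons (P.lf 5933184 0 0) (P.cons (P.lf 1188207 0 0) P.nil)))) (P.cons (P.cons (P.lf 0 10756671 0) (P.cons (P.lf 0 9447186 0) (P.cons (P.lf 1810233 0 0) P.nil))) (P.cons (P.cons (P.lf 1431270 0 0) (P.cons (P.lf 1355859 0 0) P.nil)) (P.cons (P.cons (P.lf 1026117 0 0) P.nil) P.nil)))))) 3682308)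
 EL.nil)))
noncomputable def S82_140_216_364_25 : EL := (EL.cons 4 (TM.mk (P.cons (P.cons (P.lf 0 1390407537 0) (P.cons (P.lf 47165679 0 0) (P.cons (P.lf 20338371 0 0) (P.lf 0 2259810 0)))) (P.cons (P.cons (P.lf 0 661446903 0) (P.cons (P.lf 41994831 0 0) (P.cons (P.lf 18108642 0 0) (P.lf 0 2012067 0)))) (P.cons (P.cons (P.lf 171885930 0 0) (P.cons (P.lf 5616990 0 0) (P.cons (P.lf 2422104 0 0) (P.lf 0 269121 0)))) (P.cons (P.cons (P.lf 116578629 0 0) (P.cons (P.lf 0 4782081 0) (P.cons (P.lf 0 2062086 0) P.nil))) (P.cons (P.cons (P.lf 1032705 0 0) (P.cons (P.lf 0 1538598 0) P.nil)) (P.cons (P.cons (P.lf 0 7182879 0) P.nil) P.nil)))))) 5054853)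
 (EL.cons 8 (TM.mk (P.cons (P.cons (P.lf 1753059279 0 0) (P.cons (P.lf 0 59467632 0) (P.cons (P.lf 0 25643115 0) (P.lf 2849235 0 0)))) (P.cons (P.cons (P.lf 13883571 0 0) (P.cons (P.lf 0 25129023 0) (P.cons (P.lf 0 10835919 0) (P.lf 1203990 0 0)))) (P.cons (P.cons (P.lf 0 340282308 0) (P.cons (P.lf 8644623 0 0) (P.cons (P.lf 3727659 0 0) (P.lf 0 414183 0)))) (P.cons (P.cons (P.lf 0 12141480 0) (P.cons (P.lf 4457757 0 0) (P.cons (P.lf 1922232 0 0) P.nil))) (P.cons (P.cons (P.lf 22233633 0 0) (P.cons (P.lf 0 228252 0) P.nil)) (P.cons (P.cons (P.lf 3037389 0 0) P.nil) P.nil)))))) 3346719)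
 (EL.cons 11 (TM.mk (P.cons (P.cons (P.lf 152050416 0 0) (P.cons (P.lf 141649026 0 0) (P.cons (P.lf 0 14537796 0) (P.cons (P.lf 0 3023454 0) (P.lf 251952 0 0))))) (P.cons (P.cons (P.lf 90253920 0 0) (P.cons (P.lf 84079875 0 0) (P.cons (P.lf 0 8629329 0) (P.cons (P.lf 0 1794657 0) (P.lf 149553 0 0))))) (P.cons (P.cons (P.lf 0 1321347 0) (P.cons (P.lf 0 1230957 0) (P.cons (P.lf 126336 0 0) (P.cons (P.lf 26274 0 0) P.nil)))) (P.cons (P.cons (P.lf 0 8560338 0) (P.cons (P.lf 0 7974747 0) (P.cons (P.lf 818466 0 0) P.nil))) (P.cons (P.cons (P.lf 0 1122099 0) (P.cons (P.lf 0 1045341 0) P.nil)) (P.cons (P.cons (P.lf 180654 0 0) P.nil) P.nil)))))) 984315)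
 EL.nil)))
noncomputable def S82_140_216_364_26 : EL := (EL.cons 4 (TM.mk (P.cons (P.cons (P.lf 477556203 0 0) (P.cons (P.lf 0 5929653 0) (P.cons (P.lf 0 2905317 0) (P.cons (P.lf 0 16350 0) (P.cons (P.lf 0 31395 0) (P.cons (P.lf 14394 0 0) P.nil)))))) (P.cons (P.cons (P.lf 0 120041589 0) (P.cons (P.lf 14019255 0 0) (P.cons (P.lf 5335512 0 0) (P.cons (P.lf 0 1283793 0) (P.cons (P.lf 0 63960 0) P.nil))))) (P.cons (P.cons (P.lf 0 290006835 0) (P.cons (P.lf 19797135 0 0) (P.cons (P.lf 7980963 0 0) (P.cons (P.lf 0 1427844 0) P.nil)))) (P.cons (P.cons (P.lf 0 22329495 0) (P.cons (P.lf 5321037 0 0) (P.cons (P.lf 2121087 0 0) P.nil))) (P.cons (P.cons (P.lf 42720573 0 0) (P.cons (P.lf 0 2053491 0) P.nil)) (P.cons (P.cons (P.lf 9132975 0 0) P.nil) P.nil)))))) 11412600)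
 (EL.cons 8 (TM.mk (P.cons (P.cons (P.lf 0 602114349 0) (P.cons (P.lf 7476252 0 0) (P.cons (P.lf 3663096 0 0) (P.cons (P.lf 20613 0 0) (P.cons (P.lf 39582 0 0) (P.cons (P.lf 0 18150 0) P.nil)))))) (P.cons (P.cons (P.lf 433021611 0 0) (P.cons (P.lf 0 21173220 0) (P.cons (P.lf 0 8440746 0) (P.cons (P.lf 1608996 0 0) (P.cons (P.lf 62124 0 0) P.nil))))) (P.cons (P.cons (P.lf 203288541 0 0) (P.cons (P.lf 0 15555093 0) (P.cons (P.lf 0 6358614 0) (P.cons (P.lf 1046193 0 0) P.nil)))) (P.cons (P.cons (P.lf 0 87820617 0) (P.cons (P.lf 1881906 0 0) (P.cons (P.lf 815001 0 0) P.nil))) (P.cons (P.cons (P.lf 0 30531192 0) (P.cons (P.lf 3010320 0 0) P.nil)) (P.cons (P.cons (P.lf 5082006 0 0) P.nil) P.nil)))))) 8624946)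
 (EL.cons 11 (TM.mk (P.cons (P.cons (P.lf 0 52223982 0) (P.cons (P.lf 0 49774575 0) (P.cons (P.lf 3462651 0 0) (P.cons (P.lf 748476 0 0) (P.cons (P.lf 32229 0 0) (P.cons (P.lf 2622 0 0) P.nil)))))) (P.cons (P.cons (P.lf 6972375 0 0) (P.cons (P.lf 4540686 0 0) (P.cons (P.lf 0 3330546 0) (P.cons (P.lf 0 643329 0) (P.cons (P.lf 218262 0 0) P.nil))))) (P.cons (P.cons (P.lf 30187176 0 0) (P.cons (P.lf 26856237 0 0) (P.cons (P.lf 0 4611429 0) (P.cons (P.lf 0 927102 0) P.nil)))) (P.cons (P.cons (P.lf 6215391 0 0) (P.cons (P.lf 5496846 0 0) (P.cons (P.lf 0 994062 0) P.nil))) (P.cons (P.cons (P.lf 0 2530761 0) (P.cons (P.lf 0 2302158 0) P.nil)) (P.cons (P.cons (P.lf 0 959145 0) P.nil) P.nil)))))) 3659970)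
 EL.nil)))
noncomputable def S82_140_216_364_27 : EL := (EL.cons 13 (TM.mk (P.lf 0 4294967296 0) 0)
 EL.nil)
noncomputable def S82_140_216_364_28 : EL := (EL.cons 13 (TM.mk (P.cons (P.cons (P.lf 1475170566 0 0) (P.cons (P.lf 31724336 0 0) (P.cons (P.lf 13679892 0 0) (P.lf 0 1519984 0)))) (P.cons (P.cons (P.lf 0 1072578846 0) (P.cons (P.lf 36384236 0 0) (P.cons (P.lf 15689292 0 0) (P.lf 0 1743252 0)))) (P.cons (P.cons (P.lf 0 203217297 0) (P.cons (P.lf 14436880 0 0) (P.cons (P.lf 6225344 0 0) (P.lf 0 691704 0)))) (P.cons (P.cons (P.lf 18789560 0 0) (P.cons (P.lf 1819520 0 0) (P.cons (P.lf 784596 0 0) P.nil))) (P.cons (P.cons (P.lf 9068300 0 0) (P.cons (P.lf 0 239172 0) P.nil)) (P.cons (P.cons (P.lf 764432 0 0) P.nil) P.nil)))))) 736894)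
 EL.nil)
noncomputable def S82_140_216_364_29 : EL := (EL.cons 13 (TM.mk (P.cons (P.cons (P.lf 0 506669329 0) (P.cons (P.lf 0 21792392 0) (P.cons (P.lf 0 9631454 0) (P.cons (P.lf 842032 0 0) (P.cons (P.lf 0 21117 0) (P.cons (P.lf 9682 0 0) P.nil)))))) (P.cons (P.cons (P.lf 736786398 0 0) (P.cons (P.lf 0 9148429 0) (P.cons (P.lf 0 4482401 0) (P.cons (P.lf 0 25226 0) (P.cons (P.lf 0 48438 0) P.nil))))) (P.cons (P.cons (P.lf 0 128258259 0) (P.cons (P.lf 11257378 0 0) (P.cons (P.lf 4332811 0 0) (P.cons (P.lf 0 989117 0) P.nil)))) (P.cons (P.cons (P.lf 0 114405704 0) (P.cons (P.lf 9126220 0 0) (P.cons (P.lf 3663849 0 0) P.nil))) (P.cons (P.cons (P.lf 0 6459951 0) (P.cons (P.lf 1986926 0 0) P.nil)) (P.cons (P.cons (P.lf 5782191 0 0) P.nil) P.nil)))))) 5987900)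
 EL.nil)
noncomputable def S82_140_216_364_30 : EL := (EL.cons 13 (TM.mk (P.cons (P.lf 3472750184 0 0) (P.cons (P.lf 0 296941892 0) (P.cons (P.lf 0 73758800 0) (P.cons (P.lf 0 5045120 0) (P.cons (P.lf 266856 0 0) (P.cons (P.lf 88316 0 0) P.nil)))))) 15692)
 EL.nil)
noncomputable def S82_140_216_364_31 : EL := (EL.cons 13 (TM.mk (P.cons (P.cons (P.lf 0 1192767837 0) (P.cons (P.lf 0 25651113 0) (P.cons (P.lf 0 11061049 0) (P.lf 1229002 0 0)))) (P.cons (P.cons (P.lf 969236326 0 0) (P.cons (P.lf 0 27225603 0) (P.cons (P.lf 0 11739986 0) (P.lf 1304441 0 0)))) (P.cons (P.cons (P.lf 115492410 0 0) (P.cons (P.lf 0 8612807 0) (P.cons (P.lf 0 3713938 0) (P.lf 412659 0 0)))) (P.cons (P.cons (P.lf 0 45929311 0) (P.cons (P.lf 189032 0 0) (P.cons (P.lf 81513 0 0) P.nil))) (P.cons (P.cons (P.lf 0 10874714 0) (P.cons (P.lf 607878 0 0) P.nil)) (P.cons (P.cons (P.lf 129141 0 0) P.nil)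 P.nil)))))) 1342750)
 EL.nil)
noncomputable def S82_140_216_364_32 : EL := (EL.cons 13 (TM.mk (P.cons (P.cons (P.lf 409673900 0 0) (P.cons (P.lf 17620514 0 0) (P.cons (P.lf 7787634 0 0) (P.cons (P.lf 0 680835 0) (P.cons (P.lf 17074 0 0) (P.cons (P.lf 0 7828 0) P.nil)))))) (P.cons (P.cons (P.lf 0 630767654 0) (P.cons (P.lf 5890413 0 0) (P.cons (P.lf 2958410 0 0) (P.cons (P.lf 78612 0 0) (P.cons (P.lf 37705 0 0) P.nil))))) (P.cons (P.cons (P.lf 145942978 0 0) (P.cons (P.lf 0 10109039 0) (P.cons (P.lf 0 3978653 0) (P.cons (P.lf 812479 0 0) P.nil)))) (P.cons (P.cons (P.lf 95694664 0 0) (P.cons (P.lf 0 6783524 0) (P.cons (P.lf 0 2751184 0) P.nil))) (P.cons (P.cons (P.lf 0 3992077 0) (P.cons (P.lf 0 791658 0) P.nil)) (P.cons (P.cons (P.lf 0 7272630 0) P.nil) P.nil)))))) 7025034)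
 EL.nil)
noncomputable def S82_140_216_364_33 : EL := (EL.cons 14 (TM.mk (P.lf 8589934592 0 0) 0)
 EL.nil)
noncomputable def S82_140_216_364_34 : EL := (EL.cons 14 (TM.mk (P.cons (P.cons (P.lf 0 2950341132 0) (P.cons (P.lf 0 63448672 0) (P.cons (P.lf 0 27359784 0) (P.lf 3039968 0 0)))) (P.cons (P.cons (P.lf 2145157692 0 0) (P.cons (P.lf 0 72768472 0) (P.cons (P.lf 0 31378584 0) (P.lf 3486504 0 0)))) (P.cons (P.cons (P.lf 406434594 0 0) (P.cons (P.lf 0 28873760 0) (P.cons (P.lf 0 12450688 0) (P.lf 1383408 0 0)))) (P.cons (P.cons (P.lf 0 37579120 0) (P.cons (P.lf 0 3639040 0) (P.cons (P.lf 0 1569192 0) P.nil))) (P.cons (P.cons (P.lf 0 18136600 0) (P.cons (P.lf 478344 0 0) P.nil)) (P.cons (P.cons (P.lf 0 1528864 0) P.nil) P.nil)))))) 1473788)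
 EL.nil)
noncomputable def S82_140_216_364_35 : EL := (EL.cons 14 (TM.mk (P.cons (P.cons (P.lf 1013338658 0 0) (P.cons (P.lf 43584784 0 0) (P.cons (P.lf 19262908 0 0) (P.cons (P.lf 0 1684064 0) (P.cons (P.lf 42234 0 0) (P.cons (P.lf 0 19364 0) P.nil)))))) (P.cons (P.cons (P.lf 0 1473572796 0) (P.cons (P.lf 18296858 0 0) (P.cons (P.lf 8964802 0 0) (P.cons (P.lf 50452 0 0) (P.cons (P.lf 96876 0 0) P.nil))))) (P.cons (P.cons (P.lf 256516518 0 0) (P.cons (P.lf 0 22514756 0) (P.cons (P.lf 0 8665622 0) (P.cons (P.lf 1978234 0 0) P.nil)))) (P.cons (P.cons (P.lf 228811408 0 0) (P.cons (P.lf 0 18252440 0) (P.cons (P.lf 0 7327698 0) P.nil))) (P.cons (P.cons (P.lf 12919902 0 0) (P.cons (P.lf 0 3973852 0) P.nil)) (P.cons (P.cons (P.lf 0 11564382 0) P.nil) P.nil)))))) 11975800)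
 EL.nil)
noncomputable def S82_140_216_364_36 : EL := (EL.cons 14 (TM.mk (P.cons (P.lf 0 6945500368 0) (P.cons (P.lf 593883784 0 0) (P.cons (P.lf 147517600 0 0) (P.cons (P.lf 10090240 0 0) (P.cons (P.lf 0 533712 0) (P.cons (P.lf 0 176632 0) P.nil)))))) 31384)
 EL.nil)
noncomputable def S82_140_216_364_37 : EL := (EL.cons 14 (TM.mk (P.cons (P.cons (P.lf 2385535674 0 0) (P.cons (P.lf 51302226 0 0) (P.cons (P.lf 22122098 0 0) (P.lf 0 2458004 0)))) (P.cons (P.cons (P.lf 0 1938472652 0) (P.cons (P.lf 54451206 0 0) (P.cons (P.lf 23479972 0 0) (P.lf 0 2608882 0)))) (P.cons (P.cons (P.lf 0 230984820 0) (P.cons (P.lf 17225614 0 0) (P.cons (P.lf 7427876 0 0) (P.lf 0 825318 0)))) (P.cons (P.cons (P.lf 91858622 0 0) (P.cons (P.lf 0 378064 0) (P.cons (P.lf 0 163026 0) P.nil))) (P.cons (P.cons (P.lf 21749428 0 0) (P.cons (P.lf 0 1215756 0) P.nil)) (P.cons (P.cons (P.lf 0 258282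 0) P.nil) P.nil)))))) 2685500)
 EL.nil)
noncomputable def S82_140_216_364_38 : EL := (EL.cons 14 (TM.mk (P.cons (P.cons (P.lf 0 819347800 0) (P.cons (P.lf 0 35241028 0) (P.cons (P.lf 0 15575268 0) (P.cons (P.lf 1361670 0 0) (P.cons (P.lf 0 34148 0) (P.cons (P.lf 15656 0 0) P.nil)))))) (P.cons (P.cons (P.lf 1261535308 0 0) (P.cons (P.lf 0 11780826 0) (P.cons (P.lf 0 5916820 0) (P.cons (P.lf 0 157224 0) (P.cons (P.lf 0 75410 0) P.nil))))) (P.cons (P.cons (P.lf 0 291885956 0) (P.cons (P.lf 20218078 0 0) (P.cons (P.lf 7957306 0 0) (P.cons (P.lf 0 1624958 0) P.nil)))) (P.cons (P.cons (P.lf 0 191389328 0) (P.cons (P.lf 13567048 0 0) (P.cons (P.lf 5502368 0 0) P.nil))) (P.cons (P.cons (P.lf 7984154 0 0) (P.cons (P.lf 1583316 0 0) P.nil)) (P.cons (P.cons (P.lf 14545260 0 0) P.nil) P.nil)))))) 14050068)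
 EL.nil)
noncomputable def S82_140_216_364_39 : EL := (EL.cons 14 (TM.mk (P.cons (P.lf 5615872256 0 0) (P.cons (P.lf 0 960384504 0) (P.cons (P.lf 0 197495000 0) (P.cons (P.lf 4080716 0 0) (P.cons (P.lf 4791664 0 0) (P.cons (P.lf 558402 0 0) P.nil)))))) 118664)
 EL.nil)
noncomputable def S82_140_216_364_40 : EL := (EL.cons 14 (TM.mk (P.cons (P.cons (P.lf 0 1928855072 0) (P.cons (P.lf 0 41481064 0) (P.cons (P.lf 0 17887102 0) (P.lf 1987450 0 0)))) (P.cons (P.cons (P.lf 1732305794 0 0) (P.cons (P.lf 0 40480322 0) (P.cons (P.lf 0 17455570 0) (P.lf 1939504 0 0)))) (P.cons (P.cons (P.lf 93712724 0 0) (P.cons (P.lf 0 9282356 0) (P.cons (P.lf 0 4002654 0) (P.lf 444738 0 0)))) (P.cons (P.cons (P.lf 0 120730888 0) (P.cons (P.lf 2491988 0 0) (P.cons (P.lf 1074574 0 0) P.nil))) (P.cons (P.cons (P.lf 0 17626966 0) (P.cons (P.lf 1313472 0 0) P.nil)) (P.cons (P.cons (P.lf 3090108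 0 0) P.nil) P.nil)))))) 3396408)
 EL.nil)
noncomputable def S82_140_216_364_41 : EL := (EL.cons 14 (TM.mk (P.cons (P.cons (P.lf 662494038 0 0) (P.cons (P.lf 28494580 0 0) (P.cons (P.lf 12593580 0 0) (P.cons (P.lf 0 1100996 0) (P.cons (P.lf 27610 0 0) (P.cons (P.lf 0 12658 0) P.nil)))))) (P.cons (P.cons (P.lf 0 1076677734 0) (P.cons (P.lf 7089072 0 0) (P.cons (P.lf 3707290 0 0) (P.cons (P.lf 221268 0 0) (P.cons (P.lf 58612 0 0) P.nil))))) (P.cons (P.cons (P.lf 309156154 0 0) (P.cons (P.lf 0 17767280 0) (P.cons (P.lf 0 7110532 0) (P.cons (P.lf 1326394 0 0) P.nil)))) (P.cons (P.cons (P.lf 155272376 0 0) (P.cons (P.lf 0 9815700 0) (P.cons (P.lf 0 4018770 0) P.nil))) (P.cons (P.cons (P.lf 0 23167672 0) (P.cons (P.lf 0 6660 0) P.nil)) (P.cons (P.cons (P.lf 0 14899940 0) P.nil) P.nil)))))) 14423876)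
 EL.nil)
noncomputable def S82_140_216_364_42 : EL := (EL.cons 14 (TM.mk (P.cons (P.lf 0 4540784612 0) (P.cons (P.lf 1164796574 0 0) (P.cons (P.lf 189731922 0 0) (P.cons (P.lf 0 26850006 0) (P.cons (P.lf 0 8460924 0) (P.cons (P.lf 0 337936 0) P.nil)))))) 309558)
 EL.nil)
noncomputable def S82_140_216_364_43 : EL := (EL.cons 14 (TM.mk (P.cons (P.cons (P.lf 1559600188 0 0) (P.cons (P.lf 33540040 0 0) (P.cons (P.lf 14462844 0 0) (P.lf 0 1606978 0)))) (P.cons (P.cons (P.lf 0 1534033366 0) (P.cons (P.lf 29862992 0 0) (P.cons (P.lf 12877258 0 0) (P.lf 0 1430804 0)))) (P.cons (P.cons (P.lf 10869288 0 0) (P.cons (P.lf 3994304 0 0) (P.cons (P.lf 1722388 0 0) (P.lf 0 191376 0)))) (P.cons (P.cons (P.lf 131581196 0 0) (P.cons (P.lf 0 3400592 0) (P.cons (P.lf 0 1466374 0) P.nil))) (P.cons (P.cons (P.lf 9669584 0 0) (P.cons (P.lf 0 1094118 0) P.nil)) (P.cons (P.cons (P.lf 0 5748462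 0) P.nil) P.nil)))))) 4043598)
 EL.nil)
noncomputable def S82_140_216_364_44 : EL := (EL.cons 14 (TM.mk (P.cons (P.cons (P.lf 0 535667942 0) (P.cons (P.lf 0 23039652 0) (P.cons (P.lf 0 10182698 0) (P.cons (P.lf 890224 0 0) (P.cons (P.lf 0 22324 0) (P.cons (P.lf 10236 0 0) P.nil)))))) (P.cons (P.cons (P.lf 916364378 0 0) (P.cons (P.lf 0 3761924 0) (P.cons (P.lf 0 2126892 0) (P.cons (P.lf 0 255028 0) (P.cons (P.lf 0 45482 0) P.nil))))) (P.cons (P.cons (P.lf 0 313033362 0) (P.cons (P.lf 15345424 0 0) (P.cons (P.lf 6221896 0 0) (P.cons (P.lf 0 1076082 0) P.nil)))) (P.cons (P.cons (P.lf 0 121885178 0) (P.cons (P.lf 6863442 0 0) (P.cons (P.lf 2836286 0 0) P.nil))) (P.cons (P.cons (P.lf 33470950 0 0) (P.cons (P.lf 0 971808 0) P.nil)) (P.cons (P.cons (P.lf 13528754 0 0) P.nil) P.nil)))))) 14918156)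
 EL.nil)
noncomputable def S82_140_216_364_45 : EL := (EL.cons 14 (TM.mk (P.cons (P.cons (P.lf 0 348046272 0) (P.cons (P.lf 0 22454766 0) (P.cons (P.lf 0 10165650 0) (P.cons (P.lf 655930 0 0) (P.cons (P.lf 0 47996 0) (P.cons (P.lf 18518 0 0) P.nil)))))) (P.cons (P.cons (P.lf 759180826 0 0) (P.cons (P.lf 6900098 0 0) (P.cons (P.lf 2218846 0 0) (P.cons (P.lf 0 994978 0) (P.cons (P.lf 0 83586 0) P.nil))))) (P.cons (P.cons (P.lf 0 408152276 0) (P.cons (P.lf 21546768 0 0) (P.cons (P.lf 9088408 0 0) (P.cons (P.lf 0 1225640 0) P.nil)))) (P.cons (P.cons (P.lf 0 88684570 0) (P.cons (P.lf 1982288 0 0) (P.cons (P.lf 1223160 0 0) P.nil))) (P.cons (P.cons (P.lf 69147518 0 0) (P.cons (P.lf 0 6645972 0) P.nil)) (P.cons (P.cons (P.lf 19833404 0 0) P.nil) P.nil)))))) 26685100)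
 EL.nil)
noncomputable def S82_140_216_364_46 : EL := (EL.cons 15 (TM.mk (P.lf 4294967296 0 0) 0)
 EL.nil)
noncomputable def S82_140_216_364_47 : EL := (EL.cons 15 (TM.mk (P.cons (P.cons (P.lf 0 1475170566 0) (P.cons (P.lf 0 31724336 0) (P.cons (P.lf 0 13679892 0) (P.lf 1519984 0 0)))) (P.cons (P.cons (P.lf 1072578846 0 0) (P.cons (P.lf 0 36384236 0) (P.cons (P.lf 0 15689292 0) (P.lf 1743252 0 0)))) (P.cons (P.cons (P.lf 203217297 0 0) (P.cons (P.lf 0 14436880 0) (P.cons (P.lf 0 6225344 0) (P.lf 691704 0 0)))) (P.cons (P.cons (P.lf 0 18789560 0) (P.cons (P.lf 0 1819520 0) (P.cons (P.lf 0 784596 0) P.nil))) (P.cons (P.cons (P.lf 0 9068300 0) (P.cons (P.lf 239172 0 0) P.nil)) (P.cons (P.cons (P.lf 0 764432 0) P.nil) P.nil)))))) 736894)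
 EL.nil)
noncomputable def S82_140_216_364_48 : EL := (EL.cons 15 (TM.mk (P.cons (P.cons (P.lf 506669329 0 0) (P.cons (P.lf 21792392 0 0) (P.cons (P.lf 9631454 0 0) (P.cons (P.lf 0 842032 0) (P.cons (P.lf 21117 0 0) (P.cons (P.lf 0 9682 0) P.nil)))))) (P.cons (P.cons (P.lf 0 736786398 0) (P.cons (P.lf 9148429 0 0) (P.cons (P.lf 4482401 0 0) (P.cons (P.lf 25226 0 0) (P.cons (P.lf 48438 0 0) P.nil))))) (P.cons (P.cons (P.lf 128258259 0 0) (P.cons (P.lf 0 11257378 0) (P.cons (P.lf 0 4332811 0) (P.cons (P.lf 989117 0 0) P.nil)))) (P.cons (P.cons (P.lf 114405704 0 0) (P.cons (P.lf 0 9126220 0) (P.cons (P.lf 0 3663849 0) P.nil))) (P.cons (P.cons (P.lf 6459951 0 0) (P.cons (P.lf 0 1986926 0) P.nil)) (P.cons (P.cons (P.lf 0 5782191 0) P.nil) P.nil)))))) 5987900)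
 EL.nil)
noncomputable def S82_140_216_364 : SL := (SL.cons S82_140_216_364_0 (SL.cons S82_140_216_364_1 (SL.cons S82_140_216_364_2 (SL.cons S82_140_216_364_3 (SL.cons S82_140_216_364_4 (SL.cons S82_140_216_364_5 (SL.cons S82_140_216_364_6 (SL.cons S82_140_216_364_7 (SL.cons S82_140_216_364_8 (SL.cons S82_140_216_364_9 (SL.cons S82_140_216_364_10 (SL.cons S82_140_216_364_11 (SL.cons S82_140_216_364_12 (SL.cons S82_140_216_364_13 (SL.cons S82_140_216_364_14 (SL.cons S82_140_216_364_15 (SL.cons S82_140_216_364_16 (SL.cons S82_140_216_364_17 (SL.cons S82_140_216_364_18 (SL.cons S82_140_216_364_19 (SL.cons S82_140_216_364_20 (SL.cons S82_140_216_364_21 (SL.cons S82_140_216_364_22 (SL.cons S82_140_216_364_23 (SL.cons S82_140_216_364_24 (SL.cons S82_140_216_364_25 (SL.cons S82_140_216_364_26 (SL.cons S82_140_216_364_27 (SL.cons S82_140_216_364_28 (SL.cons S82_140_216_364_29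 (SL.cons S82_140_216_364_30 (SL.cons S82_140_216_364_31 (SL.cons S82_140_216_364_32 (SL.cons S82_140_216_364_33 (SL.cons S82_140_216_364_34 (SL.cons S82_140_216_364_35 (SL.cons S82_140_216_364_36 (SL.cons S82_140_216_364_37 (SL.cons S82_140_216_364_38 (SL.cons S82_140_216_364_39 (SL.cons S82_140_216_364_40 (SL.cons S82_140_216_364_41 (SL.cons S82_140_216_364_42 (SL.cons S82_140_216_364_43 (SL.cons S82_140_216_364_44 (SL.cons S82_140_216_364_45 (SL.cons S82_140_216_364_46 (SL.cons S82_140_216_364_47 (SL.cons S82_140_216_364_48 SL.nil)))))))))))))))))))))))))))))))))))))))))))))))))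
noncomputable def S82_140_290_364_0 : EL := (EL.cons 0 (TM.mk (P.cons (P.lf 3519891639 0 0) (P.cons (P.lf 844087942 0 0) (P.cons (P.lf 173579589 0 0) (P.cons (P.lf 0 3586566 0) (P.cons (P.lf 0 4211423 0) (P.cons (P.lf 0 490783 0) P.nil)))))) 104301)
 (EL.cons 1 (TM.mk (P.cons (P.lf 0 1391915122 0) (P.cons (P.lf 0 413105733 0) (P.cons (P.lf 67350723 0 0) (P.cons (P.lf 19192974 0 0) (P.cons (P.lf 1069213 0 0) (P.cons (P.lf 0 215523 0) P.nil)))))) 64748)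
 (EL.cons 5 (TM.mk (P.cons (P.lf 6049927380 0 0) (P.cons (P.lf 0 300120158 0) (P.cons (P.lf 0 61717188 0) (P.cons (P.lf 1275220 0 0) (P.cons (P.lf 1497396 0 0) (P.cons (P.lf 174500 0 0) P.nil)))))) 24617)
 (EL.cons 9 (TM.mk (P.lf 6442450944 0 0) 2)
 EL.nil))))
noncomputable def S82_140_290_364_1 : EL := (EL.cons 0 (TM.mk (P.cons (P.cons (P.lf 0 4383040683 0) (P.cons (P.lf 58165312 0 0) (P.cons (P.lf 7490005 0 0) (P.lf 0 499321 0)))) (P.cons (P.cons (P.lf 0 1177900374 0) (P.cons (P.lf 49310595 0 0) (P.cons (P.lf 6349768 0 0) (P.lf 0 423308 0)))) (P.cons (P.cons (P.lf 495636529 0 0) (P.cons (P.lf 2937523 0 0) (P.cons (P.lf 378256 0 0) (P.lf 0 25209 0)))) (P.cons (P.cons (P.lf 303907404 0 0) (P.cons (P.lf 0 8610993 0) (P.cons (P.lf 0 1108846 0) P.nil))) (P.cons (P.cons (P.lf 19593341 0 0) (P.cons (P.lf 0 2892971 0) P.nil)) (P.cons (P.cons (P.lf 0 13252228 0) P.nil) P.nil))))))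 8631234)
 (EL.cons 1 (TM.mk (P.cons (P.cons (P.lf 2030033349 0 0) (P.cons (P.lf 0 30171148 0) (P.cons (P.lf 0 3885176 0) (P.lf 259017 0 0)))) (P.cons (P.cons (P.lf 0 482389334 0) (P.cons (P.lf 1447617 0 0) (P.cons (P.lf 186407 0 0) (P.lf 0 12423 0)))) (P.cons (P.cons (P.lf 0 637377857 0) (P.cons (P.lf 17277172 0 0) (P.cons (P.lf 2224792 0 0) (P.lf 0 148308 0)))) (P.cons (P.cons (P.lf 0 11573368 0) (P.cons (P.lf 5556645 0 0) (P.cons (P.lf 715528 0 0) P.nil))) (P.cons (P.cons (P.lf 44217156 0 0) (P.cons (P.lf 0 369817 0) P.nil)) (P.cons (P.cons (P.lf 7307015 0 0) P.nil) P.nil)))))) 3553555)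
 (EL.cons 5 (TM.mk (P.cons (P.cons (P.lf 0 981832147 0) (P.cons (P.lf 0 58305610 0) (P.cons (P.lf 0 7508074 0) (P.lf 500534 0 0)))) (P.cons (P.cons (P.lf 2204968957 0 0) (P.cons (P.lf 0 60683836 0) (P.cons (P.lf 0 7814320 0) (P.lf 520952 0 0)))) (P.cons (P.cons (P.lf 154472959 0 0) (P.cons (P.lf 0 18166390 0) (P.cons (P.lf 0 2339304 0) (P.lf 155948 0 0)))) (P.cons (P.cons (P.lf 0 141859734 0) (P.cons (P.lf 903760 0 0) (P.cons (P.lf 116376 0 0) P.nil))) (P.cons (P.cons (P.lf 0 22137950 0) (P.cons (P.lf 1312264 0 0) P.nil)) (P.cons (P.cons (P.lf 3506456 0 0) P.nil) P.nil)))))) 2862498)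
 (EL.cons 9 (TM.mk (P.cons (P.cons (P.lf 0 2241394065 0) (P.cons (P.lf 0 33198180 0) (P.cons (P.lf 0 4274964 0) (P.lf 284994 0 0)))) (P.cons (P.cons (P.lf 1576023465 0 0) (P.cons (P.lf 0 38074566 0) (P.cons (P.lf 0 4902900 0) (P.lf 326856 0 0)))) (P.cons (P.cons (P.lf 291793477 0 0) (P.cons (P.lf 0 15107586 0) (P.cons (P.lf 0 1945416 0) (P.lf 129690 0 0)))) (P.cons (P.cons (P.lf 0 29826858 0) (P.cons (P.lf 0 1904052 0) (P.cons (P.lf 0 245184 0) P.nil))) (P.cons (P.cons (P.lf 0 13386546 0) (P.cons (P.lf 250284 0 0) P.nil)) (P.cons (P.cons (P.lf 0 1063626 0) P.nil) P.nil)))))) 673282)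
 (EL.cons 2 (TM.mk (P.cons (P.cons (P.lf 253781693 0 0) (P.cons (P.lf 72448936 0 0) (P.cons (P.lf 0 5419063 0) (P.cons (P.lf 0 365163 0) (P.lf 18255 0 0))))) (P.cons (P.cons (P.lf 172339385 0 0) (P.cons (P.lf 49198997 0 0) (P.cons (P.lf 0 3680004 0) (P.cons (P.lf 0 247975 0) (P.lf 12394 0 0))))) (P.cons (P.cons (P.lf 17920828 0 0) (P.cons (P.lf 5115990 0 0) (P.cons (P.lf 0 382665 0) (P.cons (P.lf 0 25782 0) P.nil)))) (P.cons (P.cons (P.lf 0 8726340 0) (P.cons (P.lf 0 2491171 0) (P.cons (P.lf 186333 0 0) P.nil))) (P.cons (P.cons (P.lf 0 2007520 0) (P.cons (P.lf 0 573100 0) P.nil)) (P.cons (P.cons (P.lf 0 49131 0) P.nil) P.nil)))))) 242284)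
 (EL.cons 6 (TM.mk (P.cons (P.cons (P.lf 71567076 0 0) (P.cons (P.lf 20430780 0 0) (P.cons (P.lf 0 1528188 0) (P.cons (P.lf 0 102975 0) (P.lf 5148 0 0))))) (P.cons (P.cons (P.lf 82079358 0 0) (P.cons (P.lf 23431800 0 0) (P.cons (P.lf 0 1752660 0) (P.cons (P.lf 0 118101 0) (P.lf 5904 0 0))))) (P.cons (P.cons (P.lf 32568222 0 0) (P.cons (P.lf 9297492 0 0) (P.cons (P.lf 0 695436 0) (P.cons (P.lf 0 46860 0) P.nil)))) (P.cons (P.cons (P.lf 4104666 0 0) (P.cons (P.lf 1171788 0 0) (P.cons (P.lf 0 87648 0) P.nil))) (P.cons (P.cons (P.lf 0 539550 0) (P.cons (P.lf 0 154029 0) P.nil)) (P.cons (P.cons (P.lf 0 207471 0) P.nil) P.nil)))))) 128859)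
 EL.nil))))))
noncomputable def S82_140_290_364_2 : EL := (EL.cons 0 (TM.mk (P.cons (P.cons (P.lf 2623755798 0 0) (P.cons (P.lf 0 7921554 0) (P.cons (P.lf 0 1712985 0) (P.cons (P.lf 0 110453 0) (P.cons (P.lf 406 0 0) (P.cons (P.lf 1524 0 0) P.nil)))))) (P.cons (P.cons (P.lf 0 827864950 0) (P.cons (P.lf 49466421 0 0) (P.cons (P.lf 4937325 0 0) (P.cons (P.lf 0 793573 0) (P.cons (P.lf 839 0 0) P.nil))))) (P.cons (P.cons (P.lf 0 1295257460 0) (P.cons (P.lf 60833846 0 0) (P.cons (P.lf 6683686 0 0) (P.cons (P.lf 0 818389 0) P.nil)))) (P.cons (P.cons (P.lf 0 118354599 0) (P.cons (P.lf 16706922 0 0) (P.cons (P.lf 1771088 0 0) P.nil))) (P.cons (P.cons (P.lf 178296603 0 0) (P.cons (P.lf 0 5784382 0) P.nil)) (P.cons (P.cons (P.lf 46738463 0 0) P.nil) P.nil)))))) 38193912)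
 (EL.cons 1 (TM.mk (P.cons (P.cons (P.lf 0 1244058952 0) (P.cons (P.lf 5062863 0 0) (P.cons (P.lf 999866 0 0) (P.cons (P.lf 46126 0 0) (P.cons (P.lf 0 206 0) (P.cons (P.lf 0 770 0) P.nil)))))) (P.cons (P.cons (P.lf 1141946806 0 0) (P.cons (P.lf 0 31096260 0) (P.cons (P.lf 0 3566842 0) (P.cons (P.lf 379611 0 0) (P.cons (P.lf 0 255 0) P.nil))))) (P.cons (P.cons (P.lf 352336279 0 0) (P.cons (P.lf 0 13284304 0) (P.cons (P.lf 0 1658670 0) (P.cons (P.lf 127422 0 0) P.nil)))) (P.cons (P.cons (P.lf 0 310113207 0) (P.cons (P.lf 10833888 0 0) (P.cons (P.lf 1207270 0 0) P.nil))) (P.cons (P.cons (P.lf 0 84706146 0) (P.cons (P.lf 6829141 0 0) P.nil)) (P.cons (P.cons (P.lf 19362191 0 0) P.nil) P.nil)))))) 20799492)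
 (EL.cons 5 (TM.mk (P.cons (P.cons (P.lf 0 49113374 0) (P.cons (P.lf 28996509 0 0) (P.cons (P.lf 4174155 0 0) (P.cons (P.lf 0 135550 0) (P.cons (P.lf 0 251 0) (P.cons (P.lf 0 968 0) P.nil)))))) (P.cons (P.cons (P.lf 0 948494357 0) (P.cons (P.lf 0 5970881 0) (P.cons (P.lf 185180 0 0) (P.cons (P.lf 296950 0 0) (P.cons (P.lf 0 547 0) P.nil))))) (P.cons (P.cons (P.lf 667378870 0 0) (P.cons (P.lf 0 34236460 0) (P.cons (P.lf 0 3568309 0) (P.cons (P.lf 510329 0 0) P.nil)))) (P.cons (P.cons (P.lf 227401606 0 0) (P.cons (P.lf 0 16376267 0) (P.cons (P.lf 0 1748958 0) P.nil))) (P.cons (P.cons (P.lf 0 54398524 0) (P.cons (P.lf 0 191575 0) P.nil)) (P.cons (P.cons (P.lf 0 26264241 0) P.nil) P.nil)))))) 14378945)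
 (EL.cons 9 (TM.mk (P.cons (P.cons (P.lf 779803741 0 0) (P.cons (P.lf 23099967 0 0) (P.cons (P.lf 3145677 0 0) (P.cons (P.lf 0 154246 0) (P.cons (P.lf 0 99 0) (P.cons (P.lf 0 378 0) P.nil)))))) (P.cons (P.cons (P.lf 0 1096629115 0) (P.cons (P.lf 10250445 0 0) (P.cons (P.lf 1712358 0 0) (P.cons (P.lf 13062 0 0) (P.cons (P.lf 0 229 0) P.nil))))) (P.cons (P.cons (P.lf 182508432 0 0) (P.cons (P.lf 0 11123520 0) (P.cons (P.lf 0 1051669 0) (P.cons (P.lf 193543 0 0) P.nil)))) (P.cons (P.cons (P.lf 163517616 0 0) (P.cons (P.lf 0 9208263 0) (P.cons (P.lf 0 987564 0) P.nil))) (P.cons (P.cons (P.lf 7937479 0 0) (P.cons (P.lf 0 1983733 0) P.nil)) (P.cons (P.cons (P.lf 0 8511291 0) P.nil) P.nil)))))) 4476979)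
 (EL.cons 2 (TM.mk (P.cons (P.cons (P.lf 0 176586451 0) (P.cons (P.lf 0 53026931 0) (P.cons (P.lf 2687225 0 0) (P.cons (P.lf 236238 0 0) (P.cons (P.lf 4657 0 0) (P.cons (P.lf 0 180 0) P.nil)))))) (P.cons (P.cons (P.lf 4248511 0 0) (P.cons (P.lf 0 3562959 0) (P.cons (P.lf 0 2069088 0) (P.cons (P.lf 0 38700 0) (P.cons (P.lf 32011 0 0) P.nil))))) (P.cons (P.cons (P.lf 94838163 0 0) (P.cons (P.lf 23662181 0 0) (P.cons (P.lf 0 3438500 0) (P.cons (P.lf 0 159738 0) P.nil)))) (P.cons (P.cons (P.lf 28101358 0 0) (P.cons (P.lf 6942127 0 0) (P.cons (P.lf 0 1047510 0) P.nil))) (P.cons (P.cons (P.lf 0 3899660 0) (P.cons (P.lf 0 1155628 0) P.nil)) (P.cons (P.cons (P.lf 0 2704415 0) P.nil) P.nil)))))) 2460053)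
 (EL.cons 6 (TM.mk (P.cons (P.cons (P.lf 0 49797822 0) (P.cons (P.lf 0 14953728 0) (P.cons (P.lf 757800 0 0) (P.cons (P.lf 66618 0 0) (P.cons (P.lf 1314 0 0) (P.cons (P.lf 0 48 0) P.nil)))))) (P.cons (P.cons (P.lf 0 22097424 0) (P.cons (P.lf 0 8000142 0) (P.cons (P.lf 0 228984 0) (P.cons (P.lf 20250 0 0) (P.cons (P.lf 9642 0 0) P.nil))))) (P.cons (P.cons (P.lf 23979558 0 0) (P.cons (P.lf 5204148 0 0) (P.cons (P.lf 0 1192014 0) (P.cons (P.lf 0 45702 0) P.nil)))) (P.cons (P.cons (P.lf 19850736 0 0) (P.cons (P.lf 4812420 0 0) (P.cons (P.lf 0 777852 0) P.nil))) (P.cons (P.cons (P.lf 4276440 0 0) (P.cons (P.lf 982164 0 0) P.nil)) (P.cons (P.cons (P.lf 0 414090 0) P.nil) P.nil)))))) 1252782)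
 EL.nil))))))
noncomputable def S82_140_290_364_3 : EL := (EL.cons 0 (TM.mk (P.cons (P.lf 4935825225 0 0) (P.cons (P.lf 0 844087942 0) (P.cons (P.lf 0 173579589 0) (P.cons (P.lf 3586566 0 0) (P.cons (P.lf 4211423 0 0) (P.cons (P.lf 490783 0 0) P.nil)))))) 104301)
 (EL.cons 1 (TM.mk (P.cons (P.lf 1391915122 0 0) (P.cons (P.lf 413105733 0 0) (P.cons (P.lf 0 67350723 0) (P.cons (P.lf 0 19192974 0) (P.cons (P.lf 0 1069213 0) (P.cons (P.lf 215523 0 0) P.nil)))))) 64748)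
 (EL.cons 5 (TM.mk (P.cons (P.lf 392523564 0 0) (P.cons (P.lf 300120158 0 0) (P.cons (P.lf 61717188 0 0) (P.cons (P.lf 0 1275220 0) (P.cons (P.lf 0 1497396 0) (P.cons (P.lf 0 174500 0) P.nil)))))) 24610)
 EL.nil)))
noncomputable def S82_140_290_364_4 : EL := (EL.cons 0 (TM.mk (P.cons (P.cons (P.lf 0 1717223686 0) (P.cons (P.lf 0 25434483 0) (P.cons (P.lf 0 3275224 0) (P.lf 218344 0 0)))) (P.cons (P.cons (P.lf 1501122810 0 0) (P.cons (P.lf 0 24820866 0) (P.cons (P.lf 0 3196207 0) (P.lf 213076 0 0)))) (P.cons (P.cons (P.lf 77454910 0 0) (P.cons (P.lf 0 5691559 0) (P.cons (P.lf 0 732904 0) (P.lf 48856 0 0)))) (P.cons (P.cons (P.lf 0 104793025 0) (P.cons (P.lf 1527983 0 0) (P.cons (P.lf 196760 0 0) P.nil))) (P.cons (P.cons (P.lf 0 14797705 0) (P.cons (P.lf 805368 0 0) P.nil)) (P.cons (P.cons (P.lf 2764582 0 0) P.nil) P.nil)))))) 1887654)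
 (EL.cons 1 (TM.mk (P.cons (P.cons (P.lf 0 484261396 0) (P.cons (P.lf 0 7172587 0) (P.cons (P.lf 0 923621 0) (P.lf 61573 0 0)))) (P.cons (P.cons (P.lf 196781962 0 0) (P.cons (P.lf 0 10354897 0) (P.cons (P.lf 0 1333410 0) (P.lf 88891 0 0)))) (P.cons (P.cons (P.lf 187533534 0 0) (P.cons (P.lf 0 5358421 0) (P.cons (P.lf 0 690007 0) (P.lf 45997 0 0)))) (P.cons (P.cons (P.lf 2467663 0 0) (P.cons (P.lf 0 883170 0) (P.cons (P.lf 0 113724 0) P.nil))) (P.cons (P.cons (P.lf 0 12178458 0) (P.cons (P.lf 208858 0 0) P.nil)) (P.cons (P.cons (P.lf 0 1982201 0) P.nil) P.nil)))))) 739007)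
 (EL.cons 5 (TM.mk (P.cons (P.cons (P.lf 0 136562930 0) (P.cons (P.lf 0 2022686 0) (P.cons (P.lf 0 260462 0) (P.lf 17362 0 0)))) (P.cons (P.cons (P.lf 0 8391400 0) (P.cons (P.lf 0 3866324 0) (P.cons (P.lf 0 497870 0) (P.lf 33190 0 0)))) (P.cons (P.cons (P.lf 69724968 0 0) (P.cons (P.lf 0 3012194 0) (P.cons (P.lf 0 387882 0) (P.lf 25858 0 0)))) (P.cons (P.cons (P.lf 27317454 0 0) (P.cons (P.lf 0 1177966 0) (P.cons (P.lf 0 151686 0) P.nil))) (P.cons (P.cons (P.lf 799226 0 0) (P.cons (P.lf 0 202924 0) P.nil)) (P.cons (P.cons (P.lf 0 1337504 0) P.nil) P.nil)))))) 514352)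
 EL.nil)))
noncomputable def S82_140_290_364_5 : EL := (EL.cons 0 (TM.mk (P.cons (P.cons (P.lf 597439546 0 0) (P.cons (P.lf 17697828 0 0) (P.cons (P.lf 2410031 0 0) (P.cons (P.lf 0 118174 0) (P.cons (P.lf 0 75 0) (P.cons (P.lf 0 288 0) P.nil)))))) (P.cons (P.cons (P.lf 0 942342073 0) (P.cons (P.lf 4826733 0 0) (P.cons (P.lf 899760 0 0) (P.cons (P.lf 30215 0 0) (P.cons (P.lf 0 161 0) P.nil))))) (P.cons (P.cons (P.lf 262496856 0 0) (P.cons (P.lf 0 10487576 0) (P.cons (P.lf 0 1114832 0) (P.cons (P.lf 150725 0 0) P.nil)))) (P.cons (P.cons (P.lf 131346045 0 0) (P.cons (P.lf 0 5860745 0) (P.cons (P.lf 0 663208 0) P.nil))) (P.cons (P.cons (P.lf 0 20360888 0) (P.cons (P.lf 7152 0 0) P.nil)) (P.cons (P.cons (P.lf 0 12522341 0) P.nil) P.nil)))))) 7009299)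
 (EL.cons 1 (TM.mk (P.cons (P.cons (P.lf 168479452 0 0) (P.cons (P.lf 4990831 0 0) (P.cons (P.lf 679633 0 0) (P.cons (P.lf 0 33324 0) (P.cons (P.lf 0 20 0) (P.cons (P.lf 0 80 0) P.nil)))))) (P.cons (P.cons (P.lf 0 186927810 0) (P.cons (P.lf 3695872 0 0) (P.cons (P.lf 571668 0 0) (P.cons (P.lf 0 7066 0) (P.cons (P.lf 0 54 0) P.nil))))) (P.cons (P.cons (P.lf 0 39039159 0) (P.cons (P.lf 0 1987485 0) (P.cons (P.lf 0 150301 0) (P.cons (P.lf 44265 0 0) P.nil)))) (P.cons (P.cons (P.lf 56172708 0 0) (P.cons (P.lf 0 2878723 0) (P.cons (P.lf 0 308073 0) P.nil))) (P.cons (P.cons (P.lf 13429683 0 0) (P.cons (P.lf 0 937132 0) P.nil)) (P.cons (P.cons (P.lf 0 3375001 0) P.nil) P.nil)))))) 3622867)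
 (EL.cons 5 (TM.mk (P.cons (P.cons (P.lf 47511628 0 0) (P.cons (P.lf 1407426 0 0) (P.cons (P.lf 191658 0 0) (P.cons (P.lf 0 9396 0) (P.cons (P.lf 0 4 0) (P.cons (P.lf 0 22 0) P.nil)))))) (P.cons (P.cons (P.lf 0 30488078 0) (P.cons (P.lf 1700642 0 0) (P.cons (P.lf 250870 0 0) (P.cons (P.lf 0 6388 0) (P.cons (P.lf 0 18 0) P.nil))))) (P.cons (P.cons (P.lf 0 32496070 0) (P.cons (P.lf 21076 0 0) (P.cons (P.lf 45828 0 0) (P.cons (P.lf 10922 0 0) P.nil)))) (P.cons (P.cons (P.lf 7805054 0 0) (P.cons (P.lf 0 985600 0) (P.cons (P.lf 0 93378 0) P.nil))) (P.cons (P.cons (P.lf 9885252 0 0) (P.cons (P.lf 0 663786 0) P.nil)) (P.cons (P.cons (P.lf 1615290 0 0) P.nil) P.nil)))))) 1416106)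
 EL.nil)))
noncomputable def S82_140_290_364_6 : EL := (EL.cons 12 (TM.mk (P.lf 8589934592 0 0) 0)
 (EL.cons 3 (TM.mk (P.cons (P.lf 0 3255703297 0) (P.cons (P.lf 278383023 0 0) (P.cons (P.lf 69148875 0 0) (P.cons (P.lf 4729800 0 0) (P.cons (P.lf 0 250177 0) (P.cons (P.lf 0 82796 0) P.nil)))))) 14718)
 (EL.cons 7 (TM.mk (P.cons (P.lf 0 918116516 0) (P.cons (P.lf 0 350992016 0) (P.cons (P.lf 0 5087185 0) (P.cons (P.lf 3436187 0 0) (P.cons (P.lf 451667 0 0) (P.cons (P.lf 12370 0 0) P.nil)))))) 9470)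
 EL.nil)))
noncomputable def S82_140_290_364_7 : EL := (EL.cons 12 (TM.mk (P.cons (P.cons (P.lf 0 2988525420 0) (P.cons (P.lf 0 44264240 0) (P.cons (P.lf 0 5699952 0) (P.lf 379992 0 0)))) (P.cons (P.cons (P.lf 2101364620 0 0) (P.cons (P.lf 0 50766088 0) (P.cons (P.lf 0 6537200 0) (P.lf 435808 0 0)))) (P.cons (P.cons (P.lf 389057970 0 0) (P.cons (P.lf 0 20143448 0) (P.cons (P.lf 0 2593888 0) (P.lf 172920 0 0)))) (P.cons (P.cons (P.lf 0 39769144 0) (P.cons (P.lf 0 2538736 0) (P.cons (P.lf 0 326912 0) P.nil))) (P.cons (P.cons (P.lf 0 17848728 0) (P.cons (P.lf 333712 0 0) P.nil)) (P.cons (P.cons (P.lf 0 1418168 0) P.nil) P.nil)))))) 897684)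
 (EL.cons 3 (TM.mk (P.cons (P.cons (P.lf 3216016825 0 0) (P.cons (P.lf 0 33553508 0) (P.cons (P.lf 0 4320720 0) (P.lf 288042 0 0)))) (P.cons (P.cons (P.lf 436056003 0 0) (P.cons (P.lf 0 35613054 0) (P.cons (P.lf 0 4585926 0) (P.lf 305724 0 0)))) (P.cons (P.cons (P.lf 0 70897773 0) (P.cons (P.lf 0 11266172 0) (P.cons (P.lf 0 1450752 0) (P.lf 96712 0 0)))) (P.cons (P.cons (P.lf 0 80165649 0) (P.cons (P.lf 247264 0 0) (P.cons (P.lf 31842 0 0) P.nil))) (P.cons (P.cons (P.lf 0 12965879 0) (P.cons (P.lf 795150 0 0) P.nil)) (P.cons (P.cons (P.lf 1143750 0 0) P.nil) P.nil)))))) 3188497)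
 (EL.cons 7 (TM.mk (P.cons (P.cons (P.lf 0 2307283738 0) (P.cons (P.lf 68188701 0 0) (P.cons (P.lf 8780737 0 0) (P.lf 0 585384 0)))) (P.cons (P.cons (P.lf 0 549789916 0) (P.cons (P.lf 44901800 0 0) (P.cons (P.lf 5782055 0 0) (P.lf 0 385471 0)))) (P.cons (P.cons (P.lf 217986016 0 0) (P.cons (P.lf 3702091 0 0) (P.cons (P.lf 476723 0 0) (P.lf 0 31783 0)))) (P.cons (P.cons (P.lf 45330278 0 0) (P.cons (P.lf 0 2465836 0) (P.cons (P.lf 0 317526 0) P.nil))) (P.cons (P.cons (P.lf 0 4999313 0) (P.cons (P.lf 0 410942 0) P.nil)) (P.cons (P.cons (P.lf 0 2258262 0) P.nil) P.nil)))))) 1439189)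
 (EL.cons 10 (TM.mk (P.cons (P.cons (P.lf 0 334792203 0) (P.cons (P.lf 0 95575608 0) (P.cons (P.lf 7148901 0 0) (P.cons (P.lf 481731 0 0) (P.lf 0 24084 0))))) (P.cons (P.cons (P.lf 0 255979254 0) (P.cons (P.lf 0 73076292 0) (P.cons (P.lf 5465988 0 0) (P.cons (P.lf 368325 0 0) (P.lf 0 18414 0))))) (P.cons (P.cons (P.lf 0 52639980 0) (P.cons (P.lf 0 15027525 0) (P.cons (P.lf 1124034 0 0) (P.cons (P.lf 75741 0 0) P.nil)))) (P.cons (P.cons (P.lf 1087662 0 0) (P.cons (P.lf 310503 0 0) (P.cons (P.lf 0 23223 0) P.nil))) (P.cons (P.cons (P.lf 1277160 0 0) (P.cons (P.lf 364599 0 0) P.nil)) (P.cons (P.cons (P.lf 148833 0 0) P.nil) P.nil)))))) 108084)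
 EL.nil))))
noncomputable def S82_140_290_364_8 : EL := (EL.cons 12 (TM.mk (P.cons (P.cons (P.lf 1039738322 0 0) (P.cons (P.lf 30799956 0 0) (P.cons (P.lf 4194236 0 0) (P.cons (P.lf 0 205662 0) (P.cons (P.lf 0 132 0) (P.cons (P.lf 0 504 0) P.nil)))))) (P.cons (P.cons (P.lf 0 1462172154 0) (P.cons (P.lf 13667260 0 0) (P.cons (P.lf 2283144 0 0) (P.cons (P.lf 17416 0 0) (P.cons (P.lf 0 306 0) P.nil))))) (P.cons (P.cons (P.lf 243344576 0 0) (P.cons (P.lf 0 14831360 0) (P.cons (P.lf 0 1402226 0) (P.cons (P.lf 258058 0 0) P.nil)))) (P.cons (P.cons (P.lf 218023488 0 0) (P.cons (P.lf 0 12277684 0) (P.cons (P.lf 0 1316752 0) P.nil))) (P.cons (P.cons (P.lf 10583306 0 0) (P.cons (P.lf 0 2644978 0) P.nil)) (P.cons (P.cons (P.lf 0 11348388 0) P.nil) P.nil)))))) 5969276)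
 (EL.cons 3 (TM.mk (P.cons (P.cons (P.lf 0 1843694658 0) (P.cons (P.lf 1876314 0 0) (P.cons (P.lf 673870 0 0) (P.cons (P.lf 95216 0 0) (P.cons (P.lf 0 251 0) (P.cons (P.lf 0 956 0) P.nil)))))) (P.cons (P.cons (P.lf 682179215 0 0) (P.cons (P.lf 0 29961278 0) (P.cons (P.lf 0 2903605 0) (P.cons (P.lf 503035 0 0) (P.cons (P.lf 0 561 0) P.nil))))) (P.cons (P.cons (P.lf 685246632 0 0) (P.cons (P.lf 0 38443091 0) (P.cons (P.lf 0 4082332 0) (P.cons (P.lf 553573 0 0) P.nil)))) (P.cons (P.cons (P.lf 116760173 0 0) (P.cons (P.lf 0 15181083 0) (P.cons (P.lf 0 1558032 0) P.nil))) (P.cons (P.cons (P.lf 0 58202917 0) (P.cons (P.lf 0 69658 0) P.nil)) (P.cons (P.cons (P.lf 0 23184713 0) P.nil) P.nil)))))) 16889846)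
 (EL.cons 7 (TM.mk (P.cons (P.cons (P.lf 1716585027 0 0) (P.cons (P.lf 0 20376062 0) (P.cons (P.lf 0 3302227 0) (P.cons (P.lf 219 0 0) (P.cons (P.lf 398 0 0) (P.cons (P.lf 1493 0 0) P.nil)))))) (P.cons (P.cons (P.lf 0 860107953 0) (P.cons (P.lf 37775905 0 0) (P.cons (P.lf 3660938 0 0) (P.cons (P.lf 0 634240 0) (P.cons (P.lf 704 0 0) P.nil))))) (P.cons (P.cons (P.lf 0 662795343 0) (P.cons (P.lf 39634151 0 0) (P.cons (P.lf 4290800 0 0) (P.cons (P.lf 0 549601 0) P.nil)))) (P.cons (P.cons (P.lf 78636661 0 0) (P.cons (P.lf 5939162 0 0) (P.cons (P.lf 544751 0 0) P.nil))) (P.cons (P.cons (P.lf 70796548 0 0) (P.cons (P.lf 0 3445459 0) P.nil)) (P.cons (P.cons (P.lf 3586440 0 0) P.nil) P.nil)))))) 12279047)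
 (EL.cons 10 (TM.mk (P.cons (P.cons (P.lf 232955208 0 0) (P.cons (P.lf 69953838 0 0) (P.cons (P.lf 0 3545028 0) (P.cons (P.lf 0 311652 0) (P.cons (P.lf 0 6150 0) (P.cons (P.lf 240 0 0) P.nil)))))) (P.cons (P.cons (P.lf 14314428 0 0) (P.cons (P.lf 10681794 0 0) (P.cons (P.lf 2426454 0 0) (P.cons (P.lf 24402 0 0) (P.cons (P.lf 0 42756 0) P.nil))))) (P.cons (P.cons (P.lf 0 118939998 0) (P.cons (P.lf 0 28816338 0) (P.cons (P.lf 4668300 0 0) (P.cons (P.lf 206202 0 0) P.nil)))) (P.cons (P.cons (P.lf 0 46599342 0) (P.cons (P.lf 0 11293626 0) (P.cons (P.lf 1827444 0 0) P.nil))) (P.cons (P.cons (P.lf 0 1363350 0) (P.cons (P.lf 0 43044 0) P.nil)) (P.cons (P.cons (P.lf 2281572 0 0) P.nil) P.nil)))))) 2556042)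
 EL.nil))))
noncomputable def S82_140_290_364_9 : EL := (EL.cons 3 (TM.mk (P.cons (P.lf 0 3255703297 0) (P.cons (P.lf 278383023 0 0) (P.cons (P.lf 69148875 0 0) (P.cons (P.lf 4729800 0 0) (P.cons (P.lf 0 250177 0) (P.cons (P.lf 0 82796 0) P.nil)))))) 14718)
 (EL.cons 7 (TM.mk (P.cons (P.lf 0 918116516 0) (P.cons (P.lf 0 350992016 0) (P.cons (P.lf 0 5087185 0) (P.cons (P.lf 3436187 0 0) (P.cons (P.lf 451667 0 0) (P.cons (P.lf 12370 0 0) P.nil)))))) 9470)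
 EL.nil))
noncomputable def S82_140_290_364_10 : EL := (EL.cons 3 (TM.mk (P.cons (P.cons (P.lf 1132692217 0 0) (P.cons (P.lf 16776754 0 0) (P.cons (P.lf 2160360 0 0) (P.lf 0 144021 0)))) (P.cons (P.cons (P.lf 0 893298357 0) (P.cons (P.lf 17806527 0 0) (P.cons (P.lf 2292963 0 0) (P.lf 0 152862 0)))) (P.cons (P.cons (P.lf 0 103414785 0) (P.cons (P.lf 5633086 0 0) (P.cons (P.lf 725376 0 0) (P.lf 0 48356 0)))) (P.cons (P.cons (P.lf 42952077 0 0) (P.cons (P.lf 0 123632 0) (P.cons (P.lf 0 15921 0) P.nil))) (P.cons (P.cons (P.lf 9852079 0 0) (P.cons (P.lf 0 397575 0) P.nil)) (P.cons (P.cons (P.lf 0 179250 0) P.nil) P.nil)))))) 758910)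
 (EL.cons 7 (TM.mk (P.cons (P.cons (P.lf 319422053 0 0) (P.cons (P.lf 4731087 0 0) (P.cons (P.lf 609226 0 0) (P.lf 0 40614 0)))) (P.cons (P.cons (P.lf 0 102486112 0) (P.cons (P.lf 7234697 0 0) (P.cons (P.lf 931619 0 0) (P.lf 0 62107 0)))) (P.cons (P.cons (P.lf 0 125677274 0) (P.cons (P.lf 4253548 0 0) (P.cons (P.lf 547733 0 0) (P.lf 0 36514 0)))) (P.cons (P.cons (P.lf 0 14086567 0) (P.cons (P.lf 1106783 0 0) (P.cons (P.lf 142521 0 0) P.nil))) (P.cons (P.cons (P.lf 3985771 0 0) (P.cons (P.lf 57361 0 0) P.nil)) (P.cons (P.cons (P.lf 1166265 0 0) P.nil) P.nil)))))) 316204)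
 EL.nil))
noncomputable def S82_140_290_364_11 : EL := (EL.cons 3 (TM.mk (P.cons (P.cons (P.lf 0 394075116 0) (P.cons (P.lf 0 11673606 0) (P.cons (P.lf 0 1589672 0) (P.cons (P.lf 77948 0 0) (P.cons (P.lf 49 0 0) (P.cons (P.lf 190 0 0) P.nil)))))) (P.cons (P.cons (P.lf 587879237 0 0) (P.cons (P.lf 0 4181912 0) (P.cons (P.lf 0 729415 0) (P.cons (P.lf 0 13265 0) (P.cons (P.lf 111 0 0) P.nil))))) (P.cons (P.cons (P.lf 0 131247204 0) (P.cons (P.lf 6312157 0 0) (P.cons (P.lf 639218 0 0) (P.cons (P.lf 0 98897 0) P.nil)))) (P.cons (P.cons (P.lf 0 85945543 0) (P.cons (P.lf 4299735 0 0) (P.cons (P.lf 474312 0 0) P.nil))) (P.cons (P.cons (P.lf 4178033 0 0) (P.cons (P.lf 491822 0 0) P.nil)) (P.cons (P.cons (P.lf 6565819 0 0) P.nil) P.nil)))))) 3524830)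
 (EL.cons 7 (TM.mk (P.cons (P.cons (P.lf 0 111130173 0) (P.cons (P.lf 0 3291986 0) (P.cons (P.lf 0 448291 0) (P.cons (P.lf 21981 0 0) (P.cons (P.lf 14 0 0) (P.cons (P.lf 53 0 0) P.nil)))))) (P.cons (P.cons (P.lf 113796507 0 0) (P.cons (P.lf 0 2719307 0) (P.cons (P.lf 0 415408 0) (P.cons (P.lf 6542 0 0) (P.cons (P.lf 38 0 0) P.nil))))) (P.cons (P.cons (P.lf 33120477 0 0) (P.cons (P.lf 1008521 0 0) (P.cons (P.lf 54098 0 0) (P.cons (P.lf 0 28171 0) P.nil)))) (P.cons (P.cons (P.lf 0 31964375 0) (P.cons (P.lf 1922522 0 0) (P.cons (P.lf 198359 0 0) P.nil))) (P.cons (P.cons (P.lf 0 10714148 0) (P.cons (P.lf 800249 0 0) P.nil)) (P.cons (P.cons (P.lf 673344 0 0) P.nil) P.nil)))))) 1692553)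
 EL.nil))
noncomputable def S82_140_290_364_12 : EL := (EL.cons 4 (TM.mk (P.cons (P.lf 3255703297 0 0) (P.cons (P.lf 0 278383023 0) (P.cons (P.lf 0 69148875 0) (P.cons (P.lf 0 4729800 0) (P.cons (P.lf 250177 0 0) (P.cons (P.lf 82796 0 0) P.nil)))))) 14718)
 (EL.cons 8 (TM.mk (P.cons (P.lf 918116516 0 0) (P.cons (P.lf 350992016 0 0) (P.cons (P.lf 5087185 0 0) (P.cons (P.lf 0 3436187 0) (P.cons (P.lf 0 451667 0) (P.cons (P.lf 0 12370 0) P.nil)))))) 9470)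
 EL.nil))
noncomputable def S82_140_290_364_13 : EL := (EL.cons 4 (TM.mk (P.cons (P.cons (P.lf 0 1132692217 0) (P.cons (P.lf 0 16776754 0) (P.cons (P.lf 0 2160360 0) (P.lf 144021 0 0)))) (P.cons (P.cons (P.lf 893298357 0 0) (P.cons (P.lf 0 17806527 0) (P.cons (P.lf 0 2292963 0) (P.lf 152862 0 0)))) (P.cons (P.cons (P.lf 103414785 0 0) (P.cons (P.lf 0 5633086 0) (P.cons (P.lf 0 725376 0) (P.lf 48356 0 0)))) (P.cons (P.cons (P.lf 0 42952077 0) (P.cons (P.lf 123632 0 0) (P.cons (P.lf 15921 0 0) P.nil))) (P.cons (P.cons (P.lf 0 9852079 0) (P.cons (P.lf 397575 0 0) P.nil)) (P.cons (P.cons (P.lf 179250 0 0) P.nil) P.nil)))))) 758910)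
 (EL.cons 8 (TM.mk (P.cons (P.cons (P.lf 0 319422053 0) (P.cons (P.lf 0 4731087 0) (P.cons (P.lf 0 609226 0) (P.lf 40614 0 0)))) (P.cons (P.cons (P.lf 102486112 0 0) (P.cons (P.lf 0 7234697 0) (P.cons (P.lf 0 931619 0) (P.lf 62107 0 0)))) (P.cons (P.cons (P.lf 125677274 0 0) (P.cons (P.lf 0 4253548 0) (P.cons (P.lf 0 547733 0) (P.lf 36514 0 0)))) (P.cons (P.cons (P.lf 14086567 0 0) (P.cons (P.lf 0 1106783 0) (P.cons (P.lf 0 142521 0) P.nil))) (P.cons (P.cons (P.lf 0 3985771 0) (P.cons (P.lf 0 57361 0) P.nil)) (P.cons (P.cons (P.lf 0 1166265 0) P.nil) P.nil)))))) 316204)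
 EL.nil))
noncomputable def S82_140_290_364_14 : EL := (EL.cons 4 (TM.mk (P.cons (P.cons (P.lf 394075116 0 0) (P.cons (P.lf 11673606 0 0) (P.cons (P.lf 1589672 0 0) (P.cons (P.lf 0 77948 0) (P.cons (P.lf 0 49 0) (P.cons (P.lf 0 190 0) P.nil)))))) (P.cons (P.cons (P.lf 0 587879237 0) (P.cons (P.lf 4181912 0 0) (P.cons (P.lf 729415 0 0) (P.cons (P.lf 13265 0 0) (P.cons (P.lf 0 111 0) P.nil))))) (P.cons (P.cons (P.lf 131247204 0 0) (P.cons (P.lf 0 6312157 0) (P.cons (P.lf 0 639218 0) (P.cons (P.lf 98897 0 0) P.nil)))) (P.cons (P.cons (P.lf 85945543 0 0) (P.cons (P.lf 0 4299735 0) (P.cons (P.lf 0 474312 0) P.nil))) (P.cons (P.cons (P.lf 0 4178033 0) (P.cons (P.lf 0 491822 0) P.nil)) (P.cons (P.cons (P.lf 0 6565819 0) P.nil) P.nil)))))) 3524830)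
 (EL.cons 8 (TM.mk (P.cons (P.cons (P.lf 111130173 0 0) (P.cons (P.lf 3291986 0 0) (P.cons (P.lf 448291 0 0) (P.cons (P.lf 0 21981 0) (P.cons (P.lf 0 14 0) (P.cons (P.lf 0 53 0) P.nil)))))) (P.cons (P.cons (P.lf 0 113796507 0) (P.cons (P.lf 2719307 0 0) (P.cons (P.lf 415408 0 0) (P.cons (P.lf 0 6542 0) (P.cons (P.lf 0 38 0) P.nil))))) (P.cons (P.cons (P.lf 0 33120477 0) (P.cons (P.lf 0 1008521 0) (P.cons (P.lf 0 54098 0) (P.cons (P.lf 28171 0 0) P.nil)))) (P.cons (P.cons (P.lf 31964375 0 0) (P.cons (P.lf 0 1922522 0) (P.cons (P.lf 0 198359 0) P.nil))) (P.cons (P.cons (P.lf 10714148 0 0) (P.cons (P.lf 0 800249 0) P.nil)) (P.cons (P.cons (P.lf 0 673344 0) P.nil) P.nil)))))) 1692553)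
 EL.nil))
noncomputable def S82_140_290_364_15 : EL := (EL.cons 4 (TM.mk (P.cons (P.lf 0 2632440120 0) (P.cons (P.lf 450180236 0 0) (P.cons (P.lf 92575781 0 0) (P.cons (P.lf 0 1912835 0) (P.cons (P.lf 0 2246092 0) (P.cons (P.lf 0 261750 0) P.nil)))))) 55630)
 (EL.cons 8 (TM.mk (P.cons (P.lf 0 742354732 0) (P.cons (P.lf 0 220323058 0) (P.cons (P.lf 35920386 0 0) (P.cons (P.lf 10236253 0 0) (P.cons (P.lf 570247 0 0) (P.cons (P.lf 0 114946 0) P.nil)))))) 34529)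
 EL.nil))
noncomputable def S82_140_290_364_16 : EL := (EL.cons 4 (TM.mk (P.cons (P.cons (P.lf 915852632 0 0) (P.cons (P.lf 13565057 0 0) (P.cons (P.lf 1746786 0 0) (P.lf 0 116450 0)))) (P.cons (P.cons (P.lf 0 800598832 0) (P.cons (P.lf 13237795 0 0) (P.cons (P.lf 1704644 0 0) (P.lf 0 113640 0)))) (P.cons (P.cons (P.lf 0 41309285 0) (P.cons (P.lf 3035498 0 0) (P.cons (P.lf 390882 0 0) (P.lf 0 26056 0)))) (P.cons (P.cons (P.lf 55889613 0 0) (P.cons (P.lf 0 814924 0) (P.cons (P.lf 0 104939 0) P.nil))) (P.cons (P.cons (P.lf 7892109 0 0) (P.cons (P.lf 0 429529 0) P.nil)) (P.cons (P.cons (P.lf 0 1474443 0) P.nil) P.nil)))))) 1006758)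
 (EL.cons 8 (TM.mk (P.cons (P.cons (P.lf 258272745 0 0) (P.cons (P.lf 3825380 0 0) (P.cons (P.lf 492598 0 0) (P.lf 0 32839 0)))) (P.cons (P.cons (P.lf 0 104950380 0) (P.cons (P.lf 5522612 0 0) (P.cons (P.lf 711152 0 0) (P.lf 0 47409 0)))) (P.cons (P.cons (P.lf 0 100017885 0) (P.cons (P.lf 2857825 0 0) (P.cons (P.lf 368004 0 0) (P.lf 0 24532 0)))) (P.cons (P.cons (P.lf 0 1316087 0) (P.cons (P.lf 471024 0 0) (P.cons (P.lf 60653 0 0) P.nil))) (P.cons (P.cons (P.lf 6495178 0 0) (P.cons (P.lf 0 111391 0) P.nil)) (P.cons (P.cons (P.lf 1057174 0 0) P.nil) P.nil)))))) 394127)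
 EL.nil))
noncomputable def S82_140_290_364_17 : EL := (EL.cons 4 (TM.mk (P.cons (P.cons (P.lf 0 318634425 0) (P.cons (P.lf 0 9438841 0) (P.cons (P.lf 0 1285350 0) (P.cons (P.lf 63026 0 0) (P.cons (P.lf 40 0 0) (P.cons (P.lf 153 0 0) P.nil)))))) (P.cons (P.cons (P.lf 502582439 0 0) (P.cons (P.lf 0 2574257 0) (P.cons (P.lf 0 479872 0) (P.cons (P.lf 0 16114 0) (P.cons (P.lf 86 0 0) P.nil))))) (P.cons (P.cons (P.lf 0 139998323 0) (P.cons (P.lf 5593374 0 0) (P.cons (P.lf 594577 0 0) (P.cons (P.lf 0 80386 0) P.nil)))) (P.cons (P.cons (P.lf 0 70051224 0) (P.cons (P.lf 3125730 0 0) (P.cons (P.lf 353711 0 0) P.nil))) (P.cons (P.cons (P.lf 10859140 0 0) (P.cons (P.lf 0 3814 0) P.nil)) (P.cons (P.cons (P.lf 6678582 0 0) P.nil) P.nil)))))) 3738303)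
 (EL.cons 8 (TM.mk (P.cons (P.cons (P.lf 0 89855708 0) (P.cons (P.lf 0 2661777 0) (P.cons (P.lf 0 362471 0) (P.cons (P.lf 17773 0 0) (P.cons (P.lf 11 0 0) (P.cons (P.lf 43 0 0) P.nil)))))) (P.cons (P.cons (P.lf 99694832 0 0) (P.cons (P.lf 0 1971132 0) (P.cons (P.lf 0 304890 0) (P.cons (P.lf 3769 0 0) (P.cons (P.lf 29 0 0) P.nil))))) (P.cons (P.cons (P.lf 20820885 0 0) (P.cons (P.lf 1059992 0 0) (P.cons (P.lf 80161 0 0) (P.cons (P.lf 0 23608 0) P.nil)))) (P.cons (P.cons (P.lf 0 29958778 0) (P.cons (P.lf 1535319 0 0) (P.cons (P.lf 164306 0 0) P.nil))) (P.cons (P.cons (P.lf 0 7162498 0) (P.cons (P.lf 499804 0 0) P.nil)) (P.cons (P.cons (P.lf 1800001 0 0) P.nil) P.nil)))))) 1932184)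
 EL.nil))
noncomputable def S82_140_290_364_18 : EL := (EL.cons 4 (TM.mk (P.cons (P.lf 2128492786 0 0) (P.cons (P.lf 0 545998394 0) (P.cons (P.lf 0 88936838 0) (P.cons (P.lf 12585940 0 0) (P.cons (P.lf 3966058 0 0) (P.cons (P.lf 158407 0 0) P.nil)))))) 145112)
 (EL.cons 8 (TM.mk (P.cons (P.lf 600240317 0 0) (P.cons (P.lf 126820692 0 0) (P.cons (P.lf 0 57025083 0) (P.cons (P.lf 0 10448908 0) (P.cons (P.lf 650816 0 0) (P.cons (P.lf 379305 0 0) P.nil)))))) 67460)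
 EL.nil))
noncomputable def S82_140_290_364_19 : EL := (EL.cons 4 (TM.mk (P.cons (P.cons (P.lf 0 740524241 0) (P.cons (P.lf 0 10968198 0) (P.cons (P.lf 0 1412385 0) (P.lf 94157 0 0)))) (P.cons (P.cons (P.lf 710653783 0 0) (P.cons (P.lf 0 9765736 0) (P.cons (P.lf 0 1257542 0) (P.lf 83835 0 0)))) (P.cons (P.cons (P.lf 0 6221772 0) (P.cons (P.lf 0 1306209 0) (P.cons (P.lf 0 168200 0) (P.lf 11211 0 0)))) (P.cons (P.cons (P.lf 0 60719378 0) (P.cons (P.lf 1112054 0 0) (P.cons (P.lf 143200 0 0) P.nil))) (P.cons (P.cons (P.lf 0 4223966 0) (P.cons (P.lf 357795 0 0) P.nil)) (P.cons (P.cons (P.lf 2680013 0 0) P.nil) P.nil)))))) 1228723)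
 (EL.cons 8 (TM.mk (P.cons (P.cons (P.lf 0 208829698 0) (P.cons (P.lf 0 3093059 0) (P.cons (P.lf 0 398296 0) (P.lf 26552 0 0)))) (P.cons (P.cons (P.lf 102715206 0 0) (P.cons (P.lf 0 4200901 0) (P.cons (P.lf 0 540954 0) (P.lf 36063 0 0)))) (P.cons (P.cons (P.lf 78050152 0 0) (P.cons (P.lf 0 1863218 0) (P.cons (P.lf 0 239928 0) (P.lf 15994 0 0)))) (P.cons (P.cons (P.lf 0 7349777 0) (P.cons (P.lf 0 83935 0) (P.cons (P.lf 0 10808 0) P.nil))) (P.cons (P.cons (P.lf 0 7199715 0) (P.cons (P.lf 177960 0 0) P.nil)) (P.cons (P.cons (P.lf 0 544612 0) P.nil) P.nil)))))) 594269)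
 EL.nil))
noncomputable def S82_140_290_364_20 : EL := (EL.cons 4 (TM.mk (P.cons (P.cons (P.lf 257635898 0 0) (P.cons (P.lf 7631895 0 0) (P.cons (P.lf 1039286 0 0) (P.cons (P.lf 0 50960 0) (P.cons (P.lf 0 31 0) (P.cons (P.lf 0 124 0) P.nil)))))) (P.cons (P.cons (P.lf 0 428398876 0) (P.cons (P.lf 1428873 0 0) (P.cons (P.lf 299141 0 0) (P.cons (P.lf 17387 0 0) (P.cons (P.lf 0 66 0) P.nil))))) (P.cons (P.cons (P.lf 142472537 0 0) (P.cons (P.lf 0 4862667 0) (P.cons (P.lf 0 536004 0) (P.cons (P.lf 64965 0 0) P.nil)))) (P.cons (P.cons (P.lf 55218432 0 0) (P.cons (P.lf 0 2195934 0) (P.cons (P.lf 0 254640 0) P.nil))) (P.cons (P.cons (P.lf 0 15417512 0) (P.cons (P.lf 312808 0 0) P.nil)) (P.cons (P.cons (P.lf 0 6041417 0) P.nil) P.nil)))))) 4074439)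
 (EL.cons 8 (TM.mk (P.cons (P.cons (P.lf 72653971 0 0) (P.cons (P.lf 2152213 0 0) (P.cons (P.lf 293081 0 0) (P.cons (P.lf 0 14371 0) (P.cons (P.lf 0 9 0) (P.cons (P.lf 0 35 0) P.nil)))))) (P.cons (P.cons (P.lf 0 86821888 0) (P.cons (P.lf 1409755 0 0) (P.cons (P.lf 221462 0 0) (P.cons (P.lf 0 1819 0) (P.cons (P.lf 0 23 0) P.nil))))) (P.cons (P.cons (P.lf 0 11485491 0) (P.cons (P.lf 0 1039060 0) (P.cons (P.lf 0 92119 0) (P.cons (P.lf 19654 0 0) P.nil)))) (P.cons (P.cons (P.lf 27269587 0 0) (P.cons (P.lf 0 1205094 0) (P.cons (P.lf 0 132971 0) P.nil))) (P.cons (P.cons (P.lf 4200317 0 0) (P.cons (P.lf 0 281921 0) P.nil)) (P.cons (P.cons (P.lf 0 2444989 0) P.nil) P.nil)))))) 1949929)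
 EL.nil))
noncomputable def S82_140_290_364_21 : EL := (EL.cons 4 (TM.mk (P.cons (P.cons (P.lf 0 2083324608 0) (P.cons (P.lf 50330262 0 0) (P.cons (P.lf 6481080 0 0) (P.lf 0 432063 0)))) (P.cons (P.cons (P.lf 0 1329354360 0) (P.cons (P.lf 53419581 0 0) (P.cons (P.lf 6878889 0 0) (P.lf 0 458586 0)))) (P.cons (P.cons (P.lf 0 32517012 0) (P.cons (P.lf 16899258 0 0) (P.cons (P.lf 2176128 0 0) (P.lf 0 145068 0)))) (P.cons (P.cons (P.lf 123117726 0 0) (P.cons (P.lf 0 370896 0) (P.cons (P.lf 0 47763 0) P.nil))) (P.cons (P.cons (P.lf 22817958 0 0) (P.cons (P.lf 0 1192725 0) P.nil)) (P.cons (P.cons (P.lf 0 1323000 0) P.nil) P.nil)))))) 2429568)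
 (EL.cons 8 (TM.mk (P.cons (P.cons (P.lf 2626705791 0 0) (P.cons (P.lf 0 63457614 0) (P.cons (P.lf 0 8171511 0) (P.lf 544770 0 0)))) (P.cons (P.cons (P.lf 447303804 0 0) (P.cons (P.lf 0 37667103 0) (P.cons (P.lf 0 4850436 0) (P.lf 323364 0 0)))) (P.cons (P.cons (P.lf 0 343663290 0) (P.cons (P.lf 551457 0 0) (P.cons (P.lf 71010 0 0) (P.lf 0 4731 0)))) (P.cons (P.cons (P.lf 0 59416845 0) (P.cons (P.lf 3572619 0 0) (P.cons (P.lf 460047 0 0) P.nil))) (P.cons (P.cons (P.lf 8985084 0 0) (P.cons (P.lf 468303 0 0) P.nil)) (P.cons (P.cons (P.lf 3424527 0 0) P.nil) P.nil)))))) 1122966)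
 (EL.cons 11 (TM.mk (P.cons (P.cons (P.lf 334792203 0 0) (P.cons (P.lf 95575608 0 0) (P.cons (P.lf 0 7148901 0) (P.cons (P.lf 0 481731 0) (P.lf 24084 0 0))))) (P.cons (P.cons (P.lf 255979254 0 0) (P.cons (P.lf 73076292 0 0) (P.cons (P.lf 0 5465988 0) (P.cons (P.lf 0 368325 0) (P.lf 18414 0 0))))) (P.cons (P.cons (P.lf 52639980 0 0) (P.cons (P.lf 15027525 0 0) (P.cons (P.lf 0 1124034 0) (P.cons (P.lf 0 75741 0) P.nil)))) (P.cons (P.cons (P.lf 0 1087662 0) (P.cons (P.lf 0 310503 0) (P.cons (P.lf 23223 0 0) P.nil))) (P.cons (P.cons (P.lf 0 1277160 0) (P.cons (P.lf 0 364599 0) P.nil)) (P.cons (P.cons (P.lf 0 148833 0) P.nil) P.nil)))))) 108084)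
 EL.nil)))
noncomputable def S82_140_290_364_22 : EL := (EL.cons 4 (TM.mk (P.cons (P.cons (P.lf 724809771 0 0) (P.cons (P.lf 0 6774960 0) (P.cons (P.lf 0 1131771 0) (P.cons (P.lf 0 8634 0) (P.cons (P.lf 150 0 0) (P.cons (P.lf 573 0 0) P.nil)))))) (P.cons (P.cons (P.lf 0 47149989 0) (P.cons (P.lf 12889683 0 0) (P.cons (P.lf 1087095 0 0) (P.cons (P.lf 0 258150 0) (P.cons (P.lf 336 0 0) P.nil))))) (P.cons (P.cons (P.lf 0 408246918 0) (P.cons (P.lf 22377624 0 0) (P.cons (P.lf 2360775 0 0) (P.cons (P.lf 0 326235 0) P.nil)))) (P.cons (P.cons (P.lf 0 101352858 0) (P.cons (P.lf 9740409 0 0) (P.cons (P.lf 1016172 0 0) P.nil))) (P.cons (P.cons (P.lf 31190475 0 0) (P.cons (P.lf 280740 0 0) P.nil)) (P.cons (P.cons (P.lf 14875266 0 0) P.nil) P.nil)))))) 6682497)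
 (EL.cons 8 (TM.mk (P.cons (P.cons (P.lf 0 913857600 0) (P.cons (P.lf 8542038 0 0) (P.cons (P.lf 1426968 0 0) (P.cons (P.lf 10881 0 0) (P.cons (P.lf 0 192 0) (P.cons (P.lf 0 720 0) P.nil)))))) (P.cons (P.cons (P.lf 486952230 0 0) (P.cons (P.lf 0 20247606 0) (P.cons (P.lf 0 2038173 0) (P.cons (P.lf 320391 0 0) (P.cons (P.lf 0 333 0) P.nil))))) (P.cons (P.cons (P.lf 347957910 0 0) (P.cons (P.lf 0 19312815 0) (P.cons (P.lf 0 2118351 0) (P.cons (P.lf 260715 0 0) P.nil)))) (P.cons (P.cons (P.lf 0 55300518 0) (P.cons (P.lf 0 2008320 0) (P.cons (P.lf 0 173196 0) P.nil))) (P.cons (P.cons (P.lf 0 40755348 0) (P.cons (P.lf 2122854 0 0) P.nil)) (P.cons (P.cons (P.lf 0 1456548 0) P.nil) P.nil)))))) 5293236)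
 (EL.cons 11 (TM.mk (P.cons (P.cons (P.lf 0 116477604 0) (P.cons (P.lf 0 34976919 0) (P.cons (P.lf 1772514 0 0) (P.cons (P.lf 155826 0 0) (P.cons (P.lf 3075 0 0) (P.cons (P.lf 0 120 0) P.nil)))))) (P.cons (P.cons (P.lf 0 7157214 0) (P.cons (P.lf 0 5340897 0) (P.cons (P.lf 0 1213227 0) (P.cons (P.lf 0 12201 0) (P.cons (P.lf 21378 0 0) P.nil))))) (P.cons (P.cons (P.lf 59469999 0 0) (P.cons (P.lf 14408169 0 0) (P.cons (P.lf 0 2334150 0) (P.cons (P.lf 0 103101 0) P.nil)))) (P.cons (P.cons (P.lf 23299671 0 0) (P.cons (P.lf 5646813 0 0) (P.cons (P.lf 0 913722 0) P.nil))) (P.cons (P.cons (P.lf 681675 0 0) (P.cons (P.lf 21522 0 0) P.nil)) (P.cons (P.cons (P.lf 0 1140786 0) P.nil) P.nil)))))) 1278021)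
 EL.nil)))
noncomputable def S82_140_290_364_23 : EL := (EL.cons 4 (TM.mk (P.cons (P.cons (P.lf 1684498485 0 0) (P.cons (P.lf 0 40695168 0) (P.cons (P.lf 0 5240358 0) (P.lf 349350 0 0)))) (P.cons (P.cons (P.lf 930831126 0 0) (P.cons (P.lf 0 39713385 0) (P.cons (P.lf 0 5113929 0) (P.lf 340923 0 0)))) (P.cons (P.cons (P.lf 0 101393334 0) (P.cons (P.lf 0 9106491 0) (P.cons (P.lf 0 1172646 0) (P.lf 78171 0 0)))) (P.cons (P.cons (P.lf 0 127073136 0) (P.cons (P.lf 2444769 0 0) (P.cons (P.lf 314817 0 0) P.nil))) (P.cons (P.cons (P.lf 0 11928255 0) (P.cons (P.lf 1288587 0 0) P.nil)) (P.cons (P.cons (P.lf 4848873 0 0) P.nil) P.nil)))))) 3125292)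
 (EL.cons 8 (TM.mk (P.cons (P.cons (P.lf 0 2123856222 0) (P.cons (P.lf 51309456 0 0) (P.cons (P.lf 6607176 0 0) (P.lf 0 440478 0)))) (P.cons (P.cons (P.lf 0 180070143 0) (P.cons (P.lf 26068932 0 0) (P.cons (P.lf 3356925 0 0) (P.lf 0 223794 0)))) (P.cons (P.cons (P.lf 353907852 0 0) (P.cons (P.lf 0 4139859 0) (P.cons (P.lf 0 533091 0) (P.lf 35535 0 0)))) (P.cons (P.cons (P.lf 35049501 0 0) (P.cons (P.lf 0 3571968 0) (P.cons (P.lf 0 459963 0) P.nil))) (P.cons (P.cons (P.lf 0 16912524 0) (P.cons (P.lf 0 162483 0) P.nil)) (P.cons (P.cons (P.lf 0 3653616 0) P.nil) P.nil)))))) 1764771)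
 (EL.cons 11 (TM.mk (P.cons (P.cons (P.lf 0 270700473 0) (P.cons (P.lf 0 77278866 0) (P.cons (P.lf 5780334 0 0) (P.cons (P.lf 389508 0 0) (P.lf 0 19473 0))))) (P.cons (P.cons (P.lf 0 183828678 0) (P.cons (P.lf 0 52478931 0) (P.cons (P.lf 3925338 0 0) (P.cons (P.lf 264507 0 0) (P.lf 0 13221 0))))) (P.cons (P.cons (P.lf 0 19115550 0) (P.cons (P.lf 0 5457057 0) (P.cons (P.lf 408177 0 0) (P.cons (P.lf 27501 0 0) P.nil)))) (P.cons (P.cons (P.lf 9308097 0 0) (P.cons (P.lf 2657250 0 0) (P.cons (P.lf 0 198756 0) P.nil))) (P.cons (P.cons (P.lf 2141355 0 0) (P.cons (P.lf 611307 0 0) P.nil)) (P.cons (P.cons (P.lf 52407 0 0) P.nil) P.nil)))))) 258414)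
 EL.nil)))
noncomputable def S82_140_290_364_24 : EL := (EL.cons 4 (TM.mk (P.cons (P.cons (P.lf 0 586054116 0) (P.cons (P.lf 5477982 0 0) (P.cons (P.lf 915108 0 0) (P.cons (P.lf 6981 0 0) (P.cons (P.lf 0 123 0) (P.cons (P.lf 0 462 0) P.nil)))))) (P.cons (P.cons (P.lf 88235016 0 0) (P.cons (P.lf 0 10890519 0) (P.cons (P.lf 0 957231 0) (P.cons (P.lf 208134 0 0) (P.cons (P.lf 0 261 0) P.nil))))) (P.cons (P.cons (P.lf 339280779 0 0) (P.cons (P.lf 0 17318904 0) (P.cons (P.lf 0 1853112 0) (P.cons (P.lf 245784 0 0) P.nil)))) (P.cons (P.cons (P.lf 53766780 0 0) (P.cons (P.lf 0 6115206 0) (P.cons (P.lf 0 641082 0) P.nil))) (P.cons (P.cons (P.lf 0 39338073 0) (P.cons (P.lf 846288 0 0) P.nil)) (P.cons (P.cons (P.lf 0 12103251 0) P.nil) P.nil)))))) 6748962)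
 (EL.cons 8 (TM.mk (P.cons (P.cons (P.lf 738911133 0 0) (P.cons (P.lf 0 6906774 0) (P.cons (P.lf 0 1153794 0) (P.cons (P.lf 0 8796 0) (P.cons (P.lf 153 0 0) (P.cons (P.lf 582 0 0) P.nil)))))) (P.cons (P.cons (P.lf 0 456912921 0) (P.cons (P.lf 16962030 0 0) (P.cons (P.lf 1746645 0 0) (P.cons (P.lf 0 258303 0) (P.cons (P.lf 255 0 0) P.nil))))) (P.cons (P.cons (P.lf 0 263373231 0) (P.cons (P.lf 14362455 0 0) (P.cons (P.lf 1596411 0 0) (P.cons (P.lf 0 188466 0) P.nil)))) (P.cons (P.cons (P.lf 76059870 0 0) (P.cons (P.lf 0 49062 0) (P.cons (P.lf 0 39741 0) P.nil))) (P.cons (P.cons (P.lf 35734302 0 0) (P.cons (P.lf 0 2211291 0) P.nil)) (P.cons (P.cons (P.lf 0 2192421 0) P.nil) P.nil)))))) 5294358)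
 (EL.cons 11 (TM.mk (P.cons (P.cons (P.lf 94179441 0 0) (P.cons (P.lf 28281030 0 0) (P.cons (P.lf 0 1433187 0) (P.cons (P.lf 0 125994 0) (P.cons (P.lf 0 2484 0) (P.cons (P.lf 96 0 0) P.nil)))))) (P.cons (P.cons (P.lf 0 2265873 0) (P.cons (P.lf 1900245 0 0) (P.cons (P.lf 1103514 0 0) (P.cons (P.lf 20640 0 0) (P.cons (P.lf 0 17073 0) P.nil))))) (P.cons (P.cons (P.lf 0 50580354 0) (P.cons (P.lf 0 12619830 0) (P.cons (P.lf 1833867 0 0) (P.cons (P.lf 85194 0 0) P.nil)))) (P.cons (P.cons (P.lf 0 14987391 0) (P.cons (P.lf 0 3702468 0) (P.cons (P.lf 558672 0 0) P.nil))) (P.cons (P.cons (P.lf 2079819 0 0) (P.cons (P.lf 616335 0 0) P.nil)) (P.cons (P.cons (P.lf 1442355 0 0) P.nil) P.nil)))))) 1312017)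
 EL.nil)))
noncomputable def S82_140_290_364_25 : EL := (EL.cons 4 (TM.mk (P.cons (P.cons (P.lf 0 1362022578 0) (P.cons (P.lf 32904594 0 0) (P.cons (P.lf 4237158 0 0) (P.lf 0 282471 0)))) (P.cons (P.cons (P.lf 0 636173829 0) (P.cons (P.lf 29297211 0 0) (P.cons (P.lf 3772626 0 0) (P.lf 0 251505 0)))) (P.cons (P.cons (P.lf 175266309 0 0) (P.cons (P.lf 3918627 0 0) (P.cons (P.lf 504600 0 0) (P.lf 0 33636 0)))) (P.cons (P.cons (P.lf 113700705 0 0) (P.cons (P.lf 0 3336159 0) (P.cons (P.lf 0 429600 0) P.nil))) (P.cons (P.cons (P.lf 106755 0 0) (P.cons (P.lf 0 1073388 0) P.nil)) (P.cons (P.cons (P.lf 0 7139145 0) P.nil) P.nil)))))) 3269328)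
 (EL.cons 8 (TM.mk (P.cons (P.cons (P.lf 1717270836 0 0) (P.cons (P.lf 0 41486910 0) (P.cons (P.lf 0 5342316 0) (P.lf 356154 0 0)))) (P.cons (P.cons (P.lf 0 1239417 0) (P.cons (P.lf 0 17530974 0) (P.cons (P.lf 0 2257482 0) (P.lf 150498 0 0)))) (P.cons (P.cons (P.lf 0 335079855 0) (P.cons (P.lf 6030822 0 0) (P.cons (P.lf 776592 0 0) (P.lf 0 51771 0)))) (P.cons (P.cons (P.lf 0 9458736 0) (P.cons (P.lf 3109902 0 0) (P.cons (P.lf 400461 0 0) P.nil))) (P.cons (P.cons (P.lf 22096266 0 0) (P.cons (P.lf 0 159237 0) P.nil)) (P.cons (P.cons (P.lf 2857389 0 0) P.nil) P.nil)))))) 2188437)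
 (EL.cons 11 (TM.mk (P.cons (P.cons (P.lf 218878293 0 0) (P.cons (P.lf 62484807 0 0) (P.cons (P.lf 0 4673760 0) (P.cons (P.lf 0 314940 0) (P.lf 15744 0 0))))) (P.cons (P.cons (P.lf 129921540 0 0) (P.cons (P.lf 37089663 0 0) (P.cons (P.lf 0 2774244 0) (P.cons (P.lf 0 186939 0) (P.lf 9345 0 0))))) (P.cons (P.cons (P.lf 0 1902096 0) (P.cons (P.lf 0 543003 0) (P.cons (P.lf 40614 0 0) (P.cons (P.lf 2736 0 0) P.nil)))) (P.cons (P.cons (P.lf 0 12322704 0) (P.cons (P.lf 0 3517851 0) (P.cons (P.lf 263127 0 0) P.nil))) (P.cons (P.cons (P.lf 0 1615278 0) (P.cons (P.lf 0 461124 0) P.nil)) (P.cons (P.cons (P.lf 260055 0 0) P.nil) P.nil)))))) 387414)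
 EL.nil)))
noncomputable def S82_140_290_364_26 : EL := (EL.cons 4 (TM.mk (P.cons (P.cons (P.lf 473861475 0 0) (P.cons (P.lf 0 4429290 0) (P.cons (P.lf 0 739923 0) (P.cons (P.lf 0 5643 0) (P.cons (P.lf 99 0 0) (P.cons (P.lf 372 0 0) P.nil)))))) (P.cons (P.cons (P.lf 0 111861663 0) (P.cons (P.lf 9184398 0 0) (P.cons (P.lf 837249 0 0) (P.cons (P.lf 0 167805 0) (P.cons (P.lf 201 0 0) P.nil))))) (P.cons (P.cons (P.lf 0 278293938 0) (P.cons (P.lf 13344555 0 0) (P.cons (P.lf 1447890 0 0) (P.cons (P.lf 0 184221 0) P.nil)))) (P.cons (P.cons (P.lf 0 19190022 0) (P.cons (P.lf 3566556 0 0) (P.cons (P.lf 374871 0 0) P.nil))) (P.cons (P.cons (P.lf 41491212 0 0) (P.cons (P.lf 0 1417620 0) P.nil)) (P.cons (P.cons (P.lf 8394975 0 0) P.nil) P.nil)))))) 7101159)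
 (EL.cons 8 (TM.mk (P.cons (P.cons (P.lf 0 597455952 0) (P.cons (P.lf 5584557 0 0) (P.cons (P.lf 932913 0 0) (P.cons (P.lf 7113 0 0) (P.cons (P.lf 0 123 0) (P.cons (P.lf 0 471 0) P.nil)))))) (P.cons (P.cons (P.lf 420528954 0 0) (P.cons (P.lf 0 14192379 0) (P.cons (P.lf 0 1492044 0) (P.cons (P.lf 208245 0 0) (P.cons (P.lf 0 195 0) P.nil))))) (P.cons (P.cons (P.lf 194053641 0 0) (P.cons (P.lf 0 10558848 0) (P.cons (P.lf 0 1189854 0) (P.cons (P.lf 134376 0 0) P.nil)))) (P.cons (P.cons (P.lf 0 86686791 0) (P.cons (P.lf 1315830 0 0) (P.cons (P.lf 171144 0 0) P.nil))) (P.cons (P.cons (P.lf 0 28740474 0) (P.cons (P.lf 2051580 0 0) P.nil)) (P.cons (P.cons (P.lf 5253300 0 0) P.nil) P.nil)))))) 5368443)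
 (EL.cons 11 (TM.mk (P.cons (P.cons (P.lf 0 76149978 0) (P.cons (P.lf 0 22866984 0) (P.cons (P.lf 1158822 0 0) (P.cons (P.lf 101874 0 0) (P.cons (P.lf 2010 0 0) (P.cons (P.lf 0 78 0) P.nil)))))) (P.cons (P.cons (P.lf 8343399 0 0) (P.cons (P.lf 418800 0 0) (P.cons (P.lf 0 991347 0) (P.cons (P.lf 0 25398 0) (P.cons (P.lf 13632 0 0) P.nil))))) (P.cons (P.cons (P.lf 42358101 0 0) (P.cons (P.lf 10820982 0 0) (P.cons (P.lf 0 1431114 0) (P.cons (P.lf 0 69621 0) P.nil)))) (P.cons (P.cons (P.lf 8692977 0 0) (P.cons (P.lf 2187033 0 0) (P.cons (P.lf 0 307665 0) P.nil))) (P.cons (P.cons (P.lf 0 3594996 0) (P.cons (P.lf 0 970572 0) P.nil)) (P.cons (P.cons (P.lf 0 1341036 0) P.nil) P.nil)))))) 1451049)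
 EL.nil)))
noncomputable def S82_140_290_364_27 : EL := (EL.cons 13 (TM.mk (P.lf 0 4294967296 0) 0)
 EL.nil)
noncomputable def S82_140_290_364_28 : EL := (EL.cons 13 (TM.mk (P.cons (P.cons (P.lf 1494262710 0 0) (P.cons (P.lf 22132120 0 0) (P.cons (P.lf 2849976 0 0) (P.lf 0 189996 0)))) (P.cons (P.cons (P.lf 0 1050682310 0) (P.cons (P.lf 25383044 0 0) (P.cons (P.lf 3268600 0 0) (P.lf 0 217904 0)))) (P.cons (P.cons (P.lf 0 194528985 0) (P.cons (P.lf 10071724 0 0) (P.cons (P.lf 1296944 0 0) (P.lf 0 86460 0)))) (P.cons (P.cons (P.lf 19884572 0 0) (P.cons (P.lf 1269368 0 0) (P.cons (P.lf 163456 0 0) P.nil))) (P.cons (P.cons (P.lf 8924364 0 0) (P.cons (P.lf 0 166856 0) P.nil)) (P.cons (P.cons (P.lf 709084 0 0) P.nil) P.nil)))))) 448842)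
 EL.nil)
noncomputable def S82_140_290_364_29 : EL := (EL.cons 13 (TM.mk (P.cons (P.cons (P.lf 0 519869161 0) (P.cons (P.lf 0 15399978 0) (P.cons (P.lf 0 2097118 0) (P.cons (P.lf 102831 0 0) (P.cons (P.lf 66 0 0) (P.cons (P.lf 252 0 0) P.nil)))))) (P.cons (P.cons (P.lf 731086077 0 0) (P.cons (P.lf 0 6833630 0) (P.cons (P.lf 0 1141572 0) (P.cons (P.lf 0 8708 0) (P.cons (P.lf 153 0 0) P.nil))))) (P.cons (P.cons (P.lf 0 121672288 0) (P.cons (P.lf 7415680 0 0) (P.cons (P.lf 701113 0 0) (P.cons (P.lf 0 129029 0) P.nil)))) (P.cons (P.cons (P.lf 0 109011744 0) (P.cons (P.lf 6138842 0 0) (P.cons (P.lf 658376 0 0) P.nil))) (P.cons (P.cons (P.lf 0 5291653 0) (P.cons (P.lf 1322489 0 0) P.nil)) (P.cons (P.cons (P.lf 5674194 0 0) P.nil) P.nil)))))) 2984638)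
 EL.nil)
noncomputable def S82_140_290_364_30 : EL := (EL.cons 13 (TM.mk (P.cons (P.lf 3472750184 0 0) (P.cons (P.lf 0 296941892 0) (P.cons (P.lf 0 73758800 0) (P.cons (P.lf 0 5045120 0) (P.cons (P.lf 266856 0 0) (P.cons (P.lf 88316 0 0) P.nil)))))) 15692)
 EL.nil)
noncomputable def S82_140_290_364_31 : EL := (EL.cons 13 (TM.mk (P.cons (P.cons (P.lf 0 1208205032 0) (P.cons (P.lf 0 17895205 0) (P.cons (P.lf 0 2304384 0) (P.lf 153623 0 0)))) (P.cons (P.cons (P.lf 952851581 0 0) (P.cons (P.lf 0 18993629 0) (P.cons (P.lf 0 2445828 0) (P.lf 163053 0 0)))) (P.cons (P.cons (P.lf 110309105 0 0) (P.cons (P.lf 0 6008626 0) (P.cons (P.lf 0 773735 0) (P.lf 51580 0 0)))) (P.cons (P.cons (P.lf 0 45815549 0) (P.cons (P.lf 131875 0 0) (P.cons (P.lf 16983 0 0) P.nil))) (P.cons (P.cons (P.lf 0 10508885 0) (P.cons (P.lf 424080 0 0) P.nil)) (P.cons (P.cons (P.lf 191200 0 0) P.nil) P.nil))))))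 809484)
 EL.nil)
noncomputable def S82_140_290_364_32 : EL := (EL.cons 13 (TM.mk (P.cons (P.cons (P.lf 420346791 0 0) (P.cons (P.lf 12451847 0 0) (P.cons (P.lf 1695651 0 0) (P.cons (P.lf 0 83145 0) (P.cons (P.lf 0 53 0) (P.cons (P.lf 0 203 0) P.nil)))))) (P.cons (P.cons (P.lf 0 627071187 0) (P.cons (P.lf 4460707 0 0) (P.cons (P.lf 778043 0 0) (P.cons (P.lf 14150 0 0) (P.cons (P.lf 0 119 0) P.nil))))) (P.cons (P.cons (P.lf 139997018 0 0) (P.cons (P.lf 0 6732968 0) (P.cons (P.lf 0 681833 0) (P.cons (P.lf 105491 0 0) P.nil)))) (P.cons (P.cons (P.lf 91675246 0 0) (P.cons (P.lf 0 4586385 0) (P.cons (P.lf 0 505933 0) P.nil))) (P.cons (P.cons (P.lf 0 4456569 0) (P.cons (P.lf 0 524611 0) P.nil)) (P.cons (P.cons (P.lf 0 7003541 0) P.nil) P.nil)))))) 3759796)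
 EL.nil)
noncomputable def S82_140_290_364_33 : EL := (EL.cons 14 (TM.mk (P.lf 8589934592 0 0) 0)
 EL.nil)
noncomputable def S82_140_290_364_34 : EL := (EL.cons 14 (TM.mk (P.cons (P.cons (P.lf 0 2988525420 0) (P.cons (P.lf 0 44264240 0) (P.cons (P.lf 0 5699952 0) (P.lf 379992 0 0)))) (P.cons (P.cons (P.lf 2101364620 0 0) (P.cons (P.lf 0 50766088 0) (P.cons (P.lf 0 6537200 0) (P.lf 435808 0 0)))) (P.cons (P.cons (P.lf 389057970 0 0) (P.cons (P.lf 0 20143448 0) (P.cons (P.lf 0 2593888 0) (P.lf 172920 0 0)))) (P.cons (P.cons (P.lf 0 39769144 0) (P.cons (P.lf 0 2538736 0) (P.cons (P.lf 0 326912 0) P.nil))) (P.cons (P.cons (P.lf 0 17848728 0) (P.cons (P.lf 333712 0 0) P.nil)) (P.cons (P.cons (P.lf 0 1418168 0) P.nil) P.nil)))))) 897684)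
 EL.nil)
noncomputable def S82_140_290_364_35 : EL := (EL.cons 14 (TM.mk (P.cons (P.cons (P.lf 1039738322 0 0) (P.cons (P.lf 30799956 0 0) (P.cons (P.lf 4194236 0 0) (P.cons (P.lf 0 205662 0) (P.cons (P.lf 0 132 0) (P.cons (P.lf 0 504 0) P.nil)))))) (P.cons (P.cons (P.lf 0 1462172154 0) (P.cons (P.lf 13667260 0 0) (P.cons (P.lf 2283144 0 0) (P.cons (P.lf 17416 0 0) (P.cons (P.lf 0 306 0) P.nil))))) (P.cons (P.cons (P.lf 243344576 0 0) (P.cons (P.lf 0 14831360 0) (P.cons (P.lf 0 1402226 0) (P.cons (P.lf 258058 0 0) P.nil)))) (P.cons (P.cons (P.lf 218023488 0 0) (P.cons (P.lf 0 12277684 0) (P.cons (P.lf 0 1316752 0) P.nil))) (P.cons (P.cons (P.lf 10583306 0 0) (P.cons (P.lf 0 2644978 0) P.nil)) (P.cons (P.cons (P.lf 0 11348388 0) P.nil) P.nil)))))) 5969276)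
 EL.nil)
noncomputable def S82_140_290_364_36 : EL := (EL.cons 14 (TM.mk (P.cons (P.lf 0 6945500368 0) (P.cons (P.lf 593883784 0 0) (P.cons (P.lf 147517600 0 0) (P.cons (P.lf 10090240 0 0) (P.cons (P.lf 0 533712 0) (P.cons (P.lf 0 176632 0) P.nil)))))) 31384)
 EL.nil)
noncomputable def S82_140_290_364_37 : EL := (EL.cons 14 (TM.mk (P.cons (P.cons (P.lf 2416410064 0 0) (P.cons (P.lf 35790410 0 0) (P.cons (P.lf 4608768 0 0) (P.lf 0 307246 0)))) (P.cons (P.cons (P.lf 0 1905703162 0) (P.cons (P.lf 37987258 0 0) (P.cons (P.lf 4891656 0 0) (P.lf 0 326106 0)))) (P.cons (P.cons (P.lf 0 220618210 0) (P.cons (P.lf 12017252 0 0) (P.cons (P.lf 1547470 0 0) (P.lf 0 103160 0)))) (P.cons (P.cons (P.lf 91631098 0 0) (P.cons (P.lf 0 263750 0) (P.cons (P.lf 0 33966 0) P.nil))) (P.cons (P.cons (P.lf 21017770 0 0) (P.cons (P.lf 0 848160 0) P.nil)) (P.cons (P.cons (P.lf 0 382400 0) P.nil)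 P.nil)))))) 1618968)
 EL.nil)
noncomputable def S82_140_290_364_38 : EL := (EL.cons 14 (TM.mk (P.cons (P.cons (P.lf 0 840693582 0) (P.cons (P.lf 0 24903694 0) (P.cons (P.lf 0 3391302 0) (P.cons (P.lf 166290 0 0) (P.cons (P.lf 106 0 0) (P.cons (P.lf 406 0 0) P.nil)))))) (P.cons (P.cons (P.lf 1254142374 0 0) (P.cons (P.lf 0 8921414 0) (P.cons (P.lf 0 1556086 0) (P.cons (P.lf 0 28300 0) (P.cons (P.lf 238 0 0) P.nil))))) (P.cons (P.cons (P.lf 0 279994036 0) (P.cons (P.lf 13465936 0 0) (P.cons (P.lf 1363666 0 0) (P.cons (P.lf 0 210982 0) P.nil)))) (P.cons (P.cons (P.lf 0 183350492 0) (P.cons (P.lf 9172770 0 0) (P.cons (P.lf 1011866 0 0) P.nil))) (P.cons (P.cons (P.lf 8913138 0 0) (P.cons (P.lf 1049222 0 0) P.nil)) (P.cons (P.cons (P.lf 14007082 0 0) P.nil) P.nil)))))) 7519592)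
 EL.nil)
noncomputable def S82_140_290_364_39 : EL := (EL.cons 14 (TM.mk (P.cons (P.lf 5615872256 0 0) (P.cons (P.lf 0 960384504 0) (P.cons (P.lf 0 197495000 0) (P.cons (P.lf 4080716 0 0) (P.cons (P.lf 4791664 0 0) (P.cons (P.lf 558402 0 0) P.nil)))))) 118664)
 EL.nil)
noncomputable def S82_140_290_364_40 : EL := (EL.cons 14 (TM.mk (P.cons (P.cons (P.lf 0 1953818950 0) (P.cons (P.lf 0 28938790 0) (P.cons (P.lf 0 3726478 0) (P.lf 248428 0 0)))) (P.cons (P.cons (P.lf 1707944176 0 0) (P.cons (P.lf 0 28240630 0) (P.cons (P.lf 0 3636574 0) (P.lf 242434 0 0)))) (P.cons (P.cons (P.lf 88126476 0 0) (P.cons (P.lf 0 6475730 0) (P.cons (P.lf 0 833882 0) (P.lf 55588 0 0)))) (P.cons (P.cons (P.lf 0 119231176 0) (P.cons (P.lf 1738506 0 0) (P.cons (P.lf 223870 0 0) P.nil))) (P.cons (P.cons (P.lf 0 16836500 0) (P.cons (P.lf 916330 0 0) P.nil)) (P.cons (P.cons (P.lf 3145480 0 0) P.nil)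 P.nil)))))) 2147710)
 EL.nil)
noncomputable def S82_140_290_364_41 : EL := (EL.cons 14 (TM.mk (P.cons (P.cons (P.lf 679753440 0 0) (P.cons (P.lf 20136196 0 0) (P.cons (P.lf 2742080 0 0) (P.cons (P.lf 0 134456 0) (P.cons (P.lf 0 86 0) (P.cons (P.lf 0 328 0) P.nil)))))) (P.cons (P.cons (P.lf 0 1072175870 0) (P.cons (P.lf 5491750 0 0) (P.cons (P.lf 1023728 0 0) (P.cons (P.lf 34378 0 0) (P.cons (P.lf 0 184 0) P.nil))))) (P.cons (P.cons (P.lf 298663090 0 0) (P.cons (P.lf 0 11932532 0) (P.cons (P.lf 0 1268432 0) (P.cons (P.lf 171492 0 0) P.nil)))) (P.cons (P.cons (P.lf 149442612 0 0) (P.cons (P.lf 0 6668226 0) (P.cons (P.lf 0 754584 0) P.nil))) (P.cons (P.cons (P.lf 0 23166166 0) (P.cons (P.lf 8138 0 0) P.nil)) (P.cons (P.cons (P.lf 0 14247642 0) P.nil) P.nil)))))) 7975000)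
 EL.nil)
noncomputable def S82_140_290_364_42 : EL := (EL.cons 14 (TM.mk (P.cons (P.lf 0 4540784612 0) (P.cons (P.lf 1164796574 0 0) (P.cons (P.lf 189731922 0 0) (P.cons (P.lf 0 26850006 0) (P.cons (P.lf 0 8460924 0) (P.cons (P.lf 0 337936 0) P.nil)))))) 309558)
 EL.nil)
noncomputable def S82_140_290_364_43 : EL := (EL.cons 14 (TM.mk (P.cons (P.cons (P.lf 1579785048 0 0) (P.cons (P.lf 23398824 0 0) (P.cons (P.lf 3013090 0 0) (P.lf 0 200870 0)))) (P.cons (P.cons (P.lf 0 1516061404 0) (P.cons (P.lf 20833572 0 0) (P.cons (P.lf 2682758 0 0) (P.lf 0 178848 0)))) (P.cons (P.cons (P.lf 13273114 0 0) (P.cons (P.lf 2786580 0 0) (P.cons (P.lf 358828 0 0) (P.lf 0 23918 0)))) (P.cons (P.cons (P.lf 129534674 0 0) (P.cons (P.lf 0 2372382 0) (P.cons (P.lf 0 305494 0) P.nil))) (P.cons (P.cons (P.lf 9011128 0 0) (P.cons (P.lf 0 763298 0) P.nil)) (P.cons (P.cons (P.lf 0 5717362 0)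 P.nil) P.nil)))))) 2621236)
 EL.nil)
noncomputable def S82_140_290_364_44 : EL := (EL.cons 14 (TM.mk (P.cons (P.cons (P.lf 0 549623250 0) (P.cons (P.lf 0 16281376 0) (P.cons (P.lf 0 2217144 0) (P.cons (P.lf 108716 0 0) (P.cons (P.lf 68 0 0) (P.cons (P.lf 266 0 0) P.nil)))))) (P.cons (P.cons (P.lf 913917604 0 0) (P.cons (P.lf 0 3048264 0) (P.cons (P.lf 0 638168 0) (P.cons (P.lf 0 37094 0) (P.cons (P.lf 142 0 0) P.nil))))) (P.cons (P.cons (P.lf 0 303941414 0) (P.cons (P.lf 10373690 0 0) (P.cons (P.lf 1143476 0 0) (P.cons (P.lf 0 138594 0) P.nil)))) (P.cons (P.cons (P.lf 0 117799322 0) (P.cons (P.lf 4684660 0 0) (P.cons (P.lf 543234 0 0) P.nil))) (P.cons (P.cons (P.lf 32890694 0 0) (P.cons (P.lf 0 667324 0) P.nil)) (P.cons (P.cons (P.lf 12888358 0 0) P.nil) P.nil)))))) 8692090)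
 EL.nil)
noncomputable def S82_140_290_364_45 : EL := (EL.cons 14 (TM.mk (P.cons (P.cons (P.lf 0 361735514 0) (P.cons (P.lf 0 16073426 0) (P.cons (P.lf 0 2307860 0) (P.cons (P.lf 75494 0 0) (P.cons (P.lf 0 314 0) (P.cons (P.lf 498 0 0) P.nil)))))) (P.cons (P.cons (P.lf 763056796 0 0) (P.cons (P.lf 4169470 0 0) (P.cons (P.lf 158226 0 0) (P.cons (P.lf 0 137362 0) (P.cons (P.lf 0 1338 0) P.nil))))) (P.cons (P.cons (P.lf 0 395262590 0) (P.cons (P.lf 14847626 0 0) (P.cons (P.lf 1797084 0 0) (P.cons (P.lf 0 163286 0) P.nil)))) (P.cons (P.cons (P.lf 0 87361816 0) (P.cons (P.lf 1679618 0 0) (P.cons (P.lf 380936 0 0) P.nil))) (P.cons (P.cons (P.lf 65283946 0 0) (P.cons (P.lf 0 4323462 0) P.nil)) (P.cons (P.cons (P.lf 18151928 0 0) P.nil) P.nil)))))) 14354070)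
 EL.nil)
noncomputable def S82_140_290_364_46 : EL := (EL.cons 15 (TM.mk (P.lf 4294967296 0 0) 0)
 EL.nil)
noncomputable def S82_140_290_364_47 : EL := (EL.cons 15 (TM.mk (P.cons (P.cons (P.lf 0 1494262710 0) (P.cons (P.lf 0 22132120 0) (P.cons (P.lf 0 2849976 0) (P.lf 189996 0 0)))) (P.cons (P.cons (P.lf 1050682310 0 0) (P.cons (P.lf 0 25383044 0) (P.cons (P.lf 0 3268600 0) (P.lf 217904 0 0)))) (P.cons (P.cons (P.lf 194528985 0 0) (P.cons (P.lf 0 10071724 0) (P.cons (P.lf 0 1296944 0) (P.lf 86460 0 0)))) (P.cons (P.cons (P.lf 0 19884572 0) (P.cons (P.lf 0 1269368 0) (P.cons (P.lf 0 163456 0) P.nil))) (P.cons (P.cons (P.lf 0 8924364 0) (P.cons (P.lf 166856 0 0) P.nil)) (P.cons (P.cons (P.lf 0 709084 0) P.nil) P.nil)))))) 448842)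
 EL.nil)
noncomputable def S82_140_290_364_48 : EL := (EL.cons 15 (TM.mk (P.cons (P.cons (P.lf 519869161 0 0) (P.cons (P.lf 15399978 0 0) (P.cons (P.lf 2097118 0 0) (P.cons (P.lf 0 102831 0) (P.cons (P.lf 0 66 0) (P.cons (P.lf 0 252 0) P.nil)))))) (P.cons (P.cons (P.lf 0 731086077 0) (P.cons (P.lf 6833630 0 0) (P.cons (P.lf 1141572 0 0) (P.cons (P.lf 8708 0 0) (P.cons (P.lf 0 153 0) P.nil))))) (P.cons (P.cons (P.lf 121672288 0 0) (P.cons (P.lf 0 7415680 0) (P.cons (P.lf 0 701113 0) (P.cons (P.lf 129029 0 0) P.nil)))) (P.cons (P.cons (P.lf 109011744 0 0) (P.cons (P.lf 0 6138842 0) (P.cons (P.lf 0 658376 0) P.nil))) (P.cons (P.cons (P.lf 5291653 0 0) (P.cons (P.lf 0 1322489 0) P.nil)) (P.cons (P.cons (P.lf 0 5674194 0) P.nil) P.nil)))))) 2984638)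
 EL.nil)
noncomputable def S82_140_290_364 : SL := (SL.cons S82_140_290_364_0 (SL.cons S82_140_290_364_1 (SL.cons S82_140_290_364_2 (SL.cons S82_140_290_364_3 (SL.cons S82_140_290_364_4 (SL.cons S82_140_290_364_5 (SL.cons S82_140_290_364_6 (SL.cons S82_140_290_364_7 (SL.cons S82_140_290_364_8 (SL.cons S82_140_290_364_9 (SL.cons S82_140_290_364_10 (SL.cons S82_140_290_364_11 (SL.cons S82_140_290_364_12 (SL.cons S82_140_290_364_13 (SL.cons S82_140_290_364_14 (SL.cons S82_140_290_364_15 (SL.cons S82_140_290_364_16 (SL.cons S82_140_290_364_17 (SL.cons S82_140_290_364_18 (SL.cons S82_140_290_364_19 (SL.cons S82_140_290_364_20 (SL.cons S82_140_290_364_21 (SL.cons S82_140_290_364_22 (SL.cons S82_140_290_364_23 (SL.cons S82_140_290_364_24 (SL.cons S82_140_290_364_25 (SL.cons S82_140_290_364_26 (SL.cons S82_140_290_364_27 (SL.cons S82_140_290_364_28 (SL.cons S82_140_290_364_29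 (SL.cons S82_140_290_364_30 (SL.cons S82_140_290_364_31 (SL.cons S82_140_290_364_32 (SL.cons S82_140_290_364_33 (SL.cons S82_140_290_364_34 (SL.cons S82_140_290_364_35 (SL.cons S82_140_290_364_36 (SL.cons S82_140_290_364_37 (SL.cons S82_140_290_364_38 (SL.cons S82_140_290_364_39 (SL.cons S82_140_290_364_40 (SL.cons S82_140_290_364_41 (SL.cons S82_140_290_364_42 (SL.cons S82_140_290_364_43 (SL.cons S82_140_290_364_44 (SL.cons S82_140_290_364_45 (SL.cons S82_140_290_364_46 (SL.cons S82_140_290_364_47 (SL.cons S82_140_290_364_48 SL.nil)))))))))))))))))))))))))))))))))))))))))))))))))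
theorem S82_111_438_512_ok : band (seq (shp 5 82 111 438 512) S82_111_438_512) (sok S82_111_438_512) = true := by decide +kernel

theorem S82_111_512_660_ok : band (seq (shp 5 82 111 512 660) S82_111_512_660) (sok S82_111_512_660) = true := by decide +kernel

theorem S82_111_660_808_ok : band (seq (shp 5 82 111 660 808) S82_111_660_808) (sok S82_111_660_808) = true := by decide +kernel

theorem S82_140_216_290_ok : band (seq (shp 5 82 140 216 290) S82_140_216_290) (sok S82_140_216_290) = true := by decide +kernel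

theorem S82_140_216_364_ok : band (seq (shp 5 82 140 216 364) S82_140_216_364) (sok S82_140_216_364) = true := by decide +kernel

theorem S82_140_290_364_ok : band (seq (shp 5 82 140 290 364) S82_140_290_364) (sok S82_140_290_364) = true := by decide +kernel

end Vale.Agent.P098.Ck
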