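import Vale.Agent.P098.CkDefs

namespace Vale.Agent.P098.Ck

noncomputable def S227_241_660_808_0 : EL := (EL.cons 0 (TM.mk (P.cons (P.lf 8236751121 0 0) (P.cons (P.lf 136792680 0 0) (P.cons (P.lf 0 20162540 0) (P.cons (P.lf 0 495075 0) (P.cons (P.lf 33925 0 0) (P.cons (P.lf 991 0 0) P.nil)))))) 101)
 (EL.cons 1 (TM.mk (P.cons (P.lf 0 673184881 0) (P.cons (P.lf 202366545 0 0) (P.cons (P.lf 5530590 0 0) (P.cons (P.lf 0 526580 0) (P.cons (P.lf 0 13798 0) (P.cons (P.lf 714 0 0) P.nil)))))) 98)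
 (EL.cons 5 (TM.mk (P.cons (P.lf 4372821786 0 0) (P.cons (P.lf 0 48637396 0) (P.cons (P.lf 7168902 0 0) (P.cons (P.lf 176026 0 0) (P.cons (P.lf 0 12058 0) (P.cons (P.lf 0 354 0) P.nil)))))) 135)
 (EL.cons 9 (TM.mk (P.lf 6442450944 0 0) 2)
 EL.nil))))
noncomputable def S227_241_660_808_1 : EL := (EL.cons 0 (TM.mk (P.cons (P.cons (P.lf 0 2229801820 0) (P.cons (P.lf 0 677850260 0) (P.cons (P.lf 292296676 0 0) (P.lf 32477406 0 0)))) (P.cons (P.cons (P.lf 0 714851437 0) (P.cons (P.lf 0 72827073 0) (P.cons (P.lf 31403849 0 0) (P.lf 3489306 0 0)))) (P.cons (P.cons (P.lf 0 33650680 0) (P.cons (P.lf 8869044 0 0) (P.cons (P.lf 0 3824429 0) (P.lf 0 424932 0)))) (P.cons (P.cons (P.lf 10079789 0 0) (P.cons (P.lf 803846 0 0) (P.cons (P.lf 0 346621 0) P.nil))) (P.cons (P.cons (P.lf 474268 0 0) (P.cons (P.lf 0 40801 0) P.nil)) (P.cons (P.cons (P.lf 0 45767 0) P.nil) P.nil)))))) 85396)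
 (EL.cons 1 (TM.mk (P.cons (P.cons (P.lf 1602803952 0 0) (P.cons (P.lf 147106784 0 0) (P.cons (P.lf 0 63434102 0) (P.lf 0 7048229 0)))) (P.cons (P.cons (P.lf 40794420 0 0) (P.cons (P.lf 0 36834251 0) (P.cons (P.lf 15883341 0 0) (P.lf 1764817 0 0)))) (P.cons (P.cons (P.lf 0 48808492 0) (P.cons (P.lf 0 4461907 0) (P.cons (P.lf 1924021 0 0) (P.lf 213775 0 0)))) (P.cons (P.cons (P.lf 0 2675079 0) (P.cons (P.lf 321153 0 0) (P.cons (P.lf 0 138481 0) P.nil))) (P.cons (P.cons (P.lf 382962 0 0) (P.cons (P.lf 33149 0 0) P.nil)) (P.cons (P.cons (P.lf 20421 0 0) P.nil) P.nil)))))) 50962)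
 (EL.cons 5 (TM.mk (P.cons (P.cons (P.lf 0 1990430601 0) (P.cons (P.lf 0 411939266 0) (P.cons (P.lf 177632860 0 0) (P.lf 19736984 0 0)))) (P.cons (P.cons (P.lf 0 102373187 0) (P.cons (P.lf 2876960 0 0) (P.cons (P.lf 0 1240574 0) (P.lf 0 137834 0)))) (P.cons (P.cons (P.lf 8368985 0 0) (P.cons (P.lf 103940 0 0) (P.cons (P.lf 0 44820 0) (P.lf 0 4988 0)))) (P.cons (P.cons (P.lf 0 980313 0) (P.cons (P.lf 0 162112 0) (P.cons (P.lf 69902 0 0) P.nil))) (P.cons (P.cons (P.lf 0 122361 0) (P.cons (P.lf 6600 0 0) P.nil)) (P.cons (P.cons (P.lf 10063 0 0) P.nil) P.nil)))))) 49714)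
 (EL.cons 9 (TM.mk (P.cons (P.cons (P.lf 0 2455807963 0) (P.cons (P.lf 0 576134724 0) (P.cons (P.lf 248435790 0 0) (P.lf 27603972 0 0)))) (P.cons (P.cons (P.lf 0 314596389 0) (P.cons (P.lf 0 20309208 0) (P.cons (P.lf 8757558 0 0) (P.lf 973056 0 0)))) (P.cons (P.cons (P.lf 0 3172677 0) (P.cons (P.lf 2874150 0 0) (P.cons (P.lf 0 1239366 0) (P.lf 0 137706 0)))) (P.cons (P.cons (P.lf 2297290 0 0) (P.cons (P.lf 109140 0 0) (P.cons (P.lf 0 47058 0) P.nil))) (P.cons (P.cons (P.lf 40828 0 0) (P.cons (P.lf 0 6972 0) P.nil)) (P.cons (P.cons (P.lf 0 5464 0) P.nil) P.nil)))))) 10888)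
 (EL.cons 2 (TM.mk (P.cons (P.cons (P.lf 195785358 0 0) (P.cons (P.lf 0 182392171 0) (P.cons (P.lf 0 18719370 0) (P.cons (P.lf 3893107 0 0) (P.lf 324424 0 0))))) (P.cons (P.cons (P.lf 0 56554633 0) (P.cons (P.lf 52685870 0 0) (P.cons (P.lf 5407284 0 0) (P.cons (P.lf 0 1124564 0) (P.lf 0 93712 0))))) (P.cons (P.cons (P.lf 0 2652651 0) (P.cons (P.lf 2471189 0 0) (P.cons (P.lf 253622 0 0) (P.cons (P.lf 0 52745 0) P.nil)))) (P.cons (P.cons (P.lf 236058 0 0) (P.cons (P.lf 0 219912 0) (P.cons (P.lf 0 22567 0) P.nil))) (P.cons (P.cons (P.lf 10268 0 0) (P.cons (P.lf 0 9565 0) P.nil)) (P.cons (P.cons (P.lf 0 486 0) P.nil) P.nil)))))) 12865)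
 (EL.cons 6 (TM.mk (P.cons (P.cons (P.lf 601919469 0 0) (P.cons (P.lf 0 560743668 0) (P.cons (P.lf 0 57550542 0) (P.cons (P.lf 11968908 0 0) (P.lf 997407 0 0))))) (P.cons (P.cons (P.lf 21218145 0 0) (P.cons (P.lf 0 19766664 0) (P.cons (P.lf 0 2028702 0) (P.cons (P.lf 421911 0 0) (P.lf 35157 0 0))))) (P.cons (P.cons (P.lf 0 3002784 0) (P.cons (P.lf 2797371 0 0) (P.cons (P.lf 287100 0 0) (P.cons (P.lf 0 59706 0) P.nil)))) (P.cons (P.cons (P.lf 0 114027 0) (P.cons (P.lf 106227 0 0) (P.cons (P.lf 10902 0 0) P.nil))) (P.cons (P.cons (P.lf 7284 0 0) (P.cons (P.lf 0 6786 0) P.nil)) (P.cons (P.cons (P.lf 318 0 0) P.nil) P.nil)))))) 9633)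
 EL.nil))))))
noncomputable def S227_241_660_808_2 : EL := (EL.cons 0 (TM.mk (P.cons (P.cons (P.lf 503105625 0 0) (P.cons (P.lf 354026762 0 0) (P.cons (P.lf 0 97295059 0) (P.cons (P.lf 0 64710525 0) (P.cons (P.lf 4989440 0 0) (P.cons (P.lf 2287735 0 0) P.nil)))))) (P.cons (P.cons (P.lf 436242010 0 0) (P.cons (P.lf 162576654 0 0) (P.cons (P.lf 0 58543692 0) (P.cons (P.lf 0 17760044 0) (P.cons (P.lf 1041873 0 0) P.nil))))) (P.cons (P.cons (P.lf 72769665 0 0) (P.cons (P.lf 8945899 0 0) (P.cons (P.lf 0 4930005 0) (P.cons (P.lf 496282 0 0) P.nil)))) (P.cons (P.cons (P.lf 0 2996308 0) (P.cons (P.lf 0 2979088 0) (P.cons (P.lf 1069971 0 0) P.nil))) (P.cons (P.cons (P.lf 0 1426520 0) (P.cons (P.lf 0 255789 0) P.nil)) (P.cons (P.cons (P.lf 0 47119 0) P.nil) P.nil)))))) 2075105)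
 (EL.cons 1 (TM.mk (P.cons (P.cons (P.lf 0 1124132212 0) (P.cons (P.lf 0 352925839 0) (P.cons (P.lf 131258397 0 0) (P.cons (P.lf 34957597 0 0) (P.cons (P.lf 0 1885925 0) (P.cons (P.lf 0 864721 0) P.nil)))))) (P.cons (P.cons (P.lf 0 191980128 0) (P.cons (P.lf 0 9986470 0) (P.cons (P.lf 8727975 0 0) (P.cons (P.lf 0 3334905 0) (P.cons (P.lf 398473 0 0) P.nil))))) (P.cons (P.cons (P.lf 25168539 0 0) (P.cons (P.lf 14163463 0 0) (P.cons (P.lf 0 5151265 0) (P.cons (P.lf 0 1503217 0) P.nil)))) (P.cons (P.cons (P.lf 7070598 0 0) (P.cons (P.lf 1093130 0 0) (P.cons (P.lf 0 517256 0) P.nil))) (P.cons (P.cons (P.lf 91860 0 0) (P.cons (P.lf 0 146836 0) P.nil)) (P.cons (P.cons (P.lf 0 76486 0) P.nil) P.nil)))))) 1053522)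
 (EL.cons 5 (TM.mk (P.cons (P.cons (P.lf 882069052 0 0) (P.cons (P.lf 371923930 0 0) (P.cons (P.lf 0 121671054 0) (P.cons (P.lf 0 51201317 0) (P.cons (P.lf 3488178 0 0) (P.cons (P.lf 1599381 0 0) P.nil)))))) (P.cons (P.cons (P.lf 116713788 0 0) (P.cons (P.lf 23512514 0 0) (P.cons (P.lf 0 10132775 0) (P.cons (P.lf 0 1131813 0) (P.cons (P.lf 560 0 0) P.nil))))) (P.cons (P.cons (P.lf 0 5721737 0) (P.cons (P.lf 0 2773073 0) (P.cons (P.lf 1067042 0 0) (P.cons (P.lf 243888 0 0) P.nil)))) (P.cons (P.cons (P.lf 0 568428 0) (P.cons (P.lf 203789 0 0) (P.cons (P.lf 0 54216 0) P.nil))) (P.cons (P.cons (P.lf 219420 0 0) (P.cons (P.lf 56992 0 0) P.nil)) (P.cons (P.cons (P.lf 14386 0 0) P.nil) P.nil)))))) 1247502)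
 (EL.cons 9 (TM.mk (P.cons (P.cons (P.lf 936133282 0 0) (P.cons (P.lf 439235394 0 0) (P.cons (P.lf 0 137880748 0) (P.cons (P.lf 0 65478973 0) (P.cons (P.lf 4643128 0 0) (P.cons (P.lf 2128945 0 0) P.nil)))))) (P.cons (P.cons (P.lf 239842980 0 0) (P.cons (P.lf 71750772 0 0) (P.cons (P.lf 0 27307321 0) (P.cons (P.lf 0 6570423 0) (P.cons (P.lf 327348 0 0) P.nil))))) (P.cons (P.cons (P.lf 17781099 0 0) (P.cons (P.lf 359716 0 0) (P.cons (P.lf 0 605149 0) (P.cons (P.lf 370884 0 0) P.nil)))) (P.cons (P.cons (P.lf 0 1441560 0) (P.cons (P.lf 0 754786 0) (P.cons (P.lf 287827 0 0) P.nil))) (P.cons (P.cons (P.lf 0 253926 0) (P.cons (P.lf 0 29959 0) P.nil)) (P.cons (P.cons (P.lf 0 2083 0) P.nil) P.nil)))))) 584780)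
 (EL.cons 2 (TM.mk (P.cons (P.cons (P.lf 0 149263453 0) (P.cons (P.lf 104035376 0 0) (P.cons (P.lf 61993091 0 0) (P.cons (P.lf 0 12009133 0) (P.cons (P.lf 0 3950353 0) (P.cons (P.lf 81810 0 0) P.nil)))))) (P.cons (P.cons (P.lf 23995198 0 0) (P.cons (P.lf 0 13473011 0) (P.cons (P.lf 0 14396917 0) (P.cons (P.lf 2770042 0 0) (P.cons (P.lf 978879 0 0) P.nil))))) (P.cons (P.cons (P.lf 7352825 0 0) (P.cons (P.lf 0 5844138 0) (P.cons (P.lf 0 2073583 0) (P.cons (P.lf 405866 0 0) P.nil)))) (P.cons (P.cons (P.lf 274426 0 0) (P.cons (P.lf 0 324978 0) (P.cons (P.lf 68231 0 0) P.nil))) (P.cons (P.cons (P.lf 0 66121 0) (P.cons (P.lf 53566 0 0) P.nil)) (P.cons (P.cons (P.lf 0 3802 0) P.nil) P.nil)))))) 486511)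
 (EL.cons 6 (TM.mk (P.cons (P.cons (P.lf 0 458893248 0) (P.cons (P.lf 319844748 0 0) (P.cons (P.lf 190590606 0 0) (P.cons (P.lf 0 36920700 0) (P.cons (P.lf 0 12144912 0) (P.cons (P.lf 251526 0 0) P.nil)))))) (P.cons (P.cons (P.lf 0 74961960 0) (P.cons (P.lf 62244024 0 0) (P.cons (P.lf 17510880 0 0) (P.cons (P.lf 0 3450234 0) (P.cons (P.lf 0 926832 0) P.nil))))) (P.cons (P.cons (P.lf 0 375810 0) (P.cons (P.lf 1290456 0 0) (P.cons (P.lf 0 1245582 0) (P.cons (P.lf 235308 0 0) P.nil)))) (P.cons (P.cons (P.lf 788562 0 0) (P.cons (P.lf 0 655968 0) (P.cons (P.lf 0 182580 0) P.nil))) (P.cons (P.cons (P.lf 31296 0 0) (P.cons (P.lf 0 33000 0) P.nil)) (P.cons (P.cons (P.lf 0 3732 0) P.nil) P.nil)))))) 548574)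
 EL.nil))))))
noncomputable def S227_241_660_808_3 : EL := (EL.cons 0 (TM.mk (P.cons (P.lf 218965742 0 0) (P.cons (P.lf 0 136792680 0) (P.cons (P.lf 20162540 0 0) (P.cons (P.lf 495075 0 0) (P.cons (P.lf 0 33925 0) (P.cons (P.lf 0 991 0) P.nil)))))) 101)
 (EL.cons 1 (TM.mk (P.cons (P.lf 673184881 0 0) (P.cons (P.lf 0 202366545 0) (P.cons (P.lf 0 5530590 0) (P.cons (P.lf 526580 0 0) (P.cons (P.lf 13798 0 0) (P.cons (P.lf 0 714 0) P.nil)))))) 98)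
 (EL.cons 5 (TM.mk (P.cons (P.lf 2069629158 0 0) (P.cons (P.lf 48637396 0 0) (P.cons (P.lf 0 7168902 0) (P.cons (P.lf 0 176026 0) (P.cons (P.lf 12058 0 0) (P.cons (P.lf 354 0 0) P.nil)))))) 128)
 EL.nil)))
noncomputable def S227_241_660_808_4 : EL := (EL.cons 0 (TM.mk (P.cons (P.cons (P.lf 0 83467893 0) (P.cons (P.lf 0 19581641 0) (P.cons (P.lf 8443824 0 0) (P.lf 938202 0 0)))) (P.cons (P.cons (P.lf 41451727 0 0) (P.cons (P.lf 11542809 0 0) (P.cons (P.lf 0 4977390 0) (P.lf 0 553042 0)))) (P.cons (P.cons (P.lf 0 1113790 0) (P.cons (P.lf 0 1274180 0) (P.cons (P.lf 549439 0 0) (P.lf 61048 0 0)))) (P.cons (P.cons (P.lf 0 1027845 0) (P.cons (P.lf 0 165150 0) (P.cons (P.lf 71214 0 0) P.nil))) (P.cons (P.cons (P.lf 0 68561 0) (P.cons (P.lf 7913 0 0) P.nil)) (P.cons (P.cons (P.lf 7927 0 0) P.nil) P.nil)))))) 18177)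
 (EL.cons 1 (TM.mk (P.cons (P.cons (P.lf 0 256612398 0) (P.cons (P.lf 0 60201495 0) (P.cons (P.lf 25959562 0 0) (P.lf 2884395 0 0)))) (P.cons (P.cons (P.lf 44267598 0 0) (P.cons (P.lf 15975058 0 0) (P.cons (P.lf 0 6888624 0) (P.lf 0 765403 0)))) (P.cons (P.cons (P.lf 11658613 0 0) (P.cons (P.lf 1432854 0 0) (P.cons (P.lf 0 617861 0) (P.lf 0 68649 0)))) (P.cons (P.cons (P.lf 409046 0 0) (P.cons (P.lf 0 108532 0) (P.cons (P.lf 46800 0 0) P.nil))) (P.cons (P.cons (P.lf 0 96144 0) (P.cons (P.lf 0 9515 0) P.nil)) (P.cons (P.cons (P.lf 0 4485 0) P.nil) P.nil)))))) 14735)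
 (EL.cons 5 (TM.mk (P.cons (P.cons (P.lf 0 788925178 0) (P.cons (P.lf 0 185082544 0) (P.cons (P.lf 79809680 0 0) (P.lf 8867740 0 0)))) (P.cons (P.cons (P.lf 0 119603854 0) (P.cons (P.lf 0 10873844 0) (P.cons (P.lf 4688924 0 0) (P.lf 520988 0 0)))) (P.cons (P.cons (P.lf 0 661544 0) (P.cons (P.lf 1411090 0 0) (P.cons (P.lf 0 608478 0) (P.lf 0 67606 0)))) (P.cons (P.cons (P.lf 1131218 0 0) (P.cons (P.lf 95098 0 0) (P.cons (P.lf 0 41006 0) P.nil))) (P.cons (P.cons (P.lf 37988 0 0) (P.cons (P.lf 0 5136 0) P.nil)) (P.cons (P.cons (P.lf 0 4638 0) P.nil) P.nil)))))) 9984)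
 EL.nil)))
noncomputable def S227_241_660_808_5 : EL := (EL.cons 0 (TM.mk (P.cons (P.cons (P.lf 31817257 0 0) (P.cons (P.lf 14928713 0 0) (P.cons (P.lf 0 4686284 0) (P.cons (P.lf 0 2225496 0) (P.cons (P.lf 157809 0 0) (P.cons (P.lf 72356 0 0) P.nil)))))) (P.cons (P.cons (P.lf 0 11725161 0) (P.cons (P.lf 0 6887629 0) (P.cons (P.lf 1999502 0 0) (P.cons (P.lf 1166999 0 0) (P.cons (P.lf 0 87461 0) P.nil))))) (P.cons (P.cons (P.lf 0 1558487 0) (P.cons (P.lf 0 136610 0) (P.cons (P.lf 127731 0 0) (P.cons (P.lf 0 52809 0) P.nil)))) (P.cons (P.cons (P.lf 396017 0 0) (P.cons (P.lf 225015 0 0) (P.cons (P.lf 0 73425 0) P.nil))) (P.cons (P.cons (P.lf 91126 0 0) (P.cons (P.lf 19334 0 0) P.nil)) (P.cons (P.cons (P.lf 768 0 0) P.nil) P.nil)))))) 161505)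
 (EL.cons 1 (TM.mk (P.cons (P.cons (P.lf 97818481 0 0) (P.cons (P.lf 45896604 0 0) (P.cons (P.lf 0 14407440 0) (P.cons (P.lf 0 6842030 0) (P.cons (P.lf 485169 0 0) (P.cons (P.lf 222457 0 0) P.nil)))))) (P.cons (P.cons (P.lf 0 4343593 0) (P.cons (P.lf 0 6299621 0) (P.cons (P.lf 1477631 0 0) (P.cons (P.lf 1370229 0 0) (P.cons (P.lf 0 111641 0) P.nil))))) (P.cons (P.cons (P.lf 0 6479458 0) (P.cons (P.lf 0 2593271 0) (P.cons (P.lf 912892 0 0) (P.cons (P.lf 301350 0 0) P.nil)))) (P.cons (P.cons (P.lf 0 838539 0) (P.cons (P.lf 0 115861 0) (P.cons (P.lf 61254 0 0) P.nil))) (P.cons (P.cons (P.lf 25091 0 0) (P.cons (P.lf 27073 0 0) P.nil)) (P.cons (P.cons (P.lf 10858 0 0) P.nil) P.nil)))))) 208814)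
 (EL.cons 5 (TM.mk (P.cons (P.cons (P.lf 300731622 0 0) (P.cons (P.lf 141103808 0 0) (P.cons (P.lf 0 44294014 0) (P.cons (P.lf 0 21035036 0) (P.cons (P.lf 1491598 0 0) (P.cons (P.lf 683920 0 0) P.nil)))))) (P.cons (P.cons (P.lf 84116604 0 0) (P.cons (P.lf 26365858 0 0) (P.cons (P.lf 0 9813374 0) (P.cons (P.lf 0 2605074 0) (P.cons (P.lf 140212 0 0) P.nil))))) (P.cons (P.cons (P.lf 6481160 0 0) (P.cons (P.lf 168478 0 0) (P.cons (P.lf 0 247132 0) (P.cons (P.lf 142404 0 0) P.nil)))) (P.cons (P.cons (P.lf 0 621324 0) (P.cons (P.lf 0 331600 0) (P.cons (P.lf 122048 0 0) P.nil))) (P.cons (P.cons (P.lf 0 117042 0) (P.cons (P.lf 0 16860 0) P.nil)) (P.cons (P.cons (P.lf 0 966 0) P.nil) P.nil)))))) 238774)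
 EL.nil)))
noncomputable def S227_241_660_808_6 : EL := (EL.cons 12 (TM.mk (P.lf 8589934592 0 0) 0)
 (EL.cons 3 (TM.mk (P.cons (P.lf 0 685729796 0) (P.cons (P.lf 214195188 0 0) (P.cons (P.lf 1881828 0 0) (P.cons (P.lf 0 187398 0) (P.cons (P.lf 0 2831 0) (P.cons (P.lf 153 0 0) P.nil)))))) 44)
 (EL.cons 7 (TM.mk (P.cons (P.lf 0 2108197044 0) (P.cons (P.lf 0 24771881 0) (P.cons (P.lf 3796786 0 0) (P.cons (P.lf 45040 0 0) (P.cons (P.lf 0 3252 0) (P.cons (P.lf 0 61 0) P.nil)))))) 51)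
 EL.nil)))
noncomputable def S227_241_660_808_7 : EL := (EL.cons 12 (TM.mk (P.cons (P.cons (P.lf 0 3274410618 0) (P.cons (P.lf 0 768179632 0) (P.cons (P.lf 331247720 0 0) (P.lf 36805296 0 0)))) (P.cons (P.cons (P.lf 0 419461852 0) (P.cons (P.lf 0 27078944 0) (P.cons (P.lf 11676744 0 0) (P.lf 1297408 0 0)))) (P.cons (P.cons (P.lf 0 4230236 0) (P.cons (P.lf 3832200 0 0) (P.cons (P.lf 0 1652488 0) (P.lf 0 183608 0)))) (P.cons (P.cons (P.lf 3063054 0 0) (P.cons (P.lf 145520 0 0) (P.cons (P.lf 0 62744 0) P.nil))) (P.cons (P.cons (P.lf 54438 0 0) (P.cons (P.lf 0 9296 0) P.nil)) (P.cons (P.cons (P.lf 0 7286 0) P.nil) P.nil)))))) 14492)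
 (EL.cons 3 (TM.mk (P.cons (P.cons (P.lf 0 2588362739 0) (P.cons (P.lf 0 122646720 0) (P.cons (P.lf 52886648 0 0) (P.lf 5876292 0 0)))) (P.cons (P.cons (P.lf 0 122540311 0) (P.cons (P.lf 33986646 0 0) (P.cons (P.lf 0 14655424 0) (P.lf 0 1628380 0)))) (P.cons (P.cons (P.lf 53938408 0 0) (P.cons (P.lf 2298878 0 0) (P.cons (P.lf 0 991300 0) (P.lf 0 110142 0)))) (P.cons (P.cons (P.lf 1533046 0 0) (P.cons (P.lf 0 189534 0) (P.cons (P.lf 81728 0 0) P.nil))) (P.cons (P.cons (P.lf 0 216948 0) (P.cons (P.lf 0 12106 0) P.nil)) (P.cons (P.cons (P.lf 0 7149 0) P.nil) P.nil)))))) 41609)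
 (EL.cons 7 (TM.mk (P.cons (P.cons (P.lf 1133204121 0 0) (P.cons (P.lf 209807911 0 0) (P.cons (P.lf 0 90471541 0) (P.lf 0 10052395 0)))) (P.cons (P.cons (P.lf 14171912 0 0) (P.cons (P.lf 0 3930587 0) (P.cons (P.lf 1694911 0 0) (P.lf 188321 0 0)))) (P.cons (P.cons (P.lf 0 8534665 0) (P.cons (P.lf 371104 0 0) (P.cons (P.lf 0 160024 0) (P.lf 0 17778 0)))) (P.cons (P.cons (P.lf 1184105 0 0) (P.cons (P.lf 75610 0 0) (P.cons (P.lf 0 32602 0) P.nil))) (P.cons (P.cons (P.lf 58110 0 0) (P.cons (P.lf 0 3991 0) P.nil)) (P.cons (P.cons (P.lf 0 5157 0) P.nil) P.nil)))))) 30249)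
 (EL.cons 10 (TM.mk (P.cons (P.cons (P.lf 0 1226272680 0) (P.cons (P.lf 1142386443 0 0) (P.cons (P.lf 117246012 0 0) (P.cons (P.lf 0 24383907 0) (P.lf 0 2031990 0))))) (P.cons (P.cons (P.lf 0 28818066 0) (P.cons (P.lf 26846694 0 0) (P.cons (P.lf 2755344 0 0) (P.cons (P.lf 0 573033 0) (P.lf 0 47751 0))))) (P.cons (P.cons (P.lf 4247634 0 0) (P.cons (P.lf 0 3957063 0) (P.cons (P.lf 0 406122 0) (P.cons (P.lf 84462 0 0) P.nil)))) (P.cons (P.cons (P.lf 104295 0 0) (P.cons (P.lf 0 97161 0) (P.cons (P.lf 0 9972 0) P.nil))) (P.cons (P.cons (P.lf 0 7143 0) (P.cons (P.lf 6654 0 0) P.nil)) (P.cons (P.cons (P.lf 0 207 0) P.nil) P.nil)))))) 10608)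
 EL.nil))))
noncomputable def S227_241_660_808_8 : EL := (EL.cons 12 (TM.mk (P.cons (P.cons (P.lf 1248177710 0 0) (P.cons (P.lf 585647192 0 0) (P.cons (P.lf 0 183840998 0) (P.cons (P.lf 0 87305298 0) (P.cons (P.lf 6190838 0 0) (P.cons (P.lf 2838594 0 0) P.nil)))))) (P.cons (P.cons (P.lf 319790640 0 0) (P.cons (P.lf 95667696 0 0) (P.cons (P.lf 0 36409762 0) (P.cons (P.lf 0 8760564 0) (P.cons (P.lf 436464 0 0) P.nil))))) (P.cons (P.cons (P.lf 23708132 0 0) (P.cons (P.lf 479622 0 0) (P.cons (P.lf 0 806866 0) (P.cons (P.lf 494512 0 0) P.nil)))) (P.cons (P.cons (P.lf 0 1922080 0) (P.cons (P.lf 0 1006382 0) (P.cons (P.lf 383770 0 0) P.nil))) (P.cons (P.cons (P.lf 0 338568 0) (P.cons (P.lf 0 39946 0) P.nil)) (P.cons (P.cons (P.lf 0 2778 0) P.nil) P.nil)))))) 779678)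
 (EL.cons 3 (TM.mk (P.cons (P.cons (P.lf 2072965435 0 0) (P.cons (P.lf 603199263 0 0) (P.cons (P.lf 0 232686231 0) (P.cons (P.lf 0 52548397 0) (P.cons (P.lf 2471056 0 0) (P.cons (P.lf 1133015 0 0) P.nil)))))) (P.cons (P.cons (P.lf 340616065 0 0) (P.cons (P.lf 17337076 0 0) (P.cons (P.lf 0 14107742 0) (P.cons (P.lf 4888762 0 0) (P.cons (P.lf 0 597645 0) P.nil))))) (P.cons (P.cons (P.lf 0 32959664 0) (P.cons (P.lf 0 18610702 0) (P.cons (P.lf 7106541 0 0) (P.cons (P.lf 1683898 0 0) P.nil)))) (P.cons (P.cons (P.lf 0 8949281 0) (P.cons (P.lf 0 1112738 0) (P.cons (P.lf 536790 0 0) P.nil))) (P.cons (P.cons (P.lf 0 134550 0) (P.cons (P.lf 150952 0 0) P.nil)) (P.cons (P.cons (P.lf 75671 0 0) P.nil) P.nil)))))) 1468223)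
 (EL.cons 7 (TM.mk (P.cons (P.cons (P.lf 0 557599896 0) (P.cons (P.lf 0 218900787 0) (P.cons (P.lf 73727117 0 0) (P.cons (P.lf 28310336 0 0) (P.cons (P.lf 0 1862325 0) (P.cons (P.lf 0 853902 0) P.nil)))))) (P.cons (P.cons (P.lf 0 39392589 0) (P.cons (P.lf 0 2005052 0) (P.cons (P.lf 1631577 0 0) (P.cons (P.lf 0 565381 0) (P.cons (P.lf 69115 0 0) P.nil))))) (P.cons (P.cons (P.lf 10195599 0 0) (P.cons (P.lf 2477274 0 0) (P.cons (P.lf 0 1086281 0) (P.cons (P.lf 0 103125 0) P.nil)))) (P.cons (P.cons (P.lf 173744 0 0) (P.cons (P.lf 0 338285 0) (P.cons (P.lf 117061 0 0) P.nil))) (P.cons (P.cons (P.lf 0 227389 0) (P.cons (P.lf 0 45495 0) P.nil)) (P.cons (P.cons (P.lf 0 11540 0) P.nil) P.nil)))))) 622624)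
 (EL.cons 10 (TM.mk (P.cons (P.cons (P.lf 934889604 0 0) (P.cons (P.lf 0 651610224 0) (P.cons (P.lf 0 388284588 0) (P.cons (P.lf 75217452 0 0) (P.cons (P.lf 24742476 0 0) (P.cons (P.lf 0 512436 0) P.nil)))))) (P.cons (P.cons (P.lf 141732576 0 0) (P.cons (P.lf 0 119151312 0) (P.cons (P.lf 0 31111956 0) (P.cons (P.lf 6145236 0 0) (P.cons (P.lf 1597488 0 0) P.nil))))) (P.cons (P.cons (P.lf 783936 0 0) (P.cons (P.lf 0 2402478 0) (P.cons (P.lf 2203878 0 0) (P.cons (P.lf 0 416142 0) P.nil)))) (P.cons (P.cons (P.lf 0 1340508 0) (P.cons (P.lf 1136112 0 0) (P.cons (P.lf 281748 0 0) P.nil))) (P.cons (P.cons (P.lf 0 45018 0) (P.cons (P.lf 48024 0 0) P.nil)) (P.cons (P.cons (P.lf 5496 0 0) P.nil) P.nil)))))) 999018)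
 EL.nil))))
noncomputable def S227_241_660_808_9 : EL := (EL.cons 3 (TM.mk (P.cons (P.lf 0 685729796 0) (P.cons (P.lf 214195188 0 0) (P.cons (P.lf 1881828 0 0) (P.cons (P.lf 0 187398 0) (P.cons (P.lf 0 2831 0) (P.cons (P.lf 153 0 0) P.nil)))))) 44)
 (EL.cons 7 (TM.mk (P.cons (P.lf 0 2108197044 0) (P.cons (P.lf 0 24771881 0) (P.cons (P.lf 3796786 0 0) (P.cons (P.lf 45040 0 0) (P.cons (P.lf 0 3252 0) (P.cons (P.lf 0 61 0) P.nil)))))) 51)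
 EL.nil))
noncomputable def S227_241_660_808_10 : EL := (EL.cons 3 (TM.mk (P.cons (P.cons (P.lf 261394414 0 0) (P.cons (P.lf 61323360 0 0) (P.cons (P.lf 0 26443324 0) (P.lf 0 2938146 0)))) (P.cons (P.cons (P.lf 0 48163987 0) (P.cons (P.lf 0 16993323 0) (P.cons (P.lf 7327712 0 0) (P.lf 814190 0 0)))) (P.cons (P.cons (P.lf 0 10839173 0) (P.cons (P.lf 0 1149439 0) (P.cons (P.lf 495650 0 0) (P.lf 55071 0 0)))) (P.cons (P.cons (P.lf 0 370463 0) (P.cons (P.lf 94767 0 0) (P.cons (P.lf 0 40864 0) P.nil))) (P.cons (P.cons (P.lf 81336 0 0) (P.cons (P.lf 6053 0 0) P.nil)) (P.cons (P.cons (P.lf 2781 0 0) P.nil) P.nil)))))) 10333)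
 (EL.cons 7 (TM.mk (P.cons (P.cons (P.lf 803626932 0 0) (P.cons (P.lf 188531590 0 0) (P.cons (P.lf 0 81296947 0) (P.lf 0 9032992 0)))) (P.cons (P.cons (P.lf 112389860 0 0) (P.cons (P.lf 8861185 0 0) (P.cons (P.lf 0 3821042 0) (P.lf 0 424558 0)))) (P.cons (P.cons (P.lf 800564 0 0) (P.cons (P.lf 0 1201970 0) (P.cons (P.lf 518303 0 0) (P.lf 57588 0 0)))) (P.cons (P.cons (P.lf 0 942127 0) (P.cons (P.lf 0 62762 0) (P.cons (P.lf 27062 0 0) P.nil))) (P.cons (P.cons (P.lf 0 25023 0) (P.cons (P.lf 3704 0 0) P.nil)) (P.cons (P.cons (P.lf 3144 0 0) P.nil) P.nil)))))) 6398)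
 EL.nil))
noncomputable def S227_241_660_808_11 : EL := (EL.cons 3 (TM.mk (P.cons (P.cons (P.lf 0 99641345 0) (P.cons (P.lf 0 46751895 0) (P.cons (P.lf 14675925 0 0) (P.cons (P.lf 6969533 0 0) (P.cons (P.lf 0 494210 0) (P.cons (P.lf 0 226603 0) P.nil)))))) (P.cons (P.cons (P.lf 5595349 0 0) (P.cons (P.lf 6966364 0 0) (P.cons (P.lf 0 1677614 0) (P.cons (P.lf 0 1477658 0) (P.cons (P.lf 119529 0 0) P.nil))))) (P.cons (P.cons (P.lf 6355006 0 0) (P.cons (P.lf 2475542 0 0) (P.cons (P.lf 0 883761 0) (P.cons (P.lf 0 277052 0) P.nil)))) (P.cons (P.cons (P.lf 787441 0 0) (P.cons (P.lf 100480 0 0) (P.cons (P.lf 0 54720 0) P.nil))) (P.cons (P.cons (P.lf 0 23094 0) (P.cons (P.lf 0 24080 0) P.nil)) (P.cons (P.cons (P.lf 0 9241 0) P.nil) P.nil)))))) 194611)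
 (EL.cons 7 (TM.mk (P.cons (P.cons (P.lf 0 306335808 0) (P.cons (P.lf 0 143733303 0) (P.cons (P.lf 45119441 0 0) (P.cons (P.lf 21427028 0 0) (P.cons (P.lf 0 1519395 0) (P.cons (P.lf 0 696666 0) P.nil)))))) (P.cons (P.cons (P.lf 0 82084605 0) (P.cons (P.lf 0 25168286 0) (P.cons (P.lf 9466083 0 0) (P.cons (P.lf 2401847 0 0) (P.cons (P.lf 0 124973 0) P.nil))))) (P.cons (P.cons (P.lf 0 6189123 0) (P.cons (P.lf 0 134742 0) (P.cons (P.lf 221767 0 0) (P.cons (P.lf 0 134691 0) P.nil)))) (P.cons (P.cons (P.lf 551252 0 0) (P.cons (P.lf 290965 0 0) (P.cons (P.lf 0 108917 0) P.nil))) (P.cons (P.cons (P.lf 100319 0 0) (P.cons (P.lf 13197 0 0) P.nil)) (P.cons (P.cons (P.lf 802 0 0) P.nil) P.nil)))))) 216456)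
 EL.nil))
noncomputable def S227_241_660_808_12 : EL := (EL.cons 4 (TM.mk (P.cons (P.lf 685729796 0 0) (P.cons (P.lf 0 214195188 0) (P.cons (P.lf 0 1881828 0) (P.cons (P.lf 187398 0 0) (P.cons (P.lf 2831 0 0) (P.cons (P.lf 0 153 0) P.nil)))))) 44)
 (EL.cons 8 (TM.mk (P.cons (P.lf 2108197044 0 0) (P.cons (P.lf 24771881 0 0) (P.cons (P.lf 0 3796786 0) (P.cons (P.lf 0 45040 0) (P.cons (P.lf 3252 0 0) (P.cons (P.lf 61 0 0) P.nil)))))) 51)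
 EL.nil))
noncomputable def S227_241_660_808_13 : EL := (EL.cons 4 (TM.mk (P.cons (P.cons (P.lf 0 261394414 0) (P.cons (P.lf 0 61323360 0) (P.cons (P.lf 26443324 0 0) (P.lf 2938146 0 0)))) (P.cons (P.cons (P.lf 48163987 0 0) (P.cons (P.lf 16993323 0 0) (P.cons (P.lf 0 7327712 0) (P.lf 0 814190 0)))) (P.cons (P.cons (P.lf 10839173 0 0) (P.cons (P.lf 1149439 0 0) (P.cons (P.lf 0 495650 0) (P.lf 0 55071 0)))) (P.cons (P.cons (P.lf 370463 0 0) (P.cons (P.lf 0 94767 0) (P.cons (P.lf 40864 0 0) P.nil))) (P.cons (P.cons (P.lf 0 81336 0) (P.cons (P.lf 0 6053 0) P.nil)) (P.cons (P.cons (P.lf 0 2781 0) P.nil) P.nil)))))) 10333)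
 (EL.cons 8 (TM.mk (P.cons (P.cons (P.lf 0 803626932 0) (P.cons (P.lf 0 188531590 0) (P.cons (P.lf 81296947 0 0) (P.lf 9032992 0 0)))) (P.cons (P.cons (P.lf 0 112389860 0) (P.cons (P.lf 0 8861185 0) (P.cons (P.lf 3821042 0 0) (P.lf 424558 0 0)))) (P.cons (P.cons (P.lf 0 800564 0) (P.cons (P.lf 1201970 0 0) (P.cons (P.lf 0 518303 0) (P.lf 0 57588 0)))) (P.cons (P.cons (P.lf 942127 0 0) (P.cons (P.lf 62762 0 0) (P.cons (P.lf 0 27062 0) P.nil))) (P.cons (P.cons (P.lf 25023 0 0) (P.cons (P.lf 0 3704 0) P.nil)) (P.cons (P.cons (P.lf 0 3144 0) P.nil) P.nil)))))) 6398)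
 EL.nil))
noncomputable def S227_241_660_808_14 : EL := (EL.cons 4 (TM.mk (P.cons (P.cons (P.lf 99641345 0 0) (P.cons (P.lf 46751895 0 0) (P.cons (P.lf 0 14675925 0) (P.cons (P.lf 0 6969533 0) (P.cons (P.lf 494210 0 0) (P.cons (P.lf 226603 0 0) P.nil)))))) (P.cons (P.cons (P.lf 0 5595349 0) (P.cons (P.lf 0 6966364 0) (P.cons (P.lf 1677614 0 0) (P.cons (P.lf 1477658 0 0) (P.cons (P.lf 0 119529 0) P.nil))))) (P.cons (P.cons (P.lf 0 6355006 0) (P.cons (P.lf 0 2475542 0) (P.cons (P.lf 883761 0 0) (P.cons (P.lf 277052 0 0) P.nil)))) (P.cons (P.cons (P.lf 0 787441 0) (P.cons (P.lf 0 100480 0) (P.cons (P.lf 54720 0 0) P.nil))) (P.cons (P.cons (P.lf 23094 0 0) (P.cons (P.lf 24080 0 0) P.nil)) (P.cons (P.cons (P.lf 9241 0 0) P.nil) P.nil)))))) 194611)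
 (EL.cons 8 (TM.mk (P.cons (P.cons (P.lf 306335808 0 0) (P.cons (P.lf 143733303 0 0) (P.cons (P.lf 0 45119441 0) (P.cons (P.lf 0 21427028 0) (P.cons (P.lf 1519395 0 0) (P.cons (P.lf 696666 0 0) P.nil)))))) (P.cons (P.cons (P.lf 82084605 0 0) (P.cons (P.lf 25168286 0 0) (P.cons (P.lf 0 9466083 0) (P.cons (P.lf 0 2401847 0) (P.cons (P.lf 124973 0 0) P.nil))))) (P.cons (P.cons (P.lf 6189123 0 0) (P.cons (P.lf 134742 0 0) (P.cons (P.lf 0 221767 0) (P.cons (P.lf 134691 0 0) P.nil)))) (P.cons (P.cons (P.lf 0 551252 0) (P.cons (P.lf 0 290965 0) (P.cons (P.lf 108917 0 0) P.nil))) (P.cons (P.cons (P.lf 0 100319 0) (P.cons (P.lf 0 13197 0) P.nil)) (P.cons (P.cons (P.lf 0 802 0) P.nil) P.nil)))))) 216456)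
 EL.nil))
noncomputable def S227_241_660_808_15 : EL := (EL.cons 4 (TM.mk (P.cons (P.lf 0 116781729 0) (P.cons (P.lf 72956096 0 0) (P.cons (P.lf 0 10753354 0) (P.cons (P.lf 0 264040 0) (P.cons (P.lf 18093 0 0) (P.cons (P.lf 528 0 0) P.nil)))))) 57)
 (EL.cons 8 (TM.mk (P.cons (P.lf 0 359031937 0) (P.cons (P.lf 107928824 0 0) (P.cons (P.lf 2949648 0 0) (P.cons (P.lf 0 280843 0) (P.cons (P.lf 0 7359 0) (P.cons (P.lf 381 0 0) P.nil)))))) 49)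
 EL.nil))
noncomputable def S227_241_660_808_16 : EL := (EL.cons 4 (TM.mk (P.cons (P.cons (P.lf 44516209 0 0) (P.cons (P.lf 10443541 0 0) (P.cons (P.lf 0 4503373 0) (P.lf 0 500374 0)))) (P.cons (P.cons (P.lf 0 22107587 0) (P.cons (P.lf 0 6156165 0) (P.cons (P.lf 2654608 0 0) (P.lf 294956 0 0)))) (P.cons (P.cons (P.lf 594021 0 0) (P.cons (P.lf 679562 0 0) (P.cons (P.lf 0 293034 0) (P.lf 0 32559 0)))) (P.cons (P.cons (P.lf 548184 0 0) (P.cons (P.lf 88080 0 0) (P.cons (P.lf 0 37980 0) P.nil))) (P.cons (P.cons (P.lf 36566 0 0) (P.cons (P.lf 0 4220 0) P.nil)) (P.cons (P.cons (P.lf 0 4228 0) P.nil) P.nil)))))) 9703)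
 (EL.cons 8 (TM.mk (P.cons (P.cons (P.lf 136859946 0 0) (P.cons (P.lf 32107464 0 0) (P.cons (P.lf 0 13845100 0) (P.lf 0 1538344 0)))) (P.cons (P.cons (P.lf 0 23609386 0) (P.cons (P.lf 0 8520031 0) (P.cons (P.lf 3673933 0 0) (P.lf 408215 0 0)))) (P.cons (P.cons (P.lf 0 6217927 0) (P.cons (P.lf 0 764189 0) (P.cons (P.lf 329526 0 0) (P.lf 36613 0 0)))) (P.cons (P.cons (P.lf 0 218158 0) (P.cons (P.lf 57884 0 0) (P.cons (P.lf 0 24960 0) P.nil))) (P.cons (P.cons (P.lf 51277 0 0) (P.cons (P.lf 5075 0 0) P.nil)) (P.cons (P.cons (P.lf 2392 0 0) P.nil) P.nil)))))) 7849)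
 EL.nil))
noncomputable def S227_241_660_808_17 : EL := (EL.cons 4 (TM.mk (P.cons (P.cons (P.lf 0 16969203 0) (P.cons (P.lf 0 7961980 0) (P.cons (P.lf 2499351 0 0) (P.cons (P.lf 1186931 0 0) (P.cons (P.lf 0 84165 0) (P.cons (P.lf 0 38590 0) P.nil)))))) (P.cons (P.cons (P.lf 6253419 0 0) (P.cons (P.lf 3673402 0 0) (P.cons (P.lf 0 1066401 0) (P.cons (P.lf 0 622399 0) (P.cons (P.lf 46646 0 0) P.nil))))) (P.cons (P.cons (P.lf 831193 0 0) (P.cons (P.lf 72858 0 0) (P.cons (P.lf 0 68123 0) (P.cons (P.lf 28165 0 0) P.nil)))) (P.cons (P.cons (P.lf 0 211209 0) (P.cons (P.lf 0 120008 0) (P.cons (P.lf 39160 0 0) P.nil))) (P.cons (P.cons (P.lf 0 48600 0) (P.cons (P.lf 0 10311 0) P.nil)) (P.cons (P.cons (P.lf 0 409 0) P.nil) P.nil)))))) 86146)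
 (EL.cons 8 (TM.mk (P.cons (P.cons (P.lf 0 52169857 0) (P.cons (P.lf 0 24478189 0) (P.cons (P.lf 7683968 0 0) (P.cons (P.lf 3649083 0 0) (P.cons (P.lf 0 258757 0) (P.cons (P.lf 0 118644 0) P.nil)))))) (P.cons (P.cons (P.lf 2316583 0 0) (P.cons (P.lf 3359798 0 0) (P.cons (P.lf 0 788070 0) (P.cons (P.lf 0 730789 0) (P.cons (P.lf 59542 0 0) P.nil))))) (P.cons (P.cons (P.lf 3455711 0 0) (P.cons (P.lf 1383078 0 0) (P.cons (P.lf 0 486876 0) (P.cons (P.lf 0 160720 0) P.nil)))) (P.cons (P.cons (P.lf 447221 0 0) (P.cons (P.lf 61793 0 0) (P.cons (P.lf 0 32669 0) P.nil))) (P.cons (P.cons (P.lf 0 13382 0) (P.cons (P.lf 0 14439 0) P.nil)) (P.cons (P.cons (P.lf 0 5791 0) P.nil) P.nil)))))) 111356)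
 EL.nil))
noncomputable def S227_241_660_808_18 : EL := (EL.cons 4 (TM.mk (P.cons (P.lf 19888259 0 0) (P.cons (P.lf 0 18636945 0) (P.cons (P.lf 5657716 0 0) (P.cons (P.lf 0 487535 0) (P.cons (P.lf 0 25466 0) (P.cons (P.lf 1193 0 0) P.nil)))))) 87)
 (EL.cons 8 (TM.mk (P.cons (P.lf 61144157 0 0) (P.cons (P.lf 0 37479629 0) (P.cons (P.lf 5071246 0 0) (P.cons (P.lf 271888 0 0) (P.cons (P.lf 0 17078 0) (P.cons (P.lf 0 814 0) P.nil)))))) 70)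
 EL.nil))
noncomputable def S227_241_660_808_19 : EL := (EL.cons 4 (TM.mk (P.cons (P.cons (P.lf 0 7581236 0) (P.cons (P.lf 0 1778564 0) (P.cons (P.lf 766936 0 0) (P.lf 85215 0 0)))) (P.cons (P.cons (P.lf 6133066 0 0) (P.cons (P.lf 1603965 0 0) (P.cons (P.lf 0 691648 0) (P.lf 0 76849 0)))) (P.cons (P.cons (P.lf 0 1256392 0) (P.cons (P.lf 0 438333 0) (P.cons (P.lf 189014 0 0) (P.lf 21000 0 0)))) (P.cons (P.cons (P.lf 0 74161 0) (P.cons (P.lf 17786 0 0) (P.cons (P.lf 0 7668 0) P.nil))) (P.cons (P.cons (P.lf 24208 0 0) (P.cons (P.lf 6000 0 0) P.nil)) (P.cons (P.cons (P.lf 2910 0 0) P.nil) P.nil)))))) 7785)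
 (EL.cons 8 (TM.mk (P.cons (P.cons (P.lf 0 23307636 0) (P.cons (P.lf 0 5467992 0) (P.cons (P.lf 2357859 0 0) (P.lf 261984 0 0)))) (P.cons (P.cons (P.lf 11301140 0 0) (P.cons (P.lf 3158972 0 0) (P.cons (P.lf 0 1362184 0) (P.lf 0 151353 0)))) (P.cons (P.cons (P.lf 0 133029 0) (P.cons (P.lf 0 308081 0) (P.cons (P.lf 132847 0 0) (P.lf 14760 0 0)))) (P.cons (P.cons (P.lf 0 311019 0) (P.cons (P.lf 0 55985 0) (P.cons (P.lf 24141 0 0) P.nil))) (P.cons (P.cons (P.lf 0 22240 0) (P.cons (P.lf 2231 0 0) P.nil)) (P.cons (P.cons (P.lf 2529 0 0) P.nil) P.nil)))))) 6463)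
 EL.nil))
noncomputable def S227_241_660_808_20 : EL := (EL.cons 4 (TM.mk (P.cons (P.cons (P.lf 2889902 0 0) (P.cons (P.lf 1355947 0 0) (P.cons (P.lf 0 425646 0) (P.cons (P.lf 0 202137 0) (P.cons (P.lf 14333 0 0) (P.cons (P.lf 6571 0 0) P.nil)))))) (P.cons (P.cons (P.lf 0 1967667 0) (P.cons (P.lf 0 1049135 0) (P.cons (P.lf 314565 0 0) (P.cons (P.lf 169136 0 0) (P.cons (P.lf 0 12420 0) P.nil))))) (P.cons (P.cons (P.lf 183170 0 0) (P.cons (P.lf 179280 0 0) (P.cons (P.lf 0 43958 0) (P.cons (P.lf 0 37350 0) P.nil)))) (P.cons (P.cons (P.lf 83897 0 0) (P.cons (P.lf 26400 0 0) (P.cons (P.lf 0 10906 0) P.nil))) (P.cons (P.cons (P.lf 0 2849 0) (P.cons (P.lf 0 4758 0) P.nil)) (P.cons (P.cons (P.lf 0 2657 0) P.nil) P.nil)))))) 37147)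
 (EL.cons 8 (TM.mk (P.cons (P.cons (P.lf 8884674 0 0) (P.cons (P.lf 4168704 0 0) (P.cons (P.lf 0 1308601 0) (P.cons (P.lf 0 621449 0) (P.cons (P.lf 44066 0 0) (P.cons (P.lf 20204 0 0) P.nil)))))) (P.cons (P.cons (P.lf 0 3169745 0) (P.cons (P.lf 0 1874323 0) (P.cons (P.lf 542966 0 0) (P.cons (P.lf 318571 0 0) (P.cons (P.lf 0 23905 0) P.nil))))) (P.cons (P.cons (P.lf 0 489666 0) (P.cons (P.lf 0 68254 0) (P.cons (P.lf 44585 0 0) (P.cons (P.lf 0 9798 0) P.nil)))) (P.cons (P.cons (P.lf 111177 0 0) (P.cons (P.lf 65760 0 0) (P.cons (P.lf 0 21061 0) P.nil))) (P.cons (P.cons (P.lf 27613 0 0) (P.cons (P.lf 6253 0 0) P.nil)) (P.cons (P.cons (P.lf 318 0 0) P.nil) P.nil)))))) 47825)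
 EL.nil))
noncomputable def S227_241_660_808_21 : EL := (EL.cons 4 (TM.mk (P.cons (P.cons (P.lf 2849757153 0 0) (P.cons (P.lf 183970080 0 0) (P.cons (P.lf 0 79329972 0) (P.lf 0 8814438 0)))) (P.cons (P.cons (P.lf 74376324 0 0) (P.cons (P.lf 0 50979969 0) (P.cons (P.lf 21983136 0 0) (P.lf 2442570 0 0)))) (P.cons (P.cons (P.lf 0 64777581 0) (P.cons (P.lf 0 3448317 0) (P.cons (P.lf 1486950 0 0) (P.lf 165213 0 0)))) (P.cons (P.cons (P.lf 0 1903509 0) (P.cons (P.lf 284301 0 0) (P.cons (P.lf 0 122592 0) P.nil))) (P.cons (P.cons (P.lf 298284 0 0) (P.cons (P.lf 18159 0 0) P.nil)) (P.cons (P.cons (P.lf 9930 0 0) P.nil) P.nil)))))) 31257)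
 (EL.cons 8 (TM.mk (P.cons (P.cons (P.lf 0 329577189 0) (P.cons (P.lf 0 21276321 0) (P.cons (P.lf 9174594 0 0) (P.lf 1019403 0 0)))) (P.cons (P.cons (P.lf 98217948 0 0) (P.cons (P.lf 12791772 0 0) (P.cons (P.lf 0 5515953 0) (P.lf 0 612879 0)))) (P.cons (P.cons (P.lf 9335229 0 0) (P.cons (P.lf 0 1573074 0) (P.cons (P.lf 678327 0 0) (P.lf 75366 0 0)))) (P.cons (P.cons (P.lf 0 2126232 0) (P.cons (P.lf 0 138372 0) (P.cons (P.lf 59664 0 0) P.nil))) (P.cons (P.cons (P.lf 0 83133 0) (P.cons (P.lf 7695 0 0) P.nil)) (P.cons (P.cons (P.lf 8301 0 0) P.nil) P.nil)))))) 23832)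
 (EL.cons 11 (TM.mk (P.cons (P.cons (P.lf 1226272680 0 0) (P.cons (P.lf 0 1142386443 0) (P.cons (P.lf 0 117246012 0) (P.cons (P.lf 24383907 0 0) (P.lf 2031990 0 0))))) (P.cons (P.cons (P.lf 28818066 0 0) (P.cons (P.lf 0 26846694 0) (P.cons (P.lf 0 2755344 0) (P.cons (P.lf 573033 0 0) (P.lf 47751 0 0))))) (P.cons (P.cons (P.lf 0 4247634 0) (P.cons (P.lf 3957063 0 0) (P.cons (P.lf 406122 0 0) (P.cons (P.lf 0 84462 0) P.nil)))) (P.cons (P.cons (P.lf 0 104295 0) (P.cons (P.lf 97161 0 0) (P.cons (P.lf 9972 0 0) P.nil))) (P.cons (P.cons (P.lf 7143 0 0) (P.cons (P.lf 0 6654 0) P.nil)) (P.cons (P.cons (P.lf 207 0 0) P.nil) P.nil)))))) 10608)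
 EL.nil)))
noncomputable def S227_241_660_808_22 : EL := (EL.cons 4 (TM.mk (P.cons (P.cons (P.lf 0 1086303390 0) (P.cons (P.lf 0 324975579 0) (P.cons (P.lf 123681078 0 0) (P.cons (P.lf 29758965 0 0) (P.cons (P.lf 0 1482633 0) (P.cons (P.lf 0 679809 0) P.nil)))))) (P.cons (P.cons (P.lf 0 167510358 0) (P.cons (P.lf 0 5185356 0) (P.cons (P.lf 6215064 0 0) (P.cons (P.lf 0 3183210 0) (P.cons (P.lf 358587 0 0) P.nil))))) (P.cons (P.cons (P.lf 19657335 0 0) (P.cons (P.lf 10543122 0 0) (P.cons (P.lf 0 3995151 0) (P.cons (P.lf 0 980475 0) P.nil)))) (P.cons (P.cons (P.lf 4868361 0 0) (P.cons (P.lf 606609 0 0) (P.cons (P.lf 0 295755 0) P.nil))) (P.cons (P.cons (P.lf 55728 0 0) (P.cons (P.lf 0 87516 0) P.nil)) (P.cons (P.cons (P.lf 0 42456 0) P.nil) P.nil)))))) 636795)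
 (EL.cons 8 (TM.mk (P.cons (P.cons (P.lf 125632044 0 0) (P.cons (P.lf 37583742 0 0) (P.cons (P.lf 0 14303838 0) (P.cons (P.lf 0 3441654 0) (P.cons (P.lf 171465 0 0) (P.cons (P.lf 78618 0 0) P.nil)))))) (P.cons (P.cons (P.lf 0 21346008 0) (P.cons (P.lf 0 11581617 0) (P.cons (P.lf 3917253 0 0) (P.cons (P.lf 1483614 0 0) (P.cons (P.lf 0 97044 0) P.nil))))) (P.cons (P.cons (P.lf 0 8192361 0) (P.cons (P.lf 0 1306008 0) (P.cons (P.lf 654024 0 0) (P.cons (P.lf 0 15783 0) P.nil)))) (P.cons (P.cons (P.lf 188754 0 0) (P.cons (P.lf 314625 0 0) (P.cons (P.lf 0 112989 0) P.nil))) (P.cons (P.cons (P.lf 163854 0 0) (P.cons (P.lf 29346 0 0) P.nil)) (P.cons (P.cons (P.lf 6171 0 0) P.nil) P.nil)))))) 203073)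
 (EL.cons 11 (TM.mk (P.cons (P.cons (P.lf 0 467444802 0) (P.cons (P.lf 325805112 0 0) (P.cons (P.lf 194142294 0 0) (P.cons (P.lf 0 37608726 0) (P.cons (P.lf 0 12371238 0) (P.cons (P.lf 256218 0 0) P.nil)))))) (P.cons (P.cons (P.lf 0 70866288 0) (P.cons (P.lf 59575656 0 0) (P.cons (P.lf 15555978 0 0) (P.cons (P.lf 0 3072618 0) (P.cons (P.lf 0 798744 0) P.nil))))) (P.cons (P.cons (P.lf 0 391968 0) (P.cons (P.lf 1201239 0 0) (P.cons (P.lf 0 1101939 0) (P.cons (P.lf 208071 0 0) P.nil)))) (P.cons (P.cons (P.lf 670254 0 0) (P.cons (P.lf 0 568056 0) (P.cons (P.lf 0 140874 0) P.nil))) (P.cons (P.cons (P.lf 22509 0 0) (P.cons (P.lf 0 24012 0) P.nil)) (P.cons (P.cons (P.lf 0 2748 0) P.nil) P.nil)))))) 499509)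
 EL.nil)))
noncomputable def S227_241_660_808_23 : EL := (EL.cons 4 (TM.mk (P.cons (P.cons (P.lf 0 485321727 0) (P.cons (P.lf 0 31330626 0) (P.cons (P.lf 13510119 0 0) (P.lf 1501122 0 0)))) (P.cons (P.cons (P.lf 138929040 0 0) (P.cons (P.lf 18468495 0 0) (P.cons (P.lf 0 7963821 0) (P.lf 0 884868 0)))) (P.cons (P.cons (P.lf 16320177 0 0) (P.cons (P.lf 0 2038689 0) (P.cons (P.lf 879105 0 0) (P.lf 97677 0 0)))) (P.cons (P.cons (P.lf 0 3219600 0) (P.cons (P.lf 0 264240 0) (P.cons (P.lf 113943 0 0) P.nil))) (P.cons (P.cons (P.lf 0 187797 0) (P.cons (P.lf 12660 0 0) P.nil)) (P.cons (P.cons (P.lf 16356 0 0) P.nil) P.nil)))))) 28242)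
 (EL.cons 8 (TM.mk (P.cons (P.cons (P.lf 56127930 0 0) (P.cons (P.lf 3623415 0 0) (P.cons (P.lf 0 1562457 0) (P.lf 0 173607 0)))) (P.cons (P.cons (P.lf 0 34258965 0) (P.cons (P.lf 0 3310287 0) (P.cons (P.lf 1427433 0 0) (P.lf 158601 0 0)))) (P.cons (P.cons (P.lf 3480948 0 0) (P.cons (P.lf 938424 0 0) (P.cons (P.lf 0 404658 0) (P.lf 0 44961 0)))) (P.cons (P.cons (P.lf 919941 0 0) (P.cons (P.lf 0 53145 0) (P.cons (P.lf 22917 0 0) P.nil))) (P.cons (P.cons (P.lf 0 98925 0) (P.cons (P.lf 0 9984 0) P.nil)) (P.cons (P.cons (P.lf 0 7344 0) P.nil) P.nil)))))) 14802)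
 (EL.cons 11 (TM.mk (P.cons (P.cons (P.lf 0 208837716 0) (P.cons (P.lf 194551650 0 0) (P.cons (P.lf 19967328 0 0) (P.cons (P.lf 0 4152648 0) (P.lf 0 346053 0))))) (P.cons (P.cons (P.lf 60324942 0 0) (P.cons (P.lf 0 56198262 0) (P.cons (P.lf 0 5767770 0) (P.cons (P.lf 1199535 0 0) (P.lf 99960 0 0))))) (P.cons (P.cons (P.lf 2829495 0 0) (P.cons (P.lf 0 2635935 0) (P.cons (P.lf 0 270531 0) (P.cons (P.lf 56262 0 0) P.nil)))) (P.cons (P.cons (P.lf 0 251796 0) (P.cons (P.lf 234573 0 0) (P.cons (P.lf 24072 0 0) P.nil))) (P.cons (P.cons (P.lf 0 10953 0) (P.cons (P.lf 10203 0 0) P.nil)) (P.cons (P.cons (P.lf 519 0 0) P.nil) P.nil)))))) 13701)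
 EL.nil)))
noncomputable def S227_241_660_808_24 : EL := (EL.cons 4 (TM.mk (P.cons (P.cons (P.lf 185000547 0 0) (P.cons (P.lf 55344261 0 0) (P.cons (P.lf 0 21063237 0) (P.cons (P.lf 0 5068035 0) (P.cons (P.lf 252495 0 0) (P.cons (P.lf 115773 0 0) P.nil)))))) (P.cons (P.cons (P.lf 0 29259450 0) (P.cons (P.lf 0 16404303 0) (P.cons (P.lf 5520888 0 0) (P.cons (P.lf 2125164 0 0) (P.cons (P.lf 0 139938 0) P.nil))))) (P.cons (P.cons (P.lf 0 12766263 0) (P.cons (P.lf 0 2223243 0) (P.cons (P.lf 1068804 0 0) (P.cons (P.lf 11550 0 0) P.nil)))) (P.cons (P.cons (P.lf 188865 0 0) (P.cons (P.lf 470244 0 0) (P.cons (P.lf 0 165006 0) P.nil))) (P.cons (P.cons (P.lf 267231 0 0) (P.cons (P.lf 52569 0 0) P.nil)) (P.cons (P.cons (P.lf 11631 0 0) P.nil) P.nil)))))) 305628)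
 (EL.cons 8 (TM.mk (P.cons (P.cons (P.lf 0 21395493 0) (P.cons (P.lf 0 6400617 0) (P.cons (P.lf 2435982 0 0) (P.cons (P.lf 586122 0 0) (P.cons (P.lf 0 29199 0) (P.cons (P.lf 0 13389 0) P.nil)))))) (P.cons (P.cons (P.lf 10318401 0 0) (P.cons (P.lf 3971685 0 0) (P.cons (P.lf 0 1428024 0) (P.cons (P.lf 0 435744 0) (P.cons (P.lf 25647 0 0) P.nil))))) (P.cons (P.cons (P.lf 318375 0 0) (P.cons (P.lf 0 376110 0) (P.cons (P.lf 90312 0 0) (P.cons (P.lf 80001 0 0) P.nil)))) (P.cons (P.cons (P.lf 0 483768 0) (P.cons (P.lf 0 130218 0) (P.cons (P.lf 56529 0 0) P.nil))) (P.cons (P.cons (P.lf 0 20787 0) (P.cons (P.lf 11640 0 0) P.nil)) (P.cons (P.cons (P.lf 8154 0 0) P.nil) P.nil)))))) 85458)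
 (EL.cons 11 (TM.mk (P.cons (P.cons (P.lf 79607175 0 0) (P.cons (P.lf 0 55485534 0) (P.cons (P.lf 0 33062982 0) (P.cons (P.lf 6404871 0 0) (P.cons (P.lf 2106855 0 0) (P.cons (P.lf 0 43632 0) P.nil)))))) (P.cons (P.cons (P.lf 0 12797439 0) (P.cons (P.lf 7185606 0 0) (P.cons (P.lf 7678356 0 0) (P.cons (P.lf 0 1477356 0) (P.cons (P.lf 0 522069 0) P.nil))))) (P.cons (P.cons (P.lf 0 3921507 0) (P.cons (P.lf 3116874 0 0) (P.cons (P.lf 1105911 0 0) (P.cons (P.lf 0 216462 0) P.nil)))) (P.cons (P.cons (P.lf 0 146361 0) (P.cons (P.lf 173322 0 0) (P.cons (P.lf 0 36390 0) P.nil))) (P.cons (P.cons (P.lf 35265 0 0) (P.cons (P.lf 0 28569 0) P.nil)) (P.cons (P.cons (P.lf 2028 0 0) P.nil) P.nil)))))) 259461)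
 EL.nil)))
noncomputable def S227_241_660_808_25 : EL := (EL.cons 4 (TM.mk (P.cons (P.cons (P.lf 82651665 0 0) (P.cons (P.lf 5335692 0 0) (P.cons (P.lf 0 2300811 0) (P.lf 0 255645 0)))) (P.cons (P.cons (P.lf 0 49477158 0) (P.cons (P.lf 0 4811898 0) (P.cons (P.lf 2074944 0 0) (P.lf 230547 0 0)))) (P.cons (P.cons (P.lf 4384269 0 0) (P.cons (P.lf 1314999 0 0) (P.cons (P.lf 0 567042 0) (P.lf 0 63003 0)))) (P.cons (P.cons (P.lf 1503990 0 0) (P.cons (P.lf 0 53358 0) (P.cons (P.lf 23007 0 0) P.nil))) (P.cons (P.cons (P.lf 0 137784 0) (P.cons (P.lf 0 18003 0) P.nil)) (P.cons (P.cons (P.lf 0 15156 0) P.nil) P.nil)))))) 24087)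
 (EL.cons 8 (TM.mk (P.cons (P.cons (P.lf 0 9558744 0) (P.cons (P.lf 0 617076 0) (P.cons (P.lf 266091 0 0) (P.lf 29565 0 0)))) (P.cons (P.cons (P.lf 8820177 0 0) (P.cons (P.lf 756501 0 0) (P.cons (P.lf 0 326211 0) (P.lf 0 36243 0)))) (P.cons (P.cons (P.lf 0 2389020 0) (P.cons (P.lf 0 334215 0) (P.cons (P.lf 144117 0 0) (P.lf 16011 0 0)))) (P.cons (P.cons (P.lf 9879 0 0) (P.cons (P.lf 57255 0 0) (P.cons (P.lf 0 24687 0) P.nil))) (P.cons (P.cons (P.lf 68964 0 0) (P.cons (P.lf 0 534 0) P.nil)) (P.cons (P.cons (P.lf 0 3717 0) P.nil) P.nil)))))) 9426)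
 (EL.cons 11 (TM.mk (P.cons (P.cons (P.lf 35565654 0 0) (P.cons (P.lf 0 33132696 0) (P.cons (P.lf 0 3400491 0) (P.cons (P.lf 707205 0 0) (P.lf 58932 0 0))))) (P.cons (P.cons (P.lf 0 21382827 0) (P.cons (P.lf 19920081 0 0) (P.cons (P.lf 2044446 0 0) (P.cons (P.lf 0 425187 0) (P.lf 0 35430 0))))) (P.cons (P.cons (P.lf 2629569 0 0) (P.cons (P.lf 0 2449686 0) (P.cons (P.lf 0 251415 0) (P.cons (P.lf 52287 0 0) P.nil)))) (P.cons (P.cons (P.lf 231312 0 0) (P.cons (P.lf 0 215487 0) (P.cons (P.lf 0 22116 0) P.nil))) (P.cons (P.cons (P.lf 0 12867 0) (P.cons (P.lf 11985 0 0) P.nil)) (P.cons (P.cons (P.lf 0 969 0) P.nil) P.nil)))))) 15300)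
 EL.nil)))
noncomputable def S227_241_660_808_26 : EL := (EL.cons 4 (TM.mk (P.cons (P.cons (P.lf 0 31506117 0) (P.cons (P.lf 0 9425283 0) (P.cons (P.lf 3587127 0 0) (P.cons (P.lf 863100 0 0) (P.cons (P.lf 0 42999 0) (P.cons (P.lf 0 19716 0) P.nil)))))) (P.cons (P.cons (P.lf 14824245 0 0) (P.cons (P.lf 5737788 0 0) (P.cons (P.lf 0 2060700 0) (P.cons (P.lf 0 631518 0) (P.cons (P.lf 37263 0 0) P.nil))))) (P.cons (P.cons (P.lf 704106 0 0) (P.cons (P.lf 0 468150 0) (P.cons (P.lf 101823 0 0) (P.cons (P.lf 108714 0 0) P.nil)))) (P.cons (P.cons (P.lf 0 733560 0) (P.cons (P.lf 0 208593 0) (P.cons (P.lf 88515 0 0) P.nil))) (P.cons (P.cons (P.lf 0 40197 0) (P.cons (P.lf 15747 0 0) P.nil)) (P.cons (P.cons (P.lf 12942 0 0) P.nil) P.nil)))))) 120963)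
 (EL.cons 8 (TM.mk (P.cons (P.cons (P.lf 3643713 0 0) (P.cons (P.lf 1090041 0 0) (P.cons (P.lf 0 414855 0) (P.cons (P.lf 0 99816 0) (P.cons (P.lf 4971 0 0) (P.cons (P.lf 2280 0 0) P.nil)))))) (P.cons (P.cons (P.lf 0 2895405 0) (P.cons (P.lf 0 1016874 0) (P.cons (P.lf 372780 0 0) (P.cons (P.lf 105387 0 0) (P.cons (P.lf 0 5919 0) P.nil))))) (P.cons (P.cons (P.lf 484677 0 0) (P.cons (P.lf 272337 0 0) (P.cons (P.lf 0 90207 0) (P.cons (P.lf 0 36528 0) P.nil)))) (P.cons (P.cons (P.lf 105141 0 0) (P.cons (P.lf 4320 0 0) (P.cons (P.lf 0 5601 0) P.nil))) (P.cons (P.cons (P.lf 0 22509 0) (P.cons (P.lf 0 9264 0) P.nil)) (P.cons (P.cons (P.lf 0 2742 0) P.nil) P.nil)))))) 31461)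
 (EL.cons 11 (TM.mk (P.cons (P.cons (P.lf 0 13557327 0) (P.cons (P.lf 9449343 0 0) (P.cons (P.lf 5630718 0 0) (P.cons (P.lf 0 1090767 0) (P.cons (P.lf 0 358803 0) (P.cons (P.lf 7431 0 0) P.nil)))))) (P.cons (P.cons (P.lf 6414219 0 0) (P.cons (P.lf 0 4175334 0) (P.cons (P.lf 0 3066462 0) (P.cons (P.lf 592311 0 0) (P.cons (P.lf 200985 0 0) P.nil))))) (P.cons (P.cons (P.lf 24276 0 0) (P.cons (P.lf 0 174498 0) (P.cons (P.lf 204663 0 0) (P.cons (P.lf 0 38730 0) P.nil)))) (P.cons (P.cons (P.lf 0 193368 0) (P.cons (P.lf 142227 0 0) (P.cons (P.lf 70152 0 0) P.nil))) (P.cons (P.cons (P.lf 0 15084 0) (P.cons (P.lf 15246 0 0) P.nil)) (P.cons (P.cons (P.lf 1656 0 0) P.nil) P.nil)))))) 113274)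
 EL.nil)))
noncomputable def S227_241_660_808_27 : EL := (EL.cons 13 (TM.mk (P.lf 0 4294967296 0) 0)
 EL.nil)
noncomputable def S227_241_660_808_28 : EL := (EL.cons 13 (TM.mk (P.cons (P.cons (P.lf 1637205309 0 0) (P.cons (P.lf 384089816 0 0) (P.cons (P.lf 0 165623860 0) (P.lf 0 18402648 0)))) (P.cons (P.cons (P.lf 209730926 0 0) (P.cons (P.lf 13539472 0 0) (P.cons (P.lf 0 5838372 0) (P.lf 0 648704 0)))) (P.cons (P.cons (P.lf 2115118 0 0) (P.cons (P.lf 0 1916100 0) (P.cons (P.lf 826244 0 0) (P.lf 91804 0 0)))) (P.cons (P.cons (P.lf 0 1531527 0) (P.cons (P.lf 0 72760 0) (P.cons (P.lf 31372 0 0) P.nil))) (P.cons (P.cons (P.lf 0 27219 0) (P.cons (P.lf 4648 0 0) P.nil)) (P.cons (P.cons (P.lf 3643 0 0) P.nil) P.nil)))))) 7246)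
 EL.nil)
noncomputable def S227_241_660_808_29 : EL := (EL.cons 13 (TM.mk (P.cons (P.cons (P.lf 0 624088855 0) (P.cons (P.lf 0 292823596 0) (P.cons (P.lf 91920499 0 0) (P.cons (P.lf 43652649 0 0) (P.cons (P.lf 0 3095419 0) (P.cons (P.lf 0 1419297 0) P.nil)))))) (P.cons (P.cons (P.lf 0 159895320 0) (P.cons (P.lf 0 47833848 0) (P.cons (P.lf 18204881 0 0) (P.cons (P.lf 4380282 0 0) (P.cons (P.lf 0 218232 0) P.nil))))) (P.cons (P.cons (P.lf 0 11854066 0) (P.cons (P.lf 0 239811 0) (P.cons (P.lf 403433 0 0) (P.cons (P.lf 0 247256 0) P.nil)))) (P.cons (P.cons (P.lf 961040 0 0) (P.cons (P.lf 503191 0 0) (P.cons (P.lf 0 191885 0) P.nil))) (P.cons (P.cons (P.lf 169284 0 0) (P.cons (P.lf 19973 0 0) P.nil)) (P.cons (P.cons (P.lf 1389 0 0) P.nil) P.nil)))))) 389839)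
 EL.nil)
noncomputable def S227_241_660_808_30 : EL := (EL.cons 13 (TM.mk (P.cons (P.lf 731445116 0 0) (P.cons (P.lf 0 228474868 0) (P.cons (P.lf 0 2007284 0) (P.cons (P.lf 199892 0 0) (P.cons (P.lf 3020 0 0) (P.cons (P.lf 0 164 0) P.nil)))))) 40)
 EL.nil)
noncomputable def S227_241_660_808_31 : EL := (EL.cons 13 (TM.mk (P.cons (P.cons (P.lf 0 278820709 0) (P.cons (P.lf 0 65411585 0) (P.cons (P.lf 28206213 0 0) (P.lf 3134023 0 0)))) (P.cons (P.cons (P.lf 51374920 0 0) (P.cons (P.lf 18126212 0 0) (P.cons (P.lf 0 7816227 0) (P.lf 0 868470 0)))) (P.cons (P.cons (P.lf 11561785 0 0) (P.cons (P.lf 1226069 0 0) (P.cons (P.lf 0 528694 0) (P.lf 0 58743 0)))) (P.cons (P.cons (P.lf 395161 0 0) (P.cons (P.lf 0 101085 0) (P.cons (P.lf 43589 0 0) P.nil))) (P.cons (P.cons (P.lf 0 86759 0) (P.cons (P.lf 0 6457 0) P.nil)) (P.cons (P.cons (P.lf 0 2967 0) P.nil) P.nil)))))) 11002)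
 EL.nil)
noncomputable def S227_241_660_808_32 : EL := (EL.cons 13 (TM.mk (P.cons (P.cons (P.lf 106284102 0 0) (P.cons (P.lf 49868689 0 0) (P.cons (P.lf 0 15654321 0) (P.cons (P.lf 0 7434169 0) (P.cons (P.lf 527158 0 0) (P.cons (P.lf 241710 0 0) P.nil)))))) (P.cons (P.cons (P.lf 0 5968373 0) (P.cons (P.lf 0 7430789 0) (P.cons (P.lf 1789455 0 0) (P.cons (P.lf 1576169 0 0) (P.cons (P.lf 0 127498 0) P.nil))))) (P.cons (P.cons (P.lf 0 6778674 0) (P.cons (P.lf 0 2640579 0) (P.cons (P.lf 942679 0 0) (P.cons (P.lf 295523 0 0) P.nil)))) (P.cons (P.cons (P.lf 0 839938 0) (P.cons (P.lf 0 107179 0) (P.cons (P.lf 58369 0 0) P.nil))) (P.cons (P.cons (P.lf 24634 0 0) (P.cons (P.lf 25686 0 0) P.nil)) (P.cons (P.cons (P.lf 9858 0 0) P.nil) P.nil)))))) 207562)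
 EL.nil)
noncomputable def S227_241_660_808_33 : EL := (EL.cons 14 (TM.mk (P.lf 8589934592 0 0) 0)
 EL.nil)
noncomputable def S227_241_660_808_34 : EL := (EL.cons 14 (TM.mk (P.cons (P.cons (P.lf 0 3274410618 0) (P.cons (P.lf 0 768179632 0) (P.cons (P.lf 331247720 0 0) (P.lf 36805296 0 0)))) (P.cons (P.cons (P.lf 0 419461852 0) (P.cons (P.lf 0 27078944 0) (P.cons (P.lf 11676744 0 0) (P.lf 1297408 0 0)))) (P.cons (P.cons (P.lf 0 4230236 0) (P.cons (P.lf 3832200 0 0) (P.cons (P.lf 0 1652488 0) (P.lf 0 183608 0)))) (P.cons (P.cons (P.lf 3063054 0 0) (P.cons (P.lf 145520 0 0) (P.cons (P.lf 0 62744 0) P.nil))) (P.cons (P.cons (P.lf 54438 0 0) (P.cons (P.lf 0 9296 0) P.nil)) (P.cons (P.cons (P.lf 0 7286 0) P.nil) P.nil)))))) 14492)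
 EL.nil)
noncomputable def S227_241_660_808_35 : EL := (EL.cons 14 (TM.mk (P.cons (P.cons (P.lf 1248177710 0 0) (P.cons (P.lf 585647192 0 0) (P.cons (P.lf 0 183840998 0) (P.cons (P.lf 0 87305298 0) (P.cons (P.lf 6190838 0 0) (P.cons (P.lf 2838594 0 0) P.nil)))))) (P.cons (P.cons (P.lf 319790640 0 0) (P.cons (P.lf 95667696 0 0) (P.cons (P.lf 0 36409762 0) (P.cons (P.lf 0 8760564 0) (P.cons (P.lf 436464 0 0) P.nil))))) (P.cons (P.cons (P.lf 23708132 0 0) (P.cons (P.lf 479622 0 0) (P.cons (P.lf 0 806866 0) (P.cons (P.lf 494512 0 0) P.nil)))) (P.cons (P.cons (P.lf 0 1922080 0) (P.cons (P.lf 0 1006382 0) (P.cons (P.lf 383770 0 0) P.nil))) (P.cons (P.cons (P.lf 0 338568 0) (P.cons (P.lf 0 39946 0) P.nil)) (P.cons (P.cons (P.lf 0 2778 0) P.nil) P.nil)))))) 779678)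
 EL.nil)
noncomputable def S227_241_660_808_36 : EL := (EL.cons 14 (TM.mk (P.cons (P.lf 0 1462890232 0) (P.cons (P.lf 456949736 0 0) (P.cons (P.lf 4014568 0 0) (P.cons (P.lf 0 399784 0) (P.cons (P.lf 0 6040 0) (P.cons (P.lf 328 0 0) P.nil)))))) 80)
 EL.nil)
noncomputable def S227_241_660_808_37 : EL := (EL.cons 14 (TM.mk (P.cons (P.cons (P.lf 557641418 0 0) (P.cons (P.lf 130823170 0 0) (P.cons (P.lf 0 56412426 0) (P.lf 0 6268046 0)))) (P.cons (P.cons (P.lf 0 102749840 0) (P.cons (P.lf 0 36252424 0) (P.cons (P.lf 15632454 0 0) (P.lf 1736940 0 0)))) (P.cons (P.cons (P.lf 0 23123570 0) (P.cons (P.lf 0 2452138 0) (P.cons (P.lf 1057388 0 0) (P.lf 117486 0 0)))) (P.cons (P.cons (P.lf 0 790322 0) (P.cons (P.lf 202170 0 0) (P.cons (P.lf 0 87178 0) P.nil))) (P.cons (P.cons (P.lf 173518 0 0) (P.cons (P.lf 12914 0 0) P.nil)) (P.cons (P.cons (P.lf 5934 0 0) P.nil) P.nil))))))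 22004)
 EL.nil)
noncomputable def S227_241_660_808_38 : EL := (EL.cons 14 (TM.mk (P.cons (P.cons (P.lf 0 212568204 0) (P.cons (P.lf 0 99737378 0) (P.cons (P.lf 31308642 0 0) (P.cons (P.lf 14868338 0 0) (P.cons (P.lf 0 1054316 0) (P.cons (P.lf 0 483420 0) P.nil)))))) (P.cons (P.cons (P.lf 11936746 0 0) (P.cons (P.lf 14861578 0 0) (P.cons (P.lf 0 3578910 0) (P.cons (P.lf 0 3152338 0) (P.cons (P.lf 254996 0 0) P.nil))))) (P.cons (P.cons (P.lf 13557348 0 0) (P.cons (P.lf 5281158 0 0) (P.cons (P.lf 0 1885358 0) (P.cons (P.lf 0 591046 0) P.nil)))) (P.cons (P.cons (P.lf 1679876 0 0) (P.cons (P.lf 214358 0 0) (P.cons (P.lf 0 116738 0) P.nil))) (P.cons (P.cons (P.lf 0 49268 0) (P.cons (P.lf 0 51372 0) P.nil)) (P.cons (P.cons (P.lf 0 19716 0) P.nil) P.nil)))))) 415124)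
 EL.nil)
noncomputable def S227_241_660_808_39 : EL := (EL.cons 14 (TM.mk (P.cons (P.lf 249134356 0 0) (P.cons (P.lf 0 155639672 0) (P.cons (P.lf 22940490 0 0) (P.cons (P.lf 563286 0 0) (P.cons (P.lf 0 38600 0) (P.cons (P.lf 0 1128 0) P.nil)))))) 108)
 EL.nil)
noncomputable def S227_241_660_808_40 : EL := (EL.cons 14 (TM.mk (P.cons (P.cons (P.lf 0 94967914 0) (P.cons (P.lf 0 22279556 0) (P.cons (P.lf 9607196 0 0) (P.lf 1067466 0 0)))) (P.cons (P.cons (P.lf 47162854 0 0) (P.cons (P.lf 13133152 0 0) (P.cons (P.lf 0 5663164 0) (P.lf 0 629240 0)))) (P.cons (P.cons (P.lf 0 1267246 0) (P.cons (P.lf 0 1449734 0) (P.cons (P.lf 625140 0 0) (P.lf 69460 0 0)))) (P.cons (P.cons (P.lf 0 1169460 0) (P.cons (P.lf 0 187904 0) (P.cons (P.lf 81026 0 0) P.nil))) (P.cons (P.cons (P.lf 0 78008 0) (P.cons (P.lf 9004 0 0) P.nil)) (P.cons (P.cons (P.lf 9020 0 0) P.nil) P.nil)))))) 20660)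
 EL.nil)
noncomputable def S227_241_660_808_41 : EL := (EL.cons 14 (TM.mk (P.cons (P.cons (P.lf 36200968 0 0) (P.cons (P.lf 16985558 0 0) (P.cons (P.lf 0 5331950 0) (P.cons (P.lf 0 2532120 0) (P.cons (P.lf 179552 0 0) (P.cons (P.lf 82326 0 0) P.nil)))))) (P.cons (P.cons (P.lf 0 13340628 0) (P.cons (P.lf 0 7836592 0) (P.cons (P.lf 2274990 0 0) (P.cons (P.lf 1327786 0 0) (P.cons (P.lf 0 99512 0) P.nil))))) (P.cons (P.cons (P.lf 0 1773212 0) (P.cons (P.lf 0 155432 0) (P.cons (P.lf 145330 0 0) (P.cons (P.lf 0 60086 0) P.nil)))) (P.cons (P.cons (P.lf 450580 0 0) (P.cons (P.lf 256018 0 0) (P.cons (P.lf 0 83542 0) P.nil))) (P.cons (P.cons (P.lf 103682 0 0) (P.cons (P.lf 21998 0 0) P.nil)) (P.cons (P.cons (P.lf 874 0 0) P.nil) P.nil)))))) 183732)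
 EL.nil)
noncomputable def S227_241_660_808_42 : EL := (EL.cons 14 (TM.mk (P.cons (P.lf 0 42428286 0) (P.cons (P.lf 39758816 0 0) (P.cons (P.lf 0 12069796 0) (P.cons (P.lf 1040076 0 0) (P.cons (P.lf 54328 0 0) (P.cons (P.lf 0 2546 0) P.nil)))))) 172)
 EL.nil)
noncomputable def S227_241_660_808_43 : EL := (EL.cons 14 (TM.mk (P.cons (P.cons (P.lf 16173304 0 0) (P.cons (P.lf 3794270 0 0) (P.cons (P.lf 0 1636132 0) (P.lf 0 181792 0)))) (P.cons (P.cons (P.lf 0 13083876 0) (P.cons (P.lf 0 3421794 0) (P.cons (P.lf 1475516 0 0) (P.lf 163946 0 0)))) (P.cons (P.cons (P.lf 2680304 0 0) (P.cons (P.lf 935112 0 0) (P.cons (P.lf 0 403230 0) (P.lf 0 44802 0)))) (P.cons (P.cons (P.lf 158212 0 0) (P.cons (P.lf 0 37944 0) (P.cons (P.lf 16360 0 0) P.nil))) (P.cons (P.cons (P.lf 0 51644 0) (P.cons (P.lf 0 12802 0) P.nil)) (P.cons (P.cons (P.lf 0 6210 0) P.nil) P.nil)))))) 16568)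
 EL.nil)
noncomputable def S227_241_660_808_44 : EL := (EL.cons 14 (TM.mk (P.cons (P.cons (P.lf 0 6165126 0) (P.cons (P.lf 0 2892688 0) (P.cons (P.lf 908046 0 0) (P.cons (P.lf 431226 0 0) (P.cons (P.lf 0 30578 0) (P.cons (P.lf 0 14020 0) P.nil)))))) (P.cons (P.cons (P.lf 4197690 0 0) (P.cons (P.lf 2238156 0 0) (P.cons (P.lf 0 671074 0) (P.cons (P.lf 0 360824 0) (P.cons (P.lf 26498 0 0) P.nil))))) (P.cons (P.cons (P.lf 0 390764 0) (P.cons (P.lf 0 382464 0) (P.cons (P.lf 93778 0 0) (P.cons (P.lf 79682 0 0) P.nil)))) (P.cons (P.cons (P.lf 0 178982 0) (P.cons (P.lf 0 56322 0) (P.cons (P.lf 23268 0 0) P.nil))) (P.cons (P.cons (P.lf 6078 0 0) (P.cons (P.lf 10152 0 0) P.nil)) (P.cons (P.cons (P.lf 5670 0 0) P.nil) P.nil)))))) 79200)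
 EL.nil)
noncomputable def S227_241_660_808_45 : EL := (EL.cons 14 (TM.mk (P.cons (P.cons (P.lf 0 475794814 0) (P.cons (P.lf 0 334865654 0) (P.cons (P.lf 65838066 0 0) (P.cons (P.lf 77652528 0 0) (P.cons (P.lf 867620 0 0) (P.cons (P.lf 0 5790078 0) P.nil)))))) (P.cons (P.cons (P.lf 0 182852242 0) (P.cons (P.lf 0 97598876 0) (P.cons (P.lf 26483400 0 0) (P.cons (P.lf 17482312 0 0) (P.cons (P.lf 0 565612 0) P.nil))))) (P.cons (P.cons (P.lf 0 25267970 0) (P.cons (P.lf 0 7714294 0) (P.cons (P.lf 3201686 0 0) (P.cons (P.lf 546282 0 0) P.nil)))) (P.cons (P.cons (P.lf 0 137432 0) (P.cons (P.lf 782886 0 0) (P.cons (P.lf 0 125954 0) P.nil))) (P.cons (P.cons (P.lf 333184 0 0) (P.cons (P.lf 152938 0 0) P.nil)) (P.cons (P.cons (P.lf 27960 0 0) P.nil) P.nil)))))) 3083924)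
 EL.nil)
noncomputable def S227_241_660_808_46 : EL := (EL.cons 15 (TM.mk (P.lf 4294967296 0 0) 0)
 EL.nil)
noncomputable def S227_241_660_808_47 : EL := (EL.cons 15 (TM.mk (P.cons (P.cons (P.lf 0 1637205309 0) (P.cons (P.lf 0 384089816 0) (P.cons (P.lf 165623860 0 0) (P.lf 18402648 0 0)))) (P.cons (P.cons (P.lf 0 209730926 0) (P.cons (P.lf 0 13539472 0) (P.cons (P.lf 5838372 0 0) (P.lf 648704 0 0)))) (P.cons (P.cons (P.lf 0 2115118 0) (P.cons (P.lf 1916100 0 0) (P.cons (P.lf 0 826244 0) (P.lf 0 91804 0)))) (P.cons (P.cons (P.lf 1531527 0 0) (P.cons (P.lf 72760 0 0) (P.cons (P.lf 0 31372 0) P.nil))) (P.cons (P.cons (P.lf 27219 0 0) (P.cons (P.lf 0 4648 0) P.nil)) (P.cons (P.cons (P.lf 0 3643 0) P.nil) P.nil)))))) 7246)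
 EL.nil)
noncomputable def S227_241_660_808_48 : EL := (EL.cons 15 (TM.mk (P.cons (P.cons (P.lf 624088855 0 0) (P.cons (P.lf 292823596 0 0) (P.cons (P.lf 0 91920499 0) (P.cons (P.lf 0 43652649 0) (P.cons (P.lf 3095419 0 0) (P.cons (P.lf 1419297 0 0) P.nil)))))) (P.cons (P.cons (P.lf 159895320 0 0) (P.cons (P.lf 47833848 0 0) (P.cons (P.lf 0 18204881 0) (P.cons (P.lf 0 4380282 0) (P.cons (P.lf 218232 0 0) P.nil))))) (P.cons (P.cons (P.lf 11854066 0 0) (P.cons (P.lf 239811 0 0) (P.cons (P.lf 0 403433 0) (P.cons (P.lf 247256 0 0) P.nil)))) (P.cons (P.cons (P.lf 0 961040 0) (P.cons (P.lf 0 503191 0) (P.cons (P.lf 191885 0 0) P.nil))) (P.cons (P.cons (P.lf 0 169284 0) (P.cons (P.lf 0 19973 0) P.nil)) (P.cons (P.cons (P.lf 0 1389 0) P.nil) P.nil)))))) 389839)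
 EL.nil)
noncomputable def S227_241_660_808 : SL := (SL.cons S227_241_660_808_0 (SL.cons S227_241_660_808_1 (SL.cons S227_241_660_808_2 (SL.cons S227_241_660_808_3 (SL.cons S227_241_660_808_4 (SL.cons S227_241_660_808_5 (SL.cons S227_241_660_808_6 (SL.cons S227_241_660_808_7 (SL.cons S227_241_660_808_8 (SL.cons S227_241_660_808_9 (SL.cons S227_241_660_808_10 (SL.cons S227_241_660_808_11 (SL.cons S227_241_660_808_12 (SL.cons S227_241_660_808_13 (SL.cons S227_241_660_808_14 (SL.cons S227_241_660_808_15 (SL.cons S227_241_660_808_16 (SL.cons S227_241_660_808_17 (SL.cons S227_241_660_808_18 (SL.cons S227_241_660_808_19 (SL.cons S227_241_660_808_20 (SL.cons S227_241_660_808_21 (SL.cons S227_241_660_808_22 (SL.cons S227_241_660_808_23 (SL.cons S227_241_660_808_24 (SL.cons S227_241_660_808_25 (SL.cons S227_241_660_808_26 (SL.cons S227_241_660_808_27 (SL.cons S227_241_660_808_28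 (SL.cons S227_241_660_808_29 (SL.cons S227_241_660_808_30 (SL.cons S227_241_660_808_31 (SL.cons S227_241_660_808_32 (SL.cons S227_241_660_808_33 (SL.cons S227_241_660_808_34 (SL.cons S227_241_660_808_35 (SL.cons S227_241_660_808_36 (SL.cons S227_241_660_808_37 (SL.cons S227_241_660_808_38 (SL.cons S227_241_660_808_39 (SL.cons S227_241_660_808_40 (SL.cons S227_241_660_808_41 (SL.cons S227_241_660_808_42 (SL.cons S227_241_660_808_43 (SL.cons S227_241_660_808_44 (SL.cons S227_241_660_808_45 (SL.cons S227_241_660_808_46 (SL.cons S227_241_660_808_47 (SL.cons S227_241_660_808_48 SL.nil)))))))))))))))))))))))))))))))))))))))))))))))))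
noncomputable def S227_241_734_808_0 : EL := (EL.cons 0 (TM.mk (P.cons (P.lf 8236751121 0 0) (P.cons (P.lf 136792680 0 0) (P.cons (P.lf 0 20162540 0) (P.cons (P.lf 0 495075 0) (P.cons (P.lf 33925 0 0) (P.cons (P.lf 991 0 0) P.nil)))))) 101)
 (EL.cons 1 (TM.mk (P.cons (P.lf 0 673184881 0) (P.cons (P.lf 202366545 0 0) (P.cons (P.lf 5530590 0 0) (P.cons (P.lf 0 526580 0) (P.cons (P.lf 0 13798 0) (P.cons (P.lf 714 0 0) P.nil)))))) 98)
 (EL.cons 5 (TM.mk (P.cons (P.lf 4372821786 0 0) (P.cons (P.lf 0 48637396 0) (P.cons (P.lf 7168902 0 0) (P.cons (P.lf 176026 0 0) (P.cons (P.lf 0 12058 0) (P.cons (P.lf 0 354 0) P.nil)))))) 135)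
 (EL.cons 9 (TM.mk (P.lf 6442450944 0 0) 2)
 EL.nil))))
noncomputable def S227_241_734_808_1 : EL := (EL.cons 0 (TM.mk (P.cons (P.cons (P.lf 0 2491593097 0) (P.cons (P.lf 0 180597761 0) (P.cons (P.lf 85253196 0 0) (P.lf 4059675 0 0)))) (P.cons (P.cons (P.lf 0 742977849 0) (P.cons (P.lf 0 19403100 0) (P.cons (P.lf 9159448 0 0) (P.lf 436159 0 0)))) (P.cons (P.cons (P.lf 0 30225375 0) (P.cons (P.lf 2362951 0 0) (P.cons (P.lf 0 1115447 0) (P.lf 0 53109 0)))) (P.cons (P.cons (P.lf 10390244 0 0) (P.cons (P.lf 214158 0 0) (P.cons (P.lf 0 101088 0) P.nil))) (P.cons (P.cons (P.lf 458503 0 0) (P.cons (P.lf 0 10863 0) P.nil)) (P.cons (P.cons (P.lf 0 47310 0) P.nil) P.nil)))))) 20399)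
 (EL.cons 1 (TM.mk (P.cons (P.cons (P.lf 1659617790 0 0) (P.cons (P.lf 39193247 0 0) (P.cons (P.lf 0 18501608 0) (P.lf 0 881026 0)))) (P.cons (P.cons (P.lf 26568735 0 0) (P.cons (P.lf 0 9813644 0) (P.cons (P.lf 4632642 0 0) (P.lf 220599 0 0)))) (P.cons (P.cons (P.lf 0 50531725 0) (P.cons (P.lf 0 1188765 0) (P.cons (P.lf 561166 0 0) (P.lf 26715 0 0)))) (P.cons (P.cons (P.lf 0 2551045 0) (P.cons (P.lf 85559 0 0) (P.cons (P.lf 0 40386 0) P.nil))) (P.cons (P.cons (P.lf 395765 0 0) (P.cons (P.lf 8827 0 0) P.nil)) (P.cons (P.cons (P.lf 19975 0 0) P.nil) P.nil)))))) 12174)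
 (EL.cons 5 (TM.mk (P.cons (P.cons (P.lf 0 2149524901 0) (P.cons (P.lf 0 109751836 0) (P.cons (P.lf 51809582 0 0) (P.lf 2467122 0 0)))) (P.cons (P.cons (P.lf 0 101262083 0) (P.cons (P.lf 766498 0 0) (P.cons (P.lf 0 361832 0) (P.lf 0 17224 0)))) (P.cons (P.cons (P.lf 8409121 0 0) (P.cons (P.lf 27692 0 0) (P.cons (P.lf 0 13078 0) (P.lf 0 630 0)))) (P.cons (P.cons (P.lf 0 1042925 0) (P.cons (P.lf 0 43192 0) (P.cons (P.lf 20388 0 0) P.nil))) (P.cons (P.cons (P.lf 0 119807 0) (P.cons (P.lf 1756 0 0) P.nil)) (P.cons (P.cons (P.lf 10479 0 0) P.nil) P.nil)))))) 12894)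
 (EL.cons 9 (TM.mk (P.cons (P.cons (P.lf 0 2678315875 0) (P.cons (P.lf 0 153497970 0) (P.cons (P.lf 72460434 0 0) (P.lf 3450492 0 0)))) (P.cons (P.cons (P.lf 0 322439973 0) (P.cons (P.lf 0 5410920 0) (P.cons (P.lf 2554284 0 0) (P.lf 121632 0 0)))) (P.cons (P.cons (P.lf 0 2062653 0) (P.cons (P.lf 765750 0 0) (P.cons (P.lf 0 361476 0) (P.lf 0 17208 0)))) (P.cons (P.cons (P.lf 2339440 0 0) (P.cons (P.lf 29076 0 0) (P.cons (P.lf 0 13722 0) P.nil))) (P.cons (P.cons (P.lf 38134 0 0) (P.cons (P.lf 0 1854 0) P.nil)) (P.cons (P.cons (P.lf 0 5584 0) P.nil) P.nil)))))) 2914)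
 (EL.cons 2 (TM.mk (P.cons (P.cons (P.lf 100416344 0 0) (P.cons (P.lf 0 99014748 0) (P.cons (P.lf 0 3098266 0) (P.cons (P.lf 567742 0 0) (P.lf 20275 0 0))))) (P.cons (P.cons (P.lf 0 29006302 0) (P.cons (P.lf 28601437 0 0) (P.cons (P.lf 894965 0 0) (P.cons (P.lf 0 163996 0) (P.lf 0 5855 0))))) (P.cons (P.cons (P.lf 0 1360515 0) (P.cons (P.lf 1341525 0 0) (P.cons (P.lf 41976 0 0) (P.cons (P.lf 0 7689 0) P.nil)))) (P.cons (P.cons (P.lf 121072 0 0) (P.cons (P.lf 0 119382 0) (P.cons (P.lf 0 3735 0) P.nil))) (P.cons (P.cons (P.lf 5265 0 0) (P.cons (P.lf 0 5191 0) P.nil)) (P.cons (P.cons (P.lf 0 247 0) P.nil) P.nil)))))) 1863)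
 (EL.cons 6 (TM.mk (P.cons (P.cons (P.lf 308718450 0 0) (P.cons (P.lf 0 304409409 0) (P.cons (P.lf 0 9525264 0) (P.cons (P.lf 1745463 0 0) (P.lf 62337 0 0))))) (P.cons (P.cons (P.lf 10882572 0 0) (P.cons (P.lf 0 10730676 0) (P.cons (P.lf 0 335772 0) (P.cons (P.lf 61527 0 0) (P.lf 2196 0 0))))) (P.cons (P.cons (P.lf 0 1540095 0) (P.cons (P.lf 1518600 0 0) (P.cons (P.lf 47517 0 0) (P.cons (P.lf 0 8706 0) P.nil)))) (P.cons (P.cons (P.lf 0 58482 0) (P.cons (P.lf 57666 0 0) (P.cons (P.lf 1803 0 0) P.nil))) (P.cons (P.cons (P.lf 3735 0 0) (P.cons (P.lf 0 3684 0) P.nil)) (P.cons (P.cons (P.lf 162 0 0) P.nil) P.nil)))))) 1209)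
 EL.nil))))))
noncomputable def S227_241_734_808_2 : EL := (EL.cons 0 (TM.mk (P.cons (P.cons (P.lf 648091731 0 0) (P.cons (P.lf 105716137 0 0) (P.cons (P.lf 0 45974475 0) (P.cons (P.lf 0 6086829 0) (P.cons (P.lf 699094 0 0) (P.cons (P.lf 83418 0 0) P.nil)))))) (P.cons (P.cons (P.lf 500754865 0 0) (P.cons (P.lf 45694041 0 0) (P.cons (P.lf 0 20749730 0) (P.cons (P.lf 0 1801943 0) (P.cons (P.lf 145970 0 0) P.nil))))) (P.cons (P.cons (P.lf 76064684 0 0) (P.cons (P.lf 2162716 0 0) (P.cons (P.lf 0 1097054 0) (P.cons (P.lf 23254 0 0) P.nil)))) (P.cons (P.cons (P.lf 0 4178869 0) (P.cons (P.lf 0 837868 0) (P.cons (P.lf 380283 0 0) P.nil))) (P.cons (P.cons (P.lf 0 1524388 0) (P.cons (P.lf 0 66872 0) P.nil)) (P.cons (P.cons (P.lf 0 38793 0) P.nil) P.nil)))))) 182104)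
 (EL.cons 1 (TM.mk (P.cons (P.cons (P.lf 0 1263556470 0) (P.cons (P.lf 0 98335707 0) (P.cons (P.lf 44934983 0 0) (P.cons (P.lf 3612970 0 0) (P.cons (P.lf 0 264243 0) (P.cons (P.lf 0 31522 0) P.nil)))))) (P.cons (P.cons (P.lf 0 195177459 0) (P.cons (P.lf 0 1750707 0) (P.cons (P.lf 1140306 0 0) (P.cons (P.lf 0 256971 0) (P.cons (P.lf 55828 0 0) P.nil))))) (P.cons (P.cons (P.lf 30781210 0 0) (P.cons (P.lf 3970299 0 0) (P.cons (P.lf 0 1806340 0) (P.cons (P.lf 0 153313 0) P.nil)))) (P.cons (P.cons (P.lf 7485928 0 0) (P.cons (P.lf 281784 0 0) (P.cons (P.lf 0 136272 0) P.nil))) (P.cons (P.cons (P.lf 33451 0 0) (P.cons (P.lf 0 41445 0) P.nil)) (P.cons (P.cons (P.lf 0 82184 0) P.nil) P.nil)))))) 96891)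
 (EL.cons 5 (TM.mk (P.cons (P.cons (P.lf 1031482473 0 0) (P.cons (P.lf 107056226 0 0) (P.cons (P.lf 0 47789549 0) (P.cons (P.lf 0 5000534 0) (P.cons (P.lf 488731 0 0) (P.cons (P.lf 58299 0 0) P.nil)))))) (P.cons (P.cons (P.lf 125795429 0 0) (P.cons (P.lf 6265635 0 0) (P.cons (P.lf 0 2957338 0) (P.cons (P.lf 0 141269 0) (P.cons (P.lf 85 0 0) P.nil))))) (P.cons (P.cons (P.lf 0 6811931 0) (P.cons (P.lf 0 765305 0) (P.cons (P.lf 352129 0 0) (P.cons (P.lf 25830 0 0) P.nil)))) (P.cons (P.cons (P.lf 0 484706 0) (P.cons (P.lf 61211 0 0) (P.cons (P.lf 0 26500 0) P.nil))) (P.cons (P.cons (P.lf 241421 0 0) (P.cons (P.lf 15153 0 0) P.nil)) (P.cons (P.cons (P.lf 13035 0 0) P.nil) P.nil)))))) 100899)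
 (EL.cons 9 (TM.mk (P.cons (P.cons (P.lf 1113454489 0 0) (P.cons (P.lf 127627218 0 0) (P.cons (P.lf 0 56590609 0) (P.cons (P.lf 0 6321828 0) (P.cons (P.lf 650563 0 0) (P.cons (P.lf 77617 0 0) P.nil)))))) (P.cons (P.cons (P.lf 268095513 0 0) (P.cons (P.lf 19863879 0 0) (P.cons (P.lf 0 9119124 0) (P.cons (P.lf 0 689953 0) (P.cons (P.lf 45865 0 0) P.nil))))) (P.cons (P.cons (P.lf 17852895 0 0) (P.cons (P.lf 3225 0 0) (P.cons (P.lf 0 33471 0) (P.cons (P.lf 30082 0 0) P.nil)))) (P.cons (P.cons (P.lf 0 1738678 0) (P.cons (P.lf 0 208839 0) (P.cons (P.lf 95910 0 0) P.nil))) (P.cons (P.cons (P.lf 0 265221 0) (P.cons (P.lf 0 7605 0) P.nil)) (P.cons (P.cons (P.lf 0 670 0) P.nil) P.nil)))))) 37847)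
 (EL.cons 2 (TM.mk (P.cons (P.cons (P.lf 0 83492038 0) (P.cons (P.lf 77541626 0 0) (P.cons (P.lf 9553168 0 0) (P.cons (P.lf 0 2444158 0) (P.cons (P.lf 0 219667 0) (P.cons (P.lf 8482 0 0) P.nil)))))) (P.cons (P.cons (P.lf 14066010 0 0) (P.cons (P.lf 0 12656148 0) (P.cons (P.lf 0 2203447 0) (P.cons (P.lf 579667 0 0) (P.cons (P.lf 54270 0 0) P.nil))))) (P.cons (P.cons (P.lf 3970400 0 0) (P.cons (P.lf 0 3777558 0) (P.cons (P.lf 0 322880 0) (P.cons (P.lf 79081 0 0) P.nil)))) (P.cons (P.cons (P.lf 127018 0 0) (P.cons (P.lf 0 134718 0) (P.cons (P.lf 9888 0 0) P.nil))) (P.cons (P.cons (P.lf 0 35499 0) (P.cons (P.lf 33907 0 0) P.nil)) (P.cons (P.cons (P.lf 0 1901 0) P.nil) P.nil)))))) 30250)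
 (EL.cons 6 (TM.mk (P.cons (P.cons (P.lf 0 256686630 0) (P.cons (P.lf 238392780 0 0) (P.cons (P.lf 29370114 0 0) (P.cons (P.lf 0 7514280 0) (P.cons (P.lf 0 675342 0) (P.cons (P.lf 26082 0 0) P.nil)))))) (P.cons (P.cons (P.lf 0 39950670 0) (P.cons (P.lf 38355894 0 0) (P.cons (P.lf 2744916 0 0) (P.cons (P.lf 0 653322 0) (P.cons (P.lf 0 52020 0) P.nil))))) (P.cons (P.cons (P.lf 0 6480 0) (P.cons (P.lf 134886 0 0) (P.cons (P.lf 0 187158 0) (P.cons (P.lf 52914 0 0) P.nil)))) (P.cons (P.cons (P.lf 420024 0 0) (P.cons (P.lf 0 403416 0) (P.cons (P.lf 0 28626 0) P.nil))) (P.cons (P.cons (P.lf 15288 0 0) (P.cons (P.lf 0 15600 0) P.nil)) (P.cons (P.cons (P.lf 0 1992 0) P.nil) P.nil)))))) 29754)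
 EL.nil))))))
noncomputable def S227_241_734_808_3 : EL := (EL.cons 0 (TM.mk (P.cons (P.lf 218965742 0 0) (P.cons (P.lf 0 136792680 0) (P.cons (P.lf 20162540 0 0) (P.cons (P.lf 495075 0 0) (P.cons (P.lf 0 33925 0) (P.cons (P.lf 0 991 0) P.nil)))))) 101)
 (EL.cons 1 (TM.mk (P.cons (P.lf 673184881 0 0) (P.cons (P.lf 0 202366545 0) (P.cons (P.lf 0 5530590 0) (P.cons (P.lf 526580 0 0) (P.cons (P.lf 13798 0 0) (P.cons (P.lf 0 714 0) P.nil)))))) 98)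
 (EL.cons 5 (TM.mk (P.cons (P.lf 2069629158 0 0) (P.cons (P.lf 48637396 0 0) (P.cons (P.lf 0 7168902 0) (P.cons (P.lf 0 176026 0) (P.cons (P.lf 12058 0 0) (P.cons (P.lf 354 0 0) P.nil)))))) 128)
 EL.nil)))
noncomputable def S227_241_734_808_4 : EL := (EL.cons 0 (TM.mk (P.cons (P.cons (P.lf 0 91030482 0) (P.cons (P.lf 0 5217082 0) (P.cons (P.lf 2462781 0 0) (P.lf 117274 0 0)))) (P.cons (P.cons (P.lf 45909653 0 0) (P.cons (P.lf 3075317 0 0) (P.cons (P.lf 0 1451738 0) (P.lf 0 69129 0)))) (P.cons (P.cons (P.lf 0 1605890 0) (P.cons (P.lf 0 339475 0) (P.cons (P.lf 160252 0 0) (P.lf 7630 0 0)))) (P.cons (P.cons (P.lf 0 1091627 0) (P.cons (P.lf 0 43999 0) (P.cons (P.lf 20770 0 0) P.nil))) (P.cons (P.cons (P.lf 0 65506 0) (P.cons (P.lf 2107 0 0) P.nil)) (P.cons (P.cons (P.lf 8272 0 0) P.nil) P.nil)))))) 4230)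
 (EL.cons 1 (TM.mk (P.cons (P.cons (P.lf 0 279862704 0) (P.cons (P.lf 0 16039316 0) (P.cons (P.lf 7571536 0 0) (P.lf 360547 0 0)))) (P.cons (P.cons (P.lf 50437295 0 0) (P.cons (P.lf 4256190 0 0) (P.cons (P.lf 0 2009182 0) (P.lf 0 95673 0)))) (P.cons (P.cons (P.lf 12211995 0 0) (P.cons (P.lf 381750 0 0) (P.cons (P.lf 0 180208 0) (P.lf 0 8580 0)))) (P.cons (P.cons (P.lf 367128 0 0) (P.cons (P.lf 0 28916 0) (P.cons (P.lf 13648 0 0) P.nil))) (P.cons (P.cons (P.lf 0 99819 0) (P.cons (P.lf 0 2535 0) P.nil)) (P.cons (P.cons (P.lf 0 4350 0) P.nil) P.nil)))))) 3328)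
 (EL.cons 5 (TM.mk (P.cons (P.cons (P.lf 0 860405562 0) (P.cons (P.lf 0 49311026 0) (P.cons (P.lf 23277820 0 0) (P.lf 1108464 0 0)))) (P.cons (P.cons (P.lf 0 123803422 0) (P.cons (P.lf 0 2897086 0) (P.cons (P.lf 1367600 0 0) (P.lf 65122 0 0)))) (P.cons (P.cons (P.lf 0 116566 0) (P.cons (P.lf 375952 0 0) (P.cons (P.lf 0 177470 0) (P.lf 0 8448 0)))) (P.cons (P.cons (P.lf 1167946 0 0) (P.cons (P.lf 25336 0 0) (P.cons (P.lf 0 11958 0) P.nil))) (P.cons (P.cons (P.lf 36004 0 0) (P.cons (P.lf 0 1366 0) P.nil)) (P.cons (P.cons (P.lf 0 4802 0) P.nil) P.nil)))))) 2492)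
 EL.nil)))
noncomputable def S227_241_734_808_5 : EL := (EL.cons 0 (TM.mk (P.cons (P.cons (P.lf 37844041 0 0) (P.cons (P.lf 4337787 0 0) (P.cons (P.lf 0 1923398 0) (P.cons (P.lf 0 214864 0) (P.cons (P.lf 22109 0 0) (P.cons (P.lf 2636 0 0) P.nil)))))) (P.cons (P.cons (P.lf 0 14529979 0) (P.cons (P.lf 0 2034776 0) (P.cons (P.lf 891648 0 0) (P.cons (P.lf 110780 0 0) (P.cons (P.lf 0 12253 0) P.nil))))) (P.cons (P.cons (P.lf 0 1600982 0) (P.cons (P.lf 0 22232 0) (P.cons (P.lf 15379 0 0) (P.cons (P.lf 0 4111 0) P.nil)))) (P.cons (P.cons (P.lf 486441 0 0) (P.cons (P.lf 64807 0 0) (P.cons (P.lf 0 28917 0) P.nil))) (P.cons (P.cons (P.lf 98513 0 0) (P.cons (P.lf 5039 0 0) P.nil)) (P.cons (P.cons (P.lf 0 43 0) P.nil) P.nil)))))) 16515)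
 (EL.cons 1 (TM.mk (P.cons (P.cons (P.lf 116347136 0 0) (P.cons (P.lf 13336027 0 0) (P.cons (P.lf 0 5913266 0) (P.cons (P.lf 0 660579 0) (P.cons (P.lf 67976 0 0) (P.cons (P.lf 8109 0 0) P.nil)))))) (P.cons (P.cons (P.lf 0 6961338 0) (P.cons (P.lf 0 1933333 0) (P.cons (P.lf 824713 0 0) (P.cons (P.lf 126481 0 0) (P.cons (P.lf 0 15641 0) P.nil))))) (P.cons (P.cons (P.lf 0 7511630 0) (P.cons (P.lf 0 733177 0) (P.cons (P.lf 331526 0 0) (P.cons (P.lf 30241 0 0) P.nil)))) (P.cons (P.cons (P.lf 0 881602 0) (P.cons (P.lf 0 28543 0) (P.cons (P.lf 14274 0 0) P.nil))) (P.cons (P.cons (P.lf 35872 0 0) (P.cons (P.lf 7657 0 0) P.nil)) (P.cons (P.cons (P.lf 11662 0 0) P.nil) P.nil)))))) 17347)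
 (EL.cons 5 (TM.mk (P.cons (P.cons (P.lf 357695836 0 0) (P.cons (P.lf 41000080 0 0) (P.cons (P.lf 0 18179660 0) (P.cons (P.lf 0 2030878 0) (P.cons (P.lf 208992 0 0) (P.cons (P.lf 24934 0 0) P.nil)))))) (P.cons (P.cons (P.lf 94531384 0 0) (P.cons (P.lf 7344768 0 0) (P.cons (P.lf 0 3356738 0) (P.cons (P.lf 0 269372 0) (P.cons (P.lf 19644 0 0) P.nil))))) (P.cons (P.cons (P.lf 6520202 0 0) (P.cons (P.lf 8978 0 0) (P.cons (P.lf 0 16624 0) (P.cons (P.lf 11488 0 0) P.nil)))) (P.cons (P.cons (P.lf 0 752516 0) (P.cons (P.lf 0 92654 0) (P.cons (P.lf 42250 0 0) P.nil))) (P.cons (P.cons (P.lf 0 123434 0) (P.cons (P.lf 0 4326 0) P.nil)) (P.cons (P.cons (P.lf 0 206 0) P.nil) P.nil)))))) 17620)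
 EL.nil)))
noncomputable def S227_241_734_808_6 : EL := (EL.cons 12 (TM.mk (P.lf 8589934592 0 0) 0)
 (EL.cons 3 (TM.mk (P.cons (P.lf 0 685729796 0) (P.cons (P.lf 214195188 0 0) (P.cons (P.lf 1881828 0 0) (P.cons (P.lf 0 187398 0) (P.cons (P.lf 0 2831 0) (P.cons (P.lf 153 0 0) P.nil)))))) 44)
 (EL.cons 7 (TM.mk (P.cons (P.lf 0 2108197044 0) (P.cons (P.lf 0 24771881 0) (P.cons (P.lf 3796786 0 0) (P.cons (P.lf 45040 0 0) (P.cons (P.lf 0 3252 0) (P.cons (P.lf 0 61 0) P.nil)))))) 51)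
 EL.nil)))
noncomputable def S227_241_734_808_7 : EL := (EL.cons 12 (TM.mk (P.cons (P.cons (P.lf 0 3571087834 0) (P.cons (P.lf 0 204663960 0) (P.cons (P.lf 96613912 0 0) (P.lf 4600656 0 0)))) (P.cons (P.cons (P.lf 0 429919964 0) (P.cons (P.lf 0 7214560 0) (P.cons (P.lf 3405712 0 0) (P.lf 162176 0 0)))) (P.cons (P.cons (P.lf 0 2750204 0) (P.cons (P.lf 1021000 0 0) (P.cons (P.lf 0 481968 0) (P.lf 0 22944 0)))) (P.cons (P.cons (P.lf 3119254 0 0) (P.cons (P.lf 38768 0 0) (P.cons (P.lf 0 18296 0) P.nil))) (P.cons (P.cons (P.lf 50846 0 0) (P.cons (P.lf 0 2472 0) P.nil)) (P.cons (P.cons (P.lf 0 7446 0) P.nil) P.nil)))))) 3860)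
 (EL.cons 3 (TM.mk (P.cons (P.cons (P.lf 0 2635729899 0) (P.cons (P.lf 0 32676422 0) (P.cons (P.lf 15425270 0 0) (P.lf 734534 0 0)))) (P.cons (P.cons (P.lf 0 109414388 0) (P.cons (P.lf 9054966 0 0) (P.cons (P.lf 0 4274498 0) (P.lf 0 203546 0)))) (P.cons (P.cons (P.lf 54826254 0 0) (P.cons (P.lf 612480 0 0) (P.cons (P.lf 0 289126 0) (P.lf 0 13766 0)))) (P.cons (P.cons (P.lf 1459844 0 0) (P.cons (P.lf 0 50496 0) (P.cons (P.lf 23836 0 0) P.nil))) (P.cons (P.cons (P.lf 0 221624 0) (P.cons (P.lf 0 3224 0) P.nil)) (P.cons (P.cons (P.lf 0 6953 0) P.nil) P.nil)))))) 9245)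
 (EL.cons 7 (TM.mk (P.cons (P.cons (P.lf 1214233646 0 0) (P.cons (P.lf 55898542 0 0) (P.cons (P.lf 0 26387536 0) (P.lf 0 1256553 0)))) (P.cons (P.cons (P.lf 12653888 0 0) (P.cons (P.lf 0 1047213 0) (P.cons (P.lf 494347 0 0) (P.lf 23539 0 0)))) (P.cons (P.cons (P.lf 0 8391341 0) (P.cons (P.lf 98872 0 0) (P.cons (P.lf 0 46669 0) (P.lf 0 2218 0)))) (P.cons (P.cons (P.lf 1213307 0 0) (P.cons (P.lf 20146 0 0) (P.cons (P.lf 0 9508 0) P.nil))) (P.cons (P.cons (P.lf 56568 0 0) (P.cons (P.lf 0 1061 0) P.nil)) (P.cons (P.cons (P.lf 0 5296 0) P.nil) P.nil)))))) 7711)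
 (EL.cons 10 (TM.mk (P.cons (P.cons (P.lf 0 628942941 0) (P.cons (P.lf 620164263 0 0) (P.cons (P.lf 19405539 0 0) (P.cons (P.lf 0 3555984 0) (P.lf 0 126999 0))))) (P.cons (P.cons (P.lf 0 14780496 0) (P.cons (P.lf 14574192 0 0) (P.cons (P.lf 456039 0 0) (P.cons (P.lf 0 83565 0) (P.lf 0 2982 0))))) (P.cons (P.cons (P.lf 2178567 0 0) (P.cons (P.lf 0 2148159 0) (P.cons (P.lf 0 67218 0) (P.cons (P.lf 12315 0 0) P.nil)))) (P.cons (P.cons (P.lf 53490 0 0) (P.cons (P.lf 0 52746 0) (P.cons (P.lf 0 1650 0) P.nil))) (P.cons (P.cons (P.lf 0 3663 0) (P.cons (P.lf 3612 0 0) P.nil)) (P.cons (P.cons (P.lf 0 105 0) P.nil) P.nil)))))) 1182)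
 EL.nil))))
noncomputable def S227_241_734_808_8 : EL := (EL.cons 12 (TM.mk (P.cons (P.cons (P.lf 1484605986 0 0) (P.cons (P.lf 170169624 0 0) (P.cons (P.lf 0 75454146 0) (P.cons (P.lf 0 8429104 0) (P.cons (P.lf 867418 0 0) (P.cons (P.lf 103490 0 0) P.nil)))))) (P.cons (P.cons (P.lf 357460684 0 0) (P.cons (P.lf 26485172 0 0) (P.cons (P.lf 0 12158832 0) (P.cons (P.lf 0 919938 0) (P.cons (P.lf 61154 0 0) P.nil))))) (P.cons (P.cons (P.lf 23803860 0 0) (P.cons (P.lf 4300 0 0) (P.cons (P.lf 0 44628 0) (P.cons (P.lf 40110 0 0) P.nil)))) (P.cons (P.cons (P.lf 0 2318238 0) (P.cons (P.lf 0 278452 0) (P.cons (P.lf 127880 0 0) P.nil))) (P.cons (P.cons (P.lf 0 353628 0) (P.cons (P.lf 0 10140 0) P.nil)) (P.cons (P.cons (P.lf 0 894 0) P.nil) P.nil)))))) 50434)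
 (EL.cons 3 (TM.mk (P.cons (P.cons (P.lf 2310015783 0 0) (P.cons (P.lf 166351553 0 0) (P.cons (P.lf 0 76581736 0) (P.cons (P.lf 0 5577040 0) (P.cons (P.lf 346226 0 0) (P.cons (P.lf 41305 0 0) P.nil)))))) (P.cons (P.cons (P.lf 346322609 0 0) (P.cons (P.lf 3254284 0 0) (P.cons (P.lf 0 2006964 0) (P.cons (P.lf 371286 0 0) (P.cons (P.lf 0 83735 0) P.nil))))) (P.cons (P.cons (P.lf 0 40284283 0) (P.cons (P.lf 0 5147433 0) (P.cons (P.lf 2364687 0 0) (P.cons (P.lf 177261 0 0) P.nil)))) (P.cons (P.cons (P.lf 0 9370531 0) (P.cons (P.lf 0 284737 0) (P.cons (P.lf 138454 0 0) P.nil))) (P.cons (P.cons (P.lf 0 74979 0) (P.cons (P.lf 41967 0 0) P.nil)) (P.cons (P.cons (P.lf 79986 0 0) P.nil) P.nil)))))) 119589)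
 (EL.cons 7 (TM.mk (P.cons (P.cons (P.lf 0 645223544 0) (P.cons (P.lf 0 62573912 0) (P.cons (P.lf 28071816 0 0) (P.cons (P.lf 2791538 0 0) (P.cons (P.lf 0 260935 0) (P.cons (P.lf 0 31129 0) P.nil)))))) (P.cons (P.cons (P.lf 0 40052560 0) (P.cons (P.lf 0 376369 0) (P.cons (P.lf 232115 0 0) (P.cons (P.lf 0 42937 0) (P.cons (P.lf 9682 0 0) P.nil))))) (P.cons (P.cons (P.lf 11149651 0 0) (P.cons (P.lf 656294 0 0) (P.cons (P.lf 0 311095 0) (P.cons (P.lf 0 13544 0) P.nil)))) (P.cons (P.cons (P.lf 38800 0 0) (P.cons (P.lf 0 96057 0) (P.cons (P.lf 43296 0 0) P.nil))) (P.cons (P.cons (P.lf 0 244852 0) (P.cons (P.lf 0 11975 0) P.nil)) (P.cons (P.cons (P.lf 0 10277 0) P.nil) P.nil)))))) 56209)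
 (EL.cons 10 (TM.mk (P.cons (P.cons (P.lf 522940062 0 0) (P.cons (P.lf 0 485670540 0) (P.cons (P.lf 0 59834862 0) (P.cons (P.lf 15308628 0 0) (P.cons (P.lf 1375866 0 0) (P.cons (P.lf 0 53148 0) P.nil)))))) (P.cons (P.cons (P.lf 75245640 0 0) (P.cons (P.lf 0 72434574 0) (P.cons (P.lf 0 4889070 0) (P.cons (P.lf 1151124 0 0) (P.cons (P.lf 89820 0 0) P.nil))))) (P.cons (P.cons (P.lf 70848 0 0) (P.cons (P.lf 0 298356 0) (P.cons (P.lf 330984 0 0) (P.cons (P.lf 0 93768 0) P.nil)))) (P.cons (P.cons (P.lf 0 709854 0) (P.cons (P.lf 684546 0 0) (P.cons (P.lf 44352 0 0) P.nil))) (P.cons (P.cons (P.lf 0 21882 0) (P.cons (P.lf 22404 0 0) P.nil)) (P.cons (P.cons (P.lf 2916 0 0) P.nil) P.nil)))))) 48300)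
 EL.nil))))
noncomputable def S227_241_734_808_9 : EL := (EL.cons 3 (TM.mk (P.cons (P.lf 0 685729796 0) (P.cons (P.lf 214195188 0 0) (P.cons (P.lf 1881828 0 0) (P.cons (P.lf 0 187398 0) (P.cons (P.lf 0 2831 0) (P.cons (P.lf 153 0 0) P.nil)))))) 44)
 (EL.cons 7 (TM.mk (P.cons (P.lf 0 2108197044 0) (P.cons (P.lf 0 24771881 0) (P.cons (P.lf 3796786 0 0) (P.cons (P.lf 45040 0 0) (P.cons (P.lf 0 3252 0) (P.cons (P.lf 0 61 0) P.nil)))))) 51)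
 EL.nil))
noncomputable def S227_241_734_808_10 : EL := (EL.cons 3 (TM.mk (P.cons (P.cons (P.lf 285077994 0 0) (P.cons (P.lf 16338211 0 0) (P.cons (P.lf 0 7712635 0) (P.lf 0 367267 0)))) (P.cons (P.cons (P.lf 0 54726947 0) (P.cons (P.lf 0 4527483 0) (P.cons (P.lf 2137249 0 0) (P.lf 101773 0 0)))) (P.cons (P.cons (P.lf 0 11283096 0) (P.cons (P.lf 0 306240 0) (P.cons (P.lf 144563 0 0) (P.lf 6883 0 0)))) (P.cons (P.cons (P.lf 0 333862 0) (P.cons (P.lf 25248 0 0) (P.cons (P.lf 0 11918 0) P.nil))) (P.cons (P.cons (P.lf 83674 0 0) (P.cons (P.lf 1612 0 0) P.nil)) (P.cons (P.cons (P.lf 2683 0 0) P.nil) P.nil)))))) 2242)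
 (EL.cons 7 (TM.mk (P.cons (P.cons (P.lf 876439364 0 0) (P.cons (P.lf 50229946 0 0) (P.cons (P.lf 0 23711608 0) (P.lf 0 1129122 0)))) (P.cons (P.cons (P.lf 115812122 0 0) (P.cons (P.lf 2360859 0 0) (P.cons (P.lf 0 1114469 0) (P.lf 0 53069 0)))) (P.cons (P.cons (P.lf 336352 0 0) (P.cons (P.lf 0 320237 0) (P.cons (P.lf 151169 0 0) (P.lf 7196 0 0)))) (P.cons (P.cons (P.lf 0 966367 0) (P.cons (P.lf 0 16721 0) (P.cons (P.lf 7892 0 0) P.nil))) (P.cons (P.cons (P.lf 0 23592 0) (P.cons (P.lf 985 0 0) P.nil)) (P.cons (P.cons (P.lf 3233 0 0) P.nil) P.nil)))))) 1617)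
 EL.nil))
noncomputable def S227_241_734_808_11 : EL := (EL.cons 3 (TM.mk (P.cons (P.cons (P.lf 0 118515285 0) (P.cons (P.lf 0 13584547 0) (P.cons (P.lf 6023462 0 0) (P.cons (P.lf 672890 0 0) (P.cons (P.lf 0 69244 0) (P.cons (P.lf 0 8261 0) P.nil)))))) (P.cons (P.cons (P.lf 8483651 0 0) (P.cons (P.lf 2128984 0 0) (P.cons (P.lf 0 910860 0) (P.cons (P.lf 0 136746 0) (P.cons (P.lf 16747 0 0) P.nil))))) (P.cons (P.cons (P.lf 7338485 0 0) (P.cons (P.lf 697359 0 0) (P.cons (P.lf 0 316155 0) (P.cons (P.lf 0 27987 0) P.nil)))) (P.cons (P.cons (P.lf 824549 0 0) (P.cons (P.lf 24425 0 0) (P.cons (P.lf 0 12338 0) P.nil))) (P.cons (P.cons (P.lf 0 32649 0) (P.cons (P.lf 0 6765 0) P.nil)) (P.cons (P.cons (P.lf 0 9864 0) P.nil) P.nil)))))) 15155)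
 (EL.cons 7 (TM.mk (P.cons (P.cons (P.lf 0 364361558 0) (P.cons (P.lf 0 41764124 0) (P.cons (P.lf 18518442 0 0) (P.cons (P.lf 2068724 0 0) (P.cons (P.lf 0 212887 0) (P.cons (P.lf 0 25399 0) P.nil)))))) (P.cons (P.cons (P.lf 0 92011648 0) (P.cons (P.lf 0 6990901 0) (P.cons (P.lf 3201695 0 0) (P.cons (P.lf 250085 0 0) (P.cons (P.lf 0 17510 0) P.nil))))) (P.cons (P.cons (P.lf 0 6216749 0) (P.cons (P.lf 0 2218 0) (P.cons (P.lf 12665 0 0) (P.cons (P.lf 0 10916 0) P.nil)))) (P.cons (P.cons (P.lf 666094 0 0) (P.cons (P.lf 80925 0 0) (P.cons (P.lf 0 37026 0) P.nil))) (P.cons (P.cons (P.lf 105308 0 0) (P.cons (P.lf 3367 0 0) P.nil)) (P.cons (P.cons (P.lf 193 0 0) P.nil) P.nil)))))) 15009)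
 EL.nil))
noncomputable def S227_241_734_808_12 : EL := (EL.cons 4 (TM.mk (P.cons (P.lf 685729796 0 0) (P.cons (P.lf 0 214195188 0) (P.cons (P.lf 0 1881828 0) (P.cons (P.lf 187398 0 0) (P.cons (P.lf 2831 0 0) (P.cons (P.lf 0 153 0) P.nil)))))) 44)
 (EL.cons 8 (TM.mk (P.cons (P.lf 2108197044 0 0) (P.cons (P.lf 24771881 0 0) (P.cons (P.lf 0 3796786 0) (P.cons (P.lf 0 45040 0) (P.cons (P.lf 3252 0 0) (P.cons (P.lf 61 0 0) P.nil)))))) 51)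
 EL.nil))
noncomputable def S227_241_734_808_13 : EL := (EL.cons 4 (TM.mk (P.cons (P.cons (P.lf 0 285077994 0) (P.cons (P.lf 0 16338211 0) (P.cons (P.lf 7712635 0 0) (P.lf 367267 0 0)))) (P.cons (P.cons (P.lf 54726947 0 0) (P.cons (P.lf 4527483 0 0) (P.cons (P.lf 0 2137249 0) (P.lf 0 101773 0)))) (P.cons (P.cons (P.lf 11283096 0 0) (P.cons (P.lf 306240 0 0) (P.cons (P.lf 0 144563 0) (P.lf 0 6883 0)))) (P.cons (P.cons (P.lf 333862 0 0) (P.cons (P.lf 0 25248 0) (P.cons (P.lf 11918 0 0) P.nil))) (P.cons (P.cons (P.lf 0 83674 0) (P.cons (P.lf 0 1612 0) P.nil)) (P.cons (P.cons (P.lf 0 2683 0) P.nil) P.nil)))))) 2242)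
 (EL.cons 8 (TM.mk (P.cons (P.cons (P.lf 0 876439364 0) (P.cons (P.lf 0 50229946 0) (P.cons (P.lf 23711608 0 0) (P.lf 1129122 0 0)))) (P.cons (P.cons (P.lf 0 115812122 0) (P.cons (P.lf 0 2360859 0) (P.cons (P.lf 1114469 0 0) (P.lf 53069 0 0)))) (P.cons (P.cons (P.lf 0 336352 0) (P.cons (P.lf 320237 0 0) (P.cons (P.lf 0 151169 0) (P.lf 0 7196 0)))) (P.cons (P.cons (P.lf 966367 0 0) (P.cons (P.lf 16721 0 0) (P.cons (P.lf 0 7892 0) P.nil))) (P.cons (P.cons (P.lf 23592 0 0) (P.cons (P.lf 0 985 0) P.nil)) (P.cons (P.cons (P.lf 0 3233 0) P.nil) P.nil)))))) 1617)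
 EL.nil))
noncomputable def S227_241_734_808_14 : EL := (EL.cons 4 (TM.mk (P.cons (P.cons (P.lf 118515285 0 0) (P.cons (P.lf 13584547 0 0) (P.cons (P.lf 0 6023462 0) (P.cons (P.lf 0 672890 0) (P.cons (P.lf 69244 0 0) (P.cons (P.lf 8261 0 0) P.nil)))))) (P.cons (P.cons (P.lf 0 8483651 0) (P.cons (P.lf 0 2128984 0) (P.cons (P.lf 910860 0 0) (P.cons (P.lf 136746 0 0) (P.cons (P.lf 0 16747 0) P.nil))))) (P.cons (P.cons (P.lf 0 7338485 0) (P.cons (P.lf 0 697359 0) (P.cons (P.lf 316155 0 0) (P.cons (P.lf 27987 0 0) P.nil)))) (P.cons (P.cons (P.lf 0 824549 0) (P.cons (P.lf 0 24425 0) (P.cons (P.lf 12338 0 0) P.nil))) (P.cons (P.cons (P.lf 32649 0 0) (P.cons (P.lf 6765 0 0) P.nil)) (P.cons (P.cons (P.lf 9864 0 0) P.nil) P.nil)))))) 15155)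
 (EL.cons 8 (TM.mk (P.cons (P.cons (P.lf 364361558 0 0) (P.cons (P.lf 41764124 0 0) (P.cons (P.lf 0 18518442 0) (P.cons (P.lf 0 2068724 0) (P.cons (P.lf 212887 0 0) (P.cons (P.lf 25399 0 0) P.nil)))))) (P.cons (P.cons (P.lf 92011648 0 0) (P.cons (P.lf 6990901 0 0) (P.cons (P.lf 0 3201695 0) (P.cons (P.lf 0 250085 0) (P.cons (P.lf 17510 0 0) P.nil))))) (P.cons (P.cons (P.lf 6216749 0 0) (P.cons (P.lf 2218 0 0) (P.cons (P.lf 0 12665 0) (P.cons (P.lf 10916 0 0) P.nil)))) (P.cons (P.cons (P.lf 0 666094 0) (P.cons (P.lf 0 80925 0) (P.cons (P.lf 37026 0 0) P.nil))) (P.cons (P.cons (P.lf 0 105308 0) (P.cons (P.lf 0 3367 0) P.nil)) (P.cons (P.cons (P.lf 0 193 0) P.nil) P.nil)))))) 15009)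
 EL.nil))
noncomputable def S227_241_734_808_15 : EL := (EL.cons 4 (TM.mk (P.cons (P.lf 0 116781729 0) (P.cons (P.lf 72956096 0 0) (P.cons (P.lf 0 10753354 0) (P.cons (P.lf 0 264040 0) (P.cons (P.lf 18093 0 0) (P.cons (P.lf 528 0 0) P.nil)))))) 57)
 (EL.cons 8 (TM.mk (P.cons (P.lf 0 359031937 0) (P.cons (P.lf 107928824 0 0) (P.cons (P.lf 2949648 0 0) (P.cons (P.lf 0 280843 0) (P.cons (P.lf 0 7359 0) (P.cons (P.lf 381 0 0) P.nil)))))) 49)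
 EL.nil))
noncomputable def S227_241_734_808_16 : EL := (EL.cons 4 (TM.mk (P.cons (P.cons (P.lf 48549590 0 0) (P.cons (P.lf 2782443 0 0) (P.cons (P.lf 0 1313483 0) (P.lf 0 62546 0)))) (P.cons (P.cons (P.lf 0 24485148 0) (P.cons (P.lf 0 1640169 0) (P.cons (P.lf 774260 0 0) (P.lf 36869 0 0)))) (P.cons (P.cons (P.lf 856474 0 0) (P.cons (P.lf 181053 0 0) (P.cons (P.lf 0 85468 0) (P.lf 0 4069 0)))) (P.cons (P.cons (P.lf 582201 0 0) (P.cons (P.lf 23466 0 0) (P.cons (P.lf 0 11077 0) P.nil))) (P.cons (P.cons (P.lf 34936 0 0) (P.cons (P.lf 0 1124 0) P.nil)) (P.cons (P.cons (P.lf 0 4411 0) P.nil) P.nil)))))) 2265)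
 (EL.cons 8 (TM.mk (P.cons (P.cons (P.lf 149260109 0 0) (P.cons (P.lf 8554302 0 0) (P.cons (P.lf 0 4038153 0) (P.lf 0 192292 0)))) (P.cons (P.cons (P.lf 0 26899891 0) (P.cons (P.lf 0 2269968 0) (P.cons (P.lf 1071564 0 0) (P.lf 51026 0 0)))) (P.cons (P.cons (P.lf 0 6513064 0) (P.cons (P.lf 0 203600 0) (P.cons (P.lf 96111 0 0) (P.lf 4576 0 0)))) (P.cons (P.cons (P.lf 0 195802 0) (P.cons (P.lf 15422 0 0) (P.cons (P.lf 0 7279 0) P.nil))) (P.cons (P.cons (P.lf 53237 0 0) (P.cons (P.lf 1352 0 0) P.nil)) (P.cons (P.cons (P.lf 2320 0 0) P.nil) P.nil)))))) 1765)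
 EL.nil))
noncomputable def S227_241_734_808_17 : EL := (EL.cons 4 (TM.mk (P.cons (P.cons (P.lf 0 20183489 0) (P.cons (P.lf 0 2313486 0) (P.cons (P.lf 1025812 0 0) (P.cons (P.lf 114594 0 0) (P.cons (P.lf 0 11791 0) (P.cons (P.lf 0 1406 0) P.nil)))))) (P.cons (P.cons (P.lf 7749322 0 0) (P.cons (P.lf 1085214 0 0) (P.cons (P.lf 0 475545 0) (P.cons (P.lf 0 59083 0) (P.cons (P.lf 6535 0 0) P.nil))))) (P.cons (P.cons (P.lf 853857 0 0) (P.cons (P.lf 11857 0 0) (P.cons (P.lf 0 8202 0) (P.cons (P.lf 2192 0 0) P.nil)))) (P.cons (P.cons (P.lf 0 259435 0) (P.cons (P.lf 0 34563 0) (P.cons (P.lf 15422 0 0) P.nil))) (P.cons (P.cons (P.lf 0 52540 0) (P.cons (P.lf 0 2687 0) P.nil)) (P.cons (P.cons (P.lf 23 0 0) P.nil) P.nil)))))) 8818)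
 (EL.cons 8 (TM.mk (P.cons (P.cons (P.lf 0 62051806 0) (P.cons (P.lf 0 7112548 0) (P.cons (P.lf 3153742 0 0) (P.cons (P.lf 352309 0 0) (P.cons (P.lf 0 36254 0) (P.cons (P.lf 0 4325 0) P.nil)))))) (P.cons (P.cons (P.lf 3712714 0 0) (P.cons (P.lf 1031111 0 0) (P.cons (P.lf 0 439847 0) (P.cons (P.lf 0 67457 0) (P.cons (P.lf 8342 0 0) P.nil))))) (P.cons (P.cons (P.lf 4006203 0 0) (P.cons (P.lf 391028 0 0) (P.cons (P.lf 0 176814 0) (P.cons (P.lf 0 16129 0) P.nil)))) (P.cons (P.cons (P.lf 470188 0 0) (P.cons (P.lf 15223 0 0) (P.cons (P.lf 0 7613 0) P.nil))) (P.cons (P.cons (P.lf 0 19132 0) (P.cons (P.lf 0 4084 0) P.nil)) (P.cons (P.cons (P.lf 0 6220 0) P.nil) P.nil)))))) 9240)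
 EL.nil))
noncomputable def S227_241_734_808_18 : EL := (EL.cons 4 (TM.mk (P.cons (P.lf 19888259 0 0) (P.cons (P.lf 0 18636945 0) (P.cons (P.lf 5657716 0 0) (P.cons (P.lf 0 487535 0) (P.cons (P.lf 0 25466 0) (P.cons (P.lf 1193 0 0) P.nil)))))) 87)
 (EL.cons 8 (TM.mk (P.cons (P.lf 61144157 0 0) (P.cons (P.lf 0 37479629 0) (P.cons (P.lf 5071246 0 0) (P.cons (P.lf 271888 0 0) (P.cons (P.lf 0 17078 0) (P.cons (P.lf 0 814 0) P.nil)))))) 70)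
 EL.nil))
noncomputable def S227_241_734_808_19 : EL := (EL.cons 4 (TM.mk (P.cons (P.cons (P.lf 0 8268132 0) (P.cons (P.lf 0 473857 0) (P.cons (P.lf 223689 0 0) (P.lf 10651 0 0)))) (P.cons (P.cons (P.lf 6752531 0 0) (P.cons (P.lf 427339 0 0) (P.cons (P.lf 0 201730 0) (P.lf 0 9605 0)))) (P.cons (P.cons (P.lf 0 1425680 0) (P.cons (P.lf 0 116783 0) (P.cons (P.lf 55128 0 0) (P.lf 2625 0 0)))) (P.cons (P.cons (P.lf 0 67292 0) (P.cons (P.lf 4738 0 0) (P.cons (P.lf 0 2236 0) P.nil))) (P.cons (P.cons (P.lf 26526 0 0) (P.cons (P.lf 1598 0 0) P.nil)) (P.cons (P.cons (P.lf 2861 0 0) P.nil) P.nil)))))) 1918)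
 (EL.cons 8 (TM.mk (P.cons (P.cons (P.lf 0 25419419 0) (P.cons (P.lf 0 1456821 0) (P.cons (P.lf 687708 0 0) (P.lf 32747 0 0)))) (P.cons (P.cons (P.lf 12521161 0 0) (P.cons (P.lf 841635 0 0) (P.cons (P.lf 0 397303 0) (P.lf 0 18918 0)))) (P.cons (P.cons (P.lf 0 252013 0) (P.cons (P.lf 0 82081 0) (P.cons (P.lf 38747 0 0) (P.lf 1844 0 0)))) (P.cons (P.cons (P.lf 0 332641 0) (P.cons (P.lf 0 14915 0) (P.cons (P.lf 7041 0 0) P.nil))) (P.cons (P.cons (P.lf 0 21379 0) (P.cons (P.lf 594 0 0) P.nil)) (P.cons (P.cons (P.lf 2672 0 0) P.nil) P.nil)))))) 1554)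
 EL.nil))
noncomputable def S227_241_734_808_20 : EL := (EL.cons 4 (TM.mk (P.cons (P.cons (P.lf 3437305 0 0) (P.cons (P.lf 393992 0 0) (P.cons (P.lf 0 174698 0) (P.cons (P.lf 0 19515 0) (P.cons (P.lf 2008 0 0) (P.cons (P.lf 239 0 0) P.nil)))))) (P.cons (P.cons (P.lf 0 2393411 0) (P.cons (P.lf 0 307882 0) (P.cons (P.lf 135555 0 0) (P.cons (P.lf 16157 0 0) (P.cons (P.lf 0 1740 0) P.nil))))) (P.cons (P.cons (P.lf 257385 0 0) (P.cons (P.lf 54628 0 0) (P.cons (P.lf 0 23420 0) (P.cons (P.lf 0 3462 0) P.nil)))) (P.cons (P.cons (P.lf 94165 0 0) (P.cons (P.lf 7131 0 0) (P.cons (P.lf 0 3332 0) P.nil))) (P.cons (P.cons (P.lf 0 4800 0) (P.cons (P.lf 0 1424 0) P.nil)) (P.cons (P.cons (P.lf 0 2965 0) P.nil) P.nil)))))) 4923)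
 (EL.cons 8 (TM.mk (P.cons (P.cons (P.lf 10567598 0 0) (P.cons (P.lf 1211286 0 0) (P.cons (P.lf 0 537091 0) (P.cons (P.lf 0 59998 0) (P.cons (P.lf 6173 0 0) (P.cons (P.lf 736 0 0) P.nil)))))) (P.cons (P.cons (P.lf 0 3933190 0) (P.cons (P.lf 0 553959 0) (P.cons (P.lf 242673 0 0) (P.cons (P.lf 30229 0 0) (P.cons (P.lf 0 3349 0) P.nil))))) (P.cons (P.cons (P.lf 0 513766 0) (P.cons (P.lf 0 15066 0) (P.cons (P.lf 8187 0 0) (P.cons (P.lf 0 676 0) P.nil)))) (P.cons (P.cons (P.lf 137662 0 0) (P.cons (P.lf 19021 0 0) (P.cons (P.lf 0 8461 0) P.nil))) (P.cons (P.cons (P.lf 30013 0 0) (P.cons (P.lf 1645 0 0) P.nil)) (P.cons (P.cons (P.lf 69 0 0) P.nil) P.nil)))))) 5063)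
 EL.nil))
noncomputable def S227_241_734_808_21 : EL := (EL.cons 4 (TM.mk (P.cons (P.cons (P.lf 2920807893 0 0) (P.cons (P.lf 49014633 0 0) (P.cons (P.lf 0 23137905 0) (P.lf 0 1101801 0)))) (P.cons (P.cons (P.lf 54687441 0 0) (P.cons (P.lf 0 13582449 0) (P.cons (P.lf 6411747 0 0) (P.lf 305319 0 0)))) (P.cons (P.cons (P.lf 0 66109350 0) (P.cons (P.lf 0 918720 0) (P.cons (P.lf 433689 0 0) (P.lf 20649 0 0)))) (P.cons (P.cons (P.lf 0 1793706 0) (P.cons (P.lf 75744 0 0) (P.cons (P.lf 0 35754 0) P.nil))) (P.cons (P.cons (P.lf 305298 0 0) (P.cons (P.lf 4836 0 0) P.nil)) (P.cons (P.cons (P.lf 9636 0 0) P.nil) P.nil)))))) 6984)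
 (EL.cons 8 (TM.mk (P.cons (P.cons (P.lf 0 337794282 0) (P.cons (P.lf 0 5668596 0) (P.cons (P.lf 2675928 0 0) (P.lf 127431 0 0)))) (P.cons (P.cons (P.lf 103158234 0 0) (P.cons (P.lf 3408072 0 0) (P.cons (P.lf 0 1608816 0) (P.lf 0 76608 0)))) (P.cons (P.cons (P.lf 8727693 0 0) (P.cons (P.lf 0 419109 0) (P.cons (P.lf 197838 0 0) (P.lf 9414 0 0)))) (P.cons (P.cons (P.lf 0 2179674 0) (P.cons (P.lf 0 36867 0) (P.cons (P.lf 17400 0 0) P.nil))) (P.cons (P.cons (P.lf 0 80160 0) (P.cons (P.lf 2046 0 0) P.nil)) (P.cons (P.cons (P.lf 8529 0 0) P.nil) P.nil)))))) 6075)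
 (EL.cons 11 (TM.mk (P.cons (P.cons (P.lf 628942941 0 0) (P.cons (P.lf 0 620164263 0) (P.cons (P.lf 0 19405539 0) (P.cons (P.lf 3555984 0 0) (P.lf 126999 0 0))))) (P.cons (P.cons (P.lf 14780496 0 0) (P.cons (P.lf 0 14574192 0) (P.cons (P.lf 0 456039 0) (P.cons (P.lf 83565 0 0) (P.lf 2982 0 0))))) (P.cons (P.cons (P.lf 0 2178567 0) (P.cons (P.lf 2148159 0 0) (P.cons (P.lf 67218 0 0) (P.cons (P.lf 0 12315 0) P.nil)))) (P.cons (P.cons (P.lf 0 53490 0) (P.cons (P.lf 52746 0 0) (P.cons (P.lf 1650 0 0) P.nil))) (P.cons (P.cons (P.lf 3663 0 0) (P.cons (P.lf 0 3612 0) P.nil)) (P.cons (P.cons (P.lf 105 0 0) P.nil) P.nil)))))) 1182)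
 EL.nil)))
noncomputable def S227_241_734_808_22 : EL := (EL.cons 4 (TM.mk (P.cons (P.cons (P.lf 0 1214265534 0) (P.cons (P.lf 0 89968050 0) (P.cons (P.lf 41302599 0 0) (P.cons (P.lf 3124965 0 0) (P.cons (P.lf 0 207735 0) (P.cons (P.lf 0 24783 0) P.nil)))))) (P.cons (P.cons (P.lf 0 168919479 0) (P.cons (P.lf 0 562650 0) (P.cons (P.lf 548052 0 0) (P.cons (P.lf 0 254016 0) (P.cons (P.lf 50241 0 0) P.nil))))) (P.cons (P.cons (P.lf 23811384 0 0) (P.cons (P.lf 2922396 0 0) (P.cons (P.lf 0 1340421 0) (P.cons (P.lf 0 102624 0) P.nil)))) (P.cons (P.cons (P.lf 5097540 0 0) (P.cons (P.lf 154581 0 0) (P.cons (P.lf 0 75396 0) P.nil))) (P.cons (P.cons (P.lf 21165 0 0) (P.cons (P.lf 0 24366 0) P.nil)) (P.cons (P.cons (P.lf 0 44925 0) P.nil) P.nil)))))) 52206)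
 (EL.cons 8 (TM.mk (P.cons (P.cons (P.lf 140430993 0 0) (P.cons (P.lf 10404894 0 0) (P.cons (P.lf 0 4776687 0) (P.cons (P.lf 0 361407 0) (P.cons (P.lf 24024 0 0) (P.cons (P.lf 2865 0 0) P.nil)))))) (P.cons (P.cons (P.lf 0 25979544 0) (P.cons (P.lf 0 3307266 0) (P.cons (P.lf 1484790 0 0) (P.cons (P.lf 146511 0 0) (P.cons (P.lf 0 13596 0) P.nil))))) (P.cons (P.cons (P.lf 0 8683200 0) (P.cons (P.lf 0 329256 0) (P.cons (P.lf 161880 0 0) (P.cons (P.lf 1314 0 0) P.nil)))) (P.cons (P.cons (P.lf 313647 0 0) (P.cons (P.lf 88491 0 0) (P.cons (P.lf 0 40161 0) P.nil))) (P.cons (P.cons (P.lf 175080 0 0) (P.cons (P.lf 7671 0 0) P.nil)) (P.cons (P.cons (P.lf 5235 0 0) P.nil) P.nil)))))) 20589)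
 (EL.cons 11 (TM.mk (P.cons (P.cons (P.lf 0 261470031 0) (P.cons (P.lf 242835270 0 0) (P.cons (P.lf 29917431 0 0) (P.cons (P.lf 0 7654314 0) (P.cons (P.lf 0 687933 0) (P.cons (P.lf 26574 0 0) P.nil)))))) (P.cons (P.cons (P.lf 0 37622820 0) (P.cons (P.lf 36217287 0 0) (P.cons (P.lf 2444535 0 0) (P.cons (P.lf 0 575562 0) (P.cons (P.lf 0 44910 0) P.nil))))) (P.cons (P.cons (P.lf 0 35424 0) (P.cons (P.lf 149178 0 0) (P.cons (P.lf 0 165492 0) (P.cons (P.lf 46884 0 0) P.nil)))) (P.cons (P.cons (P.lf 354927 0 0) (P.cons (P.lf 0 342273 0) (P.cons (P.lf 0 22176 0) P.nil))) (P.cons (P.cons (P.lf 10941 0 0) (P.cons (P.lf 0 11202 0) P.nil)) (P.cons (P.cons (P.lf 0 1458 0) P.nil) P.nil)))))) 24150)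
 EL.nil)))
noncomputable def S227_241_734_808_23 : EL := (EL.cons 4 (TM.mk (P.cons (P.cons (P.lf 0 497421870 0) (P.cons (P.lf 0 8347329 0) (P.cons (P.lf 3940449 0 0) (P.lf 187638 0 0)))) (P.cons (P.cons (P.lf 146061723 0 0) (P.cons (P.lf 4920507 0 0) (P.cons (P.lf 0 2322780 0) (P.lf 0 110607 0)))) (P.cons (P.cons (P.lf 15532818 0 0) (P.cons (P.lf 0 543162 0) (P.cons (P.lf 256404 0 0) (P.lf 12210 0 0)))) (P.cons (P.cons (P.lf 0 3321654 0) (P.cons (P.lf 0 70398 0) (P.cons (P.lf 33231 0 0) P.nil))) (P.cons (P.cons (P.lf 0 182904 0) (P.cons (P.lf 3372 0 0) P.nil)) (P.cons (P.cons (P.lf 16911 0 0) P.nil) P.nil)))))) 6597)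
 (EL.cons 8 (TM.mk (P.cons (P.cons (P.lf 57527322 0 0) (P.cons (P.lf 965376 0 0) (P.cons (P.lf 0 455718 0) (P.lf 0 21699 0)))) (P.cons (P.cons (P.lf 0 35537427 0) (P.cons (P.lf 0 881949 0) (P.cons (P.lf 416334 0 0) (P.lf 19824 0 0)))) (P.cons (P.cons (P.lf 3843378 0 0) (P.cons (P.lf 250020 0 0) (P.cons (P.lf 0 118023 0) (P.lf 0 5616 0)))) (P.cons (P.cons (P.lf 899415 0 0) (P.cons (P.lf 0 14157 0) (P.cons (P.lf 6684 0 0) P.nil))) (P.cons (P.cons (P.lf 0 102780 0) (P.cons (P.lf 0 2658 0) P.nil)) (P.cons (P.cons (P.lf 0 7227 0) P.nil) P.nil)))))) 3849)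
 (EL.cons 11 (TM.mk (P.cons (P.cons (P.lf 0 107110767 0) (P.cons (P.lf 105615732 0 0) (P.cons (P.lf 3304818 0 0) (P.cons (P.lf 0 605592 0) (P.lf 0 21627 0))))) (P.cons (P.cons (P.lf 30940056 0 0) (P.cons (P.lf 0 30508200 0) (P.cons (P.lf 0 954630 0) (P.cons (P.lf 174930 0 0) (P.lf 6246 0 0))))) (P.cons (P.cons (P.lf 1451217 0 0) (P.cons (P.lf 0 1430961 0) (P.cons (P.lf 0 44775 0) (P.cons (P.lf 8202 0 0) P.nil)))) (P.cons (P.cons (P.lf 0 129144 0) (P.cons (P.lf 127341 0 0) (P.cons (P.lf 3984 0 0) P.nil))) (P.cons (P.cons (P.lf 0 5616 0) (P.cons (P.lf 5538 0 0) P.nil)) (P.cons (P.cons (P.lf 264 0 0) P.nil) P.nil)))))) 1965)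
 EL.nil)))
noncomputable def S227_241_734_808_24 : EL := (EL.cons 4 (TM.mk (P.cons (P.cons (P.lf 206792865 0 0) (P.cons (P.lf 15321813 0 0) (P.cons (P.lf 0 7033947 0) (P.cons (P.lf 0 532188 0) (P.cons (P.lf 35376 0 0) (P.cons (P.lf 4218 0 0) P.nil)))))) (P.cons (P.cons (P.lf 0 35826540 0) (P.cons (P.lf 0 4690113 0) (P.cons (P.lf 2103795 0 0) (P.cons (P.lf 209493 0 0) (P.cons (P.lf 0 19605 0) P.nil))))) (P.cons (P.cons (P.lf 0 13608474 0) (P.cons (P.lf 0 569667 0) (P.cons (P.lf 276732 0 0) (P.cons (P.lf 5424 0 0) P.nil)))) (P.cons (P.cons (P.lf 376110 0 0) (P.cons (P.lf 133056 0 0) (P.cons (P.lf 0 60129 0) P.nil))) (P.cons (P.cons (P.lf 287406 0 0) (P.cons (P.lf 13827 0 0) P.nil)) (P.cons (P.cons (P.lf 10122 0 0) P.nil) P.nil)))))) 30918)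
 (EL.cons 8 (TM.mk (P.cons (P.cons (P.lf 0 23915796 0) (P.cons (P.lf 0 1771983 0) (P.cons (P.lf 813483 0 0) (P.cons (P.lf 61548 0 0) (P.cons (P.lf 0 4089 0) (P.cons (P.lf 0 486 0) P.nil)))))) (P.cons (P.cons (P.lf 11894748 0 0) (P.cons (P.lf 1116735 0 0) (P.cons (P.lf 0 506964 0) (P.cons (P.lf 0 44175 0) (P.cons (P.lf 3591 0 0) P.nil))))) (P.cons (P.cons (P.lf 162396 0 0) (P.cons (P.lf 0 114996 0) (P.cons (P.lf 49182 0 0) (P.cons (P.lf 7398 0 0) P.nil)))) (P.cons (P.cons (P.lf 0 534003 0) (P.cons (P.lf 0 34614 0) (P.cons (P.lf 16365 0 0) P.nil))) (P.cons (P.cons (P.lf 0 16077 0) (P.cons (P.lf 3393 0 0) P.nil)) (P.cons (P.cons (P.lf 8994 0 0) P.nil) P.nil)))))) 10251)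
 (EL.cons 11 (TM.mk (P.cons (P.cons (P.lf 44529087 0 0) (P.cons (P.lf 0 41355534 0) (P.cons (P.lf 0 5095023 0) (P.cons (P.lf 1303551 0 0) (P.cons (P.lf 117156 0 0) (P.cons (P.lf 0 4524 0) P.nil)))))) (P.cons (P.cons (P.lf 0 7501872 0) (P.cons (P.lf 6749946 0 0) (P.cons (P.lf 1175172 0 0) (P.cons (P.lf 0 309156 0) (P.cons (P.lf 0 28944 0) P.nil))))) (P.cons (P.cons (P.lf 0 2117547 0) (P.cons (P.lf 2014698 0 0) (P.cons (P.lf 172203 0 0) (P.cons (P.lf 0 42177 0) P.nil)))) (P.cons (P.cons (P.lf 0 67743 0) (P.cons (P.lf 71850 0 0) (P.cons (P.lf 0 5274 0) P.nil))) (P.cons (P.cons (P.lf 18933 0 0) (P.cons (P.lf 0 18084 0) P.nil)) (P.cons (P.cons (P.lf 1014 0 0) P.nil) P.nil)))))) 16122)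
 EL.nil)))
noncomputable def S227_241_734_808_25 : EL := (EL.cons 4 (TM.mk (P.cons (P.cons (P.lf 84712353 0 0) (P.cons (P.lf 1421574 0 0) (P.cons (P.lf 0 671067 0) (P.lf 0 31953 0)))) (P.cons (P.cons (P.lf 0 51335553 0) (P.cons (P.lf 0 1282020 0) (P.cons (P.lf 605190 0 0) (P.lf 28818 0 0)))) (P.cons (P.cons (P.lf 4892133 0 0) (P.cons (P.lf 350352 0 0) (P.cons (P.lf 0 165387 0) (P.lf 0 7875 0)))) (P.cons (P.cons (P.lf 1483383 0 0) (P.cons (P.lf 0 14214 0) (P.cons (P.lf 6711 0 0) P.nil))) (P.cons (P.cons (P.lf 0 144735 0) (P.cons (P.lf 0 4794 0) P.nil)) (P.cons (P.cons (P.lf 0 15006 0) P.nil) P.nil)))))) 6198)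
 (EL.cons 8 (TM.mk (P.cons (P.cons (P.lf 0 9797064 0) (P.cons (P.lf 0 164406 0) (P.cons (P.lf 77610 0 0) (P.lf 3693 0 0)))) (P.cons (P.cons (P.lf 9112344 0 0) (P.cons (P.lf 201552 0 0) (P.cons (P.lf 0 95145 0) (P.lf 0 4530 0)))) (P.cons (P.cons (P.lf 0 2518098 0) (P.cons (P.lf 0 89043 0) (P.cons (P.lf 42033 0 0) (P.lf 2001 0 0)))) (P.cons (P.cons (P.lf 31992 0 0) (P.cons (P.lf 15252 0 0) (P.cons (P.lf 0 7200 0) P.nil))) (P.cons (P.cons (P.lf 68757 0 0) (P.cons (P.lf 0 141 0) P.nil)) (P.cons (P.cons (P.lf 0 3966 0) P.nil) P.nil)))))) 2604)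
 (EL.cons 11 (TM.mk (P.cons (P.cons (P.lf 18241266 0 0) (P.cons (P.lf 0 17986656 0) (P.cons (P.lf 0 562818 0) (P.cons (P.lf 103134 0 0) (P.lf 3681 0 0))))) (P.cons (P.cons (P.lf 0 10967037 0) (P.cons (P.lf 10813962 0 0) (P.cons (P.lf 338379 0 0) (P.cons (P.lf 0 62004 0) (P.lf 0 2214 0))))) (P.cons (P.cons (P.lf 1348677 0 0) (P.cons (P.lf 0 1329855 0) (P.cons (P.lf 0 41610 0) (P.cons (P.lf 7623 0 0) P.nil)))) (P.cons (P.cons (P.lf 118635 0 0) (P.cons (P.lf 0 116979 0) (P.cons (P.lf 0 3660 0) P.nil))) (P.cons (P.cons (P.lf 0 6597 0) (P.cons (P.lf 6507 0 0) P.nil)) (P.cons (P.cons (P.lf 0 498 0) P.nil) P.nil)))))) 2172)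
 EL.nil)))
noncomputable def S227_241_734_808_26 : EL := (EL.cons 4 (TM.mk (P.cons (P.cons (P.lf 0 35217411 0) (P.cons (P.lf 0 2609346 0) (P.cons (P.lf 1197900 0 0) (P.cons (P.lf 90633 0 0) (P.cons (P.lf 0 6024 0) (P.cons (P.lf 0 717 0) P.nil)))))) (P.cons (P.cons (P.lf 17101902 0 0) (P.cons (P.lf 1613796 0 0) (P.cons (P.lf 0 732459 0) (P.cons (P.lf 0 63987 0) (P.cons (P.lf 5220 0 0) P.nil))))) (P.cons (P.cons (P.lf 508380 0 0) (P.cons (P.lf 0 145317 0) (P.cons (P.lf 61494 0 0) (P.cons (P.lf 9969 0 0) P.nil)))) (P.cons (P.cons (P.lf 0 814335 0) (P.cons (P.lf 0 55866 0) (P.cons (P.lf 26271 0 0) P.nil))) (P.cons (P.cons (P.lf 0 33774 0) (P.cons (P.lf 4662 0 0) P.nil)) (P.cons (P.cons (P.lf 14406 0 0) P.nil) P.nil)))))) 14349)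
 (EL.cons 8 (TM.mk (P.cons (P.cons (P.lf 4072926 0 0) (P.cons (P.lf 301773 0 0) (P.cons (P.lf 0 138537 0) (P.cons (P.lf 0 10479 0) (P.cons (P.lf 696 0 0) (P.cons (P.lf 81 0 0) P.nil)))))) (P.cons (P.cons (P.lf 0 3297933 0) (P.cons (P.lf 0 284445 0) (P.cons (P.lf 129609 0 0) (P.cons (P.lf 10797 0 0) (P.cons (P.lf 0 828 0) P.nil))))) (P.cons (P.cons (P.lf 593916 0 0) (P.cons (P.lf 78159 0 0) (P.cons (P.lf 0 34962 0) (P.cons (P.lf 0 3579 0) P.nil)))) (P.cons (P.cons (P.lf 106251 0 0) (P.cons (P.lf 381 0 0) (P.cons (P.lf 0 444 0) P.nil))) (P.cons (P.cons (P.lf 0 26127 0) (P.cons (P.lf 0 2523 0) P.nil)) (P.cons (P.cons (P.lf 0 2652 0) P.nil) P.nil)))))) 4539)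
 (EL.cons 11 (TM.mk (P.cons (P.cons (P.lf 0 7583427 0) (P.cons (P.lf 7042962 0 0) (P.cons (P.lf 867696 0 0) (P.cons (P.lf 0 221997 0) (P.cons (P.lf 0 19950 0) (P.cons (P.lf 768 0 0) P.nil)))))) (P.cons (P.cons (P.lf 3646356 0 0) (P.cons (P.lf 0 3349482 0) (P.cons (P.lf 0 471168 0) (P.cons (P.lf 121992 0 0) (P.cons (P.lf 11160 0 0) P.nil))))) (P.cons (P.cons (P.lf 0 17631 0) (P.cons (P.lf 0 3366 0) (P.cons (P.lf 30804 0 0) (P.cons (P.lf 0 8652 0) P.nil)))) (P.cons (P.cons (P.lf 0 106686 0) (P.cons (P.lf 100014 0 0) (P.cons (P.lf 10845 0 0) P.nil))) (P.cons (P.cons (P.lf 0 7500 0) (P.cons (P.lf 7557 0 0) P.nil)) (P.cons (P.cons (P.lf 906 0 0) P.nil) P.nil)))))) 9303)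
 EL.nil)))
noncomputable def S227_241_734_808_27 : EL := (EL.cons 13 (TM.mk (P.lf 0 4294967296 0) 0)
 EL.nil)
noncomputable def S227_241_734_808_28 : EL := (EL.cons 13 (TM.mk (P.cons (P.cons (P.lf 1785543917 0 0) (P.cons (P.lf 102331980 0 0) (P.cons (P.lf 0 48306956 0) (P.lf 0 2300328 0)))) (P.cons (P.cons (P.lf 214959982 0 0) (P.cons (P.lf 3607280 0 0) (P.cons (P.lf 0 1702856 0) (P.lf 0 81088 0)))) (P.cons (P.cons (P.lf 1375102 0 0) (P.cons (P.lf 0 510500 0) (P.cons (P.lf 240984 0 0) (P.lf 11472 0 0)))) (P.cons (P.cons (P.lf 0 1559627 0) (P.cons (P.lf 0 19384 0) (P.cons (P.lf 9148 0 0) P.nil))) (P.cons (P.cons (P.lf 0 25423 0) (P.cons (P.lf 1236 0 0) P.nil)) (P.cons (P.cons (P.lf 3723 0 0) P.nil) P.nil)))))) 1930)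
 EL.nil)
noncomputable def S227_241_734_808_29 : EL := (EL.cons 13 (TM.mk (P.cons (P.cons (P.lf 0 742302993 0) (P.cons (P.lf 0 85084812 0) (P.cons (P.lf 37727073 0 0) (P.cons (P.lf 4214552 0 0) (P.cons (P.lf 0 433709 0) (P.cons (P.lf 0 51745 0) P.nil)))))) (P.cons (P.cons (P.lf 0 178730342 0) (P.cons (P.lf 0 13242586 0) (P.cons (P.lf 6079416 0 0) (P.cons (P.lf 459969 0 0) (P.cons (P.lf 0 30577 0) P.nil))))) (P.cons (P.cons (P.lf 0 11901930 0) (P.cons (P.lf 0 2150 0) (P.cons (P.lf 22314 0 0) (P.cons (P.lf 0 20055 0) P.nil)))) (P.cons (P.cons (P.lf 1159119 0 0) (P.cons (P.lf 139226 0 0) (P.cons (P.lf 0 63940 0) P.nil))) (P.cons (P.cons (P.lf 176814 0 0) (P.cons (P.lf 5070 0 0) P.nil)) (P.cons (P.cons (P.lf 447 0 0) P.nil) P.nil)))))) 25217)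
 EL.nil)
noncomputable def S227_241_734_808_30 : EL := (EL.cons 13 (TM.mk (P.cons (P.lf 731445116 0 0) (P.cons (P.lf 0 228474868 0) (P.cons (P.lf 0 2007284 0) (P.cons (P.lf 199892 0 0) (P.cons (P.lf 3020 0 0) (P.cons (P.lf 0 164 0) P.nil)))))) 40)
 EL.nil)
noncomputable def S227_241_734_808_31 : EL := (EL.cons 13 (TM.mk (P.cons (P.cons (P.lf 0 304083194 0) (P.cons (P.lf 0 17427426 0) (P.cons (P.lf 8226811 0 0) (P.lf 391752 0 0)))) (P.cons (P.cons (P.lf 58375411 0 0) (P.cons (P.lf 4829316 0 0) (P.cons (P.lf 0 2279733 0) (P.lf 0 108558 0)))) (P.cons (P.cons (P.lf 12035303 0 0) (P.cons (P.lf 326657 0 0) (P.cons (P.lf 0 154201 0) (P.lf 0 7342 0)))) (P.cons (P.cons (P.lf 356120 0 0) (P.cons (P.lf 0 26932 0) (P.cons (P.lf 12713 0 0) P.nil))) (P.cons (P.cons (P.lf 0 89253 0) (P.cons (P.lf 0 1720 0) P.nil)) (P.cons (P.cons (P.lf 0 2862 0) P.nil) P.nil)))))) 2372)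
 EL.nil)
noncomputable def S227_241_734_808_32 : EL := (EL.cons 13 (TM.mk (P.cons (P.cons (P.lf 126416305 0 0) (P.cons (P.lf 14490184 0 0) (P.cons (P.lf 0 6425027 0) (P.cons (P.lf 0 717750 0) (P.cons (P.lf 73861 0 0) (P.cons (P.lf 8812 0 0) P.nil)))))) (P.cons (P.cons (P.lf 0 9049228 0) (P.cons (P.lf 0 2270917 0) (P.cons (P.lf 971585 0 0) (P.cons (P.lf 145863 0 0) (P.cons (P.lf 0 17864 0) P.nil))))) (P.cons (P.cons (P.lf 0 7827718 0) (P.cons (P.lf 0 743850 0) (P.cons (P.lf 337232 0 0) (P.cons (P.lf 29853 0 0) P.nil)))) (P.cons (P.cons (P.lf 0 879519 0) (P.cons (P.lf 0 26054 0) (P.cons (P.lf 13161 0 0) P.nil))) (P.cons (P.cons (P.lf 34826 0 0) (P.cons (P.lf 7217 0 0) P.nil)) (P.cons (P.cons (P.lf 10522 0 0) P.nil) P.nil)))))) 16142)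
 EL.nil)
noncomputable def S227_241_734_808_33 : EL := (EL.cons 14 (TM.mk (P.lf 8589934592 0 0) 0)
 EL.nil)
noncomputable def S227_241_734_808_34 : EL := (EL.cons 14 (TM.mk (P.cons (P.cons (P.lf 0 3571087834 0) (P.cons (P.lf 0 204663960 0) (P.cons (P.lf 96613912 0 0) (P.lf 4600656 0 0)))) (P.cons (P.cons (P.lf 0 429919964 0) (P.cons (P.lf 0 7214560 0) (P.cons (P.lf 3405712 0 0) (P.lf 162176 0 0)))) (P.cons (P.cons (P.lf 0 2750204 0) (P.cons (P.lf 1021000 0 0) (P.cons (P.lf 0 481968 0) (P.lf 0 22944 0)))) (P.cons (P.cons (P.lf 3119254 0 0) (P.cons (P.lf 38768 0 0) (P.cons (P.lf 0 18296 0) P.nil))) (P.cons (P.cons (P.lf 50846 0 0) (P.cons (P.lf 0 2472 0) P.nil)) (P.cons (P.cons (P.lf 0 7446 0) P.nil) P.nil)))))) 3860)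
 EL.nil)
noncomputable def S227_241_734_808_35 : EL := (EL.cons 14 (TM.mk (P.cons (P.cons (P.lf 1484605986 0 0) (P.cons (P.lf 170169624 0 0) (P.cons (P.lf 0 75454146 0) (P.cons (P.lf 0 8429104 0) (P.cons (P.lf 867418 0 0) (P.cons (P.lf 103490 0 0) P.nil)))))) (P.cons (P.cons (P.lf 357460684 0 0) (P.cons (P.lf 26485172 0 0) (P.cons (P.lf 0 12158832 0) (P.cons (P.lf 0 919938 0) (P.cons (P.lf 61154 0 0) P.nil))))) (P.cons (P.cons (P.lf 23803860 0 0) (P.cons (P.lf 4300 0 0) (P.cons (P.lf 0 44628 0) (P.cons (P.lf 40110 0 0) P.nil)))) (P.cons (P.cons (P.lf 0 2318238 0) (P.cons (P.lf 0 278452 0) (P.cons (P.lf 127880 0 0) P.nil))) (P.cons (P.cons (P.lf 0 353628 0) (P.cons (P.lf 0 10140 0) P.nil)) (P.cons (P.cons (P.lf 0 894 0) P.nil) P.nil)))))) 50434)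
 EL.nil)
noncomputable def S227_241_734_808_36 : EL := (EL.cons 14 (TM.mk (P.cons (P.lf 0 1462890232 0) (P.cons (P.lf 456949736 0 0) (P.cons (P.lf 4014568 0 0) (P.cons (P.lf 0 399784 0) (P.cons (P.lf 0 6040 0) (P.cons (P.lf 328 0 0) P.nil)))))) 80)
 EL.nil)
noncomputable def S227_241_734_808_37 : EL := (EL.cons 14 (TM.mk (P.cons (P.cons (P.lf 608166388 0 0) (P.cons (P.lf 34854852 0 0) (P.cons (P.lf 0 16453622 0) (P.lf 0 783504 0)))) (P.cons (P.cons (P.lf 0 116750822 0) (P.cons (P.lf 0 9658632 0) (P.cons (P.lf 4559466 0 0) (P.lf 217116 0 0)))) (P.cons (P.cons (P.lf 0 24070606 0) (P.cons (P.lf 0 653314 0) (P.cons (P.lf 308402 0 0) (P.lf 14684 0 0)))) (P.cons (P.cons (P.lf 0 712240 0) (P.cons (P.lf 53864 0 0) (P.cons (P.lf 0 25426 0) P.nil))) (P.cons (P.cons (P.lf 178506 0 0) (P.cons (P.lf 3440 0 0) P.nil)) (P.cons (P.cons (P.lf 5724 0 0) P.nil) P.nil)))))) 4744)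
 EL.nil)
noncomputable def S227_241_734_808_38 : EL := (EL.cons 14 (TM.mk (P.cons (P.cons (P.lf 0 252832610 0) (P.cons (P.lf 0 28980368 0) (P.cons (P.lf 12850054 0 0) (P.cons (P.lf 1435500 0 0) (P.cons (P.lf 0 147722 0) (P.cons (P.lf 0 17624 0) P.nil)))))) (P.cons (P.cons (P.lf 18098456 0 0) (P.cons (P.lf 4541834 0 0) (P.cons (P.lf 0 1943170 0) (P.cons (P.lf 0 291726 0) (P.cons (P.lf 35728 0 0) P.nil))))) (P.cons (P.cons (P.lf 15655436 0 0) (P.cons (P.lf 1487700 0 0) (P.cons (P.lf 0 674464 0) (P.cons (P.lf 0 59706 0) P.nil)))) (P.cons (P.cons (P.lf 1759038 0 0) (P.cons (P.lf 52108 0 0) (P.cons (P.lf 0 26322 0) P.nil))) (P.cons (P.cons (P.lf 0 69652 0) (P.cons (P.lf 0 14434 0) P.nil)) (P.cons (P.cons (P.lf 0 21044 0) P.nil) P.nil)))))) 32284)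
 EL.nil)
noncomputable def S227_241_734_808_39 : EL := (EL.cons 14 (TM.mk (P.cons (P.lf 249134356 0 0) (P.cons (P.lf 0 155639672 0) (P.cons (P.lf 22940490 0 0) (P.cons (P.lf 563286 0 0) (P.cons (P.lf 0 38600 0) (P.cons (P.lf 0 1128 0) P.nil)))))) 108)
 EL.nil)
noncomputable def S227_241_734_808_40 : EL := (EL.cons 14 (TM.mk (P.cons (P.cons (P.lf 0 103572460 0) (P.cons (P.lf 0 5935880 0) (P.cons (P.lf 2802098 0 0) (P.lf 133432 0 0)))) (P.cons (P.cons (P.lf 52234984 0 0) (P.cons (P.lf 3499028 0 0) (P.cons (P.lf 0 1651756 0) (P.lf 0 78654 0)))) (P.cons (P.cons (P.lf 0 1827146 0) (P.cons (P.lf 0 386248 0) (P.cons (P.lf 182332 0 0) (P.lf 8682 0 0)))) (P.cons (P.cons (P.lf 0 1242030 0) (P.cons (P.lf 0 50062 0) (P.cons (P.lf 23632 0 0) P.nil))) (P.cons (P.cons (P.lf 0 74532 0) (P.cons (P.lf 2398 0 0) P.nil)) (P.cons (P.cons (P.lf 9412 0 0) P.nil) P.nil)))))) 4792)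
 EL.nil)
noncomputable def S227_241_734_808_41 : EL := (EL.cons 14 (TM.mk (P.cons (P.cons (P.lf 43058110 0 0) (P.cons (P.lf 4935438 0 0) (P.cons (P.lf 0 2188400 0) (P.cons (P.lf 0 244468 0) (P.cons (P.lf 25156 0 0) (P.cons (P.lf 3000 0 0) P.nil)))))) (P.cons (P.cons (P.lf 0 16531888 0) (P.cons (P.lf 0 2315124 0) (P.cons (P.lf 1014498 0 0) (P.cons (P.lf 126044 0 0) (P.cons (P.lf 0 13942 0) P.nil))))) (P.cons (P.cons (P.lf 0 1821562 0) (P.cons (P.lf 0 25296 0) (P.cons (P.lf 17498 0 0) (P.cons (P.lf 0 4678 0) P.nil)))) (P.cons (P.cons (P.lf 553462 0 0) (P.cons (P.lf 73736 0 0) (P.cons (P.lf 0 32902 0) P.nil))) (P.cons (P.cons (P.lf 112086 0 0) (P.cons (P.lf 5734 0 0) P.nil)) (P.cons (P.cons (P.lf 0 50 0) P.nil) P.nil)))))) 18766)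
 EL.nil)
noncomputable def S227_241_734_808_42 : EL := (EL.cons 14 (TM.mk (P.cons (P.lf 0 42428286 0) (P.cons (P.lf 39758816 0 0) (P.cons (P.lf 0 12069796 0) (P.cons (P.lf 1040076 0 0) (P.cons (P.lf 54328 0 0) (P.cons (P.lf 0 2546 0) P.nil)))))) 172)
 EL.nil)
noncomputable def S227_241_734_808_43 : EL := (EL.cons 14 (TM.mk (P.cons (P.cons (P.lf 17638682 0 0) (P.cons (P.lf 1010896 0 0) (P.cons (P.lf 0 477204 0) (P.lf 0 22724 0)))) (P.cons (P.cons (P.lf 0 14405400 0) (P.cons (P.lf 0 911658 0) (P.cons (P.lf 430358 0 0) (P.lf 20492 0 0)))) (P.cons (P.cons (P.lf 3041452 0 0) (P.cons (P.lf 249138 0 0) (P.cons (P.lf 0 117608 0) (P.lf 0 5600 0)))) (P.cons (P.cons (P.lf 143558 0 0) (P.cons (P.lf 0 10108 0) (P.cons (P.lf 4772 0 0) P.nil))) (P.cons (P.cons (P.lf 0 56590 0) (P.cons (P.lf 0 3410 0) P.nil)) (P.cons (P.cons (P.lf 0 6104 0) P.nil) P.nil)))))) 4052)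
 EL.nil)
noncomputable def S227_241_734_808_44 : EL := (EL.cons 14 (TM.mk (P.cons (P.cons (P.lf 0 7332918 0) (P.cons (P.lf 0 840518 0) (P.cons (P.lf 372690 0 0) (P.cons (P.lf 41632 0 0) (P.cons (P.lf 0 4284 0) (P.cons (P.lf 0 510 0) P.nil)))))) (P.cons (P.cons (P.lf 5105944 0 0) (P.cons (P.lf 656816 0 0) (P.cons (P.lf 0 289186 0) (P.cons (P.lf 0 34470 0) (P.cons (P.lf 3712 0 0) P.nil))))) (P.cons (P.cons (P.lf 0 549088 0) (P.cons (P.lf 0 116540 0) (P.cons (P.lf 49964 0 0) (P.cons (P.lf 7386 0 0) P.nil)))) (P.cons (P.cons (P.lf 0 200886 0) (P.cons (P.lf 0 15214 0) (P.cons (P.lf 7110 0 0) P.nil))) (P.cons (P.cons (P.lf 10240 0 0) (P.cons (P.lf 3038 0 0) P.nil)) (P.cons (P.cons (P.lf 6326 0 0) P.nil) P.nil)))))) 10456)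
 EL.nil)
noncomputable def S227_241_734_808_45 : EL := (EL.cons 14 (TM.mk (P.cons (P.cons (P.lf 0 617194264 0) (P.cons (P.lf 0 106116758 0) (P.cons (P.lf 44011904 0 0) (P.cons (P.lf 8011088 0 0) (P.cons (P.lf 0 917296 0) (P.cons (P.lf 0 198908 0) P.nil)))))) (P.cons (P.cons (P.lf 0 222910340 0) (P.cons (P.lf 0 29291292 0) (P.cons (P.lf 12666342 0 0) (P.cons (P.lf 1742220 0 0) (P.cons (P.lf 0 189110 0) P.nil))))) (P.cons (P.cons (P.lf 0 28261928 0) (P.cons (P.lf 0 2072750 0) (P.cons (P.lf 975286 0 0) (P.cons (P.lf 50906 0 0) P.nil)))) (P.cons (P.cons (P.lf 197050 0 0) (P.cons (P.lf 253288 0 0) (P.cons (P.lf 0 103744 0) P.nil))) (P.cons (P.cons (P.lf 394010 0 0) (P.cons (P.lf 43162 0 0) P.nil)) (P.cons (P.cons (P.lf 28284 0 0) P.nil) P.nil)))))) 139984)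
 EL.nil)
noncomputable def S227_241_734_808_46 : EL := (EL.cons 15 (TM.mk (P.lf 4294967296 0 0) 0)
 EL.nil)
noncomputable def S227_241_734_808_47 : EL := (EL.cons 15 (TM.mk (P.cons (P.cons (P.lf 0 1785543917 0) (P.cons (P.lf 0 102331980 0) (P.cons (P.lf 48306956 0 0) (P.lf 2300328 0 0)))) (P.cons (P.cons (P.lf 0 214959982 0) (P.cons (P.lf 0 3607280 0) (P.cons (P.lf 1702856 0 0) (P.lf 81088 0 0)))) (P.cons (P.cons (P.lf 0 1375102 0) (P.cons (P.lf 510500 0 0) (P.cons (P.lf 0 240984 0) (P.lf 0 11472 0)))) (P.cons (P.cons (P.lf 1559627 0 0) (P.cons (P.lf 19384 0 0) (P.cons (P.lf 0 9148 0) P.nil))) (P.cons (P.cons (P.lf 25423 0 0) (P.cons (P.lf 0 1236 0) P.nil)) (P.cons (P.cons (P.lf 0 3723 0) P.nil) P.nil)))))) 1930)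
 EL.nil)
noncomputable def S227_241_734_808_48 : EL := (EL.cons 15 (TM.mk (P.cons (P.cons (P.lf 742302993 0 0) (P.cons (P.lf 85084812 0 0) (P.cons (P.lf 0 37727073 0) (P.cons (P.lf 0 4214552 0) (P.cons (P.lf 433709 0 0) (P.cons (P.lf 51745 0 0) P.nil)))))) (P.cons (P.cons (P.lf 178730342 0 0) (P.cons (P.lf 13242586 0 0) (P.cons (P.lf 0 6079416 0) (P.cons (P.lf 0 459969 0) (P.cons (P.lf 30577 0 0) P.nil))))) (P.cons (P.cons (P.lf 11901930 0 0) (P.cons (P.lf 2150 0 0) (P.cons (P.lf 0 22314 0) (P.cons (P.lf 20055 0 0) P.nil)))) (P.cons (P.cons (P.lf 0 1159119 0) (P.cons (P.lf 0 139226 0) (P.cons (P.lf 63940 0 0) P.nil))) (P.cons (P.cons (P.lf 0 176814 0) (P.cons (P.lf 0 5070 0) P.nil)) (P.cons (P.cons (P.lf 0 447 0) P.nil) P.nil)))))) 25217)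
 EL.nil)
noncomputable def S227_241_734_808 : SL := (SL.cons S227_241_734_808_0 (SL.cons S227_241_734_808_1 (SL.cons S227_241_734_808_2 (SL.cons S227_241_734_808_3 (SL.cons S227_241_734_808_4 (SL.cons S227_241_734_808_5 (SL.cons S227_241_734_808_6 (SL.cons S227_241_734_808_7 (SL.cons S227_241_734_808_8 (SL.cons S227_241_734_808_9 (SL.cons S227_241_734_808_10 (SL.cons S227_241_734_808_11 (SL.cons S227_241_734_808_12 (SL.cons S227_241_734_808_13 (SL.cons S227_241_734_808_14 (SL.cons S227_241_734_808_15 (SL.cons S227_241_734_808_16 (SL.cons S227_241_734_808_17 (SL.cons S227_241_734_808_18 (SL.cons S227_241_734_808_19 (SL.cons S227_241_734_808_20 (SL.cons S227_241_734_808_21 (SL.cons S227_241_734_808_22 (SL.cons S227_241_734_808_23 (SL.cons S227_241_734_808_24 (SL.cons S227_241_734_808_25 (SL.cons S227_241_734_808_26 (SL.cons S227_241_734_808_27 (SL.cons S227_241_734_808_28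 (SL.cons S227_241_734_808_29 (SL.cons S227_241_734_808_30 (SL.cons S227_241_734_808_31 (SL.cons S227_241_734_808_32 (SL.cons S227_241_734_808_33 (SL.cons S227_241_734_808_34 (SL.cons S227_241_734_808_35 (SL.cons S227_241_734_808_36 (SL.cons S227_241_734_808_37 (SL.cons S227_241_734_808_38 (SL.cons S227_241_734_808_39 (SL.cons S227_241_734_808_40 (SL.cons S227_241_734_808_41 (SL.cons S227_241_734_808_42 (SL.cons S227_241_734_808_43 (SL.cons S227_241_734_808_44 (SL.cons S227_241_734_808_45 (SL.cons S227_241_734_808_46 (SL.cons S227_241_734_808_47 (SL.cons S227_241_734_808_48 SL.nil)))))))))))))))))))))))))))))))))))))))))))))))))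
noncomputable def S227_256_216_290_0 : EL := (EL.cons 0 (TM.mk (P.cons (P.lf 8359606057 0 0) (P.cons (P.lf 190686074 0 0) (P.cons (P.lf 0 92290364 0) (P.cons (P.lf 0 3016066 0) (P.cons (P.lf 708651 0 0) (P.cons (P.lf 26673 0 0) P.nil)))))) 4788)
 (EL.cons 1 (TM.mk (P.cons (P.lf 0 450679505 0) (P.cons (P.lf 439849933 0 0) (P.cons (P.lf 16100088 0 0) (P.cons (P.lf 0 5127871 0) (P.cons (P.lf 0 176304 0) (P.cons (P.lf 32482 0 0) P.nil)))))) 1651)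
 (EL.cons 5 (TM.mk (P.cons (P.lf 4329140030 0 0) (P.cons (P.lf 0 67799490 0) (P.cons (P.lf 32814348 0 0) (P.cons (P.lf 1072376 0 0) (P.cons (P.lf 0 251962 0) (P.cons (P.lf 0 9484 0) P.nil)))))) 1837)
 (EL.cons 9 (TM.mk (P.lf 6442450944 0 0) 2)
 EL.nil))))
noncomputable def S227_256_216_290_1 : EL := (EL.cons 0 (TM.mk (P.cons (P.cons (P.lf 5588688474 0 0) (P.cons (P.lf 0 198426601 0) (P.cons (P.lf 0 93669504 0) (P.lf 4460455 0 0)))) (P.cons (P.cons (P.lf 0 326049372 0) (P.cons (P.lf 0 28300439 0) (P.cons (P.lf 0 13359535 0) (P.lf 636163 0 0)))) (P.cons (P.cons (P.lf 0 545819985 0) (P.cons (P.lf 12718181 0 0) (P.cons (P.lf 6003758 0 0) (P.lf 0 285887 0)))) (P.cons (P.cons (P.lf 42269849 0 0) (P.cons (P.lf 1388410 0 0) (P.cons (P.lf 655413 0 0) P.nil))) (P.cons (P.cons (P.lf 16304332 0 0) (P.cons (P.lf 0 293566 0) P.nil)) (P.cons (P.cons (P.lf 0 867401 0) P.nil) P.nil))))))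 583589)
 (EL.cons 1 (TM.mk (P.cons (P.cons (P.lf 397471943 0 0) (P.cons (P.lf 27430354 0 0) (P.cons (P.lf 12948805 0 0) (P.lf 0 616603 0)))) (P.cons (P.cons (P.lf 933786820 0 0) (P.cons (P.lf 0 24909376 0) (P.cons (P.lf 0 11758750 0) (P.lf 559938 0 0)))) (P.cons (P.cons (P.lf 0 74419774 0) (P.cons (P.lf 0 3678857 0) (P.cons (P.lf 0 1736638 0) (P.lf 82691 0 0)))) (P.cons (P.cons (P.lf 0 53343083 0) (P.cons (P.lf 1057998 0 0) (P.cons (P.lf 499435 0 0) P.nil))) (P.cons (P.cons (P.lf 3300417 0 0) (P.cons (P.lf 121493 0 0) P.nil)) (P.cons (P.cons (P.lf 1232097 0 0) P.nil) P.nil)))))) 277574)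
 (EL.cons 5 (TM.mk (P.cons (P.cons (P.lf 2635636210 0 0) (P.cons (P.lf 0 108949206 0) (P.cons (P.lf 0 51430694 0) (P.lf 2449078 0 0)))) (P.cons (P.cons (P.lf 0 244801850 0) (P.cons (P.lf 1424224 0 0) (P.cons (P.lf 672314 0 0) (P.lf 0 32012 0)))) (P.cons (P.cons (P.lf 37172622 0 0) (P.cons (P.lf 0 410514 0) (P.cons (P.lf 0 193782 0) (P.lf 9222 0 0)))) (P.cons (P.cons (P.lf 358092 0 0) (P.cons (P.lf 0 289594 0) (P.cons (P.lf 0 136704 0) P.nil))) (P.cons (P.cons (P.lf 0 3570446 0) (P.cons (P.lf 57696 0 0) P.nil)) (P.cons (P.cons (P.lf 155347 0 0) P.nil) P.nil)))))) 289493)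
 (EL.cons 9 (TM.mk (P.cons (P.cons (P.lf 4078875378 0 0) (P.cons (P.lf 0 158383134 0) (P.cons (P.lf 0 74766534 0) (P.lf 3560310 0 0)))) (P.cons (P.cons (P.lf 0 318291628 0) (P.cons (P.lf 0 7621896 0) (P.cons (P.lf 0 3597996 0) (P.lf 171330 0 0)))) (P.cons (P.cons (P.lf 0 138438252 0) (P.cons (P.lf 3627792 0 0) (P.cons (P.lf 1712538 0 0) (P.lf 0 81546 0)))) (P.cons (P.cons (P.lf 13577094 0 0) (P.cons (P.lf 180048 0 0) (P.cons (P.lf 84996 0 0) P.nil))) (P.cons (P.cons (P.lf 1964670 0 0) (P.cons (P.lf 0 41184 0) P.nil)) (P.cons (P.cons (P.lf 0 135046 0) P.nil) P.nil)))))) 53387)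
 (EL.cons 2 (TM.mk (P.cons (P.cons (P.lf 67931825 0 0) (P.cons (P.lf 66983644 0 0) (P.cons (P.lf 0 2095981 0) (P.cons (P.lf 0 384077 0) (P.lf 13716 0 0))))) (P.cons (P.cons (P.lf 0 65209764 0) (P.cons (P.lf 0 64299577 0) (P.cons (P.lf 2011995 0 0) (P.cons (P.lf 368687 0 0) (P.lf 0 13165 0))))) (P.cons (P.cons (P.lf 0 4026453 0) (P.cons (P.lf 0 3970254 0) (P.cons (P.lf 124230 0 0) (P.cons (P.lf 22764 0 0) P.nil)))) (P.cons (P.cons (P.lf 1248629 0 0) (P.cons (P.lf 1231202 0 0) (P.cons (P.lf 0 38522 0) P.nil))) (P.cons (P.cons (P.lf 68625 0 0) (P.cons (P.lf 67665 0 0) P.nil)) (P.cons (P.cons (P.lf 0 12231 0) P.nil) P.nil)))))) 27521)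
 (EL.cons 6 (TM.mk (P.cons (P.cons (P.lf 318543594 0 0) (P.cons (P.lf 314097417 0 0) (P.cons (P.lf 0 9828411 0) (P.cons (P.lf 0 1801014 0) (P.lf 64320 0 0))))) (P.cons (P.cons (P.lf 15329328 0 0) (P.cons (P.lf 15115362 0 0) (P.cons (P.lf 0 472971 0) (P.cons (P.lf 0 86667 0) (P.lf 3093 0 0))))) (P.cons (P.cons (P.lf 0 7296306 0) (P.cons (P.lf 0 7194465 0) (P.cons (P.lf 225120 0 0) (P.cons (P.lf 41250 0 0) P.nil)))) (P.cons (P.cons (P.lf 0 362130 0) (P.cons (P.lf 0 357075 0) (P.cons (P.lf 11172 0 0) P.nil))) (P.cons (P.cons (P.lf 82839 0 0) (P.cons (P.lf 81684 0 0) P.nil)) (P.cons (P.cons (P.lf 4491 0 0) P.nil) P.nil)))))) 13443)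
 EL.nil))))))
noncomputable def S227_256_216_290_2 : EL := (EL.cons 0 (TM.mk (P.cons (P.cons (P.lf 3725751426 0 0) (P.cons (P.lf 0 265812215 0) (P.cons (P.lf 0 120775716 0) (P.cons (P.lf 10416299 0 0) (P.cons (P.lf 836758 0 0) (P.cons (P.lf 0 99836 0) P.nil)))))) (P.cons (P.cons (P.lf 0 518545237 0) (P.cons (P.lf 0 15268827 0) (P.cons (P.lf 0 5948337 0) (P.cons (P.lf 1532311 0 0) (P.cons (P.lf 224033 0 0) P.nil))))) (P.cons (P.cons (P.lf 0 643130272 0) (P.cons (P.lf 42510414 0 0) (P.cons (P.lf 19550115 0 0) (P.cons (P.lf 0 1444077 0) P.nil)))) (P.cons (P.cons (P.lf 105125862 0 0) (P.cons (P.lf 282413 0 0) (P.cons (P.lf 26820 0 0) P.nil))) (P.cons (P.cons (P.lf 32940867 0 0) (P.cons (P.lf 0 2228886 0) P.nil)) (P.cons (P.cons (P.lf 0 5749612 0) P.nil) P.nil)))))) 3956252)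
 (EL.cons 1 (TM.mk (P.cons (P.cons (P.lf 683952201 0 0) (P.cons (P.lf 1160949 0 0) (P.cons (P.lf 0 528287 0) (P.cons (P.lf 0 1042281 0) (P.cons (P.lf 0 191462 0) (P.cons (P.lf 22843 0 0) P.nil)))))) (P.cons (P.cons (P.lf 938625853 0 0) (P.cons (P.lf 0 66993261 0) (P.cons (P.lf 0 30704682 0) (P.cons (P.lf 2374758 0 0) (P.cons (P.lf 163690 0 0) P.nil))))) (P.cons (P.cons (P.lf 0 193683947 0) (P.cons (P.lf 0 536796 0) (P.cons (P.lf 0 29847 0) (P.cons (P.lf 223119 0 0) P.nil)))) (P.cons (P.cons (P.lf 0 82531272 0) (P.cons (P.lf 5724786 0 0) (P.cons (P.lf 2645110 0 0) P.nil))) (P.cons (P.cons (P.lf 15155823 0 0) (P.cons (P.lf 22624 0 0) P.nil)) (P.cons (P.cons (P.lf 3189802 0 0) P.nil) P.nil)))))) 2017358)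
 (EL.cons 5 (TM.mk (P.cons (P.cons (P.lf 1602050450 0 0) (P.cons (P.lf 0 132781923 0) (P.cons (P.lf 0 59940807 0) (P.cons (P.lf 5572080 0 0) (P.cons (P.lf 487461 0 0) (P.cons (P.lf 0 58146 0) P.nil)))))) (P.cons (P.cons (P.lf 0 272403222 0) (P.cons (P.lf 12227469 0 0) (P.cons (P.lf 5749016 0 0) (P.cons (P.lf 0 296652 0) (P.cons (P.lf 0 4097 0) P.nil))))) (P.cons (P.cons (P.lf 47820177 0 0) (P.cons (P.lf 0 1340681 0) (P.cons (P.lf 0 640846 0) (P.cons (P.lf 22593 0 0) P.nil)))) (P.cons (P.cons (P.lf 0 2390739 0) (P.cons (P.lf 0 633613 0) (P.cons (P.lf 0 281009 0) P.nil))) (P.cons (P.cons (P.lf 0 7041786 0) (P.cons (P.lf 390620 0 0) P.nil)) (P.cons (P.cons (P.lf 969171 0 0) P.nil) P.nil)))))) 1936109)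
 (EL.cons 9 (TM.mk (P.cons (P.cons (P.lf 2582437102 0 0) (P.cons (P.lf 0 200552575 0) (P.cons (P.lf 0 90779353 0) (P.cons (P.lf 8184406 0 0) (P.cons (P.lf 692631 0 0) (P.cons (P.lf 0 82636 0) P.nil)))))) (P.cons (P.cons (P.lf 0 403036638 0) (P.cons (P.lf 5998729 0 0) (P.cons (P.lf 3206532 0 0) (P.cons (P.lf 218965 0 0) (P.cons (P.lf 66663 0 0) P.nil))))) (P.cons (P.cons (P.lf 0 159572062 0) (P.cons (P.lf 12153628 0 0) (P.cons (P.lf 5567898 0 0) (P.cons (P.lf 0 433090 0) P.nil)))) (P.cons (P.cons (P.lf 30871173 0 0) (P.cons (P.lf 0 470479 0) (P.cons (P.lf 0 239529 0) P.nil))) (P.cons (P.cons (P.lf 4121022 0 0) (P.cons (P.lf 0 354576 0) P.nil)) (P.cons (P.cons (P.lf 0 948633 0) P.nil) P.nil)))))) 558221)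
 (EL.cons 2 (TM.mk (P.cons (P.cons (P.lf 86018641 0 0) (P.cons (P.lf 81477900 0 0) (P.cons (P.lf 0 7524264 0) (P.cons (P.lf 0 1862926 0) (P.cons (P.lf 158934 0 0) (P.cons (P.lf 5923 0 0) P.nil)))))) (P.cons (P.cons (P.lf 0 89284230 0) (P.cons (P.lf 0 84992478 0) (P.cons (P.lf 7195500 0 0) (P.cons (P.lf 1759983 0 0) (P.cons (P.lf 0 147110 0) P.nil))))) (P.cons (P.cons (P.lf 0 1574572 0) (P.cons (P.lf 0 1123813 0) (P.cons (P.lf 673779 0 0) (P.cons (P.lf 185613 0 0) P.nil)))) (P.cons (P.cons (P.lf 5067770 0 0) (P.cons (P.lf 4875525 0 0) (P.cons (P.lf 0 333534 0) P.nil))) (P.cons (P.cons (P.lf 0 96851 0) (P.cons (P.lf 0 110874 0) P.nil)) (P.cons (P.cons (P.lf 0 135523 0) P.nil) P.nil)))))) 376565)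
 (EL.cons 6 (TM.mk (P.cons (P.cons (P.lf 403355688 0 0) (P.cons (P.lf 382063380 0 0) (P.cons (P.lf 0 35282532 0) (P.cons (P.lf 0 8735592 0) (P.cons (P.lf 745278 0 0) (P.cons (P.lf 27774 0 0) P.nil)))))) (P.cons (P.cons (P.lf 0 12064764 0) (P.cons (P.lf 0 13403808 0) (P.cons (P.lf 0 1825752 0) (P.cons (P.lf 0 553056 0) (P.cons (P.lf 61452 0 0) P.nil))))) (P.cons (P.cons (P.lf 0 24443658 0) (P.cons (P.lf 0 23421252 0) (P.cons (P.lf 1747482 0 0) (P.cons (P.lf 418956 0 0) P.nil)))) (P.cons (P.cons (P.lf 946218 0 0) (P.cons (P.lf 1003152 0 0) (P.cons (P.lf 73068 0 0) P.nil))) (P.cons (P.cons (P.lf 713148 0 0) (P.cons (P.lf 688536 0 0) P.nil)) (P.cons (P.cons (P.lf 0 21690 0) P.nil) P.nil)))))) 276522)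
 EL.nil))))))
noncomputable def S227_256_216_290_3 : EL := (EL.cons 0 (TM.mk (P.cons (P.lf 96110806 0 0) (P.cons (P.lf 0 190686074 0) (P.cons (P.lf 92290364 0 0) (P.cons (P.lf 3016066 0 0) (P.cons (P.lf 0 708651 0) (P.cons (P.lf 0 26673 0) P.nil)))))) 4788)
 (EL.cons 1 (TM.mk (P.cons (P.lf 450679505 0 0) (P.cons (P.lf 0 439849933 0) (P.cons (P.lf 0 16100088 0) (P.cons (P.lf 5127871 0 0) (P.cons (P.lf 176304 0 0) (P.cons (P.lf 0 32482 0) P.nil)))))) 1651)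
 (EL.cons 5 (TM.mk (P.cons (P.lf 2113310914 0 0) (P.cons (P.lf 67799490 0 0) (P.cons (P.lf 0 32814348 0) (P.cons (P.lf 0 1072376 0) (P.cons (P.lf 251962 0 0) (P.cons (P.lf 9484 0 0) P.nil)))))) 1830)
 EL.nil)))
noncomputable def S227_256_216_290_4 : EL := (EL.cons 0 (TM.mk (P.cons (P.cons (P.lf 60850133 0 0) (P.cons (P.lf 0 2362816 0) (P.cons (P.lf 0 1115393 0) (P.lf 53112 0 0)))) (P.cons (P.cons (P.lf 0 125476468 0) (P.cons (P.lf 4574176 0 0) (P.cons (P.lf 2159291 0 0) (P.lf 0 102823 0)))) (P.cons (P.cons (P.lf 65786958 0 0) (P.cons (P.lf 0 1989175 0) (P.cons (P.lf 0 939012 0) (P.lf 44713 0 0)))) (P.cons (P.cons (P.lf 1650002 0 0) (P.cons (P.lf 0 288024 0) (P.cons (P.lf 0 135965 0) P.nil))) (P.cons (P.cons (P.lf 0 2953400 0) (P.cons (P.lf 59878 0 0) P.nil)) (P.cons (P.cons (P.lf 87642 0 0) P.nil) P.nil)))))) 123466)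
 (EL.cons 1 (TM.mk (P.cons (P.cons (P.lf 285336363 0 0) (P.cons (P.lf 0 11079637 0) (P.cons (P.lf 0 5230267 0) (P.lf 249058 0 0)))) (P.cons (P.cons (P.lf 0 300745878 0) (P.cons (P.lf 10280214 0 0) (P.cons (P.lf 4852890 0 0) (P.lf 0 231090 0)))) (P.cons (P.cons (P.lf 1853176 0 0) (P.cons (P.lf 1169964 0 0) (P.cons (P.lf 552292 0 0) (P.lf 0 26298 0)))) (P.cons (P.cons (P.lf 14443485 0 0) (P.cons (P.lf 0 342103 0) (P.cons (P.lf 0 161493 0) P.nil))) (P.cons (P.cons (P.lf 0 585273 0) (P.cons (P.lf 0 34638 0) P.nil)) (P.cons (P.cons (P.lf 0 316978 0) P.nil) P.nil)))))) 72765)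
 (EL.cons 5 (TM.mk (P.cons (P.cons (P.lf 1337989520 0 0) (P.cons (P.lf 0 51954264 0) (P.cons (P.lf 0 24525592 0) (P.lf 1167884 0 0)))) (P.cons (P.cons (P.lf 0 61483352 0) (P.cons (P.lf 0 4167004 0) (P.cons (P.lf 0 1967078 0) (P.lf 93668 0 0)))) (P.cons (P.cons (P.lf 0 69537000 0) (P.cons (P.lf 1916526 0 0) (P.cons (P.lf 904716 0 0) (P.lf 0 43080 0)))) (P.cons (P.cons (P.lf 3939030 0 0) (P.cons (P.lf 162424 0 0) (P.cons (P.lf 76674 0 0) P.nil))) (P.cons (P.cons (P.lf 1704986 0 0) (P.cons (P.lf 0 35016 0) P.nil)) (P.cons (P.cons (P.lf 0 76176 0) P.nil) P.nil)))))) 61092)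
 EL.nil)))
noncomputable def S227_256_216_290_5 : EL := (EL.cons 0 (TM.mk (P.cons (P.cons (P.lf 38525726 0 0) (P.cons (P.lf 0 2991914 0) (P.cons (P.lf 0 1354278 0) (P.cons (P.lf 122097 0 0) (P.cons (P.lf 10332 0 0) (P.cons (P.lf 0 1232 0) P.nil)))))) (P.cons (P.cons (P.lf 0 82448585 0) (P.cons (P.lf 6025521 0 0) (P.cons (P.lf 2734757 0 0) (P.cons (P.lf 0 238978 0) (P.cons (P.lf 0 19504 0) P.nil))))) (P.cons (P.cons (P.lf 46542990 0 0) (P.cons (P.lf 0 2869224 0) (P.cons (P.lf 0 1312289 0) (P.cons (P.lf 104301 0 0) P.nil)))) (P.cons (P.cons (P.lf 618960 0 0) (P.cons (P.lf 0 374700 0) (P.cons (P.lf 0 164937 0) P.nil))) (P.cons (P.cons (P.lf 0 3610926 0) (P.cons (P.lf 207608 0 0) P.nil)) (P.cons (P.cons (P.lf 265048 0 0) P.nil) P.nil)))))) 358904)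
 (EL.cons 1 (TM.mk (P.cons (P.cons (P.lf 180653523 0 0) (P.cons (P.lf 0 14029588 0) (P.cons (P.lf 0 6350437 0) (P.cons (P.lf 572536 0 0) (P.cons (P.lf 48451 0 0) (P.cons (P.lf 0 5778 0) P.nil)))))) (P.cons (P.cons (P.lf 0 204506816 0) (P.cons (P.lf 14112103 0 0) (P.cons (P.lf 6422152 0 0) (P.cons (P.lf 0 543461 0) (P.cons (P.lf 0 42624 0) P.nil))))) (P.cons (P.cons (P.lf 9900316 0 0) (P.cons (P.lf 941838 0 0) (P.cons (P.lf 397441 0 0) (P.cons (P.lf 0 65698 0) P.nil)))) (P.cons (P.cons (P.lf 16116860 0 0) (P.cons (P.lf 0 1037304 0) (P.cons (P.lf 0 477165 0) P.nil))) (P.cons (P.cons (P.lf 0 1670748 0) (P.cons (P.lf 0 23767 0) P.nil)) (P.cons (P.cons (P.lf 0 575928 0) P.nil) P.nil)))))) 321243)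
 (EL.cons 5 (TM.mk (P.cons (P.cons (P.lf 847114328 0 0) (P.cons (P.lf 0 65787064 0) (P.cons (P.lf 0 29778262 0) (P.cons (P.lf 2684722 0 0) (P.cons (P.lf 227202 0 0) (P.cons (P.lf 0 27106 0) P.nil)))))) (P.cons (P.cons (P.lf 0 105030492 0) (P.cons (P.lf 0 142832 0) (P.cons (P.lf 96484 0 0) (P.cons (P.lf 157958 0 0) (P.cons (P.lf 29156 0 0) P.nil))))) (P.cons (P.cons (P.lf 0 69739304 0) (P.cons (P.lf 5071378 0 0) (P.cons (P.lf 2322556 0 0) (P.cons (P.lf 0 181448 0) P.nil)))) (P.cons (P.cons (P.lf 10070316 0 0) (P.cons (P.lf 0 23598 0) (P.cons (P.lf 0 21196 0) P.nil))) (P.cons (P.cons (P.lf 2657556 0 0) (P.cons (P.lf 0 192008 0) P.nil)) (P.cons (P.cons (P.lf 0 410448 0) P.nil) P.nil)))))) 306300)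
 EL.nil)))
noncomputable def S227_256_216_290_6 : EL := (EL.cons 12 (TM.mk (P.lf 8589934592 0 0) 0)
 (EL.cons 3 (TM.mk (P.cons (P.lf 0 454308690 0) (P.cons (P.lf 450679503 0 0) (P.cons (P.lf 5414782 0 0) (P.cons (P.lf 0 1756837 0) (P.cons (P.lf 0 35658 0) (P.cons (P.lf 6731 0 0) P.nil)))))) 269)
 (EL.cons 7 (TM.mk (P.cons (P.lf 0 2130328762 0) (P.cons (P.lf 0 34172730 0) (P.cons (P.lf 16813380 0 0) (P.cons (P.lf 270802 0 0) (P.cons (P.lf 0 64991 0) (P.cons (P.lf 0 1601 0) P.nil)))))) 330)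
 EL.nil)))
noncomputable def S227_256_216_290_7 : EL := (EL.cons 12 (TM.mk (P.cons (P.cons (P.lf 5438500504 0 0) (P.cons (P.lf 0 211177512 0) (P.cons (P.lf 0 99688712 0) (P.lf 4747080 0 0)))) (P.cons (P.cons (P.lf 0 424388838 0) (P.cons (P.lf 0 10162528 0) (P.cons (P.lf 0 4797328 0) (P.lf 228440 0 0)))) (P.cons (P.cons (P.lf 0 184584336 0) (P.cons (P.lf 4837056 0 0) (P.cons (P.lf 2283384 0 0) (P.lf 0 108728 0)))) (P.cons (P.cons (P.lf 18102792 0 0) (P.cons (P.lf 240064 0 0) (P.cons (P.lf 113328 0 0) P.nil))) (P.cons (P.cons (P.lf 2619560 0 0) (P.cons (P.lf 0 54912 0) P.nil)) (P.cons (P.cons (P.lf 0 180062 0) P.nil) P.nil)))))) 71158)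
 (EL.cons 3 (TM.mk (P.cons (P.cons (P.lf 0 1686873625 0) (P.cons (P.lf 0 22337718 0) (P.cons (P.lf 0 10544770 0) (P.lf 502130 0 0)))) (P.cons (P.cons (P.lf 0 920661014 0) (P.cons (P.lf 21084316 0 0) (P.cons (P.lf 9953088 0 0) (P.lf 0 473956 0)))) (P.cons (P.cons (P.lf 165815307 0 0) (P.cons (P.lf 1844258 0 0) (P.cons (P.lf 870600 0 0) (P.lf 0 41456 0)))) (P.cons (P.cons (P.lf 28868996 0 0) (P.cons (P.lf 0 555736 0) (P.cons (P.lf 0 262340 0) P.nil))) (P.cons (P.cons (P.lf 0 2652040 0) (P.cons (P.lf 0 43006 0) P.nil)) (P.cons (P.cons (P.lf 0 446972 0) P.nil) P.nil)))))) 189484)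
 (EL.cons 7 (TM.mk (P.cons (P.cons (P.lf 0 1242666746 0) (P.cons (P.lf 54913271 0 0) (P.cons (P.lf 25922427 0 0) (P.lf 0 1234403 0)))) (P.cons (P.cons (P.lf 69809038 0 0) (P.cons (P.lf 0 1598716 0) (P.cons (P.lf 0 754688 0) (P.lf 35936 0 0)))) (P.cons (P.cons (P.lf 0 47758518 0) (P.cons (P.lf 665951 0 0) (P.cons (P.lf 314368 0 0) (P.lf 0 14969 0)))) (P.cons (P.cons (P.lf 6543043 0 0) (P.cons (P.lf 129641 0 0) (P.cons (P.lf 61200 0 0) P.nil))) (P.cons (P.cons (P.lf 1707159 0 0) (P.cons (P.lf 0 27781 0) P.nil)) (P.cons (P.cons (P.lf 0 122168 0) P.nil) P.nil)))))) 158953)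
 (EL.cons 10 (TM.mk (P.cons (P.cons (P.lf 0 642217461 0) (P.cons (P.lf 0 633253500 0) (P.cons (P.lf 19815114 0 0) (P.cons (P.lf 3631038 0 0) (P.lf 0 129678 0))))) (P.cons (P.cons (P.lf 0 20603694 0) (P.cons (P.lf 0 20316111 0) (P.cons (P.lf 635709 0 0) (P.cons (P.lf 116490 0 0) (P.lf 0 4158 0))))) (P.cons (P.cons (P.lf 9972003 0 0) (P.cons (P.lf 9832815 0 0) (P.cons (P.lf 0 307677 0) (P.cons (P.lf 0 56379 0) P.nil)))) (P.cons (P.cons (P.lf 325884 0 0) (P.cons (P.lf 321336 0 0) (P.cons (P.lf 0 10053 0) P.nil))) (P.cons (P.cons (P.lf 0 76569 0) (P.cons (P.lf 0 75498 0) P.nil)) (P.cons (P.cons (P.lf 0 2880 0) P.nil) P.nil)))))) 10914)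
 EL.nil))))
noncomputable def S227_256_216_290_8 : EL := (EL.cons 12 (TM.mk (P.cons (P.cons (P.lf 3443249470 0 0) (P.cons (P.lf 0 267403434 0) (P.cons (P.lf 0 121039138 0) (P.cons (P.lf 10912542 0 0) (P.cons (P.lf 923508 0 0) (P.cons (P.lf 0 110182 0) P.nil)))))) (P.cons (P.cons (P.lf 0 537382184 0) (P.cons (P.lf 7998306 0 0) (P.cons (P.lf 4275376 0 0) (P.cons (P.lf 291954 0 0) (P.cons (P.lf 88884 0 0) P.nil))))) (P.cons (P.cons (P.lf 0 212762750 0) (P.cons (P.lf 16204838 0 0) (P.cons (P.lf 7423864 0 0) (P.cons (P.lf 0 577454 0) P.nil)))) (P.cons (P.cons (P.lf 41161564 0 0) (P.cons (P.lf 0 627306 0) (P.cons (P.lf 0 319372 0) P.nil))) (P.cons (P.cons (P.lf 5494696 0 0) (P.cons (P.lf 0 472768 0) P.nil)) (P.cons (P.cons (P.lf 0 1264844 0) P.nil) P.nil)))))) 744266)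
 (EL.cons 3 (TM.mk (P.cons (P.cons (P.lf 0 1953894730 0) (P.cons (P.lf 40513518 0 0) (P.cons (P.lf 20497749 0 0) (P.cons (P.lf 385469 0 0) (P.cons (P.lf 244216 0 0) (P.cons (P.lf 0 29136 0) P.nil)))))) (P.cons (P.cons (P.lf 0 1208180264 0) (P.cons (P.lf 92616819 0 0) (P.cons (P.lf 42491012 0 0) (P.cons (P.lf 0 3243010 0) (P.cons (P.lf 0 218755 0) P.nil))))) (P.cons (P.cons (P.lf 388202414 0 0) (P.cons (P.lf 0 6056352 0) (P.cons (P.lf 0 3066129 0) (P.cons (P.lf 0 59433 0) P.nil)))) (P.cons (P.cons (P.lf 67010939 0 0) (P.cons (P.lf 0 5772269 0) (P.cons (P.lf 0 2668039 0) P.nil))) (P.cons (P.cons (P.lf 0 20076735 0) (P.cons (P.lf 213598 0 0) P.nil)) (P.cons (P.cons (P.lf 0 1766106 0) P.nil) P.nil)))))) 2238157)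
 (EL.cons 7 (TM.mk (P.cons (P.cons (P.lf 0 719590356 0) (P.cons (P.lf 64317257 0 0) (P.cons (P.lf 28949224 0 0) (P.cons (P.lf 0 2779332 0) (P.cons (P.lf 0 251250 0) (P.cons (P.lf 29971 0 0) P.nil)))))) (P.cons (P.cons (P.lf 91610162 0 0) (P.cons (P.lf 0 7022656 0) (P.cons (P.lf 0 3221868 0) (P.cons (P.lf 245898 0 0) (P.cons (P.lf 16583 0 0) P.nil))))) (P.cons (P.cons (P.lf 0 75609335 0) (P.cons (P.lf 3998820 0 0) (P.cons (P.lf 1856394 0 0) (P.cons (P.lf 0 119426 0) P.nil)))) (P.cons (P.cons (P.lf 15071357 0 0) (P.cons (P.lf 100630 0 0) (P.cons (P.lf 33025 0 0) P.nil))) (P.cons (P.cons (P.lf 5089885 0 0) (P.cons (P.lf 0 337003 0) P.nil)) (P.cons (P.cons (P.lf 0 1080311 0) P.nil) P.nil)))))) 1142118)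
 (EL.cons 10 (TM.mk (P.cons (P.cons (P.lf 0 813207582 0) (P.cons (P.lf 0 770280042 0) (P.cons (P.lf 71133306 0 0) (P.cons (P.lf 17611878 0 0) (P.cons (P.lf 0 1502568 0) (P.cons (P.lf 0 55998 0) P.nil)))))) (P.cons (P.cons (P.lf 37368552 0 0) (P.cons (P.lf 39379602 0 0) (P.cons (P.lf 2539860 0 0) (P.cons (P.lf 832512 0 0) (P.cons (P.lf 0 99792 0) P.nil))))) (P.cons (P.cons (P.lf 42263418 0 0) (P.cons (P.lf 40508676 0 0) (P.cons (P.lf 0 3002448 0) (P.cons (P.lf 0 719022 0) P.nil)))) (P.cons (P.cons (P.lf 0 2394078 0) (P.cons (P.lf 0 2459382 0) (P.cons (P.lf 0 70068 0) P.nil))) (P.cons (P.cons (P.lf 0 1036260 0) (P.cons (P.lf 0 1000506 0) P.nil)) (P.cons (P.cons (P.lf 46302 0 0) P.nil) P.nil)))))) 412542)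
 EL.nil))))
noncomputable def S227_256_216_290_9 : EL := (EL.cons 3 (TM.mk (P.cons (P.lf 0 454308690 0) (P.cons (P.lf 450679503 0 0) (P.cons (P.lf 5414782 0 0) (P.cons (P.lf 0 1756837 0) (P.cons (P.lf 0 35658 0) (P.cons (P.lf 6731 0 0) P.nil)))))) 269)
 (EL.cons 7 (TM.mk (P.cons (P.lf 0 2130328762 0) (P.cons (P.lf 0 34172730 0) (P.cons (P.lf 16813380 0 0) (P.cons (P.lf 270802 0 0) (P.cons (P.lf 0 64991 0) (P.cons (P.lf 0 1601 0) P.nil)))))) 330)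
 EL.nil))
noncomputable def S227_256_216_290_10 : EL := (EL.cons 3 (TM.mk (P.cons (P.cons (P.lf 0 287634091 0) (P.cons (P.lf 11168859 0 0) (P.cons (P.lf 5272385 0 0) (P.lf 0 251065 0)))) (P.cons (P.cons (P.lf 307781650 0 0) (P.cons (P.lf 0 10542158 0) (P.cons (P.lf 0 4976544 0) (P.lf 236978 0 0)))) (P.cons (P.cons (P.lf 0 9075363 0) (P.cons (P.lf 0 922129 0) (P.cons (P.lf 0 435300 0) (P.lf 20728 0 0)))) (P.cons (P.cons (P.lf 0 12021646 0) (P.cons (P.lf 277868 0 0) (P.cons (P.lf 131170 0 0) P.nil))) (P.cons (P.cons (P.lf 759101 0 0) (P.cons (P.lf 21503 0 0) P.nil)) (P.cons (P.cons (P.lf 202147 0 0) P.nil) P.nil)))))) 45417)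
 (EL.cons 7 (TM.mk (P.cons (P.cons (P.lf 0 1348763942 0) (P.cons (P.lf 52372637 0 0) (P.cons (P.lf 24723090 0 0) (P.lf 0 1177289 0)))) (P.cons (P.cons (P.lf 83614063 0 0) (P.cons (P.lf 3360449 0 0) (P.cons (P.lf 1586335 0 0) (P.lf 0 75538 0)))) (P.cons (P.cons (P.lf 58110735 0 0) (P.cons (P.lf 0 1572520 0) (P.cons (P.lf 0 742325 0) (P.lf 35347 0 0)))) (P.cons (P.cons (P.lf 0 4414445 0) (P.cons (P.lf 0 105328 0) (P.cons (P.lf 0 49722 0) P.nil))) (P.cons (P.cons (P.lf 0 1137495 0) (P.cons (P.lf 23408 0 0) P.nil)) (P.cons (P.cons (P.lf 66046 0 0) P.nil) P.nil)))))) 35469)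
 EL.nil))
noncomputable def S227_256_216_290_11 : EL := (EL.cons 3 (TM.mk (P.cons (P.cons (P.lf 0 182108272 0) (P.cons (P.lf 14142564 0 0) (P.cons (P.lf 6401577 0 0) (P.cons (P.lf 0 577147 0) (P.cons (P.lf 0 48842 0) (P.cons (P.lf 5826 0 0) P.nil)))))) (P.cons (P.cons (P.lf 209074858 0 0) (P.cons (P.lf 0 14452605 0) (P.cons (P.lf 0 6576556 0) (P.cons (P.lf 557096 0 0) (P.cons (P.lf 43751 0 0) P.nil))))) (P.cons (P.cons (P.lf 0 14771092 0) (P.cons (P.lf 0 605970 0) (P.cons (P.lf 0 244623 0) (P.cons (P.lf 52737 0 0) P.nil)))) (P.cons (P.cons (P.lf 0 14382751 0) (P.cons (P.lf 943111 0 0) (P.cons (P.lf 433841 0 0) P.nil))) (P.cons (P.cons (P.lf 1830471 0 0) (P.cons (P.lf 1780 0 0) P.nil)) (P.cons (P.cons (P.lf 429570 0 0) P.nil) P.nil)))))) 260175)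
 (EL.cons 7 (TM.mk (P.cons (P.cons (P.lf 0 853935882 0) (P.cons (P.lf 66316829 0 0) (P.cons (P.lf 30018058 0 0) (P.cons (P.lf 0 2706342 0) (P.cons (P.lf 0 229032 0) (P.cons (P.lf 27325 0 0) P.nil)))))) (P.cons (P.cons (P.lf 119574308 0 0) (P.cons (P.lf 0 919810 0) (P.cons (P.lf 0 578784 0) (P.cons (P.lf 0 115818 0) (P.cons (P.lf 0 25717 0) P.nil))))) (P.cons (P.cons (P.lf 61643203 0 0) (P.cons (P.lf 0 4574064 0) (P.cons (P.lf 0 2095062 0) (P.cons (P.lf 163408 0 0) P.nil)))) (P.cons (P.cons (P.lf 0 10305055 0) (P.cons (P.lf 98332 0 0) (P.cons (P.lf 54223 0 0) P.nil))) (P.cons (P.cons (P.lf 0 1985891 0) (P.cons (P.lf 153737 0 0) P.nil)) (P.cons (P.cons (P.lf 369109 0 0) P.nil) P.nil)))))) 241280)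
 EL.nil))
noncomputable def S227_256_216_290_12 : EL := (EL.cons 4 (TM.mk (P.cons (P.lf 454308690 0 0) (P.cons (P.lf 0 450679503 0) (P.cons (P.lf 0 5414782 0) (P.cons (P.lf 1756837 0 0) (P.cons (P.lf 35658 0 0) (P.cons (P.lf 0 6731 0) P.nil)))))) 269)
 (EL.cons 8 (TM.mk (P.cons (P.lf 2130328762 0 0) (P.cons (P.lf 34172730 0 0) (P.cons (P.lf 0 16813380 0) (P.cons (P.lf 0 270802 0) (P.cons (P.lf 64991 0 0) (P.cons (P.lf 1601 0 0) P.nil)))))) 330)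
 EL.nil))
noncomputable def S227_256_216_290_13 : EL := (EL.cons 4 (TM.mk (P.cons (P.cons (P.lf 287634091 0 0) (P.cons (P.lf 0 11168859 0) (P.cons (P.lf 0 5272385 0) (P.lf 251065 0 0)))) (P.cons (P.cons (P.lf 0 307781650 0) (P.cons (P.lf 10542158 0 0) (P.cons (P.lf 4976544 0 0) (P.lf 0 236978 0)))) (P.cons (P.cons (P.lf 9075363 0 0) (P.cons (P.lf 922129 0 0) (P.cons (P.lf 435300 0 0) (P.lf 0 20728 0)))) (P.cons (P.cons (P.lf 12021646 0 0) (P.cons (P.lf 0 277868 0) (P.cons (P.lf 0 131170 0) P.nil))) (P.cons (P.cons (P.lf 0 759101 0) (P.cons (P.lf 0 21503 0) P.nil)) (P.cons (P.cons (P.lf 0 202147 0) P.nil) P.nil)))))) 45417)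
 (EL.cons 8 (TM.mk (P.cons (P.cons (P.lf 1348763942 0 0) (P.cons (P.lf 0 52372637 0) (P.cons (P.lf 0 24723090 0) (P.lf 1177289 0 0)))) (P.cons (P.cons (P.lf 0 83614063 0) (P.cons (P.lf 0 3360449 0) (P.cons (P.lf 0 1586335 0) (P.lf 75538 0 0)))) (P.cons (P.cons (P.lf 0 58110735 0) (P.cons (P.lf 1572520 0 0) (P.cons (P.lf 742325 0 0) (P.lf 0 35347 0)))) (P.cons (P.cons (P.lf 4414445 0 0) (P.cons (P.lf 105328 0 0) (P.cons (P.lf 49722 0 0) P.nil))) (P.cons (P.cons (P.lf 1137495 0 0) (P.cons (P.lf 0 23408 0) P.nil)) (P.cons (P.cons (P.lf 0 66046 0) P.nil) P.nil)))))) 35469)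
 EL.nil))
noncomputable def S227_256_216_290_14 : EL := (EL.cons 4 (TM.mk (P.cons (P.cons (P.lf 182108272 0 0) (P.cons (P.lf 0 14142564 0) (P.cons (P.lf 0 6401577 0) (P.cons (P.lf 577147 0 0) (P.cons (P.lf 48842 0 0) (P.cons (P.lf 0 5826 0) P.nil)))))) (P.cons (P.cons (P.lf 0 209074858 0) (P.cons (P.lf 14452605 0 0) (P.cons (P.lf 6576556 0 0) (P.cons (P.lf 0 557096 0) (P.cons (P.lf 0 43751 0) P.nil))))) (P.cons (P.cons (P.lf 14771092 0 0) (P.cons (P.lf 605970 0 0) (P.cons (P.lf 244623 0 0) (P.cons (P.lf 0 52737 0) P.nil)))) (P.cons (P.cons (P.lf 14382751 0 0) (P.cons (P.lf 0 943111 0) (P.cons (P.lf 0 433841 0) P.nil))) (P.cons (P.cons (P.lf 0 1830471 0) (P.cons (P.lf 0 1780 0) P.nil)) (P.cons (P.cons (P.lf 0 429570 0) P.nil) P.nil)))))) 260175)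
 (EL.cons 8 (TM.mk (P.cons (P.cons (P.lf 853935882 0 0) (P.cons (P.lf 0 66316829 0) (P.cons (P.lf 0 30018058 0) (P.cons (P.lf 2706342 0 0) (P.cons (P.lf 229032 0 0) (P.cons (P.lf 0 27325 0) P.nil)))))) (P.cons (P.cons (P.lf 0 119574308 0) (P.cons (P.lf 919810 0 0) (P.cons (P.lf 578784 0 0) (P.cons (P.lf 115818 0 0) (P.cons (P.lf 25717 0 0) P.nil))))) (P.cons (P.cons (P.lf 0 61643203 0) (P.cons (P.lf 4574064 0 0) (P.cons (P.lf 2095062 0 0) (P.cons (P.lf 0 163408 0) P.nil)))) (P.cons (P.cons (P.lf 10305055 0 0) (P.cons (P.lf 0 98332 0) (P.cons (P.lf 0 54223 0) P.nil))) (P.cons (P.cons (P.lf 1985891 0 0) (P.cons (P.lf 0 153737 0) P.nil)) (P.cons (P.cons (P.lf 0 369109 0) P.nil) P.nil)))))) 241280)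
 EL.nil))
noncomputable def S227_256_216_290_15 : EL := (EL.cons 4 (TM.mk (P.cons (P.lf 0 51259096 0) (P.cons (P.lf 101699239 0 0) (P.cons (P.lf 0 49221527 0) (P.cons (P.lf 0 1608569 0) (P.cons (P.lf 377947 0 0) (P.cons (P.lf 14225 0 0) P.nil)))))) 2557)
 (EL.cons 8 (TM.mk (P.cons (P.lf 0 240362403 0) (P.cons (P.lf 234586631 0 0) (P.cons (P.lf 8586714 0 0) (P.cons (P.lf 0 2734865 0) (P.cons (P.lf 0 94029 0) (P.cons (P.lf 17324 0 0) P.nil)))))) 877)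
 EL.nil))
noncomputable def S227_256_216_290_16 : EL := (EL.cons 4 (TM.mk (P.cons (P.cons (P.lf 0 32453404 0) (P.cons (P.lf 1260168 0 0) (P.cons (P.lf 594876 0 0) (P.lf 0 28326 0)))) (P.cons (P.cons (P.lf 66920783 0 0) (P.cons (P.lf 0 2439560 0) (P.cons (P.lf 0 1151622 0) (P.lf 54839 0 0)))) (P.cons (P.cons (P.lf 0 35086378 0) (P.cons (P.lf 1060893 0 0) (P.cons (P.lf 500806 0 0) (P.lf 0 23847 0)))) (P.cons (P.cons (P.lf 0 880001 0) (P.cons (P.lf 153613 0 0) (P.cons (P.lf 72514 0 0) P.nil))) (P.cons (P.cons (P.lf 1575147 0 0) (P.cons (P.lf 0 31935 0) P.nil)) (P.cons (P.cons (P.lf 0 46742 0) P.nil) P.nil)))))) 65857)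
 (EL.cons 8 (TM.mk (P.cons (P.cons (P.lf 0 152179394 0) (P.cons (P.lf 5909140 0 0) (P.cons (P.lf 2789476 0 0) (P.lf 0 132831 0)))) (P.cons (P.cons (P.lf 160397802 0 0) (P.cons (P.lf 0 5482781 0) (P.cons (P.lf 0 2588208 0) (P.lf 123248 0 0)))) (P.cons (P.cons (P.lf 0 988361 0) (P.cons (P.lf 0 623981 0) (P.cons (P.lf 0 294556 0) (P.lf 14026 0 0)))) (P.cons (P.cons (P.lf 0 7703192 0) (P.cons (P.lf 182455 0 0) (P.cons (P.lf 86130 0 0) P.nil))) (P.cons (P.cons (P.lf 312146 0 0) (P.cons (P.lf 18474 0 0) P.nil)) (P.cons (P.cons (P.lf 169055 0 0) P.nil) P.nil)))))) 38798)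
 EL.nil))
noncomputable def S227_256_216_290_17 : EL := (EL.cons 4 (TM.mk (P.cons (P.cons (P.lf 0 20547054 0) (P.cons (P.lf 1595687 0 0) (P.cons (P.lf 722281 0 0) (P.cons (P.lf 0 65118 0) (P.cons (P.lf 0 5510 0) (P.cons (P.lf 657 0 0) P.nil)))))) (P.cons (P.cons (P.lf 43972578 0 0) (P.cons (P.lf 0 3213611 0) (P.cons (P.lf 0 1458537 0) (P.cons (P.lf 127455 0 0) (P.cons (P.lf 10402 0 0) P.nil))))) (P.cons (P.cons (P.lf 0 24822928 0) (P.cons (P.lf 1530253 0 0) (P.cons (P.lf 699887 0 0) (P.cons (P.lf 0 55627 0) P.nil)))) (P.cons (P.cons (P.lf 0 330112 0) (P.cons (P.lf 199840 0 0) (P.cons (P.lf 87966 0 0) P.nil))) (P.cons (P.cons (P.lf 1925827 0 0) (P.cons (P.lf 0 110724 0) P.nil)) (P.cons (P.cons (P.lf 0 141359 0) P.nil) P.nil)))))) 191425)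
 (EL.cons 8 (TM.mk (P.cons (P.cons (P.lf 0 96348546 0) (P.cons (P.lf 7482447 0 0) (P.cons (P.lf 3386900 0 0) (P.cons (P.lf 0 305353 0) (P.cons (P.lf 0 25841 0) (P.cons (P.lf 3082 0 0) P.nil)))))) (P.cons (P.cons (P.lf 109070302 0 0) (P.cons (P.lf 0 7526455 0) (P.cons (P.lf 0 3425148 0) (P.cons (P.lf 289846 0 0) (P.cons (P.lf 22733 0 0) P.nil))))) (P.cons (P.cons (P.lf 0 5280169 0) (P.cons (P.lf 0 502314 0) (P.cons (P.lf 0 211969 0) (P.cons (P.lf 35039 0 0) P.nil)))) (P.cons (P.cons (P.lf 0 8595659 0) (P.cons (P.lf 553229 0 0) (P.cons (P.lf 254488 0 0) P.nil))) (P.cons (P.cons (P.lf 891066 0 0) (P.cons (P.lf 12676 0 0) P.nil)) (P.cons (P.cons (P.lf 307162 0 0) P.nil) P.nil)))))) 171318)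
 EL.nil))
noncomputable def S227_256_216_290_18 : EL := (EL.cons 4 (TM.mk (P.cons (P.lf 5783501 0 0) (P.cons (P.lf 0 17211901 0) (P.cons (P.lf 16867610 0 0) (P.cons (P.lf 0 5168619 0) (P.cons (P.lf 0 332796 0) (P.cons (P.lf 59024 0 0) P.nil)))))) 4306)
 (EL.cons 8 (TM.mk (P.cons (P.lf 27119797 0 0) (P.cons (P.lf 0 53371278 0) (P.cons (P.lf 24964624 0 0) (P.cons (P.lf 1690000 0 0) (P.cons (P.lf 0 384174 0) (P.cons (P.lf 0 22382 0) P.nil)))))) 4185)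
 EL.nil))
noncomputable def S227_256_216_290_19 : EL := (EL.cons 4 (TM.mk (P.cons (P.cons (P.lf 3661677 0 0) (P.cons (P.lf 0 142183 0) (P.cons (P.lf 0 67118 0) (P.lf 3195 0 0)))) (P.cons (P.cons (P.lf 0 11183017 0) (P.cons (P.lf 416299 0 0) (P.cons (P.lf 196518 0 0) (P.lf 0 9357 0)))) (P.cons (P.cons (P.lf 11405384 0 0) (P.cons (P.lf 0 391058 0) (P.cons (P.lf 0 184603 0) (P.lf 8790 0 0)))) (P.cons (P.cons (P.lf 0 3723685 0) (P.cons (P.lf 97580 0 0) (P.cons (P.lf 46064 0 0) P.nil))) (P.cons (P.cons (P.lf 0 352311 0) (P.cons (P.lf 23276 0 0) P.nil)) (P.cons (P.cons (P.lf 195054 0 0) P.nil) P.nil)))))) 58578)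
 (EL.cons 8 (TM.mk (P.cons (P.cons (P.lf 17170216 0 0) (P.cons (P.lf 0 666721 0) (P.cons (P.lf 0 314733 0) (P.lf 14986 0 0)))) (P.cons (P.cons (P.lf 0 35130542 0) (P.cons (P.lf 1280010 0 0) (P.cons (P.lf 604243 0 0) (P.lf 0 28773 0)))) (P.cons (P.cons (P.lf 17859787 0 0) (P.cons (P.lf 0 535323 0) (P.cons (P.lf 0 252705 0) (P.lf 12033 0 0)))) (P.cons (P.cons (P.lf 1040614 0 0) (P.cons (P.lf 0 100378 0) (P.cons (P.lf 0 47384 0) P.nil))) (P.cons (P.cons (P.lf 0 967383 0) (P.cons (P.lf 19837 0 0) P.nil)) (P.cons (P.cons (P.lf 4260 0 0) P.nil) P.nil)))))) 48584)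
 EL.nil))
noncomputable def S227_256_216_290_20 : EL := (EL.cons 4 (TM.mk (P.cons (P.cons (P.lf 2318298 0 0) (P.cons (P.lf 0 180039 0) (P.cons (P.lf 0 81494 0) (P.cons (P.lf 7347 0 0) (P.cons (P.lf 621 0 0) (P.cons (P.lf 0 74 0) P.nil)))))) (P.cons (P.cons (P.lf 0 7261152 0) (P.cons (P.lf 541188 0 0) (P.cons (P.lf 245407 0 0) (P.cons (P.lf 0 21668 0) (P.cons (P.lf 0 1789 0) P.nil))))) (P.cons (P.cons (P.lf 7694848 0 0) (P.cons (P.lf 0 530202 0) (P.cons (P.lf 0 241245 0) (P.cons (P.lf 20454 0 0) P.nil)))) (P.cons (P.cons (P.lf 0 2673022 0) (P.cons (P.lf 143711 0 0) (P.cons (P.lf 66134 0 0) P.nil))) (P.cons (P.cons (P.lf 0 306621 0) (P.cons (P.lf 38306 0 0) P.nil)) (P.cons (P.cons (P.lf 241464 0 0) P.nil) P.nil)))))) 126024)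
 (EL.cons 8 (TM.mk (P.cons (P.cons (P.lf 10870889 0 0) (P.cons (P.lf 0 844235 0) (P.cons (P.lf 0 382139 0) (P.cons (P.lf 34452 0 0) (P.cons (P.lf 2915 0 0) (P.cons (P.lf 0 347 0) P.nil)))))) (P.cons (P.cons (P.lf 0 23090317 0) (P.cons (P.lf 1686692 0 0) (P.cons (P.lf 765542 0 0) (P.cons (P.lf 0 66880 0) (P.cons (P.lf 0 5456 0) P.nil))))) (P.cons (P.cons (P.lf 12674150 0 0) (P.cons (P.lf 0 775678 0) (P.cons (P.lf 0 354897 0) (P.cons (P.lf 28077 0 0) P.nil)))) (P.cons (P.cons (P.lf 567555 0 0) (P.cons (P.lf 0 132028 0) (P.cons (P.lf 0 58522 0) P.nil))) (P.cons (P.cons (P.lf 0 1116464 0) (P.cons (P.lf 63033 0 0) P.nil)) (P.cons (P.cons (P.lf 54695 0 0) P.nil) P.nil)))))) 122299)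
 EL.nil))
noncomputable def S227_256_216_290_21 : EL := (EL.cons 4 (TM.mk (P.cons (P.cons (P.lf 1399239534 0 0) (P.cons (P.lf 33506577 0 0) (P.cons (P.lf 15817155 0 0) (P.lf 0 753195 0)))) (P.cons (P.cons (P.lf 1228442664 0 0) (P.cons (P.lf 0 31626474 0) (P.cons (P.lf 0 14929632 0) (P.lf 710934 0 0)))) (P.cons (P.cons (P.lf 0 174890670 0) (P.cons (P.lf 0 2766387 0) (P.cons (P.lf 0 1305900 0) (P.lf 62184 0 0)))) (P.cons (P.cons (P.lf 0 40890642 0) (P.cons (P.lf 833604 0 0) (P.cons (P.lf 393510 0 0) P.nil))) (P.cons (P.cons (P.lf 3411141 0 0) (P.cons (P.lf 64509 0 0) P.nil)) (P.cons (P.cons (P.lf 649119 0 0) P.nil) P.nil)))))) 144048)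
 (EL.cons 8 (TM.mk (P.cons (P.cons (P.lf 0 106097196 0) (P.cons (P.lf 0 2540634 0) (P.cons (P.lf 0 1199337 0) (P.lf 57114 0 0)))) (P.cons (P.cons (P.lf 13805025 0 0) (P.cons (P.lf 4959165 0 0) (P.cons (P.lf 2341023 0 0) (P.lf 0 111474 0)))) (P.cons (P.cons (P.lf 105869253 0 0) (P.cons (P.lf 0 2238471 0) (P.cons (P.lf 0 1056693 0) (P.lf 50316 0 0)))) (P.cons (P.cons (P.lf 0 10957488 0) (P.cons (P.lf 0 234969 0) (P.cons (P.lf 0 110922 0) P.nil))) (P.cons (P.cons (P.lf 0 2844654 0) (P.cons (P.lf 51189 0 0) P.nil)) (P.cons (P.cons (P.lf 188214 0 0) P.nil) P.nil)))))) 123465)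
 (EL.cons 11 (TM.mk (P.cons (P.cons (P.lf 642217461 0 0) (P.cons (P.lf 633253500 0 0) (P.cons (P.lf 0 19815114 0) (P.cons (P.lf 0 3631038 0) (P.lf 129678 0 0))))) (P.cons (P.cons (P.lf 20603694 0 0) (P.cons (P.lf 20316111 0 0) (P.cons (P.lf 0 635709 0) (P.cons (P.lf 0 116490 0) (P.lf 4158 0 0))))) (P.cons (P.cons (P.lf 0 9972003 0) (P.cons (P.lf 0 9832815 0) (P.cons (P.lf 307677 0 0) (P.cons (P.lf 56379 0 0) P.nil)))) (P.cons (P.cons (P.lf 0 325884 0) (P.cons (P.lf 0 321336 0) (P.cons (P.lf 10053 0 0) P.nil))) (P.cons (P.cons (P.lf 76569 0 0) (P.cons (P.lf 75498 0 0) P.nil)) (P.cons (P.cons (P.lf 2880 0 0) P.nil) P.nil)))))) 10914)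
 EL.nil)))
noncomputable def S227_256_216_290_22 : EL := (EL.cons 4 (TM.mk (P.cons (P.cons (P.lf 885893229 0 0) (P.cons (P.lf 0 13185477 0) (P.cons (P.lf 0 7048086 0) (P.cons (P.lf 0 481308 0) (P.cons (P.lf 0 146529 0) (P.cons (P.lf 17481 0 0) P.nil)))))) (P.cons (P.cons (P.lf 708627561 0 0) (P.cons (P.lf 0 53534712 0) (P.cons (P.lf 0 24533784 0) (P.cons (P.lf 1900053 0 0) (P.cons (P.lf 131253 0 0) P.nil))))) (P.cons (P.cons (P.lf 0 201486753 0) (P.cons (P.lf 2725191 0 0) (P.cons (P.lf 1410753 0 0) (P.cons (P.lf 56085 0 0) P.nil)))) (P.cons (P.cons (P.lf 0 40696845 0) (P.cons (P.lf 3357690 0 0) (P.cons (P.lf 1550940 0 0) P.nil))) (P.cons (P.cons (P.lf 10953603 0 0) (P.cons (P.lf 0 105909 0) P.nil)) (P.cons (P.cons (P.lf 1097838 0 0) P.nil) P.nil)))))) 988980)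
 (EL.cons 8 (TM.mk (P.cons (P.cons (P.lf 0 67172763 0) (P.cons (P.lf 999786 0 0) (P.cons (P.lf 534417 0 0) (P.cons (P.lf 36495 0 0) (P.cons (P.lf 11109 0 0) (P.cons (P.lf 0 1323 0) P.nil)))))) (P.cons (P.cons (P.lf 13982073 0 0) (P.cons (P.lf 3051423 0 0) (P.cons (P.lf 1321542 0 0) (P.cons (P.lf 0 180858 0) (P.cons (P.lf 0 21150 0) P.nil))))) (P.cons (P.cons (P.lf 68626269 0 0) (P.cons (P.lf 0 4286442 0) (P.cons (P.lf 0 1975728 0) (P.cons (P.lf 141417 0 0) P.nil)))) (P.cons (P.cons (P.lf 0 12688206 0) (P.cons (P.lf 0 1149 0) (P.cons (P.lf 10599 0 0) P.nil))) (P.cons (P.cons (P.lf 0 3537888 0) (P.cons (P.lf 245370 0 0) P.nil)) (P.cons (P.cons (P.lf 724710 0 0) P.nil) P.nil)))))) 450408)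
 (EL.cons 11 (TM.mk (P.cons (P.cons (P.lf 406603791 0 0) (P.cons (P.lf 385140021 0 0) (P.cons (P.lf 0 35566653 0) (P.cons (P.lf 0 8805939 0) (P.cons (P.lf 751284 0 0) (P.cons (P.lf 27999 0 0) P.nil)))))) (P.cons (P.cons (P.lf 0 18684276 0) (P.cons (P.lf 0 19689801 0) (P.cons (P.lf 0 1269930 0) (P.cons (P.lf 0 416256 0) (P.cons (P.lf 49896 0 0) P.nil))))) (P.cons (P.cons (P.lf 0 21131709 0) (P.cons (P.lf 0 20254338 0) (P.cons (P.lf 1501224 0 0) (P.cons (P.lf 359511 0 0) P.nil)))) (P.cons (P.cons (P.lf 1197039 0 0) (P.cons (P.lf 1229691 0 0) (P.cons (P.lf 35034 0 0) P.nil))) (P.cons (P.cons (P.lf 518130 0 0) (P.cons (P.lf 500253 0 0) P.nil)) (P.cons (P.cons (P.lf 0 23151 0) P.nil) P.nil)))))) 206271)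
 EL.nil)))
noncomputable def S227_256_216_290_23 : EL := (EL.cons 4 (TM.mk (P.cons (P.cons (P.lf 0 157874493 0) (P.cons (P.lf 0 3780504 0) (P.cons (P.lf 0 1784628 0) (P.lf 84981 0 0)))) (P.cons (P.cons (P.lf 18009642 0 0) (P.cons (P.lf 7318680 0 0) (P.cons (P.lf 3454866 0 0) (P.lf 0 164517 0)))) (P.cons (P.cons (P.lf 159110838 0 0) (P.cons (P.lf 0 3182682 0) (P.cons (P.lf 0 1502421 0) (P.lf 71544 0 0)))) (P.cons (P.cons (P.lf 0 13919955 0) (P.cons (P.lf 0 460839 0) (P.cons (P.lf 0 217542 0) P.nil))) (P.cons (P.cons (P.lf 0 5745228 0) (P.cons (P.lf 95805 0 0) P.nil)) (P.cons (P.cons (P.lf 321339 0 0) P.nil) P.nil)))))) 208041)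
 (EL.cons 8 (TM.mk (P.cons (P.cons (P.lf 11970816 0 0) (P.cons (P.lf 286656 0 0) (P.cons (P.lf 135318 0 0) (P.lf 0 6444 0)))) (P.cons (P.cons (P.lf 0 13432794 0) (P.cons (P.lf 0 843903 0) (P.cons (P.lf 0 398373 0) (P.lf 18969 0 0)))) (P.cons (P.cons (P.lf 0 10542612 0) (P.cons (P.lf 804213 0 0) (P.cons (P.lf 379635 0 0) (P.lf 0 18075 0)))) (P.cons (P.cons (P.lf 13150851 0 0) (P.cons (P.lf 0 216255 0) (P.cons (P.lf 0 102084 0) P.nil))) (P.cons (P.cons (P.lf 0 768198 0) (P.cons (P.lf 0 37224 0) P.nil)) (P.cons (P.cons (P.lf 0 400857 0) P.nil) P.nil)))))) 89388)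
 (EL.cons 11 (TM.mk (P.cons (P.cons (P.lf 0 72460614 0) (P.cons (P.lf 0 71449221 0) (P.cons (P.lf 2235714 0 0) (P.cons (P.lf 409683 0 0) (P.lf 0 14631 0))))) (P.cons (P.cons (P.lf 69557082 0 0) (P.cons (P.lf 68586216 0 0) (P.cons (P.lf 0 2146128 0) (P.cons (P.lf 0 393267 0) (P.lf 14043 0 0))))) (P.cons (P.cons (P.lf 4294884 0 0) (P.cons (P.lf 4234938 0 0) (P.cons (P.lf 0 132513 0) (P.cons (P.lf 0 24282 0) P.nil)))) (P.cons (P.cons (P.lf 0 1331871 0) (P.cons (P.lf 0 1313283 0) (P.cons (P.lf 41091 0 0) P.nil))) (P.cons (P.cons (P.lf 0 73200 0) (P.cons (P.lf 0 72177 0) P.nil)) (P.cons (P.cons (P.lf 13047 0 0) P.nil) P.nil)))))) 29334)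
 EL.nil)))
noncomputable def S227_256_216_290_24 : EL := (EL.cons 4 (TM.mk (P.cons (P.cons (P.lf 0 99954255 0) (P.cons (P.lf 1487700 0 0) (P.cons (P.lf 795225 0 0) (P.cons (P.lf 54303 0 0) (P.cons (P.lf 16530 0 0) (P.cons (P.lf 0 1971 0) P.nil)))))) (P.cons (P.cons (P.lf 19202196 0 0) (P.cons (P.lf 4564437 0 0) (P.cons (P.lf 1979241 0 0) (P.cons (P.lf 0 268251 0) (P.cons (P.lf 0 31209 0) P.nil))))) (P.cons (P.cons (P.lf 103239720 0 0) (P.cons (P.lf 0 6317214 0) (P.cons (P.lf 0 2914656 0) (P.cons (P.lf 205692 0 0) P.nil)))) (P.cons (P.cons (P.lf 0 17393709 0) (P.cons (P.lf 0 140058 0) (P.cons (P.lf 0 47004 0) P.nil))) (P.cons (P.cons (P.lf 0 6378960 0) (P.cons (P.lf 414906 0 0) P.nil)) (P.cons (P.cons (P.lf 1130529 0 0) P.nil) P.nil)))))) 763923)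
 (EL.cons 8 (TM.mk (P.cons (P.cons (P.lf 7579020 0 0) (P.cons (P.lf 0 112803 0) (P.cons (P.lf 0 60297 0) (P.cons (P.lf 0 4116 0) (P.cons (P.lf 0 1251 0) (P.cons (P.lf 147 0 0) P.nil)))))) (P.cons (P.cons (P.lf 0 9096057 0) (P.cons (P.lf 0 232383 0) (P.cons (P.lf 0 89292 0) (P.cons (P.lf 24489 0 0) (P.cons (P.lf 3630 0 0) P.nil))))) (P.cons (P.cons (P.lf 0 6268371 0) (P.cons (P.lf 826515 0 0) (P.cons (P.lf 371553 0 0) (P.cons (P.lf 0 36150 0) P.nil)))) (P.cons (P.cons (P.lf 9160869 0 0) (P.cons (P.lf 0 475971 0) (P.cons (P.lf 0 220788 0) P.nil))) (P.cons (P.cons (P.lf 0 934200 0) (P.cons (P.lf 0 34917 0) P.nil)) (P.cons (P.cons (P.lf 0 524994 0) P.nil) P.nil)))))) 244755)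
 (EL.cons 11 (TM.mk (P.cons (P.cons (P.lf 0 45876609 0) (P.cons (P.lf 0 43454880 0) (P.cons (P.lf 4012941 0 0) (P.cons (P.lf 993561 0 0) (P.cons (P.lf 0 84765 0) (P.cons (P.lf 0 3159 0) P.nil)))))) (P.cons (P.cons (P.lf 47618256 0 0) (P.cons (P.lf 45329322 0 0) (P.cons (P.lf 0 3837600 0) (P.cons (P.lf 0 938658 0) (P.cons (P.lf 78459 0 0) P.nil))))) (P.cons (P.cons (P.lf 839772 0 0) (P.cons (P.lf 599367 0 0) (P.cons (P.lf 0 359349 0) (P.cons (P.lf 0 98994 0) P.nil)))) (P.cons (P.cons (P.lf 0 2702811 0) (P.cons (P.lf 0 2600280 0) (P.cons (P.lf 177885 0 0) P.nil))) (P.cons (P.cons (P.lf 51654 0 0) (P.cons (P.lf 59133 0 0) P.nil)) (P.cons (P.cons (P.lf 72279 0 0) P.nil) P.nil)))))) 200823)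
 EL.nil)))
noncomputable def S227_256_216_290_25 : EL := (EL.cons 4 (TM.mk (P.cons (P.cons (P.lf 17812785 0 0) (P.cons (P.lf 426549 0 0) (P.cons (P.lf 201357 0 0) (P.lf 0 9588 0)))) (P.cons (P.cons (P.lf 0 19702497 0) (P.cons (P.lf 0 1248900 0) (P.cons (P.lf 0 589557 0) (P.lf 28074 0 0)))) (P.cons (P.cons (P.lf 0 16148814 0) (P.cons (P.lf 1173174 0 0) (P.cons (P.lf 553809 0 0) (P.lf 0 26370 0)))) (P.cons (P.cons (P.lf 19472544 0 0) (P.cons (P.lf 0 292740 0) (P.cons (P.lf 0 138192 0) P.nil))) (P.cons (P.cons (P.lf 0 702288 0) (P.cons (P.lf 0 69828 0) P.nil)) (P.cons (P.cons (P.lf 0 767868 0) P.nil) P.nil)))))) 188892)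
 (EL.cons 8 (TM.mk (P.cons (P.cons (P.lf 0 1350651 0) (P.cons (P.lf 0 32343 0) (P.cons (P.lf 0 15267 0) (P.lf 726 0 0)))) (P.cons (P.cons (P.lf 2855469 0 0) (P.cons (P.lf 127299 0 0) (P.cons (P.lf 60093 0 0) (P.lf 0 2859 0)))) (P.cons (P.cons (P.lf 0 297888 0) (P.cons (P.lf 0 184806 0) (P.cons (P.lf 0 87240 0) (P.lf 4152 0 0)))) (P.cons (P.cons (P.lf 0 2687088 0) (P.cons (P.lf 113151 0 0) (P.cons (P.lf 53415 0 0) P.nil))) (P.cons (P.cons (P.lf 1550193 0 0) (P.cons (P.lf 0 18555 0) P.nil)) (P.cons (P.cons (P.lf 0 18330 0) P.nil) P.nil)))))) 94449)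
 (EL.cons 11 (TM.mk (P.cons (P.cons (P.lf 8175642 0 0) (P.cons (P.lf 8061528 0 0) (P.cons (P.lf 0 252252 0) (P.cons (P.lf 0 46224 0) (P.lf 1650 0 0))))) (P.cons (P.cons (P.lf 0 15958371 0) (P.cons (P.lf 0 15735627 0) (P.cons (P.lf 492381 0 0) (P.cons (P.lf 90225 0 0) (P.lf 0 3222 0))))) (P.cons (P.cons (P.lf 7203315 0 0) (P.cons (P.lf 7102773 0 0) (P.cons (P.lf 0 222252 0) (P.cons (P.lf 0 40725 0) P.nil)))) (P.cons (P.cons (P.lf 756141 0 0) (P.cons (P.lf 745587 0 0) (P.cons (P.lf 0 23328 0) P.nil))) (P.cons (P.cons (P.lf 0 164745 0) (P.cons (P.lf 0 162444 0) P.nil)) (P.cons (P.cons (P.lf 0 14067 0) P.nil) P.nil)))))) 33600)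
 EL.nil)))
noncomputable def S227_256_216_290_26 : EL := (EL.cons 4 (TM.mk (P.cons (P.cons (P.lf 11277717 0 0) (P.cons (P.lf 0 167853 0) (P.cons (P.lf 0 89724 0) (P.cons (P.lf 0 6126 0) (P.cons (P.lf 0 1863 0) (P.cons (P.lf 222 0 0) P.nil)))))) (P.cons (P.cons (P.lf 0 13354185 0) (P.cons (P.lf 0 348483 0) (P.cons (P.lf 0 134307 0) (P.cons (P.lf 36342 0 0) (P.cons (P.lf 5370 0 0) P.nil))))) (P.cons (P.cons (P.lf 0 9633573 0) (P.cons (P.lf 1225650 0 0) (P.cons (P.lf 551457 0 0) (P.cons (P.lf 0 53160 0) P.nil)))) (P.cons (P.cons (P.lf 13587303 0 0) (P.cons (P.lf 0 685776 0) (P.cons (P.lf 0 318609 0) P.nil))) (P.cons (P.cons (P.lf 0 1095759 0) (P.cons (P.lf 0 72990 0) P.nil)) (P.cons (P.cons (P.lf 0 910308 0) P.nil) P.nil)))))) 426822)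
 (EL.cons 8 (TM.mk (P.cons (P.cons (P.lf 0 855129 0) (P.cons (P.lf 12726 0 0) (P.cons (P.lf 6801 0 0) (P.cons (P.lf 462 0 0) (P.cons (P.lf 141 0 0) (P.cons (P.lf 0 15 0) P.nil)))))) (P.cons (P.cons (P.lf 1874595 0 0) (P.cons (P.lf 13593 0 0) (P.cons (P.lf 3324 0 0) (P.cons (P.lf 0 3222 0) (P.cons (P.lf 0 549 0) P.nil))))) (P.cons (P.cons (P.lf 0 300651 0) (P.cons (P.lf 0 119415 0) (P.cons (P.lf 0 51996 0) (P.cons (P.lf 6813 0 0) P.nil)))) (P.cons (P.cons (P.lf 0 1750749 0) (P.cons (P.lf 145950 0 0) (P.cons (P.lf 66402 0 0) P.nil))) (P.cons (P.cons (P.lf 1126227 0 0) (P.cons (P.lf 0 48120 0) P.nil)) (P.cons (P.cons (P.lf 0 30180 0) P.nil) P.nil)))))) 156642)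
 (EL.cons 11 (TM.mk (P.cons (P.cons (P.lf 5176200 0 0) (P.cons (P.lf 4902960 0 0) (P.cons (P.lf 0 452775 0) (P.cons (P.lf 0 112101 0) (P.cons (P.lf 9561 0 0) (P.cons (P.lf 354 0 0) P.nil)))))) (P.cons (P.cons (P.lf 0 10507560 0) (P.cons (P.lf 0 9978246 0) (P.cons (P.lf 882150 0 0) (P.cons (P.lf 217113 0 0) (P.cons (P.lf 0 18339 0) P.nil))))) (P.cons (P.cons (P.lf 5173344 0 0) (P.cons (P.lf 4947531 0 0) (P.cons (P.lf 0 383589 0) (P.cons (P.lf 0 92556 0) P.nil)))) (P.cons (P.cons (P.lf 483000 0 0) (P.cons (P.lf 440388 0 0) (P.cons (P.lf 0 67203 0) P.nil))) (P.cons (P.cons (P.lf 0 327588 0) (P.cons (P.lf 0 316302 0) P.nil)) (P.cons (P.cons (P.lf 0 6873 0) P.nil) P.nil)))))) 116211)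
 EL.nil)))
noncomputable def S227_256_216_290_27 : EL := (EL.cons 13 (TM.mk (P.lf 0 4294967296 0) 0)
 EL.nil)
noncomputable def S227_256_216_290_28 : EL := (EL.cons 13 (TM.mk (P.cons (P.cons (P.lf 0 2719250252 0) (P.cons (P.lf 105588756 0 0) (P.cons (P.lf 49844356 0 0) (P.lf 0 2373540 0)))) (P.cons (P.cons (P.lf 212194419 0 0) (P.cons (P.lf 5081264 0 0) (P.cons (P.lf 2398664 0 0) (P.lf 0 114220 0)))) (P.cons (P.cons (P.lf 92292168 0 0) (P.cons (P.lf 0 2418528 0) (P.cons (P.lf 0 1141692 0) (P.lf 54364 0 0)))) (P.cons (P.cons (P.lf 0 9051396 0) (P.cons (P.lf 0 120032 0) (P.cons (P.lf 0 56664 0) P.nil))) (P.cons (P.cons (P.lf 0 1309780 0) (P.cons (P.lf 27456 0 0) P.nil)) (P.cons (P.cons (P.lf 90031 0 0) P.nil) P.nil)))))) 35579)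
 EL.nil)
noncomputable def S227_256_216_290_29 : EL := (EL.cons 13 (TM.mk (P.cons (P.cons (P.lf 0 1721624735 0) (P.cons (P.lf 133701717 0 0) (P.cons (P.lf 60519569 0 0) (P.cons (P.lf 0 5456271 0) (P.cons (P.lf 0 461754 0) (P.cons (P.lf 55091 0 0) P.nil)))))) (P.cons (P.cons (P.lf 268691092 0 0) (P.cons (P.lf 0 3999153 0) (P.cons (P.lf 0 2137688 0) (P.cons (P.lf 0 145977 0) (P.cons (P.lf 0 44442 0) P.nil))))) (P.cons (P.cons (P.lf 106381375 0 0) (P.cons (P.lf 0 8102419 0) (P.cons (P.lf 0 3711932 0) (P.cons (P.lf 288727 0 0) P.nil)))) (P.cons (P.cons (P.lf 0 20580782 0) (P.cons (P.lf 313653 0 0) (P.cons (P.lf 159686 0 0) P.nil))) (P.cons (P.cons (P.lf 0 2747348 0) (P.cons (P.lf 236384 0 0) P.nil)) (P.cons (P.cons (P.lf 632422 0 0) P.nil) P.nil)))))) 372133)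
 EL.nil)
noncomputable def S227_256_216_290_30 : EL := (EL.cons 13 (TM.mk (P.cons (P.lf 484595936 0 0) (P.cons (P.lf 0 480724804 0) (P.cons (P.lf 0 5775768 0) (P.cons (P.lf 1873960 0 0) (P.cons (P.lf 38036 0 0) (P.cons (P.lf 0 7180 0) P.nil)))))) 280)
 EL.nil)
noncomputable def S227_256_216_290_31 : EL := (EL.cons 13 (TM.mk (P.cons (P.cons (P.lf 306809698 0 0) (P.cons (P.lf 0 11913450 0) (P.cons (P.lf 0 5623878 0) (P.lf 267803 0 0)))) (P.cons (P.cons (P.lf 0 328300427 0) (P.cons (P.lf 11244969 0 0) (P.cons (P.lf 5308314 0 0) (P.lf 0 252777 0)))) (P.cons (P.cons (P.lf 9680388 0 0) (P.cons (P.lf 983605 0 0) (P.cons (P.lf 464321 0 0) (P.lf 0 22110 0)))) (P.cons (P.cons (P.lf 12823090 0 0) (P.cons (P.lf 0 296393 0) (P.cons (P.lf 0 139915 0) P.nil))) (P.cons (P.cons (P.lf 0 809708 0) (P.cons (P.lf 0 22937 0) P.nil)) (P.cons (P.cons (P.lf 0 215624 0) P.nil) P.nil))))))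 48425)
 EL.nil)
noncomputable def S227_256_216_290_32 : EL := (EL.cons 13 (TM.mk (P.cons (P.cons (P.lf 194248824 0 0) (P.cons (P.lf 0 15085402 0) (P.cons (P.lf 0 6828349 0) (P.cons (P.lf 615624 0 0) (P.cons (P.lf 52099 0 0) (P.cons (P.lf 0 6215 0) P.nil)))))) (P.cons (P.cons (P.lf 0 223013182 0) (P.cons (P.lf 15416113 0 0) (P.cons (P.lf 7014994 0 0) (P.cons (P.lf 0 594236 0) (P.cons (P.lf 0 46668 0) P.nil))))) (P.cons (P.cons (P.lf 15755832 0 0) (P.cons (P.lf 646369 0 0) (P.cons (P.lf 260932 0 0) (P.cons (P.lf 0 56253 0) P.nil)))) (P.cons (P.cons (P.lf 15341602 0 0) (P.cons (P.lf 0 1005986 0) (P.cons (P.lf 0 462764 0) P.nil))) (P.cons (P.cons (P.lf 0 1952503 0) (P.cons (P.lf 0 1899 0) P.nil)) (P.cons (P.cons (P.lf 0 458209 0) P.nil) P.nil)))))) 277497)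
 EL.nil)
noncomputable def S227_256_216_290_33 : EL := (EL.cons 14 (TM.mk (P.lf 8589934592 0 0) 0)
 EL.nil)
noncomputable def S227_256_216_290_34 : EL := (EL.cons 14 (TM.mk (P.cons (P.cons (P.lf 5438500504 0 0) (P.cons (P.lf 0 211177512 0) (P.cons (P.lf 0 99688712 0) (P.lf 4747080 0 0)))) (P.cons (P.cons (P.lf 0 424388838 0) (P.cons (P.lf 0 10162528 0) (P.cons (P.lf 0 4797328 0) (P.lf 228440 0 0)))) (P.cons (P.cons (P.lf 0 184584336 0) (P.cons (P.lf 4837056 0 0) (P.cons (P.lf 2283384 0 0) (P.lf 0 108728 0)))) (P.cons (P.cons (P.lf 18102792 0 0) (P.cons (P.lf 240064 0 0) (P.cons (P.lf 113328 0 0) P.nil))) (P.cons (P.cons (P.lf 2619560 0 0) (P.cons (P.lf 0 54912 0) P.nil)) (P.cons (P.cons (P.lf 0 180062 0) P.nil) P.nil)))))) 71158)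
 EL.nil)
noncomputable def S227_256_216_290_35 : EL := (EL.cons 14 (TM.mk (P.cons (P.cons (P.lf 3443249470 0 0) (P.cons (P.lf 0 267403434 0) (P.cons (P.lf 0 121039138 0) (P.cons (P.lf 10912542 0 0) (P.cons (P.lf 923508 0 0) (P.cons (P.lf 0 110182 0) P.nil)))))) (P.cons (P.cons (P.lf 0 537382184 0) (P.cons (P.lf 7998306 0 0) (P.cons (P.lf 4275376 0 0) (P.cons (P.lf 291954 0 0) (P.cons (P.lf 88884 0 0) P.nil))))) (P.cons (P.cons (P.lf 0 212762750 0) (P.cons (P.lf 16204838 0 0) (P.cons (P.lf 7423864 0 0) (P.cons (P.lf 0 577454 0) P.nil)))) (P.cons (P.cons (P.lf 41161564 0 0) (P.cons (P.lf 0 627306 0) (P.cons (P.lf 0 319372 0) P.nil))) (P.cons (P.cons (P.lf 5494696 0 0) (P.cons (P.lf 0 472768 0) P.nil)) (P.cons (P.cons (P.lf 0 1264844 0) P.nil) P.nil)))))) 744266)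
 EL.nil)
noncomputable def S227_256_216_290_36 : EL := (EL.cons 14 (TM.mk (P.cons (P.lf 0 969191872 0) (P.cons (P.lf 961449608 0 0) (P.cons (P.lf 11551536 0 0) (P.cons (P.lf 0 3747920 0) (P.cons (P.lf 0 76072 0) (P.cons (P.lf 14360 0 0) P.nil)))))) 560)
 EL.nil)
noncomputable def S227_256_216_290_37 : EL := (EL.cons 14 (TM.mk (P.cons (P.cons (P.lf 0 613619396 0) (P.cons (P.lf 23826900 0 0) (P.cons (P.lf 11247756 0 0) (P.lf 0 535606 0)))) (P.cons (P.cons (P.lf 656600854 0 0) (P.cons (P.lf 0 22489938 0) (P.cons (P.lf 0 10616628 0) (P.lf 505554 0 0)))) (P.cons (P.cons (P.lf 0 19360776 0) (P.cons (P.lf 0 1967210 0) (P.cons (P.lf 0 928642 0) (P.lf 44220 0 0)))) (P.cons (P.cons (P.lf 0 25646180 0) (P.cons (P.lf 592786 0 0) (P.cons (P.lf 279830 0 0) P.nil))) (P.cons (P.cons (P.lf 1619416 0 0) (P.cons (P.lf 45874 0 0) P.nil)) (P.cons (P.cons (P.lf 431248 0 0) P.nil) P.nil))))))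 96850)
 EL.nil)
noncomputable def S227_256_216_290_38 : EL := (EL.cons 14 (TM.mk (P.cons (P.cons (P.lf 0 388497648 0) (P.cons (P.lf 30170804 0 0) (P.cons (P.lf 13656698 0 0) (P.cons (P.lf 0 1231248 0) (P.cons (P.lf 0 104198 0) (P.cons (P.lf 12430 0 0) P.nil)))))) (P.cons (P.cons (P.lf 446026364 0 0) (P.cons (P.lf 0 30832226 0) (P.cons (P.lf 0 14029988 0) (P.cons (P.lf 1188472 0 0) (P.cons (P.lf 93336 0 0) P.nil))))) (P.cons (P.cons (P.lf 0 31511664 0) (P.cons (P.lf 0 1292738 0) (P.cons (P.lf 0 521864 0) (P.cons (P.lf 112506 0 0) P.nil)))) (P.cons (P.cons (P.lf 0 30683204 0) (P.cons (P.lf 2011972 0 0) (P.cons (P.lf 925528 0 0) P.nil))) (P.cons (P.cons (P.lf 3905006 0 0) (P.cons (P.lf 3798 0 0) P.nil)) (P.cons (P.cons (P.lf 916418 0 0) P.nil) P.nil)))))) 554994)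
 EL.nil)
noncomputable def S227_256_216_290_39 : EL := (EL.cons 14 (TM.mk (P.cons (P.lf 109352740 0 0) (P.cons (P.lf 0 216958378 0) (P.cons (P.lf 105005926 0 0) (P.cons (P.lf 3431614 0 0) (P.cons (P.lf 0 806288 0) (P.cons (P.lf 0 30348 0) P.nil)))))) 5440)
 EL.nil)
noncomputable def S227_256_216_290_40 : EL := (EL.cons 14 (TM.mk (P.cons (P.cons (P.lf 69233930 0 0) (P.cons (P.lf 0 2688360 0) (P.cons (P.lf 0 1269070 0) (P.lf 60430 0 0)))) (P.cons (P.cons (P.lf 0 142764338 0) (P.cons (P.lf 5204396 0 0) (P.cons (P.lf 2456794 0 0) (P.lf 0 116990 0)))) (P.cons (P.cons (P.lf 74850940 0 0) (P.cons (P.lf 0 2263240 0) (P.cons (P.lf 0 1068388 0) (P.lf 50874 0 0)))) (P.cons (P.cons (P.lf 1877336 0 0) (P.cons (P.lf 0 327708 0) (P.cons (P.lf 0 154698 0) P.nil))) (P.cons (P.cons (P.lf 0 3360314 0) (P.cons (P.lf 68128 0 0) P.nil)) (P.cons (P.cons (P.lf 99718 0 0) P.nil) P.nil))))))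 140456)
 EL.nil)
noncomputable def S227_256_216_290_41 : EL := (EL.cons 14 (TM.mk (P.cons (P.cons (P.lf 43833716 0 0) (P.cons (P.lf 0 3404134 0) (P.cons (P.lf 0 1540868 0) (P.cons (P.lf 138920 0 0) (P.cons (P.lf 11756 0 0) (P.cons (P.lf 0 1402 0) P.nil)))))) (P.cons (P.cons (P.lf 0 93808168 0) (P.cons (P.lf 6855704 0 0) (P.cons (P.lf 3111546 0 0) (P.cons (P.lf 0 271904 0) (P.cons (P.lf 0 22192 0) P.nil))))) (P.cons (P.cons (P.lf 52955580 0 0) (P.cons (P.lf 0 3264540 0) (P.cons (P.lf 0 1493094 0) (P.cons (P.lf 118672 0 0) P.nil)))) (P.cons (P.cons (P.lf 704240 0 0) (P.cons (P.lf 0 426326 0) (P.cons (P.lf 0 187662 0) P.nil))) (P.cons (P.cons (P.lf 0 4108432 0) (P.cons (P.lf 236212 0 0) P.nil)) (P.cons (P.cons (P.lf 301566 0 0) P.nil) P.nil)))))) 408328)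
 EL.nil)
noncomputable def S227_256_216_290_42 : EL := (EL.cons 14 (TM.mk (P.cons (P.lf 0 12338136 0) (P.cons (P.lf 36718724 0 0) (P.cons (P.lf 0 35984236 0) (P.cons (P.lf 11026388 0 0) (P.cons (P.lf 709966 0 0) (P.cons (P.lf 0 125918 0) P.nil)))))) 9172)
 EL.nil)
noncomputable def S227_256_216_290_43 : EL := (EL.cons 14 (TM.mk (P.cons (P.cons (P.lf 0 7811578 0) (P.cons (P.lf 303324 0 0) (P.cons (P.lf 143186 0 0) (P.lf 0 6818 0)))) (P.cons (P.cons (P.lf 23857104 0 0) (P.cons (P.lf 0 888106 0) (P.cons (P.lf 0 419240 0) (P.lf 19962 0 0)))) (P.cons (P.cons (P.lf 0 24331486 0) (P.cons (P.lf 834258 0 0) (P.cons (P.lf 393820 0 0) (P.lf 0 18752 0)))) (P.cons (P.cons (P.lf 7943862 0 0) (P.cons (P.lf 0 208172 0) (P.cons (P.lf 0 98270 0) P.nil))) (P.cons (P.cons (P.lf 751598 0 0) (P.cons (P.lf 0 49656 0) P.nil)) (P.cons (P.cons (P.lf 0 416116 0) P.nil) P.nil)))))) 124926)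
 EL.nil)
noncomputable def S227_256_216_290_44 : EL := (EL.cons 14 (TM.mk (P.cons (P.cons (P.lf 0 4945704 0) (P.cons (P.lf 384084 0 0) (P.cons (P.lf 173854 0 0) (P.cons (P.lf 0 15674 0) (P.cons (P.lf 0 1326 0) (P.cons (P.lf 158 0 0) P.nil)))))) (P.cons (P.cons (P.lf 15490458 0 0) (P.cons (P.lf 0 1154536 0) (P.cons (P.lf 0 523536 0) (P.cons (P.lf 46226 0 0) (P.cons (P.lf 3818 0 0) P.nil))))) (P.cons (P.cons (P.lf 0 16415676 0) (P.cons (P.lf 1131098 0 0) (P.cons (P.lf 514658 0 0) (P.cons (P.lf 0 43636 0) P.nil)))) (P.cons (P.cons (P.lf 5702448 0 0) (P.cons (P.lf 0 306584 0) (P.cons (P.lf 0 141086 0) P.nil))) (P.cons (P.cons (P.lf 654126 0 0) (P.cons (P.lf 0 81720 0) P.nil)) (P.cons (P.cons (P.lf 0 515124 0) P.nil) P.nil)))))) 268806)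
 EL.nil)
noncomputable def S227_256_216_290_45 : EL := (EL.cons 14 (TM.mk (P.cons (P.cons (P.lf 2180006584 0 0) (P.cons (P.lf 0 253949612 0) (P.cons (P.lf 0 110018872 0) (P.cons (P.lf 14890810 0 0) (P.cons (P.lf 1573336 0 0) (P.cons (P.lf 0 285996 0) P.nil)))))) (P.cons (P.cons (P.lf 0 510344970 0) (P.cons (P.lf 27412634 0 0) (P.cons (P.lf 13120036 0 0) (P.cons (P.lf 0 465090 0) (P.cons (P.lf 5850 0 0) P.nil))))) (P.cons (P.cons (P.lf 0 182145884 0) (P.cons (P.lf 23415914 0 0) (P.cons (P.lf 10216104 0 0) (P.cons (P.lf 0 1309308 0) P.nil)))) (P.cons (P.cons (P.lf 55375984 0 0) (P.cons (P.lf 0 2899766 0) (P.cons (P.lf 0 1378942 0) P.nil))) (P.cons (P.cons (P.lf 5934706 0 0) (P.cons (P.lf 0 1021854 0) P.nil)) (P.cons (P.cons (P.lf 0 2641210 0) P.nil) P.nil)))))) 2083496)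
 EL.nil)
noncomputable def S227_256_216_290_46 : EL := (EL.cons 15 (TM.mk (P.lf 4294967296 0 0) 0)
 EL.nil)
noncomputable def S227_256_216_290_47 : EL := (EL.cons 15 (TM.mk (P.cons (P.cons (P.lf 2719250252 0 0) (P.cons (P.lf 0 105588756 0) (P.cons (P.lf 0 49844356 0) (P.lf 2373540 0 0)))) (P.cons (P.cons (P.lf 0 212194419 0) (P.cons (P.lf 0 5081264 0) (P.cons (P.lf 0 2398664 0) (P.lf 114220 0 0)))) (P.cons (P.cons (P.lf 0 92292168 0) (P.cons (P.lf 2418528 0 0) (P.cons (P.lf 1141692 0 0) (P.lf 0 54364 0)))) (P.cons (P.cons (P.lf 9051396 0 0) (P.cons (P.lf 120032 0 0) (P.cons (P.lf 56664 0 0) P.nil))) (P.cons (P.cons (P.lf 1309780 0 0) (P.cons (P.lf 0 27456 0) P.nil)) (P.cons (P.cons (P.lf 0 90031 0) P.nil) P.nil)))))) 35579)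
 EL.nil)
noncomputable def S227_256_216_290_48 : EL := (EL.cons 15 (TM.mk (P.cons (P.cons (P.lf 1721624735 0 0) (P.cons (P.lf 0 133701717 0) (P.cons (P.lf 0 60519569 0) (P.cons (P.lf 5456271 0 0) (P.cons (P.lf 461754 0 0) (P.cons (P.lf 0 55091 0) P.nil)))))) (P.cons (P.cons (P.lf 0 268691092 0) (P.cons (P.lf 3999153 0 0) (P.cons (P.lf 2137688 0 0) (P.cons (P.lf 145977 0 0) (P.cons (P.lf 44442 0 0) P.nil))))) (P.cons (P.cons (P.lf 0 106381375 0) (P.cons (P.lf 8102419 0 0) (P.cons (P.lf 3711932 0 0) (P.cons (P.lf 0 288727 0) P.nil)))) (P.cons (P.cons (P.lf 20580782 0 0) (P.cons (P.lf 0 313653 0) (P.cons (P.lf 0 159686 0) P.nil))) (P.cons (P.cons (P.lf 2747348 0 0) (P.cons (P.lf 0 236384 0) P.nil)) (P.cons (P.cons (P.lf 0 632422 0) P.nil) P.nil)))))) 372133)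
 EL.nil)
noncomputable def S227_256_216_290 : SL := (SL.cons S227_256_216_290_0 (SL.cons S227_256_216_290_1 (SL.cons S227_256_216_290_2 (SL.cons S227_256_216_290_3 (SL.cons S227_256_216_290_4 (SL.cons S227_256_216_290_5 (SL.cons S227_256_216_290_6 (SL.cons S227_256_216_290_7 (SL.cons S227_256_216_290_8 (SL.cons S227_256_216_290_9 (SL.cons S227_256_216_290_10 (SL.cons S227_256_216_290_11 (SL.cons S227_256_216_290_12 (SL.cons S227_256_216_290_13 (SL.cons S227_256_216_290_14 (SL.cons S227_256_216_290_15 (SL.cons S227_256_216_290_16 (SL.cons S227_256_216_290_17 (SL.cons S227_256_216_290_18 (SL.cons S227_256_216_290_19 (SL.cons S227_256_216_290_20 (SL.cons S227_256_216_290_21 (SL.cons S227_256_216_290_22 (SL.cons S227_256_216_290_23 (SL.cons S227_256_216_290_24 (SL.cons S227_256_216_290_25 (SL.cons S227_256_216_290_26 (SL.cons S227_256_216_290_27 (SL.cons S227_256_216_290_28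 (SL.cons S227_256_216_290_29 (SL.cons S227_256_216_290_30 (SL.cons S227_256_216_290_31 (SL.cons S227_256_216_290_32 (SL.cons S227_256_216_290_33 (SL.cons S227_256_216_290_34 (SL.cons S227_256_216_290_35 (SL.cons S227_256_216_290_36 (SL.cons S227_256_216_290_37 (SL.cons S227_256_216_290_38 (SL.cons S227_256_216_290_39 (SL.cons S227_256_216_290_40 (SL.cons S227_256_216_290_41 (SL.cons S227_256_216_290_42 (SL.cons S227_256_216_290_43 (SL.cons S227_256_216_290_44 (SL.cons S227_256_216_290_45 (SL.cons S227_256_216_290_46 (SL.cons S227_256_216_290_47 (SL.cons S227_256_216_290_48 SL.nil)))))))))))))))))))))))))))))))))))))))))))))))))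
noncomputable def S227_256_216_364_0 : EL := (EL.cons 0 (TM.mk (P.cons (P.lf 8359606057 0 0) (P.cons (P.lf 190686074 0 0) (P.cons (P.lf 0 92290364 0) (P.cons (P.lf 0 3016066 0) (P.cons (P.lf 708651 0 0) (P.cons (P.lf 26673 0 0) P.nil)))))) 4788)
 (EL.cons 1 (TM.mk (P.cons (P.lf 0 450679505 0) (P.cons (P.lf 439849933 0 0) (P.cons (P.lf 16100088 0 0) (P.cons (P.lf 0 5127871 0) (P.cons (P.lf 0 176304 0) (P.cons (P.lf 32482 0 0) P.nil)))))) 1651)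
 (EL.cons 5 (TM.mk (P.cons (P.lf 4329140030 0 0) (P.cons (P.lf 0 67799490 0) (P.cons (P.lf 32814348 0 0) (P.cons (P.lf 1072376 0 0) (P.cons (P.lf 0 251962 0) (P.cons (P.lf 0 9484 0) P.nil)))))) 1837)
 (EL.cons 9 (TM.mk (P.lf 6442450944 0 0) 2)
 EL.nil))))
noncomputable def S227_256_216_364_1 : EL := (EL.cons 0 (TM.mk (P.cons (P.cons (P.lf 5301052828 0 0) (P.cons (P.lf 0 744768489 0) (P.cons (P.lf 0 321152577 0) (P.lf 35683620 0 0)))) (P.cons (P.cons (P.lf 0 367073199 0) (P.cons (P.lf 0 106222061 0) (P.cons (P.lf 0 45804143 0) (P.lf 5089337 0 0)))) (P.cons (P.cons (P.lf 0 527383912 0) (P.cons (P.lf 47736087 0 0) (P.cons (P.lf 20584340 0 0) (P.lf 0 2287137 0)))) (P.cons (P.cons (P.lf 44282487 0 0) (P.cons (P.lf 5211253 0 0) (P.cons (P.lf 2247146 0 0) P.nil))) (P.cons (P.cons (P.lf 15878769 0 0) (P.cons (P.lf 0 1101902 0) P.nil)) (P.cons (P.cons (P.lf 0 911997 0) P.nil)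 P.nil)))))) 1427516)
 (EL.cons 1 (TM.mk (P.cons (P.cons (P.lf 437234495 0 0) (P.cons (P.lf 102956285 0 0) (P.cons (P.lf 44395912 0 0) (P.lf 0 4932877 0)))) (P.cons (P.cons (P.lf 897678635 0 0) (P.cons (P.lf 0 93494112 0) (P.cons (P.lf 0 40315713 0) (P.lf 4479519 0 0)))) (P.cons (P.cons (P.lf 0 79752591 0) (P.cons (P.lf 0 13808143 0) (P.cons (P.lf 0 5954221 0) (P.lf 661573 0 0)))) (P.cons (P.cons (P.lf 0 51809423 0) (P.cons (P.lf 3971075 0 0) (P.cons (P.lf 1712370 0 0) P.nil))) (P.cons (P.cons (P.lf 3476548 0 0) (P.cons (P.lf 456045 0 0) P.nil)) (P.cons (P.cons (P.lf 1203550 0 0) P.nil) P.nil)))))) 777671)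
 (EL.cons 5 (TM.mk (P.cons (P.cons (P.lf 2477705384 0 0) (P.cons (P.lf 0 408926714 0) (P.cons (P.lf 0 176333810 0) (P.lf 19592644 0 0)))) (P.cons (P.cons (P.lf 0 242737312 0) (P.cons (P.lf 5345656 0 0) (P.cons (P.lf 2305108 0 0) (P.lf 0 256120 0)))) (P.cons (P.cons (P.lf 36577542 0 0) (P.cons (P.lf 0 1540824 0) (P.cons (P.lf 0 664416 0) (P.lf 73818 0 0)))) (P.cons (P.cons (P.lf 0 61704 0) (P.cons (P.lf 0 1086958 0) (P.cons (P.lf 0 468710 0) P.nil))) (P.cons (P.cons (P.lf 0 3486800 0) (P.cons (P.lf 216570 0 0) P.nil)) (P.cons (P.cons (P.lf 167531 0 0) P.nil) P.nil)))))) 759881)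
 (EL.cons 9 (TM.mk (P.cons (P.cons (P.lf 3849286020 0 0) (P.cons (P.lf 0 594470544 0) (P.cons (P.lf 0 256342404 0) (P.lf 28482486 0 0)))) (P.cons (P.cons (P.lf 0 329340196 0) (P.cons (P.lf 0 28607808 0) (P.cons (P.lf 0 12336006 0) (P.lf 1370664 0 0)))) (P.cons (P.cons (P.lf 0 133179456 0) (P.cons (P.lf 13616472 0 0) (P.cons (P.lf 5871576 0 0) (P.lf 0 652392 0)))) (P.cons (P.cons (P.lf 13838100 0 0) (P.cons (P.lf 675810 0 0) (P.cons (P.lf 291414 0 0) P.nil))) (P.cons (P.cons (P.lf 1904964 0 0) (P.cons (P.lf 0 154596 0) P.nil)) (P.cons (P.cons (P.lf 0 138286 0) P.nil) P.nil)))))) 150659)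
 (EL.cons 2 (TM.mk (P.cons (P.cons (P.lf 132449124 0 0) (P.cons (P.lf 123388613 0 0) (P.cons (P.lf 0 12663683 0) (P.cons (P.lf 0 2633692 0) (P.lf 219473 0 0))))) (P.cons (P.cons (P.lf 0 127141824 0) (P.cons (P.lf 0 118444370 0) (P.cons (P.lf 12156243 0 0) (P.cons (P.lf 2528159 0 0) (P.lf 0 210678 0))))) (P.cons (P.cons (P.lf 0 7850525 0) (P.cons (P.lf 0 7313490 0) (P.cons (P.lf 750600 0 0) (P.cons (P.lf 156102 0 0) P.nil)))) (P.cons (P.cons (P.lf 2434500 0 0) (P.cons (P.lf 2267963 0 0) (P.cons (P.lf 0 232765 0) P.nil))) (P.cons (P.cons (P.lf 133801 0 0) (P.cons (P.lf 124650 0 0) P.nil)) (P.cons (P.cons (P.lf 0 23850 0) P.nil) P.nil)))))) 118390)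
 (EL.cons 6 (TM.mk (P.cons (P.cons (P.lf 621075909 0 0) (P.cons (P.lf 578589663 0 0) (P.cons (P.lf 0 59382120 0) (P.cons (P.lf 0 12349827 0) (P.lf 1029150 0 0))))) (P.cons (P.cons (P.lf 29888145 0 0) (P.cons (P.lf 27843570 0 0) (P.cons (P.lf 0 2857653 0) (P.cons (P.lf 0 594312 0) (P.lf 49524 0 0))))) (P.cons (P.cons (P.lf 0 14225874 0) (P.cons (P.lf 0 13252719 0) (P.cons (P.lf 1360158 0 0) (P.cons (P.lf 282873 0 0) P.nil)))) (P.cons (P.cons (P.lf 0 706062 0) (P.cons (P.lf 0 657759 0) (P.cons (P.lf 67506 0 0) P.nil))) (P.cons (P.cons (P.lf 161517 0 0) (P.cons (P.lf 150468 0 0) P.nil)) (P.cons (P.cons (P.lf 8760 0 0) P.nil) P.nil)))))) 73293)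
 EL.nil))))))
noncomputable def S227_256_216_364_2 : EL := (EL.cons 0 (TM.mk (P.cons (P.cons (P.lf 3350319067 0 0) (P.cons (P.lf 0 946505383 0) (P.cons (P.lf 0 341876055 0) (P.cons (P.lf 102500112 0 0) (P.cons (P.lf 5971955 0 0) (P.cons (P.lf 0 2738231 0) P.nil)))))) (P.cons (P.cons (P.lf 0 538032170 0) (P.cons (P.lf 0 43604485 0) (P.cons (P.lf 0 1059554 0) (P.cons (P.lf 17391301 0 0) (P.cons (P.lf 1598980 0 0) P.nil))))) (P.cons (P.cons (P.lf 0 582595107 0) (P.cons (P.lf 153927209 0 0) (P.cons (P.lf 59086073 0 0) (P.cons (P.lf 0 13661253 0) P.nil)))) (P.cons (P.cons (P.lf 105311503 0 0) (P.cons (P.lf 0 98755 0) (P.cons (P.lf 0 1542838 0) P.nil))) (P.cons (P.cons (P.lf 29750948 0 0) (P.cons (P.lf 0 8153263 0) P.nil)) (P.cons (P.cons (P.lf 0 5752711 0) P.nil) P.nil)))))) 15850836)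
 (EL.cons 1 (TM.mk (P.cons (P.cons (P.lf 683373425 0 0) (P.cons (P.lf 0 7354713 0) (P.cons (P.lf 0 18334503 0) (P.cons (P.lf 0 12724587 0) (P.cons (P.lf 0 1366466 0) (P.cons (P.lf 626544 0 0) P.nil)))))) (P.cons (P.cons (P.lf 843447288 0 0) (P.cons (P.lf 0 241436890 0) (P.cons (P.lf 0 91146277 0) (P.cons (P.lf 22748272 0 0) (P.cons (P.lf 1168295 0 0) P.nil))))) (P.cons (P.cons (P.lf 0 193992335 0) (P.cons (P.lf 417802 0 0) (P.cons (P.lf 3329517 0 0) (P.cons (P.lf 2696049 0 0) P.nil)))) (P.cons (P.cons (P.lf 0 74353171 0) (P.cons (P.lf 20863445 0 0) (P.cons (P.lf 8188891 0 0) P.nil))) (P.cons (P.cons (P.lf 15163221 0 0) (P.cons (P.lf 0 46627 0) P.nil)) (P.cons (P.cons (P.lf 2871296 0 0) P.nil) P.nil)))))) 8319280)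
 (EL.cons 5 (TM.mk (P.cons (P.cons (P.lf 1415330546 0 0) (P.cons (P.lf 0 468559645 0) (P.cons (P.lf 0 163442030 0) (P.cons (P.lf 55744637 0 0) (P.cons (P.lf 3479123 0 0) (P.cons (P.lf 0 1595231 0) P.nil)))))) (P.cons (P.cons (P.lf 0 254727000 0) (P.cons (P.lf 45643030 0 0) (P.cons (P.lf 19356544 0 0) (P.cons (P.lf 0 2467349 0) (P.cons (P.lf 0 29299 0) P.nil))))) (P.cons (P.cons (P.lf 45859975 0 0) (P.cons (P.lf 0 5118867 0) (P.cons (P.lf 0 2319613 0) (P.cons (P.lf 148385 0 0) P.nil)))) (P.cons (P.cons (P.lf 0 3271199 0) (P.cons (P.lf 0 2181225 0) (P.cons (P.lf 0 685560 0) P.nil))) (P.cons (P.cons (P.lf 0 6481454 0) (P.cons (P.lf 1435503 0 0) P.nil)) (P.cons (P.cons (P.lf 988969 0 0) P.nil) P.nil)))))) 8327186)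
 (EL.cons 9 (TM.mk (P.cons (P.cons (P.lf 2299901542 0 0) (P.cons (P.lf 0 710377827 0) (P.cons (P.lf 0 251468772 0) (P.cons (P.lf 81343341 0 0) (P.cons (P.lf 4943371 0 0) (P.cons (P.lf 0 2266611 0) P.nil)))))) (P.cons (P.cons (P.lf 0 393553516 0) (P.cons (P.lf 26593422 0 0) (P.cons (P.lf 16746900 0 0) (P.cons (P.lf 3279010 0 0) (P.cons (P.lf 475780 0 0) P.nil))))) (P.cons (P.cons (P.lf 0 142310229 0) (P.cons (P.lf 43774228 0 0) (P.cons (P.lf 16490080 0 0) (P.cons (P.lf 0 4154937 0) P.nil)))) (P.cons (P.cons (P.lf 30152547 0 0) (P.cons (P.lf 0 1955601 0) (P.cons (P.lf 0 1088928 0) P.nil))) (P.cons (P.cons (P.lf 3614677 0 0) (P.cons (P.lf 0 1291251 0) P.nil)) (P.cons (P.cons (P.lf 0 932140 0) P.nil) P.nil)))))) 3013712)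
 (EL.cons 2 (TM.mk (P.cons (P.cons (P.lf 158273476 0 0) (P.cons (P.lf 123003174 0 0) (P.cons (P.lf 0 48444097 0) (P.cons (P.lf 0 9458167 0) (P.cons (P.lf 2847088 0 0) (P.cons (P.lf 57105 0 0) P.nil)))))) (P.cons (P.cons (P.lf 0 165473066 0) (P.cons (P.lf 0 131865991 0) (P.cons (P.lf 46194615 0 0) (P.cons (P.lf 9044741 0 0) (P.cons (P.lf 0 2631054 0) P.nil))))) (P.cons (P.cons (P.lf 0 1858145 0) (P.cons (P.lf 1406784 0 0) (P.cons (P.lf 4453897 0 0) (P.cons (P.lf 847096 0 0) P.nil)))) (P.cons (P.cons (P.lf 9537395 0 0) (P.cons (P.lf 7995751 0 0) (P.cons (P.lf 0 2123713 0) P.nil))) (P.cons (P.cons (P.lf 0 232295 0) (P.cons (P.lf 0 328933 0) P.nil)) (P.cons (P.cons (P.lf 0 257433 0) P.nil) P.nil)))))) 2510245)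
 (EL.cons 6 (TM.mk (P.cons (P.cons (P.lf 742170588 0 0) (P.cons (P.lf 576782274 0 0) (P.cons (P.lf 0 227162418 0) (P.cons (P.lf 0 44350938 0) (P.cons (P.lf 13350486 0 0) (P.cons (P.lf 267792 0 0) P.nil)))))) (P.cons (P.cons (P.lf 0 27783594 0) (P.cons (P.lf 0 36914580 0) (P.cons (P.lf 0 12377454 0) (P.cons (P.lf 0 2295768 0) (P.cons (P.lf 1120524 0 0) P.nil))))) (P.cons (P.cons (P.lf 0 45733332 0) (P.cons (P.lf 0 37619556 0) (P.cons (P.lf 11166588 0 0) (P.cons (P.lf 2196528 0 0) P.nil)))) (P.cons (P.cons (P.lf 2043114 0 0) (P.cons (P.lf 2416632 0 0) (P.cons (P.lf 504156 0 0) P.nil))) (P.cons (P.cons (P.lf 1349046 0 0) (P.cons (P.lf 1149552 0 0) P.nil)) (P.cons (P.cons (P.lf 0 46944 0) P.nil) P.nil)))))) 2188932)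
 EL.nil))))))
noncomputable def S227_256_216_364_3 : EL := (EL.cons 0 (TM.mk (P.cons (P.lf 96110806 0 0) (P.cons (P.lf 0 190686074 0) (P.cons (P.lf 92290364 0 0) (P.cons (P.lf 3016066 0 0) (P.cons (P.lf 0 708651 0) (P.cons (P.lf 0 26673 0) P.nil)))))) 4788)
 (EL.cons 1 (TM.mk (P.cons (P.lf 450679505 0 0) (P.cons (P.lf 0 439849933 0) (P.cons (P.lf 0 16100088 0) (P.cons (P.lf 5127871 0 0) (P.cons (P.lf 176304 0 0) (P.cons (P.lf 0 32482 0) P.nil)))))) 1651)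
 (EL.cons 5 (TM.mk (P.cons (P.lf 2113310914 0 0) (P.cons (P.lf 67799490 0 0) (P.cons (P.lf 0 32814348 0) (P.cons (P.lf 0 1072376 0) (P.cons (P.lf 251962 0 0) (P.cons (P.lf 9484 0 0) P.nil)))))) 1830)
 EL.nil)))
noncomputable def S227_256_216_364_4 : EL := (EL.cons 0 (TM.mk (P.cons (P.cons (P.lf 57425036 0 0) (P.cons (P.lf 0 8868524 0) (P.cons (P.lf 0 3824207 0) (P.lf 424910 0 0)))) (P.cons (P.cons (P.lf 0 118845822 0) (P.cons (P.lf 17168579 0 0) (P.cons (P.lf 7403283 0 0) (P.lf 0 822585 0)))) (P.cons (P.cons (P.lf 62903483 0 0) (P.cons (P.lf 0 7466116 0) (P.cons (P.lf 0 3219474 0) (P.lf 357718 0 0)))) (P.cons (P.cons (P.lf 1232486 0 0) (P.cons (P.lf 0 1081063 0) (P.cons (P.lf 0 466166 0) P.nil))) (P.cons (P.cons (P.lf 0 2866600 0) (P.cons (P.lf 224748 0 0) P.nil)) (P.cons (P.cons (P.lf 97729 0 0) P.nil) P.nil)))))) 305697)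
 (EL.cons 1 (TM.mk (P.cons (P.cons (P.lf 269275518 0 0) (P.cons (P.lf 0 41585986 0) (P.cons (P.lf 0 17932346 0) (P.lf 1992481 0 0)))) (P.cons (P.cons (P.lf 0 285843864 0) (P.cons (P.lf 38585450 0 0) (P.cons (P.lf 16638480 0 0) (P.lf 0 1848718 0)))) (P.cons (P.cons (P.lf 3549138 0 0) (P.cons (P.lf 4391313 0 0) (P.cons (P.lf 1893583 0 0) (P.lf 0 210397 0)))) (P.cons (P.cons (P.lf 13947575 0 0) (P.cons (P.lf 0 1284045 0) (P.cons (P.lf 0 553695 0) P.nil))) (P.cons (P.cons (P.lf 0 635490 0) (P.cons (P.lf 0 130020 0) P.nil)) (P.cons (P.cons (P.lf 0 308739 0) P.nil) P.nil)))))) 216454)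
 (EL.cons 5 (TM.mk (P.cons (P.cons (P.lf 1262677546 0 0) (P.cons (P.lf 0 195003592 0) (P.cons (P.lf 0 84087748 0) (P.lf 9343082 0 0)))) (P.cons (P.cons (P.lf 0 67523772 0) (P.cons (P.lf 0 15640318 0) (P.cons (P.lf 0 6744280 0) (P.lf 749362 0 0)))) (P.cons (P.cons (P.lf 0 66758832 0) (P.cons (P.lf 7193442 0 0) (P.cons (P.lf 3101892 0 0) (P.lf 0 344652 0)))) (P.cons (P.cons (P.lf 4174482 0 0) (P.cons (P.lf 609646 0 0) (P.cons (P.lf 262886 0 0) P.nil))) (P.cons (P.cons (P.lf 1654220 0 0) (P.cons (P.lf 0 131442 0) P.nil)) (P.cons (P.cons (P.lf 0 80842 0) P.nil) P.nil)))))) 157890)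
 EL.nil)))
noncomputable def S227_256_216_364_5 : EL := (EL.cons 0 (TM.mk (P.cons (P.cons (P.lf 34310759 0 0) (P.cons (P.lf 0 10597672 0) (P.cons (P.lf 0 3751500 0) (P.cons (P.lf 1213507 0 0) (P.cons (P.lf 73745 0 0) (P.cons (P.lf 0 33813 0) P.nil)))))) (P.cons (P.cons (P.lf 0 73944518 0) (P.cons (P.lf 21422758 0 0) (P.cons (P.lf 7692902 0 0) (P.cons (P.lf 0 2358711 0) (P.cons (P.lf 0 139216 0) P.nil))))) (P.cons (P.cons (P.lf 42472402 0 0) (P.cons (P.lf 0 10310493 0) (P.cons (P.lf 0 3852052 0) (P.cons (P.lf 1006233 0 0) P.nil)))) (P.cons (P.cons (P.lf 100896 0 0) (P.cons (P.lf 0 1276426 0) (P.cons (P.lf 0 382144 0) P.nil))) (P.cons (P.cons (P.lf 0 3314411 0) (P.cons (P.lf 756288 0 0) P.nil)) (P.cons (P.cons (P.lf 278194 0 0) P.nil) P.nil)))))) 1240694)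
 (EL.cons 1 (TM.mk (P.cons (P.cons (P.lf 160888843 0 0) (P.cons (P.lf 0 49694242 0) (P.cons (P.lf 0 17591413 0) (P.cons (P.lf 5690345 0 0) (P.cons (P.lf 345810 0 0) (P.cons (P.lf 0 158559 0) P.nil)))))) (P.cons (P.cons (P.lf 0 184553681 0) (P.cons (P.lf 50360452 0 0) (P.cons (P.lf 18340224 0 0) (P.cons (P.lf 0 5324227 0) (P.cons (P.lf 0 304218 0) P.nil))))) (P.cons (P.cons (P.lf 11166489 0 0) (P.cons (P.lf 3021856 0 0) (P.cons (P.lf 638621 0 0) (P.cons (P.lf 0 717808 0) P.nil)))) (P.cons (P.cons (P.lf 14639478 0 0) (P.cons (P.lf 0 3757314 0) (P.cons (P.lf 0 1444021 0) P.nil))) (P.cons (P.cons (P.lf 0 1700428 0) (P.cons (P.lf 0 64481 0) P.nil)) (P.cons (P.cons (P.lf 0 522984 0) P.nil) P.nil)))))) 1423486)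
 (EL.cons 5 (TM.mk (P.cons (P.cons (P.lf 754434464 0 0) (P.cons (P.lf 0 233024546 0) (P.cons (P.lf 0 82489054 0) (P.cons (P.lf 26682976 0 0) (P.cons (P.lf 1621568 0 0) (P.cons (P.lf 0 743512 0) P.nil)))))) (P.cons (P.cons (P.lf 0 104893120 0) (P.cons (P.lf 1247492 0 0) (P.cons (P.lf 2847044 0 0) (P.cons (P.lf 1931656 0 0) (P.cons (P.lf 208092 0 0) P.nil))))) (P.cons (P.cons (P.lf 0 62538040 0) (P.cons (P.lf 18257360 0 0) (P.cons (P.lf 6866310 0 0) (P.cons (P.lf 0 1742750 0) P.nil)))) (P.cons (P.cons (P.lf 10014974 0 0) (P.cons (P.lf 0 198024 0) (P.cons (P.lf 0 227100 0) P.nil))) (P.cons (P.cons (P.lf 2383348 0 0) (P.cons (P.lf 0 699318 0) P.nil)) (P.cons (P.cons (P.lf 0 409626 0) P.nil) P.nil)))))) 1411014)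
 EL.nil)))
noncomputable def S227_256_216_364_6 : EL := (EL.cons 12 (TM.mk (P.lf 8589934592 0 0) 0)
 (EL.cons 3 (TM.mk (P.cons (P.lf 0 454308690 0) (P.cons (P.lf 450679503 0 0) (P.cons (P.lf 5414782 0 0) (P.cons (P.lf 0 1756837 0) (P.cons (P.lf 0 35658 0) (P.cons (P.lf 6731 0 0) P.nil)))))) 269)
 (EL.cons 7 (TM.mk (P.cons (P.lf 0 2130328762 0) (P.cons (P.lf 0 34172730 0) (P.cons (P.lf 16813380 0 0) (P.cons (P.lf 270802 0 0) (P.cons (P.lf 0 64991 0) (P.cons (P.lf 0 1601 0) P.nil)))))) 330)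
 EL.nil)))
noncomputable def S227_256_216_364_7 : EL := (EL.cons 12 (TM.mk (P.cons (P.cons (P.lf 5132381360 0 0) (P.cons (P.lf 0 792627392 0) (P.cons (P.lf 0 341789872 0) (P.lf 37976648 0 0)))) (P.cons (P.cons (P.lf 0 439120262 0) (P.cons (P.lf 0 38143744 0) (P.cons (P.lf 0 16448008 0) (P.lf 1827552 0 0)))) (P.cons (P.cons (P.lf 0 177572608 0) (P.cons (P.lf 18155296 0 0) (P.cons (P.lf 7828768 0 0) (P.lf 0 869856 0)))) (P.cons (P.cons (P.lf 18450800 0 0) (P.cons (P.lf 901080 0 0) (P.cons (P.lf 388552 0 0) P.nil))) (P.cons (P.cons (P.lf 2539952 0 0) (P.cons (P.lf 0 206128 0) P.nil)) (P.cons (P.cons (P.lf 0 184382 0) P.nil) P.nil)))))) 200854)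
 (EL.cons 3 (TM.mk (P.cons (P.cons (P.lf 0 1719253983 0) (P.cons (P.lf 0 83841734 0) (P.cons (P.lf 0 36153500 0) (P.lf 4017054 0 0)))) (P.cons (P.cons (P.lf 0 890097567 0) (P.cons (P.lf 79137244 0 0) (P.cons (P.lf 34124872 0 0) (P.lf 0 3791650 0)))) (P.cons (P.cons (P.lf 168488716 0 0) (P.cons (P.lf 6922198 0 0) (P.cons (P.lf 2984928 0 0) (P.lf 0 331656 0)))) (P.cons (P.cons (P.lf 28063410 0 0) (P.cons (P.lf 0 2085888 0) (P.cons (P.lf 0 899458 0) P.nil))) (P.cons (P.cons (P.lf 0 2714386 0) (P.cons (P.lf 0 161426 0) P.nil)) (P.cons (P.cons (P.lf 0 436288 0) P.nil) P.nil)))))) 580856)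
 (EL.cons 7 (TM.mk (P.cons (P.cons (P.lf 0 1163065448 0) (P.cons (P.lf 206109842 0 0) (P.cons (P.lf 88876889 0 0) (P.lf 0 9875210 0)))) (P.cons (P.cons (P.lf 67491569 0 0) (P.cons (P.lf 0 6000574 0) (P.cons (P.lf 0 2587514 0) (P.lf 287501 0 0)))) (P.cons (P.cons (P.lf 0 46793162 0) (P.cons (P.lf 2499571 0 0) (P.cons (P.lf 1077842 0 0) (P.lf 0 119757 0)))) (P.cons (P.cons (P.lf 6730976 0 0) (P.cons (P.lf 486602 0 0) (P.cons (P.lf 209828 0 0) P.nil))) (P.cons (P.cons (P.lf 1666883 0 0) (P.cons (P.lf 0 104287 0) P.nil)) (P.cons (P.cons (P.lf 0 126046 0) P.nil) P.nil)))))) 439633)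
 (EL.cons 10 (TM.mk (P.cons (P.cons (P.lf 0 1252154487 0) (P.cons (P.lf 0 1166497743 0) (P.cons (P.lf 119720616 0 0) (P.cons (P.lf 24898557 0 0) (P.lf 0 2074878 0))))) (P.cons (P.cons (P.lf 0 40171767 0) (P.cons (P.lf 0 37423716 0) (P.cons (P.lf 3840888 0 0) (P.cons (P.lf 798798 0 0) (P.lf 0 66564 0))))) (P.cons (P.cons (P.lf 19442775 0 0) (P.cons (P.lf 18112743 0 0) (P.cons (P.lf 0 1858956 0) (P.cons (P.lf 0 386610 0) P.nil)))) (P.cons (P.cons (P.lf 635391 0 0) (P.cons (P.lf 591924 0 0) (P.cons (P.lf 0 60750 0) P.nil))) (P.cons (P.cons (P.lf 0 149289 0) (P.cons (P.lf 0 139077 0) P.nil)) (P.cons (P.cons (P.lf 0 5619 0) P.nil) P.nil)))))) 71619)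
 EL.nil))))
noncomputable def S227_256_216_364_8 : EL := (EL.cons 12 (TM.mk (P.cons (P.cons (P.lf 3066535390 0 0) (P.cons (P.lf 0 947170436 0) (P.cons (P.lf 0 335291696 0) (P.cons (P.lf 108457788 0 0) (P.cons (P.lf 6591162 0 0) (P.cons (P.lf 0 3022148 0) P.nil)))))) (P.cons (P.cons (P.lf 0 524738022 0) (P.cons (P.lf 35457896 0 0) (P.cons (P.lf 22329200 0 0) (P.cons (P.lf 4372014 0 0) (P.cons (P.lf 634374 0 0) P.nil))))) (P.cons (P.cons (P.lf 0 189746972 0) (P.cons (P.lf 58365638 0 0) (P.cons (P.lf 21986774 0 0) (P.cons (P.lf 0 5539916 0) P.nil)))) (P.cons (P.cons (P.lf 40203396 0 0) (P.cons (P.lf 0 2607468 0) (P.cons (P.lf 0 1451904 0) P.nil))) (P.cons (P.cons (P.lf 4819570 0 0) (P.cons (P.lf 0 1721668 0) P.nil)) (P.cons (P.cons (P.lf 0 1242854 0) P.nil) P.nil)))))) 4018254)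
 (EL.cons 3 (TM.mk (P.cons (P.cons (P.lf 0 1892282219 0) (P.cons (P.lf 167001542 0 0) (P.cons (P.lf 91353972 0 0) (P.cons (P.lf 8678694 0 0) (P.cons (P.lf 1742980 0 0) (P.cons (P.lf 0 799180 0) P.nil)))))) (P.cons (P.cons (P.lf 0 1076508714 0) (P.cons (P.lf 334243097 0 0) (P.cons (P.lf 126804369 0 0) (P.cons (P.lf 0 30955856 0) (P.cons (P.lf 0 1561300 0) P.nil))))) (P.cons (P.cons (P.lf 378987936 0 0) (P.cons (P.lf 0 24985937 0) (P.cons (P.lf 0 13692605 0) (P.cons (P.lf 0 1319738 0) P.nil)))) (P.cons (P.cons (P.lf 58762943 0 0) (P.cons (P.lf 0 21047189 0) (P.cons (P.lf 0 8275280 0) P.nil))) (P.cons (P.cons (P.lf 0 19748804 0) (P.cons (P.lf 896522 0 0) P.nil)) (P.cons (P.cons (P.lf 0 1520187 0) P.nil) P.nil)))))) 10253387)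
 (EL.cons 7 (TM.mk (P.cons (P.cons (P.lf 0 629325203 0) (P.cons (P.lf 226036562 0 0) (P.cons (P.lf 77571023 0 0) (P.cons (P.lf 0 27990854 0) (P.cons (P.lf 0 1793219 0) (P.cons (P.lf 822215 0 0) P.nil)))))) (P.cons (P.cons (P.lf 81626182 0 0) (P.cons (P.lf 0 25343952 0) (P.cons (P.lf 0 9614927 0) (P.cons (P.lf 2347220 0 0) (P.cons (P.lf 118385 0 0) P.nil))))) (P.cons (P.cons (P.lf 0 69878454 0) (P.cons (P.lf 14668573 0 0) (P.cons (P.lf 5884416 0 0) (P.cons (P.lf 0 1082986 0) P.nil)))) (P.cons (P.cons (P.lf 15186808 0 0) (P.cons (P.lf 220100 0 0) (P.cons (P.lf 0 109181 0) P.nil))) (P.cons (P.cons (P.lf 4606811 0 0) (P.cons (P.lf 0 1236698 0) P.nil)) (P.cons (P.cons (P.lf 0 1075674 0) P.nil) P.nil)))))) 4687358)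
 (EL.cons 10 (TM.mk (P.cons (P.cons (P.lf 0 1496294124 0) (P.cons (P.lf 0 1162853862 0) (P.cons (P.lf 457983378 0 0) (P.cons (P.lf 89416170 0 0) (P.cons (P.lf 0 26915988 0) (P.cons (P.lf 0 539904 0) P.nil)))))) (P.cons (P.cons (P.lf 80016804 0 0) (P.cons (P.lf 93077100 0 0) (P.cons (P.lf 17607714 0 0) (P.cons (P.lf 3194184 0 0) (P.cons (P.lf 0 1827342 0) P.nil))))) (P.cons (P.cons (P.lf 79110336 0 0) (P.cons (P.lf 65174244 0 0) (P.cons (P.lf 0 19180890 0) (P.cons (P.lf 0 3773970 0) P.nil)))) (P.cons (P.cons (P.lf 0 4946832 0) (P.cons (P.lf 0 5330874 0) (P.cons (P.lf 0 511566 0) P.nil))) (P.cons (P.cons (P.lf 0 1960278 0) (P.cons (P.lf 0 1670418 0) P.nil)) (P.cons (P.cons (P.lf 95796 0 0) P.nil) P.nil)))))) 3618090)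
 EL.nil))))
noncomputable def S227_256_216_364_9 : EL := (EL.cons 3 (TM.mk (P.cons (P.lf 0 454308690 0) (P.cons (P.lf 450679503 0 0) (P.cons (P.lf 5414782 0 0) (P.cons (P.lf 0 1756837 0) (P.cons (P.lf 0 35658 0) (P.cons (P.lf 6731 0 0) P.nil)))))) 269)
 (EL.cons 7 (TM.mk (P.cons (P.lf 0 2130328762 0) (P.cons (P.lf 0 34172730 0) (P.cons (P.lf 16813380 0 0) (P.cons (P.lf 270802 0 0) (P.cons (P.lf 0 64991 0) (P.cons (P.lf 0 1601 0) P.nil)))))) 330)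
 EL.nil))
noncomputable def S227_256_216_364_10 : EL := (EL.cons 3 (TM.mk (P.cons (P.cons (P.lf 0 271443912 0) (P.cons (P.lf 41920867 0 0) (P.cons (P.lf 18076750 0 0) (P.lf 0 2008527 0)))) (P.cons (P.cons (P.lf 292499925 0 0) (P.cons (P.lf 0 39568622 0) (P.cons (P.lf 0 17062436 0) (P.lf 1895825 0 0)))) (P.cons (P.cons (P.lf 0 10412069 0) (P.cons (P.lf 0 3461099 0) (P.cons (P.lf 0 1492464 0) (P.lf 165828 0 0)))) (P.cons (P.cons (P.lf 0 11618853 0) (P.cons (P.lf 1042944 0 0) (P.cons (P.lf 449729 0 0) P.nil))) (P.cons (P.cons (P.lf 790274 0 0) (P.cons (P.lf 80713 0 0) P.nil)) (P.cons (P.cons (P.lf 196805 0 0) P.nil) P.nil)))))) 143260)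
 (EL.cons 7 (TM.mk (P.cons (P.cons (P.lf 0 1272845504 0) (P.cons (P.lf 196573898 0 0) (P.cons (P.lf 84764882 0 0) (P.lf 0 9418319 0)))) (P.cons (P.cons (P.lf 88485311 0 0) (P.cons (P.lf 12613013 0 0) (P.cons (P.lf 5438872 0 0) (P.lf 0 604318 0)))) (P.cons (P.cons (P.lf 55831234 0 0) (P.cons (P.lf 0 5902259 0) (P.cons (P.lf 0 2545120 0) (P.lf 282789 0 0)))) (P.cons (P.cons (P.lf 0 4567132 0) (P.cons (P.lf 0 395344 0) (P.cons (P.lf 0 170476 0) P.nil))) (P.cons (P.cons (P.lf 0 1103560 0) (P.cons (P.lf 87866 0 0) P.nil)) (P.cons (P.cons (P.lf 68504 0 0) P.nil) P.nil)))))) 95430)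
 EL.nil))
noncomputable def S227_256_216_364_11 : EL := (EL.cons 3 (TM.mk (P.cons (P.cons (P.lf 0 162184433 0) (P.cons (P.lf 50094416 0 0) (P.cons (P.lf 17733072 0 0) (P.cons (P.lf 0 5736168 0) (P.cons (P.lf 0 348596 0) (P.cons (P.lf 159836 0 0) P.nil)))))) (P.cons (P.cons (P.lf 188641446 0 0) (P.cons (P.lf 0 51569557 0) (P.cons (P.lf 0 18772371 0) (P.cons (P.lf 5459116 0 0) (P.cons (P.lf 312260 0 0) P.nil))))) (P.cons (P.cons (P.lf 0 15562440 0) (P.cons (P.lf 0 1823597 0) (P.cons (P.lf 0 202679 0) (P.cons (P.lf 590746 0 0) P.nil)))) (P.cons (P.cons (P.lf 0 13039513 0) (P.cons (P.lf 3416185 0 0) (P.cons (P.lf 1312996 0 0) P.nil))) (P.cons (P.cons (P.lf 1829392 0 0) (P.cons (P.lf 0 12274 0) P.nil)) (P.cons (P.cons (P.lf 387327 0 0) P.nil) P.nil)))))) 1238437)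
 (EL.cons 7 (TM.mk (P.cons (P.cons (P.lf 0 760509695 0) (P.cons (P.lf 234901022 0 0) (P.cons (P.lf 83153315 0 0) (P.cons (P.lf 0 26897846 0) (P.cons (P.lf 0 1634627 0) (P.cons (P.lf 749501 0 0) P.nil)))))) (P.cons (P.cons (P.lf 117937174 0 0) (P.cons (P.lf 0 5025600 0) (P.cons (P.lf 0 4203839 0) (P.cons (P.lf 0 1515742 0) (P.cons (P.lf 0 183547 0) P.nil))))) (P.cons (P.cons (P.lf 55147566 0 0) (P.cons (P.lf 0 16469837 0) (P.cons (P.lf 0 6197892 0) (P.cons (P.lf 1568810 0 0) P.nil)))) (P.cons (P.cons (P.lf 0 10146116 0) (P.cons (P.lf 454010 0 0) (P.cons (P.lf 305743 0 0) P.nil))) (P.cons (P.cons (P.lf 0 1766347 0) (P.cons (P.lf 559876 0 0) P.nil)) (P.cons (P.cons (P.lf 365166 0 0) P.nil) P.nil)))))) 1196356)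
 EL.nil))
noncomputable def S227_256_216_364_12 : EL := (EL.cons 4 (TM.mk (P.cons (P.lf 454308690 0 0) (P.cons (P.lf 0 450679503 0) (P.cons (P.lf 0 5414782 0) (P.cons (P.lf 1756837 0 0) (P.cons (P.lf 35658 0 0) (P.cons (P.lf 0 6731 0) P.nil)))))) 269)
 (EL.cons 8 (TM.mk (P.cons (P.lf 2130328762 0 0) (P.cons (P.lf 34172730 0 0) (P.cons (P.lf 0 16813380 0) (P.cons (P.lf 0 270802 0) (P.cons (P.lf 64991 0 0) (P.cons (P.lf 1601 0 0) P.nil)))))) 330)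
 EL.nil))
noncomputable def S227_256_216_364_13 : EL := (EL.cons 4 (TM.mk (P.cons (P.cons (P.lf 271443912 0 0) (P.cons (P.lf 0 41920867 0) (P.cons (P.lf 0 18076750 0) (P.lf 2008527 0 0)))) (P.cons (P.cons (P.lf 0 292499925 0) (P.cons (P.lf 39568622 0 0) (P.cons (P.lf 17062436 0 0) (P.lf 0 1895825 0)))) (P.cons (P.cons (P.lf 10412069 0 0) (P.cons (P.lf 3461099 0 0) (P.cons (P.lf 1492464 0 0) (P.lf 0 165828 0)))) (P.cons (P.cons (P.lf 11618853 0 0) (P.cons (P.lf 0 1042944 0) (P.cons (P.lf 0 449729 0) P.nil))) (P.cons (P.cons (P.lf 0 790274 0) (P.cons (P.lf 0 80713 0) P.nil)) (P.cons (P.cons (P.lf 0 196805 0) P.nil) P.nil)))))) 143260)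
 (EL.cons 8 (TM.mk (P.cons (P.cons (P.lf 1272845504 0 0) (P.cons (P.lf 0 196573898 0) (P.cons (P.lf 0 84764882 0) (P.lf 9418319 0 0)))) (P.cons (P.cons (P.lf 0 88485311 0) (P.cons (P.lf 0 12613013 0) (P.cons (P.lf 0 5438872 0) (P.lf 604318 0 0)))) (P.cons (P.cons (P.lf 0 55831234 0) (P.cons (P.lf 5902259 0 0) (P.cons (P.lf 2545120 0 0) (P.lf 0 282789 0)))) (P.cons (P.cons (P.lf 4567132 0 0) (P.cons (P.lf 395344 0 0) (P.cons (P.lf 170476 0 0) P.nil))) (P.cons (P.cons (P.lf 1103560 0 0) (P.cons (P.lf 0 87866 0) P.nil)) (P.cons (P.cons (P.lf 0 68504 0) P.nil) P.nil)))))) 95430)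
 EL.nil))
noncomputable def S227_256_216_364_14 : EL := (EL.cons 4 (TM.mk (P.cons (P.cons (P.lf 162184433 0 0) (P.cons (P.lf 0 50094416 0) (P.cons (P.lf 0 17733072 0) (P.cons (P.lf 5736168 0 0) (P.cons (P.lf 348596 0 0) (P.cons (P.lf 0 159836 0) P.nil)))))) (P.cons (P.cons (P.lf 0 188641446 0) (P.cons (P.lf 51569557 0 0) (P.cons (P.lf 18772371 0 0) (P.cons (P.lf 0 5459116 0) (P.cons (P.lf 0 312260 0) P.nil))))) (P.cons (P.cons (P.lf 15562440 0 0) (P.cons (P.lf 1823597 0 0) (P.cons (P.lf 202679 0 0) (P.cons (P.lf 0 590746 0) P.nil)))) (P.cons (P.cons (P.lf 13039513 0 0) (P.cons (P.lf 0 3416185 0) (P.cons (P.lf 0 1312996 0) P.nil))) (P.cons (P.cons (P.lf 0 1829392 0) (P.cons (P.lf 12274 0 0) P.nil)) (P.cons (P.cons (P.lf 0 387327 0) P.nil) P.nil)))))) 1238437)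
 (EL.cons 8 (TM.mk (P.cons (P.cons (P.lf 760509695 0 0) (P.cons (P.lf 0 234901022 0) (P.cons (P.lf 0 83153315 0) (P.cons (P.lf 26897846 0 0) (P.cons (P.lf 1634627 0 0) (P.cons (P.lf 0 749501 0) P.nil)))))) (P.cons (P.cons (P.lf 0 117937174 0) (P.cons (P.lf 5025600 0 0) (P.cons (P.lf 4203839 0 0) (P.cons (P.lf 1515742 0 0) (P.cons (P.lf 183547 0 0) P.nil))))) (P.cons (P.cons (P.lf 0 55147566 0) (P.cons (P.lf 16469837 0 0) (P.cons (P.lf 6197892 0 0) (P.cons (P.lf 0 1568810 0) P.nil)))) (P.cons (P.cons (P.lf 10146116 0 0) (P.cons (P.lf 0 454010 0) (P.cons (P.lf 0 305743 0) P.nil))) (P.cons (P.cons (P.lf 1766347 0 0) (P.cons (P.lf 0 559876 0) P.nil)) (P.cons (P.cons (P.lf 0 365166 0) P.nil) P.nil)))))) 1196356)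
 EL.nil))
noncomputable def S227_256_216_364_15 : EL := (EL.cons 4 (TM.mk (P.cons (P.lf 0 51259096 0) (P.cons (P.lf 101699239 0 0) (P.cons (P.lf 0 49221527 0) (P.cons (P.lf 0 1608569 0) (P.cons (P.lf 377947 0 0) (P.cons (P.lf 14225 0 0) P.nil)))))) 2557)
 (EL.cons 8 (TM.mk (P.cons (P.lf 0 240362403 0) (P.cons (P.lf 234586631 0 0) (P.cons (P.lf 8586714 0 0) (P.cons (P.lf 0 2734865 0) (P.cons (P.lf 0 94029 0) (P.cons (P.lf 17324 0 0) P.nil)))))) 877)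
 EL.nil))
noncomputable def S227_256_216_364_16 : EL := (EL.cons 4 (TM.mk (P.cons (P.cons (P.lf 0 30626685 0) (P.cons (P.lf 4729879 0 0) (P.cons (P.lf 2039577 0 0) (P.lf 0 226619 0)))) (P.cons (P.cons (P.lf 63384438 0 0) (P.cons (P.lf 0 9156575 0) (P.cons (P.lf 0 3948418 0) (P.lf 438712 0 0)))) (P.cons (P.cons (P.lf 0 33548524 0) (P.cons (P.lf 3981929 0 0) (P.cons (P.lf 1717052 0 0) (P.lf 0 190783 0)))) (P.cons (P.cons (P.lf 0 657326 0) (P.cons (P.lf 576567 0 0) (P.cons (P.lf 248622 0 0) P.nil))) (P.cons (P.cons (P.lf 1528853 0 0) (P.cons (P.lf 0 119865 0) P.nil)) (P.cons (P.cons (P.lf 0 52122 0) P.nil) P.nil)))))) 163047)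
 (EL.cons 8 (TM.mk (P.cons (P.cons (P.lf 0 143613610 0) (P.cons (P.lf 22179193 0 0) (P.cons (P.lf 9563918 0 0) (P.lf 0 1062657 0)))) (P.cons (P.cons (P.lf 152450061 0 0) (P.cons (P.lf 0 20578907 0) (P.cons (P.lf 0 8873856 0) (P.lf 985983 0 0)))) (P.cons (P.cons (P.lf 0 1892874 0) (P.cons (P.lf 0 2342034 0) (P.cons (P.lf 0 1009911 0) (P.lf 112212 0 0)))) (P.cons (P.cons (P.lf 0 7438707 0) (P.cons (P.lf 684824 0 0) (P.cons (P.lf 295304 0 0) P.nil))) (P.cons (P.cons (P.lf 338928 0 0) (P.cons (P.lf 69344 0 0) P.nil)) (P.cons (P.cons (P.lf 164661 0 0) P.nil) P.nil)))))) 115432)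
 EL.nil))
noncomputable def S227_256_216_364_17 : EL := (EL.cons 4 (TM.mk (P.cons (P.cons (P.lf 0 18299071 0) (P.cons (P.lf 5652091 0 0) (P.cons (P.lf 2000800 0 0) (P.cons (P.lf 0 647204 0) (P.cons (P.lf 0 39330 0) (P.cons (P.lf 18033 0 0) P.nil)))))) (P.cons (P.cons (P.lf 39437076 0 0) (P.cons (P.lf 0 11425470 0) (P.cons (P.lf 0 4102881 0) (P.cons (P.lf 1257979 0 0) (P.cons (P.lf 74249 0 0) P.nil))))) (P.cons (P.cons (P.lf 0 22651948 0) (P.cons (P.lf 5498929 0 0) (P.cons (P.lf 2054428 0 0) (P.cons (P.lf 0 536657 0) P.nil)))) (P.cons (P.cons (P.lf 0 53811 0) (P.cons (P.lf 680760 0 0) (P.cons (P.lf 203810 0 0) P.nil))) (P.cons (P.cons (P.lf 1767686 0 0) (P.cons (P.lf 0 403353 0) P.nil)) (P.cons (P.cons (P.lf 0 148370 0) P.nil) P.nil)))))) 661714)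
 (EL.cons 8 (TM.mk (P.cons (P.cons (P.lf 0 85807383 0) (P.cons (P.lf 26503596 0 0) (P.cons (P.lf 9382087 0 0) (P.cons (P.lf 0 3034851 0) (P.cons (P.lf 0 184432 0) (P.cons (P.lf 84565 0 0) P.nil)))))) (P.cons (P.cons (P.lf 98428630 0 0) (P.cons (P.lf 0 26858908 0) (P.cons (P.lf 0 9781453 0) (P.cons (P.lf 2839588 0 0) (P.cons (P.lf 162250 0 0) P.nil))))) (P.cons (P.cons (P.lf 0 5955461 0) (P.cons (P.lf 0 1611657 0) (P.cons (P.lf 0 340598 0) (P.cons (P.lf 382831 0 0) P.nil)))) (P.cons (P.cons (P.lf 0 7807722 0) (P.cons (P.lf 2003901 0 0) (P.cons (P.lf 770145 0 0) P.nil))) (P.cons (P.cons (P.lf 906895 0 0) (P.cons (P.lf 34390 0 0) P.nil)) (P.cons (P.cons (P.lf 278925 0 0) P.nil) P.nil)))))) 759181)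
 EL.nil))
noncomputable def S227_256_216_364_18 : EL := (EL.cons 4 (TM.mk (P.cons (P.lf 5783501 0 0) (P.cons (P.lf 0 17211901 0) (P.cons (P.lf 16867610 0 0) (P.cons (P.lf 0 5168619 0) (P.cons (P.lf 0 332796 0) (P.cons (P.lf 59024 0 0) P.nil)))))) 4306)
 (EL.cons 8 (TM.mk (P.cons (P.lf 27119797 0 0) (P.cons (P.lf 0 53371278 0) (P.cons (P.lf 24964624 0 0) (P.cons (P.lf 1690000 0 0) (P.cons (P.lf 0 384174 0) (P.cons (P.lf 0 22382 0) P.nil)))))) 4185)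
 EL.nil))
noncomputable def S227_256_216_364_19 : EL := (EL.cons 4 (TM.mk (P.cons (P.cons (P.lf 3455571 0 0) (P.cons (P.lf 0 533666 0) (P.cons (P.lf 0 230122 0) (P.lf 25568 0 0)))) (P.cons (P.cons (P.lf 0 10579556 0) (P.cons (P.lf 1562528 0 0) (P.cons (P.lf 673779 0 0) (P.lf 0 74864 0)))) (P.cons (P.cons (P.lf 10838512 0 0) (P.cons (P.lf 0 1467787 0) (P.cons (P.lf 0 632925 0) (P.lf 70324 0 0)))) (P.cons (P.cons (P.lf 0 3582234 0) (P.cons (P.lf 366255 0 0) (P.cons (P.lf 157933 0 0) P.nil))) (P.cons (P.cons (P.lf 0 318570 0) (P.cons (P.lf 87365 0 0) P.nil)) (P.cons (P.cons (P.lf 190141 0 0) P.nil) P.nil)))))) 139241)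
 (EL.cons 8 (TM.mk (P.cons (P.cons (P.lf 16203748 0 0) (P.cons (P.lf 0 2502451 0) (P.cons (P.lf 0 1079084 0) (P.lf 119897 0 0)))) (P.cons (P.cons (P.lf 0 33275061 0) (P.cons (P.lf 4804353 0 0) (P.cons (P.lf 2071691 0 0) (P.lf 0 230187 0)))) (P.cons (P.cons (P.lf 17083791 0 0) (P.cons (P.lf 0 2009269 0) (P.cons (P.lf 0 866419 0) (P.lf 96268 0 0)))) (P.cons (P.cons (P.lf 895107 0 0) (P.cons (P.lf 0 376756 0) (P.cons (P.lf 0 162461 0) P.nil))) (P.cons (P.cons (P.lf 0 938625 0) (P.cons (P.lf 74459 0 0) P.nil)) (P.cons (P.cons (P.lf 8589 0 0) P.nil) P.nil)))))) 115812)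
 EL.nil))
noncomputable def S227_256_216_364_20 : EL := (EL.cons 4 (TM.mk (P.cons (P.cons (P.lf 2064661 0 0) (P.cons (P.lf 0 637718 0) (P.cons (P.lf 0 225747 0) (P.cons (P.lf 73022 0 0) (P.cons (P.lf 4437 0 0) (P.cons (P.lf 0 2034 0) P.nil)))))) (P.cons (P.cons (P.lf 0 6497805 0) (P.cons (P.lf 1921745 0 0) (P.cons (P.lf 686866 0 0) (P.cons (P.lf 0 214376 0) (P.cons (P.lf 0 12779 0) P.nil))))) (P.cons (P.cons (P.lf 6945274 0 0) (P.cons (P.lf 0 1891660 0) (P.cons (P.lf 0 688333 0) (P.cons (P.lf 200482 0 0) P.nil)))) (P.cons (P.cons (P.lf 0 2468284 0) (P.cons (P.lf 520840 0 0) (P.cons (P.lf 200560 0 0) P.nil))) (P.cons (P.cons (P.lf 0 252975 0) (P.cons (P.lf 134035 0 0) P.nil)) (P.cons (P.cons (P.lf 224024 0 0) P.nil) P.nil)))))) 376375)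
 (EL.cons 8 (TM.mk (P.cons (P.cons (P.lf 9681542 0 0) (P.cons (P.lf 0 2990368 0) (P.cons (P.lf 0 1058569 0) (P.cons (P.lf 342418 0 0) (P.cons (P.lf 20808 0 0) (P.cons (P.lf 0 9541 0) P.nil)))))) (P.cons (P.cons (P.lf 0 20709785 0) (P.cons (P.lf 5996938 0 0) (P.cons (P.lf 2153742 0 0) (P.cons (P.lf 0 660070 0) (P.cons (P.lf 0 38949 0) P.nil))))) (P.cons (P.cons (P.lf 11573422 0 0) (P.cons (P.lf 0 2788766 0) (P.cons (P.lf 0 1043766 0) (P.cons (P.lf 270552 0 0) P.nil)))) (P.cons (P.cons (P.lf 384159 0 0) (P.cons (P.lf 0 454169 0) (P.cons (P.lf 0 142264 0) P.nil))) (P.cons (P.cons (P.lf 0 1026417 0) (P.cons (P.lf 229727 0 0) P.nil)) (P.cons (P.cons (P.lf 61119 0 0) P.nil) P.nil)))))) 402379)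
 EL.nil))
noncomputable def S227_256_216_364_21 : EL := (EL.cons 4 (TM.mk (P.cons (P.cons (P.lf 1447810071 0 0) (P.cons (P.lf 125762601 0 0) (P.cons (P.lf 54230250 0 0) (P.lf 0 6025581 0)))) (P.cons (P.cons (P.lf 1182597492 0 0) (P.cons (P.lf 0 118705866 0) (P.cons (P.lf 0 51187308 0) (P.lf 5687475 0 0)))) (P.cons (P.cons (P.lf 0 178900785 0) (P.cons (P.lf 0 10383297 0) (P.cons (P.lf 0 4477392 0) (P.lf 497484 0 0)))) (P.cons (P.cons (P.lf 0 39682263 0) (P.cons (P.lf 3128832 0 0) (P.cons (P.lf 1349187 0 0) P.nil))) (P.cons (P.cons (P.lf 3504660 0 0) (P.cons (P.lf 242139 0 0) P.nil)) (P.cons (P.cons (P.lf 633093 0 0) P.nil) P.nil)))))) 437577)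
 (EL.cons 8 (TM.mk (P.cons (P.cons (P.lf 0 109780056 0) (P.cons (P.lf 0 9535944 0) (P.cons (P.lf 0 4112007 0) (P.lf 456891 0 0)))) (P.cons (P.cons (P.lf 20993742 0 0) (P.cons (P.lf 18613587 0 0) (P.cons (P.lf 8026386 0 0) (P.lf 0 891819 0)))) (P.cons (P.cons (P.lf 102624396 0 0) (P.cons (P.lf 0 8401830 0) (P.cons (P.lf 0 3622962 0) (P.lf 402546 0 0)))) (P.cons (P.cons (P.lf 0 11298108 0) (P.cons (P.lf 0 881946 0) (P.cons (P.lf 0 380304 0) P.nil))) (P.cons (P.cons (P.lf 0 2770443 0) (P.cons (P.lf 192153 0 0) P.nil)) (P.cons (P.cons (P.lf 194550 0 0) P.nil) P.nil)))))) 344184)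
 (EL.cons 11 (TM.mk (P.cons (P.cons (P.lf 1252154487 0 0) (P.cons (P.lf 1166497743 0 0) (P.cons (P.lf 0 119720616 0) (P.cons (P.lf 0 24898557 0) (P.lf 2074878 0 0))))) (P.cons (P.cons (P.lf 40171767 0 0) (P.cons (P.lf 37423716 0 0) (P.cons (P.lf 0 3840888 0) (P.cons (P.lf 0 798798 0) (P.lf 66564 0 0))))) (P.cons (P.cons (P.lf 0 19442775 0) (P.cons (P.lf 0 18112743 0) (P.cons (P.lf 1858956 0 0) (P.cons (P.lf 386610 0 0) P.nil)))) (P.cons (P.cons (P.lf 0 635391 0) (P.cons (P.lf 0 591924 0) (P.cons (P.lf 60750 0 0) P.nil))) (P.cons (P.cons (P.lf 149289 0 0) (P.cons (P.lf 139077 0 0) P.nil)) (P.cons (P.cons (P.lf 5619 0 0) P.nil) P.nil)))))) 71619)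
 EL.nil)))
noncomputable def S227_256_216_364_22 : EL := (EL.cons 4 (TM.mk (P.cons (P.cons (P.lf 865048893 0 0) (P.cons (P.lf 0 58453563 0) (P.cons (P.lf 0 36810450 0) (P.cons (P.lf 0 7207431 0) (P.cons (P.lf 0 1045788 0) (P.cons (P.lf 479508 0 0) P.nil)))))) (P.cons (P.cons (P.lf 632575080 0 0) (P.cons (P.lf 0 192906327 0) (P.cons (P.lf 0 72788370 0) (P.cons (P.lf 18207486 0 0) (P.cons (P.lf 936780 0 0) P.nil))))) (P.cons (P.cons (P.lf 0 197275188 0) (P.cons (P.lf 11581170 0 0) (P.cons (P.lf 6744963 0 0) (P.cons (P.lf 955242 0 0) P.nil)))) (P.cons (P.cons (P.lf 0 35901228 0) (P.cons (P.lf 12231687 0 0) (P.cons (P.lf 4794138 0 0) P.nil))) (P.cons (P.cons (P.lf 10789098 0 0) (P.cons (P.lf 0 454398 0) P.nil)) (P.cons (P.cons (P.lf 953757 0 0) P.nil) P.nil)))))) 4507464)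
 (EL.cons 8 (TM.mk (P.cons (P.cons (P.lf 0 65592246 0) (P.cons (P.lf 4432230 0 0) (P.cons (P.lf 2791146 0 0) (P.cons (P.lf 546504 0 0) (P.cons (P.lf 79296 0 0) (P.cons (P.lf 0 36357 0) P.nil)))))) (P.cons (P.cons (P.lf 18155496 0 0) (P.cons (P.lf 10159176 0 0) (P.cons (P.lf 2705544 0 0) (P.cons (P.lf 0 1931481 0) (P.cons (P.lf 0 150966 0) P.nil))))) (P.cons (P.cons (P.lf 62513010 0 0) (P.cons (P.lf 0 15569205 0) (P.cons (P.lf 0 6041154 0) (P.cons (P.lf 1325898 0 0) P.nil)))) (P.cons (P.cons (P.lf 0 12666462 0) (P.cons (P.lf 116955 0 0) (P.cons (P.lf 207462 0 0) P.nil))) (P.cons (P.cons (P.lf 0 3186579 0) (P.cons (P.lf 898287 0 0) P.nil)) (P.cons (P.cons (P.lf 720420 0 0) P.nil) P.nil)))))) 1745490)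
 (EL.cons 11 (TM.mk (P.cons (P.cons (P.lf 748147062 0 0) (P.cons (P.lf 581426931 0 0) (P.cons (P.lf 0 228991689 0) (P.cons (P.lf 0 44708085 0) (P.cons (P.lf 13457994 0 0) (P.cons (P.lf 269952 0 0) P.nil)))))) (P.cons (P.cons (P.lf 0 40008402 0) (P.cons (P.lf 0 46538550 0) (P.cons (P.lf 0 8803857 0) (P.cons (P.lf 0 1597092 0) (P.cons (P.lf 913671 0 0) P.nil))))) (P.cons (P.cons (P.lf 0 39555168 0) (P.cons (P.lf 0 32587122 0) (P.cons (P.lf 9590445 0 0) (P.cons (P.lf 1886985 0 0) P.nil)))) (P.cons (P.cons (P.lf 2473416 0 0) (P.cons (P.lf 2665437 0 0) (P.cons (P.lf 255783 0 0) P.nil))) (P.cons (P.cons (P.lf 980139 0 0) (P.cons (P.lf 835209 0 0) P.nil)) (P.cons (P.cons (P.lf 0 47898 0) P.nil) P.nil)))))) 1809045)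
 EL.nil)))
noncomputable def S227_256_216_364_23 : EL := (EL.cons 4 (TM.mk (P.cons (P.cons (P.lf 0 163354647 0) (P.cons (P.lf 0 14189640 0) (P.cons (P.lf 0 6118731 0) (P.lf 679857 0 0)))) (P.cons (P.cons (P.lf 28618674 0 0) (P.cons (P.lf 27469725 0 0) (P.cons (P.lf 11845254 0 0) (P.lf 0 1316136 0)))) (P.cons (P.cons (P.lf 154497276 0 0) (P.cons (P.lf 0 11945787 0) (P.cons (P.lf 0 5151159 0) (P.lf 572349 0 0)))) (P.cons (P.cons (P.lf 0 14587983 0) (P.cons (P.lf 0 1729701 0) (P.cons (P.lf 0 745866 0) P.nil))) (P.cons (P.cons (P.lf 0 5606349 0) (P.cons (P.lf 359598 0 0) P.nil)) (P.cons (P.cons (P.lf 337476 0 0) P.nil) P.nil)))))) 492855)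
 (EL.cons 8 (TM.mk (P.cons (P.cons (P.lf 12386349 0 0) (P.cons (P.lf 1075926 0 0) (P.cons (P.lf 463950 0 0) (P.lf 0 51549 0)))) (P.cons (P.cons (P.lf 0 14656101 0) (P.cons (P.lf 0 3167481 0) (P.cons (P.lf 0 1365852 0) (P.lf 151761 0 0)))) (P.cons (P.cons (P.lf 0 9376839 0) (P.cons (P.lf 3018516 0 0) (P.cons (P.lf 1301616 0 0) (P.lf 0 144621 0)))) (P.cons (P.cons (P.lf 12837369 0 0) (P.cons (P.lf 0 811692 0) (P.cons (P.lf 0 350010 0) P.nil))) (P.cons (P.cons (P.lf 0 822162 0) (P.cons (P.lf 0 139728 0) P.nil)) (P.cons (P.cons (P.lf 0 392376 0) P.nil) P.nil)))))) 239646)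
 (EL.cons 11 (TM.mk (P.cons (P.cons (P.lf 0 141279066 0) (P.cons (P.lf 0 131614521 0) (P.cons (P.lf 13507929 0 0) (P.cons (P.lf 2809272 0 0) (P.lf 0 234105 0))))) (P.cons (P.cons (P.lf 135617946 0 0) (P.cons (P.lf 126340662 0 0) (P.cons (P.lf 0 12966660 0) (P.cons (P.lf 0 2696703 0) (P.lf 224724 0 0))))) (P.cons (P.cons (P.lf 8373894 0 0) (P.cons (P.lf 7801056 0 0) (P.cons (P.lf 0 800640 0) (P.cons (P.lf 0 166509 0) P.nil)))) (P.cons (P.cons (P.lf 0 2596800 0) (P.cons (P.lf 0 2419161 0) (P.cons (P.lf 248283 0 0) P.nil))) (P.cons (P.cons (P.lf 0 142722 0) (P.cons (P.lf 0 132960 0) P.nil)) (P.cons (P.cons (P.lf 25440 0 0) P.nil) P.nil)))))) 126261)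
 EL.nil)))
noncomputable def S227_256_216_364_24 : EL := (EL.cons 4 (TM.mk (P.cons (P.cons (P.lf 0 97602414 0) (P.cons (P.lf 6595242 0 0) (P.cons (P.lf 4153278 0 0) (P.cons (P.lf 813204 0 0) (P.cons (P.lf 117993 0 0) (P.cons (P.lf 0 54102 0) P.nil)))))) (P.cons (P.cons (P.lf 25450053 0 0) (P.cons (P.lf 15222825 0 0) (P.cons (P.lf 4092522 0 0) (P.cons (P.lf 0 2861037 0) (P.cons (P.lf 0 222747 0) P.nil))))) (P.cons (P.cons (P.lf 94224141 0 0) (P.cons (P.lf 0 22976811 0) (P.cons (P.lf 0 8957544 0) (P.cons (P.lf 1920444 0 0) P.nil)))) (P.cons (P.cons (P.lf 0 17556582 0) (P.cons (P.lf 0 317745 0) (P.cons (P.lf 132204 0 0) P.nil))) (P.cons (P.cons (P.lf 0 5784606 0) (P.cons (P.lf 1520589 0 0) P.nil)) (P.cons (P.cons (P.lf 1133622 0 0) P.nil) P.nil)))))) 2841246)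
 (EL.cons 8 (TM.mk (P.cons (P.cons (P.lf 7400691 0 0) (P.cons (P.lf 0 500082 0) (P.cons (P.lf 0 314919 0) (P.cons (P.lf 0 61659 0) (P.cons (P.lf 0 8946 0) (P.cons (P.lf 4101 0 0) P.nil)))))) (P.cons (P.cons (P.lf 0 9390036 0) (P.cons (P.lf 0 650157 0) (P.cons (P.lf 7140 0 0) (P.cons (P.lf 279093 0 0) (P.cons (P.lf 25908 0 0) P.nil))))) (P.cons (P.cons (P.lf 0 5109375 0) (P.cons (P.lf 2899704 0 0) (P.cons (P.lf 988194 0 0) (P.cons (P.lf 0 365049 0) P.nil)))) (P.cons (P.cons (P.lf 8479098 0 0) (P.cons (P.lf 0 1744089 0) (P.cons (P.lf 0 697158 0) P.nil))) (P.cons (P.cons (P.lf 0 981459 0) (P.cons (P.lf 0 113670 0) P.nil)) (P.cons (P.cons (P.lf 0 482529 0) P.nil) P.nil)))))) 899184)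
 (EL.cons 11 (TM.mk (P.cons (P.cons (P.lf 0 84412521 0) (P.cons (P.lf 0 65601693 0) (P.cons (P.lf 25836852 0 0) (P.cons (P.lf 5044356 0 0) (P.cons (P.lf 0 1518447 0) (P.cons (P.lf 0 30456 0) P.nil)))))) (P.cons (P.cons (P.lf 88252302 0 0) (P.cons (P.lf 70328529 0 0) (P.cons (P.lf 0 24637128 0) (P.cons (P.lf 0 4823862 0) (P.cons (P.lf 1403229 0 0) P.nil))))) (P.cons (P.cons (P.lf 991011 0 0) (P.cons (P.lf 0 750285 0) (P.cons (P.lf 0 2375412 0) (P.cons (P.lf 0 451785 0) P.nil)))) (P.cons (P.cons (P.lf 0 5086611 0) (P.cons (P.lf 0 4264401 0) (P.cons (P.lf 1132647 0 0) P.nil))) (P.cons (P.cons (P.lf 123891 0 0) (P.cons (P.lf 175431 0 0) P.nil)) (P.cons (P.cons (P.lf 137298 0 0) P.nil) P.nil)))))) 1338786)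
 EL.nil)))
noncomputable def S227_256_216_364_25 : EL := (EL.cons 4 (TM.mk (P.cons (P.cons (P.lf 18431106 0 0) (P.cons (P.lf 1600998 0 0) (P.cons (P.lf 690369 0 0) (P.lf 0 76707 0)))) (P.cons (P.cons (P.lf 0 21512880 0) (P.cons (P.lf 0 4687584 0) (P.cons (P.lf 0 2021340 0) (P.lf 224592 0 0)))) (P.cons (P.cons (P.lf 0 14448198 0) (P.cons (P.lf 4403361 0 0) (P.cons (P.lf 1898778 0 0) (P.lf 0 210975 0)))) (P.cons (P.cons (P.lf 19048191 0 0) (P.cons (P.lf 0 1098768 0) (P.cons (P.lf 0 473802 0) P.nil))) (P.cons (P.cons (P.lf 0 803514 0) (P.cons (P.lf 0 262098 0) P.nil)) (P.cons (P.cons (P.lf 0 753132 0) P.nil) P.nil)))))) 433557)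
 (EL.cons 8 (TM.mk (P.cons (P.cons (P.lf 0 1397535 0) (P.cons (P.lf 0 121395 0) (P.cons (P.lf 0 52347 0) (P.lf 5814 0 0)))) (P.cons (P.cons (P.lf 3040002 0 0) (P.cons (P.lf 477807 0 0) (P.cons (P.lf 206034 0 0) (P.lf 0 22890 0)))) (P.cons (P.cons (P.lf 0 565785 0) (P.cons (P.lf 0 693654 0) (P.cons (P.lf 0 299112 0) (P.lf 33234 0 0)))) (P.cons (P.cons (P.lf 0 2523063 0) (P.cons (P.lf 424707 0 0) (P.cons (P.lf 183138 0 0) P.nil))) (P.cons (P.cons (P.lf 1523292 0 0) (P.cons (P.lf 0 69651 0) P.nil)) (P.cons (P.cons (P.lf 0 26244 0) P.nil) P.nil)))))) 192336)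
 (EL.cons 11 (TM.mk (P.cons (P.cons (P.lf 15940344 0 0) (P.cons (P.lf 14849904 0 0) (P.cons (P.lf 0 1524081 0) (P.cons (P.lf 0 316965 0) (P.lf 26412 0 0))))) (P.cons (P.cons (P.lf 0 31114614 0) (P.cons (P.lf 0 28986141 0) (P.cons (P.lf 2974920 0 0) (P.cons (P.lf 618699 0 0) (P.lf 0 51558 0))))) (P.cons (P.cons (P.lf 14044566 0 0) (P.cons (P.lf 13083813 0 0) (P.cons (P.lf 0 1342824 0) (P.cons (P.lf 0 279270 0) P.nil)))) (P.cons (P.cons (P.lf 1474278 0 0) (P.cons (P.lf 1373427 0 0) (P.cons (P.lf 0 140958 0) P.nil))) (P.cons (P.cons (P.lf 0 321207 0) (P.cons (P.lf 0 299235 0) P.nil)) (P.cons (P.cons (P.lf 0 27426 0) P.nil) P.nil)))))) 145101)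
 EL.nil)))
noncomputable def S227_256_216_364_26 : EL := (EL.cons 4 (TM.mk (P.cons (P.cons (P.lf 11012361 0 0) (P.cons (P.lf 0 744132 0) (P.cons (P.lf 0 468609 0) (P.cons (P.lf 0 91752 0) (P.cons (P.lf 0 13311 0) (P.cons (P.lf 6102 0 0) P.nil)))))) (P.cons (P.cons (P.lf 0 13795887 0) (P.cons (P.lf 0 979383 0) (P.cons (P.lf 3111 0 0) (P.cons (P.lf 413826 0 0) (P.cons (P.lf 38337 0 0) P.nil))))) (P.cons (P.cons (P.lf 0 7913886 0) (P.cons (P.lf 4305165 0 0) (P.cons (P.lf 1474317 0 0) (P.cons (P.lf 0 535815 0) P.nil)))) (P.cons (P.cons (P.lf 12603966 0 0) (P.cons (P.lf 0 2518290 0) (P.cons (P.lf 0 1013820 0) P.nil))) (P.cons (P.cons (P.lf 0 1195920 0) (P.cons (P.lf 0 244728 0) P.nil)) (P.cons (P.cons (P.lf 0 840471 0) P.nil) P.nil)))))) 1466535)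
 (EL.cons 8 (TM.mk (P.cons (P.cons (P.lf 0 835011 0) (P.cons (P.lf 56421 0 0) (P.cons (P.lf 35532 0 0) (P.cons (P.lf 6957 0 0) (P.cons (P.lf 1008 0 0) (P.cons (P.lf 0 462 0) P.nil)))))) (P.cons (P.cons (P.lf 1887807 0 0) (P.cons (P.lf 17382 0 0) (P.cons (P.lf 0 36054 0) (P.cons (P.lf 0 38391 0) (P.cons (P.lf 0 3924 0) P.nil))))) (P.cons (P.cons (P.lf 0 464565 0) (P.cons (P.lf 0 400611 0) (P.cons (P.lf 0 111120 0) (P.cons (P.lf 72342 0 0) P.nil)))) (P.cons (P.cons (P.lf 0 1544421 0) (P.cons (P.lf 520683 0 0) (P.cons (P.lf 189411 0 0) P.nil))) (P.cons (P.cons (P.lf 1056939 0 0) (P.cons (P.lf 0 178197 0) P.nil)) (P.cons (P.cons (P.lf 0 41682 0) P.nil) P.nil)))))) 433188)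
 (EL.cons 11 (TM.mk (P.cons (P.cons (P.lf 9524160 0 0) (P.cons (P.lf 7401759 0 0) (P.cons (P.lf 0 2915139 0) (P.cons (P.lf 0 569148 0) (P.cons (P.lf 171324 0 0) (P.cons (P.lf 3435 0 0) P.nil)))))) (P.cons (P.cons (P.lf 0 19405479 0) (P.cons (P.lf 0 15277713 0) (P.cons (P.lf 5671629 0 0) (P.cons (P.lf 1108872 0 0) (P.cons (P.lf 0 328278 0) P.nil))))) (P.cons (P.cons (P.lf 9652524 0 0) (P.cons (P.lf 7868127 0 0) (P.cons (P.lf 0 2454810 0) (P.cons (P.lf 0 482163 0) P.nil)))) (P.cons (P.cons (P.lf 840345 0 0) (P.cons (P.lf 520368 0 0) (P.cons (P.lf 0 438072 0) P.nil))) (P.cons (P.cons (P.lf 0 619734 0) (P.cons (P.lf 0 528210 0) P.nil)) (P.cons (P.cons (P.lf 0 9819 0) P.nil) P.nil)))))) 770202)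
 EL.nil)))
noncomputable def S227_256_216_364_27 : EL := (EL.cons 13 (TM.mk (P.lf 0 4294967296 0) 0)
 EL.nil)
noncomputable def S227_256_216_364_28 : EL := (EL.cons 13 (TM.mk (P.cons (P.cons (P.lf 0 2566190680 0) (P.cons (P.lf 396313696 0 0) (P.cons (P.lf 170894936 0 0) (P.lf 0 18988324 0)))) (P.cons (P.cons (P.lf 219560131 0 0) (P.cons (P.lf 19071872 0 0) (P.cons (P.lf 8224004 0 0) (P.lf 0 913776 0)))) (P.cons (P.cons (P.lf 88786304 0 0) (P.cons (P.lf 0 9077648 0) (P.cons (P.lf 0 3914384 0) (P.lf 434928 0 0)))) (P.cons (P.cons (P.lf 0 9225400 0) (P.cons (P.lf 0 450540 0) (P.cons (P.lf 0 194276 0) P.nil))) (P.cons (P.cons (P.lf 0 1269976 0) (P.cons (P.lf 103064 0 0) P.nil)) (P.cons (P.cons (P.lf 92191 0 0) P.nil) P.nil)))))) 100427)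
 EL.nil)
noncomputable def S227_256_216_364_29 : EL := (EL.cons 13 (TM.mk (P.cons (P.cons (P.lf 0 1533267695 0) (P.cons (P.lf 473585218 0 0) (P.cons (P.lf 167645848 0 0) (P.cons (P.lf 0 54228894 0) (P.cons (P.lf 0 3295581 0) (P.cons (P.lf 1511074 0 0) P.nil)))))) (P.cons (P.cons (P.lf 262369011 0 0) (P.cons (P.lf 0 17728948 0) (P.cons (P.lf 0 11164600 0) (P.cons (P.lf 0 2186007 0) (P.cons (P.lf 0 317187 0) P.nil))))) (P.cons (P.cons (P.lf 94873486 0 0) (P.cons (P.lf 0 29182819 0) (P.cons (P.lf 0 10993387 0) (P.cons (P.lf 2769958 0 0) P.nil)))) (P.cons (P.cons (P.lf 0 20101698 0) (P.cons (P.lf 1303734 0 0) (P.cons (P.lf 725952 0 0) P.nil))) (P.cons (P.cons (P.lf 0 2409785 0) (P.cons (P.lf 860834 0 0) P.nil)) (P.cons (P.cons (P.lf 621427 0 0) P.nil) P.nil)))))) 2009127)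
 EL.nil)
noncomputable def S227_256_216_364_30 : EL := (EL.cons 13 (TM.mk (P.cons (P.lf 484595936 0 0) (P.cons (P.lf 0 480724804 0) (P.cons (P.lf 0 5775768 0) (P.cons (P.lf 1873960 0 0) (P.cons (P.lf 38036 0 0) (P.cons (P.lf 0 7180 0) P.nil)))))) 280)
 EL.nil)
noncomputable def S227_256_216_364_31 : EL := (EL.cons 13 (TM.mk (P.cons (P.cons (P.lf 289540173 0 0) (P.cons (P.lf 0 44715592 0) (P.cons (P.lf 0 19281867 0) (P.lf 2142429 0 0)))) (P.cons (P.cons (P.lf 0 311999921 0) (P.cons (P.lf 42206531 0 0) (P.cons (P.lf 18199932 0 0) (P.lf 0 2022214 0)))) (P.cons (P.cons (P.lf 11106207 0 0) (P.cons (P.lf 3691839 0 0) (P.cons (P.lf 1591962 0 0) (P.lf 0 176884 0)))) (P.cons (P.cons (P.lf 12393444 0 0) (P.cons (P.lf 0 1112474 0) (P.cons (P.lf 0 479711 0) P.nil))) (P.cons (P.cons (P.lf 0 842959 0) (P.cons (P.lf 0 86094 0) P.nil)) (P.cons (P.cons (P.lf 0 209926 0) P.nil) P.nil))))))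 152791)
 EL.nil)
noncomputable def S227_256_216_364_32 : EL := (EL.cons 13 (TM.mk (P.cons (P.cons (P.lf 172996729 0 0) (P.cons (P.lf 0 53434044 0) (P.cons (P.lf 0 18915277 0) (P.cons (P.lf 6118580 0 0) (P.cons (P.lf 371836 0 0) (P.cons (P.lf 0 170492 0) P.nil)))))) (P.cons (P.cons (P.lf 0 201217543 0) (P.cons (P.lf 55007528 0 0) (P.cons (P.lf 20023863 0 0) (P.cons (P.lf 0 5823058 0) (P.cons (P.lf 0 333078 0) P.nil))))) (P.cons (P.cons (P.lf 16599937 0 0) (P.cons (P.lf 1945171 0 0) (P.cons (P.lf 216191 0 0) (P.cons (P.lf 0 630130 0) P.nil)))) (P.cons (P.cons (P.lf 13908814 0 0) (P.cons (P.lf 0 3643931 0) (P.cons (P.lf 0 1400530 0) P.nil))) (P.cons (P.cons (P.lf 0 1951352 0) (P.cons (P.lf 13093 0 0) P.nil)) (P.cons (P.cons (P.lf 0 413149 0) P.nil) P.nil)))))) 1320976)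
 EL.nil)
noncomputable def S227_256_216_364_33 : EL := (EL.cons 14 (TM.mk (P.lf 8589934592 0 0) 0)
 EL.nil)
noncomputable def S227_256_216_364_34 : EL := (EL.cons 14 (TM.mk (P.cons (P.cons (P.lf 5132381360 0 0) (P.cons (P.lf 0 792627392 0) (P.cons (P.lf 0 341789872 0) (P.lf 37976648 0 0)))) (P.cons (P.cons (P.lf 0 439120262 0) (P.cons (P.lf 0 38143744 0) (P.cons (P.lf 0 16448008 0) (P.lf 1827552 0 0)))) (P.cons (P.cons (P.lf 0 177572608 0) (P.cons (P.lf 18155296 0 0) (P.cons (P.lf 7828768 0 0) (P.lf 0 869856 0)))) (P.cons (P.cons (P.lf 18450800 0 0) (P.cons (P.lf 901080 0 0) (P.cons (P.lf 388552 0 0) P.nil))) (P.cons (P.cons (P.lf 2539952 0 0) (P.cons (P.lf 0 206128 0) P.nil)) (P.cons (P.cons (P.lf 0 184382 0) P.nil) P.nil)))))) 200854)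
 EL.nil)
noncomputable def S227_256_216_364_35 : EL := (EL.cons 14 (TM.mk (P.cons (P.cons (P.lf 3066535390 0 0) (P.cons (P.lf 0 947170436 0) (P.cons (P.lf 0 335291696 0) (P.cons (P.lf 108457788 0 0) (P.cons (P.lf 6591162 0 0) (P.cons (P.lf 0 3022148 0) P.nil)))))) (P.cons (P.cons (P.lf 0 524738022 0) (P.cons (P.lf 35457896 0 0) (P.cons (P.lf 22329200 0 0) (P.cons (P.lf 4372014 0 0) (P.cons (P.lf 634374 0 0) P.nil))))) (P.cons (P.cons (P.lf 0 189746972 0) (P.cons (P.lf 58365638 0 0) (P.cons (P.lf 21986774 0 0) (P.cons (P.lf 0 5539916 0) P.nil)))) (P.cons (P.cons (P.lf 40203396 0 0) (P.cons (P.lf 0 2607468 0) (P.cons (P.lf 0 1451904 0) P.nil))) (P.cons (P.cons (P.lf 4819570 0 0) (P.cons (P.lf 0 1721668 0) P.nil)) (P.cons (P.cons (P.lf 0 1242854 0) P.nil) P.nil)))))) 4018254)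
 EL.nil)
noncomputable def S227_256_216_364_36 : EL := (EL.cons 14 (TM.mk (P.cons (P.lf 0 969191872 0) (P.cons (P.lf 961449608 0 0) (P.cons (P.lf 11551536 0 0) (P.cons (P.lf 0 3747920 0) (P.cons (P.lf 0 76072 0) (P.cons (P.lf 14360 0 0) P.nil)))))) 560)
 EL.nil)
noncomputable def S227_256_216_364_37 : EL := (EL.cons 14 (TM.mk (P.cons (P.cons (P.lf 0 579080346 0) (P.cons (P.lf 89431184 0 0) (P.cons (P.lf 38563734 0 0) (P.lf 0 4284858 0)))) (P.cons (P.cons (P.lf 623999842 0 0) (P.cons (P.lf 0 84413062 0) (P.cons (P.lf 0 36399864 0) (P.lf 4044428 0 0)))) (P.cons (P.cons (P.lf 0 22212414 0) (P.cons (P.lf 0 7383678 0) (P.cons (P.lf 0 3183924 0) (P.lf 353768 0 0)))) (P.cons (P.cons (P.lf 0 24786888 0) (P.cons (P.lf 2224948 0 0) (P.cons (P.lf 959422 0 0) P.nil))) (P.cons (P.cons (P.lf 1685918 0 0) (P.cons (P.lf 172188 0 0) P.nil)) (P.cons (P.cons (P.lf 419852 0 0) P.nil)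 P.nil)))))) 305582)
 EL.nil)
noncomputable def S227_256_216_364_38 : EL := (EL.cons 14 (TM.mk (P.cons (P.cons (P.lf 0 345993458 0) (P.cons (P.lf 106868088 0 0) (P.cons (P.lf 37830554 0 0) (P.cons (P.lf 0 12237160 0) (P.cons (P.lf 0 743672 0) (P.cons (P.lf 340984 0 0) P.nil)))))) (P.cons (P.cons (P.lf 402435086 0 0) (P.cons (P.lf 0 110015056 0) (P.cons (P.lf 0 40047726 0) (P.cons (P.lf 11646116 0 0) (P.cons (P.lf 666156 0 0) P.nil))))) (P.cons (P.cons (P.lf 0 33199874 0) (P.cons (P.lf 0 3890342 0) (P.cons (P.lf 0 432382 0) (P.cons (P.lf 1260260 0 0) P.nil)))) (P.cons (P.cons (P.lf 0 27817628 0) (P.cons (P.lf 7287862 0 0) (P.cons (P.lf 2801060 0 0) P.nil))) (P.cons (P.cons (P.lf 3902704 0 0) (P.cons (P.lf 0 26186 0) P.nil)) (P.cons (P.cons (P.lf 826298 0 0) P.nil) P.nil)))))) 2641952)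
 EL.nil)
noncomputable def S227_256_216_364_39 : EL := (EL.cons 14 (TM.mk (P.cons (P.lf 109352740 0 0) (P.cons (P.lf 0 216958378 0) (P.cons (P.lf 105005926 0 0) (P.cons (P.lf 3431614 0 0) (P.cons (P.lf 0 806288 0) (P.cons (P.lf 0 30348 0) P.nil)))))) 5440)
 EL.nil)
noncomputable def S227_256_216_364_40 : EL := (EL.cons 14 (TM.mk (P.cons (P.cons (P.lf 65336930 0 0) (P.cons (P.lf 0 10090410 0) (P.cons (P.lf 0 4351098 0) (P.lf 483454 0 0)))) (P.cons (P.cons (P.lf 0 135220136 0) (P.cons (P.lf 19534028 0 0) (P.cons (P.lf 8423292 0 0) (P.lf 0 935920 0)))) (P.cons (P.cons (P.lf 71570186 0 0) (P.cons (P.lf 0 8494782 0) (P.cons (P.lf 0 3663046 0) (P.lf 407004 0 0)))) (P.cons (P.cons (P.lf 1402296 0 0) (P.cons (P.lf 0 1230010 0) (P.cons (P.lf 0 530394 0) P.nil))) (P.cons (P.cons (P.lf 0 3261554 0) (P.cons (P.lf 255714 0 0) P.nil)) (P.cons (P.cons (P.lf 111194 0 0) P.nil) P.nil))))))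 347794)
 EL.nil)
noncomputable def S227_256_216_364_41 : EL := (EL.cons 14 (TM.mk (P.cons (P.cons (P.lf 39038020 0 0) (P.cons (P.lf 0 12057796 0) (P.cons (P.lf 0 4268374 0) (P.cons (P.lf 1380702 0 0) (P.cons (P.lf 83906 0 0) (P.cons (P.lf 0 38472 0) P.nil)))))) (P.cons (P.cons (P.lf 0 84132430 0) (P.cons (P.lf 24374338 0 0) (P.cons (P.lf 8752814 0 0) (P.cons (P.lf 0 2683690 0) (P.cons (P.lf 0 158398 0) P.nil))))) (P.cons (P.cons (P.lf 48324156 0 0) (P.cons (P.lf 0 11731050 0) (P.cons (P.lf 0 4382780 0) (P.cons (P.lf 1144870 0 0) P.nil)))) (P.cons (P.cons (P.lf 114798 0 0) (P.cons (P.lf 0 1452290 0) (P.cons (P.lf 0 434796 0) P.nil))) (P.cons (P.cons (P.lf 0 3771064 0) (P.cons (P.lf 860488 0 0) P.nil)) (P.cons (P.cons (P.lf 316524 0 0) P.nil) P.nil)))))) 1411610)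
 EL.nil)
noncomputable def S227_256_216_364_42 : EL := (EL.cons 14 (TM.mk (P.cons (P.lf 0 12338136 0) (P.cons (P.lf 36718724 0 0) (P.cons (P.lf 0 35984236 0) (P.cons (P.lf 11026388 0 0) (P.cons (P.lf 709966 0 0) (P.cons (P.lf 0 125918 0) P.nil)))))) 9172)
 EL.nil)
noncomputable def S227_256_216_364_43 : EL := (EL.cons 14 (TM.mk (P.cons (P.cons (P.lf 0 7371886 0) (P.cons (P.lf 1138488 0 0) (P.cons (P.lf 490928 0 0) (P.lf 0 54546 0)))) (P.cons (P.cons (P.lf 22569720 0 0) (P.cons (P.lf 0 3333394 0) (P.cons (P.lf 0 1437396 0) (P.lf 159710 0 0)))) (P.cons (P.cons (P.lf 0 23122160 0) (P.cons (P.lf 3131280 0 0) (P.cons (P.lf 1350242 0 0) (P.lf 0 150026 0)))) (P.cons (P.cons (P.lf 7642100 0 0) (P.cons (P.lf 0 781346 0) (P.cons (P.lf 0 336924 0) P.nil))) (P.cons (P.cons (P.lf 679616 0 0) (P.cons (P.lf 0 186380 0) P.nil)) (P.cons (P.cons (P.lf 0 405636 0) P.nil) P.nil))))))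 297008)
 EL.nil)
noncomputable def S227_256_216_364_44 : EL := (EL.cons 14 (TM.mk (P.cons (P.cons (P.lf 0 4404612 0) (P.cons (P.lf 1360466 0 0) (P.cons (P.lf 481594 0 0) (P.cons (P.lf 0 155782 0) (P.cons (P.lf 0 9466 0) (P.cons (P.lf 4340 0 0) P.nil)))))) (P.cons (P.cons (P.lf 13861986 0 0) (P.cons (P.lf 0 4099724 0) (P.cons (P.lf 0 1465316 0) (P.cons (P.lf 457336 0 0) (P.cons (P.lf 27262 0 0) P.nil))))) (P.cons (P.cons (P.lf 0 14816586 0) (P.cons (P.lf 4035542 0 0) (P.cons (P.lf 1468444 0 0) (P.cons (P.lf 0 427696 0) P.nil)))) (P.cons (P.cons (P.lf 5265674 0 0) (P.cons (P.lf 0 1111126 0) (P.cons (P.lf 0 427862 0) P.nil))) (P.cons (P.cons (P.lf 539680 0 0) (P.cons (P.lf 0 285942 0) P.nil)) (P.cons (P.cons (P.lf 0 477918 0) P.nil) P.nil)))))) 802888)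
 EL.nil)
noncomputable def S227_256_216_364_45 : EL := (EL.cons 14 (TM.mk (P.cons (P.cons (P.lf 1832217568 0 0) (P.cons (P.lf 0 848884208 0) (P.cons (P.lf 0 234949676 0) (P.cons (P.lf 146985764 0 0) (P.cons (P.lf 3083922 0 0) (P.cons (P.lf 0 8211724 0) P.nil)))))) (P.cons (P.cons (P.lf 0 470286870 0) (P.cons (P.lf 104407984 0 0) (P.cons (P.lf 46423032 0 0) (P.cons (P.lf 0 4768400 0) (P.cons (P.lf 0 1134148 0) P.nil))))) (P.cons (P.cons (P.lf 0 149938674 0) (P.cons (P.lf 78960314 0 0) (P.cons (P.lf 22731110 0 0) (P.cons (P.lf 0 13126740 0) P.nil)))) (P.cons (P.cons (P.lf 51155224 0 0) (P.cons (P.lf 0 10963608 0) (P.cons (P.lf 0 4792116 0) P.nil))) (P.cons (P.cons (P.lf 4526532 0 0) (P.cons (P.lf 0 3458746 0) P.nil)) (P.cons (P.cons (P.lf 0 2448610 0) P.nil) P.nil)))))) 13603272)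
 EL.nil)
noncomputable def S227_256_216_364_46 : EL := (EL.cons 15 (TM.mk (P.lf 4294967296 0 0) 0)
 EL.nil)
noncomputable def S227_256_216_364_47 : EL := (EL.cons 15 (TM.mk (P.cons (P.cons (P.lf 2566190680 0 0) (P.cons (P.lf 0 396313696 0) (P.cons (P.lf 0 170894936 0) (P.lf 18988324 0 0)))) (P.cons (P.cons (P.lf 0 219560131 0) (P.cons (P.lf 0 19071872 0) (P.cons (P.lf 0 8224004 0) (P.lf 913776 0 0)))) (P.cons (P.cons (P.lf 0 88786304 0) (P.cons (P.lf 9077648 0 0) (P.cons (P.lf 3914384 0 0) (P.lf 0 434928 0)))) (P.cons (P.cons (P.lf 9225400 0 0) (P.cons (P.lf 450540 0 0) (P.cons (P.lf 194276 0 0) P.nil))) (P.cons (P.cons (P.lf 1269976 0 0) (P.cons (P.lf 0 103064 0) P.nil)) (P.cons (P.cons (P.lf 0 92191 0) P.nil) P.nil)))))) 100427)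
 EL.nil)
noncomputable def S227_256_216_364_48 : EL := (EL.cons 15 (TM.mk (P.cons (P.cons (P.lf 1533267695 0 0) (P.cons (P.lf 0 473585218 0) (P.cons (P.lf 0 167645848 0) (P.cons (P.lf 54228894 0 0) (P.cons (P.lf 3295581 0 0) (P.cons (P.lf 0 1511074 0) P.nil)))))) (P.cons (P.cons (P.lf 0 262369011 0) (P.cons (P.lf 17728948 0 0) (P.cons (P.lf 11164600 0 0) (P.cons (P.lf 2186007 0 0) (P.cons (P.lf 317187 0 0) P.nil))))) (P.cons (P.cons (P.lf 0 94873486 0) (P.cons (P.lf 29182819 0 0) (P.cons (P.lf 10993387 0 0) (P.cons (P.lf 0 2769958 0) P.nil)))) (P.cons (P.cons (P.lf 20101698 0 0) (P.cons (P.lf 0 1303734 0) (P.cons (P.lf 0 725952 0) P.nil))) (P.cons (P.cons (P.lf 2409785 0 0) (P.cons (P.lf 0 860834 0) P.nil)) (P.cons (P.cons (P.lf 0 621427 0) P.nil) P.nil)))))) 2009127)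
 EL.nil)
noncomputable def S227_256_216_364 : SL := (SL.cons S227_256_216_364_0 (SL.cons S227_256_216_364_1 (SL.cons S227_256_216_364_2 (SL.cons S227_256_216_364_3 (SL.cons S227_256_216_364_4 (SL.cons S227_256_216_364_5 (SL.cons S227_256_216_364_6 (SL.cons S227_256_216_364_7 (SL.cons S227_256_216_364_8 (SL.cons S227_256_216_364_9 (SL.cons S227_256_216_364_10 (SL.cons S227_256_216_364_11 (SL.cons S227_256_216_364_12 (SL.cons S227_256_216_364_13 (SL.cons S227_256_216_364_14 (SL.cons S227_256_216_364_15 (SL.cons S227_256_216_364_16 (SL.cons S227_256_216_364_17 (SL.cons S227_256_216_364_18 (SL.cons S227_256_216_364_19 (SL.cons S227_256_216_364_20 (SL.cons S227_256_216_364_21 (SL.cons S227_256_216_364_22 (SL.cons S227_256_216_364_23 (SL.cons S227_256_216_364_24 (SL.cons S227_256_216_364_25 (SL.cons S227_256_216_364_26 (SL.cons S227_256_216_364_27 (SL.cons S227_256_216_364_28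 (SL.cons S227_256_216_364_29 (SL.cons S227_256_216_364_30 (SL.cons S227_256_216_364_31 (SL.cons S227_256_216_364_32 (SL.cons S227_256_216_364_33 (SL.cons S227_256_216_364_34 (SL.cons S227_256_216_364_35 (SL.cons S227_256_216_364_36 (SL.cons S227_256_216_364_37 (SL.cons S227_256_216_364_38 (SL.cons S227_256_216_364_39 (SL.cons S227_256_216_364_40 (SL.cons S227_256_216_364_41 (SL.cons S227_256_216_364_42 (SL.cons S227_256_216_364_43 (SL.cons S227_256_216_364_44 (SL.cons S227_256_216_364_45 (SL.cons S227_256_216_364_46 (SL.cons S227_256_216_364_47 (SL.cons S227_256_216_364_48 SL.nil)))))))))))))))))))))))))))))))))))))))))))))))))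
noncomputable def S227_256_290_364_0 : EL := (EL.cons 0 (TM.mk (P.cons (P.lf 8359606057 0 0) (P.cons (P.lf 190686074 0 0) (P.cons (P.lf 0 92290364 0) (P.cons (P.lf 0 3016066 0) (P.cons (P.lf 708651 0 0) (P.cons (P.lf 26673 0 0) P.nil)))))) 4788)
 (EL.cons 1 (TM.mk (P.cons (P.lf 0 450679505 0) (P.cons (P.lf 439849933 0 0) (P.cons (P.lf 16100088 0 0) (P.cons (P.lf 0 5127871 0) (P.cons (P.lf 0 176304 0) (P.cons (P.lf 32482 0 0) P.nil)))))) 1651)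
 (EL.cons 5 (TM.mk (P.cons (P.lf 4329140030 0 0) (P.cons (P.lf 0 67799490 0) (P.cons (P.lf 32814348 0 0) (P.cons (P.lf 1072376 0 0) (P.cons (P.lf 0 251962 0) (P.cons (P.lf 0 9484 0) P.nil)))))) 1837)
 (EL.cons 9 (TM.mk (P.lf 6442450944 0 0) 2)
 EL.nil))))
noncomputable def S227_256_290_364_1 : EL := (EL.cons 0 (TM.mk (P.cons (P.cons (P.lf 4852840893 0 0) (P.cons (P.lf 0 519579173 0) (P.cons (P.lf 0 66906785 0) (P.lf 4460455 0 0)))) (P.cons (P.cons (P.lf 0 430999105 0) (P.cons (P.lf 0 74104598 0) (P.cons (P.lf 0 9542524 0) (P.lf 636163 0 0)))) (P.cons (P.cons (P.lf 0 498655670 0) (P.cons (P.lf 33302531 0 0) (P.cons (P.lf 4288392 0 0) (P.lf 0 285887 0)))) (P.cons (P.cons (P.lf 47418698 0 0) (P.cons (P.lf 3635572 0 0) (P.cons (P.lf 468149 0 0) P.nil))) (P.cons (P.cons (P.lf 15215624 0 0) (P.cons (P.lf 0 768724 0) P.nil)) (P.cons (P.cons (P.lf 0 981485 0) P.nil) P.nil))))))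 574815)
 (EL.cons 1 (TM.mk (P.cons (P.cons (P.lf 499195011 0 0) (P.cons (P.lf 71826265 0 0) (P.cons (P.lf 9249143 0 0) (P.lf 0 616603 0)))) (P.cons (P.cons (P.lf 841412585 0 0) (P.cons (P.lf 0 65225090 0) (P.cons (P.lf 0 8399101 0) (P.lf 559938 0 0)))) (P.cons (P.cons (P.lf 0 88062526 0) (P.cons (P.lf 0 9633088 0) (P.cons (P.lf 0 1240454 0) (P.lf 82691 0 0)))) (P.cons (P.cons (P.lf 0 49419567 0) (P.cons (P.lf 2770371 0 0) (P.cons (P.lf 356737 0 0) P.nil))) (P.cons (P.cons (P.lf 3751010 0 0) (P.cons (P.lf 318155 0 0) P.nil)) (P.cons (P.cons (P.lf 1159069 0 0) P.nil) P.nil)))))) 303989)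
 (EL.cons 5 (TM.mk (P.cons (P.cons (P.lf 2231607652 0 0) (P.cons (P.lf 0 285283020 0) (P.cons (P.lf 0 36736212 0) (P.lf 2449078 0 0)))) (P.cons (P.cons (P.lf 0 239520214 0) (P.cons (P.lf 3729336 0 0) (P.cons (P.lf 480228 0 0) (P.lf 0 32012 0)))) (P.cons (P.cons (P.lf 35650254 0 0) (P.cons (P.lf 0 1074934 0) (P.cons (P.lf 0 138414 0) (P.lf 9222 0 0)))) (P.cons (P.cons (P.lf 0 715856 0) (P.cons (P.lf 0 758308 0) (P.cons (P.lf 0 97642 0) P.nil))) (P.cons (P.cons (P.lf 0 3356462 0) (P.cons (P.lf 151086 0 0) P.nil)) (P.cons (P.cons (P.lf 186519 0 0) P.nil) P.nil)))))) 278359)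
 (EL.cons 9 (TM.mk (P.cons (P.cons (P.lf 3491525454 0 0) (P.cons (P.lf 0 414725538 0) (P.cons (P.lf 0 53404662 0) (P.lf 3560310 0 0)))) (P.cons (P.cons (P.lf 0 346556770 0) (P.cons (P.lf 0 19957908 0) (P.cons (P.lf 0 2569998 0) (P.lf 171330 0 0)))) (P.cons (P.cons (P.lf 0 124984872 0) (P.cons (P.lf 9499374 0 0) (P.cons (P.lf 1223238 0 0) (P.lf 0 81546 0)))) (P.cons (P.cons (P.lf 14244816 0 0) (P.cons (P.lf 471474 0 0) (P.cons (P.lf 60708 0 0) P.nil))) (P.cons (P.cons (P.lf 1811922 0 0) (P.cons (P.lf 0 107850 0) P.nil)) (P.cons (P.cons (P.lf 0 143332 0) P.nil) P.nil)))))) 49673)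
 (EL.cons 2 (TM.mk (P.cons (P.cons (P.lf 190662015 0 0) (P.cons (P.lf 54429696 0 0) (P.cons (P.lf 0 4071251 0) (P.cons (P.lf 0 274342 0) (P.lf 13716 0 0))))) (P.cons (P.cons (P.lf 0 183022095 0) (P.cons (P.lf 0 52248670 0) (P.cons (P.lf 3908115 0 0) (P.cons (P.lf 263348 0 0) (P.lf 0 13165 0))))) (P.cons (P.cons (P.lf 0 11300920 0) (P.cons (P.lf 0 3226156 0) (P.cons (P.lf 241309 0 0) (P.cons (P.lf 16259 0 0) P.nil)))) (P.cons (P.cons (P.lf 3504493 0 0) (P.cons (P.lf 1000451 0 0) (P.cons (P.lf 0 74832 0) P.nil))) (P.cons (P.cons (P.lf 192611 0 0) (P.cons (P.lf 54984 0 0) P.nil)) (P.cons (P.cons (P.lf 0 34332 0) P.nil) P.nil)))))) 26413)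
 (EL.cons 6 (TM.mk (P.cons (P.cons (P.lf 894045804 0 0) (P.cons (P.lf 255229872 0 0) (P.cons (P.lf 0 19090782 0) (P.cons (P.lf 0 1286439 0) (P.lf 64320 0 0))))) (P.cons (P.cons (P.lf 43024323 0 0) (P.cons (P.lf 12282471 0 0) (P.cons (P.lf 0 918708 0) (P.cons (P.lf 0 61905 0) (P.lf 3093 0 0))))) (P.cons (P.cons (P.lf 0 20478309 0) (P.cons (P.lf 0 5846094 0) (P.cons (P.lf 437277 0 0) (P.cons (P.lf 29466 0 0) P.nil)))) (P.cons (P.cons (P.lf 0 1016382 0) (P.cons (P.lf 0 290151 0) (P.cons (P.lf 21702 0 0) P.nil))) (P.cons (P.cons (P.lf 232506 0 0) (P.cons (P.lf 66375 0 0) P.nil)) (P.cons (P.cons (P.lf 12612 0 0) P.nil) P.nil)))))) 16062)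
 EL.nil))))))
noncomputable def S227_256_290_364_2 : EL := (EL.cons 0 (TM.mk (P.cons (P.cons (P.lf 2804699913 0 0) (P.cons (P.lf 0 604673778 0) (P.cons (P.lf 0 45612018 0) (P.cons (P.lf 13497349 0 0) (P.cons (P.lf 0 18956 0) (P.cons (P.lf 0 71315 0) P.nil)))))) (P.cons (P.cons (P.lf 0 557847729 0) (P.cons (P.lf 0 15521264 0) (P.cons (P.lf 6636909 0 0) (P.cons (P.lf 2357263 0 0) (P.cons (P.lf 0 5065 0) P.nil))))) (P.cons (P.cons (P.lf 0 492599533 0) (P.cons (P.lf 101264935 0 0) (P.cons (P.lf 9492388 0 0) (P.cons (P.lf 0 1782976 0) P.nil)))) (P.cons (P.cons (P.lf 104708712 0 0) (P.cons (P.lf 0 1328648 0) (P.cons (P.lf 0 901269 0) P.nil))) (P.cons (P.cons (P.lf 24943895 0 0) (P.cons (P.lf 0 5456877 0) P.nil)) (P.cons (P.cons (P.lf 0 5724415 0) P.nil) P.nil)))))) 4240582)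
 (EL.cons 1 (TM.mk (P.cons (P.cons (P.lf 673455505 0 0) (P.cons (P.lf 0 17863313 0) (P.cons (P.lf 0 9680139 0) (P.cons (P.lf 0 1747264 0) (P.cons (P.lf 4332 0 0) (P.cons (P.lf 16314 0 0) P.nil)))))) (P.cons (P.cons (P.lf 702842539 0 0) (P.cons (P.lf 0 157549823 0) (P.cons (P.lf 0 13978268 0) (P.cons (P.lf 2977501 0 0) (P.cons (P.lf 0 3703 0) P.nil))))) (P.cons (P.cons (P.lf 0 192600263 0) (P.cons (P.lf 2935981 0 0) (P.cons (P.lf 1910866 0 0) (P.cons (P.lf 369542 0 0) P.nil)))) (P.cons (P.cons (P.lf 0 62089774 0) (P.cons (P.lf 13876949 0 0) (P.cons (P.lf 1393849 0 0) P.nil))) (P.cons (P.cons (P.lf 15073474 0 0) (P.cons (P.lf 0 175552 0) P.nil)) (P.cons (P.cons (P.lf 2388748 0 0) P.nil) P.nil)))))) 2317477)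
 (EL.cons 5 (TM.mk (P.cons (P.cons (P.lf 1147327282 0 0) (P.cons (P.lf 0 294467756 0) (P.cons (P.lf 0 19129333 0) (P.cons (P.lf 7367034 0 0) (P.cons (P.lf 0 11032 0) (P.cons (P.lf 0 41537 0) P.nil)))))) (P.cons (P.cons (P.lf 0 227376192 0) (P.cons (P.lf 31569225 0 0) (P.cons (P.lf 3906918 0 0) (P.cons (P.lf 0 311774 0) (P.cons (P.lf 85 0 0) P.nil))))) (P.cons (P.cons (P.lf 42738691 0 0) (P.cons (P.lf 0 3665415 0) (P.cons (P.lf 0 526649 0) (P.cons (P.lf 17379 0 0) P.nil)))) (P.cons (P.cons (P.lf 0 4491529 0) (P.cons (P.lf 0 1307571 0) (P.cons (P.lf 0 44258 0) P.nil))) (P.cons (P.cons (P.lf 0 5631922 0) (P.cons (P.lf 968095 0 0) P.nil)) (P.cons (P.cons (P.lf 1011934 0 0) P.nil) P.nil)))))) 2027254)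
 (EL.cons 9 (TM.mk (P.cons (P.cons (P.lf 1892253444 0 0) (P.cons (P.lf 0 449526052 0) (P.cons (P.lf 0 31188471 0) (P.cons (P.lf 10734792 0 0) (P.cons (P.lf 0 15684 0) (P.cons (P.lf 0 59025 0) P.nil)))))) (P.cons (P.cons (P.lf 0 375637096 0) (P.cons (P.lf 22985785 0 0) (P.cons (P.lf 5529444 0 0) (P.cons (P.lf 464431 0 0) (P.cons (P.lf 0 1509 0) P.nil))))) (P.cons (P.cons (P.lf 0 116830401 0) (P.cons (P.lf 28535187 0 0) (P.cons (P.lf 2513302 0 0) (P.cons (P.lf 0 544018 0) P.nil)))) (P.cons (P.cons (P.lf 28886673 0 0) (P.cons (P.lf 0 1570569 0) (P.cons (P.lf 0 321804 0) P.nil))) (P.cons (P.cons (P.lf 2856162 0 0) (P.cons (P.lf 0 857740 0) P.nil)) (P.cons (P.cons (P.lf 0 903000 0) P.nil) P.nil)))))) 591734)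
 (EL.cons 2 (TM.mk (P.cons (P.cons (P.lf 206660874 0 0) (P.cons (P.lf 34449699 0 0) (P.cons (P.lf 0 14581563 0) (P.cons (P.lf 0 464855 0) (P.cons (P.lf 177840 0 0) (P.cons (P.lf 0 1715 0) P.nil)))))) (P.cons (P.cons (P.lf 0 218892318 0) (P.cons (P.lf 0 40106418 0) (P.cons (P.lf 13945933 0 0) (P.cons (P.lf 467679 0 0) (P.cons (P.lf 0 164351 0) P.nil))))) (P.cons (P.cons (P.lf 43526 0 0) (P.cons (P.lf 3163612 0 0) (P.cons (P.lf 1304443 0 0) (P.cons (P.lf 21436 0 0) P.nil)))) (P.cons (P.cons (P.lf 12958846 0 0) (P.cons (P.lf 2806453 0 0) (P.cons (P.lf 0 646633 0) P.nil))) (P.cons (P.cons (P.lf 0 431881 0) (P.cons (P.lf 0 236300 0) P.nil)) (P.cons (P.cons (P.lf 0 355320 0) P.nil) P.nil)))))) 429659)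
 (EL.cons 6 (TM.mk (P.cons (P.cons (P.lf 969067110 0 0) (P.cons (P.lf 161540370 0 0) (P.cons (P.lf 0 68375376 0) (P.cons (P.lf 0 2179782 0) (P.cons (P.lf 833940 0 0) (P.cons (P.lf 0 8052 0) P.nil)))))) (P.cons (P.cons (P.lf 0 49551666 0) (P.cons (P.lf 0 25224450 0) (P.cons (P.lf 0 3531186 0) (P.cons (P.lf 0 4290 0) (P.cons (P.lf 69984 0 0) P.nil))))) (P.cons (P.cons (P.lf 0 61514814 0) (P.cons (P.lf 0 12554586 0) (P.cons (P.lf 3387468 0 0) (P.cons (P.lf 122670 0 0) P.nil)))) (P.cons (P.cons (P.lf 3385752 0 0) (P.cons (P.lf 1482024 0 0) (P.cons (P.lf 141228 0 0) P.nil))) (P.cons (P.cons (P.lf 1849086 0 0) (P.cons (P.lf 420204 0 0) P.nil)) (P.cons (P.cons (P.lf 0 78042 0) P.nil) P.nil)))))) 329238)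
 EL.nil))))))
noncomputable def S227_256_290_364_3 : EL := (EL.cons 0 (TM.mk (P.cons (P.lf 96110806 0 0) (P.cons (P.lf 0 190686074 0) (P.cons (P.lf 92290364 0 0) (P.cons (P.lf 3016066 0 0) (P.cons (P.lf 0 708651 0) (P.cons (P.lf 0 26673 0) P.nil)))))) 4788)
 (EL.cons 1 (TM.mk (P.cons (P.lf 450679505 0 0) (P.cons (P.lf 0 439849933 0) (P.cons (P.lf 0 16100088 0) (P.cons (P.lf 5127871 0 0) (P.cons (P.lf 176304 0 0) (P.cons (P.lf 0 32482 0) P.nil)))))) 1651)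
 (EL.cons 5 (TM.mk (P.cons (P.lf 2113310914 0 0) (P.cons (P.lf 67799490 0 0) (P.cons (P.lf 0 32814348 0) (P.cons (P.lf 0 1072376 0) (P.cons (P.lf 251962 0 0) (P.cons (P.lf 9484 0 0) P.nil)))))) 1830)
 EL.nil)))
noncomputable def S227_256_290_364_4 : EL := (EL.cons 0 (TM.mk (P.cons (P.cons (P.lf 52087835 0 0) (P.cons (P.lf 0 6187023 0) (P.cons (P.lf 0 796709 0) (P.lf 53112 0 0)))) (P.cons (P.cons (P.lf 0 108513536 0) (P.cons (P.lf 11977461 0 0) (P.cons (P.lf 1542350 0 0) (P.lf 0 102823 0)))) (P.cons (P.cons (P.lf 58410270 0 0) (P.cons (P.lf 0 5208651 0) (P.cons (P.lf 0 670723 0) (P.lf 44713 0 0)))) (P.cons (P.cons (P.lf 581886 0 0) (P.cons (P.lf 0 754191 0) (P.cons (P.lf 0 97117 0) P.nil))) (P.cons (P.cons (P.lf 0 2731343 0) (P.cons (P.lf 156791 0 0) P.nil)) (P.cons (P.cons (P.lf 113445 0 0) P.nil) P.nil)))))) 121856)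
 (EL.cons 1 (TM.mk (P.cons (P.cons (P.lf 244248496 0 0) (P.cons (P.lf 0 29011985 0) (P.cons (P.lf 0 3735903 0) (P.lf 249058 0 0)))) (P.cons (P.cons (P.lf 0 262622608 0) (P.cons (P.lf 26918694 0 0) (P.cons (P.lf 3466348 0 0) (P.lf 0 231090 0)))) (P.cons (P.cons (P.lf 6191893 0 0) (P.cons (P.lf 3063549 0 0) (P.cons (P.lf 394494 0 0) (P.lf 0 26298 0)))) (P.cons (P.cons (P.lf 13174816 0 0) (P.cons (P.lf 0 895798 0) (P.cons (P.lf 0 115351 0) P.nil))) (P.cons (P.cons (P.lf 0 713739 0) (P.cons (P.lf 0 90706 0) P.nil)) (P.cons (P.cons (P.lf 0 295901 0) P.nil) P.nil)))))) 80452)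
 (EL.cons 5 (TM.mk (P.cons (P.cons (P.lf 1145321696 0 0) (P.cons (P.lf 0 136042014 0) (P.cons (P.lf 0 17518278 0) (P.lf 1167884 0 0)))) (P.cons (P.cons (P.lf 0 76936332 0) (P.cons (P.lf 0 10911288 0) (P.cons (P.lf 0 1405056 0) (P.lf 93668 0 0)))) (P.cons (P.cons (P.lf 0 62429718 0) (P.cons (P.lf 5018422 0 0) (P.cons (P.lf 646224 0 0) (P.lf 0 43080 0)))) (P.cons (P.cons (P.lf 4541378 0 0) (P.cons (P.lf 425314 0 0) (P.cons (P.lf 54766 0 0) P.nil))) (P.cons (P.cons (P.lf 1575116 0 0) (P.cons (P.lf 0 91698 0) P.nil)) (P.cons (P.cons (P.lf 0 88112 0) P.nil) P.nil)))))) 59294)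
 EL.nil)))
noncomputable def S227_256_290_364_5 : EL := (EL.cons 0 (TM.mk (P.cons (P.cons (P.lf 28229319 0 0) (P.cons (P.lf 0 6706190 0) (P.cons (P.lf 0 465280 0) (P.cons (P.lf 160143 0 0) (P.cons (P.lf 0 233 0) (P.cons (P.lf 0 878 0) P.nil)))))) (P.cons (P.cons (P.lf 0 61611514 0) (P.cons (P.lf 13648150 0 0) (P.cons (P.lf 1005618 0 0) (P.cons (P.lf 0 310802 0) (P.cons (P.lf 441 0 0) P.nil))))) (P.cons (P.cons (P.lf 36482521 0 0) (P.cons (P.lf 0 6694261 0) (P.cons (P.lf 0 572953 0) (P.cons (P.lf 131916 0 0) P.nil)))) (P.cons (P.cons (P.lf 0 606332 0) (P.cons (P.lf 0 749193 0) (P.cons (P.lf 0 14579 0) P.nil))) (P.cons (P.cons (P.lf 0 2870024 0) (P.cons (P.lf 502672 0 0) P.nil)) (P.cons (P.cons (P.lf 294591 0 0) P.nil) P.nil)))))) 333479)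
 (EL.cons 1 (TM.mk (P.cons (P.cons (P.lf 132371956 0 0) (P.cons (P.lf 0 31446444 0) (P.cons (P.lf 0 2181778 0) (P.cons (P.lf 750946 0 0) (P.cons (P.lf 0 1095 0) (P.cons (P.lf 0 4126 0) P.nil)))))) (P.cons (P.cons (P.lf 0 155468701 0) (P.cons (P.lf 32298766 0 0) (P.cons (P.lf 2516161 0 0) (P.cons (P.lf 0 700413 0) (P.cons (P.lf 963 0 0) P.nil))))) (P.cons (P.cons (P.lf 12744438 0 0) (P.cons (P.lf 1550236 0 0) (P.cons (P.lf 0 123755 0) (P.cons (P.lf 0 96590 0) P.nil)))) (P.cons (P.cons (P.lf 12442080 0 0) (P.cons (P.lf 0 2473314 0) (P.cons (P.lf 0 232745 0) P.nil))) (P.cons (P.cons (P.lf 0 1727634 0) (P.cons (P.lf 0 18091 0) P.nil)) (P.cons (P.cons (P.lf 0 443169 0) P.nil) P.nil)))))) 370070)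
 (EL.cons 5 (TM.mk (P.cons (P.cons (P.lf 620714054 0 0) (P.cons (P.lf 0 147457592 0) (P.cons (P.lf 0 10230722 0) (P.cons (P.lf 3521322 0 0) (P.cons (P.lf 0 5144 0) (P.cons (P.lf 0 19360 0) P.nil)))))) (P.cons (P.cons (P.lf 0 103306048 0) (P.cons (P.lf 2809252 0 0) (P.cons (P.lf 1485594 0 0) (P.cons (P.lf 265318 0 0) (P.cons (P.lf 0 658 0) P.nil))))) (P.cons (P.cons (P.lf 0 51915028 0) (P.cons (P.lf 11891910 0 0) (P.cons (P.lf 1041484 0 0) (P.cons (P.lf 0 228242 0) P.nil)))) (P.cons (P.cons (P.lf 9844474 0 0) (P.cons (P.lf 0 257142 0) (P.cons (P.lf 0 102082 0) P.nil))) (P.cons (P.cons (P.lf 1972504 0 0) (P.cons (P.lf 0 464640 0) P.nil)) (P.cons (P.cons (P.lf 0 405742 0) P.nil) P.nil)))))) 307160)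
 EL.nil)))
noncomputable def S227_256_290_364_6 : EL := (EL.cons 12 (TM.mk (P.lf 8589934592 0 0) 0)
 (EL.cons 3 (TM.mk (P.cons (P.lf 0 454308690 0) (P.cons (P.lf 450679503 0 0) (P.cons (P.lf 5414782 0 0) (P.cons (P.lf 0 1756837 0) (P.cons (P.lf 0 35658 0) (P.cons (P.lf 6731 0 0) P.nil)))))) 269)
 (EL.cons 7 (TM.mk (P.cons (P.lf 0 2130328762 0) (P.cons (P.lf 0 34172730 0) (P.cons (P.lf 16813380 0 0) (P.cons (P.lf 270802 0 0) (P.cons (P.lf 0 64991 0) (P.cons (P.lf 0 1601 0) P.nil)))))) 330)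
 EL.nil)))
noncomputable def S227_256_290_364_7 : EL := (EL.cons 12 (TM.mk (P.cons (P.cons (P.lf 4655367272 0 0) (P.cons (P.lf 0 552967384 0) (P.cons (P.lf 0 71206216 0) (P.lf 4747080 0 0)))) (P.cons (P.cons (P.lf 0 462075694 0) (P.cons (P.lf 0 26610544 0) (P.cons (P.lf 0 3426664 0) (P.lf 228440 0 0)))) (P.cons (P.cons (P.lf 0 166646496 0) (P.cons (P.lf 12665832 0 0) (P.cons (P.lf 1630984 0 0) (P.lf 0 108728 0)))) (P.cons (P.cons (P.lf 18993088 0 0) (P.cons (P.lf 628632 0 0) (P.cons (P.lf 80944 0 0) P.nil))) (P.cons (P.cons (P.lf 2415896 0 0) (P.cons (P.lf 0 143800 0) P.nil)) (P.cons (P.cons (P.lf 0 191110 0) P.nil) P.nil)))))) 66206)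
 (EL.cons 3 (TM.mk (P.cons (P.cons (P.lf 0 1769711097 0) (P.cons (P.lf 0 58491220 0) (P.cons (P.lf 0 7531978 0) (P.lf 502130 0 0)))) (P.cons (P.cons (P.lf 0 842471680 0) (P.cons (P.lf 55209188 0 0) (P.cons (P.lf 7109346 0 0) (P.lf 0 473956 0)))) (P.cons (P.cons (P.lf 172654590 0 0) (P.cons (P.lf 4829190 0 0) (P.cons (P.lf 621858 0 0) (P.lf 0 41456 0)))) (P.cons (P.cons (P.lf 26808092 0 0) (P.cons (P.lf 0 1455194 0) (P.cons (P.lf 0 187384 0) P.nil))) (P.cons (P.cons (P.lf 0 2811539 0) (P.cons (P.lf 0 112618 0) P.nil)) (P.cons (P.cons (P.lf 0 419640 0) P.nil) P.nil)))))) 206912)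
 (EL.cons 7 (TM.mk (P.cons (P.cons (P.lf 0 1039025708 0) (P.cons (P.lf 143790163 0 0) (P.cons (P.lf 18516022 0 0) (P.lf 0 1234403 0)))) (P.cons (P.cons (P.lf 63880339 0 0) (P.cons (P.lf 0 4186231 0) (P.cons (P.lf 0 539064 0) (P.lf 35936 0 0)))) (P.cons (P.cons (P.lf 0 45288883 0) (P.cons (P.lf 1743794 0 0) (P.cons (P.lf 224548 0 0) (P.lf 0 14969 0)))) (P.cons (P.cons (P.lf 7023823 0 0) (P.cons (P.lf 339474 0 0) (P.cons (P.lf 43713 0 0) P.nil))) (P.cons (P.cons (P.lf 1604119 0 0) (P.cons (P.lf 0 72754 0) P.nil)) (P.cons (P.cons (P.lf 0 132091 0) P.nil) P.nil)))))) 150437)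
 (EL.cons 10 (TM.mk (P.cons (P.cons (P.lf 0 1802490564 0) (P.cons (P.lf 0 514570323 0) (P.cons (P.lf 38489031 0 0) (P.cons (P.lf 2593599 0 0) (P.lf 0 129678 0))))) (P.cons (P.cons (P.lf 0 57827712 0) (P.cons (P.lf 0 16508505 0) (P.cons (P.lf 1234809 0 0) (P.cons (P.lf 83208 0 0) (P.lf 0 4158 0))))) (P.cons (P.cons (P.lf 27988095 0 0) (P.cons (P.lf 7989969 0 0) (P.cons (P.lf 0 597636 0) (P.cons (P.lf 0 40272 0) P.nil)))) (P.cons (P.cons (P.lf 914652 0 0) (P.cons (P.lf 261111 0 0) (P.cons (P.lf 0 19530 0) P.nil))) (P.cons (P.cons (P.lf 0 214902 0) (P.cons (P.lf 0 61350 0) P.nil)) (P.cons (P.cons (P.lf 0 8088 0) P.nil) P.nil)))))) 12954)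
 EL.nil))))
noncomputable def S227_256_290_364_8 : EL := (EL.cons 12 (TM.mk (P.cons (P.cons (P.lf 2523004592 0 0) (P.cons (P.lf 0 599368070 0) (P.cons (P.lf 0 41584628 0) (P.cons (P.lf 14313056 0 0) (P.cons (P.lf 0 20912 0) (P.cons (P.lf 0 78700 0) P.nil)))))) (P.cons (P.cons (P.lf 0 500849462 0) (P.cons (P.lf 30647714 0 0) (P.cons (P.lf 7372592 0 0) (P.cons (P.lf 619242 0 0) (P.cons (P.lf 0 2012 0) P.nil))))) (P.cons (P.cons (P.lf 0 155773868 0) (P.cons (P.lf 38046916 0 0) (P.cons (P.lf 3351070 0 0) (P.cons (P.lf 0 725358 0) P.nil)))) (P.cons (P.cons (P.lf 38515564 0 0) (P.cons (P.lf 0 2094092 0) (P.cons (P.lf 0 429072 0) P.nil))) (P.cons (P.cons (P.lf 3808216 0 0) (P.cons (P.lf 0 1143654 0) P.nil)) (P.cons (P.cons (P.lf 0 1204000 0) P.nil) P.nil)))))) 788950)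
 (EL.cons 3 (TM.mk (P.cons (P.cons (P.lf 0 1784773466 0) (P.cons (P.lf 132747305 0 0) (P.cons (P.lf 26507279 0 0) (P.cons (P.lf 1284709 0 0) (P.cons (P.lf 0 5525 0) (P.cons (P.lf 0 20811 0) P.nil)))))) (P.cons (P.cons (P.lf 0 881631384 0) (P.cons (P.lf 218633089 0 0) (P.cons (P.lf 19721536 0 0) (P.cons (P.lf 0 4048521 0) (P.cons (P.lf 4950 0 0) P.nil))))) (P.cons (P.cons (P.lf 362894073 0 0) (P.cons (P.lf 0 19881708 0) (P.cons (P.lf 0 3980565 0) (P.cons (P.lf 0 195124 0) P.nil)))) (P.cons (P.cons (P.lf 46386372 0 0) (P.cons (P.lf 0 14011144 0) (P.cons (P.lf 0 1414614 0) P.nil))) (P.cons (P.cons (P.lf 0 19164807 0) (P.cons (P.lf 728520 0 0) P.nil)) (P.cons (P.cons (P.lf 0 1147839 0) P.nil) P.nil)))))) 2551122)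
 (EL.cons 7 (TM.mk (P.cons (P.cons (P.lf 0 500500120 0) (P.cons (P.lf 140983108 0 0) (P.cons (P.lf 8469968 0 0) (P.cons (P.lf 0 3704491 0) (P.cons (P.lf 5684 0 0) (P.cons (P.lf 21407 0 0) P.nil)))))) (P.cons (P.cons (P.lf 66849624 0 0) (P.cons (P.lf 0 16577832 0) (P.cons (P.lf 0 1495387 0) (P.cons (P.lf 306974 0 0) (P.cons (P.lf 0 372 0) P.nil))))) (P.cons (P.cons (P.lf 0 61210369 0) (P.cons (P.lf 9863183 0 0) (P.cons (P.lf 1055534 0 0) (P.cons (P.lf 0 139924 0) P.nil)))) (P.cons (P.cons (P.lf 15245352 0 0) (P.cons (P.lf 0 17826 0) (P.cons (P.lf 0 101629 0) P.nil))) (P.cons (P.cons (P.lf 3875782 0 0) (P.cons (P.lf 0 832065 0) P.nil)) (P.cons (P.cons (P.lf 0 1063631 0) P.nil) P.nil)))))) 1207395)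
 (EL.cons 10 (TM.mk (P.cons (P.cons (P.lf 0 1953741432 0) (P.cons (P.lf 0 325682418 0) (P.cons (P.lf 137851968 0 0) (P.cons (P.lf 4394682 0 0) (P.cons (P.lf 0 1681320 0) (P.cons (P.lf 16236 0 0) P.nil)))))) (P.cons (P.cons (P.lf 131241474 0 0) (P.cons (P.lf 56079444 0 0) (P.cons (P.lf 4907958 0 0) (P.cons (P.lf 0 61836 0) (P.cons (P.lf 0 114132 0) P.nil))))) (P.cons (P.cons (P.lf 106495422 0 0) (P.cons (P.lf 21841386 0 0) (P.cons (P.lf 0 5820252 0) (P.cons (P.lf 0 211644 0) P.nil)))) (P.cons (P.cons (P.lf 0 7746888 0) (P.cons (P.lf 0 2937084 0) (P.cons (P.lf 0 135120 0) P.nil))) (P.cons (P.cons (P.lf 0 2686902 0) (P.cons (P.lf 0 610626 0) P.nil)) (P.cons (P.cons (P.lf 150306 0 0) P.nil) P.nil)))))) 499176)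
 EL.nil))))
noncomputable def S227_256_290_364_9 : EL := (EL.cons 3 (TM.mk (P.cons (P.lf 0 454308690 0) (P.cons (P.lf 450679503 0 0) (P.cons (P.lf 5414782 0 0) (P.cons (P.lf 0 1756837 0) (P.cons (P.lf 0 35658 0) (P.cons (P.lf 6731 0 0) P.nil)))))) 269)
 (EL.cons 7 (TM.mk (P.cons (P.lf 0 2130328762 0) (P.cons (P.lf 0 34172730 0) (P.cons (P.lf 16813380 0 0) (P.cons (P.lf 270802 0 0) (P.cons (P.lf 0 64991 0) (P.cons (P.lf 0 1601 0) P.nil)))))) 330)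
 EL.nil))
noncomputable def S227_256_290_364_10 : EL := (EL.cons 3 (TM.mk (P.cons (P.cons (P.lf 0 246215355 0) (P.cons (P.lf 29245610 0 0) (P.cons (P.lf 3765989 0 0) (P.lf 0 251065 0)))) (P.cons (P.cons (P.lf 268686983 0 0) (P.cons (P.lf 0 27604594 0) (P.cons (P.lf 0 3554673 0) (P.lf 236978 0 0)))) (P.cons (P.cons (P.lf 0 12495006 0) (P.cons (P.lf 0 2414595 0) (P.cons (P.lf 0 310929 0) (P.lf 20728 0 0)))) (P.cons (P.cons (P.lf 0 10991194 0) (P.cons (P.lf 727597 0 0) (P.cons (P.lf 93692 0 0) P.nil))) (P.cons (P.cons (P.lf 838849 0 0) (P.cons (P.lf 56309 0 0) P.nil)) (P.cons (P.cons (P.lf 188481 0 0) P.nil) P.nil)))))) 49774)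
 (EL.cons 7 (TM.mk (P.cons (P.cons (P.lf 0 1154544623 0) (P.cons (P.lf 137137519 0 0) (P.cons (P.lf 17659348 0 0) (P.lf 0 1177289 0)))) (P.cons (P.cons (P.lf 96075997 0 0) (P.cons (P.lf 8799323 0 0) (P.cons (P.lf 1133097 0 0) (P.lf 0 75538 0)))) (P.cons (P.cons (P.lf 52279172 0 0) (P.cons (P.lf 0 4117642 0) (P.cons (P.lf 0 530231 0) (P.lf 35347 0 0)))) (P.cons (P.cons (P.lf 0 4805057 0) (P.cons (P.lf 0 275808 0) (P.cons (P.lf 0 35514 0) P.nil))) (P.cons (P.cons (P.lf 0 1050680 0) (P.cons (P.lf 61298 0 0) P.nil)) (P.cons (P.cons (P.lf 72335 0 0) P.nil) P.nil)))))) 33793)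
 EL.nil))
noncomputable def S227_256_290_364_11 : EL := (EL.cons 3 (TM.mk (P.cons (P.cons (P.lf 0 133437908 0) (P.cons (P.lf 31699673 0 0) (P.cons (P.lf 2199347 0 0) (P.cons (P.lf 0 756995 0) (P.cons (P.lf 1105 0 0) (P.cons (P.lf 4161 0 0) P.nil)))))) (P.cons (P.cons (P.lf 158861130 0 0) (P.cons (P.lf 0 33067355 0) (P.cons (P.lf 0 2571704 0) (P.cons (P.lf 718197 0 0) (P.cons (P.lf 0 990 0) P.nil))))) (P.cons (P.cons (P.lf 0 16448511 0) (P.cons (P.lf 0 782100 0) (P.cons (P.lf 183363 0 0) (P.cons (P.lf 79874 0 0) P.nil)))) (P.cons (P.cons (P.lf 0 11041590 0) (P.cons (P.lf 2248826 0 0) (P.cons (P.lf 211662 0 0) P.nil))) (P.cons (P.cons (P.lf 1813113 0 0) (P.cons (P.lf 0 29178 0) P.nil)) (P.cons (P.cons (P.lf 323673 0 0) P.nil) P.nil)))))) 305804)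
 (EL.cons 7 (TM.mk (P.cons (P.cons (P.lf 0 625712476 0) (P.cons (P.lf 148645024 0 0) (P.cons (P.lf 10313108 0 0) (P.cons (P.lf 0 3549679 0) (P.cons (P.lf 5186 0 0) (P.cons (P.lf 19517 0 0) P.nil)))))) (P.cons (P.cons (P.lf 114175032 0 0) (P.cons (P.lf 0 5216298 0) (P.cons (P.lf 0 1662991 0) (P.cons (P.lf 0 210514 0) (P.cons (P.lf 582 0 0) P.nil))))) (P.cons (P.cons (P.lf 45563231 0 0) (P.cons (P.lf 0 10730833 0) (P.cons (P.lf 0 941800 0) (P.cons (P.lf 205442 0 0) P.nil)))) (P.cons (P.cons (P.lf 0 9833058 0) (P.cons (P.lf 409074 0 0) (P.cons (P.lf 106199 0 0) P.nil))) (P.cons (P.cons (P.lf 0 1437452 0) (P.cons (P.lf 371931 0 0) P.nil)) (P.cons (P.cons (P.lf 357241 0 0) P.nil) P.nil)))))) 247541)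
 EL.nil))
noncomputable def S227_256_290_364_12 : EL := (EL.cons 4 (TM.mk (P.cons (P.lf 454308690 0 0) (P.cons (P.lf 0 450679503 0) (P.cons (P.lf 0 5414782 0) (P.cons (P.lf 1756837 0 0) (P.cons (P.lf 35658 0 0) (P.cons (P.lf 0 6731 0) P.nil)))))) 269)
 (EL.cons 8 (TM.mk (P.cons (P.lf 2130328762 0 0) (P.cons (P.lf 34172730 0 0) (P.cons (P.lf 0 16813380 0) (P.cons (P.lf 0 270802 0) (P.cons (P.lf 64991 0 0) (P.cons (P.lf 1601 0 0) P.nil)))))) 330)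
 EL.nil))
noncomputable def S227_256_290_364_13 : EL := (EL.cons 4 (TM.mk (P.cons (P.cons (P.lf 246215355 0 0) (P.cons (P.lf 0 29245610 0) (P.cons (P.lf 0 3765989 0) (P.lf 251065 0 0)))) (P.cons (P.cons (P.lf 0 268686983 0) (P.cons (P.lf 27604594 0 0) (P.cons (P.lf 3554673 0 0) (P.lf 0 236978 0)))) (P.cons (P.cons (P.lf 12495006 0 0) (P.cons (P.lf 2414595 0 0) (P.cons (P.lf 310929 0 0) (P.lf 0 20728 0)))) (P.cons (P.cons (P.lf 10991194 0 0) (P.cons (P.lf 0 727597 0) (P.cons (P.lf 0 93692 0) P.nil))) (P.cons (P.cons (P.lf 0 838849 0) (P.cons (P.lf 0 56309 0) P.nil)) (P.cons (P.cons (P.lf 0 188481 0) P.nil) P.nil)))))) 49774)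
 (EL.cons 8 (TM.mk (P.cons (P.cons (P.lf 1154544623 0 0) (P.cons (P.lf 0 137137519 0) (P.cons (P.lf 0 17659348 0) (P.lf 1177289 0 0)))) (P.cons (P.cons (P.lf 0 96075997 0) (P.cons (P.lf 0 8799323 0) (P.cons (P.lf 0 1133097 0) (P.lf 75538 0 0)))) (P.cons (P.cons (P.lf 0 52279172 0) (P.cons (P.lf 4117642 0 0) (P.cons (P.lf 530231 0 0) (P.lf 0 35347 0)))) (P.cons (P.cons (P.lf 4805057 0 0) (P.cons (P.lf 275808 0 0) (P.cons (P.lf 35514 0 0) P.nil))) (P.cons (P.cons (P.lf 1050680 0 0) (P.cons (P.lf 0 61298 0) P.nil)) (P.cons (P.cons (P.lf 0 72335 0) P.nil) P.nil)))))) 33793)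
 EL.nil))
noncomputable def S227_256_290_364_14 : EL := (EL.cons 4 (TM.mk (P.cons (P.cons (P.lf 133437908 0 0) (P.cons (P.lf 0 31699673 0) (P.cons (P.lf 0 2199347 0) (P.cons (P.lf 756995 0 0) (P.cons (P.lf 0 1105 0) (P.cons (P.lf 0 4161 0) P.nil)))))) (P.cons (P.cons (P.lf 0 158861130 0) (P.cons (P.lf 33067355 0 0) (P.cons (P.lf 2571704 0 0) (P.cons (P.lf 0 718197 0) (P.cons (P.lf 990 0 0) P.nil))))) (P.cons (P.cons (P.lf 16448511 0 0) (P.cons (P.lf 782100 0 0) (P.cons (P.lf 0 183363 0) (P.cons (P.lf 0 79874 0) P.nil)))) (P.cons (P.cons (P.lf 11041590 0 0) (P.cons (P.lf 0 2248826 0) (P.cons (P.lf 0 211662 0) P.nil))) (P.cons (P.cons (P.lf 0 1813113 0) (P.cons (P.lf 29178 0 0) P.nil)) (P.cons (P.cons (P.lf 0 323673 0) P.nil) P.nil)))))) 305804)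
 (EL.cons 8 (TM.mk (P.cons (P.cons (P.lf 625712476 0 0) (P.cons (P.lf 0 148645024 0) (P.cons (P.lf 0 10313108 0) (P.cons (P.lf 3549679 0 0) (P.cons (P.lf 0 5186 0) (P.cons (P.lf 0 19517 0) P.nil)))))) (P.cons (P.cons (P.lf 0 114175032 0) (P.cons (P.lf 5216298 0 0) (P.cons (P.lf 1662991 0 0) (P.cons (P.lf 210514 0 0) (P.cons (P.lf 0 582 0) P.nil))))) (P.cons (P.cons (P.lf 0 45563231 0) (P.cons (P.lf 10730833 0 0) (P.cons (P.lf 941800 0 0) (P.cons (P.lf 0 205442 0) P.nil)))) (P.cons (P.cons (P.lf 9833058 0 0) (P.cons (P.lf 0 409074 0) (P.cons (P.lf 0 106199 0) P.nil))) (P.cons (P.cons (P.lf 1437452 0 0) (P.cons (P.lf 0 371931 0) P.nil)) (P.cons (P.cons (P.lf 0 357241 0) P.nil) P.nil)))))) 247541)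
 EL.nil))
noncomputable def S227_256_290_364_15 : EL := (EL.cons 4 (TM.mk (P.cons (P.lf 0 51259096 0) (P.cons (P.lf 101699239 0 0) (P.cons (P.lf 0 49221527 0) (P.cons (P.lf 0 1608569 0) (P.cons (P.lf 377947 0 0) (P.cons (P.lf 14225 0 0) P.nil)))))) 2557)
 (EL.cons 8 (TM.mk (P.cons (P.lf 0 240362403 0) (P.cons (P.lf 234586631 0 0) (P.cons (P.lf 8586714 0 0) (P.cons (P.lf 0 2734865 0) (P.cons (P.lf 0 94029 0) (P.cons (P.lf 17324 0 0) P.nil)))))) 877)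
 EL.nil))
noncomputable def S227_256_290_364_16 : EL := (EL.cons 4 (TM.mk (P.cons (P.cons (P.lf 0 27780179 0) (P.cons (P.lf 3299745 0 0) (P.cons (P.lf 424911 0 0) (P.lf 0 28326 0)))) (P.cons (P.cons (P.lf 57873885 0 0) (P.cons (P.lf 0 6387979 0) (P.cons (P.lf 0 822586 0) (P.lf 54839 0 0)))) (P.cons (P.cons (P.lf 0 31152144 0) (P.cons (P.lf 2777947 0 0) (P.cons (P.lf 357719 0 0) (P.lf 0 23847 0)))) (P.cons (P.cons (P.lf 0 310339 0) (P.cons (P.lf 402235 0 0) (P.cons (P.lf 51795 0 0) P.nil))) (P.cons (P.cons (P.lf 1456716 0 0) (P.cons (P.lf 0 83622 0) P.nil)) (P.cons (P.cons (P.lf 0 60504 0) P.nil) P.nil)))))) 64999)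
 (EL.cons 8 (TM.mk (P.cons (P.cons (P.lf 0 130265865 0) (P.cons (P.lf 15473059 0 0) (P.cons (P.lf 1992482 0 0) (P.lf 0 132831 0)))) (P.cons (P.cons (P.lf 140065391 0 0) (P.cons (P.lf 0 14356637 0) (P.cons (P.lf 0 1848719 0) (P.lf 123248 0 0)))) (P.cons (P.cons (P.lf 0 3302343 0) (P.cons (P.lf 0 1633893 0) (P.cons (P.lf 0 210397 0) (P.lf 14026 0 0)))) (P.cons (P.cons (P.lf 0 7026569 0) (P.cons (P.lf 477759 0 0) (P.cons (P.lf 61521 0 0) P.nil))) (P.cons (P.cons (P.lf 380661 0 0) (P.cons (P.lf 48377 0 0) P.nil)) (P.cons (P.cons (P.lf 157814 0 0) P.nil) P.nil)))))) 42898)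
 EL.nil))
noncomputable def S227_256_290_364_17 : EL := (EL.cons 4 (TM.mk (P.cons (P.cons (P.lf 0 15055636 0) (P.cons (P.lf 3576634 0 0) (P.cons (P.lf 248149 0 0) (P.cons (P.lf 0 85410 0) (P.cons (P.lf 124 0 0) (P.cons (P.lf 468 0 0) P.nil)))))) (P.cons (P.cons (P.lf 32859474 0 0) (P.cons (P.lf 0 7279013 0) (P.cons (P.lf 0 536329 0) (P.cons (P.lf 165761 0 0) (P.cons (P.lf 0 235 0) P.nil))))) (P.cons (P.cons (P.lf 0 19457344 0) (P.cons (P.lf 3570272 0 0) (P.cons (P.lf 305575 0 0) (P.cons (P.lf 0 70355 0) P.nil)))) (P.cons (P.cons (P.lf 323377 0 0) (P.cons (P.lf 399570 0 0) (P.cons (P.lf 7775 0 0) P.nil))) (P.cons (P.cons (P.lf 1530679 0 0) (P.cons (P.lf 0 268092 0) P.nil)) (P.cons (P.cons (P.lf 0 157115 0) P.nil) P.nil)))))) 177865)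
 (EL.cons 8 (TM.mk (P.cons (P.cons (P.lf 0 70598377 0) (P.cons (P.lf 16771437 0 0) (P.cons (P.lf 1163615 0 0) (P.cons (P.lf 0 400505 0) (P.cons (P.lf 584 0 0) (P.cons (P.lf 2201 0 0) P.nil)))))) (P.cons (P.cons (P.lf 82916641 0 0) (P.cons (P.lf 0 17226009 0) (P.cons (P.lf 0 1341953 0) (P.cons (P.lf 373554 0 0) (P.cons (P.lf 0 514 0) P.nil))))) (P.cons (P.cons (P.lf 0 6797034 0) (P.cons (P.lf 0 826793 0) (P.cons (P.lf 66003 0 0) (P.cons (P.lf 51515 0 0) P.nil)))) (P.cons (P.cons (P.lf 0 6635776 0) (P.cons (P.lf 1319101 0 0) (P.cons (P.lf 124131 0 0) P.nil))) (P.cons (P.cons (P.lf 921405 0 0) (P.cons (P.lf 9649 0 0) P.nil)) (P.cons (P.cons (P.lf 236357 0 0) P.nil) P.nil)))))) 197359)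
 EL.nil))
noncomputable def S227_256_290_364_18 : EL := (EL.cons 4 (TM.mk (P.cons (P.lf 5783501 0 0) (P.cons (P.lf 0 17211901 0) (P.cons (P.lf 16867610 0 0) (P.cons (P.lf 0 5168619 0) (P.cons (P.lf 0 332796 0) (P.cons (P.lf 59024 0 0) P.nil)))))) 4306)
 (EL.cons 8 (TM.mk (P.cons (P.lf 27119797 0 0) (P.cons (P.lf 0 53371278 0) (P.cons (P.lf 24964624 0 0) (P.cons (P.lf 1690000 0 0) (P.cons (P.lf 0 384174 0) (P.cons (P.lf 0 22382 0) P.nil)))))) 4185)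
 EL.nil))
noncomputable def S227_256_290_364_19 : EL := (EL.cons 4 (TM.mk (P.cons (P.cons (P.lf 3134402 0 0) (P.cons (P.lf 0 372305 0) (P.cons (P.lf 0 47941 0) (P.lf 3195 0 0)))) (P.cons (P.cons (P.lf 0 9639204 0) (P.cons (P.lf 1090080 0 0) (P.cons (P.lf 140370 0 0) (P.lf 0 9357 0)))) (P.cons (P.cons (P.lf 9955177 0 0) (P.cons (P.lf 0 1023985 0) (P.cons (P.lf 0 131859 0) (P.lf 8790 0 0)))) (P.cons (P.cons (P.lf 0 3361815 0) (P.cons (P.lf 255513 0 0) (P.cons (P.lf 32902 0 0) P.nil))) (P.cons (P.cons (P.lf 0 265992 0) (P.cons (P.lf 60949 0 0) P.nil)) (P.cons (P.cons (P.lf 182488 0 0) P.nil) P.nil)))))) 63426)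
 (EL.cons 8 (TM.mk (P.cons (P.cons (P.lf 14697739 0 0) (P.cons (P.lf 0 1745806 0) (P.cons (P.lf 0 224809 0) (P.lf 14986 0 0)))) (P.cons (P.cons (P.lf 0 30383735 0) (P.cons (P.lf 3351702 0 0) (P.cons (P.lf 431602 0 0) (P.lf 0 28773 0)))) (P.cons (P.cons (P.lf 15874584 0 0) (P.cons (P.lf 0 1401744 0) (P.cons (P.lf 0 180503 0) (P.lf 12033 0 0)))) (P.cons (P.cons (P.lf 668369 0 0) (P.cons (P.lf 0 262839 0) (P.cons (P.lf 0 33846 0) P.nil))) (P.cons (P.cons (P.lf 0 893815 0) (P.cons (P.lf 51945 0 0) P.nil)) (P.cons (P.cons (P.lf 15334 0 0) P.nil) P.nil)))))) 48696)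
 EL.nil))
noncomputable def S227_256_290_364_20 : EL := (EL.cons 4 (TM.mk (P.cons (P.cons (P.lf 1698708 0 0) (P.cons (P.lf 0 403546 0) (P.cons (P.lf 0 27998 0) (P.cons (P.lf 9636 0 0) (P.cons (P.lf 0 14 0) (P.cons (P.lf 0 52 0) P.nil)))))) (P.cons (P.cons (P.lf 0 5392633 0) (P.cons (P.lf 1221605 0 0) (P.cons (P.lf 88288 0 0) (P.cons (P.lf 0 28261 0) (P.cons (P.lf 40 0 0) P.nil))))) (P.cons (P.cons (P.lf 5852979 0 0) (P.cons (P.lf 0 1212740 0) (P.cons (P.lf 0 94173 0) (P.cons (P.lf 26376 0 0) P.nil)))) (P.cons (P.cons (P.lf 0 2163539 0) (P.cons (P.lf 343178 0 0) (P.cons (P.lf 32494 0 0) P.nil))) (P.cons (P.cons (P.lf 0 176879 0) (P.cons (P.lf 82916 0 0) P.nil)) (P.cons (P.cons (P.lf 197659 0 0) P.nil) P.nil)))))) 130121)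
 (EL.cons 8 (TM.mk (P.cons (P.cons (P.lf 7965529 0 0) (P.cons (P.lf 0 1892300 0) (P.cons (P.lf 0 131289 0) (P.cons (P.lf 45188 0 0) (P.cons (P.lf 0 65 0) (P.cons (P.lf 0 248 0) P.nil)))))) (P.cons (P.cons (P.lf 0 17257280 0) (P.cons (P.lf 3820774 0 0) (P.cons (P.lf 281651 0 0) (P.cons (P.lf 0 86974 0) (P.cons (P.lf 123 0 0) P.nil))))) (P.cons (P.cons (P.lf 9952611 0 0) (P.cons (P.lf 0 1812223 0) (P.cons (P.lf 0 156083 0) (P.cons (P.lf 35459 0 0) P.nil)))) (P.cons (P.cons (P.lf 130239 0 0) (P.cons (P.lf 0 271856 0) (P.cons (P.lf 0 8930 0) P.nil))) (P.cons (P.cons (P.lf 0 891379 0) (P.cons (P.lf 152810 0 0) P.nil)) (P.cons (P.cons (P.lf 69652 0 0) P.nil) P.nil)))))) 113881)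
 EL.nil))
noncomputable def S227_256_290_364_21 : EL := (EL.cons 4 (TM.mk (P.cons (P.cons (P.lf 1523495742 0 0) (P.cons (P.lf 87736830 0 0) (P.cons (P.lf 11297967 0 0) (P.lf 0 753195 0)))) (P.cons (P.cons (P.lf 1111158663 0 0) (P.cons (P.lf 0 82813782 0) (P.cons (P.lf 0 10664019 0) (P.lf 710934 0 0)))) (P.cons (P.cons (P.lf 0 185149596 0) (P.cons (P.lf 0 7243785 0) (P.cons (P.lf 0 932787 0) (P.lf 62184 0 0)))) (P.cons (P.cons (P.lf 0 37799286 0) (P.cons (P.lf 2182791 0 0) (P.cons (P.lf 281076 0 0) P.nil))) (P.cons (P.cons (P.lf 3650388 0 0) (P.cons (P.lf 168927 0 0) P.nil)) (P.cons (P.cons (P.lf 608121 0 0) P.nil) P.nil)))))) 157119)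
 (EL.cons 8 (TM.mk (P.cons (P.cons (P.lf 0 115518915 0) (P.cons (P.lf 0 6652644 0) (P.cons (P.lf 0 856674 0) (P.lf 57114 0 0)))) (P.cons (P.cons (P.lf 32195658 0 0) (P.cons (P.lf 12985554 0 0) (P.cons (P.lf 1672161 0 0) (P.lf 0 111474 0)))) (P.cons (P.cons (P.lf 97568055 0 0) (P.cons (P.lf 0 5861436 0) (P.cons (P.lf 0 754779 0) (P.lf 50316 0 0)))) (P.cons (P.cons (P.lf 0 11828880 0) (P.cons (P.lf 0 615282 0) (P.cons (P.lf 0 79227 0) P.nil))) (P.cons (P.cons (P.lf 0 2654799 0) (P.cons (P.lf 134052 0 0) P.nil)) (P.cons (P.cons (P.lf 204426 0 0) P.nil) P.nil)))))) 116625)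
 (EL.cons 11 (TM.mk (P.cons (P.cons (P.lf 1802490564 0 0) (P.cons (P.lf 514570323 0 0) (P.cons (P.lf 0 38489031 0) (P.cons (P.lf 0 2593599 0) (P.lf 129678 0 0))))) (P.cons (P.cons (P.lf 57827712 0 0) (P.cons (P.lf 16508505 0 0) (P.cons (P.lf 0 1234809 0) (P.cons (P.lf 0 83208 0) (P.lf 4158 0 0))))) (P.cons (P.cons (P.lf 0 27988095 0) (P.cons (P.lf 0 7989969 0) (P.cons (P.lf 597636 0 0) (P.cons (P.lf 40272 0 0) P.nil)))) (P.cons (P.cons (P.lf 0 914652 0) (P.cons (P.lf 0 261111 0) (P.cons (P.lf 19530 0 0) P.nil))) (P.cons (P.cons (P.lf 214902 0 0) (P.cons (P.lf 61350 0 0) P.nil)) (P.cons (P.cons (P.lf 8088 0 0) P.nil) P.nil)))))) 12954)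
 EL.nil)))
noncomputable def S227_256_290_364_22 : EL := (EL.cons 4 (TM.mk (P.cons (P.cons (P.lf 825667779 0 0) (P.cons (P.lf 0 50523816 0) (P.cons (P.lf 0 12153966 0) (P.cons (P.lf 0 1020852 0) (P.cons (P.lf 3315 0 0) (P.cons (P.lf 12486 0 0) P.nil)))))) (P.cons (P.cons (P.lf 520246257 0 0) (P.cons (P.lf 0 125850222 0) (P.cons (P.lf 0 11146620 0) (P.cons (P.lf 2383359 0 0) (P.cons (P.lf 0 2970 0) P.nil))))) (P.cons (P.cons (P.lf 0 189671292 0) (P.cons (P.lf 9549804 0 0) (P.cons (P.lf 2081964 0 0) (P.cons (P.lf 137499 0 0) P.nil)))) (P.cons (P.cons (P.lf 0 28713981 0) (P.cons (P.lf 8129985 0 0) (P.cons (P.lf 813138 0 0) P.nil))) (P.cons (P.cons (P.lf 10488960 0 0) (P.cons (P.lf 0 378849 0) P.nil)) (P.cons (P.cons (P.lf 735756 0 0) P.nil) P.nil)))))) 1122648)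
 (EL.cons 8 (TM.mk (P.cons (P.cons (P.lf 0 62606178 0) (P.cons (P.lf 3830958 0 0) (P.cons (P.lf 921570 0 0) (P.cons (P.lf 77406 0 0) (P.cons (P.lf 0 249 0) (P.cons (P.lf 0 945 0) P.nil)))))) (P.cons (P.cons (P.lf 23662704 0 0) (P.cons (P.lf 5680767 0 0) (P.cons (P.lf 0 83802 0) (P.cons (P.lf 0 258744 0) (P.cons (P.lf 477 0 0) P.nil))))) (P.cons (P.cons (P.lf 53386800 0 0) (P.cons (P.lf 0 10297008 0) (P.cons (P.lf 0 998667 0) (P.cons (P.lf 172683 0 0) P.nil)))) (P.cons (P.cons (P.lf 0 12539205 0) (P.cons (P.lf 213450 0 0) (P.cons (P.lf 103914 0 0) P.nil))) (P.cons (P.cons (P.lf 0 2656617 0) (P.cons (P.lf 601998 0 0) P.nil)) (P.cons (P.cons (P.lf 710436 0 0) P.nil) P.nil)))))) 479916)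
 (EL.cons 11 (TM.mk (P.cons (P.cons (P.lf 976870716 0 0) (P.cons (P.lf 162841209 0 0) (P.cons (P.lf 0 68925984 0) (P.cons (P.lf 0 2197341 0) (P.cons (P.lf 840660 0 0) (P.cons (P.lf 0 8118 0) P.nil)))))) (P.cons (P.cons (P.lf 0 65620737 0) (P.cons (P.lf 0 28039722 0) (P.cons (P.lf 0 2453979 0) (P.cons (P.lf 30918 0 0) (P.cons (P.lf 57066 0 0) P.nil))))) (P.cons (P.cons (P.lf 0 53247711 0) (P.cons (P.lf 0 10920693 0) (P.cons (P.lf 2910126 0 0) (P.cons (P.lf 105822 0 0) P.nil)))) (P.cons (P.cons (P.lf 3873444 0 0) (P.cons (P.lf 1468542 0 0) (P.cons (P.lf 67560 0 0) P.nil))) (P.cons (P.cons (P.lf 1343451 0 0) (P.cons (P.lf 305313 0 0) P.nil)) (P.cons (P.cons (P.lf 0 75153 0) P.nil) P.nil)))))) 249588)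
 EL.nil)))
noncomputable def S227_256_290_364_23 : EL := (EL.cons 4 (TM.mk (P.cons (P.cons (P.lf 0 171894171 0) (P.cons (P.lf 0 9899238 0) (P.cons (P.lf 0 1274733 0) (P.lf 84981 0 0)))) (P.cons (P.cons (P.lf 45150336 0 0) (P.cons (P.lf 19163937 0 0) (P.cons (P.lf 2467761 0 0) (P.lf 0 164517 0)))) (P.cons (P.cons (P.lf 147308136 0 0) (P.cons (P.lf 0 8333841 0) (P.cons (P.lf 0 1073157 0) (P.lf 71544 0 0)))) (P.cons (P.cons (P.lf 0 15628941 0) (P.cons (P.lf 0 1206705 0) (P.cons (P.lf 0 155388 0) P.nil))) (P.cons (P.cons (P.lf 0 5389938 0) (P.cons (P.lf 250869 0 0) P.nil)) (P.cons (P.cons (P.lf 362622 0 0) P.nil) P.nil)))))) 206820)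
 (EL.cons 8 (TM.mk (P.cons (P.cons (P.lf 13033857 0 0) (P.cons (P.lf 750609 0 0) (P.cons (P.lf 96657 0 0) (P.lf 0 6444 0)))) (P.cons (P.cons (P.lf 0 16562334 0) (P.cons (P.lf 0 2209755 0) (P.cons (P.lf 0 284553 0) (P.lf 18969 0 0)))) (P.cons (P.cons (P.lf 0 7560252 0) (P.cons (P.lf 2105832 0 0) (P.cons (P.lf 271167 0 0) (P.lf 0 18075 0)))) (P.cons (P.cons (P.lf 12348879 0 0) (P.cons (P.lf 0 566268 0) (P.cons (P.lf 0 72918 0) P.nil))) (P.cons (P.cons (P.lf 0 906255 0) (P.cons (P.lf 0 97479 0) P.nil)) (P.cons (P.cons (P.lf 0 379164 0) P.nil) P.nil)))))) 97044)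
 (EL.cons 11 (TM.mk (P.cons (P.cons (P.lf 0 203372817 0) (P.cons (P.lf 0 58058343 0) (P.cons (P.lf 4342668 0 0) (P.cons (P.lf 292632 0 0) (P.lf 0 14631 0))))) (P.cons (P.cons (P.lf 195223569 0 0) (P.cons (P.lf 55731915 0 0) (P.cons (P.lf 0 4168656 0) (P.cons (P.lf 0 280905 0) (P.lf 14043 0 0))))) (P.cons (P.cons (P.lf 12054315 0 0) (P.cons (P.lf 3441234 0 0) (P.cons (P.lf 0 257397 0) (P.cons (P.lf 0 17343 0) P.nil)))) (P.cons (P.cons (P.lf 0 3738126 0) (P.cons (P.lf 0 1067148 0) (P.cons (P.lf 79821 0 0) P.nil))) (P.cons (P.cons (P.lf 0 205452 0) (P.cons (P.lf 0 58650 0) P.nil)) (P.cons (P.cons (P.lf 36621 0 0) P.nil) P.nil)))))) 28152)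
 EL.nil)))
noncomputable def S227_256_290_364_24 : EL := (EL.cons 4 (TM.mk (P.cons (P.cons (P.lf 0 93159090 0) (P.cons (P.lf 5700540 0 0) (P.cons (P.lf 1371315 0 0) (P.cons (P.lf 115179 0 0) (P.cons (P.lf 0 372 0) (P.cons (P.lf 0 1407 0) P.nil)))))) (P.cons (P.cons (P.lf 33716148 0 0) (P.cons (P.lf 8544522 0 0) (P.cons (P.lf 0 102702 0) (P.cons (P.lf 0 383172 0) (P.cons (P.lf 705 0 0) P.nil))))) (P.cons (P.cons (P.lf 80740563 0 0) (P.cons (P.lf 0 15231531 0) (P.cons (P.lf 0 1498860 0) (P.cons (P.lf 249876 0 0) P.nil)))) (P.cons (P.cons (P.lf 0 17650299 0) (P.cons (P.lf 4392 0 0) (P.cons (P.lf 131595 0 0) P.nil))) (P.cons (P.cons (P.lf 0 4886709 0) (P.cons (P.lf 1020912 0 0) P.nil)) (P.cons (P.cons (P.lf 1131903 0 0) P.nil) P.nil)))))) 834795)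
 (EL.cons 8 (TM.mk (P.cons (P.cons (P.lf 7063776 0 0) (P.cons (P.lf 0 432240 0) (P.cons (P.lf 0 103977 0) (P.cons (P.lf 0 8733 0) (P.cons (P.lf 27 0 0) (P.cons (P.lf 105 0 0) P.nil)))))) (P.cons (P.cons (P.lf 0 9677184 0) (P.cons (P.lf 0 212163 0) (P.cons (P.lf 112602 0 0) (P.cons (P.lf 37857 0 0) (P.cons (P.lf 0 81 0) P.nil))))) (P.cons (P.cons (P.lf 0 3459252 0) (P.cons (P.lf 1802784 0 0) (P.cons (P.lf 104535 0 0) (P.cons (P.lf 0 48339 0) P.nil)))) (P.cons (P.cons (P.lf 7449369 0 0) (P.cons (P.lf 0 1170633 0) (P.cons (P.lf 0 124017 0) P.nil))) (P.cons (P.cons (P.lf 0 1041714 0) (P.cons (P.lf 0 60390 0) P.nil)) (P.cons (P.cons (P.lf 0 417975 0) P.nil) P.nil)))))) 295395)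
 (EL.cons 11 (TM.mk (P.cons (P.cons (P.lf 0 110219133 0) (P.cons (P.lf 0 18373173 0) (P.cons (P.lf 7776834 0 0) (P.cons (P.lf 247923 0 0) (P.cons (P.lf 0 94848 0) (P.cons (P.lf 915 0 0) P.nil)))))) (P.cons (P.cons (P.lf 116742570 0 0) (P.cons (P.lf 21390090 0 0) (P.cons (P.lf 0 7437831 0) (P.cons (P.lf 0 249429 0) (P.cons (P.lf 87654 0 0) P.nil))))) (P.cons (P.cons (P.lf 0 23214 0) (P.cons (P.lf 0 1687260 0) (P.cons (P.lf 0 695703 0) (P.cons (P.lf 0 11433 0) P.nil)))) (P.cons (P.cons (P.lf 0 6911385 0) (P.cons (P.lf 0 1496775 0) (P.cons (P.lf 344871 0 0) P.nil))) (P.cons (P.cons (P.lf 230337 0 0) (P.cons (P.lf 126027 0 0) P.nil)) (P.cons (P.cons (P.lf 189504 0 0) P.nil) P.nil)))))) 229140)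
 EL.nil)))
noncomputable def S227_256_290_364_25 : EL := (EL.cons 4 (TM.mk (P.cons (P.cons (P.lf 19394610 0 0) (P.cons (P.lf 1116918 0 0) (P.cons (P.lf 143826 0 0) (P.lf 0 9588 0)))) (P.cons (P.cons (P.lf 0 24333936 0) (P.cons (P.lf 0 3270240 0) (P.cons (P.lf 0 421110 0) (P.lf 28074 0 0)))) (P.cons (P.cons (P.lf 0 11798193 0) (P.cons (P.lf 3071955 0 0) (P.cons (P.lf 395577 0 0) (P.lf 0 26370 0)))) (P.cons (P.cons (P.lf 18386937 0 0) (P.cons (P.lf 0 766542 0) (P.cons (P.lf 0 98706 0) P.nil))) (P.cons (P.cons (P.lf 0 961248 0) (P.cons (P.lf 0 182847 0) P.nil)) (P.cons (P.cons (P.lf 0 730173 0) P.nil) P.nil)))))) 207117)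
 (EL.cons 8 (TM.mk (P.cons (P.cons (P.lf 0 1470594 0) (P.cons (P.lf 0 84690 0) (P.cons (P.lf 0 10905 0) (P.lf 726 0 0)))) (P.cons (P.cons (P.lf 3327555 0 0) (P.cons (P.lf 333336 0 0) (P.cons (P.lf 42924 0 0) (P.lf 0 2859 0)))) (P.cons (P.cons (P.lf 0 983238 0) (P.cons (P.lf 0 483921 0) (P.cons (P.lf 0 62313 0) (P.lf 4152 0 0)))) (P.cons (P.cons (P.lf 0 2267466 0) (P.cons (P.lf 296292 0 0) (P.cons (P.lf 38151 0 0) P.nil))) (P.cons (P.cons (P.lf 1481373 0 0) (P.cons (P.lf 0 48591 0) P.nil)) (P.cons (P.cons (P.lf 0 38580 0) P.nil) P.nil)))))) 97185)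
 (EL.cons 11 (TM.mk (P.cons (P.cons (P.lf 22946307 0 0) (P.cons (P.lf 6550650 0 0) (P.cons (P.lf 0 489978 0) (P.cons (P.lf 0 33015 0) (P.lf 1650 0 0))))) (P.cons (P.cons (P.lf 0 44789841 0) (P.cons (P.lf 0 12786486 0) (P.cons (P.lf 956406 0 0) (P.cons (P.lf 64446 0 0) (P.lf 0 3222 0))))) (P.cons (P.cons (P.lf 20217312 0 0) (P.cons (P.lf 5771586 0 0) (P.cons (P.lf 0 431703 0) (P.cons (P.lf 0 29088 0) P.nil)))) (P.cons (P.cons (P.lf 2122242 0 0) (P.cons (P.lf 605850 0 0) (P.cons (P.lf 0 45315 0) P.nil))) (P.cons (P.cons (P.lf 0 462384 0) (P.cons (P.lf 0 132000 0) P.nil)) (P.cons (P.cons (P.lf 0 39480 0) P.nil) P.nil)))))) 40149)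
 EL.nil)))
noncomputable def S227_256_290_364_26 : EL := (EL.cons 4 (TM.mk (P.cons (P.cons (P.lf 10511025 0 0) (P.cons (P.lf 0 643182 0) (P.cons (P.lf 0 154722 0) (P.cons (P.lf 0 12996 0) (P.cons (P.lf 42 0 0) (P.cons (P.lf 156 0 0) P.nil)))))) (P.cons (P.cons (P.lf 0 14231211 0) (P.cons (P.lf 0 326019 0) (P.cons (P.lf 165075 0 0) (P.cons (P.lf 56124 0 0) (P.cons (P.lf 0 120 0) P.nil))))) (P.cons (P.cons (P.lf 0 5461374 0) (P.cons (P.lf 2682588 0 0) (P.cons (P.lf 159462 0 0) (P.cons (P.lf 0 70926 0) P.nil)))) (P.cons (P.cons (P.lf 11114535 0 0) (P.cons (P.lf 0 1696317 0) (P.cons (P.lf 0 183348 0) P.nil))) (P.cons (P.cons (P.lf 0 1329498 0) (P.cons (P.lf 0 138957 0) P.nil)) (P.cons (P.cons (P.lf 0 734085 0) P.nil) P.nil)))))) 494961)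
 (EL.cons 8 (TM.mk (P.cons (P.cons (P.lf 0 796995 0) (P.cons (P.lf 48768 0 0) (P.cons (P.lf 11730 0 0) (P.cons (P.lf 984 0 0) (P.cons (P.lf 0 3 0) (P.cons (P.lf 0 12 0) P.nil)))))) (P.cons (P.cons (P.lf 1882494 0 0) (P.cons (P.lf 0 24441 0) (P.cons (P.lf 0 24342 0) (P.cons (P.lf 0 5247 0) (P.cons (P.lf 12 0 0) P.nil))))) (P.cons (P.cons (P.lf 0 683340 0) (P.cons (P.lf 0 227733 0) (P.cons (P.lf 666 0 0) (P.cons (P.lf 9678 0 0) P.nil)))) (P.cons (P.cons (P.lf 0 1243782 0) (P.cons (P.lf 333765 0 0) (P.cons (P.lf 25890 0 0) P.nil))) (P.cons (P.cons (P.lf 950832 0 0) (P.cons (P.lf 0 121689 0) P.nil)) (P.cons (P.cons (P.lf 0 57810 0) P.nil) P.nil)))))) 168549)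
 (EL.cons 11 (TM.mk (P.cons (P.cons (P.lf 12435888 0 0) (P.cons (P.lf 2073021 0 0) (P.cons (P.lf 0 877449 0) (P.cons (P.lf 0 27972 0) (P.cons (P.lf 10701 0 0) (P.cons (P.lf 0 102 0) P.nil)))))) (P.cons (P.cons (P.lf 0 25508469 0) (P.cons (P.lf 0 4469880 0) (P.cons (P.lf 1709640 0 0) (P.cons (P.lf 55890 0 0) (P.cons (P.lf 0 20505 0) P.nil))))) (P.cons (P.cons (P.lf 12921099 0 0) (P.cons (P.lf 2559801 0 0) (P.cons (P.lf 0 743541 0) (P.cons (P.lf 0 26295 0) P.nil)))) (P.cons (P.cons (P.lf 982287 0 0) (P.cons (P.lf 16809 0 0) (P.cons (P.lf 0 130173 0) P.nil))) (P.cons (P.cons (P.lf 0 849552 0) (P.cons (P.lf 0 193188 0) P.nil)) (P.cons (P.cons (P.lf 0 6102 0) P.nil) P.nil)))))) 160992)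
 EL.nil)))
noncomputable def S227_256_290_364_27 : EL := (EL.cons 13 (TM.mk (P.lf 0 4294967296 0) 0)
 EL.nil)
noncomputable def S227_256_290_364_28 : EL := (EL.cons 13 (TM.mk (P.cons (P.cons (P.lf 0 2327683636 0) (P.cons (P.lf 276483692 0 0) (P.cons (P.lf 35603108 0 0) (P.lf 0 2373540 0)))) (P.cons (P.cons (P.lf 231037847 0 0) (P.cons (P.lf 13305272 0 0) (P.cons (P.lf 1713332 0 0) (P.lf 0 114220 0)))) (P.cons (P.cons (P.lf 83323248 0 0) (P.cons (P.lf 0 6332916 0) (P.cons (P.lf 0 815492 0) (P.lf 54364 0 0)))) (P.cons (P.cons (P.lf 0 9496544 0) (P.cons (P.lf 0 314316 0) (P.cons (P.lf 0 40472 0) P.nil))) (P.cons (P.cons (P.lf 0 1207948 0) (P.cons (P.lf 71900 0 0) P.nil)) (P.cons (P.cons (P.lf 95555 0 0) P.nil) P.nil)))))) 33103)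
 EL.nil)
noncomputable def S227_256_290_364_29 : EL := (EL.cons 13 (TM.mk (P.cons (P.cons (P.lf 0 1261502296 0) (P.cons (P.lf 299684035 0 0) (P.cons (P.lf 20792314 0 0) (P.cons (P.lf 0 7156528 0) (P.cons (P.lf 10456 0 0) (P.cons (P.lf 39350 0 0) P.nil)))))) (P.cons (P.cons (P.lf 250424731 0 0) (P.cons (P.lf 0 15323857 0) (P.cons (P.lf 0 3686296 0) (P.cons (P.lf 0 309621 0) (P.cons (P.lf 1006 0 0) P.nil))))) (P.cons (P.cons (P.lf 77886934 0 0) (P.cons (P.lf 0 19023458 0) (P.cons (P.lf 0 1675535 0) (P.cons (P.lf 362679 0 0) P.nil)))) (P.cons (P.cons (P.lf 0 19257782 0) (P.cons (P.lf 1047046 0 0) (P.cons (P.lf 214536 0 0) P.nil))) (P.cons (P.cons (P.lf 0 1904108 0) (P.cons (P.lf 571827 0 0) P.nil)) (P.cons (P.cons (P.lf 602000 0 0) P.nil) P.nil)))))) 394475)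
 EL.nil)
noncomputable def S227_256_290_364_30 : EL := (EL.cons 13 (TM.mk (P.cons (P.lf 484595936 0 0) (P.cons (P.lf 0 480724804 0) (P.cons (P.lf 0 5775768 0) (P.cons (P.lf 1873960 0 0) (P.cons (P.lf 38036 0 0) (P.cons (P.lf 0 7180 0) P.nil)))))) 280)
 EL.nil)
noncomputable def S227_256_290_364_31 : EL := (EL.cons 13 (TM.mk (P.cons (P.cons (P.lf 262629713 0 0) (P.cons (P.lf 0 31195318 0) (P.cons (P.lf 0 4017055 0) (P.lf 267803 0 0)))) (P.cons (P.cons (P.lf 0 286599449 0) (P.cons (P.lf 29444901 0 0) (P.cons (P.lf 3791652 0 0) (P.lf 0 252777 0)))) (P.cons (P.cons (P.lf 13328007 0 0) (P.cons (P.lf 2575569 0 0) (P.cons (P.lf 331658 0 0) (P.lf 0 22110 0)))) (P.cons (P.cons (P.lf 11723941 0 0) (P.cons (P.lf 0 776104 0) (P.cons (P.lf 0 99939 0) P.nil))) (P.cons (P.cons (P.lf 0 894773 0) (P.cons (P.lf 0 60063 0) P.nil)) (P.cons (P.cons (P.lf 0 201047 0) P.nil) P.nil))))))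 53073)
 EL.nil)
noncomputable def S227_256_290_364_32 : EL := (EL.cons 13 (TM.mk (P.cons (P.cons (P.lf 142333769 0 0) (P.cons (P.lf 0 33812985 0) (P.cons (P.lf 0 2345971 0) (P.cons (P.lf 807462 0 0) (P.cons (P.lf 0 1179 0) (P.cons (P.lf 0 4439 0) P.nil)))))) (P.cons (P.cons (P.lf 0 169451872 0) (P.cons (P.lf 35271846 0 0) (P.cons (P.lf 2743151 0 0) (P.cons (P.lf 0 766077 0) (P.cons (P.lf 1056 0 0) P.nil))))) (P.cons (P.cons (P.lf 17545079 0 0) (P.cons (P.lf 834240 0 0) (P.cons (P.lf 0 195588 0) (P.cons (P.lf 0 85199 0) P.nil)))) (P.cons (P.cons (P.lf 11777697 0 0) (P.cons (P.lf 0 2398748 0) (P.cons (P.lf 0 225773 0) P.nil))) (P.cons (P.cons (P.lf 0 1933988 0) (P.cons (P.lf 31124 0 0) P.nil)) (P.cons (P.cons (P.lf 0 345252 0) P.nil) P.nil)))))) 326168)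
 EL.nil)
noncomputable def S227_256_290_364_33 : EL := (EL.cons 14 (TM.mk (P.lf 8589934592 0 0) 0)
 EL.nil)
noncomputable def S227_256_290_364_34 : EL := (EL.cons 14 (TM.mk (P.cons (P.cons (P.lf 4655367272 0 0) (P.cons (P.lf 0 552967384 0) (P.cons (P.lf 0 71206216 0) (P.lf 4747080 0 0)))) (P.cons (P.cons (P.lf 0 462075694 0) (P.cons (P.lf 0 26610544 0) (P.cons (P.lf 0 3426664 0) (P.lf 228440 0 0)))) (P.cons (P.cons (P.lf 0 166646496 0) (P.cons (P.lf 12665832 0 0) (P.cons (P.lf 1630984 0 0) (P.lf 0 108728 0)))) (P.cons (P.cons (P.lf 18993088 0 0) (P.cons (P.lf 628632 0 0) (P.cons (P.lf 80944 0 0) P.nil))) (P.cons (P.cons (P.lf 2415896 0 0) (P.cons (P.lf 0 143800 0) P.nil)) (P.cons (P.cons (P.lf 0 191110 0) P.nil) P.nil)))))) 66206)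
 EL.nil)
noncomputable def S227_256_290_364_35 : EL := (EL.cons 14 (TM.mk (P.cons (P.cons (P.lf 2523004592 0 0) (P.cons (P.lf 0 599368070 0) (P.cons (P.lf 0 41584628 0) (P.cons (P.lf 14313056 0 0) (P.cons (P.lf 0 20912 0) (P.cons (P.lf 0 78700 0) P.nil)))))) (P.cons (P.cons (P.lf 0 500849462 0) (P.cons (P.lf 30647714 0 0) (P.cons (P.lf 7372592 0 0) (P.cons (P.lf 619242 0 0) (P.cons (P.lf 0 2012 0) P.nil))))) (P.cons (P.cons (P.lf 0 155773868 0) (P.cons (P.lf 38046916 0 0) (P.cons (P.lf 3351070 0 0) (P.cons (P.lf 0 725358 0) P.nil)))) (P.cons (P.cons (P.lf 38515564 0 0) (P.cons (P.lf 0 2094092 0) (P.cons (P.lf 0 429072 0) P.nil))) (P.cons (P.cons (P.lf 3808216 0 0) (P.cons (P.lf 0 1143654 0) P.nil)) (P.cons (P.cons (P.lf 0 1204000 0) P.nil) P.nil)))))) 788950)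
 EL.nil)
noncomputable def S227_256_290_364_36 : EL := (EL.cons 14 (TM.mk (P.cons (P.lf 0 969191872 0) (P.cons (P.lf 961449608 0 0) (P.cons (P.lf 11551536 0 0) (P.cons (P.lf 0 3747920 0) (P.cons (P.lf 0 76072 0) (P.cons (P.lf 14360 0 0) P.nil)))))) 560)
 EL.nil)
noncomputable def S227_256_290_364_37 : EL := (EL.cons 14 (TM.mk (P.cons (P.cons (P.lf 0 525259426 0) (P.cons (P.lf 62390636 0 0) (P.cons (P.lf 8034110 0 0) (P.lf 0 535606 0)))) (P.cons (P.cons (P.lf 573198898 0 0) (P.cons (P.lf 0 58889802 0) (P.cons (P.lf 0 7583304 0) (P.lf 505554 0 0)))) (P.cons (P.cons (P.lf 0 26656014 0) (P.cons (P.lf 0 5151138 0) (P.cons (P.lf 0 663316 0) (P.lf 44220 0 0)))) (P.cons (P.cons (P.lf 0 23447882 0) (P.cons (P.lf 1552208 0 0) (P.cons (P.lf 199878 0 0) P.nil))) (P.cons (P.cons (P.lf 1789546 0 0) (P.cons (P.lf 120126 0 0) P.nil)) (P.cons (P.cons (P.lf 402094 0 0) P.nil) P.nil))))))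 106146)
 EL.nil)
noncomputable def S227_256_290_364_38 : EL := (EL.cons 14 (TM.mk (P.cons (P.cons (P.lf 0 284667538 0) (P.cons (P.lf 67625970 0 0) (P.cons (P.lf 4691942 0 0) (P.cons (P.lf 0 1614924 0) (P.cons (P.lf 2358 0 0) (P.cons (P.lf 8878 0 0) P.nil)))))) (P.cons (P.cons (P.lf 338903744 0 0) (P.cons (P.lf 0 70543692 0) (P.cons (P.lf 0 5486302 0) (P.cons (P.lf 1532154 0 0) (P.cons (P.lf 0 2112 0) P.nil))))) (P.cons (P.cons (P.lf 0 35090158 0) (P.cons (P.lf 0 1668480 0) (P.cons (P.lf 391176 0 0) (P.cons (P.lf 170398 0 0) P.nil)))) (P.cons (P.cons (P.lf 0 23555394 0) (P.cons (P.lf 4797496 0 0) (P.cons (P.lf 451546 0 0) P.nil))) (P.cons (P.cons (P.lf 3867976 0 0) (P.cons (P.lf 0 62248 0) P.nil)) (P.cons (P.cons (P.lf 690504 0 0) P.nil) P.nil)))))) 652336)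
 EL.nil)
noncomputable def S227_256_290_364_39 : EL := (EL.cons 14 (TM.mk (P.cons (P.lf 109352740 0 0) (P.cons (P.lf 0 216958378 0) (P.cons (P.lf 105005926 0 0) (P.cons (P.lf 3431614 0 0) (P.cons (P.lf 0 806288 0) (P.cons (P.lf 0 30348 0) P.nil)))))) 5440)
 EL.nil)
noncomputable def S227_256_290_364_40 : EL := (EL.cons 14 (TM.mk (P.cons (P.cons (P.lf 59264382 0 0) (P.cons (P.lf 0 7039458 0) (P.cons (P.lf 0 906478 0) (P.lf 60430 0 0)))) (P.cons (P.cons (P.lf 0 123464290 0) (P.cons (P.lf 13627690 0 0) (P.cons (P.lf 1754852 0 0) (P.lf 0 116990 0)))) (P.cons (P.cons (P.lf 66457908 0 0) (P.cons (P.lf 0 5926288 0) (P.cons (P.lf 0 763134 0) (P.lf 50874 0 0)))) (P.cons (P.cons (P.lf 662058 0 0) (P.cons (P.lf 0 858102 0) (P.cons (P.lf 0 110498 0) P.nil))) (P.cons (P.cons (P.lf 0 3107662 0) (P.cons (P.lf 178394 0 0) P.nil)) (P.cons (P.cons (P.lf 129076 0 0) P.nil) P.nil))))))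 138624)
 EL.nil)
noncomputable def S227_256_290_364_41 : EL := (EL.cons 14 (TM.mk (P.cons (P.cons (P.lf 32118692 0 0) (P.cons (P.lf 0 7630154 0) (P.cons (P.lf 0 529386 0) (P.cons (P.lf 182208 0 0) (P.cons (P.lf 0 266 0) (P.cons (P.lf 0 1000 0) P.nil)))))) (P.cons (P.cons (P.lf 0 70100212 0) (P.cons (P.lf 15528562 0 0) (P.cons (P.lf 1144170 0 0) (P.cons (P.lf 0 353624 0) (P.cons (P.lf 502 0 0) P.nil))))) (P.cons (P.cons (P.lf 41509002 0 0) (P.cons (P.lf 0 7616582 0) (P.cons (P.lf 0 651894 0) (P.cons (P.lf 150092 0 0) P.nil)))) (P.cons (P.cons (P.lf 0 689872 0) (P.cons (P.lf 0 852416 0) (P.cons (P.lf 0 16588 0) P.nil))) (P.cons (P.cons (P.lf 0 3265450 0) (P.cons (P.lf 571930 0 0) P.nil)) (P.cons (P.cons (P.lf 335180 0 0) P.nil) P.nil)))))) 379400)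
 EL.nil)
noncomputable def S227_256_290_364_42 : EL := (EL.cons 14 (TM.mk (P.cons (P.lf 0 12338136 0) (P.cons (P.lf 36718724 0 0) (P.cons (P.lf 0 35984236 0) (P.cons (P.lf 11026388 0 0) (P.cons (P.lf 709966 0 0) (P.cons (P.lf 0 125918 0) P.nil)))))) 9172)
 EL.nil)
noncomputable def S227_256_290_364_43 : EL := (EL.cons 14 (TM.mk (P.cons (P.cons (P.lf 0 6686726 0) (P.cons (P.lf 794252 0 0) (P.cons (P.lf 102276 0 0) (P.lf 0 6818 0)))) (P.cons (P.cons (P.lf 20563636 0 0) (P.cons (P.lf 0 2325504 0) (P.cons (P.lf 0 299456 0) (P.lf 19962 0 0)))) (P.cons (P.cons (P.lf 0 21237712 0) (P.cons (P.lf 2184502 0 0) (P.cons (P.lf 281300 0 0) (P.lf 0 18752 0)))) (P.cons (P.cons (P.lf 7171874 0 0) (P.cons (P.lf 0 545096 0) (P.cons (P.lf 0 70192 0) P.nil))) (P.cons (P.cons (P.lf 567450 0 0) (P.cons (P.lf 0 130026 0) P.nil)) (P.cons (P.cons (P.lf 0 389308 0) P.nil) P.nil)))))) 135270)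
 EL.nil)
noncomputable def S227_256_290_364_44 : EL := (EL.cons 14 (TM.mk (P.cons (P.cons (P.lf 0 3623912 0) (P.cons (P.lf 860900 0 0) (P.cons (P.lf 59730 0 0) (P.cons (P.lf 0 20558 0) (P.cons (P.lf 30 0 0) (P.cons (P.lf 112 0 0) P.nil)))))) (P.cons (P.cons (P.lf 11504284 0 0) (P.cons (P.lf 0 2606092 0) (P.cons (P.lf 0 188348 0) (P.cons (P.lf 60292 0 0) (P.cons (P.lf 0 86 0) P.nil))))) (P.cons (P.cons (P.lf 0 12486356 0) (P.cons (P.lf 2587180 0 0) (P.cons (P.lf 200904 0 0) (P.cons (P.lf 0 56270 0) P.nil)))) (P.cons (P.cons (P.lf 4615550 0 0) (P.cons (P.lf 0 732114 0) (P.cons (P.lf 0 69322 0) P.nil))) (P.cons (P.cons (P.lf 377342 0 0) (P.cons (P.lf 0 176888 0) P.nil)) (P.cons (P.cons (P.lf 0 421674 0) P.nil) P.nil)))))) 277546)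
 EL.nil)
noncomputable def S227_256_290_364_45 : EL := (EL.cons 14 (TM.mk (P.cons (P.cons (P.lf 1367357676 0 0) (P.cons (P.lf 0 487246752 0) (P.cons (P.lf 0 4867828 0) (P.cons (P.lf 16796764 0 0) (P.cons (P.lf 0 919234 0) (P.cons (P.lf 0 182934 0) P.nil)))))) (P.cons (P.cons (P.lf 0 407157616 0) (P.cons (P.lf 73277004 0 0) (P.cons (P.lf 9261746 0 0) (P.cons (P.lf 0 1004758 0) (P.cons (P.lf 0 127696 0) P.nil))))) (P.cons (P.cons (P.lf 0 106427362 0) (P.cons (P.lf 45898496 0 0) (P.cons (P.lf 768484 0 0) (P.cons (P.lf 0 1576734 0) P.nil)))) (P.cons (P.cons (P.lf 44548402 0 0) (P.cons (P.lf 0 7652068 0) (P.cons (P.lf 0 957966 0) P.nil))) (P.cons (P.cons (P.lf 2616240 0 0) (P.cons (P.lf 0 2019130 0) P.nil)) (P.cons (P.cons (P.lf 0 2146002 0) P.nil) P.nil)))))) 2218082)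
 EL.nil)
noncomputable def S227_256_290_364_46 : EL := (EL.cons 15 (TM.mk (P.lf 4294967296 0 0) 0)
 EL.nil)
noncomputable def S227_256_290_364_47 : EL := (EL.cons 15 (TM.mk (P.cons (P.cons (P.lf 2327683636 0 0) (P.cons (P.lf 0 276483692 0) (P.cons (P.lf 0 35603108 0) (P.lf 2373540 0 0)))) (P.cons (P.cons (P.lf 0 231037847 0) (P.cons (P.lf 0 13305272 0) (P.cons (P.lf 0 1713332 0) (P.lf 114220 0 0)))) (P.cons (P.cons (P.lf 0 83323248 0) (P.cons (P.lf 6332916 0 0) (P.cons (P.lf 815492 0 0) (P.lf 0 54364 0)))) (P.cons (P.cons (P.lf 9496544 0 0) (P.cons (P.lf 314316 0 0) (P.cons (P.lf 40472 0 0) P.nil))) (P.cons (P.cons (P.lf 1207948 0 0) (P.cons (P.lf 0 71900 0) P.nil)) (P.cons (P.cons (P.lf 0 95555 0) P.nil) P.nil)))))) 33103)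
 EL.nil)
noncomputable def S227_256_290_364_48 : EL := (EL.cons 15 (TM.mk (P.cons (P.cons (P.lf 1261502296 0 0) (P.cons (P.lf 0 299684035 0) (P.cons (P.lf 0 20792314 0) (P.cons (P.lf 7156528 0 0) (P.cons (P.lf 0 10456 0) (P.cons (P.lf 0 39350 0) P.nil)))))) (P.cons (P.cons (P.lf 0 250424731 0) (P.cons (P.lf 15323857 0 0) (P.cons (P.lf 3686296 0 0) (P.cons (P.lf 309621 0 0) (P.cons (P.lf 0 1006 0) P.nil))))) (P.cons (P.cons (P.lf 0 77886934 0) (P.cons (P.lf 19023458 0 0) (P.cons (P.lf 1675535 0 0) (P.cons (P.lf 0 362679 0) P.nil)))) (P.cons (P.cons (P.lf 19257782 0 0) (P.cons (P.lf 0 1047046 0) (P.cons (P.lf 0 214536 0) P.nil))) (P.cons (P.cons (P.lf 1904108 0 0) (P.cons (P.lf 0 571827 0) P.nil)) (P.cons (P.cons (P.lf 0 602000 0) P.nil) P.nil)))))) 394475)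
 EL.nil)
noncomputable def S227_256_290_364 : SL := (SL.cons S227_256_290_364_0 (SL.cons S227_256_290_364_1 (SL.cons S227_256_290_364_2 (SL.cons S227_256_290_364_3 (SL.cons S227_256_290_364_4 (SL.cons S227_256_290_364_5 (SL.cons S227_256_290_364_6 (SL.cons S227_256_290_364_7 (SL.cons S227_256_290_364_8 (SL.cons S227_256_290_364_9 (SL.cons S227_256_290_364_10 (SL.cons S227_256_290_364_11 (SL.cons S227_256_290_364_12 (SL.cons S227_256_290_364_13 (SL.cons S227_256_290_364_14 (SL.cons S227_256_290_364_15 (SL.cons S227_256_290_364_16 (SL.cons S227_256_290_364_17 (SL.cons S227_256_290_364_18 (SL.cons S227_256_290_364_19 (SL.cons S227_256_290_364_20 (SL.cons S227_256_290_364_21 (SL.cons S227_256_290_364_22 (SL.cons S227_256_290_364_23 (SL.cons S227_256_290_364_24 (SL.cons S227_256_290_364_25 (SL.cons S227_256_290_364_26 (SL.cons S227_256_290_364_27 (SL.cons S227_256_290_364_28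 (SL.cons S227_256_290_364_29 (SL.cons S227_256_290_364_30 (SL.cons S227_256_290_364_31 (SL.cons S227_256_290_364_32 (SL.cons S227_256_290_364_33 (SL.cons S227_256_290_364_34 (SL.cons S227_256_290_364_35 (SL.cons S227_256_290_364_36 (SL.cons S227_256_290_364_37 (SL.cons S227_256_290_364_38 (SL.cons S227_256_290_364_39 (SL.cons S227_256_290_364_40 (SL.cons S227_256_290_364_41 (SL.cons S227_256_290_364_42 (SL.cons S227_256_290_364_43 (SL.cons S227_256_290_364_44 (SL.cons S227_256_290_364_45 (SL.cons S227_256_290_364_46 (SL.cons S227_256_290_364_47 (SL.cons S227_256_290_364_48 SL.nil)))))))))))))))))))))))))))))))))))))))))))))))))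
noncomputable def S227_256_364_401_0 : EL := (EL.cons 0 (TM.mk (P.cons (P.lf 8359606057 0 0) (P.cons (P.lf 190686074 0 0) (P.cons (P.lf 0 92290364 0) (P.cons (P.lf 0 3016066 0) (P.cons (P.lf 708651 0 0) (P.cons (P.lf 26673 0 0) P.nil)))))) 4788)
 (EL.cons 1 (TM.mk (P.cons (P.lf 0 450679505 0) (P.cons (P.lf 439849933 0 0) (P.cons (P.lf 16100088 0 0) (P.cons (P.lf 0 5127871 0) (P.cons (P.lf 0 176304 0) (P.cons (P.lf 32482 0 0) P.nil)))))) 1651)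
 (EL.cons 5 (TM.mk (P.cons (P.lf 4329140030 0 0) (P.cons (P.lf 0 67799490 0) (P.cons (P.lf 32814348 0 0) (P.cons (P.lf 1072376 0 0) (P.cons (P.lf 0 251962 0) (P.cons (P.lf 0 9484 0) P.nil)))))) 1837)
 (EL.cons 9 (TM.mk (P.lf 6442450944 0 0) 2)
 EL.nil))))
noncomputable def S227_256_364_401_1 : EL := (EL.cons 0 (TM.mk (P.cons (P.cons (P.lf 3937985882 0 0) (P.cons (P.lf 0 345095734 0) (P.cons (P.lf 0 11708683 0) (P.lf 557554 0 0)))) (P.cons (P.cons (P.lf 0 561479649 0) (P.cons (P.lf 0 49219022 0) (P.cons (P.lf 0 1669934 0) (P.lf 79510 0 0)))) (P.cons (P.cons (P.lf 0 440017846 0) (P.cons (P.lf 22118982 0 0) (P.cons (P.lf 750457 0 0) (P.lf 0 35722 0)))) (P.cons (P.cons (P.lf 53820088 0 0) (P.cons (P.lf 2414680 0 0) (P.cons (P.lf 81918 0 0) P.nil))) (P.cons (P.cons (P.lf 13862073 0 0) (P.cons (P.lf 0 510575 0) P.nil)) (P.cons (P.cons (P.lf 0 1123331 0) P.nil) P.nil))))))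 374965)
 (EL.cons 1 (TM.mk (P.cons (P.cons (P.lf 625663944 0 0) (P.cons (P.lf 47705798 0 0) (P.cons (P.lf 1618598 0 0) (P.lf 0 77071 0)))) (P.cons (P.cons (P.lf 726566751 0 0) (P.cons (P.lf 0 43321401 0) (P.cons (P.lf 0 1469836 0) (P.lf 69988 0 0)))) (P.cons (P.cons (P.lf 0 105024115 0) (P.cons (P.lf 0 6398132 0) (P.cons (P.lf 0 217071 0) (P.lf 10329 0 0)))) (P.cons (P.cons (P.lf 0 44541592 0) (P.cons (P.lf 1840033 0 0) (P.cons (P.lf 62423 0 0) P.nil))) (P.cons (P.cons (P.lf 4311215 0 0) (P.cons (P.lf 211308 0 0) P.nil)) (P.cons (P.cons (P.lf 1068276 0 0) P.nil) P.nil)))))) 207391)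
 (EL.cons 5 (TM.mk (P.cons (P.cons (P.lf 1729292292 0 0) (P.cons (P.lf 0 189480180 0) (P.cons (P.lf 0 6428836 0) (P.lf 306136 0 0)))) (P.cons (P.cons (P.lf 0 232953742 0) (P.cons (P.lf 2476960 0 0) (P.cons (P.lf 84034 0 0) (P.lf 0 3996 0)))) (P.cons (P.cons (P.lf 33757536 0 0) (P.cons (P.lf 0 713952 0) (P.cons (P.lf 0 24214 0) (P.lf 1146 0 0)))) (P.cons (P.cons (P.lf 0 2051062 0) (P.cons (P.lf 0 503650 0) (P.cons (P.lf 0 17082 0) P.nil))) (P.cons (P.cons (P.lf 0 3090432 0) (P.cons (P.lf 100348 0 0) P.nil)) (P.cons (P.cons (P.lf 225271 0 0) P.nil) P.nil)))))) 169063)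
 (EL.cons 9 (TM.mk (P.cons (P.cons (P.lf 2761292682 0 0) (P.cons (P.lf 0 275453718 0) (P.cons (P.lf 0 9345810 0) (P.lf 445032 0 0)))) (P.cons (P.cons (P.lf 0 381697894 0) (P.cons (P.lf 0 13255704 0) (P.cons (P.lf 0 449748 0) (P.lf 21414 0 0)))) (P.cons (P.cons (P.lf 0 108258738 0) (P.cons (P.lf 6309324 0 0) (P.cons (P.lf 214062 0 0) (P.lf 0 10188 0)))) (P.cons (P.cons (P.lf 15074970 0 0) (P.cons (P.lf 313140 0 0) (P.cons (P.lf 10620 0 0) P.nil))) (P.cons (P.cons (P.lf 1622016 0 0) (P.cons (P.lf 0 71634 0) P.nil)) (P.cons (P.cons (P.lf 0 153640 0) P.nil) P.nil)))))) 27599)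
 (EL.cons 2 (TM.mk (P.cons (P.cons (P.lf 262289775 0 0) (P.cons (P.lf 20274648 0 0) (P.cons (P.lf 0 1280151 0) (P.cons (P.lf 0 24004 0) (P.lf 855 0 0))))) (P.cons (P.cons (P.lf 0 251779696 0) (P.cons (P.lf 0 19462232 0) (P.cons (P.lf 1228857 0 0) (P.cons (P.lf 23042 0 0) (P.lf 0 821 0))))) (P.cons (P.cons (P.lf 0 15546442 0) (P.cons (P.lf 0 1201716 0) (P.cons (P.lf 75875 0 0) (P.cons (P.lf 1420 0 0) P.nil)))) (P.cons (P.cons (P.lf 4821058 0 0) (P.cons (P.lf 372659 0 0) (P.cons (P.lf 0 23529 0) P.nil))) (P.cons (P.cons (P.lf 264971 0 0) (P.cons (P.lf 20480 0 0) P.nil)) (P.cons (P.cons (P.lf 0 47233 0) P.nil) P.nil)))))) 10025)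
 (EL.cons 6 (TM.mk (P.cons (P.cons (P.lf 1229920242 0 0) (P.cons (P.lf 95071194 0 0) (P.cons (P.lf 0 6002853 0) (P.cons (P.lf 0 112560 0) (P.lf 4017 0 0))))) (P.cons (P.cons (P.lf 59187669 0 0) (P.cons (P.lf 4575126 0 0) (P.cons (P.lf 0 288873 0) (P.cons (P.lf 0 5415 0) (P.lf 192 0 0))))) (P.cons (P.cons (P.lf 0 28171584 0) (P.cons (P.lf 0 2177625 0) (P.cons (P.lf 137493 0 0) (P.cons (P.lf 2577 0 0) P.nil)))) (P.cons (P.cons (P.lf 0 1398219 0) (P.cons (P.lf 0 108078 0) (P.cons (P.lf 6822 0 0) P.nil))) (P.cons (P.cons (P.lf 319857 0 0) (P.cons (P.lf 24723 0 0) P.nil)) (P.cons (P.cons (P.lf 17352 0 0) P.nil) P.nil)))))) 7119)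
 EL.nil))))))
noncomputable def S227_256_364_401_2 : EL := (EL.cons 0 (TM.mk (P.cons (P.cons (P.lf 1840005332 0 0) (P.cons (P.lf 0 326177645 0) (P.cons (P.lf 3161034 0 0) (P.cons (P.lf 1492458 0 0) (P.cons (P.lf 0 29607 0) (P.cons (P.lf 0 1563 0) P.nil)))))) (P.cons (P.cons (P.lf 0 558404216 0) (P.cons (P.lf 9889159 0 0) (P.cons (P.lf 4145029 0 0) (P.cons (P.lf 242514 0 0) (P.cons (P.lf 0 7910 0) P.nil))))) (P.cons (P.cons (P.lf 0 325294630 0) (P.cons (P.lf 58960879 0 0) (P.cons (P.lf 435477 0 0) (P.cons (P.lf 0 201438 0) P.nil)))) (P.cons (P.cons (P.lf 100105527 0 0) (P.cons (P.lf 0 2590302 0) (P.cons (P.lf 0 409991 0) P.nil))) (P.cons (P.cons (P.lf 15750952 0 0) (P.cons (P.lf 0 3311010 0) P.nil)) (P.cons (P.cons (P.lf 0 5541391 0) P.nil) P.nil)))))) 2265244)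
 (EL.cons 1 (TM.mk (P.cons (P.cons (P.lf 619122832 0 0) (P.cons (P.lf 0 29125522 0) (P.cons (P.lf 0 4243732 0) (P.cons (P.lf 0 173855 0) (P.cons (P.lf 6769 0 0) (P.cons (P.lf 360 0 0) P.nil)))))) (P.cons (P.cons (P.lf 444996338 0 0) (P.cons (P.lf 0 89884225 0) (P.cons (P.lf 0 266249 0) (P.cons (P.lf 334094 0 0) (P.cons (P.lf 0 5787 0) P.nil))))) (P.cons (P.cons (P.lf 0 182678624 0) (P.cons (P.lf 5535130 0 0) (P.cons (P.lf 863971 0 0) (P.cons (P.lf 36934 0 0) P.nil)))) (P.cons (P.cons (P.lf 0 38874438 0) (P.cons (P.lf 8297428 0 0) (P.cons (P.lf 108103 0 0) P.nil))) (P.cons (P.cons (P.lf 14507355 0 0) (P.cons (P.lf 0 310494 0) P.nil)) (P.cons (P.cons (P.lf 1455937 0 0) P.nil) P.nil)))))) 1277534)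
 (EL.cons 5 (TM.mk (P.cons (P.cons (P.lf 687092889 0 0) (P.cons (P.lf 0 151632836 0) (P.cons (P.lf 3144109 0 0) (P.cons (P.lf 807440 0 0) (P.cons (P.lf 0 17232 0) (P.cons (P.lf 0 892 0) P.nil)))))) (P.cons (P.cons (P.lf 0 172281067 0) (P.cons (P.lf 20597506 0 0) (P.cons (P.lf 629033 0 0) (P.cons (P.lf 0 38006 0) (P.cons (P.lf 137 0 0) P.nil))))) (P.cons (P.cons (P.lf 36115288 0 0) (P.cons (P.lf 0 2562342 0) (P.cons (P.lf 0 111038 0) (P.cons (P.lf 2492 0 0) P.nil)))) (P.cons (P.cons (P.lf 0 6409042 0) (P.cons (P.lf 0 578155 0) (P.cons (P.lf 35125 0 0) P.nil))) (P.cons (P.cons (P.lf 0 3987249 0) (P.cons (P.lf 597770 0 0) P.nil)) (P.cons (P.cons (P.lf 1028975 0 0) P.nil) P.nil)))))) 1034181)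
 (EL.cons 9 (TM.mk (P.cons (P.cons (P.lf 1183514991 0 0) (P.cons (P.lf 0 236123904 0) (P.cons (P.lf 3765913 0 0) (P.cons (P.lf 1180668 0 0) (P.cons (P.lf 0 24498 0) (P.cons (P.lf 0 1290 0) P.nil)))))) (P.cons (P.cons (P.lf 0 327198331 0) (P.cons (P.lf 21276754 0 0) (P.cons (P.lf 1855419 0 0) (P.cons (P.lf 42540 0 0) (P.cons (P.lf 0 2356 0) P.nil))))) (P.cons (P.cons (P.lf 0 70186771 0) (P.cons (P.lf 16236625 0 0) (P.cons (P.lf 38634 0 0) (P.cons (P.lf 0 60985 0) P.nil)))) (P.cons (P.cons (P.lf 25750614 0 0) (P.cons (P.lf 0 1322787 0) (P.cons (P.lf 0 97624 0) P.nil))) (P.cons (P.cons (P.lf 1423294 0 0) (P.cons (P.lf 0 511291 0) P.nil)) (P.cons (P.cons (P.lf 0 830541 0) P.nil) P.nil)))))) 273701)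
 (EL.cons 2 (TM.mk (P.cons (P.cons (P.lf 224839530 0 0) (P.cons (P.lf 0 5049146 0) (P.cons (P.lf 0 3592080 0) (P.cons (P.lf 66301 0 0) (P.cons (P.lf 9298 0 0) (P.cons (P.lf 0 180 0) P.nil)))))) (P.cons (P.cons (P.lf 0 246910033 0) (P.cons (P.lf 1365035 0 0) (P.cons (P.lf 3479782 0 0) (P.cons (P.lf 0 56621 0) (P.cons (P.lf 0 8617 0) P.nil))))) (P.cons (P.cons (P.lf 7692823 0 0) (P.cons (P.lf 3473893 0 0) (P.cons (P.lf 282701 0 0) (P.cons (P.lf 0 11851 0) P.nil)))) (P.cons (P.cons (P.lf 15664145 0 0) (P.cons (P.lf 394875 0 0) (P.cons (P.lf 0 167203 0) P.nil))) (P.cons (P.cons (P.lf 0 867870 0) (P.cons (P.lf 0 170336 0) P.nil)) (P.cons (P.cons (P.lf 0 445955 0) P.nil) P.nil)))))) 168046)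
 (EL.cons 6 (TM.mk (P.cons (P.cons (P.lf 1054309854 0 0) (P.cons (P.lf 0 23676300 0) (P.cons (P.lf 0 16843884 0) (P.cons (P.lf 310908 0 0) (P.cons (P.lf 43614 0 0) (P.cons (P.lf 0 840 0) P.nil)))))) (P.cons (P.cons (P.lf 0 95002194 0) (P.cons (P.lf 0 17466060 0) (P.cons (P.lf 0 662220 0) (P.cons (P.lf 47904 0 0) (P.cons (P.lf 3552 0 0) P.nil))))) (P.cons (P.cons (P.lf 0 72497688 0) (P.cons (P.lf 0 1029510 0) (P.cons (P.lf 862638 0 0) (P.cons (P.lf 0 11082 0) P.nil)))) (P.cons (P.cons (P.lf 5906310 0 0) (P.cons (P.lf 927528 0 0) (P.cons (P.lf 23550 0 0) P.nil))) (P.cons (P.cons (P.lf 2282958 0 0) (P.cons (P.lf 78090 0 0) P.nil)) (P.cons (P.cons (P.lf 0 136728 0) P.nil) P.nil)))))) 122184)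
 EL.nil))))))
noncomputable def S227_256_364_401_3 : EL := (EL.cons 0 (TM.mk (P.cons (P.lf 96110806 0 0) (P.cons (P.lf 0 190686074 0) (P.cons (P.lf 92290364 0 0) (P.cons (P.lf 3016066 0 0) (P.cons (P.lf 0 708651 0) (P.cons (P.lf 0 26673 0) P.nil)))))) 4788)
 (EL.cons 1 (TM.mk (P.cons (P.lf 450679505 0 0) (P.cons (P.lf 0 439849933 0) (P.cons (P.lf 0 16100088 0) (P.cons (P.lf 5127871 0 0) (P.cons (P.lf 176304 0 0) (P.cons (P.lf 0 32482 0) P.nil)))))) 1651)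
 (EL.cons 5 (TM.mk (P.cons (P.lf 2113310914 0 0) (P.cons (P.lf 67799490 0 0) (P.cons (P.lf 0 32814348 0) (P.cons (P.lf 0 1072376 0) (P.cons (P.lf 251962 0 0) (P.cons (P.lf 9484 0 0) P.nil)))))) 1830)
 EL.nil)))
noncomputable def S227_256_364_401_4 : EL := (EL.cons 0 (TM.mk (P.cons (P.cons (P.lf 41193959 0 0) (P.cons (P.lf 0 4109317 0) (P.cons (P.lf 0 139422 0) (P.lf 6637 0 0)))) (P.cons (P.cons (P.lf 0 87424080 0) (P.cons (P.lf 7955228 0 0) (P.cons (P.lf 269910 0 0) (P.lf 0 12851 0)))) (P.cons (P.cons (P.lf 49239077 0 0) (P.cons (P.lf 0 3459498 0) (P.cons (P.lf 0 117376 0) (P.lf 5588 0 0)))) (P.cons (P.cons (P.lf 0 746064 0) (P.cons (P.lf 0 500920 0) (P.cons (P.lf 0 16994 0) P.nil))) (P.cons (P.cons (P.lf 0 2455268 0) (P.cons (P.lf 104138 0 0) P.nil)) (P.cons (P.cons (P.lf 145524 0 0) P.nil) P.nil)))))) 78283)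
 (EL.cons 1 (TM.mk (P.cons (P.cons (P.lf 193165306 0 0) (P.cons (P.lf 0 19269271 0) (P.cons (P.lf 0 653782 0) (P.lf 31130 0 0)))) (P.cons (P.cons (P.lf 0 215225203 0) (P.cons (P.lf 17878942 0 0) (P.cons (P.lf 606609 0 0) (P.lf 0 28884 0)))) (P.cons (P.cons (P.lf 11586076 0 0) (P.cons (P.lf 2034757 0 0) (P.cons (P.lf 69035 0 0) (P.lf 0 3285 0)))) (P.cons (P.cons (P.lf 11597527 0 0) (P.cons (P.lf 0 594975 0) (P.cons (P.lf 0 20186 0) P.nil))) (P.cons (P.cons (P.lf 0 873455 0) (P.cons (P.lf 0 60245 0) P.nil)) (P.cons (P.cons (P.lf 0 269696 0) P.nil) P.nil)))))) 53027)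
 (EL.cons 5 (TM.mk (P.cons (P.cons (P.lf 905784150 0 0) (P.cons (P.lf 0 90356814 0) (P.cons (P.lf 0 3065696 0) (P.lf 145982 0 0)))) (P.cons (P.cons (P.lf 0 96148512 0) (P.cons (P.lf 0 7247092 0) (P.cons (P.lf 0 245884 0) (P.lf 11706 0 0)))) (P.cons (P.cons (P.lf 0 53593470 0) (P.cons (P.lf 3333150 0 0) (P.cons (P.lf 113086 0 0) (P.lf 0 5382 0)))) (P.cons (P.cons (P.lf 5290258 0 0) (P.cons (P.lf 282484 0 0) (P.cons (P.lf 9582 0 0) P.nil))) (P.cons (P.cons (P.lf 1413654 0 0) (P.cons (P.lf 0 60904 0) P.nil)) (P.cons (P.cons (P.lf 0 102954 0) P.nil) P.nil)))))) 36590)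
 EL.nil)))
noncomputable def S227_256_364_401_5 : EL := (EL.cons 0 (TM.mk (P.cons (P.cons (P.lf 17656103 0 0) (P.cons (P.lf 0 3522580 0) (P.cons (P.lf 56179 0 0) (P.cons (P.lf 17613 0 0) (P.cons (P.lf 0 363 0) (P.cons (P.lf 0 17 0) P.nil)))))) (P.cons (P.cons (P.lf 0 39911380 0) (P.cons (P.lf 7306296 0 0) (P.cons (P.lf 0 83784 0) (P.cons (P.lf 0 34310 0) (P.cons (P.lf 689 0 0) P.nil))))) (P.cons (P.cons (P.lf 25591732 0 0) (P.cons (P.lf 0 3770089 0) (P.cons (P.lf 0 391 0) (P.cons (P.lf 14744 0 0) P.nil)))) (P.cons (P.cons (P.lf 0 1671590 0) (P.cons (P.lf 0 306056 0) (P.cons (P.lf 25741 0 0) P.nil))) (P.cons (P.cons (P.lf 0 2029754 0) (P.cons (P.lf 300053 0 0) P.nil)) (P.cons (P.cons (P.lf 312600 0 0) P.nil) P.nil)))))) 166599)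
 (EL.cons 1 (TM.mk (P.cons (P.cons (P.lf 82792395 0 0) (P.cons (P.lf 0 16517968 0) (P.cons (P.lf 263441 0 0) (P.cons (P.lf 82591 0 0) (P.cons (P.lf 0 1711 0) (P.cons (P.lf 0 90 0) P.nil)))))) (P.cons (P.cons (P.lf 0 103691990 0) (P.cons (P.lf 17609458 0 0) (P.cons (P.lf 0 127316 0) (P.cons (P.lf 0 77630 0) (P.cons (P.lf 1505 0 0) P.nil))))) (P.cons (P.cons (P.lf 14471467 0 0) (P.cons (P.lf 273273 0 0) (P.cons (P.lf 0 133383 0) (P.cons (P.lf 0 10119 0) P.nil)))) (P.cons (P.cons (P.lf 8352993 0 0) (P.cons (P.lf 0 1442182 0) (P.cons (P.lf 0 11105 0) P.nil))) (P.cons (P.cons (P.lf 0 1711166 0) (P.cons (P.lf 24440 0 0) P.nil)) (P.cons (P.cons (P.lf 0 290411 0) P.nil) P.nil)))))) 200187)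
 (EL.cons 5 (TM.mk (P.cons (P.cons (P.lf 388227270 0 0) (P.cons (P.lf 0 77455492 0) (P.cons (P.lf 1235328 0 0) (P.cons (P.lf 387292 0 0) (P.cons (P.lf 0 8034 0) (P.cons (P.lf 0 422 0) P.nil)))))) (P.cons (P.cons (P.lf 0 94875396 0) (P.cons (P.lf 4494456 0 0) (P.cons (P.lf 648262 0 0) (P.cons (P.lf 26378 0 0) (P.cons (P.lf 0 1030 0) P.nil))))) (P.cons (P.cons (P.lf 0 32494872 0) (P.cons (P.lf 6752684 0 0) (P.cons (P.lf 13016 0 0) (P.cons (P.lf 0 25570 0) P.nil)))) (P.cons (P.cons (P.lf 9177880 0 0) (P.cons (P.lf 0 332108 0) (P.cons (P.lf 0 41694 0) P.nil))) (P.cons (P.cons (P.lf 1196120 0 0) (P.cons (P.lf 0 277114 0) P.nil)) (P.cons (P.cons (P.lf 0 387992 0) P.nil) P.nil)))))) 146356)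
 EL.nil)))
noncomputable def S227_256_364_401_6 : EL := (EL.cons 12 (TM.mk (P.lf 8589934592 0 0) 0)
 (EL.cons 3 (TM.mk (P.cons (P.lf 0 454308690 0) (P.cons (P.lf 450679503 0 0) (P.cons (P.lf 5414782 0 0) (P.cons (P.lf 0 1756837 0) (P.cons (P.lf 0 35658 0) (P.cons (P.lf 6731 0 0) P.nil)))))) 269)
 (EL.cons 7 (TM.mk (P.cons (P.lf 0 2130328762 0) (P.cons (P.lf 0 34172730 0) (P.cons (P.lf 16813380 0 0) (P.cons (P.lf 270802 0 0) (P.cons (P.lf 0 64991 0) (P.cons (P.lf 0 1601 0) P.nil)))))) 330)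
 EL.nil)))
noncomputable def S227_256_364_401_7 : EL := (EL.cons 12 (TM.mk (P.cons (P.cons (P.lf 3681723576 0 0) (P.cons (P.lf 0 367271624 0) (P.cons (P.lf 0 12461080 0) (P.lf 593376 0 0)))) (P.cons (P.cons (P.lf 0 508930526 0) (P.cons (P.lf 0 17674272 0) (P.cons (P.lf 0 599664 0) (P.lf 28552 0 0)))) (P.cons (P.cons (P.lf 0 144344984 0) (P.cons (P.lf 8412432 0 0) (P.cons (P.lf 285416 0 0) (P.lf 0 13584 0)))) (P.cons (P.cons (P.lf 20099960 0 0) (P.cons (P.lf 417520 0 0) (P.cons (P.lf 14160 0 0) P.nil))) (P.cons (P.cons (P.lf 2162688 0 0) (P.cons (P.lf 0 95512 0) P.nil)) (P.cons (P.cons (P.lf 0 204854 0) P.nil) P.nil)))))) 36774)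
 (EL.cons 3 (TM.mk (P.cons (P.cons (P.lf 0 1872700191 0) (P.cons (P.lf 0 38848884 0) (P.cons (P.lf 0 1318094 0) (P.lf 62762 0 0)))) (P.cons (P.cons (P.lf 0 745261464 0) (P.cons (P.lf 36669012 0 0) (P.cons (P.lf 1244132 0 0) (P.lf 0 59242 0)))) (P.cons (P.cons (P.lf 181157648 0 0) (P.cons (P.lf 3207466 0 0) (P.cons (P.lf 108822 0 0) (P.lf 0 5180 0)))) (P.cons (P.cons (P.lf 24245837 0 0) (P.cons (P.lf 0 966516 0) (P.cons (P.lf 0 32790 0) P.nil))) (P.cons (P.cons (P.lf 0 3009833 0) (P.cons (P.lf 0 74796 0) P.nil)) (P.cons (P.cons (P.lf 0 385657 0) P.nil) P.nil)))))) 134924)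
 (EL.cons 7 (TM.mk (P.cons (P.cons (P.lf 0 785845532 0) (P.cons (P.lf 95503007 0 0) (P.cons (P.lf 3240306 0 0) (P.lf 0 154304 0)))) (P.cons (P.cons (P.lf 56509384 0 0) (P.cons (P.lf 0 2780423 0) (P.cons (P.lf 0 94335 0) (P.lf 4491 0 0)))) (P.cons (P.cons (P.lf 0 42218474 0) (P.cons (P.lf 1158199 0 0) (P.cons (P.lf 39293 0 0) (P.lf 0 1869 0)))) (P.cons (P.cons (P.lf 7621556 0 0) (P.cons (P.lf 225469 0 0) (P.cons (P.lf 7647 0 0) P.nil))) (P.cons (P.cons (P.lf 1476016 0 0) (P.cons (P.lf 0 48321 0) P.nil)) (P.cons (P.cons (P.lf 0 144427 0) P.nil) P.nil)))))) 86210)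
 (EL.cons 10 (TM.mk (P.cons (P.cons (P.lf 0 2479648833 0) (P.cons (P.lf 0 191673552 0) (P.cons (P.lf 12102387 0 0) (P.cons (P.lf 226938 0 0) (P.lf 0 8103 0))))) (P.cons (P.cons (P.lf 0 79552386 0) (P.cons (P.lf 0 6149292 0) (P.cons (P.lf 388269 0 0) (P.cons (P.lf 7278 0 0) (P.lf 0 258 0))))) (P.cons (P.cons (P.lf 38502642 0 0) (P.cons (P.lf 2976201 0 0) (P.cons (P.lf 0 187917 0) (P.cons (P.lf 0 3522 0) P.nil)))) (P.cons (P.cons (P.lf 1258269 0 0) (P.cons (P.lf 97260 0 0) (P.cons (P.lf 0 6141 0) P.nil))) (P.cons (P.cons (P.lf 0 295638 0) (P.cons (P.lf 0 22851 0) P.nil)) (P.cons (P.cons (P.lf 0 11127 0) P.nil) P.nil)))))) 5067)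
 EL.nil))))
noncomputable def S227_256_364_401_8 : EL := (EL.cons 12 (TM.mk (P.cons (P.cons (P.lf 1578019988 0 0) (P.cons (P.lf 0 314831872 0) (P.cons (P.lf 5021218 0 0) (P.cons (P.lf 1574224 0 0) (P.cons (P.lf 0 32664 0) (P.cons (P.lf 0 1720 0) P.nil)))))) (P.cons (P.cons (P.lf 0 436264442 0) (P.cons (P.lf 28369006 0 0) (P.cons (P.lf 2473892 0 0) (P.cons (P.lf 56720 0 0) (P.cons (P.lf 0 3142 0) P.nil))))) (P.cons (P.cons (P.lf 0 93582362 0) (P.cons (P.lf 21648834 0 0) (P.cons (P.lf 51512 0 0) (P.cons (P.lf 0 81314 0) P.nil)))) (P.cons (P.cons (P.lf 34334152 0 0) (P.cons (P.lf 0 1763716 0) (P.cons (P.lf 0 130166 0) P.nil))) (P.cons (P.cons (P.lf 1897726 0 0) (P.cons (P.lf 0 681722 0) P.nil)) (P.cons (P.cons (P.lf 0 1107388 0) P.nil) P.nil)))))) 364906)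
 (EL.cons 3 (TM.mk (P.cons (P.cons (P.lf 0 1521853341 0) (P.cons (P.lf 110185552 0 0) (P.cons (P.lf 7891023 0 0) (P.cons (P.lf 103757 0 0) (P.cons (P.lf 0 8636 0) (P.cons (P.lf 0 456 0) P.nil)))))) (P.cons (P.cons (P.lf 0 522812454 0) (P.cons (P.lf 125490317 0 0) (P.cons (P.lf 538003 0 0) (P.cons (P.lf 0 455152 0) (P.cons (P.lf 7736 0 0) P.nil))))) (P.cons (P.cons (P.lf 323483563 0 0) (P.cons (P.lf 0 16527267 0) (P.cons (P.lf 0 1187335 0) (P.cons (P.lf 0 15816 0) P.nil)))) (P.cons (P.cons (P.lf 22923957 0 0) (P.cons (P.lf 0 8394706 0) (P.cons (P.lf 0 112941 0) P.nil))) (P.cons (P.cons (P.lf 0 17696829 0) (P.cons (P.lf 623617 0 0) P.nil)) (P.cons (P.cons (P.lf 0 428907 0) P.nil) P.nil)))))) 1340781)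
 (EL.cons 7 (TM.mk (P.cons (P.cons (P.lf 0 282287448 0) (P.cons (P.lf 70986979 0 0) (P.cons (P.lf 0 1863744 0) (P.cons (P.lf 0 404596 0) (P.cons (P.lf 8886 0 0) (P.cons (P.lf 462 0 0) P.nil)))))) (P.cons (P.cons (P.lf 39642213 0 0) (P.cons (P.lf 0 9515290 0) (P.cons (P.lf 0 40797 0) (P.cons (P.lf 34511 0 0) (P.cons (P.lf 0 585 0) P.nil))))) (P.cons (P.cons (P.lf 0 44508823 0) (P.cons (P.lf 6049129 0 0) (P.cons (P.lf 110584 0 0) (P.cons (P.lf 0 16189 0) P.nil)))) (P.cons (P.cons (P.lf 14906011 0 0) (P.cons (P.lf 0 244173 0) (P.cons (P.lf 0 52101 0) P.nil))) (P.cons (P.cons (P.lf 2465875 0 0) (P.cons (P.lf 0 511021 0) P.nil)) (P.cons (P.cons (P.lf 0 1020833 0) P.nil) P.nil)))))) 627597)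
 (EL.cons 10 (TM.mk (P.cons (P.cons (P.lf 0 2125599786 0) (P.cons (P.lf 47733918 0 0) (P.cons (P.lf 33959046 0 0) (P.cons (P.lf 0 626832 0) (P.cons (P.lf 0 87942 0) (P.cons (P.lf 1704 0 0) P.nil)))))) (P.cons (P.cons (P.lf 225631308 0 0) (P.cons (P.lf 34447722 0 0) (P.cons (P.lf 790374 0 0) (P.cons (P.lf 0 86526 0) (P.cons (P.lf 0 5754 0) P.nil))))) (P.cons (P.cons (P.lf 125767566 0 0) (P.cons (P.lf 1899768 0 0) (P.cons (P.lf 0 1483830 0) (P.cons (P.lf 18786 0 0) P.nil)))) (P.cons (P.cons (P.lf 0 12414624 0) (P.cons (P.lf 0 1622538 0) (P.cons (P.lf 0 13134 0) P.nil))) (P.cons (P.cons (P.lf 0 3317412 0) (P.cons (P.lf 0 113502 0) P.nil)) (P.cons (P.cons (P.lf 241602 0 0) P.nil) P.nil)))))) 170184)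
 EL.nil))))
noncomputable def S227_256_364_401_9 : EL := (EL.cons 3 (TM.mk (P.cons (P.lf 0 454308690 0) (P.cons (P.lf 450679503 0 0) (P.cons (P.lf 5414782 0 0) (P.cons (P.lf 0 1756837 0) (P.cons (P.lf 0 35658 0) (P.cons (P.lf 6731 0 0) P.nil)))))) 269)
 (EL.cons 7 (TM.mk (P.cons (P.lf 0 2130328762 0) (P.cons (P.lf 0 34172730 0) (P.cons (P.lf 16813380 0 0) (P.cons (P.lf 270802 0 0) (P.cons (P.lf 0 64991 0) (P.cons (P.lf 0 1601 0) P.nil)))))) 330)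
 EL.nil))
noncomputable def S227_256_364_401_10 : EL := (EL.cons 3 (TM.mk (P.cons (P.cons (P.lf 0 194720808 0) (P.cons (P.lf 19424442 0 0) (P.cons (P.lf 659047 0 0) (P.lf 0 31381 0)))) (P.cons (P.cons (P.lf 220081875 0 0) (P.cons (P.lf 0 18334506 0) (P.cons (P.lf 0 622066 0) (P.lf 29621 0 0)))) (P.cons (P.cons (P.lf 0 16746535 0) (P.cons (P.lf 0 1603733 0) (P.cons (P.lf 0 54411 0) (P.lf 2590 0 0)))) (P.cons (P.cons (P.lf 0 9710068 0) (P.cons (P.lf 483258 0 0) (P.cons (P.lf 16395 0 0) P.nil))) (P.cons (P.cons (P.lf 937996 0 0) (P.cons (P.lf 37398 0 0) P.nil)) (P.cons (P.cons (P.lf 171491 0 0) P.nil) P.nil)))))) 31777)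
 (EL.cons 7 (TM.mk (P.cons (P.cons (P.lf 0 913078154 0) (P.cons (P.lf 91084430 0 0) (P.cons (P.lf 3090384 0 0) (P.lf 0 147158 0)))) (P.cons (P.cons (P.lf 111569509 0 0) (P.cons (P.lf 5844361 0 0) (P.cons (P.lf 198291 0 0) (P.lf 0 9441 0)))) (P.cons (P.cons (P.lf 45028984 0 0) (P.cons (P.lf 0 2734868 0) (P.cons (P.lf 0 92788 0) (P.lf 4416 0 0)))) (P.cons (P.cons (P.lf 0 5290690 0) (P.cons (P.lf 0 183185 0) (P.cons (P.lf 0 6213 0) P.nil))) (P.cons (P.cons (P.lf 0 942746 0) (P.cons (P.lf 40713 0 0) P.nil)) (P.cons (P.cons (P.lf 80156 0 0) P.nil) P.nil)))))) 19963)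
 EL.nil))
noncomputable def S227_256_364_401_11 : EL := (EL.cons 3 (TM.mk (P.cons (P.cons (P.lf 0 83459097 0) (P.cons (P.lf 16650982 0 0) (P.cons (P.lf 0 265563 0) (P.cons (P.lf 0 83257 0) (P.cons (P.lf 1726 0 0) (P.cons (P.lf 90 0 0) P.nil)))))) (P.cons (P.cons (P.lf 105865764 0 0) (P.cons (P.lf 0 18018361 0) (P.cons (P.lf 132601 0 0) (P.cons (P.lf 79592 0 0) (P.cons (P.lf 0 1546 0) P.nil))))) (P.cons (P.cons (P.lf 0 16944893 0) (P.cons (P.lf 144975 0 0) (P.cons (P.lf 130235 0 0) (P.cons (P.lf 8268 0 0) P.nil)))) (P.cons (P.cons (P.lf 0 7323519 0) (P.cons (P.lf 1311380 0 0) (P.cons (P.lf 10119 0 0) P.nil))) (P.cons (P.cons (P.lf 1724691 0 0) (P.cons (P.lf 0 47327 0) P.nil)) (P.cons (P.cons (P.lf 201963 0 0) P.nil) P.nil)))))) 162755)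
 (EL.cons 7 (TM.mk (P.cons (P.cons (P.lf 0 391353546 0) (P.cons (P.lf 78079219 0 0) (P.cons (P.lf 0 1245276 0) (P.cons (P.lf 0 390412 0) (P.cons (P.lf 8100 0 0) (P.cons (P.lf 426 0 0) P.nil)))))) (P.cons (P.cons (P.lf 101917125 0 0) (P.cons (P.lf 0 5783122 0) (P.cons (P.lf 0 633507 0) (P.cons (P.lf 0 20329 0) (P.cons (P.lf 909 0 0) P.nil))))) (P.cons (P.cons (P.lf 28032971 0 0) (P.cons (P.lf 0 6098063 0) (P.cons (P.lf 0 12788 0) (P.cons (P.lf 23021 0 0) P.nil)))) (P.cons (P.cons (P.lf 0 8946845 0) (P.cons (P.lf 396885 0 0) (P.cons (P.lf 37077 0 0) P.nil))) (P.cons (P.cons (P.lf 0 816095 0) (P.cons (P.lf 221735 0 0) P.nil)) (P.cons (P.cons (P.lf 334345 0 0) P.nil) P.nil)))))) 115853)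
 EL.nil))
noncomputable def S227_256_364_401_12 : EL := (EL.cons 4 (TM.mk (P.cons (P.lf 454308690 0 0) (P.cons (P.lf 0 450679503 0) (P.cons (P.lf 0 5414782 0) (P.cons (P.lf 1756837 0 0) (P.cons (P.lf 35658 0 0) (P.cons (P.lf 0 6731 0) P.nil)))))) 269)
 (EL.cons 8 (TM.mk (P.cons (P.lf 2130328762 0 0) (P.cons (P.lf 34172730 0 0) (P.cons (P.lf 0 16813380 0) (P.cons (P.lf 0 270802 0) (P.cons (P.lf 64991 0 0) (P.cons (P.lf 1601 0 0) P.nil)))))) 330)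
 EL.nil))
noncomputable def S227_256_364_401_13 : EL := (EL.cons 4 (TM.mk (P.cons (P.cons (P.lf 194720808 0 0) (P.cons (P.lf 0 19424442 0) (P.cons (P.lf 0 659047 0) (P.lf 31381 0 0)))) (P.cons (P.cons (P.lf 0 220081875 0) (P.cons (P.lf 18334506 0 0) (P.cons (P.lf 622066 0 0) (P.lf 0 29621 0)))) (P.cons (P.cons (P.lf 16746535 0 0) (P.cons (P.lf 1603733 0 0) (P.cons (P.lf 54411 0 0) (P.lf 0 2590 0)))) (P.cons (P.cons (P.lf 9710068 0 0) (P.cons (P.lf 0 483258 0) (P.cons (P.lf 0 16395 0) P.nil))) (P.cons (P.cons (P.lf 0 937996 0) (P.cons (P.lf 0 37398 0) P.nil)) (P.cons (P.cons (P.lf 0 171491 0) P.nil) P.nil)))))) 31777)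
 (EL.cons 8 (TM.mk (P.cons (P.cons (P.lf 913078154 0 0) (P.cons (P.lf 0 91084430 0) (P.cons (P.lf 0 3090384 0) (P.lf 147158 0 0)))) (P.cons (P.cons (P.lf 0 111569509 0) (P.cons (P.lf 0 5844361 0) (P.cons (P.lf 0 198291 0) (P.lf 9441 0 0)))) (P.cons (P.cons (P.lf 0 45028984 0) (P.cons (P.lf 2734868 0 0) (P.cons (P.lf 92788 0 0) (P.lf 0 4416 0)))) (P.cons (P.cons (P.lf 5290690 0 0) (P.cons (P.lf 183185 0 0) (P.cons (P.lf 6213 0 0) P.nil))) (P.cons (P.cons (P.lf 942746 0 0) (P.cons (P.lf 0 40713 0) P.nil)) (P.cons (P.cons (P.lf 0 80156 0) P.nil) P.nil)))))) 19963)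
 EL.nil))
noncomputable def S227_256_364_401_14 : EL := (EL.cons 4 (TM.mk (P.cons (P.cons (P.lf 83459097 0 0) (P.cons (P.lf 0 16650982 0) (P.cons (P.lf 265563 0 0) (P.cons (P.lf 83257 0 0) (P.cons (P.lf 0 1726 0) (P.cons (P.lf 0 90 0) P.nil)))))) (P.cons (P.cons (P.lf 0 105865764 0) (P.cons (P.lf 18018361 0 0) (P.cons (P.lf 0 132601 0) (P.cons (P.lf 0 79592 0) (P.cons (P.lf 1546 0 0) P.nil))))) (P.cons (P.cons (P.lf 16944893 0 0) (P.cons (P.lf 0 144975 0) (P.cons (P.lf 0 130235 0) (P.cons (P.lf 0 8268 0) P.nil)))) (P.cons (P.cons (P.lf 7323519 0 0) (P.cons (P.lf 0 1311380 0) (P.cons (P.lf 0 10119 0) P.nil))) (P.cons (P.cons (P.lf 0 1724691 0) (P.cons (P.lf 47327 0 0) P.nil)) (P.cons (P.cons (P.lf 0 201963 0) P.nil) P.nil)))))) 162755)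
 (EL.cons 8 (TM.mk (P.cons (P.cons (P.lf 391353546 0 0) (P.cons (P.lf 0 78079219 0) (P.cons (P.lf 1245276 0 0) (P.cons (P.lf 390412 0 0) (P.cons (P.lf 0 8100 0) (P.cons (P.lf 0 426 0) P.nil)))))) (P.cons (P.cons (P.lf 0 101917125 0) (P.cons (P.lf 5783122 0 0) (P.cons (P.lf 633507 0 0) (P.cons (P.lf 20329 0 0) (P.cons (P.lf 0 909 0) P.nil))))) (P.cons (P.cons (P.lf 0 28032971 0) (P.cons (P.lf 6098063 0 0) (P.cons (P.lf 12788 0 0) (P.cons (P.lf 0 23021 0) P.nil)))) (P.cons (P.cons (P.lf 8946845 0 0) (P.cons (P.lf 0 396885 0) (P.cons (P.lf 0 37077 0) P.nil))) (P.cons (P.cons (P.lf 816095 0 0) (P.cons (P.lf 0 221735 0) P.nil)) (P.cons (P.cons (P.lf 0 334345 0) P.nil) P.nil)))))) 115853)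
 EL.nil))
noncomputable def S227_256_364_401_15 : EL := (EL.cons 4 (TM.mk (P.cons (P.lf 0 51259096 0) (P.cons (P.lf 101699239 0 0) (P.cons (P.lf 0 49221527 0) (P.cons (P.lf 0 1608569 0) (P.cons (P.lf 377947 0 0) (P.cons (P.lf 14225 0 0) P.nil)))))) 2557)
 (EL.cons 8 (TM.mk (P.cons (P.lf 0 240362403 0) (P.cons (P.lf 234586631 0 0) (P.cons (P.lf 8586714 0 0) (P.cons (P.lf 0 2734865 0) (P.cons (P.lf 0 94029 0) (P.cons (P.lf 17324 0 0) P.nil)))))) 877)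
 EL.nil))
noncomputable def S227_256_364_401_16 : EL := (EL.cons 4 (TM.mk (P.cons (P.cons (P.lf 0 21970111 0) (P.cons (P.lf 2191635 0 0) (P.cons (P.lf 74358 0 0) (P.lf 0 3540 0)))) (P.cons (P.cons (P.lf 46626176 0 0) (P.cons (P.lf 0 4242788 0) (P.cons (P.lf 0 143952 0) (P.lf 6854 0 0)))) (P.cons (P.cons (P.lf 0 26260841 0) (P.cons (P.lf 1845065 0 0) (P.cons (P.lf 62600 0 0) (P.lf 0 2980 0)))) (P.cons (P.cons (P.lf 397901 0 0) (P.cons (P.lf 267157 0 0) (P.cons (P.lf 9063 0 0) P.nil))) (P.cons (P.cons (P.lf 1309476 0 0) (P.cons (P.lf 0 55540 0) P.nil)) (P.cons (P.cons (P.lf 0 77612 0) P.nil) P.nil)))))) 41760)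
 (EL.cons 8 (TM.mk (P.cons (P.cons (P.lf 0 103021497 0) (P.cons (P.lf 10276945 0 0) (P.cons (P.lf 348684 0 0) (P.lf 0 16603 0)))) (P.cons (P.cons (P.lf 114786775 0 0) (P.cons (P.lf 0 9535436 0) (P.cons (P.lf 0 323525 0) (P.lf 15405 0 0)))) (P.cons (P.cons (P.lf 0 6179241 0) (P.cons (P.lf 0 1085204 0) (P.cons (P.lf 0 36819 0) (P.lf 1752 0 0)))) (P.cons (P.cons (P.lf 0 6185348 0) (P.cons (P.lf 317320 0 0) (P.cons (P.lf 10766 0 0) P.nil))) (P.cons (P.cons (P.lf 465843 0 0) (P.cons (P.lf 32131 0 0) P.nil)) (P.cons (P.cons (P.lf 143838 0 0) P.nil) P.nil)))))) 28271)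
 EL.nil))
noncomputable def S227_256_364_401_17 : EL := (EL.cons 4 (TM.mk (P.cons (P.cons (P.lf 0 9416588 0) (P.cons (P.lf 1878709 0 0) (P.cons (P.lf 0 29962 0) (P.cons (P.lf 0 9393 0) (P.cons (P.lf 194 0 0) (P.cons (P.lf 9 0 0) P.nil)))))) (P.cons (P.cons (P.lf 21286069 0 0) (P.cons (P.lf 0 3896691 0) (P.cons (P.lf 44685 0 0) (P.cons (P.lf 18299 0 0) (P.cons (P.lf 0 367 0) P.nil))))) (P.cons (P.cons (P.lf 0 13648923 0) (P.cons (P.lf 2010714 0 0) (P.cons (P.lf 209 0 0) (P.cons (P.lf 0 7863 0) P.nil)))) (P.cons (P.cons (P.lf 891514 0 0) (P.cons (P.lf 163230 0 0) (P.cons (P.lf 0 13728 0) P.nil))) (P.cons (P.cons (P.lf 1082535 0 0) (P.cons (P.lf 0 160028 0) P.nil)) (P.cons (P.cons (P.lf 0 166720 0) P.nil) P.nil)))))) 88863)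
 (EL.cons 8 (TM.mk (P.cons (P.cons (P.lf 0 44155944 0) (P.cons (P.lf 8809583 0 0) (P.cons (P.lf 0 140502 0) (P.cons (P.lf 0 44049 0) (P.cons (P.lf 913 0 0) (P.cons (P.lf 48 0 0) P.nil)))))) (P.cons (P.cons (P.lf 55302395 0 0) (P.cons (P.lf 0 9391711 0) (P.cons (P.lf 67902 0 0) (P.cons (P.lf 41403 0 0) (P.cons (P.lf 0 803 0) P.nil))))) (P.cons (P.cons (P.lf 0 7718116 0) (P.cons (P.lf 0 145746 0) (P.cons (P.lf 71138 0 0) (P.cons (P.lf 5397 0 0) P.nil)))) (P.cons (P.cons (P.lf 0 4454930 0) (P.cons (P.lf 769164 0 0) (P.cons (P.lf 5923 0 0) P.nil))) (P.cons (P.cons (P.lf 912622 0 0) (P.cons (P.lf 0 13035 0) P.nil)) (P.cons (P.cons (P.lf 154886 0 0) P.nil) P.nil)))))) 106755)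
 EL.nil))
noncomputable def S227_256_364_401_18 : EL := (EL.cons 4 (TM.mk (P.cons (P.lf 5783501 0 0) (P.cons (P.lf 0 17211901 0) (P.cons (P.lf 16867610 0 0) (P.cons (P.lf 0 5168619 0) (P.cons (P.lf 0 332796 0) (P.cons (P.lf 59024 0 0) P.nil)))))) 4306)
 (EL.cons 8 (TM.mk (P.cons (P.lf 27119797 0 0) (P.cons (P.lf 0 53371278 0) (P.cons (P.lf 24964624 0 0) (P.cons (P.lf 1690000 0 0) (P.cons (P.lf 0 384174 0) (P.cons (P.lf 0 22382 0) P.nil)))))) 4185)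
 EL.nil))
noncomputable def S227_256_364_401_19 : EL := (EL.cons 4 (TM.mk (P.cons (P.cons (P.lf 2478860 0 0) (P.cons (P.lf 0 247278 0) (P.cons (P.lf 0 8389 0) (P.lf 399 0 0)))) (P.cons (P.cons (P.lf 0 7719833 0) (P.cons (P.lf 724012 0 0) (P.cons (P.lf 24564 0 0) (P.lf 0 1169 0)))) (P.cons (P.cons (P.lf 8152183 0 0) (P.cons (P.lf 0 680113 0) (P.cons (P.lf 0 23074 0) (P.lf 1098 0 0)))) (P.cons (P.cons (P.lf 0 2911915 0) (P.cons (P.lf 169708 0 0) (P.cons (P.lf 5757 0 0) P.nil))) (P.cons (P.cons (P.lf 0 158673 0) (P.cons (P.lf 40481 0 0) P.nil)) (P.cons (P.cons (P.lf 166866 0 0) P.nil) P.nil)))))) 44895)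
 (EL.cons 8 (TM.mk (P.cons (P.cons (P.lf 11623790 0 0) (P.cons (P.lf 0 1159535 0) (P.cons (P.lf 0 39341 0) (P.lf 1872 0 0)))) (P.cons (P.cons (P.lf 0 24482187 0) (P.cons (P.lf 2226144 0 0) (P.cons (P.lf 75530 0 0) (P.lf 0 3596 0)))) (P.cons (P.cons (P.lf 13406448 0 0) (P.cons (P.lf 0 931014 0) (P.cons (P.lf 0 31588 0) (P.lf 1503 0 0)))) (P.cons (P.cons (P.lf 205571 0 0) (P.cons (P.lf 0 174573 0) (P.cons (P.lf 0 5922 0) P.nil))) (P.cons (P.cons (P.lf 0 802351 0) (P.cons (P.lf 34501 0 0) P.nil)) (P.cons (P.cons (P.lf 29100 0 0) P.nil) P.nil)))))) 32231)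
 EL.nil))
noncomputable def S227_256_364_401_20 : EL := (EL.cons 4 (TM.mk (P.cons (P.cons (P.lf 1062461 0 0) (P.cons (P.lf 0 211972 0) (P.cons (P.lf 3380 0 0) (P.cons (P.lf 1059 0 0) (P.cons (P.lf 0 21 0) (P.cons (P.lf 0 0 0) P.nil)))))) (P.cons (P.cons (P.lf 0 3455655 0) (P.cons (P.lf 649937 0 0) (P.cons (P.lf 0 8395 0) (P.cons (P.lf 0 3115 0) (P.cons (P.lf 62 0 0) P.nil))))) (P.cons (P.cons (P.lf 3909824 0 0) (P.cons (P.lf 0 660486 0) (P.cons (P.lf 4936 0 0) (P.cons (P.lf 2922 0 0) P.nil)))) (P.cons (P.cons (P.lf 0 1595543 0) (P.cons (P.lf 200577 0 0) (P.cons (P.lf 1645 0 0) P.nil))) (P.cons (P.cons (P.lf 0 49914 0) (P.cons (P.lf 40712 0 0) P.nil)) (P.cons (P.cons (P.lf 146925 0 0) P.nil) P.nil)))))) 72228)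
 (EL.cons 8 (TM.mk (P.cons (P.cons (P.lf 4982061 0 0) (P.cons (P.lf 0 993974 0) (P.cons (P.lf 15852 0 0) (P.cons (P.lf 4969 0 0) (P.cons (P.lf 0 102 0) (P.cons (P.lf 0 4 0) P.nil)))))) (P.cons (P.cons (P.lf 0 11181964 0) (P.cons (P.lf 2045689 0 0) (P.cons (P.lf 0 23387 0) (P.cons (P.lf 0 9601 0) (P.cons (P.lf 192 0 0) P.nil))))) (P.cons (P.cons (P.lf 7001302 0 0) (P.cons (P.lf 0 1022898 0) (P.cons (P.lf 0 614 0) (P.cons (P.lf 3965 0 0) P.nil)))) (P.cons (P.cons (P.lf 0 267589 0) (P.cons (P.lf 0 119570 0) (P.cons (P.lf 7446 0 0) P.nil))) (P.cons (P.cons (P.lf 0 635716 0) (P.cons (P.lf 91385 0 0) P.nil)) (P.cons (P.cons (P.lf 81484 0 0) P.nil) P.nil)))))) 58540)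
 EL.nil))
noncomputable def S227_256_364_401_21 : EL := (EL.cons 4 (TM.mk (P.cons (P.cons (P.lf 1677979383 0 0) (P.cons (P.lf 58273326 0 0) (P.cons (P.lf 1977141 0 0) (P.lf 0 94143 0)))) (P.cons (P.cons (P.lf 965343339 0 0) (P.cons (P.lf 0 55003518 0) (P.cons (P.lf 0 1866198 0) (P.lf 88863 0 0)))) (P.cons (P.cons (P.lf 0 197904183 0) (P.cons (P.lf 0 4811199 0) (P.cons (P.lf 0 163233 0) (P.lf 7770 0 0)))) (P.cons (P.cons (P.lf 0 33955905 0) (P.cons (P.lf 1449774 0 0) (P.cons (P.lf 49185 0 0) P.nil))) (P.cons (P.cons (P.lf 3947829 0 0) (P.cons (P.lf 112194 0 0) P.nil)) (P.cons (P.cons (P.lf 557148 0 0) P.nil) P.nil)))))) 103128)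
 (EL.cons 8 (TM.mk (P.cons (P.cons (P.lf 0 127232622 0) (P.cons (P.lf 0 4418577 0) (P.cons (P.lf 0 149922 0) (P.lf 7146 0 0)))) (P.cons (P.cons (P.lf 55060125 0 0) (P.cons (P.lf 8624784 0 0) (P.cons (P.lf 292626 0 0) (P.lf 0 13932 0)))) (P.cons (P.cons (P.lf 87247458 0 0) (P.cons (P.lf 0 3893067 0) (P.cons (P.lf 0 132081 0) (P.lf 6285 0 0)))) (P.cons (P.cons (P.lf 0 12912246 0) (P.cons (P.lf 0 408654 0) (P.cons (P.lf 0 13860 0) P.nil))) (P.cons (P.cons (P.lf 0 2418762 0) (P.cons (P.lf 89034 0 0) P.nil)) (P.cons (P.cons (P.lf 224583 0 0) P.nil) P.nil)))))) 66228)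
 (EL.cons 11 (TM.mk (P.cons (P.cons (P.lf 2479648833 0 0) (P.cons (P.lf 191673552 0 0) (P.cons (P.lf 0 12102387 0) (P.cons (P.lf 0 226938 0) (P.lf 8103 0 0))))) (P.cons (P.cons (P.lf 79552386 0 0) (P.cons (P.lf 6149292 0 0) (P.cons (P.lf 0 388269 0) (P.cons (P.lf 0 7278 0) (P.lf 258 0 0))))) (P.cons (P.cons (P.lf 0 38502642 0) (P.cons (P.lf 0 2976201 0) (P.cons (P.lf 187917 0 0) (P.cons (P.lf 3522 0 0) P.nil)))) (P.cons (P.cons (P.lf 0 1258269 0) (P.cons (P.lf 0 97260 0) (P.cons (P.lf 6141 0 0) P.nil))) (P.cons (P.cons (P.lf 295638 0 0) (P.cons (P.lf 22851 0 0) P.nil)) (P.cons (P.cons (P.lf 11127 0 0) P.nil) P.nil)))))) 5067)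
 EL.nil)))
noncomputable def S227_256_364_401_22 : EL := (EL.cons 4 (TM.mk (P.cons (P.cons (P.lf 719197122 0 0) (P.cons (P.lf 0 46767285 0) (P.cons (P.lf 0 4078293 0) (P.cons (P.lf 0 93507 0) (P.cons (P.lf 5181 0 0) (P.cons (P.lf 273 0 0) P.nil)))))) (P.cons (P.cons (P.lf 314339109 0 0) (P.cons (P.lf 0 71754339 0) (P.cons (P.lf 0 202701 0) (P.cons (P.lf 267372 0 0) (P.cons (P.lf 0 4641 0) P.nil))))) (P.cons (P.cons (P.lf 0 170214228 0) (P.cons (P.lf 8336121 0 0) (P.cons (P.lf 658785 0 0) (P.cons (P.lf 12042 0 0) P.nil)))) (P.cons (P.cons (P.lf 0 15123738 0) (P.cons (P.lf 4853043 0 0) (P.cons (P.lf 61530 0 0) P.nil))) (P.cons (P.cons (P.lf 9710760 0 0) (P.cons (P.lf 0 335472 0) P.nil)) (P.cons (P.cons (P.lf 315435 0 0) P.nil) P.nil)))))) 589002)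
 (EL.cons 8 (TM.mk (P.cons (P.cons (P.lf 0 54533049 0) (P.cons (P.lf 3546120 0 0) (P.cons (P.lf 309234 0 0) (P.cons (P.lf 7092 0 0) (P.cons (P.lf 0 393 0) (P.cons (P.lf 0 18 0) P.nil)))))) (P.cons (P.cons (P.lf 31137456 0 0) (P.cons (P.lf 1866084 0 0) (P.cons (P.lf 0 296355 0) (P.cons (P.lf 0 27420 0) (P.cons (P.lf 747 0 0) P.nil))))) (P.cons (P.cons (P.lf 36270897 0 0) (P.cons (P.lf 0 6073596 0) (P.cons (P.lf 0 61686 0) (P.cons (P.lf 19605 0 0) P.nil)))) (P.cons (P.cons (P.lf 0 11926428 0) (P.cons (P.lf 320529 0 0) (P.cons (P.lf 44589 0 0) P.nil))) (P.cons (P.cons (P.lf 0 1640985 0) (P.cons (P.lf 366378 0 0) P.nil)) (P.cons (P.cons (P.lf 677589 0 0) P.nil) P.nil)))))) 255861)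
 (EL.cons 11 (TM.mk (P.cons (P.cons (P.lf 1062799893 0 0) (P.cons (P.lf 0 23866959 0) (P.cons (P.lf 0 16979523 0) (P.cons (P.lf 313416 0 0) (P.cons (P.lf 43971 0 0) (P.cons (P.lf 0 852 0) P.nil)))))) (P.cons (P.cons (P.lf 0 112815654 0) (P.cons (P.lf 0 17223861 0) (P.cons (P.lf 0 395187 0) (P.cons (P.lf 43263 0 0) (P.cons (P.lf 2877 0 0) P.nil))))) (P.cons (P.cons (P.lf 0 62883783 0) (P.cons (P.lf 0 949884 0) (P.cons (P.lf 741915 0 0) (P.cons (P.lf 0 9393 0) P.nil)))) (P.cons (P.cons (P.lf 6207312 0 0) (P.cons (P.lf 811269 0 0) (P.cons (P.lf 6567 0 0) P.nil))) (P.cons (P.cons (P.lf 1658706 0 0) (P.cons (P.lf 56751 0 0) P.nil)) (P.cons (P.cons (P.lf 0 120801 0) P.nil) P.nil)))))) 85092)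
 EL.nil)))
noncomputable def S227_256_364_401_23 : EL := (EL.cons 4 (TM.mk (P.cons (P.cons (P.lf 0 189324372 0) (P.cons (P.lf 0 6574908 0) (P.cons (P.lf 0 223077 0) (P.lf 10620 0 0)))) (P.cons (P.cons (P.lf 78893463 0 0) (P.cons (P.lf 12728364 0 0) (P.cons (P.lf 431856 0 0) (P.lf 0 20562 0)))) (P.cons (P.cons (P.lf 132634227 0 0) (P.cons (P.lf 0 5535198 0) (P.cons (P.lf 0 187800 0) (P.lf 8940 0 0)))) (P.cons (P.cons (P.lf 0 17753667 0) (P.cons (P.lf 0 801474 0) (P.cons (P.lf 0 27192 0) P.nil))) (P.cons (P.cons (P.lf 0 4948218 0) (P.cons (P.lf 166623 0 0) P.nil)) (P.cons (P.cons (P.lf 413949 0 0) P.nil) P.nil)))))) 138924)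
 (EL.cons 8 (TM.mk (P.cons (P.cons (P.lf 14355501 0 0) (P.cons (P.lf 498540 0 0) (P.cons (P.lf 16914 0 0) (P.lf 0 804 0)))) (P.cons (P.cons (P.lf 0 20453190 0) (P.cons (P.lf 0 1467684 0) (P.cons (P.lf 0 49797 0) (P.lf 2370 0 0)))) (P.cons (P.cons (P.lf 0 3852381 0) (P.cons (P.lf 1398657 0 0) (P.cons (P.lf 47451 0 0) (P.lf 0 2256 0)))) (P.cons (P.cons (P.lf 11351814 0 0) (P.cons (P.lf 0 376104 0) (P.cons (P.lf 0 12759 0) P.nil))) (P.cons (P.cons (P.lf 0 1077897 0) (P.cons (P.lf 0 64743 0) P.nil)) (P.cons (P.cons (P.lf 0 352197 0) P.nil) P.nil)))))) 67116)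
 (EL.cons 11 (TM.mk (P.cons (P.cons (P.lf 0 279775761 0) (P.cons (P.lf 0 21626292 0) (P.cons (P.lf 1365495 0 0) (P.cons (P.lf 25605 0 0) (P.lf 0 912 0))))) (P.cons (P.cons (P.lf 268565010 0 0) (P.cons (P.lf 20759715 0 0) (P.cons (P.lf 0 1310781 0) (P.cons (P.lf 0 24579 0) (P.lf 876 0 0))))) (P.cons (P.cons (P.lf 16582872 0 0) (P.cons (P.lf 1281831 0 0) (P.cons (P.lf 0 80934 0) (P.cons (P.lf 0 1515 0) P.nil)))) (P.cons (P.cons (P.lf 0 5142462 0) (P.cons (P.lf 0 397503 0) (P.cons (P.lf 25098 0 0) P.nil))) (P.cons (P.cons (P.lf 0 282636 0) (P.cons (P.lf 0 21846 0) P.nil)) (P.cons (P.cons (P.lf 50382 0 0) P.nil) P.nil)))))) 10671)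
 EL.nil)))
noncomputable def S227_256_364_401_24 : EL := (EL.cons 4 (TM.mk (P.cons (P.cons (P.lf 0 81146136 0) (P.cons (P.lf 5276694 0 0) (P.cons (P.lf 460146 0 0) (P.cons (P.lf 10548 0 0) (P.cons (P.lf 0 582 0) (P.cons (P.lf 0 30 0) P.nil)))))) (P.cons (P.cons (P.lf 45031410 0 0) (P.cons (P.lf 2861409 0 0) (P.cons (P.lf 0 433602 0) (P.cons (P.lf 0 40632 0) (P.cons (P.lf 1101 0 0) P.nil))))) (P.cons (P.cons (P.lf 55355403 0 0) (P.cons (P.lf 0 9034725 0) (P.cons (P.lf 0 102501 0) (P.cons (P.lf 28440 0 0) P.nil)))) (P.cons (P.cons (P.lf 0 17236335 0) (P.cons (P.lf 309387 0 0) (P.cons (P.lf 68298 0 0) P.nil))) (P.cons (P.cons (P.lf 0 3160833 0) (P.cons (P.lf 623970 0 0) P.nil)) (P.cons (P.cons (P.lf 1103655 0 0) P.nil) P.nil)))))) 463851)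
 (EL.cons 8 (TM.mk (P.cons (P.cons (P.lf 6152895 0 0) (P.cons (P.lf 0 400104 0) (P.cons (P.lf 0 34890 0) (P.cons (P.lf 0 798 0) (P.cons (P.lf 42 0 0) (P.cons (P.lf 0 0 0) P.nil)))))) (P.cons (P.cons (P.lf 0 9616947 0) (P.cons (P.lf 186360 0 0) (P.cons (P.lf 68049 0 0) (P.cons (P.lf 3885 0 0) (P.cons (P.lf 0 126 0) P.nil))))) (P.cons (P.cons (P.lf 0 680598 0) (P.cons (P.lf 898911 0 0) (P.cons (P.lf 0 25794 0) (P.cons (P.lf 0 5271 0) P.nil)))) (P.cons (P.cons (P.lf 5471019 0 0) (P.cons (P.lf 0 715005 0) (P.cons (P.lf 0 12468 0) P.nil))) (P.cons (P.cons (P.lf 0 1114068 0) (P.cons (P.lf 0 14475 0) P.nil)) (P.cons (P.cons (P.lf 0 292353 0) P.nil) P.nil)))))) 173769)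
 (EL.cons 11 (TM.mk (P.cons (P.cons (P.lf 0 119914416 0) (P.cons (P.lf 2692878 0 0) (P.cons (P.lf 1915776 0 0) (P.cons (P.lf 0 35361 0) (P.cons (P.lf 0 4959 0) (P.cons (P.lf 96 0 0) P.nil)))))) (P.cons (P.cons (P.lf 131685351 0 0) (P.cons (P.lf 0 728019 0) (P.cons (P.lf 0 1855884 0) (P.cons (P.lf 30198 0 0) (P.cons (P.lf 4596 0 0) P.nil))))) (P.cons (P.cons (P.lf 0 4102839 0) (P.cons (P.lf 0 1852743 0) (P.cons (P.lf 0 150774 0) (P.cons (P.lf 6321 0 0) P.nil)))) (P.cons (P.cons (P.lf 0 8354211 0) (P.cons (P.lf 0 210600 0) (P.cons (P.lf 89175 0 0) P.nil))) (P.cons (P.cons (P.lf 462864 0 0) (P.cons (P.lf 90846 0 0) P.nil)) (P.cons (P.cons (P.lf 237843 0 0) P.nil) P.nil)))))) 89613)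
 EL.nil)))
noncomputable def S227_256_364_401_25 : EL := (EL.cons 4 (TM.mk (P.cons (P.cons (P.lf 21361236 0 0) (P.cons (P.lf 741837 0 0) (P.cons (P.lf 25167 0 0) (P.lf 0 1197 0)))) (P.cons (P.cons (P.lf 0 30092049 0) (P.cons (P.lf 0 2172036 0) (P.cons (P.lf 0 73692 0) (P.lf 3507 0 0)))) (P.cons (P.cons (P.lf 0 6389211 0) (P.cons (P.lf 2040339 0 0) (P.cons (P.lf 69225 0 0) (P.lf 0 3294 0)))) (P.cons (P.cons (P.lf 17037234 0 0) (P.cons (P.lf 0 509124 0) (P.cons (P.lf 0 17274 0) P.nil))) (P.cons (P.cons (P.lf 0 1283202 0) (P.cons (P.lf 0 121443 0) P.nil)) (P.cons (P.cons (P.lf 0 683304 0) P.nil) P.nil)))))) 155319)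
 (EL.cons 8 (TM.mk (P.cons (P.cons (P.lf 0 1619712 0) (P.cons (P.lf 0 56247 0) (P.cons (P.lf 0 1908 0) (P.lf 90 0 0)))) (P.cons (P.cons (P.lf 3914481 0 0) (P.cons (P.lf 221397 0 0) (P.cons (P.lf 7509 0 0) (P.lf 0 357 0)))) (P.cons (P.cons (P.lf 0 1835307 0) (P.cons (P.lf 0 321411 0) (P.cons (P.lf 0 10905 0) (P.lf 519 0 0)))) (P.cons (P.cons (P.lf 0 1745766 0) (P.cons (P.lf 196791 0 0) (P.cons (P.lf 6675 0 0) P.nil))) (P.cons (P.cons (P.lf 1395813 0 0) (P.cons (P.lf 0 32274 0) P.nil)) (P.cons (P.cons (P.lf 0 63756 0) P.nil) P.nil)))))) 72168)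
 (EL.cons 11 (TM.mk (P.cons (P.cons (P.lf 31566756 0 0) (P.cons (P.lf 2440068 0 0) (P.cons (P.lf 0 154065 0) (P.cons (P.lf 0 2886 0) (P.lf 102 0 0))))) (P.cons (P.cons (P.lf 0 61616454 0) (P.cons (P.lf 0 4762869 0) (P.cons (P.lf 300729 0 0) (P.cons (P.lf 5637 0 0) (P.lf 0 201 0))))) (P.cons (P.cons (P.lf 27812538 0 0) (P.cons (P.lf 2149872 0 0) (P.cons (P.lf 0 135744 0) (P.cons (P.lf 0 2544 0) P.nil)))) (P.cons (P.cons (P.lf 2919525 0 0) (P.cons (P.lf 225675 0 0) (P.cons (P.lf 0 14247 0) P.nil))) (P.cons (P.cons (P.lf 0 636093 0) (P.cons (P.lf 0 49167 0) P.nil)) (P.cons (P.cons (P.lf 0 54315 0) P.nil) P.nil)))))) 20247)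
 EL.nil)))
noncomputable def S227_256_364_401_26 : EL := (EL.cons 4 (TM.mk (P.cons (P.cons (P.lf 9155619 0 0) (P.cons (P.lf 0 595362 0) (P.cons (P.lf 0 51915 0) (P.cons (P.lf 0 1188 0) (P.cons (P.lf 63 0 0) (P.cons (P.lf 3 0 0) P.nil)))))) (P.cons (P.cons (P.lf 0 14163318 0) (P.cons (P.lf 267756 0 0) (P.cons (P.lf 100425 0 0) (P.cons (P.lf 5763 0 0) (P.cons (P.lf 0 189 0) P.nil))))) (P.cons (P.cons (P.lf 0 1314552 0) (P.cons (P.lf 1346742 0 0) (P.cons (P.lf 0 36348 0) (P.cons (P.lf 0 7740 0) P.nil)))) (P.cons (P.cons (P.lf 8236506 0 0) (P.cons (P.lf 0 1044594 0) (P.cons (P.lf 0 19962 0) P.nil))) (P.cons (P.cons (P.lf 0 1517073 0) (P.cons (P.lf 0 49215 0) P.nil)) (P.cons (P.cons (P.lf 0 526173 0) P.nil) P.nil)))))) 290352)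
 (EL.cons 8 (TM.mk (P.cons (P.cons (P.lf 0 694221 0) (P.cons (P.lf 45141 0 0) (P.cons (P.lf 3936 0 0) (P.cons (P.lf 90 0 0) (P.cons (P.lf 0 3 0) (P.cons (P.lf 0 0 0) P.nil)))))) (P.cons (P.cons (P.lf 1773744 0 0) (P.cons (P.lf 0 65808 0) (P.cons (P.lf 0 11583 0) (P.cons (P.lf 0 528 0) (P.cons (P.lf 18 0 0) P.nil))))) (P.cons (P.cons (P.lf 0 991335 0) (P.cons (P.lf 0 81102 0) (P.cons (P.lf 10479 0 0) (P.cons (P.lf 1026 0 0) P.nil)))) (P.cons (P.cons (P.lf 0 709083 0) (P.cons (P.lf 181710 0 0) (P.cons (P.lf 0 1371 0) P.nil))) (P.cons (P.cons (P.lf 741282 0 0) (P.cons (P.lf 0 77262 0) P.nil)) (P.cons (P.cons (P.lf 0 83958 0) P.nil) P.nil)))))) 100167)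
 (EL.cons 11 (TM.mk (P.cons (P.cons (P.lf 13529796 0 0) (P.cons (P.lf 0 303834 0) (P.cons (P.lf 0 216153 0) (P.cons (P.lf 3987 0 0) (P.cons (P.lf 558 0 0) (P.cons (P.lf 0 9 0) P.nil)))))) (P.cons (P.cons (P.lf 0 28279614 0) (P.cons (P.lf 383547 0 0) (P.cons (P.lf 423825 0 0) (P.cons (P.lf 0 7362 0) (P.cons (P.lf 0 1071 0) P.nil))))) (P.cons (P.cons (P.lf 15040866 0 0) (P.cons (P.lf 131178 0 0) (P.cons (P.lf 0 188136 0) (P.cons (P.lf 2616 0 0) P.nil)))) (P.cons (P.cons (P.lf 712782 0 0) (P.cons (P.lf 0 185763 0) (P.cons (P.lf 0 30267 0) P.nil))) (P.cons (P.cons (P.lf 0 1049199 0) (P.cons (P.lf 0 36018 0) P.nil)) (P.cons (P.cons (P.lf 14160 0 0) P.nil) P.nil)))))) 75483)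
 EL.nil)))
noncomputable def S227_256_364_401_27 : EL := (EL.cons 13 (TM.mk (P.lf 0 4294967296 0) 0)
 EL.nil)
noncomputable def S227_256_364_401_28 : EL := (EL.cons 13 (TM.mk (P.cons (P.cons (P.lf 0 1840861788 0) (P.cons (P.lf 183635812 0 0) (P.cons (P.lf 6230540 0 0) (P.lf 0 296688 0)))) (P.cons (P.cons (P.lf 254465263 0 0) (P.cons (P.lf 8837136 0 0) (P.cons (P.lf 299832 0 0) (P.lf 0 14276 0)))) (P.cons (P.cons (P.lf 72172492 0 0) (P.cons (P.lf 0 4206216 0) (P.cons (P.lf 0 142708 0) (P.lf 6792 0 0)))) (P.cons (P.cons (P.lf 0 10049980 0) (P.cons (P.lf 0 208760 0) (P.cons (P.lf 0 7080 0) P.nil))) (P.cons (P.cons (P.lf 0 1081344 0) (P.cons (P.lf 47756 0 0) P.nil)) (P.cons (P.cons (P.lf 102427 0 0) P.nil) P.nil)))))) 18387)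
 EL.nil)
noncomputable def S227_256_364_401_29 : EL := (EL.cons 13 (TM.mk (P.cons (P.cons (P.lf 0 789009994 0) (P.cons (P.lf 157415936 0 0) (P.cons (P.lf 0 2510609 0) (P.cons (P.lf 0 787112 0) (P.cons (P.lf 16332 0 0) (P.cons (P.lf 860 0 0) P.nil)))))) (P.cons (P.cons (P.lf 218132221 0 0) (P.cons (P.lf 0 14184503 0) (P.cons (P.lf 0 1236946 0) (P.cons (P.lf 0 28360 0) (P.cons (P.lf 1571 0 0) P.nil))))) (P.cons (P.cons (P.lf 46791181 0 0) (P.cons (P.lf 0 10824417 0) (P.cons (P.lf 0 25756 0) (P.cons (P.lf 40657 0 0) P.nil)))) (P.cons (P.cons (P.lf 0 17167076 0) (P.cons (P.lf 881858 0 0) (P.cons (P.lf 65083 0 0) P.nil))) (P.cons (P.cons (P.lf 0 948863 0) (P.cons (P.lf 340861 0 0) P.nil)) (P.cons (P.cons (P.lf 553694 0 0) P.nil) P.nil)))))) 182453)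
 EL.nil)
noncomputable def S227_256_364_401_30 : EL := (EL.cons 13 (TM.mk (P.cons (P.lf 484595936 0 0) (P.cons (P.lf 0 480724804 0) (P.cons (P.lf 0 5775768 0) (P.cons (P.lf 1873960 0 0) (P.cons (P.lf 38036 0 0) (P.cons (P.lf 0 7180 0) P.nil)))))) 280)
 EL.nil)
noncomputable def S227_256_364_401_31 : EL := (EL.cons 13 (TM.mk (P.cons (P.cons (P.lf 207702196 0 0) (P.cons (P.lf 0 20719405 0) (P.cons (P.lf 0 702984 0) (P.lf 33474 0 0)))) (P.cons (P.cons (P.lf 0 234754000 0) (P.cons (P.lf 19556807 0 0) (P.cons (P.lf 663538 0 0) (P.lf 0 31596 0)))) (P.cons (P.cons (P.lf 17862971 0 0) (P.cons (P.lf 1710649 0 0) (P.cons (P.lf 58039 0 0) (P.lf 0 2763 0)))) (P.cons (P.cons (P.lf 10357406 0 0) (P.cons (P.lf 0 515476 0) (P.cons (P.lf 0 17489 0) P.nil))) (P.cons (P.cons (P.lf 0 1000530 0) (P.cons (P.lf 0 39892 0) P.nil)) (P.cons (P.cons (P.lf 0 182924 0) P.nil) P.nil)))))) 33876)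
 EL.nil)
noncomputable def S227_256_364_401_32 : EL := (EL.cons 13 (TM.mk (P.cons (P.cons (P.lf 89023037 0 0) (P.cons (P.lf 0 17761048 0) (P.cons (P.lf 283268 0 0) (P.cons (P.lf 88808 0 0) (P.cons (P.lf 0 1842 0) (P.cons (P.lf 0 97 0) P.nil)))))) (P.cons (P.cons (P.lf 0 112923482 0) (P.cons (P.lf 19219586 0 0) (P.cons (P.lf 0 141442 0) (P.cons (P.lf 0 84899 0) (P.cons (P.lf 1650 0 0) P.nil))))) (P.cons (P.cons (P.lf 18074553 0 0) (P.cons (P.lf 0 154640 0) (P.cons (P.lf 0 138918 0) (P.cons (P.lf 0 8820 0) P.nil)))) (P.cons (P.cons (P.lf 7811754 0 0) (P.cons (P.lf 0 1398806 0) (P.cons (P.lf 0 10794 0) P.nil))) (P.cons (P.cons (P.lf 0 1839671 0) (P.cons (P.lf 50483 0 0) P.nil)) (P.cons (P.cons (P.lf 0 215428 0) P.nil) P.nil)))))) 173582)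
 EL.nil)
noncomputable def S227_256_364_401_33 : EL := (EL.cons 14 (TM.mk (P.lf 8589934592 0 0) 0)
 EL.nil)
noncomputable def S227_256_364_401_34 : EL := (EL.cons 14 (TM.mk (P.cons (P.cons (P.lf 3681723576 0 0) (P.cons (P.lf 0 367271624 0) (P.cons (P.lf 0 12461080 0) (P.lf 593376 0 0)))) (P.cons (P.cons (P.lf 0 508930526 0) (P.cons (P.lf 0 17674272 0) (P.cons (P.lf 0 599664 0) (P.lf 28552 0 0)))) (P.cons (P.cons (P.lf 0 144344984 0) (P.cons (P.lf 8412432 0 0) (P.cons (P.lf 285416 0 0) (P.lf 0 13584 0)))) (P.cons (P.cons (P.lf 20099960 0 0) (P.cons (P.lf 417520 0 0) (P.cons (P.lf 14160 0 0) P.nil))) (P.cons (P.cons (P.lf 2162688 0 0) (P.cons (P.lf 0 95512 0) P.nil)) (P.cons (P.cons (P.lf 0 204854 0) P.nil) P.nil)))))) 36774)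
 EL.nil)
noncomputable def S227_256_364_401_35 : EL := (EL.cons 14 (TM.mk (P.cons (P.cons (P.lf 1578019988 0 0) (P.cons (P.lf 0 314831872 0) (P.cons (P.lf 5021218 0 0) (P.cons (P.lf 1574224 0 0) (P.cons (P.lf 0 32664 0) (P.cons (P.lf 0 1720 0) P.nil)))))) (P.cons (P.cons (P.lf 0 436264442 0) (P.cons (P.lf 28369006 0 0) (P.cons (P.lf 2473892 0 0) (P.cons (P.lf 56720 0 0) (P.cons (P.lf 0 3142 0) P.nil))))) (P.cons (P.cons (P.lf 0 93582362 0) (P.cons (P.lf 21648834 0 0) (P.cons (P.lf 51512 0 0) (P.cons (P.lf 0 81314 0) P.nil)))) (P.cons (P.cons (P.lf 34334152 0 0) (P.cons (P.lf 0 1763716 0) (P.cons (P.lf 0 130166 0) P.nil))) (P.cons (P.cons (P.lf 1897726 0 0) (P.cons (P.lf 0 681722 0) P.nil)) (P.cons (P.cons (P.lf 0 1107388 0) P.nil) P.nil)))))) 364906)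
 EL.nil)
noncomputable def S227_256_364_401_36 : EL := (EL.cons 14 (TM.mk (P.cons (P.lf 0 969191872 0) (P.cons (P.lf 961449608 0 0) (P.cons (P.lf 11551536 0 0) (P.cons (P.lf 0 3747920 0) (P.cons (P.lf 0 76072 0) (P.cons (P.lf 14360 0 0) P.nil)))))) 560)
 EL.nil)
noncomputable def S227_256_364_401_37 : EL := (EL.cons 14 (TM.mk (P.cons (P.cons (P.lf 0 415404392 0) (P.cons (P.lf 41438810 0 0) (P.cons (P.lf 1405968 0 0) (P.lf 0 66948 0)))) (P.cons (P.cons (P.lf 469508000 0 0) (P.cons (P.lf 0 39113614 0) (P.cons (P.lf 0 1327076 0) (P.lf 63192 0 0)))) (P.cons (P.cons (P.lf 0 35725942 0) (P.cons (P.lf 0 3421298 0) (P.cons (P.lf 0 116078 0) (P.lf 5526 0 0)))) (P.cons (P.cons (P.lf 0 20714812 0) (P.cons (P.lf 1030952 0 0) (P.cons (P.lf 34978 0 0) P.nil))) (P.cons (P.cons (P.lf 2001060 0 0) (P.cons (P.lf 79784 0 0) P.nil)) (P.cons (P.cons (P.lf 365848 0 0) P.nil) P.nil))))))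 67752)
 EL.nil)
noncomputable def S227_256_364_401_38 : EL := (EL.cons 14 (TM.mk (P.cons (P.cons (P.lf 0 178046074 0) (P.cons (P.lf 35522096 0 0) (P.cons (P.lf 0 566536 0) (P.cons (P.lf 0 177616 0) (P.cons (P.lf 3684 0 0) (P.cons (P.lf 194 0 0) P.nil)))))) (P.cons (P.cons (P.lf 225846964 0 0) (P.cons (P.lf 0 38439172 0) (P.cons (P.lf 282884 0 0) (P.cons (P.lf 169798 0 0) (P.cons (P.lf 0 3300 0) P.nil))))) (P.cons (P.cons (P.lf 0 36149106 0) (P.cons (P.lf 309280 0 0) (P.cons (P.lf 277836 0 0) (P.cons (P.lf 17640 0 0) P.nil)))) (P.cons (P.cons (P.lf 0 15623508 0) (P.cons (P.lf 2797612 0 0) (P.cons (P.lf 21588 0 0) P.nil))) (P.cons (P.cons (P.lf 3679342 0 0) (P.cons (P.lf 0 100966 0) P.nil)) (P.cons (P.cons (P.lf 430856 0 0) P.nil) P.nil)))))) 347164)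
 EL.nil)
noncomputable def S227_256_364_401_39 : EL := (EL.cons 14 (TM.mk (P.cons (P.lf 109352740 0 0) (P.cons (P.lf 0 216958378 0) (P.cons (P.lf 105005926 0 0) (P.cons (P.lf 3431614 0 0) (P.cons (P.lf 0 806288 0) (P.cons (P.lf 0 30348 0) P.nil)))))) 5440)
 EL.nil)
noncomputable def S227_256_364_401_40 : EL := (EL.cons 14 (TM.mk (P.cons (P.cons (P.lf 46869572 0 0) (P.cons (P.lf 0 4675490 0) (P.cons (P.lf 0 158632 0) (P.lf 7552 0 0)))) (P.cons (P.cons (P.lf 0 99469176 0) (P.cons (P.lf 9051282 0 0) (P.cons (P.lf 307098 0 0) (P.lf 0 14622 0)))) (P.cons (P.cons (P.lf 56023128 0 0) (P.cons (P.lf 0 3936140 0) (P.cons (P.lf 0 133548 0) (P.lf 6358 0 0)))) (P.cons (P.cons (P.lf 0 848856 0) (P.cons (P.lf 0 569936 0) (P.cons (P.lf 0 19336 0) P.nil))) (P.cons (P.cons (P.lf 0 2793550 0) (P.cons (P.lf 118486 0 0) P.nil)) (P.cons (P.cons (P.lf 165574 0 0) P.nil) P.nil)))))) 89048)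
 EL.nil)
noncomputable def S227_256_364_401_41 : EL := (EL.cons 14 (TM.mk (P.cons (P.cons (P.lf 20088722 0 0) (P.cons (P.lf 0 4007914 0) (P.cons (P.lf 63920 0 0) (P.cons (P.lf 20040 0 0) (P.cons (P.lf 0 414 0) (P.cons (P.lf 0 20 0) P.nil)))))) (P.cons (P.cons (P.lf 0 45410282 0) (P.cons (P.lf 8312942 0 0) (P.cons (P.lf 0 95328 0) (P.cons (P.lf 0 39038 0) (P.cons (P.lf 784 0 0) P.nil))))) (P.cons (P.cons (P.lf 29117704 0 0) (P.cons (P.lf 0 4289524 0) (P.cons (P.lf 0 446 0) (P.cons (P.lf 16776 0 0) P.nil)))) (P.cons (P.cons (P.lf 0 1901898 0) (P.cons (P.lf 0 348224 0) (P.cons (P.lf 29288 0 0) P.nil))) (P.cons (P.cons (P.lf 0 2309410 0) (P.cons (P.lf 341394 0 0) P.nil)) (P.cons (P.cons (P.lf 355670 0 0) P.nil) P.nil)))))) 189528)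
 EL.nil)
noncomputable def S227_256_364_401_42 : EL := (EL.cons 14 (TM.mk (P.cons (P.lf 0 12338136 0) (P.cons (P.lf 36718724 0 0) (P.cons (P.lf 0 35984236 0) (P.cons (P.lf 11026388 0 0) (P.cons (P.lf 709966 0 0) (P.cons (P.lf 0 125918 0) P.nil)))))) 9172)
 EL.nil)
noncomputable def S227_256_364_401_43 : EL := (EL.cons 14 (TM.mk (P.cons (P.cons (P.lf 0 5288236 0) (P.cons (P.lf 527528 0 0) (P.cons (P.lf 17898 0 0) (P.lf 0 852 0)))) (P.cons (P.cons (P.lf 16468978 0 0) (P.cons (P.lf 0 1544560 0) (P.cons (P.lf 0 52404 0) (P.lf 2494 0 0)))) (P.cons (P.cons (P.lf 0 17391324 0) (P.cons (P.lf 1450908 0 0) (P.cons (P.lf 49226 0 0) (P.lf 0 2344 0)))) (P.cons (P.cons (P.lf 6212086 0 0) (P.cons (P.lf 0 362044 0) (P.cons (P.lf 0 12282 0) P.nil))) (P.cons (P.cons (P.lf 338504 0 0) (P.cons (P.lf 0 86360 0) P.nil)) (P.cons (P.cons (P.lf 0 355982 0) P.nil) P.nil)))))) 95736)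
 EL.nil)
noncomputable def S227_256_364_401_44 : EL := (EL.cons 14 (TM.mk (P.cons (P.cons (P.lf 0 2266584 0) (P.cons (P.lf 452208 0 0) (P.cons (P.lf 0 7212 0) (P.cons (P.lf 0 2260 0) (P.cons (P.lf 46 0 0) (P.cons (P.lf 2 0 0) P.nil)))))) (P.cons (P.cons (P.lf 7372066 0 0) (P.cons (P.lf 0 1386534 0) (P.cons (P.lf 17910 0 0) (P.cons (P.lf 6646 0 0) (P.cons (P.lf 0 134 0) P.nil))))) (P.cons (P.cons (P.lf 0 8340958 0) (P.cons (P.lf 1409038 0 0) (P.cons (P.lf 0 10532 0) (P.cons (P.lf 0 6234 0) P.nil)))) (P.cons (P.cons (P.lf 3403826 0 0) (P.cons (P.lf 0 427898 0) (P.cons (P.lf 0 3510 0) P.nil))) (P.cons (P.cons (P.lf 106484 0 0) (P.cons (P.lf 0 86854 0) P.nil)) (P.cons (P.cons (P.lf 0 313442 0) P.nil) P.nil)))))) 154040)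
 EL.nil)
noncomputable def S227_256_364_401_45 : EL := (EL.cons 14 (TM.mk (P.cons (P.cons (P.lf 676353624 0 0) (P.cons (P.lf 0 202409676 0) (P.cons (P.lf 13323932 0 0) (P.cons (P.lf 1025758 0 0) (P.cons (P.lf 0 110338 0) (P.cons (P.lf 0 1276 0) P.nil)))))) (P.cons (P.cons (P.lf 0 280480322 0) (P.cons (P.lf 46218230 0 0) (P.cons (P.lf 720386 0 0) (P.cons (P.lf 0 229128 0) (P.cons (P.lf 0 8100 0) P.nil))))) (P.cons (P.cons (P.lf 0 40779746 0) (P.cons (P.lf 19332784 0 0) (P.cons (P.lf 0 1282540 0) (P.cons (P.lf 0 121296 0) P.nil)))) (P.cons (P.cons (P.lf 31283880 0 0) (P.cons (P.lf 0 4877970 0) (P.cons (P.lf 0 100486 0) P.nil))) (P.cons (P.cons (P.lf 0 271804 0) (P.cons (P.lf 0 846548 0) P.nil)) (P.cons (P.cons (P.lf 0 1530470 0) P.nil) P.nil)))))) 864506)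
 EL.nil)
noncomputable def S227_256_364_401_46 : EL := (EL.cons 15 (TM.mk (P.lf 4294967296 0 0) 0)
 EL.nil)
noncomputable def S227_256_364_401_47 : EL := (EL.cons 15 (TM.mk (P.cons (P.cons (P.lf 1840861788 0 0) (P.cons (P.lf 0 183635812 0) (P.cons (P.lf 0 6230540 0) (P.lf 296688 0 0)))) (P.cons (P.cons (P.lf 0 254465263 0) (P.cons (P.lf 0 8837136 0) (P.cons (P.lf 0 299832 0) (P.lf 14276 0 0)))) (P.cons (P.cons (P.lf 0 72172492 0) (P.cons (P.lf 4206216 0 0) (P.cons (P.lf 142708 0 0) (P.lf 0 6792 0)))) (P.cons (P.cons (P.lf 10049980 0 0) (P.cons (P.lf 208760 0 0) (P.cons (P.lf 7080 0 0) P.nil))) (P.cons (P.cons (P.lf 1081344 0 0) (P.cons (P.lf 0 47756 0) P.nil)) (P.cons (P.cons (P.lf 0 102427 0) P.nil) P.nil)))))) 18387)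
 EL.nil)
noncomputable def S227_256_364_401_48 : EL := (EL.cons 15 (TM.mk (P.cons (P.cons (P.lf 789009994 0 0) (P.cons (P.lf 0 157415936 0) (P.cons (P.lf 2510609 0 0) (P.cons (P.lf 787112 0 0) (P.cons (P.lf 0 16332 0) (P.cons (P.lf 0 860 0) P.nil)))))) (P.cons (P.cons (P.lf 0 218132221 0) (P.cons (P.lf 14184503 0 0) (P.cons (P.lf 1236946 0 0) (P.cons (P.lf 28360 0 0) (P.cons (P.lf 0 1571 0) P.nil))))) (P.cons (P.cons (P.lf 0 46791181 0) (P.cons (P.lf 10824417 0 0) (P.cons (P.lf 25756 0 0) (P.cons (P.lf 0 40657 0) P.nil)))) (P.cons (P.cons (P.lf 17167076 0 0) (P.cons (P.lf 0 881858 0) (P.cons (P.lf 0 65083 0) P.nil))) (P.cons (P.cons (P.lf 948863 0 0) (P.cons (P.lf 0 340861 0) P.nil)) (P.cons (P.cons (P.lf 0 553694 0) P.nil) P.nil)))))) 182453)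
 EL.nil)
noncomputable def S227_256_364_401 : SL := (SL.cons S227_256_364_401_0 (SL.cons S227_256_364_401_1 (SL.cons S227_256_364_401_2 (SL.cons S227_256_364_401_3 (SL.cons S227_256_364_401_4 (SL.cons S227_256_364_401_5 (SL.cons S227_256_364_401_6 (SL.cons S227_256_364_401_7 (SL.cons S227_256_364_401_8 (SL.cons S227_256_364_401_9 (SL.cons S227_256_364_401_10 (SL.cons S227_256_364_401_11 (SL.cons S227_256_364_401_12 (SL.cons S227_256_364_401_13 (SL.cons S227_256_364_401_14 (SL.cons S227_256_364_401_15 (SL.cons S227_256_364_401_16 (SL.cons S227_256_364_401_17 (SL.cons S227_256_364_401_18 (SL.cons S227_256_364_401_19 (SL.cons S227_256_364_401_20 (SL.cons S227_256_364_401_21 (SL.cons S227_256_364_401_22 (SL.cons S227_256_364_401_23 (SL.cons S227_256_364_401_24 (SL.cons S227_256_364_401_25 (SL.cons S227_256_364_401_26 (SL.cons S227_256_364_401_27 (SL.cons S227_256_364_401_28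 (SL.cons S227_256_364_401_29 (SL.cons S227_256_364_401_30 (SL.cons S227_256_364_401_31 (SL.cons S227_256_364_401_32 (SL.cons S227_256_364_401_33 (SL.cons S227_256_364_401_34 (SL.cons S227_256_364_401_35 (SL.cons S227_256_364_401_36 (SL.cons S227_256_364_401_37 (SL.cons S227_256_364_401_38 (SL.cons S227_256_364_401_39 (SL.cons S227_256_364_401_40 (SL.cons S227_256_364_401_41 (SL.cons S227_256_364_401_42 (SL.cons S227_256_364_401_43 (SL.cons S227_256_364_401_44 (SL.cons S227_256_364_401_45 (SL.cons S227_256_364_401_46 (SL.cons S227_256_364_401_47 (SL.cons S227_256_364_401_48 SL.nil)))))))))))))))))))))))))))))))))))))))))))))))))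
theorem S227_241_660_808_ok : band (seq (shp 5 227 241 660 808) S227_241_660_808) (sok S227_241_660_808) = true := by decide +kernel

theorem S227_241_734_808_ok : band (seq (shp 5 227 241 734 808) S227_241_734_808) (sok S227_241_734_808) = true := by decide +kernel

theorem S227_256_216_290_ok : band (seq (shp 5 227 256 216 290) S227_256_216_290) (sok S227_256_216_290) = true := by decide +kernel

theorem S227_256_216_364_ok : band (seq (shp 5 227 256 216 364) S227_256_216_364) (sok S227_256_216_364) = true := by decide +kernel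

theorem S227_256_290_364_ok : band (seq (shp 5 227 256 290 364) S227_256_290_364) (sok S227_256_290_364) = true := by decide +kernel

theorem S227_256_364_401_ok : band (seq (shp 5 227 256 364 401) S227_256_364_401) (sok S227_256_364_401) = true := by decide +kernel

end Vale.Agent.P098.Ck
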