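import Vale.Agent.P098.CkDefs

namespace Vale.Agent.P098.Ck

noncomputable def S227_256_364_438_0 : EL := (EL.cons 0 (TM.mk (P.cons (P.lf 8359606057 0 0) (P.cons (P.lf 190686074 0 0) (P.cons (P.lf 0 92290364 0) (P.cons (P.lf 0 3016066 0) (P.cons (P.lf 708651 0 0) (P.cons (P.lf 26673 0 0) P.nil)))))) 4788)
 (EL.cons 1 (TM.mk (P.cons (P.lf 0 450679505 0) (P.cons (P.lf 439849933 0 0) (P.cons (P.lf 16100088 0 0) (P.cons (P.lf 0 5127871 0) (P.cons (P.lf 0 176304 0) (P.cons (P.lf 32482 0 0) P.nil)))))) 1651)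
 (EL.cons 5 (TM.mk (P.cons (P.lf 4329140030 0 0) (P.cons (P.lf 0 67799490 0) (P.cons (P.lf 32814348 0 0) (P.cons (P.lf 1072376 0 0) (P.cons (P.lf 0 251962 0) (P.cons (P.lf 0 9484 0) P.nil)))))) 1837)
 (EL.cons 9 (TM.mk (P.lf 6442450944 0 0) 2)
 EL.nil))))
noncomputable def S227_256_364_438_1 : EL := (EL.cons 0 (TM.mk (P.cons (P.cons (P.lf 3581739012 0 0) (P.cons (P.lf 0 733680897 0) (P.cons (P.lf 0 40144068 0) (P.lf 4460455 0 0)))) (P.cons (P.cons (P.lf 0 612289100 0) (P.cons (P.lf 0 104640706 0) (P.cons (P.lf 0 5725514 0) (P.lf 636163 0 0)))) (P.cons (P.cons (P.lf 0 417184121 0) (P.cons (P.lf 47025430 0 0) (P.cons (P.lf 2573034 0 0) (P.lf 0 285887 0)))) (P.cons (P.cons (P.lf 56312810 0 0) (P.cons (P.lf 5133681 0 0) (P.cons (P.lf 280879 0 0) P.nil))) (P.cons (P.cons (P.lf 13334994 0 0) (P.cons (P.lf 0 1085498 0) P.nil)) (P.cons (P.cons (P.lf 0 1178556 0) P.nil) P.nil))))))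 534225)
 (EL.cons 1 (TM.mk (P.cons (P.cons (P.lf 674911270 0 0) (P.cons (P.lf 101423545 0 0) (P.cons (P.lf 5549486 0 0) (P.lf 0 616603 0)))) (P.cons (P.cons (P.lf 681845491 0 0) (P.cons (P.lf 0 92102236 0) (P.cons (P.lf 0 5039460 0) (P.lf 559938 0 0)))) (P.cons (P.cons (P.lf 0 111628997 0) (P.cons (P.lf 0 13602577 0) (P.cons (P.lf 0 744270 0) (P.lf 82691 0 0)))) (P.cons (P.cons (P.lf 0 42642098 0) (P.cons (P.lf 3911953 0 0) (P.cons (P.lf 214041 0 0) P.nil))) (P.cons (P.cons (P.lf 4529361 0 0) (P.cons (P.lf 449256 0 0) P.nil)) (P.cons (P.cons (P.lf 1032922 0 0) P.nil) P.nil)))))) 316739)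
 (EL.cons 5 (TM.mk (P.cons (P.cons (P.lf 1533689414 0 0) (P.cons (P.lf 0 402838898 0) (P.cons (P.lf 0 22041728 0) (P.lf 2449078 0 0)))) (P.cons (P.cons (P.lf 0 230396736 0) (P.cons (P.lf 5266072 0 0) (P.cons (P.lf 288130 0 0) (P.lf 0 32012 0)))) (P.cons (P.cons (P.lf 33020506 0 0) (P.cons (P.lf 0 1517884 0) (P.cons (P.lf 0 83048 0) (P.lf 9222 0 0)))) (P.cons (P.cons (P.lf 0 2570996 0) (P.cons (P.lf 0 1070780 0) (P.cons (P.lf 0 58586 0) P.nil))) (P.cons (P.cons (P.lf 0 2986836 0) (P.cons (P.lf 213348 0 0) P.nil)) (P.cons (P.cons (P.lf 240365 0 0) P.nil) P.nil)))))) 252043)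
 (EL.cons 9 (TM.mk (P.cons (P.cons (P.lf 2476938180 0 0) (P.cons (P.lf 0 585620484 0) (P.cons (P.lf 0 32042796 0) (P.lf 3560310 0 0)))) (P.cons (P.cons (P.lf 0 395381932 0) (P.cons (P.lf 0 28181916 0) (P.cons (P.lf 0 1542000 0) (P.lf 171330 0 0)))) (P.cons (P.cons (P.lf 0 101745534 0) (P.cons (P.lf 13413762 0 0) (P.cons (P.lf 733944 0 0) (P.lf 0 81546 0)))) (P.cons (P.cons (P.lf 15398238 0 0) (P.cons (P.lf 665754 0 0) (P.cons (P.lf 36420 0 0) P.nil))) (P.cons (P.cons (P.lf 1548066 0 0) (P.cons (P.lf 0 152298 0) P.nil)) (P.cons (P.cons (P.lf 0 157648 0) P.nil) P.nil)))))) 43361)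
 (EL.cons 2 (TM.mk (P.cons (P.cons (P.lf 281261123 0 0) (P.cons (P.lf 35291511 0 0) (P.cons (P.lf 0 5388100 0) (P.cons (P.lf 0 164604 0) (P.lf 13716 0 0))))) (P.cons (P.cons (P.lf 0 269990853 0) (P.cons (P.lf 0 33877364 0) (P.cons (P.lf 5172195 0 0) (P.cons (P.lf 158009 0 0) (P.lf 0 13165 0))))) (P.cons (P.cons (P.lf 0 16670913 0) (P.cons (P.lf 0 2091796 0) (P.cons (P.lf 319362 0 0) (P.cons (P.lf 9753 0 0) P.nil)))) (P.cons (P.cons (P.lf 5169763 0 0) (P.cons (P.lf 648680 0 0) (P.cons (P.lf 0 99036 0) P.nil))) (P.cons (P.cons (P.lf 284138 0 0) (P.cons (P.lf 35651 0 0) P.nil)) (P.cons (P.cons (P.lf 0 50647 0) P.nil) P.nil)))))) 22647)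
 (EL.cons 6 (TM.mk (P.cons (P.cons (P.lf 1318880040 0 0) (P.cons (P.lf 165487752 0 0) (P.cons (P.lf 0 25265697 0) (P.cons (P.lf 0 771861 0) (P.lf 64320 0 0))))) (P.cons (P.cons (P.lf 63468696 0 0) (P.cons (P.lf 7963794 0 0) (P.cons (P.lf 0 1215864 0) (P.cons (P.lf 0 37143 0) (P.lf 3093 0 0))))) (P.cons (P.cons (P.lf 0 30209229 0) (P.cons (P.lf 0 3790530 0) (P.cons (P.lf 578715 0 0) (P.cons (P.lf 17679 0 0) P.nil)))) (P.cons (P.cons (P.lf 0 1499352 0) (P.cons (P.lf 0 188130 0) (P.cons (P.lf 28722 0 0) P.nil))) (P.cons (P.cons (P.lf 342993 0 0) (P.cons (P.lf 43035 0 0) P.nil)) (P.cons (P.cons (P.lf 18606 0 0) P.nil) P.nil)))))) 16824)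
 EL.nil))))))
noncomputable def S227_256_364_438_2 : EL := (EL.cons 0 (TM.mk (P.cons (P.cons (P.lf 1518450023 0 0) (P.cons (P.lf 0 631008427 0) (P.cons (P.lf 29783097 0 0) (P.cons (P.lf 10873752 0 0) (P.cons (P.lf 0 589422 0) (P.cons (P.lf 0 42793 0) P.nil)))))) (P.cons (P.cons (P.lf 0 544135841 0) (P.cons (P.lf 37746121 0 0) (P.cons (P.lf 19284130 0 0) (P.cons (P.lf 1654789 0 0) (P.cons (P.lf 0 157810 0) P.nil))))) (P.cons (P.cons (P.lf 0 266096266 0) (P.cons (P.lf 118482726 0 0) (P.cons (P.lf 0 590769 0) (P.cons (P.lf 0 1494388 0) P.nil)))) (P.cons (P.cons (P.lf 97088251 0 0) (P.cons (P.lf 0 6920914 0) (P.cons (P.lf 0 1834615 0) P.nil))) (P.cons (P.cons (P.lf 12395932 0 0) (P.cons (P.lf 0 6779872 0) P.nil)) (P.cons (P.cons (P.lf 0 5424636 0) P.nil) P.nil)))))) 4157003)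
 (EL.cons 1 (TM.mk (P.cons (P.cons (P.lf 585586831 0 0) (P.cons (P.lf 0 76211509 0) (P.cons (P.lf 0 18884937 0) (P.cons (P.lf 0 1146945 0) (P.cons (P.lf 134865 0 0) (P.cons (P.lf 9784 0 0) P.nil)))))) (P.cons (P.cons (P.lf 355173851 0 0) (P.cons (P.lf 0 178878207 0) (P.cons (P.lf 2793394 0 0) (P.cons (P.lf 2464243 0 0) (P.cons (P.lf 0 115303 0) P.nil))))) (P.cons (P.cons (P.lf 0 176244052 0) (P.cons (P.lf 14735832 0 0) (P.cons (P.lf 3862560 0 0) (P.cons (P.lf 244857 0 0) P.nil)))) (P.cons (P.cons (P.lf 0 30493682 0) (P.cons (P.lf 16879356 0 0) (P.cons (P.lf 139775 0 0) P.nil))) (P.cons (P.cons (P.lf 14147858 0 0) (P.cons (P.lf 0 820641 0) P.nil)) (P.cons (P.cons (P.lf 1111621 0 0) P.nil) P.nil)))))) 2292716)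
 (EL.cons 5 (TM.mk (P.cons (P.cons (P.lf 539393499 0 0) (P.cons (P.lf 0 285991284 0) (P.cons (P.lf 21816944 0 0) (P.cons (P.lf 5838593 0 0) (P.cons (P.lf 0 343368 0) (P.cons (P.lf 0 24915 0) P.nil)))))) (P.cons (P.cons (P.lf 0 151092394 0) (P.cons (P.lf 43484227 0 0) (P.cons (P.lf 2063663 0 0) (P.cons (P.lf 0 298897 0) (P.cons (P.lf 2882 0 0) P.nil))))) (P.cons (P.cons (P.lf 33444425 0 0) (P.cons (P.lf 0 5553461 0) (P.cons (P.lf 0 412848 0) (P.cons (P.lf 21830 0 0) P.nil)))) (P.cons (P.cons (P.lf 0 6947524 0) (P.cons (P.lf 0 988840 0) (P.cons (P.lf 193379 0 0) P.nil))) (P.cons (P.cons (P.lf 0 3379240 0) (P.cons (P.lf 1233458 0 0) P.nil)) (P.cons (P.cons (P.lf 1024790 0 0) P.nil) P.nil)))))) 1943314)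
 (EL.cons 9 (TM.mk (P.cons (P.cons (P.lf 952311907 0 0) (P.cons (P.lf 0 450308662 0) (P.cons (P.lf 28593978 0 0) (P.cons (P.lf 8563071 0 0) (P.cons (P.lf 0 487894 0) (P.cons (P.lf 0 35415 0) P.nil)))))) (P.cons (P.cons (P.lf 0 304026094 0) (P.cons (P.lf 50210361 0 0) (P.cons (P.lf 7870795 0 0) (P.cons (P.lf 255412 0 0) (P.cons (P.lf 0 46957 0) P.nil))))) (P.cons (P.cons (P.lf 0 53971372 0) (P.cons (P.lf 32270931 0 0) (P.cons (P.lf 0 549616 0) (P.cons (P.lf 0 449562 0) P.nil)))) (P.cons (P.cons (P.lf 24328885 0 0) (P.cons (P.lf 0 3043768 0) (P.cons (P.lf 0 404937 0) P.nil))) (P.cons (P.cons (P.lf 907218 0 0) (P.cons (P.lf 0 1038666 0) P.nil)) (P.cons (P.cons (P.lf 0 797604 0) P.nil) P.nil)))))) 575762)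
 (EL.cons 2 (TM.mk (P.cons (P.cons (P.lf 216273718 0 0) (P.cons (P.lf 0 23996261 0) (P.cons (P.lf 0 13356967 0) (P.cons (P.lf 812795 0 0) (P.cons (P.lf 133076 0 0) (P.cons (P.lf 0 6806 0) P.nil)))))) (P.cons (P.cons (P.lf 0 242130273 0) (P.cons (P.lf 16242243 0 0) (P.cons (P.lf 13039700 0 0) (P.cons (P.lf 0 714813 0) (P.cons (P.lf 0 123530 0) P.nil))))) (P.cons (P.cons (P.lf 11436519 0 0) (P.cons (P.lf 7999110 0 0) (P.cons (P.lf 963708 0 0) (P.cons (P.lf 0 127276 0) P.nil)))) (P.cons (P.cons (P.lf 15893904 0 0) (P.cons (P.lf 134128 0 0) (P.cons (P.lf 0 639663 0) P.nil))) (P.cons (P.cons (P.lf 0 1044945 0) (P.cons (P.lf 0 366519 0) P.nil)) (P.cons (P.cons (P.lf 0 460321 0) P.nil) P.nil)))))) 423314)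
 (EL.cons 6 (TM.mk (P.cons (P.cons (P.lf 1014143328 0 0) (P.cons (P.lf 0 112522458 0) (P.cons (P.lf 0 62633052 0) (P.cons (P.lf 3811338 0 0) (P.cons (P.lf 624012 0 0) (P.cons (P.lf 0 31938 0) P.nil)))))) (P.cons (P.cons (P.lf 0 113079102 0) (P.cons (P.lf 0 37265994 0) (P.cons (P.lf 0 1992084 0) (P.cons (P.lf 490122 0 0) (P.cons (P.lf 49776 0 0) P.nil))))) (P.cons (P.cons (P.lf 0 72677592 0) (P.cons (P.lf 1309536 0 0) (P.cons (P.lf 3271464 0 0) (P.cons (P.lf 0 149052 0) P.nil)))) (P.cons (P.cons (P.lf 6854886 0 0) (P.cons (P.lf 1933872 0 0) (P.cons (P.lf 62154 0 0) P.nil))) (P.cons (P.cons (P.lf 2339184 0 0) (P.cons (P.lf 69234 0 0) P.nil)) (P.cons (P.cons (P.lf 0 158880 0) P.nil) P.nil)))))) 312984)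
 EL.nil))))))
noncomputable def S227_256_364_438_3 : EL := (EL.cons 0 (TM.mk (P.cons (P.lf 96110806 0 0) (P.cons (P.lf 0 190686074 0) (P.cons (P.lf 92290364 0 0) (P.cons (P.lf 3016066 0 0) (P.cons (P.lf 0 708651 0) (P.cons (P.lf 0 26673 0) P.nil)))))) 4788)
 (EL.cons 1 (TM.mk (P.cons (P.lf 450679505 0 0) (P.cons (P.lf 0 439849933 0) (P.cons (P.lf 0 16100088 0) (P.cons (P.lf 5127871 0 0) (P.cons (P.lf 176304 0 0) (P.cons (P.lf 0 32482 0) P.nil)))))) 1651)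
 (EL.cons 5 (TM.mk (P.cons (P.lf 2113310914 0 0) (P.cons (P.lf 67799490 0 0) (P.cons (P.lf 0 32814348 0) (P.cons (P.lf 0 1072376 0) (P.cons (P.lf 251962 0 0) (P.cons (P.lf 9484 0 0) P.nil)))))) 1830)
 EL.nil)))
noncomputable def S227_256_364_438_4 : EL := (EL.cons 0 (TM.mk (P.cons (P.cons (P.lf 36951855 0 0) (P.cons (P.lf 0 8736496 0) (P.cons (P.lf 0 478024 0) (P.lf 53112 0 0)))) (P.cons (P.cons (P.lf 0 79211793 0) (P.cons (P.lf 16912984 0 0) (P.cons (P.lf 925409 0 0) (P.lf 0 102823 0)))) (P.cons (P.cons (P.lf 45667791 0 0) (P.cons (P.lf 0 7354966 0) (P.cons (P.lf 0 402433 0) (P.lf 44713 0 0)))) (P.cons (P.cons (P.lf 0 1263172 0) (P.cons (P.lf 0 1064968 0) (P.cons (P.lf 0 58269 0) P.nil))) (P.cons (P.cons (P.lf 0 2347764 0) (P.cons (P.lf 221401 0 0) P.nil)) (P.cons (P.cons (P.lf 158015 0 0) P.nil) P.nil)))))) 113181)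
 (EL.cons 1 (TM.mk (P.cons (P.cons (P.lf 173273383 0 0) (P.cons (P.lf 0 40966884 0) (P.cons (P.lf 0 2241541 0) (P.lf 249058 0 0)))) (P.cons (P.cons (P.lf 0 196768533 0) (P.cons (P.lf 38011016 0 0) (P.cons (P.lf 2079808 0 0) (P.lf 0 231090 0)))) (P.cons (P.cons (P.lf 13686585 0 0) (P.cons (P.lf 4325940 0 0) (P.cons (P.lf 236696 0 0) (P.lf 0 26298 0)))) (P.cons (P.cons (P.lf 10983324 0 0) (P.cons (P.lf 0 1264929 0) (P.cons (P.lf 0 69211 0) P.nil))) (P.cons (P.cons (P.lf 0 935651 0) (P.cons (P.lf 0 128085 0) P.nil)) (P.cons (P.cons (P.lf 0 259494 0) P.nil) P.nil)))))) 84180)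
 (EL.cons 5 (TM.mk (P.cons (P.cons (P.lf 812507620 0 0) (P.cons (P.lf 0 192100516 0) (P.cons (P.lf 0 10510966 0) (P.lf 1167884 0 0)))) (P.cons (P.cons (P.lf 0 103629784 0) (P.cons (P.lf 0 15407476 0) (P.cons (P.lf 0 843034 0) (P.lf 93668 0 0)))) (P.cons (P.cons (P.lf 0 50152612 0) (P.cons (P.lf 7086352 0 0) (P.cons (P.lf 387734 0 0) (P.lf 0 43080 0)))) (P.cons (P.cons (P.lf 5581874 0 0) (P.cons (P.lf 600572 0 0) (P.cons (P.lf 32858 0 0) P.nil))) (P.cons (P.cons (P.lf 1350780 0 0) (P.cons (P.lf 0 129486 0) P.nil)) (P.cons (P.cons (P.lf 0 108730 0) P.nil) P.nil)))))) 54176)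
 EL.nil)))
noncomputable def S227_256_364_438_5 : EL := (EL.cons 0 (TM.mk (P.cons (P.cons (P.lf 14206932 0 0) (P.cons (P.lf 0 6717865 0) (P.cons (P.lf 426573 0 0) (P.cons (P.lf 127745 0 0) (P.cons (P.lf 0 7277 0) (P.cons (P.lf 0 527 0) P.nil)))))) (P.cons (P.cons (P.lf 0 32722454 0) (P.cons (P.lf 14077458 0 0) (P.cons (P.lf 0 728915 0) (P.cons (P.lf 0 249641 0) (P.cons (P.lf 13739 0 0) P.nil))))) (P.cons (P.cons (P.lf 21835713 0 0) (P.cons (P.lf 0 7455543 0) (P.cons (P.lf 168456 0 0) (P.cons (P.lf 108400 0 0) P.nil)))) (P.cons (P.cons (P.lf 0 1949037 0) (P.cons (P.lf 0 492108 0) (P.cons (P.lf 136364 0 0) P.nil))) (P.cons (P.cons (P.lf 0 1726802 0) (P.cons (P.lf 609925 0 0) P.nil)) (P.cons (P.cons (P.lf 313999 0 0) P.nil) P.nil)))))) 298099)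
 (EL.cons 1 (TM.mk (P.cons (P.cons (P.lf 66618660 0 0) (P.cons (P.lf 0 31501190 0) (P.cons (P.lf 2000280 0 0) (P.cons (P.lf 599025 0 0) (P.cons (P.lf 0 34128 0) (P.cons (P.lf 0 2475 0) P.nil)))))) (P.cons (P.cons (P.lf 0 86285895 0) (P.cons (P.lf 34256685 0 0) (P.cons (P.lf 0 1401616 0) (P.cons (P.lf 0 566763 0) (P.cons (P.lf 30024 0 0) P.nil))))) (P.cons (P.cons (P.lf 14601547 0 0) (P.cons (P.lf 0 45193 0) (P.cons (P.lf 0 647274 0) (P.cons (P.lf 0 70286 0) P.nil)))) (P.cons (P.cons (P.lf 6904515 0 0) (P.cons (P.lf 0 2900081 0) (P.cons (P.lf 12285 0 0) P.nil))) (P.cons (P.cons (P.lf 0 1678608 0) (P.cons (P.lf 82143 0 0) P.nil)) (P.cons (P.cons (P.lf 0 234613 0) P.nil) P.nil)))))) 368140)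
 (EL.cons 5 (TM.mk (P.cons (P.cons (P.lf 312385948 0 0) (P.cons (P.lf 0 147714310 0) (P.cons (P.lf 9379654 0 0) (P.cons (P.lf 2808934 0 0) (P.cons (P.lf 0 160042 0) (P.cons (P.lf 0 11616 0) P.nil)))))) (P.cons (P.cons (P.lf 0 89707380 0) (P.cons (P.lf 11731466 0 0) (P.cons (P.lf 2882768 0 0) (P.cons (P.lf 173898 0 0) (P.cons (P.lf 0 20536 0) P.nil))))) (P.cons (P.cons (P.lf 0 25754266 0) (P.cons (P.lf 13407836 0 0) (P.cons (P.lf 0 243100 0) (P.cons (P.lf 0 188396 0) P.nil)))) (P.cons (P.cons (P.lf 8802618 0 0) (P.cons (P.lf 0 839616 0) (P.cons (P.lf 0 183464 0) P.nil))) (P.cons (P.cons (P.lf 916378 0 0) (P.cons (P.lf 0 563084 0) P.nil)) (P.cons (P.cons (P.lf 0 377510 0) P.nil) P.nil)))))) 289520)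
 EL.nil)))
noncomputable def S227_256_364_438_6 : EL := (EL.cons 12 (TM.mk (P.lf 8589934592 0 0) 0)
 (EL.cons 3 (TM.mk (P.cons (P.lf 0 454308690 0) (P.cons (P.lf 450679503 0 0) (P.cons (P.lf 5414782 0 0) (P.cons (P.lf 0 1756837 0) (P.cons (P.lf 0 35658 0) (P.cons (P.lf 6731 0 0) P.nil)))))) 269)
 (EL.cons 7 (TM.mk (P.cons (P.lf 0 2130328762 0) (P.cons (P.lf 0 34172730 0) (P.cons (P.lf 16813380 0 0) (P.cons (P.lf 270802 0 0) (P.cons (P.lf 0 64991 0) (P.cons (P.lf 0 1601 0) P.nil)))))) 330)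
 EL.nil)))
noncomputable def S227_256_364_438_7 : EL := (EL.cons 12 (TM.mk (P.cons (P.cons (P.lf 3302584240 0 0) (P.cons (P.lf 0 780827312 0) (P.cons (P.lf 0 42723728 0) (P.lf 4747080 0 0)))) (P.cons (P.cons (P.lf 0 527175910 0) (P.cons (P.lf 0 37575888 0) (P.cons (P.lf 0 2056000 0) (P.lf 228440 0 0)))) (P.cons (P.cons (P.lf 0 135660712 0) (P.cons (P.lf 17885016 0 0) (P.cons (P.lf 978592 0 0) (P.lf 0 108728 0)))) (P.cons (P.cons (P.lf 20530984 0 0) (P.cons (P.lf 887672 0 0) (P.cons (P.lf 48560 0 0) P.nil))) (P.cons (P.cons (P.lf 2064088 0 0) (P.cons (P.lf 0 203064 0) P.nil)) (P.cons (P.cons (P.lf 0 210198 0) P.nil) P.nil)))))) 57790)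
 (EL.cons 3 (TM.mk (P.cons (P.cons (P.lf 0 1912804407 0) (P.cons (P.lf 0 82593556 0) (P.cons (P.lf 0 4519186 0) (P.lf 502130 0 0)))) (P.cons (P.cons (P.lf 0 707407559 0) (P.cons (P.lf 77959106 0 0) (P.cons (P.lf 4265608 0 0) (P.lf 0 473956 0)))) (P.cons (P.cons (P.lf 184468761 0 0) (P.cons (P.lf 6819146 0 0) (P.cons (P.lf 373114 0 0) (P.lf 0 41456 0)))) (P.cons (P.cons (P.lf 23248090 0 0) (P.cons (P.lf 0 2054834 0) (P.cons (P.lf 0 112432 0) P.nil))) (P.cons (P.cons (P.lf 0 3087051 0) (P.cons (P.lf 0 159024 0) P.nil)) (P.cons (P.cons (P.lf 0 372428 0) P.nil) P.nil)))))) 214976)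
 (EL.cons 7 (TM.mk (P.cons (P.cons (P.lf 0 687256527 0) (P.cons (P.lf 203041419 0 0) (P.cons (P.lf 11109613 0 0) (P.lf 0 1234403 0)))) (P.cons (P.cons (P.lf 53639115 0 0) (P.cons (P.lf 0 5911241 0) (P.cons (P.lf 0 323438 0) (P.lf 35936 0 0)))) (P.cons (P.cons (P.lf 0 41022845 0) (P.cons (P.lf 2462360 0 0) (P.cons (P.lf 134729 0 0) (P.lf 0 14969 0)))) (P.cons (P.cons (P.lf 7854317 0 0) (P.cons (P.lf 479361 0 0) (P.cons (P.lf 26225 0 0) P.nil))) (P.cons (P.cons (P.lf 1426132 0 0) (P.cons (P.lf 0 102735 0) P.nil)) (P.cons (P.cons (P.lf 0 149231 0) P.nil) P.nil)))))) 133779)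
 (EL.cons 10 (TM.mk (P.cons (P.cons (P.lf 0 2659001160 0) (P.cons (P.lf 0 333640752 0) (P.cons (P.lf 50938311 0 0) (P.cons (P.lf 1556157 0 0) (P.lf 0 129678 0))))) (P.cons (P.cons (P.lf 0 85306386 0) (P.cons (P.lf 0 10703901 0) (P.cons (P.lf 1634208 0 0) (P.cons (P.lf 49923 0 0) (P.lf 0 4158 0))))) (P.cons (P.cons (P.lf 41287530 0 0) (P.cons (P.lf 5180592 0 0) (P.cons (P.lf 0 790941 0) (P.cons (P.lf 0 24162 0) P.nil)))) (P.cons (P.cons (P.lf 1349280 0 0) (P.cons (P.lf 169302 0 0) (P.cons (P.lf 0 25848 0) P.nil))) (P.cons (P.cons (P.lf 0 317022 0) (P.cons (P.lf 0 39777 0) P.nil)) (P.cons (P.cons (P.lf 0 11931 0) P.nil) P.nil)))))) 13623)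
 EL.nil))))
noncomputable def S227_256_364_438_8 : EL := (EL.cons 12 (TM.mk (P.cons (P.cons (P.lf 1269749210 0 0) (P.cons (P.lf 0 600411550 0) (P.cons (P.lf 38125304 0 0) (P.cons (P.lf 11417428 0 0) (P.cons (P.lf 0 650526 0) (P.cons (P.lf 0 47220 0) P.nil)))))) (P.cons (P.cons (P.lf 0 405368126 0) (P.cons (P.lf 66947148 0 0) (P.cons (P.lf 10494394 0 0) (P.cons (P.lf 340550 0 0) (P.cons (P.lf 0 62610 0) P.nil))))) (P.cons (P.cons (P.lf 0 71961830 0) (P.cons (P.lf 43027908 0 0) (P.cons (P.lf 0 732822 0) (P.cons (P.lf 0 599416 0) P.nil)))) (P.cons (P.cons (P.lf 32438514 0 0) (P.cons (P.lf 0 4058358 0) (P.cons (P.lf 0 539916 0) P.nil))) (P.cons (P.cons (P.lf 1209624 0 0) (P.cons (P.lf 0 1384888 0) P.nil)) (P.cons (P.cons (P.lf 0 1063472 0) P.nil) P.nil)))))) 767654)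
 (EL.cons 3 (TM.mk (P.cons (P.cons (P.lf 0 1403682078 0) (P.cons (P.lf 252484259 0 0) (P.cons (P.lf 32584363 0 0) (P.cons (P.lf 518978 0 0) (P.cons (P.lf 0 172025 0) (P.cons (P.lf 0 12486 0) P.nil)))))) (P.cons (P.cons (P.lf 0 397231139 0) (P.cons (P.lf 250467619 0 0) (P.cons (P.lf 0 3108433 0) (P.cons (P.lf 0 3362606 0) (P.cons (P.lf 154096 0 0) P.nil))))) (P.cons (P.cons (P.lf 305754518 0 0) (P.cons (P.lf 0 37887671 0) (P.cons (P.lf 0 4905195 0) (P.cons (P.lf 0 79584 0) P.nil)))) (P.cons (P.cons (P.lf 14441138 0 0) (P.cons (P.lf 0 17092924 0) (P.cons (P.lf 0 158404 0) P.nil))) (P.cons (P.cons (P.lf 0 17024979 0) (P.cons (P.lf 1441499 0 0) P.nil)) (P.cons (P.cons (P.lf 0 163874 0) P.nil) P.nil)))))) 2500916)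
 (EL.cons 7 (TM.mk (P.cons (P.cons (P.lf 0 213559475 0) (P.cons (P.lf 132167032 0 0) (P.cons (P.lf 0 12078776 0) (P.cons (P.lf 0 2916695 0) (P.cons (P.lf 176980 0 0) (P.cons (P.lf 12844 0 0) P.nil)))))) (P.cons (P.cons (P.lf 30120018 0 0) (P.cons (P.lf 0 18991682 0) (P.cons (P.lf 235693 0 0) (P.cons (P.lf 254968 0 0) (P.cons (P.lf 0 11681 0) P.nil))))) (P.cons (P.cons (P.lf 0 38365077 0) (P.cons (P.lf 12445134 0 0) (P.cons (P.lf 253136 0 0) (P.cons (P.lf 0 122473 0) P.nil)))) (P.cons (P.cons (P.lf 14607254 0 0) (P.cons (P.lf 0 711449 0) (P.cons (P.lf 0 236991 0) P.nil))) (P.cons (P.cons (P.lf 1946701 0 0) (P.cons (P.lf 0 1051998 0) P.nil)) (P.cons (P.cons (P.lf 0 997554 0) P.nil) P.nil)))))) 1167644)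
 (EL.cons 10 (TM.mk (P.cons (P.cons (P.lf 0 2044619832 0) (P.cons (P.lf 226857144 0 0) (P.cons (P.lf 126274842 0 0) (P.cons (P.lf 0 7684062 0) (P.cons (P.lf 0 1258086 0) (P.cons (P.lf 64392 0 0) P.nil)))))) (P.cons (P.cons (P.lf 260777262 0 0) (P.cons (P.lf 71493144 0 0) (P.cons (P.lf 1990680 0 0) (P.cons (P.lf 0 864888 0) (P.cons (P.lf 0 80184 0) P.nil))))) (P.cons (P.cons (P.lf 126205614 0 0) (P.cons (P.lf 0 1996548 0) (P.cons (P.lf 0 5630946 0) (P.cons (P.lf 253734 0 0) P.nil)))) (P.cons (P.cons (P.lf 0 14046408 0) (P.cons (P.lf 0 3273786 0) (P.cons (P.lf 0 3228 0) P.nil))) (P.cons (P.cons (P.lf 0 3399144 0) (P.cons (P.lf 0 100662 0) P.nil)) (P.cons (P.cons (P.lf 273618 0 0) P.nil) P.nil)))))) 469578)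
 EL.nil))))
noncomputable def S227_256_364_438_9 : EL := (EL.cons 3 (TM.mk (P.cons (P.lf 0 454308690 0) (P.cons (P.lf 450679503 0 0) (P.cons (P.lf 5414782 0 0) (P.cons (P.lf 0 1756837 0) (P.cons (P.lf 0 35658 0) (P.cons (P.lf 6731 0 0) P.nil)))))) 269)
 (EL.cons 7 (TM.mk (P.cons (P.lf 0 2130328762 0) (P.cons (P.lf 0 34172730 0) (P.cons (P.lf 16813380 0 0) (P.cons (P.lf 270802 0 0) (P.cons (P.lf 0 64991 0) (P.cons (P.lf 0 1601 0) P.nil)))))) 330)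
 EL.nil))
noncomputable def S227_256_364_438_10 : EL := (EL.cons 3 (TM.mk (P.cons (P.cons (P.lf 0 174668700 0) (P.cons (P.lf 41296778 0 0) (P.cons (P.lf 2259593 0 0) (P.lf 0 251065 0)))) (P.cons (P.cons (P.lf 201154921 0 0) (P.cons (P.lf 0 38979553 0) (P.cons (P.lf 0 2132804 0) (P.lf 236978 0 0)))) (P.cons (P.cons (P.lf 0 18402090 0) (P.cons (P.lf 0 3409573 0) (P.cons (P.lf 0 186557 0) (P.lf 20728 0 0)))) (P.cons (P.cons (P.lf 0 9211193 0) (P.cons (P.lf 1027417 0 0) (P.cons (P.lf 56216 0 0) P.nil))) (P.cons (P.cons (P.lf 976605 0 0) (P.cons (P.lf 79512 0 0) P.nil)) (P.cons (P.cons (P.lf 164875 0 0) P.nil) P.nil)))))) 51790)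
 (EL.cons 7 (TM.mk (P.cons (P.cons (P.lf 0 819050496 0) (P.cons (P.lf 193647444 0 0) (P.cons (P.lf 10595608 0 0) (P.lf 0 1177289 0)))) (P.cons (P.cons (P.lf 117602721 0 0) (P.cons (P.lf 12425239 0 0) (P.cons (P.lf 679858 0 0) (P.lf 0 75538 0)))) (P.cons (P.cons (P.lf 42205741 0 0) (P.cons (P.lf 0 5814391 0) (P.cons (P.lf 0 318139 0) (P.lf 35347 0 0)))) (P.cons (P.cons (P.lf 0 5479798 0) (P.cons (P.lf 0 389460 0) (P.cons (P.lf 0 21307 0) P.nil))) (P.cons (P.cons (P.lf 0 900716 0) (P.cons (P.lf 86559 0 0) P.nil)) (P.cons (P.cons (P.lf 83200 0 0) P.nil) P.nil)))))) 30290)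
 EL.nil))
noncomputable def S227_256_364_438_11 : EL := (EL.cons 3 (TM.mk (P.cons (P.cons (P.lf 0 67155120 0) (P.cons (P.lf 31754861 0 0) (P.cons (P.lf 0 2016389 0) (P.cons (P.lf 0 603850 0) (P.cons (P.lf 34405 0 0) (P.cons (P.lf 2496 0 0) P.nil)))))) (P.cons (P.cons (P.lf 88057969 0 0) (P.cons (P.lf 0 35041925 0) (P.cons (P.lf 1445249 0 0) (P.cons (P.lf 581014 0 0) (P.cons (P.lf 0 30818 0) P.nil))))) (P.cons (P.cons (P.lf 0 16661686 0) (P.cons (P.lf 858289 0 0) (P.cons (P.lf 613389 0 0) (P.cons (P.lf 56766 0 0) P.nil)))) (P.cons (P.cons (P.lf 0 6006394 0) (P.cons (P.lf 2637140 0 0) (P.cons (P.lf 0 11074 0) P.nil))) (P.cons (P.cons (P.lf 1670217 0 0) (P.cons (P.lf 0 123757 0) P.nil)) (P.cons (P.cons (P.lf 157552 0 0) P.nil) P.nil)))))) 306670)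
 (EL.cons 7 (TM.mk (P.cons (P.cons (P.lf 0 314901497 0) (P.cons (P.lf 148903810 0 0) (P.cons (P.lf 0 9455186 0) (P.cons (P.lf 0 2831555 0) (P.cons (P.lf 161332 0 0) (P.cons (P.lf 11710 0 0) P.nil)))))) (P.cons (P.cons (P.lf 95481120 0 0) (P.cons (P.lf 0 14214512 0) (P.cons (P.lf 0 2754311 0) (P.cons (P.lf 0 129878 0) (P.cons (P.lf 18115 0 0) P.nil))))) (P.cons (P.cons (P.lf 21944715 0 0) (P.cons (P.lf 0 12112584 0) (P.cons (P.lf 214616 0 0) (P.cons (P.lf 169649 0 0) P.nil)))) (P.cons (P.cons (P.lf 0 8511976 0) (P.cons (P.lf 947419 0 0) (P.cons (P.lf 158559 0 0) P.nil))) (P.cons (P.cons (P.lf 0 592277 0) (P.cons (P.lf 450474 0 0) P.nil)) (P.cons (P.cons (P.lf 322986 0 0) P.nil) P.nil)))))) 236524)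
 EL.nil))
noncomputable def S227_256_364_438_12 : EL := (EL.cons 4 (TM.mk (P.cons (P.lf 454308690 0 0) (P.cons (P.lf 0 450679503 0) (P.cons (P.lf 0 5414782 0) (P.cons (P.lf 1756837 0 0) (P.cons (P.lf 35658 0 0) (P.cons (P.lf 0 6731 0) P.nil)))))) 269)
 (EL.cons 8 (TM.mk (P.cons (P.lf 2130328762 0 0) (P.cons (P.lf 34172730 0 0) (P.cons (P.lf 0 16813380 0) (P.cons (P.lf 0 270802 0) (P.cons (P.lf 64991 0 0) (P.cons (P.lf 1601 0 0) P.nil)))))) 330)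
 EL.nil))
noncomputable def S227_256_364_438_13 : EL := (EL.cons 4 (TM.mk (P.cons (P.cons (P.lf 174668700 0 0) (P.cons (P.lf 0 41296778 0) (P.cons (P.lf 0 2259593 0) (P.lf 251065 0 0)))) (P.cons (P.cons (P.lf 0 201154921 0) (P.cons (P.lf 38979553 0 0) (P.cons (P.lf 2132804 0 0) (P.lf 0 236978 0)))) (P.cons (P.cons (P.lf 18402090 0 0) (P.cons (P.lf 3409573 0 0) (P.cons (P.lf 186557 0 0) (P.lf 0 20728 0)))) (P.cons (P.cons (P.lf 9211193 0 0) (P.cons (P.lf 0 1027417 0) (P.cons (P.lf 0 56216 0) P.nil))) (P.cons (P.cons (P.lf 0 976605 0) (P.cons (P.lf 0 79512 0) P.nil)) (P.cons (P.cons (P.lf 0 164875 0) P.nil) P.nil)))))) 51790)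
 (EL.cons 8 (TM.mk (P.cons (P.cons (P.lf 819050496 0 0) (P.cons (P.lf 0 193647444 0) (P.cons (P.lf 0 10595608 0) (P.lf 1177289 0 0)))) (P.cons (P.cons (P.lf 0 117602721 0) (P.cons (P.lf 0 12425239 0) (P.cons (P.lf 0 679858 0) (P.lf 75538 0 0)))) (P.cons (P.cons (P.lf 0 42205741 0) (P.cons (P.lf 5814391 0 0) (P.cons (P.lf 318139 0 0) (P.lf 0 35347 0)))) (P.cons (P.cons (P.lf 5479798 0 0) (P.cons (P.lf 389460 0 0) (P.cons (P.lf 21307 0 0) P.nil))) (P.cons (P.cons (P.lf 900716 0 0) (P.cons (P.lf 0 86559 0) P.nil)) (P.cons (P.cons (P.lf 0 83200 0) P.nil) P.nil)))))) 30290)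
 EL.nil))
noncomputable def S227_256_364_438_14 : EL := (EL.cons 4 (TM.mk (P.cons (P.cons (P.lf 67155120 0 0) (P.cons (P.lf 0 31754861 0) (P.cons (P.lf 2016389 0 0) (P.cons (P.lf 603850 0 0) (P.cons (P.lf 0 34405 0) (P.cons (P.lf 0 2496 0) P.nil)))))) (P.cons (P.cons (P.lf 0 88057969 0) (P.cons (P.lf 35041925 0 0) (P.cons (P.lf 0 1445249 0) (P.cons (P.lf 0 581014 0) (P.cons (P.lf 30818 0 0) P.nil))))) (P.cons (P.cons (P.lf 16661686 0 0) (P.cons (P.lf 0 858289 0) (P.cons (P.lf 0 613389 0) (P.cons (P.lf 0 56766 0) P.nil)))) (P.cons (P.cons (P.lf 6006394 0 0) (P.cons (P.lf 0 2637140 0) (P.cons (P.lf 11074 0 0) P.nil))) (P.cons (P.cons (P.lf 0 1670217 0) (P.cons (P.lf 123757 0 0) P.nil)) (P.cons (P.cons (P.lf 0 157552 0) P.nil) P.nil)))))) 306670)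
 (EL.cons 8 (TM.mk (P.cons (P.cons (P.lf 314901497 0 0) (P.cons (P.lf 0 148903810 0) (P.cons (P.lf 9455186 0 0) (P.cons (P.lf 2831555 0 0) (P.cons (P.lf 0 161332 0) (P.cons (P.lf 0 11710 0) P.nil)))))) (P.cons (P.cons (P.lf 0 95481120 0) (P.cons (P.lf 14214512 0 0) (P.cons (P.lf 2754311 0 0) (P.cons (P.lf 129878 0 0) (P.cons (P.lf 0 18115 0) P.nil))))) (P.cons (P.cons (P.lf 0 21944715 0) (P.cons (P.lf 12112584 0 0) (P.cons (P.lf 0 214616 0) (P.cons (P.lf 0 169649 0) P.nil)))) (P.cons (P.cons (P.lf 8511976 0 0) (P.cons (P.lf 0 947419 0) (P.cons (P.lf 0 158559 0) P.nil))) (P.cons (P.cons (P.lf 592277 0 0) (P.cons (P.lf 0 450474 0) P.nil)) (P.cons (P.cons (P.lf 0 322986 0) P.nil) P.nil)))))) 236524)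
 EL.nil))
noncomputable def S227_256_364_438_15 : EL := (EL.cons 4 (TM.mk (P.cons (P.lf 0 51259096 0) (P.cons (P.lf 101699239 0 0) (P.cons (P.lf 0 49221527 0) (P.cons (P.lf 0 1608569 0) (P.cons (P.lf 377947 0 0) (P.cons (P.lf 14225 0 0) P.nil)))))) 2557)
 (EL.cons 8 (TM.mk (P.cons (P.lf 0 240362403 0) (P.cons (P.lf 234586631 0 0) (P.cons (P.lf 8586714 0 0) (P.cons (P.lf 0 2734865 0) (P.cons (P.lf 0 94029 0) (P.cons (P.lf 17324 0 0) P.nil)))))) 877)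
 EL.nil))
noncomputable def S227_256_364_438_16 : EL := (EL.cons 4 (TM.mk (P.cons (P.cons (P.lf 0 19707656 0) (P.cons (P.lf 4659465 0 0) (P.cons (P.lf 254946 0 0) (P.lf 0 28326 0)))) (P.cons (P.cons (P.lf 42246289 0 0) (P.cons (P.lf 0 9020258 0) (P.cons (P.lf 0 493551 0) (P.lf 54839 0 0)))) (P.cons (P.cons (P.lf 0 24356155 0) (P.cons (P.lf 3922649 0 0) (P.cons (P.lf 214631 0 0) (P.lf 0 23847 0)))) (P.cons (P.cons (P.lf 673692 0 0) (P.cons (P.lf 567983 0 0) (P.cons (P.lf 31077 0 0) P.nil))) (P.cons (P.cons (P.lf 1252140 0 0) (P.cons (P.lf 0 118080 0) P.nil)) (P.cons (P.cons (P.lf 0 84274 0) P.nil) P.nil)))))) 60372)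
 (EL.cons 8 (TM.mk (P.cons (P.cons (P.lf 0 92412471 0) (P.cons (P.lf 21849005 0 0) (P.cons (P.lf 1195489 0 0) (P.lf 0 132831 0)))) (P.cons (P.cons (P.lf 104943218 0 0) (P.cons (P.lf 0 20272542 0) (P.cons (P.lf 0 1109231 0) (P.lf 123248 0 0)))) (P.cons (P.cons (P.lf 0 7299512 0) (P.cons (P.lf 0 2307168 0) (P.cons (P.lf 0 126238 0) (P.lf 14026 0 0)))) (P.cons (P.cons (P.lf 0 5857773 0) (P.cons (P.lf 674629 0 0) (P.cons (P.lf 36913 0 0) P.nil))) (P.cons (P.cons (P.lf 499014 0 0) (P.cons (P.lf 68312 0 0) P.nil)) (P.cons (P.cons (P.lf 138397 0 0) P.nil) P.nil)))))) 44886)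
 EL.nil))
noncomputable def S227_256_364_438_17 : EL := (EL.cons 4 (TM.mk (P.cons (P.cons (P.lf 0 7577030 0) (P.cons (P.lf 3582861 0 0) (P.cons (P.lf 0 227505 0) (P.cons (P.lf 0 68130 0) (P.cons (P.lf 3881 0 0) (P.cons (P.lf 281 0 0) P.nil)))))) (P.cons (P.cons (P.lf 17451975 0 0) (P.cons (P.lf 0 7507978 0) (P.cons (P.lf 388755 0 0) (P.cons (P.lf 133141 0 0) (P.cons (P.lf 0 7327 0) P.nil))))) (P.cons (P.cons (P.lf 0 11645714 0) (P.cons (P.lf 3976290 0 0) (P.cons (P.lf 0 89843 0) (P.cons (P.lf 0 57813 0) P.nil)))) (P.cons (P.cons (P.lf 1039486 0 0) (P.cons (P.lf 262457 0 0) (P.cons (P.lf 0 72727 0) P.nil))) (P.cons (P.cons (P.lf 920961 0 0) (P.cons (P.lf 0 325293 0) P.nil)) (P.cons (P.cons (P.lf 0 167466 0) P.nil) P.nil)))))) 158996)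
 (EL.cons 8 (TM.mk (P.cons (P.cons (P.lf 0 35529952 0) (P.cons (P.lf 16800635 0 0) (P.cons (P.lf 0 1066816 0) (P.cons (P.lf 0 319480 0) (P.cons (P.lf 18202 0 0) (P.cons (P.lf 1320 0 0) P.nil)))))) (P.cons (P.cons (P.lf 46019144 0 0) (P.cons (P.lf 0 18270232 0) (P.cons (P.lf 747529 0 0) (P.cons (P.lf 302274 0 0) (P.cons (P.lf 0 16013 0) P.nil))))) (P.cons (P.cons (P.lf 0 7787492 0) (P.cons (P.lf 24103 0 0) (P.cons (P.lf 345213 0 0) (P.cons (P.lf 37486 0 0) P.nil)))) (P.cons (P.cons (P.lf 0 3682408 0) (P.cons (P.lf 1546710 0 0) (P.cons (P.lf 0 6552 0) P.nil))) (P.cons (P.cons (P.lf 895258 0 0) (P.cons (P.lf 0 43810 0) P.nil)) (P.cons (P.cons (P.lf 125127 0 0) P.nil) P.nil)))))) 196330)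
 EL.nil))
noncomputable def S227_256_364_438_18 : EL := (EL.cons 4 (TM.mk (P.cons (P.lf 5783501 0 0) (P.cons (P.lf 0 17211901 0) (P.cons (P.lf 16867610 0 0) (P.cons (P.lf 0 5168619 0) (P.cons (P.lf 0 332796 0) (P.cons (P.lf 59024 0 0) P.nil)))))) 4306)
 (EL.cons 8 (TM.mk (P.cons (P.lf 27119797 0 0) (P.cons (P.lf 0 53371278 0) (P.cons (P.lf 24964624 0 0) (P.cons (P.lf 1690000 0 0) (P.cons (P.lf 0 384174 0) (P.cons (P.lf 0 22382 0) P.nil)))))) 4185)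
 EL.nil))
noncomputable def S227_256_364_438_19 : EL := (EL.cons 4 (TM.mk (P.cons (P.cons (P.lf 2223590 0 0) (P.cons (P.lf 0 525720 0) (P.cons (P.lf 0 28765 0) (P.lf 3195 0 0)))) (P.cons (P.cons (P.lf 0 6972424 0) (P.cons (P.lf 1539266 0 0) (P.cons (P.lf 84222 0 0) (P.lf 0 9357 0)))) (P.cons (P.cons (P.lf 7450092 0 0) (P.cons (P.lf 0 1445936 0) (P.cons (P.lf 0 79115 0) (P.lf 8790 0 0)))) (P.cons (P.cons (P.lf 0 2736723 0) (P.cons (P.lf 360803 0 0) (P.cons (P.lf 19740 0 0) P.nil))) (P.cons (P.cons (P.lf 0 116883 0) (P.cons (P.lf 86065 0 0) P.nil)) (P.cons (P.cons (P.lf 160783 0 0) P.nil) P.nil)))))) 64384)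
 (EL.cons 8 (TM.mk (P.cons (P.cons (P.lf 10426786 0 0) (P.cons (P.lf 0 2465196 0) (P.cons (P.lf 0 134885 0) (P.lf 14986 0 0)))) (P.cons (P.cons (P.lf 0 22184109 0) (P.cons (P.lf 4732829 0 0) (P.cons (P.lf 258961 0 0) (P.lf 0 28773 0)))) (P.cons (P.cons (P.lf 12445349 0 0) (P.cons (P.lf 0 1979356 0) (P.cons (P.lf 0 108302 0) (P.lf 12033 0 0)))) (P.cons (P.cons (P.lf 25355 0 0) (P.cons (P.lf 0 371147 0) (P.cons (P.lf 0 20307 0) P.nil))) (P.cons (P.cons (P.lf 0 766734 0) (P.cons (P.lf 73350 0 0) P.nil)) (P.cons (P.cons (P.lf 34461 0 0) P.nil) P.nil)))))) 45912)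
 EL.nil))
noncomputable def S227_256_364_438_20 : EL := (EL.cons 4 (TM.mk (P.cons (P.cons (P.lf 854906 0 0) (P.cons (P.lf 0 404249 0) (P.cons (P.lf 25668 0 0) (P.cons (P.lf 7686 0 0) (P.cons (P.lf 0 437 0) (P.cons (P.lf 0 30 0) P.nil)))))) (P.cons (P.cons (P.lf 0 2817162 0) (P.cons (P.lf 1248135 0 0) (P.cons (P.lf 0 69326 0) (P.cons (P.lf 0 22648 0) (P.cons (P.lf 1260 0 0) P.nil))))) (P.cons (P.cons (P.lf 3257137 0 0) (P.cons (P.lf 0 1284170 0) (P.cons (P.lf 53342 0 0) (P.cons (P.lf 21333 0 0) P.nil)))) (P.cons (P.cons (P.lf 0 1393983 0) (P.cons (P.lf 403783 0 0) (P.cons (P.lf 0 1227 0) P.nil))) (P.cons (P.cons (P.lf 0 10771 0) (P.cons (P.lf 74670 0 0) P.nil)) (P.cons (P.cons (P.lf 128287 0 0) P.nil) P.nil)))))) 118723)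
 (EL.cons 8 (TM.mk (P.cons (P.cons (P.lf 4008801 0 0) (P.cons (P.lf 0 1895594 0) (P.cons (P.lf 120367 0 0) (P.cons (P.lf 36046 0 0) (P.cons (P.lf 0 2053 0) (P.cons (P.lf 0 148 0) P.nil)))))) (P.cons (P.cons (P.lf 0 9169061 0) (P.cons (P.lf 3941860 0 0) (P.cons (P.lf 0 203748 0) (P.cons (P.lf 0 69863 0) (P.cons (P.lf 3843 0 0) P.nil))))) (P.cons (P.cons (P.lf 5981679 0 0) (P.cons (P.lf 0 2025067 0) (P.cons (P.lf 43284 0 0) (P.cons (P.lf 29173 0 0) P.nil)))) (P.cons (P.cons (P.lf 0 378764 0) (P.cons (P.lf 0 203715 0) (P.cons (P.lf 40848 0 0) P.nil))) (P.cons (P.cons (P.lf 0 543410 0) (P.cons (P.lf 185917 0 0) P.nil)) (P.cons (P.cons (P.lf 84064 0 0) P.nil) P.nil)))))) 100998)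
 EL.nil))
noncomputable def S227_256_364_438_21 : EL := (EL.cons 4 (TM.mk (P.cons (P.cons (P.lf 1738135707 0 0) (P.cons (P.lf 123890334 0 0) (P.cons (P.lf 6778779 0 0) (P.lf 0 753195 0)))) (P.cons (P.cons (P.lf 908562480 0 0) (P.cons (P.lf 0 116938659 0) (P.cons (P.lf 0 6398412 0) (P.lf 710934 0 0)))) (P.cons (P.cons (P.lf 0 202870851 0) (P.cons (P.lf 0 10228719 0) (P.cons (P.lf 0 559671 0) (P.lf 62184 0 0)))) (P.cons (P.cons (P.lf 0 32459283 0) (P.cons (P.lf 3082251 0 0) (P.cons (P.lf 168648 0 0) P.nil))) (P.cons (P.cons (P.lf 4063656 0 0) (P.cons (P.lf 238536 0 0) P.nil)) (P.cons (P.cons (P.lf 537303 0 0) P.nil) P.nil)))))) 163167)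
 (EL.cons 8 (TM.mk (P.cons (P.cons (P.lf 0 131793969 0) (P.cons (P.lf 0 9393975 0) (P.cons (P.lf 0 514005 0) (P.lf 57114 0 0)))) (P.cons (P.cons (P.lf 63963606 0 0) (P.cons (P.lf 18336480 0 0) (P.cons (P.lf 1003296 0 0) (P.lf 0 111474 0)))) (P.cons (P.cons (P.lf 83228586 0 0) (P.cons (P.lf 0 8276751 0) (P.cons (P.lf 0 452868 0) (P.lf 50316 0 0)))) (P.cons (P.cons (P.lf 0 13334115 0) (P.cons (P.lf 0 868821 0) (P.cons (P.lf 0 47532 0) P.nil))) (P.cons (P.cons (P.lf 0 2326848 0) (P.cons (P.lf 189294 0 0) P.nil)) (P.cons (P.cons (P.lf 232431 0 0) P.nil) P.nil)))))) 103470)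
 (EL.cons 11 (TM.mk (P.cons (P.cons (P.lf 2659001160 0 0) (P.cons (P.lf 333640752 0 0) (P.cons (P.lf 0 50938311 0) (P.cons (P.lf 0 1556157 0) (P.lf 129678 0 0))))) (P.cons (P.cons (P.lf 85306386 0 0) (P.cons (P.lf 10703901 0 0) (P.cons (P.lf 0 1634208 0) (P.cons (P.lf 0 49923 0) (P.lf 4158 0 0))))) (P.cons (P.cons (P.lf 0 41287530 0) (P.cons (P.lf 0 5180592 0) (P.cons (P.lf 790941 0 0) (P.cons (P.lf 24162 0 0) P.nil)))) (P.cons (P.cons (P.lf 0 1349280 0) (P.cons (P.lf 0 169302 0) (P.cons (P.lf 25848 0 0) P.nil))) (P.cons (P.cons (P.lf 317022 0 0) (P.cons (P.lf 39777 0 0) P.nil)) (P.cons (P.cons (P.lf 11931 0 0) P.nil) P.nil)))))) 13623)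
 EL.nil)))
noncomputable def S227_256_364_438_22 : EL := (EL.cons 4 (TM.mk (P.cons (P.cons (P.lf 668263479 0 0) (P.cons (P.lf 0 110364699 0) (P.cons (P.lf 0 17300376 0) (P.cons (P.lf 0 561414 0) (P.cons (P.lf 103215 0 0) (P.cons (P.lf 7491 0 0) P.nil)))))) (P.cons (P.cons (P.lf 242644554 0 0) (P.cons (P.lf 0 142754772 0) (P.cons (P.lf 2276841 0 0) (P.cons (P.lf 1971810 0 0) (P.cons (P.lf 0 92457 0) P.nil))))) (P.cons (P.cons (P.lf 0 161208102 0) (P.cons (P.lf 19372980 0 0) (P.cons (P.lf 2759292 0 0) (P.cons (P.lf 68175 0 0) P.nil)))) (P.cons (P.cons (P.lf 0 10223766 0) (P.cons (P.lf 9865032 0 0) (P.cons (P.lf 73665 0 0) P.nil))) (P.cons (P.cons (P.lf 9347598 0 0) (P.cons (P.lf 0 782628 0) P.nil)) (P.cons (P.cons (P.lf 160713 0 0) P.nil) P.nil)))))) 1097112)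
 (EL.cons 8 (TM.mk (P.cons (P.cons (P.lf 0 50671011 0) (P.cons (P.lf 8368389 0 0) (P.cons (P.lf 1311795 0 0) (P.cons (P.lf 42570 0 0) (P.cons (P.lf 0 7824 0) (P.cons (P.lf 0 567 0) P.nil)))))) (P.cons (P.cons (P.lf 32680551 0 0) (P.cons (P.lf 2388585 0 0) (P.cons (P.lf 0 1495002 0) (P.cons (P.lf 0 192423 0) (P.cons (P.lf 14898 0 0) P.nil))))) (P.cons (P.cons (P.lf 30154896 0 0) (P.cons (P.lf 0 12278859 0) (P.cons (P.lf 0 19260 0) (P.cons (P.lf 146061 0 0) P.nil)))) (P.cons (P.cons (P.lf 0 11559615 0) (P.cons (P.lf 829434 0 0) (P.cons (P.lf 197775 0 0) P.nil))) (P.cons (P.cons (P.lf 0 1269489 0) (P.cons (P.lf 751236 0 0) P.nil)) (P.cons (P.cons (P.lf 660270 0 0) P.nil) P.nil)))))) 465549)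
 (EL.cons 11 (TM.mk (P.cons (P.cons (P.lf 1022309916 0 0) (P.cons (P.lf 0 113428572 0) (P.cons (P.lf 0 63137421 0) (P.cons (P.lf 3842031 0 0) (P.cons (P.lf 629043 0 0) (P.cons (P.lf 0 32196 0) P.nil)))))) (P.cons (P.cons (P.lf 0 130388631 0) (P.cons (P.lf 0 35746572 0) (P.cons (P.lf 0 995340 0) (P.cons (P.lf 432444 0 0) (P.cons (P.lf 40092 0 0) P.nil))))) (P.cons (P.cons (P.lf 0 63102807 0) (P.cons (P.lf 998274 0 0) (P.cons (P.lf 2815473 0 0) (P.cons (P.lf 0 126867 0) P.nil)))) (P.cons (P.cons (P.lf 7023204 0 0) (P.cons (P.lf 1636893 0 0) (P.cons (P.lf 1614 0 0) P.nil))) (P.cons (P.cons (P.lf 1699572 0 0) (P.cons (P.lf 50331 0 0) P.nil)) (P.cons (P.cons (P.lf 0 136809 0) P.nil) P.nil)))))) 234789)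
 EL.nil)))
noncomputable def S227_256_364_438_23 : EL := (EL.cons 4 (TM.mk (P.cons (P.cons (P.lf 0 196111737 0) (P.cons (P.lf 0 13978395 0) (P.cons (P.lf 0 764841 0) (P.lf 84981 0 0)))) (P.cons (P.cons (P.lf 92033124 0 0) (P.cons (P.lf 27060777 0 0) (P.cons (P.lf 1480656 0 0) (P.lf 0 164517 0)))) (P.cons (P.cons (P.lf 126920169 0 0) (P.cons (P.lf 0 11767947 0) (P.cons (P.lf 0 643893 0) (P.lf 71544 0 0)))) (P.cons (P.cons (P.lf 0 18581040 0) (P.cons (P.lf 0 1703952 0) (P.cons (P.lf 0 93231 0) P.nil))) (P.cons (P.cons (P.lf 0 4776210 0) (P.cons (P.lf 354243 0 0) P.nil)) (P.cons (P.cons (P.lf 433935 0 0) P.nil) P.nil)))))) 194217)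
 (EL.cons 8 (TM.mk (P.cons (P.cons (P.lf 14870151 0 0) (P.cons (P.lf 1059909 0 0) (P.cons (P.lf 57993 0 0) (P.lf 0 6444 0)))) (P.cons (P.cons (P.lf 0 21968298 0) (P.cons (P.lf 0 3120324 0) (P.cons (P.lf 0 170730 0) (P.lf 18969 0 0)))) (P.cons (P.cons (P.lf 0 2408529 0) (P.cons (P.lf 2973576 0 0) (P.cons (P.lf 162699 0 0) (P.lf 0 18075 0)))) (P.cons (P.cons (P.lf 10963557 0 0) (P.cons (P.lf 0 799608 0) (P.cons (P.lf 0 43749 0) P.nil))) (P.cons (P.cons (P.lf 0 1144734 0) (P.cons (P.lf 0 137649 0) P.nil)) (P.cons (P.cons (P.lf 0 341694 0) P.nil) P.nil)))))) 100668)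
 (EL.cons 11 (TM.mk (P.cons (P.cons (P.lf 0 300011865 0) (P.cons (P.lf 0 37644279 0) (P.cons (P.lf 5747307 0 0) (P.cons (P.lf 175578 0 0) (P.lf 0 14631 0))))) (P.cons (P.cons (P.lf 287990244 0 0) (P.cons (P.lf 36135855 0 0) (P.cons (P.lf 0 5517009 0) (P.cons (P.lf 0 168543 0) (P.lf 14043 0 0))))) (P.cons (P.cons (P.lf 17782308 0 0) (P.cons (P.lf 2231250 0 0) (P.cons (P.lf 0 340653 0) (P.cons (P.lf 0 10404 0) P.nil)))) (P.cons (P.cons (P.lf 0 5514414 0) (P.cons (P.lf 0 691926 0) (P.cons (P.lf 105639 0 0) P.nil))) (P.cons (P.cons (P.lf 0 303081 0) (P.cons (P.lf 0 38028 0) P.nil)) (P.cons (P.cons (P.lf 54024 0 0) P.nil) P.nil)))))) 24135)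
 EL.nil)))
noncomputable def S227_256_364_438_24 : EL := (EL.cons 4 (TM.mk (P.cons (P.cons (P.lf 0 75399354 0) (P.cons (P.lf 12452313 0 0) (P.cons (P.lf 1951980 0 0) (P.cons (P.lf 63342 0 0) (P.cons (P.lf 0 11643 0) (P.cons (P.lf 0 843 0) P.nil)))))) (P.cons (P.cons (P.lf 47419746 0 0) (P.cons (P.lf 3754005 0 0) (P.cons (P.lf 0 2193279 0) (P.cons (P.lf 0 285312 0) (P.cons (P.lf 21984 0 0) P.nil))))) (P.cons (P.cons (P.lf 46246167 0 0) (P.cons (P.lf 0 18312423 0) (P.cons (P.lf 0 79749 0) (P.cons (P.lf 212250 0 0) P.nil)))) (P.cons (P.cons (P.lf 0 16855347 0) (P.cons (P.lf 911487 0 0) (P.cons (P.lf 311139 0 0) P.nil))) (P.cons (P.cons (P.lf 0 2527575 0) (P.cons (P.lf 1281786 0 0) P.nil)) (P.cons (P.cons (P.lf 1083675 0 0) P.nil) P.nil)))))) 827532)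
 (EL.cons 8 (TM.mk (P.cons (P.cons (P.lf 5717148 0 0) (P.cons (P.lf 0 944193 0) (P.cons (P.lf 0 148008 0) (P.cons (P.lf 0 4803 0) (P.cons (P.lf 882 0 0) (P.cons (P.lf 63 0 0) P.nil)))))) (P.cons (P.cons (P.lf 0 9358782 0) (P.cons (P.lf 667149 0 0) (P.cons (P.lf 315504 0 0) (P.cons (P.lf 26475 0 0) (P.cons (P.lf 0 2556 0) P.nil))))) (P.cons (P.cons (P.lf 187368 0 0) (P.cons (P.lf 1664010 0 0) (P.cons (P.lf 0 163392 0) (P.cons (P.lf 0 37959 0) P.nil)))) (P.cons (P.cons (P.lf 4745475 0 0) (P.cons (P.lf 0 1468362 0) (P.cons (P.lf 0 27051 0) P.nil))) (P.cons (P.cons (P.lf 0 1123860 0) (P.cons (P.lf 0 9552 0) P.nil)) (P.cons (P.cons (P.lf 0 245664 0) P.nil) P.nil)))))) 306117)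
 (EL.cons 11 (TM.mk (P.cons (P.cons (P.lf 0 115345983 0) (P.cons (P.lf 12798006 0 0) (P.cons (P.lf 7123716 0 0) (P.cons (P.lf 0 433491 0) (P.cons (P.lf 0 70974 0) (P.cons (P.lf 3630 0 0) P.nil)))))) (P.cons (P.cons (P.lf 129136146 0 0) (P.cons (P.lf 0 8662530 0) (P.cons (P.lf 0 6954507 0) (P.cons (P.lf 381234 0 0) (P.cons (P.lf 65883 0 0) P.nil))))) (P.cons (P.cons (P.lf 0 6099477 0) (P.cons (P.lf 0 4266192 0) (P.cons (P.lf 0 513978 0) (P.cons (P.lf 67881 0 0) P.nil)))) (P.cons (P.cons (P.lf 0 8476749 0) (P.cons (P.lf 0 71535 0) (P.cons (P.lf 341154 0 0) P.nil))) (P.cons (P.cons (P.lf 557304 0 0) (P.cons (P.lf 195477 0 0) P.nil)) (P.cons (P.cons (P.lf 245505 0 0) P.nil) P.nil)))))) 225756)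
 EL.nil)))
noncomputable def S227_256_364_438_25 : EL := (EL.cons 4 (TM.mk (P.cons (P.cons (P.lf 22127046 0 0) (P.cons (P.lf 1577163 0 0) (P.cons (P.lf 86295 0 0) (P.lf 0 9588 0)))) (P.cons (P.cons (P.lf 0 32334273 0) (P.cons (P.lf 0 4617801 0) (P.cons (P.lf 0 252666 0) (P.lf 28074 0 0)))) (P.cons (P.cons (P.lf 0 4282938 0) (P.cons (P.lf 4337808 0 0) (P.cons (P.lf 237345 0 0) (P.lf 0 26370 0)))) (P.cons (P.cons (P.lf 16511658 0 0) (P.cons (P.lf 0 1082412 0) (P.cons (P.lf 0 59223 0) P.nil))) (P.cons (P.cons (P.lf 0 1408572 0) (P.cons (P.lf 0 258195 0) P.nil)) (P.cons (P.cons (P.lf 0 665055 0) P.nil) P.nil)))))) 215850)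
 (EL.cons 8 (TM.mk (P.cons (P.cons (P.lf 0 1677780 0) (P.cons (P.lf 0 119586 0) (P.cons (P.lf 0 6543 0) (P.lf 726 0 0)))) (P.cons (P.cons (P.lf 4143033 0 0) (P.cons (P.lf 470694 0 0) (P.cons (P.lf 25752 0 0) (P.lf 0 2859 0)))) (P.cons (P.cons (P.lf 0 2167107 0) (P.cons (P.lf 0 683328 0) (P.cons (P.lf 0 37389 0) (P.lf 4152 0 0)))) (P.cons (P.cons (P.lf 0 1542615 0) (P.cons (P.lf 418383 0 0) (P.cons (P.lf 22890 0 0) P.nil))) (P.cons (P.cons (P.lf 1362495 0 0) (P.cons (P.lf 0 68616 0) P.nil)) (P.cons (P.cons (P.lf 0 73560 0) P.nil) P.nil)))))) 94545)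
 (EL.cons 11 (TM.mk (P.cons (P.cons (P.lf 33849972 0 0) (P.cons (P.lf 4247358 0 0) (P.cons (P.lf 0 648459 0) (P.cons (P.lf 0 19809 0) (P.lf 1650 0 0))))) (P.cons (P.cons (P.lf 0 66073155 0) (P.cons (P.lf 0 8290593 0) (P.cons (P.lf 1265757 0 0) (P.cons (P.lf 38667 0 0) (P.lf 0 3222 0))))) (P.cons (P.cons (P.lf 29824212 0 0) (P.cons (P.lf 3742221 0 0) (P.cons (P.lf 0 571338 0) (P.cons (P.lf 0 17454 0) P.nil)))) (P.cons (P.cons (P.lf 3130695 0 0) (P.cons (P.lf 392826 0 0) (P.cons (P.lf 0 59973 0) P.nil))) (P.cons (P.cons (P.lf 0 682101 0) (P.cons (P.lf 0 85587 0) P.nil)) (P.cons (P.cons (P.lf 0 58242 0) P.nil) P.nil)))))) 41664)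
 EL.nil)))
noncomputable def S227_256_364_438_26 : EL := (EL.cons 4 (TM.mk (P.cons (P.cons (P.lf 8507217 0 0) (P.cons (P.lf 0 1404978 0) (P.cons (P.lf 0 220239 0) (P.cons (P.lf 0 7146 0) (P.cons (P.lf 1311 0 0) (P.cons (P.lf 93 0 0) P.nil)))))) (P.cons (P.cons (P.lf 0 13789569 0) (P.cons (P.lf 970194 0 0) (P.cons (P.lf 465945 0 0) (P.cons (P.lf 39279 0 0) (P.cons (P.lf 0 3783 0) P.nil))))) (P.cons (P.cons (P.lf 0 11721 0) (P.cons (P.lf 2503089 0 0) (P.cons (P.lf 0 233865 0) (P.cons (P.lf 0 55797 0) P.nil)))) (P.cons (P.cons (P.lf 7174650 0 0) (P.cons (P.lf 0 2152887 0) (P.cons (P.lf 0 47832 0) P.nil))) (P.cons (P.cons (P.lf 0 1559223 0) (P.cons (P.lf 0 68976 0) P.nil)) (P.cons (P.cons (P.lf 0 448563 0) P.nil) P.nil)))))) 508371)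
 (EL.cons 8 (TM.mk (P.cons (P.cons (P.lf 0 645057 0) (P.cons (P.lf 106530 0 0) (P.cons (P.lf 16698 0 0) (P.cons (P.lf 540 0 0) (P.cons (P.lf 0 99 0) (P.cons (P.lf 0 6 0) P.nil)))))) (P.cons (P.cons (P.lf 1695846 0 0) (P.cons (P.lf 0 180954 0) (P.cons (P.lf 0 52164 0) (P.cons (P.lf 0 3522 0) (P.cons (P.lf 387 0 0) P.nil))))) (P.cons (P.cons (P.lf 0 1060956 0) (P.cons (P.lf 0 114345 0) (P.cons (P.lf 53550 0 0) (P.cons (P.lf 7239 0 0) P.nil)))) (P.cons (P.cons (P.lf 0 529533 0) (P.cons (P.lf 353229 0 0) (P.cons (P.lf 0 14745 0) P.nil))) (P.cons (P.cons (P.lf 662235 0 0) (P.cons (P.lf 0 161316 0) P.nil)) (P.cons (P.cons (P.lf 0 91680 0) P.nil) P.nil)))))) 163791)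
 (EL.cons 11 (TM.mk (P.cons (P.cons (P.lf 13014345 0 0) (P.cons (P.lf 0 1443981 0) (P.cons (P.lf 0 803760 0) (P.cons (P.lf 48909 0 0) (P.cons (P.lf 8007 0 0) (P.cons (P.lf 0 408 0) P.nil)))))) (P.cons (P.cons (P.lf 0 27480657 0) (P.cons (P.lf 2409828 0 0) (P.cons (P.lf 1582005 0 0) (P.cons (P.lf 0 91533 0) (P.cons (P.lf 0 15375 0) P.nil))))) (P.cons (P.cons (P.lf 14986962 0 0) (P.cons (P.lf 0 471012 0) (P.cons (P.lf 0 710826 0) (P.cons (P.lf 34428 0 0) P.nil)))) (P.cons (P.cons (P.lf 497706 0 0) (P.cons (P.lf 0 486663 0) (P.cons (P.lf 0 108480 0) P.nil))) (P.cons (P.cons (P.lf 0 1075185 0) (P.cons (P.lf 0 32133 0) P.nil)) (P.cons (P.cons (P.lf 24603 0 0) P.nil) P.nil)))))) 170244)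
 EL.nil)))
noncomputable def S227_256_364_438_27 : EL := (EL.cons 13 (TM.mk (P.lf 0 4294967296 0) 0)
 EL.nil)
noncomputable def S227_256_364_438_28 : EL := (EL.cons 13 (TM.mk (P.cons (P.cons (P.lf 0 1651292120 0) (P.cons (P.lf 390413656 0 0) (P.cons (P.lf 21361864 0 0) (P.lf 0 2373540 0)))) (P.cons (P.cons (P.lf 263587955 0 0) (P.cons (P.lf 18787944 0 0) (P.cons (P.lf 1028000 0 0) (P.lf 0 114220 0)))) (P.cons (P.cons (P.lf 67830356 0 0) (P.cons (P.lf 0 8942508 0) (P.cons (P.lf 0 489296 0) (P.lf 54364 0 0)))) (P.cons (P.cons (P.lf 0 10265492 0) (P.cons (P.lf 0 443836 0) (P.cons (P.lf 0 24280 0) P.nil))) (P.cons (P.cons (P.lf 0 1032044 0) (P.cons (P.lf 101532 0 0) P.nil)) (P.cons (P.cons (P.lf 105099 0 0) P.nil) P.nil)))))) 28895)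
 EL.nil)
noncomputable def S227_256_364_438_29 : EL := (EL.cons 13 (TM.mk (P.cons (P.cons (P.lf 0 634874605 0) (P.cons (P.lf 300205775 0 0) (P.cons (P.lf 0 19062652 0) (P.cons (P.lf 0 5708714 0) (P.cons (P.lf 325263 0 0) (P.cons (P.lf 23610 0 0) P.nil)))))) (P.cons (P.cons (P.lf 202684063 0 0) (P.cons (P.lf 0 33473574 0) (P.cons (P.lf 0 5247197 0) (P.cons (P.lf 0 170275 0) (P.cons (P.lf 31305 0 0) P.nil))))) (P.cons (P.cons (P.lf 35980915 0 0) (P.cons (P.lf 0 21513954 0) (P.cons (P.lf 366411 0 0) (P.cons (P.lf 299708 0 0) P.nil)))) (P.cons (P.cons (P.lf 0 16219257 0) (P.cons (P.lf 2029179 0 0) (P.cons (P.lf 269958 0 0) P.nil))) (P.cons (P.cons (P.lf 0 604812 0) (P.cons (P.lf 692444 0 0) P.nil)) (P.cons (P.cons (P.lf 531736 0 0) P.nil) P.nil)))))) 383827)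
 EL.nil)
noncomputable def S227_256_364_438_30 : EL := (EL.cons 13 (TM.mk (P.cons (P.lf 484595936 0 0) (P.cons (P.lf 0 480724804 0) (P.cons (P.lf 0 5775768 0) (P.cons (P.lf 1873960 0 0) (P.cons (P.lf 38036 0 0) (P.cons (P.lf 0 7180 0) P.nil)))))) 280)
 EL.nil)
noncomputable def S227_256_364_438_31 : EL := (EL.cons 13 (TM.mk (P.cons (P.cons (P.lf 186313281 0 0) (P.cons (P.lf 0 44049897 0) (P.cons (P.lf 0 2410233 0) (P.lf 267803 0 0)))) (P.cons (P.cons (P.lf 0 214565250 0) (P.cons (P.lf 41578190 0 0) (P.cons (P.lf 2274991 0 0) (P.lf 0 252777 0)))) (P.cons (P.cons (P.lf 19628897 0 0) (P.cons (P.lf 3636878 0 0) (P.cons (P.lf 198995 0 0) (P.lf 0 22110 0)))) (P.cons (P.cons (P.lf 9825273 0 0) (P.cons (P.lf 0 1095912 0) (P.cons (P.lf 0 59964 0) P.nil))) (P.cons (P.cons (P.lf 0 1041713 0) (P.cons (P.lf 0 84813 0) P.nil)) (P.cons (P.cons (P.lf 0 175867 0) P.nil) P.nil))))))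 55223)
 EL.nil)
noncomputable def S227_256_364_438_32 : EL := (EL.cons 13 (TM.mk (P.cons (P.cons (P.lf 71632129 0 0) (P.cons (P.lf 0 33871852 0) (P.cons (P.lf 2150815 0 0) (P.cons (P.lf 644107 0 0) (P.cons (P.lf 0 36699 0) (P.cons (P.lf 0 2663 0) P.nil)))))) (P.cons (P.cons (P.lf 0 93928501 0) (P.cons (P.lf 37378054 0 0) (P.cons (P.lf 0 1541599 0) (P.cons (P.lf 0 619749 0) (P.cons (P.lf 32873 0 0) P.nil))))) (P.cons (P.cons (P.lf 17772466 0 0) (P.cons (P.lf 0 915509 0) (P.cons (P.lf 0 654282 0) (P.cons (P.lf 0 60551 0) P.nil)))) (P.cons (P.cons (P.lf 6406821 0 0) (P.cons (P.lf 0 2812950 0) (P.cons (P.lf 11813 0 0) P.nil))) (P.cons (P.cons (P.lf 0 1781565 0) (P.cons (P.lf 132008 0 0) P.nil)) (P.cons (P.cons (P.lf 0 168056 0) P.nil) P.nil)))))) 327092)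
 EL.nil)
noncomputable def S227_256_364_438_33 : EL := (EL.cons 14 (TM.mk (P.lf 8589934592 0 0) 0)
 EL.nil)
noncomputable def S227_256_364_438_34 : EL := (EL.cons 14 (TM.mk (P.cons (P.cons (P.lf 3302584240 0 0) (P.cons (P.lf 0 780827312 0) (P.cons (P.lf 0 42723728 0) (P.lf 4747080 0 0)))) (P.cons (P.cons (P.lf 0 527175910 0) (P.cons (P.lf 0 37575888 0) (P.cons (P.lf 0 2056000 0) (P.lf 228440 0 0)))) (P.cons (P.cons (P.lf 0 135660712 0) (P.cons (P.lf 17885016 0 0) (P.cons (P.lf 978592 0 0) (P.lf 0 108728 0)))) (P.cons (P.cons (P.lf 20530984 0 0) (P.cons (P.lf 887672 0 0) (P.cons (P.lf 48560 0 0) P.nil))) (P.cons (P.cons (P.lf 2064088 0 0) (P.cons (P.lf 0 203064 0) P.nil)) (P.cons (P.cons (P.lf 0 210198 0) P.nil) P.nil)))))) 57790)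
 EL.nil)
noncomputable def S227_256_364_438_35 : EL := (EL.cons 14 (TM.mk (P.cons (P.cons (P.lf 1269749210 0 0) (P.cons (P.lf 0 600411550 0) (P.cons (P.lf 38125304 0 0) (P.cons (P.lf 11417428 0 0) (P.cons (P.lf 0 650526 0) (P.cons (P.lf 0 47220 0) P.nil)))))) (P.cons (P.cons (P.lf 0 405368126 0) (P.cons (P.lf 66947148 0 0) (P.cons (P.lf 10494394 0 0) (P.cons (P.lf 340550 0 0) (P.cons (P.lf 0 62610 0) P.nil))))) (P.cons (P.cons (P.lf 0 71961830 0) (P.cons (P.lf 43027908 0 0) (P.cons (P.lf 0 732822 0) (P.cons (P.lf 0 599416 0) P.nil)))) (P.cons (P.cons (P.lf 32438514 0 0) (P.cons (P.lf 0 4058358 0) (P.cons (P.lf 0 539916 0) P.nil))) (P.cons (P.cons (P.lf 1209624 0 0) (P.cons (P.lf 0 1384888 0) P.nil)) (P.cons (P.cons (P.lf 0 1063472 0) P.nil) P.nil)))))) 767654)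
 EL.nil)
noncomputable def S227_256_364_438_36 : EL := (EL.cons 14 (TM.mk (P.cons (P.lf 0 969191872 0) (P.cons (P.lf 961449608 0 0) (P.cons (P.lf 11551536 0 0) (P.cons (P.lf 0 3747920 0) (P.cons (P.lf 0 76072 0) (P.cons (P.lf 14360 0 0) P.nil)))))) 560)
 EL.nil)
noncomputable def S227_256_364_438_37 : EL := (EL.cons 14 (TM.mk (P.cons (P.cons (P.lf 0 372626562 0) (P.cons (P.lf 88099794 0 0) (P.cons (P.lf 4820466 0 0) (P.lf 0 535606 0)))) (P.cons (P.cons (P.lf 429130500 0 0) (P.cons (P.lf 0 83156380 0) (P.cons (P.lf 0 4549982 0) (P.lf 505554 0 0)))) (P.cons (P.cons (P.lf 0 39257794 0) (P.cons (P.lf 0 7273756 0) (P.cons (P.lf 0 397990 0) (P.lf 44220 0 0)))) (P.cons (P.cons (P.lf 0 19650546 0) (P.cons (P.lf 2191824 0 0) (P.cons (P.lf 119928 0 0) P.nil))) (P.cons (P.cons (P.lf 2083426 0 0) (P.cons (P.lf 169626 0 0) P.nil)) (P.cons (P.cons (P.lf 351734 0 0) P.nil) P.nil))))))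 110446)
 EL.nil)
noncomputable def S227_256_364_438_38 : EL := (EL.cons 14 (TM.mk (P.cons (P.cons (P.lf 0 143264258 0) (P.cons (P.lf 67743704 0 0) (P.cons (P.lf 0 4301630 0) (P.cons (P.lf 0 1288214 0) (P.cons (P.lf 73398 0 0) (P.cons (P.lf 5326 0 0) P.nil)))))) (P.cons (P.cons (P.lf 187857002 0 0) (P.cons (P.lf 0 74756108 0) (P.cons (P.lf 3083198 0 0) (P.cons (P.lf 1239498 0 0) (P.cons (P.lf 0 65746 0) P.nil))))) (P.cons (P.cons (P.lf 0 35544932 0) (P.cons (P.lf 1831018 0 0) (P.cons (P.lf 1308564 0 0) (P.cons (P.lf 121102 0 0) P.nil)))) (P.cons (P.cons (P.lf 0 12813642 0) (P.cons (P.lf 5625900 0 0) (P.cons (P.lf 0 23626 0) P.nil))) (P.cons (P.cons (P.lf 3563130 0 0) (P.cons (P.lf 0 264016 0) P.nil)) (P.cons (P.cons (P.lf 336112 0 0) P.nil) P.nil)))))) 654184)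
 EL.nil)
noncomputable def S227_256_364_438_39 : EL := (EL.cons 14 (TM.mk (P.cons (P.lf 109352740 0 0) (P.cons (P.lf 0 216958378 0) (P.cons (P.lf 105005926 0 0) (P.cons (P.lf 3431614 0 0) (P.cons (P.lf 0 806288 0) (P.cons (P.lf 0 30348 0) P.nil)))))) 5440)
 EL.nil)
noncomputable def S227_256_364_438_40 : EL := (EL.cons 14 (TM.mk (P.cons (P.cons (P.lf 42043000 0 0) (P.cons (P.lf 0 9940192 0) (P.cons (P.lf 0 543886 0) (P.lf 60430 0 0)))) (P.cons (P.cons (P.lf 0 90125418 0) (P.cons (P.lf 19243218 0 0) (P.cons (P.lf 1052910 0 0) (P.lf 0 116990 0)))) (P.cons (P.cons (P.lf 51959798 0 0) (P.cons (P.lf 0 8368318 0) (P.cons (P.lf 0 457880 0) (P.lf 50874 0 0)))) (P.cons (P.cons (P.lf 0 1437210 0) (P.cons (P.lf 0 1211698 0) (P.cons (P.lf 0 66298 0) P.nil))) (P.cons (P.cons (P.lf 0 2671234 0) (P.cons (P.lf 251906 0 0) P.nil)) (P.cons (P.cons (P.lf 179786 0 0) P.nil) P.nil))))))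 128754)
 EL.nil)
noncomputable def S227_256_364_438_41 : EL := (EL.cons 14 (TM.mk (P.cons (P.cons (P.lf 16164332 0 0) (P.cons (P.lf 0 7643438 0) (P.cons (P.lf 485346 0 0) (P.cons (P.lf 145346 0 0) (P.cons (P.lf 0 8280 0) (P.cons (P.lf 0 600 0) P.nil)))))) (P.cons (P.cons (P.lf 0 37230882 0) (P.cons (P.lf 16017020 0 0) (P.cons (P.lf 0 829344 0) (P.cons (P.lf 0 284036 0) (P.cons (P.lf 15632 0 0) P.nil))))) (P.cons (P.cons (P.lf 24844190 0 0) (P.cons (P.lf 0 8482752 0) (P.cons (P.lf 191666 0 0) (P.cons (P.lf 123336 0 0) P.nil)))) (P.cons (P.cons (P.lf 0 2217572 0) (P.cons (P.lf 0 559910 0) (P.cons (P.lf 155152 0 0) P.nil))) (P.cons (P.cons (P.lf 0 1964718 0) (P.cons (P.lf 693960 0 0) P.nil)) (P.cons (P.cons (P.lf 357262 0 0) P.nil) P.nil)))))) 339146)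
 EL.nil)
noncomputable def S227_256_364_438_42 : EL := (EL.cons 14 (TM.mk (P.cons (P.lf 0 12338136 0) (P.cons (P.lf 36718724 0 0) (P.cons (P.lf 0 35984236 0) (P.cons (P.lf 11026388 0 0) (P.cons (P.lf 709966 0 0) (P.cons (P.lf 0 125918 0) P.nil)))))) 9172)
 EL.nil)
noncomputable def S227_256_364_438_43 : EL := (EL.cons 14 (TM.mk (P.cons (P.cons (P.lf 0 4743660 0) (P.cons (P.lf 1121538 0 0) (P.cons (P.lf 61366 0 0) (P.lf 0 6818 0)))) (P.cons (P.cons (P.lf 14874506 0 0) (P.cons (P.lf 0 3283768 0) (P.cons (P.lf 0 179674 0) (P.lf 19962 0 0)))) (P.cons (P.cons (P.lf 0 15893530 0) (P.cons (P.lf 3084664 0 0) (P.cons (P.lf 168780 0 0) (P.lf 0 18752 0)))) (P.cons (P.cons (P.lf 5838344 0 0) (P.cons (P.lf 0 769714 0) (P.cons (P.lf 0 42114 0) P.nil))) (P.cons (P.cons (P.lf 249352 0 0) (P.cons (P.lf 0 183606 0) P.nil)) (P.cons (P.cons (P.lf 0 343004 0) P.nil) P.nil)))))) 137312)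
 EL.nil)
noncomputable def S227_256_364_438_44 : EL := (EL.cons 14 (TM.mk (P.cons (P.cons (P.lf 0 1823800 0) (P.cons (P.lf 862398 0 0) (P.cons (P.lf 0 54760 0) (P.cons (P.lf 0 16398 0) (P.cons (P.lf 934 0 0) (P.cons (P.lf 66 0 0) P.nil)))))) (P.cons (P.cons (P.lf 6009946 0 0) (P.cons (P.lf 0 2662690 0) (P.cons (P.lf 147896 0 0) (P.cons (P.lf 48316 0 0) (P.cons (P.lf 0 2690 0) P.nil))))) (P.cons (P.cons (P.lf 0 6948560 0) (P.cons (P.lf 2739564 0 0) (P.cons (P.lf 0 113798 0) (P.cons (P.lf 0 45512 0) P.nil)))) (P.cons (P.cons (P.lf 2973832 0 0) (P.cons (P.lf 0 861404 0) (P.cons (P.lf 2618 0 0) P.nil))) (P.cons (P.cons (P.lf 22980 0 0) (P.cons (P.lf 0 159296 0) P.nil)) (P.cons (P.cons (P.lf 0 273680 0) P.nil) P.nil)))))) 253230)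
 EL.nil)
noncomputable def S227_256_364_438_45 : EL := (EL.cons 14 (TM.mk (P.cons (P.cons (P.lf 488182264 0 0) (P.cons (P.lf 0 346261610 0) (P.cons (P.lf 62920308 0 0) (P.cons (P.lf 4612044 0 0) (P.cons (P.lf 0 1809386 0) (P.cons (P.lf 5260 0 0) P.nil)))))) (P.cons (P.cons (P.lf 0 233778680 0) (P.cons (P.lf 93881000 0 0) (P.cons (P.lf 0 51810 0) (P.cons (P.lf 0 2070008 0) (P.cons (P.lf 0 105338 0) P.nil))))) (P.cons (P.cons (P.lf 0 22842406 0) (P.cons (P.lf 32874980 0 0) (P.cons (P.lf 0 6382534 0) (P.cons (P.lf 0 696638 0) P.nil)))) (P.cons (P.cons (P.lf 26324902 0 0) (P.cons (P.lf 0 10040032 0) (P.cons (P.lf 0 162310 0) P.nil))) (P.cons (P.cons (P.lf 0 1053006 0) (P.cons (P.lf 0 1420776 0) P.nil)) (P.cons (P.cons (P.lf 0 1295886 0) P.nil) P.nil)))))) 2077504)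
 EL.nil)
noncomputable def S227_256_364_438_46 : EL := (EL.cons 15 (TM.mk (P.lf 4294967296 0 0) 0)
 EL.nil)
noncomputable def S227_256_364_438_47 : EL := (EL.cons 15 (TM.mk (P.cons (P.cons (P.lf 1651292120 0 0) (P.cons (P.lf 0 390413656 0) (P.cons (P.lf 0 21361864 0) (P.lf 2373540 0 0)))) (P.cons (P.cons (P.lf 0 263587955 0) (P.cons (P.lf 0 18787944 0) (P.cons (P.lf 0 1028000 0) (P.lf 114220 0 0)))) (P.cons (P.cons (P.lf 0 67830356 0) (P.cons (P.lf 8942508 0 0) (P.cons (P.lf 489296 0 0) (P.lf 0 54364 0)))) (P.cons (P.cons (P.lf 10265492 0 0) (P.cons (P.lf 443836 0 0) (P.cons (P.lf 24280 0 0) P.nil))) (P.cons (P.cons (P.lf 1032044 0 0) (P.cons (P.lf 0 101532 0) P.nil)) (P.cons (P.cons (P.lf 0 105099 0) P.nil) P.nil)))))) 28895)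
 EL.nil)
noncomputable def S227_256_364_438_48 : EL := (EL.cons 15 (TM.mk (P.cons (P.cons (P.lf 634874605 0 0) (P.cons (P.lf 0 300205775 0) (P.cons (P.lf 19062652 0 0) (P.cons (P.lf 5708714 0 0) (P.cons (P.lf 0 325263 0) (P.cons (P.lf 0 23610 0) P.nil)))))) (P.cons (P.cons (P.lf 0 202684063 0) (P.cons (P.lf 33473574 0 0) (P.cons (P.lf 5247197 0 0) (P.cons (P.lf 170275 0 0) (P.cons (P.lf 0 31305 0) P.nil))))) (P.cons (P.cons (P.lf 0 35980915 0) (P.cons (P.lf 21513954 0 0) (P.cons (P.lf 0 366411 0) (P.cons (P.lf 0 299708 0) P.nil)))) (P.cons (P.cons (P.lf 16219257 0 0) (P.cons (P.lf 0 2029179 0) (P.cons (P.lf 0 269958 0) P.nil))) (P.cons (P.cons (P.lf 604812 0 0) (P.cons (P.lf 0 692444 0) P.nil)) (P.cons (P.cons (P.lf 0 531736 0) P.nil) P.nil)))))) 383827)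
 EL.nil)
noncomputable def S227_256_364_438 : SL := (SL.cons S227_256_364_438_0 (SL.cons S227_256_364_438_1 (SL.cons S227_256_364_438_2 (SL.cons S227_256_364_438_3 (SL.cons S227_256_364_438_4 (SL.cons S227_256_364_438_5 (SL.cons S227_256_364_438_6 (SL.cons S227_256_364_438_7 (SL.cons S227_256_364_438_8 (SL.cons S227_256_364_438_9 (SL.cons S227_256_364_438_10 (SL.cons S227_256_364_438_11 (SL.cons S227_256_364_438_12 (SL.cons S227_256_364_438_13 (SL.cons S227_256_364_438_14 (SL.cons S227_256_364_438_15 (SL.cons S227_256_364_438_16 (SL.cons S227_256_364_438_17 (SL.cons S227_256_364_438_18 (SL.cons S227_256_364_438_19 (SL.cons S227_256_364_438_20 (SL.cons S227_256_364_438_21 (SL.cons S227_256_364_438_22 (SL.cons S227_256_364_438_23 (SL.cons S227_256_364_438_24 (SL.cons S227_256_364_438_25 (SL.cons S227_256_364_438_26 (SL.cons S227_256_364_438_27 (SL.cons S227_256_364_438_28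 (SL.cons S227_256_364_438_29 (SL.cons S227_256_364_438_30 (SL.cons S227_256_364_438_31 (SL.cons S227_256_364_438_32 (SL.cons S227_256_364_438_33 (SL.cons S227_256_364_438_34 (SL.cons S227_256_364_438_35 (SL.cons S227_256_364_438_36 (SL.cons S227_256_364_438_37 (SL.cons S227_256_364_438_38 (SL.cons S227_256_364_438_39 (SL.cons S227_256_364_438_40 (SL.cons S227_256_364_438_41 (SL.cons S227_256_364_438_42 (SL.cons S227_256_364_438_43 (SL.cons S227_256_364_438_44 (SL.cons S227_256_364_438_45 (SL.cons S227_256_364_438_46 (SL.cons S227_256_364_438_47 (SL.cons S227_256_364_438_48 SL.nil)))))))))))))))))))))))))))))))))))))))))))))))))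
noncomputable def S227_256_364_512_0 : EL := (EL.cons 0 (TM.mk (P.cons (P.lf 8359606057 0 0) (P.cons (P.lf 190686074 0 0) (P.cons (P.lf 0 92290364 0) (P.cons (P.lf 0 3016066 0) (P.cons (P.lf 708651 0 0) (P.cons (P.lf 26673 0 0) P.nil)))))) 4788)
 (EL.cons 1 (TM.mk (P.cons (P.lf 0 450679505 0) (P.cons (P.lf 439849933 0 0) (P.cons (P.lf 16100088 0 0) (P.cons (P.lf 0 5127871 0) (P.cons (P.lf 0 176304 0) (P.cons (P.lf 32482 0 0) P.nil)))))) 1651)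
 (EL.cons 5 (TM.mk (P.cons (P.lf 4329140030 0 0) (P.cons (P.lf 0 67799490 0) (P.cons (P.lf 32814348 0 0) (P.cons (P.lf 1072376 0 0) (P.cons (P.lf 0 251962 0) (P.cons (P.lf 0 9484 0) P.nil)))))) 1837)
 (EL.cons 9 (TM.mk (P.lf 6442450944 0 0) 2)
 EL.nil))))
noncomputable def S227_256_364_512_1 : EL := (EL.cons 0 (TM.mk (P.cons (P.cons (P.lf 2812374494 0 0) (P.cons (P.lf 0 1601175368 0) (P.cons (P.lf 0 107050853 0) (P.lf 35683620 0 0)))) (P.cons (P.cons (P.lf 0 722019161 0) (P.cons (P.lf 0 228366478 0) (P.cons (P.lf 0 15268040 0) (P.lf 5089337 0 0)))) (P.cons (P.cons (P.lf 0 367871533 0) (P.cons (P.lf 102627675 0 0) (P.cons (P.lf 6861440 0 0) (P.lf 0 2287137 0)))) (P.cons (P.cons (P.lf 61696174 0 0) (P.cons (P.lf 11203677 0 0) (P.cons (P.lf 749037 0 0) P.nil))) (P.cons (P.cons (P.lf 12196690 0 0) (P.cons (P.lf 0 2368978 0) P.nil)) (P.cons (P.cons (P.lf 0 1297837 0) P.nil)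 P.nil)))))) 1106078)
 (EL.cons 1 (TM.mk (P.cons (P.cons (P.lf 781267697 0 0) (P.cons (P.lf 221345390 0 0) (P.cons (P.lf 14798632 0 0) (P.lf 0 4932877 0)))) (P.cons (P.cons (P.lf 585263728 0 0) (P.cons (P.lf 0 201002690 0) (P.cons (P.lf 0 13438569 0) (P.lf 4479519 0 0)))) (P.cons (P.cons (P.lf 0 125893158 0) (P.cons (P.lf 0 29686086 0) (P.cons (P.lf 0 1984732 0) (P.lf 661573 0 0)))) (P.cons (P.cons (P.lf 0 38539871 0) (P.cons (P.lf 8537412 0 0) (P.cons (P.lf 570787 0 0) P.nil))) (P.cons (P.cons (P.lf 5000474 0 0) (P.cons (P.lf 980465 0 0) P.nil)) (P.cons (P.cons (P.lf 956569 0 0) P.nil) P.nil)))))) 733287)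
 (EL.cons 5 (TM.mk (P.cons (P.cons (P.lf 1111257870 0 0) (P.cons (P.lf 0 879150218 0) (P.cons (P.lf 0 58777936 0) (P.lf 19592644 0 0)))) (P.cons (P.cons (P.lf 0 224874532 0) (P.cons (P.lf 11492614 0 0) (P.cons (P.lf 768366 0 0) (P.lf 0 256120 0)))) (P.cons (P.cons (P.lf 31428800 0 0) (P.cons (P.lf 0 3312616 0) (P.cons (P.lf 0 221466 0) (P.lf 73818 0 0)))) (P.cons (P.cons (P.lf 0 3693858 0) (P.cons (P.lf 0 2336862 0) (P.cons (P.lf 0 156230 0) P.nil))) (P.cons (P.cons (P.lf 0 2763108 0) (P.cons (P.lf 465606 0 0) P.nil)) (P.cons (P.cons (P.lf 272957 0 0) P.nil) P.nil)))))) 559935)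
 (EL.cons 9 (TM.mk (P.cons (P.cons (P.lf 1862835204 0 0) (P.cons (P.lf 0 1278050304 0) (P.cons (P.lf 0 85447464 0) (P.lf 28482486 0 0)))) (P.cons (P.cons (P.lf 0 424934518 0) (P.cons (P.lf 0 61503834 0) (P.cons (P.lf 0 4111998 0) (P.lf 1370664 0 0)))) (P.cons (P.cons (P.lf 0 87679374 0) (P.cons (P.lf 29274012 0 0) (P.cons (P.lf 1957188 0 0) (P.lf 0 652392 0)))) (P.cons (P.cons (P.lf 16096368 0 0) (P.cons (P.lf 1452930 0 0) (P.cons (P.lf 97134 0 0) P.nil))) (P.cons (P.cons (P.lf 1388358 0 0) (P.cons (P.lf 0 332370 0) P.nil)) (P.cons (P.cons (P.lf 0 166312 0) P.nil) P.nil)))))) 105281)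
 (EL.cons 2 (TM.mk (P.cons (P.cons (P.lf 311013646 0 0) (P.cons (P.lf 48152722 0 0) (P.cons (P.lf 0 23198461 0) (P.cons (P.lf 0 877896 0) (P.lf 219473 0 0))))) (P.cons (P.cons (P.lf 0 298551178 0) (P.cons (P.lf 0 46223218 0) (P.cons (P.lf 22268888 0 0) (P.cons (P.lf 842717 0 0) (P.lf 0 210678 0))))) (P.cons (P.cons (P.lf 0 18434407 0) (P.cons (P.lf 0 2854108 0) (P.cons (P.lf 1375017 0 0) (P.cons (P.lf 52034 0 0) P.nil)))) (P.cons (P.cons (P.lf 5716634 0 0) (P.cons (P.lf 885076 0 0) (P.cons (P.lf 0 426400 0) P.nil))) (P.cons (P.cons (P.lf 314192 0 0) (P.cons (P.lf 48645 0 0) P.nil)) (P.cons (P.cons (P.lf 0 56005 0) P.nil) P.nil)))))) 79583)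
 (EL.cons 6 (TM.mk (P.cons (P.cons (P.lf 1458394554 0 0) (P.cons (P.lf 225796098 0 0) (P.cons (P.lf 0 108781437 0) (P.cons (P.lf 0 4116609 0) (P.lf 1029150 0 0))))) (P.cons (P.cons (P.lf 70182579 0 0) (P.cons (P.lf 10866024 0 0) (P.cons (P.lf 0 5234907 0) (P.cons (P.lf 0 198102 0) (P.lf 49524 0 0))))) (P.cons (P.cons (P.lf 0 33404838 0) (P.cons (P.lf 0 5171907 0) (P.cons (P.lf 2491662 0 0) (P.cons (P.lf 94290 0 0) P.nil)))) (P.cons (P.cons (P.lf 0 1657956 0) (P.cons (P.lf 0 256692 0) (P.cons (P.lf 123666 0 0) P.nil))) (P.cons (P.cons (P.lf 379275 0 0) (P.cons (P.lf 58719 0 0) P.nil)) (P.cons (P.cons (P.lf 20574 0 0) P.nil) P.nil)))))) 72672)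
 EL.nil))))))
noncomputable def S227_256_364_512_2 : EL := (EL.cons 0 (TM.mk (P.cons (P.cons (P.lf 927468607 0 0) (P.cons (P.lf 0 1082756641 0) (P.cons (P.lf 233902661 0 0) (P.cons (P.lf 65086298 0 0) (P.cons (P.lf 0 12282921 0) (P.cons (P.lf 0 912746 0) P.nil)))))) (P.cons (P.cons (P.lf 0 485619411 0) (P.cons (P.lf 161188197 0 0) (P.cons (P.lf 92786664 0 0) (P.cons (P.lf 7373758 0 0) (P.cons (P.lf 0 3288746 0) P.nil))))) (P.cons (P.cons (P.lf 0 149629417 0) (P.cons (P.lf 226198587 0 0) (P.cons (P.lf 0 18567365 0) (P.cons (P.lf 0 9545960 0) P.nil)))) (P.cons (P.cons (P.lf 88229724 0 0) (P.cons (P.lf 0 21767982 0) (P.cons (P.lf 0 8389642 0) P.nil))) (P.cons (P.cons (P.lf 5580045 0 0) (P.cons (P.lf 0 13573604 0) P.nil)) (P.cons (P.cons (P.lf 0 5085504 0) P.nil) P.nil)))))) 13638209)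
 (EL.cons 1 (TM.mk (P.cons (P.cons (P.lf 489487539 0 0) (P.cons (P.lf 0 233674207 0) (P.cons (P.lf 0 85707454 0) (P.cons (P.lf 0 4163739 0) (P.cons (P.lf 2810517 0 0) (P.cons (P.lf 208849 0 0) P.nil)))))) (P.cons (P.cons (P.lf 181430071 0 0) (P.cons (P.lf 0 332797903 0) (P.cons (P.lf 37670328 0 0) (P.cons (P.lf 15428971 0 0) (P.cons (P.lf 0 2402920 0) P.nil))))) (P.cons (P.cons (P.lf 0 157430706 0) (P.cons (P.lf 46148089 0 0) (P.cons (P.lf 17641858 0 0) (P.cons (P.lf 917967 0 0) P.nil)))) (P.cons (P.cons (P.lf 0 13655242 0) (P.cons (P.lf 33249844 0 0) (P.cons (P.lf 0 1510029 0) P.nil))) (P.cons (P.cons (P.lf 13105539 0 0) (P.cons (P.lf 0 2547520 0) P.nil)) (P.cons (P.cons (P.lf 404227 0 0) P.nil) P.nil)))))) 7034407)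
 (EL.cons 5 (TM.mk (P.cons (P.cons (P.lf 280690874 0 0) (P.cons (P.lf 0 452662789 0) (P.cons (P.lf 148175959 0 0) (P.cons (P.lf 33948144 0 0) (P.cons (P.lf 0 7155764 0) (P.cons (P.lf 0 531736 0) P.nil)))))) (P.cons (P.cons (P.lf 0 105840327 0) (P.cons (P.lf 93454765 0 0) (P.cons (P.lf 4744898 0 0) (P.cons (P.lf 0 2283721 0) (P.cons (P.lf 60274 0 0) P.nil))))) (P.cons (P.cons (P.lf 27501019 0 0) (P.cons (P.lf 0 12618636 0) (P.cons (P.lf 0 1362745 0) (P.cons (P.lf 211800 0 0) P.nil)))) (P.cons (P.cons (P.lf 0 7712297 0) (P.cons (P.lf 0 1025256 0) (P.cons (P.lf 1110180 0 0) P.nil))) (P.cons (P.cons (P.lf 0 2128177 0) (P.cons (P.lf 2515439 0 0) P.nil)) (P.cons (P.cons (P.lf 995042 0 0) P.nil) P.nil)))))) 6899853)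
 (EL.cons 9 (TM.mk (P.cons (P.cons (P.lf 538638946 0 0) (P.cons (P.lf 0 739096693 0) (P.cons (P.lf 204124719 0 0) (P.cons (P.lf 50373478 0 0) (P.cons (P.lf 0 10167376 0) (P.cons (P.lf 0 755536 0) P.nil)))))) (P.cons (P.cons (P.lf 0 245739699 0) (P.cons (P.lf 133028931 0 0) (P.cons (P.lf 33296208 0 0) (P.cons (P.lf 298276 0 0) (P.cons (P.lf 0 978571 0) P.nil))))) (P.cons (P.cons (P.lf 0 22676944 0) (P.cons (P.lf 59830152 0 0) (P.cons (P.lf 0 7027471 0) (P.cons (P.lf 0 2807917 0) P.nil)))) (P.cons (P.cons (P.lf 20874934 0 0) (P.cons (P.lf 0 7733800 0) (P.cons (P.lf 0 1652466 0) P.nil))) (P.cons (P.cons (P.lf 0 127213 0) (P.cons (P.lf 0 2038869 0) P.nil)) (P.cons (P.cons (P.lf 0 717457 0) P.nil) P.nil)))))) 2458781)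
 (EL.cons 2 (TM.mk (P.cons (P.cons (P.lf 179859240 0 0) (P.cons (P.lf 0 95550744 0) (P.cons (P.lf 0 40770765 0) (P.cons (P.lf 10169212 0 0) (P.cons (P.lf 1516376 0 0) (P.cons (P.lf 0 268914 0) P.nil)))))) (P.cons (P.cons (P.lf 0 213680188 0) (P.cons (P.lf 79431536 0 0) (P.cons (P.lf 40880919 0 0) (P.cons (P.lf 0 9132108 0) (P.cons (P.lf 0 1417702 0) P.nil))))) (P.cons (P.cons (P.lf 20257801 0 0) (P.cons (P.lf 18977203 0 0) (P.cons (P.lf 2000598 0 0) (P.cons (P.lf 0 1427793 0) P.nil)))) (P.cons (P.cons (P.lf 15418209 0 0) (P.cons (P.lf 0 2101927 0) (P.cons (P.lf 0 2145183 0) P.nil))) (P.cons (P.cons (P.lf 0 1428451 0) (P.cons (P.lf 0 789249 0) P.nil)) (P.cons (P.cons (P.lf 0 466284 0) P.nil) P.nil)))))) 2064734)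
 (EL.cons 6 (TM.mk (P.cons (P.cons (P.lf 843389802 0 0) (P.cons (P.lf 0 448053288 0) (P.cons (P.lf 0 191180898 0) (P.cons (P.lf 47685138 0 0) (P.cons (P.lf 7110552 0 0) (P.cons (P.lf 0 1260984 0) P.nil)))))) (P.cons (P.cons (P.lf 0 151800486 0) (P.cons (P.lf 0 79193664 0) (P.cons (P.lf 0 1022982 0) (P.cons (P.lf 5247132 0 0) (P.cons (P.lf 519954 0 0) P.nil))))) (P.cons (P.cons (P.lf 0 68272716 0) (P.cons (P.lf 14596986 0 0) (P.cons (P.lf 10671612 0 0) (P.cons (P.lf 0 1984872 0) P.nil)))) (P.cons (P.cons (P.lf 8825106 0 0) (P.cons (P.lf 3957576 0 0) (P.cons (P.lf 0 83832 0) P.nil))) (P.cons (P.cons (P.lf 2326572 0 0) (P.cons (P.lf 0 181008 0) P.nil)) (P.cons (P.cons (P.lf 0 204972 0) P.nil) P.nil)))))) 1623642)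
 EL.nil))))))
noncomputable def S227_256_364_512_3 : EL := (EL.cons 0 (TM.mk (P.cons (P.lf 96110806 0 0) (P.cons (P.lf 0 190686074 0) (P.cons (P.lf 92290364 0 0) (P.cons (P.lf 3016066 0 0) (P.cons (P.lf 0 708651 0) (P.cons (P.lf 0 26673 0) P.nil)))))) 4788)
 (EL.cons 1 (TM.mk (P.cons (P.lf 450679505 0 0) (P.cons (P.lf 0 439849933 0) (P.cons (P.lf 0 16100088 0) (P.cons (P.lf 5127871 0 0) (P.cons (P.lf 176304 0 0) (P.cons (P.lf 0 32482 0) P.nil)))))) 1651)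
 (EL.cons 5 (TM.mk (P.cons (P.lf 2113310914 0 0) (P.cons (P.lf 67799490 0 0) (P.cons (P.lf 0 32814348 0) (P.cons (P.lf 0 1072376 0) (P.cons (P.lf 251962 0 0) (P.cons (P.lf 9484 0 0) P.nil)))))) 1830)
 EL.nil)))
noncomputable def S227_256_364_512_4 : EL := (EL.cons 0 (TM.mk (P.cons (P.cons (P.lf 27790446 0 0) (P.cons (P.lf 0 19066413 0) (P.cons (P.lf 0 1274735 0) (P.lf 424910 0 0)))) (P.cons (P.cons (P.lf 0 61476219 0) (P.cons (P.lf 36910673 0 0) (P.cons (P.lf 2467761 0 0) (P.lf 0 822585 0)))) (P.cons (P.cons (P.lf 37955104 0 0) (P.cons (P.lf 0 16051383 0) (P.cons (P.lf 0 1073156 0) (P.lf 357718 0 0)))) (P.cons (P.cons (P.lf 0 2379941 0) (P.cons (P.lf 0 2324176 0) (P.cons (P.lf 0 155388 0) P.nil))) (P.cons (P.cons (P.lf 0 2115592 0) (P.cons (P.lf 483185 0 0) P.nil)) (P.cons (P.cons (P.lf 184992 0 0) P.nil) P.nil)))))) 235940)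
 (EL.cons 1 (TM.mk (P.cons (P.cons (P.lf 130314013 0 0) (P.cons (P.lf 0 89405581 0) (P.cons (P.lf 0 5977447 0) (P.lf 1992481 0 0)))) (P.cons (P.cons (P.lf 0 156908795 0) (P.cons (P.lf 82954736 0 0) (P.cons (P.lf 5546160 0 0) (P.lf 0 1848718 0)))) (P.cons (P.cons (P.lf 18222924 0 0) (P.cons (P.lf 9440874 0 0) (P.cons (P.lf 631192 0 0) (P.lf 0 210397 0)))) (P.cons (P.cons (P.lf 9656872 0 0) (P.cons (P.lf 0 2760568 0) (P.cons (P.lf 0 184563 0) P.nil))) (P.cons (P.cons (P.lf 0 1069966 0) (P.cons (P.lf 0 279534 0) P.nil)) (P.cons (P.cons (P.lf 0 237457 0) P.nil) P.nil)))))) 206224)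
 (EL.cons 5 (TM.mk (P.cons (P.cons (P.lf 611064018 0 0) (P.cons (P.lf 0 419237596 0) (P.cons (P.lf 0 28029248 0) (P.lf 9343082 0 0)))) (P.cons (P.cons (P.lf 0 119786628 0) (P.cons (P.lf 0 33625072 0) (P.cons (P.lf 0 2248092 0) (P.lf 749362 0 0)))) (P.cons (P.cons (P.lf 0 42721604 0) (P.cons (P.lf 15465160 0 0) (P.cons (P.lf 1033962 0 0) (P.lf 0 344652 0)))) (P.cons (P.cons (P.lf 6211656 0 0) (P.cons (P.lf 1310682 0 0) (P.cons (P.lf 87626 0 0) P.nil))) (P.cons (P.cons (P.lf 1214994 0 0) (P.cons (P.lf 0 282588 0) P.nil)) (P.cons (P.cons (P.lf 0 121210 0) P.nil) P.nil)))))) 118066)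
 EL.nil)))
noncomputable def S227_256_364_512_5 : EL := (EL.cons 0 (TM.mk (P.cons (P.cons (P.lf 8035609 0 0) (P.cons (P.lf 0 11026110 0) (P.cons (P.lf 3045204 0 0) (P.cons (P.lf 751489 0 0) (P.cons (P.lf 0 151679 0) (P.cons (P.lf 0 11271 0) P.nil)))))) (P.cons (P.cons (P.lf 0 19608869 0) (P.cons (P.lf 23860633 0 0) (P.cons (P.lf 0 5545033 0) (P.cons (P.lf 0 1486522 0) (P.cons (P.lf 286338 0 0) P.nil))))) (P.cons (P.cons (P.lf 14651383 0 0) (P.cons (P.lf 0 13632690 0) (P.cons (P.lf 1833804 0 0) (P.cons (P.lf 670899 0 0) P.nil)))) (P.cons (P.cons (P.lf 0 2285518 0) (P.cons (P.lf 0 326575 0) (P.cons (P.lf 755891 0 0) P.nil))) (P.cons (P.cons (P.lf 0 1118909 0) (P.cons (P.lf 1199155 0 0) P.nil)) (P.cons (P.cons (P.lf 306286 0 0) P.nil) P.nil)))))) 1064913)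
 (EL.cons 1 (TM.mk (P.cons (P.cons (P.lf 37680305 0 0) (P.cons (P.lf 0 51703260 0) (P.cons (P.lf 14279475 0 0) (P.cons (P.lf 3523858 0 0) (P.cons (P.lf 0 711253 0) (P.cons (P.lf 0 52852 0) P.nil)))))) (P.cons (P.cons (P.lf 0 53965507 0) (P.cons (P.lf 59766855 0 0) (P.cons (P.lf 0 11607121 0) (P.cons (P.lf 0 3418316 0) (P.cons (P.lf 625708 0 0) P.nil))))) (P.cons (P.cons (P.lf 13845105 0 0) (P.cons (P.lf 0 3049927 0) (P.cons (P.lf 0 3274978 0) (P.cons (P.lf 0 342676 0) P.nil)))) (P.cons (P.cons (P.lf 4051385 0 0) (P.cons (P.lf 0 5546570 0) (P.cons (P.lf 443456 0 0) P.nil))) (P.cons (P.cons (P.lf 0 1558291 0) (P.cons (P.lf 321523 0 0) P.nil)) (P.cons (P.cons (P.lf 0 121160 0) P.nil) P.nil)))))) 1238849)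
 (EL.cons 5 (TM.mk (P.cons (P.cons (P.lf 176689208 0 0) (P.cons (P.lf 0 242445168 0) (P.cons (P.lf 66958832 0 0) (P.cons (P.lf 16523962 0 0) (P.cons (P.lf 0 3335192 0) (P.cons (P.lf 0 247836 0) P.nil)))))) (P.cons (P.cons (P.lf 0 74941188 0) (P.cons (P.lf 35859194 0 0) (P.cons (P.lf 13070302 0 0) (P.cons (P.lf 627966 0 0) (P.cons (P.lf 0 427998 0) P.nil))))) (P.cons (P.cons (P.lf 0 12768360 0) (P.cons (P.lf 24790560 0 0) (P.cons (P.lf 0 2994510 0) (P.cons (P.lf 0 1174514 0) P.nil)))) (P.cons (P.cons (P.lf 7770940 0 0) (P.cons (P.lf 0 2461816 0) (P.cons (P.lf 0 819582 0) P.nil))) (P.cons (P.cons (P.lf 355428 0 0) (P.cons (P.lf 0 1105988 0) P.nil)) (P.cons (P.cons (P.lf 0 348052 0) P.nil) P.nil)))))) 1170448)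
 EL.nil)))
noncomputable def S227_256_364_512_6 : EL := (EL.cons 12 (TM.mk (P.lf 8589934592 0 0) 0)
 (EL.cons 3 (TM.mk (P.cons (P.lf 0 454308690 0) (P.cons (P.lf 450679503 0 0) (P.cons (P.lf 5414782 0 0) (P.cons (P.lf 0 1756837 0) (P.cons (P.lf 0 35658 0) (P.cons (P.lf 6731 0 0) P.nil)))))) 269)
 (EL.cons 7 (TM.mk (P.cons (P.lf 0 2130328762 0) (P.cons (P.lf 0 34172730 0) (P.cons (P.lf 16813380 0 0) (P.cons (P.lf 270802 0 0) (P.cons (P.lf 0 64991 0) (P.cons (P.lf 0 1601 0) P.nil)))))) 330)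
 EL.nil)))
noncomputable def S227_256_364_512_7 : EL := (EL.cons 12 (TM.mk (P.cons (P.cons (P.lf 2483780272 0 0) (P.cons (P.lf 0 1704067072 0) (P.cons (P.lf 0 113929952 0) (P.lf 37976648 0 0)))) (P.cons (P.cons (P.lf 0 566579358 0) (P.cons (P.lf 0 82005112 0) (P.cons (P.lf 0 5482664 0) (P.lf 1827552 0 0)))) (P.cons (P.cons (P.lf 0 116905832 0) (P.cons (P.lf 39032016 0 0) (P.cons (P.lf 2609584 0 0) (P.lf 0 869856 0)))) (P.cons (P.cons (P.lf 21461824 0 0) (P.cons (P.lf 1937240 0 0) (P.cons (P.lf 129512 0 0) P.nil))) (P.cons (P.cons (P.lf 1851144 0 0) (P.cons (P.lf 0 443160 0) P.nil)) (P.cons (P.cons (P.lf 0 221750 0) P.nil) P.nil)))))) 140350)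
 (EL.cons 3 (TM.mk (P.cons (P.cons (P.lf 0 1999415021 0) (P.cons (P.lf 0 180251074 0) (P.cons (P.lf 0 12051164 0) (P.lf 4017054 0 0)))) (P.cons (P.cons (P.lf 0 625656798 0) (P.cons (P.lf 170136908 0 0) (P.cons (P.lf 11374956 0 0) (P.lf 0 3791650 0)))) (P.cons (P.cons (P.lf 191619567 0 0) (P.cons (P.lf 14882010 0 0) (P.cons (P.lf 994974 0 0) (P.lf 0 331656 0)))) (P.cons (P.cons (P.lf 21093314 0 0) (P.cons (P.lf 0 4484446 0) (P.cons (P.lf 0 299818 0) P.nil))) (P.cons (P.cons (P.lf 0 3253810 0) (P.cons (P.lf 0 347054 0) P.nil)) (P.cons (P.cons (P.lf 0 343850 0) P.nil) P.nil)))))) 551092)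
 (EL.cons 7 (TM.mk (P.cons (P.cons (P.lf 0 474339899 0) (P.cons (P.lf 443114873 0 0) (P.cons (P.lf 29625632 0 0) (P.lf 0 9875210 0)))) (P.cons (P.cons (P.lf 47440373 0 0) (P.cons (P.lf 0 12900610 0) (P.cons (P.lf 0 862504 0) (P.lf 287501 0 0)))) (P.cons (P.cons (P.lf 0 38440727 0) (P.cons (P.lf 5373818 0 0) (P.cons (P.lf 359278 0 0) (P.lf 0 119757 0)))) (P.cons (P.cons (P.lf 8356992 0 0) (P.cons (P.lf 1046150 0 0) (P.cons (P.lf 69939 0 0) P.nil))) (P.cons (P.cons (P.lf 1318398 0 0) (P.cons (P.lf 0 224205 0) P.nil)) (P.cons (P.cons (P.lf 0 159605 0) P.nil) P.nil)))))) 315052)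
 (EL.cons 10 (TM.mk (P.cons (P.cons (P.lf 0 2940277122 0) (P.cons (P.lf 0 455228733 0) (P.cons (P.lf 219314847 0 0) (P.cons (P.lf 8299518 0 0) (P.lf 0 2074878 0))))) (P.cons (P.cons (P.lf 0 94330317 0) (P.cons (P.lf 0 14604699 0) (P.cons (P.lf 7036083 0 0) (P.cons (P.lf 266265 0 0) (P.lf 0 66564 0))))) (P.cons (P.cons (P.lf 45655029 0 0) (P.cons (P.lf 7068543 0 0) (P.cons (P.lf 0 3405402 0) (P.cons (P.lf 0 128868 0) P.nil)))) (P.cons (P.cons (P.lf 1492008 0 0) (P.cons (P.lf 231000 0 0) (P.cons (P.lf 0 111288 0) P.nil))) (P.cons (P.cons (P.lf 0 350556 0) (P.cons (P.lf 0 54273 0) P.nil)) (P.cons (P.cons (P.lf 0 13194 0) P.nil) P.nil)))))) 71190)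
 EL.nil))))
noncomputable def S227_256_364_512_8 : EL := (EL.cons 12 (TM.mk (P.cons (P.cons (P.lf 718185262 0 0) (P.cons (P.lf 0 985462258 0) (P.cons (P.lf 272166292 0 0) (P.cons (P.lf 67164638 0 0) (P.cons (P.lf 0 13556502 0) (P.cons (P.lf 0 1007382 0) P.nil)))))) (P.cons (P.cons (P.lf 0 327652932 0) (P.cons (P.lf 177371908 0 0) (P.cons (P.lf 44394944 0 0) (P.cons (P.lf 397702 0 0) (P.cons (P.lf 0 1304762 0) P.nil))))) (P.cons (P.cons (P.lf 0 30235926 0) (P.cons (P.lf 79773536 0 0) (P.cons (P.lf 0 9369962 0) (P.cons (P.lf 0 3743890 0) P.nil)))) (P.cons (P.cons (P.lf 27833246 0 0) (P.cons (P.lf 0 10311734 0) (P.cons (P.lf 0 2203288 0) P.nil))) (P.cons (P.cons (P.lf 0 169618 0) (P.cons (P.lf 0 2718492 0) P.nil)) (P.cons (P.cons (P.lf 0 956610 0) P.nil) P.nil)))))) 3278346)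
 (EL.cons 3 (TM.mk (P.cons (P.cons (P.lf 0 1118278287 0) (P.cons (P.lf 636927132 0 0) (P.cons (P.lf 131978764 0 0) (P.cons (P.lf 0 2240966 0) (P.cons (P.lf 0 3584910 0) (P.cons (P.lf 0 266390 0) P.nil)))))) (P.cons (P.cons (P.lf 0 153069898 0) (P.cons (P.lf 469663002 0 0) (P.cons (P.lf 0 48676636 0) (P.cons (P.lf 0 21174401 0) (P.cons (P.lf 3211240 0 0) P.nil))))) (P.cons (P.cons (P.lf 262909799 0 0) (P.cons (P.lf 0 95648400 0) (P.cons (P.lf 0 19883755 0) (P.cons (P.lf 327931 0 0) P.nil)))) (P.cons (P.cons (P.lf 0 2628883 0) (P.cons (P.lf 0 33747703 0) (P.cons (P.lf 1443680 0 0) P.nil))) (P.cons (P.cons (P.lf 0 15382372 0) (P.cons (P.lf 3691161 0 0) P.nil)) (P.cons (P.cons (P.lf 379976 0 0) P.nil) P.nil)))))) 8229026)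
 (EL.cons 7 (TM.mk (P.cons (P.cons (P.lf 0 96198809 0) (P.cons (P.lf 200054536 0 0) (P.cons (P.lf 0 78596765 0) (P.cons (P.lf 0 16756451 0) (P.cons (P.lf 3688241 0 0) (P.cons (P.lf 274067 0 0) P.nil)))))) (P.cons (P.cons (P.lf 11606516 0 0) (P.cons (P.lf 0 35612154 0) (P.cons (P.lf 3690899 0 0) (P.cons (P.lf 1605545 0 0) (P.cons (P.lf 0 243491 0) P.nil))))) (P.cons (P.cons (P.lf 0 25785091 0) (P.cons (P.lf 25201986 0 0) (P.cons (P.lf 0 352623 0) (P.cons (P.lf 0 834095 0) P.nil)))) (P.cons (P.cons (P.lf 13643407 0 0) (P.cons (P.lf 0 2459195 0) (P.cons (P.lf 0 1107741 0) P.nil))) (P.cons (P.cons (P.lf 882550 0 0) (P.cons (P.lf 0 2133473 0) P.nil)) (P.cons (P.cons (P.lf 0 934623 0) P.nil) P.nil)))))) 3897483)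
 (EL.cons 10 (TM.mk (P.cons (P.cons (P.lf 0 1700362728 0) (P.cons (P.lf 903322656 0 0) (P.cons (P.lf 385440840 0 0) (P.cons (P.lf 0 96138264 0) (P.cons (P.lf 0 14335626 0) (P.cons (P.lf 2542278 0 0) P.nil)))))) (P.cons (P.cons (P.lf 333321402 0 0) (P.cons (P.lf 145172532 0 0) (P.cons (P.lf 0 4120428 0) (P.cons (P.lf 0 9036612 0) (P.cons (P.lf 0 818334 0) P.nil))))) (P.cons (P.cons (P.lf 118878252 0 0) (P.cons (P.lf 0 24628422 0) (P.cons (P.lf 0 18406950 0) (P.cons (P.lf 3387912 0 0) P.nil)))) (P.cons (P.cons (P.lf 0 17284722 0) (P.cons (P.lf 0 6323250 0) (P.cons (P.lf 480762 0 0) P.nil))) (P.cons (P.cons (P.lf 0 3380874 0) (P.cons (P.lf 262890 0 0) P.nil)) (P.cons (P.cons (P.lf 337290 0 0) P.nil) P.nil)))))) 2563956)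
 EL.nil))))
noncomputable def S227_256_364_512_9 : EL := (EL.cons 3 (TM.mk (P.cons (P.lf 0 454308690 0) (P.cons (P.lf 450679503 0 0) (P.cons (P.lf 5414782 0 0) (P.cons (P.lf 0 1756837 0) (P.cons (P.lf 0 35658 0) (P.cons (P.lf 6731 0 0) P.nil)))))) 269)
 (EL.cons 7 (TM.mk (P.cons (P.lf 0 2130328762 0) (P.cons (P.lf 0 34172730 0) (P.cons (P.lf 16813380 0 0) (P.cons (P.lf 270802 0 0) (P.cons (P.lf 0 64991 0) (P.cons (P.lf 0 1601 0) P.nil)))))) 330)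
 EL.nil))
noncomputable def S227_256_364_512_10 : EL := (EL.cons 3 (TM.mk (P.cons (P.cons (P.lf 0 131363393 0) (P.cons (P.lf 90125537 0 0) (P.cons (P.lf 6025582 0 0) (P.lf 0 2008527 0)))) (P.cons (P.cons (P.lf 160279542 0 0) (P.cons (P.lf 0 85068454 0) (P.cons (P.lf 0 5687478 0) (P.lf 1895825 0 0)))) (P.cons (P.cons (P.lf 0 21977493 0) (P.cons (P.lf 0 7441005 0) (P.cons (P.lf 0 497487 0) (P.lf 165828 0 0)))) (P.cons (P.cons (P.lf 0 8133805 0) (P.cons (P.lf 2242223 0 0) (P.cons (P.lf 149909 0 0) P.nil))) (P.cons (P.cons (P.lf 1059986 0 0) (P.cons (P.lf 173527 0 0) P.nil)) (P.cons (P.cons (P.lf 150586 0 0) P.nil) P.nil)))))) 135819)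
 (EL.cons 7 (TM.mk (P.cons (P.cons (P.lf 0 615984731 0) (P.cons (P.lf 422613590 0 0) (P.cons (P.lf 28254959 0 0) (P.lf 0 9418319 0)))) (P.cons (P.cons (P.lf 130632281 0 0) (P.cons (P.lf 27116675 0 0) (P.cons (P.lf 1812956 0 0) (P.lf 0 604318 0)))) (P.cons (P.cons (P.lf 36108559 0 0) (P.cons (P.lf 0 12689248 0) (P.cons (P.lf 0 848372 0) (P.lf 282789 0 0)))) (P.cons (P.cons (P.lf 0 5888199 0) (P.cons (P.lf 0 849952 0) (P.cons (P.lf 0 56823 0) P.nil))) (P.cons (P.cons (P.lf 0 809946 0) (P.cons (P.lf 188904 0 0) P.nil)) (P.cons (P.cons (P.lf 89776 0 0) P.nil) P.nil)))))) 69162)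
 EL.nil))
noncomputable def S227_256_364_512_11 : EL := (EL.cons 3 (TM.mk (P.cons (P.cons (P.lf 0 37983735 0) (P.cons (P.lf 52119612 0 0) (P.cons (P.lf 0 14394464 0) (P.cons (P.lf 0 3552236 0) (P.cons (P.lf 716982 0 0) (P.cons (P.lf 53278 0 0) P.nil)))))) (P.cons (P.cons (P.lf 55009376 0 0) (P.cons (P.lf 0 61084194 0) (P.cons (P.lf 11931494 0 0) (P.cons (P.lf 3502825 0 0) (P.cons (P.lf 0 642248 0) P.nil))))) (P.cons (P.cons (P.lf 0 15138787 0) (P.cons (P.lf 4465692 0 0) (P.cons (P.lf 2996351 0 0) (P.cons (P.lf 261211 0 0) P.nil)))) (P.cons (P.cons (P.lf 0 3411841 0) (P.cons (P.lf 5044127 0 0) (P.cons (P.lf 0 402754 0) P.nil))) (P.cons (P.cons (P.lf 1514240 0 0) (P.cons (P.lf 0 379137 0) P.nil)) (P.cons (P.cons (P.lf 67346 0 0) P.nil) P.nil)))))) 1062136)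
 (EL.cons 7 (TM.mk (P.cons (P.cons (P.lf 0 178112033 0) (P.cons (P.lf 244397506 0 0) (P.cons (P.lf 0 67498031 0) (P.cons (P.lf 0 16657025 0) (P.cons (P.lf 3362051 0 0) (P.cons (P.lf 249833 0 0) P.nil)))))) (P.cons (P.cons (P.lf 78401774 0 0) (P.cons (P.lf 0 40068354 0) (P.cons (P.lf 0 12092815 0) (P.cons (P.lf 0 365827 0) (P.cons (P.lf 377515 0 0) P.nil))))) (P.cons (P.cons (P.lf 10207805 0 0) (P.cons (P.lf 0 22418574 0) (P.cons (P.lf 2679885 0 0) (P.cons (P.lf 1058377 0 0) P.nil)))) (P.cons (P.cons (P.lf 0 7401125 0) (P.cons (P.lf 2556091 0 0) (P.cons (P.lf 679173 0 0) P.nil))) (P.cons (P.cons (P.lf 0 143606 0) (P.cons (P.lf 884407 0 0) P.nil)) (P.cons (P.cons (P.lf 293787 0 0) P.nil) P.nil)))))) 984131)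
 EL.nil))
noncomputable def S227_256_364_512_12 : EL := (EL.cons 4 (TM.mk (P.cons (P.lf 454308690 0 0) (P.cons (P.lf 0 450679503 0) (P.cons (P.lf 0 5414782 0) (P.cons (P.lf 1756837 0 0) (P.cons (P.lf 35658 0 0) (P.cons (P.lf 0 6731 0) P.nil)))))) 269)
 (EL.cons 8 (TM.mk (P.cons (P.lf 2130328762 0 0) (P.cons (P.lf 34172730 0 0) (P.cons (P.lf 0 16813380 0) (P.cons (P.lf 0 270802 0) (P.cons (P.lf 64991 0 0) (P.cons (P.lf 1601 0 0) P.nil)))))) 330)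
 EL.nil))
noncomputable def S227_256_364_512_13 : EL := (EL.cons 4 (TM.mk (P.cons (P.cons (P.lf 131363393 0 0) (P.cons (P.lf 0 90125537 0) (P.cons (P.lf 0 6025582 0) (P.lf 2008527 0 0)))) (P.cons (P.cons (P.lf 0 160279542 0) (P.cons (P.lf 85068454 0 0) (P.cons (P.lf 5687478 0 0) (P.lf 0 1895825 0)))) (P.cons (P.cons (P.lf 21977493 0 0) (P.cons (P.lf 7441005 0 0) (P.cons (P.lf 497487 0 0) (P.lf 0 165828 0)))) (P.cons (P.cons (P.lf 8133805 0 0) (P.cons (P.lf 0 2242223 0) (P.cons (P.lf 0 149909 0) P.nil))) (P.cons (P.cons (P.lf 0 1059986 0) (P.cons (P.lf 0 173527 0) P.nil)) (P.cons (P.cons (P.lf 0 150586 0) P.nil) P.nil)))))) 135819)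
 (EL.cons 8 (TM.mk (P.cons (P.cons (P.lf 615984731 0 0) (P.cons (P.lf 0 422613590 0) (P.cons (P.lf 0 28254959 0) (P.lf 9418319 0 0)))) (P.cons (P.cons (P.lf 0 130632281 0) (P.cons (P.lf 0 27116675 0) (P.cons (P.lf 0 1812956 0) (P.lf 604318 0 0)))) (P.cons (P.cons (P.lf 0 36108559 0) (P.cons (P.lf 12689248 0 0) (P.cons (P.lf 848372 0 0) (P.lf 0 282789 0)))) (P.cons (P.cons (P.lf 5888199 0 0) (P.cons (P.lf 849952 0 0) (P.cons (P.lf 56823 0 0) P.nil))) (P.cons (P.cons (P.lf 809946 0 0) (P.cons (P.lf 0 188904 0) P.nil)) (P.cons (P.cons (P.lf 0 89776 0) P.nil) P.nil)))))) 69162)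
 EL.nil))
noncomputable def S227_256_364_512_14 : EL := (EL.cons 4 (TM.mk (P.cons (P.cons (P.lf 37983735 0 0) (P.cons (P.lf 0 52119612 0) (P.cons (P.lf 14394464 0 0) (P.cons (P.lf 3552236 0 0) (P.cons (P.lf 0 716982 0) (P.cons (P.lf 0 53278 0) P.nil)))))) (P.cons (P.cons (P.lf 0 55009376 0) (P.cons (P.lf 61084194 0 0) (P.cons (P.lf 0 11931494 0) (P.cons (P.lf 0 3502825 0) (P.cons (P.lf 642248 0 0) P.nil))))) (P.cons (P.cons (P.lf 15138787 0 0) (P.cons (P.lf 0 4465692 0) (P.cons (P.lf 0 2996351 0) (P.cons (P.lf 0 261211 0) P.nil)))) (P.cons (P.cons (P.lf 3411841 0 0) (P.cons (P.lf 0 5044127 0) (P.cons (P.lf 402754 0 0) P.nil))) (P.cons (P.cons (P.lf 0 1514240 0) (P.cons (P.lf 379137 0 0) P.nil)) (P.cons (P.cons (P.lf 0 67346 0) P.nil) P.nil)))))) 1062136)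
 (EL.cons 8 (TM.mk (P.cons (P.cons (P.lf 178112033 0 0) (P.cons (P.lf 0 244397506 0) (P.cons (P.lf 67498031 0 0) (P.cons (P.lf 16657025 0 0) (P.cons (P.lf 0 3362051 0) (P.cons (P.lf 0 249833 0) P.nil)))))) (P.cons (P.cons (P.lf 0 78401774 0) (P.cons (P.lf 40068354 0 0) (P.cons (P.lf 12092815 0 0) (P.cons (P.lf 365827 0 0) (P.cons (P.lf 0 377515 0) P.nil))))) (P.cons (P.cons (P.lf 0 10207805 0) (P.cons (P.lf 22418574 0 0) (P.cons (P.lf 0 2679885 0) (P.cons (P.lf 0 1058377 0) P.nil)))) (P.cons (P.cons (P.lf 7401125 0 0) (P.cons (P.lf 0 2556091 0) (P.cons (P.lf 0 679173 0) P.nil))) (P.cons (P.cons (P.lf 143606 0 0) (P.cons (P.lf 0 884407 0) P.nil)) (P.cons (P.cons (P.lf 0 293787 0) P.nil) P.nil)))))) 984131)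
 EL.nil))
noncomputable def S227_256_364_512_15 : EL := (EL.cons 4 (TM.mk (P.cons (P.lf 0 51259096 0) (P.cons (P.lf 101699239 0 0) (P.cons (P.lf 0 49221527 0) (P.cons (P.lf 0 1608569 0) (P.cons (P.lf 377947 0 0) (P.cons (P.lf 14225 0 0) P.nil)))))) 2557)
 (EL.cons 8 (TM.mk (P.cons (P.lf 0 240362403 0) (P.cons (P.lf 234586631 0 0) (P.cons (P.lf 8586714 0 0) (P.cons (P.lf 0 2734865 0) (P.cons (P.lf 0 94029 0) (P.cons (P.lf 17324 0 0) P.nil)))))) 877)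
 EL.nil))
noncomputable def S227_256_364_512_16 : EL := (EL.cons 4 (TM.mk (P.cons (P.cons (P.lf 0 14821571 0) (P.cons (P.lf 10168754 0 0) (P.cons (P.lf 679859 0 0) (P.lf 0 226619 0)))) (P.cons (P.cons (P.lf 32787316 0 0) (P.cons (P.lf 0 19685692 0) (P.cons (P.lf 0 1316139 0) (P.lf 438712 0 0)))) (P.cons (P.cons (P.lf 0 20242722 0) (P.cons (P.lf 8560738 0 0) (P.cons (P.lf 572350 0 0) (P.lf 0 190783 0)))) (P.cons (P.cons (P.lf 1269301 0 0) (P.cons (P.lf 1239560 0 0) (P.cons (P.lf 82874 0 0) P.nil))) (P.cons (P.cons (P.lf 1128315 0 0) (P.cons (P.lf 0 257699 0) P.nil)) (P.cons (P.cons (P.lf 0 98662 0) P.nil) P.nil)))))) 125843)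
 (EL.cons 8 (TM.mk (P.cons (P.cons (P.lf 0 69500807 0) (P.cons (P.lf 47682977 0 0) (P.cons (P.lf 3187972 0 0) (P.lf 0 1062657 0)))) (P.cons (P.cons (P.lf 83684691 0 0) (P.cons (P.lf 0 44242526 0) (P.cons (P.lf 0 2957952 0) (P.lf 985983 0 0)))) (P.cons (P.cons (P.lf 0 9718893 0) (P.cons (P.lf 0 5035133 0) (P.cons (P.lf 0 336636 0) (P.lf 112212 0 0)))) (P.cons (P.cons (P.lf 0 5150332 0) (P.cons (P.lf 1472303 0 0) (P.cons (P.lf 98434 0 0) P.nil))) (P.cons (P.cons (P.lf 570649 0 0) (P.cons (P.lf 149085 0 0) P.nil)) (P.cons (P.cons (P.lf 126644 0 0) P.nil) P.nil)))))) 109976)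
 EL.nil))
noncomputable def S227_256_364_512_17 : EL := (EL.cons 4 (TM.mk (P.cons (P.cons (P.lf 0 4285658 0) (P.cons (P.lf 5880592 0 0) (P.cons (P.lf 0 1624109 0) (P.cons (P.lf 0 400794 0) (P.cons (P.lf 80895 0 0) (P.cons (P.lf 6011 0 0) P.nil)))))) (P.cons (P.cons (P.lf 10458063 0 0) (P.cons (P.lf 0 12725670 0) (P.cons (P.lf 2957351 0 0) (P.cons (P.lf 792811 0 0) (P.cons (P.lf 0 152714 0) P.nil))))) (P.cons (P.cons (P.lf 0 7814070 0) (P.cons (P.lf 7270768 0 0) (P.cons (P.lf 0 978029 0) (P.cons (P.lf 0 357812 0) P.nil)))) (P.cons (P.cons (P.lf 1218943 0 0) (P.cons (P.lf 174173 0 0) (P.cons (P.lf 0 403141 0) P.nil))) (P.cons (P.cons (P.lf 596751 0 0) (P.cons (P.lf 0 639549 0) P.nil)) (P.cons (P.cons (P.lf 0 163352 0) P.nil) P.nil)))))) 567964)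
 (EL.cons 8 (TM.mk (P.cons (P.cons (P.lf 0 20096163 0) (P.cons (P.lf 27575072 0 0) (P.cons (P.lf 0 7615720 0) (P.cons (P.lf 0 1879391 0) (P.cons (P.lf 379335 0 0) (P.cons (P.lf 28188 0 0) P.nil)))))) (P.cons (P.cons (P.lf 28781604 0 0) (P.cons (P.lf 0 31875656 0) (P.cons (P.lf 6190465 0 0) (P.cons (P.lf 1823102 0 0) (P.cons (P.lf 0 333711 0) P.nil))))) (P.cons (P.cons (P.lf 0 7384056 0) (P.cons (P.lf 1626628 0 0) (P.cons (P.lf 1746655 0 0) (P.cons (P.lf 182761 0 0) P.nil)))) (P.cons (P.cons (P.lf 0 2160739 0) (P.cons (P.lf 2958171 0 0) (P.cons (P.lf 0 236510 0) P.nil))) (P.cons (P.cons (P.lf 831089 0 0) (P.cons (P.lf 0 171479 0) P.nil)) (P.cons (P.cons (P.lf 64619 0 0) P.nil) P.nil)))))) 660708)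
 EL.nil))
noncomputable def S227_256_364_512_18 : EL := (EL.cons 4 (TM.mk (P.cons (P.lf 5783501 0 0) (P.cons (P.lf 0 17211901 0) (P.cons (P.lf 16867610 0 0) (P.cons (P.lf 0 5168619 0) (P.cons (P.lf 0 332796 0) (P.cons (P.lf 59024 0 0) P.nil)))))) 4306)
 (EL.cons 8 (TM.mk (P.cons (P.lf 27119797 0 0) (P.cons (P.lf 0 53371278 0) (P.cons (P.lf 24964624 0 0) (P.cons (P.lf 1690000 0 0) (P.cons (P.lf 0 384174 0) (P.cons (P.lf 0 22382 0) P.nil)))))) 4185)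
 EL.nil))
noncomputable def S227_256_364_512_19 : EL := (EL.cons 4 (TM.mk (P.cons (P.cons (P.lf 1672299 0 0) (P.cons (P.lf 0 1147327 0) (P.cons (P.lf 0 76707 0) (P.lf 25568 0 0)))) (P.cons (P.cons (P.lf 0 5358293 0) (P.cons (P.lf 3359275 0 0) (P.cons (P.lf 224593 0 0) (P.lf 0 74864 0)))) (P.cons (P.cons (P.lf 5933830 0 0) (P.cons (P.lf 0 3155592 0) (P.cons (P.lf 0 210975 0) (P.lf 70324 0 0)))) (P.cons (P.cons (P.lf 0 2358371 0) (P.cons (P.lf 787412 0 0) (P.cons (P.lf 52644 0 0) P.nil))) (P.cons (P.cons (P.lf 0 26632 0) (P.cons (P.lf 187827 0 0) P.nil)) (P.cons (P.cons (P.lf 147645 0 0) P.nil) P.nil)))))) 129692)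
 (EL.cons 8 (TM.mk (P.cons (P.cons (P.lf 7841691 0 0) (P.cons (P.lf 0 5380011 0) (P.cons (P.lf 0 359694 0) (P.lf 119897 0 0)))) (P.cons (P.cons (P.lf 0 17221090 0) (P.cons (P.lf 10328864 0 0) (P.cons (P.lf 690563 0 0) (P.lf 0 230187 0)))) (P.cons (P.cons (P.lf 10369723 0 0) (P.cons (P.lf 0 4319722 0) (P.cons (P.lf 0 288806 0) (P.lf 96268 0 0)))) (P.cons (P.cons (P.lf 0 363843 0) (P.cons (P.lf 0 809988 0) (P.cons (P.lf 0 54153 0) P.nil))) (P.cons (P.cons (P.lf 0 689815 0) (P.cons (P.lf 160080 0 0) P.nil)) (P.cons (P.cons (P.lf 46039 0 0) P.nil) P.nil)))))) 92267)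
 EL.nil))
noncomputable def S227_256_364_512_20 : EL := (EL.cons 4 (TM.mk (P.cons (P.cons (P.lf 483545 0 0) (P.cons (P.lf 0 663499 0) (P.cons (P.lf 183245 0 0) (P.cons (P.lf 45220 0 0) (P.cons (P.lf 0 9126 0) (P.cons (P.lf 0 677 0) P.nil)))))) (P.cons (P.cons (P.lf 0 1659653 0) (P.cons (P.lf 2094021 0 0) (P.cons (P.lf 0 515456 0) (P.cons (P.lf 0 134311 0) (P.cons (P.lf 26284 0 0) P.nil))))) (P.cons (P.cons (P.lf 2046433 0 0) (P.cons (P.lf 0 2236795 0) (P.cons (P.lf 439174 0 0) (P.cons (P.lf 128569 0 0) P.nil)))) (P.cons (P.cons (P.lf 0 996207 0) (P.cons (P.lf 774466 0 0) (P.cons (P.lf 0 59295 0) P.nil))) (P.cons (P.cons (P.lf 54068 0 0) (P.cons (P.lf 106932 0 0) P.nil)) (P.cons (P.cons (P.lf 90172 0 0) P.nil) P.nil)))))) 334885)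
 (EL.cons 8 (TM.mk (P.cons (P.cons (P.lf 2267425 0 0) (P.cons (P.lf 0 3111261 0) (P.cons (P.lf 859272 0 0) (P.cons (P.lf 212049 0 0) (P.cons (P.lf 0 42799 0) (P.cons (P.lf 0 3180 0) P.nil)))))) (P.cons (P.cons (P.lf 0 5496705 0) (P.cons (P.lf 6682899 0 0) (P.cons (P.lf 0 1550870 0) (P.cons (P.lf 0 416053 0) (P.cons (P.lf 80110 0 0) P.nil))))) (P.cons (P.cons (P.lf 4027561 0 0) (P.cons (P.lf 0 3714209 0) (P.cons (P.lf 485568 0 0) (P.cons (P.lf 180906 0 0) P.nil)))) (P.cons (P.cons (P.lf 0 535211 0) (P.cons (P.lf 0 206599 0) (P.cons (P.lf 233831 0 0) P.nil))) (P.cons (P.cons (P.lf 0 357926 0) (P.cons (P.lf 366299 0 0) P.nil)) (P.cons (P.cons (P.lf 85758 0 0) P.nil) P.nil)))))) 342242)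
 EL.nil))
noncomputable def S227_256_364_512_21 : EL := (EL.cons 4 (TM.mk (P.cons (P.cons (P.lf 1868051628 0 0) (P.cons (P.lf 270376611 0 0) (P.cons (P.lf 18076746 0 0) (P.lf 0 6025581 0)))) (P.cons (P.cons (P.lf 785936340 0 0) (P.cons (P.lf 0 255205362 0) (P.cons (P.lf 0 17062434 0) (P.lf 5687475 0 0)))) (P.cons (P.cons (P.lf 0 213597060 0) (P.cons (P.lf 0 22323015 0) (P.cons (P.lf 0 1492461 0) (P.lf 497484 0 0)))) (P.cons (P.cons (P.lf 0 29227119 0) (P.cons (P.lf 6726669 0 0) (P.cons (P.lf 449727 0 0) P.nil))) (P.cons (P.cons (P.lf 4313796 0 0) (P.cons (P.lf 520581 0 0) P.nil)) (P.cons (P.cons (P.lf 494436 0 0) P.nil) P.nil)))))) 415254)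
 (EL.cons 8 (TM.mk (P.cons (P.cons (P.lf 0 141644832 0) (P.cons (P.lf 0 20501283 0) (P.cons (P.lf 0 1370673 0) (P.lf 456891 0 0)))) (P.cons (P.cons (P.lf 83191908 0 0) (P.cons (P.lf 40017285 0 0) (P.cons (P.lf 2675460 0 0) (P.lf 0 891819 0)))) (P.cons (P.cons (P.lf 74549286 0 0) (P.cons (P.lf 0 18063066 0) (P.cons (P.lf 0 1207650 0) (P.lf 402546 0 0)))) (P.cons (P.cons (P.lf 0 14245191 0) (P.cons (P.lf 0 1896102 0) (P.cons (P.lf 0 126762 0) P.nil))) (P.cons (P.cons (P.lf 0 2128344 0) (P.cons (P.lf 413109 0 0) P.nil)) (P.cons (P.cons (P.lf 249381 0 0) P.nil) P.nil)))))) 245871)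
 (EL.cons 11 (TM.mk (P.cons (P.cons (P.lf 2940277122 0 0) (P.cons (P.lf 455228733 0 0) (P.cons (P.lf 0 219314847 0) (P.cons (P.lf 0 8299518 0) (P.lf 2074878 0 0))))) (P.cons (P.cons (P.lf 94330317 0 0) (P.cons (P.lf 14604699 0 0) (P.cons (P.lf 0 7036083 0) (P.cons (P.lf 0 266265 0) (P.lf 66564 0 0))))) (P.cons (P.cons (P.lf 0 45655029 0) (P.cons (P.lf 0 7068543 0) (P.cons (P.lf 3405402 0 0) (P.cons (P.lf 128868 0 0) P.nil)))) (P.cons (P.cons (P.lf 0 1492008 0) (P.cons (P.lf 0 231000 0) (P.cons (P.lf 111288 0 0) P.nil))) (P.cons (P.cons (P.lf 350556 0 0) (P.cons (P.lf 54273 0 0) P.nil)) (P.cons (P.cons (P.lf 13194 0 0) P.nil) P.nil)))))) 71190)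
 EL.nil)))
noncomputable def S227_256_364_512_22 : EL := (EL.cons 4 (TM.mk (P.cons (P.cons (P.lf 540147276 0 0) (P.cons (P.lf 0 292403760 0) (P.cons (P.lf 0 73186614 0) (P.cons (P.lf 0 655635 0) (P.cons (P.lf 2150946 0 0) (P.cons (P.lf 159834 0 0) P.nil)))))) (P.cons (P.cons (P.lf 104039637 0 0) (P.cons (P.lf 0 265373598 0) (P.cons (P.lf 30304065 0 0) (P.cons (P.lf 12338613 0 0) (P.cons (P.lf 0 1926744 0) P.nil))))) (P.cons (P.cons (P.lf 0 139024293 0) (P.cons (P.lf 50057046 0 0) (P.cons (P.lf 11440053 0 0) (P.cons (P.lf 0 33360 0) P.nil)))) (P.cons (P.cons (P.lf 0 391479 0) (P.cons (P.lf 19395915 0 0) (P.cons (P.lf 0 923217 0) P.nil))) (P.cons (P.cons (P.lf 8448306 0 0) (P.cons (P.lf 0 2035149 0) P.nil)) (P.cons (P.cons (P.lf 0 156315 0) P.nil) P.nil)))))) 3583434)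
 (EL.cons 8 (TM.mk (P.cons (P.cons (P.lf 0 40956612 0) (P.cons (P.lf 22171485 0 0) (P.cons (P.lf 5549367 0 0) (P.cons (P.lf 49713 0 0) (P.cons (P.lf 0 163095 0) (P.cons (P.lf 0 12117 0) P.nil)))))) (P.cons (P.cons (P.lf 33397629 0 0) (P.cons (P.lf 0 2228100 0) (P.cons (P.lf 0 7891857 0) (P.cons (P.lf 0 985686 0) (P.cons (P.lf 310503 0 0) P.nil))))) (P.cons (P.cons (P.lf 17996448 0 0) (P.cons (P.lf 0 23810280 0) (P.cons (P.lf 1516254 0 0) (P.cons (P.lf 946236 0 0) P.nil)))) (P.cons (P.cons (P.lf 0 10522266 0) (P.cons (P.lf 2507643 0 0) (P.cons (P.lf 893457 0 0) P.nil))) (P.cons (P.cons (P.lf 0 513078 0) (P.cons (P.lf 1508940 0 0) P.nil)) (P.cons (P.cons (P.lf 614205 0 0) P.nil) P.nil)))))) 1456665)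
 (EL.cons 11 (TM.mk (P.cons (P.cons (P.lf 850181364 0 0) (P.cons (P.lf 0 451661328 0) (P.cons (P.lf 0 192720420 0) (P.cons (P.lf 48069132 0 0) (P.cons (P.lf 7167813 0 0) (P.cons (P.lf 0 1271139 0) P.nil)))))) (P.cons (P.cons (P.lf 0 166660701 0) (P.cons (P.lf 0 72586266 0) (P.cons (P.lf 2060214 0 0) (P.cons (P.lf 4518306 0 0) (P.cons (P.lf 409167 0 0) P.nil))))) (P.cons (P.cons (P.lf 0 59439126 0) (P.cons (P.lf 12314211 0 0) (P.cons (P.lf 9203475 0 0) (P.cons (P.lf 0 1693956 0) P.nil)))) (P.cons (P.cons (P.lf 8642361 0 0) (P.cons (P.lf 3161625 0 0) (P.cons (P.lf 0 240381 0) P.nil))) (P.cons (P.cons (P.lf 1690437 0 0) (P.cons (P.lf 0 131445 0) P.nil)) (P.cons (P.cons (P.lf 0 168645 0) P.nil) P.nil)))))) 1281978)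
 EL.nil)))
noncomputable def S227_256_364_512_23 : EL := (EL.cons 4 (TM.mk (P.cons (P.cons (P.lf 0 210769992 0) (P.cons (P.lf 0 30506262 0) (P.cons (P.lf 0 2039577 0) (P.lf 679857 0 0)))) (P.cons (P.cons (P.lf 120410040 0 0) (P.cons (P.lf 59057079 0 0) (P.cons (P.lf 3948417 0 0) (P.lf 0 1316136 0)))) (P.cons (P.cons (P.lf 114579867 0 0) (P.cons (P.lf 0 25682214 0) (P.cons (P.lf 0 1717053 0) (P.lf 572349 0 0)))) (P.cons (P.cons (P.lf 0 20367867 0) (P.cons (P.lf 0 3718683 0) (P.cons (P.lf 0 248619 0) P.nil))) (P.cons (P.cons (P.lf 0 4404735 0) (P.cons (P.lf 773097 0 0) P.nil)) (P.cons (P.cons (P.lf 477099 0 0) P.nil) P.nil)))))) 390390)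
 (EL.cons 8 (TM.mk (P.cons (P.cons (P.lf 15981612 0 0) (P.cons (P.lf 2313132 0 0) (P.cons (P.lf 154650 0 0) (P.lf 0 51549 0)))) (P.cons (P.cons (P.lf 0 25240386 0) (P.cons (P.lf 0 6809757 0) (P.cons (P.lf 0 455283 0) (P.lf 151761 0 0)))) (P.cons (P.cons (P.lf 709671 0 0) (P.cons (P.lf 6489495 0 0) (P.cons (P.lf 433869 0 0) (P.lf 0 144621 0)))) (P.cons (P.cons (P.lf 10125054 0 0) (P.cons (P.lf 0 1745058 0) (P.cons (P.lf 0 116670 0) P.nil))) (P.cons (P.cons (P.lf 0 1289079 0) (P.cons (P.lf 0 300405 0) P.nil)) (P.cons (P.cons (P.lf 0 319014 0) P.nil) P.nil)))))) 219516)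
 (EL.cons 11 (TM.mk (P.cons (P.cons (P.lf 0 331747890 0) (P.cons (P.lf 0 51362904 0) (P.cons (P.lf 24745026 0 0) (P.cons (P.lf 936423 0 0) (P.lf 0 234105 0))))) (P.cons (P.cons (P.lf 318454590 0 0) (P.cons (P.lf 49304766 0 0) (P.cons (P.lf 0 23753481 0) (P.cons (P.lf 0 898899 0) (P.lf 224724 0 0))))) (P.cons (P.cons (P.lf 19663368 0 0) (P.cons (P.lf 3044382 0 0) (P.cons (P.lf 0 1466685 0) (P.cons (P.lf 0 55503 0) P.nil)))) (P.cons (P.cons (P.lf 0 6097743 0) (P.cons (P.lf 0 944082 0) (P.cons (P.lf 454827 0 0) P.nil))) (P.cons (P.cons (P.lf 0 335139 0) (P.cons (P.lf 0 51888 0) P.nil)) (P.cons (P.cons (P.lf 59739 0 0) P.nil) P.nil)))))) 84867)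
 EL.nil)))
noncomputable def S227_256_364_512_24 : EL := (EL.cons 4 (TM.mk (P.cons (P.cons (P.lf 0 60944160 0) (P.cons (P.lf 32991558 0 0) (P.cons (P.lf 8257554 0 0) (P.cons (P.lf 73974 0 0) (P.cons (P.lf 0 242688 0) (P.cons (P.lf 0 18033 0) P.nil)))))) (P.cons (P.cons (P.lf 48718647 0 0) (P.cons (P.lf 0 2786229 0) (P.cons (P.lf 0 11610762 0) (P.cons (P.lf 0 1465533 0) (P.cons (P.lf 458142 0 0) P.nil))))) (P.cons (P.cons (P.lf 28057212 0 0) (P.cons (P.lf 0 35743686 0) (P.cons (P.lf 2002668 0 0) (P.cons (P.lf 1383912 0 0) P.nil)))) (P.cons (P.cons (P.lf 0 15612228 0) (P.cons (P.lf 3185052 0 0) (P.cons (P.lf 1457304 0 0) P.nil))) (P.cons (P.cons (P.lf 0 1234161 0) (P.cons (P.lf 2586249 0 0) P.nil)) (P.cons (P.cons (P.lf 1023348 0 0) P.nil) P.nil)))))) 2492313)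
 (EL.cons 8 (TM.mk (P.cons (P.cons (P.lf 4621083 0 0) (P.cons (P.lf 0 2501580 0) (P.cons (P.lf 0 626127 0) (P.cons (P.lf 0 5607 0) (P.cons (P.lf 18399 0 0) (P.cons (P.lf 1365 0 0) P.nil)))))) (P.cons (P.cons (P.lf 0 8352384 0) (P.cons (P.lf 2732991 0 0) (P.cons (P.lf 1511553 0 0) (P.cons (P.lf 116778 0 0) (P.cons (P.lf 0 53286 0) P.nil))))) (P.cons (P.cons (P.lf 1652514 0 0) (P.cons (P.lf 2466915 0 0) (P.cons (P.lf 0 1046928 0) (P.cons (P.lf 0 217020 0) P.nil)))) (P.cons (P.cons (P.lf 3264294 0 0) (P.cons (P.lf 0 2960628 0) (P.cons (P.lf 55866 0 0) P.nil))) (P.cons (P.cons (P.lf 0 1109847 0) (P.cons (P.lf 79176 0 0) P.nil)) (P.cons (P.cons (P.lf 0 149094 0) P.nil) P.nil)))))) 838548)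
 (EL.cons 11 (TM.mk (P.cons (P.cons (P.lf 0 95924928 0) (P.cons (P.lf 50960397 0 0) (P.cons (P.lf 21744408 0 0) (P.cons (P.lf 0 5423580 0) (P.cons (P.lf 0 808734 0) (P.cons (P.lf 143421 0 0) P.nil)))))) (P.cons (P.cons (P.lf 113962767 0 0) (P.cons (P.lf 0 42363486 0) (P.cons (P.lf 0 21803157 0) (P.cons (P.lf 4870458 0 0) (P.cons (P.lf 756108 0 0) P.nil))))) (P.cons (P.cons (P.lf 0 10804161 0) (P.cons (P.lf 0 10121175 0) (P.cons (P.lf 0 1066986 0) (P.cons (P.lf 761490 0 0) P.nil)))) (P.cons (P.cons (P.lf 0 8223045 0) (P.cons (P.lf 1121028 0 0) (P.cons (P.lf 1144098 0 0) P.nil))) (P.cons (P.cons (P.lf 761841 0 0) (P.cons (P.lf 420933 0 0) P.nil)) (P.cons (P.cons (P.lf 248685 0 0) P.nil) P.nil)))))) 1101180)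
 EL.nil)))
noncomputable def S227_256_364_512_25 : EL := (EL.cons 4 (TM.mk (P.cons (P.cons (P.lf 23780919 0 0) (P.cons (P.lf 3441984 0 0) (P.cons (P.lf 230121 0 0) (P.lf 0 76707 0)))) (P.cons (P.cons (P.lf 0 37176669 0) (P.cons (P.lf 0 10077825 0) (P.cons (P.lf 0 673779 0) (P.lf 224592 0 0)))) (P.cons (P.cons (P.lf 265845 0 0) (P.cons (P.lf 9466776 0 0) (P.cons (P.lf 632925 0 0) (P.lf 0 210975 0)))) (P.cons (P.cons (P.lf 15376602 0 0) (P.cons (P.lf 0 2362239 0) (P.cons (P.lf 0 157932 0) P.nil))) (P.cons (P.cons (P.lf 0 1679328 0) (P.cons (P.lf 0 563484 0) P.nil)) (P.cons (P.cons (P.lf 0 625641 0) P.nil) P.nil)))))) 417879)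
 (EL.cons 8 (TM.mk (P.cons (P.cons (P.lf 0 1803186 0) (P.cons (P.lf 0 260988 0) (P.cons (P.lf 0 17448 0) (P.lf 5814 0 0)))) (P.cons (P.cons (P.lf 4636623 0 0) (P.cons (P.lf 1027239 0 0) (P.cons (P.lf 68676 0 0) (P.lf 0 22890 0)))) (P.cons (P.cons (P.lf 0 2883672 0) (P.cons (P.lf 0 1491288 0) (P.cons (P.lf 0 99702 0) (P.lf 33234 0 0)))) (P.cons (P.cons (P.lf 0 1103880 0) (P.cons (P.lf 913077 0 0) (P.cons (P.lf 61044 0 0) P.nil))) (P.cons (P.cons (P.lf 1290540 0 0) (P.cons (P.lf 0 149745 0) P.nil)) (P.cons (P.cons (P.lf 0 94731 0) P.nil) P.nil)))))) 165213)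
 (EL.cons 11 (TM.mk (P.cons (P.cons (P.lf 37430709 0 0) (P.cons (P.lf 5795214 0 0) (P.cons (P.lf 0 2791950 0) (P.cons (P.lf 0 105654 0) (P.lf 26412 0 0))))) (P.cons (P.cons (P.lf 0 73062543 0) (P.cons (P.lf 0 11311914 0) (P.cons (P.lf 5449722 0 0) (P.cons (P.lf 206232 0 0) (P.lf 0 51558 0))))) (P.cons (P.cons (P.lf 32979093 0 0) (P.cons (P.lf 5105991 0 0) (P.cons (P.lf 0 2459904 0) (P.cons (P.lf 0 93090 0) P.nil)))) (P.cons (P.cons (P.lf 3461868 0 0) (P.cons (P.lf 535983 0 0) (P.cons (P.lf 0 258219 0) P.nil))) (P.cons (P.cons (P.lf 0 754254 0) (P.cons (P.lf 0 116775 0) P.nil)) (P.cons (P.cons (P.lf 0 64404 0) P.nil) P.nil)))))) 141834)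
 EL.nil)))
noncomputable def S227_256_364_512_26 : EL := (EL.cons 4 (TM.mk (P.cons (P.cons (P.lf 6876255 0 0) (P.cons (P.lf 0 3722397 0) (P.cons (P.lf 0 931689 0) (P.cons (P.lf 0 8346 0) (P.cons (P.lf 27381 0 0) (P.cons (P.lf 2034 0 0) P.nil)))))) (P.cons (P.cons (P.lf 0 12318189 0) (P.cons (P.lf 4007028 0 0) (P.cons (P.lf 2234274 0 0) (P.cons (P.lf 173634 0 0) (P.cons (P.lf 0 78855 0) P.nil))))) (P.cons (P.cons (P.lf 2205336 0 0) (P.cons (P.lf 3765426 0 0) (P.cons (P.lf 0 1514415 0) (P.cons (P.lf 0 320079 0) P.nil)))) (P.cons (P.cons (P.lf 4993986 0 0) (P.cons (P.lf 0 4378206 0) (P.cons (P.lf 40509 0 0) P.nil))) (P.cons (P.cons (P.lf 0 1591173 0) (P.cons (P.lf 17547 0 0) P.nil)) (P.cons (P.cons (P.lf 0 287370 0) P.nil) P.nil)))))) 1358106)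
 (EL.cons 8 (TM.mk (P.cons (P.cons (P.lf 0 521391 0) (P.cons (P.lf 282249 0 0) (P.cons (P.lf 70644 0 0) (P.cons (P.lf 630 0 0) (P.cons (P.lf 0 2076 0) (P.cons (P.lf 0 153 0) P.nil)))))) (P.cons (P.cons (P.lf 1459614 0 0) (P.cons (P.lf 0 588354 0) (P.cons (P.lf 0 240627 0) (P.cons (P.lf 0 13803 0) (P.cons (P.lf 8070 0 0) P.nil))))) (P.cons (P.cons (P.lf 0 1115097 0) (P.cons (P.lf 24192 0 0) (P.cons (P.lf 286464 0 0) (P.cons (P.lf 37548 0 0) P.nil)))) (P.cons (P.cons (P.lf 0 196590 0) (P.cons (P.lf 614925 0 0) (P.cons (P.lf 0 121176 0) P.nil))) (P.cons (P.cons (P.lf 496410 0 0) (P.cons (P.lf 0 338160 0) P.nil)) (P.cons (P.cons (P.lf 0 103647 0) P.nil) P.nil)))))) 401130)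
 (EL.cons 11 (TM.mk (P.cons (P.cons (P.lf 10823091 0 0) (P.cons (P.lf 0 5749797 0) (P.cons (P.lf 0 2453394 0) (P.cons (P.lf 611934 0 0) (P.cons (P.lf 91248 0 0) (P.cons (P.lf 0 16182 0) P.nil)))))) (P.cons (P.cons (P.lf 0 23594913 0) (P.cons (P.lf 10483686 0 0) (P.cons (P.lf 4893819 0 0) (P.cons (P.lf 0 1156575 0) (P.cons (P.lf 0 175830 0) P.nil))))) (P.cons (P.cons (P.lf 13845585 0 0) (P.cons (P.lf 0 3531147 0) (P.cons (P.lf 0 2290743 0) (P.cons (P.lf 451926 0 0) P.nil)))) (P.cons (P.cons (P.lf 0 86376 0) (P.cons (P.lf 0 1338525 0) (P.cons (P.lf 0 287319 0) P.nil))) (P.cons (P.cons (P.lf 0 1069743 0) (P.cons (P.lf 82401 0 0) P.nil)) (P.cons (P.cons (P.lf 49695 0 0) P.nil) P.nil)))))) 673641)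
 EL.nil)))
noncomputable def S227_256_364_512_27 : EL := (EL.cons 13 (TM.mk (P.lf 0 4294967296 0) 0)
 EL.nil)
noncomputable def S227_256_364_512_28 : EL := (EL.cons 13 (TM.mk (P.cons (P.cons (P.lf 0 1241890136 0) (P.cons (P.lf 852033536 0 0) (P.cons (P.lf 56964976 0 0) (P.lf 0 18988324 0)))) (P.cons (P.cons (P.lf 283289679 0 0) (P.cons (P.lf 41002556 0 0) (P.cons (P.lf 2741332 0 0) (P.lf 0 913776 0)))) (P.cons (P.cons (P.lf 58452916 0 0) (P.cons (P.lf 0 19516008 0) (P.cons (P.lf 0 1304792 0) (P.lf 434928 0 0)))) (P.cons (P.cons (P.lf 0 10730912 0) (P.cons (P.lf 0 968620 0) (P.cons (P.lf 0 64756 0) P.nil))) (P.cons (P.cons (P.lf 0 925572 0) (P.cons (P.lf 221580 0 0) P.nil)) (P.cons (P.cons (P.lf 110875 0 0) P.nil) P.nil)))))) 70175)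
 EL.nil)
noncomputable def S227_256_364_512_29 : EL := (EL.cons 13 (TM.mk (P.cons (P.cons (P.lf 0 359092631 0) (P.cons (P.lf 492731129 0 0) (P.cons (P.lf 0 136083146 0) (P.cons (P.lf 0 33582319 0) (P.cons (P.lf 6778251 0 0) (P.cons (P.lf 503691 0 0) P.nil)))))) (P.cons (P.cons (P.lf 163826466 0 0) (P.cons (P.lf 0 88685954 0) (P.cons (P.lf 0 22197472 0) (P.cons (P.lf 0 198851 0) (P.cons (P.lf 652381 0 0) P.nil))))) (P.cons (P.cons (P.lf 15117963 0 0) (P.cons (P.lf 0 39886768 0) (P.cons (P.lf 4684981 0 0) (P.cons (P.lf 1871945 0 0) P.nil)))) (P.cons (P.cons (P.lf 0 13916623 0) (P.cons (P.lf 5155867 0 0) (P.cons (P.lf 1101644 0 0) P.nil))) (P.cons (P.cons (P.lf 84809 0 0) (P.cons (P.lf 1359246 0 0) P.nil)) (P.cons (P.cons (P.lf 478305 0 0) P.nil) P.nil)))))) 1639173)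
 EL.nil)
noncomputable def S227_256_364_512_30 : EL := (EL.cons 13 (TM.mk (P.cons (P.lf 484595936 0 0) (P.cons (P.lf 0 480724804 0) (P.cons (P.lf 0 5775768 0) (P.cons (P.lf 1873960 0 0) (P.cons (P.lf 38036 0 0) (P.cons (P.lf 0 7180 0) P.nil)))))) 280)
 EL.nil)
noncomputable def S227_256_364_512_31 : EL := (EL.cons 13 (TM.mk (P.cons (P.cons (P.lf 140120953 0 0) (P.cons (P.lf 0 96133907 0) (P.cons (P.lf 0 6427288 0) (P.lf 2142429 0 0)))) (P.cons (P.cons (P.lf 0 170964845 0) (P.cons (P.lf 90739685 0 0) (P.cons (P.lf 6066644 0 0) (P.lf 0 2022214 0)))) (P.cons (P.cons (P.lf 23442660 0 0) (P.cons (P.lf 7937073 0 0) (P.cons (P.lf 530653 0 0) (P.lf 0 176884 0)))) (P.cons (P.cons (P.lf 8676059 0 0) (P.cons (P.lf 0 2391705 0) (P.cons (P.lf 0 159903 0) P.nil))) (P.cons (P.cons (P.lf 0 1130652 0) (P.cons (P.lf 0 185096 0) P.nil)) (P.cons (P.cons (P.lf 0 160626 0) P.nil) P.nil))))))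 144854)
 EL.nil)
noncomputable def S227_256_364_512_32 : EL := (EL.cons 13 (TM.mk (P.cons (P.cons (P.lf 40515984 0 0) (P.cons (P.lf 0 55594253 0) (P.cons (P.lf 15354095 0 0) (P.cons (P.lf 3789052 0 0) (P.cons (P.lf 0 764781 0) (P.cons (P.lf 0 56830 0) P.nil)))))) (P.cons (P.cons (P.lf 0 58676668 0) (P.cons (P.lf 65156474 0 0) (P.cons (P.lf 0 12726927 0) (P.cons (P.lf 0 3736347 0) (P.cons (P.lf 685065 0 0) P.nil))))) (P.cons (P.cons (P.lf 16148040 0 0) (P.cons (P.lf 0 4763405 0) (P.cons (P.lf 0 3196108 0) (P.cons (P.lf 0 278626 0) P.nil)))) (P.cons (P.cons (P.lf 3639298 0 0) (P.cons (P.lf 0 5380403 0) (P.cons (P.lf 429605 0 0) P.nil))) (P.cons (P.cons (P.lf 0 1615190 0) (P.cons (P.lf 404413 0 0) P.nil)) (P.cons (P.cons (P.lf 0 71836 0) P.nil) P.nil)))))) 1132922)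
 EL.nil)
noncomputable def S227_256_364_512_33 : EL := (EL.cons 14 (TM.mk (P.lf 8589934592 0 0) 0)
 EL.nil)
noncomputable def S227_256_364_512_34 : EL := (EL.cons 14 (TM.mk (P.cons (P.cons (P.lf 2483780272 0 0) (P.cons (P.lf 0 1704067072 0) (P.cons (P.lf 0 113929952 0) (P.lf 37976648 0 0)))) (P.cons (P.cons (P.lf 0 566579358 0) (P.cons (P.lf 0 82005112 0) (P.cons (P.lf 0 5482664 0) (P.lf 1827552 0 0)))) (P.cons (P.cons (P.lf 0 116905832 0) (P.cons (P.lf 39032016 0 0) (P.cons (P.lf 2609584 0 0) (P.lf 0 869856 0)))) (P.cons (P.cons (P.lf 21461824 0 0) (P.cons (P.lf 1937240 0 0) (P.cons (P.lf 129512 0 0) P.nil))) (P.cons (P.cons (P.lf 1851144 0 0) (P.cons (P.lf 0 443160 0) P.nil)) (P.cons (P.cons (P.lf 0 221750 0) P.nil) P.nil)))))) 140350)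
 EL.nil)
noncomputable def S227_256_364_512_35 : EL := (EL.cons 14 (TM.mk (P.cons (P.cons (P.lf 718185262 0 0) (P.cons (P.lf 0 985462258 0) (P.cons (P.lf 272166292 0 0) (P.cons (P.lf 67164638 0 0) (P.cons (P.lf 0 13556502 0) (P.cons (P.lf 0 1007382 0) P.nil)))))) (P.cons (P.cons (P.lf 0 327652932 0) (P.cons (P.lf 177371908 0 0) (P.cons (P.lf 44394944 0 0) (P.cons (P.lf 397702 0 0) (P.cons (P.lf 0 1304762 0) P.nil))))) (P.cons (P.cons (P.lf 0 30235926 0) (P.cons (P.lf 79773536 0 0) (P.cons (P.lf 0 9369962 0) (P.cons (P.lf 0 3743890 0) P.nil)))) (P.cons (P.cons (P.lf 27833246 0 0) (P.cons (P.lf 0 10311734 0) (P.cons (P.lf 0 2203288 0) P.nil))) (P.cons (P.cons (P.lf 0 169618 0) (P.cons (P.lf 0 2718492 0) P.nil)) (P.cons (P.cons (P.lf 0 956610 0) P.nil) P.nil)))))) 3278346)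
 EL.nil)
noncomputable def S227_256_364_512_36 : EL := (EL.cons 14 (TM.mk (P.cons (P.lf 0 969191872 0) (P.cons (P.lf 961449608 0 0) (P.cons (P.lf 11551536 0 0) (P.cons (P.lf 0 3747920 0) (P.cons (P.lf 0 76072 0) (P.cons (P.lf 14360 0 0) P.nil)))))) 560)
 EL.nil)
noncomputable def S227_256_364_512_37 : EL := (EL.cons 14 (TM.mk (P.cons (P.cons (P.lf 0 280241906 0) (P.cons (P.lf 192267814 0 0) (P.cons (P.lf 12854576 0 0) (P.lf 0 4284858 0)))) (P.cons (P.cons (P.lf 341929690 0 0) (P.cons (P.lf 0 181479370 0) (P.cons (P.lf 0 12133288 0) (P.lf 4044428 0 0)))) (P.cons (P.cons (P.lf 0 46885320 0) (P.cons (P.lf 0 15874146 0) (P.cons (P.lf 0 1061306 0) (P.lf 353768 0 0)))) (P.cons (P.cons (P.lf 0 17352118 0) (P.cons (P.lf 4783410 0 0) (P.cons (P.lf 319806 0 0) P.nil))) (P.cons (P.cons (P.lf 2261304 0 0) (P.cons (P.lf 370192 0 0) P.nil)) (P.cons (P.cons (P.lf 321252 0 0) P.nil)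 P.nil)))))) 289708)
 EL.nil)
noncomputable def S227_256_364_512_38 : EL := (EL.cons 14 (TM.mk (P.cons (P.cons (P.lf 0 81031968 0) (P.cons (P.lf 111188506 0 0) (P.cons (P.lf 0 30708190 0) (P.cons (P.lf 0 7578104 0) (P.cons (P.lf 1529562 0 0) (P.cons (P.lf 113660 0 0) P.nil)))))) (P.cons (P.cons (P.lf 117353336 0 0) (P.cons (P.lf 0 130312948 0) (P.cons (P.lf 25453854 0 0) (P.cons (P.lf 7472694 0 0) (P.cons (P.lf 0 1370130 0) P.nil))))) (P.cons (P.cons (P.lf 0 32296080 0) (P.cons (P.lf 9526810 0 0) (P.cons (P.lf 6392216 0 0) (P.cons (P.lf 557252 0 0) P.nil)))) (P.cons (P.cons (P.lf 0 7278596 0) (P.cons (P.lf 10760806 0 0) (P.cons (P.lf 0 859210 0) P.nil))) (P.cons (P.cons (P.lf 3230380 0 0) (P.cons (P.lf 0 808826 0) P.nil)) (P.cons (P.cons (P.lf 143672 0 0) P.nil) P.nil)))))) 2265844)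
 EL.nil)
noncomputable def S227_256_364_512_39 : EL := (EL.cons 14 (TM.mk (P.cons (P.lf 109352740 0 0) (P.cons (P.lf 0 216958378 0) (P.cons (P.lf 105005926 0 0) (P.cons (P.lf 3431614 0 0) (P.cons (P.lf 0 806288 0) (P.cons (P.lf 0 30348 0) P.nil)))))) 5440)
 EL.nil)
noncomputable def S227_256_364_512_40 : EL := (EL.cons 14 (TM.mk (P.cons (P.cons (P.lf 31619352 0 0) (P.cons (P.lf 0 21693342 0) (P.cons (P.lf 0 1450366 0) (P.lf 483454 0 0)))) (P.cons (P.cons (P.lf 0 69946276 0) (P.cons (P.lf 41996144 0 0) (P.cons (P.lf 2807764 0 0) (P.lf 0 935920 0)))) (P.cons (P.cons (P.lf 43184474 0 0) (P.cons (P.lf 0 18262908 0) (P.cons (P.lf 0 1221014 0) (P.lf 407004 0 0)))) (P.cons (P.cons (P.lf 0 2707844 0) (P.cons (P.lf 0 2644396 0) (P.cons (P.lf 0 176798 0) P.nil))) (P.cons (P.cons (P.lf 0 2407074 0) (P.cons (P.lf 549758 0 0) P.nil)) (P.cons (P.cons (P.lf 210480 0 0) P.nil) P.nil))))))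 268426)
 EL.nil)
noncomputable def S227_256_364_512_41 : EL := (EL.cons 14 (TM.mk (P.cons (P.cons (P.lf 9142738 0 0) (P.cons (P.lf 0 12545264 0) (P.cons (P.lf 3464766 0 0) (P.cons (P.lf 855028 0 0) (P.cons (P.lf 0 172578 0) (P.cons (P.lf 0 12824 0) P.nil)))))) (P.cons (P.cons (P.lf 0 22310536 0) (P.cons (P.lf 27148098 0 0) (P.cons (P.lf 0 6309016 0) (P.cons (P.lf 0 1691332 0) (P.cons (P.lf 325790 0 0) P.nil))))) (P.cons (P.cons (P.lf 16670018 0 0) (P.cons (P.lf 0 15510972 0) (P.cons (P.lf 2086462 0 0) (P.cons (P.lf 763334 0 0) P.nil)))) (P.cons (P.cons (P.lf 0 2600412 0) (P.cons (P.lf 0 371570 0) (P.cons (P.lf 860036 0 0) P.nil))) (P.cons (P.cons (P.lf 0 1273070 0) (P.cons (P.lf 1364372 0 0) P.nil)) (P.cons (P.cons (P.lf 348486 0 0) P.nil) P.nil)))))) 1211610)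
 EL.nil)
noncomputable def S227_256_364_512_42 : EL := (EL.cons 14 (TM.mk (P.cons (P.lf 0 12338136 0) (P.cons (P.lf 36718724 0 0) (P.cons (P.lf 0 35984236 0) (P.cons (P.lf 11026388 0 0) (P.cons (P.lf 709966 0 0) (P.cons (P.lf 0 125918 0) P.nil)))))) 9172)
 EL.nil)
noncomputable def S227_256_364_512_43 : EL := (EL.cons 14 (TM.mk (P.cons (P.cons (P.lf 0 3567572 0) (P.cons (P.lf 2447632 0 0) (P.cons (P.lf 163642 0 0) (P.lf 0 54546 0)))) (P.cons (P.cons (P.lf 11431026 0 0) (P.cons (P.lf 0 7166454 0) (P.cons (P.lf 0 479132 0) (P.lf 159710 0 0)))) (P.cons (P.cons (P.lf 0 12658838 0) (P.cons (P.lf 6731930 0 0) (P.cons (P.lf 450080 0 0) (P.lf 0 150026 0)))) (P.cons (P.cons (P.lf 5031192 0 0) (P.cons (P.lf 0 1679814 0) (P.cons (P.lf 0 112308 0) P.nil))) (P.cons (P.cons (P.lf 56816 0 0) (P.cons (P.lf 0 400698 0) P.nil)) (P.cons (P.cons (P.lf 0 314976 0) P.nil) P.nil)))))) 276636)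
 EL.nil)
noncomputable def S227_256_364_512_44 : EL := (EL.cons 14 (TM.mk (P.cons (P.cons (P.lf 0 1031564 0) (P.cons (P.lf 1415466 0 0) (P.cons (P.lf 0 390924 0) (P.cons (P.lf 0 96470 0) (P.cons (P.lf 19470 0 0) (P.cons (P.lf 1446 0 0) P.nil)))))) (P.cons (P.cons (P.lf 3540594 0 0) (P.cons (P.lf 0 4467246 0) (P.cons (P.lf 1099640 0 0) (P.cons (P.lf 286532 0 0) (P.cons (P.lf 0 56074 0) P.nil))))) (P.cons (P.cons (P.lf 0 4365724 0) (P.cons (P.lf 4771830 0 0) (P.cons (P.lf 0 936906 0) (P.cons (P.lf 0 274282 0) P.nil)))) (P.cons (P.cons (P.lf 2125242 0 0) (P.cons (P.lf 0 1652196 0) (P.cons (P.lf 126498 0 0) P.nil))) (P.cons (P.cons (P.lf 0 115346 0) (P.cons (P.lf 0 228122 0) P.nil)) (P.cons (P.cons (P.lf 0 192368 0) P.nil) P.nil)))))) 714376)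
 EL.nil)
noncomputable def S227_256_364_512_45 : EL := (EL.cons 14 (TM.mk (P.cons (P.cons (P.lf 207663324 0 0) (P.cons (P.lf 0 427419734 0) (P.cons (P.lf 264667002 0 0) (P.cons (P.lf 0 18326038 0) (P.cons (P.lf 0 25210536 0) (P.cons (P.lf 2710494 0 0) P.nil)))))) (P.cons (P.cons (P.lf 0 142111306 0) (P.cons (P.lf 174430096 0 0) (P.cons (P.lf 0 27006640 0) (P.cons (P.lf 0 18739716 0) (P.cons (P.lf 0 391220 0) P.nil))))) (P.cons (P.cons (P.lf 3094544 0 0) (P.cons (P.lf 37168668 0 0) (P.cons (P.lf 0 30509904 0) (P.cons (P.lf 0 1097926 0) P.nil)))) (P.cons (P.cons (P.lf 16295912 0 0) (P.cons (P.lf 0 19679266 0) (P.cons (P.lf 1485966 0 0) P.nil))) (P.cons (P.cons (P.lf 0 2137250 0) (P.cons (P.lf 0 1441202 0) P.nil)) (P.cons (P.cons (P.lf 0 808910 0) P.nil) P.nil)))))) 11160978)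
 EL.nil)
noncomputable def S227_256_364_512_46 : EL := (EL.cons 15 (TM.mk (P.lf 4294967296 0 0) 0)
 EL.nil)
noncomputable def S227_256_364_512_47 : EL := (EL.cons 15 (TM.mk (P.cons (P.cons (P.lf 1241890136 0 0) (P.cons (P.lf 0 852033536 0) (P.cons (P.lf 0 56964976 0) (P.lf 18988324 0 0)))) (P.cons (P.cons (P.lf 0 283289679 0) (P.cons (P.lf 0 41002556 0) (P.cons (P.lf 0 2741332 0) (P.lf 913776 0 0)))) (P.cons (P.cons (P.lf 0 58452916 0) (P.cons (P.lf 19516008 0 0) (P.cons (P.lf 1304792 0 0) (P.lf 0 434928 0)))) (P.cons (P.cons (P.lf 10730912 0 0) (P.cons (P.lf 968620 0 0) (P.cons (P.lf 64756 0 0) P.nil))) (P.cons (P.cons (P.lf 925572 0 0) (P.cons (P.lf 0 221580 0) P.nil)) (P.cons (P.cons (P.lf 0 110875 0) P.nil) P.nil)))))) 70175)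
 EL.nil)
noncomputable def S227_256_364_512_48 : EL := (EL.cons 15 (TM.mk (P.cons (P.cons (P.lf 359092631 0 0) (P.cons (P.lf 0 492731129 0) (P.cons (P.lf 136083146 0 0) (P.cons (P.lf 33582319 0 0) (P.cons (P.lf 0 6778251 0) (P.cons (P.lf 0 503691 0) P.nil)))))) (P.cons (P.cons (P.lf 0 163826466 0) (P.cons (P.lf 88685954 0 0) (P.cons (P.lf 22197472 0 0) (P.cons (P.lf 198851 0 0) (P.cons (P.lf 0 652381 0) P.nil))))) (P.cons (P.cons (P.lf 0 15117963 0) (P.cons (P.lf 39886768 0 0) (P.cons (P.lf 0 4684981 0) (P.cons (P.lf 0 1871945 0) P.nil)))) (P.cons (P.cons (P.lf 13916623 0 0) (P.cons (P.lf 0 5155867 0) (P.cons (P.lf 0 1101644 0) P.nil))) (P.cons (P.cons (P.lf 0 84809 0) (P.cons (P.lf 0 1359246 0) P.nil)) (P.cons (P.cons (P.lf 0 478305 0) P.nil) P.nil)))))) 1639173)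
 EL.nil)
noncomputable def S227_256_364_512 : SL := (SL.cons S227_256_364_512_0 (SL.cons S227_256_364_512_1 (SL.cons S227_256_364_512_2 (SL.cons S227_256_364_512_3 (SL.cons S227_256_364_512_4 (SL.cons S227_256_364_512_5 (SL.cons S227_256_364_512_6 (SL.cons S227_256_364_512_7 (SL.cons S227_256_364_512_8 (SL.cons S227_256_364_512_9 (SL.cons S227_256_364_512_10 (SL.cons S227_256_364_512_11 (SL.cons S227_256_364_512_12 (SL.cons S227_256_364_512_13 (SL.cons S227_256_364_512_14 (SL.cons S227_256_364_512_15 (SL.cons S227_256_364_512_16 (SL.cons S227_256_364_512_17 (SL.cons S227_256_364_512_18 (SL.cons S227_256_364_512_19 (SL.cons S227_256_364_512_20 (SL.cons S227_256_364_512_21 (SL.cons S227_256_364_512_22 (SL.cons S227_256_364_512_23 (SL.cons S227_256_364_512_24 (SL.cons S227_256_364_512_25 (SL.cons S227_256_364_512_26 (SL.cons S227_256_364_512_27 (SL.cons S227_256_364_512_28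 (SL.cons S227_256_364_512_29 (SL.cons S227_256_364_512_30 (SL.cons S227_256_364_512_31 (SL.cons S227_256_364_512_32 (SL.cons S227_256_364_512_33 (SL.cons S227_256_364_512_34 (SL.cons S227_256_364_512_35 (SL.cons S227_256_364_512_36 (SL.cons S227_256_364_512_37 (SL.cons S227_256_364_512_38 (SL.cons S227_256_364_512_39 (SL.cons S227_256_364_512_40 (SL.cons S227_256_364_512_41 (SL.cons S227_256_364_512_42 (SL.cons S227_256_364_512_43 (SL.cons S227_256_364_512_44 (SL.cons S227_256_364_512_45 (SL.cons S227_256_364_512_46 (SL.cons S227_256_364_512_47 (SL.cons S227_256_364_512_48 SL.nil)))))))))))))))))))))))))))))))))))))))))))))))))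
noncomputable def S227_256_401_438_0 : EL := (EL.cons 0 (TM.mk (P.cons (P.lf 8359606057 0 0) (P.cons (P.lf 190686074 0 0) (P.cons (P.lf 0 92290364 0) (P.cons (P.lf 0 3016066 0) (P.cons (P.lf 708651 0 0) (P.cons (P.lf 26673 0 0) P.nil)))))) 4788)
 (EL.cons 1 (TM.mk (P.cons (P.lf 0 450679505 0) (P.cons (P.lf 439849933 0 0) (P.cons (P.lf 16100088 0 0) (P.cons (P.lf 0 5127871 0) (P.cons (P.lf 0 176304 0) (P.cons (P.lf 32482 0 0) P.nil)))))) 1651)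
 (EL.cons 5 (TM.mk (P.cons (P.lf 4329140030 0 0) (P.cons (P.lf 0 67799490 0) (P.cons (P.lf 32814348 0 0) (P.cons (P.lf 1072376 0 0) (P.cons (P.lf 0 251962 0) (P.cons (P.lf 0 9484 0) P.nil)))))) 1837)
 (EL.cons 9 (TM.mk (P.lf 6442450944 0 0) 2)
 EL.nil))))
noncomputable def S227_256_401_438_1 : EL := (EL.cons 0 (TM.mk (P.cons (P.cons (P.lf 3205420096 0 0) (P.cons (P.lf 0 385239809 0) (P.cons (P.lf 0 8363353 0) (P.lf 557554 0 0)))) (P.cons (P.cons (P.lf 0 665961318 0) (P.cons (P.lf 0 54944538 0) (P.cons (P.lf 0 1192808 0) (P.lf 79510 0 0)))) (P.cons (P.cons (P.lf 0 393063876 0) (P.cons (P.lf 24692016 0 0) (P.cons (P.lf 536035 0 0) (P.lf 0 35722 0)))) (P.cons (P.cons (P.lf 58945975 0 0) (P.cons (P.lf 2695569 0 0) (P.cons (P.lf 58509 0 0) P.nil))) (P.cons (P.cons (P.lf 12778218 0 0) (P.cons (P.lf 0 569964 0) P.nil)) (P.cons (P.cons (P.lf 0 1236903 0) P.nil) P.nil))))))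 360056)
 (EL.cons 1 (TM.mk (P.cons (P.cons (P.lf 726933341 0 0) (P.cons (P.lf 53255282 0 0) (P.cons (P.lf 1156138 0 0) (P.lf 0 77071 0)))) (P.cons (P.cons (P.lf 634604497 0 0) (P.cons (P.lf 0 48360872 0) (P.cons (P.lf 0 1049884 0) (P.lf 69988 0 0)))) (P.cons (P.cons (P.lf 0 118606022 0) (P.cons (P.lf 0 7142410 0) (P.cons (P.lf 0 155051 0) (P.lf 10329 0 0)))) (P.cons (P.cons (P.lf 0 40635577 0) (P.cons (P.lf 2054080 0 0) (P.cons (P.lf 44588 0 0) P.nil))) (P.cons (P.cons (P.lf 4759796 0 0) (P.cons (P.lf 235886 0 0) P.nil)) (P.cons (P.cons (P.lf 995575 0 0) P.nil) P.nil)))))) 212670)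
 (EL.cons 5 (TM.mk (P.cons (P.cons (P.lf 1327065666 0 0) (P.cons (P.lf 0 211521906 0) (P.cons (P.lf 0 4592022 0) (P.lf 306136 0 0)))) (P.cons (P.cons (P.lf 0 227695664 0) (P.cons (P.lf 2765098 0 0) (P.cons (P.lf 60022 0 0) (P.lf 0 3996 0)))) (P.cons (P.cons (P.lf 32241954 0 0) (P.cons (P.lf 0 797008 0) (P.cons (P.lf 0 17294 0) (P.lf 1146 0 0)))) (P.cons (P.cons (P.lf 0 3120224 0) (P.cons (P.lf 0 562238 0) (P.cons (P.lf 0 12200 0) P.nil))) (P.cons (P.cons (P.lf 0 2877400 0) (P.cons (P.lf 112022 0 0) P.nil)) (P.cons (P.cons (P.lf 256311 0 0) P.nil) P.nil)))))) 160591)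
 (EL.cons 9 (TM.mk (P.cons (P.cons (P.lf 2176562274 0 0) (P.cons (P.lf 0 307496520 0) (P.cons (P.lf 0 6675582 0) (P.lf 445032 0 0)))) (P.cons (P.cons (P.lf 0 409836976 0) (P.cons (P.lf 0 14797704 0) (P.cons (P.lf 0 321246 0) (P.lf 21414 0 0)))) (P.cons (P.cons (P.lf 0 94865358 0) (P.cons (P.lf 7043268 0 0) (P.cons (P.lf 152898 0 0) (P.lf 0 10188 0)))) (P.cons (P.cons (P.lf 15739716 0 0) (P.cons (P.lf 349566 0 0) (P.cons (P.lf 7584 0 0) P.nil))) (P.cons (P.cons (P.lf 1469952 0 0) (P.cons (P.lf 0 79962 0) P.nil)) (P.cons (P.cons (P.lf 0 161890 0) P.nil) P.nil)))))) 25745)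
 (EL.cons 2 (TM.mk (P.cons (P.cons (P.lf 297540137 0 0) (P.cons (P.lf 14893405 0 0) (P.cons (P.lf 0 1403606 0) (P.cons (P.lf 0 17145 0) (P.lf 855 0 0))))) (P.cons (P.cons (P.lf 0 285617556 0) (P.cons (P.lf 0 14296620 0) (P.cons (P.lf 1347364 0 0) (P.cons (P.lf 16458 0 0) (P.lf 0 821 0))))) (P.cons (P.cons (P.lf 0 17635803 0) (P.cons (P.lf 0 882759 0) (P.cons (P.lf 83193 0 0) (P.cons (P.lf 1015 0 0) P.nil)))) (P.cons (P.cons (P.lf 5468982 0 0) (P.cons (P.lf 273749 0 0) (P.cons (P.lf 0 25799 0) P.nil))) (P.cons (P.cons (P.lf 300583 0 0) (P.cons (P.lf 15044 0 0) P.nil)) (P.cons (P.cons (P.lf 0 53580 0) P.nil) P.nil)))))) 9299)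
 (EL.cons 6 (TM.mk (P.cons (P.cons (P.lf 1395215031 0 0) (P.cons (P.lf 69837657 0 0) (P.cons (P.lf 0 6581751 0) (P.cons (P.lf 0 80400 0) (P.lf 4017 0 0))))) (P.cons (P.cons (P.lf 67142178 0 0) (P.cons (P.lf 3360807 0 0) (P.cons (P.lf 0 316731 0) (P.cons (P.lf 0 3867 0) (P.lf 192 0 0))))) (P.cons (P.cons (P.lf 0 31957698 0) (P.cons (P.lf 0 1599645 0) (P.cons (P.lf 150753 0 0) (P.cons (P.lf 1839 0 0) P.nil)))) (P.cons (P.cons (P.lf 0 1586130 0) (P.cons (P.lf 0 79392 0) (P.cons (P.lf 7479 0 0) P.nil))) (P.cons (P.cons (P.lf 362844 0 0) (P.cons (P.lf 18159 0 0) P.nil)) (P.cons (P.cons (P.lf 19683 0 0) P.nil) P.nil)))))) 7269)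
 EL.nil))))))
noncomputable def S227_256_401_438_2 : EL := (EL.cons 0 (TM.mk (P.cons (P.cons (P.lf 1211712657 0 0) (P.cons (P.lf 0 296688817 0) (P.cons (P.lf 11289595 0 0) (P.cons (P.lf 1199239 0 0) (P.cons (P.lf 0 42977 0) (P.cons (P.lf 0 1117 0) P.nil)))))) (P.cons (P.cons (P.lf 0 520245109 0) (P.cons (P.lf 29094509 0 0) (P.cons (P.lf 5378971 0 0) (P.cons (P.lf 163999 0 0) (P.cons (P.lf 0 11498 0) P.nil))))) (P.cons (P.cons (P.lf 0 207185192 0) (P.cons (P.lf 58402495 0 0) (P.cons (P.lf 0 682376 0) (P.cons (P.lf 0 169181 0) P.nil)))) (P.cons (P.cons (P.lf 93155354 0 0) (P.cons (P.lf 0 4418256 0) (P.cons (P.lf 0 497317 0) P.nil))) (P.cons (P.cons (P.lf 8988677 0 0) (P.cons (P.lf 0 3416055 0) P.nil)) (P.cons (P.cons (P.lf 0 5273619 0) P.nil) P.nil)))))) 2195336)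
 (EL.cons 1 (TM.mk (P.cons (P.cons (P.lf 542625199 0 0) (P.cons (P.lf 0 47943136 0) (P.cons (P.lf 0 5097835 0) (P.cons (P.lf 0 106758 0) (P.cons (P.lf 9826 0 0) (P.cons (P.lf 255 0 0) P.nil)))))) (P.cons (P.cons (P.lf 266733660 0 0) (P.cons (P.lf 0 87148394 0) (P.cons (P.lf 1576696 0 0) (P.cons (P.lf 276729 0 0) (P.cons (P.lf 0 8403 0) P.nil))))) (P.cons (P.cons (P.lf 0 167881700 0) (P.cons (P.lf 9383718 0 0) (P.cons (P.lf 1046349 0 0) (P.cons (P.lf 22991 0 0) P.nil)))) (P.cons (P.cons (P.lf 0 22042126 0) (P.cons (P.lf 8440799 0 0) (P.cons (P.lf 0 32850 0) P.nil))) (P.cons (P.cons (P.lf 13683448 0 0) (P.cons (P.lf 0 519930 0) P.nil)) (P.cons (P.cons (P.lf 759432 0 0) P.nil) P.nil)))))) 1230052)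
 (EL.cons 5 (TM.mk (P.cons (P.cons (P.lf 402559713 0 0) (P.cons (P.lf 0 129987301 0) (P.cons (P.lf 7507475 0 0) (P.cons (P.lf 636615 0 0) (P.cons (P.lf 0 25027 0) (P.cons (P.lf 0 633 0) P.nil)))))) (P.cons (P.cons (P.lf 0 128871538 0) (P.cons (P.lf 22662598 0 0) (P.cons (P.lf 404981 0 0) (P.cons (P.lf 0 36571 0) (P.cons (P.lf 210 0 0) P.nil))))) (P.cons (P.cons (P.lf 30567285 0 0) (P.cons (P.lf 0 2974703 0) (P.cons (P.lf 0 94644 0) (P.cons (P.lf 2990 0 0) P.nil)))) (P.cons (P.cons (P.lf 0 7389604 0) (P.cons (P.lf 0 385919 0) (P.cons (P.lf 59847 0 0) P.nil))) (P.cons (P.cons (P.lf 0 2756713 0) (P.cons (P.lf 626884 0 0) P.nil)) (P.cons (P.cons (P.lf 1013781 0 0) P.nil) P.nil)))))) 992396)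
 (EL.cons 9 (TM.mk (P.cons (P.cons (P.lf 735344881 0 0) (P.cons (P.lf 0 207773509 0) (P.cons (P.lf 10166079 0 0) (P.cons (P.lf 937953 0 0) (P.cons (P.lf 0 35565 0) (P.cons (P.lf 0 921 0) P.nil)))))) (P.cons (P.cons (P.lf 0 276924328 0) (P.cons (P.lf 29124108 0 0) (P.cons (P.lf 2044851 0 0) (P.cons (P.lf 19179 0 0) (P.cons (P.lf 0 3421 0) P.nil))))) (P.cons (P.cons (P.lf 0 38028130 0) (P.cons (P.lf 15697605 0 0) (P.cons (P.lf 0 297576 0) (P.cons (P.lf 0 50430 0) P.nil)))) (P.cons (P.cons (P.lf 22704961 0 0) (P.cons (P.lf 0 1726627 0) (P.cons (P.lf 0 103210 0) P.nil))) (P.cons (P.cons (P.lf 387567 0 0) (P.cons (P.lf 0 518556 0) P.nil)) (P.cons (P.cons (P.lf 0 759946 0) P.nil) P.nil)))))) 266846)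
 (EL.cons 2 (TM.mk (P.cons (P.cons (P.lf 201046038 0 0) (P.cons (P.lf 0 18339637 0) (P.cons (P.lf 0 2986734 0) (P.cons (P.lf 132643 0 0) (P.cons (P.lf 7177 0 0) (P.cons (P.lf 0 236 0) P.nil)))))) (P.cons (P.cons (P.lf 0 230846101 0) (P.cons (P.lf 14343030 0 0) (P.cons (P.lf 2947550 0 0) (P.cons (P.lf 0 118203 0) (P.cons (P.lf 0 6682 0) P.nil))))) (P.cons (P.cons (P.lf 15660174 0 0) (P.cons (P.lf 4430025 0 0) (P.cons (P.lf 187785 0 0) (P.cons (P.lf 0 19411 0) P.nil)))) (P.cons (P.cons (P.lf 15804478 0 0) (P.cons (P.lf 0 242173 0) (P.cons (P.lf 0 148702 0) P.nil))) (P.cons (P.cons (P.lf 0 1233157 0) (P.cons (P.lf 0 192481 0) P.nil)) (P.cons (P.cons (P.lf 0 466970 0) P.nil) P.nil)))))) 169334)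
 (EL.cons 6 (TM.mk (P.cons (P.cons (P.lf 942738228 0 0) (P.cons (P.lf 0 85997628 0) (P.cons (P.lf 0 14005320 0) (P.cons (P.lf 621990 0 0) (P.cons (P.lf 33672 0 0) (P.cons (P.lf 0 1122 0) P.nil)))))) (P.cons (P.cons (P.lf 0 132145842 0) (P.cons (P.lf 0 19433286 0) (P.cons (P.lf 0 296538 0) (P.cons (P.lf 72702 0 0) (P.cons (P.lf 2592 0 0) P.nil))))) (P.cons (P.cons (P.lf 0 71225322 0) (P.cons (P.lf 2227698 0 0) (P.cons (P.lf 751710 0 0) (P.cons (P.lf 0 25308 0) P.nil)))) (P.cons (P.cons (P.lf 7834266 0 0) (P.cons (P.lf 988578 0 0) (P.cons (P.lf 5844 0 0) P.nil))) (P.cons (P.cons (P.lf 2352888 0 0) (P.cons (P.lf 0 6798 0) P.nil)) (P.cons (P.cons (P.lf 0 181782 0) P.nil) P.nil)))))) 118542)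
 EL.nil))))))
noncomputable def S227_256_401_438_3 : EL := (EL.cons 0 (TM.mk (P.cons (P.lf 96110806 0 0) (P.cons (P.lf 0 190686074 0) (P.cons (P.lf 92290364 0 0) (P.cons (P.lf 3016066 0 0) (P.cons (P.lf 0 708651 0) (P.cons (P.lf 0 26673 0) P.nil)))))) 4788)
 (EL.cons 1 (TM.mk (P.cons (P.lf 450679505 0 0) (P.cons (P.lf 0 439849933 0) (P.cons (P.lf 0 16100088 0) (P.cons (P.lf 5127871 0 0) (P.cons (P.lf 176304 0 0) (P.cons (P.lf 0 32482 0) P.nil)))))) 1651)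
 (EL.cons 5 (TM.mk (P.cons (P.lf 2113310914 0 0) (P.cons (P.lf 67799490 0 0) (P.cons (P.lf 0 32814348 0) (P.cons (P.lf 0 1072376 0) (P.cons (P.lf 251962 0 0) (P.cons (P.lf 9484 0 0) P.nil)))))) 1830)
 EL.nil)))
noncomputable def S227_256_401_438_4 : EL := (EL.cons 0 (TM.mk (P.cons (P.cons (P.lf 32470739 0 0) (P.cons (P.lf 0 4587343 0) (P.cons (P.lf 0 99587 0) (P.lf 6637 0 0)))) (P.cons (P.cons (P.lf 0 70536800 0) (P.cons (P.lf 8880639 0 0) (P.cons (P.lf 192793 0 0) (P.lf 0 12851 0)))) (P.cons (P.cons (P.lf 41895288 0 0) (P.cons (P.lf 0 3861931 0) (P.cons (P.lf 0 83840 0) (P.lf 5588 0 0)))) (P.cons (P.cons (P.lf 0 1809416 0) (P.cons (P.lf 0 559191 0) (P.cons (P.lf 0 12139 0) P.nil))) (P.cons (P.cons (P.lf 0 2234202 0) (P.cons (P.lf 116252 0 0) P.nil)) (P.cons (P.cons (P.lf 171210 0 0) P.nil) P.nil)))))) 75072)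
 (EL.cons 1 (TM.mk (P.cons (P.cons (P.lf 152260685 0 0) (P.cons (P.lf 0 21510813 0) (P.cons (P.lf 0 466985 0) (P.lf 31130 0 0)))) (P.cons (P.cons (P.lf 0 177271957 0) (P.cons (P.lf 19958754 0 0) (P.cons (P.lf 433291 0 0) (P.lf 0 28884 0)))) (P.cons (P.cons (P.lf 15905443 0 0) (P.cons (P.lf 2271455 0 0) (P.cons (P.lf 49310 0 0) (P.lf 0 3285 0)))) (P.cons (P.cons (P.lf 10334518 0 0) (P.cons (P.lf 0 664186 0) (P.cons (P.lf 0 14416 0) P.nil))) (P.cons (P.cons (P.lf 0 1001347 0) (P.cons (P.lf 0 67252 0) P.nil)) (P.cons (P.cons (P.lf 0 248715 0) P.nil) P.nil)))))) 54435)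
 (EL.cons 5 (TM.mk (P.cons (P.cons (P.lf 713975604 0 0) (P.cons (P.lf 0 100867782 0) (P.cons (P.lf 0 2189784 0) (P.lf 145982 0 0)))) (P.cons (P.cons (P.lf 0 111532574 0) (P.cons (P.lf 0 8090128 0) (P.cons (P.lf 0 175630 0) (P.lf 11706 0 0)))) (P.cons (P.cons (P.lf 0 46517886 0) (P.cons (P.lf 3720886 0 0) (P.cons (P.lf 80774 0 0) (P.lf 0 5382 0)))) (P.cons (P.cons (P.lf 5889920 0 0) (P.cons (P.lf 315344 0 0) (P.cons (P.lf 6842 0 0) P.nil))) (P.cons (P.cons (P.lf 1284364 0 0) (P.cons (P.lf 0 67988 0) P.nil)) (P.cons (P.cons (P.lf 0 114836 0) P.nil) P.nil)))))) 34880)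
 EL.nil)))
noncomputable def S227_256_401_438_5 : EL := (EL.cons 0 (TM.mk (P.cons (P.cons (P.lf 10970138 0 0) (P.cons (P.lf 0 3099638 0) (P.cons (P.lf 151660 0 0) (P.cons (P.lf 13992 0 0) (P.cons (P.lf 0 529 0) (P.cons (P.lf 0 12 0) P.nil)))))) (P.cons (P.cons (P.lf 0 25896269 0) (P.cons (P.lf 6584241 0 0) (P.cons (P.lf 0 270391 0) (P.cons (P.lf 0 27474 0) (P.cons (P.lf 1000 0 0) P.nil))))) (P.cons (P.cons (P.lf 18163263 0 0) (P.cons (P.lf 0 3604271 0) (P.cons (P.lf 80667 0 0) (P.cons (P.lf 12114 0 0) P.nil)))) (P.cons (P.cons (P.lf 0 2158490 0) (P.cons (P.lf 0 170437 0) (P.cons (P.lf 41319 0 0) P.nil))) (P.cons (P.cons (P.lf 0 1421542 0) (P.cons (P.lf 304730 0 0) P.nil)) (P.cons (P.cons (P.lf 312060 0 0) P.nil) P.nil)))))) 152543)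
 (EL.cons 1 (TM.mk (P.cons (P.cons (P.lf 51440805 0 0) (P.cons (P.lf 0 14534724 0) (P.cons (P.lf 711163 0 0) (P.cons (P.lf 65613 0 0) (P.cons (P.lf 0 2486 0) (P.cons (P.lf 0 63 0) P.nil)))))) (P.cons (P.cons (P.lf 0 69576860 0) (P.cons (P.lf 16222831 0 0) (P.cons (P.lf 0 551026 0) (P.cons (P.lf 0 62694 0) (P.cons (P.lf 2188 0 0) P.nil))))) (P.cons (P.cons (P.lf 14408728 0 0) (P.cons (P.lf 0 371049 0) (P.cons (P.lf 0 185831 0) (P.cons (P.lf 0 7179 0) P.nil)))) (P.cons (P.cons (P.lf 5461987 0 0) (P.cons (P.lf 0 1430679 0) (P.cons (P.lf 16076 0 0) P.nil))) (P.cons (P.cons (P.lf 0 1628296 0) (P.cons (P.lf 59872 0 0) P.nil)) (P.cons (P.cons (P.lf 0 177916 0) P.nil) P.nil)))))) 190073)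
 (EL.cons 5 (TM.mk (P.cons (P.cons (P.lf 241214464 0 0) (P.cons (P.lf 0 68155740 0) (P.cons (P.lf 3334768 0 0) (P.cons (P.lf 307674 0 0) (P.cons (P.lf 0 11666 0) (P.cons (P.lf 0 300 0) P.nil)))))) (P.cons (P.cons (P.lf 0 83100546 0) (P.cons (P.lf 7366970 0 0) (P.cons (P.lf 777754 0 0) (P.cons (P.lf 16162 0 0) (P.cons (P.lf 0 1496 0) P.nil))))) (P.cons (P.cons (P.lf 0 19134092 0) (P.cons (P.lf 6514052 0 0) (P.cons (P.lf 0 127872 0) (P.cons (P.lf 0 21116 0) P.nil)))) (P.cons (P.cons (P.lf 8335782 0 0) (P.cons (P.lf 0 514940 0) (P.cons (P.lf 0 49094 0) P.nil))) (P.cons (P.cons (P.lf 634624 0 0) (P.cons (P.lf 0 281200 0) P.nil)) (P.cons (P.cons (P.lf 0 364268 0) P.nil) P.nil)))))) 139470)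
 EL.nil)))
noncomputable def S227_256_401_438_6 : EL := (EL.cons 12 (TM.mk (P.lf 8589934592 0 0) 0)
 (EL.cons 3 (TM.mk (P.cons (P.lf 0 454308690 0) (P.cons (P.lf 450679503 0 0) (P.cons (P.lf 5414782 0 0) (P.cons (P.lf 0 1756837 0) (P.cons (P.lf 0 35658 0) (P.cons (P.lf 6731 0 0) P.nil)))))) 269)
 (EL.cons 7 (TM.mk (P.cons (P.lf 0 2130328762 0) (P.cons (P.lf 0 34172730 0) (P.cons (P.lf 16813380 0 0) (P.cons (P.lf 270802 0 0) (P.cons (P.lf 0 64991 0) (P.cons (P.lf 0 1601 0) P.nil)))))) 330)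
 EL.nil)))
noncomputable def S227_256_401_438_7 : EL := (EL.cons 12 (TM.mk (P.cons (P.cons (P.lf 2902083032 0 0) (P.cons (P.lf 0 409995360 0) (P.cons (P.lf 0 8900776 0) (P.lf 593376 0 0)))) (P.cons (P.cons (P.lf 0 546449302 0) (P.cons (P.lf 0 19730272 0) (P.cons (P.lf 0 428328 0) (P.lf 28552 0 0)))) (P.cons (P.cons (P.lf 0 126487144 0) (P.cons (P.lf 9391024 0 0) (P.cons (P.lf 203864 0 0) (P.lf 0 13584 0)))) (P.cons (P.cons (P.lf 20986288 0 0) (P.cons (P.lf 466088 0 0) (P.cons (P.lf 10112 0 0) P.nil))) (P.cons (P.cons (P.lf 1959936 0 0) (P.cons (P.lf 0 106616 0) P.nil)) (P.cons (P.cons (P.lf 0 215854 0) P.nil) P.nil)))))) 34302)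
 (EL.cons 3 (TM.mk (P.cons (P.cons (P.lf 0 1955168217 0) (P.cons (P.lf 0 43368070 0) (P.cons (P.lf 0 941494 0) (P.lf 62762 0 0)))) (P.cons (P.cons (P.lf 0 667420846 0) (P.cons (P.lf 40934622 0 0) (P.cons (P.lf 888666 0 0) (P.lf 0 59242 0)))) (P.cons (P.cons (P.lf 187966431 0 0) (P.cons (P.lf 3580582 0 0) (P.cons (P.lf 77730 0 0) (P.lf 0 5180 0)))) (P.cons (P.cons (P.lf 22194124 0 0) (P.cons (P.lf 0 1078948 0) (P.cons (P.lf 0 23422 0) P.nil))) (P.cons (P.cons (P.lf 0 3168616 0) (P.cons (P.lf 0 83496 0) P.nil)) (P.cons (P.cons (P.lf 0 358449 0) P.nil) P.nil)))))) 138132)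
 (EL.cons 7 (TM.mk (P.cons (P.cons (P.lf 0 583112715 0) (P.cons (P.lf 106612617 0 0) (P.cons (P.lf 2314503 0 0) (P.lf 0 154304 0)))) (P.cons (P.cons (P.lf 50607126 0 0) (P.cons (P.lf 0 3103860 0) (P.cons (P.lf 0 67381 0) (P.lf 4491 0 0)))) (P.cons (P.cons (P.lf 0 39759854 0) (P.cons (P.lf 1292930 0 0) (P.cons (P.lf 28065 0 0) (P.lf 0 1869 0)))) (P.cons (P.cons (P.lf 8100193 0 0) (P.cons (P.lf 251698 0 0) (P.cons (P.lf 5460 0 0) P.nil))) (P.cons (P.cons (P.lf 1373437 0 0) (P.cons (P.lf 0 53942 0) P.nil)) (P.cons (P.cons (P.lf 0 154308 0) P.nil) P.nil)))))) 81187)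
 (EL.cons 10 (TM.mk (P.cons (P.cons (P.lf 0 2812900545 0) (P.cons (P.lf 0 140800077 0) (P.cons (P.lf 13269507 0 0) (P.cons (P.lf 162099 0 0) (P.lf 0 8103 0))))) (P.cons (P.cons (P.lf 0 90243807 0) (P.cons (P.lf 0 4517163 0) (P.cons (P.lf 425712 0 0) (P.cons (P.lf 5199 0 0) (P.lf 0 258 0))))) (P.cons (P.cons (P.lf 43677195 0 0) (P.cons (P.lf 2186265 0 0) (P.cons (P.lf 0 206040 0) (P.cons (P.lf 0 2514 0) P.nil)))) (P.cons (P.cons (P.lf 1427373 0 0) (P.cons (P.lf 71445 0 0) (P.cons (P.lf 0 6732 0) P.nil))) (P.cons (P.cons (P.lf 0 335370 0) (P.cons (P.lf 0 16785 0) P.nil)) (P.cons (P.cons (P.lf 0 12621 0) P.nil) P.nil)))))) 5187)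
 EL.nil))))
noncomputable def S227_256_401_438_8 : EL := (EL.cons 12 (TM.mk (P.cons (P.cons (P.lf 980459842 0 0) (P.cons (P.lf 0 277031346 0) (P.cons (P.lf 13554772 0 0) (P.cons (P.lf 1250604 0 0) (P.cons (P.lf 0 47420 0) (P.cons (P.lf 0 1228 0) P.nil)))))) (P.cons (P.cons (P.lf 0 369232438 0) (P.cons (P.lf 38832144 0 0) (P.cons (P.lf 2726468 0 0) (P.cons (P.lf 25572 0 0) (P.cons (P.lf 0 4562 0) P.nil))))) (P.cons (P.cons (P.lf 0 50704174 0) (P.cons (P.lf 20930140 0 0) (P.cons (P.lf 0 396768 0) (P.cons (P.lf 0 67240 0) P.nil)))) (P.cons (P.cons (P.lf 30273282 0 0) (P.cons (P.lf 0 2302170 0) (P.cons (P.lf 0 137614 0) P.nil))) (P.cons (P.cons (P.lf 516756 0 0) (P.cons (P.lf 0 691408 0) P.nil)) (P.cons (P.cons (P.lf 0 1013262 0) P.nil) P.nil)))))) 355766)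
 (EL.cons 3 (TM.mk (P.cons (P.cons (P.lf 0 1269240114 0) (P.cons (P.lf 142684035 0 0) (P.cons (P.lf 8272459 0 0) (P.cons (P.lf 18176 0 0) (P.cons (P.lf 0 12535 0) (P.cons (P.lf 0 326 0) P.nil)))))) (P.cons (P.cons (P.lf 0 273184784 0) (P.cons (P.lf 122458818 0 0) (P.cons (P.lf 0 1976957 0) (P.cons (P.lf 0 378492 0) (P.cons (P.lf 11230 0 0) P.nil))))) (P.cons (P.cons (P.lf 285576113 0 0) (P.cons (P.lf 0 21419501 0) (P.cons (P.lf 0 1245843 0) (P.cons (P.lf 0 2901 0) P.nil)))) (P.cons (P.cons (P.lf 5878223 0 0) (P.cons (P.lf 0 8556672 0) (P.cons (P.lf 28422 0 0) P.nil))) (P.cons (P.cons (P.lf 0 16254264 0) (P.cons (P.lf 821068 0 0) P.nil)) (P.cons (P.cons (P.lf 107013 0 0) P.nil) P.nil)))))) 1291923)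
 (EL.cons 7 (TM.mk (P.cons (P.cons (P.lf 0 150848794 0) (P.cons (P.lf 58996555 0 0) (P.cons (P.lf 0 4043234 0) (P.cons (P.lf 0 316549 0) (P.cons (P.lf 12900 0 0) (P.cons (P.lf 328 0 0) P.nil)))))) (P.cons (P.cons (P.lf 20714214 0 0) (P.cons (P.lf 0 9285422 0) (P.cons (P.lf 149901 0 0) (P.cons (P.lf 28697 0 0) (P.cons (P.lf 0 852 0) P.nil))))) (P.cons (P.cons (P.lf 0 32094286 0) (P.cons (P.lf 6304227 0 0) (P.cons (P.lf 18912 0 0) (P.cons (P.lf 0 14243 0) P.nil)))) (P.cons (P.cons (P.lf 14190235 0 0) (P.cons (P.lf 0 480251 0) (P.cons (P.lf 0 65035 0) P.nil))) (P.cons (P.cons (P.lf 1416444 0 0) (P.cons (P.lf 0 533267 0) P.nil)) (P.cons (P.cons (P.lf 0 968935 0) P.nil) P.nil)))))) 606668)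
 (EL.cons 10 (TM.mk (P.cons (P.cons (P.lf 0 1900659624 0) (P.cons (P.lf 173380284 0 0) (P.cons (P.lf 28236204 0 0) (P.cons (P.lf 0 1254000 0) (P.cons (P.lf 0 67896 0) (P.cons (P.lf 2268 0 0) P.nil)))))) (P.cons (P.cons (P.lf 296908548 0 0) (P.cons (P.lf 36398352 0 0) (P.cons (P.lf 144924 0 0) (P.cons (P.lf 0 126468 0) (P.cons (P.lf 0 4146 0) P.nil))))) (P.cons (P.cons (P.lf 123834294 0 0) (P.cons (P.lf 0 3706758 0) (P.cons (P.lf 0 1295010 0) (P.cons (P.lf 43158 0 0) P.nil)))) (P.cons (P.cons (P.lf 0 15679434 0) (P.cons (P.lf 0 1624308 0) (P.cons (P.lf 13722 0 0) P.nil))) (P.cons (P.cons (P.lf 0 3419082 0) (P.cons (P.lf 9846 0 0) P.nil)) (P.cons (P.cons (P.lf 305706 0 0) P.nil) P.nil)))))) 163146)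
 EL.nil))))
noncomputable def S227_256_401_438_9 : EL := (EL.cons 3 (TM.mk (P.cons (P.lf 0 454308690 0) (P.cons (P.lf 450679503 0 0) (P.cons (P.lf 5414782 0 0) (P.cons (P.lf 0 1756837 0) (P.cons (P.lf 0 35658 0) (P.cons (P.lf 6731 0 0) P.nil)))))) 269)
 (EL.cons 7 (TM.mk (P.cons (P.lf 0 2130328762 0) (P.cons (P.lf 0 34172730 0) (P.cons (P.lf 16813380 0 0) (P.cons (P.lf 270802 0 0) (P.cons (P.lf 0 64991 0) (P.cons (P.lf 0 1601 0) P.nil)))))) 330)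
 EL.nil))
noncomputable def S227_256_401_438_10 : EL := (EL.cons 3 (TM.mk (P.cons (P.cons (P.lf 0 153486795 0) (P.cons (P.lf 21684035 0 0) (P.cons (P.lf 470747 0 0) (P.lf 0 31381 0)))) (P.cons (P.cons (P.lf 181161566 0 0) (P.cons (P.lf 0 20467311 0) (P.cons (P.lf 0 444333 0) (P.lf 29621 0 0)))) (P.cons (P.cons (P.lf 0 20150925 0) (P.cons (P.lf 0 1790291 0) (P.cons (P.lf 0 38865 0) (P.lf 2590 0 0)))) (P.cons (P.cons (P.lf 0 8684210 0) (P.cons (P.lf 539474 0 0) (P.cons (P.lf 11711 0 0) P.nil))) (P.cons (P.cons (P.lf 1017389 0 0) (P.cons (P.lf 41748 0 0) P.nil)) (P.cons (P.cons (P.lf 157887 0 0) P.nil) P.nil)))))) 32579)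
 (EL.cons 7 (TM.mk (P.cons (P.cons (P.lf 0 719725032 0) (P.cons (P.lf 101680041 0 0) (P.cons (P.lf 2207418 0 0) (P.lf 0 147158 0)))) (P.cons (P.cons (P.lf 123975864 0 0) (P.cons (P.lf 6524220 0 0) (P.cons (P.lf 141635 0 0) (P.lf 0 9441 0)))) (P.cons (P.cons (P.lf 39223429 0 0) (P.cons (P.lf 0 3053008 0) (P.cons (P.lf 0 66276 0) (P.lf 4416 0 0)))) (P.cons (P.cons (P.lf 0 5679560 0) (P.cons (P.lf 0 204494 0) (P.cons (P.lf 0 4437 0) P.nil))) (P.cons (P.cons (P.lf 0 856319 0) (P.cons (P.lf 45448 0 0) P.nil)) (P.cons (P.cons (P.lf 86418 0 0) P.nil) P.nil)))))) 18876)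
 EL.nil))
noncomputable def S227_256_401_438_11 : EL := (EL.cons 3 (TM.mk (P.cons (P.cons (P.lf 0 51855042 0) (P.cons (P.lf 14651769 0 0) (P.cons (P.lf 0 716891 0) (P.cons (P.lf 0 66142 0) (P.cons (P.lf 2507 0 0) (P.cons (P.lf 64 0 0) P.nil)))))) (P.cons (P.cons (P.lf 70968952 0 0) (P.cons (P.lf 0 16588500 0) (P.cons (P.lf 566965 0 0) (P.cons (P.lf 64260 0 0) (P.cons (P.lf 0 2246 0) P.nil))))) (P.cons (P.cons (P.lf 0 16072435 0) (P.cons (P.lf 755773 0 0) (P.cons (P.lf 172575 0 0) (P.cons (P.lf 5685 0 0) P.nil)))) (P.cons (P.cons (P.lf 0 4694629 0) (P.cons (P.lf 1301016 0 0) (P.cons (P.lf 0 14592 0) P.nil))) (P.cons (P.cons (P.lf 1600470 0 0) (P.cons (P.lf 0 77816 0) P.nil)) (P.cons (P.cons (P.lf 112455 0 0) P.nil) P.nil)))))) 155309)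
 (EL.cons 7 (TM.mk (P.cons (P.cons (P.lf 0 243156892 0) (P.cons (P.lf 68704579 0 0) (P.cons (P.lf 0 3361622 0) (P.cons (P.lf 0 310153 0) (P.cons (P.lf 11760 0 0) (P.cons (P.lf 304 0 0) P.nil)))))) (P.cons (P.cons (P.lf 87670224 0 0) (P.cons (P.lf 0 8528390 0) (P.cons (P.lf 0 730095 0) (P.cons (P.lf 0 11317 0) (P.cons (P.lf 1320 0 0) P.nil))))) (P.cons (P.cons (P.lf 15962762 0 0) (P.cons (P.lf 0 5887461 0) (P.cons (P.lf 114084 0 0) (P.cons (P.lf 19021 0 0) P.nil)))) (P.cons (P.cons (P.lf 0 7997951 0) (P.cons (P.lf 554953 0 0) (P.cons (P.lf 41471 0 0) P.nil))) (P.cons (P.cons (P.lf 0 366894 0) (P.cons (P.lf 224917 0 0) P.nil)) (P.cons (P.cons (P.lf 309503 0 0) P.nil) P.nil)))))) 111544)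
 EL.nil))
noncomputable def S227_256_401_438_12 : EL := (EL.cons 4 (TM.mk (P.cons (P.lf 454308690 0 0) (P.cons (P.lf 0 450679503 0) (P.cons (P.lf 0 5414782 0) (P.cons (P.lf 1756837 0 0) (P.cons (P.lf 35658 0 0) (P.cons (P.lf 0 6731 0) P.nil)))))) 269)
 (EL.cons 8 (TM.mk (P.cons (P.lf 2130328762 0 0) (P.cons (P.lf 34172730 0 0) (P.cons (P.lf 0 16813380 0) (P.cons (P.lf 0 270802 0) (P.cons (P.lf 64991 0 0) (P.cons (P.lf 1601 0 0) P.nil)))))) 330)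
 EL.nil))
noncomputable def S227_256_401_438_13 : EL := (EL.cons 4 (TM.mk (P.cons (P.cons (P.lf 153486795 0 0) (P.cons (P.lf 0 21684035 0) (P.cons (P.lf 0 470747 0) (P.lf 31381 0 0)))) (P.cons (P.cons (P.lf 0 181161566 0) (P.cons (P.lf 20467311 0 0) (P.cons (P.lf 444333 0 0) (P.lf 0 29621 0)))) (P.cons (P.cons (P.lf 20150925 0 0) (P.cons (P.lf 1790291 0 0) (P.cons (P.lf 38865 0 0) (P.lf 0 2590 0)))) (P.cons (P.cons (P.lf 8684210 0 0) (P.cons (P.lf 0 539474 0) (P.cons (P.lf 0 11711 0) P.nil))) (P.cons (P.cons (P.lf 0 1017389 0) (P.cons (P.lf 0 41748 0) P.nil)) (P.cons (P.cons (P.lf 0 157887 0) P.nil) P.nil)))))) 32579)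
 (EL.cons 8 (TM.mk (P.cons (P.cons (P.lf 719725032 0 0) (P.cons (P.lf 0 101680041 0) (P.cons (P.lf 0 2207418 0) (P.lf 147158 0 0)))) (P.cons (P.cons (P.lf 0 123975864 0) (P.cons (P.lf 0 6524220 0) (P.cons (P.lf 0 141635 0) (P.lf 9441 0 0)))) (P.cons (P.cons (P.lf 0 39223429 0) (P.cons (P.lf 3053008 0 0) (P.cons (P.lf 66276 0 0) (P.lf 0 4416 0)))) (P.cons (P.cons (P.lf 5679560 0 0) (P.cons (P.lf 204494 0 0) (P.cons (P.lf 4437 0 0) P.nil))) (P.cons (P.cons (P.lf 856319 0 0) (P.cons (P.lf 0 45448 0) P.nil)) (P.cons (P.cons (P.lf 0 86418 0) P.nil) P.nil)))))) 18876)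
 EL.nil))
noncomputable def S227_256_401_438_14 : EL := (EL.cons 4 (TM.mk (P.cons (P.cons (P.lf 51855042 0 0) (P.cons (P.lf 0 14651769 0) (P.cons (P.lf 716891 0 0) (P.cons (P.lf 66142 0 0) (P.cons (P.lf 0 2507 0) (P.cons (P.lf 0 64 0) P.nil)))))) (P.cons (P.cons (P.lf 0 70968952 0) (P.cons (P.lf 16588500 0 0) (P.cons (P.lf 0 566965 0) (P.cons (P.lf 0 64260 0) (P.cons (P.lf 2246 0 0) P.nil))))) (P.cons (P.cons (P.lf 16072435 0 0) (P.cons (P.lf 0 755773 0) (P.cons (P.lf 0 172575 0) (P.cons (P.lf 0 5685 0) P.nil)))) (P.cons (P.cons (P.lf 4694629 0 0) (P.cons (P.lf 0 1301016 0) (P.cons (P.lf 14592 0 0) P.nil))) (P.cons (P.cons (P.lf 0 1600470 0) (P.cons (P.lf 77816 0 0) P.nil)) (P.cons (P.cons (P.lf 0 112455 0) P.nil) P.nil)))))) 155309)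
 (EL.cons 8 (TM.mk (P.cons (P.cons (P.lf 243156892 0 0) (P.cons (P.lf 0 68704579 0) (P.cons (P.lf 3361622 0 0) (P.cons (P.lf 310153 0 0) (P.cons (P.lf 0 11760 0) (P.cons (P.lf 0 304 0) P.nil)))))) (P.cons (P.cons (P.lf 0 87670224 0) (P.cons (P.lf 8528390 0 0) (P.cons (P.lf 730095 0 0) (P.cons (P.lf 11317 0 0) (P.cons (P.lf 0 1320 0) P.nil))))) (P.cons (P.cons (P.lf 0 15962762 0) (P.cons (P.lf 5887461 0 0) (P.cons (P.lf 0 114084 0) (P.cons (P.lf 0 19021 0) P.nil)))) (P.cons (P.cons (P.lf 7997951 0 0) (P.cons (P.lf 0 554953 0) (P.cons (P.lf 0 41471 0) P.nil))) (P.cons (P.cons (P.lf 366894 0 0) (P.cons (P.lf 0 224917 0) P.nil)) (P.cons (P.cons (P.lf 0 309503 0) P.nil) P.nil)))))) 111544)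
 EL.nil))
noncomputable def S227_256_401_438_15 : EL := (EL.cons 4 (TM.mk (P.cons (P.lf 0 51259096 0) (P.cons (P.lf 101699239 0 0) (P.cons (P.lf 0 49221527 0) (P.cons (P.lf 0 1608569 0) (P.cons (P.lf 377947 0 0) (P.cons (P.lf 14225 0 0) P.nil)))))) 2557)
 (EL.cons 8 (TM.mk (P.cons (P.lf 0 240362403 0) (P.cons (P.lf 234586631 0 0) (P.cons (P.lf 8586714 0 0) (P.cons (P.lf 0 2734865 0) (P.cons (P.lf 0 94029 0) (P.cons (P.lf 17324 0 0) P.nil)))))) 877)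
 EL.nil))
noncomputable def S227_256_401_438_16 : EL := (EL.cons 4 (TM.mk (P.cons (P.cons (P.lf 0 17317727 0) (P.cons (P.lf 2446583 0 0) (P.cons (P.lf 53113 0 0) (P.lf 0 3540 0)))) (P.cons (P.cons (P.lf 37619626 0 0) (P.cons (P.lf 0 4736340 0) (P.cons (P.lf 0 102823 0) (P.lf 6854 0 0)))) (P.cons (P.cons (P.lf 0 22344153 0) (P.cons (P.lf 2059696 0 0) (P.cons (P.lf 44715 0 0) (P.lf 0 2980 0)))) (P.cons (P.cons (P.lf 965022 0 0) (P.cons (P.lf 298235 0 0) (P.cons (P.lf 6474 0 0) P.nil))) (P.cons (P.cons (P.lf 1191574 0 0) (P.cons (P.lf 0 62001 0) P.nil)) (P.cons (P.cons (P.lf 0 91312 0) P.nil) P.nil)))))) 40047)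
 (EL.cons 8 (TM.mk (P.cons (P.cons (P.lf 0 81205699 0) (P.cons (P.lf 11472434 0 0) (P.cons (P.lf 249059 0 0) (P.lf 0 16603 0)))) (P.cons (P.cons (P.lf 94545044 0 0) (P.cons (P.lf 0 10644669 0) (P.cons (P.lf 0 231089 0) (P.lf 15405 0 0)))) (P.cons (P.cons (P.lf 0 8482903 0) (P.cons (P.lf 0 1211443 0) (P.cons (P.lf 0 26299 0) (P.lf 1752 0 0)))) (P.cons (P.cons (P.lf 0 5511743 0) (P.cons (P.lf 354233 0 0) (P.cons (P.lf 7689 0 0) P.nil))) (P.cons (P.cons (P.lf 534052 0 0) (P.cons (P.lf 35868 0 0) P.nil)) (P.cons (P.cons (P.lf 132648 0 0) P.nil) P.nil)))))) 29022)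
 EL.nil))
noncomputable def S227_256_401_438_17 : EL := (EL.cons 4 (TM.mk (P.cons (P.cons (P.lf 0 5850740 0) (P.cons (P.lf 1653140 0 0) (P.cons (P.lf 0 80885 0) (P.cons (P.lf 0 7462 0) (P.cons (P.lf 282 0 0) (P.cons (P.lf 6 0 0) P.nil)))))) (P.cons (P.cons (P.lf 13811343 0 0) (P.cons (P.lf 0 3511595 0) (P.cons (P.lf 144209 0 0) (P.cons (P.lf 14653 0 0) (P.cons (P.lf 0 533 0) P.nil))))) (P.cons (P.cons (P.lf 0 9687074 0) (P.cons (P.lf 1922278 0 0) (P.cons (P.lf 0 43022 0) (P.cons (P.lf 0 6461 0) P.nil)))) (P.cons (P.cons (P.lf 1151194 0 0) (P.cons (P.lf 90900 0 0) (P.cons (P.lf 0 22036 0) P.nil))) (P.cons (P.cons (P.lf 758156 0 0) (P.cons (P.lf 0 162523 0) P.nil)) (P.cons (P.cons (P.lf 0 166432 0) P.nil) P.nil)))))) 81367)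
 (EL.cons 8 (TM.mk (P.cons (P.cons (P.lf 0 27435096 0) (P.cons (P.lf 7751853 0 0) (P.cons (P.lf 0 379287 0) (P.cons (P.lf 0 34994 0) (P.cons (P.lf 1326 0 0) (P.cons (P.lf 34 0 0) P.nil)))))) (P.cons (P.cons (P.lf 37107659 0 0) (P.cons (P.lf 0 8652177 0) (P.cons (P.lf 293881 0 0) (P.cons (P.lf 33437 0 0) (P.cons (P.lf 0 1167 0) P.nil))))) (P.cons (P.cons (P.lf 0 7684655 0) (P.cons (P.lf 197893 0 0) (P.cons (P.lf 99110 0 0) (P.cons (P.lf 3829 0 0) P.nil)))) (P.cons (P.cons (P.lf 0 2913060 0) (P.cons (P.lf 763029 0 0) (P.cons (P.lf 0 8574 0) P.nil))) (P.cons (P.cons (P.lf 868425 0 0) (P.cons (P.lf 0 31932 0) P.nil)) (P.cons (P.cons (P.lf 94889 0 0) P.nil) P.nil)))))) 101361)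
 EL.nil))
noncomputable def S227_256_401_438_18 : EL := (EL.cons 4 (TM.mk (P.cons (P.lf 5783501 0 0) (P.cons (P.lf 0 17211901 0) (P.cons (P.lf 16867610 0 0) (P.cons (P.lf 0 5168619 0) (P.cons (P.lf 0 332796 0) (P.cons (P.lf 59024 0 0) P.nil)))))) 4306)
 (EL.cons 8 (TM.mk (P.cons (P.lf 27119797 0 0) (P.cons (P.lf 0 53371278 0) (P.cons (P.lf 24964624 0 0) (P.cons (P.lf 1690000 0 0) (P.cons (P.lf 0 384174 0) (P.cons (P.lf 0 22382 0) P.nil)))))) 4185)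
 EL.nil))
noncomputable def S227_256_401_438_19 : EL := (EL.cons 4 (TM.mk (P.cons (P.cons (P.lf 1953937 0 0) (P.cons (P.lf 0 276045 0) (P.cons (P.lf 0 5992 0) (P.lf 399 0 0)))) (P.cons (P.cons (P.lf 0 6182905 0) (P.cons (P.lf 808234 0 0) (P.cons (P.lf 17546 0 0) (P.lf 0 1169 0)))) (P.cons (P.cons (P.lf 6708444 0 0) (P.cons (P.lf 0 759229 0) (P.cons (P.lf 0 16482 0) (P.lf 1098 0 0)))) (P.cons (P.cons (P.lf 0 2551660 0) (P.cons (P.lf 189450 0 0) (P.cons (P.lf 4112 0 0) P.nil))) (P.cons (P.cons (P.lf 0 72739 0) (P.cons (P.lf 45190 0 0) P.nil)) (P.cons (P.cons (P.lf 154356 0 0) P.nil) P.nil)))))) 44755)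
 (EL.cons 8 (TM.mk (P.cons (P.cons (P.lf 9162339 0 0) (P.cons (P.lf 0 1294420 0) (P.cons (P.lf 0 28100 0) (P.lf 1872 0 0)))) (P.cons (P.cons (P.lf 0 19756550 0) (P.cons (P.lf 2485105 0 0) (P.cons (P.lf 53950 0 0) (P.lf 0 3596 0)))) (P.cons (P.cons (P.lf 11430099 0 0) (P.cons (P.lf 0 1039316 0) (P.cons (P.lf 0 22563 0) (P.lf 1503 0 0)))) (P.cons (P.cons (P.lf 0 165013 0) (P.cons (P.lf 0 194881 0) (P.cons (P.lf 0 4230 0) P.nil))) (P.cons (P.cons (P.lf 0 729111 0) (P.cons (P.lf 38514 0 0) P.nil)) (P.cons (P.cons (P.lf 40124 0 0) P.nil) P.nil)))))) 31081)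
 EL.nil))
noncomputable def S227_256_401_438_20 : EL := (EL.cons 4 (TM.mk (P.cons (P.cons (P.lf 660131 0 0) (P.cons (P.lf 0 186521 0) (P.cons (P.lf 9125 0 0) (P.cons (P.lf 841 0 0) (P.cons (P.lf 0 31 0) (P.cons (P.lf 0 0 0) P.nil)))))) (P.cons (P.cons (P.lf 0 2213175 0) (P.cons (P.lf 581240 0 0) (P.cons (P.lf 0 25323 0) (P.cons (P.lf 0 2488 0) (P.cons (P.lf 91 0 0) P.nil))))) (P.cons (P.cons (P.lf 2630981 0 0) (P.cons (P.lf 0 607709 0) (P.cons (P.lf 20886 0 0) (P.cons (P.lf 2358 0 0) P.nil)))) (P.cons (P.cons (P.lf 0 1193010 0) (P.cons (P.lf 199455 0 0) (P.cons (P.lf 0 2099 0) P.nil))) (P.cons (P.cons (P.lf 24306 0 0) (P.cons (P.lf 32613 0 0) P.nil)) (P.cons (P.cons (P.lf 109278 0 0) P.nil) P.nil)))))) 65107)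
 (EL.cons 8 (TM.mk (P.cons (P.cons (P.lf 3095468 0 0) (P.cons (P.lf 0 874631 0) (P.cons (P.lf 42794 0 0) (P.cons (P.lf 3948 0 0) (P.cons (P.lf 0 149 0) (P.cons (P.lf 0 3 0) P.nil)))))) (P.cons (P.cons (P.lf 0 7257552 0) (P.cons (P.lf 1843859 0 0) (P.cons (P.lf 0 75610 0) (P.cons (P.lf 0 7689 0) (P.cons (P.lf 279 0 0) P.nil))))) (P.cons (P.cons (P.lf 4983522 0 0) (P.cons (P.lf 0 980319 0) (P.cons (P.lf 21200 0 0) (P.cons (P.lf 3262 0 0) P.nil)))) (P.cons (P.cons (P.lf 0 469574 0) (P.cons (P.lf 0 78958 0) (P.cons (P.lf 12620 0 0) P.nil))) (P.cons (P.cons (P.lf 0 450316 0) (P.cons (P.lf 92979 0 0) P.nil)) (P.cons (P.cons (P.lf 85555 0 0) P.nil) P.nil)))))) 53021)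
 EL.nil))
noncomputable def S227_256_401_438_21 : EL := (EL.cons 4 (TM.mk (P.cons (P.cons (P.lf 1801681422 0 0) (P.cons (P.lf 65052105 0 0) (P.cons (P.lf 1412241 0 0) (P.lf 0 94143 0)))) (P.cons (P.cons (P.lf 848582412 0 0) (P.cons (P.lf 0 61401933 0) (P.cons (P.lf 0 1332999 0) (P.lf 88863 0 0)))) (P.cons (P.cons (P.lf 0 208117356 0) (P.cons (P.lf 0 5370873 0) (P.cons (P.lf 0 116595 0) (P.lf 7770 0 0)))) (P.cons (P.cons (P.lf 0 30878334 0) (P.cons (P.lf 1618422 0 0) (P.cons (P.lf 35133 0 0) P.nil))) (P.cons (P.cons (P.lf 4186005 0 0) (P.cons (P.lf 125244 0 0) P.nil)) (P.cons (P.cons (P.lf 516336 0 0) P.nil) P.nil)))))) 105534)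
 (EL.cons 8 (TM.mk (P.cons (P.cons (P.lf 0 136612317 0) (P.cons (P.lf 0 4932576 0) (P.cons (P.lf 0 107085 0) (P.lf 7146 0 0)))) (P.cons (P.cons (P.lf 73368738 0 0) (P.cons (P.lf 9628080 0 0) (P.cons (P.lf 209016 0 0) (P.lf 0 13932 0)))) (P.cons (P.cons (P.lf 78983283 0 0) (P.cons (P.lf 0 4345938 0) (P.cons (P.lf 0 94341 0) (P.lf 6285 0 0)))) (P.cons (P.cons (P.lf 0 13779753 0) (P.cons (P.lf 0 456192 0) (P.cons (P.lf 0 9897 0) P.nil))) (P.cons (P.cons (P.lf 0 2229756 0) (P.cons (P.lf 99390 0 0) P.nil)) (P.cons (P.cons (P.lf 240726 0 0) P.nil) P.nil)))))) 62292)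
 (EL.cons 11 (TM.mk (P.cons (P.cons (P.lf 2812900545 0 0) (P.cons (P.lf 140800077 0 0) (P.cons (P.lf 0 13269507 0) (P.cons (P.lf 0 162099 0) (P.lf 8103 0 0))))) (P.cons (P.cons (P.lf 90243807 0 0) (P.cons (P.lf 4517163 0 0) (P.cons (P.lf 0 425712 0) (P.cons (P.lf 0 5199 0) (P.lf 258 0 0))))) (P.cons (P.cons (P.lf 0 43677195 0) (P.cons (P.lf 0 2186265 0) (P.cons (P.lf 206040 0 0) (P.cons (P.lf 2514 0 0) P.nil)))) (P.cons (P.cons (P.lf 0 1427373 0) (P.cons (P.lf 0 71445 0) (P.cons (P.lf 6732 0 0) P.nil))) (P.cons (P.cons (P.lf 335370 0 0) (P.cons (P.lf 16785 0 0) P.nil)) (P.cons (P.cons (P.lf 12621 0 0) P.nil) P.nil)))))) 5187)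
 EL.nil)))
noncomputable def S227_256_401_438_22 : EL := (EL.cons 4 (TM.mk (P.cons (P.cons (P.lf 608692536 0 0) (P.cons (P.lf 0 64016133 0) (P.cons (P.lf 0 4494675 0) (P.cons (P.lf 0 42159 0) (P.cons (P.lf 7521 0 0) (P.cons (P.lf 195 0 0) P.nil)))))) (P.cons (P.cons (P.lf 172076868 0 0) (P.cons (P.lf 0 69523659 0) (P.cons (P.lf 1271961 0 0) (P.cons (P.lf 221376 0 0) (P.cons (P.lf 0 6738 0) P.nil))))) (P.cons (P.cons (P.lf 0 150824274 0) (P.cons (P.lf 11087637 0 0) (P.cons (P.lf 709209 0 0) (P.cons (P.lf 4293 0 0) P.nil)))) (P.cons (P.cons (P.lf 0 5286426 0) (P.cons (P.lf 4928844 0 0) (P.cons (P.lf 0 21507 0) P.nil))) (P.cons (P.cons (P.lf 8927367 0 0) (P.cons (P.lf 0 449442 0) P.nil)) (P.cons (P.cons (P.lf 2721 0 0) P.nil) P.nil)))))) 568296)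
 (EL.cons 8 (TM.mk (P.cons (P.cons (P.lf 0 46154049 0) (P.cons (P.lf 4854012 0 0) (P.cons (P.lf 340806 0 0) (P.cons (P.lf 3198 0 0) (P.cons (P.lf 0 570 0) (P.cons (P.lf 0 12 0) P.nil)))))) (P.cons (P.cons (P.lf 33478005 0 0) (P.cons (P.lf 378516 0 0) (P.cons (P.lf 0 439998 0) (P.cons (P.lf 0 20007 0) (P.cons (P.lf 1086 0 0) P.nil))))) (P.cons (P.cons (P.lf 24028524 0 0) (P.cons (P.lf 0 6095844 0) (P.cons (P.lf 47586 0 0) (P.cons (P.lf 16632 0 0) P.nil)))) (P.cons (P.cons (P.lf 0 11094093 0) (P.cons (P.lf 517602 0 0) (P.cons (P.lf 53253 0 0) P.nil))) (P.cons (P.cons (P.lf 0 891669 0) (P.cons (P.lf 379092 0 0) P.nil)) (P.cons (P.cons (P.lf 639219 0 0) P.nil) P.nil)))))) 247551)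
 (EL.cons 11 (TM.mk (P.cons (P.cons (P.lf 950329812 0 0) (P.cons (P.lf 0 86690142 0) (P.cons (P.lf 0 14118102 0) (P.cons (P.lf 627000 0 0) (P.cons (P.lf 33948 0 0) (P.cons (P.lf 0 1134 0) P.nil)))))) (P.cons (P.cons (P.lf 0 148454274 0) (P.cons (P.lf 0 18199176 0) (P.cons (P.lf 0 72462 0) (P.cons (P.lf 63234 0 0) (P.cons (P.lf 2073 0 0) P.nil))))) (P.cons (P.cons (P.lf 0 61917147 0) (P.cons (P.lf 1853379 0 0) (P.cons (P.lf 647505 0 0) (P.cons (P.lf 0 21579 0) P.nil)))) (P.cons (P.cons (P.lf 7839717 0 0) (P.cons (P.lf 812154 0 0) (P.cons (P.lf 0 6861 0) P.nil))) (P.cons (P.cons (P.lf 1709541 0 0) (P.cons (P.lf 0 4923 0) P.nil)) (P.cons (P.cons (P.lf 0 152853 0) P.nil) P.nil)))))) 81573)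
 EL.nil)))
noncomputable def S227_256_401_438_23 : EL := (EL.cons 4 (TM.mk (P.cons (P.cons (P.lf 0 203281521 0) (P.cons (P.lf 0 7339749 0) (P.cons (P.lf 0 159339 0) (P.lf 10620 0 0)))) (P.cons (P.cons (P.lf 105913113 0 0) (P.cons (P.lf 14209020 0 0) (P.cons (P.lf 308469 0 0) (P.lf 0 20562 0)))) (P.cons (P.cons (P.lf 120884163 0 0) (P.cons (P.lf 0 6179091 0) (P.cons (P.lf 0 134142 0) (P.lf 8940 0 0)))) (P.cons (P.cons (P.lf 0 19455030 0) (P.cons (P.lf 0 894705 0) (P.cons (P.lf 0 19422 0) P.nil))) (P.cons (P.cons (P.lf 0 4594509 0) (P.cons (P.lf 186006 0 0) P.nil)) (P.cons (P.cons (P.lf 455046 0 0) P.nil) P.nil)))))) 133983)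
 (EL.cons 8 (TM.mk (P.cons (P.cons (P.lf 15413799 0 0) (P.cons (P.lf 556536 0 0) (P.cons (P.lf 12081 0 0) (P.lf 0 804 0)))) (P.cons (P.cons (P.lf 0 23568774 0) (P.cons (P.lf 0 1638414 0) (P.cons (P.lf 0 35568 0) (P.lf 2370 0 0)))) (P.cons (P.cons (P.lf 0 883323 0) (P.cons (P.lf 1561359 0 0) (P.cons (P.lf 33894 0 0) (P.lf 0 2256 0)))) (P.cons (P.cons (P.lf 10553421 0 0) (P.cons (P.lf 0 419856 0) (P.cons (P.lf 0 9114 0) P.nil))) (P.cons (P.cons (P.lf 0 1215339 0) (P.cons (P.lf 0 72273 0) P.nil)) (P.cons (P.cons (P.lf 0 330600 0) P.nil) P.nil)))))) 68973)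
 (EL.cons 11 (TM.mk (P.cons (P.cons (P.lf 0 317376147 0) (P.cons (P.lf 0 15886299 0) (P.cons (P.lf 1497180 0 0) (P.cons (P.lf 18288 0 0) (P.lf 0 912 0))))) (P.cons (P.cons (P.lf 304658727 0 0) (P.cons (P.lf 15249729 0 0) (P.cons (P.lf 0 1437189 0) (P.cons (P.lf 0 17556 0) (P.lf 876 0 0))))) (P.cons (P.cons (P.lf 18811524 0 0) (P.cons (P.lf 941610 0 0) (P.cons (P.lf 0 88740 0) (P.cons (P.lf 0 1083 0) P.nil)))) (P.cons (P.cons (P.lf 0 5833581 0) (P.cons (P.lf 0 291999 0) (P.cons (P.lf 27519 0 0) P.nil))) (P.cons (P.cons (P.lf 0 320622 0) (P.cons (P.lf 0 16047 0) P.nil)) (P.cons (P.cons (P.lf 57153 0 0) P.nil) P.nil)))))) 9897)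
 EL.nil)))
noncomputable def S227_256_401_438_24 : EL := (EL.cons 4 (TM.mk (P.cons (P.cons (P.lf 0 68678037 0) (P.cons (P.lf 7222860 0 0) (P.cons (P.lf 507126 0 0) (P.cons (P.lf 4755 0 0) (P.cons (P.lf 0 846 0) (P.cons (P.lf 0 21 0) P.nil)))))) (P.cons (P.cons (P.lf 48714186 0 0) (P.cons (P.lf 679104 0 0) (P.cons (P.lf 0 646590 0) (P.cons (P.lf 0 29694 0) (P.cons (P.lf 1602 0 0) P.nil))))) (P.cons (P.cons (P.lf 37096002 0 0) (P.cons (P.lf 0 9118698 0) (P.cons (P.lf 56304 0 0) (P.cons (P.lf 24234 0 0) P.nil)))) (P.cons (P.cons (P.lf 0 16319094 0) (P.cons (P.lf 619332 0 0) (P.cons (P.lf 85476 0 0) P.nil))) (P.cons (P.cons (P.lf 0 1882254 0) (P.cons (P.lf 648192 0 0) P.nil)) (P.cons (P.cons (P.lf 1057101 0 0) P.nil) P.nil)))))) 451356)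
 (EL.cons 8 (TM.mk (P.cons (P.cons (P.lf 5207505 0 0) (P.cons (P.lf 0 547671 0) (P.cons (P.lf 0 38451 0) (P.cons (P.lf 0 360 0) (P.cons (P.lf 63 0 0) (P.cons (P.lf 0 0 0) P.nil)))))) (P.cons (P.cons (P.lf 0 8943186 0) (P.cons (P.lf 500589 0 0) (P.cons (P.lf 87789 0 0) (P.cons (P.lf 2613 0 0) (P.cons (P.lf 0 186 0) P.nil))))) (P.cons (P.cons (P.lf 973932 0 0) (P.cons (P.lf 736680 0 0) (P.cons (P.lf 0 54159 0) (P.cons (P.lf 0 4110 0) P.nil)))) (P.cons (P.cons (P.lf 4006341 0 0) (P.cons (P.lf 0 742302 0) (P.cons (P.lf 0 1422 0) P.nil))) (P.cons (P.cons (P.lf 0 1123011 0) (P.cons (P.lf 6753 0 0) P.nil)) (P.cons (P.cons (P.lf 0 197700 0) P.nil) P.nil)))))) 172092)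
 (EL.cons 11 (TM.mk (P.cons (P.cons (P.lf 0 107224554 0) (P.cons (P.lf 9781140 0 0) (P.cons (P.lf 1592925 0 0) (P.cons (P.lf 0 70743 0) (P.cons (P.lf 0 3828 0) (P.cons (P.lf 126 0 0) P.nil)))))) (P.cons (P.cons (P.lf 123117921 0 0) (P.cons (P.lf 0 7649616 0) (P.cons (P.lf 0 1572027 0) (P.cons (P.lf 63042 0 0) (P.cons (P.lf 3564 0 0) P.nil))))) (P.cons (P.cons (P.lf 0 8352093 0) (P.cons (P.lf 0 2362680 0) (P.cons (P.lf 0 100152 0) (P.cons (P.lf 10353 0 0) P.nil)))) (P.cons (P.cons (P.lf 0 8429055 0) (P.cons (P.lf 129159 0 0) (P.cons (P.lf 79308 0 0) P.nil))) (P.cons (P.cons (P.lf 657684 0 0) (P.cons (P.lf 102657 0 0) P.nil)) (P.cons (P.cons (P.lf 249051 0 0) P.nil) P.nil)))))) 90300)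
 EL.nil)))
noncomputable def S227_256_401_438_25 : EL := (EL.cons 4 (TM.mk (P.cons (P.cons (P.lf 22936005 0 0) (P.cons (P.lf 828135 0 0) (P.cons (P.lf 17976 0 0) (P.lf 0 1197 0)))) (P.cons (P.cons (P.lf 0 34702833 0) (P.cons (P.lf 0 2424705 0) (P.cons (P.lf 0 52638 0) (P.lf 3507 0 0)))) (P.cons (P.cons (P.lf 0 2057994 0) (P.cons (P.lf 2277687 0 0) (P.cons (P.lf 49446 0 0) (P.lf 0 3294 0)))) (P.cons (P.cons (P.lf 15956469 0 0) (P.cons (P.lf 0 568350 0) (P.cons (P.lf 0 12336 0) P.nil))) (P.cons (P.cons (P.lf 0 1541007 0) (P.cons (P.lf 0 135573 0) P.nil)) (P.cons (P.cons (P.lf 0 645777 0) P.nil) P.nil)))))) 158112)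
 (EL.cons 8 (TM.mk (P.cons (P.cons (P.lf 0 1739118 0) (P.cons (P.lf 0 62793 0) (P.cons (P.lf 0 1362 0) (P.lf 90 0 0)))) (P.cons (P.cons (P.lf 4384464 0 0) (P.cons (P.lf 247152 0 0) (P.cons (P.lf 5364 0 0) (P.lf 0 357 0)))) (P.cons (P.cons (P.lf 0 2517600 0) (P.cons (P.lf 0 358800 0) (P.cons (P.lf 0 7788 0) (P.lf 519 0 0)))) (P.cons (P.cons (P.lf 0 1328016 0) (P.cons (P.lf 219684 0 0) (P.cons (P.lf 4767 0 0) P.nil))) (P.cons (P.cons (P.lf 1327302 0 0) (P.cons (P.lf 0 36027 0) P.nil)) (P.cons (P.cons (P.lf 0 83916 0) P.nil) P.nil)))))) 70530)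
 (EL.cons 11 (TM.mk (P.cons (P.cons (P.lf 35809164 0 0) (P.cons (P.lf 1792431 0 0) (P.cons (P.lf 0 168924 0) (P.cons (P.lf 0 2061 0) (P.lf 102 0 0))))) (P.cons (P.cons (P.lf 0 69897381 0) (P.cons (P.lf 0 3498720 0) (P.cons (P.lf 329730 0 0) (P.cons (P.lf 4026 0 0) (P.lf 0 201 0))))) (P.cons (P.cons (P.lf 31550397 0 0) (P.cons (P.lf 1579257 0 0) (P.cons (P.lf 0 148833 0) (P.cons (P.lf 0 1818 0) P.nil)))) (P.cons (P.cons (P.lf 3311895 0 0) (P.cons (P.lf 165777 0 0) (P.cons (P.lf 0 15621 0) P.nil))) (P.cons (P.cons (P.lf 0 721581 0) (P.cons (P.lf 0 36117 0) P.nil)) (P.cons (P.cons (P.lf 0 61614 0) P.nil) P.nil)))))) 20628)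
 EL.nil)))
noncomputable def S227_256_401_438_26 : EL := (EL.cons 4 (TM.mk (P.cons (P.cons (P.lf 7748859 0 0) (P.cons (P.lf 0 814944 0) (P.cons (P.lf 0 57216 0) (P.cons (P.lf 0 537 0) (P.cons (P.lf 93 0 0) (P.cons (P.lf 0 0 0) P.nil)))))) (P.cons (P.cons (P.lf 0 13183320 0) (P.cons (P.lf 731811 0 0) (P.cons (P.lf 129714 0 0) (P.cons (P.lf 3882 0 0) (P.cons (P.lf 0 273 0) P.nil))))) (P.cons (P.cons (P.lf 1174602 0 0) (P.cons (P.lf 1114575 0 0) (P.cons (P.lf 0 78042 0) (P.cons (P.lf 0 6051 0) P.nil)))) (P.cons (P.cons (P.lf 6088800 0 0) (P.cons (P.lf 0 1092747 0) (P.cons (P.lf 0 4431 0) P.nil))) (P.cons (P.cons (P.lf 0 1584942 0) (P.cons (P.lf 0 16437 0) P.nil)) (P.cons (P.cons (P.lf 0 368622 0) P.nil) P.nil)))))) 289338)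
 (EL.cons 8 (TM.mk (P.cons (P.cons (P.lf 0 587556 0) (P.cons (P.lf 61791 0 0) (P.cons (P.lf 4338 0 0) (P.cons (P.lf 39 0 0) (P.cons (P.lf 0 6 0) (P.cons (P.lf 0 0 0) P.nil)))))) (P.cons (P.cons (P.lf 1591911 0 0) (P.cons (P.lf 0 117780 0) (P.cons (P.lf 0 14208 0) (P.cons (P.lf 0 333 0) (P.cons (P.lf 27 0 0) P.nil))))) (P.cons (P.cons (P.lf 0 1103871 0) (P.cons (P.lf 0 27825 0) (P.cons (P.lf 15885 0 0) (P.cons (P.lf 756 0 0) P.nil)))) (P.cons (P.cons (P.lf 0 357318 0) (P.cons (P.lf 167118 0 0) (P.cons (P.lf 0 5766 0) P.nil))) (P.cons (P.cons (P.lf 580293 0 0) (P.cons (P.lf 0 83067 0) P.nil)) (P.cons (P.cons (P.lf 0 98337 0) P.nil) P.nil)))))) 95979)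
 (EL.cons 11 (TM.mk (P.cons (P.cons (P.lf 12098013 0 0) (P.cons (P.lf 0 1103592 0) (P.cons (P.lf 0 179727 0) (P.cons (P.lf 7980 0 0) (P.cons (P.lf 432 0 0) (P.cons (P.lf 0 12 0) P.nil)))))) (P.cons (P.cons (P.lf 0 25892616 0) (P.cons (P.lf 1957875 0 0) (P.cons (P.lf 355662 0 0) (P.cons (P.lf 0 15030 0) (P.cons (P.lf 0 831 0) P.nil))))) (P.cons (P.cons (P.lf 14578440 0 0) (P.cons (P.lf 0 576468 0) (P.cons (P.lf 0 162510 0) (P.cons (P.lf 5790 0 0) P.nil)))) (P.cons (P.cons (P.lf 228561 0 0) (P.cons (P.lf 0 293574 0) (P.cons (P.lf 0 22965 0) P.nil))) (P.cons (P.cons (P.lf 0 1081647 0) (P.cons (P.lf 2946 0 0) P.nil)) (P.cons (P.cons (P.lf 36552 0 0) P.nil) P.nil)))))) 77166)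
 EL.nil)))
noncomputable def S227_256_401_438_27 : EL := (EL.cons 13 (TM.mk (P.lf 0 4294967296 0) 0)
 EL.nil)
noncomputable def S227_256_401_438_28 : EL := (EL.cons 13 (TM.mk (P.cons (P.cons (P.lf 0 1451041516 0) (P.cons (P.lf 204997680 0 0) (P.cons (P.lf 4450388 0 0) (P.lf 0 296688 0)))) (P.cons (P.cons (P.lf 273224651 0 0) (P.cons (P.lf 9865136 0 0) (P.cons (P.lf 214164 0 0) (P.lf 0 14276 0)))) (P.cons (P.cons (P.lf 63243572 0 0) (P.cons (P.lf 0 4695512 0) (P.cons (P.lf 0 101932 0) (P.lf 6792 0 0)))) (P.cons (P.cons (P.lf 0 10493144 0) (P.cons (P.lf 0 233044 0) (P.cons (P.lf 0 5056 0) P.nil))) (P.cons (P.cons (P.lf 0 979968 0) (P.cons (P.lf 53308 0 0) P.nil)) (P.cons (P.cons (P.lf 107927 0 0) P.nil) P.nil)))))) 17151)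
 EL.nil)
noncomputable def S227_256_401_438_29 : EL := (EL.cons 13 (TM.mk (P.cons (P.cons (P.lf 0 490229921 0) (P.cons (P.lf 138515673 0 0) (P.cons (P.lf 0 6777386 0) (P.cons (P.lf 0 625302 0) (P.cons (P.lf 23710 0 0) (P.cons (P.lf 614 0 0) P.nil)))))) (P.cons (P.cons (P.lf 184616219 0 0) (P.cons (P.lf 0 19416072 0) (P.cons (P.lf 0 1363234 0) (P.cons (P.lf 0 12786 0) (P.cons (P.lf 2281 0 0) P.nil))))) (P.cons (P.cons (P.lf 25352087 0 0) (P.cons (P.lf 0 10465070 0) (P.cons (P.lf 198384 0 0) (P.cons (P.lf 33620 0 0) P.nil)))) (P.cons (P.cons (P.lf 0 15136641 0) (P.cons (P.lf 1151085 0 0) (P.cons (P.lf 68807 0 0) P.nil))) (P.cons (P.cons (P.lf 0 258378 0) (P.cons (P.lf 345704 0 0) P.nil)) (P.cons (P.cons (P.lf 506631 0 0) P.nil) P.nil)))))) 177883)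
 EL.nil)
noncomputable def S227_256_401_438_30 : EL := (EL.cons 13 (TM.mk (P.cons (P.lf 484595936 0 0) (P.cons (P.lf 0 480724804 0) (P.cons (P.lf 0 5775768 0) (P.cons (P.lf 1873960 0 0) (P.cons (P.lf 38036 0 0) (P.cons (P.lf 0 7180 0) P.nil)))))) 280)
 EL.nil)
noncomputable def S227_256_401_438_31 : EL := (EL.cons 13 (TM.mk (P.cons (P.cons (P.lf 163719249 0 0) (P.cons (P.lf 0 23129638 0) (P.cons (P.lf 0 502131 0) (P.lf 33474 0 0)))) (P.cons (P.cons (P.lf 0 193239004 0) (P.cons (P.lf 21831799 0 0) (P.cons (P.lf 473956 0 0) (P.lf 0 31596 0)))) (P.cons (P.cons (P.lf 21494321 0 0) (P.cons (P.lf 1909644 0 0) (P.cons (P.lf 41456 0 0) (P.lf 0 2763 0)))) (P.cons (P.cons (P.lf 9263158 0 0) (P.cons (P.lf 0 575439 0) (P.cons (P.lf 0 12492 0) P.nil))) (P.cons (P.cons (P.lf 0 1085215 0) (P.cons (P.lf 0 44532 0) P.nil)) (P.cons (P.cons (P.lf 0 168413 0) P.nil) P.nil)))))) 34731)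
 EL.nil)
noncomputable def S227_256_401_438_32 : EL := (EL.cons 13 (TM.mk (P.cons (P.cons (P.lf 55312045 0 0) (P.cons (P.lf 0 15628554 0) (P.cons (P.lf 764684 0 0) (P.cons (P.lf 70552 0 0) (P.cons (P.lf 0 2675 0) (P.cons (P.lf 0 69 0) P.nil)))))) (P.cons (P.cons (P.lf 0 75700216 0) (P.cons (P.lf 17694400 0 0) (P.cons (P.lf 0 604763 0) (P.cons (P.lf 0 68545 0) (P.cons (P.lf 2396 0 0) P.nil))))) (P.cons (P.cons (P.lf 17143931 0 0) (P.cons (P.lf 0 806158 0) (P.cons (P.lf 0 184080 0) (P.cons (P.lf 0 6065 0) P.nil)))) (P.cons (P.cons (P.lf 5007605 0 0) (P.cons (P.lf 0 1387751 0) (P.cons (P.lf 15565 0 0) P.nil))) (P.cons (P.cons (P.lf 0 1707169 0) (P.cons (P.lf 83004 0 0) P.nil)) (P.cons (P.cons (P.lf 0 119953 0) P.nil) P.nil)))))) 165640)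
 EL.nil)
noncomputable def S227_256_401_438_33 : EL := (EL.cons 14 (TM.mk (P.lf 8589934592 0 0) 0)
 EL.nil)
noncomputable def S227_256_401_438_34 : EL := (EL.cons 14 (TM.mk (P.cons (P.cons (P.lf 2902083032 0 0) (P.cons (P.lf 0 409995360 0) (P.cons (P.lf 0 8900776 0) (P.lf 593376 0 0)))) (P.cons (P.cons (P.lf 0 546449302 0) (P.cons (P.lf 0 19730272 0) (P.cons (P.lf 0 428328 0) (P.lf 28552 0 0)))) (P.cons (P.cons (P.lf 0 126487144 0) (P.cons (P.lf 9391024 0 0) (P.cons (P.lf 203864 0 0) (P.lf 0 13584 0)))) (P.cons (P.cons (P.lf 20986288 0 0) (P.cons (P.lf 466088 0 0) (P.cons (P.lf 10112 0 0) P.nil))) (P.cons (P.cons (P.lf 1959936 0 0) (P.cons (P.lf 0 106616 0) P.nil)) (P.cons (P.cons (P.lf 0 215854 0) P.nil) P.nil)))))) 34302)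
 EL.nil)
noncomputable def S227_256_401_438_35 : EL := (EL.cons 14 (TM.mk (P.cons (P.cons (P.lf 980459842 0 0) (P.cons (P.lf 0 277031346 0) (P.cons (P.lf 13554772 0 0) (P.cons (P.lf 1250604 0 0) (P.cons (P.lf 0 47420 0) (P.cons (P.lf 0 1228 0) P.nil)))))) (P.cons (P.cons (P.lf 0 369232438 0) (P.cons (P.lf 38832144 0 0) (P.cons (P.lf 2726468 0 0) (P.cons (P.lf 25572 0 0) (P.cons (P.lf 0 4562 0) P.nil))))) (P.cons (P.cons (P.lf 0 50704174 0) (P.cons (P.lf 20930140 0 0) (P.cons (P.lf 0 396768 0) (P.cons (P.lf 0 67240 0) P.nil)))) (P.cons (P.cons (P.lf 30273282 0 0) (P.cons (P.lf 0 2302170 0) (P.cons (P.lf 0 137614 0) P.nil))) (P.cons (P.cons (P.lf 516756 0 0) (P.cons (P.lf 0 691408 0) P.nil)) (P.cons (P.cons (P.lf 0 1013262 0) P.nil) P.nil)))))) 355766)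
 EL.nil)
noncomputable def S227_256_401_438_36 : EL := (EL.cons 14 (TM.mk (P.cons (P.lf 0 969191872 0) (P.cons (P.lf 961449608 0 0) (P.cons (P.lf 11551536 0 0) (P.cons (P.lf 0 3747920 0) (P.cons (P.lf 0 76072 0) (P.cons (P.lf 14360 0 0) P.nil)))))) 560)
 EL.nil)
noncomputable def S227_256_401_438_37 : EL := (EL.cons 14 (TM.mk (P.cons (P.cons (P.lf 0 327438498 0) (P.cons (P.lf 46259276 0 0) (P.cons (P.lf 1004262 0 0) (P.lf 0 66948 0)))) (P.cons (P.cons (P.lf 386478008 0 0) (P.cons (P.lf 0 43663598 0) (P.cons (P.lf 0 947912 0) (P.lf 63192 0 0)))) (P.cons (P.cons (P.lf 0 42988642 0) (P.cons (P.lf 0 3819288 0) (P.cons (P.lf 0 82912 0) (P.lf 5526 0 0)))) (P.cons (P.cons (P.lf 0 18526316 0) (P.cons (P.lf 1150878 0 0) (P.cons (P.lf 24984 0 0) P.nil))) (P.cons (P.cons (P.lf 2170430 0 0) (P.cons (P.lf 89064 0 0) P.nil)) (P.cons (P.cons (P.lf 336826 0 0) P.nil) P.nil)))))) 69462)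
 EL.nil)
noncomputable def S227_256_401_438_38 : EL := (EL.cons 14 (TM.mk (P.cons (P.cons (P.lf 0 110624090 0) (P.cons (P.lf 31257108 0 0) (P.cons (P.lf 0 1529368 0) (P.cons (P.lf 0 141104 0) (P.cons (P.lf 5350 0 0) (P.cons (P.lf 138 0 0) P.nil)))))) (P.cons (P.cons (P.lf 151400432 0 0) (P.cons (P.lf 0 35388800 0) (P.cons (P.lf 1209526 0 0) (P.cons (P.lf 137090 0 0) (P.cons (P.lf 0 4792 0) P.nil))))) (P.cons (P.cons (P.lf 0 34287862 0) (P.cons (P.lf 1612316 0 0) (P.cons (P.lf 368160 0 0) (P.cons (P.lf 12130 0 0) P.nil)))) (P.cons (P.cons (P.lf 0 10015210 0) (P.cons (P.lf 2775502 0 0) (P.cons (P.lf 0 31130 0) P.nil))) (P.cons (P.cons (P.lf 3414338 0 0) (P.cons (P.lf 0 166008 0) P.nil)) (P.cons (P.cons (P.lf 239906 0 0) P.nil) P.nil)))))) 331280)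
 EL.nil)
noncomputable def S227_256_401_438_39 : EL := (EL.cons 14 (TM.mk (P.cons (P.lf 109352740 0 0) (P.cons (P.lf 0 216958378 0) (P.cons (P.lf 105005926 0 0) (P.cons (P.lf 3431614 0 0) (P.cons (P.lf 0 806288 0) (P.cons (P.lf 0 30348 0) P.nil)))))) 5440)
 EL.nil)
noncomputable def S227_256_401_438_40 : EL := (EL.cons 14 (TM.mk (P.cons (P.cons (P.lf 36944486 0 0) (P.cons (P.lf 0 5219378 0) (P.cons (P.lf 0 113308 0) (P.lf 7552 0 0)))) (P.cons (P.cons (P.lf 0 80255204 0) (P.cons (P.lf 10104194 0 0) (P.cons (P.lf 219356 0 0) (P.lf 0 14622 0)))) (P.cons (P.cons (P.lf 47667528 0 0) (P.cons (P.lf 0 4394020 0) (P.cons (P.lf 0 95392 0) (P.lf 6358 0 0)))) (P.cons (P.cons (P.lf 0 2058714 0) (P.cons (P.lf 0 636236 0) (P.cons (P.lf 0 13812 0) P.nil))) (P.cons (P.cons (P.lf 0 2542026 0) (P.cons (P.lf 132270 0 0) P.nil)) (P.cons (P.cons (P.lf 194800 0 0) P.nil) P.nil)))))) 85394)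
 EL.nil)
noncomputable def S227_256_401_438_41 : EL := (EL.cons 14 (TM.mk (P.cons (P.cons (P.lf 12481580 0 0) (P.cons (P.lf 0 3526700 0) (P.cons (P.lf 172556 0 0) (P.cons (P.lf 15920 0 0) (P.cons (P.lf 0 602 0) (P.cons (P.lf 0 14 0) P.nil)))))) (P.cons (P.cons (P.lf 0 29464200 0) (P.cons (P.lf 7491404 0 0) (P.cons (P.lf 0 307646 0) (P.cons (P.lf 0 31260 0) (P.cons (P.lf 1138 0 0) P.nil))))) (P.cons (P.cons (P.lf 20665758 0 0) (P.cons (P.lf 0 4100860 0) (P.cons (P.lf 91782 0 0) (P.cons (P.lf 13784 0 0) P.nil)))) (P.cons (P.cons (P.lf 0 2455882 0) (P.cons (P.lf 0 193920 0) (P.cons (P.lf 47012 0 0) P.nil))) (P.cons (P.cons (P.lf 0 1617400 0) (P.cons (P.lf 346716 0 0) P.nil)) (P.cons (P.cons (P.lf 355056 0 0) P.nil) P.nil)))))) 173536)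
 EL.nil)
noncomputable def S227_256_401_438_42 : EL := (EL.cons 14 (TM.mk (P.cons (P.lf 0 12338136 0) (P.cons (P.lf 36718724 0 0) (P.cons (P.lf 0 35984236 0) (P.cons (P.lf 11026388 0 0) (P.cons (P.lf 709966 0 0) (P.cons (P.lf 0 125918 0) P.nil)))))) 9172)
 EL.nil)
noncomputable def S227_256_401_438_43 : EL := (EL.cons 14 (TM.mk (P.cons (P.cons (P.lf 0 4168400 0) (P.cons (P.lf 588896 0 0) (P.cons (P.lf 12784 0 0) (P.lf 0 852 0)))) (P.cons (P.cons (P.lf 13190198 0 0) (P.cons (P.lf 0 1724234 0) (P.cons (P.lf 0 37432 0) (P.lf 2494 0 0)))) (P.cons (P.cons (P.lf 0 14311348 0) (P.cons (P.lf 1619690 0 0) (P.cons (P.lf 35162 0 0) (P.lf 0 2344 0)))) (P.cons (P.cons (P.lf 5443542 0 0) (P.cons (P.lf 0 404160 0) (P.cons (P.lf 0 8774 0) P.nil))) (P.cons (P.cons (P.lf 155178 0 0) (P.cons (P.lf 0 96406 0) P.nil)) (P.cons (P.cons (P.lf 0 329294 0) P.nil) P.nil)))))) 95438)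
 EL.nil)
noncomputable def S227_256_401_438_44 : EL := (EL.cons 14 (TM.mk (P.cons (P.cons (P.lf 0 1408280 0) (P.cons (P.lf 397912 0 0) (P.cons (P.lf 0 19468 0) (P.cons (P.lf 0 1796 0) (P.cons (P.lf 68 0 0) (P.cons (P.lf 0 0 0) P.nil)))))) (P.cons (P.cons (P.lf 4721440 0 0) (P.cons (P.lf 0 1239980 0) (P.cons (P.lf 54024 0 0) (P.cons (P.lf 5308 0 0) (P.cons (P.lf 0 196 0) P.nil))))) (P.cons (P.cons (P.lf 0 5612760 0) (P.cons (P.lf 1296446 0 0) (P.cons (P.lf 0 44558 0) (P.cons (P.lf 0 5032 0) P.nil)))) (P.cons (P.cons (P.lf 2545090 0 0) (P.cons (P.lf 0 425504 0) (P.cons (P.lf 4478 0 0) P.nil))) (P.cons (P.cons (P.lf 0 51854 0) (P.cons (P.lf 0 69576 0) P.nil)) (P.cons (P.cons (P.lf 0 233128 0) P.nil) P.nil)))))) 138848)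
 EL.nil)
noncomputable def S227_256_401_438_45 : EL := (EL.cons 14 (TM.mk (P.cons (P.cons (P.lf 331245346 0 0) (P.cons (P.lf 0 140391284 0) (P.cons (P.lf 16786132 0 0) (P.cons (P.lf 130330 0 0) (P.cons (P.lf 0 108892 0) (P.cons (P.lf 1488 0 0) P.nil)))))) (P.cons (P.cons (P.lf 0 187116068 0) (P.cons (P.lf 46114034 0 0) (P.cons (P.lf 0 824588 0) (P.cons (P.lf 0 280854 0) (P.cons (P.lf 0 4356 0) P.nil))))) (P.cons (P.cons (P.lf 0 8078812 0) (P.cons (P.lf 13020256 0 0) (P.cons (P.lf 0 1803916 0) (P.cons (P.lf 0 51742 0) P.nil)))) (P.cons (P.cons (P.lf 21285634 0 0) (P.cons (P.lf 0 5036820 0) (P.cons (P.lf 24496 0 0) P.nil))) (P.cons (P.cons (P.lf 0 1683004 0) (P.cons (P.lf 0 545508 0) P.nil)) (P.cons (P.cons (P.lf 0 1053736 0) P.nil) P.nil)))))) 786034)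
 EL.nil)
noncomputable def S227_256_401_438_46 : EL := (EL.cons 15 (TM.mk (P.lf 4294967296 0 0) 0)
 EL.nil)
noncomputable def S227_256_401_438_47 : EL := (EL.cons 15 (TM.mk (P.cons (P.cons (P.lf 1451041516 0 0) (P.cons (P.lf 0 204997680 0) (P.cons (P.lf 0 4450388 0) (P.lf 296688 0 0)))) (P.cons (P.cons (P.lf 0 273224651 0) (P.cons (P.lf 0 9865136 0) (P.cons (P.lf 0 214164 0) (P.lf 14276 0 0)))) (P.cons (P.cons (P.lf 0 63243572 0) (P.cons (P.lf 4695512 0 0) (P.cons (P.lf 101932 0 0) (P.lf 0 6792 0)))) (P.cons (P.cons (P.lf 10493144 0 0) (P.cons (P.lf 233044 0 0) (P.cons (P.lf 5056 0 0) P.nil))) (P.cons (P.cons (P.lf 979968 0 0) (P.cons (P.lf 0 53308 0) P.nil)) (P.cons (P.cons (P.lf 0 107927 0) P.nil) P.nil)))))) 17151)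
 EL.nil)
noncomputable def S227_256_401_438_48 : EL := (EL.cons 15 (TM.mk (P.cons (P.cons (P.lf 490229921 0 0) (P.cons (P.lf 0 138515673 0) (P.cons (P.lf 6777386 0 0) (P.cons (P.lf 625302 0 0) (P.cons (P.lf 0 23710 0) (P.cons (P.lf 0 614 0) P.nil)))))) (P.cons (P.cons (P.lf 0 184616219 0) (P.cons (P.lf 19416072 0 0) (P.cons (P.lf 1363234 0 0) (P.cons (P.lf 12786 0 0) (P.cons (P.lf 0 2281 0) P.nil))))) (P.cons (P.cons (P.lf 0 25352087 0) (P.cons (P.lf 10465070 0 0) (P.cons (P.lf 0 198384 0) (P.cons (P.lf 0 33620 0) P.nil)))) (P.cons (P.cons (P.lf 15136641 0 0) (P.cons (P.lf 0 1151085 0) (P.cons (P.lf 0 68807 0) P.nil))) (P.cons (P.cons (P.lf 258378 0 0) (P.cons (P.lf 0 345704 0) P.nil)) (P.cons (P.cons (P.lf 0 506631 0) P.nil) P.nil)))))) 177883)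
 EL.nil)
noncomputable def S227_256_401_438 : SL := (SL.cons S227_256_401_438_0 (SL.cons S227_256_401_438_1 (SL.cons S227_256_401_438_2 (SL.cons S227_256_401_438_3 (SL.cons S227_256_401_438_4 (SL.cons S227_256_401_438_5 (SL.cons S227_256_401_438_6 (SL.cons S227_256_401_438_7 (SL.cons S227_256_401_438_8 (SL.cons S227_256_401_438_9 (SL.cons S227_256_401_438_10 (SL.cons S227_256_401_438_11 (SL.cons S227_256_401_438_12 (SL.cons S227_256_401_438_13 (SL.cons S227_256_401_438_14 (SL.cons S227_256_401_438_15 (SL.cons S227_256_401_438_16 (SL.cons S227_256_401_438_17 (SL.cons S227_256_401_438_18 (SL.cons S227_256_401_438_19 (SL.cons S227_256_401_438_20 (SL.cons S227_256_401_438_21 (SL.cons S227_256_401_438_22 (SL.cons S227_256_401_438_23 (SL.cons S227_256_401_438_24 (SL.cons S227_256_401_438_25 (SL.cons S227_256_401_438_26 (SL.cons S227_256_401_438_27 (SL.cons S227_256_401_438_28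 (SL.cons S227_256_401_438_29 (SL.cons S227_256_401_438_30 (SL.cons S227_256_401_438_31 (SL.cons S227_256_401_438_32 (SL.cons S227_256_401_438_33 (SL.cons S227_256_401_438_34 (SL.cons S227_256_401_438_35 (SL.cons S227_256_401_438_36 (SL.cons S227_256_401_438_37 (SL.cons S227_256_401_438_38 (SL.cons S227_256_401_438_39 (SL.cons S227_256_401_438_40 (SL.cons S227_256_401_438_41 (SL.cons S227_256_401_438_42 (SL.cons S227_256_401_438_43 (SL.cons S227_256_401_438_44 (SL.cons S227_256_401_438_45 (SL.cons S227_256_401_438_46 (SL.cons S227_256_401_438_47 (SL.cons S227_256_401_438_48 SL.nil)))))))))))))))))))))))))))))))))))))))))))))))))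
noncomputable def S227_256_438_512_0 : EL := (EL.cons 0 (TM.mk (P.cons (P.lf 8359606057 0 0) (P.cons (P.lf 190686074 0 0) (P.cons (P.lf 0 92290364 0) (P.cons (P.lf 0 3016066 0) (P.cons (P.lf 708651 0 0) (P.cons (P.lf 26673 0 0) P.nil)))))) 4788)
 (EL.cons 1 (TM.mk (P.cons (P.lf 0 450679505 0) (P.cons (P.lf 439849933 0 0) (P.cons (P.lf 16100088 0 0) (P.cons (P.lf 0 5127871 0) (P.cons (P.lf 0 176304 0) (P.cons (P.lf 32482 0 0) P.nil)))))) 1651)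
 (EL.cons 5 (TM.mk (P.cons (P.lf 4329140030 0 0) (P.cons (P.lf 0 67799490 0) (P.cons (P.lf 32814348 0 0) (P.cons (P.lf 1072376 0 0) (P.cons (P.lf 0 251962 0) (P.cons (P.lf 0 9484 0) P.nil)))))) 1837)
 (EL.cons 9 (TM.mk (P.lf 6442450944 0 0) 2)
 EL.nil))))
noncomputable def S227_256_438_512_1 : EL := (EL.cons 0 (TM.mk (P.cons (P.cons (P.lf 1989484544 0 0) (P.cons (P.lf 0 840731751 0) (P.cons (P.lf 0 13381356 0) (P.lf 4460455 0 0)))) (P.cons (P.cons (P.lf 0 839383254 0) (P.cons (P.lf 0 119908756 0) (P.cons (P.lf 0 1908497 0) (P.lf 636163 0 0)))) (P.cons (P.cons (P.lf 0 315128226 0) (P.cons (P.lf 53886872 0 0) (P.cons (P.lf 857668 0 0) (P.lf 0 285887 0)))) (P.cons (P.cons (P.lf 67454079 0 0) (P.cons (P.lf 5882726 0 0) (P.cons (P.lf 93616 0 0) P.nil))) (P.cons (P.cons (P.lf 10979204 0 0) (P.cons (P.lf 0 1243877 0) P.nil)) (P.cons (P.cons (P.lf 0 1425422 0) P.nil) P.nil))))))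 466438)
 (EL.cons 1 (TM.mk (P.cons (P.cons (P.lf 895023445 0 0) (P.cons (P.lf 116222178 0 0) (P.cons (P.lf 1849826 0 0) (P.lf 0 616603 0)))) (P.cons (P.cons (P.lf 481962679 0 0) (P.cons (P.lf 0 105540805 0) (P.cons (P.lf 0 1679817 0) (P.lf 559938 0 0)))) (P.cons (P.cons (P.lf 0 141149696 0) (P.cons (P.lf 0 15587317 0) (P.cons (P.lf 0 248086 0) (P.lf 82691 0 0)))) (P.cons (P.cons (P.lf 0 34152251 0) (P.cons (P.lf 4482749 0 0) (P.cons (P.lf 71341 0 0) P.nil))) (P.cons (P.cons (P.lf 5504367 0 0) (P.cons (P.lf 514808 0 0) P.nil)) (P.cons (P.cons (P.lf 874901 0 0) P.nil) P.nil)))))) 315156)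
 (EL.cons 5 (TM.mk (P.cons (P.cons (P.lf 659437354 0 0) (P.cons (P.lf 0 461616840 0) (P.cons (P.lf 0 7347244 0) (P.lf 2449078 0 0)))) (P.cons (P.cons (P.lf 0 218968148 0) (P.cons (P.lf 6034440 0 0) (P.cons (P.lf 96042 0 0) (P.lf 0 32012 0)))) (P.cons (P.cons (P.lf 29726342 0 0) (P.cons (P.lf 0 1739358 0) (P.cons (P.lf 0 27680 0) (P.lf 9222 0 0)))) (P.cons (P.cons (P.lf 0 4894848 0) (P.cons (P.lf 0 1227018 0) (P.cons (P.lf 0 19524 0) P.nil))) (P.cons (P.cons (P.lf 0 2523816 0) (P.cons (P.lf 244474 0 0) P.nil)) (P.cons (P.cons (P.lf 307817 0 0) P.nil) P.nil)))))) 212915)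
 (EL.cons 9 (TM.mk (P.cons (P.cons (P.lf 1206008490 0 0) (P.cons (P.lf 0 671067948 0) (P.cons (P.lf 0 10680930 0) (P.lf 3560310 0 0)))) (P.cons (P.cons (P.lf 0 456543106 0) (P.cons (P.lf 0 32293920 0) (P.cons (P.lf 0 513996 0) (P.lf 171330 0 0)))) (P.cons (P.cons (P.lf 0 72634620 0) (P.cons (P.lf 15370950 0 0) (P.cons (P.lf 244644 0 0) (P.lf 0 81546 0)))) (P.cons (P.cons (P.lf 16843080 0 0) (P.cons (P.lf 762888 0 0) (P.cons (P.lf 12138 0 0) P.nil))) (P.cons (P.cons (P.lf 1217544 0 0) (P.cons (P.lf 0 174516 0) P.nil)) (P.cons (P.cons (P.lf 0 175582 0) P.nil) P.nil)))))) 34919)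
 (EL.cons 2 (TM.mk (P.cons (P.cons (P.lf 329194372 0 0) (P.cons (P.lf 12202785 0 0) (P.cons (P.lf 0 6046523 0) (P.cons (P.lf 0 54866 0) (P.lf 13716 0 0))))) (P.cons (P.cons (P.lf 0 316003393 0) (P.cons (P.lf 0 11713812 0) (P.cons (P.lf 5804235 0 0) (P.cons (P.lf 52669 0 0) (P.lf 0 13165 0))))) (P.cons (P.cons (P.lf 0 19512014 0) (P.cons (P.lf 0 723282 0) (P.cons (P.lf 358388 0 0) (P.cons (P.lf 3251 0 0) P.nil)))) (P.cons (P.cons (P.lf 6050806 0 0) (P.cons (P.lf 224294 0 0) (P.cons (P.lf 0 111138 0) P.nil))) (P.cons (P.cons (P.lf 332561 0 0) (P.cons (P.lf 12327 0 0) P.nil)) (P.cons (P.cons (P.lf 0 59281 0) P.nil) P.nil)))))) 16662)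
 (EL.cons 6 (TM.mk (P.cons (P.cons (P.lf 1543646991 0 0) (P.cons (P.lf 57220887 0 0) (P.cons (P.lf 0 28353156 0) (P.cons (P.lf 0 257286 0) (P.lf 64320 0 0))))) (P.cons (P.cons (P.lf 74285196 0 0) (P.cons (P.lf 2753649 0 0) (P.cons (P.lf 0 1364442 0) (P.cons (P.lf 0 12381 0) (P.lf 3093 0 0))))) (P.cons (P.cons (P.lf 0 35357562 0) (P.cons (P.lf 0 1310655 0) (P.cons (P.lf 649434 0 0) (P.cons (P.lf 5892 0 0) P.nil)))) (P.cons (P.cons (P.lf 0 1754874 0) (P.cons (P.lf 0 65049 0) (P.cons (P.lf 32229 0 0) P.nil))) (P.cons (P.cons (P.lf 401445 0 0) (P.cons (P.lf 14877 0 0) P.nil)) (P.cons (P.cons (P.lf 21777 0 0) P.nil) P.nil)))))) 15804)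
 EL.nil))))))
noncomputable def S227_256_438_512_2 : EL := (EL.cons 0 (TM.mk (P.cons (P.cons (P.lf 451907891 0 0) (P.cons (P.lf 0 403218716 0) (P.cons (P.lf 78027360 0 0) (P.cons (P.lf 4827358 0 0) (P.cons (P.lf 0 874648 0) (P.cons (P.lf 0 14272 0) P.nil)))))) (P.cons (P.cons (P.lf 0 381119476 0) (P.cons (P.lf 128896039 0 0) (P.cons (P.lf 24661717 0 0) (P.cons (P.lf 35876 0 0) (P.cons (P.lf 0 234177 0) P.nil))))) (P.cons (P.cons (P.lf 0 42277891 0) (P.cons (P.lf 100587738 0 0) (P.cons (P.lf 0 7687484 0) (P.cons (P.lf 0 829332 0) P.nil)))) (P.cons (P.cons (P.lf 75211042 0 0) (P.cons (P.lf 0 15172180 0) (P.cons (P.lf 0 2153262 0) P.nil))) (P.cons (P.cons (P.lf 0 1059759 0) (P.cons (P.lf 0 6440435 0) P.nil)) (P.cons (P.cons (P.lf 0 4591154 0) P.nil) P.nil)))))) 3853876)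
 (EL.cons 1 (TM.mk (P.cons (P.cons (P.lf 350884745 0 0) (P.cons (P.lf 0 160520236 0) (P.cons (P.lf 0 21877213 0) (P.cons (P.lf 236547 0 0) (P.cons (P.lf 200131 0 0) (P.cons (P.lf 3255 0 0) P.nil)))))) (P.cons (P.cons (P.lf 26222028 0 0) (P.cons (P.lf 0 142403752 0) (P.cons (P.lf 14253529 0 0) (P.cons (P.lf 1281388 0 0) (P.cons (P.lf 0 171105 0) P.nil))))) (P.cons (P.cons (P.lf 0 129869171 0) (P.cons (P.lf 32087187 0 0) (P.cons (P.lf 4523935 0 0) (P.cons (P.lf 0 42486 0) P.nil)))) (P.cons (P.cons (P.lf 2446824 0 0) (P.cons (P.lf 15443824 0 0) (P.cons (P.lf 0 783388 0) P.nil))) (P.cons (P.cons (P.lf 11588348 0 0) (P.cons (P.lf 0 1762516 0) P.nil)) (P.cons (P.cons (P.lf 0 297624 0) P.nil) P.nil)))))) 2007220)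
 (EL.cons 5 (TM.mk (P.cons (P.cons (P.lf 95184528 0 0) (P.cons (P.lf 0 141376579 0) (P.cons (P.lf 46945724 0 0) (P.cons (P.lf 2316110 0 0) (P.cons (P.lf 0 509547 0) (P.cons (P.lf 0 8307 0) P.nil)))))) (P.cons (P.cons (P.lf 0 58208288 0) (P.cons (P.lf 48259133 0 0) (P.cons (P.lf 353660 0 0) (P.cons (P.lf 0 269214 0) (P.cons (P.lf 4281 0 0) P.nil))))) (P.cons (P.cons (P.lf 20878824 0 0) (P.cons (P.lf 0 6905829 0) (P.cons (P.lf 0 253036 0) (P.cons (P.lf 32067 0 0) P.nil)))) (P.cons (P.cons (P.lf 0 7927877 0) (P.cons (P.lf 97831 0 0) (P.cons (P.lf 326532 0 0) P.nil))) (P.cons (P.cons (P.lf 0 883930 0) (P.cons (P.lf 1221683 0 0) P.nil)) (P.cons (P.cons (P.lf 931895 0 0) P.nil) P.nil)))))) 1782051)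
 (EL.cons 9 (TM.mk (P.cons (P.cons (P.lf 225761358 0 0) (P.cons (P.lf 0 251244021 0) (P.cons (P.lf 65901876 0 0) (P.cons (P.lf 3558084 0 0) (P.cons (P.lf 0 723999 0) (P.cons (P.lf 0 11805 0) P.nil)))))) (P.cons (P.cons (P.lf 0 170927140 0) (P.cons (P.lf 83019553 0 0) (P.cons (P.lf 8049058 0 0) (P.cons (P.lf 0 226296 0) (P.cons (P.lf 0 69681 0) P.nil))))) (P.cons (P.cons (P.lf 5158854 0 0) (P.cons (P.lf 25463547 0 0) (P.cons (P.lf 0 2635020 0) (P.cons (P.lf 0 231873 0) P.nil)))) (P.cons (P.cons (P.lf 16600431 0 0) (P.cons (P.lf 0 4673577 0) (P.cons (P.lf 0 387415 0) P.nil))) (P.cons (P.cons (P.lf 0 1112410 0) (P.cons (P.lf 0 942561 0) P.nil)) (P.cons (P.cons (P.lf 0 618088 0) P.nil) P.nil)))))) 521947)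
 (EL.cons 2 (TM.mk (P.cons (P.cons (P.lf 123248497 0 0) (P.cons (P.lf 0 64011386 0) (P.cons (P.lf 0 5897491 0) (P.cons (P.lf 1562495 0 0) (P.cons (P.lf 50101 0 0) (P.cons (P.lf 0 9354 0) P.nil)))))) (P.cons (P.cons (P.lf 0 164966467 0) (P.cons (P.lf 56416635 0 0) (P.cons (P.lf 6343284 0 0) (P.cons (P.lf 0 1415925 0) (P.cons (P.lf 0 47874 0) P.nil))))) (P.cons (P.cons (P.lf 30058931 0 0) (P.cons (P.lf 9918005 0 0) (P.cons (P.lf 0 85640 0) (P.cons (P.lf 0 208226 0) P.nil)))) (P.cons (P.cons (P.lf 13877583 0 0) (P.cons (P.lf 0 1980438 0) (P.cons (P.lf 0 387084 0) P.nil))) (P.cons (P.cons (P.lf 0 1820981 0) (P.cons (P.lf 0 383220 0) P.nil)) (P.cons (P.cons (P.lf 0 445173 0) P.nil) P.nil)))))) 364083)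
 (EL.cons 6 (TM.mk (P.cons (P.cons (P.lf 577932648 0 0) (P.cons (P.lf 0 300160032 0) (P.cons (P.lf 0 27654330 0) (P.cons (P.lf 7326804 0 0) (P.cons (P.lf 234936 0 0) (P.cons (P.lf 0 43878 0) P.nil)))))) (P.cons (P.cons (P.lf 0 190968564 0) (P.cons (P.lf 0 38030154 0) (P.cons (P.lf 1867692 0 0) (P.cons (P.lf 746274 0 0) (P.cons (P.lf 12330 0 0) P.nil))))) (P.cons (P.cons (P.lf 0 58573398 0) (P.cons (P.lf 11815890 0 0) (P.cons (P.lf 1816956 0 0) (P.cons (P.lf 0 313098 0) P.nil)))) (P.cons (P.cons (P.lf 10750548 0 0) (P.cons (P.lf 1838622 0 0) (P.cons (P.lf 0 121158 0) P.nil))) (P.cons (P.cons (P.lf 2168160 0 0) (P.cons (P.lf 0 220416 0) P.nil)) (P.cons (P.cons (P.lf 0 250104 0) P.nil) P.nil)))))) 244506)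
 EL.nil))))))
noncomputable def S227_256_438_512_3 : EL := (EL.cons 0 (TM.mk (P.cons (P.lf 96110806 0 0) (P.cons (P.lf 0 190686074 0) (P.cons (P.lf 92290364 0 0) (P.cons (P.lf 3016066 0 0) (P.cons (P.lf 0 708651 0) (P.cons (P.lf 0 26673 0) P.nil)))))) 4788)
 (EL.cons 1 (TM.mk (P.cons (P.lf 450679505 0 0) (P.cons (P.lf 0 439849933 0) (P.cons (P.lf 0 16100088 0) (P.cons (P.lf 5127871 0 0) (P.cons (P.lf 176304 0 0) (P.cons (P.lf 0 32482 0) P.nil)))))) 1651)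
 (EL.cons 5 (TM.mk (P.cons (P.lf 2113310914 0 0) (P.cons (P.lf 67799490 0 0) (P.cons (P.lf 0 32814348 0) (P.cons (P.lf 0 1072376 0) (P.cons (P.lf 251962 0 0) (P.cons (P.lf 9484 0 0) P.nil)))))) 1830)
 EL.nil)))
noncomputable def S227_256_438_512_4 : EL := (EL.cons 0 (TM.mk (P.cons (P.cons (P.lf 17991667 0 0) (P.cons (P.lf 0 10011232 0) (P.cons (P.lf 0 159340 0) (P.lf 53112 0 0)))) (P.cons (P.cons (P.lf 0 42506764 0) (P.cons (P.lf 19380747 0 0) (P.cons (P.lf 308469 0 0) (P.lf 0 102823 0)))) (P.cons (P.cons (P.lf 29705837 0 0) (P.cons (P.lf 0 8428125 0) (P.cons (P.lf 0 134143 0) (P.lf 44713 0 0)))) (P.cons (P.cons (P.lf 0 3574402 0) (P.cons (P.lf 0 1220359 0) (P.cons (P.lf 0 19422 0) P.nil))) (P.cons (P.cons (P.lf 0 1867269 0) (P.cons (P.lf 253706 0 0) P.nil)) (P.cons (P.cons (P.lf 213846 0 0) P.nil) P.nil)))))) 98442)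
 (EL.cons 1 (TM.mk (P.cons (P.cons (P.lf 84365919 0 0) (P.cons (P.lf 0 46944331 0) (P.cons (P.lf 0 747180 0) (P.lf 249058 0 0)))) (P.cons (P.cons (P.lf 0 114275975 0) (P.cons (P.lf 43557176 0 0) (P.cons (P.lf 693268 0 0) (P.lf 0 231090 0)))) (P.cons (P.cons (P.lf 23074861 0 0) (P.cons (P.lf 4957134 0 0) (P.cons (P.lf 78898 0 0) (P.lf 0 26298 0)))) (P.cons (P.cons (P.lf 8238138 0 0) (P.cons (P.lf 0 1449495 0) (P.cons (P.lf 0 23068 0) P.nil))) (P.cons (P.cons (P.lf 0 1213627 0) (P.cons (P.lf 0 146775 0) P.nil)) (P.cons (P.cons (P.lf 0 213886 0) P.nil) P.nil)))))) 83797)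
 (EL.cons 5 (TM.mk (P.cons (P.cons (P.lf 395605790 0 0) (P.cons (P.lf 0 220129764 0) (P.cons (P.lf 0 3503654 0) (P.lf 1167884 0 0)))) (P.cons (P.cons (P.lf 0 137067518 0) (P.cons (P.lf 0 17655570 0) (P.cons (P.lf 0 281010 0) (P.lf 93668 0 0)))) (P.cons (P.cons (P.lf 0 34773614 0) (P.cons (P.lf 8120316 0 0) (P.cons (P.lf 129242 0 0) (P.lf 0 43080 0)))) (P.cons (P.cons (P.lf 6885258 0 0) (P.cons (P.lf 688200 0 0) (P.cons (P.lf 10950 0 0) P.nil))) (P.cons (P.cons (P.lf 1069764 0 0) (P.cons (P.lf 0 148378 0) P.nil)) (P.cons (P.cons (P.lf 0 134560 0) P.nil) P.nil)))))) 46230)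
 EL.nil)))
noncomputable def S227_256_438_512_5 : EL := (EL.cons 0 (TM.mk (P.cons (P.cons (P.lf 3367988 0 0) (P.cons (P.lf 0 3748148 0) (P.cons (P.lf 983146 0 0) (P.cons (P.lf 53080 0 0) (P.cons (P.lf 0 10800 0) (P.cons (P.lf 0 175 0) P.nil)))))) (P.cons (P.cons (P.lf 0 9232120 0) (P.cons (P.lf 8674929 0 0) (P.cons (P.lf 0 1830508 0) (P.cons (P.lf 0 108689 0) (P.cons (P.lf 20388 0 0) P.nil))))) (P.cons (P.cons (P.lf 8370237 0 0) (P.cons (P.lf 0 5676526 0) (P.cons (P.lf 666516 0 0) (P.cons (P.lf 54209 0 0) P.nil)))) (P.cons (P.cons (P.lf 0 2247941 0) (P.cons (P.lf 248261 0 0) (P.cons (P.lf 218369 0 0) P.nil))) (P.cons (P.cons (P.lf 0 538890 0) (P.cons (P.lf 555544 0 0) P.nil)) (P.cons (P.cons (P.lf 281793 0 0) P.nil) P.nil)))))) 322656)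
 (EL.cons 1 (TM.mk (P.cons (P.cons (P.lf 15793059 0 0) (P.cons (P.lf 0 17575689 0) (P.cons (P.lf 4610141 0 0) (P.cons (P.lf 248904 0 0) (P.cons (P.lf 0 50645 0) (P.cons (P.lf 0 823 0) P.nil)))))) (P.cons (P.cons (P.lf 0 27370711 0) (P.cons (P.lf 22960961 0 0) (P.cons (P.lf 0 3936294 0) (P.cons (P.lf 0 258753 0) (P.cons (P.lf 44553 0 0) P.nil))))) (P.cons (P.cons (P.lf 11466521 0 0) (P.cons (P.lf 0 3258881 0) (P.cons (P.lf 0 898561 0) (P.cons (P.lf 0 9661 0) P.nil)))) (P.cons (P.cons (P.lf 1415913 0 0) (P.cons (P.lf 0 2472877 0) (P.cons (P.lf 185139 0 0) P.nil))) (P.cons (P.cons (P.lf 0 1353952 0) (P.cons (P.lf 248713 0 0) P.nil)) (P.cons (P.cons (P.lf 0 10485 0) P.nil) P.nil)))))) 317714)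
 (EL.cons 5 (TM.mk (P.cons (P.cons (P.lf 74056278 0 0) (P.cons (P.lf 0 82415330 0) (P.cons (P.lf 21617728 0 0) (P.cons (P.lf 1167154 0 0) (P.cons (P.lf 0 237492 0) (P.cons (P.lf 0 3870 0) P.nil)))))) (P.cons (P.cons (P.lf 0 53693180 0) (P.cons (P.lf 24588764 0 0) (P.cons (P.lf 3333866 0 0) (P.cons (P.lf 0 36786 0) (P.cons (P.lf 0 30474 0) P.nil))))) (P.cons (P.cons (P.lf 0 1256466 0) (P.cons (P.lf 10506168 0 0) (P.cons (P.lf 0 1115324 0) (P.cons (P.lf 0 96564 0) P.nil)))) (P.cons (P.cons (P.lf 6332744 0 0) (P.cons (P.lf 0 1646128 0) (P.cons (P.lf 0 206780 0) P.nil))) (P.cons (P.cons (P.lf 0 179196 0) (P.cons (P.lf 0 511712 0) P.nil)) (P.cons (P.cons (P.lf 0 306220 0) P.nil) P.nil)))))) 280808)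
 EL.nil)))
noncomputable def S227_256_438_512_6 : EL := (EL.cons 12 (TM.mk (P.lf 8589934592 0 0) 0)
 (EL.cons 3 (TM.mk (P.cons (P.lf 0 454308690 0) (P.cons (P.lf 450679503 0 0) (P.cons (P.lf 5414782 0 0) (P.cons (P.lf 0 1756837 0) (P.cons (P.lf 0 35658 0) (P.cons (P.lf 6731 0 0) P.nil)))))) 269)
 (EL.cons 7 (TM.mk (P.cons (P.lf 0 2130328762 0) (P.cons (P.lf 0 34172730 0) (P.cons (P.lf 16813380 0 0) (P.cons (P.lf 270802 0 0) (P.cons (P.lf 0 64991 0) (P.cons (P.lf 0 1601 0) P.nil)))))) 330)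
 EL.nil)))
noncomputable def S227_256_438_512_7 : EL := (EL.cons 12 (TM.mk (P.cons (P.cons (P.lf 1608011320 0 0) (P.cons (P.lf 0 894757264 0) (P.cons (P.lf 0 14241240 0) (P.lf 4747080 0 0)))) (P.cons (P.cons (P.lf 0 608724142 0) (P.cons (P.lf 0 43058560 0) (P.cons (P.lf 0 685328 0) (P.lf 228440 0 0)))) (P.cons (P.cons (P.lf 0 96846160 0) (P.cons (P.lf 20494600 0 0) (P.cons (P.lf 326192 0 0) (P.lf 0 108728 0)))) (P.cons (P.cons (P.lf 22457440 0 0) (P.cons (P.lf 1017184 0 0) (P.cons (P.lf 16184 0 0) P.nil))) (P.cons (P.cons (P.lf 1623392 0 0) (P.cons (P.lf 0 232688 0) P.nil)) (P.cons (P.cons (P.lf 0 234110 0) P.nil) P.nil)))))) 46534)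
 (EL.cons 3 (TM.mk (P.cons (P.cons (P.lf 0 2092051221 0) (P.cons (P.lf 0 94644722 0) (P.cons (P.lf 0 1506392 0) (P.lf 502130 0 0)))) (P.cons (P.cons (P.lf 0 538218560 0) (P.cons (P.lf 89334060 0 0) (P.cons (P.lf 1421868 0 0) (P.lf 0 473956 0)))) (P.cons (P.cons (P.lf 199267858 0 0) (P.cons (P.lf 7814122 0 0) (P.cons (P.lf 124370 0 0) (P.lf 0 41456 0)))) (P.cons (P.cons (P.lf 18788627 0 0) (P.cons (P.lf 0 2354654 0) (P.cons (P.lf 0 37474 0) P.nil))) (P.cons (P.cons (P.lf 0 3432173 0) (P.cons (P.lf 0 182226 0) P.nil)) (P.cons (P.cons (P.lf 0 313286 0) P.nil) P.nil)))))) 213325)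
 (EL.cons 7 (TM.mk (P.cons (P.cons (P.lf 0 246610457 0) (P.cons (P.lf 232667051 0 0) (P.cons (P.lf 3703207 0 0) (P.lf 0 1234403 0)))) (P.cons (P.cons (P.lf 40810376 0 0) (P.cons (P.lf 0 6773746 0) (P.cons (P.lf 0 107810 0) (P.lf 35936 0 0)))) (P.cons (P.cons (P.lf 0 35678965 0) (P.cons (P.lf 2821638 0 0) (P.cons (P.lf 44909 0 0) (P.lf 0 14969 0)))) (P.cons (P.cons (P.lf 8894643 0 0) (P.cons (P.lf 549302 0 0) (P.cons (P.lf 8739 0 0) P.nil))) (P.cons (P.cons (P.lf 1203174 0 0) (P.cons (P.lf 0 117722 0) P.nil)) (P.cons (P.cons (P.lf 0 170702 0) P.nil) P.nil)))))) 110303)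
 (EL.cons 10 (TM.mk (P.cons (P.cons (P.lf 0 3112155018 0) (P.cons (P.lf 0 115363341 0) (P.cons (P.lf 57162951 0 0) (P.cons (P.lf 518718 0 0) (P.lf 0 129678 0))))) (P.cons (P.cons (P.lf 0 99844524 0) (P.cons (P.lf 0 3701100 0) (P.cons (P.lf 1833906 0 0) (P.cons (P.lf 16641 0 0) (P.lf 0 4158 0))))) (P.cons (P.cons (P.lf 48323856 0 0) (P.cons (P.lf 1791297 0 0) (P.cons (P.lf 0 887595 0) (P.cons (P.lf 0 8052 0) P.nil)))) (P.cons (P.cons (P.lf 1579227 0 0) (P.cons (P.lf 58539 0 0) (P.cons (P.lf 0 29004 0) P.nil))) (P.cons (P.cons (P.lf 0 371049 0) (P.cons (P.lf 0 13752 0) P.nil)) (P.cons (P.cons (P.lf 0 13965 0) P.nil) P.nil)))))) 12969)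
 EL.nil))))
noncomputable def S227_256_438_512_8 : EL := (EL.cons 12 (TM.mk (P.cons (P.cons (P.lf 301015144 0 0) (P.cons (P.lf 0 334992028 0) (P.cons (P.lf 87869168 0 0) (P.cons (P.lf 4744112 0 0) (P.cons (P.lf 0 965332 0) (P.cons (P.lf 0 15740 0) P.nil)))))) (P.cons (P.cons (P.lf 0 227902854 0) (P.cons (P.lf 110692738 0 0) (P.cons (P.lf 10732078 0 0) (P.cons (P.lf 0 301728 0) (P.cons (P.lf 0 92908 0) P.nil))))) (P.cons (P.cons (P.lf 6878472 0 0) (P.cons (P.lf 33951396 0 0) (P.cons (P.lf 0 3513360 0) (P.cons (P.lf 0 309164 0) P.nil)))) (P.cons (P.cons (P.lf 22133908 0 0) (P.cons (P.lf 0 6231436 0) (P.cons (P.lf 0 516554 0) P.nil))) (P.cons (P.cons (P.lf 0 1483214 0) (P.cons (P.lf 0 1256748 0) P.nil)) (P.cons (P.cons (P.lf 0 824118 0) P.nil) P.nil)))))) 695900)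
 (EL.cons 3 (TM.mk (P.cons (P.cons (P.lf 0 767331832 0) (P.cons (P.lf 382678892 0 0) (P.cons (P.lf 30737139 0 0) (P.cons (P.lf 0 1245720 0) (P.cons (P.lf 0 255270 0) (P.cons (P.lf 0 4161 0) P.nil)))))) (P.cons (P.cons (P.lf 67153181 0 0) (P.cons (P.lf 203389144 0 0) (P.cons (P.lf 0 18840099 0) (P.cons (P.lf 0 1781840 0) (P.cons (P.lf 228665 0 0) P.nil))))) (P.cons (P.cons (P.lf 210190611 0 0) (P.cons (P.lf 0 57502215 0) (P.cons (P.lf 0 4634120 0) (P.cons (P.lf 186690 0 0) P.nil)))) (P.cons (P.cons (P.lf 0 18995552 0) (P.cons (P.lf 0 15723089 0) (P.cons (P.lf 769835 0 0) P.nil))) (P.cons (P.cons (P.lf 0 13335521 0) (P.cons (P.lf 2244335 0 0) P.nil)) (P.cons (P.cons (P.lf 918520 0 0) P.nil) P.nil)))))) 2107921)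
 (EL.cons 7 (TM.mk (P.cons (P.cons (P.lf 0 17676925 0) (P.cons (P.lf 55405821 0 0) (P.cons (P.lf 0 24474823 0) (P.cons (P.lf 0 1101127 0) (P.cons (P.lf 262631 0 0) (P.cons (P.lf 4281 0 0) P.nil)))))) (P.cons (P.cons (P.lf 0 5091879 0) (P.cons (P.lf 0 15421967 0) (P.cons (P.lf 1428544 0 0) (P.cons (P.lf 135102 0 0) (P.cons (P.lf 0 17339 0) P.nil))))) (P.cons (P.cons (P.lf 0 13371235 0) (P.cons (P.lf 12133169 0 0) (P.cons (P.lf 0 368642 0) (P.cons (P.lf 0 82251 0) P.nil)))) (P.cons (P.cons (P.lf 12130404 0 0) (P.cons (P.lf 0 1800365 0) (P.cons (P.lf 0 288730 0) P.nil))) (P.cons (P.cons (P.lf 0 169266 0) (P.cons (P.lf 0 1029021 0) P.nil)) (P.cons (P.cons (P.lf 0 848178 0) P.nil) P.nil)))))) 1062749)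
 (EL.cons 10 (TM.mk (P.cons (P.cons (P.lf 0 1165173132 0) (P.cons (P.lf 605154258 0 0) (P.cons (P.lf 55754046 0 0) (P.cons (P.lf 0 14771610 0) (P.cons (P.lf 0 473658 0) (P.cons (P.lf 88470 0 0) P.nil)))))) (P.cons (P.cons (P.lf 403703364 0 0) (P.cons (P.lf 66965484 0 0) (P.cons (P.lf 0 4659822 0) (P.cons (P.lf 0 1267620 0) (P.cons (P.lf 0 17268 0) P.nil))))) (P.cons (P.cons (P.lf 102418320 0 0) (P.cons (P.lf 0 20120166 0) (P.cons (P.lf 0 3148398 0) (P.cons (P.lf 534996 0 0) P.nil)))) (P.cons (P.cons (P.lf 0 20279070 0) (P.cons (P.lf 0 2778666 0) (P.cons (P.lf 265086 0 0) P.nil))) (P.cons (P.cons (P.lf 0 3150762 0) (P.cons (P.lf 320220 0 0) P.nil)) (P.cons (P.cons (P.lf 396318 0 0) P.nil) P.nil)))))) 340644)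
 EL.nil))))
noncomputable def S227_256_438_512_9 : EL := (EL.cons 3 (TM.mk (P.cons (P.lf 0 454308690 0) (P.cons (P.lf 450679503 0 0) (P.cons (P.lf 5414782 0 0) (P.cons (P.lf 0 1756837 0) (P.cons (P.lf 0 35658 0) (P.cons (P.lf 6731 0 0) P.nil)))))) 269)
 (EL.cons 7 (TM.mk (P.cons (P.lf 0 2130328762 0) (P.cons (P.lf 0 34172730 0) (P.cons (P.lf 16813380 0 0) (P.cons (P.lf 270802 0 0) (P.cons (P.lf 0 64991 0) (P.cons (P.lf 0 1601 0) P.nil)))))) 330)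
 EL.nil))
noncomputable def S227_256_438_512_10 : EL := (EL.cons 3 (TM.mk (P.cons (P.cons (P.lf 0 85045293 0) (P.cons (P.lf 47322361 0 0) (P.cons (P.lf 753196 0 0) (P.lf 0 251065 0)))) (P.cons (P.cons (P.lf 116560423 0 0) (P.cons (P.lf 0 44667030 0) (P.cons (P.lf 0 710934 0) (P.lf 236978 0 0)))) (P.cons (P.cons (P.lf 0 25801640 0) (P.cons (P.lf 0 3907061 0) (P.cons (P.lf 0 62185 0) (P.lf 20728 0 0)))) (P.cons (P.cons (P.lf 0 6981463 0) (P.cons (P.lf 1177327 0 0) (P.cons (P.lf 18737 0 0) P.nil))) (P.cons (P.cons (P.lf 1149166 0 0) (P.cons (P.lf 91113 0 0) P.nil)) (P.cons (P.cons (P.lf 135304 0 0) P.nil) P.nil)))))) 51378)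
 (EL.cons 7 (TM.mk (P.cons (P.cons (P.lf 0 398791484 0) (P.cons (P.lf 221902403 0 0) (P.cons (P.lf 3531868 0 0) (P.lf 0 1177289 0)))) (P.cons (P.cons (P.lf 144568319 0 0) (P.cons (P.lf 14238197 0 0) (P.cons (P.lf 226618 0 0) (P.lf 0 75538 0)))) (P.cons (P.cons (P.lf 29587190 0 0) (P.cons (P.lf 0 6662763 0) (P.cons (P.lf 0 106045 0) (P.lf 35347 0 0)))) (P.cons (P.cons (P.lf 0 6325017 0) (P.cons (P.lf 0 446284 0) (P.cons (P.lf 0 7101 0) P.nil))) (P.cons (P.cons (P.lf 0 712863 0) (P.cons (P.lf 99187 0 0) P.nil)) (P.cons (P.cons (P.lf 96811 0 0) P.nil) P.nil)))))) 25255)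
 EL.nil))
noncomputable def S227_256_438_512_11 : EL := (EL.cons 3 (TM.mk (P.cons (P.cons (P.lf 0 15920236 0) (P.cons (P.lf 17717222 0 0) (P.cons (P.lf 0 4647267 0) (P.cons (P.lf 0 250908 0) (P.cons (P.lf 51054 0 0) (P.cons (P.lf 831 0 0) P.nil)))))) (P.cons (P.cons (P.lf 27846497 0 0) (P.cons (P.lf 0 23430062 0) (P.cons (P.lf 4042539 0 0) (P.cons (P.lf 264862 0 0) (P.cons (P.lf 0 45733 0) P.nil))))) (P.cons (P.cons (P.lf 0 12131193 0) (P.cons (P.lf 3800799 0 0) (P.cons (P.lf 804274 0 0) (P.cons (P.lf 3510 0 0) P.nil)))) (P.cons (P.cons (P.lf 0 1014968 0) (P.cons (P.lf 2249155 0 0) (P.cons (P.lf 0 168217 0) P.nil))) (P.cons (P.cons (P.lf 1289419 0 0) (P.cons (P.lf 0 260317 0) P.nil)) (P.cons (P.cons (P.lf 0 20504 0) P.nil) P.nil)))))) 261645)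
 (EL.cons 7 (TM.mk (P.cons (P.cons (P.lf 0 74652631 0) (P.cons (P.lf 83078997 0 0) (P.cons (P.lf 0 21791809 0) (P.cons (P.lf 0 1176553 0) (P.cons (P.lf 239405 0 0) (P.cons (P.lf 3903 0 0) P.nil)))))) (P.cons (P.cons (P.lf 55323063 0 0) (P.cons (P.lf 0 26119445 0) (P.cons (P.lf 0 3011150 0) (P.cons (P.lf 55956 0 0) (P.cons (P.lf 26881 0 0) P.nil))))) (P.cons (P.cons (P.lf 0 210043 0) (P.cons (P.lf 0 9516097 0) (P.cons (P.lf 1000618 0 0) (P.cons (P.lf 87159 0 0) P.nil)))) (P.cons (P.cons (P.lf 0 5953230 0) (P.cons (P.lf 1616449 0 0) (P.cons (P.lf 165860 0 0) P.nil))) (P.cons (P.cons (P.lf 283788 0 0) (P.cons (P.lf 408945 0 0) P.nil)) (P.cons (P.cons (P.lf 255492 0 0) P.nil) P.nil)))))) 224281)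
 EL.nil))
noncomputable def S227_256_438_512_12 : EL := (EL.cons 4 (TM.mk (P.cons (P.lf 454308690 0 0) (P.cons (P.lf 0 450679503 0) (P.cons (P.lf 0 5414782 0) (P.cons (P.lf 1756837 0 0) (P.cons (P.lf 35658 0 0) (P.cons (P.lf 0 6731 0) P.nil)))))) 269)
 (EL.cons 8 (TM.mk (P.cons (P.lf 2130328762 0 0) (P.cons (P.lf 34172730 0 0) (P.cons (P.lf 0 16813380 0) (P.cons (P.lf 0 270802 0) (P.cons (P.lf 64991 0 0) (P.cons (P.lf 1601 0 0) P.nil)))))) 330)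
 EL.nil))
noncomputable def S227_256_438_512_13 : EL := (EL.cons 4 (TM.mk (P.cons (P.cons (P.lf 85045293 0 0) (P.cons (P.lf 0 47322361 0) (P.cons (P.lf 0 753196 0) (P.lf 251065 0 0)))) (P.cons (P.cons (P.lf 0 116560423 0) (P.cons (P.lf 44667030 0 0) (P.cons (P.lf 710934 0 0) (P.lf 0 236978 0)))) (P.cons (P.cons (P.lf 25801640 0 0) (P.cons (P.lf 3907061 0 0) (P.cons (P.lf 62185 0 0) (P.lf 0 20728 0)))) (P.cons (P.cons (P.lf 6981463 0 0) (P.cons (P.lf 0 1177327 0) (P.cons (P.lf 0 18737 0) P.nil))) (P.cons (P.cons (P.lf 0 1149166 0) (P.cons (P.lf 0 91113 0) P.nil)) (P.cons (P.cons (P.lf 0 135304 0) P.nil) P.nil)))))) 51378)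
 (EL.cons 8 (TM.mk (P.cons (P.cons (P.lf 398791484 0 0) (P.cons (P.lf 0 221902403 0) (P.cons (P.lf 0 3531868 0) (P.lf 1177289 0 0)))) (P.cons (P.cons (P.lf 0 144568319 0) (P.cons (P.lf 0 14238197 0) (P.cons (P.lf 0 226618 0) (P.lf 75538 0 0)))) (P.cons (P.cons (P.lf 0 29587190 0) (P.cons (P.lf 6662763 0 0) (P.cons (P.lf 106045 0 0) (P.lf 0 35347 0)))) (P.cons (P.cons (P.lf 6325017 0 0) (P.cons (P.lf 446284 0 0) (P.cons (P.lf 7101 0 0) P.nil))) (P.cons (P.cons (P.lf 712863 0 0) (P.cons (P.lf 0 99187 0) P.nil)) (P.cons (P.cons (P.lf 0 96811 0) P.nil) P.nil)))))) 25255)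
 EL.nil))
noncomputable def S227_256_438_512_14 : EL := (EL.cons 4 (TM.mk (P.cons (P.cons (P.lf 15920236 0 0) (P.cons (P.lf 0 17717222 0) (P.cons (P.lf 4647267 0 0) (P.cons (P.lf 250908 0 0) (P.cons (P.lf 0 51054 0) (P.cons (P.lf 0 831 0) P.nil)))))) (P.cons (P.cons (P.lf 0 27846497 0) (P.cons (P.lf 23430062 0 0) (P.cons (P.lf 0 4042539 0) (P.cons (P.lf 0 264862 0) (P.cons (P.lf 45733 0 0) P.nil))))) (P.cons (P.cons (P.lf 12131193 0 0) (P.cons (P.lf 0 3800799 0) (P.cons (P.lf 0 804274 0) (P.cons (P.lf 0 3510 0) P.nil)))) (P.cons (P.cons (P.lf 1014968 0 0) (P.cons (P.lf 0 2249155 0) (P.cons (P.lf 168217 0 0) P.nil))) (P.cons (P.cons (P.lf 0 1289419 0) (P.cons (P.lf 260317 0 0) P.nil)) (P.cons (P.cons (P.lf 20504 0 0) P.nil) P.nil)))))) 261645)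
 (EL.cons 8 (TM.mk (P.cons (P.cons (P.lf 74652631 0 0) (P.cons (P.lf 0 83078997 0) (P.cons (P.lf 21791809 0 0) (P.cons (P.lf 1176553 0 0) (P.cons (P.lf 0 239405 0) (P.cons (P.lf 0 3903 0) P.nil)))))) (P.cons (P.cons (P.lf 0 55323063 0) (P.cons (P.lf 26119445 0 0) (P.cons (P.lf 3011150 0 0) (P.cons (P.lf 0 55956 0) (P.cons (P.lf 0 26881 0) P.nil))))) (P.cons (P.cons (P.lf 210043 0 0) (P.cons (P.lf 9516097 0 0) (P.cons (P.lf 0 1000618 0) (P.cons (P.lf 0 87159 0) P.nil)))) (P.cons (P.cons (P.lf 5953230 0 0) (P.cons (P.lf 0 1616449 0) (P.cons (P.lf 0 165860 0) P.nil))) (P.cons (P.cons (P.lf 0 283788 0) (P.cons (P.lf 0 408945 0) P.nil)) (P.cons (P.cons (P.lf 0 255492 0) P.nil) P.nil)))))) 224281)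
 EL.nil))
noncomputable def S227_256_438_512_15 : EL := (EL.cons 4 (TM.mk (P.cons (P.lf 0 51259096 0) (P.cons (P.lf 101699239 0 0) (P.cons (P.lf 0 49221527 0) (P.cons (P.lf 0 1608569 0) (P.cons (P.lf 377947 0 0) (P.cons (P.lf 14225 0 0) P.nil)))))) 2557)
 (EL.cons 8 (TM.mk (P.cons (P.lf 0 240362403 0) (P.cons (P.lf 234586631 0 0) (P.cons (P.lf 8586714 0 0) (P.cons (P.lf 0 2734865 0) (P.cons (P.lf 0 94029 0) (P.cons (P.lf 17324 0 0) P.nil)))))) 877)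
 EL.nil))
noncomputable def S227_256_438_512_16 : EL := (EL.cons 4 (TM.mk (P.cons (P.cons (P.lf 0 9595556 0) (P.cons (P.lf 5339324 0 0) (P.cons (P.lf 84981 0 0) (P.lf 0 28326 0)))) (P.cons (P.cons (P.lf 22670274 0 0) (P.cons (P.lf 0 10336398 0) (P.cons (P.lf 0 164517 0) (P.lf 54839 0 0)))) (P.cons (P.cons (P.lf 0 15843113 0) (P.cons (P.lf 4495000 0 0) (P.cons (P.lf 71543 0 0) (P.lf 0 23847 0)))) (P.cons (P.cons (P.lf 1906348 0 0) (P.cons (P.lf 650858 0 0) (P.cons (P.lf 10358 0 0) P.nil))) (P.cons (P.cons (P.lf 995877 0 0) (P.cons (P.lf 0 135310 0) P.nil)) (P.cons (P.cons (P.lf 0 114051 0) P.nil) P.nil)))))) 52511)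
 (EL.cons 8 (TM.mk (P.cons (P.cons (P.lf 0 44995157 0) (P.cons (P.lf 25036977 0 0) (P.cons (P.lf 398496 0 0) (P.lf 0 132831 0)))) (P.cons (P.cons (P.lf 60947187 0 0) (P.cons (P.lf 0 23230494 0) (P.cons (P.lf 0 369743 0) (P.lf 123248 0 0)))) (P.cons (P.cons (P.lf 0 12306593 0) (P.cons (P.lf 0 2643805 0) (P.cons (P.lf 0 42079 0) (P.lf 14026 0 0)))) (P.cons (P.cons (P.lf 0 4393674 0) (P.cons (P.lf 773064 0 0) (P.cons (P.lf 12303 0 0) P.nil))) (P.cons (P.cons (P.lf 647268 0 0) (P.cons (P.lf 78280 0 0) P.nil)) (P.cons (P.cons (P.lf 114073 0 0) P.nil) P.nil)))))) 44682)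
 EL.nil))
noncomputable def S227_256_438_512_17 : EL := (EL.cons 4 (TM.mk (P.cons (P.cons (P.lf 0 1796260 0) (P.cons (P.lf 1999012 0 0) (P.cons (P.lf 0 524344 0) (P.cons (P.lf 0 28309 0) (P.cons (P.lf 5760 0 0) (P.cons (P.lf 93 0 0) P.nil)))))) (P.cons (P.cons (P.lf 4923797 0 0) (P.cons (P.lf 0 4626629 0) (P.cons (P.lf 976271 0 0) (P.cons (P.lf 57967 0 0) (P.cons (P.lf 0 10874 0) P.nil))))) (P.cons (P.cons (P.lf 0 4464126 0) (P.cons (P.lf 3027480 0 0) (P.cons (P.lf 0 355475 0) (P.cons (P.lf 0 28911 0) P.nil)))) (P.cons (P.cons (P.lf 1198902 0 0) (P.cons (P.lf 0 132405 0) (P.cons (P.lf 0 116463 0) P.nil))) (P.cons (P.cons (P.lf 287408 0 0) (P.cons (P.lf 0 296290 0) P.nil)) (P.cons (P.cons (P.lf 0 150289 0) P.nil) P.nil)))))) 172093)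
 (EL.cons 8 (TM.mk (P.cons (P.cons (P.lf 0 8422965 0) (P.cons (P.lf 9373701 0 0) (P.cons (P.lf 0 2458742 0) (P.cons (P.lf 0 132749 0) (P.cons (P.lf 27011 0 0) (P.cons (P.lf 439 0 0) P.nil)))))) (P.cons (P.cons (P.lf 14597713 0 0) (P.cons (P.lf 0 12245846 0) (P.cons (P.lf 2099357 0 0) (P.cons (P.lf 138002 0 0) (P.cons (P.lf 0 23762 0) P.nil))))) (P.cons (P.cons (P.lf 0 6115478 0) (P.cons (P.lf 1738070 0 0) (P.cons (P.lf 479233 0 0) (P.cons (P.lf 5153 0 0) P.nil)))) (P.cons (P.cons (P.lf 0 755154 0) (P.cons (P.lf 1318868 0 0) (P.cons (P.lf 0 98741 0) P.nil))) (P.cons (P.cons (P.lf 722108 0 0) (P.cons (P.lf 0 132647 0) P.nil)) (P.cons (P.cons (P.lf 5592 0 0) P.nil) P.nil)))))) 169436)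
 EL.nil))
noncomputable def S227_256_438_512_18 : EL := (EL.cons 4 (TM.mk (P.cons (P.lf 5783501 0 0) (P.cons (P.lf 0 17211901 0) (P.cons (P.lf 16867610 0 0) (P.cons (P.lf 0 5168619 0) (P.cons (P.lf 0 332796 0) (P.cons (P.lf 59024 0 0) P.nil)))))) 4306)
 (EL.cons 8 (TM.mk (P.cons (P.lf 27119797 0 0) (P.cons (P.lf 0 53371278 0) (P.cons (P.lf 24964624 0 0) (P.cons (P.lf 1690000 0 0) (P.cons (P.lf 0 384174 0) (P.cons (P.lf 0 22382 0) P.nil)))))) 4185)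
 EL.nil))
noncomputable def S227_256_438_512_19 : EL := (EL.cons 4 (TM.mk (P.cons (P.cons (P.lf 1082654 0 0) (P.cons (P.lf 0 602429 0) (P.cons (P.lf 0 9587 0) (P.lf 3195 0 0)))) (P.cons (P.cons (P.lf 0 3631865 0) (P.cons (P.lf 1763860 0 0) (P.cons (P.lf 28073 0 0) (P.lf 0 9357 0)))) (P.cons (P.cons (P.lf 4312080 0 0) (P.cons (P.lf 0 1656911 0) (P.cons (P.lf 0 26371 0) (P.lf 8790 0 0)))) (P.cons (P.cons (P.lf 0 1953696 0) (P.cons (P.lf 413447 0 0) (P.cons (P.lf 6580 0 0) P.nil))) (P.cons (P.cons (P.lf 69897 0 0) (P.cons (P.lf 98623 0 0) P.nil)) (P.cons (P.cons (P.lf 133592 0 0) P.nil) P.nil)))))) 61698)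
 (EL.cons 8 (TM.mk (P.cons (P.cons (P.lf 5076748 0 0) (P.cons (P.lf 0 2824891 0) (P.cons (P.lf 0 44961 0) (P.lf 14986 0 0)))) (P.cons (P.cons (P.lf 0 11912790 0) (P.cons (P.lf 5423393 0 0) (P.cons (P.lf 86320 0 0) (P.lf 0 28773 0)))) (P.cons (P.cons (P.lf 8149693 0 0) (P.cons (P.lf 0 2268163 0) (P.cons (P.lf 0 36100 0) (P.lf 12033 0 0)))) (P.cons (P.cons (P.lf 0 780120 0) (P.cons (P.lf 0 425302 0) (P.cons (P.lf 0 6768 0) P.nil))) (P.cons (P.cons (P.lf 0 607546 0) (P.cons (P.lf 84053 0 0) P.nil)) (P.cons (P.cons (P.lf 58422 0 0) P.nil) P.nil)))))) 40631)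
 EL.nil))
noncomputable def S227_256_438_512_20 : EL := (EL.cons 4 (TM.mk (P.cons (P.cons (P.lf 202669 0 0) (P.cons (P.lf 0 225545 0) (P.cons (P.lf 59160 0 0) (P.cons (P.lf 3194 0 0) (P.cons (P.lf 0 649 0) (P.cons (P.lf 0 10 0) P.nil)))))) (P.cons (P.cons (P.lf 0 756596 0) (P.cons (P.lf 745760 0 0) (P.cons (P.lf 0 168840 0) (P.cons (P.lf 0 9708 0) (P.cons (P.lf 1871 0 0) P.nil))))) (P.cons (P.cons (P.lf 1052373 0 0) (P.cons (P.lf 0 856745 0) (P.cons (P.lf 148674 0 0) (P.cons (P.lf 9711 0 0) P.nil)))) (P.cons (P.cons (P.lf 0 627523 0) (P.cons (P.lf 346703 0 0) (P.cons (P.lf 0 25105 0) P.nil))) (P.cons (P.cons (P.lf 93626 0 0) (P.cons (P.lf 24681 0 0) P.nil)) (P.cons (P.cons (P.lf 52638 0 0) P.nil) P.nil)))))) 110401)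
 (EL.cons 8 (TM.mk (P.cons (P.cons (P.lf 950352 0 0) (P.cons (P.lf 0 1057623 0) (P.cons (P.lf 277416 0 0) (P.cons (P.lf 14977 0 0) (P.cons (P.lf 0 3047 0) (P.cons (P.lf 0 49 0) P.nil)))))) (P.cons (P.cons (P.lf 0 2589803 0) (P.cons (P.lf 2430858 0 0) (P.cons (P.lf 0 512068 0) (P.cons (P.lf 0 30428 0) (P.cons (P.lf 5704 0 0) P.nil))))) (P.cons (P.cons (P.lf 2312559 0 0) (P.cons (P.lf 0 1554145 0) (P.cons (P.lf 177597 0 0) (P.cons (P.lf 14686 0 0) P.nil)))) (P.cons (P.cons (P.lf 0 575980 0) (P.cons (P.lf 25173 0 0) (P.cons (P.lf 68675 0 0) P.nil))) (P.cons (P.cons (P.lf 0 180515 0) (P.cons (P.lf 170181 0 0) P.nil)) (P.cons (P.cons (P.lf 81702 0 0) P.nil) P.nil)))))) 105114)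
 EL.nil))
noncomputable def S227_256_438_512_21 : EL := (EL.cons 4 (TM.mk (P.cons (P.cons (P.lf 2007005928 0 0) (P.cons (P.lf 141967083 0 0) (P.cons (P.lf 2259588 0 0) (P.lf 0 753195 0)))) (P.cons (P.cons (P.lf 654778983 0 0) (P.cons (P.lf 0 134001090 0) (P.cons (P.lf 0 2132802 0) (P.lf 710934 0 0)))) (P.cons (P.cons (P.lf 0 225069498 0) (P.cons (P.lf 0 11721183 0) (P.cons (P.lf 0 186555 0) (P.lf 62184 0 0)))) (P.cons (P.cons (P.lf 0 25770090 0) (P.cons (P.lf 3531981 0 0) (P.cons (P.lf 56211 0 0) P.nil))) (P.cons (P.cons (P.lf 4581339 0 0) (P.cons (P.lf 273339 0 0) P.nil)) (P.cons (P.cons (P.lf 448590 0 0) P.nil) P.nil)))))) 161928)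
 (EL.cons 8 (TM.mk (P.cons (P.cons (P.lf 0 152181027 0) (P.cons (P.lf 0 10764648 0) (P.cons (P.lf 0 171339 0) (P.lf 57114 0 0)))) (P.cons (P.cons (P.lf 103757943 0 0) (P.cons (P.lf 21011943 0 0) (P.cons (P.lf 334428 0 0) (P.lf 0 111474 0)))) (P.cons (P.cons (P.lf 65266155 0 0) (P.cons (P.lf 0 9484401 0) (P.cons (P.lf 0 150954 0) (P.lf 50316 0 0)))) (P.cons (P.cons (P.lf 0 15219660 0) (P.cons (P.lf 0 995586 0) (P.cons (P.lf 0 15840 0) P.nil))) (P.cons (P.cons (P.lf 0 1916037 0) (P.cons (P.lf 216909 0 0) P.nil)) (P.cons (P.cons (P.lf 267513 0 0) P.nil) P.nil)))))) 85029)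
 (EL.cons 11 (TM.mk (P.cons (P.cons (P.lf 3112155018 0 0) (P.cons (P.lf 115363341 0 0) (P.cons (P.lf 0 57162951 0) (P.cons (P.lf 0 518718 0) (P.lf 129678 0 0))))) (P.cons (P.cons (P.lf 99844524 0 0) (P.cons (P.lf 3701100 0 0) (P.cons (P.lf 0 1833906 0) (P.cons (P.lf 0 16641 0) (P.lf 4158 0 0))))) (P.cons (P.cons (P.lf 0 48323856 0) (P.cons (P.lf 0 1791297 0) (P.cons (P.lf 887595 0 0) (P.cons (P.lf 8052 0 0) P.nil)))) (P.cons (P.cons (P.lf 0 1579227 0) (P.cons (P.lf 0 58539 0) (P.cons (P.lf 29004 0 0) P.nil))) (P.cons (P.cons (P.lf 371049 0 0) (P.cons (P.lf 13752 0 0) P.nil)) (P.cons (P.cons (P.lf 13965 0 0) P.nil) P.nil)))))) 12969)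
 EL.nil)))
noncomputable def S227_256_438_512_22 : EL := (EL.cons 4 (TM.mk (P.cons (P.cons (P.lf 375705798 0 0) (P.cons (P.lf 0 182480835 0) (P.cons (P.lf 0 17692203 0) (P.cons (P.lf 497406 0 0) (P.cons (P.lf 153162 0 0) (P.cons (P.lf 2496 0 0) P.nil)))))) (P.cons (P.cons (P.lf 0 19653342 0) (P.cons (P.lf 0 113409603 0) (P.cons (P.lf 11441319 0 0) (P.cons (P.lf 1023351 0 0) (P.cons (P.lf 0 137199 0) P.nil))))) (P.cons (P.cons (P.lf 0 111160902 0) (P.cons (P.lf 30651507 0 0) (P.cons (P.lf 2719197 0 0) (P.cons (P.lf 0 91590 0) P.nil)))) (P.cons (P.cons (P.lf 8990292 0 0) (P.cons (P.lf 8986122 0 0) (P.cons (P.lf 0 469026 0) P.nil))) (P.cons (P.cons (P.lf 7312470 0 0) (P.cons (P.lf 0 1252326 0) P.nil)) (P.cons (P.cons (P.lf 0 469512 0) P.nil) P.nil)))))) 923127)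
 (EL.cons 8 (TM.mk (P.cons (P.cons (P.lf 0 28487853 0) (P.cons (P.lf 13836588 0 0) (P.cons (P.lf 1341507 0 0) (P.cons (P.lf 0 37713 0) (P.cons (P.lf 0 11613 0) (P.cons (P.lf 0 189 0) P.nil)))))) (P.cons (P.cons (P.lf 30207471 0 0) (P.cons (P.lf 0 5348739 0) (P.cons (P.lf 0 2219847 0) (P.cons (P.lf 0 39573 0) (P.cons (P.lf 22110 0 0) P.nil))))) (P.cons (P.cons (P.lf 6580596 0 0) (P.cons (P.lf 0 10824633 0) (P.cons (P.lf 684630 0 0) (P.cons (P.lf 84705 0 0) P.nil)))) (P.cons (P.cons (P.lf 0 9041817 0) (P.cons (P.lf 1708407 0 0) (P.cons (P.lf 227295 0 0) P.nil))) (P.cons (P.cons (P.lf 226527 0 0) (P.cons (P.lf 718983 0 0) P.nil)) (P.cons (P.cons (P.lf 551835 0 0) P.nil) P.nil)))))) 419223)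
 (EL.cons 11 (TM.mk (P.cons (P.cons (P.lf 582586566 0 0) (P.cons (P.lf 0 302577129 0) (P.cons (P.lf 0 27877023 0) (P.cons (P.lf 7385805 0 0) (P.cons (P.lf 236829 0 0) (P.cons (P.lf 0 44235 0) P.nil)))))) (P.cons (P.cons (P.lf 0 201851682 0) (P.cons (P.lf 0 33482742 0) (P.cons (P.lf 2329911 0 0) (P.cons (P.lf 633810 0 0) (P.cons (P.lf 8634 0 0) P.nil))))) (P.cons (P.cons (P.lf 0 51209160 0) (P.cons (P.lf 10060083 0 0) (P.cons (P.lf 1574199 0 0) (P.cons (P.lf 0 267498 0) P.nil)))) (P.cons (P.cons (P.lf 10139535 0 0) (P.cons (P.lf 1389333 0 0) (P.cons (P.lf 0 132543 0) P.nil))) (P.cons (P.cons (P.lf 1575381 0 0) (P.cons (P.lf 0 160110 0) P.nil)) (P.cons (P.cons (P.lf 0 198159 0) P.nil) P.nil)))))) 170322)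
 EL.nil)))
noncomputable def S227_256_438_512_23 : EL := (EL.cons 4 (TM.mk (P.cons (P.cons (P.lf 0 226448037 0) (P.cons (P.lf 0 16017972 0) (P.cons (P.lf 0 254946 0) (P.lf 84981 0 0)))) (P.cons (P.cons (P.lf 150761169 0 0) (P.cons (P.lf 31009194 0 0) (P.cons (P.lf 493551 0 0) (P.lf 0 164517 0)))) (P.cons (P.cons (P.lf 101381040 0 0) (P.cons (P.lf 0 13485000 0) (P.cons (P.lf 0 214629 0) (P.lf 71544 0 0)))) (P.cons (P.cons (P.lf 0 22279005 0) (P.cons (P.lf 0 1952574 0) (P.cons (P.lf 0 31074 0) P.nil))) (P.cons (P.cons (P.lf 0 4007418 0) (P.cons (P.lf 405930 0 0) P.nil)) (P.cons (P.cons (P.lf 523266 0 0) P.nil) P.nil)))))) 171834)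
 (EL.cons 8 (TM.mk (P.cons (P.cons (P.lf 17170398 0 0) (P.cons (P.lf 1214562 0 0) (P.cons (P.lf 19329 0 0) (P.lf 0 6444 0)))) (P.cons (P.cons (P.lf 0 28740117 0) (P.cons (P.lf 0 3575610 0) (P.cons (P.lf 0 56910 0) (P.lf 18969 0 0)))) (P.cons (P.cons (P.lf 4044813 0 0) (P.cons (P.lf 3407448 0 0) (P.cons (P.lf 54231 0 0) (P.lf 0 18075 0)))) (P.cons (P.cons (P.lf 9228219 0 0) (P.cons (P.lf 0 916281 0) (P.cons (P.lf 0 14583 0) P.nil))) (P.cons (P.cons (P.lf 0 1443468 0) (P.cons (P.lf 0 157731 0) P.nil)) (P.cons (P.cons (P.lf 0 294756 0) P.nil) P.nil)))))) 99957)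
 (EL.cons 11 (TM.mk (P.cons (P.cons (P.lf 0 351140664 0) (P.cons (P.lf 0 13016304 0) (P.cons (P.lf 6449625 0 0) (P.cons (P.lf 58524 0 0) (P.lf 0 14631 0))))) (P.cons (P.cons (P.lf 337070286 0 0) (P.cons (P.lf 12494733 0 0) (P.cons (P.lf 0 6191184 0) (P.cons (P.lf 0 56181 0) (P.lf 14043 0 0))))) (P.cons (P.cons (P.lf 20812815 0 0) (P.cons (P.lf 771501 0 0) (P.cons (P.lf 0 382281 0) (P.cons (P.lf 0 3468 0) P.nil)))) (P.cons (P.cons (P.lf 0 6454194 0) (P.cons (P.lf 0 239247 0) (P.cons (P.lf 118548 0 0) P.nil))) (P.cons (P.cons (P.lf 0 354732 0) (P.cons (P.lf 0 13149 0) P.nil)) (P.cons (P.cons (P.lf 63234 0 0) P.nil) P.nil)))))) 17751)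
 EL.nil)))
noncomputable def S227_256_438_512_24 : EL := (EL.cons 4 (TM.mk (P.cons (P.cons (P.lf 0 42390426 0) (P.cons (P.lf 20589090 0 0) (P.cons (P.lf 1996188 0 0) (P.cons (P.lf 0 56121 0) (P.cons (P.lf 0 17280 0) (P.cons (P.lf 0 279 0) P.nil)))))) (P.cons (P.cons (P.lf 44269260 0 0) (P.cons (P.lf 0 7628748 0) (P.cons (P.lf 0 3271152 0) (P.cons (P.lf 0 59787 0) (P.cons (P.lf 32622 0 0) P.nil))))) (P.cons (P.cons (P.lf 10847640 0 0) (P.cons (P.lf 0 16397415 0) (P.cons (P.lf 950001 0 0) (P.cons (P.lf 125544 0 0) P.nil)))) (P.cons (P.cons (P.lf 0 13646676 0) (P.cons (P.lf 2343960 0 0) (P.cons (P.lf 380376 0 0) P.nil))) (P.cons (P.cons (P.lf 36963 0 0) (P.cons (P.lf 1239408 0 0) P.nil)) (P.cons (P.cons (P.lf 932832 0 0) P.nil) P.nil)))))) 758985)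
 (EL.cons 8 (TM.mk (P.cons (P.cons (P.lf 3214248 0 0) (P.cons (P.lf 0 1561164 0) (P.cons (P.lf 0 151359 0) (P.cons (P.lf 4254 0 0) (P.cons (P.lf 1308 0 0) (P.cons (P.lf 21 0 0) P.nil)))))) (P.cons (P.cons (P.lf 0 6596844 0) (P.cons (P.lf 2152185 0 0) (P.cons (P.lf 400614 0 0) (P.cons (P.lf 243 0 0) (P.cons (P.lf 0 3792 0) P.nil))))) (P.cons (P.cons (P.lf 2600253 0 0) (P.cons (P.lf 641265 0 0) (P.cons (P.lf 0 323904 0) (P.cons (P.lf 0 14037 0) P.nil)))) (P.cons (P.cons (P.lf 1809777 0 0) (P.cons (P.lf 0 1417560 0) (P.cons (P.lf 47412 0 0) P.nil))) (P.cons (P.cons (P.lf 0 1041663 0) (P.cons (P.lf 97749 0 0) P.nil)) (P.cons (P.cons (P.lf 0 52251 0) P.nil) P.nil)))))) 275460)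
 (EL.cons 11 (TM.mk (P.cons (P.cons (P.lf 0 65732532 0) (P.cons (P.lf 34139406 0 0) (P.cons (P.lf 3145329 0 0) (P.cons (P.lf 0 833331 0) (P.cons (P.lf 0 26721 0) (P.cons (P.lf 4989 0 0) P.nil)))))) (P.cons (P.cons (P.lf 87982116 0 0) (P.cons (P.lf 0 30088872 0) (P.cons (P.lf 0 3383085 0) (P.cons (P.lf 755160 0 0) (P.cons (P.lf 25533 0 0) P.nil))))) (P.cons (P.cons (P.lf 0 16031430 0) (P.cons (P.lf 0 5289603 0) (P.cons (P.lf 45675 0 0) (P.cons (P.lf 111054 0 0) P.nil)))) (P.cons (P.cons (P.lf 0 7401378 0) (P.cons (P.lf 1056234 0 0) (P.cons (P.lf 206445 0 0) P.nil))) (P.cons (P.cons (P.lf 971190 0 0) (P.cons (P.lf 204384 0 0) P.nil)) (P.cons (P.cons (P.lf 237426 0 0) P.nil) P.nil)))))) 194166)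
 EL.nil)))
noncomputable def S227_256_438_512_25 : EL := (EL.cons 4 (TM.mk (P.cons (P.cons (P.lf 25549854 0 0) (P.cons (P.lf 1807287 0 0) (P.cons (P.lf 28764 0 0) (P.lf 0 9588 0)))) (P.cons (P.cons (P.lf 0 42355953 0) (P.cons (P.lf 0 5291580 0) (P.cons (P.lf 0 84222 0) (P.lf 28074 0 0)))) (P.cons (P.cons (P.lf 5131092 0 0) (P.cons (P.lf 4970736 0 0) (P.cons (P.lf 79113 0 0) (P.lf 0 26370 0)))) (P.cons (P.cons (P.lf 14162577 0 0) (P.cons (P.lf 0 1240344 0) (P.cons (P.lf 0 19740 0) P.nil))) (P.cons (P.cons (P.lf 0 1968918 0) (P.cons (P.lf 0 295869 0) P.nil)) (P.cons (P.cons (P.lf 0 583485 0) P.nil) P.nil)))))) 214917)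
 (EL.cons 8 (TM.mk (P.cons (P.cons (P.lf 0 1937313 0) (P.cons (P.lf 0 137037 0) (P.cons (P.lf 0 2181 0) (P.lf 726 0 0)))) (P.cons (P.cons (P.lf 5164551 0 0) (P.cons (P.lf 539373 0 0) (P.cons (P.lf 8583 0 0) (P.lf 0 2859 0)))) (P.cons (P.cons (P.lf 0 3650088 0) (P.cons (P.lf 0 783033 0) (P.cons (P.lf 0 12462 0) (P.lf 4152 0 0)))) (P.cons (P.cons (P.lf 0 634623 0) (P.cons (P.lf 479430 0 0) (P.cons (P.lf 7629 0 0) P.nil))) (P.cons (P.cons (P.lf 1213581 0 0) (P.cons (P.lf 0 78627 0) P.nil)) (P.cons (P.cons (P.lf 0 117378 0) P.nil) P.nil)))))) 87192)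
 (EL.cons 11 (TM.mk (P.cons (P.cons (P.lf 39618774 0 0) (P.cons (P.lf 1468611 0 0) (P.cons (P.lf 0 727701 0) (P.cons (P.lf 0 6603 0) (P.lf 1650 0 0))))) (P.cons (P.cons (P.lf 0 77333514 0) (P.cons (P.lf 0 2866647 0) (P.cons (P.lf 1420434 0 0) (P.cons (P.lf 12888 0 0) (P.lf 0 3222 0))))) (P.cons (P.cons (P.lf 34906932 0 0) (P.cons (P.lf 1293951 0 0) (P.cons (P.lf 0 641157 0) (P.cons (P.lf 0 5817 0) P.nil)))) (P.cons (P.cons (P.lf 3664236 0 0) (P.cons (P.lf 135828 0 0) (P.cons (P.lf 0 67302 0) P.nil))) (P.cons (P.cons (P.lf 0 798345 0) (P.cons (P.lf 0 29592 0) P.nil)) (P.cons (P.cons (P.lf 0 68169 0) P.nil) P.nil)))))) 38373)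
 EL.nil)))
noncomputable def S227_256_438_512_26 : EL := (EL.cons 4 (TM.mk (P.cons (P.cons (P.lf 4782858 0 0) (P.cons (P.lf 0 2323041 0) (P.cons (P.lf 0 225225 0) (P.cons (P.lf 6330 0 0) (P.cons (P.lf 1947 0 0) (P.cons (P.lf 30 0 0) P.nil)))))) (P.cons (P.cons (P.lf 0 9739497 0) (P.cons (P.lf 3165225 0 0) (P.cons (P.lf 592506 0 0) (P.cons (P.lf 462 0 0) (P.cons (P.lf 0 5613 0) P.nil))))) (P.cons (P.cons (P.lf 3674013 0 0) (P.cons (P.lf 1023921 0 0) (P.cons (P.lf 0 470634 0) (P.cons (P.lf 0 20931 0) P.nil)))) (P.cons (P.cons (P.lf 2831913 0 0) (P.cons (P.lf 0 2119029 0) (P.cons (P.lf 58143 0 0) P.nil))) (P.cons (P.cons (P.lf 0 1535958 0) (P.cons (P.lf 103605 0 0) P.nil)) (P.cons (P.cons (P.lf 0 124659 0) P.nil) P.nil)))))) 463590)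
 (EL.cons 8 (TM.mk (P.cons (P.cons (P.lf 0 362658 0) (P.cons (P.lf 176142 0 0) (P.cons (P.lf 17076 0 0) (P.cons (P.lf 0 480 0) (P.cons (P.lf 0 147 0) (P.cons (P.lf 0 0 0) P.nil)))))) (P.cons (P.cons (P.lf 1104075 0 0) (P.cons (P.lf 0 417564 0) (P.cons (P.lf 0 62142 0) (P.cons (P.lf 447 0 0) (P.cons (P.lf 573 0 0) P.nil))))) (P.cons (P.cons (P.lf 0 1027428 0) (P.cons (P.lf 166434 0 0) (P.cons (P.lf 81180 0 0) (P.cons (P.lf 1614 0 0) P.nil)))) (P.cons (P.cons (P.lf 76569 0 0) (P.cons (P.lf 235290 0 0) (P.cons (P.lf 0 40998 0) P.nil))) (P.cons (P.cons (P.lf 326439 0 0) (P.cons (P.lf 0 169755 0) P.nil)) (P.cons (P.cons (P.lf 0 109332 0) P.nil) P.nil)))))) 148842)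
 (EL.cons 11 (TM.mk (P.cons (P.cons (P.lf 7416519 0 0) (P.cons (P.lf 0 3851907 0) (P.cons (P.lf 0 354882 0) (P.cons (P.lf 94023 0 0) (P.cons (P.lf 3012 0 0) (P.cons (P.lf 0 561 0) P.nil)))))) (P.cons (P.cons (P.lf 0 17284188 0) (P.cons (P.lf 7216026 0 0) (P.cons (P.lf 733758 0 0) (P.cons (P.lf 0 178476 0) (P.cons (P.lf 0 5871 0) P.nil))))) (P.cons (P.cons (P.lf 11568024 0 0) (P.cons (P.lf 0 2725041 0) (P.cons (P.lf 0 379581 0) (P.cons (P.lf 70869 0 0) P.nil)))) (P.cons (P.cons (P.lf 0 812271 0) (P.cons (P.lf 0 766581 0) (P.cons (P.lf 0 24099 0) P.nil))) (P.cons (P.cons (P.lf 0 997359 0) (P.cons (P.lf 100872 0 0) P.nil)) (P.cons (P.cons (P.lf 78066 0 0) P.nil) P.nil)))))) 142185)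
 EL.nil)))
noncomputable def S227_256_438_512_27 : EL := (EL.cons 13 (TM.mk (P.lf 0 4294967296 0) 0)
 EL.nil)
noncomputable def S227_256_438_512_28 : EL := (EL.cons 13 (TM.mk (P.cons (P.cons (P.lf 0 804005660 0) (P.cons (P.lf 447378632 0 0) (P.cons (P.lf 7120620 0 0) (P.lf 0 2373540 0)))) (P.cons (P.cons (P.lf 304362071 0 0) (P.cons (P.lf 21529280 0 0) (P.cons (P.lf 342664 0 0) (P.lf 0 114220 0)))) (P.cons (P.cons (P.lf 48423080 0 0) (P.cons (P.lf 0 10247300 0) (P.cons (P.lf 0 163096 0) (P.lf 54364 0 0)))) (P.cons (P.cons (P.lf 0 11228720 0) (P.cons (P.lf 0 508592 0) (P.cons (P.lf 0 8092 0) P.nil))) (P.cons (P.cons (P.lf 0 811696 0) (P.cons (P.lf 116344 0 0) P.nil)) (P.cons (P.cons (P.lf 117055 0 0) P.nil) P.nil)))))) 23267)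
 EL.nil)
noncomputable def S227_256_438_512_29 : EL := (EL.cons 13 (TM.mk (P.cons (P.cons (P.lf 0 150507572 0) (P.cons (P.lf 167496014 0 0) (P.cons (P.lf 0 43934584 0) (P.cons (P.lf 0 2372056 0) (P.cons (P.lf 482666 0 0) (P.cons (P.lf 7870 0 0) P.nil)))))) (P.cons (P.cons (P.lf 113951427 0 0) (P.cons (P.lf 0 55346369 0) (P.cons (P.lf 0 5366039 0) (P.cons (P.lf 150864 0 0) (P.cons (P.lf 46454 0 0) P.nil))))) (P.cons (P.cons (P.lf 0 3439236 0) (P.cons (P.lf 0 16975698 0) (P.cons (P.lf 1756680 0 0) (P.cons (P.lf 154582 0 0) P.nil)))) (P.cons (P.cons (P.lf 0 11066954 0) (P.cons (P.lf 3115718 0 0) (P.cons (P.lf 258277 0 0) P.nil))) (P.cons (P.cons (P.lf 741607 0 0) (P.cons (P.lf 628374 0 0) P.nil)) (P.cons (P.cons (P.lf 412059 0 0) P.nil) P.nil)))))) 347950)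
 EL.nil)
noncomputable def S227_256_438_512_30 : EL := (EL.cons 13 (TM.mk (P.cons (P.lf 484595936 0 0) (P.cons (P.lf 0 480724804 0) (P.cons (P.lf 0 5775768 0) (P.cons (P.lf 1873960 0 0) (P.cons (P.lf 38036 0 0) (P.cons (P.lf 0 7180 0) P.nil)))))) 280)
 EL.nil)
noncomputable def S227_256_438_512_31 : EL := (EL.cons 13 (TM.mk (P.cons (P.cons (P.lf 90714980 0 0) (P.cons (P.lf 0 50477186 0) (P.cons (P.lf 0 803410 0) (P.lf 267803 0 0)))) (P.cons (P.cons (P.lf 0 124331118 0) (P.cons (P.lf 47644833 0 0) (P.cons (P.lf 758330 0 0) (P.lf 0 252777 0)))) (P.cons (P.cons (P.lf 27521750 0 0) (P.cons (P.lf 4167532 0 0) (P.cons (P.lf 66331 0 0) (P.lf 0 22110 0)))) (P.cons (P.cons (P.lf 7446894 0 0) (P.cons (P.lf 0 1255816 0) (P.cons (P.lf 0 19987 0) P.nil))) (P.cons (P.cons (P.lf 0 1225778 0) (P.cons (P.lf 0 97188 0) P.nil)) (P.cons (P.cons (P.lf 0 144325 0) P.nil) P.nil)))))) 54783)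
 EL.nil)
noncomputable def S227_256_438_512_32 : EL := (EL.cons 13 (TM.mk (P.cons (P.cons (P.lf 16981586 0 0) (P.cons (P.lf 0 18898371 0) (P.cons (P.lf 4957085 0 0) (P.cons (P.lf 267636 0 0) (P.cons (P.lf 0 54458 0) (P.cons (P.lf 0 887 0) P.nil)))))) (P.cons (P.cons (P.lf 0 29702931 0) (P.cons (P.lf 24992067 0 0) (P.cons (P.lf 0 4312042 0) (P.cons (P.lf 0 282520 0) (P.cons (P.lf 48782 0 0) P.nil))))) (P.cons (P.cons (P.lf 12939940 0 0) (P.cons (P.lf 0 4054186 0) (P.cons (P.lf 0 857893 0) (P.cons (P.lf 0 3745 0) P.nil)))) (P.cons (P.cons (P.lf 1082633 0 0) (P.cons (P.lf 0 2399099 0) (P.cons (P.lf 179432 0 0) P.nil))) (P.cons (P.cons (P.lf 0 1375381 0) (P.cons (P.lf 277672 0 0) P.nil)) (P.cons (P.cons (P.lf 21871 0 0) P.nil) P.nil)))))) 279065)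
 EL.nil)
noncomputable def S227_256_438_512_33 : EL := (EL.cons 14 (TM.mk (P.lf 8589934592 0 0) 0)
 EL.nil)
noncomputable def S227_256_438_512_34 : EL := (EL.cons 14 (TM.mk (P.cons (P.cons (P.lf 1608011320 0 0) (P.cons (P.lf 0 894757264 0) (P.cons (P.lf 0 14241240 0) (P.lf 4747080 0 0)))) (P.cons (P.cons (P.lf 0 608724142 0) (P.cons (P.lf 0 43058560 0) (P.cons (P.lf 0 685328 0) (P.lf 228440 0 0)))) (P.cons (P.cons (P.lf 0 96846160 0) (P.cons (P.lf 20494600 0 0) (P.cons (P.lf 326192 0 0) (P.lf 0 108728 0)))) (P.cons (P.cons (P.lf 22457440 0 0) (P.cons (P.lf 1017184 0 0) (P.cons (P.lf 16184 0 0) P.nil))) (P.cons (P.cons (P.lf 1623392 0 0) (P.cons (P.lf 0 232688 0) P.nil)) (P.cons (P.cons (P.lf 0 234110 0) P.nil) P.nil)))))) 46534)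
 EL.nil)
noncomputable def S227_256_438_512_35 : EL := (EL.cons 14 (TM.mk (P.cons (P.cons (P.lf 301015144 0 0) (P.cons (P.lf 0 334992028 0) (P.cons (P.lf 87869168 0 0) (P.cons (P.lf 4744112 0 0) (P.cons (P.lf 0 965332 0) (P.cons (P.lf 0 15740 0) P.nil)))))) (P.cons (P.cons (P.lf 0 227902854 0) (P.cons (P.lf 110692738 0 0) (P.cons (P.lf 10732078 0 0) (P.cons (P.lf 0 301728 0) (P.cons (P.lf 0 92908 0) P.nil))))) (P.cons (P.cons (P.lf 6878472 0 0) (P.cons (P.lf 33951396 0 0) (P.cons (P.lf 0 3513360 0) (P.cons (P.lf 0 309164 0) P.nil)))) (P.cons (P.cons (P.lf 22133908 0 0) (P.cons (P.lf 0 6231436 0) (P.cons (P.lf 0 516554 0) P.nil))) (P.cons (P.cons (P.lf 0 1483214 0) (P.cons (P.lf 0 1256748 0) P.nil)) (P.cons (P.cons (P.lf 0 824118 0) P.nil) P.nil)))))) 695900)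
 EL.nil)
noncomputable def S227_256_438_512_36 : EL := (EL.cons 14 (TM.mk (P.cons (P.lf 0 969191872 0) (P.cons (P.lf 961449608 0 0) (P.cons (P.lf 11551536 0 0) (P.cons (P.lf 0 3747920 0) (P.cons (P.lf 0 76072 0) (P.cons (P.lf 14360 0 0) P.nil)))))) 560)
 EL.nil)
noncomputable def S227_256_438_512_37 : EL := (EL.cons 14 (TM.mk (P.cons (P.cons (P.lf 0 181429960 0) (P.cons (P.lf 100954372 0 0) (P.cons (P.lf 1606820 0 0) (P.lf 0 535606 0)))) (P.cons (P.cons (P.lf 248662236 0 0) (P.cons (P.lf 0 95289666 0) (P.cons (P.lf 0 1516660 0) (P.lf 505554 0 0)))) (P.cons (P.cons (P.lf 0 55043500 0) (P.cons (P.lf 0 8335064 0) (P.cons (P.lf 0 132662 0) (P.lf 44220 0 0)))) (P.cons (P.cons (P.lf 0 14893788 0) (P.cons (P.lf 2511632 0 0) (P.cons (P.lf 39974 0 0) P.nil))) (P.cons (P.cons (P.lf 2451556 0 0) (P.cons (P.lf 194376 0 0) P.nil)) (P.cons (P.cons (P.lf 288650 0 0) P.nil) P.nil))))))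 109566)
 EL.nil)
noncomputable def S227_256_438_512_38 : EL := (EL.cons 14 (TM.mk (P.cons (P.cons (P.lf 0 33963172 0) (P.cons (P.lf 37796742 0 0) (P.cons (P.lf 0 9914170 0) (P.cons (P.lf 0 535272 0) (P.cons (P.lf 108916 0 0) (P.cons (P.lf 1774 0 0) P.nil)))))) (P.cons (P.cons (P.lf 59405862 0 0) (P.cons (P.lf 0 49984134 0) (P.cons (P.lf 8624084 0 0) (P.cons (P.lf 565040 0 0) (P.cons (P.lf 0 97564 0) P.nil))))) (P.cons (P.cons (P.lf 0 25879880 0) (P.cons (P.lf 8108372 0 0) (P.cons (P.lf 1715786 0 0) (P.cons (P.lf 7490 0 0) P.nil)))) (P.cons (P.cons (P.lf 0 2165266 0) (P.cons (P.lf 4798198 0 0) (P.cons (P.lf 0 358864 0) P.nil))) (P.cons (P.cons (P.lf 2750762 0 0) (P.cons (P.lf 0 555344 0) P.nil)) (P.cons (P.cons (P.lf 0 43742 0) P.nil) P.nil)))))) 558130)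
 EL.nil)
noncomputable def S227_256_438_512_39 : EL := (EL.cons 14 (TM.mk (P.cons (P.lf 109352740 0 0) (P.cons (P.lf 0 216958378 0) (P.cons (P.lf 105005926 0 0) (P.cons (P.lf 3431614 0 0) (P.cons (P.lf 0 806288 0) (P.cons (P.lf 0 30348 0) P.nil)))))) 5440)
 EL.nil)
noncomputable def S227_256_438_512_40 : EL := (EL.cons 14 (TM.mk (P.cons (P.cons (P.lf 20470520 0 0) (P.cons (P.lf 0 11390558 0) (P.cons (P.lf 0 181294 0) (P.lf 60430 0 0)))) (P.cons (P.cons (P.lf 0 48363252 0) (P.cons (P.lf 22050984 0 0) (P.cons (P.lf 350970 0 0) (P.lf 0 116990 0)))) (P.cons (P.cons (P.lf 33798642 0 0) (P.cons (P.lf 0 9589334 0) (P.cons (P.lf 0 152626 0) (P.lf 50874 0 0)))) (P.cons (P.cons (P.lf 0 4066876 0) (P.cons (P.lf 0 1388498 0) (P.cons (P.lf 0 22098 0) P.nil))) (P.cons (P.cons (P.lf 0 2124538 0) (P.cons (P.lf 288662 0 0) P.nil)) (P.cons (P.cons (P.lf 243310 0 0) P.nil) P.nil))))))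 111984)
 EL.nil)
noncomputable def S227_256_438_512_41 : EL := (EL.cons 14 (TM.mk (P.cons (P.cons (P.lf 3832022 0 0) (P.cons (P.lf 0 4264560 0) (P.cons (P.lf 1118602 0 0) (P.cons (P.lf 60394 0 0) (P.cons (P.lf 0 12288 0) (P.cons (P.lf 0 200 0) P.nil)))))) (P.cons (P.cons (P.lf 0 10504102 0) (P.cons (P.lf 9870142 0 0) (P.cons (P.lf 0 2082712 0) (P.cons (P.lf 0 123664 0) (P.cons (P.lf 23198 0 0) P.nil))))) (P.cons (P.cons (P.lf 9523470 0 0) (P.cons (P.lf 0 6458626 0) (P.cons (P.lf 758348 0 0) (P.cons (P.lf 61678 0 0) P.nil)))) (P.cons (P.cons (P.lf 0 2557658 0) (P.cons (P.lf 282466 0 0) (P.cons (P.lf 248456 0 0) P.nil))) (P.cons (P.cons (P.lf 0 613138 0) (P.cons (P.lf 632086 0 0) P.nil)) (P.cons (P.cons (P.lf 320618 0 0) P.nil) P.nil)))))) 367086)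
 EL.nil)
noncomputable def S227_256_438_512_42 : EL := (EL.cons 14 (TM.mk (P.cons (P.lf 0 12338136 0) (P.cons (P.lf 36718724 0 0) (P.cons (P.lf 0 35984236 0) (P.cons (P.lf 11026388 0 0) (P.cons (P.lf 709966 0 0) (P.cons (P.lf 0 125918 0) P.nil)))))) 9172)
 EL.nil)
noncomputable def S227_256_438_512_43 : EL := (EL.cons 14 (TM.mk (P.cons (P.cons (P.lf 0 2309662 0) (P.cons (P.lf 1285182 0 0) (P.cons (P.lf 20454 0 0) (P.lf 0 6818 0)))) (P.cons (P.cons (P.lf 7747980 0 0) (P.cons (P.lf 0 3762902 0) (P.cons (P.lf 0 59890 0) (P.lf 19962 0 0)))) (P.cons (P.cons (P.lf 0 9199106 0) (P.cons (P.lf 3534744 0 0) (P.cons (P.lf 56260 0 0) (P.lf 0 18752 0)))) (P.cons (P.cons (P.lf 4167886 0 0) (P.cons (P.lf 0 882022 0) (P.cons (P.lf 0 14038 0) P.nil))) (P.cons (P.cons (P.lf 0 149114 0) (P.cons (P.lf 0 210396 0) P.nil)) (P.cons (P.cons (P.lf 0 284998 0) P.nil) P.nil)))))) 131582)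
 EL.nil)
noncomputable def S227_256_438_512_44 : EL := (EL.cons 14 (TM.mk (P.cons (P.cons (P.lf 0 432362 0) (P.cons (P.lf 481164 0 0) (P.cons (P.lf 0 126210 0) (P.cons (P.lf 0 6814 0) (P.cons (P.lf 1386 0 0) (P.cons (P.lf 22 0 0) P.nil)))))) (P.cons (P.cons (P.lf 1614072 0 0) (P.cons (P.lf 0 1590956 0) (P.cons (P.lf 360192 0 0) (P.cons (P.lf 20712 0 0) (P.cons (P.lf 0 3992 0) P.nil))))) (P.cons (P.cons (P.lf 0 2245064 0) (P.cons (P.lf 1827724 0 0) (P.cons (P.lf 0 317172 0) (P.cons (P.lf 0 20718 0) P.nil)))) (P.cons (P.cons (P.lf 1338716 0 0) (P.cons (P.lf 0 739634 0) (P.cons (P.lf 53558 0 0) P.nil))) (P.cons (P.cons (P.lf 0 199736 0) (P.cons (P.lf 0 52654 0) P.nil)) (P.cons (P.cons (P.lf 0 112296 0) P.nil) P.nil)))))) 235476)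
 EL.nil)
noncomputable def S227_256_438_512_45 : EL := (EL.cons 14 (TM.mk (P.cons (P.cons (P.lf 56349178 0 0) (P.cons (P.lf 0 94064332 0) (P.cons (P.lf 50843732 0 0) (P.cons (P.lf 0 7542938 0) (P.cons (P.lf 0 1005676 0) (P.cons (P.lf 138298 0 0) P.nil)))))) (P.cons (P.cons (P.lf 0 63994148 0) (P.cons (P.lf 66690770 0 0) (P.cons (P.lf 0 13714924 0) (P.cons (P.lf 0 2225754 0) (P.cons (P.lf 86124 0 0) P.nil))))) (P.cons (P.cons (P.lf 14044166 0 0) (P.cons (P.lf 3432314 0 0) (P.cons (P.lf 0 7281292 0) (P.cons (P.lf 347922 0 0) P.nil)))) (P.cons (P.cons (P.lf 7012396 0 0) (P.cons (P.lf 0 8544386 0) (P.cons (P.lf 919002 0 0) P.nil))) (P.cons (P.cons (P.lf 0 2462658 0) (P.cons (P.lf 74450 0 0) P.nil)) (P.cons (P.cons (P.lf 0 332002 0) P.nil) P.nil)))))) 1739360)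
 EL.nil)
noncomputable def S227_256_438_512_46 : EL := (EL.cons 15 (TM.mk (P.lf 4294967296 0 0) 0)
 EL.nil)
noncomputable def S227_256_438_512_47 : EL := (EL.cons 15 (TM.mk (P.cons (P.cons (P.lf 804005660 0 0) (P.cons (P.lf 0 447378632 0) (P.cons (P.lf 0 7120620 0) (P.lf 2373540 0 0)))) (P.cons (P.cons (P.lf 0 304362071 0) (P.cons (P.lf 0 21529280 0) (P.cons (P.lf 0 342664 0) (P.lf 114220 0 0)))) (P.cons (P.cons (P.lf 0 48423080 0) (P.cons (P.lf 10247300 0 0) (P.cons (P.lf 163096 0 0) (P.lf 0 54364 0)))) (P.cons (P.cons (P.lf 11228720 0 0) (P.cons (P.lf 508592 0 0) (P.cons (P.lf 8092 0 0) P.nil))) (P.cons (P.cons (P.lf 811696 0 0) (P.cons (P.lf 0 116344 0) P.nil)) (P.cons (P.cons (P.lf 0 117055 0) P.nil) P.nil)))))) 23267)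
 EL.nil)
noncomputable def S227_256_438_512_48 : EL := (EL.cons 15 (TM.mk (P.cons (P.cons (P.lf 150507572 0 0) (P.cons (P.lf 0 167496014 0) (P.cons (P.lf 43934584 0 0) (P.cons (P.lf 2372056 0 0) (P.cons (P.lf 0 482666 0) (P.cons (P.lf 0 7870 0) P.nil)))))) (P.cons (P.cons (P.lf 0 113951427 0) (P.cons (P.lf 55346369 0 0) (P.cons (P.lf 5366039 0 0) (P.cons (P.lf 0 150864 0) (P.cons (P.lf 0 46454 0) P.nil))))) (P.cons (P.cons (P.lf 3439236 0 0) (P.cons (P.lf 16975698 0 0) (P.cons (P.lf 0 1756680 0) (P.cons (P.lf 0 154582 0) P.nil)))) (P.cons (P.cons (P.lf 11066954 0 0) (P.cons (P.lf 0 3115718 0) (P.cons (P.lf 0 258277 0) P.nil))) (P.cons (P.cons (P.lf 0 741607 0) (P.cons (P.lf 0 628374 0) P.nil)) (P.cons (P.cons (P.lf 0 412059 0) P.nil) P.nil)))))) 347950)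
 EL.nil)
noncomputable def S227_256_438_512 : SL := (SL.cons S227_256_438_512_0 (SL.cons S227_256_438_512_1 (SL.cons S227_256_438_512_2 (SL.cons S227_256_438_512_3 (SL.cons S227_256_438_512_4 (SL.cons S227_256_438_512_5 (SL.cons S227_256_438_512_6 (SL.cons S227_256_438_512_7 (SL.cons S227_256_438_512_8 (SL.cons S227_256_438_512_9 (SL.cons S227_256_438_512_10 (SL.cons S227_256_438_512_11 (SL.cons S227_256_438_512_12 (SL.cons S227_256_438_512_13 (SL.cons S227_256_438_512_14 (SL.cons S227_256_438_512_15 (SL.cons S227_256_438_512_16 (SL.cons S227_256_438_512_17 (SL.cons S227_256_438_512_18 (SL.cons S227_256_438_512_19 (SL.cons S227_256_438_512_20 (SL.cons S227_256_438_512_21 (SL.cons S227_256_438_512_22 (SL.cons S227_256_438_512_23 (SL.cons S227_256_438_512_24 (SL.cons S227_256_438_512_25 (SL.cons S227_256_438_512_26 (SL.cons S227_256_438_512_27 (SL.cons S227_256_438_512_28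 (SL.cons S227_256_438_512_29 (SL.cons S227_256_438_512_30 (SL.cons S227_256_438_512_31 (SL.cons S227_256_438_512_32 (SL.cons S227_256_438_512_33 (SL.cons S227_256_438_512_34 (SL.cons S227_256_438_512_35 (SL.cons S227_256_438_512_36 (SL.cons S227_256_438_512_37 (SL.cons S227_256_438_512_38 (SL.cons S227_256_438_512_39 (SL.cons S227_256_438_512_40 (SL.cons S227_256_438_512_41 (SL.cons S227_256_438_512_42 (SL.cons S227_256_438_512_43 (SL.cons S227_256_438_512_44 (SL.cons S227_256_438_512_45 (SL.cons S227_256_438_512_46 (SL.cons S227_256_438_512_47 (SL.cons S227_256_438_512_48 SL.nil)))))))))))))))))))))))))))))))))))))))))))))))))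
noncomputable def S227_256_512_586_0 : EL := (EL.cons 0 (TM.mk (P.cons (P.lf 8359606057 0 0) (P.cons (P.lf 190686074 0 0) (P.cons (P.lf 0 92290364 0) (P.cons (P.lf 0 3016066 0) (P.cons (P.lf 708651 0 0) (P.cons (P.lf 26673 0 0) P.nil)))))) 4788)
 (EL.cons 1 (TM.mk (P.cons (P.lf 0 450679505 0) (P.cons (P.lf 439849933 0 0) (P.cons (P.lf 16100088 0 0) (P.cons (P.lf 0 5127871 0) (P.cons (P.lf 0 176304 0) (P.cons (P.lf 32482 0 0) P.nil)))))) 1651)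
 (EL.cons 5 (TM.mk (P.cons (P.lf 4329140030 0 0) (P.cons (P.lf 0 67799490 0) (P.cons (P.lf 32814348 0 0) (P.cons (P.lf 1072376 0 0) (P.cons (P.lf 0 251962 0) (P.cons (P.lf 0 9484 0) P.nil)))))) 1837)
 (EL.cons 9 (TM.mk (P.lf 6442450944 0 0) 2)
 EL.nil))))
noncomputable def S227_256_512_586_1 : EL := (EL.cons 0 (TM.mk (P.cons (P.cons (P.lf 290179246 0 0) (P.cons (P.lf 0 840731751 0) (P.cons (P.lf 13381356 0 0) (P.lf 4460455 0 0)))) (P.cons (P.cons (P.lf 0 1081745449 0) (P.cons (P.lf 0 119908756 0) (P.cons (P.lf 1908497 0 0) (P.lf 636163 0 0)))) (P.cons (P.cons (P.lf 0 206210886 0) (P.cons (P.lf 53886872 0 0) (P.cons (P.lf 0 857668 0) (P.lf 0 285887 0)))) (P.cons (P.cons (P.lf 79344380 0 0) (P.cons (P.lf 5882726 0 0) (P.cons (P.lf 0 93616 0) P.nil))) (P.cons (P.cons (P.lf 8465035 0 0) (P.cons (P.lf 0 1243877 0) P.nil)) (P.cons (P.cons (P.lf 0 1688863 0) P.nil) P.nil))))))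 435754)
 (EL.cons 1 (TM.mk (P.cons (P.cons (P.lf 1129934247 0 0) (P.cons (P.lf 116222178 0 0) (P.cons (P.lf 0 1849826 0) (P.lf 0 616603 0)))) (P.cons (P.cons (P.lf 268641300 0 0) (P.cons (P.lf 0 105540805 0) (P.cons (P.lf 1679817 0 0) (P.lf 559938 0 0)))) (P.cons (P.cons (P.lf 0 172655138 0) (P.cons (P.lf 0 15587317 0) (P.cons (P.lf 248086 0 0) (P.lf 82691 0 0)))) (P.cons (P.cons (P.lf 0 25091607 0) (P.cons (P.lf 4482749 0 0) (P.cons (P.lf 0 71341 0) P.nil))) (P.cons (P.cons (P.lf 6544923 0 0) (P.cons (P.lf 514808 0 0) P.nil)) (P.cons (P.cons (P.lf 706259 0 0) P.nil) P.nil)))))) 322825)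
 (EL.cons 5 (TM.mk (P.cons (P.cons (P.lf 0 273592644 0) (P.cons (P.lf 0 461616840 0) (P.cons (P.lf 7347244 0 0) (P.lf 2449078 0 0)))) (P.cons (P.cons (P.lf 0 206771194 0) (P.cons (P.lf 6034440 0 0) (P.cons (P.lf 0 96042 0) (P.lf 0 32012 0)))) (P.cons (P.cons (P.lf 26210708 0 0) (P.cons (P.lf 0 1739358 0) (P.cons (P.lf 27680 0 0) (P.lf 9222 0 0)))) (P.cons (P.cons (P.lf 0 7374938 0) (P.cons (P.lf 0 1227018 0) (P.cons (P.lf 19524 0 0) P.nil))) (P.cons (P.cons (P.lf 0 2029664 0) (P.cons (P.lf 244474 0 0) P.nil)) (P.cons (P.cons (P.lf 379803 0 0) P.nil) P.nil)))))) 204191)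
 (EL.cons 9 (TM.mk (P.cons (P.cons (P.lf 0 150368644 0) (P.cons (P.lf 0 671067948 0) (P.cons (P.lf 10680930 0 0) (P.lf 3560310 0 0)))) (P.cons (P.cons (P.lf 0 521816278 0) (P.cons (P.lf 0 32293920 0) (P.cons (P.lf 513996 0 0) (P.lf 171330 0 0)))) (P.cons (P.cons (P.lf 0 41566512 0) (P.cons (P.lf 15370950 0 0) (P.cons (P.lf 0 244644 0) (P.lf 0 81546 0)))) (P.cons (P.cons (P.lf 18385044 0 0) (P.cons (P.lf 762888 0 0) (P.cons (P.lf 0 12138 0) P.nil))) (P.cons (P.cons (P.lf 864804 0 0) (P.cons (P.lf 0 174516 0) P.nil)) (P.cons (P.cons (P.lf 0 194710 0) P.nil) P.nil)))))) 34919)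
 (EL.cons 2 (TM.mk (P.cons (P.cons (P.lf 329194372 0 0) (P.cons (P.lf 0 12202785 0) (P.cons (P.lf 0 6046523 0) (P.cons (P.lf 54866 0 0) (P.lf 13716 0 0))))) (P.cons (P.cons (P.lf 0 316003393 0) (P.cons (P.lf 11713812 0 0) (P.cons (P.lf 5804235 0 0) (P.cons (P.lf 0 52669 0) (P.lf 0 13165 0))))) (P.cons (P.cons (P.lf 0 19512014 0) (P.cons (P.lf 723282 0 0) (P.cons (P.lf 358388 0 0) (P.cons (P.lf 0 3251 0) P.nil)))) (P.cons (P.cons (P.lf 6050806 0 0) (P.cons (P.lf 0 224294 0) (P.cons (P.lf 0 111138 0) P.nil))) (P.cons (P.cons (P.lf 332561 0 0) (P.cons (P.lf 0 12327 0) P.nil)) (P.cons (P.cons (P.lf 0 59281 0) P.nil) P.nil)))))) 16662)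
 (EL.cons 6 (TM.mk (P.cons (P.cons (P.lf 1543646991 0 0) (P.cons (P.lf 0 57220887 0) (P.cons (P.lf 0 28353156 0) (P.cons (P.lf 257286 0 0) (P.lf 64320 0 0))))) (P.cons (P.cons (P.lf 74285196 0 0) (P.cons (P.lf 0 2753649 0) (P.cons (P.lf 0 1364442 0) (P.cons (P.lf 12381 0 0) (P.lf 3093 0 0))))) (P.cons (P.cons (P.lf 0 35357562 0) (P.cons (P.lf 1310655 0 0) (P.cons (P.lf 649434 0 0) (P.cons (P.lf 0 5892 0) P.nil)))) (P.cons (P.cons (P.lf 0 1754874 0) (P.cons (P.lf 65049 0 0) (P.cons (P.lf 32229 0 0) P.nil))) (P.cons (P.cons (P.lf 401445 0 0) (P.cons (P.lf 0 14877 0) P.nil)) (P.cons (P.cons (P.lf 21777 0 0) P.nil) P.nil)))))) 15804)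
 EL.nil))))))
noncomputable def S227_256_512_586_2 : EL := (EL.cons 0 (TM.mk (P.cons (P.cons (P.lf 0 18099778 0) (P.cons (P.lf 0 61854126 0) (P.cons (P.lf 85429603 0 0) (P.cons (P.lf 0 2359952 0) (P.cons (P.lf 0 874648 0) (P.cons (P.lf 14272 0 0) P.nil)))))) (P.cons (P.cons (P.lf 0 28221789 0) (P.cons (P.lf 220296396 0 0) (P.cons (P.lf 19103857 0 0) (P.cons (P.lf 0 1888506 0) (P.cons (P.lf 0 234177 0) P.nil))))) (P.cons (P.cons (P.lf 123085712 0 0) (P.cons (P.lf 63039622 0 0) (P.cons (P.lf 0 10291823 0) (P.cons (P.lf 0 38774 0) P.nil)))) (P.cons (P.cons (P.lf 36734402 0 0) (P.cons (P.lf 0 22900459 0) (P.cons (P.lf 0 1547290 0) P.nil))) (P.cons (P.cons (P.lf 0 12644280 0) (P.cons (P.lf 0 5022434 0) P.nil)) (P.cons (P.cons (P.lf 0 3139785 0) P.nil) P.nil)))))) 3708117)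
 (EL.cons 1 (TM.mk (P.cons (P.cons (P.lf 0 52500455 0) (P.cons (P.lf 0 238629634 0) (P.cons (P.lf 0 15524211 0) (P.cons (P.lf 1881117 0 0) (P.cons (P.lf 200131 0 0) (P.cons (P.lf 0 3255 0) P.nil)))))) (P.cons (P.cons (P.lf 0 194117480 0) (P.cons (P.lf 0 75622293 0) (P.cons (P.lf 17723693 0 0) (P.cons (P.lf 0 124664 0) (P.cons (P.lf 0 171105 0) P.nil))))) (P.cons (P.cons (P.lf 0 48618433 0) (P.cons (P.lf 48310452 0 0) (P.cons (P.lf 3244299 0 0) (P.cons (P.lf 0 384048 0) P.nil)))) (P.cons (P.cons (P.lf 29457594 0 0) (P.cons (P.lf 11283331 0 0) (P.cons (P.lf 0 1208782 0) P.nil))) (P.cons (P.cons (P.lf 7139170 0 0) (P.cons (P.lf 0 2639935 0) P.nil)) (P.cons (P.cons (P.lf 0 1567839 0) P.nil) P.nil)))))) 1703849)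
 (EL.cons 5 (TM.mk (P.cons (P.cons (P.lf 10413070 0 0) (P.cons (P.lf 57495193 0 0) (P.cons (P.lf 48280805 0 0) (P.cons (P.lf 0 1871067 0) (P.cons (P.lf 0 509547 0) (P.cons (P.lf 8307 0 0) P.nil)))))) (P.cons (P.cons (P.lf 37640909 0 0) (P.cons (P.lf 46583722 0 0) (P.cons (P.lf 0 1155888 0) (P.cons (P.lf 0 233957 0) (P.cons (P.lf 4281 0 0) P.nil))))) (P.cons (P.cons (P.lf 6335962 0 0) (P.cons (P.lf 0 7484342 0) (P.cons (P.lf 0 24004 0) (P.cons (P.lf 44249 0 0) P.nil)))) (P.cons (P.cons (P.lf 0 6402485 0) (P.cons (P.lf 1411532 0 0) (P.cons (P.lf 302496 0 0) P.nil))) (P.cons (P.cons (P.lf 1378577 0 0) (P.cons (P.lf 1017042 0 0) P.nil)) (P.cons (P.cons (P.lf 699017 0 0) P.nil) P.nil)))))) 1747916)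
 (EL.cons 9 (TM.mk (P.cons (P.cons (P.lf 3509646 0 0) (P.cons (P.lf 31325835 0 0) (P.cons (P.lf 69402163 0 0) (P.cons (P.lf 0 2391321 0) (P.cons (P.lf 0 723999 0) (P.cons (P.lf 11805 0 0) P.nil)))))) (P.cons (P.cons (P.lf 24358681 0 0) (P.cons (P.lf 110215870 0 0) (P.cons (P.lf 4973461 0 0) (P.cons (P.lf 0 798901 0) (P.cons (P.lf 0 69681 0) P.nil))))) (P.cons (P.cons (P.lf 44205664 0 0) (P.cons (P.lf 13173289 0 0) (P.cons (P.lf 0 3249972 0) (P.cons (P.lf 26889 0 0) P.nil)))) (P.cons (P.cons (P.lf 5875263 0 0) (P.cons (P.lf 0 5938980 0) (P.cons (P.lf 0 218503 0) P.nil))) (P.cons (P.cons (P.lf 0 2750433 0) (P.cons (P.lf 0 678259 0) P.nil)) (P.cons (P.cons (P.lf 0 368242 0) P.nil) P.nil)))))) 505724)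
 (EL.cons 2 (TM.mk (P.cons (P.cons (P.lf 0 15366976 0) (P.cons (P.lf 0 68010406 0) (P.cons (P.lf 3915961 0 0) (P.cons (P.lf 1580473 0 0) (P.cons (P.lf 0 45601 0) (P.cons (P.lf 0 9354 0) P.nil)))))) (P.cons (P.cons (P.lf 0 38575991 0) (P.cons (P.lf 63961678 0 0) (P.cons (P.lf 0 2604684 0) (P.cons (P.lf 0 1449855 0) (P.cons (P.lf 39391 0 0) P.nil))))) (P.cons (P.cons (P.lf 47853292 0 0) (P.cons (P.lf 7029905 0 0) (P.cons (P.lf 0 1345415 0) (P.cons (P.lf 0 195238 0) P.nil)))) (P.cons (P.cons (P.lf 8834911 0 0) (P.cons (P.lf 0 2822360 0) (P.cons (P.lf 0 30082 0) P.nil))) (P.cons (P.cons (P.lf 0 2459131 0) (P.cons (P.lf 0 224566 0) P.nil)) (P.cons (P.cons (P.lf 0 345279 0) P.nil) P.nil)))))) 364882)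
 (EL.cons 6 (TM.mk (P.cons (P.cons (P.lf 0 72058320 0) (P.cons (P.lf 0 318912102 0) (P.cons (P.lf 18362610 0 0) (P.cons (P.lf 7411116 0 0) (P.cons (P.lf 0 213852 0) (P.cons (P.lf 0 43878 0) P.nil)))))) (P.cons (P.cons (P.lf 0 253527822 0) (P.cons (P.lf 0 21553278 0) (P.cons (P.lf 6296652 0 0) (P.cons (P.lf 672186 0 0) (P.cons (P.lf 0 30852 0) P.nil))))) (P.cons (P.cons (P.lf 0 30302304 0) (P.cons (P.lf 15110388 0 0) (P.cons (P.lf 0 184518 0) (P.cons (P.lf 0 327912 0) P.nil)))) (P.cons (P.cons (P.lf 13661340 0 0) (P.cons (P.lf 933702 0 0) (P.cons (P.lf 0 327222 0) P.nil))) (P.cons (P.cons (P.lf 1560186 0 0) (P.cons (P.lf 0 358620 0) P.nil)) (P.cons (P.cons (P.lf 0 318564 0) P.nil) P.nil)))))) 216912)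
 EL.nil))))))
noncomputable def S227_256_512_586_3 : EL := (EL.cons 0 (TM.mk (P.cons (P.lf 96110806 0 0) (P.cons (P.lf 0 190686074 0) (P.cons (P.lf 92290364 0 0) (P.cons (P.lf 3016066 0 0) (P.cons (P.lf 0 708651 0) (P.cons (P.lf 0 26673 0) P.nil)))))) 4788)
 (EL.cons 1 (TM.mk (P.cons (P.lf 450679505 0 0) (P.cons (P.lf 0 439849933 0) (P.cons (P.lf 0 16100088 0) (P.cons (P.lf 5127871 0 0) (P.cons (P.lf 176304 0 0) (P.cons (P.lf 0 32482 0) P.nil)))))) 1651)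
 (EL.cons 5 (TM.mk (P.cons (P.lf 2113310914 0 0) (P.cons (P.lf 67799490 0 0) (P.cons (P.lf 0 32814348 0) (P.cons (P.lf 0 1072376 0) (P.cons (P.lf 251962 0 0) (P.cons (P.lf 9484 0 0) P.nil)))))) 1830)
 EL.nil)))
noncomputable def S227_256_512_586_4 : EL := (EL.cons 0 (TM.mk (P.cons (P.cons (P.lf 0 2243253 0) (P.cons (P.lf 0 10011232 0) (P.cons (P.lf 159340 0 0) (P.lf 53112 0 0)))) (P.cons (P.cons (P.lf 0 3333974 0) (P.cons (P.lf 19380747 0 0) (P.cons (P.lf 0 308469 0) (P.lf 0 102823 0)))) (P.cons (P.cons (P.lf 12670725 0 0) (P.cons (P.lf 0 8428125 0) (P.cons (P.lf 134143 0 0) (P.lf 44713 0 0)))) (P.cons (P.cons (P.lf 0 6041019 0) (P.cons (P.lf 0 1220359 0) (P.cons (P.lf 19422 0 0) P.nil))) (P.cons (P.cons (P.lf 0 1354470 0) (P.cons (P.lf 253706 0 0) P.nil)) (P.cons (P.cons (P.lf 273431 0 0) P.nil) P.nil)))))) 90899)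
 (EL.cons 1 (TM.mk (P.cons (P.cons (P.lf 0 10518986 0) (P.cons (P.lf 0 46944331 0) (P.cons (P.lf 747180 0 0) (P.lf 249058 0 0)))) (P.cons (P.cons (P.lf 0 26237259 0) (P.cons (P.lf 43557176 0 0) (P.cons (P.lf 0 693268 0) (P.lf 0 231090 0)))) (P.cons (P.cons (P.lf 33094333 0 0) (P.cons (P.lf 4957134 0 0) (P.cons (P.lf 0 78898 0) (P.lf 0 26298 0)))) (P.cons (P.cons (P.lf 5308383 0 0) (P.cons (P.lf 0 1449495 0) (P.cons (P.lf 23068 0 0) P.nil))) (P.cons (P.cons (P.lf 0 1510293 0) (P.cons (P.lf 0 146775 0) P.nil)) (P.cons (P.cons (P.lf 0 165215 0) P.nil) P.nil)))))) 85530)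
 (EL.cons 5 (TM.mk (P.cons (P.cons (P.lf 0 49325278 0) (P.cons (P.lf 0 220129764 0) (P.cons (P.lf 3503654 0 0) (P.lf 1167884 0 0)))) (P.cons (P.cons (P.lf 0 172753344 0) (P.cons (P.lf 0 17655570 0) (P.cons (P.lf 281010 0 0) (P.lf 93668 0 0)))) (P.cons (P.cons (P.lf 0 18360650 0) (P.cons (P.lf 8120316 0 0) (P.cons (P.lf 0 129242 0) (P.lf 0 43080 0)))) (P.cons (P.cons (P.lf 8276264 0 0) (P.cons (P.lf 688200 0 0) (P.cons (P.lf 0 10950 0) P.nil))) (P.cons (P.cons (P.lf 769856 0 0) (P.cons (P.lf 0 148378 0) P.nil)) (P.cons (P.cons (P.lf 0 162122 0) P.nil) P.nil)))))) 43590)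
 EL.nil)))
noncomputable def S227_256_512_586_5 : EL := (EL.cons 0 (TM.mk (P.cons (P.cons (P.lf 52356 0 0) (P.cons (P.lf 467328 0 0) (P.cons (P.lf 1035365 0 0) (P.cons (P.lf 0 35673 0) (P.cons (P.lf 0 10800 0) (P.cons (P.lf 175 0 0) P.nil)))))) (P.cons (P.cons (P.lf 259511 0 0) (P.cons (P.lf 717045 0 0) (P.cons (P.lf 0 1979994 0) (P.cons (P.lf 58860 0 0) (P.cons (P.lf 20388 0 0) P.nil))))) (P.cons (P.cons (P.lf 0 11223 0) (P.cons (P.lf 0 2616932 0) (P.cons (P.lf 798517 0 0) (P.cons (P.lf 0 10207 0) P.nil)))) (P.cons (P.cons (P.lf 0 870175 0) (P.cons (P.lf 1115036 0 0) (P.cons (P.lf 196671 0 0) P.nil))) (P.cons (P.cons (P.lf 429347 0 0) (P.cons (P.lf 402528 0 0) P.nil)) (P.cons (P.cons (P.lf 178080 0 0) P.nil) P.nil)))))) 333324)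
 (EL.cons 1 (TM.mk (P.cons (P.cons (P.lf 245514 0 0) (P.cons (P.lf 2191385 0 0) (P.cons (P.lf 4855003 0 0) (P.cons (P.lf 0 167283 0) (P.cons (P.lf 0 50645 0) (P.cons (P.lf 823 0 0) P.nil)))))) (P.cons (P.cons (P.lf 1464386 0 0) (P.cons (P.lf 5571382 0 0) (P.cons (P.lf 0 4390423 0) (P.cons (P.lf 107375 0 0) (P.cons (P.lf 44553 0 0) P.nil))))) (P.cons (P.cons (P.lf 1420563 0 0) (P.cons (P.lf 0 6681596 0) (P.cons (P.lf 0 740345 0) (P.cons (P.lf 62400 0 0) P.nil)))) (P.cons (P.cons (P.lf 0 2665160 0) (P.cons (P.lf 0 1565349 0) (P.cons (P.lf 249412 0 0) P.nil))) (P.cons (P.cons (P.lf 0 684519 0) (P.cons (P.lf 413690 0 0) P.nil)) (P.cons (P.cons (P.lf 183172 0 0) P.nil) P.nil)))))) 243145)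
 (EL.cons 5 (TM.mk (P.cons (P.cons (P.lf 1151264 0 0) (P.cons (P.lf 10275782 0 0) (P.cons (P.lf 22765922 0 0) (P.cons (P.lf 0 784422 0) (P.cons (P.lf 0 237492 0) (P.cons (P.lf 3870 0 0) P.nil)))))) (P.cons (P.cons (P.lf 8027288 0 0) (P.cons (P.lf 36483672 0 0) (P.cons (P.lf 2361818 0 0) (P.cons (P.lf 0 287228 0) (P.cons (P.lf 0 30474 0) P.nil))))) (P.cons (P.cons (P.lf 14739210 0 0) (P.cons (P.lf 5321560 0 0) (P.cons (P.lf 0 1367240 0) (P.cons (P.lf 12592 0 0) P.nil)))) (P.cons (P.cons (P.lf 2267816 0 0) (P.cons (P.lf 0 2376116 0) (P.cons (P.lf 0 142760 0) P.nil))) (P.cons (P.cons (P.lf 0 1069466 0) (P.cons (P.lf 0 369206 0) P.nil)) (P.cons (P.cons (P.lf 0 186064 0) P.nil) P.nil)))))) 282756)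
 EL.nil)))
noncomputable def S227_256_512_586_6 : EL := (EL.cons 12 (TM.mk (P.lf 8589934592 0 0) 0)
 (EL.cons 3 (TM.mk (P.cons (P.lf 0 454308690 0) (P.cons (P.lf 450679503 0 0) (P.cons (P.lf 5414782 0 0) (P.cons (P.lf 0 1756837 0) (P.cons (P.lf 0 35658 0) (P.cons (P.lf 6731 0 0) P.nil)))))) 269)
 (EL.cons 7 (TM.mk (P.cons (P.lf 0 2130328762 0) (P.cons (P.lf 0 34172730 0) (P.cons (P.lf 16813380 0 0) (P.cons (P.lf 270802 0 0) (P.cons (P.lf 0 64991 0) (P.cons (P.lf 0 1601 0) P.nil)))))) 330)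
 EL.nil)))
noncomputable def S227_256_512_586_7 : EL := (EL.cons 12 (TM.mk (P.cons (P.cons (P.lf 0 200491526 0) (P.cons (P.lf 0 894757264 0) (P.cons (P.lf 14241240 0 0) (P.lf 4747080 0 0)))) (P.cons (P.cons (P.lf 0 695755038 0) (P.cons (P.lf 0 43058560 0) (P.cons (P.lf 685328 0 0) (P.lf 228440 0 0)))) (P.cons (P.cons (P.lf 0 55422016 0) (P.cons (P.lf 20494600 0 0) (P.cons (P.lf 0 326192 0) (P.lf 0 108728 0)))) (P.cons (P.cons (P.lf 24513392 0 0) (P.cons (P.lf 1017184 0 0) (P.cons (P.lf 0 16184 0) P.nil))) (P.cons (P.cons (P.lf 1153072 0 0) (P.cons (P.lf 0 232688 0) P.nil)) (P.cons (P.cons (P.lf 0 259614 0) P.nil) P.nil)))))) 46534)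
 (EL.cons 3 (TM.mk (P.cons (P.cons (P.lf 0 2283349198 0) (P.cons (P.lf 0 94644722 0) (P.cons (P.lf 1506392 0 0) (P.lf 502130 0 0)))) (P.cons (P.cons (P.lf 0 357654609 0) (P.cons (P.lf 89334060 0 0) (P.cons (P.lf 0 1421868 0) (P.lf 0 473956 0)))) (P.cons (P.cons (P.lf 215061934 0 0) (P.cons (P.lf 7814122 0 0) (P.cons (P.lf 0 124370 0) (P.lf 0 41456 0)))) (P.cons (P.cons (P.lf 14029344 0 0) (P.cons (P.lf 0 2354654 0) (P.cons (P.lf 37474 0 0) P.nil))) (P.cons (P.cons (P.lf 0 3800496 0) (P.cons (P.lf 0 182226 0) P.nil)) (P.cons (P.cons (P.lf 0 250168 0) P.nil) P.nil)))))) 218192)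
 (EL.cons 7 (TM.mk (P.cons (P.cons (P.lf 223661251 0 0) (P.cons (P.lf 232667051 0 0) (P.cons (P.lf 0 3703207 0) (P.lf 0 1234403 0)))) (P.cons (P.cons (P.lf 27119134 0 0) (P.cons (P.lf 0 6773746 0) (P.cons (P.lf 107810 0 0) (P.lf 35936 0 0)))) (P.cons (P.cons (P.lf 0 29975803 0) (P.cons (P.lf 2821638 0 0) (P.cons (P.lf 0 44909 0) (P.lf 0 14969 0)))) (P.cons (P.cons (P.lf 10004907 0 0) (P.cons (P.lf 549302 0 0) (P.cons (P.lf 0 8739 0) P.nil))) (P.cons (P.cons (P.lf 965224 0 0) (P.cons (P.lf 0 117722 0) P.nil)) (P.cons (P.cons (P.lf 0 193612 0) P.nil) P.nil)))))) 106051)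
 (EL.cons 10 (TM.mk (P.cons (P.cons (P.lf 0 3112155018 0) (P.cons (P.lf 115363341 0 0) (P.cons (P.lf 57162951 0 0) (P.cons (P.lf 0 518718 0) (P.lf 0 129678 0))))) (P.cons (P.cons (P.lf 0 99844524 0) (P.cons (P.lf 3701100 0 0) (P.cons (P.lf 1833906 0 0) (P.cons (P.lf 0 16641 0) (P.lf 0 4158 0))))) (P.cons (P.cons (P.lf 48323856 0 0) (P.cons (P.lf 0 1791297 0) (P.cons (P.lf 0 887595 0) (P.cons (P.lf 8052 0 0) P.nil)))) (P.cons (P.cons (P.lf 1579227 0 0) (P.cons (P.lf 0 58539 0) (P.cons (P.lf 0 29004 0) P.nil))) (P.cons (P.cons (P.lf 0 371049 0) (P.cons (P.lf 13752 0 0) P.nil)) (P.cons (P.cons (P.lf 0 13965 0) P.nil) P.nil)))))) 12969)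
 EL.nil))))
noncomputable def S227_256_512_586_8 : EL := (EL.cons 12 (TM.mk (P.cons (P.cons (P.lf 4679528 0 0) (P.cons (P.lf 41767780 0 0) (P.cons (P.lf 92536218 0 0) (P.cons (P.lf 0 3188428 0) (P.cons (P.lf 0 965332 0) (P.cons (P.lf 15740 0 0) P.nil)))))) (P.cons (P.cons (P.lf 32478242 0 0) (P.cons (P.lf 146954494 0 0) (P.cons (P.lf 6631282 0 0) (P.cons (P.lf 0 1065202 0) (P.cons (P.lf 0 92908 0) P.nil))))) (P.cons (P.cons (P.lf 58940886 0 0) (P.cons (P.lf 17564386 0 0) (P.cons (P.lf 0 4333296 0) (P.cons (P.lf 35852 0 0) P.nil)))) (P.cons (P.cons (P.lf 7833684 0 0) (P.cons (P.lf 0 7918640 0) (P.cons (P.lf 0 291338 0) P.nil))) (P.cons (P.cons (P.lf 0 3667244 0) (P.cons (P.lf 0 904346 0) P.nil)) (P.cons (P.cons (P.lf 0 490990 0) P.nil) P.nil)))))) 674270)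
 (EL.cons 3 (TM.mk (P.cons (P.cons (P.lf 106835534 0 0) (P.cons (P.lf 482310184 0 0) (P.cons (P.lf 16969702 0 0) (P.cons (P.lf 0 3343422 0) (P.cons (P.lf 0 255270 0) (P.cons (P.lf 4161 0 0) P.nil)))))) (P.cons (P.cons (P.lf 388054530 0 0) (P.cons (P.lf 114142900 0 0) (P.cons (P.lf 0 23894032 0) (P.cons (P.lf 97200 0 0) (P.cons (P.lf 228665 0 0) P.nil))))) (P.cons (P.cons (P.lf 78772909 0 0) (P.cons (P.lf 0 72535659 0) (P.cons (P.lf 0 2564401 0) (P.cons (P.lf 503212 0 0) P.nil)))) (P.cons (P.cons (P.lf 0 46608028 0) (P.cons (P.lf 0 11599464 0) (P.cons (P.lf 1204697 0 0) P.nil))) (P.cons (P.cons (P.lf 0 8160156 0) (P.cons (P.lf 2876680 0 0) P.nil)) (P.cons (P.cons (P.lf 1889439 0 0) P.nil) P.nil)))))) 1771238)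
 (EL.cons 7 (TM.mk (P.cons (P.cons (P.lf 0 9280096 0) (P.cons (P.lf 0 47097154 0) (P.cons (P.lf 0 24607069 0) (P.cons (P.lf 1057037 0 0) (P.cons (P.lf 262631 0 0) (P.cons (P.lf 0 4281 0) P.nil)))))) (P.cons (P.cons (P.lf 0 29424194 0) (P.cons (P.lf 0 8654879 0) (P.cons (P.lf 1811759 0 0) (P.cons (P.lf 0 7369 0) (P.cons (P.lf 0 17339 0) P.nil))))) (P.cons (P.cons (P.lf 8857617 0 0) (P.cons (P.lf 9862291 0 0) (P.cons (P.lf 0 718727 0) (P.cons (P.lf 0 34438 0) P.nil)))) (P.cons (P.cons (P.lf 7428970 0 0) (P.cons (P.lf 0 2851698 0) (P.cons (P.lf 0 214682 0) P.nil))) (P.cons (P.cons (P.lf 0 2058824 0) (P.cons (P.lf 0 840686 0) P.nil)) (P.cons (P.cons (P.lf 0 607050 0) P.nil) P.nil)))))) 1024840)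
 (EL.cons 10 (TM.mk (P.cons (P.cons (P.lf 145277172 0 0) (P.cons (P.lf 642960408 0 0) (P.cons (P.lf 0 37020960 0) (P.cons (P.lf 0 14941602 0) (P.cons (P.lf 431160 0 0) (P.cons (P.lf 88470 0 0) P.nil)))))) (P.cons (P.cons (P.lf 508808412 0 0) (P.cons (P.lf 33139914 0 0) (P.cons (P.lf 0 12100860 0) (P.cons (P.lf 0 1115526 0) (P.cons (P.lf 55296 0 0) P.nil))))) (P.cons (P.cons (P.lf 54077406 0 0) (P.cons (P.lf 0 25921248 0) (P.cons (P.lf 273942 0 0) (P.cons (P.lf 561078 0 0) P.nil)))) (P.cons (P.cons (P.lf 0 24375984 0) (P.cons (P.lf 0 1123362 0) (P.cons (P.lf 555120 0 0) P.nil))) (P.cons (P.cons (P.lf 0 2267448 0) (P.cons (P.lf 521064 0 0) P.nil)) (P.cons (P.cons (P.lf 477498 0 0) P.nil) P.nil)))))) 315846)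
 EL.nil))))
noncomputable def S227_256_512_586_9 : EL := (EL.cons 3 (TM.mk (P.cons (P.lf 0 454308690 0) (P.cons (P.lf 450679503 0 0) (P.cons (P.lf 5414782 0 0) (P.cons (P.lf 0 1756837 0) (P.cons (P.lf 0 35658 0) (P.cons (P.lf 6731 0 0) P.nil)))))) 269)
 (EL.cons 7 (TM.mk (P.cons (P.lf 0 2130328762 0) (P.cons (P.lf 0 34172730 0) (P.cons (P.lf 16813380 0 0) (P.cons (P.lf 270802 0 0) (P.cons (P.lf 0 64991 0) (P.cons (P.lf 0 1601 0) P.nil)))))) 330)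
 EL.nil))
noncomputable def S227_256_512_586_10 : EL := (EL.cons 3 (TM.mk (P.cons (P.cons (P.lf 10603694 0 0) (P.cons (P.lf 47322361 0 0) (P.cons (P.lf 0 753196 0) (P.lf 0 251065 0)))) (P.cons (P.cons (P.lf 26278446 0 0) (P.cons (P.lf 0 44667030 0) (P.cons (P.lf 710934 0 0) (P.lf 236978 0 0)))) (P.cons (P.cons (P.lf 0 33698678 0) (P.cons (P.lf 0 3907061 0) (P.cons (P.lf 62185 0 0) (P.lf 20728 0 0)))) (P.cons (P.cons (P.lf 0 4601820 0) (P.cons (P.lf 1177327 0 0) (P.cons (P.lf 0 18737 0) P.nil))) (P.cons (P.cons (P.lf 1333329 0 0) (P.cons (P.lf 91113 0 0) P.nil)) (P.cons (P.cons (P.lf 103745 0 0) P.nil) P.nil)))))) 52594)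
 (EL.cons 7 (TM.mk (P.cons (P.cons (P.lf 49722481 0 0) (P.cons (P.lf 221902403 0 0) (P.cons (P.lf 0 3531868 0) (P.lf 0 1177289 0)))) (P.cons (P.cons (P.lf 173346874 0 0) (P.cons (P.lf 14238197 0 0) (P.cons (P.lf 0 226618 0) (P.lf 0 75538 0)))) (P.cons (P.cons (P.lf 16120265 0 0) (P.cons (P.lf 0 6662763 0) (P.cons (P.lf 106045 0 0) (P.lf 35347 0 0)))) (P.cons (P.cons (P.lf 0 7227057 0) (P.cons (P.lf 0 446284 0) (P.cons (P.lf 7101 0 0) P.nil))) (P.cons (P.cons (P.lf 0 512381 0) (P.cons (P.lf 99187 0 0) P.nil)) (P.cons (P.cons (P.lf 111332 0 0) P.nil) P.nil)))))) 24192)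
 EL.nil))
noncomputable def S227_256_512_586_11 : EL := (EL.cons 3 (TM.mk (P.cons (P.cons (P.lf 0 247492 0) (P.cons (P.lf 0 2209034 0) (P.cons (P.lf 0 4894100 0) (P.cons (P.lf 168630 0 0) (P.cons (P.lf 51054 0 0) (P.cons (P.lf 0 831 0) P.nil)))))) (P.cons (P.cons (P.lf 0 1472208 0) (P.cons (P.lf 0 5580812 0) (P.cons (P.lf 4504286 0 0) (P.cons (P.lf 0 110946 0) (P.cons (P.lf 0 45733 0) P.nil))))) (P.cons (P.cons (P.lf 0 1410341 0) (P.cons (P.lf 6807489 0 0) (P.cons (P.lf 635429 0 0) (P.cons (P.lf 0 59792 0) P.nil)))) (P.cons (P.cons (P.lf 2697596 0 0) (P.cons (P.lf 1424430 0 0) (P.cons (P.lf 0 226687 0) P.nil))) (P.cons (P.cons (P.lf 635448 0 0) (P.cons (P.lf 0 386786 0) P.nil)) (P.cons (P.cons (P.lf 0 173685 0) P.nil) P.nil)))))) 193252)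
 (EL.cons 7 (TM.mk (P.cons (P.cons (P.lf 0 1160536 0) (P.cons (P.lf 0 10358530 0) (P.cons (P.lf 0 22949251 0) (P.cons (P.lf 790739 0 0) (P.cons (P.lf 239405 0 0) (P.cons (P.lf 0 3903 0) P.nil)))))) (P.cons (P.cons (P.lf 0 8073314 0) (P.cons (P.lf 0 36611303 0) (P.cons (P.lf 0 2012707 0) (P.cons (P.lf 276857 0 0) (P.cons (P.lf 26881 0 0) P.nil))))) (P.cons (P.cons (P.lf 0 14737557 0) (P.cons (P.lf 0 4858883 0) (P.cons (P.lf 1229413 0 0) (P.cons (P.lf 0 10894 0) P.nil)))) (P.cons (P.cons (P.lf 0 2113538 0) (P.cons (P.lf 2182926 0 0) (P.cons (P.lf 105388 0 0) P.nil))) (P.cons (P.cons (P.lf 994678 0 0) (P.cons (P.lf 294478 0 0) P.nil)) (P.cons (P.cons (P.lf 153300 0 0) P.nil) P.nil)))))) 221778)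
 EL.nil))
noncomputable def S227_256_512_586_12 : EL := (EL.cons 4 (TM.mk (P.cons (P.lf 454308690 0 0) (P.cons (P.lf 0 450679503 0) (P.cons (P.lf 0 5414782 0) (P.cons (P.lf 1756837 0 0) (P.cons (P.lf 35658 0 0) (P.cons (P.lf 0 6731 0) P.nil)))))) 269)
 (EL.cons 8 (TM.mk (P.cons (P.lf 2130328762 0 0) (P.cons (P.lf 34172730 0 0) (P.cons (P.lf 0 16813380 0) (P.cons (P.lf 0 270802 0) (P.cons (P.lf 64991 0 0) (P.cons (P.lf 1601 0 0) P.nil)))))) 330)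
 EL.nil))
noncomputable def S227_256_512_586_13 : EL := (EL.cons 4 (TM.mk (P.cons (P.cons (P.lf 0 10603694 0) (P.cons (P.lf 0 47322361 0) (P.cons (P.lf 753196 0 0) (P.lf 251065 0 0)))) (P.cons (P.cons (P.lf 0 26278446 0) (P.cons (P.lf 44667030 0 0) (P.cons (P.lf 0 710934 0) (P.lf 0 236978 0)))) (P.cons (P.cons (P.lf 33698678 0 0) (P.cons (P.lf 3907061 0 0) (P.cons (P.lf 0 62185 0) (P.lf 0 20728 0)))) (P.cons (P.cons (P.lf 4601820 0 0) (P.cons (P.lf 0 1177327 0) (P.cons (P.lf 18737 0 0) P.nil))) (P.cons (P.cons (P.lf 0 1333329 0) (P.cons (P.lf 0 91113 0) P.nil)) (P.cons (P.cons (P.lf 0 103745 0) P.nil) P.nil)))))) 52594)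
 (EL.cons 8 (TM.mk (P.cons (P.cons (P.lf 0 49722481 0) (P.cons (P.lf 0 221902403 0) (P.cons (P.lf 3531868 0 0) (P.lf 1177289 0 0)))) (P.cons (P.cons (P.lf 0 173346874 0) (P.cons (P.lf 0 14238197 0) (P.cons (P.lf 226618 0 0) (P.lf 75538 0 0)))) (P.cons (P.cons (P.lf 0 16120265 0) (P.cons (P.lf 6662763 0 0) (P.cons (P.lf 0 106045 0) (P.lf 0 35347 0)))) (P.cons (P.cons (P.lf 7227057 0 0) (P.cons (P.lf 446284 0 0) (P.cons (P.lf 0 7101 0) P.nil))) (P.cons (P.cons (P.lf 512381 0 0) (P.cons (P.lf 0 99187 0) P.nil)) (P.cons (P.cons (P.lf 0 111332 0) P.nil) P.nil)))))) 24192)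
 EL.nil))
noncomputable def S227_256_512_586_14 : EL := (EL.cons 4 (TM.mk (P.cons (P.cons (P.lf 247492 0 0) (P.cons (P.lf 2209034 0 0) (P.cons (P.lf 4894100 0 0) (P.cons (P.lf 0 168630 0) (P.cons (P.lf 0 51054 0) (P.cons (P.lf 831 0 0) P.nil)))))) (P.cons (P.cons (P.lf 1472208 0 0) (P.cons (P.lf 5580812 0 0) (P.cons (P.lf 0 4504286 0) (P.cons (P.lf 110946 0 0) (P.cons (P.lf 45733 0 0) P.nil))))) (P.cons (P.cons (P.lf 1410341 0 0) (P.cons (P.lf 0 6807489 0) (P.cons (P.lf 0 635429 0) (P.cons (P.lf 59792 0 0) P.nil)))) (P.cons (P.cons (P.lf 0 2697596 0) (P.cons (P.lf 0 1424430 0) (P.cons (P.lf 226687 0 0) P.nil))) (P.cons (P.cons (P.lf 0 635448 0) (P.cons (P.lf 386786 0 0) P.nil)) (P.cons (P.cons (P.lf 173685 0 0) P.nil) P.nil)))))) 193252)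
 (EL.cons 8 (TM.mk (P.cons (P.cons (P.lf 1160536 0 0) (P.cons (P.lf 10358530 0 0) (P.cons (P.lf 22949251 0 0) (P.cons (P.lf 0 790739 0) (P.cons (P.lf 0 239405 0) (P.cons (P.lf 3903 0 0) P.nil)))))) (P.cons (P.cons (P.lf 8073314 0 0) (P.cons (P.lf 36611303 0 0) (P.cons (P.lf 2012707 0 0) (P.cons (P.lf 0 276857 0) (P.cons (P.lf 0 26881 0) P.nil))))) (P.cons (P.cons (P.lf 14737557 0 0) (P.cons (P.lf 4858883 0 0) (P.cons (P.lf 0 1229413 0) (P.cons (P.lf 10894 0 0) P.nil)))) (P.cons (P.cons (P.lf 2113538 0 0) (P.cons (P.lf 0 2182926 0) (P.cons (P.lf 0 105388 0) P.nil))) (P.cons (P.cons (P.lf 0 994678 0) (P.cons (P.lf 0 294478 0) P.nil)) (P.cons (P.cons (P.lf 0 153300 0) P.nil) P.nil)))))) 221778)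
 EL.nil))
noncomputable def S227_256_512_586_15 : EL := (EL.cons 4 (TM.mk (P.cons (P.lf 0 51259096 0) (P.cons (P.lf 101699239 0 0) (P.cons (P.lf 0 49221527 0) (P.cons (P.lf 0 1608569 0) (P.cons (P.lf 377947 0 0) (P.cons (P.lf 14225 0 0) P.nil)))))) 2557)
 (EL.cons 8 (TM.mk (P.cons (P.lf 0 240362403 0) (P.cons (P.lf 234586631 0 0) (P.cons (P.lf 8586714 0 0) (P.cons (P.lf 0 2734865 0) (P.cons (P.lf 0 94029 0) (P.cons (P.lf 17324 0 0) P.nil)))))) 877)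
 EL.nil))
noncomputable def S227_256_512_586_16 : EL := (EL.cons 4 (TM.mk (P.cons (P.cons (P.lf 1196401 0 0) (P.cons (P.lf 5339324 0 0) (P.cons (P.lf 0 84981 0) (P.lf 0 28326 0)))) (P.cons (P.cons (P.lf 1778119 0 0) (P.cons (P.lf 0 10336398 0) (P.cons (P.lf 164517 0 0) (P.lf 54839 0 0)))) (P.cons (P.cons (P.lf 0 6757720 0) (P.cons (P.lf 4495000 0 0) (P.cons (P.lf 0 71543 0) (P.lf 0 23847 0)))) (P.cons (P.cons (P.lf 3221877 0 0) (P.cons (P.lf 650858 0 0) (P.cons (P.lf 0 10358 0) P.nil))) (P.cons (P.cons (P.lf 722384 0 0) (P.cons (P.lf 0 135310 0) P.nil)) (P.cons (P.cons (P.lf 0 145830 0) P.nil) P.nil)))))) 48488)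
 (EL.cons 8 (TM.mk (P.cons (P.cons (P.lf 5610126 0 0) (P.cons (P.lf 25036977 0 0) (P.cons (P.lf 0 398496 0) (P.lf 0 132831 0)))) (P.cons (P.cons (P.lf 13993205 0 0) (P.cons (P.lf 0 23230494 0) (P.cons (P.lf 369743 0 0) (P.lf 123248 0 0)))) (P.cons (P.cons (P.lf 0 17650311 0) (P.cons (P.lf 0 2643805 0) (P.cons (P.lf 42079 0 0) (P.lf 14026 0 0)))) (P.cons (P.cons (P.lf 0 2831138 0) (P.cons (P.lf 773064 0 0) (P.cons (P.lf 0 12303 0) P.nil))) (P.cons (P.cons (P.lf 805490 0 0) (P.cons (P.lf 78280 0 0) P.nil)) (P.cons (P.cons (P.lf 88115 0 0) P.nil) P.nil)))))) 45606)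
 EL.nil))
noncomputable def S227_256_512_586_17 : EL := (EL.cons 4 (TM.mk (P.cons (P.cons (P.lf 0 27923 0) (P.cons (P.lf 0 249241 0) (P.cons (P.lf 0 552195 0) (P.cons (P.lf 19025 0 0) (P.cons (P.lf 5760 0 0) (P.cons (P.lf 0 93 0) P.nil)))))) (P.cons (P.cons (P.lf 0 138405 0) (P.cons (P.lf 0 382424 0) (P.cons (P.lf 1055997 0 0) (P.cons (P.lf 0 31392 0) (P.cons (P.lf 0 10874 0) P.nil))))) (P.cons (P.cons (P.lf 5985 0 0) (P.cons (P.lf 1395697 0 0) (P.cons (P.lf 0 425876 0) (P.cons (P.lf 5444 0 0) P.nil)))) (P.cons (P.cons (P.lf 464093 0 0) (P.cons (P.lf 0 594686 0) (P.cons (P.lf 0 104891 0) P.nil))) (P.cons (P.cons (P.lf 0 228985 0) (P.cons (P.lf 0 214681 0) P.nil)) (P.cons (P.cons (P.lf 0 94976 0) P.nil) P.nil)))))) 177783)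
 (EL.cons 8 (TM.mk (P.cons (P.cons (P.lf 0 130941 0) (P.cons (P.lf 0 1168739 0) (P.cons (P.lf 0 2589335 0) (P.cons (P.lf 89218 0 0) (P.cons (P.lf 27011 0 0) (P.cons (P.lf 0 439 0) P.nil)))))) (P.cons (P.cons (P.lf 0 781006 0) (P.cons (P.lf 0 2971404 0) (P.cons (P.lf 2341559 0 0) (P.cons (P.lf 0 57267 0) (P.cons (P.lf 0 23762 0) P.nil))))) (P.cons (P.cons (P.lf 0 757634 0) (P.cons (P.lf 3563518 0 0) (P.cons (P.lf 394851 0 0) (P.cons (P.lf 0 33280 0) P.nil)))) (P.cons (P.cons (P.lf 1421419 0 0) (P.cons (P.lf 834853 0 0) (P.cons (P.lf 0 133020 0) P.nil))) (P.cons (P.cons (P.lf 365077 0 0) (P.cons (P.lf 0 220635 0) P.nil)) (P.cons (P.cons (P.lf 0 97692 0) P.nil) P.nil)))))) 129666)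
 EL.nil))
noncomputable def S227_256_512_586_18 : EL := (EL.cons 4 (TM.mk (P.cons (P.lf 5783501 0 0) (P.cons (P.lf 0 17211901 0) (P.cons (P.lf 16867610 0 0) (P.cons (P.lf 0 5168619 0) (P.cons (P.lf 0 332796 0) (P.cons (P.lf 59024 0 0) P.nil)))))) 4306)
 (EL.cons 8 (TM.mk (P.cons (P.lf 27119797 0 0) (P.cons (P.lf 0 53371278 0) (P.cons (P.lf 24964624 0 0) (P.cons (P.lf 1690000 0 0) (P.cons (P.lf 0 384174 0) (P.cons (P.lf 0 22382 0) P.nil)))))) 4185)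
 EL.nil))
noncomputable def S227_256_512_586_19 : EL := (EL.cons 4 (TM.mk (P.cons (P.cons (P.lf 0 134987 0) (P.cons (P.lf 0 602429 0) (P.cons (P.lf 9587 0 0) (P.lf 3195 0 0)))) (P.cons (P.cons (P.lf 0 66712 0) (P.cons (P.lf 1763860 0 0) (P.cons (P.lf 0 28073 0) (P.lf 0 9357 0)))) (P.cons (P.cons (P.lf 963094 0 0) (P.cons (P.lf 0 1656911 0) (P.cons (P.lf 26371 0 0) (P.lf 8790 0 0)))) (P.cons (P.cons (P.lf 0 1118025 0) (P.cons (P.lf 413447 0 0) (P.cons (P.lf 0 6580 0) P.nil))) (P.cons (P.cons (P.lf 269235 0 0) (P.cons (P.lf 98623 0 0) P.nil)) (P.cons (P.cons (P.lf 104575 0 0) P.nil) P.nil)))))) 59946)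
 (EL.cons 8 (TM.mk (P.cons (P.cons (P.lf 0 632983 0) (P.cons (P.lf 0 2824891 0) (P.cons (P.lf 44961 0 0) (P.lf 14986 0 0)))) (P.cons (P.cons (P.lf 0 950908 0) (P.cons (P.lf 5423393 0 0) (P.cons (P.lf 0 86320 0) (P.lf 0 28773 0)))) (P.cons (P.cons (P.lf 3565231 0 0) (P.cons (P.lf 0 2268163 0) (P.cons (P.lf 36100 0 0) (P.lf 12033 0 0)))) (P.cons (P.cons (P.lf 0 1639750 0) (P.cons (P.lf 0 425302 0) (P.cons (P.lf 6768 0 0) P.nil))) (P.cons (P.cons (P.lf 0 437655 0) (P.cons (P.lf 84053 0 0) P.nil)) (P.cons (P.cons (P.lf 83993 0 0) P.nil) P.nil)))))) 37640)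
 EL.nil))
noncomputable def S227_256_512_586_20 : EL := (EL.cons 4 (TM.mk (P.cons (P.cons (P.lf 3150 0 0) (P.cons (P.lf 28121 0 0) (P.cons (P.lf 62303 0 0) (P.cons (P.lf 0 2145 0) (P.cons (P.lf 0 649 0) (P.cons (P.lf 10 0 0) P.nil)))))) (P.cons (P.cons (P.lf 12490 0 0) (P.cons (P.lf 15251 0 0) (P.cons (P.lf 0 180952 0) (P.cons (P.lf 5670 0 0) (P.cons (P.lf 1871 0 0) P.nil))))) (P.cons (P.cons (P.lf 0 16203 0) (P.cons (P.lf 0 200613 0) (P.cons (P.lf 165503 0 0) (P.cons (P.lf 0 4101 0) P.nil)))) (P.cons (P.cons (P.lf 0 51866 0) (P.cons (P.lf 222908 0 0) (P.cons (P.lf 0 34170 0) P.nil))) (P.cons (P.cons (P.lf 77849 0 0) (P.cons (P.lf 0 40292 0) P.nil)) (P.cons (P.cons (P.lf 0 14290 0) P.nil) P.nil)))))) 96060)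
 (EL.cons 8 (TM.mk (P.cons (P.cons (P.lf 14773 0 0) (P.cons (P.lf 131867 0 0) (P.cons (P.lf 292151 0 0) (P.cons (P.lf 0 10065 0) (P.cons (P.lf 0 3047 0) (P.cons (P.lf 49 0 0) P.nil)))))) (P.cons (P.cons (P.lf 73463 0 0) (P.cons (P.lf 204445 0 0) (P.cons (P.lf 0 554013 0) (P.cons (P.lf 16447 0 0) (P.cons (P.lf 5704 0 0) P.nil))))) (P.cons (P.cons (P.lf 0 2108 0) (P.cons (P.lf 0 736220 0) (P.cons (P.lf 214051 0 0) (P.cons (P.lf 0 2534 0) P.nil)))) (P.cons (P.cons (P.lf 0 246169 0) (P.cons (P.lf 301173 0 0) (P.cons (P.lf 63481 0 0) P.nil))) (P.cons (P.cons (P.lf 117227 0 0) (P.cons (P.lf 124435 0 0) P.nil)) (P.cons (P.cons (P.lf 54133 0 0) P.nil) P.nil)))))) 107572)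
 EL.nil))
noncomputable def S227_256_512_586_21 : EL := (EL.cons 4 (TM.mk (P.cons (P.cons (P.lf 2293952892 0 0) (P.cons (P.lf 141967083 0 0) (P.cons (P.lf 0 2259588 0) (P.lf 0 753195 0)))) (P.cons (P.cons (P.lf 383933055 0 0) (P.cons (P.lf 0 134001090 0) (P.cons (P.lf 2132802 0 0) (P.lf 710934 0 0)))) (P.cons (P.cons (P.lf 0 248760612 0) (P.cons (P.lf 0 11721183 0) (P.cons (P.lf 186555 0 0) (P.lf 62184 0 0)))) (P.cons (P.cons (P.lf 0 18631164 0) (P.cons (P.lf 3531981 0 0) (P.cons (P.lf 0 56211 0) P.nil))) (P.cons (P.cons (P.lf 5133825 0 0) (P.cons (P.lf 273339 0 0) P.nil)) (P.cons (P.cons (P.lf 353913 0 0) P.nil) P.nil)))))) 165579)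
 (EL.cons 8 (TM.mk (P.cons (P.cons (P.lf 0 173938770 0) (P.cons (P.lf 0 10764648 0) (P.cons (P.lf 171339 0 0) (P.lf 57114 0 0)))) (P.cons (P.cons (P.lf 146227740 0 0) (P.cons (P.lf 21011943 0 0) (P.cons (P.lf 0 334428 0) (P.lf 0 111474 0)))) (P.cons (P.cons (P.lf 46096068 0 0) (P.cons (P.lf 0 9484401 0) (P.cons (P.lf 150954 0 0) (P.lf 50316 0 0)))) (P.cons (P.cons (P.lf 0 17231964 0) (P.cons (P.lf 0 995586 0) (P.cons (P.lf 15840 0 0) P.nil))) (P.cons (P.cons (P.lf 0 1477605 0) (P.cons (P.lf 216909 0 0) P.nil)) (P.cons (P.cons (P.lf 304944 0 0) P.nil) P.nil)))))) 81840)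
 (EL.cons 11 (TM.mk (P.cons (P.cons (P.lf 3112155018 0 0) (P.cons (P.lf 0 115363341 0) (P.cons (P.lf 0 57162951 0) (P.cons (P.lf 518718 0 0) (P.lf 129678 0 0))))) (P.cons (P.cons (P.lf 99844524 0 0) (P.cons (P.lf 0 3701100 0) (P.cons (P.lf 0 1833906 0) (P.cons (P.lf 16641 0 0) (P.lf 4158 0 0))))) (P.cons (P.cons (P.lf 0 48323856 0) (P.cons (P.lf 1791297 0 0) (P.cons (P.lf 887595 0 0) (P.cons (P.lf 0 8052 0) P.nil)))) (P.cons (P.cons (P.lf 0 1579227 0) (P.cons (P.lf 58539 0 0) (P.cons (P.lf 29004 0 0) P.nil))) (P.cons (P.cons (P.lf 371049 0 0) (P.cons (P.lf 0 13752 0) P.nil)) (P.cons (P.cons (P.lf 13965 0 0) P.nil) P.nil)))))) 12969)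
 EL.nil)))
noncomputable def S227_256_512_586_22 : EL := (EL.cons 4 (TM.mk (P.cons (P.cons (P.lf 0 53541513 0) (P.cons (P.lf 0 242259609 0) (P.cons (P.lf 0 10931901 0) (P.cons (P.lf 1756026 0 0) (P.cons (P.lf 153162 0 0) (P.cons (P.lf 0 2496 0) P.nil)))))) (P.cons (P.cons (P.lf 0 194763369 0) (P.cons (P.lf 0 59861856 0) (P.cons (P.lf 14199159 0 0) (P.cons (P.lf 0 104073 0) (P.cons (P.lf 0 137199 0) P.nil))))) (P.cons (P.cons (P.lf 0 40091625 0) (P.cons (P.lf 39671574 0 0) (P.cons (P.lf 1599915 0 0) (P.cons (P.lf 0 281502 0) P.nil)))) (P.cons (P.cons (P.lf 24652812 0 0) (P.cons (P.lf 6511947 0 0) (P.cons (P.lf 0 715692 0) P.nil))) (P.cons (P.cons (P.lf 4397802 0 0) (P.cons (P.lf 0 1631733 0) P.nil)) (P.cons (P.cons (P.lf 0 1031562 0) P.nil) P.nil)))))) 788982)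
 (EL.cons 8 (TM.mk (P.cons (P.cons (P.lf 4059780 0 0) (P.cons (P.lf 18369312 0 0) (P.cons (P.lf 828909 0 0) (P.cons (P.lf 0 133149 0) (P.cons (P.lf 0 11613 0) (P.cons (P.lf 189 0 0) P.nil)))))) (P.cons (P.cons (P.lf 10675440 0 0) (P.cons (P.lf 0 13978212 0) (P.cons (P.lf 0 1912233 0) (P.cons (P.lf 142113 0 0) (P.cons (P.lf 22110 0 0) P.nil))))) (P.cons (P.cons (P.lf 0 11797587 0) (P.cons (P.lf 0 7360587 0) (P.cons (P.lf 974070 0 0) (P.cons (P.lf 11772 0 0) P.nil)))) (P.cons (P.cons (P.lf 0 4771254 0) (P.cons (P.lf 2517312 0 0) (P.cons (P.lf 160035 0 0) P.nil))) (P.cons (P.cons (P.lf 1526751 0 0) (P.cons (P.lf 567582 0 0) P.nil)) (P.cons (P.cons (P.lf 380175 0 0) P.nil) P.nil)))))) 401520)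
 (EL.cons 11 (TM.mk (P.cons (P.cons (P.lf 0 72638586 0) (P.cons (P.lf 0 321480204 0) (P.cons (P.lf 18510480 0 0) (P.cons (P.lf 7470801 0 0) (P.cons (P.lf 0 215580 0) (P.cons (P.lf 0 44235 0) P.nil)))))) (P.cons (P.cons (P.lf 0 254404206 0) (P.cons (P.lf 0 16569957 0) (P.cons (P.lf 6050430 0 0) (P.cons (P.lf 557763 0 0) (P.cons (P.lf 0 27648 0) P.nil))))) (P.cons (P.cons (P.lf 0 27038703 0) (P.cons (P.lf 12960624 0 0) (P.cons (P.lf 0 136971 0) (P.cons (P.lf 0 280539 0) P.nil)))) (P.cons (P.cons (P.lf 12187992 0 0) (P.cons (P.lf 561681 0 0) (P.cons (P.lf 0 277560 0) P.nil))) (P.cons (P.cons (P.lf 1133724 0 0) (P.cons (P.lf 0 260532 0) P.nil)) (P.cons (P.cons (P.lf 0 238749 0) P.nil) P.nil)))))) 157923)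
 EL.nil)))
noncomputable def S227_256_512_586_23 : EL := (EL.cons 4 (TM.mk (P.cons (P.cons (P.lf 0 258823914 0) (P.cons (P.lf 0 16017972 0) (P.cons (P.lf 254946 0 0) (P.lf 84981 0 0)))) (P.cons (P.cons (P.lf 213437631 0 0) (P.cons (P.lf 31009194 0 0) (P.cons (P.lf 0 493551 0) (P.lf 0 164517 0)))) (P.cons (P.cons (P.lf 74124861 0 0) (P.cons (P.lf 0 13485000 0) (P.cons (P.lf 214629 0 0) (P.lf 71544 0 0)))) (P.cons (P.cons (P.lf 0 26225595 0) (P.cons (P.lf 0 1952574 0) (P.cons (P.lf 31074 0 0) P.nil))) (P.cons (P.cons (P.lf 0 3186939 0) (P.cons (P.lf 405930 0 0) P.nil)) (P.cons (P.cons (P.lf 618600 0 0) P.nil) P.nil)))))) 159492)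
 (EL.cons 8 (TM.mk (P.cons (P.cons (P.lf 19625298 0 0) (P.cons (P.lf 1214562 0 0) (P.cons (P.lf 0 19329 0) (P.lf 0 6444 0)))) (P.cons (P.cons (P.lf 0 35967222 0) (P.cons (P.lf 0 3575610 0) (P.cons (P.lf 56910 0 0) (P.lf 18969 0 0)))) (P.cons (P.cons (P.lf 10932027 0 0) (P.cons (P.lf 3407448 0 0) (P.cons (P.lf 0 54231 0) (P.lf 0 18075 0)))) (P.cons (P.cons (P.lf 7376211 0 0) (P.cons (P.lf 0 916281 0) (P.cons (P.lf 14583 0 0) P.nil))) (P.cons (P.cons (P.lf 0 1762284 0) (P.cons (P.lf 0 157731 0) P.nil)) (P.cons (P.cons (P.lf 0 244662 0) P.nil) P.nil)))))) 103476)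
 (EL.cons 11 (TM.mk (P.cons (P.cons (P.lf 0 351140664 0) (P.cons (P.lf 13016304 0 0) (P.cons (P.lf 6449625 0 0) (P.cons (P.lf 0 58524 0) (P.lf 0 14631 0))))) (P.cons (P.cons (P.lf 337070286 0 0) (P.cons (P.lf 0 12494733 0) (P.cons (P.lf 0 6191184 0) (P.cons (P.lf 56181 0 0) (P.lf 14043 0 0))))) (P.cons (P.cons (P.lf 20812815 0 0) (P.cons (P.lf 0 771501 0) (P.cons (P.lf 0 382281 0) (P.cons (P.lf 3468 0 0) P.nil)))) (P.cons (P.cons (P.lf 0 6454194 0) (P.cons (P.lf 239247 0 0) (P.cons (P.lf 118548 0 0) P.nil))) (P.cons (P.cons (P.lf 0 354732 0) (P.cons (P.lf 13149 0 0) P.nil)) (P.cons (P.cons (P.lf 63234 0 0) P.nil) P.nil)))))) 17751)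
 EL.nil)))
noncomputable def S227_256_512_586_24 : EL := (EL.cons 4 (TM.mk (P.cons (P.cons (P.lf 6041022 0 0) (P.cons (P.lf 27333855 0 0) (P.cons (P.lf 1233432 0 0) (P.cons (P.lf 0 198129 0) (P.cons (P.lf 0 17280 0) (P.cons (P.lf 279 0 0) P.nil)))))) (P.cons (P.cons (P.lf 15982146 0 0) (P.cons (P.lf 0 20361363 0) (P.cons (P.lf 0 2825652 0) (P.cons (P.lf 208290 0 0) (P.cons (P.lf 32622 0 0) P.nil))))) (P.cons (P.cons (P.lf 0 17347881 0) (P.cons (P.lf 0 11502066 0) (P.cons (P.lf 1394058 0 0) (P.cons (P.lf 22473 0 0) P.nil)))) (P.cons (P.cons (P.lf 0 7507452 0) (P.cons (P.lf 3730803 0 0) (P.cons (P.lf 283689 0 0) P.nil))) (P.cons (P.cons (P.lf 2294664 0 0) (P.cons (P.lf 994584 0 0) P.nil)) (P.cons (P.cons (P.lf 660903 0 0) P.nil) P.nil)))))) 722949)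
 (EL.cons 8 (TM.mk (P.cons (P.cons (P.lf 0 458058 0) (P.cons (P.lf 0 2072586 0) (P.cons (P.lf 0 93525 0) (P.cons (P.lf 15021 0 0) (P.cons (P.lf 1308 0 0) (P.cons (P.lf 0 21 0) P.nil)))))) (P.cons (P.cons (P.lf 0 750096 0) (P.cons (P.lf 3633174 0 0) (P.cons (P.lf 308532 0 0) (P.cons (P.lf 0 30936 0) (P.cons (P.lf 0 3792 0) P.nil))))) (P.cons (P.cons (P.lf 2531442 0 0) (P.cons (P.lf 0 709356 0) (P.cons (P.lf 0 322818 0) (P.cons (P.lf 14397 0 0) P.nil)))) (P.cons (P.cons (P.lf 0 769554 0) (P.cons (P.lf 0 1134687 0) (P.cons (P.lf 88035 0 0) P.nil))) (P.cons (P.cons (P.lf 0 726855 0) (P.cons (P.lf 213753 0 0) P.nil)) (P.cons (P.cons (P.lf 126633 0 0) P.nil) P.nil)))))) 239877)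
 (EL.cons 11 (TM.mk (P.cons (P.cons (P.lf 8195721 0 0) (P.cons (P.lf 36272217 0 0) (P.cons (P.lf 0 2088513 0) (P.cons (P.lf 0 842919 0) (P.cons (P.lf 24321 0 0) (P.cons (P.lf 4989 0 0) P.nil)))))) (P.cons (P.cons (P.lf 20573862 0 0) (P.cons (P.lf 0 34112895 0) (P.cons (P.lf 1389165 0 0) (P.cons (P.lf 773256 0 0) (P.cons (P.lf 0 21009 0) P.nil))))) (P.cons (P.cons (P.lf 0 25521756 0) (P.cons (P.lf 0 3749283 0) (P.cons (P.lf 717555 0 0) (P.cons (P.lf 104127 0 0) P.nil)))) (P.cons (P.cons (P.lf 0 4711953 0) (P.cons (P.lf 1505259 0 0) (P.cons (P.lf 16044 0 0) P.nil))) (P.cons (P.cons (P.lf 1311537 0 0) (P.cons (P.lf 119769 0 0) P.nil)) (P.cons (P.cons (P.lf 184149 0 0) P.nil) P.nil)))))) 194592)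
 EL.nil)))
noncomputable def S227_256_512_586_25 : EL := (EL.cons 4 (TM.mk (P.cons (P.cons (P.lf 29202786 0 0) (P.cons (P.lf 1807287 0 0) (P.cons (P.lf 0 28764 0) (P.lf 0 9588 0)))) (P.cons (P.cons (P.lf 0 53051412 0) (P.cons (P.lf 0 5291580 0) (P.cons (P.lf 84222 0 0) (P.lf 28074 0 0)))) (P.cons (P.cons (P.lf 15178053 0 0) (P.cons (P.lf 4970736 0 0) (P.cons (P.lf 0 79113 0) (P.lf 0 26370 0)))) (P.cons (P.cons (P.lf 11655564 0 0) (P.cons (P.lf 0 1240344 0) (P.cons (P.lf 19740 0 0) P.nil))) (P.cons (P.cons (P.lf 0 2566938 0) (P.cons (P.lf 0 295869 0) P.nil)) (P.cons (P.cons (P.lf 0 496431 0) P.nil) P.nil)))))) 216357)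
 (EL.cons 8 (TM.mk (P.cons (P.cons (P.lf 0 2214297 0) (P.cons (P.lf 0 137037 0) (P.cons (P.lf 2181 0 0) (P.lf 726 0 0)))) (P.cons (P.cons (P.lf 6254748 0 0) (P.cons (P.lf 539373 0 0) (P.cons (P.lf 0 8583 0) (P.lf 0 2859 0)))) (P.cons (P.cons (P.lf 0 5232774 0) (P.cons (P.lf 0 783033 0) (P.cons (P.lf 12462 0 0) (P.lf 4152 0 0)))) (P.cons (P.cons (P.lf 334413 0 0) (P.cons (P.lf 479430 0 0) (P.cons (P.lf 0 7629 0) P.nil))) (P.cons (P.cons (P.lf 1054656 0 0) (P.cons (P.lf 0 78627 0) P.nil)) (P.cons (P.cons (P.lf 0 164142 0) P.nil) P.nil)))))) 82185)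
 (EL.cons 11 (TM.mk (P.cons (P.cons (P.lf 39618774 0 0) (P.cons (P.lf 0 1468611 0) (P.cons (P.lf 0 727701 0) (P.cons (P.lf 6603 0 0) (P.lf 1650 0 0))))) (P.cons (P.cons (P.lf 0 77333514 0) (P.cons (P.lf 2866647 0 0) (P.cons (P.lf 1420434 0 0) (P.cons (P.lf 0 12888 0) (P.lf 0 3222 0))))) (P.cons (P.cons (P.lf 34906932 0 0) (P.cons (P.lf 0 1293951 0) (P.cons (P.lf 0 641157 0) (P.cons (P.lf 5817 0 0) P.nil)))) (P.cons (P.cons (P.lf 3664236 0 0) (P.cons (P.lf 0 135828 0) (P.cons (P.lf 0 67302 0) P.nil))) (P.cons (P.cons (P.lf 0 798345 0) (P.cons (P.lf 29592 0 0) P.nil)) (P.cons (P.cons (P.lf 0 68169 0) P.nil) P.nil)))))) 38373)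
 EL.nil)))
noncomputable def S227_256_512_586_26 : EL := (EL.cons 4 (TM.mk (P.cons (P.cons (P.lf 0 681600 0) (P.cons (P.lf 0 3084045 0) (P.cons (P.lf 0 139167 0) (P.cons (P.lf 22353 0 0) (P.cons (P.lf 1947 0 0) (P.cons (P.lf 0 30 0) P.nil)))))) (P.cons (P.cons (P.lf 0 1127088 0) (P.cons (P.lf 5356755 0 0) (P.cons (P.lf 456870 0 0) (P.cons (P.lf 0 45675 0) (P.cons (P.lf 0 5613 0) P.nil))))) (P.cons (P.cons (P.lf 3754305 0 0) (P.cons (P.lf 0 944472 0) (P.cons (P.lf 0 471897 0) (P.cons (P.lf 20508 0 0) P.nil)))) (P.cons (P.cons (P.lf 0 1075788 0) (P.cons (P.lf 0 1747644 0) (P.cons (P.lf 119685 0 0) P.nil))) (P.cons (P.cons (P.lf 0 1129548 0) (P.cons (P.lf 298533 0 0) P.nil)) (P.cons (P.cons (P.lf 179607 0 0) P.nil) P.nil)))))) 405828)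
 (EL.cons 8 (TM.mk (P.cons (P.cons (P.lf 51681 0 0) (P.cons (P.lf 233847 0 0) (P.cons (P.lf 10551 0 0) (P.cons (P.lf 0 1695 0) (P.cons (P.lf 0 147 0) (P.cons (P.lf 0 0 0) P.nil)))))) (P.cons (P.cons (P.lf 33360 0 0) (P.cons (P.lf 0 641904 0) (P.cons (P.lf 0 45279 0) (P.cons (P.lf 5172 0 0) (P.cons (P.lf 573 0 0) P.nil))))) (P.cons (P.cons (P.lf 0 370191 0) (P.cons (P.lf 483900 0 0) (P.cons (P.lf 70830 0 0) (P.cons (P.lf 0 5067 0) P.nil)))) (P.cons (P.cons (P.lf 369354 0 0) (P.cons (P.lf 54417 0 0) (P.cons (P.lf 0 45609 0) P.nil))) (P.cons (P.cons (P.lf 0 387 0) (P.cons (P.lf 0 153639 0) P.nil)) (P.cons (P.cons (P.lf 0 97776 0) P.nil) P.nil)))))) 137280)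
 (EL.cons 11 (TM.mk (P.cons (P.cons (P.lf 0 924711 0) (P.cons (P.lf 0 4092549 0) (P.cons (P.lf 235641 0 0) (P.cons (P.lf 95103 0 0) (P.cons (P.lf 0 2742 0) (P.cons (P.lf 0 561 0) P.nil)))))) (P.cons (P.cons (P.lf 0 1403994 0) (P.cons (P.lf 7908774 0 0) (P.cons (P.lf 0 390498 0) (P.cons (P.lf 0 181590 0) (P.cons (P.lf 5091 0 0) P.nil))))) (P.cons (P.cons (P.lf 5193390 0 0) (P.cons (P.lf 0 3346362 0) (P.cons (P.lf 71715 0 0) (P.cons (P.lf 73665 0 0) P.nil)))) (P.cons (P.cons (P.lf 0 2300847 0) (P.cons (P.lf 0 651183 0) (P.cons (P.lf 81282 0 0) P.nil))) (P.cons (P.cons (P.lf 0 718743 0) (P.cons (P.lf 164484 0 0) P.nil)) (P.cons (P.cons (P.lf 130647 0 0) P.nil) P.nil)))))) 131889)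
 EL.nil)))
noncomputable def S227_256_512_586_27 : EL := (EL.cons 13 (TM.mk (P.lf 0 4294967296 0) 0)
 EL.nil)
noncomputable def S227_256_512_586_28 : EL := (EL.cons 13 (TM.mk (P.cons (P.cons (P.lf 100245763 0 0) (P.cons (P.lf 447378632 0 0) (P.cons (P.lf 0 7120620 0) (P.lf 0 2373540 0)))) (P.cons (P.cons (P.lf 347877519 0 0) (P.cons (P.lf 21529280 0 0) (P.cons (P.lf 0 342664 0) (P.lf 0 114220 0)))) (P.cons (P.cons (P.lf 27711008 0 0) (P.cons (P.lf 0 10247300 0) (P.cons (P.lf 163096 0 0) (P.lf 54364 0 0)))) (P.cons (P.cons (P.lf 0 12256696 0) (P.cons (P.lf 0 508592 0) (P.cons (P.lf 8092 0 0) P.nil))) (P.cons (P.cons (P.lf 0 576536 0) (P.cons (P.lf 116344 0 0) P.nil)) (P.cons (P.cons (P.lf 129807 0 0) P.nil) P.nil)))))) 23267)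
 EL.nil)
noncomputable def S227_256_512_586_29 : EL := (EL.cons 13 (TM.mk (P.cons (P.cons (P.lf 0 2339764 0) (P.cons (P.lf 0 20883890 0) (P.cons (P.lf 0 46268109 0) (P.cons (P.lf 1594214 0 0) (P.cons (P.lf 482666 0 0) (P.cons (P.lf 0 7870 0) P.nil)))))) (P.cons (P.cons (P.lf 0 16239121 0) (P.cons (P.lf 0 73477247 0) (P.cons (P.lf 0 3315641 0) (P.cons (P.lf 532601 0 0) (P.cons (P.lf 46454 0 0) P.nil))))) (P.cons (P.cons (P.lf 0 29470443 0) (P.cons (P.lf 0 8782193 0) (P.cons (P.lf 2166648 0 0) (P.cons (P.lf 0 17926 0) P.nil)))) (P.cons (P.cons (P.lf 0 3916842 0) (P.cons (P.lf 3959320 0 0) (P.cons (P.lf 145669 0 0) P.nil))) (P.cons (P.cons (P.lf 1833622 0 0) (P.cons (P.lf 452173 0 0) P.nil)) (P.cons (P.cons (P.lf 245495 0 0) P.nil) P.nil)))))) 337135)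
 EL.nil)
noncomputable def S227_256_512_586_30 : EL := (EL.cons 13 (TM.mk (P.cons (P.lf 484595936 0 0) (P.cons (P.lf 0 480724804 0) (P.cons (P.lf 0 5775768 0) (P.cons (P.lf 1873960 0 0) (P.cons (P.lf 38036 0 0) (P.cons (P.lf 0 7180 0) P.nil)))))) 280)
 EL.nil)
noncomputable def S227_256_512_586_31 : EL := (EL.cons 13 (TM.mk (P.cons (P.cons (P.lf 0 11310607 0) (P.cons (P.lf 0 50477186 0) (P.cons (P.lf 803410 0 0) (P.lf 267803 0 0)))) (P.cons (P.cons (P.lf 0 28030343 0) (P.cons (P.lf 47644833 0 0) (P.cons (P.lf 0 758330 0) (P.lf 0 252777 0)))) (P.cons (P.cons (P.lf 35945257 0 0) (P.cons (P.lf 4167532 0 0) (P.cons (P.lf 0 66331 0) (P.lf 0 22110 0)))) (P.cons (P.cons (P.lf 4908609 0 0) (P.cons (P.lf 0 1255816 0) (P.cons (P.lf 19987 0 0) P.nil))) (P.cons (P.cons (P.lf 0 1422218 0) (P.cons (P.lf 0 97188 0) P.nil)) (P.cons (P.cons (P.lf 0 110662 0) P.nil) P.nil)))))) 56081)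
 EL.nil)
noncomputable def S227_256_512_586_32 : EL := (EL.cons 13 (TM.mk (P.cons (P.cons (P.lf 263992 0 0) (P.cons (P.lf 2356303 0 0) (P.cons (P.lf 5220374 0 0) (P.cons (P.lf 0 179873 0) (P.cons (P.lf 0 54458 0) (P.cons (P.lf 887 0 0) P.nil)))))) (P.cons (P.cons (P.lf 1570356 0 0) (P.cons (P.lf 5952867 0 0) (P.cons (P.lf 0 4804572 0) (P.cons (P.lf 118343 0 0) (P.cons (P.lf 48782 0 0) P.nil))))) (P.cons (P.cons (P.lf 1504364 0 0) (P.cons (P.lf 0 7261322 0) (P.cons (P.lf 0 677791 0) (P.cons (P.lf 63779 0 0) P.nil)))) (P.cons (P.cons (P.lf 0 2877436 0) (P.cons (P.lf 0 1519392 0) (P.cons (P.lf 241800 0 0) P.nil))) (P.cons (P.cons (P.lf 0 677812 0) (P.cons (P.lf 412572 0 0) P.nil)) (P.cons (P.cons (P.lf 185264 0 0) P.nil) P.nil)))))) 206113)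
 EL.nil)
noncomputable def S227_256_512_586_33 : EL := (EL.cons 14 (TM.mk (P.lf 8589934592 0 0) 0)
 EL.nil)
noncomputable def S227_256_512_586_34 : EL := (EL.cons 14 (TM.mk (P.cons (P.cons (P.lf 0 200491526 0) (P.cons (P.lf 0 894757264 0) (P.cons (P.lf 14241240 0 0) (P.lf 4747080 0 0)))) (P.cons (P.cons (P.lf 0 695755038 0) (P.cons (P.lf 0 43058560 0) (P.cons (P.lf 685328 0 0) (P.lf 228440 0 0)))) (P.cons (P.cons (P.lf 0 55422016 0) (P.cons (P.lf 20494600 0 0) (P.cons (P.lf 0 326192 0) (P.lf 0 108728 0)))) (P.cons (P.cons (P.lf 24513392 0 0) (P.cons (P.lf 1017184 0 0) (P.cons (P.lf 0 16184 0) P.nil))) (P.cons (P.cons (P.lf 1153072 0 0) (P.cons (P.lf 0 232688 0) P.nil)) (P.cons (P.cons (P.lf 0 259614 0) P.nil) P.nil)))))) 46534)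
 EL.nil)
noncomputable def S227_256_512_586_35 : EL := (EL.cons 14 (TM.mk (P.cons (P.cons (P.lf 4679528 0 0) (P.cons (P.lf 41767780 0 0) (P.cons (P.lf 92536218 0 0) (P.cons (P.lf 0 3188428 0) (P.cons (P.lf 0 965332 0) (P.cons (P.lf 15740 0 0) P.nil)))))) (P.cons (P.cons (P.lf 32478242 0 0) (P.cons (P.lf 146954494 0 0) (P.cons (P.lf 6631282 0 0) (P.cons (P.lf 0 1065202 0) (P.cons (P.lf 0 92908 0) P.nil))))) (P.cons (P.cons (P.lf 58940886 0 0) (P.cons (P.lf 17564386 0 0) (P.cons (P.lf 0 4333296 0) (P.cons (P.lf 35852 0 0) P.nil)))) (P.cons (P.cons (P.lf 7833684 0 0) (P.cons (P.lf 0 7918640 0) (P.cons (P.lf 0 291338 0) P.nil))) (P.cons (P.cons (P.lf 0 3667244 0) (P.cons (P.lf 0 904346 0) P.nil)) (P.cons (P.cons (P.lf 0 490990 0) P.nil) P.nil)))))) 674270)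
 EL.nil)
noncomputable def S227_256_512_586_36 : EL := (EL.cons 14 (TM.mk (P.cons (P.lf 0 969191872 0) (P.cons (P.lf 961449608 0 0) (P.cons (P.lf 11551536 0 0) (P.cons (P.lf 0 3747920 0) (P.cons (P.lf 0 76072 0) (P.cons (P.lf 14360 0 0) P.nil)))))) 560)
 EL.nil)
noncomputable def S227_256_512_586_37 : EL := (EL.cons 14 (TM.mk (P.cons (P.cons (P.lf 22621214 0 0) (P.cons (P.lf 100954372 0 0) (P.cons (P.lf 0 1606820 0) (P.lf 0 535606 0)))) (P.cons (P.cons (P.lf 56060686 0 0) (P.cons (P.lf 0 95289666 0) (P.cons (P.lf 1516660 0 0) (P.lf 505554 0 0)))) (P.cons (P.cons (P.lf 0 71890514 0) (P.cons (P.lf 0 8335064 0) (P.cons (P.lf 132662 0 0) (P.lf 44220 0 0)))) (P.cons (P.cons (P.lf 0 9817218 0) (P.cons (P.lf 2511632 0 0) (P.cons (P.lf 0 39974 0) P.nil))) (P.cons (P.cons (P.lf 2844436 0 0) (P.cons (P.lf 194376 0 0) P.nil)) (P.cons (P.cons (P.lf 221324 0 0) P.nil) P.nil))))))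 112162)
 EL.nil)
noncomputable def S227_256_512_586_38 : EL := (EL.cons 14 (TM.mk (P.cons (P.cons (P.lf 0 527984 0) (P.cons (P.lf 0 4712606 0) (P.cons (P.lf 0 10440748 0) (P.cons (P.lf 359746 0 0) (P.cons (P.lf 108916 0 0) (P.cons (P.lf 0 1774 0) P.nil)))))) (P.cons (P.cons (P.lf 0 3140712 0) (P.cons (P.lf 0 11905734 0) (P.cons (P.lf 9609144 0 0) (P.cons (P.lf 0 236686 0) (P.cons (P.lf 0 97564 0) P.nil))))) (P.cons (P.cons (P.lf 0 3008728 0) (P.cons (P.lf 14522644 0 0) (P.cons (P.lf 1355582 0 0) (P.cons (P.lf 0 127558 0) P.nil)))) (P.cons (P.cons (P.lf 5754872 0 0) (P.cons (P.lf 3038784 0 0) (P.cons (P.lf 0 483600 0) P.nil))) (P.cons (P.cons (P.lf 1355624 0 0) (P.cons (P.lf 0 825144 0) P.nil)) (P.cons (P.cons (P.lf 0 370528 0) P.nil) P.nil)))))) 412226)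
 EL.nil)
noncomputable def S227_256_512_586_39 : EL := (EL.cons 14 (TM.mk (P.cons (P.lf 109352740 0 0) (P.cons (P.lf 0 216958378 0) (P.cons (P.lf 105005926 0 0) (P.cons (P.lf 3431614 0 0) (P.cons (P.lf 0 806288 0) (P.cons (P.lf 0 30348 0) P.nil)))))) 5440)
 EL.nil)
noncomputable def S227_256_512_586_40 : EL := (EL.cons 14 (TM.mk (P.cons (P.cons (P.lf 0 2552324 0) (P.cons (P.lf 0 11390558 0) (P.cons (P.lf 181294 0 0) (P.lf 60430 0 0)))) (P.cons (P.cons (P.lf 0 3793322 0) (P.cons (P.lf 22050984 0 0) (P.cons (P.lf 0 350970 0) (P.lf 0 116990 0)))) (P.cons (P.cons (P.lf 14416470 0 0) (P.cons (P.lf 0 9589334 0) (P.cons (P.lf 152626 0 0) (P.lf 50874 0 0)))) (P.cons (P.cons (P.lf 0 6873338 0) (P.cons (P.lf 0 1388498 0) (P.cons (P.lf 22098 0 0) P.nil))) (P.cons (P.cons (P.lf 0 1541086 0) (P.cons (P.lf 288662 0 0) P.nil)) (P.cons (P.cons (P.lf 311104 0 0) P.nil) P.nil)))))) 103402)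
 EL.nil)
noncomputable def S227_256_512_586_41 : EL := (EL.cons 14 (TM.mk (P.cons (P.cons (P.lf 59570 0 0) (P.cons (P.lf 531716 0 0) (P.cons (P.lf 1178016 0 0) (P.cons (P.lf 0 40588 0) (P.cons (P.lf 0 12288 0) (P.cons (P.lf 200 0 0) P.nil)))))) (P.cons (P.cons (P.lf 295266 0 0) (P.cons (P.lf 815838 0 0) (P.cons (P.lf 0 2252794 0) (P.cons (P.lf 66970 0 0) (P.cons (P.lf 23198 0 0) P.nil))))) (P.cons (P.cons (P.lf 0 12770 0) (P.cons (P.lf 0 2977488 0) (P.cons (P.lf 908536 0 0) (P.cons (P.lf 0 11614 0) P.nil)))) (P.cons (P.cons (P.lf 0 990066 0) (P.cons (P.lf 1268664 0 0) (P.cons (P.lf 223768 0 0) P.nil))) (P.cons (P.cons (P.lf 488502 0 0) (P.cons (P.lf 457988 0 0) P.nil)) (P.cons (P.cons (P.lf 202616 0 0) P.nil) P.nil)))))) 379224)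
 EL.nil)
noncomputable def S227_256_512_586_42 : EL := (EL.cons 14 (TM.mk (P.cons (P.lf 0 12338136 0) (P.cons (P.lf 36718724 0 0) (P.cons (P.lf 0 35984236 0) (P.cons (P.lf 11026388 0 0) (P.cons (P.lf 709966 0 0) (P.cons (P.lf 0 125918 0) P.nil)))))) 9172)
 EL.nil)
noncomputable def S227_256_512_586_43 : EL := (EL.cons 14 (TM.mk (P.cons (P.cons (P.lf 287974 0 0) (P.cons (P.lf 1285182 0 0) (P.cons (P.lf 0 20454 0) (P.lf 0 6818 0)))) (P.cons (P.cons (P.lf 142320 0 0) (P.cons (P.lf 0 3762902 0) (P.cons (P.lf 59890 0 0) (P.lf 19962 0 0)))) (P.cons (P.cons (P.lf 0 2054602 0) (P.cons (P.lf 3534744 0 0) (P.cons (P.lf 0 56260 0) (P.lf 0 18752 0)))) (P.cons (P.cons (P.lf 2385120 0 0) (P.cons (P.lf 0 882022 0) (P.cons (P.lf 14038 0 0) P.nil))) (P.cons (P.cons (P.lf 0 574370 0) (P.cons (P.lf 0 210396 0) P.nil)) (P.cons (P.cons (P.lf 0 223094 0) P.nil) P.nil)))))) 127846)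
 EL.nil)
noncomputable def S227_256_512_586_44 : EL := (EL.cons 14 (TM.mk (P.cons (P.cons (P.lf 0 6720 0) (P.cons (P.lf 0 59992 0) (P.cons (P.lf 0 132914 0) (P.cons (P.lf 4578 0 0) (P.cons (P.lf 1386 0 0) (P.cons (P.lf 0 22 0) P.nil)))))) (P.cons (P.cons (P.lf 0 26646 0) (P.cons (P.lf 0 32536 0) (P.cons (P.lf 386032 0 0) (P.cons (P.lf 0 12098 0) (P.cons (P.lf 0 3992 0) P.nil))))) (P.cons (P.cons (P.lf 34568 0 0) (P.cons (P.lf 427976 0 0) (P.cons (P.lf 0 353074 0) (P.cons (P.lf 8750 0 0) P.nil)))) (P.cons (P.cons (P.lf 110648 0 0) (P.cons (P.lf 0 475538 0) (P.cons (P.lf 72898 0 0) P.nil))) (P.cons (P.cons (P.lf 0 166078 0) (P.cons (P.lf 85958 0 0) P.nil)) (P.cons (P.cons (P.lf 30486 0 0) P.nil) P.nil)))))) 204882)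
 EL.nil)
noncomputable def S227_256_512_586_45 : EL := (EL.cons 14 (TM.mk (P.cons (P.cons (P.lf 0 109220 0) (P.cons (P.lf 0 1462306 0) (P.cons (P.lf 0 6502738 0) (P.cons (P.lf 0 9492640 0) (P.cons (P.lf 531146 0 0) (P.cons (P.lf 146036 0 0) P.nil)))))) (P.cons (P.cons (P.lf 0 1137076 0) (P.cons (P.lf 0 10219508 0) (P.cons (P.lf 0 23112326 0) (P.cons (P.lf 0 606436 0) (P.cons (P.lf 307994 0 0) P.nil))))) (P.cons (P.cons (P.lf 0 4036514 0) (P.cons (P.lf 0 18873372 0) (P.cons (P.lf 0 3399428 0) (P.cons (P.lf 817558 0 0) P.nil)))) (P.cons (P.cons (P.lf 0 5153042 0) (P.cons (P.lf 0 3100174 0) (P.cons (P.lf 1687868 0 0) P.nil))) (P.cons (P.cons (P.lf 0 835878 0) (P.cons (P.lf 1461210 0 0) P.nil)) (P.cons (P.cons (P.lf 430370 0 0) P.nil) P.nil)))))) 1220478)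
 EL.nil)
noncomputable def S227_256_512_586_46 : EL := (EL.cons 15 (TM.mk (P.lf 4294967296 0 0) 0)
 EL.nil)
noncomputable def S227_256_512_586_47 : EL := (EL.cons 15 (TM.mk (P.cons (P.cons (P.lf 0 100245763 0) (P.cons (P.lf 0 447378632 0) (P.cons (P.lf 7120620 0 0) (P.lf 2373540 0 0)))) (P.cons (P.cons (P.lf 0 347877519 0) (P.cons (P.lf 0 21529280 0) (P.cons (P.lf 342664 0 0) (P.lf 114220 0 0)))) (P.cons (P.cons (P.lf 0 27711008 0) (P.cons (P.lf 10247300 0 0) (P.cons (P.lf 0 163096 0) (P.lf 0 54364 0)))) (P.cons (P.cons (P.lf 12256696 0 0) (P.cons (P.lf 508592 0 0) (P.cons (P.lf 0 8092 0) P.nil))) (P.cons (P.cons (P.lf 576536 0 0) (P.cons (P.lf 0 116344 0) P.nil)) (P.cons (P.cons (P.lf 0 129807 0) P.nil) P.nil)))))) 23267)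
 EL.nil)
noncomputable def S227_256_512_586_48 : EL := (EL.cons 15 (TM.mk (P.cons (P.cons (P.lf 2339764 0 0) (P.cons (P.lf 20883890 0 0) (P.cons (P.lf 46268109 0 0) (P.cons (P.lf 0 1594214 0) (P.cons (P.lf 0 482666 0) (P.cons (P.lf 7870 0 0) P.nil)))))) (P.cons (P.cons (P.lf 16239121 0 0) (P.cons (P.lf 73477247 0 0) (P.cons (P.lf 3315641 0 0) (P.cons (P.lf 0 532601 0) (P.cons (P.lf 0 46454 0) P.nil))))) (P.cons (P.cons (P.lf 29470443 0 0) (P.cons (P.lf 8782193 0 0) (P.cons (P.lf 0 2166648 0) (P.cons (P.lf 17926 0 0) P.nil)))) (P.cons (P.cons (P.lf 3916842 0 0) (P.cons (P.lf 0 3959320 0) (P.cons (P.lf 0 145669 0) P.nil))) (P.cons (P.cons (P.lf 0 1833622 0) (P.cons (P.lf 0 452173 0) P.nil)) (P.cons (P.cons (P.lf 0 245495 0) P.nil) P.nil)))))) 337135)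
 EL.nil)
noncomputable def S227_256_512_586 : SL := (SL.cons S227_256_512_586_0 (SL.cons S227_256_512_586_1 (SL.cons S227_256_512_586_2 (SL.cons S227_256_512_586_3 (SL.cons S227_256_512_586_4 (SL.cons S227_256_512_586_5 (SL.cons S227_256_512_586_6 (SL.cons S227_256_512_586_7 (SL.cons S227_256_512_586_8 (SL.cons S227_256_512_586_9 (SL.cons S227_256_512_586_10 (SL.cons S227_256_512_586_11 (SL.cons S227_256_512_586_12 (SL.cons S227_256_512_586_13 (SL.cons S227_256_512_586_14 (SL.cons S227_256_512_586_15 (SL.cons S227_256_512_586_16 (SL.cons S227_256_512_586_17 (SL.cons S227_256_512_586_18 (SL.cons S227_256_512_586_19 (SL.cons S227_256_512_586_20 (SL.cons S227_256_512_586_21 (SL.cons S227_256_512_586_22 (SL.cons S227_256_512_586_23 (SL.cons S227_256_512_586_24 (SL.cons S227_256_512_586_25 (SL.cons S227_256_512_586_26 (SL.cons S227_256_512_586_27 (SL.cons S227_256_512_586_28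 (SL.cons S227_256_512_586_29 (SL.cons S227_256_512_586_30 (SL.cons S227_256_512_586_31 (SL.cons S227_256_512_586_32 (SL.cons S227_256_512_586_33 (SL.cons S227_256_512_586_34 (SL.cons S227_256_512_586_35 (SL.cons S227_256_512_586_36 (SL.cons S227_256_512_586_37 (SL.cons S227_256_512_586_38 (SL.cons S227_256_512_586_39 (SL.cons S227_256_512_586_40 (SL.cons S227_256_512_586_41 (SL.cons S227_256_512_586_42 (SL.cons S227_256_512_586_43 (SL.cons S227_256_512_586_44 (SL.cons S227_256_512_586_45 (SL.cons S227_256_512_586_46 (SL.cons S227_256_512_586_47 (SL.cons S227_256_512_586_48 SL.nil)))))))))))))))))))))))))))))))))))))))))))))))))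
noncomputable def S227_256_512_660_0 : EL := (EL.cons 0 (TM.mk (P.cons (P.lf 8359606057 0 0) (P.cons (P.lf 190686074 0 0) (P.cons (P.lf 0 92290364 0) (P.cons (P.lf 0 3016066 0) (P.cons (P.lf 708651 0 0) (P.cons (P.lf 26673 0 0) P.nil)))))) 4788)
 (EL.cons 1 (TM.mk (P.cons (P.lf 0 450679505 0) (P.cons (P.lf 439849933 0 0) (P.cons (P.lf 16100088 0 0) (P.cons (P.lf 0 5127871 0) (P.cons (P.lf 0 176304 0) (P.cons (P.lf 32482 0 0) P.nil)))))) 1651)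
 (EL.cons 5 (TM.mk (P.cons (P.lf 4329140030 0 0) (P.cons (P.lf 0 67799490 0) (P.cons (P.lf 32814348 0 0) (P.cons (P.lf 1072376 0 0) (P.cons (P.lf 0 251962 0) (P.cons (P.lf 0 9484 0) P.nil)))))) 1837)
 (EL.cons 9 (TM.mk (P.lf 6442450944 0 0) 2)
 EL.nil))))
noncomputable def S227_256_512_660_1 : EL := (EL.cons 0 (TM.mk (P.cons (P.cons (P.lf 0 532710710 0) (P.cons (P.lf 0 1601175368 0) (P.cons (P.lf 107050853 0 0) (P.lf 35683620 0 0)))) (P.cons (P.cons (P.lf 0 1199109540 0) (P.cons (P.lf 0 228366478 0) (P.cons (P.lf 15268040 0 0) (P.lf 5089337 0 0)))) (P.cons (P.cons (P.lf 0 153467578 0) (P.cons (P.lf 102627675 0 0) (P.cons (P.lf 0 6861440 0) (P.lf 0 2287137 0)))) (P.cons (P.cons (P.lf 85102285 0 0) (P.cons (P.lf 11203677 0 0) (P.cons (P.lf 0 749037 0) P.nil))) (P.cons (P.cons (P.lf 7247550 0 0) (P.cons (P.lf 0 2368978 0) P.nil)) (P.cons (P.cons (P.lf 0 1816448 0) P.nil)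 P.nil)))))) 1046496)
 (EL.cons 1 (TM.mk (P.cons (P.cons (P.lf 1243689992 0 0) (P.cons (P.lf 221345390 0 0) (P.cons (P.lf 0 14798632 0) (P.lf 0 4932877 0)))) (P.cons (P.cons (P.lf 165340251 0 0) (P.cons (P.lf 0 201002690 0) (P.cons (P.lf 13438569 0 0) (P.lf 4479519 0 0)))) (P.cons (P.cons (P.lf 0 187911675 0) (P.cons (P.lf 0 29686086 0) (P.cons (P.lf 1984732 0 0) (P.lf 661573 0 0)))) (P.cons (P.cons (P.lf 0 20703985 0) (P.cons (P.lf 8537412 0 0) (P.cons (P.lf 0 570787 0) P.nil))) (P.cons (P.cons (P.lf 7048813 0 0) (P.cons (P.lf 980465 0 0) P.nil)) (P.cons (P.cons (P.lf 624591 0 0) P.nil) P.nil)))))) 748573)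
 (EL.cons 5 (TM.mk (P.cons (P.cons (P.lf 0 725413160 0) (P.cons (P.lf 0 879150218 0) (P.cons (P.lf 58777936 0 0) (P.lf 19592644 0 0)))) (P.cons (P.cons (P.lf 0 200864802 0) (P.cons (P.lf 11492614 0 0) (P.cons (P.lf 0 768366 0) (P.lf 0 256120 0)))) (P.cons (P.cons (P.lf 24508256 0 0) (P.cons (P.lf 0 3312616 0) (P.cons (P.lf 221466 0 0) (P.lf 73818 0 0)))) (P.cons (P.cons (P.lf 0 8575922 0) (P.cons (P.lf 0 2336862 0) (P.cons (P.lf 156230 0 0) P.nil))) (P.cons (P.cons (P.lf 0 1790378 0) (P.cons (P.lf 465606 0 0) P.nil)) (P.cons (P.cons (P.lf 414663 0 0) P.nil) P.nil)))))) 543025)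
 (EL.cons 9 (TM.mk (P.cons (P.cons (P.lf 0 807195358 0) (P.cons (P.lf 0 1278050304 0) (P.cons (P.lf 85447464 0 0) (P.lf 28482486 0 0)))) (P.cons (P.cons (P.lf 0 553424866 0) (P.cons (P.lf 0 61503834 0) (P.cons (P.lf 4111998 0 0) (P.lf 1370664 0 0)))) (P.cons (P.cons (P.lf 0 26521758 0) (P.cons (P.lf 29274012 0 0) (P.cons (P.lf 0 1957188 0) (P.lf 0 652392 0)))) (P.cons (P.cons (P.lf 19131756 0 0) (P.cons (P.lf 1452930 0 0) (P.cons (P.lf 0 97134 0) P.nil))) (P.cons (P.cons (P.lf 693990 0 0) (P.cons (P.lf 0 332370 0) P.nil)) (P.cons (P.cons (P.lf 0 203980 0) P.nil) P.nil)))))) 105281)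
 (EL.cons 2 (TM.mk (P.cons (P.cons (P.lf 311013646 0 0) (P.cons (P.lf 0 48152722 0) (P.cons (P.lf 0 23198461 0) (P.cons (P.lf 877896 0 0) (P.lf 219473 0 0))))) (P.cons (P.cons (P.lf 0 298551178 0) (P.cons (P.lf 46223218 0 0) (P.cons (P.lf 22268888 0 0) (P.cons (P.lf 0 842717 0) (P.lf 0 210678 0))))) (P.cons (P.cons (P.lf 0 18434407 0) (P.cons (P.lf 2854108 0 0) (P.cons (P.lf 1375017 0 0) (P.cons (P.lf 0 52034 0) P.nil)))) (P.cons (P.cons (P.lf 5716634 0 0) (P.cons (P.lf 0 885076 0) (P.cons (P.lf 0 426400 0) P.nil))) (P.cons (P.cons (P.lf 314192 0 0) (P.cons (P.lf 0 48645 0) P.nil)) (P.cons (P.cons (P.lf 0 56005 0) P.nil) P.nil)))))) 79583)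
 (EL.cons 6 (TM.mk (P.cons (P.cons (P.lf 1458394554 0 0) (P.cons (P.lf 0 225796098 0) (P.cons (P.lf 0 108781437 0) (P.cons (P.lf 4116609 0 0) (P.lf 1029150 0 0))))) (P.cons (P.cons (P.lf 70182579 0 0) (P.cons (P.lf 0 10866024 0) (P.cons (P.lf 0 5234907 0) (P.cons (P.lf 198102 0 0) (P.lf 49524 0 0))))) (P.cons (P.cons (P.lf 0 33404838 0) (P.cons (P.lf 5171907 0 0) (P.cons (P.lf 2491662 0 0) (P.cons (P.lf 0 94290 0) P.nil)))) (P.cons (P.cons (P.lf 0 1657956 0) (P.cons (P.lf 256692 0 0) (P.cons (P.lf 123666 0 0) P.nil))) (P.cons (P.cons (P.lf 379275 0 0) (P.cons (P.lf 0 58719 0) P.nil)) (P.cons (P.cons (P.lf 20574 0 0) P.nil) P.nil)))))) 72672)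
 EL.nil))))))
noncomputable def S227_256_512_660_2 : EL := (EL.cons 0 (TM.mk (P.cons (P.cons (P.lf 2257730 0 0) (P.cons (P.lf 197024432 0 0) (P.cons (P.lf 293120643 0 0) (P.cons (P.lf 0 45346971 0) (P.cons (P.lf 0 12282921 0) (P.cons (P.lf 912746 0 0) P.nil)))))) (P.cons (P.cons (P.lf 209060222 0 0) (P.cons (P.lf 503849524 0 0) (P.cons (P.lf 48323788 0 0) (P.cons (P.lf 0 22194720 0) (P.cons (P.lf 0 3288746 0) P.nil))))) (P.cons (P.cons (P.lf 175889107 0 0) (P.cons (P.lf 85430078 0 0) (P.cons (P.lf 0 39402124 0) (P.cons (P.lf 2601037 0 0) P.nil)))) (P.cons (P.cons (P.lf 12488417 0 0) (P.cons (P.lf 0 50741449 0) (P.cons (P.lf 0 3541833 0) P.nil))) (P.cons (P.cons (P.lf 0 17224095 0) (P.cons (P.lf 0 8257489 0) P.nil)) (P.cons (P.cons (P.lf 0 2228482 0) P.nil) P.nil)))))) 13049580)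
 (EL.cons 1 (TM.mk (P.cons (P.cons (P.lf 0 304576879 0) (P.cons (P.lf 0 526507561 0) (P.cons (P.lf 0 34883474 0) (P.cons (P.lf 21105062 0 0) (P.cons (P.lf 2810517 0 0) (P.cons (P.lf 0 208849 0) P.nil)))))) (P.cons (P.cons (P.lf 0 252308602 0) (P.cons (P.lf 0 82433181 0) (P.cons (P.lf 65431709 0 0) (P.cons (P.lf 0 6175177 0) (P.cons (P.lf 0 2402920 0) P.nil))))) (P.cons (P.cons (P.lf 2511499 0 0) (P.cons (P.lf 106969391 0 0) (P.cons (P.lf 7404785 0 0) (P.cons (P.lf 0 4330323 0) P.nil)))) (P.cons (P.cons (P.lf 39515508 0 0) (P.cons (P.lf 17652103 0 0) (P.cons (P.lf 0 4913217 0) P.nil))) (P.cons (P.cons (P.lf 4347308 0 0) (P.cons (P.lf 0 5836973 0) P.nil)) (P.cons (P.cons (P.lf 0 2096210 0) P.nil) P.nil)))))) 5898165)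
 (EL.cons 5 (TM.mk (P.cons (P.cons (P.lf 113818150 0 0) (P.cons (P.lf 292910521 0 0) (P.cons (P.lf 158856612 0 0) (P.cons (P.lf 0 30387924 0) (P.cons (P.lf 0 7155764 0) (P.cons (P.lf 531736 0 0) P.nil)))))) (P.cons (P.cons (P.lf 82839009 0 0) (P.cons (P.lf 87173633 0 0) (P.cons (P.lf 0 7331493 0) (P.cons (P.lf 0 1741742 0) (P.cons (P.lf 60274 0 0) P.nil))))) (P.cons (P.cons (P.lf 0 1126668 0) (P.cons (P.lf 0 14787511 0) (P.cons (P.lf 469563 0 0) (P.cons (P.lf 398980 0 0) P.nil)))) (P.cons (P.cons (P.lf 0 4709566 0) (P.cons (P.lf 3899842 0 0) (P.cons (P.lf 917987 0 0) P.nil))) (P.cons (P.cons (P.lf 2325562 0 0) (P.cons (P.lf 1748259 0 0) P.nil)) (P.cons (P.cons (P.lf 536622 0 0) P.nil) P.nil)))))) 6724748)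
 (EL.cons 9 (TM.mk (P.cons (P.cons (P.lf 101136096 0 0) (P.cons (P.lf 320262049 0 0) (P.cons (P.lf 232127026 0 0) (P.cons (P.lf 0 41039376 0) (P.cons (P.lf 0 10167376 0) (P.cons (P.lf 755536 0 0) P.nil)))))) (P.cons (P.cons (P.lf 138680755 0 0) (P.cons (P.lf 234988339 0 0) (P.cons (P.lf 8691429 0 0) (P.cons (P.lf 0 8499868 0) (P.cons (P.lf 0 978571 0) P.nil))))) (P.cons (P.cons (P.lf 54186762 0 0) (P.cons (P.lf 13753785 0 0) (P.cons (P.lf 0 11947119 0) (P.cons (P.lf 1168038 0 0) P.nil)))) (P.cons (P.cons (P.lf 0 237568 0) (P.cons (P.lf 0 12477834 0) (P.cons (P.lf 0 301162 0) P.nil))) (P.cons (P.cons (P.lf 0 3351666 0) (P.cons (P.lf 0 1047994 0) P.nil)) (P.cons (P.cons (P.lf 0 225636 0) P.nil) P.nil)))))) 2385508)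
 (EL.cons 2 (TM.mk (P.cons (P.cons (P.lf 0 77935792 0) (P.cons (P.lf 0 111331051 0) (P.cons (P.lf 33168313 0 0) (P.cons (P.lf 10456914 0 0) (P.cons (P.lf 0 1444449 0) (P.cons (P.lf 0 268914 0) P.nil)))))) (P.cons (P.cons (P.lf 21378954 0 0) (P.cons (P.lf 109204593 0 0) (P.cons (P.lf 0 26537197 0) (P.cons (P.lf 0 9674921 0) (P.cons (P.lf 1281999 0 0) P.nil))))) (P.cons (P.cons (P.lf 53351488 0 0) (P.cons (P.lf 7580638 0 0) (P.cons (P.lf 0 7491105 0) (P.cons (P.lf 0 1220017 0) P.nil)))) (P.cons (P.cons (P.lf 6039922 0 0) (P.cons (P.lf 0 5424187 0) (P.cons (P.lf 544623 0 0) P.nil))) (P.cons (P.cons (P.lf 0 2615276 0) (P.cons (P.lf 0 163175 0) P.nil)) (P.cons (P.cons (P.lf 0 280513 0) P.nil) P.nil)))))) 2046593)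
 (EL.cons 6 (TM.mk (P.cons (P.cons (P.lf 0 365453868 0) (P.cons (P.lf 0 522049770 0) (P.cons (P.lf 155531724 0 0) (P.cons (P.lf 49034202 0 0) (P.cons (P.lf 0 6773286 0) (P.cons (P.lf 0 1260984 0) P.nil)))))) (P.cons (P.cons (P.lf 0 268147278 0) (P.cons (P.lf 0 14175204 0) (P.cons (P.lf 32346828 0 0) (P.cons (P.lf 4061742 0 0) (P.cons (P.lf 0 816300 0) P.nil))))) (P.cons (P.cons (P.lf 0 15694566 0) (P.cons (P.lf 27597234 0 0) (P.cons (P.lf 0 4408500 0) (P.cons (P.lf 0 2221884 0) P.nil)))) (P.cons (P.cons (P.lf 14238564 0 0) (P.cons (P.lf 386748 0 0) (P.cons (P.lf 0 1636476 0) P.nil))) (P.cons (P.cons (P.lf 1195872 0 0) (P.cons (P.lf 0 726372 0) P.nil)) (P.cons (P.cons (P.lf 0 332298 0) P.nil) P.nil)))))) 1506006)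
 EL.nil))))))
noncomputable def S227_256_512_660_3 : EL := (EL.cons 0 (TM.mk (P.cons (P.lf 96110806 0 0) (P.cons (P.lf 0 190686074 0) (P.cons (P.lf 92290364 0 0) (P.cons (P.lf 3016066 0 0) (P.cons (P.lf 0 708651 0) (P.cons (P.lf 0 26673 0) P.nil)))))) 4788)
 (EL.cons 1 (TM.mk (P.cons (P.lf 450679505 0 0) (P.cons (P.lf 0 439849933 0) (P.cons (P.lf 0 16100088 0) (P.cons (P.lf 5127871 0 0) (P.cons (P.lf 176304 0 0) (P.cons (P.lf 0 32482 0) P.nil)))))) 1651)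
 (EL.cons 5 (TM.mk (P.cons (P.lf 2113310914 0 0) (P.cons (P.lf 67799490 0 0) (P.cons (P.lf 0 32814348 0) (P.cons (P.lf 0 1072376 0) (P.cons (P.lf 251962 0 0) (P.cons (P.lf 9484 0 0) P.nil)))))) 1830)
 EL.nil)))
noncomputable def S227_256_512_660_4 : EL := (EL.cons 0 (TM.mk (P.cons (P.cons (P.lf 0 12042029 0) (P.cons (P.lf 0 19066413 0) (P.cons (P.lf 1274735 0 0) (P.lf 424910 0 0)))) (P.cons (P.cons (P.lf 15635478 0 0) (P.cons (P.lf 36910673 0 0) (P.cons (P.lf 0 2467761 0) (P.lf 0 822585 0)))) (P.cons (P.cons (P.lf 4421457 0 0) (P.cons (P.lf 0 16051383 0) (P.cons (P.lf 1073156 0 0) (P.lf 357718 0 0)))) (P.cons (P.cons (P.lf 0 7235481 0) (P.cons (P.lf 0 2324176 0) (P.cons (P.lf 155388 0 0) P.nil))) (P.cons (P.cons (P.lf 0 1106147 0) (P.cons (P.lf 483185 0 0) P.nil)) (P.cons (P.cons (P.lf 302285 0 0) P.nil) P.nil)))))) 221853)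
 (EL.cons 1 (TM.mk (P.cons (P.cons (P.lf 0 56467080 0) (P.cons (P.lf 0 89405581 0) (P.cons (P.lf 5977447 0 0) (P.lf 1992481 0 0)))) (P.cons (P.cons (P.lf 16395556 0 0) (P.cons (P.lf 82954736 0 0) (P.cons (P.lf 0 5546160 0) (P.lf 0 1848718 0)))) (P.cons (P.cons (P.lf 37946270 0 0) (P.cons (P.lf 9440874 0 0) (P.cons (P.lf 0 631192 0) (P.lf 0 210397 0)))) (P.cons (P.cons (P.lf 3889648 0 0) (P.cons (P.lf 0 2760568 0) (P.cons (P.lf 184563 0 0) P.nil))) (P.cons (P.cons (P.lf 0 1653954 0) (P.cons (P.lf 0 279534 0) P.nil)) (P.cons (P.cons (P.lf 0 141645 0) P.nil) P.nil)))))) 209720)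
 (EL.cons 5 (TM.mk (P.cons (P.cons (P.lf 0 264783506 0) (P.cons (P.lf 0 419237596 0) (P.cons (P.lf 28029248 0 0) (P.lf 9343082 0 0)))) (P.cons (P.cons (P.lf 0 190034236 0) (P.cons (P.lf 0 33625072 0) (P.cons (P.lf 2248092 0 0) (P.lf 749362 0 0)))) (P.cons (P.cons (P.lf 0 10412660 0) (P.cons (P.lf 15465160 0 0) (P.cons (P.lf 0 1033962 0) (P.lf 0 344652 0)))) (P.cons (P.cons (P.lf 8949866 0 0) (P.cons (P.lf 1310682 0 0) (P.cons (P.lf 0 87626 0) P.nil))) (P.cons (P.cons (P.lf 624626 0 0) (P.cons (P.lf 0 282588 0) P.nil)) (P.cons (P.cons (P.lf 0 175472 0) P.nil) P.nil)))))) 112976)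
 EL.nil)))
noncomputable def S227_256_512_660_5 : EL := (EL.cons 0 (TM.mk (P.cons (P.cons (P.lf 1508783 0 0) (P.cons (P.lf 4777783 0 0) (P.cons (P.lf 3462953 0 0) (P.cons (P.lf 0 612239 0) (P.cons (P.lf 0 151679 0) (P.cons (P.lf 11271 0 0) P.nil)))))) (P.cons (P.cons (P.lf 0 924574 0) (P.cons (P.lf 0 5973593 0) (P.cons (P.lf 0 6740919 0) (P.cons (P.lf 1087894 0 0) (P.cons (P.lf 286338 0 0) P.nil))))) (P.cons (P.cons (P.lf 0 1847536 0) (P.cons (P.lf 0 2162221 0) (P.cons (P.lf 2889815 0 0) (P.cons (P.lf 0 318895 0) P.nil)))) (P.cons (P.cons (P.lf 426612 0 0) (P.cons (P.lf 2922983 0 0) (P.cons (P.lf 582300 0 0) P.nil))) (P.cons (P.cons (P.lf 787072 0 0) (P.cons (P.lf 625500 0 0) P.nil)) (P.cons (P.cons (P.lf 102128 0 0) P.nil) P.nil)))))) 1132830)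
 (EL.cons 1 (TM.mk (P.cons (P.cons (P.lf 7074941 0 0) (P.cons (P.lf 22403823 0 0) (P.cons (P.lf 16238366 0 0) (P.cons (P.lf 0 2870895 0) (P.cons (P.lf 0 711253 0) (P.cons (P.lf 52852 0 0) P.nil)))))) (P.cons (P.cons (P.lf 2796429 0 0) (P.cons (P.lf 0 5426941 0) (P.cons (P.lf 0 15240163 0) (P.cons (P.lf 2207302 0 0) (P.cons (P.lf 625708 0 0) P.nil))))) (P.cons (P.cons (P.lf 0 5930375 0) (P.cons (P.lf 0 15881733 0) (P.cons (P.lf 0 2009251 0) (P.cons (P.lf 764585 0 0) P.nil)))) (P.cons (P.cons (P.lf 0 3982220 0) (P.cons (P.lf 0 2144240 0) (P.cons (P.lf 957646 0 0) P.nil))) (P.cons (P.cons (P.lf 0 240508 0) (P.cons (P.lf 940025 0 0) P.nil)) (P.cons (P.cons (P.lf 260055 0 0) P.nil) P.nil)))))) 883154)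
 (EL.cons 5 (TM.mk (P.cons (P.cons (P.lf 33175574 0 0) (P.cons (P.lf 105055248 0 0) (P.cons (P.lf 76144402 0 0) (P.cons (P.lf 0 13462104 0) (P.cons (P.lf 0 3335192 0) (P.cons (P.lf 247836 0 0) P.nil)))))) (P.cons (P.cons (P.lf 46555654 0 0) (P.cons (P.lf 80453390 0 0) (P.cons (P.lf 5293914 0 0) (P.cons (P.lf 0 3220094 0) (P.cons (P.lf 0 427998 0) P.nil))))) (P.cons (P.cons (P.lf 18719154 0 0) (P.cons (P.lf 5353384 0 0) (P.cons (P.lf 0 5009862 0) (P.cons (P.lf 502730 0 0) P.nil)))) (P.cons (P.cons (P.lf 0 230874 0) (P.cons (P.lf 0 5198560 0) (P.cons (P.lf 0 307426 0) P.nil))) (P.cons (P.cons (P.lf 0 1397068 0) (P.cons (P.lf 0 571730 0) P.nil)) (P.cons (P.cons (P.lf 0 111522 0) P.nil) P.nil)))))) 1178716)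
 EL.nil)))
noncomputable def S227_256_512_660_6 : EL := (EL.cons 12 (TM.mk (P.lf 8589934592 0 0) 0)
 (EL.cons 3 (TM.mk (P.cons (P.lf 0 454308690 0) (P.cons (P.lf 450679503 0 0) (P.cons (P.lf 5414782 0 0) (P.cons (P.lf 0 1756837 0) (P.cons (P.lf 0 35658 0) (P.cons (P.lf 6731 0 0) P.nil)))))) 269)
 (EL.cons 7 (TM.mk (P.cons (P.lf 0 2130328762 0) (P.cons (P.lf 0 34172730 0) (P.cons (P.lf 16813380 0 0) (P.cons (P.lf 270802 0 0) (P.cons (P.lf 0 64991 0) (P.cons (P.lf 0 1601 0) P.nil)))))) 330)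
 EL.nil)))
noncomputable def S227_256_512_660_7 : EL := (EL.cons 12 (TM.mk (P.cons (P.cons (P.lf 0 1076260478 0) (P.cons (P.lf 0 1704067072 0) (P.cons (P.lf 113929952 0 0) (P.lf 37976648 0 0)))) (P.cons (P.cons (P.lf 0 737899822 0) (P.cons (P.lf 0 82005112 0) (P.cons (P.lf 5482664 0 0) (P.lf 1827552 0 0)))) (P.cons (P.cons (P.lf 0 35362344 0) (P.cons (P.lf 39032016 0 0) (P.cons (P.lf 0 2609584 0) (P.lf 0 869856 0)))) (P.cons (P.cons (P.lf 25509008 0 0) (P.cons (P.lf 1937240 0 0) (P.cons (P.lf 0 129512 0) P.nil))) (P.cons (P.cons (P.lf 925320 0 0) (P.cons (P.lf 0 443160 0) P.nil)) (P.cons (P.cons (P.lf 0 271974 0) P.nil) P.nil)))))) 140350)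
 (EL.cons 3 (TM.mk (P.cons (P.cons (P.lf 0 2375985396 0) (P.cons (P.lf 0 180251074 0) (P.cons (P.lf 12051164 0 0) (P.lf 4017054 0 0)))) (P.cons (P.cons (P.lf 0 270216370 0) (P.cons (P.lf 170136908 0 0) (P.cons (P.lf 0 11374956 0) (P.lf 0 3791650 0)))) (P.cons (P.cons (P.lf 222710228 0 0) (P.cons (P.lf 14882010 0 0) (P.cons (P.lf 0 994974 0) (P.lf 0 331656 0)))) (P.cons (P.cons (P.lf 11724660 0 0) (P.cons (P.lf 0 4484446 0) (P.cons (P.lf 299818 0 0) P.nil))) (P.cons (P.cons (P.lf 0 3978858 0) (P.cons (P.lf 0 347054 0) P.nil)) (P.cons (P.cons (P.lf 0 219604 0) P.nil) P.nil)))))) 560849)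
 (EL.cons 7 (TM.mk (P.cons (P.cons (P.lf 451390693 0 0) (P.cons (P.lf 443114873 0 0) (P.cons (P.lf 0 29625632 0) (P.lf 0 9875210 0)))) (P.cons (P.cons (P.lf 20489135 0 0) (P.cons (P.lf 0 12900610 0) (P.cons (P.lf 862504 0 0) (P.lf 287501 0 0)))) (P.cons (P.cons (P.lf 0 27214041 0) (P.cons (P.lf 5373818 0 0) (P.cons (P.lf 0 359278 0) (P.lf 0 119757 0)))) (P.cons (P.cons (P.lf 10542558 0 0) (P.cons (P.lf 1046150 0 0) (P.cons (P.lf 0 69939 0) P.nil))) (P.cons (P.cons (P.lf 850000 0 0) (P.cons (P.lf 0 224205 0) P.nil)) (P.cons (P.cons (P.lf 0 204709 0) P.nil) P.nil)))))) 306892)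
 (EL.cons 10 (TM.mk (P.cons (P.cons (P.lf 0 2940277122 0) (P.cons (P.lf 455228733 0 0) (P.cons (P.lf 219314847 0 0) (P.cons (P.lf 0 8299518 0) (P.lf 0 2074878 0))))) (P.cons (P.cons (P.lf 0 94330317 0) (P.cons (P.lf 14604699 0 0) (P.cons (P.lf 7036083 0 0) (P.cons (P.lf 0 266265 0) (P.lf 0 66564 0))))) (P.cons (P.cons (P.lf 45655029 0 0) (P.cons (P.lf 0 7068543 0) (P.cons (P.lf 0 3405402 0) (P.cons (P.lf 128868 0 0) P.nil)))) (P.cons (P.cons (P.lf 1492008 0 0) (P.cons (P.lf 0 231000 0) (P.cons (P.lf 0 111288 0) P.nil))) (P.cons (P.cons (P.lf 0 350556 0) (P.cons (P.lf 54273 0 0) P.nil)) (P.cons (P.cons (P.lf 0 13194 0) P.nil) P.nil)))))) 71190)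
 EL.nil))))
noncomputable def S227_256_512_660_8 : EL := (EL.cons 12 (TM.mk (P.cons (P.cons (P.lf 134848128 0 0) (P.cons (P.lf 427016066 0 0) (P.cons (P.lf 309502702 0 0) (P.cons (P.lf 0 54719168 0) (P.cons (P.lf 0 13556502 0) (P.cons (P.lf 1007382 0 0) P.nil)))))) (P.cons (P.cons (P.lf 184907674 0 0) (P.cons (P.lf 313317786 0 0) (P.cons (P.lf 11588572 0 0) (P.cons (P.lf 0 11333158 0) (P.cons (P.lf 0 1304762 0) P.nil))))) (P.cons (P.cons (P.lf 72249016 0 0) (P.cons (P.lf 18338380 0 0) (P.cons (P.lf 0 15929492 0) (P.cons (P.lf 1557384 0 0) P.nil)))) (P.cons (P.cons (P.lf 0 316758 0) (P.cons (P.lf 0 16637112 0) (P.cons (P.lf 0 401550 0) P.nil))) (P.cons (P.cons (P.lf 0 4468888 0) (P.cons (P.lf 0 1397326 0) P.nil)) (P.cons (P.cons (P.lf 0 300848 0) P.nil) P.nil)))))) 3180648)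
 (EL.cons 3 (TM.mk (P.cons (P.cons (P.lf 602521588 0 0) (P.cons (P.lf 1010446373 0 0) (P.cons (P.lf 21839212 0 0) (P.cons (P.lf 0 34472217 0) (P.cons (P.lf 0 3584910 0) (P.cons (P.lf 266390 0 0) P.nil)))))) (P.cons (P.cons (P.lf 478624911 0 0) (P.cons (P.lf 135077436 0 0) (P.cons (P.lf 0 89108164 0) (P.cons (P.lf 7697229 0 0) (P.cons (P.lf 3211240 0 0) P.nil))))) (P.cons (P.cons (P.lf 4213851 0 0) (P.cons (P.lf 0 152009014 0) (P.cons (P.lf 0 3325961 0) (P.cons (P.lf 5191323 0 0) P.nil)))) (P.cons (P.cons (P.lf 0 56984104 0) (P.cons (P.lf 0 18288178 0) (P.cons (P.lf 4922666 0 0) P.nil))) (P.cons (P.cons (P.lf 0 5194666 0) (P.cons (P.lf 6061835 0 0) P.nil)) (P.cons (P.cons (P.lf 2291251 0 0) P.nil) P.nil)))))) 6925777)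
 (EL.cons 7 (TM.mk (P.cons (P.cons (P.lf 0 79669643 0) (P.cons (P.lf 0 184230674 0) (P.cons (P.lf 0 79654712 0) (P.cons (P.lf 16403802 0 0) (P.cons (P.lf 3688241 0 0) (P.cons (P.lf 0 274067 0) P.nil)))))) (P.cons (P.cons (P.lf 0 36291693 0) (P.cons (P.lf 0 10242242 0) (P.cons (P.lf 6756612 0 0) (P.cons (P.lf 0 583641 0) (P.cons (P.lf 0 243491 0) P.nil))))) (P.cons (P.cons (P.lf 17972448 0 0) (P.cons (P.lf 16688420 0 0) (P.cons (P.lf 0 3153320 0) (P.cons (P.lf 0 99467 0) P.nil)))) (P.cons (P.cons (P.lf 4388631 0 0) (P.cons (P.lf 0 6400679 0) (P.cons (P.lf 0 515388 0) P.nil))) (P.cons (P.cons (P.lf 0 2837047 0) (P.cons (P.lf 0 1427406 0) P.nil)) (P.cons (P.cons (P.lf 0 459960 0) P.nil) P.nil)))))) 3769406)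
 (EL.cons 10 (TM.mk (P.cons (P.cons (P.lf 736793514 0 0) (P.cons (P.lf 1052507364 0 0) (P.cons (P.lf 0 313568352 0) (P.cons (P.lf 0 98858130 0) (P.cons (P.lf 13655664 0 0) (P.cons (P.lf 2542278 0 0) P.nil)))))) (P.cons (P.cons (P.lf 528794232 0 0) (P.cons (P.lf 11695380 0 0) (P.cons (P.lf 0 60184650 0) (P.cons (P.lf 0 6603120 0) (P.cons (P.lf 1426704 0 0) P.nil))))) (P.cons (P.cons (P.lf 28974540 0 0) (P.cons (P.lf 0 47519748 0) (P.cons (P.lf 7378632 0 0) (P.cons (P.lf 3805254 0 0) P.nil)))) (P.cons (P.cons (P.lf 0 24904128 0) (P.cons (P.lf 208638 0 0) (P.cons (P.lf 2666094 0 0) P.nil))) (P.cons (P.cons (P.lf 0 1738104 0) (P.cons (P.lf 1055436 0 0) P.nil)) (P.cons (P.cons (P.lf 488274 0 0) P.nil) P.nil)))))) 2401872)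
 EL.nil))))
noncomputable def S227_256_512_660_9 : EL := (EL.cons 3 (TM.mk (P.cons (P.lf 0 454308690 0) (P.cons (P.lf 450679503 0 0) (P.cons (P.lf 5414782 0 0) (P.cons (P.lf 0 1756837 0) (P.cons (P.lf 0 35658 0) (P.cons (P.lf 6731 0 0) P.nil)))))) 269)
 (EL.cons 7 (TM.mk (P.cons (P.lf 0 2130328762 0) (P.cons (P.lf 0 34172730 0) (P.cons (P.lf 16813380 0 0) (P.cons (P.lf 270802 0 0) (P.cons (P.lf 0 64991 0) (P.cons (P.lf 0 1601 0) P.nil)))))) 330)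
 EL.nil))
noncomputable def S227_256_512_660_10 : EL := (EL.cons 3 (TM.mk (P.cons (P.cons (P.lf 56921793 0 0) (P.cons (P.lf 90125537 0 0) (P.cons (P.lf 0 6025582 0) (P.lf 0 2008527 0)))) (P.cons (P.cons (P.lf 0 17440672 0) (P.cons (P.lf 0 85068454 0) (P.cons (P.lf 5687478 0 0) (P.lf 1895825 0 0)))) (P.cons (P.cons (P.lf 0 37522825 0) (P.cons (P.lf 0 7441005 0) (P.cons (P.lf 497487 0 0) (P.lf 165828 0 0)))) (P.cons (P.cons (P.lf 0 3449478 0) (P.cons (P.lf 2242223 0 0) (P.cons (P.lf 0 149909 0) P.nil))) (P.cons (P.cons (P.lf 1422510 0 0) (P.cons (P.lf 173527 0 0) P.nil)) (P.cons (P.cons (P.lf 88463 0 0) P.nil) P.nil)))))) 138259)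
 (EL.cons 7 (TM.mk (P.cons (P.cons (P.lf 266915728 0 0) (P.cons (P.lf 422613590 0 0) (P.cons (P.lf 0 28254959 0) (P.lf 0 9418319 0)))) (P.cons (P.cons (P.lf 187282913 0 0) (P.cons (P.lf 27116675 0 0) (P.cons (P.lf 0 1812956 0) (P.lf 0 604318 0)))) (P.cons (P.cons (P.lf 9598896 0 0) (P.cons (P.lf 0 12689248 0) (P.cons (P.lf 848372 0 0) (P.lf 282789 0 0)))) (P.cons (P.cons (P.lf 0 7663875 0) (P.cons (P.lf 0 849952 0) (P.cons (P.lf 56823 0 0) P.nil))) (P.cons (P.cons (P.lf 0 415298 0) (P.cons (P.lf 188904 0 0) P.nil)) (P.cons (P.cons (P.lf 118367 0 0) P.nil) P.nil)))))) 67122)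
 EL.nil))
noncomputable def S227_256_512_660_11 : EL := (EL.cons 3 (TM.mk (P.cons (P.cons (P.lf 0 7131914 0) (P.cons (P.lf 0 22584235 0) (P.cons (P.lf 0 16369130 0) (P.cons (P.lf 2894013 0 0) (P.cons (P.lf 716982 0 0) (P.cons (P.lf 0 53278 0) P.nil)))))) (P.cons (P.cons (P.lf 0 2704545 0) (P.cons (P.lf 5832918 0 0) (P.cons (P.lf 15625466 0 0) (P.cons (P.lf 0 2271501 0) (P.cons (P.lf 0 642248 0) P.nil))))) (P.cons (P.cons (P.lf 5965227 0 0) (P.cons (P.lf 15737816 0 0) (P.cons (P.lf 1645591 0 0) (P.cons (P.lf 0 711465 0) P.nil)))) (P.cons (P.cons (P.lf 3896348 0 0) (P.cons (P.lf 1952222 0 0) (P.cons (P.lf 0 870514 0) P.nil))) (P.cons (P.cons (P.lf 226898 0 0) (P.cons (P.lf 0 853273 0) P.nil)) (P.cons (P.cons (P.lf 0 234191 0) P.nil) P.nil)))))) 729765)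
 (EL.cons 7 (TM.mk (P.cons (P.cons (P.lf 0 33442727 0) (P.cons (P.lf 0 105901226 0) (P.cons (P.lf 0 76757570 0) (P.cons (P.lf 13570512 0 0) (P.cons (P.lf 3362051 0 0) (P.cons (P.lf 0 249833 0) P.nil)))))) (P.cons (P.cons (P.lf 0 46394097 0) (P.cons (P.lf 0 79402490 0) (P.cons (P.lf 0 4105272 0) (P.cons (P.lf 3028341 0 0) (P.cons (P.lf 377515 0 0) P.nil))))) (P.cons (P.cons (P.lf 0 18389628 0) (P.cons (P.lf 0 4958608 0) (P.cons (P.lf 4510258 0 0) (P.cons (P.lf 0 448253 0) P.nil)))) (P.cons (P.cons (P.lf 157311 0 0) (P.cons (P.lf 4679827 0 0) (P.cons (P.lf 195396 0 0) P.nil))) (P.cons (P.cons (P.lf 1255781 0 0) (P.cons (P.lf 455268 0 0) P.nil)) (P.cons (P.cons (P.lf 92622 0 0) P.nil) P.nil)))))) 976042)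
 EL.nil))
noncomputable def S227_256_512_660_12 : EL := (EL.cons 4 (TM.mk (P.cons (P.lf 454308690 0 0) (P.cons (P.lf 0 450679503 0) (P.cons (P.lf 0 5414782 0) (P.cons (P.lf 1756837 0 0) (P.cons (P.lf 35658 0 0) (P.cons (P.lf 0 6731 0) P.nil)))))) 269)
 (EL.cons 8 (TM.mk (P.cons (P.lf 2130328762 0 0) (P.cons (P.lf 34172730 0 0) (P.cons (P.lf 0 16813380 0) (P.cons (P.lf 0 270802 0) (P.cons (P.lf 64991 0 0) (P.cons (P.lf 1601 0 0) P.nil)))))) 330)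
 EL.nil))
noncomputable def S227_256_512_660_13 : EL := (EL.cons 4 (TM.mk (P.cons (P.cons (P.lf 0 56921793 0) (P.cons (P.lf 0 90125537 0) (P.cons (P.lf 6025582 0 0) (P.lf 2008527 0 0)))) (P.cons (P.cons (P.lf 17440672 0 0) (P.cons (P.lf 85068454 0 0) (P.cons (P.lf 0 5687478 0) (P.lf 0 1895825 0)))) (P.cons (P.cons (P.lf 37522825 0 0) (P.cons (P.lf 7441005 0 0) (P.cons (P.lf 0 497487 0) (P.lf 0 165828 0)))) (P.cons (P.cons (P.lf 3449478 0 0) (P.cons (P.lf 0 2242223 0) (P.cons (P.lf 149909 0 0) P.nil))) (P.cons (P.cons (P.lf 0 1422510 0) (P.cons (P.lf 0 173527 0) P.nil)) (P.cons (P.cons (P.lf 0 88463 0) P.nil) P.nil)))))) 138259)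
 (EL.cons 8 (TM.mk (P.cons (P.cons (P.lf 0 266915728 0) (P.cons (P.lf 0 422613590 0) (P.cons (P.lf 28254959 0 0) (P.lf 9418319 0 0)))) (P.cons (P.cons (P.lf 0 187282913 0) (P.cons (P.lf 0 27116675 0) (P.cons (P.lf 1812956 0 0) (P.lf 604318 0 0)))) (P.cons (P.cons (P.lf 0 9598896 0) (P.cons (P.lf 12689248 0 0) (P.cons (P.lf 0 848372 0) (P.lf 0 282789 0)))) (P.cons (P.cons (P.lf 7663875 0 0) (P.cons (P.lf 849952 0 0) (P.cons (P.lf 0 56823 0) P.nil))) (P.cons (P.cons (P.lf 415298 0 0) (P.cons (P.lf 0 188904 0) P.nil)) (P.cons (P.cons (P.lf 0 118367 0) P.nil) P.nil)))))) 67122)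
 EL.nil))
noncomputable def S227_256_512_660_14 : EL := (EL.cons 4 (TM.mk (P.cons (P.cons (P.lf 7131914 0 0) (P.cons (P.lf 22584235 0 0) (P.cons (P.lf 16369130 0 0) (P.cons (P.lf 0 2894013 0) (P.cons (P.lf 0 716982 0) (P.cons (P.lf 53278 0 0) P.nil)))))) (P.cons (P.cons (P.lf 2704545 0 0) (P.cons (P.lf 0 5832918 0) (P.cons (P.lf 0 15625466 0) (P.cons (P.lf 2271501 0 0) (P.cons (P.lf 642248 0 0) P.nil))))) (P.cons (P.cons (P.lf 0 5965227 0) (P.cons (P.lf 0 15737816 0) (P.cons (P.lf 0 1645591 0) (P.cons (P.lf 711465 0 0) P.nil)))) (P.cons (P.cons (P.lf 0 3896348 0) (P.cons (P.lf 0 1952222 0) (P.cons (P.lf 870514 0 0) P.nil))) (P.cons (P.cons (P.lf 0 226898 0) (P.cons (P.lf 853273 0 0) P.nil)) (P.cons (P.cons (P.lf 234191 0 0) P.nil) P.nil)))))) 729765)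
 (EL.cons 8 (TM.mk (P.cons (P.cons (P.lf 33442727 0 0) (P.cons (P.lf 105901226 0 0) (P.cons (P.lf 76757570 0 0) (P.cons (P.lf 0 13570512 0) (P.cons (P.lf 0 3362051 0) (P.cons (P.lf 249833 0 0) P.nil)))))) (P.cons (P.cons (P.lf 46394097 0 0) (P.cons (P.lf 79402490 0 0) (P.cons (P.lf 4105272 0 0) (P.cons (P.lf 0 3028341 0) (P.cons (P.lf 0 377515 0) P.nil))))) (P.cons (P.cons (P.lf 18389628 0 0) (P.cons (P.lf 4958608 0 0) (P.cons (P.lf 0 4510258 0) (P.cons (P.lf 448253 0 0) P.nil)))) (P.cons (P.cons (P.lf 0 157311 0) (P.cons (P.lf 0 4679827 0) (P.cons (P.lf 0 195396 0) P.nil))) (P.cons (P.cons (P.lf 0 1255781 0) (P.cons (P.lf 0 455268 0) P.nil)) (P.cons (P.cons (P.lf 0 92622 0) P.nil) P.nil)))))) 976042)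
 EL.nil))
noncomputable def S227_256_512_660_15 : EL := (EL.cons 4 (TM.mk (P.cons (P.lf 0 51259096 0) (P.cons (P.lf 101699239 0 0) (P.cons (P.lf 0 49221527 0) (P.cons (P.lf 0 1608569 0) (P.cons (P.lf 377947 0 0) (P.cons (P.lf 14225 0 0) P.nil)))))) 2557)
 (EL.cons 8 (TM.mk (P.cons (P.lf 0 240362403 0) (P.cons (P.lf 234586631 0 0) (P.cons (P.lf 8586714 0 0) (P.cons (P.lf 0 2734865 0) (P.cons (P.lf 0 94029 0) (P.cons (P.lf 17324 0 0) P.nil)))))) 877)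
 EL.nil))
noncomputable def S227_256_512_660_16 : EL := (EL.cons 4 (TM.mk (P.cons (P.cons (P.lf 6422415 0 0) (P.cons (P.lf 10168754 0 0) (P.cons (P.lf 0 679859 0) (P.lf 0 226619 0)))) (P.cons (P.cons (P.lf 0 8338921 0) (P.cons (P.lf 0 19685692 0) (P.cons (P.lf 1316139 0 0) (P.lf 438712 0 0)))) (P.cons (P.cons (P.lf 0 2358110 0) (P.cons (P.lf 8560738 0 0) (P.cons (P.lf 0 572350 0) (P.lf 0 190783 0)))) (P.cons (P.cons (P.lf 3858923 0 0) (P.cons (P.lf 1239560 0 0) (P.cons (P.lf 0 82874 0) P.nil))) (P.cons (P.cons (P.lf 589945 0 0) (P.cons (P.lf 0 257699 0) P.nil)) (P.cons (P.cons (P.lf 0 161219 0) P.nil) P.nil)))))) 118330)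
 (EL.cons 8 (TM.mk (P.cons (P.cons (P.lf 30115776 0 0) (P.cons (P.lf 47682977 0 0) (P.cons (P.lf 0 3187972 0) (P.lf 0 1062657 0)))) (P.cons (P.cons (P.lf 0 8744297 0) (P.cons (P.lf 0 44242526 0) (P.cons (P.lf 2957952 0 0) (P.lf 985983 0 0)))) (P.cons (P.cons (P.lf 0 20238011 0) (P.cons (P.lf 0 5035133 0) (P.cons (P.lf 336636 0 0) (P.lf 112212 0 0)))) (P.cons (P.cons (P.lf 0 2074479 0) (P.cons (P.lf 1472303 0 0) (P.cons (P.lf 0 98434 0) P.nil))) (P.cons (P.cons (P.lf 882109 0 0) (P.cons (P.lf 149085 0 0) P.nil)) (P.cons (P.cons (P.lf 75544 0 0) P.nil) P.nil)))))) 111841)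
 EL.nil))
noncomputable def S227_256_512_660_17 : EL := (EL.cons 4 (TM.mk (P.cons (P.cons (P.lf 0 804684 0) (P.cons (P.lf 0 2548151 0) (P.cons (P.lf 0 1846908 0) (P.cons (P.lf 326527 0 0) (P.cons (P.lf 80895 0 0) (P.cons (P.lf 0 6011 0) P.nil)))))) (P.cons (P.cons (P.lf 493106 0 0) (P.cons (P.lf 3185916 0 0) (P.cons (P.lf 3595156 0 0) (P.cons (P.lf 0 580210 0) (P.cons (P.lf 0 152714 0) P.nil))))) (P.cons (P.cons (P.lf 985352 0 0) (P.cons (P.lf 1153185 0 0) (P.cons (P.lf 0 1541235 0) (P.cons (P.lf 170077 0 0) P.nil)))) (P.cons (P.cons (P.lf 0 227526 0) (P.cons (P.lf 0 1558924 0) (P.cons (P.lf 0 310560 0) P.nil))) (P.cons (P.cons (P.lf 0 419772 0) (P.cons (P.lf 0 333600 0) P.nil)) (P.cons (P.cons (P.lf 0 54468 0) P.nil) P.nil)))))) 604186)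
 (EL.cons 8 (TM.mk (P.cons (P.cons (P.lf 0 3773302 0) (P.cons (P.lf 0 11948706 0) (P.cons (P.lf 0 8660462 0) (P.cons (P.lf 1531144 0 0) (P.cons (P.lf 379335 0 0) (P.cons (P.lf 0 28188 0) P.nil)))))) (P.cons (P.cons (P.lf 0 1491429 0) (P.cons (P.lf 2894369 0 0) (P.cons (P.lf 8128087 0 0) (P.cons (P.lf 0 1177228 0) (P.cons (P.lf 0 333711 0) P.nil))))) (P.cons (P.cons (P.lf 3162867 0 0) (P.cons (P.lf 8470258 0 0) (P.cons (P.lf 1071601 0 0) (P.cons (P.lf 0 407779 0) P.nil)))) (P.cons (P.cons (P.lf 2123851 0 0) (P.cons (P.lf 1143595 0 0) (P.cons (P.lf 0 510745 0) P.nil))) (P.cons (P.cons (P.lf 128271 0 0) (P.cons (P.lf 0 501347 0) P.nil)) (P.cons (P.cons (P.lf 0 138696 0) P.nil) P.nil)))))) 471004)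
 EL.nil))
noncomputable def S227_256_512_660_18 : EL := (EL.cons 4 (TM.mk (P.cons (P.lf 5783501 0 0) (P.cons (P.lf 0 17211901 0) (P.cons (P.lf 16867610 0 0) (P.cons (P.lf 0 5168619 0) (P.cons (P.lf 0 332796 0) (P.cons (P.lf 59024 0 0) P.nil)))))) 4306)
 (EL.cons 8 (TM.mk (P.cons (P.lf 27119797 0 0) (P.cons (P.lf 0 53371278 0) (P.cons (P.lf 24964624 0 0) (P.cons (P.lf 1690000 0 0) (P.cons (P.lf 0 384174 0) (P.cons (P.lf 0 22382 0) P.nil)))))) 4185)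
 EL.nil))
noncomputable def S227_256_512_660_19 : EL := (EL.cons 4 (TM.mk (P.cons (P.cons (P.lf 0 724633 0) (P.cons (P.lf 0 1147327 0) (P.cons (P.lf 76707 0 0) (P.lf 25568 0 0)))) (P.cons (P.cons (P.lf 1659714 0 0) (P.cons (P.lf 3359275 0 0) (P.cons (P.lf 0 224593 0) (P.lf 0 74864 0)))) (P.cons (P.cons (P.lf 0 658654 0) (P.cons (P.lf 0 3155592 0) (P.cons (P.lf 210975 0 0) (P.lf 70324 0 0)))) (P.cons (P.cons (P.lf 0 713351 0) (P.cons (P.lf 787412 0 0) (P.cons (P.lf 0 52644 0) P.nil))) (P.cons (P.cons (P.lf 365766 0 0) (P.cons (P.lf 187827 0 0) P.nil)) (P.cons (P.cons (P.lf 90524 0 0) P.nil) P.nil)))))) 126925)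
 (EL.cons 8 (TM.mk (P.cons (P.cons (P.lf 0 3397926 0) (P.cons (P.lf 0 5380011 0) (P.cons (P.lf 359694 0 0) (P.lf 119897 0 0)))) (P.cons (P.cons (P.lf 4357391 0 0) (P.cons (P.lf 10328864 0 0) (P.cons (P.lf 0 690563 0) (P.lf 0 230187 0)))) (P.cons (P.cons (P.lf 1345201 0 0) (P.cons (P.lf 0 4319722 0) (P.cons (P.lf 288806 0 0) (P.lf 96268 0 0)))) (P.cons (P.cons (P.lf 0 2056027 0) (P.cons (P.lf 0 809988 0) (P.cons (P.lf 54153 0 0) P.nil))) (P.cons (P.cons (P.lf 0 355385 0) (P.cons (P.lf 160080 0 0) P.nil)) (P.cons (P.cons (P.lf 96376 0 0) P.nil) P.nil)))))) 86607)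
 EL.nil))
noncomputable def S227_256_512_660_20 : EL := (EL.cons 4 (TM.mk (P.cons (P.cons (P.lf 90791 0 0) (P.cons (P.lf 287504 0 0) (P.cons (P.lf 208383 0 0) (P.cons (P.lf 0 36840 0) (P.cons (P.lf 0 9126 0) (P.cons (P.lf 677 0 0) P.nil)))))) (P.cons (P.cons (P.lf 0 145702 0) (P.cons (P.lf 0 644670 0) (P.cons (P.lf 0 612356 0) (P.cons (P.lf 102011 0 0) (P.cons (P.lf 26284 0 0) P.nil))))) (P.cons (P.cons (P.lf 0 57065 0) (P.cons (P.lf 223051 0 0) (P.cons (P.lf 573808 0 0) (P.cons (P.lf 0 83691 0) P.nil)))) (P.cons (P.cons (P.lf 136973 0 0) (P.cons (P.lf 310360 0 0) (P.cons (P.lf 0 131825 0) P.nil))) (P.cons (P.cons (P.lf 23012 0 0) (P.cons (P.lf 0 136663 0) P.nil)) (P.cons (P.cons (P.lf 0 41580 0) P.nil) P.nil)))))) 297800)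
 (EL.cons 8 (TM.mk (P.cons (P.cons (P.lf 425736 0 0) (P.cons (P.lf 1348157 0 0) (P.cons (P.lf 977149 0 0) (P.cons (P.lf 0 172756 0) (P.cons (P.lf 0 42799 0) (P.cons (P.lf 3180 0 0) P.nil)))))) (P.cons (P.cons (P.lf 0 254059 0) (P.cons (P.lf 0 1663956 0) (P.cons (P.lf 0 1886425 0) (P.cons (P.lf 304202 0 0) (P.cons (P.lf 80110 0 0) P.nil))))) (P.cons (P.cons (P.lf 0 528868 0) (P.cons (P.lf 0 647797 0) (P.cons (P.lf 777201 0 0) (P.cons (P.lf 0 83695 0) P.nil)))) (P.cons (P.cons (P.lf 114020 0 0) (P.cons (P.lf 828129 0 0) (P.cons (P.lf 192277 0 0) P.nil))) (P.cons (P.cons (P.lf 228181 0 0) (P.cons (P.lf 194799 0 0) P.nil)) (P.cons (P.cons (P.lf 31489 0 0) P.nil) P.nil)))))) 358821)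
 EL.nil))
noncomputable def S227_256_512_660_21 : EL := (EL.cons 4 (TM.mk (P.cons (P.cons (P.lf 2432907189 0 0) (P.cons (P.lf 270376611 0 0) (P.cons (P.lf 0 18076746 0) (P.lf 0 6025581 0)))) (P.cons (P.cons (P.lf 252775698 0 0) (P.cons (P.lf 0 255205362 0) (P.cons (P.lf 17062434 0 0) (P.lf 5687475 0 0)))) (P.cons (P.cons (P.lf 0 260233053 0) (P.cons (P.lf 0 22323015 0) (P.cons (P.lf 1492461 0 0) (P.lf 497484 0 0)))) (P.cons (P.cons (P.lf 0 15174138 0) (P.cons (P.lf 6726669 0 0) (P.cons (P.lf 0 449727 0) P.nil))) (P.cons (P.cons (P.lf 5401368 0 0) (P.cons (P.lf 520581 0 0) P.nil)) (P.cons (P.cons (P.lf 308067 0 0) P.nil) P.nil)))))) 422571)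
 (EL.cons 8 (TM.mk (P.cons (P.cons (P.lf 0 184474965 0) (P.cons (P.lf 0 20501283 0) (P.cons (P.lf 1370673 0 0) (P.lf 456891 0 0)))) (P.cons (P.cons (P.lf 166793778 0 0) (P.cons (P.lf 40017285 0 0) (P.cons (P.lf 0 2675460 0) (P.lf 0 891819 0)))) (P.cons (P.cons (P.lf 36812937 0 0) (P.cons (P.lf 0 18063066 0) (P.cons (P.lf 1207650 0 0) (P.lf 402546 0 0)))) (P.cons (P.cons (P.lf 0 18206433 0) (P.cons (P.lf 0 1896102 0) (P.cons (P.lf 126762 0 0) P.nil))) (P.cons (P.cons (P.lf 0 1265298 0) (P.cons (P.lf 413109 0 0) P.nil)) (P.cons (P.cons (P.lf 323076 0 0) P.nil) P.nil)))))) 239751)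
 (EL.cons 11 (TM.mk (P.cons (P.cons (P.lf 2940277122 0 0) (P.cons (P.lf 0 455228733 0) (P.cons (P.lf 0 219314847 0) (P.cons (P.lf 8299518 0 0) (P.lf 2074878 0 0))))) (P.cons (P.cons (P.lf 94330317 0 0) (P.cons (P.lf 0 14604699 0) (P.cons (P.lf 0 7036083 0) (P.cons (P.lf 266265 0 0) (P.lf 66564 0 0))))) (P.cons (P.cons (P.lf 0 45655029 0) (P.cons (P.lf 7068543 0 0) (P.cons (P.lf 3405402 0 0) (P.cons (P.lf 0 128868 0) P.nil)))) (P.cons (P.cons (P.lf 0 1492008 0) (P.cons (P.lf 231000 0 0) (P.cons (P.lf 111288 0 0) P.nil))) (P.cons (P.cons (P.lf 350556 0 0) (P.cons (P.lf 0 54273 0) P.nil)) (P.cons (P.cons (P.lf 13194 0 0) P.nil) P.nil)))))) 71190)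
 EL.nil)))
noncomputable def S227_256_512_660_22 : EL := (EL.cons 4 (TM.mk (P.cons (P.cons (P.lf 0 304826751 0) (P.cons (P.lf 0 516515304 0) (P.cons (P.lf 0 19104171 0) (P.cons (P.lf 18683115 0 0) (P.cons (P.lf 2150946 0 0) (P.cons (P.lf 0 159834 0) P.nil)))))) (P.cons (P.cons (P.lf 0 240664728 0) (P.cons (P.lf 0 64622259 0) (P.cons (P.lf 52366815 0 0) (P.cons (P.lf 0 4984365 0) (P.cons (P.lf 0 1926744 0) P.nil))))) (P.cons (P.cons (P.lf 875688 0 0) (P.cons (P.lf 83873415 0 0) (P.cons (P.lf 2485776 0 0) (P.cons (P.lf 0 2951394 0) P.nil)))) (P.cons (P.cons (P.lf 30440226 0 0) (P.cons (P.lf 10120200 0 0) (P.cons (P.lf 0 2896590 0) P.nil))) (P.cons (P.cons (P.lf 2710782 0 0) (P.cons (P.lf 0 3457554 0) P.nil)) (P.cons (P.cons (P.lf 0 1262721 0) P.nil) P.nil)))))) 3097995)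
 (EL.cons 8 (TM.mk (P.cons (P.cons (P.lf 23113458 0 0) (P.cons (P.lf 39164724 0 0) (P.cons (P.lf 1448571 0 0) (P.cons (P.lf 0 1416645 0) (P.cons (P.lf 0 163095 0) (P.cons (P.lf 12117 0 0) P.nil)))))) (P.cons (P.cons (P.lf 0 5051202 0) (P.cons (P.lf 0 34580124 0) (P.cons (P.lf 0 5430942 0) (P.cons (P.lf 1805991 0 0) (P.cons (P.lf 310503 0 0) P.nil))))) (P.cons (P.cons (P.lf 0 18181038 0) (P.cons (P.lf 0 10823514 0) (P.cons (P.lf 3831789 0 0) (P.cons (P.lf 0 174393 0) P.nil)))) (P.cons (P.cons (P.lf 0 2115660 0) (P.cons (P.lf 5540253 0 0) (P.cons (P.lf 355392 0 0) P.nil))) (P.cons (P.cons (P.lf 2046414 0 0) (P.cons (P.lf 941337 0 0) P.nil)) (P.cons (P.cons (P.lf 276291 0 0) P.nil) P.nil)))))) 1396671)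
 (EL.cons 11 (TM.mk (P.cons (P.cons (P.lf 0 368396757 0) (P.cons (P.lf 0 526253682 0) (P.cons (P.lf 156784176 0 0) (P.cons (P.lf 49429065 0 0) (P.cons (P.lf 0 6827832 0) (P.cons (P.lf 0 1271139 0) P.nil)))))) (P.cons (P.cons (P.lf 0 264397116 0) (P.cons (P.lf 0 5847690 0) (P.cons (P.lf 30092325 0 0) (P.cons (P.lf 3301560 0 0) (P.cons (P.lf 0 713352 0) P.nil))))) (P.cons (P.cons (P.lf 0 14487270 0) (P.cons (P.lf 23759874 0 0) (P.cons (P.lf 0 3689316 0) (P.cons (P.lf 0 1902627 0) P.nil)))) (P.cons (P.cons (P.lf 12452064 0 0) (P.cons (P.lf 0 104319 0) (P.cons (P.lf 0 1333047 0) P.nil))) (P.cons (P.cons (P.lf 869052 0 0) (P.cons (P.lf 0 527718 0) P.nil)) (P.cons (P.cons (P.lf 0 244137 0) P.nil) P.nil)))))) 1200936)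
 EL.nil)))
noncomputable def S227_256_512_660_23 : EL := (EL.cons 4 (TM.mk (P.cons (P.cons (P.lf 0 274501956 0) (P.cons (P.lf 0 30506262 0) (P.cons (P.lf 2039577 0 0) (P.lf 679857 0 0)))) (P.cons (P.cons (P.lf 243788760 0 0) (P.cons (P.lf 59057079 0 0) (P.cons (P.lf 0 3948417 0) (P.lf 0 1316136 0)))) (P.cons (P.cons (P.lf 60926034 0 0) (P.cons (P.lf 0 25682214 0) (P.cons (P.lf 1717053 0 0) (P.lf 572349 0 0)))) (P.cons (P.cons (P.lf 0 28136733 0) (P.cons (P.lf 0 3718683 0) (P.cons (P.lf 248619 0 0) P.nil))) (P.cons (P.cons (P.lf 0 2789622 0) (P.cons (P.lf 773097 0 0) P.nil)) (P.cons (P.cons (P.lf 664767 0 0) P.nil) P.nil)))))) 366126)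
 (EL.cons 8 (TM.mk (P.cons (P.cons (P.lf 20814084 0 0) (P.cons (P.lf 2313132 0 0) (P.cons (P.lf 0 154650 0) (P.lf 0 51549 0)))) (P.cons (P.cons (P.lf 0 39466953 0) (P.cons (P.lf 0 6809757 0) (P.cons (P.lf 455283 0 0) (P.lf 151761 0 0)))) (P.cons (P.cons (P.lf 14267166 0 0) (P.cons (P.lf 6489495 0 0) (P.cons (P.lf 0 433869 0) (P.lf 0 144621 0)))) (P.cons (P.cons (P.lf 6479376 0 0) (P.cons (P.lf 0 1745058 0) (P.cons (P.lf 116670 0 0) P.nil))) (P.cons (P.cons (P.lf 0 1916673 0) (P.cons (P.lf 0 300405 0) P.nil)) (P.cons (P.cons (P.lf 0 220404 0) P.nil) P.nil)))))) 226482)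
 (EL.cons 11 (TM.mk (P.cons (P.cons (P.lf 0 331747890 0) (P.cons (P.lf 51362904 0 0) (P.cons (P.lf 24745026 0 0) (P.cons (P.lf 0 936423 0) (P.lf 0 234105 0))))) (P.cons (P.cons (P.lf 318454590 0 0) (P.cons (P.lf 0 49304766 0) (P.cons (P.lf 0 23753481 0) (P.cons (P.lf 898899 0 0) (P.lf 224724 0 0))))) (P.cons (P.cons (P.lf 19663368 0 0) (P.cons (P.lf 0 3044382 0) (P.cons (P.lf 0 1466685 0) (P.cons (P.lf 55503 0 0) P.nil)))) (P.cons (P.cons (P.lf 0 6097743 0) (P.cons (P.lf 944082 0 0) (P.cons (P.lf 454827 0 0) P.nil))) (P.cons (P.cons (P.lf 0 335139 0) (P.cons (P.lf 51888 0 0) P.nil)) (P.cons (P.cons (P.lf 59739 0 0) P.nil) P.nil)))))) 84867)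
 EL.nil)))
noncomputable def S227_256_512_660_24 : EL := (EL.cons 4 (TM.mk (P.cons (P.cons (P.lf 34393230 0 0) (P.cons (P.lf 58277793 0 0) (P.cons (P.lf 2155500 0 0) (P.cons (P.lf 0 2107992 0) (P.cons (P.lf 0 242688 0) (P.cons (P.lf 18033 0 0) P.nil)))))) (P.cons (P.cons (P.lf 0 6964575 0) (P.cons (P.lf 0 50520996 0) (P.cons (P.lf 0 8046765 0) (P.cons (P.lf 2653533 0 0) (P.cons (P.lf 458142 0 0) P.nil))))) (P.cons (P.cons (P.lf 0 27445719 0) (P.cons (P.lf 0 17390937 0) (P.cons (P.lf 5555124 0 0) (P.cons (P.lf 0 199758 0) P.nil)))) (P.cons (P.cons (P.lf 0 3527157 0) (P.cons (P.lf 8384349 0 0) (P.cons (P.lf 683802 0 0) P.nil))) (P.cons (P.cons (P.lf 3210123 0 0) (P.cons (P.lf 1668399 0 0) P.nil)) (P.cons (P.cons (P.lf 488055 0 0) P.nil) P.nil)))))) 2342880)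
 (EL.cons 8 (TM.mk (P.cons (P.cons (P.lf 0 2607861 0) (P.cons (P.lf 0 4418907 0) (P.cons (P.lf 0 163440 0) (P.cons (P.lf 159837 0 0) (P.cons (P.lf 18399 0 0) (P.cons (P.lf 0 1365 0) P.nil)))))) (P.cons (P.cons (P.lf 3156951 0 0) (P.cons (P.lf 8285241 0 0) (P.cons (P.lf 774900 0 0) (P.cons (P.lf 0 362328 0) (P.cons (P.lf 0 53286 0) P.nil))))) (P.cons (P.cons (P.lf 1517058 0 0) (P.cons (P.lf 0 2596593 0) (P.cons (P.lf 0 1038258 0) (P.cons (P.lf 219909 0 0) P.nil)))) (P.cons (P.cons (P.lf 0 1813125 0) (P.cons (P.lf 0 1900137 0) (P.cons (P.lf 380847 0 0) P.nil))) (P.cons (P.cons (P.lf 0 490143 0) (P.cons (P.lf 514080 0 0) P.nil)) (P.cons (P.cons (P.lf 203046 0 0) P.nil) P.nil)))))) 721770)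
 (EL.cons 11 (TM.mk (P.cons (P.cons (P.lf 41565756 0 0) (P.cons (P.lf 59376561 0 0) (P.cons (P.lf 0 17689767 0) (P.cons (P.lf 0 5577021 0) (P.cons (P.lf 770373 0 0) (P.cons (P.lf 143421 0 0) P.nil)))))) (P.cons (P.cons (P.lf 0 11402109 0) (P.cons (P.lf 0 58242450 0) (P.cons (P.lf 14153172 0 0) (P.cons (P.lf 5159958 0 0) (P.cons (P.lf 0 683733 0) P.nil))))) (P.cons (P.cons (P.lf 0 28454127 0) (P.cons (P.lf 0 4043007 0) (P.cons (P.lf 3995256 0 0) (P.cons (P.lf 650676 0 0) P.nil)))) (P.cons (P.cons (P.lf 0 3221292 0) (P.cons (P.lf 2892900 0 0) (P.cons (P.lf 0 290466 0) P.nil))) (P.cons (P.cons (P.lf 1394814 0 0) (P.cons (P.lf 87027 0 0) P.nil)) (P.cons (P.cons (P.lf 149607 0 0) P.nil) P.nil)))))) 1091505)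
 EL.nil)))
noncomputable def S227_256_512_660_25 : EL := (EL.cons 4 (TM.mk (P.cons (P.cons (P.lf 30971721 0 0) (P.cons (P.lf 3441984 0 0) (P.cons (P.lf 0 230121 0) (P.lf 0 76707 0)))) (P.cons (P.cons (P.lf 0 58230696 0) (P.cons (P.lf 0 10077825 0) (P.cons (P.lf 673779 0 0) (P.lf 224592 0 0)))) (P.cons (P.cons (P.lf 20043303 0 0) (P.cons (P.lf 9466776 0 0) (P.cons (P.lf 0 632925 0) (P.lf 0 210975 0)))) (P.cons (P.cons (P.lf 10441539 0 0) (P.cons (P.lf 0 2362239 0) (P.cons (P.lf 157932 0 0) P.nil))) (P.cons (P.cons (P.lf 0 2856528 0) (P.cons (P.lf 0 563484 0) P.nil)) (P.cons (P.cons (P.lf 0 454278 0) P.nil) P.nil)))))) 420726)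
 (EL.cons 8 (TM.mk (P.cons (P.cons (P.lf 0 2348427 0) (P.cons (P.lf 0 260988 0) (P.cons (P.lf 17448 0 0) (P.lf 5814 0 0)))) (P.cons (P.cons (P.lf 6782676 0 0) (P.cons (P.lf 1027239 0 0) (P.cons (P.lf 0 68676 0) (P.lf 0 22890 0)))) (P.cons (P.cons (P.lf 0 5999193 0) (P.cons (P.lf 0 1491288 0) (P.cons (P.lf 99702 0 0) (P.lf 33234 0 0)))) (P.cons (P.cons (P.lf 803670 0 0) (P.cons (P.lf 913077 0 0) (P.cons (P.lf 0 61044 0) P.nil))) (P.cons (P.cons (P.lf 977697 0 0) (P.cons (P.lf 0 149745 0) P.nil)) (P.cons (P.cons (P.lf 0 186786 0) P.nil) P.nil)))))) 155370)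
 (EL.cons 11 (TM.mk (P.cons (P.cons (P.lf 37430709 0 0) (P.cons (P.lf 0 5795214 0) (P.cons (P.lf 0 2791950 0) (P.cons (P.lf 105654 0 0) (P.lf 26412 0 0))))) (P.cons (P.cons (P.lf 0 73062543 0) (P.cons (P.lf 11311914 0 0) (P.cons (P.lf 5449722 0 0) (P.cons (P.lf 0 206232 0) (P.lf 0 51558 0))))) (P.cons (P.cons (P.lf 32979093 0 0) (P.cons (P.lf 0 5105991 0) (P.cons (P.lf 0 2459904 0) (P.cons (P.lf 93090 0 0) P.nil)))) (P.cons (P.cons (P.lf 3461868 0 0) (P.cons (P.lf 0 535983 0) (P.cons (P.lf 0 258219 0) P.nil))) (P.cons (P.cons (P.lf 0 754254 0) (P.cons (P.lf 116775 0 0) P.nil)) (P.cons (P.cons (P.lf 0 64404 0) P.nil) P.nil)))))) 141834)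
 EL.nil)))
noncomputable def S227_256_512_660_26 : EL := (EL.cons 4 (TM.mk (P.cons (P.cons (P.lf 0 3880545 0) (P.cons (P.lf 0 6575412 0) (P.cons (P.lf 0 243201 0) (P.cons (P.lf 237840 0 0) (P.cons (P.lf 27381 0 0) (P.cons (P.lf 0 2034 0) P.nil)))))) (P.cons (P.cons (P.lf 4635351 0 0) (P.cons (P.lf 12223107 0 0) (P.cons (P.lf 1149165 0 0) (P.cons (P.lf 0 535335 0) (P.cons (P.lf 0 78855 0) P.nil))))) (P.cons (P.cons (P.lf 2363388 0 0) (P.cons (P.lf 0 3614118 0) (P.cons (P.lf 0 1524534 0) (P.cons (P.lf 316704 0 0) P.nil)))) (P.cons (P.cons (P.lf 0 2698335 0) (P.cons (P.lf 0 2985885 0) (P.cons (P.lf 532857 0 0) P.nil))) (P.cons (P.cons (P.lf 0 791154 0) (P.cons (P.lf 748335 0 0) P.nil)) (P.cons (P.cons (P.lf 311583 0 0) P.nil) P.nil)))))) 1151979)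
 (EL.cons 8 (TM.mk (P.cons (P.cons (P.lf 294240 0 0) (P.cons (P.lf 498579 0 0) (P.cons (P.lf 18438 0 0) (P.cons (P.lf 0 18033 0) (P.cons (P.lf 0 2076 0) (P.cons (P.lf 153 0 0) P.nil)))))) (P.cons (P.cons (P.lf 0 648084 0) (P.cons (P.lf 0 1429410 0) (P.cons (P.lf 0 105723 0) (P.cons (P.lf 58770 0 0) (P.cons (P.lf 8070 0 0) P.nil))))) (P.cons (P.cons (P.lf 178674 0 0) (P.cons (P.lf 1214373 0 0) (P.cons (P.lf 203658 0 0) (P.cons (P.lf 0 65151 0) P.nil)))) (P.cons (P.cons (P.lf 379755 0 0) (P.cons (P.lf 0 63168 0) (P.cons (P.lf 0 158067 0) P.nil))) (P.cons (P.cons (P.lf 0 146949 0) (P.cons (P.lf 0 277746 0) P.nil)) (P.cons (P.cons (P.lf 0 80901 0) P.nil) P.nil)))))) 361566)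
 (EL.cons 11 (TM.mk (P.cons (P.cons (P.lf 0 4689813 0) (P.cons (P.lf 0 6699384 0) (P.cons (P.lf 1995912 0 0) (P.cons (P.lf 629247 0 0) (P.cons (P.lf 0 86919 0) (P.cons (P.lf 0 16182 0) P.nil)))))) (P.cons (P.cons (P.lf 5938836 0 0) (P.cons (P.lf 13217292 0 0) (P.cons (P.lf 0 3576855 0) (P.cons (P.lf 0 1206411 0) (P.cons (P.lf 163371 0 0) P.nil))))) (P.cons (P.cons (P.lf 1990131 0 0) (P.cons (P.lf 0 5982912 0) (P.cons (P.lf 1109559 0 0) (P.cons (P.lf 496623 0 0) P.nil)))) (P.cons (P.cons (P.lf 0 2854812 0) (P.cons (P.lf 0 883155 0) (P.cons (P.lf 506703 0 0) P.nil))) (P.cons (P.cons (P.lf 0 551583 0) (P.cons (P.lf 333423 0 0) P.nil)) (P.cons (P.cons (P.lf 147489 0 0) P.nil) P.nil)))))) 625215)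
 EL.nil)))
noncomputable def S227_256_512_660_27 : EL := (EL.cons 13 (TM.mk (P.lf 0 4294967296 0) 0)
 EL.nil)
noncomputable def S227_256_512_660_28 : EL := (EL.cons 13 (TM.mk (P.cons (P.cons (P.lf 538130239 0 0) (P.cons (P.lf 852033536 0 0) (P.cons (P.lf 0 56964976 0) (P.lf 0 18988324 0)))) (P.cons (P.cons (P.lf 368949911 0 0) (P.cons (P.lf 41002556 0 0) (P.cons (P.lf 0 2741332 0) (P.lf 0 913776 0)))) (P.cons (P.cons (P.lf 17681172 0 0) (P.cons (P.lf 0 19516008 0) (P.cons (P.lf 1304792 0 0) (P.lf 434928 0 0)))) (P.cons (P.cons (P.lf 0 12754504 0) (P.cons (P.lf 0 968620 0) (P.cons (P.lf 64756 0 0) P.nil))) (P.cons (P.cons (P.lf 0 462660 0) (P.cons (P.lf 221580 0 0) P.nil)) (P.cons (P.cons (P.lf 135987 0 0) P.nil) P.nil)))))) 70175)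
 EL.nil)
noncomputable def S227_256_512_660_29 : EL := (EL.cons 13 (TM.mk (P.cons (P.cons (P.lf 0 67424064 0) (P.cons (P.lf 0 213508033 0) (P.cons (P.lf 0 154751351 0) (P.cons (P.lf 27359584 0 0) (P.cons (P.lf 6778251 0 0) (P.cons (P.lf 0 503691 0) P.nil)))))) (P.cons (P.cons (P.lf 0 92453837 0) (P.cons (P.lf 0 156658893 0) (P.cons (P.lf 0 5794286 0) (P.cons (P.lf 5666579 0 0) (P.cons (P.lf 652381 0 0) P.nil))))) (P.cons (P.cons (P.lf 0 36124508 0) (P.cons (P.lf 0 9169190 0) (P.cons (P.lf 7964746 0 0) (P.cons (P.lf 0 778692 0) P.nil)))) (P.cons (P.cons (P.lf 158379 0 0) (P.cons (P.lf 8318556 0 0) (P.cons (P.lf 200775 0 0) P.nil))) (P.cons (P.cons (P.lf 2234444 0 0) (P.cons (P.lf 698663 0 0) P.nil)) (P.cons (P.cons (P.lf 150424 0 0) P.nil) P.nil)))))) 1590324)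
 EL.nil)
noncomputable def S227_256_512_660_30 : EL := (EL.cons 13 (TM.mk (P.cons (P.lf 484595936 0 0) (P.cons (P.lf 0 480724804 0) (P.cons (P.lf 0 5775768 0) (P.cons (P.lf 1873960 0 0) (P.cons (P.lf 38036 0 0) (P.cons (P.lf 0 7180 0) P.nil)))))) 280)
 EL.nil)
noncomputable def S227_256_512_660_31 : EL := (EL.cons 13 (TM.mk (P.cons (P.cons (P.lf 0 60716580 0) (P.cons (P.lf 0 96133907 0) (P.cons (P.lf 6427288 0 0) (P.lf 2142429 0 0)))) (P.cons (P.cons (P.lf 18603384 0 0) (P.cons (P.lf 90739685 0 0) (P.cons (P.lf 0 6066644 0) (P.lf 0 2022214 0)))) (P.cons (P.cons (P.lf 40024347 0 0) (P.cons (P.lf 7937073 0 0) (P.cons (P.lf 0 530653 0) (P.lf 0 176884 0)))) (P.cons (P.cons (P.lf 3679444 0 0) (P.cons (P.lf 0 2391705 0) (P.cons (P.lf 159903 0 0) P.nil))) (P.cons (P.cons (P.lf 0 1517344 0) (P.cons (P.lf 0 185096 0) P.nil)) (P.cons (P.cons (P.lf 0 94361 0) P.nil) P.nil))))))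 147456)
 EL.nil)
noncomputable def S227_256_512_660_32 : EL := (EL.cons 13 (TM.mk (P.cons (P.cons (P.lf 7607375 0 0) (P.cons (P.lf 24089851 0 0) (P.cons (P.lf 17460406 0 0) (P.cons (P.lf 0 3086948 0) (P.cons (P.lf 0 764781 0) (P.cons (P.lf 56830 0 0) P.nil)))))) (P.cons (P.cons (P.lf 2884849 0 0) (P.cons (P.lf 0 6221780 0) (P.cons (P.lf 0 16667164 0) (P.cons (P.lf 2422935 0 0) (P.cons (P.lf 685065 0 0) P.nil))))) (P.cons (P.cons (P.lf 0 6362909 0) (P.cons (P.lf 0 16787004 0) (P.cons (P.lf 0 1755298 0) (P.cons (P.lf 758897 0 0) P.nil)))) (P.cons (P.cons (P.lf 0 4156105 0) (P.cons (P.lf 0 2082371 0) (P.cons (P.lf 928549 0 0) P.nil))) (P.cons (P.cons (P.lf 0 242025 0) (P.cons (P.lf 910158 0 0) P.nil)) (P.cons (P.cons (P.lf 249804 0 0) P.nil) P.nil)))))) 778393)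
 EL.nil)
noncomputable def S227_256_512_660_33 : EL := (EL.cons 14 (TM.mk (P.lf 8589934592 0 0) 0)
 EL.nil)
noncomputable def S227_256_512_660_34 : EL := (EL.cons 14 (TM.mk (P.cons (P.cons (P.lf 0 1076260478 0) (P.cons (P.lf 0 1704067072 0) (P.cons (P.lf 113929952 0 0) (P.lf 37976648 0 0)))) (P.cons (P.cons (P.lf 0 737899822 0) (P.cons (P.lf 0 82005112 0) (P.cons (P.lf 5482664 0 0) (P.lf 1827552 0 0)))) (P.cons (P.cons (P.lf 0 35362344 0) (P.cons (P.lf 39032016 0 0) (P.cons (P.lf 0 2609584 0) (P.lf 0 869856 0)))) (P.cons (P.cons (P.lf 25509008 0 0) (P.cons (P.lf 1937240 0 0) (P.cons (P.lf 0 129512 0) P.nil))) (P.cons (P.cons (P.lf 925320 0 0) (P.cons (P.lf 0 443160 0) P.nil)) (P.cons (P.cons (P.lf 0 271974 0) P.nil) P.nil)))))) 140350)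
 EL.nil)
noncomputable def S227_256_512_660_35 : EL := (EL.cons 14 (TM.mk (P.cons (P.cons (P.lf 134848128 0 0) (P.cons (P.lf 427016066 0 0) (P.cons (P.lf 309502702 0 0) (P.cons (P.lf 0 54719168 0) (P.cons (P.lf 0 13556502 0) (P.cons (P.lf 1007382 0 0) P.nil)))))) (P.cons (P.cons (P.lf 184907674 0 0) (P.cons (P.lf 313317786 0 0) (P.cons (P.lf 11588572 0 0) (P.cons (P.lf 0 11333158 0) (P.cons (P.lf 0 1304762 0) P.nil))))) (P.cons (P.cons (P.lf 72249016 0 0) (P.cons (P.lf 18338380 0 0) (P.cons (P.lf 0 15929492 0) (P.cons (P.lf 1557384 0 0) P.nil)))) (P.cons (P.cons (P.lf 0 316758 0) (P.cons (P.lf 0 16637112 0) (P.cons (P.lf 0 401550 0) P.nil))) (P.cons (P.cons (P.lf 0 4468888 0) (P.cons (P.lf 0 1397326 0) P.nil)) (P.cons (P.cons (P.lf 0 300848 0) P.nil) P.nil)))))) 3180648)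
 EL.nil)
noncomputable def S227_256_512_660_36 : EL := (EL.cons 14 (TM.mk (P.cons (P.lf 0 969191872 0) (P.cons (P.lf 961449608 0 0) (P.cons (P.lf 11551536 0 0) (P.cons (P.lf 0 3747920 0) (P.cons (P.lf 0 76072 0) (P.cons (P.lf 14360 0 0) P.nil)))))) 560)
 EL.nil)
noncomputable def S227_256_512_660_37 : EL := (EL.cons 14 (TM.mk (P.cons (P.cons (P.lf 121433160 0 0) (P.cons (P.lf 192267814 0 0) (P.cons (P.lf 0 12854576 0) (P.lf 0 4284858 0)))) (P.cons (P.cons (P.lf 0 37206768 0) (P.cons (P.lf 0 181479370 0) (P.cons (P.lf 12133288 0 0) (P.lf 4044428 0 0)))) (P.cons (P.cons (P.lf 0 80048694 0) (P.cons (P.lf 0 15874146 0) (P.cons (P.lf 1061306 0 0) (P.lf 353768 0 0)))) (P.cons (P.cons (P.lf 0 7358888 0) (P.cons (P.lf 4783410 0 0) (P.cons (P.lf 0 319806 0) P.nil))) (P.cons (P.cons (P.lf 3034688 0 0) (P.cons (P.lf 370192 0 0) P.nil)) (P.cons (P.cons (P.lf 188722 0 0) P.nil)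 P.nil)))))) 294912)
 EL.nil)
noncomputable def S227_256_512_660_38 : EL := (EL.cons 14 (TM.mk (P.cons (P.cons (P.lf 0 15214750 0) (P.cons (P.lf 0 48179702 0) (P.cons (P.lf 0 34920812 0) (P.cons (P.lf 6173896 0 0) (P.cons (P.lf 1529562 0 0) (P.cons (P.lf 0 113660 0) P.nil)))))) (P.cons (P.cons (P.lf 0 5769698 0) (P.cons (P.lf 12443560 0 0) (P.cons (P.lf 33334328 0 0) (P.cons (P.lf 0 4845870 0) (P.cons (P.lf 0 1370130 0) P.nil))))) (P.cons (P.cons (P.lf 12725818 0 0) (P.cons (P.lf 33574008 0 0) (P.cons (P.lf 3510596 0 0) (P.cons (P.lf 0 1517794 0) P.nil)))) (P.cons (P.cons (P.lf 8312210 0 0) (P.cons (P.lf 4164742 0 0) (P.cons (P.lf 0 1857098 0) P.nil))) (P.cons (P.cons (P.lf 484050 0 0) (P.cons (P.lf 0 1820316 0) P.nil)) (P.cons (P.cons (P.lf 0 499608 0) P.nil) P.nil)))))) 1556786)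
 EL.nil)
noncomputable def S227_256_512_660_39 : EL := (EL.cons 14 (TM.mk (P.cons (P.lf 109352740 0 0) (P.cons (P.lf 0 216958378 0) (P.cons (P.lf 105005926 0 0) (P.cons (P.lf 3431614 0 0) (P.cons (P.lf 0 806288 0) (P.cons (P.lf 0 30348 0) P.nil)))))) 5440)
 EL.nil)
noncomputable def S227_256_512_660_40 : EL := (EL.cons 14 (TM.mk (P.cons (P.cons (P.lf 0 13701154 0) (P.cons (P.lf 0 21693342 0) (P.cons (P.lf 1450366 0 0) (P.lf 483454 0 0)))) (P.cons (P.cons (P.lf 17789700 0 0) (P.cons (P.lf 41996144 0 0) (P.cons (P.lf 0 2807764 0) (P.lf 0 935920 0)))) (P.cons (P.cons (P.lf 5030636 0 0) (P.cons (P.lf 0 18262908 0) (P.cons (P.lf 1221014 0 0) (P.lf 407004 0 0)))) (P.cons (P.cons (P.lf 0 8232370 0) (P.cons (P.lf 0 2644396 0) (P.cons (P.lf 176798 0 0) P.nil))) (P.cons (P.cons (P.lf 0 1258550 0) (P.cons (P.lf 549758 0 0) P.nil)) (P.cons (P.cons (P.lf 343934 0 0) P.nil) P.nil))))))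 252398)
 EL.nil)
noncomputable def S227_256_512_660_41 : EL := (EL.cons 14 (TM.mk (P.cons (P.cons (P.lf 1716660 0 0) (P.cons (P.lf 5436056 0 0) (P.cons (P.lf 3940072 0 0) (P.cons (P.lf 0 696592 0) (P.cons (P.lf 0 172578 0) (P.cons (P.lf 12824 0 0) P.nil)))))) (P.cons (P.cons (P.lf 0 1051960 0) (P.cons (P.lf 0 6796622 0) (P.cons (P.lf 0 7669668 0) (P.cons (P.lf 1237782 0 0) (P.cons (P.lf 325790 0 0) P.nil))))) (P.cons (P.cons (P.lf 0 2102086 0) (P.cons (P.lf 0 2460128 0) (P.cons (P.lf 3287968 0 0) (P.cons (P.lf 0 362832 0) P.nil)))) (P.cons (P.cons (P.lf 485390 0 0) (P.cons (P.lf 3325706 0 0) (P.cons (P.lf 662528 0 0) P.nil))) (P.cons (P.cons (P.lf 895514 0 0) (P.cons (P.lf 711680 0 0) P.nil)) (P.cons (P.cons (P.lf 116200 0 0) P.nil) P.nil)))))) 1288884)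
 EL.nil)
noncomputable def S227_256_512_660_42 : EL := (EL.cons 14 (TM.mk (P.cons (P.lf 0 12338136 0) (P.cons (P.lf 36718724 0 0) (P.cons (P.lf 0 35984236 0) (P.cons (P.lf 11026388 0 0) (P.cons (P.lf 709966 0 0) (P.cons (P.lf 0 125918 0) P.nil)))))) 9172)
 EL.nil)
noncomputable def S227_256_512_660_43 : EL := (EL.cons 14 (TM.mk (P.cons (P.cons (P.lf 1545884 0 0) (P.cons (P.lf 2447632 0 0) (P.cons (P.lf 0 163642 0) (P.lf 0 54546 0)))) (P.cons (P.cons (P.lf 0 3540724 0) (P.cons (P.lf 0 7166454 0) (P.cons (P.lf 479132 0 0) (P.lf 159710 0 0)))) (P.cons (P.cons (P.lf 1405130 0 0) (P.cons (P.lf 6731930 0 0) (P.cons (P.lf 0 450080 0) (P.lf 0 150026 0)))) (P.cons (P.cons (P.lf 1521816 0 0) (P.cons (P.lf 0 1679814 0) (P.cons (P.lf 112308 0 0) P.nil))) (P.cons (P.cons (P.lf 0 780302 0) (P.cons (P.lf 0 400698 0) P.nil)) (P.cons (P.cons (P.lf 0 193118 0) P.nil) P.nil)))))) 270734)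
 EL.nil)
noncomputable def S227_256_512_660_44 : EL := (EL.cons 14 (TM.mk (P.cons (P.cons (P.lf 0 193688 0) (P.cons (P.lf 0 613342 0) (P.cons (P.lf 0 444552 0) (P.cons (P.lf 78594 0 0) (P.cons (P.lf 19470 0 0) (P.cons (P.lf 0 1446 0) P.nil)))))) (P.cons (P.cons (P.lf 310832 0 0) (P.cons (P.lf 1375298 0 0) (P.cons (P.lf 1306360 0 0) (P.cons (P.lf 0 217624 0) (P.cons (P.lf 0 56074 0) P.nil))))) (P.cons (P.cons (P.lf 121740 0 0) (P.cons (P.lf 0 475844 0) (P.cons (P.lf 0 1224124 0) (P.cons (P.lf 178542 0 0) P.nil)))) (P.cons (P.cons (P.lf 0 292210 0) (P.cons (P.lf 0 662102 0) (P.cons (P.lf 281228 0 0) P.nil))) (P.cons (P.cons (P.lf 0 49094 0) (P.cons (P.lf 291548 0 0) P.nil)) (P.cons (P.cons (P.lf 88704 0 0) P.nil) P.nil)))))) 635260)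
 EL.nil)
noncomputable def S227_256_512_660_45 : EL := (EL.cons 14 (TM.mk (P.cons (P.cons (P.lf 0 16895554 0) (P.cons (P.lf 0 80253320 0) (P.cons (P.lf 0 121701310 0) (P.cons (P.lf 0 48283286 0) (P.cons (P.lf 18546558 0 0) (P.cons (P.lf 3205694 0 0) P.nil)))))) (P.cons (P.cons (P.lf 0 34751512 0) (P.cons (P.lf 0 113907728 0) (P.cons (P.lf 0 91733000 0) (P.cons (P.lf 6141172 0 0) (P.cons (P.lf 5925964 0 0) P.nil))))) (P.cons (P.cons (P.lf 0 25491538 0) (P.cons (P.lf 0 46455702 0) (P.cons (P.lf 0 3927228 0) (P.cons (P.lf 6118076 0 0) P.nil)))) (P.cons (P.cons (P.lf 0 6527470 0) (P.cons (P.lf 731160 0 0) (P.cons (P.lf 6919196 0 0) P.nil))) (P.cons (P.cons (P.lf 853338 0 0) (P.cons (P.lf 3757794 0 0) P.nil)) (P.cons (P.cons (P.lf 653090 0 0) P.nil) P.nil)))))) 7916756)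
 EL.nil)
noncomputable def S227_256_512_660_46 : EL := (EL.cons 15 (TM.mk (P.lf 4294967296 0 0) 0)
 EL.nil)
noncomputable def S227_256_512_660_47 : EL := (EL.cons 15 (TM.mk (P.cons (P.cons (P.lf 0 538130239 0) (P.cons (P.lf 0 852033536 0) (P.cons (P.lf 56964976 0 0) (P.lf 18988324 0 0)))) (P.cons (P.cons (P.lf 0 368949911 0) (P.cons (P.lf 0 41002556 0) (P.cons (P.lf 2741332 0 0) (P.lf 913776 0 0)))) (P.cons (P.cons (P.lf 0 17681172 0) (P.cons (P.lf 19516008 0 0) (P.cons (P.lf 0 1304792 0) (P.lf 0 434928 0)))) (P.cons (P.cons (P.lf 12754504 0 0) (P.cons (P.lf 968620 0 0) (P.cons (P.lf 0 64756 0) P.nil))) (P.cons (P.cons (P.lf 462660 0 0) (P.cons (P.lf 0 221580 0) P.nil)) (P.cons (P.cons (P.lf 0 135987 0) P.nil) P.nil)))))) 70175)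
 EL.nil)
noncomputable def S227_256_512_660_48 : EL := (EL.cons 15 (TM.mk (P.cons (P.cons (P.lf 67424064 0 0) (P.cons (P.lf 213508033 0 0) (P.cons (P.lf 154751351 0 0) (P.cons (P.lf 0 27359584 0) (P.cons (P.lf 0 6778251 0) (P.cons (P.lf 503691 0 0) P.nil)))))) (P.cons (P.cons (P.lf 92453837 0 0) (P.cons (P.lf 156658893 0 0) (P.cons (P.lf 5794286 0 0) (P.cons (P.lf 0 5666579 0) (P.cons (P.lf 0 652381 0) P.nil))))) (P.cons (P.cons (P.lf 36124508 0 0) (P.cons (P.lf 9169190 0 0) (P.cons (P.lf 0 7964746 0) (P.cons (P.lf 778692 0 0) P.nil)))) (P.cons (P.cons (P.lf 0 158379 0) (P.cons (P.lf 0 8318556 0) (P.cons (P.lf 0 200775 0) P.nil))) (P.cons (P.cons (P.lf 0 2234444 0) (P.cons (P.lf 0 698663 0) P.nil)) (P.cons (P.cons (P.lf 0 150424 0) P.nil) P.nil)))))) 1590324)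
 EL.nil)
noncomputable def S227_256_512_660 : SL := (SL.cons S227_256_512_660_0 (SL.cons S227_256_512_660_1 (SL.cons S227_256_512_660_2 (SL.cons S227_256_512_660_3 (SL.cons S227_256_512_660_4 (SL.cons S227_256_512_660_5 (SL.cons S227_256_512_660_6 (SL.cons S227_256_512_660_7 (SL.cons S227_256_512_660_8 (SL.cons S227_256_512_660_9 (SL.cons S227_256_512_660_10 (SL.cons S227_256_512_660_11 (SL.cons S227_256_512_660_12 (SL.cons S227_256_512_660_13 (SL.cons S227_256_512_660_14 (SL.cons S227_256_512_660_15 (SL.cons S227_256_512_660_16 (SL.cons S227_256_512_660_17 (SL.cons S227_256_512_660_18 (SL.cons S227_256_512_660_19 (SL.cons S227_256_512_660_20 (SL.cons S227_256_512_660_21 (SL.cons S227_256_512_660_22 (SL.cons S227_256_512_660_23 (SL.cons S227_256_512_660_24 (SL.cons S227_256_512_660_25 (SL.cons S227_256_512_660_26 (SL.cons S227_256_512_660_27 (SL.cons S227_256_512_660_28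 (SL.cons S227_256_512_660_29 (SL.cons S227_256_512_660_30 (SL.cons S227_256_512_660_31 (SL.cons S227_256_512_660_32 (SL.cons S227_256_512_660_33 (SL.cons S227_256_512_660_34 (SL.cons S227_256_512_660_35 (SL.cons S227_256_512_660_36 (SL.cons S227_256_512_660_37 (SL.cons S227_256_512_660_38 (SL.cons S227_256_512_660_39 (SL.cons S227_256_512_660_40 (SL.cons S227_256_512_660_41 (SL.cons S227_256_512_660_42 (SL.cons S227_256_512_660_43 (SL.cons S227_256_512_660_44 (SL.cons S227_256_512_660_45 (SL.cons S227_256_512_660_46 (SL.cons S227_256_512_660_47 (SL.cons S227_256_512_660_48 SL.nil)))))))))))))))))))))))))))))))))))))))))))))))))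
theorem S227_256_364_438_ok : band (seq (shp 5 227 256 364 438) S227_256_364_438) (sok S227_256_364_438) = true := by decide +kernel

theorem S227_256_364_512_ok : band (seq (shp 5 227 256 364 512) S227_256_364_512) (sok S227_256_364_512) = true := by decide +kernel

theorem S227_256_401_438_ok : band (seq (shp 5 227 256 401 438) S227_256_401_438) (sok S227_256_401_438) = true := by decide +kernel

theorem S227_256_438_512_ok : band (seq (shp 5 227 256 438 512) S227_256_438_512) (sok S227_256_438_512) = true := by decide +kernel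

theorem S227_256_512_586_ok : band (seq (shp 5 227 256 512 586) S227_256_512_586) (sok S227_256_512_586) = true := by decide +kernel

theorem S227_256_512_660_ok : band (seq (shp 5 227 256 512 660) S227_256_512_660) (sok S227_256_512_660) = true := by decide +kernel

end Vale.Agent.P098.Ck
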