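import Vale.Agent.P098.CkDefs

namespace Vale.Agent.P098.Ck

noncomputable def S227_256_586_660_0 : EL := (EL.cons 0 (TM.mk (P.cons (P.lf 8359606057 0 0) (P.cons (P.lf 190686074 0 0) (P.cons (P.lf 0 92290364 0) (P.cons (P.lf 0 3016066 0) (P.cons (P.lf 708651 0 0) (P.cons (P.lf 26673 0 0) P.nil)))))) 4788)
 (EL.cons 1 (TM.mk (P.cons (P.lf 0 450679505 0) (P.cons (P.lf 439849933 0 0) (P.cons (P.lf 16100088 0 0) (P.cons (P.lf 0 5127871 0) (P.cons (P.lf 0 176304 0) (P.cons (P.lf 32482 0 0) P.nil)))))) 1651)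
 (EL.cons 5 (TM.mk (P.cons (P.lf 4329140030 0 0) (P.cons (P.lf 0 67799490 0) (P.cons (P.lf 32814348 0 0) (P.cons (P.lf 1072376 0 0) (P.cons (P.lf 0 251962 0) (P.cons (P.lf 0 9484 0) P.nil)))))) 1837)
 (EL.cons 9 (TM.mk (P.lf 6442450944 0 0) 2)
 EL.nil))))
noncomputable def S227_256_586_660_1 : EL := (EL.cons 0 (TM.mk (P.cons (P.cons (P.lf 0 1302075221 0) (P.cons (P.lf 0 733680897 0) (P.cons (P.lf 40144068 0 0) (P.lf 4460455 0 0)))) (P.cons (P.cons (P.lf 0 1308839599 0) (P.cons (P.lf 0 104640706 0) (P.cons (P.lf 5725514 0 0) (P.lf 636163 0 0)))) (P.cons (P.cons (P.lf 0 104154997 0) (P.cons (P.lf 47025430 0 0) (P.cons (P.lf 0 2573034 0) (P.lf 0 285887 0)))) (P.cons (P.cons (P.lf 90485648 0 0) (P.cons (P.lf 5133681 0 0) (P.cons (P.lf 0 280879 0) P.nil))) (P.cons (P.cons (P.lf 6109248 0 0) (P.cons (P.lf 0 1085498 0) P.nil)) (P.cons (P.cons (P.lf 0 1935729 0) P.nil)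 P.nil)))))) 447625)
 (EL.cons 1 (TM.mk (P.cons (P.cons (P.lf 1350046422 0 0) (P.cons (P.lf 101423545 0 0) (P.cons (P.lf 0 5549486 0) (P.lf 0 616603 0)))) (P.cons (P.cons (P.lf 68758488 0 0) (P.cons (P.lf 0 92102236 0) (P.cons (P.lf 5039460 0 0) (P.lf 559938 0 0)))) (P.cons (P.cons (P.lf 0 202175840 0) (P.cons (P.lf 0 13602577 0) (P.cons (P.lf 744270 0 0) (P.lf 82691 0 0)))) (P.cons (P.cons (P.lf 0 16601761 0) (P.cons (P.lf 3911953 0 0) (P.cons (P.lf 0 214041 0) P.nil))) (P.cons (P.cons (P.lf 7519931 0 0) (P.cons (P.lf 449256 0 0) P.nil)) (P.cons (P.cons (P.lf 548238 0 0) P.nil) P.nil)))))) 339187)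
 (EL.cons 5 (TM.mk (P.cons (P.cons (P.lf 0 1147844704 0) (P.cons (P.lf 0 402838898 0) (P.cons (P.lf 22041728 0 0) (P.lf 2449078 0 0)))) (P.cons (P.cons (P.lf 0 195342606 0) (P.cons (P.lf 5266072 0 0) (P.cons (P.lf 0 288130 0) (P.lf 0 32012 0)))) (P.cons (P.cons (P.lf 22916542 0 0) (P.cons (P.lf 0 1517884 0) (P.cons (P.lf 83048 0 0) (P.lf 9222 0 0)))) (P.cons (P.cons (P.lf 0 9698790 0) (P.cons (P.lf 0 1070780 0) (P.cons (P.lf 58586 0 0) P.nil))) (P.cons (P.cons (P.lf 0 1566650 0) (P.cons (P.lf 213348 0 0) P.nil)) (P.cons (P.cons (P.lf 447255 0 0) P.nil) P.nil)))))) 227475)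
 (EL.cons 9 (TM.mk (P.cons (P.cons (P.lf 0 1421298334 0) (P.cons (P.lf 0 585620484 0) (P.cons (P.lf 32042796 0 0) (P.lf 3560310 0 0)))) (P.cons (P.cons (P.lf 0 582977452 0) (P.cons (P.lf 0 28181916 0) (P.cons (P.lf 1542000 0 0) (P.lf 171330 0 0)))) (P.cons (P.cons (P.lf 0 12455598 0) (P.cons (P.lf 13413762 0 0) (P.cons (P.lf 0 733944 0) (P.lf 0 81546 0)))) (P.cons (P.cons (P.lf 19829886 0 0) (P.cons (P.lf 665754 0 0) (P.cons (P.lf 0 36420 0) P.nil))) (P.cons (P.cons (P.lf 534282 0 0) (P.cons (P.lf 0 152298 0) P.nil)) (P.cons (P.cons (P.lf 0 212644 0) P.nil) P.nil)))))) 43361)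
 (EL.cons 2 (TM.mk (P.cons (P.cons (P.lf 281261123 0 0) (P.cons (P.lf 0 35291511 0) (P.cons (P.lf 0 5388100 0) (P.cons (P.lf 164604 0 0) (P.lf 13716 0 0))))) (P.cons (P.cons (P.lf 0 269990853 0) (P.cons (P.lf 33877364 0 0) (P.cons (P.lf 5172195 0 0) (P.cons (P.lf 0 158009 0) (P.lf 0 13165 0))))) (P.cons (P.cons (P.lf 0 16670913 0) (P.cons (P.lf 2091796 0 0) (P.cons (P.lf 319362 0 0) (P.cons (P.lf 0 9753 0) P.nil)))) (P.cons (P.cons (P.lf 5169763 0 0) (P.cons (P.lf 0 648680 0) (P.cons (P.lf 0 99036 0) P.nil))) (P.cons (P.cons (P.lf 284138 0 0) (P.cons (P.lf 0 35651 0) P.nil)) (P.cons (P.cons (P.lf 0 50647 0) P.nil) P.nil)))))) 22647)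
 (EL.cons 6 (TM.mk (P.cons (P.cons (P.lf 1318880040 0 0) (P.cons (P.lf 0 165487752 0) (P.cons (P.lf 0 25265697 0) (P.cons (P.lf 771861 0 0) (P.lf 64320 0 0))))) (P.cons (P.cons (P.lf 63468696 0 0) (P.cons (P.lf 0 7963794 0) (P.cons (P.lf 0 1215864 0) (P.cons (P.lf 37143 0 0) (P.lf 3093 0 0))))) (P.cons (P.cons (P.lf 0 30209229 0) (P.cons (P.lf 3790530 0 0) (P.cons (P.lf 578715 0 0) (P.cons (P.lf 0 17679 0) P.nil)))) (P.cons (P.cons (P.lf 0 1499352 0) (P.cons (P.lf 188130 0 0) (P.cons (P.lf 28722 0 0) P.nil))) (P.cons (P.cons (P.lf 342993 0 0) (P.cons (P.lf 0 43035 0) P.nil)) (P.cons (P.cons (P.lf 18606 0 0) P.nil) P.nil)))))) 16824)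
 EL.nil))))))
noncomputable def S227_256_586_660_2 : EL := (EL.cons 0 (TM.mk (P.cons (P.cons (P.lf 167644954 0 0) (P.cons (P.lf 225153576 0 0) (P.cons (P.lf 51989830 0 0) (P.cons (P.lf 0 8406333 0) (P.cons (P.lf 0 589422 0) (P.cons (P.lf 42793 0 0) P.nil)))))) (P.cons (P.cons (P.lf 470094327 0 0) (P.cons (P.lf 266983452 0 0) (P.cons (P.lf 2610553 0 0) (P.cons (P.lf 0 3507423 0) (P.cons (P.lf 0 157810 0) P.nil))))) (P.cons (P.cons (P.lf 209159781 0 0) (P.cons (P.lf 24309862 0 0) (P.cons (P.lf 0 8403790 0) (P.cons (P.lf 626283 0 0) P.nil)))) (P.cons (P.cons (P.lf 0 13493821 0) (P.cons (P.lf 0 26303905 0) (P.cons (P.lf 0 16684 0) P.nil))) (P.cons (P.cons (P.lf 0 20898073 0) (P.cons (P.lf 0 3223432 0) P.nil)) (P.cons (P.cons (P.lf 0 1253398 0) P.nil) P.nil)))))) 3772152)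
 (EL.cons 1 (TM.mk (P.cons (P.cons (P.lf 0 573744814 0) (P.cons (P.lf 0 272114382 0) (P.cons (P.lf 174049 0 0) (P.cons (P.lf 3264610 0 0) (P.cons (P.lf 134865 0 0) (P.cons (P.lf 0 9784 0) P.nil)))))) (P.cons (P.cons (P.lf 0 278083306 0) (P.cons (P.lf 0 11386462 0) (P.cons (P.lf 13203914 0 0) (P.cons (P.lf 0 1307527 0) (P.cons (P.lf 0 115303 0) P.nil))))) (P.cons (P.cons (P.lf 57271085 0 0) (P.cons (P.lf 55424733 0 0) (P.cons (P.lf 23673 0 0) (P.cons (P.lf 0 671398 0) P.nil)))) (P.cons (P.cons (P.lf 47135460 0 0) (P.cons (P.lf 6444615 0 0) (P.cons (P.lf 0 1136400 0) P.nil))) (P.cons (P.cons (P.lf 1360879 0 0) (P.cons (P.lf 0 3021247 0) P.nil)) (P.cons (P.cons (P.lf 0 2539002 0) P.nil) P.nil)))))) 1600826)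
 (EL.cons 5 (TM.mk (P.cons (P.cons (P.lf 295759858 0 0) (P.cons (P.lf 212790552 0 0) (P.cons (P.lf 25822220 0 0) (P.cons (P.lf 0 5393562 0) (P.cons (P.lf 0 343368 0) (P.cons (P.lf 24915 0 0) P.nil)))))) (P.cons (P.cons (P.lf 124378845 0 0) (P.cons (P.lf 39282217 0 0) (P.cons (P.lf 0 2464982 0) (P.cons (P.lf 0 204287 0) (P.cons (P.lf 2882 0 0) P.nil))))) (P.cons (P.cons (P.lf 0 8351919 0) (P.cons (P.lf 0 7004417 0) (P.cons (P.lf 274257 0 0) (P.cons (P.lf 54524 0 0) P.nil)))) (P.cons (P.cons (P.lf 0 2563561 0) (P.cons (P.lf 2306012 0 0) (P.cons (P.lf 121314 0 0) P.nil))) (P.cons (P.cons (P.lf 3123208 0 0) (P.cons (P.lf 720219 0 0) P.nil)) (P.cons (P.cons (P.lf 355497 0 0) P.nil) P.nil)))))) 1818435)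
 (EL.cons 9 (TM.mk (P.cons (P.cons (P.lf 313559074 0 0) (P.cons (P.lf 258392784 0 0) (P.cons (P.lf 39094842 0 0) (P.cons (P.lf 0 7396308 0) (P.cons (P.lf 0 487894 0) (P.cons (P.lf 35415 0 0) P.nil)))))) (P.cons (P.cons (P.lf 257226601 0 0) (P.cons (P.lf 118420287 0 0) (P.cons (P.lf 0 1355992 0) (P.cons (P.lf 0 1280613 0) (P.cons (P.lf 0 46957 0) P.nil))))) (P.cons (P.cons (P.lf 58249407 0 0) (P.cons (P.lf 1446255 0 0) (P.cons (P.lf 0 2394483 0) (P.cons (P.lf 244578 0 0) P.nil)))) (P.cons (P.cons (P.lf 0 6495307 0) (P.cons (P.lf 0 6217483 0) (P.cons (P.lf 101802 0 0) P.nil))) (P.cons (P.cons (P.lf 0 3800472 0) (P.cons (P.lf 0 375777 0) P.nil)) (P.cons (P.cons (P.lf 0 79545 0) P.nil) P.nil)))))) 530107)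
 (EL.cons 2 (TM.mk (P.cons (P.cons (P.lf 0 124100583 0) (P.cons (P.lf 0 35561773 0) (P.cons (P.lf 11591212 0 0) (P.cons (P.lf 866739 0 0) (P.cons (P.lf 0 128576 0) (P.cons (P.lf 0 6806 0) P.nil)))))) (P.cons (P.cons (P.lf 68225169 0 0) (P.cons (P.lf 38063154 0 0) (P.cons (P.lf 0 9708210 0) (P.cons (P.lf 0 816592 0) (P.cons (P.lf 115048 0 0) P.nil))))) (P.cons (P.cons (P.lf 55131080 0 0) (P.cons (P.lf 0 353520 0) (P.cons (P.lf 0 2238935 0) (P.cons (P.lf 0 88318 0) P.nil)))) (P.cons (P.cons (P.lf 3511473 0 0) (P.cons (P.lf 0 2300776 0) (P.cons (P.lf 267918 0 0) P.nil))) (P.cons (P.cons (P.lf 0 2611946 0) (P.cons (P.lf 92328 0 0) P.nil)) (P.cons (P.cons (P.lf 0 215038 0) P.nil) P.nil)))))) 406535)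
 (EL.cons 6 (TM.mk (P.cons (P.cons (P.lf 0 581928216 0) (P.cons (P.lf 0 166755072 0) (P.cons (P.lf 54353136 0 0) (P.cons (P.lf 4064286 0 0) (P.cons (P.lf 0 602934 0) (P.cons (P.lf 0 31938 0) P.nil)))))) (P.cons (P.cons (P.lf 0 266695164 0) (P.cons (P.lf 10386546 0 0) (P.cons (P.lf 9267396 0 0) (P.cons (P.lf 267864 0 0) (P.cons (P.lf 0 68298 0) P.nil))))) (P.cons (P.cons (P.lf 0 3257118 0) (P.cons (P.lf 10837518 0 0) (P.cons (P.lf 0 1816788 0) (P.cons (P.lf 0 193488 0) P.nil)))) (P.cons (P.cons (P.lf 14002440 0 0) (P.cons (P.lf 0 683208 0) (P.cons (P.lf 0 461718 0) P.nil))) (P.cons (P.cons (P.lf 846288 0 0) (P.cons (P.lf 0 330456 0) P.nil)) (P.cons (P.cons (P.lf 0 326988 0) P.nil) P.nil)))))) 276048)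
 EL.nil))))))
noncomputable def S227_256_586_660_3 : EL := (EL.cons 0 (TM.mk (P.cons (P.lf 96110806 0 0) (P.cons (P.lf 0 190686074 0) (P.cons (P.lf 92290364 0 0) (P.cons (P.lf 3016066 0 0) (P.cons (P.lf 0 708651 0) (P.cons (P.lf 0 26673 0) P.nil)))))) 4788)
 (EL.cons 1 (TM.mk (P.cons (P.lf 450679505 0 0) (P.cons (P.lf 0 439849933 0) (P.cons (P.lf 0 16100088 0) (P.cons (P.lf 5127871 0 0) (P.cons (P.lf 176304 0 0) (P.cons (P.lf 0 32482 0) P.nil)))))) 1651)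
 (EL.cons 5 (TM.mk (P.cons (P.lf 2113310914 0 0) (P.cons (P.lf 67799490 0 0) (P.cons (P.lf 0 32814348 0) (P.cons (P.lf 0 1072376 0) (P.cons (P.lf 251962 0 0) (P.cons (P.lf 9484 0 0) P.nil)))))) 1830)
 EL.nil)))
noncomputable def S227_256_586_660_4 : EL := (EL.cons 0 (TM.mk (P.cons (P.cons (P.lf 0 21203441 0) (P.cons (P.lf 0 8736496 0) (P.cons (P.lf 478024 0 0) (P.lf 53112 0 0)))) (P.cons (P.cons (P.lf 33371050 0 0) (P.cons (P.lf 16912984 0 0) (P.cons (P.lf 0 925409 0) (P.lf 0 102823 0)))) (P.cons (P.cons (P.lf 0 3291227 0) (P.cons (P.lf 0 7354966 0) (P.cons (P.lf 402433 0 0) (P.lf 44713 0 0)))) (P.cons (P.cons (P.lf 0 8352247 0) (P.cons (P.lf 0 1064968 0) (P.cons (P.lf 58269 0 0) P.nil))) (P.cons (P.cons (P.lf 0 873977 0) (P.cons (P.lf 221401 0 0) P.nil)) (P.cons (P.cons (P.lf 329262 0 0) P.nil) P.nil)))))) 92973)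
 (EL.cons 1 (TM.mk (P.cons (P.cons (P.lf 0 99426450 0) (P.cons (P.lf 0 40966884 0) (P.cons (P.lf 2241541 0 0) (P.lf 249058 0 0)))) (P.cons (P.cons (P.lf 56255295 0 0) (P.cons (P.lf 38011016 0 0) (P.cons (P.lf 0 2079808 0) (P.lf 0 231090 0)))) (P.cons (P.cons (P.lf 42482610 0 0) (P.cons (P.lf 4325940 0 0) (P.cons (P.lf 0 236696 0) (P.lf 0 26298 0)))) (P.cons (P.cons (P.lf 2563196 0 0) (P.cons (P.lf 0 1264929 0) (P.cons (P.lf 69211 0 0) P.nil))) (P.cons (P.cons (P.lf 0 1788271 0) (P.cons (P.lf 0 128085 0) P.nil)) (P.cons (P.cons (P.lf 0 119608 0) P.nil) P.nil)))))) 89370)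
 (EL.cons 5 (TM.mk (P.cons (P.cons (P.lf 0 466227108 0) (P.cons (P.lf 0 192100516 0) (P.cons (P.lf 10510966 0 0) (P.lf 1167884 0 0)))) (P.cons (P.cons (P.lf 0 206191078 0) (P.cons (P.lf 0 15407476 0) (P.cons (P.lf 843034 0 0) (P.lf 93668 0 0)))) (P.cons (P.cons (P.lf 0 2981650 0) (P.cons (P.lf 7086352 0 0) (P.cons (P.lf 0 387734 0) (P.lf 0 43080 0)))) (P.cons (P.cons (P.lf 9579648 0 0) (P.cons (P.lf 600572 0 0) (P.cons (P.lf 0 32858 0) P.nil))) (P.cons (P.cons (P.lf 488840 0 0) (P.cons (P.lf 0 129486 0) P.nil)) (P.cons (P.cons (P.lf 0 187952 0) P.nil) P.nil)))))) 46792)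
 EL.nil)))
noncomputable def S227_256_586_660_5 : EL := (EL.cons 0 (TM.mk (P.cons (P.cons (P.lf 4677786 0 0) (P.cons (P.lf 3854796 0 0) (P.cons (P.lf 583229 0 0) (P.cons (P.lf 0 110339 0) (P.cons (P.lf 0 7277 0) (P.cons (P.lf 527 0 0) P.nil)))))) (P.cons (P.cons (P.lf 0 5443439 0) (P.cons (P.lf 0 5881368 0) (P.cons (P.lf 0 1177372 0) (P.cons (P.lf 199812 0 0) (P.cons (P.lf 13739 0 0) P.nil))))) (P.cons (P.cons (P.lf 0 2252659 0) (P.cons (P.lf 218093 0 0) (P.cons (P.lf 564459 0 0) (P.cons (P.lf 0 64400 0) P.nil)))) (P.cons (P.cons (P.lf 2010666 0 0) (P.cons (P.lf 1681816 0 0) (P.cons (P.lf 71268 0 0) P.nil))) (P.cons (P.cons (P.lf 1055926 0 0) (P.cons (P.lf 226154 0 0) P.nil)) (P.cons (P.cons (P.lf 15929 0 0) P.nil) P.nil)))))) 319592)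
 (EL.cons 1 (TM.mk (P.cons (P.cons (P.lf 21934920 0 0) (P.cons (P.lf 18075780 0 0) (P.cons (P.lf 2734865 0 0) (P.cons (P.lf 0 517404 0) (P.cons (P.lf 0 34128 0) (P.cons (P.lf 2475 0 0) P.nil)))))) (P.cons (P.cons (P.lf 0 3413634 0) (P.cons (P.lf 0 9357376 0) (P.cons (P.lf 0 2764005 0) (P.cons (P.lf 415387 0 0) (P.cons (P.lf 30024 0 0) P.nil))))) (P.cons (P.cons (P.lf 0 14270595 0) (P.cons (P.lf 0 8629556 0) (P.cons (P.lf 0 172625 0) (P.cons (P.lf 123024 0 0) P.nil)))) (P.cons (P.cons (P.lf 0 4824526 0) (P.cons (P.lf 0 623953 0) (P.cons (P.lf 205106 0 0) P.nil))) (P.cons (P.cons (P.lf 245347 0 0) (P.cons (P.lf 495915 0 0) P.nil)) (P.cons (P.cons (P.lf 321960 0 0) P.nil) P.nil)))))) 202507)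
 (EL.cons 5 (TM.mk (P.cons (P.cons (P.lf 102856476 0 0) (P.cons (P.lf 84760332 0 0) (P.cons (P.lf 12824242 0 0) (P.cons (P.lf 0 2426202 0) (P.cons (P.lf 0 160042 0) (P.cons (P.lf 11616 0 0) P.nil)))))) (P.cons (P.cons (P.lf 87677644 0 0) (P.cons (P.lf 41564582 0 0) (P.cons (P.lf 0 33374 0) (P.cons (P.lf 0 497914 0) (P.cons (P.lf 0 20536 0) P.nil))))) (P.cons (P.cons (P.lf 20217414 0 0) (P.cons (P.lf 404540 0 0) (P.cons (P.lf 0 998856 0) (P.cons (P.lf 104422 0 0) P.nil)))) (P.cons (P.cons (P.lf 0 2880006 0) (P.cons (P.lf 0 2670472 0) (P.cons (P.lf 8592 0 0) P.nil))) (P.cons (P.cons (P.lf 0 1642264 0) (P.cons (P.lf 0 205668 0) P.nil)) (P.cons (P.cons (P.lf 0 32178 0) P.nil) P.nil)))))) 285392)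
 EL.nil)))
noncomputable def S227_256_586_660_6 : EL := (EL.cons 12 (TM.mk (P.lf 8589934592 0 0) 0)
 (EL.cons 3 (TM.mk (P.cons (P.lf 0 454308690 0) (P.cons (P.lf 450679503 0 0) (P.cons (P.lf 5414782 0 0) (P.cons (P.lf 0 1756837 0) (P.cons (P.lf 0 35658 0) (P.cons (P.lf 6731 0 0) P.nil)))))) 269)
 (EL.cons 7 (TM.mk (P.cons (P.lf 0 2130328762 0) (P.cons (P.lf 0 34172730 0) (P.cons (P.lf 16813380 0 0) (P.cons (P.lf 270802 0 0) (P.cons (P.lf 0 64991 0) (P.cons (P.lf 0 1601 0) P.nil)))))) 330)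
 EL.nil)))
noncomputable def S227_256_586_660_7 : EL := (EL.cons 12 (TM.mk (P.cons (P.cons (P.lf 0 1895064446 0) (P.cons (P.lf 0 780827312 0) (P.cons (P.lf 42723728 0 0) (P.lf 4747080 0 0)))) (P.cons (P.cons (P.lf 0 777303270 0) (P.cons (P.lf 0 37575888 0) (P.cons (P.lf 2056000 0 0) (P.lf 228440 0 0)))) (P.cons (P.cons (P.lf 0 16607464 0) (P.cons (P.lf 17885016 0 0) (P.cons (P.lf 0 978592 0) (P.lf 0 108728 0)))) (P.cons (P.cons (P.lf 26439848 0 0) (P.cons (P.lf 887672 0 0) (P.cons (P.lf 0 48560 0) P.nil))) (P.cons (P.cons (P.lf 712376 0 0) (P.cons (P.lf 0 203064 0) P.nil)) (P.cons (P.cons (P.lf 0 283526 0) P.nil) P.nil)))))) 57790)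
 (EL.cons 3 (TM.mk (P.cons (P.cons (P.lf 0 2462596012 0) (P.cons (P.lf 0 82593556 0) (P.cons (P.lf 4519186 0 0) (P.lf 502130 0 0)))) (P.cons (P.cons (P.lf 0 188465612 0) (P.cons (P.lf 77959106 0 0) (P.cons (P.lf 0 4265608 0) (P.lf 0 473956 0)))) (P.cons (P.cons (P.lf 229861034 0 0) (P.cons (P.lf 6819146 0 0) (P.cons (P.lf 0 373114 0) (P.lf 0 41456 0)))) (P.cons (P.cons (P.lf 9569884 0 0) (P.cons (P.lf 0 2054834 0) (P.cons (P.lf 112432 0 0) P.nil))) (P.cons (P.cons (P.lf 0 4145618 0) (P.cons (P.lf 0 159024 0) P.nil)) (P.cons (P.cons (P.lf 0 191025 0) P.nil) P.nil)))))) 229300)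
 (EL.cons 7 (TM.mk (P.cons (P.cons (P.lf 664307319 0 0) (P.cons (P.lf 203041419 0 0) (P.cons (P.lf 0 11109613 0) (P.lf 0 1234403 0)))) (P.cons (P.cons (P.lf 14290395 0 0) (P.cons (P.lf 0 5911241 0) (P.cons (P.lf 323438 0 0) (P.lf 35936 0 0)))) (P.cons (P.cons (P.lf 0 24631923 0) (P.cons (P.lf 2462360 0 0) (P.cons (P.lf 0 134729 0) (P.lf 0 14969 0)))) (P.cons (P.cons (P.lf 11045233 0 0) (P.cons (P.lf 479361 0 0) (P.cons (P.lf 0 26225 0) P.nil))) (P.cons (P.cons (P.lf 742266 0 0) (P.cons (P.lf 0 102735 0) P.nil)) (P.cons (P.cons (P.lf 0 215083 0) P.nil) P.nil)))))) 121963)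
 (EL.cons 10 (TM.mk (P.cons (P.cons (P.lf 0 2659001160 0) (P.cons (P.lf 333640752 0 0) (P.cons (P.lf 50938311 0 0) (P.cons (P.lf 0 1556157 0) (P.lf 0 129678 0))))) (P.cons (P.cons (P.lf 0 85306386 0) (P.cons (P.lf 10703901 0 0) (P.cons (P.lf 1634208 0 0) (P.cons (P.lf 0 49923 0) (P.lf 0 4158 0))))) (P.cons (P.cons (P.lf 41287530 0 0) (P.cons (P.lf 0 5180592 0) (P.cons (P.lf 0 790941 0) (P.cons (P.lf 24162 0 0) P.nil)))) (P.cons (P.cons (P.lf 1349280 0 0) (P.cons (P.lf 0 169302 0) (P.cons (P.lf 0 25848 0) P.nil))) (P.cons (P.cons (P.lf 0 317022 0) (P.cons (P.lf 39777 0 0) P.nil)) (P.cons (P.cons (P.lf 0 11931 0) P.nil) P.nil)))))) 13623)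
 EL.nil))))
noncomputable def S227_256_586_660_8 : EL := (EL.cons 12 (TM.mk (P.cons (P.cons (P.lf 418078766 0 0) (P.cons (P.lf 344523712 0 0) (P.cons (P.lf 52126456 0 0) (P.cons (P.lf 0 9861744 0) (P.cons (P.lf 0 650526 0) (P.cons (P.lf 47220 0 0) P.nil)))))) (P.cons (P.cons (P.lf 342968802 0 0) (P.cons (P.lf 157893716 0 0) (P.cons (P.lf 0 1807990 0) (P.cons (P.lf 0 1707484 0) (P.cons (P.lf 0 62610 0) P.nil))))) (P.cons (P.cons (P.lf 77665876 0 0) (P.cons (P.lf 1928340 0 0) (P.cons (P.lf 0 3192644 0) (P.cons (P.lf 326104 0 0) P.nil)))) (P.cons (P.cons (P.lf 0 8660410 0) (P.cons (P.lf 0 8289978 0) (P.cons (P.lf 135736 0 0) P.nil))) (P.cons (P.cons (P.lf 0 5067296 0) (P.cons (P.lf 0 501036 0) P.nil)) (P.cons (P.cons (P.lf 0 106060 0) P.nil) P.nil)))))) 706780)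
 (EL.cons 3 (TM.mk (P.cons (P.cons (P.lf 1108680515 0 0) (P.cons (P.lf 502365265 0 0) (P.cons (P.lf 0 8717961 0) (P.cons (P.lf 0 5108126 0) (P.cons (P.lf 0 172025 0) (P.cons (P.lf 12486 0 0) P.nil)))))) (P.cons (P.cons (P.lf 525041364 0 0) (P.cons (P.lf 26632887 0 0) (P.cons (P.lf 0 18270253 0) (P.cons (P.lf 1677965 0 0) (P.cons (P.lf 154096 0 0) P.nil))))) (P.cons (P.cons (P.lf 0 71940787 0) (P.cons (P.lf 0 75592415 0) (P.cons (P.lf 1303968 0 0) (P.cons (P.lf 769486 0 0) P.nil)))) (P.cons (P.cons (P.lf 0 64917318 0) (P.cons (P.lf 0 6750645 0) (P.cons (P.lf 1146206 0 0) P.nil))) (P.cons (P.cons (P.lf 0 2150945 0) (P.cons (P.lf 3027458 0 0) P.nil)) (P.cons (P.cons (P.lf 2626578 0 0) P.nil) P.nil)))))) 1723415)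
 (EL.cons 7 (TM.mk (P.cons (P.cons (P.lf 0 189426951 0) (P.cons (P.lf 0 124916312 0) (P.cons (P.lf 0 12475514 0) (P.cons (P.lf 2872611 0 0) (P.cons (P.lf 176980 0 0) (P.cons (P.lf 0 12844 0) P.nil)))))) (P.cons (P.cons (P.lf 0 39811219 0) (P.cons (P.lf 0 2019441 0) (P.cons (P.lf 1385335 0 0) (P.cons (P.lf 0 127227 0) (P.cons (P.lf 0 11681 0) P.nil))))) (P.cons (P.cons (P.lf 25520797 0 0) (P.cons (P.lf 6749635 0 0) (P.cons (P.lf 0 797120 0) (P.cons (P.lf 5778 0 0) P.nil)))) (P.cons (P.cons (P.lf 1095313 0 0) (P.cons (P.lf 0 3348267 0) (P.cons (P.lf 0 14859 0) P.nil))) (P.cons (P.cons (P.lf 0 3483900 0) (P.cons (P.lf 0 579645 0) P.nil)) (P.cons (P.cons (P.lf 0 304548 0) P.nil) P.nil)))))) 1079926)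
 (EL.cons 10 (TM.mk (P.cons (P.cons (P.lf 1173228618 0 0) (P.cons (P.lf 336195804 0 0) (P.cons (P.lf 0 109581654 0) (P.cons (P.lf 0 8194032 0) (P.cons (P.lf 1215588 0 0) (P.cons (P.lf 64392 0 0) P.nil)))))) (P.cons (P.cons (P.lf 518865738 0 0) (P.cons (P.lf 0 26333316 0) (P.cons (P.lf 0 16926252 0) (P.cons (P.lf 0 408612 0) (P.cons (P.lf 118206 0 0) P.nil))))) (P.cons (P.cons (P.lf 7503120 0 0) (P.cons (P.lf 0 18773784 0) (P.cons (P.lf 3069498 0 0) (P.cons (P.lf 331980 0 0) P.nil)))) (P.cons (P.cons (P.lf 0 24106530 0) (P.cons (P.lf 1513482 0 0) (P.cons (P.lf 734124 0 0) P.nil))) (P.cons (P.cons (P.lf 0 1230132 0) (P.cons (P.lf 480192 0 0) P.nil)) (P.cons (P.cons (P.lf 472968 0 0) P.nil) P.nil)))))) 417072)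
 EL.nil))))
noncomputable def S227_256_586_660_9 : EL := (EL.cons 3 (TM.mk (P.cons (P.lf 0 454308690 0) (P.cons (P.lf 450679503 0 0) (P.cons (P.lf 5414782 0 0) (P.cons (P.lf 0 1756837 0) (P.cons (P.lf 0 35658 0) (P.cons (P.lf 6731 0 0) P.nil)))))) 269)
 (EL.cons 7 (TM.mk (P.cons (P.lf 0 2130328762 0) (P.cons (P.lf 0 34172730 0) (P.cons (P.lf 16813380 0 0) (P.cons (P.lf 270802 0 0) (P.cons (P.lf 0 64991 0) (P.cons (P.lf 0 1601 0) P.nil)))))) 330)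
 EL.nil))
noncomputable def S227_256_586_660_10 : EL := (EL.cons 3 (TM.mk (P.cons (P.cons (P.lf 100227101 0 0) (P.cons (P.lf 41296778 0 0) (P.cons (P.lf 0 2259593 0) (P.lf 0 251065 0)))) (P.cons (P.cons (P.lf 0 58316051 0) (P.cons (P.lf 0 38979553 0) (P.cons (P.lf 2132804 0 0) (P.lf 236978 0 0)))) (P.cons (P.cons (P.lf 0 41098228 0) (P.cons (P.lf 0 3409573 0) (P.cons (P.lf 186557 0 0) (P.lf 20728 0 0)))) (P.cons (P.cons (P.lf 0 2372090 0) (P.cons (P.lf 1027417 0 0) (P.cons (P.lf 0 56216 0) P.nil))) (P.cons (P.cons (P.lf 1505890 0 0) (P.cons (P.lf 79512 0 0) P.nil)) (P.cons (P.cons (P.lf 74175 0 0) P.nil) P.nil)))))) 55371)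
 (EL.cons 7 (TM.mk (P.cons (P.cons (P.lf 469981494 0 0) (P.cons (P.lf 193647444 0 0) (P.cons (P.lf 0 10595608 0) (P.lf 0 1177289 0)))) (P.cons (P.cons (P.lf 200312472 0 0) (P.cons (P.lf 12425239 0 0) (P.cons (P.lf 0 679858 0) (P.lf 0 75538 0)))) (P.cons (P.cons (P.lf 3501714 0 0) (P.cons (P.lf 0 5814391 0) (P.cons (P.lf 318139 0 0) (P.lf 35347 0 0)))) (P.cons (P.cons (P.lf 0 8072276 0) (P.cons (P.lf 0 389460 0) (P.cons (P.lf 21307 0 0) P.nil))) (P.cons (P.cons (P.lf 0 324528 0) (P.cons (P.lf 86559 0 0) P.nil)) (P.cons (P.cons (P.lf 124943 0 0) P.nil) P.nil)))))) 27336)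
 EL.nil))
noncomputable def S227_256_586_660_11 : EL := (EL.cons 3 (TM.mk (P.cons (P.cons (P.lf 0 22111555 0) (P.cons (P.lf 0 18221339 0) (P.cons (P.lf 0 2756889 0) (P.cons (P.lf 521572 0 0) (P.cons (P.lf 34405 0 0) (P.cons (P.lf 0 2496 0) P.nil)))))) (P.cons (P.cons (P.lf 3795816 0 0) (P.cons (P.lf 9725019 0 0) (P.cons (P.lf 2830487 0 0) (P.cons (P.lf 0 427099 0) (P.cons (P.lf 0 30818 0) P.nil))))) (P.cons (P.cons (P.lf 14150111 0 0) (P.cons (P.lf 8399239 0 0) (P.cons (P.lf 106854 0 0) (P.cons (P.lf 0 113048 0) P.nil)))) (P.cons (P.cons (P.lf 4663542 0 0) (P.cons (P.lf 568683 0 0) (P.cons (P.lf 0 186484 0) P.nil))) (P.cons (P.cons (P.lf 0 209297 0) (P.cons (P.lf 0 440950 0) P.nil)) (P.cons (P.cons (P.lf 0 282690 0) P.nil) P.nil)))))) 160477)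
 (EL.cons 7 (TM.mk (P.cons (P.cons (P.lf 0 103684749 0) (P.cons (P.lf 0 85442882 0) (P.cons (P.lf 0 12927512 0) (P.cons (P.lf 2445741 0 0) (P.cons (P.lf 161332 0 0) (P.cons (P.lf 0 11710 0) P.nil)))))) (P.cons (P.cons (P.lf 0 86720473 0) (P.cons (P.lf 0 40528695 0) (P.cons (P.lf 241015 0 0) (P.cons (P.lf 462693 0 0) (P.cons (P.lf 18115 0 0) P.nil))))) (P.cons (P.cons (P.lf 0 19807451 0) (P.cons (P.lf 0 432023 0) (P.cons (P.lf 901006 0 0) (P.cons (P.lf 0 93384 0) P.nil)))) (P.cons (P.cons (P.lf 2523319 0 0) (P.cons (P.lf 2368179 0 0) (P.cons (P.lf 0 22857 0) P.nil))) (P.cons (P.cons (P.lf 1450824 0 0) (P.cons (P.lf 163383 0 0) P.nil)) (P.cons (P.cons (P.lf 29286 0 0) P.nil) P.nil)))))) 227610)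
 EL.nil))
noncomputable def S227_256_586_660_12 : EL := (EL.cons 4 (TM.mk (P.cons (P.lf 454308690 0 0) (P.cons (P.lf 0 450679503 0) (P.cons (P.lf 0 5414782 0) (P.cons (P.lf 1756837 0 0) (P.cons (P.lf 35658 0 0) (P.cons (P.lf 0 6731 0) P.nil)))))) 269)
 (EL.cons 8 (TM.mk (P.cons (P.lf 2130328762 0 0) (P.cons (P.lf 34172730 0 0) (P.cons (P.lf 0 16813380 0) (P.cons (P.lf 0 270802 0) (P.cons (P.lf 64991 0 0) (P.cons (P.lf 1601 0 0) P.nil)))))) 330)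
 EL.nil))
noncomputable def S227_256_586_660_13 : EL := (EL.cons 4 (TM.mk (P.cons (P.cons (P.lf 0 100227101 0) (P.cons (P.lf 0 41296778 0) (P.cons (P.lf 2259593 0 0) (P.lf 251065 0 0)))) (P.cons (P.cons (P.lf 58316051 0 0) (P.cons (P.lf 38979553 0 0) (P.cons (P.lf 0 2132804 0) (P.lf 0 236978 0)))) (P.cons (P.cons (P.lf 41098228 0 0) (P.cons (P.lf 3409573 0 0) (P.cons (P.lf 0 186557 0) (P.lf 0 20728 0)))) (P.cons (P.cons (P.lf 2372090 0 0) (P.cons (P.lf 0 1027417 0) (P.cons (P.lf 56216 0 0) P.nil))) (P.cons (P.cons (P.lf 0 1505890 0) (P.cons (P.lf 0 79512 0) P.nil)) (P.cons (P.cons (P.lf 0 74175 0) P.nil) P.nil)))))) 55371)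
 (EL.cons 8 (TM.mk (P.cons (P.cons (P.lf 0 469981494 0) (P.cons (P.lf 0 193647444 0) (P.cons (P.lf 10595608 0 0) (P.lf 1177289 0 0)))) (P.cons (P.cons (P.lf 0 200312472 0) (P.cons (P.lf 0 12425239 0) (P.cons (P.lf 679858 0 0) (P.lf 75538 0 0)))) (P.cons (P.cons (P.lf 0 3501714 0) (P.cons (P.lf 5814391 0 0) (P.cons (P.lf 0 318139 0) (P.lf 0 35347 0)))) (P.cons (P.cons (P.lf 8072276 0 0) (P.cons (P.lf 389460 0 0) (P.cons (P.lf 0 21307 0) P.nil))) (P.cons (P.cons (P.lf 324528 0 0) (P.cons (P.lf 0 86559 0) P.nil)) (P.cons (P.cons (P.lf 0 124943 0) P.nil) P.nil)))))) 27336)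
 EL.nil))
noncomputable def S227_256_586_660_14 : EL := (EL.cons 4 (TM.mk (P.cons (P.cons (P.lf 22111555 0 0) (P.cons (P.lf 18221339 0 0) (P.cons (P.lf 2756889 0 0) (P.cons (P.lf 0 521572 0) (P.cons (P.lf 0 34405 0) (P.cons (P.lf 2496 0 0) P.nil)))))) (P.cons (P.cons (P.lf 0 3795816 0) (P.cons (P.lf 0 9725019 0) (P.cons (P.lf 0 2830487 0) (P.cons (P.lf 427099 0 0) (P.cons (P.lf 30818 0 0) P.nil))))) (P.cons (P.cons (P.lf 0 14150111 0) (P.cons (P.lf 0 8399239 0) (P.cons (P.lf 0 106854 0) (P.cons (P.lf 113048 0 0) P.nil)))) (P.cons (P.cons (P.lf 0 4663542 0) (P.cons (P.lf 0 568683 0) (P.cons (P.lf 186484 0 0) P.nil))) (P.cons (P.cons (P.lf 209297 0 0) (P.cons (P.lf 440950 0 0) P.nil)) (P.cons (P.cons (P.lf 282690 0 0) P.nil) P.nil)))))) 160477)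
 (EL.cons 8 (TM.mk (P.cons (P.cons (P.lf 103684749 0 0) (P.cons (P.lf 85442882 0 0) (P.cons (P.lf 12927512 0 0) (P.cons (P.lf 0 2445741 0) (P.cons (P.lf 0 161332 0) (P.cons (P.lf 11710 0 0) P.nil)))))) (P.cons (P.cons (P.lf 86720473 0 0) (P.cons (P.lf 40528695 0 0) (P.cons (P.lf 0 241015 0) (P.cons (P.lf 0 462693 0) (P.cons (P.lf 0 18115 0) P.nil))))) (P.cons (P.cons (P.lf 19807451 0 0) (P.cons (P.lf 432023 0 0) (P.cons (P.lf 0 901006 0) (P.cons (P.lf 93384 0 0) P.nil)))) (P.cons (P.cons (P.lf 0 2523319 0) (P.cons (P.lf 0 2368179 0) (P.cons (P.lf 22857 0 0) P.nil))) (P.cons (P.cons (P.lf 0 1450824 0) (P.cons (P.lf 0 163383 0) P.nil)) (P.cons (P.cons (P.lf 0 29286 0) P.nil) P.nil)))))) 227610)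
 EL.nil))
noncomputable def S227_256_586_660_15 : EL := (EL.cons 4 (TM.mk (P.cons (P.lf 0 51259096 0) (P.cons (P.lf 101699239 0 0) (P.cons (P.lf 0 49221527 0) (P.cons (P.lf 0 1608569 0) (P.cons (P.lf 377947 0 0) (P.cons (P.lf 14225 0 0) P.nil)))))) 2557)
 (EL.cons 8 (TM.mk (P.cons (P.lf 0 240362403 0) (P.cons (P.lf 234586631 0 0) (P.cons (P.lf 8586714 0 0) (P.cons (P.lf 0 2734865 0) (P.cons (P.lf 0 94029 0) (P.cons (P.lf 17324 0 0) P.nil)))))) 877)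
 EL.nil))
noncomputable def S227_256_586_660_16 : EL := (EL.cons 4 (TM.mk (P.cons (P.cons (P.lf 11308501 0 0) (P.cons (P.lf 4659465 0 0) (P.cons (P.lf 0 254946 0) (P.lf 0 28326 0)))) (P.cons (P.cons (P.lf 0 17797893 0) (P.cons (P.lf 0 9020258 0) (P.cons (P.lf 493551 0 0) (P.lf 54839 0 0)))) (P.cons (P.cons (P.lf 1755321 0 0) (P.cons (P.lf 3922649 0 0) (P.cons (P.lf 0 214631 0) (P.lf 0 23847 0)))) (P.cons (P.cons (P.lf 4454532 0 0) (P.cons (P.lf 567983 0 0) (P.cons (P.lf 0 31077 0) P.nil))) (P.cons (P.cons (P.lf 466121 0 0) (P.cons (P.lf 0 118080 0) P.nil)) (P.cons (P.cons (P.lf 0 175606 0) P.nil) P.nil)))))) 49594)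
 (EL.cons 8 (TM.mk (P.cons (P.cons (P.lf 53027440 0 0) (P.cons (P.lf 21849005 0 0) (P.cons (P.lf 0 1195489 0) (P.lf 0 132831 0)))) (P.cons (P.cons (P.lf 0 30002824 0) (P.cons (P.lf 0 20272542 0) (P.cons (P.lf 1109231 0 0) (P.lf 123248 0 0)))) (P.cons (P.cons (P.lf 0 22657392 0) (P.cons (P.lf 0 2307168 0) (P.cons (P.lf 126238 0 0) (P.lf 14026 0 0)))) (P.cons (P.cons (P.lf 0 1367038 0) (P.cons (P.lf 674629 0 0) (P.cons (P.lf 0 36913 0) P.nil))) (P.cons (P.cons (P.lf 953745 0 0) (P.cons (P.lf 68312 0 0) P.nil)) (P.cons (P.cons (P.lf 63791 0 0) P.nil) P.nil)))))) 47654)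
 EL.nil))
noncomputable def S227_256_586_660_17 : EL := (EL.cons 4 (TM.mk (P.cons (P.cons (P.lf 0 2494819 0) (P.cons (P.lf 0 2055891 0) (P.cons (P.lf 0 311055 0) (P.cons (P.lf 58847 0 0) (P.cons (P.lf 3881 0 0) (P.cons (P.lf 0 281 0) P.nil)))))) (P.cons (P.cons (P.lf 2903167 0 0) (P.cons (P.lf 3136729 0 0) (P.cons (P.lf 627931 0 0) (P.cons (P.lf 0 106566 0) (P.cons (P.lf 0 7327 0) P.nil))))) (P.cons (P.cons (P.lf 1201418 0 0) (P.cons (P.lf 0 116316 0) (P.cons (P.lf 0 301045 0) (P.cons (P.lf 34347 0 0) P.nil)))) (P.cons (P.cons (P.lf 0 1072355 0) (P.cons (P.lf 0 896969 0) (P.cons (P.lf 0 38010 0) P.nil))) (P.cons (P.cons (P.lf 0 563160 0) (P.cons (P.lf 0 120615 0) P.nil)) (P.cons (P.cons (P.lf 0 8495 0) P.nil) P.nil)))))) 170459)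
 (EL.cons 8 (TM.mk (P.cons (P.cons (P.lf 0 11698624 0) (P.cons (P.lf 0 9640416 0) (P.cons (P.lf 0 1458595 0) (P.cons (P.lf 275949 0 0) (P.cons (P.lf 18202 0 0) (P.cons (P.lf 0 1320 0) P.nil)))))) (P.cons (P.cons (P.lf 1820605 0 0) (P.cons (P.lf 4990601 0 0) (P.cons (P.lf 1474136 0 0) (P.cons (P.lf 0 221540 0) (P.cons (P.lf 0 16013 0) P.nil))))) (P.cons (P.cons (P.lf 7610984 0 0) (P.cons (P.lf 4602430 0 0) (P.cons (P.lf 92067 0 0) (P.cons (P.lf 0 65613 0) P.nil)))) (P.cons (P.cons (P.lf 2573081 0 0) (P.cons (P.lf 332775 0 0) (P.cons (P.lf 0 109390 0) P.nil))) (P.cons (P.cons (P.lf 0 130852 0) (P.cons (P.lf 0 264488 0) P.nil)) (P.cons (P.cons (P.lf 0 171712 0) P.nil) P.nil)))))) 107992)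
 EL.nil))
noncomputable def S227_256_586_660_18 : EL := (EL.cons 4 (TM.mk (P.cons (P.lf 5783501 0 0) (P.cons (P.lf 0 17211901 0) (P.cons (P.lf 16867610 0 0) (P.cons (P.lf 0 5168619 0) (P.cons (P.lf 0 332796 0) (P.cons (P.lf 59024 0 0) P.nil)))))) 4306)
 (EL.cons 8 (TM.mk (P.cons (P.lf 27119797 0 0) (P.cons (P.lf 0 53371278 0) (P.cons (P.lf 24964624 0 0) (P.cons (P.lf 1690000 0 0) (P.cons (P.lf 0 384174 0) (P.cons (P.lf 0 22382 0) P.nil)))))) 4185)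
 EL.nil))
noncomputable def S227_256_586_660_19 : EL := (EL.cons 4 (TM.mk (P.cons (P.cons (P.lf 0 1275924 0) (P.cons (P.lf 0 525720 0) (P.cons (P.lf 28765 0 0) (P.lf 3195 0 0)))) (P.cons (P.cons (P.lf 3273846 0 0) (P.cons (P.lf 1539266 0 0) (P.cons (P.lf 0 84222 0) (P.lf 0 9357 0)))) (P.cons (P.cons (P.lf 0 2174915 0) (P.cons (P.lf 0 1445936 0) (P.cons (P.lf 79115 0 0) (P.lf 8790 0 0)))) (P.cons (P.cons (P.lf 0 334998 0) (P.cons (P.lf 360803 0 0) (P.cons (P.lf 0 19740 0) P.nil))) (P.cons (P.cons (P.lf 456017 0 0) (P.cons (P.lf 86065 0 0) P.nil)) (P.cons (P.cons (P.lf 77385 0 0) P.nil) P.nil)))))) 60669)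
 (EL.cons 8 (TM.mk (P.cons (P.cons (P.lf 0 5983021 0) (P.cons (P.lf 0 2465196 0) (P.cons (P.lf 134885 0 0) (P.lf 14986 0 0)))) (P.cons (P.cons (P.lf 9320408 0 0) (P.cons (P.lf 4732829 0 0) (P.cons (P.lf 0 258961 0) (P.lf 0 28773 0)))) (P.cons (P.cons (P.lf 0 730423 0) (P.cons (P.lf 0 1979356 0) (P.cons (P.lf 108302 0 0) (P.lf 12033 0 0)))) (P.cons (P.cons (P.lf 0 2445226 0) (P.cons (P.lf 0 371147 0) (P.cons (P.lf 20307 0 0) P.nil))) (P.cons (P.cons (P.lf 0 278467 0) (P.cons (P.lf 73350 0 0) P.nil)) (P.cons (P.cons (P.lf 107954 0 0) P.nil) P.nil)))))) 37817)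
 EL.nil))
noncomputable def S227_256_586_660_20 : EL := (EL.cons 4 (TM.mk (P.cons (P.cons (P.lf 281487 0 0) (P.cons (P.lf 231962 0 0) (P.cons (P.lf 35095 0 0) (P.cons (P.lf 0 6639 0) (P.cons (P.lf 0 437 0) (P.cons (P.lf 30 0 0) P.nil)))))) (P.cons (P.cons (P.lf 0 606799 0) (P.cons (P.lf 0 584024 0) (P.cons (P.lf 0 105663 0) (P.cons (P.lf 18610 0 0) (P.cons (P.lf 1260 0 0) P.nil))))) (P.cons (P.cons (P.lf 186033 0 0) (P.cons (P.lf 361444 0 0) (P.cons (P.lf 103830 0 0) (P.cons (P.lf 0 15723 0) P.nil)))) (P.cons (P.cons (P.lf 260456 0 0) (P.cons (P.lf 93300 0 0) (P.cons (P.lf 0 28425 0) P.nil))) (P.cons (P.cons (P.lf 0 56114 0) (P.cons (P.lf 0 88292 0) P.nil)) (P.cons (P.cons (P.lf 0 64070 0) P.nil) P.nil)))))) 91561)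
 (EL.cons 8 (TM.mk (P.cons (P.cons (P.lf 1319941 0 0) (P.cons (P.lf 1087716 0 0) (P.cons (P.lf 164571 0 0) (P.cons (P.lf 0 31134 0) (P.cons (P.lf 0 2053 0) (P.cons (P.lf 148 0 0) P.nil)))))) (P.cons (P.cons (P.lf 0 1514813 0) (P.cons (P.lf 0 1642110 0) (P.cons (P.lf 0 329581 0) (P.cons (P.lf 55882 0 0) (P.cons (P.lf 3843 0 0) P.nil))))) (P.cons (P.cons (P.lf 0 670694 0) (P.cons (P.lf 26334 0 0) (P.cons (P.lf 152646 0 0) (P.cons (P.lf 0 17022 0) P.nil)))) (P.cons (P.cons (P.lf 569112 0 0) (P.cons (P.lf 488508 0 0) (P.cons (P.lf 25266 0 0) P.nil))) (P.cons (P.cons (P.lf 312306 0 0) (P.cons (P.lf 71185 0 0) P.nil)) (P.cons (P.cons (P.lf 4831 0 0) P.nil) P.nil)))))) 103242)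
 EL.nil))
noncomputable def S227_256_586_660_21 : EL := (EL.cons 4 (TM.mk (P.cons (P.cons (P.lf 2562823113 0 0) (P.cons (P.lf 123890334 0 0) (P.cons (P.lf 0 6778779 0) (P.lf 0 753195 0)))) (P.cons (P.cons (P.lf 130149561 0 0) (P.cons (P.lf 0 116938659 0) (P.cons (P.lf 6398412 0 0) (P.lf 710934 0 0)))) (P.cons (P.cons (P.lf 0 270959262 0) (P.cons (P.lf 0 10228719 0) (P.cons (P.lf 559671 0 0) (P.lf 62184 0 0)))) (P.cons (P.cons (P.lf 0 11941974 0) (P.cons (P.lf 3082251 0 0) (P.cons (P.lf 0 168648 0) P.nil))) (P.cons (P.cons (P.lf 5651508 0 0) (P.cons (P.lf 238536 0 0) P.nil)) (P.cons (P.cons (P.lf 265200 0 0) P.nil) P.nil)))))) 173910)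
 (EL.cons 8 (TM.mk (P.cons (P.cons (P.lf 0 194325825 0) (P.cons (P.lf 0 9393975 0) (P.cons (P.lf 514005 0 0) (P.lf 57114 0 0)))) (P.cons (P.cons (P.lf 186022077 0 0) (P.cons (P.lf 18336480 0 0) (P.cons (P.lf 0 1003296 0) (P.lf 0 111474 0)))) (P.cons (P.cons (P.lf 28133637 0 0) (P.cons (P.lf 0 8276751 0) (P.cons (P.lf 452868 0 0) (P.lf 50316 0 0)))) (P.cons (P.cons (P.lf 0 19117509 0) (P.cons (P.lf 0 868821 0) (P.cons (P.lf 47532 0 0) P.nil))) (P.cons (P.cons (P.lf 0 1066794 0) (P.cons (P.lf 189294 0 0) P.nil)) (P.cons (P.cons (P.lf 340026 0 0) P.nil) P.nil)))))) 94608)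
 (EL.cons 11 (TM.mk (P.cons (P.cons (P.lf 2659001160 0 0) (P.cons (P.lf 0 333640752 0) (P.cons (P.lf 0 50938311 0) (P.cons (P.lf 1556157 0 0) (P.lf 129678 0 0))))) (P.cons (P.cons (P.lf 85306386 0 0) (P.cons (P.lf 0 10703901 0) (P.cons (P.lf 0 1634208 0) (P.cons (P.lf 49923 0 0) (P.lf 4158 0 0))))) (P.cons (P.cons (P.lf 0 41287530 0) (P.cons (P.lf 5180592 0 0) (P.cons (P.lf 790941 0 0) (P.cons (P.lf 0 24162 0) P.nil)))) (P.cons (P.cons (P.lf 0 1349280 0) (P.cons (P.lf 169302 0 0) (P.cons (P.lf 25848 0 0) P.nil))) (P.cons (P.cons (P.lf 317022 0 0) (P.cons (P.lf 0 39777 0) P.nil)) (P.cons (P.cons (P.lf 11931 0 0) P.nil) P.nil)))))) 13623)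
 EL.nil)))
noncomputable def S227_256_586_660_22 : EL := (EL.cons 4 (TM.mk (P.cons (P.cons (P.lf 0 565396035 0) (P.cons (P.lf 0 260293302 0) (P.cons (P.lf 2980536 0 0) (P.cons (P.lf 2814849 0 0) (P.cons (P.lf 103215 0 0) (P.cons (P.lf 0 7491 0) P.nil)))))) (P.cons (P.cons (P.lf 0 260622774 0) (P.cons (P.lf 0 8453934 0) (P.cons (P.lf 10550370 0 0) (P.cons (P.lf 0 1052532 0) (P.cons (P.lf 0 92457 0) P.nil))))) (P.cons (P.cons (P.lf 43045449 0 0) (P.cons (P.lf 41995827 0 0) (P.cons (P.lf 0 598557 0) (P.cons (P.lf 0 441267 0) P.nil)))) (P.cons (P.cons (P.lf 34790430 0 0) (P.cons (P.lf 3659664 0 0) (P.cons (P.lf 0 666345 0) P.nil))) (P.cons (P.cons (P.lf 970824 0 0) (P.cons (P.lf 0 1734204 0) P.nil)) (P.cons (P.cons (P.lf 0 1454634 0) P.nil) P.nil)))))) 781458)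
 (EL.cons 8 (TM.mk (P.cons (P.cons (P.lf 42871101 0 0) (P.cons (P.lf 19736715 0 0) (P.cons (P.lf 0 225999 0) (P.cons (P.lf 0 213435 0) (P.cons (P.lf 0 7824 0) (P.cons (P.lf 567 0 0) P.nil)))))) (P.cons (P.cons (P.lf 0 23454627 0) (P.cons (P.lf 0 19254627 0) (P.cons (P.lf 0 572160 0) (P.cons (P.lf 294960 0 0) (P.cons (P.lf 14898 0 0) P.nil))))) (P.cons (P.cons (P.lf 0 22664124 0) (P.cons (P.lf 0 3590829 0) (P.cons (P.lf 849063 0 0) (P.cons (P.lf 0 49581 0) P.nil)))) (P.cons (P.cons (P.lf 714003 0 0) (P.cons (P.lf 2858223 0 0) (P.cons (P.lf 0 3999 0) P.nil))) (P.cons (P.cons (P.lf 2467362 0 0) (P.cons (P.lf 371514 0 0) P.nil)) (P.cons (P.cons (P.lf 166917 0 0) P.nil) P.nil)))))) 426147)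
 (EL.cons 11 (TM.mk (P.cons (P.cons (P.lf 0 586614309 0) (P.cons (P.lf 0 168097902 0) (P.cons (P.lf 54790827 0 0) (P.cons (P.lf 4097016 0 0) (P.cons (P.lf 0 607794 0) (P.cons (P.lf 0 32196 0) P.nil)))))) (P.cons (P.cons (P.lf 0 259432869 0) (P.cons (P.lf 13166658 0 0) (P.cons (P.lf 8463126 0 0) (P.cons (P.lf 204306 0 0) (P.cons (P.lf 0 59103 0) P.nil))))) (P.cons (P.cons (P.lf 0 3751560 0) (P.cons (P.lf 9386892 0 0) (P.cons (P.lf 0 1534749 0) (P.cons (P.lf 0 165990 0) P.nil)))) (P.cons (P.cons (P.lf 12053265 0 0) (P.cons (P.lf 0 756741 0) (P.cons (P.lf 0 367062 0) P.nil))) (P.cons (P.cons (P.lf 615066 0 0) (P.cons (P.lf 0 240096 0) P.nil)) (P.cons (P.cons (P.lf 0 236484 0) P.nil) P.nil)))))) 208536)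
 EL.nil)))
noncomputable def S227_256_586_660_23 : EL := (EL.cons 4 (TM.mk (P.cons (P.cons (P.lf 0 289160214 0) (P.cons (P.lf 0 13978395 0) (P.cons (P.lf 764841 0 0) (P.lf 84981 0 0)))) (P.cons (P.cons (P.lf 272165676 0 0) (P.cons (P.lf 27060777 0 0) (P.cons (P.lf 0 1480656 0) (P.lf 0 164517 0)))) (P.cons (P.cons (P.lf 48585735 0 0) (P.cons (P.lf 0 11767947 0) (P.cons (P.lf 643893 0 0) (P.lf 71544 0 0)))) (P.cons (P.cons (P.lf 0 29923560 0) (P.cons (P.lf 0 1703952 0) (P.cons (P.lf 93231 0 0) P.nil))) (P.cons (P.cons (P.lf 0 2418147 0) (P.cons (P.lf 354243 0 0) P.nil)) (P.cons (P.cons (P.lf 707931 0 0) P.nil) P.nil)))))) 158808)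
 (EL.cons 8 (TM.mk (P.cons (P.cons (P.lf 21925545 0 0) (P.cons (P.lf 1059909 0 0) (P.cons (P.lf 0 57993 0) (P.lf 0 6444 0)))) (P.cons (P.cons (P.lf 0 42739041 0) (P.cons (P.lf 0 3120324 0) (P.cons (P.lf 170730 0 0) (P.lf 18969 0 0)))) (P.cons (P.cons (P.lf 17385369 0 0) (P.cons (P.lf 2973576 0 0) (P.cons (P.lf 0 162699 0) (P.lf 0 18075 0)))) (P.cons (P.cons (P.lf 5640876 0 0) (P.cons (P.lf 0 799608 0) (P.cons (P.lf 43749 0 0) P.nil))) (P.cons (P.cons (P.lf 0 2061018 0) (P.cons (P.lf 0 137649 0) P.nil)) (P.cons (P.cons (P.lf 0 197724 0) P.nil) P.nil)))))) 110856)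
 (EL.cons 11 (TM.mk (P.cons (P.cons (P.lf 0 300011865 0) (P.cons (P.lf 37644279 0 0) (P.cons (P.lf 5747307 0 0) (P.cons (P.lf 0 175578 0) (P.lf 0 14631 0))))) (P.cons (P.cons (P.lf 287990244 0 0) (P.cons (P.lf 0 36135855 0) (P.cons (P.lf 0 5517009 0) (P.cons (P.lf 168543 0 0) (P.lf 14043 0 0))))) (P.cons (P.cons (P.lf 17782308 0 0) (P.cons (P.lf 0 2231250 0) (P.cons (P.lf 0 340653 0) (P.cons (P.lf 10404 0 0) P.nil)))) (P.cons (P.cons (P.lf 0 5514414 0) (P.cons (P.lf 691926 0 0) (P.cons (P.lf 105639 0 0) P.nil))) (P.cons (P.cons (P.lf 0 303081 0) (P.cons (P.lf 38028 0 0) P.nil)) (P.cons (P.cons (P.lf 54024 0 0) P.nil) P.nil)))))) 24135)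
 EL.nil)))
noncomputable def S227_256_586_660_24 : EL := (EL.cons 4 (TM.mk (P.cons (P.cons (P.lf 63792945 0 0) (P.cons (P.lf 29368575 0 0) (P.cons (P.lf 0 336288 0) (P.cons (P.lf 0 317595 0) (P.cons (P.lf 0 11643 0) (P.cons (P.lf 843 0 0) P.nil)))))) (P.cons (P.cons (P.lf 0 33877593 0) (P.cons (P.lf 0 28180122 0) (P.cons (P.lf 0 856779 0) (P.cons (P.lf 433815 0 0) (P.cons (P.lf 21984 0 0) P.nil))))) (P.cons (P.cons (P.lf 0 34787940 0) (P.cons (P.lf 0 6034599 0) (P.cons (P.lf 1252419 0 0) (P.cons (P.lf 0 64233 0) P.nil)))) (P.cons (P.cons (P.lf 788817 0 0) (P.cons (P.lf 4389771 0 0) (P.cons (P.lf 21075 0 0) P.nil))) (P.cons (P.cons (P.lf 3961074 0 0) (P.cons (P.lf 667752 0 0) P.nil)) (P.cons (P.cons (P.lf 302151 0 0) P.nil) P.nil)))))) 735153)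
 (EL.cons 8 (TM.mk (P.cons (P.cons (P.lf 0 4837092 0) (P.cons (P.lf 0 2226867 0) (P.cons (P.lf 25497 0 0) (P.cons (P.lf 24081 0 0) (P.cons (P.lf 882 0 0) (P.cons (P.lf 0 63 0) P.nil)))))) (P.cons (P.cons (P.lf 7444809 0 0) (P.cons (P.lf 4381554 0 0) (P.cons (P.lf 39258 0 0) (P.cons (P.lf 0 57168 0) (P.cons (P.lf 0 2556 0) P.nil))))) (P.cons (P.cons (P.lf 0 10398 0) (P.cons (P.lf 0 1723431 0) (P.cons (P.lf 0 160143 0) (P.cons (P.lf 38319 0 0) P.nil)))) (P.cons (P.cons (P.lf 0 2667543 0) (P.cons (P.lf 0 758907 0) (P.cons (P.lf 94812 0 0) P.nil))) (P.cons (P.cons (P.lf 0 219096 0) (P.cons (P.lf 281391 0 0) P.nil)) (P.cons (P.cons (P.lf 268458 0 0) P.nil) P.nil)))))) 230295)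
 (EL.cons 11 (TM.mk (P.cons (P.cons (P.lf 66186978 0 0) (P.cons (P.lf 18966279 0 0) (P.cons (P.lf 0 6181980 0) (P.cons (P.lf 0 462261 0) (P.cons (P.lf 68574 0 0) (P.cons (P.lf 3630 0 0) P.nil)))))) (P.cons (P.cons (P.lf 0 36386757 0) (P.cons (P.lf 0 20300349 0) (P.cons (P.lf 5177712 0 0) (P.cons (P.lf 435516 0 0) (P.cons (P.lf 0 61359 0) P.nil))))) (P.cons (P.cons (P.lf 0 29403243 0) (P.cons (P.lf 188544 0 0) (P.cons (P.lf 1194099 0 0) (P.cons (P.lf 47103 0 0) P.nil)))) (P.cons (P.cons (P.lf 0 1872786 0) (P.cons (P.lf 1227081 0 0) (P.cons (P.lf 0 142890 0) P.nil))) (P.cons (P.cons (P.lf 1393038 0 0) (P.cons (P.lf 0 49242 0) P.nil)) (P.cons (P.cons (P.lf 114687 0 0) P.nil) P.nil)))))) 216807)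
 EL.nil)))
noncomputable def S227_256_586_660_25 : EL := (EL.cons 4 (TM.mk (P.cons (P.cons (P.lf 32625594 0 0) (P.cons (P.lf 1577163 0 0) (P.cons (P.lf 0 86295 0) (P.lf 0 9588 0)))) (P.cons (P.cons (P.lf 0 63073089 0) (P.cons (P.lf 0 4617801 0) (P.cons (P.lf 252666 0 0) (P.lf 28074 0 0)))) (P.cons (P.cons (P.lf 24592089 0 0) (P.cons (P.lf 4337808 0 0) (P.cons (P.lf 0 237345 0) (P.lf 0 26370 0)))) (P.cons (P.cons (P.lf 9306483 0 0) (P.cons (P.lf 0 1082412 0) (P.cons (P.lf 59223 0 0) P.nil))) (P.cons (P.cons (P.lf 0 3127281 0) (P.cons (P.lf 0 258195 0) P.nil)) (P.cons (P.cons (P.lf 0 414864 0) P.nil) P.nil)))))) 220008)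
 (EL.cons 8 (TM.mk (P.cons (P.cons (P.lf 0 2473830 0) (P.cons (P.lf 0 119586 0) (P.cons (P.lf 6543 0 0) (P.lf 726 0 0)))) (P.cons (P.cons (P.lf 7276263 0 0) (P.cons (P.lf 470694 0 0) (P.cons (P.lf 0 25752 0) (P.lf 0 2859 0)))) (P.cons (P.cons (P.lf 0 6715755 0) (P.cons (P.lf 0 683328 0) (P.cons (P.lf 37389 0 0) (P.lf 4152 0 0)))) (P.cons (P.cons (P.lf 1242405 0 0) (P.cons (P.lf 418383 0 0) (P.cons (P.lf 0 22890 0) P.nil))) (P.cons (P.cons (P.lf 905742 0 0) (P.cons (P.lf 0 68616 0) P.nil)) (P.cons (P.cons (P.lf 0 207960 0) P.nil) P.nil)))))) 80175)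
 (EL.cons 11 (TM.mk (P.cons (P.cons (P.lf 33849972 0 0) (P.cons (P.lf 0 4247358 0) (P.cons (P.lf 0 648459 0) (P.cons (P.lf 19809 0 0) (P.lf 1650 0 0))))) (P.cons (P.cons (P.lf 0 66073155 0) (P.cons (P.lf 8290593 0 0) (P.cons (P.lf 1265757 0 0) (P.cons (P.lf 0 38667 0) (P.lf 0 3222 0))))) (P.cons (P.cons (P.lf 29824212 0 0) (P.cons (P.lf 0 3742221 0) (P.cons (P.lf 0 571338 0) (P.cons (P.lf 17454 0 0) P.nil)))) (P.cons (P.cons (P.lf 3130695 0 0) (P.cons (P.lf 0 392826 0) (P.cons (P.lf 0 59973 0) P.nil))) (P.cons (P.cons (P.lf 0 682101 0) (P.cons (P.lf 85587 0 0) P.nil)) (P.cons (P.cons (P.lf 0 58242 0) P.nil) P.nil)))))) 41664)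
 EL.nil)))
noncomputable def S227_256_586_660_26 : EL := (EL.cons 4 (TM.mk (P.cons (P.cons (P.lf 0 7197678 0) (P.cons (P.lf 0 3313620 0) (P.cons (P.lf 37941 0 0) (P.cons (P.lf 35832 0 0) (P.cons (P.lf 1311 0 0) (P.cons (P.lf 0 93 0) P.nil)))))) (P.cons (P.cons (P.lf 10962549 0 0) (P.cons (P.lf 6466677 0 0) (P.cons (P.lf 59028 0 0) (P.cons (P.lf 0 84492 0) (P.cons (P.lf 0 3783 0) P.nil))))) (P.cons (P.cons (P.lf 219033 0 0) (P.cons (P.lf 0 2433756 0) (P.cons (P.lf 0 237657 0) (P.cons (P.lf 55374 0 0) P.nil)))) (P.cons (P.cons (P.lf 0 4056117 0) (P.cons (P.lf 0 1221438 0) (P.cons (P.lf 136794 0 0) P.nil))) (P.cons (P.cons (P.lf 0 391197 0) (P.cons (P.lf 419913 0 0) P.nil)) (P.cons (P.cons (P.lf 425907 0 0) P.nil) P.nil)))))) 364926)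
 (EL.cons 8 (TM.mk (P.cons (P.cons (P.lf 545763 0 0) (P.cons (P.lf 251253 0 0) (P.cons (P.lf 0 2877 0) (P.cons (P.lf 0 2715 0) (P.cons (P.lf 0 99 0) (P.cons (P.lf 6 0 0) P.nil)))))) (P.cons (P.cons (P.lf 0 1381392 0) (P.cons (P.lf 0 743613 0) (P.cons (P.lf 0 1575 0) (P.cons (P.lf 9144 0 0) (P.cons (P.lf 387 0 0) P.nil))))) (P.cons (P.cons (P.lf 827946 0 0) (P.cons (P.lf 681873 0 0) (P.cons (P.lf 22497 0 0) (P.cons (P.lf 0 10689 0) P.nil)))) (P.cons (P.cons (P.lf 311931 0 0) (P.cons (P.lf 0 100407 0) (P.cons (P.lf 0 28578 0) P.nil))) (P.cons (P.cons (P.lf 0 277068 0) (P.cons (P.lf 0 120900 0) P.nil)) (P.cons (P.cons (P.lf 0 58467 0) P.nil) P.nil)))))) 138153)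
 (EL.cons 11 (TM.mk (P.cons (P.cons (P.lf 0 7467795 0) (P.cons (P.lf 0 2139942 0) (P.cons (P.lf 697503 0 0) (P.cons (P.lf 52155 0 0) (P.cons (P.lf 0 7737 0) (P.cons (P.lf 0 408 0) P.nil)))))) (P.cons (P.cons (P.lf 11513613 0 0) (P.cons (P.lf 4413309 0 0) (P.cons (P.lf 0 1276128 0) (P.cons (P.lf 0 100878 0) (P.cons (P.lf 14598 0 0) P.nil))))) (P.cons (P.cons (P.lf 0 666138 0) (P.cons (P.lf 0 2267934 0) (P.cons (P.lf 436485 0 0) (P.cons (P.lf 42807 0 0) P.nil)))) (P.cons (P.cons (P.lf 0 3157533 0) (P.cons (P.lf 0 152919 0) (P.cons (P.lf 159432 0 0) P.nil))) (P.cons (P.cons (P.lf 0 391041 0) (P.cons (P.lf 151842 0 0) P.nil)) (P.cons (P.cons (P.lf 153720 0 0) P.nil) P.nil)))))) 152499)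
 EL.nil)))
noncomputable def S227_256_586_660_27 : EL := (EL.cons 13 (TM.mk (P.lf 0 4294967296 0) 0)
 EL.nil)
noncomputable def S227_256_586_660_28 : EL := (EL.cons 13 (TM.mk (P.cons (P.cons (P.lf 947532223 0 0) (P.cons (P.lf 390413656 0 0) (P.cons (P.lf 0 21361864 0) (P.lf 0 2373540 0)))) (P.cons (P.cons (P.lf 388651635 0 0) (P.cons (P.lf 18787944 0 0) (P.cons (P.lf 0 1028000 0) (P.lf 0 114220 0)))) (P.cons (P.cons (P.lf 8303732 0 0) (P.cons (P.lf 0 8942508 0) (P.cons (P.lf 489296 0 0) (P.lf 54364 0 0)))) (P.cons (P.cons (P.lf 0 13219924 0) (P.cons (P.lf 0 443836 0) (P.cons (P.lf 24280 0 0) P.nil))) (P.cons (P.cons (P.lf 0 356188 0) (P.cons (P.lf 101532 0 0) P.nil)) (P.cons (P.cons (P.lf 141763 0 0) P.nil) P.nil)))))) 28895)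
 EL.nil)
noncomputable def S227_256_586_660_29 : EL := (EL.cons 13 (TM.mk (P.cons (P.cons (P.lf 0 209039383 0) (P.cons (P.lf 0 172261856 0) (P.cons (P.lf 0 26063228 0) (P.cons (P.lf 4930872 0 0) (P.cons (P.lf 325263 0 0) (P.cons (P.lf 0 23610 0) P.nil)))))) (P.cons (P.cons (P.lf 0 171484401 0) (P.cons (P.lf 0 78946858 0) (P.cons (P.lf 903995 0 0) (P.cons (P.lf 853742 0 0) (P.cons (P.lf 31305 0 0) P.nil))))) (P.cons (P.cons (P.lf 0 38832938 0) (P.cons (P.lf 0 964170 0) (P.cons (P.lf 1596322 0 0) (P.cons (P.lf 0 163052 0) P.nil)))) (P.cons (P.cons (P.lf 4330205 0 0) (P.cons (P.lf 4144989 0 0) (P.cons (P.lf 0 67868 0) P.nil))) (P.cons (P.cons (P.lf 2533648 0 0) (P.cons (P.lf 250518 0 0) P.nil)) (P.cons (P.cons (P.lf 53030 0 0) P.nil) P.nil)))))) 353390)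
 EL.nil)
noncomputable def S227_256_586_660_30 : EL := (EL.cons 13 (TM.mk (P.cons (P.lf 484595936 0 0) (P.cons (P.lf 0 480724804 0) (P.cons (P.lf 0 5775768 0) (P.cons (P.lf 1873960 0 0) (P.cons (P.lf 38036 0 0) (P.cons (P.lf 0 7180 0) P.nil)))))) 280)
 EL.nil)
noncomputable def S227_256_586_660_31 : EL := (EL.cons 13 (TM.mk (P.cons (P.cons (P.lf 0 106908908 0) (P.cons (P.lf 0 44049897 0) (P.cons (P.lf 2410233 0 0) (P.lf 267803 0 0)))) (P.cons (P.cons (P.lf 62203788 0 0) (P.cons (P.lf 41578190 0 0) (P.cons (P.lf 0 2274991 0) (P.lf 0 252777 0)))) (P.cons (P.cons (P.lf 43838110 0 0) (P.cons (P.lf 3636878 0 0) (P.cons (P.lf 0 198995 0) (P.lf 0 22110 0)))) (P.cons (P.cons (P.lf 2530230 0 0) (P.cons (P.lf 0 1095912 0) (P.cons (P.lf 59964 0 0) P.nil))) (P.cons (P.cons (P.lf 0 1606283 0) (P.cons (P.lf 0 84813 0) P.nil)) (P.cons (P.cons (P.lf 0 79120 0) P.nil) P.nil))))))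 59043)
 EL.nil)
noncomputable def S227_256_586_660_32 : EL := (EL.cons 13 (TM.mk (P.cons (P.cons (P.lf 23585659 0 0) (P.cons (P.lf 19436095 0 0) (P.cons (P.lf 2940682 0 0) (P.cons (P.lf 0 556344 0) (P.cons (P.lf 0 36699 0) (P.cons (P.lf 2663 0 0) P.nil)))))) (P.cons (P.cons (P.lf 0 4048871 0) (P.cons (P.lf 0 10373354 0) (P.cons (P.lf 0 3019187 0) (P.cons (P.lf 455573 0 0) (P.cons (P.lf 32873 0 0) P.nil))))) (P.cons (P.cons (P.lf 0 15093452 0) (P.cons (P.lf 0 8959189 0) (P.cons (P.lf 0 113978 0) (P.cons (P.lf 120585 0 0) P.nil)))) (P.cons (P.cons (P.lf 0 4974445 0) (P.cons (P.lf 0 606596 0) (P.cons (P.lf 198917 0 0) P.nil))) (P.cons (P.cons (P.lf 223251 0 0) (P.cons (P.lf 470347 0 0) P.nil)) (P.cons (P.cons (P.lf 301537 0 0) P.nil) P.nil)))))) 171152)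
 EL.nil)
noncomputable def S227_256_586_660_33 : EL := (EL.cons 14 (TM.mk (P.lf 8589934592 0 0) 0)
 EL.nil)
noncomputable def S227_256_586_660_34 : EL := (EL.cons 14 (TM.mk (P.cons (P.cons (P.lf 0 1895064446 0) (P.cons (P.lf 0 780827312 0) (P.cons (P.lf 42723728 0 0) (P.lf 4747080 0 0)))) (P.cons (P.cons (P.lf 0 777303270 0) (P.cons (P.lf 0 37575888 0) (P.cons (P.lf 2056000 0 0) (P.lf 228440 0 0)))) (P.cons (P.cons (P.lf 0 16607464 0) (P.cons (P.lf 17885016 0 0) (P.cons (P.lf 0 978592 0) (P.lf 0 108728 0)))) (P.cons (P.cons (P.lf 26439848 0 0) (P.cons (P.lf 887672 0 0) (P.cons (P.lf 0 48560 0) P.nil))) (P.cons (P.cons (P.lf 712376 0 0) (P.cons (P.lf 0 203064 0) P.nil)) (P.cons (P.cons (P.lf 0 283526 0) P.nil) P.nil)))))) 57790)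
 EL.nil)
noncomputable def S227_256_586_660_35 : EL := (EL.cons 14 (TM.mk (P.cons (P.cons (P.lf 418078766 0 0) (P.cons (P.lf 344523712 0 0) (P.cons (P.lf 52126456 0 0) (P.cons (P.lf 0 9861744 0) (P.cons (P.lf 0 650526 0) (P.cons (P.lf 47220 0 0) P.nil)))))) (P.cons (P.cons (P.lf 342968802 0 0) (P.cons (P.lf 157893716 0 0) (P.cons (P.lf 0 1807990 0) (P.cons (P.lf 0 1707484 0) (P.cons (P.lf 0 62610 0) P.nil))))) (P.cons (P.cons (P.lf 77665876 0 0) (P.cons (P.lf 1928340 0 0) (P.cons (P.lf 0 3192644 0) (P.cons (P.lf 326104 0 0) P.nil)))) (P.cons (P.cons (P.lf 0 8660410 0) (P.cons (P.lf 0 8289978 0) (P.cons (P.lf 135736 0 0) P.nil))) (P.cons (P.cons (P.lf 0 5067296 0) (P.cons (P.lf 0 501036 0) P.nil)) (P.cons (P.cons (P.lf 0 106060 0) P.nil) P.nil)))))) 706780)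
 EL.nil)
noncomputable def S227_256_586_660_36 : EL := (EL.cons 14 (TM.mk (P.cons (P.lf 0 969191872 0) (P.cons (P.lf 961449608 0 0) (P.cons (P.lf 11551536 0 0) (P.cons (P.lf 0 3747920 0) (P.cons (P.lf 0 76072 0) (P.cons (P.lf 14360 0 0) P.nil)))))) 560)
 EL.nil)
noncomputable def S227_256_586_660_37 : EL := (EL.cons 14 (TM.mk (P.cons (P.cons (P.lf 213817816 0 0) (P.cons (P.lf 88099794 0 0) (P.cons (P.lf 0 4820466 0) (P.lf 0 535606 0)))) (P.cons (P.cons (P.lf 0 124407576 0) (P.cons (P.lf 0 83156380 0) (P.cons (P.lf 4549982 0 0) (P.lf 505554 0 0)))) (P.cons (P.cons (P.lf 0 87676220 0) (P.cons (P.lf 0 7273756 0) (P.cons (P.lf 397990 0 0) (P.lf 44220 0 0)))) (P.cons (P.cons (P.lf 0 5060460 0) (P.cons (P.lf 2191824 0 0) (P.cons (P.lf 0 119928 0) P.nil))) (P.cons (P.cons (P.lf 3212566 0 0) (P.cons (P.lf 169626 0 0) P.nil)) (P.cons (P.cons (P.lf 158240 0 0) P.nil) P.nil))))))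 118086)
 EL.nil)
noncomputable def S227_256_586_660_38 : EL := (EL.cons 14 (TM.mk (P.cons (P.cons (P.lf 0 47171318 0) (P.cons (P.lf 0 38872190 0) (P.cons (P.lf 0 5881364 0) (P.cons (P.lf 1112688 0 0) (P.cons (P.lf 73398 0 0) (P.cons (P.lf 0 5326 0) P.nil)))))) (P.cons (P.cons (P.lf 8097742 0 0) (P.cons (P.lf 20746708 0 0) (P.cons (P.lf 6038374 0 0) (P.cons (P.lf 0 911146 0) (P.cons (P.lf 0 65746 0) P.nil))))) (P.cons (P.cons (P.lf 30186904 0 0) (P.cons (P.lf 17918378 0 0) (P.cons (P.lf 227956 0 0) (P.cons (P.lf 0 241170 0) P.nil)))) (P.cons (P.cons (P.lf 9948890 0 0) (P.cons (P.lf 1213192 0 0) (P.cons (P.lf 0 397834 0) P.nil))) (P.cons (P.cons (P.lf 0 446502 0) (P.cons (P.lf 0 940694 0) P.nil)) (P.cons (P.cons (P.lf 0 603074 0) P.nil) P.nil)))))) 342304)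
 EL.nil)
noncomputable def S227_256_586_660_39 : EL := (EL.cons 14 (TM.mk (P.cons (P.lf 109352740 0 0) (P.cons (P.lf 0 216958378 0) (P.cons (P.lf 105005926 0 0) (P.cons (P.lf 3431614 0 0) (P.cons (P.lf 0 806288 0) (P.cons (P.lf 0 30348 0) P.nil)))))) 5440)
 EL.nil)
noncomputable def S227_256_586_660_40 : EL := (EL.cons 14 (TM.mk (P.cons (P.cons (P.lf 0 24124804 0) (P.cons (P.lf 0 9940192 0) (P.cons (P.lf 543886 0 0) (P.lf 60430 0 0)))) (P.cons (P.cons (P.lf 37968840 0 0) (P.cons (P.lf 19243218 0 0) (P.cons (P.lf 0 1052910 0) (P.lf 0 116990 0)))) (P.cons (P.cons (P.lf 0 3744686 0) (P.cons (P.lf 0 8368318 0) (P.cons (P.lf 457880 0 0) (P.lf 50874 0 0)))) (P.cons (P.cons (P.lf 0 9503002 0) (P.cons (P.lf 0 1211698 0) (P.cons (P.lf 66298 0 0) P.nil))) (P.cons (P.cons (P.lf 0 994392 0) (P.cons (P.lf 251906 0 0) P.nil)) (P.cons (P.cons (P.lf 374628 0 0) P.nil) P.nil))))))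 105762)
 EL.nil)
noncomputable def S227_256_586_660_41 : EL := (EL.cons 14 (TM.mk (P.cons (P.cons (P.lf 5322282 0 0) (P.cons (P.lf 4385902 0 0) (P.cons (P.lf 663586 0 0) (P.cons (P.lf 0 125542 0) (P.cons (P.lf 0 8280 0) (P.cons (P.lf 600 0 0) P.nil)))))) (P.cons (P.cons (P.lf 0 6193424 0) (P.cons (P.lf 0 6691690 0) (P.cons (P.lf 0 1339588 0) (P.cons (P.lf 227342 0 0) (P.cons (P.lf 15632 0 0) P.nil))))) (P.cons (P.cons (P.lf 0 2563026 0) (P.cons (P.lf 248142 0 0) (P.cons (P.lf 642230 0 0) (P.cons (P.lf 0 73274 0) P.nil)))) (P.cons (P.cons (P.lf 2287692 0 0) (P.cons (P.lf 1913534 0 0) (P.cons (P.lf 81088 0 0) P.nil))) (P.cons (P.cons (P.lf 1201410 0 0) (P.cons (P.lf 257314 0 0) P.nil)) (P.cons (P.cons (P.lf 18124 0 0) P.nil) P.nil)))))) 363600)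
 EL.nil)
noncomputable def S227_256_586_660_42 : EL := (EL.cons 14 (TM.mk (P.cons (P.lf 0 12338136 0) (P.cons (P.lf 36718724 0 0) (P.cons (P.lf 0 35984236 0) (P.cons (P.lf 11026388 0 0) (P.cons (P.lf 709966 0 0) (P.cons (P.lf 0 125918 0) P.nil)))))) 9172)
 EL.nil)
noncomputable def S227_256_586_660_43 : EL := (EL.cons 14 (TM.mk (P.cons (P.cons (P.lf 2721972 0 0) (P.cons (P.lf 1121538 0 0) (P.cons (P.lf 0 61366 0) (P.lf 0 6818 0)))) (P.cons (P.cons (P.lf 0 6984206 0) (P.cons (P.lf 0 3283768 0) (P.cons (P.lf 179674 0 0) (P.lf 19962 0 0)))) (P.cons (P.cons (P.lf 4639820 0 0) (P.cons (P.lf 3084664 0 0) (P.cons (P.lf 0 168780 0) (P.lf 0 18752 0)))) (P.cons (P.cons (P.lf 714664 0 0) (P.cons (P.lf 0 769714 0) (P.cons (P.lf 42114 0 0) P.nil))) (P.cons (P.cons (P.lf 0 972838 0) (P.cons (P.lf 0 183606 0) P.nil)) (P.cons (P.cons (P.lf 0 165090 0) P.nil) P.nil)))))) 129388)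
 EL.nil)
noncomputable def S227_256_586_660_44 : EL := (EL.cons 14 (TM.mk (P.cons (P.cons (P.lf 0 600506 0) (P.cons (P.lf 0 494854 0) (P.cons (P.lf 0 74870 0) (P.cons (P.lf 14164 0 0) (P.cons (P.lf 934 0 0) (P.cons (P.lf 0 66 0) P.nil)))))) (P.cons (P.cons (P.lf 1294506 0 0) (P.cons (P.lf 1245918 0 0) (P.cons (P.lf 225416 0 0) (P.cons (P.lf 0 39702 0) (P.cons (P.lf 0 2690 0) P.nil))))) (P.cons (P.cons (P.lf 0 396872 0) (P.cons (P.lf 0 771082 0) (P.cons (P.lf 0 221506 0) (P.cons (P.lf 33544 0 0) P.nil)))) (P.cons (P.cons (P.lf 0 555640 0) (P.cons (P.lf 0 199040 0) (P.cons (P.lf 60642 0 0) P.nil))) (P.cons (P.cons (P.lf 119710 0 0) (P.cons (P.lf 188358 0 0) P.nil)) (P.cons (P.cons (P.lf 136684 0 0) P.nil) P.nil)))))) 195284)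
 EL.nil)
noncomputable def S227_256_586_660_45 : EL := (EL.cons 14 (TM.mk (P.cons (P.cons (P.lf 0 92234252 0) (P.cons (P.lf 0 114010408 0) (P.cons (P.lf 0 40737752 0) (P.cons (P.lf 0 618064 0) (P.cons (P.lf 1489606 0 0) (P.cons (P.lf 28472 0 0) P.nil)))))) (P.cons (P.cons (P.lf 0 113495854 0) (P.cons (P.lf 0 99014404 0) (P.cons (P.lf 0 18371832 0) (P.cons (P.lf 2273840 0 0) (P.cons (P.lf 370932 0 0) P.nil))))) (P.cons (P.cons (P.lf 0 48977768 0) (P.cons (P.lf 0 23068970 0) (P.cons (P.lf 1039266 0 0) (P.cons (P.lf 563168 0 0) P.nil)))) (P.cons (P.cons (P.lf 0 4493608 0) (P.cons (P.lf 3614360 0 0) (P.cons (P.lf 1466454 0 0) P.nil))) (P.cons (P.cons (P.lf 2841774 0 0) (P.cons (P.lf 2057304 0 0) P.nil)) (P.cons (P.cons (P.lf 752380 0 0) P.nil) P.nil)))))) 1182886)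
 EL.nil)
noncomputable def S227_256_586_660_46 : EL := (EL.cons 15 (TM.mk (P.lf 4294967296 0 0) 0)
 EL.nil)
noncomputable def S227_256_586_660_47 : EL := (EL.cons 15 (TM.mk (P.cons (P.cons (P.lf 0 947532223 0) (P.cons (P.lf 0 390413656 0) (P.cons (P.lf 21361864 0 0) (P.lf 2373540 0 0)))) (P.cons (P.cons (P.lf 0 388651635 0) (P.cons (P.lf 0 18787944 0) (P.cons (P.lf 1028000 0 0) (P.lf 114220 0 0)))) (P.cons (P.cons (P.lf 0 8303732 0) (P.cons (P.lf 8942508 0 0) (P.cons (P.lf 0 489296 0) (P.lf 0 54364 0)))) (P.cons (P.cons (P.lf 13219924 0 0) (P.cons (P.lf 443836 0 0) (P.cons (P.lf 0 24280 0) P.nil))) (P.cons (P.cons (P.lf 356188 0 0) (P.cons (P.lf 0 101532 0) P.nil)) (P.cons (P.cons (P.lf 0 141763 0) P.nil) P.nil)))))) 28895)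
 EL.nil)
noncomputable def S227_256_586_660_48 : EL := (EL.cons 15 (TM.mk (P.cons (P.cons (P.lf 209039383 0 0) (P.cons (P.lf 172261856 0 0) (P.cons (P.lf 26063228 0 0) (P.cons (P.lf 0 4930872 0) (P.cons (P.lf 0 325263 0) (P.cons (P.lf 23610 0 0) P.nil)))))) (P.cons (P.cons (P.lf 171484401 0 0) (P.cons (P.lf 78946858 0 0) (P.cons (P.lf 0 903995 0) (P.cons (P.lf 0 853742 0) (P.cons (P.lf 0 31305 0) P.nil))))) (P.cons (P.cons (P.lf 38832938 0 0) (P.cons (P.lf 964170 0 0) (P.cons (P.lf 0 1596322 0) (P.cons (P.lf 163052 0 0) P.nil)))) (P.cons (P.cons (P.lf 0 4330205 0) (P.cons (P.lf 0 4144989 0) (P.cons (P.lf 67868 0 0) P.nil))) (P.cons (P.cons (P.lf 0 2533648 0) (P.cons (P.lf 0 250518 0) P.nil)) (P.cons (P.cons (P.lf 0 53030 0) P.nil) P.nil)))))) 353390)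
 EL.nil)
noncomputable def S227_256_586_660 : SL := (SL.cons S227_256_586_660_0 (SL.cons S227_256_586_660_1 (SL.cons S227_256_586_660_2 (SL.cons S227_256_586_660_3 (SL.cons S227_256_586_660_4 (SL.cons S227_256_586_660_5 (SL.cons S227_256_586_660_6 (SL.cons S227_256_586_660_7 (SL.cons S227_256_586_660_8 (SL.cons S227_256_586_660_9 (SL.cons S227_256_586_660_10 (SL.cons S227_256_586_660_11 (SL.cons S227_256_586_660_12 (SL.cons S227_256_586_660_13 (SL.cons S227_256_586_660_14 (SL.cons S227_256_586_660_15 (SL.cons S227_256_586_660_16 (SL.cons S227_256_586_660_17 (SL.cons S227_256_586_660_18 (SL.cons S227_256_586_660_19 (SL.cons S227_256_586_660_20 (SL.cons S227_256_586_660_21 (SL.cons S227_256_586_660_22 (SL.cons S227_256_586_660_23 (SL.cons S227_256_586_660_24 (SL.cons S227_256_586_660_25 (SL.cons S227_256_586_660_26 (SL.cons S227_256_586_660_27 (SL.cons S227_256_586_660_28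 (SL.cons S227_256_586_660_29 (SL.cons S227_256_586_660_30 (SL.cons S227_256_586_660_31 (SL.cons S227_256_586_660_32 (SL.cons S227_256_586_660_33 (SL.cons S227_256_586_660_34 (SL.cons S227_256_586_660_35 (SL.cons S227_256_586_660_36 (SL.cons S227_256_586_660_37 (SL.cons S227_256_586_660_38 (SL.cons S227_256_586_660_39 (SL.cons S227_256_586_660_40 (SL.cons S227_256_586_660_41 (SL.cons S227_256_586_660_42 (SL.cons S227_256_586_660_43 (SL.cons S227_256_586_660_44 (SL.cons S227_256_586_660_45 (SL.cons S227_256_586_660_46 (SL.cons S227_256_586_660_47 (SL.cons S227_256_586_660_48 SL.nil)))))))))))))))))))))))))))))))))))))))))))))))))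
noncomputable def S227_256_660_734_0 : EL := (EL.cons 0 (TM.mk (P.cons (P.lf 8359606057 0 0) (P.cons (P.lf 190686074 0 0) (P.cons (P.lf 0 92290364 0) (P.cons (P.lf 0 3016066 0) (P.cons (P.lf 708651 0 0) (P.cons (P.lf 26673 0 0) P.nil)))))) 4788)
 (EL.cons 1 (TM.mk (P.cons (P.lf 0 450679505 0) (P.cons (P.lf 439849933 0 0) (P.cons (P.lf 16100088 0 0) (P.cons (P.lf 0 5127871 0) (P.cons (P.lf 0 176304 0) (P.cons (P.lf 32482 0 0) P.nil)))))) 1651)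
 (EL.cons 5 (TM.mk (P.cons (P.lf 4329140030 0 0) (P.cons (P.lf 0 67799490 0) (P.cons (P.lf 32814348 0 0) (P.cons (P.lf 1072376 0 0) (P.cons (P.lf 0 251962 0) (P.cons (P.lf 0 9484 0) P.nil)))))) 1837)
 (EL.cons 9 (TM.mk (P.lf 6442450944 0 0) 2)
 EL.nil))))
noncomputable def S227_256_660_734_1 : EL := (EL.cons 0 (TM.mk (P.cons (P.cons (P.lf 0 2573177104 0) (P.cons (P.lf 0 519579173 0) (P.cons (P.lf 66906785 0 0) (P.lf 4460455 0 0)))) (P.cons (P.cons (P.lf 0 1490129600 0) (P.cons (P.lf 0 74104598 0) (P.cons (P.lf 9542524 0 0) (P.lf 636163 0 0)))) (P.cons (P.cons (P.lf 0 22683450 0) (P.cons (P.lf 33302531 0 0) (P.cons (P.lf 0 4288392 0) (P.lf 0 285887 0)))) (P.cons (P.cons (P.lf 99379761 0 0) (P.cons (P.lf 3635572 0 0) (P.cons (P.lf 0 468149 0) P.nil))) (P.cons (P.cons (P.lf 4228616 0 0) (P.cons (P.lf 0 768724 0) P.nil)) (P.cons (P.cons (P.lf 0 2132800 0) P.nil) P.nil))))))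 446704)
 (EL.cons 1 (TM.mk (P.cons (P.cons (P.lf 1525762681 0 0) (P.cons (P.lf 71826265 0 0) (P.cons (P.lf 0 9249143 0) (P.lf 0 616603 0)))) (P.cons (P.cons (P.lf 0 90808602 0) (P.cons (P.lf 0 65225090 0) (P.cons (P.lf 8399101 0 0) (P.lf 559938 0 0)))) (P.cons (P.cons (P.lf 0 225742310 0) (P.cons (P.lf 0 9633088 0) (P.cons (P.lf 1240454 0 0) (P.lf 82691 0 0)))) (P.cons (P.cons (P.lf 0 9824288 0) (P.cons (P.lf 2770371 0 0) (P.cons (P.lf 0 356737 0) P.nil))) (P.cons (P.cons (P.lf 8298280 0 0) (P.cons (P.lf 318155 0 0) P.nil)) (P.cons (P.cons (P.lf 422093 0 0) P.nil) P.nil)))))) 338841)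
 (EL.cons 5 (TM.mk (P.cons (P.cons (P.lf 0 1845762948 0) (P.cons (P.lf 0 285283020 0) (P.cons (P.lf 36736212 0 0) (P.lf 2449078 0 0)))) (P.cons (P.cons (P.lf 0 186219122 0) (P.cons (P.lf 3729336 0 0) (P.cons (P.lf 0 480228 0) (P.lf 0 32012 0)))) (P.cons (P.cons (P.lf 20286802 0 0) (P.cons (P.lf 0 1074934 0) (P.cons (P.lf 138414 0 0) (P.lf 9222 0 0)))) (P.cons (P.cons (P.lf 0 11553930 0) (P.cons (P.lf 0 758308 0) (P.cons (P.lf 97642 0 0) P.nil))) (P.cons (P.cons (P.lf 0 1197018 0) (P.cons (P.lf 151086 0 0) P.nil)) (P.cons (P.cons (P.lf 501095 0 0) P.nil) P.nil)))))) 242465)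
 (EL.cons 9 (TM.mk (P.cons (P.cons (P.lf 0 2435885608 0) (P.cons (P.lf 0 414725538 0) (P.cons (P.lf 53404662 0 0) (P.lf 3560310 0 0)))) (P.cons (P.cons (P.lf 0 631802614 0) (P.cons (P.lf 0 19957908 0) (P.cons (P.lf 2569998 0 0) (P.lf 171330 0 0)))) (P.cons (P.cons (P.lf 10783738 0 0) (P.cons (P.lf 9499374 0 0) (P.cons (P.lf 0 1223238 0) (P.lf 0 81546 0)))) (P.cons (P.cons (P.lf 20983308 0 0) (P.cons (P.lf 471474 0 0) (P.cons (P.lf 0 60708 0) P.nil))) (P.cons (P.cons (P.lf 270426 0 0) (P.cons (P.lf 0 107850 0) P.nil)) (P.cons (P.cons (P.lf 0 226960 0) P.nil) P.nil)))))) 49673)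
 (EL.cons 2 (TM.mk (P.cons (P.cons (P.lf 190662015 0 0) (P.cons (P.lf 0 54429696 0) (P.cons (P.lf 0 4071251 0) (P.cons (P.lf 274342 0 0) (P.lf 13716 0 0))))) (P.cons (P.cons (P.lf 0 183022095 0) (P.cons (P.lf 52248670 0 0) (P.cons (P.lf 3908115 0 0) (P.cons (P.lf 0 263348 0) (P.lf 0 13165 0))))) (P.cons (P.cons (P.lf 0 11300920 0) (P.cons (P.lf 3226156 0 0) (P.cons (P.lf 241309 0 0) (P.cons (P.lf 0 16259 0) P.nil)))) (P.cons (P.cons (P.lf 3504493 0 0) (P.cons (P.lf 0 1000451 0) (P.cons (P.lf 0 74832 0) P.nil))) (P.cons (P.cons (P.lf 192611 0 0) (P.cons (P.lf 0 54984 0) P.nil)) (P.cons (P.cons (P.lf 0 34332 0) P.nil) P.nil)))))) 26413)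
 (EL.cons 6 (TM.mk (P.cons (P.cons (P.lf 894045804 0 0) (P.cons (P.lf 0 255229872 0) (P.cons (P.lf 0 19090782 0) (P.cons (P.lf 1286439 0 0) (P.lf 64320 0 0))))) (P.cons (P.cons (P.lf 43024323 0 0) (P.cons (P.lf 0 12282471 0) (P.cons (P.lf 0 918708 0) (P.cons (P.lf 61905 0 0) (P.lf 3093 0 0))))) (P.cons (P.cons (P.lf 0 20478309 0) (P.cons (P.lf 5846094 0 0) (P.cons (P.lf 437277 0 0) (P.cons (P.lf 0 29466 0) P.nil)))) (P.cons (P.cons (P.lf 0 1016382 0) (P.cons (P.lf 290151 0 0) (P.cons (P.lf 21702 0 0) P.nil))) (P.cons (P.cons (P.lf 232506 0 0) (P.cons (P.lf 0 66375 0) P.nil)) (P.cons (P.cons (P.lf 12612 0 0) P.nil) P.nil)))))) 16062)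
 EL.nil))))))
noncomputable def S227_256_660_734_2 : EL := (EL.cons 0 (TM.mk (P.cons (P.cons (P.lf 750751439 0 0) (P.cons (P.lf 317254922 0 0) (P.cons (P.lf 0 8600796 0) (P.cons (P.lf 0 11029932 0) (P.cons (P.lf 0 18956 0) (P.cons (P.lf 71315 0 0) P.nil)))))) (P.cons (P.cons (P.lf 984326311 0 0) (P.cons (P.lf 231325086 0 0) (P.cons (P.lf 0 21152380 0) (P.cons (P.lf 0 4209885 0) (P.cons (P.lf 0 5065 0) P.nil))))) (P.cons (P.cons (P.lf 230044672 0 0) (P.cons (P.lf 0 141871 0) (P.cons (P.lf 0 3529308 0) (P.cons (P.lf 914858 0 0) P.nil)))) (P.cons (P.cons (P.lf 0 63435378 0) (P.cons (P.lf 0 22200544 0) (P.cons (P.lf 2128592 0 0) P.nil))) (P.cons (P.cons (P.lf 0 25680854 0) (P.cons (P.lf 0 1627264 0) P.nil)) (P.cons (P.cons (P.lf 618086 0 0) P.nil) P.nil)))))) 3584618)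
 (EL.cons 1 (TM.mk (P.cons (P.cons (P.lf 0 1089350625 0) (P.cons (P.lf 0 228814599 0) (P.cons (P.lf 22084846 0 0) (P.cons (P.lf 3864935 0 0) (P.cons (P.lf 4332 0 0) (P.cons (P.lf 0 16314 0) P.nil)))))) (P.cons (P.cons (P.lf 0 260048111 0) (P.cons (P.lf 22807914 0 0) (P.cons (P.lf 3372574 0 0) (P.cons (P.lf 0 1820780 0) (P.cons (P.lf 0 3703 0) P.nil))))) (P.cons (P.cons (P.lf 162468036 0 0) (P.cons (P.lf 46750425 0 0) (P.cons (P.lf 0 4487301 0) (P.cons (P.lf 0 796083 0) P.nil)))) (P.cons (P.cons (P.lf 55948177 0 0) (P.cons (P.lf 2640649 0 0) (P.cons (P.lf 0 733117 0) P.nil))) (P.cons (P.cons (P.lf 0 4369582 0) (P.cons (P.lf 0 2545199 0) P.nil)) (P.cons (P.cons (P.lf 0 3162178 0) P.nil) P.nil)))))) 1585517)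
 (EL.cons 5 (TM.mk (P.cons (P.cons (P.lf 776873435 0 0) (P.cons (P.lf 242628359 0 0) (P.cons (P.lf 0 12453908 0) (P.cons (P.lf 0 6922016 0) (P.cons (P.lf 0 11032 0) (P.cons (P.lf 41537 0 0) P.nil)))))) (P.cons (P.cons (P.lf 191487886 0 0) (P.cons (P.lf 27044438 0 0) (P.cons (P.lf 0 3640851 0) (P.cons (P.lf 0 191410 0) (P.cons (P.lf 85 0 0) P.nil))))) (P.cons (P.cons (P.lf 0 20814210 0) (P.cons (P.lf 0 5227826 0) (P.cons (P.lf 618530 0 0) (P.cons (P.lf 58972 0 0) P.nil)))) (P.cons (P.cons (P.lf 2174464 0 0) (P.cons (P.lf 2240360 0 0) (P.cons (P.lf 0 164370 0) P.nil))) (P.cons (P.cons (P.lf 4255298 0 0) (P.cons (P.lf 415450 0 0) P.nil)) (P.cons (P.cons (P.lf 0 5742 0) P.nil) P.nil)))))) 1774805)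
 (EL.cons 9 (TM.mk (P.cons (P.cons (P.lf 921006421 0 0) (P.cons (P.lf 313614795 0 0) (P.cons (P.lf 0 13687030 0) (P.cons (P.lf 0 9568030 0) (P.cons (P.lf 0 15684 0) (P.cons (P.lf 59025 0 0) P.nil)))))) (P.cons (P.cons (P.lf 477768138 0 0) (P.cons (P.lf 96435304 0 0) (P.cons (P.lf 0 9848541 0) (P.cons (P.lf 0 1489632 0) (P.cons (P.lf 0 1509 0) P.nil))))) (P.cons (P.cons (P.lf 53805397 0 0) (P.cons (P.lf 0 4657302 0) (P.cons (P.lf 0 561474 0) (P.cons (P.lf 339034 0 0) P.nil)))) (P.cons (P.cons (P.lf 0 17982637 0) (P.cons (P.lf 0 4988076 0) (P.cons (P.lf 522757 0 0) P.nil))) (P.cons (P.cons (P.lf 0 4302055 0) (P.cons (P.lf 0 143940 0) P.nil)) (P.cons (P.cons (P.lf 188832 0 0) P.nil) P.nil)))))) 517741)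
 (EL.cons 2 (TM.mk (P.cons (P.cons (P.lf 0 144178312 0) (P.cons (P.lf 16612340 0 0) (P.cons (P.lf 13247358 0 0) (P.cons (P.lf 0 374945 0) (P.cons (P.lf 0 173345 0) (P.cons (P.lf 0 1715 0) P.nil)))))) (P.cons (P.cons (P.lf 101005076 0 0) (P.cons (P.lf 0 6452274 0) (P.cons (P.lf 0 11428655 0) (P.cons (P.lf 298051 0 0) (P.cons (P.lf 155868 0 0) P.nil))))) (P.cons (P.cons (P.lf 45081483 0 0) (P.cons (P.lf 0 9718554 0) (P.cons (P.lf 0 2268005 0) (P.cons (P.lf 86366 0 0) P.nil)))) (P.cons (P.cons (P.lf 195716 0 0) (P.cons (P.lf 0 948875 0) (P.cons (P.lf 365743 0 0) P.nil))) (P.cons (P.cons (P.lf 0 2047055 0) (P.cons (P.lf 471375 0 0) P.nil)) (P.cons (P.cons (P.lf 0 102493 0) P.nil) P.nil)))))) 373775)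
 (EL.cons 6 (TM.mk (P.cons (P.cons (P.lf 0 676076022 0) (P.cons (P.lf 77898036 0 0) (P.cons (P.lf 62119068 0 0) (P.cons (P.lf 0 1758198 0) (P.cons (P.lf 0 812868 0) (P.cons (P.lf 0 8052 0) P.nil)))))) (P.cons (P.cons (P.lf 0 207890694 0) (P.cons (P.lf 48269520 0 0) (P.cons (P.lf 9028416 0 0) (P.cons (P.lf 0 374724 0) (P.cons (P.lf 0 88506 0) P.nil))))) (P.cons (P.cons (P.lf 10039992 0 0) (P.cons (P.lf 2140308 0 0) (P.cons (P.lf 0 2288316 0) (P.cons (P.lf 48606 0 0) P.nil)))) (P.cons (P.cons (P.lf 10753062 0 0) (P.cons (P.lf 0 2554284 0) (P.cons (P.lf 0 443142 0) P.nil))) (P.cons (P.cons (P.lf 310290 0 0) (P.cons (P.lf 0 196242 0) P.nil)) (P.cons (P.cons (P.lf 0 251316 0) P.nil) P.nil)))))) 303162)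
 EL.nil))))))
noncomputable def S227_256_660_734_3 : EL := (EL.cons 0 (TM.mk (P.cons (P.lf 96110806 0 0) (P.cons (P.lf 0 190686074 0) (P.cons (P.lf 92290364 0 0) (P.cons (P.lf 3016066 0 0) (P.cons (P.lf 0 708651 0) (P.cons (P.lf 0 26673 0) P.nil)))))) 4788)
 (EL.cons 1 (TM.mk (P.cons (P.lf 450679505 0 0) (P.cons (P.lf 0 439849933 0) (P.cons (P.lf 0 16100088 0) (P.cons (P.lf 5127871 0 0) (P.cons (P.lf 176304 0 0) (P.cons (P.lf 0 32482 0) P.nil)))))) 1651)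
 (EL.cons 5 (TM.mk (P.cons (P.lf 2113310914 0 0) (P.cons (P.lf 67799490 0 0) (P.cons (P.lf 0 32814348 0) (P.cons (P.lf 0 1072376 0) (P.cons (P.lf 251962 0 0) (P.cons (P.lf 9484 0 0) P.nil)))))) 1830)
 EL.nil)))
noncomputable def S227_256_660_734_4 : EL := (EL.cons 0 (TM.mk (P.cons (P.cons (P.lf 0 36339419 0) (P.cons (P.lf 0 6187023 0) (P.cons (P.lf 796709 0 0) (P.lf 53112 0 0)))) (P.cons (P.cons (P.lf 62672793 0 0) (P.cons (P.lf 11977461 0 0) (P.cons (P.lf 0 1542350 0) (P.lf 0 102823 0)))) (P.cons (P.cons (P.lf 0 16033707 0) (P.cons (P.lf 0 5208651 0) (P.cons (P.lf 670723 0 0) (P.lf 44713 0 0)))) (P.cons (P.cons (P.lf 0 10197309 0) (P.cons (P.lf 0 754191 0) (P.cons (P.lf 97117 0 0) P.nil))) (P.cons (P.cons (P.lf 0 490396 0) (P.cons (P.lf 156791 0 0) P.nil)) (P.cons (P.cons (P.lf 373832 0 0) P.nil) P.nil)))))) 94016)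
 (EL.cons 1 (TM.mk (P.cons (P.cons (P.lf 0 170401563 0) (P.cons (P.lf 0 29011985 0) (P.cons (P.lf 3735903 0 0) (P.lf 249058 0 0)))) (P.cons (P.cons (P.lf 122109369 0 0) (P.cons (P.lf 26918694 0 0) (P.cons (P.lf 0 3466348 0) (P.lf 0 231090 0)))) (P.cons (P.cons (P.lf 49977301 0 0) (P.cons (P.lf 3063549 0 0) (P.cons (P.lf 0 394494 0) (P.lf 0 26298 0)))) (P.cons (P.cons (P.lf 371703 0 0) (P.cons (P.lf 0 895798 0) (P.cons (P.lf 115351 0 0) P.nil))) (P.cons (P.cons (P.lf 0 2010181 0) (P.cons (P.lf 0 90706 0) P.nil)) (P.cons (P.cons (P.lf 0 83203 0) P.nil) P.nil)))))) 88584)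
 (EL.cons 5 (TM.mk (P.cons (P.cons (P.lf 0 799041184 0) (P.cons (P.lf 0 136042014 0) (P.cons (P.lf 17518278 0 0) (P.lf 1167884 0 0)))) (P.cons (P.cons (P.lf 0 232884530 0) (P.cons (P.lf 0 10911288 0) (P.cons (P.lf 1405056 0 0) (P.lf 93668 0 0)))) (P.cons (P.cons (P.lf 9295452 0 0) (P.cons (P.lf 5018422 0 0) (P.cons (P.lf 0 646224 0) (P.lf 0 43080 0)))) (P.cons (P.cons (P.lf 10620144 0 0) (P.cons (P.lf 425314 0 0) (P.cons (P.lf 0 54766 0) P.nil))) (P.cons (P.cons (P.lf 264504 0 0) (P.cons (P.lf 0 91698 0) P.nil)) (P.cons (P.cons (P.lf 0 208570 0) P.nil) P.nil)))))) 48762)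
 EL.nil)))
noncomputable def S227_256_660_734_5 : EL := (EL.cons 0 (TM.mk (P.cons (P.cons (P.lf 13739904 0 0) (P.cons (P.lf 4678618 0 0) (P.cons (P.lf 0 204187 0) (P.cons (P.lf 0 142737 0) (P.cons (P.lf 0 233 0) (P.cons (P.lf 878 0 0) P.nil)))))) (P.cons (P.cons (P.lf 0 20132775 0) (P.cons (P.lf 0 7843830 0) (P.cons (P.lf 258189 0 0) (P.cons (P.lf 260973 0 0) (P.cons (P.lf 441 0 0) P.nil))))) (P.cons (P.cons (P.lf 0 144731 0) (P.cons (P.lf 1568833 0 0) (P.cons (P.lf 87052 0 0) (P.cons (P.lf 0 87915 0) P.nil)))) (P.cons (P.cons (P.lf 5414545 0 0) (P.cons (P.lf 1591723 0 0) (P.cons (P.lf 0 123073 0) P.nil))) (P.cons (P.cons (P.lf 1361218 0 0) (P.cons (P.lf 89423 0 0) P.nil)) (P.cons (P.cons (P.lf 0 158632 0) P.nil) P.nil)))))) 303898)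
 (EL.cons 1 (TM.mk (P.cons (P.cons (P.lf 64428695 0 0) (P.cons (P.lf 21938816 0 0) (P.cons (P.lf 0 957470 0) (P.cons (P.lf 0 669326 0) (P.cons (P.lf 0 1095 0) (P.cons (P.lf 4126 0 0) P.nil)))))) (P.cons (P.cons (P.lf 0 29458400 0) (P.cons (P.lf 0 14665539 0) (P.cons (P.lf 245510 0 0) (P.cons (P.lf 549037 0 0) (P.cons (P.lf 963 0 0) P.nil))))) (P.cons (P.cons (P.lf 0 31156708 0) (P.cons (P.lf 0 7693537 0) (P.cons (P.lf 667321 0 0) (P.cons (P.lf 149328 0 0) P.nil)))) (P.cons (P.cons (P.lf 0 5392359 0) (P.cons (P.lf 0 22342 0) (P.cons (P.lf 88620 0 0) P.nil))) (P.cons (P.cons (P.lf 1197811 0 0) (P.cons (P.lf 427462 0 0) P.nil)) (P.cons (P.cons (P.lf 403123 0 0) P.nil) P.nil)))))) 236407)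
 (EL.cons 5 (TM.mk (P.cons (P.cons (P.lf 302116838 0 0) (P.cons (P.lf 102874756 0 0) (P.cons (P.lf 0 4489742 0) (P.cons (P.lf 0 3138590 0) (P.cons (P.lf 0 5144 0) (P.cons (P.lf 19360 0 0) P.nil)))))) (P.cons (P.cons (P.lf 166414364 0 0) (P.cons (P.lf 34934018 0 0) (P.cons (P.lf 0 3374646 0) (P.cons (P.lf 0 589334 0) (P.cons (P.lf 0 658 0) P.nil))))) (P.cons (P.cons (P.lf 17986592 0 0) (P.cons (P.lf 0 2110240 0) (P.cons (P.lf 0 218108 0) (P.cons (P.lf 144270 0 0) P.nil)))) (P.cons (P.cons (P.lf 0 7919382 0) (P.cons (P.lf 0 2228636 0) (P.cons (P.lf 218012 0 0) P.nil))) (P.cons (P.cons (P.lf 0 1918006 0) (P.cons (P.lf 0 79774 0) P.nil)) (P.cons (P.cons (P.lf 119346 0 0) P.nil) P.nil)))))) 274444)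
 EL.nil)))
noncomputable def S227_256_660_734_6 : EL := (EL.cons 12 (TM.mk (P.lf 8589934592 0 0) 0)
 (EL.cons 3 (TM.mk (P.cons (P.lf 0 454308690 0) (P.cons (P.lf 450679503 0 0) (P.cons (P.lf 5414782 0 0) (P.cons (P.lf 0 1756837 0) (P.cons (P.lf 0 35658 0) (P.cons (P.lf 6731 0 0) P.nil)))))) 269)
 (EL.cons 7 (TM.mk (P.cons (P.lf 0 2130328762 0) (P.cons (P.lf 0 34172730 0) (P.cons (P.lf 16813380 0 0) (P.cons (P.lf 270802 0 0) (P.cons (P.lf 0 64991 0) (P.cons (P.lf 0 1601 0) P.nil)))))) 330)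
 EL.nil)))
noncomputable def S227_256_660_734_7 : EL := (EL.cons 12 (TM.mk (P.cons (P.cons (P.lf 0 3247847478 0) (P.cons (P.lf 0 552967384 0) (P.cons (P.lf 71206216 0 0) (P.lf 4747080 0 0)))) (P.cons (P.cons (P.lf 0 842403486 0) (P.cons (P.lf 0 26610544 0) (P.cons (P.lf 3426664 0 0) (P.lf 228440 0 0)))) (P.cons (P.cons (P.lf 14378318 0 0) (P.cons (P.lf 12665832 0 0) (P.cons (P.lf 0 1630984 0) (P.lf 0 108728 0)))) (P.cons (P.cons (P.lf 27977744 0 0) (P.cons (P.lf 628632 0 0) (P.cons (P.lf 0 80944 0) P.nil))) (P.cons (P.cons (P.lf 360568 0 0) (P.cons (P.lf 0 143800 0) P.nil)) (P.cons (P.cons (P.lf 0 302614 0) P.nil) P.nil)))))) 66206)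
 (EL.cons 3 (TM.mk (P.cons (P.cons (P.lf 0 2605689322 0) (P.cons (P.lf 0 58491220 0) (P.cons (P.lf 7531978 0 0) (P.lf 502130 0 0)))) (P.cons (P.cons (P.lf 0 53401490 0) (P.cons (P.lf 55209188 0 0) (P.cons (P.lf 0 7109346 0) (P.lf 0 473956 0)))) (P.cons (P.cons (P.lf 241675202 0 0) (P.cons (P.lf 4829190 0 0) (P.cons (P.lf 0 621858 0) (P.lf 0 41456 0)))) (P.cons (P.cons (P.lf 6009882 0 0) (P.cons (P.lf 0 1455194 0) (P.cons (P.lf 187384 0 0) P.nil))) (P.cons (P.cons (P.lf 0 4421130 0) (P.cons (P.lf 0 112618 0) P.nil)) (P.cons (P.cons (P.lf 0 143816 0) P.nil) P.nil)))))) 229356)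
 (EL.cons 7 (TM.mk (P.cons (P.cons (P.lf 1016076502 0 0) (P.cons (P.lf 143790163 0 0) (P.cons (P.lf 0 18516022 0) (P.lf 0 1234403 0)))) (P.cons (P.cons (P.lf 4049171 0 0) (P.cons (P.lf 0 4186231 0) (P.cons (P.lf 539064 0 0) (P.lf 35936 0 0)))) (P.cons (P.cons (P.lf 0 20365887 0) (P.cons (P.lf 1743794 0 0) (P.cons (P.lf 0 224548 0) (P.lf 0 14969 0)))) (P.cons (P.cons (P.lf 11875729 0 0) (P.cons (P.lf 339474 0 0) (P.cons (P.lf 0 43713 0) P.nil))) (P.cons (P.cons (P.lf 564279 0 0) (P.cons (P.lf 0 72754 0) P.nil)) (P.cons (P.cons (P.lf 0 232223 0) P.nil) P.nil)))))) 133477)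
 (EL.cons 10 (TM.mk (P.cons (P.cons (P.lf 0 1802490564 0) (P.cons (P.lf 514570323 0 0) (P.cons (P.lf 38489031 0 0) (P.cons (P.lf 0 2593599 0) (P.lf 0 129678 0))))) (P.cons (P.cons (P.lf 0 57827712 0) (P.cons (P.lf 16508505 0 0) (P.cons (P.lf 1234809 0 0) (P.cons (P.lf 0 83208 0) (P.lf 0 4158 0))))) (P.cons (P.cons (P.lf 27988095 0 0) (P.cons (P.lf 0 7989969 0) (P.cons (P.lf 0 597636 0) (P.cons (P.lf 40272 0 0) P.nil)))) (P.cons (P.cons (P.lf 914652 0 0) (P.cons (P.lf 0 261111 0) (P.cons (P.lf 0 19530 0) P.nil))) (P.cons (P.cons (P.lf 0 214902 0) (P.cons (P.lf 61350 0 0) P.nil)) (P.cons (P.cons (P.lf 0 8088 0) P.nil) P.nil)))))) 12954)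
 EL.nil))))
noncomputable def S227_256_660_734_8 : EL := (EL.cons 12 (TM.mk (P.cons (P.cons (P.lf 1228008562 0 0) (P.cons (P.lf 418153060 0 0) (P.cons (P.lf 0 18249374 0) (P.cons (P.lf 0 12757374 0) (P.cons (P.lf 0 20912 0) (P.cons (P.lf 78700 0 0) P.nil)))))) (P.cons (P.cons (P.lf 637024184 0 0) (P.cons (P.lf 128580406 0 0) (P.cons (P.lf 0 13131388 0) (P.cons (P.lf 0 1986176 0) (P.cons (P.lf 0 2012 0) P.nil))))) (P.cons (P.cons (P.lf 71740530 0 0) (P.cons (P.lf 0 6209736 0) (P.cons (P.lf 0 748632 0) (P.cons (P.lf 452046 0 0) P.nil)))) (P.cons (P.cons (P.lf 0 23976850 0) (P.cons (P.lf 0 6650768 0) (P.cons (P.lf 697010 0 0) P.nil))) (P.cons (P.cons (P.lf 0 5736074 0) (P.cons (P.lf 0 191920 0) P.nil)) (P.cons (P.cons (P.lf 251776 0 0) P.nil) P.nil)))))) 690292)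
 (EL.cons 3 (TM.mk (P.cons (P.cons (P.lf 2035365661 0 0) (P.cons (P.lf 401823090 0 0) (P.cons (P.lf 0 42329931 0) (P.cons (P.lf 0 5873857 0) (P.cons (P.lf 0 5525 0) (P.cons (P.lf 20811 0 0) P.nil)))))) (P.cons (P.cons (P.lf 520717661 0 0) (P.cons (P.lf 0 22395657 0) (P.cons (P.lf 0 5548155 0) (P.cons (P.lf 2363874 0 0) (P.cons (P.lf 4950 0 0) P.nil))))) (P.cons (P.cons (P.lf 0 211405427 0) (P.cons (P.lf 0 60482769 0) (P.cons (P.lf 6368050 0 0) (P.cons (P.lf 885027 0 0) P.nil)))) (P.cons (P.cons (P.lf 0 74281063 0) (P.cons (P.lf 0 2874421 0) (P.cons (P.lf 759741 0 0) P.nil))) (P.cons (P.cons (P.lf 3451691 0 0) (P.cons (P.lf 2436304 0 0) P.nil)) (P.cons (P.cons (P.lf 3095153 0 0) P.nil) P.nil)))))) 1713003)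
 (EL.cons 7 (TM.mk (P.cons (P.cons (P.lf 0 463805744 0) (P.cons (P.lf 0 135848283 0) (P.cons (P.lf 7808749 0 0) (P.cons (P.lf 3660413 0 0) (P.cons (P.lf 5684 0 0) (P.cons (P.lf 0 21407 0) P.nil)))))) (P.cons (P.cons (P.lf 0 39483380 0) (P.cons (P.lf 1698141 0 0) (P.cons (P.lf 420692 0 0) (P.cons (P.lf 0 179233 0) (P.cons (P.lf 0 372 0) P.nil))))) (P.cons (P.cons (P.lf 35930452 0 0) (P.cons (P.lf 3730189 0 0) (P.cons (P.lf 0 694896 0) (P.cons (P.lf 23229 0 0) P.nil)))) (P.cons (P.cons (P.lf 0 5300053 0) (P.cons (P.lf 0 2857190 0) (P.cons (P.lf 268588 0 0) P.nil))) (P.cons (P.cons (P.lf 0 4381642 0) (P.cons (P.lf 0 323430 0) P.nil)) (P.cons (P.cons (P.lf 0 9893 0) P.nil) P.nil)))))) 1057507)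
 (EL.cons 10 (TM.mk (P.cons (P.cons (P.lf 1363040514 0 0) (P.cons (P.lf 0 157050654 0) (P.cons (P.lf 0 125238588 0) (P.cons (P.lf 3544722 0 0) (P.cons (P.lf 1638828 0 0) (P.cons (P.lf 16236 0 0) P.nil)))))) (P.cons (P.cons (P.lf 397264938 0 0) (P.cons (P.lf 0 94797192 0) (P.cons (P.lf 0 16193286 0) (P.cons (P.lf 698622 0 0) (P.cons (P.lf 152154 0 0) P.nil))))) (P.cons (P.cons (P.lf 0 15856596 0) (P.cons (P.lf 0 4033950 0) (P.cons (P.lf 3884820 0 0) (P.cons (P.lf 0 81228 0) P.nil)))) (P.cons (P.cons (P.lf 0 18116316 0) (P.cons (P.lf 4446276 0 0) (P.cons (P.lf 687384 0 0) P.nil))) (P.cons (P.cons (P.lf 0 451206 0) (P.cons (P.lf 285228 0 0) P.nil)) (P.cons (P.cons (P.lf 355788 0 0) P.nil) P.nil)))))) 457620)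
 EL.nil))))
noncomputable def S227_256_660_734_9 : EL := (EL.cons 3 (TM.mk (P.cons (P.lf 0 454308690 0) (P.cons (P.lf 450679503 0 0) (P.cons (P.lf 5414782 0 0) (P.cons (P.lf 0 1756837 0) (P.cons (P.lf 0 35658 0) (P.cons (P.lf 6731 0 0) P.nil)))))) 269)
 (EL.cons 7 (TM.mk (P.cons (P.lf 0 2130328762 0) (P.cons (P.lf 0 34172730 0) (P.cons (P.lf 16813380 0 0) (P.cons (P.lf 270802 0 0) (P.cons (P.lf 0 64991 0) (P.cons (P.lf 0 1601 0) P.nil)))))) 330)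
 EL.nil))
noncomputable def S227_256_660_734_10 : EL := (EL.cons 3 (TM.mk (P.cons (P.cons (P.lf 171773756 0 0) (P.cons (P.lf 29245610 0 0) (P.cons (P.lf 0 3765989 0) (P.lf 0 251065 0)))) (P.cons (P.cons (P.lf 0 125848112 0) (P.cons (P.lf 0 27604594 0) (P.cons (P.lf 3554673 0 0) (P.lf 236978 0 0)))) (P.cons (P.cons (P.lf 0 47005312 0) (P.cons (P.lf 0 2414595 0) (P.cons (P.lf 310929 0 0) (P.lf 20728 0 0)))) (P.cons (P.cons (P.lf 0 592089 0) (P.cons (P.lf 727597 0 0) (P.cons (P.lf 0 93692 0) P.nil))) (P.cons (P.cons (P.lf 1643646 0 0) (P.cons (P.lf 56309 0 0) P.nil)) (P.cons (P.cons (P.lf 50569 0 0) P.nil) P.nil)))))) 55385)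
 (EL.cons 7 (TM.mk (P.cons (P.cons (P.lf 805475620 0 0) (P.cons (P.lf 137137519 0 0) (P.cons (P.lf 0 17659348 0) (P.lf 0 1177289 0)))) (P.cons (P.cons (P.lf 221839196 0 0) (P.cons (P.lf 8799323 0 0) (P.cons (P.lf 0 1133097 0) (P.lf 0 75538 0)))) (P.cons (P.cons (P.lf 0 6571716 0) (P.cons (P.lf 0 4117642 0) (P.cons (P.lf 530231 0 0) (P.lf 35347 0 0)))) (P.cons (P.cons (P.lf 0 8747018 0) (P.cons (P.lf 0 275808 0) (P.cons (P.lf 35514 0 0) P.nil))) (P.cons (P.cons (P.lf 0 174564 0) (P.cons (P.lf 61298 0 0) P.nil)) (P.cons (P.cons (P.lf 135808 0 0) P.nil) P.nil)))))) 29553)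
 EL.nil))
noncomputable def S227_256_660_734_11 : EL := (EL.cons 3 (TM.mk (P.cons (P.cons (P.lf 0 64947521 0) (P.cons (P.lf 0 22115484 0) (P.cons (P.lf 965181 0 0) (P.cons (P.lf 674717 0 0) (P.cons (P.lf 1105 0 0) (P.cons (P.lf 0 4161 0) P.nil)))))) (P.cons (P.cons (P.lf 30737447 0 0) (P.cons (P.lf 15138393 0 0) (P.cons (P.lf 0 262971 0) (P.cons (P.lf 0 564282 0) (P.cons (P.lf 0 990 0) P.nil))))) (P.cons (P.cons (P.lf 30401953 0 0) (P.cons (P.lf 7338111 0 0) (P.cons (P.lf 0 660860 0) (P.cons (P.lf 0 136155 0) P.nil)))) (P.cons (P.cons (P.lf 5182439 0 0) (P.cons (P.lf 21479 0 0) (P.cons (P.lf 0 80685 0) P.nil))) (P.cons (P.cons (P.lf 0 1044757 0) (P.cons (P.lf 0 370736 0) P.nil)) (P.cons (P.cons (P.lf 0 345733 0) P.nil) P.nil)))))) 188999)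
 (EL.cons 7 (TM.mk (P.cons (P.cons (P.lf 0 304549694 0) (P.cons (P.lf 0 103703175 0) (P.cons (P.lf 4525897 0 0) (P.cons (P.lf 3163865 0 0) (P.cons (P.lf 5186 0 0) (P.cons (P.lf 0 19517 0) P.nil)))))) (P.cons (P.cons (P.lf 0 162869150 0) (P.cons (P.lf 0 33551823 0) (P.cons (P.lf 3329222 0 0) (P.cons (P.lf 543329 0 0) (P.cons (P.lf 582 0 0) P.nil))))) (P.cons (P.cons (P.lf 0 17922464 0) (P.cons (P.lf 1846975 0 0) (P.cons (P.lf 202182 0 0) (P.cons (P.lf 0 129177 0) P.nil)))) (P.cons (P.cons (P.lf 6946511 0 0) (P.cons (P.lf 1938970 0 0) (P.cons (P.lf 0 196160 0) P.nil))) (P.cons (P.cons (P.lf 1669160 0 0) (P.cons (P.lf 62790 0 0) P.nil)) (P.cons (P.cons (P.lf 0 89339 0) P.nil) P.nil)))))) 219765)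
 EL.nil))
noncomputable def S227_256_660_734_12 : EL := (EL.cons 4 (TM.mk (P.cons (P.lf 454308690 0 0) (P.cons (P.lf 0 450679503 0) (P.cons (P.lf 0 5414782 0) (P.cons (P.lf 1756837 0 0) (P.cons (P.lf 35658 0 0) (P.cons (P.lf 0 6731 0) P.nil)))))) 269)
 (EL.cons 8 (TM.mk (P.cons (P.lf 2130328762 0 0) (P.cons (P.lf 34172730 0 0) (P.cons (P.lf 0 16813380 0) (P.cons (P.lf 0 270802 0) (P.cons (P.lf 64991 0 0) (P.cons (P.lf 1601 0 0) P.nil)))))) 330)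
 EL.nil))
noncomputable def S227_256_660_734_13 : EL := (EL.cons 4 (TM.mk (P.cons (P.cons (P.lf 0 171773756 0) (P.cons (P.lf 0 29245610 0) (P.cons (P.lf 3765989 0 0) (P.lf 251065 0 0)))) (P.cons (P.cons (P.lf 125848112 0 0) (P.cons (P.lf 27604594 0 0) (P.cons (P.lf 0 3554673 0) (P.lf 0 236978 0)))) (P.cons (P.cons (P.lf 47005312 0 0) (P.cons (P.lf 2414595 0 0) (P.cons (P.lf 0 310929 0) (P.lf 0 20728 0)))) (P.cons (P.cons (P.lf 592089 0 0) (P.cons (P.lf 0 727597 0) (P.cons (P.lf 93692 0 0) P.nil))) (P.cons (P.cons (P.lf 0 1643646 0) (P.cons (P.lf 0 56309 0) P.nil)) (P.cons (P.cons (P.lf 0 50569 0) P.nil) P.nil)))))) 55385)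
 (EL.cons 8 (TM.mk (P.cons (P.cons (P.lf 0 805475620 0) (P.cons (P.lf 0 137137519 0) (P.cons (P.lf 17659348 0 0) (P.lf 1177289 0 0)))) (P.cons (P.cons (P.lf 0 221839196 0) (P.cons (P.lf 0 8799323 0) (P.cons (P.lf 1133097 0 0) (P.lf 75538 0 0)))) (P.cons (P.cons (P.lf 6571716 0 0) (P.cons (P.lf 4117642 0 0) (P.cons (P.lf 0 530231 0) (P.lf 0 35347 0)))) (P.cons (P.cons (P.lf 8747018 0 0) (P.cons (P.lf 275808 0 0) (P.cons (P.lf 0 35514 0) P.nil))) (P.cons (P.cons (P.lf 174564 0 0) (P.cons (P.lf 0 61298 0) P.nil)) (P.cons (P.cons (P.lf 0 135808 0) P.nil) P.nil)))))) 29553)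
 EL.nil))
noncomputable def S227_256_660_734_14 : EL := (EL.cons 4 (TM.mk (P.cons (P.cons (P.lf 64947521 0 0) (P.cons (P.lf 22115484 0 0) (P.cons (P.lf 0 965181 0) (P.cons (P.lf 0 674717 0) (P.cons (P.lf 0 1105 0) (P.cons (P.lf 4161 0 0) P.nil)))))) (P.cons (P.cons (P.lf 0 30737447 0) (P.cons (P.lf 0 15138393 0) (P.cons (P.lf 262971 0 0) (P.cons (P.lf 564282 0 0) (P.cons (P.lf 990 0 0) P.nil))))) (P.cons (P.cons (P.lf 0 30401953 0) (P.cons (P.lf 0 7338111 0) (P.cons (P.lf 660860 0 0) (P.cons (P.lf 136155 0 0) P.nil)))) (P.cons (P.cons (P.lf 0 5182439 0) (P.cons (P.lf 0 21479 0) (P.cons (P.lf 80685 0 0) P.nil))) (P.cons (P.cons (P.lf 1044757 0 0) (P.cons (P.lf 370736 0 0) P.nil)) (P.cons (P.cons (P.lf 345733 0 0) P.nil) P.nil)))))) 188999)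
 (EL.cons 8 (TM.mk (P.cons (P.cons (P.lf 304549694 0 0) (P.cons (P.lf 103703175 0 0) (P.cons (P.lf 0 4525897 0) (P.cons (P.lf 0 3163865 0) (P.cons (P.lf 0 5186 0) (P.cons (P.lf 19517 0 0) P.nil)))))) (P.cons (P.cons (P.lf 162869150 0 0) (P.cons (P.lf 33551823 0 0) (P.cons (P.lf 0 3329222 0) (P.cons (P.lf 0 543329 0) (P.cons (P.lf 0 582 0) P.nil))))) (P.cons (P.cons (P.lf 17922464 0 0) (P.cons (P.lf 0 1846975 0) (P.cons (P.lf 0 202182 0) (P.cons (P.lf 129177 0 0) P.nil)))) (P.cons (P.cons (P.lf 0 6946511 0) (P.cons (P.lf 0 1938970 0) (P.cons (P.lf 196160 0 0) P.nil))) (P.cons (P.cons (P.lf 0 1669160 0) (P.cons (P.lf 0 62790 0) P.nil)) (P.cons (P.cons (P.lf 89339 0 0) P.nil) P.nil)))))) 219765)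
 EL.nil))
noncomputable def S227_256_660_734_15 : EL := (EL.cons 4 (TM.mk (P.cons (P.lf 0 51259096 0) (P.cons (P.lf 101699239 0 0) (P.cons (P.lf 0 49221527 0) (P.cons (P.lf 0 1608569 0) (P.cons (P.lf 377947 0 0) (P.cons (P.lf 14225 0 0) P.nil)))))) 2557)
 (EL.cons 8 (TM.mk (P.cons (P.lf 0 240362403 0) (P.cons (P.lf 234586631 0 0) (P.cons (P.lf 8586714 0 0) (P.cons (P.lf 0 2734865 0) (P.cons (P.lf 0 94029 0) (P.cons (P.lf 17324 0 0) P.nil)))))) 877)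
 EL.nil))
noncomputable def S227_256_660_734_16 : EL := (EL.cons 4 (TM.mk (P.cons (P.cons (P.lf 19381023 0 0) (P.cons (P.lf 3299745 0 0) (P.cons (P.lf 0 424911 0) (P.lf 0 28326 0)))) (P.cons (P.cons (P.lf 0 33425490 0) (P.cons (P.lf 0 6387979 0) (P.cons (P.lf 822586 0 0) (P.lf 54839 0 0)))) (P.cons (P.cons (P.lf 8551310 0 0) (P.cons (P.lf 2777947 0 0) (P.cons (P.lf 0 357719 0) (P.lf 0 23847 0)))) (P.cons (P.cons (P.lf 5438565 0 0) (P.cons (P.lf 402235 0 0) (P.cons (P.lf 0 51795 0) P.nil))) (P.cons (P.cons (P.lf 261544 0 0) (P.cons (P.lf 0 83622 0) P.nil)) (P.cons (P.cons (P.lf 0 199377 0) P.nil) P.nil)))))) 50150)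
 (EL.cons 8 (TM.mk (P.cons (P.cons (P.lf 90880834 0 0) (P.cons (P.lf 15473059 0 0) (P.cons (P.lf 0 1992482 0) (P.lf 0 132831 0)))) (P.cons (P.cons (P.lf 0 65124997 0) (P.cons (P.lf 0 14356637 0) (P.cons (P.lf 1848719 0 0) (P.lf 123248 0 0)))) (P.cons (P.cons (P.lf 0 26654561 0) (P.cons (P.lf 0 1633893 0) (P.cons (P.lf 210397 0 0) (P.lf 14026 0 0)))) (P.cons (P.cons (P.lf 0 198242 0) (P.cons (P.lf 477759 0 0) (P.cons (P.lf 0 61521 0) P.nil))) (P.cons (P.cons (P.lf 1072097 0 0) (P.cons (P.lf 48377 0 0) P.nil)) (P.cons (P.cons (P.lf 44375 0 0) P.nil) P.nil)))))) 47235)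
 EL.nil))
noncomputable def S227_256_660_734_17 : EL := (EL.cons 4 (TM.mk (P.cons (P.cons (P.lf 0 7327949 0) (P.cons (P.lf 0 2495263 0) (P.cons (P.lf 108900 0 0) (P.cons (P.lf 76126 0 0) (P.cons (P.lf 124 0 0) (P.cons (P.lf 0 468 0) P.nil)))))) (P.cons (P.cons (P.lf 10737480 0 0) (P.cons (P.lf 4183376 0 0) (P.cons (P.lf 0 137700 0) (P.cons (P.lf 0 139185 0) (P.cons (P.lf 0 235 0) P.nil))))) (P.cons (P.cons (P.lf 77190 0 0) (P.cons (P.lf 0 836711 0) (P.cons (P.lf 0 46427 0) (P.cons (P.lf 46888 0 0) P.nil)))) (P.cons (P.cons (P.lf 0 2887757 0) (P.cons (P.lf 0 848919 0) (P.cons (P.lf 65639 0 0) P.nil))) (P.cons (P.cons (P.lf 0 725983 0) (P.cons (P.lf 0 47692 0) P.nil)) (P.cons (P.cons (P.lf 84603 0 0) P.nil) P.nil)))))) 162089)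
 (EL.cons 8 (TM.mk (P.cons (P.cons (P.lf 0 34361971 0) (P.cons (P.lf 0 11700702 0) (P.cons (P.lf 510651 0 0) (P.cons (P.lf 356974 0 0) (P.cons (P.lf 584 0 0) (P.cons (P.lf 0 2201 0) P.nil)))))) (P.cons (P.cons (P.lf 15711147 0 0) (P.cons (P.lf 7821621 0 0) (P.cons (P.lf 0 130939 0) (P.cons (P.lf 0 292820 0) (P.cons (P.lf 0 514 0) P.nil))))) (P.cons (P.cons (P.lf 16616911 0 0) (P.cons (P.lf 4103220 0 0) (P.cons (P.lf 0 355905 0) (P.cons (P.lf 0 79642 0) P.nil)))) (P.cons (P.cons (P.lf 2875925 0 0) (P.cons (P.lf 11916 0 0) (P.cons (P.lf 0 47264 0) P.nil))) (P.cons (P.cons (P.lf 0 638833 0) (P.cons (P.lf 0 227980 0) P.nil)) (P.cons (P.cons (P.lf 0 214999 0) P.nil) P.nil)))))) 126072)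
 EL.nil))
noncomputable def S227_256_660_734_18 : EL := (EL.cons 4 (TM.mk (P.cons (P.lf 5783501 0 0) (P.cons (P.lf 0 17211901 0) (P.cons (P.lf 16867610 0 0) (P.cons (P.lf 0 5168619 0) (P.cons (P.lf 0 332796 0) (P.cons (P.lf 59024 0 0) P.nil)))))) 4306)
 (EL.cons 8 (TM.mk (P.cons (P.lf 27119797 0 0) (P.cons (P.lf 0 53371278 0) (P.cons (P.lf 24964624 0 0) (P.cons (P.lf 1690000 0 0) (P.cons (P.lf 0 384174 0) (P.cons (P.lf 0 22382 0) P.nil)))))) 4185)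
 EL.nil))
noncomputable def S227_256_660_734_19 : EL := (EL.cons 4 (TM.mk (P.cons (P.cons (P.lf 0 2186736 0) (P.cons (P.lf 0 372305 0) (P.cons (P.lf 47941 0 0) (P.lf 3195 0 0)))) (P.cons (P.cons (P.lf 5940625 0 0) (P.cons (P.lf 1090080 0 0) (P.cons (P.lf 0 140370 0) (P.lf 0 9357 0)))) (P.cons (P.cons (P.lf 0 4680000 0) (P.cons (P.lf 0 1023985 0) (P.cons (P.lf 131859 0 0) (P.lf 8790 0 0)))) (P.cons (P.cons (P.lf 290093 0 0) (P.cons (P.lf 255513 0 0) (P.cons (P.lf 0 32902 0) P.nil))) (P.cons (P.cons (P.lf 605126 0 0) (P.cons (P.lf 60949 0 0) P.nil)) (P.cons (P.cons (P.lf 55680 0 0) P.nil) P.nil)))))) 59471)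
 (EL.cons 8 (TM.mk (P.cons (P.cons (P.lf 0 10253973 0) (P.cons (P.lf 0 1745806 0) (P.cons (P.lf 224809 0 0) (P.lf 14986 0 0)))) (P.cons (P.cons (P.lf 17520035 0 0) (P.cons (P.lf 3351702 0 0) (P.cons (P.lf 0 431602 0) (P.lf 0 28773 0)))) (P.cons (P.cons (P.lf 0 4159659 0) (P.cons (P.lf 0 1401744 0) (P.cons (P.lf 180503 0 0) (P.lf 12033 0 0)))) (P.cons (P.cons (P.lf 0 3088240 0) (P.cons (P.lf 0 262839 0) (P.cons (P.lf 33846 0 0) P.nil))) (P.cons (P.cons (P.lf 0 151386 0) (P.cons (P.lf 51945 0 0) P.nil)) (P.cons (P.cons (P.lf 127081 0 0) P.nil) P.nil)))))) 37372)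
 EL.nil))
noncomputable def S227_256_660_734_20 : EL := (EL.cons 4 (TM.mk (P.cons (P.cons (P.lf 826802 0 0) (P.cons (P.lf 281536 0 0) (P.cons (P.lf 0 12286 0) (P.cons (P.lf 0 8589 0) (P.cons (P.lf 0 14 0) (P.cons (P.lf 52 0 0) P.nil)))))) (P.cons (P.cons (P.lf 0 2031695 0) (P.cons (P.lf 0 751293 0) (P.cons (P.lf 27724 0 0) (P.cons (P.lf 24225 0 0) (P.cons (P.lf 40 0 0) P.nil))))) (P.cons (P.cons (P.lf 1183254 0 0) (P.cons (P.lf 559283 0 0) (P.cons (P.lf 0 10027 0) (P.cons (P.lf 0 20766 0) P.nil)))) (P.cons (P.cons (P.lf 352098 0 0) (P.cons (P.lf 8845 0 0) (P.cons (P.lf 0 12835 0) P.nil))) (P.cons (P.cons (P.lf 0 245822 0) (P.cons (P.lf 0 92564 0) P.nil)) (P.cons (P.cons (P.lf 0 94827 0) P.nil) P.nil)))))) 105759)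
 (EL.cons 8 (TM.mk (P.cons (P.cons (P.lf 3877019 0 0) (P.cons (P.lf 1320176 0 0) (P.cons (P.lf 0 57616 0) (P.cons (P.lf 0 40276 0) (P.cons (P.lf 0 65 0) (P.cons (P.lf 248 0 0) P.nil)))))) (P.cons (P.cons (P.lf 0 5618717 0) (P.cons (P.lf 0 2192133 0) (P.cons (P.lf 71929 0 0) (P.cons (P.lf 72993 0 0) (P.cons (P.lf 123 0 0) P.nil))))) (P.cons (P.cons (P.lf 0 162565 0) (P.cons (P.lf 396758 0 0) (P.cons (P.lf 26187 0 0) (P.cons (P.lf 0 23308 0) P.nil)))) (P.cons (P.cons (P.lf 1571522 0 0) (P.cons (P.lf 473541 0 0) (P.cons (P.lf 0 34901 0) P.nil))) (P.cons (P.cons (P.lf 409768 0 0) (P.cons (P.lf 29265 0 0) P.nil)) (P.cons (P.cons (P.lf 0 50823 0) P.nil) P.nil)))))) 98872)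
 EL.nil))
noncomputable def S227_256_660_734_21 : EL := (EL.cons 4 (TM.mk (P.cons (P.cons (P.lf 2777463078 0 0) (P.cons (P.lf 87736830 0 0) (P.cons (P.lf 0 11297967 0) (P.lf 0 753195 0)))) (P.cons (P.cons (P.lf 0 72446622 0) (P.cons (P.lf 0 82813782 0) (P.cons (P.lf 10664019 0 0) (P.lf 710934 0 0)))) (P.cons (P.cons (P.lf 0 288680514 0) (P.cons (P.lf 0 7243785 0) (P.cons (P.lf 932787 0 0) (P.lf 62184 0 0)))) (P.cons (P.cons (P.lf 0 6601971 0) (P.cons (P.lf 2182791 0 0) (P.cons (P.lf 0 281076 0) P.nil))) (P.cons (P.cons (P.lf 6064776 0 0) (P.cons (P.lf 168927 0 0) P.nil)) (P.cons (P.cons (P.lf 194385 0 0) P.nil) P.nil)))))) 173952)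
 (EL.cons 8 (TM.mk (P.cons (P.cons (P.lf 0 210600882 0) (P.cons (P.lf 0 6652644 0) (P.cons (P.lf 856674 0 0) (P.lf 57114 0 0)))) (P.cons (P.cons (P.lf 217790025 0 0) (P.cons (P.lf 12985554 0 0) (P.cons (P.lf 0 1672161 0) (P.lf 0 111474 0)))) (P.cons (P.cons (P.lf 13794171 0 0) (P.cons (P.lf 0 5861436 0) (P.cons (P.lf 754779 0 0) (P.lf 50316 0 0)))) (P.cons (P.cons (P.lf 0 20622747 0) (P.cons (P.lf 0 615282 0) (P.cons (P.lf 79227 0 0) P.nil))) (P.cons (P.cons (P.lf 0 738843 0) (P.cons (P.lf 134052 0 0) P.nil)) (P.cons (P.cons (P.lf 368031 0 0) P.nil) P.nil)))))) 103905)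
 (EL.cons 11 (TM.mk (P.cons (P.cons (P.lf 1802490564 0 0) (P.cons (P.lf 0 514570323 0) (P.cons (P.lf 0 38489031 0) (P.cons (P.lf 2593599 0 0) (P.lf 129678 0 0))))) (P.cons (P.cons (P.lf 57827712 0 0) (P.cons (P.lf 0 16508505 0) (P.cons (P.lf 0 1234809 0) (P.cons (P.lf 83208 0 0) (P.lf 4158 0 0))))) (P.cons (P.cons (P.lf 0 27988095 0) (P.cons (P.lf 7989969 0 0) (P.cons (P.lf 597636 0 0) (P.cons (P.lf 0 40272 0) P.nil)))) (P.cons (P.cons (P.lf 0 914652 0) (P.cons (P.lf 261111 0 0) (P.cons (P.lf 19530 0 0) P.nil))) (P.cons (P.cons (P.lf 214902 0 0) (P.cons (P.lf 0 61350 0) P.nil)) (P.cons (P.cons (P.lf 8088 0 0) P.nil) P.nil)))))) 12954)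
 EL.nil)))
noncomputable def S227_256_660_734_22 : EL := (EL.cons 4 (TM.mk (P.cons (P.cons (P.lf 0 1050156591 0) (P.cons (P.lf 0 211969287 0) (P.cons (P.lf 21647556 0 0) (P.cons (P.lf 3274287 0 0) (P.cons (P.lf 3315 0 0) (P.cons (P.lf 0 12486 0) P.nil)))))) (P.cons (P.cons (P.lf 0 244990107 0) (P.cons (P.lf 18767025 0 0) (P.cons (P.lf 2642592 0 0) (P.cons (P.lf 0 1464078 0) (P.cons (P.lf 0 2970 0) P.nil))))) (P.cons (P.cons (P.lf 120903690 0 0) (P.cons (P.lf 33910440 0 0) (P.cons (P.lf 0 3514455 0) (P.cons (P.lf 0 510591 0) P.nil)))) (P.cons (P.cons (P.lf 39731751 0 0) (P.cons (P.lf 1447950 0 0) (P.cons (P.lf 0 420213 0) P.nil))) (P.cons (P.cons (P.lf 0 2248224 0) (P.cons (P.lf 0 1403520 0) P.nil)) (P.cons (P.cons (P.lf 0 1720443 0) P.nil) P.nil)))))) 761991)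
 (EL.cons 8 (TM.mk (P.cons (P.cons (P.lf 79628025 0 0) (P.cons (P.lf 16072554 0 0) (P.cons (P.lf 0 1641426 0) (P.cons (P.lf 0 248274 0) (P.cons (P.lf 0 249 0) (P.cons (P.lf 945 0 0) P.nil)))))) (P.cons (P.cons (P.lf 0 61692885 0) (P.cons (P.lf 0 17624982 0) (P.cons (P.lf 1454265 0 0) (P.cons (P.lf 361281 0 0) (P.cons (P.lf 477 0 0) P.nil))))) (P.cons (P.cons (P.lf 0 26926458 0) (P.cons (P.lf 0 941607 0) (P.cons (P.lf 448539 0 0) (P.cons (P.lf 0 76203 0) P.nil)))) (P.cons (P.cons (P.lf 6123282 0 0) (P.cons (P.lf 2398080 0 0) (P.cons (P.lf 0 232374 0) P.nil))) (P.cons (P.cons (P.lf 3025401 0 0) (P.cons (P.lf 193110 0 0) P.nil)) (P.cons (P.cons (P.lf 0 39723 0) P.nil) P.nil)))))) 418860)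
 (EL.cons 11 (TM.mk (P.cons (P.cons (P.lf 0 681520257 0) (P.cons (P.lf 78525327 0 0) (P.cons (P.lf 62619294 0 0) (P.cons (P.lf 0 1772361 0) (P.cons (P.lf 0 819414 0) (P.cons (P.lf 0 8118 0) P.nil)))))) (P.cons (P.cons (P.lf 0 198632469 0) (P.cons (P.lf 47398596 0 0) (P.cons (P.lf 8096643 0 0) (P.cons (P.lf 0 349311 0) (P.cons (P.lf 0 76077 0) P.nil))))) (P.cons (P.cons (P.lf 7928298 0 0) (P.cons (P.lf 2016975 0 0) (P.cons (P.lf 0 1942410 0) (P.cons (P.lf 40614 0 0) P.nil)))) (P.cons (P.cons (P.lf 9058158 0 0) (P.cons (P.lf 0 2223138 0) (P.cons (P.lf 0 343692 0) P.nil))) (P.cons (P.cons (P.lf 225603 0 0) (P.cons (P.lf 0 142614 0) P.nil)) (P.cons (P.cons (P.lf 0 177894 0) P.nil) P.nil)))))) 228810)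
 EL.nil)))
noncomputable def S227_256_660_734_23 : EL := (EL.cons 4 (TM.mk (P.cons (P.cons (P.lf 0 313377780 0) (P.cons (P.lf 0 9899238 0) (P.cons (P.lf 1274733 0 0) (P.lf 84981 0 0)))) (P.cons (P.cons (P.lf 319048467 0 0) (P.cons (P.lf 19163937 0 0) (P.cons (P.lf 0 2467761 0) (P.lf 0 164517 0)))) (P.cons (P.cons (P.lf 28197768 0 0) (P.cons (P.lf 0 8333841 0) (P.cons (P.lf 1073157 0 0) (P.lf 71544 0 0)))) (P.cons (P.cons (P.lf 0 32875659 0) (P.cons (P.lf 0 1206705 0) (P.cons (P.lf 155388 0 0) P.nil))) (P.cons (P.cons (P.lf 0 1804419 0) (P.cons (P.lf 250869 0 0) P.nil)) (P.cons (P.cons (P.lf 779244 0 0) P.nil) P.nil)))))) 153342)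
 (EL.cons 8 (TM.mk (P.cons (P.cons (P.lf 23761839 0 0) (P.cons (P.lf 750609 0 0) (P.cons (P.lf 0 96657 0) (P.lf 0 6444 0)))) (P.cons (P.cons (P.lf 0 48145005 0) (P.cons (P.lf 0 2209755 0) (P.cons (P.lf 284553 0 0) (P.lf 18969 0 0)))) (P.cons (P.cons (P.lf 22537095 0 0) (P.cons (P.lf 2105832 0 0) (P.cons (P.lf 0 271167 0) (P.lf 0 18075 0)))) (P.cons (P.cons (P.lf 4255551 0 0) (P.cons (P.lf 0 566268 0) (P.cons (P.lf 72918 0 0) P.nil))) (P.cons (P.cons (P.lf 0 2299497 0) (P.cons (P.lf 0 97479 0) P.nil)) (P.cons (P.cons (P.lf 0 160251 0) P.nil) P.nil)))))) 112707)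
 (EL.cons 11 (TM.mk (P.cons (P.cons (P.lf 0 203372817 0) (P.cons (P.lf 58058343 0 0) (P.cons (P.lf 4342668 0 0) (P.cons (P.lf 0 292632 0) (P.lf 0 14631 0))))) (P.cons (P.cons (P.lf 195223569 0 0) (P.cons (P.lf 0 55731915 0) (P.cons (P.lf 0 4168656 0) (P.cons (P.lf 280905 0 0) (P.lf 14043 0 0))))) (P.cons (P.cons (P.lf 12054315 0 0) (P.cons (P.lf 0 3441234 0) (P.cons (P.lf 0 257397 0) (P.cons (P.lf 17343 0 0) P.nil)))) (P.cons (P.cons (P.lf 0 3738126 0) (P.cons (P.lf 1067148 0 0) (P.cons (P.lf 79821 0 0) P.nil))) (P.cons (P.cons (P.lf 0 205452 0) (P.cons (P.lf 58650 0 0) P.nil)) (P.cons (P.cons (P.lf 36621 0 0) P.nil) P.nil)))))) 28152)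
 EL.nil)))
noncomputable def S227_256_660_734_24 : EL := (EL.cons 4 (TM.mk (P.cons (P.cons (P.lf 118487889 0 0) (P.cons (P.lf 23916234 0 0) (P.cons (P.lf 0 2442465 0) (P.cons (P.lf 0 369432 0) (P.cons (P.lf 0 372 0) (P.cons (P.lf 1407 0 0) P.nil)))))) (P.cons (P.cons (P.lf 0 89899428 0) (P.cons (P.lf 0 25842645 0) (P.cons (P.lf 2124795 0 0) (P.cons (P.lf 531672 0 0) (P.cons (P.lf 705 0 0) P.nil))))) (P.cons (P.cons (P.lf 0 42474762 0) (P.cons (P.lf 0 2010579 0) (P.cons (P.lf 721419 0 0) (P.cons (P.lf 0 101856 0) P.nil)))) (P.cons (P.cons (P.lf 9178299 0 0) (P.cons (P.lf 3749859 0 0) (P.cons (P.lf 0 351840 0) P.nil))) (P.cons (P.cons (P.lf 4979517 0 0) (P.cons (P.lf 359712 0 0) P.nil)) (P.cons (P.cons (P.lf 0 56430 0) P.nil) P.nil)))))) 693657)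
 (EL.cons 8 (TM.mk (P.cons (P.cons (P.lf 0 8984331 0) (P.cons (P.lf 0 1813446 0) (P.cons (P.lf 185199 0 0) (P.cons (P.lf 28011 0 0) (P.cons (P.lf 27 0 0) (P.cons (P.lf 0 105 0) P.nil)))))) (P.cons (P.cons (P.lf 15873294 0 0) (P.cons (P.lf 3787563 0 0) (P.cons (P.lf 0 347802 0) (P.cons (P.lf 0 68550 0) (P.cons (P.lf 0 81 0) P.nil))))) (P.cons (P.cons (P.lf 0 3759966 0) (P.cons (P.lf 0 1844865 0) (P.cons (P.lf 109956 0 0) (P.cons (P.lf 48699 0 0) P.nil)))) (P.cons (P.cons (P.lf 0 3822396 0) (P.cons (P.lf 0 406677 0) (P.cons (P.lf 79092 0 0) P.nil))) (P.cons (P.cons (P.lf 334011 0 0) (P.cons (P.lf 252903 0 0) P.nil)) (P.cons (P.cons (P.lf 363768 0 0) P.nil) P.nil)))))) 208092)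
 (EL.cons 11 (TM.mk (P.cons (P.cons (P.lf 76895100 0 0) (P.cons (P.lf 0 8859915 0) (P.cons (P.lf 0 7065258 0) (P.cons (P.lf 199971 0 0) (P.cons (P.lf 92451 0 0) (P.cons (P.lf 915 0 0) P.nil)))))) (P.cons (P.cons (P.lf 0 53869374 0) (P.cons (P.lf 3441213 0 0) (P.cons (P.lf 6095283 0 0) (P.cons (P.lf 0 158961 0) (P.cons (P.lf 0 83130 0) P.nil))))) (P.cons (P.cons (P.lf 0 24043458 0) (P.cons (P.lf 5183229 0 0) (P.cons (P.lf 1209603 0 0) (P.cons (P.lf 0 46062 0) P.nil)))) (P.cons (P.cons (P.lf 0 104382 0) (P.cons (P.lf 506067 0 0) (P.cons (P.lf 0 195063 0) P.nil))) (P.cons (P.cons (P.lf 1091763 0 0) (P.cons (P.lf 0 251400 0) P.nil)) (P.cons (P.cons (P.lf 54663 0 0) P.nil) P.nil)))))) 199335)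
 EL.nil)))
noncomputable def S227_256_660_734_25 : EL := (EL.cons 4 (TM.mk (P.cons (P.cons (P.lf 35358033 0 0) (P.cons (P.lf 1116918 0 0) (P.cons (P.lf 0 143826 0) (P.lf 0 9588 0)))) (P.cons (P.cons (P.lf 0 71073429 0) (P.cons (P.lf 0 3270240 0) (P.cons (P.lf 421110 0 0) (P.lf 28074 0 0)))) (P.cons (P.cons (P.lf 32107341 0 0) (P.cons (P.lf 3071955 0 0) (P.cons (P.lf 0 395577 0) (P.lf 0 26370 0)))) (P.cons (P.cons (P.lf 7431204 0 0) (P.cons (P.lf 0 766542 0) (P.cons (P.lf 98706 0 0) P.nil))) (P.cons (P.cons (P.lf 0 3574608 0) (P.cons (P.lf 0 182847 0) P.nil)) (P.cons (P.cons (P.lf 0 349746 0) P.nil) P.nil)))))) 214068)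
 (EL.cons 8 (TM.mk (P.cons (P.cons (P.lf 0 2681019 0) (P.cons (P.lf 0 84690 0) (P.cons (P.lf 10905 0 0) (P.lf 726 0 0)))) (P.cons (P.cons (P.lf 8091744 0 0) (P.cons (P.lf 333336 0 0) (P.cons (P.lf 0 42924 0) (P.lf 0 2859 0)))) (P.cons (P.cons (P.lf 0 7899627 0) (P.cons (P.lf 0 483921 0) (P.cons (P.lf 62313 0 0) (P.lf 4152 0 0)))) (P.cons (P.cons (P.lf 1967259 0 0) (P.cons (P.lf 296292 0 0) (P.cons (P.lf 0 38151 0) P.nil))) (P.cons (P.cons (P.lf 786864 0 0) (P.cons (P.lf 0 48591 0) P.nil)) (P.cons (P.cons (P.lf 0 242940 0) P.nil) P.nil)))))) 75375)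
 (EL.cons 11 (TM.mk (P.cons (P.cons (P.lf 22946307 0 0) (P.cons (P.lf 0 6550650 0) (P.cons (P.lf 0 489978 0) (P.cons (P.lf 33015 0 0) (P.lf 1650 0 0))))) (P.cons (P.cons (P.lf 0 44789841 0) (P.cons (P.lf 12786486 0 0) (P.cons (P.lf 956406 0 0) (P.cons (P.lf 0 64446 0) (P.lf 0 3222 0))))) (P.cons (P.cons (P.lf 20217312 0 0) (P.cons (P.lf 0 5771586 0) (P.cons (P.lf 0 431703 0) (P.cons (P.lf 29088 0 0) P.nil)))) (P.cons (P.cons (P.lf 2122242 0 0) (P.cons (P.lf 0 605850 0) (P.cons (P.lf 0 45315 0) P.nil))) (P.cons (P.cons (P.lf 0 462384 0) (P.cons (P.lf 132000 0 0) P.nil)) (P.cons (P.cons (P.lf 0 39480 0) P.nil) P.nil)))))) 40149)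
 EL.nil)))
noncomputable def S227_256_660_734_26 : EL := (EL.cons 4 (TM.mk (P.cons (P.cons (P.lf 0 13368843 0) (P.cons (P.lf 0 2698437 0) (P.cons (P.lf 275580 0 0) (P.cons (P.lf 41682 0 0) (P.cons (P.lf 42 0 0) (P.cons (P.lf 0 156 0) P.nil)))))) (P.cons (P.cons (P.lf 23405292 0 0) (P.cons (P.lf 5592675 0 0) (P.cons (P.lf 0 513117 0) (P.cons (P.lf 0 101337 0) (P.cons (P.lf 0 120 0) P.nil))))) (P.cons (P.cons (P.lf 0 5110497 0) (P.cons (P.lf 0 2633487 0) (P.cons (P.lf 153141 0 0) (P.cons (P.lf 70503 0 0) P.nil)))) (P.cons (P.cons (P.lf 0 5962260 0) (P.cons (P.lf 0 693318 0) (P.cons (P.lf 124365 0 0) P.nil))) (P.cons (P.cons (P.lf 446526 0 0) (P.cons (P.lf 387483 0 0) P.nil)) (P.cons (P.cons (P.lf 595578 0 0) P.nil) P.nil)))))) 336501)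
 (EL.cons 8 (TM.mk (P.cons (P.cons (P.lf 1013691 0 0) (P.cons (P.lf 204606 0 0) (P.cons (P.lf 0 20895 0) (P.cons (P.lf 0 3159 0) (P.cons (P.lf 0 3 0) (P.cons (P.lf 12 0 0) P.nil)))))) (P.cons (P.cons (P.lf 0 2796558 0) (P.cons (P.lf 0 630318 0) (P.cons (P.lf 59970 0 0) (P.cons (P.lf 10869 0 0) (P.cons (P.lf 12 0 0) P.nil))))) (P.cons (P.cons (P.lf 2188806 0 0) (P.cons (P.lf 629646 0 0) (P.cons (P.lf 0 51084 0) (P.cons (P.lf 0 13128 0) P.nil)))) (P.cons (P.cons (P.lf 35697 0 0) (P.cons (P.lf 0 154719 0) (P.cons (P.lf 2832 0 0) P.nil))) (P.cons (P.cons (P.lf 0 477420 0) (P.cons (P.lf 0 78168 0) P.nil)) (P.cons (P.cons (P.lf 0 7311 0) P.nil) P.nil)))))) 135840)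
 (EL.cons 11 (TM.mk (P.cons (P.cons (P.lf 0 8675979 0) (P.cons (P.lf 999654 0 0) (P.cons (P.lf 797163 0 0) (P.cons (P.lf 0 22563 0) (P.cons (P.lf 0 10431 0) (P.cons (P.lf 0 102 0) P.nil)))))) (P.cons (P.cons (P.lf 14684688 0 0) (P.cons (P.lf 0 1379934 0) (P.cons (P.lf 0 1478517 0) (P.cons (P.lf 40317 0 0) (P.cons (P.lf 19725 0 0) P.nil))))) (P.cons (P.cons (P.lf 0 3213261 0) (P.cons (P.lf 0 211563 0) (P.cons (P.lf 536247 0 0) (P.cons (P.lf 0 12324 0) P.nil)))) (P.cons (P.cons (P.lf 0 2785338 0) (P.cons (P.lf 531540 0 0) (P.cons (P.lf 168675 0 0) P.nil))) (P.cons (P.cons (P.lf 0 144375 0) (P.cons (P.lf 90555 0 0) P.nil)) (P.cons (P.cons (P.lf 126984 0 0) P.nil) P.nil)))))) 155214)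
 EL.nil)))
noncomputable def S227_256_660_734_27 : EL := (EL.cons 13 (TM.mk (P.lf 0 4294967296 0) 0)
 EL.nil)
noncomputable def S227_256_660_734_28 : EL := (EL.cons 13 (TM.mk (P.cons (P.cons (P.lf 1623923739 0 0) (P.cons (P.lf 276483692 0 0) (P.cons (P.lf 0 35603108 0) (P.lf 0 2373540 0)))) (P.cons (P.cons (P.lf 421201743 0 0) (P.cons (P.lf 13305272 0 0) (P.cons (P.lf 0 1713332 0) (P.lf 0 114220 0)))) (P.cons (P.cons (P.lf 0 7189159 0) (P.cons (P.lf 0 6332916 0) (P.cons (P.lf 815492 0 0) (P.lf 54364 0 0)))) (P.cons (P.cons (P.lf 0 13988872 0) (P.cons (P.lf 0 314316 0) (P.cons (P.lf 40472 0 0) P.nil))) (P.cons (P.cons (P.lf 0 180284 0) (P.cons (P.lf 71900 0 0) P.nil)) (P.cons (P.cons (P.lf 151307 0 0) P.nil) P.nil)))))) 33103)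
 EL.nil)
noncomputable def S227_256_660_734_29 : EL := (EL.cons 13 (TM.mk (P.cons (P.cons (P.lf 0 614004281 0) (P.cons (P.lf 0 209076530 0) (P.cons (P.lf 9124687 0 0) (P.cons (P.lf 6378687 0 0) (P.cons (P.lf 10456 0 0) (P.cons (P.lf 0 39350 0) P.nil)))))) (P.cons (P.cons (P.lf 0 318512092 0) (P.cons (P.lf 0 64290203 0) (P.cons (P.lf 6565694 0 0) (P.cons (P.lf 993088 0 0) (P.cons (P.lf 1006 0 0) P.nil))))) (P.cons (P.cons (P.lf 0 35870265 0) (P.cons (P.lf 3104868 0 0) (P.cons (P.lf 374316 0 0) (P.cons (P.lf 0 226023 0) P.nil)))) (P.cons (P.cons (P.lf 11988425 0 0) (P.cons (P.lf 3325384 0 0) (P.cons (P.lf 0 348505 0) P.nil))) (P.cons (P.cons (P.lf 2868037 0 0) (P.cons (P.lf 95960 0 0) P.nil)) (P.cons (P.cons (P.lf 0 125888 0) P.nil) P.nil)))))) 345146)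
 EL.nil)
noncomputable def S227_256_660_734_30 : EL := (EL.cons 13 (TM.mk (P.cons (P.lf 484595936 0 0) (P.cons (P.lf 0 480724804 0) (P.cons (P.lf 0 5775768 0) (P.cons (P.lf 1873960 0 0) (P.cons (P.lf 38036 0 0) (P.cons (P.lf 0 7180 0) P.nil)))))) 280)
 EL.nil)
noncomputable def S227_256_660_734_31 : EL := (EL.cons 13 (TM.mk (P.cons (P.cons (P.lf 0 183225340 0) (P.cons (P.lf 0 31195318 0) (P.cons (P.lf 4017055 0 0) (P.lf 267803 0 0)))) (P.cons (P.cons (P.lf 134237987 0 0) (P.cons (P.lf 29444901 0 0) (P.cons (P.lf 0 3791652 0) (P.lf 0 252777 0)))) (P.cons (P.cons (P.lf 50139000 0 0) (P.cons (P.lf 2575569 0 0) (P.cons (P.lf 0 331658 0) (P.lf 0 22110 0)))) (P.cons (P.cons (P.lf 631562 0 0) (P.cons (P.lf 0 776104 0) (P.cons (P.lf 99939 0 0) P.nil))) (P.cons (P.cons (P.lf 0 1753223 0) (P.cons (P.lf 0 60063 0) P.nil)) (P.cons (P.cons (P.lf 0 53941 0) P.nil) P.nil))))))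 59058)
 EL.nil)
noncomputable def S227_256_660_734_32 : EL := (EL.cons 13 (TM.mk (P.cons (P.cons (P.lf 69277356 0 0) (P.cons (P.lf 23589850 0 0) (P.cons (P.lf 0 1029527 0) (P.cons (P.lf 0 719699 0) (P.cons (P.lf 0 1179 0) (P.cons (P.lf 4439 0 0) P.nil)))))) (P.cons (P.cons (P.lf 0 32786611 0) (P.cons (P.lf 0 16147620 0) (P.cons (P.lf 280503 0 0) (P.cons (P.lf 601901 0 0) (P.cons (P.lf 1056 0 0) P.nil))))) (P.cons (P.cons (P.lf 0 32428750 0) (P.cons (P.lf 0 7827319 0) (P.cons (P.lf 704918 0 0) (P.cons (P.lf 145233 0 0) P.nil)))) (P.cons (P.cons (P.lf 0 5527935 0) (P.cons (P.lf 0 22911 0) (P.cons (P.lf 86065 0 0) P.nil))) (P.cons (P.cons (P.lf 1114408 0 0) (P.cons (P.lf 395452 0 0) P.nil)) (P.cons (P.cons (P.lf 368782 0 0) P.nil) P.nil)))))) 201576)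
 EL.nil)
noncomputable def S227_256_660_734_33 : EL := (EL.cons 14 (TM.mk (P.lf 8589934592 0 0) 0)
 EL.nil)
noncomputable def S227_256_660_734_34 : EL := (EL.cons 14 (TM.mk (P.cons (P.cons (P.lf 0 3247847478 0) (P.cons (P.lf 0 552967384 0) (P.cons (P.lf 71206216 0 0) (P.lf 4747080 0 0)))) (P.cons (P.cons (P.lf 0 842403486 0) (P.cons (P.lf 0 26610544 0) (P.cons (P.lf 3426664 0 0) (P.lf 228440 0 0)))) (P.cons (P.cons (P.lf 14378318 0 0) (P.cons (P.lf 12665832 0 0) (P.cons (P.lf 0 1630984 0) (P.lf 0 108728 0)))) (P.cons (P.cons (P.lf 27977744 0 0) (P.cons (P.lf 628632 0 0) (P.cons (P.lf 0 80944 0) P.nil))) (P.cons (P.cons (P.lf 360568 0 0) (P.cons (P.lf 0 143800 0) P.nil)) (P.cons (P.cons (P.lf 0 302614 0) P.nil) P.nil)))))) 66206)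
 EL.nil)
noncomputable def S227_256_660_734_35 : EL := (EL.cons 14 (TM.mk (P.cons (P.cons (P.lf 1228008562 0 0) (P.cons (P.lf 418153060 0 0) (P.cons (P.lf 0 18249374 0) (P.cons (P.lf 0 12757374 0) (P.cons (P.lf 0 20912 0) (P.cons (P.lf 78700 0 0) P.nil)))))) (P.cons (P.cons (P.lf 637024184 0 0) (P.cons (P.lf 128580406 0 0) (P.cons (P.lf 0 13131388 0) (P.cons (P.lf 0 1986176 0) (P.cons (P.lf 0 2012 0) P.nil))))) (P.cons (P.cons (P.lf 71740530 0 0) (P.cons (P.lf 0 6209736 0) (P.cons (P.lf 0 748632 0) (P.cons (P.lf 452046 0 0) P.nil)))) (P.cons (P.cons (P.lf 0 23976850 0) (P.cons (P.lf 0 6650768 0) (P.cons (P.lf 697010 0 0) P.nil))) (P.cons (P.cons (P.lf 0 5736074 0) (P.cons (P.lf 0 191920 0) P.nil)) (P.cons (P.cons (P.lf 251776 0 0) P.nil) P.nil)))))) 690292)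
 EL.nil)
noncomputable def S227_256_660_734_36 : EL := (EL.cons 14 (TM.mk (P.cons (P.lf 0 969191872 0) (P.cons (P.lf 961449608 0 0) (P.cons (P.lf 11551536 0 0) (P.cons (P.lf 0 3747920 0) (P.cons (P.lf 0 76072 0) (P.cons (P.lf 14360 0 0) P.nil)))))) 560)
 EL.nil)
noncomputable def S227_256_660_734_37 : EL := (EL.cons 14 (TM.mk (P.cons (P.cons (P.lf 366450680 0 0) (P.cons (P.lf 62390636 0 0) (P.cons (P.lf 0 8034110 0) (P.lf 0 535606 0)))) (P.cons (P.cons (P.lf 0 268475974 0) (P.cons (P.lf 0 58889802 0) (P.cons (P.lf 7583304 0 0) (P.lf 505554 0 0)))) (P.cons (P.cons (P.lf 0 100278000 0) (P.cons (P.lf 0 5151138 0) (P.cons (P.lf 663316 0 0) (P.lf 44220 0 0)))) (P.cons (P.cons (P.lf 0 1263124 0) (P.cons (P.lf 1552208 0 0) (P.cons (P.lf 0 199878 0) P.nil))) (P.cons (P.cons (P.lf 3506446 0 0) (P.cons (P.lf 120126 0 0) P.nil)) (P.cons (P.cons (P.lf 107882 0 0) P.nil) P.nil))))))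 118116)
 EL.nil)
noncomputable def S227_256_660_734_38 : EL := (EL.cons 14 (TM.mk (P.cons (P.cons (P.lf 0 138554712 0) (P.cons (P.lf 0 47179700 0) (P.cons (P.lf 2059054 0 0) (P.cons (P.lf 1439398 0 0) (P.cons (P.lf 2358 0 0) (P.cons (P.lf 0 8878 0) P.nil)))))) (P.cons (P.cons (P.lf 65573222 0 0) (P.cons (P.lf 32295240 0 0) (P.cons (P.lf 0 561006 0) (P.cons (P.lf 0 1203802 0) (P.cons (P.lf 0 2112 0) P.nil))))) (P.cons (P.cons (P.lf 64857500 0 0) (P.cons (P.lf 15654638 0 0) (P.cons (P.lf 0 1409836 0) (P.cons (P.lf 0 290466 0) P.nil)))) (P.cons (P.cons (P.lf 11055870 0 0) (P.cons (P.lf 45822 0 0) (P.cons (P.lf 0 172130 0) P.nil))) (P.cons (P.cons (P.lf 0 2228816 0) (P.cons (P.lf 0 790904 0) P.nil)) (P.cons (P.cons (P.lf 0 737564 0) P.nil) P.nil)))))) 403152)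
 EL.nil)
noncomputable def S227_256_660_734_39 : EL := (EL.cons 14 (TM.mk (P.cons (P.lf 109352740 0 0) (P.cons (P.lf 0 216958378 0) (P.cons (P.lf 105005926 0 0) (P.cons (P.lf 3431614 0 0) (P.cons (P.lf 0 806288 0) (P.cons (P.lf 0 30348 0) P.nil)))))) 5440)
 EL.nil)
noncomputable def S227_256_660_734_40 : EL := (EL.cons 14 (TM.mk (P.cons (P.cons (P.lf 0 41346184 0) (P.cons (P.lf 0 7039458 0) (P.cons (P.lf 906478 0 0) (P.lf 60430 0 0)))) (P.cons (P.cons (P.lf 71307712 0 0) (P.cons (P.lf 13627690 0 0) (P.cons (P.lf 0 1754852 0) (P.lf 0 116990 0)))) (P.cons (P.cons (P.lf 0 18242796 0) (P.cons (P.lf 0 5926288 0) (P.cons (P.lf 763134 0 0) (P.lf 50874 0 0)))) (P.cons (P.cons (P.lf 0 11602272 0) (P.cons (P.lf 0 858102 0) (P.cons (P.lf 110498 0 0) P.nil))) (P.cons (P.cons (P.lf 0 557962 0) (P.cons (P.lf 178394 0 0) P.nil)) (P.cons (P.cons (P.lf 425338 0 0) P.nil) P.nil))))))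 106948)
 EL.nil)
noncomputable def S227_256_660_734_41 : EL := (EL.cons 14 (TM.mk (P.cons (P.cons (P.lf 15632958 0 0) (P.cons (P.lf 5323228 0 0) (P.cons (P.lf 0 232320 0) (P.cons (P.lf 0 162404 0) (P.cons (P.lf 0 266 0) (P.cons (P.lf 1000 0 0) P.nil)))))) (P.cons (P.cons (P.lf 0 22906624 0) (P.cons (P.lf 0 8924536 0) (P.cons (P.lf 293762 0 0) (P.cons (P.lf 296930 0 0) (P.cons (P.lf 502 0 0) P.nil))))) (P.cons (P.cons (P.lf 0 164672 0) (P.cons (P.lf 1784984 0 0) (P.cons (P.lf 99046 0 0) (P.cons (P.lf 0 100028 0) P.nil)))) (P.cons (P.cons (P.lf 6160550 0 0) (P.cons (P.lf 1811028 0 0) (P.cons (P.lf 0 140030 0) P.nil))) (P.cons (P.cons (P.lf 1548764 0 0) (P.cons (P.lf 101744 0 0) P.nil)) (P.cons (P.cons (P.lf 0 180488 0) P.nil) P.nil)))))) 345744)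
 EL.nil)
noncomputable def S227_256_660_734_42 : EL := (EL.cons 14 (TM.mk (P.cons (P.lf 0 12338136 0) (P.cons (P.lf 36718724 0 0) (P.cons (P.lf 0 35984236 0) (P.cons (P.lf 11026388 0 0) (P.cons (P.lf 709966 0 0) (P.cons (P.lf 0 125918 0) P.nil)))))) 9172)
 EL.nil)
noncomputable def S227_256_660_734_43 : EL := (EL.cons 14 (TM.mk (P.cons (P.cons (P.lf 4665038 0 0) (P.cons (P.lf 794252 0 0) (P.cons (P.lf 0 102276 0) (P.lf 0 6818 0)))) (P.cons (P.cons (P.lf 0 12673334 0) (P.cons (P.lf 0 2325504 0) (P.cons (P.lf 299456 0 0) (P.lf 19962 0 0)))) (P.cons (P.cons (P.lf 9984002 0 0) (P.cons (P.lf 2184502 0 0) (P.cons (P.lf 0 281300 0) (P.lf 0 18752 0)))) (P.cons (P.cons (P.lf 0 618866 0) (P.cons (P.lf 0 545096 0) (P.cons (P.lf 70192 0 0) P.nil))) (P.cons (P.cons (P.lf 0 1290936 0) (P.cons (P.lf 0 130026 0) P.nil)) (P.cons (P.cons (P.lf 0 118784 0) P.nil) P.nil)))))) 126832)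
 EL.nil)
noncomputable def S227_256_660_734_44 : EL := (EL.cons 14 (TM.mk (P.cons (P.cons (P.lf 0 1763846 0) (P.cons (P.lf 0 600612 0) (P.cons (P.lf 26212 0 0) (P.cons (P.lf 18324 0 0) (P.cons (P.lf 30 0 0) (P.cons (P.lf 0 112 0) P.nil)))))) (P.cons (P.cons (P.lf 4334284 0 0) (P.cons (P.lf 1602760 0 0) (P.cons (P.lf 0 59146 0) (P.cons (P.lf 0 51680 0) (P.cons (P.lf 0 86 0) P.nil))))) (P.cons (P.cons (P.lf 0 2524276 0) (P.cons (P.lf 0 1193138 0) (P.cons (P.lf 21392 0 0) (P.cons (P.lf 44302 0 0) P.nil)))) (P.cons (P.cons (P.lf 0 751144 0) (P.cons (P.lf 0 18870 0) (P.cons (P.lf 27382 0 0) P.nil))) (P.cons (P.cons (P.lf 524422 0 0) (P.cons (P.lf 197470 0 0) P.nil)) (P.cons (P.cons (P.lf 202298 0 0) P.nil) P.nil)))))) 225574)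
 EL.nil)
noncomputable def S227_256_660_734_45 : EL := (EL.cons 14 (TM.mk (P.cons (P.cons (P.lf 0 464309066 0) (P.cons (P.lf 0 237155012 0) (P.cons (P.lf 0 9838488 0) (P.cons (P.lf 10143250 0 0) (P.cons (P.lf 908954 0 0) (P.cons (P.lf 0 144246 0) P.nil)))))) (P.cons (P.cons (P.lf 0 361287510 0) (P.cons (P.lf 0 134435798 0) (P.cons (P.lf 2952534 0 0) (P.cons (P.lf 4521294 0 0) (P.cons (P.lf 136234 0 0) P.nil))))) (P.cons (P.cons (P.lf 0 87541642 0) (P.cons (P.lf 0 14342826 0) (P.cons (P.lf 2773920 0 0) (P.cons (P.lf 25936 0 0) P.nil)))) (P.cons (P.cons (P.lf 7096086 0 0) (P.cons (P.lf 7051194 0 0) (P.cons (P.lf 93362 0 0) P.nil))) (P.cons (P.cons (P.lf 6766624 0 0) (P.cons (P.lf 1726118 0 0) P.nil)) (P.cons (P.cons (P.lf 644338 0 0) P.nil) P.nil)))))) 1508344)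
 EL.nil)
noncomputable def S227_256_660_734_46 : EL := (EL.cons 15 (TM.mk (P.lf 4294967296 0 0) 0)
 EL.nil)
noncomputable def S227_256_660_734_47 : EL := (EL.cons 15 (TM.mk (P.cons (P.cons (P.lf 0 1623923739 0) (P.cons (P.lf 0 276483692 0) (P.cons (P.lf 35603108 0 0) (P.lf 2373540 0 0)))) (P.cons (P.cons (P.lf 0 421201743 0) (P.cons (P.lf 0 13305272 0) (P.cons (P.lf 1713332 0 0) (P.lf 114220 0 0)))) (P.cons (P.cons (P.lf 7189159 0 0) (P.cons (P.lf 6332916 0 0) (P.cons (P.lf 0 815492 0) (P.lf 0 54364 0)))) (P.cons (P.cons (P.lf 13988872 0 0) (P.cons (P.lf 314316 0 0) (P.cons (P.lf 0 40472 0) P.nil))) (P.cons (P.cons (P.lf 180284 0 0) (P.cons (P.lf 0 71900 0) P.nil)) (P.cons (P.cons (P.lf 0 151307 0) P.nil) P.nil)))))) 33103)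
 EL.nil)
noncomputable def S227_256_660_734_48 : EL := (EL.cons 15 (TM.mk (P.cons (P.cons (P.lf 614004281 0 0) (P.cons (P.lf 209076530 0 0) (P.cons (P.lf 0 9124687 0) (P.cons (P.lf 0 6378687 0) (P.cons (P.lf 0 10456 0) (P.cons (P.lf 39350 0 0) P.nil)))))) (P.cons (P.cons (P.lf 318512092 0 0) (P.cons (P.lf 64290203 0 0) (P.cons (P.lf 0 6565694 0) (P.cons (P.lf 0 993088 0) (P.cons (P.lf 0 1006 0) P.nil))))) (P.cons (P.cons (P.lf 35870265 0 0) (P.cons (P.lf 0 3104868 0) (P.cons (P.lf 0 374316 0) (P.cons (P.lf 226023 0 0) P.nil)))) (P.cons (P.cons (P.lf 0 11988425 0) (P.cons (P.lf 0 3325384 0) (P.cons (P.lf 348505 0 0) P.nil))) (P.cons (P.cons (P.lf 0 2868037 0) (P.cons (P.lf 0 95960 0) P.nil)) (P.cons (P.cons (P.lf 125888 0 0) P.nil) P.nil)))))) 345146)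
 EL.nil)
noncomputable def S227_256_660_734 : SL := (SL.cons S227_256_660_734_0 (SL.cons S227_256_660_734_1 (SL.cons S227_256_660_734_2 (SL.cons S227_256_660_734_3 (SL.cons S227_256_660_734_4 (SL.cons S227_256_660_734_5 (SL.cons S227_256_660_734_6 (SL.cons S227_256_660_734_7 (SL.cons S227_256_660_734_8 (SL.cons S227_256_660_734_9 (SL.cons S227_256_660_734_10 (SL.cons S227_256_660_734_11 (SL.cons S227_256_660_734_12 (SL.cons S227_256_660_734_13 (SL.cons S227_256_660_734_14 (SL.cons S227_256_660_734_15 (SL.cons S227_256_660_734_16 (SL.cons S227_256_660_734_17 (SL.cons S227_256_660_734_18 (SL.cons S227_256_660_734_19 (SL.cons S227_256_660_734_20 (SL.cons S227_256_660_734_21 (SL.cons S227_256_660_734_22 (SL.cons S227_256_660_734_23 (SL.cons S227_256_660_734_24 (SL.cons S227_256_660_734_25 (SL.cons S227_256_660_734_26 (SL.cons S227_256_660_734_27 (SL.cons S227_256_660_734_28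 (SL.cons S227_256_660_734_29 (SL.cons S227_256_660_734_30 (SL.cons S227_256_660_734_31 (SL.cons S227_256_660_734_32 (SL.cons S227_256_660_734_33 (SL.cons S227_256_660_734_34 (SL.cons S227_256_660_734_35 (SL.cons S227_256_660_734_36 (SL.cons S227_256_660_734_37 (SL.cons S227_256_660_734_38 (SL.cons S227_256_660_734_39 (SL.cons S227_256_660_734_40 (SL.cons S227_256_660_734_41 (SL.cons S227_256_660_734_42 (SL.cons S227_256_660_734_43 (SL.cons S227_256_660_734_44 (SL.cons S227_256_660_734_45 (SL.cons S227_256_660_734_46 (SL.cons S227_256_660_734_47 (SL.cons S227_256_660_734_48 SL.nil)))))))))))))))))))))))))))))))))))))))))))))))))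
noncomputable def S227_256_660_808_0 : EL := (EL.cons 0 (TM.mk (P.cons (P.lf 8359606057 0 0) (P.cons (P.lf 190686074 0 0) (P.cons (P.lf 0 92290364 0) (P.cons (P.lf 0 3016066 0) (P.cons (P.lf 708651 0 0) (P.cons (P.lf 26673 0 0) P.nil)))))) 4788)
 (EL.cons 1 (TM.mk (P.cons (P.lf 0 450679505 0) (P.cons (P.lf 439849933 0 0) (P.cons (P.lf 16100088 0 0) (P.cons (P.lf 0 5127871 0) (P.cons (P.lf 0 176304 0) (P.cons (P.lf 32482 0 0) P.nil)))))) 1651)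
 (EL.cons 5 (TM.mk (P.cons (P.lf 4329140030 0 0) (P.cons (P.lf 0 67799490 0) (P.cons (P.lf 32814348 0 0) (P.cons (P.lf 1072376 0 0) (P.cons (P.lf 0 251962 0) (P.cons (P.lf 0 9484 0) P.nil)))))) 1837)
 (EL.cons 9 (TM.mk (P.lf 6442450944 0 0) 2)
 EL.nil))))
noncomputable def S227_256_660_808_1 : EL := (EL.cons 0 (TM.mk (P.cons (P.cons (P.lf 0 3021389044 0) (P.cons (P.lf 0 744768489 0) (P.cons (P.lf 321152577 0 0) (P.lf 35683620 0 0)))) (P.cons (P.cons (P.lf 0 1554055503 0) (P.cons (P.lf 0 106222061 0) (P.cons (P.lf 45804143 0 0) (P.lf 5089337 0 0)))) (P.cons (P.cons (P.lf 6044791 0 0) (P.cons (P.lf 47736087 0 0) (P.cons (P.lf 0 20584340 0) (P.lf 0 2287137 0)))) (P.cons (P.cons (P.lf 102515972 0 0) (P.cons (P.lf 5211253 0 0) (P.cons (P.lf 0 2247146 0) P.nil))) (P.cons (P.cons (P.lf 3565471 0 0) (P.cons (P.lf 0 1101902 0) P.nil)) (P.cons (P.cons (P.lf 0 2202288 0) P.nil)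 P.nil)))))) 1286144)
 (EL.cons 1 (TM.mk (P.cons (P.cons (P.lf 1587723192 0 0) (P.cons (P.lf 102956285 0 0) (P.cons (P.lf 0 44395912 0) (P.lf 0 4932877 0)))) (P.cons (P.cons (P.lf 0 147074646 0) (P.cons (P.lf 0 93494112 0) (P.cons (P.lf 40315713 0 0) (P.lf 4479519 0 0)))) (P.cons (P.cons (P.lf 0 234052248 0) (P.cons (P.lf 0 13808143 0) (P.cons (P.lf 5954221 0 0) (P.lf 661573 0 0)))) (P.cons (P.cons (P.lf 0 7434443 0) (P.cons (P.lf 3971075 0 0) (P.cons (P.lf 0 1712370 0) P.nil))) (P.cons (P.cons (P.lf 8572743 0 0) (P.cons (P.lf 456045 0 0) P.nil)) (P.cons (P.cons (P.lf 377607 0 0) P.nil) P.nil)))))) 817152)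
 (EL.cons 5 (TM.mk (P.cons (P.cons (P.lf 0 2091860674 0) (P.cons (P.lf 0 408926714 0) (P.cons (P.lf 176333810 0 0) (P.lf 19592644 0 0)))) (P.cons (P.cons (P.lf 0 183002030 0) (P.cons (P.lf 5345656 0 0) (P.cons (P.lf 0 2305108 0) (P.lf 0 256120 0)))) (P.cons (P.cons (P.lf 19359508 0 0) (P.cons (P.lf 0 1540824 0) (P.cons (P.lf 664416 0 0) (P.lf 73818 0 0)))) (P.cons (P.cons (P.lf 0 12208082 0) (P.cons (P.lf 0 1086958 0) (P.cons (P.lf 468710 0 0) P.nil))) (P.cons (P.cons (P.lf 0 1066680 0) (P.cons (P.lf 216570 0 0) P.nil)) (P.cons (P.cons (P.lf 520091 0 0) P.nil) P.nil)))))) 720447)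
 (EL.cons 9 (TM.mk (P.cons (P.cons (P.lf 0 2793646174 0) (P.cons (P.lf 0 594470544 0) (P.cons (P.lf 256342404 0 0) (P.lf 28482486 0 0)))) (P.cons (P.cons (P.lf 0 649019188 0) (P.cons (P.lf 0 28607808 0) (P.cons (P.lf 12336006 0 0) (P.lf 1370664 0 0)))) (P.cons (P.cons (P.lf 18978322 0 0) (P.cons (P.lf 13616472 0 0) (P.cons (P.lf 0 5871576 0) (P.lf 0 652392 0)))) (P.cons (P.cons (P.lf 21390024 0 0) (P.cons (P.lf 675810 0 0) (P.cons (P.lf 0 291414 0) P.nil))) (P.cons (P.cons (P.lf 177384 0 0) (P.cons (P.lf 0 154596 0) P.nil)) (P.cons (P.cons (P.lf 0 232006 0) P.nil) P.nil)))))) 150659)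
 (EL.cons 2 (TM.mk (P.cons (P.cons (P.lf 132449124 0 0) (P.cons (P.lf 0 123388613 0) (P.cons (P.lf 0 12663683 0) (P.cons (P.lf 2633692 0 0) (P.lf 219473 0 0))))) (P.cons (P.cons (P.lf 0 127141824 0) (P.cons (P.lf 118444370 0 0) (P.cons (P.lf 12156243 0 0) (P.cons (P.lf 0 2528159 0) (P.lf 0 210678 0))))) (P.cons (P.cons (P.lf 0 7850525 0) (P.cons (P.lf 7313490 0 0) (P.cons (P.lf 750600 0 0) (P.cons (P.lf 0 156102 0) P.nil)))) (P.cons (P.cons (P.lf 2434500 0 0) (P.cons (P.lf 0 2267963 0) (P.cons (P.lf 0 232765 0) P.nil))) (P.cons (P.cons (P.lf 133801 0 0) (P.cons (P.lf 0 124650 0) P.nil)) (P.cons (P.cons (P.lf 0 23850 0) P.nil) P.nil)))))) 118390)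
 (EL.cons 6 (TM.mk (P.cons (P.cons (P.lf 621075909 0 0) (P.cons (P.lf 0 578589663 0) (P.cons (P.lf 0 59382120 0) (P.cons (P.lf 12349827 0 0) (P.lf 1029150 0 0))))) (P.cons (P.cons (P.lf 29888145 0 0) (P.cons (P.lf 0 27843570 0) (P.cons (P.lf 0 2857653 0) (P.cons (P.lf 594312 0 0) (P.lf 49524 0 0))))) (P.cons (P.cons (P.lf 0 14225874 0) (P.cons (P.lf 13252719 0 0) (P.cons (P.lf 1360158 0 0) (P.cons (P.lf 0 282873 0) P.nil)))) (P.cons (P.cons (P.lf 0 706062 0) (P.cons (P.lf 657759 0 0) (P.cons (P.lf 67506 0 0) P.nil))) (P.cons (P.cons (P.lf 161517 0 0) (P.cons (P.lf 0 150468 0) P.nil)) (P.cons (P.cons (P.lf 8760 0 0) P.nil) P.nil)))))) 73293)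
 EL.nil))))))
noncomputable def S227_256_660_808_2 : EL := (EL.cons 0 (TM.mk (P.cons (P.cons (P.lf 1048430379 0 0) (P.cons (P.lf 534517150 0 0) (P.cons (P.lf 0 164222078 0) (P.cons (P.lf 0 82760784 0) (P.cons (P.lf 5971955 0 0) (P.cons (P.lf 2738231 0 0) P.nil)))))) (P.cons (P.cons (P.lf 1190303782 0 0) (P.cons (P.lf 352939220 0 0) (P.cons (P.lf 0 134448175 0) (P.cons (P.lf 0 32212254 0) (P.cons (P.lf 1598980 0 0) P.nil))))) (P.cons (P.cons (P.lf 227282334 0 0) (P.cons (P.lf 0 8976688 0) (P.cons (P.lf 0 3418211 0) (P.cons (P.lf 6716339 0 0) P.nil)))) (P.cons (P.cons (P.lf 0 83129929 0) (P.cons (P.lf 0 33628182 0) (P.cons (P.lf 13000584 0 0) P.nil))) (P.cons (P.cons (P.lf 0 26984917 0) (P.cons (P.lf 0 2001203 0) P.nil)) (P.cons (P.cons (P.lf 1355420 0 0) P.nil) P.nil)))))) 13787838)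
 (EL.cons 1 (TM.mk (P.cons (P.cons (P.lf 0 1292227968 0) (P.cons (P.lf 0 346235174 0) (P.cons (P.lf 134137446 0 0) (P.cons (P.lf 29665908 0 0) (P.cons (P.lf 0 1366466 0) (P.cons (P.lf 0 626544 0) P.nil)))))) (P.cons (P.cons (P.lf 0 235677695 0) (P.cons (P.lf 48296879 0 0) (P.cons (P.lf 0 7862136 0) (P.cons (P.lf 0 13494478 0) (P.cons (P.lf 1168295 0 0) P.nil))))) (P.cons (P.cons (P.lf 203937666 0 0) (P.cons (P.lf 70803049 0 0) (P.cons (P.lf 0 27381714 0) (P.cons (P.lf 0 6108404 0) P.nil)))) (P.cons (P.cons (P.lf 57933610 0 0) (P.cons (P.lf 2813012 0 0) (P.cons (P.lf 0 2020651 0) P.nil))) (P.cons (P.cons (P.lf 0 6626887 0) (P.cons (P.lf 0 3853325 0) P.nil)) (P.cons (P.cons (P.lf 0 3349707 0) P.nil) P.nil)))))) 7145321)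
 (EL.cons 5 (TM.mk (P.cons (P.cons (P.lf 1000157746 0 0) (P.cons (P.lf 394252682 0 0) (P.cons (P.lf 0 131400017 0) (P.cons (P.lf 0 52184414 0) (P.cons (P.lf 3479123 0 0) (P.cons (P.lf 1595231 0 0) P.nil)))))) (P.cons (P.cons (P.lf 214699802 0 0) (P.cons (P.lf 38374215 0 0) (P.cons (P.lf 0 16872638 0) (P.cons (P.lf 0 1558114 0) (P.cons (P.lf 0 29299 0) P.nil))))) (P.cons (P.cons (P.lf 0 25364646 0) (P.cons (P.lf 0 7628787 0) (P.cons (P.lf 3177308 0 0) (P.cons (P.lf 462382 0 0) P.nil)))) (P.cons (P.cons (P.lf 4199477 0 0) (P.cons (P.lf 3518308 0 0) (P.cons (P.lf 0 1262109 0) P.nil))) (P.cons (P.cons (P.lf 4599306 0 0) (P.cons (P.lf 547692 0 0) P.nil)) (P.cons (P.cons (P.lf 0 151560 0) P.nil) P.nil)))))) 7461324)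
 (EL.cons 9 (TM.mk (P.cons (P.cons (P.lf 1211411466 0 0) (P.cons (P.lf 515561662 0 0) (P.cons (P.lf 0 167461845 0) (P.cons (P.lf 0 72009238 0) (P.cons (P.lf 4943371 0 0) (P.cons (P.lf 2266611 0 0) P.nil)))))) (P.cons (P.cons (P.lf 562869624 0 0) (P.cons (P.lf 144585619 0 0) (P.cons (P.lf 0 57067434 0) (P.cons (P.lf 0 11480604 0) (P.cons (P.lf 475780 0 0) P.nil))))) (P.cons (P.cons (P.lf 48923689 0 0) (P.cons (P.lf 0 9547497 0) (P.cons (P.lf 1731130 0 0) (P.cons (P.lf 2515056 0 0) P.nil)))) (P.cons (P.cons (P.lf 0 22374544 0) (P.cons (P.lf 0 7445610 0) (P.cons (P.lf 2964981 0 0) P.nil))) (P.cons (P.cons (P.lf 0 4407637 0) (P.cons (P.lf 0 144565 0) P.nil)) (P.cons (P.cons (P.lf 291492 0 0) P.nil) P.nil)))))) 2738074)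
 (EL.cons 2 (TM.mk (P.cons (P.cons (P.lf 0 114868080 0) (P.cons (P.lf 82567029 0 0) (P.cons (P.lf 44294034 0 0) (P.cons (P.lf 0 8595073 0) (P.cons (P.lf 0 2775166 0) (P.cons (P.lf 57105 0 0) P.nil)))))) (P.cons (P.cons (P.lf 83579135 0 0) (P.cons (P.lf 0 55574218 0) (P.cons (P.lf 0 38364598 0) (P.cons (P.lf 7416315 0 0) (P.cons (P.lf 2495351 0 0) P.nil))))) (P.cons (P.cons (P.lf 33205601 0 0) (P.cons (P.lf 0 27796263 0) (P.cons (P.lf 0 7451083 0) (P.cons (P.lf 1470431 0 0) P.nil)))) (P.cons (P.cons (P.lf 0 399178 0) (P.cons (P.lf 0 517342 0) (P.cons (P.lf 1249987 0 0) P.nil))) (P.cons (P.cons (P.lf 0 1489770 0) (P.cons (P.lf 1275328 0 0) P.nil)) (P.cons (P.cons (P.lf 0 60598 0) P.nil) P.nil)))))) 2282607)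
 (EL.cons 6 (TM.mk (P.cons (P.cons (P.lf 0 538635480 0) (P.cons (P.lf 387170496 0 0) (P.cons (P.lf 207702078 0 0) (P.cons (P.lf 0 40303728 0) (P.cons (P.lf 0 13013220 0) (P.cons (P.lf 267792 0 0) P.nil)))))) (P.cons (P.cons (P.lf 0 151056510 0) (P.cons (P.lf 129691524 0 0) (P.cons (P.lf 29476656 0 0) (P.cons (P.lf 0 5851926 0) (P.cons (P.lf 0 1416876 0) P.nil))))) (P.cons (P.cons (P.lf 9974790 0 0) (P.cons (P.lf 0 4307166 0) (P.cons (P.lf 0 7747656 0) (P.cons (P.lf 1485486 0 0) P.nil)))) (P.cons (P.cons (P.lf 7778838 0 0) (P.cons (P.lf 0 6733422 0) (P.cons (P.lf 0 1443246 0) P.nil))) (P.cons (P.cons (P.lf 151032 0 0) (P.cons (P.lf 0 247908 0) P.nil)) (P.cons (P.cons (P.lf 0 181848 0) P.nil) P.nil)))))) 2142210)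
 EL.nil))))))
noncomputable def S227_256_660_808_3 : EL := (EL.cons 0 (TM.mk (P.cons (P.lf 96110806 0 0) (P.cons (P.lf 0 190686074 0) (P.cons (P.lf 92290364 0 0) (P.cons (P.lf 3016066 0 0) (P.cons (P.lf 0 708651 0) (P.cons (P.lf 0 26673 0) P.nil)))))) 4788)
 (EL.cons 1 (TM.mk (P.cons (P.lf 450679505 0 0) (P.cons (P.lf 0 439849933 0) (P.cons (P.lf 0 16100088 0) (P.cons (P.lf 5127871 0 0) (P.cons (P.lf 176304 0 0) (P.cons (P.lf 0 32482 0) P.nil)))))) 1651)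
 (EL.cons 5 (TM.mk (P.cons (P.lf 2113310914 0 0) (P.cons (P.lf 67799490 0 0) (P.cons (P.lf 0 32814348 0) (P.cons (P.lf 0 1072376 0) (P.cons (P.lf 251962 0 0) (P.cons (P.lf 9484 0 0) P.nil)))))) 1830)
 EL.nil)))
noncomputable def S227_256_660_808_4 : EL := (EL.cons 0 (TM.mk (P.cons (P.cons (P.lf 0 41676619 0) (P.cons (P.lf 0 8868524 0) (P.cons (P.lf 3824207 0 0) (P.lf 424910 0 0)))) (P.cons (P.cons (P.lf 73005082 0 0) (P.cons (P.lf 17168579 0 0) (P.cons (P.lf 0 7403283 0) (P.lf 0 822585 0)))) (P.cons (P.cons (P.lf 0 20526920 0) (P.cons (P.lf 0 7466116 0) (P.cons (P.lf 3219474 0 0) (P.lf 357718 0 0)))) (P.cons (P.cons (P.lf 0 10847909 0) (P.cons (P.lf 0 1081063 0) (P.cons (P.lf 466166 0 0) P.nil))) (P.cons (P.cons (P.lf 0 355139 0) (P.cons (P.lf 224748 0 0) P.nil)) (P.cons (P.cons (P.lf 389548 0 0) P.nil) P.nil)))))) 276173)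
 (EL.cons 1 (TM.mk (P.cons (P.cons (P.lf 0 195428583 0) (P.cons (P.lf 0 41585986 0) (P.cons (P.lf 17932346 0 0) (P.lf 1992481 0 0)))) (P.cons (P.cons (P.lf 145330625 0 0) (P.cons (P.lf 38585450 0 0) (P.cons (P.lf 0 16638480 0) (P.lf 0 1848718 0)))) (P.cons (P.cons (P.lf 52620058 0 0) (P.cons (P.lf 4391313 0 0) (P.cons (P.lf 0 1893583 0) (P.lf 0 210397 0)))) (P.cons (P.cons (P.lf 0 401051 0) (P.cons (P.lf 0 1284045 0) (P.cons (P.lf 553695 0 0) P.nil))) (P.cons (P.cons (P.lf 0 2088433 0) (P.cons (P.lf 0 130020 0) P.nil)) (P.cons (P.cons (P.lf 0 70363 0) P.nil) P.nil)))))) 225692)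
 (EL.cons 5 (TM.mk (P.cons (P.cons (P.lf 0 916397034 0) (P.cons (P.lf 0 195003592 0) (P.cons (P.lf 84087748 0 0) (P.lf 9343082 0 0)))) (P.cons (P.cons (P.lf 0 242297090 0) (P.cons (P.lf 0 15640318 0) (P.cons (P.lf 6744280 0 0) (P.lf 749362 0 0)))) (P.cons (P.cons (P.lf 13624566 0 0) (P.cons (P.lf 7193442 0 0) (P.cons (P.lf 0 3101892 0) (P.lf 0 344652 0)))) (P.cons (P.cons (P.lf 10987040 0 0) (P.cons (P.lf 609646 0 0) (P.cons (P.lf 0 262886 0) P.nil))) (P.cons (P.cons (P.lf 185400 0 0) (P.cons (P.lf 0 131442 0) P.nil)) (P.cons (P.cons (P.lf 0 215842 0) P.nil) P.nil)))))) 146416)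
 EL.nil)))
noncomputable def S227_256_660_808_5 : EL := (EL.cons 0 (TM.mk (P.cons (P.cons (P.lf 18072272 0 0) (P.cons (P.lf 7691333 0 0) (P.cons (P.lf 0 2498255 0) (P.cons (P.lf 0 1074258 0) (P.cons (P.lf 73745 0 0) (P.cons (P.lf 33813 0 0) P.nil)))))) (P.cons (P.cons (P.lf 0 27458716 0) (P.cons (P.lf 0 13102806 0) (P.cons (P.lf 4105244 0 0) (P.cons (P.lf 1960083 0 0) (P.cons (P.lf 0 139216 0) P.nil))))) (P.cons (P.cons (P.lf 1423727 0 0) (P.cons (P.lf 2963668 0 0) (P.cons (P.lf 0 684019 0) (P.cons (P.lf 0 654229 0) P.nil)))) (P.cons (P.cons (P.lf 6848578 0 0) (P.cons (P.lf 2484116 0 0) (P.cons (P.lf 0 902914 0) P.nil))) (P.cons (P.cons (P.lf 1427602 0 0) (P.cons (P.lf 92427 0 0) P.nil)) (P.cons (P.cons (P.lf 0 229740 0) P.nil) P.nil)))))) 1137006)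
 (EL.cons 1 (TM.mk (P.cons (P.cons (P.lf 84743883 0 0) (P.cons (P.lf 36065943 0 0) (P.cons (P.lf 0 11714735 0) (P.cons (P.lf 0 5037380 0) (P.cons (P.lf 345810 0 0) (P.cons (P.lf 158559 0 0) P.nil)))))) (P.cons (P.cons (P.lf 0 43332180 0) (P.cons (P.lf 0 25084860 0) (P.cons (P.lf 7441104 0 0) (P.cons (P.lf 4113213 0 0) (P.cons (P.lf 0 304218 0) P.nil))))) (P.cons (P.cons (P.lf 0 38034140 0) (P.cons (P.lf 0 11827706 0) (P.cons (P.lf 4435801 0 0) (P.cons (P.lf 1139716 0 0) P.nil)))) (P.cons (P.cons (P.lf 0 5347826 0) (P.cons (P.lf 180018 0 0) (P.cons (P.lf 98546 0 0) P.nil))) (P.cons (P.cons (P.lf 1578161 0 0) (P.cons (P.lf 651275 0 0) P.nil)) (P.cons (P.cons (P.lf 425467 0 0) P.nil) P.nil)))))) 1252807)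
 (EL.cons 5 (TM.mk (P.cons (P.cons (P.lf 397378124 0 0) (P.cons (P.lf 169119188 0 0) (P.cons (P.lf 0 54932344 0) (P.cons (P.lf 0 23621120 0) (P.cons (P.lf 1621568 0 0) (P.cons (P.lf 743512 0 0) P.nil)))))) (P.cons (P.cons (P.lf 197386306 0 0) (P.cons (P.lf 52853980 0 0) (P.cons (P.lf 0 20482120 0) (P.cons (P.lf 0 4523786 0) (P.cons (P.lf 208092 0 0) P.nil))))) (P.cons (P.cons (P.lf 15801680 0 0) (P.cons (P.lf 0 4236246 0) (P.cons (P.lf 820250 0 0) (P.cons (P.lf 1070966 0 0) P.nil)))) (P.cons (P.cons (P.lf 0 9893230 0) (P.cons (P.lf 0 3365110 0) (P.cons (P.lf 1309362 0 0) P.nil))) (P.cons (P.cons (P.lf 0 1976804 0) (P.cons (P.lf 0 81050 0) P.nil)) (P.cons (P.cons (P.lf 178848 0 0) P.nil) P.nil)))))) 1285382)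
 EL.nil)))
noncomputable def S227_256_660_808_6 : EL := (EL.cons 12 (TM.mk (P.lf 8589934592 0 0) 0)
 (EL.cons 3 (TM.mk (P.cons (P.lf 0 454308690 0) (P.cons (P.lf 450679503 0 0) (P.cons (P.lf 5414782 0 0) (P.cons (P.lf 0 1756837 0) (P.cons (P.lf 0 35658 0) (P.cons (P.lf 6731 0 0) P.nil)))))) 269)
 (EL.cons 7 (TM.mk (P.cons (P.lf 0 2130328762 0) (P.cons (P.lf 0 34172730 0) (P.cons (P.lf 16813380 0 0) (P.cons (P.lf 270802 0 0) (P.cons (P.lf 0 64991 0) (P.cons (P.lf 0 1601 0) P.nil)))))) 330)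
 EL.nil)))
noncomputable def S227_256_660_808_7 : EL := (EL.cons 12 (TM.mk (P.cons (P.cons (P.lf 0 3724861566 0) (P.cons (P.lf 0 792627392 0) (P.cons (P.lf 341789872 0 0) (P.lf 37976648 0 0)))) (P.cons (P.cons (P.lf 0 865358918 0) (P.cons (P.lf 0 38143744 0) (P.cons (P.lf 16448008 0 0) (P.lf 1827552 0 0)))) (P.cons (P.cons (P.lf 25304430 0 0) (P.cons (P.lf 18155296 0 0) (P.cons (P.lf 0 7828768 0) (P.lf 0 869856 0)))) (P.cons (P.cons (P.lf 28520032 0 0) (P.cons (P.lf 901080 0 0) (P.cons (P.lf 0 388552 0) P.nil))) (P.cons (P.cons (P.lf 236512 0 0) (P.cons (P.lf 0 206128 0) P.nil)) (P.cons (P.cons (P.lf 0 309342 0) P.nil) P.nil)))))) 200854)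
 (EL.cons 3 (TM.mk (P.cons (P.cons (P.lf 0 2656146432 0) (P.cons (P.lf 0 83841734 0) (P.cons (P.lf 36153500 0 0) (P.lf 4017054 0 0)))) (P.cons (P.cons (P.lf 0 5775605 0) (P.cons (P.lf 79137244 0 0) (P.cons (P.lf 0 34124872 0) (P.lf 0 3791650 0)))) (P.cons (P.cons (P.lf 245841081 0 0) (P.cons (P.lf 6922198 0 0) (P.cons (P.lf 0 2984928 0) (P.lf 0 331656 0)))) (P.cons (P.cons (P.lf 4754565 0 0) (P.cons (P.lf 0 2085888 0) (P.cons (P.lf 899458 0 0) P.nil))) (P.cons (P.cons (P.lf 0 4518282 0) (P.cons (P.lf 0 161426 0) P.nil)) (P.cons (P.cons (P.lf 0 127166 0) P.nil) P.nil)))))) 606389)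
 (EL.cons 7 (TM.mk (P.cons (P.cons (P.lf 1140116242 0 0) (P.cons (P.lf 206109842 0 0) (P.cons (P.lf 0 88876889 0) (P.lf 0 9875210 0)))) (P.cons (P.cons (P.lf 437941 0 0) (P.cons (P.lf 0 6000574 0) (P.cons (P.lf 2587514 0 0) (P.lf 287501 0 0)))) (P.cons (P.cons (P.lf 0 18861608 0) (P.cons (P.lf 2499571 0 0) (P.cons (P.lf 0 1077842 0) (P.lf 0 119757 0)))) (P.cons (P.cons (P.lf 12168576 0 0) (P.cons (P.lf 486602 0 0) (P.cons (P.lf 0 209828 0) P.nil))) (P.cons (P.cons (P.lf 501515 0 0) (P.cons (P.lf 0 104287 0) P.nil)) (P.cons (P.cons (P.lf 0 238268 0) P.nil) P.nil)))))) 421229)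
 (EL.cons 10 (TM.mk (P.cons (P.cons (P.lf 0 1252154487 0) (P.cons (P.lf 1166497743 0 0) (P.cons (P.lf 119720616 0 0) (P.cons (P.lf 0 24898557 0) (P.lf 0 2074878 0))))) (P.cons (P.cons (P.lf 0 40171767 0) (P.cons (P.lf 37423716 0 0) (P.cons (P.lf 3840888 0 0) (P.cons (P.lf 0 798798 0) (P.lf 0 66564 0))))) (P.cons (P.cons (P.lf 19442775 0 0) (P.cons (P.lf 0 18112743 0) (P.cons (P.lf 0 1858956 0) (P.cons (P.lf 386610 0 0) P.nil)))) (P.cons (P.cons (P.lf 635391 0 0) (P.cons (P.lf 0 591924 0) (P.cons (P.lf 0 60750 0) P.nil))) (P.cons (P.cons (P.lf 0 149289 0) (P.cons (P.lf 139077 0 0) P.nil)) (P.cons (P.cons (P.lf 0 5619 0) P.nil) P.nil)))))) 71619)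
 EL.nil))))
noncomputable def S227_256_660_808_8 : EL := (EL.cons 12 (TM.mk (P.cons (P.cons (P.lf 1615215288 0 0) (P.cons (P.lf 687415550 0 0) (P.cons (P.lf 0 223282460 0) (P.cons (P.lf 0 96012318 0) (P.cons (P.lf 6591162 0 0) (P.cons (P.lf 3022148 0 0) P.nil)))))) (P.cons (P.cons (P.lf 750492832 0 0) (P.cons (P.lf 192780826 0 0) (P.cons (P.lf 0 76089912 0) (P.cons (P.lf 0 15307472 0) (P.cons (P.lf 634374 0 0) P.nil))))) (P.cons (P.cons (P.lf 65231586 0 0) (P.cons (P.lf 0 12729996 0) (P.cons (P.lf 2308174 0 0) (P.cons (P.lf 3353408 0 0) P.nil)))) (P.cons (P.cons (P.lf 0 29832726 0) (P.cons (P.lf 0 9927480 0) (P.cons (P.lf 3953308 0 0) P.nil))) (P.cons (P.cons (P.lf 0 5876850 0) (P.cons (P.lf 0 192754 0) P.nil)) (P.cons (P.cons (P.lf 388656 0 0) P.nil) P.nil)))))) 3650736)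
 (EL.cons 3 (TM.mk (P.cons (P.cons (P.lf 2389000939 0 0) (P.cons (P.lf 599255483 0 0) (P.cons (P.lf 0 239064692 0) (P.cons (P.lf 0 45391876 0) (P.cons (P.lf 1742980 0 0) (P.cons (P.lf 799180 0 0) P.nil)))))) (P.cons (P.cons (P.lf 495123402 0 0) (P.cons (P.lf 0 52954968 0) (P.cons (P.lf 5509761 0 0) (P.cons (P.lf 17478684 0 0) (P.cons (P.lf 0 1561300 0) P.nil))))) (P.cons (P.cons (P.lf 0 264637531 0) (P.cons (P.lf 0 90209084 0) (P.cons (P.lf 35980790 0 0) (P.cons (P.lf 6838998 0 0) P.nil)))) (P.cons (P.cons (P.lf 0 76470740 0) (P.cons (P.lf 0 3156697 0) (P.cons (P.lf 2161705 0 0) P.nil))) (P.cons (P.cons (P.lf 5597829 0 0) (P.cons (P.lf 3639970 0 0) P.nil)) (P.cons (P.cons (P.lf 3234990 0 0) P.nil) P.nil)))))) 8780674)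
 (EL.cons 7 (TM.mk (P.cons (P.cons (P.lf 0 588201305 0) (P.cons (P.lf 0 218676265 0) (P.cons (P.lf 74397177 0 0) (P.cons (P.lf 27638206 0 0) (P.cons (P.lf 0 1793219 0) (P.cons (P.lf 0 822215 0) P.nil)))))) (P.cons (P.cons (P.lf 0 37542693 0) (P.cons (P.lf 4015300 0 0) (P.cons (P.lf 0 417772 0) (P.cons (P.lf 0 1325316 0) (P.cons (P.lf 118385 0 0) P.nil))))) (P.cons (P.cons (P.lf 38988616 0 0) (P.cons (P.lf 4816276 0 0) (P.cons (P.lf 0 2517665 0) (P.cons (P.lf 149424 0 0) P.nil)))) (P.cons (P.cons (P.lf 0 7838714 0) (P.cons (P.lf 0 4341166 0) (P.cons (P.lf 1667868 0 0) P.nil))) (P.cons (P.cons (P.lf 0 4647406 0) (P.cons (P.lf 0 419599 0) P.nil)) (P.cons (P.cons (P.lf 105271 0 0) P.nil) P.nil)))))) 4178000)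
 (EL.cons 10 (TM.mk (P.cons (P.cons (P.lf 1085945898 0 0) (P.cons (P.lf 0 780576528 0) (P.cons (P.lf 0 418749288 0) (P.cons (P.lf 81256572 0 0) (P.cons (P.lf 26236026 0 0) (P.cons (P.lf 0 539904 0) P.nil)))))) (P.cons (P.cons (P.lf 287126124 0 0) (P.cons (P.lf 0 248950506 0) (P.cons (P.lf 0 52710870 0) (P.cons (P.lf 10494666 0 0) (P.cons (P.lf 2435718 0 0) P.nil))))) (P.cons (P.cons (P.lf 0 16145334 0) (P.cons (P.lf 6516522 0 0) (P.cons (P.lf 13160700 0 0) (P.cons (P.lf 0 2521938 0) P.nil)))) (P.cons (P.cons (P.lf 0 13019826 0) (P.cons (P.lf 11406726 0 0) (P.cons (P.lf 2229390 0 0) P.nil))) (P.cons (P.cons (P.lf 0 219702 0) (P.cons (P.lf 360432 0 0) P.nil)) (P.cons (P.cons (P.lf 255774 0 0) P.nil) P.nil)))))) 3491322)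
 EL.nil))))
noncomputable def S227_256_660_808_9 : EL := (EL.cons 3 (TM.mk (P.cons (P.lf 0 454308690 0) (P.cons (P.lf 450679503 0 0) (P.cons (P.lf 5414782 0 0) (P.cons (P.lf 0 1756837 0) (P.cons (P.lf 0 35658 0) (P.cons (P.lf 6731 0 0) P.nil)))))) 269)
 (EL.cons 7 (TM.mk (P.cons (P.lf 0 2130328762 0) (P.cons (P.lf 0 34172730 0) (P.cons (P.lf 16813380 0 0) (P.cons (P.lf 270802 0 0) (P.cons (P.lf 0 64991 0) (P.cons (P.lf 0 1601 0) P.nil)))))) 330)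
 EL.nil))
noncomputable def S227_256_660_808_10 : EL := (EL.cons 3 (TM.mk (P.cons (P.cons (P.lf 197002311 0 0) (P.cons (P.lf 41920867 0 0) (P.cons (P.lf 0 18076750 0) (P.lf 0 2008527 0)))) (P.cons (P.cons (P.lf 0 149661056 0) (P.cons (P.lf 0 39568622 0) (P.cons (P.lf 17062436 0 0) (P.lf 1895825 0 0)))) (P.cons (P.cons (P.lf 0 49088250 0) (P.cons (P.lf 0 3461099 0) (P.cons (P.lf 1492464 0 0) (P.lf 165828 0 0)))) (P.cons (P.cons (P.lf 35568 0 0) (P.cons (P.lf 1042944 0 0) (P.cons (P.lf 0 449729 0) P.nil))) (P.cons (P.cons (P.lf 1692222 0 0) (P.cons (P.lf 80713 0 0) P.nil)) (P.cons (P.cons (P.lf 42244 0 0) P.nil) P.nil)))))) 149644)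
 (EL.cons 7 (TM.mk (P.cons (P.cons (P.lf 923776501 0 0) (P.cons (P.lf 196573898 0 0) (P.cons (P.lf 0 84764882 0) (P.lf 0 9418319 0)))) (P.cons (P.cons (P.lf 229429882 0 0) (P.cons (P.lf 12613013 0 0) (P.cons (P.lf 0 5438872 0) (P.lf 0 604318 0)))) (P.cons (P.cons (P.lf 0 10123778 0) (P.cons (P.lf 0 5902259 0) (P.cons (P.lf 2545120 0 0) (P.lf 282789 0 0)))) (P.cons (P.cons (P.lf 0 8984943 0) (P.cons (P.lf 0 395344 0) (P.cons (P.lf 170476 0 0) P.nil))) (P.cons (P.cons (P.lf 0 121684 0) (P.cons (P.lf 87866 0 0) P.nil)) (P.cons (P.cons (P.lf 139639 0 0) P.nil) P.nil)))))) 90829)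
 EL.nil))
noncomputable def S227_256_660_808_11 : EL := (EL.cons 3 (TM.mk (P.cons (P.cons (P.lf 0 85426301 0) (P.cons (P.lf 0 36356371 0) (P.cons (P.lf 11809072 0 0) (P.cons (P.lf 5077946 0 0) (P.cons (P.lf 0 348596 0) (P.cons (P.lf 0 159836 0) P.nil)))))) (P.cons (P.cons (P.lf 45051450 0 0) (P.cons (P.lf 25870056 0 0) (P.cons (P.lf 0 7690455 0) (P.cons (P.lf 0 4227792 0) (P.cons (P.lf 312260 0 0) P.nil))))) (P.cons (P.cons (P.lf 36943529 0 0) (P.cons (P.lf 11221030 0 0) (P.cons (P.lf 0 4254958 0) (P.cons (P.lf 0 1041000 0) P.nil)))) (P.cons (P.cons (P.lf 5142982 0 0) (P.cons (P.lf 0 161911 0) (P.cons (P.lf 0 90281 0) P.nil))) (P.cons (P.cons (P.lf 0 1373463 0) (P.cons (P.lf 0 560966 0) P.nil)) (P.cons (P.cons (P.lf 0 362886 0) P.nil) P.nil)))))) 1085310)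
 (EL.cons 7 (TM.mk (P.cons (P.cons (P.lf 0 400578089 0) (P.cons (P.lf 0 170481055 0) (P.cons (P.lf 55374699 0 0) (P.cons (P.lf 23811334 0 0) (P.cons (P.lf 0 1634627 0) (P.cons (P.lf 0 749501 0) P.nil)))))) (P.cons (P.cons (P.lf 0 192550101 0) (P.cons (P.lf 0 50544902 0) (P.cons (P.lf 19758788 0 0) (P.cons (P.lf 4178256 0 0) (P.cons (P.lf 0 183547 0) P.nil))))) (P.cons (P.cons (P.lf 0 16001738 0) (P.cons (P.lf 3735652 0 0) (P.cons (P.lf 0 706769 0) (P.cons (P.lf 0 958686 0) P.nil)))) (P.cons (P.cons (P.lf 8658982 0 0) (P.cons (P.lf 2911694 0 0) (P.cons (P.lf 0 1145586 0) P.nil))) (P.cons (P.cons (P.lf 1715276 0 0) (P.cons (P.lf 63257 0 0) P.nil)) (P.cons (P.cons (P.lf 0 135323 0) P.nil) P.nil)))))) 1088668)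
 EL.nil))
noncomputable def S227_256_660_808_12 : EL := (EL.cons 4 (TM.mk (P.cons (P.lf 454308690 0 0) (P.cons (P.lf 0 450679503 0) (P.cons (P.lf 0 5414782 0) (P.cons (P.lf 1756837 0 0) (P.cons (P.lf 35658 0 0) (P.cons (P.lf 0 6731 0) P.nil)))))) 269)
 (EL.cons 8 (TM.mk (P.cons (P.lf 2130328762 0 0) (P.cons (P.lf 34172730 0 0) (P.cons (P.lf 0 16813380 0) (P.cons (P.lf 0 270802 0) (P.cons (P.lf 64991 0 0) (P.cons (P.lf 1601 0 0) P.nil)))))) 330)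
 EL.nil))
noncomputable def S227_256_660_808_13 : EL := (EL.cons 4 (TM.mk (P.cons (P.cons (P.lf 0 197002311 0) (P.cons (P.lf 0 41920867 0) (P.cons (P.lf 18076750 0 0) (P.lf 2008527 0 0)))) (P.cons (P.cons (P.lf 149661056 0 0) (P.cons (P.lf 39568622 0 0) (P.cons (P.lf 0 17062436 0) (P.lf 0 1895825 0)))) (P.cons (P.cons (P.lf 49088250 0 0) (P.cons (P.lf 3461099 0 0) (P.cons (P.lf 0 1492464 0) (P.lf 0 165828 0)))) (P.cons (P.cons (P.lf 0 35568 0) (P.cons (P.lf 0 1042944 0) (P.cons (P.lf 449729 0 0) P.nil))) (P.cons (P.cons (P.lf 0 1692222 0) (P.cons (P.lf 0 80713 0) P.nil)) (P.cons (P.cons (P.lf 0 42244 0) P.nil) P.nil)))))) 149644)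
 (EL.cons 8 (TM.mk (P.cons (P.cons (P.lf 0 923776501 0) (P.cons (P.lf 0 196573898 0) (P.cons (P.lf 84764882 0 0) (P.lf 9418319 0 0)))) (P.cons (P.cons (P.lf 0 229429882 0) (P.cons (P.lf 0 12613013 0) (P.cons (P.lf 5438872 0 0) (P.lf 604318 0 0)))) (P.cons (P.cons (P.lf 10123778 0 0) (P.cons (P.lf 5902259 0 0) (P.cons (P.lf 0 2545120 0) (P.lf 0 282789 0)))) (P.cons (P.cons (P.lf 8984943 0 0) (P.cons (P.lf 395344 0 0) (P.cons (P.lf 0 170476 0) P.nil))) (P.cons (P.cons (P.lf 121684 0 0) (P.cons (P.lf 0 87866 0) P.nil)) (P.cons (P.cons (P.lf 0 139639 0) P.nil) P.nil)))))) 90829)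
 EL.nil))
noncomputable def S227_256_660_808_14 : EL := (EL.cons 4 (TM.mk (P.cons (P.cons (P.lf 85426301 0 0) (P.cons (P.lf 36356371 0 0) (P.cons (P.lf 0 11809072 0) (P.cons (P.lf 0 5077946 0) (P.cons (P.lf 348596 0 0) (P.cons (P.lf 159836 0 0) P.nil)))))) (P.cons (P.cons (P.lf 0 45051450 0) (P.cons (P.lf 0 25870056 0) (P.cons (P.lf 7690455 0 0) (P.cons (P.lf 4227792 0 0) (P.cons (P.lf 0 312260 0) P.nil))))) (P.cons (P.cons (P.lf 0 36943529 0) (P.cons (P.lf 0 11221030 0) (P.cons (P.lf 4254958 0 0) (P.cons (P.lf 1041000 0 0) P.nil)))) (P.cons (P.cons (P.lf 0 5142982 0) (P.cons (P.lf 161911 0 0) (P.cons (P.lf 90281 0 0) P.nil))) (P.cons (P.cons (P.lf 1373463 0 0) (P.cons (P.lf 560966 0 0) P.nil)) (P.cons (P.cons (P.lf 362886 0 0) P.nil) P.nil)))))) 1085310)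
 (EL.cons 8 (TM.mk (P.cons (P.cons (P.lf 400578089 0 0) (P.cons (P.lf 170481055 0 0) (P.cons (P.lf 0 55374699 0) (P.cons (P.lf 0 23811334 0) (P.cons (P.lf 1634627 0 0) (P.cons (P.lf 749501 0 0) P.nil)))))) (P.cons (P.cons (P.lf 192550101 0 0) (P.cons (P.lf 50544902 0 0) (P.cons (P.lf 0 19758788 0) (P.cons (P.lf 0 4178256 0) (P.cons (P.lf 183547 0 0) P.nil))))) (P.cons (P.cons (P.lf 16001738 0 0) (P.cons (P.lf 0 3735652 0) (P.cons (P.lf 706769 0 0) (P.cons (P.lf 958686 0 0) P.nil)))) (P.cons (P.cons (P.lf 0 8658982 0) (P.cons (P.lf 0 2911694 0) (P.cons (P.lf 1145586 0 0) P.nil))) (P.cons (P.cons (P.lf 0 1715276 0) (P.cons (P.lf 0 63257 0) P.nil)) (P.cons (P.cons (P.lf 135323 0 0) P.nil) P.nil)))))) 1088668)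
 EL.nil))
noncomputable def S227_256_660_808_15 : EL := (EL.cons 4 (TM.mk (P.cons (P.lf 0 51259096 0) (P.cons (P.lf 101699239 0 0) (P.cons (P.lf 0 49221527 0) (P.cons (P.lf 0 1608569 0) (P.cons (P.lf 377947 0 0) (P.cons (P.lf 14225 0 0) P.nil)))))) 2557)
 (EL.cons 8 (TM.mk (P.cons (P.lf 0 240362403 0) (P.cons (P.lf 234586631 0 0) (P.cons (P.lf 8586714 0 0) (P.cons (P.lf 0 2734865 0) (P.cons (P.lf 0 94029 0) (P.cons (P.lf 17324 0 0) P.nil)))))) 877)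
 EL.nil))
noncomputable def S227_256_660_808_16 : EL := (EL.cons 4 (TM.mk (P.cons (P.cons (P.lf 22227530 0 0) (P.cons (P.lf 4729879 0 0) (P.cons (P.lf 0 2039577 0) (P.lf 0 226619 0)))) (P.cons (P.cons (P.lf 0 38936043 0) (P.cons (P.lf 0 9156575 0) (P.cons (P.lf 3948418 0 0) (P.lf 438712 0 0)))) (P.cons (P.cons (P.lf 10947690 0 0) (P.cons (P.lf 3981929 0 0) (P.cons (P.lf 0 1717052 0) (P.lf 0 190783 0)))) (P.cons (P.cons (P.lf 5785551 0 0) (P.cons (P.lf 576567 0 0) (P.cons (P.lf 0 248622 0) P.nil))) (P.cons (P.cons (P.lf 189407 0 0) (P.cons (P.lf 0 119865 0) P.nil)) (P.cons (P.cons (P.lf 0 207759 0) P.nil) P.nil)))))) 147301)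
 (EL.cons 8 (TM.mk (P.cons (P.cons (P.lf 104228578 0 0) (P.cons (P.lf 22179193 0 0) (P.cons (P.lf 0 9563918 0) (P.lf 0 1062657 0)))) (P.cons (P.cons (P.lf 0 77509667 0) (P.cons (P.lf 0 20578907 0) (P.cons (P.lf 8873856 0 0) (P.lf 985983 0 0)))) (P.cons (P.cons (P.lf 0 28064031 0) (P.cons (P.lf 0 2342034 0) (P.cons (P.lf 1009911 0 0) (P.lf 112212 0 0)))) (P.cons (P.cons (P.lf 213894 0 0) (P.cons (P.lf 684824 0 0) (P.cons (P.lf 0 295304 0) P.nil))) (P.cons (P.cons (P.lf 1113831 0 0) (P.cons (P.lf 69344 0 0) P.nil)) (P.cons (P.cons (P.lf 37527 0 0) P.nil) P.nil)))))) 120359)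
 EL.nil))
noncomputable def S227_256_660_808_17 : EL := (EL.cons 4 (TM.mk (P.cons (P.cons (P.lf 0 9638545 0) (P.cons (P.lf 0 4102044 0) (P.cons (P.lf 1332403 0 0) (P.cons (P.lf 572938 0 0) (P.cons (P.lf 0 39330 0) (P.cons (P.lf 0 18033 0) P.nil)))))) (P.cons (P.cons (P.lf 14644649 0 0) (P.cons (P.lf 6988163 0 0) (P.cons (P.lf 0 2189463 0) (P.cons (P.lf 0 1045378 0) (P.cons (P.lf 74249 0 0) P.nil))))) (P.cons (P.cons (P.lf 0 759321 0) (P.cons (P.lf 0 1580623 0) (P.cons (P.lf 364810 0 0) (P.cons (P.lf 348922 0 0) P.nil)))) (P.cons (P.cons (P.lf 0 3652575 0) (P.cons (P.lf 0 1324861 0) (P.cons (P.lf 481554 0 0) P.nil))) (P.cons (P.cons (P.lf 0 761387 0) (P.cons (P.lf 0 49294 0) P.nil)) (P.cons (P.cons (P.lf 122528 0 0) P.nil) P.nil)))))) 606413)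
 (EL.cons 8 (TM.mk (P.cons (P.cons (P.lf 0 45196738 0) (P.cons (P.lf 0 19235170 0) (P.cons (P.lf 6247859 0 0) (P.cons (P.lf 2686603 0 0) (P.cons (P.lf 0 184432 0) (P.cons (P.lf 0 84565 0) P.nil)))))) (P.cons (P.cons (P.lf 23110496 0 0) (P.cons (P.lf 13378592 0 0) (P.cons (P.lf 0 3968589 0) (P.cons (P.lf 0 2193714 0) (P.cons (P.lf 162250 0 0) P.nil))))) (P.cons (P.cons (P.lf 20284875 0 0) (P.cons (P.lf 6308110 0 0) (P.cons (P.lf 0 2365761 0) (P.cons (P.lf 0 607849 0) P.nil)))) (P.cons (P.cons (P.lf 2852174 0 0) (P.cons (P.lf 0 96010 0) (P.cons (P.lf 0 52558 0) P.nil))) (P.cons (P.cons (P.lf 0 841686 0) (P.cons (P.lf 0 347347 0) P.nil)) (P.cons (P.cons (P.lf 0 226916 0) P.nil) P.nil)))))) 668152)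
 EL.nil))
noncomputable def S227_256_660_808_18 : EL := (EL.cons 4 (TM.mk (P.cons (P.lf 5783501 0 0) (P.cons (P.lf 0 17211901 0) (P.cons (P.lf 16867610 0 0) (P.cons (P.lf 0 5168619 0) (P.cons (P.lf 0 332796 0) (P.cons (P.lf 59024 0 0) P.nil)))))) 4306)
 (EL.cons 8 (TM.mk (P.cons (P.lf 27119797 0 0) (P.cons (P.lf 0 53371278 0) (P.cons (P.lf 24964624 0 0) (P.cons (P.lf 1690000 0 0) (P.cons (P.lf 0 384174 0) (P.cons (P.lf 0 22382 0) P.nil)))))) 4185)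
 EL.nil))
noncomputable def S227_256_660_808_19 : EL := (EL.cons 4 (TM.mk (P.cons (P.cons (P.lf 0 2507904 0) (P.cons (P.lf 0 533666 0) (P.cons (P.lf 230122 0 0) (P.lf 25568 0 0)))) (P.cons (P.cons (P.lf 6880977 0 0) (P.cons (P.lf 1562528 0 0) (P.cons (P.lf 0 673779 0) (P.lf 0 74864 0)))) (P.cons (P.cons (P.lf 0 5563335 0) (P.cons (P.lf 0 1467787 0) (P.cons (P.lf 632925 0 0) (P.lf 70324 0 0)))) (P.cons (P.cons (P.lf 510510 0 0) (P.cons (P.lf 366255 0 0) (P.cons (P.lf 0 157933 0) P.nil))) (P.cons (P.cons (P.lf 657704 0 0) (P.cons (P.lf 87365 0 0) P.nil)) (P.cons (P.cons (P.lf 48026 0 0) P.nil) P.nil)))))) 135741)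
 (EL.cons 8 (TM.mk (P.cons (P.cons (P.lf 0 11759983 0) (P.cons (P.lf 0 2502451 0) (P.cons (P.lf 1079084 0 0) (P.lf 119897 0 0)))) (P.cons (P.cons (P.lf 20411361 0 0) (P.cons (P.lf 4804353 0 0) (P.cons (P.lf 0 2071691 0) (P.lf 0 230187 0)))) (P.cons (P.cons (P.lf 0 5368866 0) (P.cons (P.lf 0 2009269 0) (P.cons (P.lf 866419 0 0) (P.lf 96268 0 0)))) (P.cons (P.cons (P.lf 0 3314978 0) (P.cons (P.lf 0 376756 0) (P.cons (P.lf 162461 0 0) P.nil))) (P.cons (P.cons (P.lf 0 106575 0) (P.cons (P.lf 74459 0 0) P.nil)) (P.cons (P.cons (P.lf 133826 0 0) P.nil) P.nil)))))) 103601)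
 EL.nil))
noncomputable def S227_256_660_808_20 : EL := (EL.cons 4 (TM.mk (P.cons (P.cons (P.lf 1087504 0 0) (P.cons (P.lf 462828 0 0) (P.cons (P.lf 0 150332 0) (P.cons (P.lf 0 64643 0) (P.cons (P.lf 4437 0 0) (P.cons (P.lf 2034 0 0) P.nil)))))) (P.cons (P.cons (P.lf 0 2731155 0) (P.cons (P.lf 0 1247596 0) (P.cons (P.lf 396166 0 0) (P.cons (P.lf 182075 0 0) (P.cons (P.lf 0 12779 0) P.nil))))) (P.cons (P.cons (P.lf 1711849 0 0) (P.cons (P.lf 954990 0 0) (P.cons (P.lf 0 284430 0) (P.cons (P.lf 0 155604 0) P.nil)))) (P.cons (P.cons (P.lf 351025 0 0) (P.cons (P.lf 0 16245 0) (P.cons (P.lf 0 17025 0) P.nil))) (P.cons (P.cons (P.lf 0 330241 0) (P.cons (P.lf 0 147864 0) P.nil)) (P.cons (P.cons (P.lf 0 103770 0) P.nil) P.nil)))))) 349785)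
 (EL.cons 8 (TM.mk (P.cons (P.cons (P.lf 5099492 0 0) (P.cons (P.lf 2170280 0 0) (P.cons (P.lf 0 704938 0) (P.cons (P.lf 0 303126 0) (P.cons (P.lf 20808 0 0) (P.cons (P.lf 9541 0 0) P.nil)))))) (P.cons (P.cons (P.lf 0 7666285 0) (P.cons (P.lf 0 3662434 0) (P.cons (P.lf 1147077 0 0) (P.cons (P.lf 548218 0 0) (P.cons (P.lf 0 38949 0) P.nil))))) (P.cons (P.cons (P.lf 237201 0 0) (P.cons (P.lf 759828 0 0) (P.cons (P.lf 0 168865 0) (P.cons (P.lf 0 173341 0) P.nil)))) (P.cons (P.cons (P.lf 1999425 0 0) (P.cons (P.lf 743267 0 0) (P.cons (P.lf 0 266926 0) P.nil))) (P.cons (P.cons (P.lf 431798 0 0) (P.cons (P.lf 31260 0 0) P.nil)) (P.cons (P.cons (P.lf 0 73900 0) P.nil) P.nil)))))) 358420)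
 EL.nil))
noncomputable def S227_256_660_808_21 : EL := (EL.cons 4 (TM.mk (P.cons (P.cons (P.lf 2853148743 0 0) (P.cons (P.lf 125762601 0 0) (P.cons (P.lf 0 54230250 0) (P.lf 0 6025581 0)))) (P.cons (P.cons (P.lf 0 143885451 0) (P.cons (P.lf 0 118705866 0) (P.cons (P.lf 51187308 0 0) (P.lf 5687475 0 0)))) (P.cons (P.cons (P.lf 0 294929331 0) (P.cons (P.lf 0 10383297 0) (P.cons (P.lf 4477392 0 0) (P.lf 497484 0 0)))) (P.cons (P.cons (P.lf 0 4718997 0) (P.cons (P.lf 3128832 0 0) (P.cons (P.lf 0 1349187 0) P.nil))) (P.cons (P.cons (P.lf 6210504 0 0) (P.cons (P.lf 242139 0 0) P.nil)) (P.cons (P.cons (P.lf 169410 0 0) P.nil) P.nil)))))) 456726)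
 (EL.cons 8 (TM.mk (P.cons (P.cons (P.lf 0 216339741 0) (P.cons (P.lf 0 9535944 0) (P.cons (P.lf 4112007 0 0) (P.lf 456891 0 0)))) (P.cons (P.cons (P.lf 228991941 0 0) (P.cons (P.lf 18613587 0 0) (P.cons (P.lf 0 8026386 0) (P.lf 0 891819 0)))) (P.cons (P.cons (P.lf 8737830 0 0) (P.cons (P.lf 0 8401830 0) (P.cons (P.lf 3622962 0 0) (P.lf 402546 0 0)))) (P.cons (P.cons (P.lf 0 21153519 0) (P.cons (P.lf 0 881946 0) (P.cons (P.lf 380304 0 0) P.nil))) (P.cons (P.cons (P.lf 0 623199 0) (P.cons (P.lf 192153 0 0) P.nil)) (P.cons (P.cons (P.lf 377907 0 0) P.nil) P.nil)))))) 330381)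
 (EL.cons 11 (TM.mk (P.cons (P.cons (P.lf 1252154487 0 0) (P.cons (P.lf 0 1166497743 0) (P.cons (P.lf 0 119720616 0) (P.cons (P.lf 24898557 0 0) (P.lf 2074878 0 0))))) (P.cons (P.cons (P.lf 40171767 0 0) (P.cons (P.lf 0 37423716 0) (P.cons (P.lf 0 3840888 0) (P.cons (P.lf 798798 0 0) (P.lf 66564 0 0))))) (P.cons (P.cons (P.lf 0 19442775 0) (P.cons (P.lf 18112743 0 0) (P.cons (P.lf 1858956 0 0) (P.cons (P.lf 0 386610 0) P.nil)))) (P.cons (P.cons (P.lf 0 635391 0) (P.cons (P.lf 591924 0 0) (P.cons (P.lf 60750 0 0) P.nil))) (P.cons (P.cons (P.lf 149289 0 0) (P.cons (P.lf 0 139077 0) P.nil)) (P.cons (P.cons (P.lf 5619 0 0) P.nil) P.nil)))))) 71619)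
 EL.nil)))
noncomputable def S227_256_660_808_22 : EL := (EL.cons 4 (TM.mk (P.cons (P.cons (P.lf 0 1237213620 0) (P.cons (P.lf 0 317805927 0) (P.cons (P.lf 125436882 0 0) (P.cons (P.lf 25234911 0 0) (P.cons (P.lf 0 1045788 0) (P.cons (P.lf 0 479508 0) P.nil)))))) (P.cons (P.cons (P.lf 0 225035976 0) (P.cons (P.lf 39412512 0 0) (P.cons (P.lf 0 6600108 0) (P.cons (P.lf 0 10853238 0) (P.cons (P.lf 936780 0 0) P.nil))))) (P.cons (P.cons (P.lf 150790530 0 0) (P.cons (P.lf 50715057 0 0) (P.cons (P.lf 0 20117874 0) (P.cons (P.lf 0 3939999 0) P.nil)))) (P.cons (P.cons (P.lf 40806861 0 0) (P.cons (P.lf 1497393 0 0) (P.cons (P.lf 0 1125993 0) P.nil))) (P.cons (P.cons (P.lf 0 3485646 0) (P.cons (P.lf 0 2100468 0) P.nil)) (P.cons (P.cons (P.lf 0 1798938 0) P.nil) P.nil)))))) 3847671)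
 (EL.cons 8 (TM.mk (P.cons (P.cons (P.lf 93811608 0 0) (P.cons (P.lf 24097605 0 0) (P.cons (P.lf 0 9511239 0) (P.cons (P.lf 0 1913436 0) (P.cons (P.lf 79296 0 0) (P.cons (P.lf 36357 0 0) P.nil)))))) (P.cons (P.cons (P.lf 0 77503704 0) (P.cons (P.lf 0 27280101 0) (P.cons (P.lf 10088280 0 0) (P.cons (P.lf 2751786 0 0) (P.cons (P.lf 0 150966 0) P.nil))))) (P.cons (P.cons (P.lf 0 27495177 0) (P.cons (P.lf 0 540312 0) (P.cons (P.lf 905448 0 0) (P.cons (P.lf 0 554055 0) P.nil)))) (P.cons (P.cons (P.lf 8248848 0 0) (P.cons (P.lf 3626430 0 0) (P.cons (P.lf 0 1406727 0) P.nil))) (P.cons (P.cons (P.lf 3181341 0 0) (P.cons (P.lf 241428 0 0) P.nil)) (P.cons (P.cons (P.lf 0 120297 0) P.nil) P.nil)))))) 1544655)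
 (EL.cons 11 (TM.mk (P.cons (P.cons (P.lf 0 542972949 0) (P.cons (P.lf 390288264 0 0) (P.cons (P.lf 209374644 0 0) (P.cons (P.lf 0 40628286 0) (P.cons (P.lf 0 13118013 0) (P.cons (P.lf 269952 0 0) P.nil)))))) (P.cons (P.cons (P.lf 0 143563062 0) (P.cons (P.lf 124475253 0 0) (P.cons (P.lf 26355435 0 0) (P.cons (P.lf 0 5247333 0) (P.cons (P.lf 0 1217859 0) P.nil))))) (P.cons (P.cons (P.lf 8072667 0 0) (P.cons (P.lf 0 3258261 0) (P.cons (P.lf 0 6580350 0) (P.cons (P.lf 1260969 0 0) P.nil)))) (P.cons (P.cons (P.lf 6509913 0 0) (P.cons (P.lf 0 5703363 0) (P.cons (P.lf 0 1114695 0) P.nil))) (P.cons (P.cons (P.lf 109851 0 0) (P.cons (P.lf 0 180216 0) P.nil)) (P.cons (P.cons (P.lf 0 127887 0) P.nil) P.nil)))))) 1745661)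
 EL.nil)))
noncomputable def S227_256_660_808_23 : EL := (EL.cons 4 (TM.mk (P.cons (P.cons (P.lf 0 321917301 0) (P.cons (P.lf 0 14189640 0) (P.cons (P.lf 6118731 0 0) (P.lf 679857 0 0)))) (P.cons (P.cons (P.lf 335580126 0 0) (P.cons (P.lf 27469725 0 0) (P.cons (P.lf 0 11845254 0) (P.lf 0 1316136 0)))) (P.cons (P.cons (P.lf 21008628 0 0) (P.cons (P.lf 0 11945787 0) (P.cons (P.lf 5151159 0 0) (P.lf 572349 0 0)))) (P.cons (P.cons (P.lf 0 33916617 0) (P.cons (P.lf 0 1729701 0) (P.cons (P.lf 745866 0 0) P.nil))) (P.cons (P.cons (P.lf 0 1588008 0) (P.cons (P.lf 359598 0 0) P.nil)) (P.cons (P.cons (P.lf 804390 0 0) P.nil) P.nil)))))) 433203)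
 (EL.cons 8 (TM.mk (P.cons (P.cons (P.lf 24409347 0 0) (P.cons (P.lf 1075926 0 0) (P.cons (P.lf 0 463950 0) (P.lf 0 51549 0)))) (P.cons (P.cons (P.lf 0 50051241 0) (P.cons (P.lf 0 3167481 0) (P.cons (P.lf 1365852 0 0) (P.lf 151761 0 0)))) (P.cons (P.cons (P.lf 24353679 0 0) (P.cons (P.lf 3018516 0 0) (P.cons (P.lf 0 1301616 0) (P.lf 0 144621 0)))) (P.cons (P.cons (P.lf 3767064 0 0) (P.cons (P.lf 0 811692 0) (P.cons (P.lf 350010 0 0) P.nil))) (P.cons (P.cons (P.lf 0 2383590 0) (P.cons (P.lf 0 139728 0) P.nil)) (P.cons (P.cons (P.lf 0 147039 0) P.nil) P.nil)))))) 257301)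
 (EL.cons 11 (TM.mk (P.cons (P.cons (P.lf 0 141279066 0) (P.cons (P.lf 131614521 0 0) (P.cons (P.lf 13507929 0 0) (P.cons (P.lf 0 2809272 0) (P.lf 0 234105 0))))) (P.cons (P.cons (P.lf 135617946 0 0) (P.cons (P.lf 0 126340662 0) (P.cons (P.lf 0 12966660 0) (P.cons (P.lf 2696703 0 0) (P.lf 224724 0 0))))) (P.cons (P.cons (P.lf 8373894 0 0) (P.cons (P.lf 0 7801056 0) (P.cons (P.lf 0 800640 0) (P.cons (P.lf 166509 0 0) P.nil)))) (P.cons (P.cons (P.lf 0 2596800 0) (P.cons (P.lf 2419161 0 0) (P.cons (P.lf 248283 0 0) P.nil))) (P.cons (P.cons (P.lf 0 142722 0) (P.cons (P.lf 132960 0 0) P.nil)) (P.cons (P.cons (P.lf 25440 0 0) P.nil) P.nil)))))) 126261)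
 EL.nil)))
noncomputable def S227_256_660_808_24 : EL := (EL.cons 4 (TM.mk (P.cons (P.cons (P.lf 139593306 0 0) (P.cons (P.lf 35857653 0 0) (P.cons (P.lf 0 14152890 0) (P.cons (P.lf 0 2847222 0) (P.cons (P.lf 117993 0 0) (P.cons (P.lf 54102 0 0) P.nil)))))) (P.cons (P.cons (P.lf 0 113087649 0) (P.cons (P.lf 0 40018077 0) (P.cons (P.lf 14784513 0 0) (P.cons (P.lf 4049034 0 0) (P.cons (P.lf 0 222747 0) P.nil))))) (P.cons (P.cons (P.lf 0 43864992 0) (P.cons (P.lf 0 1738152 0) (P.cons (P.lf 1699824 0 0) (P.cons (P.lf 0 736293 0) P.nil)))) (P.cons (P.cons (P.lf 12510603 0 0) (P.cons (P.lf 5699121 0 0) (P.cons (P.lf 0 2188302 0) P.nil))) (P.cons (P.cons (P.lf 5272611 0 0) (P.cons (P.lf 458409 0 0) P.nil)) (P.cons (P.cons (P.lf 0 198159 0) P.nil) P.nil)))))) 2415237)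
 (EL.cons 8 (TM.mk (P.cons (P.cons (P.lf 0 10584648 0) (P.cons (P.lf 0 2718903 0) (P.cons (P.lf 1073139 0 0) (P.cons (P.lf 215889 0 0) (P.cons (P.lf 0 8946 0) (P.cons (P.lf 0 4101 0) P.nil)))))) (P.cons (P.cons (P.lf 19244742 0 0) (P.cons (P.lf 5775162 0 0) (P.cons (P.lf 0 2202816 0) (P.cons (P.lf 0 524646 0) (P.cons (P.lf 25908 0 0) P.nil))))) (P.cons (P.cons (P.lf 0 5446389 0) (P.cons (P.lf 0 2960022 0) (P.cons (P.lf 1014204 0 0) (P.cons (P.lf 367938 0 0) P.nil)))) (P.cons (P.cons (P.lf 0 4153329 0) (P.cons (P.lf 0 516840 0) (P.cons (P.lf 277779 0 0) P.nil))) (P.cons (P.cons (P.lf 560334 0 0) (P.cons (P.lf 389619 0 0) P.nil)) (P.cons (P.cons (P.lf 393585 0 0) P.nil) P.nil)))))) 751977)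
 (EL.cons 11 (TM.mk (P.cons (P.cons (P.lf 61262976 0 0) (P.cons (P.lf 0 44035749 0) (P.cons (P.lf 0 23623485 0) (P.cons (P.lf 4584039 0 0) (P.cons (P.lf 1480089 0 0) (P.cons (P.lf 0 30456 0) P.nil)))))) (P.cons (P.cons (P.lf 0 44575539 0) (P.cons (P.lf 29639583 0 0) (P.cons (P.lf 20461119 0 0) (P.cons (P.lf 0 3955368 0) (P.cons (P.lf 0 1330854 0) P.nil))))) (P.cons (P.cons (P.lf 0 17709654 0) (P.cons (P.lf 14824674 0 0) (P.cons (P.lf 3973911 0 0) (P.cons (P.lf 0 784230 0) P.nil)))) (P.cons (P.cons (P.lf 212895 0 0) (P.cons (P.lf 275916 0 0) (P.cons (P.lf 0 666660 0) P.nil))) (P.cons (P.cons (P.lf 794544 0 0) (P.cons (P.lf 0 680175 0) P.nil)) (P.cons (P.cons (P.lf 32319 0 0) P.nil) P.nil)))))) 1217379)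
 EL.nil)))
noncomputable def S227_256_660_808_25 : EL := (EL.cons 4 (TM.mk (P.cons (P.cons (P.lf 36321537 0 0) (P.cons (P.lf 1600998 0 0) (P.cons (P.lf 0 690369 0) (P.lf 0 76707 0)))) (P.cons (P.cons (P.lf 0 73894482 0) (P.cons (P.lf 0 4687584 0) (P.cons (P.lf 2021340 0 0) (P.lf 224592 0 0)))) (P.cons (P.cons (P.lf 34757346 0 0) (P.cons (P.lf 4403361 0 0) (P.cons (P.lf 0 1898778 0) (P.lf 0 210975 0)))) (P.cons (P.cons (P.lf 6769950 0 0) (P.cons (P.lf 0 1098768 0) (P.cons (P.lf 473802 0 0) P.nil))) (P.cons (P.cons (P.lf 0 3732342 0) (P.cons (P.lf 0 262098 0) P.nil)) (P.cons (P.cons (P.lf 0 326784 0) P.nil) P.nil)))))) 441885)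
 (EL.cons 8 (TM.mk (P.cons (P.cons (P.lf 0 2754075 0) (P.cons (P.lf 0 121395 0) (P.cons (P.lf 52347 0 0) (P.lf 5814 0 0)))) (P.cons (P.cons (P.lf 8379297 0 0) (P.cons (P.lf 477807 0 0) (P.cons (P.lf 0 206034 0) (P.lf 0 22890 0)))) (P.cons (P.cons (P.lf 0 8317077 0) (P.cons (P.lf 0 693654 0) (P.cons (P.lf 299112 0 0) (P.lf 33234 0 0)))) (P.cons (P.cons (P.lf 2222853 0 0) (P.cons (P.lf 424707 0 0) (P.cons (P.lf 0 183138 0) P.nil))) (P.cons (P.cons (P.lf 744945 0 0) (P.cons (P.lf 0 69651 0) P.nil)) (P.cons (P.cons (P.lf 0 255273 0) P.nil) P.nil)))))) 167916)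
 (EL.cons 11 (TM.mk (P.cons (P.cons (P.lf 15940344 0 0) (P.cons (P.lf 0 14849904 0) (P.cons (P.lf 0 1524081 0) (P.cons (P.lf 316965 0 0) (P.lf 26412 0 0))))) (P.cons (P.cons (P.lf 0 31114614 0) (P.cons (P.lf 28986141 0 0) (P.cons (P.lf 2974920 0 0) (P.cons (P.lf 0 618699 0) (P.lf 0 51558 0))))) (P.cons (P.cons (P.lf 14044566 0 0) (P.cons (P.lf 0 13083813 0) (P.cons (P.lf 0 1342824 0) (P.cons (P.lf 279270 0 0) P.nil)))) (P.cons (P.cons (P.lf 1474278 0 0) (P.cons (P.lf 0 1373427 0) (P.cons (P.lf 0 140958 0) P.nil))) (P.cons (P.cons (P.lf 0 321207 0) (P.cons (P.lf 299235 0 0) P.nil)) (P.cons (P.cons (P.lf 0 27426 0) P.nil) P.nil)))))) 145101)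
 EL.nil)))
noncomputable def S227_256_660_808_26 : EL := (EL.cons 4 (TM.mk (P.cons (P.cons (P.lf 0 15750141 0) (P.cons (P.lf 0 4045773 0) (P.cons (P.lf 1596852 0 0) (P.cons (P.lf 321246 0 0) (P.cons (P.lf 0 13311 0) (P.cons (P.lf 0 6102 0) P.nil)))))) (P.cons (P.cons (P.lf 28383864 0 0) (P.cons (P.lf 8528646 0 0) (P.cons (P.lf 0 3252213 0) (P.cons (P.lf 0 775530 0) (P.cons (P.lf 38337 0 0) P.nil))))) (P.cons (P.cons (P.lf 0 7520658 0) (P.cons (P.lf 0 4234785 0) (P.cons (P.lf 1443969 0 0) (P.cons (P.lf 532443 0 0) P.nil)))) (P.cons (P.cons (P.lf 0 6534237 0) (P.cons (P.lf 0 907032 0) (P.cons (P.lf 463215 0 0) P.nil))) (P.cons (P.cons (P.lf 794493 0 0) (P.cons (P.lf 600969 0 0) P.nil)) (P.cons (P.cons (P.lf 649704 0 0) P.nil) P.nil)))))) 1182948)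
 (EL.cons 8 (TM.mk (P.cons (P.cons (P.lf 1194252 0 0) (P.cons (P.lf 306768 0 0) (P.cons (P.lf 0 121080 0) (P.cons (P.lf 0 24357 0) (P.cons (P.lf 1008 0 0) (P.cons (P.lf 462 0 0) P.nil)))))) (P.cons (P.cons (P.lf 0 3356073 0) (P.cons (P.lf 0 955923 0) (P.cons (P.lf 368655 0 0) (P.cons (P.lf 83358 0 0) (P.cons (P.lf 0 3924 0) P.nil))))) (P.cons (P.cons (P.lf 2754291 0 0) (P.cons (P.lf 976719 0 0) (P.cons (P.lf 0 359544 0) (P.cons (P.lf 0 99945 0) P.nil)))) (P.cons (P.cons (P.lf 0 110487 0) (P.cons (P.lf 0 264039 0) (P.cons (P.lf 78744 0 0) P.nil))) (P.cons (P.cons (P.lf 0 543720 0) (P.cons (P.lf 0 108285 0) P.nil)) (P.cons (P.cons (P.lf 14910 0 0) P.nil) P.nil)))))) 356523)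
 (EL.cons 11 (TM.mk (P.cons (P.cons (P.lf 0 6912225 0) (P.cons (P.lf 4968498 0 0) (P.cons (P.lf 2665407 0 0) (P.cons (P.lf 0 517209 0) (P.cons (P.lf 0 166995 0) (P.cons (P.lf 3435 0 0) P.nil)))))) (P.cons (P.cons (P.lf 11886411 0 0) (P.cons (P.lf 0 8273007 0) (P.cons (P.lf 0 4952718 0) (P.cons (P.lf 959358 0 0) (P.cons (P.lf 315819 0 0) P.nil))))) (P.cons (P.cons (P.lf 0 2908683 0) (P.cons (P.lf 1585614 0 0) (P.cons (P.lf 1810020 0 0) (P.cons (P.lf 0 348066 0) P.nil)))) (P.cons (P.cons (P.lf 0 2092890 0) (P.cons (P.lf 1687227 0 0) (P.cons (P.lf 557829 0 0) P.nil))) (P.cons (P.cons (P.lf 0 70725 0) (P.cons (P.lf 115017 0 0) P.nil)) (P.cons (P.cons (P.lf 93795 0 0) P.nil) P.nil)))))) 767601)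
 EL.nil)))
noncomputable def S227_256_660_808_27 : EL := (EL.cons 13 (TM.mk (P.lf 0 4294967296 0) 0)
 EL.nil)
noncomputable def S227_256_660_808_28 : EL := (EL.cons 13 (TM.mk (P.cons (P.cons (P.lf 1862430783 0 0) (P.cons (P.lf 396313696 0 0) (P.cons (P.lf 0 170894936 0) (P.lf 0 18988324 0)))) (P.cons (P.cons (P.lf 432679459 0 0) (P.cons (P.lf 19071872 0 0) (P.cons (P.lf 0 8224004 0) (P.lf 0 913776 0)))) (P.cons (P.cons (P.lf 0 12652215 0) (P.cons (P.lf 0 9077648 0) (P.cons (P.lf 3914384 0 0) (P.lf 434928 0 0)))) (P.cons (P.cons (P.lf 0 14260016 0) (P.cons (P.lf 0 450540 0) (P.cons (P.lf 194276 0 0) P.nil))) (P.cons (P.cons (P.lf 0 118256 0) (P.cons (P.lf 103064 0 0) P.nil)) (P.cons (P.cons (P.lf 154671 0 0) P.nil) P.nil)))))) 100427)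
 EL.nil)
noncomputable def S227_256_660_808_29 : EL := (EL.cons 13 (TM.mk (P.cons (P.cons (P.lf 0 807607644 0) (P.cons (P.lf 0 343707775 0) (P.cons (P.lf 111641230 0 0) (P.cons (P.lf 48006159 0 0) (P.cons (P.lf 0 3295581 0) (P.cons (P.lf 0 1511074 0) P.nil)))))) (P.cons (P.cons (P.lf 0 375246416 0) (P.cons (P.lf 0 96390413 0) (P.cons (P.lf 38044956 0 0) (P.cons (P.lf 7653736 0 0) (P.cons (P.lf 0 317187 0) P.nil))))) (P.cons (P.cons (P.lf 0 32615793 0) (P.cons (P.lf 6364998 0 0) (P.cons (P.lf 0 1154087 0) (P.cons (P.lf 0 1676704 0) P.nil)))) (P.cons (P.cons (P.lf 14916363 0 0) (P.cons (P.lf 4963740 0 0) (P.cons (P.lf 0 1976654 0) P.nil))) (P.cons (P.cons (P.lf 2938425 0 0) (P.cons (P.lf 96377 0 0) P.nil)) (P.cons (P.cons (P.lf 0 194328 0) P.nil) P.nil)))))) 1825368)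
 EL.nil)
noncomputable def S227_256_660_808_30 : EL := (EL.cons 13 (TM.mk (P.cons (P.lf 484595936 0 0) (P.cons (P.lf 0 480724804 0) (P.cons (P.lf 0 5775768 0) (P.cons (P.lf 1873960 0 0) (P.cons (P.lf 38036 0 0) (P.cons (P.lf 0 7180 0) P.nil)))))) 280)
 EL.nil)
noncomputable def S227_256_660_808_31 : EL := (EL.cons 13 (TM.mk (P.cons (P.cons (P.lf 0 210135799 0) (P.cons (P.lf 0 44715592 0) (P.cons (P.lf 19281867 0 0) (P.lf 2142429 0 0)))) (P.cons (P.cons (P.lf 159638460 0 0) (P.cons (P.lf 42206531 0 0) (P.cons (P.lf 0 18199932 0) (P.lf 0 2022214 0)))) (P.cons (P.cons (P.lf 52360801 0 0) (P.cons (P.lf 3691839 0 0) (P.cons (P.lf 0 1591962 0) (P.lf 0 176884 0)))) (P.cons (P.cons (P.lf 0 37940 0) (P.cons (P.lf 0 1112474 0) (P.cons (P.lf 479711 0 0) P.nil))) (P.cons (P.cons (P.lf 0 1805037 0) (P.cons (P.lf 0 86094 0) P.nil)) (P.cons (P.cons (P.lf 0 45061 0) P.nil) P.nil))))))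 159600)
 EL.nil)
noncomputable def S227_256_660_808_32 : EL := (EL.cons 13 (TM.mk (P.cons (P.cons (P.lf 91121388 0 0) (P.cons (P.lf 38780130 0 0) (P.cons (P.lf 0 12596344 0) (P.cons (P.lf 0 5416476 0) (P.cons (P.lf 371836 0 0) (P.cons (P.lf 170492 0 0) P.nil)))))) (P.cons (P.cons (P.lf 0 48054880 0) (P.cons (P.lf 0 27594727 0) (P.cons (P.lf 8203153 0 0) (P.cons (P.lf 4509645 0 0) (P.cons (P.lf 0 333078 0) P.nil))))) (P.cons (P.cons (P.lf 0 39406431 0) (P.cons (P.lf 0 11969099 0) (P.cons (P.lf 4538622 0 0) (P.cons (P.lf 1110401 0 0) P.nil)))) (P.cons (P.cons (P.lf 0 5485848 0) (P.cons (P.lf 172706 0 0) (P.cons (P.lf 96300 0 0) P.nil))) (P.cons (P.cons (P.lf 1465028 0 0) (P.cons (P.lf 598364 0 0) P.nil)) (P.cons (P.cons (P.lf 387079 0 0) P.nil) P.nil)))))) 1157641)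
 EL.nil)
noncomputable def S227_256_660_808_33 : EL := (EL.cons 14 (TM.mk (P.lf 8589934592 0 0) 0)
 EL.nil)
noncomputable def S227_256_660_808_34 : EL := (EL.cons 14 (TM.mk (P.cons (P.cons (P.lf 0 3724861566 0) (P.cons (P.lf 0 792627392 0) (P.cons (P.lf 341789872 0 0) (P.lf 37976648 0 0)))) (P.cons (P.cons (P.lf 0 865358918 0) (P.cons (P.lf 0 38143744 0) (P.cons (P.lf 16448008 0 0) (P.lf 1827552 0 0)))) (P.cons (P.cons (P.lf 25304430 0 0) (P.cons (P.lf 18155296 0 0) (P.cons (P.lf 0 7828768 0) (P.lf 0 869856 0)))) (P.cons (P.cons (P.lf 28520032 0 0) (P.cons (P.lf 901080 0 0) (P.cons (P.lf 0 388552 0) P.nil))) (P.cons (P.cons (P.lf 236512 0 0) (P.cons (P.lf 0 206128 0) P.nil)) (P.cons (P.cons (P.lf 0 309342 0) P.nil) P.nil)))))) 200854)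
 EL.nil)
noncomputable def S227_256_660_808_35 : EL := (EL.cons 14 (TM.mk (P.cons (P.cons (P.lf 1615215288 0 0) (P.cons (P.lf 687415550 0 0) (P.cons (P.lf 0 223282460 0) (P.cons (P.lf 0 96012318 0) (P.cons (P.lf 6591162 0 0) (P.cons (P.lf 3022148 0 0) P.nil)))))) (P.cons (P.cons (P.lf 750492832 0 0) (P.cons (P.lf 192780826 0 0) (P.cons (P.lf 0 76089912 0) (P.cons (P.lf 0 15307472 0) (P.cons (P.lf 634374 0 0) P.nil))))) (P.cons (P.cons (P.lf 65231586 0 0) (P.cons (P.lf 0 12729996 0) (P.cons (P.lf 2308174 0 0) (P.cons (P.lf 3353408 0 0) P.nil)))) (P.cons (P.cons (P.lf 0 29832726 0) (P.cons (P.lf 0 9927480 0) (P.cons (P.lf 3953308 0 0) P.nil))) (P.cons (P.cons (P.lf 0 5876850 0) (P.cons (P.lf 0 192754 0) P.nil)) (P.cons (P.cons (P.lf 388656 0 0) P.nil) P.nil)))))) 3650736)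
 EL.nil)
noncomputable def S227_256_660_808_36 : EL := (EL.cons 14 (TM.mk (P.cons (P.lf 0 969191872 0) (P.cons (P.lf 961449608 0 0) (P.cons (P.lf 11551536 0 0) (P.cons (P.lf 0 3747920 0) (P.cons (P.lf 0 76072 0) (P.cons (P.lf 14360 0 0) P.nil)))))) 560)
 EL.nil)
noncomputable def S227_256_660_808_37 : EL := (EL.cons 14 (TM.mk (P.cons (P.cons (P.lf 420271598 0 0) (P.cons (P.lf 89431184 0 0) (P.cons (P.lf 0 38563734 0) (P.lf 0 4284858 0)))) (P.cons (P.cons (P.lf 0 319276920 0) (P.cons (P.lf 0 84413062 0) (P.cons (P.lf 36399864 0 0) (P.lf 4044428 0 0)))) (P.cons (P.cons (P.lf 0 104721602 0) (P.cons (P.lf 0 7383678 0) (P.cons (P.lf 3183924 0 0) (P.lf 353768 0 0)))) (P.cons (P.cons (P.lf 75880 0 0) (P.cons (P.lf 2224948 0 0) (P.cons (P.lf 0 959422 0) P.nil))) (P.cons (P.cons (P.lf 3610074 0 0) (P.cons (P.lf 172188 0 0) P.nil)) (P.cons (P.cons (P.lf 90122 0 0) P.nil)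 P.nil)))))) 319200)
 EL.nil)
noncomputable def S227_256_660_808_38 : EL := (EL.cons 14 (TM.mk (P.cons (P.cons (P.lf 0 182242776 0) (P.cons (P.lf 0 77560260 0) (P.cons (P.lf 25192688 0 0) (P.cons (P.lf 10832952 0 0) (P.cons (P.lf 0 743672 0) (P.cons (P.lf 0 340984 0) P.nil)))))) (P.cons (P.cons (P.lf 96109760 0 0) (P.cons (P.lf 55189454 0 0) (P.cons (P.lf 0 16406306 0) (P.cons (P.lf 0 9019290 0) (P.cons (P.lf 666156 0 0) P.nil))))) (P.cons (P.cons (P.lf 78812862 0 0) (P.cons (P.lf 23938198 0 0) (P.cons (P.lf 0 9077244 0) (P.cons (P.lf 0 2220802 0) P.nil)))) (P.cons (P.cons (P.lf 10971696 0 0) (P.cons (P.lf 0 345412 0) (P.cons (P.lf 0 192600 0) P.nil))) (P.cons (P.cons (P.lf 0 2930056 0) (P.cons (P.lf 0 1196728 0) P.nil)) (P.cons (P.cons (P.lf 0 774158 0) P.nil) P.nil)))))) 2315282)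
 EL.nil)
noncomputable def S227_256_660_808_39 : EL := (EL.cons 14 (TM.mk (P.cons (P.lf 109352740 0 0) (P.cons (P.lf 0 216958378 0) (P.cons (P.lf 105005926 0 0) (P.cons (P.lf 3431614 0 0) (P.cons (P.lf 0 806288 0) (P.cons (P.lf 0 30348 0) P.nil)))))) 5440)
 EL.nil)
noncomputable def S227_256_660_808_40 : EL := (EL.cons 14 (TM.mk (P.cons (P.cons (P.lf 0 47418732 0) (P.cons (P.lf 0 10090410 0) (P.cons (P.lf 4351098 0 0) (P.lf 483454 0 0)))) (P.cons (P.cons (P.lf 83063560 0 0) (P.cons (P.lf 19534028 0 0) (P.cons (P.lf 0 8423292 0) (P.lf 0 935920 0)))) (P.cons (P.cons (P.lf 0 23355074 0) (P.cons (P.lf 0 8494782 0) (P.cons (P.lf 3663046 0 0) (P.lf 407004 0 0)))) (P.cons (P.cons (P.lf 0 12342510 0) (P.cons (P.lf 0 1230010 0) (P.cons (P.lf 530394 0 0) P.nil))) (P.cons (P.cons (P.lf 0 404070 0) (P.cons (P.lf 255714 0 0) P.nil)) (P.cons (P.cons (P.lf 443220 0 0) P.nil) P.nil))))))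 314202)
 EL.nil)
noncomputable def S227_256_660_808_41 : EL := (EL.cons 14 (TM.mk (P.cons (P.cons (P.lf 20562230 0 0) (P.cons (P.lf 8751028 0 0) (P.cons (P.lf 0 2842460 0) (P.cons (P.lf 0 1222268 0) (P.cons (P.lf 83906 0 0) (P.cons (P.lf 38472 0 0) P.nil)))))) (P.cons (P.cons (P.lf 0 31241918 0) (P.cons (P.lf 0 14908082 0) (P.cons (P.lf 4670856 0 0) (P.cons (P.lf 2230140 0 0) (P.cons (P.lf 0 158398 0) P.nil))))) (P.cons (P.cons (P.lf 1619886 0 0) (P.cons (P.lf 3371996 0 0) (P.cons (P.lf 0 778262 0) (P.cons (P.lf 0 744368 0) P.nil)))) (P.cons (P.cons (P.lf 7792160 0 0) (P.cons (P.lf 2826372 0 0) (P.cons (P.lf 0 1027316 0) P.nil))) (P.cons (P.cons (P.lf 1624294 0 0) (P.cons (P.lf 105162 0 0) P.nil)) (P.cons (P.cons (P.lf 0 261394 0) P.nil) P.nil)))))) 1293636)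
 EL.nil)
noncomputable def S227_256_660_808_42 : EL := (EL.cons 14 (TM.mk (P.cons (P.lf 0 12338136 0) (P.cons (P.lf 36718724 0 0) (P.cons (P.lf 0 35984236 0) (P.cons (P.lf 11026388 0 0) (P.cons (P.lf 709966 0 0) (P.cons (P.lf 0 125918 0) P.nil)))))) 9172)
 EL.nil)
noncomputable def S227_256_660_808_43 : EL := (EL.cons 14 (TM.mk (P.cons (P.cons (P.lf 5350196 0 0) (P.cons (P.lf 1138488 0 0) (P.cons (P.lf 0 490928 0) (P.lf 0 54546 0)))) (P.cons (P.cons (P.lf 0 14679418 0) (P.cons (P.lf 0 3333394 0) (P.cons (P.lf 1437396 0 0) (P.lf 159710 0 0)))) (P.cons (P.cons (P.lf 11868450 0 0) (P.cons (P.lf 3131280 0 0) (P.cons (P.lf 0 1350242 0) (P.lf 0 150026 0)))) (P.cons (P.cons (P.lf 0 1089090 0) (P.cons (P.lf 0 781346 0) (P.cons (P.lf 336924 0 0) P.nil))) (P.cons (P.cons (P.lf 0 1403102 0) (P.cons (P.lf 0 186380 0) P.nil)) (P.cons (P.cons (P.lf 0 102456 0) P.nil) P.nil))))))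 289542)
 EL.nil)
noncomputable def S227_256_660_808_44 : EL := (EL.cons 14 (TM.mk (P.cons (P.cons (P.lf 0 2320010 0) (P.cons (P.lf 0 987368 0) (P.cons (P.lf 320710 0 0) (P.cons (P.lf 137906 0 0) (P.cons (P.lf 0 9466 0) (P.cons (P.lf 0 4340 0) P.nil)))))) (P.cons (P.cons (P.lf 5826464 0 0) (P.cons (P.lf 2661540 0 0) (P.cons (P.lf 0 845156 0) (P.cons (P.lf 0 388428 0) (P.cons (P.lf 27262 0 0) P.nil))))) (P.cons (P.cons (P.lf 0 3651946 0) (P.cons (P.lf 0 2037312 0) (P.cons (P.lf 606784 0 0) (P.cons (P.lf 331956 0 0) P.nil)))) (P.cons (P.cons (P.lf 0 748854 0) (P.cons (P.lf 34656 0 0) (P.cons (P.lf 36322 0 0) P.nil))) (P.cons (P.cons (P.lf 704516 0 0) (P.cons (P.lf 315444 0 0) P.nil)) (P.cons (P.cons (P.lf 221378 0 0) P.nil) P.nil)))))) 746162)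
 EL.nil)
noncomputable def S227_256_660_808_45 : EL := (EL.cons 14 (TM.mk (P.cons (P.cons (P.lf 0 700407352 0) (P.cons (P.lf 0 447126994 0) (P.cons (P.lf 97660356 0 0) (P.cons (P.lf 96730016 0 0) (P.cons (P.lf 156098 0 0) (P.cons (P.lf 0 6726124 0) P.nil)))))) (P.cons (P.cons (P.lf 0 488155388 0) (P.cons (P.lf 0 229270034 0) (P.cons (P.lf 67602122 0 0) (P.cons (P.lf 36971334 0 0) (P.cons (P.lf 0 1556838 0) P.nil))))) (P.cons (P.cons (P.lf 0 99133722 0) (P.cons (P.lf 0 17813722 0) (P.cons (P.lf 10338712 0 0) (P.cons (P.lf 0 1021298 0) P.nil)))) (P.cons (P.cons (P.lf 13938502 0 0) (P.cons (P.lf 12656294 0 0) (P.cons (P.lf 0 3279326 0) P.nil))) (P.cons (P.cons (P.lf 8282160 0 0) (P.cons (P.lf 2557770 0 0) P.nil)) (P.cons (P.cons (P.lf 514700 0 0) P.nil) P.nil)))))) 11781656)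
 EL.nil)
noncomputable def S227_256_660_808_46 : EL := (EL.cons 15 (TM.mk (P.lf 4294967296 0 0) 0)
 EL.nil)
noncomputable def S227_256_660_808_47 : EL := (EL.cons 15 (TM.mk (P.cons (P.cons (P.lf 0 1862430783 0) (P.cons (P.lf 0 396313696 0) (P.cons (P.lf 170894936 0 0) (P.lf 18988324 0 0)))) (P.cons (P.cons (P.lf 0 432679459 0) (P.cons (P.lf 0 19071872 0) (P.cons (P.lf 8224004 0 0) (P.lf 913776 0 0)))) (P.cons (P.cons (P.lf 12652215 0 0) (P.cons (P.lf 9077648 0 0) (P.cons (P.lf 0 3914384 0) (P.lf 0 434928 0)))) (P.cons (P.cons (P.lf 14260016 0 0) (P.cons (P.lf 450540 0 0) (P.cons (P.lf 0 194276 0) P.nil))) (P.cons (P.cons (P.lf 118256 0 0) (P.cons (P.lf 0 103064 0) P.nil)) (P.cons (P.cons (P.lf 0 154671 0) P.nil) P.nil)))))) 100427)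
 EL.nil)
noncomputable def S227_256_660_808_48 : EL := (EL.cons 15 (TM.mk (P.cons (P.cons (P.lf 807607644 0 0) (P.cons (P.lf 343707775 0 0) (P.cons (P.lf 0 111641230 0) (P.cons (P.lf 0 48006159 0) (P.cons (P.lf 3295581 0 0) (P.cons (P.lf 1511074 0 0) P.nil)))))) (P.cons (P.cons (P.lf 375246416 0 0) (P.cons (P.lf 96390413 0 0) (P.cons (P.lf 0 38044956 0) (P.cons (P.lf 0 7653736 0) (P.cons (P.lf 317187 0 0) P.nil))))) (P.cons (P.cons (P.lf 32615793 0 0) (P.cons (P.lf 0 6364998 0) (P.cons (P.lf 1154087 0 0) (P.cons (P.lf 1676704 0 0) P.nil)))) (P.cons (P.cons (P.lf 0 14916363 0) (P.cons (P.lf 0 4963740 0) (P.cons (P.lf 1976654 0 0) P.nil))) (P.cons (P.cons (P.lf 0 2938425 0) (P.cons (P.lf 0 96377 0) P.nil)) (P.cons (P.cons (P.lf 194328 0 0) P.nil) P.nil)))))) 1825368)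
 EL.nil)
noncomputable def S227_256_660_808 : SL := (SL.cons S227_256_660_808_0 (SL.cons S227_256_660_808_1 (SL.cons S227_256_660_808_2 (SL.cons S227_256_660_808_3 (SL.cons S227_256_660_808_4 (SL.cons S227_256_660_808_5 (SL.cons S227_256_660_808_6 (SL.cons S227_256_660_808_7 (SL.cons S227_256_660_808_8 (SL.cons S227_256_660_808_9 (SL.cons S227_256_660_808_10 (SL.cons S227_256_660_808_11 (SL.cons S227_256_660_808_12 (SL.cons S227_256_660_808_13 (SL.cons S227_256_660_808_14 (SL.cons S227_256_660_808_15 (SL.cons S227_256_660_808_16 (SL.cons S227_256_660_808_17 (SL.cons S227_256_660_808_18 (SL.cons S227_256_660_808_19 (SL.cons S227_256_660_808_20 (SL.cons S227_256_660_808_21 (SL.cons S227_256_660_808_22 (SL.cons S227_256_660_808_23 (SL.cons S227_256_660_808_24 (SL.cons S227_256_660_808_25 (SL.cons S227_256_660_808_26 (SL.cons S227_256_660_808_27 (SL.cons S227_256_660_808_28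 (SL.cons S227_256_660_808_29 (SL.cons S227_256_660_808_30 (SL.cons S227_256_660_808_31 (SL.cons S227_256_660_808_32 (SL.cons S227_256_660_808_33 (SL.cons S227_256_660_808_34 (SL.cons S227_256_660_808_35 (SL.cons S227_256_660_808_36 (SL.cons S227_256_660_808_37 (SL.cons S227_256_660_808_38 (SL.cons S227_256_660_808_39 (SL.cons S227_256_660_808_40 (SL.cons S227_256_660_808_41 (SL.cons S227_256_660_808_42 (SL.cons S227_256_660_808_43 (SL.cons S227_256_660_808_44 (SL.cons S227_256_660_808_45 (SL.cons S227_256_660_808_46 (SL.cons S227_256_660_808_47 (SL.cons S227_256_660_808_48 SL.nil)))))))))))))))))))))))))))))))))))))))))))))))))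
noncomputable def S227_256_734_808_0 : EL := (EL.cons 0 (TM.mk (P.cons (P.lf 8359606057 0 0) (P.cons (P.lf 190686074 0 0) (P.cons (P.lf 0 92290364 0) (P.cons (P.lf 0 3016066 0) (P.cons (P.lf 708651 0 0) (P.cons (P.lf 26673 0 0) P.nil)))))) 4788)
 (EL.cons 1 (TM.mk (P.cons (P.lf 0 450679505 0) (P.cons (P.lf 439849933 0 0) (P.cons (P.lf 16100088 0 0) (P.cons (P.lf 0 5127871 0) (P.cons (P.lf 0 176304 0) (P.cons (P.lf 32482 0 0) P.nil)))))) 1651)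
 (EL.cons 5 (TM.mk (P.cons (P.lf 4329140030 0 0) (P.cons (P.lf 0 67799490 0) (P.cons (P.lf 32814348 0 0) (P.cons (P.lf 1072376 0 0) (P.cons (P.lf 0 251962 0) (P.cons (P.lf 0 9484 0) P.nil)))))) 1837)
 (EL.cons 9 (TM.mk (P.lf 6442450944 0 0) 2)
 EL.nil))))
noncomputable def S227_256_734_808_1 : EL := (EL.cons 0 (TM.mk (P.cons (P.cons (P.lf 0 3309024690 0) (P.cons (P.lf 0 198426601 0) (P.cons (P.lf 93669504 0 0) (P.lf 4460455 0 0)))) (P.cons (P.cons (P.lf 0 1595079328 0) (P.cons (P.lf 0 28300439 0) (P.cons (P.lf 13359535 0 0) (P.lf 636163 0 0)))) (P.cons (P.cons (P.lf 24480864 0 0) (P.cons (P.lf 12718181 0 0) (P.cons (P.lf 0 6003758 0) (P.lf 0 285887 0)))) (P.cons (P.cons (P.lf 104528611 0 0) (P.cons (P.lf 1388410 0 0) (P.cons (P.lf 0 655413 0) P.nil))) (P.cons (P.cons (P.lf 3139909 0 0) (P.cons (P.lf 0 293566 0) P.nil)) (P.cons (P.cons (P.lf 0 2246884 0) P.nil) P.nil))))))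 433708)
 (EL.cons 1 (TM.mk (P.cons (P.cons (P.lf 1627485749 0 0) (P.cons (P.lf 27430354 0 0) (P.cons (P.lf 0 12948805 0) (P.lf 0 616603 0)))) (P.cons (P.cons (P.lf 0 183182831 0) (P.cons (P.lf 0 24909376 0) (P.cons (P.lf 11758750 0 0) (P.lf 559938 0 0)))) (P.cons (P.cons (P.lf 0 239385066 0) (P.cons (P.lf 0 3678857 0) (P.cons (P.lf 1736638 0 0) (P.lf 82691 0 0)))) (P.cons (P.cons (P.lf 0 5900773 0) (P.cons (P.lf 1057998 0 0) (P.cons (P.lf 0 499435 0) P.nil))) (P.cons (P.cons (P.lf 8748873 0 0) (P.cons (P.lf 121493 0 0) P.nil)) (P.cons (P.cons (P.lf 349065 0 0) P.nil) P.nil)))))) 320149)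
 (EL.cons 5 (TM.mk (P.cons (P.cons (P.lf 0 2249791500 0) (P.cons (P.lf 0 108949206 0) (P.cons (P.lf 51430694 0 0) (P.lf 2449078 0 0)))) (P.cons (P.cons (P.lf 0 180937494 0) (P.cons (P.lf 1424224 0 0) (P.cons (P.lf 0 672314 0) (P.lf 0 32012 0)))) (P.cons (P.cons (P.lf 18764428 0 0) (P.cons (P.lf 0 410514 0) (P.cons (P.lf 193782 0 0) (P.lf 9222 0 0)))) (P.cons (P.cons (P.lf 0 12627878 0) (P.cons (P.lf 0 289594 0) (P.cons (P.lf 136704 0 0) P.nil))) (P.cons (P.cons (P.lf 0 983042 0) (P.cons (P.lf 57696 0 0) P.nil)) (P.cons (P.cons (P.lf 532275 0 0) P.nil) P.nil)))))) 247783)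
 (EL.cons 9 (TM.mk (P.cons (P.cons (P.lf 0 3023235532 0) (P.cons (P.lf 0 158383134 0) (P.cons (P.lf 74766534 0 0) (P.lf 3560310 0 0)))) (P.cons (P.cons (P.lf 0 660067756 0) (P.cons (P.lf 0 7621896 0) (P.cons (P.lf 3597996 0 0) (P.lf 171330 0 0)))) (P.cons (P.cons (P.lf 24237118 0 0) (P.cons (P.lf 3627792 0 0) (P.cons (P.lf 0 1712538 0) (P.lf 0 81546 0)))) (P.cons (P.cons (P.lf 21651030 0 0) (P.cons (P.lf 180048 0 0) (P.cons (P.lf 0 84996 0) P.nil))) (P.cons (P.cons (P.lf 117678 0 0) (P.cons (P.lf 0 41184 0) P.nil)) (P.cons (P.cons (P.lf 0 235246 0) P.nil) P.nil)))))) 53387)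
 (EL.cons 2 (TM.mk (P.cons (P.cons (P.lf 67931825 0 0) (P.cons (P.lf 0 66983644 0) (P.cons (P.lf 0 2095981 0) (P.cons (P.lf 384077 0 0) (P.lf 13716 0 0))))) (P.cons (P.cons (P.lf 0 65209764 0) (P.cons (P.lf 64299577 0 0) (P.cons (P.lf 2011995 0 0) (P.cons (P.lf 0 368687 0) (P.lf 0 13165 0))))) (P.cons (P.cons (P.lf 0 4026453 0) (P.cons (P.lf 3970254 0 0) (P.cons (P.lf 124230 0 0) (P.cons (P.lf 0 22764 0) P.nil)))) (P.cons (P.cons (P.lf 1248629 0 0) (P.cons (P.lf 0 1231202 0) (P.cons (P.lf 0 38522 0) P.nil))) (P.cons (P.cons (P.lf 68625 0 0) (P.cons (P.lf 0 67665 0) P.nil)) (P.cons (P.cons (P.lf 0 12231 0) P.nil) P.nil)))))) 27521)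
 (EL.cons 6 (TM.mk (P.cons (P.cons (P.lf 318543594 0 0) (P.cons (P.lf 0 314097417 0) (P.cons (P.lf 0 9828411 0) (P.cons (P.lf 1801014 0 0) (P.lf 64320 0 0))))) (P.cons (P.cons (P.lf 15329328 0 0) (P.cons (P.lf 0 15115362 0) (P.cons (P.lf 0 472971 0) (P.cons (P.lf 86667 0 0) (P.lf 3093 0 0))))) (P.cons (P.cons (P.lf 0 7296306 0) (P.cons (P.lf 7194465 0 0) (P.cons (P.lf 225120 0 0) (P.cons (P.lf 0 41250 0) P.nil)))) (P.cons (P.cons (P.lf 0 362130 0) (P.cons (P.lf 357075 0 0) (P.cons (P.lf 11172 0 0) P.nil))) (P.cons (P.cons (P.lf 82839 0 0) (P.cons (P.lf 0 81684 0) P.nil)) (P.cons (P.cons (P.lf 4491 0 0) P.nil) P.nil)))))) 13443)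
 EL.nil))))))
noncomputable def S227_256_734_808_2 : EL := (EL.cons 0 (TM.mk (P.cons (P.cons (P.lf 1264749517 0 0) (P.cons (P.lf 156047338 0 0) (P.cons (P.lf 0 68959987 0) (P.cons (P.lf 0 7948882 0) (P.cons (P.lf 836758 0 0) (P.cons (P.lf 99836 0 0) P.nil)))))) (P.cons (P.cons (P.lf 1329258288 0 0) (P.cons (P.lf 97684026 0 0) (P.cons (P.lf 0 44853351 0) (P.cons (P.lf 0 3384933 0) (P.cons (P.lf 224033 0 0) P.nil))))) (P.cons (P.cons (P.lf 222728243 0 0) (P.cons (P.lf 0 3891667 0) (P.cons (P.lf 1319713 0 0) (P.cons (P.lf 575961 0 0) P.nil)))) (P.cons (P.cons (P.lf 0 96341189 0) (P.cons (P.lf 0 9268187 0) (P.cons (P.lf 4268652 0 0) P.nil))) (P.cons (P.cons (P.lf 0 27716743 0) (P.cons (P.lf 0 476521 0) P.nil)) (P.cons (P.cons (P.lf 1849846 0 0) P.nil) P.nil)))))) 3113269)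
 (EL.cons 1 (TM.mk (P.cons (P.cons (P.lf 0 1428208486 0) (P.cons (P.lf 0 95366917 0) (P.cons (P.lf 43942691 0 0) (P.cons (P.lf 3159940 0 0) (P.cons (P.lf 0 191462 0) (P.cons (P.lf 0 22843 0) P.nil)))))) (P.cons (P.cons (P.lf 0 215091372 0) (P.cons (P.lf 15535501 0 0) (P.cons (P.lf 0 6413478 0) (P.cons (P.lf 0 1218034 0) (P.cons (P.lf 163690 0 0) P.nil))))) (P.cons (P.cons (P.lf 231752133 0 0) (P.cons (P.lf 19511957 0 0) (P.cons (P.lf 0 8987277 0) (P.cons (P.lf 0 649660 0) P.nil)))) (P.cons (P.cons (P.lf 58899555 0 0) (P.cons (P.lf 583246 0 0) (P.cons (P.lf 0 332653 0) P.nil))) (P.cons (P.cons (P.lf 0 8140483 0) (P.cons (P.lf 0 1061668 0) P.nil)) (P.cons (P.cons (P.lf 0 3461211 0) P.nil) P.nil)))))) 1505421)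
 (EL.cons 5 (TM.mk (P.cons (P.cons (P.lf 1158179710 0 0) (P.cons (P.lf 112984516 0 0) (P.cons (P.lf 0 50595196 0) (P.cons (P.lf 0 5127063 0) (P.cons (P.lf 487461 0 0) (P.cons (P.lf 58146 0 0) P.nil)))))) (P.cons (P.cons (P.lf 229471733 0 0) (P.cons (P.lf 10157014 0 0) (P.cons (P.lf 0 4817830 0) (P.cons (P.lf 0 206532 0) (P.cons (P.lf 0 4097 0) P.nil))))) (P.cons (P.cons (P.lf 0 28327688 0) (P.cons (P.lf 0 2055627 0) (P.cons (P.lf 962409 0 0) (P.cons (P.lf 53746 0 0) P.nil)))) (P.cons (P.cons (P.lf 5596314 0 0) (P.cons (P.lf 989850 0 0) (P.cons (P.lf 0 449164 0) P.nil))) (P.cons (P.cons (P.lf 4804898 0 0) (P.cons (P.lf 137736 0 0) P.nil)) (P.cons (P.cons (P.lf 0 250190 0) P.nil) P.nil)))))) 1571456)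
 (EL.cons 9 (TM.mk (P.cons (P.cons (P.lf 1418707438 0 0) (P.cons (P.lf 148648246 0 0) (P.cons (P.lf 0 66277332 0) (P.cons (P.lf 0 7017643 0) (P.cons (P.lf 692631 0 0) (P.cons (P.lf 82636 0 0) P.nil)))))) (P.cons (P.cons (P.lf 619497241 0 0) (P.cons (P.lf 39608026 0 0) (P.cons (P.lf 0 18322650 0) (P.cons (P.lf 0 1244166 0) (P.cons (P.lf 66663 0 0) P.nil))))) (P.cons (P.cons (P.lf 44880498 0 0) (P.cons (P.lf 0 3034699 0) (P.cons (P.lf 1263207 0 0) (P.cons (P.lf 228106 0 0) P.nil)))) (P.cons (P.cons (P.lf 0 25286743 0) (P.cons (P.lf 0 2034258 0) (P.cons (P.lf 942859 0 0) P.nil))) (P.cons (P.cons (P.lf 0 4455817 0) (P.cons (P.lf 0 27960 0) P.nil)) (P.cons (P.cons (P.lf 359580 0 0) P.nil) P.nil)))))) 456292)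
 (EL.cons 2 (TM.mk (P.cons (P.cons (P.lf 0 63756450 0) (P.cons (P.lf 59526438 0 0) (P.cons (P.lf 6837378 0 0) (P.cons (P.lf 0 1737061 0) (P.cons (P.lf 0 154440 0) (P.cons (P.lf 5923 0 0) P.nil)))))) (P.cons (P.cons (P.lf 47281651 0 0) (P.cons (P.lf 0 43576166 0) (P.cons (P.lf 0 5899539 0) (P.cons (P.lf 1522507 0 0) (P.cons (P.lf 138628 0 0) P.nil))))) (P.cons (P.cons (P.lf 17652363 0 0) (P.cons (P.lf 0 16977200 0) (P.cons (P.lf 0 1169848 0) (P.cons (P.lf 276519 0 0) P.nil)))) (P.cons (P.cons (P.lf 0 380868 0) (P.cons (P.lf 254041 0 0) (P.cons (P.lf 188921 0 0) P.nil))) (P.cons (P.cons (P.lf 0 786380 0) (P.cons (P.lf 760027 0 0) P.nil)) (P.cons (P.cons (P.lf 0 27590 0) P.nil) P.nil)))))) 281620)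
 (EL.cons 6 (TM.mk (P.cons (P.cons (P.lf 0 298964574 0) (P.cons (P.lf 279129336 0 0) (P.cons (P.lf 32061624 0 0) (P.cons (P.lf 0 8145372 0) (P.cons (P.lf 0 724200 0) (P.cons (P.lf 27774 0 0) P.nil)))))) (P.cons (P.cons (P.lf 0 79660524 0) (P.cons (P.lf 77041194 0 0) (P.cons (P.lf 4655868 0 0) (P.cons (P.lf 0 1071666 0) (P.cons (P.lf 0 79968 0) P.nil))))) (P.cons (P.cons (P.lf 6103464 0 0) (P.cons (P.lf 0 5337042 0) (P.cons (P.lf 0 1181610 0) (P.cons (P.lf 315264 0 0) P.nil)))) (P.cons (P.cons (P.lf 4091358 0 0) (P.cons (P.lf 0 3964116 0) (P.cons (P.lf 0 228498 0) P.nil))) (P.cons (P.cons (P.lf 56226 0 0) (P.cons (P.lf 0 70086 0) P.nil)) (P.cons (P.cons (P.lf 0 95658 0) P.nil) P.nil)))))) 279462)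
 EL.nil))))))
noncomputable def S227_256_734_808_3 : EL := (EL.cons 0 (TM.mk (P.cons (P.lf 96110806 0 0) (P.cons (P.lf 0 190686074 0) (P.cons (P.lf 92290364 0 0) (P.cons (P.lf 3016066 0 0) (P.cons (P.lf 0 708651 0) (P.cons (P.lf 0 26673 0) P.nil)))))) 4788)
 (EL.cons 1 (TM.mk (P.cons (P.lf 450679505 0 0) (P.cons (P.lf 0 439849933 0) (P.cons (P.lf 0 16100088 0) (P.cons (P.lf 5127871 0 0) (P.cons (P.lf 176304 0 0) (P.cons (P.lf 0 32482 0) P.nil)))))) 1651)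
 (EL.cons 5 (TM.mk (P.cons (P.lf 2113310914 0 0) (P.cons (P.lf 67799490 0 0) (P.cons (P.lf 0 32814348 0) (P.cons (P.lf 0 1072376 0) (P.cons (P.lf 251962 0 0) (P.cons (P.lf 9484 0 0) P.nil)))))) 1830)
 EL.nil)))
noncomputable def S227_256_734_808_4 : EL := (EL.cons 0 (TM.mk (P.cons (P.cons (P.lf 0 45101717 0) (P.cons (P.lf 0 2362816 0) (P.cons (P.lf 1115393 0 0) (P.lf 53112 0 0)))) (P.cons (P.cons (P.lf 79635726 0 0) (P.cons (P.lf 4574176 0 0) (P.cons (P.lf 0 2159291 0) (P.lf 0 102823 0)))) (P.cons (P.cons (P.lf 0 23410395 0) (P.cons (P.lf 0 1989175 0) (P.cons (P.lf 939012 0 0) (P.lf 44713 0 0)))) (P.cons (P.cons (P.lf 0 11265424 0) (P.cons (P.lf 0 288024 0) (P.cons (P.lf 135965 0 0) P.nil))) (P.cons (P.cons (P.lf 0 268340 0) (P.cons (P.lf 59878 0 0) P.nil)) (P.cons (P.cons (P.lf 399635 0 0) P.nil) P.nil)))))) 92863)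
 (EL.cons 1 (TM.mk (P.cons (P.cons (P.lf 0 211489430 0) (P.cons (P.lf 0 11079637 0) (P.cons (P.lf 5230267 0 0) (P.lf 249058 0 0)))) (P.cons (P.cons (P.lf 160232640 0 0) (P.cons (P.lf 10280214 0 0) (P.cons (P.lf 0 4852890 0) (P.lf 0 231090 0)))) (P.cons (P.cons (P.lf 54316018 0 0) (P.cons (P.lf 1169964 0 0) (P.cons (P.lf 0 552292 0) (P.lf 0 26298 0)))) (P.cons (P.cons (P.lf 0 896960 0) (P.cons (P.lf 0 342103 0) (P.cons (P.lf 161493 0 0) P.nil))) (P.cons (P.cons (P.lf 0 2138647 0) (P.cons (P.lf 0 34638 0) P.nil)) (P.cons (P.cons (P.lf 0 62126 0) P.nil) P.nil)))))) 82834)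
 (EL.cons 5 (TM.mk (P.cons (P.cons (P.lf 0 991709008 0) (P.cons (P.lf 0 51954264 0) (P.cons (P.lf 24525592 0 0) (P.lf 1167884 0 0)))) (P.cons (P.cons (P.lf 0 248337508 0) (P.cons (P.lf 0 4167004 0) (P.cons (P.lf 1967078 0 0) (P.lf 93668 0 0)))) (P.cons (P.cons (P.lf 16402734 0 0) (P.cons (P.lf 1916526 0 0) (P.cons (P.lf 0 904716 0) (P.lf 0 43080 0)))) (P.cons (P.cons (P.lf 11222492 0 0) (P.cons (P.lf 162424 0 0) (P.cons (P.lf 0 76674 0) P.nil))) (P.cons (P.cons (P.lf 134636 0 0) (P.cons (P.lf 0 35016 0) P.nil)) (P.cons (P.cons (P.lf 0 220508 0) P.nil) P.nil)))))) 49016)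
 EL.nil)))
noncomputable def S227_256_734_808_5 : EL := (EL.cons 0 (TM.mk (P.cons (P.cons (P.lf 21164788 0 0) (P.cons (P.lf 2217587 0 0) (P.cons (P.lf 0 988748 0) (P.cons (P.lf 0 104690 0) (P.cons (P.lf 10332 0 0) (P.cons (P.lf 1232 0 0) P.nil)))))) (P.cons (P.cons (P.lf 0 32749549 0) (P.cons (P.lf 0 3808858 0) (P.cons (P.lf 1688356 0 0) (P.cons (P.lf 189149 0 0) (P.cons (P.lf 0 19504 0) P.nil))))) (P.cons (P.cons (P.lf 2656912 0 0) (P.cons (P.lf 911831 0 0) (P.cons (P.lf 0 388279 0) (P.cons (P.lf 0 60301 0) P.nil)))) (P.cons (P.cons (P.lf 7833062 0 0) (P.cons (P.lf 696462 0 0) (P.cons (P.lf 0 316828 0) P.nil))) (P.cons (P.cons (P.lf 1458868 0 0) (P.cons (P.lf 18511 0 0) P.nil)) (P.cons (P.cons (P.lf 0 277996 0) P.nil) P.nil)))))) 301056)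
 (EL.cons 1 (TM.mk (P.cons (P.cons (P.lf 99245205 0 0) (P.cons (P.lf 10398637 0 0) (P.cons (P.lf 0 4636408 0) (P.cons (P.lf 0 490916 0) (P.cons (P.lf 48451 0 0) (P.cons (P.lf 5778 0 0) P.nil)))))) (P.cons (P.cons (P.lf 0 53523675 0) (P.cons (P.lf 0 7377997 0) (P.cons (P.lf 3243241 0 0) (P.cons (P.lf 392083 0 0) (P.cons (P.lf 0 42624 0) P.nil))))) (P.cons (P.cons (P.lf 0 42701203 0) (P.cons (P.lf 0 3287956 0) (P.cons (P.lf 1504951 0 0) (P.cons (P.lf 118436 0 0) P.nil)))) (P.cons (P.cons (P.lf 0 5252023 0) (P.cons (P.lf 84215 0 0) (P.cons (P.lf 0 27249 0) P.nil))) (P.cons (P.cons (P.lf 1834468 0 0) (P.cons (P.lf 180106 0 0) P.nil)) (P.cons (P.cons (P.lf 438084 0 0) P.nil) P.nil)))))) 266144)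
 (EL.cons 5 (TM.mk (P.cons (P.cons (P.lf 465377220 0 0) (P.cons (P.lf 48760938 0 0) (P.cons (P.lf 0 21740888 0) (P.cons (P.lf 0 2301988 0) (P.cons (P.lf 227202 0 0) (P.cons (P.lf 27106 0 0) P.nil)))))) (P.cons (P.cons (P.lf 218143364 0 0) (P.cons (P.lf 14556936 0 0) (P.cons (P.lf 0 6707852 0) (P.cons (P.lf 0 481974 0) (P.cons (P.lf 29156 0 0) P.nil))))) (P.cons (P.cons (P.lf 14015486 0 0) (P.cons (P.lf 0 1335772 0) (P.cons (P.lf 559122 0 0) (P.cons (P.lf 97476 0 0) P.nil)))) (P.cons (P.cons (P.lf 0 11214002 0) (P.cons (P.lf 0 925716 0) (P.cons (P.lf 426936 0 0) P.nil))) (P.cons (P.cons (P.lf 0 2003980 0) (P.cons (P.lf 0 15900 0) P.nil)) (P.cons (P.cons (P.lf 218702 0 0) P.nil) P.nil)))))) 252820)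
 EL.nil)))
noncomputable def S227_256_734_808_6 : EL := (EL.cons 12 (TM.mk (P.lf 8589934592 0 0) 0)
 (EL.cons 3 (TM.mk (P.cons (P.lf 0 454308690 0) (P.cons (P.lf 450679503 0 0) (P.cons (P.lf 5414782 0 0) (P.cons (P.lf 0 1756837 0) (P.cons (P.lf 0 35658 0) (P.cons (P.lf 6731 0 0) P.nil)))))) 269)
 (EL.cons 7 (TM.mk (P.cons (P.lf 0 2130328762 0) (P.cons (P.lf 0 34172730 0) (P.cons (P.lf 16813380 0 0) (P.cons (P.lf 270802 0 0) (P.cons (P.lf 0 64991 0) (P.cons (P.lf 0 1601 0) P.nil)))))) 330)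
 EL.nil)))
noncomputable def S227_256_734_808_7 : EL := (EL.cons 12 (TM.mk (P.cons (P.cons (P.lf 0 4030980710 0) (P.cons (P.lf 0 211177512 0) (P.cons (P.lf 99688712 0 0) (P.lf 4747080 0 0)))) (P.cons (P.cons (P.lf 0 880090342 0) (P.cons (P.lf 0 10162528 0) (P.cons (P.lf 4797328 0 0) (P.lf 228440 0 0)))) (P.cons (P.cons (P.lf 32316158 0 0) (P.cons (P.lf 4837056 0 0) (P.cons (P.lf 0 2283384 0) (P.lf 0 108728 0)))) (P.cons (P.cons (P.lf 28868040 0 0) (P.cons (P.lf 240064 0 0) (P.cons (P.lf 0 113328 0) P.nil))) (P.cons (P.cons (P.lf 156904 0 0) (P.cons (P.lf 0 54912 0) P.nil)) (P.cons (P.cons (P.lf 0 313662 0) P.nil) P.nil)))))) 71158)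
 (EL.cons 3 (TM.mk (P.cons (P.cons (P.lf 0 2688526794 0) (P.cons (P.lf 0 22337718 0) (P.cons (P.lf 10544770 0 0) (P.lf 502130 0 0)))) (P.cons (P.cons (P.lf 24787844 0 0) (P.cons (P.lf 21084316 0 0) (P.cons (P.lf 0 9953088 0) (P.lf 0 473956 0)))) (P.cons (P.cons (P.lf 248514488 0 0) (P.cons (P.lf 1844258 0 0) (P.cons (P.lf 0 870600 0) (P.lf 0 41456 0)))) (P.cons (P.cons (P.lf 3948974 0 0) (P.cons (P.lf 0 555736 0) (P.cons (P.lf 262340 0 0) P.nil))) (P.cons (P.cons (P.lf 0 4580628 0) (P.cons (P.lf 0 43006 0) P.nil)) (P.cons (P.cons (P.lf 0 116484 0) P.nil) P.nil)))))) 217004)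
 (EL.cons 7 (TM.mk (P.cons (P.cons (P.lf 1219717540 0 0) (P.cons (P.lf 54913271 0 0) (P.cons (P.lf 0 25922427 0) (P.lf 0 1234403 0)))) (P.cons (P.cons (P.lf 0 1879528 0) (P.cons (P.lf 0 1598716 0) (P.cons (P.lf 754688 0 0) (P.lf 35936 0 0)))) (P.cons (P.cons (P.lf 0 17896252 0) (P.cons (P.lf 665951 0 0) (P.cons (P.lf 0 314368 0) (P.lf 0 14969 0)))) (P.cons (P.cons (P.lf 12356507 0 0) (P.cons (P.lf 129641 0 0) (P.cons (P.lf 0 61200 0) P.nil))) (P.cons (P.cons (P.lf 461239 0 0) (P.cons (P.lf 0 27781 0) P.nil)) (P.cons (P.cons (P.lf 0 242148 0) P.nil) P.nil)))))) 139621)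
 (EL.cons 10 (TM.mk (P.cons (P.cons (P.lf 0 642217461 0) (P.cons (P.lf 633253500 0 0) (P.cons (P.lf 19815114 0 0) (P.cons (P.lf 0 3631038 0) (P.lf 0 129678 0))))) (P.cons (P.cons (P.lf 0 20603694 0) (P.cons (P.lf 20316111 0 0) (P.cons (P.lf 635709 0 0) (P.cons (P.lf 0 116490 0) (P.lf 0 4158 0))))) (P.cons (P.cons (P.lf 9972003 0 0) (P.cons (P.lf 0 9832815 0) (P.cons (P.lf 0 307677 0) (P.cons (P.lf 56379 0 0) P.nil)))) (P.cons (P.cons (P.lf 325884 0 0) (P.cons (P.lf 0 321336 0) (P.cons (P.lf 0 10053 0) P.nil))) (P.cons (P.cons (P.lf 0 76569 0) (P.cons (P.lf 75498 0 0) P.nil)) (P.cons (P.cons (P.lf 0 2880 0) P.nil) P.nil)))))) 10914)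
 EL.nil))))
noncomputable def S227_256_734_808_8 : EL := (EL.cons 12 (TM.mk (P.cons (P.cons (P.lf 1891609918 0 0) (P.cons (P.lf 198197662 0 0) (P.cons (P.lf 0 88369776 0) (P.cons (P.lf 0 9356858 0) (P.cons (P.lf 923508 0 0) (P.cons (P.lf 110182 0 0) P.nil)))))) (P.cons (P.cons (P.lf 825996322 0 0) (P.cons (P.lf 52810702 0 0) (P.cons (P.lf 0 24430200 0) (P.cons (P.lf 0 1658888 0) (P.cons (P.lf 88884 0 0) P.nil))))) (P.cons (P.cons (P.lf 59840664 0 0) (P.cons (P.lf 0 4046266 0) (P.cons (P.lf 1684276 0 0) (P.cons (P.lf 304142 0 0) P.nil)))) (P.cons (P.cons (P.lf 0 33715658 0) (P.cons (P.lf 0 2712344 0) (P.cons (P.lf 1257146 0 0) P.nil))) (P.cons (P.cons (P.lf 0 5941090 0) (P.cons (P.lf 0 37280 0) P.nil)) (P.cons (P.cons (P.lf 479440 0 0) P.nil) P.nil)))))) 608360)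
 (EL.cons 3 (TM.mk (P.cons (P.cons (P.lf 2623323126 0 0) (P.cons (P.lf 163638207 0 0) (P.cons (P.lf 0 75874354 0) (P.cons (P.lf 0 4974611 0) (P.cons (P.lf 244216 0 0) (P.cons (P.lf 29136 0 0) P.nil)))))) (P.cons (P.cons (P.lf 472087616 0 0) (P.cons (P.lf 0 17674007 0) (P.cons (P.lf 7113429 0 0) (P.cons (P.lf 1558370 0 0) (P.cons (P.lf 0 218755 0) P.nil))))) (P.cons (P.cons (P.lf 0 299912309 0) (P.cons (P.lf 0 24634723 0) (P.cons (P.lf 11421934 0 0) (P.cons (P.lf 749342 0 0) P.nil)))) (P.cons (P.cons (P.lf 0 77570485 0) (P.cons (P.lf 0 676282 0) (P.cons (P.lf 376074 0 0) P.nil))) (P.cons (P.cons (P.lf 7021924 0 0) (P.cons (P.lf 995038 0 0) P.nil)) (P.cons (P.cons (P.lf 3317765 0 0) P.nil) P.nil)))))) 1630985)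
 (EL.cons 7 (TM.mk (P.cons (P.cons (P.lf 0 675623851 0) (P.cons (P.lf 0 62356272 0) (P.cons (P.lf 28023511 0 0) (P.cons (P.lf 2735253 0 0) (P.cons (P.lf 0 251250 0) (P.cons (P.lf 0 29971 0) P.nil)))))) (P.cons (P.cons (P.lf 0 35796014 0) (P.cons (P.lf 1340127 0 0) (P.cons (P.lf 0 539365 0) (P.cons (P.lf 0 118158 0) (P.cons (P.lf 16583 0 0) P.nil))))) (P.cons (P.cons (P.lf 40782945 0 0) (P.cons (P.lf 1192467 0 0) (P.cons (P.lf 0 594207 0) (P.cons (P.lf 2737 0 0) P.nil)))) (P.cons (P.cons (P.lf 0 9545750 0) (P.cons (P.lf 0 1198598 0) (P.cons (P.lf 551326 0 0) P.nil))) (P.cons (P.cons (P.lf 0 4804004 0) (P.cons (P.lf 0 104269 0) P.nil)) (P.cons (P.cons (P.lf 182265 0 0) P.nil) P.nil)))))) 932240)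
 (EL.cons 10 (TM.mk (P.cons (P.cons (P.lf 602744094 0 0) (P.cons (P.lf 0 562754166 0) (P.cons (P.lf 0 64639620 0) (P.cons (P.lf 16421940 0 0) (P.cons (P.lf 1460070 0 0) (P.cons (P.lf 0 55998 0) P.nil)))))) (P.cons (P.cons (P.lf 150935364 0 0) (P.cons (P.lf 0 146296002 0) (P.cons (P.lf 0 8349834 0) (P.cons (P.lf 1897170 0 0) (P.cons (P.lf 137814 0 0) P.nil))))) (P.cons (P.cons (P.lf 0 9969300 0) (P.cons (P.lf 8665320 0 0) (P.cons (P.lf 2006040 0 0) (P.cons (P.lf 0 536436 0) P.nil)))) (P.cons (P.cons (P.lf 0 6820836 0) (P.cons (P.lf 6626916 0 0) (P.cons (P.lf 354390 0 0) P.nil))) (P.cons (P.cons (P.lf 0 81828 0) (P.cons (P.lf 101970 0 0) P.nil)) (P.cons (P.cons (P.lf 134016 0 0) P.nil) P.nil)))))) 410208)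
 EL.nil))))
noncomputable def S227_256_734_808_9 : EL := (EL.cons 3 (TM.mk (P.cons (P.lf 0 454308690 0) (P.cons (P.lf 450679503 0 0) (P.cons (P.lf 5414782 0 0) (P.cons (P.lf 0 1756837 0) (P.cons (P.lf 0 35658 0) (P.cons (P.lf 6731 0 0) P.nil)))))) 269)
 (EL.cons 7 (TM.mk (P.cons (P.lf 0 2130328762 0) (P.cons (P.lf 0 34172730 0) (P.cons (P.lf 16813380 0 0) (P.cons (P.lf 270802 0 0) (P.cons (P.lf 0 64991 0) (P.cons (P.lf 0 1601 0) P.nil)))))) 330)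
 EL.nil))
noncomputable def S227_256_734_808_10 : EL := (EL.cons 3 (TM.mk (P.cons (P.cons (P.lf 213192492 0 0) (P.cons (P.lf 11168859 0 0) (P.cons (P.lf 0 5272385 0) (P.lf 0 251065 0)))) (P.cons (P.cons (P.lf 0 164942779 0) (P.cons (P.lf 0 10542158 0) (P.cons (P.lf 4976544 0 0) (P.lf 236978 0 0)))) (P.cons (P.cons (P.lf 0 50424955 0) (P.cons (P.lf 0 922129 0) (P.cons (P.lf 435300 0 0) (P.lf 20728 0 0)))) (P.cons (P.cons (P.lf 438362 0 0) (P.cons (P.lf 277868 0 0) (P.cons (P.lf 0 131170 0) P.nil))) (P.cons (P.cons (P.lf 1723395 0 0) (P.cons (P.lf 21503 0 0) P.nil)) (P.cons (P.cons (P.lf 36903 0 0) P.nil) P.nil)))))) 52297)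
 (EL.cons 7 (TM.mk (P.cons (P.cons (P.lf 999694939 0 0) (P.cons (P.lf 52372637 0 0) (P.cons (P.lf 0 24723090 0) (P.lf 0 1177289 0)))) (P.cons (P.cons (P.lf 234301130 0 0) (P.cons (P.lf 3360449 0 0) (P.cons (P.lf 0 1586335 0) (P.lf 0 75538 0)))) (P.cons (P.cons (P.lf 0 12403279 0) (P.cons (P.lf 0 1572520 0) (P.cons (P.lf 742325 0 0) (P.lf 35347 0 0)))) (P.cons (P.cons (P.lf 0 9137629 0) (P.cons (P.lf 0 105328 0) (P.cons (P.lf 49722 0 0) P.nil))) (P.cons (P.cons (P.lf 0 87749 0) (P.cons (P.lf 23408 0 0) P.nil)) (P.cons (P.cons (P.lf 142098 0 0) P.nil) P.nil)))))) 30636)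
 EL.nil))
noncomputable def S227_256_734_808_11 : EL := (EL.cons 3 (TM.mk (P.cons (P.cons (P.lf 0 100044396 0) (P.cons (P.lf 0 10482375 0) (P.cons (P.lf 4673744 0 0) (P.cons (P.lf 494869 0 0) (P.cons (P.lf 0 48842 0) (P.cons (P.lf 0 5826 0) P.nil)))))) (P.cons (P.cons (P.lf 55559504 0 0) (P.cons (P.lf 7605559 0 0) (P.cons (P.lf 0 3344331 0) (P.cons (P.lf 0 403180 0) (P.cons (P.lf 43751 0 0) P.nil))))) (P.cons (P.cons (P.lf 41364241 0 0) (P.cons (P.lf 3109703 0 0) (P.cons (P.lf 0 1426538 0) (P.cons (P.lf 0 109018 0) P.nil)))) (P.cons (P.cons (P.lf 5056571 0 0) (P.cons (P.lf 0 76084 0) (P.cons (P.lf 24552 0 0) P.nil))) (P.cons (P.cons (P.lf 0 1593776 0) (P.cons (P.lf 0 154508 0) P.nil)) (P.cons (P.cons (P.lf 0 372499 0) P.nil) P.nil)))))) 213757)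
 (EL.cons 7 (TM.mk (P.cons (P.cons (P.lf 0 469124761 0) (P.cons (P.lf 0 49153596 0) (P.cons (P.lf 21915961 0 0) (P.cons (P.lf 2320527 0 0) (P.cons (P.lf 0 229032 0) (P.cons (P.lf 0 27325 0) P.nil)))))) (P.cons (P.cons (P.lf 0 212374748 0) (P.cons (P.lf 0 13885683 0) (P.cons (P.lf 6410315 0 0) (P.cons (P.lf 448632 0 0) (P.cons (P.lf 0 25717 0) P.nil))))) (P.cons (P.cons (P.lf 0 14424147 0) (P.cons (P.lf 1181331 0 0) (P.cons (P.lf 0 493485 0) (P.cons (P.lf 0 87143 0) P.nil)))) (P.cons (P.cons (P.lf 9799906 0 0) (P.cons (P.lf 798382 0 0) (P.cons (P.lf 0 369080 0) P.nil))) (P.cons (P.cons (P.lf 1736392 0 0) (P.cons (P.lf 12281 0 0) P.nil)) (P.cons (P.cons (P.lf 0 165975 0) P.nil) P.nil)))))) 198616)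
 EL.nil))
noncomputable def S227_256_734_808_12 : EL := (EL.cons 4 (TM.mk (P.cons (P.lf 454308690 0 0) (P.cons (P.lf 0 450679503 0) (P.cons (P.lf 0 5414782 0) (P.cons (P.lf 1756837 0 0) (P.cons (P.lf 35658 0 0) (P.cons (P.lf 0 6731 0) P.nil)))))) 269)
 (EL.cons 8 (TM.mk (P.cons (P.lf 2130328762 0 0) (P.cons (P.lf 34172730 0 0) (P.cons (P.lf 0 16813380 0) (P.cons (P.lf 0 270802 0) (P.cons (P.lf 64991 0 0) (P.cons (P.lf 1601 0 0) P.nil)))))) 330)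
 EL.nil))
noncomputable def S227_256_734_808_13 : EL := (EL.cons 4 (TM.mk (P.cons (P.cons (P.lf 0 213192492 0) (P.cons (P.lf 0 11168859 0) (P.cons (P.lf 5272385 0 0) (P.lf 251065 0 0)))) (P.cons (P.cons (P.lf 164942779 0 0) (P.cons (P.lf 10542158 0 0) (P.cons (P.lf 0 4976544 0) (P.lf 0 236978 0)))) (P.cons (P.cons (P.lf 50424955 0 0) (P.cons (P.lf 922129 0 0) (P.cons (P.lf 0 435300 0) (P.lf 0 20728 0)))) (P.cons (P.cons (P.lf 0 438362 0) (P.cons (P.lf 0 277868 0) (P.cons (P.lf 131170 0 0) P.nil))) (P.cons (P.cons (P.lf 0 1723395 0) (P.cons (P.lf 0 21503 0) P.nil)) (P.cons (P.cons (P.lf 0 36903 0) P.nil) P.nil)))))) 52297)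
 (EL.cons 8 (TM.mk (P.cons (P.cons (P.lf 0 999694939 0) (P.cons (P.lf 0 52372637 0) (P.cons (P.lf 24723090 0 0) (P.lf 1177289 0 0)))) (P.cons (P.cons (P.lf 0 234301130 0) (P.cons (P.lf 0 3360449 0) (P.cons (P.lf 1586335 0 0) (P.lf 75538 0 0)))) (P.cons (P.cons (P.lf 12403279 0 0) (P.cons (P.lf 1572520 0 0) (P.cons (P.lf 0 742325 0) (P.lf 0 35347 0)))) (P.cons (P.cons (P.lf 9137629 0 0) (P.cons (P.lf 105328 0 0) (P.cons (P.lf 0 49722 0) P.nil))) (P.cons (P.cons (P.lf 87749 0 0) (P.cons (P.lf 0 23408 0) P.nil)) (P.cons (P.cons (P.lf 0 142098 0) P.nil) P.nil)))))) 30636)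
 EL.nil))
noncomputable def S227_256_734_808_14 : EL := (EL.cons 4 (TM.mk (P.cons (P.cons (P.lf 100044396 0 0) (P.cons (P.lf 10482375 0 0) (P.cons (P.lf 0 4673744 0) (P.cons (P.lf 0 494869 0) (P.cons (P.lf 48842 0 0) (P.cons (P.lf 5826 0 0) P.nil)))))) (P.cons (P.cons (P.lf 0 55559504 0) (P.cons (P.lf 0 7605559 0) (P.cons (P.lf 3344331 0 0) (P.cons (P.lf 403180 0 0) (P.cons (P.lf 0 43751 0) P.nil))))) (P.cons (P.cons (P.lf 0 41364241 0) (P.cons (P.lf 0 3109703 0) (P.cons (P.lf 1426538 0 0) (P.cons (P.lf 109018 0 0) P.nil)))) (P.cons (P.cons (P.lf 0 5056571 0) (P.cons (P.lf 76084 0 0) (P.cons (P.lf 0 24552 0) P.nil))) (P.cons (P.cons (P.lf 1593776 0 0) (P.cons (P.lf 154508 0 0) P.nil)) (P.cons (P.cons (P.lf 372499 0 0) P.nil) P.nil)))))) 213757)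
 (EL.cons 8 (TM.mk (P.cons (P.cons (P.lf 469124761 0 0) (P.cons (P.lf 49153596 0 0) (P.cons (P.lf 0 21915961 0) (P.cons (P.lf 0 2320527 0) (P.cons (P.lf 229032 0 0) (P.cons (P.lf 27325 0 0) P.nil)))))) (P.cons (P.cons (P.lf 212374748 0 0) (P.cons (P.lf 13885683 0 0) (P.cons (P.lf 0 6410315 0) (P.cons (P.lf 0 448632 0) (P.cons (P.lf 25717 0 0) P.nil))))) (P.cons (P.cons (P.lf 14424147 0 0) (P.cons (P.lf 0 1181331 0) (P.cons (P.lf 493485 0 0) (P.cons (P.lf 87143 0 0) P.nil)))) (P.cons (P.cons (P.lf 0 9799906 0) (P.cons (P.lf 0 798382 0) (P.cons (P.lf 369080 0 0) P.nil))) (P.cons (P.cons (P.lf 0 1736392 0) (P.cons (P.lf 0 12281 0) P.nil)) (P.cons (P.cons (P.lf 165975 0 0) P.nil) P.nil)))))) 198616)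
 EL.nil))
noncomputable def S227_256_734_808_15 : EL := (EL.cons 4 (TM.mk (P.cons (P.lf 0 51259096 0) (P.cons (P.lf 101699239 0 0) (P.cons (P.lf 0 49221527 0) (P.cons (P.lf 0 1608569 0) (P.cons (P.lf 377947 0 0) (P.cons (P.lf 14225 0 0) P.nil)))))) 2557)
 (EL.cons 8 (TM.mk (P.cons (P.lf 0 240362403 0) (P.cons (P.lf 234586631 0 0) (P.cons (P.lf 8586714 0 0) (P.cons (P.lf 0 2734865 0) (P.cons (P.lf 0 94029 0) (P.cons (P.lf 17324 0 0) P.nil)))))) 877)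
 EL.nil))
noncomputable def S227_256_734_808_16 : EL := (EL.cons 4 (TM.mk (P.cons (P.cons (P.lf 24054249 0 0) (P.cons (P.lf 1260168 0 0) (P.cons (P.lf 0 594876 0) (P.lf 0 28326 0)))) (P.cons (P.cons (P.lf 0 42472387 0) (P.cons (P.lf 0 2439560 0) (P.cons (P.lf 1151622 0 0) (P.lf 54839 0 0)))) (P.cons (P.cons (P.lf 12485544 0 0) (P.cons (P.lf 1060893 0 0) (P.cons (P.lf 0 500806 0) (P.lf 0 23847 0)))) (P.cons (P.cons (P.lf 6008226 0 0) (P.cons (P.lf 153613 0 0) (P.cons (P.lf 0 72514 0) P.nil))) (P.cons (P.cons (P.lf 143115 0 0) (P.cons (P.lf 0 31935 0) P.nil)) (P.cons (P.cons (P.lf 0 213138 0) P.nil) P.nil)))))) 49535)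
 (EL.cons 8 (TM.mk (P.cons (P.cons (P.lf 112794363 0 0) (P.cons (P.lf 5909140 0 0) (P.cons (P.lf 0 2789476 0) (P.lf 0 132831 0)))) (P.cons (P.cons (P.lf 0 85457408 0) (P.cons (P.lf 0 5482781 0) (P.cons (P.lf 2588208 0 0) (P.lf 123248 0 0)))) (P.cons (P.cons (P.lf 0 28968543 0) (P.cons (P.lf 0 623981 0) (P.cons (P.lf 294556 0 0) (P.lf 14026 0 0)))) (P.cons (P.cons (P.lf 478379 0 0) (P.cons (P.lf 182455 0 0) (P.cons (P.lf 0 86130 0) P.nil))) (P.cons (P.cons (P.lf 1140612 0 0) (P.cons (P.lf 18474 0 0) P.nil)) (P.cons (P.cons (P.lf 33134 0 0) P.nil) P.nil)))))) 44168)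
 EL.nil))
noncomputable def S227_256_734_808_17 : EL := (EL.cons 4 (TM.mk (P.cons (P.cons (P.lf 0 11287887 0) (P.cons (P.lf 0 1182713 0) (P.cons (P.lf 527332 0 0) (P.cons (P.lf 55834 0 0) (P.cons (P.lf 0 5510 0) (P.cons (P.lf 0 657 0) P.nil)))))) (P.cons (P.cons (P.lf 17466426 0 0) (P.cons (P.lf 2031390 0 0) (P.cons (P.lf 0 900456 0) (P.cons (P.lf 0 100879 0) (P.cons (P.lf 10402 0 0) P.nil))))) (P.cons (P.cons (P.lf 0 1417020 0) (P.cons (P.lf 0 486310 0) (P.cons (P.lf 207082 0 0) (P.cons (P.lf 32160 0 0) P.nil)))) (P.cons (P.cons (P.lf 0 4177633 0) (P.cons (P.lf 0 371446 0) (P.cons (P.lf 168975 0 0) P.nil))) (P.cons (P.cons (P.lf 0 778063 0) (P.cons (P.lf 0 9872 0) P.nil)) (P.cons (P.cons (P.lf 148264 0 0) P.nil) P.nil)))))) 160573)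
 (EL.cons 8 (TM.mk (P.cons (P.cons (P.lf 0 52930776 0) (P.cons (P.lf 0 5545940 0) (P.cons (P.lf 2472751 0 0) (P.cons (P.lf 261822 0 0) (P.cons (P.lf 0 25841 0) (P.cons (P.lf 0 3082 0) P.nil)))))) (P.cons (P.cons (P.lf 28545960 0 0) (P.cons (P.lf 3934932 0 0) (P.cons (P.lf 0 1729729 0) (P.cons (P.lf 0 209111 0) (P.cons (P.lf 22733 0 0) P.nil))))) (P.cons (P.cons (P.lf 22773975 0 0) (P.cons (P.lf 1753577 0 0) (P.cons (P.lf 0 802641 0) (P.cons (P.lf 0 63166 0) P.nil)))) (P.cons (P.cons (P.lf 2801079 0 0) (P.cons (P.lf 0 44915 0) (P.cons (P.lf 14533 0 0) P.nil))) (P.cons (P.cons (P.lf 0 978383 0) (P.cons (P.lf 0 96057 0) P.nil)) (P.cons (P.cons (P.lf 0 233645 0) P.nil) P.nil)))))) 141932)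
 EL.nil))
noncomputable def S227_256_734_808_18 : EL := (EL.cons 4 (TM.mk (P.cons (P.lf 5783501 0 0) (P.cons (P.lf 0 17211901 0) (P.cons (P.lf 16867610 0 0) (P.cons (P.lf 0 5168619 0) (P.cons (P.lf 0 332796 0) (P.cons (P.lf 59024 0 0) P.nil)))))) 4306)
 (EL.cons 8 (TM.mk (P.cons (P.lf 27119797 0 0) (P.cons (P.lf 0 53371278 0) (P.cons (P.lf 24964624 0 0) (P.cons (P.lf 1690000 0 0) (P.cons (P.lf 0 384174 0) (P.cons (P.lf 0 22382 0) P.nil)))))) 4185)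
 EL.nil))
noncomputable def S227_256_734_808_19 : EL := (EL.cons 4 (TM.mk (P.cons (P.cons (P.lf 0 2714010 0) (P.cons (P.lf 0 142183 0) (P.cons (P.lf 67118 0 0) (P.lf 3195 0 0)))) (P.cons (P.cons (P.lf 7484438 0 0) (P.cons (P.lf 416299 0 0) (P.cons (P.lf 0 196518 0) (P.lf 0 9357 0)))) (P.cons (P.cons (P.lf 0 6130207 0) (P.cons (P.lf 0 391058 0) (P.cons (P.lf 184603 0 0) (P.lf 8790 0 0)))) (P.cons (P.cons (P.lf 651962 0 0) (P.cons (P.lf 97580 0 0) (P.cons (P.lf 0 46064 0) P.nil))) (P.cons (P.cons (P.lf 691445 0 0) (P.cons (P.lf 23276 0 0) P.nil)) (P.cons (P.cons (P.lf 43114 0 0) P.nil) P.nil)))))) 55370)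
 (EL.cons 8 (TM.mk (P.cons (P.cons (P.lf 0 12726450 0) (P.cons (P.lf 0 666721 0) (P.cons (P.lf 314733 0 0) (P.lf 14986 0 0)))) (P.cons (P.cons (P.lf 22266842 0 0) (P.cons (P.lf 1280010 0 0) (P.cons (P.lf 0 604243 0) (P.lf 0 28773 0)))) (P.cons (P.cons (P.lf 0 6144862 0) (P.cons (P.lf 0 535323 0) (P.cons (P.lf 252705 0 0) (P.lf 12033 0 0)))) (P.cons (P.cons (P.lf 0 3460485 0) (P.cons (P.lf 0 100378 0) (P.cons (P.lf 47384 0 0) P.nil))) (P.cons (P.cons (P.lf 0 77818 0) (P.cons (P.lf 19837 0 0) P.nil)) (P.cons (P.cons (P.lf 138155 0 0) P.nil) P.nil)))))) 35803)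
 EL.nil))
noncomputable def S227_256_734_808_20 : EL := (EL.cons 4 (TM.mk (P.cons (P.cons (P.lf 1273598 0 0) (P.cons (P.lf 133443 0 0) (P.cons (P.lf 0 59497 0) (P.cons (P.lf 0 6299 0) (P.cons (P.lf 621 0 0) (P.cons (P.lf 74 0 0) P.nil)))))) (P.cons (P.cons (P.lf 0 3234139 0) (P.cons (P.lf 0 361576 0) (P.cons (P.lf 160620 0 0) (P.cons (P.lf 17631 0 0) (P.cons (P.lf 0 1789 0) P.nil))))) (P.cons (P.cons (P.lf 2099673 0 0) (P.cons (P.lf 280647 0 0) (P.cons (P.lf 0 123441 0) (P.cons (P.lf 0 14844 0) P.nil)))) (P.cons (P.cons (P.lf 341166 0 0) (P.cons (P.lf 0 9272 0) (P.cons (P.lf 2671 0 0) P.nil))) (P.cons (P.cons (P.lf 0 389229 0) (P.cons (P.lf 0 41990 0) P.nil)) (P.cons (P.cons (P.lf 0 108988 0) P.nil) P.nil)))))) 111626)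
 (EL.cons 8 (TM.mk (P.cons (P.cons (P.lf 5972114 0 0) (P.cons (P.lf 625741 0 0) (P.cons (P.lf 0 278997 0) (P.cons (P.lf 0 29540 0) (P.cons (P.lf 2915 0 0) (P.cons (P.lf 347 0 0) P.nil)))))) (P.cons (P.cons (P.lf 0 9145213 0) (P.cons (P.lf 0 1064716 0) (P.cons (P.lf 471931 0 0) (P.cons (P.lf 52898 0 0) (P.cons (P.lf 0 5456 0) P.nil))))) (P.cons (P.cons (P.lf 554336 0 0) (P.cons (P.lf 235114 0 0) (P.cons (P.lf 0 99717 0) (P.cons (P.lf 0 15926 0) P.nil)))) (P.cons (P.cons (P.lf 2294472 0 0) (P.cons (P.lf 209052 0 0) (P.cons (P.lf 0 94882 0) P.nil))) (P.cons (P.cons (P.lf 442547 0 0) (P.cons (P.lf 6500 0 0) P.nil)) (P.cons (P.cons (P.lf 0 89656 0) P.nil) P.nil)))))) 98511)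
 EL.nil))
noncomputable def S227_256_734_808_21 : EL := (EL.cons 4 (TM.mk (P.cons (P.cons (P.lf 2901719286 0 0) (P.cons (P.lf 33506577 0 0) (P.cons (P.lf 0 15817155 0) (P.lf 0 753195 0)))) (P.cons (P.cons (P.lf 0 189730623 0) (P.cons (P.lf 0 31626474 0) (P.cons (P.lf 14929632 0 0) (P.lf 710934 0 0)))) (P.cons (P.cons (P.lf 0 298939443 0) (P.cons (P.lf 0 2766387 0) (P.cons (P.lf 1305900 0 0) (P.lf 62184 0 0)))) (P.cons (P.cons (P.lf 0 3510612 0) (P.cons (P.lf 833604 0 0) (P.cons (P.lf 0 393510 0) P.nil))) (P.cons (P.cons (P.lf 6304023 0 0) (P.cons (P.lf 64509 0 0) P.nil)) (P.cons (P.cons (P.lf 153387 0 0) P.nil) P.nil)))))) 164688)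
 (EL.cons 8 (TM.mk (P.cons (P.cons (P.lf 0 220022601 0) (P.cons (P.lf 0 2540634 0) (P.cons (P.lf 1199337 0 0) (P.lf 57114 0 0)))) (P.cons (P.cons (P.lf 236180658 0 0) (P.cons (P.lf 4959165 0 0) (P.cons (P.lf 0 2341023 0) (P.lf 0 111474 0)))) (P.cons (P.cons (P.lf 5492973 0 0) (P.cons (P.lf 0 2238471 0) (P.cons (P.lf 1056693 0 0) (P.lf 50316 0 0)))) (P.cons (P.cons (P.lf 0 21494136 0) (P.cons (P.lf 0 234969 0) (P.cons (P.lf 110922 0 0) P.nil))) (P.cons (P.cons (P.lf 0 548988 0) (P.cons (P.lf 51189 0 0) P.nil)) (P.cons (P.cons (P.lf 384246 0 0) P.nil) P.nil)))))) 108966)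
 (EL.cons 11 (TM.mk (P.cons (P.cons (P.lf 642217461 0 0) (P.cons (P.lf 0 633253500 0) (P.cons (P.lf 0 19815114 0) (P.cons (P.lf 3631038 0 0) (P.lf 129678 0 0))))) (P.cons (P.cons (P.lf 20603694 0 0) (P.cons (P.lf 0 20316111 0) (P.cons (P.lf 0 635709 0) (P.cons (P.lf 116490 0 0) (P.lf 4158 0 0))))) (P.cons (P.cons (P.lf 0 9972003 0) (P.cons (P.lf 9832815 0 0) (P.cons (P.lf 307677 0 0) (P.cons (P.lf 0 56379 0) P.nil)))) (P.cons (P.cons (P.lf 0 325884 0) (P.cons (P.lf 321336 0 0) (P.cons (P.lf 10053 0 0) P.nil))) (P.cons (P.cons (P.lf 76569 0 0) (P.cons (P.lf 0 75498 0) P.nil)) (P.cons (P.cons (P.lf 2880 0 0) P.nil) P.nil)))))) 10914)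
 EL.nil)))
noncomputable def S227_256_734_808_22 : EL := (EL.cons 4 (TM.mk (P.cons (P.cons (P.lf 0 1361683761 0) (P.cons (P.lf 0 87060291 0) (P.cons (P.lf 40274049 0 0) (P.cons (P.lf 2734740 0 0) (P.cons (P.lf 0 146529 0) (P.cons (P.lf 0 17481 0) P.nil)))))) (P.cons (P.cons (P.lf 0 208264056 0) (P.cons (P.lf 12639783 0 0) (P.cons (P.lf 0 5228880 0) (P.cons (P.lf 0 980775 0) (P.cons (P.lf 131253 0 0) P.nil))))) (P.cons (P.cons (P.lf 170638275 0 0) (P.cons (P.lf 13872213 0 0) (P.cons (P.lf 0 6424236 0) (P.cons (P.lf 0 429180 0) P.nil)))) (P.cons (P.cons (P.lf 41313528 0 0) (P.cons (P.lf 300099 0 0) (P.cons (P.lf 0 175761 0) P.nil))) (P.cons (P.cons (P.lf 0 4307850 0) (P.cons (P.lf 0 574773 0) P.nil)) (P.cons (P.cons (P.lf 0 1845132 0) P.nil) P.nil)))))) 708603)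
 (EL.cons 8 (TM.mk (P.cons (P.cons (P.lf 103249545 0 0) (P.cons (P.lf 6601338 0 0) (P.cons (P.lf 0 3053775 0) (P.cons (P.lf 0 207363 0) (P.cons (P.lf 11109 0 0) (P.cons (P.lf 1323 0 0) P.nil)))))) (P.cons (P.cons (P.lf 0 88289367 0) (P.cons (P.lf 0 7612905 0) (P.cons (P.lf 3474840 0 0) (P.cons (P.lf 283395 0 0) (P.cons (P.lf 0 21150 0) P.nil))))) (P.cons (P.cons (P.lf 0 27603546 0) (P.cons (P.lf 0 5568 0) (P.cons (P.lf 50361 0 0) (P.cons (P.lf 0 44940 0) P.nil)))) (P.cons (P.cons (P.lf 9672828 0 0) (P.cons (P.lf 998490 0 0) (P.cons (P.lf 0 460203 0) P.nil))) (P.cons (P.cons (P.lf 3270198 0 0) (P.cons (P.lf 58275 0 0) P.nil)) (P.cons (P.cons (P.lf 0 174120 0) P.nil) P.nil)))))) 366801)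
 (EL.cons 11 (TM.mk (P.cons (P.cons (P.lf 0 301372047 0) (P.cons (P.lf 281377083 0 0) (P.cons (P.lf 32319810 0 0) (P.cons (P.lf 0 8210970 0) (P.cons (P.lf 0 730035 0) (P.cons (P.lf 27999 0 0) P.nil)))))) (P.cons (P.cons (P.lf 0 75467682 0) (P.cons (P.lf 73148001 0 0) (P.cons (P.lf 4174917 0 0) (P.cons (P.lf 0 948585 0) (P.cons (P.lf 0 68907 0) P.nil))))) (P.cons (P.cons (P.lf 4984650 0 0) (P.cons (P.lf 0 4332660 0) (P.cons (P.lf 0 1003020 0) (P.cons (P.lf 268218 0 0) P.nil)))) (P.cons (P.cons (P.lf 3410418 0 0) (P.cons (P.lf 0 3313458 0) (P.cons (P.lf 0 177195 0) P.nil))) (P.cons (P.cons (P.lf 40914 0 0) (P.cons (P.lf 0 50985 0) P.nil)) (P.cons (P.cons (P.lf 0 67008 0) P.nil) P.nil)))))) 205104)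
 EL.nil)))
noncomputable def S227_256_734_808_23 : EL := (EL.cons 4 (TM.mk (P.cons (P.cons (P.lf 0 327397455 0) (P.cons (P.lf 0 3780504 0) (P.cons (P.lf 1784628 0 0) (P.lf 84981 0 0)))) (P.cons (P.cons (P.lf 346189158 0 0) (P.cons (P.lf 7318680 0 0) (P.cons (P.lf 0 3454866 0) (P.lf 0 164517 0)))) (P.cons (P.cons (P.lf 16395066 0 0) (P.cons (P.lf 0 3182682 0) (P.cons (P.lf 1502421 0 0) (P.lf 71544 0 0)))) (P.cons (P.cons (P.lf 0 34584645 0) (P.cons (P.lf 0 460839 0) (P.cons (P.lf 217542 0 0) P.nil))) (P.cons (P.cons (P.lf 0 1449129 0) (P.cons (P.lf 95805 0 0) P.nil)) (P.cons (P.cons (P.lf 820527 0 0) P.nil) P.nil)))))) 144426)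
 (EL.cons 8 (TM.mk (P.cons (P.cons (P.lf 24824880 0 0) (P.cons (P.lf 286656 0 0) (P.cons (P.lf 0 135318 0) (P.lf 0 6444 0)))) (P.cons (P.cons (P.lf 0 51274548 0) (P.cons (P.lf 0 843903 0) (P.cons (P.lf 398373 0 0) (P.lf 18969 0 0)))) (P.cons (P.cons (P.lf 25519455 0 0) (P.cons (P.lf 804213 0 0) (P.cons (P.lf 0 379635 0) (P.lf 0 18075 0)))) (P.cons (P.cons (P.lf 3453579 0 0) (P.cons (P.lf 0 216255 0) (P.cons (P.lf 102084 0 0) P.nil))) (P.cons (P.cons (P.lf 0 2437554 0) (P.cons (P.lf 0 37224 0) P.nil)) (P.cons (P.cons (P.lf 0 138561 0) P.nil) P.nil)))))) 108324)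
 (EL.cons 11 (TM.mk (P.cons (P.cons (P.lf 0 72460614 0) (P.cons (P.lf 71449221 0 0) (P.cons (P.lf 2235714 0 0) (P.cons (P.lf 0 409683 0) (P.lf 0 14631 0))))) (P.cons (P.cons (P.lf 69557082 0 0) (P.cons (P.lf 0 68586216 0) (P.cons (P.lf 0 2146128 0) (P.cons (P.lf 393267 0 0) (P.lf 14043 0 0))))) (P.cons (P.cons (P.lf 4294884 0 0) (P.cons (P.lf 0 4234938 0) (P.cons (P.lf 0 132513 0) (P.cons (P.lf 24282 0 0) P.nil)))) (P.cons (P.cons (P.lf 0 1331871 0) (P.cons (P.lf 1313283 0 0) (P.cons (P.lf 41091 0 0) P.nil))) (P.cons (P.cons (P.lf 0 73200 0) (P.cons (P.lf 72177 0 0) P.nil)) (P.cons (P.cons (P.lf 13047 0 0) P.nil) P.nil)))))) 29334)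
 EL.nil)))
noncomputable def S227_256_734_808_24 : EL := (EL.cons 4 (TM.mk (P.cons (P.cons (P.lf 153637122 0 0) (P.cons (P.lf 9822906 0 0) (P.cons (P.lf 0 4544070 0) (P.cons (P.lf 0 308556 0) (P.cons (P.lf 16530 0 0) (P.cons (P.lf 1971 0 0) P.nil)))))) (P.cons (P.cons (P.lf 0 128911629 0) (P.cons (P.lf 0 11170569 0) (P.cons (P.lf 5097738 0 0) (P.cons (P.lf 416751 0 0) (P.cons (P.lf 0 31209 0) P.nil))))) (P.cons (P.cons (P.lf 0 44394534 0) (P.cons (P.lf 0 267522 0) (P.cons (P.lf 193740 0 0) (P.cons (P.lf 0 57672 0) P.nil)))) (P.cons (P.cons (P.lf 14751807 0 0) (P.cons (P.lf 1573803 0 0) (P.cons (P.lf 0 723819 0) P.nil))) (P.cons (P.cons (P.lf 5442564 0 0) (P.cons (P.lf 112350 0 0) P.nil)) (P.cons (P.cons (P.lf 0 293307 0) P.nil) P.nil)))))) 590229)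
 (EL.cons 8 (TM.mk (P.cons (P.cons (P.lf 0 11649519 0) (P.cons (P.lf 0 744819 0) (P.cons (P.lf 344553 0 0) (P.cons (P.lf 23394 0 0) (P.cons (P.lf 0 1251 0) (P.cons (P.lf 0 147 0) P.nil)))))) (P.cons (P.cons (P.lf 21518040 0 0) (P.cons (P.lf 1597824 0 0) (P.cons (P.lf 0 733863 0) (P.cons (P.lf 0 55182 0) (P.cons (P.lf 3630 0 0) P.nil))))) (P.cons (P.cons (P.lf 0 6628683 0) (P.cons (P.lf 0 842586 0) (P.cons (P.lf 379140 0 0) (P.cons (P.lf 36510 0 0) P.nil)))) (P.cons (P.cons (P.lf 0 4344747 0) (P.cons (P.lf 0 126399 0) (P.cons (P.lf 63564 0 0) P.nil))) (P.cons (P.cons (P.lf 714168 0 0) (P.cons (P.lf 108438 0 0) P.nil)) (P.cons (P.cons (P.lf 411675 0 0) P.nil) P.nil)))))) 175434)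
 (EL.cons 11 (TM.mk (P.cons (P.cons (P.lf 34003440 0 0) (P.cons (P.lf 0 31747434 0) (P.cons (P.lf 0 3646602 0) (P.cons (P.lf 926433 0 0) (P.cons (P.lf 82368 0 0) (P.cons (P.lf 0 3159 0) P.nil)))))) (P.cons (P.cons (P.lf 0 25216881 0) (P.cons (P.lf 23240622 0 0) (P.cons (P.lf 3146421 0 0) (P.cons (P.lf 0 812004 0) (P.cons (P.lf 0 73935 0) P.nil))))) (P.cons (P.cons (P.lf 0 9414594 0) (P.cons (P.lf 9054507 0 0) (P.cons (P.lf 623919 0 0) (P.cons (P.lf 0 147477 0) P.nil)))) (P.cons (P.cons (P.lf 203130 0 0) (P.cons (P.lf 0 135489 0) (P.cons (P.lf 0 100758 0) P.nil))) (P.cons (P.cons (P.lf 419403 0 0) (P.cons (P.lf 0 405348 0) P.nil)) (P.cons (P.cons (P.lf 14715 0 0) P.nil) P.nil)))))) 150186)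
 EL.nil)))
noncomputable def S227_256_734_808_25 : EL := (EL.cons 4 (TM.mk (P.cons (P.cons (P.lf 36939855 0 0) (P.cons (P.lf 426549 0 0) (P.cons (P.lf 0 201357 0) (P.lf 0 9588 0)))) (P.cons (P.cons (P.lf 0 75704868 0) (P.cons (P.lf 0 1248900 0) (P.cons (P.lf 589557 0 0) (P.lf 28074 0 0)))) (P.cons (P.cons (P.lf 36457962 0 0) (P.cons (P.lf 1173174 0 0) (P.cons (P.lf 0 553809 0) (P.lf 0 26370 0)))) (P.cons (P.cons (P.lf 6345594 0 0) (P.cons (P.lf 0 292740 0) (P.cons (P.lf 138192 0 0) P.nil))) (P.cons (P.cons (P.lf 0 3833565 0) (P.cons (P.lf 0 69828 0) P.nil)) (P.cons (P.cons (P.lf 0 312051 0) P.nil) P.nil)))))) 198099)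
 (EL.cons 8 (TM.mk (P.cons (P.cons (P.lf 0 2800959 0) (P.cons (P.lf 0 32343 0) (P.cons (P.lf 15267 0 0) (P.lf 726 0 0)))) (P.cons (P.cons (P.lf 8563830 0 0) (P.cons (P.lf 127299 0 0) (P.cons (P.lf 0 60093 0) (P.lf 0 2859 0)))) (P.cons (P.cons (P.lf 0 8584974 0) (P.cons (P.lf 0 184806 0) (P.cons (P.lf 87240 0 0) (P.lf 4152 0 0)))) (P.cons (P.cons (P.lf 2386878 0 0) (P.cons (P.lf 113151 0 0) (P.cons (P.lf 0 53415 0) P.nil))) (P.cons (P.cons (P.lf 718044 0 0) (P.cons (P.lf 0 18555 0) P.nil)) (P.cons (P.cons (P.lf 0 263190 0) P.nil) P.nil)))))) 68355)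
 (EL.cons 11 (TM.mk (P.cons (P.cons (P.lf 8175642 0 0) (P.cons (P.lf 0 8061528 0) (P.cons (P.lf 0 252252 0) (P.cons (P.lf 46224 0 0) (P.lf 1650 0 0))))) (P.cons (P.cons (P.lf 0 15958371 0) (P.cons (P.lf 15735627 0 0) (P.cons (P.lf 492381 0 0) (P.cons (P.lf 0 90225 0) (P.lf 0 3222 0))))) (P.cons (P.cons (P.lf 7203315 0 0) (P.cons (P.lf 0 7102773 0) (P.cons (P.lf 0 222252 0) (P.cons (P.lf 40725 0 0) P.nil)))) (P.cons (P.cons (P.lf 756141 0 0) (P.cons (P.lf 0 745587 0) (P.cons (P.lf 0 23328 0) P.nil))) (P.cons (P.cons (P.lf 0 164745 0) (P.cons (P.lf 162444 0 0) P.nil)) (P.cons (P.cons (P.lf 0 14067 0) P.nil) P.nil)))))) 33600)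
 EL.nil)))
noncomputable def S227_256_734_808_26 : EL := (EL.cons 4 (TM.mk (P.cons (P.cons (P.lf 0 17334687 0) (P.cons (P.lf 0 1108305 0) (P.cons (P.lf 512700 0 0) (P.cons (P.lf 34812 0 0) (P.cons (P.lf 0 1863 0) (P.cons (P.lf 0 222 0) P.nil)))))) (P.cons (P.cons (P.lf 31741155 0 0) (P.cons (P.lf 2359812 0 0) (P.cons (P.lf 0 1083777 0) (P.cons (P.lf 0 81555 0) (P.cons (P.lf 5370 0 0) P.nil))))) (P.cons (P.cons (P.lf 0 9213162 0) (P.cons (P.lf 0 1206897 0) (P.cons (P.lf 542604 0 0) (P.cons (P.lf 52737 0 0) P.nil)))) (P.cons (P.cons (P.lf 0 6873786 0) (P.cons (P.lf 0 226821 0) (P.cons (P.lf 112188 0 0) P.nil))) (P.cons (P.cons (P.lf 1032237 0 0) (P.cons (P.lf 167901 0 0) P.nil)) (P.cons (P.cons (P.lf 682872 0 0) P.nil) P.nil)))))) 288312)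
 (EL.cons 8 (TM.mk (P.cons (P.cons (P.lf 1314399 0 0) (P.cons (P.lf 84036 0 0) (P.cons (P.lf 0 38874 0) (P.cons (P.lf 0 2637 0) (P.cons (P.lf 141 0 0) (P.cons (P.lf 15 0 0) P.nil)))))) (P.cons (P.cons (P.lf 0 3731754 0) (P.cons (P.lf 0 263646 0) (P.cons (P.lf 121365 0 0) (P.cons (P.lf 8844 0 0) (P.cons (P.lf 0 549 0) P.nil))))) (P.cons (P.cons (P.lf 3140700 0 0) (P.cons (P.lf 272907 0 0) (P.cons (P.lf 0 124452 0) (P.cons (P.lf 0 10263 0) P.nil)))) (P.cons (P.cons (P.lf 0 217698 0) (P.cons (P.lf 0 77571 0) (P.cons (P.lf 34125 0 0) P.nil))) (P.cons (P.cons (P.lf 0 585072 0) (P.cons (P.lf 0 28206 0) P.nil)) (P.cons (P.cons (P.lf 30324 0 0) P.nil) P.nil)))))) 115974)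
 (EL.cons 11 (TM.mk (P.cons (P.cons (P.lf 0 3836565 0) (P.cons (P.lf 3582024 0 0) (P.cons (P.lf 411441 0 0) (P.cons (P.lf 0 104526 0) (P.cons (P.lf 0 9291 0) (P.cons (P.lf 354 0 0) P.nil)))))) (P.cons (P.cons (P.lf 6651108 0 0) (P.cons (P.lf 0 6175620 0) (P.cons (P.lf 0 763161 0) (P.cons (P.lf 195309 0 0) (P.cons (P.lf 17559 0 0) P.nil))))) (P.cons (P.cons (P.lf 0 1714497 0) (P.cons (P.lf 1536960 0 0) (P.cons (P.lf 276870 0 0) (P.cons (P.lf 0 72999 0) P.nil)))) (P.cons (P.cons (P.lf 0 1125417 0) (P.cons (P.lf 1073838 0 0) (P.cons (P.lf 87024 0 0) P.nil))) (P.cons (P.cons (P.lf 0 26541 0) (P.cons (P.lf 32886 0 0) P.nil)) (P.cons (P.cons (P.lf 49941 0 0) P.nil) P.nil)))))) 129633)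
 EL.nil)))
noncomputable def S227_256_734_808_27 : EL := (EL.cons 13 (TM.mk (P.lf 0 4294967296 0) 0)
 EL.nil)
noncomputable def S227_256_734_808_28 : EL := (EL.cons 13 (TM.mk (P.cons (P.cons (P.lf 2015490355 0 0) (P.cons (P.lf 105588756 0 0) (P.cons (P.lf 0 49844356 0) (P.lf 0 2373540 0)))) (P.cons (P.cons (P.lf 440045171 0 0) (P.cons (P.lf 5081264 0 0) (P.cons (P.lf 0 2398664 0) (P.lf 0 114220 0)))) (P.cons (P.cons (P.lf 0 16158079 0) (P.cons (P.lf 0 2418528 0) (P.cons (P.lf 1141692 0 0) (P.lf 54364 0 0)))) (P.cons (P.cons (P.lf 0 14434020 0) (P.cons (P.lf 0 120032 0) (P.cons (P.lf 56664 0 0) P.nil))) (P.cons (P.cons (P.lf 0 78452 0) (P.cons (P.lf 27456 0 0) P.nil)) (P.cons (P.cons (P.lf 156831 0 0) P.nil) P.nil)))))) 35579)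
 EL.nil)
noncomputable def S227_256_734_808_29 : EL := (EL.cons 13 (TM.mk (P.cons (P.cons (P.lf 0 945804959 0) (P.cons (P.lf 0 99098831 0) (P.cons (P.lf 44184888 0 0) (P.cons (P.lf 4678429 0 0) (P.cons (P.lf 0 461754 0) (P.cons (P.lf 0 55091 0) P.nil)))))) (P.cons (P.cons (P.lf 0 412998161 0) (P.cons (P.lf 0 26405351 0) (P.cons (P.lf 12215100 0 0) (P.cons (P.lf 829444 0 0) (P.cons (P.lf 0 44442 0) P.nil))))) (P.cons (P.cons (P.lf 0 29920332 0) (P.cons (P.lf 2023133 0 0) (P.cons (P.lf 0 842138 0) (P.cons (P.lf 0 152071 0) P.nil)))) (P.cons (P.cons (P.lf 16857829 0 0) (P.cons (P.lf 1356172 0 0) (P.cons (P.lf 0 628573 0) P.nil))) (P.cons (P.cons (P.lf 2970545 0 0) (P.cons (P.lf 18640 0 0) P.nil)) (P.cons (P.cons (P.lf 0 239720 0) P.nil) P.nil)))))) 304180)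
 EL.nil)
noncomputable def S227_256_734_808_30 : EL := (EL.cons 13 (TM.mk (P.cons (P.lf 484595936 0 0) (P.cons (P.lf 0 480724804 0) (P.cons (P.lf 0 5775768 0) (P.cons (P.lf 1873960 0 0) (P.cons (P.lf 38036 0 0) (P.cons (P.lf 0 7180 0) P.nil)))))) 280)
 EL.nil)
noncomputable def S227_256_734_808_31 : EL := (EL.cons 13 (TM.mk (P.cons (P.cons (P.lf 0 227405325 0) (P.cons (P.lf 0 11913450 0) (P.cons (P.lf 5623878 0 0) (P.lf 267803 0 0)))) (P.cons (P.cons (P.lf 175938965 0 0) (P.cons (P.lf 11244969 0 0) (P.cons (P.lf 0 5308314 0) (P.lf 0 252777 0)))) (P.cons (P.cons (P.lf 53786619 0 0) (P.cons (P.lf 983605 0 0) (P.cons (P.lf 0 464321 0) (P.lf 0 22110 0)))) (P.cons (P.cons (P.lf 0 467587 0) (P.cons (P.lf 0 296393 0) (P.cons (P.lf 139915 0 0) P.nil))) (P.cons (P.cons (P.lf 0 1838288 0) (P.cons (P.lf 0 22937 0) P.nil)) (P.cons (P.cons (P.lf 0 39364 0) P.nil) P.nil))))))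 55764)
 EL.nil)
noncomputable def S227_256_734_808_32 : EL := (EL.cons 13 (TM.mk (P.cons (P.cons (P.lf 106714023 0 0) (P.cons (P.lf 11181200 0 0) (P.cons (P.lf 0 4985327 0) (P.cons (P.lf 0 527861 0) (P.cons (P.lf 52099 0 0) (P.cons (P.lf 6215 0 0) P.nil)))))) (P.cons (P.cons (P.lf 0 59263471 0) (P.cons (P.lf 0 8112597 0) (P.cons (P.lf 3567287 0 0) (P.cons (P.lf 430059 0 0) (P.cons (P.lf 0 46668 0) P.nil))))) (P.cons (P.cons (P.lf 0 44121858 0) (P.cons (P.lf 0 3317017 0) (P.cons (P.lf 1521641 0 0) (P.cons (P.lf 116286 0 0) P.nil)))) (P.cons (P.cons (P.lf 0 5393676 0) (P.cons (P.lf 81157 0 0) (P.cons (P.lf 0 26189 0) P.nil))) (P.cons (P.cons (P.lf 1700028 0 0) (P.cons (P.lf 164809 0 0) P.nil)) (P.cons (P.cons (P.lf 397333 0 0) P.nil) P.nil)))))) 227984)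
 EL.nil)
noncomputable def S227_256_734_808_33 : EL := (EL.cons 14 (TM.mk (P.lf 8589934592 0 0) 0)
 EL.nil)
noncomputable def S227_256_734_808_34 : EL := (EL.cons 14 (TM.mk (P.cons (P.cons (P.lf 0 4030980710 0) (P.cons (P.lf 0 211177512 0) (P.cons (P.lf 99688712 0 0) (P.lf 4747080 0 0)))) (P.cons (P.cons (P.lf 0 880090342 0) (P.cons (P.lf 0 10162528 0) (P.cons (P.lf 4797328 0 0) (P.lf 228440 0 0)))) (P.cons (P.cons (P.lf 32316158 0 0) (P.cons (P.lf 4837056 0 0) (P.cons (P.lf 0 2283384 0) (P.lf 0 108728 0)))) (P.cons (P.cons (P.lf 28868040 0 0) (P.cons (P.lf 240064 0 0) (P.cons (P.lf 0 113328 0) P.nil))) (P.cons (P.cons (P.lf 156904 0 0) (P.cons (P.lf 0 54912 0) P.nil)) (P.cons (P.cons (P.lf 0 313662 0) P.nil) P.nil)))))) 71158)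
 EL.nil)
noncomputable def S227_256_734_808_35 : EL := (EL.cons 14 (TM.mk (P.cons (P.cons (P.lf 1891609918 0 0) (P.cons (P.lf 198197662 0 0) (P.cons (P.lf 0 88369776 0) (P.cons (P.lf 0 9356858 0) (P.cons (P.lf 923508 0 0) (P.cons (P.lf 110182 0 0) P.nil)))))) (P.cons (P.cons (P.lf 825996322 0 0) (P.cons (P.lf 52810702 0 0) (P.cons (P.lf 0 24430200 0) (P.cons (P.lf 0 1658888 0) (P.cons (P.lf 88884 0 0) P.nil))))) (P.cons (P.cons (P.lf 59840664 0 0) (P.cons (P.lf 0 4046266 0) (P.cons (P.lf 1684276 0 0) (P.cons (P.lf 304142 0 0) P.nil)))) (P.cons (P.cons (P.lf 0 33715658 0) (P.cons (P.lf 0 2712344 0) (P.cons (P.lf 1257146 0 0) P.nil))) (P.cons (P.cons (P.lf 0 5941090 0) (P.cons (P.lf 0 37280 0) P.nil)) (P.cons (P.cons (P.lf 479440 0 0) P.nil) P.nil)))))) 608360)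
 EL.nil)
noncomputable def S227_256_734_808_36 : EL := (EL.cons 14 (TM.mk (P.cons (P.lf 0 969191872 0) (P.cons (P.lf 961449608 0 0) (P.cons (P.lf 11551536 0 0) (P.cons (P.lf 0 3747920 0) (P.cons (P.lf 0 76072 0) (P.cons (P.lf 14360 0 0) P.nil)))))) 560)
 EL.nil)
noncomputable def S227_256_734_808_37 : EL := (EL.cons 14 (TM.mk (P.cons (P.cons (P.lf 454810650 0 0) (P.cons (P.lf 23826900 0 0) (P.cons (P.lf 0 11247756 0) (P.lf 0 535606 0)))) (P.cons (P.cons (P.lf 0 351877930 0) (P.cons (P.lf 0 22489938 0) (P.cons (P.lf 10616628 0 0) (P.lf 505554 0 0)))) (P.cons (P.cons (P.lf 0 107573238 0) (P.cons (P.lf 0 1967210 0) (P.cons (P.lf 928642 0 0) (P.lf 44220 0 0)))) (P.cons (P.cons (P.lf 935174 0 0) (P.cons (P.lf 592786 0 0) (P.cons (P.lf 0 279830 0) P.nil))) (P.cons (P.cons (P.lf 3676576 0 0) (P.cons (P.lf 45874 0 0) P.nil)) (P.cons (P.cons (P.lf 78728 0 0) P.nil) P.nil))))))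 111528)
 EL.nil)
noncomputable def S227_256_734_808_38 : EL := (EL.cons 14 (TM.mk (P.cons (P.cons (P.lf 0 213428046 0) (P.cons (P.lf 0 22362400 0) (P.cons (P.lf 9970654 0 0) (P.cons (P.lf 1055722 0 0) (P.cons (P.lf 0 104198 0) (P.cons (P.lf 0 12430 0) P.nil)))))) (P.cons (P.cons (P.lf 118526942 0 0) (P.cons (P.lf 16225194 0 0) (P.cons (P.lf 0 7134574 0) (P.cons (P.lf 0 860118 0) (P.cons (P.lf 93336 0 0) P.nil))))) (P.cons (P.cons (P.lf 88243716 0 0) (P.cons (P.lf 6634034 0 0) (P.cons (P.lf 0 3043282 0) (P.cons (P.lf 0 232572 0) P.nil)))) (P.cons (P.cons (P.lf 10787352 0 0) (P.cons (P.lf 0 162314 0) (P.cons (P.lf 52378 0 0) P.nil))) (P.cons (P.cons (P.lf 0 3400056 0) (P.cons (P.lf 0 329618 0) P.nil)) (P.cons (P.cons (P.lf 0 794666 0) P.nil) P.nil)))))) 455968)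
 EL.nil)
noncomputable def S227_256_734_808_39 : EL := (EL.cons 14 (TM.mk (P.cons (P.lf 109352740 0 0) (P.cons (P.lf 0 216958378 0) (P.cons (P.lf 105005926 0 0) (P.cons (P.lf 3431614 0 0) (P.cons (P.lf 0 806288 0) (P.cons (P.lf 0 30348 0) P.nil)))))) 5440)
 EL.nil)
noncomputable def S227_256_734_808_40 : EL := (EL.cons 14 (TM.mk (P.cons (P.cons (P.lf 0 51315732 0) (P.cons (P.lf 0 2688360 0) (P.cons (P.lf 1269070 0 0) (P.lf 60430 0 0)))) (P.cons (P.cons (P.lf 90607760 0 0) (P.cons (P.lf 5204396 0 0) (P.cons (P.lf 0 2456794 0) (P.lf 0 116990 0)))) (P.cons (P.cons (P.lf 0 26635828 0) (P.cons (P.lf 0 2263240 0) (P.cons (P.lf 1068388 0 0) (P.lf 50874 0 0)))) (P.cons (P.cons (P.lf 0 12817550 0) (P.cons (P.lf 0 327708 0) (P.cons (P.lf 154698 0 0) P.nil))) (P.cons (P.cons (P.lf 0 305312 0) (P.cons (P.lf 68128 0 0) P.nil)) (P.cons (P.cons (P.lf 454696 0 0) P.nil) P.nil))))))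 105636)
 EL.nil)
noncomputable def S227_256_734_808_41 : EL := (EL.cons 14 (TM.mk (P.cons (P.cons (P.lf 24080826 0 0) (P.cons (P.lf 2523122 0 0) (P.cons (P.lf 0 1124976 0) (P.cons (P.lf 0 119114 0) (P.cons (P.lf 11756 0 0) (P.cons (P.lf 1402 0 0) P.nil)))))) (P.cons (P.cons (P.lf 0 37261710 0) (P.cons (P.lf 0 4333634 0) (P.cons (P.lf 1920974 0 0) (P.cons (P.lf 215210 0 0) (P.cons (P.lf 0 22192 0) P.nil))))) (P.cons (P.cons (P.lf 3022976 0 0) (P.cons (P.lf 1037462 0 0) (P.cons (P.lf 0 441776 0) (P.cons (P.lf 0 68610 0) P.nil)))) (P.cons (P.cons (P.lf 8912284 0 0) (P.cons (P.lf 792420 0 0) (P.cons (P.lf 0 360480 0) P.nil))) (P.cons (P.cons (P.lf 1659868 0 0) (P.cons (P.lf 21062 0 0) P.nil)) (P.cons (P.cons (P.lf 0 316298 0) P.nil) P.nil)))))) 342510)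
 EL.nil)
noncomputable def S227_256_734_808_42 : EL := (EL.cons 14 (TM.mk (P.cons (P.lf 0 12338136 0) (P.cons (P.lf 36718724 0 0) (P.cons (P.lf 0 35984236 0) (P.cons (P.lf 11026388 0 0) (P.cons (P.lf 709966 0 0) (P.cons (P.lf 0 125918 0) P.nil)))))) 9172)
 EL.nil)
noncomputable def S227_256_734_808_43 : EL := (EL.cons 14 (TM.mk (P.cons (P.cons (P.lf 5789890 0 0) (P.cons (P.lf 303324 0 0) (P.cons (P.lf 0 143186 0) (P.lf 0 6818 0)))) (P.cons (P.cons (P.lf 0 15966802 0) (P.cons (P.lf 0 888106 0) (P.cons (P.lf 419240 0 0) (P.lf 19962 0 0)))) (P.cons (P.cons (P.lf 13077776 0 0) (P.cons (P.lf 834258 0 0) (P.cons (P.lf 0 393820 0) (P.lf 0 18752 0)))) (P.cons (P.cons (P.lf 0 1390854 0) (P.cons (P.lf 0 208172 0) (P.cons (P.lf 98270 0 0) P.nil))) (P.cons (P.cons (P.lf 0 1475084 0) (P.cons (P.lf 0 49656 0) P.nil)) (P.cons (P.cons (P.lf 0 91978 0) P.nil) P.nil)))))) 118084)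
 EL.nil)
noncomputable def S227_256_734_808_44 : EL := (EL.cons 14 (TM.mk (P.cons (P.cons (P.lf 0 2717010 0) (P.cons (P.lf 0 284680 0) (P.cons (P.lf 126928 0 0) (P.cons (P.lf 13438 0 0) (P.cons (P.lf 0 1326 0) (P.cons (P.lf 0 158 0) P.nil)))))) (P.cons (P.cons (P.lf 6899498 0 0) (P.cons (P.lf 771364 0 0) (P.cons (P.lf 0 342656 0) (P.cons (P.lf 0 37614 0) (P.cons (P.lf 3818 0 0) P.nil))))) (P.cons (P.cons (P.lf 0 4479304 0) (P.cons (P.lf 0 598714 0) (P.cons (P.lf 263342 0 0) (P.cons (P.lf 31668 0 0) P.nil)))) (P.cons (P.cons (P.lf 0 727822 0) (P.cons (P.lf 19782 0 0) (P.cons (P.lf 0 5700 0) P.nil))) (P.cons (P.cons (P.lf 830356 0 0) (P.cons (P.lf 89580 0 0) P.nil)) (P.cons (P.cons (P.lf 232508 0 0) P.nil) P.nil)))))) 238090)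
 EL.nil)
noncomputable def S227_256_734_808_45 : EL := (EL.cons 14 (TM.mk (P.cons (P.cons (P.lf 0 887671844 0) (P.cons (P.lf 0 139511704 0) (P.cons (P.lf 58549238 0 0) (P.cons (P.lf 9908888 0 0) (P.cons (P.lf 0 1119366 0) (P.cons (P.lf 0 231832 0) P.nil)))))) (P.cons (P.cons (P.lf 0 581420358 0) (P.cons (P.lf 0 67633362 0) (P.cons (P.lf 29627886 0 0) (P.cons (P.lf 3672628 0 0) (P.cons (P.lf 0 382892 0) P.nil))))) (P.cons (P.cons (P.lf 0 105593164 0) (P.cons (P.lf 0 4149526 0) (P.cons (P.lf 2181734 0 0) (P.cons (P.lf 0 109284 0) P.nil)))) (P.cons (P.cons (P.lf 19155218 0 0) (P.cons (P.lf 3828208 0 0) (P.cons (P.lf 0 1647032 0) P.nil))) (P.cons (P.cons (P.lf 9277924 0 0) (P.cons (P.lf 691902 0 0) P.nil)) (P.cons (P.cons (P.lf 403992 0 0) P.nil) P.nil)))))) 1567950)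
 EL.nil)
noncomputable def S227_256_734_808_46 : EL := (EL.cons 15 (TM.mk (P.lf 4294967296 0 0) 0)
 EL.nil)
noncomputable def S227_256_734_808_47 : EL := (EL.cons 15 (TM.mk (P.cons (P.cons (P.lf 0 2015490355 0) (P.cons (P.lf 0 105588756 0) (P.cons (P.lf 49844356 0 0) (P.lf 2373540 0 0)))) (P.cons (P.cons (P.lf 0 440045171 0) (P.cons (P.lf 0 5081264 0) (P.cons (P.lf 2398664 0 0) (P.lf 114220 0 0)))) (P.cons (P.cons (P.lf 16158079 0 0) (P.cons (P.lf 2418528 0 0) (P.cons (P.lf 0 1141692 0) (P.lf 0 54364 0)))) (P.cons (P.cons (P.lf 14434020 0 0) (P.cons (P.lf 120032 0 0) (P.cons (P.lf 0 56664 0) P.nil))) (P.cons (P.cons (P.lf 78452 0 0) (P.cons (P.lf 0 27456 0) P.nil)) (P.cons (P.cons (P.lf 0 156831 0) P.nil) P.nil)))))) 35579)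
 EL.nil)
noncomputable def S227_256_734_808_48 : EL := (EL.cons 15 (TM.mk (P.cons (P.cons (P.lf 945804959 0 0) (P.cons (P.lf 99098831 0 0) (P.cons (P.lf 0 44184888 0) (P.cons (P.lf 0 4678429 0) (P.cons (P.lf 461754 0 0) (P.cons (P.lf 55091 0 0) P.nil)))))) (P.cons (P.cons (P.lf 412998161 0 0) (P.cons (P.lf 26405351 0 0) (P.cons (P.lf 0 12215100 0) (P.cons (P.lf 0 829444 0) (P.cons (P.lf 44442 0 0) P.nil))))) (P.cons (P.cons (P.lf 29920332 0 0) (P.cons (P.lf 0 2023133 0) (P.cons (P.lf 842138 0 0) (P.cons (P.lf 152071 0 0) P.nil)))) (P.cons (P.cons (P.lf 0 16857829 0) (P.cons (P.lf 0 1356172 0) (P.cons (P.lf 628573 0 0) P.nil))) (P.cons (P.cons (P.lf 0 2970545 0) (P.cons (P.lf 0 18640 0) P.nil)) (P.cons (P.cons (P.lf 239720 0 0) P.nil) P.nil)))))) 304180)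
 EL.nil)
noncomputable def S227_256_734_808 : SL := (SL.cons S227_256_734_808_0 (SL.cons S227_256_734_808_1 (SL.cons S227_256_734_808_2 (SL.cons S227_256_734_808_3 (SL.cons S227_256_734_808_4 (SL.cons S227_256_734_808_5 (SL.cons S227_256_734_808_6 (SL.cons S227_256_734_808_7 (SL.cons S227_256_734_808_8 (SL.cons S227_256_734_808_9 (SL.cons S227_256_734_808_10 (SL.cons S227_256_734_808_11 (SL.cons S227_256_734_808_12 (SL.cons S227_256_734_808_13 (SL.cons S227_256_734_808_14 (SL.cons S227_256_734_808_15 (SL.cons S227_256_734_808_16 (SL.cons S227_256_734_808_17 (SL.cons S227_256_734_808_18 (SL.cons S227_256_734_808_19 (SL.cons S227_256_734_808_20 (SL.cons S227_256_734_808_21 (SL.cons S227_256_734_808_22 (SL.cons S227_256_734_808_23 (SL.cons S227_256_734_808_24 (SL.cons S227_256_734_808_25 (SL.cons S227_256_734_808_26 (SL.cons S227_256_734_808_27 (SL.cons S227_256_734_808_28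 (SL.cons S227_256_734_808_29 (SL.cons S227_256_734_808_30 (SL.cons S227_256_734_808_31 (SL.cons S227_256_734_808_32 (SL.cons S227_256_734_808_33 (SL.cons S227_256_734_808_34 (SL.cons S227_256_734_808_35 (SL.cons S227_256_734_808_36 (SL.cons S227_256_734_808_37 (SL.cons S227_256_734_808_38 (SL.cons S227_256_734_808_39 (SL.cons S227_256_734_808_40 (SL.cons S227_256_734_808_41 (SL.cons S227_256_734_808_42 (SL.cons S227_256_734_808_43 (SL.cons S227_256_734_808_44 (SL.cons S227_256_734_808_45 (SL.cons S227_256_734_808_46 (SL.cons S227_256_734_808_47 (SL.cons S227_256_734_808_48 SL.nil)))))))))))))))))))))))))))))))))))))))))))))))))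
noncomputable def S230_234_660_808_0 : EL := (EL.cons 0 (TM.mk (P.cons (P.lf 8196033347 0 0) (P.cons (P.lf 42339928 0 0) (P.cons (P.lf 0 1609943 0) (P.cons (P.lf 0 12429 0) (P.cons (P.lf 216 0 0) (P.cons (P.lf 0 0 0) P.nil)))))) 43)
 (EL.cons 1 (TM.mk (P.cons (P.lf 0 730540230 0) (P.cons (P.lf 56879587 0 0) (P.cons (P.lf 487753 0 0) (P.cons (P.lf 0 11896 0) (P.cons (P.lf 0 95 0) (P.cons (P.lf 0 0 0) P.nil)))))) 70)
 (EL.cons 5 (TM.mk (P.cons (P.lf 4387299216 0 0) (P.cons (P.lf 0 15054194 0) (P.cons (P.lf 572422 0 0) (P.cons (P.lf 4420 0 0) (P.cons (P.lf 0 74 0) (P.cons (P.lf 0 0 0) P.nil)))))) 113)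
 (EL.cons 9 (TM.mk (P.lf 6442450944 0 0) 2)
 EL.nil))))
noncomputable def S230_234_660_808_1 : EL := (EL.cons 0 (TM.mk (P.cons (P.cons (P.lf 0 2028537394 0) (P.cons (P.lf 0 656337530 0) (P.cons (P.lf 283020150 0 0) (P.lf 31446679 0 0)))) (P.cons (P.cons (P.lf 0 198057037 0) (P.cons (P.lf 0 22198436 0) (P.cons (P.lf 9572209 0 0) (P.lf 1063568 0 0)))) (P.cons (P.cons (P.lf 0 3432462 0) (P.cons (P.lf 666195 0 0) (P.cons (P.lf 0 287268 0) (P.lf 0 31916 0)))) (P.cons (P.cons (P.lf 221584 0 0) (P.cons (P.lf 19745 0 0) (P.cons (P.lf 0 8510 0) P.nil))) (P.cons (P.cons (P.lf 3568 0 0) (P.cons (P.lf 0 220 0) P.nil)) (P.cons (P.cons (P.lf 0 64 0) P.nil) P.nil)))))) 2561)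
 (EL.cons 1 (TM.mk (P.cons (P.cons (P.lf 1587228939 0 0) (P.cons (P.lf 157259348 0 0) (P.cons (P.lf 0 67812004 0) (P.lf 0 7534663 0)))) (P.cons (P.cons (P.lf 19427090 0 0) (P.cons (P.lf 0 9774017 0) (P.cons (P.lf 4214667 0 0) (P.lf 468297 0 0)))) (P.cons (P.cons (P.lf 0 3782269 0) (P.cons (P.lf 0 385356 0) (P.cons (P.lf 166167 0 0) (P.lf 18455 0 0)))) (P.cons (P.cons (P.lf 0 72187 0) (P.cons (P.lf 6584 0 0) (P.cons (P.lf 0 2836 0) P.nil))) (P.cons (P.cons (P.lf 2337 0 0) (P.cons (P.lf 221 0 0) P.nil)) (P.cons (P.cons (P.lf 30 0 0) P.nil) P.nil)))))) 1564)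
 (EL.cons 5 (TM.mk (P.cons (P.cons (P.lf 0 1960475916 0) (P.cons (P.lf 0 412748946 0) (P.cons (P.lf 177982006 0 0) (P.lf 19775774 0 0)))) (P.cons (P.cons (P.lf 0 30681088 0) (P.cons (P.lf 793510 0 0) (P.cons (P.lf 0 342168 0) (P.lf 0 38010 0)))) (P.cons (P.cons (P.lf 746686 0 0) (P.cons (P.lf 20076 0 0) (P.cons (P.lf 0 8660 0) (P.lf 0 968 0)))) (P.cons (P.cons (P.lf 0 19410 0) (P.cons (P.lf 0 3932 0) (P.cons (P.lf 1694 0 0) P.nil))) (P.cons (P.cons (P.lf 0 896 0) (P.cons (P.lf 26 0 0) P.nil)) (P.cons (P.cons (P.lf 8 0 0) P.nil) P.nil)))))) 2940)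
 (EL.cons 9 (TM.mk (P.cons (P.cons (P.lf 0 2366235570 0) (P.cons (P.lf 0 570100056 0) (P.cons (P.lf 245833578 0 0) (P.lf 27314838 0 0)))) (P.cons (P.cons (P.lf 0 89207076 0) (P.cons (P.lf 0 6264054 0) (P.cons (P.lf 2701128 0 0) (P.lf 300120 0 0)))) (P.cons (P.cons (P.lf 0 418003 0) (P.cons (P.lf 226710 0 0) (P.cons (P.lf 0 97758 0) (P.lf 0 10860 0)))) (P.cons (P.cons (P.lf 52375 0 0) (P.cons (P.lf 2718 0 0) (P.cons (P.lf 0 1170 0) P.nil))) (P.cons (P.cons (P.lf 324 0 0) (P.cons (P.lf 0 36 0) P.nil)) (P.cons (P.cons (P.lf 0 1 0) P.nil) P.nil)))))) 826)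
 (EL.cons 2 (TM.mk (P.cons (P.cons (P.lf 211721844 0 0) (P.cons (P.lf 0 197238484 0) (P.cons (P.lf 0 20243084 0) (P.cons (P.lf 4209997 0 0) (P.lf 350831 0 0))))) (P.cons (P.cons (P.lf 0 15709140 0) (P.cons (P.lf 14634517 0 0) (P.cons (P.lf 1501976 0 0) (P.cons (P.lf 0 312367 0) (P.lf 0 26029 0))))) (P.cons (P.cons (P.lf 0 232638 0) (P.cons (P.lf 216722 0 0) (P.cons (P.lf 22241 0 0) (P.cons (P.lf 0 4623 0) P.nil)))) (P.cons (P.cons (P.lf 5222 0 0) (P.cons (P.lf 0 4862 0) (P.cons (P.lf 0 497 0) P.nil))) (P.cons (P.cons (P.lf 70 0 0) (P.cons (P.lf 0 64 0) P.nil)) (P.cons (P.cons (P.lf 0 0 0) P.nil) P.nil)))))) 684)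
 (EL.cons 6 (TM.mk (P.cons (P.cons (P.lf 595614723 0 0) (P.cons (P.lf 0 554870214 0) (P.cons (P.lf 0 56947734 0) (P.cons (P.lf 11843544 0 0) (P.lf 986958 0 0))))) (P.cons (P.cons (P.lf 6544404 0 0) (P.cons (P.lf 0 6096720 0) (P.cons (P.lf 0 625719 0) (P.cons (P.lf 130131 0 0) (P.lf 10842 0 0))))) (P.cons (P.cons (P.lf 0 236859 0) (P.cons (P.lf 220656 0 0) (P.cons (P.lf 22644 0 0) (P.cons (P.lf 0 4707 0) P.nil)))) (P.cons (P.cons (P.lf 0 2844 0) (P.cons (P.lf 2652 0 0) (P.cons (P.lf 270 0 0) P.nil))) (P.cons (P.cons (P.lf 42 0 0) (P.cons (P.lf 0 39 0) P.nil)) (P.cons (P.cons (P.lf 0 0 0) P.nil) P.nil)))))) 717)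
 EL.nil))))))
noncomputable def S230_234_660_808_2 : EL := (EL.cons 0 (TM.mk (P.cons (P.cons (P.lf 384465896 0 0) (P.cons (P.lf 308374294 0 0) (P.cons (P.lf 0 80994906 0) (P.cons (P.lf 0 59603309 0) (P.cons (P.lf 4684324 0 0) (P.cons (P.lf 2147839 0 0) P.nil)))))) (P.cons (P.cons (P.lf 112587685 0 0) (P.cons (P.lf 44788459 0 0) (P.cons (P.lf 0 15850167 0) (P.cons (P.lf 0 5132587 0) (P.cons (P.lf 312082 0 0) P.nil))))) (P.cons (P.cons (P.lf 6093966 0 0) (P.cons (P.lf 928113 0 0) (P.cons (P.lf 0 472524 0) (P.cons (P.lf 17901 0 0) P.nil)))) (P.cons (P.cons (P.lf 0 32862 0) (P.cons (P.lf 0 62273 0) (P.cons (P.lf 21713 0 0) P.nil))) (P.cons (P.cons (P.lf 0 8959 0) (P.cons (P.lf 0 1874 0) P.nil)) (P.cons (P.cons (P.lf 0 122 0) P.nil) P.nil)))))) 407931)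
 (EL.cons 1 (TM.mk (P.cons (P.cons (P.lf 0 1067390324 0) (P.cons (P.lf 0 348942804 0) (P.cons (P.lf 128356578 0 0) (P.cons (P.lf 35788123 0 0) (P.cons (P.lf 0 1992655 0) (P.cons (P.lf 0 913665 0) P.nil)))))) (P.cons (P.cons (P.lf 0 58469025 0) (P.cons (P.lf 0 5085413 0) (P.cons (P.lf 3297204 0 0) (P.cons (P.lf 0 708739 0) (P.cons (P.lf 99517 0 0) P.nil))))) (P.cons (P.cons (P.lf 1564929 0 0) (P.cons (P.lf 1074123 0 0) (P.cons (P.lf 0 382354 0) (P.cons (P.lf 0 121139 0) P.nil)))) (P.cons (P.cons (P.lf 161025 0 0) (P.cons (P.lf 29103 0 0) (P.cons (P.lf 0 13314 0) P.nil))) (P.cons (P.cons (P.lf 1306 0 0) (P.cons (P.lf 0 816 0) P.nil)) (P.cons (P.cons (P.lf 0 119 0) P.nil) P.nil)))))) 183554)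
 (EL.cons 5 (TM.mk (P.cons (P.cons (P.lf 848269873 0 0) (P.cons (P.lf 364975336 0 0) (P.cons (P.lf 0 118687764 0) (P.cons (P.lf 0 50857147 0) (P.cons (P.lf 3487007 0 0) (P.cons (P.lf 1598842 0 0) P.nil)))))) (P.cons (P.cons (P.lf 34235482 0 0) (P.cons (P.lf 7183329 0 0) (P.cons (P.lf 0 3072421 0) (P.cons (P.lf 0 365841 0) (P.cons (P.lf 2275 0 0) P.nil))))) (P.cons (P.cons (P.lf 0 418808 0) (P.cons (P.lf 0 238290 0) (P.cons (P.lf 89891 0 0) (P.cons (P.lf 22503 0 0) P.nil)))) (P.cons (P.cons (P.lf 0 18802 0) (P.cons (P.lf 3163 0 0) (P.cons (P.lf 0 585 0) P.nil))) (P.cons (P.cons (P.lf 1297 0 0) (P.cons (P.lf 397 0 0) P.nil)) (P.cons (P.cons (P.lf 26 0 0) P.nil) P.nil)))))) 303592)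
 (EL.cons 9 (TM.mk (P.cons (P.cons (P.lf 869090167 0 0) (P.cons (P.lf 418781932 0 0) (P.cons (P.lf 0 130134670 0) (P.cons (P.lf 0 63573033 0) (P.cons (P.lf 4546369 0 0) (P.cons (P.lf 2084580 0 0) P.nil)))))) (P.cons (P.cons (P.lf 65529394 0 0) (P.cons (P.lf 20389501 0 0) (P.cons (P.lf 0 7683553 0) (P.cons (P.lf 0 1933009 0) (P.cons (P.lf 99907 0 0) P.nil))))) (P.cons (P.cons (P.lf 1542283 0 0) (P.cons (P.lf 80916 0 0) (P.cons (P.lf 0 68926 0) (P.cons (P.lf 25471 0 0) P.nil)))) (P.cons (P.cons (P.lf 0 26896 0) (P.cons (P.lf 0 16731 0) (P.cons (P.lf 6291 0 0) P.nil))) (P.cons (P.cons (P.lf 0 1660 0) (P.cons (P.lf 0 237 0) P.nil)) (P.cons (P.cons (P.lf 0 13 0) P.nil) P.nil)))))) 182098)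
 (EL.cons 2 (TM.mk (P.cons (P.cons (P.lf 0 155525827 0) (P.cons (P.lf 107415663 0 0) (P.cons (P.lf 65935749 0 0) (P.cons (P.lf 0 12767175 0) (P.cons (P.lf 0 4220206 0) (P.cons (P.lf 87547 0 0) P.nil)))))) (P.cons (P.cons (P.lf 5676238 0 0) (P.cons (P.lf 0 2919414 0) (P.cons (P.lf 0 3770544 0) (P.cons (P.lf 724393 0 0) (P.cons (P.lf 259869 0 0) P.nil))))) (P.cons (P.cons (P.lf 578458 0 0) (P.cons (P.lf 0 452261 0) (P.cons (P.lf 0 173351 0) (P.cons (P.lf 33862 0 0) P.nil)))) (P.cons (P.cons (P.lf 8083 0 0) (P.cons (P.lf 0 8932 0) (P.cons (P.lf 1130 0 0) P.nil))) (P.cons (P.cons (P.lf 0 399 0) (P.cons (P.lf 315 0 0) P.nil)) (P.cons (P.cons (P.lf 0 5 0) P.nil) P.nil)))))) 127720)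
 (EL.cons 6 (TM.mk (P.cons (P.cons (P.lf 0 437524398 0) (P.cons (P.lf 302181156 0 0) (P.cons (P.lf 185490084 0 0) (P.cons (P.lf 0 35916552 0) (P.cons (P.lf 0 11872260 0) (P.cons (P.lf 246288 0 0) P.nil)))))) (P.cons (P.cons (P.lf 0 21302028 0) (P.cons (P.lf 17528322 0 0) (P.cons (P.lf 5193636 0 0) (P.cons (P.lf 0 1021668 0) (P.cons (P.lf 0 280254 0) P.nil))))) (P.cons (P.cons (P.lf 0 84534 0) (P.cons (P.lf 149862 0 0) (P.cons (P.lf 0 88824 0) (P.cons (P.lf 16674 0 0) P.nil)))) (P.cons (P.cons (P.lf 17478 0 0) (P.cons (P.lf 0 14358 0) (P.cons (P.lf 0 4296 0) P.nil))) (P.cons (P.cons (P.lf 240 0 0) (P.cons (P.lf 0 246 0) P.nil)) (P.cons (P.cons (P.lf 0 0 0) P.nil) P.nil)))))) 232974)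
 EL.nil))))))
noncomputable def S230_234_660_808_3 : EL := (EL.cons 0 (TM.mk (P.cons (P.lf 259683516 0 0) (P.cons (P.lf 0 42339928 0) (P.cons (P.lf 1609943 0 0) (P.cons (P.lf 12429 0 0) (P.cons (P.lf 0 216 0) (P.cons (P.lf 0 0 0) P.nil)))))) 43)
 (EL.cons 1 (TM.mk (P.cons (P.lf 730540230 0 0) (P.cons (P.lf 0 56879587 0) (P.cons (P.lf 0 487753 0) (P.cons (P.lf 11896 0 0) (P.cons (P.lf 95 0 0) (P.cons (P.lf 0 0 0) P.nil)))))) 70)
 (EL.cons 5 (TM.mk (P.cons (P.lf 2055151728 0 0) (P.cons (P.lf 15054194 0 0) (P.cons (P.lf 0 572422 0) (P.cons (P.lf 0 4420 0) (P.cons (P.lf 74 0 0) (P.cons (P.lf 0 0 0) P.nil)))))) 106)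
 EL.nil)))
noncomputable def S230_234_660_808_4 : EL := (EL.cons 0 (TM.mk (P.cons (P.cons (P.lf 0 95378663 0) (P.cons (P.lf 0 22979698 0) (P.cons (P.lf 9909105 0 0) (P.lf 1101011 0 0)))) (P.cons (P.cons (P.lf 11955176 0 0) (P.cons (P.lf 3494216 0 0) (P.cons (P.lf 0 1506745 0) (P.lf 0 167415 0)))) (P.cons (P.cons (P.lf 0 21890 0) (P.cons (P.lf 0 92158 0) (P.cons (P.lf 39738 0 0) (P.lf 4415 0 0)))) (P.cons (P.cons (P.lf 0 21999 0) (P.cons (P.lf 0 4044 0) (P.cons (P.lf 1743 0 0) P.nil))) (P.cons (P.cons (P.lf 0 527 0) (P.cons (P.lf 43 0 0) P.nil)) (P.cons (P.cons (P.lf 12 0 0) P.nil) P.nil)))))) 360)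
 (EL.cons 1 (TM.mk (P.cons (P.cons (P.lf 0 268318732 0) (P.cons (P.lf 0 64646362 0) (P.cons (P.lf 27876240 0 0) (P.lf 3097359 0 0)))) (P.cons (P.cons (P.lf 10775578 0 0) (P.cons (P.lf 4323030 0 0) (P.cons (P.lf 0 1864138 0) (P.lf 0 207125 0)))) (P.cons (P.cons (P.lf 919344 0 0) (P.cons (P.lf 124173 0 0) (P.cons (P.lf 0 53544 0) (P.lf 0 5947 0)))) (P.cons (P.cons (P.lf 12013 0 0) (P.cons (P.lf 0 2270 0) (P.cons (P.lf 978 0 0) P.nil))) (P.cons (P.cons (P.lf 0 592 0) (P.cons (P.lf 0 63 0) P.nil)) (P.cons (P.cons (P.lf 0 7 0) P.nil) P.nil)))))) 403)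
 (EL.cons 5 (TM.mk (P.cons (P.cons (P.lf 0 754832772 0) (P.cons (P.lf 0 181862790 0) (P.cons (P.lf 78421286 0 0) (P.lf 8713474 0 0)))) (P.cons (P.cons (P.lf 0 33986420 0) (P.cons (P.lf 0 3330406 0) (P.cons (P.lf 1436106 0 0) (P.lf 159564 0 0)))) (P.cons (P.cons (P.lf 0 131550 0) (P.cons (P.lf 108336 0 0) (P.cons (P.lf 0 46714 0) (P.lf 0 5188 0)))) (P.cons (P.cons (P.lf 25280 0 0) (P.cons (P.lf 2342 0 0) (P.cons (P.lf 0 1010 0) P.nil))) (P.cons (P.cons (P.lf 296 0 0) (P.cons (P.lf 0 26 0) P.nil)) (P.cons (P.cons (P.lf 0 4 0) P.nil) P.nil)))))) 452)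
 EL.nil)))
noncomputable def S230_234_660_808_5 : EL := (EL.cons 0 (TM.mk (P.cons (P.cons (P.lf 35031448 0 0) (P.cons (P.lf 16880340 0 0) (P.cons (P.lf 0 5245491 0) (P.cons (P.lf 0 2562512 0) (P.cons (P.lf 183255 0 0) (P.cons (P.lf 84025 0 0) P.nil)))))) (P.cons (P.cons (P.lf 0 3070307 0) (P.cons (P.lf 0 1930378 0) (P.cons (P.lf 545537 0 0) (P.cons (P.lf 339887 0 0) (P.cons (P.lf 0 25850 0) P.nil))))) (P.cons (P.cons (P.lf 0 151310 0) (P.cons (P.lf 0 26085 0) (P.cons (P.lf 15196 0 0) (P.cons (P.lf 0 2155 0) P.nil)))) (P.cons (P.cons (P.lf 6830 0 0) (P.cons (P.lf 4696 0 0) (P.cons (P.lf 0 1464 0) P.nil))) (P.cons (P.cons (P.lf 592 0 0) (P.cons (P.lf 145 0 0) P.nil)) (P.cons (P.cons (P.lf 3 0 0) P.nil) P.nil)))))) 25575)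
 (EL.cons 1 (TM.mk (P.cons (P.cons (P.lf 98550277 0 0) (P.cons (P.lf 47487678 0 0) (P.cons (P.lf 0 14756589 0) (P.cons (P.lf 0 7208848 0) (P.cons (P.lf 515533 0 0) (P.cons (P.lf 236379 0 0) P.nil)))))) (P.cons (P.cons (P.lf 0 242396 0) (P.cons (P.lf 0 1385308 0) (P.cons (P.lf 277666 0 0) (P.cons (P.lf 342084 0 0) (P.cons (P.lf 0 28809 0) P.nil))))) (P.cons (P.cons (P.lf 0 469460 0) (P.cons (P.lf 0 202545 0) (P.cons (P.lf 69871 0 0) (P.cons (P.lf 24766 0 0) P.nil)))) (P.cons (P.cons (P.lf 0 20021 0) (P.cons (P.lf 0 3380 0) (P.cons (P.lf 1663 0 0) P.nil))) (P.cons (P.cons (P.lf 65 0 0) (P.cons (P.lf 157 0 0) P.nil)) (P.cons (P.cons (P.lf 18 0 0) P.nil) P.nil)))))) 44609)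
 (EL.cons 5 (TM.mk (P.cons (P.cons (P.lf 277241094 0 0) (P.cons (P.lf 133592076 0 0) (P.cons (P.lf 0 41513158 0) (P.cons (P.lf 0 20279894 0) (P.cons (P.lf 1450298 0 0) (P.cons (P.lf 664982 0 0) P.nil)))))) (P.cons (P.cons (P.lf 22934796 0 0) (P.cons (P.lf 7482856 0 0) (P.cons (P.lf 0 2755152 0) (P.cons (P.lf 0 765184 0) (P.cons (P.lf 42492 0 0) P.nil))))) (P.cons (P.cons (P.lf 567892 0 0) (P.cons (P.lf 36246 0 0) (P.cons (P.lf 0 28378 0) (P.cons (P.lf 9256 0 0) P.nil)))) (P.cons (P.cons (P.lf 0 11394 0) (P.cons (P.lf 0 7246 0) (P.cons (P.lf 2616 0 0) P.nil))) (P.cons (P.cons (P.lf 0 762 0) (P.cons (P.lf 0 130 0) P.nil)) (P.cons (P.cons (P.lf 0 4 0) P.nil) P.nil)))))) 64686)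
 EL.nil)))
noncomputable def S230_234_660_808_6 : EL := (EL.cons 12 (TM.mk (P.lf 8589934592 0 0) 0)
 (EL.cons 3 (TM.mk (P.cons (P.lf 0 746770451 0) (P.cons (P.lf 60878351 0 0) (P.cons (P.lf 166612 0 0) (P.cons (P.lf 0 4290 0) (P.cons (P.lf 0 18 0) (P.cons (P.lf 0 0 0) P.nil)))))) 40)
 (EL.cons 7 (TM.mk (P.cons (P.lf 0 2100810494 0) (P.cons (P.lf 0 7694325 0) (P.cons (P.lf 306661 0 0) (P.cons (P.lf 1136 0 0) (P.cons (P.lf 0 20 0) (P.cons (P.lf 0 0 0) P.nil)))))) 47)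
 EL.nil)))
noncomputable def S230_234_660_808_7 : EL := (EL.cons 12 (TM.mk (P.cons (P.cons (P.lf 0 3154980760 0) (P.cons (P.lf 0 760133408 0) (P.cons (P.lf 327778104 0 0) (P.lf 36419784 0 0)))) (P.cons (P.cons (P.lf 0 118942768 0) (P.cons (P.lf 0 8352072 0) (P.cons (P.lf 3601504 0 0) (P.lf 400160 0 0)))) (P.cons (P.cons (P.lf 0 557338 0) (P.cons (P.lf 302280 0 0) (P.cons (P.lf 0 130344 0) (P.lf 0 14480 0)))) (P.cons (P.cons (P.lf 69834 0 0) (P.cons (P.lf 3624 0 0) (P.cons (P.lf 0 1560 0) P.nil))) (P.cons (P.cons (P.lf 432 0 0) (P.cons (P.lf 0 48 0) P.nil)) (P.cons (P.cons (P.lf 0 2 0) P.nil) P.nil)))))) 1076)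
 (EL.cons 3 (TM.mk (P.cons (P.cons (P.lf 0 2548985273 0) (P.cons (P.lf 0 132165188 0) (P.cons (P.lf 56991120 0 0) (P.lf 6332344 0 0)))) (P.cons (P.cons (P.lf 0 43704798 0) (P.cons (P.lf 9322208 0 0) (P.cons (P.lf 0 4019842 0) (P.lf 0 446648 0)))) (P.cons (P.cons (P.lf 4287326 0 0) (P.cons (P.lf 200430 0 0) (P.cons (P.lf 0 86426 0) (P.lf 0 9600 0)))) (P.cons (P.cons (P.lf 41391 0 0) (P.cons (P.lf 0 4088 0) (P.cons (P.lf 1762 0 0) P.nil))) (P.cons (P.cons (P.lf 0 1369 0) (P.cons (P.lf 0 82 0) P.nil)) (P.cons (P.cons (P.lf 0 8 0) P.nil) P.nil)))))) 1385)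
 (EL.cons 7 (TM.mk (P.cons (P.cons (P.lf 1128431080 0 0) (P.cons (P.lf 210959444 0 0) (P.cons (P.lf 0 90968092 0) (P.lf 0 10107567 0)))) (P.cons (P.cons (P.lf 5523791 0 0) (P.cons (P.lf 0 1178217 0) (P.cons (P.lf 508059 0 0) (P.lf 56448 0 0)))) (P.cons (P.cons (P.lf 0 777136 0) (P.cons (P.lf 24851 0 0) (P.cons (P.lf 0 10713 0) (P.lf 0 1190 0)))) (P.cons (P.cons (P.lf 25965 0 0) (P.cons (P.lf 1859 0 0) (P.cons (P.lf 0 800 0) P.nil))) (P.cons (P.cons (P.lf 431 0 0) (P.cons (P.lf 0 20 0) P.nil)) (P.cons (P.cons (P.lf 0 4 0) P.nil) P.nil)))))) 1869)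
 (EL.cons 10 (TM.mk (P.cons (P.cons (P.lf 0 1217694681 0) (P.cons (P.lf 1134395244 0 0) (P.cons (P.lf 116425854 0 0) (P.cons (P.lf 0 24213339 0) (P.lf 0 2017776 0))))) (P.cons (P.cons (P.lf 0 8919735 0) (P.cons (P.lf 8309559 0 0) (P.cons (P.lf 852831 0 0) (P.cons (P.lf 0 177363 0) (P.lf 0 14778 0))))) (P.cons (P.cons (P.lf 339162 0 0) (P.cons (P.lf 0 315963 0) (P.cons (P.lf 0 32427 0) (P.cons (P.lf 6744 0 0) P.nil)))) (P.cons (P.cons (P.lf 2616 0 0) (P.cons (P.lf 0 2439 0) (P.cons (P.lf 0 249 0) P.nil))) (P.cons (P.cons (P.lf 0 42 0) (P.cons (P.lf 39 0 0) P.nil)) (P.cons P.nil P.nil)))))) 858)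
 EL.nil))))
noncomputable def S230_234_660_808_8 : EL := (EL.cons 12 (TM.mk (P.cons (P.cons (P.lf 1158786890 0 0) (P.cons (P.lf 558375910 0 0) (P.cons (P.lf 0 173512894 0) (P.cons (P.lf 0 84764044 0) (P.cons (P.lf 6061826 0 0) (P.cons (P.lf 2779440 0 0) P.nil)))))) (P.cons (P.cons (P.lf 87372526 0 0) (P.cons (P.lf 27186002 0 0) (P.cons (P.lf 0 10244738 0) (P.cons (P.lf 0 2577346 0) (P.cons (P.lf 133210 0 0) P.nil))))) (P.cons (P.cons (P.lf 2056378 0 0) (P.cons (P.lf 107888 0 0) (P.cons (P.lf 0 91902 0) (P.cons (P.lf 33962 0 0) P.nil)))) (P.cons (P.cons (P.lf 0 35862 0) (P.cons (P.lf 0 22308 0) (P.cons (P.lf 8388 0 0) P.nil))) (P.cons (P.cons (P.lf 0 2214 0) (P.cons (P.lf 0 316 0) P.nil)) (P.cons (P.cons (P.lf 0 18 0) P.nil) P.nil)))))) 242768)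
 (EL.cons 3 (TM.mk (P.cons (P.cons (P.lf 1973163659 0 0) (P.cons (P.lf 596753508 0 0) (P.cons (P.lf 0 228088210 0) (P.cons (P.lf 0 53807919 0) (P.cons (P.lf 2634941 0 0) (P.cons (P.lf 1208161 0 0) P.nil)))))) (P.cons (P.cons (P.lf 102078132 0 0) (P.cons (P.lf 7910148 0 0) (P.cons (P.lf 0 5152007 0) (P.cons (P.lf 1122546 0 0) (P.cons (P.lf 0 156900 0) P.nil))))) (P.cons (P.cons (P.lf 0 2071185 0) (P.cons (P.lf 0 1435556 0) (P.cons (P.lf 540395 0 0) (P.cons (P.lf 136583 0 0) P.nil)))) (P.cons (P.cons (P.lf 0 203715 0) (P.cons (P.lf 0 29748 0) (P.cons (P.lf 13922 0 0) P.nil))) (P.cons (P.cons (P.lf 0 1591 0) (P.cons (P.lf 884 0 0) P.nil)) (P.cons (P.cons (P.lf 117 0 0) P.nil) P.nil)))))) 287849)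
 (EL.cons 7 (TM.mk (P.cons (P.cons (P.lf 0 545518126 0) (P.cons (P.lf 0 218118112 0) (P.cons (P.lf 73169684 0 0) (P.cons (P.lf 28462510 0 0) (P.cons (P.lf 0 1882149 0) (P.cons (P.lf 0 862991 0) P.nil)))))) (P.cons (P.cons (P.lf 0 12901512 0) (P.cons (P.lf 0 999760 0) (P.cons (P.lf 651157 0 0) (P.cons (P.lf 0 141872 0) (P.cons (P.lf 19826 0 0) P.nil))))) (P.cons (P.cons (P.lf 811271 0 0) (P.cons (P.lf 224017 0 0) (P.cons (P.lf 0 96036 0) (P.cons (P.lf 0 11219 0) P.nil)))) (P.cons (P.cons (P.lf 9883 0 0) (P.cons (P.lf 0 6617 0) (P.cons (P.lf 2167 0 0) P.nil))) (P.cons (P.cons (P.lf 0 1385 0) (P.cons (P.lf 0 329 0) P.nil)) (P.cons (P.cons (P.lf 0 31 0) P.nil) P.nil)))))) 119158)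
 (EL.cons 10 (TM.mk (P.cons (P.cons (P.lf 894489528 0 0) (P.cons (P.lf 0 617789280 0) (P.cons (P.lf 0 379222140 0) (P.cons (P.lf 73429002 0 0) (P.cons (P.lf 24272052 0 0) (P.cons (P.lf 0 503520 0) P.nil)))))) (P.cons (P.cons (P.lf 40274478 0 0) (P.cons (P.lf 0 33572814 0) (P.cons (P.lf 0 9229134 0) (P.cons (P.lf 1819806 0 0) (P.cons (P.lf 484074 0 0) P.nil))))) (P.cons (P.cons (P.lf 155892 0 0) (P.cons (P.lf 0 273606 0) (P.cons (P.lf 160050 0 0) (P.cons (P.lf 0 30042 0) P.nil)))) (P.cons (P.cons (P.lf 0 29952 0) (P.cons (P.lf 25128 0 0) (P.cons (P.lf 6648 0 0) P.nil))) (P.cons (P.cons (P.lf 0 348 0) (P.cons (P.lf 360 0 0) P.nil)) (P.cons (P.cons (P.lf 6 0 0) P.nil) P.nil)))))) 466410)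
 EL.nil))))
noncomputable def S230_234_660_808_9 : EL := (EL.cons 3 (TM.mk (P.cons (P.lf 0 746770451 0) (P.cons (P.lf 60878351 0 0) (P.cons (P.lf 166612 0 0) (P.cons (P.lf 0 4290 0) (P.cons (P.lf 0 18 0) (P.cons (P.lf 0 0 0) P.nil)))))) 40)
 (EL.cons 7 (TM.mk (P.cons (P.lf 0 2100810494 0) (P.cons (P.lf 0 7694325 0) (P.cons (P.lf 306661 0 0) (P.cons (P.lf 1136 0 0) (P.cons (P.lf 0 20 0) (P.cons (P.lf 0 0 0) P.nil)))))) 47)
 EL.nil))
noncomputable def S230_234_660_808_10 : EL := (EL.cons 3 (TM.mk (P.cons (P.cons (P.lf 274279900 0 0) (P.cons (P.lf 66082594 0 0) (P.cons (P.lf 0 28495560 0) (P.lf 0 3166172 0)))) (P.cons (P.cons (P.lf 0 12019542 0) (P.cons (P.lf 0 4661104 0) (P.cons (P.lf 2009921 0 0) (P.lf 223324 0 0)))) (P.cons (P.cons (P.lf 0 855709 0) (P.cons (P.lf 0 100215 0) (P.cons (P.lf 43213 0 0) (P.lf 4800 0 0)))) (P.cons (P.cons (P.lf 0 10752 0) (P.cons (P.lf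 2044 0 0) (P.cons (P.lf 0 881 0) P.nil))) (P.cons (P.cons (P.lf 512 0 0) (P.cons (P.lf 41 0 0) P.nil)) (P.cons (P.cons (P.lf 4 0 0) P.nil) P.nil)))))) 301)
 (EL.cons 7 (TM.mk (P.cons (P.cons (P.lf 771602695 0 0) (P.cons (P.lf 185903189 0 0) (P.cons (P.lf 0 80163553 0) (P.lf 0 8907060 0)))) (P.cons (P.cons (P.lf 31915454 0 0) (P.cons (P.lf 2723517 0 0) (P.cons (P.lf 0 1174410 0) (P.lf 0 130488 0)))) (P.cons (P.cons (P.lf 130214 0 0) (P.cons (P.lf 0 93583 0) (P.cons (P.lf 40353 0 0) (P.lf 4483 0 0)))) (P.cons (P.cons (P.lf 0 21243 0) (P.cons (P.lf 0 1555 0) (P.cons (P.lf 670 0 0) P.nil))) (P.cons (P.cons (P.lf 0 196 0) (P.cons (P.lf 19 0 0) P.nil)) (P.cons (P.cons (P.lf 2 0 0) P.nil) P.nil)))))) 347)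
 EL.nil))
noncomputable def S230_234_660_808_11 : EL := (EL.cons 3 (TM.mk (P.cons (P.cons (P.lf 0 100739743 0) (P.cons (P.lf 0 48542700 0) (P.cons (P.lf 15084434 0 0) (P.cons (P.lf 7369005 0 0) (P.cons (P.lf 0 526987 0) (P.cons (P.lf 0 241631 0) P.nil)))))) (P.cons (P.cons (P.lf 616746 0 0) (P.cons (P.lf 1593876 0 0) (P.cons (P.lf 0 339083 0) (P.cons (P.lf 0 376674 0) (P.cons (P.lf 31380 0 0) P.nil))))) (P.cons (P.cons (P.lf 462927 0 0) (P.cons (P.lf 194122 0 0) (P.cons (P.lf 0 67981 0) (P.cons (P.lf 0 22861 0) P.nil)))) (P.cons (P.cons (P.lf 18807 0 0) (P.cons (P.lf 2952 0 0) (P.cons (P.lf 0 1492 0) P.nil))) (P.cons (P.cons (P.lf 0 67 0) (P.cons (P.lf 0 142 0) P.nil)) (P.cons (P.cons (P.lf 0 15 0) P.nil) P.nil)))))) 44107)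
 (EL.cons 7 (TM.mk (P.cons (P.cons (P.lf 0 283400488 0) (P.cons (P.lf 0 136560058 0) (P.cons (P.lf 42435446 0 0) (P.cons (P.lf 20730448 0 0) (P.cons (P.lf 0 1482519 0) (P.cons (P.lf 0 679757 0) P.nil)))))) (P.cons (P.cons (P.lf 0 22406364 0) (P.cons (P.lf 0 7148944 0) (P.cons (P.lf 2660941 0 0) (P.cons (P.lf 706258 0 0) (P.cons (P.lf 0 38008 0) P.nil))))) (P.cons (P.cons (P.lf 0 539815 0) (P.cons (P.lf 0 30803 0) (P.cons (P.lf 25458 0 0) (P.cons (P.lf 0 9023 0) P.nil)))) (P.cons (P.cons (P.lf 10201 0 0) (P.cons (P.lf 6403 0 0) (P.cons (P.lf 0 2357 0) P.nil))) (P.cons (P.cons (P.lf 655 0 0) (P.cons (P.lf 103 0 0) P.nil)) (P.cons (P.cons (P.lf 5 0 0) P.nil) P.nil)))))) 62712)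
 EL.nil))
noncomputable def S230_234_660_808_12 : EL := (EL.cons 4 (TM.mk (P.cons (P.lf 746770451 0 0) (P.cons (P.lf 0 60878351 0) (P.cons (P.lf 0 166612 0) (P.cons (P.lf 4290 0 0) (P.cons (P.lf 18 0 0) (P.cons (P.lf 0 0 0) P.nil)))))) 40)
 (EL.cons 8 (TM.mk (P.cons (P.lf 2100810494 0 0) (P.cons (P.lf 7694325 0 0) (P.cons (P.lf 0 306661 0) (P.cons (P.lf 0 1136 0) (P.cons (P.lf 20 0 0) (P.cons (P.lf 0 0 0) P.nil)))))) 47)
 EL.nil))
noncomputable def S230_234_660_808_13 : EL := (EL.cons 4 (TM.mk (P.cons (P.cons (P.lf 0 274279900 0) (P.cons (P.lf 0 66082594 0) (P.cons (P.lf 28495560 0 0) (P.lf 3166172 0 0)))) (P.cons (P.cons (P.lf 12019542 0 0) (P.cons (P.lf 4661104 0 0) (P.cons (P.lf 0 2009921 0) (P.lf 0 223324 0)))) (P.cons (P.cons (P.lf 855709 0 0) (P.cons (P.lf 100215 0 0) (P.cons (P.lf 0 43213 0) (P.lf 0 4800 0)))) (P.cons (P.cons (P.lf 10752 0 0) (P.cons (P.lf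 0 2044 0) (P.cons (P.lf 881 0 0) P.nil))) (P.cons (P.cons (P.lf 0 512 0) (P.cons (P.lf 0 41 0) P.nil)) (P.cons (P.cons (P.lf 0 4 0) P.nil) P.nil)))))) 301)
 (EL.cons 8 (TM.mk (P.cons (P.cons (P.lf 0 771602695 0) (P.cons (P.lf 0 185903189 0) (P.cons (P.lf 80163553 0 0) (P.lf 8907060 0 0)))) (P.cons (P.cons (P.lf 0 31915454 0) (P.cons (P.lf 0 2723517 0) (P.cons (P.lf 1174410 0 0) (P.lf 130488 0 0)))) (P.cons (P.cons (P.lf 0 130214 0) (P.cons (P.lf 93583 0 0) (P.cons (P.lf 0 40353 0) (P.lf 0 4483 0)))) (P.cons (P.cons (P.lf 21243 0 0) (P.cons (P.lf 1555 0 0) (P.cons (P.lf 0 670 0) P.nil))) (P.cons (P.cons (P.lf 196 0 0) (P.cons (P.lf 0 19 0) P.nil)) (P.cons (P.cons (P.lf 0 2 0) P.nil) P.nil)))))) 347)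
 EL.nil))
noncomputable def S230_234_660_808_14 : EL := (EL.cons 4 (TM.mk (P.cons (P.cons (P.lf 100739743 0 0) (P.cons (P.lf 48542700 0 0) (P.cons (P.lf 0 15084434 0) (P.cons (P.lf 0 7369005 0) (P.cons (P.lf 526987 0 0) (P.cons (P.lf 241631 0 0) P.nil)))))) (P.cons (P.cons (P.lf 0 616746 0) (P.cons (P.lf 0 1593876 0) (P.cons (P.lf 339083 0 0) (P.cons (P.lf 376674 0 0) (P.cons (P.lf 0 31380 0) P.nil))))) (P.cons (P.cons (P.lf 0 462927 0) (P.cons (P.lf 0 194122 0) (P.cons (P.lf 67981 0 0) (P.cons (P.lf 22861 0 0) P.nil)))) (P.cons (P.cons (P.lf 0 18807 0) (P.cons (P.lf 0 2952 0) (P.cons (P.lf 1492 0 0) P.nil))) (P.cons (P.cons (P.lf 67 0 0) (P.cons (P.lf 142 0 0) P.nil)) (P.cons (P.cons (P.lf 15 0 0) P.nil) P.nil)))))) 44107)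
 (EL.cons 8 (TM.mk (P.cons (P.cons (P.lf 283400488 0 0) (P.cons (P.lf 136560058 0 0) (P.cons (P.lf 0 42435446 0) (P.cons (P.lf 0 20730448 0) (P.cons (P.lf 1482519 0 0) (P.cons (P.lf 679757 0 0) P.nil)))))) (P.cons (P.cons (P.lf 22406364 0 0) (P.cons (P.lf 7148944 0 0) (P.cons (P.lf 0 2660941 0) (P.cons (P.lf 0 706258 0) (P.cons (P.lf 38008 0 0) P.nil))))) (P.cons (P.cons (P.lf 539815 0 0) (P.cons (P.lf 30803 0 0) (P.cons (P.lf 0 25458 0) (P.cons (P.lf 9023 0 0) P.nil)))) (P.cons (P.cons (P.lf 0 10201 0) (P.cons (P.lf 0 6403 0) (P.cons (P.lf 2357 0 0) P.nil))) (P.cons (P.cons (P.lf 0 655 0) (P.cons (P.lf 0 103 0) P.nil)) (P.cons (P.cons (P.lf 0 5 0) P.nil) P.nil)))))) 62712)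
 EL.nil))
noncomputable def S230_234_660_808_15 : EL := (EL.cons 4 (TM.mk (P.cons (P.lf 0 138497875 0) (P.cons (P.lf 22581295 0 0) (P.cons (P.lf 0 858636 0) (P.cons (P.lf 0 6629 0) (P.cons (P.lf 115 0 0) (P.cons (P.lf 0 0 0) P.nil)))))) 26)
 (EL.cons 8 (TM.mk (P.cons (P.lf 0 389621456 0) (P.cons (P.lf 30335780 0 0) (P.cons (P.lf 260135 0 0) (P.cons (P.lf 0 6345 0) (P.cons (P.lf 0 51 0) (P.cons (P.lf 0 0 0) P.nil)))))) 34)
 EL.nil))
noncomputable def S230_234_660_808_16 : EL := (EL.cons 4 (TM.mk (P.cons (P.cons (P.lf 50868620 0 0) (P.cons (P.lf 12255839 0 0) (P.cons (P.lf 0 5284856 0) (P.lf 0 587205 0)))) (P.cons (P.cons (P.lf 0 6376094 0) (P.cons (P.lf 0 1863582 0) (P.cons (P.lf 803597 0 0) (P.lf 89288 0 0)))) (P.cons (P.cons (P.lf 11674 0 0) (P.cons (P.lf 49151 0 0) (P.cons (P.lf 0 21194 0) (P.lf 0 2355 0)))) (P.cons (P.cons (P.lf 11732 0 0) (P.cons (P.lf 2157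 0 0) (P.cons (P.lf 0 930 0) P.nil))) (P.cons (P.cons (P.lf 281 0 0) (P.cons (P.lf 0 23 0) P.nil)) (P.cons (P.cons (P.lf 0 6 0) P.nil) P.nil)))))) 200)
 (EL.cons 8 (TM.mk (P.cons (P.cons (P.lf 143103324 0 0) (P.cons (P.lf 34478060 0 0) (P.cons (P.lf 0 14867328 0) (P.lf 0 1651925 0)))) (P.cons (P.cons (P.lf 0 5746975 0) (P.cons (P.lf 0 2305616 0) (P.cons (P.lf 994207 0 0) (P.lf 110467 0 0)))) (P.cons (P.cons (P.lf 0 490317 0) (P.cons (P.lf 0 66226 0) (P.cons (P.lf 28557 0 0) (P.lf 3172 0 0)))) (P.cons (P.cons (P.lf 0 6407 0) (P.cons (P.lf 1211 0 0) (P.cons (P.lf 0 522 0) P.nil))) (P.cons (P.cons (P.lf 316 0 0) (P.cons (P.lf 34 0 0) P.nil)) (P.cons (P.cons (P.lf 4 0 0) P.nil) P.nil)))))) 205)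
 EL.nil))
noncomputable def S230_234_660_808_17 : EL := (EL.cons 4 (TM.mk (P.cons (P.cons (P.lf 0 18683439 0) (P.cons (P.lf 0 9002848 0) (P.cons (P.lf 2797595 0 0) (P.cons (P.lf 1366673 0 0) (P.cons (P.lf 0 97736 0) (P.cons (P.lf 0 44813 0) P.nil)))))) (P.cons (P.cons (P.lf 1637497 0 0) (P.cons (P.lf 1029535 0 0) (P.cons (P.lf 0 290953 0) (P.cons (P.lf 0 181273 0) (P.cons (P.lf 13786 0 0) P.nil))))) (P.cons (P.cons (P.lf 80699 0 0) (P.cons (P.lf 13912 0 0) (P.cons (P.lf 0 8104 0) (P.cons (P.lf 1149 0 0) P.nil)))) (P.cons (P.cons (P.lf 0 3643 0) (P.cons (P.lf 0 2505 0) (P.cons (P.lf 780 0 0) P.nil))) (P.cons (P.cons (P.lf 0 315 0) (P.cons (P.lf 0 77 0) P.nil)) (P.cons (P.cons (P.lf 0 1 0) P.nil) P.nil)))))) 13650)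
 (EL.cons 8 (TM.mk (P.cons (P.cons (P.lf 0 52560148 0) (P.cons (P.lf 0 25326762 0) (P.cons (P.lf 7870181 0 0) (P.cons (P.lf 3844719 0 0) (P.cons (P.lf 0 274951 0) (P.cons (P.lf 0 126069 0) P.nil)))))) (P.cons (P.cons (P.lf 129278 0 0) (P.cons (P.lf 738831 0 0) (P.cons (P.lf 0 148089 0) (P.cons (P.lf 0 182445 0) (P.cons (P.lf 15365 0 0) P.nil))))) (P.cons (P.cons (P.lf 250379 0 0) (P.cons (P.lf 108024 0 0) (P.cons (P.lf 0 37265 0) (P.cons (P.lf 0 13209 0) P.nil)))) (P.cons (P.cons (P.lf 10678 0 0) (P.cons (P.lf 1803 0 0) (P.cons (P.lf 0 887 0) P.nil))) (P.cons (P.cons (P.lf 0 35 0) (P.cons (P.lf 0 84 0) P.nil)) (P.cons (P.cons (P.lf 0 10 0) P.nil) P.nil)))))) 23780)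
 EL.nil))
noncomputable def S230_234_660_808_18 : EL := (EL.cons 4 (TM.mk (P.cons (P.lf 25686154 0 0) (P.cons (P.lf 0 6281972 0) (P.cons (P.lf 494926 0 0) (P.cons (P.lf 0 10669 0) (P.cons (P.lf 0 180 0) (P.cons (P.lf 1 0 0) P.nil)))))) 18)
 (EL.cons 8 (TM.mk (P.cons (P.lf 72260148 0 0) (P.cons (P.lf 0 11516952 0) (P.cons (P.lf 394287 0 0) (P.cons (P.lf 6780 0 0) (P.cons (P.lf 0 105 0) (P.cons (P.lf 0 1 0) P.nil)))))) 19)
 EL.nil))
noncomputable def S230_234_660_808_19 : EL := (EL.cons 4 (TM.mk (P.cons (P.cons (P.lf 0 9434218 0) (P.cons (P.lf 0 2272997 0) (P.cons (P.lf 980142 0 0) (P.lf 108904 0 0)))) (P.cons (P.cons (P.lf 1951623 0 0) (P.cons (P.lf 530924 0 0) (P.cons (P.lf 0 228940 0) (P.lf 0 25437 0)))) (P.cons (P.cons (P.lf 0 96462 0) (P.cons (P.lf 0 36784 0) (P.cons (P.lf 15861 0 0) (P.lf 1761 0 0)))) (P.cons (P.cons (P.lf 0 2317 0) (P.cons (P.lf 252 0 0) (P.cons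 (P.lf 0 108 0) P.nil))) (P.cons (P.cons (P.lf 131 0 0) (P.cons (P.lf 40 0 0) P.nil)) (P.cons (P.cons (P.lf 5 0 0) P.nil) P.nil)))))) 148)
 (EL.cons 8 (TM.mk (P.cons (P.cons (P.lf 0 26540292 0) (P.cons (P.lf 0 6394385 0) (P.cons (P.lf 2757331 0 0) (P.lf 306369 0 0)))) (P.cons (P.cons (P.lf 3229470 0 0) (P.cons (P.lf 948889 0 0) (P.cons (P.lf 0 409171 0) (P.lf 0 45463 0)))) (P.cons (P.cons (P.lf 9967 0 0) (P.cons (P.lf 0 21149 0) (P.cons (P.lf 9119 0 0) (P.lf 1013 0 0)))) (P.cons (P.cons (P.lf 0 6615 0) (P.cons (P.lf 0 1357 0) (P.cons (P.lf 585 0 0) P.nil))) (P.cons (P.cons (P.lf 0 170 0) (P.cons (P.lf 11 0 0) P.nil)) (P.cons (P.cons (P.lf 3 0 0) P.nil) P.nil)))))) 130)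
 EL.nil))
noncomputable def S230_234_660_808_20 : EL := (EL.cons 4 (TM.mk (P.cons (P.cons (P.lf 3465075 0 0) (P.cons (P.lf 1669689 0 0) (P.cons (P.lf 0 518848 0) (P.cons (P.lf 0 253466 0) (P.cons (P.lf 18125 0 0) (P.cons (P.lf 8310 0 0) P.nil)))))) (P.cons (P.cons (P.lf 0 586174 0) (P.cons (P.lf 0 327056 0) (P.cons (P.lf 96257 0 0) (P.cons (P.lf 54282 0 0) (P.cons (P.lf 0 4034 0) P.nil))))) (P.cons (P.cons (P.lf 9017 0 0) (P.cons (P.lf 12612 0 0) (P.cons (P.lf 0 2779 0) (P.cons (P.lf 0 2896 0) P.nil)))) (P.cons (P.cons (P.lf 1982 0 0) (P.cons (P.lf 726 0 0) (P.cons (P.lf 0 282 0) P.nil))) (P.cons (P.cons (P.lf 4 0 0) (P.cons (P.lf 0 23 0) P.nil)) (P.cons (P.cons (P.lf 0 3 0) P.nil) P.nil)))))) 3937)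
 (EL.cons 8 (TM.mk (P.cons (P.cons (P.lf 9747933 0 0) (P.cons (P.lf 4697163 0 0) (P.cons (P.lf 0 1459622 0) (P.cons (P.lf 0 713050 0) (P.cons (P.lf 50993 0 0) (P.cons (P.lf 23381 0 0) P.nil)))))) (P.cons (P.cons (P.lf 0 818648 0) (P.cons (P.lf 0 519948 0) (P.cons (P.lf 146456 0 0) (P.cons (P.lf 91966 0 0) (P.cons (P.lf 0 7006 0) P.nil))))) (P.cons (P.cons (P.lf 0 46656 0) (P.cons (P.lf 0 9911 0) (P.cons (P.lf 4997 0 0) (P.cons (P.lf 0 149 0) P.nil)))) (P.cons (P.cons (P.lf 1866 0 0) (P.cons (P.lf 1356 0 0) (P.cons (P.lf 0 413 0) P.nil))) (P.cons (P.cons (P.lf 178 0 0) (P.cons (P.lf 46 0 0) P.nil)) (P.cons (P.cons (P.lf 1 0 0) P.nil) P.nil)))))) 7303)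
 EL.nil))
noncomputable def S230_234_660_808_21 : EL := (EL.cons 4 (TM.mk (P.cons (P.cons (P.lf 2823265173 0 0) (P.cons (P.lf 198247782 0 0) (P.cons (P.lf 0 85486680 0) (P.lf 0 9498516 0)))) (P.cons (P.cons (P.lf 31685256 0 0) (P.cons (P.lf 0 13983312 0) (P.cons (P.lf 6029763 0 0) (P.lf 669972 0 0)))) (P.cons (P.cons (P.lf 0 5143035 0) (P.cons (P.lf 0 300645 0) (P.cons (P.lf 129639 0 0) (P.lf 14400 0 0)))) (P.cons (P.cons (P.lf 0 52143 0) (P.cons (P.lf 6132 0 0) (P.cons (P.lf 0 2643 0) P.nil))) (P.cons (P.cons (P.lf 1881 0 0) (P.cons (P.lf 123 0 0) P.nil)) (P.cons (P.cons (P.lf 12 0 0) P.nil) P.nil)))))) 1065)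
 (EL.cons 8 (TM.mk (P.cons (P.cons (P.lf 0 356828385 0) (P.cons (P.lf 0 25056255 0) (P.cons (P.lf 10804539 0 0) (P.lf 1200507 0 0)))) (P.cons (P.cons (P.lf 26391663 0 0) (P.cons (P.lf 3901734 0 0) (P.cons (P.lf 0 1682469 0) (P.lf 0 186936 0)))) (P.cons (P.cons (P.lf 907350 0 0) (P.cons (P.lf 0 118434 0) (P.cons (P.lf 51066 0 0) (P.lf 5673 0 0)))) (P.cons (P.cons (P.lf 0 47208 0) (P.cons (P.lf 0 3414 0) (P.cons (P.lf 1470 0 0) P.nil))) (P.cons (P.cons (P.lf 0 627 0) (P.cons (P.lf 39 0 0) P.nil)) (P.cons (P.cons (P.lf 6 0 0) P.nil) P.nil)))))) 1503)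
 (EL.cons 11 (TM.mk (P.cons (P.cons (P.lf 1217694681 0 0) (P.cons (P.lf 0 1134395244 0) (P.cons (P.lf 0 116425854 0) (P.cons (P.lf 24213339 0 0) (P.lf 2017776 0 0))))) (P.cons (P.cons (P.lf 8919735 0 0) (P.cons (P.lf 0 8309559 0) (P.cons (P.lf 0 852831 0) (P.cons (P.lf 177363 0 0) (P.lf 14778 0 0))))) (P.cons (P.cons (P.lf 0 339162 0) (P.cons (P.lf 315963 0 0) (P.cons (P.lf 32427 0 0) (P.cons (P.lf 0 6744 0) P.nil)))) (P.cons (P.cons (P.lf 0 2616 0) (P.cons (P.lf 2439 0 0) (P.cons (P.lf 249 0 0) P.nil))) (P.cons (P.cons (P.lf 42 0 0) (P.cons (P.lf 0 39 0) P.nil)) (P.cons P.nil P.nil)))))) 858)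
 EL.nil)))
noncomputable def S230_234_660_808_22 : EL := (EL.cons 4 (TM.mk (P.cons (P.cons (P.lf 0 1036951701 0) (P.cons (P.lf 0 322648104 0) (P.cons (P.lf 121586322 0 0) (P.cons (P.lf 30588462 0 0) (P.cons (P.lf 0 1580964 0) (P.cons (P.lf 0 724896 0) P.nil)))))) (P.cons (P.cons (P.lf 0 50730693 0) (P.cons (P.lf 0 3158136 0) (P.cons (P.lf 2406462 0 0) (P.cons (P.lf 0 749610 0) (P.cons (P.lf 94140 0 0) P.nil))))) (P.cons (P.cons (P.lf 1267056 0 0) (P.cons (P.lf 814839 0 0) (P.cons (P.lf 0 304188 0) (P.cons (P.lf 0 79722 0) P.nil)))) (P.cons (P.cons (P.lf 111261 0 0) (P.cons (P.lf 16350 0 0) (P.cons (P.lf 0 7707 0) P.nil))) (P.cons (P.cons (P.lf 762 0 0) (P.cons (P.lf 0 513 0) P.nil)) (P.cons (P.cons (P.lf 0 66 0) P.nil) P.nil)))))) 121860)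
 (EL.cons 8 (TM.mk (P.cons (P.cons (P.lf 131058819 0 0) (P.cons (P.lf 40779027 0 0) (P.cons (P.lf 0 15367119 0) (P.cons (P.lf 0 3866031 0) (P.cons (P.lf 199815 0 0) (P.cons (P.lf 91617 0 0) P.nil)))))) (P.cons (P.cons (P.lf 0 4752426 0) (P.cons (P.lf 0 3074592 0) (P.cons (P.lf 1004892 0 0) (P.cons (P.lf 424065 0 0) (P.cons (P.lf 0 28917 0) P.nil))))) (P.cons (P.cons (P.lf 0 675543 0) (P.cons (P.lf 0 127410 0) (P.cons (P.lf 60747 0 0) (P.cons (P.lf 1098 0 0) P.nil)))) (P.cons (P.cons (P.lf 159 0 0) (P.cons (P.lf 6510 0 0) (P.cons (P.lf 0 2262 0) P.nil))) (P.cons (P.cons (P.lf 1020 0 0) (P.cons (P.lf 216 0 0) P.nil)) (P.cons (P.cons (P.lf 18 0 0) P.nil) P.nil)))))) 28212)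
 (EL.cons 11 (TM.mk (P.cons (P.cons (P.lf 0 447244764 0) (P.cons (P.lf 308894640 0 0) (P.cons (P.lf 189611070 0 0) (P.cons (P.lf 0 36714501 0) (P.cons (P.lf 0 12136026 0) (P.cons (P.lf 251760 0 0) P.nil)))))) (P.cons (P.cons (P.lf 0 20137239 0) (P.cons (P.lf 16786407 0 0) (P.cons (P.lf 4614567 0 0) (P.cons (P.lf 0 909903 0) (P.cons (P.lf 0 242037 0) P.nil))))) (P.cons (P.cons (P.lf 0 77946 0) (P.cons (P.lf 136803 0 0) (P.cons (P.lf 0 80025 0) (P.cons (P.lf 15021 0 0) P.nil)))) (P.cons (P.cons (P.lf 14976 0 0) (P.cons (P.lf 0 12564 0) (P.cons (P.lf 0 3324 0) P.nil))) (P.cons (P.cons (P.lf 174 0 0) (P.cons (P.lf 0 180 0) P.nil)) (P.cons (P.cons (P.lf 0 3 0) P.nil) P.nil)))))) 233205)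
 EL.nil)))
noncomputable def S230_234_660_808_23 : EL := (EL.cons 4 (TM.mk (P.cons (P.cons (P.lf 0 523609668 0) (P.cons (P.lf 0 36767517 0) (P.cons (P.lf 15854568 0 0) (P.lf 1761618 0 0)))) (P.cons (P.cons (P.lf 36809373 0 0) (P.cons (P.lf 5590746 0 0) (P.cons (P.lf 0 2410791 0) (P.lf 0 267864 0)))) (P.cons (P.cons (P.lf 1549719 0 0) (P.cons (P.lf 0 147456 0) (P.cons (P.lf 63585 0 0) (P.lf 7065 0 0)))) (P.cons (P.cons (P.lf 0 69783 0) (P.cons (P.lf 0 6471 0) (P.cons (P.lf 2790 0 0) P.nil))) (P.cons (P.cons (P.lf 0 1395 0) (P.cons (P.lf 69 0 0) P.nil)) (P.cons (P.cons (P.lf 27 0 0) P.nil) P.nil)))))) 609)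
 (EL.cons 8 (TM.mk (P.cons (P.cons (P.lf 66178263 0 0) (P.cons (P.lf 4646994 0 0) (P.cons (P.lf 0 2003835 0) (P.lf 0 222648 0)))) (P.cons (P.cons (P.lf 0 10289658 0) (P.cons (P.lf 0 1102458 0) (P.cons (P.lf 475389 0 0) (P.lf 52818 0 0)))) (P.cons (P.cons (P.lf 215979 0 0) (P.cons (P.lf 79917 0 0) (P.cons (P.lf 0 34461 0) (P.lf 0 3828 0)))) (P.cons (P.cons (P.lf 23946 0 0) (P.cons (P.lf 0 969 0) (P.cons (P.lf 417 0 0) P.nil))) (P.cons (P.cons (P.lf 0 585 0) (P.cons (P.lf 0 66 0) P.nil)) (P.cons (P.cons (P.lf 0 12 0) P.nil) P.nil)))))) 483)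
 (EL.cons 11 (TM.mk (P.cons (P.cons (P.lf 0 225836634 0) (P.cons (P.lf 210387717 0 0) (P.cons (P.lf 21592623 0 0) (P.cons (P.lf 0 4490664 0) (P.lf 0 374220 0))))) (P.cons (P.cons (P.lf 16756416 0 0) (P.cons (P.lf 0 15610152 0) (P.cons (P.lf 0 1602108 0) (P.cons (P.lf 333192 0 0) (P.lf 27765 0 0))))) (P.cons (P.cons (P.lf 248148 0 0) (P.cons (P.lf 0 231171 0) (P.cons (P.lf 0 23724 0) (P.cons (P.lf 4932 0 0) P.nil)))) (P.cons (P.cons (P.lf 0 5571 0) (P.cons (P.lf 5187 0 0) (P.cons (P.lf 531 0 0) P.nil))) (P.cons (P.cons (P.lf 0 75 0) (P.cons (P.lf 69 0 0) P.nil)) (P.cons (P.cons (P.lf 0 0 0) P.nil) P.nil)))))) 708)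
 EL.nil)))
noncomputable def S230_234_660_808_24 : EL := (EL.cons 4 (TM.mk (P.cons (P.cons (P.lf 192315600 0 0) (P.cons (P.lf 59839107 0 0) (P.cons (P.lf 0 22549695 0) (P.cons (P.lf 0 5673009 0) (P.cons (P.lf 293208 0 0) (P.cons (P.lf 134439 0 0) P.nil)))))) (P.cons (P.cons (P.lf 0 6269346 0) (P.cons (P.lf 0 4292496 0) (P.cons (P.lf 1391991 0 0) (P.cons (P.lf 601500 0 0) (P.cons (P.lf 0 41361 0) P.nil))))) (P.cons (P.cons (P.lf 0 1044909 0) (P.cons (P.lf 0 212220 0) (P.cons (P.lf 97830 0 0) (P.cons (P.lf 4716 0 0) P.nil)))) (P.cons (P.cons (P.lf 0 2472 0) (P.cons (P.lf 9498 0 0) (P.cons (P.lf 0 3198 0) P.nil))) (P.cons (P.cons (P.lf 1650 0 0) (P.cons (P.lf 378 0 0) P.nil)) (P.cons (P.cons (P.lf 27 0 0) P.nil) P.nil)))))) 38235)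
 (EL.cons 8 (TM.mk (P.cons (P.cons (P.lf 0 24306489 0) (P.cons (P.lf 0 7562976 0) (P.cons (P.lf 2850021 0 0) (P.cons (P.lf 717003 0 0) (P.cons (P.lf 0 37056 0) (P.cons (P.lf 0 16989 0) P.nil)))))) (P.cons (P.cons (P.lf 2862912 0 0) (P.cons (P.lf 1186770 0 0) (P.cons (P.lf 0 418707 0) (P.cons (P.lf 0 137100 0) (P.cons (P.lf 8382 0 0) P.nil))))) (P.cons (P.cons (P.lf 58857 0 0) (P.cons (P.lf 0 21168 0) (P.cons (P.lf 3291 0 0) (P.cons (P.lf 6045 0 0) P.nil)))) (P.cons (P.cons (P.lf 0 10578 0) (P.cons (P.lf 0 3303 0) (P.cons (P.lf 1395 0 0) P.nil))) (P.cons (P.cons (P.lf 0 210 0) (P.cons (P.lf 54 0 0) P.nil)) (P.cons (P.cons (P.lf 12 0 0) P.nil) P.nil)))))) 8181)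
 (EL.cons 11 (TM.mk (P.cons (P.cons (P.lf 82947108 0 0) (P.cons (P.lf 0 57288354 0) (P.cons (P.lf 0 35165733 0) (P.cons (P.lf 6809160 0 0) (P.cons (P.lf 2250777 0 0) (P.cons (P.lf 0 46692 0) P.nil)))))) (P.cons (P.cons (P.lf 0 3027327 0) (P.cons (P.lf 1557021 0 0) (P.cons (P.lf 2010957 0 0) (P.cons (P.lf 0 386343 0) (P.cons (P.lf 0 138597 0) P.nil))))) (P.cons (P.cons (P.lf 0 308511 0) (P.cons (P.lf 241206 0 0) (P.cons (P.lf 92454 0 0) (P.cons (P.lf 0 18060 0) P.nil)))) (P.cons (P.cons (P.lf 0 4311 0) (P.cons (P.lf 4764 0 0) (P.cons (P.lf 0 603 0) P.nil))) (P.cons (P.cons (P.lf 213 0 0) (P.cons (P.lf 0 168 0) P.nil)) (P.cons (P.cons (P.lf 3 0 0) P.nil) P.nil)))))) 68106)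
 EL.nil)))
noncomputable def S230_234_660_808_25 : EL := (EL.cons 4 (TM.mk (P.cons (P.cons (P.lf 97109928 0 0) (P.cons (P.lf 6818994 0 0) (P.cons (P.lf 0 2940426 0) (P.lf 0 326712 0)))) (P.cons (P.cons (P.lf 0 14743368 0) (P.cons (P.lf 0 1592772 0) (P.cons (P.lf 686820 0 0) (P.lf 76311 0 0)))) (P.cons (P.cons (P.lf 247449 0 0) (P.cons (P.lf 110352 0 0) (P.cons (P.lf 0 47586 0) (P.lf 0 5286 0)))) (P.cons (P.cons (P.lf 38454 0 0) (P.cons (P.lf 0 756 0) (P.cons (P.lf 327 0 0) P.nil))) (P.cons (P.cons (P.lf 0 768 0) (P.cons (P.lf 0 120 0) P.nil)) (P.cons (P.cons (P.lf 0 30 0) P.nil) P.nil)))))) 417)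
 (EL.cons 8 (TM.mk (P.cons (P.cons (P.lf 0 12273582 0) (P.cons (P.lf 0 861840 0) (P.cons (P.lf 371634 0 0) (P.lf 41292 0 0)))) (P.cons (P.cons (P.lf 2908914 0 0) (P.cons (P.lf 274722 0 0) (P.cons (P.lf 0 118461 0) (P.lf 0 13161 0)))) (P.cons (P.cons (P.lf 0 192888 0) (P.cons (P.lf 0 31296 0) (P.cons (P.lf 13494 0 0) (P.lf 1497 0 0)))) (P.cons (P.cons (P.lf 0 1671 0) (P.cons (P.lf 1335 0 0) (P.cons (P.lf 0 576 0) P.nil))) (P.cons (P.cons (P.lf 489 0 0) (P.cons (P.lf 0 0 0) P.nil)) (P.cons (P.cons (P.lf 0 3 0) P.nil) P.nil)))))) 216)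
 (EL.cons 11 (TM.mk (P.cons (P.cons (P.lf 41884215 0 0) (P.cons (P.lf 0 39019020 0) (P.cons (P.lf 0 4004619 0) (P.cons (P.lf 832848 0 0) (P.lf 69402 0 0))))) (P.cons (P.cons (P.lf 0 6522177 0) (P.cons (P.lf 6076011 0 0) (P.cons (P.lf 623595 0 0) (P.cons (P.lf 0 129690 0) (P.lf 0 10806 0))))) (P.cons (P.cons (P.lf 197976 0 0) (P.cons (P.lf 0 184434 0) (P.cons (P.lf 0 18927 0) (P.cons (P.lf 3936 0 0) P.nil)))) (P.cons (P.cons (P.lf 5718 0 0) (P.cons (P.lf 0 5325 0) (P.cons (P.lf 0 546 0) P.nil))) (P.cons (P.cons (P.lf 0 75 0) (P.cons (P.lf 69 0 0) P.nil)) (P.cons (P.cons (P.lf 0 0 0) P.nil) P.nil)))))) 762)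
 EL.nil)))
noncomputable def S230_234_660_808_26 : EL := (EL.cons 4 (TM.mk (P.cons (P.cons (P.lf 0 35667321 0) (P.cons (P.lf 0 11097906 0) (P.cons (P.lf 4182120 0 0) (P.cons (P.lf 1052130 0 0) (P.cons (P.lf 0 54378 0) (P.cons (P.lf 0 24933 0) P.nil)))))) (P.cons (P.cons (P.lf 4070403 0 0) (P.cons (P.lf 1700820 0 0) (P.cons (P.lf 0 599097 0) (P.cons (P.lf 0 197325 0) (P.cons (P.lf 12102 0 0) P.nil))))) (P.cons (P.cons (P.lf 106962 0 0) (P.cons (P.lf 0 23061 0) (P.cons (P.lf 1968 0 0) (P.cons (P.lf 7983 0 0) P.nil)))) (P.cons (P.cons (P.lf 0 15801 0) (P.cons (P.lf 0 5211 0) (P.cons (P.lf 2151 0 0) P.nil))) (P.cons (P.cons (P.lf 0 378 0) (P.cons (P.lf 66 0 0) P.nil)) (P.cons (P.cons (P.lf 18 0 0) P.nil) P.nil)))))) 11490)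
 (EL.cons 8 (TM.mk (P.cons (P.cons (P.lf 4507938 0 0) (P.cons (P.lf 1402647 0 0) (P.cons (P.lf 0 528570 0) (P.cons (P.lf 0 132975 0) (P.cons (P.lf 6870 0 0) (P.cons (P.lf 3150 0 0) P.nil)))))) (P.cons (P.cons (P.lf 0 898458 0) (P.cons (P.lf 0 334446 0) (P.cons (P.lf 120744 0 0) (P.cons (P.lf 36267 0 0) (P.cons (P.lf 0 2115 0) P.nil))))) (P.cons (P.cons (P.lf 31362 0 0) (P.cons (P.lf 21555 0 0) (P.cons (P.lf 0 6822 0) (P.cons (P.lf 0 3162 0) P.nil)))) (P.cons (P.cons (P.lf 2994 0 0) (P.cons (P.lf 348 0 0) (P.cons (P.lf 0 228 0) P.nil))) (P.cons (P.cons (P.lf 0 120 0) (P.cons (P.lf 0 60 0) P.nil)) (P.cons (P.cons (P.lf 0 6 0) P.nil) P.nil)))))) 2367)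
 (EL.cons 11 (TM.mk (P.cons (P.cons (P.lf 0 15383571 0) (P.cons (P.lf 10624836 0 0) (P.cons (P.lf 6521922 0 0) (P.cons (P.lf 0 1262841 0) (P.cons (P.lf 0 417432 0) (P.cons (P.lf 8658 0 0) P.nil)))))) (P.cons (P.cons (P.lf 1815555 0 0) (P.cons (P.lf 0 1154928 0) (P.cons (P.lf 0 904638 0) (P.cons (P.lf 174600 0 0) (P.cons (P.lf 59733 0 0) P.nil))))) (P.cons (P.cons (P.lf 14877 0 0) (P.cons (P.lf 0 23562 0) (P.cons (P.lf 11799 0 0) (P.cons (P.lf 0 2208 0) P.nil)))) (P.cons (P.cons (P.lf 0 4077 0) (P.cons (P.lf 2886 0 0) (P.cons (P.lf 1629 0 0) P.nil))) (P.cons (P.cons (P.lf 0 114 0) (P.cons (P.lf 111 0 0) P.nil)) (P.cons (P.cons (P.lf 0 0 0) P.nil) P.nil)))))) 19614)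
 EL.nil)))
noncomputable def S230_234_660_808_27 : EL := (EL.cons 13 (TM.mk (P.lf 0 4294967296 0) 0)
 EL.nil)
noncomputable def S230_234_660_808_28 : EL := (EL.cons 13 (TM.mk (P.cons (P.cons (P.lf 1577490380 0 0) (P.cons (P.lf 380066704 0 0) (P.cons (P.lf 0 163889052 0) (P.lf 0 18209892 0)))) (P.cons (P.cons (P.lf 59471384 0 0) (P.cons (P.lf 4176036 0 0) (P.cons (P.lf 0 1800752 0) (P.lf 0 200080 0)))) (P.cons (P.cons (P.lf 278669 0 0) (P.cons (P.lf 0 151140 0) (P.cons (P.lf 65172 0 0) (P.lf 7240 0 0)))) (P.cons (P.cons (P.lf 0 34917 0) (P.cons (P.lf 0 1812 0) (P.cons (P.lf 780 0 0) P.nil))) (P.cons (P.cons (P.lf 0 216 0) (P.cons (P.lf 24 0 0) P.nil)) (P.cons (P.cons (P.lf 1 0 0) P.nil) P.nil)))))) 538)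
 EL.nil)
noncomputable def S230_234_660_808_29 : EL := (EL.cons 13 (TM.mk (P.cons (P.cons (P.lf 0 579393445 0) (P.cons (P.lf 0 279187955 0) (P.cons (P.lf 86756447 0 0) (P.cons (P.lf 42382022 0 0) (P.cons (P.lf 0 3030913 0) (P.cons (P.lf 0 1389720 0) P.nil)))))) (P.cons (P.cons (P.lf 0 43686263 0) (P.cons (P.lf 0 13593001 0) (P.cons (P.lf 5122369 0 0) (P.cons (P.lf 1288673 0 0) (P.cons (P.lf 0 66605 0) P.nil))))) (P.cons (P.cons (P.lf 0 1028189 0) (P.cons (P.lf 0 53944 0) (P.cons (P.lf 45951 0 0) (P.cons (P.lf 0 16981 0) P.nil)))) (P.cons (P.cons (P.lf 17931 0 0) (P.cons (P.lf 11154 0 0) (P.cons (P.lf 0 4194 0) P.nil))) (P.cons (P.cons (P.lf 1107 0 0) (P.cons (P.lf 158 0 0) P.nil)) (P.cons (P.cons (P.lf 9 0 0) P.nil) P.nil)))))) 121384)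
 EL.nil)
noncomputable def S230_234_660_808_30 : EL := (EL.cons 13 (TM.mk (P.cons (P.lf 796555148 0 0) (P.cons (P.lf 0 64936908 0) (P.cons (P.lf 0 177720 0) (P.cons (P.lf 4576 0 0) (P.cons (P.lf 20 0 0) (P.cons (P.lf 0 0 0) P.nil)))))) 36)
 EL.nil)
noncomputable def S230_234_660_808_31 : EL := (EL.cons 13 (TM.mk (P.cons (P.cons (P.lf 0 292565227 0) (P.cons (P.lf 0 70488101 0) (P.cons (P.lf 30395264 0 0) (P.lf 3377251 0 0)))) (P.cons (P.cons (P.lf 12820845 0 0) (P.cons (P.lf 4971845 0 0) (P.cons (P.lf 0 2143916 0) (P.lf 0 238213 0)))) (P.cons (P.cons (P.lf 912757 0 0) (P.cons (P.lf 106896 0 0) (P.cons (P.lf 0 46094 0) (P.lf 0 5121 0)))) (P.cons (P.cons (P.lf 11469 0 0) (P.cons (P.lf 0 2181 0) (P.cons (P.lf 940 0 0) P.nil))) (P.cons (P.cons (P.lf 0 547 0) (P.cons (P.lf 0 44 0) P.nil)) (P.cons (P.cons (P.lf 0 5 0) P.nil) P.nil)))))) 301)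
 EL.nil)
noncomputable def S230_234_660_808_32 : EL := (EL.cons 13 (TM.mk (P.cons (P.cons (P.lf 107455726 0 0) (P.cons (P.lf 51778881 0 0) (P.cons (P.lf 0 16090063 0) (P.cons (P.lf 0 7860273 0) (P.cons (P.lf 562120 0 0) (P.cons (P.lf 257740 0 0) P.nil)))))) (P.cons (P.cons (P.lf 0 657863 0) (P.cons (P.lf 0 1700135 0) (P.cons (P.lf 361689 0 0) (P.cons (P.lf 401786 0 0) (P.cons (P.lf 0 33472 0) P.nil))))) (P.cons (P.cons (P.lf 0 493789 0) (P.cons (P.lf 0 207064 0) (P.cons (P.lf 72514 0 0) (P.cons (P.lf 24386 0 0) P.nil)))) (P.cons (P.cons (P.lf 0 20061 0) (P.cons (P.lf 0 3149 0) (P.cons (P.lf 1592 0 0) P.nil))) (P.cons (P.cons (P.lf 72 0 0) (P.cons (P.lf 152 0 0) P.nil)) (P.cons (P.cons (P.lf 17 0 0) P.nil) P.nil)))))) 47024)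
 EL.nil)
noncomputable def S230_234_660_808_33 : EL := (EL.cons 14 (TM.mk (P.lf 8589934592 0 0) 0)
 EL.nil)
noncomputable def S230_234_660_808_34 : EL := (EL.cons 14 (TM.mk (P.cons (P.cons (P.lf 0 3154980760 0) (P.cons (P.lf 0 760133408 0) (P.cons (P.lf 327778104 0 0) (P.lf 36419784 0 0)))) (P.cons (P.cons (P.lf 0 118942768 0) (P.cons (P.lf 0 8352072 0) (P.cons (P.lf 3601504 0 0) (P.lf 400160 0 0)))) (P.cons (P.cons (P.lf 0 557338 0) (P.cons (P.lf 302280 0 0) (P.cons (P.lf 0 130344 0) (P.lf 0 14480 0)))) (P.cons (P.cons (P.lf 69834 0 0) (P.cons (P.lf 3624 0 0) (P.cons (P.lf 0 1560 0) P.nil))) (P.cons (P.cons (P.lf 432 0 0) (P.cons (P.lf 0 48 0) P.nil)) (P.cons (P.cons (P.lf 0 2 0) P.nil) P.nil)))))) 1076)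
 EL.nil)
noncomputable def S230_234_660_808_35 : EL := (EL.cons 14 (TM.mk (P.cons (P.cons (P.lf 1158786890 0 0) (P.cons (P.lf 558375910 0 0) (P.cons (P.lf 0 173512894 0) (P.cons (P.lf 0 84764044 0) (P.cons (P.lf 6061826 0 0) (P.cons (P.lf 2779440 0 0) P.nil)))))) (P.cons (P.cons (P.lf 87372526 0 0) (P.cons (P.lf 27186002 0 0) (P.cons (P.lf 0 10244738 0) (P.cons (P.lf 0 2577346 0) (P.cons (P.lf 133210 0 0) P.nil))))) (P.cons (P.cons (P.lf 2056378 0 0) (P.cons (P.lf 107888 0 0) (P.cons (P.lf 0 91902 0) (P.cons (P.lf 33962 0 0) P.nil)))) (P.cons (P.cons (P.lf 0 35862 0) (P.cons (P.lf 0 22308 0) (P.cons (P.lf 8388 0 0) P.nil))) (P.cons (P.cons (P.lf 0 2214 0) (P.cons (P.lf 0 316 0) P.nil)) (P.cons (P.cons (P.lf 0 18 0) P.nil) P.nil)))))) 242768)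
 EL.nil)
noncomputable def S230_234_660_808_36 : EL := (EL.cons 14 (TM.mk (P.cons (P.lf 0 1593110296 0) (P.cons (P.lf 129873816 0 0) (P.cons (P.lf 355440 0 0) (P.cons (P.lf 0 9152 0) (P.cons (P.lf 0 40 0) (P.cons (P.lf 0 0 0) P.nil)))))) 72)
 EL.nil)
noncomputable def S230_234_660_808_37 : EL := (EL.cons 14 (TM.mk (P.cons (P.cons (P.lf 585130454 0 0) (P.cons (P.lf 140976202 0 0) (P.cons (P.lf 0 60790528 0) (P.lf 0 6754502 0)))) (P.cons (P.cons (P.lf 0 25641690 0) (P.cons (P.lf 0 9943690 0) (P.cons (P.lf 4287832 0 0) (P.lf 476426 0 0)))) (P.cons (P.cons (P.lf 0 1825514 0) (P.cons (P.lf 0 213792 0) (P.cons (P.lf 92188 0 0) (P.lf 10242 0 0)))) (P.cons (P.cons (P.lf 0 22938 0) (P.cons (P.lf 4362 0 0) (P.cons (P.lf 0 1880 0) P.nil))) (P.cons (P.cons (P.lf 1094 0 0) (P.cons (P.lf 88 0 0) P.nil)) (P.cons (P.cons (P.lf 10 0 0) P.nil) P.nil)))))) 602)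
 EL.nil)
noncomputable def S230_234_660_808_38 : EL := (EL.cons 14 (TM.mk (P.cons (P.cons (P.lf 0 214911452 0) (P.cons (P.lf 0 103557762 0) (P.cons (P.lf 32180126 0 0) (P.cons (P.lf 15720546 0 0) (P.cons (P.lf 0 1124240 0) (P.cons (P.lf 0 515480 0) P.nil)))))) (P.cons (P.cons (P.lf 1315726 0 0) (P.cons (P.lf 3400270 0 0) (P.cons (P.lf 0 723378 0) (P.cons (P.lf 0 803572 0) (P.cons (P.lf 66944 0 0) P.nil))))) (P.cons (P.cons (P.lf 987578 0 0) (P.cons (P.lf 414128 0 0) (P.cons (P.lf 0 145028 0) (P.cons (P.lf 0 48772 0) P.nil)))) (P.cons (P.cons (P.lf 40122 0 0) (P.cons (P.lf 6298 0 0) (P.cons (P.lf 0 3184 0) P.nil))) (P.cons (P.cons (P.lf 0 144 0) (P.cons (P.lf 0 304 0) P.nil)) (P.cons (P.cons (P.lf 0 34 0) P.nil) P.nil)))))) 94048)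
 EL.nil)
noncomputable def S230_234_660_808_39 : EL := (EL.cons 14 (TM.mk (P.cons (P.lf 295462134 0 0) (P.cons (P.lf 0 48173430 0) (P.cons (P.lf 1831758 0 0) (P.cons (P.lf 14142 0 0) (P.cons (P.lf 0 246 0) (P.cons (P.lf 0 0 0) P.nil)))))) 42)
 EL.nil)
noncomputable def S230_234_660_808_40 : EL := (EL.cons 14 (TM.mk (P.cons (P.cons (P.lf 0 108519724 0) (P.cons (P.lf 0 26145790 0) (P.cons (P.lf 11274360 0 0) (P.lf 1252706 0 0)))) (P.cons (P.cons (P.lf 13602334 0 0) (P.cons (P.lf 3975642 0 0) (P.cons (P.lf 0 1714342 0) (P.lf 0 190482 0)))) (P.cons (P.cons (P.lf 0 24906 0) (P.cons (P.lf 0 104856 0) (P.cons (P.lf 45214 0 0) (P.lf 5024 0 0)))) (P.cons (P.cons (P.lf 0 25030 0) (P.cons (P.lf 0 4602 0) (P.cons (P.lf 1984 0 0) P.nil))) (P.cons (P.cons (P.lf 0 600 0) (P.cons (P.lf 50 0 0) P.nil)) (P.cons (P.cons (P.lf 14 0 0) P.nil) P.nil)))))) 388)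
 EL.nil)
noncomputable def S230_234_660_808_41 : EL := (EL.cons 14 (TM.mk (P.cons (P.cons (P.lf 39858004 0 0) (P.cons (P.lf 19206076 0 0) (P.cons (P.lf 0 5968204 0) (P.cons (P.lf 0 2915570 0) (P.cons (P.lf 208504 0 0) (P.cons (P.lf 95602 0 0) P.nil)))))) (P.cons (P.cons (P.lf 0 3493328 0) (P.cons (P.lf 0 2196342 0) (P.cons (P.lf 620700 0 0) (P.cons (P.lf 386716 0 0) (P.cons (P.lf 0 29412 0) P.nil))))) (P.cons (P.cons (P.lf 0 172158 0) (P.cons (P.lf 0 29680 0) (P.cons (P.lf 17290 0 0) (P.cons (P.lf 0 2452 0) P.nil)))) (P.cons (P.cons (P.lf 7772 0 0) (P.cons (P.lf 5344 0 0) (P.cons (P.lf 0 1666 0) P.nil))) (P.cons (P.cons (P.lf 674 0 0) (P.cons (P.lf 166 0 0) P.nil)) (P.cons (P.cons (P.lf 4 0 0) P.nil) P.nil)))))) 29074)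
 EL.nil)
noncomputable def S230_234_660_808_42 : EL := (EL.cons 14 (TM.mk (P.cons (P.lf 0 54797130 0) (P.cons (P.lf 13401542 0 0) (P.cons (P.lf 0 1055844 0) (P.cons (P.lf 22762 0 0) (P.cons (P.lf 384 0 0) (P.cons (P.lf 0 4 0) P.nil)))))) 24)
 EL.nil)
noncomputable def S230_234_660_808_43 : EL := (EL.cons 14 (TM.mk (P.cons (P.cons (P.lf 20126332 0 0) (P.cons (P.lf 4849062 0 0) (P.cons (P.lf 0 2090970 0) (P.lf 0 232330 0)))) (P.cons (P.cons (P.lf 0 4163464 0) (P.cons (P.lf 0 1132638 0) (P.cons (P.lf 488406 0 0) (P.lf 54266 0 0)))) (P.cons (P.cons (P.lf 205786 0 0) (P.cons (P.lf 78474 0 0) (P.cons (P.lf 0 33838 0) (P.lf 0 3758 0)))) (P.cons (P.cons (P.lf 4944 0 0) (P.cons (P.lf 0 538 0) (P.cons (P.lf 232 0 0) P.nil))) (P.cons (P.cons (P.lf 0 280 0) (P.cons (P.lf 0 86 0) P.nil)) (P.cons (P.cons (P.lf 0 12 0) P.nil) P.nil)))))) 276)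
 EL.nil)
noncomputable def S230_234_660_808_44 : EL := (EL.cons 14 (TM.mk (P.cons (P.cons (P.lf 0 7392162 0) (P.cons (P.lf 0 3562004 0) (P.cons (P.lf 1106876 0 0) (P.cons (P.lf 540728 0 0) (P.cons (P.lf 0 38668 0) (P.cons (P.lf 0 17730 0) P.nil)))))) (P.cons (P.cons (P.lf 1250506 0 0) (P.cons (P.lf 697720 0 0) (P.cons (P.lf 0 205350 0) (P.cons (P.lf 0 115802 0) (P.cons (P.lf 8606 0 0) P.nil))))) (P.cons (P.cons (P.lf 0 19238 0) (P.cons (P.lf 0 26906 0) (P.cons (P.lf 5930 0 0) (P.cons (P.lf 6180 0 0) P.nil)))) (P.cons (P.cons (P.lf 0 4230 0) (P.cons (P.lf 0 1550 0) (P.cons (P.lf 602 0 0) P.nil))) (P.cons (P.cons (P.lf 0 10 0) (P.cons (P.lf 50 0 0) P.nil)) (P.cons (P.cons (P.lf 8 0 0) P.nil) P.nil)))))) 8354)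
 EL.nil)
noncomputable def S230_234_660_808_45 : EL := (EL.cons 14 (TM.mk (P.cons (P.cons (P.lf 0 425608634 0) (P.cons (P.lf 0 307627240 0) (P.cons (P.lf 58535326 0 0) (P.cons (P.lf 72706960 0 0) (P.cons (P.lf 1020872 0 0) (P.cons (P.lf 0 5527396 0) P.nil)))))) (P.cons (P.cons (P.lf 0 48136332 0) (P.cons (P.lf 0 26575188 0) (P.cons (P.lf 7036566 0 0) (P.cons (P.lf 4891522 0 0) (P.cons (P.lf 0 144768 0) P.nil))))) (P.cons (P.cons (P.lf 0 2040294 0) (P.cons (P.lf 0 678438 0) (P.cons (P.lf 268054 0 0) (P.cons (P.lf 58578 0 0) P.nil)))) (P.cons (P.cons (P.lf 0 11550 0) (P.cons (P.lf 14212 0 0) (P.cons (P.lf 0 1534 0) P.nil))) (P.cons (P.cons (P.lf 1944 0 0) (P.cons (P.lf 1000 0 0) P.nil)) (P.cons (P.cons (P.lf 60 0 0) P.nil) P.nil)))))) 1410024)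
 EL.nil)
noncomputable def S230_234_660_808_46 : EL := (EL.cons 15 (TM.mk (P.lf 4294967296 0 0) 0)
 EL.nil)
noncomputable def S230_234_660_808_47 : EL := (EL.cons 15 (TM.mk (P.cons (P.cons (P.lf 0 1577490380 0) (P.cons (P.lf 0 380066704 0) (P.cons (P.lf 163889052 0 0) (P.lf 18209892 0 0)))) (P.cons (P.cons (P.lf 0 59471384 0) (P.cons (P.lf 0 4176036 0) (P.cons (P.lf 1800752 0 0) (P.lf 200080 0 0)))) (P.cons (P.cons (P.lf 0 278669 0) (P.cons (P.lf 151140 0 0) (P.cons (P.lf 0 65172 0) (P.lf 0 7240 0)))) (P.cons (P.cons (P.lf 34917 0 0) (P.cons (P.lf 1812 0 0) (P.cons (P.lf 0 780 0) P.nil))) (P.cons (P.cons (P.lf 216 0 0) (P.cons (P.lf 0 24 0) P.nil)) (P.cons (P.cons (P.lf 0 1 0) P.nil) P.nil)))))) 538)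
 EL.nil)
noncomputable def S230_234_660_808_48 : EL := (EL.cons 15 (TM.mk (P.cons (P.cons (P.lf 579393445 0 0) (P.cons (P.lf 279187955 0 0) (P.cons (P.lf 0 86756447 0) (P.cons (P.lf 0 42382022 0) (P.cons (P.lf 3030913 0 0) (P.cons (P.lf 1389720 0 0) P.nil)))))) (P.cons (P.cons (P.lf 43686263 0 0) (P.cons (P.lf 13593001 0 0) (P.cons (P.lf 0 5122369 0) (P.cons (P.lf 0 1288673 0) (P.cons (P.lf 66605 0 0) P.nil))))) (P.cons (P.cons (P.lf 1028189 0 0) (P.cons (P.lf 53944 0 0) (P.cons (P.lf 0 45951 0) (P.cons (P.lf 16981 0 0) P.nil)))) (P.cons (P.cons (P.lf 0 17931 0) (P.cons (P.lf 0 11154 0) (P.cons (P.lf 4194 0 0) P.nil))) (P.cons (P.cons (P.lf 0 1107 0) (P.cons (P.lf 0 158 0) P.nil)) (P.cons (P.cons (P.lf 0 9 0) P.nil) P.nil)))))) 121384)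
 EL.nil)
noncomputable def S230_234_660_808 : SL := (SL.cons S230_234_660_808_0 (SL.cons S230_234_660_808_1 (SL.cons S230_234_660_808_2 (SL.cons S230_234_660_808_3 (SL.cons S230_234_660_808_4 (SL.cons S230_234_660_808_5 (SL.cons S230_234_660_808_6 (SL.cons S230_234_660_808_7 (SL.cons S230_234_660_808_8 (SL.cons S230_234_660_808_9 (SL.cons S230_234_660_808_10 (SL.cons S230_234_660_808_11 (SL.cons S230_234_660_808_12 (SL.cons S230_234_660_808_13 (SL.cons S230_234_660_808_14 (SL.cons S230_234_660_808_15 (SL.cons S230_234_660_808_16 (SL.cons S230_234_660_808_17 (SL.cons S230_234_660_808_18 (SL.cons S230_234_660_808_19 (SL.cons S230_234_660_808_20 (SL.cons S230_234_660_808_21 (SL.cons S230_234_660_808_22 (SL.cons S230_234_660_808_23 (SL.cons S230_234_660_808_24 (SL.cons S230_234_660_808_25 (SL.cons S230_234_660_808_26 (SL.cons S230_234_660_808_27 (SL.cons S230_234_660_808_28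 (SL.cons S230_234_660_808_29 (SL.cons S230_234_660_808_30 (SL.cons S230_234_660_808_31 (SL.cons S230_234_660_808_32 (SL.cons S230_234_660_808_33 (SL.cons S230_234_660_808_34 (SL.cons S230_234_660_808_35 (SL.cons S230_234_660_808_36 (SL.cons S230_234_660_808_37 (SL.cons S230_234_660_808_38 (SL.cons S230_234_660_808_39 (SL.cons S230_234_660_808_40 (SL.cons S230_234_660_808_41 (SL.cons S230_234_660_808_42 (SL.cons S230_234_660_808_43 (SL.cons S230_234_660_808_44 (SL.cons S230_234_660_808_45 (SL.cons S230_234_660_808_46 (SL.cons S230_234_660_808_47 (SL.cons S230_234_660_808_48 SL.nil)))))))))))))))))))))))))))))))))))))))))))))))))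
noncomputable def S234_241_660_808_0 : EL := (EL.cons 0 (TM.mk (P.cons (P.lf 8300047093 0 0) (P.cons (P.lf 58138048 0 0) (P.cons (P.lf 0 5213265 0) (P.cons (P.lf 0 53105 0) (P.cons (P.lf 2265 0 0) (P.cons (P.lf 24 0 0) P.nil)))))) 38)
 (EL.cons 1 (TM.mk (P.cons (P.lf 0 570685625 0) (P.cons (P.lf 103747764 0 0) (P.cons (P.lf 1180231 0 0) (P.cons (P.lf 0 69039 0) (P.cons (P.lf 0 742 0) (P.cons (P.lf 22 0 0) P.nil)))))) 65)
 (EL.cons 5 (TM.mk (P.cons (P.lf 4350316550 0 0) (P.cons (P.lf 0 20671304 0) (P.cons (P.lf 1853602 0 0) (P.cons (P.lf 18880 0 0) (P.cons (P.lf 0 802 0) (P.cons (P.lf 0 8 0) P.nil)))))) 115)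
 (EL.cons 9 (TM.mk (P.lf 6442450944 0 0) 2)
 EL.nil))))
noncomputable def S234_241_660_808_1 : EL := (EL.cons 0 (TM.mk (P.cons (P.cons (P.lf 0 2594352073 0) (P.cons (P.lf 0 711948732 0) (P.cons (P.lf 307000325 0 0) (P.lf 34111151 0 0)))) (P.cons (P.cons (P.lf 0 370359928 0) (P.cons (P.lf 0 31688377 0) (P.cons (P.lf 13664372 0 0) (P.lf 1518247 0 0)))) (P.cons (P.cons (P.lf 0 4469741 0) (P.cons (P.lf 2502172 0 0) (P.cons (P.lf 0 1078960 0) (P.lf 0 119873 0)))) (P.cons (P.cons (P.lf 1363499 0 0) (P.cons (P.lf 89057 0 0) (P.cons (P.lf 0 38397 0) P.nil))) (P.cons (P.cons (P.lf 21956 0 0) (P.cons (P.lf 0 3134 0) P.nil)) (P.cons (P.cons (P.lf 0 1619 0) P.nil) P.nil)))))) 8057)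
 (EL.cons 1 (TM.mk (P.cons (P.cons (P.lf 1610689209 0 0) (P.cons (P.lf 127616358 0 0) (P.cons (P.lf 0 55029607 0) (P.lf 0 6114401 0)))) (P.cons (P.cons (P.lf 0 4911400 0) (P.cons (P.lf 0 20519555 0) (P.cons (P.lf 8848261 0 0) (P.lf 983138 0 0)))) (P.cons (P.cons (P.lf 0 13055607 0) (P.cons (P.lf 0 982995 0) (P.cons (P.lf 423873 0 0) (P.lf 47089 0 0)))) (P.cons (P.cons (P.lf 0 232694 0) (P.cons (P.lf 48029 0 0) (P.cons (P.lf 0 20706 0) P.nil))) (P.cons (P.cons (P.lf 26773 0 0) (P.cons (P.lf 1851 0 0) P.nil)) (P.cons (P.cons (P.lf 484 0 0) P.nil) P.nil)))))) 5193)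
 (EL.cons 5 (TM.mk (P.cons (P.cons (P.lf 0 2039654815 0) (P.cons (P.lf 0 410494616 0) (P.cons (P.lf 177009910 0 0) (P.lf 19667770 0 0)))) (P.cons (P.cons (P.lf 0 47398680 0) (P.cons (P.lf 1431466 0 0) (P.cons (P.lf 0 617258 0) (P.lf 0 68582 0)))) (P.cons (P.cons (P.lf 1682040 0 0) (P.cons (P.lf 0 31998 0) (P.cons (P.lf 13794 0 0) (P.lf 1530 0 0)))) (P.cons (P.cons (P.lf 0 149768 0) (P.cons (P.lf 0 18284 0) (P.cons (P.lf 7880 0 0) P.nil))) (P.cons (P.cons (P.lf 0 5913 0) (P.cons (P.lf 566 0 0) P.nil)) (P.cons (P.cons (P.lf 369 0 0) P.nil) P.nil)))))) 6151)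
 (EL.cons 9 (TM.mk (P.cons (P.cons (P.lf 0 2613609795 0) (P.cons (P.lf 0 585557592 0) (P.cons (P.lf 252499038 0 0) (P.lf 28055448 0 0)))) (P.cons (P.cons (P.lf 0 158013700 0) (P.cons (P.lf 0 8678388 0) (P.cons (P.lf 3742212 0 0) (P.lf 415794 0 0)))) (P.cons (P.cons (P.lf 81882 0 0) (P.cons (P.lf 756750 0 0) (P.cons (P.lf 0 326316 0) (P.lf 0 36252 0)))) (P.cons (P.cons (P.lf 295602 0 0) (P.cons (P.lf 11802 0 0) (P.cons (P.lf 0 5088 0) P.nil))) (P.cons (P.cons (P.lf 1672 0 0) (P.cons (P.lf 0 474 0) P.nil)) (P.cons (P.cons (P.lf 0 172 0) P.nil) P.nil)))))) 1517)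
 (EL.cons 2 (TM.mk (P.cons (P.cons (P.lf 166875013 0 0) (P.cons (P.lf 0 155459511 0) (P.cons (P.lf 0 15955202 0) (P.cons (P.lf 3318238 0 0) (P.lf 276519 0 0))))) (P.cons (P.cons (P.lf 0 29512631 0) (P.cons (P.lf 27493745 0 0) (P.cons (P.lf 2821750 0 0) (P.cons (P.lf 0 586845 0) (P.lf 0 48903 0))))) (P.cons (P.cons (P.lf 0 570945 0) (P.cons (P.lf 531888 0 0) (P.cons (P.lf 54587 0 0) (P.cons (P.lf 0 11351 0) P.nil)))) (P.cons (P.cons (P.lf 31913 0 0) (P.cons (P.lf 0 29730 0) (P.cons (P.lf 0 3051 0) P.nil))) (P.cons (P.cons (P.lf 556 0 0) (P.cons (P.lf 0 520 0) P.nil)) (P.cons (P.cons (P.lf 0 16 0) P.nil) P.nil)))))) 1970)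
 (EL.cons 6 (TM.mk (P.cons (P.cons (P.lf 611764056 0 0) (P.cons (P.lf 0 569914815 0) (P.cons (P.lf 0 58491798 0) (P.cons (P.lf 12164664 0 0) (P.lf 1013721 0 0))))) (P.cons (P.cons (P.lf 9066786 0 0) (P.cons (P.lf 0 8446551 0) (P.cons (P.lf 0 866889 0) (P.cons (P.lf 180288 0 0) (P.lf 15021 0 0))))) (P.cons (P.cons (P.lf 0 790623 0) (P.cons (P.lf 736539 0 0) (P.cons (P.lf 75591 0 0) (P.cons (P.lf 0 15720 0) P.nil)))) (P.cons (P.cons (P.lf 0 12333 0) (P.cons (P.lf 11487 0 0) (P.cons (P.lf 1176 0 0) P.nil))) (P.cons (P.cons (P.lf 498 0 0) (P.cons (P.lf 0 465 0) P.nil)) (P.cons (P.cons (P.lf 6 0 0) P.nil) P.nil)))))) 1962)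
 EL.nil))))))
noncomputable def S234_241_660_808_2 : EL := (EL.cons 0 (TM.mk (P.cons (P.cons (P.lf 738954062 0 0) (P.cons (P.lf 437163883 0 0) (P.cons (P.lf 0 127658624 0) (P.cons (P.lf 0 73425156 0) (P.cons (P.lf 5483834 0 0) (P.cons (P.lf 2514428 0 0) P.nil)))))) (P.cons (P.cons (P.lf 253019295 0 0) (P.cons (P.lf 84583638 0 0) (P.cons (P.lf 0 31307706 0) (P.cons (P.lf 0 8507605 0) (P.cons (P.lf 465516 0 0) P.nil))))) (P.cons (P.cons (P.lf 16521820 0 0) (P.cons (P.lf 1030437 0 0) (P.cons (P.lf 0 790067 0) (P.cons (P.lf 248790 0 0) P.nil)))) (P.cons (P.cons (P.lf 0 742248 0) (P.cons (P.lf 0 429097 0) (P.cons (P.lf 160281 0 0) P.nil))) (P.cons (P.cons (P.lf 0 93746 0) (P.cons (P.lf 0 12199 0) P.nil)) (P.cons (P.cons (P.lf 0 340 0) P.nil) P.nil)))))) 646624)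
 (EL.cons 1 (TM.mk (P.cons (P.cons (P.lf 0 1212943027 0) (P.cons (P.lf 0 354251191 0) (P.cons (P.lf 134273358 0 0) (P.cons (P.lf 32913806 0 0) (P.cons (P.lf 0 1665723 0) (P.cons (P.lf 0 763759 0) P.nil)))))) (P.cons (P.cons (P.lf 0 80743610 0) (P.cons (P.lf 2459474 0 0) (P.cons (P.lf 1608356 0 0) (P.cons (P.lf 0 2419579 0) (P.cons (P.lf 240512 0 0) P.nil))))) (P.cons (P.cons (P.lf 8953359 0 0) (P.cons (P.lf 3891275 0 0) (P.cons (P.lf 0 1460299 0) (P.cons (P.lf 0 374130 0) P.nil)))) (P.cons (P.cons (P.lf 881844 0 0) (P.cons (P.lf 95543 0 0) (P.cons (P.lf 0 49697 0) P.nil))) (P.cons (P.cons (P.lf 0 6926 0) (P.cons (P.lf 0 11271 0) P.nil)) (P.cons (P.cons (P.lf 0 2640 0) P.nil) P.nil)))))) 315880)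
 (EL.cons 5 (TM.mk (P.cons (P.cons (P.lf 938938581 0 0) (P.cons (P.lf 383015830 0 0) (P.cons (P.lf 0 126478954 0) (P.cons (P.lf 0 51711241 0) (P.cons (P.lf 3485930 0 0) (P.cons (P.lf 1598350 0 0) P.nil)))))) (P.cons (P.cons (P.lf 55339748 0 0) (P.cons (P.lf 10459811 0 0) (P.cons (P.lf 0 4559177 0) (P.cons (P.lf 0 459097 0) (P.cons (P.lf 0 4383 0) P.nil))))) (P.cons (P.cons (P.lf 0 1557377 0) (P.cons (P.lf 0 596653 0) (P.cons (P.lf 237549 0 0) (P.cons (P.lf 45610 0 0) P.nil)))) (P.cons (P.cons (P.lf 0 12479 0) (P.cons (P.lf 38482 0 0) (P.cons (P.lf 0 12526 0) P.nil))) (P.cons (P.cons (P.lf 15355 0 0) (P.cons (P.lf 2891 0 0) P.nil)) (P.cons (P.cons (P.lf 200 0 0) P.nil) P.nil)))))) 449083)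
 (EL.cons 9 (TM.mk (P.cons (P.cons (P.lf 1060303945 0 0) (P.cons (P.lf 475104604 0 0) (P.cons (P.lf 0 151648840 0) (P.cons (P.lf 0 68662911 0) (P.cons (P.lf 4796248 0 0) (P.cons (P.lf 2199154 0 0) P.nil)))))) (P.cons (P.cons (P.lf 128207776 0 0) (P.cons (P.lf 35765283 0 0) (P.cons (P.lf 0 13844821 0) (P.cons (P.lf 0 3074119 0) (P.cons (P.lf 142168 0 0) P.nil))))) (P.cons (P.cons (P.lf 3809157 0 0) (P.cons (P.lf 0 203179 0) (P.cons (P.lf 0 38260 0) (P.cons (P.lf 118284 0 0) P.nil)))) (P.cons (P.cons (P.lf 0 243859 0) (P.cons (P.lf 0 100651 0) (P.cons (P.lf 39216 0 0) P.nil))) (P.cons (P.cons (P.lf 0 15855 0) (P.cons (P.lf 0 1275 0) P.nil)) (P.cons (P.cons (P.lf 64 0 0) P.nil) P.nil)))))) 251867)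
 (EL.cons 2 (TM.mk (P.cons (P.cons (P.lf 0 135397586 0) (P.cons (P.lf 95800674 0 0) (P.cons (P.lf 54285845 0 0) (P.cons (P.lf 0 10524414 0) (P.cons (P.lf 0 3432200 0) (P.cons (P.lf 70869 0 0) P.nil)))))) (P.cons (P.cons (P.lf 15759826 0 0) (P.cons (P.lf 0 9766485 0) (P.cons (P.lf 0 8205345 0) (P.cons (P.lf 1582441 0 0) (P.cons (P.lf 545889 0 0) P.nil))))) (P.cons (P.cons (P.lf 1915200 0 0) (P.cons (P.lf 0 1561685 0) (P.cons (P.lf 0 486337 0) (P.cons (P.lf 95529 0 0) P.nil)))) (P.cons (P.cons (P.lf 16672 0 0) (P.cons (P.lf 0 26116 0) (P.cons (P.lf 12830 0 0) P.nil))) (P.cons (P.cons (P.lf 0 4651 0) (P.cons (P.lf 3881 0 0) P.nil)) (P.cons (P.cons (P.lf 0 84 0) P.nil) P.nil)))))) 187210)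
 (EL.cons 6 (TM.mk (P.cons (P.cons (P.lf 0 496367778 0) (P.cons (P.lf 351205422 0 0) (P.cons (P.lf 199011996 0 0) (P.cons (P.lf 0 38582520 0) (P.cons (P.lf 0 12582450 0) (P.cons (P.lf 259824 0 0) P.nil)))))) (P.cons (P.cons (P.lf 0 37365942 0) (P.cons (P.lf 31513494 0 0) (P.cons (P.lf 8064876 0 0) (P.cons (P.lf 0 1594080 0) (P.cons (P.lf 0 410496 0) P.nil))))) (P.cons (P.cons (P.lf 212274 0 0) (P.cons (P.lf 65250 0 0) (P.cons (P.lf 0 378726 0) (P.cons (P.lf 72126 0 0) P.nil)))) (P.cons (P.cons (P.lf 105156 0 0) (P.cons (P.lf 0 89220 0) (P.cons (P.lf 0 21966 0) P.nil))) (P.cons (P.cons (P.lf 1326 0 0) (P.cons (P.lf 0 1530 0) P.nil)) (P.cons (P.cons (P.lf 0 126 0) P.nil) P.nil)))))) 292014)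
 EL.nil))))))
noncomputable def S234_241_660_808_3 : EL := (EL.cons 0 (TM.mk (P.cons (P.lf 155669770 0 0) (P.cons (P.lf 0 58138048 0) (P.cons (P.lf 5213265 0 0) (P.cons (P.lf 53105 0 0) (P.cons (P.lf 0 2265 0) (P.cons (P.lf 0 24 0) P.nil)))))) 38)
 (EL.cons 1 (TM.mk (P.cons (P.lf 570685625 0 0) (P.cons (P.lf 0 103747764 0) (P.cons (P.lf 0 1180231 0) (P.cons (P.lf 69039 0 0) (P.cons (P.lf 742 0 0) (P.cons (P.lf 0 22 0) P.nil)))))) 65)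
 (EL.cons 5 (TM.mk (P.cons (P.lf 2092134394 0 0) (P.cons (P.lf 20671304 0 0) (P.cons (P.lf 0 1853602 0) (P.cons (P.lf 0 18880 0) (P.cons (P.lf 802 0 0) (P.cons (P.lf 8 0 0) P.nil)))))) 108)
 EL.nil)))
noncomputable def S234_241_660_808_4 : EL := (EL.cons 0 (TM.mk (P.cons (P.cons (P.lf 0 63152989 0) (P.cons (P.lf 0 14148901 0) (P.cons (P.lf 6101165 0 0) (P.lf 677905 0 0)))) (P.cons (P.cons (P.lf 19767665 0 0) (P.cons (P.lf 5074498 0 0) (P.cons (P.lf 0 2188181 0) (P.lf 0 243130 0)))) (P.cons (P.cons (P.lf 0 687018 0) (P.cons (P.lf 0 377233 0) (P.cons (P.lf 162667 0 0) (P.lf 18073 0 0)))) (P.cons (P.cons (P.lf 0 143005 0) (P.cons (P.lf 0 18391 0) (P.cons (P.lf 7931 0 0) P.nil))) (P.cons (P.cons (P.lf 0 2942 0) (P.cons (P.lf 627 0 0) P.nil)) (P.cons (P.cons (P.lf 284 0 0) P.nil) P.nil)))))) 1528)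
 (EL.cons 1 (TM.mk (P.cons (P.cons (P.lf 0 231518958 0) (P.cons (P.lf 0 51869900 0) (P.cons (P.lf 22366884 0 0) (P.lf 2485209 0 0)))) (P.cons (P.cons (P.lf 28091795 0 0) (P.cons (P.lf 8660936 0 0) (P.cons (P.lf 0 3734692 0) (P.lf 0 414965 0)))) (P.cons (P.cons (P.lf 3030671 0 0) (P.cons (P.lf 314060 0 0) (P.cons (P.lf 0 135425 0) (P.lf 0 15045 0)))) (P.cons (P.cons (P.lf 25803 0 0) (P.cons (P.lf 0 15825 0) (P.cons (P.lf 6823 0 0) P.nil))) (P.cons (P.cons (P.lf 0 6620 0) (P.cons (P.lf 0 530 0) P.nil)) (P.cons (P.cons (P.lf 0 103 0) P.nil) P.nil)))))) 1502)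
 (EL.cons 5 (TM.mk (P.cons (P.cons (P.lf 0 848748866 0) (P.cons (P.lf 0 190155142 0) (P.cons (P.lf 81997040 0 0) (P.lf 9110780 0 0)))) (P.cons (P.cons (P.lf 0 59699734 0) (P.cons (P.lf 0 4697062 0) (P.cons (P.lf 2025422 0 0) (P.lf 225044 0 0)))) (P.cons (P.cons (P.lf 271566 0 0) (P.cons (P.lf 386376 0 0) (P.cons (P.lf 0 166608 0) (P.lf 0 18510 0)))) (P.cons (P.cons (P.lf 149378 0 0) (P.cons (P.lf 10472 0 0) (P.cons (P.lf 0 4514 0) P.nil))) (P.cons (P.cons (P.lf 1604 0 0) (P.cons (P.lf 0 380 0) P.nil)) (P.cons (P.cons (P.lf 0 158 0) P.nil) P.nil)))))) 1106)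
 EL.nil)))
noncomputable def S234_241_660_808_5 : EL := (EL.cons 0 (TM.mk (P.cons (P.cons (P.lf 25620259 0 0) (P.cons (P.lf 11480013 0 0) (P.cons (P.lf 0 3664309 0) (P.cons (P.lf 0 1659109 0) (P.cons (P.lf 115890 0 0) (P.cons (P.lf 53136 0 0) P.nil)))))) (P.cons (P.cons (P.lf 0 6470506 0) (P.cons (P.lf 0 3423243 0) (P.cons (P.lf 1033976 0 0) (P.cons (P.lf 545347 0 0) (P.cons (P.lf 0 39846 0) P.nil))))) (P.cons (P.cons (P.lf 0 206927 0) (P.cons (P.lf 56793 0 0) (P.cons (P.lf 1299 0 0) (P.cons (P.lf 0 24962 0) P.nil)))) (P.cons (P.cons (P.lf 72217 0 0) (P.cons (P.lf 32257 0 0) (P.cons (P.lf 0 11160 0) P.nil))) (P.cons (P.cons (P.lf 5582 0 0) (P.cons (P.lf 840 0 0) P.nil)) (P.cons (P.cons (P.lf 0 70 0) P.nil) P.nil)))))) 40587)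
 (EL.cons 1 (TM.mk (P.cons (P.cons (P.lf 93923915 0 0) (P.cons (P.lf 42085747 0 0) (P.cons (P.lf 0 13433366 0) (P.cons (P.lf 0 6082301 0) (P.cons (P.lf 424860 0 0) (P.cons (P.lf 194805 0 0) P.nil)))))) (P.cons (P.cons (P.lf 0 5717981 0) (P.cons (P.lf 0 4482811 0) (P.cons (P.lf 1215714 0 0) (P.cons (P.lf 833418 0 0) (P.cons (P.lf 0 64642 0) P.nil))))) (P.cons (P.cons (P.lf 0 1921447 0) (P.cons (P.lf 0 680990 0) (P.cons (P.lf 247344 0 0) (P.cons (P.lf 72560 0 0) P.nil)))) (P.cons (P.cons (P.lf 0 95066 0) (P.cons (P.lf 0 7102 0) (P.cons (P.lf 5000 0 0) P.nil))) (P.cons (P.cons (P.lf 3320 0 0) (P.cons (P.lf 1981 0 0) P.nil)) (P.cons (P.cons (P.lf 356 0 0) P.nil) P.nil)))))) 71832)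
 (EL.cons 5 (TM.mk (P.cons (P.cons (P.lf 344325220 0 0) (P.cons (P.lf 154286418 0 0) (P.cons (P.lf 0 49246746 0) (P.cons (P.lf 0 22297730 0) (P.cons (P.lf 1557542 0 0) (P.cons (P.lf 714156 0 0) P.nil)))))) (P.cons (P.cons (P.lf 45036548 0 0) (P.cons (P.lf 13138912 0 0) (P.cons (P.lf 0 4982576 0) (P.cons (P.lf 0 1218606 0) (P.cons (P.lf 61556 0 0) P.nil))))) (P.cons (P.cons (P.lf 1343294 0 0) (P.cons (P.lf 0 87918 0) (P.cons (P.lf 0 13214 0) (P.cons (P.lf 48302 0 0) P.nil)))) (P.cons (P.cons (P.lf 0 106964 0) (P.cons (P.lf 0 45018 0) (P.cons (P.lf 17038 0 0) P.nil))) (P.cons (P.cons (P.lf 0 7270 0) (P.cons (P.lf 0 722 0) P.nil)) (P.cons (P.cons (P.lf 44 0 0) P.nil) P.nil)))))) 94220)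
 EL.nil)))
noncomputable def S234_241_660_808_6 : EL := (EL.cons 12 (TM.mk (P.lf 8589934592 0 0) 0)
 (EL.cons 3 (TM.mk (P.cons (P.lf 0 578185342 0) (P.cons (P.lf 107967551 0 0) (P.cons (P.lf 399168 0 0) (P.cons (P.lf 0 24082 0) (P.cons (P.lf 0 150 0) (P.cons (P.lf 3 0 0) P.nil)))))) 37)
 (EL.cons 7 (TM.mk (P.cons (P.lf 0 2119628364 0) (P.cons (P.lf 0 10471479 0) (P.cons (P.lf 964847 0 0) (P.cons (P.lf 4798 0 0) (P.cons (P.lf 0 211 0) (P.cons (P.lf 0 1 0) P.nil)))))) 48)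
 EL.nil)))
noncomputable def S234_241_660_808_7 : EL := (EL.cons 12 (TM.mk (P.cons (P.cons (P.lf 0 3484813060 0) (P.cons (P.lf 0 780743456 0) (P.cons (P.lf 336665384 0 0) (P.lf 37407264 0 0)))) (P.cons (P.cons (P.lf 0 210684934 0) (P.cons (P.lf 0 11571184 0) (P.cons (P.lf 4989616 0 0) (P.lf 554392 0 0)))) (P.cons (P.cons (P.lf 109176 0 0) (P.cons (P.lf 1009000 0 0) (P.cons (P.lf 0 435088 0) (P.lf 0 48336 0)))) (P.cons (P.cons (P.lf 394136 0 0) (P.cons (P.lf 15736 0 0) (P.cons (P.lf 0 6784 0) P.nil))) (P.cons (P.cons (P.lf 2230 0 0) (P.cons (P.lf 0 632 0) P.nil)) (P.cons (P.cons (P.lf 0 230 0) P.nil) P.nil)))))) 1998)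
 (EL.cons 3 (TM.mk (P.cons (P.cons (P.lf 0 2635970439 0) (P.cons (P.lf 0 105103110 0) (P.cons (P.lf 45321644 0 0) (P.lf 5035738 0 0)))) (P.cons (P.cons (P.lf 0 33781358 0) (P.cons (P.lf 18068744 0 0) (P.cons (P.lf 0 7791446 0) (P.lf 0 865716 0)))) (P.cons (P.cons (P.lf 13976021 0 0) (P.cons (P.lf 499268 0 0) (P.cons (P.lf 0 215288 0) (P.lf 0 23918 0)))) (P.cons (P.cons (P.lf 135318 0 0) (P.cons (P.lf 0 26548 0) (P.cons (P.lf 11446 0 0) P.nil))) (P.cons (P.cons (P.lf 0 14541 0) (P.cons (P.lf 0 664 0) P.nil)) (P.cons (P.cons (P.lf 0 163 0) P.nil) P.nil)))))) 4574)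
 (EL.cons 7 (TM.mk (P.cons (P.cons (P.lf 1138307891 0 0) (P.cons (P.lf 207944585 0 0) (P.cons (P.lf 0 89668055 0) (P.lf 0 9963118 0)))) (P.cons (P.cons (P.lf 3276370 0 0) (P.cons (P.lf 0 1752437 0) (P.cons (P.lf 755668 0 0) (P.lf 83960 0 0)))) (P.cons (P.cons (P.lf 0 1669493 0) (P.cons (P.lf 119522 0 0) (P.cons (P.lf 0 51536 0) (P.lf 0 5724 0)))) (P.cons (P.cons (P.lf 160857 0 0) (P.cons (P.lf 8344 0 0) (P.cons (P.lf 0 3597 0) P.nil))) (P.cons (P.cons (P.lf 2775 0 0) (P.cons (P.lf 0 299 0) P.nil)) (P.cons (P.cons (P.lf 0 176 0) P.nil) P.nil)))))) 3837)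
 (EL.cons 10 (TM.mk (P.cons (P.cons (P.lf 0 1239607221 0) (P.cons (P.lf 1154808804 0 0) (P.cons (P.lf 118520949 0 0) (P.cons (P.lf 0 24649059 0) (P.lf 0 2054088 0))))) (P.cons (P.cons (P.lf 0 12247920 0) (P.cons (P.lf 11410071 0 0) (P.cons (P.lf 1171044 0 0) (P.cons (P.lf 0 243543 0) (P.lf 0 20295 0))))) (P.cons (P.cons (P.lf 1098273 0 0) (P.cons (P.lf 0 1023144 0) (P.cons (P.lf 0 105006 0) (P.cons (P.lf 21837 0 0) P.nil)))) (P.cons (P.cons (P.lf 11184 0 0) (P.cons (P.lf 0 10419 0) (P.cons (P.lf 0 1068 0) P.nil))) (P.cons (P.cons (P.lf 0 474 0) (P.cons (P.lf 441 0 0) P.nil)) (P.cons (P.cons (P.lf 0 3 0) P.nil) P.nil)))))) 2361)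
 EL.nil))))
noncomputable def S234_241_660_808_8 : EL := (EL.cons 12 (TM.mk (P.cons (P.cons (P.lf 1413738594 0 0) (P.cons (P.lf 633472806 0 0) (P.cons (P.lf 0 202198454 0) (P.cons (P.lf 0 91550548 0) (P.cons (P.lf 6394998 0 0) (P.cons (P.lf 2932206 0 0) P.nil)))))) (P.cons (P.cons (P.lf 170943702 0 0) (P.cons (P.lf 47687044 0 0) (P.cons (P.lf 0 18459762 0) (P.cons (P.lf 0 4098826 0) (P.cons (P.lf 189558 0 0) P.nil))))) (P.cons (P.cons (P.lf 5078876 0 0) (P.cons (P.lf 0 270906 0) (P.cons (P.lf 0 51014 0) (P.cons (P.lf 157712 0 0) P.nil)))) (P.cons (P.cons (P.lf 0 325146 0) (P.cons (P.lf 0 134202 0) (P.cons (P.lf 52288 0 0) P.nil))) (P.cons (P.cons (P.lf 0 21140 0) (P.cons (P.lf 0 1700 0) P.nil)) (P.cons (P.cons (P.lf 86 0 0) P.nil) P.nil)))))) 335794)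
 (EL.cons 3 (TM.mk (P.cons (P.cons (P.lf 2233908899 0 0) (P.cons (P.lf 607085807 0 0) (P.cons (P.lf 0 237900059 0) (P.cons (P.lf 0 49683451 0) (P.cons (P.lf 2152226 0 0) (P.cons (P.lf 986825 0 0) P.nil)))))) (P.cons (P.cons (P.lf 150450641 0 0) (P.cons (P.lf 0 1014662 0) (P.cons (P.lf 0 3314195 0) (P.cons (P.lf 3284205 0 0) (P.cons (P.lf 0 338100 0) P.nil))))) (P.cons (P.cons (P.lf 0 11622080 0) (P.cons (P.lf 0 5009981 0) (P.cons (P.lf 1955190 0 0) (P.cons (P.lf 416966 0 0) P.nil)))) (P.cons (P.cons (P.lf 0 1127825 0) (P.cons (P.lf 0 98045 0) (P.cons (P.lf 51457 0 0) P.nil))) (P.cons (P.cons (P.lf 3975 0 0) (P.cons (P.lf 11009 0 0) P.nil)) (P.cons (P.cons (P.lf 2554 0 0) P.nil) P.nil)))))) 487055)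
 (EL.cons 7 (TM.mk (P.cons (P.cons (P.lf 0 574740110 0) (P.cons (P.lf 0 219329017 0) (P.cons (P.lf 74287198 0 0) (P.cons (P.lf 28007078 0 0) (P.cons (P.lf 0 1828493 0) (P.cons (P.lf 0 838394 0) P.nil)))))) (P.cons (P.cons (P.lf 0 14591811 0) (P.cons (P.lf 98407 0 0) (P.cons (P.lf 321439 0 0) (P.cons (P.lf 0 318518 0) (P.cons (P.lf 32790 0 0) P.nil))))) (P.cons (P.cons (P.lf 2525633 0 0) (P.cons (P.lf 476475 0 0) (P.cons (P.lf 0 220439 0) (P.cons (P.lf 0 9919 0) P.nil)))) (P.cons (P.cons (P.lf 0 38107 0) (P.cons (P.lf 0 52549 0) (P.cons (P.lf 19312 0 0) P.nil))) (P.cons (P.cons (P.lf 0 15536 0) (P.cons (P.lf 0 2263 0) P.nil)) (P.cons (P.cons (P.lf 0 165 0) P.nil) P.nil)))))) 190184)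
 (EL.cons 10 (TM.mk (P.cons (P.cons (P.lf 1005781680 0 0) (P.cons (P.lf 0 711641640 0) (P.cons (P.lf 0 403254666 0) (P.cons (P.lf 78179112 0 0) (P.cons (P.lf 25495614 0 0) (P.cons (P.lf 0 526482 0) P.nil)))))) (P.cons (P.cons (P.lf 70745184 0 0) (P.cons (P.lf 0 60339588 0) (P.cons (P.lf 0 14349558 0) (P.cons (P.lf 2843838 0 0) (P.cons (P.lf 705828 0 0) P.nil))))) (P.cons (P.cons (P.lf 0 321804 0) (P.cons (P.lf 0 158064 0) (P.cons (P.lf 654744 0 0) (P.cons (P.lf 0 124614 0) P.nil)))) (P.cons (P.cons (P.lf 0 177012 0) (P.cons (P.lf 152490 0 0) (P.cons (P.lf 33834 0 0) P.nil))) (P.cons (P.cons (P.lf 0 1902 0) (P.cons (P.lf 2220 0 0) P.nil)) (P.cons (P.cons (P.lf 186 0 0) P.nil) P.nil)))))) 567198)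
 EL.nil))))
noncomputable def S234_241_660_808_9 : EL := (EL.cons 3 (TM.mk (P.cons (P.lf 0 578185342 0) (P.cons (P.lf 107967551 0 0) (P.cons (P.lf 399168 0 0) (P.cons (P.lf 0 24082 0) (P.cons (P.lf 0 150 0) (P.cons (P.lf 3 0 0) P.nil)))))) 37)
 (EL.cons 7 (TM.mk (P.cons (P.lf 0 2119628364 0) (P.cons (P.lf 0 10471479 0) (P.cons (P.lf 964847 0 0) (P.cons (P.lf 4798 0 0) (P.cons (P.lf 0 211 0) (P.cons (P.lf 0 1 0) P.nil)))))) 48)
 EL.nil))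
noncomputable def S234_241_660_808_10 : EL := (EL.cons 3 (TM.mk (P.cons (P.cons (P.lf 234561486 0 0) (P.cons (P.lf 52551555 0 0) (P.cons (P.lf 0 22660822 0) (P.lf 0 2517869 0)))) (P.cons (P.cons (P.lf 0 29619758 0) (P.cons (P.lf 0 9034372 0) (P.cons (P.lf 3895723 0 0) (P.lf 432858 0 0)))) (P.cons (P.cons (P.lf 0 2817400 0) (P.cons (P.lf 0 249634 0) (P.cons (P.lf 107644 0 0) (P.lf 11959 0 0)))) (P.cons (P.cons (P.lf 0 25176 0) (P.cons (P.lf 13274 0 0) (P.cons (P.lf 0 5723 0) P.nil))) (P.cons (P.cons (P.lf 5460 0 0) (P.cons (P.lf 332 0 0) P.nil)) (P.cons (P.cons (P.lf 62 0 0) P.nil) P.nil)))))) 1099)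
 (EL.cons 7 (TM.mk (P.cons (P.cons (P.lf 859902776 0 0) (P.cons (P.lf 192654083 0 0) (P.cons (P.lf 0 83074613 0) (P.lf 0 9230512 0)))) (P.cons (P.cons (P.lf 56236156 0 0) (P.cons (P.lf 3807031 0 0) (P.cons (P.lf 0 1641632 0) (P.lf 0 182401 0)))) (P.cons (P.cons (P.lf 0 161531 0) (P.cons (P.lf 0 322567 0) (P.cons (P.lf 139093 0 0) (P.lf 15453 0 0)))) (P.cons (P.cons (P.lf 0 123000 0) (P.cons (P.lf 0 6848 0) (P.cons (P.lf 2952 0 0) P.nil))) (P.cons (P.cons (P.lf 0 1050 0) (P.cons (P.lf 262 0 0) P.nil)) (P.cons (P.cons (P.lf 103 0 0) P.nil) P.nil)))))) 764)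
 EL.nil))
noncomputable def S234_241_660_808_11 : EL := (EL.cons 3 (TM.mk (P.cons (P.cons (P.lf 0 95158225 0) (P.cons (P.lf 0 42638821 0) (P.cons (P.lf 13609903 0 0) (P.cons (P.lf 6162233 0 0) (P.cons (P.lf 0 430444 0) (P.cons (P.lf 0 197365 0) P.nil)))))) (P.cons (P.cons (P.lf 6263231 0 0) (P.cons (P.lf 4752370 0 0) (P.cons (P.lf 0 1298927 0) (P.cons (P.lf 0 874815 0) (P.cons (P.lf 67620 0 0) P.nil))))) (P.cons (P.cons (P.lf 1872442 0 0) (P.cons (P.lf 647053 0 0) (P.cons (P.lf 0 237984 0) (P.cons (P.lf 0 66388 0) P.nil)))) (P.cons (P.cons (P.lf 89701 0 0) (P.cons (P.lf 6067 0 0) (P.cons (P.lf 0 4451 0) P.nil))) (P.cons (P.cons (P.lf 0 2931 0) (P.cons (P.lf 0 1729 0) P.nil)) (P.cons (P.cons (P.lf 0 302 0) P.nil) P.nil)))))) 69799)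
 (EL.cons 7 (TM.mk (P.cons (P.cons (P.lf 0 348850202 0) (P.cons (P.lf 0 156313987 0) (P.cons (P.lf 49893928 0 0) (P.cons (P.lf 22590758 0 0) (P.cons (P.lf 0 1578011 0) (P.cons (P.lf 0 723542 0) P.nil)))))) (P.cons (P.cons (P.lf 0 43904997 0) (P.cons (P.lf 0 12539351 0) (P.cons (P.lf 4801567 0 0) (P.cons (P.lf 1123018 0 0) (P.cons (P.lf 0 54570 0) P.nil))))) (P.cons (P.cons (P.lf 0 1302841 0) (P.cons (P.lf 79869 0 0) (P.cons (P.lf 12379 0 0) (P.cons (P.lf 0 44203 0) P.nil)))) (P.cons (P.cons (P.lf 94031 0 0) (P.cons (P.lf 39155 0 0) (P.cons (P.lf 0 15026 0) P.nil))) (P.cons (P.cons (P.lf 6244 0 0) (P.cons (P.lf 563 0 0) P.nil)) (P.cons (P.cons (P.lf 0 33 0) P.nil) P.nil)))))) 89062)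
 EL.nil))
noncomputable def S234_241_660_808_12 : EL := (EL.cons 4 (TM.mk (P.cons (P.lf 578185342 0 0) (P.cons (P.lf 0 107967551 0) (P.cons (P.lf 0 399168 0) (P.cons (P.lf 24082 0 0) (P.cons (P.lf 150 0 0) (P.cons (P.lf 0 3 0) P.nil)))))) 37)
 (EL.cons 8 (TM.mk (P.cons (P.lf 2119628364 0 0) (P.cons (P.lf 10471479 0 0) (P.cons (P.lf 0 964847 0) (P.cons (P.lf 0 4798 0) (P.cons (P.lf 211 0 0) (P.cons (P.lf 1 0 0) P.nil)))))) 48)
 EL.nil))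
noncomputable def S234_241_660_808_13 : EL := (EL.cons 4 (TM.mk (P.cons (P.cons (P.lf 0 234561486 0) (P.cons (P.lf 0 52551555 0) (P.cons (P.lf 22660822 0 0) (P.lf 2517869 0 0)))) (P.cons (P.cons (P.lf 29619758 0 0) (P.cons (P.lf 9034372 0 0) (P.cons (P.lf 0 3895723 0) (P.lf 0 432858 0)))) (P.cons (P.cons (P.lf 2817400 0 0) (P.cons (P.lf 249634 0 0) (P.cons (P.lf 0 107644 0) (P.lf 0 11959 0)))) (P.cons (P.cons (P.lf 25176 0 0) (P.cons (P.lf 0 13274 0) (P.cons (P.lf 5723 0 0) P.nil))) (P.cons (P.cons (P.lf 0 5460 0) (P.cons (P.lf 0 332 0) P.nil)) (P.cons (P.cons (P.lf 0 62 0) P.nil) P.nil)))))) 1099)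
 (EL.cons 8 (TM.mk (P.cons (P.cons (P.lf 0 859902776 0) (P.cons (P.lf 0 192654083 0) (P.cons (P.lf 83074613 0 0) (P.lf 9230512 0 0)))) (P.cons (P.cons (P.lf 0 56236156 0) (P.cons (P.lf 0 3807031 0) (P.cons (P.lf 1641632 0 0) (P.lf 182401 0 0)))) (P.cons (P.cons (P.lf 161531 0 0) (P.cons (P.lf 322567 0 0) (P.cons (P.lf 0 139093 0) (P.lf 0 15453 0)))) (P.cons (P.cons (P.lf 123000 0 0) (P.cons (P.lf 6848 0 0) (P.cons (P.lf 0 2952 0) P.nil))) (P.cons (P.cons (P.lf 1050 0 0) (P.cons (P.lf 0 262 0) P.nil)) (P.cons (P.cons (P.lf 0 103 0) P.nil) P.nil)))))) 764)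
 EL.nil))
noncomputable def S234_241_660_808_14 : EL := (EL.cons 4 (TM.mk (P.cons (P.cons (P.lf 95158225 0 0) (P.cons (P.lf 42638821 0 0) (P.cons (P.lf 0 13609903 0) (P.cons (P.lf 0 6162233 0) (P.cons (P.lf 430444 0 0) (P.cons (P.lf 197365 0 0) P.nil)))))) (P.cons (P.cons (P.lf 0 6263231 0) (P.cons (P.lf 0 4752370 0) (P.cons (P.lf 1298927 0 0) (P.cons (P.lf 874815 0 0) (P.cons (P.lf 0 67620 0) P.nil))))) (P.cons (P.cons (P.lf 0 1872442 0) (P.cons (P.lf 0 647053 0) (P.cons (P.lf 237984 0 0) (P.cons (P.lf 66388 0 0) P.nil)))) (P.cons (P.cons (P.lf 0 89701 0) (P.cons (P.lf 0 6067 0) (P.cons (P.lf 4451 0 0) P.nil))) (P.cons (P.cons (P.lf 2931 0 0) (P.cons (P.lf 1729 0 0) P.nil)) (P.cons (P.cons (P.lf 302 0 0) P.nil) P.nil)))))) 69799)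
 (EL.cons 8 (TM.mk (P.cons (P.cons (P.lf 348850202 0 0) (P.cons (P.lf 156313987 0 0) (P.cons (P.lf 0 49893928 0) (P.cons (P.lf 0 22590758 0) (P.cons (P.lf 1578011 0 0) (P.cons (P.lf 723542 0 0) P.nil)))))) (P.cons (P.cons (P.lf 43904997 0 0) (P.cons (P.lf 12539351 0 0) (P.cons (P.lf 0 4801567 0) (P.cons (P.lf 0 1123018 0) (P.cons (P.lf 54570 0 0) P.nil))))) (P.cons (P.cons (P.lf 1302841 0 0) (P.cons (P.lf 0 79869 0) (P.cons (P.lf 0 12379 0) (P.cons (P.lf 44203 0 0) P.nil)))) (P.cons (P.cons (P.lf 0 94031 0) (P.cons (P.lf 0 39155 0) (P.cons (P.lf 15026 0 0) P.nil))) (P.cons (P.cons (P.lf 0 6244 0) (P.cons (P.lf 0 563 0) P.nil)) (P.cons (P.cons (P.lf 33 0 0) P.nil) P.nil)))))) 89062)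
 EL.nil))
noncomputable def S234_241_660_808_15 : EL := (EL.cons 4 (TM.mk (P.cons (P.lf 0 83023877 0) (P.cons (P.lf 31006959 0 0) (P.cons (P.lf 0 2780408 0) (P.cons (P.lf 0 28322 0) (P.cons (P.lf 1208 0 0) (P.cons (P.lf 13 0 0) P.nil)))))) 23)
 (EL.cons 8 (TM.mk (P.cons (P.lf 0 304365667 0) (P.cons (P.lf 55332141 0 0) (P.cons (P.lf 629457 0 0) (P.cons (P.lf 0 36821 0) (P.cons (P.lf 0 396 0) (P.cons (P.lf 12 0 0) P.nil)))))) 31)
 EL.nil))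
noncomputable def S234_241_660_808_16 : EL := (EL.cons 4 (TM.mk (P.cons (P.cons (P.lf 33681594 0 0) (P.cons (P.lf 7546080 0 0) (P.cons (P.lf 0 3253954 0) (P.lf 0 361549 0)))) (P.cons (P.cons (P.lf 0 10542754 0) (P.cons (P.lf 0 2706399 0) (P.cons (P.lf 1167030 0 0) (P.lf 129669 0 0)))) (P.cons (P.cons (P.lf 366409 0 0) (P.cons (P.lf 201191 0 0) (P.cons (P.lf 0 86756 0) (P.lf 0 9639 0)))) (P.cons (P.cons (P.lf 76269 0 0) (P.cons (P.lf 9809 0 0) (P.cons (P.lf 0 4230 0) P.nil))) (P.cons (P.cons (P.lf 1569 0 0) (P.cons (P.lf 0 334 0) P.nil)) (P.cons (P.cons (P.lf 0 151 0) P.nil) P.nil)))))) 824)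
 (EL.cons 8 (TM.mk (P.cons (P.cons (P.lf 123476778 0 0) (P.cons (P.lf 27663947 0 0) (P.cons (P.lf 0 11929005 0) (P.lf 0 1325445 0)))) (P.cons (P.cons (P.lf 0 14982291 0) (P.cons (P.lf 0 4619166 0) (P.cons (P.lf 1991836 0 0) (P.lf 221315 0 0)))) (P.cons (P.cons (P.lf 0 1616358 0) (P.cons (P.lf 0 167499 0) (P.cons (P.lf 72227 0 0) (P.lf 8024 0 0)))) (P.cons (P.cons (P.lf 0 13762 0) (P.cons (P.lf 8440 0 0) (P.cons (P.lf 0 3639 0) P.nil))) (P.cons (P.cons (P.lf 3531 0 0) (P.cons (P.lf 283 0 0) P.nil)) (P.cons (P.cons (P.lf 55 0 0) P.nil) P.nil)))))) 791)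
 EL.nil))
noncomputable def S234_241_660_808_17 : EL := (EL.cons 4 (TM.mk (P.cons (P.cons (P.lf 0 13664138 0) (P.cons (P.lf 0 6122673 0) (P.cons (P.lf 1954298 0 0) (P.cons (P.lf 884858 0 0) (P.cons (P.lf 0 61808 0) (P.cons (P.lf 0 28339 0) P.nil)))))) (P.cons (P.cons (P.lf 3450936 0 0) (P.cons (P.lf 1825729 0 0) (P.cons (P.lf 0 551454 0) (P.cons (P.lf 0 290851 0) (P.cons (P.lf 21251 0 0) P.nil))))) (P.cons (P.cons (P.lf 110361 0 0) (P.cons (P.lf 0 30289 0) (P.cons (P.lf 0 692 0) (P.cons (P.lf 13313 0 0) P.nil)))) (P.cons (P.cons (P.lf 0 38516 0) (P.cons (P.lf 0 17204 0) (P.cons (P.lf 5952 0 0) P.nil))) (P.cons (P.cons (P.lf 0 2977 0) (P.cons (P.lf 0 448 0) P.nil)) (P.cons (P.cons (P.lf 37 0 0) P.nil) P.nil)))))) 21656)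
 (EL.cons 8 (TM.mk (P.cons (P.cons (P.lf 0 50092755 0) (P.cons (P.lf 0 22445732 0) (P.cons (P.lf 7164462 0 0) (P.cons (P.lf 3243894 0 0) (P.cons (P.lf 0 226592 0) (P.cons (P.lf 0 103896 0) P.nil)))))) (P.cons (P.cons (P.lf 3049590 0 0) (P.cons (P.lf 2390833 0 0) (P.cons (P.lf 0 648381 0) (P.cons (P.lf 0 444490 0) (P.cons (P.lf 34476 0 0) P.nil))))) (P.cons (P.cons (P.lf 1024772 0 0) (P.cons (P.lf 363195 0 0) (P.cons (P.lf 0 131917 0) (P.cons (P.lf 0 38699 0) P.nil)))) (P.cons (P.cons (P.lf 50702 0 0) (P.cons (P.lf 3788 0 0) (P.cons (P.lf 0 2667 0) P.nil))) (P.cons (P.cons (P.lf 0 1771 0) (P.cons (P.lf 0 1057 0) P.nil)) (P.cons (P.cons (P.lf 0 190 0) P.nil) P.nil)))))) 38299)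
 EL.nil))
noncomputable def S234_241_660_808_18 : EL := (EL.cons 4 (TM.mk (P.cons (P.lf 11921720 0 0) (P.cons (P.lf 0 6678614 0) (P.cons (P.lf 1222440 0 0) (P.cons (P.lf 0 66915 0) (P.cons (P.lf 0 1390 0) (P.cons (P.lf 42 0 0) P.nil)))))) 17)
 (EL.cons 8 (TM.mk (P.cons (P.lf 43705047 0 0) (P.cons (P.lf 0 16106627 0) (P.cons (P.lf 1363118 0 0) (P.cons (P.lf 29471 0 0) (P.cons (P.lf 0 1187 0) (P.cons (P.lf 0 21 0) P.nil)))))) 17)
 EL.nil))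
noncomputable def S234_241_660_808_19 : EL := (EL.cons 4 (TM.mk (P.cons (P.cons (P.lf 0 4836470 0) (P.cons (P.lf 0 1083570 0) (P.cons (P.lf 467247 0 0) (P.lf 51915 0 0)))) (P.cons (P.cons (P.lf 2417013 0 0) (P.cons (P.lf 590962 0 0) (P.cons (P.lf 0 254829 0) (P.lf 0 28314 0)))) (P.cons (P.cons (P.lf 0 331968 0) (P.cons (P.lf 0 100710 0) (P.cons (P.lf 43427 0 0) (P.lf 4825 0 0)))) (P.cons (P.cons (P.lf 0 2373 0) (P.cons (P.lf 3672 0 0) (P.cons (P.lf 0 1583 0) P.nil))) (P.cons (P.cons (P.lf 1917 0 0) (P.cons (P.lf 346 0 0) P.nil)) (P.cons (P.cons (P.lf 69 0 0) P.nil) P.nil)))))) 661)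
 (EL.cons 8 (TM.mk (P.cons (P.cons (P.lf 0 17730509 0) (P.cons (P.lf 0 3972373 0) (P.cons (P.lf 1712931 0 0) (P.lf 190325 0 0)))) (P.cons (P.cons (P.lf 5462275 0 0) (P.cons (P.lf 1405065 0 0) (P.cons (P.lf 0 605880 0) (P.lf 0 67319 0)))) (P.cons (P.cons (P.lf 0 157395 0) (P.cons (P.lf 0 97063 0) (P.cons (P.lf 41855 0 0) (P.lf 4650 0 0)))) (P.cons (P.cons (P.lf 0 43588 0) (P.cons (P.lf 0 6326 0) (P.cons (P.lf 2728 0 0) P.nil))) (P.cons (P.cons (P.lf 0 951 0) (P.cons (P.lf 195 0 0) P.nil)) (P.cons (P.cons (P.lf 95 0 0) P.nil) P.nil)))))) 544)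
 EL.nil))
noncomputable def S234_241_660_808_20 : EL := (EL.cons 4 (TM.mk (P.cons (P.cons (P.lf 1962086 0 0) (P.cons (P.lf 879178 0 0) (P.cons (P.lf 0 280624 0) (P.cons (P.lf 0 127060 0) (P.cons (P.lf 8875 0 0) (P.cons (P.lf 4068 0 0) P.nil)))))) (P.cons (P.cons (P.lf 0 861923 0) (P.cons (P.lf 0 426336 0) (P.cons (P.lf 131587 0 0) (P.cons (P.lf 65490 0 0) (P.cons (P.lf 0 4708 0) P.nil))))) (P.cons (P.cons (P.lf 75330 0 0) (P.cons (P.lf 52696 0 0) (P.cons (P.lf 0 14492 0) (P.cons (P.lf 0 9622 0) P.nil)))) (P.cons (P.cons (P.lf 8913 0 0) (P.cons (P.lf 1875 0 0) (P.cons (P.lf 0 939 0) P.nil))) (P.cons (P.cons (P.lf 0 614 0) (P.cons (P.lf 0 409 0) P.nil)) (P.cons (P.cons (P.lf 0 90 0) P.nil) P.nil)))))) 6450)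
 (EL.cons 8 (TM.mk (P.cons (P.cons (P.lf 7193012 0 0) (P.cons (P.lf 3223069 0 0) (P.cons (P.lf 0 1028772 0) (P.cons (P.lf 0 465803 0) (P.cons (P.lf 32536 0 0) (P.cons (P.lf 14918 0 0) P.nil)))))) (P.cons (P.cons (P.lf 0 1781090 0) (P.cons (P.lf 0 945169 0) (P.cons (P.lf 285211 0 0) (P.cons (P.lf 150807 0 0) (P.cons (P.lf 0 11026 0) P.nil))))) (P.cons (P.cons (P.lf 0 70344 0) (P.cons (P.lf 9729 0 0) (P.cons (P.lf 2267 0 0) (P.cons (P.lf 0 6039 0) P.nil)))) (P.cons (P.cons (P.lf 20799 0 0) (P.cons (P.lf 9565 0 0) (P.cons (P.lf 0 3261 0) P.nil))) (P.cons (P.cons (P.lf 1698 0 0) (P.cons (P.lf 275 0 0) P.nil)) (P.cons (P.cons (P.lf 0 21 0) P.nil) P.nil)))))) 11761)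
 EL.nil))
noncomputable def S234_241_660_808_21 : EL := (EL.cons 4 (TM.mk (P.cons (P.cons (P.lf 2870531925 0 0) (P.cons (P.lf 157654665 0 0) (P.cons (P.lf 0 67982466 0) (P.lf 0 7553607 0)))) (P.cons (P.cons (P.lf 4161600 0 0) (P.cons (P.lf 0 27103116 0) (P.cons (P.lf 11687169 0 0) (P.lf 1298574 0 0)))) (P.cons (P.cons (P.lf 0 16793421 0) (P.cons (P.lf 0 748902 0) (P.cons (P.lf 322932 0 0) (P.lf 35877 0 0)))) (P.cons (P.cons (P.lf 0 160494 0) (P.cons (P.lf 39822 0 0) (P.cons (P.lf 0 17169 0) P.nil))) (P.cons (P.cons (P.lf 20001 0 0) (P.cons (P.lf 996 0 0) P.nil)) (P.cons (P.cons (P.lf 225 0 0) P.nil) P.nil)))))) 3456)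
 (EL.cons 8 (TM.mk (P.cons (P.cons (P.lf 0 278405115 0) (P.cons (P.lf 0 15290502 0) (P.cons (P.lf 6593442 0 0) (P.lf 732606 0 0)))) (P.cons (P.cons (P.lf 52959786 0 0) (P.cons (P.lf 5559468 0 0) (P.cons (P.lf 0 2397300 0) (P.lf 0 266361 0)))) (P.cons (P.cons (P.lf 1507962 0 0) (P.cons (P.lf 0 442089 0) (P.cons (P.lf 190629 0 0) (P.lf 21177 0 0)))) (P.cons (P.cons (P.lf 0 283857 0) (P.cons (P.lf 0 15192 0) (P.cons (P.lf 6549 0 0) P.nil))) (P.cons (P.cons (P.lf 0 3825 0) (P.cons (P.lf 561 0 0) P.nil)) (P.cons (P.cons (P.lf 279 0 0) P.nil) P.nil)))))) 3054)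
 (EL.cons 11 (TM.mk (P.cons (P.cons (P.lf 1239607221 0 0) (P.cons (P.lf 0 1154808804 0) (P.cons (P.lf 0 118520949 0) (P.cons (P.lf 24649059 0 0) (P.lf 2054088 0 0))))) (P.cons (P.cons (P.lf 12247920 0 0) (P.cons (P.lf 0 11410071 0) (P.cons (P.lf 0 1171044 0) (P.cons (P.lf 243543 0 0) (P.lf 20295 0 0))))) (P.cons (P.cons (P.lf 0 1098273 0) (P.cons (P.lf 1023144 0 0) (P.cons (P.lf 105006 0 0) (P.cons (P.lf 0 21837 0) P.nil)))) (P.cons (P.cons (P.lf 0 11184 0) (P.cons (P.lf 10419 0 0) (P.cons (P.lf 1068 0 0) P.nil))) (P.cons (P.cons (P.lf 474 0 0) (P.cons (P.lf 0 441 0) P.nil)) (P.cons (P.cons (P.lf 3 0 0) P.nil) P.nil)))))) 2361)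
 EL.nil)))
noncomputable def S234_241_660_808_22 : EL := (EL.cons 4 (TM.mk (P.cons (P.cons (P.lf 0 1164533562 0) (P.cons (P.lf 0 324862314 0) (P.cons (P.lf 125754981 0 0) (P.cons (P.lf 27922842 0 0) (P.cons (P.lf 0 1291335 0) (P.cons (P.lf 0 592095 0) P.nil)))))) (P.cons (P.cons (P.lf 0 72093705 0) (P.cons (P.lf 2883516 0 0) (P.cons (P.lf 1007634 0 0) (P.cons (P.lf 0 2079510 0) (P.cons (P.lf 202860 0 0) P.nil))))) (P.cons (P.cons (P.lf 6747261 0 0) (P.cons (P.lf 2828517 0 0) (P.cons (P.lf 0 1096587 0) (P.cons (P.lf 0 241677 0) P.nil)))) (P.cons (P.cons (P.lf 608763 0 0) (P.cons (P.lf 52056 0 0) (P.cons (P.lf 0 27954 0) P.nil))) (P.cons (P.cons (P.lf 0 3453 0) (P.cons (P.lf 0 6369 0) P.nil)) (P.cons (P.cons (P.lf 0 1428 0) P.nil) P.nil)))))) 208617)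
 (EL.cons 8 (TM.mk (P.cons (P.cons (P.lf 112944954 0 0) (P.cons (P.lf 31507515 0 0) (P.cons (P.lf 0 12196635 0) (P.cons (P.lf 0 2708160 0) (P.cons (P.lf 125241 0 0) (P.cons (P.lf 57426 0 0) P.nil)))))) (P.cons (P.cons (P.lf 0 14656593 0) (P.cons (P.lf 0 6318879 0) (P.cons (P.lf 2240064 0 0) (P.cons (P.lf 720768 0 0) (P.cons (P.lf 0 43680 0) P.nil))))) (P.cons (P.cons (P.lf 0 1914237 0) (P.cons (P.lf 0 198303 0) (P.cons (P.lf 116409 0 0) (P.cons (P.lf 0 17142 0) P.nil)))) (P.cons (P.cons (P.lf 66069 0 0) (P.cons (P.lf 45852 0 0) (P.cons (P.lf 0 17169 0) P.nil))) (P.cons (P.cons (P.lf 10890 0 0) (P.cons (P.lf 1413 0 0) P.nil)) (P.cons (P.cons (P.lf 66 0 0) P.nil) P.nil)))))) 50550)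
 (EL.cons 11 (TM.mk (P.cons (P.cons (P.lf 0 502890840 0) (P.cons (P.lf 355820820 0 0) (P.cons (P.lf 201627333 0 0) (P.cons (P.lf 0 39089556 0) (P.cons (P.lf 0 12747807 0) (P.cons (P.lf 263241 0 0) P.nil)))))) (P.cons (P.cons (P.lf 0 35372592 0) (P.cons (P.lf 30169794 0 0) (P.cons (P.lf 7174779 0 0) (P.cons (P.lf 0 1421919 0) (P.cons (P.lf 0 352914 0) P.nil))))) (P.cons (P.cons (P.lf 160902 0 0) (P.cons (P.lf 79032 0 0) (P.cons (P.lf 0 327372 0) (P.cons (P.lf 62307 0 0) P.nil)))) (P.cons (P.cons (P.lf 88506 0 0) (P.cons (P.lf 0 76245 0) (P.cons (P.lf 0 16917 0) P.nil))) (P.cons (P.cons (P.lf 951 0 0) (P.cons (P.lf 0 1110 0) P.nil)) (P.cons (P.cons (P.lf 0 93 0) P.nil) P.nil)))))) 283599)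
 EL.nil)))
noncomputable def S234_241_660_808_23 : EL := (EL.cons 4 (TM.mk (P.cons (P.cons (P.lf 0 412190823 0) (P.cons (P.lf 0 22638243 0) (P.cons (P.lf 9761865 0 0) (P.lf 1084650 0 0)))) (P.cons (P.cons (P.lf 76372950 0 0) (P.cons (P.lf 8119197 0 0) (P.cons (P.lf 0 3501087 0) (P.lf 0 389007 0)))) (P.cons (P.cons (P.lf 2807589 0 0) (P.cons (P.lf 0 603576 0) (P.cons (P.lf 260268 0 0) (P.lf 28917 0 0)))) (P.cons (P.cons (P.lf 0 444009 0) (P.cons (P.lf 0 29427 0) (P.cons (P.lf 12687 0 0) P.nil))) (P.cons (P.cons (P.lf 0 8970 0) (P.cons (P.lf 1005 0 0) P.nil)) (P.cons (P.cons (P.lf 591 0 0) P.nil) P.nil)))))) 2433)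
 (EL.cons 8 (TM.mk (P.cons (P.cons (P.lf 39977271 0 0) (P.cons (P.lf 2195622 0 0) (P.cons (P.lf 0 946776 0) (P.lf 0 105195 0)))) (P.cons (P.cons (P.lf 0 15069864 0) (P.cons (P.lf 0 1208304 0) (P.cons (P.lf 521034 0 0) (P.lf 57891 0 0)))) (P.cons (P.cons (P.lf 1175931 0 0) (P.cons (P.lf 211035 0 0) (P.cons (P.lf 0 90999 0) (P.lf 0 10110 0)))) (P.cons (P.cons (P.lf 88107 0 0) (P.cons (P.lf 0 9030 0) (P.cons (P.lf 3894 0 0) P.nil))) (P.cons (P.cons (P.lf 0 7218 0) (P.cons (P.lf 0 564 0) P.nil)) (P.cons (P.cons (P.lf 0 180 0) P.nil) P.nil)))))) 1422)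
 (EL.cons 11 (TM.mk (P.cons (P.cons (P.lf 0 178000014 0) (P.cons (P.lf 165823479 0 0) (P.cons (P.lf 17018883 0 0) (P.cons (P.lf 0 3539454 0) (P.lf 0 294954 0))))) (P.cons (P.cons (P.lf 31480140 0 0) (P.cons (P.lf 0 29326662 0) (P.cons (P.lf 0 3009867 0) (P.cons (P.lf 625968 0 0) (P.lf 52164 0 0))))) (P.cons (P.cons (P.lf 609009 0 0) (P.cons (P.lf 0 567348 0) (P.cons (P.lf 0 58227 0) (P.cons (P.lf 12108 0 0) P.nil)))) (P.cons (P.cons (P.lf 0 34041 0) (P.cons (P.lf 31713 0 0) (P.cons (P.lf 3255 0 0) P.nil))) (P.cons (P.cons (P.lf 0 594 0) (P.cons (P.lf 555 0 0) P.nil)) (P.cons (P.cons (P.lf 18 0 0) P.nil) P.nil)))))) 2079)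
 EL.nil)))
noncomputable def S234_241_660_808_24 : EL := (EL.cons 4 (TM.mk (P.cons (P.cons (P.lf 167219895 0 0) (P.cons (P.lf 46648239 0 0) (P.cons (P.lf 0 18057645 0) (P.cons (P.lf 0 4009548 0) (P.cons (P.lf 185427 0 0) (P.cons (P.lf 85020 0 0) P.nil)))))) (P.cons (P.cons (P.lf 0 20873622 0) (P.cons (P.lf 0 9124923 0) (P.cons (P.lf 3227307 0 0) (P.cons (P.lf 1047327 0 0) (P.cons (P.lf 0 63753 0) P.nil))))) (P.cons (P.cons (P.lf 0 3017433 0) (P.cons (P.lf 0 361041 0) (P.cons (P.lf 196947 0 0) (P.cons (P.lf 0 18288 0) P.nil)))) (P.cons (P.cons (P.lf 93324 0 0) (P.cons (P.lf 70596 0 0) (P.cons (P.lf 0 26040 0) P.nil))) (P.cons (P.cons (P.lf 17961 0 0) (P.cons (P.lf 2583 0 0) P.nil)) (P.cons (P.cons (P.lf 132 0 0) P.nil) P.nil)))))) 73464)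
 (EL.cons 8 (TM.mk (P.cons (P.cons (P.lf 0 16218204 0) (P.cons (P.lf 0 4524285 0) (P.cons (P.lf 1751361 0 0) (P.cons (P.lf 388875 0 0) (P.cons (P.lf 0 17982 0) (P.cons (P.lf 0 8244 0) P.nil)))))) (P.cons (P.cons (P.lf 5133105 0 0) (P.cons (P.lf 1752195 0 0) (P.cons (P.lf 0 648699 0) (P.cons (P.lf 0 176115 0) (P.cons (P.lf 9630 0 0) P.nil))))) (P.cons (P.cons (P.lf 0 106932 0) (P.cons (P.lf 0 137835 0) (P.cons (P.lf 42138 0 0) (P.cons (P.lf 21519 0 0) P.nil)))) (P.cons (P.cons (P.lf 0 62943 0) (P.cons (P.lf 0 12714 0) (P.cons (P.lf 5880 0 0) P.nil))) (P.cons (P.cons (P.lf 99 0 0) (P.cons (P.lf 1041 0 0) P.nil)) (P.cons (P.cons (P.lf 300 0 0) P.nil) P.nil)))))) 15474)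
 (EL.cons 11 (TM.mk (P.cons (P.cons (P.lf 72212046 0 0) (P.cons (P.lf 0 51093693 0) (P.cons (P.lf 0 28952451 0) (P.cons (P.lf 5613021 0 0) (P.cons (P.lf 1830507 0 0) (P.cons (P.lf 0 37797 0) P.nil)))))) (P.cons (P.cons (P.lf 0 8405241 0) (P.cons (P.lf 5208792 0 0) (P.cons (P.lf 4376184 0 0) (P.cons (P.lf 0 843969 0) (P.cons (P.lf 0 291141 0) P.nil))))) (P.cons (P.cons (P.lf 0 1021440 0) (P.cons (P.lf 832899 0 0) (P.cons (P.lf 259380 0 0) (P.cons (P.lf 0 50949 0) P.nil)))) (P.cons (P.cons (P.lf 0 8892 0) (P.cons (P.lf 13929 0 0) (P.cons (P.lf 0 6843 0) P.nil))) (P.cons (P.cons (P.lf 2481 0 0) (P.cons (P.lf 0 2070 0) P.nil)) (P.cons (P.cons (P.lf 45 0 0) P.nil) P.nil)))))) 99834)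
 EL.nil)))
noncomputable def S234_241_660_808_25 : EL := (EL.cons 4 (TM.mk (P.cons (P.cons (P.lf 59188080 0 0) (P.cons (P.lf 3250713 0 0) (P.cons (P.lf 0 1401744 0) (P.lf 0 155748 0)))) (P.cons (P.cons (P.lf 0 22019184 0) (P.cons (P.lf 0 1772889 0) (P.cons (P.lf 764490 0 0) (P.lf 84942 0 0)))) (P.cons (P.cons (P.lf 1603851 0 0) (P.cons (P.lf 302133 0 0) (P.cons (P.lf 0 130281 0) (P.lf 0 14475 0)))) (P.cons (P.cons (P.lf 149076 0 0) (P.cons (P.lf 0 11016 0) (P.cons (P.lf 4749 0 0) P.nil))) (P.cons (P.cons (P.lf 0 10779 0) (P.cons (P.lf 0 1041 0) P.nil)) (P.cons (P.cons (P.lf 0 387 0) P.nil) P.nil)))))) 1980)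
 (EL.cons 8 (TM.mk (P.cons (P.cons (P.lf 0 5740491 0) (P.cons (P.lf 0 315276 0) (P.cons (P.lf 135951 0 0) (P.lf 15105 0 0)))) (P.cons (P.cons (P.lf 3235890 0 0) (P.cons (P.lf 232377 0 0) (P.cons (P.lf 0 100203 0) (P.lf 0 11133 0)))) (P.cons (P.cons (P.lf 0 568977 0) (P.cons (P.lf 0 62484 0) (P.cons (P.lf 26943 0 0) (P.lf 2991 0 0)))) (P.cons (P.cons (P.lf 17145 0 0) (P.cons (P.lf 6822 0 0) (P.cons (P.lf 0 2940 0) P.nil))) (P.cons (P.cons (P.lf 3603 0 0) (P.cons (P.lf 0 132 0) P.nil)) (P.cons (P.cons (P.lf 0 165 0) P.nil) P.nil)))))) 750)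
 (EL.cons 11 (TM.mk (P.cons (P.cons (P.lf 25559712 0 0) (P.cons (P.lf 0 23811237 0) (P.cons (P.lf 0 2443806 0) (P.cons (P.lf 508242 0 0) (P.lf 42351 0 0))))) (P.cons (P.cons (P.lf 0 9293253 0) (P.cons (P.lf 8657523 0 0) (P.cons (P.lf 888543 0 0) (P.cons (P.lf 0 184791 0) (P.lf 0 15399 0))))) (P.cons (P.cons (P.lf 739011 0 0) (P.cons (P.lf 0 688458 0) (P.cons (P.lf 0 70656 0) (P.cons (P.lf 14694 0 0) P.nil)))) (P.cons (P.cons (P.lf 25401 0 0) (P.cons (P.lf 0 23664 0) (P.cons (P.lf 0 2427 0) P.nil))) (P.cons (P.cons (P.lf 0 948 0) (P.cons (P.lf 882 0 0) P.nil)) (P.cons (P.cons (P.lf 0 24 0) P.nil) P.nil)))))) 2433)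
 EL.nil)))
noncomputable def S234_241_660_808_26 : EL := (EL.cons 4 (TM.mk (P.cons (P.cons (P.lf 0 24011751 0) (P.cons (P.lf 0 6698400 0) (P.cons (P.lf 2592966 0 0) (P.cons (P.lf 575745 0 0) (P.cons (P.lf 0 26625 0) (P.cons (P.lf 0 12207 0) P.nil)))))) (P.cons (P.cons (P.lf 7481163 0 0) (P.cons (P.lf 2561109 0 0) (P.cons (P.lf 0 947619 0) (P.cons (P.lf 0 257901 0) (P.cons (P.lf 14124 0 0) P.nil))))) (P.cons (P.cons (P.lf 0 109842 0) (P.cons (P.lf 0 188205 0) (P.cons (P.lf 56466 0 0) (P.cons (P.lf 30309 0 0) P.nil)))) (P.cons (P.cons (P.lf 0 97377 0) (P.cons (P.lf 0 21000 0) (P.cons (P.lf 9447 0 0) P.nil))) (P.cons (P.cons (P.lf 0 255 0) (P.cons (P.lf 1536 0 0) P.nil)) (P.cons (P.cons (P.lf 489 0 0) P.nil) P.nil)))))) 22158)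
 (EL.cons 8 (TM.mk (P.cons (P.cons (P.lf 2328834 0 0) (P.cons (P.lf 649659 0 0) (P.cons (P.lf 0 251484 0) (P.cons (P.lf 0 55839 0) (P.cons (P.lf 2580 0 0) (P.cons (P.lf 1182 0 0) P.nil)))))) (P.cons (P.cons (P.lf 0 1171956 0) (P.cons (P.lf 0 372918 0) (P.cons (P.lf 140109 0 0) (P.cons (P.lf 35715 0 0) (P.cons (P.lf 0 1863 0) P.nil))))) (P.cons (P.cons (P.lf 151386 0 0) (P.cons (P.lf 66327 0 0) (P.cons (P.lf 0 23271 0) (P.cons (P.lf 0 7773 0) P.nil)))) (P.cons (P.cons (P.lf 6774 0 0) (P.cons (P.lf 0 1668 0) (P.cons (P.lf 210 0 0) P.nil))) (P.cons (P.cons (P.lf 0 1743 0) (P.cons (P.lf 0 513 0) P.nil)) (P.cons (P.cons (P.lf 0 45 0) P.nil) P.nil)))))) 4386)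
 (EL.cons 11 (TM.mk (P.cons (P.cons (P.lf 0 10369206 0) (P.cons (P.lf 7336740 0 0) (P.cons (P.lf 4157394 0 0) (P.cons (P.lf 0 805995 0) (P.cons (P.lf 0 262848 0) (P.cons (P.lf 5427 0 0) P.nil)))))) (P.cons (P.cons (P.lf 3143235 0 0) (P.cons (P.lf 0 2117976 0) (P.cons (P.lf 0 1404723 0) (P.cons (P.lf 271695 0 0) (P.cons (P.lf 90888 0 0) P.nil))))) (P.cons (P.cons (P.lf 0 71544 0) (P.cons (P.lf 15003 0 0) (P.cons (P.lf 77226 0 0) (P.cons (P.lf 0 14757 0) P.nil)))) (P.cons (P.cons (P.lf 0 27375 0) (P.cons (P.lf 21153 0 0) (P.cons (P.lf 8544 0 0) P.nil))) (P.cons (P.cons (P.lf 0 648 0) (P.cons (P.lf 723 0 0) P.nil)) (P.cons (P.cons (P.lf 63 0 0) P.nil) P.nil)))))) 31620)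
 EL.nil)))
noncomputable def S234_241_660_808_27 : EL := (EL.cons 13 (TM.mk (P.lf 0 4294967296 0) 0)
 EL.nil)
noncomputable def S234_241_660_808_28 : EL := (EL.cons 13 (TM.mk (P.cons (P.cons (P.lf 1742406530 0 0) (P.cons (P.lf 390371728 0 0) (P.cons (P.lf 0 168332692 0) (P.lf 0 18703632 0)))) (P.cons (P.cons (P.lf 105342467 0 0) (P.cons (P.lf 5785592 0 0) (P.cons (P.lf 0 2494808 0) (P.lf 0 277196 0)))) (P.cons (P.cons (P.lf 0 54588 0) (P.cons (P.lf 0 504500 0) (P.cons (P.lf 217544 0 0) (P.lf 24168 0 0)))) (P.cons (P.cons (P.lf 0 197068 0) (P.cons (P.lf 0 7868 0) (P.cons (P.lf 3392 0 0) P.nil))) (P.cons (P.cons (P.lf 0 1115 0) (P.cons (P.lf 316 0 0) P.nil)) (P.cons (P.cons (P.lf 115 0 0) P.nil) P.nil)))))) 999)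
 EL.nil)
noncomputable def S234_241_660_808_29 : EL := (EL.cons 13 (TM.mk (P.cons (P.cons (P.lf 0 706869297 0) (P.cons (P.lf 0 316736403 0) (P.cons (P.lf 101099227 0 0) (P.cons (P.lf 45775274 0 0) (P.cons (P.lf 0 3197499 0) (P.cons (P.lf 0 1466103 0) P.nil)))))) (P.cons (P.cons (P.lf 0 85471851 0) (P.cons (P.lf 0 23843522 0) (P.cons (P.lf 9229881 0 0) (P.cons (P.lf 2049413 0 0) (P.cons (P.lf 0 94779 0) P.nil))))) (P.cons (P.cons (P.lf 0 2539438 0) (P.cons (P.lf 135453 0 0) (P.cons (P.lf 25507 0 0) (P.cons (P.lf 0 78856 0) P.nil)))) (P.cons (P.cons (P.lf 162573 0 0) (P.cons (P.lf 67101 0 0) (P.cons (P.lf 0 26144 0) P.nil))) (P.cons (P.cons (P.lf 10570 0 0) (P.cons (P.lf 850 0 0) P.nil)) (P.cons (P.cons (P.lf 0 43 0) P.nil) P.nil)))))) 167897)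
 EL.nil)
noncomputable def S234_241_660_808_30 : EL := (EL.cons 13 (TM.mk (P.cons (P.lf 616731032 0 0) (P.cons (P.lf 0 115165388 0) (P.cons (P.lf 0 425780 0) (P.cons (P.lf 25688 0 0) (P.cons (P.lf 160 0 0) (P.cons (P.lf 0 4 0) P.nil)))))) 32)
 EL.nil)
noncomputable def S234_241_660_808_31 : EL := (EL.cons 13 (TM.mk (P.cons (P.cons (P.lf 0 250198919 0) (P.cons (P.lf 0 56054992 0) (P.cons (P.lf 24171544 0 0) (P.lf 2685727 0 0)))) (P.cons (P.cons (P.lf 31594409 0 0) (P.cons (P.lf 9636664 0 0) (P.cons (P.lf 0 4155438 0) (P.lf 0 461716 0)))) (P.cons (P.cons (P.lf 3005227 0 0) (P.cons (P.lf 266277 0 0) (P.cons (P.lf 0 114821 0) (P.lf 0 12757 0)))) (P.cons (P.cons (P.lf 26855 0 0) (P.cons (P.lf 0 14159 0) (P.cons (P.lf 6105 0 0) P.nil))) (P.cons (P.cons (P.lf 0 5824 0) (P.cons (P.lf 0 355 0) P.nil)) (P.cons (P.cons (P.lf 0 67 0) P.nil) P.nil)))))) 1152)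
 EL.nil)
noncomputable def S234_241_660_808_32 : EL := (EL.cons 13 (TM.mk (P.cons (P.cons (P.lf 101502107 0 0) (P.cons (P.lf 45481410 0 0) (P.cons (P.lf 0 14517230 0) (P.cons (P.lf 0 6573049 0) (P.cons (P.lf 459141 0 0) (P.cons (P.lf 210523 0 0) P.nil)))))) (P.cons (P.cons (P.lf 0 6680780 0) (P.cons (P.lf 0 5069195 0) (P.cons (P.lf 1385523 0 0) (P.cons (P.lf 933136 0 0) (P.cons (P.lf 0 72128 0) P.nil))))) (P.cons (P.cons (P.lf 0 1997272 0) (P.cons (P.lf 0 690190 0) (P.cons (P.lf 253850 0 0) (P.cons (P.lf 70814 0 0) P.nil)))) (P.cons (P.cons (P.lf 0 95682 0) (P.cons (P.lf 0 6472 0) (P.cons (P.lf 4748 0 0) P.nil))) (P.cons (P.cons (P.lf 3127 0 0) (P.cons (P.lf 1845 0 0) P.nil)) (P.cons (P.cons (P.lf 323 0 0) P.nil) P.nil)))))) 74429)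
 EL.nil)
noncomputable def S234_241_660_808_33 : EL := (EL.cons 14 (TM.mk (P.lf 8589934592 0 0) 0)
 EL.nil)
noncomputable def S234_241_660_808_34 : EL := (EL.cons 14 (TM.mk (P.cons (P.cons (P.lf 0 3484813060 0) (P.cons (P.lf 0 780743456 0) (P.cons (P.lf 336665384 0 0) (P.lf 37407264 0 0)))) (P.cons (P.cons (P.lf 0 210684934 0) (P.cons (P.lf 0 11571184 0) (P.cons (P.lf 4989616 0 0) (P.lf 554392 0 0)))) (P.cons (P.cons (P.lf 109176 0 0) (P.cons (P.lf 1009000 0 0) (P.cons (P.lf 0 435088 0) (P.lf 0 48336 0)))) (P.cons (P.cons (P.lf 394136 0 0) (P.cons (P.lf 15736 0 0) (P.cons (P.lf 0 6784 0) P.nil))) (P.cons (P.cons (P.lf 2230 0 0) (P.cons (P.lf 0 632 0) P.nil)) (P.cons (P.cons (P.lf 0 230 0) P.nil) P.nil)))))) 1998)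
 EL.nil)
noncomputable def S234_241_660_808_35 : EL := (EL.cons 14 (TM.mk (P.cons (P.cons (P.lf 1413738594 0 0) (P.cons (P.lf 633472806 0 0) (P.cons (P.lf 0 202198454 0) (P.cons (P.lf 0 91550548 0) (P.cons (P.lf 6394998 0 0) (P.cons (P.lf 2932206 0 0) P.nil)))))) (P.cons (P.cons (P.lf 170943702 0 0) (P.cons (P.lf 47687044 0 0) (P.cons (P.lf 0 18459762 0) (P.cons (P.lf 0 4098826 0) (P.cons (P.lf 189558 0 0) P.nil))))) (P.cons (P.cons (P.lf 5078876 0 0) (P.cons (P.lf 0 270906 0) (P.cons (P.lf 0 51014 0) (P.cons (P.lf 157712 0 0) P.nil)))) (P.cons (P.cons (P.lf 0 325146 0) (P.cons (P.lf 0 134202 0) (P.cons (P.lf 52288 0 0) P.nil))) (P.cons (P.cons (P.lf 0 21140 0) (P.cons (P.lf 0 1700 0) P.nil)) (P.cons (P.cons (P.lf 86 0 0) P.nil) P.nil)))))) 335794)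
 EL.nil)
noncomputable def S234_241_660_808_36 : EL := (EL.cons 14 (TM.mk (P.cons (P.lf 0 1233462064 0) (P.cons (P.lf 230330776 0 0) (P.cons (P.lf 851560 0 0) (P.cons (P.lf 0 51376 0) (P.cons (P.lf 0 320 0) (P.cons (P.lf 8 0 0) P.nil)))))) 64)
 EL.nil)
noncomputable def S234_241_660_808_37 : EL := (EL.cons 14 (TM.mk (P.cons (P.cons (P.lf 500397838 0 0) (P.cons (P.lf 112109984 0 0) (P.cons (P.lf 0 48343088 0) (P.lf 0 5371454 0)))) (P.cons (P.cons (P.lf 0 63188818 0) (P.cons (P.lf 0 19273328 0) (P.cons (P.lf 8310876 0 0) (P.lf 923432 0 0)))) (P.cons (P.cons (P.lf 0 6010454 0) (P.cons (P.lf 0 532554 0) (P.cons (P.lf 229642 0 0) (P.lf 25514 0 0)))) (P.cons (P.cons (P.lf 0 53710 0) (P.cons (P.lf 28318 0 0) (P.cons (P.lf 0 12210 0) P.nil))) (P.cons (P.cons (P.lf 11648 0 0) (P.cons (P.lf 710 0 0) P.nil)) (P.cons (P.cons (P.lf 134 0 0) P.nil) P.nil)))))) 2304)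
 EL.nil)
noncomputable def S234_241_660_808_38 : EL := (EL.cons 14 (TM.mk (P.cons (P.cons (P.lf 0 203004214 0) (P.cons (P.lf 0 90962820 0) (P.cons (P.lf 29034460 0 0) (P.cons (P.lf 13146098 0 0) (P.cons (P.lf 0 918282 0) (P.cons (P.lf 0 421046 0) P.nil)))))) (P.cons (P.cons (P.lf 13361560 0 0) (P.cons (P.lf 10138390 0 0) (P.cons (P.lf 0 2771046 0) (P.cons (P.lf 0 1866272 0) (P.cons (P.lf 144256 0 0) P.nil))))) (P.cons (P.cons (P.lf 3994544 0 0) (P.cons (P.lf 1380380 0 0) (P.cons (P.lf 0 507700 0) (P.cons (P.lf 0 141628 0) P.nil)))) (P.cons (P.cons (P.lf 191364 0 0) (P.cons (P.lf 12944 0 0) (P.cons (P.lf 0 9496 0) P.nil))) (P.cons (P.cons (P.lf 0 6254 0) (P.cons (P.lf 0 3690 0) P.nil)) (P.cons (P.cons (P.lf 0 646 0) P.nil) P.nil)))))) 148858)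
 EL.nil)
noncomputable def S234_241_660_808_39 : EL := (EL.cons 14 (TM.mk (P.cons (P.lf 177117606 0 0) (P.cons (P.lf 0 66148180 0) (P.cons (P.lf 5931538 0 0) (P.cons (P.lf 60422 0 0) (P.cons (P.lf 0 2578 0) (P.cons (P.lf 0 28 0) P.nil)))))) 36)
 EL.nil)
noncomputable def S234_241_660_808_40 : EL := (EL.cons 14 (TM.mk (P.cons (P.cons (P.lf 0 71854068 0) (P.cons (P.lf 0 16098306 0) (P.cons (P.lf 6941770 0 0) (P.lf 771306 0 0)))) (P.cons (P.cons (P.lf 22491210 0 0) (P.cons (P.lf 5773652 0 0) (P.cons (P.lf 0 2489664 0) (P.lf 0 276628 0)))) (P.cons (P.cons (P.lf 0 781674 0) (P.cons (P.lf 0 429208 0) (P.cons (P.lf 185080 0 0) (P.lf 20564 0 0)))) (P.cons (P.cons (P.lf 0 162708 0) (P.cons (P.lf 0 20926 0) (P.cons (P.lf 9024 0 0) P.nil))) (P.cons (P.cons (P.lf 0 3348 0) (P.cons (P.lf 714 0 0) P.nil)) (P.cons (P.cons (P.lf 324 0 0) P.nil) P.nil)))))) 1718)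
 EL.nil)
noncomputable def S234_241_660_808_41 : EL := (EL.cons 14 (TM.mk (P.cons (P.cons (P.lf 29150162 0 0) (P.cons (P.lf 13061704 0 0) (P.cons (P.lf 0 4169170 0) (P.cons (P.lf 0 1887698 0) (P.cons (P.lf 131858 0 0) (P.cons (P.lf 60458 0 0) P.nil)))))) (P.cons (P.cons (P.lf 0 7361998 0) (P.cons (P.lf 0 3894890 0) (P.cons (P.lf 1176436 0 0) (P.cons (P.lf 620484 0 0) (P.cons (P.lf 0 45336 0) P.nil))))) (P.cons (P.cons (P.lf 0 235438 0) (P.cons (P.lf 64618 0 0) (P.cons (P.lf 1478 0 0) (P.cons (P.lf 0 28402 0) P.nil)))) (P.cons (P.cons (P.lf 82168 0 0) (P.cons (P.lf 36702 0 0) (P.cons (P.lf 0 12698 0) P.nil))) (P.cons (P.cons (P.lf 6352 0 0) (P.cons (P.lf 956 0 0) P.nil)) (P.cons (P.cons (P.lf 0 80 0) P.nil) P.nil)))))) 46154)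
 EL.nil)
noncomputable def S234_241_660_808_42 : EL := (EL.cons 14 (TM.mk (P.cons (P.lf 0 25433004 0) (P.cons (P.lf 14247710 0 0) (P.cons (P.lf 0 2607872 0) (P.cons (P.lf 142754 0 0) (P.cons (P.lf 2966 0 0) (P.cons (P.lf 0 90 0) P.nil)))))) 22)
 EL.nil)
noncomputable def S234_241_660_808_43 : EL := (EL.cons 14 (TM.mk (P.cons (P.cons (P.lf 10317804 0 0) (P.cons (P.lf 2311618 0 0) (P.cons (P.lf 0 996794 0) (P.lf 0 110754 0)))) (P.cons (P.cons (P.lf 0 5156296 0) (P.cons (P.lf 0 1260720 0) (P.cons (P.lf 543636 0 0) (P.lf 60404 0 0)))) (P.cons (P.cons (P.lf 708200 0 0) (P.cons (P.lf 214850 0 0) (P.cons (P.lf 0 92646 0) (P.lf 0 10294 0)))) (P.cons (P.cons (P.lf 5064 0 0) (P.cons (P.lf 0 7834 0) (P.cons (P.lf 3378 0 0) P.nil))) (P.cons (P.cons (P.lf 0 4090 0) (P.cons (P.lf 0 740 0) P.nil)) (P.cons (P.cons (P.lf 0 148 0) P.nil) P.nil)))))) 1370)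
 EL.nil)
noncomputable def S234_241_660_808_44 : EL := (EL.cons 14 (TM.mk (P.cons (P.cons (P.lf 0 4185784 0) (P.cons (P.lf 0 1875580 0) (P.cons (P.lf 598666 0 0) (P.cons (P.lf 271062 0 0) (P.cons (P.lf 0 18934 0) (P.cons (P.lf 0 8680 0) P.nil)))))) (P.cons (P.cons (P.lf 1838770 0 0) (P.cons (P.lf 909518 0 0) (P.cons (P.lf 0 280720 0) (P.cons (P.lf 0 139714 0) (P.cons (P.lf 10044 0 0) P.nil))))) (P.cons (P.cons (P.lf 0 160706 0) (P.cons (P.lf 0 112420 0) (P.cons (P.lf 30918 0 0) (P.cons (P.lf 20528 0 0) P.nil)))) (P.cons (P.cons (P.lf 0 19016 0) (P.cons (P.lf 0 4002 0) (P.cons (P.lf 2004 0 0) P.nil))) (P.cons (P.cons (P.lf 1310 0 0) (P.cons (P.lf 874 0 0) P.nil)) (P.cons (P.cons (P.lf 192 0 0) P.nil) P.nil)))))) 13714)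
 EL.nil)
noncomputable def S234_241_660_808_45 : EL := (EL.cons 14 (TM.mk (P.cons (P.cons (P.lf 0 573533436 0) (P.cons (P.lf 0 385486224 0) (P.cons (P.lf 79861016 0 0) (P.cons (P.lf 86502884 0 0) (P.cons (P.lf 560584 0 0) (P.cons (P.lf 0 6239468 0) P.nil)))))) (P.cons (P.cons (P.lf 0 104024106 0) (P.cons (P.lf 0 52324660 0) (P.cons (P.lf 14781538 0 0) (P.cons (P.lf 8931108 0 0) (P.cons (P.lf 0 330274 0) P.nil))))) (P.cons (P.cons (P.lf 0 6235186 0) (P.cons (P.lf 0 1577494 0) (P.cons (P.lf 732426 0 0) (P.cons (P.lf 51330 0 0) P.nil)))) (P.cons (P.cons (P.lf 74376 0 0) (P.cons (P.lf 136140 0 0) (P.cons (P.lf 0 29716 0) P.nil))) (P.cons (P.cons (P.lf 24826 0 0) (P.cons (P.lf 9494 0 0) P.nil)) (P.cons (P.cons (P.lf 718 0 0) P.nil) P.nil)))))) 1832634)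
 EL.nil)
noncomputable def S234_241_660_808_46 : EL := (EL.cons 15 (TM.mk (P.lf 4294967296 0 0) 0)
 EL.nil)
noncomputable def S234_241_660_808_47 : EL := (EL.cons 15 (TM.mk (P.cons (P.cons (P.lf 0 1742406530 0) (P.cons (P.lf 0 390371728 0) (P.cons (P.lf 168332692 0 0) (P.lf 18703632 0 0)))) (P.cons (P.cons (P.lf 0 105342467 0) (P.cons (P.lf 0 5785592 0) (P.cons (P.lf 2494808 0 0) (P.lf 277196 0 0)))) (P.cons (P.cons (P.lf 54588 0 0) (P.cons (P.lf 504500 0 0) (P.cons (P.lf 0 217544 0) (P.lf 0 24168 0)))) (P.cons (P.cons (P.lf 197068 0 0) (P.cons (P.lf 7868 0 0) (P.cons (P.lf 0 3392 0) P.nil))) (P.cons (P.cons (P.lf 1115 0 0) (P.cons (P.lf 0 316 0) P.nil)) (P.cons (P.cons (P.lf 0 115 0) P.nil) P.nil)))))) 999)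
 EL.nil)
noncomputable def S234_241_660_808_48 : EL := (EL.cons 15 (TM.mk (P.cons (P.cons (P.lf 706869297 0 0) (P.cons (P.lf 316736403 0 0) (P.cons (P.lf 0 101099227 0) (P.cons (P.lf 0 45775274 0) (P.cons (P.lf 3197499 0 0) (P.cons (P.lf 1466103 0 0) P.nil)))))) (P.cons (P.cons (P.lf 85471851 0 0) (P.cons (P.lf 23843522 0 0) (P.cons (P.lf 0 9229881 0) (P.cons (P.lf 0 2049413 0) (P.cons (P.lf 94779 0 0) P.nil))))) (P.cons (P.cons (P.lf 2539438 0 0) (P.cons (P.lf 0 135453 0) (P.cons (P.lf 0 25507 0) (P.cons (P.lf 78856 0 0) P.nil)))) (P.cons (P.cons (P.lf 0 162573 0) (P.cons (P.lf 0 67101 0) (P.cons (P.lf 26144 0 0) P.nil))) (P.cons (P.cons (P.lf 0 10570 0) (P.cons (P.lf 0 850 0) P.nil)) (P.cons (P.cons (P.lf 43 0 0) P.nil) P.nil)))))) 167897)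
 EL.nil)
noncomputable def S234_241_660_808 : SL := (SL.cons S234_241_660_808_0 (SL.cons S234_241_660_808_1 (SL.cons S234_241_660_808_2 (SL.cons S234_241_660_808_3 (SL.cons S234_241_660_808_4 (SL.cons S234_241_660_808_5 (SL.cons S234_241_660_808_6 (SL.cons S234_241_660_808_7 (SL.cons S234_241_660_808_8 (SL.cons S234_241_660_808_9 (SL.cons S234_241_660_808_10 (SL.cons S234_241_660_808_11 (SL.cons S234_241_660_808_12 (SL.cons S234_241_660_808_13 (SL.cons S234_241_660_808_14 (SL.cons S234_241_660_808_15 (SL.cons S234_241_660_808_16 (SL.cons S234_241_660_808_17 (SL.cons S234_241_660_808_18 (SL.cons S234_241_660_808_19 (SL.cons S234_241_660_808_20 (SL.cons S234_241_660_808_21 (SL.cons S234_241_660_808_22 (SL.cons S234_241_660_808_23 (SL.cons S234_241_660_808_24 (SL.cons S234_241_660_808_25 (SL.cons S234_241_660_808_26 (SL.cons S234_241_660_808_27 (SL.cons S234_241_660_808_28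 (SL.cons S234_241_660_808_29 (SL.cons S234_241_660_808_30 (SL.cons S234_241_660_808_31 (SL.cons S234_241_660_808_32 (SL.cons S234_241_660_808_33 (SL.cons S234_241_660_808_34 (SL.cons S234_241_660_808_35 (SL.cons S234_241_660_808_36 (SL.cons S234_241_660_808_37 (SL.cons S234_241_660_808_38 (SL.cons S234_241_660_808_39 (SL.cons S234_241_660_808_40 (SL.cons S234_241_660_808_41 (SL.cons S234_241_660_808_42 (SL.cons S234_241_660_808_43 (SL.cons S234_241_660_808_44 (SL.cons S234_241_660_808_45 (SL.cons S234_241_660_808_46 (SL.cons S234_241_660_808_47 (SL.cons S234_241_660_808_48 SL.nil)))))))))))))))))))))))))))))))))))))))))))))))))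
theorem S227_256_586_660_ok : band (seq (shp 5 227 256 586 660) S227_256_586_660) (sok S227_256_586_660) = true := by decide +kernel

theorem S227_256_660_734_ok : band (seq (shp 5 227 256 660 734) S227_256_660_734) (sok S227_256_660_734) = true := by decide +kernel

theorem S227_256_660_808_ok : band (seq (shp 5 227 256 660 808) S227_256_660_808) (sok S227_256_660_808) = true := by decide +kernel

theorem S227_256_734_808_ok : band (seq (shp 5 227 256 734 808) S227_256_734_808) (sok S227_256_734_808) = true := by decide +kernel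

theorem S230_234_660_808_ok : band (seq (shp 5 230 234 660 808) S230_234_660_808) (sok S230_234_660_808) = true := by decide +kernel

theorem S234_241_660_808_ok : band (seq (shp 5 234 241 660 808) S234_241_660_808) (sok S234_241_660_808) = true := by decide +kernel

end Vale.Agent.P098.Ck
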