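import Vale.Agent.P098.CkDefs

namespace Vale.Agent.P098.Ck

noncomputable def S82_140_364_512_0 : EL := (EL.cons 0 (TM.mk (P.cons (P.lf 3519891639 0 0) (P.cons (P.lf 844087942 0 0) (P.cons (P.lf 173579589 0 0) (P.cons (P.lf 0 3586566 0) (P.cons (P.lf 0 4211423 0) (P.cons (P.lf 0 490783 0) P.nil)))))) 104301)
 (EL.cons 1 (TM.mk (P.cons (P.lf 0 1391915122 0) (P.cons (P.lf 0 413105733 0) (P.cons (P.lf 67350723 0 0) (P.cons (P.lf 19192974 0 0) (P.cons (P.lf 1069213 0 0) (P.cons (P.lf 0 215523 0) P.nil)))))) 64748)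
 (EL.cons 5 (TM.mk (P.cons (P.lf 6049927380 0 0) (P.cons (P.lf 0 300120158 0) (P.cons (P.lf 0 61717188 0) (P.cons (P.lf 1275220 0 0) (P.cons (P.lf 1497396 0 0) (P.cons (P.lf 174500 0 0) P.nil)))))) 24617)
 (EL.cons 9 (TM.mk (P.lf 6442450944 0 0) 2)
 EL.nil))))
noncomputable def S82_140_364_512_1 : EL := (EL.cons 0 (TM.mk (P.cons (P.cons (P.lf 0 4154616601 0) (P.cons (P.lf 179246748 0 0) (P.cons (P.lf 11984013 0 0) (P.lf 0 3994659 0)))) (P.cons (P.cons (P.lf 0 984250145 0) (P.cons (P.lf 151959358 0 0) (P.cons (P.lf 10159642 0 0) (P.lf 0 3386538 0)))) (P.cons (P.cons (P.lf 507172673 0 0) (P.cons (P.lf 9052519 0 0) (P.cons (P.lf 605214 0 0) (P.lf 0 201734 0)))) (P.cons (P.cons (P.lf 270090685 0 0) (P.cons (P.lf 0 26536331 0) (P.cons (P.lf 0 1774149 0) P.nil))) (P.cons (P.cons (P.lf 8232182 0 0) (P.cons (P.lf 0 8915209 0) P.nil)) (P.cons (P.cons (P.lf 0 13642363 0) P.nil)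 P.nil)))))) 12686469)
 (EL.cons 1 (TM.mk (P.cons (P.cons (P.lf 1911546681 0 0) (P.cons (P.lf 0 92977736 0) (P.cons (P.lf 0 6216278 0) (P.lf 2072097 0 0)))) (P.cons (P.cons (P.lf 0 476704303 0) (P.cons (P.lf 4461100 0 0) (P.cons (P.lf 298257 0 0) (P.lf 0 99411 0)))) (P.cons (P.cons (P.lf 0 569527744 0) (P.cons (P.lf 53242689 0 0) (P.cons (P.lf 3559672 0 0) (P.lf 0 1186556 0)))) (P.cons (P.cons (P.lf 10248446 0 0) (P.cons (P.lf 17123804 0 0) (P.cons (P.lf 1144849 0 0) P.nil))) (P.cons (P.cons (P.lf 42764824 0 0) (P.cons (P.lf 0 1139662 0) P.nil)) (P.cons (P.cons (P.lf 5671514 0 0) P.nil) P.nil)))))) 5641618)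
 (EL.cons 5 (TM.mk (P.cons (P.cons (P.lf 0 1210807143 0) (P.cons (P.lf 0 179679070 0) (P.cons (P.lf 0 12012926 0) (P.lf 4004304 0 0)))) (P.cons (P.cons (P.lf 1966654307 0 0) (P.cons (P.lf 0 187008000 0) (P.cons (P.lf 0 12502918 0) (P.lf 4167636 0 0)))) (P.cons (P.cons (P.lf 83130787 0 0) (P.cons (P.lf 0 55982942 0) (P.cons (P.lf 0 3742888 0) (P.lf 1247626 0 0)))) (P.cons (P.cons (P.lf 0 138310522 0) (P.cons (P.lf 2785104 0 0) (P.cons (P.lf 186198 0 0) P.nil))) (P.cons (P.cons (P.lf 0 16984460 0) (P.cons (P.lf 4043986 0 0) P.nil)) (P.cons (P.cons (P.lf 4073518 0 0) P.nil) P.nil)))))) 4031046)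
 (EL.cons 9 (TM.mk (P.cons (P.cons (P.lf 0 2371768371 0) (P.cons (P.lf 0 102306078 0) (P.cons (P.lf 0 6839946 0) (P.lf 2279976 0 0)))) (P.cons (P.cons (P.lf 1426498851 0 0) (P.cons (P.lf 0 117333528 0) (P.cons (P.lf 0 7844646 0) (P.lf 2614878 0 0)))) (P.cons (P.cons (P.lf 232463683 0 0) (P.cons (P.lf 0 46556706 0) (P.cons (P.lf 0 3112668 0) (P.lf 1037556 0 0)))) (P.cons (P.cons (P.lf 0 37304364 0) (P.cons (P.lf 0 5867676 0) (P.cons (P.lf 0 392298 0) P.nil))) (P.cons (P.cons (P.lf 0 12403638 0) (P.cons (P.lf 771294 0 0) P.nil)) (P.cons (P.cons (P.lf 0 685668 0) P.nil) P.nil)))))) 1047532)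
 (EL.cons 2 (TM.mk (P.cons (P.cons (P.lf 413976375 0 0) (P.cons (P.lf 64093938 0 0) (P.cons (P.lf 0 30878437 0) (P.cons (P.lf 0 1168529 0) (P.lf 292128 0 0))))) (P.cons (P.cons (P.lf 281125220 0 0) (P.cons (P.lf 43525243 0 0) (P.cons (P.lf 0 20969085 0) (P.cons (P.lf 0 793530 0) (P.lf 198379 0 0))))) (P.cons (P.cons (P.lf 29232998 0 0) (P.cons (P.lf 4526001 0 0) (P.cons (P.lf 0 2180483 0) (P.cons (P.lf 0 82513 0) P.nil)))) (P.cons (P.cons (P.lf 0 14234675 0) (P.cons (P.lf 0 2203883 0) (P.cons (P.lf 1061760 0 0) P.nil))) (P.cons (P.cons (P.lf 0 3274728 0) (P.cons (P.lf 0 507009 0) P.nil)) (P.cons (P.cons (P.lf 0 80147 0) P.nil) P.nil)))))) 641085)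
 (EL.cons 6 (TM.mk (P.cons (P.cons (P.lf 116742378 0 0) (P.cons (P.lf 18074649 0 0) (P.cons (P.lf 0 8707797 0) (P.cons (P.lf 0 329526 0) (P.lf 82380 0 0))))) (P.cons (P.cons (P.lf 133890336 0 0) (P.cons (P.lf 20729586 0 0) (P.cons (P.lf 0 9986859 0) (P.cons (P.lf 0 377931 0) (P.lf 94482 0 0))))) (P.cons (P.cons (P.lf 53126271 0 0) (P.cons (P.lf 8225280 0 0) (P.cons (P.lf 0 3962679 0) (P.cons (P.lf 0 149958 0) P.nil)))) (P.cons (P.cons (P.lf 6695658 0 0) (P.cons (P.lf 1036656 0 0) (P.cons (P.lf 0 499428 0) P.nil))) (P.cons (P.cons (P.lf 0 880134 0) (P.cons (P.lf 0 136266 0) P.nil)) (P.cons (P.cons (P.lf 0 338436 0) P.nil) P.nil)))))) 291246)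
 EL.nil))))))
noncomputable def S82_140_364_512_2 : EL := (EL.cons 0 (TM.mk (P.cons (P.cons (P.lf 2581960018 0 0) (P.cons (P.lf 0 41183471 0) (P.cons (P.lf 0 9333923 0) (P.cons (P.lf 37891 0 0) (P.cons (P.lf 263879 0 0) (P.cons (P.lf 19606 0 0) P.nil)))))) (P.cons (P.cons (P.lf 0 655695701 0) (P.cons (P.lf 117766435 0 0) (P.cons (P.lf 0 5730591 0) (P.cons (P.lf 0 4443602 0) (P.cons (P.lf 545541 0 0) P.nil))))) (P.cons (P.cons (P.lf 0 1074088764 0) (P.cons (P.lf 159636473 0 0) (P.cons (P.lf 0 247814 0) (P.cons (P.lf 0 5017897 0) P.nil)))) (P.cons (P.cons (P.lf 0 58608626 0) (P.cons (P.lf 42281197 0 0) (P.cons (P.lf 0 784489 0) P.nil))) (P.cons (P.cons (P.lf 155997676 0 0) (P.cons (P.lf 0 17170784 0) P.nil)) (P.cons (P.cons (P.lf 31994382 0 0) P.nil) P.nil)))))) 64083073)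
 (EL.cons 1 (TM.mk (P.cons (P.cons (P.lf 0 1218810745 0) (P.cons (P.lf 24022984 0 0) (P.cons (P.lf 4910101 0 0) (P.cons (P.lf 0 93586 0) (P.cons (P.lf 0 132499 0) (P.cons (P.lf 0 9852 0) P.nil)))))) (P.cons (P.cons (P.lf 1026573630 0 0) (P.cons (P.lf 0 85240430 0) (P.cons (P.lf 0 1544634 0) (P.cons (P.lf 2455156 0 0) (P.cons (P.lf 0 166596 0) P.nil))))) (P.cons (P.cons (P.lf 300968191 0 0) (P.cons (P.lf 0 39680228 0) (P.cons (P.lf 0 2159451 0) (P.cons (P.lf 950298 0 0) P.nil)))) (P.cons (P.cons (P.lf 0 270463428 0) (P.cons (P.lf 28840599 0 0) (P.cons (P.lf 144580 0 0) P.nil))) (P.cons (P.cons (P.lf 0 59839653 0) (P.cons (P.lf 17980761 0 0) P.nil)) (P.cons (P.cons (P.lf 20340042 0 0) P.nil) P.nil)))))) 29530405)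
 (EL.cons 5 (TM.mk (P.cons (P.cons (P.lf 71550189 0 0) (P.cons (P.lf 100013985 0 0) (P.cons (P.lf 10867669 0 0) (P.cons (P.lf 0 1669835 0) (P.cons (P.lf 0 167657 0) (P.cons (P.lf 0 12454 0) P.nil)))))) (P.cons (P.cons (P.lf 0 957229004 0) (P.cons (P.lf 4692051 0 0) (P.cons (P.lf 9374121 0 0) (P.cons (P.lf 1106940 0 0) (P.cons (P.lf 0 363333 0) P.nil))))) (P.cons (P.cons (P.lf 545887381 0 0) (P.cons (P.lf 0 85165518 0) (P.cons (P.lf 2286610 0 0) (P.cons (P.lf 2965106 0 0) P.nil)))) (P.cons (P.cons (P.lf 168638904 0 0) (P.cons (P.lf 0 41757005 0) (P.cons (P.lf 625390 0 0) P.nil))) (P.cons (P.cons (P.lf 0 54331655 0) (P.cons (P.lf 695282 0 0) P.nil)) (P.cons (P.cons (P.lf 0 20079926 0) P.nil) P.nil)))))) 24399027)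
 (EL.cons 9 (TM.mk (P.cons (P.cons (P.lf 873159183 0 0) (P.cons (P.lf 75327331 0 0) (P.cons (P.lf 6660829 0 0) (P.cons (P.lf 0 1461495 0) (P.cons (P.lf 0 65149 0) (P.cons (P.lf 0 4840 0) P.nil)))))) (P.cons (P.cons (P.lf 0 1050322270 0) (P.cons (P.lf 41086365 0 0) (P.cons (P.lf 6473449 0 0) (P.cons (P.lf 0 417354 0) (P.cons (P.lf 0 149439 0) P.nil))))) (P.cons (P.cons (P.lf 144696319 0 0) (P.cons (P.lf 0 25064022 0) (P.cons (P.lf 1939858 0 0) (P.cons (P.lf 1042030 0 0) P.nil)))) (P.cons (P.cons (P.lf 130412008 0 0) (P.cons (P.lf 0 23579733 0) (P.cons (P.lf 305706 0 0) P.nil))) (P.cons (P.cons (P.lf 1000738 0 0) (P.cons (P.lf 0 4773427 0) P.nil)) (P.cons (P.cons (P.lf 0 7680132 0) P.nil) P.nil)))))) 8038423)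
 (EL.cons 2 (TM.mk (P.cons (P.cons (P.lf 0 304808242 0) (P.cons (P.lf 0 60339853 0) (P.cons (P.lf 19820941 0 0) (P.cons (P.lf 1997994 0 0) (P.cons (P.lf 0 67044 0) (P.cons (P.lf 0 28648 0) P.nil)))))) (P.cons (P.cons (P.lf 0 23663998 0) (P.cons (P.lf 0 27671450 0) (P.cons (P.lf 0 3556991 0) (P.cons (P.lf 2144041 0 0) (P.cons (P.lf 253625 0 0) P.nil))))) (P.cons (P.cons (P.lf 132845518 0 0) (P.cons (P.lf 3416118 0 0) (P.cons (P.lf 0 13711162 0) (P.cons (P.lf 1109058 0 0) P.nil)))) (P.cons (P.cons (P.lf 38920117 0 0) (P.cons (P.lf 595867 0 0) (P.cons (P.lf 0 4106767 0) P.nil))) (P.cons (P.cons (P.lf 0 6632645 0) (P.cons (P.lf 0 1239862 0) P.nil)) (P.cons (P.cons (P.lf 0 3927600 0) P.nil) P.nil)))))) 6102151)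
 (EL.cons 6 (TM.mk (P.cons (P.cons (P.lf 0 85956690 0) (P.cons (P.lf 0 17015988 0) (P.cons (P.lf 5589552 0 0) (P.cons (P.lf 563436 0 0) (P.cons (P.lf 0 18906 0) (P.cons (P.lf 0 8076 0) P.nil)))))) (P.cons (P.cons (P.lf 0 46884012 0) (P.cons (P.lf 0 15763530 0) (P.cons (P.lf 1611720 0 0) (P.cons (P.lf 868200 0 0) (P.cons (P.lf 62676 0 0) P.nil))))) (P.cons (P.cons (P.lf 28600776 0 0) (P.cons (P.lf 0 3823428 0) (P.cons (P.lf 0 3962550 0) (P.cons (P.lf 633228 0 0) P.nil)))) (P.cons (P.cons (P.lf 26907042 0 0) (P.cons (P.lf 0 129678 0) (P.cons (P.lf 0 2959242 0) P.nil))) (P.cons (P.cons (P.lf 5447004 0 0) (P.cons (P.lf 0 356376 0) P.nil)) (P.cons (P.cons (P.lf 0 813018 0) P.nil) P.nil)))))) 3428664)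
 EL.nil))))))
noncomputable def S82_140_364_512_3 : EL := (EL.cons 0 (TM.mk (P.cons (P.lf 4935825225 0 0) (P.cons (P.lf 0 844087942 0) (P.cons (P.lf 0 173579589 0) (P.cons (P.lf 3586566 0 0) (P.cons (P.lf 4211423 0 0) (P.cons (P.lf 490783 0 0) P.nil)))))) 104301)
 (EL.cons 1 (TM.mk (P.cons (P.lf 1391915122 0 0) (P.cons (P.lf 413105733 0 0) (P.cons (P.lf 0 67350723 0) (P.cons (P.lf 0 19192974 0) (P.cons (P.lf 0 1069213 0) (P.cons (P.lf 215523 0 0) P.nil)))))) 64748)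
 (EL.cons 5 (TM.mk (P.cons (P.lf 392523564 0 0) (P.cons (P.lf 300120158 0 0) (P.cons (P.lf 61717188 0 0) (P.cons (P.lf 0 1275220 0) (P.cons (P.lf 0 1497396 0) (P.cons (P.lf 0 174500 0) P.nil)))))) 24610)
 EL.nil)))
noncomputable def S82_140_364_512_4 : EL := (EL.cons 0 (TM.mk (P.cons (P.cons (P.lf 0 1817108775 0) (P.cons (P.lf 0 78380869 0) (P.cons (P.lf 0 5240360 0) (P.lf 1746782 0 0)))) (P.cons (P.cons (P.lf 1403647490 0 0) (P.cons (P.lf 0 76489904 0) (P.cons (P.lf 0 5113935 0) (P.lf 1704642 0 0)))) (P.cons (P.cons (P.lf 55103283 0 0) (P.cons (P.lf 0 17539549 0) (P.cons (P.lf 0 1172649 0) (P.lf 390883 0 0)))) (P.cons (P.cons (P.lf 0 98792400 0) (P.cons (P.lf 4708752 0 0) (P.cons (P.lf 314815 0 0) P.nil))) (P.cons (P.cons (P.lf 0 11634897 0) (P.cons (P.lf 2481883 0 0) P.nil)) (P.cons (P.cons (P.lf 2986131 0 0) P.nil) P.nil)))))) 2675191)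
 (EL.cons 1 (TM.mk (P.cons (P.cons (P.lf 0 512429242 0) (P.cons (P.lf 0 22103602 0) (P.cons (P.lf 0 1477794 0) (P.lf 492596 0 0)))) (P.cons (P.cons (P.lf 156116703 0 0) (P.cons (P.lf 0 31910454 0) (P.cons (P.lf 0 2133457 0) (P.lf 711150 0 0)))) (P.cons (P.cons (P.lf 166490190 0 0) (P.cons (P.lf 0 16512930 0) (P.cons (P.lf 0 1104013 0) (P.lf 368004 0 0)))) (P.cons (P.cons (P.lf 0 1000683 0) (P.cons (P.lf 0 2721648 0) (P.cons (P.lf 0 181961 0) P.nil))) (P.cons (P.cons (P.lf 0 11358236 0) (P.cons (P.lf 643636 0 0) P.nil)) (P.cons (P.cons (P.lf 0 1562139 0) P.nil) P.nil)))))) 1238315)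
 (EL.cons 5 (TM.mk (P.cons (P.cons (P.lf 0 144506334 0) (P.cons (P.lf 0 6233270 0) (P.cons (P.lf 0 416740 0) (P.lf 138912 0 0)))) (P.cons (P.cons (P.lf 0 23575046 0) (P.cons (P.lf 0 11914764 0) (P.cons (P.lf 0 796592 0) (P.lf 265530 0 0)))) (P.cons (P.cons (P.lf 57895614 0 0) (P.cons (P.lf 0 9282616 0) (P.cons (P.lf 0 620612 0) (P.lf 206870 0 0)))) (P.cons (P.cons (P.lf 22691398 0 0) (P.cons (P.lf 0 3630114 0) (P.cons (P.lf 0 242700 0) P.nil))) (P.cons (P.cons (P.lf 2306 0 0) (P.cons (P.lf 0 625348 0) P.nil)) (P.cons (P.cons (P.lf 0 1290292 0) P.nil) P.nil)))))) 696740)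
 EL.nil)))
noncomputable def S82_140_364_512_5 : EL := (EL.cons 0 (TM.mk (P.cons (P.cons (P.lf 668962970 0 0) (P.cons (P.lf 57711348 0 0) (P.cons (P.lf 5103133 0 0) (P.cons (P.lf 0 1119710 0) (P.cons (P.lf 0 49913 0) (P.cons (P.lf 0 3707 0) P.nil)))))) (P.cons (P.cons (P.lf 0 919095906 0) (P.cons (P.lf 21608579 0 0) (P.cons (P.lf 4086873 0 0) (P.cons (P.lf 0 128265 0) (P.cons (P.lf 0 105953 0) P.nil))))) (P.cons (P.cons (P.lf 224945056 0 0) (P.cons (P.lf 0 26615246 0) (P.cons (P.lf 458592 0 0) (P.cons (P.lf 892400 0 0) P.nil)))) (P.cons (P.cons (P.lf 109740937 0 0) (P.cons (P.lf 0 15846575 0) (P.cons (P.lf 0 190652 0) P.nil))) (P.cons (P.cons (P.lf 0 20232341 0) (P.cons (P.lf 179708 0 0) P.nil)) (P.cons (P.cons (P.lf 0 10068407 0) P.nil) P.nil)))))) 10898782)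
 (EL.cons 1 (TM.mk (P.cons (P.cons (P.lf 188649238 0 0) (P.cons (P.lf 16274745 0 0) (P.cons (P.lf 1439096 0 0) (P.cons (P.lf 0 315759 0) (P.cons (P.lf 0 14075 0) (P.cons (P.lf 0 1044 0) P.nil)))))) (P.cons (P.cons (P.lf 0 170936866 0) (P.cons (P.lf 13707031 0 0) (P.cons (P.lf 1825719 0 0) (P.cons (P.lf 0 183885 0) (P.cons (P.lf 0 36463 0) P.nil))))) (P.cons (P.cons (P.lf 0 45215253 0) (P.cons (P.lf 0 3568102 0) (P.cons (P.lf 764572 0 0) (P.cons (P.lf 213650 0 0) P.nil)))) (P.cons (P.cons (P.lf 45833295 0 0) (P.cons (P.lf 0 7355589 0) (P.cons (P.lf 102918 0 0) P.nil))) (P.cons (P.cons (P.lf 10050011 0 0) (P.cons (P.lf 0 2416185 0) P.nil)) (P.cons (P.cons (P.lf 0 3186048 0) P.nil) P.nil)))))) 4903747)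
 (EL.cons 5 (TM.mk (P.cons (P.cons (P.lf 53199558 0 0) (P.cons (P.lf 4589518 0 0) (P.cons (P.lf 405828 0 0) (P.cons (P.lf 0 89044 0) (P.cons (P.lf 0 3968 0) (P.cons (P.lf 0 294 0) P.nil)))))) (P.cons (P.cons (P.lf 0 23317766 0) (P.cons (P.lf 6012402 0 0) (P.cons (P.lf 704704 0 0) (P.cons (P.lf 0 93510 0) (P.cons (P.lf 0 12138 0) P.nil))))) (P.cons (P.cons (P.lf 0 31748358 0) (P.cons (P.lf 1108524 0 0) (P.cons (P.lf 483564 0 0) (P.cons (P.lf 30044 0 0) P.nil)))) (P.cons (P.cons (P.lf 4451668 0 0) (P.cons (P.lf 0 2225572 0) (P.cons (P.lf 169688 0 0) P.nil))) (P.cons (P.cons (P.lf 7527298 0 0) (P.cons (P.lf 0 1655038 0) P.nil)) (P.cons (P.cons (P.lf 1019834 0 0) P.nil) P.nil)))))) 2170796)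
 EL.nil)))
noncomputable def S82_140_364_512_6 : EL := (EL.cons 12 (TM.mk (P.lf 8589934592 0 0) 0)
 (EL.cons 3 (TM.mk (P.cons (P.lf 0 3255703297 0) (P.cons (P.lf 278383023 0 0) (P.cons (P.lf 69148875 0 0) (P.cons (P.lf 4729800 0 0) (P.cons (P.lf 0 250177 0) (P.cons (P.lf 0 82796 0) P.nil)))))) 14718)
 (EL.cons 7 (TM.mk (P.cons (P.lf 0 918116516 0) (P.cons (P.lf 0 350992016 0) (P.cons (P.lf 0 5087185 0) (P.cons (P.lf 3436187 0 0) (P.cons (P.lf 451667 0 0) (P.cons (P.lf 12370 0 0) P.nil)))))) 9470)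
 EL.nil)))
noncomputable def S82_140_364_512_7 : EL := (EL.cons 12 (TM.mk (P.cons (P.cons (P.lf 0 3162357828 0) (P.cons (P.lf 0 136408104 0) (P.cons (P.lf 0 9119928 0) (P.lf 3039968 0 0)))) (P.cons (P.cons (P.lf 1901998468 0 0) (P.cons (P.lf 0 156444704 0) (P.cons (P.lf 0 10459528 0) (P.lf 3486504 0 0)))) (P.cons (P.cons (P.lf 309951578 0 0) (P.cons (P.lf 0 62075608 0) (P.cons (P.lf 0 4150224 0) (P.lf 1383408 0 0)))) (P.cons (P.cons (P.lf 0 49739152 0) (P.cons (P.lf 0 7823568 0) (P.cons (P.lf 0 523064 0) P.nil))) (P.cons (P.cons (P.lf 0 16538184 0) (P.cons (P.lf 1028392 0 0) P.nil)) (P.cons (P.cons (P.lf 0 914224 0) P.nil) P.nil)))))) 1396684)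
 (EL.cons 3 (TM.mk (P.cons (P.cons (P.lf 3084247078 0 0) (P.cons (P.lf 0 103401090 0) (P.cons (P.lf 0 6913154 0) (P.lf 2304378 0 0)))) (P.cons (P.cons (P.lf 296198120 0 0) (P.cons (P.lf 0 109747944 0) (P.cons (P.lf 0 7337490 0) (P.lf 2445826 0 0)))) (P.cons (P.cons (P.lf 0 115141756 0) (P.cons (P.lf 0 34718712 0) (P.cons (P.lf 0 2321206 0) (P.lf 773734 0 0)))) (P.cons (P.cons (P.lf 0 79194602 0) (P.cons (P.lf 761992 0 0) (P.cons (P.lf 50944 0 0) P.nil))) (P.cons (P.cons (P.lf 0 9843199 0) (P.cons (P.lf 2450396 0 0) P.nil)) (P.cons (P.cons (P.lf 1673479 0 0) P.nil) P.nil)))))) 4725293)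
 (EL.cons 7 (TM.mk (P.cons (P.cons (P.lf 0 2039496348 0) (P.cons (P.lf 210135575 0 0) (P.cons (P.lf 14049177 0 0) (P.lf 0 4683059 0)))) (P.cons (P.cons (P.lf 0 373453723 0) (P.cons (P.lf 138372857 0 0) (P.cons (P.lf 9251288 0 0) (P.lf 0 3083763 0)))) (P.cons (P.cons (P.lf 232524685 0 0) (P.cons (P.lf 11408645 0 0) (P.cons (P.lf 762757 0 0) (P.lf 0 254252 0)))) (P.cons (P.cons (P.lf 35646558 0 0) (P.cons (P.lf 0 7598916 0) (P.cons (P.lf 0 508043 0) P.nil))) (P.cons (P.cons (P.lf 0 6613155 0) (P.cons (P.lf 0 1266394 0) P.nil)) (P.cons (P.cons (P.lf 0 2106057 0) P.nil) P.nil)))))) 2276799)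
 (EL.cons 10 (TM.mk (P.cons (P.cons (P.lf 0 546123168 0) (P.cons (P.lf 0 84553581 0) (P.cons (P.lf 40735248 0 0) (P.cons (P.lf 1541541 0 0) (P.lf 0 385383 0))))) (P.cons (P.cons (P.lf 0 417561102 0) (P.cons (P.lf 0 64648944 0) (P.cons (P.lf 31145820 0 0) (P.cons (P.lf 1178649 0 0) (P.lf 0 294660 0))))) (P.cons (P.cons (P.lf 0 85867929 0) (P.cons (P.lf 0 13294512 0) (P.cons (P.lf 6404874 0 0) (P.cons (P.lf 242379 0 0) P.nil)))) (P.cons (P.cons (P.lf 1774230 0 0) (P.cons (P.lf 274695 0 0) (P.cons (P.lf 0 132339 0) P.nil))) (P.cons (P.cons (P.lf 2083344 0 0) (P.cons (P.lf 322554 0 0) P.nil)) (P.cons (P.cons (P.lf 242784 0 0) P.nil) P.nil)))))) 328473)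
 EL.nil))))
noncomputable def S82_140_364_512_8 : EL := (EL.cons 12 (TM.mk (P.cons (P.cons (P.lf 1164212244 0 0) (P.cons (P.lf 100436442 0 0) (P.cons (P.lf 8881106 0 0) (P.cons (P.lf 0 1948660 0) (P.cons (P.lf 0 86866 0) (P.cons (P.lf 0 6454 0) P.nil)))))) (P.cons (P.cons (P.lf 0 1400429694 0) (P.cons (P.lf 54781820 0 0) (P.cons (P.lf 8631266 0 0) (P.cons (P.lf 0 556472 0) (P.cons (P.lf 0 199252 0) P.nil))))) (P.cons (P.cons (P.lf 192928426 0 0) (P.cons (P.lf 0 33418696 0) (P.cons (P.lf 2586478 0 0) (P.cons (P.lf 1389374 0 0) P.nil)))) (P.cons (P.cons (P.lf 173882678 0 0) (P.cons (P.lf 0 31439644 0) (P.cons (P.lf 407608 0 0) P.nil))) (P.cons (P.cons (P.lf 1334318 0 0) (P.cons (P.lf 0 6364570 0) P.nil)) (P.cons (P.cons (P.lf 0 10240176 0) P.nil) P.nil)))))) 10717868)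
 (EL.cons 3 (TM.mk (P.cons (P.cons (P.lf 0 1829659578 0) (P.cons (P.lf 16244723 0 0) (P.cons (P.lf 5191104 0 0) (P.cons (P.lf 186880 0 0) (P.cons (P.lf 0 164615 0) (P.cons (P.lf 0 12231 0) P.nil)))))) (P.cons (P.cons (P.lf 579238057 0 0) (P.cons (P.lf 0 69226973 0) (P.cons (P.lf 4436634 0 0) (P.cons (P.lf 2754907 0 0) (P.cons (P.lf 0 363520 0) P.nil))))) (P.cons (P.cons (P.lf 547661880 0 0) (P.cons (P.lf 0 97459186 0) (P.cons (P.lf 1727495 0 0) (P.cons (P.lf 3274229 0 0) P.nil)))) (P.cons (P.cons (P.lf 63262060 0 0) (P.cons (P.lf 0 37177821 0) (P.cons (P.lf 1283109 0 0) P.nil))) (P.cons (P.cons (P.lf 0 57316605 0) (P.cons (P.lf 1605654 0 0) P.nil)) (P.cons (P.cons (P.lf 0 17229918 0) P.nil) P.nil)))))) 30016683)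
 (EL.cons 7 (TM.mk (P.cons (P.cons (P.lf 1626102830 0 0) (P.cons (P.lf 0 79212211 0) (P.cons (P.lf 0 11738323 0) (P.cons (P.lf 903870 0 0) (P.cons (P.lf 258350 0 0) (P.cons (P.lf 19193 0 0) P.nil)))))) (P.cons (P.cons (P.lf 0 730317280 0) (P.cons (P.lf 87283038 0 0) (P.cons (P.lf 0 5593813 0) (P.cons (P.lf 0 3473457 0) (P.cons (P.lf 458334 0 0) P.nil))))) (P.cons (P.cons (P.lf 0 519683334 0) (P.cons (P.lf 102463294 0 0) (P.cons (P.lf 0 869674 0) (P.cons (P.lf 0 3315780 0) P.nil)))) (P.cons (P.cons (P.lf 98567170 0 0) (P.cons (P.lf 12976744 0 0) (P.cons (P.lf 0 1222026 0) P.nil))) (P.cons (P.cons (P.lf 57474529 0 0) (P.cons (P.lf 0 10290056 0) P.nil)) (P.cons (P.cons (P.lf 0 568332 0) P.nil) P.nil)))))) 19629492)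
 (EL.cons 10 (TM.mk (P.cons (P.cons (P.lf 402107106 0 0) (P.cons (P.lf 79601142 0 0) (P.cons (P.lf 0 26148048 0) (P.cons (P.lf 0 2635776 0) (P.cons (P.lf 88446 0 0) (P.cons (P.lf 37794 0 0) P.nil)))))) (P.cons (P.cons (P.lf 65600538 0 0) (P.cons (P.lf 43310946 0 0) (P.cons (P.lf 2456610 0 0) (P.cons (P.lf 0 3053826 0) (P.cons (P.lf 0 327024 0) P.nil))))) (P.cons (P.cons (P.lf 0 161101854 0) (P.cons (P.lf 887436 0 0) (P.cons (P.lf 17742636 0 0) (P.cons (P.lf 0 1780188 0) P.nil)))) (P.cons (P.cons (P.lf 0 63141672 0) (P.cons (P.lf 325332 0 0) (P.cons (P.lf 6948996 0 0) P.nil))) (P.cons (P.cons (P.lf 0 6420 0) (P.cons (P.lf 1739118 0 0) P.nil)) (P.cons (P.cons (P.lf 3590400 0 0) P.nil) P.nil)))))) 7007142)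
 EL.nil))))
noncomputable def S82_140_364_512_9 : EL := (EL.cons 3 (TM.mk (P.cons (P.lf 0 3255703297 0) (P.cons (P.lf 278383023 0 0) (P.cons (P.lf 69148875 0 0) (P.cons (P.lf 4729800 0 0) (P.cons (P.lf 0 250177 0) (P.cons (P.lf 0 82796 0) P.nil)))))) 14718)
 (EL.cons 7 (TM.mk (P.cons (P.lf 0 918116516 0) (P.cons (P.lf 0 350992016 0) (P.cons (P.lf 0 5087185 0) (P.cons (P.lf 3436187 0 0) (P.cons (P.lf 451667 0 0) (P.cons (P.lf 12370 0 0) P.nil)))))) 9470)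
 EL.nil))
noncomputable def S82_140_364_512_10 : EL := (EL.cons 3 (TM.mk (P.cons (P.cons (P.lf 1198577089 0 0) (P.cons (P.lf 51700545 0 0) (P.cons (P.lf 3456577 0 0) (P.lf 0 1152189 0)))) (P.cons (P.cons (P.lf 0 823369414 0) (P.cons (P.lf 54873972 0 0) (P.cons (P.lf 3668745 0 0) (P.lf 0 1222913 0)))) (P.cons (P.cons (P.lf 0 81292792 0) (P.cons (P.lf 17359356 0 0) (P.cons (P.lf 1160603 0 0) (P.lf 0 386867 0)))) (P.cons (P.cons (P.lf 42466552 0 0) (P.cons (P.lf 0 380996 0) (P.cons (P.lf 0 25472 0) P.nil))) (P.cons (P.cons (P.lf 8290739 0 0) (P.cons (P.lf 0 1225198 0) P.nil)) (P.cons (P.cons (P.lf 0 444113 0) P.nil) P.nil)))))) 1143109)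
 (EL.cons 7 (TM.mk (P.cons (P.cons (P.lf 338001753 0 0) (P.cons (P.lf 14579684 0 0) (P.cons (P.lf 974763 0 0) (P.lf 0 324920 0)))) (P.cons (P.cons (P.lf 0 74074354 0) (P.cons (P.lf 22295003 0 0) (P.cons (P.lf 1490591 0 0) (P.lf 0 496863 0)))) (P.cons (P.cons (P.lf 0 108972941 0) (P.cons (P.lf 13108064 0 0) (P.cons (P.lf 876373 0 0) (P.lf 0 292124 0)))) (P.cons (P.cons (P.lf 0 9740058 0) (P.cons (P.lf 3410751 0 0) (P.cons (P.lf 228034 0 0) P.nil))) (P.cons (P.cons (P.lf 4211037 0 0) (P.cons (P.lf 176768 0 0) P.nil)) (P.cons (P.cons (P.lf 1022379 0 0) P.nil) P.nil)))))) 494573)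
 EL.nil))
noncomputable def S82_140_364_512_11 : EL := (EL.cons 3 (TM.mk (P.cons (P.cons (P.lf 0 441252444 0) (P.cons (P.lf 0 38066791 0) (P.cons (P.lf 0 3366060 0) (P.cons (P.lf 738568 0 0) (P.cons (P.lf 32923 0 0) (P.cons (P.lf 2445 0 0) P.nil)))))) (P.cons (P.cons (P.lf 568511953 0 0) (P.cons (P.lf 0 17508113 0) (P.cons (P.lf 0 2983548 0) (P.cons (P.lf 147757 0 0) (P.cons (P.lf 72704 0 0) P.nil))))) (P.cons (P.cons (P.lf 0 109135824 0) (P.cons (P.lf 15250028 0 0) (P.cons (P.lf 0 629095 0) (P.cons (P.lf 0 560311 0) P.nil)))) (P.cons (P.cons (P.lf 0 70283894 0) (P.cons (P.lf 11329317 0 0) (P.cons (P.lf 3705 0 0) P.nil))) (P.cons (P.cons (P.lf 5877531 0 0) (P.cons (P.lf 1151580 0 0) P.nil)) (P.cons (P.cons (P.lf 5459958 0 0) P.nil) P.nil)))))) 5735357)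
 (EL.cons 7 (TM.mk (P.cons (P.cons (P.lf 0 124434298 0) (P.cons (P.lf 0 10734931 0) (P.cons (P.lf 0 949237 0) (P.cons (P.lf 208278 0 0) (P.cons (P.lf 9284 0 0) (P.cons (P.lf 689 0 0) P.nil)))))) (P.cons (P.cons (P.lf 102111188 0 0) (P.cons (P.lf 0 9959154 0) (P.cons (P.lf 0 1285423 0) (P.cons (P.lf 139101 0 0) (P.cons (P.lf 24846 0 0) P.nil))))) (P.cons (P.cons (P.lf 35912532 0 0) (P.cons (P.lf 1273972 0 0) (P.cons (P.lf 0 634390 0) (P.cons (P.lf 0 124608 0) P.nil)))) (P.cons (P.cons (P.lf 0 25173206 0) (P.cons (P.lf 4733608 0 0) (P.cons (P.lf 0 150810 0) P.nil))) (P.cons (P.cons (P.lf 0 7860857 0) (P.cons (P.lf 2011900 0 0) P.nil)) (P.cons (P.cons (P.lf 942216 0 0) P.nil) P.nil)))))) 2530670)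
 EL.nil))
noncomputable def S82_140_364_512_12 : EL := (EL.cons 4 (TM.mk (P.cons (P.lf 3255703297 0 0) (P.cons (P.lf 0 278383023 0) (P.cons (P.lf 0 69148875 0) (P.cons (P.lf 0 4729800 0) (P.cons (P.lf 250177 0 0) (P.cons (P.lf 82796 0 0) P.nil)))))) 14718)
 (EL.cons 8 (TM.mk (P.cons (P.lf 918116516 0 0) (P.cons (P.lf 350992016 0 0) (P.cons (P.lf 5087185 0 0) (P.cons (P.lf 0 3436187 0) (P.cons (P.lf 0 451667 0) (P.cons (P.lf 0 12370 0) P.nil)))))) 9470)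
 EL.nil))
noncomputable def S82_140_364_512_13 : EL := (EL.cons 4 (TM.mk (P.cons (P.cons (P.lf 0 1198577089 0) (P.cons (P.lf 0 51700545 0) (P.cons (P.lf 0 3456577 0) (P.lf 1152189 0 0)))) (P.cons (P.cons (P.lf 823369414 0 0) (P.cons (P.lf 0 54873972 0) (P.cons (P.lf 0 3668745 0) (P.lf 1222913 0 0)))) (P.cons (P.cons (P.lf 81292792 0 0) (P.cons (P.lf 0 17359356 0) (P.cons (P.lf 0 1160603 0) (P.lf 386867 0 0)))) (P.cons (P.cons (P.lf 0 42466552 0) (P.cons (P.lf 380996 0 0) (P.cons (P.lf 25472 0 0) P.nil))) (P.cons (P.cons (P.lf 0 8290739 0) (P.cons (P.lf 1225198 0 0) P.nil)) (P.cons (P.cons (P.lf 444113 0 0) P.nil) P.nil)))))) 1143109)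
 (EL.cons 8 (TM.mk (P.cons (P.cons (P.lf 0 338001753 0) (P.cons (P.lf 0 14579684 0) (P.cons (P.lf 0 974763 0) (P.lf 324920 0 0)))) (P.cons (P.cons (P.lf 74074354 0 0) (P.cons (P.lf 0 22295003 0) (P.cons (P.lf 0 1490591 0) (P.lf 496863 0 0)))) (P.cons (P.cons (P.lf 108972941 0 0) (P.cons (P.lf 0 13108064 0) (P.cons (P.lf 0 876373 0) (P.lf 292124 0 0)))) (P.cons (P.cons (P.lf 9740058 0 0) (P.cons (P.lf 0 3410751 0) (P.cons (P.lf 0 228034 0) P.nil))) (P.cons (P.cons (P.lf 0 4211037 0) (P.cons (P.lf 0 176768 0) P.nil)) (P.cons (P.cons (P.lf 0 1022379 0) P.nil) P.nil)))))) 494573)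
 EL.nil))
noncomputable def S82_140_364_512_14 : EL := (EL.cons 4 (TM.mk (P.cons (P.cons (P.lf 441252444 0 0) (P.cons (P.lf 38066791 0 0) (P.cons (P.lf 3366060 0 0) (P.cons (P.lf 0 738568 0) (P.cons (P.lf 0 32923 0) (P.cons (P.lf 0 2445 0) P.nil)))))) (P.cons (P.cons (P.lf 0 568511953 0) (P.cons (P.lf 17508113 0 0) (P.cons (P.lf 2983548 0 0) (P.cons (P.lf 0 147757 0) (P.cons (P.lf 0 72704 0) P.nil))))) (P.cons (P.cons (P.lf 109135824 0 0) (P.cons (P.lf 0 15250028 0) (P.cons (P.lf 629095 0 0) (P.cons (P.lf 560311 0 0) P.nil)))) (P.cons (P.cons (P.lf 70283894 0 0) (P.cons (P.lf 0 11329317 0) (P.cons (P.lf 0 3705 0) P.nil))) (P.cons (P.cons (P.lf 0 5877531 0) (P.cons (P.lf 0 1151580 0) P.nil)) (P.cons (P.cons (P.lf 0 5459958 0) P.nil) P.nil)))))) 5735357)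
 (EL.cons 8 (TM.mk (P.cons (P.cons (P.lf 124434298 0 0) (P.cons (P.lf 10734931 0 0) (P.cons (P.lf 949237 0 0) (P.cons (P.lf 0 208278 0) (P.cons (P.lf 0 9284 0) (P.cons (P.lf 0 689 0) P.nil)))))) (P.cons (P.cons (P.lf 0 102111188 0) (P.cons (P.lf 9959154 0 0) (P.cons (P.lf 1285423 0 0) (P.cons (P.lf 0 139101 0) (P.cons (P.lf 0 24846 0) P.nil))))) (P.cons (P.cons (P.lf 0 35912532 0) (P.cons (P.lf 0 1273972 0) (P.cons (P.lf 634390 0 0) (P.cons (P.lf 124608 0 0) P.nil)))) (P.cons (P.cons (P.lf 25173206 0 0) (P.cons (P.lf 0 4733608 0) (P.cons (P.lf 150810 0 0) P.nil))) (P.cons (P.cons (P.lf 7860857 0 0) (P.cons (P.lf 0 2011900 0) P.nil)) (P.cons (P.cons (P.lf 0 942216 0) P.nil) P.nil)))))) 2530670)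
 EL.nil))
noncomputable def S82_140_364_512_15 : EL := (EL.cons 4 (TM.mk (P.cons (P.lf 0 2632440120 0) (P.cons (P.lf 450180236 0 0) (P.cons (P.lf 92575781 0 0) (P.cons (P.lf 0 1912835 0) (P.cons (P.lf 0 2246092 0) (P.cons (P.lf 0 261750 0) P.nil)))))) 55630)
 (EL.cons 8 (TM.mk (P.cons (P.lf 0 742354732 0) (P.cons (P.lf 0 220323058 0) (P.cons (P.lf 35920386 0 0) (P.cons (P.lf 10236253 0 0) (P.cons (P.lf 570247 0 0) (P.cons (P.lf 0 114946 0) P.nil)))))) 34529)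
 EL.nil))
noncomputable def S82_140_364_512_16 : EL := (EL.cons 4 (TM.mk (P.cons (P.cons (P.lf 969124680 0 0) (P.cons (P.lf 41803130 0 0) (P.cons (P.lf 2794859 0 0) (P.lf 0 931617 0)))) (P.cons (P.cons (P.lf 0 748611994 0) (P.cons (P.lf 40794615 0 0) (P.cons (P.lf 2727432 0 0) (P.lf 0 909142 0)))) (P.cons (P.cons (P.lf 0 29388418 0) (P.cons (P.lf 9354426 0 0) (P.cons (P.lf 625412 0 0) (P.lf 0 208470 0)))) (P.cons (P.cons (P.lf 52689280 0 0) (P.cons (P.lf 0 2511334 0) (P.cons (P.lf 0 167901 0) P.nil))) (P.cons (P.cons (P.lf 6205278 0 0) (P.cons (P.lf 0 1323671 0) P.nil)) (P.cons (P.cons (P.lf 0 1592603 0) P.nil) P.nil)))))) 1426777)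
 (EL.cons 8 (TM.mk (P.cons (P.cons (P.lf 273295596 0 0) (P.cons (P.lf 11788588 0 0) (P.cons (P.lf 788157 0 0) (P.lf 0 262718 0)))) (P.cons (P.cons (P.lf 0 83262242 0) (P.cons (P.lf 17018909 0 0) (P.cons (P.lf 1137844 0 0) (P.lf 0 379280 0)))) (P.cons (P.cons (P.lf 0 88794768 0) (P.cons (P.lf 8806896 0 0) (P.cons (P.lf 588807 0 0) (P.lf 0 196269 0)))) (P.cons (P.cons (P.lf 533698 0 0) (P.cons (P.lf 1451546 0 0) (P.cons (P.lf 97046 0 0) P.nil))) (P.cons (P.cons (P.lf 6057726 0 0) (P.cons (P.lf 0 343273 0) P.nil)) (P.cons (P.cons (P.lf 833141 0 0) P.nil) P.nil)))))) 660425)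
 EL.nil))
noncomputable def S82_140_364_512_17 : EL := (EL.cons 4 (TM.mk (P.cons (P.cons (P.lf 0 356780250 0) (P.cons (P.lf 0 30779385 0) (P.cons (P.lf 0 2721671 0) (P.cons (P.lf 597179 0 0) (P.cons (P.lf 26620 0 0) (P.cons (P.lf 1977 0 0) P.nil)))))) (P.cons (P.cons (P.lf 490184483 0 0) (P.cons (P.lf 0 11524575 0) (P.cons (P.lf 0 2179665 0) (P.cons (P.lf 68408 0 0) (P.cons (P.lf 56508 0 0) P.nil))))) (P.cons (P.cons (P.lf 0 119970696 0) (P.cons (P.lf 14194798 0 0) (P.cons (P.lf 0 244582 0) (P.cons (P.lf 0 475947 0) P.nil)))) (P.cons (P.cons (P.lf 0 58528500 0) (P.cons (P.lf 8451507 0 0) (P.cons (P.lf 101681 0 0) P.nil))) (P.cons (P.cons (P.lf 10790581 0 0) (P.cons (P.lf 0 95844 0) P.nil)) (P.cons (P.cons (P.lf 5369817 0 0) P.nil) P.nil)))))) 5812694)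
 (EL.cons 8 (TM.mk (P.cons (P.cons (P.lf 0 100612927 0) (P.cons (P.lf 0 8679864 0) (P.cons (P.lf 0 767518 0) (P.cons (P.lf 168405 0 0) (P.cons (P.lf 7507 0 0) (P.cons (P.lf 557 0 0) P.nil)))))) (P.cons (P.cons (P.lf 91166329 0 0) (P.cons (P.lf 0 7310417 0) (P.cons (P.lf 0 973717 0) (P.cons (P.lf 98072 0 0) (P.cons (P.lf 19447 0 0) P.nil))))) (P.cons (P.cons (P.lf 24114802 0 0) (P.cons (P.lf 1902988 0 0) (P.cons (P.lf 0 407772 0) (P.cons (P.lf 0 113947 0) P.nil)))) (P.cons (P.cons (P.lf 0 24444424 0) (P.cons (P.lf 3922981 0 0) (P.cons (P.lf 0 54890 0) P.nil))) (P.cons (P.cons (P.lf 0 5360006 0) (P.cons (P.lf 1288632 0 0) P.nil)) (P.cons (P.cons (P.lf 1699226 0 0) P.nil) P.nil)))))) 2615320)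
 EL.nil))
noncomputable def S82_140_364_512_18 : EL := (EL.cons 4 (TM.mk (P.cons (P.lf 2128492786 0 0) (P.cons (P.lf 0 545998394 0) (P.cons (P.lf 0 88936838 0) (P.cons (P.lf 12585940 0 0) (P.cons (P.lf 3966058 0 0) (P.cons (P.lf 158407 0 0) P.nil)))))) 145112)
 (EL.cons 8 (TM.mk (P.cons (P.lf 600240317 0 0) (P.cons (P.lf 126820692 0 0) (P.cons (P.lf 0 57025083 0) (P.cons (P.lf 0 10448908 0) (P.cons (P.lf 650816 0 0) (P.cons (P.lf 379305 0 0) P.nil)))))) 67460)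
 EL.nil))
noncomputable def S82_140_364_512_19 : EL := (EL.cons 4 (TM.mk (P.cons (P.cons (P.lf 0 783598029 0) (P.cons (P.lf 0 33800450 0) (P.cons (P.lf 0 2259819 0) (P.lf 753270 0 0)))) (P.cons (P.cons (P.lf 672302245 0 0) (P.cons (P.lf 0 30094852 0) (P.cons (P.lf 0 2012070 0) (P.lf 670689 0 0)))) (P.cons (P.cons (P.lf 0 11351460 0) (P.cons (P.lf 0 4025317 0) (P.cons (P.lf 0 269121 0) (P.lf 89707 0 0)))) (P.cons (P.cons (P.lf 0 56352170 0) (P.cons (P.lf 3426992 0 0) (P.cons (P.lf 229120 0 0) P.nil))) (P.cons (P.cons (P.lf 0 2818842 0) (P.cons (P.lf 1102613 0 0) P.nil)) (P.cons (P.cons (P.lf 2613648 0 0) P.nil) P.nil)))))) 1745942)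
 (EL.cons 8 (TM.mk (P.cons (P.cons (P.lf 0 220976614 0) (P.cons (P.lf 0 9531812 0) (P.cons (P.lf 0 637274 0) (P.lf 212424 0 0)))) (P.cons (P.cons (P.lf 86217624 0 0) (P.cons (P.lf 0 12945824 0) (P.cons (P.lf 0 865527 0) (P.lf 288508 0 0)))) (P.cons (P.cons (P.lf 70733007 0 0) (P.cons (P.lf 0 5741839 0) (P.cons (P.lf 0 383885 0) (P.lf 127961 0 0)))) (P.cons (P.cons (P.lf 0 7679407 0) (P.cons (P.lf 0 258663 0) (P.cons (P.lf 0 17293 0) P.nil))) (P.cons (P.cons (P.lf 0 6500837 0) (P.cons (P.lf 548415 0 0) P.nil)) (P.cons (P.cons (P.lf 0 350417 0) P.nil) P.nil)))))) 849128)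
 EL.nil))
noncomputable def S82_140_364_512_20 : EL := (EL.cons 4 (TM.mk (P.cons (P.cons (P.lf 288479188 0 0) (P.cons (P.lf 24887062 0 0) (P.cons (P.lf 2200641 0 0) (P.cons (P.lf 0 482856 0) (P.cons (P.lf 0 21524 0) (P.cons (P.lf 0 1598 0) P.nil)))))) (P.cons (P.cons (P.lf 0 421011647 0) (P.cons (P.lf 7190341 0 0) (P.cons (P.lf 1574227 0 0) (P.cons (P.lf 0 14025 0) (P.cons (P.lf 0 43850 0) P.nil))))) (P.cons (P.cons (P.lf 124766697 0 0) (P.cons (P.lf 0 12802743 0) (P.cons (P.lf 323 0 0) (P.cons (P.lf 399817 0 0) P.nil)))) (P.cons (P.cons (P.lf 47028519 0 0) (P.cons (P.lf 0 6086254 0) (P.cons (P.lf 0 139754 0) P.nil))) (P.cons (P.cons (P.lf 0 14233682 0) (P.cons (P.lf 893955 0 0) P.nil)) (P.cons (P.cons (P.lf 0 4764975 0) P.nil) P.nil)))))) 5952158)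
 (EL.cons 8 (TM.mk (P.cons (P.cons (P.lf 81351856 0 0) (P.cons (P.lf 7018214 0 0) (P.cons (P.lf 620586 0 0) (P.cons (P.lf 0 136166 0) (P.cons (P.lf 0 6069 0) (P.cons (P.lf 0 450 0) P.nil)))))) (P.cons (P.cons (P.lf 0 80669783 0) (P.cons (P.lf 5310829 0 0) (P.cons (P.lf 734247 0 0) (P.cons (P.lf 0 67654 0) (P.cons (P.lf 0 15205 0) P.nil))))) (P.cons (P.cons (P.lf 0 14923203 0) (P.cons (P.lf 0 2193168 0) (P.cons (P.lf 249208 0 0) (P.cons (P.lf 101806 0 0) P.nil)))) (P.cons (P.cons (P.lf 22879520 0 0) (P.cons (P.lf 0 3176149 0) (P.cons (P.lf 0 1433 0) P.nil))) (P.cons (P.cons (P.lf 3171353 0 0) (P.cons (P.lf 0 746083 0) P.nil)) (P.cons (P.cons (P.lf 0 2139567 0) P.nil) P.nil)))))) 2527121)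
 EL.nil))
noncomputable def S82_140_364_512_21 : EL := (EL.cons 4 (TM.mk (P.cons (P.cons (P.lf 0 1885669989 0) (P.cons (P.lf 155101635 0 0) (P.cons (P.lf 10369731 0 0) (P.lf 0 3456567 0)))) (P.cons (P.cons (P.lf 0 1119567534 0) (P.cons (P.lf 164621916 0 0) (P.cons (P.lf 11006235 0 0) (P.lf 0 3668739 0)))) (P.cons (P.cons (P.lf 33848964 0 0) (P.cons (P.lf 52078068 0 0) (P.cons (P.lf 3481809 0 0) (P.lf 0 1160601 0)))) (P.cons (P.cons (P.lf 121661154 0 0) (P.cons (P.lf 0 1142988 0) (P.cons (P.lf 0 76416 0) P.nil))) (P.cons (P.cons (P.lf 18133938 0 0) (P.cons (P.lf 0 3675594 0) P.nil)) (P.cons (P.cons (P.lf 0 2117592 0) P.nil) P.nil)))))) 3582165)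
 (EL.cons 8 (TM.mk (P.cons (P.cons (P.lf 2377498101 0 0) (P.cons (P.lf 0 195555891 0) (P.cons (P.lf 0 13074414 0) (P.lf 4358139 0 0)))) (P.cons (P.cons (P.lf 299379369 0 0) (P.cons (P.lf 0 116077854 0) (P.cons (P.lf 0 7760697 0) (P.lf 2586900 0 0)))) (P.cons (P.cons (P.lf 0 341497626 0) (P.cons (P.lf 1699419 0 0) (P.cons (P.lf 113616 0 0) (P.lf 0 37872 0)))) (P.cons (P.cons (P.lf 0 45386616 0) (P.cons (P.lf 11009667 0 0) (P.cons (P.lf 736077 0 0) P.nil))) (P.cons (P.cons (P.lf 10824192 0 0) (P.cons (P.lf 1443162 0 0) P.nil)) (P.cons (P.cons (P.lf 3128436 0 0) P.nil) P.nil)))))) 1782207)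
 (EL.cons 11 (TM.mk (P.cons (P.cons (P.lf 546123168 0 0) (P.cons (P.lf 84553581 0 0) (P.cons (P.lf 0 40735248 0) (P.cons (P.lf 0 1541541 0) (P.lf 385383 0 0))))) (P.cons (P.cons (P.lf 417561102 0 0) (P.cons (P.lf 64648944 0 0) (P.cons (P.lf 0 31145820 0) (P.cons (P.lf 0 1178649 0) (P.lf 294660 0 0))))) (P.cons (P.cons (P.lf 85867929 0 0) (P.cons (P.lf 13294512 0 0) (P.cons (P.lf 0 6404874 0) (P.cons (P.lf 0 242379 0) P.nil)))) (P.cons (P.cons (P.lf 0 1774230 0) (P.cons (P.lf 0 274695 0) (P.cons (P.lf 132339 0 0) P.nil))) (P.cons (P.cons (P.lf 0 2083344 0) (P.cons (P.lf 0 322554 0) P.nil)) (P.cons (P.cons (P.lf 0 242784 0) P.nil) P.nil)))))) 328473)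
 EL.nil)))
noncomputable def S82_140_364_512_22 : EL := (EL.cons 4 (TM.mk (P.cons (P.cons (P.lf 694203567 0 0) (P.cons (P.lf 0 27155757 0) (P.cons (P.lf 0 4278582 0) (P.cons (P.lf 275844 0 0) (P.cons (P.lf 98769 0 0) (P.cons (P.lf 7338 0 0) P.nil)))))) (P.cons (P.cons (P.lf 0 5363052 0) (P.cons (P.lf 25859430 0 0) (P.cons (P.lf 0 3710091 0) (P.cons (P.lf 0 1303575 0) (P.cons (P.lf 218112 0 0) P.nil))))) (P.cons (P.cons (P.lf 0 328398852 0) (P.cons (P.lf 56354607 0 0) (P.cons (P.lf 0 1178295 0) (P.cons (P.lf 0 1917270 0) P.nil)))) (P.cons (P.cons (P.lf 0 66772977 0) (P.cons (P.lf 24253569 0 0) (P.cons (P.lf 0 639702 0) P.nil))) (P.cons (P.cons (P.lf 31597068 0 0) (P.cons (P.lf 0 227037 0) P.nil)) (P.cons (P.cons (P.lf 11344938 0 0) P.nil) P.nil)))))) 12140652)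
 (EL.cons 8 (TM.mk (P.cons (P.cons (P.lf 0 875268564 0) (P.cons (P.lf 34238640 0 0) (P.cons (P.lf 5394543 0 0) (P.cons (P.lf 0 347796 0) (P.cons (P.lf 0 124533 0) (P.cons (P.lf 0 9252 0) P.nil)))))) (P.cons (P.cons (P.lf 416214234 0 0) (P.cons (P.lf 0 48621096 0) (P.cons (P.lf 2154195 0 0) (P.cons (P.lf 1806279 0 0) (P.cons (P.lf 0 216744 0) P.nil))))) (P.cons (P.cons (P.lf 277797933 0 0) (P.cons (P.lf 0 50594661 0) (P.cons (P.lf 117642 0 0) (P.cons (P.lf 1595586 0 0) P.nil)))) (P.cons (P.cons (P.lf 0 61870188 0) (P.cons (P.lf 0 4121568 0) (P.cons (P.lf 535608 0 0) P.nil))) (P.cons (P.cons (P.lf 0 32667693 0) (P.cons (P.lf 6150978 0 0) P.nil)) (P.cons (P.cons (P.lf 755274 0 0) P.nil) P.nil)))))) 8549400)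
 (EL.cons 11 (TM.mk (P.cons (P.cons (P.lf 0 201053553 0) (P.cons (P.lf 0 39800571 0) (P.cons (P.lf 13074024 0 0) (P.cons (P.lf 1317888 0 0) (P.cons (P.lf 0 44223 0) (P.cons (P.lf 0 18897 0) P.nil)))))) (P.cons (P.cons (P.lf 0 32800269 0) (P.cons (P.lf 0 21655473 0) (P.cons (P.lf 0 1228305 0) (P.cons (P.lf 1526913 0 0) (P.cons (P.lf 163512 0 0) P.nil))))) (P.cons (P.cons (P.lf 80550927 0 0) (P.cons (P.lf 0 443718 0) (P.cons (P.lf 0 8871318 0) (P.cons (P.lf 890094 0 0) P.nil)))) (P.cons (P.cons (P.lf 31570836 0 0) (P.cons (P.lf 0 162666 0) (P.cons (P.lf 0 3474498 0) P.nil))) (P.cons (P.cons (P.lf 3210 0 0) (P.cons (P.lf 0 869559 0) P.nil)) (P.cons (P.cons (P.lf 0 1795200 0) P.nil) P.nil)))))) 3503571)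
 EL.nil)))
noncomputable def S82_140_364_512_23 : EL := (EL.cons 4 (TM.mk (P.cons (P.cons (P.lf 1524682341 0 0) (P.cons (P.lf 0 125409390 0) (P.cons (P.lf 0 8384577 0) (P.lf 2794851 0 0)))) (P.cons (P.cons (P.lf 774870612 0 0) (P.cons (P.lf 0 122383845 0) (P.cons (P.lf 0 8182296 0) (P.lf 2727426 0 0)))) (P.cons (P.cons (P.lf 0 137155932 0) (P.cons (P.lf 0 28063278 0) (P.cons (P.lf 0 1876236 0) (P.lf 625410 0 0)))) (P.cons (P.cons (P.lf 0 117472140 0) (P.cons (P.lf 7534002 0 0) (P.cons (P.lf 503703 0 0) P.nil))) (P.cons (P.cons (P.lf 0 6867765 0) (P.cons (P.lf 3971013 0 0) P.nil)) (P.cons (P.cons (P.lf 5203356 0 0) P.nil) P.nil)))))) 4606089)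
 (EL.cons 8 (TM.mk (P.cons (P.cons (P.lf 0 1922356188 0) (P.cons (P.lf 158119191 0 0) (P.cons (P.lf 10571481 0 0) (P.lf 0 3523827 0)))) (P.cons (P.cons (P.lf 0 77693484 0) (P.cons (P.lf 80336037 0 0) (P.cons (P.lf 5371080 0 0) (P.lf 0 1790361 0)))) (P.cons (P.cons (P.lf 337649979 0 0) (P.cons (P.lf 0 12757722 0) (P.cons (P.lf 0 852948 0) (P.lf 284316 0 0)))) (P.cons (P.cons (P.lf 21021825 0 0) (P.cons (P.lf 0 11007663 0) (P.cons (P.lf 0 735942 0) P.nil))) (P.cons (P.cons (P.lf 0 17550633 0) (P.cons (P.lf 0 500724 0) P.nil)) (P.cons (P.cons (P.lf 0 3029250 0) P.nil) P.nil)))))) 2653515)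
 (EL.cons 11 (TM.mk (P.cons (P.cons (P.lf 0 441574800 0) (P.cons (P.lf 0 68366868 0) (P.cons (P.lf 32937000 0 0) (P.cons (P.lf 1246431 0 0) (P.lf 0 311604 0))))) (P.cons (P.cons (P.lf 0 299866902 0) (P.cons (P.lf 0 46426926 0) (P.cons (P.lf 22367025 0 0) (P.cons (P.lf 846432 0 0) (P.lf 0 211605 0))))) (P.cons (P.cons (P.lf 0 31181865 0) (P.cons (P.lf 0 4827735 0) (P.cons (P.lf 2325849 0 0) (P.cons (P.lf 88014 0 0) P.nil)))) (P.cons (P.cons (P.lf 15183654 0 0) (P.cons (P.lf 2350809 0 0) (P.cons (P.lf 0 1132545 0) P.nil))) (P.cons (P.cons (P.lf 3493044 0 0) (P.cons (P.lf 540810 0 0) P.nil)) (P.cons (P.cons (P.lf 85491 0 0) P.nil) P.nil)))))) 683802)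
 EL.nil)))
noncomputable def S82_140_364_512_24 : EL := (EL.cons 4 (TM.mk (P.cons (P.cons (P.lf 0 561307083 0) (P.cons (P.lf 21957132 0 0) (P.cons (P.lf 3459501 0 0) (P.cons (P.lf 0 223038 0) (P.cons (P.lf 0 79860 0) (P.cons (P.lf 0 5934 0) P.nil)))))) (P.cons (P.cons (P.lf 52331634 0 0) (P.cons (P.lf 0 22786443 0) (P.cons (P.lf 2704032 0 0) (P.cons (P.lf 1073091 0 0) (P.cons (P.lf 0 169527 0) P.nil))))) (P.cons (P.cons (P.lf 277082034 0 0) (P.cons (P.lf 0 44244735 0) (P.cons (P.lf 622743 0 0) (P.cons (P.lf 1464843 0 0) P.nil)))) (P.cons (P.cons (P.lf 32008920 0 0) (P.cons (P.lf 0 15302139 0) (P.cons (P.lf 367035 0 0) P.nil))) (P.cons (P.cons (P.lf 0 35853831 0) (P.cons (P.lf 2860254 0 0) P.nil)) (P.cons (P.cons (P.lf 0 8534973 0) P.nil) P.nil)))))) 11369037)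
 (EL.cons 8 (TM.mk (P.cons (P.cons (P.lf 707709477 0 0) (P.cons (P.lf 0 27684087 0) (P.cons (P.lf 0 4361826 0) (P.cons (P.lf 281214 0 0) (P.cons (P.lf 100692 0 0) (P.cons (P.lf 7482 0 0) P.nil)))))) (P.cons (P.cons (P.lf 0 397048881 0) (P.cons (P.lf 41680365 0 0) (P.cons (P.lf 0 1368837 0) (P.cons (P.lf 0 1484535 0) (P.cons (P.lf 166641 0 0) P.nil))))) (P.cons (P.cons (P.lf 0 210872418 0) (P.cons (P.lf 38135418 0 0) (P.cons (P.lf 146454 0 0) (P.cons (P.lf 0 1171224 0) P.nil)))) (P.cons (P.cons (P.lf 75351720 0 0) (P.cons (P.lf 0 960189 0) (P.cons (P.lf 0 381609 0) P.nil))) (P.cons (P.cons (P.lf 27450348 0 0) (P.cons (P.lf 0 6186522 0) P.nil)) (P.cons (P.cons (P.lf 0 3613296 0) P.nil) P.nil)))))) 7699152)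
 (EL.cons 11 (TM.mk (P.cons (P.cons (P.lf 162564396 0 0) (P.cons (P.lf 32181255 0 0) (P.cons (P.lf 0 10571169 0) (P.cons (P.lf 0 1065597 0) (P.cons (P.lf 35757 0 0) (P.cons (P.lf 15279 0 0) P.nil)))))) (P.cons (P.cons (P.lf 12620799 0 0) (P.cons (P.lf 14758107 0 0) (P.cons (P.lf 1897062 0 0) (P.cons (P.lf 0 1143489 0) (P.cons (P.lf 0 135267 0) P.nil))))) (P.cons (P.cons (P.lf 0 70850943 0) (P.cons (P.lf 0 1821930 0) (P.cons (P.lf 7312620 0 0) (P.cons (P.lf 0 591498 0) P.nil)))) (P.cons (P.cons (P.lf 0 20757396 0) (P.cons (P.lf 0 317796 0) (P.cons (P.lf 2190276 0 0) P.nil))) (P.cons (P.cons (P.lf 3537411 0 0) (P.cons (P.lf 661260 0 0) P.nil)) (P.cons (P.cons (P.lf 2094720 0 0) P.nil) P.nil)))))) 3254469)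
 EL.nil)))
noncomputable def S82_140_364_512_25 : EL := (EL.cons 4 (TM.mk (P.cons (P.cons (P.lf 0 1232801211 0) (P.cons (P.lf 101401350 0 0) (P.cons (P.lf 6779454 0 0) (P.lf 0 2259810 0)))) (P.cons (P.cons (P.lf 0 521119218 0) (P.cons (P.lf 90284556 0 0) (P.cons (P.lf 6036213 0 0) (P.lf 0 2012067 0)))) (P.cons (P.cons (P.lf 190655370 0 0) (P.cons (P.lf 12075951 0 0) (P.cons (P.lf 807363 0 0) (P.lf 0 269121 0)))) (P.cons (P.cons (P.lf 100599087 0 0) (P.cons (P.lf 0 10280976 0) (P.cons (P.lf 0 687360 0) P.nil))) (P.cons (P.cons (P.lf 0 4108614 0) (P.cons (P.lf 0 3307839 0) P.nil)) (P.cons (P.cons (P.lf 0 6940047 0) P.nil) P.nil)))))) 4889958)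
 (EL.cons 8 (TM.mk (P.cons (P.cons (P.lf 1554345435 0 0) (P.cons (P.lf 0 127849272 0) (P.cons (P.lf 0 8547705 0) (P.lf 2849235 0 0)))) (P.cons (P.cons (P.lf 0 70086219 0) (P.cons (P.lf 0 54024804 0) (P.cons (P.lf 0 3611973 0) (P.lf 1203990 0 0)))) (P.cons (P.cons (P.lf 0 311395890 0) (P.cons (P.lf 18585054 0 0) (P.cons (P.lf 1242549 0 0) (P.lf 0 414183 0)))) (P.cons (P.cons (P.lf 2754333 0 0) (P.cons (P.lf 9583725 0 0) (P.cons (P.lf 640743 0 0) P.nil))) (P.cons (P.cons (P.lf 21470919 0 0) (P.cons (P.lf 0 490719 0) P.nil)) (P.cons (P.cons (P.lf 2037930 0 0) P.nil) P.nil)))))) 3162588)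
 (EL.cons 11 (TM.mk (P.cons (P.cons (P.lf 357040896 0 0) (P.cons (P.lf 55278897 0 0) (P.cons (P.lf 0 26631627 0) (P.cons (P.lf 0 1007817 0) (P.lf 251952 0 0))))) (P.cons (P.cons (P.lf 211931949 0 0) (P.cons (P.lf 32812386 0 0) (P.cons (P.lf 0 15807969 0) (P.cons (P.lf 0 598218 0) (P.lf 149553 0 0))))) (P.cons (P.cons (P.lf 0 3102756 0) (P.cons (P.lf 0 480384 0) (P.cons (P.lf 231435 0 0) (P.cons (P.lf 8757 0 0) P.nil)))) (P.cons (P.cons (P.lf 0 20101167 0) (P.cons (P.lf 0 3112164 0) (P.cons (P.lf 1499340 0 0) P.nil))) (P.cons (P.cons (P.lf 0 2634891 0) (P.cons (P.lf 0 407946 0) P.nil)) (P.cons (P.cons (P.lf 424209 0 0) P.nil) P.nil)))))) 898140)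
 EL.nil)))
noncomputable def S82_140_364_512_26 : EL := (EL.cons 4 (TM.mk (P.cons (P.cons (P.lf 453851949 0 0) (P.cons (P.lf 0 17753718 0) (P.cons (P.lf 0 2797224 0) (P.cons (P.lf 180339 0 0) (P.cons (P.lf 64572 0 0) (P.cons (P.lf 4797 0 0) P.nil)))))) (P.cons (P.cons (P.lf 0 81120591 0) (P.cons (P.lf 19942320 0 0) (P.cons (P.lf 0 1947198 0) (P.cons (P.lf 0 883080 0) (P.cons (P.lf 131553 0 0) P.nil))))) (P.cons (P.cons (P.lf 0 230059626 0) (P.cons (P.lf 34576326 0 0) (P.cons (P.lf 0 257166 0) (P.cons (P.lf 0 1114059 0) P.nil)))) (P.cons (P.cons (P.lf 0 6485184 0) (P.cons (P.lf 8948256 0 0) (P.cons (P.lf 0 203214 0) P.nil))) (P.cons (P.cons (P.lf 36057837 0 0) (P.cons (P.lf 0 4158600 0) P.nil)) (P.cons (P.cons (P.lf 5305692 0 0) P.nil) P.nil)))))) 11068245)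
 (EL.cons 8 (TM.mk (P.cons (P.cons (P.lf 0 572227458 0) (P.cons (P.lf 22384317 0 0) (P.cons (P.lf 3526809 0 0) (P.cons (P.lf 0 227379 0) (P.cons (P.lf 0 81414 0) (P.cons (P.lf 0 6048 0) P.nil)))))) (P.cons (P.cons (P.lf 369967932 0 0) (P.cons (P.lf 0 35615187 0) (P.cons (P.lf 805227 0 0) (P.cons (P.lf 1219782 0 0) (P.cons (P.lf 0 127779 0) P.nil))))) (P.cons (P.cons (P.lf 155206437 0 0) (P.cons (P.lf 0 28428639 0) (P.cons (P.lf 0 287961 0) (P.cons (P.lf 849201 0 0) P.nil)))) (P.cons (P.cons (P.lf 0 81493035 0) (P.cons (P.lf 4096218 0 0) (P.cons (P.lf 290046 0 0) P.nil))) (P.cons (P.cons (P.lf 0 21117465 0) (P.cons (P.lf 5641398 0 0) P.nil)) (P.cons (P.cons (P.lf 5875869 0 0) P.nil) P.nil)))))) 7395030)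
 (EL.cons 11 (TM.mk (P.cons (P.cons (P.lf 0 131443500 0) (P.cons (P.lf 0 26020560 0) (P.cons (P.lf 8547453 0 0) (P.cons (P.lf 861600 0 0) (P.cons (P.lf 0 28911 0) (P.cons (P.lf 0 12354 0) P.nil)))))) (P.cons (P.cons (P.lf 1034532 0 0) (P.cons (P.lf 0 9707934 0) (P.cons (P.lf 0 2264754 0) (P.cons (P.lf 850911 0 0) (P.cons (P.lf 111843 0 0) P.nil))))) (P.cons (P.cons (P.lf 60951762 0 0) (P.cons (P.lf 3046137 0 0) (P.cons (P.lf 0 5963094 0) (P.cons (P.lf 380904 0 0) P.nil)))) (P.cons (P.cons (P.lf 12292920 0 0) (P.cons (P.lf 422244 0 0) (P.cons (P.lf 0 1245240 0) P.nil))) (P.cons (P.cons (P.lf 0 5507346 0) (P.cons (P.lf 0 572595 0) P.nil)) (P.cons (P.cons (P.lf 0 1892970 0) P.nil) P.nil)))))) 3289620)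
 EL.nil)))
noncomputable def S82_140_364_512_27 : EL := (EL.cons 13 (TM.mk (P.lf 0 4294967296 0) 0)
 EL.nil)
noncomputable def S82_140_364_512_28 : EL := (EL.cons 13 (TM.mk (P.cons (P.cons (P.lf 1581178914 0 0) (P.cons (P.lf 68204052 0 0) (P.cons (P.lf 4559964 0 0) (P.lf 0 1519984 0)))) (P.cons (P.cons (P.lf 0 950999234 0) (P.cons (P.lf 78222352 0 0) (P.cons (P.lf 5229764 0 0) (P.lf 0 1743252 0)))) (P.cons (P.cons (P.lf 0 154975789 0) (P.cons (P.lf 31037804 0 0) (P.cons (P.lf 2075112 0 0) (P.lf 0 691704 0)))) (P.cons (P.cons (P.lf 24869576 0 0) (P.cons (P.lf 3911784 0 0) (P.cons (P.lf 261532 0 0) P.nil))) (P.cons (P.cons (P.lf 8269092 0 0) (P.cons (P.lf 0 514196 0) P.nil)) (P.cons (P.cons (P.lf 457112 0 0) P.nil) P.nil)))))) 698342)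
 EL.nil)
noncomputable def S82_140_364_512_29 : EL := (EL.cons 13 (TM.mk (P.cons (P.cons (P.lf 0 582106122 0) (P.cons (P.lf 0 50218221 0) (P.cons (P.lf 0 4440553 0) (P.cons (P.lf 974330 0 0) (P.cons (P.lf 43433 0 0) (P.cons (P.lf 3227 0 0) P.nil)))))) (P.cons (P.cons (P.lf 700214847 0 0) (P.cons (P.lf 0 27390910 0) (P.cons (P.lf 0 4315633 0) (P.cons (P.lf 278236 0 0) (P.cons (P.lf 99626 0 0) P.nil))))) (P.cons (P.cons (P.lf 0 96464213 0) (P.cons (P.lf 16709348 0 0) (P.cons (P.lf 0 1293239 0) (P.cons (P.lf 0 694687 0) P.nil)))) (P.cons (P.cons (P.lf 0 86941339 0) (P.cons (P.lf 15719822 0 0) (P.cons (P.lf 0 203804 0) P.nil))) (P.cons (P.cons (P.lf 0 667159 0) (P.cons (P.lf 3182285 0 0) P.nil)) (P.cons (P.cons (P.lf 5120088 0 0) P.nil) P.nil)))))) 5358934)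
 EL.nil)
noncomputable def S82_140_364_512_30 : EL := (EL.cons 13 (TM.mk (P.cons (P.lf 3472750184 0 0) (P.cons (P.lf 0 296941892 0) (P.cons (P.lf 0 73758800 0) (P.cons (P.lf 0 5045120 0) (P.cons (P.lf 266856 0 0) (P.cons (P.lf 88316 0 0) P.nil)))))) 15692)
 EL.nil)
noncomputable def S82_140_364_512_31 : EL := (EL.cons 13 (TM.mk (P.cons (P.cons (P.lf 0 1278482229 0) (P.cons (P.lf 0 55147249 0) (P.cons (P.lf 0 3687016 0) (P.lf 1229002 0 0)))) (P.cons (P.cons (P.lf 878260709 0 0) (P.cons (P.lf 0 58532237 0) (P.cons (P.lf 0 3913328 0) (P.lf 1304441 0 0)))) (P.cons (P.cons (P.lf 86712312 0 0) (P.cons (P.lf 0 18516647 0) (P.cons (P.lf 0 1237977 0) (P.lf 412659 0 0)))) (P.cons (P.cons (P.lf 0 45297656 0) (P.cons (P.lf 406396 0 0) (P.cons (P.lf 27171 0 0) P.nil))) (P.cons (P.cons (P.lf 0 8843455 0) (P.cons (P.lf 1306878 0 0) P.nil)) (P.cons (P.cons (P.lf 473721 0 0) P.nil)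 P.nil)))))) 1219296)
 EL.nil)
noncomputable def S82_140_364_512_32 : EL := (EL.cons 13 (TM.mk (P.cons (P.cons (P.lf 470669274 0 0) (P.cons (P.lf 40604578 0 0) (P.cons (P.lf 3590465 0 0) (P.cons (P.lf 0 787806 0) (P.cons (P.lf 0 35118 0) (P.cons (P.lf 0 2609 0) P.nil)))))) (P.cons (P.cons (P.lf 0 606412750 0) (P.cons (P.lf 18675321 0 0) (P.cons (P.lf 3182452 0 0) (P.cons (P.lf 0 157608 0) (P.cons (P.lf 0 77551 0) P.nil))))) (P.cons (P.cons (P.lf 116411546 0 0) (P.cons (P.lf 0 16266697 0) (P.cons (P.lf 671035 0 0) (P.cons (P.lf 597666 0 0) P.nil)))) (P.cons (P.cons (P.lf 74969487 0 0) (P.cons (P.lf 0 12084605 0) (P.cons (P.lf 0 3952 0) P.nil))) (P.cons (P.cons (P.lf 0 6269367 0) (P.cons (P.lf 0 1228352 0) P.nil)) (P.cons (P.cons (P.lf 0 5823956 0) P.nil) P.nil)))))) 6117691)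
 EL.nil)
noncomputable def S82_140_364_512_33 : EL := (EL.cons 14 (TM.mk (P.lf 8589934592 0 0) 0)
 EL.nil)
noncomputable def S82_140_364_512_34 : EL := (EL.cons 14 (TM.mk (P.cons (P.cons (P.lf 0 3162357828 0) (P.cons (P.lf 0 136408104 0) (P.cons (P.lf 0 9119928 0) (P.lf 3039968 0 0)))) (P.cons (P.cons (P.lf 1901998468 0 0) (P.cons (P.lf 0 156444704 0) (P.cons (P.lf 0 10459528 0) (P.lf 3486504 0 0)))) (P.cons (P.cons (P.lf 309951578 0 0) (P.cons (P.lf 0 62075608 0) (P.cons (P.lf 0 4150224 0) (P.lf 1383408 0 0)))) (P.cons (P.cons (P.lf 0 49739152 0) (P.cons (P.lf 0 7823568 0) (P.cons (P.lf 0 523064 0) P.nil))) (P.cons (P.cons (P.lf 0 16538184 0) (P.cons (P.lf 1028392 0 0) P.nil)) (P.cons (P.cons (P.lf 0 914224 0) P.nil) P.nil)))))) 1396684)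
 EL.nil)
noncomputable def S82_140_364_512_35 : EL := (EL.cons 14 (TM.mk (P.cons (P.cons (P.lf 1164212244 0 0) (P.cons (P.lf 100436442 0 0) (P.cons (P.lf 8881106 0 0) (P.cons (P.lf 0 1948660 0) (P.cons (P.lf 0 86866 0) (P.cons (P.lf 0 6454 0) P.nil)))))) (P.cons (P.cons (P.lf 0 1400429694 0) (P.cons (P.lf 54781820 0 0) (P.cons (P.lf 8631266 0 0) (P.cons (P.lf 0 556472 0) (P.cons (P.lf 0 199252 0) P.nil))))) (P.cons (P.cons (P.lf 192928426 0 0) (P.cons (P.lf 0 33418696 0) (P.cons (P.lf 2586478 0 0) (P.cons (P.lf 1389374 0 0) P.nil)))) (P.cons (P.cons (P.lf 173882678 0 0) (P.cons (P.lf 0 31439644 0) (P.cons (P.lf 407608 0 0) P.nil))) (P.cons (P.cons (P.lf 1334318 0 0) (P.cons (P.lf 0 6364570 0) P.nil)) (P.cons (P.cons (P.lf 0 10240176 0) P.nil) P.nil)))))) 10717868)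
 EL.nil)
noncomputable def S82_140_364_512_36 : EL := (EL.cons 14 (TM.mk (P.cons (P.lf 0 6945500368 0) (P.cons (P.lf 593883784 0 0) (P.cons (P.lf 147517600 0 0) (P.cons (P.lf 10090240 0 0) (P.cons (P.lf 0 533712 0) (P.cons (P.lf 0 176632 0) P.nil)))))) 31384)
 EL.nil)
noncomputable def S82_140_364_512_37 : EL := (EL.cons 14 (TM.mk (P.cons (P.cons (P.lf 2556964458 0 0) (P.cons (P.lf 110294498 0 0) (P.cons (P.lf 7374032 0 0) (P.lf 0 2458004 0)))) (P.cons (P.cons (P.lf 0 1756521418 0) (P.cons (P.lf 117064474 0 0) (P.cons (P.lf 7826656 0 0) (P.lf 0 2608882 0)))) (P.cons (P.cons (P.lf 0 173424624 0) (P.cons (P.lf 37033294 0 0) (P.cons (P.lf 2475954 0 0) (P.lf 0 825318 0)))) (P.cons (P.cons (P.lf 90595312 0 0) (P.cons (P.lf 0 812792 0) (P.cons (P.lf 0 54342 0) P.nil))) (P.cons (P.cons (P.lf 17686910 0 0) (P.cons (P.lf 0 2613756 0) P.nil)) (P.cons (P.cons (P.lf 0 947442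 0) P.nil) P.nil)))))) 2438592)
 EL.nil)
noncomputable def S82_140_364_512_38 : EL := (EL.cons 14 (TM.mk (P.cons (P.cons (P.lf 0 941338548 0) (P.cons (P.lf 0 81209156 0) (P.cons (P.lf 0 7180930 0) (P.cons (P.lf 1575612 0 0) (P.cons (P.lf 70236 0 0) (P.cons (P.lf 5218 0 0) P.nil)))))) (P.cons (P.cons (P.lf 1212825500 0 0) (P.cons (P.lf 0 37350642 0) (P.cons (P.lf 0 6364904 0) (P.cons (P.lf 315216 0 0) (P.cons (P.lf 155102 0 0) P.nil))))) (P.cons (P.cons (P.lf 0 232823092 0) (P.cons (P.lf 32533394 0 0) (P.cons (P.lf 0 1342070 0) (P.cons (P.lf 0 1195332 0) P.nil)))) (P.cons (P.cons (P.lf 0 149938974 0) (P.cons (P.lf 24169210 0 0) (P.cons (P.lf 7904 0 0) P.nil))) (P.cons (P.cons (P.lf 12538734 0 0) (P.cons (P.lf 2456704 0 0) P.nil)) (P.cons (P.cons (P.lf 11647912 0 0) P.nil) P.nil)))))) 12235382)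
 EL.nil)
noncomputable def S82_140_364_512_39 : EL := (EL.cons 14 (TM.mk (P.cons (P.lf 5615872256 0 0) (P.cons (P.lf 0 960384504 0) (P.cons (P.lf 0 197495000 0) (P.cons (P.lf 4080716 0 0) (P.cons (P.lf 4791664 0 0) (P.cons (P.lf 558402 0 0) P.nil)))))) 118664)
 EL.nil)
noncomputable def S82_140_364_512_40 : EL := (EL.cons 14 (TM.mk (P.cons (P.cons (P.lf 0 2067465984 0) (P.cons (P.lf 0 89180012 0) (P.cons (P.lf 0 5962366 0) (P.lf 1987450 0 0)))) (P.cons (P.cons (P.lf 1597038922 0 0) (P.cons (P.lf 0 87028514 0) (P.cons (P.lf 0 5818522 0) (P.lf 1939504 0 0)))) (P.cons (P.cons (P.lf 62695292 0 0) (P.cons (P.lf 0 19956110 0) (P.cons (P.lf 0 1334214 0) (P.lf 444738 0 0)))) (P.cons (P.cons (P.lf 0 112403798 0) (P.cons (P.lf 5357514 0 0) (P.cons (P.lf 358190 0 0) P.nil))) (P.cons (P.cons (P.lf 0 13237928 0) (P.cons (P.lf 2823832 0 0) P.nil)) (P.cons (P.cons (P.lf 3397554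 0 0) P.nil) P.nil)))))) 3043752)
 EL.nil)
noncomputable def S82_140_364_512_41 : EL := (EL.cons 14 (TM.mk (P.cons (P.cons (P.lf 761131202 0 0) (P.cons (P.lf 65662690 0 0) (P.cons (P.lf 5806232 0 0) (P.cons (P.lf 0 1273982 0) (P.cons (P.lf 0 56790 0) (P.cons (P.lf 0 4218 0) P.nil)))))) (P.cons (P.cons (P.lf 0 1045726898 0) (P.cons (P.lf 24585762 0 0) (P.cons (P.lf 4649954 0 0) (P.cons (P.lf 0 145938 0) (P.cons (P.lf 0 120552 0) P.nil))))) (P.cons (P.cons (P.lf 255937486 0 0) (P.cons (P.lf 0 30282236 0) (P.cons (P.lf 521776 0 0) (P.cons (P.lf 1015354 0 0) P.nil)))) (P.cons (P.cons (P.lf 124860800 0 0) (P.cons (P.lf 0 18029882 0) (P.cons (P.lf 0 216920 0) P.nil))) (P.cons (P.cons (P.lf 0 23019908 0) (P.cons (P.lf 204468 0 0) P.nil)) (P.cons (P.cons (P.lf 0 11455610 0) P.nil) P.nil)))))) 12400368)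
 EL.nil)
noncomputable def S82_140_364_512_42 : EL := (EL.cons 14 (TM.mk (P.cons (P.lf 0 4540784612 0) (P.cons (P.lf 1164796574 0 0) (P.cons (P.lf 189731922 0 0) (P.cons (P.lf 0 26850006 0) (P.cons (P.lf 0 8460924 0) (P.cons (P.lf 0 337936 0) P.nil)))))) 309558)
 EL.nil)
noncomputable def S82_140_364_512_43 : EL := (EL.cons 14 (TM.mk (P.cons (P.cons (P.lf 1671675796 0 0) (P.cons (P.lf 72107628 0 0) (P.cons (P.lf 4820948 0 0) (P.lf 0 1606978 0)))) (P.cons (P.cons (P.lf 0 1434244790 0) (P.cons (P.lf 64202352 0 0) (P.cons (P.lf 4292418 0 0) (P.lf 0 1430804 0)))) (P.cons (P.cons (P.lf 24216448 0 0) (P.cons (P.lf 8587344 0 0) (P.cons (P.lf 574126 0 0) (P.lf 0 191376 0)))) (P.cons (P.cons (P.lf 120217964 0 0) (P.cons (P.lf 0 7310918 0) (P.cons (P.lf 0 488790 0) P.nil))) (P.cons (P.cons (P.lf 6013530 0 0) (P.cons (P.lf 0 2352242 0) P.nil)) (P.cons (P.cons (P.lf 0 5575784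 0) P.nil) P.nil)))))) 3724636)
 EL.nil)
noncomputable def S82_140_364_512_44 : EL := (EL.cons 14 (TM.mk (P.cons (P.cons (P.lf 0 615422268 0) (P.cons (P.lf 0 53092400 0) (P.cons (P.lf 0 4694702 0) (P.cons (P.lf 1030094 0 0) (P.cons (P.lf 45918 0 0) (P.cons (P.lf 3410 0 0) P.nil)))))) (P.cons (P.cons (P.lf 898158182 0 0) (P.cons (P.lf 0 15339396 0) (P.cons (P.lf 0 3358352 0) (P.cons (P.lf 29920 0 0) (P.cons (P.lf 93548 0 0) P.nil))))) (P.cons (P.cons (P.lf 0 266168954 0) (P.cons (P.lf 27312520 0 0) (P.cons (P.lf 0 690 0) (P.cons (P.lf 0 852944 0) P.nil)))) (P.cons (P.cons (P.lf 0 100327508 0) (P.cons (P.lf 12984010 0 0) (P.cons (P.lf 298142 0 0) P.nil))) (P.cons (P.cons (P.lf 30365190 0 0) (P.cons (P.lf 0 1907106 0) P.nil)) (P.cons (P.cons (P.lf 10165282 0 0) P.nil) P.nil)))))) 12697892)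
 EL.nil)
noncomputable def S82_140_364_512_45 : EL := (EL.cons 14 (TM.mk (P.cons (P.cons (P.lf 0 428601132 0) (P.cons (P.lf 0 55463046 0) (P.cons (P.lf 0 6100524 0) (P.cons (P.lf 881740 0 0) (P.cons (P.lf 89038 0 0) (P.cons (P.lf 8966 0 0) P.nil)))))) (P.cons (P.cons (P.lf 773345784 0 0) (P.cons (P.lf 3106584 0 0) (P.cons (P.lf 0 3841010 0) (P.cons (P.lf 0 728958 0) (P.cons (P.lf 138620 0 0) P.nil))))) (P.cons (P.cons (P.lf 0 339103214 0) (P.cons (P.lf 42085404 0 0) (P.cons (P.lf 1024478 0 0) (P.cons (P.lf 0 1359858 0) P.nil)))) (P.cons (P.cons (P.lf 0 78568932 0) (P.cons (P.lf 8354868 0 0) (P.cons (P.lf 1489396 0 0) P.nil))) (P.cons (P.cons (P.lf 50839234 0 0) (P.cons (P.lf 0 9502130 0) P.nil)) (P.cons (P.cons (P.lf 11794768 0 0) P.nil) P.nil)))))) 22099130)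
 EL.nil)
noncomputable def S82_140_364_512_46 : EL := (EL.cons 15 (TM.mk (P.lf 4294967296 0 0) 0)
 EL.nil)
noncomputable def S82_140_364_512_47 : EL := (EL.cons 15 (TM.mk (P.cons (P.cons (P.lf 0 1581178914 0) (P.cons (P.lf 0 68204052 0) (P.cons (P.lf 0 4559964 0) (P.lf 1519984 0 0)))) (P.cons (P.cons (P.lf 950999234 0 0) (P.cons (P.lf 0 78222352 0) (P.cons (P.lf 0 5229764 0) (P.lf 1743252 0 0)))) (P.cons (P.cons (P.lf 154975789 0 0) (P.cons (P.lf 0 31037804 0) (P.cons (P.lf 0 2075112 0) (P.lf 691704 0 0)))) (P.cons (P.cons (P.lf 0 24869576 0) (P.cons (P.lf 0 3911784 0) (P.cons (P.lf 0 261532 0) P.nil))) (P.cons (P.cons (P.lf 0 8269092 0) (P.cons (P.lf 514196 0 0) P.nil)) (P.cons (P.cons (P.lf 0 457112 0) P.nil) P.nil)))))) 698342)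
 EL.nil)
noncomputable def S82_140_364_512_48 : EL := (EL.cons 15 (TM.mk (P.cons (P.cons (P.lf 582106122 0 0) (P.cons (P.lf 50218221 0 0) (P.cons (P.lf 4440553 0 0) (P.cons (P.lf 0 974330 0) (P.cons (P.lf 0 43433 0) (P.cons (P.lf 0 3227 0) P.nil)))))) (P.cons (P.cons (P.lf 0 700214847 0) (P.cons (P.lf 27390910 0 0) (P.cons (P.lf 4315633 0 0) (P.cons (P.lf 0 278236 0) (P.cons (P.lf 0 99626 0) P.nil))))) (P.cons (P.cons (P.lf 96464213 0 0) (P.cons (P.lf 0 16709348 0) (P.cons (P.lf 1293239 0 0) (P.cons (P.lf 694687 0 0) P.nil)))) (P.cons (P.cons (P.lf 86941339 0 0) (P.cons (P.lf 0 15719822 0) (P.cons (P.lf 203804 0 0) P.nil))) (P.cons (P.cons (P.lf 667159 0 0) (P.cons (P.lf 0 3182285 0) P.nil)) (P.cons (P.cons (P.lf 0 5120088 0) P.nil) P.nil)))))) 5358934)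
 EL.nil)
noncomputable def S82_140_364_512 : SL := (SL.cons S82_140_364_512_0 (SL.cons S82_140_364_512_1 (SL.cons S82_140_364_512_2 (SL.cons S82_140_364_512_3 (SL.cons S82_140_364_512_4 (SL.cons S82_140_364_512_5 (SL.cons S82_140_364_512_6 (SL.cons S82_140_364_512_7 (SL.cons S82_140_364_512_8 (SL.cons S82_140_364_512_9 (SL.cons S82_140_364_512_10 (SL.cons S82_140_364_512_11 (SL.cons S82_140_364_512_12 (SL.cons S82_140_364_512_13 (SL.cons S82_140_364_512_14 (SL.cons S82_140_364_512_15 (SL.cons S82_140_364_512_16 (SL.cons S82_140_364_512_17 (SL.cons S82_140_364_512_18 (SL.cons S82_140_364_512_19 (SL.cons S82_140_364_512_20 (SL.cons S82_140_364_512_21 (SL.cons S82_140_364_512_22 (SL.cons S82_140_364_512_23 (SL.cons S82_140_364_512_24 (SL.cons S82_140_364_512_25 (SL.cons S82_140_364_512_26 (SL.cons S82_140_364_512_27 (SL.cons S82_140_364_512_28 (SL.cons S82_140_364_512_29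 (SL.cons S82_140_364_512_30 (SL.cons S82_140_364_512_31 (SL.cons S82_140_364_512_32 (SL.cons S82_140_364_512_33 (SL.cons S82_140_364_512_34 (SL.cons S82_140_364_512_35 (SL.cons S82_140_364_512_36 (SL.cons S82_140_364_512_37 (SL.cons S82_140_364_512_38 (SL.cons S82_140_364_512_39 (SL.cons S82_140_364_512_40 (SL.cons S82_140_364_512_41 (SL.cons S82_140_364_512_42 (SL.cons S82_140_364_512_43 (SL.cons S82_140_364_512_44 (SL.cons S82_140_364_512_45 (SL.cons S82_140_364_512_46 (SL.cons S82_140_364_512_47 (SL.cons S82_140_364_512_48 SL.nil)))))))))))))))))))))))))))))))))))))))))))))))))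
noncomputable def S82_140_512_660_0 : EL := (EL.cons 0 (TM.mk (P.cons (P.lf 3519891639 0 0) (P.cons (P.lf 844087942 0 0) (P.cons (P.lf 173579589 0 0) (P.cons (P.lf 0 3586566 0) (P.cons (P.lf 0 4211423 0) (P.cons (P.lf 0 490783 0) P.nil)))))) 104301)
 (EL.cons 1 (TM.mk (P.cons (P.lf 0 1391915122 0) (P.cons (P.lf 0 413105733 0) (P.cons (P.lf 67350723 0 0) (P.cons (P.lf 19192974 0 0) (P.cons (P.lf 1069213 0 0) (P.cons (P.lf 0 215523 0) P.nil)))))) 64748)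
 (EL.cons 5 (TM.mk (P.cons (P.lf 6049927380 0 0) (P.cons (P.lf 0 300120158 0) (P.cons (P.lf 0 61717188 0) (P.cons (P.lf 1275220 0 0) (P.cons (P.lf 1497396 0 0) (P.cons (P.lf 174500 0 0) P.nil)))))) 24617)
 (EL.cons 9 (TM.mk (P.lf 6442450944 0 0) 2)
 EL.nil))))
noncomputable def S82_140_512_660_1 : EL := (EL.cons 0 (TM.mk (P.cons (P.cons (P.lf 0 3780144388 0) (P.cons (P.lf 179246748 0 0) (P.cons (P.lf 0 11984013 0) (P.lf 0 3994659 0)))) (P.cons (P.cons (P.lf 0 666785205 0) (P.cons (P.lf 151959358 0 0) (P.cons (P.lf 0 10159642 0) (P.lf 0 3386538 0)))) (P.cons (P.cons (P.lf 526084698 0 0) (P.cons (P.lf 9052519 0 0) (P.cons (P.lf 0 605214 0) (P.lf 0 201734 0)))) (P.cons (P.cons (P.lf 214652476 0 0) (P.cons (P.lf 0 26536331 0) (P.cons (P.lf 1774149 0 0) P.nil))) (P.cons (P.cons (P.lf 0 10392984 0) (P.cons (P.lf 0 8915209 0) P.nil)) (P.cons (P.cons (P.lf 0 14281924 0) P.nil)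 P.nil)))))) 12150574)
 (EL.cons 1 (TM.mk (P.cons (P.cons (P.lf 1717302846 0 0) (P.cons (P.lf 0 92977736 0) (P.cons (P.lf 6216278 0 0) (P.lf 2072097 0 0)))) (P.cons (P.cons (P.lf 0 467384411 0) (P.cons (P.lf 4461100 0 0) (P.cons (P.lf 0 298257 0) (P.lf 0 99411 0)))) (P.cons (P.cons (P.lf 0 458296115 0) (P.cons (P.lf 53242689 0 0) (P.cons (P.lf 0 3559672 0) (P.lf 0 1186556 0)))) (P.cons (P.cons (P.lf 46022543 0 0) (P.cons (P.lf 17123804 0 0) (P.cons (P.lf 0 1144849 0) P.nil))) (P.cons (P.cons (P.lf 40383912 0 0) (P.cons (P.lf 0 1139662 0) P.nil)) (P.cons (P.cons (P.lf 2990327 0 0) P.nil) P.nil)))))) 5602059)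
 (EL.cons 5 (TM.mk (P.cons (P.cons (P.lf 0 1586182523 0) (P.cons (P.lf 0 179679070 0) (P.cons (P.lf 12012926 0 0) (P.lf 4004304 0 0)))) (P.cons (P.cons (P.lf 1575967747 0 0) (P.cons (P.lf 0 187008000 0) (P.cons (P.lf 12502918 0 0) (P.lf 4167636 0 0)))) (P.cons (P.cons (P.lf 0 33825610 0) (P.cons (P.lf 0 55982942 0) (P.cons (P.lf 3742888 0 0) (P.lf 1247626 0 0)))) (P.cons (P.cons (P.lf 0 132492034 0) (P.cons (P.lf 2785104 0 0) (P.cons (P.lf 0 186198 0) P.nil))) (P.cons (P.cons (P.lf 0 8535984 0) (P.cons (P.lf 4043986 0 0) P.nil)) (P.cons (P.cons (P.lf 5003146 0 0) P.nil) P.nil)))))) 3769718)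
 (EL.cons 9 (TM.mk (P.cons (P.cons (P.lf 0 2585500455 0) (P.cons (P.lf 0 102306078 0) (P.cons (P.lf 6839946 0 0) (P.lf 2279976 0 0)))) (P.cons (P.cons (P.lf 1181372259 0 0) (P.cons (P.lf 0 117333528 0) (P.cons (P.lf 7844646 0 0) (P.lf 2614878 0 0)))) (P.cons (P.cons (P.lf 135200047 0 0) (P.cons (P.lf 0 46556706 0) (P.cons (P.lf 3112668 0 0) (P.lf 1037556 0 0)))) (P.cons (P.cons (P.lf 0 49562784 0) (P.cons (P.lf 0 5867676 0) (P.cons (P.lf 392298 0 0) P.nil))) (P.cons (P.cons (P.lf 0 10792290 0) (P.cons (P.lf 771294 0 0) P.nil)) (P.cons (P.cons (P.lf 0 66060 0) P.nil) P.nil)))))) 1047532)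
 (EL.cons 2 (TM.mk (P.cons (P.cons (P.lf 413976375 0 0) (P.cons (P.lf 0 64093938 0) (P.cons (P.lf 0 30878437 0) (P.cons (P.lf 1168529 0 0) (P.lf 292128 0 0))))) (P.cons (P.cons (P.lf 281125220 0 0) (P.cons (P.lf 0 43525243 0) (P.cons (P.lf 0 20969085 0) (P.cons (P.lf 793530 0 0) (P.lf 198379 0 0))))) (P.cons (P.cons (P.lf 29232998 0 0) (P.cons (P.lf 0 4526001 0) (P.cons (P.lf 0 2180483 0) (P.cons (P.lf 82513 0 0) P.nil)))) (P.cons (P.cons (P.lf 0 14234675 0) (P.cons (P.lf 2203883 0 0) (P.cons (P.lf 1061760 0 0) P.nil))) (P.cons (P.cons (P.lf 0 3274728 0) (P.cons (P.lf 507009 0 0) P.nil)) (P.cons (P.cons (P.lf 0 80147 0) P.nil) P.nil)))))) 641085)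
 (EL.cons 6 (TM.mk (P.cons (P.cons (P.lf 116742378 0 0) (P.cons (P.lf 0 18074649 0) (P.cons (P.lf 0 8707797 0) (P.cons (P.lf 329526 0 0) (P.lf 82380 0 0))))) (P.cons (P.cons (P.lf 133890336 0 0) (P.cons (P.lf 0 20729586 0) (P.cons (P.lf 0 9986859 0) (P.cons (P.lf 377931 0 0) (P.lf 94482 0 0))))) (P.cons (P.cons (P.lf 53126271 0 0) (P.cons (P.lf 0 8225280 0) (P.cons (P.lf 0 3962679 0) (P.cons (P.lf 149958 0 0) P.nil)))) (P.cons (P.cons (P.lf 6695658 0 0) (P.cons (P.lf 0 1036656 0) (P.cons (P.lf 0 499428 0) P.nil))) (P.cons (P.cons (P.lf 0 880134 0) (P.cons (P.lf 136266 0 0) P.nil)) (P.cons (P.cons (P.lf 0 338436 0) P.nil) P.nil)))))) 291246)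
 EL.nil))))))
noncomputable def S82_140_512_660_2 : EL := (EL.cons 0 (TM.mk (P.cons (P.cons (P.lf 2467201073 0 0) (P.cons (P.lf 0 68678695 0) (P.cons (P.lf 0 1988814 0) (P.cons (P.lf 2410468 0 0) (P.cons (P.lf 263879 0 0) (P.cons (P.lf 0 19606 0) P.nil)))))) (P.cons (P.cons (P.lf 0 469040447 0) (P.cons (P.lf 60924245 0 0) (P.cons (P.lf 0 17677426 0) (P.cons (P.lf 461338 0 0) (P.cons (P.lf 545541 0 0) P.nil))))) (P.cons (P.cons (P.lf 0 788249036 0) (P.cons (P.lf 114006465 0 0) (P.cons (P.lf 0 18542944 0) (P.cons (P.lf 0 1080457 0) P.nil)))) (P.cons (P.cons (P.lf 13961267 0 0) (P.cons (P.lf 27192126 0 0) (P.cons (P.lf 0 5429292 0) P.nil))) (P.cons (P.cons (P.lf 121246775 0 0) (P.cons (P.lf 0 16097292 0) P.nil)) (P.cons (P.cons (P.lf 12134574 0 0) P.nil) P.nil)))))) 57624872)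
 (EL.cons 1 (TM.mk (P.cons (P.cons (P.lf 0 1154203025 0) (P.cons (P.lf 37827947 0 0) (P.cons (P.lf 774882 0 0) (P.cons (P.lf 0 1284826 0) (P.cons (P.lf 0 132499 0) (P.cons (P.lf 9852 0 0) P.nil)))))) (P.cons (P.cons (P.lf 866625825 0 0) (P.cons (P.lf 0 67882398 0) (P.cons (P.lf 8692800 0 0) (P.cons (P.lf 957313 0 0) (P.cons (P.lf 0 166596 0) P.nil))))) (P.cons (P.cons (P.lf 220224235 0 0) (P.cons (P.lf 0 37618393 0) (P.cons (P.lf 3008538 0 0) (P.cons (P.lf 772368 0 0) P.nil)))) (P.cons (P.cons (P.lf 0 217995983 0) (P.cons (P.lf 21388044 0 0) (P.cons (P.lf 0 3213591 0) P.nil))) (P.cons (P.cons (P.lf 0 27522946 0) (P.cons (P.lf 12956972 0 0) P.nil)) (P.cons (P.cons (P.lf 20138737 0 0) P.nil) P.nil)))))) 24779252)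
 (EL.cons 5 (TM.mk (P.cons (P.cons (P.lf 298741706 0 0) (P.cons (P.lf 117483282 0 0) (P.cons (P.lf 0 3673682 0) (P.cons (P.lf 0 3177270 0) (P.cons (P.lf 0 167657 0) (P.cons (P.lf 12454 0 0) P.nil)))))) (P.cons (P.cons (P.lf 0 907882259 0) (P.cons (P.lf 42549092 0 0) (P.cons (P.lf 6215682 0 0) (P.cons (P.lf 0 2159753 0) (P.cons (P.lf 0 363333 0) P.nil))))) (P.cons (P.cons (P.lf 402795826 0 0) (P.cons (P.lf 0 51820310 0) (P.cons (P.lf 11445174 0 0) (P.cons (P.lf 87719 0 0) P.nil)))) (P.cons (P.cons (P.lf 96316807 0 0) (P.cons (P.lf 0 27479091 0) (P.cons (P.lf 5254344 0 0) P.nil))) (P.cons (P.cons (P.lf 0 50677560 0) (P.cons (P.lf 2802888 0 0) P.nil)) (P.cons (P.cons (P.lf 0 11097784 0) P.nil) P.nil)))))) 21527784)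
 (EL.cons 9 (TM.mk (P.cons (P.cons (P.lf 1037619480 0 0) (P.cons (P.lf 82115458 0 0) (P.cons (P.lf 0 3865428 0) (P.cons (P.lf 0 2047246 0) (P.cons (P.lf 0 65149 0) (P.cons (P.lf 4840 0 0) P.nil)))))) (P.cons (P.cons (P.lf 0 948222513 0) (P.cons (P.lf 56656800 0 0) (P.cons (P.lf 0 61429 0) (P.cons (P.lf 0 1760937 0) (P.cons (P.lf 0 149439 0) P.nil))))) (P.cons (P.cons (P.lf 108114264 0 0) (P.cons (P.lf 0 9957072 0) (P.cons (P.lf 4281294 0 0) (P.cons (P.lf 0 261556 0) P.nil)))) (P.cons (P.cons (P.lf 89365425 0 0) (P.cons (P.lf 0 15715399 0) (P.cons (P.lf 2932884 0 0) P.nil))) (P.cons (P.cons (P.lf 0 6677302 0) (P.cons (P.lf 0 2576989 0) P.nil)) (P.cons (P.cons (P.lf 0 5985238 0) P.nil) P.nil)))))) 6933682)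
 (EL.cons 2 (TM.mk (P.cons (P.cons (P.lf 0 332276056 0) (P.cons (P.lf 38296794 0 0) (P.cons (P.lf 27699080 0 0) (P.cons (P.lf 199693 0 0) (P.cons (P.lf 0 382522 0) (P.cons (P.lf 0 28648 0) P.nil)))))) (P.cons (P.cons (P.lf 0 73819473 0) (P.cons (P.lf 0 12578563 0) (P.cons (P.lf 10828265 0 0) (P.cons (P.lf 1868878 0 0) (P.cons (P.lf 0 322413 0) P.nil))))) (P.cons (P.cons (P.lf 97013148 0 0) (P.cons (P.lf 0 32171771 0) (P.cons (P.lf 0 3433955 0) (P.cons (P.lf 1757880 0 0) P.nil)))) (P.cons (P.cons (P.lf 27576191 0 0) (P.cons (P.lf 0 9699423 0) (P.cons (P.lf 0 853177 0) P.nil))) (P.cons (P.cons (P.lf 0 7077560 0) (P.cons (P.lf 882815 0 0) P.nil)) (P.cons (P.cons (P.lf 0 3134266 0) P.nil) P.nil)))))) 5634500)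
 (EL.cons 6 (TM.mk (P.cons (P.cons (P.lf 0 93702678 0) (P.cons (P.lf 10799790 0 0) (P.cons (P.lf 7811208 0 0) (P.cons (P.lf 56310 0 0) (P.cons (P.lf 0 107868 0) (P.cons (P.lf 0 8076 0) P.nil)))))) (P.cons (P.cons (P.lf 0 64651578 0) (P.cons (P.lf 1504974 0 0) (P.cons (P.lf 6707694 0 0) (P.cons (P.lf 553368 0 0) (P.cons (P.lf 0 141384 0) P.nil))))) (P.cons (P.cons (P.lf 11362098 0 0) (P.cons (P.lf 0 10010688 0) (P.cons (P.lf 981726 0 0) (P.cons (P.lf 746028 0 0) P.nil)))) (P.cons (P.cons (P.lf 17932980 0 0) (P.cons (P.lf 0 7072044 0) (P.cons (P.lf 0 385362 0) P.nil))) (P.cons (P.cons (P.lf 2940630 0 0) (P.cons (P.lf 0 1654992 0) P.nil)) (P.cons (P.cons (P.lf 0 1038504 0) P.nil) P.nil)))))) 2814036)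
 EL.nil))))))
noncomputable def S82_140_512_660_3 : EL := (EL.cons 0 (TM.mk (P.cons (P.lf 4935825225 0 0) (P.cons (P.lf 0 844087942 0) (P.cons (P.lf 0 173579589 0) (P.cons (P.lf 3586566 0 0) (P.cons (P.lf 4211423 0 0) (P.cons (P.lf 490783 0 0) P.nil)))))) 104301)
 (EL.cons 1 (TM.mk (P.cons (P.lf 1391915122 0 0) (P.cons (P.lf 413105733 0 0) (P.cons (P.lf 0 67350723 0) (P.cons (P.lf 0 19192974 0) (P.cons (P.lf 0 1069213 0) (P.cons (P.lf 215523 0 0) P.nil)))))) 64748)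
 (EL.cons 5 (TM.mk (P.cons (P.lf 392523564 0 0) (P.cons (P.lf 300120158 0 0) (P.cons (P.lf 61717188 0 0) (P.cons (P.lf 0 1275220 0) (P.cons (P.lf 0 1497396 0) (P.cons (P.lf 0 174500 0) P.nil)))))) 24610)
 EL.nil)))
noncomputable def S82_140_512_660_4 : EL := (EL.cons 0 (TM.mk (P.cons (P.cons (P.lf 0 1980857668 0) (P.cons (P.lf 0 78380869 0) (P.cons (P.lf 5240360 0 0) (P.lf 1746782 0 0)))) (P.cons (P.cons (P.lf 1243849090 0 0) (P.cons (P.lf 0 76489904 0) (P.cons (P.lf 5113935 0 0) (P.lf 1704642 0 0)))) (P.cons (P.cons (P.lf 18460648 0 0) (P.cons (P.lf 0 17539549 0) (P.cons (P.lf 1172649 0 0) (P.lf 390883 0 0)))) (P.cons (P.cons (P.lf 0 88955143 0) (P.cons (P.lf 4708752 0 0) (P.cons (P.lf 0 314815 0) P.nil))) (P.cons (P.cons (P.lf 0 6449879 0) (P.cons (P.lf 2481883 0 0) P.nil)) (P.cons (P.cons (P.lf 3349332 0 0) P.nil) P.nil)))))) 2455219)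
 (EL.cons 1 (TM.mk (P.cons (P.cons (P.lf 0 558606841 0) (P.cons (P.lf 0 22103602 0) (P.cons (P.lf 1477794 0 0) (P.lf 492596 0 0)))) (P.cons (P.cons (P.lf 89451180 0 0) (P.cons (P.lf 0 31910454 0) (P.cons (P.lf 2133457 0 0) (P.lf 711150 0 0)))) (P.cons (P.cons (P.lf 131992306 0 0) (P.cons (P.lf 0 16512930 0) (P.cons (P.lf 1104013 0 0) (P.lf 368004 0 0)))) (P.cons (P.cons (P.lf 0 6686600 0) (P.cons (P.lf 0 2721648 0) (P.cons (P.lf 181961 0 0) P.nil))) (P.cons (P.cons (P.lf 0 10013585 0) (P.cons (P.lf 643636 0 0) P.nil)) (P.cons (P.cons (P.lf 0 873500 0) P.nil) P.nil)))))) 1259720)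
 (EL.cons 5 (TM.mk (P.cons (P.cons (P.lf 0 157528534 0) (P.cons (P.lf 0 6233270 0) (P.cons (P.lf 416740 0 0) (P.lf 138912 0 0)))) (P.cons (P.cons (P.lf 0 48466702 0) (P.cons (P.lf 0 11914764 0) (P.cons (P.lf 796592 0 0) (P.lf 265530 0 0)))) (P.cons (P.cons (P.lf 38502894 0 0) (P.cons (P.lf 0 9282616 0) (P.cons (P.lf 620612 0 0) (P.lf 206870 0 0)))) (P.cons (P.cons (P.lf 15107566 0 0) (P.cons (P.lf 0 3630114 0) (P.cons (P.lf 242700 0 0) P.nil))) (P.cons (P.cons (P.lf 0 1304136 0) (P.cons (P.lf 0 625348 0) P.nil)) (P.cons (P.cons (P.lf 0 1212892 0) P.nil) P.nil)))))) 617314)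
 EL.nil)))
noncomputable def S82_140_512_660_5 : EL := (EL.cons 0 (TM.mk (P.cons (P.cons (P.lf 794962731 0 0) (P.cons (P.lf 62912010 0 0) (P.cons (P.lf 0 2961462 0) (P.cons (P.lf 0 1568478 0) (P.cons (P.lf 0 49913 0) (P.cons (P.lf 3707 0 0) P.nil)))))) (P.cons (P.cons (P.lf 0 862420642 0) (P.cons (P.lf 32648349 0 0) (P.cons (P.lf 459383 0 0) (P.cons (P.lf 0 1080894 0) (P.cons (P.lf 0 105953 0) P.nil))))) (P.cons (P.cons (P.lf 179109898 0 0) (P.cons (P.lf 0 17264119 0) (P.cons (P.lf 3392268 0 0) (P.cons (P.lf 85485 0 0) P.nil)))) (P.cons (P.cons (P.lf 80427113 0 0) (P.cons (P.lf 0 12216433 0) (P.cons (P.lf 1685571 0 0) P.nil))) (P.cons (P.cons (P.lf 0 19586910 0) (P.cons (P.lf 438183 0 0) P.nil)) (P.cons (P.cons (P.lf 0 6599077 0) P.nil) P.nil)))))) 9488451)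
 (EL.cons 1 (TM.mk (P.cons (P.cons (P.lf 224181487 0 0) (P.cons (P.lf 17741343 0 0) (P.cons (P.lf 0 835138 0) (P.cons (P.lf 0 442314 0) (P.cons (P.lf 0 14075 0) (P.cons (P.lf 1044 0 0) P.nil)))))) (P.cons (P.cons (P.lf 0 138332242 0) (P.cons (P.lf 17506351 0 0) (P.cons (P.lf 0 261131 0) (P.cons (P.lf 0 511730 0) (P.cons (P.lf 0 36463 0) P.nil))))) (P.cons (P.cons (P.lf 0 48291356 0) (P.cons (P.lf 623257 0 0) (P.cons (P.lf 961458 0 0) (P.cons (P.lf 0 148021 0) P.nil)))) (P.cons (P.cons (P.lf 33061978 0 0) (P.cons (P.lf 0 4870775 0) (P.cons (P.lf 920343 0 0) P.nil))) (P.cons (P.cons (P.lf 5810105 0 0) (P.cons (P.lf 0 1642800 0) P.nil)) (P.cons (P.cons (P.lf 0 2785545 0) P.nil) P.nil)))))) 4144467)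
 (EL.cons 5 (TM.mk (P.cons (P.cons (P.lf 63219742 0 0) (P.cons (P.lf 5003104 0 0) (P.cons (P.lf 0 235510 0) (P.cons (P.lf 0 124732 0) (P.cons (P.lf 0 3968 0) (P.cons (P.lf 294 0 0) P.nil)))))) (P.cons (P.cons (P.lf 0 9435718 0) (P.cons (P.lf 7277296 0 0) (P.cons (P.lf 0 183812 0) (P.cons (P.lf 0 202660 0) (P.cons (P.lf 0 12138 0) P.nil))))) (P.cons (P.cons (P.lf 0 27645430 0) (P.cons (P.lf 2819330 0 0) (P.cons (P.lf 220956 0 0) (P.cons (P.lf 0 117580 0) P.nil)))) (P.cons (P.cons (P.lf 1192166 0 0) (P.cons (P.lf 0 894844 0) (P.cons (P.lf 378312 0 0) P.nil))) (P.cons (P.cons (P.lf 4738466 0 0) (P.cons (P.lf 0 1014794 0) P.nil)) (P.cons (P.cons (P.lf 351258 0 0) P.nil) P.nil)))))) 1907570)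
 EL.nil)))
noncomputable def S82_140_512_660_6 : EL := (EL.cons 12 (TM.mk (P.lf 8589934592 0 0) 0)
 (EL.cons 3 (TM.mk (P.cons (P.lf 0 3255703297 0) (P.cons (P.lf 278383023 0 0) (P.cons (P.lf 69148875 0 0) (P.cons (P.lf 4729800 0 0) (P.cons (P.lf 0 250177 0) (P.cons (P.lf 0 82796 0) P.nil)))))) 14718)
 (EL.cons 7 (TM.mk (P.cons (P.lf 0 918116516 0) (P.cons (P.lf 0 350992016 0) (P.cons (P.lf 0 5087185 0) (P.cons (P.lf 3436187 0 0) (P.cons (P.lf 451667 0 0) (P.cons (P.lf 12370 0 0) P.nil)))))) 9470)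
 EL.nil)))
noncomputable def S82_140_512_660_7 : EL := (EL.cons 12 (TM.mk (P.cons (P.cons (P.lf 0 3447333940 0) (P.cons (P.lf 0 136408104 0) (P.cons (P.lf 9119928 0 0) (P.lf 3039968 0 0)))) (P.cons (P.cons (P.lf 1575163012 0 0) (P.cons (P.lf 0 156444704 0) (P.cons (P.lf 10459528 0 0) (P.lf 3486504 0 0)))) (P.cons (P.cons (P.lf 180266730 0 0) (P.cons (P.lf 0 62075608 0) (P.cons (P.lf 4150224 0 0) (P.lf 1383408 0 0)))) (P.cons (P.cons (P.lf 0 66083712 0) (P.cons (P.lf 0 7823568 0) (P.cons (P.lf 523064 0 0) P.nil))) (P.cons (P.cons (P.lf 0 14389720 0) (P.cons (P.lf 1028392 0 0) P.nil)) (P.cons (P.cons (P.lf 0 88080 0) P.nil) P.nil)))))) 1396684)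
 (EL.cons 3 (TM.mk (P.cons (P.cons (P.lf 2868227351 0 0) (P.cons (P.lf 0 103401090 0) (P.cons (P.lf 6913154 0 0) (P.lf 2304378 0 0)))) (P.cons (P.cons (P.lf 66918898 0 0) (P.cons (P.lf 0 109747944 0) (P.cons (P.lf 7337490 0 0) (P.lf 2445826 0 0)))) (P.cons (P.cons (P.lf 0 187674131 0) (P.cons (P.lf 0 34718712 0) (P.cons (P.lf 2321206 0 0) (P.lf 773734 0 0)))) (P.cons (P.cons (P.lf 0 77602689 0) (P.cons (P.lf 761992 0 0) (P.cons (P.lf 0 50944 0) P.nil))) (P.cons (P.cons (P.lf 0 4723965 0) (P.cons (P.lf 2450396 0 0) P.nil)) (P.cons (P.cons (P.lf 2541892 0 0) P.nil) P.nil)))))) 4520145)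
 (EL.cons 7 (TM.mk (P.cons (P.cons (P.lf 0 1600492966 0) (P.cons (P.lf 210135575 0 0) (P.cons (P.lf 0 14049177 0) (P.lf 0 4683059 0)))) (P.cons (P.cons (P.lf 0 84372963 0) (P.cons (P.lf 138372857 0 0) (P.cons (P.lf 0 9251288 0) (P.lf 0 3083763 0)))) (P.cons (P.cons (P.lf 256358981 0 0) (P.cons (P.lf 11408645 0 0) (P.cons (P.lf 0 762757 0) (P.lf 0 254252 0)))) (P.cons (P.cons (P.lf 19771332 0 0) (P.cons (P.lf 0 7598916 0) (P.cons (P.lf 508043 0 0) P.nil))) (P.cons (P.cons (P.lf 0 9258839 0) (P.cons (P.lf 0 1266394 0) P.nil)) (P.cons (P.cons (P.lf 0 1856533 0) P.nil) P.nil)))))) 2128403)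
 (EL.cons 10 (TM.mk (P.cons (P.cons (P.lf 0 546123168 0) (P.cons (P.lf 84553581 0 0) (P.cons (P.lf 40735248 0 0) (P.cons (P.lf 0 1541541 0) (P.lf 0 385383 0))))) (P.cons (P.cons (P.lf 0 417561102 0) (P.cons (P.lf 64648944 0 0) (P.cons (P.lf 31145820 0 0) (P.cons (P.lf 0 1178649 0) (P.lf 0 294660 0))))) (P.cons (P.cons (P.lf 0 85867929 0) (P.cons (P.lf 13294512 0 0) (P.cons (P.lf 6404874 0 0) (P.cons (P.lf 0 242379 0) P.nil)))) (P.cons (P.cons (P.lf 1774230 0 0) (P.cons (P.lf 0 274695 0) (P.cons (P.lf 0 132339 0) P.nil))) (P.cons (P.cons (P.lf 2083344 0 0) (P.cons (P.lf 0 322554 0) P.nil)) (P.cons (P.cons (P.lf 242784 0 0) P.nil) P.nil)))))) 328473)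
 EL.nil))))
noncomputable def S82_140_512_660_8 : EL := (EL.cons 12 (TM.mk (P.cons (P.cons (P.lf 1383492640 0 0) (P.cons (P.lf 109487278 0 0) (P.cons (P.lf 0 5153904 0) (P.cons (P.lf 0 2729662 0) (P.cons (P.lf 0 86866 0) (P.cons (P.lf 6454 0 0) P.nil)))))) (P.cons (P.cons (P.lf 0 1264296684 0) (P.cons (P.lf 75542400 0 0) (P.cons (P.lf 0 81906 0) (P.cons (P.lf 0 2347916 0) (P.cons (P.lf 0 199252 0) P.nil))))) (P.cons (P.cons (P.lf 144152352 0 0) (P.cons (P.lf 0 13276096 0) (P.cons (P.lf 5708392 0 0) (P.cons (P.lf 0 348742 0) P.nil)))) (P.cons (P.cons (P.lf 119153900 0 0) (P.cons (P.lf 0 20953866 0) (P.cons (P.lf 3910512 0 0) P.nil))) (P.cons (P.cons (P.lf 0 8903070 0) (P.cons (P.lf 0 3435986 0) P.nil)) (P.cons (P.cons (P.lf 0 7980318 0) P.nil) P.nil)))))) 9244880)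
 (EL.cons 3 (TM.mk (P.cons (P.cons (P.lf 0 1777805550 0) (P.cons (P.lf 33396683 0 0) (P.cons (P.lf 1872202 0 0) (P.cons (P.lf 0 1293175 0) (P.cons (P.lf 0 164615 0) (P.cons (P.lf 12231 0 0) P.nil)))))) (P.cons (P.cons (P.lf 474177294 0 0) (P.cons (P.lf 0 31350854 0) (P.cons (P.lf 11161032 0 0) (P.cons (P.lf 0 513447 0) (P.cons (P.lf 0 363520 0) P.nil))))) (P.cons (P.cons (P.lf 380034111 0 0) (P.cons (P.lf 0 63015921 0) (P.cons (P.lf 12456491 0 0) (P.cons (P.lf 302096 0 0) P.nil)))) (P.cons (P.cons (P.lf 2040940 0 0) (P.cons (P.lf 0 21430991 0) (P.cons (P.lf 5201546 0 0) P.nil))) (P.cons (P.cons (P.lf 0 50844976 0) (P.cons (P.lf 4589823 0 0) P.nil)) (P.cons (P.cons (P.lf 0 8223417 0) P.nil) P.nil)))))) 27727154)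
 (EL.cons 7 (TM.mk (P.cons (P.cons (P.lf 1432499250 0 0) (P.cons (P.lf 0 106130316 0) (P.cons (P.lf 653247 0 0) (P.cons (P.lf 3226653 0 0) (P.cons (P.lf 258350 0 0) (P.cons (P.lf 0 19193 0) P.nil)))))) (P.cons (P.cons (P.lf 0 597854131 0) (P.cons (P.lf 39527908 0 0) (P.cons (P.lf 0 14072095 0) (P.cons (P.lf 647368 0 0) (P.cons (P.lf 458334 0 0) P.nil))))) (P.cons (P.cons (P.lf 0 339317475 0) (P.cons (P.lf 70206369 0 0) (P.cons (P.lf 0 12413956 0) (P.cons (P.lf 0 532306 0) P.nil)))) (P.cons (P.cons (P.lf 116557254 0 0) (P.cons (P.lf 4245698 0 0) (P.cons (P.lf 0 2373477 0) P.nil))) (P.cons (P.cons (P.lf 36538367 0 0) (P.cons (P.lf 0 9752754 0) P.nil)) (P.cons (P.cons (P.lf 0 5843946 0) P.nil) P.nil)))))) 16354026)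
 (EL.cons 10 (TM.mk (P.cons (P.cons (P.lf 438343014 0 0) (P.cons (P.lf 0 50521638 0) (P.cons (P.lf 0 36540996 0) (P.cons (P.lf 0 263442 0) (P.cons (P.lf 504624 0 0) (P.cons (P.lf 37794 0 0) P.nil)))))) (P.cons (P.cons (P.lf 134864712 0 0) (P.cons (P.lf 12273888 0 0) (P.cons (P.lf 0 17409282 0) (P.cons (P.lf 0 2487978 0) (P.cons (P.lf 468486 0 0) P.nil))))) (P.cons (P.cons (P.lf 0 107139162 0) (P.cons (P.lf 42417882 0 0) (P.cons (P.lf 2265414 0 0) (P.cons (P.lf 0 2537352 0) P.nil)))) (P.cons (P.cons (P.lf 0 42038706 0) (P.cons (P.lf 16609896 0 0) (P.cons (P.lf 896382 0 0) P.nil))) (P.cons (P.cons (P.lf 3628926 0 0) (P.cons (P.lf 1178262 0 0) P.nil)) (P.cons (P.cons (P.lf 3375030 0 0) P.nil) P.nil)))))) 6507600)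
 EL.nil))))
noncomputable def S82_140_512_660_9 : EL := (EL.cons 3 (TM.mk (P.cons (P.lf 0 3255703297 0) (P.cons (P.lf 278383023 0 0) (P.cons (P.lf 69148875 0 0) (P.cons (P.lf 4729800 0 0) (P.cons (P.lf 0 250177 0) (P.cons (P.lf 0 82796 0) P.nil)))))) 14718)
 (EL.cons 7 (TM.mk (P.cons (P.lf 0 918116516 0) (P.cons (P.lf 0 350992016 0) (P.cons (P.lf 0 5087185 0) (P.cons (P.lf 3436187 0 0) (P.cons (P.lf 451667 0 0) (P.cons (P.lf 12370 0 0) P.nil)))))) 9470)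
 EL.nil))
noncomputable def S82_140_512_660_10 : EL := (EL.cons 3 (TM.mk (P.cons (P.cons (P.lf 1306586954 0 0) (P.cons (P.lf 51700545 0 0) (P.cons (P.lf 0 3456577 0) (P.lf 0 1152189 0)))) (P.cons (P.cons (P.lf 0 708729803 0) (P.cons (P.lf 54873972 0 0) (P.cons (P.lf 0 3668745 0) (P.lf 0 1222913 0)))) (P.cons (P.cons (P.lf 0 45026606 0) (P.cons (P.lf 17359356 0 0) (P.cons (P.lf 0 1160603 0) (P.lf 0 386867 0)))) (P.cons (P.cons (P.lf 41670597 0 0) (P.cons (P.lf 0 380996 0) (P.cons (P.lf 25472 0 0) P.nil))) (P.cons (P.cons (P.lf 5731122 0 0) (P.cons (P.lf 0 1225198 0) P.nil)) (P.cons (P.cons (P.lf 0 878321 0) P.nil) P.nil)))))) 1091822)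
 (EL.cons 7 (TM.mk (P.cons (P.cons (P.lf 368460806 0 0) (P.cons (P.lf 14579684 0 0) (P.cons (P.lf 0 974763 0) (P.lf 0 324920 0)))) (P.cons (P.cons (P.lf 0 27496890 0) (P.cons (P.lf 22295003 0 0) (P.cons (P.lf 0 1490591 0) (P.lf 0 496863 0)))) (P.cons (P.cons (P.lf 0 81588313 0) (P.cons (P.lf 13108064 0 0) (P.cons (P.lf 0 876373 0) (P.lf 0 292124 0)))) (P.cons (P.cons (P.lf 0 2614509 0) (P.cons (P.lf 3410751 0 0) (P.cons (P.lf 0 228034 0) P.nil))) (P.cons (P.cons (P.lf 4580332 0 0) (P.cons (P.lf 176768 0 0) P.nil)) (P.cons (P.cons (P.lf 786497 0 0) P.nil) P.nil)))))) 457474)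
 EL.nil))
noncomputable def S82_140_512_660_11 : EL := (EL.cons 3 (TM.mk (P.cons (P.cons (P.lf 0 524362728 0) (P.cons (P.lf 0 41497183 0) (P.cons (P.lf 1953400 0 0) (P.cons (P.lf 1034579 0 0) (P.cons (P.lf 32923 0 0) (P.cons (P.lf 0 2445 0) P.nil)))))) (P.cons (P.cons (P.lf 524022120 0 0) (P.cons (P.lf 0 25083338 0) (P.cons (P.lf 0 135984 0) (P.cons (P.lf 801429 0 0) (P.cons (P.lf 72704 0 0) P.nil))))) (P.cons (P.cons (P.lf 0 84472011 0) (P.cons (P.lf 8361375 0 0) (P.cons (P.lf 0 2207701 0) (P.cons (P.lf 34112 0 0) P.nil)))) (P.cons (P.cons (P.lf 0 49905062 0) (P.cons (P.lf 8179951 0 0) (P.cons (P.lf 0 1300636 0) P.nil))) (P.cons (P.cons (P.lf 7659914 0 0) (P.cons (P.lf 554745 0 0) P.nil)) (P.cons (P.cons (P.lf 3798165 0 0) P.nil) P.nil)))))) 4970752)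
 (EL.cons 7 (TM.mk (P.cons (P.cons (P.lf 0 147871608 0) (P.cons (P.lf 0 11702310 0) (P.cons (P.lf 550863 0 0) (P.cons (P.lf 291753 0 0) (P.cons (P.lf 9284 0 0) (P.cons (P.lf 0 689 0) P.nil)))))) (P.cons (P.cons (P.lf 78600923 0 0) (P.cons (P.lf 0 12547928 0) (P.cons (P.lf 219347 0 0) (P.cons (P.lf 362488 0 0) (P.cons (P.lf 24846 0 0) P.nil))))) (P.cons (P.cons (P.lf 35433483 0 0) (P.cons (P.lf 0 1732581 0) (P.cons (P.lf 0 603730 0) (P.cons (P.lf 134828 0 0) P.nil)))) (P.cons (P.cons (P.lf 0 17323512 0) (P.cons (P.lf 2781140 0 0) (P.cons (P.lf 0 653229 0) P.nil))) (P.cons (P.cons (P.lf 0 4435519 0) (P.cons (P.lf 1267278 0 0) P.nil)) (P.cons (P.cons (P.lf 1139358 0 0) P.nil) P.nil)))))) 2159900)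
 EL.nil))
noncomputable def S82_140_512_660_12 : EL := (EL.cons 4 (TM.mk (P.cons (P.lf 3255703297 0 0) (P.cons (P.lf 0 278383023 0) (P.cons (P.lf 0 69148875 0) (P.cons (P.lf 0 4729800 0) (P.cons (P.lf 250177 0 0) (P.cons (P.lf 82796 0 0) P.nil)))))) 14718)
 (EL.cons 8 (TM.mk (P.cons (P.lf 918116516 0 0) (P.cons (P.lf 350992016 0 0) (P.cons (P.lf 5087185 0 0) (P.cons (P.lf 0 3436187 0) (P.cons (P.lf 0 451667 0) (P.cons (P.lf 0 12370 0) P.nil)))))) 9470)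
 EL.nil))
noncomputable def S82_140_512_660_13 : EL := (EL.cons 4 (TM.mk (P.cons (P.cons (P.lf 0 1306586954 0) (P.cons (P.lf 0 51700545 0) (P.cons (P.lf 3456577 0 0) (P.lf 1152189 0 0)))) (P.cons (P.cons (P.lf 708729803 0 0) (P.cons (P.lf 0 54873972 0) (P.cons (P.lf 3668745 0 0) (P.lf 1222913 0 0)))) (P.cons (P.cons (P.lf 45026606 0 0) (P.cons (P.lf 0 17359356 0) (P.cons (P.lf 1160603 0 0) (P.lf 386867 0 0)))) (P.cons (P.cons (P.lf 0 41670597 0) (P.cons (P.lf 380996 0 0) (P.cons (P.lf 0 25472 0) P.nil))) (P.cons (P.cons (P.lf 0 5731122 0) (P.cons (P.lf 1225198 0 0) P.nil)) (P.cons (P.cons (P.lf 878321 0 0) P.nil) P.nil)))))) 1091822)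
 (EL.cons 8 (TM.mk (P.cons (P.cons (P.lf 0 368460806 0) (P.cons (P.lf 0 14579684 0) (P.cons (P.lf 974763 0 0) (P.lf 324920 0 0)))) (P.cons (P.cons (P.lf 27496890 0 0) (P.cons (P.lf 0 22295003 0) (P.cons (P.lf 1490591 0 0) (P.lf 496863 0 0)))) (P.cons (P.cons (P.lf 81588313 0 0) (P.cons (P.lf 0 13108064 0) (P.cons (P.lf 876373 0 0) (P.lf 292124 0 0)))) (P.cons (P.cons (P.lf 2614509 0 0) (P.cons (P.lf 0 3410751 0) (P.cons (P.lf 228034 0 0) P.nil))) (P.cons (P.cons (P.lf 0 4580332 0) (P.cons (P.lf 0 176768 0) P.nil)) (P.cons (P.cons (P.lf 0 786497 0) P.nil) P.nil)))))) 457474)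
 EL.nil))
noncomputable def S82_140_512_660_14 : EL := (EL.cons 4 (TM.mk (P.cons (P.cons (P.lf 524362728 0 0) (P.cons (P.lf 41497183 0 0) (P.cons (P.lf 0 1953400 0) (P.cons (P.lf 0 1034579 0) (P.cons (P.lf 0 32923 0) (P.cons (P.lf 2445 0 0) P.nil)))))) (P.cons (P.cons (P.lf 0 524022120 0) (P.cons (P.lf 25083338 0 0) (P.cons (P.lf 135984 0 0) (P.cons (P.lf 0 801429 0) (P.cons (P.lf 0 72704 0) P.nil))))) (P.cons (P.cons (P.lf 84472011 0 0) (P.cons (P.lf 0 8361375 0) (P.cons (P.lf 2207701 0 0) (P.cons (P.lf 0 34112 0) P.nil)))) (P.cons (P.cons (P.lf 49905062 0 0) (P.cons (P.lf 0 8179951 0) (P.cons (P.lf 1300636 0 0) P.nil))) (P.cons (P.cons (P.lf 0 7659914 0) (P.cons (P.lf 0 554745 0) P.nil)) (P.cons (P.cons (P.lf 0 3798165 0) P.nil) P.nil)))))) 4970752)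
 (EL.cons 8 (TM.mk (P.cons (P.cons (P.lf 147871608 0 0) (P.cons (P.lf 11702310 0 0) (P.cons (P.lf 0 550863 0) (P.cons (P.lf 0 291753 0) (P.cons (P.lf 0 9284 0) (P.cons (P.lf 689 0 0) P.nil)))))) (P.cons (P.cons (P.lf 0 78600923 0) (P.cons (P.lf 12547928 0 0) (P.cons (P.lf 0 219347 0) (P.cons (P.lf 0 362488 0) (P.cons (P.lf 0 24846 0) P.nil))))) (P.cons (P.cons (P.lf 0 35433483 0) (P.cons (P.lf 1732581 0 0) (P.cons (P.lf 603730 0 0) (P.cons (P.lf 0 134828 0) P.nil)))) (P.cons (P.cons (P.lf 17323512 0 0) (P.cons (P.lf 0 2781140 0) (P.cons (P.lf 653229 0 0) P.nil))) (P.cons (P.cons (P.lf 4435519 0 0) (P.cons (P.lf 0 1267278 0) P.nil)) (P.cons (P.cons (P.lf 0 1139358 0) P.nil) P.nil)))))) 2159900)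
 EL.nil))
noncomputable def S82_140_512_660_15 : EL := (EL.cons 4 (TM.mk (P.cons (P.lf 0 2632440120 0) (P.cons (P.lf 450180236 0 0) (P.cons (P.lf 92575781 0 0) (P.cons (P.lf 0 1912835 0) (P.cons (P.lf 0 2246092 0) (P.cons (P.lf 0 261750 0) P.nil)))))) 55630)
 (EL.cons 8 (TM.mk (P.cons (P.lf 0 742354732 0) (P.cons (P.lf 0 220323058 0) (P.cons (P.lf 35920386 0 0) (P.cons (P.lf 10236253 0 0) (P.cons (P.lf 570247 0 0) (P.cons (P.lf 0 114946 0) P.nil)))))) 34529)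
 EL.nil))
noncomputable def S82_140_512_660_16 : EL := (EL.cons 4 (TM.mk (P.cons (P.cons (P.lf 1056457423 0 0) (P.cons (P.lf 41803130 0 0) (P.cons (P.lf 0 2794859 0) (P.lf 0 931617 0)))) (P.cons (P.cons (P.lf 0 663386181 0) (P.cons (P.lf 40794615 0 0) (P.cons (P.lf 0 2727432 0) (P.lf 0 909142 0)))) (P.cons (P.cons (P.lf 0 9845679 0) (P.cons (P.lf 9354426 0 0) (P.cons (P.lf 0 625412 0) (P.lf 0 208470 0)))) (P.cons (P.cons (P.lf 47442743 0 0) (P.cons (P.lf 0 2511334 0) (P.cons (P.lf 167901 0 0) P.nil))) (P.cons (P.cons (P.lf 3439935 0 0) (P.cons (P.lf 0 1323671 0) P.nil)) (P.cons (P.cons (P.lf 0 1786310 0) P.nil) P.nil)))))) 1309459)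
 (EL.cons 8 (TM.mk (P.cons (P.cons (P.lf 297923649 0 0) (P.cons (P.lf 11788588 0 0) (P.cons (P.lf 0 788157 0) (P.lf 0 262718 0)))) (P.cons (P.cons (P.lf 0 47707296 0) (P.cons (P.lf 17018909 0 0) (P.cons (P.lf 0 1137844 0) (P.lf 0 379280 0)))) (P.cons (P.cons (P.lf 0 70395897 0) (P.cons (P.lf 8806896 0 0) (P.cons (P.lf 0 588807 0) (P.lf 0 196269 0)))) (P.cons (P.cons (P.lf 3566187 0 0) (P.cons (P.lf 1451546 0 0) (P.cons (P.lf 0 97046 0) P.nil))) (P.cons (P.cons (P.lf 5340579 0 0) (P.cons (P.lf 0 343273 0) P.nil)) (P.cons (P.cons (P.lf 465867 0 0) P.nil) P.nil)))))) 671841)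
 EL.nil))
noncomputable def S82_140_512_660_17 : EL := (EL.cons 4 (TM.mk (P.cons (P.cons (P.lf 0 423980123 0) (P.cons (P.lf 0 33553072 0) (P.cons (P.lf 1579446 0 0) (P.cons (P.lf 836521 0 0) (P.cons (P.lf 26620 0 0) (P.cons (P.lf 0 1977 0) P.nil)))))) (P.cons (P.cons (P.lf 459957675 0 0) (P.cons (P.lf 0 17412452 0) (P.cons (P.lf 0 245004 0) (P.cons (P.lf 576477 0 0) (P.cons (P.lf 56508 0 0) P.nil))))) (P.cons (P.cons (P.lf 0 95525279 0) (P.cons (P.lf 9207530 0 0) (P.cons (P.lf 0 1809210 0) (P.cons (P.lf 0 45592 0) P.nil)))) (P.cons (P.cons (P.lf 0 42894460 0) (P.cons (P.lf 6515430 0 0) (P.cons (P.lf 0 898971 0) P.nil))) (P.cons (P.cons (P.lf 10446352 0 0) (P.cons (P.lf 0 233698 0) P.nil)) (P.cons (P.cons (P.lf 3519508 0 0) P.nil) P.nil)))))) 5060517)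
 (EL.cons 8 (TM.mk (P.cons (P.cons (P.lf 0 119563460 0) (P.cons (P.lf 0 9462050 0) (P.cons (P.lf 445407 0 0) (P.cons (P.lf 235901 0 0) (P.cons (P.lf 7507 0 0) (P.cons (P.lf 0 557 0) P.nil)))))) (P.cons (P.cons (P.lf 73777196 0 0) (P.cons (P.lf 0 9336721 0) (P.cons (P.lf 139270 0 0) (P.cons (P.lf 272923 0 0) (P.cons (P.lf 19447 0 0) P.nil))))) (P.cons (P.cons (P.lf 25755390 0 0) (P.cons (P.lf 0 332404 0) (P.cons (P.lf 0 512778 0) (P.cons (P.lf 78945 0 0) P.nil)))) (P.cons (P.cons (P.lf 0 17633055 0) (P.cons (P.lf 2597747 0 0) (P.cons (P.lf 0 490850 0) P.nil))) (P.cons (P.cons (P.lf 0 3098723 0) (P.cons (P.lf 876160 0 0) P.nil)) (P.cons (P.cons (P.lf 1485624 0 0) P.nil) P.nil)))))) 2210371)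
 EL.nil))
noncomputable def S82_140_512_660_18 : EL := (EL.cons 4 (TM.mk (P.cons (P.lf 2128492786 0 0) (P.cons (P.lf 0 545998394 0) (P.cons (P.lf 0 88936838 0) (P.cons (P.lf 12585940 0 0) (P.cons (P.lf 3966058 0 0) (P.cons (P.lf 158407 0 0) P.nil)))))) 145112)
 (EL.cons 8 (TM.mk (P.cons (P.lf 600240317 0 0) (P.cons (P.lf 126820692 0 0) (P.cons (P.lf 0 57025083 0) (P.cons (P.lf 0 10448908 0) (P.cons (P.lf 650816 0 0) (P.cons (P.lf 379305 0 0) P.nil)))))) 67460)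
 EL.nil))
noncomputable def S82_140_512_660_19 : EL := (EL.cons 4 (TM.mk (P.cons (P.cons (P.lf 0 854212024 0) (P.cons (P.lf 0 33800450 0) (P.cons (P.lf 2259819 0 0) (P.lf 753270 0 0)))) (P.cons (P.cons (P.lf 609429774 0 0) (P.cons (P.lf 0 30094852 0) (P.cons (P.lf 2012070 0 0) (P.lf 670689 0 0)))) (P.cons (P.cons (P.lf 0 19760925 0) (P.cons (P.lf 0 4025317 0) (P.cons (P.lf 269121 0 0) (P.lf 89707 0 0)))) (P.cons (P.cons (P.lf 0 49192691 0) (P.cons (P.lf 3426992 0 0) (P.cons (P.lf 0 229120 0) P.nil))) (P.cons (P.cons (P.lf 0 515322 0) (P.cons (P.lf 1102613 0 0) P.nil)) (P.cons (P.cons (P.lf 2504849 0 0) P.nil) P.nil)))))) 1617674)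
 (EL.cons 8 (TM.mk (P.cons (P.cons (P.lf 0 240889938 0) (P.cons (P.lf 0 9531812 0) (P.cons (P.lf 637274 0 0) (P.lf 212424 0 0)))) (P.cons (P.cons (P.lf 59171937 0 0) (P.cons (P.lf 0 12945824 0) (P.cons (P.lf 865527 0 0) (P.lf 288508 0 0)))) (P.cons (P.cons (P.lf 58737481 0 0) (P.cons (P.lf 0 5741839 0) (P.cons (P.lf 383885 0 0) (P.lf 127961 0 0)))) (P.cons (P.cons (P.lf 0 8219792 0) (P.cons (P.lf 0 258663 0) (P.cons (P.lf 17293 0 0) P.nil))) (P.cons (P.cons (P.lf 0 5355117 0) (P.cons (P.lf 548415 0 0) P.nil)) (P.cons (P.cons (P.lf 0 32060 0) P.nil) P.nil)))))) 815379)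
 EL.nil))
noncomputable def S82_140_512_660_20 : EL := (EL.cons 4 (TM.mk (P.cons (P.cons (P.lf 342814496 0 0) (P.cons (P.lf 27129761 0 0) (P.cons (P.lf 0 1277081 0) (P.cons (P.lf 0 676380 0) (P.cons (P.lf 0 21524 0) (P.cons (P.lf 1598 0 0) P.nil)))))) (P.cons (P.cons (P.lf 0 401217389 0) (P.cons (P.lf 11759295 0 0) (P.cons (P.lf 307299 0 0) (P.cons (P.lf 0 408283 0) (P.cons (P.lf 0 43850 0) P.nil))))) (P.cons (P.cons (P.lf 101757205 0 0) (P.cons (P.lf 0 9224930 0) (P.cons (P.lf 1473045 0 0) (P.cons (P.lf 91086 0 0) P.nil)))) (P.cons (P.cons (P.lf 35479474 0 0) (P.cons (P.lf 0 4969994 0) (P.cons (P.lf 599438 0 0) P.nil))) (P.cons (P.cons (P.lf 0 12485981 0) (P.cons (P.lf 779172 0 0) P.nil)) (P.cons (P.cons (P.lf 0 2992220 0) P.nil) P.nil)))))) 5114407)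
 (EL.cons 8 (TM.mk (P.cons (P.cons (P.lf 96674550 0 0) (P.cons (P.lf 7650660 0 0) (P.cons (P.lf 0 360140 0) (P.cons (P.lf 0 190740 0) (P.cons (P.lf 0 6069 0) (P.cons (P.lf 450 0 0) P.nil)))))) (P.cons (P.cons (P.lf 0 67919766 0) (P.cons (P.lf 6895145 0 0) (P.cons (P.lf 0 81814 0) (P.cons (P.lf 0 204365 0) (P.cons (P.lf 0 15205 0) P.nil))))) (P.cons (P.cons (P.lf 0 17777400 0) (P.cons (P.lf 0 539239 0) (P.cons (P.lf 431891 0 0) (P.cons (P.lf 0 40912 0) P.nil)))) (P.cons (P.cons (P.lf 17164637 0 0) (P.cons (P.lf 0 2294880 0) (P.cons (P.lf 364346 0 0) P.nil))) (P.cons (P.cons (P.lf 1822809 0 0) (P.cons (P.lf 0 544918 0) P.nil)) (P.cons (P.cons (P.lf 0 1690147 0) P.nil) P.nil)))))) 2143629)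
 EL.nil))
noncomputable def S82_140_512_660_21 : EL := (EL.cons 4 (TM.mk (P.cons (P.cons (P.lf 0 1561640397 0) (P.cons (P.lf 155101635 0 0) (P.cons (P.lf 0 10369731 0) (P.lf 0 3456567 0)))) (P.cons (P.cons (P.lf 0 775648701 0) (P.cons (P.lf 164621916 0 0) (P.cons (P.lf 0 11006235 0) (P.lf 0 3668739 0)))) (P.cons (P.cons (P.lf 142647525 0 0) (P.cons (P.lf 52078068 0 0) (P.cons (P.lf 0 3481809 0) (P.lf 0 1160601 0)))) (P.cons (P.cons (P.lf 119273286 0 0) (P.cons (P.lf 0 1142988 0) (P.cons (P.lf 76416 0 0) P.nil))) (P.cons (P.cons (P.lf 10455087 0 0) (P.cons (P.lf 0 3675594 0) P.nil)) (P.cons (P.cons (P.lf 0 3420213 0) P.nil) P.nil)))))) 3428304)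
 (EL.cons 8 (TM.mk (P.cons (P.cons (P.lf 1968953772 0 0) (P.cons (P.lf 0 195555891 0) (P.cons (P.lf 13074414 0 0) (P.lf 4358139 0 0)))) (P.cons (P.cons (P.lf 56876073 0 0) (P.cons (P.lf 0 116077854 0) (P.cons (P.lf 7760697 0 0) (P.lf 2586900 0 0)))) (P.cons (P.cons (P.lf 0 337947294 0) (P.cons (P.lf 1699419 0 0) (P.cons (P.lf 0 113616 0) (P.lf 0 37872 0)))) (P.cons (P.cons (P.lf 0 22385841 0) (P.cons (P.lf 11009667 0 0) (P.cons (P.lf 0 736077 0) P.nil))) (P.cons (P.cons (P.lf 13839171 0 0) (P.cons (P.lf 1443162 0 0) P.nil)) (P.cons (P.cons (P.lf 2643030 0 0) P.nil) P.nil)))))) 1670910)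
 (EL.cons 11 (TM.mk (P.cons (P.cons (P.lf 546123168 0 0) (P.cons (P.lf 0 84553581 0) (P.cons (P.lf 0 40735248 0) (P.cons (P.lf 1541541 0 0) (P.lf 385383 0 0))))) (P.cons (P.cons (P.lf 417561102 0 0) (P.cons (P.lf 0 64648944 0) (P.cons (P.lf 0 31145820 0) (P.cons (P.lf 1178649 0 0) (P.lf 294660 0 0))))) (P.cons (P.cons (P.lf 85867929 0 0) (P.cons (P.lf 0 13294512 0) (P.cons (P.lf 0 6404874 0) (P.cons (P.lf 242379 0 0) P.nil)))) (P.cons (P.cons (P.lf 0 1774230 0) (P.cons (P.lf 274695 0 0) (P.cons (P.lf 132339 0 0) P.nil))) (P.cons (P.cons (P.lf 0 2083344 0) (P.cons (P.lf 322554 0 0) P.nil)) (P.cons (P.cons (P.lf 0 242784 0) P.nil) P.nil)))))) 328473)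
 EL.nil)))
noncomputable def S82_140_512_660_22 : EL := (EL.cons 4 (TM.mk (P.cons (P.cons (P.lf 626721411 0 0) (P.cons (P.lf 0 37446933 0) (P.cons (P.lf 40599 0 0) (P.cons (P.lf 1163877 0 0) (P.cons (P.lf 98769 0 0) (P.cons (P.lf 0 7338 0) P.nil)))))) (P.cons (P.cons (P.lf 24922413 0 0) (P.cons (P.lf 3133758 0 0) (P.cons (P.lf 0 5648508 0) (P.cons (P.lf 657438 0 0) (P.cons (P.lf 218112 0 0) P.nil))))) (P.cons (P.cons (P.lf 0 232253061 0) (P.cons (P.lf 35688648 0 0) (P.cons (P.lf 0 7332096 0) (P.cons (P.lf 0 133992 0) P.nil)))) (P.cons (P.cons (P.lf 0 25973001 0) (P.cons (P.lf 14805471 0 0) (P.cons (P.lf 0 3251091 0) P.nil))) (P.cons (P.cons (P.lf 29252445 0 0) (P.cons (P.lf 0 2017539 0) P.nil)) (P.cons (P.cons (P.lf 6010791 0 0) P.nil) P.nil)))))) 11378190)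
 (EL.cons 8 (TM.mk (P.cons (P.cons (P.lf 0 790185429 0) (P.cons (P.lf 47214003 0 0) (P.cons (P.lf 0 51192 0) (P.cons (P.lf 0 1467450 0) (P.cons (P.lf 0 124533 0) (P.cons (P.lf 9252 0 0) P.nil)))))) (P.cons (P.cons (P.lf 338227527 0 0) (P.cons (P.lf 0 26037918 0) (P.cons (P.lf 7145721 0 0) (P.cons (P.lf 0 142440 0) (P.cons (P.lf 0 216744 0) P.nil))))) (P.cons (P.cons (P.lf 187375479 0 0) (P.cons (P.lf 0 35969475 0) (P.cons (P.lf 5905113 0 0) (P.cons (P.lf 333567 0 0) P.nil)))) (P.cons (P.cons (P.lf 0 66940383 0) (P.cons (P.lf 0 732279 0) (P.cons (P.lf 860124 0 0) P.nil))) (P.cons (P.cons (P.lf 0 20486943 0) (P.cons (P.lf 5510016 0 0) P.nil)) (P.cons (P.cons (P.lf 3491652 0 0) P.nil) P.nil)))))) 7097052)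
 (EL.cons 11 (TM.mk (P.cons (P.cons (P.lf 0 219171507 0) (P.cons (P.lf 25260819 0 0) (P.cons (P.lf 18270498 0 0) (P.cons (P.lf 131721 0 0) (P.cons (P.lf 0 252312 0) (P.cons (P.lf 0 18897 0) P.nil)))))) (P.cons (P.cons (P.lf 0 67432356 0) (P.cons (P.lf 0 6136944 0) (P.cons (P.lf 8704641 0 0) (P.cons (P.lf 1243989 0 0) (P.cons (P.lf 0 234243 0) P.nil))))) (P.cons (P.cons (P.lf 53569581 0 0) (P.cons (P.lf 0 21208941 0) (P.cons (P.lf 0 1132707 0) (P.cons (P.lf 1268676 0 0) P.nil)))) (P.cons (P.cons (P.lf 21019353 0 0) (P.cons (P.lf 0 8304948 0) (P.cons (P.lf 0 448191 0) P.nil))) (P.cons (P.cons (P.lf 0 1814463 0) (P.cons (P.lf 0 589131 0) P.nil)) (P.cons (P.cons (P.lf 0 1687515 0) P.nil) P.nil)))))) 3253800)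
 EL.nil)))
noncomputable def S82_140_512_660_23 : EL := (EL.cons 4 (TM.mk (P.cons (P.cons (P.lf 1262684112 0 0) (P.cons (P.lf 0 125409390 0) (P.cons (P.lf 8384577 0 0) (P.lf 2794851 0 0)))) (P.cons (P.cons (P.lf 519193176 0 0) (P.cons (P.lf 0 122383845 0) (P.cons (P.lf 8182296 0 0) (P.lf 2727426 0 0)))) (P.cons (P.cons (P.lf 0 195784152 0) (P.cons (P.lf 0 28063278 0) (P.cons (P.lf 1876236 0 0) (P.lf 625410 0 0)))) (P.cons (P.cons (P.lf 0 101732526 0) (P.cons (P.lf 7534002 0 0) (P.cons (P.lf 0 503703 0) P.nil))) (P.cons (P.cons (P.lf 1428258 0 0) (P.cons (P.lf 3971013 0 0) P.nil)) (P.cons (P.cons (P.lf 5784474 0 0) P.nil) P.nil)))))) 4437597)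
 (EL.cons 8 (TM.mk (P.cons (P.cons (P.lf 0 1592022498 0) (P.cons (P.lf 158119191 0 0) (P.cons (P.lf 0 10571481 0) (P.lf 0 3523827 0)))) (P.cons (P.cons (P.lf 90140025 0 0) (P.cons (P.lf 80336037 0 0) (P.cons (P.lf 0 5371080 0) (P.lf 0 1790361 0)))) (P.cons (P.cons (P.lf 310997265 0 0) (P.cons (P.lf 0 12757722 0) (P.cons (P.lf 852948 0 0) (P.lf 284316 0 0)))) (P.cons (P.cons (P.lf 0 1974765 0) (P.cons (P.lf 0 11007663 0) (P.cons (P.lf 735942 0 0) P.nil))) (P.cons (P.cons (P.lf 0 18596727 0) (P.cons (P.lf 0 500724 0) P.nil)) (P.cons (P.cons (P.lf 0 2005686 0) P.nil) P.nil)))))) 2530173)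
 (EL.cons 11 (TM.mk (P.cons (P.cons (P.lf 0 441574800 0) (P.cons (P.lf 68366868 0 0) (P.cons (P.lf 32937000 0 0) (P.cons (P.lf 0 1246431 0) (P.lf 0 311604 0))))) (P.cons (P.cons (P.lf 0 299866902 0) (P.cons (P.lf 46426926 0 0) (P.cons (P.lf 22367025 0 0) (P.cons (P.lf 0 846432 0) (P.lf 0 211605 0))))) (P.cons (P.cons (P.lf 0 31181865 0) (P.cons (P.lf 4827735 0 0) (P.cons (P.lf 2325849 0 0) (P.cons (P.lf 0 88014 0) P.nil)))) (P.cons (P.cons (P.lf 15183654 0 0) (P.cons (P.lf 0 2350809 0) (P.cons (P.lf 0 1132545 0) P.nil))) (P.cons (P.cons (P.lf 3493044 0 0) (P.cons (P.lf 0 540810 0) P.nil)) (P.cons (P.cons (P.lf 85491 0 0) P.nil) P.nil)))))) 683802)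
 EL.nil)))
noncomputable def S82_140_512_660_24 : EL := (EL.cons 4 (TM.mk (P.cons (P.cons (P.lf 0 506743530 0) (P.cons (P.lf 30278193 0 0) (P.cons (P.lf 0 32826 0) (P.cons (P.lf 0 941067 0) (P.cons (P.lf 0 79860 0) (P.cons (P.lf 5934 0 0) P.nil)))))) (P.cons (P.cons (P.lf 23178411 0 0) (P.cons (P.lf 0 5122812 0) (P.cons (P.lf 4569978 0 0) (P.cons (P.lf 0 451113 0) (P.cons (P.lf 0 169527 0) P.nil))))) (P.cons (P.cons (P.lf 200277096 0 0) (P.cons (P.lf 0 29282934 0) (P.cons (P.lf 5538633 0 0) (P.cons (P.lf 173781 0 0) P.nil)))) (P.cons (P.cons (P.lf 6107664 0 0) (P.cons (P.lf 0 9493908 0) (P.cons (P.lf 2024835 0 0) P.nil))) (P.cons (P.cons (P.lf 0 29446353 0) (P.cons (P.lf 3273816 0 0) P.nil)) (P.cons (P.cons (P.lf 0 3570966 0) P.nil) P.nil)))))) 10409598)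
 (EL.cons 8 (TM.mk (P.cons (P.cons (P.lf 638914434 0 0) (P.cons (P.lf 0 38175480 0) (P.cons (P.lf 41391 0 0) (P.cons (P.lf 1186524 0 0) (P.cons (P.lf 100692 0 0) (P.cons (P.lf 0 7482 0) P.nil)))))) (P.cons (P.cons (P.lf 0 328109334 0) (P.cons (P.lf 24317532 0 0) (P.cons (P.lf 0 5781303 0) (P.cons (P.lf 13716 0 0) (P.cons (P.lf 166641 0 0) P.nil))))) (P.cons (P.cons (P.lf 0 141690819 0) (P.cons (P.lf 28094205 0 0) (P.cons (P.lf 0 4281498 0) (P.cons (P.lf 0 304761 0) P.nil)))) (P.cons (P.cons (P.lf 71960391 0 0) (P.cons (P.lf 0 2286429 0) (P.cons (P.lf 0 164544 0) P.nil))) (P.cons (P.cons (P.lf 15601164 0 0) (P.cons (P.lf 0 5157054 0) P.nil)) (P.cons (P.cons (P.lf 0 5173881 0) P.nil) P.nil)))))) 6140412)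
 (EL.cons 11 (TM.mk (P.cons (P.cons (P.lf 177213897 0 0) (P.cons (P.lf 0 20424957 0) (P.cons (P.lf 0 14772843 0) (P.cons (P.lf 0 106503 0) (P.cons (P.lf 204012 0 0) (P.cons (P.lf 15279 0 0) P.nil)))))) (P.cons (P.cons (P.lf 39370386 0 0) (P.cons (P.lf 6708567 0 0) (P.cons (P.lf 0 5775075 0) (P.cons (P.lf 0 996735 0) (P.cons (P.lf 171954 0 0) P.nil))))) (P.cons (P.cons (P.lf 0 51740346 0) (P.cons (P.lf 17158278 0 0) (P.cons (P.lf 1831443 0 0) (P.cons (P.lf 0 937536 0) P.nil)))) (P.cons (P.cons (P.lf 0 14707302 0) (P.cons (P.lf 5173026 0 0) (P.cons (P.lf 455028 0 0) P.nil))) (P.cons (P.cons (P.lf 3774699 0 0) (P.cons (P.lf 0 470835 0) P.nil)) (P.cons (P.cons (P.lf 1671609 0 0) P.nil) P.nil)))))) 3005055)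
 EL.nil)))
noncomputable def S82_140_512_660_25 : EL := (EL.cons 4 (TM.mk (P.cons (P.cons (P.lf 0 1020959226 0) (P.cons (P.lf 101401350 0 0) (P.cons (P.lf 0 6779454 0) (P.lf 0 2259810 0)))) (P.cons (P.cons (P.lf 0 332501805 0) (P.cons (P.lf 90284556 0 0) (P.cons (P.lf 0 6036213 0) (P.lf 0 2012067 0)))) (P.cons (P.cons (P.lf 215883765 0 0) (P.cons (P.lf 12075951 0 0) (P.cons (P.lf 0 807363 0) (P.lf 0 269121 0)))) (P.cons (P.cons (P.lf 79120647 0 0) (P.cons (P.lf 0 10280976 0) (P.cons (P.lf 687360 0 0) P.nil))) (P.cons (P.cons (P.lf 0 11019177 0) (P.cons (P.lf 0 3307839 0) P.nil)) (P.cons (P.cons (P.lf 0 6613650 0) P.nil) P.nil)))))) 4795434)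
 (EL.cons 8 (TM.mk (P.cons (P.cons (P.lf 1287249948 0 0) (P.cons (P.lf 0 127849272 0) (P.cons (P.lf 8547705 0 0) (P.lf 2849235 0 0)))) (P.cons (P.cons (P.lf 0 182951790 0) (P.cons (P.lf 0 54024804 0) (P.cons (P.lf 3611973 0 0) (P.lf 1203990 0 0)))) (P.cons (P.cons (P.lf 0 272569041 0) (P.cons (P.lf 18585054 0 0) (P.cons (P.lf 0 1242549 0) (P.lf 0 414183 0)))) (P.cons (P.cons (P.lf 22776111 0 0) (P.cons (P.lf 9583725 0 0) (P.cons (P.lf 0 640743 0) P.nil))) (P.cons (P.cons (P.lf 20445741 0 0) (P.cons (P.lf 0 490719 0) P.nil)) (P.cons (P.cons (P.lf 694533 0 0) P.nil) P.nil)))))) 3028812)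
 (EL.cons 11 (TM.mk (P.cons (P.cons (P.lf 357040896 0 0) (P.cons (P.lf 0 55278897 0) (P.cons (P.lf 0 26631627 0) (P.cons (P.lf 1007817 0 0) (P.lf 251952 0 0))))) (P.cons (P.cons (P.lf 211931949 0 0) (P.cons (P.lf 0 32812386 0) (P.cons (P.lf 0 15807969 0) (P.cons (P.lf 598218 0 0) (P.lf 149553 0 0))))) (P.cons (P.cons (P.lf 0 3102756 0) (P.cons (P.lf 480384 0 0) (P.cons (P.lf 231435 0 0) (P.cons (P.lf 0 8757 0) P.nil)))) (P.cons (P.cons (P.lf 0 20101167 0) (P.cons (P.lf 3112164 0 0) (P.cons (P.lf 1499340 0 0) P.nil))) (P.cons (P.cons (P.lf 0 2634891 0) (P.cons (P.lf 407946 0 0) P.nil)) (P.cons (P.cons (P.lf 424209 0 0) P.nil) P.nil)))))) 898140)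
 EL.nil)))
noncomputable def S82_140_512_660_26 : EL := (EL.cons 4 (TM.mk (P.cons (P.cons (P.lf 409733898 0 0) (P.cons (P.lf 0 24481815 0) (P.cons (P.lf 26544 0 0) (P.cons (P.lf 760911 0 0) (P.cons (P.lf 64572 0 0) (P.cons (P.lf 0 4797 0) P.nil)))))) (P.cons (P.cons (P.lf 0 53776011 0) (P.cons (P.lf 6235464 0 0) (P.cons (P.lf 0 3697383 0) (P.cons (P.lf 299688 0 0) (P.cons (P.lf 131553 0 0) P.nil))))) (P.cons (P.cons (P.lf 0 169036554 0) (P.cons (P.lf 23842887 0 0) (P.cons (P.lf 0 4162941 0) (P.cons (P.lf 0 187863 0) P.nil)))) (P.cons (P.cons (P.lf 8710959 0 0) (P.cons (P.lf 5599470 0 0) (P.cons (P.lf 0 1175838 0) P.nil))) (P.cons (P.cons (P.lf 27729621 0 0) (P.cons (P.lf 0 3814251 0) P.nil)) (P.cons (P.cons (P.lf 1200639 0 0) P.nil) P.nil)))))) 9857328)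
 (EL.cons 8 (TM.mk (P.cons (P.cons (P.lf 0 516602352 0) (P.cons (P.lf 30867267 0 0) (P.cons (P.lf 0 33468 0) (P.cons (P.lf 0 959379 0) (P.cons (P.lf 0 81414 0) (P.cons (P.lf 6048 0 0) P.nil)))))) (P.cons (P.cons (P.lf 309469692 0 0) (P.cons (P.lf 0 22301592 0) (P.cons (P.lf 4677408 0 0) (P.cons (P.lf 70941 0 0) (P.cons (P.lf 0 127779 0) P.nil))))) (P.cons (P.cons (P.lf 102853629 0 0) (P.cons (P.lf 0 21690279 0) (P.cons (P.lf 3062868 0 0) (P.cons (P.lf 267741 0 0) P.nil)))) (P.cons (P.cons (P.lf 0 72864804 0) (P.cons (P.lf 4163844 0 0) (P.cons (P.lf 0 262200 0) P.nil))) (P.cons (P.cons (P.lf 0 10497792 0) (P.cons (P.lf 4525131 0 0) P.nil)) (P.cons (P.cons (P.lf 6338634 0 0) P.nil) P.nil)))))) 5669928)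
 (EL.cons 11 (TM.mk (P.cons (P.cons (P.lf 0 143288541 0) (P.cons (P.lf 16514856 0 0) (P.cons (P.lf 11944770 0 0) (P.cons (P.lf 86115 0 0) (P.cons (P.lf 0 164955 0) (P.cons (P.lf 0 12354 0) P.nil)))))) (P.cons (P.cons (P.lf 0 19581357 0) (P.cons (P.lf 0 6836418 0) (P.cons (P.lf 3648159 0 0) (P.cons (P.lf 798558 0 0) (P.cons (P.lf 0 124932 0) P.nil))))) (P.cons (P.cons (P.lf 47600616 0 0) (P.cons (P.lf 0 13760496 0) (P.cons (P.lf 0 2133810 0) (P.cons (P.lf 687315 0 0) P.nil)))) (P.cons (P.cons (P.lf 9198879 0 0) (P.cons (P.lf 0 2905224 0) (P.cons (P.lf 0 357828 0) P.nil))) (P.cons (P.cons (P.lf 0 4922220 0) (P.cons (P.lf 1042161 0 0) P.nil)) (P.cons (P.cons (P.lf 0 1410066 0) P.nil) P.nil)))))) 2954292)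
 EL.nil)))
noncomputable def S82_140_512_660_27 : EL := (EL.cons 13 (TM.mk (P.lf 0 4294967296 0) 0)
 EL.nil)
noncomputable def S82_140_512_660_28 : EL := (EL.cons 13 (TM.mk (P.cons (P.cons (P.lf 1723666970 0 0) (P.cons (P.lf 68204052 0 0) (P.cons (P.lf 0 4559964 0) (P.lf 0 1519984 0)))) (P.cons (P.cons (P.lf 0 787581506 0) (P.cons (P.lf 78222352 0 0) (P.cons (P.lf 0 5229764 0) (P.lf 0 1743252 0)))) (P.cons (P.cons (P.lf 0 90133365 0) (P.cons (P.lf 31037804 0 0) (P.cons (P.lf 0 2075112 0) (P.lf 0 691704 0)))) (P.cons (P.cons (P.lf 33041856 0 0) (P.cons (P.lf 3911784 0 0) (P.cons (P.lf 0 261532 0) P.nil))) (P.cons (P.cons (P.lf 7194860 0 0) (P.cons (P.lf 0 514196 0) P.nil)) (P.cons (P.cons (P.lf 44040 0 0) P.nil) P.nil)))))) 698342)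
 EL.nil)
noncomputable def S82_140_512_660_29 : EL := (EL.cons 13 (TM.mk (P.cons (P.cons (P.lf 0 691746320 0) (P.cons (P.lf 0 54743639 0) (P.cons (P.lf 2576952 0 0) (P.cons (P.lf 1364831 0 0) (P.cons (P.lf 43433 0 0) (P.cons (P.lf 0 3227 0) P.nil)))))) (P.cons (P.cons (P.lf 632148342 0 0) (P.cons (P.lf 0 37771200 0) (P.cons (P.lf 40953 0 0) (P.cons (P.lf 1173958 0 0) (P.cons (P.lf 99626 0 0) P.nil))))) (P.cons (P.cons (P.lf 0 72076176 0) (P.cons (P.lf 6638048 0 0) (P.cons (P.lf 0 2854196 0) (P.cons (P.lf 174371 0 0) P.nil)))) (P.cons (P.cons (P.lf 0 59576950 0) (P.cons (P.lf 10476933 0 0) (P.cons (P.lf 0 1955256 0) P.nil))) (P.cons (P.cons (P.lf 4451535 0 0) (P.cons (P.lf 1717993 0 0) P.nil)) (P.cons (P.cons (P.lf 3990159 0 0) P.nil) P.nil)))))) 4622440)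
 EL.nil)
noncomputable def S82_140_512_660_30 : EL := (EL.cons 13 (TM.mk (P.cons (P.lf 3472750184 0 0) (P.cons (P.lf 0 296941892 0) (P.cons (P.lf 0 73758800 0) (P.cons (P.lf 0 5045120 0) (P.cons (P.lf 266856 0 0) (P.cons (P.lf 88316 0 0) P.nil)))))) 15692)
 EL.nil)
noncomputable def S82_140_512_660_31 : EL := (EL.cons 13 (TM.mk (P.cons (P.cons (P.lf 0 1393692751 0) (P.cons (P.lf 0 55147249 0) (P.cons (P.lf 3687016 0 0) (P.lf 1229002 0 0)))) (P.cons (P.cons (P.lf 755978457 0 0) (P.cons (P.lf 0 58532237 0) (P.cons (P.lf 3913328 0 0) (P.lf 1304441 0 0)))) (P.cons (P.cons (P.lf 48028380 0 0) (P.cons (P.lf 0 18516647 0) (P.cons (P.lf 1237977 0 0) (P.lf 412659 0 0)))) (P.cons (P.cons (P.lf 0 44448637 0) (P.cons (P.lf 406396 0 0) (P.cons (P.lf 0 27171 0) P.nil))) (P.cons (P.cons (P.lf 0 6113197 0) (P.cons (P.lf 1306878 0 0) P.nil)) (P.cons (P.cons (P.lf 936876 0 0) P.nil)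 P.nil)))))) 1164590)
 EL.nil)
noncomputable def S82_140_512_660_32 : EL := (EL.cons 13 (TM.mk (P.cons (P.cons (P.lf 559320244 0 0) (P.cons (P.lf 44263662 0 0) (P.cons (P.lf 0 2083627 0) (P.cons (P.lf 0 1103551 0) (P.cons (P.lf 0 35118 0) (P.cons (P.lf 2609 0 0) P.nil)))))) (P.cons (P.cons (P.lf 0 558956929 0) (P.cons (P.lf 26755561 0 0) (P.cons (P.lf 145050 0 0) (P.cons (P.lf 0 854858 0) (P.cons (P.lf 0 77551 0) P.nil))))) (P.cons (P.cons (P.lf 90103479 0 0) (P.cons (P.lf 0 8918801 0) (P.cons (P.lf 2354882 0 0) (P.cons (P.lf 0 36387 0) P.nil)))) (P.cons (P.cons (P.lf 53232067 0 0) (P.cons (P.lf 0 8725282 0) (P.cons (P.lf 1387346 0 0) P.nil))) (P.cons (P.cons (P.lf 0 8170575 0) (P.cons (P.lf 0 591729 0) P.nil)) (P.cons (P.cons (P.lf 0 4051377 0) P.nil) P.nil)))))) 5302113)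
 EL.nil)
noncomputable def S82_140_512_660_33 : EL := (EL.cons 14 (TM.mk (P.lf 8589934592 0 0) 0)
 EL.nil)
noncomputable def S82_140_512_660_34 : EL := (EL.cons 14 (TM.mk (P.cons (P.cons (P.lf 0 3447333940 0) (P.cons (P.lf 0 136408104 0) (P.cons (P.lf 9119928 0 0) (P.lf 3039968 0 0)))) (P.cons (P.cons (P.lf 1575163012 0 0) (P.cons (P.lf 0 156444704 0) (P.cons (P.lf 10459528 0 0) (P.lf 3486504 0 0)))) (P.cons (P.cons (P.lf 180266730 0 0) (P.cons (P.lf 0 62075608 0) (P.cons (P.lf 4150224 0 0) (P.lf 1383408 0 0)))) (P.cons (P.cons (P.lf 0 66083712 0) (P.cons (P.lf 0 7823568 0) (P.cons (P.lf 523064 0 0) P.nil))) (P.cons (P.cons (P.lf 0 14389720 0) (P.cons (P.lf 1028392 0 0) P.nil)) (P.cons (P.cons (P.lf 0 88080 0) P.nil) P.nil)))))) 1396684)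
 EL.nil)
noncomputable def S82_140_512_660_35 : EL := (EL.cons 14 (TM.mk (P.cons (P.cons (P.lf 1383492640 0 0) (P.cons (P.lf 109487278 0 0) (P.cons (P.lf 0 5153904 0) (P.cons (P.lf 0 2729662 0) (P.cons (P.lf 0 86866 0) (P.cons (P.lf 6454 0 0) P.nil)))))) (P.cons (P.cons (P.lf 0 1264296684 0) (P.cons (P.lf 75542400 0 0) (P.cons (P.lf 0 81906 0) (P.cons (P.lf 0 2347916 0) (P.cons (P.lf 0 199252 0) P.nil))))) (P.cons (P.cons (P.lf 144152352 0 0) (P.cons (P.lf 0 13276096 0) (P.cons (P.lf 5708392 0 0) (P.cons (P.lf 0 348742 0) P.nil)))) (P.cons (P.cons (P.lf 119153900 0 0) (P.cons (P.lf 0 20953866 0) (P.cons (P.lf 3910512 0 0) P.nil))) (P.cons (P.cons (P.lf 0 8903070 0) (P.cons (P.lf 0 3435986 0) P.nil)) (P.cons (P.cons (P.lf 0 7980318 0) P.nil) P.nil)))))) 9244880)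
 EL.nil)
noncomputable def S82_140_512_660_36 : EL := (EL.cons 14 (TM.mk (P.cons (P.lf 0 6945500368 0) (P.cons (P.lf 593883784 0 0) (P.cons (P.lf 147517600 0 0) (P.cons (P.lf 10090240 0 0) (P.cons (P.lf 0 533712 0) (P.cons (P.lf 0 176632 0) P.nil)))))) 31384)
 EL.nil)
noncomputable def S82_140_512_660_37 : EL := (EL.cons 14 (TM.mk (P.cons (P.cons (P.lf 2787385502 0 0) (P.cons (P.lf 110294498 0 0) (P.cons (P.lf 0 7374032 0) (P.lf 0 2458004 0)))) (P.cons (P.cons (P.lf 0 1511956914 0) (P.cons (P.lf 117064474 0 0) (P.cons (P.lf 0 7826656 0) (P.lf 0 2608882 0)))) (P.cons (P.cons (P.lf 0 96056760 0) (P.cons (P.lf 37033294 0 0) (P.cons (P.lf 0 2475954 0) (P.lf 0 825318 0)))) (P.cons (P.cons (P.lf 88897274 0 0) (P.cons (P.lf 0 812792 0) (P.cons (P.lf 54342 0 0) P.nil))) (P.cons (P.cons (P.lf 12226394 0 0) (P.cons (P.lf 0 2613756 0) P.nil)) (P.cons (P.cons (P.lf 0 1873752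 0) P.nil) P.nil)))))) 2329180)
 EL.nil)
noncomputable def S82_140_512_660_38 : EL := (EL.cons 14 (TM.mk (P.cons (P.cons (P.lf 0 1118640488 0) (P.cons (P.lf 0 88527324 0) (P.cons (P.lf 4167254 0 0) (P.cons (P.lf 2207102 0 0) (P.cons (P.lf 70236 0 0) (P.cons (P.lf 0 5218 0) P.nil)))))) (P.cons (P.cons (P.lf 1117913858 0 0) (P.cons (P.lf 0 53511122 0) (P.cons (P.lf 0 290100 0) (P.cons (P.lf 1709716 0 0) (P.cons (P.lf 155102 0 0) P.nil))))) (P.cons (P.cons (P.lf 0 180206958 0) (P.cons (P.lf 17837602 0 0) (P.cons (P.lf 0 4709764 0) (P.cons (P.lf 72774 0 0) P.nil)))) (P.cons (P.cons (P.lf 0 106464134 0) (P.cons (P.lf 17450564 0 0) (P.cons (P.lf 0 2774692 0) P.nil))) (P.cons (P.cons (P.lf 16341150 0 0) (P.cons (P.lf 1183458 0 0) P.nil)) (P.cons (P.cons (P.lf 8102754 0 0) P.nil) P.nil)))))) 10604226)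
 EL.nil)
noncomputable def S82_140_512_660_39 : EL := (EL.cons 14 (TM.mk (P.cons (P.lf 5615872256 0 0) (P.cons (P.lf 0 960384504 0) (P.cons (P.lf 0 197495000 0) (P.cons (P.lf 4080716 0 0) (P.cons (P.lf 4791664 0 0) (P.cons (P.lf 558402 0 0) P.nil)))))) 118664)
 EL.nil)
noncomputable def S82_140_512_660_40 : EL := (EL.cons 14 (TM.mk (P.cons (P.cons (P.lf 0 2253775836 0) (P.cons (P.lf 0 89180012 0) (P.cons (P.lf 5962366 0 0) (P.lf 1987450 0 0)))) (P.cons (P.cons (P.lf 1415223854 0 0) (P.cons (P.lf 0 87028514 0) (P.cons (P.lf 5818522 0 0) (P.lf 1939504 0 0)))) (P.cons (P.cons (P.lf 21004116 0 0) (P.cons (P.lf 0 19956110 0) (P.cons (P.lf 1334214 0 0) (P.lf 444738 0 0)))) (P.cons (P.cons (P.lf 0 101211186 0) (P.cons (P.lf 5357514 0 0) (P.cons (P.lf 0 358190 0) P.nil))) (P.cons (P.cons (P.lf 0 7338530 0) (P.cons (P.lf 2823832 0 0) P.nil)) (P.cons (P.cons (P.lf 3810796 0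 0) P.nil) P.nil)))))) 2793472)
 EL.nil)
noncomputable def S82_140_512_660_41 : EL := (EL.cons 14 (TM.mk (P.cons (P.cons (P.lf 904490930 0 0) (P.cons (P.lf 71579888 0 0) (P.cons (P.lf 0 3369486 0) (P.cons (P.lf 0 1784580 0) (P.cons (P.lf 0 56790 0) (P.cons (P.lf 4218 0 0) P.nil)))))) (P.cons (P.cons (P.lf 0 981243042 0) (P.cons (P.lf 37146566 0 0) (P.cons (P.lf 522676 0 0) (P.cons (P.lf 0 1229818 0) (P.cons (P.lf 0 120552 0) P.nil))))) (P.cons (P.cons (P.lf 203787262 0 0) (P.cons (P.lf 0 19642732 0) (P.cons (P.lf 3859648 0 0) (P.cons (P.lf 97264 0 0) P.nil)))) (P.cons (P.cons (P.lf 91508182 0 0) (P.cons (P.lf 0 13899586 0) (P.cons (P.lf 1917806 0 0) P.nil))) (P.cons (P.cons (P.lf 0 22285552 0) (P.cons (P.lf 498556 0 0) P.nil)) (P.cons (P.cons (P.lf 0 7508284 0) P.nil) P.nil)))))) 10795724)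
 EL.nil)
noncomputable def S82_140_512_660_42 : EL := (EL.cons 14 (TM.mk (P.cons (P.lf 0 4540784612 0) (P.cons (P.lf 1164796574 0 0) (P.cons (P.lf 189731922 0 0) (P.cons (P.lf 0 26850006 0) (P.cons (P.lf 0 8460924 0) (P.cons (P.lf 0 337936 0) P.nil)))))) 309558)
 EL.nil)
noncomputable def S82_140_512_660_43 : EL := (EL.cons 14 (TM.mk (P.cons (P.cons (P.lf 1822318986 0 0) (P.cons (P.lf 72107628 0 0) (P.cons (P.lf 0 4820948 0) (P.lf 0 1606978 0)))) (P.cons (P.cons (P.lf 0 1300116852 0) (P.cons (P.lf 64202352 0 0) (P.cons (P.lf 0 4292418 0) (P.lf 0 1430804 0)))) (P.cons (P.cons (P.lf 42156640 0 0) (P.cons (P.lf 8587344 0 0) (P.cons (P.lf 0 574126 0) (P.lf 0 191376 0)))) (P.cons (P.cons (P.lf 104944408 0 0) (P.cons (P.lf 0 7310918 0) (P.cons (P.lf 488790 0 0) P.nil))) (P.cons (P.cons (P.lf 1099354 0 0) (P.cons (P.lf 0 2352242 0) P.nil)) (P.cons (P.cons (P.lf 0 5343678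 0) P.nil) P.nil)))))) 3450998)
 EL.nil)
noncomputable def S82_140_512_660_44 : EL := (EL.cons 14 (TM.mk (P.cons (P.cons (P.lf 0 731337592 0) (P.cons (P.lf 0 57876824 0) (P.cons (P.lf 2724440 0 0) (P.cons (P.lf 1442944 0 0) (P.cons (P.lf 45918 0 0) (P.cons (P.lf 0 3410 0) P.nil)))))) (P.cons (P.cons (P.lf 855930430 0 0) (P.cons (P.lf 0 25086496 0) (P.cons (P.lf 0 655572 0) (P.cons (P.lf 871004 0 0) (P.cons (P.lf 93548 0 0) P.nil))))) (P.cons (P.cons (P.lf 0 217082038 0) (P.cons (P.lf 19679852 0 0) (P.cons (P.lf 0 3142496 0) (P.cons (P.lf 0 194318 0) P.nil)))) (P.cons (P.cons (P.lf 0 75689546 0) (P.cons (P.lf 10602654 0 0) (P.cons (P.lf 0 1278802 0) P.nil))) (P.cons (P.cons (P.lf 26636760 0 0) (P.cons (P.lf 0 1662234 0) P.nil)) (P.cons (P.cons (P.lf 6383404 0 0) P.nil) P.nil)))))) 10910688)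
 EL.nil)
noncomputable def S82_140_512_660_45 : EL := (EL.cons 14 (TM.mk (P.cons (P.cons (P.lf 0 555226710 0) (P.cons (P.lf 0 65909560 0) (P.cons (P.lf 1798572 0 0) (P.cons (P.lf 1783176 0 0) (P.cons (P.lf 111482 0 0) (P.cons (P.lf 0 5932 0) P.nil)))))) (P.cons (P.cons (P.lf 761086040 0 0) (P.cons (P.lf 0 15359762 0) (P.cons (P.lf 0 3763566 0) (P.cons (P.lf 864514 0 0) (P.cons (P.lf 215844 0 0) P.nil))))) (P.cons (P.cons (P.lf 0 260655880 0) (P.cons (P.lf 32217178 0 0) (P.cons (P.lf 0 5088284 0) (P.cons (P.lf 0 508324 0) P.nil)))) (P.cons (P.cons (P.lf 0 58561188 0) (P.cons (P.lf 10076690 0 0) (P.cons (P.lf 0 780338 0) P.nil))) (P.cons (P.cons (P.lf 35856604 0 0) (P.cons (P.lf 0 5259926 0) P.nil)) (P.cons (P.cons (P.lf 5065394 0 0) P.nil) P.nil)))))) 17149690)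
 EL.nil)
noncomputable def S82_140_512_660_46 : EL := (EL.cons 15 (TM.mk (P.lf 4294967296 0 0) 0)
 EL.nil)
noncomputable def S82_140_512_660_47 : EL := (EL.cons 15 (TM.mk (P.cons (P.cons (P.lf 0 1723666970 0) (P.cons (P.lf 0 68204052 0) (P.cons (P.lf 4559964 0 0) (P.lf 1519984 0 0)))) (P.cons (P.cons (P.lf 787581506 0 0) (P.cons (P.lf 0 78222352 0) (P.cons (P.lf 5229764 0 0) (P.lf 1743252 0 0)))) (P.cons (P.cons (P.lf 90133365 0 0) (P.cons (P.lf 0 31037804 0) (P.cons (P.lf 2075112 0 0) (P.lf 691704 0 0)))) (P.cons (P.cons (P.lf 0 33041856 0) (P.cons (P.lf 0 3911784 0) (P.cons (P.lf 261532 0 0) P.nil))) (P.cons (P.cons (P.lf 0 7194860 0) (P.cons (P.lf 514196 0 0) P.nil)) (P.cons (P.cons (P.lf 0 44040 0) P.nil) P.nil)))))) 698342)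
 EL.nil)
noncomputable def S82_140_512_660_48 : EL := (EL.cons 15 (TM.mk (P.cons (P.cons (P.lf 691746320 0 0) (P.cons (P.lf 54743639 0 0) (P.cons (P.lf 0 2576952 0) (P.cons (P.lf 0 1364831 0) (P.cons (P.lf 0 43433 0) (P.cons (P.lf 3227 0 0) P.nil)))))) (P.cons (P.cons (P.lf 0 632148342 0) (P.cons (P.lf 37771200 0 0) (P.cons (P.lf 0 40953 0) (P.cons (P.lf 0 1173958 0) (P.cons (P.lf 0 99626 0) P.nil))))) (P.cons (P.cons (P.lf 72076176 0 0) (P.cons (P.lf 0 6638048 0) (P.cons (P.lf 2854196 0 0) (P.cons (P.lf 0 174371 0) P.nil)))) (P.cons (P.cons (P.lf 59576950 0 0) (P.cons (P.lf 0 10476933 0) (P.cons (P.lf 1955256 0 0) P.nil))) (P.cons (P.cons (P.lf 0 4451535 0) (P.cons (P.lf 0 1717993 0) P.nil)) (P.cons (P.cons (P.lf 0 3990159 0) P.nil) P.nil)))))) 4622440)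
 EL.nil)
noncomputable def S82_140_512_660 : SL := (SL.cons S82_140_512_660_0 (SL.cons S82_140_512_660_1 (SL.cons S82_140_512_660_2 (SL.cons S82_140_512_660_3 (SL.cons S82_140_512_660_4 (SL.cons S82_140_512_660_5 (SL.cons S82_140_512_660_6 (SL.cons S82_140_512_660_7 (SL.cons S82_140_512_660_8 (SL.cons S82_140_512_660_9 (SL.cons S82_140_512_660_10 (SL.cons S82_140_512_660_11 (SL.cons S82_140_512_660_12 (SL.cons S82_140_512_660_13 (SL.cons S82_140_512_660_14 (SL.cons S82_140_512_660_15 (SL.cons S82_140_512_660_16 (SL.cons S82_140_512_660_17 (SL.cons S82_140_512_660_18 (SL.cons S82_140_512_660_19 (SL.cons S82_140_512_660_20 (SL.cons S82_140_512_660_21 (SL.cons S82_140_512_660_22 (SL.cons S82_140_512_660_23 (SL.cons S82_140_512_660_24 (SL.cons S82_140_512_660_25 (SL.cons S82_140_512_660_26 (SL.cons S82_140_512_660_27 (SL.cons S82_140_512_660_28 (SL.cons S82_140_512_660_29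 (SL.cons S82_140_512_660_30 (SL.cons S82_140_512_660_31 (SL.cons S82_140_512_660_32 (SL.cons S82_140_512_660_33 (SL.cons S82_140_512_660_34 (SL.cons S82_140_512_660_35 (SL.cons S82_140_512_660_36 (SL.cons S82_140_512_660_37 (SL.cons S82_140_512_660_38 (SL.cons S82_140_512_660_39 (SL.cons S82_140_512_660_40 (SL.cons S82_140_512_660_41 (SL.cons S82_140_512_660_42 (SL.cons S82_140_512_660_43 (SL.cons S82_140_512_660_44 (SL.cons S82_140_512_660_45 (SL.cons S82_140_512_660_46 (SL.cons S82_140_512_660_47 (SL.cons S82_140_512_660_48 SL.nil)))))))))))))))))))))))))))))))))))))))))))))))))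
noncomputable def S82_140_660_808_0 : EL := (EL.cons 0 (TM.mk (P.cons (P.lf 3519891639 0 0) (P.cons (P.lf 844087942 0 0) (P.cons (P.lf 173579589 0 0) (P.cons (P.lf 0 3586566 0) (P.cons (P.lf 0 4211423 0) (P.cons (P.lf 0 490783 0) P.nil)))))) 104301)
 (EL.cons 1 (TM.mk (P.cons (P.lf 0 1391915122 0) (P.cons (P.lf 0 413105733 0) (P.cons (P.lf 67350723 0 0) (P.cons (P.lf 19192974 0 0) (P.cons (P.lf 1069213 0 0) (P.cons (P.lf 0 215523 0) P.nil)))))) 64748)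
 (EL.cons 5 (TM.mk (P.cons (P.lf 6049927380 0 0) (P.cons (P.lf 0 300120158 0) (P.cons (P.lf 0 61717188 0) (P.cons (P.lf 1275220 0 0) (P.cons (P.lf 1497396 0 0) (P.cons (P.lf 174500 0 0) P.nil)))))) 24617)
 (EL.cons 9 (TM.mk (P.lf 6442450944 0 0) 2)
 EL.nil))))
noncomputable def S82_140_660_808_1 : EL := (EL.cons 0 (TM.mk (P.cons (P.cons (P.lf 0 3501544329 0) (P.cons (P.lf 83374574 0 0) (P.cons (P.lf 0 35952049 0) (P.lf 0 3994659 0)))) (P.cons (P.cons (P.lf 0 430597465 0) (P.cons (P.lf 70682156 0 0) (P.cons (P.lf 0 30478936 0) (P.lf 0 3386538 0)))) (P.cons (P.cons (P.lf 540154878 0 0) (P.cons (P.lf 4210673 0 0) (P.cons (P.lf 0 1815678 0) (P.lf 0 201734 0)))) (P.cons (P.cons (P.lf 173407521 0 0) (P.cons (P.lf 0 12343073 0) (P.cons (P.lf 5322469 0 0) P.nil))) (P.cons (P.cons (P.lf 0 24249750 0) (P.cons (P.lf 0 4146799 0) P.nil)) (P.cons (P.cons (P.lf 0 14757751 0) P.nil)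 P.nil)))))) 12602220)
 (EL.cons 1 (TM.mk (P.cons (P.cons (P.lf 1572789221 0 0) (P.cons (P.lf 0 43247536 0) (P.cons (P.lf 18648829 0 0) (P.lf 2072097 0 0)))) (P.cons (P.cons (P.lf 0 460450595 0) (P.cons (P.lf 2075027 0 0) (P.cons (P.lf 0 894770 0) (P.lf 0 99411 0)))) (P.cons (P.cons (P.lf 0 375541945 0) (P.cons (P.lf 24765226 0 0) (P.cons (P.lf 0 10679040 0) (P.lf 0 1186556 0)))) (P.cons (P.cons (P.lf 72637775 0 0) (P.cons (P.lf 7964934 0 0) (P.cons (P.lf 0 3434564 0) P.nil))) (P.cons (P.cons (P.lf 38612561 0 0) (P.cons (P.lf 0 530097 0) P.nil)) (P.cons (P.cons (P.lf 995578 0 0) P.nil) P.nil)))))) 5737592)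
 (EL.cons 5 (TM.mk (P.cons (P.cons (P.lf 0 1865454513 0) (P.cons (P.lf 0 83575672 0) (P.cons (P.lf 36038774 0 0) (P.lf 4004304 0 0)))) (P.cons (P.cons (P.lf 1285304543 0 0) (P.cons (P.lf 0 86984638 0) (P.cons (P.lf 37508758 0 0) (P.lf 4167636 0 0)))) (P.cons (P.cons (P.lf 0 120838910 0) (P.cons (P.lf 0 26039826 0) (P.cons (P.lf 11228666 0 0) (P.lf 1247626 0 0)))) (P.cons (P.cons (P.lf 0 128163192 0) (P.cons (P.lf 1295458 0 0) (P.cons (P.lf 0 558614 0) P.nil))) (P.cons (P.cons (P.lf 0 2250480 0) (P.cons (P.lf 1881010 0 0) P.nil)) (P.cons (P.cons (P.lf 5694770 0 0) P.nil) P.nil)))))) 4034884)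
 (EL.cons 9 (TM.mk (P.cons (P.cons (P.lf 0 2744512977 0) (P.cons (P.lf 0 47586504 0) (P.cons (P.lf 20519838 0 0) (P.lf 2279976 0 0)))) (P.cons (P.cons (P.lf 999002841 0 0) (P.cons (P.lf 0 54576354 0) (P.cons (P.lf 23533938 0 0) (P.lf 2614878 0 0)))) (P.cons (P.cons (P.lf 62837785 0 0) (P.cons (P.lf 0 21655320 0) (P.cons (P.lf 9338016 0 0) (P.lf 1037556 0 0)))) (P.cons (P.cons (P.lf 0 58682808 0) (P.cons (P.lf 0 2729280 0) (P.cons (P.lf 1176894 0 0) P.nil))) (P.cons (P.cons (P.lf 0 9593478 0) (P.cons (P.lf 358758 0 0) P.nil)) (P.cons (P.cons (P.lf 394918 0 0) P.nil) P.nil)))))) 1105360)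
 (EL.cons 2 (TM.mk (P.cons (P.cons (P.lf 176297115 0 0) (P.cons (P.lf 0 164237070 0) (P.cons (P.lf 0 16856063 0) (P.cons (P.lf 3505590 0 0) (P.lf 292128 0 0))))) (P.cons (P.cons (P.lf 119720756 0 0) (P.cons (P.lf 0 111530958 0) (P.cons (P.lf 0 11446703 0) (P.cons (P.lf 2380592 0 0) (P.lf 198379 0 0))))) (P.cons (P.cons (P.lf 12449244 0 0) (P.cons (P.lf 0 11597622 0) (P.cons (P.lf 0 1190292 0) (P.cons (P.lf 247545 0 0) P.nil)))) (P.cons (P.cons (P.lf 0 6062017 0) (P.cons (P.lf 5647328 0 0) (P.cons (P.lf 579597 0 0) P.nil))) (P.cons (P.cons (P.lf 0 1394583 0) (P.cons (P.lf 1299183 0 0) P.nil)) (P.cons (P.cons (P.lf 0 34129 0) P.nil) P.nil)))))) 684771)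
 (EL.cons 6 (TM.mk (P.cons (P.cons (P.lf 49716228 0 0) (P.cons (P.lf 0 46315266 0) (P.cons (P.lf 0 4753452 0) (P.cons (P.lf 988584 0 0) (P.lf 82380 0 0))))) (P.cons (P.cons (P.lf 57018903 0 0) (P.cons (P.lf 0 53118384 0) (P.cons (P.lf 0 5451672 0) (P.cons (P.lf 1133796 0 0) (P.lf 94482 0 0))))) (P.cons (P.cons (P.lf 22624500 0 0) (P.cons (P.lf 0 21076815 0) (P.cons (P.lf 0 2163165 0) (P.cons (P.lf 449877 0 0) P.nil)))) (P.cons (P.cons (P.lf 2851431 0 0) (P.cons (P.lf 0 2656371 0) (P.cons (P.lf 0 272628 0) P.nil))) (P.cons (P.cons (P.lf 0 374814 0) (P.cons (P.lf 349176 0 0) P.nil)) (P.cons (P.cons (P.lf 0 144126 0) P.nil) P.nil)))))) 362217)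
 EL.nil))))))
noncomputable def S82_140_660_808_2 : EL := (EL.cons 0 (TM.mk (P.cons (P.cons (P.lf 2344557856 0 0) (P.cons (P.lf 0 41459942 0) (P.cons (P.lf 16454269 0 0) (P.cons (P.lf 3214274 0 0) (P.cons (P.lf 0 128301 0) (P.cons (P.lf 0 58821 0) P.nil)))))) (P.cons (P.cons (P.lf 0 407211851 0) (P.cons (P.lf 8667761 0 0) (P.cons (P.lf 0 6680955 0) (P.cons (P.lf 2123090 0 0) (P.cons (P.lf 0 265245 0) P.nil))))) (P.cons (P.cons (P.lf 0 637433063 0) (P.cons (P.lf 37238360 0 0) (P.cons (P.lf 0 18420344 0) (P.cons (P.lf 253497 0 0) P.nil)))) (P.cons (P.cons (P.lf 47501352 0 0) (P.cons (P.lf 7426470 0 0) (P.cons (P.lf 0 3983690 0) P.nil))) (P.cons (P.cons (P.lf 96847701 0 0) (P.cons (P.lf 0 7115988 0) P.nil)) (P.cons (P.cons (P.lf 833692 0 0) P.nil) P.nil)))))) 50508222)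
 (EL.cons 1 (TM.mk (P.cons (P.cons (P.lf 0 1087426011 0) (P.cons (P.lf 22372509 0 0) (P.cons (P.lf 0 8932455 0) (P.cons (P.lf 0 1688405 0) (P.cons (P.lf 64420 0 0) (P.cons (P.lf 29541 0 0) P.nil)))))) (P.cons (P.cons (P.lf 771153450 0 0) (P.cons (P.lf 0 25567898 0) (P.cons (P.lf 11923968 0 0) (P.cons (P.lf 449861 0 0) (P.cons (P.lf 81002 0 0) P.nil))))) (P.cons (P.cons (P.lf 162946728 0 0) (P.cons (P.lf 0 16784263 0) (P.cons (P.lf 7344325 0 0) (P.cons (P.lf 712086 0 0) P.nil)))) (P.cons (P.cons (P.lf 0 189061812 0) (P.cons (P.lf 7369419 0 0) (P.cons (P.lf 0 3563673 0) P.nil))) (P.cons (P.cons (P.lf 0 10288789 0) (P.cons (P.lf 4288286 0 0) P.nil)) (P.cons (P.cons (P.lf 18534817 0 0) P.nil) P.nil)))))) 21029234)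
 (EL.cons 5 (TM.mk (P.cons (P.cons (P.lf 491444245 0 0) (P.cons (P.lf 60691325 0 0) (P.cons (P.lf 0 25266211 0) (P.cons (P.lf 0 3687975 0) (P.cons (P.lf 81515 0 0) (P.cons (P.lf 37375 0 0) P.nil)))))) (P.cons (P.cons (P.lf 0 819860862 0) (P.cons (P.lf 32891809 0 0) (P.cons (P.lf 0 12223053 0) (P.cons (P.lf 0 3266493 0) (P.cons (P.lf 176651 0 0) P.nil))))) (P.cons (P.cons (P.lf 341531885 0 0) (P.cons (P.lf 0 12564376 0) (P.cons (P.lf 7144528 0 0) (P.cons (P.lf 0 887086 0) P.nil)))) (P.cons (P.cons (P.lf 61861717 0 0) (P.cons (P.lf 0 7840652 0) (P.cons (P.lf 4120299 0 0) P.nil))) (P.cons (P.cons (P.lf 0 45102510 0) (P.cons (P.lf 2033078 0 0) P.nil)) (P.cons (P.cons (P.lf 0 5347075 0) P.nil) P.nil)))))) 18330763)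
 (EL.cons 9 (TM.mk (P.cons (P.cons (P.lf 1169174829 0 0) (P.cons (P.lf 40544127 0 0) (P.cons (P.lf 0 17131593 0) (P.cons (P.lf 0 2245695 0) (P.cons (P.lf 31675 0 0) (P.cons (P.lf 14523 0 0) P.nil)))))) (P.cons (P.cons (P.lf 0 851159374 0) (P.cons (P.lf 31741477 0 0) (P.cons (P.lf 0 12881035 0) (P.cons (P.lf 0 2216131 0) (P.cons (P.lf 72657 0 0) P.nil))))) (P.cons (P.cons (P.lf 101372667 0 0) (P.cons (P.lf 596400 0 0) (P.cons (P.lf 525072 0 0) (P.cons (P.lf 0 703200 0) P.nil)))) (P.cons (P.cons (P.lf 69486241 0 0) (P.cons (P.lf 0 4588356 0) (P.cons (P.lf 2385771 0 0) P.nil))) (P.cons (P.cons (P.lf 0 9412744 0) (P.cons (P.lf 0 438570 0) P.nil)) (P.cons (P.cons (P.lf 0 4456461 0) P.nil) P.nil)))))) 6287245)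
 (EL.cons 2 (TM.mk (P.cons (P.cons (P.lf 0 150206720 0) (P.cons (P.lf 137327056 0 0) (P.cons (P.lf 17910804 0 0) (P.cons (P.lf 0 3659220 0) (P.cons (P.lf 0 524306 0) (P.cons (P.lf 6080 0 0) P.nil)))))) (P.cons (P.cons (P.lf 0 47327900 0) (P.cons (P.lf 39334753 0 0) (P.cons (P.lf 11005998 0 0) (P.cons (P.lf 0 2168926 0) (P.cons (P.lf 0 581315 0) P.nil))))) (P.cons (P.cons (P.lf 29961382 0 0) (P.cons (P.lf 0 31309301 0) (P.cons (P.lf 1765462 0 0) (P.cons (P.lf 0 281424 0) P.nil)))) (P.cons (P.cons (P.lf 8149533 0 0) (P.cons (P.lf 0 8667635 0) (P.cons (P.lf 686626 0 0) P.nil))) (P.cons (P.cons (P.lf 0 3155034 0) (P.cons (P.lf 2897021 0 0) P.nil)) (P.cons (P.cons (P.lf 0 1083408 0) P.nil) P.nil)))))) 5536259)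
 (EL.cons 6 (TM.mk (P.cons (P.cons (P.lf 0 42358668 0) (P.cons (P.lf 38726574 0 0) (P.cons (P.lf 5050890 0 0) (P.cons (P.lf 0 1031904 0) (P.cons (P.lf 0 147852 0) (P.cons (P.lf 1710 0 0) P.nil)))))) (P.cons (P.cons (P.lf 0 33162054 0) (P.cons (P.lf 29208864 0 0) (P.cons (P.lf 5466534 0 0) (P.cons (P.lf 0 1094370 0) (P.cons (P.lf 0 233094 0) P.nil))))) (P.cons (P.cons (P.lf 0 623094 0) (P.cons (P.lf 0 1054038 0) (P.cons (P.lf 2287086 0 0) (P.cons (P.lf 0 434400 0) P.nil)))) (P.cons (P.cons (P.lf 4793700 0 0) (P.cons (P.lf 0 5316666 0) (P.cons (P.lf 701256 0 0) P.nil))) (P.cons (P.cons (P.lf 458196 0 0) (P.cons (P.lf 0 664500 0) P.nil)) (P.cons (P.cons (P.lf 0 513696 0) P.nil) P.nil)))))) 2745414)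
 EL.nil))))))
noncomputable def S82_140_660_808_3 : EL := (EL.cons 0 (TM.mk (P.cons (P.lf 4935825225 0 0) (P.cons (P.lf 0 844087942 0) (P.cons (P.lf 0 173579589 0) (P.cons (P.lf 3586566 0 0) (P.cons (P.lf 4211423 0 0) (P.cons (P.lf 490783 0 0) P.nil)))))) 104301)
 (EL.cons 1 (TM.mk (P.cons (P.lf 1391915122 0 0) (P.cons (P.lf 413105733 0 0) (P.cons (P.lf 0 67350723 0) (P.cons (P.lf 0 19192974 0) (P.cons (P.lf 0 1069213 0) (P.cons (P.lf 215523 0 0) P.nil)))))) 64748)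
 (EL.cons 5 (TM.mk (P.cons (P.lf 392523564 0 0) (P.cons (P.lf 300120158 0 0) (P.cons (P.lf 61717188 0 0) (P.cons (P.lf 0 1275220 0) (P.cons (P.lf 0 1497396 0) (P.cons (P.lf 0 174500 0) P.nil)))))) 24610)
 EL.nil)))
noncomputable def S82_140_660_808_4 : EL := (EL.cons 0 (TM.mk (P.cons (P.cons (P.lf 0 2102683666 0) (P.cons (P.lf 0 36457966 0) (P.cons (P.lf 15721085 0 0) (P.lf 1746782 0 0)))) (P.cons (P.cons (P.lf 1124962191 0 0) (P.cons (P.lf 0 35578408 0) (P.cons (P.lf 15341809 0 0) (P.lf 1704642 0 0)))) (P.cons (P.cons (P.lf 0 8800762 0) (P.cons (P.lf 0 8158320 0) (P.cons (P.lf 3517957 0 0) (P.lf 390883 0 0)))) (P.cons (P.cons (P.lf 0 81636412 0) (P.cons (P.lf 2190223 0 0) (P.cons (P.lf 0 944449 0) P.nil))) (P.cons (P.cons (P.lf 0 2592328 0) (P.cons (P.lf 1154418 0 0) P.nil)) (P.cons (P.cons (P.lf 3619546 0 0) P.nil) P.nil)))))) 2563649)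
 (EL.cons 1 (TM.mk (P.cons (P.cons (P.lf 0 592962080 0) (P.cons (P.lf 0 10281238 0) (P.cons (P.lf 4433385 0 0) (P.lf 492596 0 0)))) (P.cons (P.cons (P.lf 39853327 0 0) (P.cons (P.lf 0 14842783 0) (P.cons (P.lf 6400374 0 0) (P.lf 711150 0 0)))) (P.cons (P.cons (P.lf 106326551 0 0) (P.cons (P.lf 0 7680800 0) (P.cons (P.lf 3312046 0 0) (P.lf 368004 0 0)))) (P.cons (P.cons (P.lf 0 10916812 0) (P.cons (P.lf 0 1265941 0) (P.cons (P.lf 545887 0 0) P.nil))) (P.cons (P.cons (P.lf 0 9013190 0) (P.cons (P.lf 299379 0 0) P.nil)) (P.cons (P.cons (P.lf 0 361166 0) P.nil) P.nil)))))) 1246333)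
 (EL.cons 5 (TM.mk (P.cons (P.cons (P.lf 0 167216796 0) (P.cons (P.lf 0 2899334 0) (P.cons (P.lf 1250224 0 0) (P.lf 138912 0 0)))) (P.cons (P.cons (P.lf 0 66985610 0) (P.cons (P.lf 0 5542016 0) (P.cons (P.lf 2389778 0 0) (P.lf 265530 0 0)))) (P.cons (P.cons (P.lf 24075088 0 0) (P.cons (P.lf 0 4317702 0) (P.cons (P.lf 1861840 0 0) (P.lf 206870 0 0)))) (P.cons (P.cons (P.lf 9465342 0 0) (P.cons (P.lf 0 1688506 0) (P.cons (P.lf 728102 0 0) P.nil))) (P.cons (P.cons (P.lf 0 2276106 0) (P.cons (P.lf 0 290872 0) P.nil)) (P.cons (P.cons (P.lf 0 1155310 0) P.nil) P.nil)))))) 661290)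
 EL.nil)))
noncomputable def S82_140_660_808_5 : EL := (EL.cons 0 (TM.mk (P.cons (P.cons (P.lf 895752666 0 0) (P.cons (P.lf 31062513 0 0) (P.cons (P.lf 0 13125213 0) (P.cons (P.lf 0 1720518 0) (P.cons (P.lf 24266 0 0) (P.cons (P.lf 11125 0 0) P.nil)))))) (P.cons (P.cons (P.lf 0 805292943 0) (P.cons (P.lf 19006365 0 0) (P.cons (P.lf 0 7624110 0) (P.cons (P.lf 0 1403637 0) (P.cons (P.lf 51514 0 0) P.nil))))) (P.cons (P.cons (P.lf 157683193 0 0) (P.cons (P.lf 0 4794215 0) (P.cons (P.lf 2551526 0 0) (P.cons (P.lf 0 187887 0) P.nil)))) (P.cons (P.cons (P.lf 63538196 0 0) (P.cons (P.lf 0 4426108 0) (P.cons (P.lf 2096558 0 0) P.nil))) (P.cons (P.cons (P.lf 0 18756406 0) (P.cons (P.lf 293262 0 0) P.nil)) (P.cons (P.cons (P.lf 0 4464094 0) P.nil) P.nil)))))) 7901948)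
 (EL.cons 1 (TM.mk (P.cons (P.cons (P.lf 252604503 0 0) (P.cons (P.lf 8759705 0 0) (P.cons (P.lf 0 3701341 0) (P.cons (P.lf 0 485190 0) (P.cons (P.lf 6841 0 0) (P.cons (P.lf 3136 0 0) P.nil)))))) (P.cons (P.cons (P.lf 0 108925745 0) (P.cons (P.lf 9457650 0 0) (P.cons (P.lf 0 3881514 0) (P.cons (P.lf 0 622801 0) (P.cons (P.lf 17728 0 0) P.nil))))) (P.cons (P.cons (P.lf 0 44899284 0) (P.cons (P.lf 1740337 0 0) (P.cons (P.lf 0 533422 0) (P.cons (P.lf 0 270555 0) P.nil)))) (P.cons (P.cons (P.lf 26928078 0 0) (P.cons (P.lf 0 1405706 0) (P.cons (P.lf 734820 0 0) P.nil))) (P.cons (P.cons (P.lf 3703882 0 0) (P.cons (P.lf 0 496496 0) P.nil)) (P.cons (P.cons (P.lf 0 2414452 0) P.nil) P.nil)))))) 3426871)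
 (EL.cons 5 (TM.mk (P.cons (P.cons (P.lf 71235104 0 0) (P.cons (P.lf 2470258 0 0) (P.cons (P.lf 0 1043786 0) (P.cons (P.lf 0 136824 0) (P.cons (P.lf 1928 0 0) (P.cons (P.lf 884 0 0) P.nil)))))) (P.cons (P.cons (P.lf 2606588 0 0) (P.cons (P.lf 3822672 0 0) (P.cons (P.lf 0 1582882 0) (P.cons (P.lf 0 239638 0) (P.cons (P.lf 5902 0 0) P.nil))))) (P.cons (P.cons (P.lf 0 22274246 0) (P.cons (P.lf 1903408 0 0) (P.cons (P.lf 0 732184 0) (P.cons (P.lf 0 167594 0) P.nil)))) (P.cons (P.cons (P.lf 570720 0 0) (P.cons (P.lf 44276 0 0) (P.cons (P.lf 49812 0 0) P.nil))) (P.cons (P.cons (P.lf 3531362 0 0) (P.cons (P.lf 0 250460 0) P.nil)) (P.cons (P.cons (P.lf 101746 0 0) P.nil) P.nil)))))) 1468758)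
 EL.nil)))
noncomputable def S82_140_660_808_6 : EL := (EL.cons 12 (TM.mk (P.lf 8589934592 0 0) 0)
 (EL.cons 3 (TM.mk (P.cons (P.lf 0 3255703297 0) (P.cons (P.lf 278383023 0 0) (P.cons (P.lf 69148875 0 0) (P.cons (P.lf 4729800 0 0) (P.cons (P.lf 0 250177 0) (P.cons (P.lf 0 82796 0) P.nil)))))) 14718)
 (EL.cons 7 (TM.mk (P.cons (P.lf 0 918116516 0) (P.cons (P.lf 0 350992016 0) (P.cons (P.lf 0 5087185 0) (P.cons (P.lf 3436187 0 0) (P.cons (P.lf 451667 0 0) (P.cons (P.lf 12370 0 0) P.nil)))))) 9470)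
 EL.nil)))
noncomputable def S82_140_660_808_7 : EL := (EL.cons 12 (TM.mk (P.cons (P.cons (P.lf 0 3659350636 0) (P.cons (P.lf 0 63448672 0) (P.cons (P.lf 27359784 0 0) (P.lf 3039968 0 0)))) (P.cons (P.cons (P.lf 1332003788 0 0) (P.cons (P.lf 0 72768472 0) (P.cons (P.lf 31378584 0 0) (P.lf 3486504 0 0)))) (P.cons (P.cons (P.lf 83783714 0 0) (P.cons (P.lf 0 28873760 0) (P.cons (P.lf 12450688 0 0) (P.lf 1383408 0 0)))) (P.cons (P.cons (P.lf 0 78243744 0) (P.cons (P.lf 0 3639040 0) (P.cons (P.lf 1569192 0 0) P.nil))) (P.cons (P.cons (P.lf 0 12791304 0) (P.cons (P.lf 478344 0 0) P.nil)) (P.cons (P.cons (P.lf 526558 0 0) P.nil) P.nil)))))) 1473788)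
 (EL.cons 3 (TM.mk (P.cons (P.cons (P.lf 2707512864 0 0) (P.cons (P.lf 0 48095836 0) (P.cons (P.lf 20739466 0 0) (P.lf 2304378 0 0)))) (P.cons (P.cons (P.lf 0 103660384 0) (P.cons (P.lf 0 51048004 0) (P.cons (P.lf 22012472 0 0) (P.lf 2445826 0 0)))) (P.cons (P.cons (P.lf 0 241636813 0) (P.cons (P.lf 0 16149012 0) (P.cons (P.lf 6963632 0 0) (P.lf 773734 0 0)))) (P.cons (P.cons (P.lf 0 76418336 0) (P.cons (P.lf 354434 0 0) (P.cons (P.lf 0 152836 0) P.nil))) (P.cons (P.cons (P.lf 0 915356 0) (P.cons (P.lf 1139770 0 0) P.nil)) (P.cons (P.cons (P.lf 3187978 0 0) P.nil) P.nil)))))) 4850760)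
 (EL.cons 7 (TM.mk (P.cons (P.cons (P.lf 0 1273882990 0) (P.cons (P.lf 97742170 0 0) (P.cons (P.lf 0 42147527 0) (P.lf 0 4683059 0)))) (P.cons (P.cons (P.lf 130697505 0 0) (P.cons (P.lf 64362559 0 0) (P.cons (P.lf 0 27753863 0) (P.lf 0 3083763 0)))) (P.cons (P.cons (P.lf 274091236 0 0) (P.cons (P.lf 5306602 0 0) (P.cons (P.lf 0 2288266 0) (P.lf 0 254252 0)))) (P.cons (P.cons (P.lf 7960472 0 0) (P.cons (P.lf 0 3534547 0) (P.cons (P.lf 1524134 0 0) P.nil))) (P.cons (P.cons (P.lf 0 11227179 0) (P.cons (P.lf 0 589047 0) P.nil)) (P.cons (P.cons (P.lf 0 1670897 0) P.nil) P.nil)))))) 2399989)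
 (EL.cons 10 (TM.mk (P.cons (P.cons (P.lf 0 232573512 0) (P.cons (P.lf 216663741 0 0) (P.cons (P.lf 22236747 0 0) (P.cons (P.lf 0 4624623 0) (P.lf 0 385383 0))))) (P.cons (P.cons (P.lf 0 177823716 0) (P.cons (P.lf 165659241 0 0) (P.cons (P.lf 17002026 0 0) (P.cons (P.lf 0 3535947 0) (P.lf 0 294660 0))))) (P.cons (P.cons (P.lf 0 36567951 0) (P.cons (P.lf 34066431 0 0) (P.cons (P.lf 3496323 0 0) (P.cons (P.lf 0 727137 0) P.nil)))) (P.cons (P.cons (P.lf 755577 0 0) (P.cons (P.lf 0 703890 0) (P.cons (P.lf 0 72240 0) P.nil))) (P.cons (P.cons (P.lf 887217 0 0) (P.cons (P.lf 0 826527 0) P.nil)) (P.cons (P.cons (P.lf 103392 0 0) P.nil) P.nil)))))) 319218)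
 EL.nil))))
noncomputable def S82_140_660_808_8 : EL := (EL.cons 12 (TM.mk (P.cons (P.cons (P.lf 1558899772 0 0) (P.cons (P.lf 54058836 0 0) (P.cons (P.lf 0 22842124 0) (P.cons (P.lf 0 2994260 0) (P.cons (P.lf 42234 0 0) (P.cons (P.lf 19364 0 0) P.nil)))))) (P.cons (P.cons (P.lf 0 1134879166 0) (P.cons (P.lf 42321970 0 0) (P.cons (P.lf 0 17174714 0) (P.cons (P.lf 0 2954842 0) (P.cons (P.lf 96876 0 0) P.nil))))) (P.cons (P.cons (P.lf 135163556 0 0) (P.cons (P.lf 795200 0 0) (P.cons (P.lf 700096 0 0) (P.cons (P.lf 0 937600 0) P.nil)))) (P.cons (P.cons (P.lf 92648322 0 0) (P.cons (P.lf 0 6117808 0) (P.cons (P.lf 3181028 0 0) P.nil))) (P.cons (P.cons (P.lf 0 12550326 0) (P.cons (P.lf 0 584760 0) P.nil)) (P.cons (P.cons (P.lf 0 5941948 0) P.nil) P.nil)))))) 8382964)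
 (EL.cons 3 (TM.mk (P.cons (P.cons (P.lf 0 1715980781 0) (P.cons (P.lf 21469589 0 0) (P.cons (P.lf 0 8369790 0) (P.cons (P.lf 0 1794605 0) (P.cons (P.lf 80036 0 0) (P.cons (P.lf 36696 0 0) P.nil)))))) (P.cons (P.cons (P.lf 447348355 0 0) (P.cons (P.lf 0 1475306 0) (P.cons (P.lf 2597421 0 0) (P.cons (P.lf 0 1620737 0) (P.cons (P.lf 176740 0 0) P.nil))))) (P.cons (P.cons (P.lf 302003922 0 0) (P.cons (P.lf 0 17391899 0) (P.cons (P.lf 9283073 0 0) (P.cons (P.lf 0 704834 0) P.nil)))) (P.cons (P.cons (P.lf 0 22164408 0) (P.cons (P.lf 0 4519126 0) (P.cons (P.lf 2764070 0 0) P.nil))) (P.cons (P.cons (P.lf 0 41985708 0) (P.cons (P.lf 3167595 0 0) P.nil)) (P.cons (P.cons (P.lf 0 2131720 0) P.nil) P.nil)))))) 25149449)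
 (EL.cons 7 (TM.mk (P.cons (P.cons (P.lf 1251979342 0 0) (P.cons (P.lf 0 58680429 0) (P.cons (P.lf 23909826 0 0) (P.cons (P.lf 4013592 0 0) (P.cons (P.lf 0 125606 0) (P.cons (P.lf 0 57593 0) P.nil)))))) (P.cons (P.cons (P.lf 0 564027557 0) (P.cons (P.lf 1860099 0 0) (P.cons (P.lf 0 3274878 0) (P.cons (P.lf 2043463 0 0) (P.cons (P.lf 0 222842 0) P.nil))))) (P.cons (P.cons (P.lf 0 248847204 0) (P.cons (P.lf 21493051 0 0) (P.cons (P.lf 0 10938322 0) (P.cons (P.lf 410703 0 0) P.nil)))) (P.cons (P.cons (P.lf 118108168 0 0) (P.cons (P.lf 0 1046576 0) (P.cons (P.lf 0 801 0) P.nil))) (P.cons (P.cons (P.lf 21690491 0 0) (P.cons (P.lf 0 4350446 0) P.nil)) (P.cons (P.cons (P.lf 0 8531361 0) P.nil) P.nil)))))) 14375760)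
 (EL.cons 10 (TM.mk (P.cons (P.cons (P.lf 198154716 0 0) (P.cons (P.lf 0 181163688 0) (P.cons (P.lf 0 23628174 0) (P.cons (P.lf 4827294 0 0) (P.cons (P.lf 691674 0 0) (P.cons (P.lf 0 8022 0) P.nil)))))) (P.cons (P.cons (P.lf 79379070 0 0) (P.cons (P.lf 0 67381566 0) (P.cons (P.lf 0 16539618 0) (P.cons (P.lf 3274044 0 0) (P.cons (P.lf 826020 0 0) P.nil))))) (P.cons (P.cons (P.lf 0 28529382 0) (P.cons (P.lf 31694310 0 0) (P.cons (P.lf 0 4245108 0) (P.cons (P.lf 753738 0 0) P.nil)))) (P.cons (P.cons (P.lf 0 11216586 0) (P.cons (P.lf 12450198 0 0) (P.cons (P.lf 0 1654410 0) P.nil))) (P.cons (P.cons (P.lf 2697228 0 0) (P.cons (P.lf 0 2168022 0) P.nil)) (P.cons (P.cons (P.lf 1369062 0 0) P.nil) P.nil)))))) 6904608)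
 EL.nil))))
noncomputable def S82_140_660_808_9 : EL := (EL.cons 3 (TM.mk (P.cons (P.lf 0 3255703297 0) (P.cons (P.lf 278383023 0 0) (P.cons (P.lf 69148875 0 0) (P.cons (P.lf 4729800 0 0) (P.cons (P.lf 0 250177 0) (P.cons (P.lf 0 82796 0) P.nil)))))) 14718)
 (EL.cons 7 (TM.mk (P.cons (P.lf 0 918116516 0) (P.cons (P.lf 0 350992016 0) (P.cons (P.lf 0 5087185 0) (P.cons (P.lf 3436187 0 0) (P.cons (P.lf 451667 0 0) (P.cons (P.lf 12370 0 0) P.nil)))))) 9470)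
 EL.nil))
noncomputable def S82_140_660_808_10 : EL := (EL.cons 3 (TM.mk (P.cons (P.cons (P.lf 1386944196 0 0) (P.cons (P.lf 24047918 0 0) (P.cons (P.lf 0 10369733 0) (P.lf 0 1152189 0)))) (P.cons (P.cons (P.lf 0 623440162 0) (P.cons (P.lf 25524002 0 0) (P.cons (P.lf 0 11006236 0) (P.lf 0 1222913 0)))) (P.cons (P.cons (P.lf 0 18045265 0) (P.cons (P.lf 8074506 0 0) (P.cons (P.lf 0 3481816 0) (P.lf 0 386867 0)))) (P.cons (P.cons (P.lf 41078419 0 0) (P.cons (P.lf 0 177217 0) (P.cons (P.lf 76418 0 0) P.nil))) (P.cons (P.cons (P.lf 3826816 0 0) (P.cons (P.lf 0 569885 0) P.nil)) (P.cons (P.cons (P.lf 0 1201364 0) P.nil) P.nil)))))) 1174475)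
 (EL.cons 7 (TM.mk (P.cons (P.cons (P.lf 391121750 0 0) (P.cons (P.lf 6781573 0 0) (P.cons (P.lf 0 2924291 0) (P.lf 0 324920 0)))) (P.cons (P.cons (P.lf 7155837 0 0) (P.cons (P.lf 10370266 0 0) (P.cons (P.lf 0 4471775 0) (P.lf 0 496863 0)))) (P.cons (P.cons (P.lf 0 61214681 0) (P.cons (P.lf 6097066 0 0) (P.cons (P.lf 0 2629123 0) (P.lf 0 292124 0)))) (P.cons (P.cons (P.lf 2686760 0 0) (P.cons (P.lf 1586471 0 0) (P.cons (P.lf 0 684103 0) P.nil))) (P.cons (P.cons (P.lf 4855080 0 0) (P.cons (P.lf 82221 0 0) P.nil)) (P.cons (P.cons (P.lf 611005 0 0) P.nil) P.nil)))))) 501198)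
 EL.nil))
noncomputable def S82_140_660_808_11 : EL := (EL.cons 3 (TM.mk (P.cons (P.cons (P.lf 0 590844443 0) (P.cons (P.lf 0 20489041 0) (P.cons (P.lf 8657478 0 0) (P.cons (P.lf 1134865 0 0) (P.cons (P.lf 0 16006 0) (P.cons (P.lf 0 7338 0) P.nil)))))) (P.cons (P.cons (P.lf 480655705 0 0) (P.cons (P.lf 0 14288666 0) (P.cons (P.lf 5769183 0 0) (P.cons (P.lf 1022887 0 0) (P.cons (P.lf 0 35348 0) P.nil))))) (P.cons (P.cons (P.lf 0 75458940 0) (P.cons (P.lf 1505353 0 0) (P.cons (P.lf 0 1005823 0) (P.cons (P.lf 235498 0 0) P.nil)))) (P.cons (P.cons (P.lf 0 39012000 0) (P.cons (P.lf 2714960 0 0) (P.cons (P.lf 0 1333798 0) P.nil))) (P.cons (P.cons (P.lf 8177070 0 0) (P.cons (P.lf 51495 0 0) P.nil)) (P.cons (P.cons (P.lf 2683616 0 0) P.nil) P.nil)))))) 4247857)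
 (EL.cons 7 (TM.mk (P.cons (P.cons (P.lf 0 166619618 0) (P.cons (P.lf 0 5777961 0) (P.cons (P.lf 2441430 0 0) (P.cons (P.lf 320034 0 0) (P.cons (P.lf 0 4514 0) (P.cons (P.lf 0 2069 0) P.nil)))))) (P.cons (P.cons (P.lf 57601129 0 0) (P.cons (P.lf 0 6732381 0) (P.cons (P.lf 2769030 0 0) (P.cons (P.lf 438169 0 0) (P.cons (P.lf 0 12080 0) P.nil))))) (P.cons (P.cons (P.lf 31002240 0 0) (P.cons (P.lf 0 1846319 0) (P.cons (P.lf 640472 0 0) (P.cons (P.lf 222723 0 0) P.nil)))) (P.cons (P.cons (P.lf 0 14129708 0) (P.cons (P.lf 617956 0 0) (P.cons (P.lf 0 367569 0) P.nil))) (P.cons (P.cons (P.lf 0 2896333 0) (P.cons (P.lf 331780 0 0) P.nil)) (P.cons (P.cons (P.lf 1089681 0 0) P.nil) P.nil)))))) 1789250)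
 EL.nil))
noncomputable def S82_140_660_808_12 : EL := (EL.cons 4 (TM.mk (P.cons (P.lf 3255703297 0 0) (P.cons (P.lf 0 278383023 0) (P.cons (P.lf 0 69148875 0) (P.cons (P.lf 0 4729800 0) (P.cons (P.lf 250177 0 0) (P.cons (P.lf 82796 0 0) P.nil)))))) 14718)
 (EL.cons 8 (TM.mk (P.cons (P.lf 918116516 0 0) (P.cons (P.lf 350992016 0 0) (P.cons (P.lf 5087185 0 0) (P.cons (P.lf 0 3436187 0) (P.cons (P.lf 0 451667 0) (P.cons (P.lf 0 12370 0) P.nil)))))) 9470)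
 EL.nil))
noncomputable def S82_140_660_808_13 : EL := (EL.cons 4 (TM.mk (P.cons (P.cons (P.lf 0 1386944196 0) (P.cons (P.lf 0 24047918 0) (P.cons (P.lf 10369733 0 0) (P.lf 1152189 0 0)))) (P.cons (P.cons (P.lf 623440162 0 0) (P.cons (P.lf 0 25524002 0) (P.cons (P.lf 11006236 0 0) (P.lf 1222913 0 0)))) (P.cons (P.cons (P.lf 18045265 0 0) (P.cons (P.lf 0 8074506 0) (P.cons (P.lf 3481816 0 0) (P.lf 386867 0 0)))) (P.cons (P.cons (P.lf 0 41078419 0) (P.cons (P.lf 177217 0 0) (P.cons (P.lf 0 76418 0) P.nil))) (P.cons (P.cons (P.lf 0 3826816 0) (P.cons (P.lf 569885 0 0) P.nil)) (P.cons (P.cons (P.lf 1201364 0 0) P.nil) P.nil)))))) 1174475)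
 (EL.cons 8 (TM.mk (P.cons (P.cons (P.lf 0 391121750 0) (P.cons (P.lf 0 6781573 0) (P.cons (P.lf 2924291 0 0) (P.lf 324920 0 0)))) (P.cons (P.cons (P.lf 0 7155837 0) (P.cons (P.lf 0 10370266 0) (P.cons (P.lf 4471775 0 0) (P.lf 496863 0 0)))) (P.cons (P.cons (P.lf 61214681 0 0) (P.cons (P.lf 0 6097066 0) (P.cons (P.lf 2629123 0 0) (P.lf 292124 0 0)))) (P.cons (P.cons (P.lf 0 2686760 0) (P.cons (P.lf 0 1586471 0) (P.cons (P.lf 684103 0 0) P.nil))) (P.cons (P.cons (P.lf 0 4855080 0) (P.cons (P.lf 0 82221 0) P.nil)) (P.cons (P.cons (P.lf 0 611005 0) P.nil) P.nil)))))) 501198)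
 EL.nil))
noncomputable def S82_140_660_808_14 : EL := (EL.cons 4 (TM.mk (P.cons (P.cons (P.lf 590844443 0 0) (P.cons (P.lf 20489041 0 0) (P.cons (P.lf 0 8657478 0) (P.cons (P.lf 0 1134865 0) (P.cons (P.lf 16006 0 0) (P.cons (P.lf 7338 0 0) P.nil)))))) (P.cons (P.cons (P.lf 0 480655705 0) (P.cons (P.lf 14288666 0 0) (P.cons (P.lf 0 5769183 0) (P.cons (P.lf 0 1022887 0) (P.cons (P.lf 35348 0 0) P.nil))))) (P.cons (P.cons (P.lf 75458940 0 0) (P.cons (P.lf 0 1505353 0) (P.cons (P.lf 1005823 0 0) (P.cons (P.lf 0 235498 0) P.nil)))) (P.cons (P.cons (P.lf 39012000 0 0) (P.cons (P.lf 0 2714960 0) (P.cons (P.lf 1333798 0 0) P.nil))) (P.cons (P.cons (P.lf 0 8177070 0) (P.cons (P.lf 0 51495 0) P.nil)) (P.cons (P.cons (P.lf 0 2683616 0) P.nil) P.nil)))))) 4247857)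
 (EL.cons 8 (TM.mk (P.cons (P.cons (P.lf 166619618 0 0) (P.cons (P.lf 5777961 0 0) (P.cons (P.lf 0 2441430 0) (P.cons (P.lf 0 320034 0) (P.cons (P.lf 4514 0 0) (P.cons (P.lf 2069 0 0) P.nil)))))) (P.cons (P.cons (P.lf 0 57601129 0) (P.cons (P.lf 6732381 0 0) (P.cons (P.lf 0 2769030 0) (P.cons (P.lf 0 438169 0) (P.cons (P.lf 12080 0 0) P.nil))))) (P.cons (P.cons (P.lf 0 31002240 0) (P.cons (P.lf 1846319 0 0) (P.cons (P.lf 0 640472 0) (P.cons (P.lf 0 222723 0) P.nil)))) (P.cons (P.cons (P.lf 14129708 0 0) (P.cons (P.lf 0 617956 0) (P.cons (P.lf 367569 0 0) P.nil))) (P.cons (P.cons (P.lf 2896333 0 0) (P.cons (P.lf 0 331780 0) P.nil)) (P.cons (P.cons (P.lf 0 1089681 0) P.nil) P.nil)))))) 1789250)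
 EL.nil))
noncomputable def S82_140_660_808_15 : EL := (EL.cons 4 (TM.mk (P.cons (P.lf 0 2632440120 0) (P.cons (P.lf 450180236 0 0) (P.cons (P.lf 92575781 0 0) (P.cons (P.lf 0 1912835 0) (P.cons (P.lf 0 2246092 0) (P.cons (P.lf 0 261750 0) P.nil)))))) 55630)
 (EL.cons 8 (TM.mk (P.cons (P.lf 0 742354732 0) (P.cons (P.lf 0 220323058 0) (P.cons (P.lf 35920386 0 0) (P.cons (P.lf 10236253 0 0) (P.cons (P.lf 570247 0 0) (P.cons (P.lf 0 114946 0) P.nil)))))) 34529)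
 EL.nil))
noncomputable def S82_140_660_808_16 : EL := (EL.cons 4 (TM.mk (P.cons (P.cons (P.lf 1121431289 0 0) (P.cons (P.lf 19444248 0 0) (P.cons (P.lf 0 8384579 0) (P.lf 0 931617 0)))) (P.cons (P.cons (P.lf 0 599979835 0) (P.cons (P.lf 18975150 0 0) (P.cons (P.lf 0 8182298 0) (P.lf 0 909142 0)))) (P.cons (P.cons (P.lf 4693740 0 0) (P.cons (P.lf 4351104 0 0) (P.cons (P.lf 0 1876244 0) (P.lf 0 208470 0)))) (P.cons (P.cons (P.lf 43539420 0 0) (P.cons (P.lf 0 1168119 0) (P.cons (P.lf 503706 0 0) P.nil))) (P.cons (P.cons (P.lf 1382575 0 0) (P.cons (P.lf 0 615690 0) P.nil)) (P.cons (P.cons (P.lf 0 1930425 0) P.nil) P.nil)))))) 1367288)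
 (EL.cons 8 (TM.mk (P.cons (P.cons (P.lf 316246443 0 0) (P.cons (P.lf 5483327 0 0) (P.cons (P.lf 0 2364472 0) (P.lf 0 262718 0)))) (P.cons (P.cons (P.lf 0 21255108 0) (P.cons (P.lf 7916151 0 0) (P.cons (P.lf 0 3413533 0) (P.lf 0 379280 0)))) (P.cons (P.cons (P.lf 0 56707494 0) (P.cons (P.lf 4096427 0 0) (P.cons (P.lf 0 1766425 0) (P.lf 0 196269 0)))) (P.cons (P.cons (P.lf 5822300 0 0) (P.cons (P.lf 675169 0 0) (P.cons (P.lf 0 291140 0) P.nil))) (P.cons (P.cons (P.lf 4807035 0 0) (P.cons (P.lf 0 159669 0) P.nil)) (P.cons (P.cons (P.lf 192622 0 0) P.nil) P.nil)))))) 664701)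
 EL.nil))
noncomputable def S82_140_660_808_17 : EL := (EL.cons 4 (TM.mk (P.cons (P.cons (P.lf 0 477734755 0) (P.cons (P.lf 0 16566674 0) (P.cons (P.lf 7000113 0 0) (P.cons (P.lf 917610 0 0) (P.cons (P.lf 0 12942 0) (P.cons (P.lf 0 5933 0) P.nil)))))) (P.cons (P.cons (P.lf 429489570 0 0) (P.cons (P.lf 0 10136728 0) (P.cons (P.lf 4066192 0 0) (P.cons (P.lf 748606 0 0) (P.cons (P.lf 0 27474 0) P.nil))))) (P.cons (P.cons (P.lf 0 84097703 0) (P.cons (P.lf 2556915 0 0) (P.cons (P.lf 0 1360814 0) (P.cons (P.lf 100206 0 0) P.nil)))) (P.cons (P.cons (P.lf 0 33887038 0) (P.cons (P.lf 2360591 0 0) (P.cons (P.lf 0 1118164 0) P.nil))) (P.cons (P.cons (P.lf 10003416 0 0) (P.cons (P.lf 0 156406 0) P.nil)) (P.cons (P.cons (P.lf 2380850 0 0) P.nil) P.nil)))))) 4214382)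
 (EL.cons 8 (TM.mk (P.cons (P.cons (P.lf 0 134722402 0) (P.cons (P.lf 0 4671843 0) (P.cons (P.lf 1974049 0 0) (P.cons (P.lf 258768 0 0) (P.cons (P.lf 0 3649 0) (P.cons (P.lf 0 1673 0) P.nil)))))) (P.cons (P.cons (P.lf 58093731 0 0) (P.cons (P.lf 0 5044080 0) (P.cons (P.lf 2070141 0 0) (P.cons (P.lf 332161 0 0) (P.cons (P.lf 0 9455 0) P.nil))))) (P.cons (P.cons (P.lf 23946285 0 0) (P.cons (P.lf 0 928180 0) (P.cons (P.lf 284492 0 0) (P.cons (P.lf 144296 0 0) P.nil)))) (P.cons (P.cons (P.lf 0 14361642 0) (P.cons (P.lf 749710 0 0) (P.cons (P.lf 0 391904 0) P.nil))) (P.cons (P.cons (P.lf 0 1975404 0) (P.cons (P.lf 264798 0 0) P.nil)) (P.cons (P.cons (P.lf 1287708 0 0) P.nil) P.nil)))))) 1827653)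
 EL.nil))
noncomputable def S82_140_660_808_18 : EL := (EL.cons 4 (TM.mk (P.cons (P.lf 2128492786 0 0) (P.cons (P.lf 0 545998394 0) (P.cons (P.lf 0 88936838 0) (P.cons (P.lf 12585940 0 0) (P.cons (P.lf 3966058 0 0) (P.cons (P.lf 158407 0 0) P.nil)))))) 145112)
 (EL.cons 8 (TM.mk (P.cons (P.lf 600240317 0 0) (P.cons (P.lf 126820692 0 0) (P.cons (P.lf 0 57025083 0) (P.cons (P.lf 0 10448908 0) (P.cons (P.lf 650816 0 0) (P.cons (P.lf 379305 0 0) P.nil)))))) 67460)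
 EL.nil))
noncomputable def S82_140_660_808_19 : EL := (EL.cons 4 (TM.mk (P.cons (P.cons (P.lf 0 906747466 0) (P.cons (P.lf 0 15721893 0) (P.cons (P.lf 6779458 0 0) (P.lf 753270 0 0)))) (P.cons (P.cons (P.lf 562653879 0 0) (P.cons (P.lf 0 13998277 0) (P.cons (P.lf 6036214 0 0) (P.lf 670689 0 0)))) (P.cons (P.cons (P.lf 0 26017406 0) (P.cons (P.lf 0 1872330 0) (P.cons (P.lf 807369 0 0) (P.lf 89707 0 0)))) (P.cons (P.cons (P.lf 0 43866176 0) (P.cons (P.lf 1594027 0 0) (P.cons (P.lf 0 687362 0) P.nil))) (P.cons (P.cons (P.lf 1198451 0 0) (P.cons (P.lf 512867 0 0) P.nil)) (P.cons (P.cons (P.lf 2423905 0 0) P.nil) P.nil)))))) 1656238)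
 (EL.cons 8 (TM.mk (P.cons (P.cons (P.lf 0 255705065 0) (P.cons (P.lf 0 4433613 0) (P.cons (P.lf 1911824 0 0) (P.lf 212424 0 0)))) (P.cons (P.cons (P.lf 39050471 0 0) (P.cons (P.lf 0 6021602 0) (P.cons (P.lf 2596582 0 0) (P.lf 288508 0 0)))) (P.cons (P.cons (P.lf 49813042 0 0) (P.cons (P.lf 0 2670750 0) (P.cons (P.lf 1151657 0 0) (P.lf 127961 0 0)))) (P.cons (P.cons (P.lf 0 8621829 0) (P.cons (P.lf 0 120314 0) (P.cons (P.lf 51880 0 0) P.nil))) (P.cons (P.cons (P.lf 0 4502723 0) (P.cons (P.lf 255089 0 0) P.nil)) (P.cons (P.cons (P.lf 204791 0 0) P.nil) P.nil)))))) 802363)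
 EL.nil))
noncomputable def S82_140_660_808_20 : EL := (EL.cons 4 (TM.mk (P.cons (P.cons (P.lf 386278484 0 0) (P.cons (P.lf 13395194 0 0) (P.cons (P.lf 0 5660030 0) (P.cons (P.lf 0 741945 0) (P.cons (P.lf 10464 0 0) (P.cons (P.lf 4798 0 0) P.nil)))))) (P.cons (P.cons (P.lf 0 380298458 0) (P.cons (P.lf 7050806 0 0) (P.cons (P.lf 0 2803803 0) (P.cons (P.lf 0 541854 0) (P.cons (P.lf 21319 0 0) P.nil))))) (P.cons (P.cons (P.lf 89487670 0 0) (P.cons (P.lf 0 3052755 0) (P.cons (P.lf 1501643 0 0) (P.cons (P.lf 0 13507 0) P.nil)))) (P.cons (P.cons (P.lf 28400097 0 0) (P.cons (P.lf 0 1925449 0) (P.cons (P.lf 888075 0 0) P.nil))) (P.cons (P.cons (P.lf 0 11341292 0) (P.cons (P.lf 322702 0 0) P.nil)) (P.cons (P.cons (P.lf 0 1931059 0) P.nil) P.nil)))))) 4196204)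
 (EL.cons 8 (TM.mk (P.cons (P.cons (P.lf 108931503 0 0) (P.cons (P.lf 3777478 0 0) (P.cons (P.lf 0 1596142 0) (P.cons (P.lf 0 209230 0) (P.cons (P.lf 2951 0 0) (P.cons (P.lf 1352 0 0) P.nil)))))) (P.cons (P.cons (P.lf 0 56286747 0) (P.cons (P.lf 3755457 0 0) (P.cons (P.lf 0 1537358 0) (P.cons (P.lf 0 250682 0) (P.cons (P.lf 7392 0 0) P.nil))))) (P.cons (P.cons (P.lf 0 17659265 0) (P.cons (P.lf 321527 0 0) (P.cons (P.lf 0 53004 0) (P.cons (P.lf 0 89264 0) P.nil)))) (P.cons (P.cons (P.lf 14107275 0 0) (P.cons (P.lf 0 762470 0) (P.cons (P.lf 374418 0 0) P.nil))) (P.cons (P.cons (P.lf 1092162 0 0) (P.cons (P.lf 0 183848 0) P.nil)) (P.cons (P.cons (P.lf 0 1397114 0) P.nil) P.nil)))))) 1764545)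
 EL.nil))
noncomputable def S82_140_660_808_21 : EL := (EL.cons 4 (TM.mk (P.cons (P.cons (P.lf 0 1320568668 0) (P.cons (P.lf 72143754 0 0) (P.cons (P.lf 0 31109199 0) (P.lf 0 3456567 0)))) (P.cons (P.cons (P.lf 0 519779778 0) (P.cons (P.lf 76572006 0 0) (P.cons (P.lf 0 33018708 0) (P.lf 0 3668739 0)))) (P.cons (P.cons (P.lf 223591548 0 0) (P.cons (P.lf 24223518 0 0) (P.cons (P.lf 0 10445448 0) (P.lf 0 1160601 0)))) (P.cons (P.cons (P.lf 117496755 0 0) (P.cons (P.lf 0 531651 0) (P.cons (P.lf 229254 0 0) P.nil))) (P.cons (P.cons (P.lf 4742172 0 0) (P.cons (P.lf 0 1709655 0) P.nil)) (P.cons (P.cons (P.lf 0 4389342 0) P.nil) P.nil)))))) 3676266)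
 (EL.cons 8 (TM.mk (P.cons (P.cons (P.lf 1665004740 0 0) (P.cons (P.lf 0 90960597 0) (P.cons (P.lf 39223236 0 0) (P.lf 4358139 0 0)))) (P.cons (P.cons (P.lf 0 123541668 0) (P.cons (P.lf 0 53992293 0) (P.cons (P.lf 23282088 0 0) (P.lf 2586900 0 0)))) (P.cons (P.cons (P.lf 0 335305917 0) (P.cons (P.lf 790464 0 0) (P.cons (P.lf 0 340857 0) (P.lf 0 37872 0)))) (P.cons (P.cons (P.lf 0 5273712 0) (P.cons (P.lf 5121018 0 0) (P.cons (P.lf 0 2208237 0) P.nil))) (P.cons (P.cons (P.lf 16082259 0 0) (P.cons (P.lf 671268 0 0) P.nil)) (P.cons (P.cons (P.lf 2281902 0 0) P.nil) P.nil)))))) 1898772)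
 (EL.cons 11 (TM.mk (P.cons (P.cons (P.lf 232573512 0 0) (P.cons (P.lf 0 216663741 0) (P.cons (P.lf 0 22236747 0) (P.cons (P.lf 4624623 0 0) (P.lf 385383 0 0))))) (P.cons (P.cons (P.lf 177823716 0 0) (P.cons (P.lf 0 165659241 0) (P.cons (P.lf 0 17002026 0) (P.cons (P.lf 3535947 0 0) (P.lf 294660 0 0))))) (P.cons (P.cons (P.lf 36567951 0 0) (P.cons (P.lf 0 34066431 0) (P.cons (P.lf 0 3496323 0) (P.cons (P.lf 727137 0 0) P.nil)))) (P.cons (P.cons (P.lf 0 755577 0) (P.cons (P.lf 703890 0 0) (P.cons (P.lf 72240 0 0) P.nil))) (P.cons (P.cons (P.lf 0 887217 0) (P.cons (P.lf 826527 0 0) P.nil)) (P.cons (P.cons (P.lf 0 103392 0) P.nil) P.nil)))))) 319218)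
 EL.nil)))
noncomputable def S82_140_660_808_22 : EL := (EL.cons 4 (TM.mk (P.cons (P.cons (P.lf 562568169 0 0) (P.cons (P.lf 0 20979315 0) (P.cons (P.lf 8513634 0 0) (P.cons (P.lf 1464735 0 0) (P.cons (P.lf 0 48021 0) (P.cons (P.lf 0 22017 0) P.nil)))))) (P.cons (P.cons (P.lf 16653675 0 0) (P.cons (P.lf 0 6406680 0) (P.cons (P.lf 1585881 0 0) (P.cons (P.lf 1321812 0 0) (P.cons (P.lf 0 106044 0) P.nil))))) (P.cons (P.cons (P.lf 0 188731431 0) (P.cons (P.lf 9448626 0 0) (P.cons (P.lf 0 5144448 0) (P.cons (P.lf 470166 0 0) P.nil)))) (P.cons (P.cons (P.lf 0 8423796 0) (P.cons (P.lf 3617043 0 0) (P.cons (P.lf 0 2048934 0) P.nil))) (P.cons (P.cons (P.lf 25081389 0 0) (P.cons (P.lf 0 1558050 0) P.nil)) (P.cons (P.cons (P.lf 2407668 0 0) P.nil) P.nil)))))) 10450785)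
 (EL.cons 8 (TM.mk (P.cons (P.cons (P.lf 0 709299480 0) (P.cons (P.lf 26451234 0 0) (P.cons (P.lf 0 10734198 0) (P.cons (P.lf 0 1846779 0) (P.cons (P.lf 60546 0 0) (P.cons (P.lf 27762 0 0) P.nil)))))) (P.cons (P.cons (P.lf 310814343 0 0) (P.cons (P.lf 0 4296240 0) (P.cons (P.lf 3021954 0 0) (P.cons (P.lf 0 802647 0) (P.cons (P.lf 105381 0 0) P.nil))))) (P.cons (P.cons (P.lf 139924722 0 0) (P.cons (P.lf 0 11669685 0) (P.cons (P.lf 5789397 0 0) (P.cons (P.lf 0 93990 0) P.nil)))) (P.cons (P.cons (P.lf 0 66118938 0) (P.cons (P.lf 832266 0 0) (P.cons (P.lf 0 183384 0) P.nil))) (P.cons (P.cons (P.lf 0 12293412 0) (P.cons (P.lf 2341113 0 0) P.nil)) (P.cons (P.cons (P.lf 4810521 0 0) P.nil) P.nil)))))) 6293244)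
 (EL.cons 11 (TM.mk (P.cons (P.cons (P.lf 0 99077358 0) (P.cons (P.lf 90581844 0 0) (P.cons (P.lf 11814087 0 0) (P.cons (P.lf 0 2413647 0) (P.cons (P.lf 0 345837 0) (P.cons (P.lf 4011 0 0) P.nil)))))) (P.cons (P.cons (P.lf 0 39689535 0) (P.cons (P.lf 33690783 0 0) (P.cons (P.lf 8269809 0 0) (P.cons (P.lf 0 1637022 0) (P.cons (P.lf 0 413010 0) P.nil))))) (P.cons (P.cons (P.lf 14264691 0 0) (P.cons (P.lf 0 15847155 0) (P.cons (P.lf 2122554 0 0) (P.cons (P.lf 0 376869 0) P.nil)))) (P.cons (P.cons (P.lf 5608293 0 0) (P.cons (P.lf 0 6225099 0) (P.cons (P.lf 827205 0 0) P.nil))) (P.cons (P.cons (P.lf 0 1348614 0) (P.cons (P.lf 1084011 0 0) P.nil)) (P.cons (P.cons (P.lf 0 684531 0) P.nil) P.nil)))))) 3452304)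
 EL.nil)))
noncomputable def S82_140_660_808_23 : EL := (EL.cons 4 (TM.mk (P.cons (P.cons (P.lf 1067762514 0 0) (P.cons (P.lf 0 58332744 0) (P.cons (P.lf 25153734 0 0) (P.lf 2794851 0 0)))) (P.cons (P.cons (P.lf 328974135 0 0) (P.cons (P.lf 0 56925447 0) (P.cons (P.lf 24546891 0 0) (P.lf 2727426 0 0)))) (P.cons (P.cons (P.lf 0 239402412 0) (P.cons (P.lf 0 13053312 0) (P.cons (P.lf 5628729 0 0) (P.lf 625410 0 0)))) (P.cons (P.cons (P.lf 0 90022557 0) (P.cons (P.lf 3504357 0 0) (P.cons (P.lf 0 1511118 0) P.nil))) (P.cons (P.cons (P.lf 7600341 0 0) (P.cons (P.lf 1847067 0 0) P.nil)) (P.cons (P.cons (P.lf 6216819 0 0) P.nil) P.nil)))))) 4580166)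
 (EL.cons 8 (TM.mk (P.cons (P.cons (P.lf 0 1346260662 0) (P.cons (P.lf 73547340 0 0) (P.cons (P.lf 0 31714443 0) (P.lf 0 3523827 0)))) (P.cons (P.cons (P.lf 215004897 0 0) (P.cons (P.lf 37367391 0 0) (P.cons (P.lf 0 16113243 0) (P.lf 0 1790361 0)))) (P.cons (P.cons (P.lf 291168162 0 0) (P.cons (P.lf 0 5934108 0) (P.cons (P.lf 2558853 0 0) (P.lf 284316 0 0)))) (P.cons (P.cons (P.lf 0 19083783 0) (P.cons (P.lf 0 5120085 0) (P.cons (P.lf 2207835 0 0) P.nil))) (P.cons (P.cons (P.lf 0 19375005 0) (P.cons (P.lf 0 232905 0) P.nil)) (P.cons (P.cons (P.lf 0 1244175 0) P.nil) P.nil)))))) 2692539)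
 (EL.cons 11 (TM.mk (P.cons (P.cons (P.lf 0 188050257 0) (P.cons (P.lf 175186209 0 0) (P.cons (P.lf 17979801 0 0) (P.cons (P.lf 0 3739296 0) (P.lf 0 311604 0))))) (P.cons (P.cons (P.lf 0 127702140 0) (P.cons (P.lf 118966356 0 0) (P.cons (P.lf 12209817 0 0) (P.cons (P.lf 0 2539299 0) (P.lf 0 211605 0))))) (P.cons (P.cons (P.lf 0 13279194 0) (P.cons (P.lf 12370797 0 0) (P.cons (P.lf 1269645 0 0) (P.cons (P.lf 0 264048 0) P.nil)))) (P.cons (P.cons (P.lf 6466152 0 0) (P.cons (P.lf 0 6023817 0) (P.cons (P.lf 0 618237 0) P.nil))) (P.cons (P.cons (P.lf 1487556 0 0) (P.cons (P.lf 0 1385796 0) P.nil)) (P.cons (P.cons (P.lf 36405 0 0) P.nil) P.nil)))))) 730401)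
 EL.nil)))
noncomputable def S82_140_660_808_24 : EL := (EL.cons 4 (TM.mk (P.cons (P.cons (P.lf 0 454871616 0) (P.cons (P.lf 16963092 0 0) (P.cons (P.lf 0 6883806 0) (P.cons (P.lf 0 1184328 0) (P.cons (P.lf 38829 0 0) (P.cons (P.lf 17802 0 0) P.nil)))))) (P.cons (P.cons (P.lf 25428831 0 0) (P.cons (P.lf 3729750 0 0) (P.cons (P.lf 0 693678 0) (P.cons (P.lf 0 967500 0) (P.cons (P.lf 82425 0 0) P.nil))))) (P.cons (P.cons (P.lf 163413732 0 0) (P.cons (P.lf 0 8443032 0) (P.cons (P.lf 4415460 0 0) (P.cons (P.lf 0 263616 0) P.nil)))) (P.cons (P.cons (P.lf 0 5290362 0) (P.cons (P.lf 0 2406021 0) (P.cons (P.lf 1338255 0 0) P.nil))) (P.cons (P.cons (P.lf 0 24118806 0) (P.cons (P.lf 1665894 0 0) P.nil)) (P.cons (P.cons (P.lf 0 591654 0) P.nil) P.nil)))))) 9161145)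
 (EL.cons 8 (TM.mk (P.cons (P.cons (P.lf 573513075 0 0) (P.cons (P.lf 0 21387480 0) (P.cons (P.lf 8679273 0 0) (P.cons (P.lf 1493235 0 0) (P.cons (P.lf 0 48954 0) (P.cons (P.lf 0 22446 0) P.nil)))))) (P.cons (P.cons (P.lf 0 300351834 0) (P.cons (P.lf 5302542 0 0) (P.cons (P.lf 0 3185571 0) (P.cons (P.lf 521310 0 0) (P.cons (P.lf 0 81021 0) P.nil))))) (P.cons (P.cons (P.lf 0 103830099 0) (P.cons (P.lf 9592896 0 0) (P.cons (P.lf 0 4656504 0) (P.cons (P.lf 0 11208 0) P.nil)))) (P.cons (P.cons (P.lf 67639830 0 0) (P.cons (P.lf 0 1522458 0) (P.cons (P.lf 587829 0 0) P.nil))) (P.cons (P.cons (P.lf 8180859 0 0) (P.cons (P.lf 0 2042493 0) P.nil)) (P.cons (P.cons (P.lf 0 5715381 0) P.nil) P.nil)))))) 5354871)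
 (EL.cons 11 (TM.mk (P.cons (P.cons (P.lf 80110251 0 0) (P.cons (P.lf 0 73241097 0) (P.cons (P.lf 0 9552429 0) (P.cons (P.lf 1951584 0 0) (P.cons (P.lf 279630 0 0) (P.cons (P.lf 0 3243 0) P.nil)))))) (P.cons (P.cons (P.lf 25241547 0 0) (P.cons (P.lf 0 20978535 0) (P.cons (P.lf 0 5869866 0) (P.cons (P.lf 1156761 0 0) (P.cons (P.lf 310035 0 0) P.nil))))) (P.cons (P.cons (P.lf 0 15979404 0) (P.cons (P.lf 16698294 0 0) (P.cons (P.lf 0 941580 0) (P.cons (P.lf 150093 0 0) P.nil)))) (P.cons (P.cons (P.lf 0 4346418 0) (P.cons (P.lf 4622739 0 0) (P.cons (P.lf 0 366201 0) P.nil))) (P.cons (P.cons (P.lf 1682685 0 0) (P.cons (P.lf 0 1545078 0) P.nil)) (P.cons (P.cons (P.lf 577818 0 0) P.nil) P.nil)))))) 2952660)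
 EL.nil)))
noncomputable def S82_140_660_808_25 : EL := (EL.cons 4 (TM.mk (P.cons (P.cons (P.lf 0 863352900 0) (P.cons (P.lf 47165679 0 0) (P.cons (P.lf 0 20338371 0) (P.lf 0 2259810 0)))) (P.cons (P.cons (P.lf 0 192174123 0) (P.cons (P.lf 41994831 0 0) (P.cons (P.lf 0 18108642 0) (P.lf 0 2012067 0)))) (P.cons (P.cons (P.lf 234653208 0 0) (P.cons (P.lf 5616990 0 0) (P.cons (P.lf 0 2422104 0) (P.lf 0 269121 0)))) (P.cons (P.cons (P.lf 63141102 0 0) (P.cons (P.lf 0 4782081 0) (P.cons (P.lf 2062086 0 0) P.nil))) (P.cons (P.cons (P.lf 0 16160499 0) (P.cons (P.lf 0 1538598 0) P.nil)) (P.cons (P.cons (P.lf 0 6370818 0) P.nil) P.nil)))))) 4862127)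
 (EL.cons 8 (TM.mk (P.cons (P.cons (P.lf 1088536101 0 0) (P.cons (P.lf 0 59467632 0) (P.cons (P.lf 25643115 0 0) (P.lf 2849235 0 0)))) (P.cons (P.cons (P.lf 0 266921586 0) (P.cons (P.lf 0 25129023 0) (P.cons (P.lf 10835919 0 0) (P.lf 1203990 0 0)))) (P.cons (P.cons (P.lf 0 243682623 0) (P.cons (P.lf 8644623 0 0) (P.cons (P.lf 0 3727659 0) (P.lf 0 414183 0)))) (P.cons (P.cons (P.lf 37671924 0 0) (P.cons (P.lf 4457757 0 0) (P.cons (P.lf 0 1922232 0) P.nil))) (P.cons (P.cons (P.lf 19683030 0 0) (P.cons (P.lf 0 228252 0) P.nil)) (P.cons (P.cons (P.lf 0 304920 0) P.nil) P.nil)))))) 3137922)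
 (EL.cons 11 (TM.mk (P.cons (P.cons (P.lf 152050416 0 0) (P.cons (P.lf 0 141649026 0) (P.cons (P.lf 0 14537796 0) (P.cons (P.lf 3023454 0 0) (P.lf 251952 0 0))))) (P.cons (P.cons (P.lf 90253920 0 0) (P.cons (P.lf 0 84079875 0) (P.cons (P.lf 0 8629329 0) (P.cons (P.lf 1794657 0 0) (P.lf 149553 0 0))))) (P.cons (P.cons (P.lf 0 1321347 0) (P.cons (P.lf 1230957 0 0) (P.cons (P.lf 126336 0 0) (P.cons (P.lf 0 26274 0) P.nil)))) (P.cons (P.cons (P.lf 0 8560338 0) (P.cons (P.lf 7974747 0 0) (P.cons (P.lf 818466 0 0) P.nil))) (P.cons (P.cons (P.lf 0 1122099 0) (P.cons (P.lf 1045341 0 0) P.nil)) (P.cons (P.cons (P.lf 180654 0 0) P.nil) P.nil)))))) 984315)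
 EL.nil)))
noncomputable def S82_140_660_808_26 : EL := (EL.cons 4 (TM.mk (P.cons (P.cons (P.lf 367792203 0 0) (P.cons (P.lf 0 13715721 0) (P.cons (P.lf 5565987 0 0) (P.cons (P.lf 957603 0 0) (P.cons (P.lf 0 31395 0) (P.cons (P.lf 0 14394 0) P.nil)))))) (P.cons (P.cons (P.lf 0 52009338 0) (P.cons (P.lf 0 1842957 0) (P.cons (P.lf 84954 0 0) (P.cons (P.lf 700401 0 0) (P.cons (P.lf 0 63960 0) P.nil))))) (P.cons (P.cons (P.lf 0 138183816 0) (P.cons (P.lf 7375896 0 0) (P.cons (P.lf 0 3736353 0) (P.cons (P.lf 125922 0 0) P.nil)))) (P.cons (P.cons (P.lf 15477930 0 0) (P.cons (P.lf 1445670 0 0) (P.cons (P.lf 0 796788 0) P.nil))) (P.cons (P.cons (P.lf 22000290 0 0) (P.cons (P.lf 0 1654992 0) P.nil)) (P.cons (P.cons (P.lf 0 1080237 0) P.nil) P.nil)))))) 8404470)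
 (EL.cons 8 (TM.mk (P.cons (P.cons (P.lf 0 463721256 0) (P.cons (P.lf 17293116 0 0) (P.cons (P.lf 0 7017735 0) (P.cons (P.lf 0 1207374 0) (P.cons (P.lf 39582 0 0) (P.cons (P.lf 18150 0 0) P.nil)))))) (P.cons (P.cons (P.lf 282504348 0 0) (P.cons (P.lf 0 5766108 0) (P.cons (P.lf 3175794 0 0) (P.cons (P.lf 0 318273 0) (P.cons (P.lf 62124 0 0) P.nil))))) (P.cons (P.cons (P.lf 73036782 0 0) (P.cons (P.lf 0 7757148 0) (P.cons (P.lf 3693885 0 0) (P.cons (P.lf 70749 0 0) P.nil)))) (P.cons (P.cons (P.lf 0 66353913 0) (P.cons (P.lf 1960167 0 0) (P.cons (P.lf 0 841746 0) P.nil))) (P.cons (P.cons (P.lf 0 4109862 0) (P.cons (P.lf 1718523 0 0) P.nil)) (P.cons (P.cons (P.lf 6233349 0 0) P.nil) P.nil)))))) 4821303)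
 (EL.cons 11 (TM.mk (P.cons (P.cons (P.lf 0 64774158 0) (P.cons (P.lf 59220015 0 0) (P.cons (P.lf 7723737 0 0) (P.cons (P.lf 0 1577979 0) (P.cons (P.lf 0 226098 0) (P.cons (P.lf 2622 0 0) P.nil)))))) (P.cons (P.cons (P.lf 0 14870778 0) (P.cons (P.lf 11898777 0 0) (P.cons (P.lf 4085727 0 0) (P.cons (P.lf 0 800388 0) (P.cons (P.lf 0 231348 0) P.nil))))) (P.cons (P.cons (P.lf 16041237 0 0) (P.cons (P.lf 0 16209804 0) (P.cons (P.lf 191454 0 0) (P.cons (P.lf 0 7869 0) P.nil)))) (P.cons (P.cons (P.lf 2937162 0 0) (P.cons (P.lf 0 3029604 0) (P.cons (P.lf 118971 0 0) P.nil))) (P.cons (P.cons (P.lf 0 1910802 0) (P.cons (P.lf 1835568 0 0) P.nil)) (P.cons (P.cons (P.lf 0 447495 0) P.nil) P.nil)))))) 2754882)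
 EL.nil)))
noncomputable def S82_140_660_808_27 : EL := (EL.cons 13 (TM.mk (P.lf 0 4294967296 0) 0)
 EL.nil)
noncomputable def S82_140_660_808_28 : EL := (EL.cons 13 (TM.mk (P.cons (P.cons (P.lf 1829675318 0 0) (P.cons (P.lf 31724336 0 0) (P.cons (P.lf 0 13679892 0) (P.lf 0 1519984 0)))) (P.cons (P.cons (P.lf 0 666001894 0) (P.cons (P.lf 36384236 0 0) (P.cons (P.lf 0 15689292 0) (P.lf 0 1743252 0)))) (P.cons (P.cons (P.lf 0 41891857 0) (P.cons (P.lf 14436880 0 0) (P.cons (P.lf 0 6225344 0) (P.lf 0 691704 0)))) (P.cons (P.cons (P.lf 39121872 0 0) (P.cons (P.lf 1819520 0 0) (P.cons (P.lf 0 784596 0) P.nil))) (P.cons (P.cons (P.lf 6395652 0 0) (P.cons (P.lf 0 239172 0) P.nil)) (P.cons (P.cons (P.lf 0 263279 0) P.nil) P.nil)))))) 736894)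
 EL.nil)
noncomputable def S82_140_660_808_29 : EL := (EL.cons 13 (TM.mk (P.cons (P.cons (P.lf 0 779449886 0) (P.cons (P.lf 0 27029418 0) (P.cons (P.lf 11421062 0 0) (P.cons (P.lf 1497130 0 0) (P.cons (P.lf 0 21117 0) (P.cons (P.lf 0 9682 0) P.nil)))))) (P.cons (P.cons (P.lf 567439583 0 0) (P.cons (P.lf 0 21160985 0) (P.cons (P.lf 8587357 0 0) (P.cons (P.lf 1477421 0 0) (P.cons (P.lf 0 48438 0) P.nil))))) (P.cons (P.cons (P.lf 0 67581778 0) (P.cons (P.lf 0 397600 0) (P.cons (P.lf 0 350048 0) (P.cons (P.lf 468800 0 0) P.nil)))) (P.cons (P.cons (P.lf 0 46324161 0) (P.cons (P.lf 3058904 0 0) (P.cons (P.lf 0 1590514 0) P.nil))) (P.cons (P.cons (P.lf 6275163 0 0) (P.cons (P.lf 292380 0 0) P.nil)) (P.cons (P.cons (P.lf 2970974 0 0) P.nil) P.nil)))))) 4191482)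
 EL.nil)
noncomputable def S82_140_660_808_30 : EL := (EL.cons 13 (TM.mk (P.cons (P.lf 3472750184 0 0) (P.cons (P.lf 0 296941892 0) (P.cons (P.lf 0 73758800 0) (P.cons (P.lf 0 5045120 0) (P.cons (P.lf 266856 0 0) (P.cons (P.lf 88316 0 0) P.nil)))))) 15692)
 EL.nil)
noncomputable def S82_140_660_808_31 : EL := (EL.cons 13 (TM.mk (P.cons (P.cons (P.lf 0 1479407143 0) (P.cons (P.lf 0 25651113 0) (P.cons (P.lf 11061049 0 0) (P.lf 1229002 0 0)))) (P.cons (P.cons (P.lf 665002840 0 0) (P.cons (P.lf 0 27225603 0) (P.cons (P.lf 11739986 0 0) (P.lf 1304441 0 0)))) (P.cons (P.cons (P.lf 19248283 0 0) (P.cons (P.lf 0 8612807 0) (P.cons (P.lf 3713938 0 0) (P.lf 412659 0 0)))) (P.cons (P.cons (P.lf 0 43816981 0) (P.cons (P.lf 189032 0 0) (P.cons (P.lf 0 81513 0) P.nil))) (P.cons (P.cons (P.lf 0 4081938 0) (P.cons (P.lf 607878 0 0) P.nil)) (P.cons (P.cons (P.lf 1281455 0 0) P.nil)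 P.nil)))))) 1252754)
 EL.nil)
noncomputable def S82_140_660_808_32 : EL := (EL.cons 13 (TM.mk (P.cons (P.cons (P.lf 630234073 0 0) (P.cons (P.lf 21854978 0 0) (P.cons (P.lf 0 9234644 0) (P.cons (P.lf 0 1210523 0) (P.cons (P.lf 17074 0 0) (P.cons (P.lf 7828 0 0) P.nil)))))) (P.cons (P.cons (P.lf 0 512699419 0) (P.cons (P.lf 15241244 0 0) (P.cons (P.lf 0 6153796 0) (P.cons (P.lf 0 1091080 0) (P.cons (P.lf 37705 0 0) P.nil))))) (P.cons (P.cons (P.lf 80489536 0 0) (P.cons (P.lf 0 1605710 0) (P.cons (P.lf 1072878 0 0) (P.cons (P.lf 0 251198 0) P.nil)))) (P.cons (P.cons (P.lf 41612801 0 0) (P.cons (P.lf 0 2895958 0) (P.cons (P.lf 1422718 0 0) P.nil))) (P.cons (P.cons (P.lf 0 8722209 0) (P.cons (P.lf 0 54929 0) P.nil)) (P.cons (P.cons (P.lf 0 2862524 0) P.nil) P.nil)))))) 4531025)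
 EL.nil)
noncomputable def S82_140_660_808_33 : EL := (EL.cons 14 (TM.mk (P.lf 8589934592 0 0) 0)
 EL.nil)
noncomputable def S82_140_660_808_34 : EL := (EL.cons 14 (TM.mk (P.cons (P.cons (P.lf 0 3659350636 0) (P.cons (P.lf 0 63448672 0) (P.cons (P.lf 27359784 0 0) (P.lf 3039968 0 0)))) (P.cons (P.cons (P.lf 1332003788 0 0) (P.cons (P.lf 0 72768472 0) (P.cons (P.lf 31378584 0 0) (P.lf 3486504 0 0)))) (P.cons (P.cons (P.lf 83783714 0 0) (P.cons (P.lf 0 28873760 0) (P.cons (P.lf 12450688 0 0) (P.lf 1383408 0 0)))) (P.cons (P.cons (P.lf 0 78243744 0) (P.cons (P.lf 0 3639040 0) (P.cons (P.lf 1569192 0 0) P.nil))) (P.cons (P.cons (P.lf 0 12791304 0) (P.cons (P.lf 478344 0 0) P.nil)) (P.cons (P.cons (P.lf 526558 0 0) P.nil) P.nil)))))) 1473788)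
 EL.nil)
noncomputable def S82_140_660_808_35 : EL := (EL.cons 14 (TM.mk (P.cons (P.cons (P.lf 1558899772 0 0) (P.cons (P.lf 54058836 0 0) (P.cons (P.lf 0 22842124 0) (P.cons (P.lf 0 2994260 0) (P.cons (P.lf 42234 0 0) (P.cons (P.lf 19364 0 0) P.nil)))))) (P.cons (P.cons (P.lf 0 1134879166 0) (P.cons (P.lf 42321970 0 0) (P.cons (P.lf 0 17174714 0) (P.cons (P.lf 0 2954842 0) (P.cons (P.lf 96876 0 0) P.nil))))) (P.cons (P.cons (P.lf 135163556 0 0) (P.cons (P.lf 795200 0 0) (P.cons (P.lf 700096 0 0) (P.cons (P.lf 0 937600 0) P.nil)))) (P.cons (P.cons (P.lf 92648322 0 0) (P.cons (P.lf 0 6117808 0) (P.cons (P.lf 3181028 0 0) P.nil))) (P.cons (P.cons (P.lf 0 12550326 0) (P.cons (P.lf 0 584760 0) P.nil)) (P.cons (P.cons (P.lf 0 5941948 0) P.nil) P.nil)))))) 8382964)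
 EL.nil)
noncomputable def S82_140_660_808_36 : EL := (EL.cons 14 (TM.mk (P.cons (P.lf 0 6945500368 0) (P.cons (P.lf 593883784 0 0) (P.cons (P.lf 147517600 0 0) (P.cons (P.lf 10090240 0 0) (P.cons (P.lf 0 533712 0) (P.cons (P.lf 0 176632 0) P.nil)))))) 31384)
 EL.nil)
noncomputable def S82_140_660_808_37 : EL := (EL.cons 14 (TM.mk (P.cons (P.cons (P.lf 2958814286 0 0) (P.cons (P.lf 51302226 0 0) (P.cons (P.lf 0 22122098 0) (P.lf 0 2458004 0)))) (P.cons (P.cons (P.lf 0 1330005680 0) (P.cons (P.lf 54451206 0 0) (P.cons (P.lf 0 23479972 0) (P.lf 0 2608882 0)))) (P.cons (P.cons (P.lf 0 38496566 0) (P.cons (P.lf 17225614 0 0) (P.cons (P.lf 0 7427876 0) (P.lf 0 825318 0)))) (P.cons (P.cons (P.lf 87633962 0 0) (P.cons (P.lf 0 378064 0) (P.cons (P.lf 163026 0 0) P.nil))) (P.cons (P.cons (P.lf 8163876 0 0) (P.cons (P.lf 0 1215756 0) P.nil)) (P.cons (P.cons (P.lf 0 2562910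 0) P.nil) P.nil)))))) 2505508)
 EL.nil)
noncomputable def S82_140_660_808_38 : EL := (EL.cons 14 (TM.mk (P.cons (P.cons (P.lf 0 1260468146 0) (P.cons (P.lf 0 43709956 0) (P.cons (P.lf 18469288 0 0) (P.cons (P.lf 2421046 0 0) (P.cons (P.lf 0 34148 0) (P.cons (P.lf 0 15656 0) P.nil)))))) (P.cons (P.cons (P.lf 1025398838 0 0) (P.cons (P.lf 0 30482488 0) (P.cons (P.lf 12307592 0 0) (P.cons (P.lf 2182160 0 0) (P.cons (P.lf 0 75410 0) P.nil))))) (P.cons (P.cons (P.lf 0 160979072 0) (P.cons (P.lf 3211420 0 0) (P.cons (P.lf 0 2145756 0) (P.cons (P.lf 502396 0 0) P.nil)))) (P.cons (P.cons (P.lf 0 83225602 0) (P.cons (P.lf 5791916 0 0) (P.cons (P.lf 0 2845436 0) P.nil))) (P.cons (P.cons (P.lf 17444418 0 0) (P.cons (P.lf 109858 0 0) P.nil)) (P.cons (P.cons (P.lf 5725048 0 0) P.nil) P.nil)))))) 9062050)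
 EL.nil)
noncomputable def S82_140_660_808_39 : EL := (EL.cons 14 (TM.mk (P.cons (P.lf 5615872256 0 0) (P.cons (P.lf 0 960384504 0) (P.cons (P.lf 0 197495000 0) (P.cons (P.lf 4080716 0 0) (P.cons (P.lf 4791664 0 0) (P.cons (P.lf 558402 0 0) P.nil)))))) 118664)
 EL.nil)
noncomputable def S82_140_660_808_40 : EL := (EL.cons 14 (TM.mk (P.cons (P.cons (P.lf 0 2392386750 0) (P.cons (P.lf 0 41481064 0) (P.cons (P.lf 17887102 0 0) (P.lf 1987450 0 0)))) (P.cons (P.cons (P.lf 1279956982 0 0) (P.cons (P.lf 0 40480322 0) (P.cons (P.lf 17455570 0 0) (P.lf 1939504 0 0)))) (P.cons (P.cons (P.lf 0 10013312 0) (P.cons (P.lf 0 9282356 0) (P.cons (P.lf 4002654 0 0) (P.lf 444738 0 0)))) (P.cons (P.cons (P.lf 0 92884096 0) (P.cons (P.lf 2491988 0 0) (P.cons (P.lf 0 1074574 0) P.nil))) (P.cons (P.cons (P.lf 0 2949494 0) (P.cons (P.lf 1313472 0 0) P.nil)) (P.cons (P.cons (P.lf 4118240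 0 0) P.nil) P.nil)))))) 2916842)
 EL.nil)
noncomputable def S82_140_660_808_41 : EL := (EL.cons 14 (TM.mk (P.cons (P.cons (P.lf 1019167478 0 0) (P.cons (P.lf 35342238 0 0) (P.cons (P.lf 0 14933576 0) (P.cons (P.lf 0 1957568 0) (P.cons (P.lf 27610 0 0) (P.cons (P.lf 12658 0 0) P.nil)))))) (P.cons (P.cons (P.lf 0 916244416 0) (P.cons (P.lf 21625020 0 0) (P.cons (P.lf 0 8674544 0) (P.cons (P.lf 0 1597028 0) (P.cons (P.lf 58612 0 0) P.nil))))) (P.cons (P.cons (P.lf 179408434 0 0) (P.cons (P.lf 0 5454752 0) (P.cons (P.lf 2903070 0 0) (P.cons (P.lf 0 213774 0) P.nil)))) (P.cons (P.cons (P.lf 72292348 0 0) (P.cons (P.lf 0 5035928 0) (P.cons (P.lf 2385418 0 0) P.nil))) (P.cons (P.cons (P.lf 0 21340622 0) (P.cons (P.lf 333668 0 0) P.nil)) (P.cons (P.cons (P.lf 0 5079148 0) P.nil) P.nil)))))) 8990636)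
 EL.nil)
noncomputable def S82_140_660_808_42 : EL := (EL.cons 14 (TM.mk (P.cons (P.lf 0 4540784612 0) (P.cons (P.lf 1164796574 0 0) (P.cons (P.lf 189731922 0 0) (P.cons (P.lf 0 26850006 0) (P.cons (P.lf 0 8460924 0) (P.cons (P.lf 0 337936 0) P.nil)))))) 309558)
 EL.nil)
noncomputable def S82_140_660_808_43 : EL := (EL.cons 14 (TM.mk (P.cons (P.cons (P.lf 1934394596 0 0) (P.cons (P.lf 33540040 0 0) (P.cons (P.lf 0 14462844 0) (P.lf 0 1606978 0)))) (P.cons (P.cons (P.lf 0 1200328276 0) (P.cons (P.lf 29862992 0 0) (P.cons (P.lf 0 12877258 0) (P.lf 0 1430804 0)))) (P.cons (P.cons (P.lf 55503800 0 0) (P.cons (P.lf 3994304 0 0) (P.cons (P.lf 0 1722388 0) (P.lf 0 191376 0)))) (P.cons (P.cons (P.lf 93581176 0 0) (P.cons (P.lf 0 3400592 0) (P.cons (P.lf 1466374 0 0) P.nil))) (P.cons (P.cons (P.lf 0 2556696 0) (P.cons (P.lf 0 1094118 0) P.nil)) (P.cons (P.cons (P.lf 0 5170998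 0) P.nil) P.nil)))))) 3533268)
 EL.nil)
noncomputable def S82_140_660_808_44 : EL := (EL.cons 14 (TM.mk (P.cons (P.cons (P.lf 0 824060766 0) (P.cons (P.lf 0 28576414 0) (P.cons (P.lf 12074732 0 0) (P.cons (P.lf 1582816 0 0) (P.cons (P.lf 0 22324 0) (P.cons (P.lf 0 10236 0) P.nil)))))) (P.cons (P.cons (P.lf 811303378 0 0) (P.cons (P.lf 0 15041720 0) (P.cons (P.lf 5981448 0 0) (P.cons (P.lf 1155956 0 0) (P.cons (P.lf 0 45482 0) P.nil))))) (P.cons (P.cons (P.lf 0 190907030 0) (P.cons (P.lf 6512544 0 0) (P.cons (P.lf 0 3203506 0) (P.cons (P.lf 28816 0 0) P.nil)))) (P.cons (P.cons (P.lf 0 60586874 0) (P.cons (P.lf 4107626 0 0) (P.cons (P.lf 0 1894562 0) P.nil))) (P.cons (P.cons (P.lf 24194758 0 0) (P.cons (P.lf 0 688432 0) P.nil)) (P.cons (P.cons (P.lf 4119594 0 0) P.nil) P.nil)))))) 8951856)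
 EL.nil)
noncomputable def S82_140_660_808_45 : EL := (EL.cons 14 (TM.mk (P.cons (P.cons (P.lf 0 664098288 0) (P.cons (P.lf 0 34543958 0) (P.cons (P.lf 14296794 0 0) (P.cons (P.lf 2168164 0 0) (P.cons (P.lf 0 49498 0) (P.cons (P.lf 0 26180 0) P.nil)))))) (P.cons (P.cons (P.lf 725195416 0 0) (P.cons (P.lf 0 14470020 0) (P.cons (P.lf 5083794 0 0) (P.cons (P.lf 1678202 0 0) (P.cons (P.lf 0 88754 0) P.nil))))) (P.cons (P.cons (P.lf 0 218356002 0) (P.cons (P.lf 10126798 0 0) (P.cons (P.lf 0 5185952 0) (P.cons (P.lf 202880 0 0) P.nil)))) (P.cons (P.cons (P.lf 0 43778316 0) (P.cons (P.lf 3974862 0 0) (P.cons (P.lf 0 1904068 0) P.nil))) (P.cons (P.cons (P.lf 29047402 0 0) (P.cons (P.lf 0 1736692 0) P.nil)) (P.cons (P.cons (P.lf 2043174 0 0) P.nil) P.nil)))))) 12709292)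
 EL.nil)
noncomputable def S82_140_660_808_46 : EL := (EL.cons 15 (TM.mk (P.lf 4294967296 0 0) 0)
 EL.nil)
noncomputable def S82_140_660_808_47 : EL := (EL.cons 15 (TM.mk (P.cons (P.cons (P.lf 0 1829675318 0) (P.cons (P.lf 0 31724336 0) (P.cons (P.lf 13679892 0 0) (P.lf 1519984 0 0)))) (P.cons (P.cons (P.lf 666001894 0 0) (P.cons (P.lf 0 36384236 0) (P.cons (P.lf 15689292 0 0) (P.lf 1743252 0 0)))) (P.cons (P.cons (P.lf 41891857 0 0) (P.cons (P.lf 0 14436880 0) (P.cons (P.lf 6225344 0 0) (P.lf 691704 0 0)))) (P.cons (P.cons (P.lf 0 39121872 0) (P.cons (P.lf 0 1819520 0) (P.cons (P.lf 784596 0 0) P.nil))) (P.cons (P.cons (P.lf 0 6395652 0) (P.cons (P.lf 239172 0 0) P.nil)) (P.cons (P.cons (P.lf 263279 0 0) P.nil) P.nil)))))) 736894)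
 EL.nil)
noncomputable def S82_140_660_808_48 : EL := (EL.cons 15 (TM.mk (P.cons (P.cons (P.lf 779449886 0 0) (P.cons (P.lf 27029418 0 0) (P.cons (P.lf 0 11421062 0) (P.cons (P.lf 0 1497130 0) (P.cons (P.lf 21117 0 0) (P.cons (P.lf 9682 0 0) P.nil)))))) (P.cons (P.cons (P.lf 0 567439583 0) (P.cons (P.lf 21160985 0 0) (P.cons (P.lf 0 8587357 0) (P.cons (P.lf 0 1477421 0) (P.cons (P.lf 48438 0 0) P.nil))))) (P.cons (P.cons (P.lf 67581778 0 0) (P.cons (P.lf 397600 0 0) (P.cons (P.lf 350048 0 0) (P.cons (P.lf 0 468800 0) P.nil)))) (P.cons (P.cons (P.lf 46324161 0 0) (P.cons (P.lf 0 3058904 0) (P.cons (P.lf 1590514 0 0) P.nil))) (P.cons (P.cons (P.lf 0 6275163 0) (P.cons (P.lf 0 292380 0) P.nil)) (P.cons (P.cons (P.lf 0 2970974 0) P.nil) P.nil)))))) 4191482)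
 EL.nil)
noncomputable def S82_140_660_808 : SL := (SL.cons S82_140_660_808_0 (SL.cons S82_140_660_808_1 (SL.cons S82_140_660_808_2 (SL.cons S82_140_660_808_3 (SL.cons S82_140_660_808_4 (SL.cons S82_140_660_808_5 (SL.cons S82_140_660_808_6 (SL.cons S82_140_660_808_7 (SL.cons S82_140_660_808_8 (SL.cons S82_140_660_808_9 (SL.cons S82_140_660_808_10 (SL.cons S82_140_660_808_11 (SL.cons S82_140_660_808_12 (SL.cons S82_140_660_808_13 (SL.cons S82_140_660_808_14 (SL.cons S82_140_660_808_15 (SL.cons S82_140_660_808_16 (SL.cons S82_140_660_808_17 (SL.cons S82_140_660_808_18 (SL.cons S82_140_660_808_19 (SL.cons S82_140_660_808_20 (SL.cons S82_140_660_808_21 (SL.cons S82_140_660_808_22 (SL.cons S82_140_660_808_23 (SL.cons S82_140_660_808_24 (SL.cons S82_140_660_808_25 (SL.cons S82_140_660_808_26 (SL.cons S82_140_660_808_27 (SL.cons S82_140_660_808_28 (SL.cons S82_140_660_808_29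 (SL.cons S82_140_660_808_30 (SL.cons S82_140_660_808_31 (SL.cons S82_140_660_808_32 (SL.cons S82_140_660_808_33 (SL.cons S82_140_660_808_34 (SL.cons S82_140_660_808_35 (SL.cons S82_140_660_808_36 (SL.cons S82_140_660_808_37 (SL.cons S82_140_660_808_38 (SL.cons S82_140_660_808_39 (SL.cons S82_140_660_808_40 (SL.cons S82_140_660_808_41 (SL.cons S82_140_660_808_42 (SL.cons S82_140_660_808_43 (SL.cons S82_140_660_808_44 (SL.cons S82_140_660_808_45 (SL.cons S82_140_660_808_46 (SL.cons S82_140_660_808_47 (SL.cons S82_140_660_808_48 SL.nil)))))))))))))))))))))))))))))))))))))))))))))))))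
noncomputable def S96_111_216_364_0 : EL := (EL.cons 0 (TM.mk (P.cons (P.lf 3313246613 0 0) (P.cons (P.lf 194965372 0 0) (P.cons (P.lf 11688586 0 0) (P.cons (P.lf 7606 0 0) (P.cons (P.lf 0 15982 0) (P.cons (P.lf 0 562 0) P.nil)))))) 254)
 (EL.cons 1 (TM.mk (P.cons (P.lf 0 1280899680 0) (P.cons (P.lf 0 114871460 0) (P.cons (P.lf 3539731 0 0) (P.cons (P.lf 310635 0 0) (P.cons (P.lf 5827 0 0) (P.cons (P.lf 0 170 0) P.nil)))))) 130)
 (EL.cons 5 (TM.mk (P.cons (P.lf 6123401166 0 0) (P.cons (P.lf 0 69321022 0) (P.cons (P.lf 0 4155940 0) (P.cons (P.lf 0 2710 0) (P.cons (P.lf 5684 0 0) (P.cons (P.lf 200 0 0) P.nil)))))) 63)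
 (EL.cons 9 (TM.mk (P.lf 6442450944 0 0) 2)
 EL.nil))))
noncomputable def S96_111_216_364_1 : EL := (EL.cons 0 (TM.mk (P.cons (P.cons (P.lf 0 4089877474 0) (P.cons (P.lf 65571508 0 0) (P.cons (P.lf 28275167 0 0) (P.lf 0 3141676 0)))) (P.cons (P.cons (P.lf 0 365902015 0) (P.cons (P.lf 17149167 0 0) (P.cons (P.lf 7394909 0 0) (P.lf 0 821650 0)))) (P.cons (P.cons (P.lf 17555927 0 0) (P.cons (P.lf 813172 0 0) (P.cons (P.lf 350638 0 0) (P.lf 0 38951 0)))) (P.cons (P.cons (P.lf 4856515 0 0) (P.cons (P.lf 0 141876 0) (P.cons (P.lf 0 61185 0) P.nil))) (P.cons (P.cons (P.lf 160983 0 0) (P.cons (P.lf 0 17047 0) P.nil)) (P.cons (P.cons (P.lf 0 9727 0) P.nil) P.nil)))))) 41999)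
 (EL.cons 1 (TM.mk (P.cons (P.cons (P.lf 2137984786 0 0) (P.cons (P.lf 0 42267252 0) (P.cons (P.lf 0 18226116 0) (P.lf 2025127 0 0)))) (P.cons (P.cons (P.lf 0 39424422 0) (P.cons (P.lf 0 2356677 0) (P.cons (P.lf 0 1016227 0) (P.lf 112918 0 0)))) (P.cons (P.cons (P.lf 0 41674025 0) (P.cons (P.lf 1235372 0 0) (P.cons (P.lf 532699 0 0) (P.lf 0 59181 0)))) (P.cons (P.cons (P.lf 0 988307 0) (P.cons (P.lf 140858 0 0) (P.cons (P.lf 60734 0 0) P.nil))) (P.cons (P.cons (P.lf 152828 0 0) (P.cons (P.lf 695 0 0) P.nil)) (P.cons (P.cons (P.lf 9494 0 0) P.nil) P.nil)))))) 16434)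
 (EL.cons 5 (TM.mk (P.cons (P.cons (P.lf 0 1501584422 0) (P.cons (P.lf 0 62835558 0) (P.cons (P.lf 0 27095398 0) (P.lf 3010594 0 0)))) (P.cons (P.cons (P.lf 554060580 0 0) (P.cons (P.lf 0 18977852 0) (P.cons (P.lf 0 8183466 0) (P.lf 909272 0 0)))) (P.cons (P.cons (P.lf 18124048 0 0) (P.cons (P.lf 0 1760974 0) (P.cons (P.lf 0 759352 0) (P.lf 84370 0 0)))) (P.cons (P.cons (P.lf 0 2019399 0) (P.cons (P.lf 0 8614 0) (P.cons (P.lf 0 3718 0) P.nil))) (P.cons (P.cons (P.lf 0 118012 0) (P.cons (P.lf 7034 0 0) P.nil)) (P.cons (P.cons (P.lf 1721 0 0) P.nil) P.nil)))))) 12536)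
 (EL.cons 9 (TM.mk (P.cons (P.cons (P.lf 0 2608026246 0) (P.cons (P.lf 0 34871682 0) (P.cons (P.lf 0 15037062 0) (P.lf 1670784 0 0)))) (P.cons (P.cons (P.lf 374084184 0 0) (P.cons (P.lf 0 11365026 0) (P.cons (P.lf 0 4900728 0) (P.lf 544524 0 0)))) (P.cons (P.cons (P.lf 21499546 0 0) (P.cons (P.lf 0 1298682 0) (P.cons (P.lf 0 560004 0) (P.lf 62220 0 0)))) (P.cons (P.cons (P.lf 0 258219 0) (P.cons (P.lf 0 52104 0) (P.cons (P.lf 0 22464 0) P.nil))) (P.cons (P.cons (P.lf 0 53610 0) (P.cons (P.lf 858 0 0) P.nil)) (P.cons (P.cons (P.lf 0 1527 0) P.nil) P.nil)))))) 4324)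
 (EL.cons 2 (TM.mk (P.cons (P.cons (P.lf 146266180 0 0) (P.cons (P.lf 136260478 0 0) (P.cons (P.lf 0 13984756 0) (P.cons (P.lf 0 2908440 0) (P.lf 242367 0 0))))) (P.cons (P.cons (P.lf 29007067 0 0) (P.cons (P.lf 27022764 0 0) (P.cons (P.lf 0 2773411 0) (P.cons (P.lf 0 576790 0) (P.lf 48062 0 0))))) (P.cons (P.cons (P.lf 1110321 0 0) (P.cons (P.lf 1034367 0 0) (P.cons (P.lf 0 106157 0) (P.cons (P.lf 0 22075 0) P.nil)))) (P.cons (P.cons (P.lf 0 80457 0) (P.cons (P.lf 0 74955 0) (P.cons (P.lf 7692 0 0) P.nil))) (P.cons (P.cons (P.lf 0 5920 0) (P.cons (P.lf 0 5515 0) P.nil)) (P.cons (P.cons (P.lf 0 81 0) P.nil) P.nil)))))) 7401)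
 (EL.cons 6 (TM.mk (P.cons (P.cons (P.lf 36432354 0 0) (P.cons (P.lf 33940107 0 0) (P.cons (P.lf 0 3483357 0) (P.cons (P.lf 0 724440 0) (P.lf 60369 0 0))))) (P.cons (P.cons (P.lf 11873670 0 0) (P.cons (P.lf 11061423 0 0) (P.cons (P.lf 0 1135260 0) (P.cons (P.lf 0 236100 0) (P.lf 19674 0 0))))) (P.cons (P.cons (P.lf 1356807 0 0) (P.cons (P.lf 1263993 0 0) (P.cons (P.lf 0 129726 0) (P.cons (P.lf 0 26979 0) P.nil)))) (P.cons (P.cons (P.lf 54441 0 0) (P.cons (P.lf 50715 0 0) (P.cons (P.lf 0 5205 0) P.nil))) (P.cons (P.cons (P.lf 0 900 0) (P.cons (P.lf 0 840 0) P.nil)) (P.cons (P.cons (P.lf 0 141 0) P.nil) P.nil)))))) 3960)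
 EL.nil))))))
noncomputable def S96_111_216_364_2 : EL := (EL.cons 0 (TM.mk (P.cons (P.cons (P.lf 2768350329 0 0) (P.cons (P.lf 0 23333815 0) (P.cons (P.lf 0 10868720 0) (P.cons (P.lf 422063 0 0) (P.cons (P.lf 0 72712 0) (P.cons (P.lf 33338 0 0) P.nil)))))) (P.cons (P.cons (P.lf 0 54901626 0) (P.cons (P.lf 8617200 0 0) (P.cons (P.lf 3229850 0 0) (P.cons (P.lf 0 831987 0) (P.cons (P.lf 0 43789 0) P.nil))))) (P.cons (P.cons (P.lf 0 78972411 0) (P.cons (P.lf 4571198 0 0) (P.cons (P.lf 1853804 0 0) (P.cons (P.lf 0 320221 0) P.nil)))) (P.cons (P.cons (P.lf 0 4981403 0) (P.cons (P.lf 516880 0 0) (P.cons (P.lf 209682 0 0) P.nil))) (P.cons (P.cons (P.lf 517679 0 0) (P.cons (P.lf 0 7207 0) P.nil)) (P.cons (P.cons (P.lf 60901 0 0) P.nil) P.nil)))))) 299174)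
 (EL.cons 1 (TM.mk (P.cons (P.cons (P.lf 0 1521081752 0) (P.cons (P.lf 16689637 0 0) (P.cons (P.lf 7691856 0 0) (P.cons (P.lf 0 372658 0) (P.cons (P.lf 44619 0 0) (P.cons (P.lf 0 20458 0) P.nil)))))) (P.cons (P.cons (P.lf 238813087 0 0) (P.cons (P.lf 0 8589138 0) (P.cons (P.lf 0 3501263 0) (P.cons (P.lf 586132 0 0) (P.cons (P.lf 18252 0 0) P.nil))))) (P.cons (P.cons (P.lf 38309499 0 0) (P.cons (P.lf 0 1850996 0) (P.cons (P.lf 0 777319 0) (P.cons (P.lf 106666 0 0) P.nil)))) (P.cons (P.cons (P.lf 0 3743571 0) (P.cons (P.lf 106868 0 0) (P.cons (P.lf 43392 0 0) P.nil))) (P.cons (P.cons (P.lf 0 472616 0) (P.cons (P.lf 38762 0 0) P.nil)) (P.cons (P.cons (P.lf 5235 0 0) P.nil) P.nil)))))) 128838)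
 (EL.cons 5 (TM.mk (P.cons (P.cons (P.lf 212246585 0 0) (P.cons (P.lf 40294359 0 0) (P.cons (P.lf 17876208 0 0) (P.cons (P.lf 0 1498660 0) (P.cons (P.lf 45124 0 0) (P.cons (P.lf 0 20686 0) P.nil)))))) (P.cons (P.cons (P.lf 0 323735192 0) (P.cons (P.lf 2774907 0 0) (P.cons (P.lf 1508806 0 0) (P.cons (P.lf 136322 0 0) (P.cons (P.lf 28128 0 0) P.nil))))) (P.cons (P.cons (P.lf 32968886 0 0) (P.cons (P.lf 0 2193236 0) (P.cons (P.lf 0 865366 0) (P.cons (P.lf 174397 0 0) P.nil)))) (P.cons (P.cons (P.lf 4837759 0 0) (P.cons (P.lf 0 389684 0) (P.cons (P.lf 0 157507 0) P.nil))) (P.cons (P.cons (P.lf 0 87532 0) (P.cons (P.lf 0 13223 0) P.nil)) (P.cons (P.cons (P.lf 0 29256 0) P.nil) P.nil)))))) 114231)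
 (EL.cons 9 (TM.mk (P.cons (P.cons (P.lf 1055778453 0 0) (P.cons (P.lf 28233435 0 0) (P.cons (P.lf 12363328 0 0) (P.cons (P.lf 0 1189944 0) (P.cons (P.lf 17010 0 0) (P.cons (P.lf 0 7798 0) P.nil)))))) (P.cons (P.cons (P.lf 0 302872734 0) (P.cons (P.lf 5151871 0 0) (P.cons (P.lf 2344578 0 0) (P.cons (P.lf 0 140730 0) (P.cons (P.lf 11086 0 0) P.nil))))) (P.cons (P.cons (P.lf 4314540 0 0) (P.cons (P.lf 0 501114 0) (P.cons (P.lf 0 181980 0) (P.cons (P.lf 53427 0 0) P.nil)))) (P.cons (P.cons (P.lf 2705827 0 0) (P.cons (P.lf 0 181690 0) (P.cons (P.lf 0 73203 0) P.nil))) (P.cons (P.cons (P.lf 85164 0 0) (P.cons (P.lf 0 13921 0) P.nil)) (P.cons (P.cons (P.lf 0 6712 0) P.nil) P.nil)))))) 48299)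
 (EL.cons 2 (TM.mk (P.cons (P.cons (P.lf 0 118422641 0) (P.cons (P.lf 0 111905066 0) (P.cons (P.lf 9164700 0 0) (P.cons (P.lf 1945957 0 0) (P.cons (P.lf 0 28783 0) (P.cons (P.lf 3695 0 0) P.nil)))))) (P.cons (P.cons (P.lf 0 6499181 0) (P.cons (P.lf 0 6884656 0) (P.cons (P.lf 0 509821 0) (P.cons (P.lf 0 85078 0) (P.cons (P.lf 77006 0 0) P.nil))))) (P.cons (P.cons (P.lf 3445886 0 0) (P.cons (P.lf 3036830 0 0) (P.cons (P.lf 0 565678 0) (P.cons (P.lf 0 113270 0) P.nil)))) (P.cons (P.cons (P.lf 375963 0 0) (P.cons (P.lf 333135 0 0) (P.cons (P.lf 0 59259 0) P.nil))) (P.cons (P.cons (P.lf 0 1895 0) (P.cons (P.lf 0 2295 0) P.nil)) (P.cons (P.cons (P.lf 0 1794 0) P.nil) P.nil)))))) 78687)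
 (EL.cons 6 (TM.mk (P.cons (P.cons (P.lf 0 29497014 0) (P.cons (P.lf 0 27873600 0) (P.cons (P.lf 2282766 0 0) (P.cons (P.lf 484704 0 0) (P.cons (P.lf 0 7164 0) (P.cons (P.lf 918 0 0) P.nil)))))) (P.cons (P.cons (P.lf 0 5382444 0) (P.cons (P.lf 0 5271324 0) (P.cons (P.lf 164274 0 0) (P.cons (P.lf 40650 0 0) (P.cons (P.lf 18264 0 0) P.nil))))) (P.cons (P.cons (P.lf 523536 0 0) (P.cons (P.lf 416454 0 0) (P.cons (P.lf 0 147180 0) (P.cons (P.lf 0 28806 0) P.nil)))) (P.cons (P.cons (P.lf 189816 0 0) (P.cons (P.lf 166074 0 0) (P.cons (P.lf 0 32802 0) P.nil))) (P.cons (P.cons (P.lf 14550 0 0) (P.cons (P.lf 12642 0 0) P.nil)) (P.cons (P.cons (P.lf 48 0 0) P.nil) P.nil)))))) 30426)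
 EL.nil))))))
noncomputable def S96_111_216_364_3 : EL := (EL.cons 0 (TM.mk (P.cons (P.lf 5142470250 0 0) (P.cons (P.lf 0 194965372 0) (P.cons (P.lf 0 11688586 0) (P.cons (P.lf 0 7606 0) (P.cons (P.lf 15982 0 0) (P.cons (P.lf 562 0 0) P.nil)))))) 254)
 (EL.cons 1 (TM.mk (P.cons (P.lf 1280899680 0 0) (P.cons (P.lf 114871460 0 0) (P.cons (P.lf 0 3539731 0) (P.cons (P.lf 0 310635 0) (P.cons (P.lf 0 5827 0) (P.cons (P.lf 170 0 0) P.nil)))))) 130)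
 (EL.cons 5 (TM.mk (P.cons (P.lf 319049778 0 0) (P.cons (P.lf 69321022 0 0) (P.cons (P.lf 4155940 0 0) (P.cons (P.lf 2710 0 0) (P.cons (P.lf 0 5684 0) (P.cons (P.lf 0 200 0) P.nil)))))) 56)
 EL.nil)))
noncomputable def S96_111_216_364_4 : EL := (EL.cons 0 (TM.mk (P.cons (P.cons (P.lf 0 2081769421 0) (P.cons (P.lf 0 27835149 0) (P.cons (P.lf 0 12002828 0) (P.lf 1333647 0 0)))) (P.cons (P.cons (P.lf 377525823 0 0) (P.cons (P.lf 0 8016442 0) (P.cons (P.lf 0 3456780 0) (P.lf 384085 0 0)))) (P.cons (P.cons (P.lf 10572289 0 0) (P.cons (P.lf 0 629425 0) (P.cons (P.lf 0 271413 0) (P.lf 30153 0 0)))) (P.cons (P.cons (P.lf 0 1532371 0) (P.cons (P.lf 18370 0 0) (P.cons (P.lf 7924 0 0) P.nil))) (P.cons (P.cons (P.lf 0 80894 0) (P.cons (P.lf 4543 0 0) P.nil)) (P.cons (P.cons (P.lf 1546 0 0) P.nil) P.nil)))))) 8927)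
 (EL.cons 1 (TM.mk (P.cons (P.cons (P.lf 0 518532466 0) (P.cons (P.lf 0 6933249 0) (P.cons (P.lf 0 2989695 0) (P.lf 332186 0 0)))) (P.cons (P.cons (P.lf 27873945 0 0) (P.cons (P.lf 0 2881389 0) (P.cons (P.lf 0 1242487 0) (P.lf 138052 0 0)))) (P.cons (P.cons (P.lf 12377598 0 0) (P.cons (P.lf 0 441688 0) (P.cons (P.lf 0 190458 0) (P.lf 21161 0 0)))) (P.cons (P.cons (P.lf 252219 0 0) (P.cons (P.lf 0 25588 0) (P.cons (P.lf 0 11032 0) P.nil))) (P.cons (P.cons (P.lf 0 42751 0) (P.cons (P.lf 534 0 0) P.nil)) (P.cons (P.cons (P.lf 0 2561 0) P.nil) P.nil)))))) 3439)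
 (EL.cons 5 (TM.mk (P.cons (P.cons (P.lf 0 129157396 0) (P.cons (P.lf 0 1726950 0) (P.cons (P.lf 0 744680 0) (P.lf 82742 0 0)))) (P.cons (P.cons (P.lf 0 9536676 0) (P.cons (P.lf 0 938050 0) (P.cons (P.lf 0 404496 0) (P.lf 44944 0 0)))) (P.cons (P.cons (P.lf 3407478 0 0) (P.cons (P.lf 0 209096 0) (P.cons (P.lf 0 90164 0) (P.lf 10016 0 0)))) (P.cons (P.cons (P.lf 458766 0 0) (P.cons (P.lf 0 23900 0) (P.cons (P.lf 0 10304 0) P.nil))) (P.cons (P.cons (P.lf 10894 0 0) (P.cons (P.lf 0 1328 0) P.nil)) (P.cons (P.cons (P.lf 0 1058 0) P.nil) P.nil)))))) 2254)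
 EL.nil)))
noncomputable def S96_111_216_364_5 : EL := (EL.cons 0 (TM.mk (P.cons (P.cons (P.lf 842739716 0 0) (P.cons (P.lf 22536390 0 0) (P.cons (P.lf 9868610 0 0) (P.cons (P.lf 0 949832 0) (P.cons (P.lf 13577 0 0) (P.cons (P.lf 0 6224 0) P.nil)))))) (P.cons (P.cons (P.lf 0 273708604 0) (P.cons (P.lf 3257891 0 0) (P.cons (P.lf 1497332 0 0) (P.cons (P.lf 0 76320 0) (P.cons (P.lf 8333 0 0) P.nil))))) (P.cons (P.cons (P.lf 10694148 0 0) (P.cons (P.lf 0 607129 0) (P.cons (P.lf 0 238642 0) (P.cons (P.lf 49064 0 0) P.nil)))) (P.cons (P.cons (P.lf 2577524 0 0) (P.cons (P.lf 0 139243 0) (P.cons (P.lf 0 57192 0) P.nil))) (P.cons (P.cons (P.lf 0 18755 0) (P.cons (P.lf 0 4640 0) P.nil)) (P.cons (P.cons (P.lf 0 13507 0) P.nil) P.nil)))))) 46742)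
 (EL.cons 1 (TM.mk (P.cons (P.cons (P.lf 209911770 0 0) (P.cons (P.lf 5613421 0 0) (P.cons (P.lf 2458098 0 0) (P.cons (P.lf 0 236585 0) (P.cons (P.lf 3380 0 0) (P.cons (P.lf 0 1548 0) P.nil)))))) (P.cons (P.cons (P.lf 0 41392751 0) (P.cons (P.lf 1527716 0 0) (P.cons (P.lf 686595 0 0) (P.cons (P.lf 0 49196 0) (P.cons (P.lf 2506 0 0) P.nil))))) (P.cons (P.cons (P.lf 0 5122601 0) (P.cons (P.lf 0 23283 0) (P.cons (P.lf 0 1168 0) (P.cons (P.lf 8765 0 0) P.nil)))) (P.cons (P.cons (P.lf 730410 0 0) (P.cons (P.lf 0 49250 0) (P.cons (P.lf 0 19681 0) P.nil))) (P.cons (P.cons (P.lf 76455 0 0) (P.cons (P.lf 0 6005 0) P.nil)) (P.cons (P.cons (P.lf 0 1207 0) P.nil) P.nil)))))) 15828)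
 (EL.cons 5 (TM.mk (P.cons (P.cons (P.lf 52285360 0 0) (P.cons (P.lf 1398204 0 0) (P.cons (P.lf 612268 0 0) (P.cons (P.lf 0 58928 0) (P.cons (P.lf 842 0 0) (P.cons (P.lf 0 384 0) P.nil)))))) (P.cons (P.cons (P.lf 0 3638962 0) (P.cons (P.lf 558928 0 0) (P.cons (P.lf 249140 0 0) (P.cons (P.lf 0 19772 0) (P.cons (P.lf 730 0 0) P.nil))))) (P.cons (P.cons (P.lf 0 2364182 0) (P.cons (P.lf 48830 0 0) (P.cons (P.lf 24190 0 0) (P.cons (P.lf 362 0 0) P.nil)))) (P.cons (P.cons (P.lf 0 14508 0) (P.cons (P.lf 0 11054 0) (P.cons (P.lf 0 4064 0) P.nil))) (P.cons (P.cons (P.lf 35056 0 0) (P.cons (P.lf 0 2990 0) P.nil)) (P.cons (P.cons (P.lf 2564 0 0) P.nil) P.nil)))))) 5140)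
 EL.nil)))
noncomputable def S96_111_216_364_6 : EL := (EL.cons 12 (TM.mk (P.lf 8589934592 0 0) 0)
 (EL.cons 3 (TM.mk (P.cons (P.lf 0 3323156748 0) (P.cons (P.lf 62995065 0 0) (P.cons (P.lf 4373767 0 0) (P.cons (P.lf 85368 0 0) (P.cons (P.lf 0 667 0) (P.cons (P.lf 0 82 0) P.nil)))))) 78)
 (EL.cons 7 (TM.mk (P.cons (P.lf 0 827740407 0) (P.cons (P.lf 0 89922976 0) (P.cons (P.lf 0 506605 0) (P.cons (P.lf 51519 0 0) (P.cons (P.lf 1933 0 0) (P.cons (P.lf 19 0 0) P.nil)))))) 45)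
 EL.nil)))
noncomputable def S96_111_216_364_7 : EL := (EL.cons 12 (TM.mk (P.cons (P.cons (P.lf 0 3477368328 0) (P.cons (P.lf 0 46495576 0) (P.cons (P.lf 0 20049416 0) (P.lf 2227712 0 0)))) (P.cons (P.cons (P.lf 498778912 0 0) (P.cons (P.lf 0 15153368 0) (P.cons (P.lf 0 6534304 0) (P.lf 726032 0 0)))) (P.cons (P.cons (P.lf 28666062 0 0) (P.cons (P.lf 0 1731576 0) (P.cons (P.lf 0 746672 0) (P.lf 82960 0 0)))) (P.cons (P.cons (P.lf 0 344292 0) (P.cons (P.lf 0 69472 0) (P.cons (P.lf 0 29952 0) P.nil))) (P.cons (P.cons (P.lf 0 71480 0) (P.cons (P.lf 1144 0 0) P.nil)) (P.cons (P.cons (P.lf 0 2036 0) P.nil) P.nil)))))) 5740)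
 (EL.cons 3 (TM.mk (P.cons (P.cons (P.lf 3121479626 0 0) (P.cons (P.lf 0 35975146 0) (P.cons (P.lf 0 15512886 0) (P.lf 1723650 0 0)))) (P.cons (P.cons (P.lf 124980162 0 0) (P.cons (P.lf 0 11042696 0) (P.cons (P.lf 0 4761734 0) (P.lf 529080 0 0)))) (P.cons (P.cons (P.lf 0 296380 0) (P.cons (P.lf 0 1070168 0) (P.cons (P.lf 0 461464 0) (P.lf 51270 0 0)))) (P.cons (P.cons (P.lf 0 1137826 0) (P.cons (P.lf 0 11998 0) (P.cons (P.lf 0 5168 0) P.nil))) (P.cons (P.cons (P.lf 0 64327 0) (P.cons (P.lf 3960 0 0) P.nil)) (P.cons (P.cons (P.lf 166 0 0) P.nil) P.nil)))))) 17198)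
 (EL.cons 7 (TM.mk (P.cons (P.cons (P.lf 0 2200374560 0) (P.cons (P.lf 81510059 0 0) (P.cons (P.lf 35148055 0 0) (P.lf 0 3905338 0)))) (P.cons (P.cons (P.lf 0 178404274 0) (P.cons (P.lf 15763027 0 0) (P.cons (P.lf 6797196 0 0) (P.lf 0 755244 0)))) (P.cons (P.cons (P.lf 11804643 0 0) (P.cons (P.lf 522010 0 0) (P.cons (P.lf 225098 0 0) (P.lf 0 25013 0)))) (P.cons (P.cons (P.lf 878581 0 0) (P.cons (P.lf 0 50104 0) (P.cons (P.lf 0 21604 0) P.nil))) (P.cons (P.cons (P.lf 0 8355 0) (P.cons (P.lf 0 2845 0) P.nil)) (P.cons (P.cons (P.lf 0 2302 0) P.nil) P.nil)))))) 9500)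
 (EL.cons 10 (TM.mk (P.cons (P.cons (P.lf 0 189039675 0) (P.cons (P.lf 0 176107944 0) (P.cons (P.lf 18074403 0 0) (P.cons (P.lf 3758973 0 0) (P.lf 0 313245 0))))) (P.cons (P.cons (P.lf 0 41073288 0) (P.cons (P.lf 0 38263566 0) (P.cons (P.lf 3927084 0 0) (P.cons (P.lf 816723 0 0) (P.lf 0 68058 0))))) (P.cons (P.cons (P.lf 0 2462427 0) (P.cons (P.lf 0 2293980 0) (P.cons (P.lf 235437 0 0) (P.cons (P.lf 48963 0 0) P.nil)))) (P.cons (P.cons (P.lf 0 1605 0) (P.cons (P.lf 0 1494 0) (P.cons (P.lf 153 0 0) P.nil))) (P.cons (P.cons (P.lf 3366 0 0) (P.cons (P.lf 3135 0 0) P.nil)) (P.cons (P.cons (P.lf 117 0 0) P.nil) P.nil)))))) 4797)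
 EL.nil))))
noncomputable def S96_111_216_364_8 : EL := (EL.cons 12 (TM.mk (P.cons (P.cons (P.lf 1407704604 0 0) (P.cons (P.lf 37644580 0 0) (P.cons (P.lf 16484438 0 0) (P.cons (P.lf 0 1586592 0) (P.cons (P.lf 22680 0 0) (P.cons (P.lf 0 10398 0) P.nil)))))) (P.cons (P.cons (P.lf 0 403830312 0) (P.cons (P.lf 6869162 0 0) (P.cons (P.lf 3126104 0 0) (P.cons (P.lf 0 187640 0) (P.cons (P.lf 14782 0 0) P.nil))))) (P.cons (P.cons (P.lf 5752720 0 0) (P.cons (P.lf 0 668152 0) (P.cons (P.lf 0 242640 0) (P.cons (P.lf 71236 0 0) P.nil)))) (P.cons (P.cons (P.lf 3607770 0 0) (P.cons (P.lf 0 242254 0) (P.cons (P.lf 0 97604 0) P.nil))) (P.cons (P.cons (P.lf 113552 0 0) (P.cons (P.lf 0 18562 0) P.nil)) (P.cons (P.cons (P.lf 0 8950 0) P.nil) P.nil)))))) 64370)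
 (EL.cons 3 (TM.mk (P.cons (P.cons (P.lf 0 1982674662 0) (P.cons (P.lf 9898387 0 0) (P.cons (P.lf 4755108 0 0) (P.cons (P.lf 0 54409 0) (P.cons (P.lf 43870 0 0) (P.cons (P.lf 0 20117 0) P.nil)))))) (P.cons (P.cons (P.lf 94760026 0 0) (P.cons (P.lf 0 5221951 0) (P.cons (P.lf 0 1943673 0) (P.cons (P.lf 515893 0 0) (P.cons (P.lf 27761 0 0) P.nil))))) (P.cons (P.cons (P.lf 40058137 0 0) (P.cons (P.lf 0 2680300 0) (P.cons (P.lf 0 1074464 0) (P.cons (P.lf 198546 0 0) P.nil)))) (P.cons (P.cons (P.lf 3015909 0 0) (P.cons (P.lf 0 365589 0) (P.cons (P.lf 0 146471 0) P.nil))) (P.cons (P.cons (P.lf 0 125332 0) (P.cons (P.lf 0 11743 0) P.nil)) (P.cons (P.cons (P.lf 0 24939 0) P.nil) P.nil)))))) 153606)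
 (EL.cons 7 (TM.mk (P.cons (P.cons (P.lf 1917155408 0 0) (P.cons (P.lf 0 38545772 0) (P.cons (P.lf 0 17479509 0) (P.cons (P.lf 1106730 0 0) (P.cons (P.lf 0 77329 0) (P.cons (P.lf 35453 0 0) P.nil)))))) (P.cons (P.cons (P.lf 0 135266197 0) (P.cons (P.lf 7454128 0 0) (P.cons (P.lf 2774520 0 0) (P.cons (P.lf 0 736418 0) (P.cons (P.lf 0 39629 0) P.nil))))) (P.cons (P.cons (P.lf 0 48551894 0) (P.cons (P.lf 3350465 0 0) (P.cons (P.lf 1356742 0 0) (P.cons (P.lf 0 236424 0) P.nil)))) (P.cons (P.cons (P.lf 20819 0 0) (P.cons (P.lf 226059 0 0) (P.cons (P.lf 89643 0 0) P.nil))) (P.cons (P.cons (P.lf 289658 0 0) (P.cons (P.lf 0 12531 0) P.nil)) (P.cons (P.cons (P.lf 10412 0 0) P.nil) P.nil)))))) 108156)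
 (EL.cons 10 (TM.mk (P.cons (P.cons (P.lf 153053682 0 0) (P.cons (P.lf 144630132 0 0) (P.cons (P.lf 0 11844786 0) (P.cons (P.lf 0 2515026 0) (P.cons (P.lf 37200 0 0) (P.cons (P.lf 0 4776 0) P.nil)))))) (P.cons (P.cons (P.lf 11301120 0 0) (P.cons (P.lf 11639640 0 0) (P.cons (P.lf 434382 0 0) (P.cons (P.lf 62286 0 0) (P.cons (P.lf 0 98820 0) P.nil))))) (P.cons (P.cons (P.lf 0 4037922 0) (P.cons (P.lf 0 3513912 0) (P.cons (P.lf 723750 0 0) (P.cons (P.lf 144264 0 0) P.nil)))) (P.cons (P.cons (P.lf 0 543642 0) (P.cons (P.lf 0 478134 0) (P.cons (P.lf 90576 0 0) P.nil))) (P.cons (P.cons (P.lf 0 12906 0) (P.cons (P.lf 0 10446 0) P.nil)) (P.cons (P.cons (P.lf 1254 0 0) P.nil) P.nil)))))) 105924)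
 EL.nil))))
noncomputable def S96_111_216_364_9 : EL := (EL.cons 3 (TM.mk (P.cons (P.lf 0 3323156748 0) (P.cons (P.lf 62995065 0 0) (P.cons (P.lf 4373767 0 0) (P.cons (P.lf 85368 0 0) (P.cons (P.lf 0 667 0) (P.cons (P.lf 0 82 0) P.nil)))))) 78)
 (EL.cons 7 (TM.mk (P.cons (P.lf 0 827740407 0) (P.cons (P.lf 0 89922976 0) (P.cons (P.lf 0 506605 0) (P.cons (P.lf 51519 0 0) (P.cons (P.lf 1933 0 0) (P.cons (P.lf 19 0 0) P.nil)))))) 45)
 EL.nil))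
noncomputable def S96_111_216_364_10 : EL := (EL.cons 3 (TM.mk (P.cons (P.cons (P.lf 1345276835 0 0) (P.cons (P.lf 17987573 0 0) (P.cons (P.lf 7756443 0 0) (P.lf 0 861825 0)))) (P.cons (P.cons (P.lf 0 218462379 0) (P.cons (P.lf 5521348 0 0) (P.cons (P.lf 2380867 0 0) (P.lf 0 264540 0)))) (P.cons (P.cons (P.lf 0 9202678 0) (P.cons (P.lf 535084 0 0) (P.cons (P.lf 230732 0 0) (P.lf 0 25635 0)))) (P.cons (P.cons (P.lf 562826 0 0) (P.cons (P.lf 5999 0 0) (P.cons (P.lf 2584 0 0) P.nil))) (P.cons (P.cons (P.lf 44951 0 0) (P.cons (P.lf 0 1980 0) P.nil)) (P.cons (P.cons (P.lf 367 0 0) P.nil) P.nil)))))) 4204)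
 (EL.cons 7 (TM.mk (P.cons (P.cons (P.lf 335085004 0 0) (P.cons (P.lf 4480391 0 0) (P.cons (P.lf 1931995 0 0) (P.lf 0 214666 0)))) (P.cons (P.cons (P.lf 0 11660641 0) (P.cons (P.lf 1946938 0 0) (P.cons (P.lf 839541 0 0) (P.lf 0 93282 0)))) (P.cons (P.cons (P.lf 0 7778649 0) (P.cons (P.lf 328231 0 0) (P.cons (P.lf 141536 0 0) (P.lf 0 15725 0)))) (P.cons (P.cons (P.lf 0 317183 0) (P.cons (P.lf 25436 0 0) (P.cons (P.lf 10967 0 0) P.nil))) (P.cons (P.cons (P.lf 11010 0 0) (P.cons (P.lf 617 0 0) P.nil)) (P.cons (P.cons (P.lf 1241 0 0) P.nil) P.nil)))))) 2065)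
 EL.nil))
noncomputable def S96_111_216_364_11 : EL := (EL.cons 3 (TM.mk (P.cons (P.cons (P.lf 0 544593558 0) (P.cons (P.lf 0 14563421 0) (P.cons (P.lf 0 6377274 0) (P.cons (P.lf 613799 0 0) (P.cons (P.lf 0 8774 0) (P.cons (P.lf 4021 0 0) P.nil)))))) (P.cons (P.cons (P.lf 166551892 0 0) (P.cons (P.lf 0 2381377 0) (P.cons (P.lf 0 1088493 0) (P.cons (P.lf 60955 0 0) (P.cons (P.lf 0 5551 0) P.nil))))) (P.cons (P.cons (P.lf 0 4470293 0) (P.cons (P.lf 328028 0 0) (P.cons (P.lf 125188 0 0) (P.cons (P.lf 0 29742 0) P.nil)))) (P.cons (P.cons (P.lf 0 1545165 0) (P.cons (P.lf 92691 0 0) (P.cons (P.lf 37735 0 0) P.nil))) (P.cons (P.cons (P.lf 0 18664 0) (P.cons (P.lf 5129 0 0) P.nil)) (P.cons (P.cons (P.lf 6207 0 0) P.nil) P.nil)))))) 27722)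
 (EL.cons 7 (TM.mk (P.cons (P.cons (P.lf 0 135648760 0) (P.cons (P.lf 0 3627494 0) (P.cons (P.lf 0 1588467 0) (P.cons (P.lf 152886 0 0) (P.cons (P.lf 0 2185 0) (P.cons (P.lf 1001 0 0) P.nil)))))) (P.cons (P.cons (P.lf 24177329 0 0) (P.cons (P.lf 0 1056002 0) (P.cons (P.lf 0 473802 0) (P.cons (P.lf 34690 0 0) (P.cons (P.lf 0 1661 0) P.nil))))) (P.cons (P.cons (P.lf 3590098 0 0) (P.cons (P.lf 0 9745 0) (P.cons (P.lf 0 10316 0) (P.cons (P.lf 0 4806 0) P.nil)))) (P.cons (P.cons (P.lf 0 375613 0) (P.cons (P.lf 30159 0 0) (P.cons (P.lf 11859 0 0) P.nil))) (P.cons (P.cons (P.lf 0 51154 0) (P.cons (P.lf 4413 0 0) P.nil)) (P.cons (P.cons (P.lf 0 592 0) P.nil) P.nil)))))) 9362)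
 EL.nil))
noncomputable def S96_111_216_364_12 : EL := (EL.cons 4 (TM.mk (P.cons (P.lf 3323156748 0 0) (P.cons (P.lf 0 62995065 0) (P.cons (P.lf 0 4373767 0) (P.cons (P.lf 0 85368 0) (P.cons (P.lf 667 0 0) (P.cons (P.lf 82 0 0) P.nil)))))) 78)
 (EL.cons 8 (TM.mk (P.cons (P.lf 827740407 0 0) (P.cons (P.lf 89922976 0 0) (P.cons (P.lf 506605 0 0) (P.cons (P.lf 0 51519 0) (P.cons (P.lf 0 1933 0) (P.cons (P.lf 0 19 0) P.nil)))))) 45)
 EL.nil))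
noncomputable def S96_111_216_364_13 : EL := (EL.cons 4 (TM.mk (P.cons (P.cons (P.lf 0 1345276835 0) (P.cons (P.lf 0 17987573 0) (P.cons (P.lf 0 7756443 0) (P.lf 861825 0 0)))) (P.cons (P.cons (P.lf 218462379 0 0) (P.cons (P.lf 0 5521348 0) (P.cons (P.lf 0 2380867 0) (P.lf 264540 0 0)))) (P.cons (P.cons (P.lf 9202678 0 0) (P.cons (P.lf 0 535084 0) (P.cons (P.lf 0 230732 0) (P.lf 25635 0 0)))) (P.cons (P.cons (P.lf 0 562826 0) (P.cons (P.lf 0 5999 0) (P.cons (P.lf 0 2584 0) P.nil))) (P.cons (P.cons (P.lf 0 44951 0) (P.cons (P.lf 1980 0 0) P.nil)) (P.cons (P.cons (P.lf 0 367 0) P.nil) P.nil)))))) 4204)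
 (EL.cons 8 (TM.mk (P.cons (P.cons (P.lf 0 335085004 0) (P.cons (P.lf 0 4480391 0) (P.cons (P.lf 0 1931995 0) (P.lf 214666 0 0)))) (P.cons (P.cons (P.lf 11660641 0 0) (P.cons (P.lf 0 1946938 0) (P.cons (P.lf 0 839541 0) (P.lf 93282 0 0)))) (P.cons (P.cons (P.lf 7778649 0 0) (P.cons (P.lf 0 328231 0) (P.cons (P.lf 0 141536 0) (P.lf 15725 0 0)))) (P.cons (P.cons (P.lf 317183 0 0) (P.cons (P.lf 0 25436 0) (P.cons (P.lf 0 10967 0) P.nil))) (P.cons (P.cons (P.lf 0 11010 0) (P.cons (P.lf 0 617 0) P.nil)) (P.cons (P.cons (P.lf 0 1241 0) P.nil) P.nil)))))) 2065)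
 EL.nil))
noncomputable def S96_111_216_364_14 : EL := (EL.cons 4 (TM.mk (P.cons (P.cons (P.lf 544593558 0 0) (P.cons (P.lf 14563421 0 0) (P.cons (P.lf 6377274 0 0) (P.cons (P.lf 0 613799 0) (P.cons (P.lf 8774 0 0) (P.cons (P.lf 0 4021 0) P.nil)))))) (P.cons (P.cons (P.lf 0 166551892 0) (P.cons (P.lf 2381377 0 0) (P.cons (P.lf 1088493 0 0) (P.cons (P.lf 0 60955 0) (P.cons (P.lf 5551 0 0) P.nil))))) (P.cons (P.cons (P.lf 4470293 0 0) (P.cons (P.lf 0 328028 0) (P.cons (P.lf 0 125188 0) (P.cons (P.lf 29742 0 0) P.nil)))) (P.cons (P.cons (P.lf 1545165 0 0) (P.cons (P.lf 0 92691 0) (P.cons (P.lf 0 37735 0) P.nil))) (P.cons (P.cons (P.lf 18664 0 0) (P.cons (P.lf 0 5129 0) P.nil)) (P.cons (P.cons (P.lf 0 6207 0) P.nil) P.nil)))))) 27722)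
 (EL.cons 8 (TM.mk (P.cons (P.cons (P.lf 135648760 0 0) (P.cons (P.lf 3627494 0 0) (P.cons (P.lf 1588467 0 0) (P.cons (P.lf 0 152886 0) (P.cons (P.lf 2185 0 0) (P.cons (P.lf 0 1001 0) P.nil)))))) (P.cons (P.cons (P.lf 0 24177329 0) (P.cons (P.lf 1056002 0 0) (P.cons (P.lf 473802 0 0) (P.cons (P.lf 0 34690 0) (P.cons (P.lf 1661 0 0) P.nil))))) (P.cons (P.cons (P.lf 0 3590098 0) (P.cons (P.lf 9745 0 0) (P.cons (P.lf 10316 0 0) (P.cons (P.lf 4806 0 0) P.nil)))) (P.cons (P.cons (P.lf 375613 0 0) (P.cons (P.lf 0 30159 0) (P.cons (P.lf 0 11859 0) P.nil))) (P.cons (P.cons (P.lf 51154 0 0) (P.cons (P.lf 0 4413 0) P.nil)) (P.cons (P.cons (P.lf 592 0 0) P.nil) P.nil)))))) 9362)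
 EL.nil))
noncomputable def S96_111_216_364_15 : EL := (EL.cons 4 (TM.mk (P.cons (P.lf 0 2742650800 0) (P.cons (P.lf 103981531 0 0) (P.cons (P.lf 6233912 0 0) (P.cons (P.lf 4056 0 0) (P.cons (P.lf 0 8523 0) (P.cons (P.lf 0 300 0) P.nil)))))) 139)
 (EL.cons 8 (TM.mk (P.cons (P.lf 0 683146496 0) (P.cons (P.lf 0 61264779 0) (P.cons (P.lf 1887857 0 0) (P.cons (P.lf 165672 0 0) (P.cons (P.lf 3108 0 0) (P.cons (P.lf 0 91 0) P.nil)))))) 66)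
 EL.nil))
noncomputable def S96_111_216_364_16 : EL := (EL.cons 4 (TM.mk (P.cons (P.cons (P.lf 1110277024 0 0) (P.cons (P.lf 14845412 0 0) (P.cons (P.lf 6401508 0 0) (P.lf 0 711278 0)))) (P.cons (P.cons (P.lf 0 201347105 0) (P.cons (P.lf 4275435 0 0) (P.cons (P.lf 1843616 0 0) (P.lf 0 204845 0)))) (P.cons (P.cons (P.lf 0 5638554 0) (P.cons (P.lf 335693 0 0) (P.cons (P.lf 144753 0 0) (P.lf 0 16081 0)))) (P.cons (P.cons (P.lf 817264 0 0) (P.cons (P.lf 0 9797 0) (P.cons (P.lf 0 4226 0) P.nil))) (P.cons (P.cons (P.lf 43143 0 0) (P.cons (P.lf 0 2423 0) P.nil)) (P.cons (P.cons (P.lf 0 825 0) P.nil) P.nil)))))) 4770)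
 (EL.cons 8 (TM.mk (P.cons (P.cons (P.lf 276550649 0 0) (P.cons (P.lf 3697733 0 0) (P.cons (P.lf 1594504 0 0) (P.lf 0 177166 0)))) (P.cons (P.cons (P.lf 0 14866104 0) (P.cons (P.lf 1536741 0 0) (P.cons (P.lf 662660 0 0) (P.lf 0 73628 0)))) (P.cons (P.cons (P.lf 0 6601386 0) (P.cons (P.lf 235567 0 0) (P.cons (P.lf 101578 0 0) (P.lf 0 11286 0)))) (P.cons (P.cons (P.lf 0 134517 0) (P.cons (P.lf 13647 0 0) (P.cons (P.lf 5884 0 0) P.nil))) (P.cons (P.cons (P.lf 22801 0 0) (P.cons (P.lf 0 285 0) P.nil)) (P.cons (P.cons (P.lf 1366 0 0) P.nil) P.nil)))))) 1824)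
 EL.nil))
noncomputable def S96_111_216_364_17 : EL := (EL.cons 4 (TM.mk (P.cons (P.cons (P.lf 0 449461182 0) (P.cons (P.lf 0 12019408 0) (P.cons (P.lf 0 5263259 0) (P.cons (P.lf 506577 0 0) (P.cons (P.lf 0 7241 0) (P.cons (P.lf 3319 0 0) P.nil)))))) (P.cons (P.cons (P.lf 145977922 0 0) (P.cons (P.lf 0 1737541 0) (P.cons (P.lf 0 798577 0) (P.cons (P.lf 40704 0 0) (P.cons (P.lf 0 4444 0) P.nil))))) (P.cons (P.cons (P.lf 0 5703545 0) (P.cons (P.lf 323802 0 0) (P.cons (P.lf 127275 0 0) (P.cons (P.lf 0 26167 0) P.nil)))) (P.cons (P.cons (P.lf 0 1374679 0) (P.cons (P.lf 74263 0 0) (P.cons (P.lf 30502 0 0) P.nil))) (P.cons (P.cons (P.lf 10003 0 0) (P.cons (P.lf 2475 0 0) P.nil)) (P.cons (P.cons (P.lf 7203 0 0) P.nil) P.nil)))))) 24939)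
 (EL.cons 8 (TM.mk (P.cons (P.cons (P.lf 0 111952944 0) (P.cons (P.lf 0 2993825 0) (P.cons (P.lf 0 1310986 0) (P.cons (P.lf 126179 0 0) (P.cons (P.lf 0 1803 0) (P.cons (P.lf 826 0 0) P.nil)))))) (P.cons (P.cons (P.lf 22076134 0 0) (P.cons (P.lf 0 814782 0) (P.cons (P.lf 0 366184 0) (P.cons (P.lf 26238 0 0) (P.cons (P.lf 0 1337 0) P.nil))))) (P.cons (P.cons (P.lf 2732054 0 0) (P.cons (P.lf 12418 0 0) (P.cons (P.lf 623 0 0) (P.cons (P.lf 0 4675 0) P.nil)))) (P.cons (P.cons (P.lf 0 389552 0) (P.cons (P.lf 26267 0 0) (P.cons (P.lf 10497 0 0) P.nil))) (P.cons (P.cons (P.lf 0 40776 0) (P.cons (P.lf 3203 0 0) P.nil)) (P.cons (P.cons (P.lf 644 0 0) P.nil) P.nil)))))) 8430)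
 EL.nil))
noncomputable def S96_111_216_364_18 : EL := (EL.cons 4 (TM.mk (P.cons (P.lf 2263550588 0 0) (P.cons (P.lf 0 128726262 0) (P.cons (P.lf 0 6497318 0) (P.cons (P.lf 148980 0 0) (P.cons (P.lf 16528 0 0) (P.cons (P.lf 289 0 0) P.nil)))))) 192)
 (EL.cons 8 (TM.mk (P.cons (P.lf 563810986 0 0) (P.cons (P.lf 39874912 0 0) (P.cons (P.lf 0 3258623 0) (P.cons (P.lf 0 188227 0) (P.cons (P.lf 891 0 0) (P.cons (P.lf 368 0 0) P.nil)))))) 80)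
 EL.nil))
noncomputable def S96_111_216_364_19 : EL := (EL.cons 4 (TM.mk (P.cons (P.cons (P.lf 0 916328178 0) (P.cons (P.lf 0 12252140 0) (P.cons (P.lf 0 5283260 0) (P.lf 587028 0 0)))) (P.cons (P.cons (P.lf 183545043 0 0) (P.cons (P.lf 0 3296324 0) (P.cons (P.lf 0 1421412 0) (P.lf 157934 0 0)))) (P.cons (P.cons (P.lf 2709531 0 0) (P.cons (P.lf 0 194038 0) (P.cons (P.lf 0 83670 0) (P.lf 9295 0 0)))) (P.cons (P.cons (P.lf 0 957885 0) (P.cons (P.lf 18297 0 0) (P.cons (P.lf 7890 0 0) P.nil))) (P.cons (P.cons (P.lf 0 33398 0) (P.cons (P.lf 2299 0 0) P.nil)) (P.cons (P.cons (P.lf 2134 0 0) P.nil) P.nil)))))) 5162)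
 (EL.cons 8 (TM.mk (P.cons (P.cons (P.lf 0 228241373 0) (P.cons (P.lf 0 3051794 0) (P.cons (P.lf 0 1315968 0) (P.lf 146218 0 0)))) (P.cons (P.cons (P.lf 16595850 0 0) (P.cons (P.lf 0 1210444 0) (P.cons (P.lf 0 521957 0) (P.lf 57995 0 0)))) (P.cons (P.cons (P.lf 5516041 0 0) (P.cons (P.lf 0 166358 0) (P.cons (P.lf 0 71735 0) (P.lf 7970 0 0)))) (P.cons (P.cons (P.lf 0 2544 0) (P.cons (P.lf 0 5830 0) (P.cons (P.lf 0 2513 0) P.nil))) (P.cons (P.cons (P.lf 0 28454 0) (P.cons (P.lf 736 0 0) P.nil)) (P.cons (P.cons (P.lf 0 1060 0) P.nil) P.nil)))))) 1761)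
 EL.nil))
noncomputable def S96_111_216_364_20 : EL := (EL.cons 4 (TM.mk (P.cons (P.cons (P.lf 370947013 0 0) (P.cons (P.lf 9919797 0 0) (P.cons (P.lf 4343846 0 0) (P.cons (P.lf 0 418085 0) (P.cons (P.lf 5975 0 0) (P.cons (P.lf 0 2739 0) P.nil)))))) (P.cons (P.cons (P.lf 0 127509572 0) (P.cons (P.lf 1245975 0 0) (P.cons (P.lf 576734 0 0) (P.cons (P.lf 0 25668 0) (P.cons (P.lf 3555 0 0) P.nil))))) (P.cons (P.cons (P.lf 6502823 0 0) (P.cons (P.lf 0 307478 0) (P.cons (P.lf 0 123253 0) (P.cons (P.lf 22783 0 0) P.nil)))) (P.cons (P.cons (P.lf 1194348 0 0) (P.cons (P.lf 0 58366 0) (P.cons (P.lf 0 24162 0) P.nil))) (P.cons (P.cons (P.lf 0 32789 0) (P.cons (P.lf 0 563 0) P.nil)) (P.cons (P.cons (P.lf 0 7418 0) P.nil) P.nil)))))) 22424)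
 (EL.cons 8 (TM.mk (P.cons (P.cons (P.lf 92396433 0 0) (P.cons (P.lf 2470848 0 0) (P.cons (P.lf 1081976 0 0) (P.cons (P.lf 0 104137 0) (P.cons (P.lf 1488 0 0) (P.cons (P.lf 0 682 0) P.nil)))))) (P.cons (P.cons (P.lf 0 19971265 0) (P.cons (P.lf 625613 0 0) (P.cons (P.lf 281707 0 0) (P.cons (P.lf 0 19680 0) (P.cons (P.lf 1075 0 0) P.nil))))) (P.cons (P.cons (P.lf 0 2031031 0) (P.cons (P.lf 0 26248 0) (P.cons (P.lf 0 7667 0) (P.cons (P.lf 4406 0 0) P.nil)))) (P.cons (P.cons (P.lf 385852 0 0) (P.cons (P.lf 0 22432 0) (P.cons (P.lf 0 9079 0) P.nil))) (P.cons (P.cons (P.lf 31013 0 0) (P.cons (P.lf 0 2236 0) P.nil)) (P.cons (P.cons (P.lf 0 1536 0) P.nil) P.nil)))))) 7459)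
 EL.nil))
noncomputable def S96_111_216_364_21 : EL := (EL.cons 4 (TM.mk (P.cons (P.cons (P.lf 0 1776202791 0) (P.cons (P.lf 53962719 0 0) (P.cons (P.lf 23269329 0 0) (P.lf 0 2585475 0)))) (P.cons (P.cons (P.lf 0 343442541 0) (P.cons (P.lf 16564044 0 0) (P.cons (P.lf 7142601 0 0) (P.lf 0 793620 0)))) (P.cons (P.cons (P.lf 0 8906298 0) (P.cons (P.lf 1605252 0 0) (P.cons (P.lf 692196 0 0) (P.lf 0 76905 0)))) (P.cons (P.cons (P.lf 1700652 0 0) (P.cons (P.lf 17997 0 0) (P.cons (P.lf 7752 0 0) P.nil))) (P.cons (P.cons (P.lf 109278 0 0) (P.cons (P.lf 0 5940 0) P.nil)) (P.cons (P.cons (P.lf 201 0 0) P.nil) P.nil)))))) 12975)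
 (EL.cons 8 (TM.mk (P.cons (P.cons (P.lf 2535459564 0 0) (P.cons (P.lf 0 77029668 0) (P.cons (P.lf 0 33216060 0) (P.lf 3690672 0 0)))) (P.cons (P.cons (P.lf 166743633 0 0) (P.cons (P.lf 0 13816089 0) (P.cons (P.lf 0 5957655 0) (P.lf 661962 0 0)))) (P.cons (P.cons (P.lf 0 19583292 0) (P.cons (P.lf 0 193779 0) (P.cons (P.lf 0 83562 0) (P.lf 9288 0 0)))) (P.cons (P.cons (P.lf 0 1195764 0) (P.cons (P.lf 75540 0 0) (P.cons (P.lf 32571 0 0) P.nil))) (P.cons (P.cons (P.lf 19365 0 0) (P.cons (P.lf 3462 0 0) P.nil)) (P.cons (P.cons (P.lf 3543 0 0) P.nil) P.nil)))))) 7416)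
 (EL.cons 11 (TM.mk (P.cons (P.cons (P.lf 189039675 0 0) (P.cons (P.lf 176107944 0 0) (P.cons (P.lf 0 18074403 0) (P.cons (P.lf 0 3758973 0) (P.lf 313245 0 0))))) (P.cons (P.cons (P.lf 41073288 0 0) (P.cons (P.lf 38263566 0 0) (P.cons (P.lf 0 3927084 0) (P.cons (P.lf 0 816723 0) (P.lf 68058 0 0))))) (P.cons (P.cons (P.lf 2462427 0 0) (P.cons (P.lf 2293980 0 0) (P.cons (P.lf 0 235437 0) (P.cons (P.lf 0 48963 0) P.nil)))) (P.cons (P.cons (P.lf 1605 0 0) (P.cons (P.lf 1494 0 0) (P.cons (P.lf 0 153 0) P.nil))) (P.cons (P.cons (P.lf 0 3366 0) (P.cons (P.lf 0 3135 0) P.nil)) (P.cons (P.cons (P.lf 0 117 0) P.nil) P.nil)))))) 4797)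
 EL.nil)))
noncomputable def S96_111_216_364_22 : EL := (EL.cons 4 (TM.mk (P.cons (P.cons (P.lf 719040552 0 0) (P.cons (P.lf 0 12230904 0) (P.cons (P.lf 0 5566191 0) (P.cons (P.lf 334104 0 0) (P.cons (P.lf 0 26322 0) (P.cons (P.lf 12069 0 0) P.nil)))))) (P.cons (P.cons (P.lf 35895933 0 0) (P.cons (P.lf 1420287 0 0) (P.cons (P.lf 427590 0 0) (P.cons (P.lf 0 227469 0) (P.cons (P.lf 0 16656 0) P.nil))))) (P.cons (P.cons (P.lf 0 22264215 0) (P.cons (P.lf 1504164 0 0) (P.cons (P.lf 599826 0 0) (P.cons (P.lf 0 114144 0) P.nil)))) (P.cons (P.cons (P.lf 0 2280537 0) (P.cons (P.lf 229140 0 0) (P.cons (P.lf 92103 0 0) P.nil))) (P.cons (P.cons (P.lf 53334 0 0) (P.cons (P.lf 8436 0 0) P.nil)) (P.cons (P.cons (P.lf 15573 0 0) P.nil) P.nil)))))) 62931)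
 (EL.cons 8 (TM.mk (P.cons (P.cons (P.lf 0 1026402084 0) (P.cons (P.lf 17459139 0 0) (P.cons (P.lf 7945521 0 0) (P.cons (P.lf 0 476922 0) (P.cons (P.lf 37572 0 0) (P.cons (P.lf 0 17226 0) P.nil)))))) (P.cons (P.cons (P.lf 79721763 0 0) (P.cons (P.lf 0 4255065 0) (P.cons (P.lf 0 1624161 0) (P.cons (P.lf 385554 0 0) (P.cons (P.lf 18984 0 0) P.nil))))) (P.cons (P.cons (P.lf 26070996 0 0) (P.cons (P.lf 0 1680105 0) (P.cons (P.lf 0 683529 0) (P.cons (P.lf 115809 0 0) P.nil)))) (P.cons (P.cons (P.lf 0 198216 0) (P.cons (P.lf 0 97950 0) (P.cons (P.lf 0 38892 0) P.nil))) (P.cons (P.cons (P.lf 0 170406 0) (P.cons (P.lf 8472 0 0) P.nil)) (P.cons (P.cons (P.lf 0 5502 0) P.nil) P.nil)))))) 49386)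
 (EL.cons 11 (TM.mk (P.cons (P.cons (P.lf 0 76526841 0) (P.cons (P.lf 0 72315066 0) (P.cons (P.lf 5922393 0 0) (P.cons (P.lf 1257513 0 0) (P.cons (P.lf 0 18600 0) (P.cons (P.lf 2388 0 0) P.nil)))))) (P.cons (P.cons (P.lf 0 5650560 0) (P.cons (P.lf 0 5819820 0) (P.cons (P.lf 0 217191 0) (P.cons (P.lf 0 31143 0) (P.cons (P.lf 49410 0 0) P.nil))))) (P.cons (P.cons (P.lf 2018961 0 0) (P.cons (P.lf 1756956 0 0) (P.cons (P.lf 0 361875 0) (P.cons (P.lf 0 72132 0) P.nil)))) (P.cons (P.cons (P.lf 271821 0 0) (P.cons (P.lf 239067 0 0) (P.cons (P.lf 0 45288 0) P.nil))) (P.cons (P.cons (P.lf 6453 0 0) (P.cons (P.lf 5223 0 0) P.nil)) (P.cons (P.cons (P.lf 0 627 0) P.nil) P.nil)))))) 52962)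
 EL.nil)))
noncomputable def S96_111_216_364_23 : EL := (EL.cons 4 (TM.mk (P.cons (P.cons (P.lf 1465926639 0 0) (P.cons (P.lf 0 44536236 0) (P.cons (P.lf 0 19204524 0) (P.lf 2133831 0 0)))) (P.cons (P.cons (P.lf 255659565 0 0) (P.cons (P.lf 0 12826305 0) (P.cons (P.lf 0 5530845 0) (P.lf 614535 0 0)))) (P.cons (P.cons (P.lf 47967 0 0) (P.cons (P.lf 0 1007076 0) (P.cons (P.lf 0 434256 0) (P.lf 48246 0 0)))) (P.cons (P.cons (P.lf 0 1953630 0) (P.cons (P.lf 29397 0 0) (P.cons (P.lf 12681 0 0) P.nil))) (P.cons (P.cons (P.lf 0 80241 0) (P.cons (P.lf 7269 0 0) P.nil)) (P.cons (P.cons (P.lf 3294 0 0) P.nil) P.nil)))))) 14625)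
 (EL.cons 8 (TM.mk (P.cons (P.cons (P.lf 0 2092552572 0) (P.cons (P.lf 63573732 0 0) (P.cons (P.lf 27413709 0 0) (P.lf 0 3045966 0)))) (P.cons (P.cons (P.lf 0 97948755 0) (P.cons (P.lf 10197495 0 0) (P.cons (P.lf 4397274 0 0) (P.lf 0 488586 0)))) (P.cons (P.cons (P.lf 21525195 0 0) (P.cons (P.lf 0 139896 0) (P.cons (P.lf 0 60321 0) (P.lf 6699 0 0)))) (P.cons (P.cons (P.lf 915378 0 0) (P.cons (P.lf 0 82014 0) (P.cons (P.lf 0 35364 0) P.nil))) (P.cons (P.cons (P.lf 0 52845 0) (P.cons (P.lf 0 2166 0) P.nil)) (P.cons (P.cons (P.lf 0 4413 0) P.nil) P.nil)))))) 8355)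
 (EL.cons 11 (TM.mk (P.cons (P.cons (P.lf 0 156017259 0) (P.cons (P.lf 0 145344510 0) (P.cons (P.lf 14917074 0 0) (P.cons (P.lf 3102336 0 0) (P.lf 0 258525 0))))) (P.cons (P.cons (P.lf 0 30940872 0) (P.cons (P.lf 0 28824282 0) (P.cons (P.lf 2958306 0 0) (P.cons (P.lf 615243 0 0) (P.lf 0 51267 0))))) (P.cons (P.cons (P.lf 0 1184343 0) (P.cons (P.lf 0 1103325 0) (P.cons (P.lf 113235 0 0) (P.cons (P.lf 23547 0 0) P.nil)))) (P.cons (P.cons (P.lf 85821 0 0) (P.cons (P.lf 79953 0 0) (P.cons (P.lf 0 8205 0) P.nil))) (P.cons (P.cons (P.lf 6315 0 0) (P.cons (P.lf 5883 0 0) P.nil)) (P.cons (P.cons (P.lf 87 0 0) P.nil) P.nil)))))) 7872)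
 EL.nil)))
noncomputable def S96_111_216_364_24 : EL := (EL.cons 4 (TM.mk (P.cons (P.cons (P.lf 0 593434887 0) (P.cons (P.lf 10094349 0 0) (P.cons (P.lf 4593861 0 0) (P.cons (P.lf 0 275742 0) (P.cons (P.lf 21723 0 0) (P.cons (P.lf 0 9960 0) P.nil)))))) (P.cons (P.cons (P.lf 0 18376062 0) (P.cons (P.lf 0 1363536 0) (P.cons (P.lf 0 439980 0) (P.cons (P.lf 192960 0 0) (P.cons (P.lf 13335 0 0) P.nil))))) (P.cons (P.cons (P.lf 19717626 0 0) (P.cons (P.lf 0 1232475 0) (P.cons (P.lf 0 494403 0) (P.cons (P.lf 91008 0 0) P.nil)))) (P.cons (P.cons (P.lf 1588074 0 0) (P.cons (P.lf 0 164295 0) (P.cons (P.lf 0 66285 0) P.nil))) (P.cons (P.cons (P.lf 0 103239 0) (P.cons (P.lf 0 1713 0) P.nil)) (P.cons (P.cons (P.lf 0 14988 0) P.nil) P.nil)))))) 50418)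
 (EL.cons 8 (TM.mk (P.cons (P.cons (P.lf 847104939 0 0) (P.cons (P.lf 0 14409288 0) (P.cons (P.lf 0 6557559 0) (P.cons (P.lf 393612 0 0) (P.cons (P.lf 0 31008 0) (P.cons (P.lf 14217 0 0) P.nil)))))) (P.cons (P.cons (P.lf 0 81853611 0) (P.cons (P.lf 3784914 0 0) (P.cons (P.lf 1464750 0 0) (P.cons (P.lf 0 325665 0) (P.cons (P.lf 0 15081 0) P.nil))))) (P.cons (P.cons (P.lf 0 21384450 0) (P.cons (P.lf 1339008 0 0) (P.cons (P.lf 547347 0 0) (P.cons (P.lf 0 90066 0) P.nil)))) (P.cons (P.cons (P.lf 636306 0 0) (P.cons (P.lf 50301 0 0) (P.cons (P.lf 19809 0 0) P.nil))) (P.cons (P.cons (P.lf 167715 0 0) (P.cons (P.lf 0 10443 0) P.nil)) (P.cons (P.cons (P.lf 2220 0 0) P.nil) P.nil)))))) 39792)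
 (EL.cons 11 (TM.mk (P.cons (P.cons (P.lf 63158742 0 0) (P.cons (P.lf 59682702 0 0) (P.cons (P.lf 0 4887840 0) (P.cons (P.lf 0 1037844 0) (P.cons (P.lf 15351 0 0) (P.cons (P.lf 0 1971 0) P.nil)))))) (P.cons (P.cons (P.lf 3466230 0 0) (P.cons (P.lf 3671817 0 0) (P.cons (P.lf 271905 0 0) (P.cons (P.lf 45375 0 0) (P.cons (P.lf 0 41070 0) P.nil))))) (P.cons (P.cons (P.lf 0 1837806 0) (P.cons (P.lf 0 1619643 0) (P.cons (P.lf 301695 0 0) (P.cons (P.lf 60411 0 0) P.nil)))) (P.cons (P.cons (P.lf 0 200514 0) (P.cons (P.lf 0 177672 0) (P.cons (P.lf 31605 0 0) P.nil))) (P.cons (P.cons (P.lf 1011 0 0) (P.cons (P.lf 1224 0 0) P.nil)) (P.cons (P.cons (P.lf 957 0 0) P.nil) P.nil)))))) 41955)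
 EL.nil)))
noncomputable def S96_111_216_364_25 : EL := (EL.cons 4 (TM.mk (P.cons (P.cons (P.lf 0 1209851106 0) (P.cons (P.lf 36756417 0 0) (P.cons (P.lf 15849777 0 0) (P.lf 0 1761081 0)))) (P.cons (P.cons (P.lf 0 188065236 0) (P.cons (P.lf 9888972 0 0) (P.cons (P.lf 4264233 0 0) (P.lf 0 473802 0)))) (P.cons (P.cons (P.lf 5552547 0 0) (P.cons (P.lf 582111 0 0) (P.cons (P.lf 251007 0 0) (P.lf 0 27885 0)))) (P.cons (P.cons (P.lf 1921896 0 0) (P.cons (P.lf 0 54894 0) (P.cons (P.lf 0 23676 0) P.nil))) (P.cons (P.cons (P.lf 40890 0 0) (P.cons (P.lf 0 6897 0) P.nil)) (P.cons (P.cons (P.lf 0 6168 0) P.nil) P.nil)))))) 14487)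
 (EL.cons 8 (TM.mk (P.cons (P.cons (P.lf 1727014830 0 0) (P.cons (P.lf 0 52468347 0) (P.cons (P.lf 0 22624941 0) (P.lf 2513880 0 0)))) (P.cons (P.cons (P.lf 48100596 0 0) (P.cons (P.lf 0 7421532 0) (P.cons (P.lf 0 3200250 0) (P.lf 355581 0 0)))) (P.cons (P.cons (P.lf 0 21570477 0) (P.cons (P.lf 344052 0 0) (P.cons (P.lf 148356 0 0) (P.lf 0 16482 0)))) (P.cons (P.cons (P.lf 0 569475 0) (P.cons (P.lf 77925 0 0) (P.cons (P.lf 33600 0 0) P.nil))) (P.cons (P.cons (P.lf 79587 0 0) (P.cons (P.lf 558 0 0) P.nil)) (P.cons (P.cons (P.lf 4326 0 0) P.nil) P.nil)))))) 8244)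
 (EL.cons 11 (TM.mk (P.cons (P.cons (P.lf 128763369 0 0) (P.cons (P.lf 119954991 0 0) (P.cons (P.lf 0 12311283 0) (P.cons (P.lf 0 2560404 0) (P.lf 213363 0 0))))) (P.cons (P.cons (P.lf 23095074 0 0) (P.cons (P.lf 21515196 0 0) (P.cons (P.lf 0 2208156 0) (P.cons (P.lf 0 459234 0) (P.lf 38268 0 0))))) (P.cons (P.cons (P.lf 323913 0 0) (P.cons (P.lf 301758 0 0) (P.cons (P.lf 0 30969 0) (P.cons (P.lf 0 6438 0) P.nil)))) (P.cons (P.cons (P.lf 0 126276 0) (P.cons (P.lf 0 117639 0) (P.cons (P.lf 12072 0 0) P.nil))) (P.cons (P.cons (P.lf 0 5787 0) (P.cons (P.lf 0 5391 0) P.nil)) (P.cons (P.cons (P.lf 102 0 0) P.nil) P.nil)))))) 9075)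
 EL.nil)))
noncomputable def S96_111_216_364_26 : EL := (EL.cons 4 (TM.mk (P.cons (P.cons (P.lf 489770658 0 0) (P.cons (P.lf 0 8331015 0) (P.cons (P.lf 0 3791382 0) (P.cons (P.lf 227571 0 0) (P.cons (P.lf 0 17928 0) (P.cons (P.lf 8220 0 0) P.nil)))))) (P.cons (P.cons (P.lf 5881752 0 0) (P.cons (P.lf 1283274 0 0) (P.cons (P.lf 434994 0 0) (P.cons (P.lf 0 163566 0) (P.cons (P.lf 0 10665 0) P.nil))))) (P.cons (P.cons (P.lf 0 17205357 0) (P.cons (P.lf 1006812 0 0) (P.cons (P.lf 406143 0 0) (P.cons (P.lf 0 72390 0) P.nil)))) (P.cons (P.cons (P.lf 0 1034721 0) (P.cons (P.lf 115047 0 0) (P.cons (P.lf 46590 0 0) P.nil))) (P.cons (P.cons (P.lf 131175 0 0) (P.cons (P.lf 0 2523 0) P.nil)) (P.cons (P.cons (P.lf 12912 0 0) P.nil) P.nil)))))) 41439)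
 (EL.cons 8 (TM.mk (P.cons (P.cons (P.lf 0 699128334 0) (P.cons (P.lf 11892201 0 0) (P.cons (P.lf 5412051 0 0) (P.cons (P.lf 0 324852 0) (P.cons (P.lf 25593 0 0) (P.cons (P.lf 0 11733 0) P.nil)))))) (P.cons (P.cons (P.lf 80807958 0 0) (P.cons (P.lf 0 3349179 0) (P.cons (P.lf 0 1311474 0) (P.cons (P.lf 274935 0 0) (P.cons (P.lf 11961 0 0) P.nil))))) (P.cons (P.cons (P.lf 17288463 0 0) (P.cons (P.lf 0 1061541 0) (P.cons (P.lf 0 435939 0) (P.cons (P.lf 69663 0 0) P.nil)))) (P.cons (P.cons (P.lf 0 930666 0) (P.cons (P.lf 0 16761 0) (P.cons (P.lf 0 6333 0) P.nil))) (P.cons (P.cons (P.lf 0 153567 0) (P.cons (P.lf 10941 0 0) P.nil)) (P.cons (P.cons (P.lf 1023 0 0) P.nil) P.nil)))))) 32865)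
 (EL.cons 11 (TM.mk (P.cons (P.cons (P.lf 0 52125852 0) (P.cons (P.lf 0 49257024 0) (P.cons (P.lf 4034007 0 0) (P.cons (P.lf 856548 0 0) (P.cons (P.lf 0 12669 0) (P.cons (P.lf 1626 0 0) P.nil)))))) (P.cons (P.cons (P.lf 0 1872612 0) (P.cons (P.lf 0 2096670 0) (P.cons (P.lf 0 300879 0) (P.cons (P.lf 0 53685 0) (P.cons (P.lf 34137 0 0) P.nil))))) (P.cons (P.cons (P.lf 1639605 0 0) (P.cons (P.lf 1458990 0 0) (P.cons (P.lf 0 250050 0) (P.cons (P.lf 0 50274 0) P.nil)))) (P.cons (P.cons (P.lf 141837 0 0) (P.cons (P.lf 126549 0 0) (P.cons (P.lf 0 21171 0) P.nil))) (P.cons (P.cons (P.lf 0 5904 0) (P.cons (P.lf 0 5481 0) P.nil)) (P.cons (P.cons (P.lf 0 1032 0) P.nil) P.nil)))))) 34008)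
 EL.nil)))
noncomputable def S96_111_216_364_27 : EL := (EL.cons 13 (TM.mk (P.lf 0 4294967296 0) 0)
 EL.nil)
noncomputable def S96_111_216_364_28 : EL := (EL.cons 13 (TM.mk (P.cons (P.cons (P.lf 1738684164 0 0) (P.cons (P.lf 23247788 0 0) (P.cons (P.lf 10024708 0 0) (P.lf 0 1113856 0)))) (P.cons (P.cons (P.lf 0 249389456 0) (P.cons (P.lf 7576684 0 0) (P.cons (P.lf 3267152 0 0) (P.lf 0 363016 0)))) (P.cons (P.cons (P.lf 0 14333031 0) (P.cons (P.lf 865788 0 0) (P.cons (P.lf 373336 0 0) (P.lf 0 41480 0)))) (P.cons (P.cons (P.lf 172146 0 0) (P.cons (P.lf 34736 0 0) (P.cons (P.lf 14976 0 0) P.nil))) (P.cons (P.cons (P.lf 35740 0 0) (P.cons (P.lf 0 572 0) P.nil)) (P.cons (P.cons (P.lf 1018 0 0) P.nil) P.nil)))))) 2870)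
 EL.nil)
noncomputable def S96_111_216_364_29 : EL := (EL.cons 13 (TM.mk (P.cons (P.cons (P.lf 0 703852302 0) (P.cons (P.lf 0 18822290 0) (P.cons (P.lf 0 8242219 0) (P.cons (P.lf 793296 0 0) (P.cons (P.lf 0 11340 0) (P.cons (P.lf 5199 0 0) P.nil)))))) (P.cons (P.cons (P.lf 201915156 0 0) (P.cons (P.lf 0 3434581 0) (P.cons (P.lf 0 1563052 0) (P.cons (P.lf 93820 0 0) (P.cons (P.lf 0 7391 0) P.nil))))) (P.cons (P.cons (P.lf 0 2876360 0) (P.cons (P.lf 334076 0 0) (P.cons (P.lf 121320 0 0) (P.cons (P.lf 0 35618 0) P.nil)))) (P.cons (P.cons (P.lf 0 1803885 0) (P.cons (P.lf 121127 0 0) (P.cons (P.lf 48802 0 0) P.nil))) (P.cons (P.cons (P.lf 0 56776 0) (P.cons (P.lf 9281 0 0) P.nil)) (P.cons (P.cons (P.lf 4475 0 0) P.nil) P.nil)))))) 32185)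
 EL.nil)
noncomputable def S96_111_216_364_30 : EL := (EL.cons 13 (TM.mk (P.cons (P.lf 3544700532 0 0) (P.cons (P.lf 0 67194736 0) (P.cons (P.lf 0 4665352 0) (P.cons (P.lf 0 91060 0) (P.cons (P.lf 712 0 0) (P.cons (P.lf 88 0 0) P.nil)))))) 76)
 EL.nil)
noncomputable def S96_111_216_364_31 : EL := (EL.cons 13 (TM.mk (P.cons (P.cons (P.lf 0 1434961958 0) (P.cons (P.lf 0 19186745 0) (P.cons (P.lf 0 8273540 0) (P.lf 919281 0 0)))) (P.cons (P.cons (P.lf 233026538 0 0) (P.cons (P.lf 0 5889438 0) (P.cons (P.lf 0 2539592 0) (P.lf 282176 0 0)))) (P.cons (P.cons (P.lf 9816190 0 0) (P.cons (P.lf 0 570757 0) (P.cons (P.lf 0 246115 0) (P.lf 27344 0 0)))) (P.cons (P.cons (P.lf 0 600348 0) (P.cons (P.lf 0 6399 0) (P.cons (P.lf 0 2757 0) P.nil))) (P.cons (P.cons (P.lf 0 47948 0) (P.cons (P.lf 2112 0 0) P.nil)) (P.cons (P.cons (P.lf 0 392 0) P.nil) P.nil)))))) 4465)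
 EL.nil)
noncomputable def S96_111_216_364_32 : EL := (EL.cons 13 (TM.mk (P.cons (P.cons (P.lf 580899796 0 0) (P.cons (P.lf 15534316 0 0) (P.cons (P.lf 6802426 0 0) (P.cons (P.lf 0 654719 0) (P.cons (P.lf 9359 0 0) (P.cons (P.lf 0 4290 0) P.nil)))))) (P.cons (P.cons (P.lf 0 177655352 0) (P.cons (P.lf 2540136 0 0) (P.cons (P.lf 1161060 0 0) (P.cons (P.lf 0 65019 0) (P.cons (P.lf 5922 0 0) P.nil))))) (P.cons (P.cons (P.lf 4768313 0 0) (P.cons (P.lf 0 349897 0) (P.cons (P.lf 0 133534 0) (P.cons (P.lf 31725 0 0) P.nil)))) (P.cons (P.cons (P.lf 1648177 0 0) (P.cons (P.lf 0 98871 0) (P.cons (P.lf 0 40251 0) P.nil))) (P.cons (P.cons (P.lf 19909 0 0) (P.cons (P.lf 0 5471 0) P.nil)) (P.cons (P.cons (P.lf 0 6621 0) P.nil) P.nil)))))) 29547)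
 EL.nil)
noncomputable def S96_111_216_364_33 : EL := (EL.cons 14 (TM.mk (P.lf 8589934592 0 0) 0)
 EL.nil)
noncomputable def S96_111_216_364_34 : EL := (EL.cons 14 (TM.mk (P.cons (P.cons (P.lf 0 3477368328 0) (P.cons (P.lf 0 46495576 0) (P.cons (P.lf 0 20049416 0) (P.lf 2227712 0 0)))) (P.cons (P.cons (P.lf 498778912 0 0) (P.cons (P.lf 0 15153368 0) (P.cons (P.lf 0 6534304 0) (P.lf 726032 0 0)))) (P.cons (P.cons (P.lf 28666062 0 0) (P.cons (P.lf 0 1731576 0) (P.cons (P.lf 0 746672 0) (P.lf 82960 0 0)))) (P.cons (P.cons (P.lf 0 344292 0) (P.cons (P.lf 0 69472 0) (P.cons (P.lf 0 29952 0) P.nil))) (P.cons (P.cons (P.lf 0 71480 0) (P.cons (P.lf 1144 0 0) P.nil)) (P.cons (P.cons (P.lf 0 2036 0) P.nil) P.nil)))))) 5740)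
 EL.nil)
noncomputable def S96_111_216_364_35 : EL := (EL.cons 14 (TM.mk (P.cons (P.cons (P.lf 1407704604 0 0) (P.cons (P.lf 37644580 0 0) (P.cons (P.lf 16484438 0 0) (P.cons (P.lf 0 1586592 0) (P.cons (P.lf 22680 0 0) (P.cons (P.lf 0 10398 0) P.nil)))))) (P.cons (P.cons (P.lf 0 403830312 0) (P.cons (P.lf 6869162 0 0) (P.cons (P.lf 3126104 0 0) (P.cons (P.lf 0 187640 0) (P.cons (P.lf 14782 0 0) P.nil))))) (P.cons (P.cons (P.lf 5752720 0 0) (P.cons (P.lf 0 668152 0) (P.cons (P.lf 0 242640 0) (P.cons (P.lf 71236 0 0) P.nil)))) (P.cons (P.cons (P.lf 3607770 0 0) (P.cons (P.lf 0 242254 0) (P.cons (P.lf 0 97604 0) P.nil))) (P.cons (P.cons (P.lf 113552 0 0) (P.cons (P.lf 0 18562 0) P.nil)) (P.cons (P.cons (P.lf 0 8950 0) P.nil) P.nil)))))) 64370)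
 EL.nil)
noncomputable def S96_111_216_364_36 : EL := (EL.cons 14 (TM.mk (P.cons (P.lf 0 7089401064 0) (P.cons (P.lf 134389472 0 0) (P.cons (P.lf 9330704 0 0) (P.cons (P.lf 182120 0 0) (P.cons (P.lf 0 1424 0) (P.cons (P.lf 0 176 0) P.nil)))))) 152)
 EL.nil)
noncomputable def S96_111_216_364_37 : EL := (EL.cons 14 (TM.mk (P.cons (P.cons (P.lf 2869923916 0 0) (P.cons (P.lf 38373490 0 0) (P.cons (P.lf 16547080 0 0) (P.lf 0 1838562 0)))) (P.cons (P.cons (P.lf 0 466053076 0) (P.cons (P.lf 11778876 0 0) (P.cons (P.lf 5079184 0 0) (P.lf 0 564352 0)))) (P.cons (P.cons (P.lf 0 19632380 0) (P.cons (P.lf 1141514 0 0) (P.cons (P.lf 492230 0 0) (P.lf 0 54688 0)))) (P.cons (P.cons (P.lf 1200696 0 0) (P.cons (P.lf 12798 0 0) (P.cons (P.lf 5514 0 0) P.nil))) (P.cons (P.cons (P.lf 95896 0 0) (P.cons (P.lf 0 4224 0) P.nil)) (P.cons (P.cons (P.lf 784 0 0) P.nil) P.nil)))))) 8930)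
 EL.nil)
noncomputable def S96_111_216_364_38 : EL := (EL.cons 14 (TM.mk (P.cons (P.cons (P.lf 0 1161799592 0) (P.cons (P.lf 0 31068632 0) (P.cons (P.lf 0 13604852 0) (P.cons (P.lf 1309438 0 0) (P.cons (P.lf 0 18718 0) (P.cons (P.lf 8580 0 0) P.nil)))))) (P.cons (P.cons (P.lf 355310704 0 0) (P.cons (P.lf 0 5080272 0) (P.cons (P.lf 0 2322120 0) (P.cons (P.lf 130038 0 0) (P.cons (P.lf 0 11844 0) P.nil))))) (P.cons (P.cons (P.lf 0 9536626 0) (P.cons (P.lf 699794 0 0) (P.cons (P.lf 267068 0 0) (P.cons (P.lf 0 63450 0) P.nil)))) (P.cons (P.cons (P.lf 0 3296354 0) (P.cons (P.lf 197742 0 0) (P.cons (P.lf 80502 0 0) P.nil))) (P.cons (P.cons (P.lf 0 39818 0) (P.cons (P.lf 10942 0 0) P.nil)) (P.cons (P.cons (P.lf 13242 0 0) P.nil) P.nil)))))) 59094)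
 EL.nil)
noncomputable def S96_111_216_364_39 : EL := (EL.cons 14 (TM.mk (P.cons (P.lf 5850988374 0 0) (P.cons (P.lf 0 221827268 0) (P.cons (P.lf 0 13299014 0) (P.cons (P.lf 0 8654 0) (P.cons (P.lf 18184 0 0) (P.cons (P.lf 640 0 0) P.nil)))))) 282)
 EL.nil)
noncomputable def S96_111_216_364_40 : EL := (EL.cons 14 (TM.mk (P.cons (P.cons (P.lf 0 2368590986 0) (P.cons (P.lf 0 31670214 0) (P.cons (P.lf 0 13656552 0) (P.lf 1517394 0 0)))) (P.cons (P.cons (P.lf 429540492 0 0) (P.cons (P.lf 0 9120930 0) (P.cons (P.lf 0 3933048 0) (P.lf 437004 0 0)))) (P.cons (P.cons (P.lf 12028916 0 0) (P.cons (P.lf 0 716146 0) (P.cons (P.lf 0 308808 0) (P.lf 34308 0 0)))) (P.cons (P.cons (P.lf 0 1743498 0) (P.cons (P.lf 20902 0 0) (P.cons (P.lf 9016 0 0) P.nil))) (P.cons (P.cons (P.lf 0 92040 0) (P.cons (P.lf 5170 0 0) P.nil)) (P.cons (P.cons (P.lf 1760 0 0) P.nil) P.nil)))))) 10136)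
 EL.nil)
noncomputable def S96_111_216_364_41 : EL := (EL.cons 14 (TM.mk (P.cons (P.cons (P.lf 958850522 0 0) (P.cons (P.lf 25641404 0 0) (P.cons (P.lf 11228286 0 0) (P.cons (P.lf 0 1080698 0) (P.cons (P.lf 15448 0 0) (P.cons (P.lf 0 7082 0) P.nil)))))) (P.cons (P.cons (P.lf 0 311419568 0) (P.cons (P.lf 3706756 0 0) (P.cons (P.lf 1703632 0 0) (P.cons (P.lf 0 86836 0) (P.cons (P.lf 9482 0 0) P.nil))))) (P.cons (P.cons (P.lf 12167564 0 0) (P.cons (P.lf 0 690778 0) (P.cons (P.lf 0 271522 0) (P.cons (P.lf 55824 0 0) P.nil)))) (P.cons (P.cons (P.lf 2932650 0 0) (P.cons (P.lf 0 158428 0) (P.cons (P.lf 0 65072 0) P.nil))) (P.cons (P.cons (P.lf 0 21340 0) (P.cons (P.lf 0 5280 0) P.nil)) (P.cons (P.cons (P.lf 0 15368 0) P.nil) P.nil)))))) 53158)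
 EL.nil)
noncomputable def S96_111_216_364_42 : EL := (EL.cons 14 (TM.mk (P.cons (P.lf 0 4828907922 0) (P.cons (P.lf 274616026 0 0) (P.cons (P.lf 13860946 0 0) (P.cons (P.lf 0 317826 0) (P.cons (P.lf 0 35260 0) (P.cons (P.lf 0 618 0) P.nil)))))) 396)
 EL.nil)
noncomputable def S96_111_216_364_43 : EL := (EL.cons 14 (TM.mk (P.cons (P.cons (P.lf 1954833448 0 0) (P.cons (P.lf 26137900 0 0) (P.cons (P.lf 11270956 0 0) (P.lf 0 1252328 0)))) (P.cons (P.cons (P.lf 0 391562760 0) (P.cons (P.lf 7032158 0 0) (P.cons (P.lf 3032346 0 0) (P.lf 0 336926 0)))) (P.cons (P.cons (P.lf 0 5780334 0) (P.cons (P.lf 413948 0 0) (P.cons (P.lf 178496 0 0) (P.lf 0 19830 0)))) (P.cons (P.cons (P.lf 2043490 0 0) (P.cons (P.lf 0 39034 0) (P.cons (P.lf 0 16834 0) P.nil))) (P.cons (P.cons (P.lf 71250 0 0) (P.cons (P.lf 0 4906 0) P.nil)) (P.cons (P.cons (P.lf 0 4554 0) P.nil) P.nil)))))) 10972)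
 EL.nil)
noncomputable def S96_111_216_364_44 : EL := (EL.cons 14 (TM.mk (P.cons (P.cons (P.lf 0 791353628 0) (P.cons (P.lf 0 21162234 0) (P.cons (P.lf 0 9266872 0) (P.cons (P.lf 891916 0 0) (P.cons (P.lf 0 12748 0) (P.cons (P.lf 5844 0 0) P.nil)))))) (P.cons (P.cons (P.lf 272020422 0 0) (P.cons (P.lf 0 2658080 0) (P.cons (P.lf 0 1230366 0) (P.cons (P.lf 54760 0 0) (P.cons (P.lf 0 7584 0) P.nil))))) (P.cons (P.cons (P.lf 0 13872690 0) (P.cons (P.lf 655954 0 0) (P.cons (P.lf 262940 0 0) (P.cons (P.lf 0 48604 0) P.nil)))) (P.cons (P.cons (P.lf 0 2547944 0) (P.cons (P.lf 124516 0 0) (P.cons (P.lf 51546 0 0) P.nil))) (P.cons (P.cons (P.lf 69950 0 0) (P.cons (P.lf 1202 0 0) P.nil)) (P.cons (P.cons (P.lf 15826 0 0) P.nil) P.nil)))))) 47792)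
 EL.nil)
noncomputable def S96_111_216_364_45 : EL := (EL.cons 14 (TM.mk (P.cons (P.cons (P.lf 0 569865502 0) (P.cons (P.lf 0 22858858 0) (P.cons (P.lf 0 10162640 0) (P.cons (P.lf 830264 0 0) (P.cons (P.lf 0 29306 0) (P.cons (P.lf 12064 0 0) P.nil)))))) (P.cons (P.cons (P.lf 245217246 0 0) (P.cons (P.lf 0 892372 0) (P.cons (P.lf 0 540184 0) (P.cons (P.lf 0 92584 0) (P.cons (P.lf 0 15724 0) P.nil))))) (P.cons (P.cons (P.lf 0 21079674 0) (P.cons (P.lf 1192452 0 0) (P.cons (P.lf 490066 0 0) (P.cons (P.lf 0 78534 0) P.nil)))) (P.cons (P.cons (P.lf 0 2530530 0) (P.cons (P.lf 121030 0 0) (P.cons (P.lf 53392 0 0) P.nil))) (P.cons (P.cons (P.lf 187188 0 0) (P.cons (P.lf 0 14054 0) P.nil)) (P.cons (P.cons (P.lf 25052 0 0) P.nil) P.nil)))))) 80230)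
 EL.nil)
noncomputable def S96_111_216_364_46 : EL := (EL.cons 15 (TM.mk (P.lf 4294967296 0 0) 0)
 EL.nil)
noncomputable def S96_111_216_364_47 : EL := (EL.cons 15 (TM.mk (P.cons (P.cons (P.lf 0 1738684164 0) (P.cons (P.lf 0 23247788 0) (P.cons (P.lf 0 10024708 0) (P.lf 1113856 0 0)))) (P.cons (P.cons (P.lf 249389456 0 0) (P.cons (P.lf 0 7576684 0) (P.cons (P.lf 0 3267152 0) (P.lf 363016 0 0)))) (P.cons (P.cons (P.lf 14333031 0 0) (P.cons (P.lf 0 865788 0) (P.cons (P.lf 0 373336 0) (P.lf 41480 0 0)))) (P.cons (P.cons (P.lf 0 172146 0) (P.cons (P.lf 0 34736 0) (P.cons (P.lf 0 14976 0) P.nil))) (P.cons (P.cons (P.lf 0 35740 0) (P.cons (P.lf 572 0 0) P.nil)) (P.cons (P.cons (P.lf 0 1018 0) P.nil) P.nil)))))) 2870)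
 EL.nil)
noncomputable def S96_111_216_364_48 : EL := (EL.cons 15 (TM.mk (P.cons (P.cons (P.lf 703852302 0 0) (P.cons (P.lf 18822290 0 0) (P.cons (P.lf 8242219 0 0) (P.cons (P.lf 0 793296 0) (P.cons (P.lf 11340 0 0) (P.cons (P.lf 0 5199 0) P.nil)))))) (P.cons (P.cons (P.lf 0 201915156 0) (P.cons (P.lf 3434581 0 0) (P.cons (P.lf 1563052 0 0) (P.cons (P.lf 0 93820 0) (P.cons (P.lf 7391 0 0) P.nil))))) (P.cons (P.cons (P.lf 2876360 0 0) (P.cons (P.lf 0 334076 0) (P.cons (P.lf 0 121320 0) (P.cons (P.lf 35618 0 0) P.nil)))) (P.cons (P.cons (P.lf 1803885 0 0) (P.cons (P.lf 0 121127 0) (P.cons (P.lf 0 48802 0) P.nil))) (P.cons (P.cons (P.lf 56776 0 0) (P.cons (P.lf 0 9281 0) P.nil)) (P.cons (P.cons (P.lf 0 4475 0) P.nil) P.nil)))))) 32185)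
 EL.nil)
noncomputable def S96_111_216_364 : SL := (SL.cons S96_111_216_364_0 (SL.cons S96_111_216_364_1 (SL.cons S96_111_216_364_2 (SL.cons S96_111_216_364_3 (SL.cons S96_111_216_364_4 (SL.cons S96_111_216_364_5 (SL.cons S96_111_216_364_6 (SL.cons S96_111_216_364_7 (SL.cons S96_111_216_364_8 (SL.cons S96_111_216_364_9 (SL.cons S96_111_216_364_10 (SL.cons S96_111_216_364_11 (SL.cons S96_111_216_364_12 (SL.cons S96_111_216_364_13 (SL.cons S96_111_216_364_14 (SL.cons S96_111_216_364_15 (SL.cons S96_111_216_364_16 (SL.cons S96_111_216_364_17 (SL.cons S96_111_216_364_18 (SL.cons S96_111_216_364_19 (SL.cons S96_111_216_364_20 (SL.cons S96_111_216_364_21 (SL.cons S96_111_216_364_22 (SL.cons S96_111_216_364_23 (SL.cons S96_111_216_364_24 (SL.cons S96_111_216_364_25 (SL.cons S96_111_216_364_26 (SL.cons S96_111_216_364_27 (SL.cons S96_111_216_364_28 (SL.cons S96_111_216_364_29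 (SL.cons S96_111_216_364_30 (SL.cons S96_111_216_364_31 (SL.cons S96_111_216_364_32 (SL.cons S96_111_216_364_33 (SL.cons S96_111_216_364_34 (SL.cons S96_111_216_364_35 (SL.cons S96_111_216_364_36 (SL.cons S96_111_216_364_37 (SL.cons S96_111_216_364_38 (SL.cons S96_111_216_364_39 (SL.cons S96_111_216_364_40 (SL.cons S96_111_216_364_41 (SL.cons S96_111_216_364_42 (SL.cons S96_111_216_364_43 (SL.cons S96_111_216_364_44 (SL.cons S96_111_216_364_45 (SL.cons S96_111_216_364_46 (SL.cons S96_111_216_364_47 (SL.cons S96_111_216_364_48 SL.nil)))))))))))))))))))))))))))))))))))))))))))))))))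
noncomputable def S111_125_216_364_0 : EL := (EL.cons 0 (TM.mk (P.cons (P.lf 3733685306 0 0) (P.cons (P.lf 223761730 0 0) (P.cons (P.lf 9872342 0 0) (P.cons (P.lf 0 111610 0) (P.cons (P.lf 0 16268 0) (P.cons (P.lf 0 381 0) P.nil)))))) 224)
 (EL.cons 1 (TM.mk (P.cons (P.lf 0 1487432810 0) (P.cons (P.lf 0 91043581 0) (P.cons (P.lf 4753766 0 0) (P.cons (P.lf 282485 0 0) (P.cons (P.lf 2602 0 0) (P.cons (P.lf 0 234 0) P.nil)))))) 127)
 (EL.cons 5 (TM.mk (P.cons (P.lf 5973911854 0 0) (P.cons (P.lf 0 79559726 0) (P.cons (P.lf 0 3510166 0) (P.cons (P.lf 39680 0 0) (P.cons (P.lf 5784 0 0) (P.cons (P.lf 134 0 0) P.nil)))))) 67)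
 (EL.cons 9 (TM.mk (P.lf 6442450944 0 0) 2)
 EL.nil))))
noncomputable def S111_125_216_364_1 : EL := (EL.cons 0 (TM.mk (P.cons (P.cons (P.lf 0 4694632907 0) (P.cons (P.lf 100493369 0 0) (P.cons (P.lf 43333862 0 0) (P.lf 0 4814864 0)))) (P.cons (P.cons (P.lf 0 223750370 0) (P.cons (P.lf 16974408 0 0) (P.cons (P.lf 7319555 0 0) (P.lf 0 813271 0)))) (P.cons (P.cons (P.lf 42198359 0 0) (P.cons (P.lf 0 360540 0) (P.cons (P.lf 0 155475 0) (P.lf 17281 0 0)))) (P.cons (P.cons (P.lf 4558060 0 0) (P.cons (P.lf 0 230329 0) (P.cons (P.lf 0 99318 0) P.nil))) (P.cons (P.cons (P.lf 11654 0 0) (P.cons (P.lf 0 14079 0) P.nil)) (P.cons (P.cons (P.lf 0 14519 0) P.nil) P.nil)))))) 41851)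
 (EL.cons 1 (TM.mk (P.cons (P.cons (P.lf 1901242672 0 0) (P.cons (P.lf 0 41194037 0) (P.cons (P.lf 0 17763339 0) (P.lf 1973709 0 0)))) (P.cons (P.cons (P.lf 0 192804602 0) (P.cons (P.lf 3713015 0 0) (P.cons (P.lf 1601092 0 0) (P.lf 0 177896 0)))) (P.cons (P.cons (P.lf 0 37727494 0) (P.cons (P.lf 1763040 0 0) (P.cons (P.lf 760237 0 0) (P.lf 0 84464 0)))) (P.cons (P.cons (P.lf 434094 0 0) (P.cons (P.lf 99608 0 0) (P.cons (P.lf 42951 0 0) P.nil))) (P.cons (P.cons (P.lf 179942 0 0) (P.cons (P.lf 0 4467 0) P.nil)) (P.cons (P.cons (P.lf 5079 0 0) P.nil) P.nil)))))) 17069)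
 (EL.cons 5 (TM.mk (P.cons (P.cons (P.lf 0 378834136 0) (P.cons (P.lf 0 106064388 0) (P.cons (P.lf 0 45736156 0) (P.lf 5081792 0 0)))) (P.cons (P.cons (P.lf 558377599 0 0) (P.cons (P.lf 0 23949672 0) (P.cons (P.lf 0 10327368 0) (P.lf 1147486 0 0)))) (P.cons (P.cons (P.lf 3452816 0 0) (P.cons (P.lf 0 1422668 0) (P.cons (P.lf 0 613470 0) (P.lf 68158 0 0)))) (P.cons (P.cons (P.lf 0 2289045 0) (P.cons (P.lf 45244 0 0) (P.cons (P.lf 19504 0 0) P.nil))) (P.cons (P.cons (P.lf 0 61174 0) (P.cons (P.lf 7062 0 0) P.nil)) (P.cons (P.cons (P.lf 4371 0 0) P.nil) P.nil)))))) 13184)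
 (EL.cons 9 (TM.mk (P.cons (P.cons (P.lf 0 1807091418 0) (P.cons (P.lf 0 62058882 0) (P.cons (P.lf 0 26760486 0) (P.lf 2973384 0 0)))) (P.cons (P.cons (P.lf 422489917 0 0) (P.cons (P.lf 0 15806748 0) (P.cons (P.lf 0 6816048 0) (P.lf 757338 0 0)))) (P.cons (P.cons (P.lf 16285296 0 0) (P.cons (P.lf 0 1368402 0) (P.cons (P.lf 0 590070 0) (P.lf 65562 0 0)))) (P.cons (P.cons (P.lf 0 589771 0) (P.cons (P.lf 0 32334 0) (P.cons (P.lf 0 13944 0) P.nil))) (P.cons (P.cons (P.lf 0 50314 0) (P.cons (P.lf 1812 0 0) P.nil)) (P.cons (P.cons (P.lf 0 693 0) P.nil) P.nil)))))) 4192)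
 (EL.cons 2 (TM.mk (P.cons (P.cons (P.lf 205830559 0 0) (P.cons (P.lf 191750208 0 0) (P.cons (P.lf 0 19679807 0) (P.cons (P.lf 0 4092851 0) (P.lf 341069 0 0))))) (P.cons (P.cons (P.lf 30073992 0 0) (P.cons (P.lf 28016704 0 0) (P.cons (P.lf 0 2875424 0) (P.cons (P.lf 0 598005 0) (P.lf 49831 0 0))))) (P.cons (P.cons (P.lf 440980 0 0) (P.cons (P.lf 410813 0 0) (P.cons (P.lf 0 42159 0) (P.cons (P.lf 0 8766 0) P.nil)))) (P.cons (P.cons (P.lf 0 104343 0) (P.cons (P.lf 0 97205 0) (P.cons (P.lf 9975 0 0) P.nil))) (P.cons (P.cons (P.lf 0 4778 0) (P.cons (P.lf 0 4452 0) P.nil)) (P.cons (P.cons (P.lf 11 0 0) P.nil) P.nil)))))) 7732)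
 (EL.cons 6 (TM.mk (P.cons (P.cons (P.lf 64836315 0 0) (P.cons (P.lf 60401025 0 0) (P.cons (P.lf 0 6199107 0) (P.cons (P.lf 0 1289241 0) (P.lf 107436 0 0))))) (P.cons (P.cons (P.lf 16514178 0 0) (P.cons (P.lf 15384486 0 0) (P.cons (P.lf 0 1578948 0) (P.cons (P.lf 0 328374 0) (P.lf 27363 0 0))))) (P.cons (P.cons (P.lf 1429644 0 0) (P.cons (P.lf 1331847 0 0) (P.cons (P.lf 0 136689 0) (P.cons (P.lf 0 28425 0) P.nil)))) (P.cons (P.cons (P.lf 33783 0 0) (P.cons (P.lf 31470 0 0) (P.cons (P.lf 0 3228 0) P.nil))) (P.cons (P.cons (P.lf 0 1896 0) (P.cons (P.lf 0 1767 0) P.nil)) (P.cons (P.cons (P.lf 0 129 0) P.nil) P.nil)))))) 3978)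
 EL.nil))))))
noncomputable def S111_125_216_364_2 : EL := (EL.cons 0 (TM.mk (P.cons (P.cons (P.lf 2339903563 0 0) (P.cons (P.lf 13892028 0 0) (P.cons (P.lf 3707890 0 0) (P.cons (P.lf 0 2634084 0) (P.cons (P.lf 0 205691 0) (P.cons (P.lf 94314 0 0) P.nil)))))) (P.cons (P.cons (P.lf 0 370461233 0) (P.cons (P.lf 29374392 0 0) (P.cons (P.lf 11649159 0 0) (P.cons (P.lf 0 2284812 0) (P.cons (P.lf 0 91686 0) P.nil))))) (P.cons (P.cons (P.lf 0 80061129 0) (P.cons (P.lf 6075734 0 0) (P.cons (P.lf 2451638 0 0) (P.cons (P.lf 0 436227 0) P.nil)))) (P.cons (P.cons (P.lf 1003309 0 0) (P.cons (P.lf 185586 0 0) (P.cons (P.lf 71043 0 0) P.nil))) (P.cons (P.cons (P.lf 806562 0 0) (P.cons (P.lf 0 54329 0) P.nil)) (P.cons (P.cons (P.lf 31070 0 0) P.nil) P.nil)))))) 406496)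
 (EL.cons 1 (TM.mk (P.cons (P.cons (P.lf 0 949558149 0) (P.cons (P.lf 0 5480934 0) (P.cons (P.lf 0 1431786 0) (P.cons (P.lf 1066075 0 0) (P.cons (P.lf 83961 0 0) (P.cons (P.lf 0 38499 0) P.nil)))))) (P.cons (P.cons (P.lf 309967112 0 0) (P.cons (P.lf 0 12440856 0) (P.cons (P.lf 0 5155271 0) (P.cons (P.lf 776628 0 0) (P.cons (P.lf 18870 0 0) P.nil))))) (P.cons (P.cons (P.lf 6053103 0 0) (P.cons (P.lf 0 234303 0) (P.cons (P.lf 0 116817 0) (P.cons (P.lf 0 2385 0) P.nil)))) (P.cons (P.cons (P.lf 0 5529999 0) (P.cons (P.lf 363229 0 0) (P.cons (P.lf 147253 0 0) P.nil))) (P.cons (P.cons (P.lf 0 199642 0) (P.cons (P.lf 33858 0 0) P.nil)) (P.cons (P.cons (P.lf 27694 0 0) P.nil) P.nil)))))) 174706)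
 (EL.cons 5 (TM.mk (P.cons (P.cons (P.lf 0 257496450 0) (P.cons (P.lf 34517302 0 0) (P.cons (P.lf 16373317 0 0) (P.cons (P.lf 0 369607 0) (P.cons (P.lf 134184 0 0) (P.cons (P.lf 0 61522 0) P.nil)))))) (P.cons (P.cons (P.lf 0 136897158 0) (P.cons (P.lf 0 9619177 0) (P.cons (P.lf 0 3441024 0) (P.cons (P.lf 1070497 0 0) (P.cons (P.lf 63698 0 0) P.nil))))) (P.cons (P.cons (P.lf 49512763 0 0) (P.cons (P.lf 0 3995422 0) (P.cons (P.lf 0 1589203 0) (P.cons (P.lf 306701 0 0) P.nil)))) (P.cons (P.cons (P.lf 2438983 0 0) (P.cons (P.lf 0 326519 0) (P.cons (P.lf 0 129283 0) P.nil))) (P.cons (P.cons (P.lf 0 295794 0) (P.cons (P.lf 9884 0 0) P.nil)) (P.cons (P.cons (P.lf 0 21460 0) P.nil) P.nil)))))) 164091)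
 (EL.cons 9 (TM.mk (P.cons (P.cons (P.lf 506884633 0 0) (P.cons (P.lf 34814722 0 0) (P.cons (P.lf 15610299 0 0) (P.cons (P.lf 0 1152495 0) (P.cons (P.lf 53872 0 0) (P.cons (P.lf 0 24700 0) P.nil)))))) (P.cons (P.cons (P.lf 0 237014734 0) (P.cons (P.lf 727978 0 0) (P.cons (P.lf 618439 0 0) (P.cons (P.lf 227751 0 0) (P.cons (P.lf 27442 0 0) P.nil))))) (P.cons (P.cons (P.lf 18570523 0 0) (P.cons (P.lf 0 1619262 0) (P.cons (P.lf 0 633099 0) (P.cons (P.lf 133765 0 0) P.nil)))) (P.cons (P.cons (P.lf 2466807 0 0) (P.cons (P.lf 0 229887 0) (P.cons (P.lf 0 91791 0) P.nil))) (P.cons (P.cons (P.lf 0 7960 0) (P.cons (P.lf 0 8311 0) P.nil)) (P.cons (P.cons (P.lf 0 9192 0) P.nil) P.nil)))))) 70369)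
 (EL.cons 2 (TM.mk (P.cons (P.cons (P.lf 0 115469915 0) (P.cons (P.lf 0 111536358 0) (P.cons (P.lf 5636137 0 0) (P.cons (P.lf 1272228 0 0) (P.cons (P.lf 227998 0 0) (P.cons (P.lf 9264 0 0) P.nil)))))) (P.cons (P.cons (P.lf 10124988 0 0) (P.cons (P.lf 7842948 0 0) (P.cons (P.lf 0 3134126 0) (P.cons (P.lf 0 611701 0) (P.cons (P.lf 184854 0 0) P.nil))))) (P.cons (P.cons (P.lf 4737656 0 0) (P.cons (P.lf 4170060 0 0) (P.cons (P.lf 0 784828 0) (P.cons (P.lf 0 157072 0) P.nil)))) (P.cons (P.cons (P.lf 230731 0 0) (P.cons (P.lf 199951 0 0) (P.cons (P.lf 0 42491 0) P.nil))) (P.cons (P.cons (P.lf 0 17493 0) (P.cons (P.lf 0 16065 0) P.nil)) (P.cons (P.cons (P.lf 0 1755 0) P.nil) P.nil)))))) 104303)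
 (EL.cons 6 (TM.mk (P.cons (P.cons (P.lf 0 36372846 0) (P.cons (P.lf 0 35133780 0) (P.cons (P.lf 1775370 0 0) (P.cons (P.lf 400746 0 0) (P.cons (P.lf 71814 0 0) (P.cons (P.lf 2916 0 0) P.nil)))))) (P.cons (P.cons (P.lf 0 760560 0) (P.cons (P.lf 0 1344846 0) (P.cons (P.lf 0 794448 0) (P.cons (P.lf 0 149160 0) (P.cons (P.lf 66024 0 0) P.nil))))) (P.cons (P.cons (P.lf 1691730 0 0) (P.cons (P.lf 1439880 0 0) (P.cons (P.lf 0 347256 0) (P.cons (P.lf 0 68778 0) P.nil)))) (P.cons (P.cons (P.lf 240174 0 0) (P.cons (P.lf 208410 0 0) (P.cons (P.lf 0 43854 0) P.nil))) (P.cons (P.cons (P.lf 8682 0 0) (P.cons (P.lf 7224 0 0) P.nil)) (P.cons (P.cons (P.lf 0 534 0) P.nil) P.nil)))))) 51096)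
 EL.nil))))))
noncomputable def S111_125_216_364_3 : EL := (EL.cons 0 (TM.mk (P.cons (P.lf 4722031557 0 0) (P.cons (P.lf 0 223761730 0) (P.cons (P.lf 0 9872342 0) (P.cons (P.lf 111610 0 0) (P.cons (P.lf 16268 0 0) (P.cons (P.lf 381 0 0) P.nil)))))) 224)
 (EL.cons 1 (TM.mk (P.cons (P.lf 1487432810 0 0) (P.cons (P.lf 91043581 0 0) (P.cons (P.lf 0 4753766 0) (P.cons (P.lf 0 282485 0) (P.cons (P.lf 0 2602 0) (P.cons (P.lf 234 0 0) P.nil)))))) 127)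
 (EL.cons 5 (TM.mk (P.cons (P.lf 468539090 0 0) (P.cons (P.lf 79559726 0 0) (P.cons (P.lf 3510166 0 0) (P.cons (P.lf 0 39680 0) (P.cons (P.lf 0 5784 0) (P.cons (P.lf 0 134 0) P.nil)))))) 60)
 EL.nil)))
noncomputable def S111_125_216_364_4 : EL := (EL.cons 0 (TM.mk (P.cons (P.cons (P.lf 0 1324518071 0) (P.cons (P.lf 0 45486414 0) (P.cons (P.lf 0 19614251 0) (P.lf 2179358 0 0)))) (P.cons (P.cons (P.lf 372431026 0 0) (P.cons (P.lf 0 9430192 0) (P.cons (P.lf 0 4066405 0) (P.lf 451821 0 0)))) (P.cons (P.cons (P.lf 31482 0 0) (P.cons (P.lf 0 358873 0) (P.cons (P.lf 0 154749 0) (P.lf 17193 0 0)))) (P.cons (P.cons (P.lf 0 1676627 0) (P.cons (P.lf 46974 0 0) (P.cons (P.lf 20255 0 0) P.nil))) (P.cons (P.cons (P.lf 0 38592 0) (P.cons (P.lf 4116 0 0) P.nil)) (P.cons (P.cons (P.lf 3383 0 0) P.nil) P.nil)))))) 8952)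
 (EL.cons 1 (TM.mk (P.cons (P.cons (P.lf 0 417221191 0) (P.cons (P.lf 0 14328151 0) (P.cons (P.lf 0 6178458 0) (P.lf 686493 0 0)))) (P.cons (P.cons (P.lf 72006956 0 0) (P.cons (P.lf 0 4526465 0) (P.cons (P.lf 0 1951861 0) (P.lf 216871 0 0)))) (P.cons (P.cons (P.lf 11063919 0 0) (P.cons (P.lf 0 493520 0) (P.cons (P.lf 0 212810 0) (P.lf 23643 0 0)))) (P.cons (P.cons (P.lf 0 138534 0) (P.cons (P.lf 0 12418 0) (P.cons (P.lf 0 5355 0) P.nil))) (P.cons (P.cons (P.lf 0 49762 0) (P.cons (P.lf 1687 0 0) P.nil)) (P.cons (P.cons (P.lf 0 1385 0) P.nil) P.nil)))))) 3617)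
 (EL.cons 5 (TM.mk (P.cons (P.cons (P.lf 0 131424044 0) (P.cons (P.lf 0 4513344 0) (P.cons (P.lf 0 1946204 0) (P.lf 216244 0 0)))) (P.cons (P.cons (P.lf 8410050 0 0) (P.cons (P.lf 0 1915956 0) (P.cons (P.lf 0 826182 0) (P.lf 91796 0 0)))) (P.cons (P.cons (P.lf 5417236 0 0) (P.cons (P.lf 0 328534 0) (P.cons (P.lf 0 141666 0) (P.lf 15740 0 0)))) (P.cons (P.cons (P.lf 399542 0 0) (P.cons (P.lf 0 27478 0) (P.cons (P.lf 0 11848 0) P.nil))) (P.cons (P.cons (P.lf 0 3048 0) (P.cons (P.lf 0 858 0) P.nil)) (P.cons (P.cons (P.lf 0 1434 0) P.nil) P.nil)))))) 2404)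
 EL.nil)))
noncomputable def S111_125_216_364_5 : EL := (EL.cons 0 (TM.mk (P.cons (P.cons (P.lf 371524013 0 0) (P.cons (P.lf 25517650 0 0) (P.cons (P.lf 11441657 0 0) (P.cons (P.lf 0 844727 0) (P.cons (P.lf 39485 0 0) (P.cons (P.lf 0 18103 0) P.nil)))))) (P.cons (P.cons (P.lf 0 191326630 0) (P.cons (P.lf 0 675622 0) (P.cons (P.lf 0 88892 0) (P.cons (P.lf 206959 0 0) (P.cons (P.lf 18242 0 0) P.nil))))) (P.cons (P.cons (P.lf 21066714 0 0) (P.cons (P.lf 0 1265480 0) (P.cons (P.lf 0 509433 0) (P.cons (P.lf 91898 0 0) P.nil)))) (P.cons (P.cons (P.lf 1535041 0 0) (P.cons (P.lf 0 112767 0) (P.cons (P.lf 0 45966 0) P.nil))) (P.cons (P.cons (P.lf 0 122795 0) (P.cons (P.lf 4473 0 0) P.nil)) (P.cons (P.cons (P.lf 0 10487 0) P.nil) P.nil)))))) 66924)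
 (EL.cons 1 (TM.mk (P.cons (P.cons (P.lf 117029503 0 0) (P.cons (P.lf 8038020 0 0) (P.cons (P.lf 3604104 0 0) (P.cons (P.lf 0 266086 0) (P.cons (P.lf 12436 0 0) (P.cons (P.lf 0 5701 0) P.nil)))))) (P.cons (P.cons (P.lf 0 47558746 0) (P.cons (P.lf 660071 0 0) (P.cons (P.lf 363386 0 0) (P.cons (P.lf 36296 0 0) (P.cons (P.lf 7096 0 0) P.nil))))) (P.cons (P.cons (P.lf 564088 0 0) (P.cons (P.lf 0 389255 0) (P.cons (P.lf 0 148948 0) (P.cons (P.lf 34951 0 0) P.nil)))) (P.cons (P.cons (P.lf 984633 0 0) (P.cons (P.lf 0 78022 0) (P.cons (P.lf 0 31278 0) P.nil))) (P.cons (P.cons (P.lf 29506 0 0) (P.cons (P.lf 0 4018 0) P.nil)) (P.cons (P.cons (P.lf 0 4753 0) P.nil) P.nil)))))) 25913)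
 (EL.cons 5 (TM.mk (P.cons (P.cons (P.lf 36864116 0 0) (P.cons (P.lf 2531964 0 0) (P.cons (P.lf 1135286 0 0) (P.cons (P.lf 0 83816 0) (P.cons (P.lf 3916 0 0) (P.cons (P.lf 0 1794 0) P.nil)))))) (P.cons (P.cons (P.lf 0 10977664 0) (P.cons (P.lf 482880 0 0) (P.cons (P.lf 237752 0 0) (P.cons (P.lf 2330 0 0) (P.cons (P.lf 2660 0 0) P.nil))))) (P.cons (P.cons (P.lf 0 1300212 0) (P.cons (P.lf 0 89804 0) (P.cons (P.lf 0 29900 0) (P.cons (P.lf 11912 0 0) P.nil)))) (P.cons (P.cons (P.lf 276476 0 0) (P.cons (P.lf 0 36532 0) (P.cons (P.lf 0 14252 0) P.nil))) (P.cons (P.cons (P.lf 41006 0 0) (P.cons (P.lf 0 4360 0) P.nil)) (P.cons (P.cons (P.lf 664 0 0) P.nil) P.nil)))))) 10610)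
 EL.nil)))
noncomputable def S111_125_216_364_6 : EL := (EL.cons 12 (TM.mk (P.lf 8589934592 0 0) 0)
 (EL.cons 3 (TM.mk (P.cons (P.lf 0 3184412906 0) (P.cons (P.lf 75449490 0 0) (P.cons (P.lf 4222650 0 0) (P.cons (P.lf 62415 0 0) (P.cons (P.lf 0 1207 0) (P.cons (P.lf 0 75 0) P.nil)))))) 70)
 (EL.cons 7 (TM.mk (P.cons (P.lf 0 1003085258 0) (P.cons (P.lf 0 85163854 0) (P.cons (P.lf 0 142133 0) (P.cons (P.lf 54543 0 0) (P.cons (P.lf 1571 0 0) (P.cons (P.lf 4 0 0) P.nil)))))) 45)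
 EL.nil)))
noncomputable def S111_125_216_364_7 : EL := (EL.cons 12 (TM.mk (P.cons (P.cons (P.lf 0 2409455224 0) (P.cons (P.lf 0 82745176 0) (P.cons (P.lf 0 35680648 0) (P.lf 3964512 0 0)))) (P.cons (P.cons (P.lf 563319890 0 0) (P.cons (P.lf 0 21075664 0) (P.cons (P.lf 0 9088064 0) (P.lf 1009784 0 0)))) (P.cons (P.cons (P.lf 21713728 0 0) (P.cons (P.lf 0 1824536 0) (P.cons (P.lf 0 786760 0) (P.lf 87416 0 0)))) (P.cons (P.cons (P.lf 0 786362 0) (P.cons (P.lf 0 43112 0) (P.cons (P.lf 0 18592 0) P.nil))) (P.cons (P.cons (P.lf 0 67086 0) (P.cons (P.lf 2416 0 0) P.nil)) (P.cons (P.cons (P.lf 0 924 0) P.nil) P.nil)))))) 5564)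
 (EL.cons 3 (TM.mk (P.cons (P.cons (P.lf 3352891639 0 0) (P.cons (P.lf 0 61349664 0) (P.cons (P.lf 0 26454662 0) (P.lf 2939402 0 0)))) (P.cons (P.cons (P.lf 101969666 0 0) (P.cons (P.lf 0 14172524 0) (P.cons (P.lf 0 6111352 0) (P.lf 679036 0 0)))) (P.cons (P.cons (P.lf 0 7223491 0) (P.cons (P.lf 0 901174 0) (P.cons (P.lf 0 388594 0) (P.lf 43174 0 0)))) (P.cons (P.cons (P.lf 0 1304722 0) (P.cons (P.lf 22008 0 0) (P.cons (P.lf 9488 0 0) P.nil))) (P.cons (P.cons (P.lf 0 40108 0) (P.cons (P.lf 4622 0 0) P.nil)) (P.cons (P.cons (P.lf 1675 0 0) P.nil) P.nil)))))) 17445)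
 (EL.cons 7 (TM.mk (P.cons (P.cons (P.lf 0 2494999472 0) (P.cons (P.lf 113535488 0 0) (P.cons (P.lf 48957783 0 0) (P.lf 0 5439755 0)))) (P.cons (P.cons (P.lf 0 115098597 0) (P.cons (P.lf 15997293 0 0) (P.cons (P.lf 6898213 0 0) (P.lf 0 766468 0)))) (P.cons (P.cons (P.lf 14403117 0 0) (P.cons (P.lf 148592 0 0) (P.cons (P.lf 64075 0 0) (P.lf 0 7120 0)))) (P.cons (P.cons (P.lf 584994 0 0) (P.cons (P.lf 0 57142 0) (P.cons (P.lf 0 24641 0) P.nil))) (P.cons (P.cons (P.lf 0 25570 0) (P.cons (P.lf 0 1690 0) P.nil)) (P.cons (P.cons (P.lf 0 2026 0) P.nil) P.nil)))))) 9687)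
 (EL.cons 10 (TM.mk (P.cons (P.cons (P.lf 0 277613349 0) (P.cons (P.lf 0 258622518 0) (P.cons (P.lf 26543082 0 0) (P.cons (P.lf 5520222 0 0) (P.lf 0 460017 0))))) (P.cons (P.cons (P.lf 0 47139804 0) (P.cons (P.lf 0 43915089 0) (P.cons (P.lf 4507116 0 0) (P.cons (P.lf 937353 0 0) (P.lf 0 78111 0))))) (P.cons (P.cons (P.lf 0 2079801 0) (P.cons (P.lf 0 1937526 0) (P.cons (P.lf 198852 0 0) (P.cons (P.lf 41355 0 0) P.nil)))) (P.cons (P.cons (P.lf 23508 0 0) (P.cons (P.lf 21900 0 0) (P.cons (P.lf 0 2247 0) P.nil))) (P.cons (P.cons (P.lf 3426 0 0) (P.cons (P.lf 3192 0 0) P.nil)) (P.cons (P.cons (P.lf 78 0 0) P.nil) P.nil)))))) 4608)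
 EL.nil))))
noncomputable def S111_125_216_364_8 : EL := (EL.cons 12 (TM.mk (P.cons (P.cons (P.lf 675846178 0 0) (P.cons (P.lf 46419630 0 0) (P.cons (P.lf 20813732 0 0) (P.cons (P.lf 0 1536660 0) (P.cons (P.lf 71830 0 0) (P.cons (P.lf 0 32934 0) P.nil)))))) (P.cons (P.cons (P.lf 0 316019646 0) (P.cons (P.lf 970638 0 0) (P.cons (P.lf 824586 0 0) (P.cons (P.lf 303668 0 0) (P.cons (P.lf 36590 0 0) P.nil))))) (P.cons (P.cons (P.lf 24760698 0 0) (P.cons (P.lf 0 2159016 0) (P.cons (P.lf 0 844132 0) (P.cons (P.lf 178354 0 0) P.nil)))) (P.cons (P.cons (P.lf 3289076 0 0) (P.cons (P.lf 0 306516 0) (P.cons (P.lf 0 122388 0) P.nil))) (P.cons (P.cons (P.lf 0 10614 0) (P.cons (P.lf 0 11082 0) P.nil)) (P.cons (P.cons (P.lf 0 12256 0) P.nil) P.nil)))))) 93796)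
 (EL.cons 3 (TM.mk (P.cons (P.cons (P.lf 0 1630409529 0) (P.cons (P.lf 0 12970231 0) (P.cons (P.lf 0 4115489 0) (P.cons (P.lf 1895595 0 0) (P.cons (P.lf 133141 0 0) (P.cons (P.lf 0 61045 0) P.nil)))))) (P.cons (P.cons (P.lf 259465200 0 0) (P.cons (P.lf 0 18561033 0) (P.cons (P.lf 0 7286112 0) (P.cons (P.lf 1508185 0 0) (P.cons (P.lf 64672 0 0) P.nil))))) (P.cons (P.cons (P.lf 46000111 0 0) (P.cons (P.lf 0 4280710 0) (P.cons (P.lf 0 1704681 0) (P.cons (P.lf 326881 0 0) P.nil)))) (P.cons (P.cons (P.lf 838426 0 0) (P.cons (P.lf 0 302830 0) (P.cons (P.lf 0 117290 0) P.nil))) (P.cons (P.cons (P.lf 0 298790 0) (P.cons (P.lf 10038 0 0) P.nil)) (P.cons (P.cons (P.lf 0 20073 0) P.nil) P.nil)))))) 217934)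
 (EL.cons 7 (TM.mk (P.cons (P.cons (P.lf 1478603850 0 0) (P.cons (P.lf 0 10204518 0) (P.cons (P.lf 0 6494559 0) (P.cons (P.lf 0 1317204 0) (P.cons (P.lf 0 188729 0) (P.cons (P.lf 86531 0 0) P.nil)))))) (P.cons (P.cons (P.lf 0 292872169 0) (P.cons (P.lf 20950827 0 0) (P.cons (P.lf 8224225 0 0) (P.cons (P.lf 0 1702367 0) (P.cons (P.lf 0 72994 0) P.nil))))) (P.cons (P.cons (P.lf 0 36020503 0) (P.cons (P.lf 3694282 0 0) (P.cons (P.lf 1477601 0 0) (P.cons (P.lf 0 276532 0) P.nil)))) (P.cons (P.cons (P.lf 2055864 0 0) (P.cons (P.lf 46149 0 0) (P.cons (P.lf 14343 0 0) P.nil))) (P.cons (P.cons (P.lf 257590 0 0) (P.cons (P.lf 0 23625 0) P.nil)) (P.cons (P.cons (P.lf 0 1143 0) P.nil) P.nil)))))) 143051)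
 (EL.cons 10 (TM.mk (P.cons (P.cons (P.lf 155739702 0 0) (P.cons (P.lf 150434328 0 0) (P.cons (P.lf 0 7601724 0) (P.cons (P.lf 0 1715916 0) (P.cons (P.lf 0 307512 0) (P.cons (P.lf 0 12492 0) P.nil)))))) (P.cons (P.cons (P.lf 0 9966048 0) (P.cons (P.lf 0 7013856 0) (P.cons (P.lf 4047036 0 0) (P.cons (P.lf 784374 0 0) (P.cons (P.lf 0 256608 0) P.nil))))) (P.cons (P.cons (P.lf 0 6419514 0) (P.cons (P.lf 0 5591052 0) (P.cons (P.lf 1144344 0 0) (P.cons (P.lf 228162 0 0) P.nil)))) (P.cons (P.cons (P.lf 0 473460 0) (P.cons (P.lf 0 408510 0) (P.cons (P.lf 89646 0 0) P.nil))) (P.cons (P.cons (P.lf 3612 0 0) (P.cons (P.lf 4380 0 0) P.nil)) (P.cons (P.cons (P.lf 1698 0 0) P.nil) P.nil)))))) 153462)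
 EL.nil))))
noncomputable def S111_125_216_364_9 : EL := (EL.cons 3 (TM.mk (P.cons (P.lf 0 3184412906 0) (P.cons (P.lf 75449490 0 0) (P.cons (P.lf 4222650 0 0) (P.cons (P.lf 62415 0 0) (P.cons (P.lf 0 1207 0) (P.cons (P.lf 0 75 0) P.nil)))))) 70)
 (EL.cons 7 (TM.mk (P.cons (P.lf 0 1003085258 0) (P.cons (P.lf 0 85163854 0) (P.cons (P.lf 0 142133 0) (P.cons (P.lf 54543 0 0) (P.cons (P.lf 1571 0 0) (P.cons (P.lf 4 0 0) P.nil)))))) 45)
 EL.nil))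
noncomputable def S111_125_216_364_10 : EL := (EL.cons 3 (TM.mk (P.cons (P.cons (P.lf 893219875 0 0) (P.cons (P.lf 30674832 0 0) (P.cons (P.lf 13227331 0 0) (P.lf 0 1469701 0)))) (P.cons (P.cons (P.lf 0 229994218 0) (P.cons (P.lf 7086262 0 0) (P.cons (P.lf 3055676 0 0) (P.lf 0 339518 0)))) (P.cons (P.cons (P.lf 0 4286128 0) (P.cons (P.lf 450587 0 0) (P.cons (P.lf 194297 0 0) (P.lf 0 21587 0)))) (P.cons (P.cons (P.lf 741647 0 0) (P.cons (P.lf 0 11004 0) (P.cons (P.lf 0 4744 0) P.nil))) (P.cons (P.cons (P.lf 33068 0 0) (P.cons (P.lf 0 2311 0) P.nil)) (P.cons (P.cons (P.lf 0 533 0) P.nil) P.nil)))))) 4274)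
 (EL.cons 7 (TM.mk (P.cons (P.cons (P.lf 281362912 0 0) (P.cons (P.lf 9662525 0 0) (P.cons (P.lf 4166589 0 0) (P.lf 0 462953 0)))) (P.cons (P.cons (P.lf 0 41893146 0) (P.cons (P.lf 3281466 0 0) (P.cons (P.lf 1415005 0 0) (P.lf 0 157222 0)))) (P.cons (P.cons (P.lf 0 8080707 0) (P.cons (P.lf 423380 0 0) (P.cons (P.lf 182566 0 0) (P.lf 0 20284 0)))) (P.cons (P.cons (P.lf 0 148071 0) (P.cons (P.lf 22946 0 0) (P.cons (P.lf 9895 0 0) P.nil))) (P.cons (P.cons (P.lf 18407 0 0) (P.cons (P.lf 26 0 0) P.nil)) (P.cons (P.cons (P.lf 1025 0 0) P.nil) P.nil)))))) 1988)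
 EL.nil))
noncomputable def S111_125_216_364_11 : EL := (EL.cons 3 (TM.mk (P.cons (P.cons (P.lf 0 250545945 0) (P.cons (P.lf 0 17208427 0) (P.cons (P.lf 0 7715951 0) (P.cons (P.lf 569661 0 0) (P.cons (P.lf 0 26627 0) (P.cons (P.lf 12209 0 0) P.nil)))))) (P.cons (P.cons (P.lf 123089328 0 0) (P.cons (P.lf 47895 0 0) (P.cons (P.lf 0 122868 0) (P.cons (P.lf 0 126071 0) (P.cons (P.lf 0 12932 0) P.nil))))) (P.cons (P.cons (P.lf 0 11622665 0) (P.cons (P.lf 831722 0 0) (P.cons (P.lf 330405 0 0) (P.cons (P.lf 0 64205 0) P.nil)))) (P.cons (P.cons (P.lf 0 1152260 0) (P.cons (P.lf 95480 0 0) (P.cons (P.lf 38512 0 0) P.nil))) (P.cons (P.cons (P.lf 42604 0 0) (P.cons (P.lf 354 0 0) P.nil)) (P.cons (P.cons (P.lf 6285 0 0) P.nil) P.nil)))))) 40180)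
 (EL.cons 7 (TM.mk (P.cons (P.cons (P.lf 0 78921594 0) (P.cons (P.lf 0 5420628 0) (P.cons (P.lf 0 2430513 0) (P.cons (P.lf 179442 0 0) (P.cons (P.lf 0 8387 0) (P.cons (P.lf 3845 0 0) P.nil)))))) (P.cons (P.cons (P.lf 30202439 0 0) (P.cons (P.lf 0 573567 0) (P.cons (P.lf 0 302645 0) (P.cons (P.lf 0 20225 0) (P.cons (P.lf 0 4984 0) P.nil))))) (P.cons (P.cons (P.lf 230537 0 0) (P.cons (P.lf 241726 0 0) (P.cons (P.lf 90053 0 0) (P.cons (P.lf 0 23812 0) P.nil)))) (P.cons (P.cons (P.lf 0 620046 0) (P.cons (P.lf 57477 0 0) (P.cons (P.lf 22779 0 0) P.nil))) (P.cons (P.cons (P.lf 0 33662 0) (P.cons (P.lf 4383 0 0) P.nil)) (P.cons (P.cons (P.lf 1581 0 0) P.nil) P.nil)))))) 15919)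
 EL.nil))
noncomputable def S111_125_216_364_12 : EL := (EL.cons 4 (TM.mk (P.cons (P.lf 3184412906 0 0) (P.cons (P.lf 0 75449490 0) (P.cons (P.lf 0 4222650 0) (P.cons (P.lf 0 62415 0) (P.cons (P.lf 1207 0 0) (P.cons (P.lf 75 0 0) P.nil)))))) 70)
 (EL.cons 8 (TM.mk (P.cons (P.lf 1003085258 0 0) (P.cons (P.lf 85163854 0 0) (P.cons (P.lf 142133 0 0) (P.cons (P.lf 0 54543 0) (P.cons (P.lf 0 1571 0) (P.cons (P.lf 0 4 0) P.nil)))))) 45)
 EL.nil))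
noncomputable def S111_125_216_364_13 : EL := (EL.cons 4 (TM.mk (P.cons (P.cons (P.lf 0 893219875 0) (P.cons (P.lf 0 30674832 0) (P.cons (P.lf 0 13227331 0) (P.lf 1469701 0 0)))) (P.cons (P.cons (P.lf 229994218 0 0) (P.cons (P.lf 0 7086262 0) (P.cons (P.lf 0 3055676 0) (P.lf 339518 0 0)))) (P.cons (P.cons (P.lf 4286128 0 0) (P.cons (P.lf 0 450587 0) (P.cons (P.lf 0 194297 0) (P.lf 21587 0 0)))) (P.cons (P.cons (P.lf 0 741647 0) (P.cons (P.lf 11004 0 0) (P.cons (P.lf 4744 0 0) P.nil))) (P.cons (P.cons (P.lf 0 33068 0) (P.cons (P.lf 2311 0 0) P.nil)) (P.cons (P.cons (P.lf 533 0 0) P.nil) P.nil)))))) 4274)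
 (EL.cons 8 (TM.mk (P.cons (P.cons (P.lf 0 281362912 0) (P.cons (P.lf 0 9662525 0) (P.cons (P.lf 0 4166589 0) (P.lf 462953 0 0)))) (P.cons (P.cons (P.lf 41893146 0 0) (P.cons (P.lf 0 3281466 0) (P.cons (P.lf 0 1415005 0) (P.lf 157222 0 0)))) (P.cons (P.cons (P.lf 8080707 0 0) (P.cons (P.lf 0 423380 0) (P.cons (P.lf 0 182566 0) (P.lf 20284 0 0)))) (P.cons (P.cons (P.lf 148071 0 0) (P.cons (P.lf 0 22946 0) (P.cons (P.lf 0 9895 0) P.nil))) (P.cons (P.cons (P.lf 0 18407 0) (P.cons (P.lf 0 26 0) P.nil)) (P.cons (P.cons (P.lf 0 1025 0) P.nil) P.nil)))))) 1988)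
 EL.nil))
noncomputable def S111_125_216_364_14 : EL := (EL.cons 4 (TM.mk (P.cons (P.cons (P.lf 250545945 0 0) (P.cons (P.lf 17208427 0 0) (P.cons (P.lf 7715951 0 0) (P.cons (P.lf 0 569661 0) (P.cons (P.lf 26627 0 0) (P.cons (P.lf 0 12209 0) P.nil)))))) (P.cons (P.cons (P.lf 0 123089328 0) (P.cons (P.lf 0 47895 0) (P.cons (P.lf 122868 0 0) (P.cons (P.lf 126071 0 0) (P.cons (P.lf 12932 0 0) P.nil))))) (P.cons (P.cons (P.lf 11622665 0 0) (P.cons (P.lf 0 831722 0) (P.cons (P.lf 0 330405 0) (P.cons (P.lf 64205 0 0) P.nil)))) (P.cons (P.cons (P.lf 1152260 0 0) (P.cons (P.lf 0 95480 0) (P.cons (P.lf 0 38512 0) P.nil))) (P.cons (P.cons (P.lf 0 42604 0) (P.cons (P.lf 0 354 0) P.nil)) (P.cons (P.cons (P.lf 0 6285 0) P.nil) P.nil)))))) 40180)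
 (EL.cons 8 (TM.mk (P.cons (P.cons (P.lf 78921594 0 0) (P.cons (P.lf 5420628 0 0) (P.cons (P.lf 2430513 0 0) (P.cons (P.lf 0 179442 0) (P.cons (P.lf 8387 0 0) (P.cons (P.lf 0 3845 0) P.nil)))))) (P.cons (P.cons (P.lf 0 30202439 0) (P.cons (P.lf 573567 0 0) (P.cons (P.lf 302645 0 0) (P.cons (P.lf 20225 0 0) (P.cons (P.lf 4984 0 0) P.nil))))) (P.cons (P.cons (P.lf 0 230537 0) (P.cons (P.lf 0 241726 0) (P.cons (P.lf 0 90053 0) (P.cons (P.lf 23812 0 0) P.nil)))) (P.cons (P.cons (P.lf 620046 0 0) (P.cons (P.lf 0 57477 0) (P.cons (P.lf 0 22779 0) P.nil))) (P.cons (P.cons (P.lf 33662 0 0) (P.cons (P.lf 0 4383 0) P.nil)) (P.cons (P.cons (P.lf 0 1581 0) P.nil) P.nil)))))) 15919)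
 EL.nil))
noncomputable def S111_125_216_364_15 : EL := (EL.cons 4 (TM.mk (P.cons (P.lf 0 2518416830 0) (P.cons (P.lf 119339589 0 0) (P.cons (P.lf 5265249 0 0) (P.cons (P.lf 0 59525 0) (P.cons (P.lf 0 8676 0) (P.cons (P.lf 0 203 0) P.nil)))))) 123)
 (EL.cons 8 (TM.mk (P.cons (P.lf 0 793297499 0) (P.cons (P.lf 0 48556577 0) (P.cons (P.lf 2535342 0 0) (P.cons (P.lf 150659 0 0) (P.cons (P.lf 1388 0 0) (P.cons (P.lf 0 125 0) P.nil)))))) 64)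
 EL.nil))
noncomputable def S111_125_216_364_16 : EL := (EL.cons 4 (TM.mk (P.cons (P.cons (P.lf 706409638 0 0) (P.cons (P.lf 24259421 0 0) (P.cons (P.lf 10460934 0 0) (P.lf 0 1162324 0)))) (P.cons (P.cons (P.lf 0 198629880 0) (P.cons (P.lf 5029436 0 0) (P.cons (P.lf 2168749 0 0) (P.lf 0 240971 0)))) (P.cons (P.cons (P.lf 0 16790 0) (P.cons (P.lf 191399 0 0) (P.cons (P.lf 82532 0 0) (P.lf 0 9169 0)))) (P.cons (P.cons (P.lf 894201 0 0) (P.cons (P.lf 0 25052 0) (P.cons (P.lf 0 10802 0) P.nil))) (P.cons (P.cons (P.lf 20582 0 0) (P.cons (P.lf 0 2195 0) P.nil)) (P.cons (P.cons (P.lf 0 1804 0) P.nil) P.nil)))))) 4783)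
 (EL.cons 8 (TM.mk (P.cons (P.cons (P.lf 222517969 0 0) (P.cons (P.lf 7641681 0 0) (P.cons (P.lf 3295178 0 0) (P.lf 0 366130 0)))) (P.cons (P.cons (P.lf 0 38403710 0) (P.cons (P.lf 2414115 0 0) (P.cons (P.lf 1040993 0 0) (P.lf 0 115665 0)))) (P.cons (P.cons (P.lf 0 5900757 0) (P.cons (P.lf 263211 0 0) (P.cons (P.lf 113499 0 0) (P.lf 0 12610 0)))) (P.cons (P.cons (P.lf 73885 0 0) (P.cons (P.lf 6623 0 0) (P.cons (P.lf 2856 0 0) P.nil))) (P.cons (P.cons (P.lf 26540 0 0) (P.cons (P.lf 0 900 0) P.nil)) (P.cons (P.cons (P.lf 739 0 0) P.nil) P.nil)))))) 1919)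
 EL.nil))
noncomputable def S111_125_216_364_17 : EL := (EL.cons 4 (TM.mk (P.cons (P.cons (P.lf 0 198146140 0) (P.cons (P.lf 0 13609413 0) (P.cons (P.lf 0 6102217 0) (P.cons (P.lf 450521 0 0) (P.cons (P.lf 0 21059 0) (P.cons (P.lf 9655 0 0) P.nil)))))) (P.cons (P.cons (P.lf 102040869 0 0) (P.cons (P.lf 360331 0 0) (P.cons (P.lf 47409 0 0) (P.cons (P.lf 0 110378 0) (P.cons (P.lf 0 9729 0) P.nil))))) (P.cons (P.cons (P.lf 0 11235581 0) (P.cons (P.lf 674923 0 0) (P.cons (P.lf 271697 0 0) (P.cons (P.lf 0 49012 0) P.nil)))) (P.cons (P.cons (P.lf 0 818688 0) (P.cons (P.lf 60142 0 0) (P.cons (P.lf 24515 0 0) P.nil))) (P.cons (P.cons (P.lf 65490 0 0) (P.cons (P.lf 0 2385 0) P.nil)) (P.cons (P.cons (P.lf 5593 0 0) P.nil) P.nil)))))) 35703)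
 (EL.cons 8 (TM.mk (P.cons (P.cons (P.lf 0 62415735 0) (P.cons (P.lf 0 4286944 0) (P.cons (P.lf 0 1922189 0) (P.cons (P.lf 141913 0 0) (P.cons (P.lf 0 6633 0) (P.cons (P.lf 3041 0 0) P.nil)))))) (P.cons (P.cons (P.lf 25364665 0 0) (P.cons (P.lf 0 352038 0) (P.cons (P.lf 0 193806 0) (P.cons (P.lf 0 19358 0) (P.cons (P.lf 0 3785 0) P.nil))))) (P.cons (P.cons (P.lf 0 300847 0) (P.cons (P.lf 207603 0 0) (P.cons (P.lf 79439 0 0) (P.cons (P.lf 0 18641 0) P.nil)))) (P.cons (P.cons (P.lf 0 525138 0) (P.cons (P.lf 41612 0 0) (P.cons (P.lf 16682 0 0) P.nil))) (P.cons (P.cons (P.lf 0 15737 0) (P.cons (P.lf 2143 0 0) P.nil)) (P.cons (P.cons (P.lf 2535 0 0) P.nil) P.nil)))))) 13809)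
 EL.nil))
noncomputable def S111_125_216_364_18 : EL := (EL.cons 4 (TM.mk (P.cons (P.lf 1991708838 0 0) (P.cons (P.lf 0 141570914 0) (P.cons (P.lf 0 4568946 0) (P.cons (P.lf 231851 0 0) (P.cons (P.lf 13873 0 0) (P.cons (P.lf 28 0 0) P.nil)))))) 167)
 (EL.cons 8 (TM.mk (P.cons (P.lf 627385277 0 0) (P.cons (P.lf 23536458 0 0) (P.cons (P.lf 0 3746887 0) (P.cons (P.lf 0 134861 0) (P.cons (P.lf 3868 0 0) (P.cons (P.lf 351 0 0) P.nil)))))) 75)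
 EL.nil))
noncomputable def S111_125_216_364_19 : EL := (EL.cons 4 (TM.mk (P.cons (P.cons (P.lf 0 558669360 0) (P.cons (P.lf 0 19185745 0) (P.cons (P.lf 0 8273108 0) (P.lf 919232 0 0)))) (P.cons (P.cons (P.lf 170324693 0 0) (P.cons (P.lf 0 3522991 0) (P.cons (P.lf 0 1519154 0) (P.lf 168794 0 0)))) (P.cons (P.cons (P.lf 0 2967846 0) (P.cons (P.lf 0 31685 0) (P.cons (P.lf 0 13663 0) (P.lf 1516 0 0)))) (P.cons (P.cons (P.lf 0 904855 0) (P.cons (P.lf 29050 0 0) (P.cons (P.lf 12525 0 0) P.nil))) (P.cons (P.cons (P.lf 0 2830 0) (P.cons (P.lf 1538 0 0) P.nil)) (P.cons (P.cons (P.lf 2797 0 0) P.nil) P.nil)))))) 4989)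
 (EL.cons 8 (TM.mk (P.cons (P.cons (P.lf 0 175980005 0) (P.cons (P.lf 0 6043480 0) (P.cons (P.lf 0 2606016 0) (P.lf 289557 0 0)))) (P.cons (P.cons (P.lf 34541422 0 0) (P.cons (P.lf 0 1766030 0) (P.cons (P.lf 0 761532 0) (P.lf 84614 0 0)))) (P.cons (P.cons (P.lf 4180402 0 0) (P.cons (P.lf 0 154913 0) (P.cons (P.lf 0 66800 0) (P.lf 7422 0 0)))) (P.cons (P.cons (P.lf 0 205826 0) (P.cons (P.lf 2343 0 0) (P.cons (P.lf 1010 0 0) P.nil))) (P.cons (P.cons (P.lf 0 26454 0) (P.cons (P.lf 1147 0 0) P.nil)) (P.cons (P.cons (P.lf 0 94 0) P.nil) P.nil)))))) 1911)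
 EL.nil))
noncomputable def S111_125_216_364_20 : EL := (EL.cons 4 (TM.mk (P.cons (P.cons (P.lf 156705360 0 0) (P.cons (P.lf 10763106 0 0) (P.cons (P.lf 4825984 0 0) (P.cons (P.lf 0 356297 0) (P.cons (P.lf 16654 0 0) (P.cons (P.lf 0 7635 0) P.nil)))))) (P.cons (P.cons (P.lf 0 84412665 0) (P.cons (P.lf 0 539985 0) (P.cons (P.lf 0 151838 0) (P.cons (P.lf 95735 0 0) (P.cons (P.lf 7299 0 0) P.nil))))) (P.cons (P.cons (P.lf 10589997 0 0) (P.cons (P.lf 0 541288 0) (P.cons (P.lf 0 220385 0) (P.cons (P.lf 37166 0 0) P.nil)))) (P.cons (P.cons (P.lf 540871 0 0) (P.cons (P.lf 0 34750 0) (P.cons (P.lf 0 14341 0) P.nil))) (P.cons (P.cons (P.lf 0 77276 0) (P.cons (P.lf 3731 0 0) P.nil)) (P.cons (P.cons (P.lf 0 4255 0) P.nil) P.nil)))))) 31278)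
 (EL.cons 8 (TM.mk (P.cons (P.cons (P.lf 49361952 0 0) (P.cons (P.lf 3390362 0 0) (P.cons (P.lf 1520177 0 0) (P.cons (P.lf 0 112233 0) (P.cons (P.lf 5246 0 0) (P.cons (P.lf 0 2405 0) P.nil)))))) (P.cons (P.cons (P.lf 0 21229387 0) (P.cons (P.lf 198082 0 0) (P.cons (P.lf 117255 0 0) (P.cons (P.lf 17968 0 0) (P.cons (P.lf 2869 0 0) P.nil))))) (P.cons (P.cons (P.lf 647757 0 0) (P.cons (P.lf 0 175276 0) (P.cons (P.lf 0 68472 0) (P.cons (P.lf 14528 0 0) P.nil)))) (P.cons (P.cons (P.lf 435304 0 0) (P.cons (P.lf 0 29454 0) (P.cons (P.lf 0 11938 0) P.nil))) (P.cons (P.cons (P.lf 2702 0 0) (P.cons (P.lf 0 701 0) P.nil)) (P.cons (P.cons (P.lf 0 2862 0) P.nil) P.nil)))))) 11870)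
 EL.nil))
noncomputable def S111_125_216_364_21 : EL := (EL.cons 4 (TM.mk (P.cons (P.cons (P.lf 0 2459671764 0) (P.cons (P.lf 92024496 0 0) (P.cons (P.lf 39681993 0 0) (P.lf 0 4409103 0)))) (P.cons (P.cons (P.lf 0 331963884 0) (P.cons (P.lf 21258786 0 0) (P.cons (P.lf 9167028 0 0) (P.lf 0 1018554 0)))) (P.cons (P.cons (P.lf 2937363 0 0) (P.cons (P.lf 1351761 0 0) (P.cons (P.lf 582891 0 0) (P.lf 0 64761 0)))) (P.cons (P.cons (P.lf 2046369 0 0) (P.cons (P.lf 0 33012 0) (P.cons (P.lf 0 14232 0) P.nil))) (P.cons (P.cons (P.lf 73176 0 0) (P.cons (P.lf 0 6933 0) P.nil)) (P.cons (P.cons (P.lf 0 2208 0) P.nil) P.nil)))))) 13152)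
 (EL.cons 8 (TM.mk (P.cons (P.cons (P.lf 2776362384 0 0) (P.cons (P.lf 0 103872963 0) (P.cons (P.lf 0 44791194 0) (P.lf 4976802 0 0)))) (P.cons (P.cons (P.lf 73205451 0 0) (P.cons (P.lf 0 12715827 0) (P.cons (P.lf 0 5483208 0) (P.lf 609246 0 0)))) (P.cons (P.cons (P.lf 0 22483824 0) (P.cons (P.lf 274788 0 0) (P.cons (P.lf 118491 0 0) (P.lf 0 13164 0)))) (P.cons (P.cons (P.lf 0 733065 0) (P.cons (P.lf 80088 0 0) (P.cons (P.lf 34536 0 0) P.nil))) (P.cons (P.cons (P.lf 43977 0 0) (P.cons (P.lf 1716 0 0) P.nil)) (P.cons (P.cons (P.lf 3051 0 0) P.nil) P.nil)))))) 7680)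
 (EL.cons 11 (TM.mk (P.cons (P.cons (P.lf 277613349 0 0) (P.cons (P.lf 258622518 0 0) (P.cons (P.lf 0 26543082 0) (P.cons (P.lf 0 5520222 0) (P.lf 460017 0 0))))) (P.cons (P.cons (P.lf 47139804 0 0) (P.cons (P.lf 43915089 0 0) (P.cons (P.lf 0 4507116 0) (P.cons (P.lf 0 937353 0) (P.lf 78111 0 0))))) (P.cons (P.cons (P.lf 2079801 0 0) (P.cons (P.lf 1937526 0 0) (P.cons (P.lf 0 198852 0) (P.cons (P.lf 0 41355 0) P.nil)))) (P.cons (P.cons (P.lf 0 23508 0) (P.cons (P.lf 0 21900 0) (P.cons (P.lf 2247 0 0) P.nil))) (P.cons (P.cons (P.lf 0 3426 0) (P.cons (P.lf 0 3192 0) P.nil)) (P.cons (P.cons (P.lf 0 78 0) P.nil) P.nil)))))) 4608)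
 EL.nil)))
noncomputable def S111_125_216_364_22 : EL := (EL.cons 4 (TM.mk (P.cons (P.cons (P.lf 689931792 0 0) (P.cons (P.lf 0 2119098 0) (P.cons (P.lf 0 1800231 0) (P.cons (P.lf 0 662967 0) (P.cons (P.lf 0 79884 0) (P.cons (P.lf 36627 0 0) P.nil)))))) (P.cons (P.cons (P.lf 0 68187936 0) (P.cons (P.lf 9304464 0 0) (P.cons (P.lf 3581622 0 0) (P.cons (P.lf 0 817128 0) (P.cons (P.lf 0 38802 0) P.nil))))) (P.cons (P.cons (P.lf 0 28811388 0) (P.cons (P.lf 2556216 0 0) (P.cons (P.lf 1017543 0 0) (P.cons (P.lf 0 195543 0) P.nil)))) (P.cons (P.cons (P.lf 0 995343 0) (P.cons (P.lf 199155 0 0) (P.cons (P.lf 77901 0 0) P.nil))) (P.cons (P.cons (P.lf 170697 0 0) (P.cons (P.lf 0 4842 0) P.nil)) (P.cons (P.cons (P.lf 13179 0 0) P.nil) P.nil)))))) 88866)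
 (EL.cons 8 (TM.mk (P.cons (P.cons (P.lf 0 778762722 0) (P.cons (P.lf 2391945 0 0) (P.cons (P.lf 2032023 0 0) (P.cons (P.lf 748323 0 0) (P.cons (P.lf 90171 0 0) (P.cons (P.lf 0 41343 0) P.nil)))))) (P.cons (P.cons (P.lf 161537304 0 0) (P.cons (P.lf 0 10762197 0) (P.cons (P.lf 0 4263435 0) (P.cons (P.lf 841071 0 0) (P.cons (P.lf 34005 0 0) P.nil))))) (P.cons (P.cons (P.lf 18125520 0 0) (P.cons (P.lf 0 1726278 0) (P.cons (P.lf 0 693774 0) (P.cons (P.lf 126360 0 0) P.nil)))) (P.cons (P.cons (P.lf 0 1337955 0) (P.cons (P.lf 5664 0 0) (P.cons (P.lf 4218 0 0) P.nil))) (P.cons (P.cons (P.lf 0 145626 0) (P.cons (P.lf 14004 0 0) P.nil)) (P.cons (P.cons (P.lf 1362 0 0) P.nil) P.nil)))))) 63555)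
 (EL.cons 11 (TM.mk (P.cons (P.cons (P.lf 0 77869851 0) (P.cons (P.lf 0 75217164 0) (P.cons (P.lf 3800862 0 0) (P.cons (P.lf 857958 0 0) (P.cons (P.lf 153756 0 0) (P.cons (P.lf 6246 0 0) P.nil)))))) (P.cons (P.cons (P.lf 4983024 0 0) (P.cons (P.lf 3506928 0 0) (P.cons (P.lf 0 2023518 0) (P.cons (P.lf 0 392187 0) (P.cons (P.lf 128304 0 0) P.nil))))) (P.cons (P.cons (P.lf 3209757 0 0) (P.cons (P.lf 2795526 0 0) (P.cons (P.lf 0 572172 0) (P.cons (P.lf 0 114081 0) P.nil)))) (P.cons (P.cons (P.lf 236730 0 0) (P.cons (P.lf 204255 0 0) (P.cons (P.lf 0 44823 0) P.nil))) (P.cons (P.cons (P.lf 0 1806 0) (P.cons (P.lf 0 2190 0) P.nil)) (P.cons (P.cons (P.lf 0 849 0) P.nil) P.nil)))))) 76731)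
 EL.nil)))
noncomputable def S111_125_216_364_23 : EL := (EL.cons 4 (TM.mk (P.cons (P.cons (P.lf 1945249863 0 0) (P.cons (P.lf 0 72778260 0) (P.cons (P.lf 0 31382799 0) (P.lf 3486972 0 0)))) (P.cons (P.cons (P.lf 216446592 0 0) (P.cons (P.lf 0 15088305 0) (P.cons (P.lf 0 6506247 0) (P.lf 722910 0 0)))) (P.cons (P.cons (P.lf 0 11122875 0) (P.cons (P.lf 0 574194 0) (P.cons (P.lf 0 247596 0) (P.lf 27507 0 0)))) (P.cons (P.cons (P.lf 0 1949604 0) (P.cons (P.lf 75156 0 0) (P.cons (P.lf 32406 0 0) P.nil))) (P.cons (P.cons (P.lf 0 20853 0) (P.cons (P.lf 6582 0 0) P.nil)) (P.cons (P.cons (P.lf 5454 0 0) P.nil) P.nil)))))) 14625)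
 (EL.cons 8 (TM.mk (P.cons (P.cons (P.lf 0 2195707014 0) (P.cons (P.lf 82148709 0 0) (P.cons (P.lf 35423451 0 0) (P.lf 0 3935940 0)))) (P.cons (P.cons (P.lf 0 5871369 0) (P.cons (P.lf 8110026 0 0) (P.cons (P.lf 3497133 0 0) (P.lf 0 388569 0)))) (P.cons (P.cons (P.lf 22064817 0 0) (P.cons (P.lf 0 564519 0) (P.cons (P.lf 0 243426 0) (P.lf 27045 0 0)))) (P.cons (P.cons (P.lf 278253 0 0) (P.cons (P.lf 0 73134 0) (P.cons (P.lf 0 31536 0) P.nil))) (P.cons (P.cons (P.lf 0 71790 0) (P.cons (P.lf 264 0 0) P.nil)) (P.cons (P.cons (P.lf 0 2778 0) P.nil) P.nil)))))) 8487)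
 (EL.cons 11 (TM.mk (P.cons (P.cons (P.lf 0 219552597 0) (P.cons (P.lf 0 204533556 0) (P.cons (P.lf 20991795 0 0) (P.cons (P.lf 4365708 0 0) (P.lf 0 363807 0))))) (P.cons (P.cons (P.lf 0 32078925 0) (P.cons (P.lf 0 29884485 0) (P.cons (P.lf 3067119 0 0) (P.cons (P.lf 637872 0 0) (P.lf 0 53154 0))))) (P.cons (P.cons (P.lf 0 470379 0) (P.cons (P.lf 0 438201 0) (P.cons (P.lf 44970 0 0) (P.cons (P.lf 9351 0 0) P.nil)))) (P.cons (P.cons (P.lf 111300 0 0) (P.cons (P.lf 103686 0 0) (P.cons (P.lf 0 10641 0) P.nil))) (P.cons (P.cons (P.lf 5097 0 0) (P.cons (P.lf 4749 0 0) P.nil)) (P.cons (P.cons (P.lf 0 12 0) P.nil) P.nil)))))) 8226)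
 EL.nil)))
noncomputable def S111_125_216_364_24 : EL := (EL.cons 4 (TM.mk (P.cons (P.cons (P.lf 0 545637732 0) (P.cons (P.lf 1675905 0 0) (P.cons (P.lf 1423725 0 0) (P.cons (P.lf 524310 0 0) (P.cons (P.lf 63177 0 0) (P.cons (P.lf 0 28968 0) P.nil)))))) (P.cons (P.cons (P.lf 66854940 0 0) (P.cons (P.lf 0 7398213 0) (P.cons (P.lf 0 2866284 0) (P.cons (P.lf 633807 0 0) (P.cons (P.lf 29190 0 0) P.nil))))) (P.cons (P.cons (P.lf 22231527 0 0) (P.cons (P.lf 0 1849476 0) (P.cons (P.lf 0 739506 0) (P.cons (P.lf 138639 0 0) P.nil)))) (P.cons (P.cons (P.lf 186489 0 0) (P.cons (P.lf 0 99879 0) (P.cons (P.lf 0 38814 0) P.nil))) (P.cons (P.cons (P.lf 0 185124 0) (P.cons (P.lf 10386 0 0) P.nil)) (P.cons (P.cons (P.lf 0 8706 0) P.nil) P.nil)))))) 65931)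
 (EL.cons 8 (TM.mk (P.cons (P.cons (P.lf 615890337 0 0) (P.cons (P.lf 0 1891686 0) (P.cons (P.lf 0 1607040 0) (P.cons (P.lf 0 591816 0) (P.cons (P.lf 0 71310 0) (P.cons (P.lf 32697 0 0) P.nil)))))) (P.cons (P.cons (P.lf 0 142345509 0) (P.cons (P.lf 8556183 0 0) (P.cons (P.lf 3409845 0 0) (P.cons (P.lf 0 651144 0) (P.cons (P.lf 0 25203 0) P.nil))))) (P.cons (P.cons (P.lf 0 12124497 0) (P.cons (P.lf 1166085 0 0) (P.cons (P.lf 470919 0 0) (P.cons (P.lf 0 83388 0) P.nil)))) (P.cons (P.cons (P.lf 1555104 0 0) (P.cons (P.lf 0 48075 0) (P.cons (P.lf 0 20775 0) P.nil))) (P.cons (P.cons (P.lf 111846 0 0) (P.cons (P.lf 0 12945 0) P.nil)) (P.cons (P.cons (P.lf 0 4962 0) P.nil) P.nil)))))) 47241)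
 (EL.cons 11 (TM.mk (P.cons (P.cons (P.lf 61583955 0 0) (P.cons (P.lf 59486058 0 0) (P.cons (P.lf 0 3005940 0) (P.cons (P.lf 0 678522 0) (P.cons (P.lf 0 121599 0) (P.cons (P.lf 0 4941 0) P.nil)))))) (P.cons (P.cons (P.lf 0 5399994 0) (P.cons (P.lf 0 4182906 0) (P.cons (P.lf 1671534 0 0) (P.cons (P.lf 326241 0 0) (P.cons (P.lf 0 98589 0) P.nil))))) (P.cons (P.cons (P.lf 0 2526750 0) (P.cons (P.lf 0 2224032 0) (P.cons (P.lf 418575 0 0) (P.cons (P.lf 83772 0 0) P.nil)))) (P.cons (P.cons (P.lf 0 123057 0) (P.cons (P.lf 0 106641 0) (P.cons (P.lf 22662 0 0) P.nil))) (P.cons (P.cons (P.lf 9330 0 0) (P.cons (P.lf 8568 0 0) P.nil)) (P.cons (P.cons (P.lf 936 0 0) P.nil) P.nil)))))) 55617)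
 EL.nil)))
noncomputable def S111_125_216_364_25 : EL := (EL.cons 4 (TM.mk (P.cons (P.cons (P.lf 0 1538415441 0) (P.cons (P.lf 57557235 0 0) (P.cons (P.lf 24819324 0 0) (P.lf 0 2757696 0)))) (P.cons (P.cons (P.lf 0 134728155 0) (P.cons (P.lf 10568976 0 0) (P.cons (P.lf 4557459 0 0) (P.lf 0 506379 0)))) (P.cons (P.cons (P.lf 14892399 0 0) (P.cons (P.lf 95055 0 0) (P.cons (P.lf 40986 0 0) (P.lf 0 4551 0)))) (P.cons (P.cons (P.lf 1590579 0 0) (P.cons (P.lf 0 87147 0) (P.cons (P.lf 0 37575 0) P.nil))) (P.cons (P.cons (P.lf 0 28929 0) (P.cons (P.lf 0 4611 0) P.nil)) (P.cons (P.cons (P.lf 0 7020 0) P.nil) P.nil)))))) 14217)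
 (EL.cons 8 (TM.mk (P.cons (P.cons (P.lf 1736491359 0 0) (P.cons (P.lf 0 64967922 0) (P.cons (P.lf 0 28014900 0) (P.lf 3112767 0 0)))) (P.cons (P.cons (P.lf 0 36499923 0) (P.cons (P.lf 0 4874565 0) (P.cons (P.lf 0 2101965 0) (P.lf 233550 0 0)))) (P.cons (P.cons (P.lf 0 19862796 0) (P.cons (P.lf 684570 0 0) (P.cons (P.lf 295194 0 0) (P.lf 0 32796 0)))) (P.cons (P.cons (P.lf 153198 0 0) (P.cons (P.lf 57039 0 0) (P.cons (P.lf 24594 0 0) P.nil))) (P.cons (P.cons (P.lf 85698 0 0) (P.cons (P.lf 0 2070 0) P.nil)) (P.cons (P.cons (P.lf 1527 0 0) P.nil) P.nil)))))) 8319)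
 (EL.cons 11 (TM.mk (P.cons (P.cons (P.lf 173634819 0 0) (P.cons (P.lf 161756898 0 0) (P.cons (P.lf 0 16601517 0) (P.cons (P.lf 0 3452652 0) (P.lf 287718 0 0))))) (P.cons (P.cons (P.lf 21255861 0 0) (P.cons (P.lf 19801803 0 0) (P.cons (P.lf 0 2032308 0) (P.cons (P.lf 0 422661 0) (P.lf 35220 0 0))))) (P.cons (P.cons (P.lf 0 459336 0) (P.cons (P.lf 0 427917 0) (P.cons (P.lf 43917 0 0) (P.cons (P.lf 9132 0 0) P.nil)))) (P.cons (P.cons (P.lf 0 133881 0) (P.cons (P.lf 0 124722 0) (P.cons (P.lf 12798 0 0) P.nil))) (P.cons (P.cons (P.lf 0 2868 0) (P.cons (P.lf 0 2673 0) P.nil)) (P.cons (P.cons (P.lf 228 0 0) P.nil) P.nil)))))) 9501)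
 EL.nil)))
noncomputable def S111_125_216_364_26 : EL := (EL.cons 4 (TM.mk (P.cons (P.cons (P.lf 431521692 0 0) (P.cons (P.lf 0 1325403 0) (P.cons (P.lf 0 1125966 0) (P.cons (P.lf 0 414654 0) (P.cons (P.lf 0 49965 0) (P.cons (P.lf 22908 0 0) P.nil)))))) (P.cons (P.cons (P.lf 0 63096936 0) (P.cons (P.lf 5882337 0 0) (P.cons (P.lf 2293500 0 0) (P.cons (P.lf 0 491427 0) (P.cons (P.lf 0 21900 0) P.nil))))) (P.cons (P.cons (P.lf 0 16901448 0) (P.cons (P.lf 1325802 0 0) (P.cons (P.lf 532629 0 0) (P.cons (P.lf 0 97218 0) P.nil)))) (P.cons (P.cons (P.lf 330741 0 0) (P.cons (P.lf 36603 0 0) (P.cons (P.lf 13854 0 0) P.nil))) (P.cons (P.cons (P.lf 174417 0 0) (P.cons (P.lf 0 12141 0) P.nil)) (P.cons (P.cons (P.lf 3945 0 0) P.nil) P.nil)))))) 49653)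
 (EL.cons 8 (TM.mk (P.cons (P.cons (P.lf 0 487081494 0) (P.cons (P.lf 1496055 0 0) (P.cons (P.lf 1270941 0 0) (P.cons (P.lf 468042 0 0) (P.cons (P.lf 56397 0 0) (P.cons (P.lf 0 25857 0) P.nil)))))) (P.cons (P.cons (P.lf 124115619 0 0) (P.cons (P.lf 0 6802167 0) (P.cons (P.lf 0 2726814 0) (P.cons (P.lf 503871 0 0) (P.cons (P.lf 18594 0 0) P.nil))))) (P.cons (P.cons (P.lf 7567353 0 0) (P.cons (P.lf 0 763866 0) (P.cons (P.lf 0 310221 0) (P.cons (P.lf 53124 0 0) P.nil)))) (P.cons (P.cons (P.lf 0 1596786 0) (P.cons (P.lf 68814 0 0) (P.cons (P.lf 28803 0 0) P.nil))) (P.cons (P.cons (P.lf 0 74418 0) (P.cons (P.lf 10692 0 0) P.nil)) (P.cons (P.cons (P.lf 7494 0 0) P.nil) P.nil)))))) 35508)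
 (EL.cons 11 (TM.mk (P.cons (P.cons (P.lf 0 48704133 0) (P.cons (P.lf 0 47044995 0) (P.cons (P.lf 2377269 0 0) (P.cons (P.lf 536616 0 0) (P.cons (P.lf 96168 0 0) (P.cons (P.lf 3906 0 0) P.nil)))))) (P.cons (P.cons (P.lf 5424591 0 0) (P.cons (P.lf 4422735 0 0) (P.cons (P.lf 0 1378272 0) (P.cons (P.lf 0 270723 0) (P.cons (P.lf 75690 0 0) P.nil))))) (P.cons (P.cons (P.lf 1961697 0 0) (P.cons (P.lf 1742895 0 0) (P.cons (P.lf 0 302865 0) (P.cons (P.lf 0 60852 0) P.nil)))) (P.cons (P.cons (P.lf 45264 0 0) (P.cons (P.lf 39198 0 0) (P.cons (P.lf 0 8373 0) P.nil))) (P.cons (P.cons (P.lf 0 12435 0) (P.cons (P.lf 0 11190 0) P.nil)) (P.cons (P.cons (P.lf 0 732 0) P.nil) P.nil)))))) 40896)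
 EL.nil)))
noncomputable def S111_125_216_364_27 : EL := (EL.cons 13 (TM.mk (P.lf 0 4294967296 0) 0)
 EL.nil)
noncomputable def S111_125_216_364_28 : EL := (EL.cons 13 (TM.mk (P.cons (P.cons (P.lf 1204727612 0 0) (P.cons (P.lf 41372588 0 0) (P.cons (P.lf 17840324 0 0) (P.lf 0 1982256 0)))) (P.cons (P.cons (P.lf 0 281659945 0) (P.cons (P.lf 10537832 0 0) (P.cons (P.lf 4544032 0 0) (P.lf 0 504892 0)))) (P.cons (P.cons (P.lf 0 10856864 0) (P.cons (P.lf 912268 0 0) (P.cons (P.lf 393380 0 0) (P.lf 0 43708 0)))) (P.cons (P.cons (P.lf 393181 0 0) (P.cons (P.lf 21556 0 0) (P.cons (P.lf 9296 0 0) P.nil))) (P.cons (P.cons (P.lf 33543 0 0) (P.cons (P.lf 0 1208 0) P.nil)) (P.cons (P.cons (P.lf 462 0 0) P.nil) P.nil)))))) 2782)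
 EL.nil)
noncomputable def S111_125_216_364_29 : EL := (EL.cons 13 (TM.mk (P.cons (P.cons (P.lf 0 337923089 0) (P.cons (P.lf 0 23209815 0) (P.cons (P.lf 0 10406866 0) (P.cons (P.lf 768330 0 0) (P.cons (P.lf 0 35915 0) (P.cons (P.lf 16467 0 0) P.nil)))))) (P.cons (P.cons (P.lf 158009823 0 0) (P.cons (P.lf 0 485319 0) (P.cons (P.lf 0 412293 0) (P.cons (P.lf 0 151834 0) (P.cons (P.lf 0 18295 0) P.nil))))) (P.cons (P.cons (P.lf 0 12380349 0) (P.cons (P.lf 1079508 0 0) (P.cons (P.lf 422066 0 0) (P.cons (P.lf 0 89177 0) P.nil)))) (P.cons (P.cons (P.lf 0 1644538 0) (P.cons (P.lf 153258 0 0) (P.cons (P.lf 61194 0 0) P.nil))) (P.cons (P.cons (P.lf 5307 0 0) (P.cons (P.lf 5541 0 0) P.nil)) (P.cons (P.cons (P.lf 6128 0 0) P.nil) P.nil)))))) 46898)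
 EL.nil)
noncomputable def S111_125_216_364_30 : EL := (EL.cons 13 (TM.mk (P.cons (P.lf 3396707100 0 0) (P.cons (P.lf 0 80479456 0) (P.cons (P.lf 0 4504160 0) (P.cons (P.lf 0 66576 0) (P.cons (P.lf 1288 0 0) (P.cons (P.lf 80 0 0) P.nil)))))) 68)
 EL.nil)
noncomputable def S111_125_216_364_31 : EL := (EL.cons 13 (TM.mk (P.cons (P.cons (P.lf 0 952767867 0) (P.cons (P.lf 0 32719821 0) (P.cons (P.lf 0 14109154 0) (P.lf 1567682 0 0)))) (P.cons (P.cons (P.lf 245327166 0 0) (P.cons (P.lf 0 7558680 0) (P.cons (P.lf 0 3259388 0) (P.lf 362153 0 0)))) (P.cons (P.cons (P.lf 4571870 0 0) (P.cons (P.lf 0 480627 0) (P.cons (P.lf 0 207251 0) (P.lf 23027 0 0)))) (P.cons (P.cons (P.lf 0 791091 0) (P.cons (P.lf 11738 0 0) (P.cons (P.lf 5061 0 0) P.nil))) (P.cons (P.cons (P.lf 0 35273 0) (P.cons (P.lf 2466 0 0) P.nil)) (P.cons (P.cons (P.lf 569 0 0) P.nil) P.nil)))))) 4539)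
 EL.nil)
noncomputable def S111_125_216_364_32 : EL := (EL.cons 13 (TM.mk (P.cons (P.cons (P.lf 267249009 0 0) (P.cons (P.lf 18355656 0 0) (P.cons (P.lf 8230348 0 0) (P.cons (P.lf 0 607639 0) (P.cons (P.lf 28403 0 0) (P.cons (P.lf 0 13023 0) P.nil)))))) (P.cons (P.cons (P.lf 0 131295284 0) (P.cons (P.lf 0 51089 0) (P.cons (P.lf 131060 0 0) (P.cons (P.lf 134476 0 0) (P.cons (P.lf 13795 0 0) P.nil))))) (P.cons (P.cons (P.lf 12397510 0 0) (P.cons (P.lf 0 887171 0) (P.cons (P.lf 0 352433 0) (P.cons (P.lf 68486 0 0) P.nil)))) (P.cons (P.cons (P.lf 1229078 0 0) (P.cons (P.lf 0 101846 0) (P.cons (P.lf 0 41080 0) P.nil))) (P.cons (P.cons (P.lf 0 45445 0) (P.cons (P.lf 0 378 0) P.nil)) (P.cons (P.cons (P.lf 0 6704 0) P.nil) P.nil)))))) 42836)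
 EL.nil)
noncomputable def S111_125_216_364_33 : EL := (EL.cons 14 (TM.mk (P.lf 8589934592 0 0) 0)
 EL.nil)
noncomputable def S111_125_216_364_34 : EL := (EL.cons 14 (TM.mk (P.cons (P.cons (P.lf 0 2409455224 0) (P.cons (P.lf 0 82745176 0) (P.cons (P.lf 0 35680648 0) (P.lf 3964512 0 0)))) (P.cons (P.cons (P.lf 563319890 0 0) (P.cons (P.lf 0 21075664 0) (P.cons (P.lf 0 9088064 0) (P.lf 1009784 0 0)))) (P.cons (P.cons (P.lf 21713728 0 0) (P.cons (P.lf 0 1824536 0) (P.cons (P.lf 0 786760 0) (P.lf 87416 0 0)))) (P.cons (P.cons (P.lf 0 786362 0) (P.cons (P.lf 0 43112 0) (P.cons (P.lf 0 18592 0) P.nil))) (P.cons (P.cons (P.lf 0 67086 0) (P.cons (P.lf 2416 0 0) P.nil)) (P.cons (P.cons (P.lf 0 924 0) P.nil) P.nil)))))) 5564)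
 EL.nil)
noncomputable def S111_125_216_364_35 : EL := (EL.cons 14 (TM.mk (P.cons (P.cons (P.lf 675846178 0 0) (P.cons (P.lf 46419630 0 0) (P.cons (P.lf 20813732 0 0) (P.cons (P.lf 0 1536660 0) (P.cons (P.lf 71830 0 0) (P.cons (P.lf 0 32934 0) P.nil)))))) (P.cons (P.cons (P.lf 0 316019646 0) (P.cons (P.lf 970638 0 0) (P.cons (P.lf 824586 0 0) (P.cons (P.lf 303668 0 0) (P.cons (P.lf 36590 0 0) P.nil))))) (P.cons (P.cons (P.lf 24760698 0 0) (P.cons (P.lf 0 2159016 0) (P.cons (P.lf 0 844132 0) (P.cons (P.lf 178354 0 0) P.nil)))) (P.cons (P.cons (P.lf 3289076 0 0) (P.cons (P.lf 0 306516 0) (P.cons (P.lf 0 122388 0) P.nil))) (P.cons (P.cons (P.lf 0 10614 0) (P.cons (P.lf 0 11082 0) P.nil)) (P.cons (P.cons (P.lf 0 12256 0) P.nil) P.nil)))))) 93796)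
 EL.nil)
noncomputable def S111_125_216_364_36 : EL := (EL.cons 14 (TM.mk (P.cons (P.lf 0 6793414200 0) (P.cons (P.lf 160958912 0 0) (P.cons (P.lf 9008320 0 0) (P.cons (P.lf 133152 0 0) (P.cons (P.lf 0 2576 0) (P.cons (P.lf 0 160 0) P.nil)))))) 136)
 EL.nil)
noncomputable def S111_125_216_364_37 : EL := (EL.cons 14 (TM.mk (P.cons (P.cons (P.lf 1905535734 0 0) (P.cons (P.lf 65439642 0 0) (P.cons (P.lf 28218308 0 0) (P.lf 0 3135364 0)))) (P.cons (P.cons (P.lf 0 490654332 0) (P.cons (P.lf 15117360 0 0) (P.cons (P.lf 6518776 0 0) (P.lf 0 724306 0)))) (P.cons (P.cons (P.lf 0 9143740 0) (P.cons (P.lf 961254 0 0) (P.cons (P.lf 414502 0 0) (P.lf 0 46054 0)))) (P.cons (P.cons (P.lf 1582182 0 0) (P.cons (P.lf 0 23476 0) (P.cons (P.lf 0 10122 0) P.nil))) (P.cons (P.cons (P.lf 70546 0 0) (P.cons (P.lf 0 4932 0) P.nil)) (P.cons (P.cons (P.lf 0 1138 0) P.nil) P.nil)))))) 9078)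
 EL.nil)
noncomputable def S111_125_216_364_38 : EL := (EL.cons 14 (TM.mk (P.cons (P.cons (P.lf 0 534498018 0) (P.cons (P.lf 0 36711312 0) (P.cons (P.lf 0 16460696 0) (P.cons (P.lf 1215278 0 0) (P.cons (P.lf 0 56806 0) (P.cons (P.lf 26046 0 0) P.nil)))))) (P.cons (P.cons (P.lf 262590568 0 0) (P.cons (P.lf 102178 0 0) (P.cons (P.lf 0 262120 0) (P.cons (P.lf 0 268952 0) (P.cons (P.lf 0 27590 0) P.nil))))) (P.cons (P.cons (P.lf 0 24795020 0) (P.cons (P.lf 1774342 0 0) (P.cons (P.lf 704866 0 0) (P.cons (P.lf 0 136972 0) P.nil)))) (P.cons (P.cons (P.lf 0 2458156 0) (P.cons (P.lf 203692 0 0) (P.cons (P.lf 82160 0 0) P.nil))) (P.cons (P.cons (P.lf 90890 0 0) (P.cons (P.lf 756 0 0) P.nil)) (P.cons (P.cons (P.lf 13408 0 0) P.nil) P.nil)))))) 85672)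
 EL.nil)
noncomputable def S111_125_216_364_39 : EL := (EL.cons 14 (TM.mk (P.cons (P.lf 5372622572 0 0) (P.cons (P.lf 0 254591124 0) (P.cons (P.lf 0 11232532 0) (P.cons (P.lf 126988 0 0) (P.cons (P.lf 18510 0 0) (P.cons (P.lf 434 0 0) P.nil)))))) 248)
 EL.nil)
noncomputable def S111_125_216_364_40 : EL := (EL.cons 14 (TM.mk (P.cons (P.cons (P.lf 0 1507007228 0) (P.cons (P.lf 0 51753432 0) (P.cons (P.lf 0 22316660 0) (P.lf 2479626 0 0)))) (P.cons (P.cons (P.lf 423743746 0 0) (P.cons (P.lf 0 10729464 0) (P.cons (P.lf 0 4626666 0) (P.lf 514072 0 0)))) (P.cons (P.cons (P.lf 35820 0 0) (P.cons (P.lf 0 408318 0) (P.cons (P.lf 0 176070 0) (P.lf 19562 0 0)))) (P.cons (P.cons (P.lf 0 1907630 0) (P.cons (P.lf 53446 0 0) (P.cons (P.lf 23046 0 0) P.nil))) (P.cons (P.cons (P.lf 0 43910 0) (P.cons (P.lf 4684 0 0) P.nil)) (P.cons (P.cons (P.lf 3850 0 0) P.nil) P.nil)))))) 10164)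
 EL.nil)
noncomputable def S111_125_216_364_41 : EL := (EL.cons 14 (TM.mk (P.cons (P.cons (P.lf 422711766 0 0) (P.cons (P.lf 29033416 0 0) (P.cons (P.lf 13018064 0 0) (P.cons (P.lf 0 961112 0) (P.cons (P.lf 44926 0 0) (P.cons (P.lf 0 20598 0) P.nil)))))) (P.cons (P.cons (P.lf 0 217687188 0) (P.cons (P.lf 0 768708 0) (P.cons (P.lf 0 101140 0) (P.cons (P.lf 235474 0 0) (P.cons (P.lf 20756 0 0) P.nil))))) (P.cons (P.cons (P.lf 23969240 0 0) (P.cons (P.lf 0 1439836 0) (P.cons (P.lf 0 579622 0) (P.cons (P.lf 104560 0 0) P.nil)))) (P.cons (P.cons (P.lf 1746536 0 0) (P.cons (P.lf 0 128304 0) (P.cons (P.lf 0 52300 0) P.nil))) (P.cons (P.cons (P.lf 0 139714 0) (P.cons (P.lf 5090 0 0) P.nil)) (P.cons (P.cons (P.lf 0 11932 0) P.nil) P.nil)))))) 76120)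
 EL.nil)
noncomputable def S111_125_216_364_42 : EL := (EL.cons 14 (TM.mk (P.cons (P.lf 0 4248978856 0) (P.cons (P.lf 302017950 0 0) (P.cons (P.lf 9747086 0 0) (P.cons (P.lf 0 494616 0) (P.cons (P.lf 0 29596 0) (P.cons (P.lf 0 60 0) P.nil)))))) 342)
 EL.nil)
noncomputable def S111_125_216_364_43 : EL := (EL.cons 14 (TM.mk (P.cons (P.cons (P.lf 1191827968 0 0) (P.cons (P.lf 40929590 0 0) (P.cons (P.lf 17649298 0 0) (P.lf 0 1961030 0)))) (P.cons (P.cons (P.lf 0 363359346 0) (P.cons (P.lf 7515716 0 0) (P.cons (P.lf 3240862 0 0) (P.lf 0 360094 0)))) (P.cons (P.cons (P.lf 6331406 0 0) (P.cons (P.lf 67596 0 0) (P.cons (P.lf 29148 0 0) (P.lf 0 3236 0)))) (P.cons (P.cons (P.lf 1930358 0 0) (P.cons (P.lf 0 61974 0) (P.cons (P.lf 0 26722 0) P.nil))) (P.cons (P.cons (P.lf 6038 0 0) (P.cons (P.lf 0 3282 0) P.nil)) (P.cons (P.cons (P.lf 0 5968 0) P.nil) P.nil)))))) 10604)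
 EL.nil)
noncomputable def S111_125_216_364_44 : EL := (EL.cons 14 (TM.mk (P.cons (P.cons (P.lf 0 334304770 0) (P.cons (P.lf 0 22961294 0) (P.cons (P.lf 0 10295434 0) (P.cons (P.lf 760102 0 0) (P.cons (P.lf 0 35530 0) (P.cons (P.lf 16290 0 0) P.nil)))))) (P.cons (P.cons (P.lf 180080354 0 0) (P.cons (P.lf 1151968 0 0) (P.cons (P.lf 323922 0 0) (P.cons (P.lf 0 204236 0) (P.cons (P.lf 0 15572 0) P.nil))))) (P.cons (P.cons (P.lf 0 22591994 0) (P.cons (P.lf 1154748 0 0) (P.cons (P.lf 470156 0 0) (P.cons (P.lf 0 79288 0) P.nil)))) (P.cons (P.cons (P.lf 0 1153860 0) (P.cons (P.lf 74134 0 0) (P.cons (P.lf 30596 0 0) P.nil))) (P.cons (P.cons (P.lf 164856 0 0) (P.cons (P.lf 0 7960 0) P.nil)) (P.cons (P.cons (P.lf 9078 0 0) P.nil) P.nil)))))) 66680)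
 EL.nil)
noncomputable def S111_125_216_364_45 : EL := (EL.cons 14 (TM.mk (P.cons (P.cons (P.lf 0 189573166 0) (P.cons (P.lf 0 19530884 0) (P.cons (P.lf 0 9092662 0) (P.cons (P.lf 349640 0 0) (P.cons (P.lf 0 70376 0) (P.cons (P.lf 24534 0 0) P.nil)))))) (P.cons (P.cons (P.lf 132964082 0 0) (P.cons (P.lf 4157840 0 0) (P.cons (P.lf 1608044 0 0) (P.cons (P.lf 0 364508 0) (P.cons (P.lf 0 24248 0) P.nil))))) (P.cons (P.cons (P.lf 0 25961176 0) (P.cons (P.lf 1179888 0 0) (P.cons (P.lf 521614 0 0) (P.cons (P.lf 0 47464 0) P.nil)))) (P.cons (P.cons (P.lf 0 159502 0) (P.cons (P.lf 0 86106 0) (P.cons (P.lf 0 25414 0) P.nil))) (P.cons (P.cons (P.lf 304912 0 0) (P.cons (P.lf 0 34352 0) P.nil)) (P.cons (P.cons (P.lf 11184 0 0) P.nil) P.nil)))))) 117988)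
 EL.nil)
noncomputable def S111_125_216_364_46 : EL := (EL.cons 15 (TM.mk (P.lf 4294967296 0 0) 0)
 EL.nil)
noncomputable def S111_125_216_364_47 : EL := (EL.cons 15 (TM.mk (P.cons (P.cons (P.lf 0 1204727612 0) (P.cons (P.lf 0 41372588 0) (P.cons (P.lf 0 17840324 0) (P.lf 1982256 0 0)))) (P.cons (P.cons (P.lf 281659945 0 0) (P.cons (P.lf 0 10537832 0) (P.cons (P.lf 0 4544032 0) (P.lf 504892 0 0)))) (P.cons (P.cons (P.lf 10856864 0 0) (P.cons (P.lf 0 912268 0) (P.cons (P.lf 0 393380 0) (P.lf 43708 0 0)))) (P.cons (P.cons (P.lf 0 393181 0) (P.cons (P.lf 0 21556 0) (P.cons (P.lf 0 9296 0) P.nil))) (P.cons (P.cons (P.lf 0 33543 0) (P.cons (P.lf 1208 0 0) P.nil)) (P.cons (P.cons (P.lf 0 462 0) P.nil) P.nil)))))) 2782)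
 EL.nil)
noncomputable def S111_125_216_364_48 : EL := (EL.cons 15 (TM.mk (P.cons (P.cons (P.lf 337923089 0 0) (P.cons (P.lf 23209815 0 0) (P.cons (P.lf 10406866 0 0) (P.cons (P.lf 0 768330 0) (P.cons (P.lf 35915 0 0) (P.cons (P.lf 0 16467 0) P.nil)))))) (P.cons (P.cons (P.lf 0 158009823 0) (P.cons (P.lf 485319 0 0) (P.cons (P.lf 412293 0 0) (P.cons (P.lf 151834 0 0) (P.cons (P.lf 18295 0 0) P.nil))))) (P.cons (P.cons (P.lf 12380349 0 0) (P.cons (P.lf 0 1079508 0) (P.cons (P.lf 0 422066 0) (P.cons (P.lf 89177 0 0) P.nil)))) (P.cons (P.cons (P.lf 1644538 0 0) (P.cons (P.lf 0 153258 0) (P.cons (P.lf 0 61194 0) P.nil))) (P.cons (P.cons (P.lf 0 5307 0) (P.cons (P.lf 0 5541 0) P.nil)) (P.cons (P.cons (P.lf 0 6128 0) P.nil) P.nil)))))) 46898)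
 EL.nil)
noncomputable def S111_125_216_364 : SL := (SL.cons S111_125_216_364_0 (SL.cons S111_125_216_364_1 (SL.cons S111_125_216_364_2 (SL.cons S111_125_216_364_3 (SL.cons S111_125_216_364_4 (SL.cons S111_125_216_364_5 (SL.cons S111_125_216_364_6 (SL.cons S111_125_216_364_7 (SL.cons S111_125_216_364_8 (SL.cons S111_125_216_364_9 (SL.cons S111_125_216_364_10 (SL.cons S111_125_216_364_11 (SL.cons S111_125_216_364_12 (SL.cons S111_125_216_364_13 (SL.cons S111_125_216_364_14 (SL.cons S111_125_216_364_15 (SL.cons S111_125_216_364_16 (SL.cons S111_125_216_364_17 (SL.cons S111_125_216_364_18 (SL.cons S111_125_216_364_19 (SL.cons S111_125_216_364_20 (SL.cons S111_125_216_364_21 (SL.cons S111_125_216_364_22 (SL.cons S111_125_216_364_23 (SL.cons S111_125_216_364_24 (SL.cons S111_125_216_364_25 (SL.cons S111_125_216_364_26 (SL.cons S111_125_216_364_27 (SL.cons S111_125_216_364_28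 (SL.cons S111_125_216_364_29 (SL.cons S111_125_216_364_30 (SL.cons S111_125_216_364_31 (SL.cons S111_125_216_364_32 (SL.cons S111_125_216_364_33 (SL.cons S111_125_216_364_34 (SL.cons S111_125_216_364_35 (SL.cons S111_125_216_364_36 (SL.cons S111_125_216_364_37 (SL.cons S111_125_216_364_38 (SL.cons S111_125_216_364_39 (SL.cons S111_125_216_364_40 (SL.cons S111_125_216_364_41 (SL.cons S111_125_216_364_42 (SL.cons S111_125_216_364_43 (SL.cons S111_125_216_364_44 (SL.cons S111_125_216_364_45 (SL.cons S111_125_216_364_46 (SL.cons S111_125_216_364_47 (SL.cons S111_125_216_364_48 SL.nil)))))))))))))))))))))))))))))))))))))))))))))))))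
noncomputable def S111_125_364_512_0 : EL := (EL.cons 0 (TM.mk (P.cons (P.lf 3733685306 0 0) (P.cons (P.lf 223761730 0 0) (P.cons (P.lf 9872342 0 0) (P.cons (P.lf 0 111610 0) (P.cons (P.lf 0 16268 0) (P.cons (P.lf 0 381 0) P.nil)))))) 224)
 (EL.cons 1 (TM.mk (P.cons (P.lf 0 1487432810 0) (P.cons (P.lf 0 91043581 0) (P.cons (P.lf 4753766 0 0) (P.cons (P.lf 282485 0 0) (P.cons (P.lf 2602 0 0) (P.cons (P.lf 0 234 0) P.nil)))))) 127)
 (EL.cons 5 (TM.mk (P.cons (P.lf 5973911854 0 0) (P.cons (P.lf 0 79559726 0) (P.cons (P.lf 0 3510166 0) (P.cons (P.lf 39680 0 0) (P.cons (P.lf 5784 0 0) (P.cons (P.lf 134 0 0) P.nil)))))) 67)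
 (EL.cons 9 (TM.mk (P.lf 6442450944 0 0) 2)
 EL.nil))))
noncomputable def S111_125_364_512_1 : EL := (EL.cons 0 (TM.mk (P.cons (P.cons (P.lf 0 4358829592 0) (P.cons (P.lf 216050394 0 0) (P.cons (P.lf 14444612 0 0) (P.lf 0 4814864 0)))) (P.cons (P.cons (P.lf 0 167029544 0) (P.cons (P.lf 36493248 0 0) (P.cons (P.lf 2439845 0 0) (P.lf 0 813271 0)))) (P.cons (P.cons (P.lf 40993632 0 0) (P.cons (P.lf 0 775115 0) (P.cons (P.lf 0 51838 0) (P.lf 17281 0 0)))) (P.cons (P.cons (P.lf 3788378 0 0) (P.cons (P.lf 0 495197 0) (P.cons (P.lf 0 33104 0) P.nil))) (P.cons (P.cons (P.lf 0 35464 0) (P.cons (P.lf 0 30290 0) P.nil)) (P.cons (P.cons (P.lf 0 14113 0) P.nil) P.nil)))))) 36244)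
 (EL.cons 1 (TM.mk (P.cons (P.cons (P.lf 1763590919 0 0) (P.cons (P.lf 0 88562918 0) (P.cons (P.lf 0 5921117 0) (P.lf 1973709 0 0)))) (P.cons (P.cons (P.lf 0 180397366 0) (P.cons (P.lf 7982606 0 0) (P.cons (P.lf 533696 0 0) (P.lf 0 177896 0)))) (P.cons (P.cons (P.lf 0 31836191 0) (P.cons (P.lf 3790356 0 0) (P.cons (P.lf 253402 0 0) (P.lf 0 84464 0)))) (P.cons (P.cons (P.lf 766966 0 0) (P.cons (P.lf 214153 0 0) (P.cons (P.lf 14311 0 0) P.nil))) (P.cons (P.cons (P.lf 164991 0 0) (P.cons (P.lf 0 9611 0) P.nil)) (P.cons (P.cons (P.lf 3151 0 0) P.nil) P.nil)))))) 14829)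
 (EL.cons 5 (TM.mk (P.cons (P.cons (P.lf 0 733253200 0) (P.cons (P.lf 0 228027482 0) (P.cons (P.lf 0 15245380 0) (P.lf 5081792 0 0)))) (P.cons (P.cons (P.lf 478348663 0 0) (P.cons (P.lf 0 51489320 0) (P.cons (P.lf 0 3442454 0) (P.lf 1147486 0 0)))) (P.cons (P.cons (P.lf 0 1301098 0) (P.cons (P.lf 0 3058590 0) (P.cons (P.lf 0 204486 0) (P.lf 68158 0 0)))) (P.cons (P.cons (P.lf 0 2137841 0) (P.cons (P.lf 97280 0 0) (P.cons (P.lf 6498 0 0) P.nil))) (P.cons (P.cons (P.lf 0 37542 0) (P.cons (P.lf 15198 0 0) P.nil)) (P.cons (P.cons (P.lf 4705 0 0) P.nil) P.nil)))))) 10754)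
 (EL.cons 9 (TM.mk (P.cons (P.cons (P.lf 0 2014464066 0) (P.cons (P.lf 0 133420200 0) (P.cons (P.lf 0 8920158 0) (P.lf 2973384 0 0)))) (P.cons (P.cons (P.lf 369670921 0 0) (P.cons (P.lf 0 33982884 0) (P.cons (P.lf 0 2272014 0) (P.lf 757338 0 0)))) (P.cons (P.cons (P.lf 11712708 0 0) (P.cons (P.lf 0 2941926 0) (P.cons (P.lf 0 196686 0) (P.lf 65562 0 0)))) (P.cons (P.cons (P.lf 0 697825 0) (P.cons (P.lf 0 69516 0) (P.cons (P.lf 0 4644 0) P.nil))) (P.cons (P.cons (P.lf 0 44242 0) (P.cons (P.lf 3900 0 0) P.nil)) (P.cons (P.cons (P.lf 0 273 0) P.nil) P.nil)))))) 3706)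
 (EL.cons 2 (TM.mk (P.cons (P.cons (P.lf 483326057 0 0) (P.cons (P.lf 74831009 0 0) (P.cons (P.lf 0 36051221 0) (P.cons (P.lf 0 1364281 0) (P.lf 341069 0 0))))) (P.cons (P.cons (P.lf 70618980 0 0) (P.cons (P.lf 10933588 0 0) (P.cons (P.lf 0 5267455 0) (P.cons (P.lf 0 199333 0) (P.lf 49831 0 0))))) (P.cons (P.cons (P.lf 1035506 0 0) (P.cons (P.lf 160318 0 0) (P.cons (P.lf 0 77234 0) (P.cons (P.lf 0 2922 0) P.nil)))) (P.cons (P.cons (P.lf 0 245025 0) (P.cons (P.lf 0 37935 0) (P.cons (P.lf 18272 0 0) P.nil))) (P.cons (P.cons (P.lf 0 11221 0) (P.cons (P.lf 0 1735 0) P.nil)) (P.cons (P.cons (P.lf 28 0 0) P.nil) P.nil)))))) 6669)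
 (EL.cons 6 (TM.mk (P.cons (P.cons (P.lf 152246979 0 0) (P.cons (P.lf 23571654 0 0) (P.cons (P.lf 0 11356080 0) (P.cons (P.lf 0 429747 0) (P.lf 107436 0 0))))) (P.cons (P.cons (P.lf 38778174 0 0) (P.cons (P.lf 6003834 0 0) (P.cons (P.lf 0 2892456 0) (P.cons (P.lf 0 109458 0) (P.lf 27363 0 0))))) (P.cons (P.cons (P.lf 3357057 0 0) (P.cons (P.lf 519756 0 0) (P.cons (P.lf 0 250401 0) (P.cons (P.lf 0 9474 0) P.nil)))) (P.cons (P.cons (P.lf 79329 0 0) (P.cons (P.lf 12282 0 0) (P.cons (P.lf 0 5916 0) P.nil))) (P.cons (P.cons (P.lf 0 4455 0) (P.cons (P.lf 0 687 0) P.nil)) (P.cons (P.cons (P.lf 0 306 0) P.nil) P.nil)))))) 3375)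
 EL.nil))))))
noncomputable def S111_125_364_512_2 : EL := (EL.cons 0 (TM.mk (P.cons (P.cons (P.lf 2360837956 0 0) (P.cons (P.lf 0 2928716 0) (P.cons (P.lf 0 10745728 0) (P.cons (P.lf 0 1345418 0) (P.cons (P.lf 423065 0 0) (P.cons (P.lf 31430 0 0) P.nil)))))) (P.cons (P.cons (P.lf 0 283665511 0) (P.cons (P.lf 48533969 0 0) (P.cons (P.lf 0 1457601 0) (P.cons (P.lf 0 1710409 0) (P.cons (P.lf 188573 0 0) P.nil))))) (P.cons (P.cons (P.lf 0 61637819 0) (P.cons (P.lf 10644281 0 0) (P.cons (P.lf 0 66171 0) (P.cons (P.lf 0 341217 0) P.nil)))) (P.cons (P.cons (P.lf 1523171 0 0) (P.cons (P.lf 269923 0 0) (P.cons (P.lf 0 23477 0) P.nil))) (P.cons (P.cons (P.lf 634534 0 0) (P.cons (P.lf 0 104544 0) P.nil)) (P.cons (P.cons (P.lf 14670 0 0) P.nil) P.nil)))))) 287922)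
 (EL.cons 1 (TM.mk (P.cons (P.cons (P.lf 0 957470246 0) (P.cons (P.lf 1602438 0 0) (P.cons (P.lf 4413276 0 0) (P.cons (P.lf 540081 0 0) (P.cons (P.lf 0 172685 0) (P.cons (P.lf 0 12836 0) P.nil)))))) (P.cons (P.cons (P.lf 270733142 0 0) (P.cons (P.lf 0 23738415 0) (P.cons (P.lf 0 619390 0) (P.cons (P.lf 658424 0 0) (P.cons (P.lf 0 38809 0) P.nil))))) (P.cons (P.cons (P.lf 5093929 0 0) (P.cons (P.lf 0 730499 0) (P.cons (P.lf 0 121782 0) (P.cons (P.lf 6525 0 0) P.nil)))) (P.cons (P.cons (P.lf 0 4420870 0) (P.cons (P.lf 646274 0 0) (P.cons (P.lf 0 97 0) P.nil))) (P.cons (P.cons (P.lf 0 98452 0) (P.cons (P.lf 57372 0 0) P.nil)) (P.cons (P.cons (P.lf 25003 0 0) P.nil) P.nil)))))) 120241)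
 (EL.cons 5 (TM.mk (P.cons (P.cons (P.lf 0 125528418 0) (P.cons (P.lf 95603545 0 0) (P.cons (P.lf 13274386 0 0) (P.cons (P.lf 0 1210307 0) (P.cons (P.lf 0 275989 0) (P.cons (P.lf 0 20499 0) P.nil)))))) (P.cons (P.cons (P.lf 0 161147233 0) (P.cons (P.lf 0 10523928 0) (P.cons (P.lf 2563591 0 0) (P.cons (P.lf 671407 0 0) (P.cons (P.lf 0 131011 0) P.nil))))) (P.cons (P.cons (P.lf 37654370 0 0) (P.cons (P.lf 0 6669235 0) (P.cons (P.lf 171919 0 0) (P.cons (P.lf 231235 0 0) P.nil)))) (P.cons (P.cons (P.lf 1476403 0 0) (P.cons (P.lf 0 536614 0) (P.cons (P.lf 17322 0 0) P.nil))) (P.cons (P.cons (P.lf 0 260870 0) (P.cons (P.lf 23651 0 0) P.nil)) (P.cons (P.cons (P.lf 0 13643 0) P.nil) P.nil)))))) 118076)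
 (EL.cons 9 (TM.mk (P.cons (P.cons (P.lf 629894664 0 0) (P.cons (P.lf 83437251 0 0) (P.cons (P.lf 8341486 0 0) (P.cons (P.lf 0 1490005 0) (P.cons (P.lf 0 110803 0) (P.cons (P.lf 0 8233 0) P.nil)))))) (P.cons (P.cons (P.lf 0 231181825 0) (P.cons (P.lf 5940511 0 0) (P.cons (P.lf 1804707 0 0) (P.cons (P.lf 55819 0 0) (P.cons (P.lf 0 56443 0) P.nil))))) (P.cons (P.cons (P.lf 13887094 0 0) (P.cons (P.lf 0 2545239 0) (P.cons (P.lf 130933 0 0) (P.cons (P.lf 96985 0 0) P.nil)))) (P.cons (P.cons (P.lf 1780561 0 0) (P.cons (P.lf 0 388806 0) (P.cons (P.lf 7918 0 0) P.nil))) (P.cons (P.cons (P.lf 0 31120 0) (P.cons (P.lf 0 11919 0) P.nil)) (P.cons (P.cons (P.lf 0 7443 0) P.nil) P.nil)))))) 49598)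
 (EL.cons 2 (TM.mk (P.cons (P.cons (P.lf 0 302258559 0) (P.cons (P.lf 0 66816135 0) (P.cons (P.lf 18107572 0 0) (P.cons (P.lf 2585306 0 0) (P.cons (P.lf 12116 0 0) (P.cons (P.lf 0 43621 0) P.nil)))))) (P.cons (P.cons (P.lf 11303825 0 0) (P.cons (P.lf 0 6273787 0) (P.cons (P.lf 0 2621908 0) (P.cons (P.lf 662355 0 0) (P.cons (P.lf 98325 0 0) P.nil))))) (P.cons (P.cons (P.lf 9214143 0 0) (P.cons (P.lf 197263 0 0) (P.cons (P.lf 0 959799 0) (P.cons (P.lf 80353 0 0) P.nil)))) (P.cons (P.cons (P.lf 424136 0 0) (P.cons (P.lf 0 10029 0) (P.cons (P.lf 0 48414 0) P.nil))) (P.cons (P.cons (P.lf 0 39268 0) (P.cons (P.lf 0 4910 0) P.nil)) (P.cons (P.cons (P.lf 0 3431 0) P.nil) P.nil)))))) 74896)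
 (EL.cons 6 (TM.mk (P.cons (P.cons (P.lf 0 95210988 0) (P.cons (P.lf 0 21046980 0) (P.cons (P.lf 5703852 0 0) (P.cons (P.lf 814368 0 0) (P.cons (P.lf 3810 0 0) (P.cons (P.lf 0 13740 0) P.nil)))))) (P.cons (P.cons (P.lf 0 6778770 0) (P.cons (P.lf 0 4261836 0) (P.cons (P.lf 0 206484 0) (P.cons (P.lf 297072 0 0) (P.cons (P.lf 31386 0 0) P.nil))))) (P.cons (P.cons (P.lf 2904390 0 0) (P.cons (P.lf 0 237510 0) (P.cons (P.lf 0 368970 0) (P.cons (P.lf 51258 0 0) P.nil)))) (P.cons (P.cons (P.lf 443664 0 0) (P.cons (P.lf 0 8706 0) (P.cons (P.lf 0 50250 0) P.nil))) (P.cons (P.cons (P.lf 13602 0 0) (P.cons (P.lf 0 2262 0) P.nil)) (P.cons (P.cons (P.lf 0 1296 0) P.nil) P.nil)))))) 36732)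
 EL.nil))))))
noncomputable def S111_125_364_512_3 : EL := (EL.cons 0 (TM.mk (P.cons (P.lf 4722031557 0 0) (P.cons (P.lf 0 223761730 0) (P.cons (P.lf 0 9872342 0) (P.cons (P.lf 111610 0 0) (P.cons (P.lf 16268 0 0) (P.cons (P.lf 381 0 0) P.nil)))))) 224)
 (EL.cons 1 (TM.mk (P.cons (P.lf 1487432810 0 0) (P.cons (P.lf 91043581 0 0) (P.cons (P.lf 0 4753766 0) (P.cons (P.lf 0 282485 0) (P.cons (P.lf 0 2602 0) (P.cons (P.lf 234 0 0) P.nil)))))) 127)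
 (EL.cons 5 (TM.mk (P.cons (P.lf 468539090 0 0) (P.cons (P.lf 79559726 0 0) (P.cons (P.lf 3510166 0 0) (P.cons (P.lf 0 39680 0) (P.cons (P.lf 0 5784 0) (P.cons (P.lf 0 134 0) P.nil)))))) 60)
 EL.nil)))
noncomputable def S111_125_364_512_4 : EL := (EL.cons 0 (TM.mk (P.cons (P.cons (P.lf 0 1476513049 0) (P.cons (P.lf 0 97791103 0) (P.cons (P.lf 0 6538079 0) (P.lf 2179358 0 0)))) (P.cons (P.cons (P.lf 340919586 0 0) (P.cons (P.lf 0 20273946 0) (P.cons (P.lf 0 1355466 0) (P.lf 451821 0 0)))) (P.cons (P.cons (P.lf 0 1167714 0) (P.cons (P.lf 0 771542 0) (P.cons (P.lf 0 51579 0) (P.lf 17193 0 0)))) (P.cons (P.cons (P.lf 0 1519664 0) (P.cons (P.lf 100989 0 0) (P.cons (P.lf 6753 0 0) P.nil))) (P.cons (P.cons (P.lf 0 24820 0) (P.cons (P.lf 8854 0 0) P.nil)) (P.cons (P.cons (P.lf 3422 0 0) P.nil) P.nil)))))) 7679)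
 (EL.cons 1 (TM.mk (P.cons (P.cons (P.lf 0 465099380 0) (P.cons (P.lf 0 30804048 0) (P.cons (P.lf 0 2059485 0) (P.lf 686493 0 0)))) (P.cons (P.cons (P.lf 56881554 0 0) (P.cons (P.lf 0 9731435 0) (P.cons (P.lf 0 650619 0) (P.lf 216871 0 0)))) (P.cons (P.cons (P.lf 9414789 0 0) (P.cons (P.lf 0 1061021 0) (P.cons (P.lf 0 70935 0) (P.lf 23643 0 0)))) (P.cons (P.cons (P.lf 0 180033 0) (P.cons (P.lf 0 26698 0) (P.cons (P.lf 0 1783 0) P.nil))) (P.cons (P.cons (P.lf 0 44113 0) (P.cons (P.lf 3631 0 0) P.nil)) (P.cons (P.cons (P.lf 0 909 0) P.nil) P.nil)))))) 3245)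
 (EL.cons 5 (TM.mk (P.cons (P.cons (P.lf 0 146505602 0) (P.cons (P.lf 0 9703228 0) (P.cons (P.lf 0 648734 0) (P.lf 216244 0 0)))) (P.cons (P.cons (P.lf 2007786 0 0) (P.cons (P.lf 0 4119112 0) (P.cons (P.lf 0 275392 0) (P.lf 91796 0 0)))) (P.cons (P.cons (P.lf 4319422 0 0) (P.cons (P.lf 0 706314 0) (P.cons (P.lf 0 47220 0) (P.lf 15740 0 0)))) (P.cons (P.cons (P.lf 307714 0 0) (P.cons (P.lf 0 59078 0) (P.cons (P.lf 0 3948 0) P.nil))) (P.cons (P.cons (P.lf 0 5920 0) (P.cons (P.lf 0 1848 0) P.nil)) (P.cons (P.cons (P.lf 0 1306 0) P.nil) P.nil)))))) 2002)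
 EL.nil)))
noncomputable def S111_125_364_512_5 : EL := (EL.cons 0 (TM.mk (P.cons (P.cons (P.lf 461684925 0 0) (P.cons (P.lf 61155813 0 0) (P.cons (P.lf 6113939 0 0) (P.cons (P.lf 0 1092107 0) (P.cons (P.lf 0 81212 0) (P.cons (P.lf 0 6034 0) P.nil)))))) (P.cons (P.cons (P.lf 0 191323798 0) (P.cons (P.lf 1456156 0 0) (P.cons (P.lf 1033050 0 0) (P.cons (P.lf 92663 0 0) (P.cons (P.lf 0 37520 0) P.nil))))) (P.cons (P.cons (P.lf 17242878 0 0) (P.cons (P.lf 0 2199733 0) (P.cons (P.lf 20503 0 0) (P.cons (P.lf 71430 0 0) P.nil)))) (P.cons (P.cons (P.lf 1187912 0 0) (P.cons (P.lf 0 204231 0) (P.cons (P.lf 0 1364 0) P.nil))) (P.cons (P.cons (P.lf 0 108346 0) (P.cons (P.lf 8980 0 0) P.nil)) (P.cons (P.cons (P.lf 0 7407 0) P.nil) P.nil)))))) 46442)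
 (EL.cons 1 (TM.mk (P.cons (P.cons (P.lf 145430053 0 0) (P.cons (P.lf 19263988 0 0) (P.cons (P.lf 1925880 0 0) (P.cons (P.lf 0 344011 0) (P.cons (P.lf 0 25580 0) (P.cons (P.lf 0 1899 0) P.nil)))))) (P.cons (P.cons (P.lf 0 44473689 0) (P.cons (P.lf 2550663 0 0) (P.cons (P.lf 534549 0 0) (P.cons (P.lf 0 8167 0) (P.cons (P.lf 0 14596 0) P.nil))))) (P.cons (P.cons (P.lf 0 525556 0) (P.cons (P.lf 0 565260 0) (P.cons (P.lf 49576 0 0) (P.cons (P.lf 24279 0 0) P.nil)))) (P.cons (P.cons (P.lf 750309 0 0) (P.cons (P.lf 0 133777 0) (P.cons (P.lf 1980 0 0) P.nil))) (P.cons (P.cons (P.lf 17611 0 0) (P.cons (P.lf 0 6661 0) P.nil)) (P.cons (P.cons (P.lf 0 3963 0) P.nil) P.nil)))))) 17810)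
 (EL.cons 5 (TM.mk (P.cons (P.cons (P.lf 45810246 0 0) (P.cons (P.lf 6068126 0 0) (P.cons (P.lf 606648 0 0) (P.cons (P.lf 0 108362 0) (P.cons (P.lf 0 8058 0) (P.cons (P.lf 0 598 0) P.nil)))))) (P.cons (P.cons (P.lf 0 9034368 0) (P.cons (P.lf 1462424 0 0) (P.cons (P.lf 234260 0 0) (P.cons (P.lf 0 14340 0) (P.cons (P.lf 0 5472 0) P.nil))))) (P.cons (P.cons (P.lf 0 1501768 0) (P.cons (P.lf 0 66284 0) (P.cons (P.lf 36354 0 0) (P.cons (P.lf 6930 0 0) P.nil)))) (P.cons (P.cons (P.lf 171150 0 0) (P.cons (P.lf 0 56984 0) (P.cons (P.lf 3124 0 0) P.nil))) (P.cons (P.cons (P.lf 28150 0 0) (P.cons (P.lf 0 7166 0) P.nil)) (P.cons (P.cons (P.lf 152 0 0) P.nil) P.nil)))))) 7230)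
 EL.nil)))
noncomputable def S111_125_364_512_6 : EL := (EL.cons 12 (TM.mk (P.lf 8589934592 0 0) 0)
 (EL.cons 3 (TM.mk (P.cons (P.lf 0 3184412906 0) (P.cons (P.lf 75449490 0 0) (P.cons (P.lf 4222650 0 0) (P.cons (P.lf 62415 0 0) (P.cons (P.lf 0 1207 0) (P.cons (P.lf 0 75 0) P.nil)))))) 70)
 (EL.cons 7 (TM.mk (P.cons (P.lf 0 1003085258 0) (P.cons (P.lf 0 85163854 0) (P.cons (P.lf 0 142133 0) (P.cons (P.lf 54543 0 0) (P.cons (P.lf 1571 0 0) (P.cons (P.lf 4 0 0) P.nil)))))) 45)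
 EL.nil)))
noncomputable def S111_125_364_512_7 : EL := (EL.cons 12 (TM.mk (P.cons (P.cons (P.lf 0 2685952088 0) (P.cons (P.lf 0 177893600 0) (P.cons (P.lf 0 11893544 0) (P.lf 3964512 0 0)))) (P.cons (P.cons (P.lf 492894562 0 0) (P.cons (P.lf 0 45310512 0) (P.cons (P.lf 0 3029352 0) (P.lf 1009784 0 0)))) (P.cons (P.cons (P.lf 15616944 0 0) (P.cons (P.lf 0 3922568 0) (P.cons (P.lf 0 262248 0) (P.lf 87416 0 0)))) (P.cons (P.cons (P.lf 0 930434 0) (P.cons (P.lf 0 92688 0) (P.cons (P.lf 0 6192 0) P.nil))) (P.cons (P.cons (P.lf 0 58990 0) (P.cons (P.lf 5200 0 0) P.nil)) (P.cons (P.cons (P.lf 0 364 0) P.nil) P.nil)))))) 4916)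
 (EL.cons 3 (TM.mk (P.cons (P.cons (P.lf 3147888871 0 0) (P.cons (P.lf 0 131895454 0) (P.cons (P.lf 0 8818216 0) (P.lf 2939402 0 0)))) (P.cons (P.cons (P.lf 54611501 0 0) (P.cons (P.lf 0 30469472 0) (P.cons (P.lf 0 2037114 0) (P.lf 679036 0 0)))) (P.cons (P.cons (P.lf 0 10234822 0) (P.cons (P.lf 0 1937436 0) (P.cons (P.lf 0 129526 0) (P.lf 43174 0 0)))) (P.cons (P.cons (P.lf 0 1231179 0) (P.cons (P.lf 47316 0 0) (P.cons (P.lf 3166 0 0) P.nil))) (P.cons (P.cons (P.lf 0 24631 0) (P.cons (P.lf 9946 0 0) P.nil)) (P.cons (P.cons (P.lf 2153 0 0) P.nil) P.nil)))))) 15009)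
 (EL.cons 7 (TM.mk (P.cons (P.cons (P.lf 0 2115615399 0) (P.cons (P.lf 244089573 0 0) (P.cons (P.lf 16319262 0 0) (P.lf 0 5439755 0)))) (P.cons (P.cons (P.lf 0 61642911 0) (P.cons (P.lf 34392526 0 0) (P.cons (P.lf 2299403 0 0) (P.lf 0 766468 0)))) (P.cons (P.cons (P.lf 14899645 0 0) (P.cons (P.lf 319461 0 0) (P.cons (P.lf 21359 0 0) (P.lf 0 7120 0)))) (P.cons (P.cons (P.lf 394035 0 0) (P.cons (P.lf 0 122855 0) (P.cons (P.lf 0 8211 0) P.nil))) (P.cons (P.cons (P.lf 0 31223 0) (P.cons (P.lf 0 3637 0) P.nil)) (P.cons (P.cons (P.lf 0 1762 0) P.nil) P.nil)))))) 8328)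
 (EL.cons 10 (TM.mk (P.cons (P.cons (P.lf 0 651884565 0) (P.cons (P.lf 0 100928100 0) (P.cons (P.lf 48623976 0 0) (P.cons (P.lf 1840074 0 0) (P.lf 0 460017 0))))) (P.cons (P.cons (P.lf 0 110692485 0) (P.cons (P.lf 0 17137974 0) (P.cons (P.lf 8256534 0 0) (P.cons (P.lf 312450 0 0) (P.lf 0 78111 0))))) (P.cons (P.cons (P.lf 0 4883739 0) (P.cons (P.lf 0 756123 0) (P.cons (P.lf 364275 0 0) (P.cons (P.lf 13785 0 0) P.nil)))) (P.cons (P.cons (P.lf 55206 0 0) (P.cons (P.lf 8547 0 0) (P.cons (P.lf 0 4116 0) P.nil))) (P.cons (P.cons (P.lf 8046 0 0) (P.cons (P.lf 1245 0 0) P.nil)) (P.cons (P.cons (P.lf 186 0 0) P.nil) P.nil)))))) 4515)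
 EL.nil))))
noncomputable def S111_125_364_512_8 : EL := (EL.cons 12 (TM.mk (P.cons (P.cons (P.lf 839859552 0 0) (P.cons (P.lf 111249668 0 0) (P.cons (P.lf 11121982 0 0) (P.cons (P.lf 0 1986674 0) (P.cons (P.lf 0 147738 0) (P.cons (P.lf 0 10978 0) P.nil)))))) (P.cons (P.cons (P.lf 0 308242434 0) (P.cons (P.lf 7920682 0 0) (P.cons (P.lf 2406276 0 0) (P.cons (P.lf 74426 0 0) (P.cons (P.lf 0 75258 0) P.nil))))) (P.cons (P.cons (P.lf 18516126 0 0) (P.cons (P.lf 0 3393652 0) (P.cons (P.lf 174578 0 0) (P.cons (P.lf 129314 0 0) P.nil)))) (P.cons (P.cons (P.lf 2374082 0 0) (P.cons (P.lf 0 518408 0) (P.cons (P.lf 10558 0 0) P.nil))) (P.cons (P.cons (P.lf 0 41494 0) (P.cons (P.lf 0 15892 0) P.nil)) (P.cons (P.cons (P.lf 0 9924 0) P.nil) P.nil)))))) 66102)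
 (EL.cons 3 (TM.mk (P.cons (P.cons (P.lf 0 1657253331 0) (P.cons (P.lf 0 6657091 0) (P.cons (P.lf 6383653 0 0) (P.cons (P.lf 1061460 0 0) (P.cons (P.lf 0 273841 0) (P.cons (P.lf 0 20345 0) P.nil)))))) (P.cons (P.cons (P.lf 205455423 0 0) (P.cons (P.lf 0 29593705 0) (P.cons (P.lf 1338271 0 0) (P.cons (P.lf 1103036 0 0) (P.cons (P.lf 0 133011 0) P.nil))))) (P.cons (P.cons (P.lf 33272667 0 0) (P.cons (P.lf 0 7174176 0) (P.cons (P.lf 173037 0 0) (P.cons (P.lf 247156 0 0) P.nil)))) (P.cons (P.cons (P.lf 0 25089 0) (P.cons (P.lf 0 460064 0) (P.cons (P.lf 30684 0 0) P.nil))) (P.cons (P.cons (P.lf 0 261150 0) (P.cons (P.lf 26851 0 0) P.nil)) (P.cons (P.cons (P.lf 0 12101 0) P.nil) P.nil)))))) 154987)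
 (EL.cons 7 (TM.mk (P.cons (P.cons (P.lf 1421120703 0 0) (P.cons (P.lf 0 52028803 0) (P.cons (P.lf 0 13158285 0) (P.cons (P.lf 0 134818 0) (P.cons (P.lf 388172 0 0) (P.cons (P.lf 28839 0 0) P.nil)))))) (P.cons (P.cons (P.lf 0 231908469 0) (P.cons (P.lf 33403986 0 0) (P.cons (P.lf 0 1510577 0) (P.cons (P.lf 0 1245053 0) (P.cons (P.lf 150130 0 0) P.nil))))) (P.cons (P.cons (P.lf 0 24964537 0) (P.cons (P.lf 6284110 0 0) (P.cons (P.lf 0 113295 0) (P.cons (P.lf 0 211369 0) P.nil)))) (P.cons (P.cons (P.lf 2148028 0 0) (P.cons (P.lf 19362 0 0) (P.cons (P.lf 0 24400 0) P.nil))) (P.cons (P.cons (P.lf 182130 0 0) (P.cons (P.lf 0 46290 0) P.nil)) (P.cons (P.cons (P.lf 0 4840 0) P.nil) P.nil)))))) 95451)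
 (EL.cons 10 (TM.mk (P.cons (P.cons (P.lf 407670318 0 0) (P.cons (P.lf 90118062 0 0) (P.cons (P.lf 0 24422532 0) (P.cons (P.lf 0 3486930 0) (P.cons (P.lf 0 16338 0) (P.cons (P.lf 58836 0 0) P.nil)))))) (P.cons (P.cons (P.lf 0 5586918 0) (P.cons (P.lf 10596954 0 0) (P.cons (P.lf 2957640 0 0) (P.cons (P.lf 0 975966 0) (P.cons (P.lf 0 133002 0) P.nil))))) (P.cons (P.cons (P.lf 0 12019338 0) (P.cons (P.lf 104514 0 0) (P.cons (P.lf 1332216 0 0) (P.cons (P.lf 0 136128 0) P.nil)))) (P.cons (P.cons (P.lf 0 856254 0) (P.cons (P.lf 31824 0 0) (P.cons (P.lf 100308 0 0) P.nil))) (P.cons (P.cons (P.lf 16476 0 0) (P.cons (P.lf 7692 0 0) P.nil)) (P.cons (P.cons (P.lf 3636 0 0) P.nil) P.nil)))))) 109044)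
 EL.nil))))
noncomputable def S111_125_364_512_9 : EL := (EL.cons 3 (TM.mk (P.cons (P.lf 0 3184412906 0) (P.cons (P.lf 75449490 0 0) (P.cons (P.lf 4222650 0 0) (P.cons (P.lf 62415 0 0) (P.cons (P.lf 0 1207 0) (P.cons (P.lf 0 75 0) P.nil)))))) 70)
 (EL.cons 7 (TM.mk (P.cons (P.lf 0 1003085258 0) (P.cons (P.lf 0 85163854 0) (P.cons (P.lf 0 142133 0) (P.cons (P.lf 54543 0 0) (P.cons (P.lf 1571 0 0) (P.cons (P.lf 4 0 0) P.nil)))))) 45)
 EL.nil))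
noncomputable def S111_125_364_512_10 : EL := (EL.cons 3 (TM.mk (P.cons (P.cons (P.lf 995721259 0 0) (P.cons (P.lf 65947727 0 0) (P.cons (P.lf 4409108 0 0) (P.lf 0 1469701 0)))) (P.cons (P.cons (P.lf 0 206315134 0) (P.cons (P.lf 15234736 0 0) (P.cons (P.lf 1018557 0 0) (P.lf 0 339518 0)))) (P.cons (P.cons (P.lf 0 2780461 0) (P.cons (P.lf 968718 0 0) (P.cons (P.lf 64763 0 0) (P.lf 0 21587 0)))) (P.cons (P.cons (P.lf 704877 0 0) (P.cons (P.lf 0 23658 0) (P.cons (P.lf 0 1583 0) P.nil))) (P.cons (P.cons (P.lf 25331 0 0) (P.cons (P.lf 0 4973 0) P.nil)) (P.cons (P.cons (P.lf 0 772 0) P.nil) P.nil)))))) 3665)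
 (EL.cons 7 (TM.mk (P.cons (P.cons (P.lf 313650693 0 0) (P.cons (P.lf 20773434 0 0) (P.cons (P.lf 1388862 0 0) (P.lf 0 462953 0)))) (P.cons (P.cons (P.lf 0 30927969 0) (P.cons (P.lf 7054816 0 0) (P.cons (P.lf 471668 0 0) (P.lf 0 157222 0)))) (P.cons (P.cons (P.lf 0 6665960 0) (P.cons (P.lf 910224 0 0) (P.cons (P.lf 60854 0 0) (P.lf 0 20284 0)))) (P.cons (P.cons (P.lf 0 71391 0) (P.cons (P.lf 49333 0 0) (P.cons (P.lf 3297 0 0) P.nil))) (P.cons (P.cons (P.lf 18493 0 0) (P.cons (P.lf 56 0 0) P.nil)) (P.cons (P.cons (P.lf 830 0 0) P.nil) P.nil)))))) 1769)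
 EL.nil))
noncomputable def S111_125_364_512_11 : EL := (EL.cons 3 (TM.mk (P.cons (P.cons (P.lf 0 311348073 0) (P.cons (P.lf 0 41241859 0) (P.cons (P.lf 0 4123079 0) (P.cons (P.lf 736488 0 0) (P.cons (P.lf 54767 0 0) (P.cons (P.lf 4069 0 0) P.nil)))))) (P.cons (P.cons (P.lf 121646811 0 0) (P.cons (P.lf 0 1959151 0) (P.cons (P.lf 0 794351 0) (P.cons (P.lf 0 45040 0) (P.cons (P.lf 26601 0 0) P.nil))))) (P.cons (P.cons (P.lf 0 9158775 0) (P.cons (P.lf 1382334 0 0) (P.cons (P.lf 0 38115 0) (P.cons (P.lf 0 48260 0) P.nil)))) (P.cons (P.cons (P.lf 0 862893 0) (P.cons (P.lf 167074 0 0) (P.cons (P.lf 0 1116 0) P.nil))) (P.cons (P.cons (P.lf 42978 0 0) (P.cons (P.lf 0 287 0) P.nil)) (P.cons (P.cons (P.lf 4651 0 0) P.nil) P.nil)))))) 28071)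
 (EL.cons 7 (TM.mk (P.cons (P.cons (P.lf 0 98074173 0) (P.cons (P.lf 0 12991123 0) (P.cons (P.lf 0 1298763 0) (P.cons (P.lf 231992 0 0) (P.cons (P.lf 17252 0 0) (P.cons (P.lf 1281 0 0) P.nil)))))) (P.cons (P.cons (P.lf 27668169 0 0) (P.cons (P.lf 0 2027904 0) (P.cons (P.lf 0 391259 0) (P.cons (P.lf 11005 0 0) (P.cons (P.lf 10252 0 0) P.nil))))) (P.cons (P.cons (P.lf 879923 0 0) (P.cons (P.lf 315922 0 0) (P.cons (P.lf 0 44427 0) (P.cons (P.lf 0 15805 0) P.nil)))) (P.cons (P.cons (P.lf 0 450374 0) (P.cons (P.lf 94758 0 0) (P.cons (P.lf 0 2932 0) P.nil))) (P.cons (P.cons (P.lf 0 20802 0) (P.cons (P.lf 7122 0 0) P.nil)) (P.cons (P.cons (P.lf 1592 0 0) P.nil) P.nil)))))) 11003)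
 EL.nil))
noncomputable def S111_125_364_512_12 : EL := (EL.cons 4 (TM.mk (P.cons (P.lf 3184412906 0 0) (P.cons (P.lf 0 75449490 0) (P.cons (P.lf 0 4222650 0) (P.cons (P.lf 0 62415 0) (P.cons (P.lf 1207 0 0) (P.cons (P.lf 75 0 0) P.nil)))))) 70)
 (EL.cons 8 (TM.mk (P.cons (P.lf 1003085258 0 0) (P.cons (P.lf 85163854 0 0) (P.cons (P.lf 142133 0 0) (P.cons (P.lf 0 54543 0) (P.cons (P.lf 0 1571 0) (P.cons (P.lf 0 4 0) P.nil)))))) 45)
 EL.nil))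
noncomputable def S111_125_364_512_13 : EL := (EL.cons 4 (TM.mk (P.cons (P.cons (P.lf 0 995721259 0) (P.cons (P.lf 0 65947727 0) (P.cons (P.lf 0 4409108 0) (P.lf 1469701 0 0)))) (P.cons (P.cons (P.lf 206315134 0 0) (P.cons (P.lf 0 15234736 0) (P.cons (P.lf 0 1018557 0) (P.lf 339518 0 0)))) (P.cons (P.cons (P.lf 2780461 0 0) (P.cons (P.lf 0 968718 0) (P.cons (P.lf 0 64763 0) (P.lf 21587 0 0)))) (P.cons (P.cons (P.lf 0 704877 0) (P.cons (P.lf 23658 0 0) (P.cons (P.lf 1583 0 0) P.nil))) (P.cons (P.cons (P.lf 0 25331 0) (P.cons (P.lf 4973 0 0) P.nil)) (P.cons (P.cons (P.lf 772 0 0) P.nil) P.nil)))))) 3665)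
 (EL.cons 8 (TM.mk (P.cons (P.cons (P.lf 0 313650693 0) (P.cons (P.lf 0 20773434 0) (P.cons (P.lf 0 1388862 0) (P.lf 462953 0 0)))) (P.cons (P.cons (P.lf 30927969 0 0) (P.cons (P.lf 0 7054816 0) (P.cons (P.lf 0 471668 0) (P.lf 157222 0 0)))) (P.cons (P.cons (P.lf 6665960 0 0) (P.cons (P.lf 0 910224 0) (P.cons (P.lf 0 60854 0) (P.lf 20284 0 0)))) (P.cons (P.cons (P.lf 71391 0 0) (P.cons (P.lf 0 49333 0) (P.cons (P.lf 0 3297 0) P.nil))) (P.cons (P.cons (P.lf 0 18493 0) (P.cons (P.lf 0 56 0) P.nil)) (P.cons (P.cons (P.lf 0 830 0) P.nil) P.nil)))))) 1769)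
 EL.nil))
noncomputable def S111_125_364_512_14 : EL := (EL.cons 4 (TM.mk (P.cons (P.cons (P.lf 311348073 0 0) (P.cons (P.lf 41241859 0 0) (P.cons (P.lf 4123079 0 0) (P.cons (P.lf 0 736488 0) (P.cons (P.lf 0 54767 0) (P.cons (P.lf 0 4069 0) P.nil)))))) (P.cons (P.cons (P.lf 0 121646811 0) (P.cons (P.lf 1959151 0 0) (P.cons (P.lf 794351 0 0) (P.cons (P.lf 45040 0 0) (P.cons (P.lf 0 26601 0) P.nil))))) (P.cons (P.cons (P.lf 9158775 0 0) (P.cons (P.lf 0 1382334 0) (P.cons (P.lf 38115 0 0) (P.cons (P.lf 48260 0 0) P.nil)))) (P.cons (P.cons (P.lf 862893 0 0) (P.cons (P.lf 0 167074 0) (P.cons (P.lf 1116 0 0) P.nil))) (P.cons (P.cons (P.lf 0 42978 0) (P.cons (P.lf 287 0 0) P.nil)) (P.cons (P.cons (P.lf 0 4651 0) P.nil) P.nil)))))) 28071)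
 (EL.cons 8 (TM.mk (P.cons (P.cons (P.lf 98074173 0 0) (P.cons (P.lf 12991123 0 0) (P.cons (P.lf 1298763 0 0) (P.cons (P.lf 0 231992 0) (P.cons (P.lf 0 17252 0) (P.cons (P.lf 0 1281 0) P.nil)))))) (P.cons (P.cons (P.lf 0 27668169 0) (P.cons (P.lf 2027904 0 0) (P.cons (P.lf 391259 0 0) (P.cons (P.lf 0 11005 0) (P.cons (P.lf 0 10252 0) P.nil))))) (P.cons (P.cons (P.lf 0 879923 0) (P.cons (P.lf 0 315922 0) (P.cons (P.lf 44427 0 0) (P.cons (P.lf 15805 0 0) P.nil)))) (P.cons (P.cons (P.lf 450374 0 0) (P.cons (P.lf 0 94758 0) (P.cons (P.lf 2932 0 0) P.nil))) (P.cons (P.cons (P.lf 20802 0 0) (P.cons (P.lf 0 7122 0) P.nil)) (P.cons (P.cons (P.lf 0 1592 0) P.nil) P.nil)))))) 11003)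
 EL.nil))
noncomputable def S111_125_364_512_15 : EL := (EL.cons 4 (TM.mk (P.cons (P.lf 0 2518416830 0) (P.cons (P.lf 119339589 0 0) (P.cons (P.lf 5265249 0 0) (P.cons (P.lf 0 59525 0) (P.cons (P.lf 0 8676 0) (P.cons (P.lf 0 203 0) P.nil)))))) 123)
 (EL.cons 8 (TM.mk (P.cons (P.lf 0 793297499 0) (P.cons (P.lf 0 48556577 0) (P.cons (P.lf 2535342 0 0) (P.cons (P.lf 150659 0 0) (P.cons (P.lf 1388 0 0) (P.cons (P.lf 0 125 0) P.nil)))))) 64)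
 EL.nil))
noncomputable def S111_125_364_512_16 : EL := (EL.cons 4 (TM.mk (P.cons (P.cons (P.lf 787473626 0 0) (P.cons (P.lf 52155255 0 0) (P.cons (P.lf 3486975 0 0) (P.lf 0 1162324 0)))) (P.cons (P.cons (P.lf 0 181823779 0) (P.cons (P.lf 10812771 0 0) (P.cons (P.lf 722915 0 0) (P.lf 0 240971 0)))) (P.cons (P.cons (P.lf 622781 0 0) (P.cons (P.lf 411489 0 0) (P.cons (P.lf 27509 0 0) (P.lf 0 9169 0)))) (P.cons (P.cons (P.lf 810487 0 0) (P.cons (P.lf 0 53861 0) (P.cons (P.lf 0 3601 0) P.nil))) (P.cons (P.cons (P.lf 13237 0 0) (P.cons (P.lf 0 4722 0) P.nil)) (P.cons (P.cons (P.lf 0 1825 0) P.nil) P.nil)))))) 4104)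
 (EL.cons 8 (TM.mk (P.cons (P.cons (P.lf 248053003 0 0) (P.cons (P.lf 16428826 0 0) (P.cons (P.lf 1098392 0 0) (P.lf 0 366130 0)))) (P.cons (P.cons (P.lf 0 30336829 0) (P.cons (P.lf 5190099 0 0) (P.cons (P.lf 346997 0 0) (P.lf 0 115665 0)))) (P.cons (P.cons (P.lf 0 5021221 0) (P.cons (P.lf 565878 0 0) (P.cons (P.lf 37832 0 0) (P.lf 0 12610 0)))) (P.cons (P.cons (P.lf 96018 0 0) (P.cons (P.lf 14239 0 0) (P.cons (P.lf 951 0 0) P.nil))) (P.cons (P.cons (P.lf 23527 0 0) (P.cons (P.lf 0 1937 0) P.nil)) (P.cons (P.cons (P.lf 485 0 0) P.nil) P.nil)))))) 1721)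
 EL.nil))
noncomputable def S111_125_364_512_17 : EL := (EL.cons 4 (TM.mk (P.cons (P.cons (P.lf 0 246231960 0) (P.cons (P.lf 0 32616434 0) (P.cons (P.lf 0 3260767 0) (P.cons (P.lf 582457 0 0) (P.cons (P.lf 43313 0 0) (P.cons (P.lf 3218 0 0) P.nil)))))) (P.cons (P.cons (P.lf 102039359 0 0) (P.cons (P.lf 0 776616 0) (P.cons (P.lf 0 550960 0) (P.cons (P.lf 0 49420 0) (P.cons (P.lf 20010 0 0) P.nil))))) (P.cons (P.cons (P.lf 0 9196201 0) (P.cons (P.lf 1173191 0 0) (P.cons (P.lf 0 10935 0) (P.cons (P.lf 0 38096 0) P.nil)))) (P.cons (P.cons (P.lf 0 633553 0) (P.cons (P.lf 108923 0 0) (P.cons (P.lf 727 0 0) P.nil))) (P.cons (P.cons (P.lf 57784 0 0) (P.cons (P.lf 0 4789 0) P.nil)) (P.cons (P.cons (P.lf 3950 0 0) P.nil) P.nil)))))) 24779)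
 (EL.cons 8 (TM.mk (P.cons (P.cons (P.lf 0 77562695 0) (P.cons (P.lf 0 10274127 0) (P.cons (P.lf 0 1027136 0) (P.cons (P.lf 183473 0 0) (P.cons (P.lf 13643 0 0) (P.cons (P.lf 1013 0 0) P.nil)))))) (P.cons (P.cons (P.lf 23719301 0 0) (P.cons (P.lf 0 1360354 0) (P.cons (P.lf 0 285093 0) (P.cons (P.lf 4356 0 0) (P.cons (P.lf 7785 0 0) P.nil))))) (P.cons (P.cons (P.lf 280297 0 0) (P.cons (P.lf 301472 0 0) (P.cons (P.lf 0 26441 0) (P.cons (P.lf 0 12949 0) P.nil)))) (P.cons (P.cons (P.lf 0 400165 0) (P.cons (P.lf 71348 0 0) (P.cons (P.lf 0 1056 0) P.nil))) (P.cons (P.cons (P.lf 0 9393 0) (P.cons (P.lf 3553 0 0) P.nil)) (P.cons (P.cons (P.lf 2114 0 0) P.nil) P.nil)))))) 9487)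
 EL.nil))
noncomputable def S111_125_364_512_18 : EL := (EL.cons 4 (TM.mk (P.cons (P.lf 1991708838 0 0) (P.cons (P.lf 0 141570914 0) (P.cons (P.lf 0 4568946 0) (P.cons (P.lf 231851 0 0) (P.cons (P.lf 13873 0 0) (P.cons (P.lf 28 0 0) P.nil)))))) 167)
 (EL.cons 8 (TM.mk (P.cons (P.lf 627385277 0 0) (P.cons (P.lf 23536458 0 0) (P.cons (P.lf 0 3746887 0) (P.cons (P.lf 0 134861 0) (P.cons (P.lf 3868 0 0) (P.cons (P.lf 351 0 0) P.nil)))))) 75)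
 EL.nil))
noncomputable def S111_125_364_512_19 : EL := (EL.cons 4 (TM.mk (P.cons (P.cons (P.lf 0 622779422 0) (P.cons (P.lf 0 41247375 0) (P.cons (P.lf 0 2757701 0) (P.lf 919232 0 0)))) (P.cons (P.cons (P.lf 158552445 0 0) (P.cons (P.lf 0 7574071 0) (P.cons (P.lf 0 506384 0) (P.lf 168794 0 0)))) (P.cons (P.cons (P.lf 0 3073731 0) (P.cons (P.lf 0 68123 0) (P.cons (P.lf 0 4552 0) (P.lf 1516 0 0)))) (P.cons (P.cons (P.lf 0 807782 0) (P.cons (P.lf 62455 0 0) (P.cons (P.lf 4176 0 0) P.nil))) (P.cons (P.cons (P.lf 2315 0 0) (P.cons (P.lf 3309 0 0) P.nil)) (P.cons (P.cons (P.lf 2591 0 0) P.nil) P.nil)))))) 4271)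
 (EL.cons 8 (TM.mk (P.cons (P.cons (P.lf 0 196174578 0) (P.cons (P.lf 0 12992860 0) (P.cons (P.lf 0 868671 0) (P.lf 289557 0 0)))) (P.cons (P.cons (P.lf 28640147 0 0) (P.cons (P.lf 0 3796784 0) (P.cons (P.lf 0 253843 0) (P.lf 84614 0 0)))) (P.cons (P.cons (P.lf 3662751 0 0) (P.cons (P.lf 0 333048 0) (P.cons (P.lf 0 22266 0) (P.lf 7422 0 0)))) (P.cons (P.cons (P.lf 0 197994 0) (P.cons (P.lf 5039 0 0) (P.cons (P.lf 337 0 0) P.nil))) (P.cons (P.cons (P.lf 0 22617 0) (P.cons (P.lf 2467 0 0) P.nil)) (P.cons (P.cons (P.lf 84 0 0) P.nil) P.nil)))))) 1610)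
 EL.nil))
noncomputable def S111_125_364_512_20 : EL := (EL.cons 4 (TM.mk (P.cons (P.cons (P.lf 194734392 0 0) (P.cons (P.lf 25794951 0 0) (P.cons (P.lf 2578802 0 0) (P.cons (P.lf 0 460640 0) (P.cons (P.lf 0 34255 0) (P.cons (P.lf 0 2545 0) P.nil)))))) (P.cons (P.cons (P.lf 0 85312507 0) (P.cons (P.lf 3023 0 0) (P.cons (P.lf 374629 0 0) (P.cons (P.lf 49998 0 0) (P.cons (P.lf 0 15014 0) P.nil))))) (P.cons (P.cons (P.lf 8926682 0 0) (P.cons (P.lf 0 976584 0) (P.cons (P.lf 0 5094 0) (P.cons (P.lf 29813 0 0) P.nil)))) (P.cons (P.cons (P.lf 431924 0 0) (P.cons (P.lf 0 65479 0) (P.cons (P.lf 0 1408 0) P.nil))) (P.cons (P.cons (P.lf 0 65560 0) (P.cons (P.lf 7057 0 0) P.nil)) (P.cons (P.cons (P.lf 0 2874 0) P.nil) P.nil)))))) 21701)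
 (EL.cons 8 (TM.mk (P.cons (P.cons (P.lf 61341039 0 0) (P.cons (P.lf 8125370 0 0) (P.cons (P.lf 812318 0 0) (P.cons (P.lf 0 145101 0) (P.cons (P.lf 0 10790 0) (P.cons (P.lf 0 801 0) P.nil)))))) (P.cons (P.cons (P.lf 0 20211963 0) (P.cons (P.lf 883329 0 0) (P.cons (P.lf 206222 0 0) (P.cons (P.lf 0 7 0) (P.cons (P.lf 0 5901 0) P.nil))))) (P.cons (P.cons (P.lf 141438 0 0) (P.cons (P.lf 0 274686 0) (P.cons (P.lf 14492 0 0) (P.cons (P.lf 10515 0 0) P.nil)))) (P.cons (P.cons (P.lf 345398 0 0) (P.cons (P.lf 0 52363 0) (P.cons (P.lf 25 0 0) P.nil))) (P.cons (P.cons (P.lf 615 0 0) (P.cons (P.lf 0 1175 0) P.nil)) (P.cons (P.cons (P.lf 0 2269 0) P.nil) P.nil)))))) 8279)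
 EL.nil))
noncomputable def S111_125_364_512_21 : EL := (EL.cons 4 (TM.mk (P.cons (P.cons (P.lf 0 2152167612 0) (P.cons (P.lf 197843181 0 0) (P.cons (P.lf 13227324 0 0) (P.lf 0 4409103 0)))) (P.cons (P.cons (P.lf 0 260926635 0) (P.cons (P.lf 45704208 0 0) (P.cons (P.lf 3055671 0 0) (P.lf 0 1018554 0)))) (P.cons (P.cons (P.lf 7454361 0 0) (P.cons (P.lf 2906154 0 0) (P.cons (P.lf 194289 0 0) (P.lf 0 64761 0)))) (P.cons (P.cons (P.lf 1936056 0 0) (P.cons (P.lf 0 70974 0) (P.cons (P.lf 0 4749 0) P.nil))) (P.cons (P.cons (P.lf 49962 0 0) (P.cons (P.lf 0 14919 0) P.nil)) (P.cons (P.cons (P.lf 0 2925 0) P.nil) P.nil)))))) 11325)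
 (EL.cons 8 (TM.mk (P.cons (P.cons (P.lf 2429266092 0 0) (P.cons (P.lf 0 223316139 0) (P.cons (P.lf 0 14930400 0) (P.lf 4976802 0 0)))) (P.cons (P.cons (P.lf 30714942 0 0) (P.cons (P.lf 0 27337710 0) (P.cons (P.lf 0 1827735 0) (P.lf 609246 0 0)))) (P.cons (P.cons (P.lf 0 21565605 0) (P.cons (P.lf 590763 0 0) (P.cons (P.lf 39495 0 0) (P.lf 0 13164 0)))) (P.cons (P.cons (P.lf 0 465426 0) (P.cons (P.lf 172188 0 0) (P.cons (P.lf 11508 0 0) P.nil))) (P.cons (P.cons (P.lf 49716 0 0) (P.cons (P.lf 3693 0 0) P.nil)) (P.cons (P.cons (P.lf 2592 0 0) P.nil) P.nil)))))) 6540)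
 (EL.cons 11 (TM.mk (P.cons (P.cons (P.lf 651884565 0 0) (P.cons (P.lf 100928100 0 0) (P.cons (P.lf 0 48623976 0) (P.cons (P.lf 0 1840074 0) (P.lf 460017 0 0))))) (P.cons (P.cons (P.lf 110692485 0 0) (P.cons (P.lf 17137974 0 0) (P.cons (P.lf 0 8256534 0) (P.cons (P.lf 0 312450 0) (P.lf 78111 0 0))))) (P.cons (P.cons (P.lf 4883739 0 0) (P.cons (P.lf 756123 0 0) (P.cons (P.lf 0 364275 0) (P.cons (P.lf 0 13785 0) P.nil)))) (P.cons (P.cons (P.lf 0 55206 0) (P.cons (P.lf 0 8547 0) (P.cons (P.lf 4116 0 0) P.nil))) (P.cons (P.cons (P.lf 0 8046 0) (P.cons (P.lf 0 1245 0) P.nil)) (P.cons (P.cons (P.lf 0 186 0) P.nil) P.nil)))))) 4515)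
 EL.nil)))
noncomputable def S111_125_364_512_22 : EL := (EL.cons 4 (TM.mk (P.cons (P.cons (P.lf 672952629 0 0) (P.cons (P.lf 0 17292384 0) (P.cons (P.lf 0 5253366 0) (P.cons (P.lf 0 162486 0) (P.cons (P.lf 164304 0 0) (P.cons (P.lf 12207 0 0) P.nil)))))) (P.cons (P.cons (P.lf 0 41904306 0) (P.cons (P.lf 13817277 0 0) (P.cons (P.lf 0 1066311 0) (P.cons (P.lf 0 574038 0) (P.cons (P.lf 79806 0 0) P.nil))))) (P.cons (P.cons (P.lf 0 21215721 0) (P.cons (P.lf 4278255 0 0) (P.cons (P.lf 0 105576 0) (P.cons (P.lf 0 147708 0) P.nil)))) (P.cons (P.cons (P.lf 0 418902 0) (P.cons (P.lf 313569 0 0) (P.cons (P.lf 0 15900 0) P.nil))) (P.cons (P.cons (P.lf 152064 0 0) (P.cons (P.lf 0 13569 0) P.nil)) (P.cons (P.cons (P.lf 8376 0 0) P.nil) P.nil)))))) 63447)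
 (EL.cons 8 (TM.mk (P.cons (P.cons (P.lf 0 759597438 0) (P.cons (P.lf 19518840 0 0) (P.cons (P.lf 5929761 0 0) (P.cons (P.lf 183405 0 0) (P.cons (P.lf 0 185460 0) (P.cons (P.lf 0 13779 0) P.nil)))))) (P.cons (P.cons (P.lf 129788319 0 0) (P.cons (P.lf 0 17715945 0) (P.cons (P.lf 559659 0 0) (P.cons (P.lf 628029 0 0) (P.cons (P.lf 0 69939 0) P.nil))))) (P.cons (P.cons (P.lf 12922230 0 0) (P.cons (P.lf 0 2984094 0) (P.cons (P.lf 34434 0 0) (P.cons (P.lf 97782 0 0) P.nil)))) (P.cons (P.cons (P.lf 0 1299201 0) (P.cons (P.lf 37698 0 0) (P.cons (P.lf 10734 0 0) P.nil))) (P.cons (P.cons (P.lf 0 101466 0) (P.cons (P.lf 26706 0 0) P.nil)) (P.cons (P.cons (P.lf 3216 0 0) P.nil) P.nil)))))) 42213)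
 (EL.cons 11 (TM.mk (P.cons (P.cons (P.lf 0 203835159 0) (P.cons (P.lf 0 45059031 0) (P.cons (P.lf 12211266 0 0) (P.cons (P.lf 1743465 0 0) (P.cons (P.lf 8169 0 0) (P.cons (P.lf 0 29418 0) P.nil)))))) (P.cons (P.cons (P.lf 2793459 0 0) (P.cons (P.lf 0 5298477 0) (P.cons (P.lf 0 1478820 0) (P.cons (P.lf 487983 0 0) (P.cons (P.lf 66501 0 0) P.nil))))) (P.cons (P.cons (P.lf 6009669 0 0) (P.cons (P.lf 0 52257 0) (P.cons (P.lf 0 666108 0) (P.cons (P.lf 68064 0 0) P.nil)))) (P.cons (P.cons (P.lf 428127 0 0) (P.cons (P.lf 0 15912 0) (P.cons (P.lf 0 50154 0) P.nil))) (P.cons (P.cons (P.lf 0 8238 0) (P.cons (P.lf 0 3846 0) P.nil)) (P.cons (P.cons (P.lf 0 1818 0) P.nil) P.nil)))))) 54522)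
 EL.nil)))
noncomputable def S111_125_364_512_23 : EL := (EL.cons 4 (TM.mk (P.cons (P.cons (P.lf 1702057896 0 0) (P.cons (P.lf 0 156465762 0) (P.cons (P.lf 0 10460928 0) (P.lf 3486972 0 0)))) (P.cons (P.cons (P.lf 166028289 0 0) (P.cons (P.lf 0 32438313 0) (P.cons (P.lf 0 2168745 0) (P.lf 722910 0 0)))) (P.cons (P.cons (P.lf 0 13041594 0) (P.cons (P.lf 0 1234464 0) (P.cons (P.lf 0 82524 0) (P.lf 27507 0 0)))) (P.cons (P.cons (P.lf 0 1698459 0) (P.cons (P.lf 161583 0 0) (P.cons (P.lf 10803 0 0) P.nil))) (P.cons (P.cons (P.lf 1182 0 0) (P.cons (P.lf 14163 0 0) P.nil)) (P.cons (P.cons (P.lf 5511 0 0) P.nil) P.nil)))))) 12654)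
 (EL.cons 8 (TM.mk (P.cons (P.cons (P.lf 0 1921203309 0) (P.cons (P.lf 176611242 0 0) (P.cons (P.lf 11807817 0 0) (P.lf 0 3935940 0)))) (P.cons (P.cons (P.lf 21228648 0 0) (P.cons (P.lf 17435715 0 0) (P.cons (P.lf 1165710 0 0) (P.lf 0 388569 0)))) (P.cons (P.cons (P.lf 20178444 0 0) (P.cons (P.lf 0 1213656 0) (P.cons (P.lf 0 81138 0) (P.lf 27045 0 0)))) (P.cons (P.cons (P.lf 33852 0 0) (P.cons (P.lf 0 157236 0) (P.cons (P.lf 0 10509 0) P.nil))) (P.cons (P.cons (P.lf 0 70905 0) (P.cons (P.lf 567 0 0) P.nil)) (P.cons (P.cons (P.lf 0 1995 0) P.nil) P.nil)))))) 7089)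
 (EL.cons 11 (TM.mk (P.cons (P.cons (P.lf 0 515547795 0) (P.cons (P.lf 0 79819743 0) (P.cons (P.lf 38454636 0 0) (P.cons (P.lf 1455234 0 0) (P.lf 0 363807 0))))) (P.cons (P.cons (P.lf 0 75326913 0) (P.cons (P.lf 0 11662494 0) (P.cons (P.lf 5618619 0 0) (P.cons (P.lf 212622 0 0) (P.lf 0 53154 0))))) (P.cons (P.cons (P.lf 0 1104540 0) (P.cons (P.lf 0 171006 0) (P.cons (P.lf 82383 0 0) (P.cons (P.lf 3117 0 0) P.nil)))) (P.cons (P.cons (P.lf 261360 0 0) (P.cons (P.lf 40464 0 0) (P.cons (P.lf 0 19491 0) P.nil))) (P.cons (P.cons (P.lf 11970 0 0) (P.cons (P.lf 1851 0 0) P.nil)) (P.cons (P.cons (P.lf 0 30 0) P.nil) P.nil)))))) 7092)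
 EL.nil)))
noncomputable def S111_125_364_512_24 : EL := (EL.cons 4 (TM.mk (P.cons (P.cons (P.lf 0 532209636 0) (P.cons (P.lf 13675812 0 0) (P.cons (P.lf 4154664 0 0) (P.cons (P.lf 128505 0 0) (P.cons (P.lf 0 129942 0) (P.cons (P.lf 0 9654 0) P.nil)))))) (P.cons (P.cons (P.lf 45750177 0 0) (P.cons (P.lf 0 11251521 0) (P.cons (P.lf 744861 0 0) (P.cons (P.lf 450936 0 0) (P.cons (P.lf 0 60036 0) P.nil))))) (P.cons (P.cons (P.lf 16699134 0 0) (P.cons (P.lf 0 3142713 0) (P.cons (P.lf 58005 0 0) (P.cons (P.lf 105888 0 0) P.nil)))) (P.cons (P.cons (P.lf 0 99759 0) (P.cons (P.lf 0 153600 0) (P.cons (P.lf 9396 0 0) P.nil))) (P.cons (P.cons (P.lf 0 151209 0) (P.cons (P.lf 21312 0 0) P.nil)) (P.cons (P.cons (P.lf 0 4542 0) P.nil) P.nil)))))) 47043)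
 (EL.cons 8 (TM.mk (P.cons (P.cons (P.lf 600733332 0 0) (P.cons (P.lf 0 15436620 0) (P.cons (P.lf 0 4689594 0) (P.cons (P.lf 0 145047 0) (P.cons (P.lf 146673 0 0) (P.cons (P.lf 10899 0 0) P.nil)))))) (P.cons (P.cons (P.lf 0 116877465 0) (P.cons (P.lf 14376531 0 0) (P.cons (P.lf 0 331500 0) (P.cons (P.lf 0 493242 0) (P.cons (P.lf 51837 0 0) P.nil))))) (P.cons (P.cons (P.lf 0 8584251 0) (P.cons (P.lf 2048499 0 0) (P.cons (P.lf 0 10527 0) (P.cons (P.lf 0 65370 0) P.nil)))) (P.cons (P.cons (P.lf 1393956 0 0) (P.cons (P.lf 0 104007 0) (P.cons (P.lf 0 7164 0) P.nil))) (P.cons (P.cons (P.lf 71691 0 0) (P.cons (P.lf 0 23823 0) P.nil)) (P.cons (P.cons (P.lf 0 5631 0) P.nil) P.nil)))))) 31353)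
 (EL.cons 11 (TM.mk (P.cons (P.cons (P.lf 161204565 0 0) (P.cons (P.lf 35635272 0 0) (P.cons (P.lf 0 9657372 0) (P.cons (P.lf 0 1378830 0) (P.cons (P.lf 0 6462 0) (P.cons (P.lf 23265 0 0) P.nil)))))) (P.cons (P.cons (P.lf 0 6028707 0) (P.cons (P.lf 3346020 0 0) (P.cons (P.lf 1398351 0 0) (P.cons (P.lf 0 353256 0) (P.cons (P.lf 0 52440 0) P.nil))))) (P.cons (P.cons (P.lf 0 4914210 0) (P.cons (P.lf 0 105207 0) (P.cons (P.lf 511893 0 0) (P.cons (P.lf 0 42855 0) P.nil)))) (P.cons (P.cons (P.lf 0 226206 0) (P.cons (P.lf 5349 0 0) (P.cons (P.lf 25821 0 0) P.nil))) (P.cons (P.cons (P.lf 20943 0 0) (P.cons (P.lf 2619 0 0) P.nil)) (P.cons (P.cons (P.lf 1830 0 0) P.nil) P.nil)))))) 39933)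
 EL.nil)))
noncomputable def S111_125_364_512_25 : EL := (EL.cons 4 (TM.mk (P.cons (P.cons (P.lf 0 1346085252 0) (P.cons (P.lf 123742122 0 0) (P.cons (P.lf 8273103 0 0) (P.lf 0 2757696 0)))) (P.cons (P.cons (P.lf 0 99411414 0) (P.cons (P.lf 22722213 0 0) (P.cons (P.lf 1519149 0 0) (P.lf 0 506379 0)))) (P.cons (P.cons (P.lf 15210051 0 0) (P.cons (P.lf 204366 0 0) (P.cons (P.lf 13656 0 0) (P.lf 0 4551 0)))) (P.cons (P.cons (P.lf 1299363 0 0) (P.cons (P.lf 0 187362 0) (P.cons (P.lf 0 12528 0) P.nil))) (P.cons (P.cons (P.lf 0 44373 0) (P.cons (P.lf 0 9924 0) P.nil)) (P.cons (P.cons (P.lf 0 6402 0) P.nil) P.nil)))))) 12417)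
 (EL.cons 8 (TM.mk (P.cons (P.cons (P.lf 1519398045 0 0) (P.cons (P.lf 0 139674324 0) (P.cons (P.lf 0 9338301 0) (P.lf 3112767 0 0)))) (P.cons (P.cons (P.lf 0 52788501 0) (P.cons (P.lf 0 10479810 0) (P.cons (P.lf 0 700653 0) (P.lf 233550 0 0)))) (P.cons (P.cons (P.lf 0 17575269 0) (P.cons (P.lf 1471755 0 0) (P.cons (P.lf 98394 0 0) (P.lf 0 32796 0)))) (P.cons (P.cons (P.lf 343812 0 0) (P.cons (P.lf 122631 0 0) (P.cons (P.lf 8196 0 0) P.nil))) (P.cons (P.cons (P.lf 78777 0 0) (P.cons (P.lf 0 4449 0) P.nil)) (P.cons (P.cons (P.lf 624 0 0) P.nil) P.nil)))))) 6828)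
 (EL.cons 11 (TM.mk (P.cons (P.cons (P.lf 407724840 0 0) (P.cons (P.lf 63126042 0 0) (P.cons (P.lf 0 30412137 0) (P.cons (P.lf 0 1150884 0) (P.lf 287718 0 0))))) (P.cons (P.cons (P.lf 49912476 0 0) (P.cons (P.lf 7727703 0 0) (P.cons (P.lf 0 3722961 0) (P.cons (P.lf 0 140886 0) (P.lf 35220 0 0))))) (P.cons (P.cons (P.lf 0 1078605 0) (P.cons (P.lf 0 166995 0) (P.cons (P.lf 80454 0 0) (P.cons (P.lf 3042 0 0) P.nil)))) (P.cons (P.cons (P.lf 0 314382 0) (P.cons (P.lf 0 48672 0) (P.cons (P.lf 23448 0 0) P.nil))) (P.cons (P.cons (P.lf 0 6741 0) (P.cons (P.lf 0 1041 0) P.nil)) (P.cons (P.cons (P.lf 537 0 0) P.nil) P.nil)))))) 7950)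
 EL.nil)))
noncomputable def S111_125_364_512_26 : EL := (EL.cons 4 (TM.mk (P.cons (P.cons (P.lf 420901980 0 0) (P.cons (P.lf 0 10815618 0) (P.cons (P.lf 0 3285747 0) (P.cons (P.lf 0 101628 0) (P.cons (P.lf 102765 0 0) (P.cons (P.lf 7635 0 0) P.nil)))))) (P.cons (P.cons (P.lf 0 46154460 0) (P.cons (P.lf 9154608 0 0) (P.cons (P.lf 0 511230 0) (P.cons (P.lf 0 354219 0) (P.cons (P.lf 45045 0 0) P.nil))))) (P.cons (P.cons (P.lf 0 12907497 0) (P.cons (P.lf 2288949 0 0) (P.cons (P.lf 0 27558 0) (P.cons (P.lf 0 75159 0) P.nil)))) (P.cons (P.cons (P.lf 431535 0 0) (P.cons (P.lf 51000 0 0) (P.cons (P.lf 0 5499 0) P.nil))) (P.cons (P.cons (P.lf 136095 0 0) (P.cons (P.lf 0 23208 0) P.nil)) (P.cons (P.cons (P.lf 909 0 0) P.nil) P.nil)))))) 35919)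
 (EL.cons 8 (TM.mk (P.cons (P.cons (P.lf 0 475094460 0) (P.cons (P.lf 12208167 0 0) (P.cons (P.lf 3708801 0 0) (P.cons (P.lf 114711 0 0) (P.cons (P.lf 0 115998 0) (P.cons (P.lf 0 8619 0) P.nil)))))) (P.cons (P.cons (P.lf 103690011 0 0) (P.cons (P.lf 0 11659041 0) (P.cons (P.lf 174294 0 0) (P.cons (P.lf 387366 0 0) (P.cons (P.lf 0 38247 0) P.nil))))) (P.cons (P.cons (P.lf 5228853 0 0) (P.cons (P.lf 0 1366869 0) (P.cons (P.lf 0 2802 0) (P.cons (P.lf 42303 0 0) P.nil)))) (P.cons (P.cons (P.lf 0 1376529 0) (P.cons (P.lf 135477 0 0) (P.cons (P.lf 5046 0 0) P.nil))) (P.cons (P.cons (P.lf 0 41571 0) (P.cons (P.lf 19266 0 0) P.nil)) (P.cons (P.cons (P.lf 7149 0 0) P.nil) P.nil)))))) 24069)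
 (EL.cons 11 (TM.mk (P.cons (P.cons (P.lf 0 127489839 0) (P.cons (P.lf 0 28182420 0) (P.cons (P.lf 7637604 0 0) (P.cons (P.lf 1090458 0 0) (P.cons (P.lf 5109 0 0) (P.cons (P.lf 0 18399 0) P.nil)))))) (P.cons (P.cons (P.lf 7788513 0 0) (P.cons (P.lf 0 1978488 0) (P.cons (P.lf 0 1286859 0) (P.cons (P.lf 253536 0 0) (P.cons (P.lf 41352 0 0) P.nil))))) (P.cons (P.cons (P.lf 3942531 0 0) (P.cons (P.lf 183273 0 0) (P.cons (P.lf 0 388758 0) (P.cons (P.lf 25827 0 0) P.nil)))) (P.cons (P.cons (P.lf 82992 0 0) (P.cons (P.lf 0 2142 0) (P.cons (P.lf 0 9513 0) P.nil))) (P.cons (P.cons (P.lf 0 26097 0) (P.cons (P.lf 0 2040 0) P.nil)) (P.cons (P.cons (P.lf 0 1368 0) P.nil) P.nil)))))) 30186)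
 EL.nil)))
noncomputable def S111_125_364_512_27 : EL := (EL.cons 13 (TM.mk (P.lf 0 4294967296 0) 0)
 EL.nil)
noncomputable def S111_125_364_512_28 : EL := (EL.cons 13 (TM.mk (P.cons (P.cons (P.lf 1342976044 0 0) (P.cons (P.lf 88946800 0 0) (P.cons (P.lf 5946772 0 0) (P.lf 0 1982256 0)))) (P.cons (P.cons (P.lf 0 246447281 0) (P.cons (P.lf 22655256 0 0) (P.cons (P.lf 1514676 0 0) (P.lf 0 504892 0)))) (P.cons (P.cons (P.lf 0 7808472 0) (P.cons (P.lf 1961284 0 0) (P.cons (P.lf 131124 0 0) (P.lf 0 43708 0)))) (P.cons (P.cons (P.lf 465217 0 0) (P.cons (P.lf 46344 0 0) (P.cons (P.lf 3096 0 0) P.nil))) (P.cons (P.cons (P.lf 29495 0 0) (P.cons (P.lf 0 2600 0) P.nil)) (P.cons (P.cons (P.lf 182 0 0) P.nil) P.nil)))))) 2458)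
 EL.nil)
noncomputable def S111_125_364_512_29 : EL := (EL.cons 13 (TM.mk (P.cons (P.cons (P.lf 0 419929776 0) (P.cons (P.lf 0 55624834 0) (P.cons (P.lf 0 5560991 0) (P.cons (P.lf 993337 0 0) (P.cons (P.lf 73869 0 0) (P.cons (P.lf 5489 0 0) P.nil)))))) (P.cons (P.cons (P.lf 154121217 0 0) (P.cons (P.lf 0 3960341 0) (P.cons (P.lf 0 1203138 0) (P.cons (P.lf 0 37213 0) (P.cons (P.lf 37629 0 0) P.nil))))) (P.cons (P.cons (P.lf 0 9258063 0) (P.cons (P.lf 1696826 0 0) (P.cons (P.lf 0 87289 0) (P.cons (P.lf 0 64657 0) P.nil)))) (P.cons (P.cons (P.lf 0 1187041 0) (P.cons (P.lf 259204 0 0) (P.cons (P.lf 0 5279 0) P.nil))) (P.cons (P.cons (P.lf 20747 0 0) (P.cons (P.lf 7946 0 0) P.nil)) (P.cons (P.cons (P.lf 4962 0 0) P.nil) P.nil)))))) 33051)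
 EL.nil)
noncomputable def S111_125_364_512_30 : EL := (EL.cons 13 (TM.mk (P.cons (P.lf 3396707100 0 0) (P.cons (P.lf 0 80479456 0) (P.cons (P.lf 0 4504160 0) (P.cons (P.lf 0 66576 0) (P.cons (P.lf 1288 0 0) (P.cons (P.lf 80 0 0) P.nil)))))) 68)
 EL.nil)
noncomputable def S111_125_364_512_31 : EL := (EL.cons 13 (TM.mk (P.cons (P.cons (P.lf 0 1062102677 0) (P.cons (P.lf 0 70344243 0) (P.cons (P.lf 0 4703049 0) (P.lf 1567682 0 0)))) (P.cons (P.cons (P.lf 220069477 0 0) (P.cons (P.lf 0 16250386 0) (P.cons (P.lf 0 1086461 0) (P.lf 362153 0 0)))) (P.cons (P.cons (P.lf 2965826 0 0) (P.cons (P.lf 0 1033300 0) (P.cons (P.lf 0 69081 0) (P.lf 23027 0 0)))) (P.cons (P.cons (P.lf 0 751869 0) (P.cons (P.lf 25236 0 0) (P.cons (P.lf 1689 0 0) P.nil))) (P.cons (P.cons (P.lf 0 27020 0) (P.cons (P.lf 5305 0 0) P.nil)) (P.cons (P.cons (P.lf 824 0 0) P.nil) P.nil)))))) 3890)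
 EL.nil)
noncomputable def S111_125_364_512_32 : EL := (EL.cons 13 (TM.mk (P.cons (P.cons (P.lf 332104612 0 0) (P.cons (P.lf 43991317 0 0) (P.cons (P.lf 4397951 0 0) (P.cons (P.lf 0 785588 0) (P.cons (P.lf 0 58419 0) (P.cons (P.lf 0 4341 0) P.nil)))))) (P.cons (P.cons (P.lf 0 129756599 0) (P.cons (P.lf 2089762 0 0) (P.cons (P.lf 847308 0 0) (P.cons (P.lf 48043 0 0) (P.cons (P.lf 0 28375 0) P.nil))))) (P.cons (P.cons (P.lf 9769361 0 0) (P.cons (P.lf 0 1474490 0) (P.cons (P.lf 40656 0 0) (P.cons (P.lf 51478 0 0) P.nil)))) (P.cons (P.cons (P.lf 920420 0 0) (P.cons (P.lf 0 178213 0) (P.cons (P.lf 1191 0 0) P.nil))) (P.cons (P.cons (P.lf 0 45844 0) (P.cons (P.lf 307 0 0) P.nil)) (P.cons (P.cons (P.lf 0 4962 0) P.nil) P.nil)))))) 29919)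
 EL.nil)
noncomputable def S111_125_364_512_33 : EL := (EL.cons 14 (TM.mk (P.lf 8589934592 0 0) 0)
 EL.nil)
noncomputable def S111_125_364_512_34 : EL := (EL.cons 14 (TM.mk (P.cons (P.cons (P.lf 0 2685952088 0) (P.cons (P.lf 0 177893600 0) (P.cons (P.lf 0 11893544 0) (P.lf 3964512 0 0)))) (P.cons (P.cons (P.lf 492894562 0 0) (P.cons (P.lf 0 45310512 0) (P.cons (P.lf 0 3029352 0) (P.lf 1009784 0 0)))) (P.cons (P.cons (P.lf 15616944 0 0) (P.cons (P.lf 0 3922568 0) (P.cons (P.lf 0 262248 0) (P.lf 87416 0 0)))) (P.cons (P.cons (P.lf 0 930434 0) (P.cons (P.lf 0 92688 0) (P.cons (P.lf 0 6192 0) P.nil))) (P.cons (P.cons (P.lf 0 58990 0) (P.cons (P.lf 5200 0 0) P.nil)) (P.cons (P.cons (P.lf 0 364 0) P.nil) P.nil)))))) 4916)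
 EL.nil)
noncomputable def S111_125_364_512_35 : EL := (EL.cons 14 (TM.mk (P.cons (P.cons (P.lf 839859552 0 0) (P.cons (P.lf 111249668 0 0) (P.cons (P.lf 11121982 0 0) (P.cons (P.lf 0 1986674 0) (P.cons (P.lf 0 147738 0) (P.cons (P.lf 0 10978 0) P.nil)))))) (P.cons (P.cons (P.lf 0 308242434 0) (P.cons (P.lf 7920682 0 0) (P.cons (P.lf 2406276 0 0) (P.cons (P.lf 74426 0 0) (P.cons (P.lf 0 75258 0) P.nil))))) (P.cons (P.cons (P.lf 18516126 0 0) (P.cons (P.lf 0 3393652 0) (P.cons (P.lf 174578 0 0) (P.cons (P.lf 129314 0 0) P.nil)))) (P.cons (P.cons (P.lf 2374082 0 0) (P.cons (P.lf 0 518408 0) (P.cons (P.lf 10558 0 0) P.nil))) (P.cons (P.cons (P.lf 0 41494 0) (P.cons (P.lf 0 15892 0) P.nil)) (P.cons (P.cons (P.lf 0 9924 0) P.nil) P.nil)))))) 66102)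
 EL.nil)
noncomputable def S111_125_364_512_36 : EL := (EL.cons 14 (TM.mk (P.cons (P.lf 0 6793414200 0) (P.cons (P.lf 160958912 0 0) (P.cons (P.lf 9008320 0 0) (P.cons (P.lf 133152 0 0) (P.cons (P.lf 0 2576 0) (P.cons (P.lf 0 160 0) P.nil)))))) 136)
 EL.nil)
noncomputable def S111_125_364_512_37 : EL := (EL.cons 14 (TM.mk (P.cons (P.cons (P.lf 2124205354 0 0) (P.cons (P.lf 140688486 0 0) (P.cons (P.lf 9406098 0 0) (P.lf 0 3135364 0)))) (P.cons (P.cons (P.lf 0 440138954 0) (P.cons (P.lf 32500772 0 0) (P.cons (P.lf 2172922 0 0) (P.lf 0 724306 0)))) (P.cons (P.cons (P.lf 0 5931652 0) (P.cons (P.lf 2066600 0 0) (P.cons (P.lf 138162 0 0) (P.lf 0 46054 0)))) (P.cons (P.cons (P.lf 1503738 0 0) (P.cons (P.lf 0 50472 0) (P.cons (P.lf 0 3378 0) P.nil))) (P.cons (P.cons (P.lf 54040 0 0) (P.cons (P.lf 0 10610 0) P.nil)) (P.cons (P.cons (P.lf 0 1648 0) P.nil) P.nil)))))) 7780)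
 EL.nil)
noncomputable def S111_125_364_512_38 : EL := (EL.cons 14 (TM.mk (P.cons (P.cons (P.lf 0 664209224 0) (P.cons (P.lf 0 87982634 0) (P.cons (P.lf 0 8795902 0) (P.cons (P.lf 1571176 0 0) (P.cons (P.lf 116838 0 0) (P.cons (P.lf 8682 0 0) P.nil)))))) (P.cons (P.cons (P.lf 259513198 0 0) (P.cons (P.lf 0 4179524 0) (P.cons (P.lf 0 1694616 0) (P.cons (P.lf 0 96086 0) (P.cons (P.lf 56750 0 0) P.nil))))) (P.cons (P.cons (P.lf 0 19538722 0) (P.cons (P.lf 2948980 0 0) (P.cons (P.lf 0 81312 0) (P.cons (P.lf 0 102956 0) P.nil)))) (P.cons (P.cons (P.lf 0 1840840 0) (P.cons (P.lf 356426 0 0) (P.cons (P.lf 0 2382 0) P.nil))) (P.cons (P.cons (P.lf 91688 0 0) (P.cons (P.lf 0 614 0) P.nil)) (P.cons (P.cons (P.lf 9924 0 0) P.nil) P.nil)))))) 59838)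
 EL.nil)
noncomputable def S111_125_364_512_39 : EL := (EL.cons 14 (TM.mk (P.cons (P.lf 5372622572 0 0) (P.cons (P.lf 0 254591124 0) (P.cons (P.lf 0 11232532 0) (P.cons (P.lf 126988 0 0) (P.cons (P.lf 18510 0 0) (P.cons (P.lf 434 0 0) P.nil)))))) 248)
 EL.nil)
noncomputable def S111_125_364_512_40 : EL := (EL.cons 14 (TM.mk (P.cons (P.cons (P.lf 0 1679943736 0) (P.cons (P.lf 0 111264544 0) (P.cons (P.lf 0 7438882 0) (P.lf 2479626 0 0)))) (P.cons (P.cons (P.lf 387890730 0 0) (P.cons (P.lf 0 23067246 0) (P.cons (P.lf 0 1542220 0) (P.lf 514072 0 0)))) (P.cons (P.cons (P.lf 0 1328600 0) (P.cons (P.lf 0 877844 0) (P.cons (P.lf 0 58686 0) (P.lf 19562 0 0)))) (P.cons (P.cons (P.lf 0 1729040 0) (P.cons (P.lf 114904 0 0) (P.cons (P.lf 7684 0 0) P.nil))) (P.cons (P.cons (P.lf 0 28240 0) (P.cons (P.lf 10074 0 0) P.nil)) (P.cons (P.cons (P.lf 3894 0 0) P.nil) P.nil)))))) 8716)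
 EL.nil)
noncomputable def S111_125_364_512_41 : EL := (EL.cons 14 (TM.mk (P.cons (P.cons (P.lf 525294848 0 0) (P.cons (P.lf 69581726 0 0) (P.cons (P.lf 6956304 0 0) (P.cons (P.lf 0 1242576 0) (P.cons (P.lf 0 92402 0) (P.cons (P.lf 0 6866 0) P.nil)))))) (P.cons (P.cons (P.lf 0 217683966 0) (P.cons (P.lf 1656782 0 0) (P.cons (P.lf 1175382 0 0) (P.cons (P.lf 105430 0 0) (P.cons (P.lf 0 42690 0) P.nil))))) (P.cons (P.cons (P.lf 19618564 0 0) (P.cons (P.lf 0 2502808 0) (P.cons (P.lf 23328 0 0) (P.cons (P.lf 81272 0 0) P.nil)))) (P.cons (P.cons (P.lf 1351580 0 0) (P.cons (P.lf 0 232370 0) (P.cons (P.lf 0 1552 0) P.nil))) (P.cons (P.cons (P.lf 0 123274 0) (P.cons (P.lf 10218 0 0) P.nil)) (P.cons (P.cons (P.lf 0 8428 0) P.nil) P.nil)))))) 52816)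
 EL.nil)
noncomputable def S111_125_364_512_42 : EL := (EL.cons 14 (TM.mk (P.cons (P.lf 0 4248978856 0) (P.cons (P.lf 302017950 0 0) (P.cons (P.lf 9747086 0 0) (P.cons (P.lf 0 494616 0) (P.cons (P.lf 0 29596 0) (P.cons (P.lf 0 60 0) P.nil)))))) 342)
 EL.nil)
noncomputable def S111_125_364_512_43 : EL := (EL.cons 14 (TM.mk (P.cons (P.cons (P.lf 1328596102 0 0) (P.cons (P.lf 87994400 0 0) (P.cons (P.lf 5883096 0 0) (P.lf 0 1961030 0)))) (P.cons (P.cons (P.lf 0 338245218 0) (P.cons (P.lf 16158020 0 0) (P.cons (P.lf 1080286 0 0) (P.lf 0 360094 0)))) (P.cons (P.cons (P.lf 6557294 0 0) (P.cons (P.lf 145330 0 0) (P.cons (P.lf 9712 0 0) (P.lf 0 3236 0)))) (P.cons (P.cons (P.lf 1723270 0 0) (P.cons (P.lf 0 133238 0) (P.cons (P.lf 0 8910 0) P.nil))) (P.cons (P.cons (P.lf 0 4940 0) (P.cons (P.lf 0 7060 0) P.nil)) (P.cons (P.cons (P.lf 0 5528 0) P.nil) P.nil)))))) 9072)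
 EL.nil)
noncomputable def S111_125_364_512_44 : EL := (EL.cons 14 (TM.mk (P.cons (P.cons (P.lf 0 415433370 0) (P.cons (P.lf 0 55029230 0) (P.cons (P.lf 0 5501446 0) (P.cons (P.lf 982700 0 0) (P.cons (P.lf 73078 0 0) (P.cons (P.lf 5430 0 0) P.nil)))))) (P.cons (P.cons (P.lf 182000016 0 0) (P.cons (P.lf 0 6450 0) (P.cons (P.lf 0 799210 0) (P.cons (P.lf 0 106664 0) (P.cons (P.lf 32030 0 0) P.nil))))) (P.cons (P.cons (P.lf 0 19043590 0) (P.cons (P.lf 2083380 0 0) (P.cons (P.lf 10868 0 0) (P.cons (P.lf 0 63602 0) P.nil)))) (P.cons (P.cons (P.lf 0 921438 0) (P.cons (P.lf 139690 0 0) (P.cons (P.lf 3004 0 0) P.nil))) (P.cons (P.cons (P.lf 139862 0 0) (P.cons (P.lf 0 15056 0) P.nil)) (P.cons (P.cons (P.lf 6132 0 0) P.nil) P.nil)))))) 46250)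
 EL.nil)
noncomputable def S111_125_364_512_45 : EL := (EL.cons 14 (TM.mk (P.cons (P.cons (P.lf 0 262612304 0) (P.cons (P.lf 0 52179316 0) (P.cons (P.lf 0 6944478 0) (P.cons (P.lf 624458 0 0) (P.cons (P.lf 123284 0 0) (P.cons (P.lf 14376 0 0) P.nil)))))) (P.cons (P.cons (P.lf 144574628 0 0) (P.cons (P.lf 5860308 0 0) (P.cons (P.lf 0 734478 0) (P.cons (P.lf 0 339502 0) (P.cons (P.lf 33472 0 0) P.nil))))) (P.cons (P.cons (P.lf 0 21949922 0) (P.cons (P.lf 2576846 0 0) (P.cons (P.lf 138832 0 0) (P.cons (P.lf 0 81796 0) P.nil)))) (P.cons (P.cons (P.lf 0 331248 0) (P.cons (P.lf 0 45420 0) (P.cons (P.lf 32692 0 0) P.nil))) (P.cons (P.cons (P.lf 210484 0 0) (P.cons (P.lf 0 48852 0) P.nil)) (P.cons (P.cons (P.lf 5112 0 0) P.nil) P.nil)))))) 86402)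
 EL.nil)
noncomputable def S111_125_364_512_46 : EL := (EL.cons 15 (TM.mk (P.lf 4294967296 0 0) 0)
 EL.nil)
noncomputable def S111_125_364_512_47 : EL := (EL.cons 15 (TM.mk (P.cons (P.cons (P.lf 0 1342976044 0) (P.cons (P.lf 0 88946800 0) (P.cons (P.lf 0 5946772 0) (P.lf 1982256 0 0)))) (P.cons (P.cons (P.lf 246447281 0 0) (P.cons (P.lf 0 22655256 0) (P.cons (P.lf 0 1514676 0) (P.lf 504892 0 0)))) (P.cons (P.cons (P.lf 7808472 0 0) (P.cons (P.lf 0 1961284 0) (P.cons (P.lf 0 131124 0) (P.lf 43708 0 0)))) (P.cons (P.cons (P.lf 0 465217 0) (P.cons (P.lf 0 46344 0) (P.cons (P.lf 0 3096 0) P.nil))) (P.cons (P.cons (P.lf 0 29495 0) (P.cons (P.lf 2600 0 0) P.nil)) (P.cons (P.cons (P.lf 0 182 0) P.nil) P.nil)))))) 2458)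
 EL.nil)
noncomputable def S111_125_364_512_48 : EL := (EL.cons 15 (TM.mk (P.cons (P.cons (P.lf 419929776 0 0) (P.cons (P.lf 55624834 0 0) (P.cons (P.lf 5560991 0 0) (P.cons (P.lf 0 993337 0) (P.cons (P.lf 0 73869 0) (P.cons (P.lf 0 5489 0) P.nil)))))) (P.cons (P.cons (P.lf 0 154121217 0) (P.cons (P.lf 3960341 0 0) (P.cons (P.lf 1203138 0 0) (P.cons (P.lf 37213 0 0) (P.cons (P.lf 0 37629 0) P.nil))))) (P.cons (P.cons (P.lf 9258063 0 0) (P.cons (P.lf 0 1696826 0) (P.cons (P.lf 87289 0 0) (P.cons (P.lf 64657 0 0) P.nil)))) (P.cons (P.cons (P.lf 1187041 0 0) (P.cons (P.lf 0 259204 0) (P.cons (P.lf 5279 0 0) P.nil))) (P.cons (P.cons (P.lf 0 20747 0) (P.cons (P.lf 0 7946 0) P.nil)) (P.cons (P.cons (P.lf 0 4962 0) P.nil) P.nil)))))) 33051)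
 EL.nil)
noncomputable def S111_125_364_512 : SL := (SL.cons S111_125_364_512_0 (SL.cons S111_125_364_512_1 (SL.cons S111_125_364_512_2 (SL.cons S111_125_364_512_3 (SL.cons S111_125_364_512_4 (SL.cons S111_125_364_512_5 (SL.cons S111_125_364_512_6 (SL.cons S111_125_364_512_7 (SL.cons S111_125_364_512_8 (SL.cons S111_125_364_512_9 (SL.cons S111_125_364_512_10 (SL.cons S111_125_364_512_11 (SL.cons S111_125_364_512_12 (SL.cons S111_125_364_512_13 (SL.cons S111_125_364_512_14 (SL.cons S111_125_364_512_15 (SL.cons S111_125_364_512_16 (SL.cons S111_125_364_512_17 (SL.cons S111_125_364_512_18 (SL.cons S111_125_364_512_19 (SL.cons S111_125_364_512_20 (SL.cons S111_125_364_512_21 (SL.cons S111_125_364_512_22 (SL.cons S111_125_364_512_23 (SL.cons S111_125_364_512_24 (SL.cons S111_125_364_512_25 (SL.cons S111_125_364_512_26 (SL.cons S111_125_364_512_27 (SL.cons S111_125_364_512_28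 (SL.cons S111_125_364_512_29 (SL.cons S111_125_364_512_30 (SL.cons S111_125_364_512_31 (SL.cons S111_125_364_512_32 (SL.cons S111_125_364_512_33 (SL.cons S111_125_364_512_34 (SL.cons S111_125_364_512_35 (SL.cons S111_125_364_512_36 (SL.cons S111_125_364_512_37 (SL.cons S111_125_364_512_38 (SL.cons S111_125_364_512_39 (SL.cons S111_125_364_512_40 (SL.cons S111_125_364_512_41 (SL.cons S111_125_364_512_42 (SL.cons S111_125_364_512_43 (SL.cons S111_125_364_512_44 (SL.cons S111_125_364_512_45 (SL.cons S111_125_364_512_46 (SL.cons S111_125_364_512_47 (SL.cons S111_125_364_512_48 SL.nil)))))))))))))))))))))))))))))))))))))))))))))))))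
theorem S82_140_364_512_ok : band (seq (shp 5 82 140 364 512) S82_140_364_512) (sok S82_140_364_512) = true := by decide +kernel

theorem S82_140_512_660_ok : band (seq (shp 5 82 140 512 660) S82_140_512_660) (sok S82_140_512_660) = true := by decide +kernel

theorem S82_140_660_808_ok : band (seq (shp 5 82 140 660 808) S82_140_660_808) (sok S82_140_660_808) = true := by decide +kernel

theorem S96_111_216_364_ok : band (seq (shp 5 96 111 216 364) S96_111_216_364) (sok S96_111_216_364) = true := by decide +kernel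

theorem S111_125_216_364_ok : band (seq (shp 5 111 125 216 364) S111_125_216_364) (sok S111_125_216_364) = true := by decide +kernel

theorem S111_125_364_512_ok : band (seq (shp 5 111 125 364 512) S111_125_364_512) (sok S111_125_364_512) = true := by decide +kernel

end Vale.Agent.P098.Ck
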