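import Vale.Agent.P098.CkDefs

namespace Vale.Agent.P098.Ck

noncomputable def S140_154_438_512_0 : EL := (EL.cons 0 (TM.mk (P.cons (P.lf 4816977213 0 0) (P.cons (P.lf 294674568 0 0) (P.cons (P.lf 6571395 0 0) (P.cons (P.lf 0 434682 0) (P.cons (P.lf 0 21573 0) (P.cons (P.lf 0 42 0) P.nil)))))) 205)
 (EL.cons 1 (TM.mk (P.cons (P.lf 0 1762505823 0) (P.cons (P.lf 0 36787346 0) (P.cons (P.lf 8322086 0 0) (P.cons (P.lf 271203 0 0) (P.cons (P.lf 0 4801 0) (P.cons (P.lf 0 468 0) P.nil)))))) 132)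
 (EL.cons 5 (TM.mk (P.cons (P.lf 5588741396 0 0) (P.cons (P.lf 0 104773178 0) (P.cons (P.lf 0 2336498 0) (P.cons (P.lf 154550 0 0) (P.cons (P.lf 7670 0 0) (P.cons (P.lf 18 0 0) P.nil)))))) 87)
 (EL.cons 9 (TM.mk (P.lf 6442450944 0 0) 2)
 EL.nil))))
noncomputable def S140_154_438_512_1 : EL := (EL.cons 0 (TM.mk (P.cons (P.cons (P.lf 0 3947744742 0) (P.cons (P.lf 163121539 0 0) (P.cons (P.lf 2596281 0 0) (P.lf 0 865420 0)))) (P.cons (P.cons (P.lf 332761662 0 0) (P.cons (P.lf 0 1494657 0) (P.cons (P.lf 0 23796 0) (P.lf 7937 0 0)))) (P.cons (P.cons (P.lf 68130721 0 0) (P.cons (P.lf 0 4915215 0) (P.cons (P.lf 0 78238 0) (P.lf 26085 0 0)))) (P.cons (P.cons (P.lf 0 29432 0) (P.cons (P.lf 0 412417 0) (P.cons (P.lf 0 6549 0) P.nil))) (P.cons (P.cons (P.lf 0 376756 0) (P.cons (P.lf 3431 0 0) P.nil)) (P.cons (P.cons (P.lf 0 12778 0) P.nil) P.nil)))))) 11989)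
 (EL.cons 1 (TM.mk (P.cons (P.cons (P.lf 585347571 0 0) (P.cons (P.lf 10690287 0 0) (P.cons (P.lf 170143 0 0) (P.lf 0 56708 0)))) (P.cons (P.cons (P.lf 0 332479792 0) (P.cons (P.lf 24019266 0 0) (P.cons (P.lf 382293 0 0) (P.lf 0 127429 0)))) (P.cons (P.cons (P.lf 0 2547817 0) (P.cons (P.lf 2376690 0 0) (P.cons (P.lf 37813 0 0) (P.lf 0 12599 0)))) (P.cons (P.cons (P.lf 3342305 0 0) (P.cons (P.lf 0 88709 0) (P.cons (P.lf 0 1408 0) P.nil))) (P.cons (P.cons (P.lf 92133 0 0) (P.cons (P.lf 0 18482 0) P.nil)) (P.cons (P.cons (P.lf 0 10314 0) P.nil) P.nil)))))) 5663)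
 (EL.cons 5 (TM.mk (P.cons (P.cons (P.lf 821937599 0 0) (P.cons (P.lf 0 253272704 0) (P.cons (P.lf 0 4031162 0) (P.lf 1343720 0 0)))) (P.cons (P.cons (P.lf 320521171 0 0) (P.cons (P.lf 0 35416634 0) (P.cons (P.lf 0 563702 0) (P.lf 187902 0 0)))) (P.cons (P.cons (P.lf 0 27705405 0) (P.cons (P.lf 0 156980 0) (P.cons (P.lf 0 2498 0) (P.lf 834 0 0)))) (P.cons (P.cons (P.lf 0 1529658 0) (P.cons (P.lf 173028 0 0) (P.cons (P.lf 2746 0 0) P.nil))) (P.cons (P.cons (P.lf 104273 0 0) (P.cons (P.lf 4586 0 0) P.nil)) (P.cons (P.cons (P.lf 6670 0 0) P.nil) P.nil)))))) 4780)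
 (EL.cons 9 (TM.mk (P.cons (P.cons (P.lf 0 513269097 0) (P.cons (P.lf 0 172300524 0) (P.cons (P.lf 0 2742384 0) (P.lf 914124 0 0)))) (P.cons (P.cons (P.lf 387208605 0 0) (P.cons (P.lf 0 31718880 0) (P.cons (P.lf 0 504846 0) (P.lf 168282 0 0)))) (P.cons (P.cons (P.lf 0 3071607 0) (P.cons (P.lf 0 1680534 0) (P.cons (P.lf 0 26742 0) (P.lf 8910 0 0)))) (P.cons (P.cons (P.lf 0 1358920 0) (P.cons (P.lf 23286 0 0) (P.cons (P.lf 366 0 0) P.nil))) (P.cons (P.cons (P.lf 0 26187 0) (P.cons (P.lf 5124 0 0) P.nil)) (P.cons (P.cons (P.lf 1876 0 0) P.nil) P.nil)))))) 1390)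
 (EL.cons 2 (TM.mk (P.cons (P.cons (P.lf 818254732 0 0) (P.cons (P.lf 30331586 0 0) (P.cons (P.lf 0 15029409 0) (P.cons (P.lf 0 136380 0) (P.lf 34093 0 0))))) (P.cons (P.cons (P.lf 67289720 0 0) (P.cons (P.lf 2494335 0 0) (P.cons (P.lf 0 1235950 0) (P.cons (P.lf 0 11213 0) (P.lf 2801 0 0))))) (P.cons (P.cons (P.lf 0 3236397 0) (P.cons (P.lf 0 119970 0) (P.cons (P.lf 59445 0 0) (P.cons (P.lf 537 0 0) P.nil)))) (P.cons (P.cons (P.lf 0 420013 0) (P.cons (P.lf 0 15567 0) (P.cons (P.lf 7711 0 0) P.nil))) (P.cons (P.cons (P.lf 0 5338 0) (P.cons (P.lf 0 194 0) P.nil)) (P.cons (P.cons (P.lf 646 0 0) P.nil) P.nil)))))) 1078)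
 (EL.cons 6 (TM.mk (P.cons (P.cons (P.lf 396340182 0 0) (P.cons (P.lf 14691789 0 0) (P.cons (P.lf 0 7279833 0) (P.cons (P.lf 0 66057 0) (P.lf 16512 0 0))))) (P.cons (P.cons (P.lf 72962436 0 0) (P.cons (P.lf 2704617 0 0) (P.cons (P.lf 0 1340145 0) (P.cons (P.lf 0 12159 0) (P.lf 3039 0 0))))) (P.cons (P.cons (P.lf 3865716 0 0) (P.cons (P.lf 143295 0 0) (P.cons (P.lf 0 71001 0) (P.cons (P.lf 0 642 0) P.nil)))) (P.cons (P.cons (P.lf 0 53571 0) (P.cons (P.lf 0 1983 0) (P.cons (P.lf 981 0 0) P.nil))) (P.cons (P.cons (P.lf 0 11787 0) (P.cons (P.lf 0 435 0) P.nil)) (P.cons (P.cons (P.lf 0 291 0) P.nil) P.nil)))))) 621)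
 EL.nil))))))
noncomputable def S140_154_438_512_2 : EL := (EL.cons 0 (TM.mk (P.cons (P.cons (P.lf 598457728 0 0) (P.cons (P.lf 164642256 0 0) (P.cons (P.lf 0 9550173 0) (P.cons (P.lf 0 1260916 0) (P.cons (P.lf 126055 0 0) (P.cons (P.lf 2050 0 0) P.nil)))))) (P.cons (P.cons (P.lf 0 483301689 0) (P.cons (P.lf 51371061 0 0) (P.cons (P.lf 0 2187967 0) (P.cons (P.lf 0 368217 0) (P.cons (P.lf 31128 0 0) P.nil))))) (P.cons (P.cons (P.lf 17922034 0 0) (P.cons (P.lf 0 1197481 0) (P.cons (P.lf 0 92808 0) (P.cons (P.lf 4017 0 0) P.nil)))) (P.cons (P.cons (P.lf 8635479 0 0) (P.cons (P.lf 0 1214635 0) (P.cons (P.lf 28966 0 0) P.nil))) (P.cons (P.cons (P.lf 0 20118 0) (P.cons (P.lf 0 71650 0) P.nil)) (P.cons (P.cons (P.lf 0 66589 0) P.nil) P.nil)))))) 59460)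
 (EL.cons 1 (TM.mk (P.cons (P.cons (P.lf 0 82081983 0) (P.cons (P.lf 0 25502245 0) (P.cons (P.lf 282958 0 0) (P.cons (P.lf 157223 0 0) (P.cons (P.lf 0 7137 0) (P.cons (P.lf 0 119 0) P.nil)))))) (P.cons (P.cons (P.lf 106693585 0 0) (P.cons (P.lf 5351310 0 0) (P.cons (P.lf 0 814391 0) (P.cons (P.lf 0 57027 0) (P.cons (P.lf 9310 0 0) P.nil))))) (P.cons (P.cons (P.lf 0 34022510 0) (P.cons (P.lf 4553363 0 0) (P.cons (P.lf 0 225691 0) (P.cons (P.lf 0 33643 0) P.nil)))) (P.cons (P.cons (P.lf 0 596839 0) (P.cons (P.lf 268054 0 0) (P.cons (P.lf 0 23633 0) P.nil))) (P.cons (P.cons (P.lf 452919 0 0) (P.cons (P.lf 0 48698 0) P.nil)) (P.cons (P.cons (P.lf 11314 0 0) P.nil) P.nil)))))) 29661)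
 (EL.cons 5 (TM.mk (P.cons (P.cons (P.lf 0 166440608 0) (P.cons (P.lf 0 27424571 0) (P.cons (P.lf 9113365 0 0) (P.cons (P.lf 449490 0 0) (P.cons (P.lf 0 98909 0) (P.cons (P.lf 0 1599 0) P.nil)))))) (P.cons (P.cons (P.lf 101916528 0 0) (P.cons (P.lf 0 36010280 0) (P.cons (P.lf 2418331 0 0) (P.cons (P.lf 286272 0 0) (P.cons (P.lf 0 30980 0) P.nil))))) (P.cons (P.cons (P.lf 20557655 0 0) (P.cons (P.lf 0 3405690 0) (P.cons (P.lf 250880 0 0) (P.cons (P.lf 27770 0 0) P.nil)))) (P.cons (P.cons (P.lf 0 3243438 0) (P.cons (P.lf 315374 0 0) (P.cons (P.lf 5194 0 0) P.nil))) (P.cons (P.cons (P.lf 0 171583 0) (P.cons (P.lf 46278 0 0) P.nil)) (P.cons (P.cons (P.lf 21229 0 0) P.nil) P.nil)))))) 27437)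
 (EL.cons 9 (TM.mk (P.cons (P.cons (P.lf 40892071 0 0) (P.cons (P.lf 27454312 0 0) (P.cons (P.lf 5045071 0 0) (P.cons (P.lf 1030 0 0) (P.cons (P.lf 0 47727 0) (P.cons (P.lf 0 777 0) P.nil)))))) (P.cons (P.cons (P.lf 0 61697701 0) (P.cons (P.lf 0 15657370 0) (P.cons (P.lf 1447407 0 0) (P.cons (P.lf 137076 0 0) (P.cons (P.lf 0 17572 0) P.nil))))) (P.cons (P.cons (P.lf 23761705 0 0) (P.cons (P.lf 0 3380706 0) (P.cons (P.lf 192246 0 0) (P.cons (P.lf 25768 0 0) P.nil)))) (P.cons (P.cons (P.lf 0 152692 0) (P.cons (P.lf 0 102786 0) (P.cons (P.lf 13666 0 0) P.nil))) (P.cons (P.cons (P.lf 0 157711 0) (P.cons (P.lf 18366 0 0) P.nil)) (P.cons (P.cons (P.lf 0 2151 0) P.nil) P.nil)))))) 9851)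
 (EL.cons 2 (TM.mk (P.cons (P.cons (P.lf 0 130380457 0) (P.cons (P.lf 0 48600748 0) (P.cons (P.lf 75751 0 0) (P.cons (P.lf 1032018 0 0) (P.cons (P.lf 23259 0 0) (P.cons (P.lf 0 5968 0) P.nil)))))) (P.cons (P.cons (P.lf 87636690 0 0) (P.cons (P.lf 0 8407912 0) (P.cons (P.lf 0 2227291 0) (P.cons (P.lf 254458 0 0) (P.cons (P.lf 11289 0 0) P.nil))))) (P.cons (P.cons (P.lf 7824020 0 0) (P.cons (P.lf 0 626338 0) (P.cons (P.lf 0 192256 0) (P.cons (P.lf 19845 0 0) P.nil)))) (P.cons (P.cons (P.lf 0 731463 0) (P.cons (P.lf 0 1968 0) (P.cons (P.lf 14765 0 0) P.nil))) (P.cons (P.cons (P.lf 0 81590 0) (P.cons (P.lf 4871 0 0) P.nil)) (P.cons (P.cons (P.lf 945 0 0) P.nil) P.nil)))))) 9438)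
 (EL.cons 6 (TM.mk (P.cons (P.cons (P.lf 0 63152724 0) (P.cons (P.lf 0 23540868 0) (P.cons (P.lf 36690 0 0) (P.cons (P.lf 499878 0 0) (P.cons (P.lf 11262 0 0) (P.cons (P.lf 0 2892 0) P.nil)))))) (P.cons (P.cons (P.lf 36016404 0 0) (P.cons (P.lf 0 6470310 0) (P.cons (P.lf 0 1075104 0) (P.cons (P.lf 174168 0 0) (P.cons (P.lf 6612 0 0) P.nil))))) (P.cons (P.cons (P.lf 7776582 0 0) (P.cons (P.lf 0 843726 0) (P.cons (P.lf 0 202812 0) (P.cons (P.lf 24828 0 0) P.nil)))) (P.cons (P.cons (P.lf 236436 0 0) (P.cons (P.lf 0 61632 0) (P.cons (P.lf 0 8070 0) P.nil))) (P.cons (P.cons (P.lf 0 42246 0) (P.cons (P.lf 0 1266 0) P.nil)) (P.cons (P.cons (P.lf 0 3306 0) P.nil) P.nil)))))) 6762)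
 EL.nil))))))
noncomputable def S140_154_438_512_3 : EL := (EL.cons 0 (TM.mk (P.cons (P.lf 3638739650 0 0) (P.cons (P.lf 0 294674568 0) (P.cons (P.lf 0 6571395 0) (P.cons (P.lf 434682 0 0) (P.cons (P.lf 21573 0 0) (P.cons (P.lf 42 0 0) P.nil)))))) 205)
 (EL.cons 1 (TM.mk (P.cons (P.lf 1762505823 0 0) (P.cons (P.lf 36787346 0 0) (P.cons (P.lf 0 8322086 0) (P.cons (P.lf 0 271203 0) (P.cons (P.lf 4801 0 0) (P.cons (P.lf 468 0 0) P.nil)))))) 132)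
 (EL.cons 5 (TM.mk (P.cons (P.lf 853709548 0 0) (P.cons (P.lf 104773178 0 0) (P.cons (P.lf 2336498 0 0) (P.cons (P.lf 0 154550 0) (P.cons (P.lf 0 7670 0) (P.cons (P.lf 0 18 0) P.nil)))))) 80)
 EL.nil)))
noncomputable def S140_154_438_512_4 : EL := (EL.cons 0 (TM.mk (P.cons (P.cons (P.lf 0 289897839 0) (P.cons (P.lf 0 97316495 0) (P.cons (P.lf 0 1548915 0) (P.lf 516302 0 0)))) (P.cons (P.cons (P.lf 242174703 0 0) (P.cons (P.lf 0 10034094 0) (P.cons (P.lf 0 159704 0) (P.lf 53233 0 0)))) (P.cons (P.cons (P.lf 0 18922053 0) (P.cons (P.lf 677376 0 0) (P.cons (P.lf 10784 0 0) (P.lf 0 3596 0)))) (P.cons (P.cons (P.lf 0 1056622 0) (P.cons (P.lf 110745 0 0) (P.cons (P.lf 1759 0 0) P.nil))) (P.cons (P.cons (P.lf 74905 0 0) (P.cons (P.lf 824 0 0) P.nil)) (P.cons (P.cons (P.lf 4728 0 0) P.nil) P.nil)))))) 2399)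
 (EL.cons 1 (TM.mk (P.cons (P.cons (P.lf 0 140418573 0) (P.cons (P.lf 0 47137443 0) (P.cons (P.lf 0 750251 0) (P.lf 250081 0 0)))) (P.cons (P.cons (P.lf 103000490 0 0) (P.cons (P.lf 0 9661413 0) (P.cons (P.lf 0 153772 0) (P.lf 51256 0 0)))) (P.cons (P.cons (P.lf 2033716 0 0) (P.cons (P.lf 0 418303 0) (P.cons (P.lf 0 6654 0) (P.lf 2216 0 0)))) (P.cons (P.cons (P.lf 0 867879 0) (P.cons (P.lf 45000 0 0) (P.cons (P.lf 714 0 0) P.nil))) (P.cons (P.cons (P.lf 0 27637 0) (P.cons (P.lf 4910 0 0) P.nil)) (P.cons (P.cons (P.lf 2497 0 0) P.nil) P.nil)))))) 1239)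
 (EL.cons 5 (TM.mk (P.cons (P.cons (P.lf 0 68014910 0) (P.cons (P.lf 0 22832086 0) (P.cons (P.lf 0 363400 0) (P.lf 121132 0 0)))) (P.cons (P.cons (P.lf 42962972 0 0) (P.cons (P.lf 0 7005280 0) (P.cons (P.lf 0 111496 0) (P.lf 37164 0 0)))) (P.cons (P.cons (P.lf 5703972 0 0) (P.cons (P.lf 0 801022 0) (P.cons (P.lf 0 12748 0) (P.lf 4248 0 0)))) (P.cons (P.cons (P.lf 0 77284 0) (P.cons (P.lf 0 31614 0) (P.cons (P.lf 0 502 0) P.nil))) (P.cons (P.cons (P.lf 0 35360 0) (P.cons (P.lf 1414 0 0) P.nil)) (P.cons (P.cons (P.lf 0 1056 0) P.nil) P.nil)))))) 816)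
 EL.nil)))
noncomputable def S140_154_438_512_5 : EL := (EL.cons 0 (TM.mk (P.cons (P.cons (P.lf 23096116 0 0) (P.cons (P.lf 15506379 0 0) (P.cons (P.lf 2849489 0 0) (P.cons (P.lf 581 0 0) (P.cons (P.lf 0 26956 0) (P.cons (P.lf 0 437 0) P.nil)))))) (P.cons (P.cons (P.lf 0 36717660 0) (P.cons (P.lf 0 10099133 0) (P.cons (P.lf 586745 0 0) (P.cons (P.lf 77373 0 0) (P.cons (P.lf 0 7741 0) P.nil))))) (P.cons (P.cons (P.lf 16201082 0 0) (P.cons (P.lf 0 1221287 0) (P.cons (P.lf 37230 0 0) (P.cons (P.lf 8282 0 0) P.nil)))) (P.cons (P.cons (P.lf 0 1107397 0) (P.cons (P.lf 114400 0 0) (P.cons (P.lf 0 2209 0) P.nil))) (P.cons (P.cons (P.lf 0 110355 0) (P.cons (P.lf 17557 0 0) P.nil)) (P.cons (P.cons (P.lf 7549 0 0) P.nil) P.nil)))))) 10941)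
 (EL.cons 1 (TM.mk (P.cons (P.cons (P.lf 11187125 0 0) (P.cons (P.lf 7510863 0 0) (P.cons (P.lf 1380213 0 0) (P.cons (P.lf 281 0 0) (P.cons (P.lf 0 13055 0) (P.cons (P.lf 0 211 0) P.nil)))))) (P.cons (P.cons (P.lf 0 16645565 0) (P.cons (P.lf 0 4126725 0) (P.cons (P.lf 424785 0 0) (P.cons (P.lf 37505 0 0) (P.cons (P.lf 0 5079 0) P.nil))))) (P.cons (P.cons (P.lf 6095527 0 0) (P.cons (P.lf 0 1049752 0) (P.cons (P.lf 54341 0 0) (P.cons (P.lf 7830 0 0) P.nil)))) (P.cons (P.cons (P.lf 171886 0 0) (P.cons (P.lf 0 28353 0) (P.cons (P.lf 2752 0 0) P.nil))) (P.cons (P.cons (P.lf 0 72082 0) (P.cons (P.lf 9483 0 0) P.nil)) (P.cons (P.cons (P.lf 0 2334 0) P.nil) P.nil)))))) 5783)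
 (EL.cons 5 (TM.mk (P.cons (P.cons (P.lf 5418736 0 0) (P.cons (P.lf 3638056 0 0) (P.cons (P.lf 668538 0 0) (P.cons (P.lf 136 0 0) (P.cons (P.lf 0 6322 0) (P.cons (P.lf 0 102 0) P.nil)))))) (P.cons (P.cons (P.lf 0 7510730 0) (P.cons (P.lf 0 1628318 0) (P.cons (P.lf 273848 0 0) (P.cons (P.lf 18180 0 0) (P.cons (P.lf 0 3104 0) P.nil))))) (P.cons (P.cons (P.lf 2160182 0 0) (P.cons (P.lf 0 692664 0) (P.cons (P.lf 50842 0 0) (P.cons (P.lf 5642 0 0) P.nil)))) (P.cons (P.cons (P.lf 342842 0 0) (P.cons (P.lf 0 74936 0) (P.cons (P.lf 5340 0 0) P.nil))) (P.cons (P.cons (P.lf 0 13332 0) (P.cons (P.lf 0 120 0) P.nil)) (P.cons (P.cons (P.lf 0 3400 0) P.nil) P.nil)))))) 3330)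
 EL.nil)))
noncomputable def S140_154_438_512_6 : EL := (EL.cons 12 (TM.mk (P.lf 8589934592 0 0) 0)
 (EL.cons 3 (TM.mk (P.cons (P.lf 0 2795377237 0) (P.cons (P.lf 113188447 0 0) (P.cons (P.lf 4815735 0 0) (P.cons (P.lf 28027 0 0) (P.cons (P.lf 0 3003 0) (P.cons (P.lf 0 90 0) P.nil)))))) 67)
 (EL.cons 7 (TM.mk (P.cons (P.lf 0 1354004171 0) (P.cons (P.lf 0 83086409 0) (P.cons (P.lf 696363 0 0) (P.cons (P.lf 79830 0 0) (P.cons (P.lf 1364 0 0) (P.cons (P.lf 0 28 0) P.nil)))))) 46)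
 EL.nil)))
noncomputable def S140_154_438_512_7 : EL := (EL.cons 12 (TM.mk (P.cons (P.cons (P.lf 0 684358796 0) (P.cons (P.lf 0 229734032 0) (P.cons (P.lf 0 3656512 0) (P.lf 1218832 0 0)))) (P.cons (P.cons (P.lf 516278140 0 0) (P.cons (P.lf 0 42291840 0) (P.cons (P.lf 0 673128 0) (P.lf 224376 0 0)))) (P.cons (P.cons (P.lf 0 4095476 0) (P.cons (P.lf 0 2240712 0) (P.cons (P.lf 0 35656 0) (P.lf 11880 0 0)))) (P.cons (P.cons (P.lf 0 1811894 0) (P.cons (P.lf 31048 0 0) (P.cons (P.lf 488 0 0) P.nil))) (P.cons (P.cons (P.lf 0 34916 0) (P.cons (P.lf 6832 0 0) P.nil)) (P.cons (P.cons (P.lf 2502 0 0) P.nil) P.nil)))))) 1828)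
 (EL.cons 3 (TM.mk (P.cons (P.cons (P.lf 2960649771 0 0) (P.cons (P.lf 0 149522274 0) (P.cons (P.lf 0 2379838 0) (P.lf 793274 0 0)))) (P.cons (P.cons (P.lf 0 117424535 0) (P.cons (P.lf 0 21471270 0) (P.cons (P.lf 0 341740 0) (P.lf 113912 0 0)))) (P.cons (P.cons (P.lf 0 26018295 0) (P.cons (P.lf 0 86226 0) (P.cons (P.lf 0 1366 0) (P.lf 450 0 0)))) (P.cons (P.cons (P.lf 0 950261 0) (P.cons (P.lf 128176 0 0) (P.cons (P.lf 2034 0 0) P.nil))) (P.cons (P.cons (P.lf 60283 0 0) (P.cons (P.lf 6254 0 0) P.nil)) (P.cons (P.cons (P.lf 5022 0 0) P.nil) P.nil)))))) 5130)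
 (EL.cons 7 (TM.mk (P.cons (P.cons (P.lf 0 1901923784 0) (P.cons (P.lf 200848350 0 0) (P.cons (P.lf 3196768 0 0) (P.lf 0 1065591 0)))) (P.cons (P.cons (P.lf 86195922 0 0) (P.cons (P.lf 15761069 0 0) (P.cons (P.lf 250859 0 0) (P.lf 0 83621 0)))) (P.cons (P.cons (P.lf 14709095 0 0) (P.cons (P.lf 0 739370 0) (P.cons (P.lf 0 11764 0) (P.lf 3922 0 0)))) (P.cons (P.cons (P.lf 0 454460 0) (P.cons (P.lf 0 71900 0) (P.cons (P.lf 0 1144 0) P.nil))) (P.cons (P.cons (P.lf 0 56131 0) (P.cons (P.lf 1522 0 0) P.nil)) (P.cons (P.cons (P.lf 0 58 0) P.nil) P.nil)))))) 3174)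
 (EL.cons 10 (TM.mk (P.cons (P.cons (P.lf 0 1257210396 0) (P.cons (P.lf 0 46603074 0) (P.cons (P.lf 23091990 0 0) (P.cons (P.lf 209544 0 0) (P.lf 0 52386 0))))) (P.cons (P.cons (P.lf 0 154293609 0) (P.cons (P.lf 0 5719452 0) (P.cons (P.lf 2834007 0 0) (P.cons (P.lf 25716 0 0) (P.lf 0 6429 0))))) (P.cons (P.cons (P.lf 0 3440829 0) (P.cons (P.lf 0 127545 0) (P.cons (P.lf 63198 0 0) (P.cons (P.lf 573 0 0) P.nil)))) (P.cons (P.cons (P.lf 227595 0 0) (P.cons (P.lf 8436 0 0) (P.cons (P.lf 0 4179 0) P.nil))) (P.cons (P.cons (P.lf 11295 0 0) (P.cons (P.lf 417 0 0) P.nil)) (P.cons (P.cons (P.lf 24 0 0) P.nil) P.nil)))))) 627)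
 EL.nil))))
noncomputable def S140_154_438_512_8 : EL := (EL.cons 12 (TM.mk (P.cons (P.cons (P.lf 54522762 0 0) (P.cons (P.lf 36605750 0 0) (P.cons (P.lf 6726762 0 0) (P.cons (P.lf 1374 0 0) (P.cons (P.lf 0 63636 0) (P.cons (P.lf 0 1036 0) P.nil)))))) (P.cons (P.cons (P.lf 0 82263602 0) (P.cons (P.lf 0 20876494 0) (P.cons (P.lf 1929876 0 0) (P.cons (P.lf 182768 0 0) (P.cons (P.lf 0 23430 0) P.nil))))) (P.cons (P.cons (P.lf 31682274 0 0) (P.cons (P.lf 0 4507608 0) (P.cons (P.lf 256328 0 0) (P.cons (P.lf 34358 0 0) P.nil)))) (P.cons (P.cons (P.lf 0 203590 0) (P.cons (P.lf 0 137048 0) (P.cons (P.lf 18222 0 0) P.nil))) (P.cons (P.cons (P.lf 0 210282 0) (P.cons (P.lf 24488 0 0) P.nil)) (P.cons (P.cons (P.lf 0 2868 0) P.nil) P.nil)))))) 13106)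
 (EL.cons 3 (TM.mk (P.cons (P.cons (P.lf 0 454005983 0) (P.cons (P.lf 0 122625303 0) (P.cons (P.lf 8045530 0 0) (P.cons (P.lf 968812 0 0) (P.cons (P.lf 0 103546 0) (P.cons (P.lf 0 1686 0) P.nil)))))) (P.cons (P.cons (P.lf 347107340 0 0) (P.cons (P.lf 0 44700328 0) (P.cons (P.lf 2564535 0 0) (P.cons (P.lf 341437 0 0) (P.cons (P.lf 0 33931 0) P.nil))))) (P.cons (P.cons (P.lf 0 1428841 0) (P.cons (P.lf 0 2633601 0) (P.cons (P.lf 325641 0 0) (P.cons (P.lf 25663 0 0) P.nil)))) (P.cons (P.cons (P.lf 0 4550934 0) (P.cons (P.lf 468835 0 0) (P.cons (P.lf 12599 0 0) P.nil))) (P.cons (P.cons (P.lf 0 156773 0) (P.cons (P.lf 60716 0 0) P.nil)) (P.cons (P.cons (P.lf 22829 0 0) P.nil) P.nil)))))) 31215)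
 (EL.cons 7 (TM.mk (P.cons (P.cons (P.lf 311646210 0 0) (P.cons (P.lf 75499166 0 0) (P.cons (P.lf 0 8573056 0) (P.cons (P.lf 0 711702 0) (P.cons (P.lf 101236 0 0) (P.cons (P.lf 1645 0 0) P.nil)))))) (P.cons (P.cons (P.lf 0 254795461 0) (P.cons (P.lf 32812443 0 0) (P.cons (P.lf 0 1882507 0) (P.cons (P.lf 0 250630 0) (P.cons (P.lf 24906 0 0) P.nil))))) (P.cons (P.cons (P.lf 14024913 0 0) (P.cons (P.lf 262154 0 0) (P.cons (P.lf 0 143167 0) (P.cons (P.lf 0 6079 0) P.nil)))) (P.cons (P.cons (P.lf 2841204 0 0) (P.cons (P.lf 0 420272 0) (P.cons (P.lf 3814 0 0) P.nil))) (P.cons (P.cons (P.lf 0 117537 0) (P.cons (P.lf 0 15969 0) P.nil)) (P.cons (P.cons (P.lf 0 17068 0) P.nil) P.nil)))))) 19548)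
 (EL.cons 10 (TM.mk (P.cons (P.cons (P.lf 200323524 0 0) (P.cons (P.lf 74672796 0 0) (P.cons (P.lf 0 116388 0) (P.cons (P.lf 0 1585656 0) (P.cons (P.lf 0 35742 0) (P.cons (P.lf 9174 0 0) P.nil)))))) (P.cons (P.cons (P.lf 0 126538344 0) (P.cons (P.lf 15941970 0 0) (P.cons (P.lf 3417426 0 0) (P.cons (P.lf 0 455172 0) (P.cons (P.lf 0 18798 0) P.nil))))) (P.cons (P.cons (P.lf 0 16799844 0) (P.cons (P.lf 1736496 0 0) (P.cons (P.lf 433572 0 0) (P.cons (P.lf 0 51654 0) P.nil)))) (P.cons (P.cons (P.lf 227628 0 0) (P.cons (P.lf 101550 0 0) (P.cons (P.lf 750 0 0) P.nil))) (P.cons (P.cons (P.lf 104148 0 0) (P.cons (P.lf 0 300 0) P.nil)) (P.cons (P.cons (P.lf 3108 0 0) P.nil) P.nil)))))) 13872)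
 EL.nil))))
noncomputable def S140_154_438_512_9 : EL := (EL.cons 3 (TM.mk (P.cons (P.lf 0 2795377237 0) (P.cons (P.lf 113188447 0 0) (P.cons (P.lf 4815735 0 0) (P.cons (P.lf 28027 0 0) (P.cons (P.lf 0 3003 0) (P.cons (P.lf 0 90 0) P.nil)))))) 67)
 (EL.cons 7 (TM.mk (P.cons (P.lf 0 1354004171 0) (P.cons (P.lf 0 83086409 0) (P.cons (P.lf 696363 0 0) (P.cons (P.lf 79830 0 0) (P.cons (P.lf 1364 0 0) (P.cons (P.lf 0 28 0) P.nil)))))) 46)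
 EL.nil))
noncomputable def S140_154_438_512_10 : EL := (EL.cons 3 (TM.mk (P.cons (P.cons (P.lf 222707283 0 0) (P.cons (P.lf 74761137 0 0) (P.cons (P.lf 1189919 0 0) (P.lf 0 396637 0)))) (P.cons (P.cons (P.lf 0 177027386 0) (P.cons (P.lf 10735635 0 0) (P.cons (P.lf 170870 0 0) (P.lf 0 56956 0)))) (P.cons (P.cons (P.lf 7752030 0 0) (P.cons (P.lf 43113 0 0) (P.cons (P.lf 683 0 0) (P.lf 0 225 0)))) (P.cons (P.cons (P.lf 822874 0 0) (P.cons (P.lf 0 64088 0) (P.cons (P.lf 0 1017 0) P.nil))) (P.cons (P.cons (P.lf 0 12884 0) (P.cons (P.lf 0 3127 0) P.nil)) (P.cons (P.cons (P.lf 0 2475 0) P.nil) P.nil)))))) 1196)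
 (EL.cons 7 (TM.mk (P.cons (P.cons (P.lf 107873308 0 0) (P.cons (P.lf 36212247 0 0) (P.cons (P.lf 576364 0 0) (P.lf 0 192120 0)))) (P.cons (P.cons (P.lf 0 74759805 0) (P.cons (P.lf 8888438 0 0) (P.cons (P.lf 141470 0 0) (P.lf 0 47156 0)))) (P.cons (P.cons (P.lf 0 4403638 0) (P.cons (P.lf 743641 0 0) (P.cons (P.lf 11834 0 0) (P.lf 0 3944 0)))) (P.cons (P.cons (P.lf 360709 0 0) (P.cons (P.lf 11215 0 0) (P.cons (P.lf 179 0 0) P.nil))) (P.cons (P.cons (P.lf 27386 0 0) (P.cons (P.lf 0 1988 0) P.nil)) (P.cons (P.cons (P.lf 0 157 0) P.nil) P.nil)))))) 641)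
 EL.nil))
noncomputable def S140_154_438_512_11 : EL := (EL.cons 3 (TM.mk (P.cons (P.cons (P.lf 0 17743055 0) (P.cons (P.lf 0 11912415 0) (P.cons (P.lf 0 2189054 0) (P.cons (P.lf 0 446 0) (P.cons (P.lf 20708 0 0) (P.cons (P.lf 336 0 0) P.nil)))))) (P.cons (P.cons (P.lf 27489050 0 0) (P.cons (P.lf 7276076 0 0) (P.cons (P.lf 0 539391 0) (P.cons (P.lf 0 59459 0) (P.cons (P.lf 6785 0 0) P.nil))))) (P.cons (P.cons (P.lf 0 11363605 0) (P.cons (P.lf 1212321 0 0) (P.cons (P.lf 0 54213 0) (P.cons (P.lf 0 8771 0) P.nil)))) (P.cons (P.cons (P.lf 437784 0 0) (P.cons (P.lf 0 26381 0) (P.cons (P.lf 0 1447 0) P.nil))) (P.cons (P.cons (P.lf 83221 0 0) (P.cons (P.lf 0 12382 0) P.nil)) (P.cons (P.cons (P.lf 0 1819 0) P.nil) P.nil)))))) 6449)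
 (EL.cons 7 (TM.mk (P.cons (P.cons (P.lf 0 8594250 0) (P.cons (P.lf 0 5770048 0) (P.cons (P.lf 0 1060318 0) (P.cons (P.lf 0 216 0) (P.cons (P.lf 10030 0 0) (P.cons (P.lf 163 0 0) P.nil)))))) (P.cons (P.cons (P.lf 12439577 0 0) (P.cons (P.lf 2936625 0 0) (P.cons (P.lf 0 369265 0) (P.cons (P.lf 0 28822 0) (P.cons (P.lf 4308 0 0) P.nil))))) (P.cons (P.cons (P.lf 0 4193859 0) (P.cons (P.lf 915416 0 0) (P.cons (P.lf 0 58525 0) (P.cons (P.lf 0 7183 0) P.nil)))) (P.cons (P.cons (P.lf 0 280518 0) (P.cons (P.lf 63850 0 0) (P.cons (P.lf 0 5132 0) P.nil))) (P.cons (P.cons (P.lf 36927 0 0) (P.cons (P.lf 0 3087 0) P.nil)) (P.cons (P.cons (P.lf 2750 0 0) P.nil) P.nil)))))) 3386)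
 EL.nil))
noncomputable def S140_154_438_512_12 : EL := (EL.cons 4 (TM.mk (P.cons (P.lf 2795377237 0 0) (P.cons (P.lf 0 113188447 0) (P.cons (P.lf 0 4815735 0) (P.cons (P.lf 0 28027 0) (P.cons (P.lf 3003 0 0) (P.cons (P.lf 90 0 0) P.nil)))))) 67)
 (EL.cons 8 (TM.mk (P.cons (P.lf 1354004171 0 0) (P.cons (P.lf 83086409 0 0) (P.cons (P.lf 0 696363 0) (P.cons (P.lf 0 79830 0) (P.cons (P.lf 0 1364 0) (P.cons (P.lf 28 0 0) P.nil)))))) 46)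
 EL.nil))
noncomputable def S140_154_438_512_13 : EL := (EL.cons 4 (TM.mk (P.cons (P.cons (P.lf 0 222707283 0) (P.cons (P.lf 0 74761137 0) (P.cons (P.lf 0 1189919 0) (P.lf 396637 0 0)))) (P.cons (P.cons (P.lf 177027386 0 0) (P.cons (P.lf 0 10735635 0) (P.cons (P.lf 0 170870 0) (P.lf 56956 0 0)))) (P.cons (P.cons (P.lf 0 7752030 0) (P.cons (P.lf 0 43113 0) (P.cons (P.lf 0 683 0) (P.lf 225 0 0)))) (P.cons (P.cons (P.lf 0 822874 0) (P.cons (P.lf 64088 0 0) (P.cons (P.lf 1017 0 0) P.nil))) (P.cons (P.cons (P.lf 12884 0 0) (P.cons (P.lf 3127 0 0) P.nil)) (P.cons (P.cons (P.lf 2475 0 0) P.nil) P.nil)))))) 1196)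
 (EL.cons 8 (TM.mk (P.cons (P.cons (P.lf 0 107873308 0) (P.cons (P.lf 0 36212247 0) (P.cons (P.lf 0 576364 0) (P.lf 192120 0 0)))) (P.cons (P.cons (P.lf 74759805 0 0) (P.cons (P.lf 0 8888438 0) (P.cons (P.lf 0 141470 0) (P.lf 47156 0 0)))) (P.cons (P.cons (P.lf 4403638 0 0) (P.cons (P.lf 0 743641 0) (P.cons (P.lf 0 11834 0) (P.lf 3944 0 0)))) (P.cons (P.cons (P.lf 0 360709 0) (P.cons (P.lf 0 11215 0) (P.cons (P.lf 0 179 0) P.nil))) (P.cons (P.cons (P.lf 0 27386 0) (P.cons (P.lf 1988 0 0) P.nil)) (P.cons (P.cons (P.lf 157 0 0) P.nil) P.nil)))))) 641)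
 EL.nil))
noncomputable def S140_154_438_512_14 : EL := (EL.cons 4 (TM.mk (P.cons (P.cons (P.lf 17743055 0 0) (P.cons (P.lf 11912415 0 0) (P.cons (P.lf 2189054 0 0) (P.cons (P.lf 446 0 0) (P.cons (P.lf 0 20708 0) (P.cons (P.lf 0 336 0) P.nil)))))) (P.cons (P.cons (P.lf 0 27489050 0) (P.cons (P.lf 0 7276076 0) (P.cons (P.lf 539391 0 0) (P.cons (P.lf 59459 0 0) (P.cons (P.lf 0 6785 0) P.nil))))) (P.cons (P.cons (P.lf 11363605 0 0) (P.cons (P.lf 0 1212321 0) (P.cons (P.lf 54213 0 0) (P.cons (P.lf 8771 0 0) P.nil)))) (P.cons (P.cons (P.lf 0 437784 0) (P.cons (P.lf 26381 0 0) (P.cons (P.lf 1447 0 0) P.nil))) (P.cons (P.cons (P.lf 0 83221 0) (P.cons (P.lf 12382 0 0) P.nil)) (P.cons (P.cons (P.lf 1819 0 0) P.nil) P.nil)))))) 6449)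
 (EL.cons 8 (TM.mk (P.cons (P.cons (P.lf 8594250 0 0) (P.cons (P.lf 5770048 0 0) (P.cons (P.lf 1060318 0 0) (P.cons (P.lf 216 0 0) (P.cons (P.lf 0 10030 0) (P.cons (P.lf 0 163 0) P.nil)))))) (P.cons (P.cons (P.lf 0 12439577 0) (P.cons (P.lf 0 2936625 0) (P.cons (P.lf 369265 0 0) (P.cons (P.lf 28822 0 0) (P.cons (P.lf 0 4308 0) P.nil))))) (P.cons (P.cons (P.lf 4193859 0 0) (P.cons (P.lf 0 915416 0) (P.cons (P.lf 58525 0 0) (P.cons (P.lf 7183 0 0) P.nil)))) (P.cons (P.cons (P.lf 280518 0 0) (P.cons (P.lf 0 63850 0) (P.cons (P.lf 5132 0 0) P.nil))) (P.cons (P.cons (P.lf 0 36927 0) (P.cons (P.lf 3087 0 0) P.nil)) (P.cons (P.cons (P.lf 0 2750 0) P.nil) P.nil)))))) 3386)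
 EL.nil))
noncomputable def S140_154_438_512_15 : EL := (EL.cons 4 (TM.mk (P.cons (P.lf 0 1940661147 0) (P.cons (P.lf 157159770 0 0) (P.cons (P.lf 3504744 0 0) (P.cons (P.lf 0 231830 0) (P.cons (P.lf 0 11505 0) (P.cons (P.lf 0 22 0) P.nil)))))) 112)
 (EL.cons 8 (TM.mk (P.cons (P.lf 0 940003106 0) (P.cons (P.lf 0 19619918 0) (P.cons (P.lf 4438446 0 0) (P.cons (P.lf 144642 0 0) (P.cons (P.lf 0 2561 0) (P.cons (P.lf 0 250 0) P.nil)))))) 67)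
 EL.nil))
noncomputable def S140_154_438_512_16 : EL := (EL.cons 4 (TM.mk (P.cons (P.cons (P.lf 154612181 0 0) (P.cons (P.lf 51902130 0 0) (P.cons (P.lf 826088 0 0) (P.lf 0 275361 0)))) (P.cons (P.cons (P.lf 0 129159841 0) (P.cons (P.lf 5351517 0 0) (P.cons (P.lf 85175 0 0) (P.lf 0 28391 0)))) (P.cons (P.cons (P.lf 10091761 0 0) (P.cons (P.lf 0 361267 0) (P.cons (P.lf 0 5751 0) (P.lf 1918 0 0)))) (P.cons (P.cons (P.lf 563532 0 0) (P.cons (P.lf 0 59064 0) (P.cons (P.lf 0 938 0) P.nil))) (P.cons (P.cons (P.lf 0 39949 0) (P.cons (P.lf 0 439 0) P.nil)) (P.cons (P.cons (P.lf 0 2521 0) P.nil) P.nil)))))) 1288)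
 (EL.cons 8 (TM.mk (P.cons (P.cons (P.lf 74889906 0 0) (P.cons (P.lf 25139970 0 0) (P.cons (P.lf 400134 0 0) (P.lf 0 133377 0)))) (P.cons (P.cons (P.lf 0 54933595 0) (P.cons (P.lf 5152754 0 0) (P.cons (P.lf 82012 0 0) (P.lf 0 27337 0)))) (P.cons (P.cons (P.lf 0 1084649 0) (P.cons (P.lf 223095 0 0) (P.cons (P.lf 3549 0 0) (P.lf 0 1182 0)))) (P.cons (P.cons (P.lf 462869 0 0) (P.cons (P.lf 0 24000 0) (P.cons (P.lf 0 381 0) P.nil))) (P.cons (P.cons (P.lf 14740 0 0) (P.cons (P.lf 0 2619 0) P.nil)) (P.cons (P.cons (P.lf 0 1332 0) P.nil) P.nil)))))) 651)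
 EL.nil))
noncomputable def S140_154_438_512_17 : EL := (EL.cons 4 (TM.mk (P.cons (P.cons (P.lf 0 12317928 0) (P.cons (P.lf 0 8270069 0) (P.cons (P.lf 0 1519727 0) (P.cons (P.lf 0 310 0) (P.cons (P.lf 14376 0 0) (P.cons (P.lf 233 0 0) P.nil)))))) (P.cons (P.cons (P.lf 19582752 0 0) (P.cons (P.lf 5386204 0 0) (P.cons (P.lf 0 312930 0) (P.cons (P.lf 0 41265 0) (P.cons (P.lf 4128 0 0) P.nil))))) (P.cons (P.cons (P.lf 0 8640577 0) (P.cons (P.lf 651353 0 0) (P.cons (P.lf 0 19856 0) (P.cons (P.lf 0 4417 0) P.nil)))) (P.cons (P.cons (P.lf 590611 0 0) (P.cons (P.lf 0 61013 0) (P.cons (P.lf 1178 0 0) P.nil))) (P.cons (P.cons (P.lf 58856 0 0) (P.cons (P.lf 0 9363 0) P.nil)) (P.cons (P.cons (P.lf 0 4026 0) P.nil) P.nil)))))) 5845)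
 (EL.cons 8 (TM.mk (P.cons (P.cons (P.lf 0 5966467 0) (P.cons (P.lf 0 4005794 0) (P.cons (P.lf 0 736114 0) (P.cons (P.lf 0 150 0) (P.cons (P.lf 6963 0 0) (P.cons (P.lf 113 0 0) P.nil)))))) (P.cons (P.cons (P.lf 8877635 0 0) (P.cons (P.lf 2200920 0 0) (P.cons (P.lf 0 226552 0) (P.cons (P.lf 0 20003 0) (P.cons (P.lf 2709 0 0) P.nil))))) (P.cons (P.cons (P.lf 0 3250948 0) (P.cons (P.lf 559868 0 0) (P.cons (P.lf 0 28982 0) (P.cons (P.lf 0 4176 0) P.nil)))) (P.cons (P.cons (P.lf 0 91673 0) (P.cons (P.lf 15122 0 0) (P.cons (P.lf 0 1468 0) P.nil))) (P.cons (P.cons (P.lf 38444 0 0) (P.cons (P.lf 0 5058 0) P.nil)) (P.cons (P.cons (P.lf 1245 0 0) P.nil) P.nil)))))) 3073)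
 EL.nil))
noncomputable def S140_154_438_512_18 : EL := (EL.cons 4 (TM.mk (P.cons (P.lf 1347283520 0 0) (P.cons (P.lf 0 163659767 0) (P.cons (P.lf 0 336299 0) (P.cons (P.lf 433920 0 0) (P.cons (P.lf 8204 0 0) (P.cons (P.lf 0 633 0) P.nil)))))) 143)
 (EL.cons 8 (TM.mk (P.cons (P.lf 652587236 0 0) (P.cons (P.lf 0 12803181 0) (P.cons (P.lf 0 4757117 0) (P.cons (P.lf 0 5657 0) (P.cons (P.lf 11717 0 0) (P.cons (P.lf 341 0 0) P.nil)))))) 78)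
 EL.nil))
noncomputable def S140_154_438_512_19 : EL := (EL.cons 4 (TM.mk (P.cons (P.cons (P.lf 0 107337874 0) (P.cons (P.lf 0 36032505 0) (P.cons (P.lf 0 573503 0) (P.lf 191166 0 0)))) (P.cons (P.cons (P.lf 94014106 0 0) (P.cons (P.lf 0 2256230 0) (P.cons (P.lf 0 35910 0) (P.lf 11970 0 0)))) (P.cons (P.cons (P.lf 0 10451951 0) (P.cons (P.lf 463316 0 0) (P.cons (P.lf 7375 0 0) (P.lf 0 2459 0)))) (P.cons (P.cons (P.lf 0 260939 0) (P.cons (P.lf 37611 0 0) (P.cons (P.lf 597 0 0) P.nil))) (P.cons (P.cons (P.lf 54630 0 0) (P.cons (P.lf 0 1787 0) P.nil)) (P.cons (P.cons (P.lf 1464 0 0) P.nil) P.nil)))))) 1239)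
 (EL.cons 8 (TM.mk (P.cons (P.cons (P.lf 0 51991526 0) (P.cons (P.lf 0 17453159 0) (P.cons (P.lf 0 277789 0) (P.lf 92595 0 0)))) (P.cons (P.cons (P.lf 40242273 0 0) (P.cons (P.lf 0 2870544 0) (P.cons (P.lf 0 45688 0) (P.lf 15229 0 0)))) (P.cons (P.cons (P.lf 0 701644 0) (P.cons (P.lf 20032 0 0) (P.cons (P.lf 319 0 0) (P.lf 0 106 0)))) (P.cons (P.cons (P.lf 0 417012 0) (P.cons (P.lf 29270 0 0) (P.cons (P.lf 465 0 0) P.nil))) (P.cons (P.cons (P.lf 1042 0 0) (P.cons (P.lf 1427 0 0) P.nil)) (P.cons (P.cons (P.lf 1925 0 0) P.nil) P.nil)))))) 656)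
 EL.nil))
noncomputable def S140_154_438_512_20 : EL := (EL.cons 4 (TM.mk (P.cons (P.cons (P.lf 8551591 0 0) (P.cons (P.lf 5741408 0 0) (P.cons (P.lf 1055055 0 0) (P.cons (P.lf 214 0 0) (P.cons (P.lf 0 9980 0) (P.cons (P.lf 0 162 0) P.nil)))))) (P.cons (P.cons (P.lf 0 13941383 0) (P.cons (P.lf 0 3971792 0) (P.cons (P.lf 174527 0 0) (P.cons (P.lf 28639 0 0) (P.cons (P.lf 0 2461 0) P.nil))))) (P.cons (P.cons (P.lf 6534381 0 0) (P.cons (P.lf 0 310676 0) (P.cons (P.lf 3170 0 0) (P.cons (P.lf 1905 0 0) P.nil)))) (P.cons (P.cons (P.lf 0 629583 0) (P.cons (P.lf 67051 0 0) (P.cons (P.lf 0 1760 0) P.nil))) (P.cons (P.cons (P.lf 0 34445 0) (P.cons (P.lf 5608 0 0) P.nil)) (P.cons (P.cons (P.lf 5082 0 0) P.nil) P.nil)))))) 4840)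
 (EL.cons 8 (TM.mk (P.cons (P.cons (P.lf 4142156 0 0) (P.cons (P.lf 2780980 0 0) (P.cons (P.lf 511039 0 0) (P.cons (P.lf 104 0 0) (P.cons (P.lf 0 4834 0) (P.cons (P.lf 0 78 0) P.nil)))))) (P.cons (P.cons (P.lf 0 6330926 0) (P.cons (P.lf 0 1640571 0) (P.cons (P.lf 136588 0 0) (P.cons (P.lf 13882 0 0) (P.cons (P.lf 0 1685 0) P.nil))))) (P.cons (P.cons (P.lf 2499356 0 0) (P.cons (P.lf 0 331604 0) (P.cons (P.lf 12871 0 0) (P.cons (P.lf 2336 0 0) P.nil)))) (P.cons (P.cons (P.lf 0 17166 0) (P.cons (P.lf 7844 0 0) (P.cons (P.lf 0 70 0) P.nil))) (P.cons (P.cons (P.lf 0 33089 0) (P.cons (P.lf 4624 0 0) P.nil)) (P.cons (P.cons (P.lf 77 0 0) P.nil) P.nil)))))) 2663)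
 EL.nil))
noncomputable def S140_154_438_512_21 : EL := (EL.cons 4 (TM.mk (P.cons (P.cons (P.lf 0 2737942488 0) (P.cons (P.lf 224283411 0 0) (P.cons (P.lf 3569757 0 0) (P.lf 0 1189911 0)))) (P.cons (P.cons (P.lf 0 59602851 0) (P.cons (P.lf 32206905 0 0) (P.cons (P.lf 512610 0 0) (P.lf 0 170868 0)))) (P.cons (P.cons (P.lf 33770325 0 0) (P.cons (P.lf 129339 0 0) (P.cons (P.lf 2049 0 0) (P.lf 0 675 0)))) (P.cons (P.cons (P.lf 1773135 0 0) (P.cons (P.lf 0 192264 0) (P.cons (P.lf 0 3051 0) P.nil))) (P.cons (P.cons (P.lf 0 73167 0) (P.cons (P.lf 0 9381 0) P.nil)) (P.cons (P.cons (P.lf 0 7497 0) P.nil) P.nil)))))) 3915)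
 (EL.cons 8 (TM.mk (P.cons (P.cons (P.lf 2009797092 0 0) (P.cons (P.lf 0 164636103 0) (P.cons (P.lf 0 2620404 0) (P.lf 873471 0 0)))) (P.cons (P.cons (P.lf 0 160955727 0) (P.cons (P.lf 0 6872631 0) (P.cons (P.lf 0 109389 0) (P.lf 36465 0 0)))) (P.cons (P.cons (P.lf 0 19112733 0) (P.cons (P.lf 1483011 0 0) (P.cons (P.lf 23598 0 0) (P.lf 0 7866 0)))) (P.cons (P.cons (P.lf 815169 0 0) (P.cons (P.lf 83115 0 0) (P.cons (P.lf 1323 0 0) P.nil))) (P.cons (P.cons (P.lf 83517 0 0) (P.cons (P.lf 0 3510 0) P.nil)) (P.cons (P.cons (P.lf 0 99 0) P.nil) P.nil)))))) 2514)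
 (EL.cons 11 (TM.mk (P.cons (P.cons (P.lf 1257210396 0 0) (P.cons (P.lf 46603074 0 0) (P.cons (P.lf 0 23091990 0) (P.cons (P.lf 0 209544 0) (P.lf 52386 0 0))))) (P.cons (P.cons (P.lf 154293609 0 0) (P.cons (P.lf 5719452 0 0) (P.cons (P.lf 0 2834007 0) (P.cons (P.lf 0 25716 0) (P.lf 6429 0 0))))) (P.cons (P.cons (P.lf 3440829 0 0) (P.cons (P.lf 127545 0 0) (P.cons (P.lf 0 63198 0) (P.cons (P.lf 0 573 0) P.nil)))) (P.cons (P.cons (P.lf 0 227595 0) (P.cons (P.lf 0 8436 0) (P.cons (P.lf 4179 0 0) P.nil))) (P.cons (P.cons (P.lf 0 11295 0) (P.cons (P.lf 0 417 0) P.nil)) (P.cons (P.cons (P.lf 0 24 0) P.nil) P.nil)))))) 627)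
 EL.nil)))
noncomputable def S140_154_438_512_22 : EL := (EL.cons 4 (TM.mk (P.cons (P.cons (P.lf 218131464 0 0) (P.cons (P.lf 55356444 0 0) (P.cons (P.lf 0 5117292 0) (P.cons (P.lf 0 484629 0) (P.cons (P.lf 62127 0 0) (P.cons (P.lf 1011 0 0) P.nil)))))) (P.cons (P.cons (P.lf 0 159809145 0) (P.cons (P.lf 25988202 0 0) (P.cons (P.lf 0 1551963 0) (P.cons (P.lf 0 200448 0) (P.cons (P.lf 20358 0 0) P.nil))))) (P.cons (P.cons (P.lf 0 4967382 0) (P.cons (P.lf 1922961 0 0) (P.cons (P.lf 0 189927 0) (P.cons (P.lf 0 17217 0) P.nil)))) (P.cons (P.cons (P.lf 2494359 0 0) (P.cons (P.lf 0 247608 0) (P.cons (P.lf 0 7023 0) P.nil))) (P.cons (P.cons (P.lf 119997 0 0) (P.cons (P.lf 0 36549 0) P.nil)) (P.cons (P.cons (P.lf 0 12324 0) P.nil) P.nil)))))) 12372)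
 (EL.cons 8 (TM.mk (P.cons (P.cons (P.lf 0 160120230 0) (P.cons (P.lf 0 40634607 0) (P.cons (P.lf 3756369 0 0) (P.cons (P.lf 355743 0 0) (P.cons (P.lf 0 45603 0) (P.cons (P.lf 0 741 0) P.nil)))))) (P.cons (P.cons (P.lf 133617519 0 0) (P.cons (P.lf 0 14937909 0) (P.cons (P.lf 756621 0 0) (P.cons (P.lf 110904 0 0) (P.cons (P.lf 0 10299 0) P.nil))))) (P.cons (P.cons (P.lf 0 9109386 0) (P.cons (P.lf 326631 0 0) (P.cons (P.lf 42321 0 0) (P.cons (P.lf 0 552 0) P.nil)))) (P.cons (P.cons (P.lf 0 1560861 0) (P.cons (P.lf 242061 0 0) (P.cons (P.lf 0 4473 0) P.nil))) (P.cons (P.cons (P.lf 77232 0 0) (P.cons (P.lf 6441 0 0) P.nil)) (P.cons (P.cons (P.lf 9909 0 0) P.nil) P.nil)))))) 8070)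
 (EL.cons 11 (TM.mk (P.cons (P.cons (P.lf 0 100161762 0) (P.cons (P.lf 0 37336398 0) (P.cons (P.lf 58194 0 0) (P.cons (P.lf 792828 0 0) (P.cons (P.lf 17871 0 0) (P.cons (P.lf 0 4587 0) P.nil)))))) (P.cons (P.cons (P.lf 63269172 0 0) (P.cons (P.lf 0 7970985 0) (P.cons (P.lf 0 1708713 0) (P.cons (P.lf 227586 0 0) (P.cons (P.lf 9399 0 0) P.nil))))) (P.cons (P.cons (P.lf 8399922 0 0) (P.cons (P.lf 0 868248 0) (P.cons (P.lf 0 216786 0) (P.cons (P.lf 25827 0 0) P.nil)))) (P.cons (P.cons (P.lf 0 113814 0) (P.cons (P.lf 0 50775 0) (P.cons (P.lf 0 375 0) P.nil))) (P.cons (P.cons (P.lf 0 52074 0) (P.cons (P.lf 150 0 0) P.nil)) (P.cons (P.cons (P.lf 0 1554 0) P.nil) P.nil)))))) 6936)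
 EL.nil)))
noncomputable def S140_154_438_512_23 : EL := (EL.cons 4 (TM.mk (P.cons (P.cons (P.lf 1900787676 0 0) (P.cons (P.lf 0 155706390 0) (P.cons (P.lf 0 2478264 0) (P.lf 826083 0 0)))) (P.cons (P.cons (P.lf 0 35586705 0) (P.cons (P.lf 0 16054548 0) (P.cons (P.lf 0 255525 0) (P.lf 85173 0 0)))) (P.cons (P.cons (P.lf 0 28394748 0) (P.cons (P.lf 1083807 0 0) (P.cons (P.lf 17256 0 0) (P.lf 0 5757 0)))) (P.cons (P.cons (P.lf 0 372015 0) (P.cons (P.lf 177192 0 0) (P.cons (P.lf 2811 0 0) P.nil))) (P.cons (P.cons (P.lf 142656 0 0) (P.cons (P.lf 1317 0 0) P.nil)) (P.cons (P.cons (P.lf 5607 0 0) P.nil) P.nil)))))) 4155)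
 (EL.cons 8 (TM.mk (P.cons (P.cons (P.lf 0 1395280419 0) (P.cons (P.lf 114296877 0 0) (P.cons (P.lf 1819185 0 0) (P.lf 0 606396 0)))) (P.cons (P.cons (P.lf 168238527 0 0) (P.cons (P.lf 143220 0 0) (P.cons (P.lf 2280 0 0) (P.lf 0 759 0)))) (P.cons (P.cons (P.lf 11147961 0 0) (P.cons (P.lf 0 1419663 0) (P.cons (P.lf 0 22590 0) (P.lf 7530 0 0)))) (P.cons (P.cons (P.lf 0 1281705 0) (P.cons (P.lf 0 25377 0) (P.cons (P.lf 0 402 0) P.nil))) (P.cons (P.cons (P.lf 0 60543 0) (P.cons (P.lf 6621 0 0) P.nil)) (P.cons (P.cons (P.lf 3333 0 0) P.nil) P.nil)))))) 2613)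
 (EL.cons 11 (TM.mk (P.cons (P.cons (P.lf 0 872805048 0) (P.cons (P.lf 0 32353692 0) (P.cons (P.lf 16031370 0 0) (P.cons (P.lf 145473 0 0) (P.lf 0 36366 0))))) (P.cons (P.cons (P.lf 0 71775702 0) (P.cons (P.lf 0 2660625 0) (P.cons (P.lf 1318347 0 0) (P.cons (P.lf 11961 0 0) (P.lf 0 2988 0))))) (P.cons (P.cons (P.lf 3452157 0 0) (P.cons (P.lf 127968 0 0) (P.cons (P.lf 0 63408 0) (P.cons (P.lf 0 573 0) P.nil)))) (P.cons (P.cons (P.lf 448014 0 0) (P.cons (P.lf 16605 0 0) (P.cons (P.lf 0 8226 0) P.nil))) (P.cons (P.cons (P.lf 5694 0 0) (P.cons (P.lf 207 0 0) P.nil)) (P.cons (P.cons (P.lf 0 690 0) P.nil) P.nil)))))) 1128)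
 EL.nil)))
noncomputable def S140_154_438_512_24 : EL := (EL.cons 4 (TM.mk (P.cons (P.cons (P.lf 0 151435467 0) (P.cons (P.lf 0 38430627 0) (P.cons (P.lf 3552624 0 0) (P.cons (P.lf 336450 0 0) (P.cons (P.lf 0 43131 0) (P.cons (P.lf 0 702 0) P.nil)))))) (P.cons (P.cons (P.lf 117077631 0 0) (P.cons (P.lf 0 16485927 0) (P.cons (P.lf 933585 0 0) (P.cons (P.lf 125535 0 0) (P.cons (P.lf 0 12387 0) P.nil))))) (P.cons (P.cons (P.lf 0 782901 0) (P.cons (P.lf 0 538242 0) (P.cons (P.lf 82107 0 0) (P.cons (P.lf 5739 0 0) P.nil)))) (P.cons (P.cons (P.lf 0 2060931 0) (P.cons (P.lf 257421 0 0) (P.cons (P.lf 0 2352 0) P.nil))) (P.cons (P.cons (P.lf 0 20406 0) (P.cons (P.lf 20853 0 0) P.nil)) (P.cons (P.cons (P.lf 14991 0 0) P.nil) P.nil)))))) 9498)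
 (EL.cons 8 (TM.mk (P.cons (P.cons (P.lf 111161781 0 0) (P.cons (P.lf 28210146 0 0) (P.cons (P.lf 0 2607819 0) (P.cons (P.lf 0 246969 0) (P.cons (P.lf 31659 0 0) (P.cons (P.lf 516 0 0) P.nil)))))) (P.cons (P.cons (P.lf 0 97263636 0) (P.cons (P.lf 9228219 0 0) (P.cons (P.lf 0 419682 0) (P.cons (P.lf 0 66993 0) (P.cons (P.lf 5868 0 0) P.nil))))) (P.cons (P.cons (P.lf 9888666 0 0) (P.cons (P.lf 0 695274 0) (P.cons (P.lf 0 3618 0) (P.cons (P.lf 3927 0 0) P.nil)))) (P.cons (P.cons (P.lf 986232 0 0) (P.cons (P.lf 0 177015 0) (P.cons (P.lf 5226 0 0) P.nil))) (P.cons (P.cons (P.lf 0 107340 0) (P.cons (P.lf 2649 0 0) P.nil)) (P.cons (P.cons (P.lf 0 6732 0) P.nil) P.nil)))))) 5973)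
 (EL.cons 11 (TM.mk (P.cons (P.cons (P.lf 69536244 0 0) (P.cons (P.lf 25920399 0 0) (P.cons (P.lf 0 40401 0) (P.cons (P.lf 0 550410 0) (P.cons (P.lf 0 12405 0) (P.cons (P.lf 3183 0 0) P.nil)))))) (P.cons (P.cons (P.lf 0 46739568 0) (P.cons (P.lf 4484220 0 0) (P.cons (P.lf 1187889 0 0) (P.cons (P.lf 0 135711 0) (P.cons (P.lf 0 6021 0) P.nil))))) (P.cons (P.cons (P.lf 0 4172811 0) (P.cons (P.lf 334047 0 0) (P.cons (P.lf 102537 0 0) (P.cons (P.lf 0 10584 0) P.nil)))) (P.cons (P.cons (P.lf 390114 0 0) (P.cons (P.lf 1050 0 0) (P.cons (P.lf 0 7875 0) P.nil))) (P.cons (P.cons (P.lf 43515 0 0) (P.cons (P.lf 0 2598 0) P.nil)) (P.cons (P.cons (P.lf 0 504 0) P.nil) P.nil)))))) 5022)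
 EL.nil)))
noncomputable def S140_154_438_512_25 : EL := (EL.cons 4 (TM.mk (P.cons (P.cons (P.lf 0 1319601786 0) (P.cons (P.lf 108097518 0 0) (P.cons (P.lf 1720509 0 0) (P.lf 0 573498 0)))) (P.cons (P.cons (P.lf 78138081 0 0) (P.cons (P.lf 6768693 0 0) (P.cons (P.lf 107730 0 0) (P.lf 0 35907 0)))) (P.cons (P.cons (P.lf 20985729 0 0) (P.cons (P.lf 0 1389951 0) (P.cons (P.lf 0 22125 0) (P.lf 7377 0 0)))) (P.cons (P.cons (P.lf 0 569256 0) (P.cons (P.lf 0 112833 0) (P.cons (P.lf 0 1791 0) P.nil))) (P.cons (P.cons (P.lf 0 145119 0) (P.cons (P.lf 5364 0 0) P.nil)) (P.cons (P.cons (P.lf 0 540 0) P.nil) P.nil)))))) 3831)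
 (EL.cons 8 (TM.mk (P.cons (P.cons (P.lf 968658708 0 0) (P.cons (P.lf 0 79349400 0) (P.cons (P.lf 0 1262949 0) (P.lf 420984 0 0)))) (P.cons (P.cons (P.lf 0 156020067 0) (P.cons (P.lf 3113529 0 0) (P.cons (P.lf 49554 0 0) (P.lf 0 16515 0)))) (P.cons (P.cons (P.lf 0 4678815 0) (P.cons (P.lf 1126311 0 0) (P.cons (P.lf 17922 0 0) (P.lf 0 5973 0)))) (P.cons (P.cons (P.lf 1394688 0 0) (P.cons (P.lf 0 21321 0) (P.cons (P.lf 0 339 0) P.nil))) (P.cons (P.cons (P.lf 21546 0 0) (P.cons (P.lf 0 7092 0) P.nil)) (P.cons (P.cons (P.lf 0 5565 0) P.nil) P.nil)))))) 2433)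
 (EL.cons 11 (TM.mk (P.cons (P.cons (P.lf 605935695 0 0) (P.cons (P.lf 22461207 0 0) (P.cons (P.lf 0 11129607 0) (P.cons (P.lf 0 100992 0) (P.lf 25248 0 0))))) (P.cons (P.cons (P.lf 25294401 0 0) (P.cons (P.lf 937626 0 0) (P.cons (P.lf 0 464595 0) (P.cons (P.lf 0 4215 0) (P.lf 1053 0 0))))) (P.cons (P.cons (P.lf 0 5458161 0) (P.cons (P.lf 0 202326 0) (P.cons (P.lf 100254 0 0) (P.cons (P.lf 909 0 0) P.nil)))) (P.cons (P.cons (P.lf 0 305907 0) (P.cons (P.lf 0 11337 0) (P.cons (P.lf 5616 0 0) P.nil))) (P.cons (P.cons (P.lf 12918 0 0) (P.cons (P.lf 477 0 0) P.nil)) (P.cons (P.cons (P.lf 1272 0 0) P.nil) P.nil)))))) 1341)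
 EL.nil)))
noncomputable def S140_154_438_512_26 : EL := (EL.cons 4 (TM.mk (P.cons (P.cons (P.lf 105132474 0 0) (P.cons (P.lf 26680056 0 0) (P.cons (P.lf 0 2466372 0) (P.cons (P.lf 0 233577 0) (P.cons (P.lf 29943 0 0) (P.cons (P.lf 486 0 0) P.nil)))))) (P.cons (P.cons (P.lf 0 85536858 0) (P.cons (P.lf 10364871 0 0) (P.cons (P.lf 0 548265 0) (P.cons (P.lf 0 77691 0) (P.cons (P.lf 7386 0 0) P.nil))))) (P.cons (P.cons (P.lf 3653532 0 0) (P.cons (P.lf 0 135720 0) (P.cons (P.lf 0 26508 0) (P.cons (P.lf 0 54 0) P.nil)))) (P.cons (P.cons (P.lf 1547742 0 0) (P.cons (P.lf 0 213825 0) (P.cons (P.lf 5082 0 0) P.nil))) (P.cons (P.cons (P.lf 0 43773 0) (P.cons (P.lf 0 7968 0) P.nil)) (P.cons (P.cons (P.lf 0 13533 0) P.nil) P.nil)))))) 8412)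
 (EL.cons 8 (TM.mk (P.cons (P.cons (P.lf 0 77172891 0) (P.cons (P.lf 0 19584597 0) (P.cons (P.lf 1810449 0 0) (P.cons (P.lf 171456 0 0) (P.cons (P.lf 0 21978 0) (P.cons (P.lf 0 357 0) P.nil)))))) (P.cons (P.cons (P.lf 70649085 0 0) (P.cons (P.lf 0 5613588 0) (P.cons (P.lf 218052 0 0) (P.cons (P.lf 39567 0 0) (P.cons (P.lf 0 3183 0) P.nil))))) (P.cons (P.cons (P.lf 0 9466296 0) (P.cons (P.lf 775836 0 0) (P.cons (P.lf 0 12402 0) (P.cons (P.lf 0 4902 0) P.nil)))) (P.cons (P.cons (P.lf 0 522258 0) (P.cons (P.lf 114579 0 0) (P.cons (P.lf 0 4251 0) P.nil))) (P.cons (P.cons (P.lf 113310 0 0) (P.cons (P.lf 0 7602 0) P.nil)) (P.cons (P.cons (P.lf 2976 0 0) P.nil) P.nil)))))) 5277)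
 (EL.cons 11 (TM.mk (P.cons (P.cons (P.lf 0 48274803 0) (P.cons (P.lf 0 17994963 0) (P.cons (P.lf 28047 0 0) (P.cons (P.lf 382116 0 0) (P.cons (P.lf 8613 0 0) (P.cons (P.lf 0 2211 0) P.nil)))))) (P.cons (P.cons (P.lf 34403160 0 0) (P.cons (P.lf 0 2384484 0) (P.cons (P.lf 0 825816 0) (P.cons (P.lf 78744 0 0) (P.cons (P.lf 3831 0 0) P.nil))))) (P.cons (P.cons (P.lf 1666215 0 0) (P.cons (P.lf 0 74853 0) (P.cons (P.lf 0 37842 0) (P.cons (P.lf 2874 0 0) P.nil)))) (P.cons (P.cons (P.lf 0 443547 0) (P.cons (P.lf 14202 0 0) (P.cons (P.lf 9768 0 0) P.nil))) (P.cons (P.cons (P.lf 0 24609 0) (P.cons (P.lf 2244 0 0) P.nil)) (P.cons (P.cons (P.lf 2043 0 0) P.nil) P.nil)))))) 4476)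
 EL.nil)))
noncomputable def S140_154_438_512_27 : EL := (EL.cons 13 (TM.mk (P.lf 0 4294967296 0) 0)
 EL.nil)
noncomputable def S140_154_438_512_28 : EL := (EL.cons 13 (TM.mk (P.cons (P.cons (P.lf 342179398 0 0) (P.cons (P.lf 114867016 0 0) (P.cons (P.lf 1828256 0 0) (P.lf 0 609416 0)))) (P.cons (P.cons (P.lf 0 258139070 0) (P.cons (P.lf 21145920 0 0) (P.cons (P.lf 336564 0 0) (P.lf 0 112188 0)))) (P.cons (P.cons (P.lf 2047738 0 0) (P.cons (P.lf 1120356 0 0) (P.cons (P.lf 17828 0 0) (P.lf 0 5940 0)))) (P.cons (P.cons (P.lf 905947 0 0) (P.cons (P.lf 0 15524 0) (P.cons (P.lf 0 244 0) P.nil))) (P.cons (P.cons (P.lf 17458 0 0) (P.cons (P.lf 0 3416 0) P.nil)) (P.cons (P.cons (P.lf 0 1251 0) P.nil) P.nil)))))) 914)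
 EL.nil)
noncomputable def S140_154_438_512_29 : EL := (EL.cons 13 (TM.mk (P.cons (P.cons (P.lf 0 27261381 0) (P.cons (P.lf 0 18302875 0) (P.cons (P.lf 0 3363381 0) (P.cons (P.lf 0 687 0) (P.cons (P.lf 31818 0 0) (P.cons (P.lf 518 0 0) P.nil)))))) (P.cons (P.cons (P.lf 41131801 0 0) (P.cons (P.lf 10438247 0 0) (P.cons (P.lf 0 964938 0) (P.cons (P.lf 0 91384 0) (P.cons (P.lf 11715 0 0) P.nil))))) (P.cons (P.cons (P.lf 0 15841137 0) (P.cons (P.lf 2253804 0 0) (P.cons (P.lf 0 128164 0) (P.cons (P.lf 0 17179 0) P.nil)))) (P.cons (P.cons (P.lf 101795 0 0) (P.cons (P.lf 68524 0 0) (P.cons (P.lf 0 9111 0) P.nil))) (P.cons (P.cons (P.lf 105141 0 0) (P.cons (P.lf 0 12244 0) P.nil)) (P.cons (P.cons (P.lf 1434 0 0) P.nil) P.nil)))))) 6553)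
 EL.nil)
noncomputable def S140_154_438_512_30 : EL := (EL.cons 13 (TM.mk (P.cons (P.lf 2981735720 0 0) (P.cons (P.lf 0 120734344 0) (P.cons (P.lf 0 5136784 0) (P.cons (P.lf 0 29896 0) (P.cons (P.lf 3204 0 0) (P.cons (P.lf 96 0 0) P.nil)))))) 64)
 EL.nil)
noncomputable def S140_154_438_512_31 : EL := (EL.cons 13 (TM.mk (P.cons (P.cons (P.lf 0 237554436 0) (P.cons (P.lf 0 79745213 0) (P.cons (P.lf 0 1269247 0) (P.lf 423080 0 0)))) (P.cons (P.cons (P.lf 188829212 0 0) (P.cons (P.lf 0 11451344 0) (P.cons (P.lf 0 182262 0) (P.lf 60754 0 0)))) (P.cons (P.cons (P.lf 0 8268832 0) (P.cons (P.lf 0 45988 0) (P.cons (P.lf 0 729 0) (P.lf 241 0 0)))) (P.cons (P.cons (P.lf 0 877733 0) (P.cons (P.lf 68361 0 0) (P.cons (P.lf 1085 0 0) P.nil))) (P.cons (P.cons (P.lf 13743 0 0) (P.cons (P.lf 3336 0 0) P.nil)) (P.cons (P.cons (P.lf 2641 0 0) P.nil) P.nil)))))) 1256)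
 EL.nil)
noncomputable def S140_154_438_512_32 : EL := (EL.cons 13 (TM.mk (P.cons (P.cons (P.lf 18925926 0 0) (P.cons (P.lf 12706577 0 0) (P.cons (P.lf 2334991 0 0) (P.cons (P.lf 476 0 0) (P.cons (P.lf 0 22089 0) (P.cons (P.lf 0 359 0) P.nil)))))) (P.cons (P.cons (P.lf 0 29321654 0) (P.cons (P.lf 0 7761148 0) (P.cons (P.lf 575351 0 0) (P.cons (P.lf 63423 0 0) (P.cons (P.lf 0 7238 0) P.nil))))) (P.cons (P.cons (P.lf 12121179 0 0) (P.cons (P.lf 0 1293143 0) (P.cons (P.lf 57828 0 0) (P.cons (P.lf 9356 0 0) P.nil)))) (P.cons (P.cons (P.lf 0 466970 0) (P.cons (P.lf 28140 0 0) (P.cons (P.lf 1544 0 0) P.nil))) (P.cons (P.cons (P.lf 0 88770 0) (P.cons (P.lf 13208 0 0) P.nil)) (P.cons (P.cons (P.lf 1941 0 0) P.nil) P.nil)))))) 6856)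
 EL.nil)
noncomputable def S140_154_438_512_33 : EL := (EL.cons 14 (TM.mk (P.lf 8589934592 0 0) 0)
 EL.nil)
noncomputable def S140_154_438_512_34 : EL := (EL.cons 14 (TM.mk (P.cons (P.cons (P.lf 0 684358796 0) (P.cons (P.lf 0 229734032 0) (P.cons (P.lf 0 3656512 0) (P.lf 1218832 0 0)))) (P.cons (P.cons (P.lf 516278140 0 0) (P.cons (P.lf 0 42291840 0) (P.cons (P.lf 0 673128 0) (P.lf 224376 0 0)))) (P.cons (P.cons (P.lf 0 4095476 0) (P.cons (P.lf 0 2240712 0) (P.cons (P.lf 0 35656 0) (P.lf 11880 0 0)))) (P.cons (P.cons (P.lf 0 1811894 0) (P.cons (P.lf 31048 0 0) (P.cons (P.lf 488 0 0) P.nil))) (P.cons (P.cons (P.lf 0 34916 0) (P.cons (P.lf 6832 0 0) P.nil)) (P.cons (P.cons (P.lf 2502 0 0) P.nil) P.nil)))))) 1828)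
 EL.nil)
noncomputable def S140_154_438_512_35 : EL := (EL.cons 14 (TM.mk (P.cons (P.cons (P.lf 54522762 0 0) (P.cons (P.lf 36605750 0 0) (P.cons (P.lf 6726762 0 0) (P.cons (P.lf 1374 0 0) (P.cons (P.lf 0 63636 0) (P.cons (P.lf 0 1036 0) P.nil)))))) (P.cons (P.cons (P.lf 0 82263602 0) (P.cons (P.lf 0 20876494 0) (P.cons (P.lf 1929876 0 0) (P.cons (P.lf 182768 0 0) (P.cons (P.lf 0 23430 0) P.nil))))) (P.cons (P.cons (P.lf 31682274 0 0) (P.cons (P.lf 0 4507608 0) (P.cons (P.lf 256328 0 0) (P.cons (P.lf 34358 0 0) P.nil)))) (P.cons (P.cons (P.lf 0 203590 0) (P.cons (P.lf 0 137048 0) (P.cons (P.lf 18222 0 0) P.nil))) (P.cons (P.cons (P.lf 0 210282 0) (P.cons (P.lf 24488 0 0) P.nil)) (P.cons (P.cons (P.lf 0 2868 0) P.nil) P.nil)))))) 13106)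
 EL.nil)
noncomputable def S140_154_438_512_36 : EL := (EL.cons 14 (TM.mk (P.cons (P.lf 0 5963471440 0) (P.cons (P.lf 241468688 0 0) (P.cons (P.lf 10273568 0 0) (P.cons (P.lf 59792 0 0) (P.cons (P.lf 0 6408 0) (P.cons (P.lf 0 192 0) P.nil)))))) 128)
 EL.nil)
noncomputable def S140_154_438_512_37 : EL := (EL.cons 14 (TM.mk (P.cons (P.cons (P.lf 475108872 0 0) (P.cons (P.lf 159490426 0 0) (P.cons (P.lf 2538494 0 0) (P.lf 0 846160 0)))) (P.cons (P.cons (P.lf 0 377658424 0) (P.cons (P.lf 22902688 0 0) (P.cons (P.lf 364524 0 0) (P.lf 0 121508 0)))) (P.cons (P.cons (P.lf 16537664 0 0) (P.cons (P.lf 91976 0 0) (P.cons (P.lf 1458 0 0) (P.lf 0 482 0)))) (P.cons (P.cons (P.lf 1755466 0 0) (P.cons (P.lf 0 136722 0) (P.cons (P.lf 0 2170 0) P.nil))) (P.cons (P.cons (P.lf 0 27486 0) (P.cons (P.lf 0 6672 0) P.nil)) (P.cons (P.cons (P.lf 0 5282 0) P.nil) P.nil)))))) 2512)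
 EL.nil)
noncomputable def S140_154_438_512_38 : EL := (EL.cons 14 (TM.mk (P.cons (P.cons (P.lf 0 37851852 0) (P.cons (P.lf 0 25413154 0) (P.cons (P.lf 0 4669982 0) (P.cons (P.lf 0 952 0) (P.cons (P.lf 44178 0 0) (P.cons (P.lf 718 0 0) P.nil)))))) (P.cons (P.cons (P.lf 58643308 0 0) (P.cons (P.lf 15522296 0 0) (P.cons (P.lf 0 1150702 0) (P.cons (P.lf 0 126846 0) (P.cons (P.lf 14476 0 0) P.nil))))) (P.cons (P.cons (P.lf 0 24242358 0) (P.cons (P.lf 2586286 0 0) (P.cons (P.lf 0 115656 0) (P.cons (P.lf 0 18712 0) P.nil)))) (P.cons (P.cons (P.lf 933940 0 0) (P.cons (P.lf 0 56280 0) (P.cons (P.lf 0 3088 0) P.nil))) (P.cons (P.cons (P.lf 177540 0 0) (P.cons (P.lf 0 26416 0) P.nil)) (P.cons (P.cons (P.lf 0 3882 0) P.nil) P.nil)))))) 13712)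
 EL.nil)
noncomputable def S140_154_438_512_39 : EL := (EL.cons 14 (TM.mk (P.cons (P.lf 4140077114 0 0) (P.cons (P.lf 0 335274176 0) (P.cons (P.lf 0 7476788 0) (P.cons (P.lf 494572 0 0) (P.cons (P.lf 24546 0 0) (P.cons (P.lf 48 0 0) P.nil)))))) 226)
 EL.nil)
noncomputable def S140_154_438_512_40 : EL := (EL.cons 14 (TM.mk (P.cons (P.cons (P.lf 0 329839320 0) (P.cons (P.lf 0 110724546 0) (P.cons (P.lf 0 1762322 0) (P.lf 587438 0 0)))) (P.cons (P.cons (P.lf 275540996 0 0) (P.cons (P.lf 0 11416570 0) (P.cons (P.lf 0 181708 0) (P.lf 60568 0 0)))) (P.cons (P.cons (P.lf 0 21529092 0) (P.cons (P.lf 770704 0 0) (P.cons (P.lf 12270 0 0) (P.lf 0 4092 0)))) (P.cons (P.cons (P.lf 0 1202202 0) (P.cons (P.lf 126004 0 0) (P.cons (P.lf 2002 0 0) P.nil))) (P.cons (P.cons (P.lf 85226 0 0) (P.cons (P.lf 938 0 0) P.nil)) (P.cons (P.cons (P.lf 5380 0 0) P.nil) P.nil)))))) 2708)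
 EL.nil)
noncomputable def S140_154_438_512_41 : EL := (EL.cons 14 (TM.mk (P.cons (P.cons (P.lf 26278248 0 0) (P.cons (P.lf 17642814 0 0) (P.cons (P.lf 3242086 0 0) (P.cons (P.lf 662 0 0) (P.cons (P.lf 0 30670 0) (P.cons (P.lf 0 498 0) P.nil)))))) (P.cons (P.cons (P.lf 0 41776538 0) (P.cons (P.lf 0 11490570 0) (P.cons (P.lf 667586 0 0) (P.cons (P.lf 88034 0 0) (P.cons (P.lf 0 8808 0) P.nil))))) (P.cons (P.cons (P.lf 18433232 0 0) (P.cons (P.lf 0 1389554 0) (P.cons (P.lf 42360 0 0) (P.cons (P.lf 9424 0 0) P.nil)))) (P.cons (P.cons (P.lf 0 1259972 0) (P.cons (P.lf 130162 0 0) (P.cons (P.lf 0 2514 0) P.nil))) (P.cons (P.cons (P.lf 0 125560 0) (P.cons (P.lf 19976 0 0) P.nil)) (P.cons (P.cons (P.lf 8590 0 0) P.nil) P.nil)))))) 12424)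
 EL.nil)
noncomputable def S140_154_438_512_42 : EL := (EL.cons 14 (TM.mk (P.cons (P.lf 0 2874204844 0) (P.cons (P.lf 349140838 0 0) (P.cons (P.lf 717438 0 0) (P.cons (P.lf 0 925698 0) (P.cons (P.lf 0 17502 0) (P.cons (P.lf 1352 0 0) P.nil)))))) 292)
 EL.nil)
noncomputable def S140_154_438_512_43 : EL := (EL.cons 14 (TM.mk (P.cons (P.cons (P.lf 228987466 0 0) (P.cons (P.lf 76869346 0 0) (P.cons (P.lf 1223474 0 0) (P.lf 0 407822 0)))) (P.cons (P.cons (P.lf 0 200563428 0) (P.cons (P.lf 4813292 0 0) (P.cons (P.lf 76608 0 0) (P.lf 0 25536 0)))) (P.cons (P.cons (P.lf 22297496 0 0) (P.cons (P.lf 0 988408 0) (P.cons (P.lf 0 15734 0) (P.lf 5246 0 0)))) (P.cons (P.cons (P.lf 556670 0 0) (P.cons (P.lf 0 80238 0) (P.cons (P.lf 0 1274 0) P.nil))) (P.cons (P.cons (P.lf 0 116546 0) (P.cons (P.lf 3814 0 0) P.nil)) (P.cons (P.cons (P.lf 0 3124 0) P.nil) P.nil)))))) 2604)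
 EL.nil)
noncomputable def S140_154_438_512_44 : EL := (EL.cons 14 (TM.mk (P.cons (P.cons (P.lf 0 18243396 0) (P.cons (P.lf 0 12248338 0) (P.cons (P.lf 0 2250784 0) (P.cons (P.lf 0 458 0) (P.cons (P.lf 21292 0 0) (P.cons (P.lf 346 0 0) P.nil)))))) (P.cons (P.cons (P.lf 29741618 0 0) (P.cons (P.lf 8473158 0 0) (P.cons (P.lf 0 372326 0) (P.cons (P.lf 0 61098 0) (P.cons (P.lf 5252 0 0) P.nil))))) (P.cons (P.cons (P.lf 0 13940014 0) (P.cons (P.lf 662776 0 0) (P.cons (P.lf 0 6764 0) (P.cons (P.lf 0 4066 0) P.nil)))) (P.cons (P.cons (P.lf 1343112 0 0) (P.cons (P.lf 0 143044 0) (P.cons (P.lf 3756 0 0) P.nil))) (P.cons (P.cons (P.lf 73484 0 0) (P.cons (P.lf 0 11964 0) P.nil)) (P.cons (P.cons (P.lf 0 10842 0) P.nil) P.nil)))))) 10280)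
 EL.nil)
noncomputable def S140_154_438_512_45 : EL := (EL.cons 14 (TM.mk (P.cons (P.cons (P.lf 0 4343820 0) (P.cons (P.lf 0 4374560 0) (P.cons (P.lf 0 1538132 0) (P.cons (P.lf 0 187858 0) (P.cons (P.lf 7362 0 0) (P.cons (P.lf 2738 0 0) P.nil)))))) (P.cons (P.cons (P.lf 9830892 0 0) (P.cons (P.lf 5794996 0 0) (P.cons (P.lf 659394 0 0) (P.cons (P.lf 0 103440 0) (P.cons (P.lf 0 10206 0) P.nil))))) (P.cons (P.cons (P.lf 0 7494380 0) (P.cons (P.lf 0 1369598 0) (P.cons (P.lf 298884 0 0) (P.cons (P.lf 0 4038 0) P.nil)))) (P.cons (P.cons (P.lf 1948130 0 0) (P.cons (P.lf 0 386652 0) (P.cons (P.lf 40998 0 0) P.nil))) (P.cons (P.cons (P.lf 6540 0 0) (P.cons (P.lf 0 5676 0) P.nil)) (P.cons (P.cons (P.lf 0 18644 0) P.nil) P.nil)))))) 25254)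
 EL.nil)
noncomputable def S140_154_438_512_46 : EL := (EL.cons 15 (TM.mk (P.lf 4294967296 0 0) 0)
 EL.nil)
noncomputable def S140_154_438_512_47 : EL := (EL.cons 15 (TM.mk (P.cons (P.cons (P.lf 0 342179398 0) (P.cons (P.lf 0 114867016 0) (P.cons (P.lf 0 1828256 0) (P.lf 609416 0 0)))) (P.cons (P.cons (P.lf 258139070 0 0) (P.cons (P.lf 0 21145920 0) (P.cons (P.lf 0 336564 0) (P.lf 112188 0 0)))) (P.cons (P.cons (P.lf 0 2047738 0) (P.cons (P.lf 0 1120356 0) (P.cons (P.lf 0 17828 0) (P.lf 5940 0 0)))) (P.cons (P.cons (P.lf 0 905947 0) (P.cons (P.lf 15524 0 0) (P.cons (P.lf 244 0 0) P.nil))) (P.cons (P.cons (P.lf 0 17458 0) (P.cons (P.lf 3416 0 0) P.nil)) (P.cons (P.cons (P.lf 1251 0 0) P.nil) P.nil)))))) 914)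
 EL.nil)
noncomputable def S140_154_438_512_48 : EL := (EL.cons 15 (TM.mk (P.cons (P.cons (P.lf 27261381 0 0) (P.cons (P.lf 18302875 0 0) (P.cons (P.lf 3363381 0 0) (P.cons (P.lf 687 0 0) (P.cons (P.lf 0 31818 0) (P.cons (P.lf 0 518 0) P.nil)))))) (P.cons (P.cons (P.lf 0 41131801 0) (P.cons (P.lf 0 10438247 0) (P.cons (P.lf 964938 0 0) (P.cons (P.lf 91384 0 0) (P.cons (P.lf 0 11715 0) P.nil))))) (P.cons (P.cons (P.lf 15841137 0 0) (P.cons (P.lf 0 2253804 0) (P.cons (P.lf 128164 0 0) (P.cons (P.lf 17179 0 0) P.nil)))) (P.cons (P.cons (P.lf 0 101795 0) (P.cons (P.lf 0 68524 0) (P.cons (P.lf 9111 0 0) P.nil))) (P.cons (P.cons (P.lf 0 105141 0) (P.cons (P.lf 12244 0 0) P.nil)) (P.cons (P.cons (P.lf 0 1434 0) P.nil) P.nil)))))) 6553)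
 EL.nil)
noncomputable def S140_154_438_512 : SL := (SL.cons S140_154_438_512_0 (SL.cons S140_154_438_512_1 (SL.cons S140_154_438_512_2 (SL.cons S140_154_438_512_3 (SL.cons S140_154_438_512_4 (SL.cons S140_154_438_512_5 (SL.cons S140_154_438_512_6 (SL.cons S140_154_438_512_7 (SL.cons S140_154_438_512_8 (SL.cons S140_154_438_512_9 (SL.cons S140_154_438_512_10 (SL.cons S140_154_438_512_11 (SL.cons S140_154_438_512_12 (SL.cons S140_154_438_512_13 (SL.cons S140_154_438_512_14 (SL.cons S140_154_438_512_15 (SL.cons S140_154_438_512_16 (SL.cons S140_154_438_512_17 (SL.cons S140_154_438_512_18 (SL.cons S140_154_438_512_19 (SL.cons S140_154_438_512_20 (SL.cons S140_154_438_512_21 (SL.cons S140_154_438_512_22 (SL.cons S140_154_438_512_23 (SL.cons S140_154_438_512_24 (SL.cons S140_154_438_512_25 (SL.cons S140_154_438_512_26 (SL.cons S140_154_438_512_27 (SL.cons S140_154_438_512_28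 (SL.cons S140_154_438_512_29 (SL.cons S140_154_438_512_30 (SL.cons S140_154_438_512_31 (SL.cons S140_154_438_512_32 (SL.cons S140_154_438_512_33 (SL.cons S140_154_438_512_34 (SL.cons S140_154_438_512_35 (SL.cons S140_154_438_512_36 (SL.cons S140_154_438_512_37 (SL.cons S140_154_438_512_38 (SL.cons S140_154_438_512_39 (SL.cons S140_154_438_512_40 (SL.cons S140_154_438_512_41 (SL.cons S140_154_438_512_42 (SL.cons S140_154_438_512_43 (SL.cons S140_154_438_512_44 (SL.cons S140_154_438_512_45 (SL.cons S140_154_438_512_46 (SL.cons S140_154_438_512_47 (SL.cons S140_154_438_512_48 SL.nil)))))))))))))))))))))))))))))))))))))))))))))))))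
noncomputable def S140_154_512_660_0 : EL := (EL.cons 0 (TM.mk (P.cons (P.lf 4816977213 0 0) (P.cons (P.lf 294674568 0 0) (P.cons (P.lf 6571395 0 0) (P.cons (P.lf 0 434682 0) (P.cons (P.lf 0 21573 0) (P.cons (P.lf 0 42 0) P.nil)))))) 205)
 (EL.cons 1 (TM.mk (P.cons (P.lf 0 1762505823 0) (P.cons (P.lf 0 36787346 0) (P.cons (P.lf 8322086 0 0) (P.cons (P.lf 271203 0 0) (P.cons (P.lf 0 4801 0) (P.cons (P.lf 0 468 0) P.nil)))))) 132)
 (EL.cons 5 (TM.mk (P.cons (P.lf 5588741396 0 0) (P.cons (P.lf 0 104773178 0) (P.cons (P.lf 0 2336498 0) (P.cons (P.lf 154550 0 0) (P.cons (P.lf 7670 0 0) (P.cons (P.lf 18 0 0) P.nil)))))) 87)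
 (EL.cons 9 (TM.mk (P.lf 6442450944 0 0) 2)
 EL.nil))))
noncomputable def S140_154_512_660_1 : EL := (EL.cons 0 (TM.mk (P.cons (P.cons (P.lf 0 3458380107 0) (P.cons (P.lf 310665323 0 0) (P.cons (P.lf 0 20770344 0) (P.lf 0 6923445 0)))) (P.cons (P.cons (P.lf 328277705 0 0) (P.cons (P.lf 0 2846575 0) (P.cons (P.lf 190322 0 0) (P.lf 63447 0 0)))) (P.cons (P.cons (P.lf 53385082 0 0) (P.cons (P.lf 0 9361029 0) (P.cons (P.lf 625859 0 0) (P.lf 208622 0 0)))) (P.cons (P.cons (P.lf 0 1266702 0) (P.cons (P.lf 0 785464 0) (P.cons (P.lf 52503 0 0) P.nil))) (P.cons (P.cons (P.lf 0 366493 0) (P.cons (P.lf 6525 0 0) P.nil)) (P.cons (P.cons (P.lf 0 7397 0) P.nil) P.nil)))))) 47940)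
 (EL.cons 1 (TM.mk (P.cons (P.cons (P.lf 617418449 0 0) (P.cons (P.lf 20359688 0 0) (P.cons (P.lf 0 1361194 0) (P.lf 0 453732 0)))) (P.cons (P.cons (P.lf 0 260421993 0) (P.cons (P.lf 45744738 0 0) (P.cons (P.lf 0 3058379 0) (P.lf 0 1019454 0)))) (P.cons (P.cons (P.lf 4582276 0 0) (P.cons (P.lf 4526422 0 0) (P.cons (P.lf 0 302613 0) (P.lf 0 100864 0)))) (P.cons (P.cons (P.lf 3076187 0 0) (P.cons (P.lf 0 168948 0) (P.cons (P.lf 11293 0 0) P.nil))) (P.cons (P.cons (P.lf 36667 0 0) (P.cons (P.lf 0 35206 0) P.nil)) (P.cons (P.cons (P.lf 0 11557 0) P.nil) P.nil)))))) 23022)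
 (EL.cons 5 (TM.mk (P.cons (P.cons (P.lf 62119479 0 0) (P.cons (P.lf 0 482358396 0) (P.cons (P.lf 32249354 0 0) (P.lf 10749786 0 0)))) (P.cons (P.cons (P.lf 214271269 0 0) (P.cons (P.lf 0 67451050 0) (P.cons (P.lf 4509618 0 0) (P.lf 1503202 0 0)))) (P.cons (P.cons (P.lf 0 28176345 0) (P.cons (P.lf 0 298970 0) (P.cons (P.lf 19988 0 0) (P.lf 6666 0 0)))) (P.cons (P.cons (P.lf 0 1010560 0) (P.cons (P.lf 329542 0 0) (P.cons (P.lf 0 22024 0) P.nil))) (P.cons (P.cons (P.lf 118049 0 0) (P.cons (P.lf 8738 0 0) P.nil)) (P.cons (P.cons (P.lf 5184 0 0) P.nil) P.nil)))))) 20678)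
 (EL.cons 9 (TM.mk (P.cons (P.cons (P.lf 0 1030170675 0) (P.cons (P.lf 0 328146714 0) (P.cons (P.lf 21939120 0 0) (P.lf 7313040 0 0)))) (P.cons (P.cons (P.lf 292051965 0 0) (P.cons (P.lf 0 60408672 0) (P.cons (P.lf 4038780 0 0) (P.lf 1346256 0 0)))) (P.cons (P.cons (P.lf 0 8113215 0) (P.cons (P.lf 0 3200586 0) (P.cons (P.lf 213978 0 0) (P.lf 71322 0 0)))) (P.cons (P.cons (P.lf 0 1289062 0) (P.cons (P.lf 44352 0 0) (P.cons (P.lf 0 2964 0) P.nil))) (P.cons (P.cons (P.lf 0 10815 0) (P.cons (P.lf 9756 0 0) P.nil)) (P.cons (P.cons (P.lf 2254 0 0) P.nil) P.nil)))))) 5398)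
 (EL.cons 2 (TM.mk (P.cons (P.cons (P.lf 773064213 0 0) (P.cons (P.lf 0 119689751 0) (P.cons (P.lf 0 57662746 0) (P.cons (P.lf 2182125 0 0) (P.lf 545529 0 0))))) (P.cons (P.cons (P.lf 63573446 0 0) (P.cons (P.lf 0 9842762 0) (P.cons (P.lf 0 4741934 0) (P.cons (P.lf 179445 0 0) (P.lf 44859 0 0))))) (P.cons (P.cons (P.lf 0 3057657 0) (P.cons (P.lf 473402 0 0) (P.cons (P.lf 228071 0 0) (P.cons (P.lf 0 8631 0) P.nil)))) (P.cons (P.cons (P.lf 0 396815 0) (P.cons (P.lf 61436 0 0) (P.cons (P.lf 29595 0 0) P.nil))) (P.cons (P.cons (P.lf 0 5042 0) (P.cons (P.lf 779 0 0) P.nil)) (P.cons (P.cons (P.lf 610 0 0) P.nil) P.nil)))))) 8402)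
 (EL.cons 6 (TM.mk (P.cons (P.cons (P.lf 374451132 0 0) (P.cons (P.lf 0 57974436 0) (P.cons (P.lf 0 27930255 0) (P.cons (P.lf 1056960 0 0) (P.lf 264237 0 0))))) (P.cons (P.cons (P.lf 68932872 0 0) (P.cons (P.lf 0 10672539 0) (P.cons (P.lf 0 5141691 0) (P.cons (P.lf 194574 0 0) (P.lf 48642 0 0))))) (P.cons (P.cons (P.lf 3652218 0 0) (P.cons (P.lf 0 565455 0) (P.cons (P.lf 0 272418 0) (P.cons (P.lf 10308 0 0) P.nil)))) (P.cons (P.cons (P.lf 0 50610 0) (P.cons (P.lf 7833 0 0) (P.cons (P.lf 3774 0 0) P.nil))) (P.cons (P.cons (P.lf 0 11136 0) (P.cons (P.lf 1722 0 0) P.nil)) (P.cons (P.cons (P.lf 0 276 0) P.nil) P.nil)))))) 4596)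
 EL.nil))))))
noncomputable def S140_154_512_660_2 : EL := (EL.cons 0 (TM.mk (P.cons (P.cons (P.lf 982848429 0 0) (P.cons (P.lf 174487068 0 0) (P.cons (P.lf 0 55810389 0) (P.cons (P.lf 2014202 0 0) (P.cons (P.lf 1770276 0 0) (P.cons (P.lf 0 131541 0) P.nil)))))) (P.cons (P.cons (P.lf 0 356238894 0) (P.cons (P.lf 63491244 0 0) (P.cons (P.lf 0 15146576 0) (P.cons (P.lf 42756 0 0) (P.cons (P.lf 437169 0 0) P.nil))))) (P.cons (P.cons (P.lf 13665870 0 0) (P.cons (P.lf 0 3123326 0) (P.cons (P.lf 0 58675 0) (P.cons (P.lf 105377 0 0) P.nil)))) (P.cons (P.cons (P.lf 5426287 0 0) (P.cons (P.lf 0 1761322 0) (P.cons (P.lf 292950 0 0) P.nil))) (P.cons (P.cons (P.lf 0 181803 0) (P.cons (P.lf 0 68826 0) P.nil)) (P.cons (P.cons (P.lf 0 47895 0) P.nil) P.nil)))))) 525886)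
 (EL.cons 1 (TM.mk (P.cons (P.cons (P.lf 0 152389024 0) (P.cons (P.lf 0 40697521 0) (P.cons (P.lf 5219510 0 0) (P.cons (P.lf 572880 0 0) (P.cons (P.lf 0 100202 0) (P.cons (P.lf 7450 0 0) P.nil)))))) (P.cons (P.cons (P.lf 114651419 0 0) (P.cons (P.lf 0 87788 0) (P.cons (P.lf 0 3256970 0) (P.cons (P.lf 438243 0 0) (P.cons (P.lf 130845 0 0) P.nil))))) (P.cons (P.cons (P.lf 0 23045907 0) (P.cons (P.lf 5264725 0 0) (P.cons (P.lf 0 1433475 0) (P.cons (P.lf 27280 0 0) P.nil)))) (P.cons (P.cons (P.lf 0 43822 0) (P.cons (P.lf 191635 0 0) (P.cons (P.lf 0 114023 0) P.nil))) (P.cons (P.cons (P.lf 311286 0 0) (P.cons (P.lf 0 87069 0) P.nil)) (P.cons (P.cons (P.lf 0 1728 0) P.nil) P.nil)))))) 239570)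
 (EL.cons 5 (TM.mk (P.cons (P.cons (P.lf 0 162765550 0) (P.cons (P.lf 56896289 0 0) (P.cons (P.lf 30834638 0 0) (P.cons (P.lf 0 5899688 0) (P.cons (P.lf 0 1389061 0) (P.cons (P.lf 103221 0 0) P.nil)))))) (P.cons (P.cons (P.lf 20809051 0 0) (P.cons (P.lf 0 34397879 0) (P.cons (P.lf 13150268 0 0) (P.cons (P.lf 0 684284 0) (P.cons (P.lf 0 435114 0) P.nil))))) (P.cons (P.cons (P.lf 13086336 0 0) (P.cons (P.lf 0 2999948 0) (P.cons (P.lf 1307145 0 0) (P.cons (P.lf 0 81100 0) P.nil)))) (P.cons (P.cons (P.lf 0 2295787 0) (P.cons (P.lf 602562 0 0) (P.cons (P.lf 0 39664 0) P.nil))) (P.cons (P.cons (P.lf 0 52319 0) (P.cons (P.lf 63271 0 0) P.nil)) (P.cons (P.cons (P.lf 18775 0 0) P.nil) P.nil)))))) 270393)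
 (EL.cons 9 (TM.mk (P.cons (P.cons (P.lf 164727931 0 0) (P.cons (P.lf 104943637 0 0) (P.cons (P.lf 9697890 0 0) (P.cons (P.lf 0 4573702 0) (P.cons (P.lf 0 670267 0) (P.cons (P.lf 49807 0 0) P.nil)))))) (P.cons (P.cons (P.lf 0 93400282 0) (P.cons (P.lf 0 10432255 0) (P.cons (P.lf 6851316 0 0) (P.cons (P.lf 0 590368 0) (P.cons (P.lf 0 246778 0) P.nil))))) (P.cons (P.cons (P.lf 15834088 0 0) (P.cons (P.lf 0 3626878 0) (P.cons (P.lf 1134961 0 0) (P.cons (P.lf 0 38506 0) P.nil)))) (P.cons (P.cons (P.lf 0 323331 0) (P.cons (P.lf 0 20898 0) (P.cons (P.lf 56899 0 0) P.nil))) (P.cons (P.cons (P.lf 0 103195 0) (P.cons (P.lf 34237 0 0) P.nil)) (P.cons (P.cons (P.lf 1545 0 0) P.nil) P.nil)))))) 115165)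
 (EL.cons 2 (TM.mk (P.cons (P.cons (P.lf 0 247231395 0) (P.cons (P.lf 0 40474535 0) (P.cons (P.lf 35898946 0 0) (P.cons (P.lf 6116130 0 0) (P.cons (P.lf 0 1061212 0) (P.cons (P.lf 0 171618 0) P.nil)))))) (P.cons (P.cons (P.lf 49758519 0 0) (P.cons (P.lf 0 28677622 0) (P.cons (P.lf 938036 0 0) (P.cons (P.lf 1955193 0 0) (P.cons (P.lf 0 201048 0) P.nil))))) (P.cons (P.cons (P.lf 4794643 0 0) (P.cons (P.lf 0 2391170 0) (P.cons (P.lf 7880 0 0) (P.cons (P.lf 156195 0 0) P.nil)))) (P.cons (P.cons (P.lf 0 619796 0) (P.cons (P.lf 141198 0 0) (P.cons (P.lf 36196 0 0) P.nil))) (P.cons (P.cons (P.lf 0 54697 0) (P.cons (P.lf 22674 0 0) P.nil)) (P.cons (P.cons (P.lf 1895 0 0) P.nil) P.nil)))))) 133970)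
 (EL.cons 6 (TM.mk (P.cons (P.cons (P.lf 0 119752116 0) (P.cons (P.lf 0 19604754 0) (P.cons (P.lf 17388468 0 0) (P.cons (P.lf 2962482 0 0) (P.cons (P.lf 0 514020 0) (P.cons (P.lf 0 83124 0) P.nil)))))) (P.cons (P.cons (P.lf 11904336 0 0) (P.cons (P.lf 0 15887490 0) (P.cons (P.lf 2225454 0 0) (P.cons (P.lf 1248786 0 0) (P.cons (P.lf 0 149736 0) P.nil))))) (P.cons (P.cons (P.lf 4138662 0 0) (P.cons (P.lf 0 2677590 0) (P.cons (P.lf 142824 0 0) (P.cons (P.lf 187914 0 0) P.nil)))) (P.cons (P.cons (P.lf 23844 0 0) (P.cons (P.lf 0 130362 0) (P.cons (P.lf 26298 0 0) P.nil))) (P.cons (P.cons (P.lf 0 39066 0) (P.cons (P.lf 6582 0 0) P.nil)) (P.cons (P.cons (P.lf 0 2220 0) P.nil) P.nil)))))) 102750)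
 EL.nil))))))
noncomputable def S140_154_512_660_3 : EL := (EL.cons 0 (TM.mk (P.cons (P.lf 3638739650 0 0) (P.cons (P.lf 0 294674568 0) (P.cons (P.lf 0 6571395 0) (P.cons (P.lf 434682 0 0) (P.cons (P.lf 21573 0 0) (P.cons (P.lf 42 0 0) P.nil)))))) 205)
 (EL.cons 1 (TM.mk (P.cons (P.lf 1762505823 0 0) (P.cons (P.lf 36787346 0 0) (P.cons (P.lf 0 8322086 0) (P.cons (P.lf 0 271203 0) (P.cons (P.lf 4801 0 0) (P.cons (P.lf 468 0 0) P.nil)))))) 132)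
 (EL.cons 5 (TM.mk (P.cons (P.lf 853709548 0 0) (P.cons (P.lf 104773178 0 0) (P.cons (P.lf 2336498 0 0) (P.cons (P.lf 0 154550 0) (P.cons (P.lf 0 7670 0) (P.cons (P.lf 0 18 0) P.nil)))))) 80)
 EL.nil)))
noncomputable def S140_154_512_660_4 : EL := (EL.cons 0 (TM.mk (P.cons (P.cons (P.lf 0 581847329 0) (P.cons (P.lf 0 185339471 0) (P.cons (P.lf 12391361 0 0) (P.lf 4130453 0 0)))) (P.cons (P.cons (P.lf 212072419 0 0) (P.cons (P.lf 0 19109953 0) (P.cons (P.lf 1277644 0 0) (P.lf 425879 0 0)))) (P.cons (P.cons (P.lf 0 16889922 0) (P.cons (P.lf 1290063 0 0) (P.cons (P.lf 0 86252 0) (P.lf 0 28752 0)))) (P.cons (P.cons (P.lf 0 724380 0) (P.cons (P.lf 210919 0 0) (P.cons (P.lf 0 14099 0) P.nil))) (P.cons (P.cons (P.lf 77382 0 0) (P.cons (P.lf 1571 0 0) P.nil)) (P.cons (P.cons (P.lf 3505 0 0) P.nil) P.nil)))))) 10629)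
 (EL.cons 1 (TM.mk (P.cons (P.cons (P.lf 0 281830908 0) (P.cons (P.lf 0 89773363 0) (P.cons (P.lf 6002036 0 0) (P.lf 2000677 0 0)))) (P.cons (P.cons (P.lf 74016245 0 0) (P.cons (P.lf 0 18400183 0) (P.cons (P.lf 1230191 0 0) (P.lf 410062 0 0)))) (P.cons (P.cons (P.lf 778801 0 0) (P.cons (P.lf 0 796661 0) (P.cons (P.lf 53259 0 0) (P.lf 17750 0 0)))) (P.cons (P.cons (P.lf 0 732877 0) (P.cons (P.lf 85704 0 0) (P.cons (P.lf 0 5728 0) P.nil))) (P.cons (P.cons (P.lf 0 12900 0) (P.cons (P.lf 9354 0 0) P.nil)) (P.cons (P.cons (P.lf 2703 0 0) P.nil) P.nil)))))) 4837)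
 (EL.cons 5 (TM.mk (P.cons (P.cons (P.lf 0 136511172 0) (P.cons (P.lf 0 43483758 0) (P.cons (P.lf 2907220 0 0) (P.lf 969072 0 0)))) (P.cons (P.cons (P.lf 21947126 0 0) (P.cons (P.lf 0 13341572 0) (P.cons (P.lf 891984 0 0) (P.lf 297326 0 0)))) (P.cons (P.cons (P.lf 3300900 0 0) (P.cons (P.lf 0 1525552 0) (P.cons (P.lf 101992 0 0) (P.lf 33996 0 0)))) (P.cons (P.cons (P.lf 0 172128 0) (P.cons (P.lf 0 60208 0) (P.cons (P.lf 4024 0 0) P.nil))) (P.cons (P.cons (P.lf 0 31118 0) (P.cons (P.lf 2692 0 0) P.nil)) (P.cons (P.cons (P.lf 0 494 0) P.nil) P.nil)))))) 3730)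
 EL.nil)))
noncomputable def S140_154_512_660_5 : EL := (EL.cons 0 (TM.mk (P.cons (P.cons (P.lf 93039444 0 0) (P.cons (P.lf 59272871 0 0) (P.cons (P.lf 5477433 0 0) (P.cons (P.lf 0 2583256 0) (P.cons (P.lf 0 378571 0) (P.cons (P.lf 28130 0 0) P.nil)))))) (P.cons (P.cons (P.lf 0 60287683 0) (P.cons (P.lf 0 10692277 0) (P.cons (P.lf 3426092 0 0) (P.cons (P.lf 0 124243 0) (P.cons (P.lf 0 108724 0) P.nil))))) (P.cons (P.cons (P.lf 13047257 0 0) (P.cons (P.lf 0 1678362 0) (P.cons (P.lf 317765 0 0) (P.cons (P.lf 9919 0 0) P.nil)))) (P.cons (P.cons (P.lf 0 800477 0) (P.cons (P.lf 171808 0 0) (P.cons (P.lf 0 26108 0) P.nil))) (P.cons (P.cons (P.lf 0 65397 0) (P.cons (P.lf 23639 0 0) P.nil)) (P.cons (P.cons (P.lf 6677 0 0) P.nil) P.nil)))))) 94490)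
 (EL.cons 1 (TM.mk (P.cons (P.cons (P.lf 45065758 0 0) (P.cons (P.lf 28710155 0 0) (P.cons (P.lf 2653117 0 0) (P.cons (P.lf 0 1251258 0) (P.cons (P.lf 0 183369 0) (P.cons (P.lf 13625 0 0) P.nil)))))) (P.cons (P.cons (P.lf 0 24611538 0) (P.cons (P.lf 0 2254779 0) (P.cons (P.lf 1929736 0 0) (P.cons (P.lf 0 187625 0) (P.cons (P.lf 0 71338 0) P.nil))))) (P.cons (P.cons (P.lf 3585721 0 0) (P.cons (P.lf 0 1187360 0) (P.cons (P.lf 337093 0 0) (P.cons (P.lf 0 7996 0) P.nil)))) (P.cons (P.cons (P.lf 115674 0 0) (P.cons (P.lf 0 17368 0) (P.cons (P.lf 12787 0 0) P.nil))) (P.cons (P.cons (P.lf 0 46475 0) (P.cons (P.lf 14448 0 0) P.nil)) (P.cons (P.cons (P.lf 0 472 0) P.nil) P.nil)))))) 47633)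
 (EL.cons 5 (TM.mk (P.cons (P.cons (P.lf 21828618 0 0) (P.cons (P.lf 13906412 0 0) (P.cons (P.lf 1285096 0 0) (P.cons (P.lf 0 606074 0) (P.cons (P.lf 0 88818 0) (P.cons (P.lf 6598 0 0) P.nil)))))) (P.cons (P.cons (P.lf 0 9697806 0) (P.cons (P.lf 324280 0 0) (P.cons (P.lf 1065604 0 0) (P.cons (P.lf 0 152612 0) (P.cons (P.lf 0 43600 0) P.nil))))) (P.cons (P.cons (P.lf 639004 0 0) (P.cons (P.lf 0 612206 0) (P.cons (P.lf 265336 0 0) (P.cons (P.lf 0 16362 0) P.nil)))) (P.cons (P.cons (P.lf 176836 0 0) (P.cons (P.lf 0 68052 0) (P.cons (P.lf 28248 0 0) P.nil))) (P.cons (P.cons (P.lf 0 11144 0) (P.cons (P.lf 3006 0 0) P.nil)) (P.cons (P.cons (P.lf 0 1858 0) P.nil) P.nil)))))) 26444)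
 EL.nil)))
noncomputable def S140_154_512_660_6 : EL := (EL.cons 12 (TM.mk (P.lf 8589934592 0 0) 0)
 (EL.cons 3 (TM.mk (P.cons (P.lf 0 2795377237 0) (P.cons (P.lf 113188447 0 0) (P.cons (P.lf 4815735 0 0) (P.cons (P.lf 28027 0 0) (P.cons (P.lf 0 3003 0) (P.cons (P.lf 0 90 0) P.nil)))))) 67)
 (EL.cons 7 (TM.mk (P.cons (P.lf 0 1354004171 0) (P.cons (P.lf 0 83086409 0) (P.cons (P.lf 696363 0 0) (P.cons (P.lf 79830 0 0) (P.cons (P.lf 1364 0 0) (P.cons (P.lf 0 28 0) P.nil)))))) 46)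
 EL.nil)))
noncomputable def S140_154_512_660_7 : EL := (EL.cons 12 (TM.mk (P.cons (P.cons (P.lf 0 1373560900 0) (P.cons (P.lf 0 437528952 0) (P.cons (P.lf 29252160 0 0) (P.lf 9750720 0 0)))) (P.cons (P.cons (P.lf 389402620 0 0) (P.cons (P.lf 0 80544896 0) (P.cons (P.lf 5385040 0 0) (P.lf 1795008 0 0)))) (P.cons (P.cons (P.lf 0 10817620 0) (P.cons (P.lf 0 4267448 0) (P.cons (P.lf 285304 0 0) (P.lf 95096 0 0)))) (P.cons (P.cons (P.lf 0 1718750 0) (P.cons (P.lf 59136 0 0) (P.cons (P.lf 0 3952 0) P.nil))) (P.cons (P.cons (P.lf 0 14420 0) (P.cons (P.lf 13008 0 0) P.nil)) (P.cons (P.cons (P.lf 3006 0 0) P.nil) P.nil)))))) 7172)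
 (EL.cons 3 (TM.mk (P.cons (P.cons (P.lf 2512082939 0 0) (P.cons (P.lf 0 284765490 0) (P.cons (P.lf 19038750 0 0) (P.lf 6346250 0 0)))) (P.cons (P.cons (P.lf 0 181838346 0) (P.cons (P.lf 0 40892078 0) (P.cons (P.lf 2733944 0 0) (P.lf 911310 0 0)))) (P.cons (P.cons (P.lf 0 26276985 0) (P.cons (P.lf 0 164226 0) (P.cons (P.lf 10974 0 0) (P.lf 3654 0 0)))) (P.cons (P.cons (P.lf 0 565729 0) (P.cons (P.lf 244116 0 0) (P.cons (P.lf 0 16318 0) P.nil))) (P.cons (P.cons (P.lf 79054 0 0) (P.cons (P.lf 11910 0 0) P.nil)) (P.cons (P.cons (P.lf 4648 0 0) P.nil) P.nil)))))) 21989)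
 (EL.cons 7 (TM.mk (P.cons (P.cons (P.lf 0 1299378740 0) (P.cons (P.lf 382516093 0 0) (P.cons (P.lf 0 25574136 0) (P.lf 0 8524710 0)))) (P.cons (P.cons (P.lf 133479127 0 0) (P.cons (P.lf 30016986 0 0) (P.cons (P.lf 0 2006866 0) (P.lf 0 668957 0)))) (P.cons (P.cons (P.lf 12490985 0 0) (P.cons (P.lf 0 1408133 0) (P.cons (P.lf 94142 0 0) (P.lf 31379 0 0)))) (P.cons (P.cons (P.lf 0 670169 0) (P.cons (P.lf 0 136936 0) (P.cons (P.lf 9153 0 0) P.nil))) (P.cons (P.cons (P.lf 0 51566 0) (P.cons (P.lf 2898 0 0) P.nil)) (P.cons (P.cons (P.lf 630 0 0) P.nil) P.nil)))))) 13960)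
 (EL.cons 10 (TM.mk (P.cons (P.cons (P.lf 0 1187777262 0) (P.cons (P.lf 183897747 0 0) (P.cons (P.lf 88596135 0 0) (P.cons (P.lf 0 3352737 0) (P.lf 0 838182 0))))) (P.cons (P.cons (P.lf 0 145772292 0) (P.cons (P.lf 22569210 0 0) (P.cons (P.lf 10873134 0 0) (P.cons (P.lf 0 411471 0) (P.lf 0 102867 0))))) (P.cons (P.cons (P.lf 0 3250800 0) (P.cons (P.lf 503304 0 0) (P.cons (P.lf 242475 0 0) (P.cons (P.lf 0 9174 0) P.nil)))) (P.cons (P.cons (P.lf 215025 0 0) (P.cons (P.lf 0 33291 0) (P.cons (P.lf 0 16038 0) P.nil))) (P.cons (P.cons (P.lf 10671 0 0) (P.cons (P.lf 0 1650 0) P.nil)) (P.cons (P.cons (P.lf 24 0 0) P.nil) P.nil)))))) 4131)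
 EL.nil))))
noncomputable def S140_154_512_660_8 : EL := (EL.cons 12 (TM.mk (P.cons (P.cons (P.lf 219637242 0 0) (P.cons (P.lf 139924850 0 0) (P.cons (P.lf 12930520 0 0) (P.cons (P.lf 0 6098270 0) (P.cons (P.lf 0 893690 0) (P.cons (P.lf 66410 0 0) P.nil)))))) (P.cons (P.cons (P.lf 0 124533710 0) (P.cons (P.lf 0 13909674 0) (P.cons (P.lf 9135088 0 0) (P.cons (P.lf 0 787158 0) (P.cons (P.lf 0 329038 0) P.nil))))) (P.cons (P.cons (P.lf 21112118 0 0) (P.cons (P.lf 0 4835838 0) (P.cons (P.lf 1513282 0 0) (P.cons (P.lf 0 51342 0) P.nil)))) (P.cons (P.cons (P.lf 0 431108 0) (P.cons (P.lf 0 27864 0) (P.cons (P.lf 75866 0 0) P.nil))) (P.cons (P.cons (P.lf 0 137594 0) (P.cons (P.lf 45650 0 0) P.nil)) (P.cons (P.cons (P.lf 2060 0 0) P.nil) P.nil)))))) 153524)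
 (EL.cons 3 (TM.mk (P.cons (P.cons (P.lf 0 731906485 0) (P.cons (P.lf 0 119301233 0) (P.cons (P.lf 44237578 0 0) (P.cons (P.lf 0 2189967 0) (P.cons (P.lf 0 1454146 0) (P.cons (P.lf 108055 0 0) P.nil)))))) (P.cons (P.cons (P.lf 242490359 0 0) (P.cons (P.lf 0 47696968 0) (P.cons (P.lf 15071379 0 0) (P.cons (P.lf 0 525897 0) (P.cons (P.lf 0 476506 0) P.nil))))) (P.cons (P.cons (P.lf 0 6021667 0) (P.cons (P.lf 0 815658 0) (P.cons (P.lf 1387697 0 0) (P.cons (P.lf 0 160086 0) P.nil)))) (P.cons (P.cons (P.lf 0 3098144 0) (P.cons (P.lf 951657 0 0) (P.cons (P.lf 0 44976 0) P.nil))) (P.cons (P.cons (P.lf 3497 0 0) (P.cons (P.lf 87854 0 0) P.nil)) (P.cons (P.cons (P.lf 22604 0 0) P.nil) P.nil)))))) 310035)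
 (EL.cons 7 (TM.mk (P.cons (P.cons (P.lf 450171226 0 0) (P.cons (P.lf 32092464 0 0) (P.cons (P.lf 0 37599788 0) (P.cons (P.lf 4025552 0 0) (P.cons (P.lf 1421773 0 0) (P.cons (P.lf 0 105651 0) P.nil)))))) (P.cons (P.cons (P.lf 0 178000964 0) (P.cons (P.lf 35012140 0 0) (P.cons (P.lf 0 11063203 0) (P.cons (P.lf 386036 0 0) (P.cons (P.lf 349781 0 0) P.nil))))) (P.cons (P.cons (P.lf 13485346 0 0) (P.cons (P.lf 0 1184340 0) (P.cons (P.lf 0 455217 0) (P.cons (P.lf 97850 0 0) P.nil)))) (P.cons (P.cons (P.lf 1674917 0 0) (P.cons (P.lf 0 680385 0) (P.cons (P.lf 83585 0 0) P.nil))) (P.cons (P.cons (P.lf 0 151231 0) (P.cons (P.lf 0 12351 0) P.nil)) (P.cons (P.cons (P.lf 0 10692 0) P.nil) P.nil)))))) 186764)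
 (EL.cons 10 (TM.mk (P.cons (P.cons (P.lf 379859562 0 0) (P.cons (P.lf 62187240 0 0) (P.cons (P.lf 0 55157070 0) (P.cons (P.lf 0 9397152 0) (P.cons (P.lf 1630506 0 0) (P.cons (P.lf 263682 0 0) P.nil)))))) (P.cons (P.cons (P.lf 0 61070652 0) (P.cons (P.lf 46579878 0 0) (P.cons (P.lf 0 3674634 0) (P.cons (P.lf 0 3384570 0) (P.cons (P.lf 374922 0 0) P.nil))))) (P.cons (P.cons (P.lf 0 9185172 0) (P.cons (P.lf 5667132 0 0) (P.cons (P.lf 0 255924 0) (P.cons (P.lf 0 393222 0) P.nil)))) (P.cons (P.cons (P.lf 478974 0 0) (P.cons (P.lf 93384 0 0) (P.cons (P.lf 0 72864 0) P.nil))) (P.cons (P.cons (P.lf 86592 0 0) (P.cons (P.lf 0 20898 0) P.nil)) (P.cons (P.cons (P.lf 1374 0 0) P.nil) P.nil)))))) 236634)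
 EL.nil))))
noncomputable def S140_154_512_660_9 : EL := (EL.cons 3 (TM.mk (P.cons (P.lf 0 2795377237 0) (P.cons (P.lf 113188447 0 0) (P.cons (P.lf 4815735 0 0) (P.cons (P.lf 28027 0 0) (P.cons (P.lf 0 3003 0) (P.cons (P.lf 0 90 0) P.nil)))))) 67)
 (EL.cons 7 (TM.mk (P.cons (P.lf 0 1354004171 0) (P.cons (P.lf 0 83086409 0) (P.cons (P.lf 696363 0 0) (P.cons (P.lf 79830 0 0) (P.cons (P.lf 1364 0 0) (P.cons (P.lf 0 28 0) P.nil)))))) 46)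
 EL.nil))
noncomputable def S140_154_512_660_10 : EL := (EL.cons 3 (TM.mk (P.cons (P.cons (P.lf 446990699 0 0) (P.cons (P.lf 142382745 0 0) (P.cons (P.lf 0 9519375 0) (P.lf 0 3173125 0)))) (P.cons (P.cons (P.lf 0 144820479 0) (P.cons (P.lf 20446039 0 0) (P.cons (P.lf 0 1366972 0) (P.lf 0 455655 0)))) (P.cons (P.cons (P.lf 7881375 0 0) (P.cons (P.lf 82113 0 0) (P.cons (P.lf 0 5487 0) (P.lf 0 1827 0)))) (P.cons (P.cons (P.lf 630608 0 0) (P.cons (P.lf 0 122058 0) (P.cons (P.lf 8159 0 0) P.nil))) (P.cons (P.cons (P.lf 0 22268 0) (P.cons (P.lf 0 5955 0) P.nil)) (P.cons (P.cons (P.lf 0 2288 0) P.nil) P.nil)))))) 5410)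
 (EL.cons 7 (TM.mk (P.cons (P.cons (P.lf 216510052 0 0) (P.cons (P.lf 68966302 0 0) (P.cons (P.lf 0 4610925 0) (P.lf 0 1536975 0)))) (P.cons (P.cons (P.lf 0 48094490 0) (P.cons (P.lf 16928049 0 0) (P.cons (P.lf 0 1131769 0) (P.lf 0 377255 0)))) (P.cons (P.cons (P.lf 0 2172712 0) (P.cons (P.lf 1416268 0 0) (P.cons (P.lf 0 94687 0) (P.lf 0 31561 0)))) (P.cons (P.cons (P.lf 394357 0 0) (P.cons (P.lf 21359 0 0) (P.cons (P.lf 0 1428 0) P.nil))) (P.cons (P.cons (P.lf 21421 0 0) (P.cons (P.lf 0 3786 0) P.nil)) (P.cons (P.cons (P.lf 0 507 0) P.nil) P.nil)))))) 2772)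
 EL.nil))
noncomputable def S140_154_512_660_11 : EL := (EL.cons 3 (TM.mk (P.cons (P.cons (P.lf 0 71475391 0) (P.cons (P.lf 0 45535007 0) (P.cons (P.lf 0 4207910 0) (P.cons (P.lf 1984527 0 0) (P.cons (P.lf 290828 0 0) (P.cons (P.lf 0 21611 0) P.nil)))))) (P.cons (P.cons (P.lf 43420481 0 0) (P.cons (P.lf 6370322 0 0) (P.cons (P.lf 0 2802399 0) (P.cons (P.lf 175803 0 0) (P.cons (P.lf 95300 0 0) P.nil))))) (P.cons (P.cons (P.lf 0 8388235 0) (P.cons (P.lf 1468860 0 0) (P.cons (P.lf 0 364837 0) (P.cons (P.lf 2916 0 0) P.nil)))) (P.cons (P.cons (P.lf 349384 0 0) (P.cons (P.lf 0 61995 0) (P.cons (P.lf 414 0 0) P.nil))) (P.cons (P.cons (P.lf 50447 0 0) (P.cons (P.lf 0 18028 0) P.nil)) (P.cons (P.cons (P.lf 0 2614 0) P.nil) P.nil)))))) 61943)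
 (EL.cons 7 (TM.mk (P.cons (P.cons (P.lf 0 34620722 0) (P.cons (P.lf 0 22055910 0) (P.cons (P.lf 0 2038196 0) (P.cons (P.lf 961250 0 0) (P.cons (P.lf 140869 0 0) (P.cons (P.lf 0 10467 0) P.nil)))))) (P.cons (P.cons (P.lf 17505406 0 0) (P.cons (P.lf 839110 0 0) (P.cons (P.lf 0 1565005 0) (P.cons (P.lf 183062 0 0) (P.cons (P.lf 60509 0 0) P.nil))))) (P.cons (P.cons (P.lf 0 2105474 0) (P.cons (P.lf 908142 0 0) (P.cons (P.lf 0 325845 0) (P.cons (P.lf 15212 0 0) P.nil)))) (P.cons (P.cons (P.lf 0 144307 0) (P.cons (P.lf 51339 0 0) (P.cons (P.lf 0 25735 0) P.nil))) (P.cons (P.cons (P.lf 26447 0 0) (P.cons (P.lf 0 7425 0) P.nil)) (P.cons (P.cons (P.lf 1146 0 0) P.nil) P.nil)))))) 31798)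
 EL.nil))
noncomputable def S140_154_512_660_12 : EL := (EL.cons 4 (TM.mk (P.cons (P.lf 2795377237 0 0) (P.cons (P.lf 0 113188447 0) (P.cons (P.lf 0 4815735 0) (P.cons (P.lf 0 28027 0) (P.cons (P.lf 3003 0 0) (P.cons (P.lf 90 0 0) P.nil)))))) 67)
 (EL.cons 8 (TM.mk (P.cons (P.lf 1354004171 0 0) (P.cons (P.lf 83086409 0 0) (P.cons (P.lf 0 696363 0) (P.cons (P.lf 0 79830 0) (P.cons (P.lf 0 1364 0) (P.cons (P.lf 28 0 0) P.nil)))))) 46)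
 EL.nil))
noncomputable def S140_154_512_660_13 : EL := (EL.cons 4 (TM.mk (P.cons (P.cons (P.lf 0 446990699 0) (P.cons (P.lf 0 142382745 0) (P.cons (P.lf 9519375 0 0) (P.lf 3173125 0 0)))) (P.cons (P.cons (P.lf 144820479 0 0) (P.cons (P.lf 0 20446039 0) (P.cons (P.lf 1366972 0 0) (P.lf 455655 0 0)))) (P.cons (P.cons (P.lf 0 7881375 0) (P.cons (P.lf 0 82113 0) (P.cons (P.lf 5487 0 0) (P.lf 1827 0 0)))) (P.cons (P.cons (P.lf 0 630608 0) (P.cons (P.lf 122058 0 0) (P.cons (P.lf 0 8159 0) P.nil))) (P.cons (P.cons (P.lf 22268 0 0) (P.cons (P.lf 5955 0 0) P.nil)) (P.cons (P.cons (P.lf 2288 0 0) P.nil) P.nil)))))) 5410)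
 (EL.cons 8 (TM.mk (P.cons (P.cons (P.lf 0 216510052 0) (P.cons (P.lf 0 68966302 0) (P.cons (P.lf 4610925 0 0) (P.lf 1536975 0 0)))) (P.cons (P.cons (P.lf 48094490 0 0) (P.cons (P.lf 0 16928049 0) (P.cons (P.lf 1131769 0 0) (P.lf 377255 0 0)))) (P.cons (P.cons (P.lf 2172712 0 0) (P.cons (P.lf 0 1416268 0) (P.cons (P.lf 94687 0 0) (P.lf 31561 0 0)))) (P.cons (P.cons (P.lf 0 394357 0) (P.cons (P.lf 0 21359 0) (P.cons (P.lf 1428 0 0) P.nil))) (P.cons (P.cons (P.lf 0 21421 0) (P.cons (P.lf 3786 0 0) P.nil)) (P.cons (P.cons (P.lf 507 0 0) P.nil) P.nil)))))) 2772)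
 EL.nil))
noncomputable def S140_154_512_660_14 : EL := (EL.cons 4 (TM.mk (P.cons (P.cons (P.lf 71475391 0 0) (P.cons (P.lf 45535007 0 0) (P.cons (P.lf 4207910 0 0) (P.cons (P.lf 0 1984527 0) (P.cons (P.lf 0 290828 0) (P.cons (P.lf 21611 0 0) P.nil)))))) (P.cons (P.cons (P.lf 0 43420481 0) (P.cons (P.lf 0 6370322 0) (P.cons (P.lf 2802399 0 0) (P.cons (P.lf 0 175803 0) (P.cons (P.lf 0 95300 0) P.nil))))) (P.cons (P.cons (P.lf 8388235 0 0) (P.cons (P.lf 0 1468860 0) (P.cons (P.lf 364837 0 0) (P.cons (P.lf 0 2916 0) P.nil)))) (P.cons (P.cons (P.lf 0 349384 0) (P.cons (P.lf 61995 0 0) (P.cons (P.lf 0 414 0) P.nil))) (P.cons (P.cons (P.lf 0 50447 0) (P.cons (P.lf 18028 0 0) P.nil)) (P.cons (P.cons (P.lf 2614 0 0) P.nil) P.nil)))))) 61943)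
 (EL.cons 8 (TM.mk (P.cons (P.cons (P.lf 34620722 0 0) (P.cons (P.lf 22055910 0 0) (P.cons (P.lf 2038196 0 0) (P.cons (P.lf 0 961250 0) (P.cons (P.lf 0 140869 0) (P.cons (P.lf 10467 0 0) P.nil)))))) (P.cons (P.cons (P.lf 0 17505406 0) (P.cons (P.lf 0 839110 0) (P.cons (P.lf 1565005 0 0) (P.cons (P.lf 0 183062 0) (P.cons (P.lf 0 60509 0) P.nil))))) (P.cons (P.cons (P.lf 2105474 0 0) (P.cons (P.lf 0 908142 0) (P.cons (P.lf 325845 0 0) (P.cons (P.lf 0 15212 0) P.nil)))) (P.cons (P.cons (P.lf 144307 0 0) (P.cons (P.lf 0 51339 0) (P.cons (P.lf 25735 0 0) P.nil))) (P.cons (P.cons (P.lf 0 26447 0) (P.cons (P.lf 7425 0 0) P.nil)) (P.cons (P.cons (P.lf 0 1146 0) P.nil) P.nil)))))) 31798)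
 EL.nil))
noncomputable def S140_154_512_660_15 : EL := (EL.cons 4 (TM.mk (P.cons (P.lf 0 1940661147 0) (P.cons (P.lf 157159770 0 0) (P.cons (P.lf 3504744 0 0) (P.cons (P.lf 0 231830 0) (P.cons (P.lf 0 11505 0) (P.cons (P.lf 0 22 0) P.nil)))))) 112)
 (EL.cons 8 (TM.mk (P.cons (P.lf 0 940003106 0) (P.cons (P.lf 0 19619918 0) (P.cons (P.lf 4438446 0 0) (P.cons (P.lf 144642 0 0) (P.cons (P.lf 0 2561 0) (P.cons (P.lf 0 250 0) P.nil)))))) 67)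
 EL.nil))
noncomputable def S140_154_512_660_16 : EL := (EL.cons 4 (TM.mk (P.cons (P.cons (P.lf 310318575 0 0) (P.cons (P.lf 98847718 0 0) (P.cons (P.lf 0 6608726 0) (P.lf 0 2202908 0)))) (P.cons (P.cons (P.lf 0 113105290 0) (P.cons (P.lf 10191975 0 0) (P.cons (P.lf 0 681410 0) (P.lf 0 227135 0)))) (P.cons (P.cons (P.lf 9007958 0 0) (P.cons (P.lf 0 688034 0) (P.cons (P.lf 46001 0 0) (P.lf 15334 0 0)))) (P.cons (P.cons (P.lf 386336 0 0) (P.cons (P.lf 0 112490 0) (P.cons (P.lf 7519 0 0) P.nil))) (P.cons (P.cons (P.lf 0 41270 0) (P.cons (P.lf 0 838 0) P.nil)) (P.cons (P.cons (P.lf 0 1869 0) P.nil) P.nil)))))) 5677)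
 (EL.cons 8 (TM.mk (P.cons (P.cons (P.lf 150309818 0 0) (P.cons (P.lf 47879127 0 0) (P.cons (P.lf 0 3201086 0) (P.lf 0 1067028 0)))) (P.cons (P.cons (P.lf 0 39475331 0) (P.cons (P.lf 9813431 0 0) (P.cons (P.lf 0 656102 0) (P.lf 0 218700 0)))) (P.cons (P.cons (P.lf 0 415361 0) (P.cons (P.lf 424886 0 0) (P.cons (P.lf 0 28405 0) (P.lf 0 9467 0)))) (P.cons (P.cons (P.lf 390868 0 0) (P.cons (P.lf 0 45709 0) (P.cons (P.lf 3055 0 0) P.nil))) (P.cons (P.cons (P.lf 6880 0 0) (P.cons (P.lf 0 4989 0) P.nil)) (P.cons (P.cons (P.lf 0 1442 0) P.nil) P.nil)))))) 2570)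
 EL.nil))
noncomputable def S140_154_512_660_17 : EL := (EL.cons 4 (TM.mk (P.cons (P.cons (P.lf 0 49621036 0) (P.cons (P.lf 0 31612198 0) (P.cons (P.lf 0 2921297 0) (P.cons (P.lf 1377736 0 0) (P.cons (P.lf 201904 0 0) (P.cons (P.lf 0 15002 0) P.nil)))))) (P.cons (P.cons (P.lf 32153430 0 0) (P.cons (P.lf 5702548 0 0) (P.cons (P.lf 0 1827249 0) (P.cons (P.lf 66263 0 0) (P.cons (P.lf 57986 0 0) P.nil))))) (P.cons (P.cons (P.lf 0 6958537 0) (P.cons (P.lf 895126 0 0) (P.cons (P.lf 0 169474 0) (P.cons (P.lf 0 5290 0) P.nil)))) (P.cons (P.cons (P.lf 426921 0 0) (P.cons (P.lf 0 91631 0) (P.cons (P.lf 13924 0 0) P.nil))) (P.cons (P.cons (P.lf 34878 0 0) (P.cons (P.lf 0 12607 0) P.nil)) (P.cons (P.cons (P.lf 0 3561 0) P.nil) P.nil)))))) 50405)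
 (EL.cons 8 (TM.mk (P.cons (P.cons (P.lf 0 24035071 0) (P.cons (P.lf 0 15312083 0) (P.cons (P.lf 0 1414996 0) (P.cons (P.lf 667338 0 0) (P.cons (P.lf 97797 0 0) (P.cons (P.lf 0 7267 0) P.nil)))))) (P.cons (P.cons (P.lf 13126154 0 0) (P.cons (P.lf 1202549 0 0) (P.cons (P.lf 0 1029193 0) (P.cons (P.lf 100067 0 0) (P.cons (P.lf 38047 0 0) P.nil))))) (P.cons (P.cons (P.lf 0 1912385 0) (P.cons (P.lf 633259 0 0) (P.cons (P.lf 0 179783 0) (P.cons (P.lf 4265 0 0) P.nil)))) (P.cons (P.cons (P.lf 0 61693 0) (P.cons (P.lf 9263 0 0) (P.cons (P.lf 0 6820 0) P.nil))) (P.cons (P.cons (P.lf 24787 0 0) (P.cons (P.lf 0 7706 0) P.nil)) (P.cons (P.cons (P.lf 252 0 0) P.nil) P.nil)))))) 25393)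
 EL.nil))
noncomputable def S140_154_512_660_18 : EL := (EL.cons 4 (TM.mk (P.cons (P.lf 1347283520 0 0) (P.cons (P.lf 0 163659767 0) (P.cons (P.lf 0 336299 0) (P.cons (P.lf 433920 0 0) (P.cons (P.lf 8204 0 0) (P.cons (P.lf 0 633 0) P.nil)))))) 143)
 (EL.cons 8 (TM.mk (P.cons (P.lf 652587236 0 0) (P.cons (P.lf 0 12803181 0) (P.cons (P.lf 0 4757117 0) (P.cons (P.lf 0 5657 0) (P.cons (P.lf 11717 0 0) (P.cons (P.lf 341 0 0) P.nil)))))) 78)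
 EL.nil))
noncomputable def S140_154_512_660_19 : EL := (EL.cons 4 (TM.mk (P.cons (P.cons (P.lf 0 215435396 0) (P.cons (P.lf 0 68623984 0) (P.cons (P.lf 4588038 0 0) (P.lf 1529345 0 0)))) (P.cons (P.cons (P.lf 87245412 0 0) (P.cons (P.lf 0 4296996 0) (P.cons (P.lf 287286 0 0) (P.lf 95760 0 0)))) (P.cons (P.cons (P.lf 0 9062002 0) (P.cons (P.lf 882385 0 0) (P.cons (P.lf 0 58995 0) (P.lf 0 19665 0)))) (P.cons (P.cons (P.lf 0 148104 0) (P.cons (P.lf 71631 0 0) (P.cons (P.lf 0 4788 0) P.nil))) (P.cons (P.cons (P.lf 49266 0 0) (P.cons (P.lf 0 3405 0) P.nil)) (P.cons (P.cons (P.lf 739 0 0) P.nil) P.nil)))))) 5007)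
 (EL.cons 8 (TM.mk (P.cons (P.cons (P.lf 0 104351005 0) (P.cons (P.lf 0 33239578 0) (P.cons (P.lf 2222320 0 0) (P.lf 740773 0 0)))) (P.cons (P.cons (P.lf 31630639 0 0) (P.cons (P.lf 0 5466957 0) (P.cons (P.lf 365507 0 0) (P.lf 121835 0 0)))) (P.cons (P.cons (P.lf 0 641546 0) (P.cons (P.lf 38152 0 0) (P.cons (P.lf 0 2551 0) (P.lf 0 850 0)))) (P.cons (P.cons (P.lf 0 329198 0) (P.cons (P.lf 55747 0 0) (P.cons (P.lf 0 3726 0) P.nil))) (P.cons (P.cons (P.lf 5326 0 0) (P.cons (P.lf 2719 0 0) P.nil)) (P.cons (P.cons (P.lf 1685 0 0) P.nil) P.nil)))))) 2751)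
 EL.nil))
noncomputable def S140_154_512_660_20 : EL := (EL.cons 4 (TM.mk (P.cons (P.cons (P.lf 34448880 0 0) (P.cons (P.lf 21946435 0 0) (P.cons (P.lf 2028079 0 0) (P.cons (P.lf 0 956479 0) (P.cons (P.lf 0 140169 0) (P.cons (P.lf 10415 0 0) P.nil)))))) (P.cons (P.cons (P.lf 0 23717059 0) (P.cons (P.lf 0 4847573 0) (P.cons (P.lf 1186428 0 0) (P.cons (P.lf 0 7273 0) (P.cons (P.lf 0 34580 0) P.nil))))) (P.cons (P.cons (P.lf 5675398 0 0) (P.cons (P.lf 0 498937 0) (P.cons (P.lf 62796 0 0) (P.cons (P.lf 7183 0 0) P.nil)))) (P.cons (P.cons (P.lf 0 453885 0) (P.cons (P.lf 95376 0 0) (P.cons (P.lf 0 16636 0) P.nil))) (P.cons (P.cons (P.lf 0 20274 0) (P.cons (P.lf 7310 0 0) P.nil)) (P.cons (P.cons (P.lf 3892 0 0) P.nil) P.nil)))))) 39418)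
 (EL.cons 8 (TM.mk (P.cons (P.cons (P.lf 16686094 0 0) (P.cons (P.lf 10630251 0 0) (P.cons (P.lf 982346 0 0) (P.cons (P.lf 0 463292 0) (P.cons (P.lf 0 67894 0) (P.cons (P.lf 5045 0 0) P.nil)))))) (P.cons (P.cons (P.lf 0 9788335 0) (P.cons (P.lf 0 1265289 0) (P.cons (P.lf 674730 0 0) (P.cons (P.lf 0 50711 0) (P.cons (P.lf 0 23665 0) P.nil))))) (P.cons (P.cons (P.lf 1667892 0 0) (P.cons (P.lf 0 424142 0) (P.cons (P.lf 94188 0 0) (P.cons (P.lf 649 0 0) P.nil)))) (P.cons (P.cons (P.lf 4603 0 0) (P.cons (P.lf 12701 0 0) (P.cons (P.lf 0 1559 0) P.nil))) (P.cons (P.cons (P.lf 0 21120 0) (P.cons (P.lf 6387 0 0) P.nil)) (P.cons (P.cons (P.lf 425 0 0) P.nil) P.nil)))))) 20478)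
 EL.nil))
noncomputable def S140_154_512_660_21 : EL := (EL.cons 4 (TM.mk (P.cons (P.cons (P.lf 0 2065092240 0) (P.cons (P.lf 427148235 0 0) (P.cons (P.lf 0 28558125 0) (P.lf 0 9519375 0)))) (P.cons (P.cons (P.lf 37017867 0 0) (P.cons (P.lf 61338117 0 0) (P.cons (P.lf 0 4100916 0) (P.lf 0 1366965 0)))) (P.cons (P.cons (P.lf 34158360 0 0) (P.cons (P.lf 246339 0 0) (P.cons (P.lf 0 16461 0) (P.lf 0 5481 0)))) (P.cons (P.cons (P.lf 1196337 0 0) (P.cons (P.lf 0 366174 0) (P.cons (P.lf 24477 0 0) P.nil))) (P.cons (P.cons (P.lf 0 101322 0) (P.cons (P.lf 0 17865 0) P.nil)) (P.cons (P.cons (P.lf 0 6936 0) P.nil) P.nil)))))) 16560)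
 (EL.cons 8 (TM.mk (P.cons (P.cons (P.lf 1515888792 0 0) (P.cons (P.lf 0 313549791 0) (P.cons (P.lf 20963211 0 0) (P.lf 6987735 0 0)))) (P.cons (P.cons (P.lf 0 181573617 0) (P.cons (P.lf 0 13088937 0) (P.cons (P.lf 875097 0 0) (P.lf 291702 0 0)))) (P.cons (P.cons (P.lf 0 14663697 0) (P.cons (P.lf 2824401 0 0) (P.cons (P.lf 0 188829 0) (P.lf 0 62940 0)))) (P.cons (P.cons (P.lf 1064526 0 0) (P.cons (P.lf 158295 0 0) (P.cons (P.lf 0 10581 0) P.nil))) (P.cons (P.cons (P.lf 72987 0 0) (P.cons (P.lf 0 6684 0) P.nil)) (P.cons (P.cons (P.lf 0 1137 0) P.nil) P.nil)))))) 11169)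
 (EL.cons 11 (TM.mk (P.cons (P.cons (P.lf 1187777262 0 0) (P.cons (P.lf 0 183897747 0) (P.cons (P.lf 0 88596135 0) (P.cons (P.lf 3352737 0 0) (P.lf 838182 0 0))))) (P.cons (P.cons (P.lf 145772292 0 0) (P.cons (P.lf 0 22569210 0) (P.cons (P.lf 0 10873134 0) (P.cons (P.lf 411471 0 0) (P.lf 102867 0 0))))) (P.cons (P.cons (P.lf 3250800 0 0) (P.cons (P.lf 0 503304 0) (P.cons (P.lf 0 242475 0) (P.cons (P.lf 9174 0 0) P.nil)))) (P.cons (P.cons (P.lf 0 215025 0) (P.cons (P.lf 33291 0 0) (P.cons (P.lf 16038 0 0) P.nil))) (P.cons (P.cons (P.lf 0 10671 0) (P.cons (P.lf 1650 0 0) P.nil)) (P.cons (P.cons (P.lf 0 24 0) P.nil) P.nil)))))) 4131)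
 EL.nil)))
noncomputable def S140_154_512_660_22 : EL := (EL.cons 4 (TM.mk (P.cons (P.cons (P.lf 330215547 0 0) (P.cons (P.lf 36883113 0 0) (P.cons (P.lf 0 24222744 0) (P.cons (P.lf 2087247 0 0) (P.cons (P.lf 872487 0 0) (P.cons (P.lf 0 64833 0) P.nil)))))) (P.cons (P.cons (P.lf 0 99534939 0) (P.cons (P.lf 27033645 0 0) (P.cons (P.lf 0 8936889 0) (P.cons (P.lf 350850 0 0) (P.cons (P.lf 285903 0 0) P.nil))))) (P.cons (P.cons (P.lf 0 1183284 0) (P.cons (P.lf 1142259 0 0) (P.cons (P.lf 0 876267 0) (P.cons (P.lf 81501 0 0) P.nil)))) (P.cons (P.cons (P.lf 1723764 0 0) (P.cons (P.lf 0 506826 0) (P.cons (P.lf 22695 0 0) P.nil))) (P.cons (P.cons (P.lf 23475 0 0) (P.cons (P.lf 0 52941 0) P.nil)) (P.cons (P.cons (P.lf 0 12609 0) P.nil) P.nil)))))) 124035)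
 (EL.cons 8 (TM.mk (P.cons (P.cons (P.lf 0 242395974 0) (P.cons (P.lf 0 27074187 0) (P.cons (P.lf 17780796 0 0) (P.cons (P.lf 0 1532151 0) (P.cons (P.lf 0 640452 0) (P.cons (P.lf 47592 0 0) P.nil)))))) (P.cons (P.cons (P.lf 97753185 0 0) (P.cons (P.lf 0 17086515 0) (P.cons (P.lf 4749099 0 0) (P.cons (P.lf 0 101487 0) (P.cons (P.lf 0 144636 0) P.nil))))) (P.cons (P.cons (P.lf 0 7795410 0) (P.cons (P.lf 1046241 0 0) (P.cons (P.lf 64686 0 0) (P.cons (P.lf 0 41319 0) P.nil)))) (P.cons (P.cons (P.lf 0 909612 0) (P.cons (P.lf 365862 0 0) (P.cons (P.lf 0 54660 0) P.nil))) (P.cons (P.cons (P.lf 88839 0 0) (P.cons (P.lf 2463 0 0) P.nil)) (P.cons (P.cons (P.lf 5919 0 0) P.nil) P.nil)))))) 77472)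
 (EL.cons 11 (TM.mk (P.cons (P.cons (P.lf 0 189929781 0) (P.cons (P.lf 0 31093620 0) (P.cons (P.lf 27578535 0 0) (P.cons (P.lf 4698576 0 0) (P.cons (P.lf 0 815253 0) (P.cons (P.lf 0 131841 0) P.nil)))))) (P.cons (P.cons (P.lf 30535326 0 0) (P.cons (P.lf 0 23289939 0) (P.cons (P.lf 1837317 0 0) (P.cons (P.lf 1692285 0 0) (P.cons (P.lf 0 187461 0) P.nil))))) (P.cons (P.cons (P.lf 4592586 0 0) (P.cons (P.lf 0 2833566 0) (P.cons (P.lf 127962 0 0) (P.cons (P.lf 196611 0 0) P.nil)))) (P.cons (P.cons (P.lf 0 239487 0) (P.cons (P.lf 0 46692 0) (P.cons (P.lf 36432 0 0) P.nil))) (P.cons (P.cons (P.lf 0 43296 0) (P.cons (P.lf 10449 0 0) P.nil)) (P.cons (P.cons (P.lf 0 687 0) P.nil) P.nil)))))) 118317)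
 EL.nil)))
noncomputable def S140_154_512_660_23 : EL := (EL.cons 4 (TM.mk (P.cons (P.cons (P.lf 1433668494 0 0) (P.cons (P.lf 0 296543154 0) (P.cons (P.lf 19826175 0 0) (P.lf 6608724 0 0)))) (P.cons (P.cons (P.lf 0 83750358 0) (P.cons (P.lf 0 30575922 0) (P.cons (P.lf 2044230 0 0) (P.lf 681405 0 0)))) (P.cons (P.cons (P.lf 0 25143336 0) (P.cons (P.lf 2064105 0 0) (P.cons (P.lf 0 138006 0) (P.lf 0 46005 0)))) (P.cons (P.cons (P.lf 159567 0 0) (P.cons (P.lf 337470 0 0) (P.cons (P.lf 0 22557 0) P.nil))) (P.cons (P.cons (P.lf 146622 0 0) (P.cons (P.lf 2511 0 0) P.nil)) (P.cons (P.cons (P.lf 3654 0 0) P.nil) P.nil)))))) 16134)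
 (EL.cons 8 (TM.mk (P.cons (P.cons (P.lf 0 1052389794 0) (P.cons (P.lf 217678632 0 0) (P.cons (P.lf 0 14553486 0) (P.lf 0 4851159 0)))) (P.cons (P.cons (P.lf 168668193 0 0) (P.cons (P.lf 272766 0 0) (P.cons (P.lf 0 18237 0) (P.lf 0 6081 0)))) (P.cons (P.cons (P.lf 6888966 0 0) (P.cons (P.lf 0 2703753 0) (P.cons (P.lf 180762 0 0) (P.lf 60252 0 0)))) (P.cons (P.cons (P.lf 0 1357851 0) (P.cons (P.lf 0 48333 0) (P.cons (P.lf 3228 0 0) P.nil))) (P.cons (P.cons (P.lf 0 40677 0) (P.cons (P.lf 12609 0 0) P.nil)) (P.cons (P.cons (P.lf 4113 0 0) P.nil) P.nil)))))) 11547)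
 (EL.cons 11 (TM.mk (P.cons (P.cons (P.lf 0 824601828 0) (P.cons (P.lf 127669068 0 0) (P.cons (P.lf 61506930 0 0) (P.cons (P.lf 0 2327601 0) (P.lf 0 581898 0))))) (P.cons (P.cons (P.lf 0 67811676 0) (P.cons (P.lf 10498947 0 0) (P.cons (P.lf 5058063 0 0) (P.cons (P.lf 0 191409 0) (P.lf 0 47850 0))))) (P.cons (P.cons (P.lf 3261501 0 0) (P.cons (P.lf 0 504963 0) (P.cons (P.lf 0 243276 0) (P.cons (P.lf 9207 0 0) P.nil)))) (P.cons (P.cons (P.lf 423270 0 0) (P.cons (P.lf 0 65532 0) (P.cons (P.lf 0 31569 0) P.nil))) (P.cons (P.cons (P.lf 5379 0 0) (P.cons (P.lf 0 831 0) P.nil)) (P.cons (P.cons (P.lf 0 651 0) P.nil) P.nil)))))) 8940)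
 EL.nil)))
noncomputable def S140_154_512_660_24 : EL := (EL.cons 4 (TM.mk (P.cons (P.cons (P.lf 0 229248657 0) (P.cons (P.lf 0 25605711 0) (P.cons (P.lf 16816383 0 0) (P.cons (P.lf 0 1449048 0) (P.cons (P.lf 0 605715 0) (P.cons (P.lf 45009 0 0) P.nil)))))) (P.cons (P.cons (P.lf 78383655 0 0) (P.cons (P.lf 0 17731014 0) (P.cons (P.lf 5523423 0 0) (P.cons (P.lf 0 184899 0) (P.cons (P.lf 0 173958 0) P.nil))))) (P.cons (P.cons (P.lf 0 1581570 0) (P.cons (P.lf 11043 0 0) (P.cons (P.lf 328146 0 0) (P.cons (P.lf 0 44223 0) P.nil)))) (P.cons (P.cons (P.lf 0 1346715 0) (P.cons (P.lf 416556 0 0) (P.cons (P.lf 0 51243 0) P.nil))) (P.cons (P.cons (P.lf 29802 0 0) (P.cons (P.lf 24033 0 0) P.nil)) (P.cons (P.cons (P.lf 11532 0 0) P.nil) P.nil)))))) 74739)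
 (EL.cons 8 (TM.mk (P.cons (P.cons (P.lf 168280845 0 0) (P.cons (P.lf 18795966 0 0) (P.cons (P.lf 0 12344130 0) (P.cons (P.lf 1063680 0 0) (P.cons (P.lf 444627 0 0) (P.cons (P.lf 0 33039 0) P.nil)))))) (P.cons (P.cons (P.lf 0 74678028 0) (P.cons (P.lf 11101059 0 0) (P.cons (P.lf 0 2797182 0) (P.cons (P.lf 27387 0 0) (P.cons (P.lf 82407 0 0) P.nil))))) (P.cons (P.cons (P.lf 7869879 0 0) (P.cons (P.lf 0 1239036 0) (P.cons (P.lf 109854 0 0) (P.cons (P.lf 24000 0 0) P.nil)))) (P.cons (P.cons (P.lf 527580 0 0) (P.cons (P.lf 0 245208 0) (P.cons (P.lf 45570 0 0) P.nil))) (P.cons (P.cons (P.lf 0 95706 0) (P.cons (P.lf 9726 0 0) P.nil)) (P.cons (P.cons (P.lf 0 2820 0) P.nil) P.nil)))))) 46350)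
 (EL.cons 11 (TM.mk (P.cons (P.cons (P.lf 131856744 0 0) (P.cons (P.lf 21586419 0 0) (P.cons (P.lf 0 19146105 0) (P.cons (P.lf 0 3261936 0) (P.cons (P.lf 565980 0 0) (P.cons (P.lf 91530 0 0) P.nil)))))) (P.cons (P.cons (P.lf 0 26537877 0) (P.cons (P.lf 15294732 0 0) (P.cons (P.lf 0 500286 0) (P.cons (P.lf 0 1042770 0) (P.cons (P.lf 107226 0 0) P.nil))))) (P.cons (P.cons (P.lf 0 2557143 0) (P.cons (P.lf 1275291 0 0) (P.cons (P.lf 0 4203 0) (P.cons (P.lf 0 83304 0) P.nil)))) (P.cons (P.cons (P.lf 330558 0 0) (P.cons (P.lf 0 75306 0) (P.cons (P.lf 0 19305 0) P.nil))) (P.cons (P.cons (P.lf 29172 0 0) (P.cons (P.lf 0 12093 0) P.nil)) (P.cons (P.cons (P.lf 0 1011 0) P.nil) P.nil)))))) 71439)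
 EL.nil)))
noncomputable def S140_154_512_660_25 : EL := (EL.cons 4 (TM.mk (P.cons (P.cons (P.lf 0 995309220 0) (P.cons (P.lf 205871955 0 0) (P.cons (P.lf 0 13764114 0) (P.lf 0 4588038 0)))) (P.cons (P.cons (P.lf 98444163 0 0) (P.cons (P.lf 12890988 0 0) (P.cons (P.lf 0 861858 0) (P.lf 0 287280 0)))) (P.cons (P.cons (P.lf 16815885 0 0) (P.cons (P.lf 0 2647158 0) (P.cons (P.lf 176985 0 0) (P.lf 58998 0 0)))) (P.cons (P.cons (P.lf 0 907758 0) (P.cons (P.lf 0 214893 0) (P.cons (P.lf 14364 0 0) P.nil))) (P.cons (P.cons (P.lf 0 129027 0) (P.cons (P.lf 10218 0 0) P.nil)) (P.cons (P.cons (P.lf 1629 0 0) P.nil) P.nil)))))) 13947)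
 (EL.cons 8 (TM.mk (P.cons (P.cons (P.lf 730610508 0 0) (P.cons (P.lf 0 151121094 0) (P.cons (P.lf 10103604 0 0) (P.lf 3367866 0 0)))) (P.cons (P.cons (P.lf 0 146679480 0) (P.cons (P.lf 5929722 0 0) (P.cons (P.lf 0 396447 0) (P.lf 0 132147 0)))) (P.cons (P.cons (P.lf 0 1299876 0) (P.cons (P.lf 2145063 0 0) (P.cons (P.lf 0 143412 0) (P.lf 0 47802 0)))) (P.cons (P.cons (P.lf 1330728 0 0) (P.cons (P.lf 0 40605 0) (P.cons (P.lf 2715 0 0) P.nil))) (P.cons (P.cons (P.lf 267 0 0) (P.cons (P.lf 0 13506 0) P.nil)) (P.cons (P.cons (P.lf 0 5676 0) P.nil) P.nil)))))) 10704)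
 (EL.cons 11 (TM.mk (P.cons (P.cons (P.lf 572471115 0 0) (P.cons (P.lf 0 88632903 0) (P.cons (P.lf 0 42700536 0) (P.cons (P.lf 1615911 0 0) (P.lf 403977 0 0))))) (P.cons (P.cons (P.lf 23897442 0 0) (P.cons (P.lf 0 3699921 0) (P.cons (P.lf 0 1782504 0) (P.cons (P.lf 67455 0 0) (P.lf 16863 0 0))))) (P.cons (P.cons (P.lf 0 5156718 0) (P.cons (P.lf 798390 0 0) (P.cons (P.lf 384639 0 0) (P.cons (P.lf 0 14556 0) P.nil)))) (P.cons (P.cons (P.lf 0 289011 0) (P.cons (P.lf 44745 0 0) (P.cons (P.lf 21555 0 0) P.nil))) (P.cons (P.cons (P.lf 12207 0 0) (P.cons (P.lf 0 1890 0) P.nil)) (P.cons (P.cons (P.lf 1200 0 0) P.nil) P.nil)))))) 10110)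
 EL.nil)))
noncomputable def S140_154_512_660_26 : EL := (EL.cons 4 (TM.mk (P.cons (P.cons (P.lf 159153462 0 0) (P.cons (P.lf 17776494 0 0) (P.cons (P.lf 0 11674596 0) (P.cons (P.lf 1005987 0 0) (P.cons (P.lf 420510 0 0) (P.cons (P.lf 0 31248 0) P.nil)))))) (P.cons (P.cons (P.lf 0 60861354 0) (P.cons (P.lf 11589774 0 0) (P.cons (P.lf 0 3361860 0) (P.cons (P.lf 87630 0 0) (P.cons (P.lf 103740 0 0) P.nil))))) (P.cons (P.cons (P.lf 3027222 0 0) (P.cons (P.lf 0 536721 0) (P.cons (P.lf 0 52431 0) (P.cons (P.lf 23769 0 0) P.nil)))) (P.cons (P.cons (P.lf 982632 0 0) (P.cons (P.lf 0 310263 0) (P.cons (P.lf 51522 0 0) P.nil))) (P.cons (P.cons (P.lf 0 59721 0) (P.cons (P.lf 0 5064 0) P.nil)) (P.cons (P.cons (P.lf 0 8844 0) P.nil) P.nil)))))) 56664)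
 (EL.cons 8 (TM.mk (P.cons (P.cons (P.lf 0 116827200 0) (P.cons (P.lf 0 13048902 0) (P.cons (P.lf 8569782 0 0) (P.cons (P.lf 0 738447 0) (P.cons (P.lf 0 308676 0) (P.cons (P.lf 22935 0 0) P.nil)))))) (P.cons (P.cons (P.lf 56574915 0 0) (P.cons (P.lf 0 7178424 0) (P.cons (P.lf 1594911 0 0) (P.cons (P.lf 10884 0 0) (P.cons (P.lf 0 44712 0) P.nil))))) (P.cons (P.cons (P.lf 0 7361565 0) (P.cons (P.lf 1194723 0 0) (P.cons (P.lf 0 169659 0) (P.cons (P.lf 0 14619 0) P.nil)))) (P.cons (P.cons (P.lf 0 233181 0) (P.cons (P.lf 148809 0 0) (P.cons (P.lf 0 31980 0) P.nil))) (P.cons (P.cons (P.lf 90039 0 0) (P.cons (P.lf 0 15063 0) P.nil)) (P.cons (P.cons (P.lf 3 0 0) P.nil) P.nil)))))) 36237)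
 (EL.cons 11 (TM.mk (P.cons (P.cons (P.lf 0 91540152 0) (P.cons (P.lf 0 14986143 0) (P.cons (P.lf 13291983 0 0) (P.cons (P.lf 2264565 0 0) (P.cons (P.lf 0 392925 0) (P.cons (P.lf 0 63543 0) P.nil)))))) (P.cons (P.cons (P.lf 22130220 0 0) (P.cons (P.lf 0 10011399 0) (P.cons (P.lf 0 190890 0) (P.cons (P.lf 632235 0 0) (P.cons (P.lf 0 58530 0) P.nil))))) (P.cons (P.cons (P.lf 1186971 0 0) (P.cons (P.lf 0 429594 0) (P.cons (P.lf 0 34041 0) (P.cons (P.lf 24618 0 0) P.nil)))) (P.cons (P.cons (P.lf 0 332190 0) (P.cons (P.lf 106572 0 0) (P.cons (P.lf 12552 0 0) P.nil))) (P.cons (P.cons (P.lf 0 14301 0) (P.cons (P.lf 7893 0 0) P.nil)) (P.cons (P.cons (P.lf 1914 0 0) P.nil) P.nil)))))) 53601)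
 EL.nil)))
noncomputable def S140_154_512_660_27 : EL := (EL.cons 13 (TM.mk (P.lf 0 4294967296 0) 0)
 EL.nil)
noncomputable def S140_154_512_660_28 : EL := (EL.cons 13 (TM.mk (P.cons (P.cons (P.lf 686780450 0 0) (P.cons (P.lf 218764476 0 0) (P.cons (P.lf 0 14626080 0) (P.lf 0 4875360 0)))) (P.cons (P.cons (P.lf 0 194701310 0) (P.cons (P.lf 40272448 0 0) (P.cons (P.lf 0 2692520 0) (P.lf 0 897504 0)))) (P.cons (P.cons (P.lf 5408810 0 0) (P.cons (P.lf 2133724 0 0) (P.cons (P.lf 0 142652 0) (P.lf 0 47548 0)))) (P.cons (P.cons (P.lf 859375 0 0) (P.cons (P.lf 0 29568 0) (P.cons (P.lf 1976 0 0) P.nil))) (P.cons (P.cons (P.lf 7210 0 0) (P.cons (P.lf 0 6504 0) P.nil)) (P.cons (P.cons (P.lf 0 1503 0) P.nil) P.nil)))))) 3586)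
 EL.nil)
noncomputable def S140_154_512_660_29 : EL := (EL.cons 13 (TM.mk (P.cons (P.cons (P.lf 0 109818621 0) (P.cons (P.lf 0 69962425 0) (P.cons (P.lf 0 6465260 0) (P.cons (P.lf 3049135 0 0) (P.cons (P.lf 446845 0 0) (P.cons (P.lf 0 33205 0) P.nil)))))) (P.cons (P.cons (P.lf 62266855 0 0) (P.cons (P.lf 6954837 0 0) (P.cons (P.lf 0 4567544 0) (P.cons (P.lf 393579 0 0) (P.cons (P.lf 164519 0 0) P.nil))))) (P.cons (P.cons (P.lf 0 10556059 0) (P.cons (P.lf 2417919 0 0) (P.cons (P.lf 0 756641 0) (P.cons (P.lf 25671 0 0) P.nil)))) (P.cons (P.cons (P.lf 215554 0 0) (P.cons (P.lf 13932 0 0) (P.cons (P.lf 0 37933 0) P.nil))) (P.cons (P.cons (P.lf 68797 0 0) (P.cons (P.lf 0 22825 0) P.nil)) (P.cons (P.cons (P.lf 0 1030 0) P.nil) P.nil)))))) 76762)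
 EL.nil)
noncomputable def S140_154_512_660_30 : EL := (EL.cons 13 (TM.mk (P.cons (P.lf 2981735720 0 0) (P.cons (P.lf 0 120734344 0) (P.cons (P.lf 0 5136784 0) (P.cons (P.lf 0 29896 0) (P.cons (P.lf 3204 0 0) (P.cons (P.lf 96 0 0) P.nil)))))) 64)
 EL.nil)
noncomputable def S140_154_512_660_31 : EL := (EL.cons 13 (TM.mk (P.cons (P.cons (P.lf 0 476790079 0) (P.cons (P.lf 0 151874928 0) (P.cons (P.lf 10154001 0 0) (P.lf 3384667 0 0)))) (P.cons (P.cons (P.lf 154475178 0 0) (P.cons (P.lf 0 21809109 0) (P.cons (P.lf 1458104 0 0) (P.lf 486033 0 0)))) (P.cons (P.cons (P.lf 0 8406800 0) (P.cons (P.lf 0 87588 0) (P.cons (P.lf 5853 0 0) (P.lf 1949 0 0)))) (P.cons (P.cons (P.lf 0 672649 0) (P.cons (P.lf 130196 0 0) (P.cons (P.lf 0 8703 0) P.nil))) (P.cons (P.cons (P.lf 23753 0 0) (P.cons (P.lf 6353 0 0) P.nil)) (P.cons (P.cons (P.lf 2441 0 0) P.nil) P.nil)))))) 5751)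
 EL.nil)
noncomputable def S140_154_512_660_32 : EL := (EL.cons 13 (TM.mk (P.cons (P.cons (P.lf 76240418 0 0) (P.cons (P.lf 48570675 0 0) (P.cons (P.lf 4488438 0 0) (P.cons (P.lf 0 2116829 0) (P.cons (P.lf 0 310217 0) (P.cons (P.lf 23052 0 0) P.nil)))))) (P.cons (P.cons (P.lf 0 46315180 0) (P.cons (P.lf 0 6795011 0) (P.cons (P.lf 2989226 0 0) (P.cons (P.lf 0 187524 0) (P.cons (P.lf 0 101654 0) P.nil))))) (P.cons (P.cons (P.lf 8947451 0 0) (P.cons (P.lf 0 1566784 0) (P.cons (P.lf 389160 0 0) (P.cons (P.lf 0 3111 0) P.nil)))) (P.cons (P.cons (P.lf 0 372677 0) (P.cons (P.lf 66128 0 0) (P.cons (P.lf 0 442 0) P.nil))) (P.cons (P.cons (P.lf 0 53811 0) (P.cons (P.lf 19230 0 0) P.nil)) (P.cons (P.cons (P.lf 2789 0 0) P.nil) P.nil)))))) 66050)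
 EL.nil)
noncomputable def S140_154_512_660_33 : EL := (EL.cons 14 (TM.mk (P.lf 8589934592 0 0) 0)
 EL.nil)
noncomputable def S140_154_512_660_34 : EL := (EL.cons 14 (TM.mk (P.cons (P.cons (P.lf 0 1373560900 0) (P.cons (P.lf 0 437528952 0) (P.cons (P.lf 29252160 0 0) (P.lf 9750720 0 0)))) (P.cons (P.cons (P.lf 389402620 0 0) (P.cons (P.lf 0 80544896 0) (P.cons (P.lf 5385040 0 0) (P.lf 1795008 0 0)))) (P.cons (P.cons (P.lf 0 10817620 0) (P.cons (P.lf 0 4267448 0) (P.cons (P.lf 285304 0 0) (P.lf 95096 0 0)))) (P.cons (P.cons (P.lf 0 1718750 0) (P.cons (P.lf 59136 0 0) (P.cons (P.lf 0 3952 0) P.nil))) (P.cons (P.cons (P.lf 0 14420 0) (P.cons (P.lf 13008 0 0) P.nil)) (P.cons (P.cons (P.lf 3006 0 0) P.nil) P.nil)))))) 7172)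
 EL.nil)
noncomputable def S140_154_512_660_35 : EL := (EL.cons 14 (TM.mk (P.cons (P.cons (P.lf 219637242 0 0) (P.cons (P.lf 139924850 0 0) (P.cons (P.lf 12930520 0 0) (P.cons (P.lf 0 6098270 0) (P.cons (P.lf 0 893690 0) (P.cons (P.lf 66410 0 0) P.nil)))))) (P.cons (P.cons (P.lf 0 124533710 0) (P.cons (P.lf 0 13909674 0) (P.cons (P.lf 9135088 0 0) (P.cons (P.lf 0 787158 0) (P.cons (P.lf 0 329038 0) P.nil))))) (P.cons (P.cons (P.lf 21112118 0 0) (P.cons (P.lf 0 4835838 0) (P.cons (P.lf 1513282 0 0) (P.cons (P.lf 0 51342 0) P.nil)))) (P.cons (P.cons (P.lf 0 431108 0) (P.cons (P.lf 0 27864 0) (P.cons (P.lf 75866 0 0) P.nil))) (P.cons (P.cons (P.lf 0 137594 0) (P.cons (P.lf 45650 0 0) P.nil)) (P.cons (P.cons (P.lf 2060 0 0) P.nil) P.nil)))))) 153524)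
 EL.nil)
noncomputable def S140_154_512_660_36 : EL := (EL.cons 14 (TM.mk (P.cons (P.lf 0 5963471440 0) (P.cons (P.lf 241468688 0 0) (P.cons (P.lf 10273568 0 0) (P.cons (P.lf 59792 0 0) (P.cons (P.lf 0 6408 0) (P.cons (P.lf 0 192 0) P.nil)))))) 128)
 EL.nil)
noncomputable def S140_154_512_660_37 : EL := (EL.cons 14 (TM.mk (P.cons (P.cons (P.lf 953580158 0 0) (P.cons (P.lf 303749856 0 0) (P.cons (P.lf 0 20308002 0) (P.lf 0 6769334 0)))) (P.cons (P.cons (P.lf 0 308950356 0) (P.cons (P.lf 43618218 0 0) (P.cons (P.lf 0 2916208 0) (P.lf 0 972066 0)))) (P.cons (P.cons (P.lf 16813600 0 0) (P.cons (P.lf 175176 0 0) (P.cons (P.lf 0 11706 0) (P.lf 0 3898 0)))) (P.cons (P.cons (P.lf 1345298 0 0) (P.cons (P.lf 0 260392 0) (P.cons (P.lf 17406 0 0) P.nil))) (P.cons (P.cons (P.lf 0 47506 0) (P.cons (P.lf 0 12706 0) P.nil)) (P.cons (P.cons (P.lf 0 4882 0) P.nil) P.nil)))))) 11502)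
 EL.nil)
noncomputable def S140_154_512_660_38 : EL := (EL.cons 14 (TM.mk (P.cons (P.cons (P.lf 0 152480836 0) (P.cons (P.lf 0 97141350 0) (P.cons (P.lf 0 8976876 0) (P.cons (P.lf 4233658 0 0) (P.cons (P.lf 620434 0 0) (P.cons (P.lf 0 46104 0) P.nil)))))) (P.cons (P.cons (P.lf 92630360 0 0) (P.cons (P.lf 13590022 0 0) (P.cons (P.lf 0 5978452 0) (P.cons (P.lf 375048 0 0) (P.cons (P.lf 203308 0 0) P.nil))))) (P.cons (P.cons (P.lf 0 17894902 0) (P.cons (P.lf 3133568 0 0) (P.cons (P.lf 0 778320 0) (P.cons (P.lf 6222 0 0) P.nil)))) (P.cons (P.cons (P.lf 745354 0 0) (P.cons (P.lf 0 132256 0) (P.cons (P.lf 884 0 0) P.nil))) (P.cons (P.cons (P.lf 107622 0 0) (P.cons (P.lf 0 38460 0) P.nil)) (P.cons (P.cons (P.lf 0 5578 0) P.nil) P.nil)))))) 132100)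
 EL.nil)
noncomputable def S140_154_512_660_39 : EL := (EL.cons 14 (TM.mk (P.cons (P.lf 4140077114 0 0) (P.cons (P.lf 0 335274176 0) (P.cons (P.lf 0 7476788 0) (P.cons (P.lf 494572 0 0) (P.cons (P.lf 24546 0 0) (P.cons (P.lf 48 0 0) P.nil)))))) 226)
 EL.nil)
noncomputable def S140_154_512_660_40 : EL := (EL.cons 14 (TM.mk (P.cons (P.cons (P.lf 0 662012962 0) (P.cons (P.lf 0 210875132 0) (P.cons (P.lf 14098616 0 0) (P.lf 4699538 0 0)))) (P.cons (P.cons (P.lf 241291286 0 0) (P.cons (P.lf 0 21742880 0) (P.cons (P.lf 1453676 0 0) (P.lf 484556 0 0)))) (P.cons (P.cons (P.lf 0 19216978 0) (P.cons (P.lf 1467806 0 0) (P.cons (P.lf 0 98136 0) (P.lf 0 32714 0)))) (P.cons (P.cons (P.lf 0 824184 0) (P.cons (P.lf 239980 0 0) (P.cons (P.lf 0 16042 0) P.nil))) (P.cons (P.cons (P.lf 88044 0 0) (P.cons (P.lf 1788 0 0) P.nil)) (P.cons (P.cons (P.lf 3988 0 0) P.nil) P.nil)))))) 12072)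
 EL.nil)
noncomputable def S140_154_512_660_41 : EL := (EL.cons 14 (TM.mk (P.cons (P.cons (P.lf 105858212 0 0) (P.cons (P.lf 67439356 0 0) (P.cons (P.lf 6232102 0 0) (P.cons (P.lf 0 2939172 0) (P.cons (P.lf 0 430730 0) (P.cons (P.lf 32006 0 0) P.nil)))))) (P.cons (P.cons (P.lf 0 68593986 0) (P.cons (P.lf 0 12165436 0) (P.cons (P.lf 3898132 0 0) (P.cons (P.lf 0 141362 0) (P.cons (P.lf 0 123704 0) P.nil))))) (P.cons (P.cons (P.lf 14844880 0 0) (P.cons (P.lf 0 1909604 0) (P.cons (P.lf 361546 0 0) (P.cons (P.lf 11286 0 0) P.nil)))) (P.cons (P.cons (P.lf 0 910766 0) (P.cons (P.lf 195480 0 0) (P.cons (P.lf 0 29706 0) P.nil))) (P.cons (P.cons (P.lf 0 74408 0) (P.cons (P.lf 26896 0 0) P.nil)) (P.cons (P.cons (P.lf 7598 0 0) P.nil) P.nil)))))) 107484)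
 EL.nil)
noncomputable def S140_154_512_660_42 : EL := (EL.cons 14 (TM.mk (P.cons (P.lf 0 2874204844 0) (P.cons (P.lf 349140838 0 0) (P.cons (P.lf 717438 0 0) (P.cons (P.lf 0 925698 0) (P.cons (P.lf 0 17502 0) (P.cons (P.lf 1352 0 0) P.nil)))))) 292)
 EL.nil)
noncomputable def S140_154_512_660_43 : EL := (EL.cons 14 (TM.mk (P.cons (P.cons (P.lf 459595512 0 0) (P.cons (P.lf 146397834 0 0) (P.cons (P.lf 0 9787816 0) (P.lf 0 3262604 0)))) (P.cons (P.cons (P.lf 0 186123546 0) (P.cons (P.lf 9166926 0 0) (P.cons (P.lf 0 612878 0) (P.lf 0 204290 0)))) (P.cons (P.cons (P.lf 19332272 0 0) (P.cons (P.lf 0 1882422 0) (P.cons (P.lf 125856 0 0) (P.lf 41952 0 0)))) (P.cons (P.cons (P.lf 315956 0 0) (P.cons (P.lf 0 152814 0) (P.cons (P.lf 10216 0 0) P.nil))) (P.cons (P.cons (P.lf 0 105102 0) (P.cons (P.lf 7266 0 0) P.nil)) (P.cons (P.cons (P.lf 0 1578 0) P.nil) P.nil)))))) 10642)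
 EL.nil)
noncomputable def S140_154_512_660_44 : EL := (EL.cons 14 (TM.mk (P.cons (P.cons (P.lf 0 73490946 0) (P.cons (P.lf 0 46819062 0) (P.cons (P.lf 0 4326570 0) (P.cons (P.lf 2040490 0 0) (P.cons (P.lf 299028 0 0) (P.cons (P.lf 0 22220 0) P.nil)))))) (P.cons (P.cons (P.lf 50596394 0 0) (P.cons (P.lf 10341490 0 0) (P.cons (P.lf 0 2531048 0) (P.cons (P.lf 15516 0 0) (P.cons (P.lf 73772 0 0) P.nil))))) (P.cons (P.cons (P.lf 0 12107516 0) (P.cons (P.lf 1064400 0 0) (P.cons (P.lf 0 133966 0) (P.cons (P.lf 0 15324 0) P.nil)))) (P.cons (P.cons (P.lf 968288 0 0) (P.cons (P.lf 0 203470 0) (P.cons (P.lf 35492 0 0) P.nil))) (P.cons (P.cons (P.lf 43252 0 0) (P.cons (P.lf 0 15596 0) P.nil)) (P.cons (P.cons (P.lf 0 8304 0) P.nil) P.nil)))))) 84046)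
 EL.nil)
noncomputable def S140_154_512_660_45 : EL := (EL.cons 14 (TM.mk (P.cons (P.cons (P.lf 0 35120770 0) (P.cons (P.lf 0 33561716 0) (P.cons (P.lf 0 8446764 0) (P.cons (P.lf 1042334 0 0) (P.cons (P.lf 656386 0 0) (P.cons (P.lf 28810 0 0) P.nil)))))) (P.cons (P.cons (P.lf 29870070 0 0) (P.cons (P.lf 12851008 0 0) (P.cons (P.lf 0 1764494 0) (P.cons (P.lf 0 792236 0) (P.cons (P.lf 162040 0 0) P.nil))))) (P.cons (P.cons (P.lf 0 9297914 0) (P.cons (P.lf 0 50256 0) (P.cons (P.lf 464198 0 0) (P.cons (P.lf 0 209120 0) P.nil)))) (P.cons (P.cons (P.lf 1138882 0 0) (P.cons (P.lf 0 337866 0) (P.cons (P.lf 104544 0 0) P.nil))) (P.cons (P.cons (P.lf 420 0 0) (P.cons (P.lf 112 0 0) P.nil)) (P.cons (P.cons (P.lf 0 9962 0) P.nil) P.nil)))))) 235234)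
 EL.nil)
noncomputable def S140_154_512_660_46 : EL := (EL.cons 15 (TM.mk (P.lf 4294967296 0 0) 0)
 EL.nil)
noncomputable def S140_154_512_660_47 : EL := (EL.cons 15 (TM.mk (P.cons (P.cons (P.lf 0 686780450 0) (P.cons (P.lf 0 218764476 0) (P.cons (P.lf 14626080 0 0) (P.lf 4875360 0 0)))) (P.cons (P.cons (P.lf 194701310 0 0) (P.cons (P.lf 0 40272448 0) (P.cons (P.lf 2692520 0 0) (P.lf 897504 0 0)))) (P.cons (P.cons (P.lf 0 5408810 0) (P.cons (P.lf 0 2133724 0) (P.cons (P.lf 142652 0 0) (P.lf 47548 0 0)))) (P.cons (P.cons (P.lf 0 859375 0) (P.cons (P.lf 29568 0 0) (P.cons (P.lf 0 1976 0) P.nil))) (P.cons (P.cons (P.lf 0 7210 0) (P.cons (P.lf 6504 0 0) P.nil)) (P.cons (P.cons (P.lf 1503 0 0) P.nil) P.nil)))))) 3586)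
 EL.nil)
noncomputable def S140_154_512_660_48 : EL := (EL.cons 15 (TM.mk (P.cons (P.cons (P.lf 109818621 0 0) (P.cons (P.lf 69962425 0 0) (P.cons (P.lf 6465260 0 0) (P.cons (P.lf 0 3049135 0) (P.cons (P.lf 0 446845 0) (P.cons (P.lf 33205 0 0) P.nil)))))) (P.cons (P.cons (P.lf 0 62266855 0) (P.cons (P.lf 0 6954837 0) (P.cons (P.lf 4567544 0 0) (P.cons (P.lf 0 393579 0) (P.cons (P.lf 0 164519 0) P.nil))))) (P.cons (P.cons (P.lf 10556059 0 0) (P.cons (P.lf 0 2417919 0) (P.cons (P.lf 756641 0 0) (P.cons (P.lf 0 25671 0) P.nil)))) (P.cons (P.cons (P.lf 0 215554 0) (P.cons (P.lf 0 13932 0) (P.cons (P.lf 37933 0 0) P.nil))) (P.cons (P.cons (P.lf 0 68797 0) (P.cons (P.lf 22825 0 0) P.nil)) (P.cons (P.cons (P.lf 1030 0 0) P.nil) P.nil)))))) 76762)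
 EL.nil)
noncomputable def S140_154_512_660 : SL := (SL.cons S140_154_512_660_0 (SL.cons S140_154_512_660_1 (SL.cons S140_154_512_660_2 (SL.cons S140_154_512_660_3 (SL.cons S140_154_512_660_4 (SL.cons S140_154_512_660_5 (SL.cons S140_154_512_660_6 (SL.cons S140_154_512_660_7 (SL.cons S140_154_512_660_8 (SL.cons S140_154_512_660_9 (SL.cons S140_154_512_660_10 (SL.cons S140_154_512_660_11 (SL.cons S140_154_512_660_12 (SL.cons S140_154_512_660_13 (SL.cons S140_154_512_660_14 (SL.cons S140_154_512_660_15 (SL.cons S140_154_512_660_16 (SL.cons S140_154_512_660_17 (SL.cons S140_154_512_660_18 (SL.cons S140_154_512_660_19 (SL.cons S140_154_512_660_20 (SL.cons S140_154_512_660_21 (SL.cons S140_154_512_660_22 (SL.cons S140_154_512_660_23 (SL.cons S140_154_512_660_24 (SL.cons S140_154_512_660_25 (SL.cons S140_154_512_660_26 (SL.cons S140_154_512_660_27 (SL.cons S140_154_512_660_28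 (SL.cons S140_154_512_660_29 (SL.cons S140_154_512_660_30 (SL.cons S140_154_512_660_31 (SL.cons S140_154_512_660_32 (SL.cons S140_154_512_660_33 (SL.cons S140_154_512_660_34 (SL.cons S140_154_512_660_35 (SL.cons S140_154_512_660_36 (SL.cons S140_154_512_660_37 (SL.cons S140_154_512_660_38 (SL.cons S140_154_512_660_39 (SL.cons S140_154_512_660_40 (SL.cons S140_154_512_660_41 (SL.cons S140_154_512_660_42 (SL.cons S140_154_512_660_43 (SL.cons S140_154_512_660_44 (SL.cons S140_154_512_660_45 (SL.cons S140_154_512_660_46 (SL.cons S140_154_512_660_47 (SL.cons S140_154_512_660_48 SL.nil)))))))))))))))))))))))))))))))))))))))))))))))))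
noncomputable def S140_154_586_660_0 : EL := (EL.cons 0 (TM.mk (P.cons (P.lf 4816977213 0 0) (P.cons (P.lf 294674568 0 0) (P.cons (P.lf 6571395 0 0) (P.cons (P.lf 0 434682 0) (P.cons (P.lf 0 21573 0) (P.cons (P.lf 0 42 0) P.nil)))))) 205)
 (EL.cons 1 (TM.mk (P.cons (P.lf 0 1762505823 0) (P.cons (P.lf 0 36787346 0) (P.cons (P.lf 8322086 0 0) (P.cons (P.lf 271203 0 0) (P.cons (P.lf 0 4801 0) (P.cons (P.lf 0 468 0) P.nil)))))) 132)
 (EL.cons 5 (TM.mk (P.cons (P.lf 5588741396 0 0) (P.cons (P.lf 0 104773178 0) (P.cons (P.lf 0 2336498 0) (P.cons (P.lf 154550 0 0) (P.cons (P.lf 7670 0 0) (P.cons (P.lf 18 0 0) P.nil)))))) 87)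
 (EL.cons 9 (TM.mk (P.lf 6442450944 0 0) 2)
 EL.nil))))
noncomputable def S140_154_586_660_1 : EL := (EL.cons 0 (TM.mk (P.cons (P.cons (P.lf 0 3309105460 0) (P.cons (P.lf 142351174 0 0) (P.cons (P.lf 0 7788873 0) (P.lf 0 865420 0)))) (P.cons (P.cons (P.lf 326909929 0 0) (P.cons (P.lf 0 1304343 0) (P.cons (P.lf 71378 0 0) (P.lf 7937 0 0)))) (P.cons (P.cons (P.lf 48887111 0 0) (P.cons (P.lf 0 4289355 0) (P.cons (P.lf 234700 0 0) (P.lf 26085 0 0)))) (P.cons (P.cons (P.lf 0 1644121 0) (P.cons (P.lf 0 359906 0) (P.cons (P.lf 19685 0 0) P.nil))) (P.cons (P.cons (P.lf 0 363358 0) (P.cons (P.lf 2993 0 0) P.nil)) (P.cons (P.cons (P.lf 0 5744 0) P.nil) P.nil)))))) 13316)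
 (EL.cons 1 (TM.mk (P.cons (P.cons (P.lf 627201282 0 0) (P.cons (P.lf 9329085 0 0) (P.cons (P.lf 0 510445 0) (P.lf 0 56708 0)))) (P.cons (P.cons (P.lf 0 238441652 0) (P.cons (P.lf 20960871 0 0) (P.cons (P.lf 0 1146886 0) (P.lf 0 127429 0)))) (P.cons (P.cons (P.lf 6757224 0 0) (P.cons (P.lf 2074064 0 0) (P.cons (P.lf 0 113471 0) (P.lf 0 12599 0)))) (P.cons (P.cons (P.lf 2995005 0 0) (P.cons (P.lf 0 77413 0) (P.cons (P.lf 4235 0 0) P.nil))) (P.cons (P.cons (P.lf 19750 0 0) (P.cons (P.lf 0 16124 0) P.nil)) (P.cons (P.cons (P.lf 0 11934 0) P.nil) P.nil)))))) 6373)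
 (EL.cons 5 (TM.mk (P.cons (P.cons (P.lf 0 169653655 0) (P.cons (P.lf 0 221023348 0) (P.cons (P.lf 12093510 0 0) (P.lf 1343720 0 0)))) (P.cons (P.cons (P.lf 181861053 0 0) (P.cons (P.lf 0 30907012 0) (P.cons (P.lf 1691102 0 0) (P.lf 187902 0 0)))) (P.cons (P.cons (P.lf 0 28319995 0) (P.cons (P.lf 0 136994 0) (P.cons (P.lf 7498 0 0) (P.lf 834 0 0)))) (P.cons (P.cons (P.lf 0 852214 0) (P.cons (P.lf 150996 0 0) (P.cons (P.lf 0 8252 0) P.nil))) (P.cons (P.cons (P.lf 122245 0 0) (P.cons (P.lf 4006 0 0) P.nil)) (P.cons (P.cons (P.lf 4738 0 0) P.nil) P.nil)))))) 5426)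
 (EL.cons 9 (TM.mk (P.cons (P.cons (P.lf 0 1187845125 0) (P.cons (P.lf 0 150361398 0) (P.cons (P.lf 8227170 0 0) (P.lf 914124 0 0)))) (P.cons (P.cons (P.lf 263025609 0 0) (P.cons (P.lf 0 27680094 0) (P.cons (P.lf 1514538 0 0) (P.lf 168282 0 0)))) (P.cons (P.cons (P.lf 0 9651099 0) (P.cons (P.lf 0 1466550 0) (P.cons (P.lf 80238 0 0) (P.lf 8910 0 0)))) (P.cons (P.cons (P.lf 0 1267750 0) (P.cons (P.lf 20322 0 0) (P.cons (P.lf 0 1110 0) P.nil))) (P.cons (P.cons (P.lf 0 6129 0) (P.cons (P.lf 4470 0 0) P.nil)) (P.cons (P.cons (P.lf 2368 0 0) P.nil) P.nil)))))) 1588)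
 (EL.cons 2 (TM.mk (P.cons (P.cons (P.lf 699110510 0 0) (P.cons (P.lf 0 87721568 0) (P.cons (P.lf 0 13392812 0) (P.cons (P.lf 409148 0 0) (P.lf 34093 0 0))))) (P.cons (P.cons (P.lf 57491814 0 0) (P.cons (P.lf 0 7213840 0) (P.cons (P.lf 0 1101366 0) (P.cons (P.lf 33643 0 0) (P.lf 2801 0 0))))) (P.cons (P.cons (P.lf 0 2765154 0) (P.cons (P.lf 346961 0 0) (P.cons (P.lf 52970 0 0) (P.cons (P.lf 0 1617 0) P.nil)))) (P.cons (P.cons (P.lf 0 358858 0) (P.cons (P.lf 45025 0 0) (P.cons (P.lf 6870 0 0) P.nil))) (P.cons (P.cons (P.lf 0 4559 0) (P.cons (P.lf 570 0 0) P.nil)) (P.cons (P.cons (P.lf 554 0 0) P.nil) P.nil)))))) 1227)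
 (EL.cons 6 (TM.mk (P.cons (P.cons (P.lf 338629983 0 0) (P.cons (P.lf 0 42489924 0) (P.cons (P.lf 0 6487110 0) (P.cons (P.lf 198180 0 0) (P.lf 16512 0 0))))) (P.cons (P.cons (P.lf 62338542 0 0) (P.cons (P.lf 0 7821987 0) (P.cons (P.lf 0 1194213 0) (P.cons (P.lf 36480 0 0) (P.lf 3039 0 0))))) (P.cons (P.cons (P.lf 3302835 0 0) (P.cons (P.lf 0 414426 0) (P.cons (P.lf 0 63270 0) (P.cons (P.lf 1932 0 0) P.nil)))) (P.cons (P.cons (P.lf 0 45771 0) (P.cons (P.lf 5742 0 0) (P.cons (P.lf 876 0 0) P.nil))) (P.cons (P.cons (P.lf 0 10071 0) (P.cons (P.lf 1263 0 0) P.nil)) (P.cons (P.cons (P.lf 0 249 0) P.nil) P.nil)))))) 684)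
 EL.nil))))))
noncomputable def S140_154_586_660_2 : EL := (EL.cons 0 (TM.mk (P.cons (P.cons (P.lf 1056497340 0 0) (P.cons (P.lf 60513617 0 0) (P.cons (P.lf 0 12579658 0) (P.cons (P.lf 646382 0 0) (P.cons (P.lf 84941 0 0) (P.cons (P.lf 0 6161 0) P.nil)))))) (P.cons (P.cons (P.lf 0 328248349 0) (P.cons (P.lf 24292078 0 0) (P.cons (P.lf 0 3618081 0) (P.cons (P.lf 102784 0 0) (P.cons (P.lf 20971 0 0) P.nil))))) (P.cons (P.cons (P.lf 12103351 0 0) (P.cons (P.lf 0 1548945 0) (P.cons (P.lf 28599 0 0) (P.cons (P.lf 15557 0 0) P.nil)))) (P.cons (P.cons (P.lf 4620409 0 0) (P.cons (P.lf 0 729913 0) (P.cons (P.lf 76712 0 0) P.nil))) (P.cons (P.cons (P.lf 0 209915 0) (P.cons (P.lf 0 22082 0) P.nil)) (P.cons (P.cons (P.lf 0 41780 0) P.nil) P.nil)))))) 64851)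
 (EL.cons 1 (TM.mk (P.cons (P.cons (P.lf 0 171367317 0) (P.cons (P.lf 0 17547942 0) (P.cons (P.lf 1484754 0 0) (P.cons (P.lf 49270 0 0) (P.cons (P.lf 0 4813 0) (P.cons (P.lf 351 0 0) P.nil)))))) (P.cons (P.cons (P.lf 113855911 0 0) (P.cons (P.lf 0 1477002 0) (P.cons (P.lf 0 604249 0) (P.cons (P.lf 83946 0 0) (P.cons (P.lf 6274 0 0) P.nil))))) (P.cons (P.cons (P.lf 0 20765907 0) (P.cons (P.lf 1936139 0 0) (P.cons (P.lf 0 333005 0) (P.cons (P.lf 13072 0 0) P.nil)))) (P.cons (P.cons (P.lf 24889 0 0) (P.cons (P.lf 43242 0 0) (P.cons (P.lf 0 23613 0) P.nil))) (P.cons (P.cons (P.lf 269870 0 0) (P.cons (P.lf 0 39093 0) P.nil)) (P.cons (P.cons (P.lf 0 4774 0) P.nil) P.nil)))))) 31156)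
 (EL.cons 5 (TM.mk (P.cons (P.cons (P.lf 0 127429542 0) (P.cons (P.lf 41323556 0 0) (P.cons (P.lf 5011652 0 0) (P.cons (P.lf 0 1047085 0) (P.cons (P.lf 0 66651 0) (P.cons (P.lf 4834 0 0) P.nil)))))) (P.cons (P.cons (P.lf 6786043 0 0) (P.cons (P.lf 0 10983626 0) (P.cons (P.lf 2879147 0 0) (P.cons (P.lf 0 182523 0) (P.cons (P.lf 0 20875 0) P.nil))))) (P.cons (P.cons (P.lf 11900346 0 0) (P.cons (P.lf 0 887348 0) (P.cons (P.lf 280887 0 0) (P.cons (P.lf 0 20019 0) P.nil)))) (P.cons (P.cons (P.lf 0 2006107 0) (P.cons (P.lf 276367 0 0) (P.cons (P.lf 0 14988 0) P.nil))) (P.cons (P.cons (P.lf 0 23743 0) (P.cons (P.lf 25515 0 0) P.nil)) (P.cons (P.cons (P.lf 17598 0 0) P.nil) P.nil)))))) 31190)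
 (EL.cons 9 (TM.mk (P.cons (P.cons (P.lf 219012306 0 0) (P.cons (P.lf 55446616 0 0) (P.cons (P.lf 475492 0 0) (P.cons (P.lf 0 721117 0) (P.cons (P.lf 0 32163 0) (P.cons (P.lf 2334 0 0) P.nil)))))) (P.cons (P.cons (P.lf 0 96992181 0) (P.cons (P.lf 0 2070402 0) (P.cons (P.lf 1405345 0 0) (P.cons (P.lf 0 128805 0) (P.cons (P.lf 0 11841 0) P.nil))))) (P.cons (P.cons (P.lf 14297430 0 0) (P.cons (P.lf 0 1268890 0) (P.cons (P.lf 256813 0 0) (P.cons (P.lf 0 12789 0) P.nil)))) (P.cons (P.cons (P.lf 0 320559 0) (P.cons (P.lf 14865 0 0) (P.cons (P.lf 10837 0 0) P.nil))) (P.cons (P.cons (P.lf 0 86797 0) (P.cons (P.lf 15583 0 0) P.nil)) (P.cons (P.cons (P.lf 2424 0 0) P.nil) P.nil)))))) 11768)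
 (EL.cons 2 (TM.mk (P.cons (P.cons (P.lf 0 257800955 0) (P.cons (P.lf 0 285474 0) (P.cons (P.lf 10818933 0 0) (P.cons (P.lf 448621 0 0) (P.cons (P.lf 0 90770 0) (P.cons (P.lf 0 4342 0) P.nil)))))) (P.cons (P.cons (P.lf 35884659 0 0) (P.cons (P.lf 0 13193758 0) (P.cons (P.lf 878619 0 0) (P.cons (P.lf 180663 0 0) (P.cons (P.lf 0 19074 0) P.nil))))) (P.cons (P.cons (P.lf 3619490 0 0) (P.cons (P.lf 0 1137403 0) (P.cons (P.lf 53769 0 0) (P.cons (P.lf 14664 0 0) P.nil)))) (P.cons (P.cons (P.lf 0 540843 0) (P.cons (P.lf 86608 0 0) (P.cons (P.lf 6980 0 0) P.nil))) (P.cons (P.cons (P.lf 0 43290 0) (P.cons (P.lf 11317 0 0) P.nil)) (P.cons (P.cons (P.lf 1985 0 0) P.nil) P.nil)))))) 11564)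
 (EL.cons 6 (TM.mk (P.cons (P.cons (P.lf 0 124871718 0) (P.cons (P.lf 0 138276 0) (P.cons (P.lf 5240388 0 0) (P.cons (P.lf 217296 0 0) (P.cons (P.lf 0 43962 0) (P.cons (P.lf 0 2100 0) P.nil)))))) (P.cons (P.cons (P.lf 4662762 0 0) (P.cons (P.lf 0 6404778 0) (P.cons (P.lf 959340 0 0) (P.cons (P.lf 109638 0 0) (P.cons (P.lf 0 13716 0) P.nil))))) (P.cons (P.cons (P.lf 2857674 0 0) (P.cons (P.lf 0 1202586 0) (P.cons (P.lf 97338 0 0) (P.cons (P.lf 17172 0 0) P.nil)))) (P.cons (P.cons (P.lf 0 33474 0) (P.cons (P.lf 0 48288 0) (P.cons (P.lf 10098 0 0) P.nil))) (P.cons (P.cons (P.lf 0 35094 0) (P.cons (P.lf 4626 0 0) P.nil)) (P.cons (P.cons (P.lf 0 1758 0) P.nil) P.nil)))))) 8574)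
 EL.nil))))))
noncomputable def S140_154_586_660_3 : EL := (EL.cons 0 (TM.mk (P.cons (P.lf 3638739650 0 0) (P.cons (P.lf 0 294674568 0) (P.cons (P.lf 0 6571395 0) (P.cons (P.lf 434682 0 0) (P.cons (P.lf 21573 0 0) (P.cons (P.lf 42 0 0) P.nil)))))) 205)
 (EL.cons 1 (TM.mk (P.cons (P.lf 1762505823 0 0) (P.cons (P.lf 36787346 0 0) (P.cons (P.lf 0 8322086 0) (P.cons (P.lf 0 271203 0) (P.cons (P.lf 4801 0 0) (P.cons (P.lf 468 0 0) P.nil)))))) 132)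
 (EL.cons 5 (TM.mk (P.cons (P.lf 853709548 0 0) (P.cons (P.lf 104773178 0 0) (P.cons (P.lf 2336498 0 0) (P.cons (P.lf 0 154550 0) (P.cons (P.lf 0 7670 0) (P.cons (P.lf 0 18 0) P.nil)))))) 80)
 EL.nil)))
noncomputable def S140_154_586_660_4 : EL := (EL.cons 0 (TM.mk (P.cons (P.cons (P.lf 0 670902920 0) (P.cons (P.lf 0 84925128 0) (P.cons (P.lf 4646759 0 0) (P.lf 516302 0 0)))) (P.cons (P.cons (P.lf 202890090 0 0) (P.cons (P.lf 0 8756444 0) (P.cons (P.lf 479112 0 0) (P.lf 53233 0 0)))) (P.cons (P.cons (P.lf 0 16270048 0) (P.cons (P.lf 591125 0 0) (P.cons (P.lf 0 32345 0) (P.lf 0 3596 0)))) (P.cons (P.cons (P.lf 0 623032 0) (P.cons (P.lf 96644 0 0) (P.cons (P.lf 0 5285 0) P.nil))) (P.cons (P.cons (P.lf 78136 0 0) (P.cons (P.lf 718 0 0) P.nil)) (P.cons (P.cons (P.lf 3132 0 0) P.nil) P.nil)))))) 2673)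
 (EL.cons 1 (TM.mk (P.cons (P.cons (P.lf 0 324966997 0) (P.cons (P.lf 0 41135405 0) (P.cons (P.lf 2250763 0 0) (P.lf 250081 0 0)))) (P.cons (P.cons (P.lf 65174960 0 0) (P.cons (P.lf 0 8431218 0) (P.cons (P.lf 461319 0 0) (P.lf 51256 0 0)))) (P.cons (P.cons (P.lf 396003 0 0) (P.cons (P.lf 0 365040 0) (P.cons (P.lf 19970 0 0) (P.lf 2216 0 0)))) (P.cons (P.cons (P.lf 0 691696 0) (P.cons (P.lf 39270 0 0) (P.cons (P.lf 0 2146 0) P.nil))) (P.cons (P.cons (P.lf 0 8405 0) (P.cons (P.lf 4284 0 0) P.nil)) (P.cons (P.cons (P.lf 2765 0 0) P.nil) P.nil)))))) 1393)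
 (EL.cons 5 (TM.mk (P.cons (P.cons (P.lf 0 157405112 0) (P.cons (P.lf 0 19924862 0) (P.cons (P.lf 1090206 0 0) (P.lf 121132 0 0)))) (P.cons (P.cons (P.lf 15536502 0 0) (P.cons (P.lf 0 6113294 0) (P.cons (P.lf 334492 0 0) (P.lf 37164 0 0)))) (P.cons (P.cons (P.lf 2567872 0 0) (P.cons (P.lf 0 699028 0) (P.cons (P.lf 38246 0 0) (P.lf 4248 0 0)))) (P.cons (P.cons (P.lf 0 201060 0) (P.cons (P.lf 0 27588 0) (P.cons (P.lf 1508 0 0) P.nil))) (P.cons (P.cons (P.lf 0 29824 0) (P.cons (P.lf 1232 0 0) P.nil)) (P.cons (P.cons (P.lf 0 324 0) P.nil) P.nil)))))) 898)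
 EL.nil)))
noncomputable def S140_154_586_660_5 : EL := (EL.cons 0 (TM.mk (P.cons (P.cons (P.lf 123699622 0 0) (P.cons (P.lf 31316621 0 0) (P.cons (P.lf 268560 0 0) (P.cons (P.lf 0 407290 0) (P.cons (P.lf 0 18165 0) (P.cons (P.lf 1316 0 0) P.nil)))))) (P.cons (P.cons (P.lf 0 64799351 0) (P.cons (P.lf 0 3705477 0) (P.cons (P.lf 771999 0 0) (P.cons (P.lf 0 39765 0) (P.cons (P.lf 0 5215 0) P.nil))))) (P.cons (P.cons (P.lf 12288262 0 0) (P.cons (P.lf 0 678534 0) (P.cons (P.lf 80284 0 0) (P.cons (P.lf 0 595 0) P.nil)))) (P.cons (P.cons (P.lf 0 721300 0) (P.cons (P.lf 72286 0 0) (P.cons (P.lf 0 7025 0) P.nil))) (P.cons (P.cons (P.lf 0 54755 0) (P.cons (P.lf 9460 0 0) P.nil)) (P.cons (P.cons (P.lf 6307 0 0) P.nil) P.nil)))))) 10756)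
 (EL.cons 1 (TM.mk (P.cons (P.cons (P.lf 59916708 0 0) (P.cons (P.lf 15168913 0 0) (P.cons (P.lf 130081 0 0) (P.cons (P.lf 0 197280 0) (P.cons (P.lf 0 8797 0) (P.cons (P.lf 637 0 0) P.nil)))))) (P.cons (P.cons (P.lf 0 25284226 0) (P.cons (P.lf 0 249804 0) (P.cons (P.lf 387183 0 0) (P.cons (P.lf 0 39354 0) (P.cons (P.lf 0 3421 0) P.nil))))) (P.cons (P.cons (P.lf 3074694 0 0) (P.cons (P.lf 0 430584 0) (P.cons (P.lf 77668 0 0) (P.cons (P.lf 0 3301 0) P.nil)))) (P.cons (P.cons (P.lf 110013 0 0) (P.cons (P.lf 0 2838 0) (P.cons (P.lf 2595 0 0) P.nil))) (P.cons (P.cons (P.lf 0 39796 0) (P.cons (P.lf 6114 0 0) P.nil)) (P.cons (P.cons (P.lf 0 76 0) P.nil) P.nil)))))) 5513)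
 (EL.cons 5 (TM.mk (P.cons (P.cons (P.lf 29022012 0 0) (P.cons (P.lf 7347404 0 0) (P.cons (P.lf 63008 0 0) (P.cons (P.lf 0 95556 0) (P.cons (P.lf 0 4260 0) (P.cons (P.lf 308 0 0) P.nil)))))) (P.cons (P.cons (P.lf 0 9290956 0) (P.cons (P.lf 627368 0 0) (P.cons (P.lf 193958 0 0) (P.cons (P.lf 0 28794 0) (P.cons (P.lf 0 2090 0) P.nil))))) (P.cons (P.cons (P.lf 396648 0 0) (P.cons (P.lf 0 181706 0) (P.cons (P.lf 57058 0 0) (P.cons (P.lf 0 4050 0) P.nil)))) (P.cons (P.cons (P.lf 149608 0 0) (P.cons (P.lf 0 20746 0) (P.cons (P.lf 6110 0 0) P.nil))) (P.cons (P.cons (P.lf 0 9462 0) (P.cons (P.lf 1828 0 0) P.nil)) (P.cons (P.cons (P.lf 0 1434 0) P.nil) P.nil)))))) 3150)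
 EL.nil)))
noncomputable def S140_154_586_660_6 : EL := (EL.cons 12 (TM.mk (P.lf 8589934592 0 0) 0)
 (EL.cons 3 (TM.mk (P.cons (P.lf 0 2795377237 0) (P.cons (P.lf 113188447 0 0) (P.cons (P.lf 4815735 0 0) (P.cons (P.lf 28027 0 0) (P.cons (P.lf 0 3003 0) (P.cons (P.lf 0 90 0) P.nil)))))) 67)
 (EL.cons 7 (TM.mk (P.cons (P.lf 0 1354004171 0) (P.cons (P.lf 0 83086409 0) (P.cons (P.lf 696363 0 0) (P.cons (P.lf 79830 0 0) (P.cons (P.lf 1364 0 0) (P.cons (P.lf 0 28 0) P.nil)))))) 46)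
 EL.nil)))
noncomputable def S140_154_586_660_7 : EL := (EL.cons 12 (TM.mk (P.cons (P.cons (P.lf 0 1583793500 0) (P.cons (P.lf 0 200481864 0) (P.cons (P.lf 10969560 0 0) (P.lf 1218832 0 0)))) (P.cons (P.cons (P.lf 350700812 0 0) (P.cons (P.lf 0 36906792 0) (P.cons (P.lf 2019384 0 0) (P.lf 224376 0 0)))) (P.cons (P.cons (P.lf 0 12868132 0) (P.cons (P.lf 0 1955400 0) (P.cons (P.lf 106984 0 0) (P.lf 11880 0 0)))) (P.cons (P.cons (P.lf 0 1690334 0) (P.cons (P.lf 27096 0 0) (P.cons (P.lf 0 1480 0) P.nil))) (P.cons (P.cons (P.lf 0 8172 0) (P.cons (P.lf 5960 0 0) P.nil)) (P.cons (P.cons (P.lf 3158 0 0) P.nil) P.nil)))))) 2092)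
 (EL.cons 3 (TM.mk (P.cons (P.cons (P.lf 2375253161 0 0) (P.cons (P.lf 0 130483516 0) (P.cons (P.lf 7139530 0 0) (P.lf 793274 0 0)))) (P.cons (P.cons (P.lf 0 201486984 0) (P.cons (P.lf 0 18737318 0) (P.cons (P.lf 1025224 0 0) (P.lf 113912 0 0)))) (P.cons (P.cons (P.lf 0 26355899 0) (P.cons (P.lf 0 75246 0) (P.cons (P.lf 4110 0 0) (P.lf 450 0 0)))) (P.cons (P.cons (P.lf 0 448429 0) (P.cons (P.lf 111856 0 0) (P.cons (P.lf 0 6118 0) P.nil))) (P.cons (P.cons (P.lf 84776 0 0) (P.cons (P.lf 5456 0 0) P.nil)) (P.cons (P.cons (P.lf 4529 0 0) P.nil) P.nil)))))) 5665)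
 (EL.cons 7 (TM.mk (P.cons (P.cons (P.lf 0 1115579818 0) (P.cons (P.lf 175274215 0 0) (P.cons (P.lf 0 9590302 0) (P.lf 0 1065591 0)))) (P.cons (P.cons (P.lf 147902285 0 0) (P.cons (P.lf 13754204 0 0) (P.cons (P.lf 0 752576 0) (P.lf 0 83621 0)))) (P.cons (P.cons (P.lf 11814377 0 0) (P.cons (P.lf 0 645226 0) (P.cons (P.lf 35300 0 0) (P.lf 3922 0 0)))) (P.cons (P.cons (P.lf 0 735965 0) (P.cons (P.lf 0 62744 0) (P.cons (P.lf 3431 0 0) P.nil))) (P.cons (P.cons (P.lf 0 50175 0) (P.cons (P.lf 1326 0 0) P.nil)) (P.cons (P.cons (P.lf 838 0 0) P.nil) P.nil)))))) 3573)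
 (EL.cons 10 (TM.mk (P.cons (P.cons (P.lf 0 1074150834 0) (P.cons (P.lf 134780118 0 0) (P.cons (P.lf 20577435 0 0) (P.cons (P.lf 0 628638 0) (P.lf 0 52386 0))))) (P.cons (P.cons (P.lf 0 131827266 0) (P.cons (P.lf 16541154 0 0) (P.cons (P.lf 2525406 0 0) (P.cons (P.lf 0 77148 0) (P.lf 0 6429 0))))) (P.cons (P.cons (P.lf 0 2939817 0) (P.cons (P.lf 368874 0 0) (P.cons (P.lf 56316 0 0) (P.cons (P.lf 0 1719 0) P.nil)))) (P.cons (P.cons (P.lf 194457 0 0) (P.cons (P.lf 0 24399 0) (P.cons (P.lf 0 3723 0) P.nil))) (P.cons (P.cons (P.lf 9648 0 0) (P.cons (P.lf 0 1209 0) P.nil)) (P.cons (P.cons (P.lf 21 0 0) P.nil) P.nil)))))) 678)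
 EL.nil))))
noncomputable def S140_154_586_660_8 : EL := (EL.cons 12 (TM.mk (P.cons (P.cons (P.lf 292016408 0 0) (P.cons (P.lf 73928822 0 0) (P.cons (P.lf 633990 0 0) (P.cons (P.lf 0 961490 0) (P.cons (P.lf 0 42884 0) (P.cons (P.lf 3112 0 0) P.nil)))))) (P.cons (P.cons (P.lf 0 129322908 0) (P.cons (P.lf 0 2760536 0) (P.cons (P.lf 1873794 0 0) (P.cons (P.lf 0 171740 0) (P.cons (P.lf 0 15788 0) P.nil))))) (P.cons (P.cons (P.lf 19063240 0 0) (P.cons (P.lf 0 1691854 0) (P.cons (P.lf 342418 0 0) (P.cons (P.lf 0 17052 0) P.nil)))) (P.cons (P.cons (P.lf 0 427412 0) (P.cons (P.lf 19820 0 0) (P.cons (P.lf 14450 0 0) P.nil))) (P.cons (P.cons (P.lf 0 115730 0) (P.cons (P.lf 20778 0 0) P.nil)) (P.cons (P.cons (P.lf 3232 0 0) P.nil) P.nil)))))) 15662)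
 (EL.cons 3 (TM.mk (P.cons (P.cons (P.lf 0 780858679 0) (P.cons (P.lf 0 38698027 0) (P.cons (P.lf 9730837 0 0) (P.cons (P.lf 0 597884 0) (P.cons (P.lf 0 69776 0) (P.cons (P.lf 5066 0 0) P.nil)))))) (P.cons (P.cons (P.lf 222315401 0 0) (P.cons (P.lf 0 16623044 0) (P.cons (P.lf 3404386 0 0) (P.cons (P.lf 0 171954 0) (P.cons (P.lf 0 22866 0) P.nil))))) (P.cons (P.cons (P.lf 0 6105786 0) (P.cons (P.lf 213306 0 0) (P.cons (P.lf 268239 0 0) (P.cons (P.lf 0 31928 0) P.nil)))) (P.cons (P.cons (P.lf 0 2636571 0) (P.cons (P.lf 444276 0 0) (P.cons (P.lf 0 20391 0) P.nil))) (P.cons (P.cons (P.lf 43668 0 0) (P.cons (P.lf 36371 0 0) P.nil)) (P.cons (P.cons (P.lf 21811 0 0) P.nil) P.nil)))))) 35543)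
 (EL.cons 7 (TM.mk (P.cons (P.cons (P.lf 457405989 0 0) (P.cons (P.lf 0 906799 0) (P.cons (P.lf 0 7394337 0) (P.cons (P.lf 820118 0 0) (P.cons (P.lf 68223 0 0) (P.cons (P.lf 0 4948 0) P.nil)))))) (P.cons (P.cons (P.lf 0 163191464 0) (P.cons (P.lf 12202204 0 0) (P.cons (P.lf 0 2498998 0) (P.cons (P.lf 126220 0 0) (P.cons (P.lf 16781 0 0) P.nil))))) (P.cons (P.cons (P.lf 12792885 0 0) (P.cons (P.lf 0 778002 0) (P.cons (P.lf 0 69635 0) (P.cons (P.lf 17009 0 0) P.nil)))) (P.cons (P.cons (P.lf 1356786 0 0) (P.cons (P.lf 0 294979 0) (P.cons (P.lf 24137 0 0) P.nil))) (P.cons (P.cons (P.lf 0 155842 0) (P.cons (P.lf 0 3137 0) P.nil)) (P.cons (P.cons (P.lf 0 8678 0) P.nil) P.nil)))))) 22600)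
 (EL.cons 10 (TM.mk (P.cons (P.cons (P.lf 396099198 0 0) (P.cons (P.lf 438624 0 0) (P.cons (P.lf 0 16622784 0) (P.cons (P.lf 0 689292 0) (P.cons (P.lf 139464 0 0) (P.cons (P.lf 6678 0 0) P.nil)))))) (P.cons (P.cons (P.lf 0 39096546 0) (P.cons (P.lf 20289360 0 0) (P.cons (P.lf 0 2023044 0) (P.cons (P.lf 0 305490 0) (P.cons (P.lf 34956 0 0) P.nil))))) (P.cons (P.cons (P.lf 0 6461874 0) (P.cons (P.lf 2569866 0 0) (P.cons (P.lf 0 193170 0) (P.cons (P.lf 0 36090 0) P.nil)))) (P.cons (P.cons (P.lf 505956 0 0) (P.cons (P.lf 5940 0 0) (P.cons (P.lf 0 22200 0) P.nil))) (P.cons (P.cons (P.lf 75054 0 0) (P.cons (P.lf 0 12522 0) P.nil)) (P.cons (P.cons (P.lf 810 0 0) P.nil) P.nil)))))) 17844)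
 EL.nil))))
noncomputable def S140_154_586_660_9 : EL := (EL.cons 3 (TM.mk (P.cons (P.lf 0 2795377237 0) (P.cons (P.lf 113188447 0 0) (P.cons (P.lf 4815735 0 0) (P.cons (P.lf 28027 0 0) (P.cons (P.lf 0 3003 0) (P.cons (P.lf 0 90 0) P.nil)))))) 67)
 (EL.cons 7 (TM.mk (P.cons (P.lf 0 1354004171 0) (P.cons (P.lf 0 83086409 0) (P.cons (P.lf 696363 0 0) (P.cons (P.lf 79830 0 0) (P.cons (P.lf 1364 0 0) (P.cons (P.lf 0 28 0) P.nil)))))) 46)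
 EL.nil))
noncomputable def S140_154_586_660_10 : EL := (EL.cons 3 (TM.mk (P.cons (P.cons (P.lf 515405588 0 0) (P.cons (P.lf 65241758 0 0) (P.cons (P.lf 0 3569765 0) (P.lf 0 396637 0)))) (P.cons (P.cons (P.lf 0 134996160 0) (P.cons (P.lf 9368659 0 0) (P.cons (P.lf 0 512612 0) (P.lf 0 56956 0)))) (P.cons (P.cons (P.lf 7920832 0 0) (P.cons (P.lf 37623 0 0) (P.cons (P.lf 0 2055 0) (P.lf 0 225 0)))) (P.cons (P.cons (P.lf 571958 0 0) (P.cons (P.lf 0 55928 0) (P.cons (P.lf 3059 0 0) P.nil))) (P.cons (P.cons (P.lf 0 25129 0) (P.cons (P.lf 0 2728 0) P.nil)) (P.cons (P.cons (P.lf 0 2230 0) P.nil) P.nil)))))) 1329)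
 (EL.cons 7 (TM.mk (P.cons (P.cons (P.lf 249648350 0 0) (P.cons (P.lf 31601320 0 0) (P.cons (P.lf 0 1729096 0) (P.lf 0 192120 0)))) (P.cons (P.cons (P.lf 0 39960565 0) (P.cons (P.lf 7756667 0 0) (P.cons (P.lf 0 424412 0) (P.lf 0 47156 0)))) (P.cons (P.cons (P.lf 0 1492195 0) (P.cons (P.lf 648953 0 0) (P.cons (P.lf 0 35506 0) (P.lf 0 3944 0)))) (P.cons (P.cons (P.lf 404620 0 0) (P.cons (P.lf 9787 0 0) (P.cons (P.lf 0 535 0) P.nil))) (P.cons (P.cons (P.lf 19602 0 0) (P.cons (P.lf 0 1734 0) P.nil)) (P.cons (P.cons (P.lf 0 614 0) P.nil) P.nil)))))) 710)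
 EL.nil))
noncomputable def S140_154_586_660_11 : EL := (EL.cons 3 (TM.mk (P.cons (P.cons (P.lf 0 95029363 0) (P.cons (P.lf 0 24058267 0) (P.cons (P.lf 0 206315 0) (P.cons (P.lf 312892 0 0) (P.cons (P.lf 13954 0 0) (P.cons (P.lf 0 1012 0) P.nil)))))) (P.cons (P.cons (P.lf 45932735 0 0) (P.cons (P.lf 1872496 0 0) (P.cons (P.lf 0 601424 0) (P.cons (P.lf 43218 0 0) (P.cons (P.lf 4572 0 0) P.nil))))) (P.cons (P.cons (P.lf 0 7744008 0) (P.cons (P.lf 555642 0 0) (P.cons (P.lf 0 86385 0) (P.cons (P.lf 2746 0 0) P.nil)))) (P.cons (P.cons (P.lf 318735 0 0) (P.cons (P.lf 0 30048 0) (P.cons (P.lf 861 0 0) P.nil))) (P.cons (P.cons (P.lf 42192 0 0) (P.cons (P.lf 0 7483 0) P.nil)) (P.cons (P.cons (P.lf 0 2711 0) P.nil) P.nil)))))) 6799)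
 (EL.cons 7 (TM.mk (P.cons (P.cons (P.lf 0 46029621 0) (P.cons (P.lf 0 11653165 0) (P.cons (P.lf 0 99933 0) (P.cons (P.lf 151556 0 0) (P.cons (P.lf 6759 0 0) (P.cons (P.lf 0 490 0) P.nil)))))) (P.cons (P.cons (P.lf 17560222 0 0) (P.cons (P.lf 0 279944 0) (P.cons (P.lf 0 301492 0) (P.cons (P.lf 36370 0 0) (P.cons (P.lf 2903 0 0) P.nil))))) (P.cons (P.cons (P.lf 0 1730325 0) (P.cons (P.lf 299376 0 0) (P.cons (P.lf 0 72047 0) (P.cons (P.lf 4271 0 0) P.nil)))) (P.cons (P.cons (P.lf 0 124788 0) (P.cons (P.lf 13703 0 0) (P.cons (P.lf 0 5431 0) P.nil))) (P.cons (P.cons (P.lf 22766 0 0) (P.cons (P.lf 0 3617 0) P.nil)) (P.cons (P.cons (P.lf 730 0 0) P.nil) P.nil)))))) 3486)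
 EL.nil))
noncomputable def S140_154_586_660_12 : EL := (EL.cons 4 (TM.mk (P.cons (P.lf 2795377237 0 0) (P.cons (P.lf 0 113188447 0) (P.cons (P.lf 0 4815735 0) (P.cons (P.lf 0 28027 0) (P.cons (P.lf 3003 0 0) (P.cons (P.lf 90 0 0) P.nil)))))) 67)
 (EL.cons 8 (TM.mk (P.cons (P.lf 1354004171 0 0) (P.cons (P.lf 83086409 0 0) (P.cons (P.lf 0 696363 0) (P.cons (P.lf 0 79830 0) (P.cons (P.lf 0 1364 0) (P.cons (P.lf 28 0 0) P.nil)))))) 46)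
 EL.nil))
noncomputable def S140_154_586_660_13 : EL := (EL.cons 4 (TM.mk (P.cons (P.cons (P.lf 0 515405588 0) (P.cons (P.lf 0 65241758 0) (P.cons (P.lf 3569765 0 0) (P.lf 396637 0 0)))) (P.cons (P.cons (P.lf 134996160 0 0) (P.cons (P.lf 0 9368659 0) (P.cons (P.lf 512612 0 0) (P.lf 56956 0 0)))) (P.cons (P.cons (P.lf 0 7920832 0) (P.cons (P.lf 0 37623 0) (P.cons (P.lf 2055 0 0) (P.lf 225 0 0)))) (P.cons (P.cons (P.lf 0 571958 0) (P.cons (P.lf 55928 0 0) (P.cons (P.lf 0 3059 0) P.nil))) (P.cons (P.cons (P.lf 25129 0 0) (P.cons (P.lf 2728 0 0) P.nil)) (P.cons (P.cons (P.lf 2230 0 0) P.nil) P.nil)))))) 1329)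
 (EL.cons 8 (TM.mk (P.cons (P.cons (P.lf 0 249648350 0) (P.cons (P.lf 0 31601320 0) (P.cons (P.lf 1729096 0 0) (P.lf 192120 0 0)))) (P.cons (P.cons (P.lf 39960565 0 0) (P.cons (P.lf 0 7756667 0) (P.cons (P.lf 424412 0 0) (P.lf 47156 0 0)))) (P.cons (P.cons (P.lf 1492195 0 0) (P.cons (P.lf 0 648953 0) (P.cons (P.lf 35506 0 0) (P.lf 3944 0 0)))) (P.cons (P.cons (P.lf 0 404620 0) (P.cons (P.lf 0 9787 0) (P.cons (P.lf 535 0 0) P.nil))) (P.cons (P.cons (P.lf 0 19602 0) (P.cons (P.lf 1734 0 0) P.nil)) (P.cons (P.cons (P.lf 614 0 0) P.nil) P.nil)))))) 710)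
 EL.nil))
noncomputable def S140_154_586_660_14 : EL := (EL.cons 4 (TM.mk (P.cons (P.cons (P.lf 95029363 0 0) (P.cons (P.lf 24058267 0 0) (P.cons (P.lf 206315 0 0) (P.cons (P.lf 0 312892 0) (P.cons (P.lf 0 13954 0) (P.cons (P.lf 1012 0 0) P.nil)))))) (P.cons (P.cons (P.lf 0 45932735 0) (P.cons (P.lf 0 1872496 0) (P.cons (P.lf 601424 0 0) (P.cons (P.lf 0 43218 0) (P.cons (P.lf 0 4572 0) P.nil))))) (P.cons (P.cons (P.lf 7744008 0 0) (P.cons (P.lf 0 555642 0) (P.cons (P.lf 86385 0 0) (P.cons (P.lf 0 2746 0) P.nil)))) (P.cons (P.cons (P.lf 0 318735 0) (P.cons (P.lf 30048 0 0) (P.cons (P.lf 0 861 0) P.nil))) (P.cons (P.cons (P.lf 0 42192 0) (P.cons (P.lf 7483 0 0) P.nil)) (P.cons (P.cons (P.lf 2711 0 0) P.nil) P.nil)))))) 6799)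
 (EL.cons 8 (TM.mk (P.cons (P.cons (P.lf 46029621 0 0) (P.cons (P.lf 11653165 0 0) (P.cons (P.lf 99933 0 0) (P.cons (P.lf 0 151556 0) (P.cons (P.lf 0 6759 0) (P.cons (P.lf 490 0 0) P.nil)))))) (P.cons (P.cons (P.lf 0 17560222 0) (P.cons (P.lf 279944 0 0) (P.cons (P.lf 301492 0 0) (P.cons (P.lf 0 36370 0) (P.cons (P.lf 0 2903 0) P.nil))))) (P.cons (P.cons (P.lf 1730325 0 0) (P.cons (P.lf 0 299376 0) (P.cons (P.lf 72047 0 0) (P.cons (P.lf 0 4271 0) P.nil)))) (P.cons (P.cons (P.lf 124788 0 0) (P.cons (P.lf 0 13703 0) (P.cons (P.lf 5431 0 0) P.nil))) (P.cons (P.cons (P.lf 0 22766 0) (P.cons (P.lf 3617 0 0) P.nil)) (P.cons (P.cons (P.lf 0 730 0) P.nil) P.nil)))))) 3486)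
 EL.nil))
noncomputable def S140_154_586_660_15 : EL := (EL.cons 4 (TM.mk (P.cons (P.lf 0 1940661147 0) (P.cons (P.lf 157159770 0 0) (P.cons (P.lf 3504744 0 0) (P.cons (P.lf 0 231830 0) (P.cons (P.lf 0 11505 0) (P.cons (P.lf 0 22 0) P.nil)))))) 112)
 (EL.cons 8 (TM.mk (P.cons (P.lf 0 940003106 0) (P.cons (P.lf 0 19619918 0) (P.cons (P.lf 4438446 0 0) (P.cons (P.lf 144642 0 0) (P.cons (P.lf 0 2561 0) (P.cons (P.lf 0 250 0) P.nil)))))) 67)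
 EL.nil))
noncomputable def S140_154_586_660_16 : EL := (EL.cons 4 (TM.mk (P.cons (P.cons (P.lf 357814890 0 0) (P.cons (P.lf 45293401 0 0) (P.cons (P.lf 0 2478271 0) (P.lf 0 275361 0)))) (P.cons (P.cons (P.lf 0 108208048 0) (P.cons (P.lf 4670103 0 0) (P.cons (P.lf 0 255526 0) (P.lf 0 28391 0)))) (P.cons (P.cons (P.lf 8677359 0 0) (P.cons (P.lf 0 315267 0) (P.cons (P.lf 17250 0 0) (P.lf 1918 0 0)))) (P.cons (P.cons (P.lf 332283 0 0) (P.cons (P.lf 0 51543 0) (P.cons (P.lf 2819 0 0) P.nil))) (P.cons (P.cons (P.lf 0 41672 0) (P.cons (P.lf 0 383 0) P.nil)) (P.cons (P.cons (P.lf 0 1670 0) P.nil) P.nil)))))) 1434)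
 (EL.cons 8 (TM.mk (P.cons (P.cons (P.lf 173315732 0 0) (P.cons (P.lf 21938883 0 0) (P.cons (P.lf 0 1200407 0) (P.lf 0 133377 0)))) (P.cons (P.cons (P.lf 0 34759979 0) (P.cons (P.lf 4496650 0 0) (P.cons (P.lf 0 246037 0) (P.lf 0 27337 0)))) (P.cons (P.cons (P.lf 0 211202 0) (P.cons (P.lf 194688 0 0) (P.cons (P.lf 0 10651 0) (P.lf 0 1182 0)))) (P.cons (P.cons (P.lf 368905 0 0) (P.cons (P.lf 0 20944 0) (P.cons (P.lf 1145 0 0) P.nil))) (P.cons (P.cons (P.lf 4483 0 0) (P.cons (P.lf 0 2285 0) P.nil)) (P.cons (P.cons (P.lf 0 1475 0) P.nil) P.nil)))))) 733)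
 EL.nil))
noncomputable def S140_154_586_660_17 : EL := (EL.cons 4 (TM.mk (P.cons (P.cons (P.lf 0 65973132 0) (P.cons (P.lf 0 16702198 0) (P.cons (P.lf 0 143232 0) (P.cons (P.lf 217221 0 0) (P.cons (P.lf 9688 0 0) (P.cons (P.lf 0 702 0) P.nil)))))) (P.cons (P.cons (P.lf 34559654 0 0) (P.cons (P.lf 1976254 0 0) (P.cons (P.lf 0 411733 0) (P.cons (P.lf 21208 0 0) (P.cons (P.lf 2781 0 0) P.nil))))) (P.cons (P.cons (P.lf 0 6553740 0) (P.cons (P.lf 361885 0 0) (P.cons (P.lf 0 42818 0) (P.cons (P.lf 317 0 0) P.nil)))) (P.cons (P.cons (P.lf 384693 0 0) (P.cons (P.lf 0 38552 0) (P.cons (P.lf 3747 0 0) P.nil))) (P.cons (P.cons (P.lf 29203 0 0) (P.cons (P.lf 0 5045 0) P.nil)) (P.cons (P.cons (P.lf 0 3363 0) P.nil) P.nil)))))) 5747)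
 (EL.cons 8 (TM.mk (P.cons (P.cons (P.lf 0 31955578 0) (P.cons (P.lf 0 8090087 0) (P.cons (P.lf 0 69377 0) (P.cons (P.lf 105216 0 0) (P.cons (P.lf 4692 0 0) (P.cons (P.lf 0 340 0) P.nil)))))) (P.cons (P.cons (P.lf 13484921 0 0) (P.cons (P.lf 133229 0 0) (P.cons (P.lf 0 206498 0) (P.cons (P.lf 20989 0 0) (P.cons (P.lf 1825 0 0) P.nil))))) (P.cons (P.cons (P.lf 0 1639837 0) (P.cons (P.lf 229645 0 0) (P.cons (P.lf 0 41423 0) (P.cons (P.lf 1761 0 0) P.nil)))) (P.cons (P.cons (P.lf 0 58674 0) (P.cons (P.lf 1514 0 0) (P.cons (P.lf 0 1384 0) P.nil))) (P.cons (P.cons (P.lf 21225 0 0) (P.cons (P.lf 0 3261 0) P.nil)) (P.cons (P.cons (P.lf 41 0 0) P.nil) P.nil)))))) 2929)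
 EL.nil))
noncomputable def S140_154_586_660_18 : EL := (EL.cons 4 (TM.mk (P.cons (P.lf 1347283520 0 0) (P.cons (P.lf 0 163659767 0) (P.cons (P.lf 0 336299 0) (P.cons (P.lf 433920 0 0) (P.cons (P.lf 8204 0 0) (P.cons (P.lf 0 633 0) P.nil)))))) 143)
 (EL.cons 8 (TM.mk (P.cons (P.lf 652587236 0 0) (P.cons (P.lf 0 12803181 0) (P.cons (P.lf 0 4757117 0) (P.cons (P.lf 0 5657 0) (P.cons (P.lf 11717 0 0) (P.cons (P.lf 341 0 0) P.nil)))))) 78)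
 EL.nil))
noncomputable def S140_154_586_660_19 : EL := (EL.cons 4 (TM.mk (P.cons (P.cons (P.lf 0 248409211 0) (P.cons (P.lf 0 31444466 0) (P.cons (P.lf 1720514 0 0) (P.lf 191166 0 0)))) (P.cons (P.cons (P.lf 85180706 0 0) (P.cons (P.lf 0 1968943 0) (P.cons (P.lf 107730 0 0) (P.lf 11970 0 0)))) (P.cons (P.cons (P.lf 0 8638017 0) (P.cons (P.lf 404321 0 0) (P.cons (P.lf 0 22123 0) (P.lf 0 2459 0)))) (P.cons (P.cons (P.lf 0 113684 0) (P.cons (P.lf 32821 0 0) (P.cons (P.lf 0 1795 0) P.nil))) (P.cons (P.cons (P.lf 47629 0 0) (P.cons (P.lf 0 1560 0) P.nil)) (P.cons (P.cons (P.lf 518 0 0) P.nil) P.nil)))))) 1361)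
 (EL.cons 8 (TM.mk (P.cons (P.cons (P.lf 0 120322618 0) (P.cons (P.lf 0 15230838 0) (P.cons (P.lf 833369 0 0) (P.lf 92595 0 0)))) (P.cons (P.cons (P.lf 29003767 0 0) (P.cons (P.lf 0 2505035 0) (P.cons (P.lf 137064 0 0) (P.lf 15229 0 0)))) (P.cons (P.cons (P.lf 0 623214 0) (P.cons (P.lf 17481 0 0) (P.cons (P.lf 0 956 0) (P.lf 0 106 0)))) (P.cons (P.cons (P.lf 0 302412 0) (P.cons (P.lf 25543 0 0) (P.cons (P.lf 0 1397 0) P.nil))) (P.cons (P.cons (P.lf 6633 0 0) (P.cons (P.lf 1245 0 0) P.nil)) (P.cons (P.cons (P.lf 1612 0 0) P.nil) P.nil)))))) 729)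
 EL.nil))
noncomputable def S140_154_586_660_20 : EL := (EL.cons 4 (TM.mk (P.cons (P.cons (P.lf 45801150 0 0) (P.cons (P.lf 11595324 0 0) (P.cons (P.lf 99436 0 0) (P.cons (P.lf 0 150803 0) (P.cons (P.lf 0 6725 0) (P.cons (P.lf 487 0 0) P.nil)))))) (P.cons (P.cons (P.lf 0 25847222 0) (P.cons (P.lf 0 1841503 0) (P.cons (P.lf 281814 0 0) (P.cons (P.lf 0 8617 0) (P.cons (P.lf 0 1658 0) P.nil))))) (P.cons (P.cons (P.lf 5442455 0 0) (P.cons (P.lf 0 215656 0) (P.cons (P.lf 17980 0 0) (P.cons (P.lf 634 0 0) P.nil)))) (P.cons (P.cons (P.lf 0 410425 0) (P.cons (P.lf 39184 0 0) (P.cons (P.lf 0 4298 0) P.nil))) (P.cons (P.cons (P.lf 0 17008 0) (P.cons (P.lf 2878 0 0) P.nil)) (P.cons (P.cons (P.lf 3545 0 0) P.nil) P.nil)))))) 4587)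
 (EL.cons 8 (TM.mk (P.cons (P.cons (P.lf 22184822 0 0) (P.cons (P.lf 5616457 0 0) (P.cons (P.lf 48164 0 0) (P.cons (P.lf 0 73045 0) (P.cons (P.lf 0 3257 0) (P.cons (P.lf 236 0 0) P.nil)))))) (P.cons (P.cons (P.lf 0 10260056 0) (P.cons (P.lf 0 319910 0) (P.cons (P.lf 141409 0 0) (P.cons (P.lf 0 11613 0) (P.cons (P.lf 0 1135 0) P.nil))))) (P.cons (P.cons (P.lf 1479291 0 0) (P.cons (P.lf 0 165359 0) (P.cons (P.lf 22869 0 0) (P.cons (P.lf 0 506 0) P.nil)))) (P.cons (P.cons (P.lf 10542 0 0) (P.cons (P.lf 5507 0 0) (P.cons (P.lf 0 450 0) P.nil))) (P.cons (P.cons (P.lf 0 18228 0) (P.cons (P.lf 2588 0 0) P.nil)) (P.cons (P.cons (P.lf 477 0 0) P.nil) P.nil)))))) 2458)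
 EL.nil))
noncomputable def S140_154_586_660_21 : EL := (EL.cons 4 (TM.mk (P.cons (P.cons (P.lf 0 1859847573 0) (P.cons (P.lf 195725274 0 0) (P.cons (P.lf 0 10709295 0) (P.lf 0 1189911 0)))) (P.cons (P.cons (P.lf 66490824 0 0) (P.cons (P.lf 28105977 0 0) (P.cons (P.lf 0 1537836 0) (P.lf 0 170868 0)))) (P.cons (P.cons (P.lf 34276731 0 0) (P.cons (P.lf 112869 0 0) (P.cons (P.lf 0 6165 0) (P.lf 0 675 0)))) (P.cons (P.cons (P.lf 1020387 0 0) (P.cons (P.lf 0 167784 0) (P.cons (P.lf 9177 0 0) P.nil))) (P.cons (P.cons (P.lf 0 109905 0) (P.cons (P.lf 0 8184 0) P.nil)) (P.cons (P.cons (P.lf 0 6759 0) P.nil) P.nil)))))) 4317)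
 (EL.cons 8 (TM.mk (P.cons (P.cons (P.lf 1365228168 0 0) (P.cons (P.lf 0 143672895 0) (P.cons (P.lf 7861206 0 0) (P.lf 873471 0 0)))) (P.cons (P.cons (P.lf 0 187862850 0) (P.cons (P.lf 0 5997537 0) (P.cons (P.lf 328164 0 0) (P.lf 36465 0 0)))) (P.cons (P.cons (P.lf 0 13306572 0) (P.cons (P.lf 1294179 0 0) (P.cons (P.lf 0 70806 0) (P.lf 0 7866 0)))) (P.cons (P.cons (P.lf 1140585 0 0) (P.cons (P.lf 72531 0 0) (P.cons (P.lf 0 3966 0) P.nil))) (P.cons (P.cons (P.lf 69777 0 0) (P.cons (P.lf 0 3060 0) P.nil)) (P.cons (P.cons (P.lf 0 1452 0) P.nil) P.nil)))))) 2844)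
 (EL.cons 11 (TM.mk (P.cons (P.cons (P.lf 1074150834 0 0) (P.cons (P.lf 0 134780118 0) (P.cons (P.lf 0 20577435 0) (P.cons (P.lf 628638 0 0) (P.lf 52386 0 0))))) (P.cons (P.cons (P.lf 131827266 0 0) (P.cons (P.lf 0 16541154 0) (P.cons (P.lf 0 2525406 0) (P.cons (P.lf 77148 0 0) (P.lf 6429 0 0))))) (P.cons (P.cons (P.lf 2939817 0 0) (P.cons (P.lf 0 368874 0) (P.cons (P.lf 0 56316 0) (P.cons (P.lf 1719 0 0) P.nil)))) (P.cons (P.cons (P.lf 0 194457 0) (P.cons (P.lf 24399 0 0) (P.cons (P.lf 3723 0 0) P.nil))) (P.cons (P.cons (P.lf 0 9648 0) (P.cons (P.lf 1209 0 0) P.nil)) (P.cons (P.cons (P.lf 0 21 0) P.nil) P.nil)))))) 678)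
 EL.nil)))
noncomputable def S140_154_586_660_22 : EL := (EL.cons 4 (TM.mk (P.cons (P.cons (P.lf 342914658 0 0) (P.cons (P.lf 7319880 0 0) (P.cons (P.lf 0 4968576 0) (P.cons (P.lf 455388 0 0) (P.cons (P.lf 41865 0 0) (P.cons (P.lf 0 3039 0) P.nil)))))) (P.cons (P.cons (P.lf 0 88191333 0) (P.cons (P.lf 9247770 0 0) (P.cons (P.lf 0 2002905 0) (P.cons (P.lf 107586 0 0) (P.cons (P.lf 13719 0 0) P.nil))))) (P.cons (P.cons (P.lf 0 819111 0) (P.cons (P.lf 171168 0 0) (P.cons (P.lf 0 177312 0) (P.cons (P.lf 17337 0 0) P.nil)))) (P.cons (P.cons (P.lf 1477653 0 0) (P.cons (P.lf 0 237162 0) (P.cons (P.lf 10626 0 0) P.nil))) (P.cons (P.cons (P.lf 0 738 0) (P.cons (P.lf 0 21927 0) P.nil)) (P.cons (P.cons (P.lf 0 12261 0) P.nil) P.nil)))))) 14361)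
 (EL.cons 8 (TM.mk (P.cons (P.cons (P.lf 0 251717805 0) (P.cons (P.lf 0 5373183 0) (P.cons (P.lf 3647202 0 0) (P.cons (P.lf 0 334281 0) (P.cons (P.lf 0 30732 0) (P.cons (P.lf 2229 0 0) P.nil)))))) (P.cons (P.cons (P.lf 90375843 0 0) (P.cons (P.lf 0 6241074 0) (P.cons (P.lf 1098753 0 0) (P.cons (P.lf 0 44925 0) (P.cons (P.lf 0 6939 0) P.nil))))) (P.cons (P.cons (P.lf 0 7261605 0) (P.cons (P.lf 538689 0 0) (P.cons (P.lf 0 1206 0) (P.cons (P.lf 0 6369 0) P.nil)))) (P.cons (P.cons (P.lf 0 740787 0) (P.cons (P.lf 154341 0 0) (P.cons (P.lf 0 14784 0) P.nil))) (P.cons (P.cons (P.lf 89304 0 0) (P.cons (P.lf 0 240 0) P.nil)) (P.cons (P.cons (P.lf 4704 0 0) P.nil) P.nil)))))) 9546)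
 (EL.cons 11 (TM.mk (P.cons (P.cons (P.lf 0 198049599 0) (P.cons (P.lf 0 219312 0) (P.cons (P.lf 8311392 0 0) (P.cons (P.lf 344646 0 0) (P.cons (P.lf 0 69732 0) (P.cons (P.lf 0 3339 0) P.nil)))))) (P.cons (P.cons (P.lf 19548273 0 0) (P.cons (P.lf 0 10144680 0) (P.cons (P.lf 1011522 0 0) (P.cons (P.lf 152745 0 0) (P.cons (P.lf 0 17478 0) P.nil))))) (P.cons (P.cons (P.lf 3230937 0 0) (P.cons (P.lf 0 1284933 0) (P.cons (P.lf 96585 0 0) (P.cons (P.lf 18045 0 0) P.nil)))) (P.cons (P.cons (P.lf 0 252978 0) (P.cons (P.lf 0 2970 0) (P.cons (P.lf 11100 0 0) P.nil))) (P.cons (P.cons (P.lf 0 37527 0) (P.cons (P.lf 6261 0 0) P.nil)) (P.cons (P.cons (P.lf 0 405 0) P.nil) P.nil)))))) 8922)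
 EL.nil)))
noncomputable def S140_154_586_660_23 : EL := (EL.cons 4 (TM.mk (P.cons (P.cons (P.lf 1291179549 0 0) (P.cons (P.lf 0 135880203 0) (P.cons (P.lf 7434813 0 0) (P.lf 826083 0 0)))) (P.cons (P.cons (P.lf 0 98442084 0) (P.cons (P.lf 0 14010312 0) (P.cons (P.lf 766581 0 0) (P.lf 85173 0 0)))) (P.cons (P.cons (P.lf 0 24151536 0) (P.cons (P.lf 945804 0 0) (P.cons (P.lf 0 51756 0) (P.lf 0 5757 0)))) (P.cons (P.cons (P.lf 321723 0 0) (P.cons (P.lf 154632 0 0) (P.cons (P.lf 0 8457 0) P.nil))) (P.cons (P.cons (P.lf 147828 0 0) (P.cons (P.lf 1149 0 0) P.nil)) (P.cons (P.cons (P.lf 3051 0 0) P.nil) P.nil)))))) 4578)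
 (EL.cons 8 (TM.mk (P.cons (P.cons (P.lf 0 947795247 0) (P.cons (P.lf 99743391 0 0) (P.cons (P.lf 0 5457558 0) (P.lf 0 606396 0)))) (P.cons (P.cons (P.lf 168799257 0 0) (P.cons (P.lf 124986 0 0) (P.cons (P.lf 0 6840 0) (P.lf 0 759 0)))) (P.cons (P.cons (P.lf 5589813 0 0) (P.cons (P.lf 0 1238895 0) (P.cons (P.lf 67782 0 0) (P.lf 7530 0 0)))) (P.cons (P.cons (P.lf 0 1381074 0) (P.cons (P.lf 0 22146 0) (P.cons (P.lf 1209 0 0) P.nil))) (P.cons (P.cons (P.lf 0 34620 0) (P.cons (P.lf 5775 0 0) P.nil)) (P.cons (P.cons (P.lf 4350 0 0) P.nil) P.nil)))))) 2976)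
 (EL.cons 11 (TM.mk (P.cons (P.cons (P.lf 0 745717878 0) (P.cons (P.lf 93569673 0 0) (P.cons (P.lf 14285667 0 0) (P.cons (P.lf 0 436425 0) (P.lf 0 36366 0))))) (P.cons (P.cons (P.lf 0 61324602 0) (P.cons (P.lf 7694763 0 0) (P.cons (P.lf 1174791 0 0) (P.cons (P.lf 0 35886 0) (P.lf 0 2988 0))))) (P.cons (P.cons (P.lf 2949498 0 0) (P.cons (P.lf 0 370092 0) (P.cons (P.lf 0 56502 0) (P.cons (P.lf 1725 0 0) P.nil)))) (P.cons (P.cons (P.lf 382782 0 0) (P.cons (P.lf 0 48027 0) (P.cons (P.lf 0 7329 0) P.nil))) (P.cons (P.cons (P.lf 4863 0 0) (P.cons (P.lf 0 609 0) P.nil)) (P.cons (P.cons (P.lf 0 591 0) P.nil) P.nil)))))) 1287)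
 EL.nil)))
noncomputable def S140_154_586_660_24 : EL := (EL.cons 4 (TM.mk (P.cons (P.cons (P.lf 0 238064883 0) (P.cons (P.lf 0 5081748 0) (P.cons (P.lf 3449382 0 0) (P.cons (P.lf 0 316149 0) (P.cons (P.lf 0 29064 0) (P.cons (P.lf 2109 0 0) P.nil)))))) (P.cons (P.cons (P.lf 70865457 0 0) (P.cons (P.lf 0 6214401 0) (P.cons (P.lf 1250826 0 0) (P.cons (P.lf 0 61887 0) (P.cons (P.lf 0 8346 0) P.nil))))) (P.cons (P.cons (P.lf 0 1500330 0) (P.cons (P.lf 149883 0 0) (P.cons (P.lf 60849 0 0) (P.cons (P.lf 0 8466 0) P.nil)))) (P.cons (P.cons (P.lf 0 1151958 0) (P.cons (P.lf 180570 0 0) (P.cons (P.lf 0 14790 0) P.nil))) (P.cons (P.cons (P.lf 40200 0 0) (P.cons (P.lf 8820 0 0) P.nil)) (P.cons (P.cons (P.lf 10308 0 0) P.nil) P.nil)))))) 10314)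
 (EL.cons 8 (TM.mk (P.cons (P.cons (P.lf 174752430 0 0) (P.cons (P.lf 3730275 0 0) (P.cons (P.lf 0 2532030 0) (P.cons (P.lf 232071 0 0) (P.cons (P.lf 21336 0 0) (P.cons (P.lf 0 1548 0) P.nil)))))) (P.cons (P.cons (P.lf 0 69818427 0) (P.cons (P.lf 4181757 0 0) (P.cons (P.lf 0 660273 0) (P.cons (P.lf 21792 0 0) (P.cons (P.lf 3954 0 0) P.nil))))) (P.cons (P.cons (P.lf 7280763 0 0) (P.cons (P.lf 0 555846 0) (P.cons (P.lf 36087 0 0) (P.cons (P.lf 2757 0 0) P.nil)))) (P.cons (P.cons (P.lf 416493 0 0) (P.cons (P.lf 0 99510 0) (P.cons (P.lf 11568 0 0) P.nil))) (P.cons (P.cons (P.lf 0 90690 0) (P.cons (P.lf 5109 0 0) P.nil)) (P.cons (P.cons (P.lf 0 1755 0) P.nil) P.nil)))))) 6633)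
 (EL.cons 11 (TM.mk (P.cons (P.cons (P.lf 137493843 0 0) (P.cons (P.lf 152253 0 0) (P.cons (P.lf 0 5770098 0) (P.cons (P.lf 0 239265 0) (P.cons (P.lf 48411 0 0) (P.cons (P.lf 2316 0 0) P.nil)))))) (P.cons (P.cons (P.lf 0 19138485 0) (P.cons (P.lf 7036671 0 0) (P.cons (P.lf 0 468597 0) (P.cons (P.lf 0 96354 0) (P.cons (P.lf 10173 0 0) P.nil))))) (P.cons (P.cons (P.lf 0 1930395 0) (P.cons (P.lf 606615 0 0) (P.cons (P.lf 0 28677 0) (P.cons (P.lf 0 7821 0) P.nil)))) (P.cons (P.cons (P.lf 288450 0 0) (P.cons (P.lf 0 46191 0) (P.cons (P.lf 0 3723 0) P.nil))) (P.cons (P.cons (P.lf 23088 0 0) (P.cons (P.lf 0 6036 0) P.nil)) (P.cons (P.cons (P.lf 0 1059 0) P.nil) P.nil)))))) 6156)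
 EL.nil)))
noncomputable def S140_154_586_660_25 : EL := (EL.cons 4 (TM.mk (P.cons (P.cons (P.lf 0 896387775 0) (P.cons (P.lf 94333398 0 0) (P.cons (P.lf 0 5161539 0) (P.lf 0 573498 0)))) (P.cons (P.cons (P.lf 104638281 0 0) (P.cons (P.lf 5906829 0 0) (P.cons (P.lf 0 323193 0) (P.lf 0 35907 0)))) (P.cons (P.cons (P.lf 15543927 0 0) (P.cons (P.lf 0 1212966 0) (P.cons (P.lf 66372 0 0) (P.lf 7377 0 0)))) (P.cons (P.cons (P.lf 0 1011018 0) (P.cons (P.lf 0 98466 0) (P.cons (P.lf 5385 0 0) P.nil))) (P.cons (P.cons (P.lf 0 124116 0) (P.cons (P.lf 4683 0 0) P.nil)) (P.cons (P.cons (P.lf 2295 0 0) P.nil) P.nil)))))) 4224)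
 (EL.cons 8 (TM.mk (P.cons (P.cons (P.lf 657996846 0 0) (P.cons (P.lf 0 69245796 0) (P.cons (P.lf 3788850 0 0) (P.lf 420984 0 0)))) (P.cons (P.cons (P.lf 0 143830248 0) (P.cons (P.lf 2717079 0 0) (P.cons (P.lf 0 148665 0) (P.lf 0 16515 0)))) (P.cons (P.cons (P.lf 0 269172 0) (P.cons (P.lf 982896 0 0) (P.cons (P.lf 0 53775 0) (P.lf 0 5973 0)))) (P.cons (P.cons (P.lf 1311216 0 0) (P.cons (P.lf 0 18606 0) (P.cons (P.lf 1017 0 0) P.nil))) (P.cons (P.cons (P.lf 0 6219 0) (P.cons (P.lf 0 6186 0) P.nil)) (P.cons (P.cons (P.lf 0 5709 0) P.nil) P.nil)))))) 2769)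
 (EL.cons 11 (TM.mk (P.cons (P.cons (P.lf 517706769 0 0) (P.cons (P.lf 0 64959759 0) (P.cons (P.lf 0 9917673 0) (P.cons (P.lf 302982 0 0) (P.lf 25248 0 0))))) (P.cons (P.cons (P.lf 21611340 0 0) (P.cons (P.lf 0 2711703 0) (P.cons (P.lf 0 414006 0) (P.cons (P.lf 12645 0 0) (P.lf 1053 0 0))))) (P.cons (P.cons (P.lf 0 4663410 0) (P.cons (P.lf 585147 0 0) (P.cons (P.lf 89337 0 0) (P.cons (P.lf 0 2727 0) P.nil)))) (P.cons (P.cons (P.lf 0 261363 0) (P.cons (P.lf 32793 0 0) (P.cons (P.lf 5004 0 0) P.nil))) (P.cons (P.cons (P.lf 11040 0 0) (P.cons (P.lf 0 1386 0) P.nil)) (P.cons (P.cons (P.lf 1086 0 0) P.nil) P.nil)))))) 1521)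
 EL.nil)))
noncomputable def S140_154_586_660_26 : EL := (EL.cons 4 (TM.mk (P.cons (P.cons (P.lf 165274032 0 0) (P.cons (P.lf 3527949 0 0) (P.cons (P.lf 0 2394696 0) (P.cons (P.lf 219483 0 0) (P.cons (P.lf 20178 0 0) (P.cons (P.lf 0 1464 0) P.nil)))))) (P.cons (P.cons (P.lf 0 55889754 0) (P.cons (P.lf 4171428 0 0) (P.cons (P.lf 0 771408 0) (P.cons (P.lf 34077 0 0) (P.cons (P.lf 4977 0 0) P.nil))))) (P.cons (P.cons (P.lf 2748936 0 0) (P.cons (P.lf 0 284823 0) (P.cons (P.lf 0 2958 0) (P.cons (P.lf 3759 0 0) P.nil)))) (P.cons (P.cons (P.lf 840657 0 0) (P.cons (P.lf 0 128613 0) (P.cons (P.lf 13497 0 0) P.nil))) (P.cons (P.cons (P.lf 0 61413 0) (P.cons (P.lf 0 906 0) P.nil)) (P.cons (P.cons (P.lf 0 7464 0) P.nil) P.nil)))))) 8748)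
 (EL.cons 8 (TM.mk (P.cons (P.cons (P.lf 0 121320030 0) (P.cons (P.lf 0 2589702 0) (P.cons (P.lf 1757835 0 0) (P.cons (P.lf 0 161112 0) (P.cons (P.lf 0 14811 0) (P.cons (P.lf 1074 0 0) P.nil)))))) (P.cons (P.cons (P.lf 53383110 0 0) (P.cons (P.lf 0 2798280 0) (P.cons (P.lf 387210 0 0) (P.cons (P.lf 0 8604 0) (P.cons (P.lf 0 2145 0) P.nil))))) (P.cons (P.cons (P.lf 0 6808230 0) (P.cons (P.lf 507903 0 0) (P.cons (P.lf 0 46641 0) (P.cons (P.lf 0 1023 0) P.nil)))) (P.cons (P.cons (P.lf 0 166764 0) (P.cons (P.lf 58485 0 0) (P.cons (P.lf 0 7824 0) P.nil))) (P.cons (P.cons (P.lf 82758 0 0) (P.cons (P.lf 0 6984 0) P.nil)) (P.cons (P.cons (P.lf 0 732 0) P.nil) P.nil)))))) 5538)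
 (EL.cons 11 (TM.mk (P.cons (P.cons (P.lf 0 95453649 0) (P.cons (P.lf 0 105699 0) (P.cons (P.lf 4005828 0 0) (P.cons (P.lf 166107 0 0) (P.cons (P.lf 0 33606 0) (P.cons (P.lf 0 1608 0) P.nil)))))) (P.cons (P.cons (P.lf 17151732 0 0) (P.cons (P.lf 0 4880856 0) (P.cons (P.lf 163119 0 0) (P.cons (P.lf 60165 0 0) (P.cons (P.lf 0 5700 0) P.nil))))) (P.cons (P.cons (P.lf 966603 0 0) (P.cons (P.lf 0 223149 0) (P.cons (P.lf 0 162 0) (P.cons (P.lf 2436 0 0) P.nil)))) (P.cons (P.cons (P.lf 0 276450 0) (P.cons (P.lf 57537 0 0) (P.cons (P.lf 1179 0 0) P.nil))) (P.cons (P.cons (P.lf 0 10464 0) (P.cons (P.lf 3666 0 0) P.nil)) (P.cons (P.cons (P.lf 1728 0 0) P.nil) P.nil)))))) 5253)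
 EL.nil)))
noncomputable def S140_154_586_660_27 : EL := (EL.cons 13 (TM.mk (P.lf 0 4294967296 0) 0)
 EL.nil)
noncomputable def S140_154_586_660_28 : EL := (EL.cons 13 (TM.mk (P.cons (P.cons (P.lf 791896750 0 0) (P.cons (P.lf 100240932 0 0) (P.cons (P.lf 0 5484780 0) (P.lf 0 609416 0)))) (P.cons (P.cons (P.lf 0 175350406 0) (P.cons (P.lf 18453396 0 0) (P.cons (P.lf 0 1009692 0) (P.lf 0 112188 0)))) (P.cons (P.cons (P.lf 6434066 0 0) (P.cons (P.lf 977700 0 0) (P.cons (P.lf 0 53492 0) (P.lf 0 5940 0)))) (P.cons (P.cons (P.lf 845167 0 0) (P.cons (P.lf 0 13548 0) (P.cons (P.lf 740 0 0) P.nil))) (P.cons (P.cons (P.lf 4086 0 0) (P.cons (P.lf 0 2980 0) P.nil)) (P.cons (P.cons (P.lf 0 1579 0) P.nil) P.nil)))))) 1046)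
 EL.nil)
noncomputable def S140_154_586_660_29 : EL := (EL.cons 13 (TM.mk (P.cons (P.cons (P.lf 0 146008204 0) (P.cons (P.lf 0 36964411 0) (P.cons (P.lf 0 316995 0) (P.cons (P.lf 480745 0 0) (P.cons (P.lf 21442 0 0) (P.cons (P.lf 0 1556 0) P.nil)))))) (P.cons (P.cons (P.lf 64661454 0 0) (P.cons (P.lf 1380268 0 0) (P.cons (P.lf 0 936897 0) (P.cons (P.lf 85870 0 0) (P.cons (P.lf 7894 0 0) P.nil))))) (P.cons (P.cons (P.lf 0 9531620 0) (P.cons (P.lf 845927 0 0) (P.cons (P.lf 0 171209 0) (P.cons (P.lf 8526 0 0) P.nil)))) (P.cons (P.cons (P.lf 213706 0 0) (P.cons (P.lf 0 9910 0) (P.cons (P.lf 0 7225 0) P.nil))) (P.cons (P.cons (P.lf 57865 0 0) (P.cons (P.lf 0 10389 0) P.nil)) (P.cons (P.cons (P.lf 0 1616 0) P.nil) P.nil)))))) 7831)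
 EL.nil)
noncomputable def S140_154_586_660_30 : EL := (EL.cons 13 (TM.mk (P.cons (P.lf 2981735720 0 0) (P.cons (P.lf 0 120734344 0) (P.cons (P.lf 0 5136784 0) (P.cons (P.lf 0 29896 0) (P.cons (P.lf 3204 0 0) (P.cons (P.lf 96 0 0) P.nil)))))) 64)
 EL.nil)
noncomputable def S140_154_586_660_31 : EL := (EL.cons 13 (TM.mk (P.cons (P.cons (P.lf 0 549765961 0) (P.cons (P.lf 0 69591209 0) (P.cons (P.lf 3807750 0 0) (P.lf 423080 0 0)))) (P.cons (P.cons (P.lf 143995905 0 0) (P.cons (P.lf 0 9993237 0) (P.cons (P.lf 546787 0 0) (P.lf 60754 0 0)))) (P.cons (P.cons (P.lf 0 8448888 0) (P.cons (P.lf 0 40132 0) (P.cons (P.lf 2193 0 0) (P.lf 241 0 0)))) (P.cons (P.cons (P.lf 0 610089 0) (P.cons (P.lf 59657 0 0) (P.cons (P.lf 0 3263 0) P.nil))) (P.cons (P.cons (P.lf 26805 0 0) (P.cons (P.lf 2910 0 0) P.nil)) (P.cons (P.cons (P.lf 2379 0 0) P.nil) P.nil)))))) 1398)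
 EL.nil)
noncomputable def S140_154_586_660_32 : EL := (EL.cons 13 (TM.mk (P.cons (P.cons (P.lf 101364654 0 0) (P.cons (P.lf 25662152 0 0) (P.cons (P.lf 220070 0 0) (P.cons (P.lf 0 333752 0) (P.cons (P.lf 0 14885 0) (P.cons (P.lf 1080 0 0) P.nil)))))) (P.cons (P.cons (P.lf 0 48994918 0) (P.cons (P.lf 0 1997330 0) (P.cons (P.lf 641519 0 0) (P.cons (P.lf 0 46100 0) (P.cons (P.lf 0 4877 0) P.nil))))) (P.cons (P.cons (P.lf 8260276 0 0) (P.cons (P.lf 0 592685 0) (P.cons (P.lf 92144 0 0) (P.cons (P.lf 0 2930 0) P.nil)))) (P.cons (P.cons (P.lf 0 339984 0) (P.cons (P.lf 32052 0 0) (P.cons (P.lf 0 919 0) P.nil))) (P.cons (P.cons (P.lf 0 45005 0) (P.cons (P.lf 7982 0 0) P.nil)) (P.cons (P.cons (P.lf 2892 0 0) P.nil) P.nil)))))) 7229)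
 EL.nil)
noncomputable def S140_154_586_660_33 : EL := (EL.cons 14 (TM.mk (P.lf 8589934592 0 0) 0)
 EL.nil)
noncomputable def S140_154_586_660_34 : EL := (EL.cons 14 (TM.mk (P.cons (P.cons (P.lf 0 1583793500 0) (P.cons (P.lf 0 200481864 0) (P.cons (P.lf 10969560 0 0) (P.lf 1218832 0 0)))) (P.cons (P.cons (P.lf 350700812 0 0) (P.cons (P.lf 0 36906792 0) (P.cons (P.lf 2019384 0 0) (P.lf 224376 0 0)))) (P.cons (P.cons (P.lf 0 12868132 0) (P.cons (P.lf 0 1955400 0) (P.cons (P.lf 106984 0 0) (P.lf 11880 0 0)))) (P.cons (P.cons (P.lf 0 1690334 0) (P.cons (P.lf 27096 0 0) (P.cons (P.lf 0 1480 0) P.nil))) (P.cons (P.cons (P.lf 0 8172 0) (P.cons (P.lf 5960 0 0) P.nil)) (P.cons (P.cons (P.lf 3158 0 0) P.nil) P.nil)))))) 2092)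
 EL.nil)
noncomputable def S140_154_586_660_35 : EL := (EL.cons 14 (TM.mk (P.cons (P.cons (P.lf 292016408 0 0) (P.cons (P.lf 73928822 0 0) (P.cons (P.lf 633990 0 0) (P.cons (P.lf 0 961490 0) (P.cons (P.lf 0 42884 0) (P.cons (P.lf 3112 0 0) P.nil)))))) (P.cons (P.cons (P.lf 0 129322908 0) (P.cons (P.lf 0 2760536 0) (P.cons (P.lf 1873794 0 0) (P.cons (P.lf 0 171740 0) (P.cons (P.lf 0 15788 0) P.nil))))) (P.cons (P.cons (P.lf 19063240 0 0) (P.cons (P.lf 0 1691854 0) (P.cons (P.lf 342418 0 0) (P.cons (P.lf 0 17052 0) P.nil)))) (P.cons (P.cons (P.lf 0 427412 0) (P.cons (P.lf 19820 0 0) (P.cons (P.lf 14450 0 0) P.nil))) (P.cons (P.cons (P.lf 0 115730 0) (P.cons (P.lf 20778 0 0) P.nil)) (P.cons (P.cons (P.lf 3232 0 0) P.nil) P.nil)))))) 15662)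
 EL.nil)
noncomputable def S140_154_586_660_36 : EL := (EL.cons 14 (TM.mk (P.cons (P.lf 0 5963471440 0) (P.cons (P.lf 241468688 0 0) (P.cons (P.lf 10273568 0 0) (P.cons (P.lf 59792 0 0) (P.cons (P.lf 0 6408 0) (P.cons (P.lf 0 192 0) P.nil)))))) 128)
 EL.nil)
noncomputable def S140_154_586_660_37 : EL := (EL.cons 14 (TM.mk (P.cons (P.cons (P.lf 1099531922 0 0) (P.cons (P.lf 139182418 0 0) (P.cons (P.lf 0 7615500 0) (P.lf 0 846160 0)))) (P.cons (P.cons (P.lf 0 287991810 0) (P.cons (P.lf 19986474 0 0) (P.cons (P.lf 0 1093574 0) (P.lf 0 121508 0)))) (P.cons (P.cons (P.lf 16897776 0 0) (P.cons (P.lf 80264 0 0) (P.cons (P.lf 0 4386 0) (P.lf 0 482 0)))) (P.cons (P.cons (P.lf 1220178 0 0) (P.cons (P.lf 0 119314 0) (P.cons (P.lf 6526 0 0) P.nil))) (P.cons (P.cons (P.lf 0 53610 0) (P.cons (P.lf 0 5820 0) P.nil)) (P.cons (P.cons (P.lf 0 4758 0) P.nil) P.nil)))))) 2796)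
 EL.nil)
noncomputable def S140_154_586_660_38 : EL := (EL.cons 14 (TM.mk (P.cons (P.cons (P.lf 0 202729308 0) (P.cons (P.lf 0 51324304 0) (P.cons (P.lf 0 440140 0) (P.cons (P.lf 667504 0 0) (P.cons (P.lf 29770 0 0) (P.cons (P.lf 0 2160 0) P.nil)))))) (P.cons (P.cons (P.lf 97989836 0 0) (P.cons (P.lf 3994660 0 0) (P.cons (P.lf 0 1283038 0) (P.cons (P.lf 92200 0 0) (P.cons (P.lf 9754 0 0) P.nil))))) (P.cons (P.cons (P.lf 0 16520552 0) (P.cons (P.lf 1185370 0 0) (P.cons (P.lf 0 184288 0) (P.cons (P.lf 5860 0 0) P.nil)))) (P.cons (P.cons (P.lf 679968 0 0) (P.cons (P.lf 0 64104 0) (P.cons (P.lf 1838 0 0) P.nil))) (P.cons (P.cons (P.lf 90010 0 0) (P.cons (P.lf 0 15964 0) P.nil)) (P.cons (P.cons (P.lf 0 5784 0) P.nil) P.nil)))))) 14458)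
 EL.nil)
noncomputable def S140_154_586_660_39 : EL := (EL.cons 14 (TM.mk (P.cons (P.lf 4140077114 0 0) (P.cons (P.lf 0 335274176 0) (P.cons (P.lf 0 7476788 0) (P.cons (P.lf 494572 0 0) (P.cons (P.lf 24546 0 0) (P.cons (P.lf 48 0 0) P.nil)))))) 226)
 EL.nil)
noncomputable def S140_154_586_660_40 : EL := (EL.cons 14 (TM.mk (P.cons (P.cons (P.lf 0 763338434 0) (P.cons (P.lf 0 96625924 0) (P.cons (P.lf 5286980 0 0) (P.lf 587438 0 0)))) (P.cons (P.cons (P.lf 230843836 0 0) (P.cons (P.lf 0 9962888 0) (P.cons (P.lf 545124 0 0) (P.lf 60568 0 0)))) (P.cons (P.cons (P.lf 0 18511700 0) (P.cons (P.lf 672570 0 0) (P.cons (P.lf 0 36802 0) (P.lf 0 4092 0)))) (P.cons (P.cons (P.lf 0 708872 0) (P.cons (P.lf 109960 0 0) (P.cons (P.lf 0 6014 0) P.nil))) (P.cons (P.cons (P.lf 88902 0 0) (P.cons (P.lf 818 0 0) P.nil)) (P.cons (P.cons (P.lf 3564 0 0) P.nil) P.nil)))))) 3020)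
 EL.nil)
noncomputable def S140_154_586_660_41 : EL := (EL.cons 14 (TM.mk (P.cons (P.cons (P.lf 140742682 0 0) (P.cons (P.lf 35631356 0 0) (P.cons (P.lf 305562 0 0) (P.cons (P.lf 0 463406 0) (P.cons (P.lf 0 20668 0) (P.cons (P.lf 1498 0 0) P.nil)))))) (P.cons (P.cons (P.lf 0 73727262 0) (P.cons (P.lf 0 4216010 0) (P.cons (P.lf 878364 0 0) (P.cons (P.lf 0 45244 0) (P.cons (P.lf 0 5934 0) P.nil))))) (P.cons (P.cons (P.lf 13981312 0 0) (P.cons (P.lf 0 772022 0) (P.cons (P.lf 91346 0 0) (P.cons (P.lf 0 678 0) P.nil)))) (P.cons (P.cons (P.lf 0 820680 0) (P.cons (P.lf 82246 0 0) (P.cons (P.lf 0 7994 0) P.nil))) (P.cons (P.cons (P.lf 0 62300 0) (P.cons (P.lf 10764 0 0) P.nil)) (P.cons (P.cons (P.lf 7176 0 0) P.nil) P.nil)))))) 12214)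
 EL.nil)
noncomputable def S140_154_586_660_42 : EL := (EL.cons 14 (TM.mk (P.cons (P.lf 0 2874204844 0) (P.cons (P.lf 349140838 0 0) (P.cons (P.lf 717438 0 0) (P.cons (P.lf 0 925698 0) (P.cons (P.lf 0 17502 0) (P.cons (P.lf 1352 0 0) P.nil)))))) 292)
 EL.nil)
noncomputable def S140_154_586_660_43 : EL := (EL.cons 14 (TM.mk (P.cons (P.cons (P.lf 529939652 0 0) (P.cons (P.lf 67081528 0 0) (P.cons (P.lf 0 3670430 0) (P.lf 0 407822 0)))) (P.cons (P.cons (P.lf 0 181718840 0) (P.cons (P.lf 4200412 0 0) (P.cons (P.lf 0 229826 0) (P.lf 0 25536 0)))) (P.cons (P.cons (P.lf 18427770 0 0) (P.cons (P.lf 0 862552 0) (P.cons (P.lf 47196 0 0) (P.lf 5246 0 0)))) (P.cons (P.cons (P.lf 242526 0 0) (P.cons (P.lf 0 70020 0) (P.cons (P.lf 3830 0 0) P.nil))) (P.cons (P.cons (P.lf 0 101610 0) (P.cons (P.lf 3328 0 0) P.nil)) (P.cons (P.cons (P.lf 0 1106 0) P.nil) P.nil)))))) 2864)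
 EL.nil)
noncomputable def S140_154_586_660_44 : EL := (EL.cons 14 (TM.mk (P.cons (P.cons (P.lf 0 97709122 0) (P.cons (P.lf 0 24736692 0) (P.cons (P.lf 0 212132 0) (P.cons (P.lf 321714 0 0) (P.cons (P.lf 14348 0 0) (P.cons (P.lf 0 1040 0) P.nil)))))) (P.cons (P.cons (P.lf 55140742 0 0) (P.cons (P.lf 3928540 0 0) (P.cons (P.lf 0 601204 0) (P.cons (P.lf 18384 0 0) (P.cons (P.lf 3538 0 0) P.nil))))) (P.cons (P.cons (P.lf 0 11610572 0) (P.cons (P.lf 460068 0 0) (P.cons (P.lf 0 38358 0) (P.cons (P.lf 0 1354 0) P.nil)))) (P.cons (P.cons (P.lf 875574 0 0) (P.cons (P.lf 0 83594 0) (P.cons (P.lf 9170 0 0) P.nil))) (P.cons (P.cons (P.lf 36284 0 0) (P.cons (P.lf 0 6140 0) P.nil)) (P.cons (P.cons (P.lf 0 7564 0) P.nil) P.nil)))))) 9740)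
 EL.nil)
noncomputable def S140_154_586_660_45 : EL := (EL.cons 14 (TM.mk (P.cons (P.cons (P.lf 0 53841350 0) (P.cons (P.lf 0 20446252 0) (P.cons (P.lf 0 1469418 0) (P.cons (P.lf 298324 0 0) (P.cons (P.lf 41646 0 0) (P.cons (P.lf 0 710 0) P.nil)))))) (P.cons (P.cons (P.lf 35766414 0 0) (P.cons (P.lf 5290904 0 0) (P.cons (P.lf 0 669308 0) (P.cons (P.lf 0 50912 0) (P.cons (P.lf 13380 0 0) P.nil))))) (P.cons (P.cons (P.lf 0 9232152 0) (P.cons (P.lf 132730 0 0) (P.cons (P.lf 44514 0 0) (P.cons (P.lf 0 20772 0) P.nil)))) (P.cons (P.cons (P.lf 993366 0 0) (P.cons (P.lf 0 124710 0) (P.cons (P.lf 18326 0 0) P.nil))) (P.cons (P.cons (P.lf 500 0 0) (P.cons (P.lf 0 20 0) P.nil)) (P.cons (P.cons (P.lf 0 8200 0) P.nil) P.nil)))))) 20780)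
 EL.nil)
noncomputable def S140_154_586_660_46 : EL := (EL.cons 15 (TM.mk (P.lf 4294967296 0 0) 0)
 EL.nil)
noncomputable def S140_154_586_660_47 : EL := (EL.cons 15 (TM.mk (P.cons (P.cons (P.lf 0 791896750 0) (P.cons (P.lf 0 100240932 0) (P.cons (P.lf 5484780 0 0) (P.lf 609416 0 0)))) (P.cons (P.cons (P.lf 175350406 0 0) (P.cons (P.lf 0 18453396 0) (P.cons (P.lf 1009692 0 0) (P.lf 112188 0 0)))) (P.cons (P.cons (P.lf 0 6434066 0) (P.cons (P.lf 0 977700 0) (P.cons (P.lf 53492 0 0) (P.lf 5940 0 0)))) (P.cons (P.cons (P.lf 0 845167 0) (P.cons (P.lf 13548 0 0) (P.cons (P.lf 0 740 0) P.nil))) (P.cons (P.cons (P.lf 0 4086 0) (P.cons (P.lf 2980 0 0) P.nil)) (P.cons (P.cons (P.lf 1579 0 0) P.nil) P.nil)))))) 1046)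
 EL.nil)
noncomputable def S140_154_586_660_48 : EL := (EL.cons 15 (TM.mk (P.cons (P.cons (P.lf 146008204 0 0) (P.cons (P.lf 36964411 0 0) (P.cons (P.lf 316995 0 0) (P.cons (P.lf 0 480745 0) (P.cons (P.lf 0 21442 0) (P.cons (P.lf 1556 0 0) P.nil)))))) (P.cons (P.cons (P.lf 0 64661454 0) (P.cons (P.lf 0 1380268 0) (P.cons (P.lf 936897 0 0) (P.cons (P.lf 0 85870 0) (P.cons (P.lf 0 7894 0) P.nil))))) (P.cons (P.cons (P.lf 9531620 0 0) (P.cons (P.lf 0 845927 0) (P.cons (P.lf 171209 0 0) (P.cons (P.lf 0 8526 0) P.nil)))) (P.cons (P.cons (P.lf 0 213706 0) (P.cons (P.lf 9910 0 0) (P.cons (P.lf 7225 0 0) P.nil))) (P.cons (P.cons (P.lf 0 57865 0) (P.cons (P.lf 10389 0 0) P.nil)) (P.cons (P.cons (P.lf 1616 0 0) P.nil) P.nil)))))) 7831)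
 EL.nil)
noncomputable def S140_154_586_660 : SL := (SL.cons S140_154_586_660_0 (SL.cons S140_154_586_660_1 (SL.cons S140_154_586_660_2 (SL.cons S140_154_586_660_3 (SL.cons S140_154_586_660_4 (SL.cons S140_154_586_660_5 (SL.cons S140_154_586_660_6 (SL.cons S140_154_586_660_7 (SL.cons S140_154_586_660_8 (SL.cons S140_154_586_660_9 (SL.cons S140_154_586_660_10 (SL.cons S140_154_586_660_11 (SL.cons S140_154_586_660_12 (SL.cons S140_154_586_660_13 (SL.cons S140_154_586_660_14 (SL.cons S140_154_586_660_15 (SL.cons S140_154_586_660_16 (SL.cons S140_154_586_660_17 (SL.cons S140_154_586_660_18 (SL.cons S140_154_586_660_19 (SL.cons S140_154_586_660_20 (SL.cons S140_154_586_660_21 (SL.cons S140_154_586_660_22 (SL.cons S140_154_586_660_23 (SL.cons S140_154_586_660_24 (SL.cons S140_154_586_660_25 (SL.cons S140_154_586_660_26 (SL.cons S140_154_586_660_27 (SL.cons S140_154_586_660_28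 (SL.cons S140_154_586_660_29 (SL.cons S140_154_586_660_30 (SL.cons S140_154_586_660_31 (SL.cons S140_154_586_660_32 (SL.cons S140_154_586_660_33 (SL.cons S140_154_586_660_34 (SL.cons S140_154_586_660_35 (SL.cons S140_154_586_660_36 (SL.cons S140_154_586_660_37 (SL.cons S140_154_586_660_38 (SL.cons S140_154_586_660_39 (SL.cons S140_154_586_660_40 (SL.cons S140_154_586_660_41 (SL.cons S140_154_586_660_42 (SL.cons S140_154_586_660_43 (SL.cons S140_154_586_660_44 (SL.cons S140_154_586_660_45 (SL.cons S140_154_586_660_46 (SL.cons S140_154_586_660_47 (SL.cons S140_154_586_660_48 SL.nil)))))))))))))))))))))))))))))))))))))))))))))))))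
noncomputable def S140_154_660_808_0 : EL := (EL.cons 0 (TM.mk (P.cons (P.lf 4816977213 0 0) (P.cons (P.lf 294674568 0 0) (P.cons (P.lf 6571395 0 0) (P.cons (P.lf 0 434682 0) (P.cons (P.lf 0 21573 0) (P.cons (P.lf 0 42 0) P.nil)))))) 205)
 (EL.cons 1 (TM.mk (P.cons (P.lf 0 1762505823 0) (P.cons (P.lf 0 36787346 0) (P.cons (P.lf 8322086 0 0) (P.cons (P.lf 271203 0 0) (P.cons (P.lf 0 4801 0) (P.cons (P.lf 0 468 0) P.nil)))))) 132)
 (EL.cons 5 (TM.mk (P.cons (P.lf 5588741396 0 0) (P.cons (P.lf 0 104773178 0) (P.cons (P.lf 0 2336498 0) (P.cons (P.lf 154550 0 0) (P.cons (P.lf 7670 0 0) (P.cons (P.lf 18 0 0) P.nil)))))) 87)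
 (EL.cons 9 (TM.mk (P.lf 6442450944 0 0) 2)
 EL.nil))))
noncomputable def S140_154_660_808_1 : EL := (EL.cons 0 (TM.mk (P.cons (P.cons (P.lf 0 2975518519 0) (P.cons (P.lf 144502436 0 0) (P.cons (P.lf 0 62311072 0) (P.lf 0 6923445 0)))) (P.cons (P.cons (P.lf 323853340 0 0) (P.cons (P.lf 0 1324058 0) (P.cons (P.lf 570955 0 0) (P.lf 63447 0 0)))) (P.cons (P.cons (P.lf 38835404 0 0) (P.cons (P.lf 0 4354181 0) (P.cons (P.lf 1877574 0 0) (P.lf 208622 0 0)))) (P.cons (P.cons (P.lf 0 2487555 0) (P.cons (P.lf 0 365342 0) (P.cons (P.lf 157531 0 0) P.nil))) (P.cons (P.cons (P.lf 0 356361 0) (P.cons (P.lf 3041 0 0) P.nil)) (P.cons (P.cons (P.lf 0 2087 0) P.nil) P.nil)))))) 56998)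
 (EL.cons 1 (TM.mk (P.cons (P.cons (P.lf 649063161 0 0) (P.cons (P.lf 9470073 0 0) (P.cons (P.lf 0 4083598 0) (P.lf 0 453732 0)))) (P.cons (P.cons (P.lf 0 189321762 0) (P.cons (P.lf 21277639 0 0) (P.cons (P.lf 0 9175155 0) (P.lf 0 1019454 0)))) (P.cons (P.cons (P.lf 11617622 0 0) (P.cons (P.lf 2105407 0 0) (P.cons (P.lf 0 907869 0) (P.lf 0 100864 0)))) (P.cons (P.cons (P.lf 2813592 0 0) (P.cons (P.lf 0 78578 0) (P.cons (P.lf 33882 0 0) P.nil))) (P.cons (P.cons (P.lf 0 18060 0) (P.cons (P.lf 0 16373 0) P.nil)) (P.cons (P.cons (P.lf 0 12786 0) P.nil) P.nil)))))) 28190)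
 (EL.cons 5 (TM.mk (P.cons (P.cons (P.lf 0 687601577 0) (P.cons (P.lf 0 224363516 0) (P.cons (P.lf 96748074 0 0) (P.lf 10749786 0 0)))) (P.cons (P.cons (P.lf 109433305 0 0) (P.cons (P.lf 0 31374084 0) (P.cons (P.lf 13528854 0 0) (P.lf 1503202 0 0)))) (P.cons (P.cons (P.lf 0 28641021 0) (P.cons (P.lf 0 139066 0) (P.cons (P.lf 59964 0 0) (P.lf 6666 0 0)))) (P.cons (P.cons (P.lf 0 498344 0) (P.cons (P.lf 153278 0 0) (P.cons (P.lf 0 66088 0) P.nil))) (P.cons (P.cons (P.lf 131639 0 0) (P.cons (P.lf 4066 0 0) P.nil)) (P.cons (P.cons (P.lf 3732 0 0) P.nil) P.nil)))))) 24522)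
 (EL.cons 9 (TM.mk (P.cons (P.cons (P.lf 0 1540203267 0) (P.cons (P.lf 0 152633706 0) (P.cons (P.lf 65817372 0 0) (P.lf 7313040 0 0)))) (P.cons (P.cons (P.lf 198159843 0 0) (P.cons (P.lf 0 28098402 0) (P.cons (P.lf 12116346 0 0) (P.lf 1346256 0 0)))) (P.cons (P.cons (P.lf 0 13087833 0) (P.cons (P.lf 0 1488714 0) (P.cons (P.lf 641946 0 0) (P.lf 71322 0 0)))) (P.cons (P.cons (P.lf 0 1220122 0) (P.cons (P.lf 20628 0 0) (P.cons (P.lf 0 8892 0) P.nil))) (P.cons (P.cons (P.lf 4351 0 0) (P.cons (P.lf 4536 0 0) P.nil)) (P.cons (P.cons (P.lf 2632 0 0) P.nil) P.nil)))))) 6640)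
 (EL.cons 2 (TM.mk (P.cons (P.cons (P.lf 329219246 0 0) (P.cons (P.lf 0 306698186 0) (P.cons (P.lf 0 31477210 0) (P.cons (P.lf 6546380 0 0) (P.lf 545529 0 0))))) (P.cons (P.cons (P.lf 27073560 0 0) (P.cons (P.lf 0 25221526 0) (P.cons (P.lf 0 2588546 0) (P.cons (P.lf 538343 0 0) (P.lf 44859 0 0))))) (P.cons (P.cons (P.lf 0 1302142 0) (P.cons (P.lf 1213065 0 0) (P.cons (P.lf 124500 0 0) (P.cons (P.lf 0 25891 0) P.nil)))) (P.cons (P.cons (P.lf 0 168989 0) (P.cons (P.lf 157426 0 0) (P.cons (P.lf 16155 0 0) P.nil))) (P.cons (P.cons (P.lf 0 2145 0) (P.cons (P.lf 1999 0 0) P.nil)) (P.cons (P.cons (P.lf 258 0 0) P.nil) P.nil)))))) 10236)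
 (EL.cons 6 (TM.mk (P.cons (P.cons (P.lf 159464784 0 0) (P.cons (P.lf 0 148556199 0) (P.cons (P.lf 0 15246696 0) (P.cons (P.lf 3170886 0 0) (P.lf 264237 0 0))))) (P.cons (P.cons (P.lf 29355942 0 0) (P.cons (P.lf 0 27347775 0) (P.cons (P.lf 0 2806770 0) (P.cons (P.lf 583728 0 0) (P.lf 48642 0 0))))) (P.cons (P.cons (P.lf 1555341 0 0) (P.cons (P.lf 0 1448946 0) (P.cons (P.lf 0 148707 0) (P.cons (P.lf 30927 0 0) P.nil)))) (P.cons (P.cons (P.lf 0 21552 0) (P.cons (P.lf 20076 0 0) (P.cons (P.lf 2058 0 0) P.nil))) (P.cons (P.cons (P.lf 0 4740 0) (P.cons (P.lf 4416 0 0) P.nil)) (P.cons (P.cons (P.lf 0 117 0) P.nil) P.nil)))))) 5331)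
 EL.nil))))))
noncomputable def S140_154_660_808_2 : EL := (EL.cons 0 (TM.mk (P.cons (P.cons (P.lf 1147406356 0 0) (P.cons (P.lf 17331419 0 0) (P.cons (P.lf 0 17024363 0) (P.cons (P.lf 7406477 0 0) (P.cons (P.lf 0 860705 0) (P.cons (P.lf 0 394639 0) P.nil)))))) (P.cons (P.cons (P.lf 0 283891847 0) (P.cons (P.lf 13769293 0 0) (P.cons (P.lf 0 8296099 0) (P.cons (P.lf 1374402 0 0) (P.cons (P.lf 0 212553 0) P.nil))))) (P.cons (P.cons (P.lf 8165094 0 0) (P.cons (P.lf 0 1839557 0) (P.cons (P.lf 735361 0 0) (P.cons (P.lf 138049 0 0) P.nil)))) (P.cons (P.cons (P.lf 3111930 0 0) (P.cons (P.lf 0 565924 0) (P.cons (P.lf 281941 0 0) P.nil))) (P.cons (P.cons (P.lf 0 236919 0) (P.cons (P.lf 0 970 0) P.nil)) (P.cons (P.cons (P.lf 0 27428 0) P.nil) P.nil)))))) 762450)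
 (EL.cons 1 (TM.mk (P.cons (P.cons (P.lf 0 209608441 0) (P.cons (P.lf 0 15317272 0) (P.cons (P.lf 7145552 0 0) (P.cons (P.lf 267680 0 0) (P.cons (P.lf 48717 0 0) (P.cons (P.lf 22339 0 0) P.nil)))))) (P.cons (P.cons (P.lf 106632613 0 0) (P.cons (P.lf 0 4758625 0) (P.cons (P.lf 1346041 0 0) (P.cons (P.lf 836805 0 0) (P.cons (P.lf 0 63613 0) P.nil))))) (P.cons (P.cons (P.lf 0 17475693 0) (P.cons (P.lf 885087 0 0) (P.cons (P.lf 0 615638 0) (P.cons (P.lf 159379 0 0) P.nil)))) (P.cons (P.cons (P.lf 9512 0 0) (P.cons (P.lf 0 57219 0) (P.cons (P.lf 2775 0 0) P.nil))) (P.cons (P.cons (P.lf 180309 0 0) (P.cons (P.lf 0 37888 0) P.nil)) (P.cons (P.cons (P.lf 0 10024 0) P.nil) P.nil)))))) 339500)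
 (EL.cons 5 (TM.mk (P.cons (P.cons (P.lf 9346988 0 0) (P.cons (P.lf 76549049 0 0) (P.cons (P.lf 0 25514609 0) (P.cons (P.lf 0 10130797 0) (P.cons (P.lf 675366 0 0) (P.cons (P.lf 309660 0 0) P.nil)))))) (P.cons (P.cons (P.lf 0 6442369 0) (P.cons (P.lf 0 310872 0) (P.cons (P.lf 2481605 0 0) (P.cons (P.lf 0 2009676 0) (P.cons (P.lf 211549 0 0) P.nil))))) (P.cons (P.cons (P.lf 11096863 0 0) (P.cons (P.lf 204626 0 0) (P.cons (P.lf 151178 0 0) (P.cons (P.lf 0 216274 0) P.nil)))) (P.cons (P.cons (P.lf 0 1357758 0) (P.cons (P.lf 281149 0 0) (P.cons (P.lf 0 121094 0) P.nil))) (P.cons (P.cons (P.lf 26938 0 0) (P.cons (P.lf 18005 0 0) P.nil)) (P.cons (P.cons (P.lf 14234 0 0) P.nil) P.nil)))))) 385224)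
 (EL.cons 9 (TM.mk (P.cons (P.cons (P.lf 368217952 0 0) (P.cons (P.lf 72980589 0 0) (P.cons (P.lf 0 27853873 0) (P.cons (P.lf 0 6615343 0) (P.cons (P.lf 325884 0 0) (P.cons (P.lf 149422 0 0) P.nil)))))) (P.cons (P.cons (P.lf 0 94748547 0) (P.cons (P.lf 4045471 0 0) (P.cons (P.lf 0 413044 0) (P.cons (P.lf 0 1342060 0) (P.cons (P.lf 119983 0 0) P.nil))))) (P.cons (P.cons (P.lf 12352933 0 0) (P.cons (P.lf 0 396559 0) (P.cons (P.lf 364092 0 0) (P.cons (P.lf 0 147522 0) P.nil)))) (P.cons (P.cons (P.lf 0 221730 0) (P.cons (P.lf 70533 0 0) (P.cons (P.lf 0 18408 0) P.nil))) (P.cons (P.cons (P.lf 0 50550 0) (P.cons (P.lf 15585 0 0) P.nil)) (P.cons (P.cons (P.lf 3966 0 0) P.nil) P.nil)))))) 174698)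
 (EL.cons 2 (TM.mk (P.cons (P.cons (P.lf 0 157413555 0) (P.cons (P.lf 131045647 0 0) (P.cons (P.lf 36309819 0 0) (P.cons (P.lf 0 7157756 0) (P.cons (P.lf 0 1910469 0) (P.cons (P.lf 36444 0 0) P.nil)))))) (P.cons (P.cons (P.lf 7307538 0 0) (P.cons (P.lf 0 10962241 0) (P.cons (P.lf 4963201 0 0) (P.cons (P.lf 0 927360 0) (P.cons (P.lf 0 427230 0) P.nil))))) (P.cons (P.cons (P.lf 950473 0 0) (P.cons (P.lf 0 1212063 0) (P.cons (P.lf 354223 0 0) (P.cons (P.lf 0 65424 0) P.nil)))) (P.cons (P.cons (P.lf 0 234000 0) (P.cons (P.lf 226957 0 0) (P.cons (P.lf 10158 0 0) P.nil))) (P.cons (P.cons (P.lf 0 13888 0) (P.cons (P.lf 15750 0 0) P.nil)) (P.cons (P.cons (P.lf 1226 0 0) P.nil) P.nil)))))) 184330)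
 (EL.cons 6 (TM.mk (P.cons (P.cons (P.lf 0 76246812 0) (P.cons (P.lf 63474924 0 0) (P.cons (P.lf 17587482 0 0) (P.cons (P.lf 0 3467016 0) (P.cons (P.lf 0 925374 0) (P.cons (P.lf 17652 0 0) P.nil)))))) (P.cons (P.cons (P.lf 0 4226526 0) (P.cons (P.lf 1155414 0 0) (P.cons (P.lf 4195404 0 0) (P.cons (P.lf 0 802320 0) (P.cons (P.lf 0 301188 0) P.nil))))) (P.cons (P.cons (P.lf 414300 0 0) (P.cons (P.lf 0 789426 0) (P.cons (P.lf 510228 0 0) (P.cons (P.lf 0 95928 0) P.nil)))) (P.cons (P.cons (P.lf 0 73686 0) (P.cons (P.lf 43554 0 0) (P.cons (P.lf 41238 0 0) P.nil))) (P.cons (P.cons (P.lf 0 16278 0) (P.cons (P.lf 15270 0 0) P.nil)) (P.cons (P.cons (P.lf 0 564 0) P.nil) P.nil)))))) 136314)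
 EL.nil))))))
noncomputable def S140_154_660_808_3 : EL := (EL.cons 0 (TM.mk (P.cons (P.lf 3638739650 0 0) (P.cons (P.lf 0 294674568 0) (P.cons (P.lf 0 6571395 0) (P.cons (P.lf 434682 0 0) (P.cons (P.lf 21573 0 0) (P.cons (P.lf 42 0 0) P.nil)))))) 205)
 (EL.cons 1 (TM.mk (P.cons (P.lf 1762505823 0 0) (P.cons (P.lf 36787346 0 0) (P.cons (P.lf 0 8322086 0) (P.cons (P.lf 0 271203 0) (P.cons (P.lf 4801 0 0) (P.cons (P.lf 468 0 0) P.nil)))))) 132)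
 (EL.cons 5 (TM.mk (P.cons (P.lf 853709548 0 0) (P.cons (P.lf 104773178 0 0) (P.cons (P.lf 2336498 0 0) (P.cons (P.lf 0 154550 0) (P.cons (P.lf 0 7670 0) (P.cons (P.lf 0 18 0) P.nil)))))) 80)
 EL.nil)))
noncomputable def S140_154_660_808_4 : EL := (EL.cons 0 (TM.mk (P.cons (P.cons (P.lf 0 869917169 0) (P.cons (P.lf 0 86208544 0) (P.cons (P.lf 37174093 0 0) (P.lf 4130453 0 0)))) (P.cons (P.cons (P.lf 182370158 0 0) (P.cons (P.lf 0 8888774 0) (P.cons (P.lf 3832938 0 0) (P.lf 425879 0 0)))) (P.cons (P.cons (P.lf 0 14884799 0) (P.cons (P.lf 600059 0 0) (P.cons (P.lf 0 258753 0) (P.lf 0 28752 0)))) (P.cons (P.cons (P.lf 0 396546 0) (P.cons (P.lf 98105 0 0) (P.cons (P.lf 0 42301 0) P.nil))) (P.cons (P.cons (P.lf 79827 0 0) (P.cons (P.lf 729 0 0) P.nil)) (P.cons (P.cons (P.lf 2302 0 0) P.nil) P.nil)))))) 12381)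
 (EL.cons 1 (TM.mk (P.cons (P.cons (P.lf 0 421364049 0) (P.cons (P.lf 0 41757056 0) (P.cons (P.lf 18006112 0 0) (P.lf 2000677 0 0)))) (P.cons (P.cons (P.lf 45417168 0 0) (P.cons (P.lf 0 8558634 0) (P.cons (P.lf 3690577 0 0) (P.lf 410062 0 0)))) (P.cons (P.cons (P.lf 0 459436 0) (P.cons (P.lf 0 370556 0) (P.cons (P.lf 159785 0 0) (P.lf 17750 0 0)))) (P.cons (P.cons (P.lf 0 599666 0) (P.cons (P.lf 39862 0 0) (P.cons (P.lf 0 17188 0) P.nil))) (P.cons (P.cons (P.lf 1638 0 0) (P.cons (P.lf 4350 0 0) P.nil)) (P.cons (P.cons (P.lf 2906 0 0) P.nil) P.nil)))))) 6043)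
 (EL.cons 5 (TM.mk (P.cons (P.cons (P.lf 0 204097204 0) (P.cons (P.lf 0 20225974 0) (P.cons (P.lf 8721666 0 0) (P.lf 969072 0 0)))) (P.cons (P.cons (P.lf 1210556 0 0) (P.cons (P.lf 0 6205680 0) (P.cons (P.lf 2675958 0 0) (P.lf 297326 0 0)))) (P.cons (P.cons (P.lf 929760 0 0) (P.cons (P.lf 0 709592 0) (P.cons (P.lf 305982 0 0) (P.lf 33996 0 0)))) (P.cons (P.cons (P.lf 0 265712 0) (P.cons (P.lf 0 28004 0) (P.cons (P.lf 12076 0 0) P.nil))) (P.cons (P.cons (P.lf 0 26932 0) (P.cons (P.lf 1250 0 0) P.nil)) (P.cons (P.cons (P.lf 58 0 0) P.nil) P.nil)))))) 4178)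
 EL.nil)))
noncomputable def S140_154_660_808_5 : EL := (EL.cons 0 (TM.mk (P.cons (P.cons (P.lf 207971977 0 0) (P.cons (P.lf 41219926 0 0) (P.cons (P.lf 0 15732054 0) (P.cons (P.lf 0 3736390 0) (P.cons (P.lf 184060 0 0) (P.cons (P.lf 84394 0 0) P.nil)))))) (P.cons (P.cons (P.lf 0 70356726 0) (P.cons (P.lf 0 1053186 0) (P.cons (P.lf 1040732 0 0) (P.cons (P.lf 0 455421 0) (P.cons (P.lf 52860 0 0) P.nil))))) (P.cons (P.cons (P.lf 10935184 0 0) (P.cons (P.lf 0 483458 0) (P.cons (P.lf 252943 0 0) (P.cons (P.lf 0 15187 0) P.nil)))) (P.cons (P.cons (P.lf 0 568761 0) (P.cons (P.lf 58772 0 0) (P.cons (P.lf 0 28508 0) P.nil))) (P.cons (P.cons (P.lf 0 36168 0) (P.cons (P.lf 6496 0 0) P.nil)) (P.cons (P.cons (P.lf 5296 0 0) P.nil) P.nil)))))) 131258)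
 (EL.cons 1 (TM.mk (P.cons (P.cons (P.lf 100735927 0 0) (P.cons (P.lf 19965802 0 0) (P.cons (P.lf 0 7620176 0) (P.cons (P.lf 0 1809804 0) (P.cons (P.lf 89152 0 0) (P.cons (P.lf 40876 0 0) P.nil)))))) (P.cons (P.cons (P.lf 0 23818434 0) (P.cons (P.lf 1523476 0 0) (P.cons (P.lf 0 272049 0) (P.cons (P.lf 0 404930 0) (P.cons (P.lf 34683 0 0) P.nil))))) (P.cons (P.cons (P.lf 2362800 0 0) (P.cons (P.lf 0 179660 0) (P.cons (P.lf 133228 0 0) (P.cons (P.lf 0 39474 0) P.nil)))) (P.cons (P.cons (P.lf 116767 0 0) (P.cons (P.lf 8731 0 0) (P.cons (P.lf 0 1250 0) P.nil))) (P.cons (P.cons (P.lf 0 26788 0) (P.cons (P.lf 5062 0 0) P.nil)) (P.cons (P.cons (P.lf 517 0 0) P.nil) P.nil)))))) 66749)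
 (EL.cons 5 (TM.mk (P.cons (P.cons (P.lf 48793724 0 0) (P.cons (P.lf 9670888 0 0) (P.cons (P.lf 0 3691004 0) (P.cons (P.lf 0 876618 0) (P.cons (P.lf 43182 0 0) (P.cons (P.lf 19798 0 0) P.nil)))))) (P.cons (P.cons (P.lf 0 6567122 0) (P.cons (P.lf 1722956 0 0) (P.cons (P.lf 0 507718 0) (P.cons (P.lf 0 285424 0) (P.cons (P.lf 21198 0 0) P.nil))))) (P.cons (P.cons (P.lf 229578 0 0) (P.cons (P.lf 39710 0 0) (P.cons (P.lf 31426 0 0) (P.cons (P.lf 0 43772 0) P.nil)))) (P.cons (P.cons (P.lf 128316 0 0) (P.cons (P.lf 2612 0 0) (P.cons (P.lf 3998 0 0) P.nil))) (P.cons (P.cons (P.lf 0 3988 0) (P.cons (P.lf 2884 0 0) P.nil)) (P.cons (P.cons (P.lf 0 560 0) P.nil) P.nil)))))) 35098)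
 EL.nil)))
noncomputable def S140_154_660_808_6 : EL := (EL.cons 12 (TM.mk (P.lf 8589934592 0 0) 0)
 (EL.cons 3 (TM.mk (P.cons (P.lf 0 2795377237 0) (P.cons (P.lf 113188447 0 0) (P.cons (P.lf 4815735 0 0) (P.cons (P.lf 28027 0 0) (P.cons (P.lf 0 3003 0) (P.cons (P.lf 0 90 0) P.nil)))))) 67)
 (EL.cons 7 (TM.mk (P.cons (P.lf 0 1354004171 0) (P.cons (P.lf 0 83086409 0) (P.cons (P.lf 696363 0 0) (P.cons (P.lf 79830 0 0) (P.cons (P.lf 1364 0 0) (P.cons (P.lf 0 28 0) P.nil)))))) 46)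
 EL.nil)))
noncomputable def S140_154_660_808_7 : EL := (EL.cons 12 (TM.mk (P.cons (P.cons (P.lf 0 2053604356 0) (P.cons (P.lf 0 203511608 0) (P.cons (P.lf 87756496 0 0) (P.lf 9750720 0 0)))) (P.cons (P.cons (P.lf 264213124 0 0) (P.cons (P.lf 0 37464536 0) (P.cons (P.lf 16155128 0 0) (P.lf 1795008 0 0)))) (P.cons (P.cons (P.lf 0 17450444 0) (P.cons (P.lf 0 1984952 0) (P.cons (P.lf 855928 0 0) (P.lf 95096 0 0)))) (P.cons (P.cons (P.lf 0 1626830 0) (P.cons (P.lf 27504 0 0) (P.cons (P.lf 0 11856 0) P.nil))) (P.cons (P.cons (P.lf 5802 0 0) (P.cons (P.lf 6048 0 0) P.nil)) (P.cons (P.cons (P.lf 3510 0 0) P.nil) P.nil)))))) 8828)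
 (EL.cons 3 (TM.mk (P.cons (P.cons (P.lf 2069477007 0 0) (P.cons (P.lf 0 132455424 0) (P.cons (P.lf 57116268 0 0) (P.lf 6346250 0 0)))) (P.cons (P.cons (P.lf 0 245396178 0) (P.cons (P.lf 0 19020480 0) (P.cons (P.lf 8201844 0 0) (P.lf 911310 0 0)))) (P.cons (P.cons (P.lf 0 26532245 0) (P.cons (P.lf 0 76384 0) (P.cons (P.lf 32934 0 0) (P.lf 3654 0 0)))) (P.cons (P.cons (P.lf 0 186294 0) (P.cons (P.lf 113546 0 0) (P.cons (P.lf 0 48958 0) P.nil))) (P.cons (P.cons (P.lf 97569 0 0) (P.cons (P.lf 5538 0 0) P.nil)) (P.cons (P.cons (P.lf 4282 0 0) P.nil) P.nil)))))) 25658)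
 (EL.cons 7 (TM.mk (P.cons (P.cons (P.lf 0 704840796 0) (P.cons (P.lf 177923007 0 0) (P.cons (P.lf 0 76722408 0) (P.lf 0 8524710 0)))) (P.cons (P.cons (P.lf 180133995 0 0) (P.cons (P.lf 13962061 0 0) (P.cons (P.lf 0 6020597 0) (P.lf 0 668957 0)))) (P.cons (P.cons (P.lf 10302350 0 0) (P.cons (P.lf 0 654976 0) (P.cons (P.lf 282432 0 0) (P.lf 31379 0 0)))) (P.cons (P.cons (P.lf 0 883009 0) (P.cons (P.lf 0 63694 0) (P.cons (P.lf 27465 0 0) P.nil))) (P.cons (P.cons (P.lf 0 47060 0) (P.cons (P.lf 1348 0 0) P.nil)) (P.cons (P.cons (P.lf 1306 0 0) P.nil) P.nil)))))) 16330)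
 (EL.cons 10 (TM.mk (P.cons (P.cons (P.lf 0 505830084 0) (P.cons (P.lf 471227520 0 0) (P.cons (P.lf 48363273 0 0) (P.cons (P.lf 0 10058214 0) (P.lf 0 838182 0))))) (P.cons (P.cons (P.lf 0 62078988 0) (P.cons (P.lf 57832320 0 0) (P.cons (P.lf 5935476 0 0) (P.cons (P.lf 0 1234413 0) (P.lf 0 102867 0))))) (P.cons (P.cons (P.lf 0 1384392 0) (P.cons (P.lf 1289691 0 0) (P.cons (P.lf 132363 0 0) (P.cons (P.lf 0 27528 0) P.nil)))) (P.cons (P.cons (P.lf 91572 0 0) (P.cons (P.lf 0 85305 0) (P.cons (P.lf 0 8754 0) P.nil))) (P.cons (P.cons (P.lf 4542 0 0) (P.cons (P.lf 0 4233 0) P.nil)) (P.cons (P.cons (P.lf 9 0 0) P.nil) P.nil)))))) 5007)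
 EL.nil))))
noncomputable def S140_154_660_808_8 : EL := (EL.cons 12 (TM.mk (P.cons (P.cons (P.lf 490957270 0 0) (P.cons (P.lf 97307452 0 0) (P.cons (P.lf 0 37138498 0) (P.cons (P.lf 0 8820458 0) (P.cons (P.lf 434512 0 0) (P.cons (P.lf 199230 0 0) P.nil)))))) (P.cons (P.cons (P.lf 0 126331396 0) (P.cons (P.lf 5393962 0 0) (P.cons (P.lf 0 550726 0) (P.cons (P.lf 0 1789414 0) (P.cons (P.lf 159978 0 0) P.nil))))) (P.cons (P.cons (P.lf 16470578 0 0) (P.cons (P.lf 0 528746 0) (P.cons (P.lf 485456 0 0) (P.cons (P.lf 0 196696 0) P.nil)))) (P.cons (P.cons (P.lf 0 295640 0) (P.cons (P.lf 94044 0 0) (P.cons (P.lf 0 24544 0) P.nil))) (P.cons (P.cons (P.lf 0 67400 0) (P.cons (P.lf 20780 0 0) P.nil)) (P.cons (P.cons (P.lf 5288 0 0) P.nil) P.nil)))))) 232902)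
 (EL.cons 3 (TM.mk (P.cons (P.cons (P.lf 0 829734279 0) (P.cons (P.lf 0 3060801 0) (P.cons (P.lf 9165147 0 0) (P.cons (P.lf 0 6619302 0) (P.cons (P.lf 707006 0 0) (P.cons (P.lf 324171 0 0) P.nil)))))) (P.cons (P.cons (P.lf 197061413 0 0) (P.cons (P.lf 0 5004668 0) (P.cons (P.lf 4728886 0 0) (P.cons (P.lf 0 1977341 0) (P.cons (P.lf 231675 0 0) P.nil))))) (P.cons (P.cons (P.lf 0 4068776 0) (P.cons (P.lf 1548244 0 0) (P.cons (P.lf 0 379184 0) (P.cons (P.lf 0 322931 0) P.nil)))) (P.cons (P.cons (P.lf 0 1573948 0) (P.cons (P.lf 469621 0 0) (P.cons (P.lf 0 198471 0) P.nil))) (P.cons (P.cons (P.lf 118739 0 0) (P.cons (P.lf 28113 0 0) P.nil)) (P.cons (P.cons (P.lf 18799 0 0) P.nil) P.nil)))))) 464922)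
 (EL.cons 7 (TM.mk (P.cons (P.cons (P.lf 414402040 0 0) (P.cons (P.lf 0 36336207 0) (P.cons (P.lf 7997931 0 0) (P.cons (P.lf 8356292 0 0) (P.cons (P.lf 0 691266 0) (P.cons (P.lf 0 316955 0) P.nil)))))) (P.cons (P.cons (P.lf 0 144653676 0) (P.cons (P.lf 3673694 0 0) (P.cons (P.lf 0 3471260 0) (P.cons (P.lf 1451479 0 0) (P.cons (P.lf 0 170059 0) P.nil))))) (P.cons (P.cons (P.lf 10353522 0 0) (P.cons (P.lf 0 1323589 0) (P.cons (P.lf 455128 0 0) (P.cons (P.lf 163127 0 0) P.nil)))) (P.cons (P.cons (P.lf 709454 0 0) (P.cons (P.lf 0 261375 0) (P.cons (P.lf 120950 0 0) P.nil))) (P.cons (P.cons (P.lf 0 156582 0) (P.cons (P.lf 2540 0 0) P.nil)) (P.cons (P.cons (P.lf 0 4088 0) P.nil) P.nil)))))) 265371)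
 (EL.cons 10 (TM.mk (P.cons (P.cons (P.lf 241858620 0 0) (P.cons (P.lf 0 201345558 0) (P.cons (P.lf 0 55788354 0) (P.cons (P.lf 10997562 0 0) (P.cons (P.lf 2935350 0 0) (P.cons (P.lf 0 55998 0) P.nil)))))) (P.cons (P.cons (P.lf 0 1434528 0) (P.cons (P.lf 8690232 0 0) (P.cons (P.lf 0 9884676 0) (P.cons (P.lf 1870152 0 0) (P.cons (P.lf 775272 0 0) P.nil))))) (P.cons (P.cons (P.lf 0 1101780 0) (P.cons (P.lf 1867290 0 0) (P.cons (P.lf 0 1040604 0) (P.cons (P.lf 195192 0 0) P.nil)))) (P.cons (P.cons (P.lf 314874 0 0) (P.cons (P.lf 0 260148 0) (P.cons (P.lf 0 75330 0) P.nil))) (P.cons (P.cons (P.lf 31914 0 0) (P.cons (P.lf 0 31212 0) P.nil)) (P.cons (P.cons (P.lf 0 66 0) P.nil) P.nil)))))) 335988)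
 EL.nil))))
noncomputable def S140_154_660_808_9 : EL := (EL.cons 3 (TM.mk (P.cons (P.lf 0 2795377237 0) (P.cons (P.lf 113188447 0 0) (P.cons (P.lf 4815735 0 0) (P.cons (P.lf 28027 0 0) (P.cons (P.lf 0 3003 0) (P.cons (P.lf 0 90 0) P.nil)))))) 67)
 (EL.cons 7 (TM.mk (P.cons (P.lf 0 1354004171 0) (P.cons (P.lf 0 83086409 0) (P.cons (P.lf 696363 0 0) (P.cons (P.lf 79830 0 0) (P.cons (P.lf 1364 0 0) (P.cons (P.lf 0 28 0) P.nil)))))) 46)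
 EL.nil))
noncomputable def S140_154_660_808_10 : EL := (EL.cons 3 (TM.mk (P.cons (P.cons (P.lf 668293665 0 0) (P.cons (P.lf 66227712 0 0) (P.cons (P.lf 0 28558134 0) (P.lf 0 3173125 0)))) (P.cons (P.cons (P.lf 0 113041563 0) (P.cons (P.lf 9510240 0 0) (P.cons (P.lf 0 4100922 0) (P.lf 0 455655 0)))) (P.cons (P.cons (P.lf 8009005 0 0) (P.cons (P.lf 38192 0 0) (P.cons (P.lf 0 16467 0) (P.lf 0 1827 0)))) (P.cons (P.cons (P.lf 440892 0 0) (P.cons (P.lf 0 56773 0) (P.cons (P.lf 24479 0 0) P.nil))) (P.cons (P.cons (P.lf 0 31527 0) (P.cons (P.lf 0 2769 0) P.nil)) (P.cons (P.cons (P.lf 0 2105 0) P.nil) P.nil)))))) 6328)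
 (EL.cons 7 (TM.mk (P.cons (P.cons (P.lf 323703147 0 0) (P.cons (P.lf 32078889 0 0) (P.cons (P.lf 0 13832778 0) (P.lf 0 1536975 0)))) (P.cons (P.cons (P.lf 0 21783525 0) (P.cons (P.lf 7873888 0 0) (P.cons (P.lf 0 3395309 0) (P.lf 0 377255 0)))) (P.cons (P.cons (P.lf 28568 0 0) (P.cons (P.lf 658760 0 0) (P.cons (P.lf 0 284064 0) (P.lf 0 31561 0)))) (P.cons (P.cons (P.lf 427556 0 0) (P.cons (P.lf 9935 0 0) (P.cons (P.lf 0 4284 0) P.nil))) (P.cons (P.cons (P.lf 15535 0 0) (P.cons (P.lf 0 1760 0) P.nil)) (P.cons (P.cons (P.lf 0 854 0) P.nil) P.nil)))))) 3195)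
 EL.nil))
noncomputable def S140_154_660_808_11 : EL := (EL.cons 3 (TM.mk (P.cons (P.cons (P.lf 0 159769641 0) (P.cons (P.lf 0 31666251 0) (P.cons (P.lf 12085785 0 0) (P.cons (P.lf 2870394 0 0) (P.cons (P.lf 0 141400 0) (P.cons (P.lf 0 64833 0) P.nil)))))) (P.cons (P.cons (P.lf 47580641 0 0) (P.cons (P.lf 0 473120 0) (P.cons (P.lf 0 310148 0) (P.cons (P.lf 466093 0 0) (P.cons (P.lf 0 46335 0) P.nil))))) (P.cons (P.cons (P.lf 0 6749342 0) (P.cons (P.lf 297694 0 0) (P.cons (P.lf 0 186056 0) (P.cons (P.lf 35485 0 0) P.nil)))) (P.cons (P.cons (P.lf 244016 0 0) (P.cons (P.lf 0 34229 0) (P.cons (P.lf 13953 0 0) P.nil))) (P.cons (P.cons (P.lf 26687 0 0) (P.cons (P.lf 0 5835 0) P.nil)) (P.cons (P.cons (P.lf 0 2681 0) P.nil) P.nil)))))) 89054)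
 (EL.cons 7 (TM.mk (P.cons (P.cons (P.lf 0 77388038 0) (P.cons (P.lf 0 15338265 0) (P.cons (P.lf 5854023 0 0) (P.cons (P.lf 1390340 0 0) (P.cons (P.lf 0 68490 0) (P.cons (P.lf 0 31403 0) P.nil)))))) (P.cons (P.cons (P.lf 15164418 0 0) (P.cons (P.lf 0 1791442 0) (P.cons (P.lf 446032 0 0) (P.cons (P.lf 367375 0 0) (P.cons (P.lf 0 29419 0) P.nil))))) (P.cons (P.cons (P.lf 0 1334460 0) (P.cons (P.lf 39059 0 0) (P.cons (P.lf 0 74204 0) (P.cons (P.lf 47597 0 0) P.nil)))) (P.cons (P.cons (P.lf 0 118390 0) (P.cons (P.lf 0 8367 0) (P.cons (P.lf 0 1216 0) P.nil))) (P.cons (P.cons (P.lf 13722 0 0) (P.cons (P.lf 0 4162 0) P.nil)) (P.cons (P.cons (P.lf 0 74 0) P.nil) P.nil)))))) 45299)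
 EL.nil))
noncomputable def S140_154_660_808_12 : EL := (EL.cons 4 (TM.mk (P.cons (P.lf 2795377237 0 0) (P.cons (P.lf 0 113188447 0) (P.cons (P.lf 0 4815735 0) (P.cons (P.lf 0 28027 0) (P.cons (P.lf 3003 0 0) (P.cons (P.lf 90 0 0) P.nil)))))) 67)
 (EL.cons 8 (TM.mk (P.cons (P.lf 1354004171 0 0) (P.cons (P.lf 83086409 0 0) (P.cons (P.lf 0 696363 0) (P.cons (P.lf 0 79830 0) (P.cons (P.lf 0 1364 0) (P.cons (P.lf 28 0 0) P.nil)))))) 46)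
 EL.nil))
noncomputable def S140_154_660_808_13 : EL := (EL.cons 4 (TM.mk (P.cons (P.cons (P.lf 0 668293665 0) (P.cons (P.lf 0 66227712 0) (P.cons (P.lf 28558134 0 0) (P.lf 3173125 0 0)))) (P.cons (P.cons (P.lf 113041563 0 0) (P.cons (P.lf 0 9510240 0) (P.cons (P.lf 4100922 0 0) (P.lf 455655 0 0)))) (P.cons (P.cons (P.lf 0 8009005 0) (P.cons (P.lf 0 38192 0) (P.cons (P.lf 16467 0 0) (P.lf 1827 0 0)))) (P.cons (P.cons (P.lf 0 440892 0) (P.cons (P.lf 56773 0 0) (P.cons (P.lf 0 24479 0) P.nil))) (P.cons (P.cons (P.lf 31527 0 0) (P.cons (P.lf 2769 0 0) P.nil)) (P.cons (P.cons (P.lf 2105 0 0) P.nil) P.nil)))))) 6328)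
 (EL.cons 8 (TM.mk (P.cons (P.cons (P.lf 0 323703147 0) (P.cons (P.lf 0 32078889 0) (P.cons (P.lf 13832778 0 0) (P.lf 1536975 0 0)))) (P.cons (P.cons (P.lf 21783525 0 0) (P.cons (P.lf 0 7873888 0) (P.cons (P.lf 3395309 0 0) (P.lf 377255 0 0)))) (P.cons (P.cons (P.lf 0 28568 0) (P.cons (P.lf 0 658760 0) (P.cons (P.lf 284064 0 0) (P.lf 31561 0 0)))) (P.cons (P.cons (P.lf 0 427556 0) (P.cons (P.lf 0 9935 0) (P.cons (P.lf 4284 0 0) P.nil))) (P.cons (P.cons (P.lf 0 15535 0) (P.cons (P.lf 1760 0 0) P.nil)) (P.cons (P.cons (P.lf 854 0 0) P.nil) P.nil)))))) 3195)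
 EL.nil))
noncomputable def S140_154_660_808_14 : EL := (EL.cons 4 (TM.mk (P.cons (P.cons (P.lf 159769641 0 0) (P.cons (P.lf 31666251 0 0) (P.cons (P.lf 0 12085785 0) (P.cons (P.lf 0 2870394 0) (P.cons (P.lf 141400 0 0) (P.cons (P.lf 64833 0 0) P.nil)))))) (P.cons (P.cons (P.lf 0 47580641 0) (P.cons (P.lf 473120 0 0) (P.cons (P.lf 310148 0 0) (P.cons (P.lf 0 466093 0) (P.cons (P.lf 46335 0 0) P.nil))))) (P.cons (P.cons (P.lf 6749342 0 0) (P.cons (P.lf 0 297694 0) (P.cons (P.lf 186056 0 0) (P.cons (P.lf 0 35485 0) P.nil)))) (P.cons (P.cons (P.lf 0 244016 0) (P.cons (P.lf 34229 0 0) (P.cons (P.lf 0 13953 0) P.nil))) (P.cons (P.cons (P.lf 0 26687 0) (P.cons (P.lf 5835 0 0) P.nil)) (P.cons (P.cons (P.lf 2681 0 0) P.nil) P.nil)))))) 89054)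
 (EL.cons 8 (TM.mk (P.cons (P.cons (P.lf 77388038 0 0) (P.cons (P.lf 15338265 0 0) (P.cons (P.lf 0 5854023 0) (P.cons (P.lf 0 1390340 0) (P.cons (P.lf 68490 0 0) (P.cons (P.lf 31403 0 0) P.nil)))))) (P.cons (P.cons (P.lf 0 15164418 0) (P.cons (P.lf 1791442 0 0) (P.cons (P.lf 0 446032 0) (P.cons (P.lf 0 367375 0) (P.cons (P.lf 29419 0 0) P.nil))))) (P.cons (P.cons (P.lf 1334460 0 0) (P.cons (P.lf 0 39059 0) (P.cons (P.lf 74204 0 0) (P.cons (P.lf 0 47597 0) P.nil)))) (P.cons (P.cons (P.lf 118390 0 0) (P.cons (P.lf 8367 0 0) (P.cons (P.lf 1216 0 0) P.nil))) (P.cons (P.cons (P.lf 0 13722 0) (P.cons (P.lf 4162 0 0) P.nil)) (P.cons (P.cons (P.lf 74 0 0) P.nil) P.nil)))))) 45299)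
 EL.nil))
noncomputable def S140_154_660_808_15 : EL := (EL.cons 4 (TM.mk (P.cons (P.lf 0 1940661147 0) (P.cons (P.lf 157159770 0 0) (P.cons (P.lf 3504744 0 0) (P.cons (P.lf 0 231830 0) (P.cons (P.lf 0 11505 0) (P.cons (P.lf 0 22 0) P.nil)))))) 112)
 (EL.cons 8 (TM.mk (P.cons (P.lf 0 940003106 0) (P.cons (P.lf 0 19619918 0) (P.cons (P.lf 4438446 0 0) (P.cons (P.lf 144642 0 0) (P.cons (P.lf 0 2561 0) (P.cons (P.lf 0 250 0) P.nil)))))) 67)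
 EL.nil))
noncomputable def S140_154_660_808_16 : EL := (EL.cons 4 (TM.mk (P.cons (P.cons (P.lf 463955823 0 0) (P.cons (P.lf 45977890 0 0) (P.cons (P.lf 0 19826183 0) (P.lf 0 2202908 0)))) (P.cons (P.cons (P.lf 0 97264084 0) (P.cons (P.lf 4740679 0 0) (P.cons (P.lf 0 2044233 0) (P.lf 0 227135 0)))) (P.cons (P.cons (P.lf 7938559 0 0) (P.cons (P.lf 0 320031 0) (P.cons (P.lf 138001 0 0) (P.lf 15334 0 0)))) (P.cons (P.cons (P.lf 211491 0 0) (P.cons (P.lf 0 52322 0) (P.cons (P.lf 22560 0 0) P.nil))) (P.cons (P.cons (P.lf 0 42574 0) (P.cons (P.lf 0 389 0) P.nil)) (P.cons (P.cons (P.lf 0 1228 0) P.nil) P.nil)))))) 6612)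
 (EL.cons 8 (TM.mk (P.cons (P.cons (P.lf 224727493 0 0) (P.cons (P.lf 22270430 0 0) (P.cons (P.lf 0 9603260 0) (P.lf 0 1067028 0)))) (P.cons (P.cons (P.lf 0 24222490 0) (P.cons (P.lf 4564605 0 0) (P.cons (P.lf 0 1968308 0) (P.lf 0 218700 0)))) (P.cons (P.cons (P.lf 245033 0 0) (P.cons (P.lf 197630 0 0) (P.cons (P.lf 0 85219 0) (P.lf 0 9467 0)))) (P.cons (P.cons (P.lf 319822 0 0) (P.cons (P.lf 0 21260 0) (P.cons (P.lf 9167 0 0) P.nil))) (P.cons (P.cons (P.lf 0 874 0) (P.cons (P.lf 0 2320 0) P.nil)) (P.cons (P.cons (P.lf 0 1550 0) P.nil) P.nil)))))) 3213)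
 EL.nil))
noncomputable def S140_154_660_808_17 : EL := (EL.cons 4 (TM.mk (P.cons (P.cons (P.lf 0 110918387 0) (P.cons (P.lf 0 21983960 0) (P.cons (P.lf 8390429 0 0) (P.cons (P.lf 1992741 0 0) (P.cons (P.lf 0 98165 0) (P.cons (P.lf 0 45010 0) P.nil)))))) (P.cons (P.cons (P.lf 37523587 0 0) (P.cons (P.lf 561699 0 0) (P.cons (P.lf 0 555057 0) (P.cons (P.lf 242891 0 0) (P.cons (P.lf 0 28192 0) P.nil))))) (P.cons (P.cons (P.lf 0 5832098 0) (P.cons (P.lf 257844 0 0) (P.cons (P.lf 0 134903 0) (P.cons (P.lf 8100 0 0) P.nil)))) (P.cons (P.cons (P.lf 303339 0 0) (P.cons (P.lf 0 31345 0) (P.cons (P.lf 15204 0 0) P.nil))) (P.cons (P.cons (P.lf 19290 0 0) (P.cons (P.lf 0 3465 0) P.nil)) (P.cons (P.cons (P.lf 0 2824 0) P.nil) P.nil)))))) 70014)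
 (EL.cons 8 (TM.mk (P.cons (P.cons (P.lf 0 53725828 0) (P.cons (P.lf 0 10648428 0) (P.cons (P.lf 4064094 0 0) (P.cons (P.lf 965229 0 0) (P.cons (P.lf 0 47548 0) (P.cons (P.lf 0 21801 0) P.nil)))))) (P.cons (P.cons (P.lf 12703165 0 0) (P.cons (P.lf 0 812521 0) (P.cons (P.lf 145093 0 0) (P.cons (P.lf 215963 0 0) (P.cons (P.lf 0 18498 0) P.nil))))) (P.cons (P.cons (P.lf 0 1260160 0) (P.cons (P.lf 95819 0 0) (P.cons (P.lf 0 71055 0) (P.cons (P.lf 21053 0 0) P.nil)))) (P.cons (P.cons (P.lf 0 62276 0) (P.cons (P.lf 0 4657 0) (P.cons (P.lf 667 0 0) P.nil))) (P.cons (P.cons (P.lf 14287 0 0) (P.cons (P.lf 0 2700 0) P.nil)) (P.cons (P.cons (P.lf 0 276 0) P.nil) P.nil)))))) 35588)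
 EL.nil))
noncomputable def S140_154_660_808_18 : EL := (EL.cons 4 (TM.mk (P.cons (P.lf 1347283520 0 0) (P.cons (P.lf 0 163659767 0) (P.cons (P.lf 0 336299 0) (P.cons (P.lf 433920 0 0) (P.cons (P.lf 8204 0 0) (P.cons (P.lf 0 633 0) P.nil)))))) 143)
 (EL.cons 8 (TM.mk (P.cons (P.lf 652587236 0 0) (P.cons (P.lf 0 12803181 0) (P.cons (P.lf 0 4757117 0) (P.cons (P.lf 0 5657 0) (P.cons (P.lf 11717 0 0) (P.cons (P.lf 341 0 0) P.nil)))))) 78)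
 EL.nil))
noncomputable def S140_154_660_808_19 : EL := (EL.cons 4 (TM.mk (P.cons (P.cons (P.lf 0 322096434 0) (P.cons (P.lf 0 31919664 0) (P.cons (P.lf 13764118 0 0) (P.lf 1529345 0 0)))) (P.cons (P.cons (P.lf 80566666 0 0) (P.cons (P.lf 0 1998698 0) (P.cons (P.lf 861860 0 0) (P.lf 95760 0 0)))) (P.cons (P.cons (P.lf 0 7690527 0) (P.cons (P.lf 410431 0 0) (P.cons (P.lf 0 176983 0) (P.lf 0 19665 0)))) (P.cons (P.cons (P.lf 0 36765 0) (P.cons (P.lf 33317 0 0) (P.cons (P.lf 0 14366 0) P.nil))) (P.cons (P.cons (P.lf 43973 0 0) (P.cons (P.lf 0 1584 0) P.nil)) (P.cons (P.cons (P.lf 25 0 0) P.nil) P.nil)))))) 5809)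
 (EL.cons 8 (TM.mk (P.cons (P.cons (P.lf 0 156014690 0) (P.cons (P.lf 0 15461011 0) (P.cons (P.lf 6666962 0 0) (P.lf 740773 0 0)))) (P.cons (P.cons (P.lf 23133445 0 0) (P.cons (P.lf 0 2542892 0) (P.cons (P.lf 1096523 0 0) (P.lf 121835 0 0)))) (P.cons (P.cons (P.lf 0 582247 0) (P.cons (P.lf 17746 0 0) (P.cons (P.lf 0 7652 0) (P.lf 0 850 0)))) (P.cons (P.cons (P.lf 0 242551 0) (P.cons (P.lf 25929 0 0) (P.cons (P.lf 0 11180 0) P.nil))) (P.cons (P.cons (P.lf 9554 0 0) (P.cons (P.lf 1264 0 0) P.nil)) (P.cons (P.cons (P.lf 1449 0 0) P.nil) P.nil)))))) 3401)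
 EL.nil))
noncomputable def S140_154_660_808_20 : EL := (EL.cons 4 (TM.mk (P.cons (P.cons (P.lf 77003920 0 0) (P.cons (P.lf 15262132 0 0) (P.cons (P.lf 0 5824966 0) (P.cons (P.lf 0 1383439 0) (P.cons (P.lf 68150 0 0) (P.cons (P.lf 31247 0 0) P.nil)))))) (P.cons (P.cons (P.lf 0 29168342 0) (P.cons (P.lf 0 1007937 0) (P.cons (P.lf 621202 0 0) (P.cons (P.lf 0 112607 0) (P.cons (P.lf 16812 0 0) P.nil))))) (P.cons (P.cons (P.lf 4971026 0 0) (P.cons (P.lf 0 189508 0) (P.cons (P.lf 88087 0 0) (P.cons (P.lf 3586 0 0) P.nil)))) (P.cons (P.cons (P.lf 0 330428 0) (P.cons (P.lf 29528 0 0) (P.cons (P.lf 0 14953 0) P.nil))) (P.cons (P.cons (P.lf 0 11495 0) (P.cons (P.lf 1853 0 0) P.nil)) (P.cons (P.cons (P.lf 2799 0 0) P.nil) P.nil)))))) 53516)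
 (EL.cons 8 (TM.mk (P.cons (P.cons (P.lf 37298589 0 0) (P.cons (P.lf 7392559 0 0) (P.cons (P.lf 0 2821454 0) (P.cons (P.lf 0 670100 0) (P.cons (P.lf 33010 0 0) (P.cons (P.lf 15135 0 0) P.nil)))))) (P.cons (P.cons (P.lf 0 10329306 0) (P.cons (P.lf 264750 0 0) (P.cons (P.lf 13515 0 0) (P.cons (P.lf 0 122796 0) (P.cons (P.lf 11505 0 0) P.nil))))) (P.cons (P.cons (P.lf 1167691 0 0) (P.cons (P.lf 0 102097 0) (P.cons (P.lf 58268 0 0) (P.cons (P.lf 0 7391 0) P.nil)))) (P.cons (P.cons (P.lf 22630 0 0) (P.cons (P.lf 4881 0 0) (P.cons (P.lf 0 2258 0) P.nil))) (P.cons (P.cons (P.lf 0 13048 0) (P.cons (P.lf 1860 0 0) P.nil)) (P.cons (P.cons (P.lf 502 0 0) P.nil) P.nil)))))) 27329)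
 EL.nil))
noncomputable def S140_154_660_808_21 : EL := (EL.cons 4 (TM.mk (P.cons (P.cons (P.lf 0 1401183342 0) (P.cons (P.lf 198683136 0 0) (P.cons (P.lf 0 85674402 0) (P.lf 0 9519375 0)))) (P.cons (P.cons (P.lf 132354615 0 0) (P.cons (P.lf 28530720 0 0) (P.cons (P.lf 0 12302766 0) (P.lf 0 1366965 0)))) (P.cons (P.cons (P.lf 34541250 0 0) (P.cons (P.lf 114576 0 0) (P.cons (P.lf 0 49401 0) (P.lf 0 5481 0)))) (P.cons (P.cons (P.lf 627186 0 0) (P.cons (P.lf 0 170319 0) (P.cons (P.lf 73437 0 0) P.nil))) (P.cons (P.cons (P.lf 0 129096 0) (P.cons (P.lf 0 8307 0) P.nil)) (P.cons (P.cons (P.lf 0 6387 0) P.nil) P.nil)))))) 19311)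
 (EL.cons 8 (TM.mk (P.cons (P.cons (P.lf 1028543943 0 0) (P.cons (P.lf 0 145844118 0) (P.cons (P.lf 62889630 0 0) (P.lf 6987735 0 0)))) (P.cons (P.cons (P.lf 0 201917520 0) (P.cons (P.lf 0 6088173 0) (P.cons (P.lf 2625288 0 0) (P.lf 291702 0 0)))) (P.cons (P.cons (P.lf 0 10273782 0) (P.cons (P.lf 1313736 0 0) (P.cons (P.lf 0 566496 0) (P.lf 0 62940 0)))) (P.cons (P.cons (P.lf 1310565 0 0) (P.cons (P.lf 73629 0 0) (P.cons (P.lf 0 31749 0) P.nil))) (P.cons (P.cons (P.lf 62595 0 0) (P.cons (P.lf 0 3108 0) P.nil)) (P.cons (P.cons (P.lf 0 2160 0) P.nil) P.nil)))))) 13116)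
 (EL.cons 11 (TM.mk (P.cons (P.cons (P.lf 505830084 0 0) (P.cons (P.lf 0 471227520 0) (P.cons (P.lf 0 48363273 0) (P.cons (P.lf 10058214 0 0) (P.lf 838182 0 0))))) (P.cons (P.cons (P.lf 62078988 0 0) (P.cons (P.lf 0 57832320 0) (P.cons (P.lf 0 5935476 0) (P.cons (P.lf 1234413 0 0) (P.lf 102867 0 0))))) (P.cons (P.cons (P.lf 1384392 0 0) (P.cons (P.lf 0 1289691 0) (P.cons (P.lf 0 132363 0) (P.cons (P.lf 27528 0 0) P.nil)))) (P.cons (P.cons (P.lf 0 91572 0) (P.cons (P.lf 85305 0 0) (P.cons (P.lf 8754 0 0) P.nil))) (P.cons (P.cons (P.lf 0 4542 0) (P.cons (P.lf 4233 0 0) P.nil)) (P.cons (P.cons (P.lf 0 9 0) P.nil) P.nil)))))) 5007)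
 EL.nil)))
noncomputable def S140_154_660_808_22 : EL := (EL.cons 4 (TM.mk (P.cons (P.cons (P.lf 334982319 0 0) (P.cons (P.lf 0 14302725 0) (P.cons (P.lf 1460319 0 0) (P.cons (P.lf 4744848 0 0) (P.cons (P.lf 0 424203 0) (P.cons (P.lf 0 194502 0) P.nil)))))) (P.cons (P.cons (P.lf 0 74740386 0) (P.cons (P.lf 2265774 0 0) (P.cons (P.lf 0 2519517 0) (P.cons (P.lf 1221717 0 0) (P.cons (P.lf 0 139005 0) P.nil))))) (P.cons (P.cons (P.lf 0 1340283 0) (P.cons (P.lf 0 625275 0) (P.cons (P.lf 96564 0 0) (P.cons (P.lf 179208 0 0) P.nil)))) (P.cons (P.cons (P.lf 908982 0 0) (P.cons (P.lf 0 251925 0) (P.cons (P.lf 106212 0 0) P.nil))) (P.cons (P.cons (P.lf 0 46026 0) (P.cons (P.lf 0 16974 0) P.nil)) (P.cons (P.cons (P.lf 0 10740 0) P.nil) P.nil)))))) 187923)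
 (EL.cons 8 (TM.mk (P.cons (P.cons (P.lf 0 245895039 0) (P.cons (P.lf 10498971 0 0) (P.cons (P.lf 0 1071954 0) (P.cons (P.lf 0 3482976 0) (P.cons (P.lf 311388 0 0) (P.cons (P.lf 142776 0 0) P.nil)))))) (P.cons (P.cons (P.lf 79909047 0 0) (P.cons (P.lf 0 2732568 0) (P.cons (P.lf 1958646 0 0) (P.cons (P.lf 0 542052 0) (P.cons (P.lf 70320 0 0) P.nil))))) (P.cons (P.cons (P.lf 0 5843991 0) (P.cons (P.lf 681324 0 0) (P.cons (P.lf 0 264666 0) (P.cons (P.lf 0 57765 0) P.nil)))) (P.cons (P.cons (P.lf 0 413922 0) (P.cons (P.lf 126504 0 0) (P.cons (P.lf 0 61083 0) P.nil))) (P.cons (P.cons (P.lf 85152 0 0) (P.cons (P.lf 0 3351 0) P.nil)) (P.cons (P.cons (P.lf 2007 0 0) P.nil) P.nil)))))) 110025)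
 (EL.cons 11 (TM.mk (P.cons (P.cons (P.lf 0 120929310 0) (P.cons (P.lf 100672779 0 0) (P.cons (P.lf 27894177 0 0) (P.cons (P.lf 0 5498781 0) (P.cons (P.lf 0 1467675 0) (P.cons (P.lf 27999 0 0) P.nil)))))) (P.cons (P.cons (P.lf 717264 0 0) (P.cons (P.lf 0 4345116 0) (P.cons (P.lf 4942338 0 0) (P.cons (P.lf 0 935076 0) (P.cons (P.lf 0 387636 0) P.nil))))) (P.cons (P.cons (P.lf 550890 0 0) (P.cons (P.lf 0 933645 0) (P.cons (P.lf 520302 0 0) (P.cons (P.lf 0 97596 0) P.nil)))) (P.cons (P.cons (P.lf 0 157437 0) (P.cons (P.lf 130074 0 0) (P.cons (P.lf 37665 0 0) P.nil))) (P.cons (P.cons (P.lf 0 15957 0) (P.cons (P.lf 15606 0 0) P.nil)) (P.cons (P.cons (P.lf 33 0 0) P.nil) P.nil)))))) 167994)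
 EL.nil)))
noncomputable def S140_154_660_808_23 : EL := (EL.cons 4 (TM.mk (P.cons (P.cons (P.lf 972756747 0 0) (P.cons (P.lf 0 137933670 0) (P.cons (P.lf 59478549 0 0) (P.lf 6608724 0 0)))) (P.cons (P.cons (P.lf 0 131273976 0) (P.cons (P.lf 0 14222037 0) (P.cons (P.lf 6132699 0 0) (P.lf 681405 0 0)))) (P.cons (P.cons (P.lf 0 21935139 0) (P.cons (P.lf 960099 0 0) (P.cons (P.lf 0 414009 0) (P.lf 0 46005 0)))) (P.cons (P.cons (P.lf 684102 0 0) (P.cons (P.lf 156966 0 0) (P.cons (P.lf 0 67680 0) P.nil))) (P.cons (P.cons (P.lf 150531 0 0) (P.cons (P.lf 1164 0 0) P.nil)) (P.cons (P.cons (P.lf 1728 0 0) P.nil) P.nil)))))) 19161)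
 (EL.cons 8 (TM.mk (P.cons (P.cons (P.lf 0 714055776 0) (P.cons (P.lf 101250738 0 0) (P.cons (P.lf 0 43660461 0) (P.lf 0 4851159 0)))) (P.cons (P.cons (P.lf 169092150 0 0) (P.cons (P.lf 126876 0 0) (P.cons (P.lf 0 54708 0) (P.lf 0 6081 0)))) (P.cons (P.cons (P.lf 2686569 0 0) (P.cons (P.lf 0 1257618 0) (P.cons (P.lf 542298 0 0) (P.lf 60252 0 0)))) (P.cons (P.cons (P.lf 0 1432980 0) (P.cons (P.lf 0 22482 0) (P.cons (P.lf 9693 0 0) P.nil))) (P.cons (P.cons (P.lf 0 21075 0) (P.cons (P.lf 5865 0 0) P.nil)) (P.cons (P.cons (P.lf 4881 0 0) P.nil) P.nil)))))) 13857)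
 (EL.cons 11 (TM.mk (P.cons (P.cons (P.lf 0 351167196 0) (P.cons (P.lf 327144732 0 0) (P.cons (P.lf 33575691 0 0) (P.cons (P.lf 0 6982806 0) (P.lf 0 581898 0))))) (P.cons (P.cons (P.lf 0 28878465 0) (P.cons (P.lf 26902962 0 0) (P.cons (P.lf 2761116 0 0) (P.cons (P.lf 0 574233 0) (P.lf 0 47850 0))))) (P.cons (P.cons (P.lf 1388952 0 0) (P.cons (P.lf 0 1293936 0) (P.cons (P.lf 0 132801 0) (P.cons (P.lf 27618 0 0) P.nil)))) (P.cons (P.cons (P.lf 180255 0 0) (P.cons (P.lf 0 167922 0) (P.cons (P.lf 0 17232 0) P.nil))) (P.cons (P.cons (P.lf 2289 0 0) (P.cons (P.lf 0 2133 0) P.nil)) (P.cons (P.cons (P.lf 0 276 0) P.nil) P.nil)))))) 10896)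
 EL.nil)))
noncomputable def S140_154_660_808_24 : EL := (EL.cons 4 (TM.mk (P.cons (P.cons (P.lf 0 232557939 0) (P.cons (P.lf 9929514 0 0) (P.cons (P.lf 0 1013811 0) (P.cons (P.lf 0 3294060 0) (P.cons (P.lf 294498 0 0) (P.cons (P.lf 135030 0 0) P.nil)))))) (P.cons (P.cons (P.lf 61304295 0 0) (P.cons (P.lf 0 1975047 0) (P.cons (P.lf 1790199 0 0) (P.cons (P.lf 0 714783 0) (P.cons (P.lf 84579 0 0) P.nil))))) (P.cons (P.cons (P.lf 0 769881 0) (P.cons (P.lf 480675 0 0) (P.cons (P.lf 0 136116 0) (P.cons (P.lf 0 84396 0) P.nil)))) (P.cons (P.cons (P.lf 0 755784 0) (P.cons (P.lf 159927 0 0) (P.cons (P.lf 0 74025 0) P.nil))) (P.cons (P.cons (P.lf 55131 0 0) (P.cons (P.lf 3981 0 0) P.nil)) (P.cons (P.cons (P.lf 7290 0 0) P.nil) P.nil)))))) 107181)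
 (EL.cons 8 (TM.mk (P.cons (P.cons (P.lf 170710035 0 0) (P.cons (P.lf 0 7288800 0) (P.cons (P.lf 744192 0 0) (P.cons (P.lf 2418018 0 0) (P.cons (P.lf 0 216177 0) (P.cons (P.lf 0 99120 0) P.nil)))))) (P.cons (P.cons (P.lf 0 62388282 0) (P.cons (P.lf 2192190 0 0) (P.cons (P.lf 0 1389900 0) (P.cons (P.lf 278403 0 0) (P.cons (P.lf 0 40065 0) P.nil))))) (P.cons (P.cons (P.lf 6009333 0 0) (P.cons (P.lf 0 537261 0) (P.cons (P.lf 237516 0 0) (P.cons (P.lf 20700 0 0) P.nil)))) (P.cons (P.cons (P.lf 216942 0 0) (P.cons (P.lf 0 71865 0) (P.cons (P.lf 37302 0 0) P.nil))) (P.cons (P.cons (P.lf 0 77001 0) (P.cons (P.lf 6672 0 0) P.nil)) (P.cons (P.cons (P.lf 408 0 0) P.nil) P.nil)))))) 64245)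
 (EL.cons 11 (TM.mk (P.cons (P.cons (P.lf 83953896 0 0) (P.cons (P.lf 0 69891012 0) (P.cons (P.lf 0 19365237 0) (P.cons (P.lf 3817470 0 0) (P.cons (P.lf 1018917 0 0) (P.cons (P.lf 0 19437 0) P.nil)))))) (P.cons (P.cons (P.lf 0 3897354 0) (P.cons (P.lf 5846529 0 0) (P.cons (P.lf 0 2647041 0) (P.cons (P.lf 494592 0 0) (P.cons (P.lf 227856 0 0) P.nil))))) (P.cons (P.cons (P.lf 0 506919 0) (P.cons (P.lf 646434 0 0) (P.cons (P.lf 0 188919 0) (P.cons (P.lf 34893 0 0) P.nil)))) (P.cons (P.cons (P.lf 124800 0 0) (P.cons (P.lf 0 121044 0) (P.cons (P.lf 0 5418 0) P.nil))) (P.cons (P.cons (P.lf 7407 0 0) (P.cons (P.lf 0 8400 0) P.nil)) (P.cons (P.cons (P.lf 0 654 0) P.nil) P.nil)))))) 98298)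
 EL.nil)))
noncomputable def S140_154_660_808_25 : EL := (EL.cons 4 (TM.mk (P.cons (P.cons (P.lf 0 675326106 0) (P.cons (P.lf 95758995 0 0) (P.cons (P.lf 0 41292354 0) (P.lf 0 4588038 0)))) (P.cons (P.cons (P.lf 118480401 0 0) (P.cons (P.lf 5996094 0 0) (P.cons (P.lf 0 2585580 0) (P.lf 0 287280 0)))) (P.cons (P.cons (P.lf 12701457 0 0) (P.cons (P.lf 0 1231296 0) (P.cons (P.lf 530952 0 0) (P.lf 58998 0 0)))) (P.cons (P.cons (P.lf 0 1241772 0) (P.cons (P.lf 0 99954 0) (P.cons (P.lf 43098 0 0) P.nil))) (P.cons (P.cons (P.lf 0 113148 0) (P.cons (P.lf 4752 0 0) P.nil)) (P.cons (P.cons (P.lf 3771 0 0) P.nil) P.nil)))))) 17313)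
 (EL.cons 8 (TM.mk (P.cons (P.cons (P.lf 495725688 0 0) (P.cons (P.lf 0 70292256 0) (P.cons (P.lf 30310812 0 0) (P.lf 3367866 0 0)))) (P.cons (P.cons (P.lf 0 137463015 0) (P.cons (P.lf 2758140 0 0) (P.cons (P.lf 0 1189341 0) (P.lf 0 132147 0)))) (P.cons (P.cons (P.lf 2034156 0 0) (P.cons (P.lf 997749 0 0) (P.cons (P.lf 0 430239 0) (P.lf 0 47802 0)))) (P.cons (P.cons (P.lf 1267617 0 0) (P.cons (P.lf 0 18885 0) (P.cons (P.lf 8142 0 0) P.nil))) (P.cons (P.cons (P.lf 0 20727 0) (P.cons (P.lf 0 6282 0) P.nil)) (P.cons (P.cons (P.lf 0 5787 0) P.nil) P.nil)))))) 12828)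
 (EL.cons 11 (TM.mk (P.cons (P.cons (P.lf 243794121 0 0) (P.cons (P.lf 0 227116776 0) (P.cons (P.lf 0 23309568 0) (P.cons (P.lf 4847739 0 0) (P.lf 403977 0 0))))) (P.cons (P.cons (P.lf 10177029 0 0) (P.cons (P.lf 0 9480843 0) (P.cons (P.lf 0 973041 0) (P.cons (P.lf 202365 0 0) (P.lf 16863 0 0))))) (P.cons (P.cons (P.lf 0 2196054 0) (P.cons (P.lf 2045826 0 0) (P.cons (P.lf 209967 0 0) (P.cons (P.lf 0 43665 0) P.nil)))) (P.cons (P.cons (P.lf 0 123078 0) (P.cons (P.lf 114657 0 0) (P.cons (P.lf 11766 0 0) P.nil))) (P.cons (P.cons (P.lf 5199 0 0) (P.cons (P.lf 0 4842 0) P.nil)) (P.cons (P.cons (P.lf 510 0 0) P.nil) P.nil)))))) 11934)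
 EL.nil)))
noncomputable def S140_154_660_808_26 : EL := (EL.cons 4 (TM.mk (P.cons (P.cons (P.lf 161450895 0 0) (P.cons (P.lf 0 6893460 0) (P.cons (P.lf 703827 0 0) (P.cons (P.lf 2286867 0 0) (P.cons (P.lf 0 204450 0) (P.cons (P.lf 0 93744 0) P.nil)))))) (P.cons (P.cons (P.lf 0 49097217 0) (P.cons (P.lf 1650282 0 0) (P.cons (P.lf 0 1271325 0) (P.cons (P.lf 403632 0 0) (P.cons (P.lf 0 50439 0) P.nil))))) (P.cons (P.cons (P.lf 1979646 0 0) (P.cons (P.lf 0 377349 0) (P.cons (P.lf 143607 0 0) (P.cons (P.lf 34557 0 0) P.nil)))) (P.cons (P.cons (P.lf 574755 0 0) (P.cons (P.lf 0 99810 0) (P.cons (P.lf 49698 0 0) P.nil))) (P.cons (P.cons (P.lf 0 59841 0) (P.cons (P.lf 2283 0 0) P.nil)) (P.cons (P.cons (P.lf 0 4461 0) P.nil) P.nil)))))) 77868)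
 (EL.cons 8 (TM.mk (P.cons (P.cons (P.lf 0 118513641 0) (P.cons (P.lf 5060172 0 0) (P.cons (P.lf 0 516648 0) (P.cons (P.lf 0 1678683 0) (P.cons (P.lf 150078 0 0) (P.cons (P.lf 68811 0 0) P.nil)))))) (P.cons (P.cons (P.lf 48111177 0 0) (P.cons (P.lf 0 1726797 0) (P.cons (P.lf 985845 0 0) (P.cons (P.lf 0 125307 0) (P.cons (P.lf 21738 0 0) P.nil))))) (P.cons (P.cons (P.lf 0 5721522 0) (P.cons (P.lf 425892 0 0) (P.cons (P.lf 0 203073 0) (P.cons (P.lf 0 3651 0) P.nil)))) (P.cons (P.cons (P.lf 0 55110 0) (P.cons (P.lf 37359 0 0) (P.cons (P.lf 0 20877 0) P.nil))) (P.cons (P.cons (P.lf 66180 0 0) (P.cons (P.lf 0 7272 0) P.nil)) (P.cons (P.cons (P.lf 0 2103 0) P.nil) P.nil)))))) 47682)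
 (EL.cons 11 (TM.mk (P.cons (P.cons (P.lf 0 58284105 0) (P.cons (P.lf 48521097 0 0) (P.cons (P.lf 13444113 0 0) (P.cons (P.lf 0 2650236 0) (P.cons (P.lf 0 707373 0) (P.cons (P.lf 13494 0 0) P.nil)))))) (P.cons (P.cons (P.lf 5065695 0 0) (P.cons (P.lf 0 6023571 0) (P.cons (P.lf 1293309 0 0) (P.cons (P.lf 0 236052 0) (P.cons (P.lf 0 129543 0) P.nil))))) (P.cons (P.cons (P.lf 342774 0 0) (P.cons (P.lf 0 368019 0) (P.cons (P.lf 33585 0 0) (P.cons (P.lf 0 5754 0) P.nil)))) (P.cons (P.cons (P.lf 0 104967 0) (P.cons (P.lf 108711 0 0) (P.cons (P.lf 0 4848 0) P.nil))) (P.cons (P.cons (P.lf 0 2328 0) (P.cons (P.lf 3294 0 0) P.nil)) (P.cons (P.cons (P.lf 807 0 0) P.nil) P.nil)))))) 72114)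
 EL.nil)))
noncomputable def S140_154_660_808_27 : EL := (EL.cons 13 (TM.mk (P.lf 0 4294967296 0) 0)
 EL.nil)
noncomputable def S140_154_660_808_28 : EL := (EL.cons 13 (TM.mk (P.cons (P.cons (P.lf 1026802178 0 0) (P.cons (P.lf 101755804 0 0) (P.cons (P.lf 0 43878248 0) (P.lf 0 4875360 0)))) (P.cons (P.cons (P.lf 0 132106562 0) (P.cons (P.lf 18732268 0 0) (P.cons (P.lf 0 8077564 0) (P.lf 0 897504 0)))) (P.cons (P.cons (P.lf 8725222 0 0) (P.cons (P.lf 992476 0 0) (P.cons (P.lf 0 427964 0) (P.lf 0 47548 0)))) (P.cons (P.cons (P.lf 813415 0 0) (P.cons (P.lf 0 13752 0) (P.cons (P.lf 5928 0 0) P.nil))) (P.cons (P.cons (P.lf 0 2901 0) (P.cons (P.lf 0 3024 0) P.nil)) (P.cons (P.cons (P.lf 0 1755 0) P.nil) P.nil)))))) 4414)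
 EL.nil)
noncomputable def S140_154_660_808_29 : EL := (EL.cons 13 (TM.mk (P.cons (P.cons (P.lf 0 245478635 0) (P.cons (P.lf 0 48653726 0) (P.cons (P.lf 18569249 0 0) (P.cons (P.lf 4410229 0 0) (P.cons (P.lf 0 217256 0) (P.cons (P.lf 0 99615 0) P.nil)))))) (P.cons (P.cons (P.lf 63165698 0 0) (P.cons (P.lf 0 2696981 0) (P.cons (P.lf 275363 0 0) (P.cons (P.lf 894707 0 0) (P.cons (P.lf 0 79989 0) P.nil))))) (P.cons (P.cons (P.lf 0 8235289 0) (P.cons (P.lf 264373 0 0) (P.cons (P.lf 0 242728 0) (P.cons (P.lf 98348 0 0) P.nil)))) (P.cons (P.cons (P.lf 147820 0 0) (P.cons (P.lf 0 47022 0) (P.cons (P.lf 12272 0 0) P.nil))) (P.cons (P.cons (P.lf 33700 0 0) (P.cons (P.lf 0 10390 0) P.nil)) (P.cons (P.cons (P.lf 0 2644 0) P.nil) P.nil)))))) 116451)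
 EL.nil)
noncomputable def S140_154_660_808_30 : EL := (EL.cons 13 (TM.mk (P.cons (P.lf 2981735720 0 0) (P.cons (P.lf 0 120734344 0) (P.cons (P.lf 0 5136784 0) (P.cons (P.lf 0 29896 0) (P.cons (P.lf 3204 0 0) (P.cons (P.lf 96 0 0) P.nil)))))) 64)
 EL.nil)
noncomputable def S140_154_660_808_31 : EL := (EL.cons 13 (TM.mk (P.cons (P.cons (P.lf 0 712846576 0) (P.cons (P.lf 0 70642893 0) (P.cons (P.lf 30462010 0 0) (P.lf 3384667 0 0)))) (P.cons (P.cons (P.lf 120577668 0 0) (P.cons (P.lf 0 10144257 0) (P.cons (P.lf 4374317 0 0) (P.lf 486033 0 0)))) (P.cons (P.cons (P.lf 0 8542939 0) (P.cons (P.lf 0 40739 0) (P.cons (P.lf 17565 0 0) (P.lf 1949 0 0)))) (P.cons (P.cons (P.lf 0 470285 0) (P.cons (P.lf 60558 0 0) (P.cons (P.lf 0 26111 0) P.nil))) (P.cons (P.cons (P.lf 33629 0 0) (P.cons (P.lf 2954 0 0) P.nil)) (P.cons (P.cons (P.lf 2246 0 0) P.nil) P.nil)))))) 6730)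
 EL.nil)
noncomputable def S140_154_660_808_32 : EL := (EL.cons 13 (TM.mk (P.cons (P.cons (P.lf 170420951 0 0) (P.cons (P.lf 33777335 0 0) (P.cons (P.lf 0 12891505 0) (P.cons (P.lf 0 3061754 0) (P.cons (P.lf 150827 0 0) (P.cons (P.lf 69156 0 0) P.nil)))))) (P.cons (P.cons (P.lf 0 50752684 0) (P.cons (P.lf 504662 0 0) (P.cons (P.lf 330825 0 0) (P.cons (P.lf 0 497166 0) (P.cons (P.lf 49424 0 0) P.nil))))) (P.cons (P.cons (P.lf 7199299 0 0) (P.cons (P.lf 0 317541 0) (P.cons (P.lf 198460 0 0) (P.cons (P.lf 0 37851 0) P.nil)))) (P.cons (P.cons (P.lf 0 260284 0) (P.cons (P.lf 36511 0 0) (P.cons (P.lf 0 14884 0) P.nil))) (P.cons (P.cons (P.lf 0 28467 0) (P.cons (P.lf 6225 0 0) P.nil)) (P.cons (P.cons (P.lf 2860 0 0) P.nil) P.nil)))))) 94968)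
 EL.nil)
noncomputable def S140_154_660_808_33 : EL := (EL.cons 14 (TM.mk (P.lf 8589934592 0 0) 0)
 EL.nil)
noncomputable def S140_154_660_808_34 : EL := (EL.cons 14 (TM.mk (P.cons (P.cons (P.lf 0 2053604356 0) (P.cons (P.lf 0 203511608 0) (P.cons (P.lf 87756496 0 0) (P.lf 9750720 0 0)))) (P.cons (P.cons (P.lf 264213124 0 0) (P.cons (P.lf 0 37464536 0) (P.cons (P.lf 16155128 0 0) (P.lf 1795008 0 0)))) (P.cons (P.cons (P.lf 0 17450444 0) (P.cons (P.lf 0 1984952 0) (P.cons (P.lf 855928 0 0) (P.lf 95096 0 0)))) (P.cons (P.cons (P.lf 0 1626830 0) (P.cons (P.lf 27504 0 0) (P.cons (P.lf 0 11856 0) P.nil))) (P.cons (P.cons (P.lf 5802 0 0) (P.cons (P.lf 6048 0 0) P.nil)) (P.cons (P.cons (P.lf 3510 0 0) P.nil) P.nil)))))) 8828)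
 EL.nil)
noncomputable def S140_154_660_808_35 : EL := (EL.cons 14 (TM.mk (P.cons (P.cons (P.lf 490957270 0 0) (P.cons (P.lf 97307452 0 0) (P.cons (P.lf 0 37138498 0) (P.cons (P.lf 0 8820458 0) (P.cons (P.lf 434512 0 0) (P.cons (P.lf 199230 0 0) P.nil)))))) (P.cons (P.cons (P.lf 0 126331396 0) (P.cons (P.lf 5393962 0 0) (P.cons (P.lf 0 550726 0) (P.cons (P.lf 0 1789414 0) (P.cons (P.lf 159978 0 0) P.nil))))) (P.cons (P.cons (P.lf 16470578 0 0) (P.cons (P.lf 0 528746 0) (P.cons (P.lf 485456 0 0) (P.cons (P.lf 0 196696 0) P.nil)))) (P.cons (P.cons (P.lf 0 295640 0) (P.cons (P.lf 94044 0 0) (P.cons (P.lf 0 24544 0) P.nil))) (P.cons (P.cons (P.lf 0 67400 0) (P.cons (P.lf 20780 0 0) P.nil)) (P.cons (P.cons (P.lf 5288 0 0) P.nil) P.nil)))))) 232902)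
 EL.nil)
noncomputable def S140_154_660_808_36 : EL := (EL.cons 14 (TM.mk (P.cons (P.lf 0 5963471440 0) (P.cons (P.lf 241468688 0 0) (P.cons (P.lf 10273568 0 0) (P.cons (P.lf 59792 0 0) (P.cons (P.lf 0 6408 0) (P.cons (P.lf 0 192 0) P.nil)))))) 128)
 EL.nil)
noncomputable def S140_154_660_808_37 : EL := (EL.cons 14 (TM.mk (P.cons (P.cons (P.lf 1425693152 0 0) (P.cons (P.lf 141285786 0 0) (P.cons (P.lf 0 60924020 0) (P.lf 0 6769334 0)))) (P.cons (P.cons (P.lf 0 241155336 0) (P.cons (P.lf 20288514 0 0) (P.cons (P.lf 0 8748634 0) (P.lf 0 972066 0)))) (P.cons (P.cons (P.lf 17085878 0 0) (P.cons (P.lf 81478 0 0) (P.cons (P.lf 0 35130 0) (P.lf 0 3898 0)))) (P.cons (P.cons (P.lf 940570 0 0) (P.cons (P.lf 0 121116 0) (P.cons (P.lf 52222 0 0) P.nil))) (P.cons (P.cons (P.lf 0 67258 0) (P.cons (P.lf 0 5908 0) P.nil)) (P.cons (P.cons (P.lf 0 4492 0) P.nil) P.nil)))))) 13460)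
 EL.nil)
noncomputable def S140_154_660_808_38 : EL := (EL.cons 14 (TM.mk (P.cons (P.cons (P.lf 0 340841902 0) (P.cons (P.lf 0 67554670 0) (P.cons (P.lf 25783010 0 0) (P.cons (P.lf 6123508 0 0) (P.cons (P.lf 0 301654 0) (P.cons (P.lf 0 138312 0) P.nil)))))) (P.cons (P.cons (P.lf 101505368 0 0) (P.cons (P.lf 0 1009324 0) (P.cons (P.lf 0 661650 0) (P.cons (P.lf 994332 0 0) (P.cons (P.lf 0 98848 0) P.nil))))) (P.cons (P.cons (P.lf 0 14398598 0) (P.cons (P.lf 635082 0 0) (P.cons (P.lf 0 396920 0) (P.cons (P.lf 75702 0 0) P.nil)))) (P.cons (P.cons (P.lf 520568 0 0) (P.cons (P.lf 0 73022 0) (P.cons (P.lf 29768 0 0) P.nil))) (P.cons (P.cons (P.lf 56934 0 0) (P.cons (P.lf 0 12450 0) P.nil)) (P.cons (P.cons (P.lf 0 5720 0) P.nil) P.nil)))))) 189936)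
 EL.nil)
noncomputable def S140_154_660_808_39 : EL := (EL.cons 14 (TM.mk (P.cons (P.lf 4140077114 0 0) (P.cons (P.lf 0 335274176 0) (P.cons (P.lf 0 7476788 0) (P.cons (P.lf 494572 0 0) (P.cons (P.lf 24546 0 0) (P.cons (P.lf 48 0 0) P.nil)))))) 226)
 EL.nil)
noncomputable def S140_154_660_808_40 : EL := (EL.cons 14 (TM.mk (P.cons (P.cons (P.lf 0 989772424 0) (P.cons (P.lf 0 98086166 0) (P.cons (P.lf 42295858 0 0) (P.lf 4699538 0 0)))) (P.cons (P.cons (P.lf 207496714 0 0) (P.cons (P.lf 0 10113450 0) (P.cons (P.lf 4361032 0 0) (P.lf 484556 0 0)))) (P.cons (P.cons (P.lf 0 16935594 0) (P.cons (P.lf 682734 0 0) (P.cons (P.lf 0 294404 0) (P.lf 0 32714 0)))) (P.cons (P.cons (P.lf 0 451182 0) (P.cons (P.lf 111622 0 0) (P.cons (P.lf 0 48130 0) P.nil))) (P.cons (P.cons (P.lf 90826 0 0) (P.cons (P.lf 830 0 0) P.nil)) (P.cons (P.cons (P.lf 2620 0 0) P.nil) P.nil)))))) 14066)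
 EL.nil)
noncomputable def S140_154_660_808_41 : EL := (EL.cons 14 (TM.mk (P.cons (P.cons (P.lf 236625894 0 0) (P.cons (P.lf 46899116 0 0) (P.cons (P.lf 0 17899582 0) (P.cons (P.lf 0 4251182 0) (P.cons (P.lf 209420 0 0) (P.cons (P.lf 96022 0 0) P.nil)))))) (P.cons (P.cons (P.lf 0 80050320 0) (P.cons (P.lf 0 1198292 0) (P.cons (P.lf 1184122 0 0) (P.cons (P.lf 0 518168 0) (P.cons (P.lf 60144 0 0) P.nil))))) (P.cons (P.cons (P.lf 12441810 0 0) (P.cons (P.lf 0 550068 0) (P.cons (P.lf 287794 0 0) (P.cons (P.lf 0 17280 0) P.nil)))) (P.cons (P.cons (P.lf 0 647124 0) (P.cons (P.lf 66870 0 0) (P.cons (P.lf 0 32436 0) P.nil))) (P.cons (P.cons (P.lf 0 41152 0) (P.cons (P.lf 7392 0 0) P.nil)) (P.cons (P.cons (P.lf 6026 0 0) P.nil) P.nil)))))) 149318)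
 EL.nil)
noncomputable def S140_154_660_808_42 : EL := (EL.cons 14 (TM.mk (P.cons (P.lf 0 2874204844 0) (P.cons (P.lf 349140838 0 0) (P.cons (P.lf 717438 0 0) (P.cons (P.lf 0 925698 0) (P.cons (P.lf 0 17502 0) (P.cons (P.lf 1352 0 0) P.nil)))))) 292)
 EL.nil)
noncomputable def S140_154_660_808_43 : EL := (EL.cons 14 (TM.mk (P.cons (P.cons (P.lf 687139060 0 0) (P.cons (P.lf 68095284 0 0) (P.cons (P.lf 0 29363452 0) (P.lf 0 3262604 0)))) (P.cons (P.cons (P.lf 0 171875556 0) (P.cons (P.lf 4263890 0 0) (P.cons (P.lf 0 1838636 0) (P.lf 0 204290 0)))) (P.cons (P.cons (P.lf 16406458 0 0) (P.cons (P.lf 0 875588 0) (P.cons (P.lf 377564 0 0) (P.lf 41952 0 0)))) (P.cons (P.cons (P.lf 78434 0 0) (P.cons (P.lf 0 71078 0) (P.cons (P.lf 30648 0 0) P.nil))) (P.cons (P.cons (P.lf 0 93810 0) (P.cons (P.lf 3380 0 0) P.nil)) (P.cons (P.cons (P.lf 0 54 0) P.nil) P.nil)))))) 12354)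
 EL.nil)
noncomputable def S140_154_660_808_44 : EL := (EL.cons 14 (TM.mk (P.cons (P.cons (P.lf 0 164275030 0) (P.cons (P.lf 0 32559216 0) (P.cons (P.lf 12426596 0 0) (P.cons (P.lf 2951338 0 0) (P.cons (P.lf 0 145388 0) (P.cons (P.lf 0 66662 0) P.nil)))))) (P.cons (P.cons (P.lf 62225798 0 0) (P.cons (P.lf 2150266 0 0) (P.cons (P.lf 0 1325232 0) (P.cons (P.lf 240230 0 0) (P.cons (P.lf 0 35866 0) P.nil))))) (P.cons (P.cons (P.lf 0 10604856 0) (P.cons (P.lf 404284 0 0) (P.cons (P.lf 0 187920 0) (P.cons (P.lf 0 7652 0) P.nil)))) (P.cons (P.cons (P.lf 704914 0 0) (P.cons (P.lf 0 62994 0) (P.cons (P.lf 31900 0 0) P.nil))) (P.cons (P.cons (P.lf 24524 0 0) (P.cons (P.lf 0 3954 0) P.nil)) (P.cons (P.cons (P.lf 0 5972 0) P.nil) P.nil)))))) 114122)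
 EL.nil)
noncomputable def S140_154_660_808_45 : EL := (EL.cons 14 (TM.mk (P.cons (P.cons (P.lf 0 117373650 0) (P.cons (P.lf 0 34895086 0) (P.cons (P.lf 11589060 0 0) (P.cons (P.lf 4540010 0 0) (P.cons (P.lf 0 163862 0) (P.cons (P.lf 0 190192 0) P.nil)))))) (P.cons (P.cons (P.lf 45303262 0 0) (P.cons (P.lf 2555230 0 0) (P.cons (P.lf 0 1930134 0) (P.cons (P.lf 528820 0 0) (P.cons (P.lf 6966 0 0) P.nil))))) (P.cons (P.cons (P.lf 0 8820774 0) (P.cons (P.lf 141956 0 0) (P.cons (P.lf 0 111440 0) (P.cons (P.lf 21556 0 0) P.nil)))) (P.cons (P.cons (P.lf 740948 0 0) (P.cons (P.lf 0 102200 0) (P.cons (P.lf 42784 0 0) P.nil))) (P.cons (P.cons (P.lf 0 2182 0) (P.cons (P.lf 0 2934 0) P.nil)) (P.cons (P.cons (P.lf 0 5740 0) P.nil) P.nil)))))) 238452)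
 EL.nil)
noncomputable def S140_154_660_808_46 : EL := (EL.cons 15 (TM.mk (P.lf 4294967296 0 0) 0)
 EL.nil)
noncomputable def S140_154_660_808_47 : EL := (EL.cons 15 (TM.mk (P.cons (P.cons (P.lf 0 1026802178 0) (P.cons (P.lf 0 101755804 0) (P.cons (P.lf 43878248 0 0) (P.lf 4875360 0 0)))) (P.cons (P.cons (P.lf 132106562 0 0) (P.cons (P.lf 0 18732268 0) (P.cons (P.lf 8077564 0 0) (P.lf 897504 0 0)))) (P.cons (P.cons (P.lf 0 8725222 0) (P.cons (P.lf 0 992476 0) (P.cons (P.lf 427964 0 0) (P.lf 47548 0 0)))) (P.cons (P.cons (P.lf 0 813415 0) (P.cons (P.lf 13752 0 0) (P.cons (P.lf 0 5928 0) P.nil))) (P.cons (P.cons (P.lf 2901 0 0) (P.cons (P.lf 3024 0 0) P.nil)) (P.cons (P.cons (P.lf 1755 0 0) P.nil) P.nil)))))) 4414)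
 EL.nil)
noncomputable def S140_154_660_808_48 : EL := (EL.cons 15 (TM.mk (P.cons (P.cons (P.lf 245478635 0 0) (P.cons (P.lf 48653726 0 0) (P.cons (P.lf 0 18569249 0) (P.cons (P.lf 0 4410229 0) (P.cons (P.lf 217256 0 0) (P.cons (P.lf 99615 0 0) P.nil)))))) (P.cons (P.cons (P.lf 0 63165698 0) (P.cons (P.lf 2696981 0 0) (P.cons (P.lf 0 275363 0) (P.cons (P.lf 0 894707 0) (P.cons (P.lf 79989 0 0) P.nil))))) (P.cons (P.cons (P.lf 8235289 0 0) (P.cons (P.lf 0 264373 0) (P.cons (P.lf 242728 0 0) (P.cons (P.lf 0 98348 0) P.nil)))) (P.cons (P.cons (P.lf 0 147820 0) (P.cons (P.lf 47022 0 0) (P.cons (P.lf 0 12272 0) P.nil))) (P.cons (P.cons (P.lf 0 33700 0) (P.cons (P.lf 10390 0 0) P.nil)) (P.cons (P.cons (P.lf 2644 0 0) P.nil) P.nil)))))) 116451)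
 EL.nil)
noncomputable def S140_154_660_808 : SL := (SL.cons S140_154_660_808_0 (SL.cons S140_154_660_808_1 (SL.cons S140_154_660_808_2 (SL.cons S140_154_660_808_3 (SL.cons S140_154_660_808_4 (SL.cons S140_154_660_808_5 (SL.cons S140_154_660_808_6 (SL.cons S140_154_660_808_7 (SL.cons S140_154_660_808_8 (SL.cons S140_154_660_808_9 (SL.cons S140_154_660_808_10 (SL.cons S140_154_660_808_11 (SL.cons S140_154_660_808_12 (SL.cons S140_154_660_808_13 (SL.cons S140_154_660_808_14 (SL.cons S140_154_660_808_15 (SL.cons S140_154_660_808_16 (SL.cons S140_154_660_808_17 (SL.cons S140_154_660_808_18 (SL.cons S140_154_660_808_19 (SL.cons S140_154_660_808_20 (SL.cons S140_154_660_808_21 (SL.cons S140_154_660_808_22 (SL.cons S140_154_660_808_23 (SL.cons S140_154_660_808_24 (SL.cons S140_154_660_808_25 (SL.cons S140_154_660_808_26 (SL.cons S140_154_660_808_27 (SL.cons S140_154_660_808_28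 (SL.cons S140_154_660_808_29 (SL.cons S140_154_660_808_30 (SL.cons S140_154_660_808_31 (SL.cons S140_154_660_808_32 (SL.cons S140_154_660_808_33 (SL.cons S140_154_660_808_34 (SL.cons S140_154_660_808_35 (SL.cons S140_154_660_808_36 (SL.cons S140_154_660_808_37 (SL.cons S140_154_660_808_38 (SL.cons S140_154_660_808_39 (SL.cons S140_154_660_808_40 (SL.cons S140_154_660_808_41 (SL.cons S140_154_660_808_42 (SL.cons S140_154_660_808_43 (SL.cons S140_154_660_808_44 (SL.cons S140_154_660_808_45 (SL.cons S140_154_660_808_46 (SL.cons S140_154_660_808_47 (SL.cons S140_154_660_808_48 SL.nil)))))))))))))))))))))))))))))))))))))))))))))))))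
noncomputable def S140_169_216_290_0 : EL := (EL.cons 0 (TM.mk (P.cons (P.lf 5139680571 0 0) (P.cons (P.lf 636245268 0 0) (P.cons (P.lf 21563379 0 0) (P.cons (P.lf 0 4685115 0) (P.cons (P.lf 0 394321 0) (P.cons (P.lf 4352 0 0) P.nil)))))) 3197)
 (EL.cons 1 (TM.mk (P.cons (P.lf 0 1792040857 0) (P.cons (P.lf 0 37383279 0) (P.cons (P.lf 39281548 0 0) (P.cons (P.lf 2177913 0 0) (P.cons (P.lf 0 137038 0) (P.cons (P.lf 0 19477 0) P.nil)))))) 1484)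
 (EL.cons 5 (TM.mk (P.cons (P.lf 5474002426 0 0) (P.cons (P.lf 0 226220540 0) (P.cons (P.lf 0 7666984 0) (P.cons (P.lf 1665814 0 0) (P.cons (P.lf 140204 0 0) (P.cons (P.lf 0 1546 0) P.nil)))))) 969)
 (EL.cons 9 (TM.mk (P.lf 6442450944 0 0) 2)
 EL.nil))))
noncomputable def S140_169_216_290_1 : EL := (EL.cons 0 (TM.mk (P.cons (P.cons (P.lf 0 4178729698 0) (P.cons (P.lf 36671657 0 0) (P.cons (P.lf 17311261 0 0) (P.lf 0 824334 0)))) (P.cons (P.cons (P.lf 1106491383 0 0) (P.cons (P.lf 0 6560169 0) (P.cons (P.lf 0 3096808 0) (P.lf 147477 0 0)))) (P.cons (P.cons (P.lf 393966960 0 0) (P.cons (P.lf 0 6272747 0) (P.cons (P.lf 0 2961121 0) (P.lf 140997 0 0)))) (P.cons (P.cons (P.lf 0 1445457 0) (P.cons (P.lf 0 788163 0) (P.cons (P.lf 0 372056 0) P.nil))) (P.cons (P.cons (P.lf 0 9035526 0) (P.cons (P.lf 60894 0 0) P.nil)) (P.cons (P.cons (P.lf 0 612209 0) P.nil) P.nil))))))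 370708)
 (EL.cons 1 (TM.mk (P.cons (P.cons (P.lf 63367010 0 0) (P.cons (P.lf 9209261 0 0) (P.cons (P.lf 4347334 0 0) (P.lf 0 207007 0)))) (P.cons (P.cons (P.lf 0 930012214 0) (P.cons (P.lf 14037702 0 0) (P.cons (P.lf 6626650 0 0) (P.lf 0 315542 0)))) (P.cons (P.cons (P.lf 1291019 0 0) (P.cons (P.lf 1984869 0 0) (P.cons (P.lf 936976 0 0) (P.lf 0 44610 0)))) (P.cons (P.cons (P.lf 38567415 0 0) (P.cons (P.lf 0 359967 0) (P.cons (P.lf 0 169921 0) P.nil))) (P.cons (P.cons (P.lf 2067153 0 0) (P.cons (P.lf 0 86478 0) P.nil)) (P.cons (P.cons (P.lf 0 513602 0) P.nil) P.nil)))))) 192302)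
 (EL.cons 5 (TM.mk (P.cons (P.cons (P.lf 2378371044 0 0) (P.cons (P.lf 0 68723568 0) (P.cons (P.lf 0 32441730 0) (P.lf 1544844 0 0)))) (P.cons (P.cons (P.lf 842796077 0 0) (P.cons (P.lf 0 17178652 0) (P.cons (P.lf 0 8109374 0) (P.lf 386154 0 0)))) (P.cons (P.cons (P.lf 0 144349364 0) (P.cons (P.lf 429640 0 0) (P.cons (P.lf 202814 0 0) (P.lf 0 9650 0)))) (P.cons (P.cons (P.lf 0 16074700 0) (P.cons (P.lf 391032 0 0) (P.cons (P.lf 184586 0 0) P.nil))) (P.cons (P.cons (P.lf 2398899 0 0) (P.cons (P.lf 6540 0 0) P.nil)) (P.cons (P.cons (P.lf 308100 0 0) P.nil) P.nil)))))) 129413)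
 (EL.cons 9 (TM.mk (P.cons (P.cons (P.lf 787588656 0 0) (P.cons (P.lf 0 49133604 0) (P.cons (P.lf 0 23194068 0) (P.lf 1104474 0 0)))) (P.cons (P.cons (P.lf 1090778137 0 0) (P.cons (P.lf 0 17215722 0) (P.cons (P.lf 0 8126874 0) (P.lf 386988 0 0)))) (P.cons (P.cons (P.lf 0 3769606 0) (P.cons (P.lf 0 1588824 0) (P.cons (P.lf 0 750018 0) (P.lf 35712 0 0)))) (P.cons (P.cons (P.lf 0 14637024 0) (P.cons (P.lf 97764 0 0) (P.cons (P.lf 46146 0 0) P.nil))) (P.cons (P.cons (P.lf 0 717987 0) (P.cons (P.lf 24870 0 0) P.nil)) (P.cons (P.cons (P.lf 79786 0 0) P.nil) P.nil)))))) 33311)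
 (EL.cons 2 (TM.mk (P.cons (P.cons (P.lf 182856313 0 0) (P.cons (P.lf 180304034 0 0) (P.cons (P.lf 0 5641886 0) (P.cons (P.lf 0 1033849 0) (P.lf 36922 0 0))))) (P.cons (P.cons (P.lf 25171278 0 0) (P.cons (P.lf 24819941 0 0) (P.cons (P.lf 0 776638 0) (P.cons (P.lf 0 142315 0) (P.lf 5082 0 0))))) (P.cons (P.cons (P.lf 0 4086061 0) (P.cons (P.lf 0 4029030 0) (P.cons (P.lf 126073 0 0) (P.cons (P.lf 23101 0 0) P.nil)))) (P.cons (P.cons (P.lf 0 797422 0) (P.cons (P.lf 0 786293 0) (P.cons (P.lf 24600 0 0) P.nil))) (P.cons (P.cons (P.lf 0 5259 0) (P.cons (P.lf 0 5186 0) P.nil)) (P.cons (P.cons (P.lf 6496 0 0) P.nil) P.nil)))))) 16932)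
 (EL.cons 6 (TM.mk (P.cons (P.cons (P.lf 98818575 0 0) (P.cons (P.lf 97439283 0 0) (P.cons (P.lf 0 3048969 0) (P.cons (P.lf 0 558708 0) (P.lf 19953 0 0))))) (P.cons (P.cons (P.lf 34624644 0 0) (P.cons (P.lf 34141359 0 0) (P.cons (P.lf 0 1068315 0) (P.cons (P.lf 0 195762 0) (P.lf 6990 0 0))))) (P.cons (P.cons (P.lf 3195483 0 0) (P.cons (P.lf 3150879 0 0) (P.cons (P.lf 0 98592 0) (P.cons (P.lf 0 18066 0) P.nil)))) (P.cons (P.cons (P.lf 0 196626 0) (P.cons (P.lf 0 193881 0) (P.cons (P.lf 6066 0 0) P.nil))) (P.cons (P.cons (P.lf 0 50022 0) (P.cons (P.lf 0 49323 0) P.nil)) (P.cons (P.cons (P.lf 0 1680 0) P.nil) P.nil)))))) 8826)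
 EL.nil))))))
noncomputable def S140_169_216_290_2 : EL := (EL.cons 0 (TM.mk (P.cons (P.cons (P.lf 0 1098510797 0) (P.cons (P.lf 82288579 0 0) (P.cons (P.lf 37986943 0 0) (P.cons (P.lf 0 2660096 0) (P.cons (P.lf 0 152674 0) (P.cons (P.lf 18214 0 0) P.nil)))))) (P.cons (P.cons (P.lf 0 1366746908 0) (P.cons (P.lf 34087298 0 0) (P.cons (P.lf 15748852 0 0) (P.cons (P.lf 0 1089518 0) (P.cons (P.lf 0 60911 0) P.nil))))) (P.cons (P.cons (P.lf 302636769 0 0) (P.cons (P.lf 0 6645895 0) (P.cons (P.lf 0 3107857 0) (P.cons (P.lf 177183 0 0) P.nil)))) (P.cons (P.cons (P.lf 135648549 0 0) (P.cons (P.lf 0 4346414 0) (P.cons (P.lf 0 2014994 0) P.nil))) (P.cons (P.cons (P.lf 0 3099385 0) (P.cons (P.lf 0 342906 0) P.nil)) (P.cons (P.cons (P.lf 0 4510415 0) P.nil) P.nil)))))) 1901434)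
 (EL.cons 1 (TM.mk (P.cons (P.cons (P.lf 42275308 0 0) (P.cons (P.lf 0 2056477 0) (P.cons (P.lf 0 1007022 0) (P.cons (P.lf 12021 0 0) (P.cons (P.lf 0 6446 0) (P.cons (P.lf 769 0 0) P.nil)))))) (P.cons (P.cons (P.lf 0 131187321 0) (P.cons (P.lf 14529031 0 0) (P.cons (P.lf 6670474 0 0) (P.cons (P.lf 0 504201 0) (P.cons (P.lf 0 33459 0) P.nil))))) (P.cons (P.cons (P.lf 0 262606023 0) (P.cons (P.lf 8386106 0 0) (P.cons (P.lf 3867684 0 0) (P.cons (P.lf 0 274473 0) P.nil)))) (P.cons (P.cons (P.lf 8724371 0 0) (P.cons (P.lf 411430 0 0) (P.cons (P.lf 183085 0 0) P.nil))) (P.cons (P.cons (P.lf 15111848 0 0) (P.cons (P.lf 0 398212 0) P.nil)) (P.cons (P.cons (P.lf 618515 0 0) P.nil) P.nil)))))) 1016517)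
 (EL.cons 5 (TM.mk (P.cons (P.cons (P.lf 499701896 0 0) (P.cons (P.lf 0 42873062 0) (P.cons (P.lf 0 19508852 0) (P.cons (P.lf 1652805 0 0) (P.cons (P.lf 129825 0 0) (P.cons (P.lf 0 15481 0) P.nil)))))) (P.cons (P.cons (P.lf 788208707 0 0) (P.cons (P.lf 0 35746480 0) (P.cons (P.lf 0 16455169 0) (P.cons (P.lf 1199460 0 0) (P.cons (P.lf 74586 0 0) P.nil))))) (P.cons (P.cons (P.lf 100656166 0 0) (P.cons (P.lf 0 4619021 0) (P.cons (P.lf 0 2111313 0) (P.cons (P.lf 169109 0 0) P.nil)))) (P.cons (P.cons (P.lf 0 53733173 0) (P.cons (P.lf 1238593 0 0) (P.cons (P.lf 579546 0 0) P.nil))) (P.cons (P.cons (P.lf 0 4711735 0) (P.cons (P.lf 269506 0 0) P.nil)) (P.cons (P.cons (P.lf 1369673 0 0) P.nil) P.nil)))))) 843121)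
 (EL.cons 9 (TM.mk (P.cons (P.cons (P.lf 96282594 0 0) (P.cons (P.lf 0 12013150 0) (P.cons (P.lf 0 5296222 0) (P.cons (P.lf 623823 0 0) (P.cons (P.lf 66655 0 0) (P.cons (P.lf 0 7951 0) P.nil)))))) (P.cons (P.cons (P.lf 266694925 0 0) (P.cons (P.lf 0 20846962 0) (P.cons (P.lf 0 9578449 0) (P.cons (P.lf 716536 0 0) (P.cons (P.lf 46710 0 0) P.nil))))) (P.cons (P.cons (P.lf 183759124 0 0) (P.cons (P.lf 0 6160591 0) (P.cons (P.lf 0 2837935 0) (P.cons (P.lf 204795 0 0) P.nil)))) (P.cons (P.cons (P.lf 0 4855219 0) (P.cons (P.lf 0 270700 0) (P.cons (P.lf 0 120786 0) P.nil))) (P.cons (P.cons (P.lf 0 5129761 0) (P.cons (P.lf 130222 0 0) P.nil)) (P.cons (P.cons (P.lf 0 206488 0) P.nil) P.nil)))))) 234271)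
 (EL.cons 2 (TM.mk (P.cons (P.cons (P.lf 44708310 0 0) (P.cons (P.lf 41295155 0 0) (P.cons (P.lf 0 5446265 0) (P.cons (P.lf 0 1402278 0) (P.cons (P.lf 127237 0 0) (P.cons (P.lf 4944 0 0) P.nil)))))) (P.cons (P.cons (P.lf 68073558 0 0) (P.cons (P.lf 65762190 0 0) (P.cons (P.lf 0 4085133 0) (P.cons (P.lf 0 945883 0) (P.cons (P.lf 71437 0 0) P.nil))))) (P.cons (P.cons (P.lf 7310520 0 0) (P.cons (P.lf 7046088 0 0) (P.cons (P.lf 0 462341 0) (P.cons (P.lf 0 108258 0) P.nil)))) (P.cons (P.cons (P.lf 0 2438943 0) (P.cons (P.lf 0 2377766 0) (P.cons (P.lf 114817 0 0) P.nil))) (P.cons (P.cons (P.lf 0 421661 0) (P.cons (P.lf 0 407244 0) P.nil)) (P.cons (P.cons (P.lf 18225 0 0) P.nil) P.nil)))))) 179695)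
 (EL.cons 6 (TM.mk (P.cons (P.cons (P.lf 24161106 0 0) (P.cons (P.lf 22316586 0 0) (P.cons (P.lf 0 2943252 0) (P.cons (P.lf 0 757812 0) (P.cons (P.lf 68760 0 0) (P.cons (P.lf 2670 0 0) P.nil)))))) (P.cons (P.cons (P.lf 41927868 0 0) (P.cons (P.lf 40286376 0 0) (P.cons (P.lf 0 2833788 0) (P.cons (P.lf 0 672378 0) (P.cons (P.lf 53232 0 0) P.nil))))) (P.cons (P.cons (P.lf 12390318 0 0) (P.cons (P.lf 11934846 0 0) (P.cons (P.lf 0 794250 0) (P.cons (P.lf 0 186492 0) P.nil)))) (P.cons (P.cons (P.lf 544440 0 0) (P.cons (P.lf 508686 0 0) (P.cons (P.lf 0 57852 0) P.nil))) (P.cons (P.cons (P.lf 0 261906 0) (P.cons (P.lf 0 256200 0) P.nil)) (P.cons (P.cons (P.lf 0 36906 0) P.nil) P.nil)))))) 131118)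
 EL.nil))))))
noncomputable def S140_169_216_290_3 : EL := (EL.cons 0 (TM.mk (P.cons (P.lf 3316036292 0 0) (P.cons (P.lf 0 636245268 0) (P.cons (P.lf 0 21563379 0) (P.cons (P.lf 4685115 0 0) (P.cons (P.lf 394321 0 0) (P.cons (P.lf 0 4352 0) P.nil)))))) 3197)
 (EL.cons 1 (TM.mk (P.cons (P.lf 1792040857 0 0) (P.cons (P.lf 37383279 0 0) (P.cons (P.lf 0 39281548 0) (P.cons (P.lf 0 2177913 0) (P.cons (P.lf 137038 0 0) (P.cons (P.lf 19477 0 0) P.nil)))))) 1484)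
 (EL.cons 5 (TM.mk (P.cons (P.lf 968448518 0 0) (P.cons (P.lf 226220540 0 0) (P.cons (P.lf 7666984 0 0) (P.cons (P.lf 0 1665814 0) (P.cons (P.lf 0 140204 0) (P.cons (P.lf 1546 0 0) P.nil)))))) 962)
 EL.nil)))
noncomputable def S140_169_216_290_4 : EL := (EL.cons 0 (TM.mk (P.cons (P.cons (P.lf 405384936 0 0) (P.cons (P.lf 0 25289878 0) (P.cons (P.lf 0 11938369 0) (P.lf 568490 0 0)))) (P.cons (P.cons (P.lf 483660699 0 0) (P.cons (P.lf 0 4008867 0) (P.cons (P.lf 0 1892429 0) (P.lf 90112 0 0)))) (P.cons (P.cons (P.lf 0 112299753 0) (P.cons (P.lf 1046854 0 0) (P.cons (P.lf 494180 0 0) (P.lf 0 23531 0)))) (P.cons (P.cons (P.lf 0 10239802 0) (P.cons (P.lf 229120 0 0) (P.cons (P.lf 108156 0 0) P.nil))) (P.cons (P.cons (P.lf 1930030 0 0) (P.cons (P.lf 0 7062 0) P.nil)) (P.cons (P.cons (P.lf 224455 0 0) P.nil) P.nil)))))) 72463)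
 (EL.cons 1 (TM.mk (P.cons (P.cons (P.lf 219076723 0 0) (P.cons (P.lf 0 13667068 0) (P.cons (P.lf 0 6451691 0) (P.lf 307220 0 0)))) (P.cons (P.cons (P.lf 307982418 0 0) (P.cons (P.lf 0 5073853 0) (P.cons (P.lf 0 2395168 0) (P.lf 114052 0 0)))) (P.cons (P.cons (P.lf 478680 0 0) (P.cons (P.lf 0 242263 0) (P.cons (P.lf 0 114361 0) (P.lf 5445 0 0)))) (P.cons (P.cons (P.lf 0 11010376 0) (P.cons (P.lf 139552 0 0) (P.cons (P.lf 65876 0 0) P.nil))) (P.cons (P.cons (P.lf 0 613657 0) (P.cons (P.lf 21946 0 0) P.nil)) (P.cons (P.cons (P.lf 134130 0 0) P.nil) P.nil)))))) 48084)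
 (EL.cons 5 (TM.mk (P.cons (P.cons (P.lf 118392684 0 0) (P.cons (P.lf 0 7385910 0) (P.cons (P.lf 0 3486600 0) (P.lf 166026 0 0)))) (P.cons (P.cons (P.lf 191624462 0 0) (P.cons (P.lf 0 4313198 0) (P.cons (P.lf 0 2036092 0) (P.lf 96954 0 0)))) (P.cons (P.cons (P.lf 38672266 0 0) (P.cons (P.lf 0 901822 0) (P.cons (P.lf 0 425714 0) (P.lf 20270 0 0)))) (P.cons (P.cons (P.lf 0 1238186 0) (P.cons (P.lf 0 48876 0) (P.cons (P.lf 0 23072 0) P.nil))) (P.cons (P.cons (P.lf 0 925560 0) (P.cons (P.lf 10800 0 0) P.nil)) (P.cons (P.cons (P.lf 0 53210 0) P.nil) P.nil)))))) 22854)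
 EL.nil)))
noncomputable def S140_169_216_290_5 : EL := (EL.cons 0 (TM.mk (P.cons (P.cons (P.lf 49558246 0 0) (P.cons (P.lf 0 6183367 0) (P.cons (P.lf 0 2726052 0) (P.cons (P.lf 321090 0 0) (P.cons (P.lf 34307 0 0) (P.cons (P.lf 0 4092 0) P.nil)))))) (P.cons (P.cons (P.lf 127763595 0 0) (P.cons (P.lf 0 9543877 0) (P.cons (P.lf 0 4407140 0) (P.cons (P.lf 307204 0 0) (P.cons (P.lf 17458 0 0) P.nil))))) (P.cons (P.cons (P.lf 67923274 0 0) (P.cons (P.lf 0 1071938 0) (P.cons (P.lf 0 497053 0) (P.cons (P.lf 32558 0 0) P.nil)))) (P.cons (P.cons (P.lf 0 21469422 0) (P.cons (P.lf 530114 0 0) (P.cons (P.lf 246306 0 0) P.nil))) (P.cons (P.cons (P.lf 0 2576095 0) (P.cons (P.lf 98484 0 0) P.nil)) (P.cons (P.cons (P.lf 566465 0 0) P.nil) P.nil)))))) 286046)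
 (EL.cons 1 (TM.mk (P.cons (P.cons (P.lf 26782095 0 0) (P.cons (P.lf 0 3341593 0) (P.cons (P.lf 0 1473202 0) (P.cons (P.lf 173521 0 0) (P.cons (P.lf 18540 0 0) (P.cons (P.lf 0 2210 0) P.nil)))))) (P.cons (P.cons (P.lf 74742913 0 0) (P.cons (P.lf 0 5868525 0) (P.cons (P.lf 0 2695085 0) (P.cons (P.lf 202931 0 0) (P.cons (P.lf 13378 0 0) P.nil))))) (P.cons (P.cons (P.lf 52075158 0 0) (P.cons (P.lf 0 1761356 0) (P.cons (P.lf 0 812690 0) (P.cons (P.lf 57318 0 0) P.nil)))) (P.cons (P.cons (P.lf 0 1942910 0) (P.cons (P.lf 20124 0 0) (P.cons (P.lf 10126 0 0) P.nil))) (P.cons (P.cons (P.lf 0 2663617 0) (P.cons (P.lf 79005 0 0) P.nil)) (P.cons (P.cons (P.lf 0 113756 0) P.nil) P.nil)))))) 175030)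
 (EL.cons 5 (TM.mk (P.cons (P.cons (P.lf 14473486 0 0) (P.cons (P.lf 0 1805852 0) (P.cons (P.lf 0 796142 0) (P.cons (P.lf 93774 0 0) (P.cons (P.lf 10018 0 0) (P.cons (P.lf 0 1194 0) P.nil)))))) (P.cons (P.cons (P.lf 43471250 0 0) (P.cons (P.lf 0 3555606 0) (P.cons (P.lf 0 1625832 0) (P.cons (P.lf 129616 0 0) (P.cons (P.lf 9360 0 0) P.nil))))) (P.cons (P.cons (P.lf 37102542 0 0) (P.cons (P.lf 0 1672394 0) (P.cons (P.lf 0 769246 0) (P.cons (P.lf 56686 0 0) P.nil)))) (P.cons (P.cons (P.lf 6015166 0 0) (P.cons (P.lf 0 278718 0) (P.cons (P.lf 0 127836 0) P.nil))) (P.cons (P.cons (P.lf 0 793974 0) (P.cons (P.lf 8388 0 0) P.nil)) (P.cons (P.cons (P.lf 0 270238 0) P.nil) P.nil)))))) 108558)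
 EL.nil)))
noncomputable def S140_169_216_290_6 : EL := (EL.cons 12 (TM.mk (P.lf 8589934592 0 0) 0)
 (EL.cons 3 (TM.mk (P.cons (P.lf 0 2668545243 0) (P.cons (P.lf 256005836 0 0) (P.cons (P.lf 20956361 0 0) (P.cons (P.lf 125291 0 0) (P.cons (P.lf 0 64357 0) (P.cons (P.lf 0 3438 0) P.nil)))))) 378)
 (EL.cons 7 (TM.mk (P.cons (P.lf 0 1442125985 0) (P.cons (P.lf 0 168433589 0) (P.cons (P.lf 4127638 0 0) (P.cons (P.lf 758202 0 0) (P.cons (P.lf 21743 0 0) (P.cons (P.lf 0 1521 0) P.nil)))))) 224)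
 EL.nil)))
noncomputable def S140_169_216_290_7 : EL := (EL.cons 12 (TM.mk (P.cons (P.cons (P.lf 1050118208 0 0) (P.cons (P.lf 0 65511472 0) (P.cons (P.lf 0 30925424 0) (P.lf 1472632 0 0)))) (P.cons (P.cons (P.lf 1454370850 0 0) (P.cons (P.lf 0 22954296 0) (P.cons (P.lf 0 10835832 0) (P.lf 515984 0 0)))) (P.cons (P.cons (P.lf 0 5026142 0) (P.cons (P.lf 0 2118432 0) (P.cons (P.lf 0 1000024 0) (P.lf 47616 0 0)))) (P.cons (P.cons (P.lf 0 19516032 0) (P.cons (P.lf 130352 0 0) (P.cons (P.lf 61528 0 0) P.nil))) (P.cons (P.cons (P.lf 0 957316 0) (P.cons (P.lf 33160 0 0) P.nil)) (P.cons (P.cons (P.lf 106382 0 0) P.nil) P.nil)))))) 44390)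
 (EL.cons 3 (TM.mk (P.cons (P.cons (P.lf 3542197472 0 0) (P.cons (P.lf 0 40703526 0) (P.cons (P.lf 0 19214554 0) (P.lf 914972 0 0)))) (P.cons (P.cons (P.lf 0 176957384 0) (P.cons (P.lf 0 10357064 0) (P.cons (P.lf 0 4889166 0) (P.lf 232810 0 0)))) (P.cons (P.cons (P.lf 0 129437304 0) (P.cons (P.lf 371640 0 0) (P.cons (P.lf 175440 0 0) (P.lf 0 8354 0)))) (P.cons (P.cons (P.lf 0 11456836 0) (P.cons (P.lf 321172 0 0) (P.cons (P.lf 151608 0 0) P.nil))) (P.cons (P.cons (P.lf 1197221 0 0) (P.cons (P.lf 22856 0 0) P.nil)) (P.cons (P.cons (P.lf 234199 0 0) P.nil) P.nil)))))) 131506)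
 (EL.cons 7 (TM.mk (P.cons (P.cons (P.lf 0 2721448699 0) (P.cons (P.lf 51168466 0 0) (P.cons (P.lf 24154647 0 0) (P.lf 0 1150224 0)))) (P.cons (P.cons (P.lf 116425336 0 0) (P.cons (P.lf 6814216 0 0) (P.cons (P.lf 3216727 0 0) (P.lf 0 153179 0)))) (P.cons (P.cons (P.lf 72776943 0 0) (P.cons (P.lf 0 969305 0) (P.cons (P.lf 0 457570 0) (P.lf 21786 0 0)))) (P.cons (P.cons (P.lf 0 3769132 0) (P.cons (P.lf 0 131534 0) (P.cons (P.lf 0 62093 0) P.nil))) (P.cons (P.cons (P.lf 0 1216164 0) (P.cons (P.lf 12074 0 0) P.nil)) (P.cons (P.cons (P.lf 0 7370 0) P.nil) P.nil)))))) 85141)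
 (EL.cons 10 (TM.mk (P.cons (P.cons (P.lf 0 294303381 0) (P.cons (P.lf 0 290195544 0) (P.cons (P.lf 9080499 0 0) (P.cons (P.lf 1663962 0 0) (P.lf 0 59427 0))))) (P.cons (P.cons (P.lf 0 68746524 0) (P.cons (P.lf 0 67786971 0) (P.cons (P.lf 2121117 0 0) (P.cons (P.lf 388686 0 0) (P.lf 0 13881 0))))) (P.cons (P.cons (P.lf 0 2329932 0) (P.cons (P.lf 0 2297409 0) (P.cons (P.lf 71886 0 0) (P.cons (P.lf 13173 0 0) P.nil)))) (P.cons (P.cons (P.lf 506226 0 0) (P.cons (P.lf 499161 0 0) (P.cons (P.lf 0 15618 0) P.nil))) (P.cons (P.cons (P.lf 42606 0 0) (P.cons (P.lf 42012 0 0) P.nil)) (P.cons (P.cons (P.lf 0 468 0) P.nil) P.nil)))))) 6171)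
 EL.nil))))
noncomputable def S140_169_216_290_8 : EL := (EL.cons 12 (TM.mk (P.cons (P.cons (P.lf 128376792 0 0) (P.cons (P.lf 0 16017534 0) (P.cons (P.lf 0 7061630 0) (P.cons (P.lf 831764 0 0) (P.cons (P.lf 88874 0 0) (P.cons (P.lf 0 10602 0) P.nil)))))) (P.cons (P.cons (P.lf 355593234 0 0) (P.cons (P.lf 0 27795950 0) (P.cons (P.lf 0 12771266 0) (P.cons (P.lf 955382 0 0) (P.cons (P.lf 62280 0 0) P.nil))))) (P.cons (P.cons (P.lf 245012166 0 0) (P.cons (P.lf 0 8214122 0) (P.cons (P.lf 0 3783914 0) (P.cons (P.lf 273060 0 0) P.nil)))) (P.cons (P.cons (P.lf 0 6473626 0) (P.cons (P.lf 0 360934 0) (P.cons (P.lf 0 161048 0) P.nil))) (P.cons (P.cons (P.lf 0 6839682 0) (P.cons (P.lf 173630 0 0) P.nil)) (P.cons (P.cons (P.lf 0 275318 0) P.nil) P.nil)))))) 312332)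
 (EL.cons 3 (TM.mk (P.cons (P.cons (P.lf 905947689 0 0) (P.cons (P.lf 0 68957411 0) (P.cons (P.lf 0 31776048 0) (P.cons (P.lf 2282792 0 0) (P.cons (P.lf 138045 0 0) (P.cons (P.lf 0 16471 0) P.nil)))))) (P.cons (P.cons (P.lf 1262842741 0 0) (P.cons (P.lf 0 40705119 0) (P.cons (P.lf 0 18745907 0) (P.cons (P.lf 1358167 0 0) (P.cons (P.lf 83496 0 0) P.nil))))) (P.cons (P.cons (P.lf 0 30509856 0) (P.cons (P.lf 0 3880025 0) (P.cons (P.lf 0 1744399 0) (P.cons (P.lf 169541 0 0) P.nil)))) (P.cons (P.cons (P.lf 0 72702520 0) (P.cons (P.lf 1663477 0 0) (P.cons (P.lf 781490 0 0) P.nil))) (P.cons (P.cons (P.lf 0 5954637 0) (P.cons (P.lf 383856 0 0) P.nil)) (P.cons (P.cons (P.lf 1324651 0 0) P.nil) P.nil)))))) 995773)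
 (EL.cons 7 (TM.mk (P.cons (P.cons (P.lf 0 643840773 0) (P.cons (P.lf 51332030 0 0) (P.cons (P.lf 23535257 0 0) (P.cons (P.lf 0 1811565 0) (P.cons (P.lf 0 123910 0) (P.cons (P.lf 14781 0 0) P.nil)))))) (P.cons (P.cons (P.lf 0 830860499 0) (P.cons (P.lf 26781068 0 0) (P.cons (P.lf 12333471 0 0) (P.cons (P.lf 0 893578 0) (P.cons (P.lf 0 54930 0) P.nil))))) (P.cons (P.cons (P.lf 108447758 0 0) (P.cons (P.lf 0 295781 0) (P.cons (P.lf 0 164149 0) (P.cons (P.lf 0 16506 0) P.nil)))) (P.cons (P.cons (P.lf 39487386 0 0) (P.cons (P.lf 0 1279239 0) (P.cons (P.lf 0 595305 0) P.nil))) (P.cons (P.cons (P.lf 0 3005933 0) (P.cons (P.lf 0 68983 0) P.nil)) (P.cons (P.cons (P.lf 0 1032989 0) P.nil) P.nil)))))) 476230)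
 (EL.cons 10 (TM.mk (P.cons (P.cons (P.lf 0 71957082 0) (P.cons (P.lf 0 66463686 0) (P.cons (P.lf 8765652 0 0) (P.cons (P.lf 2256942 0 0) (P.cons (P.lf 0 204792 0) (P.cons (P.lf 0 7956 0) P.nil)))))) (P.cons (P.cons (P.lf 0 116466132 0) (P.cons (P.lf 0 112219026 0) (P.cons (P.lf 7415868 0 0) (P.cons (P.lf 1738902 0 0) (P.cons (P.lf 0 134622 0) P.nil))))) (P.cons (P.cons (P.lf 0 23504352 0) (P.cons (P.lf 0 22628166 0) (P.cons (P.lf 1524408 0 0) (P.cons (P.lf 358788 0 0) P.nil)))) (P.cons (P.cons (P.lf 752544 0 0) (P.cons (P.lf 771750 0 0) (P.cons (P.lf 20094 0 0) P.nil))) (P.cons (P.cons (P.lf 562536 0 0) (P.cons (P.lf 548124 0 0) P.nil)) (P.cons (P.cons (P.lf 32340 0 0) P.nil) P.nil)))))) 197124)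
 EL.nil))))
noncomputable def S140_169_216_290_9 : EL := (EL.cons 3 (TM.mk (P.cons (P.lf 0 2668545243 0) (P.cons (P.lf 256005836 0 0) (P.cons (P.lf 20956361 0 0) (P.cons (P.lf 125291 0 0) (P.cons (P.lf 0 64357 0) (P.cons (P.lf 0 3438 0) P.nil)))))) 378)
 (EL.cons 7 (TM.mk (P.cons (P.lf 0 1442125985 0) (P.cons (P.lf 0 168433589 0) (P.cons (P.lf 4127638 0 0) (P.cons (P.lf 758202 0 0) (P.cons (P.lf 21743 0 0) (P.cons (P.lf 0 1521 0) P.nil)))))) 224)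
 EL.nil))
noncomputable def S140_169_216_290_10 : EL := (EL.cons 3 (TM.mk (P.cons (P.cons (P.lf 0 326229253 0) (P.cons (P.lf 20351763 0 0) (P.cons (P.lf 9607277 0 0) (P.lf 0 457486 0)))) (P.cons (P.cons (P.lf 0 420517523 0) (P.cons (P.lf 5178532 0 0) (P.cons (P.lf 2444583 0 0) (P.lf 0 116405 0)))) (P.cons (P.cons (P.lf 47467947 0 0) (P.cons (P.lf 0 185820 0) (P.cons (P.lf 0 87720 0) (P.lf 4177 0 0)))) (P.cons (P.cons (P.lf 9476507 0 0) (P.cons (P.lf 0 160586 0) (P.cons (P.lf 0 75804 0) P.nil))) (P.cons (P.cons (P.lf 0 283153 0) (P.cons (P.lf 0 11428 0) P.nil)) (P.cons (P.cons (P.lf 0 120581 0) P.nil) P.nil)))))) 31644)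
 (EL.cons 7 (TM.mk (P.cons (P.cons (P.lf 0 176299684 0) (P.cons (P.lf 10998430 0 0) (P.cons (P.lf 5191932 0 0) (P.lf 0 247233 0)))) (P.cons (P.cons (P.lf 0 264758846 0) (P.cons (P.lf 5138260 0 0) (P.cons (P.lf 2425573 0 0) (P.lf 0 115502 0)))) (P.cons (P.cons (P.lf 0 27169248 0) (P.cons (P.lf 774268 0 0) (P.cons (P.lf 365501 0 0) (P.lf 0 17403 0)))) (P.cons (P.cons (P.lf 4166558 0 0) (P.cons (P.lf 2842 0 0) (P.cons (P.lf 1342 0 0) P.nil))) (P.cons (P.cons (P.lf 672009 0 0) (P.cons (P.lf 0 11332 0) P.nil)) (P.cons (P.cons (P.lf 0 5414 0) P.nil) P.nil)))))) 18459)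
 EL.nil))
noncomputable def S140_169_216_290_11 : EL := (EL.cons 3 (TM.mk (P.cons (P.cons (P.lf 0 39881475 0) (P.cons (P.lf 4975999 0 0) (P.cons (P.lf 2193762 0 0) (P.cons (P.lf 0 258394 0) (P.cons (P.lf 0 27609 0) (P.cons (P.lf 3293 0 0) P.nil)))))) (P.cons (P.cons (P.lf 0 106642421 0) (P.cons (P.lf 8157705 0 0) (P.cons (P.lf 3757057 0 0) (P.cons (P.lf 0 272009 0) (P.cons (P.lf 0 16698 0) P.nil))))) (P.cons (P.cons (P.lf 0 65204430 0) (P.cons (P.lf 1684315 0 0) (P.cons (P.lf 777659 0 0) (P.cons (P.lf 0 54325 0) P.nil)))) (P.cons (P.cons (P.lf 10182584 0 0) (P.cons (P.lf 0 200723 0) (P.cons (P.lf 0 94000 0) P.nil))) (P.cons (P.cons (P.lf 2533845 0 0) (P.cons (P.lf 0 85020 0) P.nil)) (P.cons (P.cons (P.lf 0 133247 0) P.nil) P.nil)))))) 170637)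
 (EL.cons 7 (TM.mk (P.cons (P.cons (P.lf 0 21552609 0) (P.cons (P.lf 2689112 0 0) (P.cons (P.lf 1185545 0 0) (P.cons (P.lf 0 139641 0) (P.cons (P.lf 0 14920 0) (P.cons (P.lf 1779 0 0) P.nil)))))) (P.cons (P.cons (P.lf 0 62216213 0) (P.cons (P.lf 4980614 0 0) (P.cons (P.lf 2282577 0 0) (P.cons (P.lf 0 176704 0) (P.cons (P.lf 0 12198 0) P.nil))))) (P.cons (P.cons (P.lf 0 48044878 0) (P.cons (P.lf 1916365 0 0) (P.cons (P.lf 882293 0 0) (P.cons (P.lf 0 64176 0) P.nil)))) (P.cons (P.cons (P.lf 0 3535230 0) (P.cons (P.lf 206889 0 0) (P.cons (P.lf 94473 0 0) P.nil))) (P.cons (P.cons (P.lf 1424665 0 0) (P.cons (P.lf 0 28513 0) P.nil)) (P.cons (P.cons (P.lf 199729 0 0) P.nil) P.nil)))))) 88344)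
 EL.nil))
noncomputable def S140_169_216_290_12 : EL := (EL.cons 4 (TM.mk (P.cons (P.lf 2668545243 0 0) (P.cons (P.lf 0 256005836 0) (P.cons (P.lf 0 20956361 0) (P.cons (P.lf 0 125291 0) (P.cons (P.lf 64357 0 0) (P.cons (P.lf 3438 0 0) P.nil)))))) 378)
 (EL.cons 8 (TM.mk (P.cons (P.lf 1442125985 0 0) (P.cons (P.lf 168433589 0 0) (P.cons (P.lf 0 4127638 0) (P.cons (P.lf 0 758202 0) (P.cons (P.lf 0 21743 0) (P.cons (P.lf 1521 0 0) P.nil)))))) 224)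
 EL.nil))
noncomputable def S140_169_216_290_13 : EL := (EL.cons 4 (TM.mk (P.cons (P.cons (P.lf 326229253 0 0) (P.cons (P.lf 0 20351763 0) (P.cons (P.lf 0 9607277 0) (P.lf 457486 0 0)))) (P.cons (P.cons (P.lf 420517523 0 0) (P.cons (P.lf 0 5178532 0) (P.cons (P.lf 0 2444583 0) (P.lf 116405 0 0)))) (P.cons (P.cons (P.lf 0 47467947 0) (P.cons (P.lf 185820 0 0) (P.cons (P.lf 87720 0 0) (P.lf 0 4177 0)))) (P.cons (P.cons (P.lf 0 9476507 0) (P.cons (P.lf 160586 0 0) (P.cons (P.lf 75804 0 0) P.nil))) (P.cons (P.cons (P.lf 283153 0 0) (P.cons (P.lf 11428 0 0) P.nil)) (P.cons (P.cons (P.lf 120581 0 0) P.nil) P.nil)))))) 31644)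
 (EL.cons 8 (TM.mk (P.cons (P.cons (P.lf 176299684 0 0) (P.cons (P.lf 0 10998430 0) (P.cons (P.lf 0 5191932 0) (P.lf 247233 0 0)))) (P.cons (P.cons (P.lf 264758846 0 0) (P.cons (P.lf 0 5138260 0) (P.cons (P.lf 0 2425573 0) (P.lf 115502 0 0)))) (P.cons (P.cons (P.lf 27169248 0 0) (P.cons (P.lf 0 774268 0) (P.cons (P.lf 0 365501 0) (P.lf 17403 0 0)))) (P.cons (P.cons (P.lf 0 4166558 0) (P.cons (P.lf 0 2842 0) (P.cons (P.lf 0 1342 0) P.nil))) (P.cons (P.cons (P.lf 0 672009 0) (P.cons (P.lf 11332 0 0) P.nil)) (P.cons (P.cons (P.lf 5414 0 0) P.nil) P.nil)))))) 18459)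
 EL.nil))
noncomputable def S140_169_216_290_14 : EL := (EL.cons 4 (TM.mk (P.cons (P.cons (P.lf 39881475 0 0) (P.cons (P.lf 0 4975999 0) (P.cons (P.lf 0 2193762 0) (P.cons (P.lf 258394 0 0) (P.cons (P.lf 27609 0 0) (P.cons (P.lf 0 3293 0) P.nil)))))) (P.cons (P.cons (P.lf 106642421 0 0) (P.cons (P.lf 0 8157705 0) (P.cons (P.lf 0 3757057 0) (P.cons (P.lf 272009 0 0) (P.cons (P.lf 16698 0 0) P.nil))))) (P.cons (P.cons (P.lf 65204430 0 0) (P.cons (P.lf 0 1684315 0) (P.cons (P.lf 0 777659 0) (P.cons (P.lf 54325 0 0) P.nil)))) (P.cons (P.cons (P.lf 0 10182584 0) (P.cons (P.lf 200723 0 0) (P.cons (P.lf 94000 0 0) P.nil))) (P.cons (P.cons (P.lf 0 2533845 0) (P.cons (P.lf 85020 0 0) P.nil)) (P.cons (P.cons (P.lf 133247 0 0) P.nil) P.nil)))))) 170637)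
 (EL.cons 8 (TM.mk (P.cons (P.cons (P.lf 21552609 0 0) (P.cons (P.lf 0 2689112 0) (P.cons (P.lf 0 1185545 0) (P.cons (P.lf 139641 0 0) (P.cons (P.lf 14920 0 0) (P.cons (P.lf 0 1779 0) P.nil)))))) (P.cons (P.cons (P.lf 62216213 0 0) (P.cons (P.lf 0 4980614 0) (P.cons (P.lf 0 2282577 0) (P.cons (P.lf 176704 0 0) (P.cons (P.lf 12198 0 0) P.nil))))) (P.cons (P.cons (P.lf 48044878 0 0) (P.cons (P.lf 0 1916365 0) (P.cons (P.lf 0 882293 0) (P.cons (P.lf 64176 0 0) P.nil)))) (P.cons (P.cons (P.lf 3535230 0 0) (P.cons (P.lf 0 206889 0) (P.cons (P.lf 0 94473 0) P.nil))) (P.cons (P.cons (P.lf 0 1424665 0) (P.cons (P.lf 28513 0 0) P.nil)) (P.cons (P.cons (P.lf 0 199729 0) P.nil) P.nil)))))) 88344)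
 EL.nil))
noncomputable def S140_169_216_290_15 : EL := (EL.cons 4 (TM.mk (P.cons (P.lf 0 1768552689 0) (P.cons (P.lf 339330810 0 0) (P.cons (P.lf 11500469 0 0) (P.cons (P.lf 0 2498728 0) (P.cons (P.lf 0 210304 0) (P.cons (P.lf 2321 0 0) P.nil)))))) 1708)
 (EL.cons 8 (TM.mk (P.cons (P.lf 0 955755124 0) (P.cons (P.lf 0 19937749 0) (P.cons (P.lf 20950159 0 0) (P.cons (P.lf 1161554 0 0) (P.cons (P.lf 0 73087 0) (P.cons (P.lf 0 10388 0) P.nil)))))) 788)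
 EL.nil))
noncomputable def S140_169_216_290_16 : EL := (EL.cons 4 (TM.mk (P.cons (P.cons (P.lf 0 216205299 0) (P.cons (P.lf 13487935 0 0) (P.cons (P.lf 6367130 0 0) (P.lf 0 303195 0)))) (P.cons (P.cons (P.lf 0 257952373 0) (P.cons (P.lf 2138062 0 0) (P.cons (P.lf 1009295 0 0) (P.lf 0 48060 0)))) (P.cons (P.cons (P.lf 59893201 0 0) (P.cons (P.lf 0 558322 0) (P.cons (P.lf 0 263563 0) (P.lf 12550 0 0)))) (P.cons (P.cons (P.lf 5461228 0 0) (P.cons (P.lf 0 122197 0) (P.cons (P.lf 0 57683 0) P.nil))) (P.cons (P.cons (P.lf 0 1029349 0) (P.cons (P.lf 3766 0 0) P.nil)) (P.cons (P.cons (P.lf 0 119709 0) P.nil) P.nil)))))) 38656)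
 (EL.cons 8 (TM.mk (P.cons (P.cons (P.lf 0 116840919 0) (P.cons (P.lf 7289103 0 0) (P.cons (P.lf 3440902 0 0) (P.lf 0 163851 0)))) (P.cons (P.cons (P.lf 0 164257290 0) (P.cons (P.lf 2706055 0 0) (P.cons (P.lf 1277423 0 0) (P.lf 0 60828 0)))) (P.cons (P.cons (P.lf 0 255296 0) (P.cons (P.lf 129207 0 0) (P.cons (P.lf 60993 0 0) (P.lf 0 2904 0)))) (P.cons (P.cons (P.lf 5872201 0 0) (P.cons (P.lf 0 74428 0) (P.cons (P.lf 0 35134 0) P.nil))) (P.cons (P.cons (P.lf 327284 0 0) (P.cons (P.lf 0 11705 0) P.nil)) (P.cons (P.cons (P.lf 0 71536 0) P.nil) P.nil)))))) 25635)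
 EL.nil))
noncomputable def S140_169_216_290_17 : EL := (EL.cons 4 (TM.mk (P.cons (P.cons (P.lf 0 26431065 0) (P.cons (P.lf 3297795 0 0) (P.cons (P.lf 1453894 0 0) (P.cons (P.lf 0 171248 0) (P.cons (P.lf 0 18297 0) (P.cons (P.lf 2182 0 0) P.nil)))))) (P.cons (P.cons (P.lf 0 68140584 0) (P.cons (P.lf 5090068 0 0) (P.cons (P.lf 2350474 0 0) (P.cons (P.lf 0 163842 0) (P.cons (P.lf 0 9311 0) P.nil))))) (P.cons (P.cons (P.lf 0 36225746 0) (P.cons (P.lf 571700 0 0) (P.cons (P.lf 265095 0 0) (P.cons (P.lf 0 17364 0) P.nil)))) (P.cons (P.cons (P.lf 11450358 0 0) (P.cons (P.lf 0 282727 0) (P.cons (P.lf 0 131363 0) P.nil))) (P.cons (P.cons (P.lf 1373917 0 0) (P.cons (P.lf 0 52525 0) P.nil)) (P.cons (P.cons (P.lf 0 302115 0) P.nil) P.nil)))))) 152568)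
 (EL.cons 8 (TM.mk (P.cons (P.cons (P.lf 0 14283784 0) (P.cons (P.lf 1782183 0 0) (P.cons (P.lf 785708 0 0) (P.cons (P.lf 0 92545 0) (P.cons (P.lf 0 9888 0) (P.cons (P.lf 1179 0 0) P.nil)))))) (P.cons (P.cons (P.lf 0 39862887 0) (P.cons (P.lf 3129880 0 0) (P.cons (P.lf 1437379 0 0) (P.cons (P.lf 0 108230 0) (P.cons (P.lf 0 7135 0) P.nil))))) (P.cons (P.cons (P.lf 0 27773418 0) (P.cons (P.lf 939390 0 0) (P.cons (P.lf 433435 0 0) (P.cons (P.lf 0 30570 0) P.nil)))) (P.cons (P.cons (P.lf 1036219 0 0) (P.cons (P.lf 0 10733 0) (P.cons (P.lf 0 5401 0) P.nil))) (P.cons (P.cons (P.lf 1420596 0 0) (P.cons (P.lf 0 42136 0) P.nil)) (P.cons (P.cons (P.lf 60670 0 0) P.nil) P.nil)))))) 93338)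
 EL.nil))
noncomputable def S140_169_216_290_18 : EL := (EL.cons 4 (TM.mk (P.cons (P.lf 1172091282 0 0) (P.cons (P.lf 0 337332345 0) (P.cons (P.lf 4748184 0 0) (P.cons (P.lf 4098243 0 0) (P.cons (P.lf 79189 0 0) (P.cons (P.lf 0 31469 0) P.nil)))))) 3321)
 (EL.cons 8 (TM.mk (P.cons (P.lf 633417514 0 0) (P.cons (P.lf 0 47553107 0) (P.cons (P.lf 0 20126446 0) (P.cons (P.lf 428689 0 0) (P.cons (P.lf 245981 0 0) (P.cons (P.lf 10070 0 0) P.nil)))))) 1843)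
 EL.nil))
noncomputable def S140_169_216_290_19 : EL := (EL.cons 4 (TM.mk (P.cons (P.cons (P.lf 143287981 0 0) (P.cons (P.lf 0 8938999 0) (P.cons (P.lf 0 4219755 0) (P.lf 200939 0 0)))) (P.cons (P.cons (P.lf 157209177 0 0) (P.cons (P.lf 0 559420 0) (P.cons (P.lf 0 264080 0) (P.lf 12573 0 0)))) (P.cons (P.cons (P.lf 0 57219442 0) (P.cons (P.lf 576158 0 0) (P.cons (P.lf 271982 0 0) (P.lf 0 12951 0)))) (P.cons (P.cons (P.lf 0 1160640 0) (P.cons (P.lf 57034 0 0) (P.cons (P.lf 26922 0 0) P.nil))) (P.cons (P.cons (P.lf 1336561 0 0) (P.cons (P.lf 0 13320 0) P.nil)) (P.cons (P.cons (P.lf 48484 0 0) P.nil) P.nil)))))) 44610)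
 (EL.cons 8 (TM.mk (P.cons (P.cons (P.lf 77435195 0 0) (P.cons (P.lf 0 4830783 0) (P.cons (P.lf 0 2280425 0) (P.lf 108591 0 0)))) (P.cons (P.cons (P.lf 101431224 0 0) (P.cons (P.lf 0 1329972 0) (P.cons (P.lf 0 627828 0) (P.lf 29895 0 0)))) (P.cons (P.cons (P.lf 0 10882346 0) (P.cons (P.lf 124355 0 0) (P.cons (P.lf 58703 0 0) (P.lf 0 2795 0)))) (P.cons (P.cons (P.lf 0 4766500 0) (P.cons (P.lf 71852 0 0) (P.cons (P.lf 33918 0 0) P.nil))) (P.cons (P.cons (P.lf 151876 0 0) (P.cons (P.lf 3665 0 0) P.nil)) (P.cons (P.cons (P.lf 101498 0 0) P.nil) P.nil)))))) 27595)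
 EL.nil))
noncomputable def S140_169_216_290_20 : EL := (EL.cons 4 (TM.mk (P.cons (P.cons (P.lf 17516933 0 0) (P.cons (P.lf 0 2185582 0) (P.cons (P.lf 0 963555 0) (P.cons (P.lf 113492 0 0) (P.cons (P.lf 12126 0 0) (P.cons (P.lf 0 1446 0) P.nil)))))) (P.cons (P.cons (P.lf 43479036 0 0) (P.cons (P.lf 0 3163720 0) (P.cons (P.lf 0 1465316 0) (P.cons (P.lf 97696 0 0) (P.cons (P.lf 5007 0 0) P.nil))))) (P.cons (P.cons (P.lf 19538341 0 0) (P.cons (P.lf 0 38100 0) (P.cons (P.lf 0 18679 0) (P.cons (P.lf 199 0 0) P.nil)))) (P.cons (P.cons (P.lf 0 10247303 0) (P.cons (P.lf 250318 0 0) (P.cons (P.lf 116192 0 0) P.nil))) (P.cons (P.cons (P.lf 0 372776 0) (P.cons (P.lf 19916 0 0) P.nil)) (P.cons (P.cons (P.lf 347155 0 0) P.nil) P.nil)))))) 125476)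
 (EL.cons 8 (TM.mk (P.cons (P.cons (P.lf 9466440 0 0) (P.cons (P.lf 0 1181124 0) (P.cons (P.lf 0 520720 0) (P.cons (P.lf 61333 0 0) (P.cons (P.lf 6553 0 0) (P.cons (P.lf 0 781 0) P.nil)))))) (P.cons (P.cons (P.lf 25510585 0 0) (P.cons (P.lf 0 1960987 0) (P.cons (P.lf 0 902654 0) (P.cons (P.lf 65844 0 0) (P.cons (P.lf 4100 0 0) P.nil))))) (P.cons (P.cons (P.lf 15797752 0 0) (P.cons (P.lf 0 414299 0) (P.cons (P.lf 0 191777 0) (P.cons (P.lf 12897 0 0) P.nil)))) (P.cons (P.cons (P.lf 0 2660484 0) (P.cons (P.lf 83184 0 0) (P.cons (P.lf 38642 0 0) P.nil))) (P.cons (P.cons (P.lf 0 1021164 0) (P.cons (P.lf 32201 0 0) P.nil)) (P.cons (P.cons (P.lf 55290 0 0) P.nil) P.nil)))))) 89059)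
 EL.nil))
noncomputable def S140_169_216_290_21 : EL := (EL.cons 4 (TM.mk (P.cons (P.cons (P.lf 0 3868426725 0) (P.cons (P.lf 61055289 0 0) (P.cons (P.lf 28821831 0 0) (P.lf 0 1372458 0)))) (P.cons (P.cons (P.lf 0 243560139 0) (P.cons (P.lf 15535596 0 0) (P.cons (P.lf 7333749 0 0) (P.lf 0 349215 0)))) (P.cons (P.cons (P.lf 176905251 0 0) (P.cons (P.lf 0 557460 0) (P.cons (P.lf 0 263160 0) (P.lf 12531 0 0)))) (P.cons (P.cons (P.lf 20933343 0 0) (P.cons (P.lf 0 481758 0) (P.cons (P.lf 0 227412 0) P.nil))) (P.cons (P.cons (P.lf 0 1480374 0) (P.cons (P.lf 0 34284 0) P.nil)) (P.cons (P.cons (P.lf 0 354780 0) P.nil) P.nil)))))) 99843)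
 (EL.cons 8 (TM.mk (P.cons (P.cons (P.lf 2545149015 0 0) (P.cons (P.lf 0 40170036 0) (P.cons (P.lf 0 18962715 0) (P.lf 902991 0 0)))) (P.cons (P.cons (P.lf 0 381184182 0) (P.cons (P.lf 0 1675956 0) (P.cons (P.lf 0 791154 0) (P.lf 37677 0 0)))) (P.cons (P.cons (P.lf 0 99946191 0) (P.cons (P.lf 1743573 0 0) (P.cons (P.lf 823071 0 0) (P.lf 0 39189 0)))) (P.cons (P.cons (P.lf 7935690 0 0) (P.cons (P.lf 134376 0 0) (P.cons (P.lf 63435 0 0) P.nil))) (P.cons (P.cons (P.lf 1888173 0 0) (P.cons (P.lf 0 23406 0) P.nil)) (P.cons (P.cons (P.lf 1956 0 0) P.nil) P.nil)))))) 66663)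
 (EL.cons 11 (TM.mk (P.cons (P.cons (P.lf 294303381 0 0) (P.cons (P.lf 290195544 0 0) (P.cons (P.lf 0 9080499 0) (P.cons (P.lf 0 1663962 0) (P.lf 59427 0 0))))) (P.cons (P.cons (P.lf 68746524 0 0) (P.cons (P.lf 67786971 0 0) (P.cons (P.lf 0 2121117 0) (P.cons (P.lf 0 388686 0) (P.lf 13881 0 0))))) (P.cons (P.cons (P.lf 2329932 0 0) (P.cons (P.lf 2297409 0 0) (P.cons (P.lf 0 71886 0) (P.cons (P.lf 0 13173 0) P.nil)))) (P.cons (P.cons (P.lf 0 506226 0) (P.cons (P.lf 0 499161 0) (P.cons (P.lf 15618 0 0) P.nil))) (P.cons (P.cons (P.lf 0 42606 0) (P.cons (P.lf 0 42012 0) P.nil)) (P.cons (P.cons (P.lf 468 0 0) P.nil) P.nil)))))) 6171)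
 EL.nil)))
noncomputable def S140_169_216_290_22 : EL := (EL.cons 4 (TM.mk (P.cons (P.cons (P.lf 0 472914582 0) (P.cons (P.lf 36966705 0 0) (P.cons (P.lf 16984905 0 0) (P.cons (P.lf 0 1270593 0) (P.cons (P.lf 0 82827 0) (P.cons (P.lf 9882 0 0) P.nil)))))) (P.cons (P.cons (P.lf 0 684742581 0) (P.cons (P.lf 24431412 0 0) (P.cons (P.lf 11251482 0 0) (P.cons (P.lf 0 815088 0) (P.cons (P.lf 0 50097 0) P.nil))))) (P.cons (P.cons (P.lf 0 17347287 0) (P.cons (P.lf 2782170 0 0) (P.cons (P.lf 1261029 0 0) (P.cons (P.lf 0 111933 0) P.nil)))) (P.cons (P.cons (P.lf 41442552 0 0) (P.cons (P.lf 0 932100 0) (P.cons (P.lf 0 437745 0) P.nil))) (P.cons (P.cons (P.lf 4244241 0 0) (P.cons (P.lf 0 234438 0) P.nil)) (P.cons (P.cons (P.lf 0 728949 0) P.nil) P.nil)))))) 412557)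
 (EL.cons 8 (TM.mk (P.cons (P.cons (P.lf 311144082 0 0) (P.cons (P.lf 0 24321459 0) (P.cons (P.lf 0 11174856 0) (P.cons (P.lf 835962 0 0) (P.cons (P.lf 54495 0 0) (P.cons (P.lf 0 6501 0) P.nil)))))) (P.cons (P.cons (P.lf 384322143 0 0) (P.cons (P.lf 0 10900227 0) (P.cons (P.lf 0 5025447 0) (P.cons (P.lf 358437 0 0) (P.cons (P.lf 21366 0 0) P.nil))))) (P.cons (P.cons (P.lf 0 78246318 0) (P.cons (P.lf 1106073 0 0) (P.cons (P.lf 523221 0 0) (P.cons (P.lf 0 23835 0) P.nil)))) (P.cons (P.cons (P.lf 0 21511308 0) (P.cons (P.lf 743064 0 0) (P.cons (P.lf 344889 0 0) P.nil))) (P.cons (P.cons (P.lf 2215299 0 0) (P.cons (P.lf 20235 0 0) P.nil)) (P.cons (P.cons (P.lf 616359 0 0) P.nil) P.nil)))))) 193932)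
 (EL.cons 11 (TM.mk (P.cons (P.cons (P.lf 35978541 0 0) (P.cons (P.lf 33231843 0 0) (P.cons (P.lf 0 4382826 0) (P.cons (P.lf 0 1128471 0) (P.cons (P.lf 102396 0 0) (P.cons (P.lf 3978 0 0) P.nil)))))) (P.cons (P.cons (P.lf 58233066 0 0) (P.cons (P.lf 56109513 0 0) (P.cons (P.lf 0 3707934 0) (P.cons (P.lf 0 869451 0) (P.cons (P.lf 67311 0 0) P.nil))))) (P.cons (P.cons (P.lf 11752176 0 0) (P.cons (P.lf 11314083 0 0) (P.cons (P.lf 0 762204 0) (P.cons (P.lf 0 179394 0) P.nil)))) (P.cons (P.cons (P.lf 0 376272 0) (P.cons (P.lf 0 385875 0) (P.cons (P.lf 0 10047 0) P.nil))) (P.cons (P.cons (P.lf 0 281268 0) (P.cons (P.lf 0 274062 0) P.nil)) (P.cons (P.cons (P.lf 0 16170 0) P.nil) P.nil)))))) 98562)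
 EL.nil)))
noncomputable def S140_169_216_290_23 : EL := (EL.cons 4 (TM.mk (P.cons (P.cons (P.lf 2563762599 0 0) (P.cons (P.lf 0 40463805 0) (P.cons (P.lf 0 19101390 0) (P.lf 909582 0 0)))) (P.cons (P.cons (P.lf 0 84536415 0) (P.cons (P.lf 0 6414186 0) (P.cons (P.lf 0 3027885 0) (P.lf 144177 0 0)))) (P.cons (P.cons (P.lf 0 152861235 0) (P.cons (P.lf 1674966 0 0) (P.cons (P.lf 790689 0 0) (P.lf 0 37650 0)))) (P.cons (P.cons (P.lf 0 4013778 0) (P.cons (P.lf 366591 0 0) (P.cons (P.lf 173049 0 0) P.nil))) (P.cons (P.cons (P.lf 3287007 0 0) (P.cons (P.lf 0 11301 0) P.nil)) (P.cons (P.cons (P.lf 262653 0 0) P.nil) P.nil)))))) 135759)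
 (EL.cons 8 (TM.mk (P.cons (P.cons (P.lf 0 1686773025 0) (P.cons (P.lf 26622303 0 0) (P.cons (P.lf 12567354 0 0) (P.lf 0 598446 0)))) (P.cons (P.cons (P.lf 414446055 0 0) (P.cons (P.lf 0 1443276 0) (P.cons (P.lf 0 681312 0) (P.lf 32439 0 0)))) (P.cons (P.cons (P.lf 55249188 0 0) (P.cons (P.lf 0 1471158 0) (P.cons (P.lf 0 694476 0) (P.lf 33066 0 0)))) (P.cons (P.cons (P.lf 0 13518558 0) (P.cons (P.lf 11826 0 0) (P.cons (P.lf 5580 0 0) P.nil))) (P.cons (P.cons (P.lf 0 1319535 0) (P.cons (P.lf 33720 0 0) P.nil)) (P.cons (P.cons (P.lf 160863 0 0) P.nil) P.nil)))))) 75999)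
 (EL.cons 11 (TM.mk (P.cons (P.cons (P.lf 0 195046734 0) (P.cons (P.lf 0 192324303 0) (P.cons (P.lf 6018012 0 0) (P.cons (P.lf 1102773 0 0) (P.lf 0 39384 0))))) (P.cons (P.cons (P.lf 0 26849364 0) (P.cons (P.lf 0 26474604 0) (P.cons (P.lf 828414 0 0) (P.cons (P.lf 151803 0 0) (P.lf 0 5421 0))))) (P.cons (P.cons (P.lf 4358466 0 0) (P.cons (P.lf 4297632 0 0) (P.cons (P.lf 0 134478 0) (P.cons (P.lf 0 24642 0) P.nil)))) (P.cons (P.cons (P.lf 850584 0 0) (P.cons (P.lf 838713 0 0) (P.cons (P.lf 0 26241 0) P.nil))) (P.cons (P.cons (P.lf 5610 0 0) (P.cons (P.lf 5532 0 0) P.nil)) (P.cons (P.cons (P.lf 0 6930 0) P.nil) P.nil)))))) 18039)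
 EL.nil)))
noncomputable def S140_169_216_290_24 : EL := (EL.cons 4 (TM.mk (P.cons (P.cons (P.lf 313419588 0 0) (P.cons (P.lf 0 24499326 0) (P.cons (P.lf 0 11256582 0) (P.cons (P.lf 842073 0 0) (P.cons (P.lf 54894 0 0) (P.cons (P.lf 0 6549 0) P.nil)))))) (P.cons (P.cons (P.lf 423738774 0 0) (P.cons (P.lf 0 13841349 0) (P.cons (P.lf 0 6376914 0) (P.cons (P.lf 459405 0 0) (P.cons (P.lf 27936 0 0) P.nil))))) (P.cons (P.cons (P.lf 0 34500318 0) (P.cons (P.lf 0 98118 0) (P.cons (P.lf 0 31968 0) (P.cons (P.lf 15747 0 0) P.nil)))) (P.cons (P.cons (P.lf 0 32147094 0) (P.cons (P.lf 922935 0 0) (P.cons (P.lf 429375 0 0) P.nil))) (P.cons (P.cons (P.lf 0 281955 0) (P.cons (P.lf 110757 0 0) P.nil)) (P.cons (P.cons (P.lf 979449 0 0) P.nil) P.nil)))))) 348783)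
 (EL.cons 8 (TM.mk (P.cons (P.cons (P.lf 0 206207745 0) (P.cons (P.lf 16118811 0 0) (P.cons (P.lf 7406028 0 0) (P.cons (P.lf 0 554025 0) (P.cons (P.lf 0 36114 0) (P.cons (P.lf 4308 0 0) P.nil)))))) (P.cons (P.cons (P.lf 0 234923343 0) (P.cons (P.lf 5677668 0 0) (P.cons (P.lf 2620071 0 0) (P.cons (P.lf 0 184401 0) (P.cons (P.lf 0 10695 0) P.nil))))) (P.cons (P.cons (P.lf 77911464 0 0) (P.cons (P.lf 0 1552656 0) (P.cons (P.lf 0 724437 0) (P.cons (P.lf 42936 0 0) P.nil)))) (P.cons (P.cons (P.lf 11291445 0 0) (P.cons (P.lf 0 479622 0) (P.cons (P.lf 0 221808 0) P.nil))) (P.cons (P.cons (P.lf 0 3236103 0) (P.cons (P.lf 39636 0 0) P.nil)) (P.cons (P.cons (P.lf 0 388437 0) P.nil) P.nil)))))) 194841)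
 (EL.cons 11 (TM.mk (P.cons (P.cons (P.lf 0 23844432 0) (P.cons (P.lf 0 22024083 0) (P.cons (P.lf 2904675 0 0) (P.cons (P.lf 747882 0 0) (P.cons (P.lf 0 67860 0) (P.cons (P.lf 0 2637 0) P.nil)))))) (P.cons (P.cons (P.lf 0 36305898 0) (P.cons (P.lf 0 35073168 0) (P.cons (P.lf 2178738 0 0) (P.cons (P.lf 504471 0 0) (P.cons (P.lf 0 38100 0) P.nil))))) (P.cons (P.cons (P.lf 0 3898944 0) (P.cons (P.lf 0 3757914 0) (P.cons (P.lf 246582 0 0) (P.cons (P.lf 57738 0 0) P.nil)))) (P.cons (P.cons (P.lf 1300770 0 0) (P.cons (P.lf 1268142 0 0) (P.cons (P.lf 0 61236 0) P.nil))) (P.cons (P.cons (P.lf 224886 0 0) (P.cons (P.lf 217197 0 0) P.nil)) (P.cons (P.cons (P.lf 0 9720 0) P.nil) P.nil)))))) 95826)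
 EL.nil)))
noncomputable def S140_169_216_290_25 : EL := (EL.cons 4 (TM.mk (P.cons (P.cons (P.lf 0 1699108998 0) (P.cons (P.lf 26816997 0 0) (P.cons (P.lf 12659262 0 0) (P.lf 0 602817 0)))) (P.cons (P.cons (P.lf 219029046 0 0) (P.cons (P.lf 1678263 0 0) (P.cons (P.lf 792240 0 0) (P.lf 0 37719 0)))) (P.cons (P.cons (P.lf 109275786 0 0) (P.cons (P.lf 0 1728477 0) (P.cons (P.lf 0 815946 0) (P.lf 38853 0 0)))) (P.cons (P.cons (P.lf 0 7418982 0) (P.cons (P.lf 0 171102 0) (P.cons (P.lf 0 80766 0) P.nil))) (P.cons (P.cons (P.lf 0 3272811 0) (P.cons (P.lf 39963 0 0) P.nil)) (P.cons (P.cons (P.lf 8427 0 0) P.nil) P.nil)))))) 151056)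
 (EL.cons 8 (TM.mk (P.cons (P.cons (P.lf 1117892595 0 0) (P.cons (P.lf 0 17643675 0) (P.cons (P.lf 0 8328894 0) (P.lf 396615 0 0)))) (P.cons (P.cons (P.lf 0 381914721 0) (P.cons (P.lf 2649156 0 0) (P.cons (P.lf 1250562 0 0) (P.lf 0 59547 0)))) (P.cons (P.cons (P.lf 0 19044420 0) (P.cons (P.lf 1021791 0 0) (P.cons (P.lf 482346 0 0) (P.lf 0 22965 0)))) (P.cons (P.cons (P.lf 14576547 0 0) (P.cons (P.lf 0 108057 0) (P.cons (P.lf 0 51006 0) P.nil))) (P.cons (P.cons (P.lf 342408 0 0) (P.cons (P.lf 0 29721 0) P.nil)) (P.cons (P.cons (P.lf 0 264327 0) P.nil) P.nil)))))) 72183)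
 (EL.cons 11 (TM.mk (P.cons (P.cons (P.lf 129265347 0 0) (P.cons (P.lf 127461081 0 0) (P.cons (P.lf 0 3988380 0) (P.cons (P.lf 0 730851 0) (P.lf 26100 0 0))))) (P.cons (P.cons (P.lf 5393136 0 0) (P.cons (P.lf 5317860 0 0) (P.cons (P.lf 0 166398 0) (P.cons (P.lf 0 30492 0) (P.lf 1086 0 0))))) (P.cons (P.cons (P.lf 0 5610741 0) (P.cons (P.lf 0 5532429 0) (P.cons (P.lf 173115 0 0) (P.cons (P.lf 31722 0 0) P.nil)))) (P.cons (P.cons (P.lf 0 432414 0) (P.cons (P.lf 0 426378 0) (P.cons (P.lf 13341 0 0) P.nil))) (P.cons (P.cons (P.lf 75324 0 0) (P.cons (P.lf 74274 0 0) P.nil)) (P.cons (P.cons (P.lf 10107 0 0) P.nil) P.nil)))))) 23676)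
 EL.nil)))
noncomputable def S140_169_216_290_26 : EL := (EL.cons 4 (TM.mk (P.cons (P.cons (P.lf 0 207715818 0) (P.cons (P.lf 16236693 0 0) (P.cons (P.lf 7460190 0 0) (P.cons (P.lf 0 558075 0) (P.cons (P.lf 0 36378 0) (P.cons (P.lf 4338 0 0) P.nil)))))) (P.cons (P.cons (P.lf 0 260901660 0) (P.cons (P.lf 7615560 0 0) (P.cons (P.lf 3510549 0 0) (P.cons (P.lf 0 250929 0) (P.cons (P.lf 0 15024 0) P.nil))))) (P.cons (P.cons (P.lf 51437169 0 0) (P.cons (P.lf 0 942510 0) (P.cons (P.lf 0 442839 0) (P.cons (P.lf 23154 0 0) P.nil)))) (P.cons (P.cons (P.lf 21326784 0 0) (P.cons (P.lf 0 690705 0) (P.cons (P.lf 0 320136 0) P.nil))) (P.cons (P.cons (P.lf 0 2028420 0) (P.cons (P.lf 0 15273 0) P.nil)) (P.cons (P.cons (P.lf 0 842472 0) P.nil) P.nil)))))) 333651)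
 (EL.cons 8 (TM.mk (P.cons (P.cons (P.lf 136662201 0 0) (P.cons (P.lf 0 10682586 0) (P.cons (P.lf 0 4908273 0) (P.cons (P.lf 367173 0 0) (P.cons (P.lf 23934 0 0) (P.cons (P.lf 0 2853 0) P.nil)))))) (P.cons (P.cons (P.lf 142582551 0 0) (P.cons (P.lf 0 2737989 0) (P.cons (P.lf 0 1265553 0) (P.cons (P.lf 86985 0 0) (P.cons (P.lf 4791 0 0) P.nil))))) (P.cons (P.cons (P.lf 0 67644660 0) (P.cons (P.lf 1473882 0 0) (P.cons (P.lf 685242 0 0) (P.cons (P.lf 0 43062 0) P.nil)))) (P.cons (P.cons (P.lf 0 3758796 0) (P.cons (P.lf 249198 0 0) (P.cons (P.lf 114807 0 0) P.nil))) (P.cons (P.cons (P.lf 3264084 0 0) (P.cons (P.lf 0 64923 0) P.nil)) (P.cons (P.cons (P.lf 116805 0 0) P.nil) P.nil)))))) 200964)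
 (EL.cons 11 (TM.mk (P.cons (P.cons (P.lf 15802668 0 0) (P.cons (P.lf 14596251 0 0) (P.cons (P.lf 0 1925043 0) (P.cons (P.lf 0 495651 0) (P.cons (P.lf 44973 0 0) (P.cons (P.lf 1746 0 0) P.nil)))))) (P.cons (P.cons (P.lf 22545360 0 0) (P.cons (P.lf 21844119 0 0) (P.cons (P.lf 0 1259259 0) (P.cons (P.lf 0 286782 0) (P.cons (P.lf 20934 0 0) P.nil))))) (P.cons (P.cons (P.lf 151569 0 0) (P.cons (P.lf 145953 0 0) (P.cons (P.lf 0 9780 0) (P.cons (P.lf 0 2298 0) P.nil)))) (P.cons (P.cons (P.lf 0 1299663 0) (P.cons (P.lf 0 1262601 0) (P.cons (P.lf 67689 0 0) P.nil))) (P.cons (P.cons (P.lf 0 87378 0) (P.cons (P.lf 0 83613 0) P.nil)) (P.cons (P.cons (P.lf 27987 0 0) P.nil) P.nil)))))) 100383)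
 EL.nil)))
noncomputable def S140_169_216_290_27 : EL := (EL.cons 13 (TM.mk (P.lf 0 4294967296 0) 0)
 EL.nil)
noncomputable def S140_169_216_290_28 : EL := (EL.cons 13 (TM.mk (P.cons (P.cons (P.lf 0 525059104 0) (P.cons (P.lf 32755736 0 0) (P.cons (P.lf 15462712 0 0) (P.lf 0 736316 0)))) (P.cons (P.cons (P.lf 0 727185425 0) (P.cons (P.lf 11477148 0 0) (P.cons (P.lf 5417916 0 0) (P.lf 0 257992 0)))) (P.cons (P.cons (P.lf 2513071 0 0) (P.cons (P.lf 1059216 0 0) (P.cons (P.lf 500012 0 0) (P.lf 0 23808 0)))) (P.cons (P.cons (P.lf 9758016 0 0) (P.cons (P.lf 0 65176 0) (P.cons (P.lf 0 30764 0) P.nil))) (P.cons (P.cons (P.lf 478658 0 0) (P.cons (P.lf 0 16580 0) P.nil)) (P.cons (P.cons (P.lf 0 53191 0) P.nil) P.nil)))))) 22195)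
 EL.nil)
noncomputable def S140_169_216_290_29 : EL := (EL.cons 13 (TM.mk (P.cons (P.cons (P.lf 0 64188396 0) (P.cons (P.lf 8008767 0 0) (P.cons (P.lf 3530815 0 0) (P.cons (P.lf 0 415882 0) (P.cons (P.lf 0 44437 0) (P.cons (P.lf 5301 0 0) P.nil)))))) (P.cons (P.cons (P.lf 0 177796617 0) (P.cons (P.lf 13897975 0 0) (P.cons (P.lf 6385633 0 0) (P.cons (P.lf 0 477691 0) (P.cons (P.lf 0 31140 0) P.nil))))) (P.cons (P.cons (P.lf 0 122506083 0) (P.cons (P.lf 4107061 0 0) (P.cons (P.lf 1891957 0 0) (P.cons (P.lf 0 136530 0) P.nil)))) (P.cons (P.cons (P.lf 3236813 0 0) (P.cons (P.lf 180467 0 0) (P.cons (P.lf 80524 0 0) P.nil))) (P.cons (P.cons (P.lf 3419841 0 0) (P.cons (P.lf 0 86815 0) P.nil)) (P.cons (P.cons (P.lf 137659 0 0) P.nil) P.nil)))))) 156166)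
 EL.nil)
noncomputable def S140_169_216_290_30 : EL := (EL.cons 13 (TM.mk (P.cons (P.lf 2846448260 0 0) (P.cons (P.lf 0 273072892 0) (P.cons (P.lf 0 22353452 0) (P.cons (P.lf 0 133644 0) (P.cons (P.lf 68648 0 0) (P.cons (P.lf 3668 0 0) P.nil)))))) 396)
 EL.nil)
noncomputable def S140_169_216_290_31 : EL := (EL.cons 13 (TM.mk (P.cons (P.cons (P.lf 347977870 0 0) (P.cons (P.lf 0 21708548 0) (P.cons (P.lf 0 10247763 0) (P.lf 487986 0 0)))) (P.cons (P.cons (P.lf 448552025 0 0) (P.cons (P.lf 0 5523768 0) (P.cons (P.lf 0 2607556 0) (P.lf 124166 0 0)))) (P.cons (P.cons (P.lf 0 50632477 0) (P.cons (P.lf 198208 0 0) (P.cons (P.lf 93568 0 0) (P.lf 0 4456 0)))) (P.cons (P.cons (P.lf 0 10108275 0) (P.cons (P.lf 171292 0 0) (P.cons (P.lf 80858 0 0) P.nil))) (P.cons (P.cons (P.lf 302030 0 0) (P.cons (P.lf 12190 0 0) P.nil)) (P.cons (P.cons (P.lf 128620 0 0) P.nil) P.nil))))))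 33734)
 EL.nil)
noncomputable def S140_169_216_290_32 : EL := (EL.cons 13 (TM.mk (P.cons (P.cons (P.lf 42540241 0 0) (P.cons (P.lf 0 5307733 0) (P.cons (P.lf 0 2340013 0) (P.cons (P.lf 275621 0 0) (P.cons (P.lf 29450 0 0) (P.cons (P.lf 0 3513 0) P.nil)))))) (P.cons (P.cons (P.lf 113751916 0 0) (P.cons (P.lf 0 8701553 0) (P.cons (P.lf 0 4007528 0) (P.cons (P.lf 290143 0 0) (P.cons (P.lf 17812 0 0) P.nil))))) (P.cons (P.cons (P.lf 69551392 0 0) (P.cons (P.lf 0 1796603 0) (P.cons (P.lf 0 829503 0) (P.cons (P.lf 57947 0 0) P.nil)))) (P.cons (P.cons (P.lf 0 10861423 0) (P.cons (P.lf 214105 0 0) (P.cons (P.lf 100267 0 0) P.nil))) (P.cons (P.cons (P.lf 0 2702768 0) (P.cons (P.lf 90689 0 0) P.nil)) (P.cons (P.cons (P.lf 142131 0 0) P.nil) P.nil)))))) 181990)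
 EL.nil)
noncomputable def S140_169_216_290_33 : EL := (EL.cons 14 (TM.mk (P.lf 8589934592 0 0) 0)
 EL.nil)
noncomputable def S140_169_216_290_34 : EL := (EL.cons 14 (TM.mk (P.cons (P.cons (P.lf 1050118208 0 0) (P.cons (P.lf 0 65511472 0) (P.cons (P.lf 0 30925424 0) (P.lf 1472632 0 0)))) (P.cons (P.cons (P.lf 1454370850 0 0) (P.cons (P.lf 0 22954296 0) (P.cons (P.lf 0 10835832 0) (P.lf 515984 0 0)))) (P.cons (P.cons (P.lf 0 5026142 0) (P.cons (P.lf 0 2118432 0) (P.cons (P.lf 0 1000024 0) (P.lf 47616 0 0)))) (P.cons (P.cons (P.lf 0 19516032 0) (P.cons (P.lf 130352 0 0) (P.cons (P.lf 61528 0 0) P.nil))) (P.cons (P.cons (P.lf 0 957316 0) (P.cons (P.lf 33160 0 0) P.nil)) (P.cons (P.cons (P.lf 106382 0 0) P.nil) P.nil)))))) 44390)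
 EL.nil)
noncomputable def S140_169_216_290_35 : EL := (EL.cons 14 (TM.mk (P.cons (P.cons (P.lf 128376792 0 0) (P.cons (P.lf 0 16017534 0) (P.cons (P.lf 0 7061630 0) (P.cons (P.lf 831764 0 0) (P.cons (P.lf 88874 0 0) (P.cons (P.lf 0 10602 0) P.nil)))))) (P.cons (P.cons (P.lf 355593234 0 0) (P.cons (P.lf 0 27795950 0) (P.cons (P.lf 0 12771266 0) (P.cons (P.lf 955382 0 0) (P.cons (P.lf 62280 0 0) P.nil))))) (P.cons (P.cons (P.lf 245012166 0 0) (P.cons (P.lf 0 8214122 0) (P.cons (P.lf 0 3783914 0) (P.cons (P.lf 273060 0 0) P.nil)))) (P.cons (P.cons (P.lf 0 6473626 0) (P.cons (P.lf 0 360934 0) (P.cons (P.lf 0 161048 0) P.nil))) (P.cons (P.cons (P.lf 0 6839682 0) (P.cons (P.lf 173630 0 0) P.nil)) (P.cons (P.cons (P.lf 0 275318 0) P.nil) P.nil)))))) 312332)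
 EL.nil)
noncomputable def S140_169_216_290_36 : EL := (EL.cons 14 (TM.mk (P.cons (P.lf 0 5692896520 0) (P.cons (P.lf 546145784 0 0) (P.cons (P.lf 44706904 0 0) (P.cons (P.lf 267288 0 0) (P.cons (P.lf 0 137296 0) (P.cons (P.lf 0 7336 0) P.nil)))))) 792)
 EL.nil)
noncomputable def S140_169_216_290_37 : EL := (EL.cons 14 (TM.mk (P.cons (P.cons (P.lf 0 695955740 0) (P.cons (P.lf 43417096 0 0) (P.cons (P.lf 20495526 0 0) (P.lf 0 975972 0)))) (P.cons (P.cons (P.lf 0 897104050 0) (P.cons (P.lf 11047536 0 0) (P.cons (P.lf 5215112 0 0) (P.lf 0 248332 0)))) (P.cons (P.cons (P.lf 101264954 0 0) (P.cons (P.lf 0 396416 0) (P.cons (P.lf 0 187136 0) (P.lf 8912 0 0)))) (P.cons (P.cons (P.lf 20216550 0 0) (P.cons (P.lf 0 342584 0) (P.cons (P.lf 0 161716 0) P.nil))) (P.cons (P.cons (P.lf 0 604060 0) (P.cons (P.lf 0 24380 0) P.nil)) (P.cons (P.cons (P.lf 0 257240 0) P.nil) P.nil))))))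 67468)
 EL.nil)
noncomputable def S140_169_216_290_38 : EL := (EL.cons 14 (TM.mk (P.cons (P.cons (P.lf 0 85080482 0) (P.cons (P.lf 10615466 0 0) (P.cons (P.lf 4680026 0 0) (P.cons (P.lf 0 551242 0) (P.cons (P.lf 0 58900 0) (P.cons (P.lf 7026 0 0) P.nil)))))) (P.cons (P.cons (P.lf 0 227503832 0) (P.cons (P.lf 17403106 0 0) (P.cons (P.lf 8015056 0 0) (P.cons (P.lf 0 580286 0) (P.cons (P.lf 0 35624 0) P.nil))))) (P.cons (P.cons (P.lf 0 139102784 0) (P.cons (P.lf 3593206 0 0) (P.cons (P.lf 1659006 0 0) (P.cons (P.lf 0 115894 0) P.nil)))) (P.cons (P.cons (P.lf 21722846 0 0) (P.cons (P.lf 0 428210 0) (P.cons (P.lf 0 200534 0) P.nil))) (P.cons (P.cons (P.lf 5405536 0 0) (P.cons (P.lf 0 181378 0) P.nil)) (P.cons (P.cons (P.lf 0 284262 0) P.nil) P.nil)))))) 363980)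
 EL.nil)
noncomputable def S140_169_216_290_39 : EL := (EL.cons 14 (TM.mk (P.cons (P.lf 3772912404 0 0) (P.cons (P.lf 0 723905728 0) (P.cons (P.lf 0 24534334 0) (P.cons (P.lf 5330620 0 0) (P.cons (P.lf 448650 0 0) (P.cons (P.lf 0 4952 0) P.nil)))))) 3630)
 EL.nil)
noncomputable def S140_169_216_290_40 : EL := (EL.cons 14 (TM.mk (P.cons (P.cons (P.lf 461237972 0 0) (P.cons (P.lf 0 28774262 0) (P.cons (P.lf 0 13583212 0) (P.lf 646816 0 0)))) (P.cons (P.cons (P.lf 550298396 0 0) (P.cons (P.lf 0 4561200 0) (P.cons (P.lf 0 2153164 0) (P.lf 102528 0 0)))) (P.cons (P.cons (P.lf 0 127772164 0) (P.cons (P.lf 1191088 0 0) (P.cons (P.lf 562268 0 0) (P.lf 0 26774 0)))) (P.cons (P.cons (P.lf 0 11650620 0) (P.cons (P.lf 260688 0 0) (P.cons (P.lf 123058 0 0) P.nil))) (P.cons (P.cons (P.lf 2195946 0 0) (P.cons (P.lf 0 8036 0) P.nil)) (P.cons (P.cons (P.lf 255380 0 0) P.nil) P.nil))))))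 82426)
 EL.nil)
noncomputable def S140_169_216_290_41 : EL := (EL.cons 14 (TM.mk (P.cons (P.cons (P.lf 56386272 0 0) (P.cons (P.lf 0 7035298 0) (P.cons (P.lf 0 3101642 0) (P.cons (P.lf 365330 0 0) (P.cons (P.lf 39034 0 0) (P.cons (P.lf 0 4656 0) P.nil)))))) (P.cons (P.cons (P.lf 145366580 0 0) (P.cons (P.lf 0 10858812 0) (P.cons (P.lf 0 5014346 0) (P.cons (P.lf 349530 0 0) (P.cons (P.lf 19864 0 0) P.nil))))) (P.cons (P.cons (P.lf 77281592 0 0) (P.cons (P.lf 0 1219628 0) (P.cons (P.lf 0 565536 0) (P.cons (P.lf 37044 0 0) P.nil)))) (P.cons (P.cons (P.lf 0 24427432 0) (P.cons (P.lf 603152 0 0) (P.cons (P.lf 280242 0 0) P.nil))) (P.cons (P.cons (P.lf 0 2931024 0) (P.cons (P.lf 112054 0 0) P.nil)) (P.cons (P.cons (P.lf 644512 0 0) P.nil) P.nil)))))) 325432)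
 EL.nil)
noncomputable def S140_169_216_290_42 : EL := (EL.cons 14 (TM.mk (P.cons (P.lf 0 2500461402 0) (P.cons (P.lf 719642336 0 0) (P.cons (P.lf 0 10129460 0) (P.cons (P.lf 0 8742920 0) (P.cons (P.lf 0 168938 0) (P.cons (P.lf 67134 0 0) P.nil)))))) 7070)
 EL.nil)
noncomputable def S140_169_216_290_43 : EL := (EL.cons 14 (TM.mk (P.cons (P.cons (P.lf 0 305681028 0) (P.cons (P.lf 19069866 0 0) (P.cons (P.lf 9002144 0 0) (P.lf 0 428670 0)))) (P.cons (P.cons (P.lf 0 335379578 0) (P.cons (P.lf 1193430 0 0) (P.cons (P.lf 563372 0 0) (P.lf 0 26824 0)))) (P.cons (P.cons (P.lf 122068144 0 0) (P.cons (P.lf 0 1229138 0) (P.cons (P.lf 0 580230 0) (P.lf 27630 0 0)))) (P.cons (P.cons (P.lf 2476032 0 0) (P.cons (P.lf 0 121674 0) (P.cons (P.lf 0 57434 0) P.nil))) (P.cons (P.cons (P.lf 0 2851332 0) (P.cons (P.lf 28416 0 0) P.nil)) (P.cons (P.cons (P.lf 0 103434 0) P.nil) P.nil))))))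 95128)
 EL.nil)
noncomputable def S140_169_216_290_44 : EL := (EL.cons 14 (TM.mk (P.cons (P.cons (P.lf 0 37369458 0) (P.cons (P.lf 4662576 0 0) (P.cons (P.lf 2055584 0 0) (P.cons (P.lf 0 242118 0) (P.cons (P.lf 0 25870 0) (P.cons (P.lf 3086 0 0) P.nil)))))) (P.cons (P.cons (P.lf 0 92755278 0) (P.cons (P.lf 6749270 0 0) (P.cons (P.lf 3126008 0 0) (P.cons (P.lf 0 208420 0) (P.cons (P.lf 0 10682 0) P.nil))))) (P.cons (P.cons (P.lf 0 41681796 0) (P.cons (P.lf 81280 0 0) (P.cons (P.lf 39850 0 0) (P.cons (P.lf 0 426 0) P.nil)))) (P.cons (P.cons (P.lf 21860914 0 0) (P.cons (P.lf 0 534012 0) (P.cons (P.lf 0 247878 0) P.nil))) (P.cons (P.cons (P.lf 795256 0 0) (P.cons (P.lf 0 42488 0) P.nil)) (P.cons (P.cons (P.lf 0 740598 0) P.nil) P.nil)))))) 267636)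
 EL.nil)
noncomputable def S140_169_216_290_45 : EL := (EL.cons 14 (TM.mk (P.cons (P.cons (P.lf 15694042 0 0) (P.cons (P.lf 0 2937210 0) (P.cons (P.lf 0 1203306 0) (P.cons (P.lf 235212 0 0) (P.cons (P.lf 27198 0 0) (P.cons (P.lf 0 6178 0) P.nil)))))) (P.cons (P.cons (P.lf 65206828 0 0) (P.cons (P.lf 0 9164994 0) (P.cons (P.lf 0 3944252 0) (P.cons (P.lf 562842 0 0) (P.cons (P.lf 62310 0 0) P.nil))))) (P.cons (P.cons (P.lf 90083448 0 0) (P.cons (P.lf 0 8551446 0) (P.cons (P.lf 0 3825496 0) (P.cons (P.lf 389954 0 0) P.nil)))) (P.cons (P.cons (P.lf 40192134 0 0) (P.cons (P.lf 0 2073314 0) (P.cons (P.lf 0 931758 0) P.nil))) (P.cons (P.cons (P.lf 0 2897770 0) (P.cons (P.lf 44788 0 0) P.nil)) (P.cons (P.cons (P.lf 0 1782602 0) P.nil) P.nil)))))) 639894)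
 EL.nil)
noncomputable def S140_169_216_290_46 : EL := (EL.cons 15 (TM.mk (P.lf 4294967296 0 0) 0)
 EL.nil)
noncomputable def S140_169_216_290_47 : EL := (EL.cons 15 (TM.mk (P.cons (P.cons (P.lf 525059104 0 0) (P.cons (P.lf 0 32755736 0) (P.cons (P.lf 0 15462712 0) (P.lf 736316 0 0)))) (P.cons (P.cons (P.lf 727185425 0 0) (P.cons (P.lf 0 11477148 0) (P.cons (P.lf 0 5417916 0) (P.lf 257992 0 0)))) (P.cons (P.cons (P.lf 0 2513071 0) (P.cons (P.lf 0 1059216 0) (P.cons (P.lf 0 500012 0) (P.lf 23808 0 0)))) (P.cons (P.cons (P.lf 0 9758016 0) (P.cons (P.lf 65176 0 0) (P.cons (P.lf 30764 0 0) P.nil))) (P.cons (P.cons (P.lf 0 478658 0) (P.cons (P.lf 16580 0 0) P.nil)) (P.cons (P.cons (P.lf 53191 0 0) P.nil) P.nil)))))) 22195)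
 EL.nil)
noncomputable def S140_169_216_290_48 : EL := (EL.cons 15 (TM.mk (P.cons (P.cons (P.lf 64188396 0 0) (P.cons (P.lf 0 8008767 0) (P.cons (P.lf 0 3530815 0) (P.cons (P.lf 415882 0 0) (P.cons (P.lf 44437 0 0) (P.cons (P.lf 0 5301 0) P.nil)))))) (P.cons (P.cons (P.lf 177796617 0 0) (P.cons (P.lf 0 13897975 0) (P.cons (P.lf 0 6385633 0) (P.cons (P.lf 477691 0 0) (P.cons (P.lf 31140 0 0) P.nil))))) (P.cons (P.cons (P.lf 122506083 0 0) (P.cons (P.lf 0 4107061 0) (P.cons (P.lf 0 1891957 0) (P.cons (P.lf 136530 0 0) P.nil)))) (P.cons (P.cons (P.lf 0 3236813 0) (P.cons (P.lf 0 180467 0) (P.cons (P.lf 0 80524 0) P.nil))) (P.cons (P.cons (P.lf 0 3419841 0) (P.cons (P.lf 86815 0 0) P.nil)) (P.cons (P.cons (P.lf 0 137659 0) P.nil) P.nil)))))) 156166)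
 EL.nil)
noncomputable def S140_169_216_290 : SL := (SL.cons S140_169_216_290_0 (SL.cons S140_169_216_290_1 (SL.cons S140_169_216_290_2 (SL.cons S140_169_216_290_3 (SL.cons S140_169_216_290_4 (SL.cons S140_169_216_290_5 (SL.cons S140_169_216_290_6 (SL.cons S140_169_216_290_7 (SL.cons S140_169_216_290_8 (SL.cons S140_169_216_290_9 (SL.cons S140_169_216_290_10 (SL.cons S140_169_216_290_11 (SL.cons S140_169_216_290_12 (SL.cons S140_169_216_290_13 (SL.cons S140_169_216_290_14 (SL.cons S140_169_216_290_15 (SL.cons S140_169_216_290_16 (SL.cons S140_169_216_290_17 (SL.cons S140_169_216_290_18 (SL.cons S140_169_216_290_19 (SL.cons S140_169_216_290_20 (SL.cons S140_169_216_290_21 (SL.cons S140_169_216_290_22 (SL.cons S140_169_216_290_23 (SL.cons S140_169_216_290_24 (SL.cons S140_169_216_290_25 (SL.cons S140_169_216_290_26 (SL.cons S140_169_216_290_27 (SL.cons S140_169_216_290_28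 (SL.cons S140_169_216_290_29 (SL.cons S140_169_216_290_30 (SL.cons S140_169_216_290_31 (SL.cons S140_169_216_290_32 (SL.cons S140_169_216_290_33 (SL.cons S140_169_216_290_34 (SL.cons S140_169_216_290_35 (SL.cons S140_169_216_290_36 (SL.cons S140_169_216_290_37 (SL.cons S140_169_216_290_38 (SL.cons S140_169_216_290_39 (SL.cons S140_169_216_290_40 (SL.cons S140_169_216_290_41 (SL.cons S140_169_216_290_42 (SL.cons S140_169_216_290_43 (SL.cons S140_169_216_290_44 (SL.cons S140_169_216_290_45 (SL.cons S140_169_216_290_46 (SL.cons S140_169_216_290_47 (SL.cons S140_169_216_290_48 SL.nil)))))))))))))))))))))))))))))))))))))))))))))))))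
noncomputable def S140_169_216_364_0 : EL := (EL.cons 0 (TM.mk (P.cons (P.lf 5139680571 0 0) (P.cons (P.lf 636245268 0 0) (P.cons (P.lf 21563379 0 0) (P.cons (P.lf 0 4685115 0) (P.cons (P.lf 0 394321 0) (P.cons (P.lf 4352 0 0) P.nil)))))) 3197)
 (EL.cons 1 (TM.mk (P.cons (P.lf 0 1792040857 0) (P.cons (P.lf 0 37383279 0) (P.cons (P.lf 39281548 0 0) (P.cons (P.lf 2177913 0 0) (P.cons (P.lf 0 137038 0) (P.cons (P.lf 0 19477 0) P.nil)))))) 1484)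
 (EL.cons 5 (TM.mk (P.cons (P.lf 5474002426 0 0) (P.cons (P.lf 0 226220540 0) (P.cons (P.lf 0 7666984 0) (P.cons (P.lf 1665814 0 0) (P.cons (P.lf 140204 0 0) (P.cons (P.lf 0 1546 0) P.nil)))))) 969)
 (EL.cons 9 (TM.mk (P.lf 6442450944 0 0) 2)
 EL.nil))))
noncomputable def S140_169_216_364_1 : EL := (EL.cons 0 (TM.mk (P.cons (P.cons (P.lf 0 4125571104 0) (P.cons (P.lf 137642341 0 0) (P.cons (P.lf 59352925 0 0) (P.lf 0 6594759 0)))) (P.cons (P.cons (P.lf 1096981892 0 0) (P.cons (P.lf 0 24622716 0) (P.cons (P.lf 0 10617602 0) (P.lf 1179744 0 0)))) (P.cons (P.cons (P.lf 384874096 0 0) (P.cons (P.lf 0 23543950 0) (P.cons (P.lf 0 10152414 0) (P.lf 1128038 0 0)))) (P.cons (P.cons (P.lf 0 2587972 0) (P.cons (P.lf 0 2958288 0) (P.cons (P.lf 0 1275635 0) P.nil))) (P.cons (P.cons (P.lf 0 8947257 0) (P.cons (P.lf 228553 0 0) P.nil)) (P.cons (P.cons (P.lf 0 584360 0) P.nil)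 P.nil)))))) 1023353)
 (EL.cons 1 (TM.mk (P.cons (P.cons (P.lf 76716598 0 0) (P.cons (P.lf 34565783 0 0) (P.cons (P.lf 14905149 0 0) (P.lf 0 1656125 0)))) (P.cons (P.cons (P.lf 0 909663396 0) (P.cons (P.lf 52688721 0 0) (P.cons (P.lf 22719962 0 0) (P.lf 0 2524428 0)))) (P.cons (P.cons (P.lf 4168261 0 0) (P.cons (P.lf 7449965 0 0) (P.cons (P.lf 3212502 0 0) (P.lf 0 356940 0)))) (P.cons (P.cons (P.lf 38045609 0 0) (P.cons (P.lf 0 1351104 0) (P.cons (P.lf 0 582604 0) P.nil))) (P.cons (P.cons (P.lf 1941788 0 0) (P.cons (P.lf 0 324601 0) P.nil)) (P.cons (P.cons (P.lf 0 514800 0) P.nil) P.nil)))))) 532508)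
 (EL.cons 5 (TM.mk (P.cons (P.cons (P.lf 2278750584 0 0) (P.cons (P.lf 0 257945004 0) (P.cons (P.lf 0 111228794 0) (P.lf 12358750 0 0)))) (P.cons (P.cons (P.lf 817894201 0 0) (P.cons (P.lf 0 64477858 0) (P.cons (P.lf 0 27803580 0) (P.lf 3089284 0 0)))) (P.cons (P.cons (P.lf 0 143726564 0) (P.cons (P.lf 1612596 0 0) (P.cons (P.lf 695370 0 0) (P.lf 0 77264 0)))) (P.cons (P.cons (P.lf 0 15507856 0) (P.cons (P.lf 1467706 0 0) (P.cons (P.lf 632882 0 0) P.nil))) (P.cons (P.cons (P.lf 2408377 0 0) (P.cons (P.lf 24540 0 0) P.nil)) (P.cons (P.cons (P.lf 299572 0 0) P.nil) P.nil)))))) 406505)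
 (EL.cons 9 (TM.mk (P.cons (P.cons (P.lf 716365458 0 0) (P.cons (P.lf 0 184416618 0) (P.cons (P.lf 0 79522524 0) (P.lf 8835834 0 0)))) (P.cons (P.cons (P.lf 1065822523 0 0) (P.cons (P.lf 0 64617000 0) (P.cons (P.lf 0 27863574 0) (P.lf 3095946 0 0)))) (P.cons (P.cons (P.lf 0 6072742 0) (P.cons (P.lf 0 5963454 0) (P.cons (P.lf 0 2571504 0) (P.lf 285720 0 0)))) (P.cons (P.cons (P.lf 0 14495310 0) (P.cons (P.lf 366942 0 0) (P.cons (P.lf 158226 0 0) P.nil))) (P.cons (P.cons (P.lf 0 681933 0) (P.cons (P.lf 93354 0 0) P.nil)) (P.cons (P.cons (P.lf 80998 0 0) P.nil) P.nil)))))) 102251)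
 (EL.cons 2 (TM.mk (P.cons (P.cons (P.lf 356521533 0 0) (P.cons (P.lf 332132788 0 0) (P.cons (P.lf 0 34087626 0) (P.cons (P.lf 0 7089277 0) (P.lf 590771 0 0))))) (P.cons (P.cons (P.lf 49077348 0 0) (P.cons (P.lf 45720090 0 0) (P.cons (P.lf 0 4692366 0) (P.cons (P.lf 0 975878 0) (P.lf 81320 0 0))))) (P.cons (P.cons (P.lf 0 7966746 0) (P.cons (P.lf 0 7421760 0) (P.cons (P.lf 761712 0 0) (P.cons (P.lf 158414 0 0) P.nil)))) (P.cons (P.cons (P.lf 0 1554766 0) (P.cons (P.lf 0 1448409 0) (P.cons (P.lf 148651 0 0) P.nil))) (P.cons (P.cons (P.lf 0 10257 0) (P.cons (P.lf 0 9556 0) P.nil)) (P.cons (P.cons (P.lf 12670 0 0) P.nil) P.nil)))))) 89109)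
 (EL.cons 6 (TM.mk (P.cons (P.cons (P.lf 192670131 0 0) (P.cons (P.lf 179490051 0 0) (P.cons (P.lf 0 18421518 0) (P.cons (P.lf 0 3831162 0) (P.lf 319260 0 0))))) (P.cons (P.cons (P.lf 67508916 0 0) (P.cons (P.lf 62890800 0 0) (P.cons (P.lf 0 6454641 0) (P.cons (P.lf 0 1342383 0) (P.lf 111864 0 0))))) (P.cons (P.cons (P.lf 6230349 0 0) (P.cons (P.lf 5804145 0 0) (P.cons (P.lf 0 595692 0) (P.cons (P.lf 0 123885 0) P.nil)))) (P.cons (P.cons (P.lf 0 383367 0) (P.cons (P.lf 0 357144 0) (P.cons (P.lf 36654 0 0) P.nil))) (P.cons (P.cons (P.lf 0 97530 0) (P.cons (P.lf 0 90858 0) P.nil)) (P.cons (P.cons (P.lf 0 3279 0) P.nil) P.nil)))))) 47412)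
 EL.nil))))))
noncomputable def S140_169_216_364_2 : EL := (EL.cons 0 (TM.mk (P.cons (P.cons (P.lf 0 981030253 0) (P.cons (P.lf 299519854 0 0) (P.cons (P.lf 117064772 0 0) (P.cons (P.lf 0 24778728 0) (P.cons (P.lf 0 1089661 0) (P.cons (P.lf 499629 0 0) P.nil)))))) (P.cons (P.cons (P.lf 0 1318054077 0) (P.cons (P.lf 124216144 0 0) (P.cons (P.lf 48739360 0 0) (P.cons (P.lf 0 10111823 0) (P.cons (P.lf 0 434727 0) P.nil))))) (P.cons (P.cons (P.lf 293064852 0 0) (P.cons (P.lf 0 24624246 0) (P.cons (P.lf 0 10203665 0) (P.cons (P.lf 1537357 0 0) P.nil)))) (P.cons (P.cons (P.lf 129425308 0 0) (P.cons (P.lf 0 15913636 0) (P.cons (P.lf 0 6344155 0) P.nil))) (P.cons (P.cons (P.lf 0 3583540 0) (P.cons (P.lf 0 1220102 0) P.nil)) (P.cons (P.cons (P.lf 0 4362252 0) P.nil) P.nil)))))) 7622782)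
 (EL.cons 1 (TM.mk (P.cons (P.cons (P.lf 39218143 0 0) (P.cons (P.lf 0 8113029 0) (P.cons (P.lf 0 4008936 0) (P.cons (P.lf 0 51555 0) (P.cons (P.lf 0 46006 0) (P.cons (P.lf 21092 0 0) P.nil)))))) (P.cons (P.cons (P.lf 0 110521583 0) (P.cons (P.lf 52485801 0 0) (P.cons (P.lf 19982280 0 0) (P.cons (P.lf 0 4800288 0) (P.cons (P.lf 0 238822 0) P.nil))))) (P.cons (P.cons (P.lf 0 250641013 0) (P.cons (P.lf 30485247 0 0) (P.cons (P.lf 11862667 0 0) (P.cons (P.lf 0 2567012 0) P.nil)))) (P.cons (P.cons (P.lf 9297379 0 0) (P.cons (P.lf 1423077 0 0) (P.cons (P.lf 456780 0 0) P.nil))) (P.cons (P.cons (P.lf 14539117 0 0) (P.cons (P.lf 0 1471255 0) P.nil)) (P.cons (P.cons (P.lf 531238 0 0) P.nil) P.nil)))))) 3864652)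
 (EL.cons 5 (TM.mk (P.cons (P.cons (P.lf 439087483 0 0) (P.cons (P.lf 0 152976497 0) (P.cons (P.lf 0 55683129 0) (P.cons (P.lf 16196923 0 0) (P.cons (P.lf 926591 0 0) (P.cons (P.lf 0 424850 0) P.nil)))))) (P.cons (P.cons (P.lf 737272409 0 0) (P.cons (P.lf 0 129606538 0) (P.cons (P.lf 0 49979985 0) (P.cons (P.lf 11304772 0 0) (P.cons (P.lf 532397 0 0) P.nil))))) (P.cons (P.cons (P.lf 94105786 0 0) (P.cons (P.lf 0 16584550 0) (P.cons (P.lf 0 6177408 0) (P.cons (P.lf 1634635 0 0) P.nil)))) (P.cons (P.cons (P.lf 0 51948516 0) (P.cons (P.lf 4592988 0 0) (P.cons (P.lf 1908137 0 0) P.nil))) (P.cons (P.cons (P.lf 0 4326859 0) (P.cons (P.lf 981474 0 0) P.nil)) (P.cons (P.cons (P.lf 1346686 0 0) P.nil) P.nil)))))) 3620921)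
 (EL.cons 9 (TM.mk (P.cons (P.cons (P.lf 79655937 0 0) (P.cons (P.lf 0 41012247 0) (P.cons (P.lf 0 12405975 0) (P.cons (P.lf 6517693 0 0) (P.cons (P.lf 475731 0 0) (P.cons (P.lf 0 218130 0) P.nil)))))) (P.cons (P.cons (P.lf 237027319 0 0) (P.cons (P.lf 0 75388938 0) (P.cons (P.lf 0 28809205 0) (P.cons (P.lf 6802464 0 0) (P.cons (P.lf 333379 0 0) P.nil))))) (P.cons (P.cons (P.lf 174976426 0 0) (P.cons (P.lf 0 22358680 0) (P.cons (P.lf 0 8651800 0) (P.cons (P.lf 1924629 0 0) P.nil)))) (P.cons (P.cons (P.lf 0 5232916 0) (P.cons (P.lf 0 939871 0) (P.cons (P.lf 0 306664 0) P.nil))) (P.cons (P.cons (P.lf 0 4942063 0) (P.cons (P.lf 483228 0 0) P.nil)) (P.cons (P.cons (P.lf 0 180294 0) P.nil) P.nil)))))) 1296901)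
 (EL.cons 2 (TM.mk (P.cons (P.cons (P.lf 79286501 0 0) (P.cons (P.lf 53451691 0 0) (P.cons (P.lf 0 35396926 0) (P.cons (P.lf 0 6846480 0) (P.cons (P.lf 2289808 0 0) (P.cons (P.lf 47688 0 0) P.nil)))))) (P.cons (P.cons (P.lf 128878278 0 0) (P.cons (P.lf 110100600 0 0) (P.cons (P.lf 0 25897747 0) (P.cons (P.lf 0 5134623 0) (P.cons (P.lf 1266958 0 0) P.nil))))) (P.cons (P.cons (P.lf 13794615 0 0) (P.cons (P.lf 11662554 0 0) (P.cons (P.lf 0 2938488 0) (P.cons (P.lf 0 581130 0) P.nil)))) (P.cons (P.cons (P.lf 0 4678605 0) (P.cons (P.lf 0 4159974 0) (P.cons (P.lf 717946 0 0) P.nil))) (P.cons (P.cons (P.lf 0 798013 0) (P.cons (P.lf 0 680973 0) P.nil)) (P.cons (P.cons (P.lf 36776 0 0) P.nil) P.nil)))))) 1216698)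
 (EL.cons 6 (TM.mk (P.cons (P.cons (P.lf 42847734 0 0) (P.cons (P.lf 28886178 0 0) (P.cons (P.lf 0 19129086 0) (P.cons (P.lf 0 3699948 0) (P.cons (P.lf 1237446 0 0) (P.cons (P.lf 25770 0 0) P.nil)))))) (P.cons (P.cons (P.lf 78762948 0 0) (P.cons (P.lf 65645136 0 0) (P.cons (P.lf 0 18064902 0) (P.cons (P.lf 0 3561924 0) (P.cons (P.lf 947922 0 0) P.nil))))) (P.cons (P.cons (P.lf 23359332 0 0) (P.cons (P.lf 19693788 0 0) (P.cons (P.lf 0 5051148 0) (P.cons (P.lf 0 998316 0) P.nil)))) (P.cons (P.cons (P.lf 981936 0 0) (P.cons (P.lf 708696 0 0) (P.cons (P.lf 0 374706 0) P.nil))) (P.cons (P.cons (P.lf 0 504852 0) (P.cons (P.lf 0 455304 0) P.nil)) (P.cons (P.cons (P.lf 0 69756 0) P.nil) P.nil)))))) 937908)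
 EL.nil))))))
noncomputable def S140_169_216_364_3 : EL := (EL.cons 0 (TM.mk (P.cons (P.lf 3316036292 0 0) (P.cons (P.lf 0 636245268 0) (P.cons (P.lf 0 21563379 0) (P.cons (P.lf 4685115 0 0) (P.cons (P.lf 394321 0 0) (P.cons (P.lf 0 4352 0) P.nil)))))) 3197)
 (EL.cons 1 (TM.mk (P.cons (P.lf 1792040857 0 0) (P.cons (P.lf 37383279 0 0) (P.cons (P.lf 0 39281548 0) (P.cons (P.lf 0 2177913 0) (P.cons (P.lf 137038 0 0) (P.cons (P.lf 19477 0 0) P.nil)))))) 1484)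
 (EL.cons 5 (TM.mk (P.cons (P.lf 968448518 0 0) (P.cons (P.lf 226220540 0 0) (P.cons (P.lf 7666984 0 0) (P.cons (P.lf 0 1665814 0) (P.cons (P.lf 0 140204 0) (P.cons (P.lf 1546 0 0) P.nil)))))) 962)
 EL.nil)))
noncomputable def S140_169_216_364_4 : EL := (EL.cons 0 (TM.mk (P.cons (P.cons (P.lf 368725174 0 0) (P.cons (P.lf 0 94922289 0) (P.cons (P.lf 0 40931560 0) (P.lf 4547949 0 0)))) (P.cons (P.cons (P.lf 477849510 0 0) (P.cons (P.lf 0 15046774 0) (P.cons (P.lf 0 6488335 0) (P.lf 720922 0 0)))) (P.cons (P.cons (P.lf 0 110782253 0) (P.cons (P.lf 3929229 0 0) (P.cons (P.lf 1694329 0 0) (P.lf 0 188258 0)))) (P.cons (P.cons (P.lf 0 9907672 0) (P.cons (P.lf 859976 0 0) (P.cons (P.lf 370828 0 0) P.nil))) (P.cons (P.cons (P.lf 1919794 0 0) (P.cons (P.lf 0 26506 0) P.nil)) (P.cons (P.cons (P.lf 217889 0 0) P.nil) P.nil)))))) 210916)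
 (EL.cons 1 (TM.mk (P.cons (P.cons (P.lf 199265182 0 0) (P.cons (P.lf 0 51297573 0) (P.cons (P.lf 0 22120091 0) (P.lf 2457785 0 0)))) (P.cons (P.cons (P.lf 300627448 0 0) (P.cons (P.lf 0 19044056 0) (P.cons (P.lf 0 8212008 0) (P.lf 912442 0 0)))) (P.cons (P.cons (P.lf 127496 0 0) (P.cons (P.lf 0 909307 0) (P.cons (P.lf 0 392101 0) (P.lf 43565 0 0)))) (P.cons (P.cons (P.lf 0 10808083 0) (P.cons (P.lf 523796 0 0) (P.cons (P.lf 225864 0 0) P.nil))) (P.cons (P.cons (P.lf 0 581840 0) (P.cons (P.lf 82378 0 0) P.nil)) (P.cons (P.cons (P.lf 133845 0 0) P.nil) P.nil)))))) 126039)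
 (EL.cons 5 (TM.mk (P.cons (P.cons (P.lf 107686200 0 0) (P.cons (P.lf 0 27722058 0) (P.cons (P.lf 0 11954062 0) (P.lf 1328228 0 0)))) (P.cons (P.cons (P.lf 185372124 0 0) (P.cons (P.lf 0 16189034 0) (P.cons (P.lf 0 6980892 0) (P.lf 775652 0 0)))) (P.cons (P.cons (P.lf 37364998 0 0) (P.cons (P.lf 0 3384876 0) (P.cons (P.lf 0 1459596 0) (P.lf 162176 0 0)))) (P.cons (P.cons (P.lf 0 1309040 0) (P.cons (P.lf 0 183454 0) (P.cons (P.lf 0 79106 0) P.nil))) (P.cons (P.cons (P.lf 0 909904 0) (P.cons (P.lf 40542 0 0) P.nil)) (P.cons (P.cons (P.lf 0 50472 0) P.nil) P.nil)))))) 70974)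
 EL.nil)))
noncomputable def S140_169_216_364_5 : EL := (EL.cons 0 (TM.mk (P.cons (P.cons (P.lf 41000229 0 0) (P.cons (P.lf 0 21109682 0) (P.cons (P.lf 0 6385559 0) (P.cons (P.lf 3354764 0 0) (P.cons (P.lf 244865 0 0) (P.cons (P.lf 0 112275 0) P.nil)))))) (P.cons (P.cons (P.lf 114135206 0 0) (P.cons (P.lf 0 34753637 0) (P.cons (P.lf 0 13603382 0) (P.cons (P.lf 2857663 0 0) (P.cons (P.lf 124613 0 0) P.nil))))) (P.cons (P.cons (P.lf 66388245 0 0) (P.cons (P.lf 0 3925831 0) (P.cons (P.lf 0 1566553 0) (P.cons (P.lf 297022 0 0) P.nil)))) (P.cons (P.cons (P.lf 0 20709256 0) (P.cons (P.lf 1946844 0 0) (P.cons (P.lf 783994 0 0) P.nil))) (P.cons (P.cons (P.lf 0 2435378 0) (P.cons (P.lf 359045 0 0) P.nil)) (P.cons (P.cons (P.lf 554484 0 0) P.nil) P.nil)))))) 1312302)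
 (EL.cons 1 (TM.mk (P.cons (P.cons (P.lf 22157201 0 0) (P.cons (P.lf 0 11408021 0) (P.cons (P.lf 0 3450860 0) (P.cons (P.lf 1812969 0 0) (P.cons (P.lf 132328 0 0) (P.cons (P.lf 0 60673 0) P.nil)))))) (P.cons (P.cons (P.lf 66394053 0 0) (P.cons (P.lf 0 21208267 0) (P.cons (P.lf 0 8085594 0) (P.cons (P.lf 1930001 0 0) (P.cons (P.lf 95491 0 0) P.nil))))) (P.cons (P.cons (P.lf 49561378 0 0) (P.cons (P.lf 0 6406711 0) (P.cons (P.lf 0 2498122 0) (P.cons (P.lf 535087 0 0) P.nil)))) (P.cons (P.cons (P.lf 0 1912421 0) (P.cons (P.lf 82357 0 0) (P.cons (P.lf 44345 0 0) P.nil))) (P.cons (P.cons (P.lf 0 2550373 0) (P.cons (P.lf 289901 0 0) P.nil)) (P.cons (P.cons (P.lf 0 100790 0) P.nil) P.nil)))))) 765389)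
 (EL.cons 5 (TM.mk (P.cons (P.cons (P.lf 11974118 0 0) (P.cons (P.lf 0 6165082 0) (P.cons (P.lf 0 1864902 0) (P.cons (P.lf 979758 0 0) (P.cons (P.lf 71512 0 0) (P.cons (P.lf 0 32788 0) P.nil)))))) (P.cons (P.cons (P.lf 38427698 0 0) (P.cons (P.lf 0 12772796 0) (P.cons (P.lf 0 4766308 0) (P.cons (P.lf 1251428 0 0) (P.cons (P.lf 66818 0 0) P.nil))))) (P.cons (P.cons (P.lf 34720764 0 0) (P.cons (P.lf 0 6057042 0) (P.cons (P.lf 0 2326936 0) (P.cons (P.lf 535934 0 0) P.nil)))) (P.cons (P.cons (P.lf 5618984 0 0) (P.cons (P.lf 0 1005500 0) (P.cons (P.lf 0 380974 0) P.nil))) (P.cons (P.cons (P.lf 0 781440 0) (P.cons (P.lf 33414 0 0) P.nil)) (P.cons (P.cons (P.lf 0 257248 0) P.nil) P.nil)))))) 461788)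
 EL.nil)))
noncomputable def S140_169_216_364_6 : EL := (EL.cons 12 (TM.mk (P.lf 8589934592 0 0) 0)
 (EL.cons 3 (TM.mk (P.cons (P.lf 0 2668545243 0) (P.cons (P.lf 256005836 0 0) (P.cons (P.lf 20956361 0 0) (P.cons (P.lf 125291 0 0) (P.cons (P.lf 0 64357 0) (P.cons (P.lf 0 3438 0) P.nil)))))) 378)
 (EL.cons 7 (TM.mk (P.cons (P.lf 0 1442125985 0) (P.cons (P.lf 0 168433589 0) (P.cons (P.lf 4127638 0 0) (P.cons (P.lf 758202 0 0) (P.cons (P.lf 21743 0 0) (P.cons (P.lf 0 1521 0) P.nil)))))) 224)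
 EL.nil)))
noncomputable def S140_169_216_364_7 : EL := (EL.cons 12 (TM.mk (P.cons (P.cons (P.lf 955153944 0 0) (P.cons (P.lf 0 245888824 0) (P.cons (P.lf 0 106030032 0) (P.lf 11781112 0 0)))) (P.cons (P.cons (P.lf 1421096698 0 0) (P.cons (P.lf 0 86156000 0) (P.cons (P.lf 0 37151432 0) (P.lf 4127928 0 0)))) (P.cons (P.cons (P.lf 0 8096990 0) (P.cons (P.lf 0 7951272 0) (P.cons (P.lf 0 3428672 0) (P.lf 380960 0 0)))) (P.cons (P.cons (P.lf 0 19327080 0) (P.cons (P.lf 489256 0 0) (P.cons (P.lf 210968 0 0) P.nil))) (P.cons (P.cons (P.lf 0 909244 0) (P.cons (P.lf 124472 0 0) P.nil)) (P.cons (P.cons (P.lf 107998 0 0) P.nil) P.nil)))))) 136310)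
 (EL.cons 3 (TM.mk (P.cons (P.cons (P.lf 3483194363 0 0) (P.cons (P.lf 0 152775422 0) (P.cons (P.lf 0 65878482 0) (P.lf 7319828 0 0)))) (P.cons (P.cons (P.lf 0 191970810 0) (P.cons (P.lf 0 38873916 0) (P.cons (P.lf 0 16762866 0) (P.lf 1862534 0 0)))) (P.cons (P.cons (P.lf 0 128898587 0) (P.cons (P.lf 1394898 0 0) (P.cons (P.lf 601498 0 0) (P.lf 0 66834 0)))) (P.cons (P.cons (P.lf 0 10991272 0) (P.cons (P.lf 1205478 0 0) (P.cons (P.lf 519810 0 0) P.nil))) (P.cons (P.cons (P.lf 1230357 0 0) (P.cons (P.lf 85798 0 0) P.nil)) (P.cons (P.cons (P.lf 230931 0 0) P.nil) P.nil)))))) 402986)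
 (EL.cons 7 (TM.mk (P.cons (P.cons (P.lf 0 2647275807 0) (P.cons (P.lf 192054193 0 0) (P.cons (P.lf 82815936 0 0) (P.lf 0 9201770 0)))) (P.cons (P.cons (P.lf 126303099 0 0) (P.cons (P.lf 25576270 0 0) (P.cons (P.lf 11028777 0 0) (P.lf 0 1225421 0)))) (P.cons (P.cons (P.lf 71371855 0 0) (P.cons (P.lf 0 3638158 0) (P.cons (P.lf 0 1568813 0) (P.lf 174313 0 0)))) (P.cons (P.cons (P.lf 0 3959804 0) (P.cons (P.lf 0 493698 0) (P.cons (P.lf 0 212888 0) P.nil))) (P.cons (P.cons (P.lf 0 1198662 0) (P.cons (P.lf 45320 0 0) P.nil)) (P.cons (P.cons (P.lf 0 4278 0) P.nil) P.nil)))))) 266596)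
 (EL.cons 10 (TM.mk (P.cons (P.cons (P.lf 0 573813891 0) (P.cons (P.lf 0 534560721 0) (P.cons (P.lf 54863319 0 0) (P.cons (P.lf 11410044 0 0) (P.lf 0 950835 0))))) (P.cons (P.cons (P.lf 0 134037570 0) (P.cons (P.lf 0 124868397 0) (P.cons (P.lf 12815559 0 0) (P.cons (P.lf 2665278 0 0) (P.lf 0 222105 0))))) (P.cons (P.cons (P.lf 0 4542750 0) (P.cons (P.lf 0 4231992 0) (P.cons (P.lf 434340 0 0) (P.cons (P.lf 90330 0 0) P.nil)))) (P.cons (P.cons (P.lf 987006 0 0) (P.cons (P.lf 919488 0 0) (P.cons (P.lf 0 94368 0) P.nil))) (P.cons (P.cons (P.lf 83070 0 0) (P.cons (P.lf 77388 0 0) P.nil)) (P.cons (P.cons (P.lf 0 915 0) P.nil) P.nil)))))) 40752)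
 EL.nil))))
noncomputable def S140_169_216_364_8 : EL := (EL.cons 12 (TM.mk (P.cons (P.cons (P.lf 106207916 0 0) (P.cons (P.lf 0 54682996 0) (P.cons (P.lf 0 16541300 0) (P.cons (P.lf 8690258 0 0) (P.cons (P.lf 634308 0 0) (P.cons (P.lf 0 290840 0) P.nil)))))) (P.cons (P.cons (P.lf 316036426 0 0) (P.cons (P.lf 0 100518584 0) (P.cons (P.lf 0 38412274 0) (P.cons (P.lf 9069952 0 0) (P.cons (P.lf 444506 0 0) P.nil))))) (P.cons (P.cons (P.lf 233301902 0 0) (P.cons (P.lf 0 29811574 0) (P.cons (P.lf 0 11535734 0) (P.cons (P.lf 2566172 0 0) P.nil)))) (P.cons (P.cons (P.lf 0 6977222 0) (P.cons (P.lf 0 1253162 0) (P.cons (P.lf 0 408886 0) P.nil))) (P.cons (P.cons (P.lf 0 6589418 0) (P.cons (P.lf 644304 0 0) P.nil)) (P.cons (P.cons (P.lf 0 240392 0) P.nil) P.nil)))))) 1729172)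
 (EL.cons 3 (TM.mk (P.cons (P.cons (P.lf 807618985 0 0) (P.cons (P.lf 0 250377840 0) (P.cons (P.lf 0 97032666 0) (P.cons (P.lf 21425119 0 0) (P.cons (P.lf 985271 0 0) (P.cons (P.lf 0 451761 0) P.nil)))))) (P.cons (P.cons (P.lf 1204823643 0 0) (P.cons (P.lf 0 147673638 0) (P.cons (P.lf 0 57065796 0) (P.cons (P.lf 12778350 0 0) (P.cons (P.lf 595925 0 0) P.nil))))) (P.cons (P.cons (P.lf 0 35951051 0) (P.cons (P.lf 0 13614309 0) (P.cons (P.lf 0 4642164 0) (P.cons (P.lf 1711746 0 0) P.nil)))) (P.cons (P.cons (P.lf 0 70299084 0) (P.cons (P.lf 6202686 0 0) (P.cons (P.lf 2621623 0 0) P.nil))) (P.cons (P.cons (P.lf 0 5405759 0) (P.cons (P.lf 1401629 0 0) P.nil)) (P.cons (P.cons (P.lf 1325164 0 0) P.nil) P.nil)))))) 4272444)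
 (EL.cons 7 (TM.mk (P.cons (P.cons (P.lf 0 570894527 0) (P.cons (P.lf 185088011 0 0) (P.cons (P.lf 69998531 0 0) (P.cons (P.lf 0 17331386 0) (P.cons (P.lf 0 884373 0) (P.cons (P.lf 405497 0 0) P.nil)))))) (P.cons (P.cons (P.lf 0 792688067 0) (P.cons (P.lf 97158728 0 0) (P.cons (P.lf 37545226 0 0) (P.cons (P.lf 0 8407246 0) (P.cons (P.lf 0 392073 0) P.nil))))) (P.cons (P.cons (P.lf 107967464 0 0) (P.cons (P.lf 0 1377036 0) (P.cons (P.lf 0 939278 0) (P.cons (P.lf 0 231977 0) P.nil)))) (P.cons (P.cons (P.lf 37651024 0 0) (P.cons (P.lf 0 4708216 0) (P.cons (P.lf 0 1909503 0) P.nil))) (P.cons (P.cons (P.lf 0 3102599 0) (P.cons (P.lf 0 241632 0) P.nil)) (P.cons (P.cons (P.lf 0 992152 0) P.nil) P.nil)))))) 2316244)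
 (EL.cons 10 (TM.mk (P.cons (P.cons (P.lf 0 127609956 0) (P.cons (P.lf 0 86029374 0) (P.cons (P.lf 56970612 0 0) (P.cons (P.lf 11019264 0 0) (P.cons (P.lf 0 3685398 0) (P.cons (P.lf 0 76752 0) P.nil)))))) (P.cons (P.cons (P.lf 0 219669084 0) (P.cons (P.lf 0 185457792 0) (P.cons (P.lf 47147340 0 0) (P.cons (P.lf 9321198 0 0) (P.cons (P.lf 0 2392698 0) P.nil))))) (P.cons (P.cons (P.lf 0 44278146 0) (P.cons (P.lf 0 37238052 0) (P.cons (P.lf 9699900 0 0) (P.cons (P.lf 1916082 0 0) P.nil)))) (P.cons (P.cons (P.lf 1551234 0 0) (P.cons (P.lf 1662516 0 0) (P.cons (P.lf 147954 0 0) P.nil))) (P.cons (P.cons (P.lf 1078248 0 0) (P.cons (P.lf 956442 0 0) P.nil)) (P.cons (P.cons (P.lf 59808 0 0) P.nil) P.nil)))))) 1768968)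
 EL.nil))))
noncomputable def S140_169_216_364_9 : EL := (EL.cons 3 (TM.mk (P.cons (P.lf 0 2668545243 0) (P.cons (P.lf 256005836 0 0) (P.cons (P.lf 20956361 0 0) (P.cons (P.lf 125291 0 0) (P.cons (P.lf 0 64357 0) (P.cons (P.lf 0 3438 0) P.nil)))))) 378)
 (EL.cons 7 (TM.mk (P.cons (P.lf 0 1442125985 0) (P.cons (P.lf 0 168433589 0) (P.cons (P.lf 4127638 0 0) (P.cons (P.lf 758202 0 0) (P.cons (P.lf 21743 0 0) (P.cons (P.lf 0 1521 0) P.nil)))))) 224)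
 EL.nil))
noncomputable def S140_169_216_364_10 : EL := (EL.cons 3 (TM.mk (P.cons (P.cons (P.lf 0 296727697 0) (P.cons (P.lf 76387711 0 0) (P.cons (P.lf 32939241 0 0) (P.lf 0 3659914 0)))) (P.cons (P.cons (P.lf 0 413010810 0) (P.cons (P.lf 19436958 0 0) (P.cons (P.lf 8381433 0 0) (P.lf 0 931267 0)))) (P.cons (P.cons (P.lf 47198587 0 0) (P.cons (P.lf 0 697449 0) (P.cons (P.lf 0 300749 0) (P.lf 33417 0 0)))) (P.cons (P.cons (P.lf 9243725 0 0) (P.cons (P.lf 0 602739 0) (P.cons (P.lf 0 259905 0) P.nil))) (P.cons (P.cons (P.lf 0 299721 0) (P.cons (P.lf 0 42899 0) P.nil)) (P.cons (P.cons (P.lf 0 118947 0) P.nil) P.nil)))))) 99514)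
 (EL.cons 7 (TM.mk (P.cons (P.cons (P.lf 0 160356555 0) (P.cons (P.lf 41281183 0 0) (P.cons (P.lf 17800911 0 0) (P.lf 0 1977878 0)))) (P.cons (P.cons (P.lf 0 257310513 0) (P.cons (P.lf 19285798 0 0) (P.cons (P.lf 8316252 0 0) (P.lf 0 924026 0)))) (P.cons (P.cons (P.lf 0 26046881 0) (P.cons (P.lf 2906117 0 0) (P.cons (P.lf 1253149 0 0) (P.lf 0 139238 0)))) (P.cons (P.cons (P.lf 4170679 0 0) (P.cons (P.lf 10668 0 0) (P.cons (P.lf 4600 0 0) P.nil))) (P.cons (P.cons (P.lf 655581 0 0) (P.cons (P.lf 0 42538 0) P.nil)) (P.cons (P.cons (P.lf 0 6876 0) P.nil) P.nil)))))) 55254)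
 EL.nil))
noncomputable def S140_169_216_364_11 : EL := (EL.cons 3 (TM.mk (P.cons (P.cons (P.lf 0 32994503 0) (P.cons (P.lf 16987794 0 0) (P.cons (P.lf 5138712 0 0) (P.cons (P.lf 0 2699711 0) (P.cons (P.lf 0 197053 0) (P.cons (P.lf 90351 0 0) P.nil)))))) (P.cons (P.cons (P.lf 0 95014419 0) (P.cons (P.lf 29597340 0 0) (P.cons (P.lf 11440158 0 0) (P.cons (P.lf 0 2558670 0) (P.cons (P.lf 0 119185 0) P.nil))))) (P.cons (P.cons (P.lf 0 62799521 0) (P.cons (P.lf 6132087 0 0) (P.cons (P.lf 2398530 0 0) (P.cons (P.lf 0 505692 0) P.nil)))) (P.cons (P.cons (P.lf 9893202 0 0) (P.cons (P.lf 0 745194 0) (P.cons (P.lf 0 310727 0) P.nil))) (P.cons (P.cons (P.lf 2412109 0 0) (P.cons (P.lf 0 311293 0) P.nil)) (P.cons (P.cons (P.lf 0 137732 0) P.nil) P.nil)))))) 817724)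
 (EL.cons 7 (TM.mk (P.cons (P.cons (P.lf 0 17830775 0) (P.cons (P.lf 9180485 0 0) (P.cons (P.lf 2777045 0 0) (P.cons (P.lf 0 1458968 0) (P.cons (P.lf 0 106491 0) (P.cons (P.lf 48827 0 0) P.nil)))))) (P.cons (P.cons (P.lf 0 55140503 0) (P.cons (P.lf 17947856 0 0) (P.cons (P.lf 6773212 0 0) (P.cons (P.lf 0 1693114 0) (P.cons (P.lf 0 87063 0) P.nil))))) (P.cons (P.cons (P.lf 0 45313906 0) (P.cons (P.lf 6949650 0 0) (P.cons (P.lf 2681932 0 0) (P.cons (P.lf 0 604493 0) P.nil)))) (P.cons (P.cons (P.lf 0 3242030 0) (P.cons (P.lf 741812 0 0) (P.cons (P.lf 274923 0 0) P.nil))) (P.cons (P.cons (P.lf 1383349 0 0) (P.cons (P.lf 0 106932 0) P.nil)) (P.cons (P.cons (P.lf 187586 0 0) P.nil) P.nil)))))) 443238)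
 EL.nil))
noncomputable def S140_169_216_364_12 : EL := (EL.cons 4 (TM.mk (P.cons (P.lf 2668545243 0 0) (P.cons (P.lf 0 256005836 0) (P.cons (P.lf 0 20956361 0) (P.cons (P.lf 0 125291 0) (P.cons (P.lf 64357 0 0) (P.cons (P.lf 3438 0 0) P.nil)))))) 378)
 (EL.cons 8 (TM.mk (P.cons (P.lf 1442125985 0 0) (P.cons (P.lf 168433589 0 0) (P.cons (P.lf 0 4127638 0) (P.cons (P.lf 0 758202 0) (P.cons (P.lf 0 21743 0) (P.cons (P.lf 1521 0 0) P.nil)))))) 224)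
 EL.nil))
noncomputable def S140_169_216_364_13 : EL := (EL.cons 4 (TM.mk (P.cons (P.cons (P.lf 296727697 0 0) (P.cons (P.lf 0 76387711 0) (P.cons (P.lf 0 32939241 0) (P.lf 3659914 0 0)))) (P.cons (P.cons (P.lf 413010810 0 0) (P.cons (P.lf 0 19436958 0) (P.cons (P.lf 0 8381433 0) (P.lf 931267 0 0)))) (P.cons (P.cons (P.lf 0 47198587 0) (P.cons (P.lf 697449 0 0) (P.cons (P.lf 300749 0 0) (P.lf 0 33417 0)))) (P.cons (P.cons (P.lf 0 9243725 0) (P.cons (P.lf 602739 0 0) (P.cons (P.lf 259905 0 0) P.nil))) (P.cons (P.cons (P.lf 299721 0 0) (P.cons (P.lf 42899 0 0) P.nil)) (P.cons (P.cons (P.lf 118947 0 0) P.nil) P.nil)))))) 99514)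
 (EL.cons 8 (TM.mk (P.cons (P.cons (P.lf 160356555 0 0) (P.cons (P.lf 0 41281183 0) (P.cons (P.lf 0 17800911 0) (P.lf 1977878 0 0)))) (P.cons (P.cons (P.lf 257310513 0 0) (P.cons (P.lf 0 19285798 0) (P.cons (P.lf 0 8316252 0) (P.lf 924026 0 0)))) (P.cons (P.cons (P.lf 26046881 0 0) (P.cons (P.lf 0 2906117 0) (P.cons (P.lf 0 1253149 0) (P.lf 139238 0 0)))) (P.cons (P.cons (P.lf 0 4170679 0) (P.cons (P.lf 0 10668 0) (P.cons (P.lf 0 4600 0) P.nil))) (P.cons (P.cons (P.lf 0 655581 0) (P.cons (P.lf 42538 0 0) P.nil)) (P.cons (P.cons (P.lf 6876 0 0) P.nil) P.nil)))))) 55254)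
 EL.nil))
noncomputable def S140_169_216_364_14 : EL := (EL.cons 4 (TM.mk (P.cons (P.cons (P.lf 32994503 0 0) (P.cons (P.lf 0 16987794 0) (P.cons (P.lf 0 5138712 0) (P.cons (P.lf 2699711 0 0) (P.cons (P.lf 197053 0 0) (P.cons (P.lf 0 90351 0) P.nil)))))) (P.cons (P.cons (P.lf 95014419 0 0) (P.cons (P.lf 0 29597340 0) (P.cons (P.lf 0 11440158 0) (P.cons (P.lf 2558670 0 0) (P.cons (P.lf 119185 0 0) P.nil))))) (P.cons (P.cons (P.lf 62799521 0 0) (P.cons (P.lf 0 6132087 0) (P.cons (P.lf 0 2398530 0) (P.cons (P.lf 505692 0 0) P.nil)))) (P.cons (P.cons (P.lf 0 9893202 0) (P.cons (P.lf 745194 0 0) (P.cons (P.lf 310727 0 0) P.nil))) (P.cons (P.cons (P.lf 0 2412109 0) (P.cons (P.lf 311293 0 0) P.nil)) (P.cons (P.cons (P.lf 137732 0 0) P.nil) P.nil)))))) 817724)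
 (EL.cons 8 (TM.mk (P.cons (P.cons (P.lf 17830775 0 0) (P.cons (P.lf 0 9180485 0) (P.cons (P.lf 0 2777045 0) (P.cons (P.lf 1458968 0 0) (P.cons (P.lf 106491 0 0) (P.cons (P.lf 0 48827 0) P.nil)))))) (P.cons (P.cons (P.lf 55140503 0 0) (P.cons (P.lf 0 17947856 0) (P.cons (P.lf 0 6773212 0) (P.cons (P.lf 1693114 0 0) (P.cons (P.lf 87063 0 0) P.nil))))) (P.cons (P.cons (P.lf 45313906 0 0) (P.cons (P.lf 0 6949650 0) (P.cons (P.lf 0 2681932 0) (P.cons (P.lf 604493 0 0) P.nil)))) (P.cons (P.cons (P.lf 3242030 0 0) (P.cons (P.lf 0 741812 0) (P.cons (P.lf 0 274923 0) P.nil))) (P.cons (P.cons (P.lf 0 1383349 0) (P.cons (P.lf 106932 0 0) P.nil)) (P.cons (P.cons (P.lf 0 187586 0) P.nil) P.nil)))))) 443238)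
 EL.nil))
noncomputable def S140_169_216_364_15 : EL := (EL.cons 4 (TM.mk (P.cons (P.lf 0 1768552689 0) (P.cons (P.lf 339330810 0 0) (P.cons (P.lf 11500469 0 0) (P.cons (P.lf 0 2498728 0) (P.cons (P.lf 0 210304 0) (P.cons (P.lf 2321 0 0) P.nil)))))) 1708)
 (EL.cons 8 (TM.mk (P.cons (P.lf 0 955755124 0) (P.cons (P.lf 0 19937749 0) (P.cons (P.lf 20950159 0 0) (P.cons (P.lf 1161554 0 0) (P.cons (P.lf 0 73087 0) (P.cons (P.lf 0 10388 0) P.nil)))))) 788)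
 EL.nil))
noncomputable def S140_169_216_364_16 : EL := (EL.cons 4 (TM.mk (P.cons (P.cons (P.lf 0 196653426 0) (P.cons (P.lf 50625221 0 0) (P.cons (P.lf 21830165 0 0) (P.lf 0 2425573 0)))) (P.cons (P.cons (P.lf 0 254853072 0) (P.cons (P.lf 8024946 0 0) (P.cons (P.lf 3460445 0 0) (P.lf 0 384492 0)))) (P.cons (P.cons (P.lf 59083868 0 0) (P.cons (P.lf 0 2095589 0) (P.cons (P.lf 0 903642 0) (P.lf 100404 0 0)))) (P.cons (P.cons (P.lf 5284092 0 0) (P.cons (P.lf 0 458654 0) (P.cons (P.lf 0 197775 0) P.nil))) (P.cons (P.cons (P.lf 0 1023890 0) (P.cons (P.lf 14136 0 0) P.nil)) (P.cons (P.cons (P.lf 0 116207 0) P.nil) P.nil)))))) 112497)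
 (EL.cons 8 (TM.mk (P.cons (P.cons (P.lf 0 106274764 0) (P.cons (P.lf 27358706 0 0) (P.cons (P.lf 11797382 0 0) (P.lf 0 1310819 0)))) (P.cons (P.cons (P.lf 0 160334639 0) (P.cons (P.lf 10156830 0 0) (P.cons (P.lf 4379738 0 0) (P.lf 0 486636 0)))) (P.cons (P.cons (P.lf 0 67998 0) (P.cons (P.lf 484964 0 0) (P.cons (P.lf 209121 0 0) (P.lf 0 23235 0)))) (P.cons (P.cons (P.lf 5764311 0 0) (P.cons (P.lf 0 279358 0) (P.cons (P.lf 0 120461 0) P.nil))) (P.cons (P.cons (P.lf 310315 0 0) (P.cons (P.lf 0 43935 0) P.nil)) (P.cons (P.cons (P.lf 0 71384 0) P.nil) P.nil)))))) 67211)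
 EL.nil))
noncomputable def S140_169_216_364_17 : EL := (EL.cons 4 (TM.mk (P.cons (P.cons (P.lf 0 21866789 0) (P.cons (P.lf 11258497 0 0) (P.cons (P.lf 3405631 0 0) (P.cons (P.lf 0 1789207 0) (P.cons (P.lf 0 130594 0) (P.cons (P.lf 59880 0 0) P.nil)))))) (P.cons (P.cons (P.lf 0 60872110 0) (P.cons (P.lf 18535273 0 0) (P.cons (P.lf 7255137 0 0) (P.cons (P.lf 0 1524087 0) (P.cons (P.lf 0 66460 0) P.nil))))) (P.cons (P.cons (P.lf 0 35407064 0) (P.cons (P.lf 2093776 0 0) (P.cons (P.lf 835495 0 0) (P.cons (P.lf 0 158412 0) P.nil)))) (P.cons (P.cons (P.lf 11044936 0 0) (P.cons (P.lf 0 1038316 0) (P.cons (P.lf 0 418130 0) P.nil))) (P.cons (P.cons (P.lf 1298868 0 0) (P.cons (P.lf 0 191490 0) P.nil)) (P.cons (P.cons (P.lf 0 295725 0) P.nil) P.nil)))))) 699905)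
 (EL.cons 8 (TM.mk (P.cons (P.cons (P.lf 0 11817174 0) (P.cons (P.lf 6084278 0 0) (P.cons (P.lf 1840459 0 0) (P.cons (P.lf 0 966917 0) (P.cons (P.lf 0 70575 0) (P.cons (P.lf 32359 0 0) P.nil)))))) (P.cons (P.cons (P.lf 0 35410162 0) (P.cons (P.lf 11311076 0 0) (P.cons (P.lf 4312317 0 0) (P.cons (P.lf 0 1029334 0) (P.cons (P.lf 0 50929 0) P.nil))))) (P.cons (P.cons (P.lf 0 26432735 0) (P.cons (P.lf 3416913 0 0) (P.cons (P.lf 1332332 0 0) (P.cons (P.lf 0 285380 0) P.nil)))) (P.cons (P.cons (P.lf 1019958 0 0) (P.cons (P.lf 0 43924 0) (P.cons (P.lf 0 23651 0) P.nil))) (P.cons (P.cons (P.lf 1360199 0 0) (P.cons (P.lf 0 154614 0) P.nil)) (P.cons (P.cons (P.lf 53755 0 0) P.nil) P.nil)))))) 408196)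
 EL.nil))
noncomputable def S140_169_216_364_18 : EL := (EL.cons 4 (TM.mk (P.cons (P.lf 1172091282 0 0) (P.cons (P.lf 0 337332345 0) (P.cons (P.lf 4748184 0 0) (P.cons (P.lf 4098243 0 0) (P.cons (P.lf 79189 0 0) (P.cons (P.lf 0 31469 0) P.nil)))))) 3321)
 (EL.cons 8 (TM.mk (P.cons (P.lf 633417514 0 0) (P.cons (P.lf 0 47553107 0) (P.cons (P.lf 0 20126446 0) (P.cons (P.lf 428689 0 0) (P.cons (P.lf 245981 0 0) (P.cons (P.lf 10070 0 0) P.nil)))))) 1843)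
 EL.nil))
noncomputable def S140_169_216_364_19 : EL := (EL.cons 4 (TM.mk (P.cons (P.cons (P.lf 130330166 0 0) (P.cons (P.lf 0 33551378 0) (P.cons (P.lf 0 14467732 0) (P.lf 1607524 0 0)))) (P.cons (P.cons (P.lf 156398249 0 0) (P.cons (P.lf 0 2099717 0) (P.cons (P.lf 0 905420 0) (P.lf 100601 0 0)))) (P.cons (P.cons (P.lf 0 56384252 0) (P.cons (P.lf 2162537 0 0) (P.cons (P.lf 932510 0 0) (P.lf 0 103612 0)))) (P.cons (P.cons (P.lf 0 1077963 0) (P.cons (P.lf 214073 0 0) (P.cons (P.lf 92310 0 0) P.nil))) (P.cons (P.cons (P.lf 1317253 0 0) (P.cons (P.lf 0 49995 0) P.nil)) (P.cons (P.cons (P.lf 45497 0 0) P.nil) P.nil)))))) 113854)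
 (EL.cons 8 (TM.mk (P.cons (P.cons (P.lf 70432577 0 0) (P.cons (P.lf 0 18131719 0) (P.cons (P.lf 0 7818601 0) (P.lf 868733 0 0)))) (P.cons (P.cons (P.lf 99503318 0 0) (P.cons (P.lf 0 4991881 0) (P.cons (P.lf 0 2152555 0) (P.lf 239172 0 0)))) (P.cons (P.cons (P.lf 0 10702083 0) (P.cons (P.lf 466752 0 0) (P.cons (P.lf 201269 0 0) (P.lf 0 22363 0)))) (P.cons (P.cons (P.lf 0 4662344 0) (P.cons (P.lf 269689 0 0) (P.cons (P.lf 116292 0 0) P.nil))) (P.cons (P.cons (P.lf 157190 0 0) (P.cons (P.lf 13759 0 0) P.nil)) (P.cons (P.cons (P.lf 99691 0 0) P.nil) P.nil)))))) 70209)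
 EL.nil))
noncomputable def S140_169_216_364_20 : EL := (EL.cons 4 (TM.mk (P.cons (P.cons (P.lf 14492004 0 0) (P.cons (P.lf 0 7461460 0) (P.cons (P.lf 0 2257050 0) (P.cons (P.lf 1185780 0 0) (P.cons (P.lf 86550 0 0) (P.cons (P.lf 0 39684 0) P.nil)))))) (P.cons (P.cons (P.lf 38952120 0 0) (P.cons (P.lf 0 11568261 0) (P.cons (P.lf 0 4591742 0) (P.cons (P.lf 896316 0 0) (P.cons (P.lf 35742 0 0) P.nil))))) (P.cons (P.cons (P.lf 19481651 0 0) (P.cons (P.lf 0 150566 0) (P.cons (P.lf 0 74711 0) (P.cons (P.lf 0 1226 0) P.nil)))) (P.cons (P.cons (P.lf 0 9888590 0) (P.cons (P.lf 918074 0 0) (P.cons (P.lf 368098 0 0) P.nil))) (P.cons (P.cons (P.lf 0 344401 0) (P.cons (P.lf 72186 0 0) P.nil)) (P.cons (P.cons (P.lf 335944 0 0) P.nil) P.nil)))))) 568607)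
 (EL.cons 8 (TM.mk (P.cons (P.cons (P.lf 7831718 0 0) (P.cons (P.lf 0 4032296 0) (P.cons (P.lf 0 1219747 0) (P.cons (P.lf 640815 0 0) (P.cons (P.lf 46773 0 0) (P.cons (P.lf 0 21446 0) P.nil)))))) (P.cons (P.cons (P.lf 22716411 0 0) (P.cons (P.lf 0 7109470 0) (P.cons (P.lf 0 2740930 0) (P.cons (P.lf 620704 0 0) (P.cons (P.lf 29266 0 0) P.nil))))) (P.cons (P.cons (P.lf 15205168 0 0) (P.cons (P.lf 0 1513705 0) (P.cons (P.lf 0 599235 0) (P.cons (P.lf 118656 0 0) P.nil)))) (P.cons (P.cons (P.lf 0 2541216 0) (P.cons (P.lf 305415 0 0) (P.cons (P.lf 122884 0 0) P.nil))) (P.cons (P.cons (P.lf 0 975094 0) (P.cons (P.lf 117714 0 0) P.nil)) (P.cons (P.cons (P.lf 55917 0 0) P.nil) P.nil)))))) 342612)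
 EL.nil))
noncomputable def S140_169_216_364_21 : EL := (EL.cons 4 (TM.mk (P.cons (P.cons (P.lf 0 3779922060 0) (P.cons (P.lf 229163133 0 0) (P.cons (P.lf 98817723 0 0) (P.lf 0 10979742 0)))) (P.cons (P.cons (P.lf 0 221040000 0) (P.cons (P.lf 58310874 0 0) (P.cons (P.lf 25144299 0 0) (P.lf 0 2793801 0)))) (P.cons (P.cons (P.lf 176097174 0 0) (P.cons (P.lf 0 2092347 0) (P.cons (P.lf 0 902247 0) (P.lf 100251 0 0)))) (P.cons (P.cons (P.lf 20234997 0 0) (P.cons (P.lf 0 1808217 0) (P.cons (P.lf 0 779715 0) P.nil))) (P.cons (P.cons (P.lf 0 1530078 0) (P.cons (P.lf 0 128697 0) P.nil)) (P.cons (P.cons (P.lf 0 349878 0) P.nil) P.nil)))))) 303453)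
 (EL.cons 8 (TM.mk (P.cons (P.cons (P.lf 2486919252 0 0) (P.cons (P.lf 0 150773010 0) (P.cons (P.lf 0 65015025 0) (P.lf 7223892 0 0)))) (P.cons (P.cons (P.lf 0 383613612 0) (P.cons (P.lf 0 6290472 0) (P.cons (P.lf 0 2712525 0) (P.lf 301395 0 0)))) (P.cons (P.cons (P.lf 0 97418736 0) (P.cons (P.lf 6544275 0 0) (P.cons (P.lf 2821962 0 0) (P.lf 0 313551 0)))) (P.cons (P.cons (P.lf 8130483 0 0) (P.cons (P.lf 504366 0 0) (P.cons (P.lf 217488 0 0) P.nil))) (P.cons (P.cons (P.lf 1854243 0 0) (P.cons (P.lf 0 87858 0) P.nil)) (P.cons (P.cons (P.lf 0 2598 0) P.nil) P.nil)))))) 211323)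
 (EL.cons 11 (TM.mk (P.cons (P.cons (P.lf 573813891 0 0) (P.cons (P.lf 534560721 0 0) (P.cons (P.lf 0 54863319 0) (P.cons (P.lf 0 11410044 0) (P.lf 950835 0 0))))) (P.cons (P.cons (P.lf 134037570 0 0) (P.cons (P.lf 124868397 0 0) (P.cons (P.lf 0 12815559 0) (P.cons (P.lf 0 2665278 0) (P.lf 222105 0 0))))) (P.cons (P.cons (P.lf 4542750 0 0) (P.cons (P.lf 4231992 0 0) (P.cons (P.lf 0 434340 0) (P.cons (P.lf 0 90330 0) P.nil)))) (P.cons (P.cons (P.lf 0 987006 0) (P.cons (P.lf 0 919488 0) (P.cons (P.lf 94368 0 0) P.nil))) (P.cons (P.cons (P.lf 0 83070 0) (P.cons (P.lf 0 77388 0) P.nil)) (P.cons (P.cons (P.lf 915 0 0) P.nil) P.nil)))))) 40752)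
 EL.nil)))
noncomputable def S140_169_216_364_22 : EL := (EL.cons 4 (TM.mk (P.cons (P.cons (P.lf 0 420306744 0) (P.cons (P.lf 133682817 0 0) (P.cons (P.lf 51085689 0 0) (P.cons (P.lf 0 12062415 0) (P.cons (P.lf 0 591162 0) (P.cons (P.lf 271056 0 0) P.nil)))))) (P.cons (P.cons (P.lf 0 649919031 0) (P.cons (P.lf 88635489 0 0) (P.cons (P.lf 34252977 0 0) (P.cons (P.lf 0 7668510 0) (P.cons (P.lf 0 357555 0) P.nil))))) (P.cons (P.cons (P.lf 0 13424235 0) (P.cons (P.lf 9873198 0 0) (P.cons (P.lf 3520347 0 0) (P.cons (P.lf 0 1108719 0) P.nil)))) (P.cons (P.cons (P.lf 40096143 0 0) (P.cons (P.lf 0 3473940 0) (P.cons (P.lf 0 1466175 0) P.nil))) (P.cons (P.cons (P.lf 3908934 0 0) (P.cons (P.lf 0 856461 0) P.nil)) (P.cons (P.cons (P.lf 0 731448 0) P.nil) P.nil)))))) 1727349)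
 (EL.cons 8 (TM.mk (P.cons (P.cons (P.lf 276531876 0 0) (P.cons (P.lf 0 87953763 0) (P.cons (P.lf 0 33610743 0) (P.cons (P.lf 7936209 0 0) (P.cons (P.lf 388941 0 0) (P.cons (P.lf 0 178335 0) P.nil)))))) (P.cons (P.cons (P.lf 368773782 0 0) (P.cons (P.lf 0 39605436 0) (P.cons (P.lf 0 15386007 0) (P.cons (P.lf 3357066 0 0) (P.cons (P.lf 152505 0 0) P.nil))))) (P.cons (P.cons (P.lf 0 76640685 0) (P.cons (P.lf 4163343 0 0) (P.cons (P.lf 1810605 0 0) (P.cons (P.lf 0 186258 0) P.nil)))) (P.cons (P.cons (P.lf 0 20446527 0) (P.cons (P.lf 2725014 0 0) (P.cons (P.lf 1092213 0 0) P.nil))) (P.cons (P.cons (P.lf 2242974 0 0) (P.cons (P.lf 67350 0 0) P.nil)) (P.cons (P.cons (P.lf 589869 0 0) P.nil) P.nil)))))) 936492)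
 (EL.cons 11 (TM.mk (P.cons (P.cons (P.lf 63804978 0 0) (P.cons (P.lf 43014687 0 0) (P.cons (P.lf 0 28485306 0) (P.cons (P.lf 0 5509632 0) (P.cons (P.lf 1842699 0 0) (P.cons (P.lf 38376 0 0) P.nil)))))) (P.cons (P.cons (P.lf 109834542 0 0) (P.cons (P.lf 92728896 0 0) (P.cons (P.lf 0 23573670 0) (P.cons (P.lf 0 4660599 0) (P.cons (P.lf 1196349 0 0) P.nil))))) (P.cons (P.cons (P.lf 22139073 0 0) (P.cons (P.lf 18619026 0 0) (P.cons (P.lf 0 4849950 0) (P.cons (P.lf 0 958041 0) P.nil)))) (P.cons (P.cons (P.lf 0 775617 0) (P.cons (P.lf 0 831258 0) (P.cons (P.lf 0 73977 0) P.nil))) (P.cons (P.cons (P.lf 0 539124 0) (P.cons (P.lf 0 478221 0) P.nil)) (P.cons (P.cons (P.lf 0 29904 0) P.nil) P.nil)))))) 884484)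
 EL.nil)))
noncomputable def S140_169_216_364_23 : EL := (EL.cons 4 (TM.mk (P.cons (P.cons (P.lf 2505106983 0 0) (P.cons (P.lf 0 151875660 0) (P.cons (P.lf 0 65490495 0) (P.lf 7276716 0 0)))) (P.cons (P.cons (P.lf 0 93834315 0) (P.cons (P.lf 0 24074838 0) (P.cons (P.lf 0 10381335 0) (P.lf 1153473 0 0)))) (P.cons (P.cons (P.lf 0 150433236 0) (P.cons (P.lf 6286767 0 0) (P.cons (P.lf 2710926 0 0) (P.lf 0 301212 0)))) (P.cons (P.cons (P.lf 0 3482373 0) (P.cons (P.lf 1375959 0 0) (P.cons (P.lf 593322 0 0) P.nil))) (P.cons (P.cons (P.lf 3270627 0 0) (P.cons (P.lf 0 42411 0) P.nil)) (P.cons (P.cons (P.lf 252150 0 0) P.nil) P.nil)))))) 361737)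
 (EL.cons 8 (TM.mk (P.cons (P.cons (P.lf 0 1648181811 0) (P.cons (P.lf 99923361 0 0) (P.cons (P.lf 43088082 0 0) (P.lf 0 4787562 0)))) (P.cons (P.cons (P.lf 412353903 0 0) (P.cons (P.lf 0 5417157 0) (P.cons (P.lf 0 2335938 0) (P.lf 259545 0 0)))) (P.cons (P.cons (P.lf 53116617 0 0) (P.cons (P.lf 0 5521809 0) (P.cons (P.lf 0 2381064 0) (P.lf 264561 0 0)))) (P.cons (P.cons (P.lf 0 13501416 0) (P.cons (P.lf 44388 0 0) (P.cons (P.lf 19140 0 0) P.nil))) (P.cons (P.cons (P.lf 0 1270656 0) (P.cons (P.lf 126567 0 0) P.nil)) (P.cons (P.cons (P.lf 162903 0 0) P.nil) P.nil)))))) 231000)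
 (EL.cons 11 (TM.mk (P.cons (P.cons (P.lf 0 380289636 0) (P.cons (P.lf 0 354274974 0) (P.cons (P.lf 36360135 0 0) (P.cons (P.lf 7561896 0 0) (P.lf 0 630156 0))))) (P.cons (P.cons (P.lf 0 52349172 0) (P.cons (P.lf 0 48768096 0) (P.cons (P.lf 5005191 0 0) (P.cons (P.lf 1040937 0 0) (P.lf 0 86742 0))))) (P.cons (P.cons (P.lf 8497863 0 0) (P.cons (P.lf 7916544 0 0) (P.cons (P.lf 0 812493 0) (P.cons (P.lf 0 168975 0) P.nil)))) (P.cons (P.cons (P.lf 1658418 0 0) (P.cons (P.lf 1544970 0 0) (P.cons (P.lf 0 158562 0) P.nil))) (P.cons (P.cons (P.lf 10941 0 0) (P.cons (P.lf 10194 0 0) P.nil)) (P.cons (P.cons (P.lf 0 13515 0) P.nil) P.nil)))))) 95028)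
 EL.nil)))
noncomputable def S140_169_216_364_24 : EL := (EL.cons 4 (TM.mk (P.cons (P.cons (P.lf 278554251 0 0) (P.cons (P.lf 0 88596999 0) (P.cons (P.lf 0 33856548 0) (P.cons (P.lf 7994250 0 0) (P.cons (P.lf 391785 0 0) (P.cons (P.lf 0 179640 0) P.nil)))))) (P.cons (P.cons (P.lf 404004594 0 0) (P.cons (P.lf 0 50242797 0) (P.cons (P.lf 0 19452816 0) (P.cons (P.lf 4315305 0 0) (P.cons (P.lf 199380 0 0) P.nil))))) (P.cons (P.cons (P.lf 0 34612410 0) (P.cons (P.lf 0 212184 0) (P.cons (P.lf 110595 0 0) (P.cons (P.lf 184452 0 0) P.nil)))) (P.cons (P.cons (P.lf 0 30822468 0) (P.cons (P.lf 3395523 0 0) (P.cons (P.lf 1375377 0 0) P.nil))) (P.cons (P.cons (P.lf 0 124677 0) (P.cons (P.lf 398745 0 0) P.nil)) (P.cons (P.cons (P.lf 952302 0 0) P.nil) P.nil)))))) 1228887)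
 (EL.cons 8 (TM.mk (P.cons (P.cons (P.lf 0 183268839 0) (P.cons (P.lf 58290510 0 0) (P.cons (P.lf 22275195 0 0) (P.cons (P.lf 0 5259645 0) (P.cons (P.lf 0 257766 0) (P.cons (P.lf 118188 0 0) P.nil)))))) (P.cons (P.cons (P.lf 0 226819452 0) (P.cons (P.lf 20656044 0 0) (P.cons (P.lf 8059965 0 0) (P.cons (P.lf 0 1720281 0) (P.cons (P.lf 0 76344 0) P.nil))))) (P.cons (P.cons (P.lf 75678645 0 0) (P.cons (P.lf 0 5735079 0) (P.cons (P.lf 0 2353128 0) (P.cons (P.lf 378186 0 0) P.nil)))) (P.cons (P.cons (P.lf 10605858 0 0) (P.cons (P.lf 0 1750137 0) (P.cons (P.lf 0 689859 0) P.nil))) (P.cons (P.cons (P.lf 0 3178320 0) (P.cons (P.lf 150459 0 0) P.nil)) (P.cons (P.cons (P.lf 0 363252 0) P.nil) P.nil)))))) 710265)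
 (EL.cons 11 (TM.mk (P.cons (P.cons (P.lf 0 42286134 0) (P.cons (P.lf 0 28507569 0) (P.cons (P.lf 18878361 0 0) (P.cons (P.lf 3651456 0 0) (P.cons (P.lf 0 1221231 0) (P.cons (P.lf 0 25434 0) P.nil)))))) (P.cons (P.cons (P.lf 0 68735082 0) (P.cons (P.lf 0 58720320 0) (P.cons (P.lf 13812132 0 0) (P.cons (P.lf 2738466 0 0) (P.cons (P.lf 0 675711 0) P.nil))))) (P.cons (P.cons (P.lf 0 7357128 0) (P.cons (P.lf 0 6220029 0) (P.cons (P.lf 1567194 0 0) (P.cons (P.lf 309936 0 0) P.nil)))) (P.cons (P.cons (P.lf 2495256 0 0) (P.cons (P.lf 2218653 0 0) (P.cons (P.lf 0 382905 0) P.nil))) (P.cons (P.cons (P.lf 425607 0 0) (P.cons (P.lf 363186 0 0) P.nil)) (P.cons (P.cons (P.lf 0 19614 0) P.nil) P.nil)))))) 648894)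
 EL.nil)))
noncomputable def S140_169_216_364_25 : EL := (EL.cons 4 (TM.mk (P.cons (P.cons (P.lf 0 1660235553 0) (P.cons (P.lf 100654131 0 0) (P.cons (P.lf 43403193 0 0) (P.lf 0 4822575 0)))) (P.cons (P.cons (P.lf 221461833 0 0) (P.cons (P.lf 6299151 0 0) (P.cons (P.lf 2716263 0 0) (P.lf 0 301803 0)))) (P.cons (P.cons (P.lf 106770219 0 0) (P.cons (P.lf 0 6487614 0) (P.cons (P.lf 0 2797533 0) (P.lf 310836 0 0)))) (P.cons (P.cons (P.lf 0 7667013 0) (P.cons (P.lf 0 642219 0) (P.cons (P.lf 0 276927 0) P.nil))) (P.cons (P.cons (P.lf 0 3214884 0) (P.cons (P.lf 149988 0 0) P.nil)) (P.cons (P.cons (P.lf 17388 0 0) P.nil) P.nil)))))) 363267)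
 (EL.cons 8 (TM.mk (P.cons (P.cons (P.lf 1092316638 0 0) (P.cons (P.lf 0 66223245 0) (P.cons (P.lf 0 28556211 0) (P.lf 3172911 0 0)))) (P.cons (P.cons (P.lf 0 378074547 0) (P.cons (P.lf 9943269 0 0) (P.cons (P.lf 4287648 0 0) (P.lf 0 476403 0)))) (P.cons (P.cons (P.lf 0 17563248 0) (P.cons (P.lf 3835161 0 0) (P.cons (P.lf 1653762 0 0) (P.lf 0 183750 0)))) (P.cons (P.cons (P.lf 14419911 0 0) (P.cons (P.lf 0 405576 0) (P.cons (P.lf 0 174888 0) P.nil))) (P.cons (P.cons (P.lf 299319 0 0) (P.cons (P.lf 0 111564 0) P.nil)) (P.cons (P.cons (P.lf 0 262551 0) P.nil) P.nil)))))) 212499)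
 (EL.cons 11 (TM.mk (P.cons (P.cons (P.lf 252033297 0 0) (P.cons (P.lf 234792330 0 0) (P.cons (P.lf 0 24097329 0) (P.cons (P.lf 0 5011572 0) (P.lf 417630 0 0))))) (P.cons (P.cons (P.lf 10515195 0 0) (P.cons (P.lf 9795876 0 0) (P.cons (P.lf 0 1005375 0) (P.cons (P.lf 0 209088 0) (P.lf 17421 0 0))))) (P.cons (P.cons (P.lf 0 10939467 0) (P.cons (P.lf 0 10191123 0) (P.cons (P.lf 1045941 0 0) (P.cons (P.lf 217524 0 0) P.nil)))) (P.cons (P.cons (P.lf 0 843096 0) (P.cons (P.lf 0 785421 0) (P.cons (P.lf 80607 0 0) P.nil))) (P.cons (P.cons (P.lf 146865 0 0) (P.cons (P.lf 136818 0 0) P.nil)) (P.cons (P.cons (P.lf 19710 0 0) P.nil) P.nil)))))) 112530)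
 EL.nil)))
noncomputable def S140_169_216_364_26 : EL := (EL.cons 4 (TM.mk (P.cons (P.cons (P.lf 0 184609149 0) (P.cons (P.lf 58716810 0 0) (P.cons (P.lf 22438101 0 0) (P.cons (P.lf 0 5298111 0) (P.cons (P.lf 0 259653 0) (P.cons (P.lf 119055 0 0) P.nil)))))) (P.cons (P.cons (P.lf 0 250039752 0) (P.cons (P.lf 27664956 0 0) (P.cons (P.lf 10739574 0 0) (P.cons (P.lf 0 2351655 0) (P.cons (P.lf 0 107226 0) P.nil))))) (P.cons (P.cons (P.lf 50075304 0 0) (P.cons (P.lf 0 3514908 0) (P.cons (P.lf 0 1486308 0) (P.cons (P.lf 193728 0 0) P.nil)))) (P.cons (P.cons (P.lf 20337984 0 0) (P.cons (P.lf 0 2528091 0) (P.cons (P.lf 0 1006782 0) P.nil))) (P.cons (P.cons (P.lf 0 2049075 0) (P.cons (P.lf 0 49629 0) P.nil)) (P.cons (P.cons (P.lf 0 807246 0) P.nil) P.nil)))))) 1049655)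
 (EL.cons 8 (TM.mk (P.cons (P.cons (P.lf 121459659 0 0) (P.cons (P.lf 0 38631474 0) (P.cons (P.lf 0 14762670 0) (P.cons (P.lf 3485778 0 0) (P.cons (P.lf 170832 0 0) (P.cons (P.lf 0 78327 0) P.nil)))))) (P.cons (P.cons (P.lf 138670224 0 0) (P.cons (P.lf 0 9983499 0) (P.cons (P.lf 0 3925413 0) (P.cons (P.lf 805692 0 0) (P.cons (P.lf 34206 0 0) P.nil))))) (P.cons (P.cons (P.lf 0 65530251 0) (P.cons (P.lf 5417550 0 0) (P.cons (P.lf 2187894 0 0) (P.cons (P.lf 0 387387 0) P.nil)))) (P.cons (P.cons (P.lf 0 3403500 0) (P.cons (P.lf 904572 0 0) (P.cons (P.lf 350226 0 0) P.nil))) (P.cons (P.cons (P.lf 3170463 0 0) (P.cons (P.lf 0 241125 0) P.nil)) (P.cons (P.cons (P.lf 99999 0 0) P.nil) P.nil)))))) 620415)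
 (EL.cons 11 (TM.mk (P.cons (P.cons (P.lf 28024728 0 0) (P.cons (P.lf 18893118 0 0) (P.cons (P.lf 0 12511452 0) (P.cons (P.lf 0 2419965 0) (P.cons (P.lf 809358 0 0) (P.cons (P.lf 16854 0 0) P.nil)))))) (P.cons (P.cons (P.lf 42864972 0 0) (P.cons (P.lf 37103823 0 0) (P.cons (P.lf 0 7953576 0) (P.cons (P.lf 0 1582731 0) (P.cons (P.lf 370173 0 0) P.nil))))) (P.cons (P.cons (P.lf 285627 0 0) (P.cons (P.lf 240471 0 0) (P.cons (P.lf 0 62217 0) (P.cons (P.lf 0 12291 0) P.nil)))) (P.cons (P.cons (P.lf 0 2480523 0) (P.cons (P.lf 0 2172360 0) (P.cons (P.lf 425883 0 0) P.nil))) (P.cons (P.cons (P.lf 0 163173 0) (P.cons (P.lf 0 133380 0) P.nil)) (P.cons (P.cons (P.lf 53952 0 0) P.nil) P.nil)))))) 566790)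
 EL.nil)))
noncomputable def S140_169_216_364_27 : EL := (EL.cons 13 (TM.mk (P.lf 0 4294967296 0) 0)
 EL.nil)
noncomputable def S140_169_216_364_28 : EL := (EL.cons 13 (TM.mk (P.cons (P.cons (P.lf 0 477576972 0) (P.cons (P.lf 122944412 0 0) (P.cons (P.lf 53015016 0 0) (P.lf 0 5890556 0)))) (P.cons (P.cons (P.lf 0 710548349 0) (P.cons (P.lf 43078000 0 0) (P.cons (P.lf 18575716 0 0) (P.lf 0 2063964 0)))) (P.cons (P.cons (P.lf 4048495 0 0) (P.cons (P.lf 3975636 0 0) (P.cons (P.lf 1714336 0 0) (P.lf 0 190480 0)))) (P.cons (P.cons (P.lf 9663540 0 0) (P.cons (P.lf 0 244628 0) (P.cons (P.lf 0 105484 0) P.nil))) (P.cons (P.cons (P.lf 454622 0 0) (P.cons (P.lf 0 62236 0) P.nil)) (P.cons (P.cons (P.lf 0 53999 0) P.nil) P.nil)))))) 68155)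
 EL.nil)
noncomputable def S140_169_216_364_29 : EL := (EL.cons 13 (TM.mk (P.cons (P.cons (P.lf 0 53103958 0) (P.cons (P.lf 27341498 0 0) (P.cons (P.lf 8270650 0 0) (P.cons (P.lf 0 4345129 0) (P.cons (P.lf 0 317154 0) (P.cons (P.lf 145420 0 0) P.nil)))))) (P.cons (P.cons (P.lf 0 158018213 0) (P.cons (P.lf 50259292 0 0) (P.cons (P.lf 19206137 0 0) (P.cons (P.lf 0 4534976 0) (P.cons (P.lf 0 222253 0) P.nil))))) (P.cons (P.cons (P.lf 0 116650951 0) (P.cons (P.lf 14905787 0 0) (P.cons (P.lf 5767867 0 0) (P.cons (P.lf 0 1283086 0) P.nil)))) (P.cons (P.cons (P.lf 3488611 0 0) (P.cons (P.lf 626581 0 0) (P.cons (P.lf 204443 0 0) P.nil))) (P.cons (P.cons (P.lf 3294709 0 0) (P.cons (P.lf 0 322152 0) P.nil)) (P.cons (P.cons (P.lf 120196 0 0) P.nil) P.nil)))))) 864586)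
 EL.nil)
noncomputable def S140_169_216_364_30 : EL := (EL.cons 13 (TM.mk (P.cons (P.lf 2846448260 0 0) (P.cons (P.lf 0 273072892 0) (P.cons (P.lf 0 22353452 0) (P.cons (P.lf 0 133644 0) (P.cons (P.lf 68648 0 0) (P.cons (P.lf 3668 0 0) P.nil)))))) 396)
 EL.nil)
noncomputable def S140_169_216_364_31 : EL := (EL.cons 13 (TM.mk (P.cons (P.cons (P.lf 316509544 0 0) (P.cons (P.lf 0 81480226 0) (P.cons (P.lf 0 35135191 0) (P.lf 3903909 0 0)))) (P.cons (P.cons (P.lf 440544864 0 0) (P.cons (P.lf 0 20732756 0) (P.cons (P.lf 0 8940196 0) (P.lf 993352 0 0)))) (P.cons (P.cons (P.lf 0 50345160 0) (P.cons (P.lf 743946 0 0) (P.cons (P.lf 320799 0 0) (P.lf 0 35645 0)))) (P.cons (P.cons (P.lf 0 9859974 0) (P.cons (P.lf 642922 0 0) (P.cons (P.lf 277233 0 0) P.nil))) (P.cons (P.cons (P.lf 319703 0 0) (P.cons (P.lf 45759 0 0) P.nil)) (P.cons (P.cons (P.lf 126877 0 0) P.nil) P.nil))))))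 106129)
 EL.nil)
noncomputable def S140_169_216_364_32 : EL := (EL.cons 13 (TM.mk (P.cons (P.cons (P.lf 35194137 0 0) (P.cons (P.lf 0 18120314 0) (P.cons (P.lf 0 5481293 0) (P.cons (P.lf 2879692 0 0) (P.cons (P.lf 210190 0 0) (P.cons (P.lf 0 96375 0) P.nil)))))) (P.cons (P.cons (P.lf 101348714 0 0) (P.cons (P.lf 0 31570497 0) (P.cons (P.lf 0 12202836 0) (P.cons (P.lf 2729249 0 0) (P.cons (P.lf 127131 0 0) P.nil))))) (P.cons (P.cons (P.lf 66986156 0 0) (P.cons (P.lf 0 6540893 0) (P.cons (P.lf 0 2558432 0) (P.cons (P.lf 539405 0 0) P.nil)))) (P.cons (P.cons (P.lf 0 10552749 0) (P.cons (P.lf 794874 0 0) (P.cons (P.lf 331443 0 0) P.nil))) (P.cons (P.cons (P.lf 0 2572917 0) (P.cons (P.lf 332046 0 0) P.nil)) (P.cons (P.cons (P.lf 146915 0 0) P.nil) P.nil)))))) 872216)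
 EL.nil)
noncomputable def S140_169_216_364_33 : EL := (EL.cons 14 (TM.mk (P.lf 8589934592 0 0) 0)
 EL.nil)
noncomputable def S140_169_216_364_34 : EL := (EL.cons 14 (TM.mk (P.cons (P.cons (P.lf 955153944 0 0) (P.cons (P.lf 0 245888824 0) (P.cons (P.lf 0 106030032 0) (P.lf 11781112 0 0)))) (P.cons (P.cons (P.lf 1421096698 0 0) (P.cons (P.lf 0 86156000 0) (P.cons (P.lf 0 37151432 0) (P.lf 4127928 0 0)))) (P.cons (P.cons (P.lf 0 8096990 0) (P.cons (P.lf 0 7951272 0) (P.cons (P.lf 0 3428672 0) (P.lf 380960 0 0)))) (P.cons (P.cons (P.lf 0 19327080 0) (P.cons (P.lf 489256 0 0) (P.cons (P.lf 210968 0 0) P.nil))) (P.cons (P.cons (P.lf 0 909244 0) (P.cons (P.lf 124472 0 0) P.nil)) (P.cons (P.cons (P.lf 107998 0 0) P.nil) P.nil)))))) 136310)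
 EL.nil)
noncomputable def S140_169_216_364_35 : EL := (EL.cons 14 (TM.mk (P.cons (P.cons (P.lf 106207916 0 0) (P.cons (P.lf 0 54682996 0) (P.cons (P.lf 0 16541300 0) (P.cons (P.lf 8690258 0 0) (P.cons (P.lf 634308 0 0) (P.cons (P.lf 0 290840 0) P.nil)))))) (P.cons (P.cons (P.lf 316036426 0 0) (P.cons (P.lf 0 100518584 0) (P.cons (P.lf 0 38412274 0) (P.cons (P.lf 9069952 0 0) (P.cons (P.lf 444506 0 0) P.nil))))) (P.cons (P.cons (P.lf 233301902 0 0) (P.cons (P.lf 0 29811574 0) (P.cons (P.lf 0 11535734 0) (P.cons (P.lf 2566172 0 0) P.nil)))) (P.cons (P.cons (P.lf 0 6977222 0) (P.cons (P.lf 0 1253162 0) (P.cons (P.lf 0 408886 0) P.nil))) (P.cons (P.cons (P.lf 0 6589418 0) (P.cons (P.lf 644304 0 0) P.nil)) (P.cons (P.cons (P.lf 0 240392 0) P.nil) P.nil)))))) 1729172)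
 EL.nil)
noncomputable def S140_169_216_364_36 : EL := (EL.cons 14 (TM.mk (P.cons (P.lf 0 5692896520 0) (P.cons (P.lf 546145784 0 0) (P.cons (P.lf 44706904 0 0) (P.cons (P.lf 267288 0 0) (P.cons (P.lf 0 137296 0) (P.cons (P.lf 0 7336 0) P.nil)))))) 792)
 EL.nil)
noncomputable def S140_169_216_364_37 : EL := (EL.cons 14 (TM.mk (P.cons (P.cons (P.lf 0 633019088 0) (P.cons (P.lf 162960452 0 0) (P.cons (P.lf 70270382 0 0) (P.lf 0 7807818 0)))) (P.cons (P.cons (P.lf 0 881089728 0) (P.cons (P.lf 41465512 0 0) (P.cons (P.lf 17880392 0 0) (P.lf 0 1986704 0)))) (P.cons (P.cons (P.lf 100690320 0 0) (P.cons (P.lf 0 1487892 0) (P.cons (P.lf 0 641598 0) (P.lf 71290 0 0)))) (P.cons (P.cons (P.lf 19719948 0 0) (P.cons (P.lf 0 1285844 0) (P.cons (P.lf 0 554466 0) P.nil))) (P.cons (P.cons (P.lf 0 639406 0) (P.cons (P.lf 0 91518 0) P.nil)) (P.cons (P.cons (P.lf 0 253754 0) P.nil)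 P.nil)))))) 212258)
 EL.nil)
noncomputable def S140_169_216_364_38 : EL := (EL.cons 14 (TM.mk (P.cons (P.cons (P.lf 0 70388274 0) (P.cons (P.lf 36240628 0 0) (P.cons (P.lf 10962586 0 0) (P.cons (P.lf 0 5759384 0) (P.cons (P.lf 0 420380 0) (P.cons (P.lf 192750 0 0) P.nil)))))) (P.cons (P.cons (P.lf 0 202697428 0) (P.cons (P.lf 63140994 0 0) (P.cons (P.lf 24405672 0 0) (P.cons (P.lf 0 5458498 0) (P.cons (P.lf 0 254262 0) P.nil))))) (P.cons (P.cons (P.lf 0 133972312 0) (P.cons (P.lf 13081786 0 0) (P.cons (P.lf 5116864 0 0) (P.cons (P.lf 0 1078810 0) P.nil)))) (P.cons (P.cons (P.lf 21105498 0 0) (P.cons (P.lf 0 1589748 0) (P.cons (P.lf 0 662886 0) P.nil))) (P.cons (P.cons (P.lf 5145834 0 0) (P.cons (P.lf 0 664092 0) P.nil)) (P.cons (P.cons (P.lf 0 293830 0) P.nil) P.nil)))))) 1744432)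
 EL.nil)
noncomputable def S140_169_216_364_39 : EL := (EL.cons 14 (TM.mk (P.cons (P.lf 3772912404 0 0) (P.cons (P.lf 0 723905728 0) (P.cons (P.lf 0 24534334 0) (P.cons (P.lf 5330620 0 0) (P.cons (P.lf 448650 0 0) (P.cons (P.lf 0 4952 0) P.nil)))))) 3630)
 EL.nil)
noncomputable def S140_169_216_364_40 : EL := (EL.cons 14 (TM.mk (P.cons (P.cons (P.lf 419527310 0 0) (P.cons (P.lf 0 108000472 0) (P.cons (P.lf 0 46571020 0) (P.lf 5174556 0 0)))) (P.cons (P.cons (P.lf 543686554 0 0) (P.cons (P.lf 0 17119886 0) (P.cons (P.lf 0 7382284 0) (P.lf 820250 0 0)))) (P.cons (P.cons (P.lf 0 126045586 0) (P.cons (P.lf 4470590 0 0) (P.cons (P.lf 1927770 0 0) (P.lf 0 214196 0)))) (P.cons (P.cons (P.lf 0 11272730 0) (P.cons (P.lf 978462 0 0) (P.cons (P.lf 421920 0 0) P.nil))) (P.cons (P.cons (P.lf 2184300 0 0) (P.cons (P.lf 0 30158 0) P.nil)) (P.cons (P.cons (P.lf 247910 0 0) P.nil)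 P.nil)))))) 239954)
 EL.nil)
noncomputable def S140_169_216_364_41 : EL := (EL.cons 14 (TM.mk (P.cons (P.cons (P.lf 46649150 0 0) (P.cons (P.lf 0 24018128 0) (P.cons (P.lf 0 7265348 0) (P.cons (P.lf 3816976 0 0) (P.cons (P.lf 278602 0 0) (P.cons (P.lf 0 127744 0) P.nil)))))) (P.cons (P.cons (P.lf 129860502 0 0) (P.cons (P.lf 0 39541916 0) (P.cons (P.lf 0 15477626 0) (P.cons (P.lf 3251386 0 0) (P.cons (P.lf 141782 0 0) P.nil))))) (P.cons (P.cons (P.lf 75535070 0 0) (P.cons (P.lf 0 4466724 0) (P.cons (P.lf 0 1782390 0) (P.cons (P.lf 337946 0 0) P.nil)))) (P.cons (P.cons (P.lf 0 23562532 0) (P.cons (P.lf 2215076 0 0) (P.cons (P.lf 892012 0 0) P.nil))) (P.cons (P.cons (P.lf 0 2770920 0) (P.cons (P.lf 408514 0 0) P.nil)) (P.cons (P.cons (P.lf 630880 0 0) P.nil) P.nil)))))) 1493084)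
 EL.nil)
noncomputable def S140_169_216_364_42 : EL := (EL.cons 14 (TM.mk (P.cons (P.lf 0 2500461402 0) (P.cons (P.lf 719642336 0 0) (P.cons (P.lf 0 10129460 0) (P.cons (P.lf 0 8742920 0) (P.cons (P.lf 0 168938 0) (P.cons (P.lf 67134 0 0) P.nil)))))) 7070)
 EL.nil)
noncomputable def S140_169_216_364_43 : EL := (EL.cons 14 (TM.mk (P.cons (P.cons (P.lf 0 278037688 0) (P.cons (P.lf 71576274 0 0) (P.cons (P.lf 30864496 0 0) (P.lf 0 3429386 0)))) (P.cons (P.cons (P.lf 0 333649598 0) (P.cons (P.lf 4479398 0 0) (P.cons (P.lf 1931564 0 0) (P.lf 0 214616 0)))) (P.cons (P.cons (P.lf 120286406 0 0) (P.cons (P.lf 0 4613414 0) (P.cons (P.lf 0 1989356 0) (P.lf 221040 0 0)))) (P.cons (P.cons (P.lf 2299656 0 0) (P.cons (P.lf 0 456690 0) (P.cons (P.lf 0 196928 0) P.nil))) (P.cons (P.cons (P.lf 0 2810140 0) (P.cons (P.lf 106658 0 0) P.nil)) (P.cons (P.cons (P.lf 0 97062 0) P.nil)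 P.nil)))))) 242848)
 EL.nil)
noncomputable def S140_169_216_364_44 : EL := (EL.cons 14 (TM.mk (P.cons (P.cons (P.lf 0 30916276 0) (P.cons (P.lf 15917782 0 0) (P.cons (P.lf 4815040 0 0) (P.cons (P.lf 0 2529664 0) (P.cons (P.lf 0 184640 0) (P.cons (P.lf 84660 0 0) P.nil)))))) (P.cons (P.cons (P.lf 0 83097858 0) (P.cons (P.lf 24678958 0 0) (P.cons (P.lf 9795718 0 0) (P.cons (P.lf 0 1912142 0) (P.cons (P.lf 0 76250 0) P.nil))))) (P.cons (P.cons (P.lf 0 41560856 0) (P.cons (P.lf 321208 0 0) (P.cons (P.lf 159384 0 0) (P.cons (P.lf 2616 0 0) P.nil)))) (P.cons (P.cons (P.lf 21095660 0 0) (P.cons (P.lf 0 1958558 0) (P.cons (P.lf 0 785276 0) P.nil))) (P.cons (P.cons (P.lf 734724 0 0) (P.cons (P.lf 0 153998 0) P.nil)) (P.cons (P.cons (P.lf 0 716682 0) P.nil) P.nil)))))) 1212982)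
 EL.nil)
noncomputable def S140_169_216_364_45 : EL := (EL.cons 14 (TM.mk (P.cons (P.cons (P.lf 11809740 0 0) (P.cons (P.lf 0 9120676 0) (P.cons (P.lf 0 1584968 0) (P.cons (P.lf 2260452 0 0) (P.cons (P.lf 0 49048 0) (P.cons (P.lf 0 180450 0) P.nil)))))) (P.cons (P.cons (P.lf 52712292 0 0) (P.cons (P.lf 0 30335600 0) (P.cons (P.lf 0 7942304 0) (P.cons (P.lf 5673430 0 0) (P.cons (P.lf 189116 0 0) P.nil))))) (P.cons (P.cons (P.lf 78126040 0 0) (P.cons (P.lf 0 29839312 0) (P.cons (P.lf 0 9998792 0) (P.cons (P.lf 3809562 0 0) P.nil)))) (P.cons (P.cons (P.lf 37284172 0 0) (P.cons (P.lf 0 7280264 0) (P.cons (P.lf 0 2502116 0) P.nil))) (P.cons (P.cons (P.lf 0 2829228 0) (P.cons (P.lf 186562 0 0) P.nil)) (P.cons (P.cons (P.lf 0 1667328 0) P.nil) P.nil)))))) 3888896)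
 EL.nil)
noncomputable def S140_169_216_364_46 : EL := (EL.cons 15 (TM.mk (P.lf 4294967296 0 0) 0)
 EL.nil)
noncomputable def S140_169_216_364_47 : EL := (EL.cons 15 (TM.mk (P.cons (P.cons (P.lf 477576972 0 0) (P.cons (P.lf 0 122944412 0) (P.cons (P.lf 0 53015016 0) (P.lf 5890556 0 0)))) (P.cons (P.cons (P.lf 710548349 0 0) (P.cons (P.lf 0 43078000 0) (P.cons (P.lf 0 18575716 0) (P.lf 2063964 0 0)))) (P.cons (P.cons (P.lf 0 4048495 0) (P.cons (P.lf 0 3975636 0) (P.cons (P.lf 0 1714336 0) (P.lf 190480 0 0)))) (P.cons (P.cons (P.lf 0 9663540 0) (P.cons (P.lf 244628 0 0) (P.cons (P.lf 105484 0 0) P.nil))) (P.cons (P.cons (P.lf 0 454622 0) (P.cons (P.lf 62236 0 0) P.nil)) (P.cons (P.cons (P.lf 53999 0 0) P.nil) P.nil)))))) 68155)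
 EL.nil)
noncomputable def S140_169_216_364_48 : EL := (EL.cons 15 (TM.mk (P.cons (P.cons (P.lf 53103958 0 0) (P.cons (P.lf 0 27341498 0) (P.cons (P.lf 0 8270650 0) (P.cons (P.lf 4345129 0 0) (P.cons (P.lf 317154 0 0) (P.cons (P.lf 0 145420 0) P.nil)))))) (P.cons (P.cons (P.lf 158018213 0 0) (P.cons (P.lf 0 50259292 0) (P.cons (P.lf 0 19206137 0) (P.cons (P.lf 4534976 0 0) (P.cons (P.lf 222253 0 0) P.nil))))) (P.cons (P.cons (P.lf 116650951 0 0) (P.cons (P.lf 0 14905787 0) (P.cons (P.lf 0 5767867 0) (P.cons (P.lf 1283086 0 0) P.nil)))) (P.cons (P.cons (P.lf 0 3488611 0) (P.cons (P.lf 0 626581 0) (P.cons (P.lf 0 204443 0) P.nil))) (P.cons (P.cons (P.lf 0 3294709 0) (P.cons (P.lf 322152 0 0) P.nil)) (P.cons (P.cons (P.lf 0 120196 0) P.nil) P.nil)))))) 864586)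
 EL.nil)
noncomputable def S140_169_216_364 : SL := (SL.cons S140_169_216_364_0 (SL.cons S140_169_216_364_1 (SL.cons S140_169_216_364_2 (SL.cons S140_169_216_364_3 (SL.cons S140_169_216_364_4 (SL.cons S140_169_216_364_5 (SL.cons S140_169_216_364_6 (SL.cons S140_169_216_364_7 (SL.cons S140_169_216_364_8 (SL.cons S140_169_216_364_9 (SL.cons S140_169_216_364_10 (SL.cons S140_169_216_364_11 (SL.cons S140_169_216_364_12 (SL.cons S140_169_216_364_13 (SL.cons S140_169_216_364_14 (SL.cons S140_169_216_364_15 (SL.cons S140_169_216_364_16 (SL.cons S140_169_216_364_17 (SL.cons S140_169_216_364_18 (SL.cons S140_169_216_364_19 (SL.cons S140_169_216_364_20 (SL.cons S140_169_216_364_21 (SL.cons S140_169_216_364_22 (SL.cons S140_169_216_364_23 (SL.cons S140_169_216_364_24 (SL.cons S140_169_216_364_25 (SL.cons S140_169_216_364_26 (SL.cons S140_169_216_364_27 (SL.cons S140_169_216_364_28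 (SL.cons S140_169_216_364_29 (SL.cons S140_169_216_364_30 (SL.cons S140_169_216_364_31 (SL.cons S140_169_216_364_32 (SL.cons S140_169_216_364_33 (SL.cons S140_169_216_364_34 (SL.cons S140_169_216_364_35 (SL.cons S140_169_216_364_36 (SL.cons S140_169_216_364_37 (SL.cons S140_169_216_364_38 (SL.cons S140_169_216_364_39 (SL.cons S140_169_216_364_40 (SL.cons S140_169_216_364_41 (SL.cons S140_169_216_364_42 (SL.cons S140_169_216_364_43 (SL.cons S140_169_216_364_44 (SL.cons S140_169_216_364_45 (SL.cons S140_169_216_364_46 (SL.cons S140_169_216_364_47 (SL.cons S140_169_216_364_48 SL.nil)))))))))))))))))))))))))))))))))))))))))))))))))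
theorem S140_154_438_512_ok : band (seq (shp 5 140 154 438 512) S140_154_438_512) (sok S140_154_438_512) = true := by decide +kernel

theorem S140_154_512_660_ok : band (seq (shp 5 140 154 512 660) S140_154_512_660) (sok S140_154_512_660) = true := by decide +kernel

theorem S140_154_586_660_ok : band (seq (shp 5 140 154 586 660) S140_154_586_660) (sok S140_154_586_660) = true := by decide +kernel

theorem S140_154_660_808_ok : band (seq (shp 5 140 154 660 808) S140_154_660_808) (sok S140_154_660_808) = true := by decide +kernel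

theorem S140_169_216_290_ok : band (seq (shp 5 140 169 216 290) S140_169_216_290) (sok S140_169_216_290) = true := by decide +kernel

theorem S140_169_216_364_ok : band (seq (shp 5 140 169 216 364) S140_169_216_364) (sok S140_169_216_364) = true := by decide +kernel

end Vale.Agent.P098.Ck
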