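import Vale.Agent.P098.CkDefs

namespace Vale.Agent.P098.Ck

noncomputable def S140_169_512_660_0 : EL := (EL.cons 0 (TM.mk (P.cons (P.lf 5139680571 0 0) (P.cons (P.lf 636245268 0 0) (P.cons (P.lf 21563379 0 0) (P.cons (P.lf 0 4685115 0) (P.cons (P.lf 0 394321 0) (P.cons (P.lf 4352 0 0) P.nil)))))) 3197)
 (EL.cons 1 (TM.mk (P.cons (P.lf 0 1792040857 0) (P.cons (P.lf 0 37383279 0) (P.cons (P.lf 39281548 0 0) (P.cons (P.lf 2177913 0 0) (P.cons (P.lf 0 137038 0) (P.cons (P.lf 0 19477 0) P.nil)))))) 1484)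
 (EL.cons 5 (TM.mk (P.cons (P.lf 5474002426 0 0) (P.cons (P.lf 0 226220540 0) (P.cons (P.lf 0 7666984 0) (P.cons (P.lf 1665814 0 0) (P.cons (P.lf 140204 0 0) (P.cons (P.lf 0 1546 0) P.nil)))))) 969)
 (EL.cons 9 (TM.mk (P.lf 6442450944 0 0) 2)
 EL.nil))))
noncomputable def S140_169_512_660_1 : EL := (EL.cons 0 (TM.mk (P.cons (P.cons (P.lf 0 3047420064 0) (P.cons (P.lf 295916833 0 0) (P.cons (P.lf 0 19784298 0) (P.lf 0 6594759 0)))) (P.cons (P.cons (P.lf 904112492 0 0) (P.cons (P.lf 0 52936286 0) (P.cons (P.lf 3539203 0 0) (P.lf 1179744 0 0)))) (P.cons (P.cons (P.lf 200454553 0 0) (P.cons (P.lf 0 50617067 0) (P.cons (P.lf 3384135 0 0) (P.lf 1128038 0 0)))) (P.cons (P.cons (P.lf 0 25760321 0) (P.cons (P.lf 0 6360037 0) (P.cons (P.lf 425208 0 0) P.nil))) (P.cons (P.cons (P.lf 0 7156990 0) (P.cons (P.lf 491371 0 0) P.nil)) (P.cons (P.cons (P.lf 0 19461 0) P.nil) P.nil))))))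 861874)
 (EL.cons 1 (TM.mk (P.cons (P.cons (P.lf 347470039 0 0) (P.cons (P.lf 74312870 0 0) (P.cons (P.lf 0 4968374 0) (P.lf 0 1656125 0)))) (P.cons (P.cons (P.lf 0 496953145 0) (P.cons (P.lf 113275325 0 0) (P.cons (P.lf 0 7573314 0) (P.lf 0 2524428 0)))) (P.cons (P.cons (P.lf 62523831 0 0) (P.cons (P.lf 16016673 0 0) (P.cons (P.lf 0 1070829 0) (P.lf 0 356940 0)))) (P.cons (P.cons (P.lf 27462347 0 0) (P.cons (P.lf 0 2904748 0) (P.cons (P.lf 194195 0 0) P.nil))) (P.cons (P.cons (P.lf 0 600846 0) (P.cons (P.lf 0 697863 0) P.nil)) (P.cons (P.cons (P.lf 0 539151 0) P.nil) P.nil)))))) 434803)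
 (EL.cons 5 (TM.mk (P.cons (P.cons (P.lf 258270145 0 0) (P.cons (P.lf 0 554555128 0) (P.cons (P.lf 37076260 0 0) (P.lf 12358750 0 0)))) (P.cons (P.cons (P.lf 312839789 0 0) (P.cons (P.lf 0 138620752 0) (P.cons (P.lf 9267858 0 0) (P.lf 3089284 0 0)))) (P.cons (P.cons (P.lf 0 131095094 0) (P.cons (P.lf 3466916 0 0) (P.cons (P.lf 0 231788 0) (P.lf 0 77264 0)))) (P.cons (P.cons (P.lf 0 4011262 0) (P.cons (P.lf 3155434 0 0) (P.cons (P.lf 0 210958 0) P.nil))) (P.cons (P.cons (P.lf 2600577 0 0) (P.cons (P.lf 52760 0 0) P.nil)) (P.cons (P.cons (P.lf 126580 0 0) P.nil) P.nil)))))) 354277)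
 (EL.cons 9 (TM.mk (P.cons (P.cons (P.lf 0 728167924 0) (P.cons (P.lf 0 396476688 0) (P.cons (P.lf 26507502 0 0) (P.lf 8835834 0 0)))) (P.cons (P.cons (P.lf 559678243 0 0) (P.cons (P.lf 0 138919884 0) (P.cons (P.lf 9287856 0 0) (P.lf 3095946 0 0)))) (P.cons (P.cons (P.lf 0 52784440 0) (P.cons (P.lf 0 12820818 0) (P.cons (P.lf 857166 0 0) (P.lf 285720 0 0)))) (P.cons (P.cons (P.lf 0 11621016 0) (P.cons (P.lf 788898 0 0) (P.cons (P.lf 0 52740 0) P.nil))) (P.cons (P.cons (P.lf 49303 0 0) (P.cons (P.lf 200700 0 0) P.nil)) (P.cons (P.cons (P.lf 105574 0 0) P.nil) P.nil)))))) 79025)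
 (EL.cons 2 (TM.mk (P.cons (P.cons (P.lf 837174740 0 0) (P.cons (P.lf 0 129615671 0) (P.cons (P.lf 0 62444742 0) (P.cons (P.lf 2363090 0 0) (P.lf 590771 0 0))))) (P.cons (P.cons (P.lf 115242179 0 0) (P.cons (P.lf 0 17842381 0) (P.cons (P.lf 0 8595894 0) (P.cons (P.lf 325293 0 0) (P.lf 81320 0 0))))) (P.cons (P.cons (P.lf 0 18707307 0) (P.cons (P.lf 2896360 0 0) (P.cons (P.lf 1395374 0 0) (P.cons (P.lf 0 52804 0) P.nil)))) (P.cons (P.cons (P.lf 0 3650866 0) (P.cons (P.lf 565245 0 0) (P.cons (P.lf 272314 0 0) P.nil))) (P.cons (P.cons (P.lf 0 24089 0) (P.cons (P.lf 3729 0 0) P.nil)) (P.cons (P.cons (P.lf 29753 0 0) P.nil) P.nil)))))) 72594)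
 (EL.cons 6 (TM.mk (P.cons (P.cons (P.lf 452423076 0 0) (P.cons (P.lf 0 70046451 0) (P.cons (P.lf 0 33746172 0) (P.cons (P.lf 1277052 0 0) (P.lf 319260 0 0))))) (P.cons (P.cons (P.lf 158522715 0 0) (P.cons (P.lf 0 24543294 0) (P.cons (P.lf 0 11824185 0) (P.cons (P.lf 447459 0 0) (P.lf 111864 0 0))))) (P.cons (P.cons (P.lf 14629950 0 0) (P.cons (P.lf 0 2265081 0) (P.cons (P.lf 0 1091244 0) (P.cons (P.lf 41295 0 0) P.nil)))) (P.cons (P.cons (P.lf 0 900219 0) (P.cons (P.lf 139374 0 0) (P.cons (P.lf 67146 0 0) P.nil))) (P.cons (P.cons (P.lf 0 229023 0) (P.cons (P.lf 35457 0 0) P.nil)) (P.cons (P.cons (P.lf 0 7698 0) P.nil) P.nil)))))) 41499)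
 EL.nil))))))
noncomputable def S140_169_512_660_2 : EL := (EL.cons 0 (TM.mk (P.cons (P.cons (P.lf 623219265 0 0) (P.cons (P.lf 236690196 0 0) (P.cons (P.lf 0 71712407 0) (P.cons (P.lf 2198209 0 0) (P.cons (P.lf 2241197 0 0) (P.cons (P.lf 0 166542 0) P.nil)))))) (P.cons (P.cons (P.lf 0 641052352 0) (P.cons (P.lf 104577285 0 0) (P.cons (P.lf 0 29288743 0) (P.cons (P.lf 650849 0 0) (P.cons (P.lf 894134 0 0) P.nil))))) (P.cons (P.cons (P.lf 125620555 0 0) (P.cons (P.lf 0 38976280 0) (P.cons (P.lf 4522105 0 0) (P.cons (P.lf 612387 0 0) P.nil)))) (P.cons (P.cons (P.lf 36554372 0 0) (P.cons (P.lf 0 16767277 0) (P.cons (P.lf 3515109 0 0) P.nil))) (P.cons (P.cons (P.lf 0 7819666 0) (P.cons (P.lf 297762 0 0) P.nil)) (P.cons (P.cons (P.lf 0 1549958 0) P.nil) P.nil)))))) 5663314)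
 (EL.cons 1 (TM.mk (P.cons (P.cons (P.lf 0 55653351 0) (P.cons (P.lf 0 34636008 0) (P.cons (P.lf 0 43887 0) (P.cons (P.lf 1087395 0 0) (P.cons (P.lf 94620 0 0) (P.cons (P.lf 0 7028 0) P.nil)))))) (P.cons (P.cons (P.lf 137995099 0 0) (P.cons (P.lf 23580169 0 0) (P.cons (P.lf 0 13825816 0) (P.cons (P.lf 1112404 0 0) (P.cons (P.lf 491217 0 0) P.nil))))) (P.cons (P.cons (P.lf 0 90563983 0) (P.cons (P.lf 22331544 0 0) (P.cons (P.lf 0 7422694 0) (P.cons (P.lf 295209 0 0) P.nil)))) (P.cons (P.cons (P.lf 10819752 0 0) (P.cons (P.lf 0 2223786 0) (P.cons (P.lf 0 576362 0) P.nil))) (P.cons (P.cons (P.lf 4873814 0 0) (P.cons (P.lf 0 2142535 0) P.nil)) (P.cons (P.cons (P.lf 0 597867 0) P.nil) P.nil)))))) 2758154)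
 (EL.cons 5 (TM.mk (P.cons (P.cons (P.lf 0 128313119 0) (P.cons (P.lf 17418243 0 0) (P.cons (P.lf 46359670 0 0) (P.cons (P.lf 0 6742888 0) (P.cons (P.lf 0 1905805 0) (P.cons (P.lf 141617 0 0) P.nil)))))) (P.cons (P.cons (P.lf 84543801 0 0) (P.cons (P.lf 0 79664175 0) (P.cons (P.lf 32632397 0 0) (P.cons (P.lf 0 1875865 0) (P.cons (P.lf 0 1095020 0) P.nil))))) (P.cons (P.cons (P.lf 23961982 0 0) (P.cons (P.lf 0 2849237 0) (P.cons (P.lf 4692550 0 0) (P.cons (P.lf 0 538490 0) P.nil)))) (P.cons (P.cons (P.lf 0 20413836 0) (P.cons (P.lf 7435970 0 0) (P.cons (P.lf 0 831781 0) P.nil))) (P.cons (P.cons (P.lf 969499 0 0) (P.cons (P.lf 797273 0 0) P.nil)) (P.cons (P.cons (P.lf 749570 0 0) P.nil) P.nil)))))) 2706015)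
 (EL.cons 9 (TM.mk (P.cons (P.cons (P.lf 82302298 0 0) (P.cons (P.lf 89624773 0 0) (P.cons (P.lf 18407580 0 0) (P.cons (P.lf 0 5259978 0) (P.cons (P.lf 0 978471 0) (P.cons (P.lf 72709 0 0) P.nil)))))) (P.cons (P.cons (P.lf 0 126516987 0) (P.cons (P.lf 0 37483365 0) (P.cons (P.lf 19604665 0 0) (P.cons (P.lf 0 1450993 0) (P.cons (P.lf 0 685684 0) P.nil))))) (P.cons (P.cons (P.lf 60553290 0 0) (P.cons (P.lf 0 14741881 0) (P.cons (P.lf 5559184 0 0) (P.cons (P.lf 0 283020 0) P.nil)))) (P.cons (P.cons (P.lf 0 6544170 0) (P.cons (P.lf 1300836 0 0) (P.cons (P.lf 368842 0 0) P.nil))) (P.cons (P.cons (P.lf 0 1597786 0) (P.cons (P.lf 796891 0 0) P.nil)) (P.cons (P.cons (P.lf 175128 0 0) P.nil) P.nil)))))) 965171)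
 (EL.cons 2 (TM.mk (P.cons (P.cons (P.lf 0 189245919 0) (P.cons (P.lf 0 73741590 0) (P.cons (P.lf 36958370 0 0) (P.cons (P.lf 8381435 0 0) (P.cons (P.lf 0 1293795 0) (P.cons (P.lf 0 224550 0) P.nil)))))) (P.cons (P.cons (P.lf 119405745 0 0) (P.cons (P.lf 0 68775648 0) (P.cons (P.lf 2241663 0 0) (P.cons (P.lf 4688240 0 0) (P.cons (P.lf 0 481983 0) P.nil))))) (P.cons (P.cons (P.lf 10533504 0 0) (P.cons (P.lf 0 7630329 0) (P.cons (P.lf 544286 0 0) (P.cons (P.lf 548831 0 0) P.nil)))) (P.cons (P.cons (P.lf 0 7333678 0) (P.cons (P.lf 2137927 0 0) (P.cons (P.lf 324781 0 0) P.nil))) (P.cons (P.cons (P.lf 0 725270 0) (P.cons (P.lf 427545 0 0) P.nil)) (P.cons (P.cons (P.lf 145603 0 0) P.nil) P.nil)))))) 915856)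
 (EL.cons 6 (TM.mk (P.cons (P.cons (P.lf 0 102271626 0) (P.cons (P.lf 0 39851172 0) (P.cons (P.lf 19972914 0 0) (P.cons (P.lf 4529466 0 0) (P.cons (P.lf 0 699186 0) (P.cons (P.lf 0 121350 0) P.nil)))))) (P.cons (P.cons (P.lf 42772602 0 0) (P.cons (P.lf 0 45645036 0) (P.cons (P.lf 5460270 0 0) (P.cons (P.lf 3497154 0 0) (P.cons (P.lf 0 409212 0) P.nil))))) (P.cons (P.cons (P.lf 16822092 0 0) (P.cons (P.lf 0 13042380 0) (P.cons (P.lf 1059138 0 0) (P.cons (P.lf 950610 0 0) P.nil)))) (P.cons (P.cons (P.lf 0 1484388 0) (P.cons (P.lf 0 810450 0) (P.cons (P.lf 341328 0 0) P.nil))) (P.cons (P.cons (P.lf 0 909336 0) (P.cons (P.lf 216576 0 0) P.nil)) (P.cons (P.cons (P.lf 0 58824 0) P.nil) P.nil)))))) 717234)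
 EL.nil))))))
noncomputable def S140_169_512_660_3 : EL := (EL.cons 0 (TM.mk (P.cons (P.lf 3316036292 0 0) (P.cons (P.lf 0 636245268 0) (P.cons (P.lf 0 21563379 0) (P.cons (P.lf 4685115 0 0) (P.cons (P.lf 394321 0 0) (P.cons (P.lf 0 4352 0) P.nil)))))) 3197)
 (EL.cons 1 (TM.mk (P.cons (P.lf 1792040857 0 0) (P.cons (P.lf 37383279 0 0) (P.cons (P.lf 0 39281548 0) (P.cons (P.lf 0 2177913 0) (P.cons (P.lf 137038 0 0) (P.cons (P.lf 19477 0 0) P.nil)))))) 1484)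
 (EL.cons 5 (TM.mk (P.cons (P.lf 968448518 0 0) (P.cons (P.lf 226220540 0 0) (P.cons (P.lf 7666984 0 0) (P.cons (P.lf 0 1665814 0) (P.cons (P.lf 0 140204 0) (P.cons (P.lf 1546 0 0) P.nil)))))) 962)
 EL.nil)))
noncomputable def S140_169_512_660_4 : EL := (EL.cons 0 (TM.mk (P.cons (P.cons (P.lf 0 374800100 0) (P.cons (P.lf 0 204073122 0) (P.cons (P.lf 13643850 0 0) (P.lf 4547949 0 0)))) (P.cons (P.cons (P.lf 359988268 0 0) (P.cons (P.lf 0 32349016 0) (P.cons (P.lf 2162777 0 0) (P.lf 720922 0 0)))) (P.cons (P.cons (P.lf 0 80004642 0) (P.cons (P.lf 8447436 0 0) (P.cons (P.lf 0 564776 0) (P.lf 0 188258 0)))) (P.cons (P.cons (P.lf 0 3171457 0) (P.cons (P.lf 1848867 0 0) (P.cons (P.lf 0 123607 0) P.nil))) (P.cons (P.cons (P.lf 1712165 0 0) (P.cons (P.lf 0 56986 0) P.nil)) (P.cons (P.cons (P.lf 84728 0 0) P.nil) P.nil)))))) 183708)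
 (EL.cons 1 (TM.mk (P.cons (P.cons (P.lf 0 202548172 0) (P.cons (P.lf 0 110284490 0) (P.cons (P.lf 7373360 0 0) (P.lf 2457785 0 0)))) (P.cons (P.cons (P.lf 151455553 0 0) (P.cons (P.lf 0 40942756 0) (P.cons (P.lf 2737335 0 0) (P.lf 912442 0 0)))) (P.cons (P.cons (P.lf 0 6995116 0) (P.cons (P.lf 0 1954921 0) (P.cons (P.lf 130698 0 0) (P.lf 43565 0 0)))) (P.cons (P.cons (P.lf 0 6705168 0) (P.cons (P.lf 1126111 0 0) (P.cons (P.lf 0 75286 0) P.nil))) (P.cons (P.cons (P.lf 63431 0 0) (P.cons (P.lf 177105 0 0) P.nil)) (P.cons (P.cons (P.lf 128056 0 0) P.nil) P.nil)))))) 99881)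
 (EL.cons 5 (TM.mk (P.cons (P.cons (P.lf 0 109460382 0) (P.cons (P.lf 0 59599562 0) (P.cons (P.lf 3984686 0 0) (P.lf 1328228 0 0)))) (P.cons (P.cons (P.lf 58563584 0 0) (P.cons (P.lf 0 34804754 0) (P.cons (P.lf 2326962 0 0) (P.lf 775652 0 0)))) (P.cons (P.cons (P.lf 10851280 0 0) (P.cons (P.lf 0 7277138 0) (P.cons (P.lf 486530 0 0) (P.lf 162176 0 0)))) (P.cons (P.cons (P.lf 0 2746040 0) (P.cons (P.lf 0 394408 0) (P.cons (P.lf 26368 0 0) P.nil))) (P.cons (P.cons (P.lf 0 592334 0) (P.cons (P.lf 87160 0 0) P.nil)) (P.cons (P.cons (P.lf 5064 0 0) P.nil) P.nil)))))) 67280)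
 EL.nil)))
noncomputable def S140_169_512_660_5 : EL := (EL.cons 0 (TM.mk (P.cons (P.cons (P.lf 42362356 0 0) (P.cons (P.lf 46131356 0 0) (P.cons (P.lf 9474684 0 0) (P.cons (P.lf 0 2707396 0) (P.cons (P.lf 0 503634 0) (P.cons (P.lf 37423 0 0) P.nil)))))) (P.cons (P.cons (P.lf 0 73248421 0) (P.cons (P.lf 0 28144495 0) (P.cons (P.lf 8272944 0 0) (P.cons (P.lf 0 227383 0) (P.cons (P.lf 0 256299 0) P.nil))))) (P.cons (P.cons (P.lf 43386906 0 0) (P.cons (P.lf 0 4186079 0) (P.cons (P.lf 863669 0 0) (P.cons (P.lf 15227 0 0) P.nil)))) (P.cons (P.cons (P.lf 0 8865214 0) (P.cons (P.lf 2316081 0 0) (P.cons (P.lf 0 411396 0) P.nil))) (P.cons (P.cons (P.lf 0 465760 0) (P.cons (P.lf 309273 0 0) P.nil)) (P.cons (P.cons (P.lf 306075 0 0) P.nil) P.nil)))))) 930307)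
 (EL.cons 1 (TM.mk (P.cons (P.cons (P.lf 22893316 0 0) (P.cons (P.lf 24930146 0 0) (P.cons (P.lf 5120276 0 0) (P.cons (P.lf 0 1463120 0) (P.cons (P.lf 0 272171 0) (P.cons (P.lf 20223 0 0) P.nil)))))) (P.cons (P.cons (P.lf 0 34714563 0) (P.cons (P.lf 0 9906361 0) (P.cons (P.lf 5560072 0 0) (P.cons (P.lf 0 434130 0) (P.cons (P.lf 0 196406 0) P.nil))))) (P.cons (P.cons (P.lf 15607627 0 0) (P.cons (P.lf 0 4864591 0) (P.cons (P.lf 1547870 0 0) (P.cons (P.lf 0 55072 0) P.nil)))) (P.cons (P.cons (P.lf 0 725375 0) (P.cons (P.lf 474547 0 0) (P.cons (P.lf 9095 0 0) P.nil))) (P.cons (P.cons (P.lf 0 807105 0) (P.cons (P.lf 333675 0 0) P.nil)) (P.cons (P.cons (P.lf 56430 0 0) P.nil) P.nil)))))) 530457)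
 (EL.cons 5 (TM.mk (P.cons (P.cons (P.lf 12371926 0 0) (P.cons (P.lf 13472662 0 0) (P.cons (P.lf 2767082 0 0) (P.cons (P.lf 0 790694 0) (P.cons (P.lf 0 147086 0) (P.cons (P.lf 10928 0 0) P.nil)))))) (P.cons (P.cons (P.lf 0 16128444 0) (P.cons (P.lf 0 2487522 0) (P.cons (P.lf 3593396 0 0) (P.cons (P.lf 0 402816 0) (P.cons (P.lf 0 137432 0) P.nil))))) (P.cons (P.cons (P.lf 4757972 0 0) (P.cons (P.lf 0 3425576 0) (P.cons (P.lf 1545978 0 0) (P.cons (P.lf 0 99754 0) P.nil)))) (P.cons (P.cons (P.lf 970686 0 0) (P.cons (P.lf 0 389882 0) (P.cons (P.lf 269220 0 0) P.nil))) (P.cons (P.cons (P.lf 0 366990 0) (P.cons (P.lf 155666 0 0) P.nil)) (P.cons (P.cons (P.lf 0 50450 0) P.nil) P.nil)))))) 311788)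
 EL.nil)))
noncomputable def S140_169_512_660_6 : EL := (EL.cons 12 (TM.mk (P.lf 8589934592 0 0) 0)
 (EL.cons 3 (TM.mk (P.cons (P.lf 0 2668545243 0) (P.cons (P.lf 256005836 0 0) (P.cons (P.lf 20956361 0 0) (P.cons (P.lf 125291 0 0) (P.cons (P.lf 0 64357 0) (P.cons (P.lf 0 3438 0) P.nil)))))) 378)
 (EL.cons 7 (TM.mk (P.cons (P.lf 0 1442125985 0) (P.cons (P.lf 0 168433589 0) (P.cons (P.lf 4127638 0 0) (P.cons (P.lf 758202 0 0) (P.cons (P.lf 21743 0 0) (P.cons (P.lf 0 1521 0) P.nil)))))) 224)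
 EL.nil)))
noncomputable def S140_169_512_660_7 : EL := (EL.cons 12 (TM.mk (P.cons (P.cons (P.lf 0 970890566 0) (P.cons (P.lf 0 528635584 0) (P.cons (P.lf 35343336 0 0) (P.lf 11781112 0 0)))) (P.cons (P.cons (P.lf 746237658 0 0) (P.cons (P.lf 0 185226512 0) (P.cons (P.lf 12383808 0 0) (P.lf 4127928 0 0)))) (P.cons (P.cons (P.lf 0 70379254 0) (P.cons (P.lf 0 17094424 0) (P.cons (P.lf 1142888 0 0) (P.lf 380960 0 0)))) (P.cons (P.cons (P.lf 0 15494688 0) (P.cons (P.lf 1051864 0 0) (P.cons (P.lf 0 70320 0) P.nil))) (P.cons (P.cons (P.lf 65738 0 0) (P.cons (P.lf 267600 0 0) P.nil)) (P.cons (P.cons (P.lf 140766 0 0) P.nil) P.nil)))))) 105342)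
 (EL.cons 3 (TM.mk (P.cons (P.cons (P.lf 2286506108 0 0) (P.cons (P.lf 0 328451388 0) (P.cons (P.lf 21959488 0 0) (P.lf 7319828 0 0)))) (P.cons (P.cons (P.lf 0 496469807 0) (P.cons (P.lf 0 83574914 0) (P.cons (P.lf 5587620 0 0) (P.lf 1862534 0 0)))) (P.cons (P.cons (P.lf 0 117972381 0) (P.cons (P.lf 2998882 0 0) (P.cons (P.lf 0 200500 0) (P.lf 0 66834 0)))) (P.cons (P.cons (P.lf 0 1548719 0) (P.cons (P.lf 2591666 0 0) (P.cons (P.lf 0 173268 0) P.nil))) (P.cons (P.cons (P.lf 1902417 0 0) (P.cons (P.lf 184456 0 0) P.nil)) (P.cons (P.cons (P.lf 164640 0 0) P.nil) P.nil)))))) 340214)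
 (EL.cons 7 (TM.mk (P.cons (P.cons (P.lf 0 1142917393 0) (P.cons (P.lf 412896687 0 0) (P.cons (P.lf 0 27605314 0) (P.lf 0 9201770 0)))) (P.cons (P.cons (P.lf 326641741 0 0) (P.cons (P.lf 54986340 0 0) (P.cons (P.lf 0 3676259 0) (P.lf 0 1225421 0)))) (P.cons (P.cons (P.lf 42874179 0 0) (P.cons (P.lf 0 7821669 0) (P.cons (P.lf 522937 0 0) (P.lf 174313 0 0)))) (P.cons (P.cons (P.lf 0 7826932 0) (P.cons (P.lf 0 1061399 0) (P.cons (P.lf 70964 0 0) P.nil))) (P.cons (P.cons (P.lf 0 843665 0) (P.cons (P.lf 97434 0 0) P.nil)) (P.cons (P.cons (P.lf 58438 0 0) P.nil) P.nil)))))) 222145)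
 (EL.cons 10 (TM.mk (P.cons (P.cons (P.lf 0 1347415092 0) (P.cons (P.lf 208613691 0 0) (P.cons (P.lf 100503498 0 0) (P.cons (P.lf 0 3803346 0) (P.lf 0 950835 0))))) (P.cons (P.cons (P.lf 0 314743596 0) (P.cons (P.lf 48730212 0 0) (P.cons (P.lf 23476677 0 0) (P.cons (P.lf 0 888426 0) (P.lf 0 222105 0))))) (P.cons (P.cons (P.lf 0 10667175 0) (P.cons (P.lf 1651545 0 0) (P.cons (P.lf 795663 0 0) (P.cons (P.lf 0 30108 0) P.nil)))) (P.cons (P.cons (P.lf 2317668 0 0) (P.cons (P.lf 0 358833 0) (P.cons (P.lf 0 172872 0) P.nil))) (P.cons (P.cons (P.lf 195066 0 0) (P.cons (P.lf 0 30201 0) P.nil)) (P.cons (P.cons (P.lf 0 2148 0) P.nil) P.nil)))))) 33198)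
 EL.nil))))
noncomputable def S140_169_512_660_8 : EL := (EL.cons 12 (TM.mk (P.cons (P.cons (P.lf 109736398 0 0) (P.cons (P.lf 119499698 0 0) (P.cons (P.lf 24543440 0 0) (P.cons (P.lf 0 7013304 0) (P.cons (P.lf 0 1304628 0) (P.cons (P.lf 96946 0 0) P.nil)))))) (P.cons (P.cons (P.lf 0 168689316 0) (P.cons (P.lf 0 49977820 0) (P.cons (P.lf 26139554 0 0) (P.cons (P.lf 0 1934658 0) (P.cons (P.lf 0 914246 0) P.nil))))) (P.cons (P.cons (P.lf 80737720 0 0) (P.cons (P.lf 0 19655842 0) (P.cons (P.lf 7412246 0 0) (P.cons (P.lf 0 377360 0) P.nil)))) (P.cons (P.cons (P.lf 0 8725560 0) (P.cons (P.lf 1734448 0 0) (P.cons (P.lf 491790 0 0) P.nil))) (P.cons (P.cons (P.lf 0 2130382 0) (P.cons (P.lf 1062522 0 0) P.nil)) (P.cons (P.cons (P.lf 233504 0 0) P.nil) P.nil)))))) 1286866)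
 (EL.cons 3 (TM.mk (P.cons (P.cons (P.lf 0 482781076 0) (P.cons (P.lf 0 170057856 0) (P.cons (P.lf 61902969 0 0) (P.cons (P.lf 0 2967181 0) (P.cons (P.lf 0 2026476 0) (P.cons (P.lf 150585 0 0) P.nil)))))) (P.cons (P.cons (P.lf 453826667 0 0) (P.cons (P.lf 0 94764630 0) (P.cons (P.lf 36900165 0 0) (P.cons (P.lf 0 1975017 0) (P.cons (P.lf 0 1225686 0) P.nil))))) (P.cons (P.cons (P.lf 0 67218152 0) (P.cons (P.lf 12105795 0 0) (P.cons (P.lf 4868690 0 0) (P.cons (P.lf 0 1029031 0) P.nil)))) (P.cons (P.cons (P.lf 0 24967729 0) (P.cons (P.lf 11548756 0 0) (P.cons (P.lf 0 1017272 0) P.nil))) (P.cons (P.cons (P.lf 2464625 0 0) (P.cons (P.lf 1306955 0 0) P.nil)) (P.cons (P.cons (P.lf 966564 0 0) P.nil) P.nil)))))) 3065002)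
 (EL.cons 7 (TM.mk (P.cons (P.cons (P.lf 276783144 0 0) (P.cons (P.lf 67398911 0 0) (P.cons (P.lf 0 49864705 0) (P.cons (P.lf 4563088 0 0) (P.cons (P.lf 1818958 0 0) (P.cons (P.lf 0 135165 0) P.nil)))))) (P.cons (P.cons (P.lf 0 298585589 0) (P.cons (P.lf 62348368 0 0) (P.cons (P.lf 0 24277679 0) (P.cons (P.lf 1299421 0 0) (P.cons (P.lf 806412 0 0) P.nil))))) (P.cons (P.cons (P.lf 75983796 0 0) (P.cons (P.lf 0 14596431 0) (P.cons (P.lf 0 620958 0) (P.cons (P.lf 538810 0 0) P.nil)))) (P.cons (P.cons (P.lf 8178898 0 0) (P.cons (P.lf 0 6056058 0) (P.cons (P.lf 962900 0 0) P.nil))) (P.cons (P.cons (P.lf 0 3620585 0) (P.cons (P.lf 235155 0 0) P.nil)) (P.cons (P.cons (P.lf 0 223728 0) P.nil) P.nil)))))) 1822657)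
 (EL.cons 10 (TM.mk (P.cons (P.cons (P.lf 304587324 0 0) (P.cons (P.lf 118685532 0 0) (P.cons (P.lf 0 59483724 0) (P.cons (P.lf 0 13489746 0) (P.cons (P.lf 2082336 0 0) (P.cons (P.lf 361410 0 0) P.nil)))))) (P.cons (P.cons (P.lf 0 162960564 0) (P.cons (P.lf 122079006 0 0) (P.cons (P.lf 0 9314460 0) (P.cons (P.lf 0 8839758 0) (P.cons (P.lf 975516 0 0) P.nil))))) (P.cons (P.cons (P.lf 0 30195060 0) (P.cons (P.lf 24924510 0 0) (P.cons (P.lf 0 2236728 0) (P.cons (P.lf 0 1837308 0) P.nil)))) (P.cons (P.cons (P.lf 7641204 0 0) (P.cons (P.lf 0 85554 0) (P.cons (P.lf 0 813252 0) P.nil))) (P.cons (P.cons (P.lf 1648242 0 0) (P.cons (P.lf 0 497724 0) P.nil)) (P.cons (P.cons (P.lf 0 14094 0) P.nil) P.nil)))))) 1348272)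
 EL.nil))))
noncomputable def S140_169_512_660_9 : EL := (EL.cons 3 (TM.mk (P.cons (P.lf 0 2668545243 0) (P.cons (P.lf 256005836 0 0) (P.cons (P.lf 20956361 0 0) (P.cons (P.lf 125291 0 0) (P.cons (P.lf 0 64357 0) (P.cons (P.lf 0 3438 0) P.nil)))))) 378)
 (EL.cons 7 (TM.mk (P.cons (P.lf 0 1442125985 0) (P.cons (P.lf 0 168433589 0) (P.cons (P.lf 4127638 0 0) (P.cons (P.lf 758202 0 0) (P.cons (P.lf 21743 0 0) (P.cons (P.lf 0 1521 0) P.nil)))))) 224)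
 EL.nil))
noncomputable def S140_169_512_660_10 : EL := (EL.cons 3 (TM.mk (P.cons (P.cons (P.lf 301616429 0 0) (P.cons (P.lf 164225694 0 0) (P.cons (P.lf 0 10979744 0) (P.lf 0 3659914 0)))) (P.cons (P.cons (P.lf 0 260761310 0) (P.cons (P.lf 41787457 0 0) (P.cons (P.lf 0 2793810 0) (P.lf 0 931267 0)))) (P.cons (P.cons (P.lf 41735484 0 0) (P.cons (P.lf 0 1499441 0) (P.cons (P.lf 100250 0 0) (P.lf 33417 0 0)))) (P.cons (P.cons (P.lf 4522450 0 0) (P.cons (P.lf 0 1295833 0) (P.cons (P.lf 86634 0 0) P.nil))) (P.cons (P.cons (P.lf 0 635751 0) (P.cons (P.lf 0 92228 0) P.nil)) (P.cons (P.cons (P.lf 0 85800 0) P.nil) P.nil)))))) 83821)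
 (EL.cons 7 (TM.mk (P.cons (P.cons (P.lf 162998507 0 0) (P.cons (P.lf 88750281 0 0) (P.cons (P.lf 0 5933635 0) (P.lf 0 1977878 0)))) (P.cons (P.cons (P.lf 0 106245062 0) (P.cons (P.lf 41462475 0 0) (P.cons (P.lf 0 2772083 0) (P.lf 0 924026 0)))) (P.cons (P.cons (P.lf 0 3283287 0) (P.cons (P.lf 6247854 0 0) (P.cons (P.lf 0 417716 0) (P.lf 0 139238 0)))) (P.cons (P.cons (P.lf 4254233 0 0) (P.cons (P.lf 22933 0 0) (P.cons (P.lf 0 1534 0) P.nil))) (P.cons (P.cons (P.lf 322378 0 0) (P.cons (P.lf 0 91452 0) P.nil)) (P.cons (P.cons (P.lf 0 36518 0) P.nil) P.nil)))))) 47073)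
 EL.nil))
noncomputable def S140_169_512_660_11 : EL := (EL.cons 3 (TM.mk (P.cons (P.cons (P.lf 0 34090660 0) (P.cons (P.lf 0 37123722 0) (P.cons (P.lf 0 7624653 0) (P.cons (P.lf 2178749 0 0) (P.cons (P.lf 405294 0 0) (P.cons (P.lf 0 30117 0) P.nil)))))) (P.cons (P.cons (P.lf 55675421 0 0) (P.cons (P.lf 19087536 0 0) (P.cons (P.lf 0 7389033 0) (P.cons (P.lf 392001 0 0) (P.cons (P.lf 245136 0 0) P.nil))))) (P.cons (P.cons (P.lf 0 29841674 0) (P.cons (P.lf 4908321 0 0) (P.cons (P.lf 0 1463770 0) (P.cons (P.lf 42461 0 0) P.nil)))) (P.cons (P.cons (P.lf 4706963 0 0) (P.cons (P.lf 0 1244810 0) (P.cons (P.lf 132256 0 0) P.nil))) (P.cons (P.cons (P.lf 595463 0 0) (P.cons (P.lf 0 327967 0) P.nil)) (P.cons (P.cons (P.lf 0 154920 0) P.nil) P.nil)))))) 582318)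
 (EL.cons 7 (TM.mk (P.cons (P.cons (P.lf 0 18423156 0) (P.cons (P.lf 0 20062273 0) (P.cons (P.lf 0 4120489 0) (P.cons (P.lf 1177432 0 0) (P.cons (P.lf 219028 0 0) (P.cons (P.lf 0 16275 0) P.nil)))))) (P.cons (P.cons (P.lf 26168761 0 0) (P.cons (P.lf 6047374 0 0) (P.cons (P.lf 0 4869707 0) (P.cons (P.lf 462319 0 0) (P.cons (P.lf 179070 0 0) P.nil))))) (P.cons (P.cons (P.lf 0 10194264 0) (P.cons (P.lf 4337331 0 0) (P.cons (P.lf 0 1745166 0) (P.cons (P.lf 97918 0 0) P.nil)))) (P.cons (P.cons (P.lf 0 189602 0) (P.cons (P.lf 80760 0 0) (P.cons (P.lf 0 213178 0) P.nil))) (P.cons (P.cons (P.lf 552937 0 0) (P.cons (P.lf 0 225945 0) P.nil)) (P.cons (P.cons (P.lf 5058 0 0) P.nil) P.nil)))))) 320517)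
 EL.nil))
noncomputable def S140_169_512_660_12 : EL := (EL.cons 4 (TM.mk (P.cons (P.lf 2668545243 0 0) (P.cons (P.lf 0 256005836 0) (P.cons (P.lf 0 20956361 0) (P.cons (P.lf 0 125291 0) (P.cons (P.lf 64357 0 0) (P.cons (P.lf 3438 0 0) P.nil)))))) 378)
 (EL.cons 8 (TM.mk (P.cons (P.lf 1442125985 0 0) (P.cons (P.lf 168433589 0 0) (P.cons (P.lf 0 4127638 0) (P.cons (P.lf 0 758202 0) (P.cons (P.lf 0 21743 0) (P.cons (P.lf 1521 0 0) P.nil)))))) 224)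
 EL.nil))
noncomputable def S140_169_512_660_13 : EL := (EL.cons 4 (TM.mk (P.cons (P.cons (P.lf 0 301616429 0) (P.cons (P.lf 0 164225694 0) (P.cons (P.lf 10979744 0 0) (P.lf 3659914 0 0)))) (P.cons (P.cons (P.lf 260761310 0 0) (P.cons (P.lf 0 41787457 0) (P.cons (P.lf 2793810 0 0) (P.lf 931267 0 0)))) (P.cons (P.cons (P.lf 0 41735484 0) (P.cons (P.lf 1499441 0 0) (P.cons (P.lf 0 100250 0) (P.lf 0 33417 0)))) (P.cons (P.cons (P.lf 0 4522450 0) (P.cons (P.lf 1295833 0 0) (P.cons (P.lf 0 86634 0) P.nil))) (P.cons (P.cons (P.lf 635751 0 0) (P.cons (P.lf 92228 0 0) P.nil)) (P.cons (P.cons (P.lf 85800 0 0) P.nil) P.nil)))))) 83821)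
 (EL.cons 8 (TM.mk (P.cons (P.cons (P.lf 0 162998507 0) (P.cons (P.lf 0 88750281 0) (P.cons (P.lf 5933635 0 0) (P.lf 1977878 0 0)))) (P.cons (P.cons (P.lf 106245062 0 0) (P.cons (P.lf 0 41462475 0) (P.cons (P.lf 2772083 0 0) (P.lf 924026 0 0)))) (P.cons (P.cons (P.lf 3283287 0 0) (P.cons (P.lf 0 6247854 0) (P.cons (P.lf 417716 0 0) (P.lf 139238 0 0)))) (P.cons (P.cons (P.lf 0 4254233 0) (P.cons (P.lf 0 22933 0) (P.cons (P.lf 1534 0 0) P.nil))) (P.cons (P.cons (P.lf 0 322378 0) (P.cons (P.lf 91452 0 0) P.nil)) (P.cons (P.cons (P.lf 36518 0 0) P.nil) P.nil)))))) 47073)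
 EL.nil))
noncomputable def S140_169_512_660_14 : EL := (EL.cons 4 (TM.mk (P.cons (P.cons (P.lf 34090660 0 0) (P.cons (P.lf 37123722 0 0) (P.cons (P.lf 7624653 0 0) (P.cons (P.lf 0 2178749 0) (P.cons (P.lf 0 405294 0) (P.cons (P.lf 30117 0 0) P.nil)))))) (P.cons (P.cons (P.lf 0 55675421 0) (P.cons (P.lf 0 19087536 0) (P.cons (P.lf 7389033 0 0) (P.cons (P.lf 0 392001 0) (P.cons (P.lf 0 245136 0) P.nil))))) (P.cons (P.cons (P.lf 29841674 0 0) (P.cons (P.lf 0 4908321 0) (P.cons (P.lf 1463770 0 0) (P.cons (P.lf 0 42461 0) P.nil)))) (P.cons (P.cons (P.lf 0 4706963 0) (P.cons (P.lf 1244810 0 0) (P.cons (P.lf 0 132256 0) P.nil))) (P.cons (P.cons (P.lf 0 595463 0) (P.cons (P.lf 327967 0 0) P.nil)) (P.cons (P.cons (P.lf 154920 0 0) P.nil) P.nil)))))) 582318)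
 (EL.cons 8 (TM.mk (P.cons (P.cons (P.lf 18423156 0 0) (P.cons (P.lf 20062273 0 0) (P.cons (P.lf 4120489 0 0) (P.cons (P.lf 0 1177432 0) (P.cons (P.lf 0 219028 0) (P.cons (P.lf 16275 0 0) P.nil)))))) (P.cons (P.cons (P.lf 0 26168761 0) (P.cons (P.lf 0 6047374 0) (P.cons (P.lf 4869707 0 0) (P.cons (P.lf 0 462319 0) (P.cons (P.lf 0 179070 0) P.nil))))) (P.cons (P.cons (P.lf 10194264 0 0) (P.cons (P.lf 0 4337331 0) (P.cons (P.lf 1745166 0 0) (P.cons (P.lf 0 97918 0) P.nil)))) (P.cons (P.cons (P.lf 189602 0 0) (P.cons (P.lf 0 80760 0) (P.cons (P.lf 213178 0 0) P.nil))) (P.cons (P.cons (P.lf 0 552937 0) (P.cons (P.lf 225945 0 0) P.nil)) (P.cons (P.cons (P.lf 0 5058 0) P.nil) P.nil)))))) 320517)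
 EL.nil))
noncomputable def S140_169_512_660_15 : EL := (EL.cons 4 (TM.mk (P.cons (P.lf 0 1768552689 0) (P.cons (P.lf 339330810 0 0) (P.cons (P.lf 11500469 0 0) (P.cons (P.lf 0 2498728 0) (P.cons (P.lf 0 210304 0) (P.cons (P.lf 2321 0 0) P.nil)))))) 1708)
 (EL.cons 8 (TM.mk (P.cons (P.lf 0 955755124 0) (P.cons (P.lf 0 19937749 0) (P.cons (P.lf 20950159 0 0) (P.cons (P.lf 1161554 0 0) (P.cons (P.lf 0 73087 0) (P.cons (P.lf 0 10388 0) P.nil)))))) 788)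
 EL.nil))
noncomputable def S140_169_512_660_16 : EL := (EL.cons 4 (TM.mk (P.cons (P.cons (P.lf 199893387 0 0) (P.cons (P.lf 108838998 0 0) (P.cons (P.lf 0 7276720 0) (P.lf 0 2425573 0)))) (P.cons (P.cons (P.lf 0 191993743 0) (P.cons (P.lf 17252808 0 0) (P.cons (P.lf 0 1153481 0) (P.lf 0 384492 0)))) (P.cons (P.cons (P.lf 42669142 0 0) (P.cons (P.lf 0 4505299 0) (P.cons (P.lf 301214 0 0) (P.lf 100404 0 0)))) (P.cons (P.cons (P.lf 1691444 0 0) (P.cons (P.lf 0 986062 0) (P.cons (P.lf 65924 0 0) P.nil))) (P.cons (P.cons (P.lf 0 913155 0) (P.cons (P.lf 30392 0 0) P.nil)) (P.cons (P.cons (P.lf 0 45188 0) P.nil) P.nil)))))) 97986)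
 (EL.cons 8 (TM.mk (P.cons (P.cons (P.lf 108025692 0 0) (P.cons (P.lf 58818395 0 0) (P.cons (P.lf 0 3932459 0) (P.lf 0 1310819 0)))) (P.cons (P.cons (P.lf 0 80776295 0) (P.cons (P.lf 21836137 0 0) (P.cons (P.lf 0 1459912 0) (P.lf 0 486636 0)))) (P.cons (P.cons (P.lf 3730729 0 0) (P.cons (P.lf 1042625 0 0) (P.cons (P.lf 0 69706 0) (P.lf 0 23235 0)))) (P.cons (P.cons (P.lf 3576090 0 0) (P.cons (P.lf 0 600593 0) (P.cons (P.lf 40153 0 0) P.nil))) (P.cons (P.cons (P.lf 0 33830 0) (P.cons (P.lf 0 94456 0) P.nil)) (P.cons (P.cons (P.lf 0 68297 0) P.nil) P.nil)))))) 53260)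
 EL.nil))
noncomputable def S140_169_512_660_17 : EL := (EL.cons 4 (TM.mk (P.cons (P.cons (P.lf 0 22593256 0) (P.cons (P.lf 0 24603390 0) (P.cons (P.lf 0 5053165 0) (P.cons (P.lf 1443945 0 0) (P.cons (P.lf 268605 0 0) (P.cons (P.lf 0 19959 0) P.nil)))))) (P.cons (P.cons (P.lf 39065824 0 0) (P.cons (P.lf 15010397 0 0) (P.cons (P.lf 0 4412236 0) (P.cons (P.lf 121271 0 0) (P.cons (P.lf 136693 0 0) P.nil))))) (P.cons (P.cons (P.lf 0 23139683 0) (P.cons (P.lf 2232575 0 0) (P.cons (P.lf 0 460623 0) (P.cons (P.lf 0 8121 0) P.nil)))) (P.cons (P.cons (P.lf 4728114 0 0) (P.cons (P.lf 0 1235243 0) (P.cons (P.lf 219411 0 0) P.nil))) (P.cons (P.cons (P.lf 248405 0 0) (P.cons (P.lf 0 164945 0) P.nil)) (P.cons (P.cons (P.lf 0 163240 0) P.nil) P.nil)))))) 496174)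
 (EL.cons 8 (TM.mk (P.cons (P.cons (P.lf 0 12209769 0) (P.cons (P.lf 0 13296078 0) (P.cons (P.lf 0 2730814 0) (P.cons (P.lf 780331 0 0) (P.cons (P.lf 145158 0 0) (P.cons (P.lf 0 10786 0) P.nil)))))) (P.cons (P.cons (P.lf 18514434 0 0) (P.cons (P.lf 5283393 0 0) (P.cons (P.lf 0 2965372 0) (P.cons (P.lf 231536 0 0) (P.cons (P.lf 104750 0 0) P.nil))))) (P.cons (P.cons (P.lf 0 8324068 0) (P.cons (P.lf 2594449 0 0) (P.cons (P.lf 0 825531 0) (P.cons (P.lf 29372 0 0) P.nil)))) (P.cons (P.cons (P.lf 386867 0 0) (P.cons (P.lf 0 253092 0) (P.cons (P.lf 0 4851 0) P.nil))) (P.cons (P.cons (P.lf 430456 0 0) (P.cons (P.lf 0 177960 0) P.nil)) (P.cons (P.cons (P.lf 0 30096 0) P.nil) P.nil)))))) 282899)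
 EL.nil))
noncomputable def S140_169_512_660_18 : EL := (EL.cons 4 (TM.mk (P.cons (P.lf 1172091282 0 0) (P.cons (P.lf 0 337332345 0) (P.cons (P.lf 4748184 0 0) (P.cons (P.lf 4098243 0 0) (P.cons (P.lf 79189 0 0) (P.cons (P.lf 0 31469 0) P.nil)))))) 3321)
 (EL.cons 8 (TM.mk (P.cons (P.lf 633417514 0 0) (P.cons (P.lf 0 47553107 0) (P.cons (P.lf 0 20126446 0) (P.cons (P.lf 428689 0 0) (P.cons (P.lf 245981 0 0) (P.cons (P.lf 10070 0 0) P.nil)))))) 1843)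
 EL.nil))
noncomputable def S140_169_512_660_19 : EL := (EL.cons 4 (TM.mk (P.cons (P.cons (P.lf 0 132477419 0) (P.cons (P.lf 0 72131999 0) (P.cons (P.lf 4822575 0 0) (P.lf 1607524 0 0)))) (P.cons (P.cons (P.lf 139951175 0 0) (P.cons (P.lf 0 4514177 0) (P.cons (P.lf 301806 0 0) (P.lf 100601 0 0)))) (P.cons (P.cons (P.lf 0 39445116 0) (P.cons (P.lf 4649233 0 0) (P.cons (P.lf 0 310836 0) (P.lf 0 103612 0)))) (P.cons (P.cons (P.lf 598879 0 0) (P.cons (P.lf 460237 0 0) (P.cons (P.lf 0 30768 0) P.nil))) (P.cons (P.cons (P.lf 925631 0 0) (P.cons (P.lf 0 107487 0) P.nil)) (P.cons (P.cons (P.lf 0 15079 0) P.nil) P.nil)))))) 97204)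
 (EL.cons 8 (TM.mk (P.cons (P.cons (P.lf 0 71592988 0) (P.cons (P.lf 0 38981325 0) (P.cons (P.lf 2606200 0 0) (P.lf 868733 0 0)))) (P.cons (P.cons (P.lf 60401957 0 0) (P.cons (P.lf 0 10732031 0) (P.cons (P.lf 717518 0 0) (P.lf 239172 0 0)))) (P.cons (P.cons (P.lf 0 7046013 0) (P.cons (P.lf 1003470 0 0) (P.cons (P.lf 0 67089 0) (P.lf 0 22363 0)))) (P.cons (P.cons (P.lf 0 2549865 0) (P.cons (P.lf 579805 0 0) (P.cons (P.lf 0 38763 0) P.nil))) (P.cons (P.cons (P.lf 264964 0 0) (P.cons (P.lf 29580 0 0) P.nil)) (P.cons (P.cons (P.lf 63038 0 0) P.nil) P.nil)))))) 55321)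
 EL.nil))
noncomputable def S140_169_512_660_20 : EL := (EL.cons 4 (TM.mk (P.cons (P.cons (P.lf 14973463 0 0) (P.cons (P.lf 16305660 0 0) (P.cons (P.lf 3348936 0 0) (P.cons (P.lf 0 956960 0) (P.cons (P.lf 0 178015 0) (P.cons (P.lf 13228 0 0) P.nil)))))) (P.cons (P.cons (P.lf 0 27326972 0) (P.cons (P.lf 0 11512273 0) (P.cons (P.lf 2602889 0 0) (P.cons (P.lf 11433 0 0) (P.cons (P.lf 0 73514 0) P.nil))))) (P.cons (P.cons (P.lf 17701809 0 0) (P.cons (P.lf 0 653310 0) (P.cons (P.lf 0 1553 0) (P.cons (P.lf 20607 0 0) P.nil)))) (P.cons (P.cons (P.lf 0 4402110 0) (P.cons (P.lf 1037949 0 0) (P.cons (P.lf 0 197820 0) P.nil))) (P.cons (P.cons (P.lf 17127 0 0) (P.cons (P.lf 43259 0 0) P.nil)) (P.cons (P.cons (P.lf 147262 0 0) P.nil) P.nil)))))) 404150)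
 (EL.cons 8 (TM.mk (P.cons (P.cons (P.lf 8091907 0 0) (P.cons (P.lf 8811848 0 0) (P.cons (P.lf 1809820 0 0) (P.cons (P.lf 0 517157 0) (P.cons (P.lf 0 96202 0) (P.cons (P.lf 7148 0 0) P.nil)))))) (P.cons (P.cons (P.lf 0 13046557 0) (P.cons (P.lf 0 4346879 0) (P.cons (P.lf 1791647 0 0) (P.cons (P.lf 0 103835 0) (P.cons (P.lf 0 60193 0) P.nil))))) (P.cons (P.cons (P.lf 6630292 0 0) (P.cons (P.lf 0 1452730 0) (P.cons (P.lf 344363 0 0) (P.cons (P.lf 0 683 0) P.nil)))) (P.cons (P.cons (P.lf 0 689654 0) (P.cons (P.lf 359773 0 0) (P.cons (P.lf 0 64789 0) P.nil))) (P.cons (P.cons (P.lf 0 303235 0) (P.cons (P.lf 115729 0 0) P.nil)) (P.cons (P.cons (P.lf 48783 0 0) P.nil) P.nil)))))) 235363)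
 EL.nil))
noncomputable def S140_169_512_660_21 : EL := (EL.cons 4 (TM.mk (P.cons (P.cons (P.lf 0 1984889679 0) (P.cons (P.lf 492677082 0 0) (P.cons (P.lf 0 32939232 0) (P.lf 0 10979742 0)))) (P.cons (P.cons (P.lf 235708497 0 0) (P.cons (P.lf 125362371 0 0) (P.cons (P.lf 0 8381430 0) (P.lf 0 2793801 0)))) (P.cons (P.cons (P.lf 159707865 0 0) (P.cons (P.lf 0 4498323 0) (P.cons (P.lf 300750 0 0) (P.lf 100251 0 0)))) (P.cons (P.cons (P.lf 6071169 0 0) (P.cons (P.lf 0 3887499 0) (P.cons (P.lf 259902 0 0) P.nil))) (P.cons (P.cons (P.lf 0 2538168 0) (P.cons (P.lf 0 276684 0) P.nil)) (P.cons (P.cons (P.lf 0 250440 0) P.nil) P.nil)))))) 256374)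
 (EL.cons 8 (TM.mk (P.cons (P.cons (P.lf 1305915900 0 0) (P.cons (P.lf 0 324146406 0) (P.cons (P.lf 21671679 0 0) (P.lf 7223892 0 0)))) (P.cons (P.cons (P.lf 0 432886803 0) (P.cons (P.lf 0 13523865 0) (P.cons (P.lf 904176 0 0) (P.lf 301395 0 0)))) (P.cons (P.cons (P.lf 0 46157466 0) (P.cons (P.lf 14069523 0 0) (P.cons (P.lf 0 940653 0) (P.lf 0 313551 0)))) (P.cons (P.cons (P.lf 12081165 0 0) (P.cons (P.lf 1084332 0 0) (P.cons (P.lf 0 72498 0) P.nil))) (P.cons (P.cons (P.lf 1166043 0 0) (P.cons (P.lf 0 188886 0) P.nil)) (P.cons (P.cons (P.lf 0 94956 0) P.nil) P.nil)))))) 175053)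
 (EL.cons 11 (TM.mk (P.cons (P.cons (P.lf 1347415092 0 0) (P.cons (P.lf 0 208613691 0) (P.cons (P.lf 0 100503498 0) (P.cons (P.lf 3803346 0 0) (P.lf 950835 0 0))))) (P.cons (P.cons (P.lf 314743596 0 0) (P.cons (P.lf 0 48730212 0) (P.cons (P.lf 0 23476677 0) (P.cons (P.lf 888426 0 0) (P.lf 222105 0 0))))) (P.cons (P.cons (P.lf 10667175 0 0) (P.cons (P.lf 0 1651545 0) (P.cons (P.lf 0 795663 0) (P.cons (P.lf 30108 0 0) P.nil)))) (P.cons (P.cons (P.lf 0 2317668 0) (P.cons (P.lf 358833 0 0) (P.cons (P.lf 172872 0 0) P.nil))) (P.cons (P.cons (P.lf 0 195066 0) (P.cons (P.lf 30201 0 0) P.nil)) (P.cons (P.cons (P.lf 2148 0 0) P.nil) P.nil)))))) 33198)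
 EL.nil)))
noncomputable def S140_169_512_660_22 : EL := (EL.cons 4 (TM.mk (P.cons (P.cons (P.lf 224345208 0 0) (P.cons (P.lf 66467067 0 0) (P.cons (P.lf 0 34763811 0) (P.cons (P.lf 2572965 0 0) (P.cons (P.lf 1215885 0 0) (P.cons (P.lf 0 90351 0) P.nil)))))) (P.cons (P.cons (P.lf 0 199075623 0) (P.cons (P.lf 56926083 0 0) (P.cons (P.lf 0 22144599 0) (P.cons (P.lf 1183509 0 0) (P.cons (P.lf 735411 0 0) P.nil))))) (P.cons (P.cons (P.lf 18688239 0 0) (P.cons (P.lf 0 3598737 0) (P.cons (P.lf 0 3166230 0) (P.cons (P.lf 535746 0 0) P.nil)))) (P.cons (P.cons (P.lf 14837346 0 0) (P.cons (P.lf 0 6396783 0) (P.cons (P.lf 574764 0 0) P.nil))) (P.cons (P.cons (P.lf 0 934581 0) (P.cons (P.lf 0 817461 0) P.nil)) (P.cons (P.cons (P.lf 0 560742 0) P.nil) P.nil)))))) 1241331)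
 (EL.cons 8 (TM.mk (P.cons (P.cons (P.lf 0 147603150 0) (P.cons (P.lf 0 43730592 0) (P.cons (P.lf 22872108 0 0) (P.cons (P.lf 0 1692828 0) (P.cons (P.lf 0 799965 0) (P.cons (P.lf 59445 0 0) P.nil)))))) (P.cons (P.cons (P.lf 162377175 0 0) (P.cons (P.lf 0 28150497 0) (P.cons (P.lf 9703986 0 0) (P.cons (P.lf 0 418551 0) (P.cons (P.lf 0 313671 0) P.nil))))) (P.cons (P.cons (P.lf 0 43089030 0) (P.cons (P.lf 9466881 0 0) (P.cons (P.lf 0 562104 0) (P.cons (P.lf 0 220446 0) P.nil)))) (P.cons (P.cons (P.lf 0 4184250 0) (P.cons (P.lf 3068409 0 0) (P.cons (P.lf 0 588039 0) P.nil))) (P.cons (P.cons (P.lf 2086761 0 0) (P.cons (P.lf 0 230550 0) P.nil)) (P.cons (P.cons (P.lf 114393 0 0) P.nil) P.nil)))))) 751059)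
 (EL.cons 11 (TM.mk (P.cons (P.cons (P.lf 0 152293662 0) (P.cons (P.lf 0 59342766 0) (P.cons (P.lf 29741862 0 0) (P.cons (P.lf 6744873 0 0) (P.cons (P.lf 0 1041168 0) (P.cons (P.lf 0 180705 0) P.nil)))))) (P.cons (P.cons (P.lf 81480282 0 0) (P.cons (P.lf 0 61039503 0) (P.cons (P.lf 4657230 0 0) (P.cons (P.lf 4419879 0 0) (P.cons (P.lf 0 487758 0) P.nil))))) (P.cons (P.cons (P.lf 15097530 0 0) (P.cons (P.lf 0 12462255 0) (P.cons (P.lf 1118364 0 0) (P.cons (P.lf 918654 0 0) P.nil)))) (P.cons (P.cons (P.lf 0 3820602 0) (P.cons (P.lf 42777 0 0) (P.cons (P.lf 406626 0 0) P.nil))) (P.cons (P.cons (P.lf 0 824121 0) (P.cons (P.lf 248862 0 0) P.nil)) (P.cons (P.cons (P.lf 7047 0 0) P.nil) P.nil)))))) 674136)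
 EL.nil)))
noncomputable def S140_169_512_660_23 : EL := (EL.cons 4 (TM.mk (P.cons (P.cons (P.lf 1315466541 0 0) (P.cons (P.lf 0 326516994 0) (P.cons (P.lf 21830157 0 0) (P.lf 7276716 0 0)))) (P.cons (P.cons (P.lf 0 282412302 0) (P.cons (P.lf 0 51758424 0) (P.cons (P.lf 3460443 0 0) (P.lf 1153473 0 0)))) (P.cons (P.cons (P.lf 0 101189061 0) (P.cons (P.lf 13515897 0 0) (P.cons (P.lf 0 903642 0) (P.lf 0 301212 0)))) (P.cons (P.cons (P.lf 7295571 0 0) (P.cons (P.lf 2958186 0 0) (P.cons (P.lf 0 197772 0) P.nil))) (P.cons (P.cons (P.lf 2938419 0 0) (P.cons (P.lf 0 91182 0) P.nil)) (P.cons (P.cons (P.lf 39093 0 0) P.nil) P.nil)))))) 306384)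
 (EL.cons 8 (TM.mk (P.cons (P.cons (P.lf 0 865483200 0) (P.cons (P.lf 214824912 0 0) (P.cons (P.lf 0 14362695 0) (P.lf 0 4787562 0)))) (P.cons (P.cons (P.lf 369921354 0 0) (P.cons (P.lf 0 11646330 0) (P.cons (P.lf 778644 0 0) (P.lf 259545 0 0)))) (P.cons (P.cons (P.lf 9864315 0 0) (P.cons (P.lf 0 11871327 0) (P.cons (P.lf 793686 0 0) (P.lf 264561 0 0)))) (P.cons (P.cons (P.lf 0 13153707 0) (P.cons (P.lf 95433 0 0) (P.cons (P.lf 0 6378 0) P.nil))) (P.cons (P.cons (P.lf 0 279237 0) (P.cons (P.lf 272109 0 0) P.nil)) (P.cons (P.cons (P.lf 204312 0 0) P.nil) P.nil)))))) 196434)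
 (EL.cons 11 (TM.mk (P.cons (P.cons (P.lf 0 892986390 0) (P.cons (P.lf 138256716 0 0) (P.cons (P.lf 66607725 0 0) (P.cons (P.lf 0 2520630 0) (P.lf 0 630156 0))))) (P.cons (P.cons (P.lf 0 122924991 0) (P.cons (P.lf 19031874 0 0) (P.cons (P.lf 9168954 0 0) (P.cons (P.lf 0 346980 0) (P.lf 0 86742 0))))) (P.cons (P.cons (P.lf 19954461 0 0) (P.cons (P.lf 0 3089451 0) (P.cons (P.lf 0 1488399 0) (P.cons (P.lf 56325 0 0) P.nil)))) (P.cons (P.cons (P.lf 3894258 0 0) (P.cons (P.lf 0 602928 0) (P.cons (P.lf 0 290469 0) P.nil))) (P.cons (P.cons (P.lf 25695 0 0) (P.cons (P.lf 0 3978 0) P.nil)) (P.cons (P.cons (P.lf 0 31737 0) P.nil) P.nil)))))) 77412)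
 EL.nil)))
noncomputable def S140_169_512_660_24 : EL := (EL.cons 4 (TM.mk (P.cons (P.cons (P.lf 0 148682628 0) (P.cons (P.lf 0 44050410 0) (P.cons (P.lf 23039379 0 0) (P.cons (P.lf 0 1705209 0) (P.cons (P.lf 0 805815 0) (P.cons (P.lf 59880 0 0) P.nil)))))) (P.cons (P.cons (P.lf 146199261 0 0) (P.cons (P.lf 0 33501255 0) (P.cons (P.lf 12465846 0 0) (P.cons (P.lf 0 620772 0) (P.cons (P.lf 0 410079 0) P.nil))))) (P.cons (P.cons (P.lf 0 23875005 0) (P.cons (P.lf 6350304 0 0) (P.cons (P.lf 509508 0 0) (P.cons (P.lf 0 266421 0) P.nil)))) (P.cons (P.cons (P.lf 0 9674235 0) (P.cons (P.lf 4308945 0 0) (P.cons (P.lf 0 698562 0) P.nil))) (P.cons (P.cons (P.lf 1650222 0 0) (P.cons (P.lf 117036 0 0) P.nil)) (P.cons (P.cons (P.lf 392997 0 0) P.nil) P.nil)))))) 924333)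
 (EL.cons 8 (TM.mk (P.cons (P.cons (P.lf 97822569 0 0) (P.cons (P.lf 28982028 0 0) (P.cons (P.lf 0 15158268 0) (P.cons (P.lf 1121907 0 0) (P.cons (P.lf 530169 0 0) (P.cons (P.lf 0 39396 0) P.nil)))))) (P.cons (P.cons (P.lf 0 116998482 0) (P.cons (P.lf 15876090 0 0) (P.cons (P.lf 0 4977021 0) (P.cons (P.lf 169761 0 0) (P.cons (P.lf 157020 0 0) P.nil))))) (P.cons (P.cons (P.lf 38112528 0 0) (P.cons (P.lf 0 8291484 0) (P.cons (P.lf 1108545 0 0) (P.cons (P.lf 110676 0 0) P.nil)))) (P.cons (P.cons (P.lf 873990 0 0) (P.cons (P.lf 0 1579527 0) (P.cons (P.lf 405195 0 0) P.nil))) (P.cons (P.cons (P.lf 0 1865862 0) (P.cons (P.lf 396975 0 0) P.nil)) (P.cons (P.cons (P.lf 31272 0 0) P.nil) P.nil)))))) 522444)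
 (EL.cons 11 (TM.mk (P.cons (P.cons (P.lf 100931157 0 0) (P.cons (P.lf 39328848 0 0) (P.cons (P.lf 0 19711131 0) (P.cons (P.lf 0 4470099 0) (P.cons (P.lf 690024 0 0) (P.cons (P.lf 119760 0 0) P.nil)))))) (P.cons (P.cons (P.lf 0 63683064 0) (P.cons (P.lf 36680346 0 0) (P.cons (P.lf 0 1195554 0) (P.cons (P.lf 0 2500395 0) (P.cons (P.lf 257058 0 0) P.nil))))) (P.cons (P.cons (P.lf 0 5617869 0) (P.cons (P.lf 4069509 0 0) (P.cons (P.lf 0 290286 0) (P.cons (P.lf 0 292710 0) P.nil)))) (P.cons (P.cons (P.lf 3911295 0 0) (P.cons (P.lf 0 1140228 0) (P.cons (P.lf 0 173217 0) P.nil))) (P.cons (P.cons (P.lf 386811 0 0) (P.cons (P.lf 0 228024 0) P.nil)) (P.cons (P.cons (P.lf 0 77655 0) P.nil) P.nil)))))) 488445)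
 EL.nil)))
noncomputable def S140_169_512_660_25 : EL := (EL.cons 4 (TM.mk (P.cons (P.cons (P.lf 0 871812795 0) (P.cons (P.lf 216395997 0 0) (P.cons (P.lf 0 14467725 0) (P.lf 0 4822575 0)))) (P.cons (P.cons (P.lf 270803052 0 0) (P.cons (P.lf 13542534 0 0) (P.cons (P.lf 0 905418 0) (P.lf 0 301803 0)))) (P.cons (P.cons (P.lf 55952811 0 0) (P.cons (P.lf 0 13947696 0) (P.cons (P.lf 932511 0 0) (P.lf 310836 0 0)))) (P.cons (P.cons (P.lf 0 12697545 0) (P.cons (P.lf 0 1380711 0) (P.cons (P.lf 92307 0 0) P.nil))) (P.cons (P.cons (P.lf 0 2040015 0) (P.cons (P.lf 322461 0 0) P.nil)) (P.cons (P.cons (P.lf 199125 0 0) P.nil) P.nil)))))) 285345)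
 (EL.cons 8 (TM.mk (P.cons (P.cons (P.lf 573590664 0 0) (P.cons (P.lf 0 142373142 0) (P.cons (P.lf 9518739 0 0) (P.lf 3172911 0 0)))) (P.cons (P.cons (P.lf 0 300189012 0) (P.cons (P.lf 21377004 0 0) (P.cons (P.lf 0 1429215 0) (P.lf 0 476403 0)))) (P.cons (P.cons (P.lf 12477555 0 0) (P.cons (P.lf 8245206 0 0) (P.cons (P.lf 0 551253 0) (P.lf 0 183750 0)))) (P.cons (P.cons (P.lf 11243013 0 0) (P.cons (P.lf 0 871953 0) (P.cons (P.lf 58293 0 0) P.nil))) (P.cons (P.cons (P.lf 0 574563 0) (P.cons (P.lf 0 239850 0) P.nil)) (P.cons (P.cons (P.lf 0 226485 0) P.nil) P.nil)))))) 192195)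
 (EL.cons 11 (TM.mk (P.cons (P.cons (P.lf 591818139 0 0) (P.cons (P.lf 0 91628307 0) (P.cons (P.lf 0 44143629 0) (P.cons (P.lf 1670523 0 0) (P.lf 417630 0 0))))) (P.cons (P.cons (P.lf 24691515 0 0) (P.cons (P.lf 0 3822864 0) (P.cons (P.lf 0 1841733 0) (P.cons (P.lf 69696 0 0) (P.lf 17421 0 0))))) (P.cons (P.cons (P.lf 0 25687773 0) (P.cons (P.lf 3977112 0 0) (P.cons (P.lf 1916046 0 0) (P.cons (P.lf 0 72507 0) P.nil)))) (P.cons (P.cons (P.lf 0 1979739 0) (P.cons (P.lf 306513 0 0) (P.cons (P.lf 147666 0 0) P.nil))) (P.cons (P.cons (P.lf 344865 0 0) (P.cons (P.lf 0 53394 0) P.nil)) (P.cons (P.cons (P.lf 46281 0 0) P.nil) P.nil)))))) 99639)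
 EL.nil)))
noncomputable def S140_169_512_660_26 : EL := (EL.cons 4 (TM.mk (P.cons (P.cons (P.lf 98537979 0 0) (P.cons (P.lf 29193984 0 0) (P.cons (P.lf 0 15269127 0) (P.cons (P.lf 1130109 0 0) (P.cons (P.lf 534045 0 0) (P.cons (P.lf 0 39684 0) P.nil)))))) (P.cons (P.cons (P.lf 0 106345356 0) (P.cons (P.lf 19401921 0 0) (P.cons (P.lf 0 6796782 0) (P.cons (P.lf 302994 0 0) (P.cons (P.lf 220542 0 0) P.nil))))) (P.cons (P.cons (P.lf 24344412 0 0) (P.cons (P.lf 0 6567867 0) (P.cons (P.lf 574809 0 0) (P.cons (P.lf 128223 0 0) P.nil)))) (P.cons (P.cons (P.lf 5649816 0 0) (P.cons (P.lf 0 2627691 0) (P.cons (P.lf 560955 0 0) P.nil))) (P.cons (P.cons (P.lf 0 1826088 0) (P.cons (P.lf 229107 0 0) P.nil)) (P.cons (P.cons (P.lf 0 208836 0) P.nil) P.nil)))))) 745023)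
 (EL.cons 8 (TM.mk (P.cons (P.cons (P.lf 0 64830966 0) (P.cons (P.lf 0 19207560 0) (P.cons (P.lf 10045995 0 0) (P.cons (P.lf 0 743532 0) (P.cons (P.lf 0 351363 0) (P.cons (P.lf 26109 0 0) P.nil)))))) (P.cons (P.cons (P.lf 83759151 0 0) (P.cons (P.lf 0 8679057 0) (P.cons (P.lf 2334714 0 0) (P.cons (P.lf 0 41175 0) (P.cons (P.lf 0 70356 0) P.nil))))) (P.cons (P.cons (P.lf 0 32188320 0) (P.cons (P.lf 6655338 0 0) (P.cons (P.lf 0 1130007 0) (P.cons (P.lf 0 56718 0) P.nil)))) (P.cons (P.cons (P.lf 1238070 0 0) (P.cons (P.lf 603174 0 0) (P.cons (P.lf 0 224433 0) P.nil))) (P.cons (P.cons (P.lf 1485303 0 0) (P.cons (P.lf 0 406641 0) P.nil)) (P.cons (P.cons (P.lf 0 131835 0) P.nil) P.nil)))))) 420840)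
 (EL.cons 11 (TM.mk (P.cons (P.cons (P.lf 0 66891153 0) (P.cons (P.lf 0 26064816 0) (P.cons (P.lf 13063362 0 0) (P.cons (P.lf 2962515 0 0) (P.cons (P.lf 0 457305 0) (P.cons (P.lf 0 79371 0) P.nil)))))) (P.cons (P.cons (P.lf 48622512 0 0) (P.cons (P.lf 0 21809028 0) (P.cons (P.lf 0 460884 0) (P.cons (P.lf 1372905 0 0) (P.cons (P.lf 0 126492 0) P.nil))))) (P.cons (P.cons (P.lf 199539 0 0) (P.cons (P.lf 0 160212 0) (P.cons (P.lf 13782 0 0) (P.cons (P.lf 11751 0 0) P.nil)))) (P.cons (P.cons (P.lf 0 3277659 0) (P.cons (P.lf 1206540 0 0) (P.cons (P.lf 89505 0 0) P.nil))) (P.cons (P.cons (P.lf 0 40509 0) (P.cons (P.lf 100317 0 0) P.nil)) (P.cons (P.cons (P.lf 97170 0 0) P.nil) P.nil)))))) 403056)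
 EL.nil)))
noncomputable def S140_169_512_660_27 : EL := (EL.cons 13 (TM.mk (P.lf 0 4294967296 0) 0)
 EL.nil)
noncomputable def S140_169_512_660_28 : EL := (EL.cons 13 (TM.mk (P.cons (P.cons (P.lf 485445283 0 0) (P.cons (P.lf 264317792 0 0) (P.cons (P.lf 0 17671668 0) (P.lf 0 5890556 0)))) (P.cons (P.cons (P.lf 0 373118829 0) (P.cons (P.lf 92613256 0 0) (P.cons (P.lf 0 6191904 0) (P.lf 0 2063964 0)))) (P.cons (P.cons (P.lf 35189627 0 0) (P.cons (P.lf 8547212 0 0) (P.cons (P.lf 0 571444 0) (P.lf 0 190480 0)))) (P.cons (P.cons (P.lf 7747344 0 0) (P.cons (P.lf 0 525932 0) (P.cons (P.lf 35160 0 0) P.nil))) (P.cons (P.cons (P.lf 0 32869 0) (P.cons (P.lf 0 133800 0) P.nil)) (P.cons (P.cons (P.lf 0 70383 0) P.nil) P.nil)))))) 52671)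
 EL.nil)
noncomputable def S140_169_512_660_29 : EL := (EL.cons 13 (TM.mk (P.cons (P.cons (P.lf 0 54868199 0) (P.cons (P.lf 0 59749849 0) (P.cons (P.lf 0 12271720 0) (P.cons (P.lf 3506652 0 0) (P.cons (P.lf 652314 0 0) (P.cons (P.lf 0 48473 0) P.nil)))))) (P.cons (P.cons (P.lf 84344658 0 0) (P.cons (P.lf 24988910 0 0) (P.cons (P.lf 0 13069777 0) (P.cons (P.lf 967329 0 0) (P.cons (P.lf 457123 0 0) P.nil))))) (P.cons (P.cons (P.lf 0 40368860 0) (P.cons (P.lf 9827921 0 0) (P.cons (P.lf 0 3706123 0) (P.cons (P.lf 188680 0 0) P.nil)))) (P.cons (P.cons (P.lf 4362780 0 0) (P.cons (P.lf 0 867224 0) (P.cons (P.lf 0 245895 0) P.nil))) (P.cons (P.cons (P.lf 1065191 0 0) (P.cons (P.lf 0 531261 0) P.nil)) (P.cons (P.cons (P.lf 0 116752 0) P.nil) P.nil)))))) 643433)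
 EL.nil)
noncomputable def S140_169_512_660_30 : EL := (EL.cons 13 (TM.mk (P.cons (P.lf 2846448260 0 0) (P.cons (P.lf 0 273072892 0) (P.cons (P.lf 0 22353452 0) (P.cons (P.lf 0 133644 0) (P.cons (P.lf 68648 0 0) (P.cons (P.lf 3668 0 0) P.nil)))))) 396)
 EL.nil)
noncomputable def S140_169_512_660_31 : EL := (EL.cons 13 (TM.mk (P.cons (P.cons (P.lf 0 321724191 0) (P.cons (P.lf 0 175174074 0) (P.cons (P.lf 11711727 0 0) (P.lf 3903909 0 0)))) (P.cons (P.cons (P.lf 278145398 0 0) (P.cons (P.lf 0 44573288 0) (P.cons (P.lf 2980064 0 0) (P.lf 993352 0 0)))) (P.cons (P.cons (P.lf 0 44517850 0) (P.cons (P.lf 1599404 0 0) (P.cons (P.lf 0 106934 0) (P.lf 0 35645 0)))) (P.cons (P.cons (P.lf 0 4823947 0) (P.cons (P.lf 1382222 0 0) (P.cons (P.lf 0 92410 0) P.nil))) (P.cons (P.cons (P.lf 678135 0 0) (P.cons (P.lf 98377 0 0) P.nil)) (P.cons (P.cons (P.lf 91521 0 0) P.nil) P.nil))))))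 89389)
 EL.nil)
noncomputable def S140_169_512_660_32 : EL := (EL.cons 13 (TM.mk (P.cons (P.cons (P.lf 36363371 0 0) (P.cons (P.lf 39598637 0 0) (P.cons (P.lf 8132964 0 0) (P.cons (P.lf 0 2323999 0) (P.cons (P.lf 0 432314 0) (P.cons (P.lf 32125 0 0) P.nil)))))) (P.cons (P.cons (P.lf 0 59387116 0) (P.cons (P.lf 0 20360039 0) (P.cons (P.lf 7881636 0 0) (P.cons (P.lf 0 418135 0) (P.cons (P.lf 0 261479 0) P.nil))))) (P.cons (P.cons (P.lf 31831119 0 0) (P.cons (P.lf 0 5235543 0) (P.cons (P.lf 1561355 0 0) (P.cons (P.lf 0 45292 0) P.nil)))) (P.cons (P.cons (P.lf 0 5020761 0) (P.cons (P.lf 1327798 0 0) (P.cons (P.lf 0 141074 0) P.nil))) (P.cons (P.cons (P.lf 0 635161 0) (P.cons (P.lf 349832 0 0) P.nil)) (P.cons (P.cons (P.lf 165249 0 0) P.nil) P.nil)))))) 621116)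
 EL.nil)
noncomputable def S140_169_512_660_33 : EL := (EL.cons 14 (TM.mk (P.lf 8589934592 0 0) 0)
 EL.nil)
noncomputable def S140_169_512_660_34 : EL := (EL.cons 14 (TM.mk (P.cons (P.cons (P.lf 0 970890566 0) (P.cons (P.lf 0 528635584 0) (P.cons (P.lf 35343336 0 0) (P.lf 11781112 0 0)))) (P.cons (P.cons (P.lf 746237658 0 0) (P.cons (P.lf 0 185226512 0) (P.cons (P.lf 12383808 0 0) (P.lf 4127928 0 0)))) (P.cons (P.cons (P.lf 0 70379254 0) (P.cons (P.lf 0 17094424 0) (P.cons (P.lf 1142888 0 0) (P.lf 380960 0 0)))) (P.cons (P.cons (P.lf 0 15494688 0) (P.cons (P.lf 1051864 0 0) (P.cons (P.lf 0 70320 0) P.nil))) (P.cons (P.cons (P.lf 65738 0 0) (P.cons (P.lf 267600 0 0) P.nil)) (P.cons (P.cons (P.lf 140766 0 0) P.nil) P.nil)))))) 105342)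
 EL.nil)
noncomputable def S140_169_512_660_35 : EL := (EL.cons 14 (TM.mk (P.cons (P.cons (P.lf 109736398 0 0) (P.cons (P.lf 119499698 0 0) (P.cons (P.lf 24543440 0 0) (P.cons (P.lf 0 7013304 0) (P.cons (P.lf 0 1304628 0) (P.cons (P.lf 96946 0 0) P.nil)))))) (P.cons (P.cons (P.lf 0 168689316 0) (P.cons (P.lf 0 49977820 0) (P.cons (P.lf 26139554 0 0) (P.cons (P.lf 0 1934658 0) (P.cons (P.lf 0 914246 0) P.nil))))) (P.cons (P.cons (P.lf 80737720 0 0) (P.cons (P.lf 0 19655842 0) (P.cons (P.lf 7412246 0 0) (P.cons (P.lf 0 377360 0) P.nil)))) (P.cons (P.cons (P.lf 0 8725560 0) (P.cons (P.lf 1734448 0 0) (P.cons (P.lf 491790 0 0) P.nil))) (P.cons (P.cons (P.lf 0 2130382 0) (P.cons (P.lf 1062522 0 0) P.nil)) (P.cons (P.cons (P.lf 233504 0 0) P.nil) P.nil)))))) 1286866)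
 EL.nil)
noncomputable def S140_169_512_660_36 : EL := (EL.cons 14 (TM.mk (P.cons (P.lf 0 5692896520 0) (P.cons (P.lf 546145784 0 0) (P.cons (P.lf 44706904 0 0) (P.cons (P.lf 267288 0 0) (P.cons (P.lf 0 137296 0) (P.cons (P.lf 0 7336 0) P.nil)))))) 792)
 EL.nil)
noncomputable def S140_169_512_660_37 : EL := (EL.cons 14 (TM.mk (P.cons (P.cons (P.lf 643448382 0 0) (P.cons (P.lf 350348148 0 0) (P.cons (P.lf 0 23423454 0) (P.lf 0 7807818 0)))) (P.cons (P.cons (P.lf 0 556290796 0) (P.cons (P.lf 89146576 0 0) (P.cons (P.lf 0 5960128 0) (P.lf 0 1986704 0)))) (P.cons (P.cons (P.lf 89035700 0 0) (P.cons (P.lf 0 3198808 0) (P.cons (P.lf 213868 0 0) (P.lf 71290 0 0)))) (P.cons (P.cons (P.lf 9647894 0 0) (P.cons (P.lf 0 2764444 0) (P.cons (P.lf 184820 0 0) P.nil))) (P.cons (P.cons (P.lf 0 1356270 0) (P.cons (P.lf 0 196754 0) P.nil)) (P.cons (P.cons (P.lf 0 183042 0) P.nil) P.nil))))))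 178778)
 EL.nil)
noncomputable def S140_169_512_660_38 : EL := (EL.cons 14 (TM.mk (P.cons (P.cons (P.lf 0 72726742 0) (P.cons (P.lf 0 79197274 0) (P.cons (P.lf 0 16265928 0) (P.cons (P.lf 4647998 0 0) (P.cons (P.lf 864628 0 0) (P.cons (P.lf 0 64250 0) P.nil)))))) (P.cons (P.cons (P.lf 118774232 0 0) (P.cons (P.lf 40720078 0 0) (P.cons (P.lf 0 15763272 0) (P.cons (P.lf 836270 0 0) (P.cons (P.lf 522958 0 0) P.nil))))) (P.cons (P.cons (P.lf 0 63662238 0) (P.cons (P.lf 10471086 0 0) (P.cons (P.lf 0 3122710 0) (P.cons (P.lf 90584 0 0) P.nil)))) (P.cons (P.cons (P.lf 10041522 0 0) (P.cons (P.lf 0 2655596 0) (P.cons (P.lf 282148 0 0) P.nil))) (P.cons (P.cons (P.lf 1270322 0 0) (P.cons (P.lf 0 699664 0) P.nil)) (P.cons (P.cons (P.lf 0 330498 0) P.nil) P.nil)))))) 1242232)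
 EL.nil)
noncomputable def S140_169_512_660_39 : EL := (EL.cons 14 (TM.mk (P.cons (P.lf 3772912404 0 0) (P.cons (P.lf 0 723905728 0) (P.cons (P.lf 0 24534334 0) (P.cons (P.lf 5330620 0 0) (P.cons (P.lf 448650 0 0) (P.cons (P.lf 0 4952 0) P.nil)))))) 3630)
 EL.nil)
noncomputable def S140_169_512_660_40 : EL := (EL.cons 14 (TM.mk (P.cons (P.cons (P.lf 0 426439226 0) (P.cons (P.lf 0 232189864 0) (P.cons (P.lf 15523670 0 0) (P.lf 5174556 0 0)))) (P.cons (P.cons (P.lf 409586652 0 0) (P.cons (P.lf 0 36805992 0) (P.cons (P.lf 2460760 0 0) (P.lf 820250 0 0)))) (P.cons (P.cons (P.lf 0 91027504 0) (P.cons (P.lf 9611306 0 0) (P.cons (P.lf 0 642590 0) (P.lf 0 214196 0)))) (P.cons (P.cons (P.lf 0 3608414 0) (P.cons (P.lf 2103600 0 0) (P.cons (P.lf 0 140638 0) P.nil))) (P.cons (P.cons (P.lf 1948064 0 0) (P.cons (P.lf 0 64838 0) P.nil)) (P.cons (P.cons (P.lf 96402 0 0) P.nil) P.nil))))))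 208998)
 EL.nil)
noncomputable def S140_169_512_660_41 : EL := (EL.cons 14 (TM.mk (P.cons (P.cons (P.lf 48198948 0 0) (P.cons (P.lf 52487232 0 0) (P.cons (P.lf 10780086 0 0) (P.cons (P.lf 0 3080416 0) (P.cons (P.lf 0 573024 0) (P.cons (P.lf 42580 0 0) P.nil)))))) (P.cons (P.cons (P.lf 0 83340426 0) (P.cons (P.lf 0 32022182 0) (P.cons (P.lf 9412772 0 0) (P.cons (P.lf 0 258712 0) (P.cons (P.lf 0 291612 0) P.nil))))) (P.cons (P.cons (P.lf 49364658 0 0) (P.cons (P.lf 0 4762828 0) (P.cons (P.lf 982664 0 0) (P.cons (P.lf 17326 0 0) P.nil)))) (P.cons (P.cons (P.lf 0 10086644 0) (P.cons (P.lf 2635186 0 0) (P.cons (P.lf 0 468078 0) P.nil))) (P.cons (P.cons (P.lf 0 529932 0) (P.cons (P.lf 351884 0 0) P.nil)) (P.cons (P.cons (P.lf 348246 0 0) P.nil) P.nil)))))) 1058458)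
 EL.nil)
noncomputable def S140_169_512_660_42 : EL := (EL.cons 14 (TM.mk (P.cons (P.lf 0 2500461402 0) (P.cons (P.lf 719642336 0 0) (P.cons (P.lf 0 10129460 0) (P.cons (P.lf 0 8742920 0) (P.cons (P.lf 0 168938 0) (P.cons (P.lf 67134 0 0) P.nil)))))) 7070)
 EL.nil)
noncomputable def S140_169_512_660_43 : EL := (EL.cons 14 (TM.mk (P.cons (P.cons (P.lf 282618494 0 0) (P.cons (P.lf 153881598 0 0) (P.cons (P.lf 0 10288162 0) (P.lf 0 3429386 0)))) (P.cons (P.cons (P.lf 0 298562508 0) (P.cons (P.lf 9630246 0 0) (P.cons (P.lf 0 643854 0) (P.lf 0 214616 0)))) (P.cons (P.cons (P.lf 84149582 0 0) (P.cons (P.lf 0 9918364 0) (P.cons (P.lf 663118 0 0) (P.lf 221040 0 0)))) (P.cons (P.cons (P.lf 0 1277610 0) (P.cons (P.lf 0 981840 0) (P.cons (P.lf 65640 0 0) P.nil))) (P.cons (P.cons (P.lf 0 1974680 0) (P.cons (P.lf 229306 0 0) P.nil)) (P.cons (P.cons (P.lf 32170 0 0) P.nil) P.nil))))))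 207328)
 EL.nil)
noncomputable def S140_169_512_660_44 : EL := (EL.cons 14 (TM.mk (P.cons (P.cons (P.lf 0 31943388 0) (P.cons (P.lf 0 34785408 0) (P.cons (P.lf 0 7144398 0) (P.cons (P.lf 2041516 0 0) (P.cons (P.lf 379766 0 0) (P.cons (P.lf 0 28220 0) P.nil)))))) (P.cons (P.cons (P.lf 58297542 0 0) (P.cons (P.lf 24559516 0 0) (P.cons (P.lf 0 5552830 0) (P.cons (P.lf 0 24392 0) (P.cons (P.lf 156830 0 0) P.nil))))) (P.cons (P.cons (P.lf 0 37763860 0) (P.cons (P.lf 1393730 0 0) (P.cons (P.lf 3314 0 0) (P.cons (P.lf 0 43962 0) P.nil)))) (P.cons (P.cons (P.lf 9391168 0 0) (P.cons (P.lf 0 2214292 0) (P.cons (P.lf 422016 0 0) P.nil))) (P.cons (P.cons (P.lf 0 36538 0) (P.cons (P.lf 0 92286 0) P.nil)) (P.cons (P.cons (P.lf 0 314160 0) P.nil) P.nil)))))) 862140)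
 EL.nil)
noncomputable def S140_169_512_660_45 : EL := (EL.cons 14 (TM.mk (P.cons (P.cons (P.lf 0 12403124 0) (P.cons (P.lf 0 20259954 0) (P.cons (P.lf 0 9676712 0) (P.cons (P.lf 0 75558 0) (P.cons (P.lf 843942 0 0) (P.cons (P.lf 74136 0 0) P.nil)))))) (P.cons (P.cons (P.lf 28599552 0 0) (P.cons (P.lf 24045264 0 0) (P.cons (P.lf 0 859256 0) (P.cons (P.lf 0 2740478 0) (P.cons (P.lf 392102 0 0) P.nil))))) (P.cons (P.cons (P.lf 0 24679230 0) (P.cons (P.lf 0 4648804 0) (P.cons (P.lf 3385082 0 0) (P.cons (P.lf 0 1239102 0) P.nil)))) (P.cons (P.cons (P.lf 9184352 0 0) (P.cons (P.lf 0 2564530 0) (P.cons (P.lf 818250 0 0) P.nil))) (P.cons (P.cons (P.lf 0 873606 0) (P.cons (P.lf 424040 0 0) P.nil)) (P.cons (P.cons (P.lf 0 285104 0) P.nil) P.nil)))))) 2218272)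
 EL.nil)
noncomputable def S140_169_512_660_46 : EL := (EL.cons 15 (TM.mk (P.lf 4294967296 0 0) 0)
 EL.nil)
noncomputable def S140_169_512_660_47 : EL := (EL.cons 15 (TM.mk (P.cons (P.cons (P.lf 0 485445283 0) (P.cons (P.lf 0 264317792 0) (P.cons (P.lf 17671668 0 0) (P.lf 5890556 0 0)))) (P.cons (P.cons (P.lf 373118829 0 0) (P.cons (P.lf 0 92613256 0) (P.cons (P.lf 6191904 0 0) (P.lf 2063964 0 0)))) (P.cons (P.cons (P.lf 0 35189627 0) (P.cons (P.lf 0 8547212 0) (P.cons (P.lf 571444 0 0) (P.lf 190480 0 0)))) (P.cons (P.cons (P.lf 0 7747344 0) (P.cons (P.lf 525932 0 0) (P.cons (P.lf 0 35160 0) P.nil))) (P.cons (P.cons (P.lf 32869 0 0) (P.cons (P.lf 133800 0 0) P.nil)) (P.cons (P.cons (P.lf 70383 0 0) P.nil) P.nil)))))) 52671)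
 EL.nil)
noncomputable def S140_169_512_660_48 : EL := (EL.cons 15 (TM.mk (P.cons (P.cons (P.lf 54868199 0 0) (P.cons (P.lf 59749849 0 0) (P.cons (P.lf 12271720 0 0) (P.cons (P.lf 0 3506652 0) (P.cons (P.lf 0 652314 0) (P.cons (P.lf 48473 0 0) P.nil)))))) (P.cons (P.cons (P.lf 0 84344658 0) (P.cons (P.lf 0 24988910 0) (P.cons (P.lf 13069777 0 0) (P.cons (P.lf 0 967329 0) (P.cons (P.lf 0 457123 0) P.nil))))) (P.cons (P.cons (P.lf 40368860 0 0) (P.cons (P.lf 0 9827921 0) (P.cons (P.lf 3706123 0 0) (P.cons (P.lf 0 188680 0) P.nil)))) (P.cons (P.cons (P.lf 0 4362780 0) (P.cons (P.lf 867224 0 0) (P.cons (P.lf 245895 0 0) P.nil))) (P.cons (P.cons (P.lf 0 1065191 0) (P.cons (P.lf 531261 0 0) P.nil)) (P.cons (P.cons (P.lf 116752 0 0) P.nil) P.nil)))))) 643433)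
 EL.nil)
noncomputable def S140_169_512_660 : SL := (SL.cons S140_169_512_660_0 (SL.cons S140_169_512_660_1 (SL.cons S140_169_512_660_2 (SL.cons S140_169_512_660_3 (SL.cons S140_169_512_660_4 (SL.cons S140_169_512_660_5 (SL.cons S140_169_512_660_6 (SL.cons S140_169_512_660_7 (SL.cons S140_169_512_660_8 (SL.cons S140_169_512_660_9 (SL.cons S140_169_512_660_10 (SL.cons S140_169_512_660_11 (SL.cons S140_169_512_660_12 (SL.cons S140_169_512_660_13 (SL.cons S140_169_512_660_14 (SL.cons S140_169_512_660_15 (SL.cons S140_169_512_660_16 (SL.cons S140_169_512_660_17 (SL.cons S140_169_512_660_18 (SL.cons S140_169_512_660_19 (SL.cons S140_169_512_660_20 (SL.cons S140_169_512_660_21 (SL.cons S140_169_512_660_22 (SL.cons S140_169_512_660_23 (SL.cons S140_169_512_660_24 (SL.cons S140_169_512_660_25 (SL.cons S140_169_512_660_26 (SL.cons S140_169_512_660_27 (SL.cons S140_169_512_660_28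 (SL.cons S140_169_512_660_29 (SL.cons S140_169_512_660_30 (SL.cons S140_169_512_660_31 (SL.cons S140_169_512_660_32 (SL.cons S140_169_512_660_33 (SL.cons S140_169_512_660_34 (SL.cons S140_169_512_660_35 (SL.cons S140_169_512_660_36 (SL.cons S140_169_512_660_37 (SL.cons S140_169_512_660_38 (SL.cons S140_169_512_660_39 (SL.cons S140_169_512_660_40 (SL.cons S140_169_512_660_41 (SL.cons S140_169_512_660_42 (SL.cons S140_169_512_660_43 (SL.cons S140_169_512_660_44 (SL.cons S140_169_512_660_45 (SL.cons S140_169_512_660_46 (SL.cons S140_169_512_660_47 (SL.cons S140_169_512_660_48 SL.nil)))))))))))))))))))))))))))))))))))))))))))))))))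
noncomputable def S140_169_549_586_0 : EL := (EL.cons 0 (TM.mk (P.cons (P.lf 5139680571 0 0) (P.cons (P.lf 636245268 0 0) (P.cons (P.lf 21563379 0 0) (P.cons (P.lf 0 4685115 0) (P.cons (P.lf 0 394321 0) (P.cons (P.lf 4352 0 0) P.nil)))))) 3197)
 (EL.cons 1 (TM.mk (P.cons (P.lf 0 1792040857 0) (P.cons (P.lf 0 37383279 0) (P.cons (P.lf 39281548 0 0) (P.cons (P.lf 2177913 0 0) (P.cons (P.lf 0 137038 0) (P.cons (P.lf 0 19477 0) P.nil)))))) 1484)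
 (EL.cons 5 (TM.mk (P.cons (P.lf 5474002426 0 0) (P.cons (P.lf 0 226220540 0) (P.cons (P.lf 0 7666984 0) (P.cons (P.lf 1665814 0 0) (P.cons (P.lf 140204 0 0) (P.cons (P.lf 0 1546 0) P.nil)))))) 969)
 (EL.cons 9 (TM.mk (P.lf 6442450944 0 0) 2)
 EL.nil))))
noncomputable def S140_169_549_586_1 : EL := (EL.cons 0 (TM.mk (P.cons (P.cons (P.lf 0 3122532748 0) (P.cons (P.lf 76143103 0 0) (P.cons (P.lf 0 927374 0) (P.lf 0 103026 0)))) (P.cons (P.cons (P.lf 917549331 0 0) (P.cons (P.lf 0 13621181 0) (P.cons (P.lf 165907 0 0) (P.lf 18436 0 0)))) (P.cons (P.cons (P.lf 213302695 0 0) (P.cons (P.lf 0 13024399 0) (P.cons (P.lf 158624 0 0) (P.lf 17621 0 0)))) (P.cons (P.cons (P.lf 0 24145951 0) (P.cons (P.lf 0 1636512 0) (P.cons (P.lf 19917 0 0) P.nil))) (P.cons (P.cons (P.lf 0 7281709 0) (P.cons (P.lf 126436 0 0) P.nil)) (P.cons (P.cons (P.lf 0 58823 0) P.nil) P.nil)))))) 233653)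
 (EL.cons 1 (TM.mk (P.cons (P.cons (P.lf 328607174 0 0) (P.cons (P.lf 19121628 0 0) (P.cons (P.lf 0 232882 0) (P.lf 0 25870 0)))) (P.cons (P.cons (P.lf 0 525705856 0) (P.cons (P.lf 29147154 0 0) (P.cons (P.lf 0 354989 0) (P.lf 0 39436 0)))) (P.cons (P.cons (P.lf 58458310 0 0) (P.cons (P.lf 4121285 0 0) (P.cons (P.lf 0 50184 0) (P.lf 0 5568 0)))) (P.cons (P.cons (P.lf 28199660 0 0) (P.cons (P.lf 0 747425 0) (P.cons (P.lf 9094 0 0) P.nil))) (P.cons (P.cons (P.lf 0 423702 0) (P.cons (P.lf 0 179563 0) P.nil)) (P.cons (P.cons (P.lf 0 537454 0) P.nil) P.nil)))))) 113822)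
 (EL.cons 5 (TM.mk (P.cons (P.cons (P.lf 399033089 0 0) (P.cons (P.lf 0 142693996 0) (P.cons (P.lf 1737948 0 0) (P.lf 193100 0 0)))) (P.cons (P.cons (P.lf 348025947 0 0) (P.cons (P.lf 0 35668858 0) (P.cons (P.lf 434430 0 0) (P.lf 48266 0 0)))) (P.cons (P.cons (P.lf 0 131975102 0) (P.cons (P.lf 892080 0 0) (P.cons (P.lf 0 10864 0) (P.lf 0 1206 0)))) (P.cons (P.cons (P.lf 0 4812210 0) (P.cons (P.lf 811928 0 0) (P.cons (P.lf 0 9882 0) P.nil))) (P.cons (P.cons (P.lf 2587183 0 0) (P.cons (P.lf 13580 0 0) P.nil)) (P.cons (P.cons (P.lf 138634 0 0) P.nil) P.nil)))))) 82653)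
 (EL.cons 9 (TM.mk (P.cons (P.cons (P.lf 0 627530092 0) (P.cons (P.lf 0 102018426 0) (P.cons (P.lf 1242534 0 0) (P.lf 138054 0 0)))) (P.cons (P.cons (P.lf 594940327 0 0) (P.cons (P.lf 0 35745828 0) (P.cons (P.lf 435366 0 0) (P.lf 48372 0 0)))) (P.cons (P.cons (P.lf 0 49530124 0) (P.cons (P.lf 0 3298956 0) (P.cons (P.lf 40176 0 0) (P.lf 4458 0 0)))) (P.cons (P.cons (P.lf 0 11821260 0) (P.cons (P.lf 202992 0 0) (P.cons (P.lf 0 2466 0) P.nil))) (P.cons (P.cons (P.lf 0 1641 0) (P.cons (P.lf 51642 0 0) P.nil)) (P.cons (P.cons (P.lf 103864 0 0) P.nil) P.nil)))))) 16463)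
 (EL.cons 2 (TM.mk (P.cons (P.cons (P.lf 865641245 0 0) (P.cons (P.lf 0 24496785 0) (P.cons (P.lf 0 3999718 0) (P.cons (P.lf 27689 0 0) (P.lf 2306 0 0))))) (P.cons (P.cons (P.lf 119160765 0 0) (P.cons (P.lf 0 3372128 0) (P.cons (P.lf 0 550583 0) (P.cons (P.lf 3810 0 0) (P.lf 315 0 0))))) (P.cons (P.cons (P.lf 0 19343413 0) (P.cons (P.lf 547399 0 0) (P.cons (P.lf 89378 0 0) (P.cons (P.lf 0 618 0) P.nil)))) (P.cons (P.cons (P.lf 0 3775007 0) (P.cons (P.lf 106824 0 0) (P.cons (P.lf 17440 0 0) P.nil))) (P.cons (P.cons (P.lf 0 24907 0) (P.cons (P.lf 703 0 0) P.nil)) (P.cons (P.cons (P.lf 30765 0 0) P.nil) P.nil)))))) 5913)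
 (EL.cons 6 (TM.mk (P.cons (P.cons (P.lf 467806845 0 0) (P.cons (P.lf 0 13238466 0) (P.cons (P.lf 0 2161512 0) (P.cons (P.lf 14964 0 0) (P.lf 1245 0 0))))) (P.cons (P.cons (P.lf 163912971 0 0) (P.cons (P.lf 0 4638573 0) (P.cons (P.lf 0 757362 0) (P.cons (P.lf 5241 0 0) (P.lf 435 0 0))))) (P.cons (P.cons (P.lf 15127413 0 0) (P.cons (P.lf 0 428088 0) (P.cons (P.lf 0 69894 0) (P.cons (P.lf 483 0 0) P.nil)))) (P.cons (P.cons (P.lf 0 930828 0) (P.cons (P.lf 26340 0 0) (P.cons (P.lf 4299 0 0) P.nil))) (P.cons (P.cons (P.lf 0 236811 0) (P.cons (P.lf 6699 0 0) P.nil)) (P.cons (P.cons (P.lf 0 7959 0) P.nil) P.nil)))))) 3402)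
 EL.nil))))))
noncomputable def S140_169_549_586_2 : EL := (EL.cons 0 (TM.mk (P.cons (P.cons (P.lf 559539253 0 0) (P.cons (P.lf 68203838 0 0) (P.cons (P.lf 0 4531003 0) (P.cons (P.lf 0 2170 0) (P.cons (P.lf 9460 0 0) (P.cons (P.lf 0 114 0) P.nil)))))) (P.cons (P.cons (P.lf 0 669033832 0) (P.cons (P.lf 29821631 0 0) (P.cons (P.lf 0 1839479 0) (P.cons (P.lf 0 4399 0) (P.cons (P.lf 3772 0 0) P.nil))))) (P.cons (P.cons (P.lf 135637378 0 0) (P.cons (P.lf 0 10279399 0) (P.cons (P.lf 252079 0 0) (P.cons (P.lf 10821 0 0) P.nil)))) (P.cons (P.cons (P.lf 40964668 0 0) (P.cons (P.lf 0 4627153 0) (P.cons (P.lf 214853 0 0) P.nil))) (P.cons (P.cons (P.lf 0 7869420 0) (P.cons (P.lf 24262 0 0) P.nil)) (P.cons (P.cons (P.lf 0 1733971 0) P.nil) P.nil)))))) 927620)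
 (EL.cons 1 (TM.mk (P.cons (P.cons (P.lf 0 47013709 0) (P.cons (P.lf 0 8604049 0) (P.cons (P.lf 0 51432 0) (P.cons (P.lf 15445 0 0) (P.cons (P.lf 395 0 0) (P.cons (P.lf 0 4 0) P.nil)))))) (P.cons (P.cons (P.lf 131220506 0 0) (P.cons (P.lf 7667569 0 0) (P.cons (P.lf 0 904402 0) (P.cons (P.lf 9378 0 0) (P.cons (P.lf 2067 0 0) P.nil))))) (P.cons (P.cons (P.lf 0 96614460 0) (P.cons (P.lf 6520758 0 0) (P.cons (P.lf 0 472010 0) (P.cons (P.lf 735 0 0) P.nil)))) (P.cons (P.cons (P.lf 11337495 0 0) (P.cons (P.lf 0 477496 0) (P.cons (P.lf 0 42185 0) P.nil))) (P.cons (P.cons (P.lf 5426674 0 0) (P.cons (P.lf 0 569588 0) P.nil)) (P.cons (P.cons (P.lf 0 558807 0) P.nil) P.nil)))))) 480894)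
 (EL.cons 5 (TM.mk (P.cons (P.cons (P.lf 0 129672426 0) (P.cons (P.lf 0 1726035 0) (P.cons (P.lf 3167583 0 0) (P.cons (P.lf 0 74302 0) (P.cons (P.lf 0 8048 0) (P.cons (P.lf 94 0 0) P.nil)))))) (P.cons (P.cons (P.lf 106524324 0 0) (P.cons (P.lf 0 24065531 0) (P.cons (P.lf 2101040 0 0) (P.cons (P.lf 0 11468 0) (P.cons (P.lf 0 4619 0) P.nil))))) (P.cons (P.cons (P.lf 24975270 0 0) (P.cons (P.lf 0 1321245 0) (P.cons (P.lf 314168 0 0) (P.cons (P.lf 0 5464 0) P.nil)))) (P.cons (P.cons (P.lf 0 22322869 0) (P.cons (P.lf 1957075 0 0) (P.cons (P.lf 0 45984 0) P.nil))) (P.cons (P.cons (P.lf 755521 0 0) (P.cons (P.lf 228678 0 0) P.nil)) (P.cons (P.cons (P.lf 799243 0 0) P.nil) P.nil)))))) 361363)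
 (EL.cons 9 (TM.mk (P.cons (P.cons (P.lf 61124875 0 0) (P.cons (P.lf 19874308 0 0) (P.cons (P.lf 1373437 0 0) (P.cons (P.lf 0 66246 0) (P.cons (P.lf 0 4132 0) (P.cons (P.lf 52 0 0) P.nil)))))) (P.cons (P.cons (P.lf 0 115900908 0) (P.cons (P.lf 0 11878489 0) (P.cons (P.lf 1276768 0 0) (P.cons (P.lf 0 11502 0) (P.cons (P.lf 0 2895 0) P.nil))))) (P.cons (P.cons (P.lf 64589902 0 0) (P.cons (P.lf 0 4390705 0) (P.cons (P.lf 356292 0 0) (P.cons (P.lf 0 1432 0) P.nil)))) (P.cons (P.cons (P.lf 0 6844993 0) (P.cons (P.lf 275179 0 0) (P.cons (P.lf 26826 0 0) P.nil))) (P.cons (P.cons (P.lf 0 1802200 0) (P.cons (P.lf 209388 0 0) P.nil)) (P.cons (P.cons (P.lf 161227 0 0) P.nil) P.nil)))))) 95203)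
 (EL.cons 2 (TM.mk (P.cons (P.cons (P.lf 0 168636414 0) (P.cons (P.lf 0 22643206 0) (P.cons (P.lf 1888920 0 0) (P.cons (P.lf 148927 0 0) (P.cons (P.lf 0 3915 0) (P.cons (P.lf 0 230 0) P.nil)))))) (P.cons (P.cons (P.lf 136664730 0 0) (P.cons (P.lf 0 17247369 0) (P.cons (P.lf 0 89865 0) (P.cons (P.lf 79683 0 0) (P.cons (P.lf 0 1327 0) P.nil))))) (P.cons (P.cons (P.lf 12466310 0 0) (P.cons (P.lf 0 1949017 0) (P.cons (P.lf 7008 0 0) (P.cons (P.lf 9382 0 0) P.nil)))) (P.cons (P.cons (P.lf 0 7846160 0) (P.cons (P.lf 488761 0 0) (P.cons (P.lf 25458 0 0) P.nil))) (P.cons (P.cons (P.lf 0 832674 0) (P.cons (P.lf 107437 0 0) P.nil)) (P.cons (P.cons (P.lf 146283 0 0) P.nil) P.nil)))))) 74322)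
 (EL.cons 6 (TM.mk (P.cons (P.cons (P.lf 0 91133904 0) (P.cons (P.lf 0 12236760 0) (P.cons (P.lf 1020804 0 0) (P.cons (P.lf 80478 0 0) (P.cons (P.lf 0 2112 0) (P.cons (P.lf 0 120 0) P.nil)))))) (P.cons (P.cons (P.lf 54468966 0 0) (P.cons (P.lf 0 11923884 0) (P.cons (P.lf 168588 0 0) (P.cons (P.lf 60180 0 0) (P.cons (P.lf 0 1164 0) P.nil))))) (P.cons (P.cons (P.lf 20133636 0 0) (P.cons (P.lf 0 3346884 0) (P.cons (P.lf 19380 0 0) (P.cons (P.lf 16272 0 0) P.nil)))) (P.cons (P.cons (P.lf 0 1261836 0) (P.cons (P.lf 0 241062 0) (P.cons (P.lf 17034 0 0) P.nil))) (P.cons (P.cons (P.lf 0 960150 0) (P.cons (P.lf 47334 0 0) P.nil)) (P.cons (P.cons (P.lf 0 68388 0) P.nil) P.nil)))))) 39840)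
 EL.nil))))))
noncomputable def S140_169_549_586_3 : EL := (EL.cons 0 (TM.mk (P.cons (P.lf 3316036292 0 0) (P.cons (P.lf 0 636245268 0) (P.cons (P.lf 0 21563379 0) (P.cons (P.lf 4685115 0 0) (P.cons (P.lf 394321 0 0) (P.cons (P.lf 0 4352 0) P.nil)))))) 3197)
 (EL.cons 1 (TM.mk (P.cons (P.lf 1792040857 0 0) (P.cons (P.lf 37383279 0 0) (P.cons (P.lf 0 39281548 0) (P.cons (P.lf 0 2177913 0) (P.cons (P.lf 137038 0 0) (P.cons (P.lf 19477 0 0) P.nil)))))) 1484)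
 (EL.cons 5 (TM.mk (P.cons (P.lf 968448518 0 0) (P.cons (P.lf 226220540 0 0) (P.cons (P.lf 7666984 0 0) (P.cons (P.lf 0 1665814 0) (P.cons (P.lf 0 140204 0) (P.cons (P.lf 1546 0 0) P.nil)))))) 962)
 EL.nil)))
noncomputable def S140_169_549_586_4 : EL := (EL.cons 0 (TM.mk (P.cons (P.cons (P.lf 0 323000140 0) (P.cons (P.lf 0 52510573 0) (P.cons (P.lf 639551 0 0) (P.lf 71057 0 0)))) (P.cons (P.cons (P.lf 368199430 0 0) (P.cons (P.lf 0 8323806 0) (P.cons (P.lf 101378 0 0) (P.lf 11262 0 0)))) (P.cons (P.cons (P.lf 0 82148857 0) (P.cons (P.lf 2173631 0 0) (P.cons (P.lf 0 26474 0) (P.lf 0 2944 0)))) (P.cons (P.cons (P.lf 0 3640754 0) (P.cons (P.lf 475736 0 0) (P.cons (P.lf 0 5790 0) P.nil))) (P.cons (P.cons (P.lf 1726628 0 0) (P.cons (P.lf 0 14663 0) P.nil)) (P.cons (P.cons (P.lf 94007 0 0) P.nil) P.nil)))))) 47049)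
 (EL.cons 1 (TM.mk (P.cons (P.cons (P.lf 0 174554617 0) (P.cons (P.lf 0 28377581 0) (P.cons (P.lf 345622 0 0) (P.lf 38400 0 0)))) (P.cons (P.cons (P.lf 161848066 0 0) (P.cons (P.lf 0 10535083 0) (P.cons (P.lf 128310 0 0) (P.lf 14255 0 0)))) (P.cons (P.cons (P.lf 0 6498896 0) (P.cons (P.lf 0 503025 0) (P.cons (P.lf 6123 0 0) (P.lf 678 0 0)))) (P.cons (P.cons (P.lf 0 6991010 0) (P.cons (P.lf 289762 0 0) (P.cons (P.lf 0 3526 0) P.nil))) (P.cons (P.cons (P.lf 18476 0 0) (P.cons (P.lf 45570 0 0) P.nil)) (P.cons (P.cons (P.lf 128460 0 0) P.nil) P.nil)))))) 27529)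
 (EL.cons 5 (TM.mk (P.cons (P.cons (P.lf 0 94332202 0) (P.cons (P.lf 0 15335714 0) (P.cons (P.lf 186780 0 0) (P.lf 20752 0 0)))) (P.cons (P.cons (P.lf 67398088 0 0) (P.cons (P.lf 0 8955698 0) (P.cons (P.lf 109074 0 0) (P.lf 12118 0 0)))) (P.cons (P.cons (P.lf 12698440 0 0) (P.cons (P.lf 0 1872498 0) (P.cons (P.lf 22804 0 0) (P.lf 2532 0 0)))) (P.cons (P.cons (P.lf 0 2645928 0) (P.cons (P.lf 0 101486 0) (P.cons (P.lf 1236 0 0) P.nil))) (P.cons (P.cons (P.lf 0 614458 0) (P.cons (P.lf 22426 0 0) P.nil)) (P.cons (P.cons (P.lf 1194 0 0) P.nil) P.nil)))))) 16672)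
 EL.nil)))
noncomputable def S140_169_549_586_5 : EL := (EL.cons 0 (TM.mk (P.cons (P.cons (P.lf 31461985 0 0) (P.cons (P.lf 10229635 0 0) (P.cons (P.lf 706930 0 0) (P.cons (P.lf 0 34096 0) (P.cons (P.lf 0 2126 0) (P.cons (P.lf 26 0 0) P.nil)))))) (P.cons (P.cons (P.lf 0 65692705 0) (P.cons (P.lf 0 8076807 0) (P.cons (P.lf 521534 0 0) (P.cons (P.lf 620 0 0) (P.cons (P.lf 0 1081 0) P.nil))))) (P.cons (P.cons (P.lf 44487075 0 0) (P.cons (P.lf 0 1153390 0) (P.cons (P.lf 52699 0 0) (P.cons (P.lf 618 0 0) P.nil)))) (P.cons (P.cons (P.lf 0 9469636 0) (P.cons (P.lf 629469 0 0) (P.cons (P.lf 0 24653 0) P.nil))) (P.cons (P.cons (P.lf 0 548354 0) (P.cons (P.lf 87873 0 0) P.nil)) (P.cons (P.cons (P.lf 323715 0 0) P.nil) P.nil)))))) 125299)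
 (EL.cons 1 (TM.mk (P.cons (P.cons (P.lf 17002576 0 0) (P.cons (P.lf 5528263 0 0) (P.cons (P.lf 382035 0 0) (P.cons (P.lf 0 18425 0) (P.cons (P.lf 0 1147 0) (P.cons (P.lf 13 0 0) P.nil)))))) (P.cons (P.cons (P.lf 0 31884465 0) (P.cons (P.lf 0 3188812 0) (P.cons (P.lf 363116 0 0) (P.cons (P.lf 0 3583 0) (P.cons (P.lf 0 826 0) P.nil))))) (P.cons (P.cons (P.lf 16921185 0 0) (P.cons (P.lf 0 1411428 0) (P.cons (P.lf 98139 0 0) (P.cons (P.lf 0 60 0) P.nil)))) (P.cons (P.cons (P.lf 0 843200 0) (P.cons (P.lf 116773 0 0) (P.cons (P.lf 1278 0 0) P.nil))) (P.cons (P.cons (P.lf 0 894363 0) (P.cons (P.lf 91050 0 0) P.nil)) (P.cons (P.cons (P.lf 52008 0 0) P.nil) P.nil)))))) 79103)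
 (EL.cons 5 (TM.mk (P.cons (P.cons (P.lf 9188474 0 0) (P.cons (P.lf 2987564 0 0) (P.cons (P.lf 206458 0 0) (P.cons (P.lf 0 9956 0) (P.cons (P.lf 0 620 0) (P.cons (P.lf 6 0 0) P.nil)))))) (P.cons (P.cons (P.lf 0 15276228 0) (P.cons (P.lf 0 1087742 0) (P.cons (P.lf 240152 0 0) (P.cons (P.lf 0 4054 0) (P.cons (P.lf 0 580 0) P.nil))))) (P.cons (P.cons (P.lf 5712340 0 0) (P.cons (P.lf 0 1053472 0) (P.cons (P.lf 100024 0 0) (P.cons (P.lf 0 696 0) P.nil)))) (P.cons (P.cons (P.lf 1085316 0 0) (P.cons (P.lf 0 132084 0) (P.cons (P.lf 17706 0 0) P.nil))) (P.cons (P.cons (P.lf 0 405762 0) (P.cons (P.lf 38550 0 0) P.nil)) (P.cons (P.cons (P.lf 0 61356 0) P.nil) P.nil)))))) 38652)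
 EL.nil)))
noncomputable def S140_169_549_586_6 : EL := (EL.cons 12 (TM.mk (P.lf 8589934592 0 0) 0)
 (EL.cons 3 (TM.mk (P.cons (P.lf 0 2668545243 0) (P.cons (P.lf 256005836 0 0) (P.cons (P.lf 20956361 0 0) (P.cons (P.lf 125291 0 0) (P.cons (P.lf 0 64357 0) (P.cons (P.lf 0 3438 0) P.nil)))))) 378)
 (EL.cons 7 (TM.mk (P.cons (P.lf 0 1442125985 0) (P.cons (P.lf 0 168433589 0) (P.cons (P.lf 4127638 0 0) (P.cons (P.lf 758202 0 0) (P.cons (P.lf 21743 0 0) (P.cons (P.lf 0 1521 0) P.nil)))))) 224)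
 EL.nil)))
noncomputable def S140_169_549_586_7 : EL := (EL.cons 12 (TM.mk (P.cons (P.cons (P.lf 0 836706790 0) (P.cons (P.lf 0 136024568 0) (P.cons (P.lf 1656712 0 0) (P.lf 184072 0 0)))) (P.cons (P.cons (P.lf 793253770 0 0) (P.cons (P.lf 0 47661104 0) (P.cons (P.lf 580488 0 0) (P.lf 64496 0 0)))) (P.cons (P.cons (P.lf 0 66040166 0) (P.cons (P.lf 0 4398608 0) (P.cons (P.lf 53568 0 0) (P.lf 5944 0 0)))) (P.cons (P.cons (P.lf 0 15761680 0) (P.cons (P.lf 270656 0 0) (P.cons (P.lf 0 3288 0) P.nil))) (P.cons (P.cons (P.lf 0 2188 0) (P.cons (P.lf 68856 0 0) P.nil)) (P.cons (P.cons (P.lf 138486 0 0) P.nil) P.nil)))))) 21926)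
 (EL.cons 3 (TM.mk (P.cons (P.cons (P.lf 2369877052 0 0) (P.cons (P.lf 0 84514660 0) (P.cons (P.lf 1029344 0 0) (P.lf 114364 0 0)))) (P.cons (P.cons (P.lf 0 475255957 0) (P.cons (P.lf 0 21504870 0) (P.cons (P.lf 261916 0 0) (P.lf 29100 0 0)))) (P.cons (P.cons (P.lf 0 118733585 0) (P.cons (P.lf 771650 0 0) (P.cons (P.lf 0 9400 0) (P.lf 0 1048 0)))) (P.cons (P.cons (P.lf 0 2206561 0) (P.cons (P.lf 666866 0 0) (P.cons (P.lf 0 8114 0) P.nil))) (P.cons (P.cons (P.lf 1855595 0 0) (P.cons (P.lf 47460 0 0) P.nil)) (P.cons (P.cons (P.lf 169260 0 0) P.nil) P.nil)))))) 74290)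
 (EL.cons 7 (TM.mk (P.cons (P.cons (P.lf 0 1247723119 0) (P.cons (P.lf 106243505 0 0) (P.cons (P.lf 0 1294001 0) (P.lf 0 143778 0)))) (P.cons (P.cons (P.lf 312684535 0 0) (P.cons (P.lf 14148676 0 0) (P.cons (P.lf 0 172327 0) (P.lf 0 19147 0)))) (P.cons (P.cons (P.lf 44859556 0 0) (P.cons (P.lf 0 2012614 0) (P.cons (P.lf 24512 0 0) (P.lf 2722 0 0)))) (P.cons (P.cons (P.lf 0 7557515 0) (P.cons (P.lf 0 273111 0) (P.cons (P.lf 3326 0 0) P.nil))) (P.cons (P.cons (P.lf 0 868397 0) (P.cons (P.lf 25069 0 0) P.nil)) (P.cons (P.cons (P.lf 54068 0 0) P.nil) P.nil)))))) 47500)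
 (EL.cons 10 (TM.mk (P.cons (P.cons (P.lf 0 1393231332 0) (P.cons (P.lf 39427059 0 0) (P.cons (P.lf 6437463 0 0) (P.cons (P.lf 0 44568 0) (P.lf 0 3714 0))))) (P.cons (P.cons (P.lf 0 325445841 0) (P.cons (P.lf 9209793 0 0) (P.cons (P.lf 1503729 0 0) (P.cons (P.lf 0 10410 0) (P.lf 0 867 0))))) (P.cons (P.cons (P.lf 0 11029890 0) (P.cons (P.lf 312132 0 0) (P.cons (P.lf 50961 0 0) (P.cons (P.lf 0 351 0) P.nil)))) (P.cons (P.cons (P.lf 2396475 0 0) (P.cons (P.lf 0 67815 0) (P.cons (P.lf 0 11070 0) P.nil))) (P.cons (P.cons (P.lf 201699 0 0) (P.cons (P.lf 0 5706 0) P.nil)) (P.cons (P.cons (P.lf 0 2223 0) P.nil) P.nil)))))) 2658)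
 EL.nil))))
noncomputable def S140_169_549_586_8 : EL := (EL.cons 12 (TM.mk (P.cons (P.cons (P.lf 81499834 0 0) (P.cons (P.lf 26499078 0 0) (P.cons (P.lf 1831250 0 0) (P.cons (P.lf 0 88328 0) (P.cons (P.lf 0 5510 0) (P.cons (P.lf 70 0 0) P.nil)))))) (P.cons (P.cons (P.lf 0 154534544 0) (P.cons (P.lf 0 15837986 0) (P.cons (P.lf 1702358 0 0) (P.cons (P.lf 0 15336 0) (P.cons (P.lf 0 3860 0) P.nil))))) (P.cons (P.cons (P.lf 86119870 0 0) (P.cons (P.lf 0 5854274 0) (P.cons (P.lf 475056 0 0) (P.cons (P.lf 0 1910 0) P.nil)))) (P.cons (P.cons (P.lf 0 9126658 0) (P.cons (P.lf 366906 0 0) (P.cons (P.lf 35768 0 0) P.nil))) (P.cons (P.cons (P.lf 0 2402934 0) (P.cons (P.lf 279184 0 0) P.nil)) (P.cons (P.cons (P.lf 214970 0 0) P.nil) P.nil)))))) 126908)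
 (EL.cons 3 (TM.mk (P.cons (P.cons (P.lf 0 436359363 0) (P.cons (P.lf 0 50359055 0) (P.cons (P.lf 3959144 0 0) (P.cons (P.lf 0 13349 0) (P.cons (P.lf 0 8556 0) (P.cons (P.lf 111 0 0) P.nil)))))) (P.cons (P.cons (P.lf 479850067 0 0) (P.cons (P.lf 0 28376681 0) (P.cons (P.lf 2369274 0 0) (P.cons (P.lf 0 10896 0) (P.cons (P.lf 0 5176 0) P.nil))))) (P.cons (P.cons (P.lf 0 69925132 0) (P.cons (P.lf 2373258 0 0) (P.cons (P.lf 347033 0 0) (P.cons (P.lf 0 12366 0) P.nil)))) (P.cons (P.cons (P.lf 0 27914945 0) (P.cons (P.lf 3003663 0 0) (P.cons (P.lf 0 52810 0) P.nil))) (P.cons (P.cons (P.lf 2117793 0 0) (P.cons (P.lf 366884 0 0) P.nil)) (P.cons (P.cons (P.lf 1014336 0 0) P.nil) P.nil)))))) 394640)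
 (EL.cons 7 (TM.mk (P.cons (P.cons (P.lf 256752805 0 0) (P.cons (P.lf 23267660 0 0) (P.cons (P.lf 0 3286566 0) (P.cons (P.lf 41666 0 0) (P.cons (P.lf 7681 0 0) (P.cons (P.lf 0 95 0) P.nil)))))) (P.cons (P.cons (P.lf 0 315707137 0) (P.cons (P.lf 18669830 0 0) (P.cons (P.lf 0 1558812 0) (P.cons (P.lf 7162 0 0) (P.cons (P.lf 3402 0 0) P.nil))))) (P.cons (P.cons (P.lf 79585930 0 0) (P.cons (P.lf 0 3547252 0) (P.cons (P.lf 0 62527 0) (P.cons (P.lf 7376 0 0) P.nil)))) (P.cons (P.cons (P.lf 9752057 0 0) (P.cons (P.lf 0 1631190 0) (P.cons (P.lf 56808 0 0) P.nil))) (P.cons (P.cons (P.lf 0 3673598 0) (P.cons (P.lf 46977 0 0) P.nil)) (P.cons (P.cons (P.lf 0 273563 0) P.nil) P.nil)))))) 261613)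
 (EL.cons 10 (TM.mk (P.cons (P.cons (P.lf 271416756 0 0) (P.cons (P.lf 36443766 0 0) (P.cons (P.lf 0 3040182 0) (P.cons (P.lf 0 239694 0) (P.cons (P.lf 6306 0 0) (P.cons (P.lf 372 0 0) P.nil)))))) (P.cons (P.cons (P.lf 0 193920744 0) (P.cons (P.lf 31255494 0 0) (P.cons (P.lf 0 147018 0) (P.cons (P.lf 0 151248 0) (P.cons (P.lf 2742 0 0) P.nil))))) (P.cons (P.cons (P.lf 0 36536508 0) (P.cons (P.lf 6421578 0 0) (P.cons (P.lf 0 49260 0) (P.cons (P.lf 0 31488 0) P.nil)))) (P.cons (P.cons (P.lf 7612980 0 0) (P.cons (P.lf 76560 0 0) (P.cons (P.lf 0 46998 0) P.nil))) (P.cons (P.cons (P.lf 1767948 0 0) (P.cons (P.lf 0 114558 0) P.nil)) (P.cons (P.cons (P.lf 0 3438 0) P.nil) P.nil)))))) 69636)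
 EL.nil))))
noncomputable def S140_169_549_586_9 : EL := (EL.cons 3 (TM.mk (P.cons (P.lf 0 2668545243 0) (P.cons (P.lf 256005836 0 0) (P.cons (P.lf 20956361 0 0) (P.cons (P.lf 125291 0 0) (P.cons (P.lf 0 64357 0) (P.cons (P.lf 0 3438 0) P.nil)))))) 378)
 (EL.cons 7 (TM.mk (P.cons (P.lf 0 1442125985 0) (P.cons (P.lf 0 168433589 0) (P.cons (P.lf 4127638 0 0) (P.cons (P.lf 758202 0 0) (P.cons (P.lf 21743 0 0) (P.cons (P.lf 0 1521 0) P.nil)))))) 224)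
 EL.nil))
noncomputable def S140_169_549_586_10 : EL := (EL.cons 3 (TM.mk (P.cons (P.cons (P.lf 259930957 0 0) (P.cons (P.lf 42257330 0 0) (P.cons (P.lf 0 514672 0) (P.lf 0 57182 0)))) (P.cons (P.cons (P.lf 0 271368235 0) (P.cons (P.lf 10752435 0 0) (P.cons (P.lf 0 130958 0) (P.lf 0 14550 0)))) (P.cons (P.cons (P.lf 42116086 0 0) (P.cons (P.lf 0 385825 0) (P.cons (P.lf 4700 0 0) (P.lf 524 0 0)))) (P.cons (P.cons (P.lf 4851371 0 0) (P.cons (P.lf 0 333433 0) (P.cons (P.lf 4057 0 0) P.nil))) (P.cons (P.cons (P.lf 0 612340 0) (P.cons (P.lf 0 23730 0) P.nil)) (P.cons (P.cons (P.lf 0 88110 0) P.nil) P.nil)))))) 17340)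
 (EL.cons 7 (TM.mk (P.cons (P.cons (P.lf 140470988 0 0) (P.cons (P.lf 22836560 0 0) (P.cons (P.lf 0 278138 0) (P.lf 0 30903 0)))) (P.cons (P.cons (P.lf 0 116769497 0) (P.cons (P.lf 10668814 0 0) (P.cons (P.lf 0 129940 0) (P.lf 0 14437 0)))) (P.cons (P.cons (P.lf 0 4869182 0) (P.cons (P.lf 1607651 0 0) (P.cons (P.lf 0 19579 0) (P.lf 0 2174 0)))) (P.cons (P.cons (P.lf 4248412 0 0) (P.cons (P.lf 5901 0 0) (P.cons (P.lf 0 73 0) P.nil))) (P.cons (P.cons (P.lf 345592 0 0) (P.cons (P.lf 0 23531 0) P.nil)) (P.cons (P.cons (P.lf 0 34453 0) P.nil) P.nil)))))) 11166)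
 EL.nil))
noncomputable def S140_169_549_586_11 : EL := (EL.cons 3 (TM.mk (P.cons (P.cons (P.lf 0 25318701 0) (P.cons (P.lf 0 8232191 0) (P.cons (P.lf 0 568894 0) (P.cons (P.lf 27439 0 0) (P.cons (P.lf 1710 0 0) (P.cons (P.lf 0 21 0) P.nil)))))) (P.cons (P.cons (P.lf 50436571 0 0) (P.cons (P.lf 5709973 0 0) (P.cons (P.lf 0 474276 0) (P.cons (P.lf 2130 0 0) (P.cons (P.lf 1034 0 0) P.nil))))) (P.cons (P.cons (P.lf 0 31160722 0) (P.cons (P.lf 1411314 0 0) (P.cons (P.lf 0 92377 0) (P.cons (P.lf 0 78 0) P.nil)))) (P.cons (P.cons (P.lf 5026093 0 0) (P.cons (P.lf 0 326709 0) (P.cons (P.lf 7226 0 0) P.nil))) (P.cons (P.cons (P.lf 681729 0 0) (P.cons (P.lf 0 90508 0) P.nil)) (P.cons (P.cons (P.lf 0 158280 0) P.nil) P.nil)))))) 70174)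
 (EL.cons 7 (TM.mk (P.cons (P.cons (P.lf 0 13682645 0) (P.cons (P.lf 0 4448812 0) (P.cons (P.lf 0 307440 0) (P.cons (P.lf 14828 0 0) (P.cons (P.lf 925 0 0) (P.cons (P.lf 0 11 0) P.nil)))))) (P.cons (P.cons (P.lf 24346049 0 0) (P.cons (P.lf 2139368 0 0) (P.cons (P.lf 0 321708 0) (P.cons (P.lf 4306 0 0) (P.cons (P.lf 756 0 0) P.nil))))) (P.cons (P.cons (P.lf 0 11388968 0) (P.cons (P.lf 1306136 0 0) (P.cons (P.lf 0 112255 0) (P.cons (P.lf 578 0 0) P.nil)))) (P.cons (P.cons (P.lf 0 223489 0) (P.cons (P.lf 47922 0 0) (P.cons (P.lf 0 14340 0) P.nil))) (P.cons (P.cons (P.lf 610324 0 0) (P.cons (P.lf 0 58209 0) P.nil)) (P.cons (P.cons (P.lf 13837 0 0) P.nil) P.nil)))))) 38415)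
 EL.nil))
noncomputable def S140_169_549_586_12 : EL := (EL.cons 4 (TM.mk (P.cons (P.lf 2668545243 0 0) (P.cons (P.lf 0 256005836 0) (P.cons (P.lf 0 20956361 0) (P.cons (P.lf 0 125291 0) (P.cons (P.lf 64357 0 0) (P.cons (P.lf 3438 0 0) P.nil)))))) 378)
 (EL.cons 8 (TM.mk (P.cons (P.lf 1442125985 0 0) (P.cons (P.lf 168433589 0 0) (P.cons (P.lf 0 4127638 0) (P.cons (P.lf 0 758202 0) (P.cons (P.lf 0 21743 0) (P.cons (P.lf 1521 0 0) P.nil)))))) 224)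
 EL.nil))
noncomputable def S140_169_549_586_13 : EL := (EL.cons 4 (TM.mk (P.cons (P.cons (P.lf 0 259930957 0) (P.cons (P.lf 0 42257330 0) (P.cons (P.lf 514672 0 0) (P.lf 57182 0 0)))) (P.cons (P.cons (P.lf 271368235 0 0) (P.cons (P.lf 0 10752435 0) (P.cons (P.lf 130958 0 0) (P.lf 14550 0 0)))) (P.cons (P.cons (P.lf 0 42116086 0) (P.cons (P.lf 385825 0 0) (P.cons (P.lf 0 4700 0) (P.lf 0 524 0)))) (P.cons (P.cons (P.lf 0 4851371 0) (P.cons (P.lf 333433 0 0) (P.cons (P.lf 0 4057 0) P.nil))) (P.cons (P.cons (P.lf 612340 0 0) (P.cons (P.lf 23730 0 0) P.nil)) (P.cons (P.cons (P.lf 88110 0 0) P.nil) P.nil)))))) 17340)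
 (EL.cons 8 (TM.mk (P.cons (P.cons (P.lf 0 140470988 0) (P.cons (P.lf 0 22836560 0) (P.cons (P.lf 278138 0 0) (P.lf 30903 0 0)))) (P.cons (P.cons (P.lf 116769497 0 0) (P.cons (P.lf 0 10668814 0) (P.cons (P.lf 129940 0 0) (P.lf 14437 0 0)))) (P.cons (P.cons (P.lf 4869182 0 0) (P.cons (P.lf 0 1607651 0) (P.cons (P.lf 19579 0 0) (P.lf 2174 0 0)))) (P.cons (P.cons (P.lf 0 4248412 0) (P.cons (P.lf 0 5901 0) (P.cons (P.lf 73 0 0) P.nil))) (P.cons (P.cons (P.lf 0 345592 0) (P.cons (P.lf 23531 0 0) P.nil)) (P.cons (P.cons (P.lf 34453 0 0) P.nil) P.nil)))))) 11166)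
 EL.nil))
noncomputable def S140_169_549_586_14 : EL := (EL.cons 4 (TM.mk (P.cons (P.cons (P.lf 25318701 0 0) (P.cons (P.lf 8232191 0 0) (P.cons (P.lf 568894 0 0) (P.cons (P.lf 0 27439 0) (P.cons (P.lf 0 1710 0) (P.cons (P.lf 21 0 0) P.nil)))))) (P.cons (P.cons (P.lf 0 50436571 0) (P.cons (P.lf 0 5709973 0) (P.cons (P.lf 474276 0 0) (P.cons (P.lf 0 2130 0) (P.cons (P.lf 0 1034 0) P.nil))))) (P.cons (P.cons (P.lf 31160722 0 0) (P.cons (P.lf 0 1411314 0) (P.cons (P.lf 92377 0 0) (P.cons (P.lf 78 0 0) P.nil)))) (P.cons (P.cons (P.lf 0 5026093 0) (P.cons (P.lf 326709 0 0) (P.cons (P.lf 0 7226 0) P.nil))) (P.cons (P.cons (P.lf 0 681729 0) (P.cons (P.lf 90508 0 0) P.nil)) (P.cons (P.cons (P.lf 158280 0 0) P.nil) P.nil)))))) 70174)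
 (EL.cons 8 (TM.mk (P.cons (P.cons (P.lf 13682645 0 0) (P.cons (P.lf 4448812 0 0) (P.cons (P.lf 307440 0 0) (P.cons (P.lf 0 14828 0) (P.cons (P.lf 0 925 0) (P.cons (P.lf 11 0 0) P.nil)))))) (P.cons (P.cons (P.lf 0 24346049 0) (P.cons (P.lf 0 2139368 0) (P.cons (P.lf 321708 0 0) (P.cons (P.lf 0 4306 0) (P.cons (P.lf 0 756 0) P.nil))))) (P.cons (P.cons (P.lf 11388968 0 0) (P.cons (P.lf 0 1306136 0) (P.cons (P.lf 112255 0 0) (P.cons (P.lf 0 578 0) P.nil)))) (P.cons (P.cons (P.lf 223489 0 0) (P.cons (P.lf 0 47922 0) (P.cons (P.lf 14340 0 0) P.nil))) (P.cons (P.cons (P.lf 0 610324 0) (P.cons (P.lf 58209 0 0) P.nil)) (P.cons (P.cons (P.lf 0 13837 0) P.nil) P.nil)))))) 38415)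
 EL.nil))
noncomputable def S140_169_549_586_15 : EL := (EL.cons 4 (TM.mk (P.cons (P.lf 0 1768552689 0) (P.cons (P.lf 339330810 0 0) (P.cons (P.lf 11500469 0 0) (P.cons (P.lf 0 2498728 0) (P.cons (P.lf 0 210304 0) (P.cons (P.lf 2321 0 0) P.nil)))))) 1708)
 (EL.cons 8 (TM.mk (P.cons (P.lf 0 955755124 0) (P.cons (P.lf 0 19937749 0) (P.cons (P.lf 20950159 0 0) (P.cons (P.lf 1161554 0 0) (P.cons (P.lf 0 73087 0) (P.cons (P.lf 0 10388 0) P.nil)))))) 788)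
 EL.nil))
noncomputable def S140_169_549_586_16 : EL := (EL.cons 4 (TM.mk (P.cons (P.cons (P.lf 172266741 0 0) (P.cons (P.lf 28005639 0 0) (P.cons (P.lf 0 341094 0) (P.lf 0 37897 0)))) (P.cons (P.cons (P.lf 0 196373029 0) (P.cons (P.lf 4439363 0 0) (P.cons (P.lf 0 54068 0) (P.lf 0 6006 0)))) (P.cons (P.cons (P.lf 43812723 0 0) (P.cons (P.lf 0 1159270 0) (P.cons (P.lf 14119 0 0) (P.lf 1570 0 0)))) (P.cons (P.cons (P.lf 1941735 0 0) (P.cons (P.lf 0 253725 0) (P.cons (P.lf 3088 0 0) P.nil))) (P.cons (P.cons (P.lf 0 920868 0) (P.cons (P.lf 7820 0 0) P.nil)) (P.cons (P.cons (P.lf 0 50137 0) P.nil) P.nil)))))) 25101)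
 (EL.cons 8 (TM.mk (P.cons (P.cons (P.lf 93095796 0 0) (P.cons (P.lf 15134710 0 0) (P.cons (P.lf 0 184332 0) (P.lf 0 20480 0)))) (P.cons (P.cons (P.lf 0 86318969 0) (P.cons (P.lf 5618711 0 0) (P.cons (P.lf 0 68432 0) (P.lf 0 7603 0)))) (P.cons (P.cons (P.lf 3466078 0 0) (P.cons (P.lf 268280 0 0) (P.cons (P.lf 0 3266 0) (P.lf 0 362 0)))) (P.cons (P.cons (P.lf 3728539 0 0) (P.cons (P.lf 0 154540 0) (P.cons (P.lf 1881 0 0) P.nil))) (P.cons (P.cons (P.lf 0 9854 0) (P.cons (P.lf 0 24304 0) P.nil)) (P.cons (P.cons (P.lf 0 68512 0) P.nil) P.nil)))))) 14672)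
 EL.nil))
noncomputable def S140_169_549_586_17 : EL := (EL.cons 4 (TM.mk (P.cons (P.cons (P.lf 0 16779725 0) (P.cons (P.lf 0 5455805 0) (P.cons (P.lf 0 377029 0) (P.cons (P.lf 18184 0 0) (P.cons (P.lf 1134 0 0) (P.cons (P.lf 0 14 0) P.nil)))))) (P.cons (P.cons (P.lf 35036109 0 0) (P.cons (P.lf 4307630 0 0) (P.cons (P.lf 0 278151 0) (P.cons (P.lf 0 330 0) (P.cons (P.lf 576 0 0) P.nil))))) (P.cons (P.cons (P.lf 0 23726440 0) (P.cons (P.lf 615141 0 0) (P.cons (P.lf 0 28106 0) (P.cons (P.lf 0 330 0) P.nil)))) (P.cons (P.cons (P.lf 5050472 0 0) (P.cons (P.lf 0 335716 0) (P.cons (P.lf 13148 0 0) P.nil))) (P.cons (P.cons (P.lf 292455 0 0) (P.cons (P.lf 0 46865 0) P.nil)) (P.cons (P.cons (P.lf 0 172648 0) P.nil) P.nil)))))) 66836)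
 (EL.cons 8 (TM.mk (P.cons (P.cons (P.lf 0 9068041 0) (P.cons (P.lf 0 2948407 0) (P.cons (P.lf 0 203752 0) (P.cons (P.lf 9827 0 0) (P.cons (P.lf 612 0 0) (P.cons (P.lf 0 7 0) P.nil)))))) (P.cons (P.cons (P.lf 17005048 0 0) (P.cons (P.lf 1700700 0 0) (P.cons (P.lf 0 193662 0) (P.cons (P.lf 1911 0 0) (P.cons (P.lf 441 0 0) P.nil))))) (P.cons (P.cons (P.lf 0 9024632 0) (P.cons (P.lf 752762 0 0) (P.cons (P.lf 0 52341 0) (P.cons (P.lf 32 0 0) P.nil)))) (P.cons (P.cons (P.lf 449707 0 0) (P.cons (P.lf 0 62279 0) (P.cons (P.lf 0 682 0) P.nil))) (P.cons (P.cons (P.lf 476994 0 0) (P.cons (P.lf 0 48560 0) P.nil)) (P.cons (P.cons (P.lf 0 27738 0) P.nil) P.nil)))))) 42177)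
 EL.nil))
noncomputable def S140_169_549_586_18 : EL := (EL.cons 4 (TM.mk (P.cons (P.lf 1172091282 0 0) (P.cons (P.lf 0 337332345 0) (P.cons (P.lf 4748184 0 0) (P.cons (P.lf 4098243 0 0) (P.cons (P.lf 79189 0 0) (P.cons (P.lf 0 31469 0) P.nil)))))) 3321)
 (EL.cons 8 (TM.mk (P.cons (P.lf 633417514 0 0) (P.cons (P.lf 0 47553107 0) (P.cons (P.lf 0 20126446 0) (P.cons (P.lf 428689 0 0) (P.cons (P.lf 245981 0 0) (P.cons (P.lf 10070 0 0) P.nil)))))) 1843)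
 EL.nil))
noncomputable def S140_169_549_586_19 : EL := (EL.cons 4 (TM.mk (P.cons (P.cons (P.lf 0 114168125 0) (P.cons (P.lf 0 18560468 0) (P.cons (P.lf 226056 0 0) (P.lf 25115 0 0)))) (P.cons (P.cons (P.lf 141097009 0 0) (P.cons (P.lf 0 1161554 0) (P.cons (P.lf 14146 0 0) (P.lf 1571 0 0)))) (P.cons (P.cons (P.lf 0 40625233 0) (P.cons (P.lf 1196305 0 0) (P.cons (P.lf 0 14570 0) (P.lf 0 1619 0)))) (P.cons (P.cons (P.lf 482056 0 0) (P.cons (P.lf 118424 0 0) (P.cons (P.lf 0 1440 0) P.nil))) (P.cons (P.cons (P.lf 952914 0 0) (P.cons (P.lf 0 27657 0) P.nil)) (P.cons (P.cons (P.lf 0 10859 0) P.nil) P.nil)))))) 28927)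
 (EL.cons 8 (TM.mk (P.cons (P.cons (P.lf 0 61698343 0) (P.cons (P.lf 0 10030383 0) (P.cons (P.lf 122164 0 0) (P.lf 13573 0 0)))) (P.cons (P.cons (P.lf 63126073 0 0) (P.cons (P.lf 0 2761486 0) (P.cons (P.lf 33633 0 0) (P.lf 3736 0 0)))) (P.cons (P.cons (P.lf 0 7300724 0) (P.cons (P.lf 258205 0 0) (P.cons (P.lf 0 3144 0) (P.lf 0 350 0)))) (P.cons (P.cons (P.lf 0 2697037 0) (P.cons (P.lf 149191 0 0) (P.cons (P.lf 0 1816 0) P.nil))) (P.cons (P.cons (P.lf 257455 0 0) (P.cons (P.lf 7611 0 0) P.nil)) (P.cons (P.cons (P.lf 65592 0 0) P.nil) P.nil)))))) 15244)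
 EL.nil))
noncomputable def S140_169_549_586_20 : EL := (EL.cons 4 (TM.mk (P.cons (P.cons (P.lf 11120601 0 0) (P.cons (P.lf 3615782 0 0) (P.cons (P.lf 249872 0 0) (P.cons (P.lf 0 12051 0) (P.cons (P.lf 0 750 0) (P.cons (P.lf 9 0 0) P.nil)))))) (P.cons (P.cons (P.lf 0 24286695 0) (P.cons (P.lf 0 3201719 0) (P.cons (P.lf 160370 0 0) (P.cons (P.lf 1375 0 0) (P.cons (P.lf 0 310 0) P.nil))))) (P.cons (P.cons (P.lf 17864725 0 0) (P.cons (P.lf 0 162195 0) (P.cons (P.lf 0 1019 0) (P.cons (P.lf 292 0 0) P.nil)))) (P.cons (P.cons (P.lf 0 4673847 0) (P.cons (P.lf 283852 0 0) (P.cons (P.lf 0 11959 0) P.nil))) (P.cons (P.cons (P.lf 5157 0 0) (P.cons (P.lf 13137 0 0) P.nil)) (P.cons (P.cons (P.lf 158016 0 0) P.nil) P.nil)))))) 57846)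
 (EL.cons 8 (TM.mk (P.cons (P.cons (P.lf 6009757 0 0) (P.cons (P.lf 1954028 0 0) (P.cons (P.lf 135035 0 0) (P.cons (P.lf 0 6512 0) (P.cons (P.lf 0 406 0) (P.cons (P.lf 5 0 0) P.nil)))))) (P.cons (P.cons (P.lf 0 11846476 0) (P.cons (P.lf 0 1314581 0) (P.cons (P.lf 115393 0 0) (P.cons (P.lf 0 642 0) (P.cons (P.lf 0 253 0) P.nil))))) (P.cons (P.cons (P.lf 7014969 0 0) (P.cons (P.lf 0 406101 0) (P.cons (P.lf 21315 0 0) (P.cons (P.lf 150 0 0) P.nil)))) (P.cons (P.cons (P.lf 0 783601 0) (P.cons (P.lf 97895 0 0) (P.cons (P.lf 0 3889 0) P.nil))) (P.cons (P.cons (P.lf 0 333826 0) (P.cons (P.lf 32240 0 0) P.nil)) (P.cons (P.cons (P.lf 50506 0 0) P.nil) P.nil)))))) 39027)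
 EL.nil))
noncomputable def S140_169_549_586_21 : EL := (EL.cons 4 (TM.mk (P.cons (P.cons (P.lf 0 2109946095 0) (P.cons (P.lf 126771990 0 0) (P.cons (P.lf 0 1544016 0) (P.lf 0 171546 0)))) (P.cons (P.cons (P.lf 203887722 0 0) (P.cons (P.lf 32257305 0 0) (P.cons (P.lf 0 392874 0) (P.lf 0 43650 0)))) (P.cons (P.cons (P.lf 160849671 0 0) (P.cons (P.lf 0 1157475 0) (P.cons (P.lf 14100 0 0) (P.lf 1572 0 0)))) (P.cons (P.cons (P.lf 7057932 0 0) (P.cons (P.lf 0 1000299 0) (P.cons (P.lf 12171 0 0) P.nil))) (P.cons (P.cons (P.lf 0 2467935 0) (P.cons (P.lf 0 71190 0) P.nil)) (P.cons (P.cons (P.lf 0 257370 0) P.nil) P.nil)))))) 56931)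
 (EL.cons 8 (TM.mk (P.cons (P.cons (P.lf 1388194107 0 0) (P.cons (P.lf 0 83406945 0) (P.cons (P.lf 1015863 0 0) (P.lf 112875 0 0)))) (P.cons (P.cons (P.lf 0 429454032 0) (P.cons (P.lf 0 3479862 0) (P.cons (P.lf 42387 0 0) (P.lf 4710 0 0)))) (P.cons (P.cons (P.lf 0 49728738 0) (P.cons (P.lf 3620265 0 0) (P.cons (P.lf 0 44091 0) (P.lf 0 4896 0)))) (P.cons (P.cons (P.lf 11805927 0 0) (P.cons (P.lf 279012 0 0) (P.cons (P.lf 0 3399 0) P.nil))) (P.cons (P.cons (P.lf 1213989 0 0) (P.cons (P.lf 0 48600 0) P.nil)) (P.cons (P.cons (P.lf 0 88521 0) P.nil) P.nil)))))) 36315)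
 (EL.cons 11 (TM.mk (P.cons (P.cons (P.lf 1393231332 0 0) (P.cons (P.lf 0 39427059 0) (P.cons (P.lf 0 6437463 0) (P.cons (P.lf 44568 0 0) (P.lf 3714 0 0))))) (P.cons (P.cons (P.lf 325445841 0 0) (P.cons (P.lf 0 9209793 0) (P.cons (P.lf 0 1503729 0) (P.cons (P.lf 10410 0 0) (P.lf 867 0 0))))) (P.cons (P.cons (P.lf 11029890 0 0) (P.cons (P.lf 0 312132 0) (P.cons (P.lf 0 50961 0) (P.cons (P.lf 351 0 0) P.nil)))) (P.cons (P.cons (P.lf 0 2396475 0) (P.cons (P.lf 67815 0 0) (P.cons (P.lf 11070 0 0) P.nil))) (P.cons (P.cons (P.lf 0 201699 0) (P.cons (P.lf 5706 0 0) P.nil)) (P.cons (P.cons (P.lf 2223 0 0) P.nil) P.nil)))))) 2658)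
 EL.nil)))
noncomputable def S140_169_549_586_22 : EL := (EL.cons 4 (TM.mk (P.cons (P.cons (P.lf 205520331 0 0) (P.cons (P.lf 21063432 0 0) (P.cons (P.lf 0 2264019 0) (P.cons (P.lf 20394 0 0) (P.cons (P.lf 5133 0 0) (P.cons (P.lf 0 66 0) P.nil)))))) (P.cons (P.cons (P.lf 0 214706748 0) (P.cons (P.lf 17043327 0 0) (P.cons (P.lf 0 1421775 0) (P.cons (P.lf 6513 0 0) (P.cons (P.lf 3105 0 0) P.nil))))) (P.cons (P.cons (P.lf 19382205 0 0) (P.cons (P.lf 0 480972 0) (P.cons (P.lf 0 219705 0) (P.cons (P.lf 6144 0 0) P.nil)))) (P.cons (P.cons (P.lf 16470519 0 0) (P.cons (P.lf 0 1665186 0) (P.cons (P.lf 30018 0 0) P.nil))) (P.cons (P.cons (P.lf 0 718032 0) (P.cons (P.lf 0 228696 0) P.nil)) (P.cons (P.cons (P.lf 0 586308 0) P.nil) P.nil)))))) 162222)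
 (EL.cons 8 (TM.mk (P.cons (P.cons (P.lf 0 135217725 0) (P.cons (P.lf 0 13858236 0) (P.cons (P.lf 1489563 0 0) (P.cons (P.lf 0 13419 0) (P.cons (P.lf 0 3378 0) (P.cons (P.lf 42 0 0) P.nil)))))) (P.cons (P.cons (P.lf 170026593 0 0) (P.cons (P.lf 0 8265231 0) (P.cons (P.lf 618552 0 0) (P.cons (P.lf 0 1428 0) (P.cons (P.lf 0 1323 0) P.nil))))) (P.cons (P.cons (P.lf 0 45487449 0) (P.cons (P.lf 2426694 0 0) (P.cons (P.lf 0 24864 0) (P.cons (P.lf 0 3399 0) P.nil)))) (P.cons (P.cons (P.lf 0 4987773 0) (P.cons (P.lf 839556 0 0) (P.cons (P.lf 0 35574 0) P.nil))) (P.cons (P.cons (P.lf 2141961 0 0) (P.cons (P.lf 0 52593 0) P.nil)) (P.cons (P.cons (P.lf 143700 0 0) P.nil) P.nil)))))) 111588)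
 (EL.cons 11 (TM.mk (P.cons (P.cons (P.lf 0 135708378 0) (P.cons (P.lf 0 18221883 0) (P.cons (P.lf 1520091 0 0) (P.cons (P.lf 119847 0 0) (P.cons (P.lf 0 3153 0) (P.cons (P.lf 0 186 0) P.nil)))))) (P.cons (P.cons (P.lf 96960372 0 0) (P.cons (P.lf 0 15627747 0) (P.cons (P.lf 73509 0 0) (P.cons (P.lf 75624 0 0) (P.cons (P.lf 0 1371 0) P.nil))))) (P.cons (P.cons (P.lf 18268254 0 0) (P.cons (P.lf 0 3210789 0) (P.cons (P.lf 24630 0 0) (P.cons (P.lf 15744 0 0) P.nil)))) (P.cons (P.cons (P.lf 0 3806490 0) (P.cons (P.lf 0 38280 0) (P.cons (P.lf 23499 0 0) P.nil))) (P.cons (P.cons (P.lf 0 883974 0) (P.cons (P.lf 57279 0 0) P.nil)) (P.cons (P.cons (P.lf 1719 0 0) P.nil) P.nil)))))) 34818)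
 EL.nil)))
noncomputable def S140_169_549_586_23 : EL := (EL.cons 4 (TM.mk (P.cons (P.cons (P.lf 1398346476 0 0) (P.cons (P.lf 0 84016914 0) (P.cons (P.lf 1023279 0 0) (P.lf 113688 0 0)))) (P.cons (P.cons (P.lf 0 269274444 0) (P.cons (P.lf 0 13318086 0) (P.cons (P.lf 162204 0 0) (P.lf 18021 0 0)))) (P.cons (P.cons (P.lf 0 104619801 0) (P.cons (P.lf 3477807 0 0) (P.cons (P.lf 0 42357 0) (P.lf 0 4707 0)))) (P.cons (P.cons (P.lf 6544695 0 0) (P.cons (P.lf 761175 0 0) (P.cons (P.lf 0 9261 0) P.nil))) (P.cons (P.cons (P.lf 2961561 0 0) (P.cons (P.lf 0 23463 0) P.nil)) (P.cons (P.cons (P.lf 53940 0 0) P.nil) P.nil)))))) 88011)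
 (EL.cons 8 (TM.mk (P.cons (P.cons (P.lf 0 920012289 0) (P.cons (P.lf 55277148 0 0) (P.cons (P.lf 0 673251 0) (P.lf 0 74805 0)))) (P.cons (P.cons (P.lf 372877545 0 0) (P.cons (P.lf 0 2996745 0) (P.cons (P.lf 36495 0 0) (P.lf 4053 0 0)))) (P.cons (P.cons (P.lf 12877617 0 0) (P.cons (P.lf 0 3054639 0) (P.cons (P.lf 37200 0 0) (P.lf 4131 0 0)))) (P.cons (P.cons (P.lf 0 13177929 0) (P.cons (P.lf 24555 0 0) (P.cons (P.lf 0 297 0) P.nil))) (P.cons (P.cons (P.lf 0 348309 0) (P.cons (P.lf 70014 0 0) P.nil)) (P.cons (P.cons (P.lf 201426 0 0) P.nil) P.nil)))))) 47010)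
 (EL.cons 11 (TM.mk (P.cons (P.cons (P.lf 0 923350662 0) (P.cons (P.lf 26129904 0 0) (P.cons (P.lf 4266366 0 0) (P.cons (P.lf 0 29535 0) (P.lf 0 2460 0))))) (P.cons (P.cons (P.lf 0 127104816 0) (P.cons (P.lf 3596937 0 0) (P.cons (P.lf 587289 0 0) (P.cons (P.lf 0 4065 0) (P.lf 0 336 0))))) (P.cons (P.cons (P.lf 20632974 0 0) (P.cons (P.lf 0 583893 0) (P.cons (P.lf 0 95337 0) (P.cons (P.lf 660 0 0) P.nil)))) (P.cons (P.cons (P.lf 4026675 0 0) (P.cons (P.lf 0 113946 0) (P.cons (P.lf 0 18603 0) P.nil))) (P.cons (P.cons (P.lf 26568 0 0) (P.cons (P.lf 0 750 0) P.nil)) (P.cons (P.cons (P.lf 0 32817 0) P.nil) P.nil)))))) 6285)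
 EL.nil)))
noncomputable def S140_169_549_586_24 : EL := (EL.cons 4 (TM.mk (P.cons (P.cons (P.lf 0 136206624 0) (P.cons (P.lf 0 13959585 0) (P.cons (P.lf 1500456 0 0) (P.cons (P.lf 0 13515 0) (P.cons (P.lf 0 3402 0) (P.cons (P.lf 42 0 0) P.nil)))))) (P.cons (P.cons (P.lf 155361759 0 0) (P.cons (P.lf 0 9956091 0) (P.cons (P.lf 798321 0 0) (P.cons (P.lf 0 3018 0) (P.cons (P.lf 0 1731 0) P.nil))))) (P.cons (P.cons (P.lf 0 25426722 0) (P.cons (P.lf 1511997 0 0) (P.cons (P.lf 43428 0 0) (P.cons (P.lf 0 3552 0) P.nil)))) (P.cons (P.cons (P.lf 0 10794423 0) (P.cons (P.lf 1162362 0 0) (P.cons (P.lf 0 41331 0) P.nil))) (P.cons (P.cons (P.lf 1613970 0 0) (P.cons (P.lf 43383 0 0) P.nil)) (P.cons (P.cons (P.lf 432498 0 0) P.nil) P.nil)))))) 180639)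
 (EL.cons 8 (TM.mk (P.cons (P.cons (P.lf 89614248 0 0) (P.cons (P.lf 9184410 0 0) (P.cons (P.lf 0 987192 0) (P.cons (P.lf 8892 0 0) (P.cons (P.lf 2238 0 0) (P.cons (P.lf 0 27 0) P.nil)))))) (P.cons (P.cons (P.lf 0 121280595 0) (P.cons (P.lf 4596600 0 0) (P.cons (P.lf 0 315234 0) (P.cons (P.lf 93 0 0) (P.cons (P.lf 663 0 0) P.nil))))) (P.cons (P.cons (P.lf 40252866 0 0) (P.cons (P.lf 0 2205894 0) (P.cons (P.lf 63558 0 0) (P.cons (P.lf 2091 0 0) P.nil)))) (P.cons (P.cons (P.lf 1294227 0 0) (P.cons (P.lf 0 445566 0) (P.cons (P.lf 25260 0 0) P.nil))) (P.cons (P.cons (P.lf 0 1965975 0) (P.cons (P.lf 100827 0 0) P.nil)) (P.cons (P.cons (P.lf 10971 0 0) P.nil) P.nil)))))) 105258)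
 (EL.cons 11 (TM.mk (P.cons (P.cons (P.lf 89939421 0 0) (P.cons (P.lf 12076377 0 0) (P.cons (P.lf 0 1007424 0) (P.cons (P.lf 0 79428 0) (P.cons (P.lf 2088 0 0) (P.cons (P.lf 123 0 0) P.nil)))))) (P.cons (P.cons (P.lf 0 72887856 0) (P.cons (P.lf 9198597 0 0) (P.cons (P.lf 47928 0 0) (P.cons (P.lf 0 42498 0) (P.cons (P.lf 708 0 0) P.nil))))) (P.cons (P.cons (P.lf 0 6648699 0) (P.cons (P.lf 1039476 0 0) (P.cons (P.lf 0 3738 0) (P.cons (P.lf 0 5004 0) P.nil)))) (P.cons (P.cons (P.lf 4184619 0 0) (P.cons (P.lf 0 260673 0) (P.cons (P.lf 0 13578 0) P.nil))) (P.cons (P.cons (P.lf 444093 0 0) (P.cons (P.lf 0 57300 0) P.nil)) (P.cons (P.cons (P.lf 0 78018 0) P.nil) P.nil)))))) 39627)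
 EL.nil)))
noncomputable def S140_169_549_586_25 : EL := (EL.cons 4 (TM.mk (P.cons (P.cons (P.lf 0 926740674 0) (P.cons (P.lf 55681401 0 0) (P.cons (P.lf 0 678168 0) (P.lf 0 75345 0)))) (P.cons (P.cons (P.lf 267365547 0 0) (P.cons (P.lf 3484659 0 0) (P.cons (P.lf 0 42438 0) (P.lf 0 4713 0)))) (P.cons (P.cons (P.lf 59493159 0 0) (P.cons (P.lf 0 3588915 0) (P.cons (P.lf 43710 0 0) (P.lf 4857 0 0)))) (P.cons (P.cons (P.lf 0 12347079 0) (P.cons (P.lf 0 355272 0) (P.cons (P.lf 4320 0 0) P.nil))) (P.cons (P.cons (P.lf 0 2121867 0) (P.cons (P.lf 82974 0 0) P.nil)) (P.cons (P.cons (P.lf 186462 0 0) P.nil) P.nil)))))) 90060)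
 (EL.cons 8 (TM.mk (P.cons (P.cons (P.lf 609729294 0 0) (P.cons (P.lf 0 36634398 0) (P.cons (P.lf 446190 0 0) (P.lf 49575 0 0)))) (P.cons (P.cons (P.lf 0 305615145 0) (P.cons (P.lf 5500569 0 0) (P.cons (P.lf 0 66993 0) (P.lf 0 7443 0)))) (P.cons (P.cons (P.lf 10384668 0 0) (P.cons (P.lf 2121594 0 0) (P.cons (P.lf 0 25839 0) (P.lf 0 2868 0)))) (P.cons (P.cons (P.lf 11464341 0 0) (P.cons (P.lf 0 224364 0) (P.cons (P.lf 2730 0 0) P.nil))) (P.cons (P.cons (P.lf 0 513678 0) (P.cons (P.lf 0 61713 0) P.nil)) (P.cons (P.cons (P.lf 0 228996 0) P.nil) P.nil)))))) 51888)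
 (EL.cons 11 (TM.mk (P.cons (P.cons (P.lf 611941767 0 0) (P.cons (P.lf 0 17317341 0) (P.cons (P.lf 0 2827491 0) (P.cons (P.lf 19575 0 0) (P.lf 1629 0 0))))) (P.cons (P.cons (P.lf 25531101 0 0) (P.cons (P.lf 0 722502 0) (P.cons (P.lf 0 117966 0) (P.cons (P.lf 816 0 0) (P.lf 66 0 0))))) (P.cons (P.cons (P.lf 0 26561238 0) (P.cons (P.lf 751656 0 0) (P.cons (P.lf 122727 0 0) (P.cons (P.lf 0 849 0) P.nil)))) (P.cons (P.cons (P.lf 0 2047056 0) (P.cons (P.lf 57927 0 0) (P.cons (P.lf 9456 0 0) P.nil))) (P.cons (P.cons (P.lf 356592 0 0) (P.cons (P.lf 0 10089 0) P.nil)) (P.cons (P.cons (P.lf 47856 0 0) P.nil) P.nil)))))) 9660)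
 EL.nil)))
noncomputable def S140_169_549_586_26 : EL := (EL.cons 4 (TM.mk (P.cons (P.cons (P.lf 90269628 0 0) (P.cons (P.lf 9251580 0 0) (P.cons (P.lf 0 994413 0) (P.cons (P.lf 8958 0 0) (P.cons (P.lf 2253 0 0) (P.cons (P.lf 0 27 0) P.nil)))))) (P.cons (P.cons (P.lf 0 111624492 0) (P.cons (P.lf 5710758 0 0) (P.cons (P.lf 0 433680 0) (P.cons (P.lf 1140 0 0) (P.cons (P.lf 930 0 0) P.nil))))) (P.cons (P.cons (P.lf 26020278 0 0) (P.cons (P.lf 0 1707720 0) (P.cons (P.lf 29784 0 0) (P.cons (P.lf 2091 0 0) P.nil)))) (P.cons (P.cons (P.lf 6341628 0 0) (P.cons (P.lf 0 726465 0) (P.cons (P.lf 34356 0 0) P.nil))) (P.cons (P.cons (P.lf 0 1881273 0) (P.cons (P.lf 52932 0 0) P.nil)) (P.cons (P.cons (P.lf 0 243357 0) P.nil) P.nil)))))) 168579)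
 (EL.cons 8 (TM.mk (P.cons (P.cons (P.lf 0 59390979 0) (P.cons (P.lf 0 6086880 0) (P.cons (P.lf 654252 0 0) (P.cons (P.lf 0 5892 0) (P.cons (P.lf 0 1482 0) (P.cons (P.lf 18 0 0) P.nil)))))) (P.cons (P.cons (P.lf 86075196 0 0) (P.cons (P.lf 0 2462409 0) (P.cons (P.lf 146151 0 0) (P.cons (P.lf 501 0 0) (P.cons (P.lf 0 297 0) P.nil))))) (P.cons (P.cons (P.lf 0 33921783 0) (P.cons (P.lf 1801986 0 0) (P.cons (P.lf 0 67302 0) (P.cons (P.lf 0 1332 0) P.nil)))) (P.cons (P.cons (P.lf 1073103 0 0) (P.cons (P.lf 179253 0 0) (P.cons (P.lf 0 14370 0) P.nil))) (P.cons (P.cons (P.lf 1589511 0 0) (P.cons (P.lf 0 106635 0) P.nil)) (P.cons (P.cons (P.lf 0 122415 0) P.nil) P.nil)))))) 88866)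
 (EL.cons 11 (TM.mk (P.cons (P.cons (P.lf 0 59606487 0) (P.cons (P.lf 0 8003502 0) (P.cons (P.lf 667662 0 0) (P.cons (P.lf 52638 0 0) (P.cons (P.lf 0 1383 0) (P.cons (P.lf 0 81 0) P.nil)))))) (P.cons (P.cons (P.lf 54024051 0 0) (P.cons (P.lf 0 5328468 0) (P.cons (P.lf 0 95814 0) (P.cons (P.lf 23115 0 0) (P.cons (P.lf 0 336 0) P.nil))))) (P.cons (P.cons (P.lf 240267 0 0) (P.cons (P.lf 0 41205 0) (P.cons (P.lf 282 0 0) (P.cons (P.lf 198 0 0) P.nil)))) (P.cons (P.cons (P.lf 0 3572589 0) (P.cons (P.lf 287097 0 0) (P.cons (P.lf 8979 0 0) P.nil))) (P.cons (P.cons (P.lf 0 66570 0) (P.cons (P.lf 26904 0 0) P.nil)) (P.cons (P.cons (P.lf 102600 0 0) P.nil) P.nil)))))) 36018)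
 EL.nil)))
noncomputable def S140_169_549_586_27 : EL := (EL.cons 13 (TM.mk (P.lf 0 4294967296 0) 0)
 EL.nil)
noncomputable def S140_169_549_586_28 : EL := (EL.cons 13 (TM.mk (P.cons (P.cons (P.lf 418353395 0 0) (P.cons (P.lf 68012284 0 0) (P.cons (P.lf 0 828356 0) (P.lf 0 92036 0)))) (P.cons (P.cons (P.lf 0 396626885 0) (P.cons (P.lf 23830552 0 0) (P.cons (P.lf 0 290244 0) (P.lf 0 32248 0)))) (P.cons (P.cons (P.lf 33020083 0 0) (P.cons (P.lf 2199304 0 0) (P.cons (P.lf 0 26784 0) (P.lf 0 2972 0)))) (P.cons (P.cons (P.lf 7880840 0 0) (P.cons (P.lf 0 135328 0) (P.cons (P.lf 1644 0 0) P.nil))) (P.cons (P.cons (P.lf 1094 0 0) (P.cons (P.lf 0 34428 0) P.nil)) (P.cons (P.cons (P.lf 0 69243 0) P.nil) P.nil)))))) 10963)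
 EL.nil)
noncomputable def S140_169_549_586_29 : EL := (EL.cons 13 (TM.mk (P.cons (P.cons (P.lf 0 40749917 0) (P.cons (P.lf 0 13249539 0) (P.cons (P.lf 0 915625 0) (P.cons (P.lf 44164 0 0) (P.cons (P.lf 2755 0 0) (P.cons (P.lf 0 35 0) P.nil)))))) (P.cons (P.cons (P.lf 77267272 0 0) (P.cons (P.lf 7918993 0 0) (P.cons (P.lf 0 851179 0) (P.cons (P.lf 7668 0 0) (P.cons (P.lf 1930 0 0) P.nil))))) (P.cons (P.cons (P.lf 0 43059935 0) (P.cons (P.lf 2927137 0 0) (P.cons (P.lf 0 237528 0) (P.cons (P.lf 955 0 0) P.nil)))) (P.cons (P.cons (P.lf 4563329 0 0) (P.cons (P.lf 0 183453 0) (P.cons (P.lf 0 17884 0) P.nil))) (P.cons (P.cons (P.lf 1201467 0 0) (P.cons (P.lf 0 139592 0) P.nil)) (P.cons (P.cons (P.lf 0 107485 0) P.nil) P.nil)))))) 63454)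
 EL.nil)
noncomputable def S140_169_549_586_30 : EL := (EL.cons 13 (TM.mk (P.cons (P.lf 2846448260 0 0) (P.cons (P.lf 0 273072892 0) (P.cons (P.lf 0 22353452 0) (P.cons (P.lf 0 133644 0) (P.cons (P.lf 68648 0 0) (P.cons (P.lf 3668 0 0) P.nil)))))) 396)
 EL.nil)
noncomputable def S140_169_549_586_31 : EL := (EL.cons 13 (TM.mk (P.cons (P.cons (P.lf 0 277259688 0) (P.cons (P.lf 0 45074486 0) (P.cons (P.lf 548984 0 0) (P.lf 60995 0 0)))) (P.cons (P.cons (P.lf 289459451 0 0) (P.cons (P.lf 0 11469265 0) (P.cons (P.lf 139689 0 0) (P.lf 15520 0 0)))) (P.cons (P.cons (P.lf 0 44923826 0) (P.cons (P.lf 411547 0 0) (P.cons (P.lf 0 5014 0) (P.lf 0 559 0)))) (P.cons (P.cons (P.lf 0 5174796 0) (P.cons (P.lf 355662 0 0) (P.cons (P.lf 0 4328 0) P.nil))) (P.cons (P.cons (P.lf 653163 0 0) (P.cons (P.lf 25313 0 0) P.nil)) (P.cons (P.cons (P.lf 93985 0 0) P.nil) P.nil)))))) 18476)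
 EL.nil)
noncomputable def S140_169_549_586_32 : EL := (EL.cons 13 (TM.mk (P.cons (P.cons (P.lf 27006615 0 0) (P.cons (P.lf 8781004 0 0) (P.cons (P.lf 606821 0 0) (P.cons (P.lf 0 29269 0) (P.cons (P.lf 0 1825 0) (P.cons (P.lf 23 0 0) P.nil)))))) (P.cons (P.cons (P.lf 0 53799010 0) (P.cons (P.lf 0 6090638 0) (P.cons (P.lf 505895 0 0) (P.cons (P.lf 0 2273 0) (P.cons (P.lf 0 1103 0) P.nil))))) (P.cons (P.cons (P.lf 33238104 0 0) (P.cons (P.lf 0 1505402 0) (P.cons (P.lf 98536 0 0) (P.cons (P.lf 84 0 0) P.nil)))) (P.cons (P.cons (P.lf 0 5361166 0) (P.cons (P.lf 348490 0 0) (P.cons (P.lf 0 7708 0) P.nil))) (P.cons (P.cons (P.lf 0 727178 0) (P.cons (P.lf 96542 0 0) P.nil)) (P.cons (P.cons (P.lf 168833 0 0) P.nil) P.nil)))))) 74829)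
 EL.nil)
noncomputable def S140_169_549_586_33 : EL := (EL.cons 14 (TM.mk (P.lf 8589934592 0 0) 0)
 EL.nil)
noncomputable def S140_169_549_586_34 : EL := (EL.cons 14 (TM.mk (P.cons (P.cons (P.lf 0 836706790 0) (P.cons (P.lf 0 136024568 0) (P.cons (P.lf 1656712 0 0) (P.lf 184072 0 0)))) (P.cons (P.cons (P.lf 793253770 0 0) (P.cons (P.lf 0 47661104 0) (P.cons (P.lf 580488 0 0) (P.lf 64496 0 0)))) (P.cons (P.cons (P.lf 0 66040166 0) (P.cons (P.lf 0 4398608 0) (P.cons (P.lf 53568 0 0) (P.lf 5944 0 0)))) (P.cons (P.cons (P.lf 0 15761680 0) (P.cons (P.lf 270656 0 0) (P.cons (P.lf 0 3288 0) P.nil))) (P.cons (P.cons (P.lf 0 2188 0) (P.cons (P.lf 68856 0 0) P.nil)) (P.cons (P.cons (P.lf 138486 0 0) P.nil) P.nil)))))) 21926)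
 EL.nil)
noncomputable def S140_169_549_586_35 : EL := (EL.cons 14 (TM.mk (P.cons (P.cons (P.lf 81499834 0 0) (P.cons (P.lf 26499078 0 0) (P.cons (P.lf 1831250 0 0) (P.cons (P.lf 0 88328 0) (P.cons (P.lf 0 5510 0) (P.cons (P.lf 70 0 0) P.nil)))))) (P.cons (P.cons (P.lf 0 154534544 0) (P.cons (P.lf 0 15837986 0) (P.cons (P.lf 1702358 0 0) (P.cons (P.lf 0 15336 0) (P.cons (P.lf 0 3860 0) P.nil))))) (P.cons (P.cons (P.lf 86119870 0 0) (P.cons (P.lf 0 5854274 0) (P.cons (P.lf 475056 0 0) (P.cons (P.lf 0 1910 0) P.nil)))) (P.cons (P.cons (P.lf 0 9126658 0) (P.cons (P.lf 366906 0 0) (P.cons (P.lf 35768 0 0) P.nil))) (P.cons (P.cons (P.lf 0 2402934 0) (P.cons (P.lf 279184 0 0) P.nil)) (P.cons (P.cons (P.lf 214970 0 0) P.nil) P.nil)))))) 126908)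
 EL.nil)
noncomputable def S140_169_549_586_36 : EL := (EL.cons 14 (TM.mk (P.cons (P.lf 0 5692896520 0) (P.cons (P.lf 546145784 0 0) (P.cons (P.lf 44706904 0 0) (P.cons (P.lf 267288 0 0) (P.cons (P.lf 0 137296 0) (P.cons (P.lf 0 7336 0) P.nil)))))) 792)
 EL.nil)
noncomputable def S140_169_549_586_37 : EL := (EL.cons 14 (TM.mk (P.cons (P.cons (P.lf 554519376 0 0) (P.cons (P.lf 90148972 0 0) (P.cons (P.lf 0 1097968 0) (P.lf 0 121990 0)))) (P.cons (P.cons (P.lf 0 578918902 0) (P.cons (P.lf 22938530 0 0) (P.cons (P.lf 0 279378 0) (P.lf 0 31040 0)))) (P.cons (P.cons (P.lf 89847652 0 0) (P.cons (P.lf 0 823094 0) (P.cons (P.lf 10028 0 0) (P.lf 1118 0 0)))) (P.cons (P.cons (P.lf 10349592 0 0) (P.cons (P.lf 0 711324 0) (P.cons (P.lf 8656 0 0) P.nil))) (P.cons (P.cons (P.lf 0 1306326 0) (P.cons (P.lf 0 50626 0) P.nil)) (P.cons (P.cons (P.lf 0 187970 0) P.nil) P.nil)))))) 36952)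
 EL.nil)
noncomputable def S140_169_549_586_38 : EL := (EL.cons 14 (TM.mk (P.cons (P.cons (P.lf 0 54013230 0) (P.cons (P.lf 0 17562008 0) (P.cons (P.lf 0 1213642 0) (P.cons (P.lf 58538 0 0) (P.cons (P.lf 3650 0 0) (P.cons (P.lf 0 46 0) P.nil)))))) (P.cons (P.cons (P.lf 107598020 0 0) (P.cons (P.lf 12181276 0 0) (P.cons (P.lf 0 1011790 0) (P.cons (P.lf 4546 0 0) (P.cons (P.lf 2206 0 0) P.nil))))) (P.cons (P.cons (P.lf 0 66476208 0) (P.cons (P.lf 3010804 0 0) (P.cons (P.lf 0 197072 0) (P.cons (P.lf 0 168 0) P.nil)))) (P.cons (P.cons (P.lf 10722332 0 0) (P.cons (P.lf 0 696980 0) (P.cons (P.lf 15416 0 0) P.nil))) (P.cons (P.cons (P.lf 1454356 0 0) (P.cons (P.lf 0 193084 0) P.nil)) (P.cons (P.cons (P.lf 0 337666 0) P.nil) P.nil)))))) 149658)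
 EL.nil)
noncomputable def S140_169_549_586_39 : EL := (EL.cons 14 (TM.mk (P.cons (P.lf 3772912404 0 0) (P.cons (P.lf 0 723905728 0) (P.cons (P.lf 0 24534334 0) (P.cons (P.lf 5330620 0 0) (P.cons (P.lf 448650 0 0) (P.cons (P.lf 0 4952 0) P.nil)))))) 3630)
 EL.nil)
noncomputable def S140_169_549_586_40 : EL := (EL.cons 14 (TM.mk (P.cons (P.cons (P.lf 0 367502382 0) (P.cons (P.lf 0 59745364 0) (P.cons (P.lf 727668 0 0) (P.lf 80848 0 0)))) (P.cons (P.cons (P.lf 418929130 0 0) (P.cons (P.lf 0 9470642 0) (P.cons (P.lf 115346 0 0) (P.lf 12814 0 0)))) (P.cons (P.cons (P.lf 0 93467144 0) (P.cons (P.lf 2473110 0 0) (P.cons (P.lf 0 30122 0) (P.lf 0 3350 0)))) (P.cons (P.cons (P.lf 0 4142370 0) (P.cons (P.lf 541282 0 0) (P.cons (P.lf 0 6588 0) P.nil))) (P.cons (P.cons (P.lf 1964520 0 0) (P.cons (P.lf 0 16684 0) P.nil)) (P.cons (P.cons (P.lf 106960 0 0) P.nil) P.nil)))))) 53510)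
 EL.nil)
noncomputable def S140_169_549_586_41 : EL := (EL.cons 14 (TM.mk (P.cons (P.cons (P.lf 35796748 0 0) (P.cons (P.lf 11639052 0 0) (P.cons (P.lf 804330 0 0) (P.cons (P.lf 0 38794 0) (P.cons (P.lf 0 2420 0) (P.cons (P.lf 30 0 0) P.nil)))))) (P.cons (P.cons (P.lf 0 74743700 0) (P.cons (P.lf 0 9189612 0) (P.cons (P.lf 593390 0 0) (P.cons (P.lf 706 0 0) (P.cons (P.lf 0 1230 0) P.nil))))) (P.cons (P.cons (P.lf 50616406 0 0) (P.cons (P.lf 0 1312302 0) (P.cons (P.lf 59960 0 0) (P.cons (P.lf 704 0 0) P.nil)))) (P.cons (P.cons (P.lf 0 10774342 0) (P.cons (P.lf 716196 0 0) (P.cons (P.lf 0 28050 0) P.nil))) (P.cons (P.cons (P.lf 0 623906 0) (P.cons (P.lf 99980 0 0) P.nil)) (P.cons (P.cons (P.lf 368316 0 0) P.nil) P.nil)))))) 142538)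
 EL.nil)
noncomputable def S140_169_549_586_42 : EL := (EL.cons 14 (TM.mk (P.cons (P.lf 0 2500461402 0) (P.cons (P.lf 719642336 0 0) (P.cons (P.lf 0 10129460 0) (P.cons (P.lf 0 8742920 0) (P.cons (P.lf 0 168938 0) (P.cons (P.lf 67134 0 0) P.nil)))))) 7070)
 EL.nil)
noncomputable def S140_169_549_586_43 : EL := (EL.cons 14 (TM.mk (P.cons (P.cons (P.lf 243558668 0 0) (P.cons (P.lf 39595666 0 0) (P.cons (P.lf 0 482254 0) (P.lf 0 53580 0)))) (P.cons (P.cons (P.lf 0 301006954 0) (P.cons (P.lf 2477982 0 0) (P.cons (P.lf 0 30180 0) (P.lf 0 3352 0)))) (P.cons (P.cons (P.lf 86667164 0 0) (P.cons (P.lf 0 2552118 0) (P.cons (P.lf 31084 0 0) (P.lf 3454 0 0)))) (P.cons (P.cons (P.lf 0 1028388 0) (P.cons (P.lf 0 252638 0) (P.cons (P.lf 3074 0 0) P.nil))) (P.cons (P.cons (P.lf 0 2032884 0) (P.cons (P.lf 59002 0 0) P.nil)) (P.cons (P.cons (P.lf 23166 0 0) P.nil) P.nil)))))) 61672)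
 EL.nil)
noncomputable def S140_169_549_586_44 : EL := (EL.cons 14 (TM.mk (P.cons (P.cons (P.lf 0 23723950 0) (P.cons (P.lf 0 7713670 0) (P.cons (P.lf 0 533062 0) (P.cons (P.lf 25710 0 0) (P.cons (P.lf 1602 0 0) (P.cons (P.lf 0 20 0) P.nil)))))) (P.cons (P.cons (P.lf 51811616 0 0) (P.cons (P.lf 6830334 0 0) (P.cons (P.lf 0 342124 0) (P.cons (P.lf 0 2934 0) (P.cons (P.lf 662 0 0) P.nil))))) (P.cons (P.cons (P.lf 0 38111414 0) (P.cons (P.lf 346018 0 0) (P.cons (P.lf 2174 0 0) (P.cons (P.lf 0 624 0) P.nil)))) (P.cons (P.cons (P.lf 9970874 0 0) (P.cons (P.lf 0 605552 0) (P.cons (P.lf 25514 0 0) P.nil))) (P.cons (P.cons (P.lf 0 11002 0) (P.cons (P.lf 0 28026 0) P.nil)) (P.cons (P.cons (P.lf 0 337102 0) P.nil) P.nil)))))) 123358)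
 EL.nil)
noncomputable def S140_169_549_586_45 : EL := (EL.cons 14 (TM.mk (P.cons (P.cons (P.lf 0 7938530 0) (P.cons (P.lf 0 3871732 0) (P.cons (P.lf 0 582276 0) (P.cons (P.lf 0 13536 0) (P.cons (P.lf 2856 0 0) (P.cons (P.lf 102 0 0) P.nil)))))) (P.cons (P.cons (P.lf 22578768 0 0) (P.cons (P.lf 5984720 0 0) (P.cons (P.lf 82764 0 0) (P.cons (P.lf 0 47744 0) (P.cons (P.lf 910 0 0) P.nil))))) (P.cons (P.cons (P.lf 0 23285910 0) (P.cons (P.lf 0 1644116 0) (P.cons (P.lf 270542 0 0) (P.cons (P.lf 0 19748 0) P.nil)))) (P.cons (P.cons (P.lf 9880418 0 0) (P.cons (P.lf 0 754832 0) (P.cons (P.lf 62618 0 0) P.nil))) (P.cons (P.cons (P.lf 0 987320 0) (P.cons (P.lf 121126 0 0) P.nil)) (P.cons (P.cons (P.lf 0 329344 0) P.nil) P.nil)))))) 201630)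
 EL.nil)
noncomputable def S140_169_549_586_46 : EL := (EL.cons 15 (TM.mk (P.lf 4294967296 0 0) 0)
 EL.nil)
noncomputable def S140_169_549_586_47 : EL := (EL.cons 15 (TM.mk (P.cons (P.cons (P.lf 0 418353395 0) (P.cons (P.lf 0 68012284 0) (P.cons (P.lf 828356 0 0) (P.lf 92036 0 0)))) (P.cons (P.cons (P.lf 396626885 0 0) (P.cons (P.lf 0 23830552 0) (P.cons (P.lf 290244 0 0) (P.lf 32248 0 0)))) (P.cons (P.cons (P.lf 0 33020083 0) (P.cons (P.lf 0 2199304 0) (P.cons (P.lf 26784 0 0) (P.lf 2972 0 0)))) (P.cons (P.cons (P.lf 0 7880840 0) (P.cons (P.lf 135328 0 0) (P.cons (P.lf 0 1644 0) P.nil))) (P.cons (P.cons (P.lf 0 1094 0) (P.cons (P.lf 34428 0 0) P.nil)) (P.cons (P.cons (P.lf 69243 0 0) P.nil) P.nil)))))) 10963)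
 EL.nil)
noncomputable def S140_169_549_586_48 : EL := (EL.cons 15 (TM.mk (P.cons (P.cons (P.lf 40749917 0 0) (P.cons (P.lf 13249539 0 0) (P.cons (P.lf 915625 0 0) (P.cons (P.lf 0 44164 0) (P.cons (P.lf 0 2755 0) (P.cons (P.lf 35 0 0) P.nil)))))) (P.cons (P.cons (P.lf 0 77267272 0) (P.cons (P.lf 0 7918993 0) (P.cons (P.lf 851179 0 0) (P.cons (P.lf 0 7668 0) (P.cons (P.lf 0 1930 0) P.nil))))) (P.cons (P.cons (P.lf 43059935 0 0) (P.cons (P.lf 0 2927137 0) (P.cons (P.lf 237528 0 0) (P.cons (P.lf 0 955 0) P.nil)))) (P.cons (P.cons (P.lf 0 4563329 0) (P.cons (P.lf 183453 0 0) (P.cons (P.lf 17884 0 0) P.nil))) (P.cons (P.cons (P.lf 0 1201467 0) (P.cons (P.lf 139592 0 0) P.nil)) (P.cons (P.cons (P.lf 107485 0 0) P.nil) P.nil)))))) 63454)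
 EL.nil)
noncomputable def S140_169_549_586 : SL := (SL.cons S140_169_549_586_0 (SL.cons S140_169_549_586_1 (SL.cons S140_169_549_586_2 (SL.cons S140_169_549_586_3 (SL.cons S140_169_549_586_4 (SL.cons S140_169_549_586_5 (SL.cons S140_169_549_586_6 (SL.cons S140_169_549_586_7 (SL.cons S140_169_549_586_8 (SL.cons S140_169_549_586_9 (SL.cons S140_169_549_586_10 (SL.cons S140_169_549_586_11 (SL.cons S140_169_549_586_12 (SL.cons S140_169_549_586_13 (SL.cons S140_169_549_586_14 (SL.cons S140_169_549_586_15 (SL.cons S140_169_549_586_16 (SL.cons S140_169_549_586_17 (SL.cons S140_169_549_586_18 (SL.cons S140_169_549_586_19 (SL.cons S140_169_549_586_20 (SL.cons S140_169_549_586_21 (SL.cons S140_169_549_586_22 (SL.cons S140_169_549_586_23 (SL.cons S140_169_549_586_24 (SL.cons S140_169_549_586_25 (SL.cons S140_169_549_586_26 (SL.cons S140_169_549_586_27 (SL.cons S140_169_549_586_28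 (SL.cons S140_169_549_586_29 (SL.cons S140_169_549_586_30 (SL.cons S140_169_549_586_31 (SL.cons S140_169_549_586_32 (SL.cons S140_169_549_586_33 (SL.cons S140_169_549_586_34 (SL.cons S140_169_549_586_35 (SL.cons S140_169_549_586_36 (SL.cons S140_169_549_586_37 (SL.cons S140_169_549_586_38 (SL.cons S140_169_549_586_39 (SL.cons S140_169_549_586_40 (SL.cons S140_169_549_586_41 (SL.cons S140_169_549_586_42 (SL.cons S140_169_549_586_43 (SL.cons S140_169_549_586_44 (SL.cons S140_169_549_586_45 (SL.cons S140_169_549_586_46 (SL.cons S140_169_549_586_47 (SL.cons S140_169_549_586_48 SL.nil)))))))))))))))))))))))))))))))))))))))))))))))))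
noncomputable def S140_169_586_660_0 : EL := (EL.cons 0 (TM.mk (P.cons (P.lf 5139680571 0 0) (P.cons (P.lf 636245268 0 0) (P.cons (P.lf 21563379 0 0) (P.cons (P.lf 0 4685115 0) (P.cons (P.lf 0 394321 0) (P.cons (P.lf 4352 0 0) P.nil)))))) 3197)
 (EL.cons 1 (TM.mk (P.cons (P.lf 0 1792040857 0) (P.cons (P.lf 0 37383279 0) (P.cons (P.lf 39281548 0 0) (P.cons (P.lf 2177913 0 0) (P.cons (P.lf 0 137038 0) (P.cons (P.lf 0 19477 0) P.nil)))))) 1484)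
 (EL.cons 5 (TM.mk (P.cons (P.lf 5474002426 0 0) (P.cons (P.lf 0 226220540 0) (P.cons (P.lf 0 7666984 0) (P.cons (P.lf 1665814 0 0) (P.cons (P.lf 140204 0 0) (P.cons (P.lf 0 1546 0) P.nil)))))) 969)
 (EL.cons 9 (TM.mk (P.lf 6442450944 0 0) 2)
 EL.nil))))
noncomputable def S140_169_586_660_1 : EL := (EL.cons 0 (TM.mk (P.cons (P.cons (P.lf 0 2905232062 0) (P.cons (P.lf 135593212 0 0) (P.cons (P.lf 0 7419107 0) (P.lf 0 824334 0)))) (P.cons (P.cons (P.lf 878676621 0 0) (P.cons (P.lf 0 24256151 0) (P.cons (P.lf 1327204 0 0) (P.lf 147477 0 0)))) (P.cons (P.cons (P.lf 176133054 0 0) (P.cons (P.lf 0 23193441 0) (P.cons (P.lf 1269050 0 0) (P.lf 140997 0 0)))) (P.cons (P.cons (P.lf 0 28816324 0) (P.cons (P.lf 0 2914250 0) (P.cons (P.lf 159445 0 0) P.nil))) (P.cons (P.cons (P.lf 0 6920884 0) (P.cons (P.lf 225151 0 0) P.nil)) (P.cons (P.cons (P.lf 55036 0 0) P.nil) P.nil))))))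 367379)
 (EL.cons 1 (TM.mk (P.cons (P.cons (P.lf 383177365 0 0) (P.cons (P.lf 34051190 0 0) (P.cons (P.lf 0 1863139 0) (P.lf 0 207007 0)))) (P.cons (P.cons (P.lf 0 442524360 0) (P.cons (P.lf 51904330 0 0) (P.cons (P.lf 0 2839991 0) (P.lf 0 315542 0)))) (P.cons (P.cons (P.lf 70219835 0 0) (P.cons (P.lf 7339052 0 0) (P.cons (P.lf 0 401553 0) (P.lf 0 44610 0)))) (P.cons (P.cons (P.lf 26066609 0 0) (P.cons (P.lf 0 1330992 0) (P.cons (P.lf 72818 0 0) P.nil))) (P.cons (P.cons (P.lf 0 936172 0) (P.cons (P.lf 0 319765 0) P.nil)) (P.cons (P.cons (P.lf 0 542366 0) P.nil) P.nil)))))) 180242)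
 (EL.cons 5 (TM.mk (P.cons (P.cons (P.lf 0 8193506 0) (P.cons (P.lf 0 254104894 0) (P.cons (P.lf 13903598 0 0) (P.lf 1544844 0 0)))) (P.cons (P.cons (P.lf 246232547 0 0) (P.cons (P.lf 0 63517958 0) (P.cons (P.lf 3475446 0 0) (P.lf 386154 0 0)))) (P.cons (P.cons (P.lf 0 129429234 0) (P.cons (P.lf 1588586 0 0) (P.cons (P.lf 0 86922 0) (P.lf 0 9650 0)))) (P.cons (P.cons (P.lf 0 2495076 0) (P.cons (P.lf 1445858 0 0) (P.cons (P.lf 0 79104 0) P.nil))) (P.cons (P.cons (P.lf 2625925 0 0) (P.cons (P.lf 24178 0 0) P.nil)) (P.cons (P.cons (P.lf 103770 0 0) P.nil) P.nil)))))) 137949)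
 (EL.cons 9 (TM.mk (P.cons (P.cons (P.lf 0 918674914 0) (P.cons (P.lf 0 181671150 0) (P.cons (P.lf 9940314 0 0) (P.lf 1104474 0 0)))) (P.cons (P.cons (P.lf 492927259 0 0) (P.cons (P.lf 0 63655026 0) (P.cons (P.lf 3482946 0 0) (P.lf 386988 0 0)))) (P.cons (P.cons (P.lf 0 58944838 0) (P.cons (P.lf 0 5874672 0) (P.cons (P.lf 321432 0 0) (P.lf 35712 0 0)))) (P.cons (P.cons (P.lf 0 11241948 0) (P.cons (P.lf 361482 0 0) (P.cons (P.lf 0 19776 0) P.nil))) (P.cons (P.cons (P.lf 145741 0 0) (P.cons (P.lf 91962 0 0) P.nil)) (P.cons (P.cons (P.lf 108820 0 0) P.nil) P.nil)))))) 29189)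
 (EL.cons 2 (TM.mk (P.cons (P.cons (P.lf 757088026 0 0) (P.cons (P.lf 0 94996352 0) (P.cons (P.lf 0 14503483 0) (P.cons (P.lf 443078 0 0) (P.lf 36922 0 0))))) (P.cons (P.cons (P.lf 104217758 0 0) (P.cons (P.lf 0 13076822 0) (P.cons (P.lf 0 1996489 0) (P.cons (P.lf 60989 0 0) (P.lf 5082 0 0))))) (P.cons (P.cons (P.lf 0 16917707 0) (P.cons (P.lf 2122765 0 0) (P.cons (P.lf 324090 0 0) (P.cons (P.lf 0 9900 0) P.nil)))) (P.cons (P.cons (P.lf 0 3301613 0) (P.cons (P.lf 414270 0 0) (P.cons (P.lf 63247 0 0) P.nil))) (P.cons (P.cons (P.lf 0 21785 0) (P.cons (P.lf 2730 0 0) P.nil)) (P.cons (P.cons (P.lf 26907 0 0) P.nil) P.nil)))))) 16524)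
 (EL.cons 6 (TM.mk (P.cons (P.cons (P.lf 409142889 0 0) (P.cons (P.lf 0 51337599 0) (P.cons (P.lf 0 7837923 0) (P.cons (P.lf 239445 0 0) (P.lf 19953 0 0))))) (P.cons (P.cons (P.lf 143357943 0 0) (P.cons (P.lf 0 17987976 0) (P.cons (P.lf 0 2746296 0) (P.cons (P.lf 83898 0 0) (P.lf 6990 0 0))))) (P.cons (P.cons (P.lf 13230402 0 0) (P.cons (P.lf 0 1660095 0) (P.cons (P.lf 0 253452 0) (P.cons (P.lf 7740 0 0) P.nil)))) (P.cons (P.cons (P.lf 0 814101 0) (P.cons (P.lf 102147 0 0) (P.cons (P.lf 15594 0 0) P.nil))) (P.cons (P.cons (P.lf 0 207114 0) (P.cons (P.lf 25986 0 0) P.nil)) (P.cons (P.cons (P.lf 0 6963 0) P.nil) P.nil)))))) 9411)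
 EL.nil))))))
noncomputable def S140_169_586_660_2 : EL := (EL.cons 0 (TM.mk (P.cons (P.cons (P.lf 724045472 0 0) (P.cons (P.lf 83844894 0 0) (P.cons (P.lf 0 16321870 0) (P.cons (P.lf 774352 0 0) (P.cons (P.lf 107543 0 0) (P.cons (P.lf 0 7798 0) P.nil)))))) (P.cons (P.cons (P.lf 0 595950905 0) (P.cons (P.lf 38100447 0 0) (P.cons (P.lf 0 6766162 0) (P.cons (P.lf 280660 0 0) (P.cons (P.lf 42901 0 0) P.nil))))) (P.cons (P.cons (P.lf 107334869 0 0) (P.cons (P.lf 0 17015680 0) (P.cons (P.lf 1333366 0 0) (P.cons (P.lf 59417 0 0) P.nil)))) (P.cons (P.cons (P.lf 29050446 0 0) (P.cons (P.lf 0 6628771 0) (P.cons (P.lf 865349 0 0) P.nil))) (P.cons (P.cons (P.lf 0 7584053 0) (P.cons (P.lf 312948 0 0) P.nil)) (P.cons (P.cons (P.lf 0 1206529 0) P.nil) P.nil)))))) 1651329)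
 (EL.cons 1 (TM.mk (P.cons (P.cons (P.lf 0 72840727 0) (P.cons (P.lf 0 16909722 0) (P.cons (P.lf 429817 0 0) (P.cons (P.lf 157012 0 0) (P.cons (P.lf 4539 0 0) (P.cons (P.lf 0 325 0) P.nil)))))) (P.cons (P.cons (P.lf 146497242 0 0) (P.cons (P.lf 5410857 0 0) (P.cons (P.lf 0 2867922 0) (P.cons (P.lf 248545 0 0) (P.cons (P.lf 23571 0 0) P.nil))))) (P.cons (P.cons (P.lf 0 81202711 0) (P.cons (P.lf 7621537 0 0) (P.cons (P.lf 0 1662004 0) (P.cons (P.lf 89902 0 0) P.nil)))) (P.cons (P.cons (P.lf 9583824 0 0) (P.cons (P.lf 0 1338232 0) (P.cons (P.lf 0 79006 0) P.nil))) (P.cons (P.cons (P.lf 3876655 0 0) (P.cons (P.lf 0 920067 0) P.nil)) (P.cons (P.cons (P.lf 0 655573 0) P.nil) P.nil)))))) 818731)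
 (EL.cons 5 (TM.mk (P.cons (P.cons (P.lf 0 108971275 0) (P.cons (P.lf 28908267 0 0) (P.cons (P.lf 8396433 0 0) (P.cons (P.lf 0 1267674 0) (P.cons (P.lf 0 91447 0) (P.cons (P.lf 6630 0 0) P.nil)))))) (P.cons (P.cons (P.lf 52569643 0 0) (P.cons (P.lf 0 24479109 0) (P.cons (P.lf 7072610 0 0) (P.cons (P.lf 0 478570 0) (P.cons (P.lf 0 52540 0) P.nil))))) (P.cons (P.cons (P.lf 23632363 0 0) (P.cons (P.lf 676886 0 0) (P.cons (P.lf 908217 0 0) (P.cons (P.lf 0 107544 0) P.nil)))) (P.cons (P.cons (P.lf 0 16918106 0) (P.cons (P.lf 3259905 0 0) (P.cons (P.lf 0 248624 0) P.nil))) (P.cons (P.cons (P.lf 1310988 0 0) (P.cons (P.lf 285985 0 0) P.nil)) (P.cons (P.cons (P.lf 652221 0 0) P.nil) P.nil)))))) 701273)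
 (EL.cons 9 (TM.mk (P.cons (P.cons (P.lf 131000391 0 0) (P.cons (P.lf 51811563 0 0) (P.cons (P.lf 2288037 0 0) (P.cons (P.lf 0 875604 0) (P.cons (P.lf 0 46951 0) (P.cons (P.lf 3408 0 0) P.nil)))))) (P.cons (P.cons (P.lf 0 140580009 0) (P.cons (P.lf 0 9646137 0) (P.cons (P.lf 4117822 0 0) (P.cons (P.lf 0 334218 0) (P.cons (P.lf 0 32902 0) P.nil))))) (P.cons (P.cons (P.lf 54525765 0 0) (P.cons (P.lf 0 4740991 0) (P.cons (P.lf 1219677 0 0) (P.cons (P.lf 0 76260 0) P.nil)))) (P.cons (P.cons (P.lf 0 5813880 0) (P.cons (P.lf 796777 0 0) (P.cons (P.lf 52104 0 0) P.nil))) (P.cons (P.cons (P.lf 0 1222548 0) (P.cons (P.lf 350521 0 0) P.nil)) (P.cons (P.cons (P.lf 196981 0 0) P.nil) P.nil)))))) 213497)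
 (EL.cons 2 (TM.mk (P.cons (P.cons (P.lf 0 215917132 0) (P.cons (P.lf 0 15605949 0) (P.cons (P.lf 11830207 0 0) (P.cons (P.lf 658040 0 0) (P.cons (P.lf 0 112843 0) (P.cons (P.lf 0 5686 0) P.nil)))))) (P.cons (P.cons (P.lf 86130905 0 0) (P.cons (P.lf 0 31645951 0) (P.cons (P.lf 2104936 0 0) (P.cons (P.lf 433226 0 0) (P.cons (P.lf 0 45731 0) P.nil))))) (P.cons (P.cons (P.lf 6918862 0 0) (P.cons (P.lf 0 3354210 0) (P.cons (P.lf 315421 0 0) (P.cons (P.lf 49719 0 0) P.nil)))) (P.cons (P.cons (P.lf 0 6196500 0) (P.cons (P.lf 1192921 0 0) (P.cons (P.lf 43852 0 0) P.nil))) (P.cons (P.cons (P.lf 0 518900 0) (P.cons (P.lf 195738 0 0) P.nil)) (P.cons (P.cons (P.lf 138740 0 0) P.nil) P.nil)))))) 188594)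
 (EL.cons 6 (TM.mk (P.cons (P.cons (P.lf 0 116685186 0) (P.cons (P.lf 0 8433708 0) (P.cons (P.lf 6393240 0 0) (P.cons (P.lf 355614 0 0) (P.cons (P.lf 0 60978 0) (P.cons (P.lf 0 3072 0) P.nil)))))) (P.cons (P.cons (P.lf 21724134 0 0) (P.cons (P.lf 0 18896100 0) (P.cons (P.lf 2497578 0 0) (P.cons (P.lf 309774 0 0) (P.cons (P.lf 0 37686 0) P.nil))))) (P.cons (P.cons (P.lf 10677216 0 0) (P.cons (P.lf 0 5664984 0) (P.cons (P.lf 574830 0 0) (P.cons (P.lf 85704 0 0) P.nil)))) (P.cons (P.cons (P.lf 0 1794420 0) (P.cons (P.lf 0 205908 0) (P.cons (P.lf 112044 0 0) P.nil))) (P.cons (P.cons (P.lf 0 789408 0) (P.cons (P.lf 130458 0 0) P.nil)) (P.cons (P.cons (P.lf 0 40674 0) P.nil) P.nil)))))) 123264)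
 EL.nil))))))
noncomputable def S140_169_586_660_3 : EL := (EL.cons 0 (TM.mk (P.cons (P.lf 3316036292 0 0) (P.cons (P.lf 0 636245268 0) (P.cons (P.lf 0 21563379 0) (P.cons (P.lf 4685115 0 0) (P.cons (P.lf 394321 0 0) (P.cons (P.lf 0 4352 0) P.nil)))))) 3197)
 (EL.cons 1 (TM.mk (P.cons (P.lf 1792040857 0 0) (P.cons (P.lf 37383279 0 0) (P.cons (P.lf 0 39281548 0) (P.cons (P.lf 0 2177913 0) (P.cons (P.lf 137038 0 0) (P.cons (P.lf 19477 0 0) P.nil)))))) 1484)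
 (EL.cons 5 (TM.mk (P.cons (P.lf 968448518 0 0) (P.cons (P.lf 226220540 0 0) (P.cons (P.lf 7666984 0 0) (P.cons (P.lf 0 1665814 0) (P.cons (P.lf 0 140204 0) (P.cons (P.lf 1546 0 0) P.nil)))))) 962)
 EL.nil)))
noncomputable def S140_169_586_660_4 : EL := (EL.cons 0 (TM.mk (P.cons (P.cons (P.lf 0 472857205 0) (P.cons (P.lf 0 93509150 0) (P.cons (P.lf 5116443 0 0) (P.lf 568490 0 0)))) (P.cons (P.cons (P.lf 344444570 0 0) (P.cons (P.lf 0 14822767 0) (P.cons (P.lf 811040 0 0) (P.lf 90112 0 0)))) (P.cons (P.cons (P.lf 0 75945649 0) (P.cons (P.lf 3870734 0 0) (P.cons (P.lf 0 211793 0) (P.lf 0 23531 0)))) (P.cons (P.cons (P.lf 0 2283075 0) (P.cons (P.lf 847174 0 0) (P.cons (P.lf 0 46351 0) P.nil))) (P.cons (P.cons (P.lf 1684782 0 0) (P.cons (P.lf 0 26112 0) P.nil)) (P.cons (P.cons (P.lf 67169 0 0) P.nil) P.nil)))))) 76114)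
 (EL.cons 1 (TM.mk (P.cons (P.cons (P.lf 0 255539853 0) (P.cons (P.lf 0 50533891 0) (P.cons (P.lf 2765010 0 0) (P.lf 307220 0 0)))) (P.cons (P.cons (P.lf 131782563 0 0) (P.cons (P.lf 0 18760541 0) (P.cons (P.lf 1026500 0 0) (P.lf 114052 0 0)))) (P.cons (P.cons (P.lf 0 7934454 0) (P.cons (P.lf 0 895770 0) (P.cons (P.lf 49010 0 0) (P.lf 5445 0 0)))) (P.cons (P.cons (P.lf 0 6164070 0) (P.cons (P.lf 516000 0 0) (P.cons (P.lf 0 28231 0) P.nil))) (P.cons (P.cons (P.lf 148530 0 0) (P.cons (P.lf 81150 0 0) P.nil)) (P.cons (P.cons (P.lf 127293 0 0) P.nil) P.nil)))))) 42705)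
 (EL.cons 5 (TM.mk (P.cons (P.cons (P.lf 0 138097964 0) (P.cons (P.lf 0 27309350 0) (P.cons (P.lf 1494256 0 0) (P.lf 166026 0 0)))) (P.cons (P.cons (P.lf 41839904 0 0) (P.cons (P.lf 0 15948022 0) (P.cons (P.lf 872610 0 0) (P.lf 96954 0 0)))) (P.cons (P.cons (P.lf 7354616 0 0) (P.cons (P.lf 0 3334484 0) (P.cons (P.lf 182448 0 0) (P.lf 20270 0 0)))) (P.cons (P.cons (P.lf 0 2935554 0) (P.cons (P.lf 0 180722 0) (P.cons (P.lf 9888 0 0) P.nil))) (P.cons (P.cons (P.lf 0 550452 0) (P.cons (P.lf 39938 0 0) P.nil)) (P.cons (P.cons (P.lf 12388 0 0) P.nil) P.nil)))))) 26746)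
 EL.nil)))
noncomputable def S140_169_586_660_5 : EL := (EL.cons 0 (TM.mk (P.cons (P.cons (P.lf 67428072 0 0) (P.cons (P.lf 26668269 0 0) (P.cons (P.lf 1177690 0 0) (P.cons (P.lf 0 450687 0) (P.cons (P.lf 0 24166 0) (P.cons (P.lf 1752 0 0) P.nil)))))) (P.cons (P.cons (P.lf 0 85296230 0) (P.cons (P.lf 0 10081845 0) (P.cons (P.lf 1893547 0 0) (P.cons (P.lf 0 85552 0) (P.cons (P.lf 0 12297 0) P.nil))))) (P.cons (P.cons (P.lf 41510283 0 0) (P.cons (P.lf 0 1661048 0) (P.cons (P.lf 213459 0 0) (P.cons (P.lf 0 3313 0) P.nil)))) (P.cons (P.cons (P.lf 0 7811571 0) (P.cons (P.lf 948290 0 0) (P.cons (P.lf 0 105751 0) P.nil))) (P.cons (P.cons (P.lf 0 331813 0) (P.cons (P.lf 113755 0 0) P.nil)) (P.cons (P.cons (P.lf 272545 0 0) P.nil) P.nil)))))) 236873)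
 (EL.cons 1 (TM.mk (P.cons (P.cons (P.lf 36439245 0 0) (P.cons (P.lf 14411973 0 0) (P.cons (P.lf 636442 0 0) (P.cons (P.lf 0 243558 0) (P.cons (P.lf 0 13059 0) (P.cons (P.lf 946 0 0) P.nil)))))) (P.cons (P.cons (P.lf 0 38343774 0) (P.cons (P.lf 0 2382536 0) (P.cons (P.lf 1158693 0 0) (P.cons (P.lf 0 98045 0) (P.cons (P.lf 0 9423 0) P.nil))))) (P.cons (P.cons (P.lf 13552473 0 0) (P.cons (P.lf 0 1690642 0) (P.cons (P.lf 349209 0 0) (P.cons (P.lf 0 17812 0) P.nil)))) (P.cons (P.cons (P.lf 0 487929 0) (P.cons (P.lf 235421 0 0) (P.cons (P.lf 0 4308 0) P.nil))) (P.cons (P.cons (P.lf 0 655950 0) (P.cons (P.lf 135393 0 0) P.nil)) (P.cons (P.cons (P.lf 62118 0 0) P.nil) P.nil)))))) 140973)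
 (EL.cons 5 (TM.mk (P.cons (P.cons (P.lf 19692370 0 0) (P.cons (P.lf 7788468 0 0) (P.cons (P.lf 343944 0 0) (P.cons (P.lf 0 131622 0) (P.cons (P.lf 0 7056 0) (P.cons (P.lf 510 0 0) P.nil)))))) (P.cons (P.cons (P.lf 0 16532452 0) (P.cons (P.lf 369276 0 0) (P.cons (P.lf 699344 0 0) (P.cons (P.lf 0 80984 0) (P.cons (P.lf 0 6594 0) P.nil))))) (P.cons (P.cons (P.lf 3416042 0 0) (P.cons (P.lf 0 989734 0) (P.cons (P.lf 330660 0 0) (P.cons (P.lf 0 24240 0) P.nil)))) (P.cons (P.cons (P.lf 839486 0 0) (P.cons (P.lf 0 71576 0) (P.cons (P.lf 54968 0 0) P.nil))) (P.cons (P.cons (P.lf 0 289536 0) (P.cons (P.lf 76392 0 0) P.nil)) (P.cons (P.cons (P.lf 0 31244 0) P.nil) P.nil)))))) 77064)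
 EL.nil)))
noncomputable def S140_169_586_660_6 : EL := (EL.cons 12 (TM.mk (P.lf 8589934592 0 0) 0)
 (EL.cons 3 (TM.mk (P.cons (P.lf 0 2668545243 0) (P.cons (P.lf 256005836 0 0) (P.cons (P.lf 20956361 0 0) (P.cons (P.lf 125291 0 0) (P.cons (P.lf 0 64357 0) (P.cons (P.lf 0 3438 0) P.nil)))))) 378)
 (EL.cons 7 (TM.mk (P.cons (P.lf 0 1442125985 0) (P.cons (P.lf 0 168433589 0) (P.cons (P.lf 4127638 0 0) (P.cons (P.lf 758202 0 0) (P.cons (P.lf 21743 0 0) (P.cons (P.lf 0 1521 0) P.nil)))))) 224)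
 EL.nil)))
noncomputable def S140_169_586_660_7 : EL := (EL.cons 12 (TM.mk (P.cons (P.cons (P.lf 0 1224899886 0) (P.cons (P.lf 0 242228200 0) (P.cons (P.lf 13253752 0 0) (P.lf 1472632 0 0)))) (P.cons (P.cons (P.lf 657236346 0 0) (P.cons (P.lf 0 84873368 0) (P.cons (P.lf 4643928 0 0) (P.lf 515984 0 0)))) (P.cons (P.cons (P.lf 0 78593118 0) (P.cons (P.lf 0 7832896 0) (P.cons (P.lf 428576 0 0) (P.lf 47616 0 0)))) (P.cons (P.cons (P.lf 0 14989264 0) (P.cons (P.lf 481976 0 0) (P.cons (P.lf 0 26368 0) P.nil))) (P.cons (P.cons (P.lf 194322 0 0) (P.cons (P.lf 122616 0 0) P.nil)) (P.cons (P.cons (P.lf 145094 0 0) P.nil) P.nil)))))) 38894)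
 (EL.cons 3 (TM.mk (P.cons (P.cons (P.lf 2128685264 0 0) (P.cons (P.lf 0 150501006 0) (P.cons (P.lf 8234808 0 0) (P.lf 914972 0 0)))) (P.cons (P.cons (P.lf 0 536627543 0) (P.cons (P.lf 0 38295188 0) (P.cons (P.lf 2095356 0 0) (P.lf 232810 0 0)))) (P.cons (P.cons (P.lf 0 116531415 0) (P.cons (P.lf 1374132 0 0) (P.cons (P.lf 0 75190 0) (P.lf 0 8354 0)))) (P.cons (P.cons (P.lf 0 303421 0) (P.cons (P.lf 1187534 0 0) (P.cons (P.lf 0 64972 0) P.nil))) (P.cons (P.cons (P.lf 1991051 0 0) (P.cons (P.lf 84518 0 0) P.nil)) (P.cons (P.cons (P.lf 155899 0 0) P.nil) P.nil)))))) 128510)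
 (EL.cons 7 (TM.mk (P.cons (P.cons (P.lf 0 944520600 0) (P.cons (P.lf 189195024 0 0) (P.cons (P.lf 0 10351993 0) (P.lf 0 1150224 0)))) (P.cons (P.cons (P.lf 353062665 0 0) (P.cons (P.lf 25195508 0 0) (P.cons (P.lf 0 1378597 0) (P.lf 0 153179 0)))) (P.cons (P.cons (P.lf 39115868 0 0) (P.cons (P.lf 0 3583995 0) (P.cons (P.lf 196101 0 0) (P.lf 21786 0 0)))) (P.cons (P.cons (P.lf 0 8336932 0) (P.cons (P.lf 0 486346 0) (P.cons (P.lf 26611 0 0) P.nil))) (P.cons (P.cons (P.lf 0 796849 0) (P.cons (P.lf 44646 0 0) P.nil)) (P.cons (P.cons (P.lf 66711 0 0) P.nil) P.nil)))))) 82114)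
 (EL.cons 10 (TM.mk (P.cons (P.cons (P.lf 0 1218517215 0) (P.cons (P.lf 152894628 0 0) (P.cons (P.lf 23343054 0 0) (P.cons (P.lf 0 713127 0) (P.lf 0 59427 0))))) (P.cons (P.cons (P.lf 0 284634255 0) (P.cons (P.lf 35714757 0 0) (P.cons (P.lf 5452719 0 0) (P.cons (P.lf 0 166578 0) (P.lf 0 13881 0))))) (P.cons (P.cons (P.lf 0 9646719 0) (P.cons (P.lf 1210431 0 0) (P.cons (P.lf 184800 0 0) (P.cons (P.lf 0 5643 0) P.nil)))) (P.cons (P.cons (P.lf 2095953 0 0) (P.cons (P.lf 0 262989 0) (P.cons (P.lf 0 40152 0) P.nil))) (P.cons (P.cons (P.lf 176406 0 0) (P.cons (P.lf 0 22134 0) P.nil)) (P.cons (P.cons (P.lf 0 1944 0) P.nil) P.nil)))))) 7062)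
 EL.nil))))
noncomputable def S140_169_586_660_8 : EL := (EL.cons 12 (TM.mk (P.cons (P.cons (P.lf 174667188 0 0) (P.cons (P.lf 69082084 0 0) (P.cons (P.lf 3050716 0 0) (P.cons (P.lf 0 1167472 0) (P.cons (P.lf 0 62602 0) (P.cons (P.lf 4544 0 0) P.nil)))))) (P.cons (P.cons (P.lf 0 187440012 0) (P.cons (P.lf 0 12861516 0) (P.cons (P.lf 5490430 0 0) (P.cons (P.lf 0 445624 0) (P.cons (P.lf 0 43870 0) P.nil))))) (P.cons (P.cons (P.lf 72701020 0 0) (P.cons (P.lf 0 6321322 0) (P.cons (P.lf 1626236 0 0) (P.cons (P.lf 0 101680 0) P.nil)))) (P.cons (P.cons (P.lf 0 7751840 0) (P.cons (P.lf 1062370 0 0) (P.cons (P.lf 69472 0 0) P.nil))) (P.cons (P.cons (P.lf 0 1630064 0) (P.cons (P.lf 467362 0 0) P.nil)) (P.cons (P.cons (P.lf 262642 0 0) P.nil) P.nil)))))) 284634)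
 (EL.cons 3 (TM.mk (P.cons (P.cons (P.lf 0 552826720 0) (P.cons (P.lf 0 55670873 0) (P.cons (P.lf 13656057 0 0) (P.cons (P.lf 0 822615 0) (P.cons (P.lf 0 97241 0) (P.cons (P.lf 7056 0 0) P.nil)))))) (P.cons (P.cons (P.lf 415348992 0 0) (P.cons (P.lf 0 29963625 0) (P.cons (P.lf 8056793 0 0) (P.cons (P.lf 0 520094 0) (P.cons (P.lf 0 58816 0) P.nil))))) (P.cons (P.cons (P.lf 0 60090365 0) (P.cons (P.lf 8047339 0 0) (P.cons (P.lf 751839 0 0) (P.cons (P.lf 0 179386 0) P.nil)))) (P.cons (P.cons (P.lf 0 19475148 0) (P.cons (P.lf 5183847 0 0) (P.cons (P.lf 0 335109 0) P.nil))) (P.cons (P.cons (P.lf 3038552 0 0) (P.cons (P.lf 495743 0 0) P.nil)) (P.cons (P.cons (P.lf 866783 0 0) P.nil) P.nil)))))) 800082)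
 (EL.cons 7 (TM.mk (P.cons (P.cons (P.lf 298695920 0 0) (P.cons (P.lf 10909766 0 0) (P.cons (P.lf 0 10120421 0) (P.cons (P.lf 975845 0 0) (P.cons (P.lf 87279 0 0) (P.cons (P.lf 0 6330 0) P.nil)))))) (P.cons (P.cons (P.lf 0 273270027 0) (P.cons (P.lf 19713930 0 0) (P.cons (P.lf 0 5300797 0) (P.cons (P.lf 342181 0 0) (P.cons (P.lf 38694 0 0) P.nil))))) (P.cons (P.cons (P.lf 68601531 0 0) (P.cons (P.lf 0 7391449 0) (P.cons (P.lf 69155 0 0) (P.cons (P.lf 81623 0 0) P.nil)))) (P.cons (P.cons (P.lf 5397791 0 0) (P.cons (P.lf 0 2529249 0) (P.cons (P.lf 255547 0 0) P.nil))) (P.cons (P.cons (P.lf 0 3483680 0) (P.cons (P.lf 153352 0 0) P.nil)) (P.cons (P.cons (P.lf 0 130904 0) P.nil) P.nil)))))) 507994)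
 (EL.cons 10 (TM.mk (P.cons (P.cons (P.lf 347514072 0 0) (P.cons (P.lf 25117446 0 0) (P.cons (P.lf 0 19040472 0) (P.cons (P.lf 0 1059108 0) (P.cons (P.lf 181620 0 0) (P.cons (P.lf 9150 0 0) P.nil)))))) (P.cons (P.cons (P.lf 0 105287256 0) (P.cons (P.lf 53343132 0 0) (P.cons (P.lf 0 5214498 0) (P.cons (P.lf 0 798876 0) (P.cons (P.lf 91026 0 0) P.nil))))) (P.cons (P.cons (P.lf 0 18507390 0) (P.cons (P.lf 10713234 0 0) (P.cons (P.lf 0 1157442 0) (P.cons (P.lf 0 164976 0) P.nil)))) (P.cons (P.cons (P.lf 7387122 0 0) (P.cons (P.lf 0 472122 0) (P.cons (P.lf 0 223458 0) P.nil))) (P.cons (P.cons (P.lf 1385178 0 0) (P.cons (P.lf 0 274308 0) P.nil)) (P.cons (P.cons (P.lf 0 31176 0) P.nil) P.nil)))))) 216720)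
 EL.nil))))
noncomputable def S140_169_586_660_9 : EL := (EL.cons 3 (TM.mk (P.cons (P.lf 0 2668545243 0) (P.cons (P.lf 256005836 0 0) (P.cons (P.lf 20956361 0 0) (P.cons (P.lf 125291 0 0) (P.cons (P.lf 0 64357 0) (P.cons (P.lf 0 3438 0) P.nil)))))) 378)
 (EL.cons 7 (TM.mk (P.cons (P.lf 0 1442125985 0) (P.cons (P.lf 0 168433589 0) (P.cons (P.lf 4127638 0 0) (P.cons (P.lf 758202 0 0) (P.cons (P.lf 21743 0 0) (P.cons (P.lf 0 1521 0) P.nil)))))) 224)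
 EL.nil))
noncomputable def S140_169_586_660_10 : EL := (EL.cons 3 (TM.mk (P.cons (P.cons (P.lf 380526851 0 0) (P.cons (P.lf 75250503 0 0) (P.cons (P.lf 0 4117404 0) (P.lf 0 457486 0)))) (P.cons (P.cons (P.lf 0 240682442 0) (P.cons (P.lf 19147594 0 0) (P.cons (P.lf 0 1047678 0) (P.lf 0 116405 0)))) (P.cons (P.cons (P.lf 41015001 0 0) (P.cons (P.lf 0 687066 0) (P.cons (P.lf 37595 0 0) (P.lf 4177 0 0)))) (P.cons (P.cons (P.lf 3899801 0 0) (P.cons (P.lf 0 593767 0) (P.cons (P.lf 32486 0 0) P.nil))) (P.cons (P.cons (P.lf 0 680068 0) (P.cons (P.lf 0 42259 0) P.nil)) (P.cons (P.cons (P.lf 0 81431 0) P.nil) P.nil)))))) 30895)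
 (EL.cons 7 (TM.mk (P.cons (P.cons (P.lf 205643004 0 0) (P.cons (P.lf 40666617 0 0) (P.cons (P.lf 0 2225113 0) (P.lf 0 247233 0)))) (P.cons (P.cons (P.lf 0 86322348 0) (P.cons (P.lf 18998684 0 0) (P.cons (P.lf 0 1039531 0) (P.lf 0 115502 0)))) (P.cons (P.cons (P.lf 0 281194 0) (P.cons (P.lf 2862852 0 0) (P.cons (P.lf 0 156642 0) (P.lf 0 17403 0)))) (P.cons (P.cons (P.lf 4265252 0 0) (P.cons (P.lf 10508 0 0) (P.cons (P.lf 0 575 0) P.nil))) (P.cons (P.cons (P.lf 278435 0 0) (P.cons (P.lf 0 41904 0) P.nil)) (P.cons (P.cons (P.lf 0 40428 0) P.nil) P.nil)))))) 18486)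
 EL.nil))
noncomputable def S140_169_586_660_11 : EL := (EL.cons 3 (TM.mk (P.cons (P.cons (P.lf 0 54262030 0) (P.cons (P.lf 0 21461009 0) (P.cons (P.lf 0 947733 0) (P.cons (P.lf 362685 0 0) (P.cons (P.lf 19447 0 0) (P.cons (P.lf 0 1410 0) P.nil)))))) (P.cons (P.cons (P.lf 63435636 0 0) (P.cons (P.lf 6054405 0 0) (P.cons (P.lf 0 1614733 0) (P.cons (P.lf 103642 0 0) (P.cons (P.lf 11762 0 0) P.nil))))) (P.cons (P.cons (P.lf 0 27745415 0) (P.cons (P.lf 1749001 0 0) (P.cons (P.lf 0 334131 0) (P.cons (P.lf 15458 0 0) P.nil)))) (P.cons (P.cons (P.lf 4120152 0 0) (P.cons (P.lf 0 548799 0) (P.cons (P.lf 40323 0 0) P.nil))) (P.cons (P.cons (P.lf 448688 0 0) (P.cons (P.lf 0 129655 0) P.nil)) (P.cons (P.cons (P.lf 0 146689 0) P.nil) P.nil)))))) 141464)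
 (EL.cons 7 (TM.mk (P.cons (P.cons (P.lf 0 29324098 0) (P.cons (P.lf 0 11597884 0) (P.cons (P.lf 0 512171 0) (P.cons (P.lf 196001 0 0) (P.cons (P.lf 10509 0 0) (P.cons (P.lf 0 762 0) P.nil)))))) (P.cons (P.cons (P.lf 28043553 0 0) (P.cons (P.lf 804684 0 0) (P.cons (P.lf 0 981583 0) (P.cons (P.lf 97705 0 0) (P.cons (P.lf 8592 0 0) P.nil))))) (P.cons (P.cons (P.lf 0 8446149 0) (P.cons (P.lf 1346645 0 0) (P.cons (P.lf 0 379213 0) (P.cons (P.lf 25247 0 0) P.nil)))) (P.cons (P.cons (P.lf 0 198769 0) (P.cons (P.lf 0 54489 0) (P.cons (P.lf 0 40643 0) P.nil))) (P.cons (P.cons (P.lf 444496 0 0) (P.cons (P.lf 0 103292 0) P.nil)) (P.cons (P.cons (P.lf 0 9944 0) P.nil) P.nil)))))) 77658)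
 EL.nil))
noncomputable def S140_169_586_660_12 : EL := (EL.cons 4 (TM.mk (P.cons (P.lf 2668545243 0 0) (P.cons (P.lf 0 256005836 0) (P.cons (P.lf 0 20956361 0) (P.cons (P.lf 0 125291 0) (P.cons (P.lf 64357 0 0) (P.cons (P.lf 3438 0 0) P.nil)))))) 378)
 (EL.cons 8 (TM.mk (P.cons (P.lf 1442125985 0 0) (P.cons (P.lf 168433589 0 0) (P.cons (P.lf 0 4127638 0) (P.cons (P.lf 0 758202 0) (P.cons (P.lf 0 21743 0) (P.cons (P.lf 1521 0 0) P.nil)))))) 224)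
 EL.nil))
noncomputable def S140_169_586_660_13 : EL := (EL.cons 4 (TM.mk (P.cons (P.cons (P.lf 0 380526851 0) (P.cons (P.lf 0 75250503 0) (P.cons (P.lf 4117404 0 0) (P.lf 457486 0 0)))) (P.cons (P.cons (P.lf 240682442 0 0) (P.cons (P.lf 0 19147594 0) (P.cons (P.lf 1047678 0 0) (P.lf 116405 0 0)))) (P.cons (P.cons (P.lf 0 41015001 0) (P.cons (P.lf 687066 0 0) (P.cons (P.lf 0 37595 0) (P.lf 0 4177 0)))) (P.cons (P.cons (P.lf 0 3899801 0) (P.cons (P.lf 593767 0 0) (P.cons (P.lf 0 32486 0) P.nil))) (P.cons (P.cons (P.lf 680068 0 0) (P.cons (P.lf 42259 0 0) P.nil)) (P.cons (P.cons (P.lf 81431 0 0) P.nil) P.nil)))))) 30895)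
 (EL.cons 8 (TM.mk (P.cons (P.cons (P.lf 0 205643004 0) (P.cons (P.lf 0 40666617 0) (P.cons (P.lf 2225113 0 0) (P.lf 247233 0 0)))) (P.cons (P.cons (P.lf 86322348 0 0) (P.cons (P.lf 0 18998684 0) (P.cons (P.lf 1039531 0 0) (P.lf 115502 0 0)))) (P.cons (P.cons (P.lf 281194 0 0) (P.cons (P.lf 0 2862852 0) (P.cons (P.lf 156642 0 0) (P.lf 17403 0 0)))) (P.cons (P.cons (P.lf 0 4265252 0) (P.cons (P.lf 0 10508 0) (P.cons (P.lf 575 0 0) P.nil))) (P.cons (P.cons (P.lf 0 278435 0) (P.cons (P.lf 41904 0 0) P.nil)) (P.cons (P.cons (P.lf 40428 0 0) P.nil) P.nil)))))) 18486)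
 EL.nil))
noncomputable def S140_169_586_660_14 : EL := (EL.cons 4 (TM.mk (P.cons (P.cons (P.lf 54262030 0 0) (P.cons (P.lf 21461009 0 0) (P.cons (P.lf 947733 0 0) (P.cons (P.lf 0 362685 0) (P.cons (P.lf 0 19447 0) (P.cons (P.lf 1410 0 0) P.nil)))))) (P.cons (P.cons (P.lf 0 63435636 0) (P.cons (P.lf 0 6054405 0) (P.cons (P.lf 1614733 0 0) (P.cons (P.lf 0 103642 0) (P.cons (P.lf 0 11762 0) P.nil))))) (P.cons (P.cons (P.lf 27745415 0 0) (P.cons (P.lf 0 1749001 0) (P.cons (P.lf 334131 0 0) (P.cons (P.lf 0 15458 0) P.nil)))) (P.cons (P.cons (P.lf 0 4120152 0) (P.cons (P.lf 548799 0 0) (P.cons (P.lf 0 40323 0) P.nil))) (P.cons (P.cons (P.lf 0 448688 0) (P.cons (P.lf 129655 0 0) P.nil)) (P.cons (P.cons (P.lf 146689 0 0) P.nil) P.nil)))))) 141464)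
 (EL.cons 8 (TM.mk (P.cons (P.cons (P.lf 29324098 0 0) (P.cons (P.lf 11597884 0 0) (P.cons (P.lf 512171 0 0) (P.cons (P.lf 0 196001 0) (P.cons (P.lf 0 10509 0) (P.cons (P.lf 762 0 0) P.nil)))))) (P.cons (P.cons (P.lf 0 28043553 0) (P.cons (P.lf 0 804684 0) (P.cons (P.lf 981583 0 0) (P.cons (P.lf 0 97705 0) (P.cons (P.lf 0 8592 0) P.nil))))) (P.cons (P.cons (P.lf 8446149 0 0) (P.cons (P.lf 0 1346645 0) (P.cons (P.lf 379213 0 0) (P.cons (P.lf 0 25247 0) P.nil)))) (P.cons (P.cons (P.lf 198769 0 0) (P.cons (P.lf 54489 0 0) (P.cons (P.lf 40643 0 0) P.nil))) (P.cons (P.cons (P.lf 0 444496 0) (P.cons (P.lf 103292 0 0) P.nil)) (P.cons (P.cons (P.lf 9944 0 0) P.nil) P.nil)))))) 77658)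
 EL.nil))
noncomputable def S140_169_586_660_15 : EL := (EL.cons 4 (TM.mk (P.cons (P.lf 0 1768552689 0) (P.cons (P.lf 339330810 0 0) (P.cons (P.lf 11500469 0 0) (P.cons (P.lf 0 2498728 0) (P.cons (P.lf 0 210304 0) (P.cons (P.lf 2321 0 0) P.nil)))))) 1708)
 (EL.cons 8 (TM.mk (P.cons (P.lf 0 955755124 0) (P.cons (P.lf 0 19937749 0) (P.cons (P.lf 20950159 0 0) (P.cons (P.lf 1161554 0 0) (P.cons (P.lf 0 73087 0) (P.cons (P.lf 0 10388 0) P.nil)))))) 788)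
 EL.nil))
noncomputable def S140_169_586_660_16 : EL := (EL.cons 4 (TM.mk (P.cons (P.cons (P.lf 252190509 0 0) (P.cons (P.lf 49871547 0 0) (P.cons (P.lf 0 2728770 0) (P.lf 0 303195 0)))) (P.cons (P.cons (P.lf 0 183703770 0) (P.cons (P.lf 7905476 0 0) (P.cons (P.lf 0 432555 0) (P.lf 0 48060 0)))) (P.cons (P.cons (P.lf 40504346 0 0) (P.cons (P.lf 0 2064391 0) (P.cons (P.lf 112956 0 0) (P.lf 12550 0 0)))) (P.cons (P.cons (P.lf 1217640 0 0) (P.cons (P.lf 0 451826 0) (P.cons (P.lf 24720 0 0) P.nil))) (P.cons (P.cons (P.lf 0 898550 0) (P.cons (P.lf 13926 0 0) P.nil)) (P.cons (P.cons (P.lf 0 35823 0) P.nil) P.nil)))))) 40603)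
 (EL.cons 8 (TM.mk (P.cons (P.cons (P.lf 136287922 0 0) (P.cons (P.lf 26951409 0 0) (P.cons (P.lf 0 1474672 0) (P.lf 0 163851 0)))) (P.cons (P.cons (P.lf 0 70284034 0) (P.cons (P.lf 10005622 0 0) (P.cons (P.lf 0 547467 0) (P.lf 0 60828 0)))) (P.cons (P.cons (P.lf 4231709 0 0) (P.cons (P.lf 477744 0 0) (P.cons (P.lf 0 26139 0) (P.lf 0 2904 0)))) (P.cons (P.cons (P.lf 3287504 0 0) (P.cons (P.lf 0 275200 0) (P.cons (P.lf 15057 0 0) P.nil))) (P.cons (P.cons (P.lf 0 79216 0) (P.cons (P.lf 0 43280 0) P.nil)) (P.cons (P.cons (P.lf 0 67890 0) P.nil) P.nil)))))) 22766)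
 EL.nil))
noncomputable def S140_169_586_660_17 : EL := (EL.cons 4 (TM.mk (P.cons (P.cons (P.lf 0 35961638 0) (P.cons (P.lf 0 14223076 0) (P.cons (P.lf 0 628101 0) (P.cons (P.lf 240366 0 0) (P.cons (P.lf 12888 0 0) (P.cons (P.lf 0 934 0) P.nil)))))) (P.cons (P.cons (P.lf 45491323 0 0) (P.cons (P.lf 5376984 0 0) (P.cons (P.lf 0 1009891 0) (P.cons (P.lf 45628 0 0) (P.cons (P.lf 6558 0 0) P.nil))))) (P.cons (P.cons (P.lf 0 22138817 0) (P.cons (P.lf 885892 0 0) (P.cons (P.lf 0 113845 0) (P.cons (P.lf 1767 0 0) P.nil)))) (P.cons (P.cons (P.lf 4166171 0 0) (P.cons (P.lf 0 505755 0) (P.cons (P.lf 56400 0 0) P.nil))) (P.cons (P.cons (P.lf 176967 0 0) (P.cons (P.lf 0 60669 0) P.nil)) (P.cons (P.cons (P.lf 0 145357 0) P.nil) P.nil)))))) 126342)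
 (EL.cons 8 (TM.mk (P.cons (P.cons (P.lf 0 19434264 0) (P.cons (P.lf 0 7686386 0) (P.cons (P.lf 0 339436 0) (P.cons (P.lf 129898 0 0) (P.cons (P.lf 6965 0 0) (P.cons (P.lf 0 505 0) P.nil)))))) (P.cons (P.cons (P.lf 20450013 0 0) (P.cons (P.lf 1270686 0 0) (P.cons (P.lf 0 617970 0) (P.cons (P.lf 52291 0 0) (P.cons (P.lf 5026 0 0) P.nil))))) (P.cons (P.cons (P.lf 0 7227986 0) (P.cons (P.lf 901676 0 0) (P.cons (P.lf 0 186245 0) (P.cons (P.lf 9500 0 0) P.nil)))) (P.cons (P.cons (P.lf 260229 0 0) (P.cons (P.lf 0 125558 0) (P.cons (P.lf 2298 0 0) P.nil))) (P.cons (P.cons (P.lf 349840 0 0) (P.cons (P.lf 0 72210 0) P.nil)) (P.cons (P.cons (P.lf 0 33130 0) P.nil) P.nil)))))) 75174)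
 EL.nil))
noncomputable def S140_169_586_660_18 : EL := (EL.cons 4 (TM.mk (P.cons (P.lf 1172091282 0 0) (P.cons (P.lf 0 337332345 0) (P.cons (P.lf 4748184 0 0) (P.cons (P.lf 4098243 0 0) (P.cons (P.lf 79189 0 0) (P.cons (P.lf 0 31469 0) P.nil)))))) 3321)
 (EL.cons 8 (TM.mk (P.cons (P.lf 633417514 0 0) (P.cons (P.lf 0 47553107 0) (P.cons (P.lf 0 20126446 0) (P.cons (P.lf 428689 0 0) (P.cons (P.lf 245981 0 0) (P.cons (P.lf 10070 0 0) P.nil)))))) 1843)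
 EL.nil))
noncomputable def S140_169_586_660_19 : EL := (EL.cons 4 (TM.mk (P.cons (P.cons (P.lf 0 167136834 0) (P.cons (P.lf 0 33051887 0) (P.cons (P.lf 1808465 0 0) (P.lf 200939 0 0)))) (P.cons (P.cons (P.lf 137782112 0 0) (P.cons (P.lf 0 2068458 0) (P.cons (P.lf 113176 0 0) (P.lf 12573 0 0)))) (P.cons (P.cons (P.lf 0 37211160 0) (P.cons (P.lf 2130344 0 0) (P.cons (P.lf 0 116564 0) (P.lf 0 12951 0)))) (P.cons (P.cons (P.lf 820023 0 0) (P.cons (P.lf 210885 0 0) (P.cons (P.lf 0 11537 0) P.nil))) (P.cons (P.cons (P.lf 873983 0 0) (P.cons (P.lf 0 49251 0) P.nil)) (P.cons (P.cons (P.lf 0 23068 0) P.nil) P.nil)))))) 43026)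
 (EL.cons 8 (TM.mk (P.cons (P.cons (P.lf 0 90323509 0) (P.cons (P.lf 0 17861787 0) (P.cons (P.lf 977324 0 0) (P.lf 108591 0 0)))) (P.cons (P.cons (P.lf 55245217 0 0) (P.cons (P.lf 0 4917566 0) (P.cons (P.lf 269069 0 0) (P.lf 29895 0 0)))) (P.cons (P.cons (P.lf 0 6563845 0) (P.cons (P.lf 459804 0 0) (P.cons (P.lf 0 25159 0) (P.lf 0 2795 0)))) (P.cons (P.cons (P.lf 0 2271268 0) (P.cons (P.lf 265674 0 0) (P.cons (P.lf 0 14536 0) P.nil))) (P.cons (P.cons (P.lf 279177 0 0) (P.cons (P.lf 13554 0 0) P.nil)) (P.cons (P.cons (P.lf 58205 0 0) P.nil) P.nil)))))) 23084)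
 EL.nil))
noncomputable def S140_169_586_660_20 : EL := (EL.cons 4 (TM.mk (P.cons (P.cons (P.lf 23833230 0 0) (P.cons (P.lf 9426207 0 0) (P.cons (P.lf 416267 0 0) (P.cons (P.lf 0 159300 0) (P.cons (P.lf 0 8541 0) (P.cons (P.lf 619 0 0) P.nil)))))) (P.cons (P.cons (P.lf 0 32435368 0) (P.cons (P.lf 0 4467843 0) (P.cons (P.lf 629361 0 0) (P.cons (P.lf 0 14956 0) (P.cons (P.lf 0 3526 0) P.nil))))) (P.cons (P.cons (P.lf 17377450 0 0) (P.cons (P.lf 0 319274 0) (P.cons (P.lf 7971 0 0) (P.cons (P.lf 2980 0 0) P.nil)))) (P.cons (P.cons (P.lf 0 3933026 0) (P.cons (P.lf 419051 0 0) (P.cons (P.lf 0 49892 0) P.nil))) (P.cons (P.cons (P.lf 34367 0 0) (P.cons (P.lf 13057 0 0) P.nil)) (P.cons (P.cons (P.lf 127883 0 0) P.nil) P.nil)))))) 106118)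
 (EL.cons 8 (TM.mk (P.cons (P.cons (P.lf 12879871 0 0) (P.cons (P.lf 5094078 0 0) (P.cons (P.lf 224958 0 0) (P.cons (P.lf 0 86088 0) (P.cons (P.lf 0 4616 0) (P.cons (P.lf 334 0 0) P.nil)))))) (P.cons (P.cons (P.lf 0 14788675 0) (P.cons (P.lf 0 1330833 0) (P.cons (P.lf 387972 0 0) (P.cons (P.lf 0 26396 0) (P.cons (P.lf 0 2888 0) P.nil))))) (P.cons (P.cons (P.lf 5989338 0 0) (P.cons (P.lf 0 556792 0) (P.cons (P.lf 82375 0 0) (P.cons (P.lf 0 2295 0) P.nil)))) (P.cons (P.cons (P.lf 0 526189 0) (P.cons (P.lf 146915 0 0) (P.cons (P.lf 0 16591 0) P.nil))) (P.cons (P.cons (P.lf 0 251979 0) (P.cons (P.lf 44729 0 0) P.nil)) (P.cons (P.cons (P.lf 45019 0 0) P.nil) P.nil)))))) 64856)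
 EL.nil))
noncomputable def S140_169_586_660_21 : EL := (EL.cons 4 (TM.mk (P.cons (P.cons (P.lf 0 1748158413 0) (P.cons (P.lf 225751509 0 0) (P.cons (P.lf 0 12352212 0) (P.lf 0 1372458 0)))) (P.cons (P.cons (P.lf 295945101 0 0) (P.cons (P.lf 57442782 0 0) (P.cons (P.lf 0 3143034 0) (P.lf 0 349215 0)))) (P.cons (P.cons (P.lf 157546416 0 0) (P.cons (P.lf 0 2061198 0) (P.cons (P.lf 112785 0 0) (P.lf 12531 0 0)))) (P.cons (P.cons (P.lf 4203222 0 0) (P.cons (P.lf 0 1781301 0) (P.cons (P.lf 97458 0 0) P.nil))) (P.cons (P.cons (P.lf 0 2671119 0) (P.cons (P.lf 0 126777 0) P.nil)) (P.cons (P.cons (P.lf 0 237330 0) P.nil) P.nil)))))) 97596)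
 (EL.cons 8 (TM.mk (P.cons (P.cons (P.lf 1150163604 0 0) (P.cons (P.lf 0 148528407 0) (P.cons (P.lf 8126880 0 0) (P.lf 902991 0 0)))) (P.cons (P.cons (P.lf 0 439385013 0) (P.cons (P.lf 0 6196824 0) (P.cons (P.lf 339066 0 0) (P.lf 37677 0 0)))) (P.cons (P.cons (P.lf 0 39397062 0) (P.cons (P.lf 6446847 0 0) (P.cons (P.lf 0 352743 0) (P.lf 0 39189 0)))) (P.cons (P.cons (P.lf 12602184 0 0) (P.cons (P.lf 496854 0 0) (P.cons (P.lf 0 27186 0) P.nil))) (P.cons (P.cons (P.lf 1075284 0 0) (P.cons (P.lf 0 86550 0) P.nil)) (P.cons (P.cons (P.lf 0 107139 0) P.nil) P.nil)))))) 63609)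
 (EL.cons 11 (TM.mk (P.cons (P.cons (P.lf 1218517215 0 0) (P.cons (P.lf 0 152894628 0) (P.cons (P.lf 0 23343054 0) (P.cons (P.lf 713127 0 0) (P.lf 59427 0 0))))) (P.cons (P.cons (P.lf 284634255 0 0) (P.cons (P.lf 0 35714757 0) (P.cons (P.lf 0 5452719 0) (P.cons (P.lf 166578 0 0) (P.lf 13881 0 0))))) (P.cons (P.cons (P.lf 9646719 0 0) (P.cons (P.lf 0 1210431 0) (P.cons (P.lf 0 184800 0) (P.cons (P.lf 5643 0 0) P.nil)))) (P.cons (P.cons (P.lf 0 2095953 0) (P.cons (P.lf 262989 0 0) (P.cons (P.lf 40152 0 0) P.nil))) (P.cons (P.cons (P.lf 0 176406 0) (P.cons (P.lf 22134 0 0) P.nil)) (P.cons (P.cons (P.lf 1944 0 0) P.nil) P.nil)))))) 7062)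
 EL.nil)))
noncomputable def S140_169_586_660_22 : EL := (EL.cons 4 (TM.mk (P.cons (P.cons (P.lf 249282345 0 0) (P.cons (P.lf 17104932 0 0) (P.cons (P.lf 0 7301895 0) (P.cons (P.lf 592650 0 0) (P.cons (P.lf 58344 0 0) (P.cons (P.lf 0 4233 0) P.nil)))))) (P.cons (P.cons (P.lf 0 175956678 0) (P.cons (P.lf 18009015 0 0) (P.cons (P.lf 0 4835763 0) (P.cons (P.lf 311868 0 0) (P.cons (P.lf 35289 0 0) P.nil))))) (P.cons (P.cons (P.lf 16172475 0 0) (P.cons (P.lf 0 3149169 0) (P.cons (P.lf 0 542985 0) (P.cons (P.lf 97422 0 0) P.nil)))) (P.cons (P.cons (P.lf 11797650 0 0) (P.cons (P.lf 0 2866323 0) (P.cons (P.lf 187716 0 0) P.nil))) (P.cons (P.cons (P.lf 0 1294932 0) (P.cons (P.lf 0 312699 0) P.nil)) (P.cons (P.cons (P.lf 0 506736 0) P.nil) P.nil)))))) 329298)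
 (EL.cons 8 (TM.mk (P.cons (P.cons (P.lf 0 164010009 0) (P.cons (P.lf 0 11253825 0) (P.cons (P.lf 4804125 0 0) (P.cons (P.lf 0 389922 0) (P.cons (P.lf 0 38385 0) (P.cons (P.lf 2784 0 0) P.nil)))))) (P.cons (P.cons (P.lf 150656790 0 0) (P.cons (P.lf 0 9454623 0) (P.cons (P.lf 2159607 0 0) (P.cons (P.lf 0 122238 0) (P.cons (P.lf 0 15051 0) P.nil))))) (P.cons (P.cons (P.lf 0 38523840 0) (P.cons (P.lf 4369047 0 0) (P.cons (P.lf 0 224184 0) (P.cons (P.lf 0 28188 0) P.nil)))) (P.cons (P.cons (P.lf 0 2798280 0) (P.cons (P.lf 1237380 0 0) (P.cons (P.lf 0 148095 0) P.nil))) (P.cons (P.cons (P.lf 1964088 0 0) (P.cons (P.lf 0 128322 0) P.nil)) (P.cons (P.cons (P.lf 60480 0 0) P.nil) P.nil)))))) 215157)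
 (EL.cons 11 (TM.mk (P.cons (P.cons (P.lf 0 173757036 0) (P.cons (P.lf 0 12558723 0) (P.cons (P.lf 9520236 0 0) (P.cons (P.lf 529554 0 0) (P.cons (P.lf 0 90810 0) (P.cons (P.lf 0 4575 0) P.nil)))))) (P.cons (P.cons (P.lf 52643628 0 0) (P.cons (P.lf 0 26671566 0) (P.cons (P.lf 2607249 0 0) (P.cons (P.lf 399438 0 0) (P.cons (P.lf 0 45513 0) P.nil))))) (P.cons (P.cons (P.lf 9253695 0 0) (P.cons (P.lf 0 5356617 0) (P.cons (P.lf 578721 0 0) (P.cons (P.lf 82488 0 0) P.nil)))) (P.cons (P.cons (P.lf 0 3693561 0) (P.cons (P.lf 236061 0 0) (P.cons (P.lf 111729 0 0) P.nil))) (P.cons (P.cons (P.lf 0 692589 0) (P.cons (P.lf 137154 0 0) P.nil)) (P.cons (P.cons (P.lf 15588 0 0) P.nil) P.nil)))))) 108360)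
 EL.nil)))
noncomputable def S140_169_586_660_23 : EL := (EL.cons 4 (TM.mk (P.cons (P.cons (P.lf 1158575169 0 0) (P.cons (P.lf 0 149614638 0) (P.cons (P.lf 8186307 0 0) (P.lf 909582 0 0)))) (P.cons (P.cons (P.lf 0 307282221 0) (P.cons (P.lf 0 23716428 0) (P.cons (P.lf 1297665 0 0) (P.lf 144177 0 0)))) (P.cons (P.cons (P.lf 0 94694670 0) (P.cons (P.lf 6193173 0 0) (P.cons (P.lf 0 338868 0) (P.lf 0 37650 0)))) (P.cons (P.cons (P.lf 8716983 0 0) (P.cons (P.lf 1355478 0 0) (P.cons (P.lf 0 74160 0) P.nil))) (P.cons (P.cons (P.lf 2894607 0 0) (P.cons (P.lf 0 41781 0) P.nil)) (P.cons (P.cons (P.lf 10998 0 0) P.nil) P.nil)))))) 134922)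
 (EL.cons 8 (TM.mk (P.cons (P.cons (P.lf 0 762259863 0) (P.cons (P.lf 98435772 0 0) (P.cons (P.lf 0 5386011 0) (P.lf 0 598446 0)))) (P.cons (P.cons (P.lf 364325289 0 0) (P.cons (P.lf 0 5336511 0) (P.cons (P.lf 291990 0 0) (P.lf 32439 0 0)))) (P.cons (P.cons (P.lf 4160145 0 0) (P.cons (P.lf 0 5439603 0) (P.cons (P.lf 297630 0 0) (P.lf 33066 0 0)))) (P.cons (P.cons (P.lf 0 13107849 0) (P.cons (P.lf 43728 0 0) (P.cons (P.lf 0 2391 0) P.nil))) (P.cons (P.cons (P.lf 0 148488 0) (P.cons (P.lf 124683 0 0) P.nil)) (P.cons (P.cons (P.lf 209775 0 0) P.nil) P.nil)))))) 77346)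
 (EL.cons 11 (TM.mk (P.cons (P.cons (P.lf 0 807560562 0) (P.cons (P.lf 101329443 0 0) (P.cons (P.lf 15470382 0 0) (P.cons (P.lf 0 472617 0) (P.lf 0 39384 0))))) (P.cons (P.cons (P.lf 0 111165609 0) (P.cons (P.lf 13948611 0 0) (P.cons (P.lf 2129589 0 0) (P.cons (P.lf 0 65055 0) (P.lf 0 5421 0))))) (P.cons (P.cons (P.lf 18045555 0 0) (P.cons (P.lf 0 2264283 0) (P.cons (P.lf 0 345696 0) (P.cons (P.lf 10560 0 0) P.nil)))) (P.cons (P.cons (P.lf 3521721 0 0) (P.cons (P.lf 0 441888 0) (P.cons (P.lf 0 67464 0) P.nil))) (P.cons (P.cons (P.lf 23238 0 0) (P.cons (P.lf 0 2913 0) P.nil)) (P.cons (P.cons (P.lf 0 28701 0) P.nil) P.nil)))))) 17604)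
 EL.nil)))
noncomputable def S140_169_586_660_24 : EL := (EL.cons 4 (TM.mk (P.cons (P.cons (P.lf 0 165209475 0) (P.cons (P.lf 0 11336130 0) (P.cons (P.lf 4839261 0 0) (P.cons (P.lf 0 392772 0) (P.cons (P.lf 0 38667 0) (P.cons (P.lf 2805 0 0) P.nil)))))) (P.cons (P.cons (P.lf 132462900 0 0) (P.cons (P.lf 0 10847775 0) (P.cons (P.lf 2740602 0 0) (P.cons (P.lf 0 169005 0) (P.cons (P.lf 0 19677 0) P.nil))))) (P.cons (P.cons (P.lf 0 20608023 0) (P.cons (P.lf 3321114 0 0) (P.cons (P.lf 14400 0 0) (P.cons (P.lf 0 41652 0) P.nil)))) (P.cons (P.cons (P.lf 0 7698558 0) (P.cons (P.lf 1793667 0 0) (P.cons (P.lf 0 184323 0) P.nil))) (P.cons (P.cons (P.lf 1683006 0 0) (P.cons (P.lf 8895 0 0) P.nil)) (P.cons (P.cons (P.lf 318006 0 0) P.nil) P.nil)))))) 302472)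
 (EL.cons 8 (TM.mk (P.cons (P.cons (P.lf 108696057 0 0) (P.cons (P.lf 7458363 0 0) (P.cons (P.lf 0 3183888 0) (P.cons (P.lf 258417 0 0) (P.cons (P.lf 25440 0 0) (P.cons (P.lf 0 1845 0) P.nil)))))) (P.cons (P.cons (P.lf 0 110274051 0) (P.cons (P.lf 5550444 0 0) (P.cons (P.lf 0 1125813 0) (P.cons (P.lf 56220 0 0) (P.cons (P.lf 7533 0 0) P.nil))))) (P.cons (P.cons (P.lf 34256421 0 0) (P.cons (P.lf 0 3555237 0) (P.cons (P.lf 310887 0 0) (P.cons (P.lf 8880 0 0) P.nil)))) (P.cons (P.cons (P.lf 184197 0 0) (P.cons (P.lf 0 591837 0) (P.cons (P.lf 95283 0 0) P.nil))) (P.cons (P.cons (P.lf 0 1672785 0) (P.cons (P.lf 186342 0 0) P.nil)) (P.cons (P.cons (P.lf 66759 0 0) P.nil) P.nil)))))) 169551)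
 (EL.cons 11 (TM.mk (P.cons (P.cons (P.lf 115155804 0 0) (P.cons (P.lf 8323173 0 0) (P.cons (P.lf 0 6309444 0) (P.cons (P.lf 0 350955 0) (P.cons (P.lf 60183 0 0) (P.cons (P.lf 3033 0 0) P.nil)))))) (P.cons (P.cons (P.lf 0 45936483 0) (P.cons (P.lf 16877841 0 0) (P.cons (P.lf 0 1122633 0) (P.cons (P.lf 0 231054 0) (P.cons (P.lf 24390 0 0) P.nil))))) (P.cons (P.cons (P.lf 0 3690060 0) (P.cons (P.lf 1788912 0 0) (P.cons (P.lf 0 168225 0) (P.cons (P.lf 0 26517 0) P.nil)))) (P.cons (P.cons (P.lf 3304800 0 0) (P.cons (P.lf 0 636225 0) (P.cons (P.lf 0 23388 0) P.nil))) (P.cons (P.cons (P.lf 276747 0 0) (P.cons (P.lf 0 104394 0) P.nil)) (P.cons (P.cons (P.lf 0 73995 0) P.nil) P.nil)))))) 100572)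
 EL.nil)))
noncomputable def S140_169_586_660_25 : EL := (EL.cons 4 (TM.mk (P.cons (P.cons (P.lf 0 767834547 0) (P.cons (P.lf 99155664 0 0) (P.cons (P.lf 0 5425395 0) (P.lf 0 602817 0)))) (P.cons (P.cons (P.lf 277310238 0 0) (P.cons (P.lf 6205374 0 0) (P.cons (P.lf 0 339531 0) (P.lf 0 37719 0)))) (P.cons (P.cons (P.lf 49250940 0 0) (P.cons (P.lf 0 6391029 0) (P.cons (P.lf 349692 0 0) (P.lf 38853 0 0)))) (P.cons (P.cons (P.lf 0 13360980 0) (P.cons (P.lf 0 632658 0) (P.cons (P.lf 34611 0 0) P.nil))) (P.cons (P.cons (P.lf 0 1885074 0) (P.cons (P.lf 147756 0 0) P.nil)) (P.cons (P.cons (P.lf 223089 0 0) P.nil) P.nil)))))) 131091)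
 (EL.cons 8 (TM.mk (P.cons (P.cons (P.lf 505180392 0 0) (P.cons (P.lf 0 65237361 0) (P.cons (P.lf 3569526 0 0) (P.lf 396615 0 0)))) (P.cons (P.cons (P.lf 0 289917363 0) (P.cons (P.lf 9795240 0 0) (P.cons (P.lf 0 535956 0) (P.lf 0 59547 0)))) (P.cons (P.cons (P.lf 16439376 0 0) (P.cons (P.lf 3778065 0 0) (P.cons (P.lf 0 206718 0) (P.lf 0 22965 0)))) (P.cons (P.cons (P.lf 10824039 0 0) (P.cons (P.lf 0 399540 0) (P.cons (P.lf 21861 0 0) P.nil))) (P.cons (P.cons (P.lf 0 689811 0) (P.cons (P.lf 0 109902 0) P.nil)) (P.cons (P.cons (P.lf 0 221730 0) P.nil) P.nil)))))) 80946)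
 (EL.cons 11 (TM.mk (P.cons (P.cons (P.lf 535202994 0 0) (P.cons (P.lf 0 67155114 0) (P.cons (P.lf 0 10252848 0) (P.cons (P.lf 313221 0 0) (P.lf 26100 0 0))))) (P.cons (P.cons (P.lf 22329450 0 0) (P.cons (P.lf 0 2801808 0) (P.cons (P.lf 0 427761 0) (P.cons (P.lf 13065 0 0) (P.lf 1086 0 0))))) (P.cons (P.cons (P.lf 0 23230401 0) (P.cons (P.lf 2914857 0 0) (P.cons (P.lf 445023 0 0) (P.cons (P.lf 0 13596 0) P.nil)))) (P.cons (P.cons (P.lf 0 1790352 0) (P.cons (P.lf 224643 0 0) (P.cons (P.lf 34296 0 0) P.nil))) (P.cons (P.cons (P.lf 311874 0 0) (P.cons (P.lf 0 39132 0) P.nil)) (P.cons (P.cons (P.lf 41856 0 0) P.nil) P.nil)))))) 25131)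
 EL.nil)))
noncomputable def S140_169_586_660_26 : EL := (EL.cons 4 (TM.mk (P.cons (P.cons (P.lf 109490988 0 0) (P.cons (P.lf 7512909 0 0) (P.cons (P.lf 0 3207174 0) (P.cons (P.lf 260307 0 0) (P.cons (P.lf 25626 0 0) (P.cons (P.lf 0 1860 0) P.nil)))))) (P.cons (P.cons (P.lf 0 98292489 0) (P.cons (P.lf 6468510 0 0) (P.cons (P.lf 0 1508628 0) (P.cons (P.lf 87033 0 0) (P.cons (P.lf 10581 0 0) P.nil))))) (P.cons (P.cons (P.lf 21219882 0 0) (P.cons (P.lf 0 2949732 0) (P.cons (P.lf 189888 0 0) (P.cons (P.lf 14814 0 0) P.nil)))) (P.cons (P.cons (P.lf 4476165 0 0) (P.cons (P.lf 0 1034388 0) (P.cons (P.lf 137490 0 0) P.nil))) (P.cons (P.cons (P.lf 0 1705362 0) (P.cons (P.lf 125271 0 0) P.nil)) (P.cons (P.cons (P.lf 0 146436 0) P.nil) P.nil)))))) 258561)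
 (EL.cons 8 (TM.mk (P.cons (P.cons (P.lf 0 72037263 0) (P.cons (P.lf 0 4942959 0) (P.cons (P.lf 2110089 0 0) (P.cons (P.lf 0 171264 0) (P.cons (P.lf 0 16860 0) (P.cons (P.lf 1221 0 0) P.nil)))))) (P.cons (P.cons (P.lf 79993932 0 0) (P.cons (P.lf 0 3204303 0) (P.cons (P.lf 543690 0 0) (P.cons (P.lf 0 20829 0) (P.cons (P.lf 0 3375 0) P.nil))))) (P.cons (P.cons (P.lf 0 29148594 0) (P.cons (P.lf 2747913 0 0) (P.cons (P.lf 0 294186 0) (P.cons (P.lf 0 966 0) P.nil)))) (P.cons (P.cons (P.lf 1485390 0 0) (P.cons (P.lf 195312 0 0) (P.cons (P.lf 0 49341 0) P.nil))) (P.cons (P.cons (P.lf 1293453 0 0) (P.cons (P.lf 0 179574 0) P.nil)) (P.cons (P.cons (P.lf 0 146904 0) P.nil) P.nil)))))) 135669)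
 (EL.cons 11 (TM.mk (P.cons (P.cons (P.lf 0 76318401 0) (P.cons (P.lf 0 5516103 0) (P.cons (P.lf 4181523 0 0) (P.cons (P.lf 232593 0 0) (P.cons (P.lf 0 39885 0) (P.cons (P.lf 0 2010 0) P.nil)))))) (P.cons (P.cons (P.lf 37765539 0 0) (P.cons (P.lf 0 10656441 0) (P.cons (P.lf 342861 0 0) (P.cons (P.lf 130815 0 0) (P.cons (P.lf 0 12336 0) P.nil))))) (P.cons (P.cons (P.lf 124257 0 0) (P.cons (P.lf 0 69177 0) (P.cons (P.lf 7272 0 0) (P.cons (P.lf 1056 0 0) P.nil)))) (P.cons (P.cons (P.lf 0 2660334 0) (P.cons (P.lf 623490 0 0) (P.cons (P.lf 0 1233 0) P.nil))) (P.cons (P.cons (P.lf 4230 0 0) (P.cons (P.lf 38439 0 0) P.nil)) (P.cons (P.cons (P.lf 84354 0 0) P.nil) P.nil)))))) 86469)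
 EL.nil)))
noncomputable def S140_169_586_660_27 : EL := (EL.cons 13 (TM.mk (P.lf 0 4294967296 0) 0)
 EL.nil)
noncomputable def S140_169_586_660_28 : EL := (EL.cons 13 (TM.mk (P.cons (P.cons (P.lf 612449943 0 0) (P.cons (P.lf 121114100 0 0) (P.cons (P.lf 0 6626876 0) (P.lf 0 736316 0)))) (P.cons (P.cons (P.lf 0 328618173 0) (P.cons (P.lf 42436684 0 0) (P.cons (P.lf 0 2321964 0) (P.lf 0 257992 0)))) (P.cons (P.cons (P.lf 39296559 0 0) (P.cons (P.lf 3916448 0 0) (P.cons (P.lf 0 214288 0) (P.lf 0 23808 0)))) (P.cons (P.cons (P.lf 7494632 0 0) (P.cons (P.lf 0 240988 0) (P.cons (P.lf 13184 0 0) P.nil))) (P.cons (P.cons (P.lf 0 97161 0) (P.cons (P.lf 0 61308 0) P.nil)) (P.cons (P.cons (P.lf 0 72547 0) P.nil) P.nil)))))) 19447)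
 EL.nil)
noncomputable def S140_169_586_660_29 : EL := (EL.cons 13 (TM.mk (P.cons (P.cons (P.lf 0 87333594 0) (P.cons (P.lf 0 34541042 0) (P.cons (P.lf 0 1525358 0) (P.cons (P.lf 583736 0 0) (P.cons (P.lf 31301 0 0) (P.cons (P.lf 0 2272 0) P.nil)))))) (P.cons (P.cons (P.lf 93720006 0 0) (P.cons (P.lf 6430758 0 0) (P.cons (P.lf 0 2745215 0) (P.cons (P.lf 222812 0 0) (P.cons (P.lf 21935 0 0) P.nil))))) (P.cons (P.cons (P.lf 0 36350510 0) (P.cons (P.lf 3160661 0 0) (P.cons (P.lf 0 813118 0) (P.cons (P.lf 50840 0 0) P.nil)))) (P.cons (P.cons (P.lf 3875920 0 0) (P.cons (P.lf 0 531185 0) (P.cons (P.lf 0 34736 0) P.nil))) (P.cons (P.cons (P.lf 815032 0 0) (P.cons (P.lf 0 233681 0) P.nil)) (P.cons (P.cons (P.lf 0 131321 0) P.nil) P.nil)))))) 142317)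
 EL.nil)
noncomputable def S140_169_586_660_30 : EL := (EL.cons 13 (TM.mk (P.cons (P.lf 2846448260 0 0) (P.cons (P.lf 0 273072892 0) (P.cons (P.lf 0 22353452 0) (P.cons (P.lf 0 133644 0) (P.cons (P.lf 68648 0 0) (P.cons (P.lf 3668 0 0) P.nil)))))) 396)
 EL.nil)
noncomputable def S140_169_586_660_31 : EL := (EL.cons 13 (TM.mk (P.cons (P.cons (P.lf 0 405895308 0) (P.cons (P.lf 0 80267204 0) (P.cons (P.lf 4391898 0 0) (P.lf 487986 0 0)))) (P.cons (P.cons (P.lf 256727939 0 0) (P.cons (P.lf 0 20424101 0) (P.cons (P.lf 1117524 0 0) (P.lf 124166 0 0)))) (P.cons (P.cons (P.lf 0 43749335 0) (P.cons (P.lf 732871 0 0) (P.cons (P.lf 0 40102 0) (P.lf 0 4456 0)))) (P.cons (P.cons (P.lf 0 4159788 0) (P.cons (P.lf 633352 0 0) (P.cons (P.lf 0 34652 0) P.nil))) (P.cons (P.cons (P.lf 725406 0 0) (P.cons (P.lf 45077 0 0) P.nil)) (P.cons (P.cons (P.lf 86860 0 0) P.nil) P.nil)))))) 32935)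
 EL.nil)
noncomputable def S140_169_586_660_32 : EL := (EL.cons 13 (TM.mk (P.cons (P.cons (P.lf 57879499 0 0) (P.cons (P.lf 22891743 0 0) (P.cons (P.lf 1010916 0 0) (P.cons (P.lf 0 386865 0) (P.cons (P.lf 0 20744 0) (P.cons (P.lf 1505 0 0) P.nil)))))) (P.cons (P.cons (P.lf 0 67664679 0) (P.cons (P.lf 0 6458033 0) (P.cons (P.lf 1722382 0 0) (P.cons (P.lf 0 110552 0) (P.cons (P.lf 0 12547 0) P.nil))))) (P.cons (P.cons (P.lf 29595110 0 0) (P.cons (P.lf 0 1865602 0) (P.cons (P.lf 356407 0 0) (P.cons (P.lf 0 16489 0) P.nil)))) (P.cons (P.cons (P.lf 0 4394829 0) (P.cons (P.lf 585386 0 0) (P.cons (P.lf 0 43012 0) P.nil))) (P.cons (P.cons (P.lf 0 478601 0) (P.cons (P.lf 138299 0 0) P.nil)) (P.cons (P.cons (P.lf 156469 0 0) P.nil) P.nil)))))) 150872)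
 EL.nil)
noncomputable def S140_169_586_660_33 : EL := (EL.cons 14 (TM.mk (P.lf 8589934592 0 0) 0)
 EL.nil)
noncomputable def S140_169_586_660_34 : EL := (EL.cons 14 (TM.mk (P.cons (P.cons (P.lf 0 1224899886 0) (P.cons (P.lf 0 242228200 0) (P.cons (P.lf 13253752 0 0) (P.lf 1472632 0 0)))) (P.cons (P.cons (P.lf 657236346 0 0) (P.cons (P.lf 0 84873368 0) (P.cons (P.lf 4643928 0 0) (P.lf 515984 0 0)))) (P.cons (P.cons (P.lf 0 78593118 0) (P.cons (P.lf 0 7832896 0) (P.cons (P.lf 428576 0 0) (P.lf 47616 0 0)))) (P.cons (P.cons (P.lf 0 14989264 0) (P.cons (P.lf 481976 0 0) (P.cons (P.lf 0 26368 0) P.nil))) (P.cons (P.cons (P.lf 194322 0 0) (P.cons (P.lf 122616 0 0) P.nil)) (P.cons (P.cons (P.lf 145094 0 0) P.nil) P.nil)))))) 38894)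
 EL.nil)
noncomputable def S140_169_586_660_35 : EL := (EL.cons 14 (TM.mk (P.cons (P.cons (P.lf 174667188 0 0) (P.cons (P.lf 69082084 0 0) (P.cons (P.lf 3050716 0 0) (P.cons (P.lf 0 1167472 0) (P.cons (P.lf 0 62602 0) (P.cons (P.lf 4544 0 0) P.nil)))))) (P.cons (P.cons (P.lf 0 187440012 0) (P.cons (P.lf 0 12861516 0) (P.cons (P.lf 5490430 0 0) (P.cons (P.lf 0 445624 0) (P.cons (P.lf 0 43870 0) P.nil))))) (P.cons (P.cons (P.lf 72701020 0 0) (P.cons (P.lf 0 6321322 0) (P.cons (P.lf 1626236 0 0) (P.cons (P.lf 0 101680 0) P.nil)))) (P.cons (P.cons (P.lf 0 7751840 0) (P.cons (P.lf 1062370 0 0) (P.cons (P.lf 69472 0 0) P.nil))) (P.cons (P.cons (P.lf 0 1630064 0) (P.cons (P.lf 467362 0 0) P.nil)) (P.cons (P.cons (P.lf 262642 0 0) P.nil) P.nil)))))) 284634)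
 EL.nil)
noncomputable def S140_169_586_660_36 : EL := (EL.cons 14 (TM.mk (P.cons (P.lf 0 5692896520 0) (P.cons (P.lf 546145784 0 0) (P.cons (P.lf 44706904 0 0) (P.cons (P.lf 267288 0 0) (P.cons (P.lf 0 137296 0) (P.cons (P.lf 0 7336 0) P.nil)))))) 792)
 EL.nil)
noncomputable def S140_169_586_660_37 : EL := (EL.cons 14 (TM.mk (P.cons (P.cons (P.lf 811790616 0 0) (P.cons (P.lf 160534408 0 0) (P.cons (P.lf 0 8783796 0) (P.lf 0 975972 0)))) (P.cons (P.cons (P.lf 0 513455878 0) (P.cons (P.lf 40848202 0 0) (P.cons (P.lf 0 2235048 0) (P.lf 0 248332 0)))) (P.cons (P.cons (P.lf 87498670 0 0) (P.cons (P.lf 0 1465742 0) (P.cons (P.lf 80204 0 0) (P.lf 8912 0 0)))) (P.cons (P.cons (P.lf 8319576 0 0) (P.cons (P.lf 0 1266704 0) (P.cons (P.lf 69304 0 0) P.nil))) (P.cons (P.cons (P.lf 0 1450812 0) (P.cons (P.lf 0 90154 0) P.nil)) (P.cons (P.cons (P.lf 0 173720 0) P.nil) P.nil))))))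 65870)
 EL.nil)
noncomputable def S140_169_586_660_38 : EL := (EL.cons 14 (TM.mk (P.cons (P.cons (P.lf 0 115758998 0) (P.cons (P.lf 0 45783486 0) (P.cons (P.lf 0 2021832 0) (P.cons (P.lf 773730 0 0) (P.cons (P.lf 41488 0 0) (P.cons (P.lf 0 3010 0) P.nil)))))) (P.cons (P.cons (P.lf 135329358 0 0) (P.cons (P.lf 12916066 0 0) (P.cons (P.lf 0 3444764 0) (P.cons (P.lf 221104 0 0) (P.cons (P.lf 25094 0 0) P.nil))))) (P.cons (P.cons (P.lf 0 59190220 0) (P.cons (P.lf 3731204 0 0) (P.cons (P.lf 0 712814 0) (P.cons (P.lf 32978 0 0) P.nil)))) (P.cons (P.cons (P.lf 8789658 0 0) (P.cons (P.lf 0 1170772 0) (P.cons (P.lf 86024 0 0) P.nil))) (P.cons (P.cons (P.lf 957202 0 0) (P.cons (P.lf 0 276598 0) P.nil)) (P.cons (P.cons (P.lf 0 312938 0) P.nil) P.nil)))))) 301744)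
 EL.nil)
noncomputable def S140_169_586_660_39 : EL := (EL.cons 14 (TM.mk (P.cons (P.lf 3772912404 0 0) (P.cons (P.lf 0 723905728 0) (P.cons (P.lf 0 24534334 0) (P.cons (P.lf 5330620 0 0) (P.cons (P.lf 448650 0 0) (P.cons (P.lf 0 4952 0) P.nil)))))) 3630)
 EL.nil)
noncomputable def S140_169_586_660_40 : EL := (EL.cons 14 (TM.mk (P.cons (P.cons (P.lf 0 538006420 0) (P.cons (P.lf 0 106392634 0) (P.cons (P.lf 5821376 0 0) (P.lf 646816 0 0)))) (P.cons (P.cons (P.lf 391901378 0 0) (P.cons (P.lf 0 16865016 0) (P.cons (P.lf 922784 0 0) (P.lf 102528 0 0)))) (P.cons (P.cons (P.lf 0 86409272 0) (P.cons (P.lf 4404036 0 0) (P.cons (P.lf 0 240974 0) (P.lf 0 26774 0)))) (P.cons (P.cons (P.lf 0 2597632 0) (P.cons (P.lf 963896 0 0) (P.cons (P.lf 0 52738 0) P.nil))) (P.cons (P.cons (P.lf 1916908 0 0) (P.cons (P.lf 0 29710 0) P.nil)) (P.cons (P.cons (P.lf 76424 0 0) P.nil) P.nil))))))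 86580)
 EL.nil)
noncomputable def S140_169_586_660_41 : EL := (EL.cons 14 (TM.mk (P.cons (P.cons (P.lf 76718162 0 0) (P.cons (P.lf 30342564 0 0) (P.cons (P.lf 1339950 0 0) (P.cons (P.lf 0 512782 0) (P.cons (P.lf 0 27496 0) (P.cons (P.lf 1994 0 0) P.nil)))))) (P.cons (P.cons (P.lf 0 97048156 0) (P.cons (P.lf 0 11470900 0) (P.cons (P.lf 2154436 0 0) (P.cons (P.lf 0 97340 0) (P.cons (P.lf 0 13992 0) P.nil))))) (P.cons (P.cons (P.lf 47229478 0 0) (P.cons (P.lf 0 1889904 0) (P.cons (P.lf 242870 0 0) (P.cons (P.lf 0 3770 0) P.nil)))) (P.cons (P.cons (P.lf 0 8887832 0) (P.cons (P.lf 1078944 0 0) (P.cons (P.lf 0 120322 0) P.nil))) (P.cons (P.cons (P.lf 0 377530 0) (P.cons (P.lf 129428 0 0) P.nil)) (P.cons (P.cons (P.lf 310096 0 0) P.nil) P.nil)))))) 269484)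
 EL.nil)
noncomputable def S140_169_586_660_42 : EL := (EL.cons 14 (TM.mk (P.cons (P.lf 0 2500461402 0) (P.cons (P.lf 719642336 0 0) (P.cons (P.lf 0 10129460 0) (P.cons (P.lf 0 8742920 0) (P.cons (P.lf 0 168938 0) (P.cons (P.lf 67134 0 0) P.nil)))))) 7070)
 EL.nil)
noncomputable def S140_169_586_660_43 : EL := (EL.cons 14 (TM.mk (P.cons (P.cons (P.lf 356558580 0 0) (P.cons (P.lf 70510694 0 0) (P.cons (P.lf 0 3858060 0) (P.lf 0 428670 0)))) (P.cons (P.cons (P.lf 0 293935174 0) (P.cons (P.lf 4412712 0 0) (P.cons (P.lf 0 241444 0) (P.lf 0 26824 0)))) (P.cons (P.cons (P.lf 79383808 0 0) (P.cons (P.lf 0 4544734 0) (P.cons (P.lf 248670 0 0) (P.lf 27630 0 0)))) (P.cons (P.cons (P.lf 0 1749384 0) (P.cons (P.lf 0 449890 0) (P.cons (P.lf 24614 0 0) P.nil))) (P.cons (P.cons (P.lf 0 1864498 0) (P.cons (P.lf 105070 0 0) P.nil)) (P.cons (P.cons (P.lf 49212 0 0) P.nil) P.nil))))))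 91750)
 EL.nil)
noncomputable def S140_169_586_660_44 : EL := (EL.cons 14 (TM.mk (P.cons (P.cons (P.lf 0 50844224 0) (P.cons (P.lf 0 20109242 0) (P.cons (P.lf 0 888038 0) (P.cons (P.lf 339840 0 0) (P.cons (P.lf 18222 0 0) (P.cons (P.lf 0 1322 0) P.nil)))))) (P.cons (P.cons (P.lf 69195452 0 0) (P.cons (P.lf 9531400 0 0) (P.cons (P.lf 0 1342638 0) (P.cons (P.lf 31908 0 0) (P.cons (P.lf 7524 0 0) P.nil))))) (P.cons (P.cons (P.lf 0 37071894 0) (P.cons (P.lf 681118 0 0) (P.cons (P.lf 0 17006 0) (P.cons (P.lf 0 6358 0) P.nil)))) (P.cons (P.cons (P.lf 8390456 0 0) (P.cons (P.lf 0 893976 0) (P.cons (P.lf 106438 0 0) P.nil))) (P.cons (P.cons (P.lf 0 73318 0) (P.cons (P.lf 0 27856 0) P.nil)) (P.cons (P.cons (P.lf 0 272818 0) P.nil) P.nil)))))) 226340)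
 EL.nil)
noncomputable def S140_169_586_660_45 : EL := (EL.cons 14 (TM.mk (P.cons (P.cons (P.lf 0 24907036 0) (P.cons (P.lf 0 14776358 0) (P.cons (P.lf 0 2113572 0) (P.cons (P.lf 216984 0 0) (P.cons (P.lf 58398 0 0) (P.cons (P.lf 0 160 0) P.nil)))))) (P.cons (P.cons (P.lf 40092606 0 0) (P.cons (P.lf 10679474 0 0) (P.cons (P.lf 0 1064168 0) (P.cons (P.lf 0 214888 0) (P.cons (P.lf 37632 0 0) P.nil))))) (P.cons (P.cons (P.lf 0 26306544 0) (P.cons (P.lf 0 1072088 0) (P.cons (P.lf 422170 0 0) (P.cons (P.lf 0 122890 0) P.nil)))) (P.cons (P.cons (P.lf 8078098 0 0) (P.cons (P.lf 0 957032 0) (P.cons (P.lf 124522 0 0) P.nil))) (P.cons (P.cons (P.lf 0 694812 0) (P.cons (P.lf 144722 0 0) P.nil)) (P.cons (P.cons (P.lf 0 219398 0) P.nil) P.nil)))))) 423868)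
 EL.nil)
noncomputable def S140_169_586_660_46 : EL := (EL.cons 15 (TM.mk (P.lf 4294967296 0 0) 0)
 EL.nil)
noncomputable def S140_169_586_660_47 : EL := (EL.cons 15 (TM.mk (P.cons (P.cons (P.lf 0 612449943 0) (P.cons (P.lf 0 121114100 0) (P.cons (P.lf 6626876 0 0) (P.lf 736316 0 0)))) (P.cons (P.cons (P.lf 328618173 0 0) (P.cons (P.lf 0 42436684 0) (P.cons (P.lf 2321964 0 0) (P.lf 257992 0 0)))) (P.cons (P.cons (P.lf 0 39296559 0) (P.cons (P.lf 0 3916448 0) (P.cons (P.lf 214288 0 0) (P.lf 23808 0 0)))) (P.cons (P.cons (P.lf 0 7494632 0) (P.cons (P.lf 240988 0 0) (P.cons (P.lf 0 13184 0) P.nil))) (P.cons (P.cons (P.lf 97161 0 0) (P.cons (P.lf 61308 0 0) P.nil)) (P.cons (P.cons (P.lf 72547 0 0) P.nil) P.nil)))))) 19447)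
 EL.nil)
noncomputable def S140_169_586_660_48 : EL := (EL.cons 15 (TM.mk (P.cons (P.cons (P.lf 87333594 0 0) (P.cons (P.lf 34541042 0 0) (P.cons (P.lf 1525358 0 0) (P.cons (P.lf 0 583736 0) (P.cons (P.lf 0 31301 0) (P.cons (P.lf 2272 0 0) P.nil)))))) (P.cons (P.cons (P.lf 0 93720006 0) (P.cons (P.lf 0 6430758 0) (P.cons (P.lf 2745215 0 0) (P.cons (P.lf 0 222812 0) (P.cons (P.lf 0 21935 0) P.nil))))) (P.cons (P.cons (P.lf 36350510 0 0) (P.cons (P.lf 0 3160661 0) (P.cons (P.lf 813118 0 0) (P.cons (P.lf 0 50840 0) P.nil)))) (P.cons (P.cons (P.lf 0 3875920 0) (P.cons (P.lf 531185 0 0) (P.cons (P.lf 34736 0 0) P.nil))) (P.cons (P.cons (P.lf 0 815032 0) (P.cons (P.lf 233681 0 0) P.nil)) (P.cons (P.cons (P.lf 131321 0 0) P.nil) P.nil)))))) 142317)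
 EL.nil)
noncomputable def S140_169_586_660 : SL := (SL.cons S140_169_586_660_0 (SL.cons S140_169_586_660_1 (SL.cons S140_169_586_660_2 (SL.cons S140_169_586_660_3 (SL.cons S140_169_586_660_4 (SL.cons S140_169_586_660_5 (SL.cons S140_169_586_660_6 (SL.cons S140_169_586_660_7 (SL.cons S140_169_586_660_8 (SL.cons S140_169_586_660_9 (SL.cons S140_169_586_660_10 (SL.cons S140_169_586_660_11 (SL.cons S140_169_586_660_12 (SL.cons S140_169_586_660_13 (SL.cons S140_169_586_660_14 (SL.cons S140_169_586_660_15 (SL.cons S140_169_586_660_16 (SL.cons S140_169_586_660_17 (SL.cons S140_169_586_660_18 (SL.cons S140_169_586_660_19 (SL.cons S140_169_586_660_20 (SL.cons S140_169_586_660_21 (SL.cons S140_169_586_660_22 (SL.cons S140_169_586_660_23 (SL.cons S140_169_586_660_24 (SL.cons S140_169_586_660_25 (SL.cons S140_169_586_660_26 (SL.cons S140_169_586_660_27 (SL.cons S140_169_586_660_28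 (SL.cons S140_169_586_660_29 (SL.cons S140_169_586_660_30 (SL.cons S140_169_586_660_31 (SL.cons S140_169_586_660_32 (SL.cons S140_169_586_660_33 (SL.cons S140_169_586_660_34 (SL.cons S140_169_586_660_35 (SL.cons S140_169_586_660_36 (SL.cons S140_169_586_660_37 (SL.cons S140_169_586_660_38 (SL.cons S140_169_586_660_39 (SL.cons S140_169_586_660_40 (SL.cons S140_169_586_660_41 (SL.cons S140_169_586_660_42 (SL.cons S140_169_586_660_43 (SL.cons S140_169_586_660_44 (SL.cons S140_169_586_660_45 (SL.cons S140_169_586_660_46 (SL.cons S140_169_586_660_47 (SL.cons S140_169_586_660_48 SL.nil)))))))))))))))))))))))))))))))))))))))))))))))))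
noncomputable def S140_169_660_734_0 : EL := (EL.cons 0 (TM.mk (P.cons (P.lf 5139680571 0 0) (P.cons (P.lf 636245268 0 0) (P.cons (P.lf 21563379 0 0) (P.cons (P.lf 0 4685115 0) (P.cons (P.lf 0 394321 0) (P.cons (P.lf 4352 0 0) P.nil)))))) 3197)
 (EL.cons 1 (TM.mk (P.cons (P.lf 0 1792040857 0) (P.cons (P.lf 0 37383279 0) (P.cons (P.lf 39281548 0 0) (P.cons (P.lf 2177913 0 0) (P.cons (P.lf 0 137038 0) (P.cons (P.lf 0 19477 0) P.nil)))))) 1484)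
 (EL.cons 5 (TM.mk (P.cons (P.lf 5474002426 0 0) (P.cons (P.lf 0 226220540 0) (P.cons (P.lf 0 7666984 0) (P.cons (P.lf 1665814 0 0) (P.cons (P.lf 140204 0 0) (P.cons (P.lf 0 1546 0) P.nil)))))) 969)
 (EL.cons 9 (TM.mk (P.lf 6442450944 0 0) 2)
 EL.nil))))
noncomputable def S140_169_660_734_1 : EL := (EL.cons 0 (TM.mk (P.cons (P.cons (P.lf 0 2670316849 0) (P.cons (P.lf 96024591 0 0) (P.cons (P.lf 0 12365183 0) (P.lf 0 824334 0)))) (P.cons (P.cons (P.lf 836652868 0 0) (P.cons (P.lf 0 17177757 0) (P.cons (P.lf 2212006 0 0) (P.lf 147477 0 0)))) (P.cons (P.cons (P.lf 135950412 0 0) (P.cons (P.lf 0 16425162 0) (P.cons (P.lf 2115080 0 0) (P.lf 140997 0 0)))) (P.cons (P.cons (P.lf 0 33865280 0) (P.cons (P.lf 0 2063818 0) (P.cons (P.lf 265757 0 0) P.nil))) (P.cons (P.cons (P.lf 0 6530812 0) (P.cons (P.lf 159446 0 0) P.nil)) (P.cons (P.cons (P.lf 178110 0 0) P.nil) P.nil))))))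 377763)
 (EL.cons 1 (TM.mk (P.cons (P.cons (P.lf 442171052 0 0) (P.cons (P.lf 24114415 0 0) (P.cons (P.lf 0 3105234 0) (P.lf 0 207007 0)))) (P.cons (P.cons (P.lf 0 352600114 0) (P.cons (P.lf 36757680 0 0) (P.cons (P.lf 0 4733320 0) (P.lf 0 315542 0)))) (P.cons (P.cons (P.lf 82934764 0 0) (P.cons (P.lf 5197381 0 0) (P.cons (P.lf 0 669267 0) (P.lf 0 44610 0)))) (P.cons (P.cons (P.lf 23760655 0 0) (P.cons (P.lf 0 942584 0) (P.cons (P.lf 121373 0 0) P.nil))) (P.cons (P.cons (P.lf 0 1490182 0) (P.cons (P.lf 0 226448 0) P.nil)) (P.cons (P.cons (P.lf 0 547666 0) P.nil) P.nil)))))) 185577)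
 (EL.cons 5 (TM.mk (P.cons (P.cons (P.lf 0 448430154 0) (P.cons (P.lf 0 179952360 0) (P.cons (P.lf 23172664 0 0) (P.lf 1544844 0 0)))) (P.cons (P.cons (P.lf 136187699 0 0) (P.cons (P.lf 0 44982242 0) (P.cons (P.lf 5792412 0 0) (P.lf 386154 0 0)))) (P.cons (P.cons (P.lf 0 126677006 0) (P.cons (P.lf 1125006 0 0) (P.cons (P.lf 0 144866 0) (P.lf 0 9650 0)))) (P.cons (P.cons (P.lf 9888 0 0) (P.cons (P.lf 1023928 0 0) (P.cons (P.lf 0 131848 0) P.nil))) (P.cons (P.cons (P.lf 2667807 0 0) (P.cons (P.lf 17120 0 0) P.nil)) (P.cons (P.cons (P.lf 66078 0 0) P.nil) P.nil)))))) 143921)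
 (EL.cons 9 (TM.mk (P.cons (P.cons (P.lf 0 1233420118 0) (P.cons (P.lf 0 128656128 0) (P.cons (P.lf 16567188 0 0) (P.lf 1104474 0 0)))) (P.cons (P.cons (P.lf 382644943 0 0) (P.cons (P.lf 0 45079308 0) (P.cons (P.lf 5804910 0 0) (P.lf 386988 0 0)))) (P.cons (P.cons (P.lf 0 69122716 0) (P.cons (P.lf 0 4160334 0) (P.cons (P.lf 535728 0 0) (P.lf 35712 0 0)))) (P.cons (P.cons (P.lf 0 10615674 0) (P.cons (P.lf 255996 0 0) (P.cons (P.lf 0 32964 0) P.nil))) (P.cons (P.cons (P.lf 305071 0 0) (P.cons (P.lf 65124 0 0) P.nil)) (P.cons (P.cons (P.lf 114172 0 0) P.nil) P.nil)))))) 31937)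
 (EL.cons 2 (TM.mk (P.cons (P.cons (P.lf 513216784 0 0) (P.cons (P.lf 0 146511793 0) (P.cons (P.lf 0 10958844 0) (P.cons (P.lf 738464 0 0) (P.lf 36922 0 0))))) (P.cons (P.cons (P.lf 70647401 0 0) (P.cons (P.lf 0 20168235 0) (P.cons (P.lf 0 1508549 0) (P.cons (P.lf 101652 0 0) (P.lf 5082 0 0))))) (P.cons (P.cons (P.lf 0 11468219 0) (P.cons (P.lf 3273915 0 0) (P.cons (P.lf 244884 0 0) (P.cons (P.lf 0 16500 0) P.nil)))) (P.cons (P.cons (P.lf 0 2238105 0) (P.cons (P.lf 638926 0 0) (P.cons (P.lf 47787 0 0) P.nil))) (P.cons (P.cons (P.lf 0 14768 0) (P.cons (P.lf 4213 0 0) P.nil)) (P.cons (P.cons (P.lf 18239 0 0) P.nil) P.nil)))))) 17613)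
 (EL.cons 6 (TM.mk (P.cons (P.cons (P.lf 277350837 0 0) (P.cons (P.lf 0 79177395 0) (P.cons (P.lf 0 5922339 0) (P.cons (P.lf 399078 0 0) (P.lf 19953 0 0))))) (P.cons (P.cons (P.lf 97179852 0 0) (P.cons (P.lf 0 27742650 0) (P.cons (P.lf 0 2075103 0) (P.cons (P.lf 139830 0 0) (P.lf 6990 0 0))))) (P.cons (P.cons (P.lf 8968659 0 0) (P.cons (P.lf 0 2560347 0) (P.cons (P.lf 0 191508 0) (P.cons (P.lf 12903 0 0) P.nil)))) (P.cons (P.cons (P.lf 0 551865 0) (P.cons (P.lf 157545 0 0) (P.cons (P.lf 11781 0 0) P.nil))) (P.cons (P.cons (P.lf 0 140397 0) (P.cons (P.lf 40080 0 0) P.nil)) (P.cons (P.cons (P.lf 0 4719 0) P.nil) P.nil)))))) 9624)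
 EL.nil))))))
noncomputable def S140_169_660_734_2 : EL := (EL.cons 0 (TM.mk (P.cons (P.cons (P.lf 834085828 0 0) (P.cons (P.lf 30583413 0 0) (P.cons (P.lf 0 9823209 0) (P.cons (P.lf 1253063 0 0) (P.cons (P.lf 3452 0 0) (P.cons (P.lf 0 13006 0) P.nil)))))) (P.cons (P.cons (P.lf 0 543993581 0) (P.cons (P.lf 15494409 0 0) (P.cons (P.lf 0 4343077 0) (P.cons (P.lf 471656 0 0) (P.cons (P.lf 1370 0 0) P.nil))))) (P.cons (P.cons (P.lf 79062836 0 0) (P.cons (P.lf 0 11062928 0) (P.cons (P.lf 1626359 0 0) (P.cons (P.lf 43004 0 0) P.nil)))) (P.cons (P.cons (P.lf 19074872 0 0) (P.cons (P.lf 0 3460899 0) (P.cons (P.lf 697754 0 0) P.nil))) (P.cons (P.cons (P.lf 0 6789278 0) (P.cons (P.lf 428132 0 0) P.nil)) (P.cons (P.cons (P.lf 0 653134 0) P.nil) P.nil)))))) 1532003)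
 (EL.cons 1 (TM.mk (P.cons (P.cons (P.lf 0 103623833 0) (P.cons (P.lf 0 13190818 0) (P.cons (P.lf 1450136 0 0) (P.cons (P.lf 177222 0 0) (P.cons (P.lf 142 0 0) (P.cons (P.lf 0 547 0) P.nil)))))) (P.cons (P.cons (P.lf 148151959 0 0) (P.cons (P.lf 0 2479096 0) (P.cons (P.lf 0 970604 0) (P.cons (P.lf 353466 0 0) (P.cons (P.lf 757 0 0) P.nil))))) (P.cons (P.cons (P.lf 0 71735312 0) (P.cons (P.lf 2342407 0 0) (P.cons (P.lf 0 926019 0) (P.cons (P.lf 140689 0 0) P.nil)))) (P.cons (P.cons (P.lf 6808395 0 0) (P.cons (P.lf 0 1321263 0) (P.cons (P.lf 93793 0 0) P.nil))) (P.cons (P.cons (P.lf 2370895 0 0) (P.cons (P.lf 0 579417 0) P.nil)) (P.cons (P.cons (P.lf 0 704365 0) P.nil) P.nil)))))) 746743)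
 (EL.cons 5 (TM.mk (P.cons (P.cons (P.lf 0 28937658 0) (P.cons (P.lf 44957242 0 0) (P.cons (P.lf 0 784930 0) (P.cons (P.lf 0 1674754 0) (P.cons (P.lf 0 2939 0) (P.cons (P.lf 11055 0 0) P.nil)))))) (P.cons (P.cons (P.lf 27368147 0 0) (P.cons (P.lf 0 3267205 0) (P.cons (P.lf 3296040 0 0) (P.cons (P.lf 0 712456 0) (P.cons (P.lf 0 1686 0) P.nil))))) (P.cons (P.cons (P.lf 27642311 0 0) (P.cons (P.lf 2798862 0 0) (P.cons (P.lf 113658 0 0) (P.cons (P.lf 0 146107 0) P.nil)))) (P.cons (P.cons (P.lf 0 11481207 0) (P.cons (P.lf 2136186 0 0) (P.cons (P.lf 0 310302 0) P.nil))) (P.cons (P.cons (P.lf 1692936 0 0) (P.cons (P.lf 109717 0 0) P.nil)) (P.cons (P.cons (P.lf 481912 0 0) P.nil) P.nil)))))) 660656)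
 (EL.cons 9 (TM.mk (P.cons (P.cons (P.lf 236140747 0 0) (P.cons (P.lf 49262946 0 0) (P.cons (P.lf 0 3774372 0) (P.cons (P.lf 0 1084602 0) (P.cons (P.lf 0 1509 0) (P.cons (P.lf 5679 0 0) P.nil)))))) (P.cons (P.cons (P.lf 0 146516278 0) (P.cons (P.lf 1978162 0 0) (P.cons (P.lf 1545742 0 0) (P.cons (P.lf 0 480676 0) (P.cons (P.lf 0 1056 0) P.nil))))) (P.cons (P.cons (P.lf 49194297 0 0) (P.cons (P.lf 0 1001130 0) (P.cons (P.lf 610512 0 0) (P.cons (P.lf 0 115435 0) P.nil)))) (P.cons (P.cons (P.lf 0 4146207 0) (P.cons (P.lf 799104 0 0) (P.cons (P.lf 0 54904 0) P.nil))) (P.cons (P.cons (P.lf 0 636198 0) (P.cons (P.lf 231123 0 0) P.nil)) (P.cons (P.cons (P.lf 220318 0 0) P.nil) P.nil)))))) 213650)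
 (EL.cons 2 (TM.mk (P.cons (P.cons (P.lf 0 196512755 0) (P.cons (P.lf 35602008 0 0) (P.cons (P.lf 12687423 0 0) (P.cons (P.lf 0 422623 0) (P.cons (P.lf 0 150226 0) (P.cons (P.lf 0 1428 0) P.nil)))))) (P.cons (P.cons (P.lf 33913141 0 0) (P.cons (P.lf 0 19685289 0) (P.cons (P.lf 3419921 0 0) (P.cons (P.lf 0 19456 0) (P.cons (P.lf 0 63973 0) P.nil))))) (P.cons (P.cons (P.lf 1770463 0 0) (P.cons (P.lf 0 1698896 0) (P.cons (P.lf 456586 0 0) (P.cons (P.lf 0 5591 0) P.nil)))) (P.cons (P.cons (P.lf 0 3712623 0) (P.cons (P.lf 1259291 0 0) (P.cons (P.lf 0 3330 0) P.nil))) (P.cons (P.cons (P.lf 0 198326 0) (P.cons (P.lf 119328 0 0) P.nil)) (P.cons (P.cons (P.lf 101958 0 0) P.nil) P.nil)))))) 184932)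
 (EL.cons 6 (TM.mk (P.cons (P.cons (P.lf 0 106198740 0) (P.cons (P.lf 19239912 0 0) (P.cons (P.lf 6856488 0 0) (P.cons (P.lf 0 228390 0) (P.cons (P.lf 0 81180 0) (P.cons (P.lf 0 768 0) P.nil)))))) (P.cons (P.cons (P.lf 0 4264428 0) (P.cons (P.lf 0 6545346 0) (P.cons (P.lf 3306762 0 0) (P.cons (P.lf 0 59100 0) (P.cons (P.lf 0 51840 0) P.nil))))) (P.cons (P.cons (P.lf 2158182 0 0) (P.cons (P.lf 0 2692506 0) (P.cons (P.lf 814056 0 0) (P.cons (P.lf 0 11058 0) P.nil)))) (P.cons (P.cons (P.lf 0 1722666 0) (P.cons (P.lf 284838 0 0) (P.cons (P.lf 122502 0 0) P.nil))) (P.cons (P.cons (P.lf 0 498240 0) (P.cons (P.lf 157308 0 0) P.nil)) (P.cons (P.cons (P.lf 0 13548 0) P.nil) P.nil)))))) 119694)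
 EL.nil))))))
noncomputable def S140_169_660_734_3 : EL := (EL.cons 0 (TM.mk (P.cons (P.lf 3316036292 0 0) (P.cons (P.lf 0 636245268 0) (P.cons (P.lf 0 21563379 0) (P.cons (P.lf 4685115 0 0) (P.cons (P.lf 394321 0 0) (P.cons (P.lf 0 4352 0) P.nil)))))) 3197)
 (EL.cons 1 (TM.mk (P.cons (P.lf 1792040857 0 0) (P.cons (P.lf 37383279 0 0) (P.cons (P.lf 0 39281548 0) (P.cons (P.lf 0 2177913 0) (P.cons (P.lf 137038 0 0) (P.cons (P.lf 19477 0 0) P.nil)))))) 1484)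
 (EL.cons 5 (TM.mk (P.cons (P.lf 968448518 0 0) (P.cons (P.lf 226220540 0 0) (P.cons (P.lf 7666984 0 0) (P.cons (P.lf 0 1665814 0) (P.cons (P.lf 0 140204 0) (P.cons (P.lf 1546 0 0) P.nil)))))) 962)
 EL.nil)))
noncomputable def S140_169_660_734_4 : EL := (EL.cons 0 (TM.mk (P.cons (P.cons (P.lf 0 634861778 0) (P.cons (P.lf 0 66221441 0) (P.cons (P.lf 8527405 0 0) (P.lf 568490 0 0)))) (P.cons (P.cons (P.lf 318764123 0 0) (P.cons (P.lf 0 10497209 0) (P.cons (P.lf 1351734 0 0) (P.lf 90112 0 0)))) (P.cons (P.cons (P.lf 0 69239605 0) (P.cons (P.lf 2741182 0 0) (P.cons (P.lf 0 352986 0) (P.lf 0 23531 0)))) (P.cons (P.cons (P.lf 0 815340 0) (P.cons (P.lf 599953 0 0) (P.cons (P.lf 0 77255 0) P.nil))) (P.cons (P.cons (P.lf 1639545 0 0) (P.cons (P.lf 0 18492 0) P.nil)) (P.cons (P.cons (P.lf 38155 0 0) P.nil) P.nil)))))) 77907)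
 (EL.cons 1 (TM.mk (P.cons (P.cons (P.lf 0 343089804 0) (P.cons (P.lf 0 35787161 0) (P.cons (P.lf 4608350 0 0) (P.lf 307220 0 0)))) (P.cons (P.cons (P.lf 99279930 0 0) (P.cons (P.lf 0 13285865 0) (P.cons (P.lf 1710834 0 0) (P.lf 114052 0 0)))) (P.cons (P.cons (P.lf 0 9486382 0) (P.cons (P.lf 0 634368 0) (P.cons (P.lf 81686 0 0) (P.lf 5445 0 0)))) (P.cons (P.cons (P.lf 0 5270098 0) (P.cons (P.lf 365420 0 0) (P.cons (P.lf 0 47055 0) P.nil))) (P.cons (P.cons (P.lf 289128 0 0) (P.cons (P.lf 57468 0 0) P.nil)) (P.cons (P.cons (P.lf 126031 0 0) P.nil) P.nil)))))) 43700)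
 (EL.cons 5 (TM.mk (P.cons (P.cons (P.lf 0 185411404 0) (P.cons (P.lf 0 19339974 0) (P.cons (P.lf 2490428 0 0) (P.lf 166026 0 0)))) (P.cons (P.cons (P.lf 14209958 0 0) (P.cons (P.lf 0 11294092 0) (P.cons (P.lf 1454352 0 0) (P.lf 96954 0 0)))) (P.cons (P.cons (P.lf 1577620 0 0) (P.cons (P.lf 0 2361420 0) (P.cons (P.lf 304082 0 0) (P.lf 20270 0 0)))) (P.cons (P.cons (P.lf 0 3248658 0) (P.cons (P.lf 0 127984 0) (P.cons (P.lf 16480 0 0) P.nil))) (P.cons (P.cons (P.lf 0 481256 0) (P.cons (P.lf 28282 0 0) P.nil)) (P.cons (P.cons (P.lf 24490 0 0) P.nil) P.nil)))))) 26778)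
 EL.nil)))
noncomputable def S140_169_660_734_5 : EL := (EL.cons 0 (TM.mk (P.cons (P.cons (P.lf 121545555 0 0) (P.cons (P.lf 25356454 0 0) (P.cons (P.lf 0 1942730 0) (P.cons (P.lf 0 558261 0) (P.cons (P.lf 0 775 0) (P.cons (P.lf 2921 0 0) P.nil)))))) (P.cons (P.cons (P.lf 0 98735206 0) (P.cons (P.lf 0 3846928 0) (P.cons (P.lf 1168368 0 0) (P.cons (P.lf 0 140298 0) (P.cons (P.lf 0 393 0) P.nil))))) (P.cons (P.cons (P.lf 39000431 0 0) (P.cons (P.lf 0 875543 0) (P.cons (P.lf 174218 0 0) (P.cons (P.lf 0 8314 0) P.nil)))) (P.cons (P.cons (P.lf 0 6330334 0) (P.cons (P.lf 539384 0 0) (P.cons (P.lf 0 96470 0) P.nil))) (P.cons (P.cons (P.lf 0 174742 0) (P.cons (P.lf 47847 0 0) P.nil)) (P.cons (P.cons (P.lf 216755 0 0) P.nil) P.nil)))))) 217043)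
 (EL.cons 1 (TM.mk (P.cons (P.cons (P.lf 65685228 0 0) (P.cons (P.lf 13703045 0 0) (P.cons (P.lf 0 1049883 0) (P.cons (P.lf 0 301693 0) (P.cons (P.lf 0 418 0) (P.cons (P.lf 1578 0 0) P.nil)))))) (P.cons (P.cons (P.lf 0 39384922 0) (P.cons (P.lf 836103 0 0) (P.cons (P.lf 408063 0 0) (P.cons (P.lf 0 139998 0) (P.cons (P.lf 0 301 0) P.nil))))) (P.cons (P.cons (P.lf 11393947 0 0) (P.cons (P.lf 0 567365 0) (P.cons (P.lf 201802 0 0) (P.cons (P.lf 0 28284 0) P.nil)))) (P.cons (P.cons (P.lf 0 54331 0) (P.cons (P.lf 187755 0 0) (P.cons (P.lf 0 19876 0) P.nil))) (P.cons (P.cons (P.lf 0 446422 0) (P.cons (P.lf 75408 0 0) P.nil)) (P.cons (P.cons (P.lf 63838 0 0) P.nil) P.nil)))))) 127552)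
 (EL.cons 5 (TM.mk (P.cons (P.cons (P.lf 35497382 0 0) (P.cons (P.lf 7405352 0 0) (P.cons (P.lf 0 567374 0) (P.cons (P.lf 0 163040 0) (P.cons (P.lf 0 226 0) (P.cons (P.lf 852 0 0) P.nil)))))) (P.cons (P.cons (P.lf 0 13732906 0) (P.cons (P.lf 2027184 0 0) (P.cons (P.lf 99826 0 0) (P.cons (P.lf 0 110340 0) (P.cons (P.lf 0 210 0) P.nil))))) (P.cons (P.cons (P.lf 2531278 0 0) (P.cons (P.lf 0 22404 0) (P.cons (P.lf 141558 0 0) (P.cons (P.lf 0 35520 0) P.nil)))) (P.cons (P.cons (P.lf 868716 0 0) (P.cons (P.lf 74586 0 0) (P.cons (P.lf 15998 0 0) P.nil))) (P.cons (P.cons (P.lf 0 149934 0) (P.cons (P.lf 60026 0 0) P.nil)) (P.cons (P.cons (P.lf 0 3630 0) P.nil) P.nil)))))) 69378)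
 EL.nil)))
noncomputable def S140_169_660_734_6 : EL := (EL.cons 12 (TM.mk (P.lf 8589934592 0 0) 0)
 (EL.cons 3 (TM.mk (P.cons (P.lf 0 2668545243 0) (P.cons (P.lf 256005836 0 0) (P.cons (P.lf 20956361 0 0) (P.cons (P.lf 125291 0 0) (P.cons (P.lf 0 64357 0) (P.cons (P.lf 0 3438 0) P.nil)))))) 378)
 (EL.cons 7 (TM.mk (P.cons (P.lf 0 1442125985 0) (P.cons (P.lf 0 168433589 0) (P.cons (P.lf 4127638 0 0) (P.cons (P.lf 758202 0 0) (P.cons (P.lf 21743 0 0) (P.cons (P.lf 0 1521 0) P.nil)))))) 224)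
 EL.nil)))
noncomputable def S140_169_660_734_7 : EL := (EL.cons 12 (TM.mk (P.cons (P.cons (P.lf 0 1644560158 0) (P.cons (P.lf 0 171541504 0) (P.cons (P.lf 22089584 0 0) (P.lf 1472632 0 0)))) (P.cons (P.cons (P.lf 510193258 0 0) (P.cons (P.lf 0 60105744 0) (P.cons (P.lf 7739880 0 0) (P.lf 515984 0 0)))) (P.cons (P.cons (P.lf 0 92163622 0) (P.cons (P.lf 0 5547112 0) (P.cons (P.lf 714304 0 0) (P.lf 47616 0 0)))) (P.cons (P.cons (P.lf 0 14154232 0) (P.cons (P.lf 341328 0 0) (P.cons (P.lf 0 43952 0) P.nil))) (P.cons (P.cons (P.lf 406762 0 0) (P.cons (P.lf 86832 0 0) P.nil)) (P.cons (P.cons (P.lf 152230 0 0) P.nil) P.nil)))))) 42558)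
 (EL.cons 3 (TM.mk (P.cons (P.cons (P.lf 1867942320 0 0) (P.cons (P.lf 0 106582012 0) (P.cons (P.lf 13724678 0 0) (P.lf 914972 0 0)))) (P.cons (P.cons (P.lf 0 602973951 0) (P.cons (P.lf 0 27119940 0) (P.cons (P.lf 3492262 0 0) (P.lf 232810 0 0)))) (P.cons (P.cons (P.lf 0 114150737 0) (P.cons (P.lf 973134 0 0) (P.cons (P.lf 0 125312 0) (P.lf 0 8354 0)))) (P.cons (P.cons (P.lf 1753988 0 0) (P.cons (P.lf 840990 0 0) (P.cons (P.lf 0 108294 0) P.nil))) (P.cons (P.cons (P.lf 2137485 0 0) (P.cons (P.lf 59852 0 0) P.nil)) (P.cons (P.cons (P.lf 141454 0 0) P.nil) P.nil)))))) 135238)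
 (EL.cons 7 (TM.mk (P.cons (P.cons (P.lf 0 616740292 0) (P.cons (P.lf 133984402 0 0) (P.cons (P.lf 0 17253321 0) (P.lf 0 1150224 0)))) (P.cons (P.cons (P.lf 396713872 0 0) (P.cons (P.lf 17842990 0 0) (P.cons (P.lf 0 2297662 0) (P.lf 0 153179 0)))) (P.cons (P.cons (P.lf 32906593 0 0) (P.cons (P.lf 0 2538119 0) (P.cons (P.lf 326835 0 0) (P.lf 21786 0 0)))) (P.cons (P.cons (P.lf 0 9179529 0) (P.cons (P.lf 0 344420 0) (P.cons (P.lf 44351 0 0) P.nil))) (P.cons (P.cons (P.lf 0 719499 0) (P.cons (P.lf 31615 0 0) P.nil)) (P.cons (P.cons (P.lf 80374 0 0) P.nil) P.nil)))))) 86342)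
 (EL.cons 10 (TM.mk (P.cons (P.cons (P.lf 0 826011594 0) (P.cons (P.lf 235807644 0 0) (P.cons (P.lf 17638032 0 0) (P.cons (P.lf 0 1188546 0) (P.lf 0 59427 0))))) (P.cons (P.cons (P.lf 0 192948603 0) (P.cons (P.lf 55082466 0 0) (P.cons (P.lf 4120077 0 0) (P.cons (P.lf 0 277632 0) (P.lf 0 13881 0))))) (P.cons (P.cons (P.lf 0 6539343 0) (P.cons (P.lf 1866834 0 0) (P.cons (P.lf 139635 0 0) (P.cons (P.lf 0 9408 0) P.nil)))) (P.cons (P.cons (P.lf 1420809 0 0) (P.cons (P.lf 0 405609 0) (P.cons (P.lf 0 30336 0) P.nil))) (P.cons (P.cons (P.lf 119583 0 0) (P.cons (P.lf 0 34137 0) P.nil)) (P.cons (P.cons (P.lf 0 1317 0) P.nil) P.nil)))))) 6933)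
 EL.nil))))
noncomputable def S140_169_660_734_8 : EL := (EL.cons 12 (TM.mk (P.cons (P.cons (P.lf 314854330 0 0) (P.cons (P.lf 65683928 0 0) (P.cons (P.lf 0 5032496 0) (P.cons (P.lf 0 1446136 0) (P.cons (P.lf 0 2012 0) (P.cons (P.lf 7572 0 0) P.nil)))))) (P.cons (P.cons (P.lf 0 195355038 0) (P.cons (P.lf 2637550 0 0) (P.cons (P.lf 2060990 0 0) (P.cons (P.lf 0 640902 0) (P.cons (P.lf 0 1408 0) P.nil))))) (P.cons (P.cons (P.lf 65592396 0 0) (P.cons (P.lf 0 1334840 0) (P.cons (P.lf 814016 0 0) (P.cons (P.lf 0 153914 0) P.nil)))) (P.cons (P.cons (P.lf 0 5528276 0) (P.cons (P.lf 1065472 0 0) (P.cons (P.lf 0 73206 0) P.nil))) (P.cons (P.cons (P.lf 0 848264 0) (P.cons (P.lf 308164 0 0) P.nil)) (P.cons (P.cons (P.lf 293758 0 0) P.nil) P.nil)))))) 284838)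
 (EL.cons 3 (TM.mk (P.cons (P.cons (P.lf 0 617430079 0) (P.cons (P.lf 0 13389821 0) (P.cons (P.lf 7045340 0 0) (P.cons (P.lf 0 1255465 0) (P.cons (P.lf 0 3126 0) (P.cons (P.lf 11760 0 0) P.nil)))))) (P.cons (P.cons (P.lf 382698918 0 0) (P.cons (P.lf 0 5472585 0) (P.cons (P.lf 3923123 0 0) (P.cons (P.lf 0 781894 0) (P.cons (P.lf 0 1886 0) P.nil))))) (P.cons (P.cons (P.lf 0 42569999 0) (P.cons (P.lf 8624370 0 0) (P.cons (P.lf 0 512669 0) (P.cons (P.lf 0 228021 0) P.nil)))) (P.cons (P.cons (P.lf 0 10648625 0) (P.cons (P.lf 3544802 0 0) (P.cons (P.lf 0 482278 0) P.nil))) (P.cons (P.cons (P.lf 3749859 0 0) (P.cons (P.lf 230427 0 0) P.nil)) (P.cons (P.cons (P.lf 675129 0 0) P.nil) P.nil)))))) 764858)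
 (EL.cons 7 (TM.mk (P.cons (P.cons (P.lf 289011817 0 0) (P.cons (P.lf 0 15643099 0) (P.cons (P.lf 0 2761843 0) (P.cons (P.lf 1364371 0 0) (P.cons (P.lf 2803 0 0) (P.cons (P.lf 0 10559 0) P.nil)))))) (P.cons (P.cons (P.lf 0 251788603 0) (P.cons (P.lf 3600571 0 0) (P.cons (P.lf 0 2581134 0) (P.cons (P.lf 514428 0 0) (P.cons (P.lf 1241 0 0) P.nil))))) (P.cons (P.cons (P.lf 54789511 0 0) (P.cons (P.lf 0 6057193 0) (P.cons (P.lf 611842 0 0) (P.cons (P.lf 95300 0 0) P.nil)))) (P.cons (P.cons (P.lf 1367521 0 0) (P.cons (P.lf 0 1503678 0) (P.cons (P.lf 252385 0 0) P.nil))) (P.cons (P.cons (P.lf 0 3152725 0) (P.cons (P.lf 161958 0 0) P.nil)) (P.cons (P.cons (P.lf 18103 0 0) P.nil) P.nil)))))) 485212)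
 (EL.cons 10 (TM.mk (P.cons (P.cons (P.lf 316283142 0 0) (P.cons (P.lf 0 57300684 0) (P.cons (P.lf 0 20420142 0) (P.cons (P.lf 680202 0 0) (P.cons (P.lf 241788 0 0) (P.cons (P.lf 2304 0 0) P.nil)))))) (P.cons (P.cons (P.lf 0 24239988 0) (P.cons (P.lf 26185944 0 0) (P.cons (P.lf 0 7463292 0) (P.cons (P.lf 96576 0 0) (P.cons (P.lf 126168 0 0) P.nil))))) (P.cons (P.cons (P.lf 0 2691174 0) (P.cons (P.lf 4796484 0 0) (P.cons (P.lf 0 1611216 0) (P.cons (P.lf 23610 0 0) P.nil)))) (P.cons (P.cons (P.lf 5541708 0 0) (P.cons (P.lf 0 1363710 0) (P.cons (P.lf 0 208770 0) P.nil))) (P.cons (P.cons (P.lf 820950 0 0) (P.cons (P.lf 0 282606 0) P.nil)) (P.cons (P.cons (P.lf 0 41778 0) P.nil) P.nil)))))) 222000)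
 EL.nil))))
noncomputable def S140_169_660_734_9 : EL := (EL.cons 3 (TM.mk (P.cons (P.lf 0 2668545243 0) (P.cons (P.lf 256005836 0 0) (P.cons (P.lf 20956361 0 0) (P.cons (P.lf 125291 0 0) (P.cons (P.lf 0 64357 0) (P.cons (P.lf 0 3438 0) P.nil)))))) 378)
 (EL.cons 7 (TM.mk (P.cons (P.lf 0 1442125985 0) (P.cons (P.lf 0 168433589 0) (P.cons (P.lf 4127638 0 0) (P.cons (P.lf 758202 0 0) (P.cons (P.lf 21743 0 0) (P.cons (P.lf 0 1521 0) P.nil)))))) 224)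
 EL.nil))
noncomputable def S140_169_660_734_10 : EL := (EL.cons 3 (TM.mk (P.cons (P.cons (P.lf 510898323 0 0) (P.cons (P.lf 53291006 0 0) (P.cons (P.lf 0 6862339 0) (P.lf 0 457486 0)))) (P.cons (P.cons (P.lf 0 207509238 0) (P.cons (P.lf 13559970 0 0) (P.cons (P.lf 0 1746131 0) (P.lf 0 116405 0)))) (P.cons (P.cons (P.lf 39824662 0 0) (P.cons (P.lf 0 486567 0) (P.cons (P.lf 62656 0 0) (P.lf 4177 0 0)))) (P.cons (P.cons (P.lf 2871095 0 0) (P.cons (P.lf 0 420495 0) (P.cons (P.lf 54147 0 0) P.nil))) (P.cons (P.cons (P.lf 0 753285 0) (P.cons (P.lf 0 29926 0) P.nil)) (P.cons (P.cons (P.lf 0 74207 0) P.nil) P.nil)))))) 32577)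
 (EL.cons 7 (TM.mk (P.cons (P.cons (P.lf 276097904 0 0) (P.cons (P.lf 28799341 0 0) (P.cons (P.lf 0 3708522 0) (P.lf 0 247233 0)))) (P.cons (P.cons (P.lf 0 53407133 0) (P.cons (P.lf 13454515 0 0) (P.cons (P.lf 0 1732552 0) (P.lf 0 115502 0)))) (P.cons (P.cons (P.lf 4678699 0 0) (P.cons (P.lf 2027419 0 0) (P.cons (P.lf 0 261072 0) (P.lf 0 17403 0)))) (P.cons (P.cons (P.lf 4283457 0 0) (P.cons (P.lf 7441 0 0) (P.cons (P.lf 0 958 0) P.nil))) (P.cons (P.cons (P.lf 205833 0 0) (P.cons (P.lf 0 29675 0) P.nil)) (P.cons (P.cons (P.lf 0 46886 0) P.nil) P.nil)))))) 19114)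
 EL.nil))
noncomputable def S140_169_660_734_11 : EL := (EL.cons 3 (TM.mk (P.cons (P.cons (P.lf 0 97812505 0) (P.cons (P.lf 0 20405339 0) (P.cons (P.lf 1563392 0 0) (P.cons (P.lf 449255 0 0) (P.cons (P.lf 624 0 0) (P.cons (P.lf 0 2352 0) P.nil)))))) (P.cons (P.cons (P.lf 70072512 0 0) (P.cons (P.lf 1138197 0 0) (P.cons (P.lf 0 790249 0) (P.cons (P.lf 156002 0 0) (P.cons (P.lf 376 0 0) P.nil))))) (P.cons (P.cons (P.lf 0 25430939 0) (P.cons (P.lf 653532 0 0) (P.cons (P.lf 0 203735 0) (P.cons (P.lf 25185 0 0) P.nil)))) (P.cons (P.cons (P.lf 3200257 0 0) (P.cons (P.lf 0 363388 0) (P.cons (P.lf 51956 0 0) P.nil))) (P.cons (P.cons (P.lf 253575 0 0) (P.cons (P.lf 0 67689 0) P.nil)) (P.cons (P.cons (P.lf 0 127731 0) P.nil) P.nil)))))) 134002)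
 (EL.cons 7 (TM.mk (P.cons (P.cons (P.lf 0 52859495 0) (P.cons (P.lf 0 11027383 0) (P.cons (P.lf 844883 0 0) (P.cons (P.lf 242785 0 0) (P.cons (P.lf 337 0 0) (P.cons (P.lf 0 1271 0) P.nil)))))) (P.cons (P.cons (P.lf 26623547 0 0) (P.cons (P.lf 0 1730753 0) (P.cons (P.lf 0 247332 0) (P.cons (P.lf 135954 0 0) (P.cons (P.lf 275 0 0) P.nil))))) (P.cons (P.cons (P.lf 0 7030151 0) (P.cons (P.lf 203945 0 0) (P.cons (P.lf 0 179492 0) (P.cons (P.lf 37712 0 0) P.nil)))) (P.cons (P.cons (P.lf 0 424115 0) (P.cons (P.lf 0 145638 0) (P.cons (P.lf 0 3125 0) P.nil))) (P.cons (P.cons (P.lf 265883 0 0) (P.cons (P.lf 0 72870 0) P.nil)) (P.cons (P.cons (P.lf 0 30101 0) P.nil) P.nil)))))) 73632)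
 EL.nil))
noncomputable def S140_169_660_734_12 : EL := (EL.cons 4 (TM.mk (P.cons (P.lf 2668545243 0 0) (P.cons (P.lf 0 256005836 0) (P.cons (P.lf 0 20956361 0) (P.cons (P.lf 0 125291 0) (P.cons (P.lf 64357 0 0) (P.cons (P.lf 3438 0 0) P.nil)))))) 378)
 (EL.cons 8 (TM.mk (P.cons (P.lf 1442125985 0 0) (P.cons (P.lf 168433589 0 0) (P.cons (P.lf 0 4127638 0) (P.cons (P.lf 0 758202 0) (P.cons (P.lf 0 21743 0) (P.cons (P.lf 1521 0 0) P.nil)))))) 224)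
 EL.nil))
noncomputable def S140_169_660_734_13 : EL := (EL.cons 4 (TM.mk (P.cons (P.cons (P.lf 0 510898323 0) (P.cons (P.lf 0 53291006 0) (P.cons (P.lf 6862339 0 0) (P.lf 457486 0 0)))) (P.cons (P.cons (P.lf 207509238 0 0) (P.cons (P.lf 0 13559970 0) (P.cons (P.lf 1746131 0 0) (P.lf 116405 0 0)))) (P.cons (P.cons (P.lf 0 39824662 0) (P.cons (P.lf 486567 0 0) (P.cons (P.lf 0 62656 0) (P.lf 0 4177 0)))) (P.cons (P.cons (P.lf 0 2871095 0) (P.cons (P.lf 420495 0 0) (P.cons (P.lf 0 54147 0) P.nil))) (P.cons (P.cons (P.lf 753285 0 0) (P.cons (P.lf 29926 0 0) P.nil)) (P.cons (P.cons (P.lf 74207 0 0) P.nil) P.nil)))))) 32577)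
 (EL.cons 8 (TM.mk (P.cons (P.cons (P.lf 0 276097904 0) (P.cons (P.lf 0 28799341 0) (P.cons (P.lf 3708522 0 0) (P.lf 247233 0 0)))) (P.cons (P.cons (P.lf 53407133 0 0) (P.cons (P.lf 0 13454515 0) (P.cons (P.lf 1732552 0 0) (P.lf 115502 0 0)))) (P.cons (P.cons (P.lf 0 4678699 0) (P.cons (P.lf 0 2027419 0) (P.cons (P.lf 261072 0 0) (P.lf 17403 0 0)))) (P.cons (P.cons (P.lf 0 4283457 0) (P.cons (P.lf 0 7441 0) (P.cons (P.lf 958 0 0) P.nil))) (P.cons (P.cons (P.lf 0 205833 0) (P.cons (P.lf 29675 0 0) P.nil)) (P.cons (P.cons (P.lf 46886 0 0) P.nil) P.nil)))))) 19114)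
 EL.nil))
noncomputable def S140_169_660_734_14 : EL := (EL.cons 4 (TM.mk (P.cons (P.cons (P.lf 97812505 0 0) (P.cons (P.lf 20405339 0 0) (P.cons (P.lf 0 1563392 0) (P.cons (P.lf 0 449255 0) (P.cons (P.lf 0 624 0) (P.cons (P.lf 2352 0 0) P.nil)))))) (P.cons (P.cons (P.lf 0 70072512 0) (P.cons (P.lf 0 1138197 0) (P.cons (P.lf 790249 0 0) (P.cons (P.lf 0 156002 0) (P.cons (P.lf 0 376 0) P.nil))))) (P.cons (P.cons (P.lf 25430939 0 0) (P.cons (P.lf 0 653532 0) (P.cons (P.lf 203735 0 0) (P.cons (P.lf 0 25185 0) P.nil)))) (P.cons (P.cons (P.lf 0 3200257 0) (P.cons (P.lf 363388 0 0) (P.cons (P.lf 0 51956 0) P.nil))) (P.cons (P.cons (P.lf 0 253575 0) (P.cons (P.lf 67689 0 0) P.nil)) (P.cons (P.cons (P.lf 127731 0 0) P.nil) P.nil)))))) 134002)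
 (EL.cons 8 (TM.mk (P.cons (P.cons (P.lf 52859495 0 0) (P.cons (P.lf 11027383 0 0) (P.cons (P.lf 0 844883 0) (P.cons (P.lf 0 242785 0) (P.cons (P.lf 0 337 0) (P.cons (P.lf 1271 0 0) P.nil)))))) (P.cons (P.cons (P.lf 0 26623547 0) (P.cons (P.lf 1730753 0 0) (P.cons (P.lf 247332 0 0) (P.cons (P.lf 0 135954 0) (P.cons (P.lf 0 275 0) P.nil))))) (P.cons (P.cons (P.lf 7030151 0 0) (P.cons (P.lf 0 203945 0) (P.cons (P.lf 179492 0 0) (P.cons (P.lf 0 37712 0) P.nil)))) (P.cons (P.cons (P.lf 424115 0 0) (P.cons (P.lf 145638 0 0) (P.cons (P.lf 3125 0 0) P.nil))) (P.cons (P.cons (P.lf 0 265883 0) (P.cons (P.lf 72870 0 0) P.nil)) (P.cons (P.cons (P.lf 30101 0 0) P.nil) P.nil)))))) 73632)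
 EL.nil))
noncomputable def S140_169_660_734_15 : EL := (EL.cons 4 (TM.mk (P.cons (P.lf 0 1768552689 0) (P.cons (P.lf 339330810 0 0) (P.cons (P.lf 11500469 0 0) (P.cons (P.lf 0 2498728 0) (P.cons (P.lf 0 210304 0) (P.cons (P.lf 2321 0 0) P.nil)))))) 1708)
 (EL.cons 8 (TM.mk (P.cons (P.lf 0 955755124 0) (P.cons (P.lf 0 19937749 0) (P.cons (P.lf 20950159 0 0) (P.cons (P.lf 1161554 0 0) (P.cons (P.lf 0 73087 0) (P.cons (P.lf 0 10388 0) P.nil)))))) 788)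
 EL.nil))
noncomputable def S140_169_660_734_16 : EL := (EL.cons 4 (TM.mk (P.cons (P.cons (P.lf 338592948 0 0) (P.cons (P.lf 35318101 0 0) (P.cons (P.lf 0 4547949 0) (P.lf 0 303195 0)))) (P.cons (P.cons (P.lf 0 170007532 0) (P.cons (P.lf 5598511 0 0) (P.cons (P.lf 0 720925 0) (P.lf 0 48060 0)))) (P.cons (P.cons (P.lf 36927789 0 0) (P.cons (P.lf 0 1461963 0) (P.cons (P.lf 188259 0 0) (P.lf 12550 0 0)))) (P.cons (P.cons (P.lf 434848 0 0) (P.cons (P.lf 0 319975 0) (P.cons (P.lf 41203 0 0) P.nil))) (P.cons (P.cons (P.lf 0 874424 0) (P.cons (P.lf 9862 0 0) P.nil)) (P.cons (P.cons (P.lf 0 20349 0) P.nil) P.nil)))))) 41559)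
 (EL.cons 8 (TM.mk (P.cons (P.cons (P.lf 182981229 0 0) (P.cons (P.lf 19086486 0 0) (P.cons (P.lf 0 2457787 0) (P.lf 0 163851 0)))) (P.cons (P.cons (P.lf 0 52949296 0) (P.cons (P.lf 7085795 0 0) (P.cons (P.lf 0 912445 0) (P.lf 0 60828 0)))) (P.cons (P.cons (P.lf 5059404 0 0) (P.cons (P.lf 338330 0 0) (P.cons (P.lf 0 43566 0) (P.lf 0 2904 0)))) (P.cons (P.cons (P.lf 2810719 0 0) (P.cons (P.lf 0 194891 0) (P.cons (P.lf 25096 0 0) P.nil))) (P.cons (P.cons (P.lf 0 154202 0) (P.cons (P.lf 0 30650 0) P.nil)) (P.cons (P.cons (P.lf 0 67217 0) P.nil) P.nil)))))) 23297)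
 EL.nil))
noncomputable def S140_169_660_734_17 : EL := (EL.cons 4 (TM.mk (P.cons (P.cons (P.lf 0 64824296 0) (P.cons (P.lf 0 13523442 0) (P.cons (P.lf 1036123 0 0) (P.cons (P.lf 297739 0 0) (P.cons (P.lf 413 0 0) (P.cons (P.lf 0 1558 0) P.nil)))))) (P.cons (P.cons (P.lf 52658776 0 0) (P.cons (P.lf 2051695 0 0) (P.cons (P.lf 0 623130 0) (P.cons (P.lf 74825 0 0) (P.cons (P.lf 210 0 0) P.nil))))) (P.cons (P.cons (P.lf 0 20800230 0) (P.cons (P.lf 466956 0 0) (P.cons (P.lf 0 92916 0) (P.cons (P.lf 4434 0 0) P.nil)))) (P.cons (P.cons (P.lf 3376178 0 0) (P.cons (P.lf 0 287671 0) (P.cons (P.lf 51450 0 0) P.nil))) (P.cons (P.cons (P.lf 93195 0 0) (P.cons (P.lf 0 25518 0) P.nil)) (P.cons (P.cons (P.lf 0 115603 0) P.nil) P.nil)))))) 115766)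
 (EL.cons 8 (TM.mk (P.cons (P.cons (P.lf 0 35032122 0) (P.cons (P.lf 0 7308291 0) (P.cons (P.lf 559938 0 0) (P.cons (P.lf 160903 0 0) (P.cons (P.lf 223 0 0) (P.cons (P.lf 0 842 0) P.nil)))))) (P.cons (P.cons (P.lf 21005292 0 0) (P.cons (P.lf 0 445922 0) (P.cons (P.lf 0 217634 0) (P.cons (P.lf 74666 0 0) (P.cons (P.lf 161 0 0) P.nil))))) (P.cons (P.cons (P.lf 0 6076772 0) (P.cons (P.lf 302595 0 0) (P.cons (P.lf 0 107628 0) (P.cons (P.lf 15085 0 0) P.nil)))) (P.cons (P.cons (P.lf 28977 0 0) (P.cons (P.lf 0 100136 0) (P.cons (P.lf 10601 0 0) P.nil))) (P.cons (P.cons (P.lf 238092 0 0) (P.cons (P.lf 0 40218 0) P.nil)) (P.cons (P.cons (P.lf 0 34047 0) P.nil) P.nil)))))) 68016)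
 EL.nil))
noncomputable def S140_169_660_734_18 : EL := (EL.cons 4 (TM.mk (P.cons (P.lf 1172091282 0 0) (P.cons (P.lf 0 337332345 0) (P.cons (P.lf 4748184 0 0) (P.cons (P.lf 4098243 0 0) (P.cons (P.lf 79189 0 0) (P.cons (P.lf 0 31469 0) P.nil)))))) 3321)
 (EL.cons 8 (TM.mk (P.cons (P.lf 633417514 0 0) (P.cons (P.lf 0 47553107 0) (P.cons (P.lf 0 20126446 0) (P.cons (P.lf 428689 0 0) (P.cons (P.lf 245981 0 0) (P.cons (P.lf 10070 0 0) P.nil)))))) 1843)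
 EL.nil))
noncomputable def S140_169_660_734_19 : EL := (EL.cons 4 (TM.mk (P.cons (P.cons (P.lf 0 224399220 0) (P.cons (P.lf 0 23406732 0) (P.cons (P.lf 3014109 0 0) (P.lf 200939 0 0)))) (P.cons (P.cons (P.lf 134198507 0 0) (P.cons (P.lf 0 1464844 0) (P.cons (P.lf 188628 0 0) (P.lf 12573 0 0)))) (P.cons (P.cons (P.lf 0 33520340 0) (P.cons (P.lf 1508670 0 0) (P.cons (P.lf 0 194273 0) (P.lf 0 12951 0)))) (P.cons (P.cons (P.lf 1185387 0 0) (P.cons (P.lf 149345 0 0) (P.cons (P.lf 0 19230 0) P.nil))) (P.cons (P.cons (P.lf 788655 0 0) (P.cons (P.lf 0 34879 0) P.nil)) (P.cons (P.cons (P.lf 0 36268 0) P.nil) P.nil)))))) 42838)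
 (EL.cons 8 (TM.mk (P.cons (P.cons (P.lf 0 121269049 0) (P.cons (P.lf 0 12649385 0) (P.cons (P.lf 1628874 0 0) (P.lf 108591 0 0)))) (P.cons (P.cons (P.lf 46725535 0 0) (P.cons (P.lf 0 3482529 0) (P.cons (P.lf 448448 0 0) (P.lf 29895 0 0)))) (P.cons (P.cons (P.lf 0 5767235 0) (P.cons (P.lf 325624 0 0) (P.cons (P.lf 0 41931 0) (P.lf 0 2795 0)))) (P.cons (P.cons (P.lf 0 1810986 0) (P.cons (P.lf 188145 0 0) (P.cons (P.lf 0 24227 0) P.nil))) (P.cons (P.cons (P.lf 302660 0 0) (P.cons (P.lf 9598 0 0) P.nil)) (P.cons (P.cons (P.lf 50219 0 0) P.nil) P.nil)))))) 22993)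
 EL.nil))
noncomputable def S140_169_660_734_20 : EL := (EL.cons 4 (TM.mk (P.cons (P.cons (P.lf 42961679 0 0) (P.cons (P.lf 8962530 0 0) (P.cons (P.lf 0 686680 0) (P.cons (P.lf 0 197324 0) (P.cons (P.lf 0 273 0) (P.cons (P.lf 1033 0 0) P.nil)))))) (P.cons (P.cons (P.lf 0 39020609 0) (P.cons (P.lf 0 2219558 0) (P.cons (P.lf 478849 0 0) (P.cons (P.lf 0 30659 0) (P.cons (P.lf 0 112 0) P.nil))))) (P.cons (P.cons (P.lf 16795800 0 0) (P.cons (P.lf 0 249408 0) (P.cons (P.lf 27353 0 0) (P.cons (P.lf 3367 0 0) P.nil)))) (P.cons (P.cons (P.lf 0 3287954 0) (P.cons (P.lf 230597 0 0) (P.cons (P.lf 0 43216 0) P.nil))) (P.cons (P.cons (P.lf 47309 0 0) (P.cons (P.lf 1332 0 0) P.nil)) (P.cons (P.cons (P.lf 98678 0 0) P.nil) P.nil)))))) 94927)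
 (EL.cons 8 (TM.mk (P.cons (P.cons (P.lf 23217201 0 0) (P.cons (P.lf 4843500 0 0) (P.cons (P.lf 0 371093 0) (P.cons (P.lf 0 106637 0) (P.cons (P.lf 0 148 0) (P.cons (P.lf 558 0 0) P.nil)))))) (P.cons (P.cons (P.lf 0 16148388 0) (P.cons (P.lf 0 169128 0) (P.cons (P.lf 179835 0 0) (P.cons (P.lf 0 39253 0) (P.cons (P.lf 0 92 0) P.nil))))) (P.cons (P.cons (P.lf 5180506 0 0) (P.cons (P.lf 0 266930 0) (P.cons (P.lf 60406 0 0) (P.cons (P.lf 0 4413 0) P.nil)))) (P.cons (P.cons (P.lf 0 297330 0) (P.cons (P.lf 83054 0 0) (P.cons (P.lf 0 14984 0) P.nil))) (P.cons (P.cons (P.lf 0 186364 0) (P.cons (P.lf 21965 0 0) P.nil)) (P.cons (P.cons (P.lf 37358 0 0) P.nil) P.nil)))))) 56782)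
 EL.nil))
noncomputable def S140_169_660_734_21 : EL := (EL.cons 4 (TM.mk (P.cons (P.cons (P.lf 0 1357043997 0) (P.cons (P.lf 159873018 0 0) (P.cons (P.lf 0 20587017 0) (P.lf 0 1372458 0)))) (P.cons (P.cons (P.lf 395464713 0 0) (P.cons (P.lf 40679910 0 0) (P.cons (P.lf 0 5238393 0) (P.lf 0 349215 0)))) (P.cons (P.cons (P.lf 153975399 0 0) (P.cons (P.lf 0 1459701 0) (P.cons (P.lf 187968 0 0) (P.lf 12531 0 0)))) (P.cons (P.cons (P.lf 1117107 0 0) (P.cons (P.lf 0 1261485 0) (P.cons (P.lf 162441 0 0) P.nil))) (P.cons (P.cons (P.lf 0 2890770 0) (P.cons (P.lf 0 89778 0) P.nil)) (P.cons (P.cons (P.lf 0 215661 0) P.nil) P.nil)))))) 102642)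
 (EL.cons 8 (TM.mk (P.cons (P.cons (P.lf 892838196 0 0) (P.cons (P.lf 0 105185061 0) (P.cons (P.lf 13544799 0 0) (P.lf 902991 0 0)))) (P.cons (P.cons (P.lf 0 450121005 0) (P.cons (P.lf 0 4388475 0) (P.cons (P.lf 565110 0 0) (P.lf 37677 0 0)))) (P.cons (P.cons (P.lf 0 28227894 0) (P.cons (P.lf 4565538 0 0) (P.cons (P.lf 0 587907 0) (P.lf 0 39189 0)))) (P.cons (P.cons (P.lf 13462986 0 0) (P.cons (P.lf 351861 0 0) (P.cons (P.lf 0 45309 0) P.nil))) (P.cons (P.cons (P.lf 925332 0 0) (P.cons (P.lf 0 61290 0) P.nil)) (P.cons (P.cons (P.lf 0 127260 0) P.nil) P.nil)))))) 67209)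
 (EL.cons 11 (TM.mk (P.cons (P.cons (P.lf 826011594 0 0) (P.cons (P.lf 0 235807644 0) (P.cons (P.lf 0 17638032 0) (P.cons (P.lf 1188546 0 0) (P.lf 59427 0 0))))) (P.cons (P.cons (P.lf 192948603 0 0) (P.cons (P.lf 0 55082466 0) (P.cons (P.lf 0 4120077 0) (P.cons (P.lf 277632 0 0) (P.lf 13881 0 0))))) (P.cons (P.cons (P.lf 6539343 0 0) (P.cons (P.lf 0 1866834 0) (P.cons (P.lf 0 139635 0) (P.cons (P.lf 9408 0 0) P.nil)))) (P.cons (P.cons (P.lf 0 1420809 0) (P.cons (P.lf 405609 0 0) (P.cons (P.lf 30336 0 0) P.nil))) (P.cons (P.cons (P.lf 0 119583 0) (P.cons (P.lf 34137 0 0) P.nil)) (P.cons (P.cons (P.lf 1317 0 0) P.nil) P.nil)))))) 6933)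
 EL.nil)))
noncomputable def S140_169_660_734_22 : EL := (EL.cons 4 (TM.mk (P.cons (P.cons (P.lf 259808787 0 0) (P.cons (P.lf 0 3507759 0) (P.cons (P.lf 0 2740974 0) (P.cons (P.lf 852360 0 0) (P.cons (P.lf 1875 0 0) (P.cons (P.lf 0 7056 0) P.nil)))))) (P.cons (P.cons (P.lf 0 156313203 0) (P.cons (P.lf 3305391 0 0) (P.cons (P.lf 0 2356686 0) (P.cons (P.lf 468948 0 0) (P.cons (P.lf 1131 0 0) P.nil))))) (P.cons (P.cons (P.lf 8569530 0 0) (P.cons (P.lf 0 3985419 0) (P.cons (P.lf 154467 0 0) (P.cons (P.lf 126603 0 0) P.nil)))) (P.cons (P.cons (P.lf 6924441 0 0) (P.cons (P.lf 0 1954095 0) (P.cons (P.lf 267117 0 0) P.nil))) (P.cons (P.cons (P.lf 0 1748142 0) (P.cons (P.lf 0 149058 0) P.nil)) (P.cons (P.cons (P.lf 0 401430 0) P.nil) P.nil)))))) 315417)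
 (EL.cons 8 (TM.mk (P.cons (P.cons (P.lf 0 170935656 0) (P.cons (P.lf 2307858 0 0) (P.cons (P.lf 1803363 0 0) (P.cons (P.lf 0 560793 0) (P.cons (P.lf 0 1233 0) (P.cons (P.lf 4644 0 0) P.nil)))))) (P.cons (P.cons (P.lf 139206075 0 0) (P.cons (P.lf 0 2665662 0) (P.cons (P.lf 1166901 0 0) (P.cons (P.lf 0 189237 0) (P.cons (P.lf 0 483 0) P.nil))))) (P.cons (P.cons (P.lf 0 30909831 0) (P.cons (P.lf 3130569 0 0) (P.cons (P.lf 0 395667 0) (P.cons (P.lf 0 28794 0) P.nil)))) (P.cons (P.cons (P.lf 0 895818 0) (P.cons (P.lf 679020 0 0) (P.cons (P.lf 0 127755 0) P.nil))) (P.cons (P.cons (P.lf 1709304 0 0) (P.cons (P.lf 0 117414 0) P.nil)) (P.cons (P.cons (P.lf 0 24102 0) P.nil) P.nil)))))) 205779)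
 (EL.cons 11 (TM.mk (P.cons (P.cons (P.lf 0 158141571 0) (P.cons (P.lf 28650342 0 0) (P.cons (P.lf 10210071 0 0) (P.cons (P.lf 0 340101 0) (P.cons (P.lf 0 120894 0) (P.cons (P.lf 0 1152 0) P.nil)))))) (P.cons (P.cons (P.lf 12119994 0 0) (P.cons (P.lf 0 13092972 0) (P.cons (P.lf 3731646 0 0) (P.cons (P.lf 0 48288 0) (P.cons (P.lf 0 63084 0) P.nil))))) (P.cons (P.cons (P.lf 1345587 0 0) (P.cons (P.lf 0 2398242 0) (P.cons (P.lf 805608 0 0) (P.cons (P.lf 0 11805 0) P.nil)))) (P.cons (P.cons (P.lf 0 2770854 0) (P.cons (P.lf 681855 0 0) (P.cons (P.lf 104385 0 0) P.nil))) (P.cons (P.cons (P.lf 0 410475 0) (P.cons (P.lf 141303 0 0) P.nil)) (P.cons (P.cons (P.lf 20889 0 0) P.nil) P.nil)))))) 111000)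
 EL.nil)))
noncomputable def S140_169_660_734_23 : EL := (EL.cons 4 (TM.mk (P.cons (P.cons (P.lf 899367852 0 0) (P.cons (P.lf 0 105954303 0) (P.cons (P.lf 13643847 0 0) (P.lf 909582 0 0)))) (P.cons (P.cons (P.lf 0 348370935 0) (P.cons (P.lf 0 16795533 0) (P.cons (P.lf 2162775 0 0) (P.lf 144177 0 0)))) (P.cons (P.cons (P.lf 0 83964999 0) (P.cons (P.lf 4385889 0 0) (P.cons (P.lf 0 564774 0) (P.lf 0 37650 0)))) (P.cons (P.cons (P.lf 11065359 0 0) (P.cons (P.lf 959925 0 0) (P.cons (P.lf 0 123609 0) P.nil))) (P.cons (P.cons (P.lf 2822226 0 0) (P.cons (P.lf 0 29589 0) P.nil)) (P.cons (P.cons (P.lf 0 35421 0) P.nil) P.nil)))))) 137580)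
 (EL.cons 8 (TM.mk (P.cons (P.cons (P.lf 0 591719925 0) (P.cons (P.lf 69710385 0 0) (P.cons (P.lf 0 8976684 0) (P.lf 0 598446 0)))) (P.cons (P.cons (P.lf 355079781 0 0) (P.cons (P.lf 0 3779217 0) (P.cons (P.lf 486651 0 0) (P.lf 32439 0 0)))) (P.cons (P.cons (P.lf 0 5263971 0) (P.cons (P.lf 0 3852225 0) (P.cons (P.lf 496053 0 0) (P.lf 33066 0 0)))) (P.cons (P.cons (P.lf 0 13032090 0) (P.cons (P.lf 30969 0 0) (P.cons (P.lf 0 3987 0) P.nil))) (P.cons (P.cons (P.lf 67527 0 0) (P.cons (P.lf 88296 0 0) P.nil)) (P.cons (P.cons (P.lf 218793 0 0) P.nil) P.nil)))))) 80340)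
 (EL.cons 11 (TM.mk (P.cons (P.cons (P.lf 0 547431237 0) (P.cons (P.lf 156279246 0 0) (P.cons (P.lf 11689434 0 0) (P.cons (P.lf 0 787695 0) (P.lf 0 39384 0))))) (P.cons (P.cons (P.lf 0 75357228 0) (P.cons (P.lf 21512784 0 0) (P.cons (P.lf 1609119 0 0) (P.cons (P.lf 0 108429 0) (P.lf 0 5421 0))))) (P.cons (P.cons (P.lf 12232767 0 0) (P.cons (P.lf 0 3492177 0) (P.cons (P.lf 0 261210 0) (P.cons (P.lf 17601 0 0) P.nil)))) (P.cons (P.cons (P.lf 2387313 0 0) (P.cons (P.lf 0 681522 0) (P.cons (P.lf 0 50973 0) P.nil))) (P.cons (P.cons (P.lf 15753 0 0) (P.cons (P.lf 0 4494 0) P.nil)) (P.cons (P.cons (P.lf 0 19455 0) P.nil) P.nil)))))) 18765)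
 EL.nil)))
noncomputable def S140_169_660_734_24 : EL := (EL.cons 4 (TM.mk (P.cons (P.cons (P.lf 0 172185774 0) (P.cons (P.lf 2324733 0 0) (P.cons (P.lf 1816554 0 0) (P.cons (P.lf 0 564891 0) (P.cons (P.lf 0 1242 0) (P.cons (P.lf 4677 0 0) P.nil)))))) (P.cons (P.cons (P.lf 120113646 0 0) (P.cons (P.lf 0 2413638 0) (P.cons (P.lf 1387599 0 0) (P.cons (P.lf 0 256599 0) (P.cons (P.lf 0 630 0) P.nil))))) (P.cons (P.cons (P.lf 0 14265534 0) (P.cons (P.lf 2833197 0 0) (P.cons (P.lf 0 266475 0) (P.cons (P.lf 0 49653 0) P.nil)))) (P.cons (P.cons (P.lf 0 4849716 0) (P.cons (P.lf 1058757 0 0) (P.cons (P.lf 0 179559 0) P.nil))) (P.cons (P.cons (P.lf 1634403 0 0) (P.cons (P.lf 0 46035 0) P.nil)) (P.cons (P.cons (P.lf 193479 0 0) P.nil) P.nil)))))) 275886)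
 (EL.cons 8 (TM.mk (P.cons (P.cons (P.lf 113285961 0 0) (P.cons (P.lf 0 1529511 0) (P.cons (P.lf 0 1195161 0) (P.cons (P.lf 371661 0 0) (P.cons (P.lf 816 0 0) (P.cons (P.lf 0 3075 0) P.nil)))))) (P.cons (P.cons (P.lf 0 103125531 0) (P.cons (P.lf 1913373 0 0) (P.cons (P.lf 0 658695 0) (P.cons (P.lf 89760 0 0) (P.cons (P.lf 240 0 0) P.nil))))) (P.cons (P.cons (P.lf 28446231 0 0) (P.cons (P.lf 0 2232225 0) (P.cons (P.lf 345801 0 0) (P.cons (P.lf 4134 0 0) P.nil)))) (P.cons (P.cons (P.lf 0 652353 0) (P.cons (P.lf 0 264774 0) (P.cons (P.lf 65640 0 0) P.nil))) (P.cons (P.cons (P.lf 0 1343589 0) (P.cons (P.lf 137160 0 0) P.nil)) (P.cons (P.cons (P.lf 116946 0 0) P.nil) P.nil)))))) 154434)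
 (EL.cons 11 (TM.mk (P.cons (P.cons (P.lf 104806803 0 0) (P.cons (P.lf 0 18987738 0) (P.cons (P.lf 0 6766626 0) (P.cons (P.lf 225399 0 0) (P.cons (P.lf 80121 0 0) (P.cons (P.lf 762 0 0) P.nil)))))) (P.cons (P.cons (P.lf 0 18087009 0) (P.cons (P.lf 10498821 0 0) (P.cons (P.lf 0 1823958 0) (P.cons (P.lf 10377 0 0) (P.cons (P.lf 34119 0 0) P.nil))))) (P.cons (P.cons (P.lf 0 944247 0) (P.cons (P.lf 906078 0 0) (P.cons (P.lf 0 243513 0) (P.cons (P.lf 2982 0 0) P.nil)))) (P.cons (P.cons (P.lf 1980066 0 0) (P.cons (P.lf 0 671622 0) (P.cons (P.lf 1776 0 0) P.nil))) (P.cons (P.cons (P.lf 105774 0 0) (P.cons (P.lf 0 63642 0) P.nil)) (P.cons (P.cons (P.lf 0 54378 0) P.nil) P.nil)))))) 98619)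
 EL.nil)))
noncomputable def S140_169_660_734_25 : EL := (EL.cons 4 (TM.mk (P.cons (P.cons (P.lf 0 596047392 0) (P.cons (P.lf 70220196 0 0) (P.cons (P.lf 0 9042327 0) (P.lf 0 602817 0)))) (P.cons (P.cons (P.lf 288061056 0 0) (P.cons (P.lf 4394532 0 0) (P.cons (P.lf 0 565887 0) (P.lf 0 37719 0)))) (P.cons (P.cons (P.lf 38178483 0 0) (P.cons (P.lf 0 4526007 0) (P.cons (P.lf 582819 0 0) (P.lf 38853 0 0)))) (P.cons (P.cons (P.lf 0 14457066 0) (P.cons (P.lf 0 448038 0) (P.cons (P.lf 57693 0 0) P.nil))) (P.cons (P.cons (P.lf 0 1629087 0) (P.cons (P.lf 104640 0 0) P.nil)) (P.cons (P.cons (P.lf 262689 0 0) P.nil) P.nil)))))) 131661)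
 (EL.cons 8 (TM.mk (P.cons (P.cons (P.lf 392156688 0 0) (P.cons (P.lf 0 46199886 0) (P.cons (P.lf 5949210 0 0) (P.lf 396615 0 0)))) (P.cons (P.cons (P.lf 0 272947107 0) (P.cons (P.lf 6936807 0 0) (P.cons (P.lf 0 893259 0) (P.lf 0 59547 0)))) (P.cons (P.cons (P.lf 22984878 0 0) (P.cons (P.lf 2675556 0 0) (P.cons (P.lf 0 344532 0) (P.lf 0 22965 0)))) (P.cons (P.cons (P.lf 10131834 0 0) (P.cons (P.lf 0 282948 0) (P.cons (P.lf 36435 0 0) P.nil))) (P.cons (P.cons (P.lf 0 880218 0) (P.cons (P.lf 0 77829 0) P.nil)) (P.cons (P.cons (P.lf 0 213870 0) P.nil) P.nil)))))) 82695)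
 (EL.cons 11 (TM.mk (P.cons (P.cons (P.lf 362804784 0 0) (P.cons (P.lf 0 103572567 0) (P.cons (P.lf 0 7747059 0) (P.cons (P.lf 522036 0 0) (P.lf 26100 0 0))))) (P.cons (P.cons (P.lf 15136743 0 0) (P.cons (P.lf 0 4321197 0) (P.cons (P.lf 0 323217 0) (P.cons (P.lf 21777 0 0) (P.lf 1086 0 0))))) (P.cons (P.cons (P.lf 0 15747486 0) (P.cons (P.lf 4495551 0 0) (P.cons (P.lf 336258 0 0) (P.cons (P.lf 0 22659 0) P.nil)))) (P.cons (P.cons (P.lf 0 1213647 0) (P.cons (P.lf 346467 0 0) (P.cons (P.lf 25911 0 0) P.nil))) (P.cons (P.cons (P.lf 211413 0 0) (P.cons (P.lf 0 60354 0) P.nil)) (P.cons (P.cons (P.lf 28371 0 0) P.nil) P.nil)))))) 25863)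
 EL.nil)))
noncomputable def S140_169_660_734_26 : EL := (EL.cons 4 (TM.mk (P.cons (P.cons (P.lf 114114465 0 0) (P.cons (P.lf 0 1540695 0) (P.cons (P.lf 0 1203903 0) (P.cons (P.lf 374376 0 0) (P.cons (P.lf 822 0 0) (P.cons (P.lf 0 3099 0) P.nil)))))) (P.cons (P.cons (P.lf 0 90551688 0) (P.cons (P.lf 1747422 0 0) (P.cons (P.lf 0 804123 0) (P.cons (P.lf 134142 0 0) (P.cons (P.lf 339 0 0) P.nil))))) (P.cons (P.cons (P.lf 16194984 0 0) (P.cons (P.lf 0 2019033 0) (P.cons (P.lf 274281 0 0) (P.cons (P.lf 13650 0 0) P.nil)))) (P.cons (P.cons (P.lf 2926884 0 0) (P.cons (P.lf 0 534036 0) (P.cons (P.lf 109335 0 0) P.nil))) (P.cons (P.cons (P.lf 0 1459284 0) (P.cons (P.lf 112458 0 0) P.nil)) (P.cons (P.cons (P.lf 0 51768 0) P.nil) P.nil)))))) 230646)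
 (EL.cons 8 (TM.mk (P.cons (P.cons (P.lf 0 75079182 0) (P.cons (P.lf 1013667 0 0) (P.cons (P.lf 792081 0 0) (P.cons (P.lf 0 246315 0) (P.cons (P.lf 0 540 0) (P.cons (P.lf 2037 0 0) P.nil)))))) (P.cons (P.cons (P.lf 75548145 0 0) (P.cons (P.lf 0 1365315 0) (P.cons (P.lf 360555 0 0) (P.cons (P.lf 0 35856 0) (P.cons (P.lf 0 108 0) P.nil))))) (P.cons (P.cons (P.lf 0 24819555 0) (P.cons (P.lf 1593078 0 0) (P.cons (P.lf 0 277275 0) (P.cons (P.lf 4899 0 0) P.nil)))) (P.cons (P.cons (P.lf 1707747 0 0) (P.cons (P.lf 43461 0 0) (P.cons (P.lf 0 24981 0) P.nil))) (P.cons (P.cons (P.lf 992004 0 0) (P.cons (P.lf 0 119268 0) P.nil)) (P.cons (P.cons (P.lf 0 163890 0) P.nil) P.nil)))))) 117825)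
 (EL.cons 11 (TM.mk (P.cons (P.cons (P.lf 0 69459699 0) (P.cons (P.lf 12583941 0 0) (P.cons (P.lf 4484517 0 0) (P.cons (P.lf 0 149379 0) (P.cons (P.lf 0 53100 0) (P.cons (P.lf 0 504 0) P.nil)))))) (P.cons (P.cons (P.lf 18650580 0 0) (P.cons (P.lf 0 8165229 0) (P.cons (P.lf 778590 0 0) (P.cons (P.lf 7449 0 0) (P.cons (P.lf 0 17517 0) P.nil))))) (P.cons (P.cons (P.lf 21297 0 0) (P.cons (P.lf 0 31803 0) (P.cons (P.lf 10200 0 0) (P.cons (P.lf 0 144 0) P.nil)))) (P.cons (P.cons (P.lf 0 1463178 0) (P.cons (P.lf 556770 0 0) (P.cons (P.lf 0 26364 0) P.nil))) (P.cons (P.cons (P.lf 48636 0 0) (P.cons (P.lf 4821 0 0) P.nil)) (P.cons (P.cons (P.lf 53238 0 0) P.nil) P.nil)))))) 81678)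
 EL.nil)))
noncomputable def S140_169_660_734_27 : EL := (EL.cons 13 (TM.mk (P.lf 0 4294967296 0) 0)
 EL.nil)
noncomputable def S140_169_660_734_28 : EL := (EL.cons 13 (TM.mk (P.cons (P.cons (P.lf 822280079 0 0) (P.cons (P.lf 85770752 0 0) (P.cons (P.lf 0 11044792 0) (P.lf 0 736316 0)))) (P.cons (P.cons (P.lf 0 255096629 0) (P.cons (P.lf 30052872 0 0) (P.cons (P.lf 0 3869940 0) (P.lf 0 257992 0)))) (P.cons (P.cons (P.lf 46081811 0 0) (P.cons (P.lf 2773556 0 0) (P.cons (P.lf 0 357152 0) (P.lf 0 23808 0)))) (P.cons (P.cons (P.lf 7077116 0 0) (P.cons (P.lf 0 170664 0) (P.cons (P.lf 21976 0 0) P.nil))) (P.cons (P.cons (P.lf 0 203381 0) (P.cons (P.lf 0 43416 0) P.nil)) (P.cons (P.cons (P.lf 0 76115 0) P.nil) P.nil)))))) 21279)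
 EL.nil)
noncomputable def S140_169_660_734_29 : EL := (EL.cons 13 (TM.mk (P.cons (P.cons (P.lf 0 157427165 0) (P.cons (P.lf 0 32841964 0) (P.cons (P.lf 2516248 0 0) (P.cons (P.lf 723068 0 0) (P.cons (P.lf 1006 0 0) (P.cons (P.lf 0 3786 0) P.nil)))))) (P.cons (P.cons (P.lf 97677519 0 0) (P.cons (P.lf 0 1318775 0) (P.cons (P.lf 0 1030495 0) (P.cons (P.lf 320451 0 0) (P.cons (P.lf 704 0 0) P.nil))))) (P.cons (P.cons (P.lf 0 32796198 0) (P.cons (P.lf 667420 0 0) (P.cons (P.lf 0 407008 0) (P.cons (P.lf 76957 0 0) P.nil)))) (P.cons (P.cons (P.lf 2764138 0 0) (P.cons (P.lf 0 532736 0) (P.cons (P.lf 36603 0 0) P.nil))) (P.cons (P.cons (P.lf 424132 0 0) (P.cons (P.lf 0 154082 0) P.nil)) (P.cons (P.cons (P.lf 0 146879 0) P.nil) P.nil)))))) 142419)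
 EL.nil)
noncomputable def S140_169_660_734_30 : EL := (EL.cons 13 (TM.mk (P.cons (P.lf 2846448260 0 0) (P.cons (P.lf 0 273072892 0) (P.cons (P.lf 0 22353452 0) (P.cons (P.lf 0 133644 0) (P.cons (P.lf 68648 0 0) (P.cons (P.lf 3668 0 0) P.nil)))))) 396)
 EL.nil)
noncomputable def S140_169_660_734_31 : EL := (EL.cons 13 (TM.mk (P.cons (P.cons (P.lf 0 544958212 0) (P.cons (P.lf 0 56843740 0) (P.cons (P.lf 7319829 0 0) (P.lf 487986 0 0)))) (P.cons (P.cons (P.lf 221343188 0 0) (P.cons (P.lf 0 14463969 0) (P.cons (P.lf 1862540 0 0) (P.lf 124166 0 0)))) (P.cons (P.cons (P.lf 0 42479640 0) (P.cons (P.lf 519005 0 0) (P.cons (P.lf 0 66834 0) (P.lf 0 4456 0)))) (P.cons (P.cons (P.lf 0 3062502 0) (P.cons (P.lf 448528 0 0) (P.cons (P.lf 0 57757 0) P.nil))) (P.cons (P.cons (P.lf 803505 0 0) (P.cons (P.lf 31922 0 0) P.nil)) (P.cons (P.cons (P.lf 79155 0 0) P.nil) P.nil)))))) 34729)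
 EL.nil)
noncomputable def S140_169_660_734_32 : EL := (EL.cons 13 (TM.mk (P.cons (P.cons (P.lf 104333339 0 0) (P.cons (P.lf 21765695 0 0) (P.cons (P.lf 0 1667619 0) (P.cons (P.lf 0 479206 0) (P.cons (P.lf 0 666 0) (P.cons (P.lf 2509 0 0) P.nil)))))) (P.cons (P.cons (P.lf 0 74744013 0) (P.cons (P.lf 0 1214077 0) (P.cons (P.lf 842933 0 0) (P.cons (P.lf 0 166403 0) (P.cons (P.lf 0 402 0) P.nil))))) (P.cons (P.cons (P.lf 27126335 0 0) (P.cons (P.lf 0 697101 0) (P.cons (P.lf 217318 0 0) (P.cons (P.lf 0 26865 0) P.nil)))) (P.cons (P.cons (P.lf 0 3413608 0) (P.cons (P.lf 387614 0 0) (P.cons (P.lf 0 55420 0) P.nil))) (P.cons (P.cons (P.lf 0 270480 0) (P.cons (P.lf 72202 0 0) P.nil)) (P.cons (P.cons (P.lf 136247 0 0) P.nil) P.nil)))))) 142913)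
 EL.nil)
noncomputable def S140_169_660_734_33 : EL := (EL.cons 14 (TM.mk (P.lf 8589934592 0 0) 0)
 EL.nil)
noncomputable def S140_169_660_734_34 : EL := (EL.cons 14 (TM.mk (P.cons (P.cons (P.lf 0 1644560158 0) (P.cons (P.lf 0 171541504 0) (P.cons (P.lf 22089584 0 0) (P.lf 1472632 0 0)))) (P.cons (P.cons (P.lf 510193258 0 0) (P.cons (P.lf 0 60105744 0) (P.cons (P.lf 7739880 0 0) (P.lf 515984 0 0)))) (P.cons (P.cons (P.lf 0 92163622 0) (P.cons (P.lf 0 5547112 0) (P.cons (P.lf 714304 0 0) (P.lf 47616 0 0)))) (P.cons (P.cons (P.lf 0 14154232 0) (P.cons (P.lf 341328 0 0) (P.cons (P.lf 0 43952 0) P.nil))) (P.cons (P.cons (P.lf 406762 0 0) (P.cons (P.lf 86832 0 0) P.nil)) (P.cons (P.cons (P.lf 152230 0 0) P.nil) P.nil)))))) 42558)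
 EL.nil)
noncomputable def S140_169_660_734_35 : EL := (EL.cons 14 (TM.mk (P.cons (P.cons (P.lf 314854330 0 0) (P.cons (P.lf 65683928 0 0) (P.cons (P.lf 0 5032496 0) (P.cons (P.lf 0 1446136 0) (P.cons (P.lf 0 2012 0) (P.cons (P.lf 7572 0 0) P.nil)))))) (P.cons (P.cons (P.lf 0 195355038 0) (P.cons (P.lf 2637550 0 0) (P.cons (P.lf 2060990 0 0) (P.cons (P.lf 0 640902 0) (P.cons (P.lf 0 1408 0) P.nil))))) (P.cons (P.cons (P.lf 65592396 0 0) (P.cons (P.lf 0 1334840 0) (P.cons (P.lf 814016 0 0) (P.cons (P.lf 0 153914 0) P.nil)))) (P.cons (P.cons (P.lf 0 5528276 0) (P.cons (P.lf 1065472 0 0) (P.cons (P.lf 0 73206 0) P.nil))) (P.cons (P.cons (P.lf 0 848264 0) (P.cons (P.lf 308164 0 0) P.nil)) (P.cons (P.cons (P.lf 293758 0 0) P.nil) P.nil)))))) 284838)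
 EL.nil)
noncomputable def S140_169_660_734_36 : EL := (EL.cons 14 (TM.mk (P.cons (P.lf 0 5692896520 0) (P.cons (P.lf 546145784 0 0) (P.cons (P.lf 44706904 0 0) (P.cons (P.lf 267288 0 0) (P.cons (P.lf 0 137296 0) (P.cons (P.lf 0 7336 0) P.nil)))))) 792)
 EL.nil)
noncomputable def S140_169_660_734_37 : EL := (EL.cons 14 (TM.mk (P.cons (P.cons (P.lf 1089916424 0 0) (P.cons (P.lf 113687480 0 0) (P.cons (P.lf 0 14639658 0) (P.lf 0 975972 0)))) (P.cons (P.cons (P.lf 0 442686376 0) (P.cons (P.lf 28927938 0 0) (P.cons (P.lf 0 3725080 0) (P.lf 0 248332 0)))) (P.cons (P.cons (P.lf 84959280 0 0) (P.cons (P.lf 0 1038010 0) (P.cons (P.lf 133668 0 0) (P.lf 8912 0 0)))) (P.cons (P.cons (P.lf 6125004 0 0) (P.cons (P.lf 0 897056 0) (P.cons (P.lf 115514 0 0) P.nil))) (P.cons (P.cons (P.lf 0 1607010 0) (P.cons (P.lf 0 63844 0) P.nil)) (P.cons (P.cons (P.lf 0 158310 0) P.nil) P.nil))))))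 69458)
 EL.nil)
noncomputable def S140_169_660_734_38 : EL := (EL.cons 14 (TM.mk (P.cons (P.cons (P.lf 0 208666678 0) (P.cons (P.lf 0 43531390 0) (P.cons (P.lf 3335238 0 0) (P.cons (P.lf 958412 0 0) (P.cons (P.lf 1332 0 0) (P.cons (P.lf 0 5018 0) P.nil)))))) (P.cons (P.cons (P.lf 149488026 0 0) (P.cons (P.lf 2428154 0 0) (P.cons (P.lf 0 1685866 0) (P.cons (P.lf 332806 0 0) (P.cons (P.lf 804 0 0) P.nil))))) (P.cons (P.cons (P.lf 0 54252670 0) (P.cons (P.lf 1394202 0 0) (P.cons (P.lf 0 434636 0) (P.cons (P.lf 53730 0 0) P.nil)))) (P.cons (P.cons (P.lf 6827216 0 0) (P.cons (P.lf 0 775228 0) (P.cons (P.lf 110840 0 0) P.nil))) (P.cons (P.cons (P.lf 540960 0 0) (P.cons (P.lf 0 144404 0) P.nil)) (P.cons (P.cons (P.lf 0 272494 0) P.nil) P.nil)))))) 285826)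
 EL.nil)
noncomputable def S140_169_660_734_39 : EL := (EL.cons 14 (TM.mk (P.cons (P.lf 3772912404 0 0) (P.cons (P.lf 0 723905728 0) (P.cons (P.lf 0 24534334 0) (P.cons (P.lf 5330620 0 0) (P.cons (P.lf 448650 0 0) (P.cons (P.lf 0 4952 0) P.nil)))))) 3630)
 EL.nil)
noncomputable def S140_169_660_734_40 : EL := (EL.cons 14 (TM.mk (P.cons (P.cons (P.lf 0 722331624 0) (P.cons (P.lf 0 75345284 0) (P.cons (P.lf 9702292 0 0) (P.lf 646816 0 0)))) (P.cons (P.cons (P.lf 362682736 0 0) (P.cons (P.lf 0 11943492 0) (P.cons (P.lf 1537974 0 0) (P.lf 102528 0 0)))) (P.cons (P.cons (P.lf 0 78779284 0) (P.cons (P.lf 3118856 0 0) (P.cons (P.lf 0 401620 0) (P.lf 0 26774 0)))) (P.cons (P.cons (P.lf 0 927676 0) (P.cons (P.lf 682614 0 0) (P.cons (P.lf 0 87900 0) P.nil))) (P.cons (P.cons (P.lf 1865438 0 0) (P.cons (P.lf 0 21040 0) P.nil)) (P.cons (P.cons (P.lf 43412 0 0) P.nil) P.nil))))))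 88620)
 EL.nil)
noncomputable def S140_169_660_734_41 : EL := (EL.cons 14 (TM.mk (P.cons (P.cons (P.lf 138291832 0 0) (P.cons (P.lf 28850010 0 0) (P.cons (P.lf 0 2210396 0) (P.cons (P.lf 0 635178 0) (P.cons (P.lf 0 882 0) (P.cons (P.lf 3324 0 0) P.nil)))))) (P.cons (P.cons (P.lf 0 112338724 0) (P.cons (P.lf 0 4376950 0) (P.cons (P.lf 1329344 0 0) (P.cons (P.lf 0 159628 0) (P.cons (P.lf 0 448 0) P.nil))))) (P.cons (P.cons (P.lf 44373824 0 0) (P.cons (P.lf 0 996174 0) (P.cons (P.lf 198222 0 0) (P.cons (P.lf 0 9460 0) P.nil)))) (P.cons (P.cons (P.lf 0 7202514 0) (P.cons (P.lf 613700 0 0) (P.cons (P.lf 0 109762 0) P.nil))) (P.cons (P.cons (P.lf 0 198818 0) (P.cons (P.lf 54440 0 0) P.nil)) (P.cons (P.cons (P.lf 246620 0 0) P.nil) P.nil)))))) 246922)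
 EL.nil)
noncomputable def S140_169_660_734_42 : EL := (EL.cons 14 (TM.mk (P.cons (P.lf 0 2500461402 0) (P.cons (P.lf 719642336 0 0) (P.cons (P.lf 0 10129460 0) (P.cons (P.lf 0 8742920 0) (P.cons (P.lf 0 168938 0) (P.cons (P.lf 67134 0 0) P.nil)))))) 7070)
 EL.nil)
noncomputable def S140_169_660_734_43 : EL := (EL.cons 14 (TM.mk (P.cons (P.cons (P.lf 478718336 0 0) (P.cons (P.lf 49934362 0 0) (P.cons (P.lf 0 6430100 0) (P.lf 0 428670 0)))) (P.cons (P.cons (P.lf 0 286290150 0) (P.cons (P.lf 3125002 0 0) (P.cons (P.lf 0 402408 0) (P.lf 0 26824 0)))) (P.cons (P.cons (P.lf 71510060 0 0) (P.cons (P.lf 0 3218496 0) (P.cons (P.lf 414450 0 0) (P.lf 27630 0 0)))) (P.cons (P.cons (P.lf 0 2528826 0) (P.cons (P.lf 0 318604 0) (P.cons (P.lf 41026 0 0) P.nil))) (P.cons (P.cons (P.lf 0 1682464 0) (P.cons (P.lf 74410 0 0) P.nil)) (P.cons (P.cons (P.lf 77372 0 0) P.nil) P.nil))))))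 91348)
 EL.nil)
noncomputable def S140_169_660_734_44 : EL := (EL.cons 14 (TM.mk (P.cons (P.cons (P.lf 0 91651582 0) (P.cons (P.lf 0 19120066 0) (P.cons (P.lf 1464918 0 0) (P.cons (P.lf 420958 0 0) (P.cons (P.lf 584 0 0) (P.cons (P.lf 0 2204 0) P.nil)))))) (P.cons (P.cons (P.lf 83243966 0 0) (P.cons (P.lf 4735058 0 0) (P.cons (P.lf 0 1021546 0) (P.cons (P.lf 65406 0 0) (P.cons (P.lf 240 0 0) P.nil))))) (P.cons (P.cons (P.lf 0 35831042 0) (P.cons (P.lf 532072 0 0) (P.cons (P.lf 0 58354 0) (P.cons (P.lf 0 7184 0) P.nil)))) (P.cons (P.cons (P.lf 7014302 0 0) (P.cons (P.lf 0 491942 0) (P.cons (P.lf 92196 0 0) P.nil))) (P.cons (P.cons (P.lf 0 100926 0) (P.cons (P.lf 0 2842 0) P.nil)) (P.cons (P.cons (P.lf 0 210514 0) P.nil) P.nil)))))) 202464)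
 EL.nil)
noncomputable def S140_169_660_734_45 : EL := (EL.cons 14 (TM.mk (P.cons (P.cons (P.lf 0 60279490 0) (P.cons (P.lf 0 18862978 0) (P.cons (P.lf 461438 0 0) (P.cons (P.lf 600252 0 0) (P.cons (P.lf 27582 0 0) (P.cons (P.lf 0 5990 0) P.nil)))))) (P.cons (P.cons (P.lf 56101668 0 0) (P.cons (P.lf 5094430 0 0) (P.cons (P.lf 0 1424430 0) (P.cons (P.lf 82252 0 0) (P.cons (P.lf 28230 0 0) P.nil))))) (P.cons (P.cons (P.lf 0 27538926 0) (P.cons (P.lf 0 438788 0) (P.cons (P.lf 5180 0 0) (P.cons (P.lf 0 14848 0) P.nil)))) (P.cons (P.cons (P.lf 6531420 0 0) (P.cons (P.lf 0 629698 0) (P.cons (P.lf 64540 0 0) P.nil))) (P.cons (P.cons (P.lf 0 532894 0) (P.cons (P.lf 26054 0 0) P.nil)) (P.cons (P.cons (P.lf 0 159060 0) P.nil) P.nil)))))) 321958)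
 EL.nil)
noncomputable def S140_169_660_734_46 : EL := (EL.cons 15 (TM.mk (P.lf 4294967296 0 0) 0)
 EL.nil)
noncomputable def S140_169_660_734_47 : EL := (EL.cons 15 (TM.mk (P.cons (P.cons (P.lf 0 822280079 0) (P.cons (P.lf 0 85770752 0) (P.cons (P.lf 11044792 0 0) (P.lf 736316 0 0)))) (P.cons (P.cons (P.lf 255096629 0 0) (P.cons (P.lf 0 30052872 0) (P.cons (P.lf 3869940 0 0) (P.lf 257992 0 0)))) (P.cons (P.cons (P.lf 0 46081811 0) (P.cons (P.lf 0 2773556 0) (P.cons (P.lf 357152 0 0) (P.lf 23808 0 0)))) (P.cons (P.cons (P.lf 0 7077116 0) (P.cons (P.lf 170664 0 0) (P.cons (P.lf 0 21976 0) P.nil))) (P.cons (P.cons (P.lf 203381 0 0) (P.cons (P.lf 43416 0 0) P.nil)) (P.cons (P.cons (P.lf 76115 0 0) P.nil) P.nil)))))) 21279)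
 EL.nil)
noncomputable def S140_169_660_734_48 : EL := (EL.cons 15 (TM.mk (P.cons (P.cons (P.lf 157427165 0 0) (P.cons (P.lf 32841964 0 0) (P.cons (P.lf 0 2516248 0) (P.cons (P.lf 0 723068 0) (P.cons (P.lf 0 1006 0) (P.cons (P.lf 3786 0 0) P.nil)))))) (P.cons (P.cons (P.lf 0 97677519 0) (P.cons (P.lf 1318775 0 0) (P.cons (P.lf 1030495 0 0) (P.cons (P.lf 0 320451 0) (P.cons (P.lf 0 704 0) P.nil))))) (P.cons (P.cons (P.lf 32796198 0 0) (P.cons (P.lf 0 667420 0) (P.cons (P.lf 407008 0 0) (P.cons (P.lf 0 76957 0) P.nil)))) (P.cons (P.cons (P.lf 0 2764138 0) (P.cons (P.lf 532736 0 0) (P.cons (P.lf 0 36603 0) P.nil))) (P.cons (P.cons (P.lf 0 424132 0) (P.cons (P.lf 154082 0 0) P.nil)) (P.cons (P.cons (P.lf 146879 0 0) P.nil) P.nil)))))) 142419)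
 EL.nil)
noncomputable def S140_169_660_734 : SL := (SL.cons S140_169_660_734_0 (SL.cons S140_169_660_734_1 (SL.cons S140_169_660_734_2 (SL.cons S140_169_660_734_3 (SL.cons S140_169_660_734_4 (SL.cons S140_169_660_734_5 (SL.cons S140_169_660_734_6 (SL.cons S140_169_660_734_7 (SL.cons S140_169_660_734_8 (SL.cons S140_169_660_734_9 (SL.cons S140_169_660_734_10 (SL.cons S140_169_660_734_11 (SL.cons S140_169_660_734_12 (SL.cons S140_169_660_734_13 (SL.cons S140_169_660_734_14 (SL.cons S140_169_660_734_15 (SL.cons S140_169_660_734_16 (SL.cons S140_169_660_734_17 (SL.cons S140_169_660_734_18 (SL.cons S140_169_660_734_19 (SL.cons S140_169_660_734_20 (SL.cons S140_169_660_734_21 (SL.cons S140_169_660_734_22 (SL.cons S140_169_660_734_23 (SL.cons S140_169_660_734_24 (SL.cons S140_169_660_734_25 (SL.cons S140_169_660_734_26 (SL.cons S140_169_660_734_27 (SL.cons S140_169_660_734_28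 (SL.cons S140_169_660_734_29 (SL.cons S140_169_660_734_30 (SL.cons S140_169_660_734_31 (SL.cons S140_169_660_734_32 (SL.cons S140_169_660_734_33 (SL.cons S140_169_660_734_34 (SL.cons S140_169_660_734_35 (SL.cons S140_169_660_734_36 (SL.cons S140_169_660_734_37 (SL.cons S140_169_660_734_38 (SL.cons S140_169_660_734_39 (SL.cons S140_169_660_734_40 (SL.cons S140_169_660_734_41 (SL.cons S140_169_660_734_42 (SL.cons S140_169_660_734_43 (SL.cons S140_169_660_734_44 (SL.cons S140_169_660_734_45 (SL.cons S140_169_660_734_46 (SL.cons S140_169_660_734_47 (SL.cons S140_169_660_734_48 SL.nil)))))))))))))))))))))))))))))))))))))))))))))))))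
noncomputable def S140_169_660_808_0 : EL := (EL.cons 0 (TM.mk (P.cons (P.lf 5139680571 0 0) (P.cons (P.lf 636245268 0 0) (P.cons (P.lf 21563379 0 0) (P.cons (P.lf 0 4685115 0) (P.cons (P.lf 0 394321 0) (P.cons (P.lf 4352 0 0) P.nil)))))) 3197)
 (EL.cons 1 (TM.mk (P.cons (P.lf 0 1792040857 0) (P.cons (P.lf 0 37383279 0) (P.cons (P.lf 39281548 0 0) (P.cons (P.lf 2177913 0 0) (P.cons (P.lf 0 137038 0) (P.cons (P.lf 0 19477 0) P.nil)))))) 1484)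
 (EL.cons 5 (TM.mk (P.cons (P.lf 5474002426 0 0) (P.cons (P.lf 0 226220540 0) (P.cons (P.lf 0 7666984 0) (P.cons (P.lf 1665814 0 0) (P.cons (P.lf 140204 0 0) (P.cons (P.lf 0 1546 0) P.nil)))))) 969)
 (EL.cons 9 (TM.mk (P.lf 6442450944 0 0) 2)
 EL.nil))))
noncomputable def S140_169_660_808_1 : EL := (EL.cons 0 (TM.mk (P.cons (P.cons (P.lf 0 2587481782 0) (P.cons (P.lf 137642341 0 0) (P.cons (P.lf 0 59352925 0) (P.lf 0 6594759 0)))) (P.cons (P.cons (P.lf 821834581 0 0) (P.cons (P.lf 0 24622716 0) (P.cons (P.lf 10617602 0 0) (P.lf 1179744 0 0)))) (P.cons (P.cons (P.lf 121781336 0 0) (P.cons (P.lf 0 23543950 0) (P.cons (P.lf 10152414 0 0) (P.lf 1128038 0 0)))) (P.cons (P.cons (P.lf 0 35645628 0) (P.cons (P.lf 0 2958288 0) (P.cons (P.lf 1275635 0 0) P.nil))) (P.cons (P.cons (P.lf 0 6393261 0) (P.cons (P.lf 228553 0 0) P.nil)) (P.cons (P.cons (P.lf 221511 0 0) P.nil) P.nil))))))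 1021906)
 (EL.cons 1 (TM.mk (P.cons (P.cons (P.lf 462973222 0 0) (P.cons (P.lf 34565783 0 0) (P.cons (P.lf 0 14905149 0) (P.lf 0 1656125 0)))) (P.cons (P.cons (P.lf 0 320891307 0) (P.cons (P.lf 52688721 0 0) (P.cons (P.lf 0 22719962 0) (P.lf 0 2524428 0)))) (P.cons (P.cons (P.lf 87418260 0 0) (P.cons (P.lf 7449965 0 0) (P.cons (P.lf 0 3212502 0) (P.lf 0 356940 0)))) (P.cons (P.cons (P.lf 22947531 0 0) (P.cons (P.lf 0 1351104 0) (P.cons (P.lf 582604 0 0) P.nil))) (P.cons (P.cons (P.lf 0 1685527 0) (P.cons (P.lf 0 324601 0) P.nil)) (P.cons (P.cons (P.lf 0 549537 0) P.nil) P.nil)))))) 523619)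
 (EL.cons 5 (TM.mk (P.cons (P.cons (P.lf 0 603665014 0) (P.cons (P.lf 0 257945004 0) (P.cons (P.lf 111228794 0 0) (P.lf 12358750 0 0)))) (P.cons (P.cons (P.lf 97384035 0 0) (P.cons (P.lf 0 64477858 0) (P.cons (P.lf 27803580 0 0) (P.lf 3089284 0 0)))) (P.cons (P.cons (P.lf 0 125706524 0) (P.cons (P.lf 1612596 0 0) (P.cons (P.lf 0 695370 0) (P.lf 0 77264 0)))) (P.cons (P.cons (P.lf 893178 0 0) (P.cons (P.lf 1467706 0 0) (P.cons (P.lf 0 632882 0) P.nil))) (P.cons (P.cons (P.lf 2682571 0 0) (P.cons (P.lf 24540 0 0) P.nil)) (P.cons (P.cons (P.lf 52788 0 0) P.nil) P.nil)))))) 418839)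
 (EL.cons 9 (TM.mk (P.cons (P.cons (P.lf 0 1344404584 0) (P.cons (P.lf 0 184416618 0) (P.cons (P.lf 79522524 0 0) (P.lf 8835834 0 0)))) (P.cons (P.cons (P.lf 343757539 0 0) (P.cons (P.lf 0 64617000 0) (P.cons (P.lf 27863574 0 0) (P.lf 3095946 0 0)))) (P.cons (P.cons (P.lf 0 72711610 0) (P.cons (P.lf 0 5963454 0) (P.cons (P.lf 2571504 0 0) (P.lf 285720 0 0)))) (P.cons (P.cons (P.lf 0 10394838 0) (P.cons (P.lf 366942 0 0) (P.cons (P.lf 0 158226 0) P.nil))) (P.cons (P.cons (P.lf 361249 0 0) (P.cons (P.lf 93354 0 0) P.nil)) (P.cons (P.cons (P.lf 116062 0 0) P.nil) P.nil)))))) 102251)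
 (EL.cons 2 (TM.mk (P.cons (P.cons (P.lf 356521533 0 0) (P.cons (P.lf 0 332132788 0) (P.cons (P.lf 0 34087626 0) (P.cons (P.lf 7089277 0 0) (P.lf 590771 0 0))))) (P.cons (P.cons (P.lf 49077348 0 0) (P.cons (P.lf 0 45720090 0) (P.cons (P.lf 0 4692366 0) (P.cons (P.lf 975878 0 0) (P.lf 81320 0 0))))) (P.cons (P.cons (P.lf 0 7966746 0) (P.cons (P.lf 7421760 0 0) (P.cons (P.lf 761712 0 0) (P.cons (P.lf 0 158414 0) P.nil)))) (P.cons (P.cons (P.lf 0 1554766 0) (P.cons (P.lf 1448409 0 0) (P.cons (P.lf 148651 0 0) P.nil))) (P.cons (P.cons (P.lf 0 10257 0) (P.cons (P.lf 9556 0 0) P.nil)) (P.cons (P.cons (P.lf 12670 0 0) P.nil) P.nil)))))) 89109)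
 (EL.cons 6 (TM.mk (P.cons (P.cons (P.lf 192670131 0 0) (P.cons (P.lf 0 179490051 0) (P.cons (P.lf 0 18421518 0) (P.cons (P.lf 3831162 0 0) (P.lf 319260 0 0))))) (P.cons (P.cons (P.lf 67508916 0 0) (P.cons (P.lf 0 62890800 0) (P.cons (P.lf 0 6454641 0) (P.cons (P.lf 1342383 0 0) (P.lf 111864 0 0))))) (P.cons (P.cons (P.lf 6230349 0 0) (P.cons (P.lf 0 5804145 0) (P.cons (P.lf 0 595692 0) (P.cons (P.lf 123885 0 0) P.nil)))) (P.cons (P.cons (P.lf 0 383367 0) (P.cons (P.lf 357144 0 0) (P.cons (P.lf 36654 0 0) P.nil))) (P.cons (P.cons (P.lf 0 97530 0) (P.cons (P.lf 90858 0 0) P.nil)) (P.cons (P.cons (P.lf 0 3279 0) P.nil) P.nil)))))) 47412)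
 EL.nil))))))
noncomputable def S140_169_660_808_2 : EL := (EL.cons 0 (TM.mk (P.cons (P.cons (P.lf 856089107 0 0) (P.cons (P.lf 29284749 0 0) (P.cons (P.lf 0 24719463 0) (P.cons (P.lf 9024929 0 0) (P.cons (P.lf 0 1089661 0) (P.cons (P.lf 0 499629 0) P.nil)))))) (P.cons (P.cons (P.lf 0 532374577 0) (P.cons (P.lf 16403458 0 0) (P.cons (P.lf 0 11897387 0) (P.cons (P.lf 3374420 0 0) (P.cons (P.lf 0 434727 0) P.nil))))) (P.cons (P.cons (P.lf 69669612 0 0) (P.cons (P.lf 0 15358673 0) (P.cons (P.lf 7037413 0 0) (P.cons (P.lf 378322 0 0) P.nil)))) (P.cons (P.cons (P.lf 16276944 0 0) (P.cons (P.lf 0 4337445 0) (P.cons (P.lf 2388319 0 0) P.nil))) (P.cons (P.cons (P.lf 0 6388538 0) (P.cons (P.lf 718073 0 0) P.nil)) (P.cons (P.cons (P.lf 0 462165 0) P.nil) P.nil)))))) 6176891)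
 (EL.cons 1 (TM.mk (P.cons (P.cons (P.lf 0 115187721 0) (P.cons (P.lf 0 19522276 0) (P.cons (P.lf 7907726 0 0) (P.cons (P.lf 1375618 0 0) (P.cons (P.lf 0 46006 0) (P.cons (P.lf 0 21092 0) P.nil)))))) (P.cons (P.cons (P.lf 145053540 0 0) (P.cons (P.lf 0 6743382 0) (P.cons (P.lf 257637 0 0) (P.cons (P.lf 2608666 0 0) (P.cons (P.lf 0 238822 0) P.nil))))) (P.cons (P.cons (P.lf 0 70179290 0) (P.cons (P.lf 1813486 0 0) (P.cons (P.lf 0 2064902 0) (P.cons (P.lf 1019520 0 0) P.nil)))) (P.cons (P.cons (P.lf 5611806 0 0) (P.cons (P.lf 0 2082716 0) (P.cons (P.lf 741226 0 0) P.nil))) (P.cons (P.cons (P.lf 1882030 0 0) (P.cons (P.lf 0 794067 0) P.nil)) (P.cons (P.cons (P.lf 0 707733 0) P.nil) P.nil)))))) 2991736)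
 (EL.cons 5 (TM.mk (P.cons (P.cons (P.lf 13568392 0 0) (P.cons (P.lf 76817786 0 0) (P.cons (P.lf 0 22842656 0) (P.cons (P.lf 0 12547989 0) (P.cons (P.lf 926591 0 0) (P.cons (P.lf 424850 0 0) P.nil)))))) (P.cons (P.cons (P.lf 26689402 0 0) (P.cons (P.lf 2427579 0 0) (P.cons (P.lf 4861004 0 0) (P.cons (P.lf 0 5211339 0) (P.cons (P.lf 532397 0 0) P.nil))))) (P.cons (P.cons (P.lf 30409523 0 0) (P.cons (P.lf 5184303 0 0) (P.cons (P.lf 0 1261478 0) (P.cons (P.lf 0 1088411 0) P.nil)))) (P.cons (P.cons (P.lf 0 9664647 0) (P.cons (P.lf 2974885 0 0) (P.cons (P.lf 0 1355206 0) P.nil))) (P.cons (P.cons (P.lf 1773464 0 0) (P.cons (P.lf 110352 0 0) P.nil)) (P.cons (P.cons (P.lf 419031 0 0) P.nil) P.nil)))))) 3038809)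
 (EL.cons 9 (TM.mk (P.cons (P.cons (P.lf 280549080 0 0) (P.cons (P.lf 76967770 0 0) (P.cons (P.lf 0 27910402 0) (P.cons (P.lf 0 8240407 0) (P.cons (P.lf 475731 0 0) (P.cons (P.lf 218130 0 0) P.nil)))))) (P.cons (P.cons (P.lf 0 143469997 0) (P.cons (P.lf 7288153 0 0) (P.cons (P.lf 556620 0 0) (P.cons (P.lf 0 3539593 0) (P.cons (P.lf 333379 0 0) P.nil))))) (P.cons (P.cons (P.lf 48689061 0 0) (P.cons (P.lf 0 244023 0) (P.cons (P.lf 1094737 0 0) (P.cons (P.lf 0 841683 0) P.nil)))) (P.cons (P.cons (P.lf 0 3421149 0) (P.cons (P.lf 1264141 0 0) (P.cons (P.lf 0 446496 0) P.nil))) (P.cons (P.cons (P.lf 0 439422 0) (P.cons (P.lf 322642 0 0) P.nil)) (P.cons (P.cons (P.lf 224749 0 0) P.nil) P.nil)))))) 1210723)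
 (EL.cons 2 (TM.mk (P.cons (P.cons (P.lf 0 148797151 0) (P.cons (P.lf 118207293 0 0) (P.cons (P.lf 42042960 0 0) (P.cons (P.lf 0 8228666 0) (P.cons (P.lf 0 2404991 0) (P.cons (P.lf 47688 0 0) P.nil)))))) (P.cons (P.cons (P.lf 17563854 0 0) (P.cons (P.lf 0 26323790 0) (P.cons (P.lf 11896166 0 0) (P.cons (P.lf 0 2222679 0) (P.cons (P.lf 0 1024295 0) P.nil))))) (P.cons (P.cons (P.lf 514704 0 0) (P.cons (P.lf 0 1667902 0) (P.cons (P.lf 1570353 0 0) (P.cons (P.lf 0 296595 0) P.nil)))) (P.cons (P.cons (P.lf 0 2459581 0) (P.cons (P.lf 2489900 0 0) (P.cons (P.lf 0 35454 0) P.nil))) (P.cons (P.cons (P.lf 0 100192 0) (P.cons (P.lf 155784 0 0) P.nil)) (P.cons (P.cons (P.lf 72765 0 0) P.nil) P.nil)))))) 1068198)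
 (EL.cons 6 (TM.mk (P.cons (P.cons (P.lf 0 80412438 0) (P.cons (P.lf 63881172 0 0) (P.cons (P.lf 22720710 0 0) (P.cons (P.lf 0 4446906 0) (P.cons (P.lf 0 1299696 0) (P.cons (P.lf 25770 0 0) P.nil)))))) (P.cons (P.cons (P.lf 0 7614330 0) (P.cons (P.lf 0 636372 0) (P.cons (P.lf 11262258 0 0) (P.cons (P.lf 0 2147160 0) (P.cons (P.lf 0 830028 0) P.nil))))) (P.cons (P.cons (P.lf 254940 0 0) (P.cons (P.lf 0 2305092 0) (P.cons (P.lf 2793342 0 0) (P.cons (P.lf 0 528756 0) P.nil)))) (P.cons (P.cons (P.lf 0 1320714 0) (P.cons (P.lf 1024302 0 0) (P.cons (P.lf 407094 0 0) P.nil))) (P.cons (P.cons (P.lf 0 337080 0) (P.cons (P.lf 329034 0 0) P.nil)) (P.cons (P.cons (P.lf 0 5976 0) P.nil) P.nil)))))) 853968)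
 EL.nil))))))
noncomputable def S140_169_660_808_3 : EL := (EL.cons 0 (TM.mk (P.cons (P.lf 3316036292 0 0) (P.cons (P.lf 0 636245268 0) (P.cons (P.lf 0 21563379 0) (P.cons (P.lf 4685115 0 0) (P.cons (P.lf 394321 0 0) (P.cons (P.lf 0 4352 0) P.nil)))))) 3197)
 (EL.cons 1 (TM.mk (P.cons (P.lf 1792040857 0 0) (P.cons (P.lf 37383279 0 0) (P.cons (P.lf 0 39281548 0) (P.cons (P.lf 0 2177913 0) (P.cons (P.lf 137038 0 0) (P.cons (P.lf 19477 0 0) P.nil)))))) 1484)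
 (EL.cons 5 (TM.mk (P.cons (P.lf 968448518 0 0) (P.cons (P.lf 226220540 0 0) (P.cons (P.lf 7666984 0 0) (P.cons (P.lf 0 1665814 0) (P.cons (P.lf 0 140204 0) (P.cons (P.lf 1546 0 0) P.nil)))))) 962)
 EL.nil)))
noncomputable def S140_169_660_808_4 : EL := (EL.cons 0 (TM.mk (P.cons (P.cons (P.lf 0 691987324 0) (P.cons (P.lf 0 94922289 0) (P.cons (P.lf 40931560 0 0) (P.lf 4547949 0 0)))) (P.cons (P.cons (P.lf 309708764 0 0) (P.cons (P.lf 0 15046774 0) (P.cons (P.lf 6488335 0 0) (P.lf 720922 0 0)))) (P.cons (P.cons (P.lf 0 66874942 0) (P.cons (P.lf 3929229 0 0) (P.cons (P.lf 0 1694329 0) (P.lf 0 188258 0)))) (P.cons (P.cons (P.lf 0 297791 0) (P.cons (P.lf 859976 0 0) (P.cons (P.lf 0 370828 0) P.nil))) (P.cons (P.cons (P.lf 1623591 0 0) (P.cons (P.lf 0 26506 0) P.nil)) (P.cons (P.cons (P.lf 27924 0 0) P.nil) P.nil)))))) 213580)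
 (EL.cons 1 (TM.mk (P.cons (P.cons (P.lf 0 373961394 0) (P.cons (P.lf 0 51297573 0) (P.cons (P.lf 22120091 0 0) (P.lf 2457785 0 0)))) (P.cons (P.cons (P.lf 87818953 0 0) (P.cons (P.lf 0 19044056 0) (P.cons (P.lf 8212008 0 0) (P.lf 912442 0 0)))) (P.cons (P.cons (P.lf 0 10033618 0) (P.cons (P.lf 0 909307 0) (P.cons (P.lf 392101 0 0) (P.lf 43565 0 0)))) (P.cons (P.cons (P.lf 0 4954867 0) (P.cons (P.lf 523796 0 0) (P.cons (P.lf 0 225864 0) P.nil))) (P.cons (P.cons (P.lf 338703 0 0) (P.cons (P.lf 82378 0 0) P.nil)) (P.cons (P.cons (P.lf 125587 0 0) P.nil) P.nil)))))) 121119)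
 (EL.cons 5 (TM.mk (P.cons (P.cons (P.lf 0 202094922 0) (P.cons (P.lf 0 27722058 0) (P.cons (P.lf 11954062 0 0) (P.lf 1328228 0 0)))) (P.cons (P.cons (P.lf 4467172 0 0) (P.cons (P.lf 0 16189034 0) (P.cons (P.lf 6980892 0 0) (P.lf 775652 0 0)))) (P.cons (P.cons (P.lf 0 459446 0) (P.cons (P.lf 0 3384876 0) (P.cons (P.lf 1459596 0 0) (P.lf 162176 0 0)))) (P.cons (P.cons (P.lf 0 3359064 0) (P.cons (P.lf 0 183454 0) (P.cons (P.lf 79106 0 0) P.nil))) (P.cons (P.cons (P.lf 0 456858 0) (P.cons (P.lf 40542 0 0) P.nil)) (P.cons (P.cons (P.lf 28756 0 0) P.nil) P.nil)))))) 73174)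
 EL.nil)))
noncomputable def S140_169_660_808_5 : EL := (EL.cons 0 (TM.mk (P.cons (P.cons (P.lf 144403261 0 0) (P.cons (P.lf 39616586 0 0) (P.cons (P.lf 0 14365945 0) (P.cons (P.lf 0 4241473 0) (P.cons (P.lf 244865 0 0) (P.cons (P.lf 112275 0 0) P.nil)))))) (P.cons (P.cons (P.lf 0 101552925 0) (P.cons (P.lf 0 3849869 0) (P.cons (P.lf 3042884 0 0) (P.cons (P.lf 0 1008079 0) (P.cons (P.lf 124613 0 0) P.nil))))) (P.cons (P.cons (P.lf 38290893 0 0) (P.cons (P.lf 0 1102983 0) (P.cons (P.lf 601925 0 0) (P.cons (P.lf 0 56081 0) P.nil)))) (P.cons (P.cons (P.lf 0 5885140 0) (P.cons (P.lf 706352 0 0) (P.cons (P.lf 0 360093 0) P.nil))) (P.cons (P.cons (P.lf 0 138440 0) (P.cons (P.lf 52052 0 0) P.nil)) (P.cons (P.cons (P.lf 196966 0 0) P.nil) P.nil)))))) 1037076)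
 (EL.cons 1 (TM.mk (P.cons (P.cons (P.lf 78037910 0 0) (P.cons (P.lf 21409458 0 0) (P.cons (P.lf 0 7763595 0) (P.cons (P.lf 0 2292161 0) (P.cons (P.lf 132328 0 0) (P.cons (P.lf 60673 0 0) P.nil)))))) (P.cons (P.cons (P.lf 0 38279880 0) (P.cons (P.lf 2473899 0 0) (P.cons (P.lf 0 7123 0) (P.cons (P.lf 0 1032393 0) (P.cons (P.lf 95491 0 0) P.nil))))) (P.cons (P.cons (P.lf 11000315 0 0) (P.cons (P.lf 0 494881 0) (P.cons (P.lf 477920 0 0) (P.cons (P.lf 0 204418 0) P.nil)))) (P.cons (P.cons (P.lf 110831 0 0) (P.cons (P.lf 279761 0 0) (P.cons (P.lf 0 111802 0) P.nil))) (P.cons (P.cons (P.lf 0 384483 0) (P.cons (P.lf 97741 0 0) P.nil)) (P.cons (P.cons (P.lf 62161 0 0) P.nil) P.nil)))))) 587590)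
 (EL.cons 5 (TM.mk (P.cons (P.cons (P.lf 42172976 0 0) (P.cons (P.lf 11570024 0 0) (P.cons (P.lf 0 4195574 0) (P.cons (P.lf 0 1238722 0) (P.cons (P.lf 71512 0 0) (P.cons (P.lf 32788 0 0) P.nil)))))) (P.cons (P.cons (P.lf 0 11715624 0) (P.cons (P.lf 3798226 0 0) (P.cons (P.lf 0 896372 0) (P.cons (P.lf 0 821434 0) (P.cons (P.lf 66818 0 0) P.nil))))) (P.cons (P.cons (P.lf 2615146 0 0) (P.cons (P.lf 310830 0 0) (P.cons (P.lf 150892 0 0) (P.cons (P.lf 0 260620 0) P.nil)))) (P.cons (P.cons (P.lf 952110 0 0) (P.cons (P.lf 170232 0 0) (P.cons (P.lf 0 20798 0) P.nil))) (P.cons (P.cons (P.lf 0 97250 0) (P.cons (P.lf 89038 0 0) P.nil)) (P.cons (P.cons (P.lf 4882 0 0) P.nil) P.nil)))))) 337734)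
 EL.nil)))
noncomputable def S140_169_660_808_6 : EL := (EL.cons 12 (TM.mk (P.lf 8589934592 0 0) 0)
 (EL.cons 3 (TM.mk (P.cons (P.lf 0 2668545243 0) (P.cons (P.lf 256005836 0 0) (P.cons (P.lf 20956361 0 0) (P.cons (P.lf 125291 0 0) (P.cons (P.lf 0 64357 0) (P.cons (P.lf 0 3438 0) P.nil)))))) 378)
 (EL.cons 7 (TM.mk (P.cons (P.lf 0 1442125985 0) (P.cons (P.lf 0 168433589 0) (P.cons (P.lf 4127638 0 0) (P.cons (P.lf 758202 0 0) (P.cons (P.lf 21743 0 0) (P.cons (P.lf 0 1521 0) P.nil)))))) 224)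
 EL.nil)))
noncomputable def S140_169_660_808_7 : EL := (EL.cons 12 (TM.mk (P.cons (P.cons (P.lf 0 1792539446 0) (P.cons (P.lf 0 245888824 0) (P.cons (P.lf 106030032 0 0) (P.lf 11781112 0 0)))) (P.cons (P.cons (P.lf 458343386 0 0) (P.cons (P.lf 0 86156000 0) (P.cons (P.lf 37151432 0 0) (P.lf 4127928 0 0)))) (P.cons (P.cons (P.lf 0 96948814 0) (P.cons (P.lf 0 7951272 0) (P.cons (P.lf 3428672 0 0) (P.lf 380960 0 0)))) (P.cons (P.cons (P.lf 0 13859784 0) (P.cons (P.lf 489256 0 0) (P.cons (P.lf 0 210968 0) P.nil))) (P.cons (P.cons (P.lf 481666 0 0) (P.cons (P.lf 124472 0 0) P.nil)) (P.cons (P.cons (P.lf 154750 0 0) P.nil) P.nil)))))) 136310)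
 (EL.cons 3 (TM.mk (P.cons (P.cons (P.lf 1775999960 0 0) (P.cons (P.lf 0 152775422 0) (P.cons (P.lf 65878482 0 0) (P.lf 7319828 0 0)))) (P.cons (P.cons (P.lf 0 626368813 0) (P.cons (P.lf 0 38873916 0) (P.cons (P.lf 16762866 0 0) (P.lf 1862534 0 0)))) (P.cons (P.cons (P.lf 0 113311271 0) (P.cons (P.lf 1394898 0 0) (P.cons (P.lf 0 601498 0) (P.lf 0 66834 0)))) (P.cons (P.cons (P.lf 2479469 0 0) (P.cons (P.lf 1205478 0 0) (P.cons (P.lf 0 519810 0) P.nil))) (P.cons (P.cons (P.lf 2189117 0 0) (P.cons (P.lf 85798 0 0) P.nil)) (P.cons (P.cons (P.lf 136361 0 0) P.nil) P.nil)))))) 405574)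
 (EL.cons 7 (TM.mk (P.cons (P.cons (P.lf 0 501159433 0) (P.cons (P.lf 192054193 0 0) (P.cons (P.lf 0 82815936 0) (P.lf 0 9201770 0)))) (P.cons (P.cons (P.lf 412106023 0 0) (P.cons (P.lf 25576270 0 0) (P.cons (P.lf 0 11028777 0) (P.lf 0 1225421 0)))) (P.cons (P.cons (P.lf 30717097 0 0) (P.cons (P.lf 0 3638158 0) (P.cons (P.lf 1568813 0 0) (P.lf 174313 0 0)))) (P.cons (P.cons (P.lf 0 9476644 0) (P.cons (P.lf 0 493698 0) (P.cons (P.lf 212888 0 0) P.nil))) (P.cons (P.cons (P.lf 0 692226 0) (P.cons (P.lf 45320 0 0) P.nil)) (P.cons (P.cons (P.lf 85194 0 0) P.nil) P.nil)))))) 267680)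
 (EL.cons 10 (TM.mk (P.cons (P.cons (P.lf 0 573813891 0) (P.cons (P.lf 534560721 0 0) (P.cons (P.lf 54863319 0 0) (P.cons (P.lf 0 11410044 0) (P.lf 0 950835 0))))) (P.cons (P.cons (P.lf 0 134037570 0) (P.cons (P.lf 124868397 0 0) (P.cons (P.lf 12815559 0 0) (P.cons (P.lf 0 2665278 0) (P.lf 0 222105 0))))) (P.cons (P.cons (P.lf 0 4542750 0) (P.cons (P.lf 4231992 0 0) (P.cons (P.lf 434340 0 0) (P.cons (P.lf 0 90330 0) P.nil)))) (P.cons (P.cons (P.lf 987006 0 0) (P.cons (P.lf 0 919488 0) (P.cons (P.lf 0 94368 0) P.nil))) (P.cons (P.cons (P.lf 83070 0 0) (P.cons (P.lf 0 77388 0) P.nil)) (P.cons (P.cons (P.lf 0 915 0) P.nil) P.nil)))))) 40752)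
 EL.nil))))
noncomputable def S140_169_660_808_8 : EL := (EL.cons 12 (TM.mk (P.cons (P.cons (P.lf 374065440 0 0) (P.cons (P.lf 102623694 0 0) (P.cons (P.lf 0 37213870 0) (P.cons (P.lf 0 10987210 0) (P.cons (P.lf 634308 0 0) (P.cons (P.lf 290840 0 0) P.nil)))))) (P.cons (P.cons (P.lf 0 191293330 0) (P.cons (P.lf 9717538 0 0) (P.cons (P.lf 742160 0 0) (P.cons (P.lf 0 4719458 0) (P.cons (P.lf 444506 0 0) P.nil))))) (P.cons (P.cons (P.lf 64918748 0 0) (P.cons (P.lf 0 325364 0) (P.cons (P.lf 1459650 0 0) (P.cons (P.lf 0 1122244 0) P.nil)))) (P.cons (P.cons (P.lf 0 4561532 0) (P.cons (P.lf 1685522 0 0) (P.cons (P.lf 0 595328 0) P.nil))) (P.cons (P.cons (P.lf 0 585896 0) (P.cons (P.lf 430190 0 0) P.nil)) (P.cons (P.cons (P.lf 299666 0 0) P.nil) P.nil)))))) 1614268)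
 (EL.cons 3 (TM.mk (P.cons (P.cons (P.lf 0 625020988 0) (P.cons (P.lf 0 6033714 0) (P.cons (P.lf 13534880 0 0) (P.cons (P.lf 0 9139842 0) (P.cons (P.lf 985271 0 0) (P.cons (P.lf 451761 0 0) P.nil)))))) (P.cons (P.cons (P.lf 380373025 0 0) (P.cons (P.lf 114821 0 0) (P.cons (P.lf 6563215 0 0) (P.cons (P.lf 0 5708472 0) (P.cons (P.lf 595925 0 0) P.nil))))) (P.cons (P.cons (P.lf 0 34685309 0) (P.cons (P.lf 13840850 0 0) (P.cons (P.lf 0 4739859 0) (P.cons (P.lf 0 1722606 0) P.nil)))) (P.cons (P.cons (P.lf 0 7609933 0) (P.cons (P.lf 5017303 0 0) (P.cons (P.lf 0 2216559 0) P.nil))) (P.cons (P.cons (P.lf 3930288 0 0) (P.cons (P.lf 269315 0 0) P.nil)) (P.cons (P.cons (P.lf 599587 0 0) P.nil) P.nil)))))) 3513065)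
 (EL.cons 7 (TM.mk (P.cons (P.cons (P.lf 271963136 0 0) (P.cons (P.lf 0 34234728 0) (P.cons (P.lf 4948899 0 0) (P.cons (P.lf 10103653 0 0) (P.cons (P.lf 0 884373 0) (P.cons (P.lf 0 405497 0) P.nil)))))) (P.cons (P.cons (P.lf 0 250258331 0) (P.cons (P.lf 0 75553 0) (P.cons (P.lf 0 4318128 0) (P.cons (P.lf 3755768 0 0) (P.cons (P.lf 0 392073 0) P.nil))))) (P.cons (P.cons (P.lf 49439182 0 0) (P.cons (P.lf 0 9098259 0) (P.cons (P.lf 3577788 0 0) (P.cons (P.lf 733865 0 0) P.nil)))) (P.cons (P.cons (P.lf 114106 0 0) (P.cons (P.lf 0 2010067 0) (P.cons (P.lf 987489 0 0) P.nil))) (P.cons (P.cons (P.lf 0 3004897 0) (P.cons (P.lf 259121 0 0) P.nil)) (P.cons (P.cons (P.lf 69353 0 0) P.nil) P.nil)))))) 2036873)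
 (EL.cons 10 (TM.mk (P.cons (P.cons (P.lf 239485878 0 0) (P.cons (P.lf 0 190252146 0) (P.cons (P.lf 0 67667256 0) (P.cons (P.lf 13243872 0 0) (P.cons (P.lf 3870780 0 0) (P.cons (P.lf 0 76752 0) P.nil)))))) (P.cons (P.cons (P.lf 0 5293674 0) (P.cons (P.lf 24115824 0 0) (P.cons (P.lf 0 25638264 0) (P.cons (P.lf 4847904 0 0) (P.cons (P.lf 2019924 0 0) P.nil))))) (P.cons (P.cons (P.lf 544446 0 0) (P.cons (P.lf 3503928 0 0) (P.cons (P.lf 0 5518446 0) (P.cons (P.lf 1046454 0 0) P.nil)))) (P.cons (P.cons (P.lf 3980550 0 0) (P.cons (P.lf 0 3490848 0) (P.cons (P.lf 0 676854 0) P.nil))) (P.cons (P.cons (P.lf 541386 0 0) (P.cons (P.lf 0 552390 0) P.nil)) (P.cons (P.cons (P.lf 0 34074 0) P.nil) P.nil)))))) 1717698)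
 EL.nil))))
noncomputable def S140_169_660_808_9 : EL := (EL.cons 3 (TM.mk (P.cons (P.lf 0 2668545243 0) (P.cons (P.lf 256005836 0 0) (P.cons (P.lf 20956361 0 0) (P.cons (P.lf 125291 0 0) (P.cons (P.lf 0 64357 0) (P.cons (P.lf 0 3438 0) P.nil)))))) 378)
 (EL.cons 7 (TM.mk (P.cons (P.lf 0 1442125985 0) (P.cons (P.lf 0 168433589 0) (P.cons (P.lf 4127638 0 0) (P.cons (P.lf 758202 0 0) (P.cons (P.lf 21743 0 0) (P.cons (P.lf 0 1521 0) P.nil)))))) 224)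
 EL.nil))
noncomputable def S140_169_660_808_10 : EL := (EL.cons 3 (TM.mk (P.cons (P.cons (P.lf 556869503 0 0) (P.cons (P.lf 76387711 0 0) (P.cons (P.lf 0 32939241 0) (P.lf 0 3659914 0)))) (P.cons (P.cons (P.lf 0 195811807 0) (P.cons (P.lf 19436958 0 0) (P.cons (P.lf 0 8381433 0) (P.lf 0 931267 0)))) (P.cons (P.cons (P.lf 39404929 0 0) (P.cons (P.lf 0 697449 0) (P.cons (P.lf 300749 0 0) (P.lf 33417 0 0)))) (P.cons (P.cons (P.lf 2508356 0 0) (P.cons (P.lf 0 602739 0) (P.cons (P.lf 259905 0 0) P.nil))) (P.cons (P.cons (P.lf 0 779101 0) (P.cons (P.lf 0 42899 0) P.nil)) (P.cons (P.cons (P.lf 0 71662 0) P.nil) P.nil)))))) 100161)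
 (EL.cons 7 (TM.mk (P.cons (P.cons (P.lf 300941489 0 0) (P.cons (P.lf 41281183 0 0) (P.cons (P.lf 0 17800911 0) (P.lf 0 1977878 0)))) (P.cons (P.cons (P.lf 0 41800673 0) (P.cons (P.lf 19285798 0 0) (P.cons (P.lf 0 8316252 0) (P.lf 0 924026 0)))) (P.cons (P.cons (P.lf 6427642 0 0) (P.cons (P.lf 2906117 0 0) (P.cons (P.lf 0 1253149 0) (P.lf 0 139238 0)))) (P.cons (P.cons (P.lf 4289876 0 0) (P.cons (P.lf 10668 0 0) (P.cons (P.lf 0 4600 0) P.nil))) (P.cons (P.cons (P.lf 180234 0 0) (P.cons (P.lf 0 42538 0) P.nil)) (P.cons (P.cons (P.lf 0 49164 0) P.nil) P.nil)))))) 55525)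
 EL.nil))
noncomputable def S140_169_660_808_11 : EL := (EL.cons 3 (TM.mk (P.cons (P.cons (P.lf 0 116207002 0) (P.cons (P.lf 0 31881030 0) (P.cons (P.lf 11560844 0 0) (P.cons (P.lf 3413280 0 0) (P.cons (P.lf 0 197053 0) (P.cons (P.lf 0 90351 0) P.nil)))))) (P.cons (P.cons (P.lf 70575373 0 0) (P.cons (P.lf 39647 0 0) (P.cons (P.lf 0 1339643 0) (P.cons (P.lf 1138692 0 0) (P.cons (P.lf 0 119185 0) P.nil))))) (P.cons (P.cons (P.lf 0 24956159 0) (P.cons (P.lf 641054 0 0) (P.cons (P.lf 0 522123 0) (P.cons (P.lf 181176 0 0) P.nil)))) (P.cons (P.cons (P.lf 2890625 0 0) (P.cons (P.lf 0 508115 0) (P.cons (P.lf 229713 0 0) P.nil))) (P.cons (P.cons (P.lf 198852 0 0) (P.cons (P.lf 0 84829 0) P.nil)) (P.cons (P.cons (P.lf 0 119453 0) P.nil) P.nil)))))) 680083)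
 (EL.cons 7 (TM.mk (P.cons (P.cons (P.lf 0 62800186 0) (P.cons (P.lf 0 17229036 0) (P.cons (P.lf 6247671 0 0) (P.cons (P.lf 1844593 0 0) (P.cons (P.lf 0 106491 0) (P.cons (P.lf 0 48827 0) P.nil)))))) (P.cons (P.cons (P.lf 24780619 0 0) (P.cons (P.lf 0 3643705 0) (P.cons (P.lf 605100 0 0) (P.cons (P.lf 1007768 0 0) (P.cons (P.lf 0 87063 0) P.nil))))) (P.cons (P.cons (P.lf 0 6968246 0) (P.cons (P.lf 0 86607 0) (P.cons (P.lf 0 277488 0) (P.cons (P.lf 275669 0 0) P.nil)))) (P.cons (P.cons (P.lf 0 566030 0) (P.cons (P.lf 0 262867 0) (P.cons (P.lf 68397 0 0) P.nil))) (P.cons (P.cons (P.lf 203063 0 0) (P.cons (P.lf 0 104311 0) P.nil)) (P.cons (P.cons (P.lf 0 35833 0) P.nil) P.nil)))))) 374917)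
 EL.nil))
noncomputable def S140_169_660_808_12 : EL := (EL.cons 4 (TM.mk (P.cons (P.lf 2668545243 0 0) (P.cons (P.lf 0 256005836 0) (P.cons (P.lf 0 20956361 0) (P.cons (P.lf 0 125291 0) (P.cons (P.lf 64357 0 0) (P.cons (P.lf 3438 0 0) P.nil)))))) 378)
 (EL.cons 8 (TM.mk (P.cons (P.lf 1442125985 0 0) (P.cons (P.lf 168433589 0 0) (P.cons (P.lf 0 4127638 0) (P.cons (P.lf 0 758202 0) (P.cons (P.lf 0 21743 0) (P.cons (P.lf 1521 0 0) P.nil)))))) 224)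
 EL.nil))
noncomputable def S140_169_660_808_13 : EL := (EL.cons 4 (TM.mk (P.cons (P.cons (P.lf 0 556869503 0) (P.cons (P.lf 0 76387711 0) (P.cons (P.lf 32939241 0 0) (P.lf 3659914 0 0)))) (P.cons (P.cons (P.lf 195811807 0 0) (P.cons (P.lf 0 19436958 0) (P.cons (P.lf 8381433 0 0) (P.lf 931267 0 0)))) (P.cons (P.cons (P.lf 0 39404929 0) (P.cons (P.lf 697449 0 0) (P.cons (P.lf 0 300749 0) (P.lf 0 33417 0)))) (P.cons (P.cons (P.lf 0 2508356 0) (P.cons (P.lf 602739 0 0) (P.cons (P.lf 0 259905 0) P.nil))) (P.cons (P.cons (P.lf 779101 0 0) (P.cons (P.lf 42899 0 0) P.nil)) (P.cons (P.cons (P.lf 71662 0 0) P.nil) P.nil)))))) 100161)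
 (EL.cons 8 (TM.mk (P.cons (P.cons (P.lf 0 300941489 0) (P.cons (P.lf 0 41281183 0) (P.cons (P.lf 17800911 0 0) (P.lf 1977878 0 0)))) (P.cons (P.cons (P.lf 41800673 0 0) (P.cons (P.lf 0 19285798 0) (P.cons (P.lf 8316252 0 0) (P.lf 924026 0 0)))) (P.cons (P.cons (P.lf 0 6427642 0) (P.cons (P.lf 0 2906117 0) (P.cons (P.lf 1253149 0 0) (P.lf 139238 0 0)))) (P.cons (P.cons (P.lf 0 4289876 0) (P.cons (P.lf 0 10668 0) (P.cons (P.lf 4600 0 0) P.nil))) (P.cons (P.cons (P.lf 0 180234 0) (P.cons (P.lf 42538 0 0) P.nil)) (P.cons (P.cons (P.lf 49164 0 0) P.nil) P.nil)))))) 55525)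
 EL.nil))
noncomputable def S140_169_660_808_14 : EL := (EL.cons 4 (TM.mk (P.cons (P.cons (P.lf 116207002 0 0) (P.cons (P.lf 31881030 0 0) (P.cons (P.lf 0 11560844 0) (P.cons (P.lf 0 3413280 0) (P.cons (P.lf 197053 0 0) (P.cons (P.lf 90351 0 0) P.nil)))))) (P.cons (P.cons (P.lf 0 70575373 0) (P.cons (P.lf 0 39647 0) (P.cons (P.lf 1339643 0 0) (P.cons (P.lf 0 1138692 0) (P.cons (P.lf 119185 0 0) P.nil))))) (P.cons (P.cons (P.lf 24956159 0 0) (P.cons (P.lf 0 641054 0) (P.cons (P.lf 522123 0 0) (P.cons (P.lf 0 181176 0) P.nil)))) (P.cons (P.cons (P.lf 0 2890625 0) (P.cons (P.lf 508115 0 0) (P.cons (P.lf 0 229713 0) P.nil))) (P.cons (P.cons (P.lf 0 198852 0) (P.cons (P.lf 84829 0 0) P.nil)) (P.cons (P.cons (P.lf 119453 0 0) P.nil) P.nil)))))) 680083)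
 (EL.cons 8 (TM.mk (P.cons (P.cons (P.lf 62800186 0 0) (P.cons (P.lf 17229036 0 0) (P.cons (P.lf 0 6247671 0) (P.cons (P.lf 0 1844593 0) (P.cons (P.lf 106491 0 0) (P.cons (P.lf 48827 0 0) P.nil)))))) (P.cons (P.cons (P.lf 0 24780619 0) (P.cons (P.lf 3643705 0 0) (P.cons (P.lf 0 605100 0) (P.cons (P.lf 0 1007768 0) (P.cons (P.lf 87063 0 0) P.nil))))) (P.cons (P.cons (P.lf 6968246 0 0) (P.cons (P.lf 86607 0 0) (P.cons (P.lf 277488 0 0) (P.cons (P.lf 0 275669 0) P.nil)))) (P.cons (P.cons (P.lf 566030 0 0) (P.cons (P.lf 262867 0 0) (P.cons (P.lf 0 68397 0) P.nil))) (P.cons (P.cons (P.lf 0 203063 0) (P.cons (P.lf 104311 0 0) P.nil)) (P.cons (P.cons (P.lf 35833 0 0) P.nil) P.nil)))))) 374917)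
 EL.nil))
noncomputable def S140_169_660_808_15 : EL := (EL.cons 4 (TM.mk (P.cons (P.lf 0 1768552689 0) (P.cons (P.lf 339330810 0 0) (P.cons (P.lf 11500469 0 0) (P.cons (P.lf 0 2498728 0) (P.cons (P.lf 0 210304 0) (P.cons (P.lf 2321 0 0) P.nil)))))) 1708)
 (EL.cons 8 (TM.mk (P.cons (P.lf 0 955755124 0) (P.cons (P.lf 0 19937749 0) (P.cons (P.lf 20950159 0 0) (P.cons (P.lf 1161554 0 0) (P.cons (P.lf 0 73087 0) (P.cons (P.lf 0 10388 0) P.nil)))))) 788)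
 EL.nil))
noncomputable def S140_169_660_808_16 : EL := (EL.cons 4 (TM.mk (P.cons (P.cons (P.lf 369059906 0 0) (P.cons (P.lf 50625221 0 0) (P.cons (P.lf 0 21830165 0) (P.lf 0 2425573 0)))) (P.cons (P.cons (P.lf 0 165178007 0) (P.cons (P.lf 8024946 0 0) (P.cons (P.lf 0 3460445 0) (P.lf 0 384492 0)))) (P.cons (P.cons (P.lf 35666636 0 0) (P.cons (P.lf 0 2095589 0) (P.cons (P.lf 903642 0 0) (P.lf 100404 0 0)))) (P.cons (P.cons (P.lf 158821 0 0) (P.cons (P.lf 0 458654 0) (P.cons (P.lf 197775 0 0) P.nil))) (P.cons (P.cons (P.lf 0 865915 0) (P.cons (P.lf 14136 0 0) P.nil)) (P.cons (P.cons (P.lf 0 14893 0) P.nil) P.nil)))))) 113918)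
 (EL.cons 8 (TM.mk (P.cons (P.cons (P.lf 199446077 0 0) (P.cons (P.lf 27358706 0 0) (P.cons (P.lf 0 11797382 0) (P.lf 0 1310819 0)))) (P.cons (P.cons (P.lf 0 46836775 0) (P.cons (P.lf 10156830 0 0) (P.cons (P.lf 0 4379738 0) (P.lf 0 486636 0)))) (P.cons (P.cons (P.lf 5351263 0 0) (P.cons (P.lf 484964 0 0) (P.cons (P.lf 0 209121 0) (P.lf 0 23235 0)))) (P.cons (P.cons (P.lf 2642596 0 0) (P.cons (P.lf 0 279358 0) (P.cons (P.lf 120461 0 0) P.nil))) (P.cons (P.cons (P.lf 0 180642 0) (P.cons (P.lf 0 43935 0) P.nil)) (P.cons (P.cons (P.lf 0 66980 0) P.nil) P.nil)))))) 64587)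
 EL.nil))
noncomputable def S140_169_660_808_17 : EL := (EL.cons 4 (TM.mk (P.cons (P.cons (P.lf 0 77015072 0) (P.cons (P.lf 0 21128846 0) (P.cons (P.lf 7661837 0 0) (P.cons (P.lf 2262119 0 0) (P.cons (P.lf 0 130594 0) (P.cons (P.lf 0 59880 0) P.nil)))))) (P.cons (P.cons (P.lf 54161560 0 0) (P.cons (P.lf 2053263 0 0) (P.cons (P.lf 0 1622871 0) (P.cons (P.lf 537642 0 0) (P.cons (P.lf 0 66460 0) P.nil))))) (P.cons (P.cons (P.lf 0 20421810 0) (P.cons (P.lf 588257 0 0) (P.cons (P.lf 0 321027 0) (P.cons (P.lf 29910 0 0) P.nil)))) (P.cons (P.cons (P.lf 3138741 0 0) (P.cons (P.lf 0 376721 0) (P.cons (P.lf 192049 0 0) P.nil))) (P.cons (P.cons (P.lf 73834 0 0) (P.cons (P.lf 0 27761 0) P.nil)) (P.cons (P.cons (P.lf 0 105048 0) P.nil) P.nil)))))) 553117)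
 (EL.cons 8 (TM.mk (P.cons (P.cons (P.lf 0 41620219 0) (P.cons (P.lf 0 11418378 0) (P.cons (P.lf 4140584 0 0) (P.cons (P.lf 1222486 0 0) (P.cons (P.lf 0 70575 0) (P.cons (P.lf 0 32359 0) P.nil)))))) (P.cons (P.cons (P.lf 20415936 0 0) (P.cons (P.lf 0 1319413 0) (P.cons (P.lf 3799 0 0) (P.cons (P.lf 550610 0 0) (P.cons (P.lf 0 50929 0) P.nil))))) (P.cons (P.cons (P.lf 0 5866835 0) (P.cons (P.lf 263937 0 0) (P.cons (P.lf 0 254891 0) (P.cons (P.lf 109023 0 0) P.nil)))) (P.cons (P.cons (P.lf 0 59110 0) (P.cons (P.lf 0 149206 0) (P.cons (P.lf 59628 0 0) P.nil))) (P.cons (P.cons (P.lf 205058 0 0) (P.cons (P.lf 0 52129 0) P.nil)) (P.cons (P.cons (P.lf 0 33153 0) P.nil) P.nil)))))) 313370)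
 EL.nil))
noncomputable def S140_169_660_808_18 : EL := (EL.cons 4 (TM.mk (P.cons (P.lf 1172091282 0 0) (P.cons (P.lf 0 337332345 0) (P.cons (P.lf 4748184 0 0) (P.cons (P.lf 4098243 0 0) (P.cons (P.lf 79189 0 0) (P.cons (P.lf 0 31469 0) P.nil)))))) 3321)
 (EL.cons 8 (TM.mk (P.cons (P.lf 633417514 0 0) (P.cons (P.lf 0 47553107 0) (P.cons (P.lf 0 20126446 0) (P.cons (P.lf 428689 0 0) (P.cons (P.lf 245981 0 0) (P.cons (P.lf 10070 0 0) P.nil)))))) 1843)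
 EL.nil))
noncomputable def S140_169_660_808_19 : EL := (EL.cons 4 (TM.mk (P.cons (P.cons (P.lf 0 244590902 0) (P.cons (P.lf 0 33551378 0) (P.cons (P.lf 14467732 0 0) (P.lf 1607524 0 0)))) (P.cons (P.cons (P.lf 132934867 0 0) (P.cons (P.lf 0 2099717 0) (P.cons (P.lf 905420 0 0) (P.lf 100601 0 0)))) (P.cons (P.cons (P.lf 0 32218896 0) (P.cons (P.lf 2162537 0 0) (P.cons (P.lf 0 932510 0) (P.lf 0 103612 0)))) (P.cons (P.cons (P.lf 1314220 0 0) (P.cons (P.lf 214073 0 0) (P.cons (P.lf 0 92310 0) P.nil))) (P.cons (P.cons (P.lf 758565 0 0) (P.cons (P.lf 0 49995 0) P.nil)) (P.cons (P.cons (P.lf 0 40921 0) P.nil) P.nil)))))) 110215)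
 (EL.cons 8 (TM.mk (P.cons (P.cons (P.lf 0 132180969 0) (P.cons (P.lf 0 18131719 0) (P.cons (P.lf 7818601 0 0) (P.lf 868733 0 0)))) (P.cons (P.cons (P.lf 43721351 0 0) (P.cons (P.lf 0 4991881 0) (P.cons (P.lf 2152555 0 0) (P.lf 239172 0 0)))) (P.cons (P.cons (P.lf 0 5486337 0) (P.cons (P.lf 466752 0 0) (P.cons (P.lf 0 201269 0) (P.lf 0 22363 0)))) (P.cons (P.cons (P.lf 0 1648682 0) (P.cons (P.lf 269689 0 0) (P.cons (P.lf 0 116292 0) P.nil))) (P.cons (P.cons (P.lf 310940 0 0) (P.cons (P.lf 13759 0 0) P.nil)) (P.cons (P.cons (P.lf 47403 0 0) P.nil) P.nil)))))) 65064)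
 EL.nil))
noncomputable def S140_169_660_808_20 : EL := (EL.cons 4 (TM.mk (P.cons (P.cons (P.lf 51040998 0 0) (P.cons (P.lf 14002939 0 0) (P.cons (P.lf 0 5077809 0) (P.cons (P.lf 0 1499197 0) (P.cons (P.lf 86550 0 0) (P.cons (P.lf 39684 0 0) P.nil)))))) (P.cons (P.cons (P.lf 0 40791650 0) (P.cons (P.lf 0 2704146 0) (P.cons (P.lf 1562679 0 0) (P.cons (P.lf 0 212491 0) (P.cons (P.lf 35742 0 0) P.nil))))) (P.cons (P.cons (P.lf 16577105 0 0) (P.cons (P.lf 0 369283 0) (P.cons (P.lf 149452 0 0) (P.cons (P.lf 26132 0 0) P.nil)))) (P.cons (P.cons (P.lf 0 3099092 0) (P.cons (P.lf 297098 0 0) (P.cons (P.lf 0 155897 0) P.nil))) (P.cons (P.cons (P.lf 47255 0 0) (P.cons (P.lf 0 2089 0) P.nil)) (P.cons (P.cons (P.lf 89214 0 0) P.nil) P.nil)))))) 434137)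
 (EL.cons 8 (TM.mk (P.cons (P.cons (P.lf 27583399 0 0) (P.cons (P.lf 7567420 0 0) (P.cons (P.lf 0 2744132 0) (P.cons (P.lf 0 810191 0) (P.cons (P.lf 46773 0 0) (P.cons (P.lf 21446 0 0) P.nil)))))) (P.cons (P.cons (P.lf 0 16176667 0) (P.cons (P.lf 148450 0 0) (P.cons (P.lf 260739 0 0) (P.cons (P.lf 0 287186 0) (P.cons (P.lf 29266 0 0) P.nil))))) (P.cons (P.cons (P.lf 4969613 0 0) (P.cons (P.lf 0 318237 0) (P.cons (P.lf 190718 0 0) (P.cons (P.lf 0 30883 0) P.nil)))) (P.cons (P.cons (P.lf 0 228875 0) (P.cons (P.lf 108443 0 0) (P.cons (P.lf 0 55575 0) P.nil))) (P.cons (P.cons (P.lf 0 168892 0) (P.cons (P.lf 26577 0 0) P.nil)) (P.cons (P.cons (P.lf 34228 0 0) P.nil) P.nil)))))) 246085)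
 EL.nil))
noncomputable def S140_169_660_808_21 : EL := (EL.cons 4 (TM.mk (P.cons (P.cons (P.lf 0 1219130457 0) (P.cons (P.lf 229163133 0 0) (P.cons (P.lf 0 98817723 0) (P.lf 0 10979742 0)))) (P.cons (P.cons (P.lf 430557006 0 0) (P.cons (P.lf 58310874 0 0) (P.cons (P.lf 0 25144299 0) (P.lf 0 2793801 0)))) (P.cons (P.cons (P.lf 152716200 0 0) (P.cons (P.lf 0 2092347 0) (P.cons (P.lf 902247 0 0) (P.lf 100251 0 0)))) (P.cons (P.cons (P.lf 28887 0 0) (P.cons (P.lf 0 1808217 0) (P.cons (P.lf 779715 0 0) P.nil))) (P.cons (P.cons (P.lf 0 2968218 0) (P.cons (P.lf 0 128697 0) P.nil)) (P.cons (P.cons (P.lf 0 208023 0) P.nil) P.nil)))))) 305394)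
 (EL.cons 8 (TM.mk (P.cons (P.cons (P.lf 802100922 0 0) (P.cons (P.lf 0 150773010 0) (P.cons (P.lf 65015025 0 0) (P.lf 7223892 0 0)))) (P.cons (P.cons (P.lf 0 453906696 0) (P.cons (P.lf 0 6290472 0) (P.cons (P.lf 2712525 0 0) (P.lf 301395 0 0)))) (P.cons (P.cons (P.lf 0 24289455 0) (P.cons (P.lf 6544275 0 0) (P.cons (P.lf 0 2821962 0) (P.lf 0 313551 0)))) (P.cons (P.cons (P.lf 13766520 0 0) (P.cons (P.lf 504366 0 0) (P.cons (P.lf 0 217488 0) P.nil))) (P.cons (P.cons (P.lf 872460 0 0) (P.cons (P.lf 0 87858 0) P.nil)) (P.cons (P.cons (P.lf 0 134358 0) P.nil) P.nil)))))) 212136)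
 (EL.cons 11 (TM.mk (P.cons (P.cons (P.lf 573813891 0 0) (P.cons (P.lf 0 534560721 0) (P.cons (P.lf 0 54863319 0) (P.cons (P.lf 11410044 0 0) (P.lf 950835 0 0))))) (P.cons (P.cons (P.lf 134037570 0 0) (P.cons (P.lf 0 124868397 0) (P.cons (P.lf 0 12815559 0) (P.cons (P.lf 2665278 0 0) (P.lf 222105 0 0))))) (P.cons (P.cons (P.lf 4542750 0 0) (P.cons (P.lf 0 4231992 0) (P.cons (P.lf 0 434340 0) (P.cons (P.lf 90330 0 0) P.nil)))) (P.cons (P.cons (P.lf 0 987006 0) (P.cons (P.lf 919488 0 0) (P.cons (P.lf 94368 0 0) P.nil))) (P.cons (P.cons (P.lf 0 83070 0) (P.cons (P.lf 77388 0 0) P.nil)) (P.cons (P.cons (P.lf 915 0 0) P.nil) P.nil)))))) 40752)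
 EL.nil)))
noncomputable def S140_169_660_808_22 : EL := (EL.cons 4 (TM.mk (P.cons (P.cons (P.lf 254406993 0 0) (P.cons (P.lf 0 12923658 0) (P.cons (P.lf 0 987018 0) (P.cons (P.lf 6276561 0 0) (P.cons (P.lf 0 591162 0) (P.cons (P.lf 0 271056 0) P.nil)))))) (P.cons (P.cons (P.lf 0 154898826 0) (P.cons (P.lf 0 37587 0) (P.cons (P.lf 0 3951429 0) (P.cons (P.lf 3423582 0 0) (P.cons (P.lf 0 357555 0) P.nil))))) (P.cons (P.cons (P.lf 4864575 0 0) (P.cons (P.lf 0 6599898 0) (P.cons (P.lf 2108868 0 0) (P.cons (P.lf 951891 0 0) P.nil)))) (P.cons (P.cons (P.lf 5250279 0 0) (P.cons (P.lf 0 2762709 0) (P.cons (P.lf 1223136 0 0) P.nil))) (P.cons (P.cons (P.lf 0 1865718 0) (P.cons (P.lf 0 177072 0) P.nil)) (P.cons (P.cons (P.lf 0 359520 0) P.nil) P.nil)))))) 1416480)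
 (EL.cons 8 (TM.mk (P.cons (P.cons (P.lf 0 167381661 0) (P.cons (P.lf 8502846 0 0) (P.cons (P.lf 649386 0 0) (P.cons (P.lf 0 4129530 0) (P.cons (P.lf 388941 0 0) (P.cons (P.lf 178335 0 0) P.nil)))))) (P.cons (P.cons (P.lf 137519475 0 0) (P.cons (P.lf 0 1784076 0) (P.cons (P.lf 2461614 0 0) (P.cons (P.lf 0 1374000 0) (P.cons (P.lf 152505 0 0) P.nil))))) (P.cons (P.cons (P.lf 0 28203714 0) (P.cons (P.lf 4505826 0 0) (P.cons (P.lf 0 1927638 0) (P.cons (P.lf 0 229098 0) P.nil)))) (P.cons (P.cons (P.lf 0 340068 0) (P.cons (P.lf 873600 0 0) (P.cons (P.lf 0 459546 0) P.nil))) (P.cons (P.cons (P.lf 1603980 0 0) (P.cons (P.lf 0 181716 0) P.nil)) (P.cons (P.cons (P.lf 0 52593 0) P.nil) P.nil)))))) 830967)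
 (EL.cons 11 (TM.mk (P.cons (P.cons (P.lf 0 119742939 0) (P.cons (P.lf 95126073 0 0) (P.cons (P.lf 33833628 0 0) (P.cons (P.lf 0 6621936 0) (P.cons (P.lf 0 1935390 0) (P.cons (P.lf 38376 0 0) P.nil)))))) (P.cons (P.cons (P.lf 2646837 0 0) (P.cons (P.lf 0 12057912 0) (P.cons (P.lf 12819132 0 0) (P.cons (P.lf 0 2423952 0) (P.cons (P.lf 0 1009962 0) P.nil))))) (P.cons (P.cons (P.lf 0 272223 0) (P.cons (P.lf 0 1751964 0) (P.cons (P.lf 2759223 0 0) (P.cons (P.lf 0 523227 0) P.nil)))) (P.cons (P.cons (P.lf 0 1990275 0) (P.cons (P.lf 1745424 0 0) (P.cons (P.lf 338427 0 0) P.nil))) (P.cons (P.cons (P.lf 0 270693 0) (P.cons (P.lf 276195 0 0) P.nil)) (P.cons (P.cons (P.lf 17037 0 0) P.nil) P.nil)))))) 858849)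
 EL.nil)))
noncomputable def S140_169_660_808_23 : EL := (EL.cons 4 (TM.mk (P.cons (P.cons (P.lf 807966981 0 0) (P.cons (P.lf 0 151875660 0) (P.cons (P.lf 65490495 0 0) (P.lf 7276716 0 0)))) (P.cons (P.cons (P.lf 0 362859507 0) (P.cons (P.lf 0 24074838 0) (P.cons (P.lf 10381335 0 0) (P.lf 1153473 0 0)))) (P.cons (P.cons (P.lf 0 80181537 0) (P.cons (P.lf 6286767 0 0) (P.cons (P.lf 0 2710926 0) (P.lf 0 301212 0)))) (P.cons (P.cons (P.lf 11893437 0 0) (P.cons (P.lf 1375959 0 0) (P.cons (P.lf 0 593322 0) P.nil))) (P.cons (P.cons (P.lf 2796699 0 0) (P.cons (P.lf 0 42411 0) P.nil)) (P.cons (P.cons (P.lf 0 51789 0) P.nil) P.nil)))))) 359544)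
 (EL.cons 8 (TM.mk (P.cons (P.cons (P.lf 0 531584670 0) (P.cons (P.lf 99923361 0 0) (P.cons (P.lf 0 43088082 0) (P.lf 0 4787562 0)))) (P.cons (P.cons (P.lf 351819660 0 0) (P.cons (P.lf 0 5417157 0) (P.cons (P.lf 2335938 0 0) (P.lf 259545 0 0)))) (P.cons (P.cons (P.lf 0 8587074 0) (P.cons (P.lf 0 5521809 0) (P.cons (P.lf 2381064 0 0) (P.lf 264561 0 0)))) (P.cons (P.cons (P.lf 0 13005375 0) (P.cons (P.lf 44388 0 0) (P.cons (P.lf 0 19140 0) P.nil))) (P.cons (P.cons (P.lf 143694 0 0) (P.cons (P.lf 126567 0 0) P.nil)) (P.cons (P.cons (P.lf 221976 0 0) P.nil) P.nil)))))) 234453)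
 (EL.cons 11 (TM.mk (P.cons (P.cons (P.lf 0 380289636 0) (P.cons (P.lf 354274974 0 0) (P.cons (P.lf 36360135 0 0) (P.cons (P.lf 0 7561896 0) (P.lf 0 630156 0))))) (P.cons (P.cons (P.lf 0 52349172 0) (P.cons (P.lf 48768096 0 0) (P.cons (P.lf 5005191 0 0) (P.cons (P.lf 0 1040937 0) (P.lf 0 86742 0))))) (P.cons (P.cons (P.lf 8497863 0 0) (P.cons (P.lf 0 7916544 0) (P.cons (P.lf 0 812493 0) (P.cons (P.lf 168975 0 0) P.nil)))) (P.cons (P.cons (P.lf 1658418 0 0) (P.cons (P.lf 0 1544970 0) (P.cons (P.lf 0 158562 0) P.nil))) (P.cons (P.cons (P.lf 10941 0 0) (P.cons (P.lf 0 10194 0) P.nil)) (P.cons (P.cons (P.lf 0 13515 0) P.nil) P.nil)))))) 95028)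
 EL.nil)))
noncomputable def S140_169_660_808_24 : EL := (EL.cons 4 (TM.mk (P.cons (P.cons (P.lf 0 168605787 0) (P.cons (P.lf 8565030 0 0) (P.cons (P.lf 654135 0 0) (P.cons (P.lf 0 4159731 0) (P.cons (P.lf 391785 0 0) (P.cons (P.lf 179640 0 0) P.nil)))))) (P.cons (P.cons (P.lf 118832835 0 0) (P.cons (P.lf 0 796770 0) (P.cons (P.lf 2556018 0 0) (P.cons (P.lf 0 1869882 0) (P.cons (P.lf 199380 0 0) P.nil))))) (P.cons (P.cons (P.lf 0 11748297 0) (P.cons (P.lf 4304367 0 0) (P.cons (P.lf 0 1653999 0) (P.cons (P.lf 0 380520 0) P.nil)))) (P.cons (P.cons (P.lf 0 3968550 0) (P.cons (P.lf 1410741 0 0) (P.cons (P.lf 0 697134 0) P.nil))) (P.cons (P.cons (P.lf 1586730 0 0) (P.cons (P.lf 0 92442 0) P.nil)) (P.cons (P.cons (P.lf 149382 0 0) P.nil) P.nil)))))) 946872)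
 (EL.cons 8 (TM.mk (P.cons (P.cons (P.lf 110930586 0 0) (P.cons (P.lf 0 5635179 0) (P.cons (P.lf 0 430374 0) (P.cons (P.lf 2736807 0 0) (P.cons (P.lf 0 257766 0) (P.cons (P.lf 0 118188 0) P.nil)))))) (P.cons (P.cons (P.lf 0 101781792 0) (P.cons (P.lf 1722987 0 0) (P.cons (P.lf 0 1590123 0) (P.cons (P.lf 648051 0 0) (P.cons (P.lf 0 76344 0) P.nil))))) (P.cons (P.cons (P.lf 26564040 0 0) (P.cons (P.lf 0 3055371 0) (P.cons (P.lf 1437411 0 0) (P.cons (P.lf 42981 0 0) P.nil)))) (P.cons (P.cons (P.lf 0 857283 0) (P.cons (P.lf 0 301512 0) (P.cons (P.lf 194832 0 0) P.nil))) (P.cons (P.cons (P.lf 0 1224477 0) (P.cons (P.lf 199233 0 0) P.nil)) (P.cons (P.cons (P.lf 132132 0 0) P.nil) P.nil)))))) 552528)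
 (EL.cons 11 (TM.mk (P.cons (P.cons (P.lf 79358481 0 0) (P.cons (P.lf 0 63043890 0) (P.cons (P.lf 0 22422912 0) (P.cons (P.lf 4388622 0 0) (P.cons (P.lf 1282662 0 0) (P.cons (P.lf 0 25434 0) P.nil)))))) (P.cons (P.cons (P.lf 0 9367389 0) (P.cons (P.lf 14039355 0 0) (P.cons (P.lf 0 6344622 0) (P.cons (P.lf 1185429 0 0) (P.cons (P.lf 546291 0 0) P.nil))))) (P.cons (P.cons (P.lf 0 274509 0) (P.cons (P.lf 889548 0 0) (P.cons (P.lf 0 837522 0) (P.cons (P.lf 158184 0 0) P.nil)))) (P.cons (P.cons (P.lf 1311777 0 0) (P.cons (P.lf 0 1327947 0) (P.cons (P.lf 18909 0 0) P.nil))) (P.cons (P.cons (P.lf 53436 0 0) (P.cons (P.lf 0 83085 0) P.nil)) (P.cons (P.cons (P.lf 0 38808 0) P.nil) P.nil)))))) 569694)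
 EL.nil)))
noncomputable def S140_169_660_808_25 : EL := (EL.cons 4 (TM.mk (P.cons (P.cons (P.lf 0 535472343 0) (P.cons (P.lf 100654131 0 0) (P.cons (P.lf 0 43403193 0) (P.lf 0 4822575 0)))) (P.cons (P.cons (P.lf 291851976 0 0) (P.cons (P.lf 6299151 0 0) (P.cons (P.lf 0 2716263 0) (P.lf 0 301803 0)))) (P.cons (P.cons (P.lf 34274151 0 0) (P.cons (P.lf 0 6487614 0) (P.cons (P.lf 2797533 0 0) (P.lf 310836 0 0)))) (P.cons (P.cons (P.lf 0 14843568 0) (P.cons (P.lf 0 642219 0) (P.cons (P.lf 276927 0 0) P.nil))) (P.cons (P.cons (P.lf 0 1538817 0) (P.cons (P.lf 149988 0 0) P.nil)) (P.cons (P.cons (P.lf 276651 0 0) P.nil) P.nil)))))) 341181)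
 (EL.cons 8 (TM.mk (P.cons (P.cons (P.lf 352302624 0 0) (P.cons (P.lf 0 66223245 0) (P.cons (P.lf 28556211 0 0) (P.lf 3172911 0 0)))) (P.cons (P.cons (P.lf 0 266963109 0) (P.cons (P.lf 9943269 0 0) (P.cons (P.lf 0 4287648 0) (P.lf 0 476403 0)))) (P.cons (P.cons (P.lf 25292934 0 0) (P.cons (P.lf 3835161 0 0) (P.cons (P.lf 0 1653762 0) (P.lf 0 183750 0)))) (P.cons (P.cons (P.lf 9887751 0 0) (P.cons (P.lf 0 405576 0) (P.cons (P.lf 174888 0 0) P.nil))) (P.cons (P.cons (P.lf 0 947358 0) (P.cons (P.lf 0 111564 0) P.nil)) (P.cons (P.cons (P.lf 0 211101 0) P.nil) P.nil)))))) 220293)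
 (EL.cons 11 (TM.mk (P.cons (P.cons (P.lf 252033297 0 0) (P.cons (P.lf 0 234792330 0) (P.cons (P.lf 0 24097329 0) (P.cons (P.lf 5011572 0 0) (P.lf 417630 0 0))))) (P.cons (P.cons (P.lf 10515195 0 0) (P.cons (P.lf 0 9795876 0) (P.cons (P.lf 0 1005375 0) (P.cons (P.lf 209088 0 0) (P.lf 17421 0 0))))) (P.cons (P.cons (P.lf 0 10939467 0) (P.cons (P.lf 10191123 0 0) (P.cons (P.lf 1045941 0 0) (P.cons (P.lf 0 217524 0) P.nil)))) (P.cons (P.cons (P.lf 0 843096 0) (P.cons (P.lf 785421 0 0) (P.cons (P.lf 80607 0 0) P.nil))) (P.cons (P.cons (P.lf 146865 0 0) (P.cons (P.lf 0 136818 0) P.nil)) (P.cons (P.cons (P.lf 19710 0 0) P.nil) P.nil)))))) 112530)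
 EL.nil)))
noncomputable def S140_169_660_808_26 : EL := (EL.cons 4 (TM.mk (P.cons (P.cons (P.lf 111741861 0 0) (P.cons (P.lf 0 5676390 0) (P.cons (P.lf 0 433521 0) (P.cons (P.lf 2756820 0 0) (P.cons (P.lf 0 259653 0) (P.cons (P.lf 0 119055 0) P.nil)))))) (P.cons (P.cons (P.lf 0 89475231 0) (P.cons (P.lf 1072614 0 0) (P.cons (P.lf 0 1652385 0) (P.cons (P.lf 974772 0 0) (P.cons (P.lf 0 107226 0) P.nil))))) (P.cons (P.cons (P.lf 14463912 0 0) (P.cons (P.lf 0 2858757 0) (P.cons (P.lf 1262088 0 0) (P.cons (P.lf 111648 0 0) P.nil)))) (P.cons (P.cons (P.lf 2496390 0 0) (P.cons (P.lf 0 665163 0) (P.cons (P.lf 370182 0 0) P.nil))) (P.cons (P.cons (P.lf 0 1358661 0) (P.cons (P.lf 173199 0 0) P.nil)) (P.cons (P.cons (P.lf 0 20892 0) P.nil) P.nil)))))) 748134)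
 (EL.cons 8 (TM.mk (P.cons (P.cons (P.lf 0 73518177 0) (P.cons (P.lf 3734661 0 0) (P.cons (P.lf 285225 0 0) (P.cons (P.lf 0 1813791 0) (P.cons (P.lf 170832 0 0) (P.cons (P.lf 78327 0 0) P.nil)))))) (P.cons (P.cons (P.lf 74507841 0 0) (P.cons (P.lf 0 1500177 0) (P.cons (P.lf 1026474 0 0) (P.cons (P.lf 0 255483 0) (P.cons (P.lf 34206 0 0) P.nil))))) (P.cons (P.cons (P.lf 0 23498976 0) (P.cons (P.lf 2105136 0 0) (P.cons (P.lf 0 1055970 0) (P.cons (P.lf 26958 0 0) P.nil)))) (P.cons (P.cons (P.lf 1730814 0 0) (P.cons (P.lf 14355 0 0) (P.cons (P.lf 0 46020 0) P.nil))) (P.cons (P.cons (P.lf 890319 0 0) (P.cons (P.lf 0 166968 0) P.nil)) (P.cons (P.cons (P.lf 0 167526 0) P.nil) P.nil)))))) 420906)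
 (EL.cons 11 (TM.mk (P.cons (P.cons (P.lf 0 52594068 0) (P.cons (P.lf 41781732 0 0) (P.cons (P.lf 14860569 0 0) (P.cons (P.lf 0 2908518 0) (P.cons (P.lf 0 850071 0) (P.cons (P.lf 16854 0 0) P.nil)))))) (P.cons (P.cons (P.lf 11253738 0 0) (P.cons (P.lf 0 13312761 0) (P.cons (P.lf 2779194 0 0) (P.cons (P.lf 0 506604 0) (P.cons (P.lf 0 280497 0) P.nil))))) (P.cons (P.cons (P.lf 0 618 0) (P.cons (P.lf 0 25035 0) (P.cons (P.lf 34968 0 0) (P.cons (P.lf 0 6624 0) P.nil)))) (P.cons (P.cons (P.lf 0 933102 0) (P.cons (P.lf 1007748 0 0) (P.cons (P.lf 0 99498 0) P.nil))) (P.cons (P.cons (P.lf 44997 0 0) (P.cons (P.lf 0 23289 0) P.nil)) (P.cons (P.cons (P.lf 36018 0 0) P.nil) P.nil)))))) 449370)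
 EL.nil)))
noncomputable def S140_169_660_808_27 : EL := (EL.cons 13 (TM.mk (P.lf 0 4294967296 0) 0)
 EL.nil)
noncomputable def S140_169_660_808_28 : EL := (EL.cons 13 (TM.mk (P.cons (P.cons (P.lf 896269723 0 0) (P.cons (P.lf 122944412 0 0) (P.cons (P.lf 0 53015016 0) (P.lf 0 5890556 0)))) (P.cons (P.cons (P.lf 0 229171693 0) (P.cons (P.lf 43078000 0 0) (P.cons (P.lf 0 18575716 0) (P.lf 0 2063964 0)))) (P.cons (P.cons (P.lf 48474407 0 0) (P.cons (P.lf 3975636 0 0) (P.cons (P.lf 0 1714336 0) (P.lf 0 190480 0)))) (P.cons (P.cons (P.lf 6929892 0 0) (P.cons (P.lf 0 244628 0) (P.cons (P.lf 105484 0 0) P.nil))) (P.cons (P.cons (P.lf 0 240833 0) (P.cons (P.lf 0 62236 0) P.nil)) (P.cons (P.cons (P.lf 0 77375 0) P.nil) P.nil)))))) 68155)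
 EL.nil)
noncomputable def S140_169_660_808_29 : EL := (EL.cons 13 (TM.mk (P.cons (P.cons (P.lf 0 187032720 0) (P.cons (P.lf 0 51311847 0) (P.cons (P.lf 18606935 0 0) (P.cons (P.lf 5493605 0 0) (P.cons (P.lf 0 317154 0) (P.cons (P.lf 0 145420 0) P.nil)))))) (P.cons (P.cons (P.lf 95646665 0 0) (P.cons (P.lf 0 4858769 0) (P.cons (P.lf 0 371080 0) (P.cons (P.lf 2359729 0 0) (P.cons (P.lf 0 222253 0) P.nil))))) (P.cons (P.cons (P.lf 0 32459374 0) (P.cons (P.lf 162682 0 0) (P.cons (P.lf 0 729825 0) (P.cons (P.lf 561122 0 0) P.nil)))) (P.cons (P.cons (P.lf 2280766 0 0) (P.cons (P.lf 0 842761 0) (P.cons (P.lf 297664 0 0) P.nil))) (P.cons (P.cons (P.lf 292948 0 0) (P.cons (P.lf 0 215095 0) P.nil)) (P.cons (P.cons (P.lf 0 149833 0) P.nil) P.nil)))))) 807134)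
 EL.nil)
noncomputable def S140_169_660_808_30 : EL := (EL.cons 13 (TM.mk (P.cons (P.lf 2846448260 0 0) (P.cons (P.lf 0 273072892 0) (P.cons (P.lf 0 22353452 0) (P.cons (P.lf 0 133644 0) (P.cons (P.lf 68648 0 0) (P.cons (P.lf 3668 0 0) P.nil)))))) 396)
 EL.nil)
noncomputable def S140_169_660_808_31 : EL := (EL.cons 13 (TM.mk (P.cons (P.cons (P.lf 0 593994137 0) (P.cons (P.lf 0 81480226 0) (P.cons (P.lf 35135191 0 0) (P.lf 3903909 0 0)))) (P.cons (P.cons (P.lf 208865928 0 0) (P.cons (P.lf 0 20732756 0) (P.cons (P.lf 8940196 0 0) (P.lf 993352 0 0)))) (P.cons (P.cons (P.lf 0 42031925 0) (P.cons (P.lf 743946 0 0) (P.cons (P.lf 0 320799 0) (P.lf 0 35645 0)))) (P.cons (P.cons (P.lf 0 2675580 0) (P.cons (P.lf 642922 0 0) (P.cons (P.lf 0 277233 0) P.nil))) (P.cons (P.cons (P.lf 831042 0 0) (P.cons (P.lf 45759 0 0) P.nil)) (P.cons (P.cons (P.lf 76440 0 0) P.nil) P.nil))))))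 106819)
 EL.nil)
noncomputable def S140_169_660_808_32 : EL := (EL.cons 13 (TM.mk (P.cons (P.cons (P.lf 123954136 0 0) (P.cons (P.lf 34006433 0 0) (P.cons (P.lf 0 12331567 0) (P.cons (P.lf 0 3640833 0) (P.cons (P.lf 210190 0 0) (P.cons (P.lf 96375 0 0) P.nil)))))) (P.cons (P.cons (P.lf 0 75280398 0) (P.cons (P.lf 0 42291 0) (P.cons (P.lf 1428953 0 0) (P.cons (P.lf 0 1214605 0) (P.cons (P.lf 127131 0 0) P.nil))))) (P.cons (P.cons (P.lf 26619903 0 0) (P.cons (P.lf 0 683791 0) (P.cons (P.lf 556932 0 0) (P.cons (P.lf 0 193255 0) P.nil)))) (P.cons (P.cons (P.lf 0 3083334 0) (P.cons (P.lf 541990 0 0) (P.cons (P.lf 0 245028 0) P.nil))) (P.cons (P.cons (P.lf 0 212109 0) (P.cons (P.lf 90485 0 0) P.nil)) (P.cons (P.cons (P.lf 127417 0 0) P.nil) P.nil)))))) 725399)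
 EL.nil)
noncomputable def S140_169_660_808_33 : EL := (EL.cons 14 (TM.mk (P.lf 8589934592 0 0) 0)
 EL.nil)
noncomputable def S140_169_660_808_34 : EL := (EL.cons 14 (TM.mk (P.cons (P.cons (P.lf 0 1792539446 0) (P.cons (P.lf 0 245888824 0) (P.cons (P.lf 106030032 0 0) (P.lf 11781112 0 0)))) (P.cons (P.cons (P.lf 458343386 0 0) (P.cons (P.lf 0 86156000 0) (P.cons (P.lf 37151432 0 0) (P.lf 4127928 0 0)))) (P.cons (P.cons (P.lf 0 96948814 0) (P.cons (P.lf 0 7951272 0) (P.cons (P.lf 3428672 0 0) (P.lf 380960 0 0)))) (P.cons (P.cons (P.lf 0 13859784 0) (P.cons (P.lf 489256 0 0) (P.cons (P.lf 0 210968 0) P.nil))) (P.cons (P.cons (P.lf 481666 0 0) (P.cons (P.lf 124472 0 0) P.nil)) (P.cons (P.cons (P.lf 154750 0 0) P.nil) P.nil)))))) 136310)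
 EL.nil)
noncomputable def S140_169_660_808_35 : EL := (EL.cons 14 (TM.mk (P.cons (P.cons (P.lf 374065440 0 0) (P.cons (P.lf 102623694 0 0) (P.cons (P.lf 0 37213870 0) (P.cons (P.lf 0 10987210 0) (P.cons (P.lf 634308 0 0) (P.cons (P.lf 290840 0 0) P.nil)))))) (P.cons (P.cons (P.lf 0 191293330 0) (P.cons (P.lf 9717538 0 0) (P.cons (P.lf 742160 0 0) (P.cons (P.lf 0 4719458 0) (P.cons (P.lf 444506 0 0) P.nil))))) (P.cons (P.cons (P.lf 64918748 0 0) (P.cons (P.lf 0 325364 0) (P.cons (P.lf 1459650 0 0) (P.cons (P.lf 0 1122244 0) P.nil)))) (P.cons (P.cons (P.lf 0 4561532 0) (P.cons (P.lf 1685522 0 0) (P.cons (P.lf 0 595328 0) P.nil))) (P.cons (P.cons (P.lf 0 585896 0) (P.cons (P.lf 430190 0 0) P.nil)) (P.cons (P.cons (P.lf 299666 0 0) P.nil) P.nil)))))) 1614268)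
 EL.nil)
noncomputable def S140_169_660_808_36 : EL := (EL.cons 14 (TM.mk (P.cons (P.lf 0 5692896520 0) (P.cons (P.lf 546145784 0 0) (P.cons (P.lf 44706904 0 0) (P.cons (P.lf 267288 0 0) (P.cons (P.lf 0 137296 0) (P.cons (P.lf 0 7336 0) P.nil)))))) 792)
 EL.nil)
noncomputable def S140_169_660_808_37 : EL := (EL.cons 14 (TM.mk (P.cons (P.cons (P.lf 1187988274 0 0) (P.cons (P.lf 162960452 0 0) (P.cons (P.lf 0 70270382 0) (P.lf 0 7807818 0)))) (P.cons (P.cons (P.lf 0 417731856 0) (P.cons (P.lf 41465512 0 0) (P.cons (P.lf 0 17880392 0) (P.lf 0 1986704 0)))) (P.cons (P.cons (P.lf 84063850 0 0) (P.cons (P.lf 0 1487892 0) (P.cons (P.lf 641598 0 0) (P.lf 71290 0 0)))) (P.cons (P.cons (P.lf 5351160 0 0) (P.cons (P.lf 0 1285844 0) (P.cons (P.lf 554466 0 0) P.nil))) (P.cons (P.cons (P.lf 0 1662084 0) (P.cons (P.lf 0 91518 0) P.nil)) (P.cons (P.cons (P.lf 0 152880 0) P.nil) P.nil))))))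 213638)
 EL.nil)
noncomputable def S140_169_660_808_38 : EL := (EL.cons 14 (TM.mk (P.cons (P.cons (P.lf 0 247908272 0) (P.cons (P.lf 0 68012866 0) (P.cons (P.lf 24663134 0 0) (P.cons (P.lf 7281666 0 0) (P.cons (P.lf 0 420380 0) (P.cons (P.lf 0 192750 0) P.nil)))))) (P.cons (P.cons (P.lf 150560796 0 0) (P.cons (P.lf 84582 0 0) (P.cons (P.lf 0 2857906 0) (P.cons (P.lf 2429210 0 0) (P.cons (P.lf 0 254262 0) P.nil))))) (P.cons (P.cons (P.lf 0 53239806 0) (P.cons (P.lf 1367582 0 0) (P.cons (P.lf 0 1113864 0) (P.cons (P.lf 386510 0 0) P.nil)))) (P.cons (P.cons (P.lf 6166668 0 0) (P.cons (P.lf 0 1083980 0) (P.cons (P.lf 490056 0 0) P.nil))) (P.cons (P.cons (P.lf 424218 0 0) (P.cons (P.lf 0 180970 0) P.nil)) (P.cons (P.cons (P.lf 0 254834 0) P.nil) P.nil)))))) 1450798)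
 EL.nil)
noncomputable def S140_169_660_808_39 : EL := (EL.cons 14 (TM.mk (P.cons (P.lf 3772912404 0 0) (P.cons (P.lf 0 723905728 0) (P.cons (P.lf 0 24534334 0) (P.cons (P.lf 5330620 0 0) (P.cons (P.lf 448650 0 0) (P.cons (P.lf 0 4952 0) P.nil)))))) 3630)
 EL.nil)
noncomputable def S140_169_660_808_40 : EL := (EL.cons 14 (TM.mk (P.cons (P.cons (P.lf 0 787327800 0) (P.cons (P.lf 0 108000472 0) (P.cons (P.lf 46571020 0 0) (P.lf 5174556 0 0)))) (P.cons (P.cons (P.lf 352379750 0 0) (P.cons (P.lf 0 17119886 0) (P.cons (P.lf 7382284 0 0) (P.lf 820250 0 0)))) (P.cons (P.cons (P.lf 0 76088824 0) (P.cons (P.lf 4470590 0 0) (P.cons (P.lf 0 1927770 0) (P.lf 0 214196 0)))) (P.cons (P.cons (P.lf 0 338820 0) (P.cons (P.lf 978462 0 0) (P.cons (P.lf 0 421920 0) P.nil))) (P.cons (P.cons (P.lf 1847286 0 0) (P.cons (P.lf 0 30158 0) P.nil)) (P.cons (P.cons (P.lf 31772 0 0) P.nil) P.nil))))))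 242986)
 EL.nil)
noncomputable def S140_169_660_808_41 : EL := (EL.cons 14 (TM.mk (P.cons (P.cons (P.lf 164298822 0 0) (P.cons (P.lf 45074872 0 0) (P.cons (P.lf 0 16345254 0) (P.cons (P.lf 0 4825854 0) (P.cons (P.lf 278602 0 0) (P.cons (P.lf 127744 0 0) P.nil)))))) (P.cons (P.cons (P.lf 0 115544662 0) (P.cons (P.lf 0 4380296 0) (P.cons (P.lf 3462126 0 0) (P.cons (P.lf 0 1146970 0) (P.cons (P.lf 141782 0 0) P.nil))))) (P.cons (P.cons (P.lf 43566528 0 0) (P.cons (P.lf 0 1254950 0) (P.cons (P.lf 684858 0 0) (P.cons (P.lf 0 63808 0) P.nil)))) (P.cons (P.cons (P.lf 0 6695982 0) (P.cons (P.lf 803672 0 0) (P.cons (P.lf 0 409706 0) P.nil))) (P.cons (P.cons (P.lf 0 157514 0) (P.cons (P.lf 59224 0 0) P.nil)) (P.cons (P.cons (P.lf 224104 0 0) P.nil) P.nil)))))) 1179938)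
 EL.nil)
noncomputable def S140_169_660_808_42 : EL := (EL.cons 14 (TM.mk (P.cons (P.lf 0 2500461402 0) (P.cons (P.lf 719642336 0 0) (P.cons (P.lf 0 10129460 0) (P.cons (P.lf 0 8742920 0) (P.cons (P.lf 0 168938 0) (P.cons (P.lf 67134 0 0) P.nil)))))) 7070)
 EL.nil)
noncomputable def S140_169_660_808_43 : EL := (EL.cons 14 (TM.mk (P.cons (P.cons (P.lf 521793926 0 0) (P.cons (P.lf 71576274 0 0) (P.cons (P.lf 0 30864496 0) (P.lf 0 3429386 0)))) (P.cons (P.cons (P.lf 0 283594384 0) (P.cons (P.lf 4479398 0 0) (P.cons (P.lf 0 1931564 0) (P.lf 0 214616 0)))) (P.cons (P.cons (P.lf 68733646 0 0) (P.cons (P.lf 0 4613414 0) (P.cons (P.lf 1989356 0 0) (P.lf 221040 0 0)))) (P.cons (P.cons (P.lf 0 2803670 0) (P.cons (P.lf 0 456690 0) (P.cons (P.lf 196928 0 0) P.nil))) (P.cons (P.cons (P.lf 0 1618272 0) (P.cons (P.lf 106658 0 0) P.nil)) (P.cons (P.cons (P.lf 87300 0 0) P.nil) P.nil))))))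 235086)
 EL.nil)
noncomputable def S140_169_660_808_44 : EL := (EL.cons 14 (TM.mk (P.cons (P.cons (P.lf 0 108887464 0) (P.cons (P.lf 0 29872938 0) (P.cons (P.lf 10832660 0 0) (P.cons (P.lf 3198288 0 0) (P.cons (P.lf 0 184640 0) (P.cons (P.lf 0 84660 0) P.nil)))))) (P.cons (P.cons (P.lf 87022188 0 0) (P.cons (P.lf 5768846 0 0) (P.cons (P.lf 0 3333716 0) (P.cons (P.lf 453316 0 0) (P.cons (P.lf 0 76250 0) P.nil))))) (P.cons (P.cons (P.lf 0 35364492 0) (P.cons (P.lf 787804 0 0) (P.cons (P.lf 0 318832 0) (P.cons (P.lf 0 55750 0) P.nil)))) (P.cons (P.cons (P.lf 6611398 0 0) (P.cons (P.lf 0 633810 0) (P.cons (P.lf 332582 0 0) P.nil))) (P.cons (P.cons (P.lf 0 100812 0) (P.cons (P.lf 4458 0 0) P.nil)) (P.cons (P.cons (P.lf 0 190324 0) P.nil) P.nil)))))) 926114)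
 EL.nil)
noncomputable def S140_169_660_808_45 : EL := (EL.cons 14 (TM.mk (P.cons (P.cons (P.lf 0 78059622 0) (P.cons (P.lf 0 32123122 0) (P.cons (P.lf 9445412 0 0) (P.cons (P.lf 5137824 0 0) (P.cons (P.lf 0 136456 0) (P.cons (P.lf 0 265508 0) P.nil)))))) (P.cons (P.cons (P.lf 59878366 0 0) (P.cons (P.lf 5171952 0 0) (P.cons (P.lf 0 4191408 0) (P.cons (P.lf 1231794 0 0) (P.cons (P.lf 97236 0 0) P.nil))))) (P.cons (P.cons (P.lf 0 27976074 0) (P.cons (P.lf 0 857756 0) (P.cons (P.lf 95154 0 0) (P.cons (P.lf 184266 0 0) P.nil)))) (P.cons (P.cons (P.lf 5971290 0 0) (P.cons (P.lf 0 966526 0) (P.cons (P.lf 344574 0 0) P.nil))) (P.cons (P.cons (P.lf 0 524198 0) (P.cons (P.lf 0 9130 0) P.nil)) (P.cons (P.cons (P.lf 0 151046 0) P.nil) P.nil)))))) 1647034)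
 EL.nil)
noncomputable def S140_169_660_808_46 : EL := (EL.cons 15 (TM.mk (P.lf 4294967296 0 0) 0)
 EL.nil)
noncomputable def S140_169_660_808_47 : EL := (EL.cons 15 (TM.mk (P.cons (P.cons (P.lf 0 896269723 0) (P.cons (P.lf 0 122944412 0) (P.cons (P.lf 53015016 0 0) (P.lf 5890556 0 0)))) (P.cons (P.cons (P.lf 229171693 0 0) (P.cons (P.lf 0 43078000 0) (P.cons (P.lf 18575716 0 0) (P.lf 2063964 0 0)))) (P.cons (P.cons (P.lf 0 48474407 0) (P.cons (P.lf 0 3975636 0) (P.cons (P.lf 1714336 0 0) (P.lf 190480 0 0)))) (P.cons (P.cons (P.lf 0 6929892 0) (P.cons (P.lf 244628 0 0) (P.cons (P.lf 0 105484 0) P.nil))) (P.cons (P.cons (P.lf 240833 0 0) (P.cons (P.lf 62236 0 0) P.nil)) (P.cons (P.cons (P.lf 77375 0 0) P.nil) P.nil)))))) 68155)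
 EL.nil)
noncomputable def S140_169_660_808_48 : EL := (EL.cons 15 (TM.mk (P.cons (P.cons (P.lf 187032720 0 0) (P.cons (P.lf 51311847 0 0) (P.cons (P.lf 0 18606935 0) (P.cons (P.lf 0 5493605 0) (P.cons (P.lf 317154 0 0) (P.cons (P.lf 145420 0 0) P.nil)))))) (P.cons (P.cons (P.lf 0 95646665 0) (P.cons (P.lf 4858769 0 0) (P.cons (P.lf 371080 0 0) (P.cons (P.lf 0 2359729 0) (P.cons (P.lf 222253 0 0) P.nil))))) (P.cons (P.cons (P.lf 32459374 0 0) (P.cons (P.lf 0 162682 0) (P.cons (P.lf 729825 0 0) (P.cons (P.lf 0 561122 0) P.nil)))) (P.cons (P.cons (P.lf 0 2280766 0) (P.cons (P.lf 842761 0 0) (P.cons (P.lf 0 297664 0) P.nil))) (P.cons (P.cons (P.lf 0 292948 0) (P.cons (P.lf 215095 0 0) P.nil)) (P.cons (P.cons (P.lf 149833 0 0) P.nil) P.nil)))))) 807134)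
 EL.nil)
noncomputable def S140_169_660_808 : SL := (SL.cons S140_169_660_808_0 (SL.cons S140_169_660_808_1 (SL.cons S140_169_660_808_2 (SL.cons S140_169_660_808_3 (SL.cons S140_169_660_808_4 (SL.cons S140_169_660_808_5 (SL.cons S140_169_660_808_6 (SL.cons S140_169_660_808_7 (SL.cons S140_169_660_808_8 (SL.cons S140_169_660_808_9 (SL.cons S140_169_660_808_10 (SL.cons S140_169_660_808_11 (SL.cons S140_169_660_808_12 (SL.cons S140_169_660_808_13 (SL.cons S140_169_660_808_14 (SL.cons S140_169_660_808_15 (SL.cons S140_169_660_808_16 (SL.cons S140_169_660_808_17 (SL.cons S140_169_660_808_18 (SL.cons S140_169_660_808_19 (SL.cons S140_169_660_808_20 (SL.cons S140_169_660_808_21 (SL.cons S140_169_660_808_22 (SL.cons S140_169_660_808_23 (SL.cons S140_169_660_808_24 (SL.cons S140_169_660_808_25 (SL.cons S140_169_660_808_26 (SL.cons S140_169_660_808_27 (SL.cons S140_169_660_808_28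 (SL.cons S140_169_660_808_29 (SL.cons S140_169_660_808_30 (SL.cons S140_169_660_808_31 (SL.cons S140_169_660_808_32 (SL.cons S140_169_660_808_33 (SL.cons S140_169_660_808_34 (SL.cons S140_169_660_808_35 (SL.cons S140_169_660_808_36 (SL.cons S140_169_660_808_37 (SL.cons S140_169_660_808_38 (SL.cons S140_169_660_808_39 (SL.cons S140_169_660_808_40 (SL.cons S140_169_660_808_41 (SL.cons S140_169_660_808_42 (SL.cons S140_169_660_808_43 (SL.cons S140_169_660_808_44 (SL.cons S140_169_660_808_45 (SL.cons S140_169_660_808_46 (SL.cons S140_169_660_808_47 (SL.cons S140_169_660_808_48 SL.nil)))))))))))))))))))))))))))))))))))))))))))))))))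
noncomputable def S140_169_734_808_0 : EL := (EL.cons 0 (TM.mk (P.cons (P.lf 5139680571 0 0) (P.cons (P.lf 636245268 0 0) (P.cons (P.lf 21563379 0 0) (P.cons (P.lf 0 4685115 0) (P.cons (P.lf 0 394321 0) (P.cons (P.lf 4352 0 0) P.nil)))))) 3197)
 (EL.cons 1 (TM.mk (P.cons (P.lf 0 1792040857 0) (P.cons (P.lf 0 37383279 0) (P.cons (P.lf 39281548 0 0) (P.cons (P.lf 2177913 0 0) (P.cons (P.lf 0 137038 0) (P.cons (P.lf 0 19477 0) P.nil)))))) 1484)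
 (EL.cons 5 (TM.mk (P.cons (P.lf 5474002426 0 0) (P.cons (P.lf 0 226220540 0) (P.cons (P.lf 0 7666984 0) (P.cons (P.lf 1665814 0 0) (P.cons (P.lf 140204 0 0) (P.cons (P.lf 0 1546 0) P.nil)))))) 969)
 (EL.cons 9 (TM.mk (P.lf 6442450944 0 0) 2)
 EL.nil))))
noncomputable def S140_169_734_808_1 : EL := (EL.cons 0 (TM.mk (P.cons (P.cons (P.lf 0 2534323189 0) (P.cons (P.lf 36671657 0 0) (P.cons (P.lf 0 17311261 0) (P.lf 0 824334 0)))) (P.cons (P.cons (P.lf 812325093 0 0) (P.cons (P.lf 0 6560169 0) (P.cons (P.lf 3096808 0 0) (P.lf 147477 0 0)))) (P.cons (P.cons (P.lf 112688471 0 0) (P.cons (P.lf 0 6272747 0) (P.cons (P.lf 2961121 0 0) (P.lf 140997 0 0)))) (P.cons (P.cons (P.lf 0 36788141 0) (P.cons (P.lf 0 788163 0) (P.cons (P.lf 372056 0 0) P.nil))) (P.cons (P.cons (P.lf 0 6304996 0) (P.cons (P.lf 60894 0 0) P.nil)) (P.cons (P.cons (P.lf 249366 0 0) P.nil) P.nil)))))) 369613)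
 (EL.cons 1 (TM.mk (P.cons (P.cons (P.lf 476322810 0 0) (P.cons (P.lf 9209261 0 0) (P.cons (P.lf 0 4347334 0) (P.lf 0 207007 0)))) (P.cons (P.cons (P.lf 0 300542492 0) (P.cons (P.lf 14037702 0 0) (P.cons (P.lf 0 6626650 0) (P.lf 0 315542 0)))) (P.cons (P.cons (P.lf 90295503 0 0) (P.cons (P.lf 1984869 0 0) (P.cons (P.lf 0 936976 0) (P.lf 0 44610 0)))) (P.cons (P.cons (P.lf 22425729 0 0) (P.cons (P.lf 0 359967 0) (P.cons (P.lf 169921 0 0) P.nil))) (P.cons (P.cons (P.lf 0 1810895 0) (P.cons (P.lf 0 86478 0) P.nil)) (P.cons (P.cons (P.lf 0 550741 0) P.nil) P.nil)))))) 182946)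
 (EL.cons 5 (TM.mk (P.cons (P.cons (P.lf 0 703285474 0) (P.cons (P.lf 0 68723568 0) (P.cons (P.lf 32441730 0 0) (P.lf 1544844 0 0)))) (P.cons (P.cons (P.lf 72482149 0 0) (P.cons (P.lf 0 17178652 0) (P.cons (P.lf 8109374 0 0) (P.lf 386154 0 0)))) (P.cons (P.cons (P.lf 0 125083724 0) (P.cons (P.lf 429640 0 0) (P.cons (P.lf 0 202814 0) (P.lf 0 9650 0)))) (P.cons (P.cons (P.lf 1460020 0 0) (P.cons (P.lf 391032 0 0) (P.cons (P.lf 0 184586 0) P.nil))) (P.cons (P.cons (P.lf 2692047 0 0) (P.cons (P.lf 6540 0 0) P.nil)) (P.cons (P.cons (P.lf 44258 0 0) P.nil) P.nil)))))) 142343)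
 (EL.cons 9 (TM.mk (P.cons (P.cons (P.lf 0 1415627782 0) (P.cons (P.lf 0 49133604 0) (P.cons (P.lf 23194068 0 0) (P.lf 1104474 0 0)))) (P.cons (P.cons (P.lf 318801925 0 0) (P.cons (P.lf 0 17215722 0) (P.cons (P.lf 8126874 0 0) (P.lf 386988 0 0)))) (P.cons (P.cons (P.lf 0 75014746 0) (P.cons (P.lf 0 1588824 0) (P.cons (P.lf 750018 0 0) (P.lf 35712 0 0)))) (P.cons (P.cons (P.lf 0 10253124 0) (P.cons (P.lf 97764 0 0) (P.cons (P.lf 0 46146 0) P.nil))) (P.cons (P.cons (P.lf 397303 0 0) (P.cons (P.lf 24870 0 0) P.nil)) (P.cons (P.cons (P.lf 117274 0 0) P.nil) P.nil)))))) 33311)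
 (EL.cons 2 (TM.mk (P.cons (P.cons (P.lf 182856313 0 0) (P.cons (P.lf 0 180304034 0) (P.cons (P.lf 0 5641886 0) (P.cons (P.lf 1033849 0 0) (P.lf 36922 0 0))))) (P.cons (P.cons (P.lf 25171278 0 0) (P.cons (P.lf 0 24819941 0) (P.cons (P.lf 0 776638 0) (P.cons (P.lf 142315 0 0) (P.lf 5082 0 0))))) (P.cons (P.cons (P.lf 0 4086061 0) (P.cons (P.lf 4029030 0 0) (P.cons (P.lf 126073 0 0) (P.cons (P.lf 0 23101 0) P.nil)))) (P.cons (P.cons (P.lf 0 797422 0) (P.cons (P.lf 786293 0 0) (P.cons (P.lf 24600 0 0) P.nil))) (P.cons (P.cons (P.lf 0 5259 0) (P.cons (P.lf 5186 0 0) P.nil)) (P.cons (P.cons (P.lf 6496 0 0) P.nil) P.nil)))))) 16932)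
 (EL.cons 6 (TM.mk (P.cons (P.cons (P.lf 98818575 0 0) (P.cons (P.lf 0 97439283 0) (P.cons (P.lf 0 3048969 0) (P.cons (P.lf 558708 0 0) (P.lf 19953 0 0))))) (P.cons (P.cons (P.lf 34624644 0 0) (P.cons (P.lf 0 34141359 0) (P.cons (P.lf 0 1068315 0) (P.cons (P.lf 195762 0 0) (P.lf 6990 0 0))))) (P.cons (P.cons (P.lf 3195483 0 0) (P.cons (P.lf 0 3150879 0) (P.cons (P.lf 0 98592 0) (P.cons (P.lf 18066 0 0) P.nil)))) (P.cons (P.cons (P.lf 0 196626 0) (P.cons (P.lf 193881 0 0) (P.cons (P.lf 6066 0 0) P.nil))) (P.cons (P.cons (P.lf 0 50022 0) (P.cons (P.lf 49323 0 0) P.nil)) (P.cons (P.cons (P.lf 0 1680 0) P.nil) P.nil)))))) 8826)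
 EL.nil))))))
noncomputable def S140_169_734_808_2 : EL := (EL.cons 0 (TM.mk (P.cons (P.cons (P.lf 865595576 0 0) (P.cons (P.lf 5313906 0 0) (P.cons (P.lf 0 3366789 0) (P.cons (P.lf 690880 0 0) (P.cons (P.lf 0 152674 0) (P.cons (P.lf 0 18214 0) P.nil)))))) (P.cons (P.cons (P.lf 0 526758961 0) (P.cons (P.lf 3377582 0 0) (P.cons (P.lf 0 1936843 0) (P.cons (P.lf 247361 0 0) (P.cons (P.lf 0 60911 0) P.nil))))) (P.cons (P.cons (P.lf 63799805 0 0) (P.cons (P.lf 0 4006643 0) (P.cons (P.lf 1920806 0 0) (P.cons (P.lf 62279 0 0) P.nil)))) (P.cons (P.cons (P.lf 14679044 0 0) (P.cons (P.lf 0 1049011 0) (P.cons (P.lf 531962 0 0) P.nil))) (P.cons (P.cons (P.lf 0 6098270 0) (P.cons (P.lf 209159 0 0) P.nil)) (P.cons (P.cons (P.lf 0 340754 0) P.nil) P.nil)))))) 1317685)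
 (EL.cons 1 (TM.mk (P.cons (P.cons (P.lf 0 122803527 0) (P.cons (P.lf 0 5306315 0) (P.cons (P.lf 2468670 0 0) (P.cons (P.lf 153490 0 0) (P.cons (P.lf 0 6446 0) (P.cons (P.lf 0 769 0) P.nil)))))) (P.cons (P.cons (P.lf 142053889 0 0) (P.cons (P.lf 0 2341998 0) (P.cons (P.lf 917446 0 0) (P.cons (P.lf 230245 0 0) (P.cons (P.lf 0 33459 0) P.nil))))) (P.cons (P.cons (P.lf 0 69670269 0) (P.cons (P.lf 219145 0 0) (P.cons (P.lf 0 194518 0) (P.cons (P.lf 81045 0 0) P.nil)))) (P.cons (P.cons (P.lf 4784046 0 0) (P.cons (P.lf 0 587171 0) (P.cons (P.lf 266046 0 0) P.nil))) (P.cons (P.cons (P.lf 1579870 0 0) (P.cons (P.lf 0 205318 0) P.nil)) (P.cons (P.cons (P.lf 0 706098 0) P.nil) P.nil)))))) 649282)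
 (EL.cons 5 (TM.mk (P.cons (P.cons (P.lf 44769691 0 0) (P.cons (P.lf 22582314 0 0) (P.cons (P.lf 0 9930373 0) (P.cons (P.lf 0 1196689 0) (P.cons (P.lf 129825 0 0) (P.cons (P.lf 15481 0 0) P.nil)))))) (P.cons (P.cons (P.lf 28508144 0 0) (P.cons (P.lf 1862546 0 0) (P.cons (P.lf 0 459892 0) (P.cons (P.lf 0 437785 0) (P.cons (P.lf 74586 0 0) P.nil))))) (P.cons (P.cons (P.lf 32557036 0 0) (P.cons (P.lf 1581686 0 0) (P.cons (P.lf 0 677507 0) (P.cons (P.lf 0 100819 0) P.nil)))) (P.cons (P.cons (P.lf 0 8526527 0) (P.cons (P.lf 777688 0 0) (P.cons (P.lf 0 372246 0) P.nil))) (P.cons (P.cons (P.lf 1810267 0 0) (P.cons (P.lf 21393 0 0) P.nil)) (P.cons (P.cons (P.lf 377906 0 0) P.nil) P.nil)))))) 584575)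
 (EL.cons 9 (TM.mk (P.cons (P.cons (P.lf 311062053 0 0) (P.cons (P.lf 21592680 0 0) (P.cons (P.lf 0 9818347 0) (P.cons (P.lf 0 839161 0) (P.cons (P.lf 66655 0 0) (P.cons (P.lf 7951 0 0) P.nil)))))) (P.cons (P.cons (P.lf 0 140103468 0) (P.cons (P.lf 2703060 0 0) (P.cons (P.lf 0 1013416 0) (P.cons (P.lf 0 308679 0) (P.cons (P.lf 46710 0 0) P.nil))))) (P.cons (P.cons (P.lf 48742410 0 0) (P.cons (P.lf 138618 0 0) (P.cons (P.lf 4803 0 0) (P.cons (P.lf 0 69429 0) P.nil)))) (P.cons (P.cons (P.lf 0 2918217 0) (P.cons (P.lf 357096 0 0) (P.cons (P.lf 0 161572 0) P.nil))) (P.cons (P.cons (P.lf 0 315886 0) (P.cons (P.lf 84483 0 0) P.nil)) (P.cons (P.cons (P.lf 226552 0 0) P.nil) P.nil)))))) 193619)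
 (EL.cons 2 (TM.mk (P.cons (P.cons (P.lf 0 80359621 0) (P.cons (P.lf 76448857 0 0) (P.cons (P.lf 6546256 0 0) (P.cons (P.lf 0 1603850 0) (P.cons (P.lf 0 134437 0) (P.cons (P.lf 4944 0 0) P.nil)))))) (P.cons (P.cons (P.lf 7035142 0 0) (P.cons (P.lf 0 8298151 0) (P.cons (P.lf 1767712 0 0) (P.cons (P.lf 0 521229 0) (P.cons (P.lf 0 56272 0) P.nil))))) (P.cons (P.cons (P.lf 28580 0 0) (P.cons (P.lf 0 190575 0) (P.cons (P.lf 235901 0 0) (P.cons (P.lf 0 66763 0) P.nil)))) (P.cons (P.cons (P.lf 0 1222155 0) (P.cons (P.lf 1232235 0 0) (P.cons (P.lf 0 1856 0) P.nil))) (P.cons (P.cons (P.lf 0 39015 0) (P.cons (P.lf 47008 0 0) P.nil)) (P.cons (P.cons (P.lf 37957 0 0) P.nil) P.nil)))))) 150648)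
 (EL.cons 6 (TM.mk (P.cons (P.cons (P.lf 0 43427670 0) (P.cons (P.lf 41314224 0 0) (P.cons (P.lf 3537702 0 0) (P.cons (P.lf 0 866742 0) (P.cons (P.lf 0 72648 0) (P.cons (P.lf 2670 0 0) P.nil)))))) (P.cons (P.cons (P.lf 0 5436456 0) (P.cons (P.lf 4304310 0 0) (P.cons (P.lf 1707876 0 0) (P.cons (P.lf 0 466062 0) (P.cons (P.lf 0 45864 0) P.nil))))) (P.cons (P.cons (P.lf 0 278790 0) (P.cons (P.lf 0 7626 0) (P.cons (P.lf 420558 0 0) (P.cons (P.lf 0 118014 0) P.nil)))) (P.cons (P.cons (P.lf 0 718194 0) (P.cons (P.lf 680010 0 0) (P.cons (P.lf 63210 0 0) P.nil))) (P.cons (P.cons (P.lf 0 169908 0) (P.cons (P.lf 169590 0 0) P.nil)) (P.cons (P.cons (P.lf 0 1932 0) P.nil) P.nil)))))) 107886)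
 EL.nil))))))
noncomputable def S140_169_734_808_3 : EL := (EL.cons 0 (TM.mk (P.cons (P.lf 3316036292 0 0) (P.cons (P.lf 0 636245268 0) (P.cons (P.lf 0 21563379 0) (P.cons (P.lf 4685115 0 0) (P.cons (P.lf 394321 0 0) (P.cons (P.lf 0 4352 0) P.nil)))))) 3197)
 (EL.cons 1 (TM.mk (P.cons (P.lf 1792040857 0 0) (P.cons (P.lf 37383279 0 0) (P.cons (P.lf 0 39281548 0) (P.cons (P.lf 0 2177913 0) (P.cons (P.lf 137038 0 0) (P.cons (P.lf 19477 0 0) P.nil)))))) 1484)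
 (EL.cons 5 (TM.mk (P.cons (P.lf 968448518 0 0) (P.cons (P.lf 226220540 0 0) (P.cons (P.lf 7666984 0 0) (P.cons (P.lf 0 1665814 0) (P.cons (P.lf 0 140204 0) (P.cons (P.lf 1546 0 0) P.nil)))))) 962)
 EL.nil)))
noncomputable def S140_169_734_808_4 : EL := (EL.cons 0 (TM.mk (P.cons (P.cons (P.lf 0 728647083 0) (P.cons (P.lf 0 25289878 0) (P.cons (P.lf 11938369 0 0) (P.lf 568490 0 0)))) (P.cons (P.cons (P.lf 303897577 0 0) (P.cons (P.lf 0 4008867 0) (P.cons (P.lf 1892429 0 0) (P.lf 90112 0 0)))) (P.cons (P.cons (P.lf 0 65357442 0) (P.cons (P.lf 1046854 0 0) (P.cons (P.lf 0 494180 0) (P.lf 0 23531 0)))) (P.cons (P.cons (P.lf 34337 0 0) (P.cons (P.lf 229120 0 0) (P.cons (P.lf 0 108156 0) P.nil))) (P.cons (P.cons (P.lf 1613353 0 0) (P.cons (P.lf 0 7062 0) P.nil)) (P.cons (P.cons (P.lf 21359 0 0) P.nil) P.nil)))))) 75385)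
 (EL.cons 1 (TM.mk (P.cons (P.cons (P.lf 0 393772935 0) (P.cons (P.lf 0 13667068 0) (P.cons (P.lf 6451691 0 0) (P.lf 307220 0 0)))) (P.cons (P.cons (P.lf 80463982 0 0) (P.cons (P.lf 0 5073853 0) (P.cons (P.lf 2395168 0 0) (P.lf 114052 0 0)))) (P.cons (P.cons (P.lf 0 10384800 0) (P.cons (P.lf 0 242263 0) (P.cons (P.lf 114361 0 0) (P.lf 5445 0 0)))) (P.cons (P.cons (P.lf 0 4752573 0) (P.cons (P.lf 139552 0 0) (P.cons (P.lf 0 65876 0) P.nil))) (P.cons (P.cons (P.lf 370520 0 0) (P.cons (P.lf 21946 0 0) P.nil)) (P.cons (P.cons (P.lf 125302 0 0) P.nil) P.nil)))))) 42874)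
 (EL.cons 5 (TM.mk (P.cons (P.cons (P.lf 0 212801406 0) (P.cons (P.lf 0 7385910 0) (P.cons (P.lf 3486600 0 0) (P.lf 166026 0 0)))) (P.cons (P.cons (P.lf 0 1785162 0) (P.cons (P.lf 0 4313198 0) (P.cons (P.lf 2036092 0 0) (P.lf 96954 0 0)))) (P.cons (P.cons (P.lf 0 1766714 0) (P.cons (P.lf 0 901822 0) (P.cons (P.lf 425714 0 0) (P.lf 20270 0 0)))) (P.cons (P.cons (P.lf 0 3429916 0) (P.cons (P.lf 0 48876 0) (P.cons (P.lf 23072 0 0) P.nil))) (P.cons (P.cons (P.lf 0 441200 0) (P.cons (P.lf 10800 0 0) P.nil)) (P.cons (P.cons (P.lf 31496 0 0) P.nil) P.nil)))))) 25230)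
 EL.nil)))
noncomputable def S140_169_734_808_5 : EL := (EL.cons 0 (TM.mk (P.cons (P.cons (P.lf 160108794 0 0) (P.cons (P.lf 11114108 0 0) (P.cons (P.lf 0 5053665 0) (P.cons (P.lf 0 431929 0) (P.cons (P.lf 34307 0 0) (P.cons (P.lf 4092 0 0) P.nil)))))) (P.cons (P.cons (P.lf 0 102833525 0) (P.cons (P.lf 0 741144 0) (P.cons (P.lf 448018 0 0) (P.cons (P.lf 0 76007 0) (P.cons (P.lf 17458 0 0) P.nil))))) (P.cons (P.cons (P.lf 37883752 0 0) (P.cons (P.lf 0 267871 0) (P.cons (P.lf 135416 0 0) (P.cons (P.lf 0 2441 0) P.nil)))) (P.cons (P.cons (P.lf 0 5620619 0) (P.cons (P.lf 176767 0 0) (P.cons (P.lf 0 87386 0) P.nil))) (P.cons (P.cons (P.lf 0 120385 0) (P.cons (P.lf 11040 0 0) P.nil)) (P.cons (P.cons (P.lf 184234 0 0) P.nil) P.nil)))))) 193423)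
 (EL.cons 1 (TM.mk (P.cons (P.cons (P.lf 86525439 0 0) (P.cons (P.lf 6006247 0 0) (P.cons (P.lf 0 2731083 0) (P.cons (P.lf 0 233420 0) (P.cons (P.lf 18540 0 0) (P.cons (P.lf 2210 0 0) P.nil)))))) (P.cons (P.cons (P.lf 0 37166385 0) (P.cons (P.lf 877179 0 0) (P.cons (P.lf 0 338865 0) (P.cons (P.lf 0 90731 0) (P.cons (P.lf 13378 0 0) P.nil))))) (P.cons (P.cons (P.lf 10848643 0 0) (P.cons (P.lf 0 77413 0) (P.cons (P.lf 55320 0 0) (P.cons (P.lf 0 15986 0) P.nil)))) (P.cons (P.cons (P.lf 220196 0 0) (P.cons (P.lf 76351 0 0) (P.cons (P.lf 0 35415 0) P.nil))) (P.cons (P.cons (P.lf 0 348016 0) (P.cons (P.lf 24270 0 0) P.nil)) (P.cons (P.cons (P.lf 60459 0 0) P.nil) P.nil)))))) 110652)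
 (EL.cons 5 (TM.mk (P.cons (P.cons (P.lf 46759778 0 0) (P.cons (P.lf 3245874 0 0) (P.cons (P.lf 0 1475922 0) (P.cons (P.lf 0 126144 0) (P.cons (P.lf 10018 0 0) (P.cons (P.lf 1194 0 0) P.nil)))))) (P.cons (P.cons (P.lf 0 10138124 0) (P.cons (P.lf 1164538 0 0) (P.cons (P.lf 0 497100 0) (P.cons (P.lf 0 75866 0) (P.cons (P.lf 9360 0 0) P.nil))))) (P.cons (P.cons (P.lf 2777690 0 0) (P.cons (P.lf 141448 0 0) (P.cons (P.lf 0 46546 0) (P.cons (P.lf 0 22274 0) P.nil)))) (P.cons (P.cons (P.lf 1025702 0 0) (P.cons (P.lf 56180 0 0) (P.cons (P.lf 0 22786 0) P.nil))) (P.cons (P.cons (P.lf 0 62490 0) (P.cons (P.lf 24234 0 0) P.nil)) (P.cons (P.cons (P.lf 10010 0 0) P.nil) P.nil)))))) 62576)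
 EL.nil)))
noncomputable def S140_169_734_808_6 : EL := (EL.cons 12 (TM.mk (P.lf 8589934592 0 0) 0)
 (EL.cons 3 (TM.mk (P.cons (P.lf 0 2668545243 0) (P.cons (P.lf 256005836 0 0) (P.cons (P.lf 20956361 0 0) (P.cons (P.lf 125291 0 0) (P.cons (P.lf 0 64357 0) (P.cons (P.lf 0 3438 0) P.nil)))))) 378)
 (EL.cons 7 (TM.mk (P.cons (P.lf 0 1442125985 0) (P.cons (P.lf 0 168433589 0) (P.cons (P.lf 4127638 0 0) (P.cons (P.lf 758202 0 0) (P.cons (P.lf 21743 0 0) (P.cons (P.lf 0 1521 0) P.nil)))))) 224)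
 EL.nil)))
noncomputable def S140_169_734_808_7 : EL := (EL.cons 12 (TM.mk (P.cons (P.cons (P.lf 0 1887503710 0) (P.cons (P.lf 0 65511472 0) (P.cons (P.lf 30925424 0 0) (P.lf 1472632 0 0)))) (P.cons (P.cons (P.lf 425069234 0 0) (P.cons (P.lf 0 22954296 0) (P.cons (P.lf 10835832 0 0) (P.lf 515984 0 0)))) (P.cons (P.cons (P.lf 0 100019662 0) (P.cons (P.lf 0 2118432 0) (P.cons (P.lf 1000024 0 0) (P.lf 47616 0 0)))) (P.cons (P.cons (P.lf 0 13670832 0) (P.cons (P.lf 130352 0 0) (P.cons (P.lf 0 61528 0) P.nil))) (P.cons (P.cons (P.lf 529738 0 0) (P.cons (P.lf 33160 0 0) P.nil)) (P.cons (P.cons (P.lf 156366 0 0) P.nil) P.nil)))))) 44390)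
 (EL.cons 3 (TM.mk (P.cons (P.cons (P.lf 1716996848 0 0) (P.cons (P.lf 0 40703526 0) (P.cons (P.lf 19214554 0 0) (P.lf 914972 0 0)))) (P.cons (P.cons (P.lf 0 641382239 0) (P.cons (P.lf 0 10357064 0) (P.cons (P.lf 4889166 0 0) (P.lf 232810 0 0)))) (P.cons (P.cons (P.lf 0 112772550 0) (P.cons (P.lf 371640 0 0) (P.cons (P.lf 0 175440 0) (P.lf 0 8354 0)))) (P.cons (P.cons (P.lf 2945030 0 0) (P.cons (P.lf 321172 0 0) (P.cons (P.lf 0 151608 0) P.nil))) (P.cons (P.cons (P.lf 2222255 0 0) (P.cons (P.lf 22856 0 0) P.nil)) (P.cons (P.cons (P.lf 133093 0 0) P.nil) P.nil)))))) 134554)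
 (EL.cons 7 (TM.mk (P.cons (P.cons (P.lf 0 426986541 0) (P.cons (P.lf 51168466 0 0) (P.cons (P.lf 0 24154647 0) (P.lf 0 1150224 0)))) (P.cons (P.cons (P.lf 421983788 0 0) (P.cons (P.lf 6814216 0 0) (P.cons (P.lf 0 3216727 0) (P.lf 0 153179 0)))) (P.cons (P.cons (P.lf 29312009 0 0) (P.cons (P.lf 0 969305 0) (P.cons (P.lf 457570 0 0) (P.lf 21786 0 0)))) (P.cons (P.cons (P.lf 0 9667316 0) (P.cons (P.lf 0 131534 0) (P.cons (P.lf 62093 0 0) P.nil))) (P.cons (P.cons (P.lf 0 674722 0) (P.cons (P.lf 12074 0 0) P.nil)) (P.cons (P.cons (P.lf 88286 0 0) P.nil) P.nil)))))) 86361)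
 (EL.cons 10 (TM.mk (P.cons (P.cons (P.lf 0 294303381 0) (P.cons (P.lf 290195544 0 0) (P.cons (P.lf 9080499 0 0) (P.cons (P.lf 0 1663962 0) (P.lf 0 59427 0))))) (P.cons (P.cons (P.lf 0 68746524 0) (P.cons (P.lf 67786971 0 0) (P.cons (P.lf 2121117 0 0) (P.cons (P.lf 0 388686 0) (P.lf 0 13881 0))))) (P.cons (P.cons (P.lf 0 2329932 0) (P.cons (P.lf 2297409 0 0) (P.cons (P.lf 71886 0 0) (P.cons (P.lf 0 13173 0) P.nil)))) (P.cons (P.cons (P.lf 506226 0 0) (P.cons (P.lf 0 499161 0) (P.cons (P.lf 0 15618 0) P.nil))) (P.cons (P.cons (P.lf 42606 0 0) (P.cons (P.lf 0 42012 0) P.nil)) (P.cons (P.cons (P.lf 0 468 0) P.nil) P.nil)))))) 6171)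
 EL.nil))))
noncomputable def S140_169_734_808_8 : EL := (EL.cons 12 (TM.mk (P.cons (P.cons (P.lf 414749404 0 0) (P.cons (P.lf 28790240 0 0) (P.cons (P.lf 0 13091130 0) (P.cons (P.lf 0 1118882 0) (P.cons (P.lf 88874 0 0) (P.cons (P.lf 10602 0 0) P.nil)))))) (P.cons (P.cons (P.lf 0 186804624 0) (P.cons (P.lf 3604080 0 0) (P.cons (P.lf 0 1351222 0) (P.cons (P.lf 0 411572 0) (P.cons (P.lf 62280 0 0) P.nil))))) (P.cons (P.cons (P.lf 64989880 0 0) (P.cons (P.lf 184824 0 0) (P.cons (P.lf 6404 0 0) (P.cons (P.lf 0 92572 0) P.nil)))) (P.cons (P.cons (P.lf 0 3890956 0) (P.cons (P.lf 476128 0 0) (P.cons (P.lf 0 215430 0) P.nil))) (P.cons (P.cons (P.lf 0 421182 0) (P.cons (P.lf 112644 0 0) P.nil)) (P.cons (P.cons (P.lf 302070 0 0) P.nil) P.nil)))))) 258130)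
 (EL.cons 3 (TM.mk (P.cons (P.cons (P.lf 0 625720509 0) (P.cons (P.lf 642400 0 0) (P.cons (P.lf 472818 0 0) (P.cons (P.lf 0 747139 0) (P.cons (P.lf 138045 0 0) (P.cons (P.lf 16471 0 0) P.nil)))))) (P.cons (P.cons (P.lf 381403705 0 0) (P.cons (P.lf 1391443 0 0) (P.cons (P.lf 0 187448 0) (P.cons (P.lf 0 474438 0) (P.cons (P.lf 83496 0 0) P.nil))))) (P.cons (P.cons (P.lf 0 29156623 0) (P.cons (P.lf 3940390 0 0) (P.cons (P.lf 0 1772899 0) (P.cons (P.lf 0 170906 0) P.nil)))) (P.cons (P.cons (P.lf 0 5680122 0) (P.cons (P.lf 1325828 0 0) (P.cons (P.lf 0 629636 0) P.nil))) (P.cons (P.cons (P.lf 4026741 0 0) (P.cons (P.lf 61325 0 0) P.nil)) (P.cons (P.cons (P.lf 548925 0 0) P.nil) P.nil)))))) 670049)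
 (EL.cons 7 (TM.mk (P.cons (P.cons (P.lf 257277656 0 0) (P.cons (P.lf 0 11140611 0) (P.cons (P.lf 4562453 0 0) (P.cons (P.lf 908102 0 0) (P.cons (P.lf 0 123910 0) (P.cons (P.lf 0 14781 0) P.nil)))))) (P.cons (P.cons (P.lf 0 250936446 0) (P.cons (P.lf 0 915475 0) (P.cons (P.lf 123334 0 0) (P.cons (P.lf 312148 0 0) (P.cons (P.lf 0 54930 0) P.nil))))) (P.cons (P.cons (P.lf 45873823 0 0) (P.cons (P.lf 0 2495118 0) (P.cons (P.lf 1153327 0 0) (P.cons (P.lf 79240 0 0) P.nil)))) (P.cons (P.cons (P.lf 0 644191 0) (P.cons (P.lf 0 510692 0) (P.cons (P.lf 249643 0 0) P.nil))) (P.cons (P.cons (P.lf 0 2901483 0) (P.cons (P.lf 73645 0 0) P.nil)) (P.cons (P.cons (P.lf 101890 0 0) P.nil) P.nil)))))) 423434)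
 (EL.cons 10 (TM.mk (P.cons (P.cons (P.lf 129337122 0 0) (P.cons (P.lf 0 123042822 0) (P.cons (P.lf 0 10536066 0) (P.cons (P.lf 2581362 0 0) (P.cons (P.lf 216378 0 0) (P.cons (P.lf 0 7956 0) P.nil)))))) (P.cons (P.cons (P.lf 1084992 0 0) (P.cons (P.lf 1551636 0 0) (P.cons (P.lf 0 3855876 0) (P.cons (P.lf 1086552 0 0) (P.cons (P.lf 111324 0 0) P.nil))))) (P.cons (P.cons (P.lf 1073778 0 0) (P.cons (P.lf 0 510678 0) (P.cons (P.lf 0 832332 0) (P.cons (P.lf 231966 0 0) P.nil)))) (P.cons (P.cons (P.lf 2084646 0 0) (P.cons (P.lf 0 2025840 0) (P.cons (P.lf 0 107634 0) P.nil))) (P.cons (P.cons (P.lf 268152 0 0) (P.cons (P.lf 0 270972 0) P.nil)) (P.cons (P.cons (P.lf 0 19140 0) P.nil) P.nil)))))) 187944)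
 EL.nil))))
noncomputable def S140_169_734_808_9 : EL := (EL.cons 3 (TM.mk (P.cons (P.lf 0 2668545243 0) (P.cons (P.lf 256005836 0 0) (P.cons (P.lf 20956361 0 0) (P.cons (P.lf 125291 0 0) (P.cons (P.lf 0 64357 0) (P.cons (P.lf 0 3438 0) P.nil)))))) 378)
 (EL.cons 7 (TM.mk (P.cons (P.lf 0 1442125985 0) (P.cons (P.lf 0 168433589 0) (P.cons (P.lf 4127638 0 0) (P.cons (P.lf 758202 0 0) (P.cons (P.lf 21743 0 0) (P.cons (P.lf 0 1521 0) P.nil)))))) 224)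
 EL.nil))
noncomputable def S140_169_734_808_10 : EL := (EL.cons 3 (TM.mk (P.cons (P.cons (P.lf 586371059 0 0) (P.cons (P.lf 20351763 0 0) (P.cons (P.lf 0 9607277 0) (P.lf 0 457486 0)))) (P.cons (P.cons (P.lf 0 188305094 0) (P.cons (P.lf 5178532 0 0) (P.cons (P.lf 0 2444583 0) (P.lf 0 116405 0)))) (P.cons (P.cons (P.lf 39135570 0 0) (P.cons (P.lf 0 185820 0) (P.cons (P.lf 87720 0 0) (P.lf 4177 0 0)))) (P.cons (P.cons (P.lf 2275574 0 0) (P.cons (P.lf 0 160586 0) (P.cons (P.lf 75804 0 0) P.nil))) (P.cons (P.cons (P.lf 0 795670 0) (P.cons (P.lf 0 11428 0) P.nil)) (P.cons (P.cons (P.lf 0 70028 0) P.nil) P.nil)))))) 32406)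
 (EL.cons 7 (TM.mk (P.cons (P.cons (P.lf 316884618 0 0) (P.cons (P.lf 10998430 0 0) (P.cons (P.lf 0 5191932 0) (P.lf 0 247233 0)))) (P.cons (P.cons (P.lf 0 34352341 0) (P.cons (P.lf 5138260 0 0) (P.cons (P.lf 0 2425573 0) (P.lf 0 115502 0)))) (P.cons (P.cons (P.lf 7550009 0 0) (P.cons (P.lf 774268 0 0) (P.cons (P.lf 0 365501 0) (P.lf 0 17403 0)))) (P.cons (P.cons (P.lf 4293997 0 0) (P.cons (P.lf 2842 0 0) (P.cons (P.lf 0 1342 0) P.nil))) (P.cons (P.cons (P.lf 163805 0 0) (P.cons (P.lf 0 11332 0) P.nil)) (P.cons (P.cons (P.lf 0 50626 0) P.nil) P.nil)))))) 18764)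
 EL.nil))
noncomputable def S140_169_734_808_11 : EL := (EL.cons 3 (TM.mk (P.cons (P.cons (P.lf 0 128845863 0) (P.cons (P.lf 0 8943962 0) (P.cons (P.lf 4066884 0 0) (P.cons (P.lf 347591 0 0) (P.cons (P.lf 0 27609 0) (P.cons (P.lf 0 3293 0) P.nil)))))) (P.cons (P.cons (P.lf 70393417 0 0) (P.cons (P.lf 0 261605 0) (P.cons (P.lf 29614 0 0) (P.cons (P.lf 94512 0 0) (P.cons (P.lf 0 16698 0) P.nil))))) (P.cons (P.cons (P.lf 0 24745225 0) (P.cons (P.lf 120232 0 0) (P.cons (P.lf 0 74197 0) (P.cons (P.lf 13762 0 0) P.nil)))) (P.cons (P.cons (P.lf 2695968 0 0) (P.cons (P.lf 0 133192 0) (P.cons (P.lf 63628 0 0) P.nil))) (P.cons (P.cons (P.lf 167601 0 0) (P.cons (P.lf 0 20515 0) P.nil)) (P.cons (P.cons (P.lf 0 113703 0) P.nil) P.nil)))))) 118597)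
 (EL.cons 7 (TM.mk (P.cons (P.cons (P.lf 0 69630436 0) (P.cons (P.lf 0 4833465 0) (P.cons (P.lf 2197811 0 0) (P.cons (P.lf 187844 0 0) (P.cons (P.lf 0 14920 0) (P.cons (P.lf 0 1779 0) P.nil)))))) (P.cons (P.cons (P.lf 23229288 0 0) (P.cons (P.lf 0 1169599 0) (P.cons (P.lf 483544 0 0) (P.cons (P.lf 91036 0 0) (P.cons (P.lf 0 12198 0) P.nil))))) (P.cons (P.cons (P.lf 0 7048655 0) (P.cons (P.lf 0 87864 0) (P.cons (P.lf 19129 0 0) (P.cons (P.lf 23074 0 0) P.nil)))) (P.cons (P.cons (P.lf 0 674257 0) (P.cons (P.lf 0 79286 0) (P.cons (P.lf 34237 0 0) P.nil))) (P.cons (P.cons (P.lf 162795 0 0) (P.cons (P.lf 0 27767 0) P.nil)) (P.cons (P.cons (P.lf 0 39134 0) P.nil) P.nil)))))) 66298)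
 EL.nil))
noncomputable def S140_169_734_808_12 : EL := (EL.cons 4 (TM.mk (P.cons (P.lf 2668545243 0 0) (P.cons (P.lf 0 256005836 0) (P.cons (P.lf 0 20956361 0) (P.cons (P.lf 0 125291 0) (P.cons (P.lf 64357 0 0) (P.cons (P.lf 3438 0 0) P.nil)))))) 378)
 (EL.cons 8 (TM.mk (P.cons (P.lf 1442125985 0 0) (P.cons (P.lf 168433589 0 0) (P.cons (P.lf 0 4127638 0) (P.cons (P.lf 0 758202 0) (P.cons (P.lf 0 21743 0) (P.cons (P.lf 1521 0 0) P.nil)))))) 224)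
 EL.nil))
noncomputable def S140_169_734_808_13 : EL := (EL.cons 4 (TM.mk (P.cons (P.cons (P.lf 0 586371059 0) (P.cons (P.lf 0 20351763 0) (P.cons (P.lf 9607277 0 0) (P.lf 457486 0 0)))) (P.cons (P.cons (P.lf 188305094 0 0) (P.cons (P.lf 0 5178532 0) (P.cons (P.lf 2444583 0 0) (P.lf 116405 0 0)))) (P.cons (P.cons (P.lf 0 39135570 0) (P.cons (P.lf 185820 0 0) (P.cons (P.lf 0 87720 0) (P.lf 0 4177 0)))) (P.cons (P.cons (P.lf 0 2275574 0) (P.cons (P.lf 160586 0 0) (P.cons (P.lf 0 75804 0) P.nil))) (P.cons (P.cons (P.lf 795670 0 0) (P.cons (P.lf 11428 0 0) P.nil)) (P.cons (P.cons (P.lf 70028 0 0) P.nil) P.nil)))))) 32406)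
 (EL.cons 8 (TM.mk (P.cons (P.cons (P.lf 0 316884618 0) (P.cons (P.lf 0 10998430 0) (P.cons (P.lf 5191932 0 0) (P.lf 247233 0 0)))) (P.cons (P.cons (P.lf 34352341 0 0) (P.cons (P.lf 0 5138260 0) (P.cons (P.lf 2425573 0 0) (P.lf 115502 0 0)))) (P.cons (P.cons (P.lf 0 7550009 0) (P.cons (P.lf 0 774268 0) (P.cons (P.lf 365501 0 0) (P.lf 17403 0 0)))) (P.cons (P.cons (P.lf 0 4293997 0) (P.cons (P.lf 0 2842 0) (P.cons (P.lf 1342 0 0) P.nil))) (P.cons (P.cons (P.lf 0 163805 0) (P.cons (P.lf 11332 0 0) P.nil)) (P.cons (P.cons (P.lf 50626 0 0) P.nil) P.nil)))))) 18764)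
 EL.nil))
noncomputable def S140_169_734_808_14 : EL := (EL.cons 4 (TM.mk (P.cons (P.cons (P.lf 128845863 0 0) (P.cons (P.lf 8943962 0 0) (P.cons (P.lf 0 4066884 0) (P.cons (P.lf 0 347591 0) (P.cons (P.lf 27609 0 0) (P.cons (P.lf 3293 0 0) P.nil)))))) (P.cons (P.cons (P.lf 0 70393417 0) (P.cons (P.lf 261605 0 0) (P.cons (P.lf 0 29614 0) (P.cons (P.lf 0 94512 0) (P.cons (P.lf 16698 0 0) P.nil))))) (P.cons (P.cons (P.lf 24745225 0 0) (P.cons (P.lf 0 120232 0) (P.cons (P.lf 74197 0 0) (P.cons (P.lf 0 13762 0) P.nil)))) (P.cons (P.cons (P.lf 0 2695968 0) (P.cons (P.lf 133192 0 0) (P.cons (P.lf 0 63628 0) P.nil))) (P.cons (P.cons (P.lf 0 167601 0) (P.cons (P.lf 20515 0 0) P.nil)) (P.cons (P.cons (P.lf 113703 0 0) P.nil) P.nil)))))) 118597)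
 (EL.cons 8 (TM.mk (P.cons (P.cons (P.lf 69630436 0 0) (P.cons (P.lf 4833465 0 0) (P.cons (P.lf 0 2197811 0) (P.cons (P.lf 0 187844 0) (P.cons (P.lf 14920 0 0) (P.cons (P.lf 1779 0 0) P.nil)))))) (P.cons (P.cons (P.lf 0 23229288 0) (P.cons (P.lf 1169599 0 0) (P.cons (P.lf 0 483544 0) (P.cons (P.lf 0 91036 0) (P.cons (P.lf 12198 0 0) P.nil))))) (P.cons (P.cons (P.lf 7048655 0 0) (P.cons (P.lf 87864 0 0) (P.cons (P.lf 0 19129 0) (P.cons (P.lf 0 23074 0) P.nil)))) (P.cons (P.cons (P.lf 674257 0 0) (P.cons (P.lf 79286 0 0) (P.cons (P.lf 0 34237 0) P.nil))) (P.cons (P.cons (P.lf 0 162795 0) (P.cons (P.lf 27767 0 0) P.nil)) (P.cons (P.cons (P.lf 39134 0 0) P.nil) P.nil)))))) 66298)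
 EL.nil))
noncomputable def S140_169_734_808_15 : EL := (EL.cons 4 (TM.mk (P.cons (P.lf 0 1768552689 0) (P.cons (P.lf 339330810 0 0) (P.cons (P.lf 11500469 0 0) (P.cons (P.lf 0 2498728 0) (P.cons (P.lf 0 210304 0) (P.cons (P.lf 2321 0 0) P.nil)))))) 1708)
 (EL.cons 8 (TM.mk (P.cons (P.lf 0 955755124 0) (P.cons (P.lf 0 19937749 0) (P.cons (P.lf 20950159 0 0) (P.cons (P.lf 1161554 0 0) (P.cons (P.lf 0 73087 0) (P.cons (P.lf 0 10388 0) P.nil)))))) 788)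
 EL.nil))
noncomputable def S140_169_734_808_16 : EL := (EL.cons 4 (TM.mk (P.cons (P.cons (P.lf 388611778 0 0) (P.cons (P.lf 13487935 0 0) (P.cons (P.lf 0 6367130 0) (P.lf 0 303195 0)))) (P.cons (P.cons (P.lf 0 162078707 0) (P.cons (P.lf 2138062 0 0) (P.cons (P.lf 0 1009295 0) (P.lf 0 48060 0)))) (P.cons (P.cons (P.lf 34857302 0 0) (P.cons (P.lf 0 558322 0) (P.cons (P.lf 263563 0 0) (P.lf 12550 0 0)))) (P.cons (P.cons (P.lf 0 18313 0) (P.cons (P.lf 0 122197 0) (P.cons (P.lf 57683 0 0) P.nil))) (P.cons (P.cons (P.lf 0 860455 0) (P.cons (P.lf 3766 0 0) P.nil)) (P.cons (P.cons (P.lf 0 11391 0) P.nil) P.nil)))))) 40214)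
 (EL.cons 8 (TM.mk (P.cons (P.cons (P.lf 210012232 0 0) (P.cons (P.lf 7289103 0 0) (P.cons (P.lf 0 3440902 0) (P.lf 0 163851 0)))) (P.cons (P.cons (P.lf 0 42914124 0) (P.cons (P.lf 2706055 0 0) (P.cons (P.lf 0 1277423 0) (P.lf 0 60828 0)))) (P.cons (P.cons (P.lf 5538560 0 0) (P.cons (P.lf 129207 0 0) (P.cons (P.lf 0 60993 0) (P.lf 0 2904 0)))) (P.cons (P.cons (P.lf 2534706 0 0) (P.cons (P.lf 0 74428 0) (P.cons (P.lf 35134 0 0) P.nil))) (P.cons (P.cons (P.lf 0 197611 0) (P.cons (P.lf 0 11705 0) P.nil)) (P.cons (P.cons (P.lf 0 66828 0) P.nil) P.nil)))))) 22856)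
 EL.nil))
noncomputable def S140_169_734_808_17 : EL := (EL.cons 4 (TM.mk (P.cons (P.cons (P.lf 0 85391356 0) (P.cons (P.lf 0 5927524 0) (P.cons (P.lf 2695288 0 0) (P.cons (P.lf 230362 0 0) (P.cons (P.lf 0 18297 0) (P.cons (P.lf 0 2182 0) P.nil)))))) (P.cons (P.cons (P.lf 54844546 0 0) (P.cons (P.lf 395277 0 0) (P.cons (P.lf 0 238943 0) (P.cons (P.lf 40537 0 0) (P.cons (P.lf 0 9311 0) P.nil))))) (P.cons (P.cons (P.lf 0 20204668 0) (P.cons (P.lf 142864 0 0) (P.cons (P.lf 0 72222 0) (P.cons (P.lf 1302 0 0) P.nil)))) (P.cons (P.cons (P.lf 2997663 0 0) (P.cons (P.lf 0 94275 0) (P.cons (P.lf 46605 0 0) P.nil))) (P.cons (P.cons (P.lf 64205 0 0) (P.cons (P.lf 0 5888 0) P.nil)) (P.cons (P.cons (P.lf 0 98258 0) P.nil) P.nil)))))) 103169)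
 (EL.cons 8 (TM.mk (P.cons (P.cons (P.lf 0 46146901 0) (P.cons (P.lf 0 3203332 0) (P.cons (P.lf 1456578 0 0) (P.cons (P.lf 124491 0 0) (P.cons (P.lf 0 9888 0) (P.cons (P.lf 0 1179 0) P.nil)))))) (P.cons (P.cons (P.lf 19822072 0 0) (P.cons (P.lf 0 467829 0) (P.cons (P.lf 180728 0 0) (P.cons (P.lf 48390 0 0) (P.cons (P.lf 0 7135 0) P.nil))))) (P.cons (P.cons (P.lf 0 5785943 0) (P.cons (P.lf 41287 0 0) (P.cons (P.lf 0 29504 0) (P.cons (P.lf 8526 0 0) P.nil)))) (P.cons (P.cons (P.lf 0 117438 0) (P.cons (P.lf 0 40721 0) (P.cons (P.lf 18888 0 0) P.nil))) (P.cons (P.cons (P.lf 185609 0 0) (P.cons (P.lf 0 12944 0) P.nil)) (P.cons (P.cons (P.lf 0 32245 0) P.nil) P.nil)))))) 59003)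
 EL.nil))
noncomputable def S140_169_734_808_18 : EL := (EL.cons 4 (TM.mk (P.cons (P.lf 1172091282 0 0) (P.cons (P.lf 0 337332345 0) (P.cons (P.lf 4748184 0 0) (P.cons (P.lf 4098243 0 0) (P.cons (P.lf 79189 0 0) (P.cons (P.lf 0 31469 0) P.nil)))))) 3321)
 (EL.cons 8 (TM.mk (P.cons (P.lf 633417514 0 0) (P.cons (P.lf 0 47553107 0) (P.cons (P.lf 0 20126446 0) (P.cons (P.lf 428689 0 0) (P.cons (P.lf 245981 0 0) (P.cons (P.lf 10070 0 0) P.nil)))))) 1843)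
 EL.nil))
noncomputable def S140_169_734_808_19 : EL := (EL.cons 4 (TM.mk (P.cons (P.cons (P.lf 0 257548717 0) (P.cons (P.lf 0 8938999 0) (P.cons (P.lf 4219755 0 0) (P.lf 200939 0 0)))) (P.cons (P.cons (P.lf 132123938 0 0) (P.cons (P.lf 0 559420 0) (P.cons (P.lf 264080 0 0) (P.lf 12573 0 0)))) (P.cons (P.cons (P.lf 0 31383706 0) (P.cons (P.lf 576158 0 0) (P.cons (P.lf 0 271982 0) (P.lf 0 12951 0)))) (P.cons (P.cons (P.lf 1396897 0 0) (P.cons (P.lf 57034 0 0) (P.cons (P.lf 0 26922 0) P.nil))) (P.cons (P.cons (P.lf 739256 0 0) (P.cons (P.lf 0 13320 0) P.nil)) (P.cons (P.cons (P.lf 0 43908 0) P.nil) P.nil)))))) 40728)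
 (EL.cons 8 (TM.mk (P.cons (P.cons (P.lf 0 139183586 0) (P.cons (P.lf 0 4830783 0) (P.cons (P.lf 2280425 0 0) (P.lf 108591 0 0)))) (P.cons (P.cons (P.lf 41793445 0 0) (P.cons (P.lf 0 1329972 0) (P.cons (P.lf 627828 0 0) (P.lf 29895 0 0)))) (P.cons (P.cons (P.lf 0 5306073 0) (P.cons (P.lf 124355 0 0) (P.cons (P.lf 0 58703 0) (P.lf 0 2795 0)))) (P.cons (P.cons (P.lf 0 1544526 0) (P.cons (P.lf 71852 0 0) (P.cons (P.lf 0 33918 0) P.nil))) (P.cons (P.cons (P.lf 316254 0 0) (P.cons (P.lf 3665 0 0) P.nil)) (P.cons (P.cons (P.lf 45596 0 0) P.nil) P.nil)))))) 22117)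
 EL.nil))
noncomputable def S140_169_734_808_20 : EL := (EL.cons 4 (TM.mk (P.cons (P.cons (P.lf 56592300 0 0) (P.cons (P.lf 3928410 0 0) (P.cons (P.lf 0 1786275 0) (P.cons (P.lf 0 152670 0) (P.cons (P.lf 12126 0 0) (P.cons (P.lf 1446 0 0) P.nil)))))) (P.cons (P.cons (P.lf 0 41776855 0) (P.cons (P.lf 0 638836 0) (P.cons (P.lf 329723 0 0) (P.cons (P.lf 0 12219 0) (P.cons (P.lf 5007 0 0) P.nil))))) (P.cons (P.cons (P.lf 16433025 0 0) (P.cons (P.lf 0 100400 0) (P.cons (P.lf 46700 0 0) (P.cons (P.lf 2912 0 0) P.nil)))) (P.cons (P.cons (P.lf 0 2988495 0) (P.cons (P.lf 73436 0 0) (P.cons (P.lf 0 36639 0) P.nil))) (P.cons (P.cons (P.lf 45953 0 0) (P.cons (P.lf 0 1240 0) P.nil)) (P.cons (P.cons (P.lf 83370 0 0) P.nil) P.nil)))))) 84534)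
 (EL.cons 8 (TM.mk (P.cons (P.cons (P.lf 30583415 0 0) (P.cons (P.lf 2122977 0 0) (P.cons (P.lf 0 965333 0) (P.cons (P.lf 0 82505 0) (P.cons (P.lf 6553 0 0) (P.cons (P.lf 781 0 0) P.nil)))))) (P.cons (P.cons (P.lf 0 16070895 0) (P.cons (P.lf 106383 0 0) (P.cons (P.lf 0 27167 0) (P.cons (P.lf 0 24155 0) (P.cons (P.lf 4100 0 0) P.nil))))) (P.cons (P.cons (P.lf 4854686 0 0) (P.cons (P.lf 0 73779 0) (P.cons (P.lf 38624 0 0) (P.cons (P.lf 0 1925 0) P.nil)))) (P.cons (P.cons (P.lf 0 188308 0) (P.cons (P.lf 27078 0 0) (P.cons (P.lf 0 13408 0) P.nil))) (P.cons (P.cons (P.lf 0 159236 0) (P.cons (P.lf 6241 0 0) P.nil)) (P.cons (P.cons (P.lf 32102 0 0) P.nil) P.nil)))))) 49666)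
 EL.nil))
noncomputable def S140_169_734_808_21 : EL := (EL.cons 4 (TM.mk (P.cons (P.cons (P.lf 0 1130625789 0) (P.cons (P.lf 61055289 0 0) (P.cons (P.lf 0 28821831 0) (P.lf 0 1372458 0)))) (P.cons (P.cons (P.lf 453077145 0 0) (P.cons (P.lf 15535596 0 0) (P.cons (P.lf 0 7333749 0) (P.lf 0 349215 0)))) (P.cons (P.cons (P.lf 151908120 0 0) (P.cons (P.lf 0 557460 0) (P.cons (P.lf 263160 0 0) (P.lf 12531 0 0)))) (P.cons (P.cons (P.lf 0 669456 0) (P.cons (P.lf 0 481758 0) (P.cons (P.lf 227412 0 0) P.nil))) (P.cons (P.cons (P.lf 0 3017925 0) (P.cons (P.lf 0 34284 0) P.nil)) (P.cons (P.cons (P.lf 0 203121 0) P.nil) P.nil)))))) 102129)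
 (EL.cons 8 (TM.mk (P.cons (P.cons (P.lf 743871159 0 0) (P.cons (P.lf 0 40170036 0) (P.cons (P.lf 18962715 0 0) (P.lf 902991 0 0)))) (P.cons (P.cons (P.lf 0 456336129 0) (P.cons (P.lf 0 1675956 0) (P.cons (P.lf 791154 0 0) (P.lf 37677 0 0)))) (P.cons (P.cons (P.lf 0 21762000 0) (P.cons (P.lf 1743573 0 0) (P.cons (P.lf 0 823071 0) (P.lf 0 39189 0)))) (P.cons (P.cons (P.lf 13961313 0 0) (P.cons (P.lf 134376 0 0) (P.cons (P.lf 0 63435 0) P.nil))) (P.cons (P.cons (P.lf 838527 0 0) (P.cons (P.lf 0 23406 0) P.nil)) (P.cons (P.cons (P.lf 0 138912 0) P.nil) P.nil)))))) 67578)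
 (EL.cons 11 (TM.mk (P.cons (P.cons (P.lf 294303381 0 0) (P.cons (P.lf 0 290195544 0) (P.cons (P.lf 0 9080499 0) (P.cons (P.lf 1663962 0 0) (P.lf 59427 0 0))))) (P.cons (P.cons (P.lf 68746524 0 0) (P.cons (P.lf 0 67786971 0) (P.cons (P.lf 0 2121117 0) (P.cons (P.lf 388686 0 0) (P.lf 13881 0 0))))) (P.cons (P.cons (P.lf 2329932 0 0) (P.cons (P.lf 0 2297409 0) (P.cons (P.lf 0 71886 0) (P.cons (P.lf 13173 0 0) P.nil)))) (P.cons (P.cons (P.lf 0 506226 0) (P.cons (P.lf 499161 0 0) (P.cons (P.lf 15618 0 0) P.nil))) (P.cons (P.cons (P.lf 0 42606 0) (P.cons (P.lf 42012 0 0) P.nil)) (P.cons (P.cons (P.lf 468 0 0) P.nil) P.nil)))))) 6171)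
 EL.nil)))
noncomputable def S140_169_734_808_22 : EL := (EL.cons 4 (TM.mk (P.cons (P.cons (P.lf 248437323 0 0) (P.cons (P.lf 0 4793181 0) (P.cons (P.lf 1797033 0 0) (P.cons (P.lf 547365 0 0) (P.cons (P.lf 0 82827 0) (P.cons (P.lf 0 9882 0) P.nil)))))) (P.cons (P.cons (P.lf 0 155505144 0) (P.cons (P.lf 0 826524 0) (P.cons (P.lf 108531 0 0) (P.cons (P.lf 284475 0 0) (P.cons (P.lf 0 50097 0) P.nil))))) (P.cons (P.cons (P.lf 2205699 0 0) (P.cons (P.lf 0 1910079 0) (P.cons (P.lf 849351 0 0) (P.cons (P.lf 92334 0 0) P.nil)))) (P.cons (P.cons (P.lf 4188045 0 0) (P.cons (P.lf 0 729510 0) (P.cons (P.lf 346632 0 0) P.nil))) (P.cons (P.cons (P.lf 0 1929570 0) (P.cons (P.lf 0 40920 0) P.nil)) (P.cons (P.cons (P.lf 0 331314 0) P.nil) P.nil)))))) 275715)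
 (EL.cons 8 (TM.mk (P.cons (P.cons (P.lf 0 163454046 0) (P.cons (P.lf 3153573 0 0) (P.cons (P.lf 0 1182321 0) (P.cons (P.lf 0 360129 0) (P.cons (P.lf 54495 0 0) (P.cons (P.lf 6501 0 0) P.nil)))))) (P.cons (P.cons (P.lf 137082867 0 0) (P.cons (P.lf 0 127062 0) (P.cons (P.lf 180105 0 0) (P.cons (P.lf 0 110556 0) (P.cons (P.lf 21366 0 0) P.nil))))) (P.cons (P.cons (P.lf 0 26461239 0) (P.cons (P.lf 1203627 0 0) (P.cons (P.lf 0 567099 0) (P.cons (P.lf 0 28083 0) P.nil)))) (P.cons (P.cons (P.lf 0 15033 0) (P.cons (P.lf 215703 0 0) (P.cons (P.lf 0 107703 0) P.nil))) (P.cons (P.cons (P.lf 1532139 0 0) (P.cons (P.lf 0 50706 0) P.nil)) (P.cons (P.cons (P.lf 0 70512 0) P.nil) P.nil)))))) 178557)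
 (EL.cons 11 (TM.mk (P.cons (P.cons (P.lf 0 64668561 0) (P.cons (P.lf 61521411 0 0) (P.cons (P.lf 5268033 0 0) (P.cons (P.lf 0 1290681 0) (P.cons (P.lf 0 108189 0) (P.cons (P.lf 3978 0 0) P.nil)))))) (P.cons (P.cons (P.lf 0 542496 0) (P.cons (P.lf 0 775818 0) (P.cons (P.lf 1927938 0 0) (P.cons (P.lf 0 543276 0) (P.cons (P.lf 0 55662 0) P.nil))))) (P.cons (P.cons (P.lf 0 536889 0) (P.cons (P.lf 255339 0 0) (P.cons (P.lf 416166 0 0) (P.cons (P.lf 0 115983 0) P.nil)))) (P.cons (P.cons (P.lf 0 1042323 0) (P.cons (P.lf 1012920 0 0) (P.cons (P.lf 53817 0 0) P.nil))) (P.cons (P.cons (P.lf 0 134076 0) (P.cons (P.lf 135486 0 0) P.nil)) (P.cons (P.cons (P.lf 9570 0 0) P.nil) P.nil)))))) 93972)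
 EL.nil)))
noncomputable def S140_169_734_808_23 : EL := (EL.cons 4 (TM.mk (P.cons (P.cons (P.lf 749311365 0 0) (P.cons (P.lf 0 40463805 0) (P.cons (P.lf 19101390 0 0) (P.lf 909582 0 0)))) (P.cons (P.cons (P.lf 0 372157410 0) (P.cons (P.lf 0 6414186 0) (P.cons (P.lf 3027885 0 0) (P.lf 144177 0 0)))) (P.cons (P.cons (P.lf 0 77753538 0) (P.cons (P.lf 1674966 0 0) (P.cons (P.lf 0 790689 0) (P.lf 0 37650 0)))) (P.cons (P.cons (P.lf 12424842 0 0) (P.cons (P.lf 366591 0 0) (P.cons (P.lf 0 173049 0) P.nil))) (P.cons (P.cons (P.lf 2780322 0 0) (P.cons (P.lf 0 11301 0) P.nil)) (P.cons (P.cons (P.lf 0 62295 0) P.nil) P.nil)))))) 133617)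
 (EL.cons 8 (TM.mk (P.cons (P.cons (P.lf 0 492993453 0) (P.cons (P.lf 26622303 0 0) (P.cons (P.lf 0 12567354 0) (P.lf 0 598446 0)))) (P.cons (P.cons (P.lf 349727511 0 0) (P.cons (P.lf 0 1443276 0) (P.cons (P.lf 681312 0 0) (P.lf 32439 0 0)))) (P.cons (P.cons (P.lf 0 10719645 0) (P.cons (P.lf 0 1471158 0) (P.cons (P.lf 694476 0 0) (P.lf 33066 0 0)))) (P.cons (P.cons (P.lf 0 12988233 0) (P.cons (P.lf 11826 0 0) (P.cons (P.lf 0 5580 0) P.nil))) (P.cons (P.cons (P.lf 192579 0 0) (P.cons (P.lf 33720 0 0) P.nil)) (P.cons (P.cons (P.lf 224019 0 0) P.nil) P.nil)))))) 79455)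
 (EL.cons 11 (TM.mk (P.cons (P.cons (P.lf 0 195046734 0) (P.cons (P.lf 192324303 0 0) (P.cons (P.lf 6018012 0 0) (P.cons (P.lf 0 1102773 0) (P.lf 0 39384 0))))) (P.cons (P.cons (P.lf 0 26849364 0) (P.cons (P.lf 26474604 0 0) (P.cons (P.lf 828414 0 0) (P.cons (P.lf 0 151803 0) (P.lf 0 5421 0))))) (P.cons (P.cons (P.lf 4358466 0 0) (P.cons (P.lf 0 4297632 0) (P.cons (P.lf 0 134478 0) (P.cons (P.lf 24642 0 0) P.nil)))) (P.cons (P.cons (P.lf 850584 0 0) (P.cons (P.lf 0 838713 0) (P.cons (P.lf 0 26241 0) P.nil))) (P.cons (P.cons (P.lf 5610 0 0) (P.cons (P.lf 0 5532 0) P.nil)) (P.cons (P.cons (P.lf 0 6930 0) P.nil) P.nil)))))) 18039)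
 EL.nil)))
noncomputable def S140_169_734_808_24 : EL := (EL.cons 4 (TM.mk (P.cons (P.cons (P.lf 0 164649447 0) (P.cons (P.lf 3176634 0 0) (P.cons (P.lf 0 1190967 0) (P.cons (P.lf 0 362760 0) (P.cons (P.lf 54894 0 0) (P.cons (P.lf 6549 0 0) P.nil)))))) (P.cons (P.cons (P.lf 118855116 0 0) (P.cons (P.lf 243021 0 0) (P.cons (P.lf 42324 0 0) (P.cons (P.lf 0 153732 0) (P.cons (P.lf 27936 0 0) P.nil))))) (P.cons (P.cons (P.lf 0 10055772 0) (P.cons (P.lf 1188387 0 0) (P.cons (P.lf 0 546645 0) (P.cons (P.lf 0 40257 0) P.nil)))) (P.cons (P.cons (P.lf 0 3436956 0) (P.cons (P.lf 357582 0 0) (P.cons (P.lf 0 175104 0) P.nil))) (P.cons (P.cons (P.lf 1547748 0 0) (P.cons (P.lf 0 29151 0) P.nil)) (P.cons (P.cons (P.lf 121032 0 0) P.nil) P.nil)))))) 232044)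
 (EL.cons 8 (TM.mk (P.cons (P.cons (P.lf 108327597 0 0) (P.cons (P.lf 0 2090001 0) (P.cons (P.lf 783570 0 0) (P.cons (P.lf 238671 0 0) (P.cons (P.lf 0 36114 0) (P.cons (P.lf 0 4308 0) P.nil)))))) (P.cons (P.cons (P.lf 0 101242716 0) (P.cons (P.lf 284712 0 0) (P.cons (P.lf 0 194535 0) (P.cons (P.lf 50373 0 0) (P.cons (P.lf 0 10695 0) P.nil))))) (P.cons (P.cons (P.lf 25401918 0 0) (P.cons (P.lf 0 789357 0) (P.cons (P.lf 381135 0 0) (P.cons (P.lf 9708 0 0) P.nil)))) (P.cons (P.cons (P.lf 0 964062 0) (P.cons (P.lf 0 66990 0) (P.cons (P.lf 36222 0 0) P.nil))) (P.cons (P.cons (P.lf 0 1147206 0) (P.cons (P.lf 53529 0 0) P.nil)) (P.cons (P.cons (P.lf 141189 0 0) P.nil) P.nil)))))) 132930)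
 (EL.cons 11 (TM.mk (P.cons (P.cons (P.lf 42858465 0 0) (P.cons (P.lf 0 40772724 0) (P.cons (P.lf 0 3491337 0) (P.cons (P.lf 855387 0 0) (P.cons (P.lf 71700 0 0) (P.cons (P.lf 0 2637 0) P.nil)))))) (P.cons (P.cons (P.lf 0 3752076 0) (P.cons (P.lf 4425681 0 0) (P.cons (P.lf 0 942780 0) (P.cons (P.lf 277989 0 0) (P.cons (P.lf 30012 0 0) P.nil))))) (P.cons (P.cons (P.lf 0 15243 0) (P.cons (P.lf 101640 0 0) (P.cons (P.lf 0 125814 0) (P.cons (P.lf 35607 0 0) P.nil)))) (P.cons (P.cons (P.lf 651816 0 0) (P.cons (P.lf 0 657192 0) (P.cons (P.lf 990 0 0) P.nil))) (P.cons (P.cons (P.lf 20808 0 0) (P.cons (P.lf 0 25071 0) P.nil)) (P.cons (P.cons (P.lf 0 20244 0) P.nil) P.nil)))))) 80334)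
 EL.nil)))
noncomputable def S140_169_734_808_25 : EL := (EL.cons 4 (TM.mk (P.cons (P.cons (P.lf 0 496598898 0) (P.cons (P.lf 26816997 0 0) (P.cons (P.lf 0 12659262 0) (P.lf 0 602817 0)))) (P.cons (P.cons (P.lf 294284760 0 0) (P.cons (P.lf 1678263 0 0) (P.cons (P.lf 0 792240 0) (P.lf 0 37719 0)))) (P.cons (P.cons (P.lf 31768581 0 0) (P.cons (P.lf 0 1728477 0) (P.cons (P.lf 815946 0 0) (P.lf 38853 0 0)))) (P.cons (P.cons (P.lf 0 15091596 0) (P.cons (P.lf 0 171102 0) (P.cons (P.lf 80766 0 0) P.nil))) (P.cons (P.cons (P.lf 0 1480893 0) (P.cons (P.lf 39963 0 0) P.nil)) (P.cons (P.cons (P.lf 285612 0 0) P.nil) P.nil)))))) 128439)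
 (EL.cons 8 (TM.mk (P.cons (P.cons (P.lf 326726667 0 0) (P.cons (P.lf 0 17643675 0) (P.cons (P.lf 8328894 0 0) (P.lf 396615 0 0)))) (P.cons (P.cons (P.lf 0 263122938 0) (P.cons (P.lf 2649156 0 0) (P.cons (P.lf 0 1250562 0) (P.lf 0 59547 0)))) (P.cons (P.cons (P.lf 26774106 0 0) (P.cons (P.lf 1021791 0 0) (P.cons (P.lf 0 482346 0) (P.lf 0 22965 0)))) (P.cons (P.cons (P.lf 9731115 0 0) (P.cons (P.lf 0 108057 0) (P.cons (P.lf 51006 0 0) P.nil))) (P.cons (P.cons (P.lf 0 990447 0) (P.cons (P.lf 0 29721 0) P.nil)) (P.cons (P.cons (P.lf 0 209322 0) P.nil) P.nil)))))) 80196)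
 (EL.cons 11 (TM.mk (P.cons (P.cons (P.lf 129265347 0 0) (P.cons (P.lf 0 127461081 0) (P.cons (P.lf 0 3988380 0) (P.cons (P.lf 730851 0 0) (P.lf 26100 0 0))))) (P.cons (P.cons (P.lf 5393136 0 0) (P.cons (P.lf 0 5317860 0) (P.cons (P.lf 0 166398 0) (P.cons (P.lf 30492 0 0) (P.lf 1086 0 0))))) (P.cons (P.cons (P.lf 0 5610741 0) (P.cons (P.lf 5532429 0 0) (P.cons (P.lf 173115 0 0) (P.cons (P.lf 0 31722 0) P.nil)))) (P.cons (P.cons (P.lf 0 432414 0) (P.cons (P.lf 426378 0 0) (P.cons (P.lf 13341 0 0) P.nil))) (P.cons (P.cons (P.lf 75324 0 0) (P.cons (P.lf 0 74274 0) P.nil)) (P.cons (P.cons (P.lf 10107 0 0) P.nil) P.nil)))))) 23676)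
 EL.nil)))
noncomputable def S140_169_734_808_26 : EL := (EL.cons 4 (TM.mk (P.cons (P.cons (P.lf 109119837 0 0) (P.cons (P.lf 0 2105283 0) (P.cons (P.lf 789300 0 0) (P.cons (P.lf 240417 0 0) (P.cons (P.lf 0 36378 0) (P.cons (P.lf 0 4338 0) P.nil)))))) (P.cons (P.cons (P.lf 0 89238453 0) (P.cons (P.lf 40908 0 0) (P.cons (P.lf 0 103770 0) (P.cons (P.lf 78819 0 0) (P.cons (P.lf 0 15024 0) P.nil))))) (P.cons (P.cons (P.lf 13364214 0 0) (P.cons (P.lf 0 755607 0) (P.cons (P.lf 358776 0 0) (P.cons (P.lf 15015 0 0) P.nil)))) (P.cons (P.cons (P.lf 2251932 0 0) (P.cons (P.lf 0 160062 0) (P.cons (P.lf 81477 0 0) P.nil))) (P.cons (P.cons (P.lf 0 1290282 0) (P.cons (P.lf 48195 0 0) P.nil)) (P.cons (P.cons (P.lf 0 1767 0) P.nil) P.nil)))))) 194262)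
 (EL.cons 8 (TM.mk (P.cons (P.cons (P.lf 0 71793072 0) (P.cons (P.lf 1385127 0 0) (P.cons (P.lf 0 519303 0) (P.cons (P.lf 0 158178 0) (P.cons (P.lf 23934 0 0) (P.cons (P.lf 2853 0 0) P.nil)))))) (P.cons (P.cons (P.lf 73985076 0 0) (P.cons (P.lf 0 321570 0) (P.cons (P.lf 178743 0 0) (P.cons (P.lf 0 18210 0) (P.cons (P.lf 4791 0 0) P.nil))))) (P.cons (P.cons (P.lf 0 22708062 0) (P.cons (P.lf 530364 0 0) (P.cons (P.lf 0 260883 0) (P.cons (P.lf 0 1989 0) P.nil)))) (P.cons (P.cons (P.lf 1730415 0 0) (P.cons (P.lf 0 4371 0) (P.cons (P.lf 0 762 0) P.nil))) (P.cons (P.cons (P.lf 826329 0 0) (P.cons (P.lf 0 43800 0) P.nil)) (P.cons (P.cons (P.lf 0 169212 0) P.nil) P.nil)))))) 98355)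
 (EL.cons 11 (TM.mk (P.cons (P.cons (P.lf 0 28404036 0) (P.cons (P.lf 27021729 0 0) (P.cons (P.lf 2313849 0 0) (P.cons (P.lf 0 566898 0) (P.cons (P.lf 0 47517 0) (P.cons (P.lf 1746 0 0) P.nil)))))) (P.cons (P.cons (P.lf 5211582 0 0) (P.cons (P.lf 0 5525397 0) (P.cons (P.lf 402840 0 0) (P.cons (P.lf 0 129849 0) (P.cons (P.lf 0 15330 0) P.nil))))) (P.cons (P.cons (P.lf 0 5391 0) (P.cons (P.lf 1815 0 0) (P.cons (P.lf 5268 0 0) (P.cons (P.lf 0 1473 0) P.nil)))) (P.cons (P.cons (P.lf 0 451149 0) (P.cons (P.lf 463773 0 0) (P.cons (P.lf 0 13668 0) P.nil))) (P.cons (P.cons (P.lf 26769 0 0) (P.cons (P.lf 0 23850 0) P.nil)) (P.cons (P.cons (P.lf 18156 0 0) P.nil) P.nil)))))) 65481)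
 EL.nil)))
noncomputable def S140_169_734_808_27 : EL := (EL.cons 13 (TM.mk (P.lf 0 4294967296 0) 0)
 EL.nil)
noncomputable def S140_169_734_808_28 : EL := (EL.cons 13 (TM.mk (P.cons (P.cons (P.lf 943751855 0 0) (P.cons (P.lf 32755736 0 0) (P.cons (P.lf 0 15462712 0) (P.lf 0 736316 0)))) (P.cons (P.cons (P.lf 0 212534617 0) (P.cons (P.lf 11477148 0 0) (P.cons (P.lf 0 5417916 0) (P.lf 0 257992 0)))) (P.cons (P.cons (P.lf 50009831 0 0) (P.cons (P.lf 1059216 0 0) (P.cons (P.lf 0 500012 0) (P.lf 0 23808 0)))) (P.cons (P.cons (P.lf 6835416 0 0) (P.cons (P.lf 0 65176 0) (P.cons (P.lf 30764 0 0) P.nil))) (P.cons (P.cons (P.lf 0 264869 0) (P.cons (P.lf 0 16580 0) P.nil)) (P.cons (P.cons (P.lf 0 78183 0) P.nil) P.nil)))))) 22195)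
 EL.nil)
noncomputable def S140_169_734_808_29 : EL := (EL.cons 13 (TM.mk (P.cons (P.cons (P.lf 0 207374702 0) (P.cons (P.lf 0 14395120 0) (P.cons (P.lf 6545565 0 0) (P.cons (P.lf 559441 0 0) (P.cons (P.lf 0 44437 0) (P.cons (P.lf 0 5301 0) P.nil)))))) (P.cons (P.cons (P.lf 93402312 0 0) (P.cons (P.lf 0 1802040 0) (P.cons (P.lf 675611 0 0) (P.cons (P.lf 205786 0 0) (P.cons (P.lf 0 31140 0) P.nil))))) (P.cons (P.cons (P.lf 0 32494940 0) (P.cons (P.lf 0 92412 0) (P.cons (P.lf 0 3202 0) (P.cons (P.lf 46286 0 0) P.nil)))) (P.cons (P.cons (P.lf 1945478 0 0) (P.cons (P.lf 0 238064 0) (P.cons (P.lf 107715 0 0) P.nil))) (P.cons (P.cons (P.lf 210591 0 0) (P.cons (P.lf 0 56322 0) P.nil)) (P.cons (P.cons (P.lf 0 151035 0) P.nil) P.nil)))))) 129065)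
 EL.nil)
noncomputable def S140_169_734_808_30 : EL := (EL.cons 13 (TM.mk (P.cons (P.lf 2846448260 0 0) (P.cons (P.lf 0 273072892 0) (P.cons (P.lf 0 22353452 0) (P.cons (P.lf 0 133644 0) (P.cons (P.lf 68648 0 0) (P.cons (P.lf 3668 0 0) P.nil)))))) 396)
 EL.nil)
noncomputable def S140_169_734_808_31 : EL := (EL.cons 13 (TM.mk (P.cons (P.cons (P.lf 0 625462463 0) (P.cons (P.lf 0 21708548 0) (P.cons (P.lf 10247763 0 0) (P.lf 487986 0 0)))) (P.cons (P.cons (P.lf 200858767 0 0) (P.cons (P.lf 0 5523768 0) (P.cons (P.lf 2607556 0 0) (P.lf 124166 0 0)))) (P.cons (P.cons (P.lf 0 41744608 0) (P.cons (P.lf 198208 0 0) (P.cons (P.lf 0 93568 0) (P.lf 0 4456 0)))) (P.cons (P.cons (P.lf 0 2427279 0) (P.cons (P.lf 171292 0 0) (P.cons (P.lf 0 80858 0) P.nil))) (P.cons (P.cons (P.lf 848715 0 0) (P.cons (P.lf 12190 0 0) P.nil)) (P.cons (P.cons (P.lf 74697 0 0) P.nil) P.nil)))))) 34547)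
 EL.nil)
noncomputable def S140_169_734_808_32 : EL := (EL.cons 13 (TM.mk (P.cons (P.cons (P.lf 137435588 0 0) (P.cons (P.lf 9540227 0 0) (P.cons (P.lf 0 4338010 0) (P.cons (P.lf 0 370764 0) (P.cons (P.lf 29450 0 0) (P.cons (P.lf 3513 0 0) P.nil)))))) (P.cons (P.cons (P.lf 0 75086312 0) (P.cons (P.lf 279046 0 0) (P.cons (P.lf 0 31589 0) (P.cons (P.lf 0 100813 0) (P.cons (P.lf 17812 0 0) P.nil))))) (P.cons (P.cons (P.lf 26394907 0 0) (P.cons (P.lf 0 128248 0) (P.cons (P.lf 79144 0 0) (P.cons (P.lf 0 14680 0) P.nil)))) (P.cons (P.cons (P.lf 0 2875700 0) (P.cons (P.lf 142072 0 0) (P.cons (P.lf 0 67870 0) P.nil))) (P.cons (P.cons (P.lf 0 178775 0) (P.cons (P.lf 21883 0 0) P.nil)) (P.cons (P.cons (P.lf 121284 0 0) P.nil) P.nil)))))) 126481)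
 EL.nil)
noncomputable def S140_169_734_808_33 : EL := (EL.cons 14 (TM.mk (P.lf 8589934592 0 0) 0)
 EL.nil)
noncomputable def S140_169_734_808_34 : EL := (EL.cons 14 (TM.mk (P.cons (P.cons (P.lf 0 1887503710 0) (P.cons (P.lf 0 65511472 0) (P.cons (P.lf 30925424 0 0) (P.lf 1472632 0 0)))) (P.cons (P.cons (P.lf 425069234 0 0) (P.cons (P.lf 0 22954296 0) (P.cons (P.lf 10835832 0 0) (P.lf 515984 0 0)))) (P.cons (P.cons (P.lf 0 100019662 0) (P.cons (P.lf 0 2118432 0) (P.cons (P.lf 1000024 0 0) (P.lf 47616 0 0)))) (P.cons (P.cons (P.lf 0 13670832 0) (P.cons (P.lf 130352 0 0) (P.cons (P.lf 0 61528 0) P.nil))) (P.cons (P.cons (P.lf 529738 0 0) (P.cons (P.lf 33160 0 0) P.nil)) (P.cons (P.cons (P.lf 156366 0 0) P.nil) P.nil)))))) 44390)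
 EL.nil)
noncomputable def S140_169_734_808_35 : EL := (EL.cons 14 (TM.mk (P.cons (P.cons (P.lf 414749404 0 0) (P.cons (P.lf 28790240 0 0) (P.cons (P.lf 0 13091130 0) (P.cons (P.lf 0 1118882 0) (P.cons (P.lf 88874 0 0) (P.cons (P.lf 10602 0 0) P.nil)))))) (P.cons (P.cons (P.lf 0 186804624 0) (P.cons (P.lf 3604080 0 0) (P.cons (P.lf 0 1351222 0) (P.cons (P.lf 0 411572 0) (P.cons (P.lf 62280 0 0) P.nil))))) (P.cons (P.cons (P.lf 64989880 0 0) (P.cons (P.lf 184824 0 0) (P.cons (P.lf 6404 0 0) (P.cons (P.lf 0 92572 0) P.nil)))) (P.cons (P.cons (P.lf 0 3890956 0) (P.cons (P.lf 476128 0 0) (P.cons (P.lf 0 215430 0) P.nil))) (P.cons (P.cons (P.lf 0 421182 0) (P.cons (P.lf 112644 0 0) P.nil)) (P.cons (P.cons (P.lf 302070 0 0) P.nil) P.nil)))))) 258130)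
 EL.nil)
noncomputable def S140_169_734_808_36 : EL := (EL.cons 14 (TM.mk (P.cons (P.lf 0 5692896520 0) (P.cons (P.lf 546145784 0 0) (P.cons (P.lf 44706904 0 0) (P.cons (P.lf 267288 0 0) (P.cons (P.lf 0 137296 0) (P.cons (P.lf 0 7336 0) P.nil)))))) 792)
 EL.nil)
noncomputable def S140_169_734_808_37 : EL := (EL.cons 14 (TM.mk (P.cons (P.cons (P.lf 1250924926 0 0) (P.cons (P.lf 43417096 0 0) (P.cons (P.lf 0 20495526 0) (P.lf 0 975972 0)))) (P.cons (P.cons (P.lf 0 401717534 0) (P.cons (P.lf 11047536 0 0) (P.cons (P.lf 0 5215112 0) (P.lf 0 248332 0)))) (P.cons (P.cons (P.lf 83489216 0 0) (P.cons (P.lf 0 396416 0) (P.cons (P.lf 187136 0 0) (P.lf 8912 0 0)))) (P.cons (P.cons (P.lf 4854558 0 0) (P.cons (P.lf 0 342584 0) (P.cons (P.lf 161716 0 0) P.nil))) (P.cons (P.cons (P.lf 0 1697430 0) (P.cons (P.lf 0 24380 0) P.nil)) (P.cons (P.cons (P.lf 0 149394 0) P.nil) P.nil))))))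 69094)
 EL.nil)
noncomputable def S140_169_734_808_38 : EL := (EL.cons 14 (TM.mk (P.cons (P.cons (P.lf 0 274871176 0) (P.cons (P.lf 0 19080454 0) (P.cons (P.lf 8676020 0 0) (P.cons (P.lf 741528 0 0) (P.cons (P.lf 0 58900 0) (P.cons (P.lf 0 7026 0) P.nil)))))) (P.cons (P.cons (P.lf 150172624 0 0) (P.cons (P.lf 0 558092 0) (P.cons (P.lf 63178 0 0) (P.cons (P.lf 201626 0 0) (P.cons (P.lf 0 35624 0) P.nil))))) (P.cons (P.cons (P.lf 0 52789814 0) (P.cons (P.lf 256496 0 0) (P.cons (P.lf 0 158288 0) (P.cons (P.lf 29360 0 0) P.nil)))) (P.cons (P.cons (P.lf 5751400 0 0) (P.cons (P.lf 0 284144 0) (P.cons (P.lf 135740 0 0) P.nil))) (P.cons (P.cons (P.lf 357550 0 0) (P.cons (P.lf 0 43766 0) P.nil)) (P.cons (P.cons (P.lf 0 242568 0) P.nil) P.nil)))))) 252962)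
 EL.nil)
noncomputable def S140_169_734_808_39 : EL := (EL.cons 14 (TM.mk (P.cons (P.lf 3772912404 0 0) (P.cons (P.lf 0 723905728 0) (P.cons (P.lf 0 24534334 0) (P.cons (P.lf 5330620 0 0) (P.cons (P.lf 448650 0 0) (P.cons (P.lf 0 4952 0) P.nil)))))) 3630)
 EL.nil)
noncomputable def S140_169_734_808_40 : EL := (EL.cons 14 (TM.mk (P.cons (P.cons (P.lf 0 829038460 0) (P.cons (P.lf 0 28774262 0) (P.cons (P.lf 13583212 0 0) (P.lf 646816 0 0)))) (P.cons (P.cons (P.lf 345767910 0 0) (P.cons (P.lf 0 4561200 0) (P.cons (P.lf 2153164 0 0) (P.lf 102528 0 0)))) (P.cons (P.cons (P.lf 0 74362246 0) (P.cons (P.lf 1191088 0 0) (P.cons (P.lf 0 562268 0) (P.lf 0 26774 0)))) (P.cons (P.cons (P.lf 39068 0 0) (P.cons (P.lf 260688 0 0) (P.cons (P.lf 0 123058 0) P.nil))) (P.cons (P.cons (P.lf 1835638 0 0) (P.cons (P.lf 0 8036 0) P.nil)) (P.cons (P.cons (P.lf 24302 0 0) P.nil) P.nil))))))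 85750)
 EL.nil)
noncomputable def S140_169_734_808_41 : EL := (EL.cons 14 (TM.mk (P.cons (P.cons (P.lf 182168228 0 0) (P.cons (P.lf 12645386 0 0) (P.cons (P.lf 0 5749948 0) (P.cons (P.lf 0 491440 0) (P.cons (P.lf 39034 0 0) (P.cons (P.lf 4656 0 0) P.nil)))))) (P.cons (P.cons (P.lf 0 117001700 0) (P.cons (P.lf 0 843258 0) (P.cons (P.lf 509746 0 0) (P.cons (P.lf 0 86480 0) (P.cons (P.lf 19864 0 0) P.nil))))) (P.cons (P.cons (P.lf 43103292 0 0) (P.cons (P.lf 0 304778 0) (P.cons (P.lf 154074 0 0) (P.cons (P.lf 0 2778 0) P.nil)))) (P.cons (P.cons (P.lf 0 6395016 0) (P.cons (P.lf 201122 0 0) (P.cons (P.lf 0 99426 0) P.nil))) (P.cons (P.cons (P.lf 0 136972 0) (P.cons (P.lf 12562 0 0) P.nil)) (P.cons (P.cons (P.lf 209618 0 0) P.nil) P.nil)))))) 220048)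
 EL.nil)
noncomputable def S140_169_734_808_42 : EL := (EL.cons 14 (TM.mk (P.cons (P.lf 0 2500461402 0) (P.cons (P.lf 719642336 0 0) (P.cons (P.lf 0 10129460 0) (P.cons (P.lf 0 8742920 0) (P.cons (P.lf 0 168938 0) (P.cons (P.lf 67134 0 0) P.nil)))))) 7070)
 EL.nil)
noncomputable def S140_169_734_808_43 : EL := (EL.cons 14 (TM.mk (P.cons (P.cons (P.lf 549437264 0 0) (P.cons (P.lf 19069866 0 0) (P.cons (P.lf 0 9002144 0) (P.lf 0 428670 0)))) (P.cons (P.cons (P.lf 0 281864402 0) (P.cons (P.lf 1193430 0 0) (P.cons (P.lf 0 563372 0) (P.lf 0 26824 0)))) (P.cons (P.cons (P.lf 66951908 0 0) (P.cons (P.lf 0 1229138 0) (P.cons (P.lf 580230 0 0) (P.lf 27630 0 0)))) (P.cons (P.cons (P.lf 0 2980048 0) (P.cons (P.lf 0 121674 0) (P.cons (P.lf 57434 0 0) P.nil))) (P.cons (P.cons (P.lf 0 1577080 0) (P.cons (P.lf 28416 0 0) P.nil)) (P.cons (P.cons (P.lf 93672 0 0) P.nil) P.nil))))))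 86846)
 EL.nil)
noncomputable def S140_169_734_808_44 : EL := (EL.cons 14 (TM.mk (P.cons (P.cons (P.lf 0 120730240 0) (P.cons (P.lf 0 8380608 0) (P.cons (P.lf 3810722 0 0) (P.cons (P.lf 325696 0 0) (P.cons (P.lf 0 25870 0) (P.cons (P.lf 0 3086 0) P.nil)))))) (P.cons (P.cons (P.lf 89123958 0 0) (P.cons (P.lf 1362852 0 0) (P.cons (P.lf 0 703410 0) (P.cons (P.lf 26068 0 0) (P.cons (P.lf 0 10682 0) P.nil))))) (P.cons (P.cons (P.lf 0 35057122 0) (P.cons (P.lf 214188 0 0) (P.cons (P.lf 0 99628 0) (P.cons (P.lf 0 6214 0) P.nil)))) (P.cons (P.cons (P.lf 6375456 0 0) (P.cons (P.lf 0 156664 0) (P.cons (P.lf 78164 0 0) P.nil))) (P.cons (P.cons (P.lf 0 98034 0) (P.cons (P.lf 2646 0 0) P.nil)) (P.cons (P.cons (P.lf 0 177858 0) P.nil) P.nil)))))) 180294)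
 EL.nil)
noncomputable def S140_169_734_808_45 : EL := (EL.cons 14 (TM.mk (P.cons (P.cons (P.lf 0 91134690 0) (P.cons (P.lf 0 9489306 0) (P.cons (P.lf 4150178 0 0) (P.cons (P.lf 520450 0 0) (P.cons (P.lf 0 53190 0) (P.cons (P.lf 0 9278 0) P.nil)))))) (P.cons (P.cons (P.lf 61571088 0 0) (P.cons (P.lf 949098 0 0) (P.cons (P.lf 0 604664 0) (P.cons (P.lf 122536 0 0) (P.cons (P.lf 0 22188 0) P.nil))))) (P.cons (P.cons (P.lf 0 28353722 0) (P.cons (P.lf 0 296240 0) (P.cons (P.lf 112632 0 0) (P.cons (P.lf 30576 0 0) P.nil)))) (P.cons (P.cons (P.lf 5586020 0 0) (P.cons (P.lf 0 274890 0) (P.cons (P.lf 122900 0 0) P.nil))) (P.cons (P.cons (P.lf 0 533848 0) (P.cons (P.lf 0 10954 0) P.nil)) (P.cons (P.cons (P.lf 0 149312 0) P.nil) P.nil)))))) 227780)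
 EL.nil)
noncomputable def S140_169_734_808_46 : EL := (EL.cons 15 (TM.mk (P.lf 4294967296 0 0) 0)
 EL.nil)
noncomputable def S140_169_734_808_47 : EL := (EL.cons 15 (TM.mk (P.cons (P.cons (P.lf 0 943751855 0) (P.cons (P.lf 0 32755736 0) (P.cons (P.lf 15462712 0 0) (P.lf 736316 0 0)))) (P.cons (P.cons (P.lf 212534617 0 0) (P.cons (P.lf 0 11477148 0) (P.cons (P.lf 5417916 0 0) (P.lf 257992 0 0)))) (P.cons (P.cons (P.lf 0 50009831 0) (P.cons (P.lf 0 1059216 0) (P.cons (P.lf 500012 0 0) (P.lf 23808 0 0)))) (P.cons (P.cons (P.lf 0 6835416 0) (P.cons (P.lf 65176 0 0) (P.cons (P.lf 0 30764 0) P.nil))) (P.cons (P.cons (P.lf 264869 0 0) (P.cons (P.lf 16580 0 0) P.nil)) (P.cons (P.cons (P.lf 78183 0 0) P.nil) P.nil)))))) 22195)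
 EL.nil)
noncomputable def S140_169_734_808_48 : EL := (EL.cons 15 (TM.mk (P.cons (P.cons (P.lf 207374702 0 0) (P.cons (P.lf 14395120 0 0) (P.cons (P.lf 0 6545565 0) (P.cons (P.lf 0 559441 0) (P.cons (P.lf 44437 0 0) (P.cons (P.lf 5301 0 0) P.nil)))))) (P.cons (P.cons (P.lf 0 93402312 0) (P.cons (P.lf 1802040 0 0) (P.cons (P.lf 0 675611 0) (P.cons (P.lf 0 205786 0) (P.cons (P.lf 31140 0 0) P.nil))))) (P.cons (P.cons (P.lf 32494940 0 0) (P.cons (P.lf 92412 0 0) (P.cons (P.lf 3202 0 0) (P.cons (P.lf 0 46286 0) P.nil)))) (P.cons (P.cons (P.lf 0 1945478 0) (P.cons (P.lf 238064 0 0) (P.cons (P.lf 0 107715 0) P.nil))) (P.cons (P.cons (P.lf 0 210591 0) (P.cons (P.lf 56322 0 0) P.nil)) (P.cons (P.cons (P.lf 151035 0 0) P.nil) P.nil)))))) 129065)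
 EL.nil)
noncomputable def S140_169_734_808 : SL := (SL.cons S140_169_734_808_0 (SL.cons S140_169_734_808_1 (SL.cons S140_169_734_808_2 (SL.cons S140_169_734_808_3 (SL.cons S140_169_734_808_4 (SL.cons S140_169_734_808_5 (SL.cons S140_169_734_808_6 (SL.cons S140_169_734_808_7 (SL.cons S140_169_734_808_8 (SL.cons S140_169_734_808_9 (SL.cons S140_169_734_808_10 (SL.cons S140_169_734_808_11 (SL.cons S140_169_734_808_12 (SL.cons S140_169_734_808_13 (SL.cons S140_169_734_808_14 (SL.cons S140_169_734_808_15 (SL.cons S140_169_734_808_16 (SL.cons S140_169_734_808_17 (SL.cons S140_169_734_808_18 (SL.cons S140_169_734_808_19 (SL.cons S140_169_734_808_20 (SL.cons S140_169_734_808_21 (SL.cons S140_169_734_808_22 (SL.cons S140_169_734_808_23 (SL.cons S140_169_734_808_24 (SL.cons S140_169_734_808_25 (SL.cons S140_169_734_808_26 (SL.cons S140_169_734_808_27 (SL.cons S140_169_734_808_28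 (SL.cons S140_169_734_808_29 (SL.cons S140_169_734_808_30 (SL.cons S140_169_734_808_31 (SL.cons S140_169_734_808_32 (SL.cons S140_169_734_808_33 (SL.cons S140_169_734_808_34 (SL.cons S140_169_734_808_35 (SL.cons S140_169_734_808_36 (SL.cons S140_169_734_808_37 (SL.cons S140_169_734_808_38 (SL.cons S140_169_734_808_39 (SL.cons S140_169_734_808_40 (SL.cons S140_169_734_808_41 (SL.cons S140_169_734_808_42 (SL.cons S140_169_734_808_43 (SL.cons S140_169_734_808_44 (SL.cons S140_169_734_808_45 (SL.cons S140_169_734_808_46 (SL.cons S140_169_734_808_47 (SL.cons S140_169_734_808_48 SL.nil)))))))))))))))))))))))))))))))))))))))))))))))))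
theorem S140_169_512_660_ok : band (seq (shp 5 140 169 512 660) S140_169_512_660) (sok S140_169_512_660) = true := by decide +kernel

theorem S140_169_549_586_ok : band (seq (shp 5 140 169 549 586) S140_169_549_586) (sok S140_169_549_586) = true := by decide +kernel

theorem S140_169_586_660_ok : band (seq (shp 5 140 169 586 660) S140_169_586_660) (sok S140_169_586_660) = true := by decide +kernel

theorem S140_169_660_734_ok : band (seq (shp 5 140 169 660 734) S140_169_660_734) (sok S140_169_660_734) = true := by decide +kernel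

theorem S140_169_660_808_ok : band (seq (shp 5 140 169 660 808) S140_169_660_808) (sok S140_169_660_808) = true := by decide +kernel

theorem S140_169_734_808_ok : band (seq (shp 5 140 169 734 808) S140_169_734_808) (sok S140_169_734_808) = true := by decide +kernel

end Vale.Agent.P098.Ck
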