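import Vale.Agent.P098.CkDefs

namespace Vale.Agent.P098.Ck

noncomputable def S169_198_364_401_0 : EL := (EL.cons 0 (TM.mk (P.cons (P.lf 6454925654 0 0) (P.cons (P.lf 654467131 0 0) (P.cons (P.lf 0 15080835 0) (P.cons (P.lf 0 7271133 0) (P.cons (P.lf 0 199596 0) (P.cons (P.lf 35412 0 0) P.nil)))))) 3454)
 (EL.cons 1 (TM.mk (P.cons (P.lf 0 1695086628 0) (P.cons (P.lf 139901857 0 0) (P.cons (P.lf 47471786 0 0) (P.cons (P.lf 293435 0 0) (P.cons (P.lf 0 328029 0) (P.cons (P.lf 0 15684 0) P.nil)))))) 1940)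
 (EL.cons 5 (TM.mk (P.cons (P.lf 5006359730 0 0) (P.cons (P.lf 0 232699422 0) (P.cons (P.lf 5362070 0 0) (P.cons (P.lf 2585292 0 0) (P.cons (P.lf 70970 0 0) (P.cons (P.lf 0 12590 0) P.nil)))))) 1169)
 (EL.cons 9 (TM.mk (P.lf 6442450944 0 0) 2)
 EL.nil))))
noncomputable def S169_198_364_401_1 : EL := (EL.cons 0 (TM.mk (P.cons (P.cons (P.lf 0 611197314 0) (P.cons (P.lf 0 10839125 0) (P.cons (P.lf 0 367767 0) (P.lf 17521 0 0)))) (P.cons (P.cons (P.lf 2033806808 0 0) (P.cons (P.lf 0 65335333 0) (P.cons (P.lf 0 2216744 0) (P.lf 105553 0 0)))) (P.cons (P.cons (P.lf 78677749 0 0) (P.cons (P.lf 0 13840942 0) (P.cons (P.lf 0 469599 0) (P.lf 22349 0 0)))) (P.cons (P.cons (P.lf 0 76282418 0) (P.cons (P.lf 818660 0 0) (P.cons (P.lf 27779 0 0) P.nil))) (P.cons (P.cons (P.lf 0 5822546 0) (P.cons (P.lf 411739 0 0) P.nil)) (P.cons (P.cons (P.lf 1130776 0 0) P.nil) P.nil)))))) 306773)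
 (EL.cons 1 (TM.mk (P.cons (P.cons (P.lf 0 1128456246 0) (P.cons (P.lf 71330712 0 0) (P.cons (P.lf 2420160 0 0) (P.lf 0 115235 0)))) (P.cons (P.cons (P.lf 0 321340061 0) (P.cons (P.lf 26206125 0 0) (P.cons (P.lf 889136 0 0) (P.lf 0 42329 0)))) (P.cons (P.cons (P.lf 212967527 0 0) (P.cons (P.lf 0 3488133 0) (P.cons (P.lf 0 118345 0) (P.lf 5638 0 0)))) (P.cons (P.cons (P.lf 20223322 0 0) (P.cons (P.lf 0 1518141 0) (P.cons (P.lf 0 51495 0) P.nil))) (P.cons (P.cons (P.lf 0 5385134 0) (P.cons (P.lf 0 23191 0) P.nil)) (P.cons (P.cons (P.lf 0 617141 0) P.nil) P.nil)))))) 175890)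
 (EL.cons 5 (TM.mk (P.cons (P.cons (P.lf 2586614707 0 0) (P.cons (P.lf 0 171023714 0) (P.cons (P.lf 0 5802630 0) (P.lf 276308 0 0)))) (P.cons (P.cons (P.lf 76862586 0 0) (P.cons (P.lf 0 19274540 0) (P.cons (P.lf 0 653964 0) (P.lf 31142 0 0)))) (P.cons (P.cons (P.lf 0 145091868 0) (P.cons (P.lf 4178824 0 0) (P.cons (P.lf 141776 0 0) (P.lf 0 6746 0)))) (P.cons (P.cons (P.lf 12153436 0 0) (P.cons (P.lf 307006 0 0) (P.cons (P.lf 10418 0 0) P.nil))) (P.cons (P.cons (P.lf 2962447 0 0) (P.cons (P.lf 0 102126 0) P.nil)) (P.cons (P.cons (P.lf 0 223965 0) P.nil) P.nil)))))) 141216)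
 (EL.cons 9 (TM.mk (P.cons (P.cons (P.lf 2090558907 0 0) (P.cons (P.lf 0 154303788 0) (P.cons (P.lf 0 5235342 0) (P.lf 249294 0 0)))) (P.cons (P.cons (P.lf 705876958 0 0) (P.cons (P.lf 0 37504302 0) (P.cons (P.lf 0 1272474 0) (P.lf 60588 0 0)))) (P.cons (P.cons (P.lf 0 103339018 0) (P.cons (P.lf 0 655056 0) (P.cons (P.lf 0 22224 0) (P.lf 1056 0 0)))) (P.cons (P.cons (P.lf 0 13208106 0) (P.cons (P.lf 527712 0 0) (P.cons (P.lf 17898 0 0) P.nil))) (P.cons (P.cons (P.lf 787243 0 0) (P.cons (P.lf 39054 0 0) P.nil)) (P.cons (P.cons (P.lf 157125 0 0) P.nil) P.nil)))))) 23942)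
 (EL.cons 2 (TM.mk (P.cons (P.cons (P.lf 813232575 0 0) (P.cons (P.lf 62861793 0 0) (P.cons (P.lf 0 3969129 0) (P.cons (P.lf 0 74427 0) (P.lf 2655 0 0))))) (P.cons (P.cons (P.lf 0 1232389 0) (P.cons (P.lf 0 95262 0) (P.cons (P.lf 6013 0 0) (P.cons (P.lf 112 0 0) (P.lf 0 2 0))))) (P.cons (P.cons (P.lf 0 32400120 0) (P.cons (P.lf 0 2504483 0) (P.cons (P.lf 158132 0 0) (P.cons (P.lf 2961 0 0) P.nil)))) (P.cons (P.cons (P.lf 0 2033139 0) (P.cons (P.lf 0 157156 0) (P.cons (P.lf 9922 0 0) P.nil))) (P.cons (P.cons (P.lf 296597 0 0) (P.cons (P.lf 22924 0 0) P.nil)) (P.cons (P.cons (P.lf 33384 0 0) P.nil) P.nil)))))) 8863)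
 (EL.cons 6 (TM.mk (P.cons (P.cons (P.lf 688977267 0 0) (P.cons (P.lf 53257023 0 0) (P.cons (P.lf 0 3362679 0) (P.cons (P.lf 0 63054 0) (P.lf 2250 0 0))))) (P.cons (P.cons (P.lf 167459361 0 0) (P.cons (P.lf 12944382 0 0) (P.cons (P.lf 0 817314 0) (P.cons (P.lf 0 15324 0) (P.lf 546 0 0))))) (P.cons (P.cons (P.lf 2924886 0 0) (P.cons (P.lf 226089 0 0) (P.cons (P.lf 0 14274 0) (P.cons (P.lf 0 267 0) P.nil)))) (P.cons (P.cons (P.lf 0 2356302 0) (P.cons (P.lf 0 182136 0) (P.cons (P.lf 11499 0 0) P.nil))) (P.cons (P.cons (P.lf 0 174405 0) (P.cons (P.lf 0 13479 0) P.nil)) (P.cons (P.cons (P.lf 12282 0 0) P.nil) P.nil)))))) 5259)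
 EL.nil))))))
noncomputable def S169_198_364_401_2 : EL := (EL.cons 0 (TM.mk (P.cons (P.cons (P.lf 0 1076358541 0) (P.cons (P.lf 122579430 0 0) (P.cons (P.lf 975278 0 0) (P.cons (P.lf 0 414063 0) (P.cons (P.lf 6618 0 0) (P.cons (P.lf 346 0 0) P.nil)))))) (P.cons (P.cons (P.lf 658084638 0 0) (P.cons (P.lf 0 66646353 0) (P.cons (P.lf 0 1180782 0) (P.cons (P.lf 181002 0 0) (P.cons (P.lf 0 2253 0) P.nil))))) (P.cons (P.cons (P.lf 461099534 0 0) (P.cons (P.lf 0 40902275 0) (P.cons (P.lf 0 385889 0) (P.cons (P.lf 134049 0 0) P.nil)))) (P.cons (P.cons (P.lf 0 62933993 0) (P.cons (P.lf 0 49591 0) (P.cons (P.lf 132459 0 0) P.nil))) (P.cons (P.cons (P.lf 0 27046927 0) (P.cons (P.lf 2070015 0 0) P.nil)) (P.cons (P.cons (P.lf 1372924 0 0) P.nil) P.nil)))))) 1725727)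
 (EL.cons 1 (TM.mk (P.cons (P.cons (P.lf 0 553872106 0) (P.cons (P.lf 74000139 0 0) (P.cons (P.lf 66231 0 0) (P.cons (P.lf 0 285426 0) (P.cons (P.lf 5083 0 0) (P.cons (P.lf 265 0 0) P.nil)))))) (P.cons (P.cons (P.lf 0 350027167 0) (P.cons (P.lf 48043771 0 0) (P.cons (P.lf 0 63326 0) (P.cons (P.lf 0 192518 0) (P.cons (P.lf 3508 0 0) P.nil))))) (P.cons (P.cons (P.lf 91756569 0 0) (P.cons (P.lf 0 4011338 0) (P.cons (P.lf 0 289172 0) (P.cons (P.lf 0 3902 0) P.nil)))) (P.cons (P.cons (P.lf 62885700 0 0) (P.cons (P.lf 0 5401979 0) (P.cons (P.lf 0 87050 0) P.nil))) (P.cons (P.cons (P.lf 0 4428753 0) (P.cons (P.lf 0 359233 0) P.nil)) (P.cons (P.cons (P.lf 0 2782168 0) P.nil) P.nil)))))) 838460)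
 (EL.cons 5 (TM.mk (P.cons (P.cons (P.lf 1151537096 0 0) (P.cons (P.lf 0 157078487 0) (P.cons (P.lf 0 8987 0) (P.cons (P.lf 614811 0 0) (P.cons (P.lf 0 11062 0) (P.cons (P.lf 0 581 0) P.nil)))))) (P.cons (P.cons (P.lf 285206316 0 0) (P.cons (P.lf 0 42210431 0) (P.cons (P.lf 219762 0 0) (P.cons (P.lf 180283 0 0) (P.cons (P.lf 0 3430 0) P.nil))))) (P.cons (P.cons (P.lf 0 152302638 0) (P.cons (P.lf 10357177 0 0) (P.cons (P.lf 278179 0 0) (P.cons (P.lf 0 21690 0) P.nil)))) (P.cons (P.cons (P.lf 0 13002735 0) (P.cons (P.lf 2323740 0 0) (P.cons (P.lf 11145 0 0) P.nil))) (P.cons (P.cons (P.lf 8794077 0 0) (P.cons (P.lf 0 420845 0) P.nil)) (P.cons (P.cons (P.lf 303174 0 0) P.nil) P.nil)))))) 808919)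
 (EL.cons 9 (TM.mk (P.cons (P.cons (P.lf 678381034 0 0) (P.cons (P.lf 0 100142371 0) (P.cons (P.lf 298035 0 0) (P.cons (P.lf 412573 0 0) (P.cons (P.lf 0 7686 0) (P.cons (P.lf 0 405 0) P.nil)))))) (P.cons (P.cons (P.lf 458110546 0 0) (P.cons (P.lf 0 58153159 0) (P.cons (P.lf 0 176526 0) (P.cons (P.lf 215857 0 0) (P.cons (P.lf 0 3736 0) P.nil))))) (P.cons (P.cons (P.lf 10273987 0 0) (P.cons (P.lf 0 3693393 0) (P.cons (P.lf 124395 0 0) (P.cons (P.lf 22908 0 0) P.nil)))) (P.cons (P.cons (P.lf 0 31216987 0) (P.cons (P.lf 2034796 0 0) (P.cons (P.lf 51381 0 0) P.nil))) (P.cons (P.cons (P.lf 0 725823 0) (P.cons (P.lf 278068 0 0) P.nil)) (P.cons (P.cons (P.lf 698208 0 0) P.nil) P.nil)))))) 198619)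
 (EL.cons 2 (TM.mk (P.cons (P.cons (P.lf 527783793 0 0) (P.cons (P.lf 1841349 0 0) (P.cons (P.lf 0 6908878 0) (P.cons (P.lf 102594 0 0) (P.cons (P.lf 16605 0 0) (P.cons (P.lf 0 309 0) P.nil)))))) (P.cons (P.cons (P.lf 177406312 0 0) (P.cons (P.lf 4303946 0 0) (P.cons (P.lf 0 1912438 0) (P.cons (P.lf 20210 0 0) (P.cons (P.lf 4168 0 0) P.nil))))) (P.cons (P.cons (P.lf 0 47386603 0) (P.cons (P.lf 0 2261908 0) (P.cons (P.lf 387106 0 0) (P.cons (P.lf 0 1091 0) P.nil)))) (P.cons (P.cons (P.lf 0 11714422 0) (P.cons (P.lf 0 297405 0) (P.cons (P.lf 124807 0 0) P.nil))) (P.cons (P.cons (P.lf 990180 0 0) (P.cons (P.lf 102245 0 0) P.nil)) (P.cons (P.cons (P.lf 324101 0 0) P.nil) P.nil)))))) 108910)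
 (EL.cons 6 (TM.mk (P.cons (P.cons (P.lf 447142728 0 0) (P.cons (P.lf 1560006 0 0) (P.cons (P.lf 0 5853258 0) (P.cons (P.lf 86916 0 0) (P.cons (P.lf 14064 0 0) (P.cons (P.lf 0 264 0) P.nil)))))) (P.cons (P.cons (P.lf 259657956 0 0) (P.cons (P.lf 4027866 0 0) (P.cons (P.lf 0 3051762 0) (P.cons (P.lf 38376 0 0) (P.cons (P.lf 6972 0 0) P.nil))))) (P.cons (P.cons (P.lf 16491270 0 0) (P.cons (P.lf 0 955164 0) (P.cons (P.lf 0 328512 0) (P.cons (P.lf 7122 0 0) P.nil)))) (P.cons (P.cons (P.lf 0 9085530 0) (P.cons (P.lf 0 544662 0) (P.cons (P.lf 61872 0 0) P.nil))) (P.cons (P.cons (P.lf 0 1241622 0) (P.cons (P.lf 0 24996 0) P.nil)) (P.cons (P.cons (P.lf 107880 0 0) P.nil) P.nil)))))) 82374)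
 EL.nil))))))
noncomputable def S169_198_364_401_3 : EL := (EL.cons 0 (TM.mk (P.cons (P.lf 2000791209 0 0) (P.cons (P.lf 0 654467131 0) (P.cons (P.lf 15080835 0 0) (P.cons (P.lf 7271133 0 0) (P.cons (P.lf 199596 0 0) (P.cons (P.lf 0 35412 0) P.nil)))))) 3454)
 (EL.cons 1 (TM.mk (P.cons (P.lf 1695086628 0 0) (P.cons (P.lf 0 139901857 0) (P.cons (P.lf 0 47471786 0) (P.cons (P.lf 0 293435 0) (P.cons (P.lf 328029 0 0) (P.cons (P.lf 15684 0 0) P.nil)))))) 1940)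
 (EL.cons 5 (TM.mk (P.cons (P.lf 1436091214 0 0) (P.cons (P.lf 232699422 0 0) (P.cons (P.lf 0 5362070 0) (P.cons (P.lf 0 2585292 0) (P.cons (P.lf 0 70970 0) (P.cons (P.lf 12590 0 0) P.nil)))))) 1162)
 EL.nil)))
noncomputable def S169_198_364_401_4 : EL := (EL.cons 0 (TM.mk (P.cons (P.cons (P.lf 649251645 0 0) (P.cons (P.lf 0 47921150 0) (P.cons (P.lf 0 1625906 0) (P.lf 77421 0 0)))) (P.cons (P.cons (P.lf 6846822 0 0) (P.cons (P.lf 4027733 0 0) (P.cons (P.lf 136655 0 0) (P.lf 0 6507 0)))) (P.cons (P.cons (P.lf 0 98907340 0) (P.cons (P.lf 3245296 0 0) (P.cons (P.lf 110107 0 0) (P.lf 0 5241 0)))) (P.cons (P.cons (P.lf 10407726 0 0) (P.cons (P.lf 0 31510 0) (P.cons (P.lf 0 1070 0) P.nil))) (P.cons (P.cons (P.lf 2205796 0 0) (P.cons (P.lf 0 90121 0) P.nil)) (P.cons (P.cons (P.lf 0 168347 0) P.nil) P.nil)))))) 67153)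
 (EL.cons 1 (TM.mk (P.cons (P.cons (P.lf 550051288 0 0) (P.cons (P.lf 0 40599187 0) (P.cons (P.lf 0 1377480 0) (P.lf 65591 0 0)))) (P.cons (P.cons (P.lf 140326953 0 0) (P.cons (P.lf 0 6517029 0) (P.cons (P.lf 0 221113 0) (P.lf 10526 0 0)))) (P.cons (P.cons (P.lf 0 57922775 0) (P.cons (P.lf 1779076 0 0) (P.cons (P.lf 60360 0 0) (P.lf 0 2874 0)))) (P.cons (P.cons (P.lf 0 6527677 0) (P.cons (P.lf 436453 0 0) (P.cons (P.lf 14805 0 0) P.nil))) (P.cons (P.cons (P.lf 1329710 0 0) (P.cons (P.lf 0 2505 0) P.nil)) (P.cons (P.cons (P.lf 167308 0 0) P.nil) P.nil)))))) 42109)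
 (EL.cons 5 (TM.mk (P.cons (P.cons (P.lf 466007936 0 0) (P.cons (P.lf 0 34395964 0) (P.cons (P.lf 0 1167012 0) (P.lf 55570 0 0)))) (P.cons (P.cons (P.lf 232857892 0 0) (P.cons (P.lf 0 13933516 0) (P.cons (P.lf 0 472746 0) (P.lf 22510 0 0)))) (P.cons (P.cons (P.lf 720716 0 0) (P.cons (P.lf 0 1372234 0) (P.cons (P.lf 0 46556 0) (P.lf 2216 0 0)))) (P.cons (P.cons (P.lf 0 8103226 0) (P.cons (P.lf 187106 0 0) (P.cons (P.lf 6346 0 0) P.nil))) (P.cons (P.cons (P.lf 0 521868 0) (P.cons (P.lf 45060 0 0) P.nil)) (P.cons (P.cons (P.lf 112230 0 0) P.nil) P.nil)))))) 29554)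
 EL.nil)))
noncomputable def S169_198_364_401_5 : EL := (EL.cons 0 (TM.mk (P.cons (P.cons (P.lf 210680502 0 0) (P.cons (P.lf 0 31100581 0) (P.cons (P.lf 92557 0 0) (P.cons (P.lf 128128 0 0) (P.cons (P.lf 0 2385 0) (P.cons (P.lf 0 124 0) P.nil)))))) (P.cons (P.cons (P.lf 73358022 0 0) (P.cons (P.lf 0 7887127 0) (P.cons (P.lf 0 85097 0) (P.cons (P.lf 25124 0 0) (P.cons (P.lf 0 377 0) P.nil))))) (P.cons (P.cons (P.lf 0 41759205 0) (P.cons (P.lf 4526133 0 0) (P.cons (P.lf 57262 0 0) (P.cons (P.lf 0 13848 0) P.nil)))) (P.cons (P.cons (P.lf 0 8900551 0) (P.cons (P.lf 757981 0 0) (P.cons (P.lf 3243 0 0) P.nil))) (P.cons (P.cons (P.lf 3507918 0 0) (P.cons (P.lf 0 197731 0) P.nil)) (P.cons (P.cons (P.lf 239556 0 0) P.nil) P.nil)))))) 252004)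
 (EL.cons 1 (TM.mk (P.cons (P.cons (P.lf 178490238 0 0) (P.cons (P.lf 0 26348666 0) (P.cons (P.lf 78414 0 0) (P.cons (P.lf 108551 0 0) (P.cons (P.lf 0 2021 0) (P.cons (P.lf 0 105 0) P.nil)))))) (P.cons (P.cons (P.lf 105802946 0 0) (P.cons (P.lf 0 13126143 0) (P.cons (P.lf 0 52918 0) (P.cons (P.lf 47833 0 0) (P.cons (P.lf 0 813 0) P.nil))))) (P.cons (P.cons (P.lf 0 12243658 0) (P.cons (P.lf 1028962 0 0) (P.cons (P.lf 34365 0 0) (P.cons (P.lf 0 1698 0) P.nil)))) (P.cons (P.cons (P.lf 0 11843199 0) (P.cons (P.lf 1048650 0 0) (P.cons (P.lf 12103 0 0) P.nil))) (P.cons (P.cons (P.lf 424893 0 0) (P.cons (P.lf 53741 0 0) P.nil)) (P.cons (P.cons (P.lf 454001 0 0) P.nil) P.nil)))))) 177631)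
 (EL.cons 5 (TM.mk (P.cons (P.cons (P.lf 151218386 0 0) (P.cons (P.lf 0 22322804 0) (P.cons (P.lf 66434 0 0) (P.cons (P.lf 91966 0 0) (P.cons (P.lf 0 1712 0) (P.cons (P.lf 0 88 0) P.nil)))))) (P.cons (P.cons (P.lf 126620662 0 0) (P.cons (P.lf 0 16580072 0) (P.cons (P.lf 0 28584 0) (P.cons (P.lf 63018 0 0) (P.cons (P.lf 0 1110 0) P.nil))))) (P.cons (P.cons (P.lf 18272378 0 0) (P.cons (P.lf 0 2840422 0) (P.cons (P.lf 21104 0 0) (P.cons (P.lf 12558 0 0) P.nil)))) (P.cons (P.cons (P.lf 0 7241020 0) (P.cons (P.lf 408760 0 0) (P.cons (P.lf 15972 0 0) P.nil))) (P.cons (P.cons (P.lf 0 1489200 0) (P.cons (P.lf 162994 0 0) P.nil)) (P.cons (P.cons (P.lf 147558 0 0) P.nil) P.nil)))))) 122476)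
 EL.nil)))
noncomputable def S169_198_364_401_6 : EL := (EL.cons 12 (TM.mk (P.lf 8589934592 0 0) 0)
 (EL.cons 3 (TM.mk (P.cons (P.lf 0 2072840178 0) (P.cons (P.lf 339017325 0 0) (P.cons (P.lf 19911543 0 0) (P.cons (P.lf 0 509910 0) (P.cons (P.lf 0 91155 0) (P.cons (P.lf 0 1462 0) P.nil)))))) 487)
 (EL.cons 7 (TM.mk (P.cons (P.lf 0 1756127103 0) (P.cons (P.lf 0 142278485 0) (P.cons (P.lf 9042093 0 0) (P.cons (P.lf 848140 0 0) (P.cons (P.lf 0 2043 0) (P.cons (P.lf 0 3166 0) P.nil)))))) 195)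
 EL.nil)))
noncomputable def S169_198_364_401_7 : EL := (EL.cons 12 (TM.mk (P.cons (P.cons (P.lf 2787411876 0 0) (P.cons (P.lf 0 205738384 0) (P.cons (P.lf 0 6980456 0) (P.lf 332392 0 0)))) (P.cons (P.cons (P.lf 941169278 0 0) (P.cons (P.lf 0 50005736 0) (P.cons (P.lf 0 1696632 0) (P.lf 80784 0 0)))) (P.cons (P.cons (P.lf 0 137785358 0) (P.cons (P.lf 0 873408 0) (P.cons (P.lf 0 29632 0) (P.lf 1408 0 0)))) (P.cons (P.cons (P.lf 0 17610808 0) (P.cons (P.lf 703616 0 0) (P.cons (P.lf 23864 0 0) P.nil))) (P.cons (P.cons (P.lf 1049658 0 0) (P.cons (P.lf 52072 0 0) P.nil)) (P.cons (P.cons (P.lf 209500 0 0) P.nil) P.nil)))))) 31898)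
 (EL.cons 3 (TM.mk (P.cons (P.cons (P.lf 2130609541 0 0) (P.cons (P.lf 0 99293604 0) (P.cons (P.lf 0 3368910 0) (P.lf 160416 0 0)))) (P.cons (P.cons (P.lf 0 812940132 0) (P.cons (P.lf 0 7894126 0) (P.cons (P.lf 0 267836 0) (P.lf 12750 0 0)))) (P.cons (P.cons (P.lf 0 129581123 0) (P.cons (P.lf 4479414 0 0) (P.cons (P.lf 151980 0 0) (P.lf 0 7236 0)))) (P.cons (P.cons (P.lf 9978021 0 0) (P.cons (P.lf 615922 0 0) (P.cons (P.lf 20890 0 0) P.nil))) (P.cons (P.cons (P.lf 3025698 0 0) (P.cons (P.lf 0 36660 0) P.nil)) (P.cons (P.cons (P.lf 47806 0 0) P.nil) P.nil)))))) 123425)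
 (EL.cons 7 (TM.mk (P.cons (P.cons (P.lf 0 1746320392 0) (P.cons (P.lf 104568354 0 0) (P.cons (P.lf 3547881 0 0) (P.lf 0 168949 0)))) (P.cons (P.cons (P.lf 341173979 0 0) (P.cons (P.lf 3313001 0 0) (P.cons (P.lf 112406 0 0) (P.lf 0 5356 0)))) (P.cons (P.cons (P.lf 12661959 0 0) (P.cons (P.lf 0 2285044 0) (P.cons (P.lf 0 77525 0) (P.lf 3689 0 0)))) (P.cons (P.cons (P.lf 0 11307915 0) (P.cons (P.lf 64980 0 0) (P.cons (P.lf 2203 0 0) P.nil))) (P.cons (P.cons (P.lf 0 235471 0) (P.cons (P.lf 46890 0 0) P.nil)) (P.cons (P.cons (P.lf 161256 0 0) P.nil) P.nil)))))) 73704)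
 (EL.cons 10 (TM.mk (P.cons (P.cons (P.lf 0 1685034549 0) (P.cons (P.lf 0 130250925 0) (P.cons (P.lf 8224122 0 0) (P.cons (P.lf 154215 0 0) (P.lf 0 5505 0))))) (P.cons (P.cons (P.lf 0 273037368 0) (P.cons (P.lf 0 21105423 0) (P.cons (P.lf 1332609 0 0) (P.cons (P.lf 24987 0 0) (P.lf 0 891 0))))) (P.cons (P.cons (P.lf 6291573 0 0) (P.cons (P.lf 486330 0 0) (P.cons (P.lf 0 30705 0) (P.cons (P.lf 0 573 0) P.nil)))) (P.cons (P.cons (P.lf 3033444 0 0) (P.cons (P.lf 234480 0 0) (P.cons (P.lf 0 14805 0) P.nil))) (P.cons (P.cons (P.lf 83271 0 0) (P.cons (P.lf 6435 0 0) P.nil)) (P.cons (P.cons (P.lf 0 14772 0) P.nil) P.nil)))))) 3519)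
 EL.nil))))
noncomputable def S169_198_364_401_8 : EL := (EL.cons 12 (TM.mk (P.cons (P.cons (P.lf 904508046 0 0) (P.cons (P.lf 0 133523162 0) (P.cons (P.lf 397380 0 0) (P.cons (P.lf 550098 0 0) (P.cons (P.lf 0 10248 0) (P.cons (P.lf 0 540 0) P.nil)))))) (P.cons (P.cons (P.lf 610814062 0 0) (P.cons (P.lf 0 77537546 0) (P.cons (P.lf 0 235368 0) (P.cons (P.lf 287810 0 0) (P.cons (P.lf 0 4982 0) P.nil))))) (P.cons (P.cons (P.lf 13698650 0 0) (P.cons (P.lf 0 4924524 0) (P.cons (P.lf 165860 0 0) (P.cons (P.lf 30544 0 0) P.nil)))) (P.cons (P.cons (P.lf 0 41622650 0) (P.cons (P.lf 2713062 0 0) (P.cons (P.lf 68508 0 0) P.nil))) (P.cons (P.cons (P.lf 0 967764 0) (P.cons (P.lf 370758 0 0) P.nil)) (P.cons (P.cons (P.lf 930944 0 0) P.nil) P.nil)))))) 264796)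
 (EL.cons 3 (TM.mk (P.cons (P.cons (P.lf 1601021888 0 0) (P.cons (P.lf 0 198722449 0) (P.cons (P.lf 0 796931 0) (P.cons (P.lf 724501 0 0) (P.cons (P.lf 0 12366 0) (P.cons (P.lf 0 651 0) P.nil)))))) (P.cons (P.cons (P.lf 50990670 0 0) (P.cons (P.lf 0 26187417 0) (P.cons (P.lf 1029252 0 0) (P.cons (P.lf 172436 0 0) (P.cons (P.lf 0 3986 0) P.nil))))) (P.cons (P.cons (P.lf 0 353488794 0) (P.cons (P.lf 21782888 0 0) (P.cons (P.lf 610974 0 0) (P.cons (P.lf 0 43883 0) P.nil)))) (P.cons (P.cons (P.lf 0 16523179 0) (P.cons (P.lf 4607641 0 0) (P.cons (P.lf 35922 0 0) P.nil))) (P.cons (P.cons (P.lf 13584539 0 0) (P.cons (P.lf 0 378743 0) P.nil)) (P.cons (P.cons (P.lf 1177299 0 0) P.nil) P.nil)))))) 867155)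
 (EL.cons 7 (TM.mk (P.cons (P.cons (P.lf 0 948435309 0) (P.cons (P.lf 124219424 0 0) (P.cons (P.lf 212970 0 0) (P.cons (P.lf 0 472234 0) (P.cons (P.lf 8323 0 0) (P.cons (P.lf 434 0 0) P.nil)))))) (P.cons (P.cons (P.lf 0 21399729 0) (P.cons (P.lf 10990316 0 0) (P.cons (P.lf 0 431954 0) (P.cons (P.lf 0 72367 0) (P.cons (P.lf 1668 0 0) P.nil))))) (P.cons (P.cons (P.lf 150968726 0 0) (P.cons (P.lf 0 10485773 0) (P.cons (P.lf 0 203585 0) (P.cons (P.lf 27260 0 0) P.nil)))) (P.cons (P.cons (P.lf 0 17363426 0) (P.cons (P.lf 0 386928 0) (P.cons (P.lf 24517 0 0) P.nil))) (P.cons (P.cons (P.lf 0 5824452 0) (P.cons (P.lf 438569 0 0) P.nil)) (P.cons (P.cons (P.lf 579328 0 0) P.nil) P.nil)))))) 470940)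
 (EL.cons 10 (TM.mk (P.cons (P.cons (P.lf 0 1093578828 0) (P.cons (P.lf 0 3815322 0) (P.cons (P.lf 14315340 0 0) (P.cons (P.lf 0 212580 0) (P.cons (P.lf 0 34404 0) (P.cons (P.lf 648 0 0) P.nil)))))) (P.cons (P.cons (P.lf 0 546446616 0) (P.cons (P.lf 0 9541866 0) (P.cons (P.lf 6303912 0 0) (P.cons (P.lf 0 76644 0) (P.cons (P.lf 0 14274 0) P.nil))))) (P.cons (P.cons (P.lf 0 1691298 0) (P.cons (P.lf 3089484 0 0) (P.cons (P.lf 366432 0 0) (P.cons (P.lf 0 12312 0) P.nil)))) (P.cons (P.cons (P.lf 19015800 0 0) (P.cons (P.lf 1030806 0 0) (P.cons (P.lf 0 141642 0) P.nil))) (P.cons (P.cons (P.lf 1224666 0 0) (P.cons (P.lf 0 11076 0) P.nil)) (P.cons (P.cons (P.lf 0 263370 0) P.nil) P.nil)))))) 121626)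
 EL.nil))))
noncomputable def S169_198_364_401_9 : EL := (EL.cons 3 (TM.mk (P.cons (P.lf 0 2072840178 0) (P.cons (P.lf 339017325 0 0) (P.cons (P.lf 19911543 0 0) (P.cons (P.lf 0 509910 0) (P.cons (P.lf 0 91155 0) (P.cons (P.lf 0 1462 0) P.nil)))))) 487)
 (EL.cons 7 (TM.mk (P.cons (P.lf 0 1756127103 0) (P.cons (P.lf 0 142278485 0) (P.cons (P.lf 9042093 0 0) (P.cons (P.lf 848140 0 0) (P.cons (P.lf 0 2043 0) (P.cons (P.lf 0 3166 0) P.nil)))))) 195)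
 EL.nil))
noncomputable def S169_198_364_401_10 : EL := (EL.cons 3 (TM.mk (P.cons (P.cons (P.lf 0 672631352 0) (P.cons (P.lf 49646802 0 0) (P.cons (P.lf 1684455 0 0) (P.lf 0 80208 0)))) (P.cons (P.cons (P.lf 0 117103635 0) (P.cons (P.lf 3947063 0 0) (P.cons (P.lf 133918 0 0) (P.lf 0 6375 0)))) (P.cons (P.cons (P.lf 76855228 0 0) (P.cons (P.lf 0 2239707 0) (P.cons (P.lf 0 75990 0) (P.lf 3618 0 0)))) (P.cons (P.cons (P.lf 827895 0 0) (P.cons (P.lf 0 307961 0) (P.cons (P.lf 0 10445 0) P.nil))) (P.cons (P.cons (P.lf 0 1353171 0) (P.cons (P.lf 18330 0 0) P.nil)) (P.cons (P.cons (P.lf 0 52232 0) P.nil) P.nil)))))) 29491)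
 (EL.cons 7 (TM.mk (P.cons (P.cons (P.lf 0 569858767 0) (P.cons (P.lf 42061176 0 0) (P.cons (P.lf 1427085 0 0) (P.lf 0 67954 0)))) (P.cons (P.cons (P.lf 0 238581748 0) (P.cons (P.lf 13630904 0 0) (P.cons (P.lf 462479 0 0) (P.lf 0 22021 0)))) (P.cons (P.cons (P.lf 15514029 0 0) (P.cons (P.lf 790256 0 0) (P.cons (P.lf 26812 0 0) (P.lf 0 1276 0)))) (P.cons (P.cons (P.lf 7148478 0 0) (P.cons (P.lf 0 202332 0) (P.cons (P.lf 0 6863 0) P.nil))) (P.cons (P.cons (P.lf 24329 0 0) (P.cons (P.lf 0 28107 0) P.nil)) (P.cons (P.cons (P.lf 0 93609 0) P.nil) P.nil)))))) 17006)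
 EL.nil))
noncomputable def S169_198_364_401_11 : EL := (EL.cons 3 (TM.mk (P.cons (P.cons (P.lf 0 218267158 0) (P.cons (P.lf 32220521 0 0) (P.cons (P.lf 0 95891 0) (P.cons (P.lf 0 132743 0) (P.cons (P.lf 2472 0 0) (P.cons (P.lf 129 0 0) P.nil)))))) (P.cons (P.cons (P.lf 0 111697710 0) (P.cons (P.lf 13440879 0 0) (P.cons (P.lf 72480 0 0) (P.cons (P.lf 0 47740 0) (P.cons (P.lf 796 0 0) P.nil))))) (P.cons (P.cons (P.lf 22897914 0 0) (P.cons (P.lf 0 2181328 0) (P.cons (P.lf 0 48390 0) (P.cons (P.lf 5263 0 0) P.nil)))) (P.cons (P.cons (P.lf 11946797 0 0) (P.cons (P.lf 0 1020851 0) (P.cons (P.lf 0 10554 0) P.nil))) (P.cons (P.cons (P.lf 0 1423285 0) (P.cons (P.lf 12211 0 0) P.nil)) (P.cons (P.cons (P.lf 0 366771 0) P.nil) P.nil)))))) 148315)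
 (EL.cons 7 (TM.mk (P.cons (P.cons (P.lf 0 184917717 0) (P.cons (P.lf 27297488 0 0) (P.cons (P.lf 0 81240 0) (P.cons (P.lf 0 112462 0) (P.cons (P.lf 2095 0 0) (P.cons (P.lf 110 0 0) P.nil)))))) (P.cons (P.cons (P.lf 0 139856613 0) (P.cons (P.lf 18063380 0 0) (P.cons (P.lf 41536 0 0) (P.cons (P.lf 0 67951 0) (P.cons (P.lf 1188 0 0) P.nil))))) (P.cons (P.cons (P.lf 0 11965588 0) (P.cons (P.lf 2150503 0 0) (P.cons (P.lf 0 29591 0) (P.cons (P.lf 0 10432 0) P.nil)))) (P.cons (P.cons (P.lf 9014716 0 0) (P.cons (P.lf 0 567894 0) (P.cons (P.lf 0 16961 0) P.nil))) (P.cons (P.cons (P.lf 961776 0 0) (P.cons (P.lf 0 133543 0) P.nil)) (P.cons (P.cons (P.lf 0 217232 0) P.nil) P.nil)))))) 93608)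
 EL.nil))
noncomputable def S169_198_364_401_12 : EL := (EL.cons 4 (TM.mk (P.cons (P.lf 2072840178 0 0) (P.cons (P.lf 0 339017325 0) (P.cons (P.lf 0 19911543 0) (P.cons (P.lf 509910 0 0) (P.cons (P.lf 91155 0 0) (P.cons (P.lf 1462 0 0) P.nil)))))) 487)
 (EL.cons 8 (TM.mk (P.cons (P.lf 1756127103 0 0) (P.cons (P.lf 142278485 0 0) (P.cons (P.lf 0 9042093 0) (P.cons (P.lf 0 848140 0) (P.cons (P.lf 2043 0 0) (P.cons (P.lf 3166 0 0) P.nil)))))) 195)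
 EL.nil))
noncomputable def S169_198_364_401_13 : EL := (EL.cons 4 (TM.mk (P.cons (P.cons (P.lf 672631352 0 0) (P.cons (P.lf 0 49646802 0) (P.cons (P.lf 0 1684455 0) (P.lf 80208 0 0)))) (P.cons (P.cons (P.lf 117103635 0 0) (P.cons (P.lf 0 3947063 0) (P.cons (P.lf 0 133918 0) (P.lf 6375 0 0)))) (P.cons (P.cons (P.lf 0 76855228 0) (P.cons (P.lf 2239707 0 0) (P.cons (P.lf 75990 0 0) (P.lf 0 3618 0)))) (P.cons (P.cons (P.lf 0 827895 0) (P.cons (P.lf 307961 0 0) (P.cons (P.lf 10445 0 0) P.nil))) (P.cons (P.cons (P.lf 1353171 0 0) (P.cons (P.lf 0 18330 0) P.nil)) (P.cons (P.cons (P.lf 52232 0 0) P.nil) P.nil)))))) 29491)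
 (EL.cons 8 (TM.mk (P.cons (P.cons (P.lf 569858767 0 0) (P.cons (P.lf 0 42061176 0) (P.cons (P.lf 0 1427085 0) (P.lf 67954 0 0)))) (P.cons (P.cons (P.lf 238581748 0 0) (P.cons (P.lf 0 13630904 0) (P.cons (P.lf 0 462479 0) (P.lf 22021 0 0)))) (P.cons (P.cons (P.lf 0 15514029 0) (P.cons (P.lf 0 790256 0) (P.cons (P.lf 0 26812 0) (P.lf 1276 0 0)))) (P.cons (P.cons (P.lf 0 7148478 0) (P.cons (P.lf 202332 0 0) (P.cons (P.lf 6863 0 0) P.nil))) (P.cons (P.cons (P.lf 0 24329 0) (P.cons (P.lf 28107 0 0) P.nil)) (P.cons (P.cons (P.lf 93609 0 0) P.nil) P.nil)))))) 17006)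
 EL.nil))
noncomputable def S169_198_364_401_14 : EL := (EL.cons 4 (TM.mk (P.cons (P.cons (P.lf 218267158 0 0) (P.cons (P.lf 0 32220521 0) (P.cons (P.lf 95891 0 0) (P.cons (P.lf 132743 0 0) (P.cons (P.lf 0 2472 0) (P.cons (P.lf 0 129 0) P.nil)))))) (P.cons (P.cons (P.lf 111697710 0 0) (P.cons (P.lf 0 13440879 0) (P.cons (P.lf 0 72480 0) (P.cons (P.lf 47740 0 0) (P.cons (P.lf 0 796 0) P.nil))))) (P.cons (P.cons (P.lf 0 22897914 0) (P.cons (P.lf 2181328 0 0) (P.cons (P.lf 48390 0 0) (P.cons (P.lf 0 5263 0) P.nil)))) (P.cons (P.cons (P.lf 0 11946797 0) (P.cons (P.lf 1020851 0 0) (P.cons (P.lf 10554 0 0) P.nil))) (P.cons (P.cons (P.lf 1423285 0 0) (P.cons (P.lf 0 12211 0) P.nil)) (P.cons (P.cons (P.lf 366771 0 0) P.nil) P.nil)))))) 148315)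
 (EL.cons 8 (TM.mk (P.cons (P.cons (P.lf 184917717 0 0) (P.cons (P.lf 0 27297488 0) (P.cons (P.lf 81240 0 0) (P.cons (P.lf 112462 0 0) (P.cons (P.lf 0 2095 0) (P.cons (P.lf 0 110 0) P.nil)))))) (P.cons (P.cons (P.lf 139856613 0 0) (P.cons (P.lf 0 18063380 0) (P.cons (P.lf 0 41536 0) (P.cons (P.lf 67951 0 0) (P.cons (P.lf 0 1188 0) P.nil))))) (P.cons (P.cons (P.lf 11965588 0 0) (P.cons (P.lf 0 2150503 0) (P.cons (P.lf 29591 0 0) (P.cons (P.lf 10432 0 0) P.nil)))) (P.cons (P.cons (P.lf 0 9014716 0) (P.cons (P.lf 567894 0 0) (P.cons (P.lf 16961 0 0) P.nil))) (P.cons (P.cons (P.lf 0 961776 0) (P.cons (P.lf 133543 0 0) P.nil)) (P.cons (P.cons (P.lf 217232 0 0) P.nil) P.nil)))))) 93608)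
 EL.nil))
noncomputable def S169_198_364_401_15 : EL := (EL.cons 4 (TM.mk (P.cons (P.lf 0 1067088645 0) (P.cons (P.lf 349049136 0 0) (P.cons (P.lf 0 8043112 0) (P.cons (P.lf 0 3877937 0) (P.cons (P.lf 0 106451 0) (P.cons (P.lf 18886 0 0) P.nil)))))) 1845)
 (EL.cons 8 (TM.mk (P.cons (P.lf 0 904046202 0) (P.cons (P.lf 74614324 0 0) (P.cons (P.lf 25318286 0 0) (P.cons (P.lf 156499 0 0) (P.cons (P.lf 0 174949 0) (P.cons (P.lf 0 8365 0) P.nil)))))) 1031)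
 EL.nil))
noncomputable def S169_198_364_401_16 : EL := (EL.cons 4 (TM.mk (P.cons (P.cons (P.lf 0 346267544 0) (P.cons (P.lf 25557946 0 0) (P.cons (P.lf 867150 0 0) (P.lf 0 41291 0)))) (P.cons (P.cons (P.lf 0 3651638 0) (P.cons (P.lf 0 2148124 0) (P.cons (P.lf 0 72883 0) (P.lf 3470 0 0)))) (P.cons (P.cons (P.lf 52750581 0 0) (P.cons (P.lf 0 1730824 0) (P.cons (P.lf 0 58724 0) (P.lf 2795 0 0)))) (P.cons (P.cons (P.lf 0 5550787 0) (P.cons (P.lf 16805 0 0) (P.cons (P.lf 570 0 0) P.nil))) (P.cons (P.cons (P.lf 0 1176424 0) (P.cons (P.lf 48064 0 0) P.nil)) (P.cons (P.cons (P.lf 89785 0 0) P.nil) P.nil)))))) 35824)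
 (EL.cons 8 (TM.mk (P.cons (P.cons (P.lf 0 293360687 0) (P.cons (P.lf 21652900 0 0) (P.cons (P.lf 734656 0 0) (P.lf 0 34982 0)))) (P.cons (P.cons (P.lf 0 74841042 0) (P.cons (P.lf 3475749 0 0) (P.cons (P.lf 117927 0 0) (P.lf 0 5614 0)))) (P.cons (P.cons (P.lf 30892147 0 0) (P.cons (P.lf 0 948841 0) (P.cons (P.lf 0 32192 0) (P.lf 1533 0 0)))) (P.cons (P.cons (P.lf 3481428 0 0) (P.cons (P.lf 0 232775 0) (P.cons (P.lf 0 7896 0) P.nil))) (P.cons (P.cons (P.lf 0 709179 0) (P.cons (P.lf 1336 0 0) P.nil)) (P.cons (P.cons (P.lf 0 89231 0) P.nil) P.nil)))))) 22448)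
 EL.nil))
noncomputable def S169_198_364_401_17 : EL := (EL.cons 4 (TM.mk (P.cons (P.cons (P.lf 0 112362934 0) (P.cons (P.lf 16586976 0 0) (P.cons (P.lf 0 49364 0) (P.cons (P.lf 0 68335 0) (P.cons (P.lf 1272 0 0) (P.cons (P.lf 66 0 0) P.nil)))))) (P.cons (P.cons (P.lf 0 39124278 0) (P.cons (P.lf 4206467 0 0) (P.cons (P.lf 45385 0 0) (P.cons (P.lf 0 13399 0) (P.cons (P.lf 201 0 0) P.nil))))) (P.cons (P.cons (P.lf 22271576 0 0) (P.cons (P.lf 0 2413937 0) (P.cons (P.lf 0 30540 0) (P.cons (P.lf 7385 0 0) P.nil)))) (P.cons (P.cons (P.lf 4746960 0 0) (P.cons (P.lf 0 404256 0) (P.cons (P.lf 0 1729 0) P.nil))) (P.cons (P.cons (P.lf 0 1870890 0) (P.cons (P.lf 105456 0 0) P.nil)) (P.cons (P.cons (P.lf 0 127763 0) P.nil) P.nil)))))) 134412)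
 (EL.cons 8 (TM.mk (P.cons (P.cons (P.lf 0 95194794 0) (P.cons (P.lf 14052622 0 0) (P.cons (P.lf 0 41821 0) (P.cons (P.lf 0 57894 0) (P.cons (P.lf 1078 0 0) (P.cons (P.lf 56 0 0) P.nil)))))) (P.cons (P.cons (P.lf 0 56428238 0) (P.cons (P.lf 7000610 0 0) (P.cons (P.lf 28223 0 0) (P.cons (P.lf 0 25511 0) (P.cons (P.lf 434 0 0) P.nil))))) (P.cons (P.cons (P.lf 6529951 0 0) (P.cons (P.lf 0 548780 0) (P.cons (P.lf 0 18328 0) (P.cons (P.lf 906 0 0) P.nil)))) (P.cons (P.cons (P.lf 6316373 0 0) (P.cons (P.lf 0 559280 0) (P.cons (P.lf 0 6455 0) P.nil))) (P.cons (P.cons (P.lf 0 226610 0) (P.cons (P.lf 0 28662 0) P.nil)) (P.cons (P.cons (P.lf 0 242134 0) P.nil) P.nil)))))) 94725)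
 EL.nil))
noncomputable def S169_198_364_401_18 : EL := (EL.cons 4 (TM.mk (P.cons (P.lf 549332354 0 0) (P.cons (P.lf 0 269533349 0) (P.cons (P.lf 28252205 0 0) (P.cons (P.lf 3180359 0 0) (P.cons (P.lf 0 331524 0) (P.cons (P.lf 0 44357 0) P.nil)))))) 4415)
 (EL.cons 8 (TM.mk (P.cons (P.lf 465398850 0 0) (P.cons (P.lf 0 114528063 0) (P.cons (P.lf 0 11222106 0) (P.cons (P.lf 2534590 0 0) (P.cons (P.lf 239457 0 0) (P.cons (P.lf 0 14216 0) P.nil)))))) 3029)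
 EL.nil))
noncomputable def S169_198_364_401_19 : EL := (EL.cons 4 (TM.mk (P.cons (P.cons (P.lf 178256947 0 0) (P.cons (P.lf 0 13157114 0) (P.cons (P.lf 0 446404 0) (P.lf 21255 0 0)))) (P.cons (P.cons (P.lf 0 27274447 0) (P.cons (P.lf 3257717 0 0) (P.cons (P.lf 110530 0 0) (P.lf 0 5263 0)))) (P.cons (P.cons (P.lf 0 29175533 0) (P.cons (P.lf 836543 0 0) (P.cons (P.lf 28382 0 0) (P.lf 0 1350 0)))) (P.cons (P.cons (P.lf 7324693 0 0) (P.cons (P.lf 0 168239 0) (P.cons (P.lf 0 5708 0) P.nil))) (P.cons (P.cons (P.lf 407421 0 0) (P.cons (P.lf 0 32193 0) P.nil)) (P.cons (P.cons (P.lf 0 179191 0) P.nil) P.nil)))))) 45228)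
 (EL.cons 8 (TM.mk (P.cons (P.cons (P.lf 151020740 0 0) (P.cons (P.lf 0 11146814 0) (P.cons (P.lf 0 378197 0) (P.lf 18008 0 0)))) (P.cons (P.cons (P.lf 13828069 0 0) (P.cons (P.lf 33784 0 0) (P.cons (P.lf 1146 0 0) (P.lf 0 54 0)))) (P.cons (P.cons (P.lf 0 23655136 0) (P.cons (P.lf 888178 0 0) (P.cons (P.lf 30134 0 0) (P.lf 0 1434 0)))) (P.cons (P.cons (P.lf 475822 0 0) (P.cons (P.lf 54389 0 0) (P.cons (P.lf 1845 0 0) P.nil))) (P.cons (P.cons (P.lf 827087 0 0) (P.cons (P.lf 0 25908 0) P.nil)) (P.cons (P.cons (P.lf 1330 0 0) P.nil) P.nil)))))) 27094)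
 EL.nil))
noncomputable def S169_198_364_401_20 : EL := (EL.cons 4 (TM.mk (P.cons (P.cons (P.lf 57843924 0 0) (P.cons (P.lf 0 8538900 0) (P.cons (P.lf 25411 0 0) (P.cons (P.lf 35178 0 0) (P.cons (P.lf 0 655 0) (P.cons (P.lf 0 33 0) P.nil)))))) (P.cons (P.cons (P.lf 10680505 0 0) (P.cons (P.lf 0 768915 0) (P.cons (P.lf 0 27520 0) (P.cons (P.lf 1144 0 0) (P.cons (P.lf 2 0 0) P.nil))))) (P.cons (P.cons (P.lf 0 15315052 0) (P.cons (P.lf 1678875 0 0) (P.cons (P.lf 19298 0 0) (P.cons (P.lf 0 5267 0) P.nil)))) (P.cons (P.cons (P.lf 0 747782 0) (P.cons (P.lf 23565 0 0) (P.cons (P.lf 0 1449 0) P.nil))) (P.cons (P.cons (P.lf 1480433 0 0) (P.cons (P.lf 0 101170 0) P.nil)) (P.cons (P.cons (P.lf 0 70168 0) P.nil) P.nil)))))) 119316)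
 (EL.cons 8 (TM.mk (P.cons (P.cons (P.lf 49005844 0 0) (P.cons (P.lf 0 7234225 0) (P.cons (P.lf 21529 0 0) (P.cons (P.lf 29803 0 0) (P.cons (P.lf 0 554 0) (P.cons (P.lf 0 29 0) P.nil)))))) (P.cons (P.cons (P.lf 21033990 0 0) (P.cons (P.lf 0 2420709 0) (P.cons (P.lf 0 18050 0) (P.cons (P.lf 8258 0 0) (P.cons (P.lf 0 132 0) P.nil))))) (P.cons (P.cons (P.lf 0 8583359 0) (P.cons (P.lf 941423 0 0) (P.cons (P.lf 11605 0 0) (P.cons (P.lf 0 2901 0) P.nil)))) (P.cons (P.cons (P.lf 0 2968832 0) (P.cons (P.lf 274549 0 0) (P.cons (P.lf 1925 0 0) P.nil))) (P.cons (P.cons (P.lf 690062 0 0) (P.cons (P.lf 0 36252 0) P.nil)) (P.cons (P.cons (P.lf 137290 0 0) P.nil) P.nil)))))) 80214)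
 EL.nil))
noncomputable def S169_198_364_401_21 : EL := (EL.cons 4 (TM.mk (P.cons (P.cons (P.lf 0 2803240893 0) (P.cons (P.lf 148940406 0 0) (P.cons (P.lf 5053365 0 0) (P.lf 0 240624 0)))) (P.cons (P.cons (P.lf 695836497 0 0) (P.cons (P.lf 11841189 0 0) (P.cons (P.lf 401754 0 0) (P.lf 0 19125 0)))) (P.cons (P.cons (P.lf 206436351 0 0) (P.cons (P.lf 0 6719121 0) (P.cons (P.lf 0 227970 0) (P.lf 10854 0 0)))) (P.cons (P.cons (P.lf 0 9150126 0) (P.cons (P.lf 0 923883 0) (P.cons (P.lf 0 31335 0) P.nil))) (P.cons (P.cons (P.lf 0 4378869 0) (P.cons (P.lf 54990 0 0) P.nil)) (P.cons (P.cons (P.lf 0 100038 0) P.nil) P.nil)))))) 93915)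
 (EL.cons 8 (TM.mk (P.cons (P.cons (P.lf 1176461625 0 0) (P.cons (P.lf 0 62507178 0) (P.cons (P.lf 0 2120796 0) (P.lf 100995 0 0)))) (P.cons (P.cons (P.lf 0 579755727 0) (P.cons (P.lf 10317903 0 0) (P.cons (P.lf 350073 0 0) (P.lf 0 16665 0)))) (P.cons (P.cons (P.lf 2852070 0 0) (P.cons (P.lf 3075300 0 0) (P.cons (P.lf 104337 0 0) (P.lf 0 4965 0)))) (P.cons (P.cons (P.lf 18456393 0 0) (P.cons (P.lf 0 267312 0) (P.cons (P.lf 0 9066 0) P.nil))) (P.cons (P.cons (P.lf 259800 0 0) (P.cons (P.lf 0 74997 0) P.nil)) (P.cons (P.cons (P.lf 0 254865 0) P.nil) P.nil)))))) 56679)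
 (EL.cons 11 (TM.mk (P.cons (P.cons (P.lf 1685034549 0 0) (P.cons (P.lf 130250925 0 0) (P.cons (P.lf 0 8224122 0) (P.cons (P.lf 0 154215 0) (P.lf 5505 0 0))))) (P.cons (P.cons (P.lf 273037368 0 0) (P.cons (P.lf 21105423 0 0) (P.cons (P.lf 0 1332609 0) (P.cons (P.lf 0 24987 0) (P.lf 891 0 0))))) (P.cons (P.cons (P.lf 0 6291573 0) (P.cons (P.lf 0 486330 0) (P.cons (P.lf 30705 0 0) (P.cons (P.lf 573 0 0) P.nil)))) (P.cons (P.cons (P.lf 0 3033444 0) (P.cons (P.lf 0 234480 0) (P.cons (P.lf 14805 0 0) P.nil))) (P.cons (P.cons (P.lf 0 83271 0) (P.cons (P.lf 0 6435 0) P.nil)) (P.cons (P.cons (P.lf 14772 0 0) P.nil) P.nil)))))) 3519)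
 EL.nil)))
noncomputable def S169_198_364_401_22 : EL := (EL.cons 4 (TM.mk (P.cons (P.cons (P.lf 0 909644523 0) (P.cons (P.lf 115471485 0 0) (P.cons (P.lf 350520 0 0) (P.cons (P.lf 0 428622 0) (P.cons (P.lf 7419 0 0) (P.cons (P.lf 390 0 0) P.nil)))))) (P.cons (P.cons (P.lf 0 81344190 0) (P.cons (P.lf 19814148 0 0) (P.cons (P.lf 0 478386 0) (P.cons (P.lf 0 110088 0) (P.cons (P.lf 2391 0 0) P.nil))))) (P.cons (P.cons (P.lf 188193354 0 0) (P.cons (P.lf 0 11982108 0) (P.cons (P.lf 0 329682 0) (P.cons (P.lf 24573 0 0) P.nil)))) (P.cons (P.cons (P.lf 14234988 0 0) (P.cons (P.lf 0 2814246 0) (P.cons (P.lf 0 23238 0) P.nil))) (P.cons (P.cons (P.lf 0 7503912 0) (P.cons (P.lf 195477 0 0) P.nil)) (P.cons (P.cons (P.lf 0 772035 0) P.nil) P.nil)))))) 359409)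
 (EL.cons 8 (TM.mk (P.cons (P.cons (P.lf 381758796 0 0) (P.cons (P.lf 0 48460968 0) (P.cons (P.lf 0 147105 0) (P.cons (P.lf 179886 0 0) (P.cons (P.lf 0 3114 0) (P.cons (P.lf 0 162 0) P.nil)))))) (P.cons (P.cons (P.lf 0 59228442 0) (P.cons (P.lf 3536532 0 0) (P.cons (P.lf 236745 0 0) (P.cons (P.lf 2208 0 0) (P.cons (P.lf 0 240 0) P.nil))))) (P.cons (P.cons (P.lf 0 81467157 0) (P.cons (P.lf 6318138 0 0) (P.cons (P.lf 86997 0 0) (P.cons (P.lf 0 18846 0) P.nil)))) (P.cons (P.cons (P.lf 13189071 0 0) (P.cons (P.lf 0 90483 0) (P.cons (P.lf 0 20739 0) P.nil))) (P.cons (P.cons (P.lf 3393114 0 0) (P.cons (P.lf 0 286056 0) P.nil)) (P.cons (P.cons (P.lf 0 398280 0) P.nil) P.nil)))))) 188655)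
 (EL.cons 11 (TM.mk (P.cons (P.cons (P.lf 546789414 0 0) (P.cons (P.lf 1907661 0 0) (P.cons (P.lf 0 7157670 0) (P.cons (P.lf 106290 0 0) (P.cons (P.lf 17202 0 0) (P.cons (P.lf 0 324 0) P.nil)))))) (P.cons (P.cons (P.lf 273223308 0 0) (P.cons (P.lf 4770933 0 0) (P.cons (P.lf 0 3151956 0) (P.cons (P.lf 38322 0 0) (P.cons (P.lf 7137 0 0) P.nil))))) (P.cons (P.cons (P.lf 845649 0 0) (P.cons (P.lf 0 1544742 0) (P.cons (P.lf 0 183216 0) (P.cons (P.lf 6156 0 0) P.nil)))) (P.cons (P.cons (P.lf 0 9507900 0) (P.cons (P.lf 0 515403 0) (P.cons (P.lf 70821 0 0) P.nil))) (P.cons (P.cons (P.lf 0 612333 0) (P.cons (P.lf 5538 0 0) P.nil)) (P.cons (P.cons (P.lf 131685 0 0) P.nil) P.nil)))))) 60813)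
 EL.nil)))
noncomputable def S169_198_364_401_23 : EL := (EL.cons 4 (TM.mk (P.cons (P.cons (P.lf 1443095592 0 0) (P.cons (P.lf 0 76673838 0) (P.cons (P.lf 0 2601447 0) (P.lf 123870 0 0)))) (P.cons (P.cons (P.lf 0 594234732 0) (P.cons (P.lf 6444375 0 0) (P.cons (P.lf 218649 0 0) (P.lf 0 10413 0)))) (P.cons (P.cons (P.lf 0 61548198 0) (P.cons (P.lf 5192472 0 0) (P.cons (P.lf 176172 0 0) (P.lf 0 8385 0)))) (P.cons (P.cons (P.lf 25887495 0 0) (P.cons (P.lf 0 50415 0) (P.cons (P.lf 0 1716 0) P.nil))) (P.cons (P.cons (P.lf 2480004 0 0) (P.cons (P.lf 0 144192 0) P.nil)) (P.cons (P.cons (P.lf 0 403308 0) P.nil) P.nil)))))) 111051)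
 (EL.cons 8 (TM.mk (P.cons (P.cons (P.lf 0 605637063 0) (P.cons (P.lf 32178408 0 0) (P.cons (P.lf 1091775 0 0) (P.lf 0 51990 0)))) (P.cons (P.cons (P.lf 397508799 0 0) (P.cons (P.lf 0 10574454 0) (P.cons (P.lf 0 358776 0) (P.lf 17082 0 0)))) (P.cons (P.cons (P.lf 0 44463561 0) (P.cons (P.lf 0 1023528 0) (P.cons (P.lf 0 34725 0) (P.lf 1650 0 0)))) (P.cons (P.cons (P.lf 0 12277059 0) (P.cons (P.lf 455475 0 0) (P.cons (P.lf 15450 0 0) P.nil))) (P.cons (P.cons (P.lf 1481097 0 0) (P.cons (P.lf 31416 0 0) P.nil)) (P.cons (P.cons (P.lf 256680 0 0) P.nil) P.nil)))))) 72399)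
 (EL.cons 11 (TM.mk (P.cons (P.cons (P.lf 0 867448080 0) (P.cons (P.lf 0 67052580 0) (P.cons (P.lf 4233738 0 0) (P.cons (P.lf 79389 0 0) (P.lf 0 2832 0))))) (P.cons (P.cons (P.lf 1314549 0 0) (P.cons (P.lf 101613 0 0) (P.cons (P.lf 0 6414 0) (P.cons (P.lf 0 120 0) (P.lf 3 0 0))))) (P.cons (P.cons (P.lf 34560129 0 0) (P.cons (P.lf 2671449 0 0) (P.cons (P.lf 0 168675 0) (P.cons (P.lf 0 3159 0) P.nil)))) (P.cons (P.cons (P.lf 2168682 0 0) (P.cons (P.lf 167634 0 0) (P.cons (P.lf 0 10584 0) P.nil))) (P.cons (P.cons (P.lf 0 316371 0) (P.cons (P.lf 0 24453 0) P.nil)) (P.cons (P.cons (P.lf 0 35610 0) P.nil) P.nil)))))) 9432)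
 EL.nil)))
noncomputable def S169_198_364_401_24 : EL := (EL.cons 4 (TM.mk (P.cons (P.cons (P.lf 468280839 0 0) (P.cons (P.lf 0 59444190 0) (P.cons (P.lf 0 180444 0) (P.cons (P.lf 220650 0 0) (P.cons (P.lf 0 3819 0) (P.cons (P.lf 0 201 0) P.nil)))))) (P.cons (P.cons (P.lf 0 34712685 0) (P.cons (P.lf 0 478011 0) (P.cons (P.lf 275784 0 0) (P.cons (P.lf 20583 0 0) (P.cons (P.lf 0 606 0) P.nil))))) (P.cons (P.cons (P.lf 0 108228192 0) (P.cons (P.lf 8407617 0 0) (P.cons (P.lf 131172 0 0) (P.cons (P.lf 0 24036 0) P.nil)))) (P.cons (P.cons (P.lf 8229933 0 0) (P.cons (P.lf 523275 0 0) (P.cons (P.lf 0 18204 0) P.nil))) (P.cons (P.cons (P.lf 6023031 0 0) (P.cons (P.lf 0 401952 0) P.nil)) (P.cons (P.cons (P.lf 0 185622 0) P.nil) P.nil)))))) 323484)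
 (EL.cons 8 (TM.mk (P.cons (P.cons (P.lf 0 196527681 0) (P.cons (P.lf 24947484 0 0) (P.cons (P.lf 75729 0 0) (P.cons (P.lf 0 92604 0) (P.cons (P.lf 1602 0 0) (P.cons (P.lf 84 0 0) P.nil)))))) (P.cons (P.cons (P.lf 62633043 0 0) (P.cons (P.lf 0 5900802 0) (P.cons (P.lf 0 134259 0) (P.cons (P.lf 14007 0 0) (P.cons (P.lf 0 135 0) P.nil))))) (P.cons (P.cons (P.lf 38839959 0 0) (P.cons (P.lf 0 3194430 0) (P.cons (P.lf 0 25578 0) (P.cons (P.lf 10776 0 0) P.nil)))) (P.cons (P.cons (P.lf 0 13990104 0) (P.cons (P.lf 602166 0 0) (P.cons (P.lf 19191 0 0) P.nil))) (P.cons (P.cons (P.lf 0 1040298 0) (P.cons (P.lf 171534 0 0) P.nil)) (P.cons (P.cons (P.lf 567459 0 0) P.nil) P.nil)))))) 110868)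
 (EL.cons 11 (TM.mk (P.cons (P.cons (P.lf 0 281484690 0) (P.cons (P.lf 0 982053 0) (P.cons (P.lf 3684735 0 0) (P.cons (P.lf 0 54717 0) (P.cons (P.lf 0 8856 0) (P.cons (P.lf 165 0 0) P.nil)))))) (P.cons (P.cons (P.lf 0 94616700 0) (P.cons (P.lf 0 2295438 0) (P.cons (P.lf 1019967 0 0) (P.cons (P.lf 0 10779 0) (P.cons (P.lf 0 2223 0) P.nil))))) (P.cons (P.cons (P.lf 25272855 0 0) (P.cons (P.lf 1206351 0 0) (P.cons (P.lf 0 206457 0) (P.cons (P.lf 582 0 0) P.nil)))) (P.cons (P.cons (P.lf 6247692 0 0) (P.cons (P.lf 158616 0 0) (P.cons (P.lf 0 66564 0) P.nil))) (P.cons (P.cons (P.lf 0 528096 0) (P.cons (P.lf 0 54531 0) P.nil)) (P.cons (P.cons (P.lf 0 172854 0) P.nil) P.nil)))))) 58074)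
 EL.nil)))
noncomputable def S169_198_364_401_25 : EL := (EL.cons 4 (TM.mk (P.cons (P.cons (P.lf 0 742899012 0) (P.cons (P.lf 39471342 0 0) (P.cons (P.lf 1339212 0 0) (P.lf 0 63768 0)))) (P.cons (P.cons (P.lf 427412001 0 0) (P.cons (P.lf 0 9773154 0) (P.cons (P.lf 0 331590 0) (P.lf 15789 0 0)))) (P.cons (P.cons (P.lf 0 11211141 0) (P.cons (P.lf 0 2509629 0) (P.cons (P.lf 0 85146 0) (P.lf 4053 0 0)))) (P.cons (P.cons (P.lf 0 21630159 0) (P.cons (P.lf 504717 0 0) (P.cons (P.lf 17127 0 0) P.nil))) (P.cons (P.cons (P.lf 641145 0 0) (P.cons (P.lf 96582 0 0) P.nil)) (P.cons (P.cons (P.lf 565164 0 0) P.nil) P.nil)))))) 96765)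
 (EL.cons 8 (TM.mk (P.cons (P.cons (P.lf 311779191 0 0) (P.cons (P.lf 0 16565298 0) (P.cons (P.lf 0 562041 0) (P.lf 26763 0 0)))) (P.cons (P.cons (P.lf 0 255627846 0) (P.cons (P.lf 8152968 0 0) (P.cons (P.lf 276618 0 0) (P.lf 0 13170 0)))) (P.cons (P.cons (P.lf 53363307 0 0) (P.cons (P.lf 0 204291 0) (P.cons (P.lf 0 6930 0) (P.lf 330 0 0)))) (P.cons (P.cons (P.lf 4618935 0 0) (P.cons (P.lf 0 377019 0) (P.cons (P.lf 0 12789 0) P.nil))) (P.cons (P.cons (P.lf 0 2052642 0) (P.cons (P.lf 17724 0 0) P.nil)) (P.cons (P.cons (P.lf 0 71295 0) P.nil) P.nil)))))) 79131)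
 (EL.cons 11 (TM.mk (P.cons (P.cons (P.lf 446558304 0 0) (P.cons (P.lf 34518360 0 0) (P.cons (P.lf 0 2179509 0) (P.cons (P.lf 0 40869 0) (P.lf 1458 0 0))))) (P.cons (P.cons (P.lf 0 73712262 0) (P.cons (P.lf 0 5697858 0) (P.cons (P.lf 359766 0 0) (P.cons (P.lf 6744 0 0) (P.lf 0 240 0))))) (P.cons (P.cons (P.lf 0 21970320 0) (P.cons (P.lf 0 1698276 0) (P.cons (P.lf 107229 0 0) (P.cons (P.lf 2007 0 0) P.nil)))) (P.cons (P.cons (P.lf 1909743 0 0) (P.cons (P.lf 147618 0 0) (P.cons (P.lf 0 9318 0) P.nil))) (P.cons (P.cons (P.lf 535833 0 0) (P.cons (P.lf 41418 0 0) P.nil)) (P.cons (P.cons (P.lf 0 1668 0) P.nil) P.nil)))))) 14754)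
 EL.nil)))
noncomputable def S169_198_364_401_26 : EL := (EL.cons 4 (TM.mk (P.cons (P.cons (P.lf 0 241068834 0) (P.cons (P.lf 30601596 0 0) (P.cons (P.lf 92892 0 0) (P.cons (P.lf 0 113589 0) (P.cons (P.lf 1965 0 0) (P.cons (P.lf 102 0 0) P.nil)))))) (P.cons (P.cons (P.lf 57297240 0 0) (P.cons (P.lf 0 4758876 0) (P.cons (P.lf 0 157164 0) (P.cons (P.lf 7980 0 0) (P.cons (P.lf 0 6 0) P.nil))))) (P.cons (P.cons (P.lf 55108401 0 0) (P.cons (P.lf 0 4662405 0) (P.cons (P.lf 0 45198 0) (P.cons (P.lf 15198 0 0) P.nil)))) (P.cons (P.cons (P.lf 0 13580055 0) (P.cons (P.lf 443667 0 0) (P.cons (P.lf 21801 0 0) P.nil))) (P.cons (P.cons (P.lf 0 2949105 0) (P.cons (P.lf 293964 0 0) P.nil)) (P.cons (P.cons (P.lf 657690 0 0) P.nil) P.nil)))))) 281673)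
 (EL.cons 8 (TM.mk (P.cons (P.cons (P.lf 101171550 0 0) (P.cons (P.lf 0 12842850 0) (P.cons (P.lf 0 38985 0) (P.cons (P.lf 47670 0 0) (P.cons (P.lf 0 825 0) (P.cons (P.lf 0 42 0) P.nil)))))) (P.cons (P.cons (P.lf 0 48790020 0) (P.cons (P.lf 5138181 0 0) (P.cons (P.lf 75492 0 0) (P.cons (P.lf 0 15006 0) (P.cons (P.lf 204 0 0) P.nil))))) (P.cons (P.cons (P.lf 0 15693036 0) (P.cons (P.lf 1271022 0 0) (P.cons (P.lf 2238 0 0) (P.cons (P.lf 0 4827 0) P.nil)))) (P.cons (P.cons (P.lf 10806819 0 0) (P.cons (P.lf 0 611289 0) (P.cons (P.lf 0 12705 0) P.nil))) (P.cons (P.cons (P.lf 0 453783 0) (P.cons (P.lf 0 53217 0) P.nil)) (P.cons (P.cons (P.lf 0 455160 0) P.nil) P.nil)))))) 117003)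
 (EL.cons 11 (TM.mk (P.cons (P.cons (P.lf 144907029 0 0) (P.cons (P.lf 505557 0 0) (P.cons (P.lf 0 1896885 0) (P.cons (P.lf 28167 0 0) (P.cons (P.lf 4557 0 0) (P.cons (P.lf 0 84 0) P.nil)))))) (P.cons (P.cons (P.lf 25008399 0 0) (P.cons (P.lf 1098993 0 0) (P.cons (P.lf 0 214833 0) (P.cons (P.lf 942 0 0) (P.cons (P.lf 399 0 0) P.nil))))) (P.cons (P.cons (P.lf 0 22368651 0) (P.cons (P.lf 0 819147 0) (P.cons (P.lf 210381 0 0) (P.cons (P.lf 0 1476 0) P.nil)))) (P.cons (P.cons (P.lf 0 1520655 0) (P.cons (P.lf 8685 0 0) (P.cons (P.lf 21459 0 0) P.nil))) (P.cons (P.cons (P.lf 941220 0 0) (P.cons (P.lf 47706 0 0) P.nil)) (P.cons (P.cons (P.lf 74460 0 0) P.nil) P.nil)))))) 63765)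
 EL.nil)))
noncomputable def S169_198_364_401_27 : EL := (EL.cons 13 (TM.mk (P.lf 0 4294967296 0) 0)
 EL.nil)
noncomputable def S169_198_364_401_28 : EL := (EL.cons 13 (TM.mk (P.cons (P.cons (P.lf 0 1393705938 0) (P.cons (P.lf 102869192 0 0) (P.cons (P.lf 3490228 0 0) (P.lf 0 166196 0)))) (P.cons (P.cons (P.lf 0 470584639 0) (P.cons (P.lf 25002868 0 0) (P.cons (P.lf 848316 0 0) (P.lf 0 40392 0)))) (P.cons (P.cons (P.lf 68892679 0 0) (P.cons (P.lf 436704 0 0) (P.cons (P.lf 14816 0 0) (P.lf 0 704 0)))) (P.cons (P.cons (P.lf 8805404 0 0) (P.cons (P.lf 0 351808 0) (P.cons (P.lf 0 11932 0) P.nil))) (P.cons (P.cons (P.lf 0 524829 0) (P.cons (P.lf 0 26036 0) P.nil)) (P.cons (P.cons (P.lf 0 104750 0) P.nil) P.nil)))))) 15949)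
 EL.nil)
noncomputable def S169_198_364_401_29 : EL := (EL.cons 13 (TM.mk (P.cons (P.cons (P.lf 0 452254023 0) (P.cons (P.lf 66761581 0 0) (P.cons (P.lf 0 198690 0) (P.cons (P.lf 0 275049 0) (P.cons (P.lf 5124 0 0) (P.cons (P.lf 270 0 0) P.nil)))))) (P.cons (P.cons (P.lf 0 305407031 0) (P.cons (P.lf 38768773 0 0) (P.cons (P.lf 117684 0 0) (P.cons (P.lf 0 143905 0) (P.cons (P.lf 2491 0 0) P.nil))))) (P.cons (P.cons (P.lf 0 6849325 0) (P.cons (P.lf 2462262 0 0) (P.cons (P.lf 0 82930 0) (P.cons (P.lf 0 15272 0) P.nil)))) (P.cons (P.cons (P.lf 20811325 0 0) (P.cons (P.lf 0 1356531 0) (P.cons (P.lf 0 34254 0) P.nil))) (P.cons (P.cons (P.lf 483882 0 0) (P.cons (P.lf 0 185379 0) P.nil)) (P.cons (P.cons (P.lf 0 465472 0) P.nil) P.nil)))))) 132398)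
 EL.nil)
noncomputable def S169_198_364_401_30 : EL := (EL.cons 13 (TM.mk (P.cons (P.lf 2211029524 0 0) (P.cons (P.lf 0 361618480 0) (P.cons (P.lf 0 21238980 0) (P.cons (P.lf 543904 0 0) (P.cons (P.lf 97232 0 0) (P.cons (P.lf 1560 0 0) P.nil)))))) 512)
 EL.nil)
noncomputable def S169_198_364_401_31 : EL := (EL.cons 13 (TM.mk (P.cons (P.cons (P.lf 717473443 0 0) (P.cons (P.lf 0 52956589 0) (P.cons (P.lf 0 1796753 0) (P.lf 85556 0 0)))) (P.cons (P.cons (P.lf 124910545 0 0) (P.cons (P.lf 0 4210201 0) (P.cons (P.lf 0 142846 0) (P.lf 6800 0 0)))) (P.cons (P.cons (P.lf 0 81978910 0) (P.cons (P.lf 2389021 0 0) (P.cons (P.lf 81056 0 0) (P.lf 0 3860 0)))) (P.cons (P.cons (P.lf 0 883088 0) (P.cons (P.lf 328492 0 0) (P.cons (P.lf 11142 0 0) P.nil))) (P.cons (P.cons (P.lf 1443383 0 0) (P.cons (P.lf 0 19553 0) P.nil)) (P.cons (P.cons (P.lf 55715 0 0) P.nil) P.nil)))))) 31437)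
 EL.nil)
noncomputable def S169_198_364_401_32 : EL := (EL.cons 13 (TM.mk (P.cons (P.cons (P.lf 232818302 0 0) (P.cons (P.lf 0 34368556 0) (P.cons (P.lf 102284 0 0) (P.cons (P.lf 141593 0 0) (P.cons (P.lf 0 2637 0) (P.cons (P.lf 0 138 0) P.nil)))))) (P.cons (P.cons (P.lf 119144225 0 0) (P.cons (P.lf 0 14336938 0) (P.cons (P.lf 0 77312 0) (P.cons (P.lf 50923 0 0) (P.cons (P.lf 0 850 0) P.nil))))) (P.cons (P.cons (P.lf 0 24424442 0) (P.cons (P.lf 2326750 0 0) (P.cons (P.lf 51617 0 0) (P.cons (P.lf 0 5614 0) P.nil)))) (P.cons (P.cons (P.lf 0 12743251 0) (P.cons (P.lf 1088908 0 0) (P.cons (P.lf 11258 0 0) P.nil))) (P.cons (P.cons (P.lf 1518171 0 0) (P.cons (P.lf 0 13026 0) P.nil)) (P.cons (P.cons (P.lf 391223 0 0) P.nil) P.nil)))))) 158180)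
 EL.nil)
noncomputable def S169_198_364_401_33 : EL := (EL.cons 14 (TM.mk (P.lf 8589934592 0 0) 0)
 EL.nil)
noncomputable def S169_198_364_401_34 : EL := (EL.cons 14 (TM.mk (P.cons (P.cons (P.lf 2787411876 0 0) (P.cons (P.lf 0 205738384 0) (P.cons (P.lf 0 6980456 0) (P.lf 332392 0 0)))) (P.cons (P.cons (P.lf 941169278 0 0) (P.cons (P.lf 0 50005736 0) (P.cons (P.lf 0 1696632 0) (P.lf 80784 0 0)))) (P.cons (P.cons (P.lf 0 137785358 0) (P.cons (P.lf 0 873408 0) (P.cons (P.lf 0 29632 0) (P.lf 1408 0 0)))) (P.cons (P.cons (P.lf 0 17610808 0) (P.cons (P.lf 703616 0 0) (P.cons (P.lf 23864 0 0) P.nil))) (P.cons (P.cons (P.lf 1049658 0 0) (P.cons (P.lf 52072 0 0) P.nil)) (P.cons (P.cons (P.lf 209500 0 0) P.nil) P.nil)))))) 31898)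
 EL.nil)
noncomputable def S169_198_364_401_35 : EL := (EL.cons 14 (TM.mk (P.cons (P.cons (P.lf 904508046 0 0) (P.cons (P.lf 0 133523162 0) (P.cons (P.lf 397380 0 0) (P.cons (P.lf 550098 0 0) (P.cons (P.lf 0 10248 0) (P.cons (P.lf 0 540 0) P.nil)))))) (P.cons (P.cons (P.lf 610814062 0 0) (P.cons (P.lf 0 77537546 0) (P.cons (P.lf 0 235368 0) (P.cons (P.lf 287810 0 0) (P.cons (P.lf 0 4982 0) P.nil))))) (P.cons (P.cons (P.lf 13698650 0 0) (P.cons (P.lf 0 4924524 0) (P.cons (P.lf 165860 0 0) (P.cons (P.lf 30544 0 0) P.nil)))) (P.cons (P.cons (P.lf 0 41622650 0) (P.cons (P.lf 2713062 0 0) (P.cons (P.lf 68508 0 0) P.nil))) (P.cons (P.cons (P.lf 0 967764 0) (P.cons (P.lf 370758 0 0) P.nil)) (P.cons (P.cons (P.lf 930944 0 0) P.nil) P.nil)))))) 264796)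
 EL.nil)
noncomputable def S169_198_364_401_36 : EL := (EL.cons 14 (TM.mk (P.cons (P.lf 0 4422059048 0) (P.cons (P.lf 723236960 0 0) (P.cons (P.lf 42477960 0 0) (P.cons (P.lf 0 1087808 0) (P.cons (P.lf 0 194464 0) (P.cons (P.lf 0 3120 0) P.nil)))))) 1024)
 EL.nil)
noncomputable def S169_198_364_401_37 : EL := (EL.cons 14 (TM.mk (P.cons (P.cons (P.lf 0 1434946886 0) (P.cons (P.lf 105913178 0 0) (P.cons (P.lf 3593506 0 0) (P.lf 0 171112 0)))) (P.cons (P.cons (P.lf 0 249821090 0) (P.cons (P.lf 8420402 0 0) (P.cons (P.lf 285692 0 0) (P.lf 0 13600 0)))) (P.cons (P.cons (P.lf 163957820 0 0) (P.cons (P.lf 0 4778042 0) (P.cons (P.lf 0 162112 0) (P.lf 7720 0 0)))) (P.cons (P.cons (P.lf 1766176 0 0) (P.cons (P.lf 0 656984 0) (P.cons (P.lf 0 22284 0) P.nil))) (P.cons (P.cons (P.lf 0 2886766 0) (P.cons (P.lf 39106 0 0) P.nil)) (P.cons (P.cons (P.lf 0 111430 0) P.nil) P.nil))))))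 62874)
 EL.nil)
noncomputable def S169_198_364_401_38 : EL := (EL.cons 14 (TM.mk (P.cons (P.cons (P.lf 0 465636604 0) (P.cons (P.lf 68737112 0 0) (P.cons (P.lf 0 204568 0) (P.cons (P.lf 0 283186 0) (P.cons (P.lf 5274 0 0) (P.cons (P.lf 276 0 0) P.nil)))))) (P.cons (P.cons (P.lf 0 238288450 0) (P.cons (P.lf 28673876 0 0) (P.cons (P.lf 154624 0 0) (P.cons (P.lf 0 101846 0) (P.cons (P.lf 1700 0 0) P.nil))))) (P.cons (P.cons (P.lf 48848884 0 0) (P.cons (P.lf 0 4653500 0) (P.cons (P.lf 0 103234 0) (P.cons (P.lf 11228 0 0) P.nil)))) (P.cons (P.cons (P.lf 25486502 0 0) (P.cons (P.lf 0 2177816 0) (P.cons (P.lf 0 22516 0) P.nil))) (P.cons (P.cons (P.lf 0 3036342 0) (P.cons (P.lf 26052 0 0) P.nil)) (P.cons (P.cons (P.lf 0 782446 0) P.nil) P.nil)))))) 316360)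
 EL.nil)
noncomputable def S169_198_364_401_39 : EL := (EL.cons 14 (TM.mk (P.cons (P.lf 2276455776 0 0) (P.cons (P.lf 0 744638158 0) (P.cons (P.lf 17158640 0 0) (P.cons (P.lf 8272934 0 0) (P.cons (P.lf 227096 0 0) (P.cons (P.lf 0 40292 0) P.nil)))))) 3922)
 EL.nil)
noncomputable def S169_198_364_401_40 : EL := (EL.cons 14 (TM.mk (P.cons (P.cons (P.lf 738704094 0 0) (P.cons (P.lf 0 54523620 0) (P.cons (P.lf 0 1849920 0) (P.lf 88088 0 0)))) (P.cons (P.cons (P.lf 7790162 0 0) (P.cons (P.lf 4582666 0 0) (P.cons (P.lf 155484 0 0) (P.lf 0 7404 0)))) (P.cons (P.cons (P.lf 0 112534574 0) (P.cons (P.lf 3692426 0 0) (P.cons (P.lf 125278 0 0) (P.lf 0 5964 0)))) (P.cons (P.cons (P.lf 11841680 0 0) (P.cons (P.lf 0 35852 0) (P.cons (P.lf 0 1218 0) P.nil))) (P.cons (P.cons (P.lf 2509706 0 0) (P.cons (P.lf 0 102538 0) P.nil)) (P.cons (P.cons (P.lf 0 191542 0) P.nil) P.nil)))))) 76384)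
 EL.nil)
noncomputable def S169_198_364_401_41 : EL := (EL.cons 14 (TM.mk (P.cons (P.cons (P.lf 239707594 0 0) (P.cons (P.lf 0 35385550 0) (P.cons (P.lf 105310 0 0) (P.cons (P.lf 145782 0 0) (P.cons (P.lf 0 2714 0) (P.cons (P.lf 0 142 0) P.nil)))))) (P.cons (P.cons (P.lf 83465128 0 0) (P.cons (P.lf 0 8973798 0) (P.cons (P.lf 0 96822 0) (P.cons (P.lf 28586 0 0) (P.cons (P.lf 0 430 0) P.nil))))) (P.cons (P.cons (P.lf 0 47512696 0) (P.cons (P.lf 5149734 0 0) (P.cons (P.lf 65152 0 0) (P.cons (P.lf 0 15756 0) P.nil)))) (P.cons (P.cons (P.lf 0 10126850 0) (P.cons (P.lf 862414 0 0) (P.cons (P.lf 3690 0 0) P.nil))) (P.cons (P.cons (P.lf 3991232 0 0) (P.cons (P.lf 0 224974 0) P.nil)) (P.cons (P.cons (P.lf 272562 0 0) P.nil) P.nil)))))) 286700)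
 EL.nil)
noncomputable def S169_198_364_401_42 : EL := (EL.cons 14 (TM.mk (P.cons (P.lf 0 1171909022 0) (P.cons (P.lf 575004478 0 0) (P.cons (P.lf 0 60271372 0) (P.cons (P.lf 0 6784766 0) (P.cons (P.lf 707252 0 0) (P.cons (P.lf 94630 0 0) P.nil)))))) 9404)
 EL.nil)
noncomputable def S169_198_364_401_43 : EL := (EL.cons 14 (TM.mk (P.cons (P.cons (P.lf 0 380281488 0) (P.cons (P.lf 28068510 0 0) (P.cons (P.lf 952330 0 0) (P.lf 0 45346 0)))) (P.cons (P.cons (P.lf 58185488 0 0) (P.cons (P.lf 0 6949798 0) (P.cons (P.lf 0 235798 0) (P.lf 11228 0 0)))) (P.cons (P.cons (P.lf 62241138 0 0) (P.cons (P.lf 0 1784626 0) (P.cons (P.lf 0 60550 0) (P.lf 2882 0 0)))) (P.cons (P.cons (P.lf 0 15626012 0) (P.cons (P.lf 358910 0 0) (P.cons (P.lf 12178 0 0) P.nil))) (P.cons (P.cons (P.lf 0 869166 0) (P.cons (P.lf 68680 0 0) P.nil)) (P.cons (P.cons (P.lf 382276 0 0) P.nil) P.nil)))))) 96446)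
 EL.nil)
noncomputable def S169_198_364_401_44 : EL := (EL.cons 14 (TM.mk (P.cons (P.cons (P.lf 0 123400372 0) (P.cons (P.lf 18216320 0 0) (P.cons (P.lf 0 54212 0) (P.cons (P.lf 0 75048 0) (P.cons (P.lf 1398 0 0) (P.cons (P.lf 72 0 0) P.nil)))))) (P.cons (P.cons (P.lf 0 22785078 0) (P.cons (P.lf 1640354 0 0) (P.cons (P.lf 58710 0 0) (P.cons (P.lf 0 2442 0) (P.cons (P.lf 0 6 0) P.nil))))) (P.cons (P.cons (P.lf 32672112 0 0) (P.cons (P.lf 0 3581600 0) (P.cons (P.lf 0 41170 0) (P.cons (P.lf 11238 0 0) P.nil)))) (P.cons (P.cons (P.lf 1595270 0 0) (P.cons (P.lf 0 50274 0) (P.cons (P.lf 3092 0 0) P.nil))) (P.cons (P.cons (P.lf 0 3158258 0) (P.cons (P.lf 215830 0 0) P.nil)) (P.cons (P.cons (P.lf 149692 0 0) P.nil) P.nil)))))) 254494)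
 EL.nil)
noncomputable def S169_198_364_401_45 : EL := (EL.cons 14 (TM.mk (P.cons (P.cons (P.lf 293510554 0 0) (P.cons (P.lf 0 64991888 0) (P.cons (P.lf 2591942 0 0) (P.cons (P.lf 312492 0 0) (P.cons (P.lf 0 21990 0) (P.cons (P.lf 0 360 0) P.nil)))))) (P.cons (P.cons (P.lf 297311408 0 0) (P.cons (P.lf 0 59685606 0) (P.cons (P.lf 1926548 0 0) (P.cons (P.lf 278514 0 0) (P.cons (P.lf 0 16978 0) P.nil))))) (P.cons (P.cons (P.lf 56861346 0 0) (P.cons (P.lf 0 11927638 0) (P.cons (P.lf 469664 0 0) (P.cons (P.lf 56178 0 0) P.nil)))) (P.cons (P.cons (P.lf 0 23657580 0) (P.cons (P.lf 2787436 0 0) (P.cons (P.lf 35520 0 0) P.nil))) (P.cons (P.cons (P.lf 0 6235960 0) (P.cons (P.lf 958816 0 0) P.nil)) (P.cons (P.cons (P.lf 932310 0 0) P.nil) P.nil)))))) 635640)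
 EL.nil)
noncomputable def S169_198_364_401_46 : EL := (EL.cons 15 (TM.mk (P.lf 4294967296 0 0) 0)
 EL.nil)
noncomputable def S169_198_364_401_47 : EL := (EL.cons 15 (TM.mk (P.cons (P.cons (P.lf 1393705938 0 0) (P.cons (P.lf 0 102869192 0) (P.cons (P.lf 0 3490228 0) (P.lf 166196 0 0)))) (P.cons (P.cons (P.lf 470584639 0 0) (P.cons (P.lf 0 25002868 0) (P.cons (P.lf 0 848316 0) (P.lf 40392 0 0)))) (P.cons (P.cons (P.lf 0 68892679 0) (P.cons (P.lf 0 436704 0) (P.cons (P.lf 0 14816 0) (P.lf 704 0 0)))) (P.cons (P.cons (P.lf 0 8805404 0) (P.cons (P.lf 351808 0 0) (P.cons (P.lf 11932 0 0) P.nil))) (P.cons (P.cons (P.lf 524829 0 0) (P.cons (P.lf 26036 0 0) P.nil)) (P.cons (P.cons (P.lf 104750 0 0) P.nil) P.nil)))))) 15949)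
 EL.nil)
noncomputable def S169_198_364_401_48 : EL := (EL.cons 15 (TM.mk (P.cons (P.cons (P.lf 452254023 0 0) (P.cons (P.lf 0 66761581 0) (P.cons (P.lf 198690 0 0) (P.cons (P.lf 275049 0 0) (P.cons (P.lf 0 5124 0) (P.cons (P.lf 0 270 0) P.nil)))))) (P.cons (P.cons (P.lf 305407031 0 0) (P.cons (P.lf 0 38768773 0) (P.cons (P.lf 0 117684 0) (P.cons (P.lf 143905 0 0) (P.cons (P.lf 0 2491 0) P.nil))))) (P.cons (P.cons (P.lf 6849325 0 0) (P.cons (P.lf 0 2462262 0) (P.cons (P.lf 82930 0 0) (P.cons (P.lf 15272 0 0) P.nil)))) (P.cons (P.cons (P.lf 0 20811325 0) (P.cons (P.lf 1356531 0 0) (P.cons (P.lf 34254 0 0) P.nil))) (P.cons (P.cons (P.lf 0 483882 0) (P.cons (P.lf 185379 0 0) P.nil)) (P.cons (P.cons (P.lf 465472 0 0) P.nil) P.nil)))))) 132398)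
 EL.nil)
noncomputable def S169_198_364_401 : SL := (SL.cons S169_198_364_401_0 (SL.cons S169_198_364_401_1 (SL.cons S169_198_364_401_2 (SL.cons S169_198_364_401_3 (SL.cons S169_198_364_401_4 (SL.cons S169_198_364_401_5 (SL.cons S169_198_364_401_6 (SL.cons S169_198_364_401_7 (SL.cons S169_198_364_401_8 (SL.cons S169_198_364_401_9 (SL.cons S169_198_364_401_10 (SL.cons S169_198_364_401_11 (SL.cons S169_198_364_401_12 (SL.cons S169_198_364_401_13 (SL.cons S169_198_364_401_14 (SL.cons S169_198_364_401_15 (SL.cons S169_198_364_401_16 (SL.cons S169_198_364_401_17 (SL.cons S169_198_364_401_18 (SL.cons S169_198_364_401_19 (SL.cons S169_198_364_401_20 (SL.cons S169_198_364_401_21 (SL.cons S169_198_364_401_22 (SL.cons S169_198_364_401_23 (SL.cons S169_198_364_401_24 (SL.cons S169_198_364_401_25 (SL.cons S169_198_364_401_26 (SL.cons S169_198_364_401_27 (SL.cons S169_198_364_401_28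 (SL.cons S169_198_364_401_29 (SL.cons S169_198_364_401_30 (SL.cons S169_198_364_401_31 (SL.cons S169_198_364_401_32 (SL.cons S169_198_364_401_33 (SL.cons S169_198_364_401_34 (SL.cons S169_198_364_401_35 (SL.cons S169_198_364_401_36 (SL.cons S169_198_364_401_37 (SL.cons S169_198_364_401_38 (SL.cons S169_198_364_401_39 (SL.cons S169_198_364_401_40 (SL.cons S169_198_364_401_41 (SL.cons S169_198_364_401_42 (SL.cons S169_198_364_401_43 (SL.cons S169_198_364_401_44 (SL.cons S169_198_364_401_45 (SL.cons S169_198_364_401_46 (SL.cons S169_198_364_401_47 (SL.cons S169_198_364_401_48 SL.nil)))))))))))))))))))))))))))))))))))))))))))))))))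
noncomputable def S169_198_364_438_0 : EL := (EL.cons 0 (TM.mk (P.cons (P.lf 6454925654 0 0) (P.cons (P.lf 654467131 0 0) (P.cons (P.lf 0 15080835 0) (P.cons (P.lf 0 7271133 0) (P.cons (P.lf 0 199596 0) (P.cons (P.lf 35412 0 0) P.nil)))))) 3454)
 (EL.cons 1 (TM.mk (P.cons (P.lf 0 1695086628 0) (P.cons (P.lf 139901857 0 0) (P.cons (P.lf 47471786 0 0) (P.cons (P.lf 293435 0 0) (P.cons (P.lf 0 328029 0) (P.cons (P.lf 0 15684 0) P.nil)))))) 1940)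
 (EL.cons 5 (TM.mk (P.cons (P.lf 5006359730 0 0) (P.cons (P.lf 0 232699422 0) (P.cons (P.lf 5362070 0 0) (P.cons (P.lf 2585292 0 0) (P.cons (P.lf 70970 0 0) (P.cons (P.lf 0 12590 0) P.nil)))))) 1169)
 (EL.cons 9 (TM.mk (P.lf 6442450944 0 0) 2)
 EL.nil))))
noncomputable def S169_198_364_438_1 : EL := (EL.cons 0 (TM.mk (P.cons (P.cons (P.lf 0 622386679 0) (P.cons (P.lf 0 23044207 0) (P.cons (P.lf 0 1260893 0) (P.lf 140100 0 0)))) (P.cons (P.cons (P.lf 1966360289 0 0) (P.cons (P.lf 0 138904310 0) (P.cons (P.lf 0 7600284 0) (P.lf 844472 0 0)))) (P.cons (P.cons (P.lf 64389556 0 0) (P.cons (P.lf 0 29426157 0) (P.cons (P.lf 0 1610072 0) (P.lf 178887 0 0)))) (P.cons (P.cons (P.lf 0 75437299 0) (P.cons (P.lf 1740491 0 0) (P.cons (P.lf 95231 0 0) P.nil))) (P.cons (P.cons (P.lf 0 5397497 0) (P.cons (P.lf 875384 0 0) P.nil)) (P.cons (P.cons (P.lf 1146211 0 0) P.nil) P.nil))))))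 461797)
 (EL.cons 1 (TM.mk (P.cons (P.cons (P.lf 0 1054820610 0) (P.cons (P.lf 151650614 0 0) (P.cons (P.lf 8297703 0 0) (P.lf 0 921961 0)))) (P.cons (P.cons (P.lf 0 294287127 0) (P.cons (P.lf 55714784 0 0) (P.cons (P.lf 3048481 0 0) (P.lf 0 338712 0)))) (P.cons (P.cons (P.lf 209366684 0 0) (P.cons (P.lf 0 7415840 0) (P.cons (P.lf 0 405764 0) (P.lf 45083 0 0)))) (P.cons (P.cons (P.lf 18656115 0 0) (P.cons (P.lf 0 3227619 0) (P.cons (P.lf 0 176595 0) P.nil))) (P.cons (P.cons (P.lf 0 5409072 0) (P.cons (P.lf 0 49314 0) P.nil)) (P.cons (P.cons (P.lf 0 589137 0) P.nil) P.nil)))))) 267747)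
 (EL.cons 5 (TM.mk (P.cons (P.cons (P.lf 2410064671 0 0) (P.cons (P.lf 0 363600068 0) (P.cons (P.lf 0 19894730 0) (P.lf 2210522 0 0)))) (P.cons (P.cons (P.lf 56965226 0 0) (P.cons (P.lf 0 40978086 0) (P.cons (P.lf 0 2242162 0) (P.lf 249136 0 0)))) (P.cons (P.cons (P.lf 0 140778012 0) (P.cons (P.lf 8884272 0 0) (P.cons (P.lf 486106 0 0) (P.lf 0 54006 0)))) (P.cons (P.cons (P.lf 12470358 0 0) (P.cons (P.lf 652696 0 0) (P.cons (P.lf 35716 0 0) P.nil))) (P.cons (P.cons (P.lf 2857021 0 0) (P.cons (P.lf 0 217128 0) P.nil)) (P.cons (P.cons (P.lf 0 232671 0) P.nil) P.nil)))))) 216680)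
 (EL.cons 9 (TM.mk (P.cons (P.cons (P.lf 1931269077 0 0) (P.cons (P.lf 0 328053138 0) (P.cons (P.lf 0 17949744 0) (P.lf 1994412 0 0)))) (P.cons (P.cons (P.lf 667160770 0 0) (P.cons (P.lf 0 79734948 0) (P.cons (P.lf 0 4362774 0) (P.lf 484752 0 0)))) (P.cons (P.cons (P.lf 0 104015242 0) (P.cons (P.lf 0 1392672 0) (P.cons (P.lf 0 76200 0) (P.lf 8466 0 0)))) (P.cons (P.cons (P.lf 0 12663336 0) (P.cons (P.lf 1121940 0 0) (P.cons (P.lf 61386 0 0) P.nil))) (P.cons (P.cons (P.lf 827563 0 0) (P.cons (P.lf 83040 0 0) P.nil)) (P.cons (P.cons (P.lf 154281 0 0) P.nil) P.nil)))))) 39116)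
 (EL.cons 2 (TM.mk (P.cons (P.cons (P.lf 872053467 0 0) (P.cons (P.lf 109421752 0 0) (P.cons (P.lf 0 16705870 0) (P.cons (P.lf 0 510359 0) (P.lf 42527 0 0))))) (P.cons (P.cons (P.lf 0 1321529 0) (P.cons (P.lf 0 165819 0) (P.cons (P.lf 25315 0 0) (P.cons (P.lf 773 0 0) (P.lf 0 64 0))))) (P.cons (P.cons (P.lf 0 34743611 0) (P.cons (P.lf 0 4359487 0) (P.cons (P.lf 665578 0 0) (P.cons (P.lf 20331 0 0) P.nil)))) (P.cons (P.cons (P.lf 0 2180196 0) (P.cons (P.lf 0 273560 0) (P.cons (P.lf 41762 0 0) P.nil))) (P.cons (P.cons (P.lf 318048 0 0) (P.cons (P.lf 39906 0 0) P.nil)) (P.cons (P.cons (P.lf 35800 0 0) P.nil) P.nil)))))) 21626)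
 (EL.cons 6 (TM.mk (P.cons (P.cons (P.lf 738810807 0 0) (P.cons (P.lf 92703000 0 0) (P.cons (P.lf 0 14153349 0) (P.cons (P.lf 0 432381 0) (P.lf 36030 0 0))))) (P.cons (P.cons (P.lf 179571651 0 0) (P.cons (P.lf 22531926 0 0) (P.cons (P.lf 0 3440040 0) (P.cons (P.lf 0 105090 0) (P.lf 8754 0 0))))) (P.cons (P.cons (P.lf 3136443 0 0) (P.cons (P.lf 393546 0 0) (P.cons (P.lf 0 60084 0) (P.cons (P.lf 0 1833 0) P.nil)))) (P.cons (P.cons (P.lf 0 2526732 0) (P.cons (P.lf 0 317043 0) (P.cons (P.lf 48402 0 0) P.nil))) (P.cons (P.cons (P.lf 0 187020 0) (P.cons (P.lf 0 23463 0) P.nil)) (P.cons (P.cons (P.lf 13170 0 0) P.nil) P.nil)))))) 12303)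
 EL.nil))))))
noncomputable def S169_198_364_438_2 : EL := (EL.cons 0 (TM.mk (P.cons (P.cons (P.lf 0 953210926 0) (P.cons (P.lf 246631902 0 0) (P.cons (P.lf 0 895434 0) (P.cons (P.lf 0 3074139 0) (P.cons (P.lf 131878 0 0) (P.cons (P.lf 9564 0 0) P.nil)))))) (P.cons (P.cons (P.lf 590436158 0 0) (P.cons (P.lf 0 136948983 0) (P.cons (P.lf 0 2609707 0) (P.cons (P.lf 1367022 0 0) (P.cons (P.lf 0 44762 0) P.nil))))) (P.cons (P.cons (P.lf 419943211 0 0) (P.cons (P.lf 0 82561514 0) (P.cons (P.lf 10957 0 0) (P.cons (P.lf 997475 0 0) P.nil)))) (P.cons (P.cons (P.lf 0 62842259 0) (P.cons (P.lf 483339 0 0) (P.cons (P.lf 632744 0 0) P.nil))) (P.cons (P.cons (P.lf 0 24936432 0) (P.cons (P.lf 4292091 0 0) P.nil)) (P.cons (P.cons (P.lf 1547381 0 0) P.nil) P.nil)))))) 2918431)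
 (EL.cons 1 (TM.mk (P.cons (P.cons (P.lf 0 480085824 0) (P.cons (P.lf 146595876 0 0) (P.cons (P.lf 0 3027934 0) (P.cons (P.lf 0 2100348 0) (P.cons (P.lf 101267 0 0) (P.cons (P.lf 7346 0 0) P.nil)))))) (P.cons (P.cons (P.lf 0 302235534 0) (P.cons (P.lf 94709058 0 0) (P.cons (P.lf 0 2471967 0) (P.cons (P.lf 0 1413376 0) (P.cons (P.lf 70143 0 0) P.nil))))) (P.cons (P.cons (P.lf 87452483 0 0) (P.cons (P.lf 0 9200096 0) (P.cons (P.lf 0 1195276 0) (P.cons (P.lf 0 19787 0) P.nil)))) (P.cons (P.cons (P.lf 57411690 0 0) (P.cons (P.lf 0 11062397 0) (P.cons (P.lf 0 170380 0) P.nil))) (P.cons (P.cons (P.lf 0 4776993 0) (P.cons (P.lf 0 670646 0) P.nil)) (P.cons (P.cons (P.lf 0 2602222 0) P.nil) P.nil)))))) 1485910)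
 (EL.cons 5 (TM.mk (P.cons (P.cons (P.lf 995052792 0 0) (P.cons (P.lf 0 310598254 0) (P.cons (P.lf 7053726 0 0) (P.cons (P.lf 4519956 0 0) (P.cons (P.lf 0 220400 0) (P.cons (P.lf 0 15993 0) P.nil)))))) (P.cons (P.cons (P.lf 243392320 0 0) (P.cons (P.lf 0 82489314 0) (P.cons (P.lf 2953124 0 0) (P.cons (P.lf 1318576 0 0) (P.cons (P.lf 0 68422 0) P.nil))))) (P.cons (P.cons (P.lf 0 141688807 0) (P.cons (P.lf 21698210 0 0) (P.cons (P.lf 856302 0 0) (P.cons (P.lf 0 168118 0) P.nil)))) (P.cons (P.cons (P.lf 0 10676053 0) (P.cons (P.lf 4643166 0 0) (P.cons (P.lf 0 51935 0) P.nil))) (P.cons (P.cons (P.lf 8359410 0 0) (P.cons (P.lf 0 895597 0) P.nil)) (P.cons (P.cons (P.lf 212356 0 0) P.nil) P.nil)))))) 1441815)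
 (EL.cons 9 (TM.mk (P.cons (P.cons (P.lf 578941194 0 0) (P.cons (P.lf 0 196682562 0) (P.cons (P.lf 5942968 0 0) (P.cons (P.lf 3023760 0 0) (P.cons (P.lf 0 153102 0) (P.cons (P.lf 0 11113 0) P.nil)))))) (P.cons (P.cons (P.lf 399992790 0 0) (P.cons (P.lf 0 115749060 0) (P.cons (P.lf 1786972 0 0) (P.cons (P.lf 1592320 0 0) (P.cons (P.lf 0 74424 0) P.nil))))) (P.cons (P.cons (P.lf 6727353 0 0) (P.cons (P.lf 0 6756163 0) (P.cons (P.lf 759000 0 0) (P.cons (P.lf 164586 0 0) P.nil)))) (P.cons (P.cons (P.lf 0 29135245 0) (P.cons (P.lf 4248546 0 0) (P.cons (P.lf 152674 0 0) P.nil))) (P.cons (P.cons (P.lf 0 447235 0) (P.cons (P.lf 556300 0 0) P.nil)) (P.cons (P.cons (P.lf 672804 0 0) P.nil) P.nil)))))) 393403)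
 (EL.cons 2 (TM.mk (P.cons (P.cons (P.lf 522835143 0 0) (P.cons (P.lf 0 23207630 0) (P.cons (P.lf 0 26018921 0) (P.cons (P.lf 1325553 0 0) (P.cons (P.lf 238308 0 0) (P.cons (P.lf 0 11829 0) P.nil)))))) (P.cons (P.cons (P.lf 179822131 0 0) (P.cons (P.lf 1112011 0 0) (P.cons (P.lf 0 7310193 0) (P.cons (P.lf 288838 0 0) (P.cons (P.lf 60170 0 0) P.nil))))) (P.cons (P.cons (P.lf 0 49263170 0) (P.cons (P.lf 0 2987325 0) (P.cons (P.lf 1519261 0 0) (P.cons (P.lf 0 29840 0) P.nil)))) (P.cons (P.cons (P.lf 0 11888566 0) (P.cons (P.lf 0 105378 0) (P.cons (P.lf 477551 0 0) P.nil))) (P.cons (P.cons (P.lf 1090260 0 0) (P.cons (P.lf 195418 0 0) P.nil)) (P.cons (P.cons (P.lf 335745 0 0) P.nil) P.nil)))))) 280478)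
 (EL.cons 6 (TM.mk (P.cons (P.cons (P.lf 442950198 0 0) (P.cons (P.lf 0 19661694 0) (P.cons (P.lf 0 22043442 0) (P.cons (P.lf 1123014 0 0) (P.cons (P.lf 201900 0 0) (P.cons (P.lf 0 10020 0) P.nil)))))) (P.cons (P.cons (P.lf 260679288 0 0) (P.cons (P.lf 0 3866556 0) (P.cons (P.lf 0 11584428 0) (P.cons (P.lf 519366 0 0) (P.cons (P.lf 100350 0 0) P.nil))))) (P.cons (P.cons (P.lf 15215604 0 0) (P.cons (P.lf 0 3174576 0) (P.cons (P.lf 0 1207536 0) (P.cons (P.lf 84486 0 0) P.nil)))) (P.cons (P.cons (P.lf 0 9568182 0) (P.cons (P.lf 0 841194 0) (P.cons (P.lf 248052 0 0) P.nil))) (P.cons (P.cons (P.lf 0 1252848 0) (P.cons (P.lf 4620 0 0) P.nil)) (P.cons (P.cons (P.lf 119934 0 0) P.nil) P.nil)))))) 219504)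
 EL.nil))))))
noncomputable def S169_198_364_438_3 : EL := (EL.cons 0 (TM.mk (P.cons (P.lf 2000791209 0 0) (P.cons (P.lf 0 654467131 0) (P.cons (P.lf 15080835 0 0) (P.cons (P.lf 7271133 0 0) (P.cons (P.lf 199596 0 0) (P.cons (P.lf 0 35412 0) P.nil)))))) 3454)
 (EL.cons 1 (TM.mk (P.cons (P.lf 1695086628 0 0) (P.cons (P.lf 0 139901857 0) (P.cons (P.lf 0 47471786 0) (P.cons (P.lf 0 293435 0) (P.cons (P.lf 328029 0 0) (P.cons (P.lf 15684 0 0) P.nil)))))) 1940)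
 (EL.cons 5 (TM.mk (P.cons (P.lf 1436091214 0 0) (P.cons (P.lf 232699422 0 0) (P.cons (P.lf 0 5362070 0) (P.cons (P.lf 0 2585292 0) (P.cons (P.lf 0 70970 0) (P.cons (P.lf 12590 0 0) P.nil)))))) 1162)
 EL.nil)))
noncomputable def S169_198_364_438_4 : EL := (EL.cons 0 (TM.mk (P.cons (P.cons (P.lf 599782011 0 0) (P.cons (P.lf 0 101881385 0) (P.cons (P.lf 0 5574536 0) (P.lf 619391 0 0)))) (P.cons (P.cons (P.lf 11004704 0 0) (P.cons (P.lf 8563046 0 0) (P.cons (P.lf 468534 0 0) (P.lf 0 52057 0)))) (P.cons (P.cons (P.lf 0 95557176 0) (P.cons (P.lf 6899568 0 0) (P.cons (P.lf 377516 0 0) (P.lf 0 41944 0)))) (P.cons (P.cons (P.lf 10375200 0 0) (P.cons (P.lf 0 66986 0) (P.cons (P.lf 0 3665 0) P.nil))) (P.cons (P.cons (P.lf 2112762 0 0) (P.cons (P.lf 0 191598 0) P.nil)) (P.cons (P.cons (P.lf 0 173137 0) P.nil) P.nil)))))) 95684)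
 (EL.cons 1 (TM.mk (P.cons (P.cons (P.lf 508140210 0 0) (P.cons (P.lf 0 86314740 0) (P.cons (P.lf 0 4722793 0) (P.lf 524752 0 0)))) (P.cons (P.cons (P.lf 133599335 0 0) (P.cons (P.lf 0 13855346 0) (P.cons (P.lf 0 758107 0) (P.lf 84232 0 0)))) (P.cons (P.cons (P.lf 0 56086211 0) (P.cons (P.lf 3782353 0 0) (P.cons (P.lf 206953 0 0) (P.lf 0 22993 0)))) (P.cons (P.cons (P.lf 0 6077118 0) (P.cons (P.lf 927913 0 0) (P.cons (P.lf 50769 0 0) P.nil))) (P.cons (P.cons (P.lf 1327125 0 0) (P.cons (P.lf 0 5323 0) P.nil)) (P.cons (P.cons (P.lf 159341 0 0) P.nil) P.nil)))))) 64633)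
 (EL.cons 5 (TM.mk (P.cons (P.cons (P.lf 430500530 0 0) (P.cons (P.lf 0 73126552 0) (P.cons (P.lf 0 4001188 0) (P.lf 444574 0 0)))) (P.cons (P.cons (P.lf 218474138 0 0) (P.cons (P.lf 0 29622954 0) (P.cons (P.lf 0 1620848 0) (P.lf 180092 0 0)))) (P.cons (P.cons (P.lf 0 695860 0) (P.cons (P.lf 0 2917404 0) (P.cons (P.lf 0 159628 0) (P.lf 17736 0 0)))) (P.cons (P.cons (P.lf 0 7910070 0) (P.cons (P.lf 397796 0 0) (P.cons (P.lf 21764 0 0) P.nil))) (P.cons (P.cons (P.lf 0 475350 0) (P.cons (P.lf 95802 0 0) P.nil)) (P.cons (P.cons (P.lf 112986 0 0) P.nil) P.nil)))))) 44676)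
 EL.nil)))
noncomputable def S169_198_364_438_5 : EL := (EL.cons 0 (TM.mk (P.cons (P.cons (P.lf 179798101 0 0) (P.cons (P.lf 0 61082456 0) (P.cons (P.lf 1845669 0 0) (P.cons (P.lf 939069 0 0) (P.cons (P.lf 0 47547 0) (P.cons (P.lf 0 3450 0) P.nil)))))) (P.cons (P.cons (P.lf 65410519 0 0) (P.cons (P.lf 0 15967125 0) (P.cons (P.lf 0 48756 0) (P.cons (P.lf 187342 0 0) (P.cons (P.lf 0 7558 0) P.nil))))) (P.cons (P.cons (P.lf 0 37189446 0) (P.cons (P.lf 9199937 0 0) (P.cons (P.lf 68095 0 0) (P.cons (P.lf 0 103565 0) P.nil)))) (P.cons (P.cons (P.lf 0 8142022 0) (P.cons (P.lf 1512845 0 0) (P.cons (P.lf 0 18798 0) P.nil))) (P.cons (P.cons (P.lf 3305984 0 0) (P.cons (P.lf 0 411373 0) P.nil)) (P.cons (P.cons (P.lf 202981 0 0) P.nil) P.nil)))))) 416426)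
 (EL.cons 1 (TM.mk (P.cons (P.cons (P.lf 152326417 0 0) (P.cons (P.lf 0 51749555 0) (P.cons (P.lf 1563665 0 0) (P.cons (P.lf 795586 0 0) (P.cons (P.lf 0 40282 0) (P.cons (P.lf 0 2923 0) P.nil)))))) (P.cons (P.cons (P.lf 92670860 0 0) (P.cons (P.lf 0 26183889 0) (P.cons (P.lf 341116 0 0) (P.cons (P.lf 353295 0 0) (P.cons (P.lf 0 16256 0) P.nil))))) (P.cons (P.cons (P.lf 0 11182025 0) (P.cons (P.lf 2185207 0 0) (P.cons (P.lf 117105 0 0) (P.cons (P.lf 0 13552 0) P.nil)))) (P.cons (P.cons (P.lf 0 10785675 0) (P.cons (P.lf 2126422 0 0) (P.cons (P.lf 10248 0 0) P.nil))) (P.cons (P.cons (P.lf 476703 0 0) (P.cons (P.lf 99150 0 0) P.nil)) (P.cons (P.cons (P.lf 422889 0 0) P.nil) P.nil)))))) 294965)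
 (EL.cons 5 (TM.mk (P.cons (P.cons (P.lf 129052182 0 0) (P.cons (P.lf 0 43842644 0) (P.cons (P.lf 1324750 0 0) (P.cons (P.lf 674028 0 0) (P.cons (P.lf 0 34126 0) (P.cons (P.lf 0 2476 0) P.nil)))))) (P.cons (P.cons (P.lf 110073854 0 0) (P.cons (P.lf 0 32905818 0) (P.cons (P.lf 612992 0 0) (P.cons (P.lf 464160 0 0) (P.cons (P.lf 0 22118 0) P.nil))))) (P.cons (P.cons (P.lf 15465364 0 0) (P.cons (P.lf 0 5523142 0) (P.cons (P.lf 228786 0 0) (P.cons (P.lf 91684 0 0) P.nil)))) (P.cons (P.cons (P.lf 0 6816804 0) (P.cons (P.lf 878280 0 0) (P.cons (P.lf 57574 0 0) P.nil))) (P.cons (P.cons (P.lf 0 1324538 0) (P.cons (P.lf 331698 0 0) P.nil)) (P.cons (P.cons (P.lf 152096 0 0) P.nil) P.nil)))))) 217232)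
 EL.nil)))
noncomputable def S169_198_364_438_6 : EL := (EL.cons 12 (TM.mk (P.lf 8589934592 0 0) 0)
 (EL.cons 3 (TM.mk (P.cons (P.lf 0 2072840178 0) (P.cons (P.lf 339017325 0 0) (P.cons (P.lf 19911543 0 0) (P.cons (P.lf 0 509910 0) (P.cons (P.lf 0 91155 0) (P.cons (P.lf 0 1462 0) P.nil)))))) 487)
 (EL.cons 7 (TM.mk (P.cons (P.lf 0 1756127103 0) (P.cons (P.lf 0 142278485 0) (P.cons (P.lf 9042093 0 0) (P.cons (P.lf 848140 0 0) (P.cons (P.lf 0 2043 0) (P.cons (P.lf 0 3166 0) P.nil)))))) 195)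
 EL.nil)))
noncomputable def S169_198_364_438_7 : EL := (EL.cons 12 (TM.mk (P.cons (P.cons (P.lf 2575025436 0 0) (P.cons (P.lf 0 437404184 0) (P.cons (P.lf 0 23932992 0) (P.lf 2659216 0 0)))) (P.cons (P.cons (P.lf 889547694 0 0) (P.cons (P.lf 0 106313264 0) (P.cons (P.lf 0 5817032 0) (P.lf 646336 0 0)))) (P.cons (P.cons (P.lf 0 138686990 0) (P.cons (P.lf 0 1856896 0) (P.cons (P.lf 0 101600 0) (P.lf 11288 0 0)))) (P.cons (P.cons (P.lf 0 16884448 0) (P.cons (P.lf 1495920 0 0) (P.cons (P.lf 81848 0 0) P.nil))) (P.cons (P.cons (P.lf 1103418 0 0) (P.cons (P.lf 110720 0 0) P.nil)) (P.cons (P.cons (P.lf 205708 0 0) P.nil) P.nil)))))) 52130)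
 (EL.cons 3 (TM.mk (P.cons (P.cons (P.lf 2028107444 0 0) (P.cons (P.lf 0 211100316 0) (P.cons (P.lf 0 11550556 0) (P.lf 1283392 0 0)))) (P.cons (P.cons (P.lf 0 821089349 0) (P.cons (P.lf 0 16783084 0) (P.cons (P.lf 0 918300 0) (P.lf 102030 0 0)))) (P.cons (P.cons (P.lf 0 124956966 0) (P.cons (P.lf 9523326 0 0) (P.cons (P.lf 521076 0 0) (P.lf 0 57896 0)))) (P.cons (P.cons (P.lf 10613849 0 0) (P.cons (P.lf 1309472 0 0) (P.cons (P.lf 71646 0 0) P.nil))) (P.cons (P.cons (P.lf 2987854 0 0) (P.cons (P.lf 0 77938 0) P.nil)) (P.cons (P.cons (P.lf 37087 0 0) P.nil) P.nil)))))) 186276)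
 (EL.cons 7 (TM.mk (P.cons (P.cons (P.lf 0 1638373102 0) (P.cons (P.lf 222314552 0 0) (P.cons (P.lf 12164161 0 0) (P.lf 0 1351574 0)))) (P.cons (P.cons (P.lf 344594036 0 0) (P.cons (P.lf 7043515 0 0) (P.cons (P.lf 385394 0 0) (P.lf 0 42823 0)))) (P.cons (P.cons (P.lf 10303074 0 0) (P.cons (P.lf 0 4858057 0) (P.cons (P.lf 0 265810 0) (P.lf 29533 0 0)))) (P.cons (P.cons (P.lf 0 11240832 0) (P.cons (P.lf 138154 0 0) (P.cons (P.lf 7559 0 0) P.nil))) (P.cons (P.cons (P.lf 0 187066 0) (P.cons (P.lf 99696 0 0) P.nil)) (P.cons (P.cons (P.lf 161664 0 0) P.nil) P.nil)))))) 117090)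
 (EL.cons 10 (TM.mk (P.cons (P.cons (P.lf 0 1806912642 0) (P.cons (P.lf 0 226724115 0) (P.cons (P.lf 34614906 0 0) (P.cons (P.lf 1057479 0 0) (P.lf 0 88122 0))))) (P.cons (P.cons (P.lf 0 292786086 0) (P.cons (P.lf 0 36737616 0) (P.cons (P.lf 5608884 0 0) (P.cons (P.lf 171348 0 0) (P.lf 0 14277 0))))) (P.cons (P.cons (P.lf 6746640 0 0) (P.cons (P.lf 846540 0 0) (P.cons (P.lf 0 129243 0) (P.cons (P.lf 0 3948 0) P.nil)))) (P.cons (P.cons (P.lf 3252855 0 0) (P.cons (P.lf 408153 0 0) (P.cons (P.lf 0 62313 0) P.nil))) (P.cons (P.cons (P.lf 89295 0 0) (P.cons (P.lf 11202 0 0) P.nil)) (P.cons (P.cons (P.lf 0 15840 0) P.nil) P.nil)))))) 8241)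
 EL.nil))))
noncomputable def S169_198_364_438_8 : EL := (EL.cons 12 (TM.mk (P.cons (P.cons (P.lf 771921592 0 0) (P.cons (P.lf 0 262243416 0) (P.cons (P.lf 7923958 0 0) (P.cons (P.lf 4031680 0 0) (P.cons (P.lf 0 204136 0) (P.cons (P.lf 0 14818 0) P.nil)))))) (P.cons (P.cons (P.lf 533323720 0 0) (P.cons (P.lf 0 154332080 0) (P.cons (P.lf 2382630 0 0) (P.cons (P.lf 2123094 0 0) (P.cons (P.lf 0 99232 0) P.nil))))) (P.cons (P.cons (P.lf 8969804 0 0) (P.cons (P.lf 0 9008218 0) (P.cons (P.lf 1012000 0 0) (P.cons (P.lf 219448 0 0) P.nil)))) (P.cons (P.cons (P.lf 0 38846994 0) (P.cons (P.lf 5664728 0 0) (P.cons (P.lf 203566 0 0) P.nil))) (P.cons (P.cons (P.lf 0 596314 0) (P.cons (P.lf 741734 0 0) P.nil)) (P.cons (P.cons (P.lf 897072 0 0) P.nil) P.nil)))))) 524508)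
 (EL.cons 3 (TM.mk (P.cons (P.cons (P.lf 1402214007 0 0) (P.cons (P.lf 0 396390843 0) (P.cons (P.lf 5184452 0 0) (P.cons (P.lf 5350677 0 0) (P.cons (P.lf 0 246300 0) (P.cons (P.lf 0 17875 0) P.nil)))))) (P.cons (P.cons (P.lf 26000746 0 0) (P.cons (P.lf 0 47257123 0) (P.cons (P.lf 6082493 0 0) (P.cons (P.lf 1235876 0 0) (P.cons (P.lf 0 79446 0) P.nil))))) (P.cons (P.cons (P.lf 0 331138538 0) (P.cons (P.lf 45748630 0 0) (P.cons (P.lf 1924217 0 0) (P.cons (P.lf 0 341485 0) P.nil)))) (P.cons (P.cons (P.lf 0 11894948 0) (P.cons (P.lf 9267481 0 0) (P.cons (P.lf 0 37116 0) P.nil))) (P.cons (P.cons (P.lf 13181806 0 0) (P.cons (P.lf 0 853611 0) P.nil)) (P.cons (P.cons (P.lf 1012135 0 0) P.nil) P.nil)))))) 1617573)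
 (EL.cons 7 (TM.mk (P.cons (P.cons (P.lf 0 824466388 0) (P.cons (P.lf 246528184 0 0) (P.cons (P.lf 0 4598254 0) (P.cons (P.lf 0 3478103 0) (P.cons (P.lf 165771 0 0) (P.cons (P.lf 12029 0 0) P.nil)))))) (P.cons (P.cons (P.lf 0 10911974 0) (P.cons (P.lf 19832839 0 0) (P.cons (P.lf 0 2552692 0) (P.cons (P.lf 0 518673 0) (P.cons (P.lf 33340 0 0) P.nil))))) (P.cons (P.cons (P.lf 140306293 0 0) (P.cons (P.lf 0 21625002 0) (P.cons (P.lf 0 495392 0) (P.cons (P.lf 206737 0 0) P.nil)))) (P.cons (P.cons (P.lf 0 17722738 0) (P.cons (P.lf 0 657383 0) (P.cons (P.lf 134176 0 0) P.nil))) (P.cons (P.cons (P.lf 0 5375829 0) (P.cons (P.lf 915427 0 0) P.nil)) (P.cons (P.cons (P.lf 604642 0 0) P.nil) P.nil)))))) 844757)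
 (EL.cons 10 (TM.mk (P.cons (P.cons (P.lf 0 1083325128 0) (P.cons (P.lf 48086694 0 0) (P.cons (P.lf 53911740 0 0) (P.cons (P.lf 0 2746572 0) (P.cons (P.lf 0 493788 0) (P.cons (P.lf 24510 0 0) P.nil)))))) (P.cons (P.cons (P.lf 0 549775218 0) (P.cons (P.lf 5560560 0 0) (P.cons (P.lf 23964258 0 0) (P.cons (P.lf 0 1047696 0) (P.cons (P.lf 0 205434 0) P.nil))))) (P.cons (P.cons (P.lf 1751082 0 0) (P.cons (P.lf 7561164 0 0) (P.cons (P.lf 1289322 0 0) (P.cons (P.lf 0 135894 0) P.nil)))) (P.cons (P.cons (P.lf 19905150 0 0) (P.cons (P.lf 1496586 0 0) (P.cons (P.lf 0 561696 0) P.nil))) (P.cons (P.cons (P.lf 1196184 0 0) (P.cons (P.lf 0 90990 0) P.nil)) (P.cons (P.cons (P.lf 0 284322 0) P.nil) P.nil)))))) 335640)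
 EL.nil))))
noncomputable def S169_198_364_438_9 : EL := (EL.cons 3 (TM.mk (P.cons (P.lf 0 2072840178 0) (P.cons (P.lf 339017325 0 0) (P.cons (P.lf 19911543 0 0) (P.cons (P.lf 0 509910 0) (P.cons (P.lf 0 91155 0) (P.cons (P.lf 0 1462 0) P.nil)))))) 487)
 (EL.cons 7 (TM.mk (P.cons (P.lf 0 1756127103 0) (P.cons (P.lf 0 142278485 0) (P.cons (P.lf 9042093 0 0) (P.cons (P.lf 848140 0 0) (P.cons (P.lf 0 2043 0) (P.cons (P.lf 0 3166 0) P.nil)))))) 195)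
 EL.nil))
noncomputable def S169_198_364_438_10 : EL := (EL.cons 3 (TM.mk (P.cons (P.cons (P.lf 0 621380305 0) (P.cons (P.lf 105550158 0 0) (P.cons (P.lf 5775278 0 0) (P.lf 0 641696 0)))) (P.cons (P.cons (P.lf 0 113029028 0) (P.cons (P.lf 8391542 0 0) (P.cons (P.lf 459150 0 0) (P.lf 0 51015 0)))) (P.cons (P.cons (P.lf 74543148 0 0) (P.cons (P.lf 0 4761663 0) (P.cons (P.lf 0 260538 0) (P.lf 28948 0 0)))) (P.cons (P.cons (P.lf 509981 0 0) (P.cons (P.lf 0 654736 0) (P.cons (P.lf 0 35823 0) P.nil))) (P.cons (P.cons (P.lf 0 1334249 0) (P.cons (P.lf 38969 0 0) P.nil)) (P.cons (P.cons (P.lf 0 46874 0) P.nil) P.nil)))))) 45203)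
 (EL.cons 7 (TM.mk (P.cons (P.cons (P.lf 0 526438462 0) (P.cons (P.lf 89422955 0 0) (P.cons (P.lf 4892863 0 0) (P.lf 0 543650 0)))) (P.cons (P.cons (P.lf 0 224510386 0) (P.cons (P.lf 28979593 0 0) (P.cons (P.lf 1585646 0 0) (P.lf 0 176182 0)))) (P.cons (P.cons (P.lf 16329822 0 0) (P.cons (P.lf 1680104 0 0) (P.cons (P.lf 91928 0 0) (P.lf 0 10214 0)))) (P.cons (P.cons (P.lf 6939606 0 0) (P.cons (P.lf 0 430166 0) (P.cons (P.lf 0 23536 0) P.nil))) (P.cons (P.cons (P.lf 0 4687 0) (P.cons (P.lf 0 59760 0) P.nil)) (P.cons (P.cons (P.lf 0 92958 0) P.nil) P.nil)))))) 26162)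
 EL.nil))
noncomputable def S169_198_364_438_11 : EL := (EL.cons 3 (TM.mk (P.cons (P.cons (P.lf 0 186272673 0) (P.cons (P.lf 63282051 0 0) (P.cons (P.lf 0 1912132 0) (P.cons (P.lf 0 972885 0) (P.cons (P.lf 49260 0 0) (P.cons (P.lf 3575 0 0) P.nil)))))) (P.cons (P.cons (P.lf 0 98231252 0) (P.cons (P.lf 26892017 0 0) (P.cons (P.lf 0 262219 0) (P.cons (P.lf 0 353206 0) (P.cons (P.lf 15888 0 0) P.nil))))) (P.cons (P.cons (P.lf 20673400 0 0) (P.cons (P.lf 0 4525100 0) (P.cons (P.lf 0 131803 0) (P.cons (P.lf 40181 0 0) P.nil)))) (P.cons (P.cons (P.lf 10918618 0 0) (P.cons (P.lf 0 2064659 0) (P.cons (P.lf 0 4128 0) P.nil))) (P.cons (P.cons (P.lf 0 1408328 0) (P.cons (P.lf 35643 0 0) P.nil)) (P.cons (P.cons (P.lf 0 336377 0) P.nil) P.nil)))))) 268451)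
 (EL.cons 7 (TM.mk (P.cons (P.cons (P.lf 0 157811728 0) (P.cons (P.lf 53613070 0 0) (P.cons (P.lf 0 1619974 0) (P.cons (P.lf 0 824237 0) (P.cons (P.lf 41733 0 0) (P.cons (P.lf 3029 0 0) P.nil)))))) (P.cons (P.cons (P.lf 0 121818398 0) (P.cons (P.lf 35895307 0 0) (P.cons (P.lf 0 618352 0) (P.cons (P.lf 0 500823 0) (P.cons (P.lf 23668 0 0) P.nil))))) (P.cons (P.cons (P.lf 0 9854885 0) (P.cons (P.lf 4121856 0 0) (P.cons (P.lf 0 238016 0) (P.cons (P.lf 0 75785 0) P.nil)))) (P.cons (P.cons (P.lf 8430926 0 0) (P.cons (P.lf 0 1197239 0) (P.cons (P.lf 0 55088 0) P.nil))) (P.cons (P.cons (P.lf 827265 0 0) (P.cons (P.lf 0 270125 0) P.nil)) (P.cons (P.cons (P.lf 0 213938 0) P.nil) P.nil)))))) 171979)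
 EL.nil))
noncomputable def S169_198_364_438_12 : EL := (EL.cons 4 (TM.mk (P.cons (P.lf 2072840178 0 0) (P.cons (P.lf 0 339017325 0) (P.cons (P.lf 0 19911543 0) (P.cons (P.lf 509910 0 0) (P.cons (P.lf 91155 0 0) (P.cons (P.lf 1462 0 0) P.nil)))))) 487)
 (EL.cons 8 (TM.mk (P.cons (P.lf 1756127103 0 0) (P.cons (P.lf 142278485 0 0) (P.cons (P.lf 0 9042093 0) (P.cons (P.lf 0 848140 0) (P.cons (P.lf 2043 0 0) (P.cons (P.lf 3166 0 0) P.nil)))))) 195)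
 EL.nil))
noncomputable def S169_198_364_438_13 : EL := (EL.cons 4 (TM.mk (P.cons (P.cons (P.lf 621380305 0 0) (P.cons (P.lf 0 105550158 0) (P.cons (P.lf 0 5775278 0) (P.lf 641696 0 0)))) (P.cons (P.cons (P.lf 113029028 0 0) (P.cons (P.lf 0 8391542 0) (P.cons (P.lf 0 459150 0) (P.lf 51015 0 0)))) (P.cons (P.cons (P.lf 0 74543148 0) (P.cons (P.lf 4761663 0 0) (P.cons (P.lf 260538 0 0) (P.lf 0 28948 0)))) (P.cons (P.cons (P.lf 0 509981 0) (P.cons (P.lf 654736 0 0) (P.cons (P.lf 35823 0 0) P.nil))) (P.cons (P.cons (P.lf 1334249 0 0) (P.cons (P.lf 0 38969 0) P.nil)) (P.cons (P.cons (P.lf 46874 0 0) P.nil) P.nil)))))) 45203)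
 (EL.cons 8 (TM.mk (P.cons (P.cons (P.lf 526438462 0 0) (P.cons (P.lf 0 89422955 0) (P.cons (P.lf 0 4892863 0) (P.lf 543650 0 0)))) (P.cons (P.cons (P.lf 224510386 0 0) (P.cons (P.lf 0 28979593 0) (P.cons (P.lf 0 1585646 0) (P.lf 176182 0 0)))) (P.cons (P.cons (P.lf 0 16329822 0) (P.cons (P.lf 0 1680104 0) (P.cons (P.lf 0 91928 0) (P.lf 10214 0 0)))) (P.cons (P.cons (P.lf 0 6939606 0) (P.cons (P.lf 430166 0 0) (P.cons (P.lf 23536 0 0) P.nil))) (P.cons (P.cons (P.lf 4687 0 0) (P.cons (P.lf 59760 0 0) P.nil)) (P.cons (P.cons (P.lf 92958 0 0) P.nil) P.nil)))))) 26162)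
 EL.nil))
noncomputable def S169_198_364_438_14 : EL := (EL.cons 4 (TM.mk (P.cons (P.cons (P.lf 186272673 0 0) (P.cons (P.lf 0 63282051 0) (P.cons (P.lf 1912132 0 0) (P.cons (P.lf 972885 0 0) (P.cons (P.lf 0 49260 0) (P.cons (P.lf 0 3575 0) P.nil)))))) (P.cons (P.cons (P.lf 98231252 0 0) (P.cons (P.lf 0 26892017 0) (P.cons (P.lf 262219 0 0) (P.cons (P.lf 353206 0 0) (P.cons (P.lf 0 15888 0) P.nil))))) (P.cons (P.cons (P.lf 0 20673400 0) (P.cons (P.lf 4525100 0 0) (P.cons (P.lf 131803 0 0) (P.cons (P.lf 0 40181 0) P.nil)))) (P.cons (P.cons (P.lf 0 10918618 0) (P.cons (P.lf 2064659 0 0) (P.cons (P.lf 4128 0 0) P.nil))) (P.cons (P.cons (P.lf 1408328 0 0) (P.cons (P.lf 0 35643 0) P.nil)) (P.cons (P.cons (P.lf 336377 0 0) P.nil) P.nil)))))) 268451)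
 (EL.cons 8 (TM.mk (P.cons (P.cons (P.lf 157811728 0 0) (P.cons (P.lf 0 53613070 0) (P.cons (P.lf 1619974 0 0) (P.cons (P.lf 824237 0 0) (P.cons (P.lf 0 41733 0) (P.cons (P.lf 0 3029 0) P.nil)))))) (P.cons (P.cons (P.lf 121818398 0 0) (P.cons (P.lf 0 35895307 0) (P.cons (P.lf 618352 0 0) (P.cons (P.lf 500823 0 0) (P.cons (P.lf 0 23668 0) P.nil))))) (P.cons (P.cons (P.lf 9854885 0 0) (P.cons (P.lf 0 4121856 0) (P.cons (P.lf 238016 0 0) (P.cons (P.lf 75785 0 0) P.nil)))) (P.cons (P.cons (P.lf 0 8430926 0) (P.cons (P.lf 1197239 0 0) (P.cons (P.lf 55088 0 0) P.nil))) (P.cons (P.cons (P.lf 0 827265 0) (P.cons (P.lf 270125 0 0) P.nil)) (P.cons (P.cons (P.lf 213938 0 0) P.nil) P.nil)))))) 171979)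
 EL.nil))
noncomputable def S169_198_364_438_15 : EL := (EL.cons 4 (TM.mk (P.cons (P.lf 0 1067088645 0) (P.cons (P.lf 349049136 0 0) (P.cons (P.lf 0 8043112 0) (P.cons (P.lf 0 3877937 0) (P.cons (P.lf 0 106451 0) (P.cons (P.lf 18886 0 0) P.nil)))))) 1845)
 (EL.cons 8 (TM.mk (P.cons (P.lf 0 904046202 0) (P.cons (P.lf 74614324 0 0) (P.cons (P.lf 25318286 0 0) (P.cons (P.lf 156499 0 0) (P.cons (P.lf 0 174949 0) (P.cons (P.lf 0 8365 0) P.nil)))))) 1031)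
 EL.nil))
noncomputable def S169_198_364_438_16 : EL := (EL.cons 4 (TM.mk (P.cons (P.cons (P.lf 0 319883739 0) (P.cons (P.lf 54336738 0 0) (P.cons (P.lf 2973086 0 0) (P.lf 0 330342 0)))) (P.cons (P.cons (P.lf 0 5869175 0) (P.cons (P.lf 0 4566958 0) (P.cons (P.lf 0 249885 0) (P.lf 27764 0 0)))) (P.cons (P.cons (P.lf 50963827 0 0) (P.cons (P.lf 0 3679770 0) (P.cons (P.lf 0 201342 0) (P.lf 22370 0 0)))) (P.cons (P.cons (P.lf 0 5533440 0) (P.cons (P.lf 35726 0 0) (P.cons (P.lf 1954 0 0) P.nil))) (P.cons (P.cons (P.lf 0 1126806 0) (P.cons (P.lf 102185 0 0) P.nil)) (P.cons (P.cons (P.lf 92340 0 0) P.nil) P.nil)))))) 51040)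
 (EL.cons 8 (TM.mk (P.cons (P.cons (P.lf 0 271008112 0) (P.cons (P.lf 46034528 0 0) (P.cons (P.lf 2518823 0 0) (P.lf 0 279868 0)))) (P.cons (P.cons (P.lf 0 71252979 0) (P.cons (P.lf 7389518 0 0) (P.cons (P.lf 404324 0 0) (P.lf 0 44924 0)))) (P.cons (P.cons (P.lf 29912646 0 0) (P.cons (P.lf 0 2017255 0) (P.cons (P.lf 0 110375 0) (P.lf 12263 0 0)))) (P.cons (P.cons (P.lf 3241130 0 0) (P.cons (P.lf 0 494887 0) (P.cons (P.lf 0 27077 0) P.nil))) (P.cons (P.cons (P.lf 0 707800 0) (P.cons (P.lf 2839 0 0) P.nil)) (P.cons (P.cons (P.lf 0 84982 0) P.nil) P.nil)))))) 34461)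
 EL.nil))
noncomputable def S169_198_364_438_17 : EL := (EL.cons 4 (TM.mk (P.cons (P.cons (P.lf 0 95892320 0) (P.cons (P.lf 32577310 0 0) (P.cons (P.lf 0 984357 0) (P.cons (P.lf 0 500836 0) (P.cons (P.lf 25358 0 0) (P.cons (P.lf 1840 0 0) P.nil)))))) (P.cons (P.cons (P.lf 0 34885610 0) (P.cons (P.lf 8515800 0 0) (P.cons (P.lf 26003 0 0) (P.cons (P.lf 0 99915 0) (P.cons (P.lf 4031 0 0) P.nil))))) (P.cons (P.cons (P.lf 19834371 0 0) (P.cons (P.lf 0 4906633 0) (P.cons (P.lf 0 36317 0) (P.cons (P.lf 55234 0 0) P.nil)))) (P.cons (P.cons (P.lf 4342411 0 0) (P.cons (P.lf 0 806850 0) (P.cons (P.lf 10025 0 0) P.nil))) (P.cons (P.cons (P.lf 0 1763191 0) (P.cons (P.lf 219399 0 0) P.nil)) (P.cons (P.cons (P.lf 0 108256 0) P.nil) P.nil)))))) 222104)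
 (EL.cons 8 (TM.mk (P.cons (P.cons (P.lf 0 81240756 0) (P.cons (P.lf 27599763 0 0) (P.cons (P.lf 0 833955 0) (P.cons (P.lf 0 424313 0) (P.cons (P.lf 21484 0 0) (P.cons (P.lf 1559 0 0) P.nil)))))) (P.cons (P.cons (P.lf 0 49424459 0) (P.cons (P.lf 13964741 0 0) (P.cons (P.lf 0 181929 0) (P.cons (P.lf 0 188424 0) (P.cons (P.lf 8670 0 0) P.nil))))) (P.cons (P.cons (P.lf 5963747 0 0) (P.cons (P.lf 0 1165444 0) (P.cons (P.lf 0 62456 0) (P.cons (P.lf 7228 0 0) P.nil)))) (P.cons (P.cons (P.lf 5752360 0 0) (P.cons (P.lf 0 1134092 0) (P.cons (P.lf 0 5466 0) P.nil))) (P.cons (P.cons (P.lf 0 254242 0) (P.cons (P.lf 0 52880 0) P.nil)) (P.cons (P.cons (P.lf 0 225541 0) P.nil) P.nil)))))) 157303)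
 EL.nil))
noncomputable def S169_198_364_438_18 : EL := (EL.cons 4 (TM.mk (P.cons (P.lf 549332354 0 0) (P.cons (P.lf 0 269533349 0) (P.cons (P.lf 28252205 0 0) (P.cons (P.lf 3180359 0 0) (P.cons (P.lf 0 331524 0) (P.cons (P.lf 0 44357 0) P.nil)))))) 4415)
 (EL.cons 8 (TM.mk (P.cons (P.lf 465398850 0 0) (P.cons (P.lf 0 114528063 0) (P.cons (P.lf 0 11222106 0) (P.cons (P.lf 2534590 0 0) (P.cons (P.lf 239457 0 0) (P.cons (P.lf 0 14216 0) P.nil)))))) 3029)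
 EL.nil))
noncomputable def S169_198_364_438_19 : EL := (EL.cons 4 (TM.mk (P.cons (P.cons (P.lf 164674685 0 0) (P.cons (P.lf 0 27972304 0) (P.cons (P.lf 0 1530531 0) (P.lf 170057 0 0)))) (P.cons (P.cons (P.lf 0 23911462 0) (P.cons (P.lf 6925977 0 0) (P.cons (P.lf 378960 0 0) (P.lf 0 42105 0)))) (P.cons (P.cons (P.lf 0 28311958 0) (P.cons (P.lf 1778509 0 0) (P.cons (P.lf 97312 0 0) (P.lf 0 10812 0)))) (P.cons (P.cons (P.lf 7151018 0 0) (P.cons (P.lf 0 357677 0) (P.cons (P.lf 0 19570 0) P.nil))) (P.cons (P.cons (P.lf 374187 0 0) (P.cons (P.lf 0 68445 0) P.nil)) (P.cons (P.cons (P.lf 0 175976 0) P.nil) P.nil)))))) 64006)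
 (EL.cons 8 (TM.mk (P.cons (P.cons (P.lf 139513737 0 0) (P.cons (P.lf 0 23698364 0) (P.cons (P.lf 0 1296678 0) (P.lf 144075 0 0)))) (P.cons (P.cons (P.lf 13862945 0 0) (P.cons (P.lf 71826 0 0) (P.cons (P.lf 3929 0 0) (P.lf 0 436 0)))) (P.cons (P.cons (P.lf 0 22738258 0) (P.cons (P.lf 1888285 0 0) (P.cons (P.lf 103319 0 0) (P.lf 0 11479 0)))) (P.cons (P.cons (P.lf 531969 0 0) (P.cons (P.lf 115633 0 0) (P.cons (P.lf 6327 0 0) P.nil))) (P.cons (P.cons (P.lf 800341 0 0) (P.cons (P.lf 0 55082 0) P.nil)) (P.cons (P.cons (P.lf 0 1893 0) P.nil) P.nil)))))) 38111)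
 EL.nil))
noncomputable def S169_198_364_438_20 : EL := (EL.cons 4 (TM.mk (P.cons (P.cons (P.lf 49364927 0 0) (P.cons (P.lf 0 16770650 0) (P.cons (P.lf 506742 0 0) (P.cons (P.lf 257828 0 0) (P.cons (P.lf 0 13053 0) (P.cons (P.lf 0 946 0) P.nil)))))) (P.cons (P.cons (P.lf 9885215 0 0) (P.cons (P.lf 0 1641019 0) (P.cons (P.lf 0 96265 0) (P.cons (P.lf 9267 0 0) (P.cons (P.lf 59 0 0) P.nil))))) (P.cons (P.cons (P.lf 0 13622063 0) (P.cons (P.lf 3404004 0 0) (P.cons (P.lf 16018 0 0) (P.cons (P.lf 0 39323 0) P.nil)))) (P.cons (P.cons (P.lf 0 725850 0) (P.cons (P.lf 40230 0 0) (P.cons (P.lf 0 7965 0) P.nil))) (P.cons (P.cons (P.lf 1377967 0 0) (P.cons (P.lf 0 206958 0) P.nil)) (P.cons (P.cons (P.lf 0 72935 0) P.nil) P.nil)))))) 198861)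
 (EL.cons 8 (TM.mk (P.cons (P.cons (P.lf 41822369 0 0) (P.cons (P.lf 0 14208231 0) (P.cons (P.lf 429316 0 0) (P.cons (P.lf 218434 0 0) (P.cons (P.lf 0 11059 0) (P.cons (P.lf 0 802 0) P.nil)))))) (P.cons (P.cons (P.lf 18603349 0 0) (P.cons (P.lf 0 4865198 0) (P.cons (P.lf 23441 0 0) (P.cons (P.lf 61274 0 0) (P.cons (P.lf 0 2654 0) P.nil))))) (P.cons (P.cons (P.lf 0 7633187 0) (P.cons (P.lf 1912222 0 0) (P.cons (P.lf 12710 0 0) (P.cons (P.lf 0 21684 0) P.nil)))) (P.cons (P.cons (P.lf 0 2693285 0) (P.cons (P.lf 551261 0 0) (P.cons (P.lf 0 3238 0) P.nil))) (P.cons (P.cons (P.lf 652797 0 0) (P.cons (P.lf 0 76419 0) P.nil)) (P.cons (P.cons (P.lf 123540 0 0) P.nil) P.nil)))))) 129231)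
 EL.nil))
noncomputable def S169_198_364_438_21 : EL := (EL.cons 4 (TM.mk (P.cons (P.cons (P.lf 0 2649487749 0) (P.cons (P.lf 316650474 0 0) (P.cons (P.lf 17325834 0 0) (P.lf 0 1925088 0)))) (P.cons (P.cons (P.lf 708060321 0 0) (P.cons (P.lf 25174626 0 0) (P.cons (P.lf 1377450 0 0) (P.lf 0 153045 0)))) (P.cons (P.cons (P.lf 199500114 0 0) (P.cons (P.lf 0 14284989 0) (P.cons (P.lf 0 781614 0) (P.lf 86844 0 0)))) (P.cons (P.cons (P.lf 0 10103868 0) (P.cons (P.lf 0 1964208 0) (P.cons (P.lf 0 107469 0) P.nil))) (P.cons (P.cons (P.lf 0 4322103 0) (P.cons (P.lf 116907 0 0) P.nil)) (P.cons (P.cons (P.lf 0 83961 0) P.nil) P.nil)))))) 141054)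
 (EL.cons 8 (TM.mk (P.cons (P.cons (P.lf 1111934640 0 0) (P.cons (P.lf 0 132891597 0) (P.cons (P.lf 0 7271298 0) (P.lf 807924 0 0)))) (P.cons (P.cons (P.lf 0 569104422 0) (P.cons (P.lf 21936078 0 0) (P.cons (P.lf 1200252 0 0) (P.lf 0 133359 0)))) (P.cons (P.cons (P.lf 6026748 0 0) (P.cons (P.lf 6538161 0 0) (P.cons (P.lf 357738 0 0) (P.lf 0 39747 0)))) (P.cons (P.cons (P.lf 18180438 0 0) (P.cons (P.lf 0 568320 0) (P.cons (P.lf 0 31095 0) P.nil))) (P.cons (P.cons (P.lf 182379 0 0) (P.cons (P.lf 0 159456 0) P.nil)) (P.cons (P.cons (P.lf 0 254622 0) P.nil) P.nil)))))) 90909)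
 (EL.cons 11 (TM.mk (P.cons (P.cons (P.lf 1806912642 0 0) (P.cons (P.lf 226724115 0 0) (P.cons (P.lf 0 34614906 0) (P.cons (P.lf 0 1057479 0) (P.lf 88122 0 0))))) (P.cons (P.cons (P.lf 292786086 0 0) (P.cons (P.lf 36737616 0 0) (P.cons (P.lf 0 5608884 0) (P.cons (P.lf 0 171348 0) (P.lf 14277 0 0))))) (P.cons (P.cons (P.lf 0 6746640 0) (P.cons (P.lf 0 846540 0) (P.cons (P.lf 129243 0 0) (P.cons (P.lf 3948 0 0) P.nil)))) (P.cons (P.cons (P.lf 0 3252855 0) (P.cons (P.lf 0 408153 0) (P.cons (P.lf 62313 0 0) P.nil))) (P.cons (P.cons (P.lf 0 89295 0) (P.cons (P.lf 0 11202 0) P.nil)) (P.cons (P.cons (P.lf 15840 0 0) P.nil) P.nil)))))) 8241)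
 EL.nil)))
noncomputable def S169_198_364_438_22 : EL := (EL.cons 4 (TM.mk (P.cons (P.cons (P.lf 0 794243340 0) (P.cons (P.lf 229836447 0 0) (P.cons (P.lf 0 3548292 0) (P.cons (P.lf 0 3161781 0) (P.cons (P.lf 147780 0 0) (P.cons (P.lf 10725 0 0) P.nil)))))) (P.cons (P.cons (P.lf 0 62115999 0) (P.cons (P.lf 37074570 0 0) (P.cons (P.lf 0 3172356 0) (P.cons (P.lf 0 794541 0) (P.cons (P.lf 47667 0 0) P.nil))))) (P.cons (P.cons (P.lf 175905969 0 0) (P.cons (P.lf 0 25136865 0) (P.cons (P.lf 0 1028010 0) (P.cons (P.lf 190833 0 0) P.nil)))) (P.cons (P.cons (P.lf 11406783 0 0) (P.cons (P.lf 0 5666070 0) (P.cons (P.lf 16494 0 0) P.nil))) (P.cons (P.cons (P.lf 0 7295067 0) (P.cons (P.lf 444627 0 0) P.nil)) (P.cons (P.cons (P.lf 0 674256 0) P.nil) P.nil)))))) 674550)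
 (EL.cons 8 (TM.mk (P.cons (P.cons (P.lf 333327330 0 0) (P.cons (P.lf 0 96457557 0) (P.cons (P.lf 1489140 0 0) (P.cons (P.lf 1326933 0 0) (P.cons (P.lf 0 62019 0) (P.cons (P.lf 0 4500 0) P.nil)))))) (P.cons (P.cons (P.lf 0 55453212 0) (P.cons (P.lf 8031234 0 0) (P.cons (P.lf 967170 0 0) (P.cons (P.lf 8925 0 0) (P.cons (P.lf 0 4836 0) P.nil))))) (P.cons (P.cons (P.lf 0 75080589 0) (P.cons (P.lf 12873429 0 0) (P.cons (P.lf 128688 0 0) (P.cons (P.lf 0 141261 0) P.nil)))) (P.cons (P.cons (P.lf 13076832 0 0) (P.cons (P.lf 0 269928 0) (P.cons (P.lf 0 94632 0) P.nil))) (P.cons (P.cons (P.lf 3101547 0 0) (P.cons (P.lf 0 592776 0) P.nil)) (P.cons (P.cons (P.lf 0 409290 0) P.nil) P.nil)))))) 336378)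
 (EL.cons 11 (TM.mk (P.cons (P.cons (P.lf 541662564 0 0) (P.cons (P.lf 0 24043347 0) (P.cons (P.lf 0 26955870 0) (P.cons (P.lf 1373286 0 0) (P.cons (P.lf 246894 0 0) (P.cons (P.lf 0 12255 0) P.nil)))))) (P.cons (P.cons (P.lf 274887609 0 0) (P.cons (P.lf 0 2780280 0) (P.cons (P.lf 0 11982129 0) (P.cons (P.lf 523848 0 0) (P.cons (P.lf 102717 0 0) P.nil))))) (P.cons (P.cons (P.lf 0 875541 0) (P.cons (P.lf 0 3780582 0) (P.cons (P.lf 0 644661 0) (P.cons (P.lf 67947 0 0) P.nil)))) (P.cons (P.cons (P.lf 0 9952575 0) (P.cons (P.lf 0 748293 0) (P.cons (P.lf 280848 0 0) P.nil))) (P.cons (P.cons (P.lf 0 598092 0) (P.cons (P.lf 45495 0 0) P.nil)) (P.cons (P.cons (P.lf 142161 0 0) P.nil) P.nil)))))) 167820)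
 EL.nil)))
noncomputable def S169_198_364_438_23 : EL := (EL.cons 4 (TM.mk (P.cons (P.cons (P.lf 1363944177 0 0) (P.cons (P.lf 0 163010214 0) (P.cons (P.lf 0 8919258 0) (P.lf 991026 0 0)))) (P.cons (P.cons (P.lf 0 587582124 0) (P.cons (P.lf 13700877 0 0) (P.cons (P.lf 749658 0 0) (P.lf 0 83295 0)))) (P.cons (P.cons (P.lf 0 56187939 0) (P.cons (P.lf 11039310 0 0) (P.cons (P.lf 604023 0 0) (P.lf 0 67110 0)))) (P.cons (P.cons (P.lf 25835451 0 0) (P.cons (P.lf 0 107178 0) (P.cons (P.lf 0 5865 0) P.nil))) (P.cons (P.cons (P.lf 2331153 0 0) (P.cons (P.lf 0 306558 0) P.nil)) (P.cons (P.cons (P.lf 0 410976 0) P.nil) P.nil)))))) 167892)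
 (EL.cons 8 (TM.mk (P.cons (P.cons (P.lf 0 572418867 0) (P.cons (P.lf 68411985 0 0) (P.cons (P.lf 3743229 0 0) (P.lf 0 415914 0)))) (P.cons (P.cons (P.lf 386592651 0 0) (P.cons (P.lf 0 22481514 0) (P.cons (P.lf 0 1230096 0) (P.lf 136674 0 0)))) (P.cons (P.cons (P.lf 0 45520167 0) (P.cons (P.lf 0 2176047 0) (P.cons (P.lf 0 119061 0) (P.lf 13227 0 0)))) (P.cons (P.cons (P.lf 0 11806860 0) (P.cons (P.lf 968358 0 0) (P.cons (P.lf 52983 0 0) P.nil))) (P.cons (P.cons (P.lf 1513527 0 0) (P.cons (P.lf 66798 0 0) P.nil)) (P.cons (P.cons (P.lf 248052 0 0) P.nil) P.nil)))))) 109887)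
 (EL.cons 11 (TM.mk (P.cons (P.cons (P.lf 0 930190365 0) (P.cons (P.lf 0 116716536 0) (P.cons (P.lf 17819595 0 0) (P.cons (P.lf 544383 0 0) (P.lf 0 45363 0))))) (P.cons (P.cons (P.lf 1409631 0 0) (P.cons (P.lf 176874 0 0) (P.cons (P.lf 0 27003 0) (P.cons (P.lf 0 825 0) (P.lf 69 0 0))))) (P.cons (P.cons (P.lf 37059852 0 0) (P.cons (P.lf 4650120 0 0) (P.cons (P.lf 0 709950 0) (P.cons (P.lf 0 21687 0) P.nil)))) (P.cons (P.cons (P.lf 2325543 0 0) (P.cons (P.lf 291798 0 0) (P.cons (P.lf 0 44547 0) P.nil))) (P.cons (P.cons (P.lf 0 339252 0) (P.cons (P.lf 0 42567 0) P.nil)) (P.cons (P.cons (P.lf 0 38187 0) P.nil) P.nil)))))) 23046)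
 EL.nil)))
noncomputable def S169_198_364_438_24 : EL := (EL.cons 4 (TM.mk (P.cons (P.cons (P.lf 408872838 0 0) (P.cons (P.lf 0 118318749 0) (P.cons (P.lf 1826643 0 0) (P.cons (P.lf 1627668 0 0) (P.cons (P.lf 0 76074 0) (P.cons (P.lf 0 5520 0) P.nil)))))) (P.cons (P.cons (P.lf 0 34894971 0) (P.cons (P.lf 265458 0 0) (P.cons (P.lf 1334364 0 0) (P.cons (P.lf 142815 0 0) (P.cons (P.lf 0 12096 0) P.nil))))) (P.cons (P.cons (P.lf 0 99713097 0) (P.cons (P.lf 17198430 0 0) (P.cons (P.lf 244569 0 0) (P.cons (P.lf 0 180771 0) P.nil)))) (P.cons (P.cons (P.lf 8731806 0 0) (P.cons (P.lf 954675 0 0) (P.cons (P.lf 0 110283 0) P.nil))) (P.cons (P.cons (P.lf 5611587 0 0) (P.cons (P.lf 0 840153 0) P.nil)) (P.cons (P.cons (P.lf 0 231282 0) P.nil) P.nil)))))) 529518)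
 (EL.cons 8 (TM.mk (P.cons (P.cons (P.lf 0 171595386 0) (P.cons (P.lf 49655907 0 0) (P.cons (P.lf 0 766602 0) (P.cons (P.lf 0 683100 0) (P.cons (P.lf 31926 0 0) (P.cons (P.lf 2316 0 0) P.nil)))))) (P.cons (P.cons (P.lf 56611842 0 0) (P.cons (P.lf 0 12255771 0) (P.cons (P.lf 0 372513 0) (P.cons (P.lf 107127 0 0) (P.cons (P.lf 0 2730 0) P.nil))))) (P.cons (P.cons (P.lf 35630544 0 0) (P.cons (P.lf 0 6427977 0) (P.cons (P.lf 22545 0 0) (P.cons (P.lf 80034 0 0) P.nil)))) (P.cons (P.cons (P.lf 0 13369800 0) (P.cons (P.lf 1274775 0 0) (P.cons (P.lf 64146 0 0) P.nil))) (P.cons (P.cons (P.lf 0 867450 0) (P.cons (P.lf 347259 0 0) P.nil)) (P.cons (P.cons (P.lf 547146 0 0) P.nil) P.nil)))))) 216726)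
 (EL.cons 11 (TM.mk (P.cons (P.cons (P.lf 0 278845410 0) (P.cons (P.lf 12377403 0 0) (P.cons (P.lf 13876758 0 0) (P.cons (P.lf 0 706962 0) (P.cons (P.lf 0 127098 0) (P.cons (P.lf 6309 0 0) P.nil)))))) (P.cons (P.cons (P.lf 0 95905137 0) (P.cons (P.lf 0 593073 0) (P.cons (P.lf 3898770 0 0) (P.cons (P.lf 0 154047 0) (P.cons (P.lf 0 32091 0) P.nil))))) (P.cons (P.cons (P.lf 26273691 0 0) (P.cons (P.lf 1593240 0 0) (P.cons (P.lf 0 810273 0) (P.cons (P.lf 15915 0 0) P.nil)))) (P.cons (P.cons (P.lf 6340569 0 0) (P.cons (P.lf 56202 0 0) (P.cons (P.lf 0 254694 0) P.nil))) (P.cons (P.cons (P.lf 0 581472 0) (P.cons (P.lf 0 104223 0) P.nil)) (P.cons (P.cons (P.lf 0 179064 0) P.nil) P.nil)))))) 149577)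
 EL.nil)))
noncomputable def S169_198_364_438_25 : EL := (EL.cons 4 (TM.mk (P.cons (P.cons (P.lf 0 702152223 0) (P.cons (P.lf 83916912 0 0) (P.cons (P.lf 4591593 0 0) (P.lf 0 510174 0)))) (P.cons (P.cons (P.lf 417323046 0 0) (P.cons (P.lf 0 20777934 0) (P.cons (P.lf 0 1136883 0) (P.lf 126321 0 0)))) (P.cons (P.cons (P.lf 0 13801869 0) (P.cons (P.lf 0 5335527 0) (P.cons (P.lf 0 291936 0) (P.lf 32436 0 0)))) (P.cons (P.cons (P.lf 0 21109134 0) (P.cons (P.lf 1073034 0 0) (P.cons (P.lf 58713 0 0) P.nil))) (P.cons (P.cons (P.lf 740847 0 0) (P.cons (P.lf 205335 0 0) P.nil)) (P.cons (P.cons (P.lf 555522 0 0) P.nil) P.nil)))))) 148803)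
 (EL.cons 8 (TM.mk (P.cons (P.cons (P.lf 294678615 0 0) (P.cons (P.lf 0 35218176 0) (P.cons (P.lf 0 1926996 0) (P.lf 214110 0 0)))) (P.cons (P.cons (P.lf 0 247211427 0) (P.cons (P.lf 17333385 0 0) (P.cons (P.lf 948411 0 0) (P.lf 0 105378 0)))) (P.cons (P.cons (P.lf 53152416 0 0) (P.cons (P.lf 0 434325 0) (P.cons (P.lf 0 23763 0) (P.lf 2640 0 0)))) (P.cons (P.cons (P.lf 4229730 0 0) (P.cons (P.lf 0 801555 0) (P.cons (P.lf 0 43857 0) P.nil))) (P.cons (P.cons (P.lf 0 2034345 0) (P.cons (P.lf 37680 0 0) P.nil)) (P.cons (P.cons (P.lf 0 61428 0) P.nil) P.nil)))))) 111321)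
 (EL.cons 11 (TM.mk (P.cons (P.cons (P.lf 478857744 0 0) (P.cons (P.lf 60085137 0 0) (P.cons (P.lf 0 9173445 0) (P.cons (P.lf 0 280245 0) (P.lf 23352 0 0))))) (P.cons (P.cons (P.lf 0 79043850 0) (P.cons (P.lf 0 9918102 0) (P.cons (P.lf 1514235 0 0) (P.cons (P.lf 46260 0 0) (P.lf 0 3855 0))))) (P.cons (P.cons (P.lf 0 23559429 0) (P.cons (P.lf 0 2956140 0) (P.cons (P.lf 451323 0 0) (P.cons (P.lf 13785 0 0) P.nil)))) (P.cons (P.cons (P.lf 2047872 0 0) (P.cons (P.lf 256959 0 0) (P.cons (P.lf 0 39231 0) P.nil))) (P.cons (P.cons (P.lf 574590 0 0) (P.cons (P.lf 72096 0 0) P.nil)) (P.cons (P.cons (P.lf 0 1791 0) P.nil) P.nil)))))) 31959)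
 EL.nil)))
noncomputable def S169_198_364_438_26 : EL := (EL.cons 4 (TM.mk (P.cons (P.cons (P.lf 0 210485865 0) (P.cons (P.lf 60909951 0 0) (P.cons (P.lf 0 940347 0) (P.cons (P.lf 0 837915 0) (P.cons (P.lf 39162 0 0) (P.cons (P.lf 2841 0 0) P.nil)))))) (P.cons (P.cons (P.lf 52389171 0 0) (P.cons (P.lf 0 10098603 0) (P.cons (P.lf 0 533127 0) (P.cons (P.lf 63519 0 0) (P.cons (P.lf 0 177 0) P.nil))))) (P.cons (P.cons (P.lf 50415744 0 0) (P.cons (P.lf 0 9416418 0) (P.cons (P.lf 0 4521 0) (P.cons (P.lf 113133 0 0) P.nil)))) (P.cons (P.cons (P.lf 0 13114860 0) (P.cons (P.lf 972867 0 0) (P.cons (P.lf 83730 0 0) P.nil))) (P.cons (P.cons (P.lf 0 2651565 0) (P.cons (P.lf 600579 0 0) P.nil)) (P.cons (P.cons (P.lf 647982 0 0) P.nil) P.nil)))))) 434955)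
 (EL.cons 8 (TM.mk (P.cons (P.cons (P.lf 88336518 0 0) (P.cons (P.lf 0 25562634 0) (P.cons (P.lf 394644 0 0) (P.cons (P.lf 351654 0 0) (P.cons (P.lf 0 16434 0) (P.cons (P.lf 0 1191 0) P.nil)))))) (P.cons (P.cons (P.lf 0 43591137 0) (P.cons (P.lf 10490034 0 0) (P.cons (P.lf 127224 0 0) (P.cons (P.lf 0 112662 0) (P.cons (P.lf 4092 0 0) P.nil))))) (P.cons (P.cons (P.lf 0 14424510 0) (P.cons (P.lf 2522760 0 0) (P.cons (P.lf 0 46761 0) (P.cons (P.lf 0 35559 0) P.nil)))) (P.cons (P.cons (P.lf 10184337 0 0) (P.cons (P.lf 0 1264350 0) (P.cons (P.lf 0 32868 0) P.nil))) (P.cons (P.cons (P.lf 0 506208 0) (P.cons (P.lf 0 102795 0) P.nil)) (P.cons (P.cons (P.lf 0 426549 0) P.nil) P.nil)))))) 199191)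
 (EL.cons 11 (TM.mk (P.cons (P.cons (P.lf 143548341 0 0) (P.cons (P.lf 0 6371829 0) (P.cons (P.lf 0 7143690 0) (P.cons (P.lf 363939 0 0) (P.cons (P.lf 65430 0 0) (P.cons (P.lf 0 3246 0) P.nil)))))) (P.cons (P.cons (P.lf 25893894 0 0) (P.cons (P.lf 1347438 0 0) (P.cons (P.lf 0 838704 0) (P.cons (P.lf 19779 0 0) (P.cons (P.lf 5817 0 0) P.nil))))) (P.cons (P.cons (P.lf 0 22979307 0) (P.cons (P.lf 0 808920 0) (P.cons (P.lf 814008 0 0) (P.cons (P.lf 0 24660 0) P.nil)))) (P.cons (P.cons (P.lf 0 1490907 0) (P.cons (P.lf 100710 0 0) (P.cons (P.lf 80415 0 0) P.nil))) (P.cons (P.cons (P.lf 981570 0 0) (P.cons (P.lf 66060 0 0) P.nil)) (P.cons (P.cons (P.lf 73524 0 0) P.nil) P.nil)))))) 140430)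
 EL.nil)))
noncomputable def S169_198_364_438_27 : EL := (EL.cons 13 (TM.mk (P.lf 0 4294967296 0) 0)
 EL.nil)
noncomputable def S169_198_364_438_28 : EL := (EL.cons 13 (TM.mk (P.cons (P.cons (P.lf 0 1287512718 0) (P.cons (P.lf 218702092 0 0) (P.cons (P.lf 11966496 0 0) (P.lf 0 1329608 0)))) (P.cons (P.cons (P.lf 0 444773847 0) (P.cons (P.lf 53156632 0 0) (P.cons (P.lf 2908516 0 0) (P.lf 0 323168 0)))) (P.cons (P.cons (P.lf 69343495 0 0) (P.cons (P.lf 928448 0 0) (P.cons (P.lf 50800 0 0) (P.lf 0 5644 0)))) (P.cons (P.cons (P.lf 8442224 0 0) (P.cons (P.lf 0 747960 0) (P.cons (P.lf 0 40924 0) P.nil))) (P.cons (P.cons (P.lf 0 551709 0) (P.cons (P.lf 0 55360 0) P.nil)) (P.cons (P.cons (P.lf 0 102854 0) P.nil) P.nil)))))) 26065)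
 EL.nil)
noncomputable def S169_198_364_438_29 : EL := (EL.cons 13 (TM.mk (P.cons (P.cons (P.lf 0 385960796 0) (P.cons (P.lf 131121708 0 0) (P.cons (P.lf 0 3961979 0) (P.cons (P.lf 0 2015840 0) (P.cons (P.lf 102068 0 0) (P.cons (P.lf 7409 0 0) P.nil)))))) (P.cons (P.cons (P.lf 0 266661860 0) (P.cons (P.lf 77166040 0 0) (P.cons (P.lf 0 1191315 0) (P.cons (P.lf 0 1061547 0) (P.cons (P.lf 49616 0 0) P.nil))))) (P.cons (P.cons (P.lf 0 4484902 0) (P.cons (P.lf 4504109 0 0) (P.cons (P.lf 0 506000 0) (P.cons (P.lf 0 109724 0) P.nil)))) (P.cons (P.cons (P.lf 19423497 0 0) (P.cons (P.lf 0 2832364 0) (P.cons (P.lf 0 101783 0) P.nil))) (P.cons (P.cons (P.lf 298157 0 0) (P.cons (P.lf 0 370867 0) P.nil)) (P.cons (P.cons (P.lf 0 448536 0) P.nil) P.nil)))))) 262254)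
 EL.nil)
noncomputable def S169_198_364_438_30 : EL := (EL.cons 13 (TM.mk (P.cons (P.lf 2211029524 0 0) (P.cons (P.lf 0 361618480 0) (P.cons (P.lf 0 21238980 0) (P.cons (P.lf 543904 0 0) (P.cons (P.lf 97232 0 0) (P.cons (P.lf 1560 0 0) P.nil)))))) 512)
 EL.nil)
noncomputable def S169_198_364_438_31 : EL := (EL.cons 13 (TM.mk (P.cons (P.cons (P.lf 662805659 0 0) (P.cons (P.lf 0 112586836 0) (P.cons (P.lf 0 6160297 0) (P.lf 684476 0 0)))) (P.cons (P.cons (P.lf 120564297 0 0) (P.cons (P.lf 0 8950979 0) (P.cons (P.lf 0 489761 0) (P.lf 54417 0 0)))) (P.cons (P.cons (P.lf 0 79512692 0) (P.cons (P.lf 5079108 0 0) (P.cons (P.lf 277908 0 0) (P.lf 0 30878 0)))) (P.cons (P.cons (P.lf 0 543980 0) (P.cons (P.lf 698386 0 0) (P.cons (P.lf 38212 0 0) P.nil))) (P.cons (P.cons (P.lf 1423199 0 0) (P.cons (P.lf 0 41567 0) P.nil)) (P.cons (P.cons (P.lf 49999 0 0) P.nil) P.nil)))))) 48197)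
 EL.nil)
noncomputable def S169_198_364_438_32 : EL := (EL.cons 13 (TM.mk (P.cons (P.cons (P.lf 198690852 0 0) (P.cons (P.lf 0 67500855 0) (P.cons (P.lf 2039608 0 0) (P.cons (P.lf 1037745 0 0) (P.cons (P.lf 0 52544 0) (P.cons (P.lf 0 3814 0) P.nil)))))) (P.cons (P.cons (P.lf 104780003 0 0) (P.cons (P.lf 0 28684819 0) (P.cons (P.lf 279701 0 0) (P.cons (P.lf 376754 0 0) (P.cons (P.lf 0 16948 0) P.nil))))) (P.cons (P.cons (P.lf 0 22051627 0) (P.cons (P.lf 4826774 0 0) (P.cons (P.lf 140590 0 0) (P.cons (P.lf 0 42860 0) P.nil)))) (P.cons (P.cons (P.lf 0 11646526 0) (P.cons (P.lf 2202303 0 0) (P.cons (P.lf 4404 0 0) P.nil))) (P.cons (P.cons (P.lf 1502217 0 0) (P.cons (P.lf 0 38020 0) P.nil)) (P.cons (P.cons (P.lf 358803 0 0) P.nil) P.nil)))))) 286325)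
 EL.nil)
noncomputable def S169_198_364_438_33 : EL := (EL.cons 14 (TM.mk (P.lf 8589934592 0 0) 0)
 EL.nil)
noncomputable def S169_198_364_438_34 : EL := (EL.cons 14 (TM.mk (P.cons (P.cons (P.lf 2575025436 0 0) (P.cons (P.lf 0 437404184 0) (P.cons (P.lf 0 23932992 0) (P.lf 2659216 0 0)))) (P.cons (P.cons (P.lf 889547694 0 0) (P.cons (P.lf 0 106313264 0) (P.cons (P.lf 0 5817032 0) (P.lf 646336 0 0)))) (P.cons (P.cons (P.lf 0 138686990 0) (P.cons (P.lf 0 1856896 0) (P.cons (P.lf 0 101600 0) (P.lf 11288 0 0)))) (P.cons (P.cons (P.lf 0 16884448 0) (P.cons (P.lf 1495920 0 0) (P.cons (P.lf 81848 0 0) P.nil))) (P.cons (P.cons (P.lf 1103418 0 0) (P.cons (P.lf 110720 0 0) P.nil)) (P.cons (P.cons (P.lf 205708 0 0) P.nil) P.nil)))))) 52130)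
 EL.nil)
noncomputable def S169_198_364_438_35 : EL := (EL.cons 14 (TM.mk (P.cons (P.cons (P.lf 771921592 0 0) (P.cons (P.lf 0 262243416 0) (P.cons (P.lf 7923958 0 0) (P.cons (P.lf 4031680 0 0) (P.cons (P.lf 0 204136 0) (P.cons (P.lf 0 14818 0) P.nil)))))) (P.cons (P.cons (P.lf 533323720 0 0) (P.cons (P.lf 0 154332080 0) (P.cons (P.lf 2382630 0 0) (P.cons (P.lf 2123094 0 0) (P.cons (P.lf 0 99232 0) P.nil))))) (P.cons (P.cons (P.lf 8969804 0 0) (P.cons (P.lf 0 9008218 0) (P.cons (P.lf 1012000 0 0) (P.cons (P.lf 219448 0 0) P.nil)))) (P.cons (P.cons (P.lf 0 38846994 0) (P.cons (P.lf 5664728 0 0) (P.cons (P.lf 203566 0 0) P.nil))) (P.cons (P.cons (P.lf 0 596314 0) (P.cons (P.lf 741734 0 0) P.nil)) (P.cons (P.cons (P.lf 897072 0 0) P.nil) P.nil)))))) 524508)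
 EL.nil)
noncomputable def S169_198_364_438_36 : EL := (EL.cons 14 (TM.mk (P.cons (P.lf 0 4422059048 0) (P.cons (P.lf 723236960 0 0) (P.cons (P.lf 42477960 0 0) (P.cons (P.lf 0 1087808 0) (P.cons (P.lf 0 194464 0) (P.cons (P.lf 0 3120 0) P.nil)))))) 1024)
 EL.nil)
noncomputable def S169_198_364_438_37 : EL := (EL.cons 14 (TM.mk (P.cons (P.cons (P.lf 0 1325611318 0) (P.cons (P.lf 225173672 0 0) (P.cons (P.lf 12320594 0 0) (P.lf 0 1368952 0)))) (P.cons (P.cons (P.lf 0 241128594 0) (P.cons (P.lf 17901958 0 0) (P.cons (P.lf 979522 0 0) (P.lf 0 108834 0)))) (P.cons (P.cons (P.lf 159025384 0 0) (P.cons (P.lf 0 10158216 0) (P.cons (P.lf 0 555816 0) (P.lf 61756 0 0)))) (P.cons (P.cons (P.lf 1087960 0 0) (P.cons (P.lf 0 1396772 0) (P.cons (P.lf 0 76424 0) P.nil))) (P.cons (P.cons (P.lf 0 2846398 0) (P.cons (P.lf 83134 0 0) P.nil)) (P.cons (P.cons (P.lf 0 99998 0) P.nil) P.nil))))))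 96394)
 EL.nil)
noncomputable def S169_198_364_438_38 : EL := (EL.cons 14 (TM.mk (P.cons (P.cons (P.lf 0 397381704 0) (P.cons (P.lf 135001710 0 0) (P.cons (P.lf 0 4079216 0) (P.cons (P.lf 0 2075490 0) (P.cons (P.lf 105088 0 0) (P.cons (P.lf 7628 0 0) P.nil)))))) (P.cons (P.cons (P.lf 0 209560006 0) (P.cons (P.lf 57369638 0 0) (P.cons (P.lf 0 559402 0) (P.cons (P.lf 0 753508 0) (P.cons (P.lf 33896 0 0) P.nil))))) (P.cons (P.cons (P.lf 44103254 0 0) (P.cons (P.lf 0 9653548 0) (P.cons (P.lf 0 281180 0) (P.cons (P.lf 85720 0 0) P.nil)))) (P.cons (P.cons (P.lf 23293052 0 0) (P.cons (P.lf 0 4404606 0) (P.cons (P.lf 0 8808 0) P.nil))) (P.cons (P.cons (P.lf 0 3004434 0) (P.cons (P.lf 76040 0 0) P.nil)) (P.cons (P.cons (P.lf 0 717606 0) P.nil) P.nil)))))) 572650)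
 EL.nil)
noncomputable def S169_198_364_438_39 : EL := (EL.cons 14 (TM.mk (P.cons (P.lf 2276455776 0 0) (P.cons (P.lf 0 744638158 0) (P.cons (P.lf 17158640 0 0) (P.cons (P.lf 8272934 0 0) (P.cons (P.lf 227096 0 0) (P.cons (P.lf 0 40292 0) P.nil)))))) 3922)
 EL.nil)
noncomputable def S169_198_364_438_40 : EL := (EL.cons 14 (TM.mk (P.cons (P.cons (P.lf 682418644 0 0) (P.cons (P.lf 0 115918376 0) (P.cons (P.lf 0 6342584 0) (P.lf 704730 0 0)))) (P.cons (P.cons (P.lf 12520908 0 0) (P.cons (P.lf 9742844 0 0) (P.cons (P.lf 533088 0 0) (P.lf 0 59230 0)))) (P.cons (P.cons (P.lf 0 108722832 0) (P.cons (P.lf 7850176 0 0) (P.cons (P.lf 429530 0 0) (P.lf 0 47724 0)))) (P.cons (P.cons (P.lf 11804672 0 0) (P.cons (P.lf 0 76216 0) (P.cons (P.lf 0 4170 0) P.nil))) (P.cons (P.cons (P.lf 2403854 0 0) (P.cons (P.lf 0 217996 0) P.nil)) (P.cons (P.cons (P.lf 0 196992 0) P.nil) P.nil))))))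 108846)
 EL.nil)
noncomputable def S169_198_364_438_41 : EL := (EL.cons 14 (TM.mk (P.cons (P.cons (P.lf 204570284 0 0) (P.cons (P.lf 0 69498262 0) (P.cons (P.lf 2099962 0 0) (P.cons (P.lf 1068452 0 0) (P.cons (P.lf 0 54098 0) (P.cons (P.lf 0 3926 0) P.nil)))))) (P.cons (P.cons (P.lf 74422636 0 0) (P.cons (P.lf 0 18167040 0) (P.cons (P.lf 0 55474 0) (P.cons (P.lf 213154 0 0) (P.cons (P.lf 0 8600 0) P.nil))))) (P.cons (P.cons (P.lf 0 42313326 0) (P.cons (P.lf 10467484 0 0) (P.cons (P.lf 77478 0 0) (P.cons (P.lf 0 117834 0) P.nil)))) (P.cons (P.cons (P.lf 0 9263812 0) (P.cons (P.lf 1721282 0 0) (P.cons (P.lf 0 21388 0) P.nil))) (P.cons (P.cons (P.lf 3761476 0 0) (P.cons (P.lf 0 468052 0) P.nil)) (P.cons (P.cons (P.lf 230948 0 0) P.nil) P.nil)))))) 473776)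
 EL.nil)
noncomputable def S169_198_364_438_42 : EL := (EL.cons 14 (TM.mk (P.cons (P.lf 0 1171909022 0) (P.cons (P.lf 575004478 0 0) (P.cons (P.lf 0 60271372 0) (P.cons (P.lf 0 6784766 0) (P.cons (P.lf 707252 0 0) (P.cons (P.lf 94630 0 0) P.nil)))))) 9404)
 EL.nil)
noncomputable def S169_198_364_438_43 : EL := (EL.cons 14 (TM.mk (P.cons (P.cons (P.lf 0 351305996 0) (P.cons (P.lf 59674250 0 0) (P.cons (P.lf 3265134 0 0) (P.lf 0 362790 0)))) (P.cons (P.cons (P.lf 51011120 0 0) (P.cons (P.lf 0 14775418 0) (P.cons (P.lf 0 808450 0) (P.lf 89826 0 0)))) (P.cons (P.cons (P.lf 60398844 0 0) (P.cons (P.lf 0 3794154 0) (P.cons (P.lf 0 207600 0) (P.lf 23066 0 0)))) (P.cons (P.cons (P.lf 0 15255506 0) (P.cons (P.lf 763046 0 0) (P.cons (P.lf 41750 0 0) P.nil))) (P.cons (P.cons (P.lf 0 798266 0) (P.cons (P.lf 146016 0 0) P.nil)) (P.cons (P.cons (P.lf 375416 0 0) P.nil) P.nil))))))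 136506)
 EL.nil)
noncomputable def S169_198_364_438_44 : EL := (EL.cons 14 (TM.mk (P.cons (P.cons (P.lf 0 105311846 0) (P.cons (P.lf 35777388 0 0) (P.cons (P.lf 0 1081050 0) (P.cons (P.lf 0 550034 0) (P.cons (P.lf 27848 0 0) (P.cons (P.lf 2020 0 0) P.nil)))))) (P.cons (P.cons (P.lf 0 21088460 0) (P.cons (P.lf 3500842 0 0) (P.cons (P.lf 205366 0 0) (P.cons (P.lf 0 19770 0) (P.cons (P.lf 0 126 0) P.nil))))) (P.cons (P.cons (P.lf 29060402 0 0) (P.cons (P.lf 0 7261876 0) (P.cons (P.lf 0 34172 0) (P.cons (P.lf 83890 0 0) P.nil)))) (P.cons (P.cons (P.lf 1548482 0 0) (P.cons (P.lf 0 85826 0) (P.cons (P.lf 16992 0 0) P.nil))) (P.cons (P.cons (P.lf 0 2939664 0) (P.cons (P.lf 441512 0 0) P.nil)) (P.cons (P.cons (P.lf 155596 0 0) P.nil) P.nil)))))) 424190)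
 EL.nil)
noncomputable def S169_198_364_438_45 : EL := (EL.cons 14 (TM.mk (P.cons (P.cons (P.lf 231400798 0 0) (P.cons (P.lf 0 117920012 0) (P.cons (P.lf 13578260 0 0) (P.cons (P.lf 1774714 0 0) (P.cons (P.lf 0 369750 0) (P.cons (P.lf 0 2826 0) P.nil)))))) (P.cons (P.cons (P.lf 239813608 0 0) (P.cons (P.lf 0 110132454 0) (P.cons (P.lf 10630488 0 0) (P.cons (P.lf 1665326 0 0) (P.cons (P.lf 0 288406 0) P.nil))))) (P.cons (P.cons (P.lf 45455394 0 0) (P.cons (P.lf 0 21672874 0) (P.cons (P.lf 2452370 0 0) (P.cons (P.lf 314452 0 0) P.nil)))) (P.cons (P.cons (P.lf 0 20844332 0) (P.cons (P.lf 5658704 0 0) (P.cons (P.lf 25718 0 0) P.nil))) (P.cons (P.cons (P.lf 0 5295604 0) (P.cons (P.lf 1836124 0 0) P.nil)) (P.cons (P.cons (P.lf 903722 0 0) P.nil) P.nil)))))) 1323352)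
 EL.nil)
noncomputable def S169_198_364_438_46 : EL := (EL.cons 15 (TM.mk (P.lf 4294967296 0 0) 0)
 EL.nil)
noncomputable def S169_198_364_438_47 : EL := (EL.cons 15 (TM.mk (P.cons (P.cons (P.lf 1287512718 0 0) (P.cons (P.lf 0 218702092 0) (P.cons (P.lf 0 11966496 0) (P.lf 1329608 0 0)))) (P.cons (P.cons (P.lf 444773847 0 0) (P.cons (P.lf 0 53156632 0) (P.cons (P.lf 0 2908516 0) (P.lf 323168 0 0)))) (P.cons (P.cons (P.lf 0 69343495 0) (P.cons (P.lf 0 928448 0) (P.cons (P.lf 0 50800 0) (P.lf 5644 0 0)))) (P.cons (P.cons (P.lf 0 8442224 0) (P.cons (P.lf 747960 0 0) (P.cons (P.lf 40924 0 0) P.nil))) (P.cons (P.cons (P.lf 551709 0 0) (P.cons (P.lf 55360 0 0) P.nil)) (P.cons (P.cons (P.lf 102854 0 0) P.nil) P.nil)))))) 26065)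
 EL.nil)
noncomputable def S169_198_364_438_48 : EL := (EL.cons 15 (TM.mk (P.cons (P.cons (P.lf 385960796 0 0) (P.cons (P.lf 0 131121708 0) (P.cons (P.lf 3961979 0 0) (P.cons (P.lf 2015840 0 0) (P.cons (P.lf 0 102068 0) (P.cons (P.lf 0 7409 0) P.nil)))))) (P.cons (P.cons (P.lf 266661860 0 0) (P.cons (P.lf 0 77166040 0) (P.cons (P.lf 1191315 0 0) (P.cons (P.lf 1061547 0 0) (P.cons (P.lf 0 49616 0) P.nil))))) (P.cons (P.cons (P.lf 4484902 0 0) (P.cons (P.lf 0 4504109 0) (P.cons (P.lf 506000 0 0) (P.cons (P.lf 109724 0 0) P.nil)))) (P.cons (P.cons (P.lf 0 19423497 0) (P.cons (P.lf 2832364 0 0) (P.cons (P.lf 101783 0 0) P.nil))) (P.cons (P.cons (P.lf 0 298157 0) (P.cons (P.lf 370867 0 0) P.nil)) (P.cons (P.cons (P.lf 448536 0 0) P.nil) P.nil)))))) 262254)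
 EL.nil)
noncomputable def S169_198_364_438 : SL := (SL.cons S169_198_364_438_0 (SL.cons S169_198_364_438_1 (SL.cons S169_198_364_438_2 (SL.cons S169_198_364_438_3 (SL.cons S169_198_364_438_4 (SL.cons S169_198_364_438_5 (SL.cons S169_198_364_438_6 (SL.cons S169_198_364_438_7 (SL.cons S169_198_364_438_8 (SL.cons S169_198_364_438_9 (SL.cons S169_198_364_438_10 (SL.cons S169_198_364_438_11 (SL.cons S169_198_364_438_12 (SL.cons S169_198_364_438_13 (SL.cons S169_198_364_438_14 (SL.cons S169_198_364_438_15 (SL.cons S169_198_364_438_16 (SL.cons S169_198_364_438_17 (SL.cons S169_198_364_438_18 (SL.cons S169_198_364_438_19 (SL.cons S169_198_364_438_20 (SL.cons S169_198_364_438_21 (SL.cons S169_198_364_438_22 (SL.cons S169_198_364_438_23 (SL.cons S169_198_364_438_24 (SL.cons S169_198_364_438_25 (SL.cons S169_198_364_438_26 (SL.cons S169_198_364_438_27 (SL.cons S169_198_364_438_28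 (SL.cons S169_198_364_438_29 (SL.cons S169_198_364_438_30 (SL.cons S169_198_364_438_31 (SL.cons S169_198_364_438_32 (SL.cons S169_198_364_438_33 (SL.cons S169_198_364_438_34 (SL.cons S169_198_364_438_35 (SL.cons S169_198_364_438_36 (SL.cons S169_198_364_438_37 (SL.cons S169_198_364_438_38 (SL.cons S169_198_364_438_39 (SL.cons S169_198_364_438_40 (SL.cons S169_198_364_438_41 (SL.cons S169_198_364_438_42 (SL.cons S169_198_364_438_43 (SL.cons S169_198_364_438_44 (SL.cons S169_198_364_438_45 (SL.cons S169_198_364_438_46 (SL.cons S169_198_364_438_47 (SL.cons S169_198_364_438_48 SL.nil)))))))))))))))))))))))))))))))))))))))))))))))))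
noncomputable def S169_198_364_512_0 : EL := (EL.cons 0 (TM.mk (P.cons (P.lf 6454925654 0 0) (P.cons (P.lf 654467131 0 0) (P.cons (P.lf 0 15080835 0) (P.cons (P.lf 0 7271133 0) (P.cons (P.lf 0 199596 0) (P.cons (P.lf 35412 0 0) P.nil)))))) 3454)
 (EL.cons 1 (TM.mk (P.cons (P.lf 0 1695086628 0) (P.cons (P.lf 139901857 0 0) (P.cons (P.lf 47471786 0 0) (P.cons (P.lf 293435 0 0) (P.cons (P.lf 0 328029 0) (P.cons (P.lf 0 15684 0) P.nil)))))) 1940)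
 (EL.cons 5 (TM.mk (P.cons (P.lf 5006359730 0 0) (P.cons (P.lf 0 232699422 0) (P.cons (P.lf 5362070 0 0) (P.cons (P.lf 2585292 0 0) (P.cons (P.lf 70970 0 0) (P.cons (P.lf 0 12590 0) P.nil)))))) 1169)
 (EL.cons 9 (TM.mk (P.lf 6442450944 0 0) 2)
 EL.nil))))
noncomputable def S169_198_364_512_1 : EL := (EL.cons 0 (TM.mk (P.cons (P.cons (P.lf 0 646551666 0) (P.cons (P.lf 0 50291357 0) (P.cons (P.lf 0 3362370 0) (P.lf 1120792 0 0)))) (P.cons (P.cons (P.lf 1820700160 0 0) (P.cons (P.lf 0 303142911 0) (P.cons (P.lf 0 20267426 0) (P.lf 6755803 0 0)))) (P.cons (P.cons (P.lf 33532207 0 0) (P.cons (P.lf 0 64219253 0) (P.cons (P.lf 0 4293544 0) (P.lf 1431177 0 0)))) (P.cons (P.cons (P.lf 0 73612150 0) (P.cons (P.lf 3798434 0 0) (P.cons (P.lf 253951 0 0) P.nil))) (P.cons (P.cons (P.lf 0 4479528 0) (P.cons (P.lf 1910425 0 0) P.nil)) (P.cons (P.cons (P.lf 1179540 0 0) P.nil) P.nil))))))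 1073889)
 (EL.cons 1 (TM.mk (P.cons (P.cons (P.lf 0 895794240 0) (P.cons (P.lf 330960282 0 0) (P.cons (P.lf 22127226 0 0) (P.lf 0 7375736 0)))) (P.cons (P.cons (P.lf 0 235862561 0) (P.cons (P.lf 121591215 0 0) (P.cons (P.lf 8129295 0 0) (P.lf 0 2709761 0)))) (P.cons (P.cons (P.lf 201590162 0 0) (P.cons (P.lf 0 16184232 0) (P.cons (P.lf 0 1082038 0) (P.lf 360675 0 0)))) (P.cons (P.cons (P.lf 15271507 0 0) (P.cons (P.lf 0 7043915 0) (P.cons (P.lf 0 470927 0) P.nil))) (P.cons (P.cons (P.lf 0 5460792 0) (P.cons (P.lf 0 107628 0) P.nil)) (P.cons (P.cons (P.lf 0 528664 0) P.nil) P.nil)))))) 627461)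
 (EL.cons 5 (TM.mk (P.cons (P.cons (P.lf 2028780387 0 0) (P.cons (P.lf 0 793515926 0) (P.cons (P.lf 0 53052626 0) (P.lf 17684204 0 0)))) (P.cons (P.cons (P.lf 13994116 0 0) (P.cons (P.lf 0 89430022 0) (P.cons (P.lf 0 5979090 0) (P.lf 1993036 0 0)))) (P.cons (P.cons (P.lf 0 131461634 0) (P.cons (P.lf 19388920 0 0) (P.cons (P.lf 1296292 0 0) (P.lf 0 432092 0)))) (P.cons (P.cons (P.lf 13154796 0 0) (P.cons (P.lf 1424430 0 0) (P.cons (P.lf 95236 0 0) P.nil))) (P.cons (P.cons (P.lf 2629327 0 0) (P.cons (P.lf 0 473868 0) P.nil)) (P.cons (P.cons (P.lf 0 251471 0) P.nil) P.nil)))))) 535310)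
 (EL.cons 9 (TM.mk (P.cons (P.cons (P.lf 1587260595 0 0) (P.cons (P.lf 0 715938786 0) (P.cons (P.lf 0 47865996 0) (P.lf 15955326 0 0)))) (P.cons (P.cons (P.lf 583547794 0 0) (P.cons (P.lf 0 174012492 0) (P.cons (P.lf 0 11634066 0) (P.lf 3878022 0 0)))) (P.cons (P.cons (P.lf 0 105475648 0) (P.cons (P.lf 0 3039348 0) (P.cons (P.lf 0 203202 0) (P.lf 67734 0 0)))) (P.cons (P.cons (P.lf 0 11486826 0) (P.cons (P.lf 2448504 0 0) (P.cons (P.lf 163698 0 0) P.nil))) (P.cons (P.cons (P.lf 914647 0 0) (P.cons (P.lf 181230 0 0) P.nil)) (P.cons (P.cons (P.lf 148149 0 0) P.nil) P.nil)))))) 111194)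
 (EL.cons 2 (TM.mk (P.cons (P.cons (P.lf 964301518 0 0) (P.cons (P.lf 149298089 0 0) (P.cons (P.lf 0 71927108 0) (P.cons (P.lf 0 2721931 0) (P.lf 680481 0 0))))) (P.cons (P.cons (P.lf 0 1461321 0) (P.cons (P.lf 0 226248 0) (P.cons (P.lf 108998 0 0) (P.cons (P.lf 4123 0 0) (P.lf 0 1032 0))))) (P.cons (P.cons (P.lf 0 38418879 0) (P.cons (P.lf 0 5948204 0) (P.cons (P.lf 2865656 0 0) (P.cons (P.lf 108441 0 0) P.nil)))) (P.cons (P.cons (P.lf 0 2410824 0) (P.cons (P.lf 0 373255 0) (P.cons (P.lf 179822 0 0) P.nil))) (P.cons (P.cons (P.lf 351694 0 0) (P.cons (P.lf 54450 0 0) P.nil)) (P.cons (P.cons (P.lf 39585 0 0) P.nil) P.nil)))))) 90935)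
 (EL.cons 6 (TM.mk (P.cons (P.cons (P.lf 816964110 0 0) (P.cons (P.lf 126486558 0 0) (P.cons (P.lf 0 60937233 0) (P.cons (P.lf 0 2306043 0) (P.lf 576510 0 0))))) (P.cons (P.cons (P.lf 198567201 0 0) (P.cons (P.lf 30743187 0 0) (P.cons (P.lf 0 14811096 0) (P.cons (P.lf 0 560493 0) (P.lf 140121 0 0))))) (P.cons (P.cons (P.lf 3468225 0 0) (P.cons (P.lf 536967 0 0) (P.cons (P.lf 0 258693 0) (P.cons (P.lf 0 9789 0) P.nil)))) (P.cons (P.cons (P.lf 0 2794017 0) (P.cons (P.lf 0 432582 0) (P.cons (P.lf 208404 0 0) P.nil))) (P.cons (P.cons (P.lf 0 206802 0) (P.cons (P.lf 0 32016 0) P.nil)) (P.cons (P.cons (P.lf 14562 0 0) P.nil) P.nil)))))) 49578)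
 EL.nil))))))
noncomputable def S169_198_364_512_2 : EL := (EL.cons 0 (TM.mk (P.cons (P.cons (P.lf 0 710407663 0) (P.cons (P.lf 472381628 0 0) (P.cons (P.lf 0 36955211 0) (P.cons (P.lf 0 19691954 0) (P.cons (P.lf 2748475 0 0) (P.cons (P.lf 204238 0 0) P.nil)))))) (P.cons (P.cons (P.lf 452196638 0 0) (P.cons (P.lf 0 276523124 0) (P.cons (P.lf 4771946 0 0) (P.cons (P.lf 9272737 0 0) (P.cons (P.lf 0 932760 0) P.nil))))) (P.cons (P.cons (P.lf 338345788 0 0) (P.cons (P.lf 0 159454458 0) (P.cons (P.lf 10907089 0 0) (P.cons (P.lf 6437522 0 0) P.nil)))) (P.cons (P.cons (P.lf 0 61668702 0) (P.cons (P.lf 3829907 0 0) (P.cons (P.lf 3143772 0 0) P.nil))) (P.cons (P.cons (P.lf 0 20558806 0) (P.cons (P.lf 8854125 0 0) P.nil)) (P.cons (P.cons (P.lf 1871685 0 0) P.nil) P.nil)))))) 8926009)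
 (EL.cons 1 (TM.mk (P.cons (P.cons (P.lf 0 338510023 0) (P.cons (P.lf 269356612 0 0) (P.cons (P.lf 0 34616088 0) (P.cons (P.lf 0 13039563 0) (P.cons (P.lf 2110344 0 0) (P.cons (P.lf 156819 0 0) P.nil)))))) (P.cons (P.cons (P.lf 0 211336854 0) (P.cons (P.lf 171658679 0 0) (P.cons (P.lf 0 24978168 0) (P.cons (P.lf 0 8700124 0) (P.cons (P.lf 1461900 0 0) P.nil))))) (P.cons (P.cons (P.lf 77044088 0 0) (P.cons (P.lf 0 23245017 0) (P.cons (P.lf 0 4849465 0) (P.cons (P.lf 77394 0 0) P.nil)))) (P.cons (P.cons (P.lf 46289479 0 0) (P.cons (P.lf 0 22151871 0) (P.cons (P.lf 590332 0 0) P.nil))) (P.cons (P.cons (P.lf 0 5374824 0) (P.cons (P.lf 0 1024758 0) P.nil)) (P.cons (P.cons (P.lf 0 2219121 0) P.nil) P.nil)))))) 4833481)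
 (EL.cons 5 (TM.mk (P.cons (P.cons (P.lf 695792716 0 0) (P.cons (P.lf 0 567774363 0) (P.cons (P.lf 76578053 0 0) (P.cons (P.lf 27968846 0 0) (P.cons (P.lf 0 4593186 0) (P.cons (P.lf 0 341308 0) P.nil)))))) (P.cons (P.cons (P.lf 165101601 0 0) (P.cons (P.lf 0 145848425 0) (P.cons (P.lf 25810970 0 0) (P.cons (P.lf 8005558 0 0) (P.cons (P.lf 0 1426099 0) P.nil))))) (P.cons (P.cons (P.lf 0 119299158 0) (P.cons (P.lf 45839200 0 0) (P.cons (P.lf 1488543 0 0) (P.cons (P.lf 0 1232317 0) P.nil)))) (P.cons (P.cons (P.lf 0 6143537 0) (P.cons (P.lf 8732613 0 0) (P.cons (P.lf 0 873575 0) P.nil))) (P.cons (P.cons (P.lf 7419286 0 0) (P.cons (P.lf 0 1958554 0) P.nil)) (P.cons (P.cons (P.lf 31324 0 0) P.nil) P.nil)))))) 4791675)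
 (EL.cons 9 (TM.mk (P.cons (P.cons (P.lf 391061758 0 0) (P.cons (P.lf 0 352779223 0) (P.cons (P.lf 55975083 0 0) (P.cons (P.lf 18500530 0 0) (P.cons (P.lf 0 3190542 0) (P.cons (P.lf 0 237088 0) P.nil)))))) (P.cons (P.cons (P.lf 287543491 0 0) (P.cons (P.lf 0 215442127 0) (P.cons (P.lf 24271476 0 0) (P.cons (P.lf 9972814 0 0) (P.cons (P.lf 0 1550955 0) P.nil))))) (P.cons (P.cons (P.lf 883723 0 0) (P.cons (P.lf 0 9578569 0) (P.cons (P.lf 4735243 0 0) (P.cons (P.lf 932271 0 0) P.nil)))) (P.cons (P.cons (P.lf 0 24767799 0) (P.cons (P.lf 8906781 0 0) (P.cons (P.lf 215475 0 0) P.nil))) (P.cons (P.cons (P.lf 96616 0 0) (P.cons (P.lf 1049623 0 0) P.nil)) (P.cons (P.cons (P.lf 614818 0 0) P.nil) P.nil)))))) 1542401)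
 (EL.cons 2 (TM.mk (P.cons (P.cons (P.lf 475160090 0 0) (P.cons (P.lf 0 140755708 0) (P.cons (P.lf 0 82953708 0) (P.cons (P.lf 17202903 0 0) (P.cons (P.lf 2748577 0 0) (P.cons (P.lf 0 467060 0) P.nil)))))) (P.cons (P.cons (P.lf 173969971 0 0) (P.cons (P.lf 0 24832423 0) (P.cons (P.lf 0 24452319 0) (P.cons (P.lf 3988074 0 0) (P.cons (P.lf 705661 0 0) P.nil))))) (P.cons (P.cons (P.lf 0 50770693 0) (P.cons (P.lf 0 152634 0) (P.cons (P.lf 5495692 0 0) (P.cons (P.lf 0 523614 0) P.nil)))) (P.cons (P.cons (P.lf 0 11538618 0) (P.cons (P.lf 1559120 0 0) (P.cons (P.lf 1602320 0 0) P.nil))) (P.cons (P.cons (P.lf 1273561 0 0) (P.cons (P.lf 338636 0 0) P.nil)) (P.cons (P.cons (P.lf 343091 0 0) P.nil) P.nil)))))) 1363364)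
 (EL.cons 6 (TM.mk (P.cons (P.cons (P.lf 402559506 0 0) (P.cons (P.lf 0 119249382 0) (P.cons (P.lf 0 70279056 0) (P.cons (P.lf 14574438 0 0) (P.cons (P.lf 2328618 0 0) (P.cons (P.lf 0 395694 0) P.nil)))))) (P.cons (P.cons (P.lf 245842926 0 0) (P.cons (P.lf 0 50203098 0) (P.cons (P.lf 0 37904382 0) (P.cons (P.lf 6943206 0 0) (P.cons (P.lf 1167354 0 0) P.nil))))) (P.cons (P.cons (P.lf 10930188 0 0) (P.cons (P.lf 0 10576116 0) (P.cons (P.lf 0 3534966 0) (P.cons (P.lf 1030662 0 0) P.nil)))) (P.cons (P.cons (P.lf 0 10163610 0) (P.cons (P.lf 0 706314 0) (P.cons (P.lf 950352 0 0) P.nil))) (P.cons (P.cons (P.lf 0 1197732 0) (P.cons (P.lf 205080 0 0) P.nil)) (P.cons (P.cons (P.lf 142782 0 0) P.nil) P.nil)))))) 1249614)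
 EL.nil))))))
noncomputable def S169_198_364_512_3 : EL := (EL.cons 0 (TM.mk (P.cons (P.lf 2000791209 0 0) (P.cons (P.lf 0 654467131 0) (P.cons (P.lf 15080835 0 0) (P.cons (P.lf 7271133 0 0) (P.cons (P.lf 199596 0 0) (P.cons (P.lf 0 35412 0) P.nil)))))) 3454)
 (EL.cons 1 (TM.mk (P.cons (P.lf 1695086628 0 0) (P.cons (P.lf 0 139901857 0) (P.cons (P.lf 0 47471786 0) (P.cons (P.lf 0 293435 0) (P.cons (P.lf 328029 0 0) (P.cons (P.lf 15684 0 0) P.nil)))))) 1940)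
 (EL.cons 5 (TM.mk (P.cons (P.lf 1436091214 0 0) (P.cons (P.lf 232699422 0 0) (P.cons (P.lf 0 5362070 0) (P.cons (P.lf 0 2585292 0) (P.cons (P.lf 0 70970 0) (P.cons (P.lf 12590 0 0) P.nil)))))) 1162)
 EL.nil)))
noncomputable def S169_198_364_512_4 : EL := (EL.cons 0 (TM.mk (P.cons (P.cons (P.lf 492945474 0 0) (P.cons (P.lf 0 222344576 0) (P.cons (P.lf 0 14865438 0) (P.lf 4955143 0 0)))) (P.cons (P.cons (P.lf 19984227 0 0) (P.cons (P.lf 18687877 0 0) (P.cons (P.lf 1249428 0 0) (P.lf 0 416475 0)))) (P.cons (P.cons (P.lf 0 88322034 0) (P.cons (P.lf 15057529 0 0) (P.cons (P.lf 1006711 0 0) (P.lf 0 335569 0)))) (P.cons (P.cons (P.lf 10304956 0 0) (P.cons (P.lf 0 146191 0) (P.cons (P.lf 0 9775 0) P.nil))) (P.cons (P.cons (P.lf 1911844 0 0) (P.cons (P.lf 0 418141 0) P.nil)) (P.cons (P.cons (P.lf 0 183482 0) P.nil) P.nil)))))) 201198)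
 (EL.cons 1 (TM.mk (P.cons (P.cons (P.lf 417627425 0 0) (P.cons (P.lf 0 188372137 0) (P.cons (P.lf 0 12594120 0) (P.lf 4198036 0 0)))) (P.cons (P.cons (P.lf 119070110 0 0) (P.cons (P.lf 0 30237727 0) (P.cons (P.lf 0 2021621 0) (P.lf 673873 0 0)))) (P.cons (P.cons (P.lf 0 52119896 0) (P.cons (P.lf 8254560 0 0) (P.cons (P.lf 551880 0 0) (P.lf 0 183958 0)))) (P.cons (P.cons (P.lf 0 5104072 0) (P.cons (P.lf 2025067 0 0) (P.cons (P.lf 135388 0 0) P.nil))) (P.cons (P.cons (P.lf 1321543 0 0) (P.cons (P.lf 0 11617 0) P.nil)) (P.cons (P.cons (P.lf 142140 0 0) P.nil) P.nil)))))) 151297)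
 (EL.cons 5 (TM.mk (P.cons (P.cons (P.lf 353817360 0 0) (P.cons (P.lf 0 159590410 0) (P.cons (P.lf 0 10669840 0) (P.lf 3556612 0 0)))) (P.cons (P.cons (P.lf 187410426 0 0) (P.cons (P.lf 0 64648742 0) (P.cons (P.lf 0 4322262 0) (P.lf 1440752 0 0)))) (P.cons (P.cons (P.lf 0 3755156 0) (P.cons (P.lf 0 6366904 0) (P.cons (P.lf 0 425674 0) (P.lf 141890 0 0)))) (P.cons (P.cons (P.lf 0 7492926 0) (P.cons (P.lf 868146 0 0) (P.cons (P.lf 58040 0 0) P.nil))) (P.cons (P.cons (P.lf 0 374886 0) (P.cons (P.lf 209082 0 0) P.nil)) (P.cons (P.cons (P.lf 114620 0 0) P.nil) P.nil)))))) 103656)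
 EL.nil)))
noncomputable def S169_198_364_512_5 : EL := (EL.cons 0 (TM.mk (P.cons (P.cons (P.lf 121449573 0 0) (P.cons (P.lf 0 109560410 0) (P.cons (P.lf 17383826 0 0) (P.cons (P.lf 5745591 0 0) (P.cons (P.lf 0 990864 0) (P.cons (P.lf 0 73629 0) P.nil)))))) (P.cons (P.cons (P.lf 49573900 0 0) (P.cons (P.lf 0 31070830 0) (P.cons (P.lf 1851516 0 0) (P.cons (P.lf 1217786 0 0) (P.cons (P.lf 0 157552 0) P.nil))))) (P.cons (P.cons (P.lf 0 28020714 0) (P.cons (P.lf 18085487 0 0) (P.cons (P.lf 0 864033 0) (P.cons (P.lf 0 680268 0) P.nil)))) (P.cons (P.cons (P.lf 0 6667291 0) (P.cons (P.lf 2836701 0 0) (P.cons (P.lf 0 294127 0) P.nil))) (P.cons (P.cons (P.lf 2884797 0 0) (P.cons (P.lf 0 855341 0) P.nil)) (P.cons (P.cons (P.lf 130902 0 0) P.nil) P.nil)))))) 1322986)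
 (EL.cons 1 (TM.mk (P.cons (P.cons (P.lf 102893070 0 0) (P.cons (P.lf 0 92820472 0) (P.cons (P.lf 14727718 0 0) (P.cons (P.lf 4867711 0 0) (P.cons (P.lf 0 839469 0) (P.cons (P.lf 0 62379 0) P.nil)))))) (P.cons (P.cons (P.lf 67164013 0 0) (P.cons (P.lf 0 49024601 0) (P.cons (P.lf 5170582 0 0) (P.cons (P.lf 2222216 0 0) (P.cons (P.lf 0 338790 0) P.nil))))) (P.cons (P.cons (P.lf 0 8893241 0) (P.cons (P.lf 4757707 0 0) (P.cons (P.lf 306369 0 0) (P.cons (P.lf 0 107595 0) P.nil)))) (P.cons (P.cons (P.lf 0 8672499 0) (P.cons (P.lf 4155058 0 0) (P.cons (P.lf 0 227529 0) P.nil))) (P.cons (P.cons (P.lf 563570 0 0) (P.cons (P.lf 145183 0 0) P.nil)) (P.cons (P.cons (P.lf 357723 0 0) P.nil) P.nil)))))) 978798)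
 (EL.cons 5 (TM.mk (P.cons (P.cons (P.lf 87171846 0 0) (P.cons (P.lf 0 78638260 0) (P.cons (P.lf 12477442 0 0) (P.cons (P.lf 4123964 0 0) (P.cons (P.lf 0 711204 0) (P.cons (P.lf 0 52848 0) P.nil)))))) (P.cons (P.cons (P.lf 78221554 0 0) (P.cons (P.lf 0 60766634 0) (P.cons (P.lf 7432174 0 0) (P.cons (P.lf 2891280 0 0) (P.cons (P.lf 0 460964 0) P.nil))))) (P.cons (P.cons (P.lf 10257494 0 0) (P.cons (P.lf 0 9623250 0) (P.cons (P.lf 1885624 0 0) (P.cons (P.lf 552628 0 0) P.nil)))) (P.cons (P.cons (P.lf 0 5885338 0) (P.cons (P.lf 1960320 0 0) (P.cons (P.lf 176402 0 0) P.nil))) (P.cons (P.cons (P.lf 0 993498 0) (P.cons (P.lf 653994 0 0) P.nil)) (P.cons (P.cons (P.lf 158394 0 0) P.nil) P.nil)))))) 732622)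
 EL.nil)))
noncomputable def S169_198_364_512_6 : EL := (EL.cons 12 (TM.mk (P.lf 8589934592 0 0) 0)
 (EL.cons 3 (TM.mk (P.cons (P.lf 0 2072840178 0) (P.cons (P.lf 339017325 0 0) (P.cons (P.lf 19911543 0 0) (P.cons (P.lf 0 509910 0) (P.cons (P.lf 0 91155 0) (P.cons (P.lf 0 1462 0) P.nil)))))) 487)
 (EL.cons 7 (TM.mk (P.cons (P.lf 0 1756127103 0) (P.cons (P.lf 0 142278485 0) (P.cons (P.lf 9042093 0 0) (P.cons (P.lf 848140 0 0) (P.cons (P.lf 0 2043 0) (P.cons (P.lf 0 3166 0) P.nil)))))) 195)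
 EL.nil)))
noncomputable def S169_198_364_512_7 : EL := (EL.cons 12 (TM.mk (P.cons (P.cons (P.lf 2116347460 0 0) (P.cons (P.lf 0 954585048 0) (P.cons (P.lf 0 63821328 0) (P.lf 21273768 0 0)))) (P.cons (P.cons (P.lf 778063726 0 0) (P.cons (P.lf 0 232016656 0) (P.cons (P.lf 0 15512088 0) (P.lf 5170696 0 0)))) (P.cons (P.cons (P.lf 0 140634198 0) (P.cons (P.lf 0 4052464 0) (P.cons (P.lf 0 270936 0) (P.lf 90312 0 0)))) (P.cons (P.cons (P.lf 0 15315768 0) (P.cons (P.lf 3264672 0 0) (P.cons (P.lf 218264 0 0) P.nil))) (P.cons (P.cons (P.lf 1219530 0 0) (P.cons (P.lf 241640 0 0) P.nil)) (P.cons (P.cons (P.lf 197532 0 0) P.nil) P.nil)))))) 148234)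
 (EL.cons 3 (TM.mk (P.cons (P.cons (P.lf 1806739955 0 0) (P.cons (P.lf 0 460702514 0) (P.cons (P.lf 0 30801492 0) (P.lf 10267160 0 0)))) (P.cons (P.cons (P.lf 0 838688704 0) (P.cons (P.lf 0 36627186 0) (P.cons (P.lf 0 2448806 0) (P.lf 816268 0 0)))) (P.cons (P.cons (P.lf 0 114970455 0) (P.cons (P.lf 20783582 0 0) (P.cons (P.lf 1389540 0 0) (P.lf 0 463178 0)))) (P.cons (P.cons (P.lf 11987012 0 0) (P.cons (P.lf 2857774 0 0) (P.cons (P.lf 191060 0 0) P.nil))) (P.cons (P.cons (P.lf 2906128 0 0) (P.cons (P.lf 0 170088 0) P.nil)) (P.cons (P.cons (P.lf 13951 0 0) P.nil) P.nil)))))) 430244)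
 (EL.cons 7 (TM.mk (P.cons (P.cons (P.lf 0 1405245971 0) (P.cons (P.lf 485176294 0 0) (P.cons (P.lf 32437760 0 0) (P.lf 0 10812588 0)))) (P.cons (P.cons (P.lf 351980118 0 0) (P.cons (P.lf 15371668 0 0) (P.cons (P.lf 1027717 0 0) (P.lf 0 342573 0)))) (P.cons (P.cons (P.lf 5208737 0 0) (P.cons (P.lf 0 10602161 0) (P.cons (P.lf 0 708834 0) (P.lf 236277 0 0)))) (P.cons (P.cons (P.lf 0 11095959 0) (P.cons (P.lf 301504 0 0) (P.cons (P.lf 20156 0 0) P.nil))) (P.cons (P.cons (P.lf 0 82518 0) (P.cons (P.lf 217581 0 0) P.nil)) (P.cons (P.cons (P.lf 162545 0 0) P.nil) P.nil)))))) 307386)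
 (EL.cons 10 (TM.mk (P.cons (P.cons (P.lf 0 1998052494 0) (P.cons (P.lf 0 309348699 0) (P.cons (P.lf 149034447 0 0) (P.cons (P.lf 5639901 0 0) (P.lf 0 1409973 0))))) (P.cons (P.cons (P.lf 0 323757750 0) (P.cons (P.lf 0 50125830 0) (P.cons (P.lf 24149043 0 0) (P.cons (P.lf 913869 0 0) (P.lf 0 228465 0))))) (P.cons (P.cons (P.lf 7460316 0 0) (P.cons (P.lf 1155042 0 0) (P.cons (P.lf 0 556464 0) (P.cons (P.lf 0 21057 0) P.nil)))) (P.cons (P.cons (P.lf 3596949 0 0) (P.cons (P.lf 556896 0 0) (P.cons (P.lf 0 268296 0) P.nil))) (P.cons (P.cons (P.lf 98739 0 0) (P.cons (P.lf 15285 0 0) P.nil)) (P.cons (P.cons (P.lf 0 17514 0) P.nil) P.nil)))))) 31851)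
 EL.nil))))
noncomputable def S169_198_364_512_8 : EL := (EL.cons 12 (TM.mk (P.cons (P.cons (P.lf 521415678 0 0) (P.cons (P.lf 0 470372298 0) (P.cons (P.lf 74633444 0 0) (P.cons (P.lf 24667374 0 0) (P.cons (P.lf 0 4254056 0) (P.cons (P.lf 0 316118 0) P.nil)))))) (P.cons (P.cons (P.lf 383391322 0 0) (P.cons (P.lf 0 287256170 0) (P.cons (P.lf 32361968 0 0) (P.cons (P.lf 13297086 0 0) (P.cons (P.lf 0 2067940 0) P.nil))))) (P.cons (P.cons (P.lf 1178298 0 0) (P.cons (P.lf 0 12771426 0) (P.cons (P.lf 6313658 0 0) (P.cons (P.lf 1243028 0 0) P.nil)))) (P.cons (P.cons (P.lf 0 33023732 0) (P.cons (P.lf 11875708 0 0) (P.cons (P.lf 287300 0 0) P.nil))) (P.cons (P.cons (P.lf 128822 0 0) (P.cons (P.lf 1399498 0 0) P.nil)) (P.cons (P.cons (P.lf 819758 0 0) P.nil) P.nil)))))) 2056506)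
 (EL.cons 3 (TM.mk (P.cons (P.cons (P.lf 1016095090 0 0) (P.cons (P.lf 0 742077092 0) (P.cons (P.lf 78379206 0 0) (P.cons (P.lf 33652428 0 0) (P.cons (P.lf 0 5132741 0) (P.cons (P.lf 0 381410 0) P.nil)))))) (P.cons (P.cons (P.lf 0 14022904 0) (P.cons (P.lf 0 63458391 0) (P.cons (P.lf 37042391 0 0) (P.cons (P.lf 6934667 0 0) (P.cons (P.lf 0 1655605 0) P.nil))))) (P.cons (P.cons (P.lf 0 283801495 0) (P.cons (P.lf 97191276 0 0) (P.cons (P.lf 3740509 0 0) (P.cons (P.lf 0 2534708 0) P.nil)))) (P.cons (P.cons (P.lf 0 2775146 0) (P.cons (P.lf 17734398 0 0) (P.cons (P.lf 0 1406236 0) P.nil))) (P.cons (P.cons (P.lf 12231861 0 0) (P.cons (P.lf 0 2091089 0) P.nil)) (P.cons (P.cons (P.lf 669278 0 0) P.nil) P.nil)))))) 5387030)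
 (EL.cons 7 (TM.mk (P.cons (P.cons (P.lf 0 585837438 0) (P.cons (P.lf 455233182 0 0) (P.cons (P.lf 0 55710524 0) (P.cons (P.lf 0 21664362 0) (P.cons (P.lf 3454625 0 0) (P.cons (P.lf 256711 0 0) P.nil)))))) (P.cons (P.cons (P.lf 5885111 0 0) (P.cons (P.lf 26632169 0 0) (P.cons (P.lf 0 15545911 0) (P.cons (P.lf 0 2910343 0) (P.cons (P.lf 694819 0 0) P.nil))))) (P.cons (P.cons (P.lf 118385889 0 0) (P.cons (P.lf 0 44045863 0) (P.cons (P.lf 331218 0 0) (P.cons (P.lf 1419655 0 0) P.nil)))) (P.cons (P.cons (P.lf 0 18224995 0) (P.cons (P.lf 0 655880 0) (P.cons (P.lf 766538 0 0) P.nil))) (P.cons (P.cons (P.lf 0 4435111 0) (P.cons (P.lf 1917766 0 0) P.nil)) (P.cons (P.cons (P.lf 649860 0 0) P.nil) P.nil)))))) 2827823)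
 (EL.cons 10 (TM.mk (P.cons (P.cons (P.lf 0 984541446 0) (P.cons (P.lf 291648714 0 0) (P.cons (P.lf 171881790 0 0) (P.cons (P.lf 0 35644770 0) (P.cons (P.lf 0 5695116 0) (P.cons (P.lf 967764 0 0) P.nil)))))) (P.cons (P.cons (P.lf 0 521493156 0) (P.cons (P.lf 99153042 0 0) (P.cons (P.lf 78777336 0 0) (P.cons (P.lf 0 14093154 0) (P.cons (P.lf 0 2393598 0) P.nil))))) (P.cons (P.cons (P.lf 10449198 0 0) (P.cons (P.lf 19334514 0 0) (P.cons (P.lf 3148080 0 0) (P.cons (P.lf 0 1562424 0) P.nil)))) (P.cons (P.cons (P.lf 20850006 0 0) (P.cons (P.lf 812370 0 0) (P.cons (P.lf 0 2090718 0) P.nil))) (P.cons (P.cons (P.lf 1043160 0 0) (P.cons (P.lf 0 420288 0) P.nil)) (P.cons (P.cons (P.lf 0 318942 0) P.nil) P.nil)))))) 1993830)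
 EL.nil))))
noncomputable def S169_198_364_512_9 : EL := (EL.cons 3 (TM.mk (P.cons (P.lf 0 2072840178 0) (P.cons (P.lf 339017325 0 0) (P.cons (P.lf 19911543 0 0) (P.cons (P.lf 0 509910 0) (P.cons (P.lf 0 91155 0) (P.cons (P.lf 0 1462 0) P.nil)))))) 487)
 (EL.cons 7 (TM.mk (P.cons (P.lf 0 1756127103 0) (P.cons (P.lf 0 142278485 0) (P.cons (P.lf 9042093 0 0) (P.cons (P.lf 848140 0 0) (P.cons (P.lf 0 2043 0) (P.cons (P.lf 0 3166 0) P.nil)))))) 195)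
 EL.nil))
noncomputable def S169_198_364_512_10 : EL := (EL.cons 3 (TM.mk (P.cons (P.cons (P.lf 0 510696559 0) (P.cons (P.lf 230351257 0 0) (P.cons (P.lf 15400746 0 0) (P.lf 0 5133580 0)))) (P.cons (P.cons (P.lf 0 104229349 0) (P.cons (P.lf 18313593 0 0) (P.cons (P.lf 1224403 0 0) (P.lf 0 408134 0)))) (P.cons (P.cons (P.lf 69549894 0 0) (P.cons (P.lf 0 10391791 0) (P.cons (P.lf 0 694770 0) (P.lf 231589 0 0)))) (P.cons (P.cons (P.lf 0 176599 0) (P.cons (P.lf 0 1428887 0) (P.cons (P.lf 0 95530 0) P.nil))) (P.cons (P.cons (P.lf 0 1293386 0) (P.cons (P.lf 85044 0 0) P.nil)) (P.cons (P.cons (P.lf 0 35306 0) P.nil) P.nil)))))) 106195)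
 (EL.cons 7 (TM.mk (P.cons (P.cons (P.lf 0 432666290 0) (P.cons (P.lf 195155464 0 0) (P.cons (P.lf 13047638 0 0) (P.lf 0 4349211 0)))) (P.cons (P.cons (P.lf 0 194121327 0) (P.cons (P.lf 63244678 0 0) (P.cons (P.lf 4228390 0 0) (P.lf 0 1409463 0)))) (P.cons (P.cons (P.lf 18091640 0 0) (P.cons (P.lf 3666637 0 0) (P.cons (P.lf 245142 0 0) (P.lf 0 81714 0)))) (P.cons (P.cons (P.lf 6488517 0 0) (P.cons (P.lf 0 938789 0) (P.cons (P.lf 0 62764 0) P.nil))) (P.cons (P.cons (P.lf 0 67356 0) (P.cons (P.lf 0 130422 0) P.nil)) (P.cons (P.cons (P.lf 0 91555 0) P.nil) P.nil)))))) 64211)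
 EL.nil))
noncomputable def S169_198_364_512_11 : EL := (EL.cons 3 (TM.mk (P.cons (P.cons (P.lf 0 125823002 0) (P.cons (P.lf 113505706 0 0) (P.cons (P.lf 0 18009822 0) (P.cons (P.lf 0 5952492 0) (P.cons (P.lf 1026547 0 0) (P.cons (P.lf 76282 0 0) P.nil)))))) (P.cons (P.cons (P.lf 0 71937682 0) (P.cons (P.lf 50753793 0 0) (P.cons (P.lf 0 4863733 0) (P.cons (P.lf 0 2235181 0) (P.cons (P.lf 331121 0 0) P.nil))))) (P.cons (P.cons (P.lf 16055543 0 0) (P.cons (P.lf 0 9345534 0) (P.cons (P.lf 0 73325 0) (P.cons (P.lf 282016 0 0) P.nil)))) (P.cons (P.cons (P.lf 8873224 0 0) (P.cons (P.lf 0 4007718 0) (P.cons (P.lf 250436 0 0) P.nil))) (P.cons (P.cons (P.lf 0 1359987 0) (P.cons (P.lf 123421 0 0) P.nil)) (P.cons (P.cons (P.lf 0 273508 0) P.nil) P.nil)))))) 936136)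
 (EL.cons 7 (TM.mk (P.cons (P.cons (P.lf 0 106598274 0) (P.cons (P.lf 96162960 0 0) (P.cons (P.lf 0 15258068 0) (P.cons (P.lf 0 5043000 0) (P.cons (P.lf 869699 0 0) (P.cons (P.lf 64627 0 0) P.nil)))))) (P.cons (P.cons (P.lf 0 87016975 0) (P.cons (P.lf 66517643 0 0) (P.cons (P.lf 0 7852267 0) (P.cons (P.lf 0 3127033 0) (P.cons (P.lf 493231 0 0) P.nil))))) (P.cons (P.cons (P.lf 0 6042291 0) (P.cons (P.lf 6873797 0 0) (P.cons (P.lf 0 1748226 0) (P.cons (P.lf 0 448403 0) P.nil)))) (P.cons (P.cons (P.lf 7186913 0 0) (P.cons (P.lf 0 2565152 0) (P.cons (P.lf 0 121876 0) P.nil))) (P.cons (P.cons (P.lf 559619 0 0) (P.cons (P.lf 0 524510 0) P.nil)) (P.cons (P.cons (P.lf 0 204654 0) P.nil) P.nil)))))) 617659)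
 EL.nil))
noncomputable def S169_198_364_512_12 : EL := (EL.cons 4 (TM.mk (P.cons (P.lf 2072840178 0 0) (P.cons (P.lf 0 339017325 0) (P.cons (P.lf 0 19911543 0) (P.cons (P.lf 509910 0 0) (P.cons (P.lf 91155 0 0) (P.cons (P.lf 1462 0 0) P.nil)))))) 487)
 (EL.cons 8 (TM.mk (P.cons (P.lf 1756127103 0 0) (P.cons (P.lf 142278485 0 0) (P.cons (P.lf 0 9042093 0) (P.cons (P.lf 0 848140 0) (P.cons (P.lf 2043 0 0) (P.cons (P.lf 3166 0 0) P.nil)))))) 195)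
 EL.nil))
noncomputable def S169_198_364_512_13 : EL := (EL.cons 4 (TM.mk (P.cons (P.cons (P.lf 510696559 0 0) (P.cons (P.lf 0 230351257 0) (P.cons (P.lf 0 15400746 0) (P.lf 5133580 0 0)))) (P.cons (P.cons (P.lf 104229349 0 0) (P.cons (P.lf 0 18313593 0) (P.cons (P.lf 0 1224403 0) (P.lf 408134 0 0)))) (P.cons (P.cons (P.lf 0 69549894 0) (P.cons (P.lf 10391791 0 0) (P.cons (P.lf 694770 0 0) (P.lf 0 231589 0)))) (P.cons (P.cons (P.lf 176599 0 0) (P.cons (P.lf 1428887 0 0) (P.cons (P.lf 95530 0 0) P.nil))) (P.cons (P.cons (P.lf 1293386 0 0) (P.cons (P.lf 0 85044 0) P.nil)) (P.cons (P.cons (P.lf 35306 0 0) P.nil) P.nil)))))) 106195)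
 (EL.cons 8 (TM.mk (P.cons (P.cons (P.lf 432666290 0 0) (P.cons (P.lf 0 195155464 0) (P.cons (P.lf 0 13047638 0) (P.lf 4349211 0 0)))) (P.cons (P.cons (P.lf 194121327 0 0) (P.cons (P.lf 0 63244678 0) (P.cons (P.lf 0 4228390 0) (P.lf 1409463 0 0)))) (P.cons (P.cons (P.lf 0 18091640 0) (P.cons (P.lf 0 3666637 0) (P.cons (P.lf 0 245142 0) (P.lf 81714 0 0)))) (P.cons (P.cons (P.lf 0 6488517 0) (P.cons (P.lf 938789 0 0) (P.cons (P.lf 62764 0 0) P.nil))) (P.cons (P.cons (P.lf 67356 0 0) (P.cons (P.lf 130422 0 0) P.nil)) (P.cons (P.cons (P.lf 91555 0 0) P.nil) P.nil)))))) 64211)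
 EL.nil))
noncomputable def S169_198_364_512_14 : EL := (EL.cons 4 (TM.mk (P.cons (P.cons (P.lf 125823002 0 0) (P.cons (P.lf 0 113505706 0) (P.cons (P.lf 18009822 0 0) (P.cons (P.lf 5952492 0 0) (P.cons (P.lf 0 1026547 0) (P.cons (P.lf 0 76282 0) P.nil)))))) (P.cons (P.cons (P.lf 71937682 0 0) (P.cons (P.lf 0 50753793 0) (P.cons (P.lf 4863733 0 0) (P.cons (P.lf 2235181 0 0) (P.cons (P.lf 0 331121 0) P.nil))))) (P.cons (P.cons (P.lf 0 16055543 0) (P.cons (P.lf 9345534 0 0) (P.cons (P.lf 73325 0 0) (P.cons (P.lf 0 282016 0) P.nil)))) (P.cons (P.cons (P.lf 0 8873224 0) (P.cons (P.lf 4007718 0 0) (P.cons (P.lf 0 250436 0) P.nil))) (P.cons (P.cons (P.lf 1359987 0 0) (P.cons (P.lf 0 123421 0) P.nil)) (P.cons (P.cons (P.lf 273508 0 0) P.nil) P.nil)))))) 936136)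
 (EL.cons 8 (TM.mk (P.cons (P.cons (P.lf 106598274 0 0) (P.cons (P.lf 0 96162960 0) (P.cons (P.lf 15258068 0 0) (P.cons (P.lf 5043000 0 0) (P.cons (P.lf 0 869699 0) (P.cons (P.lf 0 64627 0) P.nil)))))) (P.cons (P.cons (P.lf 87016975 0 0) (P.cons (P.lf 0 66517643 0) (P.cons (P.lf 7852267 0 0) (P.cons (P.lf 3127033 0 0) (P.cons (P.lf 0 493231 0) P.nil))))) (P.cons (P.cons (P.lf 6042291 0 0) (P.cons (P.lf 0 6873797 0) (P.cons (P.lf 1748226 0 0) (P.cons (P.lf 448403 0 0) P.nil)))) (P.cons (P.cons (P.lf 0 7186913 0) (P.cons (P.lf 2565152 0 0) (P.cons (P.lf 121876 0 0) P.nil))) (P.cons (P.cons (P.lf 0 559619 0) (P.cons (P.lf 524510 0 0) P.nil)) (P.cons (P.cons (P.lf 204654 0 0) P.nil) P.nil)))))) 617659)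
 EL.nil))
noncomputable def S169_198_364_512_15 : EL := (EL.cons 4 (TM.mk (P.cons (P.lf 0 1067088645 0) (P.cons (P.lf 349049136 0 0) (P.cons (P.lf 0 8043112 0) (P.cons (P.lf 0 3877937 0) (P.cons (P.lf 0 106451 0) (P.cons (P.lf 18886 0 0) P.nil)))))) 1845)
 (EL.cons 8 (TM.mk (P.cons (P.lf 0 904046202 0) (P.cons (P.lf 74614324 0 0) (P.cons (P.lf 25318286 0 0) (P.cons (P.lf 156499 0 0) (P.cons (P.lf 0 174949 0) (P.cons (P.lf 0 8365 0) P.nil)))))) 1031)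
 EL.nil))
noncomputable def S169_198_364_512_16 : EL := (EL.cons 4 (TM.mk (P.cons (P.cons (P.lf 0 262904252 0) (P.cons (P.lf 118583774 0 0) (P.cons (P.lf 7928234 0 0) (P.lf 0 2642743 0)))) (P.cons (P.cons (P.lf 0 10658254 0) (P.cons (P.lf 0 9966868 0) (P.cons (P.lf 0 666361 0) (P.lf 222120 0 0)))) (P.cons (P.cons (P.lf 47105085 0 0) (P.cons (P.lf 0 8030682 0) (P.cons (P.lf 0 536912 0) (P.lf 178970 0 0)))) (P.cons (P.cons (P.lf 0 5495976 0) (P.cons (P.lf 77969 0 0) (P.cons (P.lf 5213 0 0) P.nil))) (P.cons (P.cons (P.lf 0 1019650 0) (P.cons (P.lf 223008 0 0) P.nil)) (P.cons (P.cons (P.lf 97857 0 0) P.nil) P.nil)))))) 107314)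
 (EL.cons 8 (TM.mk (P.cons (P.cons (P.lf 0 222734627 0) (P.cons (P.lf 100465140 0 0) (P.cons (P.lf 6716864 0 0) (P.lf 0 2238953 0)))) (P.cons (P.cons (P.lf 0 63504059 0) (P.cons (P.lf 16126788 0 0) (P.cons (P.lf 1078198 0 0) (P.lf 0 359399 0)))) (P.cons (P.cons (P.lf 27797278 0 0) (P.cons (P.lf 0 4402432 0) (P.cons (P.lf 0 294336 0) (P.lf 98111 0 0)))) (P.cons (P.cons (P.lf 2722172 0 0) (P.cons (P.lf 0 1080036 0) (P.cons (P.lf 0 72207 0) P.nil))) (P.cons (P.cons (P.lf 0 704823 0) (P.cons (P.lf 6196 0 0) P.nil)) (P.cons (P.cons (P.lf 0 75808 0) P.nil) P.nil)))))) 80682)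
 EL.nil))
noncomputable def S169_198_364_512_17 : EL := (EL.cons 4 (TM.mk (P.cons (P.cons (P.lf 0 64773105 0) (P.cons (P.lf 58432218 0 0) (P.cons (P.lf 0 9271374 0) (P.cons (P.lf 0 3064315 0) (P.cons (P.lf 528461 0 0) (P.cons (P.lf 39269 0 0) P.nil)))))) (P.cons (P.cons (P.lf 0 26439413 0) (P.cons (P.lf 16571109 0 0) (P.cons (P.lf 0 987475 0) (P.cons (P.lf 0 649485 0) (P.cons (P.lf 84028 0 0) P.nil))))) (P.cons (P.cons (P.lf 14944380 0 0) (P.cons (P.lf 0 9645593 0) (P.cons (P.lf 460817 0 0) (P.cons (P.lf 362809 0 0) P.nil)))) (P.cons (P.cons (P.lf 3555888 0 0) (P.cons (P.lf 0 1512907 0) (P.cons (P.lf 156868 0 0) P.nil))) (P.cons (P.cons (P.lf 0 1538558 0) (P.cons (P.lf 456181 0 0) P.nil)) (P.cons (P.cons (P.lf 0 69814 0) P.nil) P.nil)))))) 705603)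
 (EL.cons 8 (TM.mk (P.cons (P.cons (P.lf 0 54876304 0) (P.cons (P.lf 49504252 0 0) (P.cons (P.lf 0 7854783 0) (P.cons (P.lf 0 2596113 0) (P.cons (P.lf 447717 0 0) (P.cons (P.lf 33269 0 0) P.nil)))))) (P.cons (P.cons (P.lf 0 35820807 0) (P.cons (P.lf 26146454 0 0) (P.cons (P.lf 0 2757644 0) (P.cons (P.lf 0 1185182 0) (P.cons (P.lf 180688 0 0) P.nil))))) (P.cons (P.cons (P.lf 4743062 0 0) (P.cons (P.lf 0 2537444 0) (P.cons (P.lf 0 163397 0) (P.cons (P.lf 57384 0 0) P.nil)))) (P.cons (P.cons (P.lf 4625333 0 0) (P.cons (P.lf 0 2216031 0) (P.cons (P.lf 121349 0 0) P.nil))) (P.cons (P.cons (P.lf 0 300571 0) (P.cons (P.lf 0 77431 0) P.nil)) (P.cons (P.cons (P.lf 0 190786 0) P.nil) P.nil)))))) 522014)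
 EL.nil))
noncomputable def S169_198_364_512_18 : EL := (EL.cons 4 (TM.mk (P.cons (P.lf 549332354 0 0) (P.cons (P.lf 0 269533349 0) (P.cons (P.lf 28252205 0 0) (P.cons (P.lf 3180359 0 0) (P.cons (P.lf 0 331524 0) (P.cons (P.lf 0 44357 0) P.nil)))))) 4415)
 (EL.cons 8 (TM.mk (P.cons (P.lf 465398850 0 0) (P.cons (P.lf 0 114528063 0) (P.cons (P.lf 0 11222106 0) (P.cons (P.lf 2534590 0 0) (P.cons (P.lf 239457 0 0) (P.cons (P.lf 0 14216 0) P.nil)))))) 3029)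
 EL.nil))
noncomputable def S169_198_364_512_19 : EL := (EL.cons 4 (TM.mk (P.cons (P.cons (P.lf 135341907 0 0) (P.cons (P.lf 0 61046384 0) (P.cons (P.lf 0 4081418 0) (P.lf 1360471 0 0)))) (P.cons (P.cons (P.lf 0 16648629 0) (P.cons (P.lf 15115160 0 0) (P.cons (P.lf 1010564 0 0) (P.lf 0 336854 0)))) (P.cons (P.cons (P.lf 0 26446947 0) (P.cons (P.lf 3881396 0 0) (P.cons (P.lf 259500 0 0) (P.lf 0 86500 0)))) (P.cons (P.cons (P.lf 6775944 0 0) (P.cons (P.lf 0 780592 0) (P.cons (P.lf 0 52188 0) P.nil))) (P.cons (P.cons (P.lf 302413 0 0) (P.cons (P.lf 0 149373 0) P.nil)) (P.cons (P.cons (P.lf 0 169033 0) P.nil) P.nil)))))) 131231)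
 (EL.cons 8 (TM.mk (P.cons (P.cons (P.lf 114662767 0 0) (P.cons (P.lf 0 51718994 0) (P.cons (P.lf 0 3457811 0) (P.lf 1152603 0 0)))) (P.cons (P.cons (P.lf 13938265 0 0) (P.cons (P.lf 156752 0 0) (P.cons (P.lf 10480 0 0) (P.lf 0 3493 0)))) (P.cons (P.cons (P.lf 0 20758132 0) (P.cons (P.lf 4120969 0 0) (P.cons (P.lf 275518 0 0) (P.lf 0 91839 0)))) (P.cons (P.cons (P.lf 653227 0 0) (P.cons (P.lf 252357 0 0) (P.cons (P.lf 16871 0 0) P.nil))) (P.cons (P.cons (P.lf 742579 0 0) (P.cons (P.lf 0 120211 0) P.nil)) (P.cons (P.cons (P.lf 0 8857 0) P.nil) P.nil)))))) 78296)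
 EL.nil))
noncomputable def S169_198_364_512_20 : EL := (EL.cons 4 (TM.mk (P.cons (P.cons (P.lf 33344898 0 0) (P.cons (P.lf 0 30080638 0) (P.cons (P.lf 4772860 0 0) (P.cons (P.lf 1577495 0 0) (P.cons (P.lf 0 272049 0) (P.cons (P.lf 0 20215 0) P.nil)))))) (P.cons (P.cons (P.lf 8157261 0 0) (P.cons (P.lf 0 3610980 0) (P.cons (P.lf 0 272263 0) (P.cons (P.lf 76349 0 0) (P.cons (P.lf 1236 0 0) P.nil))))) (P.cons (P.cons (P.lf 0 10239696 0) (P.cons (P.lf 6649678 0 0) (P.cons (P.lf 0 366215 0) (P.cons (P.lf 0 256609 0) P.nil)))) (P.cons (P.cons (P.lf 0 694842 0) (P.cons (P.lf 41264 0 0) (P.cons (P.lf 0 45664 0) P.nil))) (P.cons (P.cons (P.lf 1170150 0 0) (P.cons (P.lf 0 413340 0) P.nil)) (P.cons (P.cons (P.lf 0 77285 0) P.nil) P.nil)))))) 615531)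
 (EL.cons 8 (TM.mk (P.cons (P.cons (P.lf 28250070 0 0) (P.cons (P.lf 0 25484562 0) (P.cons (P.lf 4043606 0 0) (P.cons (P.lf 1336467 0 0) (P.cons (P.lf 0 230482 0) (P.cons (P.lf 0 17126 0) P.nil)))))) (P.cons (P.cons (P.lf 13820029 0 0) (P.cons (P.lf 0 9292021 0) (P.cons (P.lf 758282 0 0) (P.cons (P.lf 391544 0 0) (P.cons (P.lf 0 55321 0) P.nil))))) (P.cons (P.cons (P.lf 0 5729038 0) (P.cons (P.lf 3752491 0 0) (P.cons (P.lf 0 186907 0) (P.cons (P.lf 0 142166 0) P.nil)))) (P.cons (P.cons (P.lf 0 2151941 0) (P.cons (P.lf 1050187 0 0) (P.cons (P.lf 0 88869 0) P.nil))) (P.cons (P.cons (P.lf 573400 0 0) (P.cons (P.lf 0 163699 0) P.nil)) (P.cons (P.cons (P.lf 96011 0 0) P.nil) P.nil)))))) 393910)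
 EL.nil))
noncomputable def S169_198_364_512_21 : EL := (EL.cons 4 (TM.mk (P.cons (P.cons (P.lf 0 2317436514 0) (P.cons (P.lf 691053771 0 0) (P.cons (P.lf 46202238 0 0) (P.lf 0 15400740 0)))) (P.cons (P.cons (P.lf 734459355 0 0) (P.cons (P.lf 54940779 0 0) (P.cons (P.lf 3673209 0 0) (P.lf 0 1224402 0)))) (P.cons (P.cons (P.lf 184520349 0 0) (P.cons (P.lf 0 31175373 0) (P.cons (P.lf 0 2084310 0) (P.lf 694767 0 0)))) (P.cons (P.cons (P.lf 0 12163611 0) (P.cons (P.lf 0 4286661 0) (P.cons (P.lf 0 286590 0) P.nil))) (P.cons (P.cons (P.lf 0 4199514 0) (P.cons (P.lf 255132 0 0) P.nil)) (P.cons (P.cons (P.lf 0 49257 0) P.nil) P.nil)))))) 324030)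
 (EL.cons 8 (TM.mk (P.cons (P.cons (P.lf 972579681 0 0) (P.cons (P.lf 0 290020830 0) (P.cons (P.lf 0 19390122 0) (P.lf 6463377 0 0)))) (P.cons (P.cons (P.lf 0 546101445 0) (P.cons (P.lf 47873010 0 0) (P.cons (P.lf 3200673 0 0) (P.lf 0 1066890 0)))) (P.cons (P.cons (P.lf 12882903 0 0) (P.cons (P.lf 14268798 0 0) (P.cons (P.lf 953976 0 0) (P.lf 0 317991 0)))) (P.cons (P.cons (P.lf 17584476 0 0) (P.cons (P.lf 0 1240293 0) (P.cons (P.lf 0 82920 0) P.nil))) (P.cons (P.cons (P.lf 15162 0 0) (P.cons (P.lf 0 348003 0) P.nil)) (P.cons (P.cons (P.lf 0 254100 0) P.nil) P.nil)))))) 243156)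
 (EL.cons 11 (TM.mk (P.cons (P.cons (P.lf 1998052494 0 0) (P.cons (P.lf 309348699 0 0) (P.cons (P.lf 0 149034447 0) (P.cons (P.lf 0 5639901 0) (P.lf 1409973 0 0))))) (P.cons (P.cons (P.lf 323757750 0 0) (P.cons (P.lf 50125830 0 0) (P.cons (P.lf 0 24149043 0) (P.cons (P.lf 0 913869 0) (P.lf 228465 0 0))))) (P.cons (P.cons (P.lf 0 7460316 0) (P.cons (P.lf 0 1155042 0) (P.cons (P.lf 556464 0 0) (P.cons (P.lf 21057 0 0) P.nil)))) (P.cons (P.cons (P.lf 0 3596949 0) (P.cons (P.lf 0 556896 0) (P.cons (P.lf 268296 0 0) P.nil))) (P.cons (P.cons (P.lf 0 98739 0) (P.cons (P.lf 0 15285 0) P.nil)) (P.cons (P.cons (P.lf 17514 0 0) P.nil) P.nil)))))) 31851)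
 EL.nil)))
noncomputable def S169_198_364_512_22 : EL := (EL.cons 4 (TM.mk (P.cons (P.cons (P.lf 0 570959046 0) (P.cons (P.lf 427791399 0 0) (P.cons (P.lf 0 48194514 0) (P.cons (P.lf 0 19802460 0) (P.cons (P.lf 3079644 0 0) (P.cons (P.lf 228846 0 0) P.nil)))))) (P.cons (P.cons (P.lf 0 28957389 0) (P.cons (P.lf 57106092 0 0) (P.cons (P.lf 0 20953062 0) (P.cons (P.lf 0 4584924 0) (P.cons (P.lf 993363 0 0) P.nil))))) (P.cons (P.cons (P.lf 149928519 0 0) (P.cons (P.lf 0 53268405 0) (P.cons (P.lf 0 1906917 0) (P.cons (P.lf 1408362 0 0) P.nil)))) (P.cons (P.cons (P.lf 5824185 0 0) (P.cons (P.lf 0 10871058 0) (P.cons (P.lf 828336 0 0) P.nil))) (P.cons (P.cons (P.lf 0 6795924 0) (P.cons (P.lf 1107255 0 0) P.nil)) (P.cons (P.cons (P.lf 0 471393 0) P.nil) P.nil)))))) 2225436)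
 (EL.cons 8 (TM.mk (P.cons (P.cons (P.lf 239619582 0 0) (P.cons (P.lf 0 179535111 0) (P.cons (P.lf 20226228 0 0) (P.cons (P.lf 8310681 0 0) (P.cons (P.lf 0 1292463 0) (P.cons (P.lf 0 96042 0) P.nil)))))) (P.cons (P.cons (P.lf 0 46451043 0) (P.cons (P.lf 19942737 0 0) (P.cons (P.lf 3846822 0 0) (P.cons (P.lf 0 108345 0) (P.cons (P.lf 0 100794 0) P.nil))))) (P.cons (P.cons (P.lf 0 62214090 0) (P.cons (P.lf 25459830 0 0) (P.cons (P.lf 0 1039722 0) (P.cons (P.lf 0 934029 0) P.nil)))) (P.cons (P.cons (P.lf 12705954 0 0) (P.cons (P.lf 0 954636 0) (P.cons (P.lf 0 444207 0) P.nil))) (P.cons (P.cons (P.lf 2497365 0 0) (P.cons (P.lf 0 1221138 0) P.nil)) (P.cons (P.cons (P.lf 0 427257 0) P.nil) P.nil)))))) 1105071)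
 (EL.cons 11 (TM.mk (P.cons (P.cons (P.lf 492270723 0 0) (P.cons (P.lf 0 145824357 0) (P.cons (P.lf 0 85940895 0) (P.cons (P.lf 17822385 0 0) (P.cons (P.lf 2847558 0 0) (P.cons (P.lf 0 483882 0) P.nil)))))) (P.cons (P.cons (P.lf 260746578 0 0) (P.cons (P.lf 0 49576521 0) (P.cons (P.lf 0 39388668 0) (P.cons (P.lf 7046577 0 0) (P.cons (P.lf 1196799 0 0) P.nil))))) (P.cons (P.cons (P.lf 0 5224599 0) (P.cons (P.lf 0 9667257 0) (P.cons (P.lf 0 1574040 0) (P.cons (P.lf 781212 0 0) P.nil)))) (P.cons (P.cons (P.lf 0 10425003 0) (P.cons (P.lf 0 406185 0) (P.cons (P.lf 1045359 0 0) P.nil))) (P.cons (P.cons (P.lf 0 521580 0) (P.cons (P.lf 210144 0 0) P.nil)) (P.cons (P.cons (P.lf 159471 0 0) P.nil) P.nil)))))) 996915)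
 EL.nil)))
noncomputable def S169_198_364_512_23 : EL := (EL.cons 4 (TM.mk (P.cons (P.cons (P.lf 1193005719 0 0) (P.cons (P.lf 0 355751319 0) (P.cons (P.lf 0 23784699 0) (P.lf 7928229 0 0)))) (P.cons (P.cons (P.lf 0 573214884 0) (P.cons (P.lf 29900607 0 0) (P.cons (P.lf 1999086 0 0) (P.lf 0 666360 0)))) (P.cons (P.cons (P.lf 0 44611713 0) (P.cons (P.lf 24092043 0 0) (P.cons (P.lf 1610736 0 0) (P.lf 0 536910 0)))) (P.cons (P.cons (P.lf 25723059 0 0) (P.cons (P.lf 0 233910 0) (P.cons (P.lf 0 15639 0) P.nil))) (P.cons (P.cons (P.lf 2009685 0 0) (P.cons (P.lf 0 669024 0) P.nil)) (P.cons (P.cons (P.lf 0 427527 0) P.nil) P.nil)))))) 387612)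
 (EL.cons 8 (TM.mk (P.cons (P.cons (P.lf 0 500679570 0) (P.cons (P.lf 149301396 0 0) (P.cons (P.lf 9981945 0 0) (P.lf 0 3327315 0)))) (P.cons (P.cons (P.lf 363017712 0 0) (P.cons (P.lf 0 49063359 0) (P.cons (P.lf 0 3280257 0) (P.lf 1093419 0 0)))) (P.cons (P.cons (P.lf 0 47802051 0) (P.cons (P.lf 0 4748979 0) (P.cons (P.lf 0 317502 0) (P.lf 105834 0 0)))) (P.cons (P.cons (P.lf 0 10791402 0) (P.cons (P.lf 2113332 0 0) (P.cons (P.lf 141288 0 0) P.nil))) (P.cons (P.cons (P.lf 1583580 0 0) (P.cons (P.lf 145785 0 0) P.nil)) (P.cons (P.cons (P.lf 229419 0 0) P.nil) P.nil)))))) 261786)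
 (EL.cons 11 (TM.mk (P.cons (P.cons (P.lf 0 1028588286 0) (P.cons (P.lf 0 159251295 0) (P.cons (P.lf 76722249 0 0) (P.cons (P.lf 2903394 0 0) (P.lf 0 725847 0))))) (P.cons (P.cons (P.lf 1558743 0 0) (P.cons (P.lf 241332 0 0) (P.cons (P.lf 0 116265 0) (P.cons (P.lf 0 4398 0) (P.lf 1101 0 0))))) (P.cons (P.cons (P.lf 40980138 0 0) (P.cons (P.lf 6344751 0 0) (P.cons (P.lf 0 3056700 0) (P.cons (P.lf 0 115671 0) P.nil)))) (P.cons (P.cons (P.lf 2571546 0 0) (P.cons (P.lf 398139 0 0) (P.cons (P.lf 0 191811 0) P.nil))) (P.cons (P.cons (P.lf 0 375141 0) (P.cons (P.lf 0 58080 0) P.nil)) (P.cons (P.cons (P.lf 0 42225 0) P.nil) P.nil)))))) 96975)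
 EL.nil)))
noncomputable def S169_198_364_512_24 : EL := (EL.cons 4 (TM.mk (P.cons (P.cons (P.lf 293927106 0 0) (P.cons (P.lf 0 220225053 0) (P.cons (P.lf 24810315 0 0) (P.cons (P.lf 10194216 0 0) (P.cons (P.lf 0 1585386 0) (P.cons (P.lf 0 117810 0) P.nil)))))) (P.cons (P.cons (P.lf 0 33165255 0) (P.cons (P.lf 6620310 0 0) (P.cons (P.lf 6728760 0 0) (P.cons (P.lf 693012 0 0) (P.cons (P.lf 0 252084 0) P.nil))))) (P.cons (P.cons (P.lf 0 82444050 0) (P.cons (P.lf 34345893 0 0) (P.cons (P.lf 0 1020813 0) (P.cons (P.lf 0 1208973 0) P.nil)))) (P.cons (P.cons (P.lf 9554202 0 0) (P.cons (P.lf 1339611 0 0) (P.cons (P.lf 0 684489 0) P.nil))) (P.cons (P.cons (P.lf 4746885 0 0) (P.cons (P.lf 0 1765641 0) P.nil)) (P.cons (P.cons (P.lf 0 318837 0) P.nil) P.nil)))))) 1487640)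
 (EL.cons 8 (TM.mk (P.cons (P.cons (P.lf 0 123355065 0) (P.cons (P.lf 92423853 0 0) (P.cons (P.lf 0 10412370 0) (P.cons (P.lf 0 4278300 0) (P.cons (P.lf 665352 0 0) (P.cons (P.lf 49440 0 0) P.nil)))))) (P.cons (P.cons (P.lf 44087763 0 0) (P.cons (P.lf 0 25382544 0) (P.cons (P.lf 0 277362 0) (P.cons (P.lf 755499 0 0) (P.cons (P.lf 0 56928 0) P.nil))))) (P.cons (P.cons (P.lf 29301483 0 0) (P.cons (P.lf 0 12315324 0) (P.cons (P.lf 959151 0 0) (P.cons (P.lf 512808 0 0) P.nil)))) (P.cons (P.cons (P.lf 0 12039183 0) (P.cons (P.lf 2756409 0 0) (P.cons (P.lf 157596 0 0) P.nil))) (P.cons (P.cons (P.lf 0 523038 0) (P.cons (P.lf 675699 0 0) P.nil)) (P.cons (P.cons (P.lf 501894 0 0) P.nil) P.nil)))))) 721815)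
 (EL.cons 11 (TM.mk (P.cons (P.cons (P.lf 0 253418715 0) (P.cons (P.lf 75069711 0 0) (P.cons (P.lf 44241978 0 0) (P.cons (P.lf 0 9174882 0) (P.cons (P.lf 0 1465908 0) (P.cons (P.lf 249099 0 0) P.nil)))))) (P.cons (P.cons (P.lf 0 92783985 0) (P.cons (P.lf 13243959 0 0) (P.cons (P.lf 13041237 0 0) (P.cons (P.lf 0 2126973 0) (P.cons (P.lf 0 376353 0) P.nil))))) (P.cons (P.cons (P.lf 27077703 0 0) (P.cons (P.lf 81405 0 0) (P.cons (P.lf 0 2931036 0) (P.cons (P.lf 279261 0 0) P.nil)))) (P.cons (P.cons (P.lf 6153930 0 0) (P.cons (P.lf 0 831531 0) (P.cons (P.lf 0 854571 0) P.nil))) (P.cons (P.cons (P.lf 0 679233 0) (P.cons (P.lf 0 180606 0) P.nil)) (P.cons (P.cons (P.lf 0 182982 0) P.nil) P.nil)))))) 727116)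
 EL.nil)))
noncomputable def S169_198_364_512_25 : EL := (EL.cons 4 (TM.mk (P.cons (P.cons (P.lf 0 614153889 0) (P.cons (P.lf 183139152 0 0) (P.cons (P.lf 12244254 0 0) (P.lf 0 4081416 0)))) (P.cons (P.cons (P.lf 395534547 0 0) (P.cons (P.lf 0 45345483 0) (P.cons (P.lf 0 3031692 0) (P.lf 1010562 0 0)))) (P.cons (P.cons (P.lf 0 19396899 0) (P.cons (P.lf 0 11644188 0) (P.cons (P.lf 0 778500 0) (P.lf 259497 0 0)))) (P.cons (P.cons (P.lf 0 19983909 0) (P.cons (P.lf 2341779 0 0) (P.cons (P.lf 156567 0 0) P.nil))) (P.cons (P.cons (P.lf 956169 0 0) (P.cons (P.lf 448119 0 0) P.nil)) (P.cons (P.cons (P.lf 534690 0 0) P.nil) P.nil)))))) 345084)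
 (EL.cons 8 (TM.mk (P.cons (P.cons (P.lf 257747553 0 0) (P.cons (P.lf 0 76859676 0) (P.cons (P.lf 0 5138658 0) (P.lf 1712886 0 0)))) (P.cons (P.cons (P.lf 0 229035006 0) (P.cons (P.lf 37828152 0 0) (P.cons (P.lf 2529099 0 0) (P.lf 0 843033 0)))) (P.cons (P.cons (P.lf 52696962 0 0) (P.cons (P.lf 0 947868 0) (P.cons (P.lf 0 63372 0) (P.lf 21123 0 0)))) (P.cons (P.cons (P.lf 3389187 0 0) (P.cons (P.lf 0 1749309 0) (P.cons (P.lf 0 116952 0) P.nil))) (P.cons (P.cons (P.lf 0 1994832 0) (P.cons (P.lf 82233 0 0) P.nil)) (P.cons (P.cons (P.lf 0 40119 0) P.nil) P.nil)))))) 234630)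
 (EL.cons 11 (TM.mk (P.cons (P.cons (P.lf 529512546 0 0) (P.cons (P.lf 81981837 0 0) (P.cons (P.lf 0 39496263 0) (P.cons (P.lf 0 1494654 0) (P.lf 373662 0 0))))) (P.cons (P.cons (P.lf 0 87405312 0) (P.cons (P.lf 0 13532535 0) (P.cons (P.lf 6519549 0 0) (P.cons (P.lf 246717 0 0) (P.lf 0 61680 0))))) (P.cons (P.cons (P.lf 0 26051604 0) (P.cons (P.lf 0 4033440 0) (P.cons (P.lf 1943184 0 0) (P.cons (P.lf 73533 0 0) P.nil)))) (P.cons (P.cons (P.lf 2264502 0 0) (P.cons (P.lf 350601 0 0) (P.cons (P.lf 0 168906 0) P.nil))) (P.cons (P.cons (P.lf 635373 0 0) (P.cons (P.lf 98370 0 0) P.nil)) (P.cons (P.cons (P.lf 0 1980 0) P.nil) P.nil)))))) 116373)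
 EL.nil)))
noncomputable def S169_198_364_512_26 : EL := (EL.cons 4 (TM.mk (P.cons (P.cons (P.lf 0 151312329 0) (P.cons (P.lf 113370849 0 0) (P.cons (P.lf 0 12772236 0) (P.cons (P.lf 0 5247933 0) (P.cons (P.lf 816147 0 0) (P.cons (P.lf 60648 0 0) P.nil)))))) (P.cons (P.cons (P.lf 41820768 0 0) (P.cons (P.lf 0 21950142 0) (P.cons (P.lf 0 1375008 0) (P.cons (P.lf 501549 0 0) (P.cons (P.lf 0 3708 0) P.nil))))) (P.cons (P.cons (P.lf 41102934 0 0) (P.cons (P.lf 0 18212736 0) (P.cons (P.lf 1214733 0 0) (P.cons (P.lf 731133 0 0) P.nil)))) (P.cons (P.cons (P.lf 0 12061134 0) (P.cons (P.lf 2262780 0 0) (P.cons (P.lf 296556 0 0) P.nil))) (P.cons (P.cons (P.lf 0 2049396 0) (P.cons (P.lf 1195722 0 0) P.nil)) (P.cons (P.cons (P.lf 622134 0 0) P.nil) P.nil)))))) 1106487)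
 (EL.cons 8 (TM.mk (P.cons (P.cons (P.lf 63502623 0 0) (P.cons (P.lf 0 47579376 0) (P.cons (P.lf 5360238 0 0) (P.cons (P.lf 2202447 0 0) (P.cons (P.lf 0 342519 0) (P.cons (P.lf 0 25452 0) P.nil)))))) (P.cons (P.cons (P.lf 0 33082164 0) (P.cons (P.lf 20848524 0 0) (P.cons (P.lf 0 733893 0) (P.cons (P.lf 0 749142 0) (P.cons (P.lf 85326 0 0) P.nil))))) (P.cons (P.cons (P.lf 0 11982261 0) (P.cons (P.lf 4659810 0 0) (P.cons (P.lf 0 568608 0) (P.cons (P.lf 0 221538 0) P.nil)))) (P.cons (P.cons (P.lf 8898420 0 0) (P.cons (P.lf 0 2593107 0) (P.cons (P.lf 0 426 0) P.nil))) (P.cons (P.cons (P.lf 0 602283 0) (P.cons (P.lf 0 175545 0) P.nil)) (P.cons (P.cons (P.lf 0 366609 0) P.nil) P.nil)))))) 551895)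
 (EL.cons 11 (TM.mk (P.cons (P.cons (P.lf 130458795 0 0) (P.cons (P.lf 0 38645544 0) (P.cons (P.lf 0 22775568 0) (P.cons (P.lf 4723185 0 0) (P.cons (P.lf 754641 0 0) (P.cons (P.lf 0 128235 0) P.nil)))))) (P.cons (P.cons (P.lf 26427963 0 0) (P.cons (P.lf 0 497370 0) (P.cons (P.lf 0 2988576 0) (P.cons (P.lf 322470 0 0) (P.cons (P.lf 70320 0 0) P.nil))))) (P.cons (P.cons (P.lf 0 23004681 0) (P.cons (P.lf 1444404 0 0) (P.cons (P.lf 2825682 0 0) (P.cons (P.lf 0 368214 0) P.nil)))) (P.cons (P.cons (P.lf 0 1314915 0) (P.cons (P.lf 490908 0 0) (P.cons (P.lf 252033 0 0) P.nil))) (P.cons (P.cons (P.lf 1019190 0 0) (P.cons (P.lf 19989 0 0) P.nil)) (P.cons (P.cons (P.lf 66204 0 0) P.nil) P.nil)))))) 548892)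
 EL.nil)))
noncomputable def S169_198_364_512_27 : EL := (EL.cons 13 (TM.mk (P.lf 0 4294967296 0) 0)
 EL.nil)
noncomputable def S169_198_364_512_28 : EL := (EL.cons 13 (TM.mk (P.cons (P.cons (P.lf 0 1058173730 0) (P.cons (P.lf 477292524 0 0) (P.cons (P.lf 31910664 0 0) (P.lf 0 10636884 0)))) (P.cons (P.cons (P.lf 0 389031863 0) (P.cons (P.lf 116008328 0 0) (P.cons (P.lf 7756044 0 0) (P.lf 0 2585348 0)))) (P.cons (P.cons (P.lf 70317099 0 0) (P.cons (P.lf 2026232 0 0) (P.cons (P.lf 135468 0 0) (P.lf 0 45156 0)))) (P.cons (P.cons (P.lf 7657884 0 0) (P.cons (P.lf 0 1632336 0) (P.cons (P.lf 0 109132 0) P.nil))) (P.cons (P.cons (P.lf 0 609765 0) (P.cons (P.lf 0 120820 0) P.nil)) (P.cons (P.cons (P.lf 0 98766 0) P.nil) P.nil)))))) 74117)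
 EL.nil)
noncomputable def S169_198_364_512_29 : EL := (EL.cons 13 (TM.mk (P.cons (P.cons (P.lf 0 260707839 0) (P.cons (P.lf 235186149 0 0) (P.cons (P.lf 0 37316722 0) (P.cons (P.lf 0 12333687 0) (P.cons (P.lf 2127028 0 0) (P.cons (P.lf 158059 0 0) P.nil)))))) (P.cons (P.cons (P.lf 0 191695661 0) (P.cons (P.lf 143628085 0 0) (P.cons (P.lf 0 16180984 0) (P.cons (P.lf 0 6648543 0) (P.cons (P.lf 1033970 0 0) P.nil))))) (P.cons (P.cons (P.lf 0 589149 0) (P.cons (P.lf 6385713 0 0) (P.cons (P.lf 0 3156829 0) (P.cons (P.lf 0 621514 0) P.nil)))) (P.cons (P.cons (P.lf 16511866 0 0) (P.cons (P.lf 0 5937854 0) (P.cons (P.lf 0 143650 0) P.nil))) (P.cons (P.cons (P.lf 0 64411 0) (P.cons (P.lf 0 699749 0) P.nil)) (P.cons (P.cons (P.lf 0 409879 0) P.nil) P.nil)))))) 1028253)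
 EL.nil)
noncomputable def S169_198_364_512_30 : EL := (EL.cons 13 (TM.mk (P.cons (P.lf 2211029524 0 0) (P.cons (P.lf 0 361618480 0) (P.cons (P.lf 0 21238980 0) (P.cons (P.lf 543904 0 0) (P.cons (P.lf 97232 0 0) (P.cons (P.lf 1560 0 0) P.nil)))))) 512)
 EL.nil)
noncomputable def S169_198_364_512_31 : EL := (EL.cons 13 (TM.mk (P.cons (P.cons (P.lf 544742997 0 0) (P.cons (P.lf 0 245708008 0) (P.cons (P.lf 0 16427463 0) (P.lf 5475819 0 0)))) (P.cons (P.cons (P.lf 111177973 0 0) (P.cons (P.lf 0 19534500 0) (P.cons (P.lf 0 1306030 0) (P.lf 435343 0 0)))) (P.cons (P.cons (P.lf 0 74186554 0) (P.cons (P.lf 11084578 0 0) (P.cons (P.lf 741089 0 0) (P.lf 0 247029 0)))) (P.cons (P.cons (P.lf 188373 0 0) (P.cons (P.lf 1524147 0 0) (P.cons (P.lf 101899 0 0) P.nil))) (P.cons (P.cons (P.lf 1379612 0 0) (P.cons (P.lf 0 90714 0) P.nil)) (P.cons (P.cons (P.lf 37660 0 0) P.nil) P.nil))))))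 113255)
 EL.nil)
noncomputable def S169_198_364_512_32 : EL := (EL.cons 13 (TM.mk (P.cons (P.cons (P.lf 134211203 0 0) (P.cons (P.lf 0 121072754 0) (P.cons (P.lf 19210477 0 0) (P.cons (P.lf 6349325 0 0) (P.cons (P.lf 0 1094984 0) (P.cons (P.lf 0 81368 0) P.nil)))))) (P.cons (P.cons (P.lf 76733528 0 0) (P.cons (P.lf 0 54137380 0) (P.cons (P.lf 5187982 0 0) (P.cons (P.lf 2384194 0 0) (P.cons (P.lf 0 353196 0) P.nil))))) (P.cons (P.cons (P.lf 0 17125913 0) (P.cons (P.lf 9968570 0 0) (P.cons (P.lf 78214 0 0) (P.cons (P.lf 0 300818 0) P.nil)))) (P.cons (P.cons (P.lf 0 9464773 0) (P.cons (P.lf 4274900 0 0) (P.cons (P.lf 0 267132 0) P.nil))) (P.cons (P.cons (P.lf 1450653 0 0) (P.cons (P.lf 0 131650 0) P.nil)) (P.cons (P.cons (P.lf 291742 0 0) P.nil) P.nil)))))) 998522)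
 EL.nil)
noncomputable def S169_198_364_512_33 : EL := (EL.cons 14 (TM.mk (P.lf 8589934592 0 0) 0)
 EL.nil)
noncomputable def S169_198_364_512_34 : EL := (EL.cons 14 (TM.mk (P.cons (P.cons (P.lf 2116347460 0 0) (P.cons (P.lf 0 954585048 0) (P.cons (P.lf 0 63821328 0) (P.lf 21273768 0 0)))) (P.cons (P.cons (P.lf 778063726 0 0) (P.cons (P.lf 0 232016656 0) (P.cons (P.lf 0 15512088 0) (P.lf 5170696 0 0)))) (P.cons (P.cons (P.lf 0 140634198 0) (P.cons (P.lf 0 4052464 0) (P.cons (P.lf 0 270936 0) (P.lf 90312 0 0)))) (P.cons (P.cons (P.lf 0 15315768 0) (P.cons (P.lf 3264672 0 0) (P.cons (P.lf 218264 0 0) P.nil))) (P.cons (P.cons (P.lf 1219530 0 0) (P.cons (P.lf 241640 0 0) P.nil)) (P.cons (P.cons (P.lf 197532 0 0) P.nil) P.nil)))))) 148234)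
 EL.nil)
noncomputable def S169_198_364_512_35 : EL := (EL.cons 14 (TM.mk (P.cons (P.cons (P.lf 521415678 0 0) (P.cons (P.lf 0 470372298 0) (P.cons (P.lf 74633444 0 0) (P.cons (P.lf 24667374 0 0) (P.cons (P.lf 0 4254056 0) (P.cons (P.lf 0 316118 0) P.nil)))))) (P.cons (P.cons (P.lf 383391322 0 0) (P.cons (P.lf 0 287256170 0) (P.cons (P.lf 32361968 0 0) (P.cons (P.lf 13297086 0 0) (P.cons (P.lf 0 2067940 0) P.nil))))) (P.cons (P.cons (P.lf 1178298 0 0) (P.cons (P.lf 0 12771426 0) (P.cons (P.lf 6313658 0 0) (P.cons (P.lf 1243028 0 0) P.nil)))) (P.cons (P.cons (P.lf 0 33023732 0) (P.cons (P.lf 11875708 0 0) (P.cons (P.lf 287300 0 0) P.nil))) (P.cons (P.cons (P.lf 128822 0 0) (P.cons (P.lf 1399498 0 0) P.nil)) (P.cons (P.cons (P.lf 819758 0 0) P.nil) P.nil)))))) 2056506)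
 EL.nil)
noncomputable def S169_198_364_512_36 : EL := (EL.cons 14 (TM.mk (P.cons (P.lf 0 4422059048 0) (P.cons (P.lf 723236960 0 0) (P.cons (P.lf 42477960 0 0) (P.cons (P.lf 0 1087808 0) (P.cons (P.lf 0 194464 0) (P.cons (P.lf 0 3120 0) P.nil)))))) 1024)
 EL.nil)
noncomputable def S169_198_364_512_37 : EL := (EL.cons 14 (TM.mk (P.cons (P.cons (P.lf 0 1089485994 0) (P.cons (P.lf 491416016 0 0) (P.cons (P.lf 32854926 0 0) (P.lf 0 10951638 0)))) (P.cons (P.cons (P.lf 0 222355946 0) (P.cons (P.lf 39069000 0 0) (P.cons (P.lf 2612060 0 0) (P.lf 0 870686 0)))) (P.cons (P.cons (P.lf 148373108 0 0) (P.cons (P.lf 0 22169156 0) (P.cons (P.lf 0 1482178 0) (P.lf 494058 0 0)))) (P.cons (P.cons (P.lf 0 376746 0) (P.cons (P.lf 0 3048294 0) (P.cons (P.lf 0 203798 0) P.nil))) (P.cons (P.cons (P.lf 0 2759224 0) (P.cons (P.lf 181428 0 0) P.nil)) (P.cons (P.cons (P.lf 0 75320 0) P.nil)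 P.nil)))))) 226510)
 EL.nil)
noncomputable def S169_198_364_512_38 : EL := (EL.cons 14 (TM.mk (P.cons (P.cons (P.lf 0 268422406 0) (P.cons (P.lf 242145508 0 0) (P.cons (P.lf 0 38420954 0) (P.cons (P.lf 0 12698650 0) (P.cons (P.lf 2189968 0 0) (P.cons (P.lf 162736 0 0) P.nil)))))) (P.cons (P.cons (P.lf 0 153467056 0) (P.cons (P.lf 108274760 0 0) (P.cons (P.lf 0 10375964 0) (P.cons (P.lf 0 4768388 0) (P.cons (P.lf 706392 0 0) P.nil))))) (P.cons (P.cons (P.lf 34251826 0 0) (P.cons (P.lf 0 19937140 0) (P.cons (P.lf 0 156428 0) (P.cons (P.lf 601636 0 0) P.nil)))) (P.cons (P.cons (P.lf 18929546 0 0) (P.cons (P.lf 0 8549800 0) (P.cons (P.lf 534264 0 0) P.nil))) (P.cons (P.cons (P.lf 0 2901306 0) (P.cons (P.lf 263300 0 0) P.nil)) (P.cons (P.cons (P.lf 0 583484 0) P.nil) P.nil)))))) 1997044)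
 EL.nil)
noncomputable def S169_198_364_512_39 : EL := (EL.cons 14 (TM.mk (P.cons (P.lf 2276455776 0 0) (P.cons (P.lf 0 744638158 0) (P.cons (P.lf 17158640 0 0) (P.cons (P.lf 8272934 0 0) (P.cons (P.lf 227096 0 0) (P.cons (P.lf 0 40292 0) P.nil)))))) 3922)
 EL.nil)
noncomputable def S169_198_364_512_40 : EL := (EL.cons 14 (TM.mk (P.cons (P.cons (P.lf 560862406 0 0) (P.cons (P.lf 0 252978718 0) (P.cons (P.lf 0 16913566 0) (P.lf 5637852 0 0)))) (P.cons (P.cons (P.lf 22737610 0 0) (P.cons (P.lf 21262652 0 0) (P.cons (P.lf 1421572 0 0) (P.lf 0 473856 0)))) (P.cons (P.cons (P.lf 0 100490848 0) (P.cons (P.lf 17132122 0 0) (P.cons (P.lf 1145414 0 0) (P.lf 0 381804 0)))) (P.cons (P.cons (P.lf 11724750 0 0) (P.cons (P.lf 0 166334 0) (P.cons (P.lf 0 11122 0) P.nil))) (P.cons (P.cons (P.lf 2175254 0 0) (P.cons (P.lf 0 475752 0) P.nil)) (P.cons (P.cons (P.lf 0 208762 0) P.nil)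 P.nil)))))) 228898)
 EL.nil)
noncomputable def S169_198_364_512_41 : EL := (EL.cons 14 (TM.mk (P.cons (P.cons (P.lf 138182626 0 0) (P.cons (P.lf 0 124655400 0) (P.cons (P.lf 19778932 0 0) (P.cons (P.lf 6537206 0 0) (P.cons (P.lf 0 1127384 0) (P.cons (P.lf 0 83774 0) P.nil)))))) (P.cons (P.cons (P.lf 56404082 0 0) (P.cons (P.lf 0 35351700 0) (P.cons (P.lf 2106614 0 0) (P.cons (P.lf 1385570 0 0) (P.cons (P.lf 0 179260 0) P.nil))))) (P.cons (P.cons (P.lf 0 31881346 0) (P.cons (P.lf 20577266 0 0) (P.cons (P.lf 0 983078 0) (P.cons (P.lf 0 773994 0) P.nil)))) (P.cons (P.cons (P.lf 0 7585896 0) (P.cons (P.lf 3227536 0 0) (P.cons (P.lf 0 334652 0) P.nil))) (P.cons (P.cons (P.lf 3282258 0 0) (P.cons (P.lf 0 973188 0) P.nil)) (P.cons (P.cons (P.lf 148938 0 0) P.nil) P.nil)))))) 1505240)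
 EL.nil)
noncomputable def S169_198_364_512_42 : EL := (EL.cons 14 (TM.mk (P.cons (P.lf 0 1171909022 0) (P.cons (P.lf 575004478 0 0) (P.cons (P.lf 0 60271372 0) (P.cons (P.lf 0 6784766 0) (P.cons (P.lf 707252 0 0) (P.cons (P.lf 94630 0 0) P.nil)))))) 9404)
 EL.nil)
noncomputable def S169_198_364_512_43 : EL := (EL.cons 14 (TM.mk (P.cons (P.cons (P.lf 0 288729402 0) (P.cons (P.lf 130232286 0 0) (P.cons (P.lf 8707026 0 0) (P.lf 0 2902340 0)))) (P.cons (P.cons (P.lf 35517076 0 0) (P.cons (P.lf 0 32245676 0) (P.cons (P.lf 0 2155870 0) (P.lf 718622 0 0)))) (P.cons (P.cons (P.lf 56420154 0 0) (P.cons (P.lf 0 8280312 0) (P.cons (P.lf 0 553602 0) (P.lf 184534 0 0)))) (P.cons (P.cons (P.lf 0 14455348 0) (P.cons (P.lf 1665264 0 0) (P.cons (P.lf 111336 0 0) P.nil))) (P.cons (P.cons (P.lf 0 645148 0) (P.cons (P.lf 318664 0 0) P.nil)) (P.cons (P.cons (P.lf 360604 0 0) P.nil) P.nil))))))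 279920)
 EL.nil)
noncomputable def S169_198_364_512_44 : EL := (EL.cons 14 (TM.mk (P.cons (P.cons (P.lf 0 71135784 0) (P.cons (P.lf 64172028 0 0) (P.cons (P.lf 0 10182102 0) (P.cons (P.lf 0 3365324 0) (P.cons (P.lf 580372 0 0) (P.cons (P.lf 43126 0 0) P.nil)))))) (P.cons (P.cons (P.lf 0 17402158 0) (P.cons (P.lf 7703424 0 0) (P.cons (P.lf 580828 0 0) (P.cons (P.lf 0 162878 0) (P.cons (P.lf 0 2638 0) P.nil))))) (P.cons (P.cons (P.lf 21844686 0 0) (P.cons (P.lf 0 14185980 0) (P.cons (P.lf 781260 0 0) (P.cons (P.lf 547434 0 0) P.nil)))) (P.cons (P.cons (P.lf 1482330 0 0) (P.cons (P.lf 0 88030 0) (P.cons (P.lf 97418 0 0) P.nil))) (P.cons (P.cons (P.lf 0 2496320 0) (P.cons (P.lf 881792 0 0) P.nil)) (P.cons (P.cons (P.lf 164876 0 0) P.nil) P.nil)))))) 1313086)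
 EL.nil)
noncomputable def S169_198_364_512_45 : EL := (EL.cons 14 (TM.mk (P.cons (P.cons (P.lf 128463928 0 0) (P.cons (P.lf 0 173832152 0) (P.cons (P.lf 66785516 0 0) (P.cons (P.lf 2569638 0 0) (P.cons (P.lf 0 5508768 0) (P.cons (P.lf 396424 0 0) P.nil)))))) (P.cons (P.cons (P.lf 141687210 0 0) (P.cons (P.lf 0 170067678 0) (P.cons (P.lf 55570458 0 0) (P.cons (P.lf 4145244 0 0) (P.cons (P.lf 0 4408546 0) P.nil))))) (P.cons (P.cons (P.lf 26480724 0 0) (P.cons (P.lf 0 32197326 0) (P.cons (P.lf 11947434 0 0) (P.cons (P.lf 363532 0 0) P.nil)))) (P.cons (P.cons (P.lf 0 15236054 0) (P.cons (P.lf 10966024 0 0) (P.cons (P.lf 0 793864 0) P.nil))) (P.cons (P.cons (P.lf 0 3588350 0) (P.cons (P.lf 3112462 0 0) P.nil)) (P.cons (P.cons (P.lf 818620 0 0) P.nil) P.nil)))))) 6098186)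
 EL.nil)
noncomputable def S169_198_364_512_46 : EL := (EL.cons 15 (TM.mk (P.lf 4294967296 0 0) 0)
 EL.nil)
noncomputable def S169_198_364_512_47 : EL := (EL.cons 15 (TM.mk (P.cons (P.cons (P.lf 1058173730 0 0) (P.cons (P.lf 0 477292524 0) (P.cons (P.lf 0 31910664 0) (P.lf 10636884 0 0)))) (P.cons (P.cons (P.lf 389031863 0 0) (P.cons (P.lf 0 116008328 0) (P.cons (P.lf 0 7756044 0) (P.lf 2585348 0 0)))) (P.cons (P.cons (P.lf 0 70317099 0) (P.cons (P.lf 0 2026232 0) (P.cons (P.lf 0 135468 0) (P.lf 45156 0 0)))) (P.cons (P.cons (P.lf 0 7657884 0) (P.cons (P.lf 1632336 0 0) (P.cons (P.lf 109132 0 0) P.nil))) (P.cons (P.cons (P.lf 609765 0 0) (P.cons (P.lf 120820 0 0) P.nil)) (P.cons (P.cons (P.lf 98766 0 0) P.nil) P.nil)))))) 74117)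
 EL.nil)
noncomputable def S169_198_364_512_48 : EL := (EL.cons 15 (TM.mk (P.cons (P.cons (P.lf 260707839 0 0) (P.cons (P.lf 0 235186149 0) (P.cons (P.lf 37316722 0 0) (P.cons (P.lf 12333687 0 0) (P.cons (P.lf 0 2127028 0) (P.cons (P.lf 0 158059 0) P.nil)))))) (P.cons (P.cons (P.lf 191695661 0 0) (P.cons (P.lf 0 143628085 0) (P.cons (P.lf 16180984 0 0) (P.cons (P.lf 6648543 0 0) (P.cons (P.lf 0 1033970 0) P.nil))))) (P.cons (P.cons (P.lf 589149 0 0) (P.cons (P.lf 0 6385713 0) (P.cons (P.lf 3156829 0 0) (P.cons (P.lf 621514 0 0) P.nil)))) (P.cons (P.cons (P.lf 0 16511866 0) (P.cons (P.lf 5937854 0 0) (P.cons (P.lf 143650 0 0) P.nil))) (P.cons (P.cons (P.lf 64411 0 0) (P.cons (P.lf 699749 0 0) P.nil)) (P.cons (P.cons (P.lf 409879 0 0) P.nil) P.nil)))))) 1028253)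
 EL.nil)
noncomputable def S169_198_364_512 : SL := (SL.cons S169_198_364_512_0 (SL.cons S169_198_364_512_1 (SL.cons S169_198_364_512_2 (SL.cons S169_198_364_512_3 (SL.cons S169_198_364_512_4 (SL.cons S169_198_364_512_5 (SL.cons S169_198_364_512_6 (SL.cons S169_198_364_512_7 (SL.cons S169_198_364_512_8 (SL.cons S169_198_364_512_9 (SL.cons S169_198_364_512_10 (SL.cons S169_198_364_512_11 (SL.cons S169_198_364_512_12 (SL.cons S169_198_364_512_13 (SL.cons S169_198_364_512_14 (SL.cons S169_198_364_512_15 (SL.cons S169_198_364_512_16 (SL.cons S169_198_364_512_17 (SL.cons S169_198_364_512_18 (SL.cons S169_198_364_512_19 (SL.cons S169_198_364_512_20 (SL.cons S169_198_364_512_21 (SL.cons S169_198_364_512_22 (SL.cons S169_198_364_512_23 (SL.cons S169_198_364_512_24 (SL.cons S169_198_364_512_25 (SL.cons S169_198_364_512_26 (SL.cons S169_198_364_512_27 (SL.cons S169_198_364_512_28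 (SL.cons S169_198_364_512_29 (SL.cons S169_198_364_512_30 (SL.cons S169_198_364_512_31 (SL.cons S169_198_364_512_32 (SL.cons S169_198_364_512_33 (SL.cons S169_198_364_512_34 (SL.cons S169_198_364_512_35 (SL.cons S169_198_364_512_36 (SL.cons S169_198_364_512_37 (SL.cons S169_198_364_512_38 (SL.cons S169_198_364_512_39 (SL.cons S169_198_364_512_40 (SL.cons S169_198_364_512_41 (SL.cons S169_198_364_512_42 (SL.cons S169_198_364_512_43 (SL.cons S169_198_364_512_44 (SL.cons S169_198_364_512_45 (SL.cons S169_198_364_512_46 (SL.cons S169_198_364_512_47 (SL.cons S169_198_364_512_48 SL.nil)))))))))))))))))))))))))))))))))))))))))))))))))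
noncomputable def S169_198_401_438_0 : EL := (EL.cons 0 (TM.mk (P.cons (P.lf 6454925654 0 0) (P.cons (P.lf 654467131 0 0) (P.cons (P.lf 0 15080835 0) (P.cons (P.lf 0 7271133 0) (P.cons (P.lf 0 199596 0) (P.cons (P.lf 35412 0 0) P.nil)))))) 3454)
 (EL.cons 1 (TM.mk (P.cons (P.lf 0 1695086628 0) (P.cons (P.lf 139901857 0 0) (P.cons (P.lf 47471786 0 0) (P.cons (P.lf 293435 0 0) (P.cons (P.lf 0 328029 0) (P.cons (P.lf 0 15684 0) P.nil)))))) 1940)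
 (EL.cons 5 (TM.mk (P.cons (P.lf 5006359730 0 0) (P.cons (P.lf 0 232699422 0) (P.cons (P.lf 5362070 0 0) (P.cons (P.lf 2585292 0 0) (P.cons (P.lf 70970 0 0) (P.cons (P.lf 0 12590 0) P.nil)))))) 1169)
 (EL.cons 9 (TM.mk (P.lf 6442450944 0 0) 2)
 EL.nil))))
noncomputable def S169_198_401_438_1 : EL := (EL.cons 0 (TM.mk (P.cons (P.cons (P.lf 0 634206484 0) (P.cons (P.lf 0 12100011 0) (P.cons (P.lf 0 262692 0) (P.lf 17521 0 0)))) (P.cons (P.cons (P.lf 1895113618 0 0) (P.cons (P.lf 0 72935619 0) (P.cons (P.lf 0 1583393 0) (P.lf 105553 0 0)))) (P.cons (P.cons (P.lf 49296311 0 0) (P.cons (P.lf 0 15451028 0) (P.cons (P.lf 0 335425 0) (P.lf 22349 0 0)))) (P.cons (P.cons (P.lf 0 74544569 0) (P.cons (P.lf 913897 0 0) (P.cons (P.lf 19839 0 0) P.nil))) (P.cons (P.cons (P.lf 0 4948487 0) (P.cons (P.lf 459639 0 0) P.nil)) (P.cons (P.cons (P.lf 1162516 0 0) P.nil) P.nil)))))) 294790)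
 (EL.cons 1 (TM.mk (P.cons (P.cons (P.lf 0 977036116 0) (P.cons (P.lf 79628425 0 0) (P.cons (P.lf 1728678 0 0) (P.lf 0 115235 0)))) (P.cons (P.cons (P.lf 0 265709941 0) (P.cons (P.lf 29254611 0 0) (P.cons (P.lf 635093 0 0) (P.lf 0 42329 0)))) (P.cons (P.cons (P.lf 205562959 0 0) (P.cons (P.lf 0 3893892 0) (P.cons (P.lf 0 84533 0) (P.lf 5638 0 0)))) (P.cons (P.cons (P.lf 17000603 0 0) (P.cons (P.lf 0 1694747 0) (P.cons (P.lf 0 36780 0) P.nil))) (P.cons (P.cons (P.lf 0 5434376 0) (P.cons (P.lf 0 25891 0) P.nil)) (P.cons (P.cons (P.lf 0 559556 0) P.nil) P.nil)))))) 171789)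
 (EL.cons 5 (TM.mk (P.cons (P.cons (P.lf 2223567263 0 0) (P.cons (P.lf 0 190918454 0) (P.cons (P.lf 0 4144736 0) (P.lf 276308 0 0)))) (P.cons (P.cons (P.lf 35946790 0 0) (P.cons (P.lf 0 21516702 0) (P.cons (P.lf 0 467124 0) (P.lf 31142 0 0)))) (P.cons (P.cons (P.lf 0 136221096 0) (P.cons (P.lf 4664932 0 0) (P.cons (P.lf 101264 0 0) (P.lf 0 6746 0)))) (P.cons (P.cons (P.lf 12805138 0 0) (P.cons (P.lf 342720 0 0) (P.cons (P.lf 7444 0 0) P.nil))) (P.cons (P.cons (P.lf 2745647 0 0) (P.cons (P.lf 0 114010 0) P.nil)) (P.cons (P.cons (P.lf 0 241871 0) P.nil) P.nil)))))) 137770)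
 (EL.cons 9 (TM.mk (P.cons (P.cons (P.lf 1763004369 0 0) (P.cons (P.lf 0 172253538 0) (P.cons (P.lf 0 3739524 0) (P.lf 249294 0 0)))) (P.cons (P.cons (P.lf 626263192 0 0) (P.cons (P.lf 0 41867076 0) (P.cons (P.lf 0 908910 0) (P.lf 60588 0 0)))) (P.cons (P.cons (P.lf 0 104729572 0) (P.cons (P.lf 0 731262 0) (P.cons (P.lf 0 15876 0) (P.lf 1056 0 0)))) (P.cons (P.cons (P.lf 0 12087870 0) (P.cons (P.lf 589104 0 0) (P.cons (P.lf 12786 0 0) P.nil))) (P.cons (P.cons (P.lf 870163 0 0) (P.cons (P.lf 43596 0 0) P.nil)) (P.cons (P.cons (P.lf 151281 0 0) P.nil) P.nil)))))) 22922)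
 (EL.cons 2 (TM.mk (P.cons (P.cons (P.lf 922526738 0 0) (P.cons (P.lf 46177185 0 0) (P.cons (P.lf 0 4351902 0) (P.cons (P.lf 0 53161 0) (P.lf 2655 0 0))))) (P.cons (P.cons (P.lf 0 1398017 0) (P.cons (P.lf 0 69977 0) (P.cons (P.lf 6595 0 0) (P.cons (P.lf 78 0 0) (P.lf 0 2 0))))) (P.cons (P.cons (P.lf 0 36754523 0) (P.cons (P.lf 0 1839749 0) (P.cons (P.lf 173382 0 0) (P.cons (P.lf 2115 0 0) P.nil)))) (P.cons (P.cons (P.lf 0 2306385 0) (P.cons (P.lf 0 115444 0) (P.cons (P.lf 10878 0 0) P.nil))) (P.cons (P.cons (P.lf 336459 0 0) (P.cons (P.lf 16841 0 0) P.nil)) (P.cons (P.cons (P.lf 37870 0 0) P.nil) P.nil)))))) 8618)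
 (EL.cons 6 (TM.mk (P.cons (P.cons (P.lf 781572174 0 0) (P.cons (P.lf 39121689 0 0) (P.cons (P.lf 0 3686967 0) (P.cons (P.lf 0 45039 0) (P.lf 2250 0 0))))) (P.cons (P.cons (P.lf 189965013 0 0) (P.cons (P.lf 9508719 0 0) (P.cons (P.lf 0 896133 0) (P.cons (P.lf 0 10944 0) (P.lf 546 0 0))))) (P.cons (P.cons (P.lf 3317976 0 0) (P.cons (P.lf 166080 0 0) (P.cons (P.lf 0 15651 0) (P.cons (P.lf 0 189 0) P.nil)))) (P.cons (P.cons (P.lf 0 2672976 0) (P.cons (P.lf 0 133794 0) (P.cons (P.lf 12609 0 0) P.nil))) (P.cons (P.cons (P.lf 0 197844 0) (P.cons (P.lf 0 9903 0) P.nil)) (P.cons (P.cons (P.lf 13929 0 0) P.nil) P.nil)))))) 5184)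
 EL.nil))))))
noncomputable def S169_198_401_438_2 : EL := (EL.cons 0 (TM.mk (P.cons (P.cons (P.lf 0 830494552 0) (P.cons (P.lf 121749848 0 0) (P.cons (P.lf 0 1324343 0) (P.cons (P.lf 0 348456 0) (P.cons (P.lf 9607 0 0) (P.cons (P.lf 238 0 0) P.nil)))))) (P.cons (P.cons (P.lf 521477213 0 0) (P.cons (P.lf 0 69278395 0) (P.cons (P.lf 0 157546 0) (P.cons (P.lf 158737 0 0) (P.cons (P.lf 0 3272 0) P.nil))))) (P.cons (P.cons (P.lf 378787194 0 0) (P.cons (P.lf 0 40912050 0) (P.cons (P.lf 360319 0 0) (P.cons (P.lf 113408 0 0) P.nil)))) (P.cons (P.cons (P.lf 0 62434841 0) (P.cons (P.lf 580381 0 0) (P.cons (P.lf 179760 0 0) P.nil))) (P.cons (P.cons (P.lf 0 22764416 0) (P.cons (P.lf 2193318 0 0) P.nil)) (P.cons (P.cons (P.lf 1714974 0 0) P.nil) P.nil)))))) 1599820)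
 (EL.cons 1 (TM.mk (P.cons (P.cons (P.lf 0 407800861 0) (P.cons (P.lf 71022758 0 0) (P.cons (P.lf 0 1504445 0) (P.cons (P.lf 0 235051 0) (P.cons (P.lf 7378 0 0) (P.cons (P.lf 190 0 0) P.nil)))))) (P.cons (P.cons (P.lf 0 255671120 0) (P.cons (P.lf 45606824 0 0) (P.cons (P.lf 0 1120175 0) (P.cons (P.lf 0 157619 0) (P.cons (P.lf 5106 0 0) P.nil))))) (P.cons (P.cons (P.lf 82551553 0 0) (P.cons (P.lf 0 5203456 0) (P.cons (P.lf 0 303714 0) (P.cons (P.lf 0 754 0) P.nil)))) (P.cons (P.cons (P.lf 51851987 0 0) (P.cons (P.lf 0 5574363 0) (P.cons (P.lf 0 1108 0) P.nil))) (P.cons (P.cons (P.lf 0 5095759 0) (P.cons (P.lf 0 300490 0) P.nil)) (P.cons (P.cons (P.lf 0 2413893 0) P.nil) P.nil)))))) 784088)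
 (EL.cons 5 (TM.mk (P.cons (P.cons (P.lf 842067824 0 0) (P.cons (P.lf 0 150134776 0) (P.cons (P.lf 3370978 0 0) (P.cons (P.lf 505153 0 0) (P.cons (P.lf 0 16066 0) (P.cons (P.lf 0 406 0) P.nil)))))) (P.cons (P.cons (P.lf 203046345 0 0) (P.cons (P.lf 0 39291485 0) (P.cons (P.lf 1205589 0 0) (P.cons (P.lf 146248 0 0) (P.cons (P.lf 0 4978 0) P.nil))))) (P.cons (P.cons (P.lf 0 130646442 0) (P.cons (P.lf 11214987 0 0) (P.cons (P.lf 152235 0 0) (P.cons (P.lf 0 20179 0) P.nil)))) (P.cons (P.cons (P.lf 0 8374977 0) (P.cons (P.lf 2273200 0 0) (P.cons (P.lf 0 35009 0) P.nil))) (P.cons (P.cons (P.lf 7899819 0 0) (P.cons (P.lf 0 470731 0) P.nil)) (P.cons (P.cons (P.lf 121222 0 0) P.nil) P.nil)))))) 767793)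
 (EL.cons 9 (TM.mk (P.cons (P.cons (P.lf 482453716 0 0) (P.cons (P.lf 0 94275840 0) (P.cons (P.lf 2558914 0 0) (P.cons (P.lf 336409 0 0) (P.cons (P.lf 0 11160 0) (P.cons (P.lf 0 288 0) P.nil)))))) (P.cons (P.cons (P.lf 342759223 0 0) (P.cons (P.lf 0 56403343 0) (P.cons (P.lf 1014337 0 0) (P.cons (P.lf 178834 0 0) (P.cons (P.lf 0 5424 0) P.nil))))) (P.cons (P.cons (P.lf 3558924 0 0) (P.cons (P.lf 0 2939560 0) (P.cons (P.lf 247365 0 0) (P.cons (P.lf 17763 0 0) P.nil)))) (P.cons (P.cons (P.lf 0 26977075 0) (P.cons (P.lf 2187840 0 0) (P.cons (P.lf 25497 0 0) P.nil))) (P.cons (P.cons (P.lf 0 171345 0) (P.cons (P.lf 272745 0 0) P.nil)) (P.cons (P.cons (P.lf 644976 0 0) P.nil) P.nil)))))) 190969)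
 (EL.cons 2 (TM.mk (P.cons (P.cons (P.lf 504906806 0 0) (P.cons (P.lf 0 24058513 0) (P.cons (P.lf 0 5922095 0) (P.cons (P.lf 221405 0 0) (P.cons (P.lf 12920 0 0) (P.cons (P.lf 0 416 0) P.nil)))))) (P.cons (P.cons (P.lf 178590358 0 0) (P.cons (P.lf 0 2976187 0) (P.cons (P.lf 0 1697585 0) (P.cons (P.lf 50208 0 0) (P.cons (P.lf 3279 0 0) P.nil))))) (P.cons (P.cons (P.lf 0 50381364 0) (P.cons (P.lf 0 747669 0) (P.cons (P.lf 364989 0 0) (P.cons (P.lf 0 6103 0) P.nil)))) (P.cons (P.cons (P.lf 0 11824425 0) (P.cons (P.lf 178194 0 0) (P.cons (P.lf 111037 0 0) P.nil))) (P.cons (P.cons (P.lf 1185170 0 0) (P.cons (P.lf 91878 0 0) P.nil)) (P.cons (P.cons (P.lf 341994 0 0) P.nil) P.nil)))))) 101907)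
 (EL.cons 6 (TM.mk (P.cons (P.cons (P.lf 427761162 0 0) (P.cons (P.lf 0 20382570 0) (P.cons (P.lf 0 5017248 0) (P.cons (P.lf 187572 0 0) (P.cons (P.lf 10944 0 0) (P.cons (P.lf 0 348 0) P.nil)))))) (P.cons (P.cons (P.lf 255920934 0 0) (P.cons (P.lf 0 7506426 0) (P.cons (P.lf 0 2665284 0) (P.cons (P.lf 88416 0 0) (P.cons (P.lf 5454 0 0) P.nil))))) (P.cons (P.cons (P.lf 13337778 0 0) (P.cons (P.lf 0 2156250 0) (P.cons (P.lf 0 265572 0) (P.cons (P.lf 13566 0 0) P.nil)))) (P.cons (P.cons (P.lf 0 9926976 0) (P.cons (P.lf 0 297270 0) (P.cons (P.lf 61146 0 0) P.nil))) (P.cons (P.cons (P.lf 0 1237554 0) (P.cons (P.lf 27936 0 0) P.nil)) (P.cons (P.cons (P.lf 131634 0 0) P.nil) P.nil)))))) 83364)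
 EL.nil))))))
noncomputable def S169_198_401_438_3 : EL := (EL.cons 0 (TM.mk (P.cons (P.lf 2000791209 0 0) (P.cons (P.lf 0 654467131 0) (P.cons (P.lf 15080835 0 0) (P.cons (P.lf 7271133 0 0) (P.cons (P.lf 199596 0 0) (P.cons (P.lf 0 35412 0) P.nil)))))) 3454)
 (EL.cons 1 (TM.mk (P.cons (P.lf 1695086628 0 0) (P.cons (P.lf 0 139901857 0) (P.cons (P.lf 0 47471786 0) (P.cons (P.lf 0 293435 0) (P.cons (P.lf 328029 0 0) (P.cons (P.lf 15684 0 0) P.nil)))))) 1940)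
 (EL.cons 5 (TM.mk (P.cons (P.lf 1436091214 0 0) (P.cons (P.lf 232699422 0 0) (P.cons (P.lf 0 5362070 0) (P.cons (P.lf 0 2585292 0) (P.cons (P.lf 0 70970 0) (P.cons (P.lf 12590 0 0) P.nil)))))) 1162)
 EL.nil)))
noncomputable def S169_198_401_438_4 : EL := (EL.cons 0 (TM.mk (P.cons (P.cons (P.lf 547525105 0 0) (P.cons (P.lf 0 53495690 0) (P.cons (P.lf 0 1161358 0) (P.lf 77421 0 0)))) (P.cons (P.cons (P.lf 15396853 0 0) (P.cons (P.lf 4496269 0 0) (P.cons (P.lf 97611 0 0) (P.lf 0 6507 0)))) (P.cons (P.cons (P.lf 0 92018255 0) (P.cons (P.lf 3622812 0 0) (P.cons (P.lf 78648 0 0) (P.lf 0 5241 0)))) (P.cons (P.cons (P.lf 10340841 0 0) (P.cons (P.lf 0 35173 0) (P.cons (P.lf 0 762 0) P.nil))) (P.cons (P.cons (P.lf 2014488 0 0) (P.cons (P.lf 0 100604 0) P.nil)) (P.cons (P.cons (P.lf 0 178198 0) P.nil) P.nil)))))) 64507)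
 (EL.cons 1 (TM.mk (P.cons (P.cons (P.lf 463867734 0 0) (P.cons (P.lf 0 45321984 0) (P.cons (P.lf 0 983911 0) (P.lf 65591 0 0)))) (P.cons (P.cons (P.lf 126492661 0 0) (P.cons (P.lf 0 7275138 0) (P.cons (P.lf 0 157936 0) (P.lf 10526 0 0)))) (P.cons (P.cons (P.lf 0 54146169 0) (P.cons (P.lf 1986030 0 0) (P.cons (P.lf 43113 0 0) (P.lf 0 2874 0)))) (P.cons (P.cons (P.lf 0 5601172 0) (P.cons (P.lf 487226 0 0) (P.cons (P.lf 10575 0 0) P.nil))) (P.cons (P.cons (P.lf 1324396 0 0) (P.cons (P.lf 0 2795 0) P.nil)) (P.cons (P.cons (P.lf 150926 0 0) P.nil) P.nil)))))) 40586)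
 (EL.cons 5 (TM.mk (P.cons (P.cons (P.lf 392992528 0 0) (P.cons (P.lf 0 38397154 0) (P.cons (P.lf 0 833578 0) (P.lf 55570 0 0)))) (P.cons (P.cons (P.lf 203279958 0 0) (P.cons (P.lf 0 15554364 0) (P.cons (P.lf 0 337674 0) (P.lf 22510 0 0)))) (P.cons (P.cons (P.lf 0 2192254 0) (P.cons (P.lf 0 1531864 0) (P.cons (P.lf 0 33254 0) (P.lf 2216 0 0)))) (P.cons (P.cons (P.lf 0 7706032 0) (P.cons (P.lf 208872 0 0) (P.cons (P.lf 4532 0 0) P.nil))) (P.cons (P.cons (P.lf 0 426208 0) (P.cons (P.lf 50302 0 0) P.nil)) (P.cons (P.cons (P.lf 113786 0 0) P.nil) P.nil)))))) 29036)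
 EL.nil)))
noncomputable def S169_198_401_438_5 : EL := (EL.cons 0 (TM.mk (P.cons (P.cons (P.lf 149832595 0 0) (P.cons (P.lf 0 29278650 0) (P.cons (P.lf 794705 0 0) (P.cons (P.lf 104475 0 0) (P.cons (P.lf 0 3464 0) (P.cons (P.lf 0 87 0) P.nil)))))) (P.cons (P.cons (P.lf 57437695 0 0) (P.cons (P.lf 0 7939659 0) (P.cons (P.lf 55063 0 0) (P.cons (P.lf 21364 0 0) (P.cons (P.lf 0 550 0) P.nil))))) (P.cons (P.cons (P.lf 0 32585141 0) (P.cons (P.lf 4596220 0 0) (P.cons (P.lf 0 20228 0) (P.cons (P.lf 0 11861 0) P.nil)))) (P.cons (P.cons (P.lf 0 7392777 0) (P.cons (P.lf 739648 0 0) (P.cons (P.lf 0 11947 0) P.nil))) (P.cons (P.cons (P.lf 3097422 0 0) (P.cons (P.lf 0 211009 0) P.nil)) (P.cons (P.cons (P.lf 166545 0 0) P.nil) P.nil)))))) 232482)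
 (EL.cons 1 (TM.mk (P.cons (P.cons (P.lf 126939395 0 0) (P.cons (P.lf 0 24805110 0) (P.cons (P.lf 673280 0 0) (P.cons (P.lf 88511 0 0) (P.cons (P.lf 0 2936 0) (P.cons (P.lf 0 75 0) P.nil)))))) (P.cons (P.cons (P.lf 79707303 0 0) (P.cons (P.lf 0 12793140 0) (P.cons (P.lf 211314 0 0) (P.cons (P.lf 39746 0 0) (P.cons (P.lf 0 1183 0) P.nil))))) (P.cons (P.cons (P.lf 0 10061838 0) (P.cons (P.lf 1146078 0 0) (P.cons (P.lf 24200 0 0) (P.cons (P.lf 0 1687 0) P.nil)))) (P.cons (P.cons (P.lf 0 9722904 0) (P.cons (P.lf 1059388 0 0) (P.cons (P.lf 0 6253 0) P.nil))) (P.cons (P.cons (P.lf 523468 0 0) (P.cons (P.lf 43680 0 0) P.nil)) (P.cons (P.cons (P.lf 390667 0 0) P.nil) P.nil)))))) 164500)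
 (EL.cons 5 (TM.mk (P.cons (P.cons (P.lf 107544092 0 0) (P.cons (P.lf 0 21015092 0) (P.cons (P.lf 570408 0 0) (P.cons (P.lf 74988 0 0) (P.cons (P.lf 0 2486 0) (P.cons (P.lf 0 62 0) P.nil)))))) (P.cons (P.cons (P.lf 93830782 0 0) (P.cons (P.lf 0 15978122 0) (P.cons (P.lf 318532 0 0) (P.cons (P.lf 52014 0 0) (P.cons (P.lf 0 1610 0) P.nil))))) (P.cons (P.cons (P.lf 12772134 0 0) (P.cons (P.lf 0 2614064 0) (P.cons (P.lf 89646 0 0) (P.cons (P.lf 10138 0 0) P.nil)))) (P.cons (P.cons (P.lf 0 6363814 0) (P.cons (P.lf 466292 0 0) (P.cons (P.lf 12746 0 0) P.nil))) (P.cons (P.cons (P.lf 0 1158420 0) (P.cons (P.lf 165940 0 0) P.nil)) (P.cons (P.cons (P.lf 155774 0 0) P.nil) P.nil)))))) 115268)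
 EL.nil)))
noncomputable def S169_198_401_438_6 : EL := (EL.cons 12 (TM.mk (P.lf 8589934592 0 0) 0)
 (EL.cons 3 (TM.mk (P.cons (P.lf 0 2072840178 0) (P.cons (P.lf 339017325 0 0) (P.cons (P.lf 19911543 0 0) (P.cons (P.lf 0 509910 0) (P.cons (P.lf 0 91155 0) (P.cons (P.lf 0 1462 0) P.nil)))))) 487)
 (EL.cons 7 (TM.mk (P.cons (P.lf 0 1756127103 0) (P.cons (P.lf 0 142278485 0) (P.cons (P.lf 9042093 0 0) (P.cons (P.lf 848140 0 0) (P.cons (P.lf 0 2043 0) (P.cons (P.lf 0 3166 0) P.nil)))))) 195)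
 EL.nil)))
noncomputable def S169_198_401_438_7 : EL := (EL.cons 12 (TM.mk (P.cons (P.cons (P.lf 2350672492 0 0) (P.cons (P.lf 0 229671384 0) (P.cons (P.lf 0 4986032 0) (P.lf 332392 0 0)))) (P.cons (P.cons (P.lf 835017590 0 0) (P.cons (P.lf 0 55822768 0) (P.cons (P.lf 0 1211880 0) (P.lf 80784 0 0)))) (P.cons (P.cons (P.lf 0 139639430 0) (P.cons (P.lf 0 975016 0) (P.cons (P.lf 0 21168 0) (P.lf 1408 0 0)))) (P.cons (P.cons (P.lf 0 16117160 0) (P.cons (P.lf 785472 0 0) (P.cons (P.lf 17048 0 0) P.nil))) (P.cons (P.cons (P.lf 1160218 0 0) (P.cons (P.lf 58128 0 0) P.nil)) (P.cons (P.cons (P.lf 201708 0 0) P.nil) P.nil)))))) 30538)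
 (EL.cons 3 (TM.mk (P.cons (P.cons (P.lf 1919830066 0 0) (P.cons (P.lf 0 110844166 0) (P.cons (P.lf 0 2406360 0) (P.lf 160416 0 0)))) (P.cons (P.cons (P.lf 0 829697715 0) (P.cons (P.lf 0 8812428 0) (P.cons (P.lf 0 191310 0) (P.lf 12750 0 0)))) (P.cons (P.cons (P.lf 0 120072270 0) (P.cons (P.lf 5000490 0 0) (P.cons (P.lf 108556 0 0) (P.lf 0 7236 0)))) (P.cons (P.cons (P.lf 11285507 0 0) (P.cons (P.lf 687572 0 0) (P.cons (P.lf 14922 0 0) P.nil))) (P.cons (P.cons (P.lf 2947882 0 0) (P.cons (P.lf 0 40926 0) P.nil)) (P.cons (P.cons (P.lf 25769 0 0) P.nil) P.nil)))))) 121760)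
 (EL.cons 7 (TM.mk (P.cons (P.cons (P.lf 0 1524343735 0) (P.cons (P.lf 116732514 0 0) (P.cons (P.lf 2534203 0 0) (P.lf 0 168949 0)))) (P.cons (P.cons (P.lf 348206786 0 0) (P.cons (P.lf 3698398 0 0) (P.cons (P.lf 80292 0 0) (P.lf 0 5356 0)))) (P.cons (P.cons (P.lf 7811282 0 0) (P.cons (P.lf 0 2550858 0) (P.cons (P.lf 0 55375 0) (P.lf 3689 0 0)))) (P.cons (P.cons (P.lf 0 11169972 0) (P.cons (P.lf 72540 0 0) (P.cons (P.lf 1572 0 0) P.nil))) (P.cons (P.cons (P.lf 0 135926 0) (P.cons (P.lf 52347 0 0) P.nil)) (P.cons (P.cons (P.lf 162095 0 0) P.nil) P.nil)))))) 71615)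
 (EL.cons 10 (TM.mk (P.cons (P.cons (P.lf 0 1911494295 0) (P.cons (P.lf 0 95680080 0) (P.cons (P.lf 9017235 0 0) (P.cons (P.lf 110154 0 0) (P.lf 0 5505 0))))) (P.cons (P.cons (P.lf 0 309732147 0) (P.cons (P.lf 0 15503679 0) (P.cons (P.lf 1461120 0 0) (P.cons (P.lf 17847 0 0) (P.lf 0 891 0))))) (P.cons (P.cons (P.lf 7137126 0 0) (P.cons (P.lf 357249 0 0) (P.cons (P.lf 0 33666 0) (P.cons (P.lf 0 411 0) P.nil)))) (P.cons (P.cons (P.lf 3441126 0 0) (P.cons (P.lf 172245 0 0) (P.cons (P.lf 0 16233 0) P.nil))) (P.cons (P.cons (P.lf 94461 0 0) (P.cons (P.lf 4728 0 0) P.nil)) (P.cons (P.cons (P.lf 0 16755 0) P.nil) P.nil)))))) 3336)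
 EL.nil))))
noncomputable def S169_198_401_438_8 : EL := (EL.cons 12 (TM.mk (P.cons (P.cons (P.lf 643271622 0 0) (P.cons (P.lf 0 125701120 0) (P.cons (P.lf 3411886 0 0) (P.cons (P.lf 448546 0 0) (P.cons (P.lf 0 14880 0) (P.cons (P.lf 0 384 0) P.nil)))))) (P.cons (P.cons (P.lf 457012298 0 0) (P.cons (P.lf 0 75204458 0) (P.cons (P.lf 1352450 0 0) (P.cons (P.lf 238446 0 0) (P.cons (P.lf 0 7232 0) P.nil))))) (P.cons (P.cons (P.lf 4745232 0 0) (P.cons (P.lf 0 3919414 0) (P.cons (P.lf 329820 0 0) (P.cons (P.lf 23684 0 0) P.nil)))) (P.cons (P.cons (P.lf 0 35969434 0) (P.cons (P.lf 2917120 0 0) (P.cons (P.lf 33996 0 0) P.nil))) (P.cons (P.cons (P.lf 0 228460 0) (P.cons (P.lf 363660 0 0) P.nil)) (P.cons (P.cons (P.lf 859968 0 0) P.nil) P.nil)))))) 254596)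
 (EL.cons 3 (TM.mk (P.cons (P.cons (P.lf 1205967585 0 0) (P.cons (P.lf 0 193660969 0) (P.cons (P.lf 3204910 0 0) (P.cons (P.lf 601970 0 0) (P.cons (P.lf 0 17950 0) (P.cons (P.lf 0 467 0) P.nil)))))) (P.cons (P.cons (P.lf 4042148 0 0) (P.cons (P.lf 0 20144585 0) (P.cons (P.lf 1952559 0 0) (P.cons (P.lf 132910 0 0) (P.cons (P.lf 0 5791 0) P.nil))))) (P.cons (P.cons (P.lf 0 307825507 0) (P.cons (P.lf 23709750 0 0) (P.cons (P.lf 355102 0 0) (P.cons (P.lf 0 41244 0) P.nil)))) (P.cons (P.cons (P.lf 0 7284646 0) (P.cons (P.lf 4573018 0 0) (P.cons (P.lf 0 50767 0) P.nil))) (P.cons (P.cons (P.lf 12730864 0 0) (P.cons (P.lf 0 475071 0) P.nil)) (P.cons (P.cons (P.lf 842071 0 0) P.nil) P.nil)))))) 838007)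
 (EL.cons 7 (TM.mk (P.cons (P.cons (P.lf 0 702775897 0) (P.cons (P.lf 119703925 0 0) (P.cons (P.lf 0 2388086 0) (P.cons (P.lf 0 389762 0) (P.cons (P.lf 12084 0 0) (P.cons (P.lf 312 0 0) P.nil)))))) (P.cons (P.cons (P.lf 0 1696409 0) (P.cons (P.lf 8454270 0 0) (P.cons (P.lf 0 819445 0) (P.cons (P.lf 0 55787 0) (P.cons (P.lf 2426 0 0) P.nil))))) (P.cons (P.cons (P.lf 129395376 0 0) (P.cons (P.lf 0 10984312 0) (P.cons (P.lf 0 48822 0) (P.cons (P.lf 24129 0 0) P.nil)))) (P.cons (P.cons (P.lf 0 18015160 0) (P.cons (P.lf 0 253527 0) (P.cons (P.lf 41404 0 0) P.nil))) (P.cons (P.cons (P.lf 0 4910892 0) (P.cons (P.lf 471251 0 0) P.nil)) (P.cons (P.cons (P.lf 628379 0 0) P.nil) P.nil)))))) 435642)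
 (EL.cons 10 (TM.mk (P.cons (P.cons (P.lf 0 1046177244 0) (P.cons (P.lf 49849740 0 0) (P.cons (P.lf 12270708 0 0) (P.cons (P.lf 0 458760 0) (P.cons (P.lf 0 26772 0) (P.cons (P.lf 864 0 0) P.nil)))))) (P.cons (P.cons (P.lf 0 541147356 0) (P.cons (P.lf 14319756 0 0) (P.cons (P.lf 5524344 0 0) (P.cons (P.lf 0 179076 0) (P.cons (P.lf 0 11184 0) P.nil))))) (P.cons (P.cons (P.lf 5835948 0 0) (P.cons (P.lf 4370064 0 0) (P.cons (P.lf 265122 0 0) (P.cons (P.lf 0 21042 0) P.nil)))) (P.cons (P.cons (P.lf 20514066 0 0) (P.cons (P.lf 470790 0 0) (P.cons (P.lf 0 136668 0) P.nil))) (P.cons (P.cons (P.lf 1134600 0 0) (P.cons (P.lf 0 77118 0) P.nil)) (P.cons (P.cons (P.lf 0 302904 0) P.nil) P.nil)))))) 117684)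
 EL.nil))))
noncomputable def S169_198_401_438_9 : EL := (EL.cons 3 (TM.mk (P.cons (P.lf 0 2072840178 0) (P.cons (P.lf 339017325 0 0) (P.cons (P.lf 19911543 0 0) (P.cons (P.lf 0 509910 0) (P.cons (P.lf 0 91155 0) (P.cons (P.lf 0 1462 0) P.nil)))))) 487)
 (EL.cons 7 (TM.mk (P.cons (P.lf 0 1756127103 0) (P.cons (P.lf 0 142278485 0) (P.cons (P.lf 9042093 0 0) (P.cons (P.lf 848140 0 0) (P.cons (P.lf 0 2043 0) (P.cons (P.lf 0 3166 0) P.nil)))))) 195)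
 EL.nil))
noncomputable def S169_198_401_438_10 : EL := (EL.cons 3 (TM.mk (P.cons (P.cons (P.lf 0 567241616 0) (P.cons (P.lf 55422083 0 0) (P.cons (P.lf 1203180 0 0) (P.lf 0 80208 0)))) (P.cons (P.cons (P.lf 0 108724845 0) (P.cons (P.lf 4406214 0 0) (P.cons (P.lf 95655 0 0) (P.lf 0 6375 0)))) (P.cons (P.cons (P.lf 72100800 0 0) (P.cons (P.lf 0 2500245 0) (P.cons (P.lf 0 54278 0) (P.lf 3618 0 0)))) (P.cons (P.cons (P.lf 174152 0 0) (P.cons (P.lf 0 343786 0) (P.cons (P.lf 0 7461 0) P.nil))) (P.cons (P.cons (P.lf 0 1314263 0) (P.cons (P.lf 20463 0 0) P.nil)) (P.cons (P.cons (P.lf 0 41215 0) P.nil) P.nil)))))) 29074)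
 (EL.cons 7 (TM.mk (P.cons (P.cons (P.lf 0 480571723 0) (P.cons (P.lf 46954041 0 0) (P.cons (P.lf 1019344 0 0) (P.lf 0 67954 0)))) (P.cons (P.cons (P.lf 0 209646199 0) (P.cons (P.lf 15216550 0 0) (P.cons (P.lf 330342 0 0) (P.lf 0 22021 0)))) (P.cons (P.cons (P.lf 17191580 0 0) (P.cons (P.lf 882186 0 0) (P.cons (P.lf 19151 0 0) (P.lf 0 1276 0)))) (P.cons (P.cons (P.lf 6718965 0 0) (P.cons (P.lf 0 225870 0) (P.cons (P.lf 0 4902 0) P.nil))) (P.cons (P.cons (P.lf 0 35342 0) (P.cons (P.lf 0 31377 0) P.nil)) (P.cons (P.cons (P.lf 0 92272 0) P.nil) P.nil)))))) 16540)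
 EL.nil))
noncomputable def S169_198_401_438_11 : EL := (EL.cons 3 (TM.mk (P.cons (P.cons (P.lf 0 155228103 0) (P.cons (P.lf 30332981 0 0) (P.cons (P.lf 0 823322 0) (P.cons (P.lf 0 108238 0) (P.cons (P.lf 3590 0 0) (P.cons (P.lf 91 0 0) P.nil)))))) (P.cons (P.cons (P.lf 0 84893920 0) (P.cons (P.lf 13186591 0 0) (P.cons (P.lf 0 191703 0) (P.cons (P.lf 0 39836 0) (P.cons (P.lf 1157 0 0) P.nil))))) (P.cons (P.cons (P.lf 18382853 0 0) (P.cons (P.lf 0 2313660 0) (P.cons (P.lf 0 18302 0) (P.cons (P.lf 4734 0 0) P.nil)))) (P.cons (P.cons (P.lf 9888248 0 0) (P.cons (P.lf 0 1025480 0) (P.cons (P.lf 7745 0 0) P.nil))) (P.cons (P.cons (P.lf 0 1387424 0) (P.cons (P.lf 24087 0 0) P.nil)) (P.cons (P.cons (P.lf 0 305153 0) P.nil) P.nil)))))) 138985)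
 (EL.cons 7 (TM.mk (P.cons (P.cons (P.lf 0 131510515 0) (P.cons (P.lf 25698349 0 0) (P.cons (P.lf 0 697526 0) (P.cons (P.lf 0 91700 0) (P.cons (P.lf 3042 0 0) (P.cons (P.lf 78 0 0) P.nil)))))) (P.cons (P.cons (P.lf 0 104086403 0) (P.cons (P.lf 17456844 0 0) (P.cons (P.lf 0 333007 0) (P.cons (P.lf 0 56177 0) (P.cons (P.lf 1724 0 0) P.nil))))) (P.cons (P.cons (P.lf 0 7862658 0) (P.cons (P.lf 1914608 0 0) (P.cons (P.lf 0 86238 0) (P.cons (P.lf 0 8319 0) P.nil)))) (P.cons (P.cons (P.lf 7819580 0 0) (P.cons (P.lf 0 623031 0) (P.cons (P.lf 0 10652 0) P.nil))) (P.cons (P.cons (P.lf 692448 0 0) (P.cons (P.lf 0 134185 0) P.nil)) (P.cons (P.cons (P.lf 0 209767 0) P.nil) P.nil)))))) 88148)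
 EL.nil))
noncomputable def S169_198_401_438_12 : EL := (EL.cons 4 (TM.mk (P.cons (P.lf 2072840178 0 0) (P.cons (P.lf 0 339017325 0) (P.cons (P.lf 0 19911543 0) (P.cons (P.lf 509910 0 0) (P.cons (P.lf 91155 0 0) (P.cons (P.lf 1462 0 0) P.nil)))))) 487)
 (EL.cons 8 (TM.mk (P.cons (P.lf 1756127103 0 0) (P.cons (P.lf 142278485 0 0) (P.cons (P.lf 0 9042093 0) (P.cons (P.lf 0 848140 0) (P.cons (P.lf 2043 0 0) (P.cons (P.lf 3166 0 0) P.nil)))))) 195)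
 EL.nil))
noncomputable def S169_198_401_438_13 : EL := (EL.cons 4 (TM.mk (P.cons (P.cons (P.lf 567241616 0 0) (P.cons (P.lf 0 55422083 0) (P.cons (P.lf 0 1203180 0) (P.lf 80208 0 0)))) (P.cons (P.cons (P.lf 108724845 0 0) (P.cons (P.lf 0 4406214 0) (P.cons (P.lf 0 95655 0) (P.lf 6375 0 0)))) (P.cons (P.cons (P.lf 0 72100800 0) (P.cons (P.lf 2500245 0 0) (P.cons (P.lf 54278 0 0) (P.lf 0 3618 0)))) (P.cons (P.cons (P.lf 0 174152 0) (P.cons (P.lf 343786 0 0) (P.cons (P.lf 7461 0 0) P.nil))) (P.cons (P.cons (P.lf 1314263 0 0) (P.cons (P.lf 0 20463 0) P.nil)) (P.cons (P.cons (P.lf 41215 0 0) P.nil) P.nil)))))) 29074)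
 (EL.cons 8 (TM.mk (P.cons (P.cons (P.lf 480571723 0 0) (P.cons (P.lf 0 46954041 0) (P.cons (P.lf 0 1019344 0) (P.lf 67954 0 0)))) (P.cons (P.cons (P.lf 209646199 0 0) (P.cons (P.lf 0 15216550 0) (P.cons (P.lf 0 330342 0) (P.lf 22021 0 0)))) (P.cons (P.cons (P.lf 0 17191580 0) (P.cons (P.lf 0 882186 0) (P.cons (P.lf 0 19151 0) (P.lf 1276 0 0)))) (P.cons (P.cons (P.lf 0 6718965 0) (P.cons (P.lf 225870 0 0) (P.cons (P.lf 4902 0 0) P.nil))) (P.cons (P.cons (P.lf 35342 0 0) (P.cons (P.lf 31377 0 0) P.nil)) (P.cons (P.cons (P.lf 92272 0 0) P.nil) P.nil)))))) 16540)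
 EL.nil))
noncomputable def S169_198_401_438_14 : EL := (EL.cons 4 (TM.mk (P.cons (P.cons (P.lf 155228103 0 0) (P.cons (P.lf 0 30332981 0) (P.cons (P.lf 823322 0 0) (P.cons (P.lf 108238 0 0) (P.cons (P.lf 0 3590 0) (P.cons (P.lf 0 91 0) P.nil)))))) (P.cons (P.cons (P.lf 84893920 0 0) (P.cons (P.lf 0 13186591 0) (P.cons (P.lf 191703 0 0) (P.cons (P.lf 39836 0 0) (P.cons (P.lf 0 1157 0) P.nil))))) (P.cons (P.cons (P.lf 0 18382853 0) (P.cons (P.lf 2313660 0 0) (P.cons (P.lf 18302 0 0) (P.cons (P.lf 0 4734 0) P.nil)))) (P.cons (P.cons (P.lf 0 9888248 0) (P.cons (P.lf 1025480 0 0) (P.cons (P.lf 0 7745 0) P.nil))) (P.cons (P.cons (P.lf 1387424 0 0) (P.cons (P.lf 0 24087 0) P.nil)) (P.cons (P.cons (P.lf 305153 0 0) P.nil) P.nil)))))) 138985)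
 (EL.cons 8 (TM.mk (P.cons (P.cons (P.lf 131510515 0 0) (P.cons (P.lf 0 25698349 0) (P.cons (P.lf 697526 0 0) (P.cons (P.lf 91700 0 0) (P.cons (P.lf 0 3042 0) (P.cons (P.lf 0 78 0) P.nil)))))) (P.cons (P.cons (P.lf 104086403 0 0) (P.cons (P.lf 0 17456844 0) (P.cons (P.lf 333007 0 0) (P.cons (P.lf 56177 0 0) (P.cons (P.lf 0 1724 0) P.nil))))) (P.cons (P.cons (P.lf 7862658 0 0) (P.cons (P.lf 0 1914608 0) (P.cons (P.lf 86238 0 0) (P.cons (P.lf 8319 0 0) P.nil)))) (P.cons (P.cons (P.lf 0 7819580 0) (P.cons (P.lf 623031 0 0) (P.cons (P.lf 10652 0 0) P.nil))) (P.cons (P.cons (P.lf 0 692448 0) (P.cons (P.lf 134185 0 0) P.nil)) (P.cons (P.cons (P.lf 209767 0 0) P.nil) P.nil)))))) 88148)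
 EL.nil))
noncomputable def S169_198_401_438_15 : EL := (EL.cons 4 (TM.mk (P.cons (P.lf 0 1067088645 0) (P.cons (P.lf 349049136 0 0) (P.cons (P.lf 0 8043112 0) (P.cons (P.lf 0 3877937 0) (P.cons (P.lf 0 106451 0) (P.cons (P.lf 18886 0 0) P.nil)))))) 1845)
 (EL.cons 8 (TM.mk (P.cons (P.lf 0 904046202 0) (P.cons (P.lf 74614324 0 0) (P.cons (P.lf 25318286 0 0) (P.cons (P.lf 156499 0 0) (P.cons (P.lf 0 174949 0) (P.cons (P.lf 0 8365 0) P.nil)))))) 1031)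
 EL.nil))
noncomputable def S169_198_401_438_16 : EL := (EL.cons 4 (TM.mk (P.cons (P.cons (P.lf 0 292013389 0) (P.cons (P.lf 28531035 0 0) (P.cons (P.lf 619391 0 0) (P.lf 0 41291 0)))) (P.cons (P.cons (P.lf 0 8211655 0) (P.cons (P.lf 0 2398010 0) (P.cons (P.lf 0 52059 0) (P.lf 3470 0 0)))) (P.cons (P.cons (P.lf 49076402 0 0) (P.cons (P.lf 0 1932166 0) (P.cons (P.lf 0 41945 0) (P.lf 2795 0 0)))) (P.cons (P.cons (P.lf 0 5515115 0) (P.cons (P.lf 18759 0 0) (P.cons (P.lf 406 0 0) P.nil))) (P.cons (P.cons (P.lf 0 1074393 0) (P.cons (P.lf 53655 0 0) P.nil)) (P.cons (P.cons (P.lf 95039 0 0) P.nil) P.nil)))))) 34413)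
 (EL.cons 8 (TM.mk (P.cons (P.cons (P.lf 0 247396125 0) (P.cons (P.lf 24171725 0 0) (P.cons (P.lf 524753 0 0) (P.lf 0 34982 0)))) (P.cons (P.cons (P.lf 0 67462753 0) (P.cons (P.lf 3880074 0 0) (P.cons (P.lf 84233 0 0) (P.lf 0 5614 0)))) (P.cons (P.cons (P.lf 28877957 0 0) (P.cons (P.lf 0 1059216 0) (P.cons (P.lf 0 22994 0) (P.lf 1533 0 0)))) (P.cons (P.cons (P.lf 2987292 0 0) (P.cons (P.lf 0 259854 0) (P.cons (P.lf 0 5640 0) P.nil))) (P.cons (P.cons (P.lf 0 706345 0) (P.cons (P.lf 1491 0 0) P.nil)) (P.cons (P.cons (P.lf 0 80494 0) P.nil) P.nil)))))) 21636)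
 EL.nil))
noncomputable def S169_198_401_438_17 : EL := (EL.cons 4 (TM.mk (P.cons (P.cons (P.lf 0 79910717 0) (P.cons (P.lf 15615280 0 0) (P.cons (P.lf 0 423842 0) (P.cons (P.lf 0 55720 0) (P.cons (P.lf 1847 0 0) (P.cons (P.lf 46 0 0) P.nil)))))) (P.cons (P.cons (P.lf 0 30633437 0) (P.cons (P.lf 4234485 0 0) (P.cons (P.lf 0 29367 0) (P.cons (P.lf 0 11394 0) (P.cons (P.lf 293 0 0) P.nil))))) (P.cons (P.cons (P.lf 17378742 0 0) (P.cons (P.lf 0 2451317 0) (P.cons (P.lf 10788 0 0) (P.cons (P.lf 6326 0 0) P.nil)))) (P.cons (P.cons (P.lf 3942814 0 0) (P.cons (P.lf 0 394479 0) (P.cons (P.lf 6372 0 0) P.nil))) (P.cons (P.cons (P.lf 0 1651958 0) (P.cons (P.lf 112538 0 0) P.nil)) (P.cons (P.cons (P.lf 0 88824 0) P.nil) P.nil)))))) 124000)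
 (EL.cons 8 (TM.mk (P.cons (P.cons (P.lf 0 67701011 0) (P.cons (P.lf 13229392 0 0) (P.cons (P.lf 0 359083 0) (P.cons (P.lf 0 47206 0) (P.cons (P.lf 1566 0 0) (P.cons (P.lf 40 0 0) P.nil)))))) (P.cons (P.cons (P.lf 0 42510562 0) (P.cons (P.lf 6823008 0 0) (P.cons (P.lf 0 112701 0) (P.cons (P.lf 0 21198 0) (P.cons (P.lf 631 0 0) P.nil))))) (P.cons (P.cons (P.lf 5366314 0 0) (P.cons (P.lf 0 611242 0) (P.cons (P.lf 0 12907 0) (P.cons (P.lf 900 0 0) P.nil)))) (P.cons (P.cons (P.lf 5185549 0 0) (P.cons (P.lf 0 565007 0) (P.cons (P.lf 3335 0 0) P.nil))) (P.cons (P.cons (P.lf 0 279183 0) (P.cons (P.lf 0 23296 0) P.nil)) (P.cons (P.cons (P.lf 0 208356 0) P.nil) P.nil)))))) 87722)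
 EL.nil))
noncomputable def S169_198_401_438_18 : EL := (EL.cons 4 (TM.mk (P.cons (P.lf 549332354 0 0) (P.cons (P.lf 0 269533349 0) (P.cons (P.lf 28252205 0 0) (P.cons (P.lf 3180359 0 0) (P.cons (P.lf 0 331524 0) (P.cons (P.lf 0 44357 0) P.nil)))))) 4415)
 (EL.cons 8 (TM.mk (P.cons (P.lf 465398850 0 0) (P.cons (P.lf 0 114528063 0) (P.cons (P.lf 0 11222106 0) (P.cons (P.lf 2534590 0 0) (P.cons (P.lf 239457 0 0) (P.cons (P.lf 0 14216 0) P.nil)))))) 3029)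
 EL.nil))
noncomputable def S169_198_401_438_19 : EL := (EL.cons 4 (TM.mk (P.cons (P.cons (P.lf 150327157 0 0) (P.cons (P.lf 0 14687645 0) (P.cons (P.lf 0 318859 0) (P.lf 21255 0 0)))) (P.cons (P.cons (P.lf 0 20358996 0) (P.cons (P.lf 3636679 0 0) (P.cons (P.lf 78949 0 0) (P.lf 0 5263 0)))) (P.cons (P.cons (P.lf 0 27399726 0) (P.cons (P.lf 933855 0 0) (P.cons (P.lf 20272 0 0) (P.lf 0 1350 0)))) (P.cons (P.cons (P.lf 6967559 0 0) (P.cons (P.lf 0 187808 0) (P.cons (P.lf 0 4077 0) P.nil))) (P.cons (P.cons (P.lf 339080 0 0) (P.cons (P.lf 0 35939 0) P.nil)) (P.cons (P.cons (P.lf 0 172580 0) P.nil) P.nil)))))) 44256)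
 (EL.cons 8 (TM.mk (P.cons (P.cons (P.lf 127358393 0 0) (P.cons (P.lf 0 12443493 0) (P.cons (P.lf 0 270140 0) (P.lf 18008 0 0)))) (P.cons (P.cons (P.lf 13899786 0 0) (P.cons (P.lf 37714 0 0) (P.cons (P.lf 818 0 0) (P.lf 0 54 0)))) (P.cons (P.cons (P.lf 0 21769720 0) (P.cons (P.lf 991497 0 0) (P.cons (P.lf 21524 0 0) (P.lf 0 1434 0)))) (P.cons (P.cons (P.lf 591280 0 0) (P.cons (P.lf 60716 0 0) (P.cons (P.lf 1318 0 0) P.nil))) (P.cons (P.cons (P.lf 772088 0 0) (P.cons (P.lf 0 28922 0) P.nil)) (P.cons (P.cons (P.lf 0 5300 0) P.nil) P.nil)))))) 26571)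
 EL.nil))
noncomputable def S169_198_401_438_20 : EL := (EL.cons 4 (TM.mk (P.cons (P.cons (P.lf 41137671 0 0) (P.cons (P.lf 0 8038674 0) (P.cons (P.lf 218191 0 0) (P.cons (P.lf 28684 0 0) (P.cons (P.lf 0 951 0) (P.cons (P.lf 0 24 0) P.nil)))))) (P.cons (P.cons (P.lf 9041801 0 0) (P.cons (P.lf 0 865151 0) (P.cons (P.lf 0 20566 0) (P.cons (P.lf 1173 0 0) (P.cons (P.lf 3 0 0) P.nil))))) (P.cons (P.cons (P.lf 0 11920870 0) (P.cons (P.lf 1695672 0 0) (P.cons (P.lf 0 10122 0) (P.cons (P.lf 0 4491 0) P.nil)))) (P.cons (P.cons (P.lf 0 707890 0) (P.cons (P.lf 15647 0 0) (P.cons (P.lf 0 2462 0) P.nil))) (P.cons (P.cons (P.lf 1274017 0 0) (P.cons (P.lf 0 104159 0) P.nil)) (P.cons (P.cons (P.lf 0 75341 0) P.nil) P.nil)))))) 108892)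
 (EL.cons 8 (TM.mk (P.cons (P.cons (P.lf 34852171 0 0) (P.cons (P.lf 0 6810430 0) (P.cons (P.lf 184854 0 0) (P.cons (P.lf 24301 0 0) (P.cons (P.lf 0 805 0) (P.cons (P.lf 0 20 0) P.nil)))))) (P.cons (P.cons (P.lf 16184098 0 0) (P.cons (P.lf 0 2398593 0) (P.cons (P.lf 27784 0 0) (P.cons (P.lf 6938 0 0) (P.cons (P.lf 0 193 0) P.nil))))) (P.cons (P.cons (P.lf 0 6676554 0) (P.cons (P.lf 954554 0 0) (P.cons (P.lf 0 4619 0) (P.cons (P.lf 0 2481 0) P.nil)))) (P.cons (P.cons (P.lf 0 2419320 0) (P.cons (P.lf 271463 0 0) (P.cons (P.lf 0 3315 0) P.nil))) (P.cons (P.cons (P.lf 613777 0 0) (P.cons (P.lf 0 39764 0) P.nil)) (P.cons (P.cons (P.lf 109705 0 0) P.nil) P.nil)))))) 73416)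
 EL.nil))
noncomputable def S169_198_401_438_21 : EL := (EL.cons 4 (TM.mk (P.cons (P.cons (P.lf 0 2487071682 0) (P.cons (P.lf 166266249 0 0) (P.cons (P.lf 3609540 0 0) (P.lf 0 240624 0)))) (P.cons (P.cons (P.lf 720972870 0 0) (P.cons (P.lf 13218642 0 0) (P.cons (P.lf 286965 0 0) (P.lf 0 19125 0)))) (P.cons (P.cons (P.lf 192173070 0 0) (P.cons (P.lf 0 7500735 0) (P.cons (P.lf 0 162834 0) (P.lf 10854 0 0)))) (P.cons (P.cons (P.lf 0 11111355 0) (P.cons (P.lf 0 1031358 0) (P.cons (P.lf 0 22383 0) P.nil))) (P.cons (P.cons (P.lf 0 4262145 0) (P.cons (P.lf 61389 0 0) P.nil)) (P.cons (P.cons (P.lf 0 66984 0) P.nil) P.nil)))))) 92667)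
 (EL.cons 8 (TM.mk (P.cons (P.cons (P.lf 1043772012 0 0) (P.cons (P.lf 0 69778473 0) (P.cons (P.lf 0 1514859 0) (P.lf 100995 0 0)))) (P.cons (P.cons (P.lf 0 557852985 0) (P.cons (P.lf 11518152 0 0) (P.cons (P.lf 250050 0 0) (P.lf 0 16665 0)))) (P.cons (P.cons (P.lf 9380298 0 0) (P.cons (P.lf 3433044 0 0) (P.cons (P.lf 74526 0 0) (P.lf 0 4965 0)))) (P.cons (P.cons (P.lf 17888937 0 0) (P.cons (P.lf 0 298410 0) (P.cons (P.lf 0 6474 0) P.nil))) (P.cons (P.cons (P.lf 100584 0 0) (P.cons (P.lf 0 83724 0) P.nil)) (P.cons (P.cons (P.lf 0 254367 0) P.nil) P.nil)))))) 55056)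
 (EL.cons 11 (TM.mk (P.cons (P.cons (P.lf 1911494295 0 0) (P.cons (P.lf 95680080 0 0) (P.cons (P.lf 0 9017235 0) (P.cons (P.lf 0 110154 0) (P.lf 5505 0 0))))) (P.cons (P.cons (P.lf 309732147 0 0) (P.cons (P.lf 15503679 0 0) (P.cons (P.lf 0 1461120 0) (P.cons (P.lf 0 17847 0) (P.lf 891 0 0))))) (P.cons (P.cons (P.lf 0 7137126 0) (P.cons (P.lf 0 357249 0) (P.cons (P.lf 33666 0 0) (P.cons (P.lf 411 0 0) P.nil)))) (P.cons (P.cons (P.lf 0 3441126 0) (P.cons (P.lf 0 172245 0) (P.cons (P.lf 16233 0 0) P.nil))) (P.cons (P.cons (P.lf 0 94461 0) (P.cons (P.lf 0 4728 0) P.nil)) (P.cons (P.cons (P.lf 16755 0 0) P.nil) P.nil)))))) 3336)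
 EL.nil)))
noncomputable def S169_198_401_438_22 : EL := (EL.cons 4 (TM.mk (P.cons (P.cons (P.lf 0 680597844 0) (P.cons (P.lf 111996975 0 0) (P.cons (P.lf 0 2014116 0) (P.cons (P.lf 0 355104 0) (P.cons (P.lf 10770 0 0) (P.cons (P.lf 279 0 0) P.nil)))))) (P.cons (P.cons (P.lf 0 44468034 0) (P.cons (P.lf 16665588 0 0) (P.cons (P.lf 0 1072131 0) (P.cons (P.lf 0 86373 0) (P.cons (P.lf 3474 0 0) P.nil))))) (P.cons (P.cons (P.lf 163104180 0 0) (P.cons (P.lf 0 13011705 0) (P.cons (P.lf 0 186702 0) (P.cons (P.lf 22989 0 0) P.nil)))) (P.cons (P.cons (P.lf 8586447 0 0) (P.cons (P.lf 0 2799249 0) (P.cons (P.lf 29256 0 0) P.nil))) (P.cons (P.cons (P.lf 0 7059144 0) (P.cons (P.lf 249579 0 0) P.nil)) (P.cons (P.cons (P.lf 0 573612 0) P.nil) P.nil)))))) 349500)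
 (EL.cons 8 (TM.mk (P.cons (P.cons (P.lf 285632691 0 0) (P.cons (P.lf 0 47002788 0) (P.cons (P.lf 845280 0 0) (P.cons (P.lf 149031 0 0) (P.cons (P.lf 0 4521 0) (P.cons (P.lf 0 117 0) P.nil)))))) (P.cons (P.cons (P.lf 0 51194997 0) (P.cons (P.lf 4501287 0 0) (P.cons (P.lf 243219 0 0) (P.cons (P.lf 0 195 0) (P.cons (P.lf 0 351 0) P.nil))))) (P.cons (P.cons (P.lf 0 68629017 0) (P.cons (P.lf 6449460 0 0) (P.cons (P.lf 0 18708 0) (P.cons (P.lf 0 16224 0) P.nil)))) (P.cons (P.cons (P.lf 12917370 0 0) (P.cons (P.lf 0 184752 0) (P.cons (P.lf 0 26028 0) P.nil))) (P.cons (P.cons (P.lf 2801670 0 0) (P.cons (P.lf 0 302718 0) P.nil)) (P.cons (P.cons (P.lf 0 419073 0) P.nil) P.nil)))))) 173736)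
 (EL.cons 11 (TM.mk (P.cons (P.cons (P.lf 523088622 0 0) (P.cons (P.lf 0 24924870 0) (P.cons (P.lf 0 6135354 0) (P.cons (P.lf 229380 0 0) (P.cons (P.lf 13386 0 0) (P.cons (P.lf 0 432 0) P.nil)))))) (P.cons (P.cons (P.lf 270573678 0 0) (P.cons (P.lf 0 7159878 0) (P.cons (P.lf 0 2762172 0) (P.cons (P.lf 89538 0 0) (P.cons (P.lf 5592 0 0) P.nil))))) (P.cons (P.cons (P.lf 0 2917974 0) (P.cons (P.lf 0 2185032 0) (P.cons (P.lf 0 132561 0) (P.cons (P.lf 10521 0 0) P.nil)))) (P.cons (P.cons (P.lf 0 10257033 0) (P.cons (P.lf 0 235395 0) (P.cons (P.lf 68334 0 0) P.nil))) (P.cons (P.cons (P.lf 0 567300 0) (P.cons (P.lf 38559 0 0) P.nil)) (P.cons (P.cons (P.lf 151452 0 0) P.nil) P.nil)))))) 58842)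
 EL.nil)))
noncomputable def S169_198_401_438_23 : EL := (EL.cons 4 (TM.mk (P.cons (P.cons (P.lf 1280333127 0 0) (P.cons (P.lf 0 85593102 0) (P.cons (P.lf 0 1858173 0) (P.lf 123870 0 0)))) (P.cons (P.cons (P.lf 0 580554684 0) (P.cons (P.lf 7194033 0 0) (P.cons (P.lf 156180 0 0) (P.lf 0 10413 0)))) (P.cons (P.cons (P.lf 0 50525664 0) (P.cons (P.lf 5796498 0 0) (P.cons (P.lf 125835 0 0) (P.lf 0 8385 0)))) (P.cons (P.cons (P.lf 25780479 0 0) (P.cons (P.lf 0 56280 0) (P.cons (P.lf 0 1224 0) P.nil))) (P.cons (P.cons (P.lf 2173914 0 0) (P.cons (P.lf 0 160968 0) P.nil)) (P.cons (P.cons (P.lf 0 419073 0) P.nil) P.nil)))))) 106785)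
 (EL.cons 8 (TM.mk (P.cons (P.cons (P.lf 0 537329058 0) (P.cons (P.lf 35921637 0 0) (P.cons (P.lf 779841 0 0) (P.lf 0 51990 0)))) (P.cons (P.cons (P.lf 375061449 0 0) (P.cons (P.lf 0 11804550 0) (P.cons (P.lf 0 256269 0) (P.lf 17082 0 0)))) (P.cons (P.cons (P.lf 0 46636305 0) (P.cons (P.lf 0 1142595 0) (P.cons (P.lf 0 24801 0) (P.lf 1650 0 0)))) (P.cons (P.cons (P.lf 0 11310171 0) (P.cons (P.lf 508461 0 0) (P.cons (P.lf 11034 0 0) P.nil))) (P.cons (P.cons (P.lf 1547796 0 0) (P.cons (P.lf 35073 0 0) P.nil)) (P.cons (P.cons (P.lf 238938 0 0) P.nil) P.nil)))))) 71211)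
 (EL.cons 11 (TM.mk (P.cons (P.cons (P.lf 0 984028521 0) (P.cons (P.lf 0 49255665 0) (P.cons (P.lf 4642029 0 0) (P.cons (P.lf 56706 0 0) (P.lf 0 2832 0))))) (P.cons (P.cons (P.lf 1491219 0 0) (P.cons (P.lf 74643 0 0) (P.cons (P.lf 0 7035 0) (P.cons (P.lf 0 84 0) (P.lf 3 0 0))))) (P.cons (P.cons (P.lf 39204825 0 0) (P.cons (P.lf 1962399 0 0) (P.cons (P.lf 0 184941 0) (P.cons (P.lf 0 2256 0) P.nil)))) (P.cons (P.cons (P.lf 2460144 0 0) (P.cons (P.lf 123141 0 0) (P.cons (P.lf 0 11604 0) P.nil))) (P.cons (P.cons (P.lf 0 358890 0) (P.cons (P.lf 0 17964 0) P.nil)) (P.cons (P.cons (P.lf 0 40395 0) P.nil) P.nil)))))) 9171)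
 EL.nil)))
noncomputable def S169_198_401_438_24 : EL := (EL.cons 4 (TM.mk (P.cons (P.cons (P.lf 350368656 0 0) (P.cons (P.lf 0 57655530 0) (P.cons (P.lf 1036857 0 0) (P.cons (P.lf 182805 0 0) (P.cons (P.lf 0 5544 0) (P.cons (P.lf 0 141 0) P.nil)))))) (P.cons (P.cons (P.lf 0 34411581 0) (P.cons (P.lf 850311 0 0) (P.cons (P.lf 382347 0 0) (P.cons (P.lf 14565 0 0) (P.cons (P.lf 0 879 0) P.nil))))) (P.cons (P.cons (P.lf 0 91074924 0) (P.cons (P.lf 8655375 0 0) (P.cons (P.lf 0 4113 0) (P.cons (P.lf 0 20862 0) P.nil)))) (P.cons (P.cons (P.lf 9178722 0 0) (P.cons (P.lf 413736 0 0) (P.cons (P.lf 0 35826 0) P.nil))) (P.cons (P.cons (P.lf 5184561 0 0) (P.cons (P.lf 0 433155 0) P.nil)) (P.cons (P.cons (P.lf 0 275997 0) P.nil) P.nil)))))) 297792)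
 (EL.cons 8 (TM.mk (P.cons (P.cons (P.lf 0 147042402 0) (P.cons (P.lf 24196821 0 0) (P.cons (P.lf 0 435144 0) (P.cons (P.lf 0 76719 0) (P.cons (P.lf 2325 0 0) (P.cons (P.lf 60 0 0) P.nil)))))) (P.cons (P.cons (P.lf 50404041 0 0) (P.cons (P.lf 0 6274683 0) (P.cons (P.lf 0 54039 0) (P.cons (P.lf 12648 0 0) (P.cons (P.lf 0 198 0) P.nil))))) (P.cons (P.cons (P.lf 32431974 0 0) (P.cons (P.lf 0 3173595 0) (P.cons (P.lf 34287 0 0) (P.cons (P.lf 9072 0 0) P.nil)))) (P.cons (P.cons (P.lf 0 12717417 0) (P.cons (P.lf 666339 0 0) (P.cons (P.lf 12918 0 0) P.nil))) (P.cons (P.cons (P.lf 0 694056 0) (P.cons (P.lf 172668 0 0) P.nil)) (P.cons (P.cons (P.lf 525249 0 0) P.nil) P.nil)))))) 101298)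
 (EL.cons 11 (TM.mk (P.cons (P.cons (P.lf 0 269283630 0) (P.cons (P.lf 12831207 0 0) (P.cons (P.lf 3158451 0 0) (P.cons (P.lf 0 118083 0) (P.cons (P.lf 0 6891 0) (P.cons (P.lf 222 0 0) P.nil)))))) (P.cons (P.cons (P.lf 0 95248191 0) (P.cons (P.lf 1587300 0 0) (P.cons (P.lf 905379 0 0) (P.cons (P.lf 0 26778 0) (P.cons (P.lf 0 1749 0) P.nil))))) (P.cons (P.cons (P.lf 26870061 0 0) (P.cons (P.lf 398757 0 0) (P.cons (P.lf 0 194661 0) (P.cons (P.lf 3255 0 0) P.nil)))) (P.cons (P.cons (P.lf 6306360 0 0) (P.cons (P.lf 0 95037 0) (P.cons (P.lf 0 59220 0) P.nil))) (P.cons (P.cons (P.lf 0 632091 0) (P.cons (P.lf 0 49002 0) P.nil)) (P.cons (P.cons (P.lf 0 182397 0) P.nil) P.nil)))))) 54339)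
 EL.nil)))
noncomputable def S169_198_401_438_25 : EL := (EL.cons 4 (TM.mk (P.cons (P.cons (P.lf 0 659109639 0) (P.cons (P.lf 44062938 0 0) (P.cons (P.lf 956577 0 0) (P.lf 0 63768 0)))) (P.cons (P.cons (P.lf 406665648 0 0) (P.cons (P.lf 0 10910040 0) (P.cons (P.lf 0 236850 0) (P.lf 15789 0 0)))) (P.cons (P.cons (P.lf 0 16538562 0) (P.cons (P.lf 0 2801568 0) (P.cons (P.lf 0 60819 0) (P.lf 4053 0 0)))) (P.cons (P.cons (P.lf 0 20558754 0) (P.cons (P.lf 563427 0 0) (P.cons (P.lf 12231 0 0) P.nil))) (P.cons (P.cons (P.lf 846168 0 0) (P.cons (P.lf 107817 0 0) P.nil)) (P.cons (P.cons (P.lf 545334 0 0) P.nil) P.nil)))))) 95142)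
 (EL.cons 8 (TM.mk (P.cons (P.cons (P.lf 276614541 0 0) (P.cons (P.lf 0 18492294 0) (P.cons (P.lf 0 401457 0) (P.lf 26763 0 0)))) (P.cons (P.cons (P.lf 0 238320801 0) (P.cons (P.lf 9101382 0 0) (P.cons (P.lf 197583 0 0) (P.lf 0 13170 0)))) (P.cons (P.cons (P.lf 52929639 0 0) (P.cons (P.lf 0 228054 0) (P.cons (P.lf 0 4950 0) (P.lf 330 0 0)))) (P.cons (P.cons (P.lf 3818595 0 0) (P.cons (P.lf 0 420879 0) (P.cons (P.lf 0 9135 0) P.nil))) (P.cons (P.cons (P.lf 0 2015019 0) (P.cons (P.lf 19785 0 0) P.nil)) (P.cons (P.cons (P.lf 0 51006 0) P.nil) P.nil)))))) 78369)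
 (EL.cons 11 (TM.mk (P.cons (P.cons (P.lf 506573382 0 0) (P.cons (P.lf 25356591 0 0) (P.cons (P.lf 0 2389695 0) (P.cons (P.lf 0 29190 0) (P.lf 1458 0 0))))) (P.cons (P.cons (P.lf 0 83618802 0) (P.cons (P.lf 0 4185549 0) (P.cons (P.lf 394461 0 0) (P.cons (P.lf 4818 0 0) (P.lf 0 240 0))))) (P.cons (P.cons (P.lf 0 24923016 0) (P.cons (P.lf 0 1247523 0) (P.cons (P.lf 117570 0 0) (P.cons (P.lf 1434 0 0) P.nil)))) (P.cons (P.cons (P.lf 2166402 0 0) (P.cons (P.lf 108438 0 0) (P.cons (P.lf 0 10218 0) P.nil))) (P.cons (P.cons (P.lf 607848 0 0) (P.cons (P.lf 30423 0 0) P.nil)) (P.cons (P.cons (P.lf 0 1896 0) P.nil) P.nil)))))) 15012)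
 EL.nil)))
noncomputable def S169_198_401_438_26 : EL := (EL.cons 4 (TM.mk (P.cons (P.cons (P.lf 0 180368181 0) (P.cons (P.lf 29680803 0 0) (P.cons (P.lf 0 533769 0) (P.cons (P.lf 0 94107 0) (P.cons (P.lf 2853 0 0) (P.cons (P.lf 72 0 0) P.nil)))))) (P.cons (P.cons (P.lf 47214516 0 0) (P.cons (P.lf 0 5292093 0) (P.cons (P.lf 0 109530 0) (P.cons (P.lf 7890 0 0) (P.cons (P.lf 0 12 0) P.nil))))) (P.cons (P.cons (P.lf 45720243 0 0) (P.cons (P.lf 0 4669266 0) (P.cons (P.lf 39438 0 0) (P.cons (P.lf 12870 0 0) P.nil)))) (P.cons (P.cons (P.lf 0 12607833 0) (P.cons (P.lf 527262 0 0) (P.cons (P.lf 19854 0 0) P.nil))) (P.cons (P.cons (P.lf 0 2350125 0) (P.cons (P.lf 301821 0 0) P.nil)) (P.cons (P.cons (P.lf 636174 0 0) P.nil) P.nil)))))) 269052)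
 (EL.cons 8 (TM.mk (P.cons (P.cons (P.lf 75696756 0 0) (P.cons (P.lf 0 12456411 0) (P.cons (P.lf 224010 0 0) (P.cons (P.lf 39495 0 0) (P.cons (P.lf 0 1197 0) (P.cons (P.lf 0 30 0) P.nil)))))) (P.cons (P.cons (P.lf 0 38328132 0) (P.cons (P.lf 5267448 0 0) (P.cons (P.lf 0 8817 0) (P.cons (P.lf 0 12969 0) (P.cons (P.lf 297 0 0) P.nil))))) (P.cons (P.cons (P.lf 0 13179156 0) (P.cons (P.lf 1225104 0 0) (P.cons (P.lf 0 24351 0) (P.cons (P.lf 0 3984 0) P.nil)))) (P.cons (P.cons (P.lf 9545379 0 0) (P.cons (P.lf 0 644325 0) (P.cons (P.lf 0 3975 0) P.nil))) (P.cons (P.cons (P.lf 0 556131 0) (P.cons (P.lf 0 48231 0) P.nil)) (P.cons (P.cons (P.lf 0 396915 0) P.nil) P.nil)))))) 114342)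
 (EL.cons 11 (TM.mk (P.cons (P.cons (P.lf 138625980 0 0) (P.cons (P.lf 0 6605445 0) (P.cons (P.lf 0 1625955 0) (P.cons (P.lf 60789 0 0) (P.cons (P.lf 3546 0 0) (P.cons (P.lf 0 114 0) P.nil)))))) (P.cons (P.cons (P.lf 26360766 0 0) (P.cons (P.lf 263196 0 0) (P.cons (P.lf 0 200157 0) (P.cons (P.lf 3843 0 0) (P.cons (P.lf 321 0 0) P.nil))))) (P.cons (P.cons (P.lf 0 23183718 0) (P.cons (P.lf 0 8181 0) (P.cons (P.lf 192057 0 0) (P.cons (P.lf 0 4512 0) P.nil)))) (P.cons (P.cons (P.lf 0 1421046 0) (P.cons (P.lf 88722 0 0) (P.cons (P.lf 18174 0 0) P.nil))) (P.cons (P.cons (P.lf 1007400 0 0) (P.cons (P.lf 18705 0 0) P.nil)) (P.cons (P.cons (P.lf 70716 0 0) P.nil) P.nil)))))) 63558)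
 EL.nil)))
noncomputable def S169_198_401_438_27 : EL := (EL.cons 13 (TM.mk (P.lf 0 4294967296 0) 0)
 EL.nil)
noncomputable def S169_198_401_438_28 : EL := (EL.cons 13 (TM.mk (P.cons (P.cons (P.lf 0 1175336246 0) (P.cons (P.lf 114835692 0 0) (P.cons (P.lf 2493016 0 0) (P.lf 0 166196 0)))) (P.cons (P.cons (P.lf 0 417508795 0) (P.cons (P.lf 27911384 0 0) (P.cons (P.lf 605940 0 0) (P.lf 0 40392 0)))) (P.cons (P.cons (P.lf 69819715 0 0) (P.cons (P.lf 487508 0 0) (P.cons (P.lf 10584 0 0) (P.lf 0 704 0)))) (P.cons (P.cons (P.lf 8058580 0 0) (P.cons (P.lf 0 392736 0) (P.cons (P.lf 0 8524 0) P.nil))) (P.cons (P.cons (P.lf 0 580109 0) (P.cons (P.lf 0 29064 0) P.nil)) (P.cons (P.cons (P.lf 0 100854 0) P.nil) P.nil)))))) 15269)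
 EL.nil)
noncomputable def S169_198_401_438_29 : EL := (EL.cons 13 (TM.mk (P.cons (P.cons (P.lf 0 321635811 0) (P.cons (P.lf 62850560 0 0) (P.cons (P.lf 0 1705943 0) (P.cons (P.lf 0 224273 0) (P.cons (P.lf 7440 0 0) (P.cons (P.lf 192 0 0) P.nil)))))) (P.cons (P.cons (P.lf 0 228506149 0) (P.cons (P.lf 37602229 0 0) (P.cons (P.lf 0 676225 0) (P.cons (P.lf 0 119223 0) (P.cons (P.lf 3616 0 0) P.nil))))) (P.cons (P.cons (P.lf 0 2372616 0) (P.cons (P.lf 1959707 0 0) (P.cons (P.lf 0 164910 0) (P.cons (P.lf 0 11842 0) P.nil)))) (P.cons (P.cons (P.lf 17984717 0 0) (P.cons (P.lf 0 1458560 0) (P.cons (P.lf 0 16998 0) P.nil))) (P.cons (P.cons (P.lf 114230 0 0) (P.cons (P.lf 0 181830 0) P.nil)) (P.cons (P.cons (P.lf 0 429984 0) P.nil) P.nil)))))) 127298)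
 EL.nil)
noncomputable def S169_198_401_438_30 : EL := (EL.cons 13 (TM.mk (P.cons (P.lf 2211029524 0 0) (P.cons (P.lf 0 361618480 0) (P.cons (P.lf 0 21238980 0) (P.cons (P.lf 543904 0 0) (P.cons (P.lf 97232 0 0) (P.cons (P.lf 1560 0 0) P.nil)))))) 512)
 EL.nil)
noncomputable def S169_198_401_438_31 : EL := (EL.cons 13 (TM.mk (P.cons (P.cons (P.lf 605057724 0 0) (P.cons (P.lf 0 59116889 0) (P.cons (P.lf 0 1283393 0) (P.lf 85556 0 0)))) (P.cons (P.cons (P.lf 115973168 0 0) (P.cons (P.lf 0 4699962 0) (P.cons (P.lf 0 102033 0) (P.lf 6800 0 0)))) (P.cons (P.cons (P.lf 0 76907521 0) (P.cons (P.lf 2666928 0 0) (P.cons (P.lf 57897 0 0) (P.lf 0 3860 0)))) (P.cons (P.cons (P.lf 0 185763 0) (P.cons (P.lf 366706 0 0) (P.cons (P.lf 7959 0 0) P.nil))) (P.cons (P.cons (P.lf 1401881 0 0) (P.cons (P.lf 0 21828 0) P.nil)) (P.cons (P.cons (P.lf 43963 0 0) P.nil) P.nil)))))) 30993)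
 EL.nil)
noncomputable def S169_198_401_438_32 : EL := (EL.cons 13 (TM.mk (P.cons (P.cons (P.lf 165576644 0 0) (P.cons (P.lf 0 32355180 0) (P.cons (P.lf 878211 0 0) (P.cons (P.lf 115454 0 0) (P.cons (P.lf 0 3830 0) (P.cons (P.lf 0 98 0) P.nil)))))) (P.cons (P.cons (P.lf 90553515 0 0) (P.cons (P.lf 0 14065698 0) (P.cons (P.lf 204484 0 0) (P.cons (P.lf 42492 0 0) (P.cons (P.lf 0 1235 0) P.nil))))) (P.cons (P.cons (P.lf 0 19608377 0) (P.cons (P.lf 2467905 0 0) (P.cons (P.lf 19523 0 0) (P.cons (P.lf 0 5050 0) P.nil)))) (P.cons (P.cons (P.lf 0 10547465 0) (P.cons (P.lf 1093846 0 0) (P.cons (P.lf 0 8262 0) P.nil))) (P.cons (P.cons (P.lf 1479919 0 0) (P.cons (P.lf 0 25693 0) P.nil)) (P.cons (P.cons (P.lf 325497 0 0) P.nil) P.nil)))))) 148228)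
 EL.nil)
noncomputable def S169_198_401_438_33 : EL := (EL.cons 14 (TM.mk (P.lf 8589934592 0 0) 0)
 EL.nil)
noncomputable def S169_198_401_438_34 : EL := (EL.cons 14 (TM.mk (P.cons (P.cons (P.lf 2350672492 0 0) (P.cons (P.lf 0 229671384 0) (P.cons (P.lf 0 4986032 0) (P.lf 332392 0 0)))) (P.cons (P.cons (P.lf 835017590 0 0) (P.cons (P.lf 0 55822768 0) (P.cons (P.lf 0 1211880 0) (P.lf 80784 0 0)))) (P.cons (P.cons (P.lf 0 139639430 0) (P.cons (P.lf 0 975016 0) (P.cons (P.lf 0 21168 0) (P.lf 1408 0 0)))) (P.cons (P.cons (P.lf 0 16117160 0) (P.cons (P.lf 785472 0 0) (P.cons (P.lf 17048 0 0) P.nil))) (P.cons (P.cons (P.lf 1160218 0 0) (P.cons (P.lf 58128 0 0) P.nil)) (P.cons (P.cons (P.lf 201708 0 0) P.nil) P.nil)))))) 30538)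
 EL.nil)
noncomputable def S169_198_401_438_35 : EL := (EL.cons 14 (TM.mk (P.cons (P.cons (P.lf 643271622 0 0) (P.cons (P.lf 0 125701120 0) (P.cons (P.lf 3411886 0 0) (P.cons (P.lf 448546 0 0) (P.cons (P.lf 0 14880 0) (P.cons (P.lf 0 384 0) P.nil)))))) (P.cons (P.cons (P.lf 457012298 0 0) (P.cons (P.lf 0 75204458 0) (P.cons (P.lf 1352450 0 0) (P.cons (P.lf 238446 0 0) (P.cons (P.lf 0 7232 0) P.nil))))) (P.cons (P.cons (P.lf 4745232 0 0) (P.cons (P.lf 0 3919414 0) (P.cons (P.lf 329820 0 0) (P.cons (P.lf 23684 0 0) P.nil)))) (P.cons (P.cons (P.lf 0 35969434 0) (P.cons (P.lf 2917120 0 0) (P.cons (P.lf 33996 0 0) P.nil))) (P.cons (P.cons (P.lf 0 228460 0) (P.cons (P.lf 363660 0 0) P.nil)) (P.cons (P.cons (P.lf 859968 0 0) P.nil) P.nil)))))) 254596)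
 EL.nil)
noncomputable def S169_198_401_438_36 : EL := (EL.cons 14 (TM.mk (P.cons (P.lf 0 4422059048 0) (P.cons (P.lf 723236960 0 0) (P.cons (P.lf 42477960 0 0) (P.cons (P.lf 0 1087808 0) (P.cons (P.lf 0 194464 0) (P.cons (P.lf 0 3120 0) P.nil)))))) 1024)
 EL.nil)
noncomputable def S169_198_401_438_37 : EL := (EL.cons 14 (TM.mk (P.cons (P.cons (P.lf 0 1210115448 0) (P.cons (P.lf 118233778 0 0) (P.cons (P.lf 2566786 0 0) (P.lf 0 171112 0)))) (P.cons (P.cons (P.lf 0 231946336 0) (P.cons (P.lf 9399924 0 0) (P.cons (P.lf 204066 0 0) (P.lf 0 13600 0)))) (P.cons (P.cons (P.lf 153815042 0 0) (P.cons (P.lf 0 5333856 0) (P.cons (P.lf 0 115794 0) (P.lf 7720 0 0)))) (P.cons (P.cons (P.lf 371526 0 0) (P.cons (P.lf 0 733412 0) (P.cons (P.lf 0 15918 0) P.nil))) (P.cons (P.cons (P.lf 0 2803762 0) (P.cons (P.lf 43656 0 0) P.nil)) (P.cons (P.cons (P.lf 0 87926 0) P.nil) P.nil))))))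 61986)
 EL.nil)
noncomputable def S169_198_401_438_38 : EL := (EL.cons 14 (TM.mk (P.cons (P.cons (P.lf 0 331153288 0) (P.cons (P.lf 64710360 0 0) (P.cons (P.lf 0 1756422 0) (P.cons (P.lf 0 230908 0) (P.cons (P.lf 7660 0 0) (P.cons (P.lf 196 0 0) P.nil)))))) (P.cons (P.cons (P.lf 0 181107030 0) (P.cons (P.lf 28131396 0 0) (P.cons (P.lf 0 408968 0) (P.cons (P.lf 0 84984 0) (P.cons (P.lf 2470 0 0) P.nil))))) (P.cons (P.cons (P.lf 39216754 0 0) (P.cons (P.lf 0 4935810 0) (P.cons (P.lf 0 39046 0) (P.cons (P.lf 10100 0 0) P.nil)))) (P.cons (P.cons (P.lf 21094930 0 0) (P.cons (P.lf 0 2187692 0) (P.cons (P.lf 16524 0 0) P.nil))) (P.cons (P.cons (P.lf 0 2959838 0) (P.cons (P.lf 51386 0 0) P.nil)) (P.cons (P.cons (P.lf 0 650994 0) P.nil) P.nil)))))) 296456)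
 EL.nil)
noncomputable def S169_198_401_438_39 : EL := (EL.cons 14 (TM.mk (P.cons (P.lf 2276455776 0 0) (P.cons (P.lf 0 744638158 0) (P.cons (P.lf 17158640 0 0) (P.cons (P.lf 8272934 0 0) (P.cons (P.lf 227096 0 0) (P.cons (P.lf 0 40292 0) P.nil)))))) 3922)
 EL.nil)
noncomputable def S169_198_401_438_40 : EL := (EL.cons 14 (TM.mk (P.cons (P.cons (P.lf 622961898 0 0) (P.cons (P.lf 0 60866208 0) (P.cons (P.lf 0 1321368 0) (P.lf 88088 0 0)))) (P.cons (P.cons (P.lf 17518198 0 0) (P.cons (P.lf 5115756 0 0) (P.cons (P.lf 111060 0 0) (P.lf 0 7404 0)))) (P.cons (P.cons (P.lf 0 104696326 0) (P.cons (P.lf 4121956 0 0) (P.cons (P.lf 89484 0 0) (P.lf 0 5964 0)))) (P.cons (P.cons (P.lf 11765580 0 0) (P.cons (P.lf 0 40020 0) (P.cons (P.lf 0 868 0) P.nil))) (P.cons (P.cons (P.lf 2292040 0 0) (P.cons (P.lf 0 114466 0) P.nil)) (P.cons (P.cons (P.lf 0 202750 0) P.nil) P.nil)))))) 73374)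
 EL.nil)
noncomputable def S169_198_401_438_41 : EL := (EL.cons 14 (TM.mk (P.cons (P.cons (P.lf 170476198 0 0) (P.cons (P.lf 0 33312598 0) (P.cons (P.lf 904198 0 0) (P.cons (P.lf 118870 0 0) (P.cons (P.lf 0 3942 0) (P.cons (P.lf 0 100 0) P.nil)))))) (P.cons (P.cons (P.lf 65351334 0 0) (P.cons (P.lf 0 9033568 0) (P.cons (P.lf 62650 0 0) (P.cons (P.lf 24308 0 0) (P.cons (P.lf 0 626 0) P.nil))))) (P.cons (P.cons (P.lf 0 37074650 0) (P.cons (P.lf 5229478 0 0) (P.cons (P.lf 0 23016 0) (P.cons (P.lf 0 13496 0) P.nil)))) (P.cons (P.cons (P.lf 0 8411338 0) (P.cons (P.lf 841556 0 0) (P.cons (P.lf 0 13594 0) P.nil))) (P.cons (P.cons (P.lf 3524178 0 0) (P.cons (P.lf 0 240082 0) P.nil)) (P.cons (P.cons (P.lf 189492 0 0) P.nil) P.nil)))))) 264488)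
 EL.nil)
noncomputable def S169_198_401_438_42 : EL := (EL.cons 14 (TM.mk (P.cons (P.lf 0 1171909022 0) (P.cons (P.lf 575004478 0 0) (P.cons (P.lf 0 60271372 0) (P.cons (P.lf 0 6784766 0) (P.cons (P.lf 707252 0 0) (P.cons (P.lf 94630 0 0) P.nil)))))) 9404)
 EL.nil)
noncomputable def S169_198_401_438_43 : EL := (EL.cons 14 (TM.mk (P.cons (P.cons (P.lf 0 320697936 0) (P.cons (P.lf 31333644 0 0) (P.cons (P.lf 680234 0 0) (P.lf 0 45346 0)))) (P.cons (P.cons (P.lf 43432526 0 0) (P.cons (P.lf 0 7758250 0) (P.cons (P.lf 0 168426 0) (P.lf 11228 0 0)))) (P.cons (P.cons (P.lf 58452750 0 0) (P.cons (P.lf 0 1992226 0) (P.cons (P.lf 0 43248 0) (P.lf 2882 0 0)))) (P.cons (P.cons (P.lf 0 14864126 0) (P.cons (P.lf 400658 0 0) (P.cons (P.lf 8698 0 0) P.nil))) (P.cons (P.cons (P.lf 0 723372 0) (P.cons (P.lf 76670 0 0) P.nil)) (P.cons (P.cons (P.lf 368172 0 0) P.nil) P.nil)))))) 94374)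
 EL.nil)
noncomputable def S169_198_401_438_44 : EL := (EL.cons 14 (TM.mk (P.cons (P.cons (P.lf 0 87760366 0) (P.cons (P.lf 17149172 0 0) (P.cons (P.lf 0 465476 0) (P.cons (P.lf 0 61194 0) (P.cons (P.lf 2030 0 0) (P.cons (P.lf 52 0 0) P.nil)))))) (P.cons (P.cons (P.lf 0 19289176 0) (P.cons (P.lf 1845656 0 0) (P.cons (P.lf 43876 0 0) (P.cons (P.lf 0 2504 0) (P.cons (P.lf 0 8 0) P.nil))))) (P.cons (P.cons (P.lf 25431190 0 0) (P.cons (P.lf 0 3617434 0) (P.cons (P.lf 21594 0 0) (P.cons (P.lf 9582 0 0) P.nil)))) (P.cons (P.cons (P.lf 1510166 0 0) (P.cons (P.lf 0 33382 0) (P.cons (P.lf 5254 0 0) P.nil))) (P.cons (P.cons (P.lf 0 2717904 0) (P.cons (P.lf 222206 0 0) P.nil)) (P.cons (P.cons (P.lf 160728 0 0) P.nil) P.nil)))))) 232256)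
 EL.nil)
noncomputable def S169_198_401_438_45 : EL := (EL.cons 14 (TM.mk (P.cons (P.cons (P.lf 176034040 0 0) (P.cons (P.lf 0 51597976 0) (P.cons (P.lf 3921194 0 0) (P.cons (P.lf 129376 0 0) (P.cons (P.lf 0 22908 0) (P.cons (P.lf 164 0 0) P.nil)))))) (P.cons (P.cons (P.lf 187595066 0 0) (P.cons (P.lf 0 49198924 0) (P.cons (P.lf 3173388 0 0) (P.cons (P.lf 135640 0 0) (P.cons (P.lf 0 18074 0) P.nil))))) (P.cons (P.cons (P.lf 35267056 0 0) (P.cons (P.lf 0 9509526 0) (P.cons (P.lf 705234 0 0) (P.cons (P.lf 22154 0 0) P.nil)))) (P.cons (P.cons (P.lf 0 18018140 0) (P.cons (P.lf 2813502 0 0) (P.cons (P.lf 0 22146 0) P.nil))) (P.cons (P.cons (P.lf 0 4406804 0) (P.cons (P.lf 856392 0 0) P.nil)) (P.cons (P.cons (P.lf 865778 0 0) P.nil) P.nil)))))) 544932)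
 EL.nil)
noncomputable def S169_198_401_438_46 : EL := (EL.cons 15 (TM.mk (P.lf 4294967296 0 0) 0)
 EL.nil)
noncomputable def S169_198_401_438_47 : EL := (EL.cons 15 (TM.mk (P.cons (P.cons (P.lf 1175336246 0 0) (P.cons (P.lf 0 114835692 0) (P.cons (P.lf 0 2493016 0) (P.lf 166196 0 0)))) (P.cons (P.cons (P.lf 417508795 0 0) (P.cons (P.lf 0 27911384 0) (P.cons (P.lf 0 605940 0) (P.lf 40392 0 0)))) (P.cons (P.cons (P.lf 0 69819715 0) (P.cons (P.lf 0 487508 0) (P.cons (P.lf 0 10584 0) (P.lf 704 0 0)))) (P.cons (P.cons (P.lf 0 8058580 0) (P.cons (P.lf 392736 0 0) (P.cons (P.lf 8524 0 0) P.nil))) (P.cons (P.cons (P.lf 580109 0 0) (P.cons (P.lf 29064 0 0) P.nil)) (P.cons (P.cons (P.lf 100854 0 0) P.nil) P.nil)))))) 15269)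
 EL.nil)
noncomputable def S169_198_401_438_48 : EL := (EL.cons 15 (TM.mk (P.cons (P.cons (P.lf 321635811 0 0) (P.cons (P.lf 0 62850560 0) (P.cons (P.lf 1705943 0 0) (P.cons (P.lf 224273 0 0) (P.cons (P.lf 0 7440 0) (P.cons (P.lf 0 192 0) P.nil)))))) (P.cons (P.cons (P.lf 228506149 0 0) (P.cons (P.lf 0 37602229 0) (P.cons (P.lf 676225 0 0) (P.cons (P.lf 119223 0 0) (P.cons (P.lf 0 3616 0) P.nil))))) (P.cons (P.cons (P.lf 2372616 0 0) (P.cons (P.lf 0 1959707 0) (P.cons (P.lf 164910 0 0) (P.cons (P.lf 11842 0 0) P.nil)))) (P.cons (P.cons (P.lf 0 17984717 0) (P.cons (P.lf 1458560 0 0) (P.cons (P.lf 16998 0 0) P.nil))) (P.cons (P.cons (P.lf 0 114230 0) (P.cons (P.lf 181830 0 0) P.nil)) (P.cons (P.cons (P.lf 429984 0 0) P.nil) P.nil)))))) 127298)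
 EL.nil)
noncomputable def S169_198_401_438 : SL := (SL.cons S169_198_401_438_0 (SL.cons S169_198_401_438_1 (SL.cons S169_198_401_438_2 (SL.cons S169_198_401_438_3 (SL.cons S169_198_401_438_4 (SL.cons S169_198_401_438_5 (SL.cons S169_198_401_438_6 (SL.cons S169_198_401_438_7 (SL.cons S169_198_401_438_8 (SL.cons S169_198_401_438_9 (SL.cons S169_198_401_438_10 (SL.cons S169_198_401_438_11 (SL.cons S169_198_401_438_12 (SL.cons S169_198_401_438_13 (SL.cons S169_198_401_438_14 (SL.cons S169_198_401_438_15 (SL.cons S169_198_401_438_16 (SL.cons S169_198_401_438_17 (SL.cons S169_198_401_438_18 (SL.cons S169_198_401_438_19 (SL.cons S169_198_401_438_20 (SL.cons S169_198_401_438_21 (SL.cons S169_198_401_438_22 (SL.cons S169_198_401_438_23 (SL.cons S169_198_401_438_24 (SL.cons S169_198_401_438_25 (SL.cons S169_198_401_438_26 (SL.cons S169_198_401_438_27 (SL.cons S169_198_401_438_28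 (SL.cons S169_198_401_438_29 (SL.cons S169_198_401_438_30 (SL.cons S169_198_401_438_31 (SL.cons S169_198_401_438_32 (SL.cons S169_198_401_438_33 (SL.cons S169_198_401_438_34 (SL.cons S169_198_401_438_35 (SL.cons S169_198_401_438_36 (SL.cons S169_198_401_438_37 (SL.cons S169_198_401_438_38 (SL.cons S169_198_401_438_39 (SL.cons S169_198_401_438_40 (SL.cons S169_198_401_438_41 (SL.cons S169_198_401_438_42 (SL.cons S169_198_401_438_43 (SL.cons S169_198_401_438_44 (SL.cons S169_198_401_438_45 (SL.cons S169_198_401_438_46 (SL.cons S169_198_401_438_47 (SL.cons S169_198_401_438_48 SL.nil)))))))))))))))))))))))))))))))))))))))))))))))))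
noncomputable def S169_198_438_512_0 : EL := (EL.cons 0 (TM.mk (P.cons (P.lf 6454925654 0 0) (P.cons (P.lf 654467131 0 0) (P.cons (P.lf 0 15080835 0) (P.cons (P.lf 0 7271133 0) (P.cons (P.lf 0 199596 0) (P.cons (P.lf 35412 0 0) P.nil)))))) 3454)
 (EL.cons 1 (TM.mk (P.cons (P.lf 0 1695086628 0) (P.cons (P.lf 139901857 0 0) (P.cons (P.lf 47471786 0 0) (P.cons (P.lf 293435 0 0) (P.cons (P.lf 0 328029 0) (P.cons (P.lf 0 15684 0) P.nil)))))) 1940)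
 (EL.cons 5 (TM.mk (P.cons (P.lf 5006359730 0 0) (P.cons (P.lf 0 232699422 0) (P.cons (P.lf 5362070 0 0) (P.cons (P.lf 2585292 0 0) (P.cons (P.lf 70970 0 0) (P.cons (P.lf 0 12590 0) P.nil)))))) 1169)
 (EL.cons 9 (TM.mk (P.lf 6442450944 0 0) 2)
 EL.nil))))
noncomputable def S169_198_438_512_1 : EL := (EL.cons 0 (TM.mk (P.cons (P.cons (P.lf 0 672397829 0) (P.cons (P.lf 0 26406564 0) (P.cons (P.lf 0 420302 0) (P.lf 140100 0 0)))) (P.cons (P.cons (P.lf 1664906326 0 0) (P.cons (P.lf 0 159171738 0) (P.cons (P.lf 0 2533423 0) (P.lf 844472 0 0)))) (P.cons (P.cons (P.lf 528085 0 0) (P.cons (P.lf 0 33719708 0) (P.cons (P.lf 0 536683 0) (P.lf 178887 0 0)))) (P.cons (P.cons (P.lf 0 71660026 0) (P.cons (P.lf 1994449 0 0) (P.cons (P.lf 31742 0 0) P.nil))) (P.cons (P.cons (P.lf 0 3497701 0) (P.cons (P.lf 1003110 0 0) P.nil)) (P.cons (P.cons (P.lf 1215186 0 0) P.nil) P.nil)))))) 404493)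
 (EL.cons 1 (TM.mk (P.cons (P.cons (P.lf 0 725704259 0) (P.cons (P.lf 173777850 0 0) (P.cons (P.lf 2765901 0 0) (P.lf 0 921961 0)))) (P.cons (P.cons (P.lf 0 173373344 0) (P.cons (P.lf 63844092 0 0) (P.cons (P.lf 1016155 0 0) (P.lf 0 338712 0)))) (P.cons (P.cons (P.lf 193272622 0 0) (P.cons (P.lf 0 8497881 0) (P.cons (P.lf 0 135257 0) (P.lf 45083 0 0)))) (P.cons (P.cons (P.lf 11651431 0 0) (P.cons (P.lf 0 3698559 0) (P.cons (P.lf 0 58859 0) P.nil))) (P.cons (P.cons (P.lf 0 5516106 0) (P.cons (P.lf 0 56509 0) P.nil)) (P.cons (P.cons (P.lf 0 463987 0) P.nil) P.nil)))))) 245667)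
 (EL.cons 5 (TM.mk (P.cons (P.cons (P.lf 1620969793 0 0) (P.cons (P.lf 0 416652696 0) (P.cons (P.lf 0 6631578 0) (P.lf 2210522 0 0)))) (P.cons (P.cons (P.lf 0 31966533 0) (P.cons (P.lf 0 46957168 0) (P.cons (P.lf 0 747390 0) (P.lf 249136 0 0)))) (P.cons (P.cons (P.lf 0 121497110 0) (P.cons (P.lf 10180566 0 0) (P.cons (P.lf 162030 0 0) (P.lf 0 54006 0)))) (P.cons (P.cons (P.lf 13886848 0 0) (P.cons (P.lf 747928 0 0) (P.cons (P.lf 11912 0 0) P.nil))) (P.cons (P.cons (P.lf 2385791 0 0) (P.cons (P.lf 0 248814 0) P.nil)) (P.cons (P.cons (P.lf 0 271579 0) P.nil) P.nil)))))) 199334)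
 (EL.cons 9 (TM.mk (P.cons (P.cons (P.lf 1219319121 0 0) (P.cons (P.lf 0 375919140 0) (P.cons (P.lf 0 5983248 0) (P.lf 1994412 0 0)))) (P.cons (P.cons (P.lf 494117782 0 0) (P.cons (P.lf 0 91369020 0) (P.cons (P.lf 0 1454256 0) (P.lf 484752 0 0)))) (P.cons (P.cons (P.lf 0 107037658 0) (P.cons (P.lf 0 1595874 0) (P.cons (P.lf 0 25398 0) (P.lf 8466 0 0)))) (P.cons (P.cons (P.lf 0 10228464 0) (P.cons (P.lf 1285644 0 0) (P.cons (P.lf 20460 0 0) P.nil))) (P.cons (P.cons (P.lf 1007791 0 0) (P.cons (P.lf 95154 0 0) P.nil)) (P.cons (P.cons (P.lf 141591 0 0) P.nil) P.nil)))))) 34340)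
 (EL.cons 2 (TM.mk (P.cons (P.cons (P.lf 1020671074 0 0) (P.cons (P.lf 37834883 0 0) (P.cons (P.lf 0 18747320 0) (P.cons (P.lf 0 170116 0) (P.lf 42527 0 0))))) (P.cons (P.cons (P.lf 0 1546745 0) (P.cons (P.lf 0 57335 0) (P.cons (P.lf 28409 0 0) (P.cons (P.lf 258 0 0) (P.lf 0 64 0))))) (P.cons (P.cons (P.lf 0 40664708 0) (P.cons (P.lf 0 1507381 0) (P.cons (P.lf 746912 0 0) (P.cons (P.lf 6775 0 0) P.nil)))) (P.cons (P.cons (P.lf 0 2551750 0) (P.cons (P.lf 0 94587 0) (P.cons (P.lf 46867 0 0) P.nil))) (P.cons (P.cons (P.lf 372254 0 0) (P.cons (P.lf 13798 0 0) P.nil)) (P.cons (P.cons (P.lf 41900 0 0) P.nil) P.nil)))))) 18299)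
 (EL.cons 6 (TM.mk (P.cons (P.cons (P.lf 864720858 0 0) (P.cons (P.lf 32054022 0 0) (P.cons (P.lf 0 15882882 0) (P.cons (P.lf 0 144126 0) (P.lf 36030 0 0))))) (P.cons (P.cons (P.lf 210174717 0 0) (P.cons (P.lf 7790889 0 0) (P.cons (P.lf 0 3860412 0) (P.cons (P.lf 0 35028 0) (P.lf 8754 0 0))))) (P.cons (P.cons (P.lf 3670965 0 0) (P.cons (P.lf 136077 0 0) (P.cons (P.lf 0 67425 0) (P.cons (P.lf 0 612 0) P.nil)))) (P.cons (P.cons (P.lf 0 2957346 0) (P.cons (P.lf 0 109623 0) (P.cons (P.lf 54318 0 0) P.nil))) (P.cons (P.cons (P.lf 0 218892 0) (P.cons (P.lf 0 8112 0) P.nil)) (P.cons (P.cons (P.lf 15414 0 0) P.nil) P.nil)))))) 10425)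
 EL.nil))))))
noncomputable def S169_198_438_512_2 : EL := (EL.cons 0 (TM.mk (P.cons (P.cons (P.lf 0 485739506 0) (P.cons (P.lf 211044556 0 0) (P.cons (P.lf 0 15536759 0) (P.cons (P.lf 0 1721178 0) (P.cons (P.lf 195705 0 0) (P.cons (P.lf 3185 0 0) P.nil)))))) (P.cons (P.cons (P.lf 316226872 0 0) (P.cons (P.lf 0 132641254 0) (P.cons (P.lf 4301523 0 0) (P.cons (P.lf 907855 0 0) (P.cons (P.lf 0 66426 0) P.nil))))) (P.cons (P.cons (P.lf 262094118 0 0) (P.cons (P.lf 0 72084866 0) (P.cons (P.lf 4798931 0 0) (P.cons (P.lf 571715 0 0) P.nil)))) (P.cons (P.cons (P.lf 0 58937702 0) (P.cons (P.lf 3569475 0 0) (P.cons (P.lf 852956 0 0) P.nil))) (P.cons (P.cons (P.lf 0 16149373 0) (P.cons (P.lf 4361001 0 0) P.nil)) (P.cons (P.cons (P.lf 2139199 0 0) P.nil) P.nil)))))) 2443309)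
 (EL.cons 1 (TM.mk (P.cons (P.cons (P.lf 0 213979302 0) (P.cons (P.lf 113030058 0 0) (P.cons (P.lf 0 12709600 0) (P.cons (P.lf 0 1061518 0) (P.cons (P.lf 150273 0 0) (P.cons (P.lf 2443 0 0) P.nil)))))) (P.cons (P.cons (P.lf 0 132745089 0) (P.cons (P.lf 70458449 0 0) (P.cons (P.lf 0 8929169 0) (P.cons (P.lf 0 693737 0) (P.cons (P.lf 104095 0 0) P.nil))))) (P.cons (P.cons (P.lf 64227425 0 0) (P.cons (P.lf 0 13983805 0) (P.cons (P.lf 0 1131104 0) (P.cons (P.lf 45267 0 0) P.nil)))) (P.cons (P.cons (P.lf 35452083 0 0) (P.cons (P.lf 0 10513403 0) (P.cons (P.lf 403736 0 0) P.nil))) (P.cons (P.cons (P.lf 0 5780863 0) (P.cons (P.lf 0 291614 0) P.nil)) (P.cons (P.cons (P.lf 0 1817680 0) P.nil) P.nil)))))) 1311042)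
 (EL.cons 5 (TM.mk (P.cons (P.cons (P.lf 434249303 0 0) (P.cons (P.lf 0 236306120 0) (P.cons (P.lf 27817057 0 0) (P.cons (P.lf 2258912 0 0) (P.cons (P.lf 0 327065 0) (P.cons (P.lf 0 5327 0) P.nil)))))) (P.cons (P.cons (P.lf 99538668 0 0) (P.cons (P.lf 0 57388068 0) (P.cons (P.lf 8891053 0 0) (P.cons (P.lf 616561 0 0) (P.cons (P.lf 0 101544 0) P.nil))))) (P.cons (P.cons (P.lf 0 96157380 0) (P.cons (P.lf 23218198 0 0) (P.cons (P.lf 0 64989 0) (P.cons (P.lf 0 137001 0) P.nil)))) (P.cons (P.cons (P.lf 0 2040522 0) (P.cons (P.lf 3798686 0 0) (P.cons (P.lf 0 341341 0) P.nil))) (P.cons (P.cons (P.lf 6411632 0 0) (P.cons (P.lf 0 1030625 0) P.nil)) (P.cons (P.cons (P.lf 0 139450 0) P.nil) P.nil)))))) 1253945)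
 (EL.cons 9 (TM.mk (P.cons (P.cons (P.lf 230772283 0 0) (P.cons (P.lf 0 142295346 0) (P.cons (P.lf 19670187 0 0) (P.cons (P.lf 1453186 0 0) (P.cons (P.lf 0 227191 0) (P.cons (P.lf 0 3703 0) P.nil)))))) (P.cons (P.cons (P.lf 187036662 0 0) (P.cons (P.lf 0 92249464 0) (P.cons (P.lf 9194553 0 0) (P.cons (P.lf 828847 0 0) (P.cons (P.lf 0 110440 0) P.nil))))) (P.cons (P.cons (P.lf 0 2619148 0) (P.cons (P.lf 0 2128206 0) (P.cons (P.lf 1448193 0 0) (P.cons (P.lf 58467 0 0) P.nil)))) (P.cons (P.cons (P.lf 0 20290716 0) (P.cons (P.lf 4471608 0 0) (P.cons (P.lf 0 33597 0) P.nil))) (P.cons (P.cons (P.lf 590856 0 0) (P.cons (P.lf 458775 0 0) P.nil)) (P.cons (P.cons (P.lf 548065 0 0) P.nil) P.nil)))))) 343415)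
 (EL.cons 2 (TM.mk (P.cons (P.cons (P.lf 386351021 0 0) (P.cons (P.lf 0 104791477 0) (P.cons (P.lf 0 13407547 0) (P.cons (P.lf 2685093 0 0) (P.cons (P.lf 94196 0 0) (P.cons (P.lf 0 16250 0) P.nil)))))) (P.cons (P.cons (P.lf 155979686 0 0) (P.cons (P.lf 0 22988542 0) (P.cons (P.lf 0 4389378 0) (P.cons (P.lf 638111 0 0) (P.cons (P.lf 25363 0 0) P.nil))))) (P.cons (P.cons (P.lf 0 49545669 0) (P.cons (P.lf 2447212 0 0) (P.cons (P.lf 1137009 0 0) (P.cons (P.lf 0 90624 0) P.nil)))) (P.cons (P.cons (P.lf 0 10393211 0) (P.cons (P.lf 1474098 0 0) (P.cons (P.lf 289411 0 0) P.nil))) (P.cons (P.cons (P.lf 1424958 0 0) (P.cons (P.lf 131433 0 0) P.nil)) (P.cons (P.cons (P.lf 331256 0 0) P.nil) P.nil)))))) 219323)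
 (EL.cons 6 (TM.mk (P.cons (P.cons (P.lf 327319734 0 0) (P.cons (P.lf 0 88780194 0) (P.cons (P.lf 0 11358984 0) (P.cons (P.lf 2274834 0 0) (P.cons (P.lf 79800 0 0) (P.cons (P.lf 0 13770 0) P.nil)))))) (P.cons (P.cons (P.lf 212199984 0 0) (P.cons (P.lf 0 41189088 0) (P.cons (P.lf 0 6496788 0) (P.cons (P.lf 1096968 0 0) (P.cons (P.lf 41004 0 0) P.nil))))) (P.cons (P.cons (P.lf 4895478 0 0) (P.cons (P.lf 0 6636870 0) (P.cons (P.lf 0 451182 0) (P.cons (P.lf 156570 0 0) P.nil)))) (P.cons (P.cons (P.lf 0 10285968 0) (P.cons (P.lf 100704 0 0) (P.cons (P.lf 214464 0 0) P.nil))) (P.cons (P.cons (P.lf 0 1055316 0) (P.cons (P.lf 177918 0 0) P.nil)) (P.cons (P.cons (P.lf 162630 0 0) P.nil) P.nil)))))) 185748)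
 EL.nil))))))
noncomputable def S169_198_438_512_3 : EL := (EL.cons 0 (TM.mk (P.cons (P.lf 2000791209 0 0) (P.cons (P.lf 0 654467131 0) (P.cons (P.lf 15080835 0 0) (P.cons (P.lf 7271133 0 0) (P.cons (P.lf 199596 0 0) (P.cons (P.lf 0 35412 0) P.nil)))))) 3454)
 (EL.cons 1 (TM.mk (P.cons (P.lf 1695086628 0 0) (P.cons (P.lf 0 139901857 0) (P.cons (P.lf 0 47471786 0) (P.cons (P.lf 0 293435 0) (P.cons (P.lf 328029 0 0) (P.cons (P.lf 15684 0 0) P.nil)))))) 1940)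
 (EL.cons 5 (TM.mk (P.cons (P.lf 1436091214 0 0) (P.cons (P.lf 232699422 0 0) (P.cons (P.lf 0 5362070 0) (P.cons (P.lf 0 2585292 0) (P.cons (P.lf 0 70970 0) (P.cons (P.lf 12590 0 0) P.nil)))))) 1162)
 EL.nil)))
noncomputable def S169_198_438_512_4 : EL := (EL.cons 0 (TM.mk (P.cons (P.cons (P.lf 378676219 0 0) (P.cons (P.lf 0 116746827 0) (P.cons (P.lf 0 1858178 0) (P.lf 619391 0 0)))) (P.cons (P.cons (P.lf 29588463 0 0) (P.cons (P.lf 9812475 0 0) (P.cons (P.lf 156178 0 0) (P.lf 0 52057 0)))) (P.cons (P.cons (P.lf 0 80583539 0) (P.cons (P.lf 7906282 0 0) (P.cons (P.lf 125838 0 0) (P.lf 0 41944 0)))) (P.cons (P.cons (P.lf 10229825 0 0) (P.cons (P.lf 0 76760 0) (P.cons (P.lf 0 1221 0) P.nil))) (P.cons (P.cons (P.lf 1696950 0 0) (P.cons (P.lf 0 219556 0) P.nil)) (P.cons (P.cons (P.lf 0 194547 0) P.nil) P.nil)))))) 83337)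
 (EL.cons 1 (TM.mk (P.cons (P.cons (P.lf 320817581 0 0) (P.cons (P.lf 0 98908863 0) (P.cons (P.lf 0 1574263 0) (P.lf 524752 0 0)))) (P.cons (P.cons (P.lf 103530075 0 0) (P.cons (P.lf 0 15876971 0) (P.cons (P.lf 0 252701 0) (P.lf 84232 0 0)))) (P.cons (P.cons (P.lf 0 47877639 0) (P.cons (P.lf 4334235 0 0) (P.cons (P.lf 68985 0 0) (P.lf 0 22993 0)))) (P.cons (P.cons (P.lf 0 4063329 0) (P.cons (P.lf 1063305 0 0) (P.cons (P.lf 16921 0 0) P.nil))) (P.cons (P.cons (P.lf 1315573 0 0) (P.cons (P.lf 0 6101 0) P.nil)) (P.cons (P.cons (P.lf 123740 0 0) P.nil) P.nil)))))) 57849)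
 (EL.cons 5 (TM.mk (P.cons (P.cons (P.lf 271799270 0 0) (P.cons (P.lf 0 83796396 0) (P.cons (P.lf 0 1333728 0) (P.lf 444574 0 0)))) (P.cons (P.cons (P.lf 154185584 0 0) (P.cons (P.lf 0 33945218 0) (P.cons (P.lf 0 540282 0) (P.lf 180092 0 0)))) (P.cons (P.cons (P.lf 0 7027292 0) (P.cons (P.lf 0 3343080 0) (P.cons (P.lf 0 53208 0) (P.lf 17736 0 0)))) (P.cons (P.cons (P.lf 0 7046758 0) (P.cons (P.lf 455840 0 0) (P.cons (P.lf 7252 0 0) P.nil))) (P.cons (P.cons (P.lf 0 267430 0) (P.cons (P.lf 109782 0 0) P.nil)) (P.cons (P.cons (P.lf 116368 0 0) P.nil) P.nil)))))) 41394)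
 EL.nil)))
noncomputable def S169_198_438_512_5 : EL := (EL.cons 0 (TM.mk (P.cons (P.cons (P.lf 71669487 0 0) (P.cons (P.lf 0 44191764 0) (P.cons (P.lf 6108844 0 0) (P.cons (P.lf 451306 0 0) (P.cons (P.lf 0 70556 0) (P.cons (P.lf 0 1149 0) P.nil)))))) (P.cons (P.cons (P.lf 34643402 0 0) (P.cons (P.lf 0 14194021 0) (P.cons (P.lf 857264 0 0) (P.cons (P.lf 109784 0 0) (P.cons (P.lf 0 11218 0) P.nil))))) (P.cons (P.cons (P.lf 0 19273638 0) (P.cons (P.lf 8377279 0 0) (P.cons (P.lf 0 438241 0) (P.cons (P.lf 0 62639 0) P.nil)))) (P.cons (P.cons (P.lf 0 5337205 0) (P.cons (P.lf 1228375 0 0) (P.cons (P.lf 0 113827 0) P.nil))) (P.cons (P.cons (P.lf 2456876 0 0) (P.cons (P.lf 0 425281 0) P.nil)) (P.cons (P.cons (P.lf 64258 0 0) P.nil) P.nil)))))) 341702)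
 (EL.cons 1 (TM.mk (P.cons (P.cons (P.lf 60718972 0 0) (P.cons (P.lf 0 37439621 0) (P.cons (P.lf 5175463 0 0) (P.cons (P.lf 382350 0 0) (P.cons (P.lf 0 59775 0) (P.cons (P.lf 0 973 0) P.nil)))))) (P.cons (P.cons (P.lf 44200237 0 0) (P.cons (P.lf 0 21181914 0) (P.cons (P.lf 1992046 0 0) (P.cons (P.lf 186521 0 0) (P.cons (P.lf 0 24123 0) P.nil))))) (P.cons (P.cons (P.lf 0 6451213 0) (P.cons (P.lf 2491813 0 0) (P.cons (P.lf 36429 0 0) (P.cons (P.lf 0 13321 0) P.nil)))) (P.cons (P.cons (P.lf 0 6670561 0) (P.cons (P.lf 1908978 0 0) (P.cons (P.lf 0 108933 0) P.nil))) (P.cons (P.cons (P.lf 618616 0 0) (P.cons (P.lf 36243 0 0) P.nil)) (P.cons (P.cons (P.lf 291088 0 0) P.nil) P.nil)))))) 256102)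
 (EL.cons 5 (TM.mk (P.cons (P.cons (P.lf 51441608 0 0) (P.cons (P.lf 0 31719154 0) (P.cons (P.lf 4384694 0 0) (P.cons (P.lf 323930 0 0) (P.cons (P.lf 0 50642 0) (P.cons (P.lf 0 824 0) P.nil)))))) (P.cons (P.cons (P.lf 50027898 0 0) (P.cons (P.lf 0 25703056 0) (P.cons (P.lf 2760044 0 0) (P.cons (P.lf 237246 0 0) (P.cons (P.lf 0 32824 0) P.nil))))) (P.cons (P.cons (P.lf 5979800 0 0) (P.cons (P.lf 0 3687988 0) (P.cons (P.lf 638550 0 0) (P.cons (P.lf 41760 0 0) P.nil)))) (P.cons (P.cons (P.lf 0 4865898 0) (P.cons (P.lf 1053778 0 0) (P.cons (P.lf 29272 0 0) P.nil))) (P.cons (P.cons (P.lf 0 676604 0) (P.cons (P.lf 304136 0 0) P.nil)) (P.cons (P.cons (P.lf 159840 0 0) P.nil) P.nil)))))) 182706)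
 EL.nil)))
noncomputable def S169_198_438_512_6 : EL := (EL.cons 12 (TM.mk (P.lf 8589934592 0 0) 0)
 (EL.cons 3 (TM.mk (P.cons (P.lf 0 2072840178 0) (P.cons (P.lf 339017325 0 0) (P.cons (P.lf 19911543 0 0) (P.cons (P.lf 0 509910 0) (P.cons (P.lf 0 91155 0) (P.cons (P.lf 0 1462 0) P.nil)))))) 487)
 (EL.cons 7 (TM.mk (P.cons (P.lf 0 1756127103 0) (P.cons (P.lf 0 142278485 0) (P.cons (P.lf 9042093 0 0) (P.cons (P.lf 848140 0 0) (P.cons (P.lf 0 2043 0) (P.cons (P.lf 0 3166 0) P.nil)))))) 195)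
 EL.nil)))
noncomputable def S169_198_438_512_7 : EL := (EL.cons 12 (TM.mk (P.cons (P.cons (P.lf 1625758828 0 0) (P.cons (P.lf 0 501225520 0) (P.cons (P.lf 0 7977664 0) (P.lf 2659216 0 0)))) (P.cons (P.cons (P.lf 658823710 0 0) (P.cons (P.lf 0 121825360 0) (P.cons (P.lf 0 1939008 0) (P.lf 646336 0 0)))) (P.cons (P.cons (P.lf 0 142716878 0) (P.cons (P.lf 0 2127832 0) (P.cons (P.lf 0 33864 0) (P.lf 11288 0 0)))) (P.cons (P.cons (P.lf 0 13637952 0) (P.cons (P.lf 1714192 0 0) (P.cons (P.lf 27280 0 0) P.nil))) (P.cons (P.cons (P.lf 1343722 0 0) (P.cons (P.lf 126872 0 0) P.nil)) (P.cons (P.cons (P.lf 188788 0 0) P.nil) P.nil)))))) 45762)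
 (EL.cons 3 (TM.mk (P.cons (P.cons (P.lf 1569971718 0 0) (P.cons (P.lf 0 241901816 0) (P.cons (P.lf 0 3850184 0) (P.lf 1283392 0 0)))) (P.cons (P.cons (P.lf 0 857512471 0) (P.cons (P.lf 0 19231894 0) (P.cons (P.lf 0 306098 0) (P.lf 102030 0 0)))) (P.cons (P.cons (P.lf 0 104289175 0) (P.cons (P.lf 10912870 0 0) (P.cons (P.lf 173692 0 0) (P.lf 0 57896 0)))) (P.cons (P.cons (P.lf 13455709 0 0) (P.cons (P.lf 1500538 0 0) (P.cons (P.lf 23880 0 0) P.nil))) (P.cons (P.cons (P.lf 2818716 0 0) (P.cons (P.lf 0 89310 0) P.nil)) (P.cons (P.cons (P.lf 0 10795 0) P.nil) P.nil)))))) 171400)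
 (EL.cons 7 (TM.mk (P.cons (P.cons (P.lf 0 1155899955 0) (P.cons (P.lf 254752309 0 0) (P.cons (P.lf 4054720 0 0) (P.lf 0 1351574 0)))) (P.cons (P.cons (P.lf 359880060 0 0) (P.cons (P.lf 8071228 0 0) (P.cons (P.lf 128465 0 0) (P.lf 0 42823 0)))) (P.cons (P.cons (P.lf 0 240021 0) (P.cons (P.lf 0 5566891 0) (P.cons (P.lf 0 88602 0) (P.lf 29533 0 0)))) (P.cons (P.cons (P.lf 0 10941006 0) (P.cons (P.lf 158311 0 0) (P.cons (P.lf 2518 0 0) P.nil))) (P.cons (P.cons (P.lf 29301 0 0) (P.cons (P.lf 114242 0 0) P.nil)) (P.cons (P.cons (P.lf 163490 0 0) P.nil) P.nil)))))) 105239)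
 (EL.cons 10 (TM.mk (P.cons (P.cons (P.lf 0 2114851368 0) (P.cons (P.lf 0 78394656 0) (P.cons (P.lf 38844834 0 0) (P.cons (P.lf 352491 0 0) (P.lf 0 88122 0))))) (P.cons (P.cons (P.lf 0 342683448 0) (P.cons (P.lf 0 12702807 0) (P.cons (P.lf 6294285 0 0) (P.cons (P.lf 57114 0 0) (P.lf 0 14277 0))))) (P.cons (P.cons (P.lf 7896420 0 0) (P.cons (P.lf 292707 0 0) (P.cons (P.lf 0 145038 0) (P.cons (P.lf 0 1314 0) P.nil)))) (P.cons (P.cons (P.lf 3807213 0 0) (P.cons (P.lf 141126 0 0) (P.cons (P.lf 0 69927 0) P.nil))) (P.cons (P.cons (P.lf 104511 0 0) (P.cons (P.lf 3873 0 0) P.nil)) (P.cons (P.cons (P.lf 0 18540 0) P.nil) P.nil)))))) 6009)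
 EL.nil))))
noncomputable def S169_198_438_512_8 : EL := (EL.cons 12 (TM.mk (P.cons (P.cons (P.lf 307696378 0 0) (P.cons (P.lf 0 189727128 0) (P.cons (P.lf 26226916 0 0) (P.cons (P.lf 1937582 0 0) (P.cons (P.lf 0 302922 0) (P.cons (P.lf 0 4938 0) P.nil)))))) (P.cons (P.cons (P.lf 249382216 0 0) (P.cons (P.lf 0 122999286 0) (P.cons (P.lf 12259404 0 0) (P.cons (P.lf 1105130 0 0) (P.cons (P.lf 0 147254 0) P.nil))))) (P.cons (P.cons (P.lf 0 3492198 0) (P.cons (P.lf 0 2837608 0) (P.cons (P.lf 1930924 0 0) (P.cons (P.lf 77956 0 0) P.nil)))) (P.cons (P.cons (P.lf 0 27054288 0) (P.cons (P.lf 5962144 0 0) (P.cons (P.lf 0 44796 0) P.nil))) (P.cons (P.cons (P.lf 787808 0 0) (P.cons (P.lf 611700 0 0) P.nil)) (P.cons (P.cons (P.lf 730754 0 0) P.nil) P.nil)))))) 457858)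
 (EL.cons 3 (TM.mk (P.cons (P.cons (P.lf 668526182 0 0) (P.cons (P.lf 0 320566098 0) (P.cons (P.lf 30185392 0 0) (P.cons (P.lf 2824036 0 0) (P.cons (P.lf 0 365491 0) (P.cons (P.lf 0 5955 0) P.nil)))))) (P.cons (P.cons (P.lf 0 35731668 0) (P.cons (P.lf 0 11038698 0) (P.cons (P.lf 11206609 0 0) (P.cons (P.lf 420892 0 0) (P.cons (P.lf 0 117890 0) P.nil))))) (P.cons (P.cons (P.lf 0 234580422 0) (P.cons (P.lf 49544178 0 0) (P.cons (P.lf 28329 0 0) (P.cons (P.lf 0 287049 0) P.nil)))) (P.cons (P.cons (P.lf 5654494 0 0) (P.cons (P.lf 7912981 0 0) (P.cons (P.lf 0 588645 0) P.nil))) (P.cons (P.cons (P.lf 11094483 0 0) (P.cons (P.lf 0 1226116 0) P.nil)) (P.cons (P.cons (P.lf 323497 0 0) P.nil) P.nil)))))) 1386909)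
 (EL.cons 7 (TM.mk (P.cons (P.cons (P.lf 0 374633252 0) (P.cons (P.lf 192536945 0 0) (P.cons (P.lf 0 20686085 0) (P.cons (P.lf 0 1777535 0) (P.cons (P.lf 245997 0 0) (P.cons (P.lf 4009 0 0) P.nil)))))) (P.cons (P.cons (P.lf 14995832 0 0) (P.cons (P.lf 4632720 0 0) (P.cons (P.lf 0 4703178 0) (P.cons (P.lf 0 176641 0) (P.cons (P.lf 49474 0 0) P.nil))))) (P.cons (P.cons (P.lf 96614730 0 0) (P.cons (P.lf 0 21359162 0) (P.cons (P.lf 563240 0 0) (P.cons (P.lf 142068 0 0) P.nil)))) (P.cons (P.cons (P.lf 0 18348026 0) (P.cons (P.lf 92977 0 0) (P.cons (P.lf 224900 0 0) P.nil))) (P.cons (P.cons (P.lf 0 3471517 0) (P.cons (P.lf 961999 0 0) P.nil)) (P.cons (P.cons (P.lf 683918 0 0) P.nil) P.nil)))))) 708206)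
 (EL.cons 10 (TM.mk (P.cons (P.cons (P.lf 0 800527230 0) (P.cons (P.lf 217130094 0 0) (P.cons (P.lf 27780720 0 0) (P.cons (P.lf 0 5563578 0) (P.cons (P.lf 0 195180 0) (P.cons (P.lf 33678 0 0) P.nil)))))) (P.cons (P.cons (P.lf 0 454121004 0) (P.cons (P.lf 83144814 0 0) (P.cons (P.lf 13638480 0 0) (P.cons (P.lf 0 2232120 0) (P.cons (P.lf 0 84474 0) P.nil))))) (P.cons (P.cons (P.lf 20697402 0 0) (P.cons (P.lf 10613556 0 0) (P.cons (P.lf 141540 0 0) (P.cons (P.lf 0 230730 0) P.nil)))) (P.cons (P.cons (P.lf 20754732 0 0) (P.cons (P.lf 0 573228 0) (P.cons (P.lf 0 452346 0) P.nil))) (P.cons (P.cons (P.lf 787656 0 0) (P.cons (P.lf 0 294144 0) P.nil)) (P.cons (P.cons (P.lf 0 342738 0) P.nil) P.nil)))))) 258450)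
 EL.nil))))
noncomputable def S169_198_438_512_9 : EL := (EL.cons 3 (TM.mk (P.cons (P.lf 0 2072840178 0) (P.cons (P.lf 339017325 0 0) (P.cons (P.lf 19911543 0 0) (P.cons (P.lf 0 509910 0) (P.cons (P.lf 0 91155 0) (P.cons (P.lf 0 1462 0) P.nil)))))) 487)
 (EL.cons 7 (TM.mk (P.cons (P.lf 0 1756127103 0) (P.cons (P.lf 0 142278485 0) (P.cons (P.lf 9042093 0 0) (P.cons (P.lf 848140 0 0) (P.cons (P.lf 0 2043 0) (P.cons (P.lf 0 3166 0) P.nil)))))) 195)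
 EL.nil))
noncomputable def S169_198_438_512_10 : EL := (EL.cons 3 (TM.mk (P.cons (P.cons (P.lf 0 392312442 0) (P.cons (P.lf 120950908 0 0) (P.cons (P.lf 1925092 0 0) (P.lf 0 641696 0)))) (P.cons (P.cons (P.lf 0 94817467 0) (P.cons (P.lf 9615947 0 0) (P.cons (P.lf 153049 0 0) (P.lf 0 51015 0)))) (P.cons (P.cons (P.lf 64209254 0 0) (P.cons (P.lf 0 5456435 0) (P.cons (P.lf 0 86846 0) (P.lf 28948 0 0)))) (P.cons (P.cons (P.lf 0 910949 0) (P.cons (P.lf 0 750269 0) (P.cons (P.lf 0 11940 0) P.nil))) (P.cons (P.cons (P.lf 0 1249680 0) (P.cons (P.lf 44655 0 0) P.nil)) (P.cons (P.cons (P.lf 0 22933 0) P.nil) P.nil)))))) 41484)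
 (EL.cons 7 (TM.mk (P.cons (P.cons (P.lf 0 332370300 0) (P.cons (P.lf 102470596 0 0) (P.cons (P.lf 1630954 0 0) (P.lf 0 543650 0)))) (P.cons (P.cons (P.lf 0 161618073 0) (P.cons (P.lf 33207985 0 0) (P.cons (P.lf 528548 0 0) (P.lf 0 176182 0)))) (P.cons (P.cons (P.lf 19976031 0 0) (P.cons (P.lf 1925246 0 0) (P.cons (P.lf 30642 0 0) (P.lf 0 10214 0)))) (P.cons (P.cons (P.lf 6006045 0 0) (P.cons (P.lf 0 492932 0) (P.cons (P.lf 0 7844 0) P.nil))) (P.cons (P.cons (P.lf 0 134385 0) (P.cons (P.lf 0 68479 0) P.nil)) (P.cons (P.cons (P.lf 0 90055 0) P.nil) P.nil)))))) 23452)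
 EL.nil))
noncomputable def S169_198_438_512_11 : EL := (EL.cons 3 (TM.mk (P.cons (P.cons (P.lf 0 74250322 0) (P.cons (P.lf 45783120 0 0) (P.cons (P.lf 0 6328826 0) (P.cons (P.lf 0 467558 0) (P.cons (P.lf 73097 0 0) (P.cons (P.lf 1191 0 0) P.nil)))))) (P.cons (P.cons (P.lf 0 48034716 0) (P.cons (P.lf 22193076 0 0) (P.cons (P.lf 0 1923227 0) (P.cons (P.lf 0 190208 0) (P.cons (P.lf 23578 0 0) P.nil))))) (P.cons (P.cons (P.lf 11398266 0 0) (P.cons (P.lf 0 4609434 0) (P.cons (P.lf 78681 0 0) (P.cons (P.lf 29295 0 0) P.nil)))) (P.cons (P.cons (P.lf 6950458 0 0) (P.cons (P.lf 0 1824569 0) (P.cons (P.lf 113877 0 0) P.nil))) (P.cons (P.cons (P.lf 0 1284015 0) (P.cons (P.lf 90434 0 0) P.nil)) (P.cons (P.cons (P.lf 0 210449 0) P.nil) P.nil)))))) 226349)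
 (EL.cons 7 (TM.mk (P.cons (P.cons (P.lf 0 62905478 0) (P.cons (P.lf 38787833 0 0) (P.cons (P.lf 0 5361833 0) (P.cons (P.lf 0 396119 0) (P.cons (P.lf 61929 0 0) (P.cons (P.lf 1009 0 0) P.nil)))))) (P.cons (P.cons (P.lf 0 56080222 0) (P.cons (P.lf 28288512 0 0) (P.cons (P.lf 0 2940720 0) (P.cons (P.lf 0 258025 0) (P.cons (P.lf 35122 0 0) P.nil))))) (P.cons (P.cons (P.lf 0 3092778 0) (P.cons (P.lf 2417692 0 0) (P.cons (P.lf 0 570208 0) (P.cons (P.lf 0 32202 0) P.nil)))) (P.cons (P.cons (P.lf 5881714 0 0) (P.cons (P.lf 0 1320107 0) (P.cons (P.lf 0 7330 0) P.nil))) (P.cons (P.cons (P.lf 307925 0 0) (P.cons (P.lf 0 238895 0) P.nil)) (P.cons (P.cons (P.lf 0 191440 0) P.nil) P.nil)))))) 146668)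
 EL.nil))
noncomputable def S169_198_438_512_12 : EL := (EL.cons 4 (TM.mk (P.cons (P.lf 2072840178 0 0) (P.cons (P.lf 0 339017325 0) (P.cons (P.lf 0 19911543 0) (P.cons (P.lf 509910 0 0) (P.cons (P.lf 91155 0 0) (P.cons (P.lf 1462 0 0) P.nil)))))) 487)
 (EL.cons 8 (TM.mk (P.cons (P.lf 1756127103 0 0) (P.cons (P.lf 142278485 0 0) (P.cons (P.lf 0 9042093 0) (P.cons (P.lf 0 848140 0) (P.cons (P.lf 2043 0 0) (P.cons (P.lf 3166 0 0) P.nil)))))) 195)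
 EL.nil))
noncomputable def S169_198_438_512_13 : EL := (EL.cons 4 (TM.mk (P.cons (P.cons (P.lf 392312442 0 0) (P.cons (P.lf 0 120950908 0) (P.cons (P.lf 0 1925092 0) (P.lf 641696 0 0)))) (P.cons (P.cons (P.lf 94817467 0 0) (P.cons (P.lf 0 9615947 0) (P.cons (P.lf 0 153049 0) (P.lf 51015 0 0)))) (P.cons (P.cons (P.lf 0 64209254 0) (P.cons (P.lf 5456435 0 0) (P.cons (P.lf 86846 0 0) (P.lf 0 28948 0)))) (P.cons (P.cons (P.lf 910949 0 0) (P.cons (P.lf 750269 0 0) (P.cons (P.lf 11940 0 0) P.nil))) (P.cons (P.cons (P.lf 1249680 0 0) (P.cons (P.lf 0 44655 0) P.nil)) (P.cons (P.cons (P.lf 22933 0 0) P.nil) P.nil)))))) 41484)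
 (EL.cons 8 (TM.mk (P.cons (P.cons (P.lf 332370300 0 0) (P.cons (P.lf 0 102470596 0) (P.cons (P.lf 0 1630954 0) (P.lf 543650 0 0)))) (P.cons (P.cons (P.lf 161618073 0 0) (P.cons (P.lf 0 33207985 0) (P.cons (P.lf 0 528548 0) (P.lf 176182 0 0)))) (P.cons (P.cons (P.lf 0 19976031 0) (P.cons (P.lf 0 1925246 0) (P.cons (P.lf 0 30642 0) (P.lf 10214 0 0)))) (P.cons (P.cons (P.lf 0 6006045 0) (P.cons (P.lf 492932 0 0) (P.cons (P.lf 7844 0 0) P.nil))) (P.cons (P.cons (P.lf 134385 0 0) (P.cons (P.lf 68479 0 0) P.nil)) (P.cons (P.cons (P.lf 90055 0 0) P.nil) P.nil)))))) 23452)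
 EL.nil))
noncomputable def S169_198_438_512_14 : EL := (EL.cons 4 (TM.mk (P.cons (P.cons (P.lf 74250322 0 0) (P.cons (P.lf 0 45783120 0) (P.cons (P.lf 6328826 0 0) (P.cons (P.lf 467558 0 0) (P.cons (P.lf 0 73097 0) (P.cons (P.lf 0 1191 0) P.nil)))))) (P.cons (P.cons (P.lf 48034716 0 0) (P.cons (P.lf 0 22193076 0) (P.cons (P.lf 1923227 0 0) (P.cons (P.lf 190208 0 0) (P.cons (P.lf 0 23578 0) P.nil))))) (P.cons (P.cons (P.lf 0 11398266 0) (P.cons (P.lf 4609434 0 0) (P.cons (P.lf 0 78681 0) (P.cons (P.lf 0 29295 0) P.nil)))) (P.cons (P.cons (P.lf 0 6950458 0) (P.cons (P.lf 1824569 0 0) (P.cons (P.lf 0 113877 0) P.nil))) (P.cons (P.cons (P.lf 1284015 0 0) (P.cons (P.lf 0 90434 0) P.nil)) (P.cons (P.cons (P.lf 210449 0 0) P.nil) P.nil)))))) 226349)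
 (EL.cons 8 (TM.mk (P.cons (P.cons (P.lf 62905478 0 0) (P.cons (P.lf 0 38787833 0) (P.cons (P.lf 5361833 0 0) (P.cons (P.lf 396119 0 0) (P.cons (P.lf 0 61929 0) (P.cons (P.lf 0 1009 0) P.nil)))))) (P.cons (P.cons (P.lf 56080222 0 0) (P.cons (P.lf 0 28288512 0) (P.cons (P.lf 2940720 0 0) (P.cons (P.lf 258025 0 0) (P.cons (P.lf 0 35122 0) P.nil))))) (P.cons (P.cons (P.lf 3092778 0 0) (P.cons (P.lf 0 2417692 0) (P.cons (P.lf 570208 0 0) (P.cons (P.lf 32202 0 0) P.nil)))) (P.cons (P.cons (P.lf 0 5881714 0) (P.cons (P.lf 1320107 0 0) (P.cons (P.lf 7330 0 0) P.nil))) (P.cons (P.cons (P.lf 0 307925 0) (P.cons (P.lf 238895 0 0) P.nil)) (P.cons (P.cons (P.lf 191440 0 0) P.nil) P.nil)))))) 146668)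
 EL.nil))
noncomputable def S169_198_438_512_15 : EL := (EL.cons 4 (TM.mk (P.cons (P.lf 0 1067088645 0) (P.cons (P.lf 349049136 0 0) (P.cons (P.lf 0 8043112 0) (P.cons (P.lf 0 3877937 0) (P.cons (P.lf 0 106451 0) (P.cons (P.lf 18886 0 0) P.nil)))))) 1845)
 (EL.cons 8 (TM.mk (P.cons (P.lf 0 904046202 0) (P.cons (P.lf 74614324 0 0) (P.cons (P.lf 25318286 0 0) (P.cons (P.lf 156499 0 0) (P.cons (P.lf 0 174949 0) (P.cons (P.lf 0 8365 0) P.nil)))))) 1031)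
 EL.nil))
noncomputable def S169_198_438_512_16 : EL := (EL.cons 4 (TM.mk (P.cons (P.cons (P.lf 0 201960650 0) (P.cons (P.lf 62264974 0 0) (P.cons (P.lf 991028 0 0) (P.lf 0 330342 0)))) (P.cons (P.cons (P.lf 0 15780513 0) (P.cons (P.lf 0 5233320 0) (P.cons (P.lf 0 83295 0) (P.lf 27764 0 0)))) (P.cons (P.cons (P.lf 42977887 0 0) (P.cons (P.lf 0 4216683 0) (P.cons (P.lf 0 67113 0) (P.lf 22370 0 0)))) (P.cons (P.cons (P.lf 0 5455906 0) (P.cons (P.lf 40938 0 0) (P.cons (P.lf 651 0 0) P.nil))) (P.cons (P.cons (P.lf 0 905040 0) (P.cons (P.lf 117096 0 0) P.nil)) (P.cons (P.cons (P.lf 103758 0 0) P.nil) P.nil)))))) 44455)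
 (EL.cons 8 (TM.mk (P.cons (P.cons (P.lf 0 171102710 0) (P.cons (P.lf 52751394 0 0) (P.cons (P.lf 839607 0 0) (P.lf 0 279868 0)))) (P.cons (P.cons (P.lf 0 55216040 0) (P.cons (P.lf 8467718 0 0) (P.cons (P.lf 134774 0 0) (P.lf 0 44924 0)))) (P.cons (P.cons (P.lf 25534741 0 0) (P.cons (P.lf 0 2311592 0) (P.cons (P.lf 0 36792 0) (P.lf 12263 0 0)))) (P.cons (P.cons (P.lf 2167109 0 0) (P.cons (P.lf 0 567096 0) (P.cons (P.lf 0 9025 0) P.nil))) (P.cons (P.cons (P.lf 0 701639 0) (P.cons (P.lf 3254 0 0) P.nil)) (P.cons (P.cons (P.lf 0 65995 0) P.nil) P.nil)))))) 30843)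
 EL.nil))
noncomputable def S169_198_438_512_17 : EL := (EL.cons 4 (TM.mk (P.cons (P.cons (P.lf 0 38223726 0) (P.cons (P.lf 23568941 0 0) (P.cons (P.lf 0 3258050 0) (P.cons (P.lf 0 240696 0) (P.cons (P.lf 37630 0 0) (P.cons (P.lf 613 0 0) P.nil)))))) (P.cons (P.cons (P.lf 0 18476481 0) (P.cons (P.lf 7570144 0 0) (P.cons (P.lf 0 457207 0) (P.cons (P.lf 0 58551 0) (P.cons (P.lf 5983 0 0) P.nil))))) (P.cons (P.cons (P.lf 10279274 0 0) (P.cons (P.lf 0 4467882 0) (P.cons (P.lf 233729 0 0) (P.cons (P.lf 33407 0 0) P.nil)))) (P.cons (P.cons (P.lf 2846509 0 0) (P.cons (P.lf 0 655133 0) (P.cons (P.lf 60707 0 0) P.nil))) (P.cons (P.cons (P.lf 0 1310334 0) (P.cons (P.lf 226816 0 0) P.nil)) (P.cons (P.cons (P.lf 0 34271 0) P.nil) P.nil)))))) 182251)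
 (EL.cons 8 (TM.mk (P.cons (P.cons (P.lf 0 32383452 0) (P.cons (P.lf 19967798 0 0) (P.cons (P.lf 0 2760247 0) (P.cons (P.lf 0 203920 0) (P.cons (P.lf 31880 0 0) (P.cons (P.lf 519 0 0) P.nil)))))) (P.cons (P.cons (P.lf 0 23573460 0) (P.cons (P.lf 11297021 0 0) (P.cons (P.lf 0 1062425 0) (P.cons (P.lf 0 99478 0) (P.cons (P.lf 12866 0 0) P.nil))))) (P.cons (P.cons (P.lf 3440647 0 0) (P.cons (P.lf 0 1328967 0) (P.cons (P.lf 0 19429 0) (P.cons (P.lf 7105 0 0) P.nil)))) (P.cons (P.cons (P.lf 3557633 0 0) (P.cons (P.lf 0 1018122 0) (P.cons (P.lf 58098 0 0) P.nil))) (P.cons (P.cons (P.lf 0 329929 0) (P.cons (P.lf 0 19330 0) P.nil)) (P.cons (P.cons (P.lf 0 155247 0) P.nil) P.nil)))))) 136576)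
 EL.nil))
noncomputable def S169_198_438_512_18 : EL := (EL.cons 4 (TM.mk (P.cons (P.lf 549332354 0 0) (P.cons (P.lf 0 269533349 0) (P.cons (P.lf 28252205 0 0) (P.cons (P.lf 3180359 0 0) (P.cons (P.lf 0 331524 0) (P.cons (P.lf 0 44357 0) P.nil)))))) 4415)
 (EL.cons 8 (TM.mk (P.cons (P.lf 465398850 0 0) (P.cons (P.lf 0 114528063 0) (P.cons (P.lf 0 11222106 0) (P.cons (P.lf 2534590 0 0) (P.cons (P.lf 239457 0 0) (P.cons (P.lf 0 14216 0) P.nil)))))) 3029)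
 EL.nil))
noncomputable def S169_198_438_512_19 : EL := (EL.cons 4 (TM.mk (P.cons (P.cons (P.lf 103968419 0 0) (P.cons (P.lf 0 32053724 0) (P.cons (P.lf 0 510177 0) (P.lf 170057 0 0)))) (P.cons (P.cons (P.lf 0 8880514 0) (P.cons (P.lf 7936542 0 0) (P.cons (P.lf 126320 0 0) (P.lf 0 42105 0)))) (P.cons (P.cons (P.lf 0 24452186 0) (P.cons (P.lf 2038010 0 0) (P.cons (P.lf 32437 0 0) (P.lf 0 10812 0)))) (P.cons (P.cons (P.lf 6374775 0 0) (P.cons (P.lf 0 409866 0) (P.cons (P.lf 0 6523 0) P.nil))) (P.cons (P.cons (P.lf 225645 0 0) (P.cons (P.lf 0 78432 0) P.nil)) (P.cons (P.cons (P.lf 0 161606 0) P.nil) P.nil)))))) 58765)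
 (EL.cons 8 (TM.mk (P.cons (P.cons (P.lf 88082892 0 0) (P.cons (P.lf 0 27156176 0) (P.cons (P.lf 0 432226 0) (P.lf 144075 0 0)))) (P.cons (P.cons (P.lf 14018824 0 0) (P.cons (P.lf 82306 0 0) (P.cons (P.lf 1309 0 0) (P.lf 0 436 0)))) (P.cons (P.cons (P.lf 0 18640248 0) (P.cons (P.lf 2163804 0 0) (P.cons (P.lf 34439 0 0) (P.lf 0 11479 0)))) (P.cons (P.cons (P.lf 782921 0 0) (P.cons (P.lf 132505 0 0) (P.cons (P.lf 2109 0 0) P.nil))) (P.cons (P.cons (P.lf 680799 0 0) (P.cons (P.lf 0 63119 0) P.nil)) (P.cons (P.cons (P.lf 0 16305 0) P.nil) P.nil)))))) 35132)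
 EL.nil))
noncomputable def S169_198_438_512_20 : EL := (EL.cons 4 (TM.mk (P.cons (P.cons (P.lf 19677399 0 0) (P.cons (P.lf 0 12133183 0) (P.cons (P.lf 1677229 0 0) (P.cons (P.lf 123909 0 0) (P.cons (P.lf 0 19371 0) (P.cons (P.lf 0 315 0) P.nil)))))) (P.cons (P.cons (P.lf 6293328 0 0) (P.cons (P.lf 0 1912667 0) (P.cons (P.lf 0 38945 0) (P.cons (P.lf 9876 0 0) (P.cons (P.lf 87 0 0) P.nil))))) (P.cons (P.cons (P.lf 0 7036385 0) (P.cons (P.lf 3053970 0 0) (P.cons (P.lf 0 174929 0) (P.cons (P.lf 0 23318 0) P.nil)))) (P.cons (P.cons (P.lf 0 686425 0) (P.cons (P.lf 0 4467 0) (P.cons (P.lf 0 13421 0) P.nil))) (P.cons (P.cons (P.lf 968255 0 0) (P.cons (P.lf 0 195510 0) P.nil)) (P.cons (P.cons (P.lf 0 79474 0) P.nil) P.nil)))))) 167177)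
 (EL.cons 8 (TM.mk (P.cons (P.cons (P.lf 16670853 0 0) (P.cons (P.lf 0 10279331 0) (P.cons (P.lf 1420962 0 0) (P.cons (P.lf 104977 0 0) (P.cons (P.lf 0 16412 0) (P.cons (P.lf 0 267 0) P.nil)))))) (P.cons (P.cons (P.lf 9408956 0 0) (P.cons (P.lf 0 4134448 0) (P.cons (P.lf 314529 0 0) (P.cons (P.lf 34041 0 0) (P.cons (P.lf 0 3939 0) P.nil))))) (P.cons (P.cons (P.lf 0 3916156 0) (P.cons (P.lf 1734051 0 0) (P.cons (P.lf 0 93099 0) (P.cons (P.lf 0 13042 0) P.nil)))) (P.cons (P.cons (P.lf 0 1654236 0) (P.cons (P.lf 465567 0 0) (P.cons (P.lf 0 36448 0) P.nil))) (P.cons (P.cons (P.lf 490116 0 0) (P.cons (P.lf 0 84224 0) P.nil)) (P.cons (P.cons (P.lf 69844 0 0) P.nil) P.nil)))))) 107464)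
 EL.nil))
noncomputable def S169_198_438_512_21 : EL := (EL.cons 4 (TM.mk (P.cons (P.cons (P.lf 0 1962284160 0) (P.cons (P.lf 362852724 0 0) (P.cons (P.lf 5775276 0 0) (P.lf 0 1925088 0)))) (P.cons (P.cons (P.lf 762695004 0 0) (P.cons (P.lf 28847841 0 0) (P.cons (P.lf 459147 0 0) (P.lf 0 153045 0)))) (P.cons (P.cons (P.lf 168498429 0 0) (P.cons (P.lf 0 16369305 0) (P.cons (P.lf 0 260538 0) (P.lf 86844 0 0)))) (P.cons (P.cons (P.lf 0 14366658 0) (P.cons (P.lf 0 2250807 0) (P.cons (P.lf 0 35820 0) P.nil))) (P.cons (P.cons (P.lf 0 4068396 0) (P.cons (P.lf 133965 0 0) P.nil)) (P.cons (P.cons (P.lf 0 12138 0) P.nil) P.nil)))))) 129897)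
 (EL.cons 8 (TM.mk (P.cons (P.cons (P.lf 823529655 0 0) (P.cons (P.lf 0 152281713 0) (P.cons (P.lf 0 2423766 0) (P.lf 807924 0 0)))) (P.cons (P.cons (P.lf 0 521498133 0) (P.cons (P.lf 25136757 0 0) (P.cons (P.lf 400083 0 0) (P.lf 0 133359 0)))) (P.cons (P.cons (P.lf 20216052 0 0) (P.cons (P.lf 7492137 0 0) (P.cons (P.lf 119244 0 0) (P.lf 0 39747 0)))) (P.cons (P.cons (P.lf 16947051 0 0) (P.cons (P.lf 0 651243 0) (P.cons (P.lf 0 10362 0) P.nil))) (P.cons (P.cons (P.lf 0 163686 0) (P.cons (P.lf 0 182721 0) P.nil)) (P.cons (P.cons (P.lf 0 253545 0) P.nil) P.nil)))))) 81768)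
 (EL.cons 11 (TM.mk (P.cons (P.cons (P.lf 2114851368 0 0) (P.cons (P.lf 78394656 0 0) (P.cons (P.lf 0 38844834 0) (P.cons (P.lf 0 352491 0) (P.lf 88122 0 0))))) (P.cons (P.cons (P.lf 342683448 0 0) (P.cons (P.lf 12702807 0 0) (P.cons (P.lf 0 6294285 0) (P.cons (P.lf 0 57114 0) (P.lf 14277 0 0))))) (P.cons (P.cons (P.lf 0 7896420 0) (P.cons (P.lf 0 292707 0) (P.cons (P.lf 145038 0 0) (P.cons (P.lf 1314 0 0) P.nil)))) (P.cons (P.cons (P.lf 0 3807213 0) (P.cons (P.lf 0 141126 0) (P.cons (P.lf 69927 0 0) P.nil))) (P.cons (P.cons (P.lf 0 104511 0) (P.cons (P.lf 0 3873 0) P.nil)) (P.cons (P.cons (P.lf 18540 0 0) P.nil) P.nil)))))) 6009)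
 EL.nil)))
noncomputable def S169_198_438_512_22 : EL := (EL.cons 4 (TM.mk (P.cons (P.cons (P.lf 0 371388252 0) (P.cons (P.lf 183174609 0 0) (P.cons (P.lf 0 18257109 0) (P.cons (P.lf 0 1645797 0) (P.cons (P.lf 219294 0 0) (P.cons (P.lf 3573 0 0) P.nil)))))) (P.cons (P.cons (P.lf 0 6151524 0) (P.cons (P.lf 16615887 0 0) (P.cons (P.lf 0 6564918 0) (P.cons (P.lf 0 305550 0) (P.cons (P.lf 70734 0 0) P.nil))))) (P.cons (P.cons (P.lf 122989344 0 0) (P.cons (P.lf 0 27076806 0) (P.cons (P.lf 25176 0 0) (P.cons (P.lf 158172 0 0) P.nil)))) (P.cons (P.cons (P.lf 647982 0 0) (P.cons (P.lf 0 4868775 0) (P.cons (P.lf 351261 0 0) P.nil))) (P.cons (P.cons (P.lf 0 6189249 0) (P.cons (P.lf 658275 0 0) P.nil)) (P.cons (P.cons (P.lf 0 266973 0) P.nil) P.nil)))))) 580269)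
 (EL.cons 8 (TM.mk (P.cons (P.cons (P.lf 155863887 0 0) (P.cons (P.lf 0 76874556 0) (P.cons (P.lf 7662126 0 0) (P.cons (P.lf 690708 0 0) (P.cons (P.lf 0 92034 0) (P.cons (P.lf 0 1500 0) P.nil)))))) (P.cons (P.cons (P.lf 0 35538027 0) (P.cons (P.lf 11827896 0 0) (P.cons (P.lf 881229 0 0) (P.cons (P.lf 0 40692 0) (P.cons (P.lf 0 7176 0) P.nil))))) (P.cons (P.cons (P.lf 0 49853754 0) (P.cons (P.lf 11888427 0 0) (P.cons (P.lf 0 566724 0) (P.cons (P.lf 0 87135 0) P.nil)))) (P.cons (P.cons (P.lf 12114870 0 0) (P.cons (P.lf 0 706542 0) (P.cons (P.lf 0 116115 0) P.nil))) (P.cons (P.cons (P.lf 1889721 0 0) (P.cons (P.lf 0 600447 0) P.nil)) (P.cons (P.cons (P.lf 0 437679 0) P.nil) P.nil)))))) 280758)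
 (EL.cons 11 (TM.mk (P.cons (P.cons (P.lf 400263615 0 0) (P.cons (P.lf 0 108565047 0) (P.cons (P.lf 0 13890360 0) (P.cons (P.lf 2781789 0 0) (P.cons (P.lf 97590 0 0) (P.cons (P.lf 0 16839 0) P.nil)))))) (P.cons (P.cons (P.lf 227060502 0 0) (P.cons (P.lf 0 41572407 0) (P.cons (P.lf 0 6819240 0) (P.cons (P.lf 1116060 0 0) (P.cons (P.lf 42237 0 0) P.nil))))) (P.cons (P.cons (P.lf 0 10348701 0) (P.cons (P.lf 0 5306778 0) (P.cons (P.lf 0 70770 0) (P.cons (P.lf 115365 0 0) P.nil)))) (P.cons (P.cons (P.lf 0 10377366 0) (P.cons (P.lf 286614 0 0) (P.cons (P.lf 226173 0 0) P.nil))) (P.cons (P.cons (P.lf 0 393828 0) (P.cons (P.lf 147072 0 0) P.nil)) (P.cons (P.cons (P.lf 171369 0 0) P.nil) P.nil)))))) 129225)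
 EL.nil)))
noncomputable def S169_198_438_512_23 : EL := (EL.cons 4 (TM.mk (P.cons (P.cons (P.lf 1010174910 0 0) (P.cons (P.lf 0 186794922 0) (P.cons (P.lf 0 2973084 0) (P.lf 991026 0 0)))) (P.cons (P.cons (P.lf 0 557848107 0) (P.cons (P.lf 15699960 0 0) (P.cons (P.lf 249885 0 0) (P.lf 0 83295 0)))) (P.cons (P.cons (P.lf 0 32230119 0) (P.cons (P.lf 12650049 0 0) (P.cons (P.lf 201339 0 0) (P.lf 0 67110 0)))) (P.cons (P.cons (P.lf 25602849 0 0) (P.cons (P.lf 0 122817 0) (P.cons (P.lf 0 1956 0) P.nil))) (P.cons (P.cons (P.lf 1665855 0 0) (P.cons (P.lf 0 351288 0) P.nil)) (P.cons (P.cons (P.lf 0 445227 0) P.nil) P.nil)))))) 147258)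
 (EL.cons 8 (TM.mk (P.cons (P.cons (P.lf 0 423949299 0) (P.cons (P.lf 78393927 0 0) (P.cons (P.lf 1247742 0 0) (P.lf 0 415914 0)))) (P.cons (P.cons (P.lf 337802643 0 0) (P.cons (P.lf 0 25761777 0) (P.cons (P.lf 0 410031 0) (P.lf 136674 0 0)))) (P.cons (P.cons (P.lf 0 50242692 0) (P.cons (P.lf 0 2493552 0) (P.cons (P.lf 0 39684 0) (P.lf 13227 0 0)))) (P.cons (P.cons (P.lf 0 9705297 0) (P.cons (P.lf 1109649 0 0) (P.cons (P.lf 17658 0 0) P.nil))) (P.cons (P.cons (P.lf 1658502 0 0) (P.cons (P.lf 76545 0 0) P.nil)) (P.cons (P.cons (P.lf 209493 0 0) P.nil) P.nil)))))) 103686)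
 (EL.cons 11 (TM.mk (P.cons (P.cons (P.lf 0 1088715813 0) (P.cons (P.lf 0 40357209 0) (P.cons (P.lf 19997142 0 0) (P.cons (P.lf 181458 0 0) (P.lf 0 45363 0))))) (P.cons (P.cons (P.lf 1649862 0 0) (P.cons (P.lf 61158 0 0) (P.cons (P.lf 0 30303 0) (P.cons (P.lf 0 276 0) (P.lf 69 0 0))))) (P.cons (P.cons (P.lf 43375689 0 0) (P.cons (P.lf 1607874 0 0) (P.cons (P.lf 0 796707 0) (P.cons (P.lf 0 7227 0) P.nil)))) (P.cons (P.cons (P.lf 2721867 0 0) (P.cons (P.lf 100893 0 0) (P.cons (P.lf 0 49992 0) P.nil))) (P.cons (P.cons (P.lf 0 397071 0) (P.cons (P.lf 0 14718 0) P.nil)) (P.cons (P.cons (P.lf 0 44694 0) P.nil) P.nil)))))) 19497)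
 EL.nil)))
noncomputable def S169_198_438_512_24 : EL := (EL.cons 4 (TM.mk (P.cons (P.cons (P.lf 191188971 0 0) (P.cons (P.lf 0 94297449 0) (P.cons (P.lf 9398676 0 0) (P.cons (P.lf 847248 0 0) (P.cons (P.lf 0 112890 0) (P.cons (P.lf 0 1839 0) P.nil)))))) (P.cons (P.cons (P.lf 0 28102575 0) (P.cons (P.lf 6868761 0 0) (P.cons (P.lf 1842417 0 0) (P.cons (P.lf 18726 0 0) (P.cons (P.lf 0 17949 0) P.nil))))) (P.cons (P.cons (P.lf 0 65668830 0) (P.cons (P.lf 16243818 0 0) (P.cons (P.lf 0 655983 0) (P.cons (P.lf 0 115290 0) P.nil)))) (P.cons (P.cons (P.lf 10038225 0 0) (P.cons (P.lf 285636 0 0) (P.cons (P.lf 0 208860 0) P.nil))) (P.cons (P.cons (P.lf 3858132 0 0) (P.cons (P.lf 0 888954 0) P.nil)) (P.cons (P.cons (P.lf 0 395766 0) P.nil) P.nil)))))) 440241)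
 (EL.cons 8 (TM.mk (P.cons (P.cons (P.lf 0 80238015 0) (P.cons (P.lf 39574668 0 0) (P.cons (P.lf 0 3944427 0) (P.cons (P.lf 0 355572 0) (P.cons (P.lf 47376 0 0) (P.cons (P.lf 771 0 0) P.nil)))))) (P.cons (P.cons (P.lf 31417908 0 0) (P.cons (P.lf 0 12561465 0) (P.cons (P.lf 191466 0 0) (P.cons (P.lf 79101 0 0) (P.cons (P.lf 0 4053 0) P.nil))))) (P.cons (P.cons (P.lf 23443089 0 0) (P.cons (P.lf 0 5504400 0) (P.cons (P.lf 403833 0 0) (P.cons (P.lf 44844 0 0) P.nil)))) (P.cons (P.cons (P.lf 0 10629636 0) (P.cons (P.lf 1432905 0 0) (P.cons (P.lf 15447 0 0) P.nil))) (P.cons (P.cons (P.lf 0 198357 0) (P.cons (P.lf 308652 0 0) P.nil)) (P.cons (P.cons (P.lf 451392 0 0) P.nil) P.nil)))))) 193995)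
 (EL.cons 11 (TM.mk (P.cons (P.cons (P.lf 0 206053878 0) (P.cons (P.lf 55888788 0 0) (P.cons (P.lf 7150692 0 0) (P.cons (P.lf 0 1432050 0) (P.cons (P.lf 0 50238 0) (P.cons (P.lf 8667 0 0) P.nil)))))) (P.cons (P.cons (P.lf 0 83189166 0) (P.cons (P.lf 12260556 0 0) (P.cons (P.lf 2341002 0 0) (P.cons (P.lf 0 340326 0) (P.cons (P.lf 0 13527 0) P.nil))))) (P.cons (P.cons (P.lf 26424357 0 0) (P.cons (P.lf 0 1305180 0) (P.cons (P.lf 0 606405 0) (P.cons (P.lf 48333 0 0) P.nil)))) (P.cons (P.cons (P.lf 5543046 0 0) (P.cons (P.lf 0 786186 0) (P.cons (P.lf 0 154353 0) P.nil))) (P.cons (P.cons (P.lf 0 759978 0) (P.cons (P.lf 0 70098 0) P.nil)) (P.cons (P.cons (P.lf 0 176670 0) P.nil) P.nil)))))) 116961)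
 EL.nil)))
noncomputable def S169_198_438_512_25 : EL := (EL.cons 4 (TM.mk (P.cons (P.cons (P.lf 0 520033425 0) (P.cons (P.lf 96161172 0 0) (P.cons (P.lf 1530528 0 0) (P.lf 0 510174 0)))) (P.cons (P.cons (P.lf 372230202 0 0) (P.cons (P.lf 0 23809626 0) (P.cons (P.lf 0 378960 0) (P.lf 126321 0 0)))) (P.cons (P.cons (P.lf 0 25381182 0) (P.cons (P.lf 0 6114030 0) (P.cons (P.lf 0 97311 0) (P.lf 32436 0 0)))) (P.cons (P.cons (P.lf 0 18780405 0) (P.cons (P.lf 1229601 0 0) (P.cons (P.lf 19569 0 0) P.nil))) (P.cons (P.cons (P.lf 1186473 0 0) (P.cons (P.lf 235296 0 0) P.nil)) (P.cons (P.cons (P.lf 512409 0 0) P.nil) P.nil)))))) 136428)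
 (EL.cons 8 (TM.mk (P.cons (P.cons (P.lf 218247159 0 0) (P.cons (P.lf 0 40356834 0) (P.cons (P.lf 0 642330 0) (P.lf 214110 0 0)))) (P.cons (P.cons (P.lf 0 209594031 0) (P.cons (P.lf 19862487 0 0) (P.cons (P.lf 316137 0 0) (P.lf 0 105378 0)))) (P.cons (P.cons (P.lf 52209825 0 0) (P.cons (P.lf 0 497700 0) (P.cons (P.lf 0 7920 0) (P.lf 2640 0 0)))) (P.cons (P.cons (P.lf 2490165 0 0) (P.cons (P.lf 0 918510 0) (P.cons (P.lf 0 14616 0) P.nil))) (P.cons (P.cons (P.lf 0 1952571 0) (P.cons (P.lf 43179 0 0) P.nil)) (P.cons (P.cons (P.lf 0 17331 0) P.nil) P.nil)))))) 106734)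
 (EL.cons 11 (TM.mk (P.cons (P.cons (P.lf 560465922 0 0) (P.cons (P.lf 20775705 0 0) (P.cons (P.lf 0 10294437 0) (P.cons (P.lf 0 93414 0) (P.lf 23352 0 0))))) (P.cons (P.cons (P.lf 0 92514708 0) (P.cons (P.lf 0 3429393 0) (P.cons (P.lf 1699275 0 0) (P.cons (P.lf 15420 0 0) (P.lf 0 3855 0))))) (P.cons (P.cons (P.lf 0 27574488 0) (P.cons (P.lf 0 1022145 0) (P.cons (P.lf 506475 0 0) (P.cons (P.lf 4593 0 0) P.nil)))) (P.cons (P.cons (P.lf 2396877 0 0) (P.cons (P.lf 88848 0 0) (P.cons (P.lf 0 44025 0) P.nil))) (P.cons (P.cons (P.lf 672513 0 0) (P.cons (P.lf 24927 0 0) P.nil)) (P.cons (P.cons (P.lf 0 2097 0) P.nil) P.nil)))))) 29175)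
 EL.nil)))
noncomputable def S169_198_438_512_26 : EL := (EL.cons 4 (TM.mk (P.cons (P.cons (P.lf 0 98423208 0) (P.cons (P.lf 48543894 0 0) (P.cons (P.lf 0 4838394 0) (P.cons (P.lf 0 436158 0) (P.cons (P.lf 58116 0 0) (P.cons (P.lf 945 0 0) P.nil)))))) (P.cons (P.cons (P.lf 30564399 0 0) (P.cons (P.lf 0 11475462 0) (P.cons (P.lf 0 157137 0) (P.cons (P.lf 61692 0 0) (P.cons (P.lf 0 264 0) P.nil))))) (P.cons (P.cons (P.lf 32385339 0 0) (P.cons (P.lf 0 8250231 0) (P.cons (P.lf 539298 0 0) (P.cons (P.lf 65118 0 0) P.nil)))) (P.cons (P.cons (P.lf 0 10859856 0) (P.cons (P.lf 1266525 0 0) (P.cons (P.lf 60207 0 0) P.nil))) (P.cons (P.cons (P.lf 0 1466478 0) (P.cons (P.lf 563271 0 0) P.nil)) (P.cons (P.cons (P.lf 587100 0 0) P.nil) P.nil)))))) 384864)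
 (EL.cons 8 (TM.mk (P.cons (P.cons (P.lf 41306163 0 0) (P.cons (P.lf 0 20372859 0) (P.cons (P.lf 2030571 0 0) (P.cons (P.lf 183045 0 0) (P.cons (P.lf 0 24390 0) (P.cons (P.lf 0 396 0) P.nil)))))) (P.cons (P.cons (P.lf 0 22929504 0) (P.cons (P.lf 9798609 0 0) (P.cons (P.lf 0 430668 0) (P.cons (P.lf 0 70659 0) (P.cons (P.lf 6075 0 0) P.nil))))) (P.cons (P.cons (P.lf 0 9819921 0) (P.cons (P.lf 1971714 0 0) (P.cons (P.lf 0 211275 0) (P.cons (P.lf 0 18183 0) P.nil)))) (P.cons (P.cons (P.lf 7611423 0 0) (P.cons (P.lf 0 1268229 0) (P.cons (P.lf 27492 0 0) P.nil))) (P.cons (P.cons (P.lf 0 679092 0) (P.cons (P.lf 0 64770 0) P.nil)) (P.cons (P.cons (P.lf 0 305289 0) P.nil) P.nil)))))) 185619)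
 (EL.cons 11 (TM.mk (P.cons (P.cons (P.lf 106075593 0 0) (P.cons (P.lf 0 28771293 0) (P.cons (P.lf 0 3681144 0) (P.cons (P.lf 737214 0 0) (P.cons (P.lf 25863 0 0) (P.cons (P.lf 0 4461 0) P.nil)))))) (P.cons (P.cons (P.lf 25476516 0 0) (P.cons (P.lf 0 1606071 0) (P.cons (P.lf 0 603078 0) (P.cons (P.lf 54624 0 0) (P.cons (P.lf 2733 0 0) P.nil))))) (P.cons (P.cons (P.lf 0 21626274 0) (P.cons (P.lf 1980564 0 0) (P.cons (P.lf 544638 0 0) (P.cons (P.lf 0 60615 0) P.nil)))) (P.cons (P.cons (P.lf 0 1013997 0) (P.cons (P.lf 348387 0 0) (P.cons (P.lf 39075 0 0) P.nil))) (P.cons (P.cons (P.lf 1003806 0 0) (P.cons (P.lf 0 39378 0) P.nil)) (P.cons (P.cons (P.lf 52983 0 0) P.nil) P.nil)))))) 115938)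
 EL.nil)))
noncomputable def S169_198_438_512_27 : EL := (EL.cons 13 (TM.mk (P.lf 0 4294967296 0) 0)
 EL.nil)
noncomputable def S169_198_438_512_28 : EL := (EL.cons 13 (TM.mk (P.cons (P.cons (P.lf 0 812879414 0) (P.cons (P.lf 250612760 0 0) (P.cons (P.lf 3988832 0 0) (P.lf 0 1329608 0)))) (P.cons (P.cons (P.lf 0 329411855 0) (P.cons (P.lf 60912680 0 0) (P.cons (P.lf 969504 0 0) (P.lf 0 323168 0)))) (P.cons (P.cons (P.lf 71358439 0 0) (P.cons (P.lf 1063916 0 0) (P.cons (P.lf 16932 0 0) (P.lf 0 5644 0)))) (P.cons (P.cons (P.lf 6818976 0 0) (P.cons (P.lf 0 857096 0) (P.cons (P.lf 0 13640 0) P.nil))) (P.cons (P.cons (P.lf 0 671861 0) (P.cons (P.lf 0 63436 0) P.nil)) (P.cons (P.cons (P.lf 0 94394 0) P.nil) P.nil)))))) 22881)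
 EL.nil)
noncomputable def S169_198_438_512_29 : EL := (EL.cons 13 (TM.mk (P.cons (P.cons (P.lf 0 153848189 0) (P.cons (P.lf 94863564 0 0) (P.cons (P.lf 0 13113458 0) (P.cons (P.lf 0 968791 0) (P.cons (P.lf 151461 0 0) (P.cons (P.lf 2469 0 0) P.nil)))))) (P.cons (P.cons (P.lf 0 124691108 0) (P.cons (P.lf 61499643 0 0) (P.cons (P.lf 0 6129702 0) (P.cons (P.lf 0 552565 0) (P.cons (P.lf 73627 0 0) P.nil))))) (P.cons (P.cons (P.lf 1746099 0 0) (P.cons (P.lf 1418804 0 0) (P.cons (P.lf 0 965462 0) (P.cons (P.lf 0 38978 0) P.nil)))) (P.cons (P.cons (P.lf 13527144 0 0) (P.cons (P.lf 0 2981072 0) (P.cons (P.lf 22398 0 0) P.nil))) (P.cons (P.cons (P.lf 0 393904 0) (P.cons (P.lf 0 305850 0) P.nil)) (P.cons (P.cons (P.lf 0 365377 0) P.nil) P.nil)))))) 228929)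
 EL.nil)
noncomputable def S169_198_438_512_30 : EL := (EL.cons 13 (TM.mk (P.cons (P.lf 2211029524 0 0) (P.cons (P.lf 0 361618480 0) (P.cons (P.lf 0 21238980 0) (P.cons (P.lf 543904 0 0) (P.cons (P.lf 97232 0 0) (P.cons (P.lf 1560 0 0) P.nil)))))) 512)
 EL.nil)
noncomputable def S169_198_438_512_31 : EL := (EL.cons 13 (TM.mk (P.cons (P.cons (P.lf 418466605 0 0) (P.cons (P.lf 0 129014302 0) (P.cons (P.lf 0 2053432 0) (P.lf 684476 0 0)))) (P.cons (P.cons (P.lf 101138632 0 0) (P.cons (P.lf 0 10257011 0) (P.cons (P.lf 0 163253 0) (P.lf 54417 0 0)))) (P.cons (P.cons (P.lf 0 68489871 0) (P.cons (P.lf 5820198 0 0) (P.cons (P.lf 92636 0 0) (P.lf 0 30878 0)))) (P.cons (P.cons (P.lf 971679 0 0) (P.cons (P.lf 800287 0 0) (P.cons (P.lf 12736 0 0) P.nil))) (P.cons (P.cons (P.lf 1332992 0 0) (P.cons (P.lf 0 47633 0) P.nil)) (P.cons (P.cons (P.lf 24462 0 0) P.nil) P.nil)))))) 44230)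
 EL.nil)
noncomputable def S169_198_438_512_32 : EL := (EL.cons 13 (TM.mk (P.cons (P.cons (P.lf 79200344 0 0) (P.cons (P.lf 0 48835328 0) (P.cons (P.lf 6750748 0 0) (P.cons (P.lf 498729 0 0) (P.cons (P.lf 0 77971 0) (P.cons (P.lf 0 1271 0) P.nil)))))) (P.cons (P.cons (P.lf 51237031 0 0) (P.cons (P.lf 0 23672615 0) (P.cons (P.lf 2051443 0 0) (P.cons (P.lf 202889 0 0) (P.cons (P.lf 0 25150 0) P.nil))))) (P.cons (P.cons (P.lf 0 12158151 0) (P.cons (P.lf 4916730 0 0) (P.cons (P.lf 0 83927 0) (P.cons (P.lf 0 31248 0) P.nil)))) (P.cons (P.cons (P.lf 0 7413822 0) (P.cons (P.lf 1946207 0 0) (P.cons (P.lf 0 121469 0) P.nil))) (P.cons (P.cons (P.lf 1369617 0 0) (P.cons (P.lf 0 96463 0) P.nil)) (P.cons (P.cons (P.lf 224479 0 0) P.nil) P.nil)))))) 241416)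
 EL.nil)
noncomputable def S169_198_438_512_33 : EL := (EL.cons 14 (TM.mk (P.lf 8589934592 0 0) 0)
 EL.nil)
noncomputable def S169_198_438_512_34 : EL := (EL.cons 14 (TM.mk (P.cons (P.cons (P.lf 1625758828 0 0) (P.cons (P.lf 0 501225520 0) (P.cons (P.lf 0 7977664 0) (P.lf 2659216 0 0)))) (P.cons (P.cons (P.lf 658823710 0 0) (P.cons (P.lf 0 121825360 0) (P.cons (P.lf 0 1939008 0) (P.lf 646336 0 0)))) (P.cons (P.cons (P.lf 0 142716878 0) (P.cons (P.lf 0 2127832 0) (P.cons (P.lf 0 33864 0) (P.lf 11288 0 0)))) (P.cons (P.cons (P.lf 0 13637952 0) (P.cons (P.lf 1714192 0 0) (P.cons (P.lf 27280 0 0) P.nil))) (P.cons (P.cons (P.lf 1343722 0 0) (P.cons (P.lf 126872 0 0) P.nil)) (P.cons (P.cons (P.lf 188788 0 0) P.nil) P.nil)))))) 45762)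
 EL.nil)
noncomputable def S169_198_438_512_35 : EL := (EL.cons 14 (TM.mk (P.cons (P.cons (P.lf 307696378 0 0) (P.cons (P.lf 0 189727128 0) (P.cons (P.lf 26226916 0 0) (P.cons (P.lf 1937582 0 0) (P.cons (P.lf 0 302922 0) (P.cons (P.lf 0 4938 0) P.nil)))))) (P.cons (P.cons (P.lf 249382216 0 0) (P.cons (P.lf 0 122999286 0) (P.cons (P.lf 12259404 0 0) (P.cons (P.lf 1105130 0 0) (P.cons (P.lf 0 147254 0) P.nil))))) (P.cons (P.cons (P.lf 0 3492198 0) (P.cons (P.lf 0 2837608 0) (P.cons (P.lf 1930924 0 0) (P.cons (P.lf 77956 0 0) P.nil)))) (P.cons (P.cons (P.lf 0 27054288 0) (P.cons (P.lf 5962144 0 0) (P.cons (P.lf 0 44796 0) P.nil))) (P.cons (P.cons (P.lf 787808 0 0) (P.cons (P.lf 611700 0 0) P.nil)) (P.cons (P.cons (P.lf 730754 0 0) P.nil) P.nil)))))) 457858)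
 EL.nil)
noncomputable def S169_198_438_512_36 : EL := (EL.cons 14 (TM.mk (P.cons (P.lf 0 4422059048 0) (P.cons (P.lf 723236960 0 0) (P.cons (P.lf 42477960 0 0) (P.cons (P.lf 0 1087808 0) (P.cons (P.lf 0 194464 0) (P.cons (P.lf 0 3120 0) P.nil)))))) 1024)
 EL.nil)
noncomputable def S169_198_438_512_37 : EL := (EL.cons 14 (TM.mk (P.cons (P.cons (P.lf 0 836933210 0) (P.cons (P.lf 258028604 0 0) (P.cons (P.lf 4106864 0 0) (P.lf 0 1368952 0)))) (P.cons (P.cons (P.lf 0 202277264 0) (P.cons (P.lf 20514022 0 0) (P.cons (P.lf 326506 0 0) (P.lf 0 108834 0)))) (P.cons (P.cons (P.lf 136979742 0 0) (P.cons (P.lf 0 11640396 0) (P.cons (P.lf 0 185272 0) (P.lf 61756 0 0)))) (P.cons (P.cons (P.lf 0 1943358 0) (P.cons (P.lf 0 1600574 0) (P.cons (P.lf 0 25472 0) P.nil))) (P.cons (P.cons (P.lf 0 2665984 0) (P.cons (P.lf 95266 0 0) P.nil)) (P.cons (P.cons (P.lf 0 48924 0) P.nil) P.nil))))))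 88460)
 EL.nil)
noncomputable def S169_198_438_512_38 : EL := (EL.cons 14 (TM.mk (P.cons (P.cons (P.lf 0 158400688 0) (P.cons (P.lf 97670656 0 0) (P.cons (P.lf 0 13501496 0) (P.cons (P.lf 0 997458 0) (P.cons (P.lf 155942 0 0) (P.cons (P.lf 2542 0 0) P.nil)))))) (P.cons (P.cons (P.lf 0 102474062 0) (P.cons (P.lf 47345230 0 0) (P.cons (P.lf 0 4102886 0) (P.cons (P.lf 0 405778 0) (P.cons (P.lf 50300 0 0) P.nil))))) (P.cons (P.cons (P.lf 24316302 0 0) (P.cons (P.lf 0 9833460 0) (P.cons (P.lf 167854 0 0) (P.cons (P.lf 62496 0 0) P.nil)))) (P.cons (P.cons (P.lf 14827644 0 0) (P.cons (P.lf 0 3892414 0) (P.cons (P.lf 242938 0 0) P.nil))) (P.cons (P.cons (P.lf 0 2739234 0) (P.cons (P.lf 192926 0 0) P.nil)) (P.cons (P.cons (P.lf 0 448958 0) P.nil) P.nil)))))) 482832)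
 EL.nil)
noncomputable def S169_198_438_512_39 : EL := (EL.cons 14 (TM.mk (P.cons (P.lf 2276455776 0 0) (P.cons (P.lf 0 744638158 0) (P.cons (P.lf 17158640 0 0) (P.cons (P.lf 8272934 0 0) (P.cons (P.lf 227096 0 0) (P.cons (P.lf 0 40292 0) P.nil)))))) 3922)
 EL.nil)
noncomputable def S169_198_438_512_40 : EL := (EL.cons 14 (TM.mk (P.cons (P.cons (P.lf 430849388 0 0) (P.cons (P.lf 0 132831946 0) (P.cons (P.lf 0 2114194 0) (P.lf 704730 0 0)))) (P.cons (P.cons (P.lf 33665096 0 0) (P.cons (P.lf 11164416 0 0) (P.cons (P.lf 177696 0 0) (P.lf 0 59230 0)))) (P.cons (P.cons (P.lf 0 91686160 0) (P.cons (P.lf 8995592 0 0) (P.cons (P.lf 143176 0 0) (P.lf 0 47724 0)))) (P.cons (P.cons (P.lf 11639268 0 0) (P.cons (P.lf 0 87336 0) (P.cons (P.lf 0 1390 0) P.nil))) (P.cons (P.cons (P.lf 1930752 0 0) (P.cons (P.lf 0 249806 0) P.nil)) (P.cons (P.cons (P.lf 0 221352 0) P.nil) P.nil))))))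 94798)
 EL.nil)
noncomputable def S169_198_438_512_41 : EL := (EL.cons 14 (TM.mk (P.cons (P.cons (P.lf 81543950 0 0) (P.cons (P.lf 0 50280408 0) (P.cons (P.lf 6950508 0 0) (P.cons (P.lf 513486 0 0) (P.cons (P.lf 0 80278 0) (P.cons (P.lf 0 1308 0) P.nil)))))) (P.cons (P.cons (P.lf 39416494 0 0) (P.cons (P.lf 0 16149642 0) (P.cons (P.lf 975376 0 0) (P.cons (P.lf 124910 0 0) (P.cons (P.lf 0 12764 0) P.nil))))) (P.cons (P.cons (P.lf 0 21929118 0) (P.cons (P.lf 9531482 0 0) (P.cons (P.lf 0 498622 0) (P.cons (P.lf 0 71270 0) P.nil)))) (P.cons (P.cons (P.lf 0 6072554 0) (P.cons (P.lf 1397618 0 0) (P.cons (P.lf 0 129510 0) P.nil))) (P.cons (P.cons (P.lf 2795380 0 0) (P.cons (P.lf 0 483876 0) P.nil)) (P.cons (P.cons (P.lf 73112 0 0) P.nil) P.nil)))))) 388756)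
 EL.nil)
noncomputable def S169_198_438_512_42 : EL := (EL.cons 14 (TM.mk (P.cons (P.lf 0 1171909022 0) (P.cons (P.lf 575004478 0 0) (P.cons (P.lf 0 60271372 0) (P.cons (P.lf 0 6784766 0) (P.cons (P.lf 707252 0 0) (P.cons (P.lf 94630 0 0) P.nil)))))) 9404)
 EL.nil)
noncomputable def S169_198_438_512_43 : EL := (EL.cons 14 (TM.mk (P.cons (P.cons (P.lf 0 221799294 0) (P.cons (P.lf 68381278 0 0) (P.cons (P.lf 1088378 0 0) (P.lf 0 362790 0)))) (P.cons (P.cons (P.lf 18945098 0 0) (P.cons (P.lf 0 16931290 0) (P.cons (P.lf 0 269484 0) (P.lf 89826 0 0)))) (P.cons (P.cons (P.lf 52164664 0 0) (P.cons (P.lf 0 4347756 0) (P.cons (P.lf 0 69200 0) (P.lf 23066 0 0)))) (P.cons (P.cons (P.lf 0 13599522 0) (P.cons (P.lf 874382 0 0) (P.cons (P.lf 13916 0 0) P.nil))) (P.cons (P.cons (P.lf 0 481376 0) (P.cons (P.lf 167322 0 0) P.nil)) (P.cons (P.cons (P.lf 344760 0 0) P.nil) P.nil))))))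 125326)
 EL.nil)
noncomputable def S169_198_438_512_44 : EL := (EL.cons 14 (TM.mk (P.cons (P.cons (P.lf 0 41978452 0) (P.cons (P.lf 25884124 0 0) (P.cons (P.lf 0 3578090 0) (P.cons (P.lf 0 264340 0) (P.cons (P.lf 41326 0 0) (P.cons (P.lf 672 0 0) P.nil)))))) (P.cons (P.cons (P.lf 0 13425768 0) (P.cons (P.lf 4080358 0 0) (P.cons (P.lf 83084 0 0) (P.cons (P.lf 0 21070 0) (P.cons (P.lf 0 186 0) P.nil))))) (P.cons (P.cons (P.lf 15010956 0 0) (P.cons (P.lf 0 6515136 0) (P.cons (P.lf 373182 0 0) (P.cons (P.lf 49746 0 0) P.nil)))) (P.cons (P.cons (P.lf 1464374 0 0) (P.cons (P.lf 9530 0 0) (P.cons (P.lf 28632 0 0) P.nil))) (P.cons (P.cons (P.lf 0 2065612 0) (P.cons (P.lf 417088 0 0) P.nil)) (P.cons (P.cons (P.lf 169546 0 0) P.nil) P.nil)))))) 356598)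
 EL.nil)
noncomputable def S169_198_438_512_45 : EL := (EL.cons 14 (TM.mk (P.cons (P.cons (P.lf 58235612 0 0) (P.cons (P.lf 0 53862554 0) (P.cons (P.lf 15748666 0 0) (P.cons (P.lf 0 892176 0) (P.cons (P.lf 0 253482 0) (P.cons (P.lf 23060 0 0) P.nil)))))) (P.cons (P.cons (P.lf 70798328 0 0) (P.cons (P.lf 0 56746166 0) (P.cons (P.lf 13898544 0 0) (P.cons (P.lf 0 472118 0) (P.cons (P.lf 0 212724 0) P.nil))))) (P.cons (P.cons (P.lf 13353766 0 0) (P.cons (P.lf 0 10227816 0) (P.cons (P.lf 2772696 0 0) (P.cons (P.lf 0 176474 0) P.nil)))) (P.cons (P.cons (P.lf 0 10020086 0) (P.cons (P.lf 4883346 0 0) (P.cons (P.lf 0 394838 0) P.nil))) (P.cons (P.cons (P.lf 0 2215666 0) (P.cons (P.lf 1178700 0 0) P.nil)) (P.cons (P.cons (P.lf 699536 0 0) P.nil) P.nil)))))) 1008986)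
 EL.nil)
noncomputable def S169_198_438_512_46 : EL := (EL.cons 15 (TM.mk (P.lf 4294967296 0 0) 0)
 EL.nil)
noncomputable def S169_198_438_512_47 : EL := (EL.cons 15 (TM.mk (P.cons (P.cons (P.lf 812879414 0 0) (P.cons (P.lf 0 250612760 0) (P.cons (P.lf 0 3988832 0) (P.lf 1329608 0 0)))) (P.cons (P.cons (P.lf 329411855 0 0) (P.cons (P.lf 0 60912680 0) (P.cons (P.lf 0 969504 0) (P.lf 323168 0 0)))) (P.cons (P.cons (P.lf 0 71358439 0) (P.cons (P.lf 0 1063916 0) (P.cons (P.lf 0 16932 0) (P.lf 5644 0 0)))) (P.cons (P.cons (P.lf 0 6818976 0) (P.cons (P.lf 857096 0 0) (P.cons (P.lf 13640 0 0) P.nil))) (P.cons (P.cons (P.lf 671861 0 0) (P.cons (P.lf 63436 0 0) P.nil)) (P.cons (P.cons (P.lf 94394 0 0) P.nil) P.nil)))))) 22881)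
 EL.nil)
noncomputable def S169_198_438_512_48 : EL := (EL.cons 15 (TM.mk (P.cons (P.cons (P.lf 153848189 0 0) (P.cons (P.lf 0 94863564 0) (P.cons (P.lf 13113458 0 0) (P.cons (P.lf 968791 0 0) (P.cons (P.lf 0 151461 0) (P.cons (P.lf 0 2469 0) P.nil)))))) (P.cons (P.cons (P.lf 124691108 0 0) (P.cons (P.lf 0 61499643 0) (P.cons (P.lf 6129702 0 0) (P.cons (P.lf 552565 0 0) (P.cons (P.lf 0 73627 0) P.nil))))) (P.cons (P.cons (P.lf 0 1746099 0) (P.cons (P.lf 0 1418804 0) (P.cons (P.lf 965462 0 0) (P.cons (P.lf 38978 0 0) P.nil)))) (P.cons (P.cons (P.lf 0 13527144 0) (P.cons (P.lf 2981072 0 0) (P.cons (P.lf 0 22398 0) P.nil))) (P.cons (P.cons (P.lf 393904 0 0) (P.cons (P.lf 305850 0 0) P.nil)) (P.cons (P.cons (P.lf 365377 0 0) P.nil) P.nil)))))) 228929)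
 EL.nil)
noncomputable def S169_198_438_512 : SL := (SL.cons S169_198_438_512_0 (SL.cons S169_198_438_512_1 (SL.cons S169_198_438_512_2 (SL.cons S169_198_438_512_3 (SL.cons S169_198_438_512_4 (SL.cons S169_198_438_512_5 (SL.cons S169_198_438_512_6 (SL.cons S169_198_438_512_7 (SL.cons S169_198_438_512_8 (SL.cons S169_198_438_512_9 (SL.cons S169_198_438_512_10 (SL.cons S169_198_438_512_11 (SL.cons S169_198_438_512_12 (SL.cons S169_198_438_512_13 (SL.cons S169_198_438_512_14 (SL.cons S169_198_438_512_15 (SL.cons S169_198_438_512_16 (SL.cons S169_198_438_512_17 (SL.cons S169_198_438_512_18 (SL.cons S169_198_438_512_19 (SL.cons S169_198_438_512_20 (SL.cons S169_198_438_512_21 (SL.cons S169_198_438_512_22 (SL.cons S169_198_438_512_23 (SL.cons S169_198_438_512_24 (SL.cons S169_198_438_512_25 (SL.cons S169_198_438_512_26 (SL.cons S169_198_438_512_27 (SL.cons S169_198_438_512_28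 (SL.cons S169_198_438_512_29 (SL.cons S169_198_438_512_30 (SL.cons S169_198_438_512_31 (SL.cons S169_198_438_512_32 (SL.cons S169_198_438_512_33 (SL.cons S169_198_438_512_34 (SL.cons S169_198_438_512_35 (SL.cons S169_198_438_512_36 (SL.cons S169_198_438_512_37 (SL.cons S169_198_438_512_38 (SL.cons S169_198_438_512_39 (SL.cons S169_198_438_512_40 (SL.cons S169_198_438_512_41 (SL.cons S169_198_438_512_42 (SL.cons S169_198_438_512_43 (SL.cons S169_198_438_512_44 (SL.cons S169_198_438_512_45 (SL.cons S169_198_438_512_46 (SL.cons S169_198_438_512_47 (SL.cons S169_198_438_512_48 SL.nil)))))))))))))))))))))))))))))))))))))))))))))))))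
noncomputable def S169_198_512_586_0 : EL := (EL.cons 0 (TM.mk (P.cons (P.lf 6454925654 0 0) (P.cons (P.lf 654467131 0 0) (P.cons (P.lf 0 15080835 0) (P.cons (P.lf 0 7271133 0) (P.cons (P.lf 0 199596 0) (P.cons (P.lf 35412 0 0) P.nil)))))) 3454)
 (EL.cons 1 (TM.mk (P.cons (P.lf 0 1695086628 0) (P.cons (P.lf 139901857 0 0) (P.cons (P.lf 47471786 0 0) (P.cons (P.lf 293435 0 0) (P.cons (P.lf 0 328029 0) (P.cons (P.lf 0 15684 0) P.nil)))))) 1940)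
 (EL.cons 5 (TM.mk (P.cons (P.lf 5006359730 0 0) (P.cons (P.lf 0 232699422 0) (P.cons (P.lf 5362070 0 0) (P.cons (P.lf 2585292 0 0) (P.cons (P.lf 70970 0 0) (P.cons (P.lf 0 12590 0) P.nil)))))) 1169)
 (EL.cons 9 (TM.mk (P.lf 6442450944 0 0) 2)
 EL.nil))))
noncomputable def S169_198_512_586_1 : EL := (EL.cons 0 (TM.mk (P.cons (P.cons (P.lf 0 725771344 0) (P.cons (P.lf 0 26406564 0) (P.cons (P.lf 420302 0 0) (P.lf 140100 0 0)))) (P.cons (P.cons (P.lf 1343184943 0 0) (P.cons (P.lf 0 159171738 0) (P.cons (P.lf 2533423 0 0) (P.lf 844472 0 0)))) (P.cons (P.cons (P.lf 0 67626934 0) (P.cons (P.lf 0 33719708 0) (P.cons (P.lf 536683 0 0) (P.lf 178887 0 0)))) (P.cons (P.cons (P.lf 0 67628800 0) (P.cons (P.lf 1994449 0 0) (P.cons (P.lf 0 31742 0) P.nil))) (P.cons (P.cons (P.lf 0 1470177 0) (P.cons (P.lf 1003110 0 0) P.nil)) (P.cons (P.cons (P.lf 1288792 0 0) P.nil) P.nil))))))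 403691)
 (EL.cons 1 (TM.mk (P.cons (P.cons (P.lf 0 374460671 0) (P.cons (P.lf 173777850 0 0) (P.cons (P.lf 0 2765901 0) (P.lf 0 921961 0)))) (P.cons (P.cons (P.lf 0 44330263 0) (P.cons (P.lf 63844092 0 0) (P.cons (P.lf 0 1016155 0) (P.lf 0 338712 0)))) (P.cons (P.cons (P.lf 176096508 0 0) (P.cons (P.lf 0 8497881 0) (P.cons (P.lf 135257 0 0) (P.lf 45083 0 0)))) (P.cons (P.cons (P.lf 4175818 0 0) (P.cons (P.lf 0 3698559 0) (P.cons (P.lf 58859 0 0) P.nil))) (P.cons (P.cons (P.lf 0 5630318 0) (P.cons (P.lf 0 56509 0) P.nil)) (P.cons (P.cons (P.lf 0 330429 0) P.nil) P.nil)))))) 246366)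
 (EL.cons 5 (TM.mk (P.cons (P.cons (P.lf 778822295 0 0) (P.cons (P.lf 0 416652696 0) (P.cons (P.lf 6631578 0 0) (P.lf 2210522 0 0)))) (P.cons (P.cons (P.lf 0 126877369 0) (P.cons (P.lf 0 46957168 0) (P.cons (P.lf 747390 0 0) (P.lf 249136 0 0)))) (P.cons (P.cons (P.lf 0 100919916 0) (P.cons (P.lf 10180566 0 0) (P.cons (P.lf 0 162030 0) (P.lf 0 54006 0)))) (P.cons (P.cons (P.lf 15398572 0 0) (P.cons (P.lf 747928 0 0) (P.cons (P.lf 0 11912 0) P.nil))) (P.cons (P.cons (P.lf 1882875 0 0) (P.cons (P.lf 0 248814 0) P.nil)) (P.cons (P.cons (P.lf 0 313097 0) P.nil) P.nil)))))) 198548)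
 (EL.cons 9 (TM.mk (P.cons (P.cons (P.lf 459503169 0 0) (P.cons (P.lf 0 375919140 0) (P.cons (P.lf 5983248 0 0) (P.lf 1994412 0 0)))) (P.cons (P.cons (P.lf 309440734 0 0) (P.cons (P.lf 0 91369020 0) (P.cons (P.lf 1454256 0 0) (P.lf 484752 0 0)))) (P.cons (P.cons (P.lf 0 110263270 0) (P.cons (P.lf 0 1595874 0) (P.cons (P.lf 25398 0 0) (P.lf 8466 0 0)))) (P.cons (P.cons (P.lf 0 7629900 0) (P.cons (P.lf 1285644 0 0) (P.cons (P.lf 0 20460 0) P.nil))) (P.cons (P.cons (P.lf 1200115 0 0) (P.cons (P.lf 95154 0 0) P.nil)) (P.cons (P.cons (P.lf 128055 0 0) P.nil) P.nil)))))) 34340)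
 (EL.cons 2 (TM.mk (P.cons (P.cons (P.lf 1020671074 0 0) (P.cons (P.lf 0 37834883 0) (P.cons (P.lf 0 18747320 0) (P.cons (P.lf 170116 0 0) (P.lf 42527 0 0))))) (P.cons (P.cons (P.lf 0 1546745 0) (P.cons (P.lf 57335 0 0) (P.cons (P.lf 28409 0 0) (P.cons (P.lf 0 258 0) (P.lf 0 64 0))))) (P.cons (P.cons (P.lf 0 40664708 0) (P.cons (P.lf 1507381 0 0) (P.cons (P.lf 746912 0 0) (P.cons (P.lf 0 6775 0) P.nil)))) (P.cons (P.cons (P.lf 0 2551750 0) (P.cons (P.lf 94587 0 0) (P.cons (P.lf 46867 0 0) P.nil))) (P.cons (P.cons (P.lf 372254 0 0) (P.cons (P.lf 0 13798 0) P.nil)) (P.cons (P.cons (P.lf 41900 0 0) P.nil) P.nil)))))) 18299)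
 (EL.cons 6 (TM.mk (P.cons (P.cons (P.lf 864720858 0 0) (P.cons (P.lf 0 32054022 0) (P.cons (P.lf 0 15882882 0) (P.cons (P.lf 144126 0 0) (P.lf 36030 0 0))))) (P.cons (P.cons (P.lf 210174717 0 0) (P.cons (P.lf 0 7790889 0) (P.cons (P.lf 0 3860412 0) (P.cons (P.lf 35028 0 0) (P.lf 8754 0 0))))) (P.cons (P.cons (P.lf 3670965 0 0) (P.cons (P.lf 0 136077 0) (P.cons (P.lf 0 67425 0) (P.cons (P.lf 612 0 0) P.nil)))) (P.cons (P.cons (P.lf 0 2957346 0) (P.cons (P.lf 109623 0 0) (P.cons (P.lf 54318 0 0) P.nil))) (P.cons (P.cons (P.lf 0 218892 0) (P.cons (P.lf 8112 0 0) P.nil)) (P.cons (P.cons (P.lf 15414 0 0) P.nil) P.nil)))))) 10425)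
 EL.nil))))))
noncomputable def S169_198_512_586_2 : EL := (EL.cons 0 (TM.mk (P.cons (P.cons (P.lf 0 136367419 0) (P.cons (P.lf 134659291 0 0) (P.cons (P.lf 0 21039092 0) (P.cons (P.lf 0 112926 0) (P.cons (P.lf 195705 0 0) (P.cons (P.lf 0 3185 0) P.nil)))))) (P.cons (P.cons (P.lf 74327464 0 0) (P.cons (P.lf 0 106718333 0) (P.cons (P.lf 8111255 0 0) (P.cons (P.lf 362046 0 0) (P.cons (P.lf 0 66426 0) P.nil))))) (P.cons (P.cons (P.lf 140687081 0 0) (P.cons (P.lf 0 48047444 0) (P.cons (P.lf 6710990 0 0) (P.cons (P.lf 65617 0 0) P.nil)))) (P.cons (P.cons (P.lf 0 48470503 0) (P.cons (P.lf 6787830 0 0) (P.cons (P.lf 688096 0 0) P.nil))) (P.cons (P.cons (P.lf 0 7935942 0) (P.cons (P.lf 3766180 0 0) P.nil)) (P.cons (P.cons (P.lf 2432045 0 0) P.nil) P.nil)))))) 2216028)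
 (EL.cons 1 (TM.mk (P.cons (P.cons (P.lf 0 44793101 0) (P.cons (P.lf 54379757 0 0) (P.cons (P.lf 0 15374146 0) (P.cons (P.lf 173332 0 0) (P.cons (P.lf 150273 0 0) (P.cons (P.lf 0 2443 0) P.nil)))))) (P.cons (P.cons (P.lf 0 31393077 0) (P.cons (P.lf 29829411 0 0) (P.cons (P.lf 0 10525381 0) (P.cons (P.lf 161674 0 0) (P.cons (P.lf 104095 0 0) P.nil))))) (P.cons (P.cons (P.lf 32251378 0 0) (P.cons (P.lf 0 17656497 0) (P.cons (P.lf 0 627506 0) (P.cons (P.lf 122593 0 0) P.nil)))) (P.cons (P.cons (P.lf 16535176 0 0) (P.cons (P.lf 0 8204877 0) (P.cons (P.lf 701658 0 0) P.nil))) (P.cons (P.cons (P.lf 0 5855915 0) (P.cons (P.lf 217336 0 0) P.nil)) (P.cons (P.cons (P.lf 0 1015933 0) P.nil) P.nil)))))) 1237923)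
 (EL.cons 5 (TM.mk (P.cons (P.cons (P.lf 85629757 0 0) (P.cons (P.lf 0 108653088 0) (P.cons (P.lf 33307531 0 0) (P.cons (P.lf 0 428752 0) (P.cons (P.lf 0 327065 0) (P.cons (P.lf 5327 0 0) P.nil)))))) (P.cons (P.cons (P.lf 23599248 0 0) (P.cons (P.lf 0 17754052 0) (P.cons (P.lf 10087042 0 0) (P.cons (P.lf 0 217899 0) (P.cons (P.lf 0 101544 0) P.nil))))) (P.cons (P.cons (P.lf 0 51003516 0) (P.cons (P.lf 21461544 0 0) (P.cons (P.lf 0 776129 0) (P.cons (P.lf 0 100021 0) P.nil)))) (P.cons (P.cons (P.lf 3995905 0 0) (P.cons (P.lf 2174394 0 0) (P.cons (P.lf 0 436416 0) P.nil))) (P.cons (P.cons (P.lf 4323800 0 0) (P.cons (P.lf 0 1035264 0) P.nil)) (P.cons (P.cons (P.lf 0 417357 0) P.nil) P.nil)))))) 1129580)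
 (EL.cons 9 (TM.mk (P.cons (P.cons (P.lf 32773731 0 0) (P.cons (P.lf 0 53624322 0) (P.cons (P.lf 22788507 0 0) (P.cons (P.lf 0 413748 0) (P.cons (P.lf 0 227191 0) (P.cons (P.lf 3703 0 0) P.nil)))))) (P.cons (P.cons (P.lf 44141274 0 0) (P.cons (P.lf 0 49145596 0) (P.cons (P.lf 11445040 0 0) (P.cons (P.lf 0 78687 0) (P.cons (P.lf 0 110440 0) P.nil))))) (P.cons (P.cons (P.lf 0 865986 0) (P.cons (P.lf 3862960 0 0) (P.cons (P.lf 1420581 0 0) (P.cons (P.lf 0 67671 0) P.nil)))) (P.cons (P.cons (P.lf 0 11680618 0) (P.cons (P.lf 4048086 0 0) (P.cons (P.lf 0 169198 0) P.nil))) (P.cons (P.cons (P.lf 1325410 0 0) (P.cons (P.lf 268068 0 0) P.nil)) (P.cons (P.cons (P.lf 394726 0 0) P.nil) P.nil)))))) 316976)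
 (EL.cons 2 (TM.mk (P.cons (P.cons (P.lf 145597252 0 0) (P.cons (P.lf 0 124510078 0) (P.cons (P.lf 3636916 0 0) (P.cons (P.lf 2773760 0 0) (P.cons (P.lf 0 72028 0) (P.cons (P.lf 0 16250 0) P.nil)))))) (P.cons (P.cons (P.lf 97828126 0 0) (P.cons (P.lf 0 32396850 0) (P.cons (P.lf 0 272469 0) (P.cons (P.lf 680411 0 0) (P.cons (P.lf 0 14782 0) P.nil))))) (P.cons (P.cons (P.lf 0 40887146 0) (P.cons (P.lf 5799431 0 0) (P.cons (P.lf 524019 0 0) (P.cons (P.lf 0 105693 0) P.nil)))) (P.cons (P.cons (P.lf 0 6635025 0) (P.cons (P.lf 2105313 0 0) (P.cons (P.lf 23349 0 0) P.nil))) (P.cons (P.cons (P.lf 1583859 0 0) (P.cons (P.lf 19901 0 0) P.nil)) (P.cons (P.cons (P.lf 265398 0 0) P.nil) P.nil)))))) 214137)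
 (EL.cons 6 (TM.mk (P.cons (P.cons (P.lf 123351180 0 0) (P.cons (P.lf 0 105485952 0) (P.cons (P.lf 3081222 0 0) (P.cons (P.lf 2349948 0 0) (P.cons (P.lf 0 61020 0) (P.cons (P.lf 0 13770 0) P.nil)))))) (P.cons (P.cons (P.lf 113048838 0 0) (P.cons (P.lf 0 53245620 0) (P.cons (P.lf 522732 0 0) (P.cons (P.lf 1151178 0 0) (P.cons (P.lf 0 27450 0) P.nil))))) (P.cons (P.cons (P.lf 0 8885904 0) (P.cons (P.lf 0 6488952 0) (P.cons (P.lf 524478 0 0) (P.cons (P.lf 155904 0 0) P.nil)))) (P.cons (P.cons (P.lf 0 9311748 0) (P.cons (P.lf 827166 0 0) (P.cons (P.lf 145494 0 0) P.nil))) (P.cons (P.cons (P.lf 0 616632 0) (P.cons (P.lf 239892 0 0) P.nil)) (P.cons (P.cons (P.lf 186384 0 0) P.nil) P.nil)))))) 173670)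
 EL.nil))))))
noncomputable def S169_198_512_586_3 : EL := (EL.cons 0 (TM.mk (P.cons (P.lf 2000791209 0 0) (P.cons (P.lf 0 654467131 0) (P.cons (P.lf 15080835 0 0) (P.cons (P.lf 7271133 0 0) (P.cons (P.lf 199596 0 0) (P.cons (P.lf 0 35412 0) P.nil)))))) 3454)
 (EL.cons 1 (TM.mk (P.cons (P.lf 1695086628 0 0) (P.cons (P.lf 0 139901857 0) (P.cons (P.lf 0 47471786 0) (P.cons (P.lf 0 293435 0) (P.cons (P.lf 328029 0 0) (P.cons (P.lf 15684 0 0) P.nil)))))) 1940)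
 (EL.cons 5 (TM.mk (P.cons (P.lf 1436091214 0 0) (P.cons (P.lf 232699422 0 0) (P.cons (P.lf 0 5362070 0) (P.cons (P.lf 0 2585292 0) (P.cons (P.lf 0 70970 0) (P.cons (P.lf 12590 0 0) P.nil)))))) 1162)
 EL.nil)))
noncomputable def S169_198_512_586_4 : EL := (EL.cons 0 (TM.mk (P.cons (P.cons (P.lf 142704989 0 0) (P.cons (P.lf 0 116746827 0) (P.cons (P.lf 1858178 0 0) (P.lf 619391 0 0)))) (P.cons (P.cons (P.lf 49421652 0 0) (P.cons (P.lf 9812475 0 0) (P.cons (P.lf 0 156178 0) (P.lf 0 52057 0)))) (P.cons (P.cons (P.lf 0 64603188 0) (P.cons (P.lf 7906282 0 0) (P.cons (P.lf 0 125838 0) (P.lf 0 41944 0)))) (P.cons (P.cons (P.lf 10074672 0 0) (P.cons (P.lf 0 76760 0) (P.cons (P.lf 1221 0 0) P.nil))) (P.cons (P.cons (P.lf 1253176 0 0) (P.cons (P.lf 0 219556 0) P.nil)) (P.cons (P.cons (P.lf 0 217390 0) P.nil) P.nil)))))) 78159)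
 (EL.cons 1 (TM.mk (P.cons (P.cons (P.lf 120900830 0 0) (P.cons (P.lf 0 98908863 0) (P.cons (P.lf 1574263 0 0) (P.lf 524752 0 0)))) (P.cons (P.cons (P.lf 71439193 0 0) (P.cons (P.lf 0 15876971 0) (P.cons (P.lf 252701 0 0) (P.lf 84232 0 0)))) (P.cons (P.cons (P.lf 0 39117187 0) (P.cons (P.lf 4334235 0 0) (P.cons (P.lf 0 68985 0) (P.lf 0 22993 0)))) (P.cons (P.cons (P.lf 0 1914153 0) (P.cons (P.lf 1063305 0 0) (P.cons (P.lf 0 16921 0) P.nil))) (P.cons (P.cons (P.lf 1303239 0 0) (P.cons (P.lf 0 6101 0) P.nil)) (P.cons (P.cons (P.lf 85749 0 0) P.nil) P.nil)))))) 56115)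
 (EL.cons 5 (TM.mk (P.cons (P.cons (P.lf 102428170 0 0) (P.cons (P.lf 0 83796396 0) (P.cons (P.lf 1333728 0 0) (P.lf 444574 0 0)))) (P.cons (P.cons (P.lf 85574766 0 0) (P.cons (P.lf 0 33945218 0) (P.cons (P.lf 540282 0 0) (P.lf 180092 0 0)))) (P.cons (P.cons (P.lf 0 13784398 0) (P.cons (P.lf 0 3343080 0) (P.cons (P.lf 53208 0 0) (P.lf 17736 0 0)))) (P.cons (P.cons (P.lf 0 6125404 0) (P.cons (P.lf 455840 0 0) (P.cons (P.lf 0 7252 0) P.nil))) (P.cons (P.cons (P.lf 0 45536 0) (P.cons (P.lf 109782 0 0) P.nil)) (P.cons (P.cons (P.lf 119978 0 0) P.nil) P.nil)))))) 40872)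
 EL.nil)))
noncomputable def S169_198_512_586_5 : EL := (EL.cons 0 (TM.mk (P.cons (P.cons (P.lf 10178328 0 0) (P.cons (P.lf 0 16653765 0) (P.cons (P.lf 7077281 0 0) (P.cons (P.lf 0 128494 0) (P.cons (P.lf 0 70556 0) (P.cons (P.lf 1149 0 0) P.nil)))))) (P.cons (P.cons (P.lf 10379300 0 0) (P.cons (P.lf 0 9815319 0) (P.cons (P.lf 1239403 0 0) (P.cons (P.lf 17593 0 0) (P.cons (P.lf 0 11218 0) P.nil))))) (P.cons (P.cons (P.lf 0 4676389 0) (P.cons (P.lf 6066704 0 0) (P.cons (P.lf 0 668137 0) (P.cons (P.lf 0 13990 0) P.nil)))) (P.cons (P.cons (P.lf 0 3399284 0) (P.cons (P.lf 689197 0 0) (P.cons (P.lf 0 144348 0) P.nil))) (P.cons (P.cons (P.lf 1647026 0 0) (P.cons (P.lf 0 376064 0) P.nil)) (P.cons (P.cons (P.lf 0 39188 0) P.nil) P.nil)))))) 298488)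
 (EL.cons 1 (TM.mk (P.cons (P.cons (P.lf 8623162 0 0) (P.cons (P.lf 0 14109204 0) (P.cons (P.lf 5995929 0 0) (P.cons (P.lf 0 108860 0) (P.cons (P.lf 0 59775 0) (P.cons (P.lf 973 0 0) P.nil)))))) (P.cons (P.cons (P.lf 10902399 0 0) (P.cons (P.lf 0 11766313 0) (P.cons (P.lf 2516460 0 0) (P.cons (P.lf 0 11716 0) (P.cons (P.lf 0 24123 0) P.nil))))) (P.cons (P.cons (P.lf 0 1427900 0) (P.cons (P.lf 2478753 0 0) (P.cons (P.lf 0 42682 0) (P.cons (P.lf 0 13046 0) P.nil)))) (P.cons (P.cons (P.lf 0 3381256 0) (P.cons (P.lf 1345788 0 0) (P.cons (P.lf 0 160738 0) P.nil))) (P.cons (P.cons (P.lf 608420 0 0) (P.cons (P.lf 0 46329 0) P.nil)) (P.cons (P.cons (P.lf 163509 0 0) P.nil) P.nil)))))) 227470)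
 (EL.cons 5 (TM.mk (P.cons (P.cons (P.lf 7305614 0 0) (P.cons (P.lf 0 11953434 0) (P.cons (P.lf 5079800 0 0) (P.cons (P.lf 0 92228 0) (P.cons (P.lf 0 50642 0) (P.cons (P.lf 824 0 0) P.nil)))))) (P.cons (P.cons (P.lf 11023338 0 0) (P.cons (P.lf 0 12891972 0) (P.cons (P.lf 3374334 0 0) (P.cons (P.lf 0 32484 0) (P.cons (P.lf 0 32824 0) P.nil))))) (P.cons (P.cons (P.lf 1374054 0 0) (P.cons (P.lf 0 869396 0) (P.cons (P.lf 711086 0 0) (P.cons (P.lf 0 17582 0) P.nil)))) (P.cons (P.cons (P.lf 0 2684904 0) (P.cons (P.lf 1104312 0 0) (P.cons (P.lf 0 5074 0) P.nil))) (P.cons (P.cons (P.lf 0 143806 0) (P.cons (P.lf 223068 0 0) P.nil)) (P.cons (P.cons (P.lf 145508 0 0) P.nil) P.nil)))))) 159000)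
 EL.nil)))
noncomputable def S169_198_512_586_6 : EL := (EL.cons 12 (TM.mk (P.lf 8589934592 0 0) 0)
 (EL.cons 3 (TM.mk (P.cons (P.lf 0 2072840178 0) (P.cons (P.lf 339017325 0 0) (P.cons (P.lf 19911543 0 0) (P.cons (P.lf 0 509910 0) (P.cons (P.lf 0 91155 0) (P.cons (P.lf 0 1462 0) P.nil)))))) 487)
 (EL.cons 7 (TM.mk (P.cons (P.lf 0 1756127103 0) (P.cons (P.lf 0 142278485 0) (P.cons (P.lf 9042093 0 0) (P.cons (P.lf 848140 0 0) (P.cons (P.lf 0 2043 0) (P.cons (P.lf 0 3166 0) P.nil)))))) 195)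
 EL.nil)))
noncomputable def S169_198_512_586_7 : EL := (EL.cons 12 (TM.mk (P.cons (P.cons (P.lf 612670892 0 0) (P.cons (P.lf 0 501225520 0) (P.cons (P.lf 7977664 0 0) (P.lf 2659216 0 0)))) (P.cons (P.cons (P.lf 412587646 0 0) (P.cons (P.lf 0 121825360 0) (P.cons (P.lf 1939008 0 0) (P.lf 646336 0 0)))) (P.cons (P.cons (P.lf 0 147017694 0) (P.cons (P.lf 0 2127832 0) (P.cons (P.lf 33864 0 0) (P.lf 11288 0 0)))) (P.cons (P.cons (P.lf 0 10173200 0) (P.cons (P.lf 1714192 0 0) (P.cons (P.lf 0 27280 0) P.nil))) (P.cons (P.cons (P.lf 1600154 0 0) (P.cons (P.lf 126872 0 0) P.nil)) (P.cons (P.cons (P.lf 170740 0 0) P.nil) P.nil)))))) 45762)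
 (EL.cons 3 (TM.mk (P.cons (P.cons (P.lf 1081034497 0 0) (P.cons (P.lf 0 241901816 0) (P.cons (P.lf 3850184 0 0) (P.lf 1283392 0 0)))) (P.cons (P.cons (P.lf 0 896384395 0) (P.cons (P.lf 0 19231894 0) (P.cons (P.lf 306098 0 0) (P.lf 102030 0 0)))) (P.cons (P.cons (P.lf 0 82231839 0) (P.cons (P.lf 10912870 0 0) (P.cons (P.lf 0 173692 0) (P.lf 0 57896 0)))) (P.cons (P.cons (P.lf 16488628 0 0) (P.cons (P.lf 1500538 0 0) (P.cons (P.lf 0 23880 0) P.nil))) (P.cons (P.cons (P.lf 2638192 0 0) (P.cons (P.lf 0 89310 0) P.nil)) (P.cons (P.cons (P.lf 0 61887 0) P.nil) P.nil)))))) 169592)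
 (EL.cons 7 (TM.mk (P.cons (P.cons (P.lf 0 640989053 0) (P.cons (P.lf 254752309 0 0) (P.cons (P.lf 0 4054720 0) (P.lf 0 1351574 0)))) (P.cons (P.cons (P.lf 376193798 0 0) (P.cons (P.lf 8071228 0 0) (P.cons (P.lf 0 128465 0) (P.lf 0 42823 0)))) (P.cons (P.cons (P.lf 0 11491943 0) (P.cons (P.lf 0 5566891 0) (P.cons (P.lf 88602 0 0) (P.lf 29533 0 0)))) (P.cons (P.cons (P.lf 0 10621024 0) (P.cons (P.lf 158311 0 0) (P.cons (P.lf 0 2518 0) P.nil))) (P.cons (P.cons (P.lf 260213 0 0) (P.cons (P.lf 114242 0 0) P.nil)) (P.cons (P.cons (P.lf 165438 0 0) P.nil) P.nil)))))) 103299)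
 (EL.cons 10 (TM.mk (P.cons (P.cons (P.lf 0 2114851368 0) (P.cons (P.lf 78394656 0 0) (P.cons (P.lf 38844834 0 0) (P.cons (P.lf 0 352491 0) (P.lf 0 88122 0))))) (P.cons (P.cons (P.lf 0 342683448 0) (P.cons (P.lf 12702807 0 0) (P.cons (P.lf 6294285 0 0) (P.cons (P.lf 0 57114 0) (P.lf 0 14277 0))))) (P.cons (P.cons (P.lf 7896420 0 0) (P.cons (P.lf 0 292707 0) (P.cons (P.lf 0 145038 0) (P.cons (P.lf 1314 0 0) P.nil)))) (P.cons (P.cons (P.lf 3807213 0 0) (P.cons (P.lf 0 141126 0) (P.cons (P.lf 0 69927 0) P.nil))) (P.cons (P.cons (P.lf 104511 0 0) (P.cons (P.lf 0 3873 0) P.nil)) (P.cons (P.cons (P.lf 0 18540 0) P.nil) P.nil)))))) 6009)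
 EL.nil))))
noncomputable def S169_198_512_586_8 : EL := (EL.cons 12 (TM.mk (P.cons (P.cons (P.lf 43698308 0 0) (P.cons (P.lf 0 71499096 0) (P.cons (P.lf 30384676 0 0) (P.cons (P.lf 0 551664 0) (P.cons (P.lf 0 302922 0) (P.cons (P.lf 4938 0 0) P.nil)))))) (P.cons (P.cons (P.lf 58855032 0 0) (P.cons (P.lf 0 65527462 0) (P.cons (P.lf 15260054 0 0) (P.cons (P.lf 0 104916 0) (P.cons (P.lf 0 147254 0) P.nil))))) (P.cons (P.cons (P.lf 0 1154648 0) (P.cons (P.lf 5150614 0 0) (P.cons (P.lf 1894108 0 0) (P.cons (P.lf 0 90228 0) P.nil)))) (P.cons (P.cons (P.lf 0 15574158 0) (P.cons (P.lf 5397448 0 0) (P.cons (P.lf 0 225598 0) P.nil))) (P.cons (P.cons (P.lf 1767214 0 0) (P.cons (P.lf 357424 0 0) P.nil)) (P.cons (P.cons (P.lf 526302 0 0) P.nil) P.nil)))))) 422606)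
 (EL.cons 3 (TM.mk (P.cons (P.cons (P.lf 164752863 0 0) (P.cons (P.lf 0 177917859 0) (P.cons (P.lf 38119424 0 0) (P.cons (P.lf 0 179364 0) (P.cons (P.lf 0 365491 0) (P.cons (P.lf 5955 0 0) P.nil)))))) (P.cons (P.cons (P.lf 0 11542781 0) (P.cons (P.lf 34973611 0 0) (P.cons (P.lf 10825649 0 0) (P.cons (P.lf 0 547874 0) (P.cons (P.lf 0 117890 0) P.nil))))) (P.cons (P.cons (P.lf 0 137546461 0) (P.cons (P.lf 46470969 0 0) (P.cons (P.lf 0 1499879 0) (P.cons (P.lf 0 222346 0) P.nil)))) (P.cons (P.cons (P.lf 18729029 0 0) (P.cons (P.lf 5024286 0 0) (P.cons (P.lf 0 794556 0) P.nil))) (P.cons (P.cons (P.lf 8348798 0 0) (P.cons (P.lf 0 1490732 0) P.nil)) (P.cons (P.cons (P.lf 0 322087 0) P.nil) P.nil)))))) 1274651)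
 (EL.cons 7 (TM.mk (P.cons (P.cons (P.lf 0 82502476 0) (P.cons (P.lf 96526606 0 0) (P.cons (P.lf 0 25286914 0) (P.cons (P.lf 243924 0 0) (P.cons (P.lf 245997 0 0) (P.cons (P.lf 0 4009 0) P.nil)))))) (P.cons (P.cons (P.lf 4844261 0 0) (P.cons (P.lf 0 14677692 0) (P.cons (P.lf 0 4543296 0) (P.cons (P.lf 229930 0 0) (P.cons (P.lf 49474 0 0) P.nil))))) (P.cons (P.cons (P.lf 57132996 0 0) (P.cons (P.lf 0 17708025 0) (P.cons (P.lf 1185047 0 0) (P.cons (P.lf 65191 0 0) P.nil)))) (P.cons (P.cons (P.lf 0 17247325 0) (P.cons (P.lf 996160 0 0) (P.cons (P.lf 207565 0 0) P.nil))) (P.cons (P.cons (P.lf 0 1620925 0) (P.cons (P.lf 869151 0 0) P.nil)) (P.cons (P.cons (P.lf 707456 0 0) P.nil) P.nil)))))) 648950)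
 (EL.cons 10 (TM.mk (P.cons (P.cons (P.lf 0 301680498 0) (P.cons (P.lf 257987436 0 0) (P.cons (P.lf 0 7535766 0) (P.cons (P.lf 0 5747286 0) (P.cons (P.lf 149250 0 0) (P.cons (P.lf 33678 0 0) P.nil)))))) (P.cons (P.cons (P.lf 0 252042366 0) (P.cons (P.lf 109321326 0 0) (P.cons (P.lf 0 667926 0) (P.cons (P.lf 0 2349816 0) (P.cons (P.lf 55050 0 0) P.nil))))) (P.cons (P.cons (P.lf 40599030 0 0) (P.cons (P.lf 8341386 0 0) (P.cons (P.lf 0 1267410 0) (P.cons (P.lf 0 220512 0) P.nil)))) (P.cons (P.cons (P.lf 18041082 0 0) (P.cons (P.lf 0 2011338 0) (P.cons (P.lf 0 260232 0) P.nil))) (P.cons (P.cons (P.lf 134112 0 0) (P.cons (P.lf 0 328308 0) P.nil)) (P.cons (P.cons (P.lf 0 353370 0) P.nil) P.nil)))))) 244116)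
 EL.nil))))
noncomputable def S169_198_512_586_9 : EL := (EL.cons 3 (TM.mk (P.cons (P.lf 0 2072840178 0) (P.cons (P.lf 339017325 0 0) (P.cons (P.lf 19911543 0 0) (P.cons (P.lf 0 509910 0) (P.cons (P.lf 0 91155 0) (P.cons (P.lf 0 1462 0) P.nil)))))) 487)
 (EL.cons 7 (TM.mk (P.cons (P.lf 0 1756127103 0) (P.cons (P.lf 0 142278485 0) (P.cons (P.lf 9042093 0 0) (P.cons (P.lf 848140 0 0) (P.cons (P.lf 0 2043 0) (P.cons (P.lf 0 3166 0) P.nil)))))) 195)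
 EL.nil))
noncomputable def S169_198_512_586_10 : EL := (EL.cons 3 (TM.mk (P.cons (P.cons (P.lf 0 147843830 0) (P.cons (P.lf 120950908 0 0) (P.cons (P.lf 0 1925092 0) (P.lf 0 641696 0)))) (P.cons (P.cons (P.lf 0 75381505 0) (P.cons (P.lf 9615947 0 0) (P.cons (P.lf 0 153049 0) (P.lf 0 51015 0)))) (P.cons (P.cons (P.lf 53180586 0 0) (P.cons (P.lf 0 5456435 0) (P.cons (P.lf 86846 0 0) (P.lf 28948 0 0)))) (P.cons (P.cons (P.lf 0 2427407 0) (P.cons (P.lf 0 750269 0) (P.cons (P.lf 11940 0 0) P.nil))) (P.cons (P.cons (P.lf 0 1159418 0) (P.cons (P.lf 44655 0 0) P.nil)) (P.cons (P.cons (P.lf 2613 0 0) P.nil) P.nil)))))) 41032)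
 (EL.cons 7 (TM.mk (P.cons (P.cons (P.lf 0 125254499 0) (P.cons (P.lf 102470596 0 0) (P.cons (P.lf 0 1630954 0) (P.lf 0 543650 0)))) (P.cons (P.cons (P.lf 0 94497370 0) (P.cons (P.lf 33207985 0 0) (P.cons (P.lf 0 528548 0) (P.lf 0 176182 0)))) (P.cons (P.cons (P.lf 23867380 0 0) (P.cons (P.lf 1925246 0 0) (P.cons (P.lf 0 30642 0) (P.lf 0 10214 0)))) (P.cons (P.cons (P.lf 5009720 0 0) (P.cons (P.lf 0 492932 0) (P.cons (P.lf 7844 0 0) P.nil))) (P.cons (P.cons (P.lf 0 272797 0) (P.cons (P.lf 0 68479 0) P.nil)) (P.cons (P.cons (P.lf 0 86958 0) P.nil) P.nil)))))) 22967)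
 EL.nil))
noncomputable def S169_198_512_586_11 : EL := (EL.cons 3 (TM.mk (P.cons (P.cons (P.lf 0 10544853 0) (P.cons (P.lf 17253471 0 0) (P.cons (P.lf 0 7332136 0) (P.cons (P.lf 133122 0 0) (P.cons (P.lf 73097 0 0) (P.cons (P.lf 0 1191 0) P.nil)))))) (P.cons (P.cons (P.lf 0 12477695 0) (P.cons (P.lf 12990613 0 0) (P.cons (P.lf 0 2483221 0) (P.cons (P.lf 3544 0 0) (P.cons (P.lf 23578 0 0) P.nil))))) (P.cons (P.cons (P.lf 2702741 0 0) (P.cons (P.lf 0 3994791 0) (P.cons (P.lf 215629 0 0) (P.cons (P.lf 16352 0 0) P.nil)))) (P.cons (P.cons (P.lf 3846467 0 0) (P.cons (P.lf 0 1246830 0) (P.cons (P.lf 162762 0 0) P.nil))) (P.cons (P.cons (P.lf 0 1047742 0) (P.cons (P.lf 143356 0 0) P.nil)) (P.cons (P.cons (P.lf 0 93919 0) P.nil) P.nil)))))) 202543)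
 (EL.cons 7 (TM.mk (P.cons (P.cons (P.lf 0 8933686 0) (P.cons (P.lf 14617282 0 0) (P.cons (P.lf 0 6211846 0) (P.cons (P.lf 112782 0 0) (P.cons (P.lf 61929 0 0) (P.cons (P.lf 0 1009 0) P.nil)))))) (P.cons (P.cons (P.lf 0 12756121 0) (P.cons (P.lf 14580708 0 0) (P.cons (P.lf 0 3623040 0) (P.cons (P.lf 30586 0 0) (P.cons (P.lf 35122 0 0) P.nil))))) (P.cons (P.cons (P.lf 0 692784 0) (P.cons (P.lf 0 42897 0) (P.cons (P.lf 0 608005 0) (P.cons (P.lf 19603 0 0) P.nil)))) (P.cons (P.cons (P.lf 3269375 0 0) (P.cons (P.lf 0 1264802 0) (P.cons (P.lf 33811 0 0) P.nil))) (P.cons (P.cons (P.lf 0 98743 0) (P.cons (P.lf 0 163503 0) P.nil)) (P.cons (P.cons (P.lf 0 153406 0) P.nil) P.nil)))))) 132502)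
 EL.nil))
noncomputable def S169_198_512_586_12 : EL := (EL.cons 4 (TM.mk (P.cons (P.lf 2072840178 0 0) (P.cons (P.lf 0 339017325 0) (P.cons (P.lf 0 19911543 0) (P.cons (P.lf 509910 0 0) (P.cons (P.lf 91155 0 0) (P.cons (P.lf 1462 0 0) P.nil)))))) 487)
 (EL.cons 8 (TM.mk (P.cons (P.lf 1756127103 0 0) (P.cons (P.lf 142278485 0 0) (P.cons (P.lf 0 9042093 0) (P.cons (P.lf 0 848140 0) (P.cons (P.lf 2043 0 0) (P.cons (P.lf 3166 0 0) P.nil)))))) 195)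
 EL.nil))
noncomputable def S169_198_512_586_13 : EL := (EL.cons 4 (TM.mk (P.cons (P.cons (P.lf 147843830 0 0) (P.cons (P.lf 0 120950908 0) (P.cons (P.lf 1925092 0 0) (P.lf 641696 0 0)))) (P.cons (P.cons (P.lf 75381505 0 0) (P.cons (P.lf 0 9615947 0) (P.cons (P.lf 153049 0 0) (P.lf 51015 0 0)))) (P.cons (P.cons (P.lf 0 53180586 0) (P.cons (P.lf 5456435 0 0) (P.cons (P.lf 0 86846 0) (P.lf 0 28948 0)))) (P.cons (P.cons (P.lf 2427407 0 0) (P.cons (P.lf 750269 0 0) (P.cons (P.lf 0 11940 0) P.nil))) (P.cons (P.cons (P.lf 1159418 0 0) (P.cons (P.lf 0 44655 0) P.nil)) (P.cons (P.cons (P.lf 0 2613 0) P.nil) P.nil)))))) 41032)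
 (EL.cons 8 (TM.mk (P.cons (P.cons (P.lf 125254499 0 0) (P.cons (P.lf 0 102470596 0) (P.cons (P.lf 1630954 0 0) (P.lf 543650 0 0)))) (P.cons (P.cons (P.lf 94497370 0 0) (P.cons (P.lf 0 33207985 0) (P.cons (P.lf 528548 0 0) (P.lf 176182 0 0)))) (P.cons (P.cons (P.lf 0 23867380 0) (P.cons (P.lf 0 1925246 0) (P.cons (P.lf 30642 0 0) (P.lf 10214 0 0)))) (P.cons (P.cons (P.lf 0 5009720 0) (P.cons (P.lf 492932 0 0) (P.cons (P.lf 0 7844 0) P.nil))) (P.cons (P.cons (P.lf 272797 0 0) (P.cons (P.lf 68479 0 0) P.nil)) (P.cons (P.cons (P.lf 86958 0 0) P.nil) P.nil)))))) 22967)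
 EL.nil))
noncomputable def S169_198_512_586_14 : EL := (EL.cons 4 (TM.mk (P.cons (P.cons (P.lf 10544853 0 0) (P.cons (P.lf 0 17253471 0) (P.cons (P.lf 7332136 0 0) (P.cons (P.lf 0 133122 0) (P.cons (P.lf 0 73097 0) (P.cons (P.lf 1191 0 0) P.nil)))))) (P.cons (P.cons (P.lf 12477695 0 0) (P.cons (P.lf 0 12990613 0) (P.cons (P.lf 2483221 0 0) (P.cons (P.lf 0 3544 0) (P.cons (P.lf 0 23578 0) P.nil))))) (P.cons (P.cons (P.lf 0 2702741 0) (P.cons (P.lf 3994791 0 0) (P.cons (P.lf 0 215629 0) (P.cons (P.lf 0 16352 0) P.nil)))) (P.cons (P.cons (P.lf 0 3846467 0) (P.cons (P.lf 1246830 0 0) (P.cons (P.lf 0 162762 0) P.nil))) (P.cons (P.cons (P.lf 1047742 0 0) (P.cons (P.lf 0 143356 0) P.nil)) (P.cons (P.cons (P.lf 93919 0 0) P.nil) P.nil)))))) 202543)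
 (EL.cons 8 (TM.mk (P.cons (P.cons (P.lf 8933686 0 0) (P.cons (P.lf 0 14617282 0) (P.cons (P.lf 6211846 0 0) (P.cons (P.lf 0 112782 0) (P.cons (P.lf 0 61929 0) (P.cons (P.lf 1009 0 0) P.nil)))))) (P.cons (P.cons (P.lf 12756121 0 0) (P.cons (P.lf 0 14580708 0) (P.cons (P.lf 3623040 0 0) (P.cons (P.lf 0 30586 0) (P.cons (P.lf 0 35122 0) P.nil))))) (P.cons (P.cons (P.lf 692784 0 0) (P.cons (P.lf 42897 0 0) (P.cons (P.lf 608005 0 0) (P.cons (P.lf 0 19603 0) P.nil)))) (P.cons (P.cons (P.lf 0 3269375 0) (P.cons (P.lf 1264802 0 0) (P.cons (P.lf 0 33811 0) P.nil))) (P.cons (P.cons (P.lf 98743 0 0) (P.cons (P.lf 163503 0 0) P.nil)) (P.cons (P.cons (P.lf 153406 0 0) P.nil) P.nil)))))) 132502)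
 EL.nil))
noncomputable def S169_198_512_586_15 : EL := (EL.cons 4 (TM.mk (P.cons (P.lf 0 1067088645 0) (P.cons (P.lf 349049136 0 0) (P.cons (P.lf 0 8043112 0) (P.cons (P.lf 0 3877937 0) (P.cons (P.lf 0 106451 0) (P.cons (P.lf 18886 0 0) P.nil)))))) 1845)
 (EL.cons 8 (TM.mk (P.cons (P.lf 0 904046202 0) (P.cons (P.lf 74614324 0 0) (P.cons (P.lf 25318286 0 0) (P.cons (P.lf 156499 0 0) (P.cons (P.lf 0 174949 0) (P.cons (P.lf 0 8365 0) P.nil)))))) 1031)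
 EL.nil))
noncomputable def S169_198_512_586_16 : EL := (EL.cons 4 (TM.mk (P.cons (P.cons (P.lf 0 76109327 0) (P.cons (P.lf 62264974 0 0) (P.cons (P.lf 0 991028 0) (P.lf 0 330342 0)))) (P.cons (P.cons (P.lf 0 26358214 0) (P.cons (P.lf 0 5233320 0) (P.cons (P.lf 83295 0 0) (P.lf 27764 0 0)))) (P.cons (P.cons (P.lf 34455033 0 0) (P.cons (P.lf 0 4216683 0) (P.cons (P.lf 67113 0 0) (P.lf 22370 0 0)))) (P.cons (P.cons (P.lf 0 5373158 0) (P.cons (P.lf 40938 0 0) (P.cons (P.lf 0 651 0) P.nil))) (P.cons (P.cons (P.lf 0 668360 0) (P.cons (P.lf 117096 0 0) P.nil)) (P.cons (P.cons (P.lf 115941 0 0) P.nil) P.nil)))))) 41693)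
 (EL.cons 8 (TM.mk (P.cons (P.cons (P.lf 0 64480443 0) (P.cons (P.lf 52751394 0 0) (P.cons (P.lf 0 839607 0) (P.lf 0 279868 0)))) (P.cons (P.cons (P.lf 0 38100903 0) (P.cons (P.lf 8467718 0 0) (P.cons (P.lf 0 134774 0) (P.lf 0 44924 0)))) (P.cons (P.cons (P.lf 20862500 0 0) (P.cons (P.lf 0 2311592 0) (P.cons (P.lf 36792 0 0) (P.lf 12263 0 0)))) (P.cons (P.cons (P.lf 1020882 0 0) (P.cons (P.lf 0 567096 0) (P.cons (P.lf 9025 0 0) P.nil))) (P.cons (P.cons (P.lf 0 695061 0) (P.cons (P.lf 3254 0 0) P.nil)) (P.cons (P.cons (P.lf 0 45733 0) P.nil) P.nil)))))) 29918)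
 EL.nil))
noncomputable def S169_198_512_586_17 : EL := (EL.cons 4 (TM.mk (P.cons (P.cons (P.lf 0 5428441 0) (P.cons (P.lf 8882008 0 0) (P.cons (P.lf 0 3774550 0) (P.cons (P.lf 68530 0 0) (P.cons (P.lf 37630 0 0) (P.cons (P.lf 0 613 0) P.nil)))))) (P.cons (P.cons (P.lf 0 5535627 0) (P.cons (P.lf 5234836 0 0) (P.cons (P.lf 0 661015 0) (P.cons (P.lf 0 9383 0) (P.cons (P.lf 5983 0 0) P.nil))))) (P.cons (P.cons (P.lf 2494074 0 0) (P.cons (P.lf 0 3235575 0) (P.cons (P.lf 356340 0 0) (P.cons (P.lf 7461 0 0) P.nil)))) (P.cons (P.cons (P.lf 1812951 0 0) (P.cons (P.lf 0 367572 0) (P.cons (P.lf 76985 0 0) P.nil))) (P.cons (P.cons (P.lf 0 878414 0) (P.cons (P.lf 200567 0 0) P.nil)) (P.cons (P.cons (P.lf 20900 0 0) P.nil) P.nil)))))) 159203)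
 (EL.cons 8 (TM.mk (P.cons (P.cons (P.lf 0 4599020 0) (P.cons (P.lf 7524909 0 0) (P.cons (P.lf 0 3197829 0) (P.cons (P.lf 58059 0 0) (P.cons (P.lf 31880 0 0) (P.cons (P.lf 0 519 0) P.nil)))))) (P.cons (P.cons (P.lf 0 5814613 0) (P.cons (P.lf 6275367 0 0) (P.cons (P.lf 0 1342112 0) (P.cons (P.lf 6249 0 0) (P.cons (P.lf 12866 0 0) P.nil))))) (P.cons (P.cons (P.lf 761547 0 0) (P.cons (P.lf 0 1322002 0) (P.cons (P.lf 22764 0 0) (P.cons (P.lf 6958 0 0) P.nil)))) (P.cons (P.cons (P.lf 1803337 0 0) (P.cons (P.lf 0 717754 0) (P.cons (P.lf 85727 0 0) P.nil))) (P.cons (P.cons (P.lf 0 324491 0) (P.cons (P.lf 24709 0 0) P.nil)) (P.cons (P.cons (P.lf 0 87205 0) P.nil) P.nil)))))) 121306)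
 EL.nil))
noncomputable def S169_198_512_586_18 : EL := (EL.cons 4 (TM.mk (P.cons (P.lf 549332354 0 0) (P.cons (P.lf 0 269533349 0) (P.cons (P.lf 28252205 0 0) (P.cons (P.lf 3180359 0 0) (P.cons (P.lf 0 331524 0) (P.cons (P.lf 0 44357 0) P.nil)))))) 4415)
 (EL.cons 8 (TM.mk (P.cons (P.lf 465398850 0 0) (P.cons (P.lf 0 114528063 0) (P.cons (P.lf 0 11222106 0) (P.cons (P.lf 2534590 0 0) (P.cons (P.lf 239457 0 0) (P.cons (P.lf 0 14216 0) P.nil)))))) 3029)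
 EL.nil))
noncomputable def S169_198_512_586_19 : EL := (EL.cons 4 (TM.mk (P.cons (P.cons (P.lf 39180734 0 0) (P.cons (P.lf 0 32053724 0) (P.cons (P.lf 510177 0 0) (P.lf 170057 0 0)))) (P.cons (P.cons (P.lf 7160997 0 0) (P.cons (P.lf 7936542 0 0) (P.cons (P.lf 0 126320 0) (P.lf 0 42105 0)))) (P.cons (P.cons (P.lf 0 20332913 0) (P.cons (P.lf 2038010 0 0) (P.cons (P.lf 0 32437 0) (P.lf 0 10812 0)))) (P.cons (P.cons (P.lf 5546342 0 0) (P.cons (P.lf 0 409866 0) (P.cons (P.lf 6523 0 0) P.nil))) (P.cons (P.cons (P.lf 67115 0 0) (P.cons (P.lf 0 78432 0) P.nil)) (P.cons (P.cons (P.lf 0 146268 0) P.nil) P.nil)))))) 55918)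
 (EL.cons 8 (TM.mk (P.cons (P.cons (P.lf 33194237 0 0) (P.cons (P.lf 0 27156176 0) (P.cons (P.lf 432226 0 0) (P.lf 144075 0 0)))) (P.cons (P.cons (P.lf 14185184 0 0) (P.cons (P.lf 82306 0 0) (P.cons (P.lf 0 1309 0) (P.lf 0 436 0)))) (P.cons (P.cons (P.lf 0 14266719 0) (P.cons (P.lf 2163804 0 0) (P.cons (P.lf 0 34439 0) (P.lf 0 11479 0)))) (P.cons (P.cons (P.lf 1050744 0 0) (P.cons (P.lf 132505 0 0) (P.cons (P.lf 0 2109 0) P.nil))) (P.cons (P.cons (P.lf 553219 0 0) (P.cons (P.lf 0 63119 0) P.nil)) (P.cons (P.cons (P.lf 0 31685 0) P.nil) P.nil)))))) 33676)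
 EL.nil))
noncomputable def S169_198_512_586_20 : EL := (EL.cons 4 (TM.mk (P.cons (P.cons (P.lf 2794537 0 0) (P.cons (P.lf 0 4572417 0) (P.cons (P.lf 1943120 0 0) (P.cons (P.lf 0 35279 0) (P.cons (P.lf 0 19371 0) (P.cons (P.lf 315 0 0) P.nil)))))) (P.cons (P.cons (P.lf 2392663 0 0) (P.cons (P.lf 0 1947041 0) (P.cons (P.lf 22485 0 0) (P.cons (P.lf 10600 0 0) (P.cons (P.lf 87 0 0) P.nil))))) (P.cons (P.cons (P.lf 0 1776858 0) (P.cons (P.lf 2150333 0 0) (P.cons (P.lf 0 257761 0) (P.cons (P.lf 0 4291 0) P.nil)))) (P.cons (P.cons (P.lf 0 749995 0) (P.cons (P.lf 0 58435 0) (P.cons (P.lf 0 12420 0) P.nil))) (P.cons (P.cons (P.lf 618003 0 0) (P.cons (P.lf 0 151063 0) P.nil)) (P.cons (P.cons (P.lf 0 75941 0) P.nil) P.nil)))))) 144578)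
 (EL.cons 8 (TM.mk (P.cons (P.cons (P.lf 2367554 0 0) (P.cons (P.lf 0 3873789 0) (P.cons (P.lf 1646228 0 0) (P.cons (P.lf 0 29888 0) (P.cons (P.lf 0 16412 0) (P.cons (P.lf 267 0 0) P.nil)))))) (P.cons (P.cons (P.lf 2606117 0 0) (P.cons (P.lf 0 2596963 0) (P.cons (P.lf 421669 0 0) (P.cons (P.lf 1670 0 0) (P.cons (P.lf 0 3939 0) P.nil))))) (P.cons (P.cons (P.lf 0 904350 0) (P.cons (P.lf 1246131 0 0) (P.cons (P.lf 0 140532 0) (P.cons (P.lf 0 2768 0) P.nil)))) (P.cons (P.cons (P.lf 0 892401 0) (P.cons (P.lf 288268 0 0) (P.cons (P.lf 0 48447 0) P.nil))) (P.cons (P.cons (P.lf 323486 0 0) (P.cons (P.lf 0 80654 0) P.nil)) (P.cons (P.cons (P.lf 26527 0 0) P.nil) P.nil)))))) 92580)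
 EL.nil))
noncomputable def S169_198_512_586_21 : EL := (EL.cons 4 (TM.mk (P.cons (P.cons (P.lf 0 1228878327 0) (P.cons (P.lf 362852724 0 0) (P.cons (P.lf 0 5775276 0) (P.lf 0 1925088 0)))) (P.cons (P.cons (P.lf 821002890 0 0) (P.cons (P.lf 28847841 0 0) (P.cons (P.lf 0 459147 0) (P.lf 0 153045 0)))) (P.cons (P.cons (P.lf 135412425 0 0) (P.cons (P.lf 0 16369305 0) (P.cons (P.lf 260538 0 0) (P.lf 86844 0 0)))) (P.cons (P.cons (P.lf 0 18916035 0) (P.cons (P.lf 0 2250807 0) (P.cons (P.lf 35820 0 0) P.nil))) (P.cons (P.cons (P.lf 0 3797610 0) (P.cons (P.lf 133965 0 0) P.nil)) (P.cons (P.cons (P.lf 64500 0 0) P.nil) P.nil)))))) 128541)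
 (EL.cons 8 (TM.mk (P.cons (P.cons (P.lf 515734554 0 0) (P.cons (P.lf 0 152281713 0) (P.cons (P.lf 2423766 0 0) (P.lf 807924 0 0)))) (P.cons (P.cons (P.lf 0 470691168 0) (P.cons (P.lf 25136757 0 0) (P.cons (P.lf 0 400083 0) (P.lf 0 133359 0)))) (P.cons (P.cons (P.lf 35359323 0 0) (P.cons (P.lf 7492137 0 0) (P.cons (P.lf 0 119244 0) (P.lf 0 39747 0)))) (P.cons (P.cons (P.lf 15630744 0 0) (P.cons (P.lf 0 651243 0) (P.cons (P.lf 10362 0 0) P.nil))) (P.cons (P.cons (P.lf 0 533010 0) (P.cons (P.lf 0 182721 0) P.nil)) (P.cons (P.cons (P.lf 0 252396 0) P.nil) P.nil)))))) 80313)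
 (EL.cons 11 (TM.mk (P.cons (P.cons (P.lf 2114851368 0 0) (P.cons (P.lf 0 78394656 0) (P.cons (P.lf 0 38844834 0) (P.cons (P.lf 352491 0 0) (P.lf 88122 0 0))))) (P.cons (P.cons (P.lf 342683448 0 0) (P.cons (P.lf 0 12702807 0) (P.cons (P.lf 0 6294285 0) (P.cons (P.lf 57114 0 0) (P.lf 14277 0 0))))) (P.cons (P.cons (P.lf 0 7896420 0) (P.cons (P.lf 292707 0 0) (P.cons (P.lf 145038 0 0) (P.cons (P.lf 0 1314 0) P.nil)))) (P.cons (P.cons (P.lf 0 3807213 0) (P.cons (P.lf 141126 0 0) (P.cons (P.lf 69927 0 0) P.nil))) (P.cons (P.cons (P.lf 0 104511 0) (P.cons (P.lf 3873 0 0) P.nil)) (P.cons (P.cons (P.lf 18540 0 0) P.nil) P.nil)))))) 6009)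
 EL.nil)))
noncomputable def S169_198_512_586_22 : EL := (EL.cons 4 (TM.mk (P.cons (P.cons (P.lf 0 87648858 0) (P.cons (P.lf 97585665 0 0) (P.cons (P.lf 0 22725780 0) (P.cons (P.lf 156243 0 0) (P.cons (P.lf 219294 0 0) (P.cons (P.lf 0 3573 0) P.nil)))))) (P.cons (P.cons (P.lf 0 467457 0) (P.cons (P.lf 0 10991499 0) (P.cons (P.lf 0 6654435 0) (P.cons (P.lf 275709 0 0) (P.cons (P.lf 70734 0 0) P.nil))))) (P.cons (P.cons (P.lf 70124601 0 0) (P.cons (P.lf 0 25232880 0) (P.cons (P.lf 857754 0 0) (P.cons (P.lf 119349 0 0) P.nil)))) (P.cons (P.cons (P.lf 0 7441281 0) (P.cons (P.lf 0 3135558 0) (P.cons (P.lf 478659 0 0) P.nil))) (P.cons (P.cons (P.lf 0 4698270 0) (P.cons (P.lf 817044 0 0) P.nil)) (P.cons (P.cons (P.lf 114084 0 0) P.nil) P.nil)))))) 536043)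
 (EL.cons 8 (TM.mk (P.cons (P.cons (P.lf 36784395 0 0) (P.cons (P.lf 0 40954662 0) (P.cons (P.lf 9537534 0 0) (P.cons (P.lf 0 65571 0) (P.cons (P.lf 0 92034 0) (P.cons (P.lf 1500 0 0) P.nil)))))) (P.cons (P.cons (P.lf 0 8800191 0) (P.cons (P.lf 14629200 0 0) (P.cons (P.lf 460128 0 0) (P.cons (P.lf 0 99672 0) (P.cons (P.lf 0 7176 0) P.nil))))) (P.cons (P.cons (P.lf 0 28912890 0) (P.cons (P.lf 8832564 0 0) (P.cons (P.lf 0 896526 0) (P.cons (P.lf 0 22794 0) P.nil)))) (P.cons (P.cons (P.lf 10258350 0 0) (P.cons (P.lf 0 1130481 0) (P.cons (P.lf 0 86877 0) P.nil))) (P.cons (P.cons (P.lf 761091 0 0) (P.cons (P.lf 0 516327 0) P.nil)) (P.cons (P.cons (P.lf 0 430431 0) P.nil) P.nil)))))) 258213)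
 (EL.cons 11 (TM.mk (P.cons (P.cons (P.lf 150840249 0 0) (P.cons (P.lf 0 128993718 0) (P.cons (P.lf 3767883 0 0) (P.cons (P.lf 2873643 0 0) (P.cons (P.lf 0 74625 0) (P.cons (P.lf 0 16839 0) P.nil)))))) (P.cons (P.cons (P.lf 126021183 0 0) (P.cons (P.lf 0 54660663 0) (P.cons (P.lf 333963 0 0) (P.cons (P.lf 1174908 0 0) (P.cons (P.lf 0 27525 0) P.nil))))) (P.cons (P.cons (P.lf 0 20299515 0) (P.cons (P.lf 0 4170693 0) (P.cons (P.lf 633705 0 0) (P.cons (P.lf 110256 0 0) P.nil)))) (P.cons (P.cons (P.lf 0 9020541 0) (P.cons (P.lf 1005669 0 0) (P.cons (P.lf 130116 0 0) P.nil))) (P.cons (P.cons (P.lf 0 67056 0) (P.cons (P.lf 164154 0 0) P.nil)) (P.cons (P.cons (P.lf 176685 0 0) P.nil) P.nil)))))) 122058)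
 EL.nil)))
noncomputable def S169_198_512_586_23 : EL := (EL.cons 4 (TM.mk (P.cons (P.cons (P.lf 632620941 0 0) (P.cons (P.lf 0 186794922 0) (P.cons (P.lf 2973084 0 0) (P.lf 991026 0 0)))) (P.cons (P.cons (P.lf 0 526115004 0) (P.cons (P.lf 15699960 0 0) (P.cons (P.lf 0 249885 0) (P.lf 0 83295 0)))) (P.cons (P.cons (P.lf 0 6661557 0) (P.cons (P.lf 12650049 0 0) (P.cons (P.lf 0 201339 0) (P.lf 0 67110 0)))) (P.cons (P.cons (P.lf 25354605 0 0) (P.cons (P.lf 0 122817 0) (P.cons (P.lf 1956 0 0) P.nil))) (P.cons (P.cons (P.lf 955815 0 0) (P.cons (P.lf 0 351288 0) P.nil)) (P.cons (P.cons (P.lf 0 481776 0) P.nil) P.nil)))))) 149592)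
 (EL.cons 8 (TM.mk (P.cons (P.cons (P.lf 0 265497789 0) (P.cons (P.lf 78393927 0 0) (P.cons (P.lf 0 1247742 0) (P.lf 0 415914 0)))) (P.cons (P.cons (P.lf 285732375 0 0) (P.cons (P.lf 0 25761777 0) (P.cons (P.lf 410031 0 0) (P.lf 136674 0 0)))) (P.cons (P.cons (P.lf 0 55282713 0) (P.cons (P.lf 0 2493552 0) (P.cons (P.lf 39684 0 0) (P.lf 13227 0 0)))) (P.cons (P.cons (P.lf 0 7462446 0) (P.cons (P.lf 1109649 0 0) (P.cons (P.lf 0 17658 0) P.nil))) (P.cons (P.cons (P.lf 1813221 0 0) (P.cons (P.lf 76545 0 0) P.nil)) (P.cons (P.cons (P.lf 168339 0 0) P.nil) P.nil)))))) 104679)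
 (EL.cons 11 (TM.mk (P.cons (P.cons (P.lf 0 1088715813 0) (P.cons (P.lf 40357209 0 0) (P.cons (P.lf 19997142 0 0) (P.cons (P.lf 0 181458 0) (P.lf 0 45363 0))))) (P.cons (P.cons (P.lf 1649862 0 0) (P.cons (P.lf 0 61158 0) (P.cons (P.lf 0 30303 0) (P.cons (P.lf 276 0 0) (P.lf 69 0 0))))) (P.cons (P.cons (P.lf 43375689 0 0) (P.cons (P.lf 0 1607874 0) (P.cons (P.lf 0 796707 0) (P.cons (P.lf 7227 0 0) P.nil)))) (P.cons (P.cons (P.lf 2721867 0 0) (P.cons (P.lf 0 100893 0) (P.cons (P.lf 0 49992 0) P.nil))) (P.cons (P.cons (P.lf 0 397071 0) (P.cons (P.lf 14718 0 0) P.nil)) (P.cons (P.cons (P.lf 0 44694 0) P.nil) P.nil)))))) 19497)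
 EL.nil)))
noncomputable def S169_198_512_586_24 : EL := (EL.cons 4 (TM.mk (P.cons (P.cons (P.lf 45121230 0 0) (P.cons (P.lf 0 50236653 0) (P.cons (P.lf 11699127 0 0) (P.cons (P.lf 0 80433 0) (P.cons (P.lf 0 112890 0) (P.cons (P.lf 1839 0 0) P.nil)))))) (P.cons (P.cons (P.lf 0 7139025 0) (P.cons (P.lf 13874682 0 0) (P.cons (P.lf 1512255 0 0) (P.cons (P.lf 0 128778 0) (P.cons (P.lf 0 17949 0) P.nil))))) (P.cons (P.cons (P.lf 0 36572613 0) (P.cons (P.lf 12546900 0 0) (P.cons (P.lf 0 1114224 0) (P.cons (P.lf 0 37452 0) P.nil)))) (P.cons (P.cons (P.lf 9743727 0 0) (P.cons (P.lf 0 577044 0) (P.cons (P.lf 0 204219 0) P.nil))) (P.cons (P.cons (P.lf 2140938 0 0) (P.cons (P.lf 0 810207 0) P.nil)) (P.cons (P.cons (P.lf 0 499941 0) P.nil) P.nil)))))) 400410)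
 (EL.cons 8 (TM.mk (P.cons (P.cons (P.lf 0 18936438 0) (P.cons (P.lf 21083274 0 0) (P.cons (P.lf 0 4909878 0) (P.cons (P.lf 33756 0 0) (P.cons (P.lf 47376 0 0) (P.cons (P.lf 0 771 0) P.nil)))))) (P.cons (P.cons (P.lf 7627392 0 0) (P.cons (P.lf 0 10979259 0) (P.cons (P.lf 566148 0 0) (P.cons (P.lf 45789 0 0) (P.cons (P.lf 0 4053 0) P.nil))))) (P.cons (P.cons (P.lf 14325183 0 0) (P.cons (P.lf 0 3517770 0) (P.cons (P.lf 547431 0 0) (P.cons (P.lf 3018 0 0) P.nil)))) (P.cons (P.cons (P.lf 0 7763472 0) (P.cons (P.lf 1403160 0 0) (P.cons (P.lf 0 29691 0) P.nil))) (P.cons (P.cons (P.lf 329208 0 0) (P.cons (P.lf 213372 0 0) P.nil)) (P.cons (P.cons (P.lf 340239 0 0) P.nil) P.nil)))))) 193020)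
 (EL.cons 11 (TM.mk (P.cons (P.cons (P.lf 0 77651868 0) (P.cons (P.lf 66405375 0 0) (P.cons (P.lf 0 1939689 0) (P.cons (P.lf 0 1479339 0) (P.cons (P.lf 38415 0 0) (P.cons (P.lf 8667 0 0) P.nil)))))) (P.cons (P.cons (P.lf 0 52175001 0) (P.cons (P.lf 17278320 0 0) (P.cons (P.lf 145317 0 0) (P.cons (P.lf 0 362886 0) (P.cons (P.lf 7884 0 0) P.nil))))) (P.cons (P.cons (P.lf 21806478 0 0) (P.cons (P.lf 0 3093030 0) (P.cons (P.lf 0 279477 0) (P.cons (P.lf 56370 0 0) P.nil)))) (P.cons (P.cons (P.lf 3538680 0 0) (P.cons (P.lf 0 1122834 0) (P.cons (P.lf 0 12453 0) P.nil))) (P.cons (P.cons (P.lf 0 844725 0) (P.cons (P.lf 0 10614 0) P.nil)) (P.cons (P.cons (P.lf 0 141546 0) P.nil) P.nil)))))) 114195)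
 EL.nil)))
noncomputable def S169_198_512_586_25 : EL := (EL.cons 4 (TM.mk (P.cons (P.cons (P.lf 0 325670367 0) (P.cons (P.lf 96161172 0 0) (P.cons (P.lf 0 1530528 0) (P.lf 0 510174 0)))) (P.cons (P.cons (P.lf 324105663 0 0) (P.cons (P.lf 0 23809626 0) (P.cons (P.lf 378960 0 0) (P.lf 126321 0 0)))) (P.cons (P.cons (P.lf 0 37739001 0) (P.cons (P.lf 0 6114030 0) (P.cons (P.lf 97311 0 0) (P.lf 32436 0 0)))) (P.cons (P.cons (P.lf 0 16295106 0) (P.cons (P.lf 1229601 0 0) (P.cons (P.lf 0 19569 0) P.nil))) (P.cons (P.cons (P.lf 1662063 0 0) (P.cons (P.lf 235296 0 0) P.nil)) (P.cons (P.cons (P.lf 466395 0 0) P.nil) P.nil)))))) 143277)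
 (EL.cons 8 (TM.mk (P.cons (P.cons (P.lf 136677048 0 0) (P.cons (P.lf 0 40356834 0) (P.cons (P.lf 642330 0 0) (P.lf 214110 0 0)))) (P.cons (P.cons (P.lf 0 169447536 0) (P.cons (P.lf 19862487 0 0) (P.cons (P.lf 0 316137 0) (P.lf 0 105378 0)))) (P.cons (P.cons (P.lf 51203862 0 0) (P.cons (P.lf 0 497700 0) (P.cons (P.lf 7920 0 0) (P.lf 2640 0 0)))) (P.cons (P.cons (P.lf 633648 0 0) (P.cons (P.lf 0 918510 0) (P.cons (P.lf 14616 0 0) P.nil))) (P.cons (P.cons (P.lf 0 1865295 0) (P.cons (P.lf 43179 0 0) P.nil)) (P.cons (P.cons (P.lf 29730 0 0) P.nil) P.nil)))))) 105987)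
 (EL.cons 11 (TM.mk (P.cons (P.cons (P.lf 560465922 0 0) (P.cons (P.lf 0 20775705 0) (P.cons (P.lf 0 10294437 0) (P.cons (P.lf 93414 0 0) (P.lf 23352 0 0))))) (P.cons (P.cons (P.lf 0 92514708 0) (P.cons (P.lf 3429393 0 0) (P.cons (P.lf 1699275 0 0) (P.cons (P.lf 0 15420 0) (P.lf 0 3855 0))))) (P.cons (P.cons (P.lf 0 27574488 0) (P.cons (P.lf 1022145 0 0) (P.cons (P.lf 506475 0 0) (P.cons (P.lf 0 4593 0) P.nil)))) (P.cons (P.cons (P.lf 2396877 0 0) (P.cons (P.lf 0 88848 0) (P.cons (P.lf 0 44025 0) P.nil))) (P.cons (P.cons (P.lf 672513 0 0) (P.cons (P.lf 0 24927 0) P.nil)) (P.cons (P.cons (P.lf 0 2097 0) P.nil) P.nil)))))) 29175)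
 EL.nil)))
noncomputable def S169_198_512_586_26 : EL := (EL.cons 4 (TM.mk (P.cons (P.cons (P.lf 0 23228202 0) (P.cons (P.lf 25861599 0 0) (P.cons (P.lf 0 6022656 0) (P.cons (P.lf 41406 0 0) (P.cons (P.lf 58116 0 0) (P.cons (P.lf 0 945 0) P.nil)))))) (P.cons (P.cons (P.lf 7474158 0 0) (P.cons (P.lf 0 11372340 0) (P.cons (P.lf 206514 0 0) (P.cons (P.lf 59520 0 0) (P.cons (P.lf 0 264 0) P.nil))))) (P.cons (P.cons (P.lf 18449466 0 0) (P.cons (P.lf 0 5539320 0) (P.cons (P.lf 758775 0 0) (P.cons (P.lf 8040 0 0) P.nil)))) (P.cons (P.cons (P.lf 0 8136306 0) (P.cons (P.lf 1428429 0 0) (P.cons (P.lf 17313 0 0) P.nil))) (P.cons (P.cons (P.lf 0 462735 0) (P.cons (P.lf 429930 0 0) P.nil)) (P.cons (P.cons (P.lf 490584 0 0) P.nil) P.nil)))))) 351966)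
 (EL.cons 8 (TM.mk (P.cons (P.cons (P.lf 9748389 0 0) (P.cons (P.lf 0 10853571 0) (P.cons (P.lf 2527581 0 0) (P.cons (P.lf 0 17376 0) (P.cons (P.lf 0 24390 0) (P.cons (P.lf 396 0 0) P.nil)))))) (P.cons (P.cons (P.lf 0 5520915 0) (P.cons (P.lf 7427196 0 0) (P.cons (P.lf 0 704841 0) (P.cons (P.lf 0 20730 0) (P.cons (P.lf 6075 0 0) P.nil))))) (P.cons (P.cons (P.lf 0 6825987 0) (P.cons (P.lf 990780 0 0) (P.cons (P.lf 0 258426 0) (P.cons (P.lf 2466 0 0) P.nil)))) (P.cons (P.cons (P.lf 5242836 0 0) (P.cons (P.lf 0 1075485 0) (P.cons (P.lf 64797 0 0) P.nil))) (P.cons (P.cons (P.lf 0 752823 0) (P.cons (P.lf 0 8184 0) P.nil)) (P.cons (P.cons (P.lf 0 187806 0) P.nil) P.nil)))))) 175509)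
 (EL.cons 11 (TM.mk (P.cons (P.cons (P.lf 39974826 0 0) (P.cons (P.lf 0 34185183 0) (P.cons (P.lf 998541 0 0) (P.cons (P.lf 761556 0 0) (P.cons (P.lf 0 19776 0) (P.cons (P.lf 0 4461 0) P.nil)))))) (P.cons (P.cons (P.lf 20321484 0 0) (P.cons (P.lf 0 3303741 0) (P.cons (P.lf 0 238122 0) (P.cons (P.lf 62259 0 0) (P.cons (P.lf 0 825 0) P.nil))))) (P.cons (P.cons (P.lf 0 16002789 0) (P.cons (P.lf 3375420 0 0) (P.cons (P.lf 146517 0 0) (P.cons (P.lf 0 66888 0) P.nil)))) (P.cons (P.cons (P.lf 0 233856 0) (P.cons (P.lf 394641 0 0) (P.cons (P.lf 0 16155 0) P.nil))) (P.cons (P.cons (P.lf 849003 0 0) (P.cons (P.lf 0 108057 0) P.nil)) (P.cons (P.cons (P.lf 17691 0 0) P.nil) P.nil)))))) 109977)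
 EL.nil)))
noncomputable def S169_198_512_586_27 : EL := (EL.cons 13 (TM.mk (P.lf 0 4294967296 0) 0)
 EL.nil)
noncomputable def S169_198_512_586_28 : EL := (EL.cons 13 (TM.mk (P.cons (P.cons (P.lf 0 306335446 0) (P.cons (P.lf 250612760 0 0) (P.cons (P.lf 0 3988832 0) (P.lf 0 1329608 0)))) (P.cons (P.cons (P.lf 0 206293823 0) (P.cons (P.lf 60912680 0 0) (P.cons (P.lf 0 969504 0) (P.lf 0 323168 0)))) (P.cons (P.cons (P.lf 73508847 0 0) (P.cons (P.lf 1063916 0 0) (P.cons (P.lf 0 16932 0) (P.lf 0 5644 0)))) (P.cons (P.cons (P.lf 5086600 0 0) (P.cons (P.lf 0 857096 0) (P.cons (P.lf 13640 0 0) P.nil))) (P.cons (P.cons (P.lf 0 800077 0) (P.cons (P.lf 0 63436 0) P.nil)) (P.cons (P.cons (P.lf 0 85370 0) P.nil) P.nil)))))) 22881)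
 EL.nil)
noncomputable def S169_198_512_586_29 : EL := (EL.cons 13 (TM.mk (P.cons (P.cons (P.lf 0 21849154 0) (P.cons (P.lf 35749548 0 0) (P.cons (P.lf 0 15192338 0) (P.cons (P.lf 275832 0 0) (P.cons (P.lf 151461 0 0) (P.cons (P.lf 0 2469 0) P.nil)))))) (P.cons (P.cons (P.lf 0 29427516 0) (P.cons (P.lf 32763731 0 0) (P.cons (P.lf 0 7630027 0) (P.cons (P.lf 52458 0 0) (P.cons (P.lf 73627 0 0) P.nil))))) (P.cons (P.cons (P.lf 577324 0 0) (P.cons (P.lf 0 2575307 0) (P.cons (P.lf 0 947054 0) (P.cons (P.lf 45114 0 0) P.nil)))) (P.cons (P.cons (P.lf 7787079 0 0) (P.cons (P.lf 0 2698724 0) (P.cons (P.lf 112799 0 0) P.nil))) (P.cons (P.cons (P.lf 0 883607 0) (P.cons (P.lf 0 178712 0) P.nil)) (P.cons (P.cons (P.lf 0 263151 0) P.nil) P.nil)))))) 211303)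
 EL.nil)
noncomputable def S169_198_512_586_30 : EL := (EL.cons 13 (TM.mk (P.cons (P.lf 2211029524 0 0) (P.cons (P.lf 0 361618480 0) (P.cons (P.lf 0 21238980 0) (P.cons (P.lf 543904 0 0) (P.cons (P.lf 97232 0 0) (P.cons (P.lf 1560 0 0) P.nil)))))) 512)
 EL.nil)
noncomputable def S169_198_512_586_31 : EL := (EL.cons 13 (TM.mk (P.cons (P.cons (P.lf 157700086 0 0) (P.cons (P.lf 0 129014302 0) (P.cons (P.lf 2053432 0 0) (P.lf 684476 0 0)))) (P.cons (P.cons (P.lf 80406939 0 0) (P.cons (P.lf 0 10257011 0) (P.cons (P.lf 163253 0 0) (P.lf 54417 0 0)))) (P.cons (P.cons (P.lf 0 56725959 0) (P.cons (P.lf 5820198 0 0) (P.cons (P.lf 0 92636 0) (P.lf 0 30878 0)))) (P.cons (P.cons (P.lf 2589235 0 0) (P.cons (P.lf 800287 0 0) (P.cons (P.lf 0 12736 0) P.nil))) (P.cons (P.cons (P.lf 1236713 0 0) (P.cons (P.lf 0 47633 0) P.nil)) (P.cons (P.cons (P.lf 0 2788 0) P.nil) P.nil)))))) 43748)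
 EL.nil)
noncomputable def S169_198_512_586_32 : EL := (EL.cons 13 (TM.mk (P.cons (P.cons (P.lf 11247844 0 0) (P.cons (P.lf 0 18403703 0) (P.cons (P.lf 7820946 0 0) (P.cons (P.lf 0 141997 0) (P.cons (P.lf 0 77971 0) (P.cons (P.lf 1271 0 0) P.nil)))))) (P.cons (P.cons (P.lf 13309542 0 0) (P.cons (P.lf 0 13856654 0) (P.cons (P.lf 2648770 0 0) (P.cons (P.lf 0 3781 0) (P.cons (P.lf 0 25150 0) P.nil))))) (P.cons (P.cons (P.lf 0 2882924 0) (P.cons (P.lf 4261111 0 0) (P.cons (P.lf 0 230005 0) (P.cons (P.lf 0 17443 0) P.nil)))) (P.cons (P.cons (P.lf 0 4102899 0) (P.cons (P.lf 1329952 0 0) (P.cons (P.lf 0 173613 0) P.nil))) (P.cons (P.cons (P.lf 1117592 0 0) (P.cons (P.lf 0 152914 0) P.nil)) (P.cons (P.cons (P.lf 100181 0 0) P.nil) P.nil)))))) 216023)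
 EL.nil)
noncomputable def S169_198_512_586_33 : EL := (EL.cons 14 (TM.mk (P.lf 8589934592 0 0) 0)
 EL.nil)
noncomputable def S169_198_512_586_34 : EL := (EL.cons 14 (TM.mk (P.cons (P.cons (P.lf 612670892 0 0) (P.cons (P.lf 0 501225520 0) (P.cons (P.lf 7977664 0 0) (P.lf 2659216 0 0)))) (P.cons (P.cons (P.lf 412587646 0 0) (P.cons (P.lf 0 121825360 0) (P.cons (P.lf 1939008 0 0) (P.lf 646336 0 0)))) (P.cons (P.cons (P.lf 0 147017694 0) (P.cons (P.lf 0 2127832 0) (P.cons (P.lf 33864 0 0) (P.lf 11288 0 0)))) (P.cons (P.cons (P.lf 0 10173200 0) (P.cons (P.lf 1714192 0 0) (P.cons (P.lf 0 27280 0) P.nil))) (P.cons (P.cons (P.lf 1600154 0 0) (P.cons (P.lf 126872 0 0) P.nil)) (P.cons (P.cons (P.lf 170740 0 0) P.nil) P.nil)))))) 45762)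
 EL.nil)
noncomputable def S169_198_512_586_35 : EL := (EL.cons 14 (TM.mk (P.cons (P.cons (P.lf 43698308 0 0) (P.cons (P.lf 0 71499096 0) (P.cons (P.lf 30384676 0 0) (P.cons (P.lf 0 551664 0) (P.cons (P.lf 0 302922 0) (P.cons (P.lf 4938 0 0) P.nil)))))) (P.cons (P.cons (P.lf 58855032 0 0) (P.cons (P.lf 0 65527462 0) (P.cons (P.lf 15260054 0 0) (P.cons (P.lf 0 104916 0) (P.cons (P.lf 0 147254 0) P.nil))))) (P.cons (P.cons (P.lf 0 1154648 0) (P.cons (P.lf 5150614 0 0) (P.cons (P.lf 1894108 0 0) (P.cons (P.lf 0 90228 0) P.nil)))) (P.cons (P.cons (P.lf 0 15574158 0) (P.cons (P.lf 5397448 0 0) (P.cons (P.lf 0 225598 0) P.nil))) (P.cons (P.cons (P.lf 1767214 0 0) (P.cons (P.lf 357424 0 0) P.nil)) (P.cons (P.cons (P.lf 526302 0 0) P.nil) P.nil)))))) 422606)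
 EL.nil)
noncomputable def S169_198_512_586_36 : EL := (EL.cons 14 (TM.mk (P.cons (P.lf 0 4422059048 0) (P.cons (P.lf 723236960 0 0) (P.cons (P.lf 42477960 0 0) (P.cons (P.lf 0 1087808 0) (P.cons (P.lf 0 194464 0) (P.cons (P.lf 0 3120 0) P.nil)))))) 1024)
 EL.nil)
noncomputable def S169_198_512_586_37 : EL := (EL.cons 14 (TM.mk (P.cons (P.cons (P.lf 0 315400172 0) (P.cons (P.lf 258028604 0 0) (P.cons (P.lf 0 4106864 0) (P.lf 0 1368952 0)))) (P.cons (P.cons (P.lf 0 160813878 0) (P.cons (P.lf 20514022 0 0) (P.cons (P.lf 0 326506 0) (P.lf 0 108834 0)))) (P.cons (P.cons (P.lf 113451918 0 0) (P.cons (P.lf 0 11640396 0) (P.cons (P.lf 185272 0 0) (P.lf 61756 0 0)))) (P.cons (P.cons (P.lf 0 5178470 0) (P.cons (P.lf 0 1600574 0) (P.cons (P.lf 25472 0 0) P.nil))) (P.cons (P.cons (P.lf 0 2473426 0) (P.cons (P.lf 95266 0 0) P.nil)) (P.cons (P.cons (P.lf 5576 0 0) P.nil) P.nil))))))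 87496)
 EL.nil)
noncomputable def S169_198_512_586_38 : EL := (EL.cons 14 (TM.mk (P.cons (P.cons (P.lf 0 22495688 0) (P.cons (P.lf 36807406 0 0) (P.cons (P.lf 0 15641892 0) (P.cons (P.lf 283994 0 0) (P.cons (P.lf 155942 0 0) (P.cons (P.lf 0 2542 0) P.nil)))))) (P.cons (P.cons (P.lf 0 26619084 0) (P.cons (P.lf 27713308 0 0) (P.cons (P.lf 0 5297540 0) (P.cons (P.lf 7562 0 0) (P.cons (P.lf 50300 0 0) P.nil))))) (P.cons (P.cons (P.lf 5765848 0 0) (P.cons (P.lf 0 8522222 0) (P.cons (P.lf 460010 0 0) (P.cons (P.lf 34886 0 0) P.nil)))) (P.cons (P.cons (P.lf 8205798 0 0) (P.cons (P.lf 0 2659904 0) (P.cons (P.lf 347226 0 0) P.nil))) (P.cons (P.cons (P.lf 0 2235184 0) (P.cons (P.lf 305828 0 0) P.nil)) (P.cons (P.cons (P.lf 0 200362 0) P.nil) P.nil)))))) 432046)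
 EL.nil)
noncomputable def S169_198_512_586_39 : EL := (EL.cons 14 (TM.mk (P.cons (P.lf 2276455776 0 0) (P.cons (P.lf 0 744638158 0) (P.cons (P.lf 17158640 0 0) (P.cons (P.lf 8272934 0 0) (P.cons (P.lf 227096 0 0) (P.cons (P.lf 0 40292 0) P.nil)))))) 3922)
 EL.nil)
noncomputable def S169_198_512_586_40 : EL := (EL.cons 14 (TM.mk (P.cons (P.cons (P.lf 162366566 0 0) (P.cons (P.lf 0 132831946 0) (P.cons (P.lf 2114194 0 0) (P.lf 704730 0 0)))) (P.cons (P.cons (P.lf 56230858 0 0) (P.cons (P.lf 11164416 0 0) (P.cons (P.lf 0 177696 0) (P.lf 0 59230 0)))) (P.cons (P.cons (P.lf 0 73504072 0) (P.cons (P.lf 8995592 0 0) (P.cons (P.lf 0 143176 0) (P.lf 0 47724 0)))) (P.cons (P.cons (P.lf 11462738 0 0) (P.cons (P.lf 0 87336 0) (P.cons (P.lf 1390 0 0) P.nil))) (P.cons (P.cons (P.lf 1425836 0 0) (P.cons (P.lf 0 249806 0) P.nil)) (P.cons (P.cons (P.lf 0 247342 0) P.nil) P.nil))))))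 88906)
 EL.nil)
noncomputable def S169_198_512_586_41 : EL := (EL.cons 14 (TM.mk (P.cons (P.cons (P.lf 11580676 0 0) (P.cons (P.lf 0 18948284 0) (P.cons (P.lf 8052374 0 0) (P.cons (P.lf 0 146198 0) (P.cons (P.lf 0 80278 0) (P.cons (P.lf 1308 0 0) P.nil)))))) (P.cons (P.cons (P.lf 11809338 0 0) (P.cons (P.lf 0 11167652 0) (P.cons (P.lf 1410166 0 0) (P.cons (P.lf 20018 0 0) (P.cons (P.lf 0 12764 0) P.nil))))) (P.cons (P.cons (P.lf 0 5320692 0) (P.cons (P.lf 6902562 0 0) (P.cons (P.lf 0 760192 0) (P.cons (P.lf 0 15918 0) P.nil)))) (P.cons (P.cons (P.lf 0 3867630 0) (P.cons (P.lf 784154 0 0) (P.cons (P.lf 0 164236 0) P.nil))) (P.cons (P.cons (P.lf 1873950 0 0) (P.cons (P.lf 0 427878 0) P.nil)) (P.cons (P.cons (P.lf 0 44588 0) P.nil) P.nil)))))) 339588)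
 EL.nil)
noncomputable def S169_198_512_586_42 : EL := (EL.cons 14 (TM.mk (P.cons (P.lf 0 1171909022 0) (P.cons (P.lf 575004478 0 0) (P.cons (P.lf 0 60271372 0) (P.cons (P.lf 0 6784766 0) (P.cons (P.lf 707252 0 0) (P.cons (P.lf 94630 0 0) P.nil)))))) 9404)
 EL.nil)
noncomputable def S169_198_512_586_43 : EL := (EL.cons 14 (TM.mk (P.cons (P.cons (P.lf 0 83585566 0) (P.cons (P.lf 68381278 0 0) (P.cons (P.lf 0 1088378 0) (P.lf 0 362790 0)))) (P.cons (P.cons (P.lf 0 15276794 0) (P.cons (P.lf 0 16931290 0) (P.cons (P.lf 269484 0 0) (P.lf 89826 0 0)))) (P.cons (P.cons (P.lf 43376882 0 0) (P.cons (P.lf 0 4347756 0) (P.cons (P.lf 69200 0 0) (P.lf 23066 0 0)))) (P.cons (P.cons (P.lf 0 11832198 0) (P.cons (P.lf 874382 0 0) (P.cons (P.lf 0 13916 0) P.nil))) (P.cons (P.cons (P.lf 0 143180 0) (P.cons (P.lf 167322 0 0) P.nil)) (P.cons (P.cons (P.lf 312040 0 0) P.nil) P.nil))))))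 119252)
 EL.nil)
noncomputable def S169_198_512_586_44 : EL := (EL.cons 14 (TM.mk (P.cons (P.cons (P.lf 0 5961680 0) (P.cons (P.lf 9754490 0 0) (P.cons (P.lf 0 4145324 0) (P.cons (P.lf 75262 0 0) (P.cons (P.lf 41326 0 0) (P.cons (P.lf 0 672 0) P.nil)))))) (P.cons (P.cons (P.lf 0 5104348 0) (P.cons (P.lf 4153688 0 0) (P.cons (P.lf 0 47970 0) (P.cons (P.lf 0 22614 0) (P.cons (P.lf 0 186 0) P.nil))))) (P.cons (P.cons (P.lf 3790632 0 0) (P.cons (P.lf 0 4587378 0) (P.cons (P.lf 549892 0 0) (P.cons (P.lf 9156 0 0) P.nil)))) (P.cons (P.cons (P.lf 1599990 0 0) (P.cons (P.lf 124662 0 0) (P.cons (P.lf 26496 0 0) P.nil))) (P.cons (P.cons (P.lf 0 1318408 0) (P.cons (P.lf 322268 0 0) P.nil)) (P.cons (P.cons (P.lf 162008 0 0) P.nil) P.nil)))))) 308388)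
 EL.nil)
noncomputable def S169_198_512_586_45 : EL := (EL.cons 14 (TM.mk (P.cons (P.cons (P.lf 3116750 0 0) (P.cons (P.lf 0 7649432 0) (P.cons (P.lf 6379744 0 0) (P.cons (P.lf 0 1865176 0) (P.cons (P.lf 16668 0 0) (P.cons (P.lf 26920 0 0) P.nil)))))) (P.cons (P.cons (P.lf 6296688 0 0) (P.cons (P.lf 0 12161864 0) (P.cons (P.lf 7449932 0 0) (P.cons (P.lf 0 1410822 0) (P.cons (P.lf 0 15740 0) P.nil))))) (P.cons (P.cons (P.lf 1996640 0 0) (P.cons (P.lf 0 2334456 0) (P.cons (P.lf 1006910 0 0) (P.cons (P.lf 0 342666 0) P.nil)))) (P.cons (P.cons (P.lf 0 2225338 0) (P.cons (P.lf 2757822 0 0) (P.cons (P.lf 0 622934 0) P.nil))) (P.cons (P.cons (P.lf 0 663806 0) (P.cons (P.lf 391310 0 0) P.nil)) (P.cons (P.cons (P.lf 402172 0 0) P.nil) P.nil)))))) 755016)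
 EL.nil)
noncomputable def S169_198_512_586_46 : EL := (EL.cons 15 (TM.mk (P.lf 4294967296 0 0) 0)
 EL.nil)
noncomputable def S169_198_512_586_47 : EL := (EL.cons 15 (TM.mk (P.cons (P.cons (P.lf 306335446 0 0) (P.cons (P.lf 0 250612760 0) (P.cons (P.lf 3988832 0 0) (P.lf 1329608 0 0)))) (P.cons (P.cons (P.lf 206293823 0 0) (P.cons (P.lf 0 60912680 0) (P.cons (P.lf 969504 0 0) (P.lf 323168 0 0)))) (P.cons (P.cons (P.lf 0 73508847 0) (P.cons (P.lf 0 1063916 0) (P.cons (P.lf 16932 0 0) (P.lf 5644 0 0)))) (P.cons (P.cons (P.lf 0 5086600 0) (P.cons (P.lf 857096 0 0) (P.cons (P.lf 0 13640 0) P.nil))) (P.cons (P.cons (P.lf 800077 0 0) (P.cons (P.lf 63436 0 0) P.nil)) (P.cons (P.cons (P.lf 85370 0 0) P.nil) P.nil)))))) 22881)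
 EL.nil)
noncomputable def S169_198_512_586_48 : EL := (EL.cons 15 (TM.mk (P.cons (P.cons (P.lf 21849154 0 0) (P.cons (P.lf 0 35749548 0) (P.cons (P.lf 15192338 0 0) (P.cons (P.lf 0 275832 0) (P.cons (P.lf 0 151461 0) (P.cons (P.lf 2469 0 0) P.nil)))))) (P.cons (P.cons (P.lf 29427516 0 0) (P.cons (P.lf 0 32763731 0) (P.cons (P.lf 7630027 0 0) (P.cons (P.lf 0 52458 0) (P.cons (P.lf 0 73627 0) P.nil))))) (P.cons (P.cons (P.lf 0 577324 0) (P.cons (P.lf 2575307 0 0) (P.cons (P.lf 947054 0 0) (P.cons (P.lf 0 45114 0) P.nil)))) (P.cons (P.cons (P.lf 0 7787079 0) (P.cons (P.lf 2698724 0 0) (P.cons (P.lf 0 112799 0) P.nil))) (P.cons (P.cons (P.lf 883607 0 0) (P.cons (P.lf 178712 0 0) P.nil)) (P.cons (P.cons (P.lf 263151 0 0) P.nil) P.nil)))))) 211303)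
 EL.nil)
noncomputable def S169_198_512_586 : SL := (SL.cons S169_198_512_586_0 (SL.cons S169_198_512_586_1 (SL.cons S169_198_512_586_2 (SL.cons S169_198_512_586_3 (SL.cons S169_198_512_586_4 (SL.cons S169_198_512_586_5 (SL.cons S169_198_512_586_6 (SL.cons S169_198_512_586_7 (SL.cons S169_198_512_586_8 (SL.cons S169_198_512_586_9 (SL.cons S169_198_512_586_10 (SL.cons S169_198_512_586_11 (SL.cons S169_198_512_586_12 (SL.cons S169_198_512_586_13 (SL.cons S169_198_512_586_14 (SL.cons S169_198_512_586_15 (SL.cons S169_198_512_586_16 (SL.cons S169_198_512_586_17 (SL.cons S169_198_512_586_18 (SL.cons S169_198_512_586_19 (SL.cons S169_198_512_586_20 (SL.cons S169_198_512_586_21 (SL.cons S169_198_512_586_22 (SL.cons S169_198_512_586_23 (SL.cons S169_198_512_586_24 (SL.cons S169_198_512_586_25 (SL.cons S169_198_512_586_26 (SL.cons S169_198_512_586_27 (SL.cons S169_198_512_586_28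 (SL.cons S169_198_512_586_29 (SL.cons S169_198_512_586_30 (SL.cons S169_198_512_586_31 (SL.cons S169_198_512_586_32 (SL.cons S169_198_512_586_33 (SL.cons S169_198_512_586_34 (SL.cons S169_198_512_586_35 (SL.cons S169_198_512_586_36 (SL.cons S169_198_512_586_37 (SL.cons S169_198_512_586_38 (SL.cons S169_198_512_586_39 (SL.cons S169_198_512_586_40 (SL.cons S169_198_512_586_41 (SL.cons S169_198_512_586_42 (SL.cons S169_198_512_586_43 (SL.cons S169_198_512_586_44 (SL.cons S169_198_512_586_45 (SL.cons S169_198_512_586_46 (SL.cons S169_198_512_586_47 (SL.cons S169_198_512_586_48 SL.nil)))))))))))))))))))))))))))))))))))))))))))))))))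
theorem S169_198_364_401_ok : band (seq (shp 5 169 198 364 401) S169_198_364_401) (sok S169_198_364_401) = true := by decide +kernel

theorem S169_198_364_438_ok : band (seq (shp 5 169 198 364 438) S169_198_364_438) (sok S169_198_364_438) = true := by decide +kernel

theorem S169_198_364_512_ok : band (seq (shp 5 169 198 364 512) S169_198_364_512) (sok S169_198_364_512) = true := by decide +kernel

theorem S169_198_401_438_ok : band (seq (shp 5 169 198 401 438) S169_198_401_438) (sok S169_198_401_438) = true := by decide +kernel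

theorem S169_198_438_512_ok : band (seq (shp 5 169 198 438 512) S169_198_438_512) (sok S169_198_438_512) = true := by decide +kernel

theorem S169_198_512_586_ok : band (seq (shp 5 169 198 512 586) S169_198_512_586) (sok S169_198_512_586) = true := by decide +kernel

end Vale.Agent.P098.Ck
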