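import Vale.Agent.P098.CkDefs

namespace Vale.Agent.P098.Ck

noncomputable def S169_198_512_660_0 : EL := (EL.cons 0 (TM.mk (P.cons (P.lf 6454925654 0 0) (P.cons (P.lf 654467131 0 0) (P.cons (P.lf 0 15080835 0) (P.cons (P.lf 0 7271133 0) (P.cons (P.lf 0 199596 0) (P.cons (P.lf 35412 0 0) P.nil)))))) 3454)
 (EL.cons 1 (TM.mk (P.cons (P.lf 0 1695086628 0) (P.cons (P.lf 139901857 0 0) (P.cons (P.lf 47471786 0 0) (P.cons (P.lf 293435 0 0) (P.cons (P.lf 0 328029 0) (P.cons (P.lf 0 15684 0) P.nil)))))) 1940)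
 (EL.cons 5 (TM.mk (P.cons (P.lf 5006359730 0 0) (P.cons (P.lf 0 232699422 0) (P.cons (P.lf 5362070 0 0) (P.cons (P.lf 2585292 0 0) (P.cons (P.lf 70970 0 0) (P.cons (P.lf 0 12590 0) P.nil)))))) 1169)
 (EL.cons 9 (TM.mk (P.lf 6442450944 0 0) 2)
 EL.nil))))
noncomputable def S169_198_512_660_1 : EL := (EL.cons 0 (TM.mk (P.cons (P.cons (P.lf 0 751617513 0) (P.cons (P.lf 0 50291357 0) (P.cons (P.lf 3362370 0 0) (P.lf 1120792 0 0)))) (P.cons (P.cons (P.lf 1187391110 0 0) (P.cons (P.lf 0 303142911 0) (P.cons (P.lf 20267426 0 0) (P.lf 6755803 0 0)))) (P.cons (P.cons (P.lf 0 100631051 0) (P.cons (P.lf 0 64219253 0) (P.cons (P.lf 4293544 0 0) (P.lf 1431177 0 0)))) (P.cons (P.cons (P.lf 0 65676675 0) (P.cons (P.lf 3798434 0 0) (P.cons (P.lf 0 253951 0) P.nil))) (P.cons (P.cons (P.lf 0 488350 0) (P.cons (P.lf 1910425 0 0) P.nil)) (P.cons (P.cons (P.lf 1324443 0 0) P.nil) P.nil))))))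 1063819)
 (EL.cons 1 (TM.mk (P.cons (P.cons (P.lf 0 204370690 0) (P.cons (P.lf 330960282 0 0) (P.cons (P.lf 0 22127226 0) (P.lf 0 7375736 0)))) (P.cons (P.cons (P.lf 18158955 0 0) (P.cons (P.lf 121591215 0 0) (P.cons (P.lf 0 8129295 0) (P.lf 0 2709761 0)))) (P.cons (P.cons (P.lf 167778973 0 0) (P.cons (P.lf 0 16184232 0) (P.cons (P.lf 1082038 0 0) (P.lf 360675 0 0)))) (P.cons (P.cons (P.lf 555736 0 0) (P.cons (P.lf 0 7043915 0) (P.cons (P.lf 470927 0 0) P.nil))) (P.cons (P.cons (P.lf 0 5685635 0) (P.cons (P.lf 0 107628 0) P.nil)) (P.cons (P.cons (P.lf 0 265751 0) P.nil) P.nil)))))) 628288)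
 (EL.cons 5 (TM.mk (P.cons (P.cons (P.lf 371011701 0 0) (P.cons (P.lf 0 793515926 0) (P.cons (P.lf 53052626 0 0) (P.lf 17684204 0 0)))) (P.cons (P.cons (P.lf 0 172838019 0) (P.cons (P.lf 0 89430022 0) (P.cons (P.lf 5979090 0 0) (P.lf 1993036 0 0)))) (P.cons (P.cons (P.lf 0 90955398 0) (P.cons (P.lf 19388920 0 0) (P.cons (P.lf 0 1296292 0) (P.lf 0 432092 0)))) (P.cons (P.cons (P.lf 16130626 0 0) (P.cons (P.lf 1424430 0 0) (P.cons (P.lf 0 95236 0) P.nil))) (P.cons (P.cons (P.lf 1639335 0 0) (P.cons (P.lf 0 473868 0) P.nil)) (P.cons (P.cons (P.lf 0 333211 0) P.nil) P.nil)))))) 533616)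
 (EL.cons 9 (TM.mk (P.cons (P.cons (P.lf 91561695 0 0) (P.cons (P.lf 0 715938786 0) (P.cons (P.lf 47865996 0 0) (P.lf 15955326 0 0)))) (P.cons (P.cons (P.lf 220010722 0 0) (P.cons (P.lf 0 174012492 0) (P.cons (P.lf 11634066 0 0) (P.lf 3878022 0 0)))) (P.cons (P.cons (P.lf 0 111825280 0) (P.cons (P.lf 0 3039348 0) (P.cons (P.lf 203202 0 0) (P.lf 67734 0 0)))) (P.cons (P.cons (P.lf 0 6371538 0) (P.cons (P.lf 2448504 0 0) (P.cons (P.lf 0 163698 0) P.nil))) (P.cons (P.cons (P.lf 1293259 0 0) (P.cons (P.lf 181230 0 0) P.nil)) (P.cons (P.cons (P.lf 121497 0 0) P.nil) P.nil)))))) 111194)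
 (EL.cons 2 (TM.mk (P.cons (P.cons (P.lf 964301518 0 0) (P.cons (P.lf 0 149298089 0) (P.cons (P.lf 0 71927108 0) (P.cons (P.lf 2721931 0 0) (P.lf 680481 0 0))))) (P.cons (P.cons (P.lf 0 1461321 0) (P.cons (P.lf 226248 0 0) (P.cons (P.lf 108998 0 0) (P.cons (P.lf 0 4123 0) (P.lf 0 1032 0))))) (P.cons (P.cons (P.lf 0 38418879 0) (P.cons (P.lf 5948204 0 0) (P.cons (P.lf 2865656 0 0) (P.cons (P.lf 0 108441 0) P.nil)))) (P.cons (P.cons (P.lf 0 2410824 0) (P.cons (P.lf 373255 0 0) (P.cons (P.lf 179822 0 0) P.nil))) (P.cons (P.cons (P.lf 351694 0 0) (P.cons (P.lf 0 54450 0) P.nil)) (P.cons (P.cons (P.lf 39585 0 0) P.nil) P.nil)))))) 90935)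
 (EL.cons 6 (TM.mk (P.cons (P.cons (P.lf 816964110 0 0) (P.cons (P.lf 0 126486558 0) (P.cons (P.lf 0 60937233 0) (P.cons (P.lf 2306043 0 0) (P.lf 576510 0 0))))) (P.cons (P.cons (P.lf 198567201 0 0) (P.cons (P.lf 0 30743187 0) (P.cons (P.lf 0 14811096 0) (P.cons (P.lf 560493 0 0) (P.lf 140121 0 0))))) (P.cons (P.cons (P.lf 3468225 0 0) (P.cons (P.lf 0 536967 0) (P.cons (P.lf 0 258693 0) (P.cons (P.lf 9789 0 0) P.nil)))) (P.cons (P.cons (P.lf 0 2794017 0) (P.cons (P.lf 432582 0 0) (P.cons (P.lf 208404 0 0) P.nil))) (P.cons (P.cons (P.lf 0 206802 0) (P.cons (P.lf 32016 0 0) P.nil)) (P.cons (P.cons (P.lf 14562 0 0) P.nil) P.nil)))))) 49578)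
 EL.nil))))))
noncomputable def S169_198_512_660_2 : EL := (EL.cons 0 (TM.mk (P.cons (P.cons (P.lf 0 22668156 0) (P.cons (P.lf 186012078 0 0) (P.cons (P.lf 0 80973875 0) (P.cons (P.lf 5019067 0 0) (P.cons (P.lf 2748475 0 0) (P.cons (P.lf 0 204238 0) P.nil)))))) (P.cons (P.cons (P.lf 0 23982718 0) (P.cons (P.lf 0 179337715 0) (P.cons (P.lf 35249739 0 0) (P.cons (P.lf 886523 0 0) (P.cons (P.lf 0 932760 0) P.nil))))) (P.cons (P.cons (P.lf 99355842 0 0) (P.cons (P.lf 0 69337798 0) (P.cons (P.lf 26203597 0 0) (P.cons (P.lf 0 1338699 0) P.nil)))) (P.cons (P.cons (P.lf 0 41064014 0) (P.cons (P.lf 15895592 0 0) (P.cons (P.lf 1824967 0 0) P.nil))) (P.cons (P.cons (P.lf 0 4390647 0) (P.cons (P.lf 6624122 0 0) P.nil)) (P.cons (P.cons (P.lf 2448163 0 0) P.nil) P.nil)))))) 8063529)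
 (EL.cons 1 (TM.mk (P.cons (P.cons (P.lf 0 5466737 0) (P.cons (P.lf 49475740 0 0) (P.cons (P.lf 0 55932471 0) (P.cons (P.lf 5934109 0 0) (P.cons (P.lf 2110344 0 0) (P.cons (P.lf 0 156819 0) P.nil)))))) (P.cons (P.cons (P.lf 0 11825259 0) (P.cons (P.lf 19339769 0 0) (P.cons (P.lf 0 37747869 0) (P.cons (P.lf 4443565 0 0) (P.cons (P.lf 1461900 0 0) P.nil))))) (P.cons (P.cons (P.lf 14099206 0 0) (P.cons (P.lf 0 37014010 0) (P.cons (P.lf 0 820699 0) (P.cons (P.lf 1265524 0 0) P.nil)))) (P.cons (P.cons (P.lf 9051507 0 0) (P.cons (P.lf 0 13497143 0) (P.cons (P.lf 2973734 0 0) P.nil))) (P.cons (P.cons (P.lf 0 5522580 0) (P.cons (P.lf 883297 0 0) P.nil)) (P.cons (P.cons (P.lf 0 640862 0) P.nil) P.nil)))))) 4463156)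
 (EL.cons 5 (TM.mk (P.cons (P.cons (P.lf 9534584 0 0) (P.cons (P.lf 0 89201181 0) (P.cons (P.lf 120501898 0 0) (P.cons (P.lf 0 13327565 0) (P.cons (P.lf 0 4593186 0) (P.cons (P.lf 341308 0 0) P.nil)))))) (P.cons (P.cons (P.lf 15614704 0 0) (P.cons (P.lf 2740104 0 0) (P.cons (P.lf 35378868 0 0) (P.cons (P.lf 0 4816252 0) (P.cons (P.lf 0 1426099 0) P.nil))))) (P.cons (P.cons (P.lf 0 30413713 0) (P.cons (P.lf 39253499 0 0) (P.cons (P.lf 0 4200565 0) (P.cons (P.lf 0 664042 0) P.nil)))) (P.cons (P.cons (P.lf 5739207 0 0) (P.cons (P.lf 2643100 0 0) (P.cons (P.lf 0 1634124 0) P.nil))) (P.cons (P.cons (P.lf 3309385 0 0) (P.cons (P.lf 0 1975959 0) P.nil)) (P.cons (P.cons (P.lf 0 515756 0) P.nil) P.nil)))))) 4141772)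
 (EL.cons 9 (TM.mk (P.cons (P.cons (P.lf 1301296 0 0) (P.cons (P.lf 0 20350195 0) (P.cons (P.lf 80921644 0 0) (P.cons (P.lf 0 10185013 0) (P.cons (P.lf 0 3190542 0) (P.cons (P.lf 237088 0 0) P.nil)))))) (P.cons (P.cons (P.lf 6253692 0 0) (P.cons (P.lf 0 53845062 0) (P.cons (P.lf 42275388 0 0) (P.cons (P.lf 0 3971512 0) (P.cons (P.lf 0 1550955 0) P.nil))))) (P.cons (P.cons (P.lf 4334823 0 0) (P.cons (P.lf 12882411 0 0) (P.cons (P.lf 4514355 0 0) (P.cons (P.lf 0 1005900 0) P.nil)))) (P.cons (P.cons (P.lf 0 7818808 0) (P.cons (P.lf 7318992 0 0) (P.cons (P.lf 0 869338 0) P.nil))) (P.cons (P.cons (P.lf 1542597 0 0) (P.cons (P.lf 334654 0 0) P.nil)) (P.cons (P.cons (P.lf 312972 0 0) P.nil) P.nil)))))) 1388900)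
 (EL.cons 2 (TM.mk (P.cons (P.cons (P.lf 27409775 0 0) (P.cons (P.lf 0 218566147 0) (P.cons (P.lf 45467094 0 0) (P.cons (P.lf 18621506 0 0) (P.cons (P.lf 0 2393926 0) (P.cons (P.lf 0 467060 0) P.nil)))))) (P.cons (P.cons (P.lf 65820560 0 0) (P.cons (P.lf 0 61958019 0) (P.cons (P.lf 6566377 0 0) (P.cons (P.lf 4664930 0 0) (P.cons (P.lf 0 536450 0) P.nil))))) (P.cons (P.cons (P.lf 0 34667701 0) (P.cons (P.lf 13075368 0 0) (P.cons (P.lf 877140 0 0) (P.cons (P.lf 0 764780 0) P.nil)))) (P.cons (P.cons (P.lf 0 4549190 0) (P.cons (P.lf 4049915 0 0) (P.cons (P.lf 0 402333 0) P.nil))) (P.cons (P.cons (P.lf 1569088 0 0) (P.cons (P.lf 0 101475 0) P.nil)) (P.cons (P.cons (P.lf 220612 0 0) P.nil) P.nil)))))) 1328157)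
 (EL.cons 6 (TM.mk (P.cons (P.cons (P.lf 23221788 0 0) (P.cons (P.lf 0 185171022 0) (P.cons (P.lf 38520096 0 0) (P.cons (P.lf 15776292 0 0) (P.cons (P.lf 0 2028156 0) (P.cons (P.lf 0 395694 0) P.nil)))))) (P.cons (P.cons (P.lf 61443078 0 0) (P.cons (P.lf 0 97778688 0) (P.cons (P.lf 14983962 0 0) (P.cons (P.lf 7810584 0 0) (P.cons (P.lf 0 950508 0) P.nil))))) (P.cons (P.cons (P.lf 0 14700234 0) (P.cons (P.lf 0 9992418 0) (P.cons (P.lf 3816174 0 0) (P.cons (P.lf 1020018 0 0) P.nil)))) (P.cons (P.cons (P.lf 0 8351766 0) (P.cons (P.lf 2160324 0 0) (P.cons (P.lf 430698 0 0) P.nil))) (P.cons (P.cons (P.lf 0 381876 0) (P.cons (P.lf 449640 0 0) P.nil)) (P.cons (P.cons (P.lf 186954 0 0) P.nil) P.nil)))))) 1139166)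
 EL.nil))))))
noncomputable def S169_198_512_660_3 : EL := (EL.cons 0 (TM.mk (P.cons (P.lf 2000791209 0 0) (P.cons (P.lf 0 654467131 0) (P.cons (P.lf 15080835 0 0) (P.cons (P.lf 7271133 0 0) (P.cons (P.lf 199596 0 0) (P.cons (P.lf 0 35412 0) P.nil)))))) 3454)
 (EL.cons 1 (TM.mk (P.cons (P.lf 1695086628 0 0) (P.cons (P.lf 0 139901857 0) (P.cons (P.lf 0 47471786 0) (P.cons (P.lf 0 293435 0) (P.cons (P.lf 328029 0 0) (P.cons (P.lf 15684 0 0) P.nil)))))) 1940)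
 (EL.cons 5 (TM.mk (P.cons (P.lf 1436091214 0 0) (P.cons (P.lf 232699422 0 0) (P.cons (P.lf 0 5362070 0) (P.cons (P.lf 0 2585292 0) (P.cons (P.lf 0 70970 0) (P.cons (P.lf 12590 0 0) P.nil)))))) 1162)
 EL.nil)))
noncomputable def S169_198_512_660_4 : EL := (EL.cons 0 (TM.mk (P.cons (P.cons (P.lf 28435735 0 0) (P.cons (P.lf 0 222344576 0) (P.cons (P.lf 14865438 0 0) (P.lf 4955143 0 0)))) (P.cons (P.cons (P.lf 59025888 0 0) (P.cons (P.lf 18687877 0 0) (P.cons (P.lf 0 1249428 0) (P.lf 0 416475 0)))) (P.cons (P.cons (P.lf 0 56864692 0) (P.cons (P.lf 15057529 0 0) (P.cons (P.lf 0 1006711 0) (P.lf 0 335569 0)))) (P.cons (P.cons (P.lf 9999541 0 0) (P.cons (P.lf 0 146191 0) (P.cons (P.lf 9775 0 0) P.nil))) (P.cons (P.cons (P.lf 1038281 0 0) (P.cons (P.lf 0 418141 0) P.nil)) (P.cons (P.cons (P.lf 0 228455 0) P.nil) P.nil)))))) 191005)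
 (EL.cons 1 (TM.mk (P.cons (P.cons (P.lf 24090986 0 0) (P.cons (P.lf 0 188372137 0) (P.cons (P.lf 12594120 0 0) (P.lf 4198036 0 0)))) (P.cons (P.cons (P.lf 55899155 0 0) (P.cons (P.lf 0 30237727 0) (P.cons (P.lf 2021621 0 0) (P.lf 673873 0 0)))) (P.cons (P.cons (P.lf 0 34874932 0) (P.cons (P.lf 8254560 0 0) (P.cons (P.lf 0 551880 0) (P.lf 0 183958 0)))) (P.cons (P.cons (P.lf 0 873410 0) (P.cons (P.lf 2025067 0 0) (P.cons (P.lf 0 135388 0) P.nil))) (P.cons (P.cons (P.lf 1297269 0 0) (P.cons (P.lf 0 11617 0) P.nil)) (P.cons (P.cons (P.lf 67351 0 0) P.nil) P.nil)))))) 149276)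
 (EL.cons 5 (TM.mk (P.cons (P.cons (P.lf 20410080 0 0) (P.cons (P.lf 0 159590410 0) (P.cons (P.lf 10669840 0 0) (P.lf 3556612 0 0)))) (P.cons (P.cons (P.lf 52349924 0 0) (P.cons (P.lf 0 64648742 0) (P.cons (P.lf 4322262 0 0) (P.lf 1440752 0 0)))) (P.cons (P.cons (P.lf 0 17056534 0) (P.cons (P.lf 0 6366904 0) (P.cons (P.lf 425674 0 0) (P.lf 141890 0 0)))) (P.cons (P.cons (P.lf 0 5679238 0) (P.cons (P.lf 868146 0 0) (P.cons (P.lf 0 58040 0) P.nil))) (P.cons (P.cons (P.lf 61918 0 0) (P.cons (P.lf 209082 0 0) P.nil)) (P.cons (P.cons (P.lf 121726 0 0) P.nil) P.nil)))))) 102628)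
 EL.nil)))
noncomputable def S169_198_512_660_5 : EL := (EL.cons 0 (TM.mk (P.cons (P.cons (P.lf 404135 0 0) (P.cons (P.lf 0 6320030 0) (P.cons (P.lf 25131322 0 0) (P.cons (P.lf 0 3163093 0) (P.cons (P.lf 0 990864 0) (P.cons (P.lf 73629 0 0) P.nil)))))) (P.cons (P.cons (P.lf 1809973 0 0) (P.cons (P.lf 0 14655011 0) (P.cons (P.lf 4908638 0 0) (P.cons (P.lf 0 198745 0) (P.cons (P.lf 0 157552 0) P.nil))))) (P.cons (P.cons (P.lf 713991 0 0) (P.cons (P.lf 9423110 0 0) (P.cons (P.lf 0 2703193 0) (P.cons (P.lf 67213 0 0) P.nil)))) (P.cons (P.cons (P.lf 0 2852490 0) (P.cons (P.lf 815319 0 0) (P.cons (P.lf 0 538291 0) P.nil))) (P.cons (P.cons (P.lf 1290605 0 0) (P.cons (P.lf 0 670825 0) P.nil)) (P.cons (P.cons (P.lf 0 72733 0) P.nil) P.nil)))))) 1193010)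
 (EL.cons 1 (TM.mk (P.cons (P.cons (P.lf 342384 0 0) (P.cons (P.lf 0 5354381 0) (P.cons (P.lf 21291459 0 0) (P.cons (P.lf 0 2679798 0) (P.cons (P.lf 0 839469 0) (P.cons (P.lf 62379 0 0) P.nil)))))) (P.cons (P.cons (P.lf 1617161 0 0) (P.cons (P.lf 0 13725367 0) (P.cons (P.lf 9365898 0 0) (P.cons (P.lf 0 823777 0) (P.cons (P.lf 0 338790 0) P.nil))))) (P.cons (P.cons (P.lf 995150 0 0) (P.cons (P.lf 4708747 0 0) (P.cons (P.lf 0 326533 0) (P.cons (P.lf 0 103370 0) P.nil)))) (P.cons (P.cons (P.lf 0 2197496 0) (P.cons (P.lf 2043652 0 0) (P.cons (P.lf 0 641960 0) P.nil))) (P.cons (P.cons (P.lf 543504 0 0) (P.cons (P.lf 0 164392 0) P.nil)) (P.cons (P.cons (P.lf 106584 0 0) P.nil) P.nil)))))) 886488)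
 (EL.cons 5 (TM.mk (P.cons (P.cons (P.lf 290072 0 0) (P.cons (P.lf 0 4536274 0) (P.cons (P.lf 18038298 0 0) (P.cons (P.lf 0 2270348 0) (P.cons (P.lf 0 711204 0) (P.cons (P.lf 52848 0 0) P.nil)))))) (P.cons (P.cons (P.lf 1441016 0 0) (P.cons (P.lf 0 12737682 0) (P.cons (P.lf 12346500 0 0) (P.cons (P.lf 0 1253172 0) (P.cons (P.lf 0 460964 0) P.nil))))) (P.cons (P.cons (P.lf 1191076 0 0) (P.cons (P.lf 943696 0 0) (P.cons (P.lf 2465920 0 0) (P.cons (P.lf 0 359198 0) P.nil)))) (P.cons (P.cons (P.lf 0 1592048 0) (P.cons (P.lf 2149772 0 0) (P.cons (P.lf 0 98386 0) P.nil))) (P.cons (P.cons (P.lf 55316 0 0) (P.cons (P.lf 350066 0 0) P.nil)) (P.cons (P.cons (P.lf 130184 0 0) P.nil) P.nil)))))) 637776)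
 EL.nil)))
noncomputable def S169_198_512_660_6 : EL := (EL.cons 12 (TM.mk (P.lf 8589934592 0 0) 0)
 (EL.cons 3 (TM.mk (P.cons (P.lf 0 2072840178 0) (P.cons (P.lf 339017325 0 0) (P.cons (P.lf 19911543 0 0) (P.cons (P.lf 0 509910 0) (P.cons (P.lf 0 91155 0) (P.cons (P.lf 0 1462 0) P.nil)))))) 487)
 (EL.cons 7 (TM.mk (P.cons (P.lf 0 1756127103 0) (P.cons (P.lf 0 142278485 0) (P.cons (P.lf 9042093 0 0) (P.cons (P.lf 848140 0 0) (P.cons (P.lf 0 2043 0) (P.cons (P.lf 0 3166 0) P.nil)))))) 195)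
 EL.nil)))
noncomputable def S169_198_512_660_7 : EL := (EL.cons 12 (TM.mk (P.cons (P.cons (P.lf 122082260 0 0) (P.cons (P.lf 0 954585048 0) (P.cons (P.lf 63821328 0 0) (P.lf 21273768 0 0)))) (P.cons (P.cons (P.lf 293347630 0 0) (P.cons (P.lf 0 232016656 0) (P.cons (P.lf 15512088 0 0) (P.lf 5170696 0 0)))) (P.cons (P.cons (P.lf 0 149100374 0) (P.cons (P.lf 0 4052464 0) (P.cons (P.lf 270936 0 0) (P.lf 90312 0 0)))) (P.cons (P.cons (P.lf 0 8495384 0) (P.cons (P.lf 3264672 0 0) (P.cons (P.lf 0 218264 0) P.nil))) (P.cons (P.cons (P.lf 1724346 0 0) (P.cons (P.lf 241640 0 0) P.nil)) (P.cons (P.cons (P.lf 161996 0 0) P.nil) P.nil)))))) 148234)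
 (EL.cons 3 (TM.mk (P.cons (P.cons (P.lf 844266260 0 0) (P.cons (P.lf 0 460702514 0) (P.cons (P.lf 30801492 0 0) (P.lf 10267160 0 0)))) (P.cons (P.cons (P.lf 0 915208159 0) (P.cons (P.lf 0 36627186 0) (P.cons (P.lf 2448806 0 0) (P.lf 816268 0 0)))) (P.cons (P.cons (P.lf 0 71550561 0) (P.cons (P.lf 20783582 0 0) (P.cons (P.lf 0 1389540 0) (P.lf 0 463178 0)))) (P.cons (P.cons (P.lf 17957326 0 0) (P.cons (P.lf 2857774 0 0) (P.cons (P.lf 0 191060 0) P.nil))) (P.cons (P.cons (P.lf 2550782 0 0) (P.cons (P.lf 0 170088 0) P.nil)) (P.cons (P.cons (P.lf 0 86633 0) P.nil) P.nil)))))) 426684)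
 (EL.cons 7 (TM.mk (P.cons (P.cons (P.lf 0 391643037 0) (P.cons (P.lf 485176294 0 0) (P.cons (P.lf 0 32437760 0) (P.lf 0 10812588 0)))) (P.cons (P.cons (P.lf 384093740 0 0) (P.cons (P.lf 15371668 0 0) (P.cons (P.lf 0 1027717 0) (P.lf 0 342573 0)))) (P.cons (P.cons (P.lf 0 16940701 0) (P.cons (P.lf 0 10602161 0) (P.cons (P.lf 708834 0 0) (P.lf 236277 0 0)))) (P.cons (P.cons (P.lf 0 10466071 0) (P.cons (P.lf 301504 0 0) (P.cons (P.lf 0 20156 0) P.nil))) (P.cons (P.cons (P.lf 372035 0 0) (P.cons (P.lf 217581 0 0) P.nil)) (P.cons (P.cons (P.lf 166383 0 0) P.nil) P.nil)))))) 303566)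
 (EL.cons 10 (TM.mk (P.cons (P.cons (P.lf 0 1998052494 0) (P.cons (P.lf 309348699 0 0) (P.cons (P.lf 149034447 0 0) (P.cons (P.lf 0 5639901 0) (P.lf 0 1409973 0))))) (P.cons (P.cons (P.lf 0 323757750 0) (P.cons (P.lf 50125830 0 0) (P.cons (P.lf 24149043 0 0) (P.cons (P.lf 0 913869 0) (P.lf 0 228465 0))))) (P.cons (P.cons (P.lf 7460316 0 0) (P.cons (P.lf 0 1155042 0) (P.cons (P.lf 0 556464 0) (P.cons (P.lf 21057 0 0) P.nil)))) (P.cons (P.cons (P.lf 3596949 0 0) (P.cons (P.lf 0 556896 0) (P.cons (P.lf 0 268296 0) P.nil))) (P.cons (P.cons (P.lf 98739 0 0) (P.cons (P.lf 0 15285 0) P.nil)) (P.cons (P.cons (P.lf 0 17514 0) P.nil) P.nil)))))) 31851)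
 EL.nil))))
noncomputable def S169_198_512_660_8 : EL := (EL.cons 12 (TM.mk (P.cons (P.cons (P.lf 1735062 0 0) (P.cons (P.lf 0 27133594 0) (P.cons (P.lf 107895526 0 0) (P.cons (P.lf 0 13580018 0) (P.cons (P.lf 0 4254056 0) (P.cons (P.lf 316118 0 0) P.nil)))))) (P.cons (P.cons (P.lf 8338256 0 0) (P.cons (P.lf 0 71793416 0) (P.cons (P.lf 56367184 0 0) (P.cons (P.lf 0 5295350 0) (P.cons (P.lf 0 2067940 0) P.nil))))) (P.cons (P.cons (P.lf 5779764 0 0) (P.cons (P.lf 17176548 0 0) (P.cons (P.lf 6019140 0 0) (P.cons (P.lf 0 1341200 0) P.nil)))) (P.cons (P.cons (P.lf 0 10425078 0) (P.cons (P.lf 9758656 0 0) (P.cons (P.lf 0 1159118 0) P.nil))) (P.cons (P.cons (P.lf 2056796 0 0) (P.cons (P.lf 446206 0 0) P.nil)) (P.cons (P.cons (P.lf 417296 0 0) P.nil) P.nil)))))) 1851838)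
 (EL.cons 3 (TM.mk (P.cons (P.cons (P.lf 24416525 0 0) (P.cons (P.lf 0 207286641 0) (P.cons (P.lf 141851445 0 0) (P.cons (P.lf 0 12495022 0) (P.cons (P.lf 0 5132741 0) (P.cons (P.lf 381410 0 0) P.nil)))))) (P.cons (P.cons (P.lf 33592955 0 0) (P.cons (P.lf 109042483 0 0) (P.cons (P.lf 33994740 0 0) (P.cons (P.lf 0 7950554 0) (P.cons (P.lf 0 1655605 0) P.nil))))) (P.cons (P.cons (P.lf 0 92790000 0) (P.cons (P.lf 85669767 0 0) (P.cons (P.lf 0 8485148 0) (P.cons (P.lf 0 1540509 0) P.nil)))) (P.cons (P.cons (P.lf 22962115 0 0) (P.cons (P.lf 6904643 0 0) (P.cons (P.lf 0 3053534 0) P.nil))) (P.cons (P.cons (P.lf 6826995 0 0) (P.cons (P.lf 0 3083149 0) P.nil)) (P.cons (P.cons (P.lf 0 601579 0) P.nil) P.nil)))))) 4777580)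
 (EL.cons 7 (TM.mk (P.cons (P.cons (P.lf 0 10777532 0) (P.cons (P.lf 95288960 0 0) (P.cons (P.lf 0 92517150 0) (P.cons (P.lf 9395488 0 0) (P.cons (P.lf 3454625 0 0) (P.cons (P.lf 0 256711 0) P.nil)))))) (P.cons (P.cons (P.lf 0 14098260 0) (P.cons (P.lf 0 45762851 0) (P.cons (P.lf 0 14266881 0) (P.cons (P.lf 3336677 0 0) (P.cons (P.lf 694819 0 0) P.nil))))) (P.cons (P.cons (P.lf 40666034 0 0) (P.cons (P.lf 0 30357692 0) (P.cons (P.lf 5305666 0 0) (P.cons (P.lf 238499 0 0) P.nil)))) (P.cons (P.cons (P.lf 0 16058267 0) (P.cons (P.lf 2730150 0 0) (P.cons (P.lf 627854 0 0) P.nil))) (P.cons (P.cons (P.lf 0 792220 0) (P.cons (P.lf 1569678 0 0) P.nil)) (P.cons (P.cons (P.lf 696199 0 0) P.nil) P.nil)))))) 2534588)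
 (EL.cons 10 (TM.mk (P.cons (P.cons (P.lf 0 56793624 0) (P.cons (P.lf 452873532 0 0) (P.cons (P.lf 0 94208760 0) (P.cons (P.lf 0 38584146 0) (P.cons (P.lf 4960272 0 0) (P.cons (P.lf 967764 0 0) P.nil)))))) (P.cons (P.cons (P.lf 0 145670268 0) (P.cons (P.lf 202446696 0 0) (P.cons (P.lf 0 29013714 0) (P.cons (P.lf 0 15976356 0) (P.cons (P.lf 1922802 0 0) P.nil))))) (P.cons (P.cons (P.lf 47461962 0 0) (P.cons (P.lf 10368408 0 0) (P.cons (P.lf 0 7467666 0) (P.cons (P.lf 0 1398954 0) P.nil)))) (P.cons (P.cons (P.lf 15803196 0 0) (P.cons (P.lf 0 4862460 0) (P.cons (P.lf 0 643230 0) P.nil))) (P.cons (P.cons (P.lf 0 172296 0) (P.cons (P.lf 0 555120 0) P.nil)) (P.cons (P.cons (P.lf 0 338718 0) P.nil) P.nil)))))) 1881594)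
 EL.nil))))
noncomputable def S169_198_512_660_9 : EL := (EL.cons 3 (TM.mk (P.cons (P.lf 0 2072840178 0) (P.cons (P.lf 339017325 0 0) (P.cons (P.lf 19911543 0 0) (P.cons (P.lf 0 509910 0) (P.cons (P.lf 0 91155 0) (P.cons (P.lf 0 1462 0) P.nil)))))) 487)
 (EL.cons 7 (TM.mk (P.cons (P.lf 0 1756127103 0) (P.cons (P.lf 0 142278485 0) (P.cons (P.lf 9042093 0 0) (P.cons (P.lf 848140 0 0) (P.cons (P.lf 0 2043 0) (P.cons (P.lf 0 3166 0) P.nil)))))) 195)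
 EL.nil))
noncomputable def S169_198_512_660_10 : EL := (EL.cons 3 (TM.mk (P.cons (P.cons (P.lf 0 29459713 0) (P.cons (P.lf 230351257 0 0) (P.cons (P.lf 0 15400746 0) (P.lf 0 5133580 0)))) (P.cons (P.cons (P.lf 0 65969623 0) (P.cons (P.lf 18313593 0 0) (P.cons (P.lf 0 1224403 0) (P.lf 0 408134 0)))) (P.cons (P.cons (P.lf 47839947 0 0) (P.cons (P.lf 0 10391791 0) (P.cons (P.lf 694770 0 0) (P.lf 231589 0 0)))) (P.cons (P.cons (P.lf 0 3161756 0) (P.cons (P.lf 0 1428887 0) (P.cons (P.lf 95530 0 0) P.nil))) (P.cons (P.cons (P.lf 0 1115713 0) (P.cons (P.lf 85044 0 0) P.nil)) (P.cons (P.cons (P.lf 14986 0 0) P.nil) P.nil)))))) 105305)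
 (EL.cons 7 (TM.mk (P.cons (P.cons (P.lf 0 24958509 0) (P.cons (P.lf 195155464 0 0) (P.cons (P.lf 0 13047638 0) (P.lf 0 4349211 0)))) (P.cons (P.cons (P.lf 0 61994116 0) (P.cons (P.lf 63244678 0 0) (P.cons (P.lf 0 4228390 0) (P.lf 0 1409463 0)))) (P.cons (P.cons (P.lf 25751771 0 0) (P.cons (P.lf 3666637 0 0) (P.cons (P.lf 0 245142 0) (P.lf 0 81714 0)))) (P.cons (P.cons (P.lf 4527248 0 0) (P.cons (P.lf 0 938789 0) (P.cons (P.lf 62764 0 0) P.nil))) (P.cons (P.cons (P.lf 0 339826 0) (P.cons (P.lf 0 130422 0) P.nil)) (P.cons (P.cons (P.lf 0 85458 0) P.nil) P.nil)))))) 63256)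
 EL.nil))
noncomputable def S169_198_512_660_11 : EL := (EL.cons 3 (TM.mk (P.cons (P.cons (P.lf 0 418687 0) (P.cons (P.lf 6547617 0 0) (P.cons (P.lf 0 26036307 0) (P.cons (P.lf 3276998 0 0) (P.cons (P.lf 1026547 0 0) (P.cons (P.lf 0 76282 0) P.nil)))))) (P.cons (P.cons (P.lf 0 1943629 0) (P.cons (P.lf 16253617 0 0) (P.cons (P.lf 0 9343692 0) (P.cons (P.lf 741862 0 0) (P.cons (P.lf 331121 0 0) P.nil))))) (P.cons (P.cons (P.lf 0 1061610 0) (P.cons (P.lf 0 7041231 0) (P.cons (P.lf 1022254 0 0) (P.cons (P.lf 83175 0 0) P.nil)))) (P.cons (P.cons (P.lf 2763013 0 0) (P.cons (P.lf 0 1841767 0) (P.cons (P.lf 641518 0 0) P.nil))) (P.cons (P.cons (P.lf 0 894885 0) (P.cons (P.lf 321833 0 0) P.nil)) (P.cons (P.cons (P.lf 0 44119 0) P.nil) P.nil)))))) 839260)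
 (EL.cons 7 (TM.mk (P.cons (P.cons (P.lf 0 354716 0) (P.cons (P.lf 5547194 0 0) (P.cons (P.lf 0 22058172 0) (P.cons (P.lf 2776300 0 0) (P.cons (P.lf 869699 0 0) (P.cons (P.lf 0 64627 0) P.nil)))))) (P.cons (P.cons (P.lf 0 1733412 0) (P.cons (P.lf 15126877 0 0) (P.cons (P.lf 0 13310829 0) (P.cons (P.lf 1307513 0 0) (P.cons (P.lf 493231 0 0) P.nil))))) (P.cons (P.cons (P.lf 0 1317898 0) (P.cons (P.lf 0 2350994 0) (P.cons (P.lf 0 2050610 0) (P.cons (P.lf 347609 0 0) P.nil)))) (P.cons (P.cons (P.lf 2044519 0 0) (P.cons (P.lf 0 2357814 0) (P.cons (P.lf 207260 0 0) P.nil))) (P.cons (P.cons (P.lf 0 240910 0) (P.cons (P.lf 0 241860 0) P.nil)) (P.cons (P.cons (P.lf 0 129785 0) P.nil) P.nil)))))) 554614)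
 EL.nil))
noncomputable def S169_198_512_660_12 : EL := (EL.cons 4 (TM.mk (P.cons (P.lf 2072840178 0 0) (P.cons (P.lf 0 339017325 0) (P.cons (P.lf 0 19911543 0) (P.cons (P.lf 509910 0 0) (P.cons (P.lf 91155 0 0) (P.cons (P.lf 1462 0 0) P.nil)))))) 487)
 (EL.cons 8 (TM.mk (P.cons (P.lf 1756127103 0 0) (P.cons (P.lf 142278485 0 0) (P.cons (P.lf 0 9042093 0) (P.cons (P.lf 0 848140 0) (P.cons (P.lf 2043 0 0) (P.cons (P.lf 3166 0 0) P.nil)))))) 195)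
 EL.nil))
noncomputable def S169_198_512_660_13 : EL := (EL.cons 4 (TM.mk (P.cons (P.cons (P.lf 29459713 0 0) (P.cons (P.lf 0 230351257 0) (P.cons (P.lf 15400746 0 0) (P.lf 5133580 0 0)))) (P.cons (P.cons (P.lf 65969623 0 0) (P.cons (P.lf 0 18313593 0) (P.cons (P.lf 1224403 0 0) (P.lf 408134 0 0)))) (P.cons (P.cons (P.lf 0 47839947 0) (P.cons (P.lf 10391791 0 0) (P.cons (P.lf 0 694770 0) (P.lf 0 231589 0)))) (P.cons (P.cons (P.lf 3161756 0 0) (P.cons (P.lf 1428887 0 0) (P.cons (P.lf 0 95530 0) P.nil))) (P.cons (P.cons (P.lf 1115713 0 0) (P.cons (P.lf 0 85044 0) P.nil)) (P.cons (P.cons (P.lf 0 14986 0) P.nil) P.nil)))))) 105305)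
 (EL.cons 8 (TM.mk (P.cons (P.cons (P.lf 24958509 0 0) (P.cons (P.lf 0 195155464 0) (P.cons (P.lf 13047638 0 0) (P.lf 4349211 0 0)))) (P.cons (P.cons (P.lf 61994116 0 0) (P.cons (P.lf 0 63244678 0) (P.cons (P.lf 4228390 0 0) (P.lf 1409463 0 0)))) (P.cons (P.cons (P.lf 0 25751771 0) (P.cons (P.lf 0 3666637 0) (P.cons (P.lf 245142 0 0) (P.lf 81714 0 0)))) (P.cons (P.cons (P.lf 0 4527248 0) (P.cons (P.lf 938789 0 0) (P.cons (P.lf 0 62764 0) P.nil))) (P.cons (P.cons (P.lf 339826 0 0) (P.cons (P.lf 130422 0 0) P.nil)) (P.cons (P.cons (P.lf 85458 0 0) P.nil) P.nil)))))) 63256)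
 EL.nil))
noncomputable def S169_198_512_660_14 : EL := (EL.cons 4 (TM.mk (P.cons (P.cons (P.lf 418687 0 0) (P.cons (P.lf 0 6547617 0) (P.cons (P.lf 26036307 0 0) (P.cons (P.lf 0 3276998 0) (P.cons (P.lf 0 1026547 0) (P.cons (P.lf 76282 0 0) P.nil)))))) (P.cons (P.cons (P.lf 1943629 0 0) (P.cons (P.lf 0 16253617 0) (P.cons (P.lf 9343692 0 0) (P.cons (P.lf 0 741862 0) (P.cons (P.lf 0 331121 0) P.nil))))) (P.cons (P.cons (P.lf 1061610 0 0) (P.cons (P.lf 7041231 0 0) (P.cons (P.lf 0 1022254 0) (P.cons (P.lf 0 83175 0) P.nil)))) (P.cons (P.cons (P.lf 0 2763013 0) (P.cons (P.lf 1841767 0 0) (P.cons (P.lf 0 641518 0) P.nil))) (P.cons (P.cons (P.lf 894885 0 0) (P.cons (P.lf 0 321833 0) P.nil)) (P.cons (P.cons (P.lf 44119 0 0) P.nil) P.nil)))))) 839260)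
 (EL.cons 8 (TM.mk (P.cons (P.cons (P.lf 354716 0 0) (P.cons (P.lf 0 5547194 0) (P.cons (P.lf 22058172 0 0) (P.cons (P.lf 0 2776300 0) (P.cons (P.lf 0 869699 0) (P.cons (P.lf 64627 0 0) P.nil)))))) (P.cons (P.cons (P.lf 1733412 0 0) (P.cons (P.lf 0 15126877 0) (P.cons (P.lf 13310829 0 0) (P.cons (P.lf 0 1307513 0) (P.cons (P.lf 0 493231 0) P.nil))))) (P.cons (P.cons (P.lf 1317898 0 0) (P.cons (P.lf 2350994 0 0) (P.cons (P.lf 2050610 0 0) (P.cons (P.lf 0 347609 0) P.nil)))) (P.cons (P.cons (P.lf 0 2044519 0) (P.cons (P.lf 2357814 0 0) (P.cons (P.lf 0 207260 0) P.nil))) (P.cons (P.cons (P.lf 240910 0 0) (P.cons (P.lf 241860 0 0) P.nil)) (P.cons (P.cons (P.lf 129785 0 0) P.nil) P.nil)))))) 554614)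
 EL.nil))
noncomputable def S169_198_512_660_15 : EL := (EL.cons 4 (TM.mk (P.cons (P.lf 0 1067088645 0) (P.cons (P.lf 349049136 0 0) (P.cons (P.lf 0 8043112 0) (P.cons (P.lf 0 3877937 0) (P.cons (P.lf 0 106451 0) (P.cons (P.lf 18886 0 0) P.nil)))))) 1845)
 (EL.cons 8 (TM.mk (P.cons (P.lf 0 904046202 0) (P.cons (P.lf 74614324 0 0) (P.cons (P.lf 25318286 0 0) (P.cons (P.lf 156499 0 0) (P.cons (P.lf 0 174949 0) (P.cons (P.lf 0 8365 0) P.nil)))))) 1031)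
 EL.nil))
noncomputable def S169_198_512_660_16 : EL := (EL.cons 4 (TM.mk (P.cons (P.cons (P.lf 0 15165725 0) (P.cons (P.lf 118583774 0 0) (P.cons (P.lf 0 7928234 0) (P.lf 0 2642743 0)))) (P.cons (P.cons (P.lf 0 31480473 0) (P.cons (P.lf 0 9966868 0) (P.cons (P.lf 666361 0 0) (P.lf 222120 0 0)))) (P.cons (P.cons (P.lf 30327836 0 0) (P.cons (P.lf 0 8030682 0) (P.cons (P.lf 536912 0 0) (P.lf 178970 0 0)))) (P.cons (P.cons (P.lf 0 5333088 0) (P.cons (P.lf 77969 0 0) (P.cons (P.lf 0 5213 0) P.nil))) (P.cons (P.cons (P.lf 0 553750 0) (P.cons (P.lf 223008 0 0) P.nil)) (P.cons (P.cons (P.lf 121843 0 0) P.nil) P.nil)))))) 101878)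
 (EL.cons 8 (TM.mk (P.cons (P.cons (P.lf 0 12848526 0) (P.cons (P.lf 100465140 0 0) (P.cons (P.lf 0 6716864 0) (P.lf 0 2238953 0)))) (P.cons (P.cons (P.lf 0 29812883 0) (P.cons (P.lf 16126788 0 0) (P.cons (P.lf 0 1078198 0) (P.lf 0 359399 0)))) (P.cons (P.cons (P.lf 18599964 0 0) (P.cons (P.lf 0 4402432 0) (P.cons (P.lf 294336 0 0) (P.lf 98111 0 0)))) (P.cons (P.cons (P.lf 465819 0 0) (P.cons (P.lf 0 1080036 0) (P.cons (P.lf 72207 0 0) P.nil))) (P.cons (P.cons (P.lf 0 691877 0) (P.cons (P.lf 6196 0 0) P.nil)) (P.cons (P.cons (P.lf 0 35921 0) P.nil) P.nil)))))) 79604)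
 EL.nil))
noncomputable def S169_198_512_660_17 : EL := (EL.cons 4 (TM.mk (P.cons (P.cons (P.lf 0 215538 0) (P.cons (P.lf 3370682 0 0) (P.cons (P.lf 0 13403371 0) (P.cons (P.lf 1686983 0 0) (P.cons (P.lf 528461 0 0) (P.cons (P.lf 0 39269 0) P.nil)))))) (P.cons (P.cons (P.lf 0 965319 0) (P.cons (P.lf 7816005 0 0) (P.cons (P.lf 0 2617940 0) (P.cons (P.lf 105997 0 0) (P.cons (P.lf 84028 0 0) P.nil))))) (P.cons (P.cons (P.lf 0 380795 0) (P.cons (P.lf 0 5025659 0) (P.cons (P.lf 1441703 0 0) (P.cons (P.lf 0 35847 0) P.nil)))) (P.cons (P.cons (P.lf 1521328 0 0) (P.cons (P.lf 0 434836 0) (P.cons (P.lf 287088 0 0) P.nil))) (P.cons (P.cons (P.lf 0 688322 0) (P.cons (P.lf 357773 0 0) P.nil)) (P.cons (P.cons (P.lf 38790 0 0) P.nil) P.nil)))))) 636282)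
 (EL.cons 8 (TM.mk (P.cons (P.cons (P.lf 0 182605 0) (P.cons (P.lf 2855670 0 0) (P.cons (P.lf 0 11355445 0) (P.cons (P.lf 1429226 0 0) (P.cons (P.lf 447717 0 0) (P.cons (P.lf 0 33269 0) P.nil)))))) (P.cons (P.cons (P.lf 0 862486 0) (P.cons (P.lf 7320196 0 0) (P.cons (P.lf 0 4995146 0) (P.cons (P.lf 439348 0 0) (P.cons (P.lf 180688 0 0) P.nil))))) (P.cons (P.cons (P.lf 0 530747 0) (P.cons (P.lf 0 2511332 0) (P.cons (P.lf 174151 0 0) (P.cons (P.lf 55131 0 0) P.nil)))) (P.cons (P.cons (P.lf 1171998 0 0) (P.cons (P.lf 0 1089948 0) (P.cons (P.lf 342379 0 0) P.nil))) (P.cons (P.cons (P.lf 0 289869 0) (P.cons (P.lf 87676 0 0) P.nil)) (P.cons (P.cons (P.lf 0 56845 0) P.nil) P.nil)))))) 472782)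
 EL.nil))
noncomputable def S169_198_512_660_18 : EL := (EL.cons 4 (TM.mk (P.cons (P.lf 549332354 0 0) (P.cons (P.lf 0 269533349 0) (P.cons (P.lf 28252205 0 0) (P.cons (P.lf 3180359 0 0) (P.cons (P.lf 0 331524 0) (P.cons (P.lf 0 44357 0) P.nil)))))) 4415)
 (EL.cons 8 (TM.mk (P.cons (P.lf 465398850 0 0) (P.cons (P.lf 0 114528063 0) (P.cons (P.lf 0 11222106 0) (P.cons (P.lf 2534590 0 0) (P.cons (P.lf 239457 0 0) (P.cons (P.lf 0 14216 0) P.nil)))))) 3029)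
 EL.nil))
noncomputable def S169_198_512_660_19 : EL := (EL.cons 4 (TM.mk (P.cons (P.cons (P.lf 7807245 0 0) (P.cons (P.lf 0 61046384 0) (P.cons (P.lf 4081418 0 0) (P.lf 1360471 0 0)))) (P.cons (P.cons (P.lf 14929112 0 0) (P.cons (P.lf 15115160 0 0) (P.cons (P.lf 0 1010564 0) (P.lf 0 336854 0)))) (P.cons (P.cons (P.lf 0 18338152 0) (P.cons (P.lf 3881396 0 0) (P.cons (P.lf 0 259500 0) (P.lf 0 86500 0)))) (P.cons (P.cons (P.lf 5145174 0 0) (P.cons (P.lf 0 780592 0) (P.cons (P.lf 52188 0 0) P.nil))) (P.cons (P.cons (P.lf 0 9651 0) (P.cons (P.lf 0 149373 0) P.nil)) (P.cons (P.cons (P.lf 0 138842 0) P.nil) P.nil)))))) 125626)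
 (EL.cons 8 (TM.mk (P.cons (P.cons (P.lf 6614362 0 0) (P.cons (P.lf 0 51718994 0) (P.cons (P.lf 3457811 0 0) (P.lf 1152603 0 0)))) (P.cons (P.cons (P.lf 14265743 0 0) (P.cons (P.lf 156752 0 0) (P.cons (P.lf 0 10480 0) (P.lf 0 3493 0)))) (P.cons (P.cons (P.lf 0 12148835 0) (P.cons (P.lf 4120969 0 0) (P.cons (P.lf 0 275518 0) (P.lf 0 91839 0)))) (P.cons (P.cons (P.lf 1180437 0 0) (P.cons (P.lf 252357 0 0) (P.cons (P.lf 0 16871 0) P.nil))) (P.cons (P.cons (P.lf 491439 0 0) (P.cons (P.lf 0 120211 0) P.nil)) (P.cons (P.cons (P.lf 0 39133 0) P.nil) P.nil)))))) 75430)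
 EL.nil))
noncomputable def S169_198_512_660_20 : EL := (EL.cons 4 (TM.mk (P.cons (P.cons (P.lf 110957 0 0) (P.cons (P.lf 0 1735212 0) (P.cons (P.lf 6899994 0 0) (P.cons (P.lf 0 868451 0) (P.cons (P.lf 0 272049 0) (P.cons (P.lf 20215 0 0) P.nil)))))) (P.cons (P.cons (P.lf 478794 0 0) (P.cons (P.lf 0 3739845 0) (P.cons (P.lf 219195 0 0) (P.cons (P.lf 87469 0 0) (P.cons (P.lf 1236 0 0) P.nil))))) (P.cons (P.cons (P.lf 113689 0 0) (P.cons (P.lf 3261930 0 0) (P.cons (P.lf 0 1028882 0) (P.cons (P.lf 35720 0 0) P.nil)))) (P.cons (P.cons (P.lf 0 819979 0) (P.cons (P.lf 0 161062 0) (P.cons (P.lf 0 37654 0) P.nil))) (P.cons (P.cons (P.lf 480678 0 0) (P.cons (P.lf 0 246709 0) P.nil)) (P.cons (P.cons (P.lf 0 70329 0) P.nil) P.nil)))))) 535342)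
 (EL.cons 8 (TM.mk (P.cons (P.cons (P.lf 94004 0 0) (P.cons (P.lf 0 1470085 0) (P.cons (P.lf 5845731 0 0) (P.cons (P.lf 0 735759 0) (P.cons (P.lf 0 230482 0) (P.cons (P.lf 17126 0 0) P.nil)))))) (P.cons (P.cons (P.lf 428629 0 0) (P.cons (P.lf 0 3527968 0) (P.cons (P.lf 1615397 0 0) (P.cons (P.lf 0 105839 0) (P.cons (P.lf 0 55321 0) P.nil))))) (P.cons (P.cons (P.lf 199705 0 0) (P.cons (P.lf 1923274 0 0) (P.cons (P.lf 0 566376 0) (P.cons (P.lf 15677 0 0) P.nil)))) (P.cons (P.cons (P.lf 0 652267 0) (P.cons (P.lf 385493 0 0) (P.cons (P.lf 0 184855 0) P.nil))) (P.cons (P.cons (P.lf 245389 0 0) (P.cons (P.lf 0 150314 0) P.nil)) (P.cons (P.cons (P.lf 10740 0 0) P.nil) P.nil)))))) 343613)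
 EL.nil))
noncomputable def S169_198_512_660_21 : EL := (EL.cons 4 (TM.mk (P.cons (P.cons (P.lf 0 873725973 0) (P.cons (P.lf 691053771 0 0) (P.cons (P.lf 0 46202238 0) (P.lf 0 15400740 0)))) (P.cons (P.cons (P.lf 849238536 0 0) (P.cons (P.lf 54940779 0 0) (P.cons (P.lf 0 3673209 0) (P.lf 0 1224402 0)))) (P.cons (P.cons (P.lf 119390508 0 0) (P.cons (P.lf 0 31175373 0) (P.cons (P.lf 2084310 0 0) (P.lf 694767 0 0)))) (P.cons (P.cons (P.lf 0 21119082 0) (P.cons (P.lf 0 4286661 0) (P.cons (P.lf 286590 0 0) P.nil))) (P.cons (P.cons (P.lf 0 3666495 0) (P.cons (P.lf 255132 0 0) P.nil)) (P.cons (P.cons (P.lf 101619 0 0) P.nil) P.nil)))))) 321360)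
 (EL.cons 8 (TM.mk (P.cons (P.cons (P.lf 366684528 0 0) (P.cons (P.lf 0 290020830 0) (P.cons (P.lf 19390122 0 0) (P.lf 6463377 0 0)))) (P.cons (P.cons (P.lf 0 446087856 0) (P.cons (P.lf 47873010 0 0) (P.cons (P.lf 0 3200673 0) (P.lf 0 1066890 0)))) (P.cons (P.cons (P.lf 42692472 0 0) (P.cons (P.lf 14268798 0 0) (P.cons (P.lf 0 953976 0) (P.lf 0 317991 0)))) (P.cons (P.cons (P.lf 14993319 0 0) (P.cons (P.lf 0 1240293 0) (P.cons (P.lf 82920 0 0) P.nil))) (P.cons (P.cons (P.lf 0 711861 0) (P.cons (P.lf 0 348003 0) P.nil)) (P.cons (P.cons (P.lf 0 251841 0) P.nil) P.nil)))))) 240291)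
 (EL.cons 11 (TM.mk (P.cons (P.cons (P.lf 1998052494 0 0) (P.cons (P.lf 0 309348699 0) (P.cons (P.lf 0 149034447 0) (P.cons (P.lf 5639901 0 0) (P.lf 1409973 0 0))))) (P.cons (P.cons (P.lf 323757750 0 0) (P.cons (P.lf 0 50125830 0) (P.cons (P.lf 0 24149043 0) (P.cons (P.lf 913869 0 0) (P.lf 228465 0 0))))) (P.cons (P.cons (P.lf 0 7460316 0) (P.cons (P.lf 1155042 0 0) (P.cons (P.lf 556464 0 0) (P.cons (P.lf 0 21057 0) P.nil)))) (P.cons (P.cons (P.lf 0 3596949 0) (P.cons (P.lf 556896 0 0) (P.cons (P.lf 268296 0 0) P.nil))) (P.cons (P.cons (P.lf 0 98739 0) (P.cons (P.lf 15285 0 0) P.nil)) (P.cons (P.cons (P.lf 17514 0 0) P.nil) P.nil)))))) 31851)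
 EL.nil)))
noncomputable def S169_198_512_660_22 : EL := (EL.cons 4 (TM.mk (P.cons (P.cons (P.lf 0 12417606 0) (P.cons (P.lf 106917129 0 0) (P.cons (P.lf 0 83943876 0) (P.cons (P.lf 7886010 0 0) (P.cons (P.lf 3079644 0 0) (P.cons (P.lf 0 228846 0) P.nil)))))) (P.cons (P.cons (P.lf 0 17768292 0) (P.cons (P.lf 0 46394433 0) (P.cons (P.lf 0 21669216 0) (P.cons (P.lf 4346208 0 0) (P.cons (P.lf 993363 0 0) P.nil))))) (P.cons (P.cons (P.lf 45864195 0 0) (P.cons (P.lf 0 46355499 0) (P.cons (P.lf 4753701 0 0) (P.cons (P.lf 811842 0 0) P.nil)))) (P.cons (P.cons (P.lf 0 10099551 0) (P.cons (P.lf 0 4373205 0) (P.cons (P.lf 1847526 0 0) P.nil))) (P.cons (P.cons (P.lf 0 3860940 0) (P.cons (P.lf 1702491 0 0) P.nil)) (P.cons (P.cons (P.lf 278730 0 0) P.nil) P.nil)))))) 1969149)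
 (EL.cons 8 (TM.mk (P.cons (P.cons (P.lf 5211408 0 0) (P.cons (P.lf 0 44870883 0) (P.cons (P.lf 35229489 0 0) (P.cons (P.lf 0 3309594 0) (P.cons (P.lf 0 1292463 0) (P.cons (P.lf 96042 0 0) P.nil)))))) (P.cons (P.cons (P.lf 6182424 0 0) (P.cons (P.lf 30444864 0 0) (P.cons (P.lf 478026 0 0) (P.cons (P.lf 0 1014582 0) (P.cons (P.lf 0 100794 0) P.nil))))) (P.cons (P.cons (P.lf 0 20991966 0) (P.cons (P.lf 14003349 0 0) (P.cons (P.lf 0 3678138 0) (P.cons (P.lf 54555 0 0) P.nil)))) (P.cons (P.cons (P.lf 9051393 0 0) (P.cons (P.lf 0 2543982 0) (P.cons (P.lf 0 210297 0) P.nil))) (P.cons (P.cons (P.lf 275655 0 0) (P.cons (P.lf 0 905769 0) P.nil)) (P.cons (P.cons (P.lf 0 412992 0) P.nil) P.nil)))))) 989976)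
 (EL.cons 11 (TM.mk (P.cons (P.cons (P.lf 28396812 0 0) (P.cons (P.lf 0 226436766 0) (P.cons (P.lf 47104380 0 0) (P.cons (P.lf 19292073 0 0) (P.cons (P.lf 0 2480136 0) (P.cons (P.lf 0 483882 0) P.nil)))))) (P.cons (P.cons (P.lf 72835134 0 0) (P.cons (P.lf 0 101223348 0) (P.cons (P.lf 14506857 0 0) (P.cons (P.lf 7988178 0 0) (P.cons (P.lf 0 961401 0) P.nil))))) (P.cons (P.cons (P.lf 0 23730981 0) (P.cons (P.lf 0 5184204 0) (P.cons (P.lf 3733833 0 0) (P.cons (P.lf 699477 0 0) P.nil)))) (P.cons (P.cons (P.lf 0 7901598 0) (P.cons (P.lf 2431230 0 0) (P.cons (P.lf 321615 0 0) P.nil))) (P.cons (P.cons (P.lf 86148 0 0) (P.cons (P.lf 277560 0 0) P.nil)) (P.cons (P.cons (P.lf 169359 0 0) P.nil) P.nil)))))) 940797)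
 EL.nil)))
noncomputable def S169_198_512_660_23 : EL := (EL.cons 4 (TM.mk (P.cons (P.cons (P.lf 449790135 0 0) (P.cons (P.lf 0 355751319 0) (P.cons (P.lf 23784699 0 0) (P.lf 7928229 0 0)))) (P.cons (P.cons (P.lf 0 510748227 0) (P.cons (P.lf 29900607 0 0) (P.cons (P.lf 0 1999086 0) (P.lf 0 666360 0)))) (P.cons (P.cons (P.lf 5720034 0 0) (P.cons (P.lf 24092043 0 0) (P.cons (P.lf 0 1610736 0) (P.lf 0 536910 0)))) (P.cons (P.cons (P.lf 25234395 0 0) (P.cons (P.lf 0 233910 0) (P.cons (P.lf 15639 0 0) P.nil))) (P.cons (P.cons (P.lf 611985 0 0) (P.cons (P.lf 0 669024 0) P.nil)) (P.cons (P.cons (P.lf 0 499479 0) P.nil) P.nil)))))) 387678)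
 (EL.cons 8 (TM.mk (P.cons (P.cons (P.lf 0 188767518 0) (P.cons (P.lf 149301396 0 0) (P.cons (P.lf 0 9981945 0) (P.lf 0 3327315 0)))) (P.cons (P.cons (P.lf 260517306 0 0) (P.cons (P.lf 0 49063359 0) (P.cons (P.lf 3280257 0 0) (P.lf 1093419 0 0)))) (P.cons (P.cons (P.lf 0 57723354 0) (P.cons (P.lf 0 4748979 0) (P.cons (P.lf 317502 0 0) (P.lf 105834 0 0)))) (P.cons (P.cons (P.lf 0 6376341 0) (P.cons (P.lf 2113332 0 0) (P.cons (P.lf 0 141288 0) P.nil))) (P.cons (P.cons (P.lf 1888146 0 0) (P.cons (P.lf 145785 0 0) P.nil)) (P.cons (P.cons (P.lf 148413 0 0) P.nil) P.nil)))))) 263583)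
 (EL.cons 11 (TM.mk (P.cons (P.cons (P.lf 0 1028588286 0) (P.cons (P.lf 159251295 0 0) (P.cons (P.lf 76722249 0 0) (P.cons (P.lf 0 2903394 0) (P.lf 0 725847 0))))) (P.cons (P.cons (P.lf 1558743 0 0) (P.cons (P.lf 0 241332 0) (P.cons (P.lf 0 116265 0) (P.cons (P.lf 4398 0 0) (P.lf 1101 0 0))))) (P.cons (P.cons (P.lf 40980138 0 0) (P.cons (P.lf 0 6344751 0) (P.cons (P.lf 0 3056700 0) (P.cons (P.lf 115671 0 0) P.nil)))) (P.cons (P.cons (P.lf 2571546 0 0) (P.cons (P.lf 0 398139 0) (P.cons (P.lf 0 191811 0) P.nil))) (P.cons (P.cons (P.lf 0 375141 0) (P.cons (P.lf 58080 0 0) P.nil)) (P.cons (P.cons (P.lf 0 42225 0) P.nil) P.nil)))))) 96975)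
 EL.nil)))
noncomputable def S169_198_512_660_24 : EL := (EL.cons 4 (TM.mk (P.cons (P.cons (P.lf 6392526 0 0) (P.cons (P.lf 0 55040448 0) (P.cons (P.lf 43213923 0 0) (P.cons (P.lf 0 4059681 0) (P.cons (P.lf 0 1585386 0) (P.cons (P.lf 117810 0 0) P.nil)))))) (P.cons (P.cons (P.lf 8101524 0 0) (P.cons (P.lf 32885622 0 0) (P.cons (P.lf 4087485 0 0) (P.cons (P.lf 0 1573437 0) (P.cons (P.lf 0 252084 0) P.nil))))) (P.cons (P.cons (P.lf 0 25168101 0) (P.cons (P.lf 20486094 0 0) (P.cons (P.lf 0 4686750 0) (P.cons (P.lf 0 13002 0) P.nil)))) (P.cons (P.cons (P.lf 8974485 0 0) (P.cons (P.lf 0 1894596 0) (P.cons (P.lf 0 647382 0) P.nil))) (P.cons (P.cons (P.lf 1366587 0 0) (P.cons (P.lf 0 1470417 0) P.nil)) (P.cons (P.cons (P.lf 0 523908 0) P.nil) P.nil)))))) 1346031)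
 (EL.cons 8 (TM.mk (P.cons (P.cons (P.lf 0 2682810 0) (P.cons (P.lf 23099325 0 0) (P.cons (P.lf 0 18135981 0) (P.cons (P.lf 1703763 0 0) (P.cons (P.lf 665352 0 0) (P.cons (P.lf 0 49440 0) P.nil)))))) (P.cons (P.cons (P.lf 0 2743902 0) (P.cons (P.lf 0 19450818 0) (P.cons (P.lf 2720088 0 0) (P.cons (P.lf 243648 0 0) (P.cons (P.lf 0 56928 0) P.nil))))) (P.cons (P.cons (P.lf 11352873 0 0) (P.cons (P.lf 0 4867416 0) (P.cons (P.lf 2107950 0 0) (P.cons (P.lf 0 129876 0) P.nil)))) (P.cons (P.cons (P.lf 0 6397140 0) (P.cons (P.lf 2644887 0 0) (P.cons (P.lf 0 203520 0) P.nil))) (P.cons (P.cons (P.lf 515475 0 0) (P.cons (P.lf 318501 0 0) P.nil)) (P.cons (P.cons (P.lf 283089 0 0) P.nil) P.nil)))))) 683931)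
 (EL.cons 11 (TM.mk (P.cons (P.cons (P.lf 0 14618547 0) (P.cons (P.lf 116568612 0 0) (P.cons (P.lf 0 24249117 0) (P.cons (P.lf 0 9931470 0) (P.cons (P.lf 1276761 0 0) (P.cons (P.lf 249099 0 0) P.nil)))))) (P.cons (P.cons (P.lf 0 35104299 0) (P.cons (P.lf 33044277 0 0) (P.cons (P.lf 0 3502068 0) (P.cons (P.lf 0 2487963 0) (P.cons (P.lf 286107 0 0) P.nil))))) (P.cons (P.cons (P.lf 18489441 0 0) (P.cons (P.lf 0 6973530 0) (P.cons (P.lf 0 467808 0) (P.cons (P.lf 407883 0 0) P.nil)))) (P.cons (P.cons (P.lf 2426235 0 0) (P.cons (P.lf 0 2159955 0) (P.cons (P.lf 214578 0 0) P.nil))) (P.cons (P.cons (P.lf 0 836847 0) (P.cons (P.lf 54120 0 0) P.nil)) (P.cons (P.cons (P.lf 0 117660 0) P.nil) P.nil)))))) 708339)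
 EL.nil)))
noncomputable def S169_198_512_660_25 : EL := (EL.cons 4 (TM.mk (P.cons (P.cons (P.lf 0 231549903 0) (P.cons (P.lf 183139152 0 0) (P.cons (P.lf 0 12244254 0) (P.lf 0 4081416 0)))) (P.cons (P.cons (P.lf 300801318 0 0) (P.cons (P.lf 0 45345483 0) (P.cons (P.lf 3031692 0 0) (P.lf 1010562 0 0)))) (P.cons (P.cons (P.lf 0 43723284 0) (P.cons (P.lf 0 11644188 0) (P.cons (P.lf 778500 0 0) (P.lf 259497 0 0)))) (P.cons (P.cons (P.lf 0 15091602 0) (P.cons (P.lf 2341779 0 0) (P.cons (P.lf 0 156567 0) P.nil))) (P.cons (P.cons (P.lf 1892367 0 0) (P.cons (P.lf 448119 0 0) P.nil)) (P.cons (P.cons (P.lf 444117 0 0) P.nil) P.nil)))))) 354021)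
 (EL.cons 8 (TM.mk (P.cons (P.cons (P.lf 97176654 0 0) (P.cons (P.lf 0 76859676 0) (P.cons (P.lf 5138658 0 0) (P.lf 1712886 0 0)))) (P.cons (P.cons (P.lf 0 150006561 0) (P.cons (P.lf 37828152 0 0) (P.cons (P.lf 0 2529099 0) (P.lf 0 843033 0)))) (P.cons (P.cons (P.lf 50716725 0 0) (P.cons (P.lf 0 947868 0) (P.cons (P.lf 63372 0 0) (P.lf 21123 0 0)))) (P.cons (P.cons (P.lf 0 265371 0) (P.cons (P.lf 0 1749309 0) (P.cons (P.lf 116952 0 0) P.nil))) (P.cons (P.cons (P.lf 0 1823034 0) (P.cons (P.lf 82233 0 0) P.nil)) (P.cons (P.cons (P.lf 52518 0 0) P.nil) P.nil)))))) 233070)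
 (EL.cons 11 (TM.mk (P.cons (P.cons (P.lf 529512546 0 0) (P.cons (P.lf 0 81981837 0) (P.cons (P.lf 0 39496263 0) (P.cons (P.lf 1494654 0 0) (P.lf 373662 0 0))))) (P.cons (P.cons (P.lf 0 87405312 0) (P.cons (P.lf 13532535 0 0) (P.cons (P.lf 6519549 0 0) (P.cons (P.lf 0 246717 0) (P.lf 0 61680 0))))) (P.cons (P.cons (P.lf 0 26051604 0) (P.cons (P.lf 4033440 0 0) (P.cons (P.lf 1943184 0 0) (P.cons (P.lf 0 73533 0) P.nil)))) (P.cons (P.cons (P.lf 2264502 0 0) (P.cons (P.lf 0 350601 0) (P.cons (P.lf 0 168906 0) P.nil))) (P.cons (P.cons (P.lf 635373 0 0) (P.cons (P.lf 0 98370 0) P.nil)) (P.cons (P.cons (P.lf 0 1980 0) P.nil) P.nil)))))) 116373)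
 EL.nil)))
noncomputable def S169_198_512_660_26 : EL := (EL.cons 4 (TM.mk (P.cons (P.cons (P.lf 0 3290844 0) (P.cons (P.lf 28334571 0 0) (P.cons (P.lf 0 22246329 0) (P.cons (P.lf 2089905 0 0) (P.cons (P.lf 816147 0 0) (P.cons (P.lf 0 60648 0) P.nil)))))) (P.cons (P.cons (P.lf 0 3632403 0) (P.cons (P.lf 0 21563544 0) (P.cons (P.lf 1534212 0 0) (P.cons (P.lf 468189 0 0) (P.cons (P.lf 0 3708 0) P.nil))))) (P.cons (P.cons (P.lf 13670148 0 0) (P.cons (P.lf 0 8049492 0) (P.cons (P.lf 2970564 0 0) (P.cons (P.lf 0 145857 0) P.nil)))) (P.cons (P.cons (P.lf 0 6699819 0) (P.cons (P.lf 2869767 0 0) (P.cons (P.lf 0 46593 0) P.nil))) (P.cons (P.cons (P.lf 0 73527 0) (P.cons (P.lf 695832 0 0) P.nil)) (P.cons (P.cons (P.lf 432147 0 0) P.nil) P.nil)))))) 983382)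
 (EL.cons 8 (TM.mk (P.cons (P.cons (P.lf 1381098 0 0) (P.cons (P.lf 0 11891427 0) (P.cons (P.lf 9336318 0 0) (P.cons (P.lf 0 877089 0) (P.cons (P.lf 0 342519 0) (P.cons (P.lf 25452 0 0) P.nil)))))) (P.cons (P.cons (P.lf 1186668 0 0) (P.cons (P.lf 11958060 0 0) (P.cons (P.lf 0 2927262 0) (P.cons (P.lf 18018 0 0) (P.cons (P.lf 85326 0 0) P.nil))))) (P.cons (P.cons (P.lf 0 6088698 0) (P.cons (P.lf 982272 0 0) (P.cons (P.lf 0 945825 0) (P.cons (P.lf 95799 0 0) P.nil)))) (P.cons (P.cons (P.lf 4235853 0 0) (P.cons (P.lf 0 1870503 0) (P.cons (P.lf 297999 0 0) P.nil))) (P.cons (P.cons (P.lf 0 747426 0) (P.cons (P.lf 36594 0 0) P.nil)) (P.cons (P.cons (P.lf 0 135342 0) P.nil) P.nil)))))) 494424)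
 (EL.cons 11 (TM.mk (P.cons (P.cons (P.lf 7525560 0 0) (P.cons (P.lf 0 60008988 0) (P.cons (P.lf 12483333 0 0) (P.cons (P.lf 5112675 0 0) (P.cons (P.lf 0 657270 0) (P.cons (P.lf 0 128235 0) P.nil)))))) (P.cons (P.cons (P.lf 16840710 0 0) (P.cons (P.lf 0 7196448 0) (P.cons (P.lf 0 238824 0) (P.cons (P.lf 444603 0 0) (P.cons (P.lf 0 39789 0) P.nil))))) (P.cons (P.cons (P.lf 0 12546207 0) (P.cons (P.lf 6948573 0 0) (P.cons (P.lf 0 173946 0) (P.cons (P.lf 0 468564 0) P.nil)))) (P.cons (P.cons (P.lf 135975 0 0) (P.cons (P.lf 673437 0 0) (P.cons (P.lf 0 164097 0) P.nil))) (P.cons (P.cons (P.lf 731292 0 0) (P.cons (P.lf 0 251028 0) P.nil)) (P.cons (P.cons (P.lf 567 0 0) P.nil) P.nil)))))) 504189)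
 EL.nil)))
noncomputable def S169_198_512_660_27 : EL := (EL.cons 13 (TM.mk (P.lf 0 4294967296 0) 0)
 EL.nil)
noncomputable def S169_198_512_660_28 : EL := (EL.cons 13 (TM.mk (P.cons (P.cons (P.lf 0 61041130 0) (P.cons (P.lf 477292524 0 0) (P.cons (P.lf 0 31910664 0) (P.lf 0 10636884 0)))) (P.cons (P.cons (P.lf 0 146673815 0) (P.cons (P.lf 116008328 0 0) (P.cons (P.lf 0 7756044 0) (P.lf 0 2585348 0)))) (P.cons (P.cons (P.lf 74550187 0 0) (P.cons (P.lf 2026232 0 0) (P.cons (P.lf 0 135468 0) (P.lf 0 45156 0)))) (P.cons (P.cons (P.lf 4247692 0 0) (P.cons (P.lf 0 1632336 0) (P.cons (P.lf 109132 0 0) P.nil))) (P.cons (P.cons (P.lf 0 862173 0) (P.cons (P.lf 0 120820 0) P.nil)) (P.cons (P.cons (P.lf 0 80998 0) P.nil) P.nil)))))) 74117)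
 EL.nil)
noncomputable def S169_198_512_660_29 : EL := (EL.cons 13 (TM.mk (P.cons (P.cons (P.lf 0 867531 0) (P.cons (P.lf 13566797 0 0) (P.cons (P.lf 0 53947763 0) (P.cons (P.lf 6790009 0 0) (P.cons (P.lf 2127028 0 0) (P.cons (P.lf 0 158059 0) P.nil)))))) (P.cons (P.cons (P.lf 0 4169128 0) (P.cons (P.lf 35896708 0 0) (P.cons (P.lf 0 28183592 0) (P.cons (P.lf 2647675 0 0) (P.cons (P.lf 1033970 0 0) P.nil))))) (P.cons (P.cons (P.lf 0 2889882 0) (P.cons (P.lf 0 8588274 0) (P.cons (P.lf 0 3009570 0) (P.cons (P.lf 670600 0 0) P.nil)))) (P.cons (P.cons (P.lf 5212539 0 0) (P.cons (P.lf 0 4879328 0) (P.cons (P.lf 579559 0 0) P.nil))) (P.cons (P.cons (P.lf 0 1028398 0) (P.cons (P.lf 0 223103 0) P.nil)) (P.cons (P.cons (P.lf 0 208648 0) P.nil) P.nil)))))) 925919)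
 EL.nil)
noncomputable def S169_198_512_660_30 : EL := (EL.cons 13 (TM.mk (P.cons (P.lf 2211029524 0 0) (P.cons (P.lf 0 361618480 0) (P.cons (P.lf 0 21238980 0) (P.cons (P.lf 543904 0 0) (P.cons (P.lf 97232 0 0) (P.cons (P.lf 1560 0 0) P.nil)))))) 512)
 EL.nil)
noncomputable def S169_198_512_660_31 : EL := (EL.cons 13 (TM.mk (P.cons (P.cons (P.lf 31423694 0 0) (P.cons (P.lf 0 245708008 0) (P.cons (P.lf 16427463 0 0) (P.lf 5475819 0 0)))) (P.cons (P.cons (P.lf 70367598 0 0) (P.cons (P.lf 0 19534500 0) (P.cons (P.lf 1306030 0 0) (P.lf 435343 0 0)))) (P.cons (P.cons (P.lf 0 51029277 0) (P.cons (P.lf 11084578 0 0) (P.cons (P.lf 0 741089 0) (P.lf 0 247029 0)))) (P.cons (P.cons (P.lf 3372540 0 0) (P.cons (P.lf 1524147 0 0) (P.cons (P.lf 0 101899 0) P.nil))) (P.cons (P.cons (P.lf 1190094 0 0) (P.cons (P.lf 0 90714 0) P.nil)) (P.cons (P.cons (P.lf 0 15986 0) P.nil) P.nil))))))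 112306)
 EL.nil)
noncomputable def S169_198_512_660_32 : EL := (EL.cons 13 (TM.mk (P.cons (P.cons (P.lf 446600 0 0) (P.cons (P.lf 0 6984125 0) (P.cons (P.lf 27772061 0 0) (P.cons (P.lf 0 3495465 0) (P.cons (P.lf 0 1094984 0) (P.cons (P.lf 81368 0 0) P.nil)))))) (P.cons (P.cons (P.lf 2073205 0 0) (P.cons (P.lf 0 17337192 0) (P.cons (P.lf 9966605 0 0) (P.cons (P.lf 0 791320 0) (P.cons (P.lf 0 353196 0) P.nil))))) (P.cons (P.cons (P.lf 1132384 0 0) (P.cons (P.lf 7510647 0 0) (P.cons (P.lf 0 1090405 0) (P.cons (P.lf 0 88721 0) P.nil)))) (P.cons (P.cons (P.lf 0 2947214 0) (P.cons (P.lf 1964552 0 0) (P.cons (P.lf 0 684286 0) P.nil))) (P.cons (P.cons (P.lf 954545 0 0) (P.cons (P.lf 0 343289 0) P.nil)) (P.cons (P.cons (P.lf 47061 0 0) P.nil) P.nil)))))) 895188)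
 EL.nil)
noncomputable def S169_198_512_660_33 : EL := (EL.cons 14 (TM.mk (P.lf 8589934592 0 0) 0)
 EL.nil)
noncomputable def S169_198_512_660_34 : EL := (EL.cons 14 (TM.mk (P.cons (P.cons (P.lf 122082260 0 0) (P.cons (P.lf 0 954585048 0) (P.cons (P.lf 63821328 0 0) (P.lf 21273768 0 0)))) (P.cons (P.cons (P.lf 293347630 0 0) (P.cons (P.lf 0 232016656 0) (P.cons (P.lf 15512088 0 0) (P.lf 5170696 0 0)))) (P.cons (P.cons (P.lf 0 149100374 0) (P.cons (P.lf 0 4052464 0) (P.cons (P.lf 270936 0 0) (P.lf 90312 0 0)))) (P.cons (P.cons (P.lf 0 8495384 0) (P.cons (P.lf 3264672 0 0) (P.cons (P.lf 0 218264 0) P.nil))) (P.cons (P.cons (P.lf 1724346 0 0) (P.cons (P.lf 241640 0 0) P.nil)) (P.cons (P.cons (P.lf 161996 0 0) P.nil) P.nil)))))) 148234)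
 EL.nil)
noncomputable def S169_198_512_660_35 : EL := (EL.cons 14 (TM.mk (P.cons (P.cons (P.lf 1735062 0 0) (P.cons (P.lf 0 27133594 0) (P.cons (P.lf 107895526 0 0) (P.cons (P.lf 0 13580018 0) (P.cons (P.lf 0 4254056 0) (P.cons (P.lf 316118 0 0) P.nil)))))) (P.cons (P.cons (P.lf 8338256 0 0) (P.cons (P.lf 0 71793416 0) (P.cons (P.lf 56367184 0 0) (P.cons (P.lf 0 5295350 0) (P.cons (P.lf 0 2067940 0) P.nil))))) (P.cons (P.cons (P.lf 5779764 0 0) (P.cons (P.lf 17176548 0 0) (P.cons (P.lf 6019140 0 0) (P.cons (P.lf 0 1341200 0) P.nil)))) (P.cons (P.cons (P.lf 0 10425078 0) (P.cons (P.lf 9758656 0 0) (P.cons (P.lf 0 1159118 0) P.nil))) (P.cons (P.cons (P.lf 2056796 0 0) (P.cons (P.lf 446206 0 0) P.nil)) (P.cons (P.cons (P.lf 417296 0 0) P.nil) P.nil)))))) 1851838)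
 EL.nil)
noncomputable def S169_198_512_660_36 : EL := (EL.cons 14 (TM.mk (P.cons (P.lf 0 4422059048 0) (P.cons (P.lf 723236960 0 0) (P.cons (P.lf 42477960 0 0) (P.cons (P.lf 0 1087808 0) (P.cons (P.lf 0 194464 0) (P.cons (P.lf 0 3120 0) P.nil)))))) 1024)
 EL.nil)
noncomputable def S169_198_512_660_37 : EL := (EL.cons 14 (TM.mk (P.cons (P.cons (P.lf 0 62847388 0) (P.cons (P.lf 491416016 0 0) (P.cons (P.lf 0 32854926 0) (P.lf 0 10951638 0)))) (P.cons (P.cons (P.lf 0 140735196 0) (P.cons (P.lf 39069000 0 0) (P.cons (P.lf 0 2612060 0) (P.lf 0 870686 0)))) (P.cons (P.cons (P.lf 102058554 0 0) (P.cons (P.lf 0 22169156 0) (P.cons (P.lf 1482178 0 0) (P.lf 494058 0 0)))) (P.cons (P.cons (P.lf 0 6745080 0) (P.cons (P.lf 0 3048294 0) (P.cons (P.lf 203798 0 0) P.nil))) (P.cons (P.cons (P.lf 0 2380188 0) (P.cons (P.lf 181428 0 0) P.nil)) (P.cons (P.cons (P.lf 31972 0 0) P.nil)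 P.nil)))))) 224612)
 EL.nil)
noncomputable def S169_198_512_660_38 : EL := (EL.cons 14 (TM.mk (P.cons (P.cons (P.lf 0 893200 0) (P.cons (P.lf 13968250 0 0) (P.cons (P.lf 0 55544122 0) (P.cons (P.lf 6990930 0 0) (P.cons (P.lf 2189968 0 0) (P.cons (P.lf 0 162736 0) P.nil)))))) (P.cons (P.cons (P.lf 0 4146410 0) (P.cons (P.lf 34674384 0 0) (P.cons (P.lf 0 19933210 0) (P.cons (P.lf 1582640 0 0) (P.cons (P.lf 706392 0 0) P.nil))))) (P.cons (P.cons (P.lf 0 2264768 0) (P.cons (P.lf 0 15021294 0) (P.cons (P.lf 2180810 0 0) (P.cons (P.lf 177442 0 0) P.nil)))) (P.cons (P.cons (P.lf 5894428 0 0) (P.cons (P.lf 0 3929104 0) (P.cons (P.lf 1368572 0 0) P.nil))) (P.cons (P.cons (P.lf 0 1909090 0) (P.cons (P.lf 686578 0 0) P.nil)) (P.cons (P.cons (P.lf 0 94122 0) P.nil) P.nil)))))) 1790376)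
 EL.nil)
noncomputable def S169_198_512_660_39 : EL := (EL.cons 14 (TM.mk (P.cons (P.lf 2276455776 0 0) (P.cons (P.lf 0 744638158 0) (P.cons (P.lf 17158640 0 0) (P.cons (P.lf 8272934 0 0) (P.cons (P.lf 227096 0 0) (P.cons (P.lf 0 40292 0) P.nil)))))) 3922)
 EL.nil)
noncomputable def S169_198_512_660_40 : EL := (EL.cons 14 (TM.mk (P.cons (P.cons (P.lf 32353548 0 0) (P.cons (P.lf 0 252978718 0) (P.cons (P.lf 16913566 0 0) (P.lf 5637852 0 0)))) (P.cons (P.cons (P.lf 67158344 0 0) (P.cons (P.lf 21262652 0 0) (P.cons (P.lf 0 1421572 0) (P.lf 0 473856 0)))) (P.cons (P.cons (P.lf 0 64699384 0) (P.cons (P.lf 17132122 0 0) (P.cons (P.lf 0 1145414 0) (P.lf 0 381804 0)))) (P.cons (P.cons (P.lf 11377256 0 0) (P.cons (P.lf 0 166334 0) (P.cons (P.lf 11122 0 0) P.nil))) (P.cons (P.cons (P.lf 1181334 0 0) (P.cons (P.lf 0 475752 0) P.nil)) (P.cons (P.cons (P.lf 0 259932 0) P.nil)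 P.nil)))))) 217300)
 EL.nil)
noncomputable def S169_198_512_660_41 : EL := (EL.cons 14 (TM.mk (P.cons (P.cons (P.lf 459816 0 0) (P.cons (P.lf 0 7190790 0) (P.cons (P.lf 28593860 0 0) (P.cons (P.lf 0 3598898 0) (P.cons (P.lf 0 1127384 0) (P.cons (P.lf 83774 0 0) P.nil)))))) (P.cons (P.cons (P.lf 2059348 0 0) (P.cons (P.lf 0 16674146 0) (P.cons (P.lf 5584940 0 0) (P.cons (P.lf 0 226128 0) (P.cons (P.lf 0 179260 0) P.nil))))) (P.cons (P.cons (P.lf 812364 0 0) (P.cons (P.lf 10721406 0 0) (P.cons (P.lf 0 3075634 0) (P.cons (P.lf 76474 0 0) P.nil)))) (P.cons (P.cons (P.lf 0 3245500 0) (P.cons (P.lf 927652 0 0) (P.cons (P.lf 0 612456 0) P.nil))) (P.cons (P.cons (P.lf 1468422 0 0) (P.cons (P.lf 0 763250 0) P.nil)) (P.cons (P.cons (P.lf 0 82754 0) P.nil) P.nil)))))) 1357356)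
 EL.nil)
noncomputable def S169_198_512_660_42 : EL := (EL.cons 14 (TM.mk (P.cons (P.lf 0 1171909022 0) (P.cons (P.lf 575004478 0 0) (P.cons (P.lf 0 60271372 0) (P.cons (P.lf 0 6784766 0) (P.cons (P.lf 707252 0 0) (P.cons (P.lf 94630 0 0) P.nil)))))) 9404)
 EL.nil)
noncomputable def S169_198_512_660_43 : EL := (EL.cons 14 (TM.mk (P.cons (P.cons (P.lf 0 16655458 0) (P.cons (P.lf 130232286 0 0) (P.cons (P.lf 0 8707026 0) (P.lf 0 2902340 0)))) (P.cons (P.cons (P.lf 0 31848774 0) (P.cons (P.lf 0 32245676 0) (P.cons (P.lf 2155870 0 0) (P.lf 718622 0 0)))) (P.cons (P.cons (P.lf 39121392 0 0) (P.cons (P.lf 0 8280312 0) (P.cons (P.lf 553602 0 0) (P.lf 184534 0 0)))) (P.cons (P.cons (P.lf 0 10976372 0) (P.cons (P.lf 1665264 0 0) (P.cons (P.lf 0 111336 0) P.nil))) (P.cons (P.cons (P.lf 20590 0 0) (P.cons (P.lf 318664 0 0) P.nil)) (P.cons (P.cons (P.lf 296198 0 0) P.nil) P.nil))))))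 267962)
 EL.nil)
noncomputable def S169_198_512_660_44 : EL := (EL.cons 14 (TM.mk (P.cons (P.cons (P.lf 0 236710 0) (P.cons (P.lf 3701786 0 0) (P.cons (P.lf 0 14719988 0) (P.cons (P.lf 1852696 0 0) (P.cons (P.lf 580372 0 0) (P.cons (P.lf 0 43126 0) P.nil)))))) (P.cons (P.cons (P.lf 0 1021428 0) (P.cons (P.lf 7978338 0 0) (P.cons (P.lf 0 467616 0) (P.cons (P.lf 0 186602 0) (P.cons (P.lf 0 2638 0) P.nil))))) (P.cons (P.cons (P.lf 0 242538 0) (P.cons (P.lf 0 6958784 0) (P.cons (P.lf 2194950 0 0) (P.cons (P.lf 0 76204 0) P.nil)))) (P.cons (P.cons (P.lf 1749290 0 0) (P.cons (P.lf 343600 0 0) (P.cons (P.lf 80330 0 0) P.nil))) (P.cons (P.cons (P.lf 0 1025448 0) (P.cons (P.lf 526314 0 0) P.nil)) (P.cons (P.cons (P.lf 150036 0 0) P.nil) P.nil)))))) 1142016)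
 EL.nil)
noncomputable def S169_198_512_660_45 : EL := (EL.cons 14 (TM.mk (P.cons (P.cons (P.lf 24658 0 0) (P.cons (P.lf 0 578442 0) (P.cons (P.lf 4561638 0 0) (P.cons (P.lf 0 12380550 0) (P.cons (P.lf 2183106 0 0) (P.cons (P.lf 643554 0 0) P.nil)))))) (P.cons (P.cons (P.lf 177756 0 0) (P.cons (P.lf 0 2920442 0) (P.cons (P.lf 13262006 0 0) (P.cons (P.lf 0 10278012 0) (P.cons (P.lf 1200098 0 0) P.nil))))) (P.cons (P.cons (P.lf 336778 0 0) (P.cons (P.lf 0 2604998 0) (P.cons (P.lf 238904 0 0) (P.cons (P.lf 0 2190008 0) P.nil)))) (P.cons (P.cons (P.lf 0 97230 0) (P.cons (P.lf 2997402 0 0) (P.cons (P.lf 0 2487672 0) P.nil))) (P.cons (P.cons (P.lf 0 435006 0) (P.cons (P.lf 160520 0 0) P.nil)) (P.cons (P.cons (P.lf 253114 0 0) P.nil) P.nil)))))) 4125254)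
 EL.nil)
noncomputable def S169_198_512_660_46 : EL := (EL.cons 15 (TM.mk (P.lf 4294967296 0 0) 0)
 EL.nil)
noncomputable def S169_198_512_660_47 : EL := (EL.cons 15 (TM.mk (P.cons (P.cons (P.lf 61041130 0 0) (P.cons (P.lf 0 477292524 0) (P.cons (P.lf 31910664 0 0) (P.lf 10636884 0 0)))) (P.cons (P.cons (P.lf 146673815 0 0) (P.cons (P.lf 0 116008328 0) (P.cons (P.lf 7756044 0 0) (P.lf 2585348 0 0)))) (P.cons (P.cons (P.lf 0 74550187 0) (P.cons (P.lf 0 2026232 0) (P.cons (P.lf 135468 0 0) (P.lf 45156 0 0)))) (P.cons (P.cons (P.lf 0 4247692 0) (P.cons (P.lf 1632336 0 0) (P.cons (P.lf 0 109132 0) P.nil))) (P.cons (P.cons (P.lf 862173 0 0) (P.cons (P.lf 120820 0 0) P.nil)) (P.cons (P.cons (P.lf 80998 0 0) P.nil) P.nil)))))) 74117)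
 EL.nil)
noncomputable def S169_198_512_660_48 : EL := (EL.cons 15 (TM.mk (P.cons (P.cons (P.lf 867531 0 0) (P.cons (P.lf 0 13566797 0) (P.cons (P.lf 53947763 0 0) (P.cons (P.lf 0 6790009 0) (P.cons (P.lf 0 2127028 0) (P.cons (P.lf 158059 0 0) P.nil)))))) (P.cons (P.cons (P.lf 4169128 0 0) (P.cons (P.lf 0 35896708 0) (P.cons (P.lf 28183592 0 0) (P.cons (P.lf 0 2647675 0) (P.cons (P.lf 0 1033970 0) P.nil))))) (P.cons (P.cons (P.lf 2889882 0 0) (P.cons (P.lf 8588274 0 0) (P.cons (P.lf 3009570 0 0) (P.cons (P.lf 0 670600 0) P.nil)))) (P.cons (P.cons (P.lf 0 5212539 0) (P.cons (P.lf 4879328 0 0) (P.cons (P.lf 0 579559 0) P.nil))) (P.cons (P.cons (P.lf 1028398 0 0) (P.cons (P.lf 223103 0 0) P.nil)) (P.cons (P.cons (P.lf 208648 0 0) P.nil) P.nil)))))) 925919)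
 EL.nil)
noncomputable def S169_198_512_660 : SL := (SL.cons S169_198_512_660_0 (SL.cons S169_198_512_660_1 (SL.cons S169_198_512_660_2 (SL.cons S169_198_512_660_3 (SL.cons S169_198_512_660_4 (SL.cons S169_198_512_660_5 (SL.cons S169_198_512_660_6 (SL.cons S169_198_512_660_7 (SL.cons S169_198_512_660_8 (SL.cons S169_198_512_660_9 (SL.cons S169_198_512_660_10 (SL.cons S169_198_512_660_11 (SL.cons S169_198_512_660_12 (SL.cons S169_198_512_660_13 (SL.cons S169_198_512_660_14 (SL.cons S169_198_512_660_15 (SL.cons S169_198_512_660_16 (SL.cons S169_198_512_660_17 (SL.cons S169_198_512_660_18 (SL.cons S169_198_512_660_19 (SL.cons S169_198_512_660_20 (SL.cons S169_198_512_660_21 (SL.cons S169_198_512_660_22 (SL.cons S169_198_512_660_23 (SL.cons S169_198_512_660_24 (SL.cons S169_198_512_660_25 (SL.cons S169_198_512_660_26 (SL.cons S169_198_512_660_27 (SL.cons S169_198_512_660_28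 (SL.cons S169_198_512_660_29 (SL.cons S169_198_512_660_30 (SL.cons S169_198_512_660_31 (SL.cons S169_198_512_660_32 (SL.cons S169_198_512_660_33 (SL.cons S169_198_512_660_34 (SL.cons S169_198_512_660_35 (SL.cons S169_198_512_660_36 (SL.cons S169_198_512_660_37 (SL.cons S169_198_512_660_38 (SL.cons S169_198_512_660_39 (SL.cons S169_198_512_660_40 (SL.cons S169_198_512_660_41 (SL.cons S169_198_512_660_42 (SL.cons S169_198_512_660_43 (SL.cons S169_198_512_660_44 (SL.cons S169_198_512_660_45 (SL.cons S169_198_512_660_46 (SL.cons S169_198_512_660_47 (SL.cons S169_198_512_660_48 SL.nil)))))))))))))))))))))))))))))))))))))))))))))))))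
noncomputable def S169_198_586_660_0 : EL := (EL.cons 0 (TM.mk (P.cons (P.lf 6454925654 0 0) (P.cons (P.lf 654467131 0 0) (P.cons (P.lf 0 15080835 0) (P.cons (P.lf 0 7271133 0) (P.cons (P.lf 0 199596 0) (P.cons (P.lf 35412 0 0) P.nil)))))) 3454)
 (EL.cons 1 (TM.mk (P.cons (P.lf 0 1695086628 0) (P.cons (P.lf 139901857 0 0) (P.cons (P.lf 47471786 0 0) (P.cons (P.lf 293435 0 0) (P.cons (P.lf 0 328029 0) (P.cons (P.lf 0 15684 0) P.nil)))))) 1940)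
 (EL.cons 5 (TM.mk (P.cons (P.lf 5006359730 0 0) (P.cons (P.lf 0 232699422 0) (P.cons (P.lf 5362070 0 0) (P.cons (P.lf 2585292 0 0) (P.cons (P.lf 70970 0 0) (P.cons (P.lf 0 12590 0) P.nil)))))) 1169)
 (EL.cons 9 (TM.mk (P.lf 6442450944 0 0) 2)
 EL.nil))))
noncomputable def S169_198_586_660_1 : EL := (EL.cons 0 (TM.mk (P.cons (P.cons (P.lf 0 775782500 0) (P.cons (P.lf 0 23044207 0) (P.cons (P.lf 1260893 0 0) (P.lf 140100 0 0)))) (P.cons (P.cons (P.lf 1041730987 0 0) (P.cons (P.lf 0 138904310 0) (P.cons (P.lf 7600284 0 0) (P.lf 844472 0 0)))) (P.cons (P.cons (P.lf 0 131488394 0) (P.cons (P.lf 0 29426157 0) (P.cons (P.lf 1610072 0 0) (P.lf 178887 0 0)))) (P.cons (P.cons (P.lf 0 63851525 0) (P.cons (P.lf 1740491 0 0) (P.cons (P.lf 0 95231 0) P.nil))) (P.cons (P.cons (P.lf 429615 0 0) (P.cons (P.lf 875384 0 0) P.nil)) (P.cons (P.cons (P.lf 1357773 0 0) P.nil) P.nil))))))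 443459)
 (EL.cons 1 (TM.mk (P.cons (P.cons (P.lf 0 45344322 0) (P.cons (P.lf 151650614 0 0) (P.cons (P.lf 0 8297703 0) (P.lf 0 921961 0)))) (P.cons (P.cons (P.lf 76583516 0 0) (P.cons (P.lf 55714784 0 0) (P.cons (P.lf 0 3048481 0) (P.lf 0 338712 0)))) (P.cons (P.cons (P.lf 160002449 0 0) (P.cons (P.lf 0 7415840 0) (P.cons (P.lf 405764 0 0) (P.lf 45083 0 0)))) (P.cons (P.cons (P.lf 0 2828864 0) (P.cons (P.lf 0 3227619 0) (P.cons (P.lf 176595 0 0) P.nil))) (P.cons (P.cons (P.lf 0 5737350 0) (P.cons (P.lf 0 49314 0) P.nil)) (P.cons (P.cons (P.lf 0 205276 0) P.nil) P.nil)))))) 266952)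
 (EL.cons 5 (TM.mk (P.cons (P.cons (P.lf 0 10272583 0) (P.cons (P.lf 0 363600068 0) (P.cons (P.lf 19894730 0 0) (P.lf 2210522 0 0)))) (P.cons (P.cons (P.lf 0 215809129 0) (P.cons (P.lf 0 40978086 0) (P.cons (P.lf 2242162 0 0) (P.lf 249136 0 0)))) (P.cons (P.cons (P.lf 0 81639026 0) (P.cons (P.lf 8884272 0 0) (P.cons (P.lf 0 486106 0) (P.lf 0 54006 0)))) (P.cons (P.cons (P.lf 16815062 0 0) (P.cons (P.lf 652696 0 0) (P.cons (P.lf 0 35716 0) P.nil))) (P.cons (P.cons (P.lf 1411647 0 0) (P.cons (P.lf 0 217128 0) P.nil)) (P.cons (P.cons (P.lf 0 352011 0) P.nil) P.nil)))))) 212802)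
 (EL.cons 9 (TM.mk (P.cons (P.cons (P.lf 0 252446785 0) (P.cons (P.lf 0 328053138 0) (P.cons (P.lf 17949744 0 0) (P.lf 1994412 0 0)))) (P.cons (P.cons (P.lf 136397746 0 0) (P.cons (P.lf 0 79734948 0) (P.cons (P.lf 4362774 0 0) (P.lf 484752 0 0)))) (P.cons (P.cons (P.lf 0 113285686 0) (P.cons (P.lf 0 1392672 0) (P.cons (P.lf 76200 0 0) (P.lf 8466 0 0)))) (P.cons (P.cons (P.lf 0 5195028 0) (P.cons (P.lf 1121940 0 0) (P.cons (P.lf 0 61386 0) P.nil))) (P.cons (P.cons (P.lf 1380343 0 0) (P.cons (P.lf 83040 0 0) P.nil)) (P.cons (P.cons (P.lf 115365 0 0) P.nil) P.nil)))))) 39116)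
 (EL.cons 2 (TM.mk (P.cons (P.cons (P.lf 872053467 0 0) (P.cons (P.lf 0 109421752 0) (P.cons (P.lf 0 16705870 0) (P.cons (P.lf 510359 0 0) (P.lf 42527 0 0))))) (P.cons (P.cons (P.lf 0 1321529 0) (P.cons (P.lf 165819 0 0) (P.cons (P.lf 25315 0 0) (P.cons (P.lf 0 773 0) (P.lf 0 64 0))))) (P.cons (P.cons (P.lf 0 34743611 0) (P.cons (P.lf 4359487 0 0) (P.cons (P.lf 665578 0 0) (P.cons (P.lf 0 20331 0) P.nil)))) (P.cons (P.cons (P.lf 0 2180196 0) (P.cons (P.lf 273560 0 0) (P.cons (P.lf 41762 0 0) P.nil))) (P.cons (P.cons (P.lf 318048 0 0) (P.cons (P.lf 0 39906 0) P.nil)) (P.cons (P.cons (P.lf 35800 0 0) P.nil) P.nil)))))) 21626)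
 (EL.cons 6 (TM.mk (P.cons (P.cons (P.lf 738810807 0 0) (P.cons (P.lf 0 92703000 0) (P.cons (P.lf 0 14153349 0) (P.cons (P.lf 432381 0 0) (P.lf 36030 0 0))))) (P.cons (P.cons (P.lf 179571651 0 0) (P.cons (P.lf 0 22531926 0) (P.cons (P.lf 0 3440040 0) (P.cons (P.lf 105090 0 0) (P.lf 8754 0 0))))) (P.cons (P.cons (P.lf 3136443 0 0) (P.cons (P.lf 0 393546 0) (P.cons (P.lf 0 60084 0) (P.cons (P.lf 1833 0 0) P.nil)))) (P.cons (P.cons (P.lf 0 2526732 0) (P.cons (P.lf 317043 0 0) (P.cons (P.lf 48402 0 0) P.nil))) (P.cons (P.cons (P.lf 0 187020 0) (P.cons (P.lf 23463 0 0) P.nil)) (P.cons (P.cons (P.lf 13170 0 0) P.nil) P.nil)))))) 12303)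
 EL.nil))))))
noncomputable def S169_198_586_660_2 : EL := (EL.cons 0 (TM.mk (P.cons (P.cons (P.lf 50886657 0 0) (P.cons (P.lf 55053261 0 0) (P.cons (P.lf 0 17402434 0) (P.cons (P.lf 1240032 0 0) (P.cons (P.lf 131878 0 0) (P.cons (P.lf 0 9564 0) P.nil)))))) (P.cons (P.cons (P.lf 0 104784283 0) (P.cons (P.lf 0 71932807 0) (P.cons (P.lf 8819472 0 0) (P.cons (P.lf 0 97108 0) (P.cons (P.lf 0 44762 0) P.nil))))) (P.cons (P.cons (P.lf 71018618 0 0) (P.cons (P.lf 0 22274277 0) (P.cons (P.lf 5747133 0 0) (P.cons (P.lf 0 360130 0) P.nil)))) (P.cons (P.cons (P.lf 0 32759459 0) (P.cons (P.lf 8555167 0 0) (P.cons (P.lf 138197 0 0) P.nil))) (P.cons (P.cons (P.lf 0 1330981 0) (P.cons (P.lf 2800241 0 0) P.nil)) (P.cons (P.cons (P.lf 2389037 0 0) P.nil) P.nil)))))) 2194825)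
 (EL.cons 1 (TM.mk (P.cons (P.cons (P.lf 6156360 0 0) (P.cons (P.lf 0 502444 0) (P.cons (P.lf 0 11021581 0) (P.cons (P.lf 1212173 0 0) (P.cons (P.lf 101267 0 0) (P.cons (P.lf 0 7346 0) P.nil)))))) (P.cons (P.cons (P.lf 0 10949209 0) (P.cons (P.lf 0 7190911 0) (P.cons (P.lf 0 7260595 0) (P.cons (P.lf 881319 0 0) (P.cons (P.lf 70143 0 0) P.nil))))) (P.cons (P.cons (P.lf 0 4446856 0) (P.cons (P.lf 0 18411423 0) (P.cons (P.lf 315500 0 0) (P.cons (P.lf 187636 0 0) P.nil)))) (P.cons (P.cons (P.lf 3044357 0 0) (P.cons (P.lf 0 5272468 0) (P.cons (P.lf 723379 0 0) P.nil))) (P.cons (P.cons (P.lf 0 4992717 0) (P.cons (P.lf 605820 0 0) P.nil)) (P.cons (P.cons (P.lf 0 297987 0) P.nil) P.nil)))))) 1236834)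
 (EL.cons 5 (TM.mk (P.cons (P.cons (P.lf 0 6881973 0) (P.cons (P.lf 9562905 0 0) (P.cons (P.lf 23525181 0 0) (P.cons (P.lf 0 2689797 0) (P.cons (P.lf 0 220400 0) (P.cons (P.lf 15993 0 0) P.nil)))))) (P.cons (P.cons (P.lf 25141902 0 0) (P.cons (P.lf 16915071 0 0) (P.cons (P.lf 6541082 0 0) (P.cons (P.lf 0 919912 0) (P.cons (P.lf 0 68422 0) P.nil))))) (P.cons (P.cons (P.lf 0 11916311 0) (P.cons (P.lf 17292441 0 0) (P.cons (P.lf 0 1277093 0) (P.cons (P.lf 0 68928 0) P.nil)))) (P.cons (P.cons (P.lf 6672729 0 0) (P.cons (P.lf 569348 0 0) (P.cons (P.lf 0 337144 0) P.nil))) (P.cons (P.cons (P.lf 2358975 0 0) (P.cons (P.lf 0 907241 0) P.nil)) (P.cons (P.cons (P.lf 0 586365 0) P.nil) P.nil)))))) 1069634)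
 (EL.cons 9 (TM.mk (P.cons (P.cons (P.lf 9892101 0 0) (P.cons (P.lf 25709457 0 0) (P.cons (P.lf 15297927 0 0) (P.cons (P.lf 0 1984323 0) (P.cons (P.lf 0 153102 0) (P.cons (P.lf 11113 0 0) P.nil)))))) (P.cons (P.cons (P.lf 0 10689463 0) (P.cons (P.lf 0 7642084 0) (P.cons (P.lf 8538438 0 0) (P.cons (P.lf 0 842158 0) (P.cons (P.lf 0 74424 0) P.nil))))) (P.cons (P.cons (P.lf 11765950 0 0) (P.cons (P.lf 8270029 0 0) (P.cons (P.lf 676167 0 0) (P.cons (P.lf 0 173790 0) P.nil)))) (P.cons (P.cons (P.lf 0 4389771 0) (P.cons (P.lf 3186328 0 0) (P.cons (P.lf 0 254130 0) P.nil))) (P.cons (P.cons (P.lf 1663891 0 0) (P.cons (P.lf 77992 0 0) P.nil)) (P.cons (P.cons (P.lf 232108 0 0) P.nil) P.nil)))))) 309506)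
 (EL.cons 2 (TM.mk (P.cons (P.cons (P.lf 0 68342647 0) (P.cons (P.lf 0 80235517 0) (P.cons (P.lf 17312236 0 0) (P.cons (P.lf 1591537 0 0) (P.cons (P.lf 0 216146 0) (P.cons (P.lf 0 11829 0) P.nil)))))) (P.cons (P.cons (P.lf 37029301 0 0) (P.cons (P.lf 0 26097626 0) (P.cons (P.lf 3155985 0 0) (P.cons (P.lf 415749 0 0) (P.cons (P.lf 0 49595 0) P.nil))))) (P.cons (P.cons (P.lf 0 28001925 0) (P.cons (P.lf 6707581 0 0) (P.cons (P.lf 0 39099 0) (P.cons (P.lf 0 75060 0) P.nil)))) (P.cons (P.cons (P.lf 0 2660225 0) (P.cons (P.lf 1720136 0 0) (P.cons (P.lf 0 198843 0) P.nil))) (P.cons (P.cons (P.lf 1480455 0 0) (P.cons (P.lf 0 127141 0) P.nil)) (P.cons (P.cons (P.lf 174031 0 0) P.nil) P.nil)))))) 260858)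
 (EL.cons 6 (TM.mk (P.cons (P.cons (P.lf 0 57900450 0) (P.cons (P.lf 0 67976184 0) (P.cons (P.lf 14667066 0 0) (P.cons (P.lf 1348362 0 0) (P.cons (P.lf 0 183120 0) (P.cons (P.lf 0 10020 0) P.nil)))))) (P.cons (P.cons (P.lf 17210790 0 0) (P.cons (P.lf 0 38735088 0) (P.cons (P.lf 6260910 0 0) (P.cons (P.lf 681996 0 0) (P.cons (P.lf 0 86802 0) P.nil))))) (P.cons (P.cons (P.lf 0 18624990 0) (P.cons (P.lf 0 2746782 0) (P.cons (P.lf 1272846 0 0) (P.cons (P.lf 82488 0 0) P.nil)))) (P.cons (P.cons (P.lf 0 7175952 0) (P.cons (P.lf 1259784 0 0) (P.cons (P.lf 72708 0 0) P.nil))) (P.cons (P.cons (P.lf 0 175650 0) (P.cons (P.lf 183858 0 0) P.nil)) (P.cons (P.cons (P.lf 178254 0 0) P.nil) P.nil)))))) 185718)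
 EL.nil))))))
noncomputable def S169_198_586_660_3 : EL := (EL.cons 0 (TM.mk (P.cons (P.lf 2000791209 0 0) (P.cons (P.lf 0 654467131 0) (P.cons (P.lf 15080835 0 0) (P.cons (P.lf 7271133 0 0) (P.cons (P.lf 199596 0 0) (P.cons (P.lf 0 35412 0) P.nil)))))) 3454)
 (EL.cons 1 (TM.mk (P.cons (P.lf 1695086628 0 0) (P.cons (P.lf 0 139901857 0) (P.cons (P.lf 0 47471786 0) (P.cons (P.lf 0 293435 0) (P.cons (P.lf 328029 0 0) (P.cons (P.lf 15684 0 0) P.nil)))))) 1940)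
 (EL.cons 5 (TM.mk (P.cons (P.lf 1436091214 0 0) (P.cons (P.lf 232699422 0 0) (P.cons (P.lf 0 5362070 0) (P.cons (P.lf 0 2585292 0) (P.cons (P.lf 0 70970 0) (P.cons (P.lf 12590 0 0) P.nil)))))) 1162)
 EL.nil)))
noncomputable def S169_198_586_660_4 : EL := (EL.cons 0 (TM.mk (P.cons (P.cons (P.lf 0 78400800 0) (P.cons (P.lf 0 101881385 0) (P.cons (P.lf 5574536 0 0) (P.lf 619391 0 0)))) (P.cons (P.cons (P.lf 68005411 0 0) (P.cons (P.lf 8563046 0 0) (P.cons (P.lf 0 468534 0) (P.lf 0 52057 0)))) (P.cons (P.cons (P.lf 0 49629550 0) (P.cons (P.lf 6899568 0 0) (P.cons (P.lf 0 377516 0) (P.lf 0 41944 0)))) (P.cons (P.cons (P.lf 9929295 0 0) (P.cons (P.lf 0 66986 0) (P.cons (P.lf 3665 0 0) P.nil))) (P.cons (P.cons (P.lf 837365 0 0) (P.cons (P.lf 0 191598 0) P.nil)) (P.cons (P.cons (P.lf 0 238800 0) P.nil) P.nil)))))) 81069)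
 (EL.cons 1 (TM.mk (P.cons (P.cons (P.lf 0 66421796 0) (P.cons (P.lf 0 86314740 0) (P.cons (P.lf 4722793 0 0) (P.lf 524752 0 0)))) (P.cons (P.cons (P.lf 41369932 0 0) (P.cons (P.lf 0 13855346 0) (P.cons (P.lf 758107 0 0) (P.lf 84232 0 0)))) (P.cons (P.cons (P.lf 0 30908615 0) (P.cons (P.lf 3782353 0 0) (P.cons (P.lf 0 206953 0) (P.lf 0 22993 0)))) (P.cons (P.cons (P.lf 99631 0 0) (P.cons (P.lf 927913 0 0) (P.cons (P.lf 0 50769 0) P.nil))) (P.cons (P.cons (P.lf 1291685 0 0) (P.cons (P.lf 0 5323 0) P.nil)) (P.cons (P.cons (P.lf 50148 0 0) P.nil) P.nil)))))) 61987)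
 (EL.cons 5 (TM.mk (P.cons (P.cons (P.lf 0 56273088 0) (P.cons (P.lf 0 73126552 0) (P.cons (P.lf 4001188 0 0) (P.lf 444574 0 0)))) (P.cons (P.cons (P.lf 21286212 0 0) (P.cons (P.lf 0 29622954 0) (P.cons (P.lf 1620848 0 0) (P.lf 180092 0 0)))) (P.cons (P.cons (P.lf 0 20115830 0) (P.cons (P.lf 0 2917404 0) (P.cons (P.lf 159628 0 0) (P.lf 17736 0 0)))) (P.cons (P.cons (P.lf 0 5262092 0) (P.cons (P.lf 397796 0 0) (P.cons (P.lf 0 21764 0) P.nil))) (P.cons (P.cons (P.lf 162382 0 0) (P.cons (P.lf 95802 0 0) P.nil)) (P.cons (P.cons (P.lf 123360 0 0) P.nil) P.nil)))))) 43198)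
 EL.nil)))
noncomputable def S169_198_586_660_5 : EL := (EL.cons 0 (TM.mk (P.cons (P.cons (P.lf 3072127 0 0) (P.cons (P.lf 7984422 0 0) (P.cons (P.lf 4750978 0 0) (P.cons (P.lf 0 616257 0) (P.cons (P.lf 0 47547 0) (P.cons (P.lf 3450 0 0) P.nil)))))) (P.cons (P.cons (P.lf 0 4324663 0) (P.cons (P.lf 0 4985091 0) (P.cons (P.lf 1097662 0 0) (P.cons (P.lf 0 59962 0) (P.cons (P.lf 0 7558 0) P.nil))))) (P.cons (P.cons (P.lf 4763139 0 0) (P.cons (P.lf 3404886 0 0) (P.cons (P.lf 0 621587 0) (P.cons (P.lf 26933 0 0) P.nil)))) (P.cons (P.cons (P.lf 0 2572425 0) (P.cons (P.lf 160560 0 0) (P.cons (P.lf 0 110358 0) P.nil))) (P.cons (P.cons (P.lf 978470 0 0) (P.cons (P.lf 0 287934 0) P.nil)) (P.cons (P.cons (P.lf 0 94325 0) P.nil) P.nil)))))) 266648)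
 (EL.cons 1 (TM.mk (P.cons (P.cons (P.lf 2602728 0 0) (P.cons (P.lf 6764467 0 0) (P.cons (P.lf 4025068 0 0) (P.cons (P.lf 0 522097 0) (P.cons (P.lf 0 40282 0) (P.cons (P.lf 2923 0 0) P.nil)))))) (P.cons (P.cons (P.lf 0 3027339 0) (P.cons (P.lf 0 2569020 0) (P.cons (P.lf 1914360 0 0) (P.cons (P.lf 0 178490 0) (P.cons (P.lf 0 16256 0) P.nil))))) (P.cons (P.cons (P.lf 3255000 0 0) (P.cons (P.lf 2152453 0 0) (P.cons (P.lf 0 120232 0) (P.cons (P.lf 0 12815 0) P.nil)))) (P.cons (P.cons (P.lf 0 1332189 0) (P.cons (P.lf 713911 0 0) (P.cons (P.lf 0 145158 0) P.nil))) (P.cons (P.cons (P.lf 447406 0 0) (P.cons (P.lf 0 107951 0) P.nil)) (P.cons (P.cons (P.lf 56227 0 0) P.nil) P.nil)))))) 201029)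
 (EL.cons 5 (TM.mk (P.cons (P.cons (P.lf 2205054 0 0) (P.cons (P.lf 5730912 0 0) (P.cons (P.lf 3410070 0 0) (P.cons (P.lf 0 442326 0) (P.cons (P.lf 0 34126 0) (P.cons (P.lf 2476 0 0) P.nil)))))) (P.cons (P.cons (P.lf 0 2025494 0) (P.cons (P.lf 0 774884 0) (P.cons (P.lf 2455864 0 0) (P.cons (P.lf 0 259398 0) (P.cons (P.lf 0 22118 0) P.nil))))) (P.cons (P.cons (P.lf 2228422 0 0) (P.cons (P.lf 1546048 0 0) (P.cons (P.lf 446396 0 0) (P.cons (P.lf 0 67506 0) P.nil)))) (P.cons (P.cons (P.lf 0 548616 0) (P.cons (P.lf 1005020 0 0) (P.cons (P.lf 0 45470 0) P.nil))) (P.cons (P.cons (P.lf 206728 0 0) (P.cons (P.lf 128374 0 0) P.nil)) (P.cons (P.cons (P.lf 110906 0 0) P.nil) P.nil)))))) 146868)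
 EL.nil)))
noncomputable def S169_198_586_660_6 : EL := (EL.cons 12 (TM.mk (P.lf 8589934592 0 0) 0)
 (EL.cons 3 (TM.mk (P.cons (P.lf 0 2072840178 0) (P.cons (P.lf 339017325 0 0) (P.cons (P.lf 19911543 0 0) (P.cons (P.lf 0 509910 0) (P.cons (P.lf 0 91155 0) (P.cons (P.lf 0 1462 0) P.nil)))))) 487)
 (EL.cons 7 (TM.mk (P.cons (P.lf 0 1756127103 0) (P.cons (P.lf 0 142278485 0) (P.cons (P.lf 9042093 0 0) (P.cons (P.lf 848140 0 0) (P.cons (P.lf 0 2043 0) (P.cons (P.lf 0 3166 0) P.nil)))))) 195)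
 EL.nil)))
noncomputable def S169_198_586_660_7 : EL := (EL.cons 12 (TM.mk (P.cons (P.cons (P.lf 0 336595714 0) (P.cons (P.lf 0 437404184 0) (P.cons (P.lf 23932992 0 0) (P.lf 2659216 0 0)))) (P.cons (P.cons (P.lf 181863662 0 0) (P.cons (P.lf 0 106313264 0) (P.cons (P.lf 5817032 0 0) (P.lf 646336 0 0)))) (P.cons (P.cons (P.lf 0 151047582 0) (P.cons (P.lf 0 1856896 0) (P.cons (P.lf 101600 0 0) (P.lf 11288 0 0)))) (P.cons (P.cons (P.lf 0 6926704 0) (P.cons (P.lf 1495920 0 0) (P.cons (P.lf 0 81848 0) P.nil))) (P.cons (P.cons (P.lf 1840458 0 0) (P.cons (P.lf 110720 0 0) P.nil)) (P.cons (P.cons (P.lf 153820 0 0) P.nil) P.nil)))))) 52130)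
 (EL.cons 3 (TM.mk (P.cons (P.cons (P.lf 622898769 0 0) (P.cons (P.lf 0 211100316 0) (P.cons (P.lf 11550556 0 0) (P.lf 1283392 0 0)))) (P.cons (P.cons (P.lf 0 932807517 0) (P.cons (P.lf 0 16783084 0) (P.cons (P.lf 918300 0 0) (P.lf 102030 0 0)))) (P.cons (P.cons (P.lf 0 61564054 0) (P.cons (P.lf 9523326 0 0) (P.cons (P.lf 0 521076 0) (P.lf 0 57896 0)))) (P.cons (P.cons (P.lf 19330487 0 0) (P.cons (P.lf 1309472 0 0) (P.cons (P.lf 0 71646 0) P.nil))) (P.cons (P.cons (P.lf 2469054 0 0) (P.cons (P.lf 0 77938 0) P.nil)) (P.cons (P.cons (P.lf 0 109771 0) P.nil) P.nil)))))) 181228)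
 (EL.cons 7 (TM.mk (P.cons (P.cons (P.lf 0 158515904 0) (P.cons (P.lf 222314552 0 0) (P.cons (P.lf 0 12164161 0) (P.lf 0 1351574 0)))) (P.cons (P.cons (P.lf 391479822 0 0) (P.cons (P.lf 7043515 0 0) (P.cons (P.lf 0 385394 0) (P.lf 0 42823 0)))) (P.cons (P.cons (P.lf 0 22035038 0) (P.cons (P.lf 0 4858057 0) (P.cons (P.lf 265810 0 0) (P.lf 29533 0 0)))) (P.cons (P.cons (P.lf 0 10321198 0) (P.cons (P.lf 138154 0 0) (P.cons (P.lf 0 7559 0) P.nil))) (P.cons (P.cons (P.lf 476583 0 0) (P.cons (P.lf 99696 0 0) P.nil)) (P.cons (P.cons (P.lf 167264 0 0) P.nil) P.nil)))))) 111574)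
 (EL.cons 10 (TM.mk (P.cons (P.cons (P.lf 0 1806912642 0) (P.cons (P.lf 226724115 0 0) (P.cons (P.lf 34614906 0 0) (P.cons (P.lf 0 1057479 0) (P.lf 0 88122 0))))) (P.cons (P.cons (P.lf 0 292786086 0) (P.cons (P.lf 36737616 0 0) (P.cons (P.lf 5608884 0 0) (P.cons (P.lf 0 171348 0) (P.lf 0 14277 0))))) (P.cons (P.cons (P.lf 6746640 0 0) (P.cons (P.lf 0 846540 0) (P.cons (P.lf 0 129243 0) (P.cons (P.lf 3948 0 0) P.nil)))) (P.cons (P.cons (P.lf 3252855 0 0) (P.cons (P.lf 0 408153 0) (P.cons (P.lf 0 62313 0) P.nil))) (P.cons (P.cons (P.lf 89295 0 0) (P.cons (P.lf 0 11202 0) P.nil)) (P.cons (P.cons (P.lf 0 15840 0) P.nil) P.nil)))))) 8241)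
 EL.nil))))
noncomputable def S169_198_586_660_8 : EL := (EL.cons 12 (TM.mk (P.cons (P.cons (P.lf 13189468 0 0) (P.cons (P.lf 34279276 0 0) (P.cons (P.lf 20397236 0 0) (P.cons (P.lf 0 2645764 0) (P.cons (P.lf 0 204136 0) (P.cons (P.lf 14818 0 0) P.nil)))))) (P.cons (P.cons (P.lf 0 14252618 0) (P.cons (P.lf 0 10189446 0) (P.cons (P.lf 11384584 0 0) (P.cons (P.lf 0 1122878 0) (P.cons (P.lf 0 99232 0) P.nil))))) (P.cons (P.cons (P.lf 15687934 0 0) (P.cons (P.lf 11026706 0 0) (P.cons (P.lf 901556 0 0) (P.cons (P.lf 0 231720 0) P.nil)))) (P.cons (P.cons (P.lf 0 5853028 0) (P.cons (P.lf 4248438 0 0) (P.cons (P.lf 0 338840 0) P.nil))) (P.cons (P.cons (P.lf 2218522 0 0) (P.cons (P.lf 103990 0 0) P.nil)) (P.cons (P.cons (P.lf 309478 0 0) P.nil) P.nil)))))) 412646)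
 (EL.cons 3 (TM.mk (P.cons (P.cons (P.lf 0 45633690 0) (P.cons (P.lf 0 38620856 0) (P.cons (P.lf 28986535 0 0) (P.cons (P.lf 0 2706005 0) (P.cons (P.lf 0 246300 0) (P.cons (P.lf 17875 0 0) P.nil)))))) (P.cons (P.cons (P.lf 95519754 0 0) (P.cons (P.lf 68144395 0 0) (P.cons (P.lf 4939623 0 0) (P.cons (P.lf 0 1362864 0) (P.cons (P.lf 0 79446 0) P.nil))))) (P.cons (P.cons (P.lf 0 52262332 0) (P.cons (P.lf 38040845 0 0) (P.cons (P.lf 0 2660397 0) (P.cons (P.lf 0 167916 0) P.nil)))) (P.cons (P.cons (P.lf 25681378 0 0) (P.cons (P.lf 2022471 0 0) (P.cons (P.lf 0 654857 0) P.nil))) (P.cons (P.cons (P.lf 5290723 0 0) (P.cons (P.lf 0 1517292 0) P.nil)) (P.cons (P.cons (P.lf 0 843325 0) P.nil) P.nil)))))) 1257927)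
 (EL.cons 7 (TM.mk (P.cons (P.cons (P.lf 15119314 0 0) (P.cons (P.lf 5728742 0 0) (P.cons (P.lf 0 18400741 0) (P.cons (P.lf 1944498 0 0) (P.cons (P.lf 165771 0 0) (P.cons (P.lf 0 12029 0) P.nil)))))) (P.cons (P.cons (P.lf 0 40087644 0) (P.cons (P.lf 0 28598776 0) (P.cons (P.lf 0 2073059 0) (P.cons (P.lf 571962 0 0) (P.cons (P.lf 33340 0 0) P.nil))))) (P.cons (P.cons (P.lf 26835533 0 0) (P.cons (P.lf 0 12467737 0) (P.cons (P.lf 1370014 0 0) (P.cons (P.lf 528 0 0) P.nil)))) (P.cons (P.cons (P.lf 0 14559329 0) (P.cons (P.lf 1607839 0 0) (P.cons (P.lf 82173 0 0) P.nil))) (P.cons (P.cons (P.lf 0 57225 0) (P.cons (P.lf 682561 0 0) P.nil)) (P.cons (P.cons (P.lf 672293 0 0) P.nil) P.nil)))))) 644493)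
 (EL.cons 10 (TM.mk (P.cons (P.cons (P.lf 141607374 0 0) (P.cons (P.lf 166249644 0 0) (P.cons (P.lf 0 35871312 0) (P.cons (P.lf 0 3297702 0) (P.cons (P.lf 447858 0 0) (P.cons (P.lf 24510 0 0) P.nil)))))) (P.cons (P.cons (P.lf 0 53565294 0) (P.cons (P.lf 81265296 0 0) (P.cons (P.lf 0 12406104 0) (P.cons (P.lf 0 1400790 0) (P.cons (P.lf 176010 0 0) P.nil))))) (P.cons (P.cons (P.lf 50620116 0 0) (P.cons (P.lf 989838 0 0) (P.cons (P.lf 0 2292594 0) (P.cons (P.lf 0 105240 0) P.nil)))) (P.cons (P.cons (P.lf 13241694 0 0) (P.cons (P.lf 0 2662542 0) (P.cons (P.lf 0 73290 0) P.nil))) (P.cons (P.cons (P.lf 0 408624 0) (P.cons (P.lf 0 189810 0) P.nil)) (P.cons (P.cons (P.lf 0 310428 0) P.nil) P.nil)))))) 295920)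
 EL.nil))))
noncomputable def S169_198_586_660_9 : EL := (EL.cons 3 (TM.mk (P.cons (P.lf 0 2072840178 0) (P.cons (P.lf 339017325 0 0) (P.cons (P.lf 19911543 0 0) (P.cons (P.lf 0 509910 0) (P.cons (P.lf 0 91155 0) (P.cons (P.lf 0 1462 0) P.nil)))))) 487)
 (EL.cons 7 (TM.mk (P.cons (P.lf 0 1756127103 0) (P.cons (P.lf 0 142278485 0) (P.cons (P.lf 9042093 0 0) (P.cons (P.lf 848140 0 0) (P.cons (P.lf 0 2043 0) (P.cons (P.lf 0 3166 0) P.nil)))))) 195)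
 EL.nil))
noncomputable def S169_198_586_660_10 : EL := (EL.cons 3 (TM.mk (P.cons (P.cons (P.lf 81224031 0 0) (P.cons (P.lf 105550158 0 0) (P.cons (P.lf 0 5775278 0) (P.lf 0 641696 0)))) (P.cons (P.cons (P.lf 0 57169944 0) (P.cons (P.lf 8391542 0 0) (P.cons (P.lf 0 459150 0) (P.lf 0 51015 0)))) (P.cons (P.cons (P.lf 42846692 0 0) (P.cons (P.lf 0 4761663 0) (P.cons (P.lf 260538 0 0) (P.lf 28948 0 0)))) (P.cons (P.cons (P.lf 0 3848338 0) (P.cons (P.lf 0 654736 0) (P.cons (P.lf 35823 0 0) P.nil))) (P.cons (P.cons (P.lf 0 1074849 0) (P.cons (P.lf 38969 0 0) P.nil)) (P.cons (P.cons (P.lf 26555 0 0) P.nil) P.nil)))))) 43941)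
 (EL.cons 7 (TM.mk (P.cons (P.cons (P.lf 68813662 0 0) (P.cons (P.lf 89422955 0 0) (P.cons (P.lf 0 4892863 0) (P.lf 0 543650 0)))) (P.cons (P.cons (P.lf 0 31605057 0) (P.cons (P.lf 28979593 0 0) (P.cons (P.lf 0 1585646 0) (P.lf 0 176182 0)))) (P.cons (P.cons (P.lf 27513589 0 0) (P.cons (P.lf 1680104 0 0) (P.cons (P.lf 0 91928 0) (P.lf 0 10214 0)))) (P.cons (P.cons (P.lf 4076159 0 0) (P.cons (P.lf 0 430166 0) (P.cons (P.lf 23536 0 0) P.nil))) (P.cons (P.cons (P.lf 0 402495 0) (P.cons (P.lf 0 59760 0) P.nil)) (P.cons (P.cons (P.lf 0 84055 0) P.nil) P.nil)))))) 24783)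
 EL.nil))
noncomputable def S169_198_586_660_11 : EL := (EL.cons 3 (TM.mk (P.cons (P.cons (P.lf 0 3182754 0) (P.cons (P.lf 0 8271944 0) (P.cons (P.lf 0 4922063 0) (P.cons (P.lf 638449 0 0) (P.cons (P.lf 49260 0 0) (P.cons (P.lf 0 3575 0) P.nil)))))) (P.cons (P.cons (P.lf 3959850 0 0) (P.cons (P.lf 3811711 0 0) (P.cons (P.lf 0 1942203 0) (P.cons (P.lf 166542 0 0) (P.cons (P.lf 15888 0 0) P.nil))))) (P.cons (P.cons (P.lf 0 4317592 0) (P.cons (P.lf 0 2983543 0) (P.cons (P.lf 279039 0 0) (P.cons (P.lf 5466 0 0) P.nil)))) (P.cons (P.cons (P.lf 1997728 0 0) (P.cons (P.lf 0 615657 0) (P.cons (P.lf 142525 0 0) P.nil))) (P.cons (P.cons (P.lf 0 729281 0) (P.cons (P.lf 168378 0 0) P.nil)) (P.cons (P.cons (P.lf 0 1471 0) P.nil) P.nil)))))) 186299)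
 (EL.cons 7 (TM.mk (P.cons (P.cons (P.lf 0 2696456 0) (P.cons (P.lf 0 7008058 0) (P.cons (P.lf 0 4170013 0) (P.cons (P.lf 540900 0 0) (P.cons (P.lf 41733 0 0) (P.cons (P.lf 0 3029 0) P.nil)))))) (P.cons (P.cons (P.lf 2695344 0 0) (P.cons (P.lf 1515350 0 0) (P.cons (P.lf 0 2665313 0) (P.cons (P.lf 273384 0 0) (P.cons (P.lf 23668 0 0) P.nil))))) (P.cons (P.cons (P.lf 0 2957287 0) (P.cons (P.lf 0 2049445 0) (P.cons (P.lf 0 351410 0) (P.cons (P.lf 63186 0 0) P.nil)))) (P.cons (P.cons (P.lf 923047 0 0) (P.cons (P.lf 0 1058531 0) (P.cons (P.lf 68337 0 0) P.nil))) (P.cons (P.cons (P.lf 0 341505 0) (P.cons (P.lf 0 81035 0) P.nil)) (P.cons (P.cons (P.lf 0 104629 0) P.nil) P.nil)))))) 124283)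
 EL.nil))
noncomputable def S169_198_586_660_12 : EL := (EL.cons 4 (TM.mk (P.cons (P.lf 2072840178 0 0) (P.cons (P.lf 0 339017325 0) (P.cons (P.lf 0 19911543 0) (P.cons (P.lf 509910 0 0) (P.cons (P.lf 91155 0 0) (P.cons (P.lf 1462 0 0) P.nil)))))) 487)
 (EL.cons 8 (TM.mk (P.cons (P.lf 1756127103 0 0) (P.cons (P.lf 142278485 0 0) (P.cons (P.lf 0 9042093 0) (P.cons (P.lf 0 848140 0) (P.cons (P.lf 2043 0 0) (P.cons (P.lf 3166 0 0) P.nil)))))) 195)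
 EL.nil))
noncomputable def S169_198_586_660_13 : EL := (EL.cons 4 (TM.mk (P.cons (P.cons (P.lf 0 81224031 0) (P.cons (P.lf 0 105550158 0) (P.cons (P.lf 5775278 0 0) (P.lf 641696 0 0)))) (P.cons (P.cons (P.lf 57169944 0 0) (P.cons (P.lf 0 8391542 0) (P.cons (P.lf 459150 0 0) (P.lf 51015 0 0)))) (P.cons (P.cons (P.lf 0 42846692 0) (P.cons (P.lf 4761663 0 0) (P.cons (P.lf 0 260538 0) (P.lf 0 28948 0)))) (P.cons (P.cons (P.lf 3848338 0 0) (P.cons (P.lf 654736 0 0) (P.cons (P.lf 0 35823 0) P.nil))) (P.cons (P.cons (P.lf 1074849 0 0) (P.cons (P.lf 0 38969 0) P.nil)) (P.cons (P.cons (P.lf 0 26555 0) P.nil) P.nil)))))) 43941)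
 (EL.cons 8 (TM.mk (P.cons (P.cons (P.lf 0 68813662 0) (P.cons (P.lf 0 89422955 0) (P.cons (P.lf 4892863 0 0) (P.lf 543650 0 0)))) (P.cons (P.cons (P.lf 31605057 0 0) (P.cons (P.lf 0 28979593 0) (P.cons (P.lf 1585646 0 0) (P.lf 176182 0 0)))) (P.cons (P.cons (P.lf 0 27513589 0) (P.cons (P.lf 0 1680104 0) (P.cons (P.lf 91928 0 0) (P.lf 10214 0 0)))) (P.cons (P.cons (P.lf 0 4076159 0) (P.cons (P.lf 430166 0 0) (P.cons (P.lf 0 23536 0) P.nil))) (P.cons (P.cons (P.lf 402495 0 0) (P.cons (P.lf 59760 0 0) P.nil)) (P.cons (P.cons (P.lf 84055 0 0) P.nil) P.nil)))))) 24783)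
 EL.nil))
noncomputable def S169_198_586_660_14 : EL := (EL.cons 4 (TM.mk (P.cons (P.cons (P.lf 3182754 0 0) (P.cons (P.lf 8271944 0 0) (P.cons (P.lf 4922063 0 0) (P.cons (P.lf 0 638449 0) (P.cons (P.lf 0 49260 0) (P.cons (P.lf 3575 0 0) P.nil)))))) (P.cons (P.cons (P.lf 0 3959850 0) (P.cons (P.lf 0 3811711 0) (P.cons (P.lf 1942203 0 0) (P.cons (P.lf 0 166542 0) (P.cons (P.lf 0 15888 0) P.nil))))) (P.cons (P.cons (P.lf 4317592 0 0) (P.cons (P.lf 2983543 0 0) (P.cons (P.lf 0 279039 0) (P.cons (P.lf 0 5466 0) P.nil)))) (P.cons (P.cons (P.lf 0 1997728 0) (P.cons (P.lf 615657 0 0) (P.cons (P.lf 0 142525 0) P.nil))) (P.cons (P.cons (P.lf 729281 0 0) (P.cons (P.lf 0 168378 0) P.nil)) (P.cons (P.cons (P.lf 1471 0 0) P.nil) P.nil)))))) 186299)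
 (EL.cons 8 (TM.mk (P.cons (P.cons (P.lf 2696456 0 0) (P.cons (P.lf 7008058 0 0) (P.cons (P.lf 4170013 0 0) (P.cons (P.lf 0 540900 0) (P.cons (P.lf 0 41733 0) (P.cons (P.lf 3029 0 0) P.nil)))))) (P.cons (P.cons (P.lf 0 2695344 0) (P.cons (P.lf 0 1515350 0) (P.cons (P.lf 2665313 0 0) (P.cons (P.lf 0 273384 0) (P.cons (P.lf 0 23668 0) P.nil))))) (P.cons (P.cons (P.lf 2957287 0 0) (P.cons (P.lf 2049445 0 0) (P.cons (P.lf 351410 0 0) (P.cons (P.lf 0 63186 0) P.nil)))) (P.cons (P.cons (P.lf 0 923047 0) (P.cons (P.lf 1058531 0 0) (P.cons (P.lf 0 68337 0) P.nil))) (P.cons (P.cons (P.lf 341505 0 0) (P.cons (P.lf 81035 0 0) P.nil)) (P.cons (P.cons (P.lf 104629 0 0) P.nil) P.nil)))))) 124283)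
 EL.nil))
noncomputable def S169_198_586_660_15 : EL := (EL.cons 4 (TM.mk (P.cons (P.lf 0 1067088645 0) (P.cons (P.lf 349049136 0 0) (P.cons (P.lf 0 8043112 0) (P.cons (P.lf 0 3877937 0) (P.cons (P.lf 0 106451 0) (P.cons (P.lf 18886 0 0) P.nil)))))) 1845)
 (EL.cons 8 (TM.mk (P.cons (P.lf 0 904046202 0) (P.cons (P.lf 74614324 0 0) (P.cons (P.lf 25318286 0 0) (P.cons (P.lf 156499 0 0) (P.cons (P.lf 0 174949 0) (P.cons (P.lf 0 8365 0) P.nil)))))) 1031)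
 EL.nil))
noncomputable def S169_198_586_660_16 : EL := (EL.cons 4 (TM.mk (P.cons (P.cons (P.lf 41813760 0 0) (P.cons (P.lf 54336738 0 0) (P.cons (P.lf 0 2973086 0) (P.lf 0 330342 0)))) (P.cons (P.cons (P.lf 0 36269552 0) (P.cons (P.lf 0 4566958 0) (P.cons (P.lf 249885 0 0) (P.lf 27764 0 0)))) (P.cons (P.cons (P.lf 26469093 0 0) (P.cons (P.lf 0 3679770 0) (P.cons (P.lf 201342 0 0) (P.lf 22370 0 0)))) (P.cons (P.cons (P.lf 0 5295624 0) (P.cons (P.lf 35726 0 0) (P.cons (P.lf 0 1954 0) P.nil))) (P.cons (P.cons (P.lf 0 446595 0) (P.cons (P.lf 102185 0 0) P.nil)) (P.cons (P.cons (P.lf 127360 0 0) P.nil) P.nil)))))) 43246)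
 (EL.cons 8 (TM.mk (P.cons (P.cons (P.lf 35424958 0 0) (P.cons (P.lf 46034528 0 0) (P.cons (P.lf 0 2518823 0) (P.lf 0 279868 0)))) (P.cons (P.cons (P.lf 0 22063964 0) (P.cons (P.lf 7389518 0 0) (P.cons (P.lf 0 404324 0) (P.lf 0 44924 0)))) (P.cons (P.cons (P.lf 16484595 0 0) (P.cons (P.lf 0 2017255 0) (P.cons (P.lf 110375 0 0) (P.lf 12263 0 0)))) (P.cons (P.cons (P.lf 0 53137 0) (P.cons (P.lf 0 494887 0) (P.cons (P.lf 27077 0 0) P.nil))) (P.cons (P.cons (P.lf 0 688899 0) (P.cons (P.lf 2839 0 0) P.nil)) (P.cons (P.cons (P.lf 0 26746 0) P.nil) P.nil)))))) 33050)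
 EL.nil))
noncomputable def S169_198_586_660_17 : EL := (EL.cons 4 (TM.mk (P.cons (P.cons (P.lf 0 1638467 0) (P.cons (P.lf 0 4258358 0) (P.cons (P.lf 0 2533855 0) (P.cons (P.lf 328670 0 0) (P.cons (P.lf 25358 0 0) (P.cons (P.lf 0 1840 0) P.nil)))))) (P.cons (P.cons (P.lf 2306487 0 0) (P.cons (P.lf 2658715 0 0) (P.cons (P.lf 0 585420 0) (P.cons (P.lf 31980 0 0) (P.cons (P.lf 4031 0 0) P.nil))))) (P.cons (P.cons (P.lf 0 2540340 0) (P.cons (P.lf 0 1815939 0) (P.cons (P.lf 331513 0 0) (P.cons (P.lf 0 14364 0) P.nil)))) (P.cons (P.cons (P.lf 1371960 0 0) (P.cons (P.lf 0 85632 0) (P.cons (P.lf 58858 0 0) P.nil))) (P.cons (P.cons (P.lf 0 521850 0) (P.cons (P.lf 153565 0 0) P.nil)) (P.cons (P.cons (P.lf 50307 0 0) P.nil) P.nil)))))) 142222)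
 (EL.cons 8 (TM.mk (P.cons (P.cons (P.lf 0 1388122 0) (P.cons (P.lf 0 3607716 0) (P.cons (P.lf 0 2146703 0) (P.cons (P.lf 278452 0 0) (P.cons (P.lf 21484 0 0) (P.cons (P.lf 0 1559 0) P.nil)))))) (P.cons (P.cons (P.lf 1614581 0 0) (P.cons (P.lf 1370144 0 0) (P.cons (P.lf 0 1020992 0) (P.cons (P.lf 95195 0 0) (P.cons (P.lf 8670 0 0) P.nil))))) (P.cons (P.cons (P.lf 0 1736000 0) (P.cons (P.lf 0 1147975 0) (P.cons (P.lf 64124 0 0) (P.cons (P.lf 6835 0 0) P.nil)))) (P.cons (P.cons (P.lf 710501 0 0) (P.cons (P.lf 0 380753 0) (P.cons (P.lf 77418 0 0) P.nil))) (P.cons (P.cons (P.lf 0 238617 0) (P.cons (P.lf 57574 0 0) P.nil)) (P.cons (P.cons (P.lf 0 29988 0) P.nil) P.nil)))))) 107204)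
 EL.nil))
noncomputable def S169_198_586_660_18 : EL := (EL.cons 4 (TM.mk (P.cons (P.lf 549332354 0 0) (P.cons (P.lf 0 269533349 0) (P.cons (P.lf 28252205 0 0) (P.cons (P.lf 3180359 0 0) (P.cons (P.lf 0 331524 0) (P.cons (P.lf 0 44357 0) P.nil)))))) 4415)
 (EL.cons 8 (TM.mk (P.cons (P.lf 465398850 0 0) (P.cons (P.lf 0 114528063 0) (P.cons (P.lf 0 11222106 0) (P.cons (P.lf 2534590 0 0) (P.cons (P.lf 239457 0 0) (P.cons (P.lf 0 14216 0) P.nil)))))) 3029)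
 EL.nil))
noncomputable def S169_198_586_660_19 : EL := (EL.cons 4 (TM.mk (P.cons (P.cons (P.lf 0 21525531 0) (P.cons (P.lf 0 27972304 0) (P.cons (P.lf 1530531 0 0) (P.lf 170057 0 0)))) (P.cons (P.cons (P.lf 22191945 0 0) (P.cons (P.lf 6925977 0 0) (P.cons (P.lf 0 378960 0) (P.lf 0 42105 0)))) (P.cons (P.cons (P.lf 0 16473142 0) (P.cons (P.lf 1778509 0 0) (P.cons (P.lf 0 97312 0) (P.lf 0 10812 0)))) (P.cons (P.cons (P.lf 4770100 0 0) (P.cons (P.lf 0 357677 0) (P.cons (P.lf 19570 0 0) P.nil))) (P.cons (P.cons (P.lf 0 81425 0) (P.cons (P.lf 0 68445 0) P.nil)) (P.cons (P.cons (P.lf 0 131898 0) P.nil) P.nil)))))) 56168)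
 (EL.cons 8 (TM.mk (P.cons (P.cons (P.lf 0 18236606 0) (P.cons (P.lf 0 23698364 0) (P.cons (P.lf 1296678 0 0) (P.lf 144075 0 0)))) (P.cons (P.cons (P.lf 14341062 0 0) (P.cons (P.lf 71826 0 0) (P.cons (P.lf 0 3929 0) (P.lf 0 436 0)))) (P.cons (P.cons (P.lf 0 10168709 0) (P.cons (P.lf 1888285 0 0) (P.cons (P.lf 0 103319 0) (P.lf 0 11479 0)))) (P.cons (P.cons (P.lf 1301695 0 0) (P.cons (P.lf 115633 0 0) (P.cons (P.lf 0 6327 0) P.nil))) (P.cons (P.cons (P.lf 433678 0 0) (P.cons (P.lf 0 55082 0) P.nil)) (P.cons (P.cons (P.lf 0 46097 0) P.nil) P.nil)))))) 33997)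
 EL.nil))
noncomputable def S169_198_586_660_20 : EL := (EL.cons 4 (TM.mk (P.cons (P.cons (P.lf 843475 0 0) (P.cons (P.lf 2192183 0 0) (P.cons (P.lf 1304416 0 0) (P.cons (P.lf 0 169198 0) (P.cons (P.lf 0 13053 0) (P.cons (P.lf 946 0 0) P.nil)))))) (P.cons (P.cons (P.lf 0 1325321 0) (P.cons (P.lf 0 1727230 0) (P.cons (P.lf 88031 0 0) (P.cons (P.lf 11208 0 0) (P.cons (P.lf 59 0 0) P.nil))))) (P.cons (P.cons (P.lf 1493850 0 0) (P.cons (P.lf 1137631 0 0) (P.cons (P.lf 0 232481 0) (P.cons (P.lf 11712 0 0) P.nil)))) (P.cons (P.cons (P.lf 0 908550 0) (P.cons (P.lf 0 95124 0) (P.cons (P.lf 0 4962 0) P.nil))) (P.cons (P.cons (P.lf 371341 0 0) (P.cons (P.lf 0 95484 0) P.nil)) (P.cons (P.cons (P.lf 0 62780 0) P.nil) P.nil)))))) 126776)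
 (EL.cons 8 (TM.mk (P.cons (P.cons (P.lf 714599 0 0) (P.cons (P.lf 1857235 0 0) (P.cons (P.lf 1105112 0 0) (P.cons (P.lf 0 143346 0) (P.cons (P.lf 0 11059 0) (P.cons (P.lf 802 0 0) P.nil)))))) (P.cons (P.cons (P.lf 0 948053 0) (P.cons (P.lf 0 1009098 0) (P.cons (P.lf 344858 0 0) (P.cons (P.lf 0 25561 0) (P.cons (P.lf 0 2654 0) P.nil))))) (P.cons (P.cons (P.lf 1022761 0 0) (P.cons (P.lf 688492 0 0) (P.cons (P.lf 0 129589 0) (P.cons (P.lf 5872 0 0) P.nil)))) (P.cons (P.cons (P.lf 0 503767 0) (P.cons (P.lf 106587 0 0) (P.cons (P.lf 0 39232 0) P.nil))) (P.cons (P.cons (P.lf 173902 0 0) (P.cons (P.lf 0 67465 0) P.nil)) (P.cons (P.cons (P.lf 0 955 0) P.nil) P.nil)))))) 81443)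
 EL.nil))
noncomputable def S169_198_586_660_21 : EL := (EL.cons 4 (TM.mk (P.cons (P.cons (P.lf 0 541674738 0) (P.cons (P.lf 316650474 0 0) (P.cons (P.lf 0 17325834 0) (P.lf 0 1925088 0)))) (P.cons (P.cons (P.lf 875637573 0 0) (P.cons (P.lf 25174626 0 0) (P.cons (P.lf 0 1377450 0) (P.lf 0 153045 0)))) (P.cons (P.cons (P.lf 104410746 0 0) (P.cons (P.lf 0 14284989 0) (P.cons (P.lf 781614 0 0) (P.lf 86844 0 0)))) (P.cons (P.cons (P.lf 0 23178825 0) (P.cons (P.lf 0 1964208 0) (P.cons (P.lf 107469 0 0) P.nil))) (P.cons (P.cons (P.lf 0 3543903 0) (P.cons (P.lf 116907 0 0) P.nil)) (P.cons (P.cons (P.lf 136326 0 0) P.nil) P.nil)))))) 137268)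
 (EL.cons 8 (TM.mk (P.cons (P.cons (P.lf 227329566 0 0) (P.cons (P.lf 0 132891597 0) (P.cons (P.lf 7271298 0 0) (P.lf 807924 0 0)))) (P.cons (P.cons (P.lf 0 423084879 0) (P.cons (P.lf 21936078 0 0) (P.cons (P.lf 0 1200252 0) (P.lf 0 133359 0)))) (P.cons (P.cons (P.lf 49548627 0 0) (P.cons (P.lf 6538161 0 0) (P.cons (P.lf 0 357738 0) (P.lf 0 39747 0)))) (P.cons (P.cons (P.lf 14397357 0 0) (P.cons (P.lf 0 568320 0) (P.cons (P.lf 31095 0 0) P.nil))) (P.cons (P.cons (P.lf 0 879078 0) (P.cons (P.lf 0 159456 0) P.nil)) (P.cons (P.cons (P.lf 0 251319 0) P.nil) P.nil)))))) 86772)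
 (EL.cons 11 (TM.mk (P.cons (P.cons (P.lf 1806912642 0 0) (P.cons (P.lf 0 226724115 0) (P.cons (P.lf 0 34614906 0) (P.cons (P.lf 1057479 0 0) (P.lf 88122 0 0))))) (P.cons (P.cons (P.lf 292786086 0 0) (P.cons (P.lf 0 36737616 0) (P.cons (P.lf 0 5608884 0) (P.cons (P.lf 171348 0 0) (P.lf 14277 0 0))))) (P.cons (P.cons (P.lf 0 6746640 0) (P.cons (P.lf 846540 0 0) (P.cons (P.lf 129243 0 0) (P.cons (P.lf 0 3948 0) P.nil)))) (P.cons (P.cons (P.lf 0 3252855 0) (P.cons (P.lf 408153 0 0) (P.cons (P.lf 62313 0 0) P.nil))) (P.cons (P.cons (P.lf 0 89295 0) (P.cons (P.lf 11202 0 0) P.nil)) (P.cons (P.cons (P.lf 15840 0 0) P.nil) P.nil)))))) 8241)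
 EL.nil)))
noncomputable def S169_198_586_660_22 : EL := (EL.cons 4 (TM.mk (P.cons (P.cons (P.lf 21225468 0 0) (P.cons (P.lf 15174456 0 0) (P.cons (P.lf 0 16954299 0) (P.cons (P.lf 1672227 0 0) (P.cons (P.lf 147780 0 0) (P.cons (P.lf 0 10725 0) P.nil)))))) (P.cons (P.cons (P.lf 0 45779952 0) (P.cons (P.lf 0 32166342 0) (P.cons (P.lf 0 3440913 0) (P.cons (P.lf 764703 0 0) (P.cons (P.lf 47667 0 0) P.nil))))) (P.cons (P.cons (P.lf 23972370 0 0) (P.cons (P.lf 0 20512194 0) (P.cons (P.lf 1469718 0 0) (P.cons (P.lf 86691 0 0) P.nil)))) (P.cons (P.cons (P.lf 0 11841825 0) (P.cons (P.lf 0 1319064 0) (P.cons (P.lf 398691 0 0) P.nil))) (P.cons (P.cons (P.lf 0 3010002 0) (P.cons (P.lf 842835 0 0) P.nil)) (P.cons (P.cons (P.lf 420927 0 0) P.nil) P.nil)))))) 535803)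
 (EL.cons 8 (TM.mk (P.cons (P.cons (P.lf 0 8907885 0) (P.cons (P.lf 0 6368400 0) (P.cons (P.lf 7115364 0 0) (P.cons (P.lf 0 701799 0) (P.cons (P.lf 0 62019 0) (P.cons (P.lf 4500 0 0) P.nil)))))) (P.cons (P.cons (P.lf 21391494 0 0) (P.cons (P.lf 15057063 0 0) (P.cons (P.lf 0 296127 0) (P.cons (P.lf 0 149289 0) (P.cons (P.lf 0 4836 0) P.nil))))) (P.cons (P.cons (P.lf 0 14896410 0) (P.cons (P.lf 5209146 0 0) (P.cons (P.lf 0 860712 0) (P.cons (P.lf 31329 0 0) P.nil)))) (P.cons (P.cons (P.lf 7741188 0 0) (P.cons (P.lf 0 1333185 0) (P.cons (P.lf 0 6918 0) P.nil))) (P.cons (P.cons (P.lf 0 142140 0) (P.cons (P.lf 0 381798 0) P.nil)) (P.cons (P.cons (P.lf 0 388461 0) P.nil) P.nil)))))) 260094)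
 (EL.cons 11 (TM.mk (P.cons (P.cons (P.lf 0 70803687 0) (P.cons (P.lf 0 83124822 0) (P.cons (P.lf 17935656 0 0) (P.cons (P.lf 1648851 0 0) (P.cons (P.lf 0 223929 0) (P.cons (P.lf 0 12255 0) P.nil)))))) (P.cons (P.cons (P.lf 26782647 0 0) (P.cons (P.lf 0 40632648 0) (P.cons (P.lf 6203052 0 0) (P.cons (P.lf 700395 0 0) (P.cons (P.lf 0 88005 0) P.nil))))) (P.cons (P.cons (P.lf 0 25310058 0) (P.cons (P.lf 0 494919 0) (P.cons (P.lf 1146297 0 0) (P.cons (P.lf 52620 0 0) P.nil)))) (P.cons (P.cons (P.lf 0 6620847 0) (P.cons (P.lf 1331271 0 0) (P.cons (P.lf 36645 0 0) P.nil))) (P.cons (P.cons (P.lf 204312 0 0) (P.cons (P.lf 94905 0 0) P.nil)) (P.cons (P.cons (P.lf 155214 0 0) P.nil) P.nil)))))) 147960)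
 EL.nil)))
noncomputable def S169_198_586_660_23 : EL := (EL.cons 4 (TM.mk (P.cons (P.cons (P.lf 278851677 0 0) (P.cons (P.lf 0 163010214 0) (P.cons (P.lf 8919258 0 0) (P.lf 991026 0 0)))) (P.cons (P.cons (P.lf 0 496380990 0) (P.cons (P.lf 13700877 0 0) (P.cons (P.lf 0 749658 0) (P.lf 0 83295 0)))) (P.cons (P.cons (P.lf 17296257 0 0) (P.cons (P.lf 11039310 0 0) (P.cons (P.lf 0 604023 0) (P.lf 0 67110 0)))) (P.cons (P.cons (P.lf 25122003 0 0) (P.cons (P.lf 0 107178 0) (P.cons (P.lf 5865 0 0) P.nil))) (P.cons (P.cons (P.lf 290517 0 0) (P.cons (P.lf 0 306558 0) P.nil)) (P.cons (P.cons (P.lf 0 516030 0) P.nil) P.nil)))))) 165906)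
 (EL.cons 8 (TM.mk (P.cons (P.cons (P.lf 0 117028221 0) (P.cons (P.lf 68411985 0 0) (P.cons (P.lf 0 3743229 0) (P.lf 0 415914 0)))) (P.cons (P.cons (P.lf 236942370 0 0) (P.cons (P.lf 0 22481514 0) (P.cons (P.lf 1230096 0 0) (P.lf 136674 0 0)))) (P.cons (P.cons (P.lf 0 60005238 0) (P.cons (P.lf 0 2176047 0) (P.cons (P.lf 119061 0 0) (P.lf 13227 0 0)))) (P.cons (P.cons (P.lf 0 5360883 0) (P.cons (P.lf 968358 0 0) (P.cons (P.lf 0 52983 0) P.nil))) (P.cons (P.cons (P.lf 1958196 0 0) (P.cons (P.lf 66798 0 0) P.nil)) (P.cons (P.cons (P.lf 129780 0 0) P.nil) P.nil)))))) 110907)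
 (EL.cons 11 (TM.mk (P.cons (P.cons (P.lf 0 930190365 0) (P.cons (P.lf 116716536 0 0) (P.cons (P.lf 17819595 0 0) (P.cons (P.lf 0 544383 0) (P.lf 0 45363 0))))) (P.cons (P.cons (P.lf 1409631 0 0) (P.cons (P.lf 0 176874 0) (P.cons (P.lf 0 27003 0) (P.cons (P.lf 825 0 0) (P.lf 69 0 0))))) (P.cons (P.cons (P.lf 37059852 0 0) (P.cons (P.lf 0 4650120 0) (P.cons (P.lf 0 709950 0) (P.cons (P.lf 21687 0 0) P.nil)))) (P.cons (P.cons (P.lf 2325543 0 0) (P.cons (P.lf 0 291798 0) (P.cons (P.lf 0 44547 0) P.nil))) (P.cons (P.cons (P.lf 0 339252 0) (P.cons (P.lf 42567 0 0) P.nil)) (P.cons (P.cons (P.lf 0 38187 0) P.nil) P.nil)))))) 23046)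
 EL.nil)))
noncomputable def S169_198_586_660_24 : EL := (EL.cons 4 (TM.mk (P.cons (P.cons (P.lf 0 10926774 0) (P.cons (P.lf 0 7811739 0) (P.cons (P.lf 8727996 0 0) (P.cons (P.lf 0 860853 0) (P.cons (P.lf 0 76074 0) (P.cons (P.lf 5520 0 0) P.nil)))))) (P.cons (P.cons (P.lf 25354407 0 0) (P.cons (P.lf 17836710 0 0) (P.cons (P.lf 343884 0 0) (P.cons (P.lf 0 252870 0) (P.cons (P.lf 0 12096 0) P.nil))))) (P.cons (P.cons (P.lf 0 16090386 0) (P.cons (P.lf 7926348 0 0) (P.cons (P.lf 0 1130154 0) (P.cons (P.lf 28026 0 0) P.nil)))) (P.cons (P.cons (P.lf 7885416 0 0) (P.cons (P.lf 0 1208979 0) (P.cons (P.lf 0 96369 0) P.nil))) (P.cons (P.cons (P.lf 676365 0 0) (P.cons (P.lf 0 642651 0) P.nil)) (P.cons (P.cons (P.lf 0 530685 0) P.nil) P.nil)))))) 405861)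
 (EL.cons 8 (TM.mk (P.cons (P.cons (P.lf 4585737 0 0) (P.cons (P.lf 3278424 0 0) (P.cons (P.lf 0 3662955 0) (P.cons (P.lf 361281 0 0) (P.cons (P.lf 31926 0 0) (P.cons (P.lf 0 2316 0) P.nil)))))) (P.cons (P.cons (P.lf 0 11762250 0) (P.cons (P.lf 0 8287500 0) (P.cons (P.lf 751527 0 0) (P.cons (P.lf 17763 0 0) (P.cons (P.lf 0 2730 0) P.nil))))) (P.cons (P.cons (P.lf 9425628 0 0) (P.cons (P.lf 0 1445394 0) (P.cons (P.lf 453345 0 0) (P.cons (P.lf 0 32166 0) P.nil)))) (P.cons (P.cons (P.lf 0 5132433 0) (P.cons (P.lf 1200171 0 0) (P.cons (P.lf 0 71271 0) P.nil))) (P.cons (P.cons (P.lf 648777 0 0) (P.cons (P.lf 108297 0 0) P.nil)) (P.cons (P.cons (P.lf 227697 0 0) P.nil) P.nil)))))) 205530)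
 (EL.cons 11 (TM.mk (P.cons (P.cons (P.lf 36449412 0 0) (P.cons (P.lf 42792276 0 0) (P.cons (P.lf 0 9233193 0) (P.cons (P.lf 0 848820 0) (P.cons (P.lf 115278 0 0) (P.cons (P.lf 6309 0 0) P.nil)))))) (P.cons (P.cons (P.lf 0 19748961 0) (P.cons (P.lf 13918734 0 0) (P.cons (P.lf 0 1683192 0) (P.cons (P.lf 0 221733 0) (P.cons (P.lf 26451 0 0) P.nil))))) (P.cons (P.cons (P.lf 14934360 0 0) (P.cons (P.lf 0 3577377 0) (P.cons (P.lf 20853 0 0) (P.cons (P.lf 40032 0 0) P.nil)))) (P.cons (P.cons (P.lf 1418787 0 0) (P.cons (P.lf 0 917406 0) (P.cons (P.lf 106050 0 0) P.nil))) (P.cons (P.cons (P.lf 0 789576 0) (P.cons (P.lf 67809 0 0) P.nil)) (P.cons (P.cons (P.lf 0 92817 0) P.nil) P.nil)))))) 139113)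
 EL.nil)))
noncomputable def S169_198_586_660_25 : EL := (EL.cons 4 (TM.mk (P.cons (P.cons (P.lf 0 143551566 0) (P.cons (P.lf 83916912 0 0) (P.cons (P.lf 0 4591593 0) (P.lf 0 510174 0)))) (P.cons (P.cons (P.lf 279012819 0 0) (P.cons (P.lf 0 20777934 0) (P.cons (P.lf 1136883 0 0) (P.lf 126321 0 0)))) (P.cons (P.cons (P.lf 0 49318314 0) (P.cons (P.lf 0 5335527 0) (P.cons (P.lf 291936 0 0) (P.lf 32436 0 0)))) (P.cons (P.cons (P.lf 0 13966377 0) (P.cons (P.lf 1073034 0 0) (P.cons (P.lf 0 58713 0) P.nil))) (P.cons (P.cons (P.lf 2107689 0 0) (P.cons (P.lf 205335 0 0) P.nil)) (P.cons (P.cons (P.lf 423285 0 0) P.nil) P.nil)))))) 159732)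
 (EL.cons 8 (TM.mk (P.cons (P.cons (P.lf 60245592 0 0) (P.cons (P.lf 0 35218176 0) (P.cons (P.lf 1926996 0 0) (P.lf 214110 0 0)))) (P.cons (P.cons (P.lf 0 131830140 0) (P.cons (P.lf 17333385 0 0) (P.cons (P.lf 0 948411 0) (P.lf 0 105378 0)))) (P.cons (P.cons (P.lf 50261274 0 0) (P.cons (P.lf 0 434325 0) (P.cons (P.lf 23763 0 0) (P.lf 2640 0 0)))) (P.cons (P.cons (P.lf 0 1105914 0) (P.cons (P.lf 0 801555 0) (P.cons (P.lf 43857 0 0) P.nil))) (P.cons (P.cons (P.lf 0 1783521 0) (P.cons (P.lf 37680 0 0) P.nil)) (P.cons (P.cons (P.lf 73827 0 0) P.nil) P.nil)))))) 108099)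
 (EL.cons 11 (TM.mk (P.cons (P.cons (P.lf 478857744 0 0) (P.cons (P.lf 0 60085137 0) (P.cons (P.lf 0 9173445 0) (P.cons (P.lf 280245 0 0) (P.lf 23352 0 0))))) (P.cons (P.cons (P.lf 0 79043850 0) (P.cons (P.lf 9918102 0 0) (P.cons (P.lf 1514235 0 0) (P.cons (P.lf 0 46260 0) (P.lf 0 3855 0))))) (P.cons (P.cons (P.lf 0 23559429 0) (P.cons (P.lf 2956140 0 0) (P.cons (P.lf 451323 0 0) (P.cons (P.lf 0 13785 0) P.nil)))) (P.cons (P.cons (P.lf 2047872 0 0) (P.cons (P.lf 0 256959 0) (P.cons (P.lf 0 39231 0) P.nil))) (P.cons (P.cons (P.lf 574590 0 0) (P.cons (P.lf 0 72096 0) P.nil)) (P.cons (P.cons (P.lf 0 1791 0) P.nil) P.nil)))))) 31959)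
 EL.nil)))
noncomputable def S169_198_586_660_26 : EL := (EL.cons 4 (TM.mk (P.cons (P.cons (P.lf 5625051 0 0) (P.cons (P.lf 4021446 0 0) (P.cons (P.lf 0 4493130 0) (P.cons (P.lf 443163 0 0) (P.cons (P.lf 39162 0 0) (P.cons (P.lf 0 2841 0) P.nil)))))) (P.cons (P.cons (P.lf 0 13972320 0) (P.cons (P.lf 0 9839973 0) (P.cons (P.lf 557829 0 0) (P.cons (P.lf 57696 0 0) (P.cons (P.lf 0 177 0) P.nil))))) (P.cons (P.cons (P.lf 10363959 0 0) (P.cons (P.lf 0 2617299 0) (P.cons (P.lf 653913 0 0) (P.cons (P.lf 0 39975 0) P.nil)))) (P.cons (P.cons (P.lf 0 5287356 0) (P.cons (P.lf 1378935 0 0) (P.cons (P.lf 0 44946 0) P.nil))) (P.cons (P.cons (P.lf 233196 0 0) (P.cons (P.lf 266157 0 0) P.nil)) (P.cons (P.cons (P.lf 370602 0 0) P.nil) P.nil)))))) 329985)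
 (EL.cons 8 (TM.mk (P.cons (P.cons (P.lf 0 2360715 0) (P.cons (P.lf 0 1687716 0) (P.cons (P.lf 1885671 0 0) (P.cons (P.lf 0 185985 0) (P.cons (P.lf 0 16434 0) (P.cons (P.lf 1191 0 0) P.nil)))))) (P.cons (P.cons (P.lf 6441252 0 0) (P.cons (P.lf 4542396 0 0) (P.cons (P.lf 0 695289 0) (P.cons (P.lf 21270 0 0) (P.cons (P.lf 4092 0 0) P.nil))))) (P.cons (P.cons (P.lf 0 5819925 0) (P.cons (P.lf 62520 0 0) (P.cons (P.lf 0 188217 0) (P.cons (P.lf 19842 0 0) P.nil)))) (P.cons (P.cons (P.lf 3377004 0 0) (P.cons (P.lf 0 780936 0) (P.cons (P.lf 79038 0 0) P.nil))) (P.cons (P.cons (P.lf 0 718119 0) (P.cons (P.lf 39126 0 0) P.nil)) (P.cons (P.cons (P.lf 0 88902 0) P.nil) P.nil)))))) 164892)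
 (EL.cons 11 (TM.mk (P.cons (P.cons (P.lf 0 18763992 0) (P.cons (P.lf 0 22029267 0) (P.cons (P.lf 4753206 0 0) (P.cons (P.lf 436968 0 0) (P.cons (P.lf 0 59343 0) (P.cons (P.lf 0 3246 0) P.nil)))))) (P.cons (P.cons (P.lf 13235565 0 0) (P.cons (P.lf 0 3562368 0) (P.cons (P.lf 89103 0 0) (P.cons (P.lf 42681 0 0) (P.cons (P.lf 0 3909 0) P.nil))))) (P.cons (P.cons (P.lf 0 9170673 0) (P.cons (P.lf 3225126 0 0) (P.cons (P.lf 0 198111 0) (P.cons (P.lf 0 43473 0) P.nil)))) (P.cons (P.cons (P.lf 424746 0 0) (P.cons (P.lf 234486 0 0) (P.cons (P.lf 0 59991 0) P.nil))) (P.cons (P.cons (P.lf 601452 0 0) (P.cons (P.lf 0 132570 0) P.nil)) (P.cons (P.cons (P.lf 0 13137 0) P.nil) P.nil)))))) 119385)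
 EL.nil)))
noncomputable def S169_198_586_660_27 : EL := (EL.cons 13 (TM.mk (P.lf 0 4294967296 0) 0)
 EL.nil)
noncomputable def S169_198_586_660_28 : EL := (EL.cons 13 (TM.mk (P.cons (P.cons (P.lf 168297857 0 0) (P.cons (P.lf 218702092 0 0) (P.cons (P.lf 0 11966496 0) (P.lf 0 1329608 0)))) (P.cons (P.cons (P.lf 0 90931831 0) (P.cons (P.lf 53156632 0 0) (P.cons (P.lf 0 2908516 0) (P.lf 0 323168 0)))) (P.cons (P.cons (P.lf 75523791 0 0) (P.cons (P.lf 928448 0 0) (P.cons (P.lf 0 50800 0) (P.lf 0 5644 0)))) (P.cons (P.cons (P.lf 3463352 0 0) (P.cons (P.lf 0 747960 0) (P.cons (P.lf 40924 0 0) P.nil))) (P.cons (P.cons (P.lf 0 920229 0) (P.cons (P.lf 0 55360 0) P.nil)) (P.cons (P.cons (P.lf 0 76910 0) P.nil) P.nil)))))) 26065)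
 EL.nil)
noncomputable def S169_198_586_660_29 : EL := (EL.cons 13 (TM.mk (P.cons (P.cons (P.lf 0 6594734 0) (P.cons (P.lf 0 17139638 0) (P.cons (P.lf 0 10198618 0) (P.cons (P.lf 1322882 0 0) (P.cons (P.lf 102068 0 0) (P.cons (P.lf 0 7409 0) P.nil)))))) (P.cons (P.cons (P.lf 7126309 0 0) (P.cons (P.lf 5094723 0 0) (P.cons (P.lf 0 5692292 0) (P.cons (P.lf 561439 0 0) (P.cons (P.lf 49616 0 0) P.nil))))) (P.cons (P.cons (P.lf 0 7843967 0) (P.cons (P.lf 0 5513353 0) (P.cons (P.lf 0 450778 0) (P.cons (P.lf 115860 0 0) P.nil)))) (P.cons (P.cons (P.lf 2926514 0 0) (P.cons (P.lf 0 2124219 0) (P.cons (P.lf 169420 0 0) P.nil))) (P.cons (P.cons (P.lf 0 1109261 0) (P.cons (P.lf 0 51995 0) P.nil)) (P.cons (P.cons (P.lf 0 154739 0) P.nil) P.nil)))))) 206323)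
 EL.nil)
noncomputable def S169_198_586_660_30 : EL := (EL.cons 13 (TM.mk (P.cons (P.lf 2211029524 0 0) (P.cons (P.lf 0 361618480 0) (P.cons (P.lf 0 21238980 0) (P.cons (P.lf 543904 0 0) (P.cons (P.lf 97232 0 0) (P.cons (P.lf 1560 0 0) P.nil)))))) 512)
 EL.nil)
noncomputable def S169_198_586_660_31 : EL := (EL.cons 13 (TM.mk (P.cons (P.cons (P.lf 0 86638967 0) (P.cons (P.lf 0 112586836 0) (P.cons (P.lf 6160297 0 0) (P.lf 684476 0 0)))) (P.cons (P.cons (P.lf 60981274 0 0) (P.cons (P.lf 0 8950979 0) (P.cons (P.lf 489761 0 0) (P.lf 54417 0 0)))) (P.cons (P.cons (P.lf 0 45703139 0) (P.cons (P.lf 5079108 0 0) (P.cons (P.lf 0 277908 0) (P.lf 0 30878 0)))) (P.cons (P.cons (P.lf 4104894 0 0) (P.cons (P.lf 698386 0 0) (P.cons (P.lf 0 38212 0) P.nil))) (P.cons (P.cons (P.lf 1146506 0 0) (P.cons (P.lf 0 41567 0) P.nil)) (P.cons (P.cons (P.lf 0 28326 0) P.nil) P.nil)))))) 46851)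
 EL.nil)
noncomputable def S169_198_586_660_32 : EL := (EL.cons 13 (TM.mk (P.cons (P.cons (P.lf 3394938 0 0) (P.cons (P.lf 8823407 0 0) (P.cons (P.lf 5250201 0 0) (P.cons (P.lf 0 681013 0) (P.cons (P.lf 0 52544 0) (P.cons (P.lf 3814 0 0) P.nil)))))) (P.cons (P.cons (P.lf 0 4223840 0) (P.cons (P.lf 0 4065826 0) (P.cons (P.lf 2071684 0 0) (P.cons (P.lf 0 177645 0) (P.cons (P.lf 0 16948 0) P.nil))))) (P.cons (P.cons (P.lf 4605432 0 0) (P.cons (P.lf 3182446 0 0) (P.cons (P.lf 0 297642 0) (P.cons (P.lf 0 5831 0) P.nil)))) (P.cons (P.cons (P.lf 0 2130910 0) (P.cons (P.lf 656701 0 0) (P.cons (P.lf 0 152027 0) P.nil))) (P.cons (P.cons (P.lf 777900 0 0) (P.cons (P.lf 0 179604 0) P.nil)) (P.cons (P.cons (P.lf 1570 0 0) P.nil) P.nil)))))) 198696)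
 EL.nil)
noncomputable def S169_198_586_660_33 : EL := (EL.cons 14 (TM.mk (P.lf 8589934592 0 0) 0)
 EL.nil)
noncomputable def S169_198_586_660_34 : EL := (EL.cons 14 (TM.mk (P.cons (P.cons (P.lf 0 336595714 0) (P.cons (P.lf 0 437404184 0) (P.cons (P.lf 23932992 0 0) (P.lf 2659216 0 0)))) (P.cons (P.cons (P.lf 181863662 0 0) (P.cons (P.lf 0 106313264 0) (P.cons (P.lf 5817032 0 0) (P.lf 646336 0 0)))) (P.cons (P.cons (P.lf 0 151047582 0) (P.cons (P.lf 0 1856896 0) (P.cons (P.lf 101600 0 0) (P.lf 11288 0 0)))) (P.cons (P.cons (P.lf 0 6926704 0) (P.cons (P.lf 1495920 0 0) (P.cons (P.lf 0 81848 0) P.nil))) (P.cons (P.cons (P.lf 1840458 0 0) (P.cons (P.lf 110720 0 0) P.nil)) (P.cons (P.cons (P.lf 153820 0 0) P.nil) P.nil)))))) 52130)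
 EL.nil)
noncomputable def S169_198_586_660_35 : EL := (EL.cons 14 (TM.mk (P.cons (P.cons (P.lf 13189468 0 0) (P.cons (P.lf 34279276 0 0) (P.cons (P.lf 20397236 0 0) (P.cons (P.lf 0 2645764 0) (P.cons (P.lf 0 204136 0) (P.cons (P.lf 14818 0 0) P.nil)))))) (P.cons (P.cons (P.lf 0 14252618 0) (P.cons (P.lf 0 10189446 0) (P.cons (P.lf 11384584 0 0) (P.cons (P.lf 0 1122878 0) (P.cons (P.lf 0 99232 0) P.nil))))) (P.cons (P.cons (P.lf 15687934 0 0) (P.cons (P.lf 11026706 0 0) (P.cons (P.lf 901556 0 0) (P.cons (P.lf 0 231720 0) P.nil)))) (P.cons (P.cons (P.lf 0 5853028 0) (P.cons (P.lf 4248438 0 0) (P.cons (P.lf 0 338840 0) P.nil))) (P.cons (P.cons (P.lf 2218522 0 0) (P.cons (P.lf 103990 0 0) P.nil)) (P.cons (P.cons (P.lf 309478 0 0) P.nil) P.nil)))))) 412646)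
 EL.nil)
noncomputable def S169_198_586_660_36 : EL := (EL.cons 14 (TM.mk (P.cons (P.lf 0 4422059048 0) (P.cons (P.lf 723236960 0 0) (P.cons (P.lf 42477960 0 0) (P.cons (P.lf 0 1087808 0) (P.cons (P.lf 0 194464 0) (P.cons (P.lf 0 3120 0) P.nil)))))) 1024)
 EL.nil)
noncomputable def S169_198_586_660_37 : EL := (EL.cons 14 (TM.mk (P.cons (P.cons (P.lf 173277934 0 0) (P.cons (P.lf 225173672 0 0) (P.cons (P.lf 0 12320594 0) (P.lf 0 1368952 0)))) (P.cons (P.cons (P.lf 0 121962548 0) (P.cons (P.lf 17901958 0 0) (P.cons (P.lf 0 979522 0) (P.lf 0 108834 0)))) (P.cons (P.cons (P.lf 91406278 0 0) (P.cons (P.lf 0 10158216 0) (P.cons (P.lf 555816 0 0) (P.lf 61756 0 0)))) (P.cons (P.cons (P.lf 0 8209788 0) (P.cons (P.lf 0 1396772 0) (P.cons (P.lf 76424 0 0) P.nil))) (P.cons (P.cons (P.lf 0 2293012 0) (P.cons (P.lf 83134 0 0) P.nil)) (P.cons (P.cons (P.lf 56652 0 0) P.nil) P.nil))))))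 93702)
 EL.nil)
noncomputable def S169_198_586_660_38 : EL := (EL.cons 14 (TM.mk (P.cons (P.cons (P.lf 0 6789876 0) (P.cons (P.lf 0 17646814 0) (P.cons (P.lf 0 10500402 0) (P.cons (P.lf 1362026 0 0) (P.cons (P.lf 105088 0 0) (P.cons (P.lf 0 7628 0) P.nil)))))) (P.cons (P.cons (P.lf 8447680 0 0) (P.cons (P.lf 8131652 0 0) (P.cons (P.lf 0 4143368 0) (P.cons (P.lf 355290 0 0) (P.cons (P.lf 33896 0 0) P.nil))))) (P.cons (P.cons (P.lf 0 9210864 0) (P.cons (P.lf 0 6364892 0) (P.cons (P.lf 595284 0 0) (P.cons (P.lf 11662 0 0) P.nil)))) (P.cons (P.cons (P.lf 4261820 0 0) (P.cons (P.lf 0 1313402 0) (P.cons (P.lf 304054 0 0) P.nil))) (P.cons (P.cons (P.lf 0 1555800 0) (P.cons (P.lf 359208 0 0) P.nil)) (P.cons (P.cons (P.lf 0 3140 0) P.nil) P.nil)))))) 397392)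
 EL.nil)
noncomputable def S169_198_586_660_39 : EL := (EL.cons 14 (TM.mk (P.cons (P.lf 2276455776 0 0) (P.cons (P.lf 0 744638158 0) (P.cons (P.lf 17158640 0 0) (P.cons (P.lf 8272934 0 0) (P.cons (P.lf 227096 0 0) (P.cons (P.lf 0 40292 0) P.nil)))))) 3922)
 EL.nil)
noncomputable def S169_198_586_660_40 : EL := (EL.cons 14 (TM.mk (P.cons (P.cons (P.lf 0 89202688 0) (P.cons (P.lf 0 115918376 0) (P.cons (P.lf 6342584 0 0) (P.lf 704730 0 0)))) (P.cons (P.cons (P.lf 77375046 0 0) (P.cons (P.lf 9742844 0 0) (P.cons (P.lf 0 533088 0) (P.lf 0 59230 0)))) (P.cons (P.cons (P.lf 0 56467400 0) (P.cons (P.lf 7850176 0 0) (P.cons (P.lf 0 429530 0) (P.lf 0 47724 0)))) (P.cons (P.cons (P.lf 11297332 0 0) (P.cons (P.lf 0 76216 0) (P.cons (P.lf 4170 0 0) P.nil))) (P.cons (P.cons (P.lf 952736 0 0) (P.cons (P.lf 0 217996 0) P.nil)) (P.cons (P.cons (P.lf 0 271702 0) P.nil) P.nil))))))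 92218)
 EL.nil)
noncomputable def S169_198_586_660_41 : EL := (EL.cons 14 (TM.mk (P.cons (P.cons (P.lf 3495398 0 0) (P.cons (P.lf 9084498 0 0) (P.cons (P.lf 5405558 0 0) (P.cons (P.lf 0 701164 0) (P.cons (P.lf 0 54098 0) (P.cons (P.lf 3926 0 0) P.nil)))))) (P.cons (P.cons (P.lf 0 4920506 0) (P.cons (P.lf 0 5671926 0) (P.cons (P.lf 1248896 0 0) (P.cons (P.lf 0 68224 0) (P.cons (P.lf 0 8600 0) P.nil))))) (P.cons (P.cons (P.lf 5419394 0 0) (P.cons (P.lf 3874004 0 0) (P.cons (P.lf 0 707228 0) (P.cons (P.lf 30644 0 0) P.nil)))) (P.cons (P.cons (P.lf 0 2926848 0) (P.cons (P.lf 182682 0 0) (P.cons (P.lf 0 125564 0) P.nil))) (P.cons (P.cons (P.lf 1113282 0 0) (P.cons (P.lf 0 327606 0) P.nil)) (P.cons (P.cons (P.lf 0 107322 0) P.nil) P.nil)))))) 303362)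
 EL.nil)
noncomputable def S169_198_586_660_42 : EL := (EL.cons 14 (TM.mk (P.cons (P.lf 0 1171909022 0) (P.cons (P.lf 575004478 0 0) (P.cons (P.lf 0 60271372 0) (P.cons (P.lf 0 6784766 0) (P.cons (P.lf 707252 0 0) (P.cons (P.lf 94630 0 0) P.nil)))))) 9404)
 EL.nil)
noncomputable def S169_198_586_660_43 : EL := (EL.cons 14 (TM.mk (P.cons (P.cons (P.lf 45921134 0 0) (P.cons (P.lf 59674250 0 0) (P.cons (P.lf 0 3265134 0) (P.lf 0 362790 0)))) (P.cons (P.cons (P.lf 0 47342816 0) (P.cons (P.lf 0 14775418 0) (P.cons (P.lf 808450 0 0) (P.lf 89826 0 0)))) (P.cons (P.cons (P.lf 35142704 0 0) (P.cons (P.lf 0 3794154 0) (P.cons (P.lf 207600 0 0) (P.lf 23066 0 0)))) (P.cons (P.cons (P.lf 0 10176214 0) (P.cons (P.lf 763046 0 0) (P.cons (P.lf 0 41750 0) P.nil))) (P.cons (P.cons (P.lf 173708 0 0) (P.cons (P.lf 146016 0 0) P.nil)) (P.cons (P.cons (P.lf 281384 0 0) P.nil) P.nil))))))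 119786)
 EL.nil)
noncomputable def S169_198_586_660_44 : EL := (EL.cons 14 (TM.mk (P.cons (P.cons (P.lf 0 1799414 0) (P.cons (P.lf 0 4676658 0) (P.cons (P.lf 0 2782756 0) (P.cons (P.lf 360956 0 0) (P.cons (P.lf 27848 0 0) (P.cons (P.lf 0 2020 0) P.nil)))))) (P.cons (P.cons (P.lf 2827352 0 0) (P.cons (P.lf 3684758 0 0) (P.cons (P.lf 0 187800 0) (P.cons (P.lf 0 23912 0) (P.cons (P.lf 0 126 0) P.nil))))) (P.cons (P.cons (P.lf 0 3186880 0) (P.cons (P.lf 0 2426948 0) (P.cons (P.lf 495960 0 0) (P.cons (P.lf 0 24986 0) P.nil)))) (P.cons (P.cons (P.lf 1938242 0 0) (P.cons (P.lf 202932 0 0) (P.cons (P.lf 10586 0 0) P.nil))) (P.cons (P.cons (P.lf 0 792196 0) (P.cons (P.lf 203700 0 0) P.nil)) (P.cons (P.cons (P.lf 133932 0 0) P.nil) P.nil)))))) 270410)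
 EL.nil)
noncomputable def S169_198_586_660_45 : EL := (EL.cons 14 (TM.mk (P.cons (P.cons (P.lf 0 516826 0) (P.cons (P.lf 0 2014844 0) (P.cons (P.lf 0 2508034 0) (P.cons (P.lf 0 835372 0) (P.cons (P.lf 210164 0 0) (P.cons (P.lf 8756 0 0) P.nil)))))) (P.cons (P.cons (P.lf 837730 0 0) (P.cons (P.lf 1687534 0 0) (P.cons (P.lf 49556 0 0) (P.cons (P.lf 0 852766 0) (P.cons (P.lf 134446 0 0) P.nil))))) (P.cons (P.cons (P.lf 0 1148408 0) (P.cons (P.lf 0 1875874 0) (P.cons (P.lf 0 561538 0) (P.cons (P.lf 0 131358 0) P.nil)))) (P.cons (P.cons (P.lf 801476 0 0) (P.cons (P.lf 327766 0 0) (P.cons (P.lf 0 534882 0) P.nil))) (P.cons (P.cons (P.lf 0 472392 0) (P.cons (P.lf 0 138694 0) P.nil)) (P.cons (P.cons (P.lf 122296 0 0) P.nil) P.nil)))))) 590080)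
 EL.nil)
noncomputable def S169_198_586_660_46 : EL := (EL.cons 15 (TM.mk (P.lf 4294967296 0 0) 0)
 EL.nil)
noncomputable def S169_198_586_660_47 : EL := (EL.cons 15 (TM.mk (P.cons (P.cons (P.lf 0 168297857 0) (P.cons (P.lf 0 218702092 0) (P.cons (P.lf 11966496 0 0) (P.lf 1329608 0 0)))) (P.cons (P.cons (P.lf 90931831 0 0) (P.cons (P.lf 0 53156632 0) (P.cons (P.lf 2908516 0 0) (P.lf 323168 0 0)))) (P.cons (P.cons (P.lf 0 75523791 0) (P.cons (P.lf 0 928448 0) (P.cons (P.lf 50800 0 0) (P.lf 5644 0 0)))) (P.cons (P.cons (P.lf 0 3463352 0) (P.cons (P.lf 747960 0 0) (P.cons (P.lf 0 40924 0) P.nil))) (P.cons (P.cons (P.lf 920229 0 0) (P.cons (P.lf 55360 0 0) P.nil)) (P.cons (P.cons (P.lf 76910 0 0) P.nil) P.nil)))))) 26065)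
 EL.nil)
noncomputable def S169_198_586_660_48 : EL := (EL.cons 15 (TM.mk (P.cons (P.cons (P.lf 6594734 0 0) (P.cons (P.lf 17139638 0 0) (P.cons (P.lf 10198618 0 0) (P.cons (P.lf 0 1322882 0) (P.cons (P.lf 0 102068 0) (P.cons (P.lf 7409 0 0) P.nil)))))) (P.cons (P.cons (P.lf 0 7126309 0) (P.cons (P.lf 0 5094723 0) (P.cons (P.lf 5692292 0 0) (P.cons (P.lf 0 561439 0) (P.cons (P.lf 0 49616 0) P.nil))))) (P.cons (P.cons (P.lf 7843967 0 0) (P.cons (P.lf 5513353 0 0) (P.cons (P.lf 450778 0 0) (P.cons (P.lf 0 115860 0) P.nil)))) (P.cons (P.cons (P.lf 0 2926514 0) (P.cons (P.lf 2124219 0 0) (P.cons (P.lf 0 169420 0) P.nil))) (P.cons (P.cons (P.lf 1109261 0 0) (P.cons (P.lf 51995 0 0) P.nil)) (P.cons (P.cons (P.lf 154739 0 0) P.nil) P.nil)))))) 206323)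
 EL.nil)
noncomputable def S169_198_586_660 : SL := (SL.cons S169_198_586_660_0 (SL.cons S169_198_586_660_1 (SL.cons S169_198_586_660_2 (SL.cons S169_198_586_660_3 (SL.cons S169_198_586_660_4 (SL.cons S169_198_586_660_5 (SL.cons S169_198_586_660_6 (SL.cons S169_198_586_660_7 (SL.cons S169_198_586_660_8 (SL.cons S169_198_586_660_9 (SL.cons S169_198_586_660_10 (SL.cons S169_198_586_660_11 (SL.cons S169_198_586_660_12 (SL.cons S169_198_586_660_13 (SL.cons S169_198_586_660_14 (SL.cons S169_198_586_660_15 (SL.cons S169_198_586_660_16 (SL.cons S169_198_586_660_17 (SL.cons S169_198_586_660_18 (SL.cons S169_198_586_660_19 (SL.cons S169_198_586_660_20 (SL.cons S169_198_586_660_21 (SL.cons S169_198_586_660_22 (SL.cons S169_198_586_660_23 (SL.cons S169_198_586_660_24 (SL.cons S169_198_586_660_25 (SL.cons S169_198_586_660_26 (SL.cons S169_198_586_660_27 (SL.cons S169_198_586_660_28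 (SL.cons S169_198_586_660_29 (SL.cons S169_198_586_660_30 (SL.cons S169_198_586_660_31 (SL.cons S169_198_586_660_32 (SL.cons S169_198_586_660_33 (SL.cons S169_198_586_660_34 (SL.cons S169_198_586_660_35 (SL.cons S169_198_586_660_36 (SL.cons S169_198_586_660_37 (SL.cons S169_198_586_660_38 (SL.cons S169_198_586_660_39 (SL.cons S169_198_586_660_40 (SL.cons S169_198_586_660_41 (SL.cons S169_198_586_660_42 (SL.cons S169_198_586_660_43 (SL.cons S169_198_586_660_44 (SL.cons S169_198_586_660_45 (SL.cons S169_198_586_660_46 (SL.cons S169_198_586_660_47 (SL.cons S169_198_586_660_48 SL.nil)))))))))))))))))))))))))))))))))))))))))))))))))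
noncomputable def S169_198_660_734_0 : EL := (EL.cons 0 (TM.mk (P.cons (P.lf 6454925654 0 0) (P.cons (P.lf 654467131 0 0) (P.cons (P.lf 0 15080835 0) (P.cons (P.lf 0 7271133 0) (P.cons (P.lf 0 199596 0) (P.cons (P.lf 35412 0 0) P.nil)))))) 3454)
 (EL.cons 1 (TM.mk (P.cons (P.lf 0 1695086628 0) (P.cons (P.lf 139901857 0 0) (P.cons (P.lf 47471786 0 0) (P.cons (P.lf 293435 0 0) (P.cons (P.lf 0 328029 0) (P.cons (P.lf 0 15684 0) P.nil)))))) 1940)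
 (EL.cons 5 (TM.mk (P.cons (P.lf 5006359730 0 0) (P.cons (P.lf 0 232699422 0) (P.cons (P.lf 5362070 0 0) (P.cons (P.lf 2585292 0 0) (P.cons (P.lf 70970 0 0) (P.cons (P.lf 0 12590 0) P.nil)))))) 1169)
 (EL.cons 9 (TM.mk (P.lf 6442450944 0 0) 2)
 EL.nil))))
noncomputable def S169_198_660_734_1 : EL := (EL.cons 0 (TM.mk (P.cons (P.cons (P.lf 0 815706575 0) (P.cons (P.lf 0 16319476 0) (P.cons (P.lf 2101483 0 0) (P.lf 140100 0 0)))) (P.cons (P.cons (P.lf 801079319 0 0) (P.cons (P.lf 0 98369449 0) (P.cons (P.lf 12667140 0 0) (P.lf 844472 0 0)))) (P.cons (P.cons (P.lf 0 182469214 0) (P.cons (P.lf 0 20839056 0) (P.cons (P.lf 2683458 0 0) (P.lf 178887 0 0)))) (P.cons (P.cons (P.lf 0 60836120 0) (P.cons (P.lf 1232587 0 0) (P.cons (P.lf 0 158718 0) P.nil))) (P.cons (P.cons (P.lf 1946228 0 0) (P.cons (P.lf 619928 0 0) P.nil)) (P.cons (P.cons (P.lf 1412835 0 0) P.nil) P.nil))))))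 463589)
 (EL.cons 1 (TM.mk (P.cons (P.cons (P.lf 217390321 0 0) (P.cons (P.lf 107396146 0 0) (P.cons (P.lf 0 13829514 0) (P.lf 0 921961 0)))) (P.cons (P.cons (P.lf 173109378 0 0) (P.cons (P.lf 39456176 0 0) (P.cons (P.lf 0 5080810 0) (P.lf 0 338712 0)))) (P.cons (P.cons (P.lf 147154510 0 0) (P.cons (P.lf 0 5251761 0) (P.cons (P.lf 676273 0 0) (P.lf 45083 0 0)))) (P.cons (P.cons (P.lf 0 8420735 0) (P.cons (P.lf 0 2285738 0) (P.cons (P.lf 294326 0 0) P.nil))) (P.cons (P.cons (P.lf 0 5822789 0) (P.cons (P.lf 0 34926 0) P.nil)) (P.cons (P.cons (P.lf 0 105366 0) P.nil) P.nil)))))) 274343)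
 (EL.cons 5 (TM.mk (P.cons (P.cons (P.lf 0 640209567 0) (P.cons (P.lf 0 257494812 0) (P.cons (P.lf 33157892 0 0) (P.lf 2210522 0 0)))) (P.cons (P.cons (P.lf 0 286803640 0) (P.cons (P.lf 0 29019924 0) (P.cons (P.lf 3736934 0 0) (P.lf 249136 0 0)))) (P.cons (P.cons (P.lf 0 66247018 0) (P.cons (P.lf 6291676 0 0) (P.cons (P.lf 0 810180 0) (P.lf 0 54006 0)))) (P.cons (P.cons (P.lf 17945850 0 0) (P.cons (P.lf 462228 0 0) (P.cons (P.lf 0 59522 0) P.nil))) (P.cons (P.cons (P.lf 1035461 0 0) (P.cons (P.lf 0 153772 0) P.nil)) (P.cons (P.cons (P.lf 0 383073 0) P.nil) P.nil)))))) 217296)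
 (EL.cons 9 (TM.mk (P.cons (P.cons (P.lf 0 820798735 0) (P.cons (P.lf 0 232321134 0) (P.cons (P.lf 29916246 0 0) (P.lf 1994412 0 0)))) (P.cons (P.cons (P.lf 0 1743030 0) (P.cons (P.lf 0 56466810 0) (P.cons (P.lf 7271292 0 0) (P.lf 484752 0 0)))) (P.cons (P.cons (P.lf 0 115698490 0) (P.cons (P.lf 0 986262 0) (P.cons (P.lf 127002 0 0) (P.lf 8466 0 0)))) (P.cons (P.cons (P.lf 0 3251262 0) (P.cons (P.lf 794538 0 0) (P.cons (P.lf 0 102306 0) P.nil))) (P.cons (P.cons (P.lf 1524211 0 0) (P.cons (P.lf 58806 0 0) P.nil)) (P.cons (P.cons (P.lf 105231 0 0) P.nil) P.nil)))))) 42032)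
 (EL.cons 2 (TM.mk (P.cons (P.cons (P.lf 591149851 0 0) (P.cons (P.lf 0 168759922 0) (P.cons (P.lf 0 12622969 0) (P.cons (P.lf 850601 0 0) (P.lf 42527 0 0))))) (P.cons (P.cons (P.lf 0 895840 0) (P.cons (P.lf 255743 0 0) (P.cons (P.lf 19127 0 0) (P.cons (P.lf 0 1288 0) (P.lf 0 64 0))))) (P.cons (P.cons (P.lf 0 23552088 0) (P.cons (P.lf 6723587 0 0) (P.cons (P.lf 502911 0 0) (P.cons (P.lf 0 33887 0) P.nil)))) (P.cons (P.cons (P.lf 0 1477915 0) (P.cons (P.lf 421911 0 0) (P.cons (P.lf 31556 0 0) P.nil))) (P.cons (P.cons (P.lf 215600 0 0) (P.cons (P.lf 0 61548 0) P.nil)) (P.cons (P.cons (P.lf 24266 0 0) P.nil) P.nil)))))) 22799)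
 (EL.cons 6 (TM.mk (P.cons (P.cons (P.lf 500826975 0 0) (P.cons (P.lf 0 142974783 0) (P.cons (P.lf 0 10694283 0) (P.cons (P.lf 720636 0 0) (P.lf 36030 0 0))))) (P.cons (P.cons (P.lf 121728495 0 0) (P.cons (P.lf 0 34750731 0) (P.cons (P.lf 0 2599296 0) (P.cons (P.lf 175152 0 0) (P.lf 8754 0 0))))) (P.cons (P.cons (P.lf 2126142 0 0) (P.cons (P.lf 0 606966 0) (P.cons (P.lf 0 45399 0) (P.cons (P.lf 3057 0 0) P.nil)))) (P.cons (P.cons (P.lf 0 1712826 0) (P.cons (P.lf 488973 0 0) (P.cons (P.lf 36573 0 0) P.nil))) (P.cons (P.cons (P.lf 0 126777 0) (P.cons (P.lf 36192 0 0) P.nil)) (P.cons (P.cons (P.lf 8925 0 0) P.nil) P.nil)))))) 12957)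
 EL.nil))))))
noncomputable def S169_198_660_734_2 : EL := (EL.cons 0 (TM.mk (P.cons (P.cons (P.lf 103073624 0 0) (P.cons (P.lf 3676477 0 0) (P.cons (P.lf 0 7690374 0) (P.cons (P.lf 1827099 0 0) (P.cons (P.lf 4238 0 0) (P.cons (P.lf 0 15945 0) P.nil)))))) (P.cons (P.cons (P.lf 0 214749487 0) (P.cons (P.lf 0 38957889 0) (P.cons (P.lf 7465871 0 0) (P.cons (P.lf 0 296344 0) (P.cons (P.lf 0 1444 0) P.nil))))) (P.cons (P.cons (P.lf 46020623 0 0) (P.cons (P.lf 0 4662263 0) (P.cons (P.lf 2871443 0 0) (P.cons (P.lf 0 544872 0) P.nil)))) (P.cons (P.cons (P.lf 0 16117773 0) (P.cons (P.lf 7546385 0 0) (P.cons (P.lf 0 667670 0) P.nil))) (P.cons (P.cons (P.lf 3184103 0 0) (P.cons (P.lf 1708106 0 0) P.nil)) (P.cons (P.cons (P.lf 2134277 0 0) P.nil) P.nil)))))) 2030102)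
 (EL.cons 1 (TM.mk (P.cons (P.cons (P.lf 0 27878524 0) (P.cons (P.lf 0 27468559 0) (P.cons (P.lf 0 2004182 0) (P.cons (P.lf 1662934 0 0) (P.cons (P.lf 3252 0 0) (P.cons (P.lf 0 12247 0) P.nil)))))) (P.cons (P.cons (P.lf 0 46381560 0) (P.cons (P.lf 0 23874384 0) (P.cons (P.lf 0 764342 0) (P.cons (P.lf 1193572 0 0) (P.cons (P.lf 2244 0 0) P.nil))))) (P.cons (P.cons (P.lf 0 38421404 0) (P.cons (P.lf 0 14736435 0) (P.cons (P.lf 1550617 0 0) (P.cons (P.lf 215866 0 0) P.nil)))) (P.cons (P.cons (P.lf 0 4784820 0) (P.cons (P.lf 0 2666682 0) (P.cons (P.lf 561502 0 0) P.nil))) (P.cons (P.cons (P.lf 0 3655334 0) (P.cons (P.lf 664307 0 0) P.nil)) (P.cons (P.cons (P.lf 252031 0 0) P.nil) P.nil)))))) 1137772)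
 (EL.cons 5 (TM.mk (P.cons (P.cons (P.lf 81868387 0 0) (P.cons (P.lf 65783445 0 0) (P.cons (P.lf 3589778 0 0) (P.cons (P.lf 0 3670889 0) (P.cons (P.lf 0 7076 0) (P.cons (P.lf 26658 0 0) P.nil)))))) (P.cons (P.cons (P.lf 76858731 0 0) (P.cons (P.lf 30300882 0 0) (P.cons (P.lf 0 157209 0) (P.cons (P.lf 0 1224528 0) (P.cons (P.lf 0 2185 0) P.nil))))) (P.cons (P.cons (P.lf 17049535 0 0) (P.cons (P.lf 11434118 0 0) (P.cons (P.lf 0 1638343 0) (P.cons (P.lf 0 55427 0) P.nil)))) (P.cons (P.cons (P.lf 6740627 0 0) (P.cons (P.lf 0 347674 0) (P.cons (P.lf 0 108704 0) P.nil))) (P.cons (P.cons (P.lf 784548 0 0) (P.cons (P.lf 0 644637 0) P.nil)) (P.cons (P.cons (P.lf 0 657826 0) P.nil) P.nil)))))) 987087)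
 (EL.cons 9 (TM.mk (P.cons (P.cons (P.lf 104573641 0 0) (P.cons (P.lf 59197623 0 0) (P.cons (P.lf 754786 0 0) (P.cons (P.lf 0 2665813 0) (P.cons (P.lf 0 4920 0) (P.cons (P.lf 18522 0 0) P.nil)))))) (P.cons (P.cons (P.lf 444139 0 0) (P.cons (P.lf 14513988 0 0) (P.cons (P.lf 2203515 0 0) (P.cons (P.lf 0 1173438 0) (P.cons (P.lf 0 2391 0) P.nil))))) (P.cons (P.cons (P.lf 29481541 0 0) (P.cons (P.lf 8626266 0 0) (P.cons (P.lf 0 544761 0) (P.cons (P.lf 0 219835 0) P.nil)))) (P.cons (P.cons (P.lf 891057 0 0) (P.cons (P.lf 2060713 0 0) (P.cons (P.lf 0 305376 0) P.nil))) (P.cons (P.cons (P.lf 1691178 0 0) (P.cons (P.lf 0 32925 0) P.nil)) (P.cons (P.cons (P.lf 89137 0 0) P.nil) P.nil)))))) 281051)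
 (EL.cons 2 (TM.mk (P.cons (P.cons (P.lf 0 150630575 0) (P.cons (P.lf 366727 0 0) (P.cons (P.lf 20877890 0 0) (P.cons (P.lf 0 507650 0) (P.cons (P.lf 0 293900 0) (P.cons (P.lf 0 2981 0) P.nil)))))) (P.cons (P.cons (P.lf 0 91603 0) (P.cons (P.lf 0 10271857 0) (P.cons (P.lf 4267890 0 0) (P.cons (P.lf 0 70396 0) (P.cons (P.lf 0 68377 0) P.nil))))) (P.cons (P.cons (P.lf 0 15230863 0) (P.cons (P.lf 5881398 0 0) (P.cons (P.lf 0 309948 0) (P.cons (P.lf 0 11452 0) P.nil)))) (P.cons (P.cons (P.lf 0 175151 0) (P.cons (P.lf 715533 0 0) (P.cons (P.lf 0 271951 0) P.nil))) (P.cons (P.cons (P.lf 1072417 0 0) (P.cons (P.lf 0 278010 0) P.nil)) (P.cons (P.cons (P.lf 89437 0 0) P.nil) P.nil)))))) 262962)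
 (EL.cons 6 (TM.mk (P.cons (P.cons (P.lf 0 127615452 0) (P.cons (P.lf 310698 0 0) (P.cons (P.lf 17687916 0 0) (P.cons (P.lf 0 430080 0) (P.cons (P.lf 0 248994 0) (P.cons (P.lf 0 2526 0) P.nil)))))) (P.cons (P.cons (P.lf 0 31288572 0) (P.cons (P.lf 0 8626416 0) (P.cons (P.lf 7941732 0 0) (P.cons (P.lf 0 164826 0) (P.cons (P.lf 0 118824 0) P.nil))))) (P.cons (P.cons (P.lf 0 18596100 0) (P.cons (P.lf 2868228 0 0) (P.cons (P.lf 1408068 0 0) (P.cons (P.lf 0 43404 0) P.nil)))) (P.cons (P.cons (P.lf 0 4442388 0) (P.cons (P.lf 1440720 0 0) (P.cons (P.lf 23388 0 0) P.nil))) (P.cons (P.cons (P.lf 70974 0 0) (P.cons (P.lf 57420 0 0) P.nil)) (P.cons (P.cons (P.lf 131124 0 0) P.nil) P.nil)))))) 179250)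
 EL.nil))))))
noncomputable def S169_198_660_734_3 : EL := (EL.cons 0 (TM.mk (P.cons (P.lf 2000791209 0 0) (P.cons (P.lf 0 654467131 0) (P.cons (P.lf 15080835 0 0) (P.cons (P.lf 7271133 0 0) (P.cons (P.lf 199596 0 0) (P.cons (P.lf 0 35412 0) P.nil)))))) 3454)
 (EL.cons 1 (TM.mk (P.cons (P.lf 1695086628 0 0) (P.cons (P.lf 0 139901857 0) (P.cons (P.lf 0 47471786 0) (P.cons (P.lf 0 293435 0) (P.cons (P.lf 328029 0 0) (P.cons (P.lf 15684 0 0) P.nil)))))) 1940)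
 (EL.cons 5 (TM.mk (P.cons (P.lf 1436091214 0 0) (P.cons (P.lf 232699422 0 0) (P.cons (P.lf 0 5362070 0) (P.cons (P.lf 0 2585292 0) (P.cons (P.lf 0 70970 0) (P.cons (P.lf 12590 0 0) P.nil)))))) 1162)
 EL.nil)))
noncomputable def S169_198_660_734_4 : EL := (EL.cons 0 (TM.mk (P.cons (P.cons (P.lf 0 254910266 0) (P.cons (P.lf 0 72150503 0) (P.cons (P.lf 9290898 0 0) (P.lf 619391 0 0)))) (P.cons (P.cons (P.lf 82840886 0 0) (P.cons (P.lf 6064189 0 0) (P.cons (P.lf 0 780892 0) (P.lf 0 52057 0)))) (P.cons (P.cons (P.lf 0 37676047 0) (P.cons (P.lf 4886147 0 0) (P.cons (P.lf 0 629193 0) (P.lf 0 41944 0)))) (P.cons (P.cons (P.lf 9813243 0 0) (P.cons (P.lf 0 47438 0) (P.cons (P.lf 6110 0 0) P.nil))) (P.cons (P.cons (P.lf 505418 0 0) (P.cons (P.lf 0 135687 0) P.nil)) (P.cons (P.cons (P.lf 0 255891 0) P.nil) P.nil)))))) 81741)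
 (EL.cons 1 (TM.mk (P.cons (P.cons (P.lf 0 215962055 0) (P.cons (P.lf 0 61126494 0) (P.cons (P.lf 7871325 0 0) (P.lf 524752 0 0)))) (P.cons (P.cons (P.lf 17365545 0 0) (P.cons (P.lf 0 9812100 0) (P.cons (P.lf 1263513 0 0) (P.lf 84232 0 0)))) (P.cons (P.cons (P.lf 0 24355687 0) (P.cons (P.lf 2678593 0 0) (P.cons (P.lf 0 344923 0) (P.lf 0 22993 0)))) (P.cons (P.cons (P.lf 1707247 0 0) (P.cons (P.lf 657131 0 0) (P.cons (P.lf 0 84616 0) P.nil))) (P.cons (P.cons (P.lf 1282462 0 0) (P.cons (P.lf 0 3768 0) P.nil)) (P.cons (P.cons (P.lf 21727 0 0) P.nil) P.nil)))))) 64622)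
 (EL.cons 5 (TM.mk (P.cons (P.cons (P.lf 0 182964814 0) (P.cons (P.lf 0 51786864 0) (P.cons (P.lf 6668650 0 0) (P.lf 444574 0 0)))) (P.cons (P.cons (P.lf 0 30035546 0) (P.cons (P.lf 0 20978424 0) (P.cons (P.lf 2701414 0 0) (P.lf 180092 0 0)))) (P.cons (P.cons (P.lf 0 25170234 0) (P.cons (P.lf 0 2066050 0) (P.cons (P.lf 266046 0 0) (P.lf 17736 0 0)))) (P.cons (P.cons (P.lf 0 4572906 0) (P.cons (P.lf 281712 0 0) (P.cons (P.lf 0 36274 0) P.nil))) (P.cons (P.cons (P.lf 328364 0 0) (P.cons (P.lf 67846 0 0) P.nil)) (P.cons (P.cons (P.lf 126060 0 0) P.nil) P.nil)))))) 43660)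
 EL.nil)))
noncomputable def S169_198_660_734_5 : EL := (EL.cons 0 (TM.mk (P.cons (P.cons (P.lf 32476772 0 0) (P.cons (P.lf 18384630 0 0) (P.cons (P.lf 234407 0 0) (P.cons (P.lf 0 827903 0) (P.cons (P.lf 0 1527 0) (P.cons (P.lf 5751 0 0) P.nil)))))) (P.cons (P.cons (P.lf 0 10485353 0) (P.cons (P.lf 0 1506171 0) (P.cons (P.lf 607654 0 0) (P.cons (P.lf 0 93615 0) (P.cons (P.lf 0 242 0) P.nil))))) (P.cons (P.cons (P.lf 9355568 0 0) (P.cons (P.lf 1343149 0 0) (P.cons (P.lf 0 391262 0) (P.cons (P.lf 44692 0 0) P.nil)))) (P.cons (P.cons (P.lf 0 2599136 0) (P.cons (P.lf 0 135543 0) (P.cons (P.lf 0 33488 0) P.nil))) (P.cons (P.cons (P.lf 507450 0 0) (P.cons (P.lf 0 181158 0) P.nil)) (P.cons (P.cons (P.lf 0 109318 0) P.nil) P.nil)))))) 225132)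
 (EL.cons 1 (TM.mk (P.cons (P.cons (P.lf 27514586 0 0) (P.cons (P.lf 15575608 0 0) (P.cons (P.lf 198592 0 0) (P.cons (P.lf 0 701407 0) (P.cons (P.lf 0 1293 0) (P.cons (P.lf 4871 0 0) P.nil)))))) (P.cons (P.cons (P.lf 0 2154022 0) (P.cons (P.lf 2533290 0 0) (P.cons (P.lf 563379 0 0) (P.cons (P.lf 0 250854 0) (P.cons (P.lf 0 521 0) P.nil))))) (P.cons (P.cons (P.lf 6976741 0 0) (P.cons (P.lf 1518290 0 0) (P.cons (P.lf 0 196743 0) (P.cons (P.lf 0 12714 0) P.nil)))) (P.cons (P.cons (P.lf 0 413797 0) (P.cons (P.lf 245229 0 0) (P.cons (P.lf 0 84789 0) P.nil))) (P.cons (P.cons (P.lf 213684 0 0) (P.cons (P.lf 0 114622 0) P.nil)) (P.cons (P.cons (P.lf 0 20902 0) P.nil) P.nil)))))) 172207)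
 (EL.cons 5 (TM.mk (P.cons (P.cons (P.lf 23310582 0 0) (P.cons (P.lf 13195782 0 0) (P.cons (P.lf 168248 0 0) (P.cons (P.lf 0 594236 0) (P.cons (P.lf 0 1096 0) (P.cons (P.lf 4128 0 0) P.nil)))))) (P.cons (P.cons (P.lf 3876172 0 0) (P.cons (P.lf 5373522 0 0) (P.cons (P.lf 518448 0 0) (P.cons (P.lf 0 357858 0) (P.cons (P.lf 0 710 0) P.nil))))) (P.cons (P.cons (P.lf 6500754 0 0) (P.cons (P.lf 2397856 0 0) (P.cons (P.lf 0 42470 0) (P.cons (P.lf 0 89168 0) P.nil)))) (P.cons (P.cons (P.lf 1221154 0 0) (P.cons (P.lf 735096 0 0) (P.cons (P.lf 0 89884 0) P.nil))) (P.cons (P.cons (P.lf 383298 0 0) (P.cons (P.lf 53436 0 0) P.nil)) (P.cons (P.cons (P.lf 68580 0 0) P.nil) P.nil)))))) 125656)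
 EL.nil)))
noncomputable def S169_198_660_734_6 : EL := (EL.cons 12 (TM.mk (P.lf 8589934592 0 0) 0)
 (EL.cons 3 (TM.mk (P.cons (P.lf 0 2072840178 0) (P.cons (P.lf 339017325 0 0) (P.cons (P.lf 19911543 0 0) (P.cons (P.lf 0 509910 0) (P.cons (P.lf 0 91155 0) (P.cons (P.lf 0 1462 0) P.nil)))))) 487)
 (EL.cons 7 (TM.mk (P.cons (P.lf 0 1756127103 0) (P.cons (P.lf 0 142278485 0) (P.cons (P.lf 9042093 0 0) (P.cons (P.lf 848140 0 0) (P.cons (P.lf 0 2043 0) (P.cons (P.lf 0 3166 0) P.nil)))))) 195)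
 EL.nil)))
noncomputable def S169_198_660_734_7 : EL := (EL.cons 12 (TM.mk (P.cons (P.cons (P.lf 0 1094398314 0) (P.cons (P.lf 0 309761512 0) (P.cons (P.lf 39888328 0 0) (P.lf 2659216 0 0)))) (P.cons (P.cons (P.lf 0 2324040 0) (P.cons (P.lf 0 75289080 0) (P.cons (P.lf 9695056 0 0) (P.lf 646336 0 0)))) (P.cons (P.cons (P.lf 0 154264654 0) (P.cons (P.lf 0 1315016 0) (P.cons (P.lf 169336 0 0) (P.lf 11288 0 0)))) (P.cons (P.cons (P.lf 0 4335016 0) (P.cons (P.lf 1059384 0 0) (P.cons (P.lf 0 136408 0) P.nil))) (P.cons (P.cons (P.lf 2032282 0 0) (P.cons (P.lf 78408 0 0) P.nil)) (P.cons (P.cons (P.lf 140308 0 0) P.nil) P.nil)))))) 56018)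
 (EL.cons 3 (TM.mk (P.cons (P.cons (P.lf 257167542 0 0) (P.cons (P.lf 0 149497320 0) (P.cons (P.lf 19250932 0 0) (P.lf 1283392 0 0)))) (P.cons (P.cons (P.lf 0 961884215 0) (P.cons (P.lf 0 11885470 0) (P.cons (P.lf 1530504 0 0) (P.lf 102030 0 0)))) (P.cons (P.cons (P.lf 0 45064890 0) (P.cons (P.lf 6744244 0 0) (P.cons (P.lf 0 868462 0) (P.lf 0 57896 0)))) (P.cons (P.cons (P.lf 21599156 0 0) (P.cons (P.lf 927344 0 0) (P.cons (P.lf 0 119408 0) P.nil))) (P.cons (P.cons (P.lf 2334024 0 0) (P.cons (P.lf 0 55194 0) P.nil)) (P.cons (P.cons (P.lf 0 147996 0) P.nil) P.nil)))))) 184989)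
 (EL.cons 7 (TM.mk (P.cons (P.cons (P.lf 226643970 0 0) (P.cons (P.lf 157439034 0 0) (P.cons (P.lf 0 20273603 0) (P.lf 0 1351574 0)))) (P.cons (P.cons (P.lf 403682706 0 0) (P.cons (P.lf 4988086 0 0) (P.cons (P.lf 0 642323 0) (P.lf 0 42823 0)))) (P.cons (P.cons (P.lf 0 30451627 0) (P.cons (P.lf 0 3440385 0) (P.cons (P.lf 443021 0 0) (P.lf 29533 0 0)))) (P.cons (P.cons (P.lf 0 10081845 0) (P.cons (P.lf 97838 0 0) (P.cons (P.lf 0 12596 0) P.nil))) (P.cons (P.cons (P.lf 649308 0 0) (P.cons (P.lf 70605 0 0) P.nil)) (P.cons (P.cons (P.lf 168719 0 0) P.nil) P.nil)))))) 114989)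
 (EL.cons 10 (TM.mk (P.cons (P.cons (P.lf 0 1224874602 0) (P.cons (P.lf 349674018 0 0) (P.cons (P.lf 26155053 0 0) (P.cons (P.lf 0 1762467 0) (P.lf 0 88122 0))))) (P.cons (P.cons (P.lf 0 198474588 0) (P.cons (P.lf 56660007 0 0) (P.cons (P.lf 4238076 0 0) (P.cons (P.lf 0 285582 0) (P.lf 0 14277 0))))) (P.cons (P.cons (P.lf 4573428 0 0) (P.cons (P.lf 0 1305609 0) (P.cons (P.lf 0 97656 0) (P.cons (P.lf 6579 0 0) P.nil)))) (P.cons (P.cons (P.lf 2205051 0 0) (P.cons (P.lf 0 629493 0) (P.cons (P.lf 0 47085 0) P.nil))) (P.cons (P.cons (P.lf 60531 0 0) (P.cons (P.lf 0 17280 0) P.nil)) (P.cons (P.cons (P.lf 0 10737 0) P.nil) P.nil)))))) 9759)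
 EL.nil))))
noncomputable def S169_198_660_734_8 : EL := (EL.cons 12 (TM.mk (P.cons (P.cons (P.lf 139431522 0 0) (P.cons (P.lf 78930164 0 0) (P.cons (P.lf 1006382 0 0) (P.cons (P.lf 0 3554418 0) (P.cons (P.lf 0 6560 0) (P.cons (P.lf 24696 0 0) P.nil)))))) (P.cons (P.cons (P.lf 592186 0 0) (P.cons (P.lf 19351984 0 0) (P.cons (P.lf 2938020 0 0) (P.cons (P.lf 0 1564584 0) (P.cons (P.lf 0 3188 0) P.nil))))) (P.cons (P.cons (P.lf 39308722 0 0) (P.cons (P.lf 11501688 0 0) (P.cons (P.lf 0 726348 0) (P.cons (P.lf 0 293114 0) P.nil)))) (P.cons (P.cons (P.lf 1188076 0 0) (P.cons (P.lf 2747618 0 0) (P.cons (P.lf 0 407168 0) P.nil))) (P.cons (P.cons (P.lf 2254904 0 0) (P.cons (P.lf 0 43900 0) P.nil)) (P.cons (P.cons (P.lf 118850 0 0) P.nil) P.nil)))))) 374706)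
 (EL.cons 3 (TM.mk (P.cons (P.cons (P.lf 0 31882455 0) (P.cons (P.lf 38592563 0 0) (P.cons (P.lf 8507940 0 0) (P.cons (P.lf 0 3802345 0) (P.cons (P.lf 0 7916 0) (P.cons (P.lf 29796 0 0) P.nil)))))) (P.cons (P.cons (P.lf 239598024 0 0) (P.cons (P.lf 69529077 0 0) (P.cons (P.lf 0 4606041 0) (P.cons (P.lf 0 1716494 0) (P.cons (P.lf 0 2550 0) P.nil))))) (P.cons (P.cons (P.lf 11905645 0 0) (P.cons (P.lf 25519144 0 0) (P.cons (P.lf 0 3576486 0) (P.cons (P.lf 0 144296 0) P.nil)))) (P.cons (P.cons (P.lf 27551872 0 0) (P.cons (P.lf 96898 0 0) (P.cons (P.lf 0 285403 0) P.nil))) (P.cons (P.cons (P.lf 2512376 0 0) (P.cons (P.lf 0 1196843 0) P.nil)) (P.cons (P.cons (P.lf 0 1201300 0) P.nil) P.nil)))))) 1167808)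
 (EL.cons 7 (TM.mk (P.cons (P.cons (P.lf 0 29245632 0) (P.cons (P.lf 0 40326474 0) (P.cons (P.lf 0 3878266 0) (P.cons (P.lf 2682395 0 0) (P.cons (P.lf 5325 0 0) (P.cons (P.lf 0 20054 0) P.nil)))))) (P.cons (P.cons (P.lf 0 100554286 0) (P.cons (P.lf 0 29179901 0) (P.cons (P.lf 1933060 0 0) (P.cons (P.lf 720376 0 0) (P.cons (P.lf 1066 0 0) P.nil))))) (P.cons (P.cons (P.lf 7299746 0 0) (P.cons (P.lf 0 7141577 0) (P.cons (P.lf 1264590 0 0) (P.cons (P.lf 0 27529 0) P.nil)))) (P.cons (P.cons (P.lf 0 11263029 0) (P.cons (P.lf 1556162 0 0) (P.cons (P.lf 0 115052 0) P.nil))) (P.cons (P.cons (P.lf 1072816 0 0) (P.cons (P.lf 440455 0 0) P.nil)) (P.cons (P.cons (P.lf 604490 0 0) P.nil) P.nil)))))) 609143)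
 (EL.cons 10 (TM.mk (P.cons (P.cons (P.lf 312109638 0 0) (P.cons (P.lf 0 759876 0) (P.cons (P.lf 0 43259418 0) (P.cons (P.lf 1051860 0 0) (P.cons (P.lf 608970 0 0) (P.cons (P.lf 6180 0 0) P.nil)))))) (P.cons (P.cons (P.lf 51235992 0 0) (P.cons (P.lf 21159228 0 0) (P.cons (P.lf 0 15918324 0) (P.cons (P.lf 317898 0 0) (P.cons (P.lf 241278 0 0) P.nil))))) (P.cons (P.cons (P.lf 42936522 0 0) (P.cons (P.lf 0 8733042 0) (P.cons (P.lf 0 2376792 0) (P.cons (P.lf 85824 0 0) P.nil)))) (P.cons (P.cons (P.lf 7800672 0 0) (P.cons (P.lf 0 2707470 0) (P.cons (P.lf 32496 0 0) P.nil))) (P.cons (P.cons (P.lf 0 560136 0) (P.cons (P.lf 44166 0 0) P.nil)) (P.cons (P.cons (P.lf 0 215040 0) P.nil) P.nil)))))) 303822)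
 EL.nil))))
noncomputable def S169_198_660_734_9 : EL := (EL.cons 3 (TM.mk (P.cons (P.lf 0 2072840178 0) (P.cons (P.lf 339017325 0 0) (P.cons (P.lf 19911543 0 0) (P.cons (P.lf 0 509910 0) (P.cons (P.lf 0 91155 0) (P.cons (P.lf 0 1462 0) P.nil)))))) 487)
 (EL.cons 7 (TM.mk (P.cons (P.lf 0 1756127103 0) (P.cons (P.lf 0 142278485 0) (P.cons (P.lf 9042093 0 0) (P.cons (P.lf 848140 0 0) (P.cons (P.lf 0 2043 0) (P.cons (P.lf 0 3166 0) P.nil)))))) 195)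
 EL.nil))
noncomputable def S169_198_660_734_10 : EL := (EL.cons 3 (TM.mk (P.cons (P.cons (P.lf 264089646 0 0) (P.cons (P.lf 74748660 0 0) (P.cons (P.lf 0 9625466 0) (P.lf 0 641696 0)))) (P.cons (P.cons (P.lf 0 42631595 0) (P.cons (P.lf 5942735 0 0) (P.cons (P.lf 0 765252 0) (P.lf 0 51015 0)))) (P.cons (P.cons (P.lf 34597110 0 0) (P.cons (P.lf 0 3372122 0) (P.cons (P.lf 434231 0 0) (P.lf 28948 0 0)))) (P.cons (P.cons (P.lf 0 4982671 0) (P.cons (P.lf 0 463672 0) (P.cons (P.lf 59704 0 0) P.nil))) (P.cons (P.cons (P.lf 0 1007334 0) (P.cons (P.lf 27597 0 0) P.nil)) (P.cons (P.cons (P.lf 45669 0 0) P.nil) P.nil)))))) 44882)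
 (EL.cons 7 (TM.mk (P.cons (P.cons (P.lf 223738902 0 0) (P.cons (P.lf 63327675 0 0) (P.cons (P.lf 0 8154773 0) (P.lf 0 543650 0)))) (P.cons (P.cons (P.lf 18602079 0 0) (P.cons (P.lf 20522809 0 0) (P.cons (P.lf 0 2642744 0) (P.lf 0 176182 0)))) (P.cons (P.cons (P.lf 30424370 0 0) (P.cons (P.lf 1189818 0 0) (P.cons (P.lf 0 153214 0) (P.lf 0 10214 0)))) (P.cons (P.cons (P.lf 3330894 0 0) (P.cons (P.lf 0 304636 0) (P.cons (P.lf 39226 0 0) P.nil))) (P.cons (P.cons (P.lf 0 506031 0) (P.cons (P.lf 0 42321 0) P.nil)) (P.cons (P.cons (P.lf 0 81736 0) P.nil) P.nil)))))) 25561)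
 EL.nil))
noncomputable def S169_198_660_734_11 : EL := (EL.cons 3 (TM.mk (P.cons (P.cons (P.lf 0 33646269 0) (P.cons (P.lf 0 19046665 0) (P.cons (P.lf 0 242850 0) (P.cons (P.lf 857717 0 0) (P.cons (P.lf 1582 0 0) (P.cons (P.lf 0 5958 0) P.nil)))))) (P.cons (P.cons (P.lf 5360016 0 0) (P.cons (P.lf 0 1554711 0) (P.cons (P.lf 0 669255 0) (P.cons (P.lf 237268 0 0) (P.cons (P.lf 510 0 0) P.nil))))) (P.cons (P.cons (P.lf 0 9139025 0) (P.cons (P.lf 0 1828754 0) (P.cons (P.lf 293562 0 0) (P.cons (P.lf 742 0 0) P.nil)))) (P.cons (P.cons (P.lf 1257790 0 0) (P.cons (P.lf 0 168920 0) (P.cons (P.lf 76337 0 0) P.nil))) (P.cons (P.cons (P.lf 0 407638 0) (P.cons (P.lf 143707 0 0) P.nil)) (P.cons (P.cons (P.lf 60704 0 0) P.nil) P.nil)))))) 162888)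
 (EL.cons 7 (TM.mk (P.cons (P.cons (P.lf 0 28505394 0) (P.cons (P.lf 0 16136490 0) (P.cons (P.lf 0 205744 0) (P.cons (P.lf 726665 0 0) (P.cons (P.lf 1341 0 0) (P.cons (P.lf 0 5048 0) P.nil)))))) (P.cons (P.cons (P.lf 0 2430526 0) (P.cons (P.lf 0 5263673 0) (P.cons (P.lf 0 617318 0) (P.cons (P.lf 378736 0 0) (P.cons (P.lf 760 0 0) P.nil))))) (P.cons (P.cons (P.lf 0 7899316 0) (P.cons (P.lf 0 2588855 0) (P.cons (P.lf 100890 0 0) (P.cons (P.lf 82097 0 0) P.nil)))) (P.cons (P.cons (P.lf 0 879585 0) (P.cons (P.lf 0 724066 0) (P.cons (P.lf 98464 0 0) P.nil))) (P.cons (P.cons (P.lf 0 439268 0) (P.cons (P.lf 0 22535 0) P.nil)) (P.cons (P.cons (P.lf 0 56566 0) P.nil) P.nil)))))) 109435)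
 EL.nil))
noncomputable def S169_198_660_734_12 : EL := (EL.cons 4 (TM.mk (P.cons (P.lf 2072840178 0 0) (P.cons (P.lf 0 339017325 0) (P.cons (P.lf 0 19911543 0) (P.cons (P.lf 509910 0 0) (P.cons (P.lf 91155 0 0) (P.cons (P.lf 1462 0 0) P.nil)))))) 487)
 (EL.cons 8 (TM.mk (P.cons (P.lf 1756127103 0 0) (P.cons (P.lf 142278485 0 0) (P.cons (P.lf 0 9042093 0) (P.cons (P.lf 0 848140 0) (P.cons (P.lf 2043 0 0) (P.cons (P.lf 3166 0 0) P.nil)))))) 195)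
 EL.nil))
noncomputable def S169_198_660_734_13 : EL := (EL.cons 4 (TM.mk (P.cons (P.cons (P.lf 0 264089646 0) (P.cons (P.lf 0 74748660 0) (P.cons (P.lf 9625466 0 0) (P.lf 641696 0 0)))) (P.cons (P.cons (P.lf 42631595 0 0) (P.cons (P.lf 0 5942735 0) (P.cons (P.lf 765252 0 0) (P.lf 51015 0 0)))) (P.cons (P.cons (P.lf 0 34597110 0) (P.cons (P.lf 3372122 0 0) (P.cons (P.lf 0 434231 0) (P.lf 0 28948 0)))) (P.cons (P.cons (P.lf 4982671 0 0) (P.cons (P.lf 463672 0 0) (P.cons (P.lf 0 59704 0) P.nil))) (P.cons (P.cons (P.lf 1007334 0 0) (P.cons (P.lf 0 27597 0) P.nil)) (P.cons (P.cons (P.lf 0 45669 0) P.nil) P.nil)))))) 44882)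
 (EL.cons 8 (TM.mk (P.cons (P.cons (P.lf 0 223738902 0) (P.cons (P.lf 0 63327675 0) (P.cons (P.lf 8154773 0 0) (P.lf 543650 0 0)))) (P.cons (P.cons (P.lf 0 18602079 0) (P.cons (P.lf 0 20522809 0) (P.cons (P.lf 2642744 0 0) (P.lf 176182 0 0)))) (P.cons (P.cons (P.lf 0 30424370 0) (P.cons (P.lf 0 1189818 0) (P.cons (P.lf 153214 0 0) (P.lf 10214 0 0)))) (P.cons (P.cons (P.lf 0 3330894 0) (P.cons (P.lf 304636 0 0) (P.cons (P.lf 0 39226 0) P.nil))) (P.cons (P.cons (P.lf 506031 0 0) (P.cons (P.lf 42321 0 0) P.nil)) (P.cons (P.cons (P.lf 81736 0 0) P.nil) P.nil)))))) 25561)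
 EL.nil))
noncomputable def S169_198_660_734_14 : EL := (EL.cons 4 (TM.mk (P.cons (P.cons (P.lf 33646269 0 0) (P.cons (P.lf 19046665 0 0) (P.cons (P.lf 242850 0 0) (P.cons (P.lf 0 857717 0) (P.cons (P.lf 0 1582 0) (P.cons (P.lf 5958 0 0) P.nil)))))) (P.cons (P.cons (P.lf 0 5360016 0) (P.cons (P.lf 1554711 0 0) (P.cons (P.lf 669255 0 0) (P.cons (P.lf 0 237268 0) (P.cons (P.lf 0 510 0) P.nil))))) (P.cons (P.cons (P.lf 9139025 0 0) (P.cons (P.lf 1828754 0 0) (P.cons (P.lf 0 293562 0) (P.cons (P.lf 0 742 0) P.nil)))) (P.cons (P.cons (P.lf 0 1257790 0) (P.cons (P.lf 168920 0 0) (P.cons (P.lf 0 76337 0) P.nil))) (P.cons (P.cons (P.lf 407638 0 0) (P.cons (P.lf 0 143707 0) P.nil)) (P.cons (P.cons (P.lf 0 60704 0) P.nil) P.nil)))))) 162888)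
 (EL.cons 8 (TM.mk (P.cons (P.cons (P.lf 28505394 0 0) (P.cons (P.lf 16136490 0 0) (P.cons (P.lf 205744 0 0) (P.cons (P.lf 0 726665 0) (P.cons (P.lf 0 1341 0) (P.cons (P.lf 5048 0 0) P.nil)))))) (P.cons (P.cons (P.lf 2430526 0 0) (P.cons (P.lf 5263673 0 0) (P.cons (P.lf 617318 0 0) (P.cons (P.lf 0 378736 0) (P.cons (P.lf 0 760 0) P.nil))))) (P.cons (P.cons (P.lf 7899316 0 0) (P.cons (P.lf 2588855 0 0) (P.cons (P.lf 0 100890 0) (P.cons (P.lf 0 82097 0) P.nil)))) (P.cons (P.cons (P.lf 879585 0 0) (P.cons (P.lf 724066 0 0) (P.cons (P.lf 0 98464 0) P.nil))) (P.cons (P.cons (P.lf 439268 0 0) (P.cons (P.lf 22535 0 0) P.nil)) (P.cons (P.cons (P.lf 56566 0 0) P.nil) P.nil)))))) 109435)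
 EL.nil))
noncomputable def S169_198_660_734_15 : EL := (EL.cons 4 (TM.mk (P.cons (P.lf 0 1067088645 0) (P.cons (P.lf 349049136 0 0) (P.cons (P.lf 0 8043112 0) (P.cons (P.lf 0 3877937 0) (P.cons (P.lf 0 106451 0) (P.cons (P.lf 18886 0 0) P.nil)))))) 1845)
 (EL.cons 8 (TM.mk (P.cons (P.lf 0 904046202 0) (P.cons (P.lf 74614324 0 0) (P.cons (P.lf 25318286 0 0) (P.cons (P.lf 156499 0 0) (P.cons (P.lf 0 174949 0) (P.cons (P.lf 0 8365 0) P.nil)))))) 1031)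
 EL.nil))
noncomputable def S169_198_660_734_16 : EL := (EL.cons 4 (TM.mk (P.cons (P.cons (P.lf 135952141 0 0) (P.cons (P.lf 38480268 0 0) (P.cons (P.lf 0 4955145 0) (P.lf 0 330342 0)))) (P.cons (P.cons (P.lf 0 44181806 0) (P.cons (P.lf 0 3234234 0) (P.cons (P.lf 416475 0 0) (P.lf 27764 0 0)))) (P.cons (P.cons (P.lf 20093892 0 0) (P.cons (P.lf 0 2605945 0) (P.cons (P.lf 335569 0 0) (P.lf 22370 0 0)))) (P.cons (P.cons (P.lf 0 5233729 0) (P.cons (P.lf 25300 0 0) (P.cons (P.lf 0 3258 0) P.nil))) (P.cons (P.cons (P.lf 0 269556 0) (P.cons (P.lf 72366 0 0) P.nil)) (P.cons (P.cons (P.lf 136475 0 0) P.nil) P.nil)))))) 43604)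
 (EL.cons 8 (TM.mk (P.cons (P.cons (P.lf 115179763 0 0) (P.cons (P.lf 32600797 0 0) (P.cons (P.lf 0 4198040 0) (P.lf 0 279868 0)))) (P.cons (P.cons (P.lf 0 9261624 0) (P.cons (P.lf 5233120 0 0) (P.cons (P.lf 0 673874 0) (P.lf 0 44924 0)))) (P.cons (P.cons (P.lf 12989700 0 0) (P.cons (P.lf 0 1428583 0) (P.cons (P.lf 183959 0 0) (P.lf 12263 0 0)))) (P.cons (P.cons (P.lf 0 910532 0) (P.cons (P.lf 0 350470 0) (P.cons (P.lf 45129 0 0) P.nil))) (P.cons (P.cons (P.lf 0 683980 0) (P.cons (P.lf 2010 0 0) P.nil)) (P.cons (P.cons (P.lf 0 11588 0) P.nil) P.nil)))))) 34455)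
 EL.nil))
noncomputable def S169_198_660_734_17 : EL := (EL.cons 4 (TM.mk (P.cons (P.cons (P.lf 0 17320945 0) (P.cons (P.lf 0 9805136 0) (P.cons (P.lf 0 125017 0) (P.cons (P.lf 441548 0 0) (P.cons (P.lf 814 0 0) (P.cons (P.lf 0 3067 0) P.nil)))))) (P.cons (P.cons (P.lf 5592188 0 0) (P.cons (P.lf 803291 0 0) (P.cons (P.lf 0 324082 0) (P.cons (P.lf 49928 0 0) (P.cons (P.lf 129 0 0) P.nil))))) (P.cons (P.cons (P.lf 0 4989636 0) (P.cons (P.lf 0 716346 0) (P.cons (P.lf 208673 0 0) (P.cons (P.lf 0 23835 0) P.nil)))) (P.cons (P.cons (P.lf 1386206 0 0) (P.cons (P.lf 72289 0 0) (P.cons (P.lf 17860 0 0) P.nil))) (P.cons (P.cons (P.lf 0 270640 0) (P.cons (P.lf 96617 0 0) P.nil)) (P.cons (P.cons (P.lf 58303 0 0) P.nil) P.nil)))))) 120081)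
 (EL.cons 8 (TM.mk (P.cons (P.cons (P.lf 0 14674446 0) (P.cons (P.lf 0 8306991 0) (P.cons (P.lf 0 105916 0) (P.cons (P.lf 374084 0 0) (P.cons (P.lf 690 0 0) (P.cons (P.lf 0 2598 0) P.nil)))))) (P.cons (P.cons (P.lf 1148812 0 0) (P.cons (P.lf 0 1351088 0) (P.cons (P.lf 0 300469 0) (P.cons (P.lf 133789 0 0) (P.cons (P.lf 278 0 0) P.nil))))) (P.cons (P.cons (P.lf 0 3720929 0) (P.cons (P.lf 0 809755 0) (P.cons (P.lf 104930 0 0) (P.cons (P.lf 6781 0 0) P.nil)))) (P.cons (P.cons (P.lf 220692 0 0) (P.cons (P.lf 0 130789 0) (P.cons (P.lf 45221 0 0) P.nil))) (P.cons (P.cons (P.lf 0 113965 0) (P.cons (P.lf 61132 0 0) P.nil)) (P.cons (P.cons (P.lf 11148 0 0) P.nil) P.nil)))))) 91832)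
 EL.nil))
noncomputable def S169_198_660_734_18 : EL := (EL.cons 4 (TM.mk (P.cons (P.lf 549332354 0 0) (P.cons (P.lf 0 269533349 0) (P.cons (P.lf 28252205 0 0) (P.cons (P.lf 3180359 0 0) (P.cons (P.lf 0 331524 0) (P.cons (P.lf 0 44357 0) P.nil)))))) 4415)
 (EL.cons 8 (TM.mk (P.cons (P.lf 465398850 0 0) (P.cons (P.lf 0 114528063 0) (P.cons (P.lf 0 11222106 0) (P.cons (P.lf 2534590 0 0) (P.cons (P.lf 239457 0 0) (P.cons (P.lf 0 14216 0) P.nil)))))) 3029)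
 EL.nil))
noncomputable def S169_198_660_734_19 : EL := (EL.cons 4 (TM.mk (P.cons (P.cons (P.lf 0 69987540 0) (P.cons (P.lf 0 19809465 0) (P.cons (P.lf 2550885 0 0) (P.lf 170057 0 0)))) (P.cons (P.cons (P.lf 34191199 0 0) (P.cons (P.lf 4904848 0 0) (P.cons (P.lf 0 631602 0) (P.lf 0 42105 0)))) (P.cons (P.cons (P.lf 0 13391874 0) (P.cons (P.lf 1259507 0 0) (P.cons (P.lf 0 162187 0) (P.lf 0 10812 0)))) (P.cons (P.cons (P.lf 4150423 0 0) (P.cons (P.lf 0 253300 0) (P.cons (P.lf 32618 0 0) P.nil))) (P.cons (P.cons (P.lf 0 200008 0) (P.cons (P.lf 0 48471 0) P.nil)) (P.cons (P.cons (P.lf 0 120427 0) P.nil) P.nil)))))) 54634)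
 (EL.cons 8 (TM.mk (P.cons (P.cons (P.lf 0 59294015 0) (P.cons (P.lf 0 16782741 0) (P.cons (P.lf 2161131 0 0) (P.lf 144075 0 0)))) (P.cons (P.cons (P.lf 14465501 0 0) (P.cons (P.lf 50865 0 0) (P.cons (P.lf 0 6550 0) (P.lf 0 436 0)))) (P.cons (P.cons (P.lf 0 6897254 0) (P.cons (P.lf 1337248 0 0) (P.cons (P.lf 0 172198 0) (P.lf 0 11479 0)))) (P.cons (P.cons (P.lf 1502031 0 0) (P.cons (P.lf 81889 0 0) (P.cons (P.lf 0 10544 0) P.nil))) (P.cons (P.cons (P.lf 338247 0 0) (P.cons (P.lf 0 39008 0) P.nil)) (P.cons (P.cons (P.lf 0 57602 0) P.nil) P.nil)))))) 33088)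
 EL.nil))
noncomputable def S169_198_660_734_20 : EL := (EL.cons 4 (TM.mk (P.cons (P.cons (P.lf 8916743 0 0) (P.cons (P.lf 5047638 0 0) (P.cons (P.lf 64358 0 0) (P.cons (P.lf 0 227307 0) (P.cons (P.lf 0 419 0) (P.cons (P.lf 1578 0 0) P.nil)))))) (P.cons (P.cons (P.lf 0 4337185 0) (P.cons (P.lf 0 1239082 0) (P.cons (P.lf 156310 0 0) (P.cons (P.lf 11473 0 0) (P.cons (P.lf 1 0 0) P.nil))))) (P.cons (P.cons (P.lf 2953827 0 0) (P.cons (P.lf 387917 0 0) (P.cons (P.lf 0 135329 0) (P.cons (P.lf 18657 0 0) P.nil)))) (P.cons (P.cons (P.lf 0 1103871 0) (P.cons (P.lf 0 92313 0) (P.cons (P.lf 6787 0 0) P.nil))) (P.cons (P.cons (P.lf 231046 0 0) (P.cons (P.lf 0 47073 0) P.nil)) (P.cons (P.cons (P.lf 0 45434 0) P.nil) P.nil)))))) 106555)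
 (EL.cons 8 (TM.mk (P.cons (P.cons (P.lf 7554337 0 0) (P.cons (P.lf 4276401 0 0) (P.cons (P.lf 54524 0 0) (P.cons (P.lf 0 192576 0) (P.cons (P.lf 0 355 0) (P.cons (P.lf 1337 0 0) P.nil)))))) (P.cons (P.cons (P.lf 0 1826930 0) (P.cons (P.lf 0 3879 0) (P.cons (P.lf 145762 0 0) (P.cons (P.lf 0 37377 0) (P.cons (P.lf 0 85 0) P.nil))))) (P.cons (P.cons (P.lf 1939676 0 0) (P.cons (P.lf 262023 0 0) (P.cons (P.lf 0 79839 0) (P.cons (P.lf 9623 0 0) P.nil)))) (P.cons (P.cons (P.lf 0 419358 0) (P.cons (P.lf 0 6477 0) (P.cons (P.lf 0 15917 0) P.nil))) (P.cons (P.cons (P.lf 59036 0 0) (P.cons (P.lf 0 46127 0) P.nil)) (P.cons (P.cons (P.lf 0 13792 0) P.nil) P.nil)))))) 66583)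
 EL.nil))
noncomputable def S169_198_660_734_21 : EL := (EL.cons 4 (TM.mk (P.cons (P.cons (P.lf 6922104 0 0) (P.cons (P.lf 224245980 0 0) (P.cons (P.lf 0 28876398 0) (P.lf 0 1925088 0)))) (P.cons (P.cons (P.lf 919252620 0 0) (P.cons (P.lf 17828205 0 0) (P.cons (P.lf 0 2295756 0) (P.lf 0 153045 0)))) (P.cons (P.cons (P.lf 79662000 0 0) (P.cons (P.lf 0 10116366 0) (P.cons (P.lf 1302693 0 0) (P.lf 86844 0 0)))) (P.cons (P.cons (P.lf 0 26581827 0) (P.cons (P.lf 0 1391016 0) (P.cons (P.lf 179112 0 0) P.nil))) (P.cons (P.cons (P.lf 0 3341358 0) (P.cons (P.lf 82791 0 0) P.nil)) (P.cons (P.cons (P.lf 193665 0 0) P.nil) P.nil)))))) 140088)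
 (EL.cons 8 (TM.mk (P.cons (P.cons (P.lf 0 2905068 0) (P.cons (P.lf 0 94111359 0) (P.cons (P.lf 12118830 0 0) (P.lf 807924 0 0)))) (P.cons (P.cons (P.lf 0 385080627 0) (P.cons (P.lf 15534723 0 0) (P.cons (P.lf 0 2000421 0) (P.lf 0 133359 0)))) (P.cons (P.cons (P.lf 60875997 0 0) (P.cons (P.lf 4630203 0 0) (P.cons (P.lf 0 596235 0) (P.lf 0 39747 0)))) (P.cons (P.cons (P.lf 13412739 0 0) (P.cons (P.lf 0 402474 0) (P.cons (P.lf 51822 0 0) P.nil))) (P.cons (P.cons (P.lf 0 1155339 0) (P.cons (P.lf 0 112926 0) P.nil)) (P.cons (P.cons (P.lf 0 250455 0) P.nil) P.nil)))))) 89409)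
 (EL.cons 11 (TM.mk (P.cons (P.cons (P.lf 1224874602 0 0) (P.cons (P.lf 0 349674018 0) (P.cons (P.lf 0 26155053 0) (P.cons (P.lf 1762467 0 0) (P.lf 88122 0 0))))) (P.cons (P.cons (P.lf 198474588 0 0) (P.cons (P.lf 0 56660007 0) (P.cons (P.lf 0 4238076 0) (P.cons (P.lf 285582 0 0) (P.lf 14277 0 0))))) (P.cons (P.cons (P.lf 0 4573428 0) (P.cons (P.lf 1305609 0 0) (P.cons (P.lf 97656 0 0) (P.cons (P.lf 0 6579 0) P.nil)))) (P.cons (P.cons (P.lf 0 2205051 0) (P.cons (P.lf 629493 0 0) (P.cons (P.lf 47085 0 0) P.nil))) (P.cons (P.cons (P.lf 0 60531 0) (P.cons (P.lf 17280 0 0) P.nil)) (P.cons (P.cons (P.lf 10737 0 0) P.nil) P.nil)))))) 9759)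
 EL.nil)))
noncomputable def S169_198_660_734_22 : EL := (EL.cons 4 (TM.mk (P.cons (P.cons (P.lf 0 881907 0) (P.cons (P.lf 0 28819614 0) (P.cons (P.lf 0 4375395 0) (P.cons (P.lf 2330031 0 0) (P.cons (P.lf 4749 0 0) (P.cons (P.lf 0 17877 0) P.nil)))))) (P.cons (P.cons (P.lf 0 117119004 0) (P.cons (P.lf 0 35541894 0) (P.cons (P.lf 1968393 0 0) (P.cons (P.lf 976881 0 0) (P.cons (P.lf 1530 0 0) P.nil))))) (P.cons (P.cons (P.lf 0 10522335 0) (P.cons (P.lf 0 13673949 0) (P.cons (P.lf 1935024 0 0) (P.cons (P.lf 72519 0 0) P.nil)))) (P.cons (P.cons (P.lf 0 13147041 0) (P.cons (P.lf 0 132909 0) (P.cons (P.lf 180870 0 0) P.nil))) (P.cons (P.cons (P.lf 0 1460007 0) (P.cons (P.lf 670275 0 0) P.nil)) (P.cons (P.cons (P.lf 631002 0 0) P.nil) P.nil)))))) 502449)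
 (EL.cons 8 (TM.mk (P.cons (P.cons (P.lf 370119 0 0) (P.cons (P.lf 12094992 0 0) (P.cons (P.lf 1836261 0 0) (P.cons (P.lf 0 977865 0) (P.cons (P.lf 0 1992 0) (P.cons (P.lf 7503 0 0) P.nil)))))) (P.cons (P.cons (P.lf 49061880 0 0) (P.cons (P.lf 11958114 0 0) (P.cons (P.lf 0 1275189 0) (P.cons (P.lf 0 170820 0) (P.cons (P.lf 0 153 0) P.nil))))) (P.cons (P.cons (P.lf 0 7599531 0) (P.cons (P.lf 2276361 0 0) (P.cons (P.lf 0 581850 0) (P.cons (P.lf 54813 0 0) P.nil)))) (P.cons (P.cons (P.lf 5191722 0 0) (P.cons (P.lf 0 1140114 0) (P.cons (P.lf 106758 0 0) P.nil))) (P.cons (P.cons (P.lf 0 756042 0) (P.cons (P.lf 0 231495 0) P.nil)) (P.cons (P.cons (P.lf 0 330528 0) P.nil) P.nil)))))) 249843)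
 (EL.cons 11 (TM.mk (P.cons (P.cons (P.lf 0 156054819 0) (P.cons (P.lf 379938 0 0) (P.cons (P.lf 21629709 0 0) (P.cons (P.lf 0 525930 0) (P.cons (P.lf 0 304485 0) (P.cons (P.lf 0 3090 0) P.nil)))))) (P.cons (P.cons (P.lf 0 25617996 0) (P.cons (P.lf 0 10579614 0) (P.cons (P.lf 7959162 0 0) (P.cons (P.lf 0 158949 0) (P.cons (P.lf 0 120639 0) P.nil))))) (P.cons (P.cons (P.lf 0 21468261 0) (P.cons (P.lf 4366521 0 0) (P.cons (P.lf 1188396 0 0) (P.cons (P.lf 0 42912 0) P.nil)))) (P.cons (P.cons (P.lf 0 3900336 0) (P.cons (P.lf 1353735 0 0) (P.cons (P.lf 0 16248 0) P.nil))) (P.cons (P.cons (P.lf 280068 0 0) (P.cons (P.lf 0 22083 0) P.nil)) (P.cons (P.cons (P.lf 107520 0 0) P.nil) P.nil)))))) 151911)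
 EL.nil)))
noncomputable def S169_198_660_734_23 : EL := (EL.cons 4 (TM.mk (P.cons (P.cons (P.lf 0 3563466 0) (P.cons (P.lf 0 115440804 0) (P.cons (P.lf 14865435 0 0) (P.lf 991026 0 0)))) (P.cons (P.cons (P.lf 0 472644231 0) (P.cons (P.lf 9702705 0 0) (P.cons (P.lf 0 1249428 0) (P.lf 0 83295 0)))) (P.cons (P.cons (P.lf 36421863 0 0) (P.cons (P.lf 7817835 0 0) (P.cons (P.lf 0 1006707 0) (P.lf 0 67110 0)))) (P.cons (P.cons (P.lf 24936318 0 0) (P.cons (P.lf 0 75903 0) (P.cons (P.lf 9777 0 0) P.nil))) (P.cons (P.cons (P.lf 0 240597 0) (P.cons (P.lf 0 217098 0) P.nil)) (P.cons (P.cons (P.lf 0 543375 0) P.nil) P.nil)))))) 174243)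
 (EL.cons 8 (TM.mk (P.cons (P.cons (P.lf 1495515 0 0) (P.cons (P.lf 48448095 0 0) (P.cons (P.lf 0 6238716 0) (P.lf 0 415914 0)))) (P.cons (P.cons (P.lf 197993151 0 0) (P.cons (P.lf 0 15920991 0) (P.cons (P.lf 2050161 0 0) (P.lf 136674 0 0)))) (P.cons (P.cons (P.lf 0 63775245 0) (P.cons (P.lf 0 1541034 0) (P.cons (P.lf 198438 0 0) (P.lf 13227 0 0)))) (P.cons (P.cons (P.lf 0 3683196 0) (P.cons (P.lf 685773 0 0) (P.cons (P.lf 0 88305 0) P.nil))) (P.cons (P.cons (P.lf 2073927 0 0) (P.cons (P.lf 47307 0 0) P.nil)) (P.cons (P.cons (P.lf 98994 0 0) P.nil) P.nil)))))) 111744)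
 (EL.cons 11 (TM.mk (P.cons (P.cons (P.lf 0 630559842 0) (P.cons (P.lf 180010584 0 0) (P.cons (P.lf 13464501 0 0) (P.cons (P.lf 0 907308 0) (P.lf 0 45363 0))))) (P.cons (P.cons (P.lf 955563 0 0) (P.cons (P.lf 0 272793 0) (P.cons (P.lf 0 20403 0) (P.cons (P.lf 1374 0 0) (P.lf 69 0 0))))) (P.cons (P.cons (P.lf 25122228 0 0) (P.cons (P.lf 0 7171827 0) (P.cons (P.lf 0 536439 0) (P.cons (P.lf 36147 0 0) P.nil)))) (P.cons (P.cons (P.lf 1576443 0 0) (P.cons (P.lf 0 450039 0) (P.cons (P.lf 0 33660 0) P.nil))) (P.cons (P.cons (P.lf 0 229974 0) (P.cons (P.lf 65652 0 0) P.nil)) (P.cons (P.cons (P.lf 0 25884 0) P.nil) P.nil)))))) 24297)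
 EL.nil)))
noncomputable def S169_198_660_734_24 : EL := (EL.cons 4 (TM.mk (P.cons (P.cons (P.lf 454002 0 0) (P.cons (P.lf 14836206 0 0) (P.cons (P.lf 2252433 0 0) (P.cons (P.lf 0 1199487 0) (P.cons (P.lf 0 2445 0) (P.cons (P.lf 9201 0 0) P.nil)))))) (P.cons (P.cons (P.lf 60218073 0 0) (P.cons (P.lf 15870312 0 0) (P.cons (P.lf 0 1381710 0) (P.cons (P.lf 0 306714 0) (P.cons (P.lf 0 387 0) P.nil))))) (P.cons (P.cons (P.lf 0 4448445 0) (P.cons (P.lf 3904290 0 0) (P.cons (P.lf 0 852048 0) (P.cons (P.lf 56439 0 0) P.nil)))) (P.cons (P.cons (P.lf 5303046 0 0) (P.cons (P.lf 0 1254975 0) (P.cons (P.lf 80094 0 0) P.nil))) (P.cons (P.cons (P.lf 0 392502 0) (P.cons (P.lf 0 418710 0) P.nil)) (P.cons (P.cons (P.lf 0 508791 0) P.nil) P.nil)))))) 382965)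
 (EL.cons 8 (TM.mk (P.cons (P.cons (P.lf 0 190533 0) (P.cons (P.lf 0 6226446 0) (P.cons (P.lf 0 945297 0) (P.cons (P.lf 503400 0 0) (P.cons (P.lf 1026 0 0) (P.cons (P.lf 0 3861 0) P.nil)))))) (P.cons (P.cons (P.lf 0 25225668 0) (P.cons (P.lf 0 5137632 0) (P.cons (P.lf 811065 0 0) (P.cons (P.lf 5604 0 0) (P.cons (P.lf 0 87 0) P.nil))))) (P.cons (P.cons (P.lf 8044842 0 0) (P.cons (P.lf 0 105225 0) (P.cons (P.lf 201249 0 0) (P.cons (P.lf 0 47436 0) P.nil)))) (P.cons (P.cons (P.lf 0 3069954 0) (P.cons (P.lf 836187 0 0) (P.cons (P.lf 0 110487 0) P.nil))) (P.cons (P.cons (P.lf 782526 0 0) (P.cons (P.lf 32649 0 0) P.nil)) (P.cons (P.cons (P.lf 132024 0 0) P.nil) P.nil)))))) 199416)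
 (EL.cons 11 (TM.mk (P.cons (P.cons (P.lf 80336307 0 0) (P.cons (P.lf 0 195588 0) (P.cons (P.lf 0 11134875 0) (P.cons (P.lf 270747 0 0) (P.cons (P.lf 156747 0 0) (P.cons (P.lf 1590 0 0) P.nil)))))) (P.cons (P.cons (P.lf 48855 0 0) (P.cons (P.lf 5478324 0 0) (P.cons (P.lf 0 2276208 0) (P.cons (P.lf 37545 0 0) (P.cons (P.lf 36468 0 0) P.nil))))) (P.cons (P.cons (P.lf 8123127 0 0) (P.cons (P.lf 0 3136746 0) (P.cons (P.lf 165306 0 0) (P.cons (P.lf 6108 0 0) P.nil)))) (P.cons (P.cons (P.lf 93414 0 0) (P.cons (P.lf 0 381618 0) (P.cons (P.lf 145041 0 0) P.nil))) (P.cons (P.cons (P.lf 0 571956 0) (P.cons (P.lf 148272 0 0) P.nil)) (P.cons (P.cons (P.lf 0 47700 0) P.nil) P.nil)))))) 140235)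
 EL.nil)))
noncomputable def S169_198_660_734_25 : EL := (EL.cons 4 (TM.mk (P.cons (P.cons (P.lf 1834455 0 0) (P.cons (P.lf 59428398 0 0) (P.cons (P.lf 0 7652658 0) (P.lf 0 510174 0)))) (P.cons (P.cons (P.lf 243015060 0 0) (P.cons (P.lf 0 14714544 0) (P.cons (P.lf 1894806 0 0) (P.lf 126321 0 0)))) (P.cons (P.cons (P.lf 0 58562118 0) (P.cons (P.lf 0 3778521 0) (P.cons (P.lf 486561 0 0) (P.lf 32436 0 0)))) (P.cons (P.cons (P.lf 0 12107346 0) (P.cons (P.lf 759903 0 0) (P.cons (P.lf 0 97854 0) P.nil))) (P.cons (P.cons (P.lf 2463435 0 0) (P.cons (P.lf 145413 0 0) P.nil)) (P.cons (P.cons (P.lf 388869 0 0) P.nil) P.nil)))))) 167484)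
 (EL.cons 8 (TM.mk (P.cons (P.cons (P.lf 0 769884 0) (P.cons (P.lf 0 24940857 0) (P.cons (P.lf 3211662 0 0) (P.lf 214110 0 0)))) (P.cons (P.cons (P.lf 0 101800050 0) (P.cons (P.lf 12275181 0 0) (P.cons (P.lf 0 1580688 0) (P.lf 0 105378 0)))) (P.cons (P.cons (P.lf 49508805 0 0) (P.cons (P.lf 0 307581 0) (P.cons (P.lf 39606 0 0) (P.lf 2640 0 0)))) (P.cons (P.cons (P.lf 0 2494614 0) (P.cons (P.lf 0 567648 0) (P.cons (P.lf 73095 0 0) P.nil))) (P.cons (P.cons (P.lf 0 1718238 0) (P.cons (P.lf 26682 0 0) P.nil)) (P.cons (P.cons (P.lf 109032 0 0) P.nil) P.nil)))))) 105417)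
 (EL.cons 11 (TM.mk (P.cons (P.cons (P.lf 324609324 0 0) (P.cons (P.lf 0 92668626 0) (P.cons (P.lf 0 6931461 0) (P.cons (P.lf 467079 0 0) (P.lf 23352 0 0))))) (P.cons (P.cons (P.lf 0 53582448 0) (P.cons (P.lf 15296577 0 0) (P.cons (P.lf 1144158 0 0) (P.cons (P.lf 0 77100 0) (P.lf 0 3855 0))))) (P.cons (P.cons (P.lf 0 15970524 0) (P.cons (P.lf 4559223 0 0) (P.cons (P.lf 341022 0 0) (P.cons (P.lf 0 22977 0) P.nil)))) (P.cons (P.cons (P.lf 1388217 0 0) (P.cons (P.lf 0 396303 0) (P.cons (P.lf 0 29640 0) P.nil))) (P.cons (P.cons (P.lf 389505 0 0) (P.cons (P.lf 0 111195 0) P.nil)) (P.cons (P.cons (P.lf 0 1212 0) P.nil) P.nil)))))) 31206)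
 EL.nil)))
noncomputable def S169_198_660_734_26 : EL := (EL.cons 4 (TM.mk (P.cons (P.cons (P.lf 0 233718 0) (P.cons (P.lf 0 7637610 0) (P.cons (P.lf 0 1159542 0) (P.cons (P.lf 617490 0 0) (P.cons (P.lf 1257 0 0) (P.cons (P.lf 0 4737 0) P.nil)))))) (P.cons (P.cons (P.lf 0 30961764 0) (P.cons (P.lf 0 6920817 0) (P.cons (P.lf 900942 0 0) (P.cons (P.lf 56901 0 0) (P.cons (P.lf 0 3 0) P.nil))))) (P.cons (P.cons (P.lf 7362396 0 0) (P.cons (P.lf 0 600330 0) (P.cons (P.lf 333432 0 0) (P.cons (P.lf 0 60810 0) P.nil)))) (P.cons (P.cons (P.lf 0 2806797 0) (P.cons (P.lf 1051380 0 0) (P.cons (P.lf 0 120090 0) P.nil))) (P.cons (P.cons (P.lf 618918 0 0) (P.cons (P.lf 126846 0 0) P.nil)) (P.cons (P.cons (P.lf 254301 0 0) P.nil) P.nil)))))) 288513)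
 (EL.cons 8 (TM.mk (P.cons (P.cons (P.lf 98085 0 0) (P.cons (P.lf 3205344 0 0) (P.cons (P.lf 486633 0 0) (P.cons (P.lf 0 259146 0) (P.cons (P.lf 0 528 0) (P.cons (P.lf 1986 0 0) P.nil)))))) (P.cons (P.cons (P.lf 12970014 0 0) (P.cons (P.lf 2120589 0 0) (P.cons (P.lf 0 497124 0) (P.cons (P.lf 39498 0 0) (P.cons (P.lf 129 0 0) P.nil))))) (P.cons (P.cons (P.lf 0 6266286 0) (P.cons (P.lf 0 409185 0) (P.cons (P.lf 0 39987 0) (P.cons (P.lf 27381 0 0) P.nil)))) (P.cons (P.cons (P.lf 2133021 0 0) (P.cons (P.lf 0 463941 0) (P.cons (P.lf 77952 0 0) P.nil))) (P.cons (P.cons (P.lf 0 618336 0) (P.cons (P.lf 53865 0 0) P.nil)) (P.cons (P.cons (P.lf 0 17706 0) P.nil) P.nil)))))) 143868)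
 (EL.cons 11 (TM.mk (P.cons (P.cons (P.lf 0 41356761 0) (P.cons (P.lf 100689 0 0) (P.cons (P.lf 5732181 0 0) (P.cons (P.lf 0 139377 0) (P.cons (P.lf 0 80691 0) (P.cons (P.lf 0 819 0) P.nil)))))) (P.cons (P.cons (P.lf 6738831 0 0) (P.cons (P.lf 0 2836683 0) (P.cons (P.lf 234270 0 0) (P.cons (P.lf 3465 0 0) (P.cons (P.lf 0 5574 0) P.nil))))) (P.cons (P.cons (P.lf 0 3780366 0) (P.cons (P.lf 2075067 0 0) (P.cons (P.lf 0 331809 0) (P.cons (P.lf 1353 0 0) P.nil)))) (P.cons (P.cons (P.lf 625911 0 0) (P.cons (P.lf 0 40527 0) (P.cons (P.lf 0 70593 0) P.nil))) (P.cons (P.cons (P.lf 340650 0 0) (P.cons (P.lf 0 124659 0) P.nil)) (P.cons (P.cons (P.lf 0 24195 0) P.nil) P.nil)))))) 108387)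
 EL.nil)))
noncomputable def S169_198_660_734_27 : EL := (EL.cons 13 (TM.mk (P.lf 0 4294967296 0) 0)
 EL.nil)
noncomputable def S169_198_660_734_28 : EL := (EL.cons 13 (TM.mk (P.cons (P.cons (P.lf 547199157 0 0) (P.cons (P.lf 154880756 0 0) (P.cons (P.lf 0 19944164 0) (P.lf 0 1329608 0)))) (P.cons (P.cons (P.lf 1162020 0 0) (P.cons (P.lf 37644540 0 0) (P.cons (P.lf 0 4847528 0) (P.lf 0 323168 0)))) (P.cons (P.cons (P.lf 77132327 0 0) (P.cons (P.lf 657508 0 0) (P.cons (P.lf 0 84668 0) (P.lf 0 5644 0)))) (P.cons (P.cons (P.lf 2167508 0 0) (P.cons (P.lf 0 529692 0) (P.cons (P.lf 68204 0 0) P.nil))) (P.cons (P.cons (P.lf 0 1016141 0) (P.cons (P.lf 0 39204 0) P.nil)) (P.cons (P.cons (P.lf 0 70154 0) P.nil) P.nil)))))) 28009)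
 EL.nil)
noncomputable def S169_198_660_734_29 : EL := (EL.cons 13 (TM.mk (P.cons (P.cons (P.lf 0 69715761 0) (P.cons (P.lf 0 39465082 0) (P.cons (P.lf 0 503191 0) (P.cons (P.lf 1777209 0 0) (P.cons (P.lf 3280 0 0) (P.cons (P.lf 0 12348 0) P.nil)))))) (P.cons (P.cons (P.lf 0 296093 0) (P.cons (P.lf 0 9675992 0) (P.cons (P.lf 0 1469010 0) (P.cons (P.lf 782292 0 0) (P.cons (P.lf 1594 0 0) P.nil))))) (P.cons (P.cons (P.lf 0 19654361 0) (P.cons (P.lf 0 5750844 0) (P.cons (P.lf 363174 0 0) (P.cons (P.lf 146557 0 0) P.nil)))) (P.cons (P.cons (P.lf 0 594038 0) (P.cons (P.lf 0 1373809 0) (P.cons (P.lf 203584 0 0) P.nil))) (P.cons (P.cons (P.lf 0 1127452 0) (P.cons (P.lf 21950 0 0) P.nil)) (P.cons (P.cons (P.lf 0 59425 0) P.nil) P.nil)))))) 187353)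
 EL.nil)
noncomputable def S169_198_660_734_30 : EL := (EL.cons 13 (TM.mk (P.cons (P.lf 2211029524 0 0) (P.cons (P.lf 0 361618480 0) (P.cons (P.lf 0 21238980 0) (P.cons (P.lf 543904 0 0) (P.cons (P.lf 97232 0 0) (P.cons (P.lf 1560 0 0) P.nil)))))) 512)
 EL.nil)
noncomputable def S169_198_660_734_31 : EL := (EL.cons 13 (TM.mk (P.cons (P.cons (P.lf 0 281695623 0) (P.cons (P.lf 0 79731904 0) (P.cons (P.lf 10267164 0 0) (P.lf 684476 0 0)))) (P.cons (P.cons (P.lf 45473702 0 0) (P.cons (P.lf 0 6338918 0) (P.cons (P.lf 816269 0 0) (P.lf 54417 0 0)))) (P.cons (P.cons (P.lf 0 36903585 0) (P.cons (P.lf 3596931 0 0) (P.cons (P.lf 0 463180 0) (P.lf 0 30878 0)))) (P.cons (P.cons (P.lf 5314850 0 0) (P.cons (P.lf 494584 0 0) (P.cons (P.lf 0 63685 0) P.nil))) (P.cons (P.cons (P.lf 1074490 0 0) (P.cons (P.lf 0 29437 0) P.nil)) (P.cons (P.cons (P.lf 0 48714 0) P.nil) P.nil)))))) 47854)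
 EL.nil)
noncomputable def S169_198_660_734_32 : EL := (EL.cons 13 (TM.mk (P.cons (P.cons (P.lf 35889354 0 0) (P.cons (P.lf 20316443 0 0) (P.cons (P.lf 259040 0 0) (P.cons (P.lf 0 914899 0) (P.cons (P.lf 0 1688 0) (P.cons (P.lf 6356 0 0) P.nil)))))) (P.cons (P.cons (P.lf 0 5717351 0) (P.cons (P.lf 1658359 0 0) (P.cons (P.lf 713873 0 0) (P.cons (P.lf 0 253086 0) (P.cons (P.lf 0 544 0) P.nil))))) (P.cons (P.cons (P.lf 9748294 0 0) (P.cons (P.lf 1950671 0 0) (P.cons (P.lf 0 313133 0) (P.cons (P.lf 0 792 0) P.nil)))) (P.cons (P.cons (P.lf 0 1341643 0) (P.cons (P.lf 180182 0 0) (P.cons (P.lf 0 81427 0) P.nil))) (P.cons (P.cons (P.lf 434814 0 0) (P.cons (P.lf 0 153288 0) P.nil)) (P.cons (P.cons (P.lf 0 64751 0) P.nil) P.nil)))))) 173724)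
 EL.nil)
noncomputable def S169_198_660_734_33 : EL := (EL.cons 14 (TM.mk (P.lf 8589934592 0 0) 0)
 EL.nil)
noncomputable def S169_198_660_734_34 : EL := (EL.cons 14 (TM.mk (P.cons (P.cons (P.lf 0 1094398314 0) (P.cons (P.lf 0 309761512 0) (P.cons (P.lf 39888328 0 0) (P.lf 2659216 0 0)))) (P.cons (P.cons (P.lf 0 2324040 0) (P.cons (P.lf 0 75289080 0) (P.cons (P.lf 9695056 0 0) (P.lf 646336 0 0)))) (P.cons (P.cons (P.lf 0 154264654 0) (P.cons (P.lf 0 1315016 0) (P.cons (P.lf 169336 0 0) (P.lf 11288 0 0)))) (P.cons (P.cons (P.lf 0 4335016 0) (P.cons (P.lf 1059384 0 0) (P.cons (P.lf 0 136408 0) P.nil))) (P.cons (P.cons (P.lf 2032282 0 0) (P.cons (P.lf 78408 0 0) P.nil)) (P.cons (P.cons (P.lf 140308 0 0) P.nil) P.nil)))))) 56018)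
 EL.nil)
noncomputable def S169_198_660_734_35 : EL := (EL.cons 14 (TM.mk (P.cons (P.cons (P.lf 139431522 0 0) (P.cons (P.lf 78930164 0 0) (P.cons (P.lf 1006382 0 0) (P.cons (P.lf 0 3554418 0) (P.cons (P.lf 0 6560 0) (P.cons (P.lf 24696 0 0) P.nil)))))) (P.cons (P.cons (P.lf 592186 0 0) (P.cons (P.lf 19351984 0 0) (P.cons (P.lf 2938020 0 0) (P.cons (P.lf 0 1564584 0) (P.cons (P.lf 0 3188 0) P.nil))))) (P.cons (P.cons (P.lf 39308722 0 0) (P.cons (P.lf 11501688 0 0) (P.cons (P.lf 0 726348 0) (P.cons (P.lf 0 293114 0) P.nil)))) (P.cons (P.cons (P.lf 1188076 0 0) (P.cons (P.lf 2747618 0 0) (P.cons (P.lf 0 407168 0) P.nil))) (P.cons (P.cons (P.lf 2254904 0 0) (P.cons (P.lf 0 43900 0) P.nil)) (P.cons (P.cons (P.lf 118850 0 0) P.nil) P.nil)))))) 374706)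
 EL.nil)
noncomputable def S169_198_660_734_36 : EL := (EL.cons 14 (TM.mk (P.cons (P.lf 0 4422059048 0) (P.cons (P.lf 723236960 0 0) (P.cons (P.lf 42477960 0 0) (P.cons (P.lf 0 1087808 0) (P.cons (P.lf 0 194464 0) (P.cons (P.lf 0 3120 0) P.nil)))))) 1024)
 EL.nil)
noncomputable def S169_198_660_734_37 : EL := (EL.cons 14 (TM.mk (P.cons (P.cons (P.lf 563391246 0 0) (P.cons (P.lf 159463808 0 0) (P.cons (P.lf 0 20534328 0) (P.lf 0 1368952 0)))) (P.cons (P.cons (P.lf 0 90947404 0) (P.cons (P.lf 12677836 0 0) (P.cons (P.lf 0 1632538 0) (P.lf 0 108834 0)))) (P.cons (P.cons (P.lf 73807170 0 0) (P.cons (P.lf 0 7193862 0) (P.cons (P.lf 926360 0 0) (P.lf 61756 0 0)))) (P.cons (P.cons (P.lf 0 10629700 0) (P.cons (P.lf 0 989168 0) (P.cons (P.lf 127370 0 0) P.nil))) (P.cons (P.cons (P.lf 0 2148980 0) (P.cons (P.lf 58874 0 0) P.nil)) (P.cons (P.cons (P.lf 97428 0 0) P.nil) P.nil))))))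 95708)
 EL.nil)
noncomputable def S169_198_660_734_38 : EL := (EL.cons 14 (TM.mk (P.cons (P.cons (P.lf 0 71778708 0) (P.cons (P.lf 0 40632886 0) (P.cons (P.lf 0 518080 0) (P.cons (P.lf 1829798 0 0) (P.cons (P.lf 3376 0 0) (P.cons (P.lf 0 12712 0) P.nil)))))) (P.cons (P.cons (P.lf 11434702 0 0) (P.cons (P.lf 0 3316718 0) (P.cons (P.lf 0 1427746 0) (P.cons (P.lf 506172 0 0) (P.cons (P.lf 1088 0 0) P.nil))))) (P.cons (P.cons (P.lf 0 19496588 0) (P.cons (P.lf 0 3901342 0) (P.cons (P.lf 626266 0 0) (P.cons (P.lf 1584 0 0) P.nil)))) (P.cons (P.cons (P.lf 2683286 0 0) (P.cons (P.lf 0 360364 0) (P.cons (P.lf 162854 0 0) P.nil))) (P.cons (P.cons (P.lf 0 869628 0) (P.cons (P.lf 306576 0 0) P.nil)) (P.cons (P.cons (P.lf 129502 0 0) P.nil) P.nil)))))) 347448)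
 EL.nil)
noncomputable def S169_198_660_734_39 : EL := (EL.cons 14 (TM.mk (P.cons (P.lf 2276455776 0 0) (P.cons (P.lf 0 744638158 0) (P.cons (P.lf 17158640 0 0) (P.cons (P.lf 8272934 0 0) (P.cons (P.lf 227096 0 0) (P.cons (P.lf 0 40292 0) P.nil)))))) 3922)
 EL.nil)
noncomputable def S169_198_660_734_40 : EL := (EL.cons 14 (TM.mk (P.cons (P.cons (P.lf 0 290031236 0) (P.cons (P.lf 0 82091240 0) (P.cons (P.lf 10570978 0 0) (P.lf 704730 0 0)))) (P.cons (P.cons (P.lf 94254520 0 0) (P.cons (P.lf 6899700 0 0) (P.cons (P.lf 0 888482 0) (P.lf 0 59230 0)))) (P.cons (P.cons (P.lf 0 42866970 0) (P.cons (P.lf 5559350 0 0) (P.cons (P.lf 0 715882 0) (P.lf 0 47724 0)))) (P.cons (P.cons (P.lf 11165290 0 0) (P.cons (P.lf 0 53974 0) (P.cons (P.lf 6952 0 0) P.nil))) (P.cons (P.cons (P.lf 575054 0 0) (P.cons (P.lf 0 154382 0) P.nil)) (P.cons (P.cons (P.lf 0 291148 0) P.nil) P.nil))))))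 92982)
 EL.nil)
noncomputable def S169_198_660_734_41 : EL := (EL.cons 14 (TM.mk (P.cons (P.cons (P.lf 36951350 0 0) (P.cons (P.lf 20917624 0 0) (P.cons (P.lf 266704 0 0) (P.cons (P.lf 0 941970 0) (P.cons (P.lf 0 1738 0) (P.cons (P.lf 6544 0 0) P.nil)))))) (P.cons (P.cons (P.lf 0 11930002 0) (P.cons (P.lf 0 1713688 0) (P.cons (P.lf 691376 0 0) (P.cons (P.lf 0 106514 0) (P.cons (P.lf 0 276 0) P.nil))))) (P.cons (P.cons (P.lf 10644558 0 0) (P.cons (P.lf 1528206 0 0) (P.cons (P.lf 0 445170 0) (P.cons (P.lf 50850 0 0) P.nil)))) (P.cons (P.cons (P.lf 0 2957240 0) (P.cons (P.lf 0 154218 0) (P.cons (P.lf 0 38102 0) P.nil))) (P.cons (P.cons (P.lf 577366 0 0) (P.cons (P.lf 0 206118 0) P.nil)) (P.cons (P.cons (P.lf 0 124380 0) P.nil) P.nil)))))) 256126)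
 EL.nil)
noncomputable def S169_198_660_734_42 : EL := (EL.cons 14 (TM.mk (P.cons (P.lf 0 1171909022 0) (P.cons (P.lf 575004478 0 0) (P.cons (P.lf 0 60271372 0) (P.cons (P.lf 0 6784766 0) (P.cons (P.lf 707252 0 0) (P.cons (P.lf 94630 0 0) P.nil)))))) 9404)
 EL.nil)
noncomputable def S169_198_660_734_43 : EL := (EL.cons 14 (TM.mk (P.cons (P.cons (P.lf 149306754 0 0) (P.cons (P.lf 42260194 0 0) (P.cons (P.lf 0 5441890 0) (P.lf 0 362790 0)))) (P.cons (P.cons (P.lf 0 72941226 0) (P.cons (P.lf 0 10463676 0) (P.cons (P.lf 1347418 0 0) (P.lf 89826 0 0)))) (P.cons (P.cons (P.lf 28569332 0 0) (P.cons (P.lf 0 2686950 0) (P.cons (P.lf 346000 0 0) (P.lf 23066 0 0)))) (P.cons (P.cons (P.lf 0 8854236 0) (P.cons (P.lf 540374 0 0) (P.cons (P.lf 0 69586 0) P.nil))) (P.cons (P.cons (P.lf 426684 0 0) (P.cons (P.lf 103406 0 0) P.nil)) (P.cons (P.cons (P.lf 256912 0 0) P.nil) P.nil))))))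 116512)
 EL.nil)
noncomputable def S169_198_660_734_44 : EL := (EL.cons 14 (TM.mk (P.cons (P.cons (P.lf 0 19022386 0) (P.cons (P.lf 0 10768296 0) (P.cons (P.lf 0 137298 0) (P.cons (P.lf 484922 0 0) (P.cons (P.lf 894 0 0) (P.cons (P.lf 0 3368 0) P.nil)))))) (P.cons (P.cons (P.lf 9252662 0 0) (P.cons (P.lf 2643376 0 0) (P.cons (P.lf 0 333462 0) (P.cons (P.lf 0 24476 0) (P.cons (P.lf 0 4 0) P.nil))))) (P.cons (P.cons (P.lf 0 6301498 0) (P.cons (P.lf 0 827558 0) (P.cons (P.lf 288702 0 0) (P.cons (P.lf 0 39802 0) P.nil)))) (P.cons (P.cons (P.lf 2354926 0 0) (P.cons (P.lf 196936 0 0) (P.cons (P.lf 0 14480 0) P.nil))) (P.cons (P.cons (P.lf 0 492900 0) (P.cons (P.lf 100424 0 0) P.nil)) (P.cons (P.cons (P.lf 96926 0 0) P.nil) P.nil)))))) 227272)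
 EL.nil)
noncomputable def S169_198_660_734_45 : EL := (EL.cons 14 (TM.mk (P.cons (P.cons (P.lf 0 17764234 0) (P.cons (P.lf 0 15084114 0) (P.cons (P.lf 0 2327050 0) (P.cons (P.lf 826242 0 0) (P.cons (P.lf 158118 0 0) (P.cons (P.lf 0 19102 0) P.nil)))))) (P.cons (P.cons (P.lf 0 113170 0) (P.cons (P.lf 0 3730332 0) (P.cons (P.lf 0 1604128 0) (P.cons (P.lf 275150 0 0) (P.cons (P.lf 114690 0 0) P.nil))))) (P.cons (P.cons (P.lf 0 7512294 0) (P.cons (P.lf 0 4332140 0) (P.cons (P.lf 0 336838 0) (P.cons (P.lf 191090 0 0) P.nil)))) (P.cons (P.cons (P.lf 0 243002 0) (P.cons (P.lf 0 1110812 0) (P.cons (P.lf 0 146638 0) P.nil))) (P.cons (P.cons (P.lf 0 960854 0) (P.cons (P.lf 0 289196 0) P.nil)) (P.cons (P.cons (P.lf 0 54508 0) P.nil) P.nil)))))) 469484)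
 EL.nil)
noncomputable def S169_198_660_734_46 : EL := (EL.cons 15 (TM.mk (P.lf 4294967296 0 0) 0)
 EL.nil)
noncomputable def S169_198_660_734_47 : EL := (EL.cons 15 (TM.mk (P.cons (P.cons (P.lf 0 547199157 0) (P.cons (P.lf 0 154880756 0) (P.cons (P.lf 19944164 0 0) (P.lf 1329608 0 0)))) (P.cons (P.cons (P.lf 0 1162020 0) (P.cons (P.lf 0 37644540 0) (P.cons (P.lf 4847528 0 0) (P.lf 323168 0 0)))) (P.cons (P.cons (P.lf 0 77132327 0) (P.cons (P.lf 0 657508 0) (P.cons (P.lf 84668 0 0) (P.lf 5644 0 0)))) (P.cons (P.cons (P.lf 0 2167508 0) (P.cons (P.lf 529692 0 0) (P.cons (P.lf 0 68204 0) P.nil))) (P.cons (P.cons (P.lf 1016141 0 0) (P.cons (P.lf 39204 0 0) P.nil)) (P.cons (P.cons (P.lf 70154 0 0) P.nil) P.nil)))))) 28009)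
 EL.nil)
noncomputable def S169_198_660_734_48 : EL := (EL.cons 15 (TM.mk (P.cons (P.cons (P.lf 69715761 0 0) (P.cons (P.lf 39465082 0 0) (P.cons (P.lf 503191 0 0) (P.cons (P.lf 0 1777209 0) (P.cons (P.lf 0 3280 0) (P.cons (P.lf 12348 0 0) P.nil)))))) (P.cons (P.cons (P.lf 296093 0 0) (P.cons (P.lf 9675992 0 0) (P.cons (P.lf 1469010 0 0) (P.cons (P.lf 0 782292 0) (P.cons (P.lf 0 1594 0) P.nil))))) (P.cons (P.cons (P.lf 19654361 0 0) (P.cons (P.lf 5750844 0 0) (P.cons (P.lf 0 363174 0) (P.cons (P.lf 0 146557 0) P.nil)))) (P.cons (P.cons (P.lf 594038 0 0) (P.cons (P.lf 1373809 0 0) (P.cons (P.lf 0 203584 0) P.nil))) (P.cons (P.cons (P.lf 1127452 0 0) (P.cons (P.lf 0 21950 0) P.nil)) (P.cons (P.cons (P.lf 59425 0 0) P.nil) P.nil)))))) 187353)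
 EL.nil)
noncomputable def S169_198_660_734 : SL := (SL.cons S169_198_660_734_0 (SL.cons S169_198_660_734_1 (SL.cons S169_198_660_734_2 (SL.cons S169_198_660_734_3 (SL.cons S169_198_660_734_4 (SL.cons S169_198_660_734_5 (SL.cons S169_198_660_734_6 (SL.cons S169_198_660_734_7 (SL.cons S169_198_660_734_8 (SL.cons S169_198_660_734_9 (SL.cons S169_198_660_734_10 (SL.cons S169_198_660_734_11 (SL.cons S169_198_660_734_12 (SL.cons S169_198_660_734_13 (SL.cons S169_198_660_734_14 (SL.cons S169_198_660_734_15 (SL.cons S169_198_660_734_16 (SL.cons S169_198_660_734_17 (SL.cons S169_198_660_734_18 (SL.cons S169_198_660_734_19 (SL.cons S169_198_660_734_20 (SL.cons S169_198_660_734_21 (SL.cons S169_198_660_734_22 (SL.cons S169_198_660_734_23 (SL.cons S169_198_660_734_24 (SL.cons S169_198_660_734_25 (SL.cons S169_198_660_734_26 (SL.cons S169_198_660_734_27 (SL.cons S169_198_660_734_28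 (SL.cons S169_198_660_734_29 (SL.cons S169_198_660_734_30 (SL.cons S169_198_660_734_31 (SL.cons S169_198_660_734_32 (SL.cons S169_198_660_734_33 (SL.cons S169_198_660_734_34 (SL.cons S169_198_660_734_35 (SL.cons S169_198_660_734_36 (SL.cons S169_198_660_734_37 (SL.cons S169_198_660_734_38 (SL.cons S169_198_660_734_39 (SL.cons S169_198_660_734_40 (SL.cons S169_198_660_734_41 (SL.cons S169_198_660_734_42 (SL.cons S169_198_660_734_43 (SL.cons S169_198_660_734_44 (SL.cons S169_198_660_734_45 (SL.cons S169_198_660_734_46 (SL.cons S169_198_660_734_47 (SL.cons S169_198_660_734_48 SL.nil)))))))))))))))))))))))))))))))))))))))))))))))))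
noncomputable def S169_198_660_808_0 : EL := (EL.cons 0 (TM.mk (P.cons (P.lf 6454925654 0 0) (P.cons (P.lf 654467131 0 0) (P.cons (P.lf 0 15080835 0) (P.cons (P.lf 0 7271133 0) (P.cons (P.lf 0 199596 0) (P.cons (P.lf 35412 0 0) P.nil)))))) 3454)
 (EL.cons 1 (TM.mk (P.cons (P.lf 0 1695086628 0) (P.cons (P.lf 139901857 0 0) (P.cons (P.lf 47471786 0 0) (P.cons (P.lf 293435 0 0) (P.cons (P.lf 0 328029 0) (P.cons (P.lf 0 15684 0) P.nil)))))) 1940)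
 (EL.cons 5 (TM.mk (P.cons (P.lf 5006359730 0 0) (P.cons (P.lf 0 232699422 0) (P.cons (P.lf 5362070 0 0) (P.cons (P.lf 2585292 0 0) (P.cons (P.lf 70970 0 0) (P.cons (P.lf 0 12590 0) P.nil)))))) 1169)
 (EL.cons 9 (TM.mk (P.lf 6442450944 0 0) 2)
 EL.nil))))
noncomputable def S169_198_660_808_1 : EL := (EL.cons 0 (TM.mk (P.cons (P.cons (P.lf 0 829784473 0) (P.cons (P.lf 0 23392452 0) (P.cons (P.lf 10087093 0 0) (P.lf 1120792 0 0)))) (P.cons (P.cons (P.lf 716221485 0 0) (P.cons (P.lf 0 141003468 0) (P.cons (P.lf 60802287 0 0) (P.lf 6755803 0 0)))) (P.cons (P.cons (P.lf 0 200445911 0) (P.cons (P.lf 0 29870851 0) (P.cons (P.lf 12880643 0 0) (P.lf 1431177 0 0)))) (P.cons (P.cons (P.lf 0 59772838 0) (P.cons (P.lf 1766795 0 0) (P.cons (P.lf 0 761861 0) P.nil))) (P.cons (P.cons (P.lf 2481007 0 0) (P.cons (P.lf 888606 0 0) P.nil)) (P.cons (P.cons (P.lf 1432254 0 0) P.nil) P.nil))))))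 1316849)
 (EL.cons 1 (TM.mk (P.cons (P.cons (P.lf 310034981 0 0) (P.cons (P.lf 153942398 0 0) (P.cons (P.lf 0 66381697 0) (P.lf 0 7375736 0)))) (P.cons (P.cons (P.lf 207146027 0 0) (P.cons (P.lf 56556766 0 0) (P.cons (P.lf 0 24387910 0) (P.lf 0 2709761 0)))) (P.cons (P.cons (P.lf 142624107 0 0) (P.cons (P.lf 0 7527905 0) (P.cons (P.lf 3246122 0 0) (P.lf 360675 0 0)))) (P.cons (P.cons (P.lf 0 10392516 0) (P.cons (P.lf 0 3276390 0) (P.cons (P.lf 1412810 0 0) P.nil))) (P.cons (P.cons (P.lf 0 5852921 0) (P.cons (P.lf 0 50061 0) P.nil)) (P.cons (P.cons (P.lf 0 70135 0) P.nil) P.nil)))))) 741180)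
 (EL.cons 5 (TM.mk (P.cons (P.cons (P.lf 0 862335961 0) (P.cons (P.lf 0 369094900 0) (P.cons (P.lf 159157882 0 0) (P.lf 17684204 0 0)))) (P.cons (P.cons (P.lf 0 311837506 0) (P.cons (P.lf 0 41597360 0) (P.cons (P.lf 17937252 0 0) (P.lf 1993036 0 0)))) (P.cons (P.cons (P.lf 0 60819542 0) (P.cons (P.lf 9018528 0 0) (P.cons (P.lf 0 3888894 0) (P.lf 0 432092 0)))) (P.cons (P.cons (P.lf 18344586 0 0) (P.cons (P.lf 662554 0 0) (P.cons (P.lf 0 285704 0) P.nil))) (P.cons (P.cons (P.lf 902813 0 0) (P.cons (P.lf 0 220412 0) P.nil)) (P.cons (P.cons (P.lf 0 394027 0) P.nil) P.nil)))))) 617982)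
 (EL.cons 9 (TM.mk (P.cons (P.cons (P.lf 0 1021209205 0) (P.cons (P.lf 0 333010770 0) (P.cons (P.lf 143598000 0 0) (P.lf 15955326 0 0)))) (P.cons (P.cons (P.lf 0 50453796 0) (P.cons (P.lf 0 80939928 0) (P.cons (P.lf 34902210 0 0) (P.lf 3878022 0 0)))) (P.cons (P.cons (P.lf 0 116549284 0) (P.cons (P.lf 0 1413720 0) (P.cons (P.lf 609606 0 0) (P.lf 67734 0 0)))) (P.cons (P.cons (P.lf 0 2565858 0) (P.cons (P.lf 1138890 0 0) (P.cons (P.lf 0 491100 0) P.nil))) (P.cons (P.cons (P.lf 1574947 0 0) (P.cons (P.lf 84294 0 0) P.nil)) (P.cons (P.cons (P.lf 101661 0 0) P.nil) P.nil)))))) 134576)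
 (EL.cons 2 (TM.mk (P.cons (P.cons (P.lf 410660091 0 0) (P.cons (P.lf 0 382567865 0) (P.cons (P.lf 0 39263906 0) (P.cons (P.lf 8165798 0 0) (P.lf 680481 0 0))))) (P.cons (P.cons (P.lf 0 622321 0) (P.cons (P.lf 579751 0 0) (P.cons (P.lf 59501 0 0) (P.cons (P.lf 0 12375 0) (P.lf 0 1032 0))))) (P.cons (P.cons (P.lf 0 16361167 0) (P.cons (P.lf 15241941 0 0) (P.cons (P.lf 1564318 0 0) (P.cons (P.lf 0 325333 0) P.nil)))) (P.cons (P.cons (P.lf 0 1026677 0) (P.cons (P.lf 956446 0 0) (P.cons (P.lf 98161 0 0) P.nil))) (P.cons (P.cons (P.lf 149774 0 0) (P.cons (P.lf 0 139528 0) P.nil)) (P.cons (P.cons (P.lf 16858 0 0) P.nil) P.nil)))))) 108690)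
 (EL.cons 6 (TM.mk (P.cons (P.cons (P.lf 347914578 0 0) (P.cons (P.lf 0 324114615 0) (P.cons (P.lf 0 33264702 0) (P.cons (P.lf 6918132 0 0) (P.lf 576510 0 0))))) (P.cons (P.cons (P.lf 84562371 0 0) (P.cons (P.lf 0 78777672 0) (P.cons (P.lf 0 8085150 0) (P.cons (P.lf 1681485 0 0) (P.lf 140121 0 0))))) (P.cons (P.cons (P.lf 1476987 0 0) (P.cons (P.lf 0 1375950 0) (P.cons (P.lf 0 141216 0) (P.cons (P.lf 29367 0 0) P.nil)))) (P.cons (P.cons (P.lf 0 1189866 0) (P.cons (P.lf 1108470 0 0) (P.cons (P.lf 113763 0 0) P.nil))) (P.cons (P.cons (P.lf 0 88068 0) (P.cons (P.lf 82044 0 0) P.nil)) (P.cons (P.cons (P.lf 6201 0 0) P.nil) P.nil)))))) 62133)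
 EL.nil))))))
noncomputable def S169_198_660_808_2 : EL := (EL.cons 0 (TM.mk (P.cons (P.cons (P.lf 100874577 0 0) (P.cons (P.lf 0 12577945 0) (P.cons (P.lf 0 9404623 0) (P.cons (P.lf 13390945 0 0) (P.cons (P.lf 0 1336308 0) (P.cons (P.lf 0 612716 0) P.nil)))))) (P.cons (P.cons (P.lf 0 246533686 0) (P.cons (P.lf 0 49785487 0) (P.cons (P.lf 26500366 0 0) (P.cons (P.lf 0 1954651 0) (P.cons (P.lf 453510 0 0) P.nil))))) (P.cons (P.cons (P.lf 43688780 0 0) (P.cons (P.lf 0 1066443 0) (P.cons (P.lf 5126149 0 0) (P.cons (P.lf 0 3973213 0) P.nil)))) (P.cons (P.cons (P.lf 0 9381643 0) (P.cons (P.lf 11569032 0 0) (P.cons (P.lf 0 4363925 0) P.nil))) (P.cons (P.cons (P.lf 4615770 0 0) (P.cons (P.lf 2309432 0 0) P.nil)) (P.cons (P.cons (P.lf 1997772 0 0) P.nil) P.nil)))))) 8842357)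
 (EL.cons 1 (TM.mk (P.cons (P.cons (P.lf 0 55697726 0) (P.cons (P.lf 0 53077594 0) (P.cons (P.lf 11502105 0 0) (P.cons (P.lf 12362222 0 0) (P.cons (P.lf 0 1026042 0) (P.cons (P.lf 0 470456 0) P.nil)))))) (P.cons (P.cons (P.lf 0 69833224 0) (P.cons (P.lf 0 43714909 0) (P.cons (P.lf 10963204 0 0) (P.cons (P.lf 8896537 0 0) (P.cons (P.lf 0 710769 0) P.nil))))) (P.cons (P.cons (P.lf 0 51391930 0) (P.cons (P.lf 0 21981453 0) (P.cons (P.lf 8765687 0 0) (P.cons (P.lf 1668052 0 0) P.nil)))) (P.cons (P.cons (P.lf 0 6922914 0) (P.cons (P.lf 0 3283046 0) (P.cons (P.lf 1863823 0 0) P.nil))) (P.cons (P.cons (P.lf 0 3046480 0) (P.cons (P.lf 1071145 0 0) P.nil)) (P.cons (P.cons (P.lf 441085 0 0) P.nil) P.nil)))))) 4709632)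
 (EL.cons 5 (TM.mk (P.cons (P.cons (P.lf 147591200 0 0) (P.cons (P.lf 124121280 0 0) (P.cons (P.lf 0 28741714 0) (P.cons (P.lf 0 27318428 0) (P.cons (P.lf 2233194 0 0) (P.cons (P.lf 1023947 0 0) P.nil)))))) (P.cons (P.cons (P.lf 105784222 0 0) (P.cons (P.lf 52694201 0 0) (P.cons (P.lf 0 15028335 0) (P.cons (P.lf 0 9160168 0) (P.cons (P.lf 693356 0 0) P.nil))))) (P.cons (P.cons (P.lf 26789611 0 0) (P.cons (P.lf 15979314 0 0) (P.cons (P.lf 0 7231464 0) (P.cons (P.lf 0 471521 0) P.nil)))) (P.cons (P.cons (P.lf 6326494 0 0) (P.cons (P.lf 0 877892 0) (P.cons (P.lf 63226 0 0) P.nil))) (P.cons (P.cons (P.lf 228122 0 0) (P.cons (P.lf 0 925112 0) P.nil)) (P.cons (P.cons (P.lf 0 669587 0) P.nil) P.nil)))))) 4741432)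
 (EL.cons 9 (TM.mk (P.cons (P.cons (P.lf 161874454 0 0) (P.cons (P.lf 105572760 0 0) (P.cons (P.lf 0 28310812 0) (P.cons (P.lf 0 19903420 0) (P.cons (P.lf 1551240 0 0) (P.cons (P.lf 711267 0 0) P.nil)))))) (P.cons (P.cons (P.lf 15995116 0 0) (P.cons (P.lf 30875905 0 0) (P.cons (P.lf 0 4946457 0) (P.cons (P.lf 0 8695728 0) (P.cons (P.lf 754072 0 0) P.nil))))) (P.cons (P.cons (P.lf 37344171 0 0) (P.cons (P.lf 13764822 0 0) (P.cons (P.lf 0 4772502 0) (P.cons (P.lf 0 1662537 0) P.nil)))) (P.cons (P.cons (P.lf 2638942 0 0) (P.cons (P.lf 2854885 0 0) (P.cons (P.lf 0 1313275 0) P.nil))) (P.cons (P.cons (P.lf 1649364 0 0) (P.cons (P.lf 0 91756 0) P.nil)) (P.cons (P.cons (P.lf 35938 0 0) P.nil) P.nil)))))) 1617514)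
 (EL.cons 2 (TM.mk (P.cons (P.cons (P.lf 0 130189539 0) (P.cons (P.lf 78829498 0 0) (P.cons (P.lf 70304248 0 0) (P.cons (P.lf 0 13549950 0) (P.cons (P.lf 0 4705171 0) (P.cons (P.lf 99185 0 0) P.nil)))))) (P.cons (P.cons (P.lf 0 6234840 0) (P.cons (P.lf 0 4446011 0) (P.cons (P.lf 14570780 0 0) (P.cons (P.lf 0 2771533 0) (P.cons (P.lf 0 1094703 0) P.nil))))) (P.cons (P.cons (P.lf 0 9661713 0) (P.cons (P.lf 10527609 0 0) (P.cons (P.lf 0 1156989 0) (P.cons (P.lf 202089 0 0) P.nil)))) (P.cons (P.cons (P.lf 277149 0 0) (P.cons (P.lf 404516 0 0) (P.cons (P.lf 0 929643 0) P.nil))) (P.cons (P.cons (P.lf 761850 0 0) (P.cons (P.lf 0 681710 0) P.nil)) (P.cons (P.cons (P.lf 55141 0 0) P.nil) P.nil)))))) 1613446)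
 (EL.cons 6 (TM.mk (P.cons (P.cons (P.lf 0 110297634 0) (P.cons (P.lf 66784992 0 0) (P.cons (P.lf 59562336 0 0) (P.cons (P.lf 0 11479626 0) (P.cons (P.lf 0 3986256 0) (P.cons (P.lf 84030 0 0) P.nil)))))) (P.cons (P.cons (P.lf 0 32257746 0) (P.cons (P.lf 12566934 0 0) (P.cons (P.lf 26911668 0 0) (P.cons (P.lf 0 5155644 0) (P.cons (P.lf 0 1902366 0) P.nil))))) (P.cons (P.cons (P.lf 0 14380860 0) (P.cons (P.lf 10966914 0 0) (P.cons (P.lf 4686840 0 0) (P.cons (P.lf 0 913398 0) P.nil)))) (P.cons (P.cons (P.lf 0 2982648 0) (P.cons (P.lf 2950404 0 0) (P.cons (P.lf 51054 0 0) P.nil))) (P.cons (P.cons (P.lf 95862 0 0) (P.cons (P.lf 0 11946 0) P.nil)) (P.cons (P.cons (P.lf 93606 0 0) P.nil) P.nil)))))) 1383678)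
 EL.nil))))))
noncomputable def S169_198_660_808_3 : EL := (EL.cons 0 (TM.mk (P.cons (P.lf 2000791209 0 0) (P.cons (P.lf 0 654467131 0) (P.cons (P.lf 15080835 0 0) (P.cons (P.lf 7271133 0 0) (P.cons (P.lf 199596 0 0) (P.cons (P.lf 0 35412 0) P.nil)))))) 3454)
 (EL.cons 1 (TM.mk (P.cons (P.lf 1695086628 0 0) (P.cons (P.lf 0 139901857 0) (P.cons (P.lf 0 47471786 0) (P.cons (P.lf 0 293435 0) (P.cons (P.lf 328029 0 0) (P.cons (P.lf 15684 0 0) P.nil)))))) 1940)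
 (EL.cons 5 (TM.mk (P.cons (P.lf 1436091214 0 0) (P.cons (P.lf 232699422 0 0) (P.cons (P.lf 0 5362070 0) (P.cons (P.lf 0 2585292 0) (P.cons (P.lf 0 70970 0) (P.cons (P.lf 12590 0 0) P.nil)))))) 1162)
 EL.nil)))
noncomputable def S169_198_660_808_4 : EL := (EL.cons 0 (TM.mk (P.cons (P.cons (P.lf 0 317150477 0) (P.cons (P.lf 0 103421046 0) (P.cons (P.lf 44596321 0 0) (P.lf 4955143 0 0)))) (P.cons (P.cons (P.lf 88072124 0 0) (P.cons (P.lf 8692453 0 0) (P.cons (P.lf 0 3748283 0) (P.lf 0 416475 0)))) (P.cons (P.cons (P.lf 0 33461040 0) (P.cons (P.lf 7003836 0 0) (P.cons (P.lf 0 3020134 0) (P.lf 0 335569 0)))) (P.cons (P.cons (P.lf 9772319 0 0) (P.cons (P.lf 0 68000 0) (P.cons (P.lf 29323 0 0) P.nil))) (P.cons (P.cons (P.lf 388371 0 0) (P.cons (P.lf 0 194494 0) P.nil)) (P.cons (P.cons (P.lf 0 261917 0) P.nil) P.nil)))))) 238909)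
 (EL.cons 1 (TM.mk (P.cons (P.cons (P.lf 0 268692470 0) (P.cons (P.lf 0 87619153 0) (P.cons (P.lf 37782365 0 0) (P.lf 4198036 0 0)))) (P.cons (P.cons (P.lf 8901193 0 0) (P.cons (P.lf 0 14064733 0) (P.cons (P.lf 6064871 0 0) (P.lf 673873 0 0)))) (P.cons (P.cons (P.lf 0 22045014 0) (P.cons (P.lf 3839512 0 0) (P.cons (P.lf 0 1655641 0) (P.lf 0 183958 0)))) (P.cons (P.cons (P.lf 2274118 0 0) (P.cons (P.lf 941934 0 0) (P.cons (P.lf 0 406171 0) P.nil))) (P.cons (P.cons (P.lf 1279211 0 0) (P.cons (P.lf 0 5403 0) P.nil)) (P.cons (P.cons (P.lf 11705 0 0) P.nil) P.nil)))))) 181987)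
 (EL.cons 5 (TM.mk (P.cons (P.cons (P.lf 0 227638452 0) (P.cons (P.lf 0 74231660 0) (P.cons (P.lf 32009528 0 0) (P.lf 3556612 0 0)))) (P.cons (P.cons (P.lf 0 48132464 0) (P.cons (P.lf 0 30070624 0) (P.cons (P.lf 12966792 0 0) (P.lf 1440752 0 0)))) (P.cons (P.cons (P.lf 0 26952500 0) (P.cons (P.lf 0 2961492 0) (P.cons (P.lf 1277028 0 0) (P.lf 141890 0 0)))) (P.cons (P.cons (P.lf 0 4329888 0) (P.cons (P.lf 403808 0 0) (P.cons (P.lf 0 174124 0) P.nil))) (P.cons (P.cons (P.lf 386894 0 0) (P.cons (P.lf 97250 0 0) P.nil)) (P.cons (P.cons (P.lf 127012 0 0) P.nil) P.nil)))))) 120556)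
 EL.nil)))
noncomputable def S169_198_660_808_5 : EL := (EL.cons 0 (TM.mk (P.cons (P.cons (P.lf 50272323 0 0) (P.cons (P.lf 32787063 0 0) (P.cons (P.lf 0 8792309 0) (P.cons (P.lf 0 6181279 0) (P.cons (P.lf 481758 0 0) (P.cons (P.lf 220891 0 0) P.nil)))))) (P.cons (P.cons (P.lf 0 11476784 0) (P.cons (P.lf 0 1135849 0) (P.cons (P.lf 1339809 0 0) (P.cons (P.lf 0 678654 0) (P.cons (P.lf 76601 0 0) P.nil))))) (P.cons (P.cons (P.lf 10351775 0 0) (P.cons (P.lf 1385402 0 0) (P.cons (P.lf 0 1045942 0) (P.cons (P.lf 320454 0 0) P.nil)))) (P.cons (P.cons (P.lf 0 2753971 0) (P.cons (P.lf 0 320269 0) (P.cons (P.lf 33435 0 0) P.nil))) (P.cons (P.cons (P.lf 354635 0 0) (P.cons (P.lf 0 248173 0) P.nil)) (P.cons (P.cons (P.lf 0 108460 0) P.nil) P.nil)))))) 1273476)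
 (EL.cons 1 (TM.mk (P.cons (P.cons (P.lf 42591121 0 0) (P.cons (P.lf 27777466 0 0) (P.cons (P.lf 0 7448915 0) (P.cons (P.lf 0 5236830 0) (P.cons (P.lf 408148 0 0) (P.cons (P.lf 187141 0 0) P.nil)))))) (P.cons (P.cons (P.lf 693301 0 0) (P.cons (P.lf 5831242 0 0) (P.cons (P.lf 0 686683 0) (P.cons (P.lf 0 1855734 0) (P.cons (P.lf 164718 0 0) P.nil))))) (P.cons (P.cons (P.lf 8285570 0 0) (P.cons (P.lf 2173276 0 0) (P.cons (P.lf 0 939675 0) (P.cons (P.lf 0 101938 0) P.nil)))) (P.cons (P.cons (P.lf 0 241848 0) (P.cons (P.lf 219920 0 0) (P.cons (P.lf 0 204161 0) P.nil))) (P.cons (P.cons (P.lf 108999 0 0) (P.cons (P.lf 0 183594 0) P.nil)) (P.cons (P.cons (P.lf 0 46297 0) P.nil) P.nil)))))) 912181)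
 (EL.cons 5 (TM.mk (P.cons (P.cons (P.lf 36083546 0 0) (P.cons (P.lf 23533296 0 0) (P.cons (P.lf 0 6310782 0) (P.cons (P.lf 0 4436684 0) (P.cons (P.lf 345786 0 0) (P.cons (P.lf 158548 0 0) P.nil)))))) (P.cons (P.cons (P.lf 9412338 0 0) (P.cons (P.lf 10695824 0 0) (P.cons (P.lf 0 2125194 0) (P.cons (P.lf 0 2657276 0) (P.cons (P.lf 224120 0 0) P.nil))))) (P.cons (P.cons (P.lf 8767424 0 0) (P.cons (P.lf 4095684 0 0) (P.cons (P.lf 0 1218942 0) (P.cons (P.lf 0 668116 0) P.nil)))) (P.cons (P.cons (P.lf 1858836 0 0) (P.cons (P.lf 1065502 0 0) (P.cons (P.lf 0 449646 0) P.nil))) (P.cons (P.cons (P.lf 423694 0 0) (P.cons (P.lf 57652 0 0) P.nil)) (P.cons (P.cons (P.lf 50542 0 0) P.nil) P.nil)))))) 697014)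
 EL.nil)))
noncomputable def S169_198_660_808_6 : EL := (EL.cons 12 (TM.mk (P.lf 8589934592 0 0) 0)
 (EL.cons 3 (TM.mk (P.cons (P.lf 0 2072840178 0) (P.cons (P.lf 339017325 0 0) (P.cons (P.lf 19911543 0 0) (P.cons (P.lf 0 509910 0) (P.cons (P.lf 0 91155 0) (P.cons (P.lf 0 1462 0) P.nil)))))) 487)
 (EL.cons 7 (TM.mk (P.cons (P.lf 0 1756127103 0) (P.cons (P.lf 0 142278485 0) (P.cons (P.lf 9042093 0 0) (P.cons (P.lf 848140 0 0) (P.cons (P.lf 0 2043 0) (P.cons (P.lf 0 3166 0) P.nil)))))) 195)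
 EL.nil)))
noncomputable def S169_198_660_808_7 : EL := (EL.cons 12 (TM.mk (P.cons (P.cons (P.lf 0 1361612274 0) (P.cons (P.lf 0 444014360 0) (P.cons (P.lf 191464000 0 0) (P.lf 21273768 0 0)))) (P.cons (P.cons (P.lf 0 67271728 0) (P.cons (P.lf 0 107919904 0) (P.cons (P.lf 46536280 0 0) (P.lf 5170696 0 0)))) (P.cons (P.cons (P.lf 0 155399046 0) (P.cons (P.lf 0 1884960 0) (P.cons (P.lf 812808 0 0) (P.lf 90312 0 0)))) (P.cons (P.cons (P.lf 0 3421144 0) (P.cons (P.lf 1518520 0 0) (P.cons (P.lf 0 654800 0) P.nil))) (P.cons (P.cons (P.lf 2099930 0 0) (P.cons (P.lf 112392 0 0) P.nil)) (P.cons (P.cons (P.lf 135548 0 0) P.nil) P.nil)))))) 179410)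
 (EL.cons 3 (TM.mk (P.cons (P.cons (P.lf 128204551 0 0) (P.cons (P.lf 0 214290526 0) (P.cons (P.lf 92404490 0 0) (P.lf 10267160 0 0)))) (P.cons (P.cons (P.lf 0 972137147 0) (P.cons (P.lf 0 17036718 0) (P.cons (P.lf 7346424 0 0) (P.lf 816268 0 0)))) (P.cons (P.cons (P.lf 0 39247005 0) (P.cons (P.lf 9667244 0 0) (P.cons (P.lf 0 4168628 0) (P.lf 0 463178 0)))) (P.cons (P.cons (P.lf 22399126 0 0) (P.cons (P.lf 1329258 0 0) (P.cons (P.lf 0 573188 0) P.nil))) (P.cons (P.cons (P.lf 2286414 0 0) (P.cons (P.lf 0 79114 0) P.nil)) (P.cons (P.cons (P.lf 0 161474 0) P.nil) P.nil)))))) 507812)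
 (EL.cons 7 (TM.mk (P.cons (P.cons (P.lf 362457833 0 0) (P.cons (P.lf 225674233 0 0) (P.cons (P.lf 0 97313276 0) (P.lf 0 10812588 0)))) (P.cons (P.cons (P.lf 407985648 0 0) (P.cons (P.lf 7149957 0 0) (P.cons (P.lf 0 3083144 0) (P.lf 0 342573 0)))) (P.cons (P.cons (P.lf 0 33419453 0) (P.cons (P.lf 0 4931474 0) (P.cons (P.lf 2126504 0 0) (P.lf 236277 0 0)))) (P.cons (P.cons (P.lf 0 9997445 0) (P.cons (P.lf 140240 0 0) (P.cons (P.lf 0 60472 0) P.nil))) (P.cons (P.cons (P.lf 710217 0 0) (P.cons (P.lf 101202 0 0) P.nil)) (P.cons (P.cons (P.lf 169235 0 0) P.nil) P.nil)))))) 359315)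
 (EL.cons 10 (TM.mk (P.cons (P.cons (P.lf 0 850896120 0) (P.cons (P.lf 792688452 0 0) (P.cons (P.lf 81355620 0 0) (P.cons (P.lf 0 16919706 0) (P.lf 0 1409973 0))))) (P.cons (P.cons (P.lf 0 137876364 0) (P.cons (P.lf 128444586 0 0) (P.cons (P.lf 13182591 0 0) (P.cons (P.lf 0 2741610 0) (P.lf 0 228465 0))))) (P.cons (P.cons (P.lf 3177069 0 0) (P.cons (P.lf 0 2959734 0) (P.cons (P.lf 0 303765 0) (P.cons (P.lf 63174 0 0) P.nil)))) (P.cons (P.cons (P.lf 1531806 0 0) (P.cons (P.lf 0 1427019 0) (P.cons (P.lf 0 146457 0) P.nil))) (P.cons (P.cons (P.lf 42048 0 0) (P.cons (P.lf 0 39171 0) P.nil)) (P.cons (P.cons (P.lf 0 7458 0) P.nil) P.nil)))))) 52527)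
 EL.nil))))
noncomputable def S169_198_660_808_8 : EL := (EL.cons 12 (TM.mk (P.cons (P.cons (P.lf 215832606 0 0) (P.cons (P.lf 140763680 0 0) (P.cons (P.lf 0 37747750 0) (P.cons (P.lf 0 26537894 0) (P.cons (P.lf 2068320 0 0) (P.cons (P.lf 948356 0 0) P.nil)))))) (P.cons (P.cons (P.lf 21326822 0 0) (P.cons (P.lf 41167874 0 0) (P.cons (P.lf 0 6595276 0) (P.cons (P.lf 0 11594304 0) (P.cons (P.lf 1005430 0 0) P.nil))))) (P.cons (P.cons (P.lf 49792228 0 0) (P.cons (P.lf 18353096 0 0) (P.cons (P.lf 0 6363336 0) (P.cons (P.lf 0 2216716 0) P.nil)))) (P.cons (P.cons (P.lf 3518590 0 0) (P.cons (P.lf 3806514 0 0) (P.cons (P.lf 0 1751034 0) P.nil))) (P.cons (P.cons (P.lf 2199152 0 0) (P.cons (P.lf 0 122342 0) P.nil)) (P.cons (P.cons (P.lf 47918 0 0) P.nil) P.nil)))))) 2156656)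
 (EL.cons 3 (TM.mk (P.cons (P.cons (P.lf 11438584 0 0) (P.cons (P.lf 88649395 0 0) (P.cons (P.lf 0 10534886 0) (P.cons (P.lf 0 28129372 0) (P.cons (P.lf 2495536 0 0) (P.cons (P.lf 1144241 0 0) P.nil)))))) (P.cons (P.cons (P.lf 302811939 0 0) (P.cons (P.lf 110414502 0 0) (P.cons (P.lf 0 38679792 0) (P.cons (P.lf 0 12993534 0) (P.cons (P.lf 804956 0 0) P.nil))))) (P.cons (P.cons (P.lf 33703512 0 0) (P.cons (P.lf 35861251 0 0) (P.cons (P.lf 0 16060366 0) (P.cons (P.lf 0 1203684 0) P.nil)))) (P.cons (P.cons (P.lf 27432361 0 0) (P.cons (P.lf 0 536057 0) (P.cons (P.lf 0 329608 0) P.nil))) (P.cons (P.cons (P.lf 1461319 0 0) (P.cons (P.lf 0 1777399 0) P.nil)) (P.cons (P.cons (P.lf 0 1315223 0) P.nil) P.nil)))))) 5490206)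
 (EL.cons 7 (TM.mk (P.cons (P.cons (P.lf 0 70783373 0) (P.cons (P.lf 0 80237587 0) (P.cons (P.lf 15961249 0 0) (P.cons (P.lf 19918289 0 0) (P.cons (P.lf 0 1679631 0) (P.cons (P.lf 0 770133 0) P.nil)))))) (P.cons (P.cons (P.lf 0 127083842 0) (P.cons (P.lf 0 46338658 0) (P.cons (P.lf 16233097 0 0) (P.cons (P.lf 5453114 0 0) (P.cons (P.lf 0 337818 0) P.nil))))) (P.cons (P.cons (P.lf 1395807 0 0) (P.cons (P.lf 0 9383685 0) (P.cons (P.lf 4755128 0 0) (P.cons (P.lf 0 161671 0) P.nil)))) (P.cons (P.cons (P.lf 0 9857115 0) (P.cons (P.lf 2441648 0 0) (P.cons (P.lf 0 877532 0) P.nil))) (P.cons (P.cons (P.lf 1446247 0 0) (P.cons (P.lf 609662 0 0) P.nil)) (P.cons (P.cons (P.lf 572166 0 0) P.nil) P.nil)))))) 2948153)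
 (EL.cons 10 (TM.mk (P.cons (P.cons (P.lf 269755392 0 0) (P.cons (P.lf 0 163336332 0) (P.cons (P.lf 0 145671852 0) (P.cons (P.lf 28075776 0 0) (P.cons (P.lf 9749214 0 0) (P.cons (P.lf 0 205524 0) P.nil)))))) (P.cons (P.cons (P.lf 57037776 0 0) (P.cons (P.lf 0 17501766 0) (P.cons (P.lf 0 54015894 0) (P.cons (P.lf 10334532 0 0) (P.cons (P.lf 3862764 0 0) P.nil))))) (P.cons (P.cons (P.lf 31939164 0 0) (P.cons (P.lf 0 26244870 0) (P.cons (P.lf 0 7836402 0) (P.cons (P.lf 1541184 0 0) P.nil)))) (P.cons (P.cons (P.lf 5130990 0 0) (P.cons (P.lf 0 5258508 0) (P.cons (P.lf 161544 0 0) P.nil))) (P.cons (P.cons (P.lf 0 458472 0) (P.cons (P.lf 311868 0 0) P.nil)) (P.cons (P.cons (P.lf 0 150510 0) P.nil) P.nil)))))) 2390706)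
 EL.nil))))
noncomputable def S169_198_660_808_9 : EL := (EL.cons 3 (TM.mk (P.cons (P.lf 0 2072840178 0) (P.cons (P.lf 339017325 0 0) (P.cons (P.lf 19911543 0 0) (P.cons (P.lf 0 509910 0) (P.cons (P.lf 0 91155 0) (P.cons (P.lf 0 1462 0) P.nil)))))) 487)
 (EL.cons 7 (TM.mk (P.cons (P.lf 0 1756127103 0) (P.cons (P.lf 0 142278485 0) (P.cons (P.lf 9042093 0 0) (P.cons (P.lf 848140 0 0) (P.cons (P.lf 0 2043 0) (P.cons (P.lf 0 3166 0) P.nil)))))) 195)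
 EL.nil))
noncomputable def S169_198_660_808_10 : EL := (EL.cons 3 (TM.mk (P.cons (P.cons (P.lf 328571143 0 0) (P.cons (P.lf 107145263 0 0) (P.cons (P.lf 0 46202245 0) (P.lf 0 5133580 0)))) (P.cons (P.cons (P.lf 0 37505129 0) (P.cons (P.lf 8518359 0 0) (P.cons (P.lf 0 3673212 0) (P.lf 0 408134 0)))) (P.cons (P.cons (P.lf 31688169 0 0) (P.cons (P.lf 0 4833622 0) (P.cons (P.lf 2084314 0 0) (P.lf 231589 0 0)))) (P.cons (P.cons (P.lf 0 5382656 0) (P.cons (P.lf 0 664629 0) (P.cons (P.lf 286594 0 0) P.nil))) (P.cons (P.cons (P.lf 0 983529 0) (P.cons (P.lf 39557 0 0) P.nil)) (P.cons (P.cons (P.lf 52408 0 0) P.nil) P.nil)))))) 125587)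
 (EL.cons 7 (TM.mk (P.cons (P.cons (P.lf 278368151 0 0) (P.cons (P.lf 90774340 0 0) (P.cons (P.lf 0 39142919 0) (P.lf 0 4349211 0)))) (P.cons (P.cons (P.lf 36305961 0 0) (P.cons (P.lf 29417541 0 0) (P.cons (P.lf 0 12685175 0) (P.lf 0 1409463 0)))) (P.cons (P.cons (P.lf 31450759 0 0) (P.cons (P.lf 1705495 0 0) (P.cons (P.lf 0 735427 0) (P.lf 0 81714 0)))) (P.cons (P.cons (P.lf 3068101 0 0) (P.cons (P.lf 0 436666 0) (P.cons (P.lf 188294 0 0) P.nil))) (P.cons (P.cons (P.lf 0 542541 0) (P.cons (P.lf 0 60663 0) P.nil)) (P.cons (P.cons (P.lf 0 80920 0) P.nil) P.nil)))))) 76312)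
 EL.nil))
noncomputable def S169_198_660_808_11 : EL := (EL.cons 3 (TM.mk (P.cons (P.cons (P.lf 0 52082642 0) (P.cons (P.lf 0 33967733 0) (P.cons (P.lf 9108922 0 0) (P.cons (P.lf 6403868 0 0) (P.cons (P.lf 0 499106 0) (P.cons (P.lf 0 228847 0) P.nil)))))) (P.cons (P.cons (P.lf 3371841 0 0) (P.cons (P.lf 0 4378740 0) (P.cons (P.lf 101724 0 0) (P.cons (P.lf 1750458 0 0) (P.cons (P.lf 0 160990 0) P.nil))))) (P.cons (P.cons (P.lf 0 10673376 0) (P.cons (P.lf 0 2477735 0) (P.cons (P.lf 1187744 0 0) (P.cons (P.lf 15810 0 0) P.nil)))) (P.cons (P.cons (P.lf 1152691 0 0) (P.cons (P.lf 0 107141 0) (P.cons (P.lf 158354 0 0) P.nil))) (P.cons (P.cons (P.lf 0 279947 0) (P.cons (P.lf 218357 0 0) P.nil)) (P.cons (P.cons (P.lf 80167 0 0) P.nil) P.nil)))))) 933178)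
 (EL.cons 7 (TM.mk (P.cons (P.cons (P.lf 0 44124839 0) (P.cons (P.lf 0 28777741 0) (P.cons (P.lf 7717153 0 0) (P.cons (P.lf 5425409 0 0) (P.cons (P.lf 0 422847 0) (P.cons (P.lf 0 193881 0) P.nil)))))) (P.cons (P.cons (P.lf 0 7934978 0) (P.cons (P.lf 0 10747888 0) (P.cons (P.lf 1973569 0 0) (P.cons (P.lf 2809898 0 0) (P.cons (P.lf 0 239808 0) P.nil))))) (P.cons (P.cons (P.lf 0 10305579 0) (P.cons (P.lf 0 4285815 0) (P.cons (P.lf 1370426 0 0) (P.cons (P.lf 617291 0 0) P.nil)))) (P.cons (P.cons (P.lf 0 1500309 0) (P.cons (P.lf 0 1024960 0) (P.cons (P.lf 452710 0 0) P.nil))) (P.cons (P.cons (P.lf 0 453407 0) (P.cons (P.lf 0 14686 0) P.nil)) (P.cons (P.cons (P.lf 0 37686 0) P.nil) P.nil)))))) 622657)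
 EL.nil))
noncomputable def S169_198_660_808_12 : EL := (EL.cons 4 (TM.mk (P.cons (P.lf 2072840178 0 0) (P.cons (P.lf 0 339017325 0) (P.cons (P.lf 0 19911543 0) (P.cons (P.lf 509910 0 0) (P.cons (P.lf 91155 0 0) (P.cons (P.lf 1462 0 0) P.nil)))))) 487)
 (EL.cons 8 (TM.mk (P.cons (P.lf 1756127103 0 0) (P.cons (P.lf 142278485 0 0) (P.cons (P.lf 0 9042093 0) (P.cons (P.lf 0 848140 0) (P.cons (P.lf 2043 0 0) (P.cons (P.lf 3166 0 0) P.nil)))))) 195)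
 EL.nil))
noncomputable def S169_198_660_808_13 : EL := (EL.cons 4 (TM.mk (P.cons (P.cons (P.lf 0 328571143 0) (P.cons (P.lf 0 107145263 0) (P.cons (P.lf 46202245 0 0) (P.lf 5133580 0 0)))) (P.cons (P.cons (P.lf 37505129 0 0) (P.cons (P.lf 0 8518359 0) (P.cons (P.lf 3673212 0 0) (P.lf 408134 0 0)))) (P.cons (P.cons (P.lf 0 31688169 0) (P.cons (P.lf 4833622 0 0) (P.cons (P.lf 0 2084314 0) (P.lf 0 231589 0)))) (P.cons (P.cons (P.lf 5382656 0 0) (P.cons (P.lf 664629 0 0) (P.cons (P.lf 0 286594 0) P.nil))) (P.cons (P.cons (P.lf 983529 0 0) (P.cons (P.lf 0 39557 0) P.nil)) (P.cons (P.cons (P.lf 0 52408 0) P.nil) P.nil)))))) 125587)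
 (EL.cons 8 (TM.mk (P.cons (P.cons (P.lf 0 278368151 0) (P.cons (P.lf 0 90774340 0) (P.cons (P.lf 39142919 0 0) (P.lf 4349211 0 0)))) (P.cons (P.cons (P.lf 0 36305961 0) (P.cons (P.lf 0 29417541 0) (P.cons (P.lf 12685175 0 0) (P.lf 1409463 0 0)))) (P.cons (P.cons (P.lf 0 31450759 0) (P.cons (P.lf 0 1705495 0) (P.cons (P.lf 735427 0 0) (P.lf 81714 0 0)))) (P.cons (P.cons (P.lf 0 3068101 0) (P.cons (P.lf 436666 0 0) (P.cons (P.lf 0 188294 0) P.nil))) (P.cons (P.cons (P.lf 542541 0 0) (P.cons (P.lf 60663 0 0) P.nil)) (P.cons (P.cons (P.lf 80920 0 0) P.nil) P.nil)))))) 76312)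
 EL.nil))
noncomputable def S169_198_660_808_14 : EL := (EL.cons 4 (TM.mk (P.cons (P.cons (P.lf 52082642 0 0) (P.cons (P.lf 33967733 0 0) (P.cons (P.lf 0 9108922 0) (P.cons (P.lf 0 6403868 0) (P.cons (P.lf 499106 0 0) (P.cons (P.lf 228847 0 0) P.nil)))))) (P.cons (P.cons (P.lf 0 3371841 0) (P.cons (P.lf 4378740 0 0) (P.cons (P.lf 0 101724 0) (P.cons (P.lf 0 1750458 0) (P.cons (P.lf 160990 0 0) P.nil))))) (P.cons (P.cons (P.lf 10673376 0 0) (P.cons (P.lf 2477735 0 0) (P.cons (P.lf 0 1187744 0) (P.cons (P.lf 0 15810 0) P.nil)))) (P.cons (P.cons (P.lf 0 1152691 0) (P.cons (P.lf 107141 0 0) (P.cons (P.lf 0 158354 0) P.nil))) (P.cons (P.cons (P.lf 279947 0 0) (P.cons (P.lf 0 218357 0) P.nil)) (P.cons (P.cons (P.lf 0 80167 0) P.nil) P.nil)))))) 933178)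
 (EL.cons 8 (TM.mk (P.cons (P.cons (P.lf 44124839 0 0) (P.cons (P.lf 28777741 0 0) (P.cons (P.lf 0 7717153 0) (P.cons (P.lf 0 5425409 0) (P.cons (P.lf 422847 0 0) (P.cons (P.lf 193881 0 0) P.nil)))))) (P.cons (P.cons (P.lf 7934978 0 0) (P.cons (P.lf 10747888 0 0) (P.cons (P.lf 0 1973569 0) (P.cons (P.lf 0 2809898 0) (P.cons (P.lf 239808 0 0) P.nil))))) (P.cons (P.cons (P.lf 10305579 0 0) (P.cons (P.lf 4285815 0 0) (P.cons (P.lf 0 1370426 0) (P.cons (P.lf 0 617291 0) P.nil)))) (P.cons (P.cons (P.lf 1500309 0 0) (P.cons (P.lf 1024960 0 0) (P.cons (P.lf 0 452710 0) P.nil))) (P.cons (P.cons (P.lf 453407 0 0) (P.cons (P.lf 14686 0 0) P.nil)) (P.cons (P.cons (P.lf 37686 0 0) P.nil) P.nil)))))) 622657)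
 EL.nil))
noncomputable def S169_198_660_808_15 : EL := (EL.cons 4 (TM.mk (P.cons (P.lf 0 1067088645 0) (P.cons (P.lf 349049136 0 0) (P.cons (P.lf 0 8043112 0) (P.cons (P.lf 0 3877937 0) (P.cons (P.lf 0 106451 0) (P.cons (P.lf 18886 0 0) P.nil)))))) 1845)
 (EL.cons 8 (TM.mk (P.cons (P.lf 0 904046202 0) (P.cons (P.lf 74614324 0 0) (P.cons (P.lf 25318286 0 0) (P.cons (P.lf 156499 0 0) (P.cons (P.lf 0 174949 0) (P.cons (P.lf 0 8365 0) P.nil)))))) 1031)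
 EL.nil))
noncomputable def S169_198_660_808_16 : EL := (EL.cons 4 (TM.mk (P.cons (P.cons (P.lf 169146921 0 0) (P.cons (P.lf 55157891 0 0) (P.cons (P.lf 0 23784705 0) (P.lf 0 2642743 0)))) (P.cons (P.cons (P.lf 0 46971799 0) (P.cons (P.lf 0 4635975 0) (P.cons (P.lf 1999084 0 0) (P.lf 222120 0 0)))) (P.cons (P.cons (P.lf 17845888 0 0) (P.cons (P.lf 0 3735379 0) (P.cons (P.lf 1610738 0 0) (P.lf 178970 0 0)))) (P.cons (P.cons (P.lf 0 5211903 0) (P.cons (P.lf 36267 0 0) (P.cons (P.lf 0 15639 0) P.nil))) (P.cons (P.cons (P.lf 0 207131 0) (P.cons (P.lf 103730 0 0) P.nil)) (P.cons (P.cons (P.lf 139689 0 0) P.nil) P.nil)))))) 127427)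
 (EL.cons 8 (TM.mk (P.cons (P.cons (P.lf 143302651 0 0) (P.cons (P.lf 46730215 0 0) (P.cons (P.lf 0 20150595 0) (P.lf 0 2238953 0)))) (P.cons (P.cons (P.lf 0 4747303 0) (P.cons (P.lf 7501191 0 0) (P.cons (P.lf 0 3234598 0) (P.lf 0 359399 0)))) (P.cons (P.cons (P.lf 11757341 0 0) (P.cons (P.lf 0 2047740 0) (P.cons (P.lf 883009 0 0) (P.lf 98111 0 0)))) (P.cons (P.cons (P.lf 0 1212863 0) (P.cons (P.lf 0 502365 0) (P.cons (P.lf 216625 0 0) P.nil))) (P.cons (P.cons (P.lf 0 682246 0) (P.cons (P.lf 2882 0 0) P.nil)) (P.cons (P.cons (P.lf 0 6243 0) P.nil) P.nil)))))) 97050)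
 EL.nil))
noncomputable def S169_198_660_808_17 : EL := (EL.cons 4 (TM.mk (P.cons (P.cons (P.lf 0 26811905 0) (P.cons (P.lf 0 17486433 0) (P.cons (P.lf 4689231 0 0) (P.cons (P.lf 3296682 0 0) (P.cons (P.lf 0 256937 0) (P.cons (P.lf 0 117809 0) P.nil)))))) (P.cons (P.cons (P.lf 6120951 0 0) (P.cons (P.lf 605786 0 0) (P.cons (P.lf 0 714565 0) (P.cons (P.lf 361949 0 0) (P.cons (P.lf 0 40854 0) P.nil))))) (P.cons (P.cons (P.lf 0 5520946 0) (P.cons (P.lf 0 738881 0) (P.cons (P.lf 557835 0 0) (P.cons (P.lf 0 170909 0) P.nil)))) (P.cons (P.cons (P.lf 1468785 0 0) (P.cons (P.lf 170810 0 0) (P.cons (P.lf 0 17832 0) P.nil))) (P.cons (P.cons (P.lf 0 189138 0) (P.cons (P.lf 132359 0 0) P.nil)) (P.cons (P.cons (P.lf 57845 0 0) P.nil) P.nil)))))) 679197)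
 (EL.cons 8 (TM.mk (P.cons (P.cons (P.lf 0 22715265 0) (P.cons (P.lf 0 14814649 0) (P.cons (P.lf 3972755 0 0) (P.cons (P.lf 2792976 0 0) (P.cons (P.lf 0 217679 0) (P.cons (P.lf 0 99809 0) P.nil)))))) (P.cons (P.cons (P.lf 0 369761 0) (P.cons (P.lf 0 3109996 0) (P.cons (P.lf 366231 0 0) (P.cons (P.lf 989725 0 0) (P.cons (P.lf 0 87850 0) P.nil))))) (P.cons (P.cons (P.lf 0 4418971 0) (P.cons (P.lf 0 1159081 0) (P.cons (P.lf 501160 0 0) (P.cons (P.lf 54367 0 0) P.nil)))) (P.cons (P.cons (P.lf 128986 0 0) (P.cons (P.lf 0 117291 0) (P.cons (P.lf 108886 0 0) P.nil))) (P.cons (P.cons (P.lf 0 58133 0) (P.cons (P.lf 97917 0 0) P.nil)) (P.cons (P.cons (P.lf 24692 0 0) P.nil) P.nil)))))) 486485)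
 EL.nil))
noncomputable def S169_198_660_808_18 : EL := (EL.cons 4 (TM.mk (P.cons (P.lf 549332354 0 0) (P.cons (P.lf 0 269533349 0) (P.cons (P.lf 28252205 0 0) (P.cons (P.lf 3180359 0 0) (P.cons (P.lf 0 331524 0) (P.cons (P.lf 0 44357 0) P.nil)))))) 4415)
 (EL.cons 8 (TM.mk (P.cons (P.lf 465398850 0 0) (P.cons (P.lf 0 114528063 0) (P.cons (P.lf 0 11222106 0) (P.cons (P.lf 2534590 0 0) (P.cons (P.lf 239457 0 0) (P.cons (P.lf 0 14216 0) P.nil)))))) 3029)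
 EL.nil))
noncomputable def S169_198_660_808_19 : EL := (EL.cons 4 (TM.mk (P.cons (P.cons (P.lf 0 87076061 0) (P.cons (P.lf 0 28395030 0) (P.cons (P.lf 12244257 0 0) (P.lf 1360471 0 0)))) (P.cons (P.cons (P.lf 38422338 0 0) (P.cons (P.lf 7030644 0 0) (P.cons (P.lf 0 3031693 0) (P.lf 0 336854 0)))) (P.cons (P.cons (P.lf 0 12305367 0) (P.cons (P.lf 1805386 0 0) (P.cons (P.lf 0 778503 0) (P.lf 0 86500 0)))) (P.cons (P.cons (P.lf 3931914 0 0) (P.cons (P.lf 0 363083 0) (P.cons (P.lf 156566 0 0) P.nil))) (P.cons (P.cons (P.lf 0 241821 0) (P.cons (P.lf 0 69479 0) P.nil)) (P.cons (P.cons (P.lf 0 116382 0) P.nil) P.nil)))))) 142245)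
 (EL.cons 8 (TM.mk (P.cons (P.cons (P.lf 0 73771549 0) (P.cons (P.lf 0 24056501 0) (P.cons (P.lf 10373434 0 0) (P.lf 1152603 0 0)))) (P.cons (P.cons (P.lf 14509380 0 0) (P.cons (P.lf 72911 0 0) (P.cons (P.lf 0 31440 0) (P.lf 0 3493 0)))) (P.cons (P.cons (P.lf 0 5743684 0) (P.cons (P.lf 1916821 0 0) (P.cons (P.lf 0 826555 0) (P.lf 0 91839 0)))) (P.cons (P.cons (P.lf 1572672 0 0) (P.cons (P.lf 117380 0 0) (P.cons (P.lf 0 50615 0) P.nil))) (P.cons (P.cons (P.lf 304597 0 0) (P.cons (P.lf 0 55915 0) P.nil)) (P.cons (P.cons (P.lf 0 61659 0) P.nil) P.nil)))))) 85094)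
 EL.nil))
noncomputable def S169_198_660_808_20 : EL := (EL.cons 4 (TM.mk (P.cons (P.cons (P.lf 13802646 0 0) (P.cons (P.lf 9001935 0 0) (P.cons (P.lf 0 2413995 0) (P.cons (P.lf 0 1697116 0) (P.cons (P.lf 132270 0 0) (P.cons (P.lf 60647 0 0) P.nil)))))) (P.cons (P.cons (P.lf 0 5408489 0) (P.cons (P.lf 0 1784141 0) (P.cons (P.lf 762668 0 0) (P.cons (P.lf 91236 0 0) (P.cons (P.lf 0 600 0) P.nil))))) (P.cons (P.cons (P.lf 3224929 0 0) (P.cons (P.lf 344905 0 0) (P.cons (P.lf 0 324146 0) (P.cons (P.lf 134760 0 0) P.nil)))) (P.cons (P.cons (P.lf 0 1187300 0) (P.cons (P.lf 0 144932 0) (P.cons (P.lf 52020 0 0) P.nil))) (P.cons (P.cons (P.lf 193563 0 0) (P.cons (P.lf 0 57090 0) P.nil)) (P.cons (P.cons (P.lf 0 37869 0) P.nil) P.nil)))))) 553266)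
 (EL.cons 8 (TM.mk (P.cons (P.cons (P.lf 11693714 0 0) (P.cons (P.lf 7626513 0 0) (P.cons (P.lf 0 2045156 0) (P.cons (P.lf 0 1437811 0) (P.cons (P.lf 112060 0 0) (P.cons (P.lf 51381 0 0) P.nil)))))) (P.cons (P.cons (P.lf 0 1722179 0) (P.cons (P.lf 353680 0 0) (P.cons (P.lf 145954 0 0) (P.cons (P.lf 0 274349 0) (P.cons (P.lf 26897 0 0) P.nil))))) (P.cons (P.cons (P.lf 2131404 0 0) (P.cons (P.lf 261581 0 0) (P.cons (P.lf 0 207514 0) (P.cons (P.lf 69153 0 0) P.nil)))) (P.cons (P.cons (P.lf 0 437412 0) (P.cons (P.lf 0 50711 0) (P.cons (P.lf 0 12550 0) P.nil))) (P.cons (P.cons (P.lf 19495 0 0) (P.cons (P.lf 0 65285 0) P.nil)) (P.cons (P.cons (P.lf 0 16392 0) P.nil) P.nil)))))) 347353)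
 EL.nil))
noncomputable def S169_198_660_808_21 : EL := (EL.cons 4 (TM.mk (P.cons (P.cons (P.lf 200366592 0 0) (P.cons (P.lf 321435789 0 0) (P.cons (P.lf 0 138606735 0) (P.lf 0 15400740 0)))) (P.cons (P.cons (P.lf 934632018 0 0) (P.cons (P.lf 25555077 0 0) (P.cons (P.lf 0 11019636 0) (P.lf 0 1224402 0)))) (P.cons (P.cons (P.lf 70935174 0 0) (P.cons (P.lf 0 14500866 0) (P.cons (P.lf 6252942 0 0) (P.lf 694767 0 0)))) (P.cons (P.cons (P.lf 0 27781782 0) (P.cons (P.lf 0 1993887 0) (P.cons (P.lf 859782 0 0) P.nil))) (P.cons (P.cons (P.lf 0 3269943 0) (P.cons (P.lf 118671 0 0) P.nil)) (P.cons (P.cons (P.lf 213882 0 0) P.nil) P.nil)))))) 382206)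
 (EL.cons 8 (TM.mk (P.cons (P.cons (P.lf 0 84089682 0) (P.cons (P.lf 0 134899893 0) (P.cons (P.lf 58170357 0 0) (P.lf 6463377 0 0)))) (P.cons (P.cons (P.lf 0 371679687 0) (P.cons (P.lf 22267584 0 0) (P.cons (P.lf 0 9602031 0) (P.lf 0 1066890 0)))) (P.cons (P.cons (P.lf 64870212 0 0) (P.cons (P.lf 6636969 0 0) (P.cons (P.lf 0 2861931 0) (P.lf 0 317991 0)))) (P.cons (P.cons (P.lf 13065546 0 0) (P.cons (P.lf 0 576906 0) (P.cons (P.lf 248766 0 0) P.nil))) (P.cons (P.cons (P.lf 0 1252758 0) (P.cons (P.lf 0 161865 0) P.nil)) (P.cons (P.cons (P.lf 0 250155 0) P.nil) P.nil)))))) 282984)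
 (EL.cons 11 (TM.mk (P.cons (P.cons (P.lf 850896120 0 0) (P.cons (P.lf 0 792688452 0) (P.cons (P.lf 0 81355620 0) (P.cons (P.lf 16919706 0 0) (P.lf 1409973 0 0))))) (P.cons (P.cons (P.lf 137876364 0 0) (P.cons (P.lf 0 128444586 0) (P.cons (P.lf 0 13182591 0) (P.cons (P.lf 2741610 0 0) (P.lf 228465 0 0))))) (P.cons (P.cons (P.lf 0 3177069 0) (P.cons (P.lf 2959734 0 0) (P.cons (P.lf 303765 0 0) (P.cons (P.lf 0 63174 0) P.nil)))) (P.cons (P.cons (P.lf 0 1531806 0) (P.cons (P.lf 1427019 0 0) (P.cons (P.lf 146457 0 0) P.nil))) (P.cons (P.cons (P.lf 0 42048 0) (P.cons (P.lf 39171 0 0) P.nil)) (P.cons (P.cons (P.lf 7458 0 0) P.nil) P.nil)))))) 52527)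
 EL.nil)))
noncomputable def S169_198_660_808_22 : EL := (EL.cons 4 (TM.mk (P.cons (P.cons (P.lf 0 31760613 0) (P.cons (P.lf 0 61308564 0) (P.cons (P.lf 9821904 0 0) (P.cons (P.lf 17266620 0 0) (P.cons (P.lf 0 1497321 0) (P.cons (P.lf 0 686544 0) P.nil)))))) (P.cons (P.cons (P.lf 0 149720049 0) (P.cons (P.lf 0 57396621 0) (P.cons (P.lf 19390758 0 0) (P.cons (P.lf 7371996 0 0) (P.cons (P.lf 0 482973 0) P.nil))))) (P.cons (P.cons (P.lf 0 22188444 0) (P.cons (P.lf 0 19169493 0) (P.cons (P.lf 8624055 0 0) (P.cons (P.lf 609747 0 0) P.nil)))) (P.cons (P.cons (P.lf 0 13139835 0) (P.cons (P.lf 214458 0 0) (P.cons (P.lf 243981 0 0) P.nil))) (P.cons (P.cons (P.lf 0 870633 0) (P.cons (P.lf 997878 0 0) P.nil)) (P.cons (P.cons (P.lf 697695 0 0) P.nil) P.nil)))))) 2278503)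
 (EL.cons 8 (TM.mk (P.cons (P.cons (P.lf 13329267 0 0) (P.cons (P.lf 25729923 0 0) (P.cons (P.lf 0 4122048 0) (P.cons (P.lf 0 7246440 0) (P.cons (P.lf 628392 0 0) (P.cons (P.lf 288126 0 0) P.nil)))))) (P.cons (P.cons (P.lf 59574432 0 0) (P.cons (P.lf 17795385 0 0) (P.cons (P.lf 0 7129764 0) (P.cons (P.lf 0 1321608 0) (P.cons (P.lf 49005 0 0) P.nil))))) (P.cons (P.cons (P.lf 0 5850693 0) (P.cons (P.lf 2548935 0 0) (P.cons (P.lf 0 1692351 0) (P.cons (P.lf 389481 0 0) P.nil)))) (P.cons (P.cons (P.lf 4178403 0 0) (P.cons (P.lf 0 1733304 0) (P.cons (P.lf 665121 0 0) P.nil))) (P.cons (P.cons (P.lf 0 949827 0) (P.cons (P.lf 0 312174 0) P.nil)) (P.cons (P.cons (P.lf 0 304926 0) P.nil) P.nil)))))) 1162737)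
 (EL.cons 11 (TM.mk (P.cons (P.cons (P.lf 0 134877696 0) (P.cons (P.lf 81668166 0 0) (P.cons (P.lf 72835926 0 0) (P.cons (P.lf 0 14037888 0) (P.cons (P.lf 0 4874607 0) (P.cons (P.lf 102762 0 0) P.nil)))))) (P.cons (P.cons (P.lf 0 28518888 0) (P.cons (P.lf 8750883 0 0) (P.cons (P.lf 27007947 0 0) (P.cons (P.lf 0 5167266 0) (P.cons (P.lf 0 1931382 0) P.nil))))) (P.cons (P.cons (P.lf 0 15969582 0) (P.cons (P.lf 13122435 0 0) (P.cons (P.lf 3918201 0 0) (P.cons (P.lf 0 770592 0) P.nil)))) (P.cons (P.cons (P.lf 0 2565495 0) (P.cons (P.lf 2629254 0 0) (P.cons (P.lf 0 80772 0) P.nil))) (P.cons (P.cons (P.lf 229236 0 0) (P.cons (P.lf 0 155934 0) P.nil)) (P.cons (P.cons (P.lf 75255 0 0) P.nil) P.nil)))))) 1195353)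
 EL.nil)))
noncomputable def S169_198_660_808_23 : EL := (EL.cons 4 (TM.mk (P.cons (P.cons (P.lf 0 103147803 0) (P.cons (P.lf 0 165473673 0) (P.cons (P.lf 71354112 0 0) (P.lf 7928229 0 0)))) (P.cons (P.cons (P.lf 0 464274249 0) (P.cons (P.lf 13907925 0 0) (P.cons (P.lf 0 5997255 0) (P.lf 0 666360 0)))) (P.cons (P.cons (P.lf 43165875 0 0) (P.cons (P.lf 11206137 0 0) (P.cons (P.lf 0 4832214 0) (P.lf 0 536910 0)))) (P.cons (P.cons (P.lf 24870843 0 0) (P.cons (P.lf 0 108801 0) (P.cons (P.lf 46917 0 0) P.nil))) (P.cons (P.cons (P.lf 0 427872 0) (P.cons (P.lf 0 311187 0) P.nil)) (P.cons (P.cons (P.lf 0 553017 0) P.nil) P.nil)))))) 480711)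
 (EL.cons 8 (TM.mk (P.cons (P.cons (P.lf 43288983 0 0) (P.cons (P.lf 69445848 0 0) (P.cons (P.lf 0 29945832 0) (P.lf 0 3327315 0)))) (P.cons (P.cons (P.lf 184258998 0 0) (P.cons (P.lf 0 22821261 0) (P.cons (P.lf 9840783 0 0) (P.lf 1093419 0 0)))) (P.cons (P.cons (P.lf 0 65104611 0) (P.cons (P.lf 0 2208933 0) (P.cons (P.lf 952515 0 0) (P.lf 105834 0 0)))) (P.cons (P.cons (P.lf 0 3091617 0) (P.cons (P.lf 982992 0 0) (P.cons (P.lf 0 423873 0) P.nil))) (P.cons (P.cons (P.lf 2114739 0 0) (P.cons (P.lf 67806 0 0) P.nil)) (P.cons (P.cons (P.lf 88140 0 0) P.nil) P.nil)))))) 296706)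
 (EL.cons 11 (TM.mk (P.cons (P.cons (P.lf 0 438037431 0) (P.cons (P.lf 408072390 0 0) (P.cons (P.lf 41881500 0 0) (P.cons (P.lf 0 8710185 0) (P.lf 0 725847 0))))) (P.cons (P.cons (P.lf 663810 0 0) (P.cons (P.lf 0 618402 0) (P.cons (P.lf 0 63468 0) (P.cons (P.lf 13200 0 0) (P.lf 1101 0 0))))) (P.cons (P.cons (P.lf 17451912 0 0) (P.cons (P.lf 0 16258071 0) (P.cons (P.lf 0 1668606 0) (P.cons (P.lf 347022 0 0) P.nil)))) (P.cons (P.cons (P.lf 1095123 0 0) (P.cons (P.lf 0 1020210 0) (P.cons (P.lf 0 104706 0) P.nil))) (P.cons (P.cons (P.lf 0 159759 0) (P.cons (P.lf 148830 0 0) P.nil)) (P.cons (P.cons (P.lf 0 17982 0) P.nil) P.nil)))))) 115914)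
 EL.nil)))
noncomputable def S169_198_660_808_24 : EL := (EL.cons 4 (TM.mk (P.cons (P.cons (P.lf 16350219 0 0) (P.cons (P.lf 31561368 0 0) (P.cons (P.lf 0 5056269 0) (P.cons (P.lf 0 8888775 0) (P.cons (P.lf 770814 0 0) (P.cons (P.lf 353430 0 0) P.nil)))))) (P.cons (P.cons (P.lf 74401083 0 0) (P.cons (P.lf 24385590 0 0) (P.cons (P.lf 0 9155307 0) (P.cons (P.lf 0 2341290 0) (P.cons (P.lf 122562 0 0) P.nil))))) (P.cons (P.cons (P.lf 0 1340355 0) (P.cons (P.lf 4732632 0 0) (P.cons (P.lf 0 2758431 0) (P.cons (P.lf 392181 0 0) P.nil)))) (P.cons (P.cons (P.lf 4159794 0 0) (P.cons (P.lf 0 2000460 0) (P.cons (P.lf 695151 0 0) P.nil))) (P.cons (P.cons (P.lf 0 748164 0) (P.cons (P.lf 0 581784 0) P.nil)) (P.cons (P.cons (P.lf 0 491238 0) P.nil) P.nil)))))) 1452246)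
 (EL.cons 8 (TM.mk (P.cons (P.cons (P.lf 0 6861846 0) (P.cons (P.lf 0 13245645 0) (P.cons (P.lf 2122011 0 0) (P.cons (P.lf 3730434 0 0) (P.cons (P.lf 0 323493 0) (P.cons (P.lf 0 148326 0) P.nil)))))) (P.cons (P.cons (P.lf 0 29546376 0) (P.cons (P.lf 0 6994629 0) (P.cons (P.lf 3323310 0 0) (P.cons (P.lf 70236 0 0) (P.cons (P.lf 27678 0 0) P.nil))))) (P.cons (P.cons (P.lf 8093745 0 0) (P.cons (P.lf 313353 0 0) (P.cons (P.lf 250533 0 0) (P.cons (P.lf 0 347610 0) P.nil)))) (P.cons (P.cons (P.lf 0 2350713 0) (P.cons (P.lf 1191648 0 0) (P.cons (P.lf 0 519627 0) P.nil))) (P.cons (P.cons (P.lf 803991 0 0) (P.cons (P.lf 24537 0 0) P.nil)) (P.cons (P.cons (P.lf 97053 0 0) P.nil) P.nil)))))) 744264)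
 (EL.cons 11 (TM.mk (P.cons (P.cons (P.lf 69434421 0 0) (P.cons (P.lf 0 42042399 0) (P.cons (P.lf 0 37495599 0) (P.cons (P.lf 7226640 0 0) (P.cons (P.lf 2509425 0 0) (P.cons (P.lf 0 52899 0) P.nil)))))) (P.cons (P.cons (P.lf 3325248 0 0) (P.cons (P.lf 2371206 0 0) (P.cons (P.lf 0 7771083 0) (P.cons (P.lf 1478151 0 0) (P.cons (P.lf 583842 0 0) P.nil))))) (P.cons (P.cons (P.lf 5152914 0 0) (P.cons (P.lf 0 5614725 0) (P.cons (P.lf 617061 0 0) (P.cons (P.lf 0 107781 0) P.nil)))) (P.cons (P.cons (P.lf 0 147813 0) (P.cons (P.lf 0 215742 0) (P.cons (P.lf 495810 0 0) P.nil))) (P.cons (P.cons (P.lf 0 406320 0) (P.cons (P.lf 363579 0 0) P.nil)) (P.cons (P.cons (P.lf 0 29409 0) P.nil) P.nil)))))) 860493)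
 EL.nil)))
noncomputable def S169_198_660_808_25 : EL := (EL.cons 4 (TM.mk (P.cons (P.cons (P.lf 53100018 0 0) (P.cons (P.lf 85185090 0 0) (P.cons (P.lf 0 36732771 0) (P.lf 0 4081416 0)))) (P.cons (P.cons (P.lf 230321640 0 0) (P.cons (P.lf 0 21091935 0) (P.cons (P.lf 9095079 0 0) (P.lf 1010562 0 0)))) (P.cons (P.cons (P.lf 0 61821639 0) (P.cons (P.lf 0 5416158 0) (P.cons (P.lf 2335509 0 0) (P.lf 259497 0 0)))) (P.cons (P.cons (P.lf 0 11451819 0) (P.cons (P.lf 1089252 0 0) (P.cons (P.lf 0 469698 0) P.nil))) (P.cons (P.cons (P.lf 2588877 0 0) (P.cons (P.lf 208437 0 0) P.nil)) (P.cons (P.cons (P.lf 376734 0 0) P.nil) P.nil)))))) 425301)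
 (EL.cons 8 (TM.mk (P.cons (P.cons (P.lf 0 22284969 0) (P.cons (P.lf 0 35750403 0) (P.cons (P.lf 15415977 0 0) (P.lf 1712886 0 0)))) (P.cons (P.cons (P.lf 0 91210935 0) (P.cons (P.lf 17595333 0 0) (P.cons (P.lf 0 7587306 0) (P.lf 0 843033 0)))) (P.cons (P.cons (P.lf 49243467 0 0) (P.cons (P.lf 0 440889 0) (P.cons (P.lf 190116 0 0) (P.lf 21123 0 0)))) (P.cons (P.cons (P.lf 0 2984292 0) (P.cons (P.lf 0 813669 0) (P.cons (P.lf 350862 0 0) P.nil))) (P.cons (P.cons (P.lf 0 1695219 0) (P.cons (P.lf 38250 0 0) P.nil)) (P.cons (P.cons (P.lf 121446 0 0) P.nil) P.nil)))))) 248247)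
 (EL.cons 11 (TM.mk (P.cons (P.cons (P.lf 225499665 0 0) (P.cons (P.lf 0 210073800 0) (P.cons (P.lf 0 21560403 0) (P.cons (P.lf 4483962 0 0) (P.lf 373662 0 0))))) (P.cons (P.cons (P.lf 0 37222665 0) (P.cons (P.lf 34676358 0 0) (P.cons (P.lf 3558921 0 0) (P.cons (P.lf 0 740157 0) (P.lf 0 61680 0))))) (P.cons (P.cons (P.lf 0 11094405 0) (P.cons (P.lf 10335465 0 0) (P.cons (P.lf 1060755 0 0) (P.cons (P.lf 0 220605 0) P.nil)))) (P.cons (P.cons (P.lf 964365 0 0) (P.cons (P.lf 0 898395 0) (P.cons (P.lf 0 92205 0) P.nil))) (P.cons (P.cons (P.lf 270582 0 0) (P.cons (P.lf 0 252072 0) P.nil)) (P.cons (P.cons (P.lf 0 843 0) P.nil) P.nil)))))) 126204)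
 EL.nil)))
noncomputable def S169_198_660_808_26 : EL := (EL.cons 4 (TM.mk (P.cons (P.cons (P.lf 0 8417016 0) (P.cons (P.lf 0 16247646 0) (P.cons (P.lf 2602944 0 0) (P.cons (P.lf 4575900 0 0) (P.cons (P.lf 0 396810 0) (P.cons (P.lf 0 181944 0) P.nil)))))) (P.cons (P.cons (P.lf 0 36924717 0) (P.cons (P.lf 0 9896253 0) (P.cons (P.lf 4287393 0 0) (P.cons (P.lf 456888 0 0) (P.cons (P.lf 1803 0 0) P.nil))))) (P.cons (P.cons (P.lf 7035126 0 0) (P.cons (P.lf 0 227097 0) (P.cons (P.lf 624183 0 0) (P.cons (P.lf 0 442974 0) P.nil)))) (P.cons (P.cons (P.lf 0 1888446 0) (P.cons (P.lf 1544886 0 0) (P.cons (P.lf 0 634743 0) P.nil))) (P.cons (P.cons (P.lf 718968 0 0) (P.cons (P.lf 150669 0 0) P.nil)) (P.cons (P.cons (P.lf 208944 0 0) P.nil) P.nil)))))) 920571)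
 (EL.cons 8 (TM.mk (P.cons (P.cons (P.lf 3532446 0 0) (P.cons (P.lf 6818796 0 0) (P.cons (P.lf 0 1092402 0) (P.cons (P.lf 0 1920411 0) (P.cons (P.lf 166533 0 0) (P.cons (P.lf 76356 0 0) P.nil)))))) (P.cons (P.cons (P.lf 14632599 0 0) (P.cons (P.lf 2485572 0 0) (P.cons (P.lf 0 1532160 0) (P.cons (P.lf 277929 0 0) (P.cons (P.lf 0 41484 0) P.nil))))) (P.cons (P.cons (P.lf 0 6688236 0) (P.cons (P.lf 0 815730 0) (P.cons (P.lf 161328 0 0) (P.cons (P.lf 203310 0 0) P.nil)))) (P.cons (P.cons (P.lf 1746354 0 0) (P.cons (P.lf 0 619983 0) (P.cons (P.lf 304758 0 0) P.nil))) (P.cons (P.cons (P.lf 0 567888 0) (P.cons (P.lf 90435 0 0) P.nil)) (P.cons (P.cons (P.lf 5751 0 0) P.nil) P.nil)))))) 466230)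
 (EL.cons 11 (TM.mk (P.cons (P.cons (P.lf 0 35744520 0) (P.cons (P.lf 21643233 0 0) (P.cons (P.lf 19302564 0 0) (P.cons (P.lf 0 3720240 0) (P.cons (P.lf 0 1291839 0) (P.cons (P.lf 27231 0 0) P.nil)))))) (P.cons (P.cons (P.lf 4134267 0 0) (P.cons (P.lf 0 4760481 0) (P.cons (P.lf 843543 0 0) (P.cons (P.lf 0 152493 0) (P.cons (P.lf 0 89277 0) P.nil))))) (P.cons (P.cons (P.lf 0 2029365 0) (P.cons (P.lf 2882175 0 0) (P.cons (P.lf 0 1157373 0) (P.cons (P.lf 215676 0 0) P.nil)))) (P.cons (P.cons (P.lf 517599 0 0) (P.cons (P.lf 0 344622 0) (P.cons (P.lf 0 236967 0) P.nil))) (P.cons (P.cons (P.lf 220215 0 0) (P.cons (P.lf 0 232446 0) P.nil)) (P.cons (P.cons (P.lf 0 20553 0) P.nil) P.nil)))))) 552969)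
 EL.nil)))
noncomputable def S169_198_660_808_27 : EL := (EL.cons 13 (TM.mk (P.lf 0 4294967296 0) 0)
 EL.nil)
noncomputable def S169_198_660_808_28 : EL := (EL.cons 13 (TM.mk (P.cons (P.cons (P.lf 680806137 0 0) (P.cons (P.lf 222007180 0 0) (P.cons (P.lf 0 95732000 0) (P.lf 0 10636884 0)))) (P.cons (P.cons (P.lf 33635864 0 0) (P.cons (P.lf 53959952 0 0) (P.cons (P.lf 0 23268140 0) (P.lf 0 2585348 0)))) (P.cons (P.cons (P.lf 77699523 0 0) (P.cons (P.lf 942480 0 0) (P.cons (P.lf 0 406404 0) (P.lf 0 45156 0)))) (P.cons (P.cons (P.lf 1710572 0 0) (P.cons (P.lf 0 759260 0) (P.cons (P.lf 327400 0 0) P.nil))) (P.cons (P.cons (P.lf 0 1049965 0) (P.cons (P.lf 0 56196 0) P.nil)) (P.cons (P.cons (P.lf 0 67774 0) P.nil) P.nil)))))) 89705)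
 EL.nil)
noncomputable def S169_198_660_808_29 : EL := (EL.cons 13 (TM.mk (P.cons (P.cons (P.lf 0 107916303 0) (P.cons (P.lf 0 70381840 0) (P.cons (P.lf 18873875 0 0) (P.cons (P.lf 13268947 0 0) (P.cons (P.lf 0 1034160 0) (P.cons (P.lf 0 474178 0) P.nil)))))) (P.cons (P.cons (P.lf 0 10663411 0) (P.cons (P.lf 0 20583937 0) (P.cons (P.lf 3297638 0 0) (P.cons (P.lf 5797152 0 0) (P.cons (P.lf 0 502715 0) P.nil))))) (P.cons (P.cons (P.lf 0 24896114 0) (P.cons (P.lf 0 9176548 0) (P.cons (P.lf 3181668 0 0) (P.cons (P.lf 1108358 0 0) P.nil)))) (P.cons (P.cons (P.lf 0 1759295 0) (P.cons (P.lf 0 1903257 0) (P.cons (P.lf 875517 0 0) P.nil))) (P.cons (P.cons (P.lf 0 1099576 0) (P.cons (P.lf 61171 0 0) P.nil)) (P.cons (P.cons (P.lf 0 23959 0) P.nil) P.nil)))))) 1078328)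
 EL.nil)
noncomputable def S169_198_660_808_30 : EL := (EL.cons 13 (TM.mk (P.cons (P.lf 2211029524 0 0) (P.cons (P.lf 0 361618480 0) (P.cons (P.lf 0 21238980 0) (P.cons (P.lf 543904 0 0) (P.cons (P.lf 97232 0 0) (P.cons (P.lf 1560 0 0) P.nil)))))) 512)
 EL.nil)
noncomputable def S169_198_660_808_31 : EL := (EL.cons 13 (TM.mk (P.cons (P.cons (P.lf 0 350475886 0) (P.cons (P.lf 0 114288281 0) (P.cons (P.lf 49282395 0 0) (P.lf 5475819 0 0)))) (P.cons (P.cons (P.lf 40005471 0 0) (P.cons (P.lf 0 9086250 0) (P.cons (P.lf 3918093 0 0) (P.lf 435343 0 0)))) (P.cons (P.cons (P.lf 0 33800714 0) (P.cons (P.lf 5155864 0 0) (P.cons (P.lf 0 2223269 0) (P.lf 0 247029 0)))) (P.cons (P.cons (P.lf 5741500 0 0) (P.cons (P.lf 708938 0 0) (P.cons (P.lf 0 305701 0) P.nil))) (P.cons (P.cons (P.lf 1049098 0 0) (P.cons (P.lf 0 42195 0) P.nil)) (P.cons (P.cons (P.lf 0 55902 0) P.nil) P.nil))))))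 133940)
 EL.nil)
noncomputable def S169_198_660_808_32 : EL := (EL.cons 13 (TM.mk (P.cons (P.cons (P.lf 55554819 0 0) (P.cons (P.lf 36232249 0 0) (P.cons (P.lf 0 9716184 0) (P.cons (P.lf 0 6830793 0) (P.cons (P.lf 532380 0 0) (P.cons (P.lf 244104 0 0) P.nil)))))) (P.cons (P.cons (P.lf 0 3596631 0) (P.cons (P.lf 4670656 0 0) (P.cons (P.lf 0 108506 0) (P.cons (P.lf 0 1867156 0) (P.cons (P.lf 171723 0 0) P.nil))))) (P.cons (P.cons (P.lf 11384935 0 0) (P.cons (P.lf 2642918 0 0) (P.cons (P.lf 0 1266927 0) (P.cons (P.lf 0 16865 0) P.nil)))) (P.cons (P.cons (P.lf 0 1229538 0) (P.cons (P.lf 114284 0 0) (P.cons (P.lf 0 168911 0) P.nil))) (P.cons (P.cons (P.lf 298611 0 0) (P.cons (P.lf 0 232915 0) P.nil)) (P.cons (P.cons (P.lf 0 85512 0) P.nil) P.nil)))))) 995367)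
 EL.nil)
noncomputable def S169_198_660_808_33 : EL := (EL.cons 14 (TM.mk (P.lf 8589934592 0 0) 0)
 EL.nil)
noncomputable def S169_198_660_808_34 : EL := (EL.cons 14 (TM.mk (P.cons (P.cons (P.lf 0 1361612274 0) (P.cons (P.lf 0 444014360 0) (P.cons (P.lf 191464000 0 0) (P.lf 21273768 0 0)))) (P.cons (P.cons (P.lf 0 67271728 0) (P.cons (P.lf 0 107919904 0) (P.cons (P.lf 46536280 0 0) (P.lf 5170696 0 0)))) (P.cons (P.cons (P.lf 0 155399046 0) (P.cons (P.lf 0 1884960 0) (P.cons (P.lf 812808 0 0) (P.lf 90312 0 0)))) (P.cons (P.cons (P.lf 0 3421144 0) (P.cons (P.lf 1518520 0 0) (P.cons (P.lf 0 654800 0) P.nil))) (P.cons (P.cons (P.lf 2099930 0 0) (P.cons (P.lf 112392 0 0) P.nil)) (P.cons (P.cons (P.lf 135548 0 0) P.nil) P.nil)))))) 179410)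
 EL.nil)
noncomputable def S169_198_660_808_35 : EL := (EL.cons 14 (TM.mk (P.cons (P.cons (P.lf 215832606 0 0) (P.cons (P.lf 140763680 0 0) (P.cons (P.lf 0 37747750 0) (P.cons (P.lf 0 26537894 0) (P.cons (P.lf 2068320 0 0) (P.cons (P.lf 948356 0 0) P.nil)))))) (P.cons (P.cons (P.lf 21326822 0 0) (P.cons (P.lf 41167874 0 0) (P.cons (P.lf 0 6595276 0) (P.cons (P.lf 0 11594304 0) (P.cons (P.lf 1005430 0 0) P.nil))))) (P.cons (P.cons (P.lf 49792228 0 0) (P.cons (P.lf 18353096 0 0) (P.cons (P.lf 0 6363336 0) (P.cons (P.lf 0 2216716 0) P.nil)))) (P.cons (P.cons (P.lf 3518590 0 0) (P.cons (P.lf 3806514 0 0) (P.cons (P.lf 0 1751034 0) P.nil))) (P.cons (P.cons (P.lf 2199152 0 0) (P.cons (P.lf 0 122342 0) P.nil)) (P.cons (P.cons (P.lf 47918 0 0) P.nil) P.nil)))))) 2156656)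
 EL.nil)
noncomputable def S169_198_660_808_36 : EL := (EL.cons 14 (TM.mk (P.cons (P.lf 0 4422059048 0) (P.cons (P.lf 723236960 0 0) (P.cons (P.lf 42477960 0 0) (P.cons (P.lf 0 1087808 0) (P.cons (P.lf 0 194464 0) (P.cons (P.lf 0 3120 0) P.nil)))))) 1024)
 EL.nil)
noncomputable def S169_198_660_808_37 : EL := (EL.cons 14 (TM.mk (P.cons (P.cons (P.lf 700951772 0 0) (P.cons (P.lf 228576562 0 0) (P.cons (P.lf 0 98564790 0) (P.lf 0 10951638 0)))) (P.cons (P.cons (P.lf 0 80010942 0) (P.cons (P.lf 18172500 0 0) (P.cons (P.lf 0 7836186 0) (P.lf 0 870686 0)))) (P.cons (P.cons (P.lf 67601428 0 0) (P.cons (P.lf 0 10311728 0) (P.cons (P.lf 4446538 0 0) (P.lf 494058 0 0)))) (P.cons (P.cons (P.lf 0 11483000 0) (P.cons (P.lf 0 1417876 0) (P.cons (P.lf 611402 0 0) P.nil))) (P.cons (P.cons (P.lf 0 2098196 0) (P.cons (P.lf 84390 0 0) P.nil)) (P.cons (P.cons (P.lf 111804 0 0) P.nil)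 P.nil)))))) 267880)
 EL.nil)
noncomputable def S169_198_660_808_38 : EL := (EL.cons 14 (TM.mk (P.cons (P.cons (P.lf 0 111109638 0) (P.cons (P.lf 0 72464498 0) (P.cons (P.lf 19432368 0 0) (P.cons (P.lf 13661586 0 0) (P.cons (P.lf 0 1064760 0) (P.cons (P.lf 0 488208 0) P.nil)))))) (P.cons (P.cons (P.lf 7193262 0 0) (P.cons (P.lf 0 9341312 0) (P.cons (P.lf 217012 0 0) (P.cons (P.lf 3734312 0 0) (P.cons (P.lf 0 343446 0) P.nil))))) (P.cons (P.cons (P.lf 0 22769870 0) (P.cons (P.lf 0 5285836 0) (P.cons (P.lf 2533854 0 0) (P.cons (P.lf 33730 0 0) P.nil)))) (P.cons (P.cons (P.lf 2459076 0 0) (P.cons (P.lf 0 228568 0) (P.cons (P.lf 337822 0 0) P.nil))) (P.cons (P.cons (P.lf 0 597222 0) (P.cons (P.lf 465830 0 0) P.nil)) (P.cons (P.cons (P.lf 171024 0 0) P.nil) P.nil)))))) 1990734)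
 EL.nil)
noncomputable def S169_198_660_808_39 : EL := (EL.cons 14 (TM.mk (P.cons (P.lf 2276455776 0 0) (P.cons (P.lf 0 744638158 0) (P.cons (P.lf 17158640 0 0) (P.cons (P.lf 8272934 0 0) (P.cons (P.lf 227096 0 0) (P.cons (P.lf 0 40292 0) P.nil)))))) 3922)
 EL.nil)
noncomputable def S169_198_660_808_40 : EL := (EL.cons 14 (TM.mk (P.cons (P.cons (P.lf 0 360846766 0) (P.cons (P.lf 0 117670168 0) (P.cons (P.lf 50740704 0 0) (P.lf 5637852 0 0)))) (P.cons (P.cons (P.lf 100206506 0 0) (P.cons (P.lf 9890080 0 0) (P.cons (P.lf 0 4264714 0) (P.lf 0 473856 0)))) (P.cons (P.cons (P.lf 0 38071228 0) (P.cons (P.lf 7968810 0 0) (P.cons (P.lf 0 3436242 0) (P.lf 0 381804 0)))) (P.cons (P.cons (P.lf 11118728 0 0) (P.cons (P.lf 0 77370 0) (P.cons (P.lf 33364 0 0) P.nil))) (P.cons (P.cons (P.lf 441880 0 0) (P.cons (P.lf 0 221292 0) P.nil)) (P.cons (P.cons (P.lf 0 298004 0) P.nil) P.nil))))))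 271804)
 EL.nil)
noncomputable def S169_198_660_808_41 : EL := (EL.cons 14 (TM.mk (P.cons (P.cons (P.lf 57198732 0 0) (P.cons (P.lf 37304392 0 0) (P.cons (P.lf 0 10003694 0) (P.cons (P.lf 0 7032922 0) (P.cons (P.lf 548134 0 0) (P.cons (P.lf 251326 0 0) P.nil)))))) (P.cons (P.cons (P.lf 0 13058030 0) (P.cons (P.lf 0 1292344 0) (P.cons (P.lf 1524406 0 0) (P.cons (P.lf 0 772158 0) (P.cons (P.lf 87156 0 0) P.nil))))) (P.cons (P.cons (P.lf 11778020 0 0) (P.cons (P.lf 1576280 0 0) (P.cons (P.lf 0 1190050 0) (P.cons (P.lf 364606 0 0) P.nil)))) (P.cons (P.cons (P.lf 0 3133408 0) (P.cons (P.lf 0 364396 0) (P.cons (P.lf 38042 0 0) P.nil))) (P.cons (P.cons (P.lf 403496 0 0) (P.cons (P.lf 0 282366 0) P.nil)) (P.cons (P.cons (P.lf 0 123404 0) P.nil) P.nil)))))) 1448908)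
 EL.nil)
noncomputable def S169_198_660_808_42 : EL := (EL.cons 14 (TM.mk (P.cons (P.lf 0 1171909022 0) (P.cons (P.lf 575004478 0 0) (P.cons (P.lf 0 60271372 0) (P.cons (P.lf 0 6784766 0) (P.cons (P.lf 707252 0 0) (P.cons (P.lf 94630 0 0) P.nil)))))) 9404)
 EL.nil)
noncomputable def S169_198_660_808_43 : EL := (EL.cons 14 (TM.mk (P.cons (P.cons (P.lf 185762264 0 0) (P.cons (P.lf 60576064 0 0) (P.cons (P.lf 0 26121082 0) (P.lf 0 2902340 0)))) (P.cons (P.cons (P.lf 0 81967656 0) (P.cons (P.lf 0 14998708 0) (P.cons (P.lf 6467612 0 0) (P.lf 718622 0 0)))) (P.cons (P.cons (P.lf 26251450 0 0) (P.cons (P.lf 0 3851492 0) (P.cons (P.lf 1660808 0 0) (P.lf 184534 0 0)))) (P.cons (P.cons (P.lf 0 8388084 0) (P.cons (P.lf 774578 0 0) (P.cons (P.lf 0 334008 0) P.nil))) (P.cons (P.cons (P.lf 515886 0 0) (P.cons (P.lf 148222 0 0) P.nil)) (P.cons (P.cons (P.lf 248282 0 0) P.nil) P.nil))))))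 303416)
 EL.nil)
noncomputable def S169_198_660_808_44 : EL := (EL.cons 14 (TM.mk (P.cons (P.cons (P.lf 0 29445646 0) (P.cons (P.lf 0 19204130 0) (P.cons (P.lf 5149856 0 0) (P.cons (P.lf 3620516 0 0) (P.cons (P.lf 0 282176 0) (P.cons (P.lf 0 129382 0) P.nil)))))) (P.cons (P.cons (P.lf 11538110 0 0) (P.cons (P.lf 3806168 0 0) (P.cons (P.lf 0 1627026 0) (P.cons (P.lf 0 194638 0) (P.cons (P.lf 1282 0 0) P.nil))))) (P.cons (P.cons (P.lf 0 6879850 0) (P.cons (P.lf 0 735798 0) (P.cons (P.lf 691512 0 0) (P.cons (P.lf 0 287488 0) P.nil)))) (P.cons (P.cons (P.lf 2532908 0 0) (P.cons (P.lf 309190 0 0) (P.cons (P.lf 0 110976 0) P.nil))) (P.cons (P.cons (P.lf 0 412936 0) (P.cons (P.lf 121794 0 0) P.nil)) (P.cons (P.cons (P.lf 80788 0 0) P.nil) P.nil)))))) 1180254)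
 EL.nil)
noncomputable def S169_198_660_808_45 : EL := (EL.cons 14 (TM.mk (P.cons (P.cons (P.lf 0 34212172 0) (P.cons (P.lf 0 33469210 0) (P.cons (P.lf 3518172 0 0) (P.cons (P.lf 9829832 0 0) (P.cons (P.lf 551132 0 0) (P.cons (P.lf 0 942234 0) P.nil)))))) (P.cons (P.cons (P.lf 0 5070852 0) (P.cons (P.lf 0 11442012 0) (P.cons (P.lf 0 910762 0) (P.cons (P.lf 4723762 0 0) (P.cons (P.lf 592332 0 0) P.nil))))) (P.cons (P.cons (P.lf 0 11964302 0) (P.cons (P.lf 0 8667198 0) (P.cons (P.lf 1492228 0 0) (P.cons (P.lf 2126182 0 0) P.nil)))) (P.cons (P.cons (P.lf 0 1419466 0) (P.cons (P.lf 0 2321902 0) (P.cons (P.lf 383998 0 0) P.nil))) (P.cons (P.cons (P.lf 0 1232662 0) (P.cons (P.lf 0 486636 0) P.nil)) (P.cons (P.cons (P.lf 0 99682 0) P.nil) P.nil)))))) 3707816)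
 EL.nil)
noncomputable def S169_198_660_808_46 : EL := (EL.cons 15 (TM.mk (P.lf 4294967296 0 0) 0)
 EL.nil)
noncomputable def S169_198_660_808_47 : EL := (EL.cons 15 (TM.mk (P.cons (P.cons (P.lf 0 680806137 0) (P.cons (P.lf 0 222007180 0) (P.cons (P.lf 95732000 0 0) (P.lf 10636884 0 0)))) (P.cons (P.cons (P.lf 0 33635864 0) (P.cons (P.lf 0 53959952 0) (P.cons (P.lf 23268140 0 0) (P.lf 2585348 0 0)))) (P.cons (P.cons (P.lf 0 77699523 0) (P.cons (P.lf 0 942480 0) (P.cons (P.lf 406404 0 0) (P.lf 45156 0 0)))) (P.cons (P.cons (P.lf 0 1710572 0) (P.cons (P.lf 759260 0 0) (P.cons (P.lf 0 327400 0) P.nil))) (P.cons (P.cons (P.lf 1049965 0 0) (P.cons (P.lf 56196 0 0) P.nil)) (P.cons (P.cons (P.lf 67774 0 0) P.nil) P.nil)))))) 89705)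
 EL.nil)
noncomputable def S169_198_660_808_48 : EL := (EL.cons 15 (TM.mk (P.cons (P.cons (P.lf 107916303 0 0) (P.cons (P.lf 70381840 0 0) (P.cons (P.lf 0 18873875 0) (P.cons (P.lf 0 13268947 0) (P.cons (P.lf 1034160 0 0) (P.cons (P.lf 474178 0 0) P.nil)))))) (P.cons (P.cons (P.lf 10663411 0 0) (P.cons (P.lf 20583937 0 0) (P.cons (P.lf 0 3297638 0) (P.cons (P.lf 0 5797152 0) (P.cons (P.lf 502715 0 0) P.nil))))) (P.cons (P.cons (P.lf 24896114 0 0) (P.cons (P.lf 9176548 0 0) (P.cons (P.lf 0 3181668 0) (P.cons (P.lf 0 1108358 0) P.nil)))) (P.cons (P.cons (P.lf 1759295 0 0) (P.cons (P.lf 1903257 0 0) (P.cons (P.lf 0 875517 0) P.nil))) (P.cons (P.cons (P.lf 1099576 0 0) (P.cons (P.lf 0 61171 0) P.nil)) (P.cons (P.cons (P.lf 23959 0 0) P.nil) P.nil)))))) 1078328)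
 EL.nil)
noncomputable def S169_198_660_808 : SL := (SL.cons S169_198_660_808_0 (SL.cons S169_198_660_808_1 (SL.cons S169_198_660_808_2 (SL.cons S169_198_660_808_3 (SL.cons S169_198_660_808_4 (SL.cons S169_198_660_808_5 (SL.cons S169_198_660_808_6 (SL.cons S169_198_660_808_7 (SL.cons S169_198_660_808_8 (SL.cons S169_198_660_808_9 (SL.cons S169_198_660_808_10 (SL.cons S169_198_660_808_11 (SL.cons S169_198_660_808_12 (SL.cons S169_198_660_808_13 (SL.cons S169_198_660_808_14 (SL.cons S169_198_660_808_15 (SL.cons S169_198_660_808_16 (SL.cons S169_198_660_808_17 (SL.cons S169_198_660_808_18 (SL.cons S169_198_660_808_19 (SL.cons S169_198_660_808_20 (SL.cons S169_198_660_808_21 (SL.cons S169_198_660_808_22 (SL.cons S169_198_660_808_23 (SL.cons S169_198_660_808_24 (SL.cons S169_198_660_808_25 (SL.cons S169_198_660_808_26 (SL.cons S169_198_660_808_27 (SL.cons S169_198_660_808_28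 (SL.cons S169_198_660_808_29 (SL.cons S169_198_660_808_30 (SL.cons S169_198_660_808_31 (SL.cons S169_198_660_808_32 (SL.cons S169_198_660_808_33 (SL.cons S169_198_660_808_34 (SL.cons S169_198_660_808_35 (SL.cons S169_198_660_808_36 (SL.cons S169_198_660_808_37 (SL.cons S169_198_660_808_38 (SL.cons S169_198_660_808_39 (SL.cons S169_198_660_808_40 (SL.cons S169_198_660_808_41 (SL.cons S169_198_660_808_42 (SL.cons S169_198_660_808_43 (SL.cons S169_198_660_808_44 (SL.cons S169_198_660_808_45 (SL.cons S169_198_660_808_46 (SL.cons S169_198_660_808_47 (SL.cons S169_198_660_808_48 SL.nil)))))))))))))))))))))))))))))))))))))))))))))))))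
noncomputable def S169_198_734_808_0 : EL := (EL.cons 0 (TM.mk (P.cons (P.lf 6454925654 0 0) (P.cons (P.lf 654467131 0 0) (P.cons (P.lf 0 15080835 0) (P.cons (P.lf 0 7271133 0) (P.cons (P.lf 0 199596 0) (P.cons (P.lf 35412 0 0) P.nil)))))) 3454)
 (EL.cons 1 (TM.mk (P.cons (P.lf 0 1695086628 0) (P.cons (P.lf 139901857 0 0) (P.cons (P.lf 47471786 0 0) (P.cons (P.lf 293435 0 0) (P.cons (P.lf 0 328029 0) (P.cons (P.lf 0 15684 0) P.nil)))))) 1940)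
 (EL.cons 5 (TM.mk (P.cons (P.lf 5006359730 0 0) (P.cons (P.lf 0 232699422 0) (P.cons (P.lf 5362070 0 0) (P.cons (P.lf 2585292 0 0) (P.cons (P.lf 70970 0 0) (P.cons (P.lf 0 12590 0) P.nil)))))) 1169)
 (EL.cons 9 (TM.mk (P.lf 6442450944 0 0) 2)
 EL.nil))))
noncomputable def S169_198_734_808_1 : EL := (EL.cons 0 (TM.mk (P.cons (P.cons (P.lf 0 838818826 0) (P.cons (P.lf 0 6232390 0) (P.cons (P.lf 2942069 0 0) (P.lf 140100 0 0)))) (P.cons (P.cons (P.lf 661764794 0 0) (P.cons (P.lf 0 37567161 0) (P.cons (P.lf 17734000 0 0) (P.lf 844472 0 0)))) (P.cons (P.cons (P.lf 0 211982276 0) (P.cons (P.lf 0 7958399 0) (P.cons (P.lf 3756847 0 0) (P.lf 178887 0 0)))) (P.cons (P.cons (P.lf 0 59090479 0) (P.cons (P.lf 470719 0 0) (P.cons (P.lf 0 222206 0) P.nil))) (P.cons (P.cons (P.lf 2824195 0 0) (P.cons (P.lf 236747 0 0) P.nil)) (P.cons (P.cons (P.lf 1444717 0 0) P.nil) P.nil))))))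 463123)
 (EL.cons 1 (TM.mk (P.cons (P.cons (P.lf 369488792 0 0) (P.cons (P.lf 41014436 0 0) (P.cons (P.lf 0 19361326 0) (P.lf 0 921961 0)))) (P.cons (P.cons (P.lf 228988709 0 0) (P.cons (P.lf 15068250 0 0) (P.cons (P.lf 0 7113129 0) (P.lf 0 338712 0)))) (P.cons (P.cons (P.lf 139716763 0 0) (P.cons (P.lf 0 2005642 0) (P.cons (P.lf 946784 0 0) (P.lf 45083 0 0)))) (P.cons (P.cons (P.lf 0 11657889 0) (P.cons (P.lf 0 872915 0) (P.cons (P.lf 412060 0 0) P.nil))) (P.cons (P.cons (P.lf 0 5872255 0) (P.cons (P.lf 0 13339 0) P.nil)) (P.cons (P.cons (P.lf 0 47526 0) P.nil) P.nil)))))) 267510)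
 (EL.cons 5 (TM.mk (P.cons (P.cons (P.lf 0 1004883413 0) (P.cons (P.lf 0 98336928 0) (P.cons (P.lf 46421048 0 0) (P.lf 2210522 0 0)))) (P.cons (P.cons (P.lf 0 327902742 0) (P.cons (P.lf 0 11082674 0) (P.cons (P.lf 5231702 0 0) (P.lf 249136 0 0)))) (P.cons (P.cons (P.lf 0 57336508 0) (P.cons (P.lf 2402780 0 0) (P.cons (P.lf 0 1134256 0) (P.lf 0 54006 0)))) (P.cons (P.cons (P.lf 18600466 0 0) (P.cons (P.lf 176528 0 0) (P.cons (P.lf 0 83334 0) P.nil))) (P.cons (P.cons (P.lf 817685 0 0) (P.cons (P.lf 0 58718 0) P.nil)) (P.cons (P.cons (P.lf 0 401057 0) P.nil) P.nil)))))) 211562)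
 (EL.cons 9 (TM.mk (P.cons (P.cons (P.lf 0 1149820675 0) (P.cons (P.lf 0 88723128 0) (P.cons (P.lf 41882748 0 0) (P.lf 1994412 0 0)))) (P.cons (P.cons (P.lf 0 81713454 0) (P.cons (P.lf 0 21564594 0) (P.cons (P.lf 10179804 0 0) (P.lf 484752 0 0)))) (P.cons (P.cons (P.lf 0 117095272 0) (P.cons (P.lf 0 376650 0) (P.cons (P.lf 177804 0 0) (P.lf 8466 0 0)))) (P.cons (P.cons (P.lf 0 2126010 0) (P.cons (P.lf 303432 0 0) (P.cons (P.lf 0 143232 0) P.nil))) (P.cons (P.cons (P.lf 1607503 0 0) (P.cons (P.lf 22458 0 0) P.nil)) (P.cons (P.cons (P.lf 99363 0 0) P.nil) P.nil)))))) 42788)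
 (EL.cons 2 (TM.mk (P.cons (P.cons (P.lf 210623436 0 0) (P.cons (P.lf 0 207683589 0) (P.cons (P.lf 0 6498618 0) (P.cons (P.lf 1190843 0 0) (P.lf 42527 0 0))))) (P.cons (P.cons (P.lf 0 319182 0) (P.cons (P.lf 314727 0 0) (P.cons (P.lf 9846 0 0) (P.cons (P.lf 0 1805 0) (P.lf 0 64 0))))) (P.cons (P.cons (P.lf 0 8391476 0) (P.cons (P.lf 8274352 0 0) (P.cons (P.lf 258910 0 0) (P.cons (P.lf 0 47441 0) P.nil)))) (P.cons (P.cons (P.lf 0 526573 0) (P.cons (P.lf 519221 0 0) (P.cons (P.lf 16245 0 0) P.nil))) (P.cons (P.cons (P.lf 76815 0 0) (P.cons (P.lf 0 75743 0) P.nil)) (P.cons (P.cons (P.lf 8645 0 0) P.nil) P.nil)))))) 21570)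
 (EL.cons 6 (TM.mk (P.cons (P.cons (P.lf 178441893 0 0) (P.cons (P.lf 0 175951230 0) (P.cons (P.lf 0 5505681 0) (P.cons (P.lf 1008891 0 0) (P.lf 36030 0 0))))) (P.cons (P.cons (P.lf 43371189 0 0) (P.cons (P.lf 0 42765822 0) (P.cons (P.lf 0 1338183 0) (P.cons (P.lf 245214 0 0) (P.lf 8754 0 0))))) (P.cons (P.cons (P.lf 757533 0 0) (P.cons (P.lf 0 746958 0) (P.cons (P.lf 0 23373 0) (P.cons (P.lf 4284 0 0) P.nil)))) (P.cons (P.cons (P.lf 0 610269 0) (P.cons (P.lf 601752 0 0) (P.cons (P.lf 18828 0 0) P.nil))) (P.cons (P.cons (P.lf 0 45168 0) (P.cons (P.lf 44538 0 0) P.nil)) (P.cons (P.cons (P.lf 3180 0 0) P.nil) P.nil)))))) 12279)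
 EL.nil))))))
noncomputable def S169_198_734_808_2 : EL := (EL.cons 0 (TM.mk (P.cons (P.cons (P.lf 93805119 0 0) (P.cons (P.lf 0 6402671 0) (P.cons (P.lf 1969877 0 0) (P.cons (P.lf 1137677 0 0) (P.cons (P.lf 0 187230 0) (P.cons (P.lf 0 22337 0) P.nil)))))) (P.cons (P.cons (P.lf 0 265010646 0) (P.cons (P.lf 0 12228593 0) (P.cons (P.lf 6129851 0 0) (P.cons (P.lf 0 62373 0) (P.cons (P.lf 63546 0 0) P.nil))))) (P.cons (P.cons (P.lf 43972936 0 0) (P.cons (P.lf 676160 0 0) (P.cons (P.lf 12031 0 0) (P.cons (P.lf 0 327910 0) P.nil)))) (P.cons (P.cons (P.lf 0 4820398 0) (P.cons (P.lf 3210876 0 0) (P.cons (P.lf 0 1471377 0) P.nil))) (P.cons (P.cons (P.lf 5490473 0 0) (P.cons (P.lf 591532 0 0) P.nil)) (P.cons (P.cons (P.lf 1897355 0 0) P.nil) P.nil)))))) 1769248)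
 (EL.cons 1 (TM.mk (P.cons (P.cons (P.lf 0 77894963 0) (P.cons (P.lf 0 16484375 0) (P.cons (P.lf 6973443 0 0) (P.cons (P.lf 1133580 0 0) (P.cons (P.lf 0 143761 0) (P.cons (P.lf 0 17151 0) P.nil)))))) (P.cons (P.cons (P.lf 0 87892701 0) (P.cons (P.lf 0 13269951 0) (P.cons (P.lf 5704370 0 0) (P.cons (P.lf 826863 0 0) (P.cons (P.lf 0 99579 0) P.nil))))) (P.cons (P.cons (P.lf 0 59987692 0) (P.cons (P.lf 0 6003171 0) (P.cons (P.lf 2783250 0 0) (P.cons (P.lf 182718 0 0) P.nil)))) (P.cons (P.cons (P.lf 0 8124006 0) (P.cons (P.lf 0 782466 0) (P.cons (P.lf 401177 0 0) P.nil))) (P.cons (P.cons (P.lf 0 2618055 0) (P.cons (P.lf 305710 0 0) P.nil)) (P.cons (P.cons (P.lf 561061 0 0) P.nil) P.nil)))))) 992071)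
 (EL.cons 5 (TM.mk (P.cons (P.cons (P.lf 199224067 0 0) (P.cons (P.lf 38168984 0 0) (P.cons (P.lf 0 16259072 0) (P.cons (P.lf 0 2518738 0) (P.cons (P.lf 312888 0 0) (P.cons (P.lf 37324 0 0) P.nil)))))) (P.cons (P.cons (P.lf 127282755 0 0) (P.cons (P.lf 15622530 0 0) (P.cons (P.lf 0 6828640 0) (P.cons (P.lf 0 866801 0) (P.cons (P.lf 97137 0 0) P.nil))))) (P.cons (P.cons (P.lf 32910075 0 0) (P.cons (P.lf 4187144 0 0) (P.cons (P.lf 0 2000790 0) (P.cons (P.lf 0 71276 0) P.nil)))) (P.cons (P.cons (P.lf 5940415 0 0) (P.cons (P.lf 0 298773 0) (P.cons (P.lf 118647 0 0) P.nil))) (P.cons (P.cons (P.lf 0 129300 0) (P.cons (P.lf 0 246648 0) P.nil)) (P.cons (P.cons (P.lf 0 673435 0) P.nil) P.nil)))))) 879291)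
 (EL.cons 9 (TM.mk (P.cons (P.cons (P.lf 205215001 0 0) (P.cons (P.lf 31669836 0 0) (P.cons (P.lf 0 13728238 0) (P.cons (P.lf 0 1865496 0) (P.cons (P.lf 217348 0 0) (P.cons (P.lf 25930 0 0) P.nil)))))) (P.cons (P.cons (P.lf 29167725 0 0) (P.cons (P.lf 9948166 0 0) (P.cons (P.lf 0 4102182 0) (P.cons (P.lf 0 784395 0) (P.cons (P.lf 105655 0 0) P.nil))))) (P.cons (P.cons (P.lf 42833731 0 0) (P.cons (P.lf 3906666 0 0) (P.cons (P.lf 0 1761630 0) (P.cons (P.lf 0 165760 0) P.nil)))) (P.cons (P.cons (P.lf 3729259 0 0) (P.cons (P.lf 743698 0 0) (P.cons (P.lf 0 356908 0) P.nil))) (P.cons (P.cons (P.lf 1608403 0 0) (P.cons (P.lf 0 32064 0) P.nil)) (P.cons (P.cons (P.lf 1036 0 0) P.nil) P.nil)))))) 241921)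
 (EL.cons 2 (TM.mk (P.cons (P.cons (P.lf 0 75182310 0) (P.cons (P.lf 68331667 0 0) (P.cons (P.lf 10778523 0 0) (P.cons (P.lf 0 2815998 0) (P.cons (P.lf 0 261061 0) (P.cons (P.lf 10288 0 0) P.nil)))))) (P.cons (P.cons (P.lf 0 5228988 0) (P.cons (P.lf 3754771 0 0) (P.cons (P.lf 2204476 0 0) (P.cons (P.lf 0 607061 0) (P.cons (P.lf 0 60440 0) P.nil))))) (P.cons (P.cons (P.lf 0 4652955 0) (P.cons (P.lf 4796651 0 0) (P.cons (P.lf 0 160650 0) (P.cons (P.lf 59675 0 0) P.nil)))) (P.cons (P.cons (P.lf 273420 0 0) (P.cons (P.lf 0 179043 0) (P.cons (P.lf 0 140473 0) P.nil))) (P.cons (P.cons (P.lf 396292 0 0) (P.cons (P.lf 0 386932 0) P.nil)) (P.cons (P.cons (P.lf 25981 0 0) P.nil) P.nil)))))) 217630)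
 (EL.cons 6 (TM.mk (P.cons (P.cons (P.lf 0 63695064 0) (P.cons (P.lf 57891144 0 0) (P.cons (P.lf 9131652 0 0) (P.cons (P.lf 0 2385732 0) (P.cons (P.lf 0 221172 0) (P.cons (P.lf 8712 0 0) P.nil)))))) (P.cons (P.cons (P.lf 0 20007972 0) (P.cons (P.lf 17339532 0 0) (P.cons (P.lf 4100982 0 0) (P.cons (P.lf 0 1097790 0) (P.cons (P.lf 0 105300 0) P.nil))))) (P.cons (P.cons (P.lf 0 7857174 0) (P.cons (P.lf 7415424 0 0) (P.cons (P.lf 726630 0 0) (P.cons (P.lf 0 181284 0) P.nil)))) (P.cons (P.cons (P.lf 0 1495740 0) (P.cons (P.lf 1498338 0 0) (P.cons (P.lf 11922 0 0) P.nil))) (P.cons (P.cons (P.lf 64488 0 0) (P.cons (P.lf 0 53016 0) P.nil)) (P.cons (P.cons (P.lf 48840 0 0) P.nil) P.nil)))))) 170868)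
 EL.nil))))))
noncomputable def S169_198_734_808_3 : EL := (EL.cons 0 (TM.mk (P.cons (P.lf 2000791209 0 0) (P.cons (P.lf 0 654467131 0) (P.cons (P.lf 15080835 0 0) (P.cons (P.lf 7271133 0 0) (P.cons (P.lf 199596 0 0) (P.cons (P.lf 0 35412 0) P.nil)))))) 3454)
 (EL.cons 1 (TM.mk (P.cons (P.lf 1695086628 0 0) (P.cons (P.lf 0 139901857 0) (P.cons (P.lf 0 47471786 0) (P.cons (P.lf 0 293435 0) (P.cons (P.lf 328029 0 0) (P.cons (P.lf 15684 0 0) P.nil)))))) 1940)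
 (EL.cons 5 (TM.mk (P.cons (P.lf 1436091214 0 0) (P.cons (P.lf 232699422 0 0) (P.cons (P.lf 0 5362070 0) (P.cons (P.lf 0 2585292 0) (P.cons (P.lf 0 70970 0) (P.cons (P.lf 12590 0 0) P.nil)))))) 1162)
 EL.nil)))
noncomputable def S169_198_734_808_4 : EL := (EL.cons 0 (TM.mk (P.cons (P.cons (P.lf 0 357092527 0) (P.cons (P.lf 0 27554178 0) (P.cons (P.lf 13007258 0 0) (P.lf 619391 0 0)))) (P.cons (P.cons (P.lf 91429221 0 0) (P.cons (P.lf 2315907 0 0) (P.cons (P.lf 0 1093250 0) (P.lf 0 52057 0)))) (P.cons (P.cons (P.lf 0 30756100 0) (P.cons (P.lf 1866012 0 0) (P.cons (P.lf 0 880871 0) (P.lf 0 41944 0)))) (P.cons (P.cons (P.lf 9746056 0 0) (P.cons (P.lf 0 18116 0) (P.cons (P.lf 8553 0 0) P.nil))) (P.cons (P.cons (P.lf 313256 0 0) (P.cons (P.lf 0 51818 0) P.nil)) (P.cons (P.cons (P.lf 0 265786 0) P.nil) P.nil)))))) 81031)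
 (EL.cons 1 (TM.mk (P.cons (P.cons (P.lf 0 302531701 0) (P.cons (P.lf 0 23344125 0) (P.cons (P.lf 11019855 0 0) (P.lf 524752 0 0)))) (P.cons (P.cons (P.lf 3469278 0 0) (P.cons (P.lf 0 3747225 0) (P.cons (P.lf 1768918 0 0) (P.lf 84232 0 0)))) (P.cons (P.cons (P.lf 0 20562161 0) (P.cons (P.lf 1022951 0 0) (P.cons (P.lf 0 482895 0) (P.lf 0 22993 0)))) (P.cons (P.cons (P.lf 2637901 0 0) (P.cons (P.lf 250955 0 0) (P.cons (P.lf 0 118464 0) P.nil))) (P.cons (P.cons (P.lf 1277124 0 0) (P.cons (P.lf 0 1440 0) P.nil)) (P.cons (P.cons (P.lf 5274 0 0) P.nil) P.nil)))))) 63662)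
 (EL.cons 5 (TM.mk (P.cons (P.cons (P.lf 0 256307324 0) (P.cons (P.lf 0 19777332 0) (P.cons (P.lf 9336112 0 0) (P.lf 444574 0 0)))) (P.cons (P.cons (P.lf 0 59745984 0) (P.cons (P.lf 0 8011630 0) (P.cons (P.lf 3781978 0 0) (P.lf 180092 0 0)))) (P.cons (P.cons (P.lf 0 28096254 0) (P.cons (P.lf 0 789020 0) (P.cons (P.lf 372466 0 0) (P.lf 17736 0 0)))) (P.cons (P.cons (P.lf 0 4173934 0) (P.cons (P.lf 107584 0 0) (P.cons (P.lf 0 50784 0) P.nil))) (P.cons (P.cons (P.lf 424454 0 0) (P.cons (P.lf 25910 0 0) P.nil)) (P.cons (P.cons (P.lf 127622 0 0) P.nil) P.nil)))))) 42228)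
 EL.nil)))
noncomputable def S169_198_734_808_5 : EL := (EL.cons 0 (TM.mk (P.cons (P.cons (P.lf 63732322 0 0) (P.cons (P.lf 9835498 0 0) (P.cons (P.lf 0 4263491 0) (P.cons (P.lf 0 579353 0) (P.cons (P.lf 67500 0 0) (P.cons (P.lf 8052 0 0) P.nil)))))) (P.cons (P.cons (P.lf 0 11788671 0) (P.cons (P.lf 0 127692 0) (P.cons (P.lf 120615 0 0) (P.cons (P.lf 0 54094 0) (P.cons (P.lf 10731 0 0) P.nil))))) (P.cons (P.cons (P.lf 10819926 0 0) (P.cons (P.lf 276800 0 0) (P.cons (P.lf 0 162506 0) (P.cons (P.lf 23837 0 0) P.nil)))) (P.cons (P.cons (P.lf 0 2893273 0) (P.cons (P.lf 0 106867 0) (P.cons (P.lf 43017 0 0) P.nil))) (P.cons (P.cons (P.lf 260212 0 0) (P.cons (P.lf 0 64153 0) P.nil)) (P.cons (P.cons (P.lf 0 106221 0) P.nil) P.nil)))))) 209576)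
 (EL.cons 1 (TM.mk (P.cons (P.cons (P.lf 53994543 0 0) (P.cons (P.lf 8332715 0 0) (P.cons (P.lf 0 3612063 0) (P.cons (P.lf 0 490833 0) (P.cons (P.lf 57185 0 0) (P.cons (P.lf 6821 0 0) P.nil)))))) (P.cons (P.cons (P.lf 3218008 0 0) (P.cons (P.lf 1929751 0 0) (P.cons (P.lf 0 781215 0) (P.cons (P.lf 0 165871 0) (P.cons (P.lf 23077 0 0) P.nil))))) (P.cons (P.cons (P.lf 9124530 0 0) (P.cons (P.lf 578497 0 0) (P.cons (P.lf 0 273266 0) (P.cons (P.lf 0 12832 0) P.nil)))) (P.cons (P.cons (P.lf 0 173220 0) (P.cons (P.lf 36093 0 0) (P.cons (P.lf 0 24798 0) P.nil))) (P.cons (P.cons (P.lf 35701 0 0) (P.cons (P.lf 0 52211 0) P.nil)) (P.cons (P.cons (P.lf 0 62100 0) P.nil) P.nil)))))) 150607)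
 (EL.cons 5 (TM.mk (P.cons (P.cons (P.lf 45744618 0 0) (P.cons (P.lf 7059544 0 0) (P.cons (P.lf 0 3060170 0) (P.cons (P.lf 0 415838 0) (P.cons (P.lf 48448 0 0) (P.cons (P.lf 5778 0 0) P.nil)))))) (P.cons (P.cons (P.lf 13914102 0 0) (P.cons (P.lf 3361456 0 0) (P.cons (P.lf 0 1410278 0) (P.cons (P.lf 0 242230 0) (P.cons (P.lf 31402 0 0) P.nil))))) (P.cons (P.cons (P.lf 10430824 0 0) (P.cons (P.lf 1203802 0 0) (P.cons (P.lf 0 529428 0) (P.cons (P.lf 0 63728 0) P.nil)))) (P.cons (P.cons (P.lf 2271804 0 0) (P.cons (P.lf 285896 0 0) (P.cons (P.lf 0 134264 0) P.nil))) (P.cons (P.cons (P.lf 443612 0 0) (P.cons (P.lf 12120 0 0) P.nil)) (P.cons (P.cons (P.lf 38112 0 0) P.nil) P.nil)))))) 114350)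
 EL.nil)))
noncomputable def S169_198_734_808_6 : EL := (EL.cons 12 (TM.mk (P.lf 8589934592 0 0) 0)
 (EL.cons 3 (TM.mk (P.cons (P.lf 0 2072840178 0) (P.cons (P.lf 339017325 0 0) (P.cons (P.lf 19911543 0 0) (P.cons (P.lf 0 509910 0) (P.cons (P.lf 0 91155 0) (P.cons (P.lf 0 1462 0) P.nil)))))) 487)
 (EL.cons 7 (TM.mk (P.cons (P.lf 0 1756127103 0) (P.cons (P.lf 0 142278485 0) (P.cons (P.lf 9042093 0 0) (P.cons (P.lf 848140 0 0) (P.cons (P.lf 0 2043 0) (P.cons (P.lf 0 3166 0) P.nil)))))) 195)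
 EL.nil)))
noncomputable def S169_198_734_808_7 : EL := (EL.cons 12 (TM.mk (P.cons (P.cons (P.lf 0 1533094234 0) (P.cons (P.lf 0 118297504 0) (P.cons (P.lf 55843664 0 0) (P.lf 2659216 0 0)))) (P.cons (P.cons (P.lf 0 108951272 0) (P.cons (P.lf 0 28752792 0) (P.cons (P.lf 13573072 0 0) (P.lf 646336 0 0)))) (P.cons (P.cons (P.lf 0 156127030 0) (P.cons (P.lf 0 502200 0) (P.cons (P.lf 237072 0 0) (P.lf 11288 0 0)))) (P.cons (P.cons (P.lf 0 2834680 0) (P.cons (P.lf 404576 0 0) (P.cons (P.lf 0 190976 0) P.nil))) (P.cons (P.cons (P.lf 2143338 0 0) (P.cons (P.lf 29944 0 0) P.nil)) (P.cons (P.cons (P.lf 132484 0 0) P.nil) P.nil)))))) 57026)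
 (EL.cons 3 (TM.mk (P.cons (P.cons (P.lf 45443804 0 0) (P.cons (P.lf 0 57092824 0) (P.cons (P.lf 26951308 0 0) (P.lf 1283392 0 0)))) (P.cons (P.cons (P.lf 0 978716865 0) (P.cons (P.lf 0 4539040 0) (P.cons (P.lf 2142700 0 0) (P.lf 102030 0 0)))) (P.cons (P.cons (P.lf 0 35513436 0) (P.cons (P.lf 2575618 0 0) (P.cons (P.lf 0 1215846 0) (P.lf 0 57896 0)))) (P.cons (P.cons (P.lf 22912494 0 0) (P.cons (P.lf 354150 0 0) (P.cons (P.lf 0 167176 0) P.nil))) (P.cons (P.cons (P.lf 2255863 0 0) (P.cons (P.lf 0 21078 0) P.nil)) (P.cons (P.cons (P.lf 0 170129 0) P.nil) P.nil)))))) 180512)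
 (EL.cons 7 (TM.mk (P.cons (P.cons (P.lf 449615054 0 0) (P.cons (P.lf 60125761 0 0) (P.cons (P.lf 0 28383040 0) (P.lf 0 1351574 0)))) (P.cons (P.cons (P.lf 410747019 0 0) (P.cons (P.lf 1904946 0 0) (P.cons (P.lf 0 899253 0) (P.lf 0 42823 0)))) (P.cons (P.cons (P.lf 0 35324031 0) (P.cons (P.lf 0 1313877 0) (P.cons (P.lf 620229 0 0) (P.lf 29533 0 0)))) (P.cons (P.cons (P.lf 0 9943282 0) (P.cons (P.lf 37363 0 0) (P.cons (P.lf 0 17635 0) P.nil))) (P.cons (P.cons (P.lf 749302 0 0) (P.cons (P.lf 26963 0 0) P.nil)) (P.cons (P.cons (P.lf 169563 0 0) P.nil) P.nil)))))) 113536)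
 (EL.cons 10 (TM.mk (P.cons (P.cons (P.lf 0 436416075 0) (P.cons (P.lf 430324653 0 0) (P.cons (P.lf 13465272 0 0) (P.cons (P.lf 0 2467455 0) (P.lf 0 88122 0))))) (P.cons (P.cons (P.lf 0 70715400 0) (P.cons (P.lf 69728367 0 0) (P.cons (P.lf 2181867 0 0) (P.cons (P.lf 0 399816 0) (P.lf 0 14277 0))))) (P.cons (P.cons (P.lf 1629486 0 0) (P.cons (P.lf 0 1606743 0) (P.cons (P.lf 0 50274 0) (P.cons (P.lf 9210 0 0) P.nil)))) (P.cons (P.cons (P.lf 785646 0 0) (P.cons (P.lf 0 774681 0) (P.cons (P.lf 0 24240 0) P.nil))) (P.cons (P.cons (P.lf 21567 0 0) (P.cons (P.lf 0 21264 0) P.nil)) (P.cons (P.cons (P.lf 0 3825 0) P.nil) P.nil)))))) 10452)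
 EL.nil))))
noncomputable def S169_198_734_808_8 : EL := (EL.cons 12 (TM.mk (P.cons (P.cons (P.lf 273620002 0 0) (P.cons (P.lf 42226448 0 0) (P.cons (P.lf 0 18304318 0) (P.cons (P.lf 0 2487328 0) (P.cons (P.lf 289798 0 0) (P.cons (P.lf 34574 0 0) P.nil)))))) (P.cons (P.cons (P.lf 38890300 0 0) (P.cons (P.lf 13264222 0 0) (P.cons (P.lf 0 5469576 0) (P.cons (P.lf 0 1045860 0) (P.cons (P.lf 140874 0 0) P.nil))))) (P.cons (P.cons (P.lf 57111642 0 0) (P.cons (P.lf 5208888 0 0) (P.cons (P.lf 0 2348840 0) (P.cons (P.lf 0 221014 0) P.nil)))) (P.cons (P.cons (P.lf 4972346 0 0) (P.cons (P.lf 991598 0 0) (P.cons (P.lf 0 475878 0) P.nil))) (P.cons (P.cons (P.lf 2144538 0 0) (P.cons (P.lf 0 42752 0) P.nil)) (P.cons (P.cons (P.lf 1382 0 0) P.nil) P.nil)))))) 322532)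
 (EL.cons 3 (TM.mk (P.cons (P.cons (P.lf 49806111 0 0) (P.cons (P.lf 29317363 0 0) (P.cons (P.lf 0 11873934 0) (P.cons (P.lf 0 2514845 0) (P.cons (P.lf 349656 0 0) (P.cons (P.lf 41716 0 0) P.nil)))))) (P.cons (P.cons (P.lf 346787211 0 0) (P.cons (P.lf 31255600 0 0) (P.cons (P.lf 0 14120519 0) (P.cons (P.lf 0 1301199 0) (P.cons (P.lf 112780 0 0) P.nil))))) (P.cons (P.cons (P.lf 47464436 0 0) (P.cons (P.lf 9431634 0 0) (P.cons (P.lf 0 4494653 0) (P.cons (P.lf 0 172031 0) P.nil)))) (P.cons (P.cons (P.lf 27141683 0 0) (P.cons (P.lf 0 258220 0) (P.cons (P.lf 82084 0 0) P.nil))) (P.cons (P.cons (P.lf 767207 0 0) (P.cons (P.lf 0 484121 0) P.nil)) (P.cons (P.cons (P.lf 0 1384944 0) P.nil) P.nil)))))) 1044866)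
 (EL.cons 7 (TM.mk (P.cons (P.cons (P.lf 0 104551783 0) (P.cons (P.lf 0 25213059 0) (P.cons (P.lf 10579112 0 0) (P.cons (P.lf 1815837 0 0) (P.cons (P.lf 0 235334 0) (P.cons (P.lf 0 28074 0) P.nil)))))) (P.cons (P.cons (P.lf 0 145539347 0) (P.cons (P.lf 0 13117322 0) (P.cons (P.lf 5926086 0 0) (P.cons (P.lf 546086 0 0) (P.cons (P.lf 0 47328 0) P.nil))))) (P.cons (P.cons (P.lf 0 2122526 0) (P.cons (P.lf 0 2354206 0) (P.cons (P.lf 1161640 0 0) (P.cons (P.lf 5420 0 0) P.nil)))) (P.cons (P.cons (P.lf 0 8887975 0) (P.cons (P.lf 686601 0 0) (P.cons (P.lf 0 311670 0) P.nil))) (P.cons (P.cons (P.lf 1679015 0 0) (P.cons (P.lf 158717 0 0) P.nil)) (P.cons (P.cons (P.lf 549112 0 0) P.nil) P.nil)))))) 557033)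
 (EL.cons 10 (TM.mk (P.cons (P.cons (P.lf 155779290 0 0) (P.cons (P.lf 0 141584616 0) (P.cons (P.lf 0 22333332 0) (P.cons (P.lf 5834808 0 0) (P.cons (P.lf 540924 0 0) (P.cons (P.lf 0 21312 0) P.nil)))))) (P.cons (P.cons (P.lf 36312606 0 0) (P.cons (P.lf 0 30936426 0) (P.cons (P.lf 0 8220390 0) (P.cons (P.lf 2212146 0 0) (P.cons (P.lf 213714 0 0) P.nil))))) (P.cons (P.cons (P.lf 17076432 0 0) (P.cons (P.lf 0 16358526 0) (P.cons (P.lf 0 1226118 0) (P.cons (P.lf 294192 0 0) P.nil)))) (P.cons (P.cons (P.lf 2536848 0 0) (P.cons (P.lf 0 2566824 0) (P.cons (P.lf 17064 0 0) P.nil))) (P.cons (P.cons (P.lf 0 257976 0) (P.cons (P.lf 238626 0 0) P.nil)) (P.cons (P.cons (P.lf 0 77562 0) P.nil) P.nil)))))) 264948)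
 EL.nil))))
noncomputable def S169_198_734_808_9 : EL := (EL.cons 3 (TM.mk (P.cons (P.lf 0 2072840178 0) (P.cons (P.lf 339017325 0 0) (P.cons (P.lf 19911543 0 0) (P.cons (P.lf 0 509910 0) (P.cons (P.lf 0 91155 0) (P.cons (P.lf 0 1462 0) P.nil)))))) 487)
 (EL.cons 7 (TM.mk (P.cons (P.lf 0 1756127103 0) (P.cons (P.lf 0 142278485 0) (P.cons (P.lf 9042093 0 0) (P.cons (P.lf 848140 0 0) (P.cons (P.lf 0 2043 0) (P.cons (P.lf 0 3166 0) P.nil)))))) 195)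
 EL.nil))
noncomputable def S169_198_734_808_10 : EL := (EL.cons 3 (TM.mk (P.cons (P.cons (P.lf 369951515 0 0) (P.cons (P.lf 28546412 0 0) (P.cons (P.lf 0 13475654 0) (P.lf 0 641696 0)))) (P.cons (P.cons (P.lf 0 34215270 0) (P.cons (P.lf 2269520 0 0) (P.cons (P.lf 0 1071350 0) (P.lf 0 51015 0)))) (P.cons (P.cons (P.lf 29821383 0 0) (P.cons (P.lf 0 1287809 0) (P.cons (P.lf 607923 0 0) (P.lf 28948 0 0)))) (P.cons (P.cons (P.lf 0 5639340 0) (P.cons (P.lf 0 177075 0) (P.cons (P.lf 83588 0 0) P.nil))) (P.cons (P.cons (P.lf 0 968252 0) (P.cons (P.lf 10539 0 0) P.nil)) (P.cons (P.cons (P.lf 56734 0 0) P.nil) P.nil)))))) 43762)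
 (EL.cons 7 (TM.mk (P.cons (P.cons (P.lf 313425941 0 0) (P.cons (P.lf 24184753 0 0) (P.cons (P.lf 0 11416684 0) (P.lf 0 543650 0)))) (P.cons (P.cons (P.lf 47667255 0 0) (P.cons (P.lf 7837632 0 0) (P.cons (P.lf 0 3699840 0) (P.lf 0 176182 0)))) (P.cons (P.cons (P.lf 32109435 0 0) (P.cons (P.lf 454389 0 0) (P.cons (P.lf 0 214500 0) (P.lf 0 10214 0)))) (P.cons (P.cons (P.lf 2899457 0 0) (P.cons (P.lf 0 116339 0) (P.cons (P.lf 54917 0 0) P.nil))) (P.cons (P.cons (P.lf 0 565970 0) (P.cons (P.lf 0 16162 0) P.nil)) (P.cons (P.cons (P.lf 0 80394 0) P.nil) P.nil)))))) 25320)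
 EL.nil))
noncomputable def S169_198_734_808_11 : EL := (EL.cons 3 (TM.mk (P.cons (P.cons (P.lf 0 66027339 0) (P.cons (P.lf 0 10189679 0) (P.cons (P.lf 4417020 0 0) (P.cons (P.lf 600217 0 0) (P.cons (P.lf 0 69930 0) (P.cons (P.lf 0 8342 0) P.nil)))))) (P.cons (P.cons (P.lf 1414275 0 0) (P.cons (P.lf 0 1534250 0) (P.cons (P.lf 597451 0 0) (P.cons (P.lf 154209 0 0) (P.cons (P.lf 0 22556 0) P.nil))))) (P.cons (P.cons (P.lf 0 11612500 0) (P.cons (P.lf 0 635580 0) (P.cons (P.lf 308503 0 0) (P.cons (P.lf 6289 0 0) P.nil)))) (P.cons (P.cons (P.lf 1128041 0 0) (P.cons (P.lf 0 5464 0) (P.cons (P.lf 10540 0 0) P.nil))) (P.cons (P.cons (P.lf 0 194083 0) (P.cons (P.lf 60289 0 0) P.nil)) (P.cons (P.cons (P.lf 91980 0 0) P.nil) P.nil)))))) 148288)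
 (EL.cons 7 (TM.mk (P.cons (P.cons (P.lf 0 55938901 0) (P.cons (P.lf 0 8632779 0) (P.cons (P.lf 3742136 0 0) (P.cons (P.lf 508509 0 0) (P.cons (P.lf 0 59246 0) (P.cons (P.lf 0 7068 0) P.nil)))))) (P.cons (P.cons (P.lf 0 12482813 0) (P.cons (P.lf 0 3411152 0) (P.cons (P.lf 1421382 0 0) (P.cons (P.lf 255014 0 0) (P.cons (P.lf 0 33600 0) P.nil))))) (P.cons (P.cons (P.lf 0 12032042 0) (P.cons (P.lf 0 1240156 0) (P.cons (P.lf 551524 0 0) (P.cons (P.lf 59888 0 0) P.nil)))) (P.cons (P.cons (P.lf 0 1894555 0) (P.cons (P.lf 0 270867 0) (P.cons (P.lf 128628 0 0) P.nil))) (P.cons (P.cons (P.lf 0 456895 0) (P.cons (P.lf 0 901 0) P.nil)) (P.cons (P.cons (P.lf 0 25040 0) P.nil) P.nil)))))) 97663)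
 EL.nil))
noncomputable def S169_198_734_808_12 : EL := (EL.cons 4 (TM.mk (P.cons (P.lf 2072840178 0 0) (P.cons (P.lf 0 339017325 0) (P.cons (P.lf 0 19911543 0) (P.cons (P.lf 509910 0 0) (P.cons (P.lf 91155 0 0) (P.cons (P.lf 1462 0 0) P.nil)))))) 487)
 (EL.cons 8 (TM.mk (P.cons (P.lf 1756127103 0 0) (P.cons (P.lf 142278485 0 0) (P.cons (P.lf 0 9042093 0) (P.cons (P.lf 0 848140 0) (P.cons (P.lf 2043 0 0) (P.cons (P.lf 3166 0 0) P.nil)))))) 195)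
 EL.nil))
noncomputable def S169_198_734_808_13 : EL := (EL.cons 4 (TM.mk (P.cons (P.cons (P.lf 0 369951515 0) (P.cons (P.lf 0 28546412 0) (P.cons (P.lf 13475654 0 0) (P.lf 641696 0 0)))) (P.cons (P.cons (P.lf 34215270 0 0) (P.cons (P.lf 0 2269520 0) (P.cons (P.lf 1071350 0 0) (P.lf 51015 0 0)))) (P.cons (P.cons (P.lf 0 29821383 0) (P.cons (P.lf 1287809 0 0) (P.cons (P.lf 0 607923 0) (P.lf 0 28948 0)))) (P.cons (P.cons (P.lf 5639340 0 0) (P.cons (P.lf 177075 0 0) (P.cons (P.lf 0 83588 0) P.nil))) (P.cons (P.cons (P.lf 968252 0 0) (P.cons (P.lf 0 10539 0) P.nil)) (P.cons (P.cons (P.lf 0 56734 0) P.nil) P.nil)))))) 43762)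
 (EL.cons 8 (TM.mk (P.cons (P.cons (P.lf 0 313425941 0) (P.cons (P.lf 0 24184753 0) (P.cons (P.lf 11416684 0 0) (P.lf 543650 0 0)))) (P.cons (P.cons (P.lf 0 47667255 0) (P.cons (P.lf 0 7837632 0) (P.cons (P.lf 3699840 0 0) (P.lf 176182 0 0)))) (P.cons (P.cons (P.lf 0 32109435 0) (P.cons (P.lf 0 454389 0) (P.cons (P.lf 214500 0 0) (P.lf 10214 0 0)))) (P.cons (P.cons (P.lf 0 2899457 0) (P.cons (P.lf 116339 0 0) (P.cons (P.lf 0 54917 0) P.nil))) (P.cons (P.cons (P.lf 565970 0 0) (P.cons (P.lf 16162 0 0) P.nil)) (P.cons (P.cons (P.lf 80394 0 0) P.nil) P.nil)))))) 25320)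
 EL.nil))
noncomputable def S169_198_734_808_14 : EL := (EL.cons 4 (TM.mk (P.cons (P.cons (P.lf 66027339 0 0) (P.cons (P.lf 10189679 0 0) (P.cons (P.lf 0 4417020 0) (P.cons (P.lf 0 600217 0) (P.cons (P.lf 69930 0 0) (P.cons (P.lf 8342 0 0) P.nil)))))) (P.cons (P.cons (P.lf 0 1414275 0) (P.cons (P.lf 1534250 0 0) (P.cons (P.lf 0 597451 0) (P.cons (P.lf 0 154209 0) (P.cons (P.lf 22556 0 0) P.nil))))) (P.cons (P.cons (P.lf 11612500 0 0) (P.cons (P.lf 635580 0 0) (P.cons (P.lf 0 308503 0) (P.cons (P.lf 0 6289 0) P.nil)))) (P.cons (P.cons (P.lf 0 1128041 0) (P.cons (P.lf 5464 0 0) (P.cons (P.lf 0 10540 0) P.nil))) (P.cons (P.cons (P.lf 194083 0 0) (P.cons (P.lf 0 60289 0) P.nil)) (P.cons (P.cons (P.lf 0 91980 0) P.nil) P.nil)))))) 148288)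
 (EL.cons 8 (TM.mk (P.cons (P.cons (P.lf 55938901 0 0) (P.cons (P.lf 8632779 0 0) (P.cons (P.lf 0 3742136 0) (P.cons (P.lf 0 508509 0) (P.cons (P.lf 59246 0 0) (P.cons (P.lf 7068 0 0) P.nil)))))) (P.cons (P.cons (P.lf 12482813 0 0) (P.cons (P.lf 3411152 0 0) (P.cons (P.lf 0 1421382 0) (P.cons (P.lf 0 255014 0) (P.cons (P.lf 33600 0 0) P.nil))))) (P.cons (P.cons (P.lf 12032042 0 0) (P.cons (P.lf 1240156 0 0) (P.cons (P.lf 0 551524 0) (P.cons (P.lf 0 59888 0) P.nil)))) (P.cons (P.cons (P.lf 1894555 0 0) (P.cons (P.lf 270867 0 0) (P.cons (P.lf 0 128628 0) P.nil))) (P.cons (P.cons (P.lf 456895 0 0) (P.cons (P.lf 901 0 0) P.nil)) (P.cons (P.cons (P.lf 25040 0 0) P.nil) P.nil)))))) 97663)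
 EL.nil))
noncomputable def S169_198_734_808_15 : EL := (EL.cons 4 (TM.mk (P.cons (P.lf 0 1067088645 0) (P.cons (P.lf 349049136 0 0) (P.cons (P.lf 0 8043112 0) (P.cons (P.lf 0 3877937 0) (P.cons (P.lf 0 106451 0) (P.cons (P.lf 18886 0 0) P.nil)))))) 1845)
 (EL.cons 8 (TM.mk (P.cons (P.lf 0 904046202 0) (P.cons (P.lf 74614324 0 0) (P.cons (P.lf 25318286 0 0) (P.cons (P.lf 156499 0 0) (P.cons (P.lf 0 174949 0) (P.cons (P.lf 0 8365 0) P.nil)))))) 1031)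
 EL.nil))
noncomputable def S169_198_734_808_16 : EL := (EL.cons 4 (TM.mk (P.cons (P.cons (P.lf 190449347 0 0) (P.cons (P.lf 14695561 0 0) (P.cons (P.lf 0 6937204 0) (P.lf 0 330342 0)))) (P.cons (P.cons (P.lf 0 48762251 0) (P.cons (P.lf 0 1235150 0) (P.cons (P.lf 583066 0 0) (P.lf 27764 0 0)))) (P.cons (P.cons (P.lf 16403253 0 0) (P.cons (P.lf 0 995206 0) (P.cons (P.lf 469798 0 0) (P.lf 22370 0 0)))) (P.cons (P.cons (P.lf 0 5197896 0) (P.cons (P.lf 9661 0 0) (P.cons (P.lf 0 4561 0) P.nil))) (P.cons (P.cons (P.lf 0 167070 0) (P.cons (P.lf 27636 0 0) P.nil)) (P.cons (P.cons (P.lf 141752 0 0) P.nil) P.nil)))))) 43225)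
 (EL.cons 8 (TM.mk (P.cons (P.cons (P.lf 161350241 0 0) (P.cons (P.lf 12450200 0 0) (P.cons (P.lf 0 5877256 0) (P.lf 0 279868 0)))) (P.cons (P.cons (P.lf 0 1850282 0) (P.cons (P.lf 1998520 0 0) (P.cons (P.lf 0 943423 0) (P.lf 0 44924 0)))) (P.cons (P.cons (P.lf 10966486 0 0) (P.cons (P.lf 0 545574 0) (P.cons (P.lf 257544 0 0) (P.lf 12263 0 0)))) (P.cons (P.cons (P.lf 0 1406881 0) (P.cons (P.lf 0 133843 0) (P.cons (P.lf 63181 0 0) P.nil))) (P.cons (P.cons (P.lf 0 681133 0) (P.cons (P.lf 768 0 0) P.nil)) (P.cons (P.cons (P.lf 0 2813 0) P.nil) P.nil)))))) 33943)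
 EL.nil))
noncomputable def S169_198_734_808_17 : EL := (EL.cons 4 (TM.mk (P.cons (P.cons (P.lf 0 33990571 0) (P.cons (P.lf 0 5245599 0) (P.cons (P.lf 2273862 0 0) (P.cons (P.lf 308988 0 0) (P.cons (P.lf 0 36000 0) (P.cons (P.lf 0 4294 0) P.nil)))))) (P.cons (P.cons (P.lf 6287291 0 0) (P.cons (P.lf 68102 0 0) (P.cons (P.lf 0 64328 0) (P.cons (P.lf 28850 0 0) (P.cons (P.lf 0 5723 0) P.nil))))) (P.cons (P.cons (P.lf 0 5770627 0) (P.cons (P.lf 0 147627 0) (P.cons (P.lf 86670 0 0) (P.cons (P.lf 0 12713 0) P.nil)))) (P.cons (P.cons (P.lf 1543079 0 0) (P.cons (P.lf 56996 0 0) (P.cons (P.lf 0 22942 0) P.nil))) (P.cons (P.cons (P.lf 0 138780 0) (P.cons (P.lf 34215 0 0) P.nil)) (P.cons (P.cons (P.lf 56651 0 0) P.nil) P.nil)))))) 111784)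
 (EL.cons 8 (TM.mk (P.cons (P.cons (P.lf 0 28797090 0) (P.cons (P.lf 0 4444115 0) (P.cons (P.lf 1926434 0 0) (P.cons (P.lf 261778 0 0) (P.cons (P.lf 0 30499 0) (P.cons (P.lf 0 3638 0) P.nil)))))) (P.cons (P.cons (P.lf 0 1716271 0) (P.cons (P.lf 0 1029201 0) (P.cons (P.lf 416648 0 0) (P.cons (P.lf 88465 0 0) (P.cons (P.lf 0 12308 0) P.nil))))) (P.cons (P.cons (P.lf 0 4866416 0) (P.cons (P.lf 0 308532 0) (P.cons (P.lf 145742 0 0) (P.cons (P.lf 6844 0 0) P.nil)))) (P.cons (P.cons (P.lf 92384 0 0) (P.cons (P.lf 0 19250 0) (P.cons (P.lf 13226 0 0) P.nil))) (P.cons (P.cons (P.lf 0 19041 0) (P.cons (P.lf 27846 0 0) P.nil)) (P.cons (P.cons (P.lf 33120 0 0) P.nil) P.nil)))))) 80312)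
 EL.nil))
noncomputable def S169_198_734_808_18 : EL := (EL.cons 4 (TM.mk (P.cons (P.lf 549332354 0 0) (P.cons (P.lf 0 269533349 0) (P.cons (P.lf 28252205 0 0) (P.cons (P.lf 3180359 0 0) (P.cons (P.lf 0 331524 0) (P.cons (P.lf 0 44357 0) P.nil)))))) 4415)
 (EL.cons 8 (TM.mk (P.cons (P.lf 465398850 0 0) (P.cons (P.lf 0 114528063 0) (P.cons (P.lf 0 11222106 0) (P.cons (P.lf 2534590 0 0) (P.cons (P.lf 239457 0 0) (P.cons (P.lf 0 14216 0) P.nil)))))) 3029)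
 EL.nil))
noncomputable def S169_198_734_808_19 : EL := (EL.cons 4 (TM.mk (P.cons (P.cons (P.lf 0 98042453 0) (P.cons (P.lf 0 7565207 0) (P.cons (P.lf 3571241 0 0) (P.lf 170057 0 0)))) (P.cons (P.cons (P.lf 41137631 0 0) (P.cons (P.lf 1873155 0 0) (P.cons (P.lf 0 884244 0) (P.lf 0 42105 0)))) (P.cons (P.cons (P.lf 0 11608110 0) (P.cons (P.lf 481004 0 0) (P.cons (P.lf 0 227062 0) (P.lf 0 10812 0)))) (P.cons (P.cons (P.lf 3791687 0 0) (P.cons (P.lf 0 96735 0) (P.cons (P.lf 45664 0 0) P.nil))) (P.cons (P.cons (P.lf 0 268654 0) (P.cons (P.lf 0 18510 0) P.nil)) (P.cons (P.cons (P.lf 0 113787 0) P.nil) P.nil)))))) 52031)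
 (EL.cons 8 (TM.mk (P.cons (P.cons (P.lf 0 83062366 0) (P.cons (P.lf 0 6409305 0) (P.cons (P.lf 3025584 0 0) (P.lf 144075 0 0)))) (P.cons (P.cons (P.lf 14537539 0 0) (P.cons (P.lf 19425 0 0) (P.cons (P.lf 0 9170 0) (P.lf 0 436 0)))) (P.cons (P.cons (P.lf 0 5003392 0) (P.cons (P.lf 510693 0 0) (P.cons (P.lf 0 241078 0) (P.lf 0 11479 0)))) (P.cons (P.cons (P.lf 1618005 0 0) (P.cons (P.lf 31273 0 0) (P.cons (P.lf 0 14762 0) P.nil))) (P.cons (P.cons (P.lf 283002 0 0) (P.cons (P.lf 0 14897 0) P.nil)) (P.cons (P.cons (P.lf 0 64262 0) P.nil) P.nil)))))) 31174)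
 EL.nil))
noncomputable def S169_198_734_808_20 : EL := (EL.cons 4 (TM.mk (P.cons (P.cons (P.lf 17498190 0 0) (P.cons (P.lf 2700410 0 0) (P.cons (P.lf 0 1170573 0) (P.cons (P.lf 0 159065 0) (P.cons (P.lf 18532 0 0) (P.cons (P.lf 2210 0 0) P.nil)))))) (P.cons (P.cons (P.lf 0 6098534 0) (P.cons (P.lf 0 476716 0) (P.cons (P.lf 224565 0 0) (P.cons (P.lf 11162 0 0) (P.cons (P.lf 0 83 0) P.nil))))) (P.cons (P.cons (P.lf 3331969 0 0) (P.cons (P.lf 55791 0 0) (P.cons (P.lf 0 38789 0) (P.cons (P.lf 10501 0 0) P.nil)))) (P.cons (P.cons (P.lf 0 1244836 0) (P.cons (P.lf 0 40770 0) (P.cons (P.lf 18501 0 0) P.nil))) (P.cons (P.cons (P.lf 172800 0 0) (P.cons (P.lf 0 13434 0) P.nil)) (P.cons (P.cons (P.lf 0 32616 0) P.nil) P.nil)))))) 101439)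
 (EL.cons 8 (TM.mk (P.cons (P.cons (P.lf 14824610 0 0) (P.cons (P.lf 2287809 0 0) (P.cons (P.lf 0 991719 0) (P.cons (P.lf 0 134762 0) (P.cons (P.lf 15700 0 0) (P.cons (P.lf 1873 0 0) P.nil)))))) (P.cons (P.cons (P.lf 0 1541067 0) (P.cons (P.lf 155652 0 0) (P.cons (P.lf 0 52291 0) (P.cons (P.lf 0 23501 0) (P.cons (P.lf 3768 0 0) P.nil))))) (P.cons (P.cons (P.lf 2218301 0 0) (P.cons (P.lf 50199 0 0) (P.cons (P.lf 0 30420 0) (P.cons (P.lf 5219 0 0) P.nil)))) (P.cons (P.cons (P.lf 0 462131 0) (P.cons (P.lf 0 20593 0) (P.cons (P.lf 7278 0 0) P.nil))) (P.cons (P.cons (P.lf 0 5614 0) (P.cons (P.lf 0 17250 0) P.nil)) (P.cons (P.cons (P.lf 0 17530 0) P.nil) P.nil)))))) 59463)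
 EL.nil))
noncomputable def S169_198_734_808_21 : EL := (EL.cons 4 (TM.mk (P.cons (P.cons (P.lf 324507711 0 0) (P.cons (P.lf 85639236 0 0) (P.cons (P.lf 0 40426962 0) (P.lf 0 1925088 0)))) (P.cons (P.cons (P.lf 944501595 0 0) (P.cons (P.lf 6808560 0 0) (P.cons (P.lf 0 3214050 0) (P.lf 0 153045 0)))) (P.cons (P.cons (P.lf 65334819 0 0) (P.cons (P.lf 0 3863427 0) (P.cons (P.lf 1823769 0 0) (P.lf 86844 0 0)))) (P.cons (P.cons (P.lf 0 28551834 0) (P.cons (P.lf 0 531225 0) (P.cons (P.lf 250764 0 0) P.nil))) (P.cons (P.cons (P.lf 0 3224115 0) (P.cons (P.lf 31617 0 0) P.nil)) (P.cons (P.cons (P.lf 226863 0 0) P.nil) P.nil)))))) 136731)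
 (EL.cons 8 (TM.mk (P.cons (P.cons (P.lf 0 136189113 0) (P.cons (P.lf 0 35941008 0) (P.cons (P.lf 16966356 0 0) (P.lf 807924 0 0)))) (P.cons (P.cons (P.lf 0 363079764 0) (P.cons (P.lf 5932686 0 0) (P.cons (P.lf 0 2800587 0) (P.lf 0 133359 0)))) (P.cons (P.cons (P.lf 67433466 0 0) (P.cons (P.lf 1768266 0 0) (P.cons (P.lf 0 834729 0) (P.lf 0 39747 0)))) (P.cons (P.cons (P.lf 12842739 0 0) (P.cons (P.lf 0 153702 0) (P.cons (P.lf 72552 0 0) P.nil))) (P.cons (P.cons (P.lf 0 1315272 0) (P.cons (P.lf 0 43125 0) P.nil)) (P.cons (P.cons (P.lf 0 249957 0) P.nil) P.nil)))))) 88197)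
 (EL.cons 11 (TM.mk (P.cons (P.cons (P.lf 436416075 0 0) (P.cons (P.lf 0 430324653 0) (P.cons (P.lf 0 13465272 0) (P.cons (P.lf 2467455 0 0) (P.lf 88122 0 0))))) (P.cons (P.cons (P.lf 70715400 0 0) (P.cons (P.lf 0 69728367 0) (P.cons (P.lf 0 2181867 0) (P.cons (P.lf 399816 0 0) (P.lf 14277 0 0))))) (P.cons (P.cons (P.lf 0 1629486 0) (P.cons (P.lf 1606743 0 0) (P.cons (P.lf 50274 0 0) (P.cons (P.lf 0 9210 0) P.nil)))) (P.cons (P.cons (P.lf 0 785646 0) (P.cons (P.lf 774681 0 0) (P.cons (P.lf 24240 0 0) P.nil))) (P.cons (P.cons (P.lf 0 21567 0) (P.cons (P.lf 21264 0 0) P.nil)) (P.cons (P.cons (P.lf 3825 0 0) P.nil) P.nil)))))) 10452)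
 EL.nil)))
noncomputable def S169_198_734_808_22 : EL := (EL.cons 4 (TM.mk (P.cons (P.cons (P.lf 0 57916725 0) (P.cons (P.lf 0 19753521 0) (P.cons (P.lf 8145477 0 0) (P.cons (P.lf 1557531 0 0) (P.cons (P.lf 0 209793 0) (P.cons (P.lf 0 25029 0) P.nil)))))) (P.cons (P.cons (P.lf 0 172686468 0) (P.cons (P.lf 0 16394925 0) (P.cons (P.lf 7358985 0 0) (P.cons (P.lf 727704 0 0) (P.cons (P.lf 0 67668 0) P.nil))))) (P.cons (P.cons (P.lf 0 29538468 0) (P.cons (P.lf 0 5033607 0) (P.cons (P.lf 2401578 0 0) (P.cons (P.lf 89160 0 0) P.nil)))) (P.cons (P.cons (P.lf 0 13006821 0) (P.cons (P.lf 126378 0 0) (P.cons (P.lf 0 35772 0) P.nil))) (P.cons (P.cons (P.lf 0 480645 0) (P.cons (P.lf 272205 0 0) P.nil)) (P.cons (P.cons (P.lf 738462 0 0) P.nil) P.nil)))))) 448278)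
 (EL.cons 8 (TM.mk (P.cons (P.cons (P.lf 24306441 0 0) (P.cons (P.lf 8290140 0 0) (P.cons (P.lf 0 3418488 0) (P.cons (P.lf 0 653664 0) (P.cons (P.lf 88044 0 0) (P.cons (P.lf 10503 0 0) P.nil)))))) (P.cons (P.cons (P.lf 66528267 0 0) (P.cons (P.lf 4853085 0 0) (P.cons (P.lf 0 2252352 0) (P.cons (P.lf 0 145536 0) (P.cons (P.lf 6864 0 0) P.nil))))) (P.cons (P.cons (P.lf 0 4954758 0) (P.cons (P.lf 557025 0 0) (P.cons (P.lf 0 305058 0) (P.cons (P.lf 27234 0 0) P.nil)))) (P.cons (P.cons (P.lf 3496710 0 0) (P.cons (P.lf 0 478734 0) (P.cons (P.lf 220149 0 0) P.nil))) (P.cons (P.cons (P.lf 0 1067955 0) (P.cons (P.lf 0 79809 0) P.nil)) (P.cons (P.cons (P.lf 0 287076 0) P.nil) P.nil)))))) 229674)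
 (EL.cons 11 (TM.mk (P.cons (P.cons (P.lf 0 77889645 0) (P.cons (P.lf 70792308 0 0) (P.cons (P.lf 11166666 0 0) (P.cons (P.lf 0 2917404 0) (P.cons (P.lf 0 270462 0) (P.cons (P.lf 10656 0 0) P.nil)))))) (P.cons (P.cons (P.lf 0 18156303 0) (P.cons (P.lf 15468213 0 0) (P.cons (P.lf 4110195 0 0) (P.cons (P.lf 0 1106073 0) (P.cons (P.lf 0 106857 0) P.nil))))) (P.cons (P.cons (P.lf 0 8538216 0) (P.cons (P.lf 8179263 0 0) (P.cons (P.lf 613059 0 0) (P.cons (P.lf 0 147096 0) P.nil)))) (P.cons (P.cons (P.lf 0 1268424 0) (P.cons (P.lf 1283412 0 0) (P.cons (P.lf 0 8532 0) P.nil))) (P.cons (P.cons (P.lf 128988 0 0) (P.cons (P.lf 0 119313 0) P.nil)) (P.cons (P.cons (P.lf 38781 0 0) P.nil) P.nil)))))) 132474)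
 EL.nil)))
noncomputable def S169_198_734_808_23 : EL := (EL.cons 4 (TM.mk (P.cons (P.cons (P.lf 0 167055084 0) (P.cons (P.lf 0 44086686 0) (P.cons (P.lf 20811615 0 0) (P.lf 991026 0 0)))) (P.cons (P.cons (P.lf 0 458902893 0) (P.cons (P.lf 3705453 0 0) (P.cons (P.lf 0 1749204 0) (P.lf 0 83295 0)))) (P.cons (P.cons (P.lf 47493777 0 0) (P.cons (P.lf 2985618 0 0) (P.cons (P.lf 0 1409391 0) (P.lf 0 67110 0)))) (P.cons (P.cons (P.lf 24828819 0 0) (P.cons (P.lf 0 28986 0) (P.cons (P.lf 13686 0 0) P.nil))) (P.cons (P.cons (P.lf 0 548055 0) (P.cons (P.lf 0 82908 0) P.nil)) (P.cons (P.cons (P.lf 0 559209 0) P.nil) P.nil)))))) 173844)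
 (EL.cons 8 (TM.mk (P.cons (P.cons (P.lf 70109532 0 0) (P.cons (P.lf 18502266 0 0) (P.cons (P.lf 0 8734200 0) (P.lf 0 415914 0)))) (P.cons (P.cons (P.lf 175445241 0 0) (P.cons (P.lf 0 6080202 0) (P.cons (P.lf 2870226 0 0) (P.lf 136674 0 0)))) (P.cons (P.cons (P.lf 0 65957718 0) (P.cons (P.lf 0 588516 0) (P.cons (P.lf 277815 0 0) (P.lf 13227 0 0)))) (P.cons (P.cons (P.lf 0 2711976 0) (P.cons (P.lf 261894 0 0) (P.cons (P.lf 0 123627 0) P.nil))) (P.cons (P.cons (P.lf 2140926 0 0) (P.cons (P.lf 18066 0 0) P.nil)) (P.cons (P.cons (P.lf 81174 0 0) P.nil) P.nil)))))) 106974)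
 (EL.cons 11 (TM.mk (P.cons (P.cons (P.lf 0 224664999 0) (P.cons (P.lf 221529162 0 0) (P.cons (P.lf 6931860 0 0) (P.cons (P.lf 0 1270233 0) (P.lf 0 45363 0))))) (P.cons (P.cons (P.lf 340461 0 0) (P.cons (P.lf 0 335709 0) (P.cons (P.lf 0 10503 0) (P.cons (P.lf 1926 0 0) (P.lf 69 0 0))))) (P.cons (P.cons (P.lf 8950908 0 0) (P.cons (P.lf 0 8825976 0) (P.cons (P.lf 0 276171 0) (P.cons (P.lf 50604 0 0) P.nil)))) (P.cons (P.cons (P.lf 561678 0 0) (P.cons (P.lf 0 553836 0) (P.cons (P.lf 0 17328 0) P.nil))) (P.cons (P.cons (P.lf 0 81936 0) (P.cons (P.lf 80793 0 0) P.nil)) (P.cons (P.cons (P.lf 0 9222 0) P.nil) P.nil)))))) 22986)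
 EL.nil)))
noncomputable def S169_198_734_808_24 : EL := (EL.cons 4 (TM.mk (P.cons (P.cons (P.lf 29815266 0 0) (P.cons (P.lf 10169022 0 0) (P.cons (P.lf 0 4193253 0) (P.cons (P.lf 0 801810 0) (P.cons (P.lf 108000 0 0) (P.cons (P.lf 12885 0 0) P.nil)))))) (P.cons (P.cons (P.lf 84021855 0 0) (P.cons (P.lf 6776868 0 0) (P.cons (P.lf 0 3102555 0) (P.cons (P.lf 0 243480 0) (P.cons (P.lf 17172 0 0) P.nil))))) (P.cons (P.cons (P.lf 380376 0 0) (P.cons (P.lf 1113210 0 0) (P.cons (P.lf 0 576444 0) (P.cons (P.lf 23070 0 0) P.nil)))) (P.cons (P.cons (P.lf 3362220 0 0) (P.cons (P.lf 0 567441 0) (P.cons (P.lf 255978 0 0) P.nil))) (P.cons (P.cons (P.lf 0 970575 0) (P.cons (P.lf 0 151857 0) P.nil)) (P.cons (P.cons (P.lf 0 477273 0) P.nil) P.nil)))))) 331248)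
 (EL.cons 8 (TM.mk (P.cons (P.cons (P.lf 0 12512844 0) (P.cons (P.lf 0 4267725 0) (P.cons (P.lf 1759821 0 0) (P.cons (P.lf 336501 0 0) (P.cons (P.lf 0 45324 0) (P.cons (P.lf 0 5406 0) P.nil)))))) (P.cons (P.cons (P.lf 0 32201946 0) (P.cons (P.lf 0 1800351 0) (P.cons (P.lf 871677 0 0) (P.cons (P.lf 19884 0 0) (P.cons (P.lf 3876 0 0) P.nil))))) (P.cons (P.cons (P.lf 8272287 0 0) (P.cons (P.lf 162849 0 0) (P.cons (P.lf 0 49500 0) (P.cons (P.lf 0 29505 0) P.nil)))) (P.cons (P.cons (P.lf 0 1891350 0) (P.cons (P.lf 316299 0 0) (P.cons (P.lf 0 149721 0) P.nil))) (P.cons (P.cons (P.lf 810708 0 0) (P.cons (P.lf 2730 0 0) P.nil)) (P.cons (P.cons (P.lf 74271 0 0) P.nil) P.nil)))))) 174189)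
 (EL.cons 11 (TM.mk (P.cons (P.cons (P.lf 40097232 0 0) (P.cons (P.lf 0 36443556 0) (P.cons (P.lf 0 5748546 0) (P.cons (P.lf 1501866 0 0) (P.cons (P.lf 139233 0 0) (P.cons (P.lf 0 5487 0) P.nil)))))) (P.cons (P.cons (P.lf 2788794 0 0) (P.cons (P.lf 0 2002545 0) (P.cons (P.lf 0 1175721 0) (P.cons (P.lf 323766 0 0) (P.cons (P.lf 32235 0 0) P.nil))))) (P.cons (P.cons (P.lf 2481576 0 0) (P.cons (P.lf 0 2558214 0) (P.cons (P.lf 85680 0 0) (P.cons (P.lf 0 31827 0) P.nil)))) (P.cons (P.cons (P.lf 0 145824 0) (P.cons (P.lf 95490 0 0) (P.cons (P.lf 74919 0 0) P.nil))) (P.cons (P.cons (P.lf 0 211356 0) (P.cons (P.lf 206364 0 0) P.nil)) (P.cons (P.cons (P.lf 0 13857 0) P.nil) P.nil)))))) 116058)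
 EL.nil)))
noncomputable def S169_198_734_808_25 : EL := (EL.cons 4 (TM.mk (P.cons (P.cons (P.lf 85999194 0 0) (P.cons (P.lf 22695624 0 0) (P.cons (P.lf 0 10713723 0) (P.lf 0 510174 0)))) (P.cons (P.cons (P.lf 222175764 0 0) (P.cons (P.lf 0 5619465 0) (P.cons (P.lf 2652732 0 0) (P.lf 126321 0 0)))) (P.cons (P.cons (P.lf 0 63913407 0) (P.cons (P.lf 0 1443012 0) (P.cons (P.lf 681186 0 0) (P.lf 32436 0 0)))) (P.cons (P.cons (P.lf 0 11031141 0) (P.cons (P.lf 290205 0 0) (P.cons (P.lf 0 136995 0) P.nil))) (P.cons (P.cons (P.lf 2669376 0 0) (P.cons (P.lf 55533 0 0) P.nil)) (P.cons (P.cons (P.lf 368949 0 0) P.nil) P.nil)))))) 165522)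
 (EL.cons 8 (TM.mk (P.cons (P.cons (P.lf 0 36092064 0) (P.cons (P.lf 0 9524880 0) (P.cons (P.lf 4496325 0 0) (P.lf 214110 0 0)))) (P.cons (P.cons (P.lf 0 84415473 0) (P.cons (P.lf 4687875 0 0) (P.cons (P.lf 0 2212962 0) (P.lf 0 105378 0)))) (P.cons (P.cons (P.lf 49073193 0 0) (P.cons (P.lf 0 117465 0) (P.cons (P.lf 55449 0 0) (P.lf 2640 0 0)))) (P.cons (P.cons (P.lf 0 3298539 0) (P.cons (P.lf 0 216783 0) (P.cons (P.lf 102333 0 0) P.nil))) (P.cons (P.cons (P.lf 0 1680447 0) (P.cons (P.lf 10188 0 0) P.nil)) (P.cons (P.cons (P.lf 129411 0 0) P.nil) P.nil)))))) 98076)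
 (EL.cons 11 (TM.mk (P.cons (P.cons (P.lf 115656513 0 0) (P.cons (P.lf 0 114042198 0) (P.cons (P.lf 0 3568488 0) (P.cons (P.lf 653910 0 0) (P.lf 23352 0 0))))) (P.cons (P.cons (P.lf 0 19091130 0) (P.cons (P.lf 18824661 0 0) (P.cons (P.lf 589041 0 0) (P.cons (P.lf 0 107940 0) (P.lf 0 3855 0))))) (P.cons (P.cons (P.lf 0 5690208 0) (P.cons (P.lf 5610786 0 0) (P.cons (P.lf 175566 0 0) (P.cons (P.lf 0 32169 0) P.nil)))) (P.cons (P.cons (P.lf 494613 0 0) (P.cons (P.lf 0 487710 0) (P.cons (P.lf 0 15258 0) P.nil))) (P.cons (P.cons (P.lf 138777 0 0) (P.cons (P.lf 0 136842 0) P.nil)) (P.cons (P.cons (P.lf 0 432 0) P.nil) P.nil)))))) 26754)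
 EL.nil)))
noncomputable def S169_198_734_808_26 : EL := (EL.cons 4 (TM.mk (P.cons (P.cons (P.lf 0 15348762 0) (P.cons (P.lf 0 5234964 0) (P.cons (P.lf 2158668 0 0) (P.cons (P.lf 412767 0 0) (P.cons (P.lf 0 55596 0) (P.cons (P.lf 0 6633 0) P.nil)))))) (P.cons (P.cons (P.lf 0 40743744 0) (P.cons (P.lf 0 2632509 0) (P.cons (P.lf 1244127 0 0) (P.cons (P.lf 57834 0 0) (P.cons (P.lf 252 0 0) P.nil))))) (P.cons (P.cons (P.lf 7025913 0 0) (P.cons (P.lf 47793 0 0) (P.cons (P.lf 14793 0 0) (P.cons (P.lf 0 36342 0) P.nil)))) (P.cons (P.cons (P.lf 0 1287108 0) (P.cons (P.lf 418068 0 0) (P.cons (P.lf 0 195120 0) P.nil))) (P.cons (P.cons (P.lf 773298 0 0) (P.cons (P.lf 34815 0 0) P.nil)) (P.cons (P.cons (P.lf 178644 0 0) P.nil) P.nil)))))) 235530)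
 (EL.cons 8 (TM.mk (P.cons (P.cons (P.lf 6441555 0 0) (P.cons (P.lf 2197005 0 0) (P.cons (P.lf 0 905946 0) (P.cons (P.lf 0 173229 0) (P.cons (P.lf 23331 0 0) (P.cons (P.lf 2781 0 0) P.nil)))))) (P.cons (P.cons (P.lf 15523884 0 0) (P.cons (P.lf 567486 0 0) (P.cons (P.lf 0 300564 0) (P.cons (P.lf 18093 0 0) (P.cons (P.lf 0 5811 0) P.nil))))) (P.cons (P.cons (P.lf 0 7031682 0) (P.cons (P.lf 0 256521 0) (P.cons (P.lf 107574 0 0) (P.cons (P.lf 18525 0 0) P.nil)))) (P.cons (P.cons (P.lf 1512492 0 0) (P.cons (P.lf 0 157479 0) (P.cons (P.lf 76995 0 0) P.nil))) (P.cons (P.cons (P.lf 0 531324 0) (P.cons (P.lf 26352 0 0) P.nil)) (P.cons (P.cons (P.lf 20355 0 0) P.nil) P.nil)))))) 117729)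
 (EL.cons 11 (TM.mk (P.cons (P.cons (P.lf 0 20641872 0) (P.cons (P.lf 18760974 0 0) (P.cons (P.lf 2959326 0 0) (P.cons (P.lf 0 773151 0) (P.cons (P.lf 0 71676 0) (P.cons (P.lf 2823 0 0) P.nil)))))) (P.cons (P.cons (P.lf 1940361 0 0) (P.cons (P.lf 0 2037495 0) (P.cons (P.lf 121251 0 0) (P.cons (P.lf 0 40221 0) (P.cons (P.lf 0 4872 0) P.nil))))) (P.cons (P.cons (P.lf 0 844413 0) (P.cons (P.lf 968133 0 0) (P.cons (P.lf 0 171525 0) (P.cons (P.lf 51072 0 0) P.nil)))) (P.cons (P.cons (P.lf 292719 0 0) (P.cons (P.lf 0 269835 0) (P.cons (P.lf 0 36441 0) P.nil))) (P.cons (P.cons (P.lf 107538 0 0) (P.cons (P.lf 0 109767 0) P.nil)) (P.cons (P.cons (P.lf 0 11772 0) P.nil) P.nil)))))) 81114)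
 EL.nil)))
noncomputable def S169_198_734_808_27 : EL := (EL.cons 13 (TM.mk (P.lf 0 4294967296 0) 0)
 EL.nil)
noncomputable def S169_198_734_808_28 : EL := (EL.cons 13 (TM.mk (P.cons (P.cons (P.lf 766547117 0 0) (P.cons (P.lf 59148752 0 0) (P.cons (P.lf 0 27921832 0) (P.lf 0 1329608 0)))) (P.cons (P.cons (P.lf 54475636 0 0) (P.cons (P.lf 14376396 0 0) (P.cons (P.lf 0 6786536 0) (P.lf 0 323168 0)))) (P.cons (P.cons (P.lf 78063515 0 0) (P.cons (P.lf 251100 0 0) (P.cons (P.lf 0 118536 0) (P.lf 0 5644 0)))) (P.cons (P.cons (P.lf 1417340 0 0) (P.cons (P.lf 0 202288 0) (P.cons (P.lf 95488 0 0) P.nil))) (P.cons (P.cons (P.lf 0 1071669 0) (P.cons (P.lf 0 14972 0) P.nil)) (P.cons (P.cons (P.lf 0 66242 0) P.nil) P.nil)))))) 28513)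
 EL.nil)
noncomputable def S169_198_734_808_29 : EL := (EL.cons 13 (TM.mk (P.cons (P.cons (P.lf 0 136810001 0) (P.cons (P.lf 0 21113224 0) (P.cons (P.lf 9152159 0 0) (P.cons (P.lf 1243664 0 0) (P.cons (P.lf 0 144899 0) (P.cons (P.lf 0 17287 0) P.nil)))))) (P.cons (P.cons (P.lf 0 19445150 0) (P.cons (P.lf 0 6632111 0) (P.cons (P.lf 2734788 0 0) (P.cons (P.lf 522930 0 0) (P.cons (P.lf 0 70437 0) P.nil))))) (P.cons (P.cons (P.lf 0 28555821 0) (P.cons (P.lf 0 2604444 0) (P.cons (P.lf 1174420 0 0) (P.cons (P.lf 110507 0 0) P.nil)))) (P.cons (P.cons (P.lf 0 2486173 0) (P.cons (P.lf 0 495799 0) (P.cons (P.lf 237939 0 0) P.nil))) (P.cons (P.cons (P.lf 0 1072269 0) (P.cons (P.lf 21376 0 0) P.nil)) (P.cons (P.cons (P.lf 0 691 0) P.nil) P.nil)))))) 161266)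
 EL.nil)
noncomputable def S169_198_734_808_30 : EL := (EL.cons 13 (TM.mk (P.cons (P.lf 2211029524 0 0) (P.cons (P.lf 0 361618480 0) (P.cons (P.lf 0 21238980 0) (P.cons (P.lf 543904 0 0) (P.cons (P.lf 97232 0 0) (P.cons (P.lf 1560 0 0) P.nil)))))) 512)
 EL.nil)
noncomputable def S169_198_734_808_31 : EL := (EL.cons 13 (TM.mk (P.cons (P.cons (P.lf 0 394614950 0) (P.cons (P.lf 0 30449507 0) (P.cons (P.lf 14374031 0 0) (P.lf 684476 0 0)))) (P.cons (P.cons (P.lf 36496288 0 0) (P.cons (P.lf 0 2420822 0) (P.cons (P.lf 1142774 0 0) (P.lf 54417 0 0)))) (P.cons (P.cons (P.lf 0 31809476 0) (P.cons (P.lf 1373663 0 0) (P.cons (P.lf 0 648452 0) (P.lf 0 30878 0)))) (P.cons (P.cons (P.lf 6015297 0 0) (P.cons (P.lf 188880 0 0) (P.cons (P.lf 0 89161 0) P.nil))) (P.cons (P.cons (P.lf 1032803 0 0) (P.cons (P.lf 0 11242 0) P.nil)) (P.cons (P.cons (P.lf 0 60517 0) P.nil) P.nil))))))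 46660)
 EL.nil)
noncomputable def S169_198_734_808_32 : EL := (EL.cons 13 (TM.mk (P.cons (P.cons (P.lf 70429162 0 0) (P.cons (P.lf 10868991 0 0) (P.cons (P.lf 0 4711489 0) (P.cons (P.lf 0 640232 0) (P.cons (P.lf 74593 0 0) (P.cons (P.lf 8899 0 0) P.nil)))))) (P.cons (P.cons (P.lf 0 1508561 0) (P.cons (P.lf 1636534 0 0) (P.cons (P.lf 0 637282 0) (P.cons (P.lf 0 164490 0) (P.cons (P.lf 24060 0 0) P.nil))))) (P.cons (P.cons (P.lf 12386667 0 0) (P.cons (P.lf 677952 0 0) (P.cons (P.lf 0 329070 0) (P.cons (P.lf 0 6709 0) P.nil)))) (P.cons (P.cons (P.lf 0 1203244 0) (P.cons (P.lf 5829 0 0) (P.cons (P.lf 0 11243 0) P.nil))) (P.cons (P.cons (P.lf 207022 0 0) (P.cons (P.lf 0 64309 0) P.nil)) (P.cons (P.cons (P.lf 0 98113 0) P.nil) P.nil)))))) 158151)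
 EL.nil)
noncomputable def S169_198_734_808_33 : EL := (EL.cons 14 (TM.mk (P.lf 8589934592 0 0) 0)
 EL.nil)
noncomputable def S169_198_734_808_34 : EL := (EL.cons 14 (TM.mk (P.cons (P.cons (P.lf 0 1533094234 0) (P.cons (P.lf 0 118297504 0) (P.cons (P.lf 55843664 0 0) (P.lf 2659216 0 0)))) (P.cons (P.cons (P.lf 0 108951272 0) (P.cons (P.lf 0 28752792 0) (P.cons (P.lf 13573072 0 0) (P.lf 646336 0 0)))) (P.cons (P.cons (P.lf 0 156127030 0) (P.cons (P.lf 0 502200 0) (P.cons (P.lf 237072 0 0) (P.lf 11288 0 0)))) (P.cons (P.cons (P.lf 0 2834680 0) (P.cons (P.lf 404576 0 0) (P.cons (P.lf 0 190976 0) P.nil))) (P.cons (P.cons (P.lf 2143338 0 0) (P.cons (P.lf 29944 0 0) P.nil)) (P.cons (P.cons (P.lf 132484 0 0) P.nil) P.nil)))))) 57026)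
 EL.nil)
noncomputable def S169_198_734_808_35 : EL := (EL.cons 14 (TM.mk (P.cons (P.cons (P.lf 273620002 0 0) (P.cons (P.lf 42226448 0 0) (P.cons (P.lf 0 18304318 0) (P.cons (P.lf 0 2487328 0) (P.cons (P.lf 289798 0 0) (P.cons (P.lf 34574 0 0) P.nil)))))) (P.cons (P.cons (P.lf 38890300 0 0) (P.cons (P.lf 13264222 0 0) (P.cons (P.lf 0 5469576 0) (P.cons (P.lf 0 1045860 0) (P.cons (P.lf 140874 0 0) P.nil))))) (P.cons (P.cons (P.lf 57111642 0 0) (P.cons (P.lf 5208888 0 0) (P.cons (P.lf 0 2348840 0) (P.cons (P.lf 0 221014 0) P.nil)))) (P.cons (P.cons (P.lf 4972346 0 0) (P.cons (P.lf 991598 0 0) (P.cons (P.lf 0 475878 0) P.nil))) (P.cons (P.cons (P.lf 2144538 0 0) (P.cons (P.lf 0 42752 0) P.nil)) (P.cons (P.cons (P.lf 1382 0 0) P.nil) P.nil)))))) 322532)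
 EL.nil)
noncomputable def S169_198_734_808_36 : EL := (EL.cons 14 (TM.mk (P.cons (P.lf 0 4422059048 0) (P.cons (P.lf 723236960 0 0) (P.cons (P.lf 42477960 0 0) (P.cons (P.lf 0 1087808 0) (P.cons (P.lf 0 194464 0) (P.cons (P.lf 0 3120 0) P.nil)))))) 1024)
 EL.nil)
noncomputable def S169_198_734_808_37 : EL := (EL.cons 14 (TM.mk (P.cons (P.cons (P.lf 789229900 0 0) (P.cons (P.lf 60899014 0 0) (P.cons (P.lf 0 28748062 0) (P.lf 0 1368952 0)))) (P.cons (P.cons (P.lf 0 72992576 0) (P.cons (P.lf 4841644 0 0) (P.cons (P.lf 0 2285548 0) (P.lf 0 108834 0)))) (P.cons (P.cons (P.lf 63618952 0 0) (P.cons (P.lf 0 2747326 0) (P.cons (P.lf 1296904 0 0) (P.lf 61756 0 0)))) (P.cons (P.cons (P.lf 0 12030594 0) (P.cons (P.lf 0 377760 0) (P.cons (P.lf 178322 0 0) P.nil))) (P.cons (P.cons (P.lf 0 2065606 0) (P.cons (P.lf 22484 0 0) P.nil)) (P.cons (P.cons (P.lf 121034 0 0) P.nil) P.nil))))))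 93320)
 EL.nil)
noncomputable def S169_198_734_808_38 : EL := (EL.cons 14 (TM.mk (P.cons (P.cons (P.lf 0 140858324 0) (P.cons (P.lf 0 21737982 0) (P.cons (P.lf 9422978 0 0) (P.cons (P.lf 1280464 0 0) (P.cons (P.lf 0 149186 0) (P.cons (P.lf 0 17798 0) P.nil)))))) (P.cons (P.cons (P.lf 3017122 0 0) (P.cons (P.lf 0 3273068 0) (P.cons (P.lf 1274564 0 0) (P.cons (P.lf 328980 0 0) (P.cons (P.lf 0 48120 0) P.nil))))) (P.cons (P.cons (P.lf 0 24773334 0) (P.cons (P.lf 0 1355904 0) (P.cons (P.lf 658140 0 0) (P.cons (P.lf 13418 0 0) P.nil)))) (P.cons (P.cons (P.lf 2406488 0 0) (P.cons (P.lf 0 11658 0) (P.cons (P.lf 22486 0 0) P.nil))) (P.cons (P.cons (P.lf 0 414044 0) (P.cons (P.lf 128618 0 0) P.nil)) (P.cons (P.cons (P.lf 196226 0 0) P.nil) P.nil)))))) 316302)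
 EL.nil)
noncomputable def S169_198_734_808_39 : EL := (EL.cons 14 (TM.mk (P.cons (P.lf 2276455776 0 0) (P.cons (P.lf 0 744638158 0) (P.cons (P.lf 17158640 0 0) (P.cons (P.lf 8272934 0 0) (P.cons (P.lf 227096 0 0) (P.cons (P.lf 0 40292 0) P.nil)))))) 3922)
 EL.nil)
noncomputable def S169_198_734_808_40 : EL := (EL.cons 14 (TM.mk (P.cons (P.cons (P.lf 0 406291942 0) (P.cons (P.lf 0 31350532 0) (P.cons (P.lf 14799370 0 0) (P.lf 704730 0 0)))) (P.cons (P.cons (P.lf 104026136 0 0) (P.cons (P.lf 2634988 0 0) (P.cons (P.lf 0 1243876 0) (P.lf 0 59230 0)))) (P.cons (P.cons (P.lf 0 34993608 0) (P.cons (P.lf 2123108 0 0) (P.cons (P.lf 0 1002236 0) (P.lf 0 47724 0)))) (P.cons (P.cons (P.lf 11088846 0 0) (P.cons (P.lf 0 20612 0) (P.cons (P.lf 9732 0 0) P.nil))) (P.cons (P.cons (P.lf 356416 0 0) (P.cons (P.lf 0 58958 0) P.nil)) (P.cons (P.cons (P.lf 0 302406 0) P.nil) P.nil))))))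 92174)
 EL.nil)
noncomputable def S169_198_734_808_41 : EL := (EL.cons 14 (TM.mk (P.cons (P.cons (P.lf 72513220 0 0) (P.cons (P.lf 11190612 0 0) (P.cons (P.lf 0 4850906 0) (P.cons (P.lf 0 659176 0) (P.cons (P.lf 76800 0 0) (P.cons (P.lf 9162 0 0) P.nil)))))) (P.cons (P.cons (P.lf 0 13412888 0) (P.cons (P.lf 0 145286 0) (P.cons (P.lf 137234 0 0) (P.cons (P.lf 0 61548 0) (P.cons (P.lf 12210 0 0) P.nil))))) (P.cons (P.cons (P.lf 12310672 0 0) (P.cons (P.lf 314938 0 0) (P.cons (P.lf 0 184896 0) (P.cons (P.lf 27122 0 0) P.nil)))) (P.cons (P.cons (P.lf 0 3291902 0) (P.cons (P.lf 0 121592 0) (P.cons (P.lf 48944 0 0) P.nil))) (P.cons (P.cons (P.lf 296064 0 0) (P.cons (P.lf 0 72992 0) P.nil)) (P.cons (P.cons (P.lf 0 120856 0) P.nil) P.nil)))))) 238426)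
 EL.nil)
noncomputable def S169_198_734_808_42 : EL := (EL.cons 14 (TM.mk (P.cons (P.lf 0 1171909022 0) (P.cons (P.lf 575004478 0 0) (P.cons (P.lf 0 60271372 0) (P.cons (P.lf 0 6784766 0) (P.cons (P.lf 707252 0 0) (P.cons (P.lf 94630 0 0) P.nil)))))) 9404)
 EL.nil)
noncomputable def S169_198_734_808_43 : EL := (EL.cons 14 (TM.mk (P.cons (P.cons (P.lf 209157234 0 0) (P.cons (P.lf 16139110 0 0) (P.cons (P.lf 0 7618648 0) (P.lf 0 362790 0)))) (P.cons (P.cons (P.lf 0 87760280 0) (P.cons (P.lf 0 3996064 0) (P.cons (P.lf 1886388 0 0) (P.lf 89826 0 0)))) (P.cons (P.cons (P.lf 24763970 0 0) (P.cons (P.lf 0 1026142 0) (P.cons (P.lf 484400 0 0) (P.lf 23066 0 0)))) (P.cons (P.cons (P.lf 0 8088934 0) (P.cons (P.lf 206368 0 0) (P.cons (P.lf 0 97418 0) P.nil))) (P.cons (P.cons (P.lf 573130 0 0) (P.cons (P.lf 39490 0 0) P.nil)) (P.cons (P.cons (P.lf 242746 0 0) P.nil) P.nil))))))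 110960)
 EL.nil)
noncomputable def S169_198_734_808_44 : EL := (EL.cons 14 (TM.mk (P.cons (P.cons (P.lf 0 37329474 0) (P.cons (P.lf 0 5760876 0) (P.cons (P.lf 2497224 0 0) (P.cons (P.lf 339340 0 0) (P.cons (P.lf 0 39536 0) (P.cons (P.lf 0 4716 0) P.nil)))))) (P.cons (P.cons (P.lf 13010206 0 0) (P.cons (P.lf 1016996 0 0) (P.cons (P.lf 0 479074 0) (P.cons (P.lf 0 23814 0) (P.cons (P.lf 178 0 0) P.nil))))) (P.cons (P.cons (P.lf 0 7108202 0) (P.cons (P.lf 0 119022 0) (P.cons (P.lf 82750 0 0) (P.cons (P.lf 0 22404 0) P.nil)))) (P.cons (P.cons (P.lf 2655652 0 0) (P.cons (P.lf 86976 0 0) (P.cons (P.lf 0 39470 0) P.nil))) (P.cons (P.cons (P.lf 0 368642 0) (P.cons (P.lf 28660 0 0) P.nil)) (P.cons (P.cons (P.lf 69582 0 0) P.nil) P.nil)))))) 216358)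
 EL.nil)
noncomputable def S169_198_734_808_45 : EL := (EL.cons 14 (TM.mk (P.cons (P.cons (P.lf 0 48834510 0) (P.cons (P.lf 0 11304588 0) (P.cons (P.lf 4464166 0 0) (P.cons (P.lf 1055230 0 0) (P.cons (P.lf 0 123392 0) (P.cons (P.lf 0 31998 0) P.nil)))))) (P.cons (P.cons (P.lf 0 10411456 0) (P.cons (P.lf 0 4354386 0) (P.cons (P.lf 1569516 0 0) (P.cons (P.lf 540384 0 0) (P.cons (P.lf 0 63286 0) P.nil))))) (P.cons (P.cons (P.lf 0 15659508 0) (P.cons (P.lf 0 2798080 0) (P.cons (P.lf 1142962 0 0) (P.cons (P.lf 226598 0 0) P.nil)))) (P.cons (P.cons (P.lf 0 2408972 0) (P.cons (P.lf 0 747094 0) (P.cons (P.lf 307856 0 0) P.nil))) (P.cons (P.cons (P.lf 0 1428412 0) (P.cons (P.lf 0 140192 0) P.nil)) (P.cons (P.cons (P.lf 0 122744 0) P.nil) P.nil)))))) 433258)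
 EL.nil)
noncomputable def S169_198_734_808_46 : EL := (EL.cons 15 (TM.mk (P.lf 4294967296 0 0) 0)
 EL.nil)
noncomputable def S169_198_734_808_47 : EL := (EL.cons 15 (TM.mk (P.cons (P.cons (P.lf 0 766547117 0) (P.cons (P.lf 0 59148752 0) (P.cons (P.lf 27921832 0 0) (P.lf 1329608 0 0)))) (P.cons (P.cons (P.lf 0 54475636 0) (P.cons (P.lf 0 14376396 0) (P.cons (P.lf 6786536 0 0) (P.lf 323168 0 0)))) (P.cons (P.cons (P.lf 0 78063515 0) (P.cons (P.lf 0 251100 0) (P.cons (P.lf 118536 0 0) (P.lf 5644 0 0)))) (P.cons (P.cons (P.lf 0 1417340 0) (P.cons (P.lf 202288 0 0) (P.cons (P.lf 0 95488 0) P.nil))) (P.cons (P.cons (P.lf 1071669 0 0) (P.cons (P.lf 14972 0 0) P.nil)) (P.cons (P.cons (P.lf 66242 0 0) P.nil) P.nil)))))) 28513)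
 EL.nil)
noncomputable def S169_198_734_808_48 : EL := (EL.cons 15 (TM.mk (P.cons (P.cons (P.lf 136810001 0 0) (P.cons (P.lf 21113224 0 0) (P.cons (P.lf 0 9152159 0) (P.cons (P.lf 0 1243664 0) (P.cons (P.lf 144899 0 0) (P.cons (P.lf 17287 0 0) P.nil)))))) (P.cons (P.cons (P.lf 19445150 0 0) (P.cons (P.lf 6632111 0 0) (P.cons (P.lf 0 2734788 0) (P.cons (P.lf 0 522930 0) (P.cons (P.lf 70437 0 0) P.nil))))) (P.cons (P.cons (P.lf 28555821 0 0) (P.cons (P.lf 2604444 0 0) (P.cons (P.lf 0 1174420 0) (P.cons (P.lf 0 110507 0) P.nil)))) (P.cons (P.cons (P.lf 2486173 0 0) (P.cons (P.lf 495799 0 0) (P.cons (P.lf 0 237939 0) P.nil))) (P.cons (P.cons (P.lf 1072269 0 0) (P.cons (P.lf 0 21376 0) P.nil)) (P.cons (P.cons (P.lf 691 0 0) P.nil) P.nil)))))) 161266)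
 EL.nil)
noncomputable def S169_198_734_808 : SL := (SL.cons S169_198_734_808_0 (SL.cons S169_198_734_808_1 (SL.cons S169_198_734_808_2 (SL.cons S169_198_734_808_3 (SL.cons S169_198_734_808_4 (SL.cons S169_198_734_808_5 (SL.cons S169_198_734_808_6 (SL.cons S169_198_734_808_7 (SL.cons S169_198_734_808_8 (SL.cons S169_198_734_808_9 (SL.cons S169_198_734_808_10 (SL.cons S169_198_734_808_11 (SL.cons S169_198_734_808_12 (SL.cons S169_198_734_808_13 (SL.cons S169_198_734_808_14 (SL.cons S169_198_734_808_15 (SL.cons S169_198_734_808_16 (SL.cons S169_198_734_808_17 (SL.cons S169_198_734_808_18 (SL.cons S169_198_734_808_19 (SL.cons S169_198_734_808_20 (SL.cons S169_198_734_808_21 (SL.cons S169_198_734_808_22 (SL.cons S169_198_734_808_23 (SL.cons S169_198_734_808_24 (SL.cons S169_198_734_808_25 (SL.cons S169_198_734_808_26 (SL.cons S169_198_734_808_27 (SL.cons S169_198_734_808_28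 (SL.cons S169_198_734_808_29 (SL.cons S169_198_734_808_30 (SL.cons S169_198_734_808_31 (SL.cons S169_198_734_808_32 (SL.cons S169_198_734_808_33 (SL.cons S169_198_734_808_34 (SL.cons S169_198_734_808_35 (SL.cons S169_198_734_808_36 (SL.cons S169_198_734_808_37 (SL.cons S169_198_734_808_38 (SL.cons S169_198_734_808_39 (SL.cons S169_198_734_808_40 (SL.cons S169_198_734_808_41 (SL.cons S169_198_734_808_42 (SL.cons S169_198_734_808_43 (SL.cons S169_198_734_808_44 (SL.cons S169_198_734_808_45 (SL.cons S169_198_734_808_46 (SL.cons S169_198_734_808_47 (SL.cons S169_198_734_808_48 SL.nil)))))))))))))))))))))))))))))))))))))))))))))))))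
noncomputable def S176_183_216_290_0 : EL := (EL.cons 0 (TM.mk (P.cons (P.lf 6273386781 0 0) (P.cons (P.lf 159586808 0 0) (P.cons (P.lf 0 533801 0) (P.cons (P.lf 0 98790 0) (P.cons (P.lf 0 829 0) (P.cons (P.lf 28 0 0) P.nil)))))) 112)
 (EL.cons 1 (TM.mk (P.cons (P.lf 0 1730075681 0) (P.cons (P.lf 27470073 0 0) (P.cons (P.lf 2743211 0 0) (P.cons (P.lf 9043 0 0) (P.cons (P.lf 0 1033 0) (P.cons (P.lf 0 11 0) P.nil)))))) 102)
 (EL.cons 5 (TM.mk (P.cons (P.lf 5070906886 0 0) (P.cons (P.lf 0 56741974 0) (P.cons (P.lf 189792 0 0) (P.cons (P.lf 35126 0 0) (P.cons (P.lf 296 0 0) (P.cons (P.lf 0 8 0) P.nil)))))) 93)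
 (EL.cons 9 (TM.mk (P.lf 6442450944 0 0) 2)
 EL.nil))))
noncomputable def S176_183_216_290_1 : EL := (EL.cons 0 (TM.mk (P.cons (P.cons (P.lf 0 1193950361 0) (P.cons (P.lf 3516807 0 0) (P.cons (P.lf 1660146 0 0) (P.lf 0 79048 0)))) (P.cons (P.cons (P.lf 542805317 0 0) (P.cons (P.lf 0 7986871 0) (P.cons (P.lf 0 3770289 0) (P.lf 179531 0 0)))) (P.cons (P.cons (P.lf 12089094 0 0) (P.cons (P.lf 0 480199 0) (P.cons (P.lf 0 226677 0) (P.lf 10791 0 0)))) (P.cons (P.cons (P.lf 0 996594 0) (P.cons (P.lf 3062 0 0) (P.cons (P.lf 1448 0 0) P.nil))) (P.cons (P.cons (P.lf 0 30741 0) (P.cons (P.lf 747 0 0) P.nil)) (P.cons (P.cons (P.lf 643 0 0) P.nil) P.nil)))))) 3575)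
 (EL.cons 1 (TM.mk (P.cons (P.cons (P.lf 0 1329558073 0) (P.cons (P.lf 36723270 0 0) (P.cons (P.lf 17335628 0 0) (P.lf 0 825498 0)))) (P.cons (P.cons (P.lf 0 136789971 0) (P.cons (P.lf 3856526 0 0) (P.cons (P.lf 1820509 0 0) (P.lf 0 86681 0)))) (P.cons (P.cons (P.lf 11924172 0 0) (P.cons (P.lf 0 75306 0) (P.cons (P.lf 0 35547 0) (P.lf 1697 0 0)))) (P.cons (P.cons (P.lf 460156 0 0) (P.cons (P.lf 0 11900 0) (P.cons (P.lf 0 5609 0) P.nil))) (P.cons (P.cons (P.lf 0 14260 0) (P.cons (P.lf 0 104 0) P.nil)) (P.cons (P.cons (P.lf 0 644 0) P.nil) P.nil)))))) 2022)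
 (EL.cons 5 (TM.mk (P.cons (P.cons (P.lf 3345271916 0 0) (P.cons (P.lf 0 95100820 0) (P.cons (P.lf 0 44893408 0) (P.lf 2137780 0 0)))) (P.cons (P.cons (P.lf 63309582 0 0) (P.cons (P.lf 0 2984236 0) (P.cons (P.lf 0 1408742 0) (P.lf 67088 0 0)))) (P.cons (P.cons (P.lf 0 10039681 0) (P.cons (P.lf 129980 0 0) (P.cons (P.lf 61356 0 0) (P.lf 0 2914 0)))) (P.cons (P.cons (P.lf 95079 0 0) (P.cons (P.lf 3338 0 0) (P.cons (P.lf 1576 0 0) P.nil))) (P.cons (P.cons (P.lf 12350 0 0) (P.cons (P.lf 0 172 0) P.nil)) (P.cons (P.cons (P.lf 0 74 0) P.nil) P.nil)))))) 2364)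
 (EL.cons 9 (TM.mk (P.cons (P.cons (P.lf 2577137844 0 0) (P.cons (P.lf 0 82809174 0) (P.cons (P.lf 0 39090996 0) (P.lf 1861470 0 0)))) (P.cons (P.cons (P.lf 226153248 0 0) (P.cons (P.lf 0 5138826 0) (P.cons (P.lf 0 2425836 0) (P.lf 115512 0 0)))) (P.cons (P.cons (P.lf 0 5065873 0) (P.cons (P.lf 0 35958 0) (P.cons (P.lf 0 16974 0) (P.lf 804 0 0)))) (P.cons (P.cons (P.lf 0 228753 0) (P.cons (P.lf 3900 0 0) (P.cons (P.lf 1836 0 0) P.nil))) (P.cons (P.cons (P.lf 1252 0 0) (P.cons (P.lf 78 0 0) P.nil)) (P.cons (P.cons (P.lf 127 0 0) P.nil) P.nil)))))) 770)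
 (EL.cons 2 (TM.mk (P.cons (P.cons (P.lf 210084378 0 0) (P.cons (P.lf 207152057 0 0) (P.cons (P.lf 0 6481985 0) (P.cons (P.lf 0 1187794 0) (P.lf 42420 0 0))))) (P.cons (P.cons (P.lf 1009974 0 0) (P.cons (P.lf 995875 0 0) (P.cons (P.lf 0 31159 0) (P.cons (P.lf 0 5709 0) (P.lf 202 0 0))))) (P.cons (P.cons (P.lf 0 461590 0) (P.cons (P.lf 0 455149 0) (P.cons (P.lf 14239 0 0) (P.cons (P.lf 2607 0 0) P.nil)))) (P.cons (P.cons (P.lf 0 8502 0) (P.cons (P.lf 0 8384 0) (P.cons (P.lf 258 0 0) P.nil))) (P.cons (P.cons (P.lf 219 0 0) (P.cons (P.lf 216 0 0) P.nil)) (P.cons (P.cons (P.lf 5 0 0) P.nil) P.nil)))))) 350)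
 (EL.cons 6 (TM.mk (P.cons (P.cons (P.lf 166547619 0 0) (P.cons (P.lf 164222973 0 0) (P.cons (P.lf 0 5138694 0) (P.cons (P.lf 0 941643 0) (P.lf 33627 0 0))))) (P.cons (P.cons (P.lf 10335330 0 0) (P.cons (P.lf 10191069 0 0) (P.cons (P.lf 0 318885 0) (P.cons (P.lf 0 58434 0) (P.lf 2085 0 0))))) (P.cons (P.cons (P.lf 72324 0 0) (P.cons (P.lf 71316 0 0) (P.cons (P.lf 0 2229 0) (P.cons (P.lf 0 408 0) P.nil)))) (P.cons (P.cons (P.lf 0 7848 0) (P.cons (P.lf 0 7740 0) (P.cons (P.lf 240 0 0) P.nil))) (P.cons (P.cons (P.lf 0 165 0) (P.cons (P.lf 0 162 0) P.nil)) (P.cons (P.cons (P.lf 0 0 0) P.nil) P.nil)))))) 231)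
 EL.nil))))))
noncomputable def S176_183_216_290_2 : EL := (EL.cons 0 (TM.mk (P.cons (P.cons (P.lf 0 1959083212 0) (P.cons (P.lf 98019713 0 0) (P.cons (P.lf 45144419 0 0) (P.cons (P.lf 0 3267292 0) (P.cons (P.lf 0 200445 0) (P.cons (P.lf 23913 0 0) P.nil)))))) (P.cons (P.cons (P.lf 148724308 0 0) (P.cons (P.lf 0 6886585 0) (P.cons (P.lf 0 3206195 0) (P.cons (P.lf 197028 0 0) (P.cons (P.lf 7952 0 0) P.nil))))) (P.cons (P.cons (P.lf 41477989 0 0) (P.cons (P.lf 0 1620952 0) (P.cons (P.lf 0 748212 0) (P.cons (P.lf 52459 0 0) P.nil)))) (P.cons (P.cons (P.lf 0 258371 0) (P.cons (P.lf 0 29704 0) (P.cons (P.lf 0 13285 0) P.nil))) (P.cons (P.cons (P.lf 0 125218 0) (P.cons (P.lf 3756 0 0) P.nil)) (P.cons (P.cons (P.lf 0 988 0) P.nil) P.nil)))))) 26235)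
 (EL.cons 1 (TM.mk (P.cons (P.cons (P.lf 0 786865512 0) (P.cons (P.lf 45768477 0 0) (P.cons (P.lf 20947293 0 0) (P.cons (P.lf 0 1650266 0) (P.cons (P.lf 0 117083 0) (P.cons (P.lf 13963 0 0) P.nil)))))) (P.cons (P.cons (P.lf 0 158590484 0) (P.cons (P.lf 8918369 0 0) (P.cons (P.lf 4083216 0 0) (P.cons (P.lf 0 320169 0) (P.cons (P.lf 0 22547 0) P.nil))))) (P.cons (P.cons (P.lf 1860282 0 0) (P.cons (P.lf 80169 0 0) (P.cons (P.lf 33553 0 0) (P.cons (P.lf 0 5848 0) P.nil)))) (P.cons (P.cons (P.lf 1275128 0 0) (P.cons (P.lf 0 45075 0) (P.cons (P.lf 0 20935 0) P.nil))) (P.cons (P.cons (P.lf 8920 0 0) (P.cons (P.lf 0 1508 0) P.nil)) (P.cons (P.cons (P.lf 0 2738 0) P.nil) P.nil)))))) 13486)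
 (EL.cons 5 (TM.mk (P.cons (P.cons (P.lf 1864936800 0 0) (P.cons (P.lf 0 109936368 0) (P.cons (P.lf 0 50289700 0) (P.cons (P.lf 3988452 0 0) (P.cons (P.lf 285855 0 0) (P.cons (P.lf 0 34100 0) P.nil)))))) (P.cons (P.cons (P.lf 152178390 0 0) (P.cons (P.lf 0 8799897 0) (P.cons (P.lf 0 4020263 0) (P.cons (P.lf 324147 0 0) (P.cons (P.lf 23801 0 0) P.nil))))) (P.cons (P.cons (P.lf 0 10343772 0) (P.cons (P.lf 282438 0 0) (P.cons (P.lf 132980 0 0) (P.cons (P.lf 0 6658 0) P.nil)))) (P.cons (P.cons (P.lf 0 518646 0) (P.cons (P.lf 27057 0 0) (P.cons (P.lf 12457 0 0) P.nil))) (P.cons (P.cons (P.lf 31975 0 0) (P.cons (P.lf 0 509 0) P.nil)) (P.cons (P.cons (P.lf 975 0 0) P.nil) P.nil)))))) 15867)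
 (EL.cons 9 (TM.mk (P.cons (P.cons (P.lf 1030918128 0 0) (P.cons (P.lf 0 66251386 0) (P.cons (P.lf 0 30210304 0) (P.cons (P.lf 2494192 0 0) (P.cons (P.lf 189339 0 0) (P.cons (P.lf 0 22588 0) P.nil)))))) (P.cons (P.cons (P.lf 180933652 0 0) (P.cons (P.lf 0 9925111 0) (P.cons (P.lf 0 4553151 0) (P.cons (P.lf 347827 0 0) (P.cons (P.lf 23499 0 0) P.nil))))) (P.cons (P.cons (P.lf 3885847 0 0) (P.cons (P.lf 0 259320 0) (P.cons (P.lf 0 117390 0) (P.cons (P.lf 10567 0 0) P.nil)))) (P.cons (P.cons (P.lf 0 538674 0) (P.cons (P.lf 14557 0 0) (P.cons (P.lf 6825 0 0) P.nil))) (P.cons (P.cons (P.lf 0 11074 0) (P.cons (P.lf 724 0 0) P.nil)) (P.cons (P.cons (P.lf 549 0 0) P.nil) P.nil)))))) 6581)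
 (EL.cons 2 (TM.mk (P.cons (P.cons (P.lf 168077773 0 0) (P.cons (P.lf 160331056 0 0) (P.cons (P.lf 0 13060704 0) (P.cons (P.lf 0 3176139 0) (P.cons (P.lf 262839 0 0) (P.cons (P.lf 9573 0 0) P.nil)))))) (P.cons (P.cons (P.lf 15557461 0 0) (P.cons (P.lf 14979206 0 0) (P.cons (P.lf 0 1006548 0) (P.cons (P.lf 0 236784 0) (P.cons (P.lf 18444 0 0) P.nil))))) (P.cons (P.cons (P.lf 0 628773 0) (P.cons (P.lf 0 612090 0) (P.cons (P.lf 30931 0 0) (P.cons (P.lf 6811 0 0) P.nil)))) (P.cons (P.cons (P.lf 0 55715 0) (P.cons (P.lf 0 53741 0) (P.cons (P.lf 3459 0 0) P.nil))) (P.cons (P.cons (P.lf 315 0 0) (P.cons (P.lf 326 0 0) P.nil)) (P.cons (P.cons (P.lf 73 0 0) P.nil) P.nil)))))) 5303)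
 (EL.cons 6 (TM.mk (P.cons (P.cons (P.lf 133246236 0 0) (P.cons (P.lf 127104906 0 0) (P.cons (P.lf 0 10354068 0) (P.cons (P.lf 0 2517930 0) (P.cons (P.lf 208368 0 0) (P.cons (P.lf 7590 0 0) P.nil)))))) (P.cons (P.cons (P.lf 19961610 0 0) (P.cons (P.lf 19151598 0 0) (P.cons (P.lf 0 1390710 0) (P.cons (P.lf 0 331860 0) (P.cons (P.lf 26550 0 0) P.nil))))) (P.cons (P.cons (P.lf 521550 0 0) (P.cons (P.lf 494064 0 0) (P.cons (P.lf 0 45552 0) (P.cons (P.lf 0 11274 0) P.nil)))) (P.cons (P.cons (P.lf 0 29280 0) (P.cons (P.lf 0 28698 0) (P.cons (P.lf 1152 0 0) P.nil))) (P.cons (P.cons (P.lf 0 1464 0) (P.cons (P.lf 0 1410 0) P.nil)) (P.cons (P.cons (P.lf 6 0 0) P.nil) P.nil)))))) 5304)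
 EL.nil))))))
noncomputable def S176_183_216_290_3 : EL := (EL.cons 0 (TM.mk (P.cons (P.lf 2182330082 0 0) (P.cons (P.lf 0 159586808 0) (P.cons (P.lf 533801 0 0) (P.cons (P.lf 98790 0 0) (P.cons (P.lf 829 0 0) (P.cons (P.lf 0 28 0) P.nil)))))) 112)
 (EL.cons 1 (TM.mk (P.cons (P.lf 1730075681 0 0) (P.cons (P.lf 0 27470073 0) (P.cons (P.lf 0 2743211 0) (P.cons (P.lf 0 9043 0) (P.cons (P.lf 1033 0 0) (P.cons (P.lf 11 0 0) P.nil)))))) 102)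
 (EL.cons 5 (TM.mk (P.cons (P.lf 1371544058 0 0) (P.cons (P.lf 56741974 0 0) (P.cons (P.lf 0 189792 0) (P.cons (P.lf 0 35126 0) (P.cons (P.lf 0 296 0) (P.cons (P.lf 8 0 0) P.nil)))))) 86)
 EL.nil)))
noncomputable def S176_183_216_290_4 : EL := (EL.cons 0 (TM.mk (P.cons (P.cons (P.lf 872985373 0 0) (P.cons (P.lf 0 28050962 0) (P.cons (P.lf 0 13241770 0) (P.lf 630557 0 0)))) (P.cons (P.cons (P.lf 12769025 0 0) (P.cons (P.lf 310538 0 0) (P.cons (P.lf 146594 0 0) (P.lf 0 6980 0)))) (P.cons (P.cons (P.lf 0 7104563 0) (P.cons (P.lf 108251 0 0) (P.cons (P.lf 51101 0 0) (P.lf 0 2434 0)))) (P.cons (P.cons (P.lf 106254 0 0) (P.cons (P.lf 515 0 0) (P.cons (P.lf 240 0 0) P.nil))) (P.cons (P.cons (P.lf 9469 0 0) (P.cons (P.lf 0 161 0) P.nil)) (P.cons (P.cons (P.lf 0 65 0) P.nil) P.nil)))))) 535)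
 (EL.cons 1 (TM.mk (P.cons (P.cons (P.lf 692072557 0 0) (P.cons (P.lf 0 22237830 0) (P.cons (P.lf 0 10497615 0) (P.lf 499884 0 0)))) (P.cons (P.cons (P.lf 49743189 0 0) (P.cons (P.lf 0 1026903 0) (P.cons (P.lf 0 484758 0) (P.lf 23081 0 0)))) (P.cons (P.cons (P.lf 0 3422055 0) (P.cons (P.lf 47514 0 0) (P.cons (P.lf 22428 0 0) (P.lf 0 1068 0)))) (P.cons (P.cons (P.lf 0 139741 0) (P.cons (P.lf 3502 0 0) (P.cons (P.lf 1651 0 0) P.nil))) (P.cons (P.cons (P.lf 3564 0 0) (P.cons (P.lf 13 0 0) P.nil)) (P.cons (P.cons (P.lf 174 0 0) P.nil) P.nil)))))) 439)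
 (EL.cons 5 (TM.mk (P.cons (P.cons (P.lf 548651146 0 0) (P.cons (P.lf 0 17629382 0) (P.cons (P.lf 0 8322146 0) (P.lf 396290 0 0)))) (P.cons (P.cons (P.lf 70844316 0 0) (P.cons (P.lf 0 1823354 0) (P.cons (P.lf 0 860734 0) (P.lf 40984 0 0)))) (P.cons (P.cons (P.lf 837444 0 0) (P.cons (P.lf 0 50474 0) (P.cons (P.lf 0 23826 0) (P.lf 1132 0 0)))) (P.cons (P.cons (P.lf 0 114030 0) (P.cons (P.lf 1114 0 0) (P.cons (P.lf 524 0 0) P.nil))) (P.cons (P.cons (P.lf 0 2950 0) (P.cons (P.lf 82 0 0) P.nil)) (P.cons (P.cons (P.lf 64 0 0) P.nil) P.nil)))))) 328)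
 EL.nil)))
noncomputable def S176_183_216_290_5 : EL := (EL.cons 0 (TM.mk (P.cons (P.cons (P.lf 349215486 0 0) (P.cons (P.lf 0 22442139 0) (P.cons (P.lf 0 10233504 0) (P.cons (P.lf 844887 0 0) (P.cons (P.lf 64135 0 0) (P.cons (P.lf 0 7650 0) P.nil)))))) (P.cons (P.cons (P.lf 35752855 0 0) (P.cons (P.lf 0 1720931 0) (P.cons (P.lf 0 794000 0) (P.cons (P.lf 56039 0 0) (P.cons (P.lf 3269 0 0) P.nil))))) (P.cons (P.cons (P.lf 0 3080211 0) (P.cons (P.lf 152523 0 0) (P.cons (P.lf 70518 0 0) (P.cons (P.lf 0 4828 0) P.nil)))) (P.cons (P.cons (P.lf 0 247927 0) (P.cons (P.lf 9515 0 0) (P.cons (P.lf 4378 0 0) P.nil))) (P.cons (P.cons (P.lf 12819 0 0) (P.cons (P.lf 0 297 0) P.nil)) (P.cons (P.cons (P.lf 493 0 0) P.nil) P.nil)))))) 4272)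
 (EL.cons 1 (TM.mk (P.cons (P.cons (P.lf 276845938 0 0) (P.cons (P.lf 0 17791351 0) (P.cons (P.lf 0 8112766 0) (P.cons (P.lf 669796 0 0) (P.cons (P.lf 50844 0 0) (P.cons (P.lf 0 6065 0) P.nil)))))) (P.cons (P.cons (P.lf 44192731 0 0) (P.cons (P.lf 0 2382828 0) (P.cons (P.lf 0 1093901 0) (P.cons (P.lf 82770 0 0) (P.cons (P.lf 5501 0 0) P.nil))))) (P.cons (P.cons (P.lf 0 166935 0) (P.cons (P.lf 890 0 0) (P.cons (P.lf 751 0 0) (P.cons (P.lf 292 0 0) P.nil)))) (P.cons (P.cons (P.lf 0 239713 0) (P.cons (P.lf 9331 0 0) (P.cons (P.lf 4314 0 0) P.nil))) (P.cons (P.cons (P.lf 0 2420 0) (P.cons (P.lf 243 0 0) P.nil)) (P.cons (P.cons (P.lf 448 0 0) P.nil) P.nil)))))) 3110)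
 (EL.cons 5 (TM.mk (P.cons (P.cons (P.lf 219473868 0 0) (P.cons (P.lf 0 14104366 0) (P.cons (P.lf 0 6431520 0) (P.cons (P.lf 530992 0 0) (P.cons (P.lf 40308 0 0) (P.cons (P.lf 0 4808 0) P.nil)))))) (P.cons (P.cons (P.lf 47599090 0 0) (P.cons (P.lf 0 2696482 0) (P.cons (P.lf 0 1235404 0) (P.cons (P.lf 96016 0 0) (P.cons (P.lf 6670 0 0) P.nil))))) (P.cons (P.cons (P.lf 2390468 0 0) (P.cons (P.lf 0 140670 0) (P.cons (P.lf 0 64202 0) (P.cons (P.lf 5238 0 0) P.nil)))) (P.cons (P.cons (P.lf 0 91404 0) (P.cons (P.lf 1468 0 0) (P.cons (P.lf 716 0 0) P.nil))) (P.cons (P.cons (P.lf 0 8250 0) (P.cons (P.lf 346 0 0) P.nil)) (P.cons (P.cons (P.lf 6 0 0) P.nil) P.nil)))))) 2278)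
 EL.nil)))
noncomputable def S176_183_216_290_6 : EL := (EL.cons 12 (TM.mk (P.lf 8589934592 0 0) 0)
 (EL.cons 3 (TM.mk (P.cons (P.lf 0 2164836753 0) (P.cons (P.lf 79153788 0 0) (P.cons (P.lf 1182303 0 0) (P.cons (P.lf 0 5771 0) (P.cons (P.lf 0 300 0) (P.cons (P.lf 0 0 0) P.nil)))))) 52)
 (EL.cons 7 (TM.mk (P.cons (P.lf 0 1716207575 0) (P.cons (P.lf 0 35500503 0) (P.cons (P.lf 485915 0 0) (P.cons (P.lf 11926 0 0) (P.cons (P.lf 8 0 0) (P.cons (P.lf 0 2 0) P.nil)))))) 45)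
 EL.nil)))
noncomputable def S176_183_216_290_7 : EL := (EL.cons 12 (TM.mk (P.cons (P.cons (P.lf 3436183792 0 0) (P.cons (P.lf 0 110412232 0) (P.cons (P.lf 0 52121328 0) (P.lf 2481960 0 0)))) (P.cons (P.cons (P.lf 301537664 0 0) (P.cons (P.lf 0 6851768 0) (P.cons (P.lf 0 3234448 0) (P.lf 154016 0 0)))) (P.cons (P.cons (P.lf 0 6754498 0) (P.cons (P.lf 0 47944 0) (P.cons (P.lf 0 22632 0) (P.lf 1072 0 0)))) (P.cons (P.cons (P.lf 0 305004 0) (P.cons (P.lf 5200 0 0) (P.cons (P.lf 2448 0 0) P.nil))) (P.cons (P.cons (P.lf 1670 0 0) (P.cons (P.lf 104 0 0) P.nil)) (P.cons (P.cons (P.lf 170 0 0) P.nil) P.nil)))))) 1002)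
 (EL.cons 3 (TM.mk (P.cons (P.cons (P.lf 2807784261 0 0) (P.cons (P.lf 0 55652218 0) (P.cons (P.lf 0 26271250 0) (P.lf 1251006 0 0)))) (P.cons (P.cons (P.lf 0 166678644 0) (P.cons (P.lf 0 1418730 0) (P.cons (P.lf 0 669724 0) (P.lf 31888 0 0)))) (P.cons (P.cons (P.lf 0 9053525 0) (P.cons (P.lf 132500 0 0) (P.cons (P.lf 62548 0 0) (P.lf 0 2980 0)))) (P.cons (P.cons (P.lf 50427 0 0) (P.cons (P.lf 5240 0 0) (P.cons (P.lf 2470 0 0) P.nil))) (P.cons (P.cons (P.lf 10295 0 0) (P.cons (P.lf 0 46 0) P.nil)) (P.cons (P.cons (P.lf 105 0 0) P.nil) P.nil)))))) 1785)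
 (EL.cons 7 (TM.mk (P.cons (P.cons (P.lf 0 2334213039 0) (P.cons (P.lf 59499644 0 0) (P.cons (P.lf 28087474 0 0) (P.lf 0 1337503 0)))) (P.cons (P.cons (P.lf 74755428 0 0) (P.cons (P.lf 636307 0 0) (P.cons (P.lf 300377 0 0) (P.lf 0 14307 0)))) (P.cons (P.cons (P.lf 1920685 0 0) (P.cons (P.lf 0 77637 0) (P.cons (P.lf 0 36648 0) (P.lf 1741 0 0)))) (P.cons (P.cons (P.lf 0 154628 0) (P.cons (P.lf 110 0 0) (P.cons (P.lf 49 0 0) P.nil))) (P.cons (P.cons (P.lf 0 2256 0) (P.cons (P.lf 87 0 0) P.nil)) (P.cons (P.cons (P.lf 115 0 0) P.nil) P.nil)))))) 1561)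
 (EL.cons 10 (TM.mk (P.cons (P.cons (P.lf 0 416800734 0) (P.cons (P.lf 0 410983101 0) (P.cons (P.lf 12860058 0 0) (P.cons (P.lf 2356551 0 0) (P.lf 0 84162 0))))) (P.cons (P.cons (P.lf 0 17243409 0) (P.cons (P.lf 0 17002728 0) (P.cons (P.lf 532029 0 0) (P.cons (P.lf 97491 0 0) (P.lf 0 3480 0))))) (P.cons (P.cons (P.lf 57675 0 0) (P.cons (P.lf 56871 0 0) (P.cons (P.lf 0 1779 0) (P.cons (P.lf 0 324 0) P.nil)))) (P.cons (P.cons (P.lf 10674 0 0) (P.cons (P.lf 10524 0 0) (P.cons (P.lf 0 327 0) P.nil))) (P.cons (P.cons (P.lf 87 0 0) (P.cons (P.lf 87 0 0) P.nil)) (P.cons (P.cons (P.lf 0 0 0) P.nil) P.nil)))))) 234)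
 EL.nil))))
noncomputable def S176_183_216_290_8 : EL := (EL.cons 12 (TM.mk (P.cons (P.cons (P.lf 1374557504 0 0) (P.cons (P.lf 0 88335182 0) (P.cons (P.lf 0 40280406 0) (P.cons (P.lf 3325590 0 0) (P.cons (P.lf 252452 0 0) (P.cons (P.lf 0 30118 0) P.nil)))))) (P.cons (P.cons (P.lf 241244870 0 0) (P.cons (P.lf 0 13233482 0) (P.cons (P.lf 0 6070868 0) (P.cons (P.lf 463770 0 0) (P.cons (P.lf 31332 0 0) P.nil))))) (P.cons (P.cons (P.lf 5181130 0 0) (P.cons (P.lf 0 345760 0) (P.cons (P.lf 0 156520 0) (P.cons (P.lf 14090 0 0) P.nil)))) (P.cons (P.cons (P.lf 0 718232 0) (P.cons (P.lf 19410 0 0) (P.cons (P.lf 9100 0 0) P.nil))) (P.cons (P.cons (P.lf 0 14766 0) (P.cons (P.lf 966 0 0) P.nil)) (P.cons (P.cons (P.lf 732 0 0) P.nil) P.nil)))))) 8746)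
 (EL.cons 3 (TM.mk (P.cons (P.cons (P.lf 2592780875 0 0) (P.cons (P.lf 0 138967437 0) (P.cons (P.lf 0 63812788 0) (P.cons (P.lf 4812259 0 0) (P.cons (P.lf 318116 0 0) (P.cons (P.lf 0 37950 0) P.nil)))))) (P.cons (P.cons (P.lf 111908048 0 0) (P.cons (P.lf 0 7757756 0) (P.cons (P.lf 0 3505556 0) (P.cons (P.lf 322197 0 0) (P.cons (P.lf 27851 0 0) P.nil))))) (P.cons (P.cons (P.lf 0 24467422 0) (P.cons (P.lf 608184 0 0) (P.cons (P.lf 286446 0 0) (P.cons (P.lf 0 14289 0) P.nil)))) (P.cons (P.cons (P.lf 0 793577 0) (P.cons (P.lf 47923 0 0) (P.cons (P.lf 22114 0 0) P.nil))) (P.cons (P.cons (P.lf 41335 0 0) (P.cons (P.lf 0 75 0) P.nil)) (P.cons (P.cons (P.lf 1843 0 0) P.nil) P.nil)))))) 16405)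
 (EL.cons 7 (TM.mk (P.cons (P.cons (P.lf 0 1592857761 0) (P.cons (P.lf 89960318 0 0) (P.cons (P.lf 41220741 0 0) (P.cons (P.lf 0 3198631 0) (P.cons (P.lf 0 221648 0) (P.cons (P.lf 26441 0 0) P.nil)))))) (P.cons (P.cons (P.lf 0 50190808 0) (P.cons (P.lf 3479361 0 0) (P.cons (P.lf 1572245 0 0) (P.cons (P.lf 0 144507 0) (P.cons (P.lf 0 12487 0) P.nil))))) (P.cons (P.cons (P.lf 12410336 0 0) (P.cons (P.lf 0 372362 0) (P.cons (P.lf 0 173474 0) (P.cons (P.lf 10541 0 0) P.nil)))) (P.cons (P.cons (P.lf 0 78300 0) (P.cons (P.lf 0 10016 0) (P.cons (P.lf 0 4534 0) P.nil))) (P.cons (P.cons (P.lf 0 28445 0) (P.cons (P.lf 805 0 0) P.nil)) (P.cons (P.cons (P.lf 92 0 0) P.nil) P.nil)))))) 9412)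
 (EL.cons 10 (TM.mk (P.cons (P.cons (P.lf 0 333460962 0) (P.cons (P.lf 0 318091728 0) (P.cons (P.lf 25912020 0 0) (P.cons (P.lf 6301356 0 0) (P.cons (P.lf 0 521472 0) (P.cons (P.lf 0 19002 0) P.nil)))))) (P.cons (P.cons (P.lf 0 43057986 0) (P.cons (P.lf 0 41348784 0) (P.cons (P.lf 2944392 0 0) (P.cons (P.lf 700176 0 0) (P.cons (P.lf 0 55662 0) P.nil))))) (P.cons (P.cons (P.lf 0 508980 0) (P.cons (P.lf 0 471198 0) (P.cons (P.lf 60432 0 0) (P.cons (P.lf 15522 0 0) P.nil)))) (P.cons (P.cons (P.lf 69300 0 0) (P.cons (P.lf 67656 0 0) (P.cons (P.lf 0 3120 0) P.nil))) (P.cons (P.cons (P.lf 1788 0 0) (P.cons (P.lf 1710 0 0) P.nil)) (P.cons (P.cons (P.lf 0 36 0) P.nil) P.nil)))))) 10266)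
 EL.nil))))
noncomputable def S176_183_216_290_9 : EL := (EL.cons 3 (TM.mk (P.cons (P.lf 0 2164836753 0) (P.cons (P.lf 79153788 0 0) (P.cons (P.lf 1182303 0 0) (P.cons (P.lf 0 5771 0) (P.cons (P.lf 0 300 0) (P.cons (P.lf 0 0 0) P.nil)))))) 52)
 (EL.cons 7 (TM.mk (P.cons (P.lf 0 1716207575 0) (P.cons (P.lf 0 35500503 0) (P.cons (P.lf 485915 0 0) (P.cons (P.lf 11926 0 0) (P.cons (P.lf 8 0 0) (P.cons (P.lf 0 2 0) P.nil)))))) 45)
 EL.nil))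
noncomputable def S176_183_216_290_10 : EL := (EL.cons 3 (TM.mk (P.cons (P.cons (P.lf 0 865987614 0) (P.cons (P.lf 27826109 0 0) (P.cons (P.lf 13135625 0 0) (P.lf 0 625503 0)))) (P.cons (P.cons (P.lf 0 44330121 0) (P.cons (P.lf 709365 0 0) (P.cons (P.lf 334862 0 0) (P.lf 0 15944 0)))) (P.cons (P.cons (P.lf 4953802 0 0) (P.cons (P.lf 0 66250 0) (P.cons (P.lf 0 31274 0) (P.lf 1490 0 0)))) (P.cons (P.cons (P.lf 53820 0 0) (P.cons (P.lf 0 2620 0) (P.cons (P.lf 0 1235 0) P.nil))) (P.cons (P.cons (P.lf 0 4483 0) (P.cons (P.lf 23 0 0) P.nil)) (P.cons (P.cons (P.lf 0 75 0) P.nil) P.nil)))))) 386)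
 (EL.cons 7 (TM.mk (P.cons (P.cons (P.lf 0 686524977 0) (P.cons (P.lf 22059575 0 0) (P.cons (P.lf 10413469 0 0) (P.lf 0 495877 0)))) (P.cons (P.cons (P.lf 0 74446140 0) (P.cons (P.lf 1825246 0 0) (P.cons (P.lf 861626 0 0) (P.lf 0 41028 0)))) (P.cons (P.cons (P.lf 297682 0 0) (P.cons (P.lf 31650 0 0) (P.cons (P.lf 14940 0 0) (P.lf 0 710 0)))) (P.cons (P.cons (P.lf 110680 0 0) (P.cons (P.lf 0 1381 0) (P.cons (P.lf 0 650 0) P.nil))) (P.cons (P.cons (P.lf 966 0 0) (P.cons (P.lf 0 54 0) P.nil)) (P.cons (P.cons (P.lf 0 68 0) P.nil) P.nil)))))) 279)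
 EL.nil))
noncomputable def S176_183_216_290_11 : EL := (EL.cons 3 (TM.mk (P.cons (P.cons (P.lf 0 346416211 0) (P.cons (P.lf 22262247 0 0) (P.cons (P.lf 10151474 0 0) (P.cons (P.lf 0 838115 0) (P.cons (P.lf 0 63622 0) (P.cons (P.lf 7590 0 0) P.nil)))))) (P.cons (P.cons (P.lf 0 48132418 0) (P.cons (P.lf 2521120 0 0) (P.cons (P.lf 1158808 0 0) (P.cons (P.lf 0 86235 0) (P.cons (P.lf 0 5569 0) P.nil))))) (P.cons (P.cons (P.lf 1106444 0 0) (P.cons (P.lf 0 46962 0) (P.cons (P.lf 0 22038 0) (P.cons (P.lf 1179 0 0) P.nil)))) (P.cons (P.cons (P.lf 261031 0 0) (P.cons (P.lf 0 9839 0) (P.cons (P.lf 0 4544 0) P.nil))) (P.cons (P.cons (P.lf 0 2393 0) (P.cons (P.lf 0 99 0) P.nil)) (P.cons (P.cons (P.lf 0 431 0) P.nil) P.nil)))))) 3279)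
 (EL.cons 7 (TM.mk (P.cons (P.cons (P.lf 0 274626771 0) (P.cons (P.lf 17648738 0 0) (P.cons (P.lf 8047737 0 0) (P.cons (P.lf 0 664429 0) (P.cons (P.lf 0 50438 0) (P.cons (P.lf 6017 0 0) P.nil)))))) (P.cons (P.cons (P.lf 0 53879776 0) (P.cons (P.lf 3009027 0 0) (P.cons (P.lf 1379387 0 0) (P.cons (P.lf 0 106401 0) (P.cons (P.lf 0 7303 0) P.nil))))) (P.cons (P.cons (P.lf 0 1954414 0) (P.cons (P.lf 118774 0 0) (P.cons (P.lf 54082 0 0) (P.cons (P.lf 0 4543 0) P.nil)))) (P.cons (P.cons (P.lf 137640 0 0) (P.cons (P.lf 0 3320 0) (P.cons (P.lf 0 1570 0) P.nil))) (P.cons (P.cons (P.lf 6547 0 0) (P.cons (P.lf 0 311 0) P.nil)) (P.cons (P.cons (P.lf 0 118 0) P.nil) P.nil)))))) 2244)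
 EL.nil))
noncomputable def S176_183_216_290_12 : EL := (EL.cons 4 (TM.mk (P.cons (P.lf 2164836753 0 0) (P.cons (P.lf 0 79153788 0) (P.cons (P.lf 0 1182303 0) (P.cons (P.lf 5771 0 0) (P.cons (P.lf 300 0 0) (P.cons (P.lf 0 0 0) P.nil)))))) 52)
 (EL.cons 8 (TM.mk (P.cons (P.lf 1716207575 0 0) (P.cons (P.lf 35500503 0 0) (P.cons (P.lf 0 485915 0) (P.cons (P.lf 0 11926 0) (P.cons (P.lf 0 8 0) (P.cons (P.lf 2 0 0) P.nil)))))) 45)
 EL.nil))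
noncomputable def S176_183_216_290_13 : EL := (EL.cons 4 (TM.mk (P.cons (P.cons (P.lf 865987614 0 0) (P.cons (P.lf 0 27826109 0) (P.cons (P.lf 0 13135625 0) (P.lf 625503 0 0)))) (P.cons (P.cons (P.lf 44330121 0 0) (P.cons (P.lf 0 709365 0) (P.cons (P.lf 0 334862 0) (P.lf 15944 0 0)))) (P.cons (P.cons (P.lf 0 4953802 0) (P.cons (P.lf 66250 0 0) (P.cons (P.lf 31274 0 0) (P.lf 0 1490 0)))) (P.cons (P.cons (P.lf 0 53820 0) (P.cons (P.lf 2620 0 0) (P.cons (P.lf 1235 0 0) P.nil))) (P.cons (P.cons (P.lf 4483 0 0) (P.cons (P.lf 0 23 0) P.nil)) (P.cons (P.cons (P.lf 75 0 0) P.nil) P.nil)))))) 386)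
 (EL.cons 8 (TM.mk (P.cons (P.cons (P.lf 686524977 0 0) (P.cons (P.lf 0 22059575 0) (P.cons (P.lf 0 10413469 0) (P.lf 495877 0 0)))) (P.cons (P.cons (P.lf 74446140 0 0) (P.cons (P.lf 0 1825246 0) (P.cons (P.lf 0 861626 0) (P.lf 41028 0 0)))) (P.cons (P.cons (P.lf 0 297682 0) (P.cons (P.lf 0 31650 0) (P.cons (P.lf 0 14940 0) (P.lf 710 0 0)))) (P.cons (P.cons (P.lf 0 110680 0) (P.cons (P.lf 1381 0 0) (P.cons (P.lf 650 0 0) P.nil))) (P.cons (P.cons (P.lf 0 966 0) (P.cons (P.lf 54 0 0) P.nil)) (P.cons (P.cons (P.lf 68 0 0) P.nil) P.nil)))))) 279)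
 EL.nil))
noncomputable def S176_183_216_290_14 : EL := (EL.cons 4 (TM.mk (P.cons (P.cons (P.lf 346416211 0 0) (P.cons (P.lf 0 22262247 0) (P.cons (P.lf 0 10151474 0) (P.cons (P.lf 838115 0 0) (P.cons (P.lf 63622 0 0) (P.cons (P.lf 0 7590 0) P.nil)))))) (P.cons (P.cons (P.lf 48132418 0 0) (P.cons (P.lf 0 2521120 0) (P.cons (P.lf 0 1158808 0) (P.cons (P.lf 86235 0 0) (P.cons (P.lf 5569 0 0) P.nil))))) (P.cons (P.cons (P.lf 0 1106444 0) (P.cons (P.lf 46962 0 0) (P.cons (P.lf 22038 0 0) (P.cons (P.lf 0 1179 0) P.nil)))) (P.cons (P.cons (P.lf 0 261031 0) (P.cons (P.lf 9839 0 0) (P.cons (P.lf 4544 0 0) P.nil))) (P.cons (P.cons (P.lf 2393 0 0) (P.cons (P.lf 99 0 0) P.nil)) (P.cons (P.cons (P.lf 431 0 0) P.nil) P.nil)))))) 3279)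
 (EL.cons 8 (TM.mk (P.cons (P.cons (P.lf 274626771 0 0) (P.cons (P.lf 0 17648738 0) (P.cons (P.lf 0 8047737 0) (P.cons (P.lf 664429 0 0) (P.cons (P.lf 50438 0 0) (P.cons (P.lf 0 6017 0) P.nil)))))) (P.cons (P.cons (P.lf 53879776 0 0) (P.cons (P.lf 0 3009027 0) (P.cons (P.lf 0 1379387 0) (P.cons (P.lf 106401 0 0) (P.cons (P.lf 7303 0 0) P.nil))))) (P.cons (P.cons (P.lf 1954414 0 0) (P.cons (P.lf 0 118774 0) (P.cons (P.lf 0 54082 0) (P.cons (P.lf 4543 0 0) P.nil)))) (P.cons (P.cons (P.lf 0 137640 0) (P.cons (P.lf 3320 0 0) (P.cons (P.lf 1570 0 0) P.nil))) (P.cons (P.cons (P.lf 0 6547 0) (P.cons (P.lf 311 0 0) P.nil)) (P.cons (P.cons (P.lf 118 0 0) P.nil) P.nil)))))) 2244)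
 EL.nil))
noncomputable def S176_183_216_290_15 : EL := (EL.cons 4 (TM.mk (P.cons (P.lf 0 1163909377 0) (P.cons (P.lf 85112964 0 0) (P.cons (P.lf 0 284694 0) (P.cons (P.lf 0 52688 0) (P.cons (P.lf 0 442 0) (P.cons (P.lf 15 0 0) P.nil)))))) 63)
 (EL.cons 8 (TM.mk (P.cons (P.lf 0 922707030 0) (P.cons (P.lf 14650706 0 0) (P.cons (P.lf 1463046 0 0) (P.cons (P.lf 4823 0 0) (P.cons (P.lf 0 551 0) (P.cons (P.lf 0 6 0) P.nil)))))) 51)
 EL.nil))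
noncomputable def S176_183_216_290_16 : EL := (EL.cons 4 (TM.mk (P.cons (P.cons (P.lf 0 465592199 0) (P.cons (P.lf 14960513 0 0) (P.cons (P.lf 7062277 0 0) (P.lf 0 336297 0)))) (P.cons (P.cons (P.lf 0 6810147 0) (P.cons (P.lf 0 165620 0) (P.cons (P.lf 0 78183 0) (P.lf 3722 0 0)))) (P.cons (P.cons (P.lf 3789100 0 0) (P.cons (P.lf 0 57734 0) (P.cons (P.lf 0 27254 0) (P.lf 1298 0 0)))) (P.cons (P.cons (P.lf 0 56669 0) (P.cons (P.lf 0 274 0) (P.cons (P.lf 0 128 0) P.nil))) (P.cons (P.cons (P.lf 0 5050 0) (P.cons (P.lf 86 0 0) P.nil)) (P.cons (P.cons (P.lf 34 0 0) P.nil) P.nil)))))) 294)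
 (EL.cons 8 (TM.mk (P.cons (P.cons (P.lf 0 369105364 0) (P.cons (P.lf 11860176 0 0) (P.cons (P.lf 5598728 0 0) (P.lf 0 266605 0)))) (P.cons (P.cons (P.lf 0 26529701 0) (P.cons (P.lf 547682 0 0) (P.cons (P.lf 258538 0 0) (P.lf 0 12310 0)))) (P.cons (P.cons (P.lf 1825096 0 0) (P.cons (P.lf 0 25341 0) (P.cons (P.lf 0 11962 0) (P.lf 570 0 0)))) (P.cons (P.cons (P.lf 74529 0 0) (P.cons (P.lf 0 1868 0) (P.cons (P.lf 0 881 0) P.nil))) (P.cons (P.cons (P.lf 0 1901 0) (P.cons (P.lf 0 7 0) P.nil)) (P.cons (P.cons (P.lf 0 93 0) P.nil) P.nil)))))) 224)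
 EL.nil))
noncomputable def S176_183_216_290_17 : EL := (EL.cons 4 (TM.mk (P.cons (P.cons (P.lf 0 186248259 0) (P.cons (P.lf 11969141 0 0) (P.cons (P.lf 5457869 0 0) (P.cons (P.lf 0 450606 0) (P.cons (P.lf 0 34205 0) (P.cons (P.lf 4080 0 0) P.nil)))))) (P.cons (P.cons (P.lf 0 19068189 0) (P.cons (P.lf 917830 0 0) (P.cons (P.lf 423466 0 0) (P.cons (P.lf 0 29887 0) (P.cons (P.lf 0 1743 0) P.nil))))) (P.cons (P.cons (P.lf 1642779 0 0) (P.cons (P.lf 0 81345 0) (P.cons (P.lf 0 37609 0) (P.cons (P.lf 2575 0 0) P.nil)))) (P.cons (P.cons (P.lf 132227 0 0) (P.cons (P.lf 0 5074 0) (P.cons (P.lf 0 2335 0) P.nil))) (P.cons (P.cons (P.lf 0 6837 0) (P.cons (P.lf 158 0 0) P.nil)) (P.cons (P.cons (P.lf 0 263 0) P.nil) P.nil)))))) 2288)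
 (EL.cons 8 (TM.mk (P.cons (P.cons (P.lf 0 147651167 0) (P.cons (P.lf 9488721 0 0) (P.cons (P.lf 4326809 0 0) (P.cons (P.lf 0 357225 0) (P.cons (P.lf 0 27117 0) (P.cons (P.lf 3235 0 0) P.nil)))))) (P.cons (P.cons (P.lf 0 23569457 0) (P.cons (P.lf 1270842 0 0) (P.cons (P.lf 583414 0 0) (P.cons (P.lf 0 44144 0) (P.cons (P.lf 0 2934 0) P.nil))))) (P.cons (P.cons (P.lf 89032 0 0) (P.cons (P.lf 0 475 0) (P.cons (P.lf 0 401 0) (P.cons (P.lf 0 156 0) P.nil)))) (P.cons (P.cons (P.lf 127847 0 0) (P.cons (P.lf 0 4977 0) (P.cons (P.lf 0 2301 0) P.nil))) (P.cons (P.cons (P.lf 1291 0 0) (P.cons (P.lf 0 130 0) P.nil)) (P.cons (P.cons (P.lf 0 239 0) P.nil) P.nil)))))) 1647)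
 EL.nil))
noncomputable def S176_183_216_290_18 : EL := (EL.cons 4 (TM.mk (P.cons (P.lf 625767756 0 0) (P.cons (P.lf 0 68640586 0) (P.cons (P.lf 1484461 0 0) (P.cons (P.lf 49390 0 0) (P.cons (P.lf 0 915 0) (P.cons (P.lf 0 37 0) P.nil)))))) 58)
 (EL.cons 8 (TM.mk (P.cons (P.lf 496086997 0 0) (P.cons (P.lf 0 26015476 0) (P.cons (P.lf 0 769525 0) (P.cons (P.lf 31791 0 0) (P.cons (P.lf 868 0 0) (P.cons (P.lf 0 8 0) P.nil)))))) 45)
 EL.nil))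
noncomputable def S176_183_216_290_19 : EL := (EL.cons 4 (TM.mk (P.cons (P.cons (P.lf 250322397 0 0) (P.cons (P.lf 0 8043415 0) (P.cons (P.lf 0 3796983 0) (P.lf 180808 0 0)))) (P.cons (P.cons (P.lf 0 5491208 0) (P.cons (P.lf 383139 0 0) (P.cons (P.lf 180865 0 0) (P.lf 0 8612 0)))) (P.cons (P.cons (P.lf 0 2307768 0) (P.cons (P.lf 32176 0 0) (P.cons (P.lf 15189 0 0) (P.lf 0 722 0)))) (P.cons (P.cons (P.lf 103621 0 0) (P.cons (P.lf 0 1056 0) (P.cons (P.lf 0 498 0) P.nil))) (P.cons (P.cons (P.lf 2758 0 0) (P.cons (P.lf 0 69 0) P.nil)) (P.cons (P.cons (P.lf 0 138 0) P.nil) P.nil)))))) 249)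
 (EL.cons 8 (TM.mk (P.cons (P.cons (P.lf 198446924 0 0) (P.cons (P.lf 0 6376541 0) (P.cons (P.lf 0 3010117 0) (P.lf 143338 0 0)))) (P.cons (P.cons (P.lf 7007614 0 0) (P.cons (P.lf 0 61309 0) (P.cons (P.lf 0 28941 0) (P.lf 1378 0 0)))) (P.cons (P.cons (P.lf 0 1611152 0) (P.cons (P.lf 27873 0 0) (P.cons (P.lf 13157 0 0) (P.lf 0 626 0)))) (P.cons (P.cons (P.lf 0 11454 0) (P.cons (P.lf 650 0 0) (P.cons (P.lf 306 0 0) P.nil))) (P.cons (P.cons (P.lf 3088 0 0) (P.cons (P.lf 0 41 0) P.nil)) (P.cons (P.cons (P.lf 34 0 0) P.nil) P.nil)))))) 164)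
 EL.nil))
noncomputable def S176_183_216_290_20 : EL := (EL.cons 4 (TM.mk (P.cons (P.cons (P.lf 100135077 0 0) (P.cons (P.lf 0 6435125 0) (P.cons (P.lf 0 2934385 0) (P.cons (P.lf 242265 0 0) (P.cons (P.lf 18390 0 0) (P.cons (P.lf 0 2193 0) P.nil)))))) (P.cons (P.cons (P.lf 6590599 0 0) (P.cons (P.lf 0 258174 0) (P.cons (P.lf 0 120382 0) (P.cons (P.lf 7210 0 0) (P.cons (P.lf 264 0 0) P.nil))))) (P.cons (P.cons (P.lf 0 1312759 0) (P.cons (P.lf 65292 0 0) (P.cons (P.lf 30147 0 0) (P.cons (P.lf 0 2104 0) P.nil)))) (P.cons (P.cons (P.lf 0 44129 0) (P.cons (P.lf 1381 0 0) (P.cons (P.lf 632 0 0) P.nil))) (P.cons (P.cons (P.lf 6798 0 0) (P.cons (P.lf 0 210 0) P.nil)) (P.cons (P.cons (P.lf 45 0 0) P.nil) P.nil)))))) 1698)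
 (EL.cons 8 (TM.mk (P.cons (P.cons (P.lf 79383620 0 0) (P.cons (P.lf 0 5101544 0) (P.cons (P.lf 0 2326278 0) (P.cons (P.lf 192059 0 0) (P.cons (P.lf 14579 0 0) (P.cons (P.lf 0 1738 0) P.nil)))))) (P.cons (P.cons (P.lf 9769419 0 0) (P.cons (P.lf 0 496729 0) (P.cons (P.lf 0 228612 0) (P.cons (P.lf 16711 0 0) (P.cons (P.lf 1044 0 0) P.nil))))) (P.cons (P.cons (P.lf 0 554551 0) (P.cons (P.lf 28023 0 0) (P.cons (P.lf 12955 0 0) (P.cons (P.lf 0 888 0) P.nil)))) (P.cons (P.cons (P.lf 0 73695 0) (P.cons (P.lf 3026 0 0) (P.cons (P.lf 1394 0 0) P.nil))) (P.cons (P.cons (P.lf 1889 0 0) (P.cons (P.lf 0 29 0) P.nil)) (P.cons (P.cons (P.lf 193 0 0) P.nil) P.nil)))))) 1128)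
 EL.nil))
noncomputable def S176_183_216_290_21 : EL := (EL.cons 4 (TM.mk (P.cons (P.cons (P.lf 0 3673771875 0) (P.cons (P.lf 83478327 0 0) (P.cons (P.lf 39406875 0 0) (P.lf 0 1876509 0)))) (P.cons (P.cons (P.lf 122348523 0 0) (P.cons (P.lf 2128095 0 0) (P.cons (P.lf 1004586 0 0) (P.lf 0 47832 0)))) (P.cons (P.cons (P.lf 14007327 0 0) (P.cons (P.lf 0 198750 0) (P.cons (P.lf 0 93822 0) (P.lf 4470 0 0)))) (P.cons (P.cons (P.lf 3393 0 0) (P.cons (P.lf 0 7860 0) (P.cons (P.lf 0 3705 0) P.nil))) (P.cons (P.cons (P.lf 0 14778 0) (P.cons (P.lf 69 0 0) P.nil)) (P.cons (P.cons (P.lf 0 180 0) P.nil) P.nil)))))) 1380)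
 (EL.cons 8 (TM.mk (P.cons (P.cons (P.lf 1647688062 0 0) (P.cons (P.lf 0 37440069 0) (P.cons (P.lf 0 17674005 0) (P.lf 841626 0 0)))) (P.cons (P.cons (P.lf 0 149201568 0) (P.cons (P.lf 1188939 0 0) (P.cons (P.lf 561249 0 0) (P.lf 0 26721 0)))) (P.cons (P.cons (P.lf 0 1623003 0) (P.cons (P.lf 109287 0 0) (P.cons (P.lf 51588 0 0) (P.lf 0 2451 0)))) (P.cons (P.cons (P.lf 265308 0 0) (P.cons (P.lf 0 1491 0) (P.cons (P.lf 0 699 0) P.nil))) (P.cons (P.cons (P.lf 3222 0 0) (P.cons (P.lf 0 141 0) P.nil)) (P.cons (P.cons (P.lf 0 183 0) P.nil) P.nil)))))) 1263)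
 (EL.cons 11 (TM.mk (P.cons (P.cons (P.lf 416800734 0 0) (P.cons (P.lf 410983101 0 0) (P.cons (P.lf 0 12860058 0) (P.cons (P.lf 0 2356551 0) (P.lf 84162 0 0))))) (P.cons (P.cons (P.lf 17243409 0 0) (P.cons (P.lf 17002728 0 0) (P.cons (P.lf 0 532029 0) (P.cons (P.lf 0 97491 0) (P.lf 3480 0 0))))) (P.cons (P.cons (P.lf 0 57675 0) (P.cons (P.lf 0 56871 0) (P.cons (P.lf 1779 0 0) (P.cons (P.lf 324 0 0) P.nil)))) (P.cons (P.cons (P.lf 0 10674 0) (P.cons (P.lf 0 10524 0) (P.cons (P.lf 327 0 0) P.nil))) (P.cons (P.cons (P.lf 0 87 0) (P.cons (P.lf 0 87 0) P.nil)) (P.cons (P.cons (P.lf 0 0 0) P.nil) P.nil)))))) 234)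
 EL.nil)))
noncomputable def S176_183_216_290_22 : EL := (EL.cons 4 (TM.mk (P.cons (P.cons (P.lf 0 1469598543 0) (P.cons (P.lf 80614842 0 0) (P.cons (P.lf 36982131 0 0) (P.cons (P.lf 0 2825187 0) (P.cons (P.lf 0 190869 0) (P.cons (P.lf 22770 0 0) P.nil)))))) (P.cons (P.cons (P.lf 0 80020233 0) (P.cons (P.lf 5139438 0 0) (P.cons (P.lf 2332182 0 0) (P.cons (P.lf 0 204216 0) (P.cons (P.lf 0 16710 0) P.nil))))) (P.cons (P.cons (P.lf 12786933 0 0) (P.cons (P.lf 0 327573 0) (P.cons (P.lf 0 154242 0) (P.cons (P.lf 7734 0 0) P.nil)))) (P.cons (P.cons (P.lf 527304 0 0) (P.cons (P.lf 0 28881 0) (P.cons (P.lf 0 13329 0) P.nil))) (P.cons (P.cons (P.lf 0 21864 0) (P.cons (P.lf 0 12 0) P.nil)) (P.cons (P.cons (P.lf 0 1137 0) P.nil) P.nil)))))) 6552)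
 (EL.cons 8 (TM.mk (P.cons (P.cons (P.lf 659115495 0 0) (P.cons (P.lf 0 36155790 0) (P.cons (P.lf 0 16586502 0) (P.cons (P.lf 1267101 0 0) (P.cons (P.lf 85605 0 0) (P.cons (P.lf 0 10212 0) P.nil)))))) (P.cons (P.cons (P.lf 0 1844484 0) (P.cons (P.lf 0 235167 0) (P.cons (P.lf 0 96429 0) (P.cons (P.lf 19053 0 0) (P.cons (P.lf 2592 0 0) P.nil))))) (P.cons (P.cons (P.lf 0 7182375 0) (P.cons (P.lf 245568 0 0) (P.cons (P.lf 113778 0 0) (P.cons (P.lf 0 7542 0) P.nil)))) (P.cons (P.cons (P.lf 107970 0 0) (P.cons (P.lf 3348 0 0) (P.cons (P.lf 1482 0 0) P.nil))) (P.cons (P.cons (P.lf 17496 0 0) (P.cons (P.lf 0 558 0) P.nil)) (P.cons (P.cons (P.lf 0 105 0) P.nil) P.nil)))))) 3573)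
 (EL.cons 11 (TM.mk (P.cons (P.cons (P.lf 166730481 0 0) (P.cons (P.lf 159045864 0 0) (P.cons (P.lf 0 12956010 0) (P.cons (P.lf 0 3150678 0) (P.cons (P.lf 260736 0 0) (P.cons (P.lf 9501 0 0) P.nil)))))) (P.cons (P.cons (P.lf 21528993 0 0) (P.cons (P.lf 20674392 0 0) (P.cons (P.lf 0 1472196 0) (P.cons (P.lf 0 350088 0) (P.cons (P.lf 27831 0 0) P.nil))))) (P.cons (P.cons (P.lf 254490 0 0) (P.cons (P.lf 235599 0 0) (P.cons (P.lf 0 30216 0) (P.cons (P.lf 0 7761 0) P.nil)))) (P.cons (P.cons (P.lf 0 34650 0) (P.cons (P.lf 0 33828 0) (P.cons (P.lf 1560 0 0) P.nil))) (P.cons (P.cons (P.lf 0 894 0) (P.cons (P.lf 0 855 0) P.nil)) (P.cons (P.cons (P.lf 18 0 0) P.nil) P.nil)))))) 5133)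
 EL.nil)))
noncomputable def S176_183_216_290_23 : EL := (EL.cons 4 (TM.mk (P.cons (P.cons (P.lf 1975177818 0 0) (P.cons (P.lf 0 44881539 0) (P.cons (P.lf 0 21186831 0) (P.lf 1008891 0 0)))) (P.cons (P.cons (P.lf 0 137999043 0) (P.cons (P.lf 496866 0 0) (P.cons (P.lf 234552 0 0) (P.lf 0 11169 0)))) (P.cons (P.cons (P.lf 0 6204528 0) (P.cons (P.lf 173202 0 0) (P.cons (P.lf 81759 0 0) (P.lf 0 3894 0)))) (P.cons (P.cons (P.lf 314721 0 0) (P.cons (P.lf 822 0 0) (P.cons (P.lf 384 0 0) P.nil))) (P.cons (P.cons (P.lf 12222 0 0) (P.cons (P.lf 0 258 0) P.nil)) (P.cons (P.cons (P.lf 0 219 0) P.nil) P.nil)))))) 1095)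
 (EL.cons 8 (TM.mk (P.cons (P.cons (P.lf 0 885867990 0) (P.cons (P.lf 20129391 0 0) (P.cons (P.lf 9502305 0 0) (P.lf 0 452493 0)))) (P.cons (P.cons (P.lf 112607526 0 0) (P.cons (P.lf 0 1375221 0) (P.cons (P.lf 0 649188 0) (P.lf 30909 0 0)))) (P.cons (P.cons (P.lf 0 1576608 0) (P.cons (P.lf 0 46377 0) (P.cons (P.lf 0 21891 0) (P.lf 1038 0 0)))) (P.cons (P.cons (P.lf 0 220716 0) (P.cons (P.lf 3351 0 0) (P.cons (P.lf 1578 0 0) P.nil))) (P.cons (P.cons (P.lf 3096 0 0) (P.cons (P.lf 78 0 0) P.nil)) (P.cons (P.cons (P.lf 252 0 0) P.nil) P.nil)))))) 879)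
 (EL.cons 11 (TM.mk (P.cons (P.cons (P.lf 0 224090004 0) (P.cons (P.lf 0 220962195 0) (P.cons (P.lf 6914118 0 0) (P.cons (P.lf 1266981 0 0) (P.lf 0 45249 0))))) (P.cons (P.cons (P.lf 0 1077306 0) (P.cons (P.lf 0 1062267 0) (P.cons (P.lf 33237 0 0) (P.cons (P.lf 6090 0 0) (P.lf 0 216 0))))) (P.cons (P.cons (P.lf 492363 0 0) (P.cons (P.lf 485493 0 0) (P.cons (P.lf 0 15189 0) (P.cons (P.lf 0 2781 0) P.nil)))) (P.cons (P.cons (P.lf 9069 0 0) (P.cons (P.lf 8943 0 0) (P.cons (P.lf 0 276 0) P.nil))) (P.cons (P.cons (P.lf 0 234 0) (P.cons (P.lf 0 231 0) P.nil)) (P.cons (P.cons (P.lf 0 6 0) P.nil) P.nil)))))) 351)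
 EL.nil)))
noncomputable def S176_183_216_290_24 : EL := (EL.cons 4 (TM.mk (P.cons (P.cons (P.lf 790119405 0 0) (P.cons (P.lf 0 43342005 0) (P.cons (P.lf 0 19883184 0) (P.cons (P.lf 1518942 0 0) (P.cons (P.lf 102618 0 0) (P.cons (P.lf 0 12243 0) P.nil)))))) (P.cons (P.cons (P.lf 14132868 0 0) (P.cons (P.lf 0 1178451 0) (P.cons (P.lf 0 526884 0) (P.cons (P.lf 54255 0 0) (P.cons (P.lf 5232 0 0) P.nil))))) (P.cons (P.cons (P.lf 0 8879361 0) (P.cons (P.lf 300819 0 0) (P.cons (P.lf 139632 0 0) (P.cons (P.lf 0 9003 0) P.nil)))) (P.cons (P.cons (P.lf 0 53523 0) (P.cons (P.lf 10479 0 0) (P.cons (P.lf 4764 0 0) P.nil))) (P.cons (P.cons (P.lf 26097 0 0) (P.cons (P.lf 0 669 0) P.nil)) (P.cons (P.cons (P.lf 324 0 0) P.nil) P.nil)))))) 3561)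
 (EL.cons 8 (TM.mk (P.cons (P.cons (P.lf 0 354368847 0) (P.cons (P.lf 19438908 0 0) (P.cons (P.lf 8917617 0 0) (P.cons (P.lf 0 681246 0) (P.cons (P.lf 0 46023 0) (P.cons (P.lf 5490 0 0) P.nil)))))) (P.cons (P.cons (P.lf 13948602 0 0) (P.cons (P.lf 0 584316 0) (P.cons (P.lf 0 274212 0) (P.cons (P.lf 14664 0 0) (P.cons (P.lf 288 0 0) P.nil))))) (P.cons (P.cons (P.lf 4018827 0 0) (P.cons (P.lf 0 147267 0) (P.cons (P.lf 0 67938 0) (P.cons (P.lf 4800 0 0) P.nil)))) (P.cons (P.cons (P.lf 0 200727 0) (P.cons (P.lf 3009 0 0) (P.cons (P.lf 1434 0 0) P.nil))) (P.cons (P.cons (P.lf 0 9438 0) (P.cons (P.lf 441 0 0) P.nil)) (P.cons (P.cons (P.lf 444 0 0) P.nil) P.nil)))))) 1950)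
 (EL.cons 11 (TM.mk (P.cons (P.cons (P.lf 0 89641479 0) (P.cons (P.lf 0 85509897 0) (P.cons (P.lf 6965709 0 0) (P.cons (P.lf 1693941 0 0) (P.cons (P.lf 0 140181 0) (P.cons (P.lf 0 5106 0) P.nil)))))) (P.cons (P.cons (P.lf 0 8297313 0) (P.cons (P.lf 0 7988910 0) (P.cons (P.lf 536826 0 0) (P.cons (P.lf 126285 0 0) (P.cons (P.lf 0 9837 0) P.nil))))) (P.cons (P.cons (P.lf 335346 0 0) (P.cons (P.lf 326448 0 0) (P.cons (P.lf 0 16497 0) (P.cons (P.lf 0 3633 0) P.nil)))) (P.cons (P.cons (P.lf 29715 0 0) (P.cons (P.lf 28662 0 0) (P.cons (P.lf 0 1845 0) P.nil))) (P.cons (P.cons (P.lf 0 168 0) (P.cons (P.lf 0 174 0) P.nil)) (P.cons (P.cons (P.lf 0 39 0) P.nil) P.nil)))))) 2817)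
 EL.nil)))
noncomputable def S176_183_216_290_25 : EL := (EL.cons 4 (TM.mk (P.cons (P.cons (P.lf 0 1061940573 0) (P.cons (P.lf 24130245 0 0) (P.cons (P.lf 11390952 0 0) (P.lf 0 542421 0)))) (P.cons (P.cons (P.lf 113022378 0 0) (P.cons (P.lf 0 1149420 0) (P.cons (P.lf 0 542598 0) (P.lf 25839 0 0)))) (P.cons (P.cons (P.lf 1202997 0 0) (P.cons (P.lf 0 96531 0) (P.cons (P.lf 0 45567 0) (P.lf 2169 0 0)))) (P.cons (P.cons (P.lf 0 334527 0) (P.cons (P.lf 3171 0 0) (P.cons (P.lf 1497 0 0) P.nil))) (P.cons (P.cons (P.lf 0 2154 0) (P.cons (P.lf 207 0 0) P.nil)) (P.cons (P.cons (P.lf 471 0 0) P.nil) P.nil)))))) 780)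
 (EL.cons 8 (TM.mk (P.cons (P.cons (P.lf 476280744 0 0) (P.cons (P.lf 0 10822425 0) (P.cons (P.lf 0 5108847 0) (P.lf 243279 0 0)))) (P.cons (P.cons (P.lf 0 77957091 0) (P.cons (P.lf 1135083 0 0) (P.cons (P.lf 535827 0 0) (P.lf 0 25512 0)))) (P.cons (P.cons (P.lf 2801181 0 0) (P.cons (P.lf 3810 0 0) (P.cons (P.lf 1797 0 0) (P.lf 0 84 0)))) (P.cons (P.cons (P.lf 122007 0 0) (P.cons (P.lf 0 3144 0) (P.cons (P.lf 0 1482 0) P.nil))) (P.cons (P.cons (P.lf 0 6561 0) (P.cons (P.lf 9 0 0) P.nil)) (P.cons (P.cons (P.lf 0 144 0) P.nil) P.nil)))))) 579)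
 (EL.cons 11 (TM.mk (P.cons (P.cons (P.lf 120480426 0 0) (P.cons (P.lf 118798782 0 0) (P.cons (P.lf 0 3717327 0) (P.cons (P.lf 0 681183 0) (P.lf 24327 0 0))))) (P.cons (P.cons (P.lf 0 3825966 0) (P.cons (P.lf 0 3772563 0) (P.cons (P.lf 118047 0 0) (P.cons (P.lf 21630 0 0) (P.lf 0 771 0))))) (P.cons (P.cons (P.lf 0 351693 0) (P.cons (P.lf 0 346782 0) (P.cons (P.lf 10851 0 0) (P.cons (P.lf 1986 0 0) P.nil)))) (P.cons (P.cons (P.lf 4806 0 0) (P.cons (P.lf 4740 0 0) (P.cons (P.lf 0 147 0) P.nil))) (P.cons (P.cons (P.lf 465 0 0) (P.cons (P.lf 459 0 0) P.nil)) (P.cons (P.cons (P.lf 0 0 0) P.nil) P.nil)))))) 297)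
 EL.nil)))
noncomputable def S176_183_216_290_26 : EL := (EL.cons 4 (TM.mk (P.cons (P.cons (P.lf 0 424802184 0) (P.cons (P.lf 23302527 0 0) (P.cons (P.lf 10690056 0 0) (P.cons (P.lf 0 816648 0) (P.cons (P.lf 0 55170 0) (P.cons (P.lf 6582 0 0) P.nil)))))) (P.cons (P.cons (P.lf 7933773 0 0) (P.cons (P.lf 0 218430 0) (P.cons (P.lf 0 107586 0) (P.cons (P.lf 687 0 0) (P.cons (P.lf 0 795 0) P.nil))))) (P.cons (P.cons (P.lf 5283753 0 0) (P.cons (P.lf 0 197625 0) (P.cons (P.lf 0 91266 0) (P.cons (P.lf 6351 0 0) P.nil)))) (P.cons (P.cons (P.lf 0 142755 0) (P.cons (P.lf 0 3 0) (P.cons (P.lf 54 0 0) P.nil))) (P.cons (P.cons (P.lf 0 17769 0) (P.cons (P.lf 657 0 0) P.nil)) (P.cons (P.cons (P.lf 333 0 0) P.nil) P.nil)))))) 2082)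
 (EL.cons 8 (TM.mk (P.cons (P.cons (P.lf 190523937 0 0) (P.cons (P.lf 0 10451193 0) (P.cons (P.lf 0 4794492 0) (P.cons (P.lf 366267 0 0) (P.cons (P.lf 24744 0 0) (P.cons (P.lf 0 2952 0) P.nil)))))) (P.cons (P.cons (P.lf 0 14465571 0) (P.cons (P.lf 696282 0 0) (P.cons (P.lf 322731 0 0) (P.cons (P.lf 0 21273 0) (P.cons (P.lf 0 1059 0) P.nil))))) (P.cons (P.cons (P.lf 0 1990545 0) (P.cons (P.lf 73398 0 0) (P.cons (P.lf 33753 0 0) (P.cons (P.lf 0 2493 0) P.nil)))) (P.cons (P.cons (P.lf 191523 0 0) (P.cons (P.lf 0 4710 0) (P.cons (P.lf 0 2199 0) P.nil))) (P.cons (P.cons (P.lf 2313 0 0) (P.cons (P.lf 0 219 0) P.nil)) (P.cons (P.cons (P.lf 0 489 0) P.nil) P.nil)))))) 1131)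
 (EL.cons 11 (TM.mk (P.cons (P.cons (P.lf 48195114 0 0) (P.cons (P.lf 45973800 0 0) (P.cons (P.lf 0 3745062 0) (P.cons (P.lf 0 910734 0) (P.cons (P.lf 75366 0 0) (P.cons (P.lf 2745 0 0) P.nil)))))) (P.cons (P.cons (P.lf 2698815 0 0) (P.cons (P.lf 2614221 0 0) (P.cons (P.lf 0 151686 0) (P.cons (P.lf 0 34596 0) (P.cons (P.lf 2532 0 0) P.nil))))) (P.cons (P.cons (P.lf 0 369726 0) (P.cons (P.lf 0 357666 0) (P.cons (P.lf 21468 0 0) (P.cons (P.lf 4932 0 0) P.nil)))) (P.cons (P.cons (P.lf 0 11691 0) (P.cons (P.lf 0 11214 0) (P.cons (P.lf 816 0 0) P.nil))) (P.cons (P.cons (P.lf 789 0 0) (P.cons (P.lf 771 0 0) P.nil)) (P.cons (P.cons (P.lf 27 0 0) P.nil) P.nil)))))) 1608)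
 EL.nil)))
noncomputable def S176_183_216_290_27 : EL := (EL.cons 13 (TM.mk (P.lf 0 4294967296 0) 0)
 EL.nil)
noncomputable def S176_183_216_290_28 : EL := (EL.cons 13 (TM.mk (P.cons (P.cons (P.lf 0 1718091896 0) (P.cons (P.lf 55206116 0 0) (P.cons (P.lf 26060664 0 0) (P.lf 0 1240980 0)))) (P.cons (P.cons (P.lf 0 150768832 0) (P.cons (P.lf 3425884 0 0) (P.cons (P.lf 1617224 0 0) (P.lf 0 77008 0)))) (P.cons (P.cons (P.lf 3377249 0 0) (P.cons (P.lf 23972 0 0) (P.cons (P.lf 11316 0 0) (P.lf 0 536 0)))) (P.cons (P.cons (P.lf 152502 0 0) (P.cons (P.lf 0 2600 0) (P.cons (P.lf 0 1224 0) P.nil))) (P.cons (P.cons (P.lf 0 835 0) (P.cons (P.lf 0 52 0) P.nil)) (P.cons (P.cons (P.lf 0 85 0) P.nil) P.nil)))))) 501)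
 EL.nil)
noncomputable def S176_183_216_290_29 : EL := (EL.cons 13 (TM.mk (P.cons (P.cons (P.lf 0 687278752 0) (P.cons (P.lf 44167591 0 0) (P.cons (P.lf 20140203 0 0) (P.cons (P.lf 0 1662795 0) (P.cons (P.lf 0 126226 0) (P.cons (P.lf 15059 0 0) P.nil)))))) (P.cons (P.cons (P.lf 0 120622435 0) (P.cons (P.lf 6616741 0 0) (P.cons (P.lf 3035434 0 0) (P.cons (P.lf 0 231885 0) (P.cons (P.lf 0 15666 0) P.nil))))) (P.cons (P.cons (P.lf 0 2590565 0) (P.cons (P.lf 172880 0 0) (P.cons (P.lf 78260 0 0) (P.cons (P.lf 0 7045 0) P.nil)))) (P.cons (P.cons (P.lf 359116 0 0) (P.cons (P.lf 0 9705 0) (P.cons (P.lf 0 4550 0) P.nil))) (P.cons (P.cons (P.lf 7383 0 0) (P.cons (P.lf 0 483 0) P.nil)) (P.cons (P.cons (P.lf 0 366 0) P.nil) P.nil)))))) 4373)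
 EL.nil)
noncomputable def S176_183_216_290_30 : EL := (EL.cons 13 (TM.mk (P.cons (P.lf 2309159204 0 0) (P.cons (P.lf 0 84430708 0) (P.cons (P.lf 0 1261124 0) (P.cons (P.lf 6156 0 0) (P.cons (P.lf 320 0 0) (P.cons (P.lf 0 0 0) P.nil)))))) 48)
 EL.nil)
noncomputable def S176_183_216_290_31 : EL := (EL.cons 13 (TM.mk (P.cons (P.cons (P.lf 923720122 0 0) (P.cons (P.lf 0 29681183 0) (P.cons (P.lf 0 14011334 0) (P.lf 667204 0 0)))) (P.cons (P.cons (P.lf 47285463 0 0) (P.cons (P.lf 0 756657 0) (P.cons (P.lf 0 357187 0) (P.lf 17007 0 0)))) (P.cons (P.cons (P.lf 0 5284056 0) (P.cons (P.lf 70667 0 0) (P.cons (P.lf 33359 0 0) (P.lf 0 1590 0)))) (P.cons (P.cons (P.lf 0 57408 0) (P.cons (P.lf 2795 0 0) (P.cons (P.lf 1318 0 0) P.nil))) (P.cons (P.cons (P.lf 4782 0 0) (P.cons (P.lf 0 25 0) P.nil)) (P.cons (P.cons (P.lf 80 0 0) P.nil) P.nil)))))) 392)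
 EL.nil)
noncomputable def S176_183_216_290_32 : EL := (EL.cons 13 (TM.mk (P.cons (P.cons (P.lf 369510626 0 0) (P.cons (P.lf 0 23746397 0) (P.cons (P.lf 0 10828239 0) (P.cons (P.lf 893990 0 0) (P.cons (P.lf 67864 0 0) (P.cons (P.lf 0 8096 0) P.nil)))))) (P.cons (P.cons (P.lf 51341246 0 0) (P.cons (P.lf 0 2689195 0) (P.cons (P.lf 0 1236062 0) (P.cons (P.lf 91984 0 0) (P.cons (P.lf 5941 0 0) P.nil))))) (P.cons (P.cons (P.lf 0 1180207 0) (P.cons (P.lf 50093 0 0) (P.cons (P.lf 23508 0 0) (P.cons (P.lf 0 1258 0) P.nil)))) (P.cons (P.cons (P.lf 0 278434 0) (P.cons (P.lf 10495 0 0) (P.cons (P.lf 4847 0 0) P.nil))) (P.cons (P.cons (P.lf 2553 0 0) (P.cons (P.lf 106 0 0) P.nil)) (P.cons (P.cons (P.lf 460 0 0) P.nil) P.nil)))))) 3475)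
 EL.nil)
noncomputable def S176_183_216_290_33 : EL := (EL.cons 14 (TM.mk (P.lf 8589934592 0 0) 0)
 EL.nil)
noncomputable def S176_183_216_290_34 : EL := (EL.cons 14 (TM.mk (P.cons (P.cons (P.lf 3436183792 0 0) (P.cons (P.lf 0 110412232 0) (P.cons (P.lf 0 52121328 0) (P.lf 2481960 0 0)))) (P.cons (P.cons (P.lf 301537664 0 0) (P.cons (P.lf 0 6851768 0) (P.cons (P.lf 0 3234448 0) (P.lf 154016 0 0)))) (P.cons (P.cons (P.lf 0 6754498 0) (P.cons (P.lf 0 47944 0) (P.cons (P.lf 0 22632 0) (P.lf 1072 0 0)))) (P.cons (P.cons (P.lf 0 305004 0) (P.cons (P.lf 5200 0 0) (P.cons (P.lf 2448 0 0) P.nil))) (P.cons (P.cons (P.lf 1670 0 0) (P.cons (P.lf 104 0 0) P.nil)) (P.cons (P.cons (P.lf 170 0 0) P.nil) P.nil)))))) 1002)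
 EL.nil)
noncomputable def S176_183_216_290_35 : EL := (EL.cons 14 (TM.mk (P.cons (P.cons (P.lf 1374557504 0 0) (P.cons (P.lf 0 88335182 0) (P.cons (P.lf 0 40280406 0) (P.cons (P.lf 3325590 0 0) (P.cons (P.lf 252452 0 0) (P.cons (P.lf 0 30118 0) P.nil)))))) (P.cons (P.cons (P.lf 241244870 0 0) (P.cons (P.lf 0 13233482 0) (P.cons (P.lf 0 6070868 0) (P.cons (P.lf 463770 0 0) (P.cons (P.lf 31332 0 0) P.nil))))) (P.cons (P.cons (P.lf 5181130 0 0) (P.cons (P.lf 0 345760 0) (P.cons (P.lf 0 156520 0) (P.cons (P.lf 14090 0 0) P.nil)))) (P.cons (P.cons (P.lf 0 718232 0) (P.cons (P.lf 19410 0 0) (P.cons (P.lf 9100 0 0) P.nil))) (P.cons (P.cons (P.lf 0 14766 0) (P.cons (P.lf 966 0 0) P.nil)) (P.cons (P.cons (P.lf 732 0 0) P.nil) P.nil)))))) 8746)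
 EL.nil)
noncomputable def S176_183_216_290_36 : EL := (EL.cons 14 (TM.mk (P.cons (P.lf 0 4618318408 0) (P.cons (P.lf 168861416 0 0) (P.cons (P.lf 2522248 0 0) (P.cons (P.lf 0 12312 0) (P.cons (P.lf 0 640 0) (P.cons (P.lf 0 0 0) P.nil)))))) 96)
 EL.nil)
noncomputable def S176_183_216_290_37 : EL := (EL.cons 14 (TM.mk (P.cons (P.cons (P.lf 0 1847440244 0) (P.cons (P.lf 59362366 0 0) (P.cons (P.lf 28022668 0 0) (P.lf 0 1334408 0)))) (P.cons (P.cons (P.lf 0 94570926 0) (P.cons (P.lf 1513314 0 0) (P.cons (P.lf 714374 0 0) (P.lf 0 34014 0)))) (P.cons (P.cons (P.lf 10568112 0 0) (P.cons (P.lf 0 141334 0) (P.cons (P.lf 0 66718 0) (P.lf 3180 0 0)))) (P.cons (P.cons (P.lf 114816 0 0) (P.cons (P.lf 0 5590 0) (P.cons (P.lf 0 2636 0) P.nil))) (P.cons (P.cons (P.lf 0 9564 0) (P.cons (P.lf 50 0 0) P.nil)) (P.cons (P.cons (P.lf 0 160 0) P.nil) P.nil)))))) 784)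
 EL.nil)
noncomputable def S176_183_216_290_38 : EL := (EL.cons 14 (TM.mk (P.cons (P.cons (P.lf 0 739021252 0) (P.cons (P.lf 47492794 0 0) (P.cons (P.lf 21656478 0 0) (P.cons (P.lf 0 1787980 0) (P.cons (P.lf 0 135728 0) (P.cons (P.lf 16192 0 0) P.nil)))))) (P.cons (P.cons (P.lf 0 102682492 0) (P.cons (P.lf 5378390 0 0) (P.cons (P.lf 2472124 0 0) (P.cons (P.lf 0 183968 0) (P.cons (P.lf 0 11882 0) P.nil))))) (P.cons (P.cons (P.lf 2360414 0 0) (P.cons (P.lf 0 100186 0) (P.cons (P.lf 0 47016 0) (P.cons (P.lf 2516 0 0) P.nil)))) (P.cons (P.cons (P.lf 556868 0 0) (P.cons (P.lf 0 20990 0) (P.cons (P.lf 0 9694 0) P.nil))) (P.cons (P.cons (P.lf 0 5106 0) (P.cons (P.lf 0 212 0) P.nil)) (P.cons (P.cons (P.lf 0 920 0) P.nil) P.nil)))))) 6950)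
 EL.nil)
noncomputable def S176_183_216_290_39 : EL := (EL.cons 14 (TM.mk (P.cons (P.lf 2483006672 0 0) (P.cons (P.lf 0 181574324 0) (P.cons (P.lf 607348 0 0) (P.cons (P.lf 112402 0 0) (P.cons (P.lf 944 0 0) (P.cons (P.lf 0 32 0) P.nil)))))) 120)
 EL.nil)
noncomputable def S176_183_216_290_40 : EL := (EL.cons 14 (TM.mk (P.cons (P.cons (P.lf 993263358 0 0) (P.cons (P.lf 0 31915762 0) (P.cons (P.lf 0 15066192 0) (P.lf 717434 0 0)))) (P.cons (P.cons (P.lf 14528314 0 0) (P.cons (P.lf 353324 0 0) (P.cons (P.lf 166792 0 0) (P.lf 0 7942 0)))) (P.cons (P.cons (P.lf 0 8083414 0) (P.cons (P.lf 123166 0 0) (P.cons (P.lf 58142 0 0) (P.lf 0 2770 0)))) (P.cons (P.cons (P.lf 120894 0 0) (P.cons (P.lf 586 0 0) (P.cons (P.lf 274 0 0) P.nil))) (P.cons (P.cons (P.lf 10774 0 0) (P.cons (P.lf 0 184 0) P.nil)) (P.cons (P.cons (P.lf 0 74 0) P.nil) P.nil)))))) 588)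
 EL.nil)
noncomputable def S176_183_216_290_41 : EL := (EL.cons 14 (TM.mk (P.cons (P.cons (P.lf 397329620 0 0) (P.cons (P.lf 0 25534168 0) (P.cons (P.lf 0 11643454 0) (P.cons (P.lf 961294 0 0) (P.cons (P.lf 72972 0 0) (P.cons (P.lf 0 8704 0) P.nil)))))) (P.cons (P.cons (P.lf 40678804 0 0) (P.cons (P.lf 0 1958038 0) (P.cons (P.lf 0 903396 0) (P.cons (P.lf 63760 0 0) (P.cons (P.lf 3720 0 0) P.nil))))) (P.cons (P.cons (P.lf 0 3504596 0) (P.cons (P.lf 173538 0 0) (P.cons (P.lf 80234 0 0) (P.cons (P.lf 0 5494 0) P.nil)))) (P.cons (P.cons (P.lf 0 282086 0) (P.cons (P.lf 10826 0 0) (P.cons (P.lf 4982 0 0) P.nil))) (P.cons (P.cons (P.lf 14586 0 0) (P.cons (P.lf 0 338 0) P.nil)) (P.cons (P.cons (P.lf 562 0 0) P.nil) P.nil)))))) 4836)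
 EL.nil)
noncomputable def S176_183_216_290_42 : EL := (EL.cons 14 (TM.mk (P.cons (P.lf 0 1334971214 0) (P.cons (P.lf 146433252 0 0) (P.cons (P.lf 0 3166852 0) (P.cons (P.lf 0 105366 0) (P.cons (P.lf 1954 0 0) (P.cons (P.lf 80 0 0) P.nil)))))) 110)
 EL.nil)
noncomputable def S176_183_216_290_43 : EL := (EL.cons 14 (TM.mk (P.cons (P.cons (P.lf 0 534021114 0) (P.cons (P.lf 17159286 0 0) (P.cons (P.lf 8100232 0 0) (P.lf 0 385724 0)))) (P.cons (P.cons (P.lf 11714578 0 0) (P.cons (P.lf 0 817364 0) (P.cons (P.lf 0 385846 0) (P.lf 18374 0 0)))) (P.cons (P.cons (P.lf 4923240 0 0) (P.cons (P.lf 0 68644 0) (P.cons (P.lf 0 32404 0) (P.lf 1542 0 0)))) (P.cons (P.cons (P.lf 0 221060 0) (P.cons (P.lf 2254 0 0) (P.cons (P.lf 1064 0 0) P.nil))) (P.cons (P.cons (P.lf 0 5884 0) (P.cons (P.lf 148 0 0) P.nil)) (P.cons (P.cons (P.lf 296 0 0) P.nil) P.nil)))))) 492)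
 EL.nil)
noncomputable def S176_183_216_290_44 : EL := (EL.cons 14 (TM.mk (P.cons (P.cons (P.lf 0 213621498 0) (P.cons (P.lf 13728268 0 0) (P.cons (P.lf 6260022 0 0) (P.cons (P.lf 0 516832 0) (P.cons (P.lf 0 39232 0) (P.cons (P.lf 4680 0 0) P.nil)))))) (P.cons (P.cons (P.lf 0 14059946 0) (P.cons (P.lf 550772 0 0) (P.cons (P.lf 256816 0 0) (P.cons (P.lf 0 15382 0) (P.cons (P.lf 0 564 0) P.nil))))) (P.cons (P.cons (P.lf 2800554 0 0) (P.cons (P.lf 0 139290 0) (P.cons (P.lf 0 64314 0) (P.cons (P.lf 4490 0 0) P.nil)))) (P.cons (P.cons (P.lf 94142 0 0) (P.cons (P.lf 0 2948 0) (P.cons (P.lf 0 1350 0) P.nil))) (P.cons (P.cons (P.lf 0 14504 0) (P.cons (P.lf 450 0 0) P.nil)) (P.cons (P.cons (P.lf 0 96 0) P.nil) P.nil)))))) 3576)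
 EL.nil)
noncomputable def S176_183_216_290_45 : EL := (EL.cons 14 (TM.mk (P.cons (P.cons (P.lf 549856598 0 0) (P.cons (P.lf 0 53004348 0) (P.cons (P.lf 0 23318146 0) (P.cons (P.lf 2781222 0 0) (P.cons (P.lf 277126 0 0) (P.cons (P.lf 0 47110 0) P.nil)))))) (P.cons (P.cons (P.lf 144755766 0 0) (P.cons (P.lf 0 12591898 0) (P.cons (P.lf 0 5583304 0) (P.cons (P.lf 620330 0 0) (P.cons (P.lf 59376 0 0) P.nil))))) (P.cons (P.cons (P.lf 9460290 0 0) (P.cons (P.lf 0 800092 0) (P.cons (P.lf 0 354450 0) (P.cons (P.lf 39688 0 0) P.nil)))) (P.cons (P.cons (P.lf 0 343936 0) (P.cons (P.lf 13754 0 0) (P.cons (P.lf 6558 0 0) P.nil))) (P.cons (P.cons (P.lf 0 43492 0) (P.cons (P.lf 2688 0 0) P.nil)) (P.cons (P.cons (P.lf 228 0 0) P.nil) P.nil)))))) 25750)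
 EL.nil)
noncomputable def S176_183_216_290_46 : EL := (EL.cons 15 (TM.mk (P.lf 4294967296 0 0) 0)
 EL.nil)
noncomputable def S176_183_216_290_47 : EL := (EL.cons 15 (TM.mk (P.cons (P.cons (P.lf 1718091896 0 0) (P.cons (P.lf 0 55206116 0) (P.cons (P.lf 0 26060664 0) (P.lf 1240980 0 0)))) (P.cons (P.cons (P.lf 150768832 0 0) (P.cons (P.lf 0 3425884 0) (P.cons (P.lf 0 1617224 0) (P.lf 77008 0 0)))) (P.cons (P.cons (P.lf 0 3377249 0) (P.cons (P.lf 0 23972 0) (P.cons (P.lf 0 11316 0) (P.lf 536 0 0)))) (P.cons (P.cons (P.lf 0 152502 0) (P.cons (P.lf 2600 0 0) (P.cons (P.lf 1224 0 0) P.nil))) (P.cons (P.cons (P.lf 835 0 0) (P.cons (P.lf 52 0 0) P.nil)) (P.cons (P.cons (P.lf 85 0 0) P.nil) P.nil)))))) 501)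
 EL.nil)
noncomputable def S176_183_216_290_48 : EL := (EL.cons 15 (TM.mk (P.cons (P.cons (P.lf 687278752 0 0) (P.cons (P.lf 0 44167591 0) (P.cons (P.lf 0 20140203 0) (P.cons (P.lf 1662795 0 0) (P.cons (P.lf 126226 0 0) (P.cons (P.lf 0 15059 0) P.nil)))))) (P.cons (P.cons (P.lf 120622435 0 0) (P.cons (P.lf 0 6616741 0) (P.cons (P.lf 0 3035434 0) (P.cons (P.lf 231885 0 0) (P.cons (P.lf 15666 0 0) P.nil))))) (P.cons (P.cons (P.lf 2590565 0 0) (P.cons (P.lf 0 172880 0) (P.cons (P.lf 0 78260 0) (P.cons (P.lf 7045 0 0) P.nil)))) (P.cons (P.cons (P.lf 0 359116 0) (P.cons (P.lf 9705 0 0) (P.cons (P.lf 4550 0 0) P.nil))) (P.cons (P.cons (P.lf 0 7383 0) (P.cons (P.lf 483 0 0) P.nil)) (P.cons (P.cons (P.lf 366 0 0) P.nil) P.nil)))))) 4373)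
 EL.nil)
noncomputable def S176_183_216_290 : SL := (SL.cons S176_183_216_290_0 (SL.cons S176_183_216_290_1 (SL.cons S176_183_216_290_2 (SL.cons S176_183_216_290_3 (SL.cons S176_183_216_290_4 (SL.cons S176_183_216_290_5 (SL.cons S176_183_216_290_6 (SL.cons S176_183_216_290_7 (SL.cons S176_183_216_290_8 (SL.cons S176_183_216_290_9 (SL.cons S176_183_216_290_10 (SL.cons S176_183_216_290_11 (SL.cons S176_183_216_290_12 (SL.cons S176_183_216_290_13 (SL.cons S176_183_216_290_14 (SL.cons S176_183_216_290_15 (SL.cons S176_183_216_290_16 (SL.cons S176_183_216_290_17 (SL.cons S176_183_216_290_18 (SL.cons S176_183_216_290_19 (SL.cons S176_183_216_290_20 (SL.cons S176_183_216_290_21 (SL.cons S176_183_216_290_22 (SL.cons S176_183_216_290_23 (SL.cons S176_183_216_290_24 (SL.cons S176_183_216_290_25 (SL.cons S176_183_216_290_26 (SL.cons S176_183_216_290_27 (SL.cons S176_183_216_290_28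 (SL.cons S176_183_216_290_29 (SL.cons S176_183_216_290_30 (SL.cons S176_183_216_290_31 (SL.cons S176_183_216_290_32 (SL.cons S176_183_216_290_33 (SL.cons S176_183_216_290_34 (SL.cons S176_183_216_290_35 (SL.cons S176_183_216_290_36 (SL.cons S176_183_216_290_37 (SL.cons S176_183_216_290_38 (SL.cons S176_183_216_290_39 (SL.cons S176_183_216_290_40 (SL.cons S176_183_216_290_41 (SL.cons S176_183_216_290_42 (SL.cons S176_183_216_290_43 (SL.cons S176_183_216_290_44 (SL.cons S176_183_216_290_45 (SL.cons S176_183_216_290_46 (SL.cons S176_183_216_290_47 (SL.cons S176_183_216_290_48 SL.nil)))))))))))))))))))))))))))))))))))))))))))))))))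
theorem S169_198_512_660_ok : band (seq (shp 5 169 198 512 660) S169_198_512_660) (sok S169_198_512_660) = true := by decide +kernel

theorem S169_198_586_660_ok : band (seq (shp 5 169 198 586 660) S169_198_586_660) (sok S169_198_586_660) = true := by decide +kernel

theorem S169_198_660_734_ok : band (seq (shp 5 169 198 660 734) S169_198_660_734) (sok S169_198_660_734) = true := by decide +kernel

theorem S169_198_660_808_ok : band (seq (shp 5 169 198 660 808) S169_198_660_808) (sok S169_198_660_808) = true := by decide +kernel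

theorem S169_198_734_808_ok : band (seq (shp 5 169 198 734 808) S169_198_734_808) (sok S169_198_734_808) = true := by decide +kernel

theorem S176_183_216_290_ok : band (seq (shp 5 176 183 216 290) S176_183_216_290) (sok S176_183_216_290) = true := by decide +kernel

end Vale.Agent.P098.Ck
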