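import Vale.Agent.P098.CkDefs

namespace Vale.Agent.P098.Ck

noncomputable def S198_256_512_586_0 : EL := (EL.cons 0 (TM.mk (P.cons (P.lf 8080323868 0 0) (P.cons (P.lf 727079837 0 0) (P.cons (P.lf 0 317250402 0) (P.cons (P.lf 0 44091209 0) (P.cons (P.lf 8367597 0 0) (P.cons (P.lf 1467036 0 0) P.nil)))))) 311496)
 (EL.cons 1 (TM.mk (P.cons (P.lf 0 869508750 0) (P.cons (P.lf 786249082 0 0) (P.cons (P.lf 120498519 0 0) (P.cons (P.lf 0 33042157 0) (P.cons (P.lf 0 5010903 0) (P.cons (P.lf 683975 0 0) P.nil)))))) 177172)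
 (EL.cons 5 (TM.mk (P.cons (P.lf 4428440364 0 0) (P.cons (P.lf 0 258517274 0) (P.cons (P.lf 112800140 0 0) (P.cons (P.lf 15676876 0 0) (P.cons (P.lf 0 2975142 0) (P.cons (P.lf 0 521612 0) P.nil)))))) 117185)
 (EL.cons 9 (TM.mk (P.lf 6442450944 0 0) 2)
 EL.nil))))
noncomputable def S198_256_512_586_1 : EL := (EL.cons 0 (TM.mk (P.cons (P.cons (P.lf 1096337768 0 0) (P.cons (P.lf 0 673917357 0) (P.cons (P.lf 10726287 0 0) (P.lf 3575429 0 0)))) (P.cons (P.cons (P.lf 0 944930551 0) (P.cons (P.lf 0 411597012 0) (P.cons (P.lf 6551099 0 0) (P.lf 2183691 0 0)))) (P.cons (P.cons (P.lf 0 1517777224 0) (P.cons (P.lf 121164814 0 0) (P.cons (P.lf 0 1928491 0) (P.lf 0 642827 0)))) (P.cons (P.cons (P.lf 260296105 0 0) (P.cons (P.lf 74297113 0 0) (P.cons (P.lf 0 1182520 0) P.nil))) (P.cons (P.cons (P.lf 221405543 0 0) (P.cons (P.lf 0 6578798 0) P.nil)) (P.cons (P.cons (P.lf 0 12272156 0)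 P.nil) P.nil)))))) 31566856)
 (EL.cons 1 (TM.mk (P.cons (P.cons (P.lf 719470245 0 0) (P.cons (P.lf 202281020 0 0) (P.cons (P.lf 0 3219568 0) (P.lf 0 1073185 0)))) (P.cons (P.cons (P.lf 1033203937 0 0) (P.cons (P.lf 0 126665494 0) (P.cons (P.lf 2016046 0 0) (P.lf 672013 0 0)))) (P.cons (P.cons (P.lf 0 266238947 0) (P.cons (P.lf 0 101074959 0) (P.cons (P.lf 1608730 0 0) (P.lf 536239 0 0)))) (P.cons (P.cons (P.lf 0 339659495 0) (P.cons (P.lf 14417437 0 0) (P.cons (P.lf 0 229467 0) P.nil))) (P.cons (P.cons (P.lf 29194205 0 0) (P.cons (P.lf 12275760 0 0) P.nil)) (P.cons (P.cons (P.lf 34540773 0 0) P.nil) P.nil)))))) 15359907)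
 (EL.cons 5 (TM.mk (P.cons (P.cons (P.lf 0 35591918 0) (P.cons (P.lf 0 467958654 0) (P.cons (P.lf 7448178 0 0) (P.lf 2482726 0 0)))) (P.cons (P.cons (P.lf 0 543248696 0) (P.cons (P.lf 10109952 0 0) (P.cons (P.lf 0 160902 0) (P.lf 0 53632 0)))) (P.cons (P.cons (P.lf 132743091 0 0) (P.cons (P.lf 11991778 0 0) (P.cons (P.lf 0 190870 0) (P.lf 0 63624 0)))) (P.cons (P.cons (P.lf 27302281 0 0) (P.cons (P.lf 0 14246564 0) (P.cons (P.lf 226748 0 0) P.nil))) (P.cons (P.cons (P.lf 0 48829683 0) (P.cons (P.lf 342218 0 0) P.nil)) (P.cons (P.cons (P.lf 314509 0 0) P.nil) P.nil)))))) 13419415)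
 (EL.cons 9 (TM.mk (P.cons (P.cons (P.lf 312544464 0 0) (P.cons (P.lf 0 624329742 0) (P.cons (P.lf 9937032 0 0) (P.lf 3312342 0 0)))) (P.cons (P.cons (P.lf 0 775785876 0) (P.cons (P.lf 0 120207924 0) (P.cons (P.lf 1913262 0 0) (P.lf 637752 0 0)))) (P.cons (P.cons (P.lf 0 359039140 0) (P.cons (P.lf 48593466 0 0) (P.cons (P.lf 0 773424 0) (P.lf 0 257808 0)))) (P.cons (P.cons (P.lf 105751761 0 0) (P.cons (P.lf 10738398 0 0) (P.cons (P.lf 0 170910 0) P.nil))) (P.cons (P.cons (P.lf 26375542 0 0) (P.cons (P.lf 0 1761972 0) P.nil)) (P.cons (P.cons (P.lf 0 3572566 0) P.nil) P.nil)))))) 2280319)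
 (EL.cons 2 (TM.mk (P.cons (P.cons (P.lf 620022895 0 0) (P.cons (P.lf 0 22983401 0) (P.cons (P.lf 0 11388358 0) (P.cons (P.lf 103342 0 0) (P.lf 25832 0 0))))) (P.cons (P.cons (P.lf 0 520859809 0) (P.cons (P.lf 19307562 0 0) (P.cons (P.lf 9566966 0 0) (P.cons (P.lf 0 86813 0) (P.lf 0 21701 0))))) (P.cons (P.cons (P.lf 0 140546711 0) (P.cons (P.lf 5209872 0 0) (P.cons (P.lf 2581509 0 0) (P.cons (P.lf 0 23425 0) P.nil)))) (P.cons (P.cons (P.lf 33685188 0 0) (P.cons (P.lf 0 1248662 0) (P.cons (P.lf 0 618716 0) P.nil))) (P.cons (P.cons (P.lf 9024612 0 0) (P.cons (P.lf 0 334527 0) P.nil)) (P.cons (P.cons (P.lf 0 1002180 0) P.nil) P.nil)))))) 770190)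
 (EL.cons 6 (TM.mk (P.cons (P.cons (P.lf 1436135832 0 0) (P.cons (P.lf 0 53235594 0) (P.cons (P.lf 0 26378427 0) (P.cons (P.lf 239367 0 0) (P.lf 59841 0 0))))) (P.cons (P.cons (P.lf 276512388 0 0) (P.cons (P.lf 0 10249935 0) (P.cons (P.lf 0 5078880 0) (P.cons (P.lf 46086 0 0) (P.lf 11520 0 0))))) (P.cons (P.cons (P.lf 0 111778794 0) (P.cons (P.lf 4143486 0 0) (P.cons (P.lf 2053110 0 0) (P.cons (P.lf 0 18630 0) P.nil)))) (P.cons (P.cons (P.lf 0 24701367 0) (P.cons (P.lf 915645 0 0) (P.cons (P.lf 453702 0 0) P.nil))) (P.cons (P.cons (P.lf 4053048 0 0) (P.cons (P.lf 0 150240 0) P.nil)) (P.cons (P.cons (P.lf 1141305 0 0) P.nil) P.nil)))))) 488982)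
 EL.nil))))))
noncomputable def S198_256_512_586_2 : EL := (EL.cons 0 (TM.mk (P.cons (P.cons (P.lf 87356527 0 0) (P.cons (P.lf 0 201900243 0) (P.cons (P.lf 57945703 0 0) (P.cons (P.lf 0 671104 0) (P.cons (P.lf 0 566898 0) (P.cons (P.lf 9250 0 0) P.nil)))))) (P.cons (P.cons (P.lf 0 263023467 0) (P.cons (P.lf 97476772 0 0) (P.cons (P.lf 67322282 0 0) (P.cons (P.lf 0 2709585 0) (P.cons (P.lf 0 713358 0) P.nil))))) (P.cons (P.cons (P.lf 0 106123878 0) (P.cons (P.lf 383831788 0 0) (P.cons (P.lf 0 15050068 0) (P.cons (P.lf 0 1751776 0) P.nil)))) (P.cons (P.cons (P.lf 400568908 0 0) (P.cons (P.lf 14406741 0 0) (P.cons (P.lf 0 20350643 0) P.nil))) (P.cons (P.cons (P.lf 100991742 0 0) (P.cons (P.lf 0 100609869 0) P.nil)) (P.cons (P.cons (P.lf 0 113535384 0) P.nil) P.nil)))))) 152434149)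
 (EL.cons 1 (TM.mk (P.cons (P.cons (P.lf 71854153 0 0) (P.cons (P.lf 0 127995011 0) (P.cons (P.lf 0 29002561 0) (P.cons (P.lf 1667140 0 0) (P.cons (P.lf 321490 0 0) (P.cons (P.lf 0 5242 0) P.nil)))))) (P.cons (P.cons (P.lf 0 85035408 0) (P.cons (P.lf 0 261995892 0) (P.cons (P.lf 16931954 0 0) (P.cons (P.lf 983743 0 0) (P.cons (P.lf 0 132179 0) P.nil))))) (P.cons (P.cons (P.lf 0 338047740 0) (P.cons (P.lf 20192733 0 0) (P.cons (P.lf 22103570 0 0) (P.cons (P.lf 0 820971 0) P.nil)))) (P.cons (P.cons (P.lf 0 52986141 0) (P.cons (P.lf 122349398 0 0) (P.cons (P.lf 0 1981718 0) P.nil))) (P.cons (P.cons (P.lf 140454063 0 0) (P.cons (P.lf 11108616 0 0) P.nil)) (P.cons (P.cons (P.lf 29390458 0 0) P.nil) P.nil)))))) 82725726)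
 (EL.cons 5 (TM.mk (P.cons (P.cons (P.lf 0 13875860 0) (P.cons (P.lf 3133291 0 0) (P.cons (P.lf 49059863 0 0) (P.cons (P.lf 0 1579908 0) (P.cons (P.lf 0 508652 0) (P.cons (P.lf 8286 0 0) P.nil)))))) (P.cons (P.cons (P.lf 8211360 0 0) (P.cons (P.lf 122532073 0 0) (P.cons (P.lf 0 33858 0) (P.cons (P.lf 0 711102 0) (P.cons (P.lf 0 19866 0) P.nil))))) (P.cons (P.cons (P.lf 104125984 0 0) (P.cons (P.lf 0 19453156 0) (P.cons (P.lf 0 4643446 0) (P.cons (P.lf 260866 0 0) P.nil)))) (P.cons (P.cons (P.lf 0 32796997 0) (P.cons (P.lf 0 25249537 0) (P.cons (P.lf 3142167 0 0) P.nil))) (P.cons (P.cons (P.lf 0 39195223 0) (P.cons (P.lf 16242986 0 0) P.nil)) (P.cons (P.cons (P.lf 19417397 0 0) P.nil) P.nil)))))) 68741831)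
 (EL.cons 9 (TM.mk (P.cons (P.cons (P.lf 15162558 0 0) (P.cons (P.lf 0 60576573 0) (P.cons (P.lf 61467157 0 0) (P.cons (P.lf 0 1604584 0) (P.cons (P.lf 0 626662 0) (P.cons (P.lf 10218 0 0) P.nil)))))) (P.cons (P.cons (P.lf 0 75271843 0) (P.cons (P.lf 138697485 0 0) (P.cons (P.lf 21090840 0 0) (P.cons (P.lf 0 1477498 0) (P.cons (P.lf 0 241312 0) P.nil))))) (P.cons (P.cons (P.lf 58582104 0 0) (P.cons (P.lf 103253262 0 0) (P.cons (P.lf 0 8818744 0) (P.cons (P.lf 0 319393 0) P.nil)))) (P.cons (P.cons (P.lf 96730149 0 0) (P.cons (P.lf 0 17759239 0) (P.cons (P.lf 0 3612010 0) P.nil))) (P.cons (P.cons (P.lf 0 2900337 0) (P.cons (P.lf 0 17231821 0) P.nil)) (P.cons (P.cons (P.lf 0 18485938 0) P.nil) P.nil)))))) 17385365)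
 (EL.cons 2 (TM.mk (P.cons (P.cons (P.lf 60158694 0 0) (P.cons (P.lf 0 122401260 0) (P.cons (P.lf 5262294 0 0) (P.cons (P.lf 2783947 0 0) (P.cons (P.lf 0 76286 0) (P.cons (P.lf 0 16396 0) P.nil)))))) (P.cons (P.cons (P.lf 0 199860845 0) (P.cons (P.lf 85222614 0 0) (P.cons (P.lf 0 451996 0) (P.cons (P.lf 0 1829497 0) (P.cons (P.lf 42688 0 0) P.nil))))) (P.cons (P.cons (P.lf 42696821 0 0) (P.cons (P.lf 54448143 0 0) (P.cons (P.lf 0 3753028 0) (P.cons (P.lf 0 1286246 0) P.nil)))) (P.cons (P.cons (P.lf 115527408 0 0) (P.cons (P.lf 0 11356818 0) (P.cons (P.lf 0 1747130 0) P.nil))) (P.cons (P.cons (P.lf 0 3594448 0) (P.cons (P.lf 0 7068633 0) P.nil)) (P.cons (P.cons (P.lf 0 15591825 0) P.nil) P.nil)))))) 11891148)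
 (EL.cons 6 (TM.mk (P.cons (P.cons (P.lf 139343334 0 0) (P.cons (P.lf 0 283513464 0) (P.cons (P.lf 12188856 0 0) (P.cons (P.lf 6448356 0 0) (P.cons (P.lf 0 176700 0) (P.cons (P.lf 0 37980 0) P.nil)))))) (P.cons (P.cons (P.lf 0 319043628 0) (P.cons (P.lf 0 95359338 0) (P.cons (P.lf 11539308 0 0) (P.cons (P.lf 2421000 0 0) (P.cons (P.lf 0 83568 0) P.nil))))) (P.cons (P.cons (P.lf 0 237511848 0) (P.cons (P.lf 41814858 0 0) (P.cons (P.lf 2613462 0 0) (P.cons (P.lf 0 801570 0) P.nil)))) (P.cons (P.cons (P.lf 40851300 0 0) (P.cons (P.lf 16403406 0 0) (P.cons (P.lf 0 1699704 0) P.nil))) (P.cons (P.cons (P.lf 39638088 0 0) (P.cons (P.lf 0 2883072 0) P.nil)) (P.cons (P.cons (P.lf 0 1110492 0) P.nil) P.nil)))))) 8938374)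
 EL.nil))))))
noncomputable def S198_256_512_586_3 : EL := (EL.cons 0 (TM.mk (P.cons (P.lf 375392995 0 0) (P.cons (P.lf 0 727079837 0) (P.cons (P.lf 317250402 0 0) (P.cons (P.lf 44091209 0 0) (P.cons (P.lf 0 8367597 0) (P.cons (P.lf 0 1467036 0) P.nil)))))) 311496)
 (EL.cons 1 (TM.mk (P.cons (P.lf 869508750 0 0) (P.cons (P.lf 0 786249082 0) (P.cons (P.lf 0 120498519 0) (P.cons (P.lf 33042157 0 0) (P.cons (P.lf 5010903 0 0) (P.cons (P.lf 0 683975 0) P.nil)))))) 177172)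
 (EL.cons 5 (TM.mk (P.cons (P.lf 2014010580 0 0) (P.cons (P.lf 258517274 0 0) (P.cons (P.lf 0 112800140 0) (P.cons (P.lf 0 15676876 0) (P.cons (P.lf 2975142 0 0) (P.cons (P.lf 521612 0 0) P.nil)))))) 117178)
 EL.nil)))
noncomputable def S198_256_512_586_4 : EL := (EL.cons 0 (TM.mk (P.cons (P.cons (P.lf 18211547 0 0) (P.cons (P.lf 0 36378857 0) (P.cons (P.lf 579016 0 0) (P.lf 193004 0 0)))) (P.cons (P.cons (P.lf 0 80477036 0) (P.cons (P.lf 63456027 0 0) (P.cons (P.lf 0 1009986 0) (P.lf 0 336661 0)))) (P.cons (P.cons (P.lf 82023495 0 0) (P.cons (P.lf 0 14346472 0) (P.cons (P.lf 228343 0 0) (P.lf 76113 0 0)))) (P.cons (P.cons (P.lf 10618732 0 0) (P.cons (P.lf 0 15050742 0) (P.cons (P.lf 239551 0 0) P.nil))) (P.cons (P.cons (P.lf 0 33793764 0) (P.cons (P.lf 1066552 0 0) P.nil)) (P.cons (P.cons (P.lf 501985 0 0) P.nil) P.nil)))))) 6241390)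
 (EL.cons 1 (TM.mk (P.cons (P.cons (P.lf 42182724 0 0) (P.cons (P.lf 0 84262987 0) (P.cons (P.lf 1341155 0 0) (P.lf 447050 0 0)))) (P.cons (P.cons (P.lf 0 142847870 0) (P.cons (P.lf 59970474 0 0) (P.cons (P.lf 0 954508 0) (P.lf 0 318168 0)))) (P.cons (P.cons (P.lf 40374712 0 0) (P.cons (P.lf 32906205 0 0) (P.cons (P.lf 0 523743 0) (P.lf 0 174579 0)))) (P.cons (P.cons (P.lf 74203818 0 0) (P.cons (P.lf 0 5434850 0) (P.cons (P.lf 86501 0 0) P.nil))) (P.cons (P.cons (P.lf 0 6366720 0) (P.cons (P.lf 0 3559348 0) P.nil)) (P.cons (P.cons (P.lf 0 8157088 0) P.nil) P.nil)))))) 3980914)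
 (EL.cons 5 (TM.mk (P.cons (P.cons (P.lf 97706270 0 0) (P.cons (P.lf 0 195175206 0) (P.cons (P.lf 3106470 0 0) (P.lf 1035488 0 0)))) (P.cons (P.cons (P.lf 0 229981234 0) (P.cons (P.lf 0 62631450 0) (P.cons (P.lf 996858 0 0) (P.lf 332284 0 0)))) (P.cons (P.cons (P.lf 0 148843622 0) (P.cons (P.lf 21298790 0 0) (P.cons (P.lf 0 338996 0) (P.lf 0 112998 0)))) (P.cons (P.cons (P.lf 31475036 0 0) (P.cons (P.lf 8930840 0 0) (P.cons (P.lf 0 142142 0) P.nil))) (P.cons (P.cons (P.lf 20807408 0 0) (P.cons (P.lf 0 966542 0) P.nil)) (P.cons (P.cons (P.lf 0 1369338 0) P.nil) P.nil)))))) 2861754)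
 EL.nil)))
noncomputable def S198_256_512_586_5 : EL := (EL.cons 0 (TM.mk (P.cons (P.cons (P.lf 883501 0 0) (P.cons (P.lf 0 3529715 0) (P.cons (P.lf 3581608 0 0) (P.cons (P.lf 0 93496 0) (P.cons (P.lf 0 36513 0) (P.cons (P.lf 594 0 0) P.nil)))))) (P.cons (P.cons (P.lf 0 6097199 0) (P.cons (P.lf 14918245 0 0) (P.cons (P.lf 0 5708102 0) (P.cons (P.lf 94997 0 0) (P.cons (P.lf 56661 0 0) P.nil))))) (P.cons (P.cons (P.lf 12655163 0 0) (P.cons (P.lf 0 12619657 0) (P.cons (P.lf 132753 0 0) (P.cons (P.lf 69118 0 0) P.nil)))) (P.cons (P.cons (P.lf 0 4577997 0) (P.cons (P.lf 0 6272319 0) (P.cons (P.lf 2244058 0 0) P.nil))) (P.cons (P.cons (P.lf 0 8735776 0) (P.cons (P.lf 7112670 0 0) P.nil)) (P.cons (P.cons (P.lf 4508767 0 0) P.nil) P.nil)))))) 14923036)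
 (EL.cons 1 (TM.mk (P.cons (P.cons (P.lf 2046421 0 0) (P.cons (P.lf 0 8175746 0) (P.cons (P.lf 8295945 0 0) (P.cons (P.lf 0 216562 0) (P.cons (P.lf 0 84575 0) (P.cons (P.lf 1378 0 0) P.nil)))))) (P.cons (P.cons (P.lf 0 12009570 0) (P.cons (P.lf 26112258 0 0) (P.cons (P.lf 0 4655032 0) (P.cons (P.lf 0 3585 0) (P.cons (P.lf 43908 0 0) P.nil))))) (P.cons (P.cons (P.lf 16809285 0 0) (P.cons (P.lf 0 1858261 0) (P.cons (P.lf 0 4913863 0) (P.cons (P.lf 167220 0 0) P.nil)))) (P.cons (P.cons (P.lf 7391400 0 0) (P.cons (P.lf 0 17902970 0) (P.cons (P.lf 509533 0 0) P.nil))) (P.cons (P.cons (P.lf 0 13666548 0) (P.cons (P.lf 0 1425322 0) P.nil)) (P.cons (P.cons (P.lf 0 3709923 0) P.nil) P.nil)))))) 13722607)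
 (EL.cons 5 (TM.mk (P.cons (P.cons (P.lf 4740050 0 0) (P.cons (P.lf 0 18937180 0) (P.cons (P.lf 19215590 0 0) (P.cons (P.lf 0 501616 0) (P.cons (P.lf 0 195902 0) (P.cons (P.lf 3192 0 0) P.nil)))))) (P.cons (P.cons (P.lf 0 22922720 0) (P.cons (P.lf 40928228 0 0) (P.cons (P.lf 9059826 0 0) (P.cons (P.lf 0 526276 0) (P.cons (P.lf 0 100582 0) P.nil))))) (P.cons (P.cons (P.lf 15027752 0 0) (P.cons (P.lf 38904742 0 0) (P.cons (P.lf 0 2986782 0) (P.cons (P.lf 0 131040 0) P.nil)))) (P.cons (P.cons (P.lf 33871114 0 0) (P.cons (P.lf 0 3689586 0) (P.cons (P.lf 0 2001890 0) P.nil))) (P.cons (P.cons (P.lf 2139274 0 0) (P.cons (P.lf 0 8272888 0) P.nil)) (P.cons (P.cons (P.lf 0 7765096 0) P.nil) P.nil)))))) 10435230)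
 EL.nil)))
noncomputable def S198_256_512_586_6 : EL := (EL.cons 12 (TM.mk (P.lf 8589934592 0 0) 0)
 (EL.cons 3 (TM.mk (P.cons (P.lf 0 897858742 0) (P.cons (P.lf 869508750 0 0) (P.cons (P.lf 41629830 0 0) (P.cons (P.lf 0 12412950 0) (P.cons (P.lf 0 1049171 0) (P.cons (P.lf 162840 0 0) P.nil)))))) 27209)
 (EL.cons 7 (TM.mk (P.cons (P.lf 0 2079676607 0) (P.cons (P.lf 0 133473065 0) (P.cons (P.lf 62522105 0 0) (P.cons (P.lf 4081356 0 0) (P.cons (P.lf 0 858201 0) (P.cons (P.lf 0 91532 0) P.nil)))))) 18219)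
 EL.nil)))
noncomputable def S198_256_512_586_7 : EL := (EL.cons 12 (TM.mk (P.cons (P.cons (P.lf 416725952 0 0) (P.cons (P.lf 0 832439656 0) (P.cons (P.lf 13249376 0 0) (P.lf 4416456 0 0)))) (P.cons (P.cons (P.lf 0 1034381168 0) (P.cons (P.lf 0 160277232 0) (P.cons (P.lf 2551016 0 0) (P.lf 850336 0 0)))) (P.cons (P.cons (P.lf 0 478718854 0) (P.cons (P.lf 64791288 0 0) (P.cons (P.lf 0 1031232 0) (P.lf 0 343744 0)))) (P.cons (P.cons (P.lf 141002348 0 0) (P.cons (P.lf 14317864 0 0) (P.cons (P.lf 0 227880 0) P.nil))) (P.cons (P.cons (P.lf 35167390 0 0) (P.cons (P.lf 0 2349296 0) P.nil)) (P.cons (P.cons (P.lf 0 4763422 0) P.nil) P.nil)))))) 3040400)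
 (EL.cons 3 (TM.mk (P.cons (P.cons (P.lf 0 1728174153 0) (P.cons (P.lf 0 174020700 0) (P.cons (P.lf 2769768 0 0) (P.lf 923254 0 0)))) (P.cons (P.cons (P.lf 0 1463929566 0) (P.cons (P.lf 135020176 0 0) (P.cons (P.lf 0 2149024 0) (P.lf 0 716340 0)))) (P.cons (P.cons (P.lf 612894417 0 0) (P.cons (P.lf 54060992 0 0) (P.cons (P.lf 0 860448 0) (P.lf 0 286814 0)))) (P.cons (P.cons (P.lf 208168480 0 0) (P.cons (P.lf 0 10976074 0) (P.cons (P.lf 174696 0 0) P.nil))) (P.cons (P.cons (P.lf 0 32829729 0) (P.cons (P.lf 0 4684314 0) P.nil)) (P.cons (P.cons (P.lf 0 13481345 0) P.nil) P.nil)))))) 9617222)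
 (EL.cons 7 (TM.mk (P.cons (P.cons (P.lf 157703345 0 0) (P.cons (P.lf 241608133 0 0) (P.cons (P.lf 0 3845514 0) (P.lf 0 1281840 0)))) (P.cons (P.cons (P.lf 224719040 0 0) (P.cons (P.lf 0 20726135 0) (P.cons (P.lf 329879 0 0) (P.lf 109958 0 0)))) (P.cons (P.cons (P.lf 0 210104692 0) (P.cons (P.lf 2402369 0 0) (P.cons (P.lf 0 38235 0) (P.lf 0 12745 0)))) (P.cons (P.cons (P.lf 36554530 0 0) (P.cons (P.lf 7052409 0 0) (P.cons (P.lf 0 112245 0) P.nil))) (P.cons (P.cons (P.lf 26399033 0 0) (P.cons (P.lf 0 697462 0) P.nil)) (P.cons (P.cons (P.lf 0 2293178 0) P.nil) P.nil)))))) 6893416)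
 (EL.cons 10 (TM.mk (P.cons (P.cons (P.lf 0 2965920960 0) (P.cons (P.lf 109942644 0 0) (P.cons (P.lf 54476976 0 0) (P.cons (P.lf 0 494346 0) (P.lf 0 123585 0))))) (P.cons (P.cons (P.lf 0 380703957 0) (P.cons (P.lf 14112174 0 0) (P.cons (P.lf 6992634 0 0) (P.cons (P.lf 0 63453 0) (P.lf 0 15861 0))))) (P.cons (P.cons (P.lf 166114467 0 0) (P.cons (P.lf 0 6157635 0) (P.cons (P.lf 0 3051129 0) (P.cons (P.lf 27687 0 0) P.nil)))) (P.cons (P.cons (P.lf 23086458 0 0) (P.cons (P.lf 0 855783 0) (P.cons (P.lf 0 424041 0) P.nil))) (P.cons (P.cons (P.lf 0 4381323 0) (P.cons (P.lf 162408 0 0) P.nil)) (P.cons (P.cons (P.lf 0 768147 0) P.nil) P.nil)))))) 318138)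
 EL.nil))))
noncomputable def S198_256_512_586_8 : EL := (EL.cons 12 (TM.mk (P.cons (P.cons (P.lf 20216744 0 0) (P.cons (P.lf 0 80768764 0) (P.cons (P.lf 81956210 0 0) (P.cons (P.lf 0 2139446 0) (P.cons (P.lf 0 835550 0) (P.cons (P.lf 13624 0 0) P.nil)))))) (P.cons (P.cons (P.lf 0 100362458 0) (P.cons (P.lf 184929980 0 0) (P.cons (P.lf 28121120 0 0) (P.cons (P.lf 0 1969998 0) (P.cons (P.lf 0 321750 0) P.nil))))) (P.cons (P.cons (P.lf 78109472 0 0) (P.cons (P.lf 137671016 0 0) (P.cons (P.lf 0 11758326 0) (P.cons (P.lf 0 425858 0) P.nil)))) (P.cons (P.cons (P.lf 128973532 0 0) (P.cons (P.lf 0 23678986 0) (P.cons (P.lf 0 4816014 0) P.nil))) (P.cons (P.cons (P.lf 0 3867116 0) (P.cons (P.lf 0 22975762 0) P.nil)) (P.cons (P.cons (P.lf 0 24647918 0) P.nil) P.nil)))))) 23180458)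
 (EL.cons 3 (TM.mk (P.cons (P.cons (P.lf 0 165565666 0) (P.cons (P.lf 309623373 0 0) (P.cons (P.lf 37232246 0 0) (P.cons (P.lf 0 2984757 0) (P.cons (P.lf 0 436676 0) (P.cons (P.lf 7121 0 0) P.nil)))))) (P.cons (P.cons (P.lf 261629087 0 0) (P.cons (P.lf 430742562 0 0) (P.cons (P.lf 0 31449902 0) (P.cons (P.lf 0 1502376 0) (P.cons (P.lf 254730 0 0) P.nil))))) (P.cons (P.cons (P.lf 622881942 0 0) (P.cons (P.lf 0 102043556 0) (P.cons (P.lf 0 21053019 0) (P.cons (P.lf 1263255 0 0) P.nil)))) (P.cons (P.cons (P.lf 0 14884179 0) (P.cons (P.lf 0 143334253 0) (P.cons (P.lf 4239655 0 0) P.nil))) (P.cons (P.cons (P.lf 0 197824449 0) (P.cons (P.lf 2662053 0 0) P.nil)) (P.cons (P.cons (P.lf 0 9262643 0) P.nil) P.nil)))))) 89285120)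
 (EL.cons 7 (TM.mk (P.cons (P.cons (P.lf 20196015 0 0) (P.cons (P.lf 0 26677870 0) (P.cons (P.lf 0 26872386 0) (P.cons (P.lf 1010471 0 0) (P.cons (P.lf 282727 0 0) (P.cons (P.lf 0 4606 0) P.nil)))))) (P.cons (P.cons (P.lf 0 40161105 0) (P.cons (P.lf 0 66120702 0) (P.cons (P.lf 4827685 0 0) (P.cons (P.lf 230628 0 0) (P.cons (P.lf 0 39098 0) P.nil))))) (P.cons (P.cons (P.lf 0 74879591 0) (P.cons (P.lf 49802362 0 0) (P.cons (P.lf 739182 0 0) (P.cons (P.lf 0 312983 0) P.nil)))) (P.cons (P.cons (P.lf 67437397 0 0) (P.cons (P.lf 10117817 0 0) (P.cons (P.lf 0 2795117 0) P.nil))) (P.cons (P.cons (P.lf 26393824 0 0) (P.cons (P.lf 0 16751886 0) P.nil)) (P.cons (P.cons (P.lf 0 22900436 0) P.nil) P.nil)))))) 39790571)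
 (EL.cons 10 (TM.mk (P.cons (P.cons (P.lf 0 287773140 0) (P.cons (P.lf 585514626 0 0) (P.cons (P.lf 0 25172538 0) (P.cons (P.lf 0 13317210 0) (P.cons (P.lf 364926 0 0) (P.cons (P.lf 78444 0 0) P.nil)))))) (P.cons (P.cons (P.lf 677361048 0 0) (P.cons (P.lf 159358830 0 0) (P.cons (P.lf 0 22215528 0) (P.cons (P.lf 0 4145178 0) (P.cons (P.lf 149172 0 0) P.nil))))) (P.cons (P.cons (P.lf 438387384 0 0) (P.cons (P.lf 0 78981498 0) (P.cons (P.lf 0 4728342 0) (P.cons (P.lf 1521090 0 0) P.nil)))) (P.cons (P.cons (P.lf 0 92703054 0) (P.cons (P.lf 0 22867524 0) (P.cons (P.lf 3096438 0 0) P.nil))) (P.cons (P.cons (P.lf 0 61283814 0) (P.cons (P.lf 5118450 0 0) P.nil)) (P.cons (P.cons (P.lf 4033098 0 0) P.nil) P.nil)))))) 12045282)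
 EL.nil))))
noncomputable def S198_256_512_586_9 : EL := (EL.cons 3 (TM.mk (P.cons (P.lf 0 897858742 0) (P.cons (P.lf 869508750 0 0) (P.cons (P.lf 41629830 0 0) (P.cons (P.lf 0 12412950 0) (P.cons (P.lf 0 1049171 0) (P.cons (P.lf 162840 0 0) P.nil)))))) 27209)
 (EL.cons 7 (TM.mk (P.cons (P.lf 0 2079676607 0) (P.cons (P.lf 0 133473065 0) (P.cons (P.lf 62522105 0 0) (P.cons (P.lf 4081356 0 0) (P.cons (P.lf 0 858201 0) (P.cons (P.lf 0 91532 0) P.nil)))))) 18219)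
 EL.nil))
noncomputable def S198_256_512_586_10 : EL := (EL.cons 3 (TM.mk (P.cons (P.cons (P.lf 0 43558077 0) (P.cons (P.lf 87010350 0 0) (P.cons (P.lf 0 1384884 0) (P.lf 0 461627 0)))) (P.cons (P.cons (P.lf 150300915 0 0) (P.cons (P.lf 0 67510088 0) (P.cons (P.lf 1074512 0 0) (P.lf 358170 0 0)))) (P.cons (P.cons (P.lf 0 52646889 0) (P.cons (P.lf 0 27030496 0) (P.cons (P.lf 430224 0 0) (P.lf 143407 0 0)))) (P.cons (P.cons (P.lf 0 68811272 0) (P.cons (P.lf 5488037 0 0) (P.cons (P.lf 0 87348 0) P.nil))) (P.cons (P.cons (P.lf 9720789 0 0) (P.cons (P.lf 2342157 0 0) P.nil)) (P.cons (P.cons (P.lf 5567044 0 0) P.nil) P.nil)))))) 2277898)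
 (EL.cons 7 (TM.mk (P.cons (P.cons (P.lf 0 100891945 0) (P.cons (P.lf 201538819 0 0) (P.cons (P.lf 0 3207756 0) (P.lf 0 1069251 0)))) (P.cons (P.cons (P.lf 243954899 0 0) (P.cons (P.lf 51738820 0 0) (P.cons (P.lf 0 823489 0) (P.lf 0 274495 0)))) (P.cons (P.cons (P.lf 135006500 0 0) (P.cons (P.lf 0 19254874 0) (P.cons (P.lf 306465 0 0) (P.lf 102155 0 0)))) (P.cons (P.cons (P.lf 0 34029839 0) (P.cons (P.lf 0 6035292 0) (P.cons (P.lf 96057 0 0) P.nil))) (P.cons (P.cons (P.lf 0 14722654 0) (P.cons (P.lf 824903 0 0) P.nil)) (P.cons (P.cons (P.lf 1504549 0 0) P.nil) P.nil)))))) 1614495)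
 EL.nil))
noncomputable def S198_256_512_586_11 : EL := (EL.cons 3 (TM.mk (P.cons (P.cons (P.lf 0 2113144 0) (P.cons (P.lf 8442315 0 0) (P.cons (P.lf 0 8566432 0) (P.cons (P.lf 223623 0 0) (P.cons (P.lf 87334 0 0) (P.cons (P.lf 0 1423 0) P.nil)))))) (P.cons (P.cons (P.lf 12536759 0 0) (P.cons (P.lf 0 27505464 0) (P.cons (P.lf 5356600 0 0) (P.cons (P.lf 0 10650 0) (P.cons (P.lf 0 50946 0) P.nil))))) (P.cons (P.cons (P.lf 0 18225480 0) (P.cons (P.lf 3937948 0 0) (P.cons (P.lf 4472757 0 0) (P.cons (P.lf 0 165267 0) P.nil)))) (P.cons (P.cons (P.lf 0 6089937 0) (P.cons (P.lf 17423615 0 0) (P.cons (P.lf 0 668981 0) P.nil))) (P.cons (P.cons (P.lf 13980549 0 0) (P.cons (P.lf 414477 0 0) P.nil)) (P.cons (P.cons (P.lf 2709685 0 0) P.nil) P.nil)))))) 11442898)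
 (EL.cons 7 (TM.mk (P.cons (P.cons (P.lf 0 4894599 0) (P.cons (P.lf 19554620 0 0) (P.cons (P.lf 0 19842108 0) (P.cons (P.lf 517973 0 0) (P.cons (P.lf 202291 0 0) (P.cons (P.lf 0 3298 0) P.nil)))))) (P.cons (P.cons (P.lf 23984241 0 0) (P.cons (P.lf 0 43517688 0) (P.cons (P.lf 0 8081759 0) (P.cons (P.lf 510192 0 0) (P.cons (P.lf 90880 0 0) P.nil))))) (P.cons (P.cons (P.lf 0 17204177 0) (P.cons (P.lf 0 36792386 0) (P.cons (P.lf 3006330 0 0) (P.cons (P.lf 118141 0 0) P.nil)))) (P.cons (P.cons (P.lf 0 33159869 0) (P.cons (P.lf 4901297 0 0) (P.cons (P.lf 1592311 0 0) P.nil))) (P.cons (P.cons (P.lf 0 548960 0) (P.cons (P.lf 7028484 0 0) P.nil)) (P.cons (P.cons (P.lf 7013164 0 0) P.nil) P.nil)))))) 7946845)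
 EL.nil))
noncomputable def S198_256_512_586_12 : EL := (EL.cons 4 (TM.mk (P.cons (P.lf 897858742 0 0) (P.cons (P.lf 0 869508750 0) (P.cons (P.lf 0 41629830 0) (P.cons (P.lf 12412950 0 0) (P.cons (P.lf 1049171 0 0) (P.cons (P.lf 0 162840 0) P.nil)))))) 27209)
 (EL.cons 8 (TM.mk (P.cons (P.lf 2079676607 0 0) (P.cons (P.lf 133473065 0 0) (P.cons (P.lf 0 62522105 0) (P.cons (P.lf 0 4081356 0) (P.cons (P.lf 858201 0 0) (P.cons (P.lf 91532 0 0) P.nil)))))) 18219)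
 EL.nil))
noncomputable def S198_256_512_586_13 : EL := (EL.cons 4 (TM.mk (P.cons (P.cons (P.lf 43558077 0 0) (P.cons (P.lf 0 87010350 0) (P.cons (P.lf 1384884 0 0) (P.lf 461627 0 0)))) (P.cons (P.cons (P.lf 0 150300915 0) (P.cons (P.lf 67510088 0 0) (P.cons (P.lf 0 1074512 0) (P.lf 0 358170 0)))) (P.cons (P.cons (P.lf 52646889 0 0) (P.cons (P.lf 27030496 0 0) (P.cons (P.lf 0 430224 0) (P.lf 0 143407 0)))) (P.cons (P.cons (P.lf 68811272 0 0) (P.cons (P.lf 0 5488037 0) (P.cons (P.lf 87348 0 0) P.nil))) (P.cons (P.cons (P.lf 0 9720789 0) (P.cons (P.lf 0 2342157 0) P.nil)) (P.cons (P.cons (P.lf 0 5567044 0) P.nil) P.nil)))))) 2277898)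
 (EL.cons 8 (TM.mk (P.cons (P.cons (P.lf 100891945 0 0) (P.cons (P.lf 0 201538819 0) (P.cons (P.lf 3207756 0 0) (P.lf 1069251 0 0)))) (P.cons (P.cons (P.lf 0 243954899 0) (P.cons (P.lf 0 51738820 0) (P.cons (P.lf 823489 0 0) (P.lf 274495 0 0)))) (P.cons (P.cons (P.lf 0 135006500 0) (P.cons (P.lf 19254874 0 0) (P.cons (P.lf 0 306465 0) (P.lf 0 102155 0)))) (P.cons (P.cons (P.lf 34029839 0 0) (P.cons (P.lf 6035292 0 0) (P.cons (P.lf 0 96057 0) P.nil))) (P.cons (P.cons (P.lf 14722654 0 0) (P.cons (P.lf 0 824903 0) P.nil)) (P.cons (P.cons (P.lf 0 1504549 0) P.nil) P.nil)))))) 1614495)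
 EL.nil))
noncomputable def S198_256_512_586_14 : EL := (EL.cons 4 (TM.mk (P.cons (P.cons (P.lf 2113144 0 0) (P.cons (P.lf 0 8442315 0) (P.cons (P.lf 8566432 0 0) (P.cons (P.lf 0 223623 0) (P.cons (P.lf 0 87334 0) (P.cons (P.lf 1423 0 0) P.nil)))))) (P.cons (P.cons (P.lf 0 12536759 0) (P.cons (P.lf 27505464 0 0) (P.cons (P.lf 0 5356600 0) (P.cons (P.lf 10650 0 0) (P.cons (P.lf 50946 0 0) P.nil))))) (P.cons (P.cons (P.lf 18225480 0 0) (P.cons (P.lf 0 3937948 0) (P.cons (P.lf 0 4472757 0) (P.cons (P.lf 165267 0 0) P.nil)))) (P.cons (P.cons (P.lf 6089937 0 0) (P.cons (P.lf 0 17423615 0) (P.cons (P.lf 668981 0 0) P.nil))) (P.cons (P.cons (P.lf 0 13980549 0) (P.cons (P.lf 0 414477 0) P.nil)) (P.cons (P.cons (P.lf 0 2709685 0) P.nil) P.nil)))))) 11442898)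
 (EL.cons 8 (TM.mk (P.cons (P.cons (P.lf 4894599 0 0) (P.cons (P.lf 0 19554620 0) (P.cons (P.lf 19842108 0 0) (P.cons (P.lf 0 517973 0) (P.cons (P.lf 0 202291 0) (P.cons (P.lf 3298 0 0) P.nil)))))) (P.cons (P.cons (P.lf 0 23984241 0) (P.cons (P.lf 43517688 0 0) (P.cons (P.lf 8081759 0 0) (P.cons (P.lf 0 510192 0) (P.cons (P.lf 0 90880 0) P.nil))))) (P.cons (P.cons (P.lf 17204177 0 0) (P.cons (P.lf 36792386 0 0) (P.cons (P.lf 0 3006330 0) (P.cons (P.lf 0 118141 0) P.nil)))) (P.cons (P.cons (P.lf 33159869 0 0) (P.cons (P.lf 0 4901297 0) (P.cons (P.lf 0 1592311 0) P.nil))) (P.cons (P.cons (P.lf 548960 0 0) (P.cons (P.lf 0 7028484 0) P.nil)) (P.cons (P.cons (P.lf 0 7013164 0) P.nil) P.nil)))))) 7946845)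
 EL.nil))
noncomputable def S198_256_512_586_15 : EL := (EL.cons 4 (TM.mk (P.cons (P.lf 0 200209597 0) (P.cons (P.lf 387775913 0 0) (P.cons (P.lf 0 169200214 0) (P.cons (P.lf 0 23515311 0) (P.cons (P.lf 4462718 0 0) (P.cons (P.lf 782419 0 0) P.nil)))))) 166134)
 (EL.cons 8 (TM.mk (P.cons (P.lf 0 463738000 0) (P.cons (P.lf 419332844 0 0) (P.cons (P.lf 64265877 0 0) (P.cons (P.lf 0 17622484 0) (P.cons (P.lf 0 2672482 0) (P.cons (P.lf 364787 0 0) P.nil)))))) 94488)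
 EL.nil))
noncomputable def S198_256_512_586_16 : EL := (EL.cons 4 (TM.mk (P.cons (P.cons (P.lf 0 9712825 0) (P.cons (P.lf 19402057 0 0) (P.cons (P.lf 0 308808 0) (P.lf 0 102935 0)))) (P.cons (P.cons (P.lf 42921086 0 0) (P.cons (P.lf 0 33843214 0) (P.cons (P.lf 538659 0 0) (P.lf 179552 0 0)))) (P.cons (P.cons (P.lf 0 43745864 0) (P.cons (P.lf 7651452 0 0) (P.cons (P.lf 0 121783 0) (P.lf 0 40593 0)))) (P.cons (P.cons (P.lf 0 5663324 0) (P.cons (P.lf 8027062 0 0) (P.cons (P.lf 0 127760 0) P.nil))) (P.cons (P.cons (P.lf 18023340 0 0) (P.cons (P.lf 0 568828 0) P.nil)) (P.cons (P.cons (P.lf 0 267725 0) P.nil) P.nil)))))) 3328750)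
 (EL.cons 8 (TM.mk (P.cons (P.cons (P.lf 0 22497453 0) (P.cons (P.lf 44940260 0 0) (P.cons (P.lf 0 715283 0) (P.lf 0 238427 0)))) (P.cons (P.cons (P.lf 76185531 0 0) (P.cons (P.lf 0 31984253 0) (P.cons (P.lf 509071 0 0) (P.lf 169690 0 0)))) (P.cons (P.cons (P.lf 0 21533180 0) (P.cons (P.lf 0 17549976 0) (P.cons (P.lf 279330 0 0) (P.lf 93109 0 0)))) (P.cons (P.cons (P.lf 0 39575370 0) (P.cons (P.lf 2898587 0 0) (P.cons (P.lf 0 46134 0) P.nil))) (P.cons (P.cons (P.lf 3395584 0 0) (P.cons (P.lf 1898319 0 0) P.nil)) (P.cons (P.cons (P.lf 4350447 0 0) P.nil) P.nil)))))) 2123144)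
 EL.nil))
noncomputable def S198_256_512_586_17 : EL := (EL.cons 4 (TM.mk (P.cons (P.cons (P.lf 0 471200 0) (P.cons (P.lf 1882515 0 0) (P.cons (P.lf 0 1910190 0) (P.cons (P.lf 49864 0 0) (P.cons (P.lf 19473 0 0) (P.cons (P.lf 0 316 0) P.nil)))))) (P.cons (P.cons (P.lf 3251839 0 0) (P.cons (P.lf 0 7956397 0) (P.cons (P.lf 3044321 0 0) (P.cons (P.lf 0 50665 0) (P.cons (P.lf 0 30219 0) P.nil))))) (P.cons (P.cons (P.lf 0 6749420 0) (P.cons (P.lf 6730484 0 0) (P.cons (P.lf 0 70801 0) (P.cons (P.lf 0 36863 0) P.nil)))) (P.cons (P.cons (P.lf 2441598 0 0) (P.cons (P.lf 3345237 0 0) (P.cons (P.lf 0 1196831 0) P.nil))) (P.cons (P.cons (P.lf 4659080 0 0) (P.cons (P.lf 0 3793424 0) P.nil)) (P.cons (P.cons (P.lf 0 2404676 0) P.nil) P.nil)))))) 7958962)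
 (EL.cons 8 (TM.mk (P.cons (P.cons (P.lf 0 1091425 0) (P.cons (P.lf 4360398 0 0) (P.cons (P.lf 0 4424504 0) (P.cons (P.lf 115500 0 0) (P.cons (P.lf 45107 0 0) (P.cons (P.lf 0 735 0) P.nil)))))) (P.cons (P.cons (P.lf 6405104 0 0) (P.cons (P.lf 0 13926538 0) (P.cons (P.lf 2482684 0 0) (P.cons (P.lf 1912 0 0) (P.cons (P.lf 0 23418 0) P.nil))))) (P.cons (P.cons (P.lf 0 8964952 0) (P.cons (P.lf 991073 0 0) (P.cons (P.lf 2620727 0 0) (P.cons (P.lf 0 89184 0) P.nil)))) (P.cons (P.cons (P.lf 0 3942080 0) (P.cons (P.lf 9548251 0 0) (P.cons (P.lf 0 271751 0) P.nil))) (P.cons (P.cons (P.lf 7288826 0 0) (P.cons (P.lf 760172 0 0) P.nil)) (P.cons (P.cons (P.lf 1978626 0 0) P.nil) P.nil)))))) 7318712)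
 EL.nil))
noncomputable def S198_256_512_586_18 : EL := (EL.cons 4 (TM.mk (P.cons (P.lf 44643862 0 0) (P.cons (P.lf 0 129702684 0) (P.cons (P.lf 119397478 0 0) (P.cons (P.lf 0 26667962 0) (P.cons (P.lf 0 8965736 0) (P.cons (P.lf 958581 0 0) P.nil)))))) 467642)
 (EL.cons 8 (TM.mk (P.cons (P.lf 103406910 0 0) (P.cons (P.lf 0 193647023 0) (P.cons (P.lf 71427862 0 0) (P.cons (P.lf 23572483 0 0) (P.cons (P.lf 0 3717003 0) (P.cons (P.lf 0 1166783 0) P.nil)))))) 289701)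
 EL.nil))
noncomputable def S198_256_512_586_19 : EL := (EL.cons 4 (TM.mk (P.cons (P.cons (P.lf 2165820 0 0) (P.cons (P.lf 0 4326379 0) (P.cons (P.lf 68859 0 0) (P.lf 22952 0 0)))) (P.cons (P.cons (P.lf 0 11668219 0) (P.cons (P.lf 11736324 0 0) (P.cons (P.lf 0 186798 0) (P.lf 0 62265 0)))) (P.cons (P.cons (P.lf 18922865 0 0) (P.cons (P.lf 0 8813835 0) (P.cons (P.lf 140283 0 0) (P.lf 46760 0 0)))) (P.cons (P.cons (P.lf 0 7710154 0) (P.cons (P.lf 0 547340 0) (P.cons (P.lf 8711 0 0) P.nil))) (P.cons (P.cons (P.lf 0 5823980 0) (P.cons (P.lf 2038626 0 0) P.nil)) (P.cons (P.cons (P.lf 4016475 0 0) P.nil) P.nil)))))) 3348353)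
 (EL.cons 8 (TM.mk (P.cons (P.cons (P.lf 5016608 0 0) (P.cons (P.lf 0 10021032 0) (P.cons (P.lf 159497 0 0) (P.lf 53165 0 0)))) (P.cons (P.cons (P.lf 0 21846487 0) (P.cons (P.lf 16836645 0 0) (P.cons (P.lf 0 267977 0) (P.lf 0 89325 0)))) (P.cons (P.cons (P.lf 21020863 0 0) (P.cons (P.lf 0 2528809 0) (P.cons (P.lf 40249 0 0) (P.lf 13416 0 0)))) (P.cons (P.cons (P.lf 5031787 0 0) (P.cons (P.lf 0 4905392 0) (P.cons (P.lf 78075 0 0) P.nil))) (P.cons (P.cons (P.lf 0 9754893 0) (P.cons (P.lf 108080 0 0) P.nil)) (P.cons (P.cons (P.lf 0 600372 0) P.nil) P.nil)))))) 2415857)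
 EL.nil))
noncomputable def S198_256_512_586_20 : EL := (EL.cons 4 (TM.mk (P.cons (P.cons (P.lf 105070 0 0) (P.cons (P.lf 0 419773 0) (P.cons (P.lf 425944 0 0) (P.cons (P.lf 0 11118 0) (P.cons (P.lf 0 4342 0) (P.cons (P.lf 70 0 0) P.nil)))))) (P.cons (P.cons (P.lf 0 826866 0) (P.cons (P.lf 2180681 0 0) (P.cons (P.lf 0 1091335 0) (P.cons (P.lf 22065 0 0) (P.cons (P.lf 10943 0 0) P.nil))))) (P.cons (P.cons (P.lf 2202370 0 0) (P.cons (P.lf 0 3199481 0) (P.cons (P.lf 653444 0 0) (P.cons (P.lf 0 2205 0) P.nil)))) (P.cons (P.cons (P.lf 0 1966870 0) (P.cons (P.lf 619409 0 0) (P.cons (P.lf 288949 0 0) P.nil))) (P.cons (P.cons (P.lf 0 591340 0) (P.cons (P.lf 1661888 0 0) P.nil)) (P.cons (P.cons (P.lf 1587495 0 0) P.nil) P.nil)))))) 5161528)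
 (EL.cons 8 (TM.mk (P.cons (P.cons (P.lf 243371 0 0) (P.cons (P.lf 0 972306 0) (P.cons (P.lf 986600 0 0) (P.cons (P.lf 0 25754 0) (P.cons (P.lf 0 10058 0) (P.cons (P.lf 163 0 0) P.nil)))))) (P.cons (P.cons (P.lf 0 1663933 0) (P.cons (P.lf 4047023 0 0) (P.cons (P.lf 0 1509051 0) (P.cons (P.lf 24515 0 0) (P.cons (P.lf 14962 0 0) P.nil))))) (P.cons (P.cons (P.lf 3370920 0 0) (P.cons (P.lf 0 3183277 0) (P.cons (P.lf 0 94006 0) (P.cons (P.lf 21493 0 0) P.nil)))) (P.cons (P.cons (P.lf 0 987321 0) (P.cons (P.lf 0 2072532 0) (P.cons (P.lf 665836 0 0) P.nil))) (P.cons (P.cons (P.lf 0 2588724 0) (P.cons (P.lf 1944430 0 0) P.nil)) (P.cons (P.cons (P.lf 1117946 0 0) P.nil) P.nil)))))) 5036953)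
 EL.nil))
noncomputable def S198_256_512_586_21 : EL := (EL.cons 4 (TM.mk (P.cons (P.cons (P.lf 1684616076 0 0) (P.cons (P.lf 261031050 0 0) (P.cons (P.lf 0 4154652 0) (P.lf 0 1384881 0)))) (P.cons (P.cons (P.lf 1614230481 0 0) (P.cons (P.lf 0 202530264 0) (P.cons (P.lf 3223536 0 0) (P.lf 1074510 0 0)))) (P.cons (P.cons (P.lf 0 665541306 0) (P.cons (P.lf 0 81091488 0) (P.cons (P.lf 1290672 0 0) (P.lf 430221 0 0)))) (P.cons (P.cons (P.lf 0 276979752 0) (P.cons (P.lf 16464111 0 0) (P.cons (P.lf 0 262044 0) P.nil))) (P.cons (P.cons (P.lf 42550518 0 0) (P.cons (P.lf 7026471 0 0) P.nil)) (P.cons (P.cons (P.lf 19048389 0 0) P.nil) P.nil)))))) 7339305)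
 (EL.cons 8 (TM.mk (P.cons (P.cons (P.lf 0 258595290 0) (P.cons (P.lf 0 40069314 0) (P.cons (P.lf 637758 0 0) (P.lf 212589 0 0)))) (P.cons (P.cons (P.lf 19235859 0 0) (P.cons (P.lf 72464955 0 0) (P.cons (P.lf 0 1153368 0) (P.lf 0 384453 0)))) (P.cons (P.cons (P.lf 345111192 0 0) (P.cons (P.lf 0 21657243 0) (P.cons (P.lf 344700 0 0) (P.lf 114900 0 0)))) (P.cons (P.cons (P.lf 0 70584369 0) (P.cons (P.lf 0 13087701 0) (P.cons (P.lf 208302 0 0) P.nil))) (P.cons (P.cons (P.lf 0 41121687 0) (P.cons (P.lf 1522365 0 0) P.nil)) (P.cons (P.cons (P.lf 3797727 0 0) P.nil) P.nil)))))) 5278902)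
 (EL.cons 11 (TM.mk (P.cons (P.cons (P.lf 2965920960 0 0) (P.cons (P.lf 0 109942644 0) (P.cons (P.lf 0 54476976 0) (P.cons (P.lf 494346 0 0) (P.lf 123585 0 0))))) (P.cons (P.cons (P.lf 380703957 0 0) (P.cons (P.lf 0 14112174 0) (P.cons (P.lf 0 6992634 0) (P.cons (P.lf 63453 0 0) (P.lf 15861 0 0))))) (P.cons (P.cons (P.lf 0 166114467 0) (P.cons (P.lf 6157635 0 0) (P.cons (P.lf 3051129 0 0) (P.cons (P.lf 0 27687 0) P.nil)))) (P.cons (P.cons (P.lf 0 23086458 0) (P.cons (P.lf 855783 0 0) (P.cons (P.lf 424041 0 0) P.nil))) (P.cons (P.cons (P.lf 4381323 0 0) (P.cons (P.lf 0 162408 0) P.nil)) (P.cons (P.cons (P.lf 768147 0 0) P.nil) P.nil)))))) 318138)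
 EL.nil)))
noncomputable def S198_256_512_586_22 : EL := (EL.cons 4 (TM.mk (P.cons (P.cons (P.lf 81726261 0 0) (P.cons (P.lf 0 150590529 0) (P.cons (P.lf 0 22899339 0) (P.cons (P.lf 1604190 0 0) (P.cons (P.lf 262005 0 0) (P.cons (P.lf 0 4272 0) P.nil)))))) (P.cons (P.cons (P.lf 0 124546164 0) (P.cons (P.lf 0 229124013 0) (P.cons (P.lf 18403251 0 0) (P.cons (P.lf 745863 0 0) (P.cons (P.lf 0 152838 0) P.nil))))) (P.cons (P.cons (P.lf 0 320553711 0) (P.cons (P.lf 52990752 0 0) (P.cons (P.lf 12762888 0 0) (P.cons (P.lf 0 714261 0) P.nil)))) (P.cons (P.cons (P.lf 4397121 0 0) (P.cons (P.lf 80378934 0 0) (P.cons (P.lf 0 2454318 0) P.nil))) (P.cons (P.cons (P.lf 105902499 0 0) (P.cons (P.lf 0 1123788 0) P.nil)) (P.cons (P.cons (P.lf 5986164 0 0) P.nil) P.nil)))))) 38921100)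
 (EL.cons 8 (TM.mk (P.cons (P.cons (P.lf 0 12545307 0) (P.cons (P.lf 23116245 0 0) (P.cons (P.lf 3515139 0 0) (P.cons (P.lf 0 246249 0) (P.cons (P.lf 0 40218 0) (P.cons (P.lf 654 0 0) P.nil)))))) (P.cons (P.cons (P.lf 32072673 0 0) (P.cons (P.lf 11301507 0 0) (P.cons (P.lf 0 6454722 0) (P.cons (P.lf 139782 0 0) (P.cons (P.lf 64989 0 0) P.nil))))) (P.cons (P.cons (P.lf 28837707 0 0) (P.cons (P.lf 0 43297374 0) (P.cons (P.lf 1133574 0 0) (P.cons (P.lf 215562 0 0) P.nil)))) (P.cons (P.cons (P.lf 0 50298633 0) (P.cons (P.lf 0 2608260 0) (P.cons (P.lf 2193714 0 0) P.nil))) (P.cons (P.cons (P.lf 0 13471392 0) (P.cons (P.lf 11890185 0 0) P.nil)) (P.cons (P.cons (P.lf 14956800 0 0) P.nil) P.nil)))))) 15921852)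
 (EL.cons 11 (TM.mk (P.cons (P.cons (P.lf 143886570 0 0) (P.cons (P.lf 0 292757313 0) (P.cons (P.lf 12586269 0 0) (P.cons (P.lf 6658605 0 0) (P.cons (P.lf 0 182463 0) (P.cons (P.lf 0 39222 0) P.nil)))))) (P.cons (P.cons (P.lf 0 338680524 0) (P.cons (P.lf 0 79679415 0) (P.cons (P.lf 11107764 0 0) (P.cons (P.lf 2072589 0 0) (P.cons (P.lf 0 74586 0) P.nil))))) (P.cons (P.cons (P.lf 0 219193692 0) (P.cons (P.lf 39490749 0 0) (P.cons (P.lf 2364171 0 0) (P.cons (P.lf 0 760545 0) P.nil)))) (P.cons (P.cons (P.lf 46351527 0 0) (P.cons (P.lf 11433762 0 0) (P.cons (P.lf 0 1548219 0) P.nil))) (P.cons (P.cons (P.lf 30641907 0 0) (P.cons (P.lf 0 2559225 0) P.nil)) (P.cons (P.cons (P.lf 0 2016549 0) P.nil) P.nil)))))) 6022641)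
 EL.nil)))
noncomputable def S198_256_512_586_23 : EL := (EL.cons 4 (TM.mk (P.cons (P.cons (P.lf 0 375645177 0) (P.cons (P.lf 0 58206171 0) (P.cons (P.lf 926427 0 0) (P.lf 308808 0 0)))) (P.cons (P.cons (P.lf 3833934 0 0) (P.cons (P.lf 101529645 0 0) (P.cons (P.lf 0 1615977 0) (P.lf 0 538656 0)))) (P.cons (P.cons (P.lf 514407924 0 0) (P.cons (P.lf 0 22954356 0) (P.cons (P.lf 365349 0 0) (P.lf 121782 0 0)))) (P.cons (P.cons (P.lf 0 70461681 0) (P.cons (P.lf 0 24081186 0) (P.cons (P.lf 383280 0 0) P.nil))) (P.cons (P.cons (P.lf 0 81596736 0) (P.cons (P.lf 1706484 0 0) P.nil)) (P.cons (P.cons (P.lf 3776628 0 0) P.nil) P.nil)))))) 11910705)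
 (EL.cons 8 (TM.mk (P.cons (P.cons (P.lf 57663033 0 0) (P.cons (P.lf 8934879 0 0) (P.cons (P.lf 0 142209 0) (P.lf 0 47403 0)))) (P.cons (P.cons (P.lf 0 60131637 0) (P.cons (P.lf 0 24811404 0) (P.cons (P.lf 394905 0 0) (P.lf 131634 0 0)))) (P.cons (P.cons (P.lf 0 75474537 0) (P.cons (P.lf 20063412 0 0) (P.cons (P.lf 0 319332 0) (P.lf 0 106443 0)))) (P.cons (P.cons (P.lf 91260351 0 0) (P.cons (P.lf 0 885666 0) (P.cons (P.lf 14097 0 0) P.nil))) (P.cons (P.cons (P.lf 0 2496639 0) (P.cons (P.lf 0 3602550 0) P.nil)) (P.cons (P.cons (P.lf 0 11535993 0) P.nil) P.nil)))))) 4890636)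
 (EL.cons 11 (TM.mk (P.cons (P.cons (P.lf 0 661357755 0) (P.cons (P.lf 24515628 0 0) (P.cons (P.lf 12147582 0 0) (P.cons (P.lf 0 110232 0) (P.lf 0 27555 0))))) (P.cons (P.cons (P.lf 555583797 0 0) (P.cons (P.lf 0 20594733 0) (P.cons (P.lf 0 10204764 0) (P.cons (P.lf 92601 0 0) (P.lf 23148 0 0))))) (P.cons (P.cons (P.lf 149916492 0 0) (P.cons (P.lf 0 5557197 0) (P.cons (P.lf 0 2753610 0) (P.cons (P.lf 24987 0 0) P.nil)))) (P.cons (P.cons (P.lf 0 35930868 0) (P.cons (P.lf 1331907 0 0) (P.cons (P.lf 659964 0 0) P.nil))) (P.cons (P.cons (P.lf 0 9626253 0) (P.cons (P.lf 356829 0 0) P.nil)) (P.cons (P.cons (P.lf 1068993 0 0) P.nil) P.nil)))))) 821514)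
 EL.nil)))
noncomputable def S198_256_512_586_24 : EL := (EL.cons 4 (TM.mk (P.cons (P.cons (P.lf 0 18223779 0) (P.cons (P.lf 33579522 0 0) (P.cons (P.lf 5106222 0 0) (P.cons (P.lf 0 357711 0) (P.cons (P.lf 0 58422 0) (P.cons (P.lf 951 0 0) P.nil)))))) (P.cons (P.cons (P.lf 45420366 0 0) (P.cons (P.lf 18572115 0 0) (P.cons (P.lf 0 9048654 0) (P.cons (P.lf 180099 0 0) (P.cons (P.lf 90660 0 0) P.nil))))) (P.cons (P.cons (P.lf 45428727 0 0) (P.cons (P.lf 0 62851260 0) (P.cons (P.lf 891390 0 0) (P.cons (P.lf 336921 0 0) P.nil)))) (P.cons (P.cons (P.lf 0 71742024 0) (P.cons (P.lf 0 8384913 0) (P.cons (P.lf 3564219 0 0) P.nil))) (P.cons (P.cons (P.lf 0 25616709 0) (P.cons (P.lf 18901449 0 0) P.nil)) (P.cons (P.cons (P.lf 22603686 0 0) P.nil) P.nil)))))) 30584760)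
 (EL.cons 8 (TM.mk (P.cons (P.cons (P.lf 2797422 0 0) (P.cons (P.lf 0 5154588 0) (P.cons (P.lf 0 783825 0) (P.cons (P.lf 54909 0 0) (P.cons (P.lf 8967 0 0) (P.cons (P.lf 0 144 0) P.nil)))))) (P.cons (P.cons (P.lf 0 9860838 0) (P.cons (P.lf 2471760 0 0) (P.cons (P.lf 2198385 0 0) (P.cons (P.lf 0 84345 0) (P.cons (P.lf 0 23175 0) P.nil))))) (P.cons (P.cons (P.lf 365829 0 0) (P.cons (P.lf 12334188 0 0) (P.cons (P.lf 0 1610292 0) (P.cons (P.lf 0 20427 0) P.nil)))) (P.cons (P.cons (P.lf 17813496 0 0) (P.cons (P.lf 0 8722656 0) (P.cons (P.lf 0 321948 0) P.nil))) (P.cons (P.cons (P.lf 0 7655256 0) (P.cons (P.lf 0 3703089 0) P.nil)) (P.cons (P.cons (P.lf 0 6862023 0) P.nil) P.nil)))))) 10634979)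
 (EL.cons 11 (TM.mk (P.cons (P.cons (P.lf 0 32084637 0) (P.cons (P.lf 65280672 0 0) (P.cons (P.lf 0 2806557 0) (P.cons (P.lf 0 1484772 0) (P.cons (P.lf 40686 0 0) (P.cons (P.lf 8745 0 0) P.nil)))))) (P.cons (P.cons (P.lf 106592451 0 0) (P.cons (P.lf 0 45452061 0) (P.cons (P.lf 241065 0 0) (P.cons (P.lf 975732 0 0) (P.cons (P.lf 0 22767 0) P.nil))))) (P.cons (P.cons (P.lf 0 22771638 0) (P.cons (P.lf 0 29039010 0) (P.cons (P.lf 2001615 0 0) (P.cons (P.lf 685998 0 0) P.nil)))) (P.cons (P.cons (P.lf 0 61614618 0) (P.cons (P.lf 6056970 0 0) (P.cons (P.lf 931803 0 0) P.nil))) (P.cons (P.cons (P.lf 1917039 0 0) (P.cons (P.lf 3769938 0 0) P.nil)) (P.cons (P.cons (P.lf 8315640 0 0) P.nil) P.nil)))))) 6341934)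
 EL.nil)))
noncomputable def S198_256_512_586_25 : EL := (EL.cons 4 (TM.mk (P.cons (P.cons (P.lf 83763474 0 0) (P.cons (P.lf 12979140 0 0) (P.cons (P.lf 0 206580 0) (P.lf 0 68859 0)))) (P.cons (P.cons (P.lf 0 81973548 0) (P.cons (P.lf 0 35208972 0) (P.cons (P.lf 560397 0 0) (P.lf 186798 0 0)))) (P.cons (P.cons (P.lf 0 117761406 0) (P.cons (P.lf 26441505 0 0) (P.cons (P.lf 0 420849 0) (P.lf 0 140283 0)))) (P.cons (P.cons (P.lf 127993347 0 0) (P.cons (P.lf 1642023 0 0) (P.cons (P.lf 0 26133 0) P.nil))) (P.cons (P.cons (P.lf 8383524 0 0) (P.cons (P.lf 0 6115878 0) P.nil)) (P.cons (P.cons (P.lf 0 20793024 0) P.nil) P.nil)))))) 12636984)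
 (EL.cons 8 (TM.mk (P.cons (P.cons (P.lf 0 12858027 0) (P.cons (P.lf 0 1992348 0) (P.cons (P.lf 31710 0 0) (P.lf 10569 0 0)))) (P.cons (P.cons (P.lf 25860525 0 0) (P.cons (P.lf 7462026 0 0) (P.cons (P.lf 0 118767 0) (P.lf 0 39588 0)))) (P.cons (P.cons (P.lf 4440792 0 0) (P.cons (P.lf 0 9739371 0) (P.cons (P.lf 155013 0 0) (P.lf 51669 0 0)))) (P.cons (P.cons (P.lf 0 37447539 0) (P.cons (P.lf 4246014 0 0) (P.cons (P.lf 0 67578 0) P.nil))) (P.cons (P.cons (P.lf 19653942 0 0) (P.cons (P.lf 893655 0 0) P.nil)) (P.cons (P.cons (P.lf 3227424 0 0) P.nil) P.nil)))))) 5814255)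
 (EL.cons 11 (TM.mk (P.cons (P.cons (P.lf 147473274 0 0) (P.cons (P.lf 0 5466633 0) (P.cons (P.lf 0 2708736 0) (P.cons (P.lf 24579 0 0) (P.lf 6144 0 0))))) (P.cons (P.cons (P.lf 0 266703993 0) (P.cons (P.lf 9886353 0 0) (P.cons (P.lf 4898721 0 0) (P.cons (P.lf 0 44451 0) (P.lf 0 11112 0))))) (P.cons (P.cons (P.lf 79708527 0 0) (P.cons (P.lf 0 2954685 0) (P.cons (P.lf 0 1464057 0) (P.cons (P.lf 13284 0 0) P.nil)))) (P.cons (P.cons (P.lf 48168699 0 0) (P.cons (P.lf 0 1785546 0) (P.cons (P.lf 0 884745 0) P.nil))) (P.cons (P.cons (P.lf 0 5603019 0) (P.cons (P.lf 207696 0 0) P.nil)) (P.cons (P.cons (P.lf 0 3322266 0) P.nil) P.nil)))))) 1499892)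
 EL.nil)))
noncomputable def S198_256_512_586_26 : EL := (EL.cons 4 (TM.mk (P.cons (P.cons (P.lf 4063641 0 0) (P.cons (P.lf 0 7487751 0) (P.cons (P.lf 0 1138614 0) (P.cons (P.lf 79764 0 0) (P.cons (P.lf 13026 0 0) (P.cons (P.lf 0 210 0) P.nil)))))) (P.cons (P.cons (P.lf 0 14063421 0) (P.cons (P.lf 3110007 0 0) (P.cons (P.lf 3120381 0 0) (P.cons (P.lf 0 117405 0) (P.cons (P.lf 0 32832 0) P.nil))))) (P.cons (P.cons (P.lf 0 510072 0) (P.cons (P.lf 18372654 0 0) (P.cons (P.lf 0 2099985 0) (P.cons (P.lf 0 39933 0) P.nil)))) (P.cons (P.cons (P.lf 26333313 0 0) (P.cons (P.lf 0 11614191 0) (P.cons (P.lf 0 711570 0) P.nil))) (P.cons (P.cons (P.lf 0 9445752 0) (P.cons (P.lf 0 6741243 0) P.nil)) (P.cons (P.cons (P.lf 0 11466444 0) P.nil) P.nil)))))) 17530620)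
 (EL.cons 8 (TM.mk (P.cons (P.cons (P.lf 0 623784 0) (P.cons (P.lf 1149399 0 0) (P.cons (P.lf 174780 0 0) (P.cons (P.lf 0 12243 0) (P.cons (P.lf 0 1998 0) (P.cons (P.lf 30 0 0) P.nil)))))) (P.cons (P.cons (P.lf 2802912 0 0) (P.cons (P.lf 0 1664274 0) (P.cons (P.lf 0 659469 0) (P.cons (P.lf 30663 0 0) (P.cons (P.lf 7104 0 0) P.nil))))) (P.cons (P.cons (P.lf 0 2182047 0) (P.cons (P.lf 0 2269875 0) (P.cons (P.lf 825696 0 0) (P.cons (P.lf 0 13089 0) P.nil)))) (P.cons (P.cons (P.lf 0 4003728 0) (P.cons (P.lf 4649976 0 0) (P.cons (P.lf 0 250797 0) P.nil))) (P.cons (P.cons (P.lf 5587197 0 0) (P.cons (P.lf 0 936630 0) P.nil)) (P.cons (P.cons (P.lf 62745 0 0) P.nil) P.nil)))))) 6688746)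
 (EL.cons 11 (TM.mk (P.cons (P.cons (P.lf 7154412 0 0) (P.cons (P.lf 0 14556651 0) (P.cons (P.lf 625821 0 0) (P.cons (P.lf 331080 0 0) (P.cons (P.lf 0 9072 0) (P.cons (P.lf 0 1950 0) P.nil)))))) (P.cons (P.cons (P.lf 0 30697095 0) (P.cons (P.lf 24232179 0 0) (P.cons (P.lf 0 659814 0) (P.cons (P.lf 0 538203 0) (P.cons (P.lf 13863 0 0) P.nil))))) (P.cons (P.cons (P.lf 27764118 0 0) (P.cons (P.lf 0 2664924 0) (P.cons (P.lf 0 423291 0) (P.cons (P.lf 42384 0 0) P.nil)))) (P.cons (P.cons (P.lf 10022712 0 0) (P.cons (P.lf 0 8292609 0) (P.cons (P.lf 235602 0 0) P.nil))) (P.cons (P.cons (P.lf 0 14288505 0) (P.cons (P.lf 290205 0 0) P.nil)) (P.cons (P.cons (P.lf 0 2036190 0) P.nil) P.nil)))))) 5513412)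
 EL.nil)))
noncomputable def S198_256_512_586_27 : EL := (EL.cons 13 (TM.mk (P.lf 0 4294967296 0) 0)
 EL.nil)
noncomputable def S198_256_512_586_28 : EL := (EL.cons 13 (TM.mk (P.cons (P.cons (P.lf 0 208362976 0) (P.cons (P.lf 416219828 0 0) (P.cons (P.lf 0 6624688 0) (P.lf 0 2208228 0)))) (P.cons (P.cons (P.lf 517190584 0 0) (P.cons (P.lf 80138616 0 0) (P.cons (P.lf 0 1275508 0) (P.lf 0 425168 0)))) (P.cons (P.cons (P.lf 239359427 0 0) (P.cons (P.lf 0 32395644 0) (P.cons (P.lf 515616 0 0) (P.lf 171872 0 0)))) (P.cons (P.cons (P.lf 0 70501174 0) (P.cons (P.lf 0 7158932 0) (P.cons (P.lf 113940 0 0) P.nil))) (P.cons (P.cons (P.lf 0 17583695 0) (P.cons (P.lf 1174648 0 0) P.nil)) (P.cons (P.cons (P.lf 2381711 0 0) P.nil) P.nil)))))) 1520200)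
 EL.nil)
noncomputable def S198_256_512_586_29 : EL := (EL.cons 13 (TM.mk (P.cons (P.cons (P.lf 0 10108372 0) (P.cons (P.lf 40384382 0 0) (P.cons (P.lf 0 40978105 0) (P.cons (P.lf 1069723 0 0) (P.cons (P.lf 417775 0 0) (P.cons (P.lf 0 6812 0) P.nil)))))) (P.cons (P.cons (P.lf 50181229 0 0) (P.cons (P.lf 0 92464990 0) (P.cons (P.lf 0 14060560 0) (P.cons (P.lf 984999 0 0) (P.cons (P.lf 160875 0 0) P.nil))))) (P.cons (P.cons (P.lf 0 39054736 0) (P.cons (P.lf 0 68835508 0) (P.cons (P.lf 5879163 0 0) (P.cons (P.lf 212929 0 0) P.nil)))) (P.cons (P.cons (P.lf 0 64486766 0) (P.cons (P.lf 11839493 0 0) (P.cons (P.lf 2408007 0 0) P.nil))) (P.cons (P.cons (P.lf 1933558 0 0) (P.cons (P.lf 11487881 0 0) P.nil)) (P.cons (P.cons (P.lf 12323959 0 0) P.nil) P.nil)))))) 11590229)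
 EL.nil)
noncomputable def S198_256_512_586_30 : EL := (EL.cons 13 (TM.mk (P.cons (P.lf 957715992 0 0) (P.cons (P.lf 0 927476000 0) (P.cons (P.lf 0 44405152 0) (P.cons (P.lf 13240480 0 0) (P.cons (P.lf 1119116 0 0) (P.cons (P.lf 0 173696 0) P.nil)))))) 29016)
 EL.nil)
noncomputable def S198_256_512_586_31 : EL := (EL.cons 13 (TM.mk (P.cons (P.cons (P.lf 46461949 0 0) (P.cons (P.lf 0 92811040 0) (P.cons (P.lf 1477210 0 0) (P.lf 492403 0 0)))) (P.cons (P.cons (P.lf 0 160320976 0) (P.cons (P.lf 72010761 0 0) (P.cons (P.lf 0 1146147 0) (P.lf 0 382049 0)))) (P.cons (P.cons (P.lf 56156682 0 0) (P.cons (P.lf 28832530 0 0) (P.cons (P.lf 0 458906 0) (P.lf 0 152968 0)))) (P.cons (P.cons (P.lf 73398691 0 0) (P.cons (P.lf 0 5853907 0) (P.cons (P.lf 93172 0 0) P.nil))) (P.cons (P.cons (P.lf 0 10368842 0) (P.cons (P.lf 0 2498301 0) P.nil)) (P.cons (P.cons (P.lf 0 5938181 0) P.nil) P.nil))))))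 2429738)
 EL.nil)
noncomputable def S198_256_512_586_32 : EL := (EL.cons 13 (TM.mk (P.cons (P.cons (P.lf 2254021 0 0) (P.cons (P.lf 0 9005136 0) (P.cons (P.lf 9137528 0 0) (P.cons (P.lf 0 238532 0) (P.cons (P.lf 0 93157 0) (P.cons (P.lf 1518 0 0) P.nil)))))) (P.cons (P.cons (P.lf 0 13372543 0) (P.cons (P.lf 29339162 0 0) (P.cons (P.lf 0 5713707 0) (P.cons (P.lf 11360 0 0) (P.cons (P.lf 54343 0 0) P.nil))))) (P.cons (P.cons (P.lf 19440512 0 0) (P.cons (P.lf 0 4200478 0) (P.cons (P.lf 0 4770941 0) (P.cons (P.lf 176285 0 0) P.nil)))) (P.cons (P.cons (P.lf 6495933 0 0) (P.cons (P.lf 0 18585190 0) (P.cons (P.lf 713580 0 0) P.nil))) (P.cons (P.cons (P.lf 0 14912586 0) (P.cons (P.lf 0 442109 0) P.nil)) (P.cons (P.cons (P.lf 0 2890331 0) P.nil) P.nil)))))) 12205735)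
 EL.nil)
noncomputable def S198_256_512_586_33 : EL := (EL.cons 14 (TM.mk (P.lf 8589934592 0 0) 0)
 EL.nil)
noncomputable def S198_256_512_586_34 : EL := (EL.cons 14 (TM.mk (P.cons (P.cons (P.lf 416725952 0 0) (P.cons (P.lf 0 832439656 0) (P.cons (P.lf 13249376 0 0) (P.lf 4416456 0 0)))) (P.cons (P.cons (P.lf 0 1034381168 0) (P.cons (P.lf 0 160277232 0) (P.cons (P.lf 2551016 0 0) (P.lf 850336 0 0)))) (P.cons (P.cons (P.lf 0 478718854 0) (P.cons (P.lf 64791288 0 0) (P.cons (P.lf 0 1031232 0) (P.lf 0 343744 0)))) (P.cons (P.cons (P.lf 141002348 0 0) (P.cons (P.lf 14317864 0 0) (P.cons (P.lf 0 227880 0) P.nil))) (P.cons (P.cons (P.lf 35167390 0 0) (P.cons (P.lf 0 2349296 0) P.nil)) (P.cons (P.cons (P.lf 0 4763422 0) P.nil) P.nil)))))) 3040400)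
 EL.nil)
noncomputable def S198_256_512_586_35 : EL := (EL.cons 14 (TM.mk (P.cons (P.cons (P.lf 20216744 0 0) (P.cons (P.lf 0 80768764 0) (P.cons (P.lf 81956210 0 0) (P.cons (P.lf 0 2139446 0) (P.cons (P.lf 0 835550 0) (P.cons (P.lf 13624 0 0) P.nil)))))) (P.cons (P.cons (P.lf 0 100362458 0) (P.cons (P.lf 184929980 0 0) (P.cons (P.lf 28121120 0 0) (P.cons (P.lf 0 1969998 0) (P.cons (P.lf 0 321750 0) P.nil))))) (P.cons (P.cons (P.lf 78109472 0 0) (P.cons (P.lf 137671016 0 0) (P.cons (P.lf 0 11758326 0) (P.cons (P.lf 0 425858 0) P.nil)))) (P.cons (P.cons (P.lf 128973532 0 0) (P.cons (P.lf 0 23678986 0) (P.cons (P.lf 0 4816014 0) P.nil))) (P.cons (P.cons (P.lf 0 3867116 0) (P.cons (P.lf 0 22975762 0) P.nil)) (P.cons (P.cons (P.lf 0 24647918 0) P.nil) P.nil)))))) 23180458)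
 EL.nil)
noncomputable def S198_256_512_586_36 : EL := (EL.cons 14 (TM.mk (P.cons (P.lf 0 1915431984 0) (P.cons (P.lf 1854952000 0 0) (P.cons (P.lf 88810304 0 0) (P.cons (P.lf 0 26480960 0) (P.cons (P.lf 0 2238232 0) (P.cons (P.lf 347392 0 0) P.nil)))))) 58032)
 EL.nil)
noncomputable def S198_256_512_586_37 : EL := (EL.cons 14 (TM.mk (P.cons (P.cons (P.lf 0 92923898 0) (P.cons (P.lf 185622080 0 0) (P.cons (P.lf 0 2954420 0) (P.lf 0 984806 0)))) (P.cons (P.cons (P.lf 320641952 0 0) (P.cons (P.lf 0 144021522 0) (P.cons (P.lf 2292294 0 0) (P.lf 764098 0 0)))) (P.cons (P.cons (P.lf 0 112313364 0) (P.cons (P.lf 0 57665060 0) (P.cons (P.lf 917812 0 0) (P.lf 305936 0 0)))) (P.cons (P.cons (P.lf 0 146797382 0) (P.cons (P.lf 11707814 0 0) (P.cons (P.lf 0 186344 0) P.nil))) (P.cons (P.cons (P.lf 20737684 0 0) (P.cons (P.lf 4996602 0 0) P.nil)) (P.cons (P.cons (P.lf 11876362 0 0)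 P.nil) P.nil)))))) 4859476)
 EL.nil)
noncomputable def S198_256_512_586_38 : EL := (EL.cons 14 (TM.mk (P.cons (P.cons (P.lf 0 4508042 0) (P.cons (P.lf 18010272 0 0) (P.cons (P.lf 0 18275056 0) (P.cons (P.lf 477064 0 0) (P.cons (P.lf 186314 0 0) (P.cons (P.lf 0 3036 0) P.nil)))))) (P.cons (P.cons (P.lf 26745086 0 0) (P.cons (P.lf 0 58678324 0) (P.cons (P.lf 11427414 0 0) (P.cons (P.lf 0 22720 0) (P.cons (P.lf 0 108686 0) P.nil))))) (P.cons (P.cons (P.lf 0 38881024 0) (P.cons (P.lf 8400956 0 0) (P.cons (P.lf 9541882 0 0) (P.cons (P.lf 0 352570 0) P.nil)))) (P.cons (P.cons (P.lf 0 12991866 0) (P.cons (P.lf 37170380 0 0) (P.cons (P.lf 0 1427160 0) P.nil))) (P.cons (P.cons (P.lf 29825172 0 0) (P.cons (P.lf 884218 0 0) P.nil)) (P.cons (P.cons (P.lf 5780662 0 0) P.nil) P.nil)))))) 24411470)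
 EL.nil)
noncomputable def S198_256_512_586_39 : EL := (EL.cons 14 (TM.mk (P.cons (P.lf 427113808 0 0) (P.cons (P.lf 0 827255282 0) (P.cons (P.lf 360960458 0 0) (P.cons (P.lf 50165998 0 0) (P.cons (P.lf 0 9520466 0) (P.cons (P.lf 0 1669162 0) P.nil)))))) 354406)
 EL.nil)
noncomputable def S198_256_512_586_40 : EL := (EL.cons 14 (TM.mk (P.cons (P.cons (P.lf 20720694 0 0) (P.cons (P.lf 0 41391056 0) (P.cons (P.lf 658792 0 0) (P.lf 219596 0 0)))) (P.cons (P.cons (P.lf 0 91564984 0) (P.cons (P.lf 72198858 0 0) (P.cons (P.lf 0 1149140 0) (P.lf 0 383046 0)))) (P.cons (P.cons (P.lf 93324510 0 0) (P.cons (P.lf 0 16323098 0) (P.cons (P.lf 259804 0 0) (P.lf 86600 0 0)))) (P.cons (P.cons (P.lf 12081758 0 0) (P.cons (P.lf 0 17124400 0) (P.cons (P.lf 272556 0 0) P.nil))) (P.cons (P.cons (P.lf 0 38449794 0) (P.cons (P.lf 1213500 0 0) P.nil)) (P.cons (P.cons (P.lf 571148 0 0) P.nil)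 P.nil)))))) 7101294)
 EL.nil)
noncomputable def S198_256_512_586_41 : EL := (EL.cons 14 (TM.mk (P.cons (P.cons (P.lf 1005228 0 0) (P.cons (P.lf 0 4016032 0) (P.cons (P.lf 4075074 0 0) (P.cons (P.lf 0 106378 0) (P.cons (P.lf 0 41544 0) (P.cons (P.lf 676 0 0) P.nil)))))) (P.cons (P.cons (P.lf 0 6937258 0) (P.cons (P.lf 16973648 0 0) (P.cons (P.lf 0 6494552 0) (P.cons (P.lf 108086 0 0) (P.cons (P.lf 64468 0 0) P.nil))))) (P.cons (P.cons (P.lf 14398764 0 0) (P.cons (P.lf 0 14358366 0) (P.cons (P.lf 151044 0 0) (P.cons (P.lf 78642 0 0) P.nil)))) (P.cons (P.cons (P.lf 0 5208744 0) (P.cons (P.lf 0 7136506 0) (P.cons (P.lf 2553240 0 0) P.nil))) (P.cons (P.cons (P.lf 0 9939372 0) (P.cons (P.lf 8092638 0 0) P.nil)) (P.cons (P.cons (P.lf 5129976 0 0) P.nil) P.nil)))))) 16979074)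
 EL.nil)
noncomputable def S198_256_512_586_42 : EL := (EL.cons 14 (TM.mk (P.cons (P.lf 0 95240240 0) (P.cons (P.lf 276699060 0 0) (P.cons (P.lf 0 254714620 0) (P.cons (P.lf 56891654 0 0) (P.cons (P.lf 19126904 0 0) (P.cons (P.lf 0 2044974 0) P.nil)))))) 997622)
 EL.nil)
noncomputable def S198_256_512_586_43 : EL := (EL.cons 14 (TM.mk (P.cons (P.cons (P.lf 0 4620416 0) (P.cons (P.lf 9229610 0 0) (P.cons (P.lf 0 146900 0) (P.lf 0 48966 0)))) (P.cons (P.cons (P.lf 24892202 0 0) (P.cons (P.lf 0 25037492 0) (P.cons (P.lf 398504 0 0) (P.lf 132834 0 0)))) (P.cons (P.cons (P.lf 0 40368780 0) (P.cons (P.lf 18802850 0 0) (P.cons (P.lf 0 299272 0) (P.lf 0 99756 0)))) (P.cons (P.cons (P.lf 16448330 0 0) (P.cons (P.lf 1167660 0 0) (P.cons (P.lf 0 18584 0) P.nil))) (P.cons (P.cons (P.lf 12424492 0 0) (P.cons (P.lf 0 4349070 0) P.nil)) (P.cons (P.cons (P.lf 0 8568482 0) P.nil) P.nil))))))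 7143114)
 EL.nil)
noncomputable def S198_256_512_586_44 : EL := (EL.cons 14 (TM.mk (P.cons (P.cons (P.lf 0 224150 0) (P.cons (P.lf 895516 0 0) (P.cons (P.lf 0 908682 0) (P.cons (P.lf 23720 0 0) (P.cons (P.lf 9264 0 0) (P.cons (P.lf 0 150 0) P.nil)))))) (P.cons (P.cons (P.lf 1763982 0 0) (P.cons (P.lf 0 4652120 0) (P.cons (P.lf 2328182 0 0) (P.cons (P.lf 0 47072 0) (P.cons (P.lf 0 23346 0) P.nil))))) (P.cons (P.cons (P.lf 0 4698390 0) (P.cons (P.lf 6825560 0 0) (P.cons (P.lf 0 1394014 0) (P.cons (P.lf 4704 0 0) P.nil)))) (P.cons (P.cons (P.lf 4195990 0 0) (P.cons (P.lf 0 1321406 0) (P.cons (P.lf 0 616426 0) P.nil))) (P.cons (P.cons (P.lf 1261526 0 0) (P.cons (P.lf 0 3545362 0) P.nil)) (P.cons (P.cons (P.lf 0 3386658 0) P.nil) P.nil)))))) 11011214)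
 EL.nil)
noncomputable def S198_256_512_586_45 : EL := (EL.cons 14 (TM.mk (P.cons (P.cons (P.lf 980780 0 0) (P.cons (P.lf 0 5877536 0) (P.cons (P.lf 11834346 0 0) (P.cons (P.lf 0 8160248 0) (P.cons (P.lf 251680 0 0) (P.cons (P.lf 120470 0 0) P.nil)))))) (P.cons (P.cons (P.lf 0 7303368 0) (P.cons (P.lf 28046338 0 0) (P.cons (P.lf 0 25067824 0) (P.cons (P.lf 0 3880668 0) (P.cons (P.lf 470634 0 0) P.nil))))) (P.cons (P.cons (P.lf 14748090 0 0) (P.cons (P.lf 0 16633096 0) (P.cons (P.lf 0 25837204 0) (P.cons (P.lf 1875124 0 0) P.nil)))) (P.cons (P.cons (P.lf 2776232 0 0) (P.cons (P.lf 0 44038170 0) (P.cons (P.lf 2180192 0 0) P.nil))) (P.cons (P.cons (P.lf 0 21636040 0) (P.cons (P.lf 0 4846150 0) P.nil)) (P.cons (P.cons (P.lf 0 7057746 0) P.nil) P.nil)))))) 42740056)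
 EL.nil)
noncomputable def S198_256_512_586_46 : EL := (EL.cons 15 (TM.mk (P.lf 4294967296 0 0) 0)
 EL.nil)
noncomputable def S198_256_512_586_47 : EL := (EL.cons 15 (TM.mk (P.cons (P.cons (P.lf 208362976 0 0) (P.cons (P.lf 0 416219828 0) (P.cons (P.lf 6624688 0 0) (P.lf 2208228 0 0)))) (P.cons (P.cons (P.lf 0 517190584 0) (P.cons (P.lf 0 80138616 0) (P.cons (P.lf 1275508 0 0) (P.lf 425168 0 0)))) (P.cons (P.cons (P.lf 0 239359427 0) (P.cons (P.lf 32395644 0 0) (P.cons (P.lf 0 515616 0) (P.lf 0 171872 0)))) (P.cons (P.cons (P.lf 70501174 0 0) (P.cons (P.lf 7158932 0 0) (P.cons (P.lf 0 113940 0) P.nil))) (P.cons (P.cons (P.lf 17583695 0 0) (P.cons (P.lf 0 1174648 0) P.nil)) (P.cons (P.cons (P.lf 0 2381711 0) P.nil) P.nil)))))) 1520200)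
 EL.nil)
noncomputable def S198_256_512_586_48 : EL := (EL.cons 15 (TM.mk (P.cons (P.cons (P.lf 10108372 0 0) (P.cons (P.lf 0 40384382 0) (P.cons (P.lf 40978105 0 0) (P.cons (P.lf 0 1069723 0) (P.cons (P.lf 0 417775 0) (P.cons (P.lf 6812 0 0) P.nil)))))) (P.cons (P.cons (P.lf 0 50181229 0) (P.cons (P.lf 92464990 0 0) (P.cons (P.lf 14060560 0 0) (P.cons (P.lf 0 984999 0) (P.cons (P.lf 0 160875 0) P.nil))))) (P.cons (P.cons (P.lf 39054736 0 0) (P.cons (P.lf 68835508 0 0) (P.cons (P.lf 0 5879163 0) (P.cons (P.lf 0 212929 0) P.nil)))) (P.cons (P.cons (P.lf 64486766 0 0) (P.cons (P.lf 0 11839493 0) (P.cons (P.lf 0 2408007 0) P.nil))) (P.cons (P.cons (P.lf 0 1933558 0) (P.cons (P.lf 0 11487881 0) P.nil)) (P.cons (P.cons (P.lf 0 12323959 0) P.nil) P.nil)))))) 11590229)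
 EL.nil)
noncomputable def S198_256_512_586 : SL := (SL.cons S198_256_512_586_0 (SL.cons S198_256_512_586_1 (SL.cons S198_256_512_586_2 (SL.cons S198_256_512_586_3 (SL.cons S198_256_512_586_4 (SL.cons S198_256_512_586_5 (SL.cons S198_256_512_586_6 (SL.cons S198_256_512_586_7 (SL.cons S198_256_512_586_8 (SL.cons S198_256_512_586_9 (SL.cons S198_256_512_586_10 (SL.cons S198_256_512_586_11 (SL.cons S198_256_512_586_12 (SL.cons S198_256_512_586_13 (SL.cons S198_256_512_586_14 (SL.cons S198_256_512_586_15 (SL.cons S198_256_512_586_16 (SL.cons S198_256_512_586_17 (SL.cons S198_256_512_586_18 (SL.cons S198_256_512_586_19 (SL.cons S198_256_512_586_20 (SL.cons S198_256_512_586_21 (SL.cons S198_256_512_586_22 (SL.cons S198_256_512_586_23 (SL.cons S198_256_512_586_24 (SL.cons S198_256_512_586_25 (SL.cons S198_256_512_586_26 (SL.cons S198_256_512_586_27 (SL.cons S198_256_512_586_28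 (SL.cons S198_256_512_586_29 (SL.cons S198_256_512_586_30 (SL.cons S198_256_512_586_31 (SL.cons S198_256_512_586_32 (SL.cons S198_256_512_586_33 (SL.cons S198_256_512_586_34 (SL.cons S198_256_512_586_35 (SL.cons S198_256_512_586_36 (SL.cons S198_256_512_586_37 (SL.cons S198_256_512_586_38 (SL.cons S198_256_512_586_39 (SL.cons S198_256_512_586_40 (SL.cons S198_256_512_586_41 (SL.cons S198_256_512_586_42 (SL.cons S198_256_512_586_43 (SL.cons S198_256_512_586_44 (SL.cons S198_256_512_586_45 (SL.cons S198_256_512_586_46 (SL.cons S198_256_512_586_47 (SL.cons S198_256_512_586_48 SL.nil)))))))))))))))))))))))))))))))))))))))))))))))))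
noncomputable def S198_256_512_660_0 : EL := (EL.cons 0 (TM.mk (P.cons (P.lf 8080323868 0 0) (P.cons (P.lf 727079837 0 0) (P.cons (P.lf 0 317250402 0) (P.cons (P.lf 0 44091209 0) (P.cons (P.lf 8367597 0 0) (P.cons (P.lf 1467036 0 0) P.nil)))))) 311496)
 (EL.cons 1 (TM.mk (P.cons (P.lf 0 869508750 0) (P.cons (P.lf 786249082 0 0) (P.cons (P.lf 120498519 0 0) (P.cons (P.lf 0 33042157 0) (P.cons (P.lf 0 5010903 0) (P.cons (P.lf 683975 0 0) P.nil)))))) 177172)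
 (EL.cons 5 (TM.mk (P.cons (P.lf 4428440364 0 0) (P.cons (P.lf 0 258517274 0) (P.cons (P.lf 112800140 0 0) (P.cons (P.lf 15676876 0 0) (P.cons (P.lf 0 2975142 0) (P.cons (P.lf 0 521612 0) P.nil)))))) 117185)
 (EL.cons 9 (TM.mk (P.lf 6442450944 0 0) 2)
 EL.nil))))
noncomputable def S198_256_512_660_1 : EL := (EL.cons 0 (TM.mk (P.cons (P.cons (P.lf 436722125 0 0) (P.cons (P.lf 0 1283476995 0) (P.cons (P.lf 85810287 0 0) (P.lf 28603431 0 0)))) (P.cons (P.cons (P.lf 0 1347792761 0) (P.cons (P.lf 0 783887362 0) (P.cons (P.lf 52408870 0 0) (P.lf 17469617 0 0)))) (P.cons (P.cons (P.lf 0 1399183729 0) (P.cons (P.lf 230758656 0 0) (P.cons (P.lf 0 15427979 0) (P.lf 0 5142656 0)))) (P.cons (P.cons (P.lf 333016518 0 0) (P.cons (P.lf 141499017 0 0) (P.cons (P.lf 0 9460278 0) P.nil))) (P.cons (P.cons (P.lf 214966347 0 0) (P.cons (P.lf 0 12529349 0) P.nil)) (P.cons (P.cons (P.lf 0 18115099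 0) P.nil) P.nil)))))) 47349149)
 (EL.cons 1 (TM.mk (P.cons (P.cons (P.lf 917458503 0 0) (P.cons (P.lf 385244619 0 0) (P.cons (P.lf 0 25756551 0) (P.lf 0 8585514 0)))) (P.cons (P.cons (P.lf 909226508 0 0) (P.cons (P.lf 0 241234698 0) (P.cons (P.lf 16128389 0 0) (P.lf 5376128 0 0)))) (P.cons (P.cons (P.lf 0 365168934 0) (P.cons (P.lf 0 192497483 0) (P.cons (P.lf 12869921 0 0) (P.lf 4289968 0 0)))) (P.cons (P.cons (P.lf 0 325548016 0) (P.cons (P.lf 27458049 0 0) (P.cons (P.lf 0 1835775 0) P.nil))) (P.cons (P.cons (P.lf 41209465 0 0) (P.cons (P.lf 23379218 0 0) P.nil)) (P.cons (P.cons (P.lf 34091413 0 0) P.nil) P.nil)))))) 24491209)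
 (EL.cons 5 (TM.mk (P.cons (P.cons (P.lf 0 493619670 0) (P.cons (P.lf 0 891228220 0) (P.cons (P.lf 59585446 0 0) (P.lf 19861814 0 0)))) (P.cons (P.cons (P.lf 0 533353290 0) (P.cons (P.lf 19254426 0 0) (P.cons (P.lf 0 1287300 0) (P.lf 0 429100 0)))) (P.cons (P.cons (P.lf 144480381 0 0) (P.cons (P.lf 22838366 0 0) (P.cons (P.lf 0 1526926 0) (P.lf 0 508976 0)))) (P.cons (P.cons (P.lf 13358049 0 0) (P.cons (P.lf 0 27132616 0) (P.cons (P.lf 1814014 0 0) P.nil))) (P.cons (P.cons (P.lf 0 48494719 0) (P.cons (P.lf 651758 0 0) P.nil)) (P.cons (P.cons (P.lf 1841621 0 0) P.nil) P.nil)))))) 21542145)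
 (EL.cons 9 (TM.mk (P.cons (P.cons (P.lf 0 298535902 0) (P.cons (P.lf 0 1189037286 0) (P.cons (P.lf 79496262 0 0) (P.lf 26498754 0 0)))) (P.cons (P.cons (P.lf 0 893442780 0) (P.cons (P.lf 0 228936240 0) (P.cons (P.lf 15306138 0 0) (P.lf 5102046 0 0)))) (P.cons (P.cons (P.lf 0 311476906 0) (P.cons (P.lf 92546364 0 0) (P.cons (P.lf 0 6187428 0) (P.lf 0 2062476 0)))) (P.cons (P.cons (P.lf 116262273 0 0) (P.cons (P.lf 20451300 0 0) (P.cons (P.lf 0 1367322 0) P.nil))) (P.cons (P.cons (P.lf 24650956 0 0) (P.cons (P.lf 0 3355686 0) P.nil)) (P.cons (P.cons (P.lf 0 4058194 0) P.nil) P.nil)))))) 3853087)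
 (EL.cons 2 (TM.mk (P.cons (P.cons (P.lf 585780311 0 0) (P.cons (P.lf 0 90693500 0) (P.cons (P.lf 0 43693267 0) (P.cons (P.lf 1653480 0 0) (P.lf 413370 0 0))))) (P.cons (P.cons (P.lf 0 492093795 0) (P.cons (P.lf 76188476 0 0) (P.cons (P.lf 36705203 0 0) (P.cons (P.lf 0 1389031 0) (P.lf 0 347256 0))))) (P.cons (P.cons (P.lf 0 132784605 0) (P.cons (P.lf 20558390 0 0) (P.cons (P.lf 9904381 0 0) (P.cons (P.lf 0 374810 0) P.nil)))) (P.cons (P.cons (P.lf 31824826 0 0) (P.cons (P.lf 0 4927280 0) (P.cons (P.lf 0 2373806 0) P.nil))) (P.cons (P.cons (P.lf 8526200 0 0) (P.cons (P.lf 0 1320069 0) P.nil)) (P.cons (P.cons (P.lf 0 946833 0) P.nil) P.nil)))))) 1886083)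
 (EL.cons 6 (TM.mk (P.cons (P.cons (P.lf 1356821016 0 0) (P.cons (P.lf 0 210069966 0) (P.cons (P.lf 0 101205084 0) (P.cons (P.lf 3829896 0 0) (P.lf 957471 0 0))))) (P.cons (P.cons (P.lf 261241179 0 0) (P.cons (P.lf 0 40446693 0) (P.cons (P.lf 0 19485939 0) (P.cons (P.lf 737403 0 0) (P.lf 184350 0 0))))) (P.cons (P.cons (P.lf 0 105605481 0) (P.cons (P.lf 16350378 0 0) (P.cons (P.lf 7877094 0 0) (P.cons (P.lf 0 298092 0) P.nil)))) (P.cons (P.cons (P.lf 0 23337159 0) (P.cons (P.lf 3613176 0 0) (P.cons (P.lf 1740714 0 0) P.nil))) (P.cons (P.cons (P.lf 3829206 0 0) (P.cons (P.lf 0 592857 0) P.nil)) (P.cons (P.cons (P.lf 1078272 0 0) P.nil) P.nil)))))) 1212498)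
 EL.nil))))))
noncomputable def S198_256_512_660_2 : EL := (EL.cons 0 (TM.mk (P.cons (P.cons (P.lf 0 57825214 0) (P.cons (P.lf 0 180468521 0) (P.cons (P.lf 210586371 0 0) (P.cons (P.lf 0 22523362 0) (P.cons (P.lf 0 7961049 0) (P.cons (P.lf 591595 0 0) P.nil)))))) (P.cons (P.cons (P.lf 0 101633788 0) (P.cons (P.lf 442417844 0 0) (P.cons (P.lf 220234927 0 0) (P.cons (P.lf 0 43263623 0) (P.cons (P.lf 0 10017990 0) P.nil))))) (P.cons (P.cons (P.lf 260996884 0 0) (P.cons (P.lf 697675261 0 0) (P.cons (P.lf 0 79074700 0) (P.cons (P.lf 0 11211943 0) P.nil)))) (P.cons (P.cons (P.lf 395393521 0 0) (P.cons (P.lf 0 47578165 0) (P.cons (P.lf 0 69801763 0) P.nil))) (P.cons (P.cons (P.lf 1662904 0 0) (P.cons (P.lf 0 194935421 0) P.nil)) (P.cons (P.cons (P.lf 0 122450179 0) P.nil) P.nil)))))) 304824344)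
 (EL.cons 1 (TM.mk (P.cons (P.cons (P.lf 0 83160888 0) (P.cons (P.lf 0 359488326 0) (P.cons (P.lf 0 88550682 0) (P.cons (P.lf 23065888 0 0) (P.cons (P.lf 4514871 0 0) (P.cons (P.lf 0 335495 0) P.nil)))))) (P.cons (P.cons (P.lf 0 329245251 0) (P.cons (P.lf 0 451392991 0) (P.cons (P.lf 76468308 0 0) (P.cons (P.lf 3870104 0 0) (P.cons (P.lf 0 1856284 0) P.nil))))) (P.cons (P.cons (P.lf 0 296800251 0) (P.cons (P.lf 122061225 0 0) (P.cons (P.lf 73177523 0 0) (P.cons (P.lf 0 13596405 0) P.nil)))) (P.cons (P.cons (P.lf 66733865 0 0) (P.cons (P.lf 232886541 0 0) (P.cons (P.lf 0 15694927 0) P.nil))) (P.cons (P.cons (P.lf 147344129 0 0) (P.cons (P.lf 5656924 0 0) P.nil)) (P.cons (P.cons (P.lf 8931013 0 0) P.nil) P.nil)))))) 166157922)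
 (EL.cons 5 (TM.mk (P.cons (P.cons (P.lf 36238396 0 0) (P.cons (P.lf 189056844 0 0) (P.cons (P.lf 165487392 0 0) (P.cons (P.lf 0 28031647 0) (P.cons (P.lf 0 7143226 0) (P.cons (P.lf 530811 0 0) P.nil)))))) (P.cons (P.cons (P.lf 129979017 0 0) (P.cons (P.lf 240507263 0 0) (P.cons (P.lf 0 9128721 0) (P.cons (P.lf 0 6289385 0) (P.cons (P.lf 0 278754 0) P.nil))))) (P.cons (P.cons (P.lf 80340595 0 0) (P.cons (P.lf 0 55514443 0) (P.cons (P.lf 0 14253839 0) (P.cons (P.lf 3639431 0 0) P.nil)))) (P.cons (P.cons (P.lf 0 54885471 0) (P.cons (P.lf 0 37871509 0) (P.cons (P.lf 12471396 0 0) P.nil))) (P.cons (P.cons (P.lf 0 22659611 0) (P.cons (P.lf 33415000 0 0) P.nil)) (P.cons (P.cons (P.lf 23474307 0 0) P.nil) P.nil)))))) 141901009)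
 (EL.cons 9 (TM.mk (P.cons (P.cons (P.lf 13833816 0 0) (P.cons (P.lf 110197290 0 0) (P.cons (P.lf 212084608 0 0) (P.cons (P.lf 0 31799961 0) (P.cons (P.lf 0 8800432 0) (P.cons (P.lf 653959 0 0) P.nil)))))) (P.cons (P.cons (P.lf 82802259 0 0) (P.cons (P.lf 351010033 0 0) (P.cons (P.lf 61038549 0 0) (P.cons (P.lf 0 19122351 0) (P.cons (P.lf 0 3388854 0) P.nil))))) (P.cons (P.cons (P.lf 152770131 0 0) (P.cons (P.lf 169895176 0 0) (P.cons (P.lf 0 37384657 0) (P.cons (P.lf 0 306208 0) P.nil)))) (P.cons (P.cons (P.lf 75616665 0 0) (P.cons (P.lf 0 48342519 0) (P.cons (P.lf 0 10894411 0) P.nil))) (P.cons (P.cons (P.lf 0 19472077 0) (P.cons (P.lf 0 31672381 0) P.nil)) (P.cons (P.cons (P.lf 0 17703111 0) P.nil) P.nil)))))) 39603139)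
 (EL.cons 2 (TM.mk (P.cons (P.cons (P.lf 0 54288793 0) (P.cons (P.lf 0 207821328 0) (P.cons (P.lf 51983105 0 0) (P.cons (P.lf 18555654 0 0) (P.cons (P.lf 0 2473020 0) (P.cons (P.lf 0 471211 0) P.nil)))))) (P.cons (P.cons (P.lf 0 116866552 0) (P.cons (P.lf 158106279 0 0) (P.cons (P.lf 0 22321276 0) (P.cons (P.lf 0 12444378 0) (P.cons (P.lf 1494067 0 0) P.nil))))) (P.cons (P.cons (P.lf 92151753 0 0) (P.cons (P.lf 86550058 0 0) (P.cons (P.lf 0 29223078 0) (P.cons (P.lf 0 8463060 0) P.nil)))) (P.cons (P.cons (P.lf 102605231 0 0) (P.cons (P.lf 0 28614937 0) (P.cons (P.lf 0 4831492 0) P.nil))) (P.cons (P.cons (P.lf 0 10055671 0) (P.cons (P.lf 0 11401616 0) P.nil)) (P.cons (P.cons (P.lf 0 14650740 0) P.nil) P.nil)))))) 31327688)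
 (EL.cons 6 (TM.mk (P.cons (P.cons (P.lf 0 125747100 0) (P.cons (P.lf 0 481368768 0) (P.cons (P.lf 120406524 0 0) (P.cons (P.lf 42979770 0 0) (P.cons (P.lf 0 5728176 0) (P.cons (P.lf 0 1091448 0) P.nil)))))) (P.cons (P.cons (P.lf 0 400540668 0) (P.cons (P.lf 0 130847940 0) (P.cons (P.lf 72630378 0 0) (P.cons (P.lf 15556650 0 0) (P.cons (P.lf 0 2454276 0) P.nil))))) (P.cons (P.cons (P.lf 0 193868892 0) (P.cons (P.lf 89412462 0 0) (P.cons (P.lf 1293426 0 0) (P.cons (P.lf 0 5686500 0) P.nil)))) (P.cons (P.cons (P.lf 55164078 0 0) (P.cons (P.lf 23698914 0 0) (P.cons (P.lf 0 11261664 0) P.nil))) (P.cons (P.cons (P.lf 36141630 0 0) (P.cons (P.lf 0 8139408 0) P.nil)) (P.cons (P.cons (P.lf 0 2427156 0) P.nil) P.nil)))))) 24084210)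
 EL.nil))))))
noncomputable def S198_256_512_660_3 : EL := (EL.cons 0 (TM.mk (P.cons (P.lf 375392995 0 0) (P.cons (P.lf 0 727079837 0) (P.cons (P.lf 317250402 0 0) (P.cons (P.lf 44091209 0 0) (P.cons (P.lf 0 8367597 0) (P.cons (P.lf 0 1467036 0) P.nil)))))) 311496)
 (EL.cons 1 (TM.mk (P.cons (P.lf 869508750 0 0) (P.cons (P.lf 0 786249082 0) (P.cons (P.lf 0 120498519 0) (P.cons (P.lf 33042157 0 0) (P.cons (P.lf 5010903 0 0) (P.cons (P.lf 0 683975 0) P.nil)))))) 177172)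
 (EL.cons 5 (TM.mk (P.cons (P.lf 2014010580 0 0) (P.cons (P.lf 258517274 0 0) (P.cons (P.lf 0 112800140 0) (P.cons (P.lf 0 15676876 0) (P.cons (P.lf 2975142 0 0) (P.cons (P.lf 521612 0 0) P.nil)))))) 117178)
 EL.nil)))
noncomputable def S198_256_512_660_4 : EL := (EL.cons 0 (TM.mk (P.cons (P.cons (P.lf 0 17395286 0) (P.cons (P.lf 0 69283610 0) (P.cons (P.lf 4632140 0 0) (P.lf 1544046 0 0)))) (P.cons (P.cons (P.lf 0 18367655 0) (P.cons (P.lf 120852137 0 0) (P.cons (P.lf 0 8079892 0) (P.lf 0 2693297 0)))) (P.cons (P.cons (P.lf 67981478 0 0) (P.cons (P.lf 0 27322889 0) (P.cons (P.lf 1826745 0 0) (P.lf 608915 0 0)))) (P.cons (P.cons (P.lf 0 4112606 0) (P.cons (P.lf 0 28664172 0) (P.cons (P.lf 1916418 0 0) P.nil))) (P.cons (P.cons (P.lf 0 32749845 0) (P.cons (P.lf 2031252 0 0) P.nil)) (P.cons (P.cons (P.lf 1803375 0 0) P.nil) P.nil)))))) 9657811)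
 (EL.cons 1 (TM.mk (P.cons (P.cons (P.lf 0 40292051 0) (P.cons (P.lf 0 160479035 0) (P.cons (P.lf 10729252 0 0) (P.lf 3576416 0 0)))) (P.cons (P.cons (P.lf 0 84150075 0) (P.cons (P.lf 114213894 0 0) (P.cons (P.lf 0 7636074 0) (P.lf 0 2545357 0)))) (P.cons (P.cons (P.lf 72582592 0 0) (P.cons (P.lf 62669938 0 0) (P.cons (P.lf 0 4189963 0) (P.lf 0 1396653 0)))) (P.cons (P.cons (P.lf 68884305 0 0) (P.cons (P.lf 0 10350686 0) (P.cons (P.lf 692021 0 0) P.nil))) (P.cons (P.cons (P.lf 0 9850533 0) (P.cons (P.lf 0 6778786 0) P.nil)) (P.cons (P.cons (P.lf 0 7991443 0) P.nil) P.nil)))))) 6492527)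
 (EL.cons 5 (TM.mk (P.cons (P.cons (P.lf 0 93326974 0) (P.cons (P.lf 0 371711588 0) (P.cons (P.lf 24851768 0 0) (P.lf 8283922 0 0)))) (P.cons (P.cons (P.lf 0 291283536 0) (P.cons (P.lf 0 119281728 0) (P.cons (P.lf 7974894 0 0) (P.lf 2658298 0 0)))) (P.cons (P.cons (P.lf 0 127996826 0) (P.cons (P.lf 40563592 0 0) (P.cons (P.lf 0 2711984 0) (P.lf 0 903994 0)))) (P.cons (P.cons (P.lf 40216350 0 0) (P.cons (P.lf 17008804 0 0) (P.cons (P.lf 0 1137166 0) P.nil))) (P.cons (P.cons (P.lf 19861374 0 0) (P.cons (P.lf 0 1840784 0) P.nil)) (P.cons (P.cons (P.lf 0 1993930 0) P.nil) P.nil)))))) 4556744)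
 EL.nil)))
noncomputable def S198_256_512_660_5 : EL := (EL.cons 0 (TM.mk (P.cons (P.cons (P.lf 806076 0 0) (P.cons (P.lf 6421048 0 0) (P.cons (P.lf 12357885 0 0) (P.cons (P.lf 0 1852940 0) (P.cons (P.lf 0 512789 0) (P.cons (P.lf 38104 0 0) P.nil)))))) (P.cons (P.cons (P.lf 3263524 0 0) (P.cons (P.lf 8016277 0 0) (P.cons (P.lf 0 20378733 0) (P.cons (P.lf 2474634 0 0) (P.cons (P.lf 795731 0 0) P.nil))))) (P.cons (P.cons (P.lf 238071 0 0) (P.cons (P.lf 0 24288073 0) (P.cons (P.lf 1376818 0 0) (P.cons (P.lf 574310 0 0) P.nil)))) (P.cons (P.cons (P.lf 0 8663023 0) (P.cons (P.lf 0 3951599 0) (P.cons (P.lf 8041584 0 0) P.nil))) (P.cons (P.cons (P.lf 0 1596837 0) (P.cons (P.lf 14235725 0 0) P.nil)) (P.cons (P.cons (P.lf 5824524 0 0) P.nil) P.nil)))))) 31785622)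
 (EL.cons 1 (TM.mk (P.cons (P.cons (P.lf 1867085 0 0) (P.cons (P.lf 14872833 0 0) (P.cons (P.lf 28624108 0 0) (P.cons (P.lf 0 4291897 0) (P.cons (P.lf 0 1187752 0) (P.cons (P.lf 88260 0 0) P.nil)))))) (P.cons (P.cons (P.lf 9487141 0 0) (P.cons (P.lf 33925561 0 0) (P.cons (P.lf 0 17645111 0) (P.cons (P.lf 1300068 0 0) (P.cons (P.lf 616642 0 0) P.nil))))) (P.cons (P.cons (P.lf 10254607 0 0) (P.cons (P.lf 0 21969056 0) (P.cons (P.lf 0 16461695 0) (P.cons (P.lf 2887181 0 0) P.nil)))) (P.cons (P.cons (P.lf 0 9916485 0) (P.cons (P.lf 0 33258956 0) (P.cons (P.lf 3038212 0 0) P.nil))) (P.cons (P.cons (P.lf 0 14278410 0) (P.cons (P.lf 333420 0 0) P.nil)) (P.cons (P.cons (P.lf 0 580755 0) P.nil) P.nil)))))) 26864618)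
 (EL.cons 5 (TM.mk (P.cons (P.cons (P.lf 4324664 0 0) (P.cons (P.lf 34449390 0 0) (P.cons (P.lf 66300952 0 0) (P.cons (P.lf 0 9941162 0) (P.cons (P.lf 0 2751150 0) (P.cons (P.lf 204436 0 0) P.nil)))))) (P.cons (P.cons (P.lf 26440386 0 0) (P.cons (P.lf 114153110 0 0) (P.cons (P.lf 27591954 0 0) (P.cons (P.lf 0 7253986 0) (P.cons (P.lf 0 1412544 0) P.nil))))) (P.cons (P.cons (P.lf 50838728 0 0) (P.cons (P.lf 65267484 0 0) (P.cons (P.lf 0 12951086 0) (P.cons (P.lf 0 306268 0) P.nil)))) (P.cons (P.cons (P.lf 28285740 0 0) (P.cons (P.lf 0 14709158 0) (P.cons (P.lf 0 6490700 0) P.nil))) (P.cons (P.cons (P.lf 0 5922926 0) (P.cons (P.lf 0 15619050 0) P.nil)) (P.cons (P.cons (P.lf 0 7971978 0) P.nil) P.nil)))))) 23206422)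
 EL.nil)))
noncomputable def S198_256_512_660_6 : EL := (EL.cons 12 (TM.mk (P.lf 8589934592 0 0) 0)
 (EL.cons 3 (TM.mk (P.cons (P.lf 0 897858742 0) (P.cons (P.lf 869508750 0 0) (P.cons (P.lf 41629830 0 0) (P.cons (P.lf 0 12412950 0) (P.cons (P.lf 0 1049171 0) (P.cons (P.lf 162840 0 0) P.nil)))))) 27209)
 (EL.cons 7 (TM.mk (P.cons (P.lf 0 2079676607 0) (P.cons (P.lf 0 133473065 0) (P.cons (P.lf 62522105 0 0) (P.cons (P.lf 4081356 0 0) (P.cons (P.lf 0 858201 0) (P.cons (P.lf 0 91532 0) P.nil)))))) 18219)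
 EL.nil)))
noncomputable def S198_256_512_660_7 : EL := (EL.cons 12 (TM.mk (P.cons (P.cons (P.lf 0 398047870 0) (P.cons (P.lf 0 1585383048 0) (P.cons (P.lf 105995016 0 0) (P.lf 35331672 0 0)))) (P.cons (P.cons (P.lf 0 1191257040 0) (P.cons (P.lf 0 305248320 0) (P.cons (P.lf 20408184 0 0) (P.lf 6802728 0 0)))) (P.cons (P.cons (P.lf 0 415302542 0) (P.cons (P.lf 123395152 0 0) (P.cons (P.lf 0 8249904 0) (P.lf 0 2749968 0)))) (P.cons (P.cons (P.lf 155016364 0 0) (P.cons (P.lf 27268400 0 0) (P.cons (P.lf 0 1823096 0) P.nil))) (P.cons (P.cons (P.lf 32867942 0 0) (P.cons (P.lf 0 4474248 0) P.nil)) (P.cons (P.cons (P.lf 0 5410926 0) P.nil) P.nil)))))) 5137424)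
 (EL.cons 3 (TM.mk (P.cons (P.cons (P.lf 0 1898501828 0) (P.cons (P.lf 0 331422784 0) (P.cons (P.lf 22158152 0 0) (P.lf 7386050 0 0)))) (P.cons (P.cons (P.lf 0 1331774757 0) (P.cons (P.lf 257146208 0 0) (P.cons (P.lf 0 17192196 0) (P.lf 0 5730730 0)))) (P.cons (P.cons (P.lf 665808146 0 0) (P.cons (P.lf 102959276 0 0) (P.cons (P.lf 0 6883612 0) (P.lf 0 2294536 0)))) (P.cons (P.cons (P.lf 197425334 0 0) (P.cons (P.lf 0 20903962 0) (P.cons (P.lf 1397588 0 0) P.nil))) (P.cons (P.cons (P.lf 0 37414637 0) (P.cons (P.lf 0 8921286 0) P.nil)) (P.cons (P.cons (P.lf 0 13111172 0) P.nil) P.nil)))))) 15879966)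
 (EL.cons 7 (TM.mk (P.cons (P.cons (P.lf 394184131 0 0) (P.cons (P.lf 460143188 0 0) (P.cons (P.lf 0 30764107 0) (P.lf 0 10254702 0)))) (P.cons (P.cons (P.lf 204432747 0 0) (P.cons (P.lf 0 39472967 0) (P.cons (P.lf 2639067 0 0) (P.lf 879689 0 0)))) (P.cons (P.cons (P.lf 0 207753303 0) (P.cons (P.lf 4575321 0 0) (P.cons (P.lf 0 305892 0) (P.lf 0 101965 0)))) (P.cons (P.cons (P.lf 43457277 0 0) (P.cons (P.lf 13431330 0 0) (P.cons (P.lf 0 897983 0) P.nil))) (P.cons (P.cons (P.lf 25716366 0 0) (P.cons (P.lf 0 1328324 0) P.nil)) (P.cons (P.cons (P.lf 0 2827717 0) P.nil) P.nil)))))) 11494486)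
 (EL.cons 10 (TM.mk (P.cons (P.cons (P.lf 0 2802119268 0) (P.cons (P.lf 433838430 0 0) (P.cons (P.lf 209009673 0 0) (P.cons (P.lf 0 7909539 0) (P.lf 0 1977384 0))))) (P.cons (P.cons (P.lf 0 359678463 0) (P.cons (P.lf 55687257 0 0) (P.cons (P.lf 26828364 0 0) (P.cons (P.lf 0 1015263 0) (P.lf 0 253815 0))))) (P.cons (P.cons (P.lf 156940308 0 0) (P.cons (P.lf 0 24298299 0) (P.cons (P.lf 0 11706153 0) (P.cons (P.lf 442995 0 0) P.nil)))) (P.cons (P.cons (P.lf 21811440 0 0) (P.cons (P.lf 0 3376959 0) (P.cons (P.lf 0 1626912 0) P.nil))) (P.cons (P.cons (P.lf 0 4139352 0) (P.cons (P.lf 640875 0 0) P.nil)) (P.cons (P.cons (P.lf 0 725724 0) P.nil) P.nil)))))) 881241)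
 EL.nil))))
noncomputable def S198_256_512_660_8 : EL := (EL.cons 12 (TM.mk (P.cons (P.cons (P.lf 18445088 0 0) (P.cons (P.lf 146929720 0 0) (P.cons (P.lf 282779478 0 0) (P.cons (P.lf 0 42399948 0) (P.cons (P.lf 0 11733910 0) (P.cons (P.lf 871946 0 0) P.nil)))))) (P.cons (P.cons (P.lf 110403012 0 0) (P.cons (P.lf 468013378 0 0) (P.cons (P.lf 81384732 0 0) (P.cons (P.lf 0 25496468 0) (P.cons (P.lf 0 4518472 0) P.nil))))) (P.cons (P.cons (P.lf 203693508 0 0) (P.cons (P.lf 226526902 0 0) (P.cons (P.lf 0 49846210 0) (P.cons (P.lf 0 408278 0) P.nil)))) (P.cons (P.cons (P.lf 100822220 0 0) (P.cons (P.lf 0 64456692 0) (P.cons (P.lf 0 14525882 0) P.nil))) (P.cons (P.cons (P.lf 0 25962770 0) (P.cons (P.lf 0 42229842 0) P.nil)) (P.cons (P.cons (P.lf 0 23604148 0) P.nil) P.nil)))))) 52804156)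
 (EL.cons 3 (TM.mk (P.cons (P.cons (P.lf 177876821 0 0) (P.cons (P.lf 746859191 0 0) (P.cons (P.lf 102987587 0 0) (P.cons (P.lf 0 37092283 0) (P.cons (P.lf 0 6132406 0) (P.cons (P.lf 455695 0 0) P.nil)))))) (P.cons (P.cons (P.lf 659669244 0 0) (P.cons (P.lf 728659204 0 0) (P.cons (P.lf 0 137922309 0) (P.cons (P.lf 0 4310619 0) (P.cons (P.lf 3577315 0 0) P.nil))))) (P.cons (P.cons (P.lf 501279028 0 0) (P.cons (P.lf 0 278886569 0) (P.cons (P.lf 0 63607338 0) (P.cons (P.lf 17213719 0 0) P.nil)))) (P.cons (P.cons (P.lf 0 153300565 0) (P.cons (P.lf 0 265679477 0) (P.cons (P.lf 24865740 0 0) P.nil))) (P.cons (P.cons (P.lf 0 192011560 0) (P.cons (P.lf 17551486 0 0) P.nil)) (P.cons (P.cons (P.lf 8712998 0 0) P.nil) P.nil)))))) 181059689)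
 (EL.cons 7 (TM.mk (P.cons (P.cons (P.lf 0 32066420 0) (P.cons (P.lf 0 152575947 0) (P.cons (P.lf 0 88808850 0) (P.cons (P.lf 16639409 0 0) (P.cons (P.lf 3970466 0 0) (P.cons (P.lf 0 295043 0) P.nil)))))) (P.cons (P.cons (P.lf 0 101261859 0) (P.cons (P.lf 0 111852106 0) (P.cons (P.lf 21171621 0 0) (P.cons (P.lf 661703 0 0) (P.cons (P.lf 0 549129 0) P.nil))))) (P.cons (P.cons (P.lf 0 24666602 0) (P.cons (P.lf 100559692 0 0) (P.cons (P.lf 0 1166975 0) (P.cons (P.lf 0 2984009 0) P.nil)))) (P.cons (P.cons (P.lf 74817033 0 0) (P.cons (P.lf 9449107 0 0) (P.cons (P.lf 0 10185895 0) P.nil))) (P.cons (P.cons (P.lf 9794755 0 0) (P.cons (P.lf 0 32692749 0) P.nil)) (P.cons (P.cons (P.lf 0 24440781 0) P.nil) P.nil)))))) 82044964)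
 (EL.cons 10 (TM.mk (P.cons (P.cons (P.lf 259694082 0 0) (P.cons (P.lf 994127220 0 0) (P.cons (P.lf 0 248664666 0) (P.cons (P.lf 0 88762224 0) (P.cons (P.lf 11829882 0 0) (P.cons (P.lf 2254080 0 0) P.nil)))))) (P.cons (P.cons (P.lf 810533190 0 0) (P.cons (P.lf 206425566 0 0) (P.cons (P.lf 0 134037708 0) (P.cons (P.lf 0 26431008 0) (P.cons (P.lf 4309356 0 0) P.nil))))) (P.cons (P.cons (P.lf 356167320 0 0) (P.cons (P.lf 0 168016956 0) (P.cons (P.lf 0 1544400 0) (P.cons (P.lf 10771656 0 0) P.nil)))) (P.cons (P.cons (P.lf 0 111907068 0) (P.cons (P.lf 0 30003120 0) (P.cons (P.lf 18839184 0 0) P.nil))) (P.cons (P.cons (P.lf 0 55266780 0) (P.cons (P.lf 13678896 0 0) P.nil)) (P.cons (P.cons (P.lf 5548362 0 0) P.nil) P.nil)))))) 35218770)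
 EL.nil))))
noncomputable def S198_256_512_660_9 : EL := (EL.cons 3 (TM.mk (P.cons (P.lf 0 897858742 0) (P.cons (P.lf 869508750 0 0) (P.cons (P.lf 41629830 0 0) (P.cons (P.lf 0 12412950 0) (P.cons (P.lf 0 1049171 0) (P.cons (P.lf 162840 0 0) P.nil)))))) 27209)
 (EL.cons 7 (TM.mk (P.cons (P.lf 0 2079676607 0) (P.cons (P.lf 0 133473065 0) (P.cons (P.lf 62522105 0 0) (P.cons (P.lf 4081356 0 0) (P.cons (P.lf 0 858201 0) (P.cons (P.lf 0 91532 0) P.nil)))))) 18219)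
 EL.nil))
noncomputable def S198_256_512_660_10 : EL := (EL.cons 3 (TM.mk (P.cons (P.cons (P.lf 41605759 0 0) (P.cons (P.lf 165711392 0 0) (P.cons (P.lf 0 11079076 0) (P.lf 0 3693025 0)))) (P.cons (P.cons (P.lf 84223509 0 0) (P.cons (P.lf 0 128573104 0) (P.cons (P.lf 8596098 0 0) (P.lf 2865365 0 0)))) (P.cons (P.cons (P.lf 0 79103752 0) (P.cons (P.lf 0 51479638 0) (P.cons (P.lf 3441806 0 0) (P.lf 1147268 0 0)))) (P.cons (P.cons (P.lf 0 63439699 0) (P.cons (P.lf 10451981 0 0) (P.cons (P.lf 0 698794 0) P.nil))) (P.cons (P.cons (P.lf 12013243 0 0) (P.cons (P.lf 4460643 0 0) P.nil)) (P.cons (P.cons (P.lf 5381956 0 0) P.nil) P.nil)))))) 3843584)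
 (EL.cons 7 (TM.mk (P.cons (P.cons (P.lf 96369865 0 0) (P.cons (P.lf 383831099 0 0) (P.cons (P.lf 0 25662052 0) (P.lf 0 8554017 0)))) (P.cons (P.cons (P.lf 294595731 0 0) (P.cons (P.lf 98536690 0 0) (P.cons (P.lf 0 6587931 0) (P.lf 0 2195977 0)))) (P.cons (P.cons (P.lf 116160246 0 0) (P.cons (P.lf 0 36670950 0) (P.cons (P.lf 2451732 0 0) (P.lf 817244 0 0)))) (P.cons (P.cons (P.lf 0 39937053 0) (P.cons (P.lf 0 11494227 0) (P.cons (P.lf 768475 0 0) P.nil))) (P.cons (P.cons (P.lf 0 13915254 0) (P.cons (P.lf 1571032 0 0) P.nil)) (P.cons (P.cons (P.lf 1853531 0 0) P.nil) P.nil)))))) 2619792)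
 EL.nil))
noncomputable def S198_256_512_660_11 : EL := (EL.cons 3 (TM.mk (P.cons (P.cons (P.lf 0 1927963 0) (P.cons (P.lf 0 15357757 0) (P.cons (P.lf 0 29557387 0) (P.cons (P.lf 4431833 0 0) (P.cons (P.lf 1226480 0 0) (P.cons (P.lf 0 91139 0) P.nil)))))) (P.cons (P.cons (P.lf 0 9672732 0) (P.cons (P.lf 0 34046036 0) (P.cons (P.lf 20117409 0 0) (P.cons (P.lf 0 1626891 0) (P.cons (P.lf 0 715463 0) P.nil))))) (P.cons (P.cons (P.lf 0 10026122 0) (P.cons (P.lf 24408709 0 0) (P.cons (P.lf 14818698 0 0) (P.cons (P.lf 0 2743667 0) P.nil)))) (P.cons (P.cons (P.lf 10588703 0 0) (P.cons (P.lf 31723129 0 0) (P.cons (P.lf 0 3541542 0) P.nil))) (P.cons (P.cons (P.lf 13744766 0 0) (P.cons (P.lf 0 1706942 0) P.nil)) (P.cons (P.cons (P.lf 20288 0 0) P.nil) P.nil)))))) 22482823)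
 (EL.cons 7 (TM.mk (P.cons (P.cons (P.lf 0 4465670 0) (P.cons (P.lf 0 35572599 0) (P.cons (P.lf 0 68462670 0) (P.cons (P.lf 10265291 0 0) (P.cons (P.lf 2840852 0 0) (P.cons (P.lf 0 211103 0) P.nil)))))) (P.cons (P.cons (P.lf 0 27015861 0) (P.cons (P.lf 0 115591990 0) (P.cons (P.lf 0 24097665 0) (P.cons (P.lf 6831677 0 0) (P.cons (P.lf 1276275 0 0) P.nil))))) (P.cons (P.cons (P.lf 0 50896688 0) (P.cons (P.lf 0 61046276 0) (P.cons (P.lf 12861715 0 0) (P.cons (P.lf 186409 0 0) P.nil)))) (P.cons (P.cons (P.lf 0 26762403 0) (P.cons (P.lf 15561781 0 0) (P.cons (P.lf 5018051 0 0) P.nil))) (P.cons (P.cons (P.lf 6252343 0 0) (P.cons (P.lf 13082127 0 0) P.nil)) (P.cons (P.cons (P.lf 6937521 0 0) P.nil) P.nil)))))) 17808924)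
 EL.nil))
noncomputable def S198_256_512_660_12 : EL := (EL.cons 4 (TM.mk (P.cons (P.lf 897858742 0 0) (P.cons (P.lf 0 869508750 0) (P.cons (P.lf 0 41629830 0) (P.cons (P.lf 12412950 0 0) (P.cons (P.lf 1049171 0 0) (P.cons (P.lf 0 162840 0) P.nil)))))) 27209)
 (EL.cons 8 (TM.mk (P.cons (P.lf 2079676607 0 0) (P.cons (P.lf 133473065 0 0) (P.cons (P.lf 0 62522105 0) (P.cons (P.lf 0 4081356 0) (P.cons (P.lf 858201 0 0) (P.cons (P.lf 91532 0 0) P.nil)))))) 18219)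
 EL.nil))
noncomputable def S198_256_512_660_13 : EL := (EL.cons 4 (TM.mk (P.cons (P.cons (P.lf 0 41605759 0) (P.cons (P.lf 0 165711392 0) (P.cons (P.lf 11079076 0 0) (P.lf 3693025 0 0)))) (P.cons (P.cons (P.lf 0 84223509 0) (P.cons (P.lf 128573104 0 0) (P.cons (P.lf 0 8596098 0) (P.lf 0 2865365 0)))) (P.cons (P.cons (P.lf 79103752 0 0) (P.cons (P.lf 51479638 0 0) (P.cons (P.lf 0 3441806 0) (P.lf 0 1147268 0)))) (P.cons (P.cons (P.lf 63439699 0 0) (P.cons (P.lf 0 10451981 0) (P.cons (P.lf 698794 0 0) P.nil))) (P.cons (P.cons (P.lf 0 12013243 0) (P.cons (P.lf 0 4460643 0) P.nil)) (P.cons (P.cons (P.lf 0 5381956 0) P.nil) P.nil)))))) 3843584)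
 (EL.cons 8 (TM.mk (P.cons (P.cons (P.lf 0 96369865 0) (P.cons (P.lf 0 383831099 0) (P.cons (P.lf 25662052 0 0) (P.lf 8554017 0 0)))) (P.cons (P.cons (P.lf 0 294595731 0) (P.cons (P.lf 0 98536690 0) (P.cons (P.lf 6587931 0 0) (P.lf 2195977 0 0)))) (P.cons (P.cons (P.lf 0 116160246 0) (P.cons (P.lf 36670950 0 0) (P.cons (P.lf 0 2451732 0) (P.lf 0 817244 0)))) (P.cons (P.cons (P.lf 39937053 0 0) (P.cons (P.lf 11494227 0 0) (P.cons (P.lf 0 768475 0) P.nil))) (P.cons (P.cons (P.lf 13915254 0 0) (P.cons (P.lf 0 1571032 0) P.nil)) (P.cons (P.cons (P.lf 0 1853531 0) P.nil) P.nil)))))) 2619792)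
 EL.nil))
noncomputable def S198_256_512_660_14 : EL := (EL.cons 4 (TM.mk (P.cons (P.cons (P.lf 1927963 0 0) (P.cons (P.lf 15357757 0 0) (P.cons (P.lf 29557387 0 0) (P.cons (P.lf 0 4431833 0) (P.cons (P.lf 0 1226480 0) (P.cons (P.lf 91139 0 0) P.nil)))))) (P.cons (P.cons (P.lf 9672732 0 0) (P.cons (P.lf 34046036 0 0) (P.cons (P.lf 0 20117409 0) (P.cons (P.lf 1626891 0 0) (P.cons (P.lf 715463 0 0) P.nil))))) (P.cons (P.cons (P.lf 10026122 0 0) (P.cons (P.lf 0 24408709 0) (P.cons (P.lf 0 14818698 0) (P.cons (P.lf 2743667 0 0) P.nil)))) (P.cons (P.cons (P.lf 0 10588703 0) (P.cons (P.lf 0 31723129 0) (P.cons (P.lf 3541542 0 0) P.nil))) (P.cons (P.cons (P.lf 0 13744766 0) (P.cons (P.lf 1706942 0 0) P.nil)) (P.cons (P.cons (P.lf 0 20288 0) P.nil) P.nil)))))) 22482823)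
 (EL.cons 8 (TM.mk (P.cons (P.cons (P.lf 4465670 0 0) (P.cons (P.lf 35572599 0 0) (P.cons (P.lf 68462670 0 0) (P.cons (P.lf 0 10265291 0) (P.cons (P.lf 0 2840852 0) (P.cons (P.lf 211103 0 0) P.nil)))))) (P.cons (P.cons (P.lf 27015861 0 0) (P.cons (P.lf 115591990 0 0) (P.cons (P.lf 24097665 0 0) (P.cons (P.lf 0 6831677 0) (P.cons (P.lf 0 1276275 0) P.nil))))) (P.cons (P.cons (P.lf 50896688 0 0) (P.cons (P.lf 61046276 0 0) (P.cons (P.lf 0 12861715 0) (P.cons (P.lf 0 186409 0) P.nil)))) (P.cons (P.cons (P.lf 26762403 0 0) (P.cons (P.lf 0 15561781 0) (P.cons (P.lf 0 5018051 0) P.nil))) (P.cons (P.cons (P.lf 0 6252343 0) (P.cons (P.lf 0 13082127 0) P.nil)) (P.cons (P.cons (P.lf 0 6937521 0) P.nil) P.nil)))))) 17808924)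
 EL.nil))
noncomputable def S198_256_512_660_15 : EL := (EL.cons 4 (TM.mk (P.cons (P.lf 0 200209597 0) (P.cons (P.lf 387775913 0 0) (P.cons (P.lf 0 169200214 0) (P.cons (P.lf 0 23515311 0) (P.cons (P.lf 4462718 0 0) (P.cons (P.lf 782419 0 0) P.nil)))))) 166134)
 (EL.cons 8 (TM.mk (P.cons (P.lf 0 463738000 0) (P.cons (P.lf 419332844 0 0) (P.cons (P.lf 64265877 0 0) (P.cons (P.lf 0 17622484 0) (P.cons (P.lf 0 2672482 0) (P.cons (P.lf 364787 0 0) P.nil)))))) 94488)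
 EL.nil))
noncomputable def S198_256_512_660_16 : EL := (EL.cons 4 (TM.mk (P.cons (P.cons (P.lf 9277485 0 0) (P.cons (P.lf 36951258 0 0) (P.cons (P.lf 0 2470474 0) (P.lf 0 823491 0)))) (P.cons (P.cons (P.lf 9796082 0 0) (P.cons (P.lf 0 64454473 0) (P.cons (P.lf 4309275 0 0) (P.lf 1436425 0 0)))) (P.cons (P.cons (P.lf 0 36256788 0) (P.cons (P.lf 14572207 0 0) (P.cons (P.lf 0 974264 0) (P.lf 0 324754 0)))) (P.cons (P.cons (P.lf 2193390 0 0) (P.cons (P.lf 15287558 0 0) (P.cons (P.lf 0 1022089 0) P.nil))) (P.cons (P.cons (P.lf 17466584 0 0) (P.cons (P.lf 0 1083334 0) P.nil)) (P.cons (P.cons (P.lf 0 961800 0) P.nil) P.nil)))))) 5150841)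
 (EL.cons 8 (TM.mk (P.cons (P.cons (P.lf 21489094 0 0) (P.cons (P.lf 85588819 0 0) (P.cons (P.lf 0 5722268 0) (P.lf 0 1907422 0)))) (P.cons (P.cons (P.lf 44880040 0 0) (P.cons (P.lf 0 60914077 0) (P.cons (P.lf 4072573 0 0) (P.lf 1357524 0 0)))) (P.cons (P.cons (P.lf 0 38710716 0) (P.cons (P.lf 0 33423967 0) (P.cons (P.lf 2234647 0 0) (P.lf 744882 0 0)))) (P.cons (P.cons (P.lf 0 36738296 0) (P.cons (P.lf 5520366 0 0) (P.cons (P.lf 0 369078 0) P.nil))) (P.cons (P.cons (P.lf 5253618 0 0) (P.cons (P.lf 3615353 0 0) P.nil)) (P.cons (P.cons (P.lf 4262103 0 0) P.nil) P.nil)))))) 3462671)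
 EL.nil))
noncomputable def S198_256_512_660_17 : EL := (EL.cons 4 (TM.mk (P.cons (P.cons (P.lf 0 429907 0) (P.cons (P.lf 0 3424559 0) (P.cons (P.lf 0 6590872 0) (P.cons (P.lf 988234 0 0) (P.cons (P.lf 273487 0 0) (P.cons (P.lf 0 20322 0) P.nil)))))) (P.cons (P.cons (P.lf 0 1740546 0) (P.cons (P.lf 0 4275347 0) (P.cons (P.lf 10868657 0 0) (P.cons (P.lf 0 1319805 0) (P.cons (P.lf 0 424390 0) P.nil))))) (P.cons (P.cons (P.lf 0 126971 0) (P.cons (P.lf 12953639 0 0) (P.cons (P.lf 0 734303 0) (P.cons (P.lf 0 306299 0) P.nil)))) (P.cons (P.cons (P.lf 4620279 0 0) (P.cons (P.lf 2107519 0 0) (P.cons (P.lf 0 4288845 0) P.nil))) (P.cons (P.cons (P.lf 851646 0 0) (P.cons (P.lf 0 7592386 0) P.nil)) (P.cons (P.cons (P.lf 0 3106412 0) P.nil) P.nil)))))) 16952342)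
 (EL.cons 8 (TM.mk (P.cons (P.cons (P.lf 0 995779 0) (P.cons (P.lf 0 7932178 0) (P.cons (P.lf 0 15266191 0) (P.cons (P.lf 2289012 0 0) (P.cons (P.lf 633468 0 0) (P.cons (P.lf 0 47072 0) P.nil)))))) (P.cons (P.cons (P.lf 0 5059809 0) (P.cons (P.lf 0 18093633 0) (P.cons (P.lf 9410726 0 0) (P.cons (P.lf 0 693370 0) (P.cons (P.lf 0 328876 0) P.nil))))) (P.cons (P.cons (P.lf 0 5469124 0) (P.cons (P.lf 11716830 0 0) (P.cons (P.lf 8779571 0 0) (P.cons (P.lf 0 1539830 0) P.nil)))) (P.cons (P.cons (P.lf 5288792 0 0) (P.cons (P.lf 17738110 0 0) (P.cons (P.lf 0 1620380 0) P.nil))) (P.cons (P.cons (P.lf 7615152 0 0) (P.cons (P.lf 0 177824 0) P.nil)) (P.cons (P.cons (P.lf 309736 0 0) P.nil) P.nil)))))) 14327785)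
 EL.nil))
noncomputable def S198_256_512_660_18 : EL := (EL.cons 4 (TM.mk (P.cons (P.lf 44643862 0 0) (P.cons (P.lf 0 129702684 0) (P.cons (P.lf 119397478 0 0) (P.cons (P.lf 0 26667962 0) (P.cons (P.lf 0 8965736 0) (P.cons (P.lf 958581 0 0) P.nil)))))) 467642)
 (EL.cons 8 (TM.mk (P.cons (P.lf 103406910 0 0) (P.cons (P.lf 0 193647023 0) (P.cons (P.lf 71427862 0 0) (P.cons (P.lf 23572483 0 0) (P.cons (P.lf 0 3717003 0) (P.cons (P.lf 0 1166783 0) P.nil)))))) 289701)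
 EL.nil))
noncomputable def S198_256_512_660_19 : EL := (EL.cons 4 (TM.mk (P.cons (P.cons (P.lf 0 2068745 0) (P.cons (P.lf 0 8239599 0) (P.cons (P.lf 550879 0 0) (P.lf 183626 0 0)))) (P.cons (P.cons (P.lf 0 180960 0) (P.cons (P.lf 22351854 0 0) (P.cons (P.lf 0 1494392 0) (P.lf 0 498130 0)))) (P.cons (P.cons (P.lf 10296075 0 0) (P.cons (P.lf 0 16785968 0) (P.cons (P.lf 1122270 0 0) (P.lf 374089 0 0)))) (P.cons (P.cons (P.lf 0 8245880 0) (P.cons (P.lf 0 1042412 0) (P.cons (P.lf 69692 0 0) P.nil))) (P.cons (P.cons (P.lf 0 3828616 0) (P.cons (P.lf 3882569 0 0) P.nil)) (P.cons (P.cons (P.lf 4118557 0 0) P.nil) P.nil)))))) 4973299)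
 (EL.cons 8 (TM.mk (P.cons (P.cons (P.lf 0 4791759 0) (P.cons (P.lf 0 19085076 0) (P.cons (P.lf 1275983 0 0) (P.lf 425327 0 0)))) (P.cons (P.cons (P.lf 0 5367144 0) (P.cons (P.lf 32065426 0 0) (P.cons (P.lf 0 2143819 0) (P.lf 0 714606 0)))) (P.cons (P.cons (P.lf 18545719 0 0) (P.cons (P.lf 0 4816122 0) (P.cons (P.lf 321994 0 0) (P.lf 107331 0 0)))) (P.cons (P.cons (P.lf 230495 0 0) (P.cons (P.lf 0 9342330 0) (P.cons (P.lf 624606 0 0) P.nil))) (P.cons (P.cons (P.lf 0 9649106 0) (P.cons (P.lf 205839 0 0) P.nil)) (P.cons (P.cons (P.lf 0 87217 0) P.nil) P.nil)))))) 3730627)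
 EL.nil))
noncomputable def S198_256_512_660_20 : EL := (EL.cons 4 (TM.mk (P.cons (P.cons (P.lf 95863 0 0) (P.cons (P.lf 763626 0 0) (P.cons (P.lf 1469669 0 0) (P.cons (P.lf 0 220362 0) (P.cons (P.lf 0 60983 0) (P.cons (P.lf 4530 0 0) P.nil)))))) (P.cons (P.cons (P.lf 295279 0 0) (P.cons (P.lf 213825 0 0) (P.cons (P.lf 0 3846819 0) (P.cons (P.lf 507701 0 0) (P.cons (P.lf 153690 0 0) P.nil))))) (P.cons (P.cons (P.lf 0 351993 0) (P.cons (P.lf 0 3847120 0) (P.cons (P.lf 2442627 0 0) (P.cons (P.lf 0 206487 0) P.nil)))) (P.cons (P.cons (P.lf 0 1074344 0) (P.cons (P.lf 2293679 0 0) (P.cons (P.lf 930469 0 0) P.nil))) (P.cons (P.cons (P.lf 811984 0 0) (P.cons (P.lf 2296099 0 0) P.nil)) (P.cons (P.cons (P.lf 925189 0 0) P.nil) P.nil)))))) 11281517)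
 (EL.cons 8 (TM.mk (P.cons (P.cons (P.lf 222044 0 0) (P.cons (P.lf 1768761 0 0) (P.cons (P.lf 3404141 0 0) (P.cons (P.lf 0 510416 0) (P.cons (P.lf 0 141254 0) (P.cons (P.lf 10496 0 0) P.nil)))))) (P.cons (P.cons (P.lf 913231 0 0) (P.cons (P.lf 2321707 0 0) (P.cons (P.lf 0 5395111 0) (P.cons (P.lf 648912 0 0) (P.cons (P.lf 210129 0 0) P.nil))))) (P.cons (P.cons (P.lf 116600 0 0) (P.cons (P.lf 0 6601921 0) (P.cons (P.lf 0 83355 0) (P.cons (P.lf 217295 0 0) P.nil)))) (P.cons (P.cons (P.lf 0 2409596 0) (P.cons (P.lf 0 1587768 0) (P.cons (P.lf 2401583 0 0) P.nil))) (P.cons (P.cons (P.lf 0 596668 0) (P.cons (P.lf 4049090 0 0) P.nil)) (P.cons (P.cons (P.lf 1648204 0 0) P.nil) P.nil)))))) 10516451)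
 EL.nil))
noncomputable def S198_256_512_660_21 : EL := (EL.cons 4 (TM.mk (P.cons (P.cons (P.lf 1940107587 0 0) (P.cons (P.lf 497134176 0 0) (P.cons (P.lf 0 33237228 0) (P.lf 0 11079075 0)))) (P.cons (P.cons (P.lf 1415998266 0 0) (P.cons (P.lf 0 385719312 0) (P.cons (P.lf 25788294 0 0) (P.lf 8596095 0 0)))) (P.cons (P.cons (P.lf 0 744911898 0) (P.cons (P.lf 0 154438914 0) (P.cons (P.lf 10325418 0 0) (P.lf 3441804 0 0)))) (P.cons (P.cons (P.lf 0 260865033 0) (P.cons (P.lf 31355943 0 0) (P.cons (P.lf 0 2096382 0) P.nil))) (P.cons (P.cons (P.lf 49427880 0 0) (P.cons (P.lf 13381929 0 0) P.nil)) (P.cons (P.cons (P.lf 18493128 0 0) P.nil) P.nil)))))) 12036363)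
 (EL.cons 8 (TM.mk (P.cons (P.cons (P.lf 0 297814266 0) (P.cons (P.lf 0 76312089 0) (P.cons (P.lf 5102055 0 0) (P.lf 1700685 0 0)))) (P.cons (P.cons (P.lf 90162984 0 0) (P.cons (P.lf 138009657 0 0) (P.cons (P.lf 0 9226998 0) (P.lf 0 3075666 0)))) (P.cons (P.cons (P.lf 323913549 0 0) (P.cons (P.lf 0 41246271 0) (P.cons (P.lf 2757624 0 0) (P.lf 919209 0 0)))) (P.cons (P.cons (P.lf 0 83394330 0) (P.cons (P.lf 0 24925557 0) (P.cons (P.lf 1666458 0 0) P.nil))) (P.cons (P.cons (P.lf 0 39631620 0) (P.cons (P.lf 2899356 0 0) P.nil)) (P.cons (P.cons (P.lf 4681248 0 0) P.nil) P.nil)))))) 8874675)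
 (EL.cons 11 (TM.mk (P.cons (P.cons (P.lf 2802119268 0 0) (P.cons (P.lf 0 433838430 0) (P.cons (P.lf 0 209009673 0) (P.cons (P.lf 7909539 0 0) (P.lf 1977384 0 0))))) (P.cons (P.cons (P.lf 359678463 0 0) (P.cons (P.lf 0 55687257 0) (P.cons (P.lf 0 26828364 0) (P.cons (P.lf 1015263 0 0) (P.lf 253815 0 0))))) (P.cons (P.cons (P.lf 0 156940308 0) (P.cons (P.lf 24298299 0 0) (P.cons (P.lf 11706153 0 0) (P.cons (P.lf 0 442995 0) P.nil)))) (P.cons (P.cons (P.lf 0 21811440 0) (P.cons (P.lf 3376959 0 0) (P.cons (P.lf 1626912 0 0) P.nil))) (P.cons (P.cons (P.lf 4139352 0 0) (P.cons (P.lf 0 640875 0) P.nil)) (P.cons (P.cons (P.lf 725724 0 0) P.nil) P.nil)))))) 881241)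
 EL.nil)))
noncomputable def S198_256_512_660_22 : EL := (EL.cons 4 (TM.mk (P.cons (P.cons (P.lf 0 89902392 0) (P.cons (P.lf 0 381108474 0) (P.cons (P.lf 0 66272487 0) (P.cons (P.lf 20762058 0 0) (P.cons (P.lf 3679443 0 0) (P.cons (P.lf 0 273417 0) P.nil)))))) (P.cons (P.cons (P.lf 0 334670988 0) (P.cons (P.lf 0 381352620 0) (P.cons (P.lf 79019859 0 0) (P.cons (P.lf 1341864 0 0) (P.cons (P.lf 0 2146389 0) P.nil))))) (P.cons (P.cons (P.lf 0 255652575 0) (P.cons (P.lf 151647639 0 0) (P.cons (P.lf 39213018 0 0) (P.cons (P.lf 0 9978693 0) P.nil)))) (P.cons (P.cons (P.lf 81944634 0 0) (P.cons (P.lf 148701303 0 0) (P.cons (P.lf 0 14203641 0) P.nil))) (P.cons (P.cons (P.lf 102878163 0 0) (P.cons (P.lf 0 9629214 0) P.nil)) (P.cons (P.cons (P.lf 0 4346355 0) P.nil) P.nil)))))) 79288422)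
 (EL.cons 8 (TM.mk (P.cons (P.cons (P.lf 13800375 0 0) (P.cons (P.lf 58501674 0 0) (P.cons (P.lf 10173090 0 0) (P.cons (P.lf 0 3187059 0) (P.cons (P.lf 0 564807 0) (P.cons (P.lf 41970 0 0) P.nil)))))) (P.cons (P.cons (P.lf 37122999 0 0) (P.cons (P.lf 0 1869942 0) (P.cons (P.lf 0 22634643 0) (P.cons (P.lf 3084987 0 0) (P.cons (P.lf 912702 0 0) P.nil))))) (P.cons (P.cons (P.lf 0 13115043 0) (P.cons (P.lf 0 80802984 0) (P.cons (P.lf 7014345 0 0) (P.cons (P.lf 1585209 0 0) P.nil)))) (P.cons (P.cons (P.lf 0 50789718 0) (P.cons (P.lf 3056337 0 0) (P.cons (P.lf 7601973 0 0) P.nil))) (P.cons (P.cons (P.lf 0 1771206 0) (P.cons (P.lf 22887438 0 0) P.nil)) (P.cons (P.cons (P.lf 15689151 0 0) P.nil) P.nil)))))) 32118009)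
 (EL.cons 11 (TM.mk (P.cons (P.cons (P.lf 0 129847041 0) (P.cons (P.lf 0 497063610 0) (P.cons (P.lf 124332333 0 0) (P.cons (P.lf 44381112 0 0) (P.cons (P.lf 0 5914941 0) (P.cons (P.lf 0 1127040 0) P.nil)))))) (P.cons (P.cons (P.lf 0 405266595 0) (P.cons (P.lf 0 103212783 0) (P.cons (P.lf 67018854 0 0) (P.cons (P.lf 13215504 0 0) (P.cons (P.lf 0 2154678 0) P.nil))))) (P.cons (P.cons (P.lf 0 178083660 0) (P.cons (P.lf 84008478 0 0) (P.cons (P.lf 772200 0 0) (P.cons (P.lf 0 5385828 0) P.nil)))) (P.cons (P.cons (P.lf 55953534 0 0) (P.cons (P.lf 15001560 0 0) (P.cons (P.lf 0 9419592 0) P.nil))) (P.cons (P.cons (P.lf 27633390 0 0) (P.cons (P.lf 0 6839448 0) P.nil)) (P.cons (P.cons (P.lf 0 2774181 0) P.nil) P.nil)))))) 17609385)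
 EL.nil)))
noncomputable def S198_256_512_660_23 : EL := (EL.cons 4 (TM.mk (P.cons (P.cons (P.lf 0 432616113 0) (P.cons (P.lf 0 110853777 0) (P.cons (P.lf 7411422 0 0) (P.lf 2470473 0 0)))) (P.cons (P.cons (P.lf 103208943 0 0) (P.cons (P.lf 193363419 0 0) (P.cons (P.lf 0 12927825 0) (P.lf 0 4309272 0)))) (P.cons (P.cons (P.lf 491940699 0 0) (P.cons (P.lf 0 43716621 0) (P.cons (P.lf 2922792 0 0) (P.lf 974262 0 0)))) (P.cons (P.cons (P.lf 0 94031829 0) (P.cons (P.lf 0 45862674 0) (P.cons (P.lf 3066267 0 0) P.nil))) (P.cons (P.cons (P.lf 0 79926465 0) (P.cons (P.lf 3250005 0 0) P.nil)) (P.cons (P.cons (P.lf 5858850 0 0) P.nil) P.nil)))))) 17404899)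
 (EL.cons 8 (TM.mk (P.cons (P.cons (P.lf 66408300 0 0) (P.cons (P.lf 17016498 0 0) (P.cons (P.lf 0 1137684 0) (P.lf 0 379227 0)))) (P.cons (P.cons (P.lf 0 84416502 0) (P.cons (P.lf 0 47253369 0) (P.cons (P.lf 3159249 0 0) (P.lf 1053081 0 0)))) (P.cons (P.cons (P.lf 0 55836900 0) (P.cons (P.lf 38210814 0 0) (P.cons (P.lf 0 2554683 0) (P.lf 0 851559 0)))) (P.cons (P.cons (P.lf 90393477 0 0) (P.cons (P.lf 0 1686756 0) (P.cons (P.lf 112773 0 0) P.nil))) (P.cons (P.cons (P.lf 0 6022743 0) (P.cons (P.lf 0 6861069 0) P.nil)) (P.cons (P.cons (P.lf 0 11498391 0) P.nil) P.nil)))))) 7931871)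
 (EL.cons 11 (TM.mk (P.cons (P.cons (P.lf 0 624832332 0) (P.cons (P.lf 96739734 0 0) (P.cons (P.lf 46606152 0 0) (P.cons (P.lf 0 1763712 0) (P.lf 0 440928 0))))) (P.cons (P.cons (P.lf 524900049 0 0) (P.cons (P.lf 0 81267708 0) (P.cons (P.lf 0 39152217 0) (P.cons (P.lf 1481634 0 0) (P.lf 370407 0 0))))) (P.cons (P.cons (P.lf 141636912 0 0) (P.cons (P.lf 0 21928950 0) (P.cons (P.lf 0 10564674 0) (P.cons (P.lf 399798 0 0) P.nil)))) (P.cons (P.cons (P.lf 0 33946482 0) (P.cons (P.lf 5255766 0 0) (P.cons (P.lf 2532060 0 0) P.nil))) (P.cons (P.cons (P.lf 0 9094614 0) (P.cons (P.lf 1408074 0 0) P.nil)) (P.cons (P.cons (P.lf 1009956 0 0) P.nil) P.nil)))))) 2011800)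
 EL.nil)))
noncomputable def S198_256_512_660_24 : EL := (EL.cons 4 (TM.mk (P.cons (P.cons (P.lf 20046939 0 0) (P.cons (P.lf 84981711 0 0) (P.cons (P.lf 14777811 0 0) (P.cons (P.lf 0 4629639 0) (P.cons (P.lf 0 820461 0) (P.cons (P.lf 60966 0 0) P.nil)))))) (P.cons (P.cons (P.lf 55212861 0 0) (P.cons (P.lf 2737746 0 0) (P.cons (P.lf 0 31931493 0) (P.cons (P.lf 4184241 0 0) (P.cons (P.lf 1273170 0 0) P.nil))))) (P.cons (P.cons (P.lf 0 16193109 0) (P.cons (P.lf 0 120106605 0) (P.cons (P.lf 7634805 0 0) (P.cons (P.lf 2729529 0 0) P.nil)))) (P.cons (P.cons (P.lf 0 76662300 0) (P.cons (P.lf 0 3178611 0) (P.cons (P.lf 12656337 0 0) P.nil))) (P.cons (P.cons (P.lf 0 6832845 0) (P.cons (P.lf 37101252 0 0) P.nil)) (P.cons (P.cons (P.lf 24904086 0 0) P.nil) P.nil)))))) 58949235)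
 (EL.cons 8 (TM.mk (P.cons (P.cons (P.lf 0 3077283 0) (P.cons (P.lf 0 13045032 0) (P.cons (P.lf 0 2268453 0) (P.cons (P.lf 710667 0 0) (P.cons (P.lf 125943 0 0) (P.cons (P.lf 0 9357 0) P.nil)))))) (P.cons (P.cons (P.lf 0 5297775 0) (P.cons (P.lf 13050102 0 0) (P.cons (P.lf 7244025 0 0) (P.cons (P.lf 0 1376136 0) (P.cons (P.lf 0 325485 0) P.nil))))) (P.cons (P.cons (P.lf 11083665 0 0) (P.cons (P.lf 18218940 0 0) (P.cons (P.lf 0 6346752 0) (P.cons (P.lf 279756 0 0) P.nil)))) (P.cons (P.cons (P.lf 8834517 0 0) (P.cons (P.lf 0 18330186 0) (P.cons (P.lf 0 445797 0) P.nil))) (P.cons (P.cons (P.lf 0 10826454 0) (P.cons (P.lf 0 5288460 0) P.nil)) (P.cons (P.cons (P.lf 0 4374729 0) P.nil) P.nil)))))) 21781602)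
 (EL.cons 11 (TM.mk (P.cons (P.cons (P.lf 28954023 0 0) (P.cons (P.lf 110838042 0 0) (P.cons (P.lf 0 27724323 0) (P.cons (P.lf 0 9896349 0) (P.cons (P.lf 1318944 0 0) (P.cons (P.lf 251313 0 0) P.nil)))))) (P.cons (P.cons (P.lf 62328828 0 0) (P.cons (P.lf 0 84323349 0) (P.cons (P.lf 11904681 0 0) (P.cons (P.lf 6637002 0 0) (P.cons (P.lf 0 796836 0) P.nil))))) (P.cons (P.cons (P.lf 0 49147602 0) (P.cons (P.lf 0 46160031 0) (P.cons (P.lf 15585642 0 0) (P.cons (P.lf 4513632 0 0) P.nil)))) (P.cons (P.cons (P.lf 0 54722790 0) (P.cons (P.lf 15261300 0 0) (P.cons (P.lf 2576796 0 0) P.nil))) (P.cons (P.cons (P.lf 5363025 0 0) (P.cons (P.lf 6080862 0 0) P.nil)) (P.cons (P.cons (P.lf 7813728 0 0) P.nil) P.nil)))))) 16708089)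
 EL.nil)))
noncomputable def S198_256_512_660_25 : EL := (EL.cons 4 (TM.mk (P.cons (P.cons (P.lf 96467175 0 0) (P.cons (P.lf 24718797 0 0) (P.cons (P.lf 0 1652640 0) (P.lf 0 550878 0)))) (P.cons (P.cons (P.lf 0 116435325 0) (P.cons (P.lf 0 67055562 0) (P.cons (P.lf 4483176 0 0) (P.lf 1494390 0 0)))) (P.cons (P.cons (P.lf 0 91881033 0) (P.cons (P.lf 50357904 0 0) (P.cons (P.lf 0 3366810 0) (P.lf 0 1122270 0)))) (P.cons (P.cons (P.lf 129600528 0 0) (P.cons (P.lf 3127236 0 0) (P.cons (P.lf 0 209076 0) P.nil))) (P.cons (P.cons (P.lf 2397432 0 0) (P.cons (P.lf 0 11647707 0) P.nil)) (P.cons (P.cons (P.lf 0 21099267 0) P.nil) P.nil)))))) 18043257)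
 (EL.cons 8 (TM.mk (P.cons (P.cons (P.lf 0 14808096 0) (P.cons (P.lf 0 3794433 0) (P.cons (P.lf 253686 0 0) (P.lf 84561 0 0)))) (P.cons (P.cons (P.lf 33164196 0 0) (P.cons (P.lf 14211447 0 0) (P.cons (P.lf 0 950142 0) (P.lf 0 316713 0)))) (P.cons (P.cons (P.lf 0 5091891 0) (P.cons (P.lf 0 18548652 0) (P.cons (P.lf 1240119 0 0) (P.lf 413373 0 0)))) (P.cons (P.cons (P.lf 0 33291630 0) (P.cons (P.lf 8086545 0 0) (P.cons (P.lf 0 540645 0) P.nil))) (P.cons (P.cons (P.lf 20528631 0 0) (P.cons (P.lf 1701966 0 0) P.nil)) (P.cons (P.cons (P.lf 2394777 0 0) P.nil) P.nil)))))) 8328633)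
 (EL.cons 11 (TM.mk (P.cons (P.cons (P.lf 139328631 0 0) (P.cons (P.lf 0 21571569 0) (P.cons (P.lf 0 10392501 0) (P.cons (P.lf 393282 0 0) (P.lf 98319 0 0))))) (P.cons (P.cons (P.lf 0 251974482 0) (P.cons (P.lf 39011976 0 0) (P.cons (P.lf 18794739 0 0) (P.cons (P.lf 0 711246 0) (P.lf 0 177810 0))))) (P.cons (P.cons (P.lf 75306390 0 0) (P.cons (P.lf 0 11659320 0) (P.cons (P.lf 0 5617092 0) (P.cons (P.lf 212565 0 0) P.nil)))) (P.cons (P.cons (P.lf 45508440 0 0) (P.cons (P.lf 0 7045848 0) (P.cons (P.lf 0 3394467 0) P.nil))) (P.cons (P.cons (P.lf 0 5293578 0) (P.cons (P.lf 819576 0 0) P.nil)) (P.cons (P.cons (P.lf 0 3138783 0) P.nil) P.nil)))))) 3252183)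
 EL.nil)))
noncomputable def S198_256_512_660_26 : EL := (EL.cons 4 (TM.mk (P.cons (P.cons (P.lf 0 4470177 0) (P.cons (P.lf 0 18949698 0) (P.cons (P.lf 0 3295239 0) (P.cons (P.lf 1032342 0 0) (P.cons (P.lf 182949 0 0) (P.cons (P.lf 0 13593 0) P.nil)))))) (P.cons (P.cons (P.lf 0 7982640 0) (P.cons (P.lf 17740881 0 0) (P.cons (P.lf 10311456 0 0) (P.cons (P.lf 0 1932771 0) (P.cons (P.lf 0 461073 0) P.nil))))) (P.cons (P.cons (P.lf 15741024 0 0) (P.cons (P.lf 28251864 0 0) (P.cons (P.lf 0 8445105 0) (P.cons (P.lf 247053 0 0) P.nil)))) (P.cons (P.cons (P.lf 14106810 0 0) (P.cons (P.lf 0 25461291 0) (P.cons (P.lf 0 1549176 0) P.nil))) (P.cons (P.cons (P.lf 0 15374052 0) (P.cons (P.lf 0 10231800 0) P.nil)) (P.cons (P.cons (P.lf 0 7785030 0) P.nil) P.nil)))))) 33396195)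
 (EL.cons 8 (TM.mk (P.cons (P.cons (P.lf 686190 0 0) (P.cons (P.lf 2908854 0 0) (P.cons (P.lf 505830 0 0) (P.cons (P.lf 0 158466 0) (P.cons (P.lf 0 28083 0) (P.cons (P.lf 2085 0 0) P.nil)))))) (P.cons (P.cons (P.lf 516801 0 0) (P.cons (P.lf 0 5726991 0) (P.cons (P.lf 0 2105172 0) (P.cons (P.lf 460323 0 0) (P.cons (P.lf 99774 0 0) P.nil))))) (P.cons (P.cons (P.lf 0 3647340 0) (P.cons (P.lf 0 1379328 0) (P.cons (P.lf 2956092 0 0) (P.cons (P.lf 0 352203 0) P.nil)))) (P.cons (P.cons (P.lf 378201 0 0) (P.cons (P.lf 8196792 0 0) (P.cons (P.lf 0 1189254 0) P.nil))) (P.cons (P.cons (P.lf 4453638 0 0) (P.cons (P.lf 0 2627526 0) P.nil)) (P.cons (P.cons (P.lf 0 1303986 0) P.nil) P.nil)))))) 12002997)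
 (EL.cons 11 (TM.mk (P.cons (P.cons (P.lf 0 6456330 0) (P.cons (P.lf 0 24715290 0) (P.cons (P.lf 6182124 0 0) (P.cons (P.lf 2206743 0 0) (P.cons (P.lf 0 294105 0) (P.cons (P.lf 0 56037 0) P.nil)))))) (P.cons (P.cons (P.lf 0 7645959 0) (P.cons (P.lf 42737796 0 0) (P.cons (P.lf 0 8641497 0) (P.cons (P.lf 0 3617022 0) (P.cons (P.lf 462501 0 0) P.nil))))) (P.cons (P.cons (P.lf 24718149 0 0) (P.cons (P.lf 0 6770226 0) (P.cons (P.lf 0 1191258 0) (P.cons (P.lf 324432 0 0) P.nil)))) (P.cons (P.cons (P.lf 2144376 0 0) (P.cons (P.lf 0 14584569 0) (P.cons (P.lf 2999598 0 0) P.nil))) (P.cons (P.cons (P.lf 0 13720803 0) (P.cons (P.lf 1693479 0 0) P.nil)) (P.cons (P.cons (P.lf 0 1013559 0) P.nil) P.nil)))))) 12340233)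
 EL.nil)))
noncomputable def S198_256_512_660_27 : EL := (EL.cons 13 (TM.mk (P.lf 0 4294967296 0) 0)
 EL.nil)
noncomputable def S198_256_512_660_28 : EL := (EL.cons 13 (TM.mk (P.cons (P.cons (P.lf 199023935 0 0) (P.cons (P.lf 792691524 0 0) (P.cons (P.lf 0 52997508 0) (P.lf 0 17665836 0)))) (P.cons (P.cons (P.lf 595628520 0 0) (P.cons (P.lf 152624160 0 0) (P.cons (P.lf 0 10204092 0) (P.lf 0 3401364 0)))) (P.cons (P.cons (P.lf 207651271 0 0) (P.cons (P.lf 0 61697576 0) (P.cons (P.lf 4124952 0 0) (P.lf 1374984 0 0)))) (P.cons (P.cons (P.lf 0 77508182 0) (P.cons (P.lf 0 13634200 0) (P.cons (P.lf 911548 0 0) P.nil))) (P.cons (P.cons (P.lf 0 16433971 0) (P.cons (P.lf 2237124 0 0) P.nil)) (P.cons (P.cons (P.lf 2705463 0 0) P.nil) P.nil)))))) 2568712)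
 EL.nil)
noncomputable def S198_256_512_660_29 : EL := (EL.cons 13 (TM.mk (P.cons (P.cons (P.lf 0 9222544 0) (P.cons (P.lf 0 73464860 0) (P.cons (P.lf 0 141389739 0) (P.cons (P.lf 21199974 0 0) (P.cons (P.lf 5866955 0 0) (P.cons (P.lf 0 435973 0) P.nil)))))) (P.cons (P.cons (P.lf 0 55201506 0) (P.cons (P.lf 0 234006689 0) (P.cons (P.lf 0 40692366 0) (P.cons (P.lf 12748234 0 0) (P.cons (P.lf 2259236 0 0) P.nil))))) (P.cons (P.cons (P.lf 0 101846754 0) (P.cons (P.lf 0 113263451 0) (P.cons (P.lf 24923105 0 0) (P.cons (P.lf 204139 0 0) P.nil)))) (P.cons (P.cons (P.lf 0 50411110 0) (P.cons (P.lf 32228346 0 0) (P.cons (P.lf 7262941 0 0) P.nil))) (P.cons (P.cons (P.lf 12981385 0 0) (P.cons (P.lf 21114921 0 0) P.nil)) (P.cons (P.cons (P.lf 11802074 0 0) P.nil) P.nil)))))) 26402078)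
 EL.nil)
noncomputable def S198_256_512_660_30 : EL := (EL.cons 13 (TM.mk (P.cons (P.lf 957715992 0 0) (P.cons (P.lf 0 927476000 0) (P.cons (P.lf 0 44405152 0) (P.cons (P.lf 13240480 0 0) (P.cons (P.lf 1119116 0 0) (P.cons (P.lf 0 173696 0) P.nil)))))) 29016)
 EL.nil)
noncomputable def S198_256_512_660_31 : EL := (EL.cons 13 (TM.mk (P.cons (P.cons (P.lf 0 44379477 0) (P.cons (P.lf 0 176758819 0) (P.cons (P.lf 11817682 0 0) (P.lf 3939227 0 0)))) (P.cons (P.cons (P.lf 0 89838410 0) (P.cons (P.lf 137144645 0 0) (P.cons (P.lf 0 9169172 0) (P.lf 0 3056390 0)))) (P.cons (P.cons (P.lf 84377336 0 0) (P.cons (P.lf 54911614 0 0) (P.cons (P.lf 0 3671260 0) (P.lf 0 1223753 0)))) (P.cons (P.cons (P.lf 67669013 0 0) (P.cons (P.lf 0 11148780 0) (P.cons (P.lf 745381 0 0) P.nil))) (P.cons (P.cons (P.lf 0 12814126 0) (P.cons (P.lf 0 4758020 0) P.nil)) (P.cons (P.cons (P.lf 0 5740754 0)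 P.nil) P.nil)))))) 4099803)
 EL.nil)
noncomputable def S198_256_512_660_32 : EL := (EL.cons 13 (TM.mk (P.cons (P.cons (P.lf 2056494 0 0) (P.cons (P.lf 16381608 0 0) (P.cons (P.lf 31527880 0 0) (P.cons (P.lf 0 4727289 0) (P.cons (P.lf 0 1308246 0) (P.cons (P.lf 97215 0 0) P.nil)))))) (P.cons (P.cons (P.lf 10317581 0 0) (P.cons (P.lf 36315772 0 0) (P.cons (P.lf 0 21458570 0) (P.cons (P.lf 1735351 0 0) (P.cons (P.lf 763161 0 0) P.nil))))) (P.cons (P.cons (P.lf 10694531 0 0) (P.cons (P.lf 0 26035957 0) (P.cons (P.lf 0 15806612 0) (P.cons (P.lf 2926579 0 0) P.nil)))) (P.cons (P.cons (P.lf 0 11294617 0) (P.cons (P.lf 0 33838005 0) (P.cons (P.lf 3777645 0 0) P.nil))) (P.cons (P.cons (P.lf 0 14661084 0) (P.cons (P.lf 1820739 0 0) P.nil)) (P.cons (P.cons (P.lf 0 21641 0) P.nil) P.nil)))))) 23981655)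
 EL.nil)
noncomputable def S198_256_512_660_33 : EL := (EL.cons 14 (TM.mk (P.lf 8589934592 0 0) 0)
 EL.nil)
noncomputable def S198_256_512_660_34 : EL := (EL.cons 14 (TM.mk (P.cons (P.cons (P.lf 0 398047870 0) (P.cons (P.lf 0 1585383048 0) (P.cons (P.lf 105995016 0 0) (P.lf 35331672 0 0)))) (P.cons (P.cons (P.lf 0 1191257040 0) (P.cons (P.lf 0 305248320 0) (P.cons (P.lf 20408184 0 0) (P.lf 6802728 0 0)))) (P.cons (P.cons (P.lf 0 415302542 0) (P.cons (P.lf 123395152 0 0) (P.cons (P.lf 0 8249904 0) (P.lf 0 2749968 0)))) (P.cons (P.cons (P.lf 155016364 0 0) (P.cons (P.lf 27268400 0 0) (P.cons (P.lf 0 1823096 0) P.nil))) (P.cons (P.cons (P.lf 32867942 0 0) (P.cons (P.lf 0 4474248 0) P.nil)) (P.cons (P.cons (P.lf 0 5410926 0) P.nil) P.nil)))))) 5137424)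
 EL.nil)
noncomputable def S198_256_512_660_35 : EL := (EL.cons 14 (TM.mk (P.cons (P.cons (P.lf 18445088 0 0) (P.cons (P.lf 146929720 0 0) (P.cons (P.lf 282779478 0 0) (P.cons (P.lf 0 42399948 0) (P.cons (P.lf 0 11733910 0) (P.cons (P.lf 871946 0 0) P.nil)))))) (P.cons (P.cons (P.lf 110403012 0 0) (P.cons (P.lf 468013378 0 0) (P.cons (P.lf 81384732 0 0) (P.cons (P.lf 0 25496468 0) (P.cons (P.lf 0 4518472 0) P.nil))))) (P.cons (P.cons (P.lf 203693508 0 0) (P.cons (P.lf 226526902 0 0) (P.cons (P.lf 0 49846210 0) (P.cons (P.lf 0 408278 0) P.nil)))) (P.cons (P.cons (P.lf 100822220 0 0) (P.cons (P.lf 0 64456692 0) (P.cons (P.lf 0 14525882 0) P.nil))) (P.cons (P.cons (P.lf 0 25962770 0) (P.cons (P.lf 0 42229842 0) P.nil)) (P.cons (P.cons (P.lf 0 23604148 0) P.nil) P.nil)))))) 52804156)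
 EL.nil)
noncomputable def S198_256_512_660_36 : EL := (EL.cons 14 (TM.mk (P.cons (P.lf 0 1915431984 0) (P.cons (P.lf 1854952000 0 0) (P.cons (P.lf 88810304 0 0) (P.cons (P.lf 0 26480960 0) (P.cons (P.lf 0 2238232 0) (P.cons (P.lf 347392 0 0) P.nil)))))) 58032)
 EL.nil)
noncomputable def S198_256_512_660_37 : EL := (EL.cons 14 (TM.mk (P.cons (P.cons (P.lf 88758954 0 0) (P.cons (P.lf 353517638 0 0) (P.cons (P.lf 0 23635364 0) (P.lf 0 7878454 0)))) (P.cons (P.cons (P.lf 179676820 0 0) (P.cons (P.lf 0 274289290 0) (P.cons (P.lf 18338344 0 0) (P.lf 6112780 0 0)))) (P.cons (P.cons (P.lf 0 168754672 0) (P.cons (P.lf 0 109823228 0) (P.cons (P.lf 7342520 0 0) (P.lf 2447506 0 0)))) (P.cons (P.cons (P.lf 0 135338026 0) (P.cons (P.lf 22297560 0 0) (P.cons (P.lf 0 1490762 0) P.nil))) (P.cons (P.cons (P.lf 25628252 0 0) (P.cons (P.lf 9516040 0 0) P.nil)) (P.cons (P.cons (P.lf 11481508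 0 0) P.nil) P.nil)))))) 8199606)
 EL.nil)
noncomputable def S198_256_512_660_38 : EL := (EL.cons 14 (TM.mk (P.cons (P.cons (P.lf 0 4112988 0) (P.cons (P.lf 0 32763216 0) (P.cons (P.lf 0 63055760 0) (P.cons (P.lf 9454578 0 0) (P.cons (P.lf 2616492 0 0) (P.cons (P.lf 0 194430 0) P.nil)))))) (P.cons (P.cons (P.lf 0 20635162 0) (P.cons (P.lf 0 72631544 0) (P.cons (P.lf 42917140 0 0) (P.cons (P.lf 0 3470702 0) (P.cons (P.lf 0 1526322 0) P.nil))))) (P.cons (P.cons (P.lf 0 21389062 0) (P.cons (P.lf 52071914 0 0) (P.cons (P.lf 31613224 0 0) (P.cons (P.lf 0 5853158 0) P.nil)))) (P.cons (P.cons (P.lf 22589234 0 0) (P.cons (P.lf 67676010 0 0) (P.cons (P.lf 0 7555290 0) P.nil))) (P.cons (P.cons (P.lf 29322168 0 0) (P.cons (P.lf 0 3641478 0) P.nil)) (P.cons (P.cons (P.lf 43282 0 0) P.nil) P.nil)))))) 47963310)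
 EL.nil)
noncomputable def S198_256_512_660_39 : EL := (EL.cons 14 (TM.mk (P.cons (P.lf 427113808 0 0) (P.cons (P.lf 0 827255282 0) (P.cons (P.lf 360960458 0 0) (P.cons (P.lf 50165998 0 0) (P.cons (P.lf 0 9520466 0) (P.cons (P.lf 0 1669162 0) P.nil)))))) 354406)
 EL.nil)
noncomputable def S198_256_512_660_40 : EL := (EL.cons 14 (TM.mk (P.cons (P.cons (P.lf 0 19791970 0) (P.cons (P.lf 0 78829352 0) (P.cons (P.lf 5270346 0 0) (P.lf 1756782 0 0)))) (P.cons (P.cons (P.lf 0 20898310 0) (P.cons (P.lf 137502876 0 0) (P.cons (P.lf 0 9193122 0) (P.lf 0 3064374 0)))) (P.cons (P.cons (P.lf 77347816 0 0) (P.cons (P.lf 0 31087376 0) (P.cons (P.lf 2078430 0 0) (P.lf 692810 0 0)))) (P.cons (P.cons (P.lf 0 4679232 0) (P.cons (P.lf 0 32613458 0) (P.cons (P.lf 2180458 0 0) P.nil))) (P.cons (P.cons (P.lf 0 37262046 0) (P.cons (P.lf 2311114 0 0) P.nil)) (P.cons (P.cons (P.lf 2051840 0 0)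 P.nil) P.nil)))))) 10988422)
 EL.nil)
noncomputable def S198_256_512_660_41 : EL := (EL.cons 14 (TM.mk (P.cons (P.cons (P.lf 917136 0 0) (P.cons (P.lf 7305726 0 0) (P.cons (P.lf 14060528 0 0) (P.cons (P.lf 0 2108234 0) (P.cons (P.lf 0 583440 0) (P.cons (P.lf 43354 0 0) P.nil)))))) (P.cons (P.cons (P.lf 3713166 0 0) (P.cons (P.lf 9120742 0 0) (P.cons (P.lf 0 23186470 0) (P.cons (P.lf 2815584 0 0) (P.cons (P.lf 905366 0 0) P.nil))))) (P.cons (P.cons (P.lf 270872 0 0) (P.cons (P.lf 0 27634430 0) (P.cons (P.lf 1566514 0 0) (P.cons (P.lf 653438 0 0) P.nil)))) (P.cons (P.cons (P.lf 0 9856596 0) (P.cons (P.lf 0 4496042 0) (P.cons (P.lf 9149536 0 0) P.nil))) (P.cons (P.cons (P.lf 0 1816846 0) (P.cons (P.lf 16197092 0 0) P.nil)) (P.cons (P.cons (P.lf 6627014 0 0) P.nil) P.nil)))))) 36164950)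
 EL.nil)
noncomputable def S198_256_512_660_42 : EL := (EL.cons 14 (TM.mk (P.cons (P.lf 0 95240240 0) (P.cons (P.lf 276699060 0 0) (P.cons (P.lf 0 254714620 0) (P.cons (P.lf 56891654 0 0) (P.cons (P.lf 19126904 0 0) (P.cons (P.lf 0 2044974 0) P.nil)))))) 997622)
 EL.nil)
noncomputable def S198_256_512_660_43 : EL := (EL.cons 14 (TM.mk (P.cons (P.cons (P.lf 4413324 0 0) (P.cons (P.lf 17577812 0 0) (P.cons (P.lf 0 1175210 0) (P.lf 0 391736 0)))) (P.cons (P.cons (P.lf 386048 0 0) (P.cons (P.lf 0 47683956 0) (P.cons (P.lf 3188038 0 0) (P.lf 1062678 0 0)))) (P.cons (P.cons (P.lf 0 21964960 0) (P.cons (P.lf 35810066 0 0) (P.cons (P.lf 0 2394176 0) (P.lf 0 798058 0)))) (P.cons (P.cons (P.lf 17591212 0 0) (P.cons (P.lf 2223814 0 0) (P.cons (P.lf 0 148678 0) P.nil))) (P.cons (P.cons (P.lf 8167716 0 0) (P.cons (P.lf 0 8282814 0) P.nil)) (P.cons (P.cons (P.lf 0 8786256 0) P.nil)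 P.nil)))))) 10609664)
 EL.nil)
noncomputable def S198_256_512_660_44 : EL := (EL.cons 14 (TM.mk (P.cons (P.cons (P.lf 0 204508 0) (P.cons (P.lf 0 1629070 0) (P.cons (P.lf 0 3135294 0) (P.cons (P.lf 470106 0 0) (P.cons (P.lf 130098 0 0) (P.cons (P.lf 0 9666 0) P.nil)))))) (P.cons (P.cons (P.lf 0 629930 0) (P.cons (P.lf 0 456160 0) (P.cons (P.lf 8206548 0 0) (P.cons (P.lf 0 1083096 0) (P.cons (P.lf 0 327874 0) P.nil))))) (P.cons (P.cons (P.lf 750920 0 0) (P.cons (P.lf 8207190 0 0) (P.cons (P.lf 0 5210938 0) (P.cons (P.lf 440506 0 0) P.nil)))) (P.cons (P.cons (P.lf 2291934 0 0) (P.cons (P.lf 0 4893182 0) (P.cons (P.lf 0 1985002 0) P.nil))) (P.cons (P.cons (P.lf 0 1732234 0) (P.cons (P.lf 0 4898346 0) P.nil)) (P.cons (P.cons (P.lf 0 1973738 0) P.nil) P.nil)))))) 24067190)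
 EL.nil)
noncomputable def S198_256_512_660_45 : EL := (EL.cons 14 (TM.mk (P.cons (P.cons (P.lf 0 854724 0) (P.cons (P.lf 0 10212834 0) (P.cons (P.lf 0 39993850 0) (P.cons (P.lf 0 48336930 0) (P.cons (P.lf 12462876 0 0) (P.cons (P.lf 2765160 0 0) P.nil)))))) (P.cons (P.cons (P.lf 0 7673926 0) (P.cons (P.lf 0 63095262 0) (P.cons (P.lf 0 133180290 0) (P.cons (P.lf 0 11414990 0) (P.cons (P.lf 11766498 0 0) P.nil))))) (P.cons (P.cons (P.lf 0 25641454 0) (P.cons (P.lf 0 123757588 0) (P.cons (P.lf 0 76219244 0) (P.cons (P.lf 20659946 0 0) P.nil)))) (P.cons (P.cons (P.lf 0 37925172 0) (P.cons (P.lf 0 72605712 0) (P.cons (P.lf 21408282 0 0) P.nil))) (P.cons (P.cons (P.lf 0 20564144 0) (P.cons (P.lf 13427772 0 0) P.nil)) (P.cons (P.cons (P.lf 3906540 0 0) P.nil) P.nil)))))) 127275966)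
 EL.nil)
noncomputable def S198_256_512_660_46 : EL := (EL.cons 15 (TM.mk (P.lf 4294967296 0 0) 0)
 EL.nil)
noncomputable def S198_256_512_660_47 : EL := (EL.cons 15 (TM.mk (P.cons (P.cons (P.lf 0 199023935 0) (P.cons (P.lf 0 792691524 0) (P.cons (P.lf 52997508 0 0) (P.lf 17665836 0 0)))) (P.cons (P.cons (P.lf 0 595628520 0) (P.cons (P.lf 0 152624160 0) (P.cons (P.lf 10204092 0 0) (P.lf 3401364 0 0)))) (P.cons (P.cons (P.lf 0 207651271 0) (P.cons (P.lf 61697576 0 0) (P.cons (P.lf 0 4124952 0) (P.lf 0 1374984 0)))) (P.cons (P.cons (P.lf 77508182 0 0) (P.cons (P.lf 13634200 0 0) (P.cons (P.lf 0 911548 0) P.nil))) (P.cons (P.cons (P.lf 16433971 0 0) (P.cons (P.lf 0 2237124 0) P.nil)) (P.cons (P.cons (P.lf 0 2705463 0) P.nil) P.nil)))))) 2568712)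
 EL.nil)
noncomputable def S198_256_512_660_48 : EL := (EL.cons 15 (TM.mk (P.cons (P.cons (P.lf 9222544 0 0) (P.cons (P.lf 73464860 0 0) (P.cons (P.lf 141389739 0 0) (P.cons (P.lf 0 21199974 0) (P.cons (P.lf 0 5866955 0) (P.cons (P.lf 435973 0 0) P.nil)))))) (P.cons (P.cons (P.lf 55201506 0 0) (P.cons (P.lf 234006689 0 0) (P.cons (P.lf 40692366 0 0) (P.cons (P.lf 0 12748234 0) (P.cons (P.lf 0 2259236 0) P.nil))))) (P.cons (P.cons (P.lf 101846754 0 0) (P.cons (P.lf 113263451 0 0) (P.cons (P.lf 0 24923105 0) (P.cons (P.lf 0 204139 0) P.nil)))) (P.cons (P.cons (P.lf 50411110 0 0) (P.cons (P.lf 0 32228346 0) (P.cons (P.lf 0 7262941 0) P.nil))) (P.cons (P.cons (P.lf 0 12981385 0) (P.cons (P.lf 0 21114921 0) P.nil)) (P.cons (P.cons (P.lf 0 11802074 0) P.nil) P.nil)))))) 26402078)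
 EL.nil)
noncomputable def S198_256_512_660 : SL := (SL.cons S198_256_512_660_0 (SL.cons S198_256_512_660_1 (SL.cons S198_256_512_660_2 (SL.cons S198_256_512_660_3 (SL.cons S198_256_512_660_4 (SL.cons S198_256_512_660_5 (SL.cons S198_256_512_660_6 (SL.cons S198_256_512_660_7 (SL.cons S198_256_512_660_8 (SL.cons S198_256_512_660_9 (SL.cons S198_256_512_660_10 (SL.cons S198_256_512_660_11 (SL.cons S198_256_512_660_12 (SL.cons S198_256_512_660_13 (SL.cons S198_256_512_660_14 (SL.cons S198_256_512_660_15 (SL.cons S198_256_512_660_16 (SL.cons S198_256_512_660_17 (SL.cons S198_256_512_660_18 (SL.cons S198_256_512_660_19 (SL.cons S198_256_512_660_20 (SL.cons S198_256_512_660_21 (SL.cons S198_256_512_660_22 (SL.cons S198_256_512_660_23 (SL.cons S198_256_512_660_24 (SL.cons S198_256_512_660_25 (SL.cons S198_256_512_660_26 (SL.cons S198_256_512_660_27 (SL.cons S198_256_512_660_28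 (SL.cons S198_256_512_660_29 (SL.cons S198_256_512_660_30 (SL.cons S198_256_512_660_31 (SL.cons S198_256_512_660_32 (SL.cons S198_256_512_660_33 (SL.cons S198_256_512_660_34 (SL.cons S198_256_512_660_35 (SL.cons S198_256_512_660_36 (SL.cons S198_256_512_660_37 (SL.cons S198_256_512_660_38 (SL.cons S198_256_512_660_39 (SL.cons S198_256_512_660_40 (SL.cons S198_256_512_660_41 (SL.cons S198_256_512_660_42 (SL.cons S198_256_512_660_43 (SL.cons S198_256_512_660_44 (SL.cons S198_256_512_660_45 (SL.cons S198_256_512_660_46 (SL.cons S198_256_512_660_47 (SL.cons S198_256_512_660_48 SL.nil)))))))))))))))))))))))))))))))))))))))))))))))))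
noncomputable def S198_256_586_660_0 : EL := (EL.cons 0 (TM.mk (P.cons (P.lf 8080323868 0 0) (P.cons (P.lf 727079837 0 0) (P.cons (P.lf 0 317250402 0) (P.cons (P.lf 0 44091209 0) (P.cons (P.lf 8367597 0 0) (P.cons (P.lf 1467036 0 0) P.nil)))))) 311496)
 (EL.cons 1 (TM.mk (P.cons (P.lf 0 869508750 0) (P.cons (P.lf 786249082 0 0) (P.cons (P.lf 120498519 0 0) (P.cons (P.lf 0 33042157 0) (P.cons (P.lf 0 5010903 0) (P.cons (P.lf 683975 0 0) P.nil)))))) 177172)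
 (EL.cons 5 (TM.mk (P.cons (P.lf 4428440364 0 0) (P.cons (P.lf 0 258517274 0) (P.cons (P.lf 112800140 0 0) (P.cons (P.lf 15676876 0 0) (P.cons (P.lf 0 2975142 0) (P.cons (P.lf 0 521612 0) P.nil)))))) 117185)
 (EL.cons 9 (TM.mk (P.lf 6442450944 0 0) 2)
 EL.nil))))
noncomputable def S198_256_586_660_1 : EL := (EL.cons 0 (TM.mk (P.cons (P.cons (P.lf 0 179988375 0) (P.cons (P.lf 0 588107069 0) (P.cons (P.lf 32178860 0 0) (P.lf 3575429 0 0)))) (P.cons (P.cons (P.lf 0 1724450518 0) (P.cons (P.lf 0 359188122 0) (P.cons (P.lf 19653320 0 0) (P.lf 2183691 0 0)))) (P.cons (P.cons (P.lf 0 1288304225 0) (P.cons (P.lf 105736832 0 0) (P.cons (P.lf 0 5785489 0) (P.lf 0 642827 0)))) (P.cons (P.cons (P.lf 401006775 0 0) (P.cons (P.lf 64836819 0 0) (P.cons (P.lf 0 3547596 0) P.nil))) (P.cons (P.cons (P.lf 208945988 0 0) (P.cons (P.lf 0 5741118 0) P.nil)) (P.cons (P.cons (P.lf 0 23577984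 0) P.nil) P.nil)))))) 32181370)
 (EL.cons 1 (TM.mk (P.cons (P.cons (P.lf 1102568485 0 0) (P.cons (P.lf 176524458 0 0) (P.cons (P.lf 0 9658705 0) (P.lf 0 1073185 0)))) (P.cons (P.cons (P.lf 793313271 0 0) (P.cons (P.lf 0 110537099 0) (P.cons (P.lf 6048142 0 0) (P.lf 672013 0 0)))) (P.cons (P.cons (P.lf 0 457663949 0) (P.cons (P.lf 0 88205030 0) (P.cons (P.lf 4826215 0 0) (P.lf 536239 0 0)))) (P.cons (P.cons (P.lf 0 312354427 0) (P.cons (P.lf 12581659 0 0) (P.cons (P.lf 0 688414 0) P.nil))) (P.cons (P.cons (P.lf 52443176 0 0) (P.cons (P.lf 10712680 0 0) P.nil)) (P.cons (P.cons (P.lf 33671287 0 0) P.nil) P.nil)))))) 16771164)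
 (EL.cons 5 (TM.mk (P.cons (P.cons (P.lf 0 921854696 0) (P.cons (P.lf 0 408373212 0) (P.cons (P.lf 22344538 0 0) (P.lf 2482726 0 0)))) (P.cons (P.cons (P.lf 0 524101540 0) (P.cons (P.lf 8822648 0 0) (P.cons (P.lf 0 482734 0) (P.lf 0 53632 0)))) (P.cons (P.cons (P.lf 155454209 0 0) (P.cons (P.lf 10464862 0 0) (P.cons (P.lf 0 572598 0) (P.lf 0 63624 0)))) (P.cons (P.cons (P.lf 320827 0 0) (P.cons (P.lf 0 12432540 0) (P.cons (P.lf 680254 0 0) P.nil))) (P.cons (P.cons (P.lf 0 48181547 0) (P.cons (P.lf 298642 0 0) P.nil)) (P.cons (P.cons (P.lf 3269397 0 0) P.nil) P.nil)))))) 14311623)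
 (EL.cons 9 (TM.mk (P.cons (P.cons (P.lf 0 869868136 0) (P.cons (P.lf 0 544833474 0) (P.cons (P.lf 29811096 0 0) (P.lf 3312342 0 0)))) (P.cons (P.cons (P.lf 0 1003446606 0) (P.cons (P.lf 0 104901780 0) (P.cons (P.lf 5739798 0 0) (P.lf 637752 0 0)))) (P.cons (P.cons (P.lf 0 267008392 0) (P.cons (P.lf 42406032 0 0) (P.cons (P.lf 0 2320284 0) (P.lf 0 257808 0)))) (P.cons (P.cons (P.lf 126089121 0 0) (P.cons (P.lf 9371070 0 0) (P.cons (P.lf 0 512742 0) P.nil))) (P.cons (P.cons (P.lf 23038546 0 0) (P.cons (P.lf 0 1537620 0) P.nil)) (P.cons (P.cons (P.lf 0 4512238 0) P.nil) P.nil)))))) 2540473)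
 (EL.cons 2 (TM.mk (P.cons (P.cons (P.lf 529742761 0 0) (P.cons (P.lf 0 66469986 0) (P.cons (P.lf 0 10148245 0) (P.cons (P.lf 310027 0 0) (P.lf 25832 0 0))))) (P.cons (P.cons (P.lf 0 445018590 0) (P.cons (P.lf 55839138 0 0) (P.cons (P.lf 8525190 0 0) (P.cons (P.lf 0 260443 0) (P.lf 0 21701 0))))) (P.cons (P.cons (P.lf 0 120082021 0) (P.cons (P.lf 15067406 0 0) (P.cons (P.lf 2300402 0 0) (P.cons (P.lf 0 70275 0) P.nil)))) (P.cons (P.cons (P.lf 28780365 0 0) (P.cons (P.lf 0 3611241 0) (P.cons (P.lf 0 551342 0) P.nil))) (P.cons (P.cons (P.lf 7710558 0 0) (P.cons (P.lf 0 967488 0) P.nil)) (P.cons (P.cons (P.lf 0 856257 0) P.nil) P.nil)))))) 871181)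
 (EL.cons 6 (TM.mk (P.cons (P.cons (P.lf 1227023340 0 0) (P.cons (P.lf 0 153961941 0) (P.cons (P.lf 0 23506002 0) (P.cons (P.lf 718104 0 0) (P.lf 59841 0 0))))) (P.cons (P.cons (P.lf 236250045 0 0) (P.cons (P.lf 0 29643702 0) (P.cons (P.lf 0 4525824 0) (P.cons (P.lf 138261 0 0) (P.lf 11520 0 0))))) (P.cons (P.cons (P.lf 0 95502936 0) (P.cons (P.lf 11983323 0 0) (P.cons (P.lf 1829541 0 0) (P.cons (P.lf 0 55890 0) P.nil)))) (P.cons (P.cons (P.lf 0 21104655 0) (P.cons (P.lf 2648127 0 0) (P.cons (P.lf 404298 0 0) P.nil))) (P.cons (P.cons (P.lf 3462891 0 0) (P.cons (P.lf 0 434508 0) P.nil)) (P.cons (P.cons (P.lf 975120 0 0) P.nil) P.nil)))))) 543147)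
 EL.nil))))))
noncomputable def S198_256_586_660_2 : EL := (EL.cons 0 (TM.mk (P.cons (P.cons (P.lf 0 98705850 0) (P.cons (P.lf 4724082 0 0) (P.cons (P.lf 41422922 0 0) (P.cons (P.lf 0 4589999 0) (P.cons (P.lf 0 382028 0) (P.cons (P.lf 27737 0 0) P.nil)))))) (P.cons (P.cons (P.lf 168624984 0 0) (P.cons (P.lf 312725959 0 0) (P.cons (P.lf 35339837 0 0) (P.cons (P.lf 0 7641034 0) (P.cons (P.lf 0 480714 0) P.nil))))) (P.cons (P.cons (P.lf 588742348 0 0) (P.cons (P.lf 305404295 0 0) (P.cons (P.lf 0 23519440 0) (P.cons (P.lf 0 1111590 0) P.nil)))) (P.cons (P.cons (P.lf 355681968 0 0) (P.cons (P.lf 0 53938441 0) (P.cons (P.lf 0 12372158 0) P.nil))) (P.cons (P.cons (P.lf 0 92750108 0) (P.cons (P.lf 0 90746025 0) P.nil)) (P.cons (P.cons (P.lf 0 126399770 0) P.nil) P.nil)))))) 156086473)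
 (EL.cons 1 (TM.mk (P.cons (P.cons (P.lf 0 281888669 0) (P.cons (P.lf 0 214298741 0) (P.cons (P.lf 0 11912836 0) (P.cons (P.lf 3889629 0 0) (P.cons (P.lf 216647 0 0) (P.cons (P.lf 0 15723 0) P.nil)))))) (P.cons (P.cons (P.lf 0 535452252 0) (P.cons (P.lf 0 186451401 0) (P.cons (P.lf 19920753 0 0) (P.cons (P.lf 69984 0 0) (P.cons (P.lf 0 89069 0) P.nil))))) (P.cons (P.cons (P.lf 0 219370464 0) (P.cons (P.lf 91746922 0 0) (P.cons (P.lf 12057748 0 0) (P.cons (P.lf 0 2426623 0) P.nil)))) (P.cons (P.cons (P.lf 178607026 0 0) (P.cons (P.lf 106656951 0 0) (P.cons (P.lf 0 5862008 0) P.nil))) (P.cons (P.cons (P.lf 146580745 0 0) (P.cons (P.lf 0 4048030 0) P.nil)) (P.cons (P.cons (P.lf 0 10884793 0) P.nil) P.nil)))))) 87701284)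
 (EL.cons 5 (TM.mk (P.cons (P.cons (P.lf 168206230 0 0) (P.cons (P.lf 165065673 0 0) (P.cons (P.lf 28367876 0 0) (P.cons (P.lf 0 5096233 0) (P.cons (P.lf 0 342771 0) (P.cons (P.lf 24876 0 0) P.nil)))))) (P.cons (P.cons (P.lf 247147565 0 0) (P.cons (P.lf 113264632 0 0) (P.cons (P.lf 0 4737940 0) (P.cons (P.lf 0 848315 0) (P.cons (P.lf 0 13392 0) P.nil))))) (P.cons (P.cons (P.lf 49518063 0 0) (P.cons (P.lf 0 33348426 0) (P.cons (P.lf 0 1947332 0) (P.cons (P.lf 615514 0 0) P.nil)))) (P.cons (P.cons (P.lf 0 70787917 0) (P.cons (P.lf 0 12976513 0) (P.cons (P.lf 2796883 0 0) P.nil))) (P.cons (P.cons (P.lf 0 6046610 0) (P.cons (P.lf 16373745 0 0) P.nil)) (P.cons (P.cons (P.lf 26344336 0 0) P.nil) P.nil)))))) 73116606)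
 (EL.cons 9 (TM.mk (P.cons (P.cons (P.lf 117450730 0 0) (P.cons (P.lf 147128253 0 0) (P.cons (P.lf 38025910 0 0) (P.cons (P.lf 0 5936679 0) (P.cons (P.lf 0 422299 0) (P.cons (P.lf 30654 0 0) P.nil)))))) (P.cons (P.cons (P.lf 270973341 0 0) (P.cons (P.lf 198049474 0 0) (P.cons (P.lf 6906468 0 0) (P.cons (P.lf 0 3145693 0) (P.cons (P.lf 0 162618 0) P.nil))))) (P.cons (P.cons (P.lf 228395883 0 0) (P.cons (P.lf 66388021 0 0) (P.cons (P.lf 0 9096874 0) (P.cons (P.lf 194368 0 0) P.nil)))) (P.cons (P.cons (P.lf 49126569 0 0) (P.cons (P.lf 0 28371717 0) (P.cons (P.lf 0 1413610 0) P.nil))) (P.cons (P.cons (P.lf 0 34433310 0) (P.cons (P.lf 0 14021914 0) P.nil)) (P.cons (P.cons (P.lf 0 16409826 0) P.nil) P.nil)))))) 18432406)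
 (EL.cons 2 (TM.mk (P.cons (P.cons (P.lf 0 143053115 0) (P.cons (P.lf 0 71650203 0) (P.cons (P.lf 18885639 0 0) (P.cons (P.lf 1562310 0 0) (P.cons (P.lf 0 221681 0) (P.cons (P.lf 0 11930 0) P.nil)))))) (P.cons (P.cons (P.lf 0 44846623 0) (P.cons (P.lf 63645480 0 0) (P.cons (P.lf 0 9595305 0) (P.cons (P.lf 0 1092093 0) (P.cons (P.lf 136839 0 0) P.nil))))) (P.cons (P.cons (P.lf 127144822 0 0) (P.cons (P.lf 25823098 0 0) (P.cons (P.lf 0 9963528 0) (P.cons (P.lf 0 693061 0) P.nil)))) (P.cons (P.cons (P.lf 87258487 0 0) (P.cons (P.lf 0 16223512 0) (P.cons (P.lf 0 721147 0) P.nil))) (P.cons (P.cons (P.lf 0 14724618 0) (P.cons (P.lf 0 3522144 0) P.nil)) (P.cons (P.cons (P.lf 0 13181580 0) P.nil) P.nil)))))) 13354520)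
 (EL.cons 6 (TM.mk (P.cons (P.cons (P.lf 0 331348584 0) (P.cons (P.lf 0 165960684 0) (P.cons (P.lf 43744110 0 0) (P.cons (P.lf 3618726 0 0) (P.cons (P.lf 0 513468 0) (P.cons (P.lf 0 27642 0) P.nil)))))) (P.cons (P.cons (P.lf 0 446028630 0) (P.cons (P.lf 0 23952114 0) (P.cons (P.lf 22945110 0 0) (P.cons (P.lf 1207128 0 0) (P.cons (P.lf 0 213252 0) P.nil))))) (P.cons (P.cons (P.lf 0 149512932 0) (P.cons (P.lf 43373064 0 0) (P.cons (P.lf 0 1570812 0) (P.cons (P.lf 0 539658 0) P.nil)))) (P.cons (P.cons (P.lf 63896148 0 0) (P.cons (P.lf 5342046 0 0) (P.cons (P.lf 0 3631320 0) P.nil))) (P.cons (P.cons (P.lf 31578852 0 0) (P.cons (P.lf 0 5016474 0) P.nil)) (P.cons (P.cons (P.lf 0 3360078 0) P.nil) P.nil)))))) 9484770)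
 EL.nil))))))
noncomputable def S198_256_586_660_3 : EL := (EL.cons 0 (TM.mk (P.cons (P.lf 375392995 0 0) (P.cons (P.lf 0 727079837 0) (P.cons (P.lf 317250402 0 0) (P.cons (P.lf 44091209 0 0) (P.cons (P.lf 0 8367597 0) (P.cons (P.lf 0 1467036 0) P.nil)))))) 311496)
 (EL.cons 1 (TM.mk (P.cons (P.lf 869508750 0 0) (P.cons (P.lf 0 786249082 0) (P.cons (P.lf 0 120498519 0) (P.cons (P.lf 33042157 0 0) (P.cons (P.lf 5010903 0 0) (P.cons (P.lf 0 683975 0) P.nil)))))) 177172)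
 (EL.cons 5 (TM.mk (P.cons (P.lf 2014010580 0 0) (P.cons (P.lf 258517274 0 0) (P.cons (P.lf 0 112800140 0) (P.cons (P.lf 0 15676876 0) (P.cons (P.lf 2975142 0 0) (P.cons (P.lf 521612 0 0) P.nil)))))) 117178)
 EL.nil)))
noncomputable def S198_256_586_660_4 : EL := (EL.cons 0 (TM.mk (P.cons (P.cons (P.lf 0 50686050 0) (P.cons (P.lf 0 31746716 0) (P.cons (P.lf 1737050 0 0) (P.lf 193004 0 0)))) (P.cons (P.cons (P.lf 39701777 0 0) (P.cons (P.lf 55376135 0 0) (P.cons (P.lf 0 3029958 0) (P.lf 0 336661 0)))) (P.cons (P.cons (P.lf 54852834 0 0) (P.cons (P.lf 0 12519727 0) (P.cons (P.lf 685028 0 0) (P.lf 76113 0 0)))) (P.cons (P.cons (P.lf 0 17885736 0) (P.cons (P.lf 0 13134322 0) (P.cons (P.lf 718655 0 0) P.nil))) (P.cons (P.cons (P.lf 0 31773828 0) (P.cons (P.lf 930747 0 0) P.nil)) (P.cons (P.cons (P.lf 3020113 0 0) P.nil) P.nil)))))) 6380554)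
 (EL.cons 1 (TM.mk (P.cons (P.cons (P.lf 0 117402204 0) (P.cons (P.lf 0 73533733 0) (P.cons (P.lf 4023468 0 0) (P.lf 447050 0 0)))) (P.cons (P.cons (P.lf 0 29270315 0) (P.cons (P.lf 52334398 0 0) (P.cons (P.lf 0 2863526 0) (P.lf 0 318168 0)))) (P.cons (P.cons (P.lf 102695490 0 0) (P.cons (P.lf 28716240 0 0) (P.cons (P.lf 0 1571235 0) (P.lf 0 174579 0)))) (P.cons (P.cons (P.lf 63910801 0 0) (P.cons (P.lf 0 4742827 0) (P.cons (P.lf 259507 0 0) P.nil))) (P.cons (P.cons (P.lf 0 13107740 0) (P.cons (P.lf 0 3106134 0) P.nil)) (P.cons (P.cons (P.lf 0 7836575 0) P.nil) P.nil)))))) 4307299)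
 (EL.cons 5 (TM.mk (P.cons (P.cons (P.lf 0 271934336 0) (P.cons (P.lf 0 170323434 0) (P.cons (P.lf 9319412 0 0) (P.lf 1035488 0 0)))) (P.cons (P.cons (P.lf 0 348598388 0) (P.cons (P.lf 0 54656552 0) (P.cons (P.lf 2990584 0 0) (P.lf 332284 0 0)))) (P.cons (P.cons (P.lf 0 108506026 0) (P.cons (P.lf 18586802 0 0) (P.cons (P.lf 0 1016994 0) (P.lf 0 112998 0)))) (P.cons (P.cons (P.lf 48389078 0 0) (P.cons (P.lf 7793670 0 0) (P.cons (P.lf 0 426436 0) P.nil))) (P.cons (P.cons (P.lf 18976876 0 0) (P.cons (P.lf 0 843472 0) P.nil)) (P.cons (P.cons (P.lf 0 2577896 0) P.nil) P.nil)))))) 2995802)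
 EL.nil)))
noncomputable def S198_256_586_660_5 : EL := (EL.cons 0 (TM.mk (P.cons (P.cons (P.lf 6843696 0 0) (P.cons (P.lf 8572965 0 0) (P.cons (P.lf 2215717 0 0) (P.cons (P.lf 0 345921 0) (P.cons (P.lf 0 24605 0) (P.cons (P.lf 1785 0 0) P.nil)))))) (P.cons (P.cons (P.lf 2534039 0 0) (P.cons (P.lf 0 5064468 0) (P.cons (P.lf 0 3889082 0) (P.cons (P.lf 486703 0 0) (P.cons (P.lf 38183 0 0) P.nil))))) (P.cons (P.cons (P.lf 0 11489375 0) (P.cons (P.lf 0 11237909 0) (P.cons (P.lf 563027 0 0) (P.cons (P.lf 73995 0 0) P.nil)))) (P.cons (P.cons (P.lf 0 8766123 0) (P.cons (P.lf 1614042 0 0) (P.cons (P.lf 1544626 0 0) P.nil))) (P.cons (P.cons (P.lf 5398330 0 0) (P.cons (P.lf 6818449 0 0) P.nil)) (P.cons (P.cons (P.lf 6533476 0 0) P.nil) P.nil)))))) 15998539)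
 (EL.cons 1 (TM.mk (P.cons (P.cons (P.lf 15851797 0 0) (P.cons (P.lf 19857240 0 0) (P.cons (P.lf 5132186 0 0) (P.cons (P.lf 0 801245 0) (P.cons (P.lf 0 56994 0) (P.cons (P.lf 4136 0 0) P.nil)))))) (P.cons (P.cons (P.lf 22238143 0 0) (P.cons (P.lf 8774034 0 0) (P.cons (P.lf 0 3708618 0) (P.cons (P.lf 299962 0 0) (P.cons (P.lf 29589 0 0) P.nil))))) (P.cons (P.cons (P.lf 0 4441314 0) (P.cons (P.lf 0 17962104 0) (P.cons (P.lf 0 2781871 0) (P.cons (P.lf 521176 0 0) P.nil)))) (P.cons (P.cons (P.lf 0 25709334 0) (P.cons (P.lf 0 14881014 0) (P.cons (P.lf 985260 0 0) P.nil))) (P.cons (P.cons (P.lf 0 13433561 0) (P.cons (P.lf 1458547 0 0) P.nil)) (P.cons (P.cons (P.lf 2438383 0 0) P.nil) P.nil)))))) 13138520)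
 (EL.cons 5 (TM.mk (P.cons (P.cons (P.lf 36716928 0 0) (P.cons (P.lf 45994584 0 0) (P.cons (P.lf 11887490 0 0) (P.cons (P.lf 0 1855898 0) (P.cons (P.lf 0 132016 0) (P.cons (P.lf 9582 0 0) P.nil)))))) (P.cons (P.cons (P.lf 89423452 0 0) (P.cons (P.lf 67817190 0 0) (P.cons (P.lf 3684940 0 0) (P.cons (P.lf 0 1221614 0) (P.cons (P.lf 0 67782 0) P.nil))))) (P.cons (P.cons (P.lf 80217072 0 0) (P.cons (P.lf 26125040 0 0) (P.cons (P.lf 0 3232478 0) (P.cons (P.lf 38478 0 0) P.nil)))) (P.cons (P.cons (P.lf 19492366 0 0) (P.cons (P.lf 0 10031120 0) (P.cons (P.lf 0 1020402 0) P.nil))) (P.cons (P.cons (P.lf 0 13397176 0) (P.cons (P.lf 0 7098308 0) P.nil)) (P.cons (P.cons (P.lf 0 7792954 0) P.nil) P.nil)))))) 11304116)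
 EL.nil)))
noncomputable def S198_256_586_660_6 : EL := (EL.cons 12 (TM.mk (P.lf 8589934592 0 0) 0)
 (EL.cons 3 (TM.mk (P.cons (P.lf 0 897858742 0) (P.cons (P.lf 869508750 0 0) (P.cons (P.lf 41629830 0 0) (P.cons (P.lf 0 12412950 0) (P.cons (P.lf 0 1049171 0) (P.cons (P.lf 162840 0 0) P.nil)))))) 27209)
 (EL.cons 7 (TM.mk (P.cons (P.lf 0 2079676607 0) (P.cons (P.lf 0 133473065 0) (P.cons (P.lf 62522105 0 0) (P.cons (P.lf 4081356 0 0) (P.cons (P.lf 0 858201 0) (P.cons (P.lf 0 91532 0) P.nil)))))) 18219)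
 EL.nil)))
noncomputable def S198_256_586_660_7 : EL := (EL.cons 12 (TM.mk (P.cons (P.cons (P.lf 0 1159824182 0) (P.cons (P.lf 0 726444632 0) (P.cons (P.lf 39748128 0 0) (P.lf 4416456 0 0)))) (P.cons (P.cons (P.lf 0 1337928808 0) (P.cons (P.lf 0 139869040 0) (P.cons (P.lf 7653064 0 0) (P.lf 850336 0 0)))) (P.cons (P.cons (P.lf 0 356011190 0) (P.cons (P.lf 56541376 0 0) (P.cons (P.lf 0 3093712 0) (P.lf 0 343744 0)))) (P.cons (P.cons (P.lf 168118828 0 0) (P.cons (P.lf 12494760 0 0) (P.cons (P.lf 0 683656 0) P.nil))) (P.cons (P.cons (P.lf 30718062 0 0) (P.cons (P.lf 0 2050160 0) P.nil)) (P.cons (P.cons (P.lf 0 6016318 0) P.nil) P.nil)))))) 3387272)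
 (EL.cons 3 (TM.mk (P.cons (P.cons (P.lf 0 2057750425 0) (P.cons (P.lf 0 151862544 0) (P.cons (P.lf 8309306 0 0) (P.lf 923254 0 0)))) (P.cons (P.cons (P.lf 0 1208216043 0) (P.cons (P.lf 117827978 0 0) (P.cons (P.lf 0 6447072 0) (P.lf 0 716340 0)))) (P.cons (P.cons (P.lf 715280062 0 0) (P.cons (P.lf 47177374 0 0) (P.cons (P.lf 0 2581352 0) (P.lf 0 286814 0)))) (P.cons (P.cons (P.lf 187380984 0 0) (P.cons (P.lf 0 9578486 0) (P.cons (P.lf 524096 0 0) P.nil))) (P.cons (P.cons (P.lf 0 41701315 0) (P.cons (P.lf 0 4087858 0) P.nil)) (P.cons (P.cons (P.lf 0 12765073 0) P.nil) P.nil)))))) 10522229)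
 (EL.cons 7 (TM.mk (P.cons (P.cons (P.lf 615282860 0 0) (P.cons (P.lf 210844032 0 0) (P.cons (P.lf 0 11536540 0) (P.lf 0 1281840 0)))) (P.cons (P.cons (P.lf 185465994 0 0) (P.cons (P.lf 0 18087065 0) (P.cons (P.lf 989649 0 0) (P.lf 109958 0 0)))) (P.cons (P.cons (P.lf 0 205554861 0) (P.cons (P.lf 2096476 0 0) (P.cons (P.lf 0 114710 0) (P.lf 0 12745 0)))) (P.cons (P.cons (P.lf 49911031 0 0) (P.cons (P.lf 6154422 0 0) (P.cons (P.lf 0 336744 0) P.nil))) (P.cons (P.cons (P.lf 25078105 0 0) (P.cons (P.lf 0 608655 0) P.nil)) (P.cons (P.cons (P.lf 0 3327489 0) P.nil) P.nil)))))) 7363323)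
 (EL.cons 10 (TM.mk (P.cons (P.cons (P.lf 0 2534059914 0) (P.cons (P.lf 317963625 0 0) (P.cons (P.lf 48544818 0 0) (P.cons (P.lf 0 1483038 0) (P.lf 0 123585 0))))) (P.cons (P.cons (P.lf 0 325270515 0) (P.cons (P.lf 40813632 0 0) (P.cons (P.lf 6231186 0 0) (P.cons (P.lf 0 190362 0) (P.lf 0 15861 0))))) (P.cons (P.cons (P.lf 141926916 0 0) (P.cons (P.lf 0 17808417 0) (P.cons (P.lf 0 2718882 0) (P.cons (P.lf 83061 0 0) P.nil)))) (P.cons (P.cons (P.lf 19724892 0 0) (P.cons (P.lf 0 2475000 0) (P.cons (P.lf 0 377868 0) P.nil))) (P.cons (P.cons (P.lf 0 3743370 0) (P.cons (P.lf 469701 0 0) P.nil)) (P.cons (P.cons (P.lf 0 656298 0) P.nil) P.nil)))))) 357816)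
 EL.nil))))
noncomputable def S198_256_586_660_8 : EL := (EL.cons 12 (TM.mk (P.cons (P.cons (P.lf 156600974 0 0) (P.cons (P.lf 196171004 0 0) (P.cons (P.lf 50701214 0 0) (P.cons (P.lf 0 7915572 0) (P.cons (P.lf 0 563066 0) (P.cons (P.lf 40872 0 0) P.nil)))))) (P.cons (P.cons (P.lf 361297788 0 0) (P.cons (P.lf 264065966 0 0) (P.cons (P.lf 9208624 0 0) (P.cons (P.lf 0 4194258 0) (P.cons (P.lf 0 216824 0) P.nil))))) (P.cons (P.cons (P.lf 304527844 0 0) (P.cons (P.lf 88517362 0 0) (P.cons (P.lf 0 12129166 0) (P.cons (P.lf 259158 0 0) P.nil)))) (P.cons (P.cons (P.lf 65502092 0 0) (P.cons (P.lf 0 37828956 0) (P.cons (P.lf 0 1884814 0) P.nil))) (P.cons (P.cons (P.lf 0 45911080 0) (P.cons (P.lf 0 18695886 0) P.nil)) (P.cons (P.cons (P.lf 0 21879768 0) P.nil) P.nil)))))) 24576512)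
 (EL.cons 3 (TM.mk (P.cons (P.cons (P.lf 572048936 0 0) (P.cons (P.lf 409559002 0 0) (P.cons (P.lf 9697847 0 0) (P.cons (P.lf 0 6003492 0) (P.cons (P.lf 0 294271 0) (P.cons (P.lf 21361 0 0) P.nil)))))) (P.cons (P.cons (P.lf 989194023 0 0) (P.cons (P.lf 294600597 0 0) (P.cons (P.lf 0 34849019 0) (P.cons (P.lf 258583 0 0) (P.cons (P.lf 171660 0 0) P.nil))))) (P.cons (P.cons (P.lf 348283484 0 0) (P.cons (P.lf 0 164009304 0) (P.cons (P.lf 0 8295921 0) (P.cons (P.lf 2886971 0 0) P.nil)))) (P.cons (P.cons (P.lf 0 279319565 0) (P.cons (P.lf 0 118610262 0) (P.cons (P.lf 7981222 0 0) P.nil))) (P.cons (P.cons (P.lf 0 180774421 0) (P.cons (P.lf 13389557 0 0) P.nil)) (P.cons (P.cons (P.lf 25669098 0 0) P.nil) P.nil)))))) 92639023)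
 (EL.cons 7 (TM.mk (P.cons (P.cons (P.lf 0 128238514 0) (P.cons (P.lf 0 113510714 0) (P.cons (P.lf 0 14577231 0) (P.cons (P.lf 2964975 0 0) (P.cons (P.lf 190525 0 0) (P.cons (P.lf 0 13825 0) P.nil)))))) (P.cons (P.cons (P.lf 0 151845232 0) (P.cons (P.lf 0 45222373 0) (P.cons (P.lf 5349460 0 0) (P.cons (P.lf 0 39692 0) (P.cons (P.lf 0 26345 0) P.nil))))) (P.cons (P.cons (P.lf 24935131 0 0) (P.cons (P.lf 48524490 0 0) (P.cons (P.lf 0 1488482 0) (P.cons (P.lf 0 422661 0) P.nil)))) (P.cons (P.cons (P.lf 77151460 0 0) (P.cons (P.lf 122606 0 0) (P.cons (P.lf 0 2012694 0) P.nil))) (P.cons (P.cons (P.lf 0 6091272 0) (P.cons (P.lf 0 15318176 0) P.nil)) (P.cons (P.cons (P.lf 0 25226455 0) P.nil) P.nil)))))) 42927508)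
 (EL.cons 10 (TM.mk (P.cons (P.cons (P.lf 684304152 0 0) (P.cons (P.lf 342743544 0 0) (P.cons (P.lf 0 90340746 0) (P.cons (P.lf 0 7473432 0) (P.cons (P.lf 1060428 0 0) (P.cons (P.lf 57096 0 0) P.nil)))))) (P.cons (P.cons (P.lf 877223994 0 0) (P.cons (P.lf 27468942 0 0) (P.cons (P.lf 0 41588418 0) (P.cons (P.lf 0 2013336 0) (P.cons (P.lf 372360 0 0) P.nil))))) (P.cons (P.cons (P.lf 273047994 0 0) (P.cons (P.lf 0 81033378 0) (P.cons (P.lf 3197244 0 0) (P.cons (P.lf 1019046 0 0) P.nil)))) (P.cons (P.cons (P.lf 0 121767804 0) (P.cons (P.lf 0 4333302 0) (P.cons (P.lf 5866656 0 0) P.nil))) (P.cons (P.cons (P.lf 0 47754012 0) (P.cons (P.lf 8114520 0 0) P.nil)) (P.cons (P.cons (P.lf 6487098 0 0) P.nil) P.nil)))))) 13412514)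
 EL.nil))))
noncomputable def S198_256_586_660_9 : EL := (EL.cons 3 (TM.mk (P.cons (P.lf 0 897858742 0) (P.cons (P.lf 869508750 0 0) (P.cons (P.lf 41629830 0 0) (P.cons (P.lf 0 12412950 0) (P.cons (P.lf 0 1049171 0) (P.cons (P.lf 162840 0 0) P.nil)))))) 27209)
 (EL.cons 7 (TM.mk (P.cons (P.lf 0 2079676607 0) (P.cons (P.lf 0 133473065 0) (P.cons (P.lf 62522105 0 0) (P.cons (P.lf 4081356 0 0) (P.cons (P.lf 0 858201 0) (P.cons (P.lf 0 91532 0) P.nil)))))) 18219)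
 EL.nil))
noncomputable def S198_256_586_660_10 : EL := (EL.cons 3 (TM.mk (P.cons (P.cons (P.lf 121230059 0 0) (P.cons (P.lf 75931272 0 0) (P.cons (P.lf 0 4154653 0) (P.lf 0 461627 0)))) (P.cons (P.cons (P.lf 22444152 0 0) (P.cons (P.lf 0 58913989 0) (P.cons (P.lf 3223536 0 0) (P.lf 358170 0 0)))) (P.cons (P.cons (P.lf 0 103839710 0) (P.cons (P.lf 0 23588687 0) (P.cons (P.lf 1290676 0 0) (P.lf 143407 0 0)))) (P.cons (P.cons (P.lf 0 58417524 0) (P.cons (P.lf 4789243 0 0) (P.cons (P.lf 0 262048 0) P.nil))) (P.cons (P.cons (P.lf 14156582 0 0) (P.cons (P.lf 2043929 0 0) P.nil)) (P.cons (P.cons (P.lf 5208908 0 0) P.nil) P.nil)))))) 2504149)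
 (EL.cons 7 (TM.mk (P.cons (P.cons (P.lf 280800650 0 0) (P.cons (P.lf 175876764 0 0) (P.cons (P.lf 0 9623269 0) (P.lf 0 1069251 0)))) (P.cons (P.cons (P.lf 341942595 0 0) (P.cons (P.lf 45150886 0 0) (P.cons (P.lf 0 2470473 0) (P.lf 0 274495 0)))) (P.cons (P.cons (P.lf 98539860 0 0) (P.cons (P.lf 0 16803140 0) (P.cons (P.lf 919399 0 0) (P.lf 102155 0 0)))) (P.cons (P.cons (P.lf 0 45460028 0) (P.cons (P.lf 0 5266815 0) (P.cons (P.lf 288177 0 0) P.nil))) (P.cons (P.cons (P.lf 0 13160372 0) (P.cons (P.lf 719868 0 0) P.nil)) (P.cons (P.cons (P.lf 2179815 0 0) P.nil) P.nil)))))) 1711514)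
 EL.nil))
noncomputable def S198_256_586_660_11 : EL := (EL.cons 3 (TM.mk (P.cons (P.cons (P.lf 0 16368640 0) (P.cons (P.lf 0 20504678 0) (P.cons (P.lf 0 5299519 0) (P.cons (P.lf 827370 0 0) (P.cons (P.lf 58853 0 0) (P.cons (P.lf 0 4271 0) P.nil)))))) (P.cons (P.cons (P.lf 0 21912675 0) (P.cons (P.lf 0 7744125 0) (P.cons (P.lf 4169659 0 0) (P.cons (P.lf 0 362843 0) (P.cons (P.lf 0 34332 0) P.nil))))) (P.cons (P.cons (P.lf 5500376 0 0) (P.cons (P.lf 18428328 0 0) (P.cons (P.lf 2445645 0 0) (P.cons (P.lf 0 490009 0) P.nil)))) (P.cons (P.cons (P.lf 25503673 0 0) (P.cons (P.lf 13910424 0 0) (P.cons (P.lf 0 1059392 0) P.nil))) (P.cons (P.cons (P.lf 12363851 0 0) (P.cons (P.lf 0 1851589 0) P.nil)) (P.cons (P.cons (P.lf 0 2524110 0) P.nil) P.nil)))))) 10863495)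
 (EL.cons 7 (TM.mk (P.cons (P.cons (P.lf 0 37914070 0) (P.cons (P.lf 0 47494220 0) (P.cons (P.lf 0 12275079 0) (P.cons (P.lf 1916409 0 0) (P.cons (P.lf 136321 0 0) (P.cons (P.lf 0 9895 0) P.nil)))))) (P.cons (P.cons (P.lf 0 89905756 0) (P.cons (P.lf 0 66980179 0) (P.cons (P.lf 0 3017276 0) (P.cons (P.lf 1138450 0 0) (P.cons (P.lf 61243 0 0) P.nil))))) (P.cons (P.cons (P.lf 0 78202217 0) (P.cons (P.lf 0 24105906 0) (P.cons (P.lf 3162490 0 0) (P.cons (P.lf 0 55185 0) P.nil)))) (P.cons (P.cons (P.lf 0 17886188 0) (P.cons (P.lf 9798434 0 0) (P.cons (P.lf 735906 0 0) P.nil))) (P.cons (P.cons (P.lf 12470100 0 0) (P.cons (P.lf 5864332 0 0) P.nil)) (P.cons (P.cons (P.lf 6594293 0 0) P.nil) P.nil)))))) 8500626)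
 EL.nil))
noncomputable def S198_256_586_660_12 : EL := (EL.cons 4 (TM.mk (P.cons (P.lf 897858742 0 0) (P.cons (P.lf 0 869508750 0) (P.cons (P.lf 0 41629830 0) (P.cons (P.lf 12412950 0 0) (P.cons (P.lf 1049171 0 0) (P.cons (P.lf 0 162840 0) P.nil)))))) 27209)
 (EL.cons 8 (TM.mk (P.cons (P.lf 2079676607 0 0) (P.cons (P.lf 133473065 0 0) (P.cons (P.lf 0 62522105 0) (P.cons (P.lf 0 4081356 0) (P.cons (P.lf 858201 0 0) (P.cons (P.lf 91532 0 0) P.nil)))))) 18219)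
 EL.nil))
noncomputable def S198_256_586_660_13 : EL := (EL.cons 4 (TM.mk (P.cons (P.cons (P.lf 0 121230059 0) (P.cons (P.lf 0 75931272 0) (P.cons (P.lf 4154653 0 0) (P.lf 461627 0 0)))) (P.cons (P.cons (P.lf 0 22444152 0) (P.cons (P.lf 58913989 0 0) (P.cons (P.lf 0 3223536 0) (P.lf 0 358170 0)))) (P.cons (P.cons (P.lf 103839710 0 0) (P.cons (P.lf 23588687 0 0) (P.cons (P.lf 0 1290676 0) (P.lf 0 143407 0)))) (P.cons (P.cons (P.lf 58417524 0 0) (P.cons (P.lf 0 4789243 0) (P.cons (P.lf 262048 0 0) P.nil))) (P.cons (P.cons (P.lf 0 14156582 0) (P.cons (P.lf 0 2043929 0) P.nil)) (P.cons (P.cons (P.lf 0 5208908 0) P.nil) P.nil)))))) 2504149)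
 (EL.cons 8 (TM.mk (P.cons (P.cons (P.lf 0 280800650 0) (P.cons (P.lf 0 175876764 0) (P.cons (P.lf 9623269 0 0) (P.lf 1069251 0 0)))) (P.cons (P.cons (P.lf 0 341942595 0) (P.cons (P.lf 0 45150886 0) (P.cons (P.lf 2470473 0 0) (P.lf 274495 0 0)))) (P.cons (P.cons (P.lf 0 98539860 0) (P.cons (P.lf 16803140 0 0) (P.cons (P.lf 0 919399 0) (P.lf 0 102155 0)))) (P.cons (P.cons (P.lf 45460028 0 0) (P.cons (P.lf 5266815 0 0) (P.cons (P.lf 0 288177 0) P.nil))) (P.cons (P.cons (P.lf 13160372 0 0) (P.cons (P.lf 0 719868 0) P.nil)) (P.cons (P.cons (P.lf 0 2179815 0) P.nil) P.nil)))))) 1711514)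
 EL.nil))
noncomputable def S198_256_586_660_14 : EL := (EL.cons 4 (TM.mk (P.cons (P.cons (P.lf 16368640 0 0) (P.cons (P.lf 20504678 0 0) (P.cons (P.lf 5299519 0 0) (P.cons (P.lf 0 827370 0) (P.cons (P.lf 0 58853 0) (P.cons (P.lf 4271 0 0) P.nil)))))) (P.cons (P.cons (P.lf 21912675 0 0) (P.cons (P.lf 7744125 0 0) (P.cons (P.lf 0 4169659 0) (P.cons (P.lf 362843 0 0) (P.cons (P.lf 34332 0 0) P.nil))))) (P.cons (P.cons (P.lf 0 5500376 0) (P.cons (P.lf 0 18428328 0) (P.cons (P.lf 0 2445645 0) (P.cons (P.lf 490009 0 0) P.nil)))) (P.cons (P.cons (P.lf 0 25503673 0) (P.cons (P.lf 0 13910424 0) (P.cons (P.lf 1059392 0 0) P.nil))) (P.cons (P.cons (P.lf 0 12363851 0) (P.cons (P.lf 1851589 0 0) P.nil)) (P.cons (P.cons (P.lf 2524110 0 0) P.nil) P.nil)))))) 10863495)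
 (EL.cons 8 (TM.mk (P.cons (P.cons (P.lf 37914070 0 0) (P.cons (P.lf 47494220 0 0) (P.cons (P.lf 12275079 0 0) (P.cons (P.lf 0 1916409 0) (P.cons (P.lf 0 136321 0) (P.cons (P.lf 9895 0 0) P.nil)))))) (P.cons (P.cons (P.lf 89905756 0 0) (P.cons (P.lf 66980179 0 0) (P.cons (P.lf 3017276 0 0) (P.cons (P.lf 0 1138450 0) (P.cons (P.lf 0 61243 0) P.nil))))) (P.cons (P.cons (P.lf 78202217 0 0) (P.cons (P.lf 24105906 0 0) (P.cons (P.lf 0 3162490 0) (P.cons (P.lf 55185 0 0) P.nil)))) (P.cons (P.cons (P.lf 17886188 0 0) (P.cons (P.lf 0 9798434 0) (P.cons (P.lf 0 735906 0) P.nil))) (P.cons (P.cons (P.lf 0 12470100 0) (P.cons (P.lf 0 5864332 0) P.nil)) (P.cons (P.cons (P.lf 0 6594293 0) P.nil) P.nil)))))) 8500626)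
 EL.nil))
noncomputable def S198_256_586_660_15 : EL := (EL.cons 4 (TM.mk (P.cons (P.lf 0 200209597 0) (P.cons (P.lf 387775913 0 0) (P.cons (P.lf 0 169200214 0) (P.cons (P.lf 0 23515311 0) (P.cons (P.lf 4462718 0 0) (P.cons (P.lf 782419 0 0) P.nil)))))) 166134)
 (EL.cons 8 (TM.mk (P.cons (P.lf 0 463738000 0) (P.cons (P.lf 419332844 0 0) (P.cons (P.lf 64265877 0 0) (P.cons (P.lf 0 17622484 0) (P.cons (P.lf 0 2672482 0) (P.cons (P.lf 364787 0 0) P.nil)))))) 94488)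
 EL.nil))
noncomputable def S198_256_586_660_16 : EL := (EL.cons 4 (TM.mk (P.cons (P.cons (P.lf 27032560 0 0) (P.cons (P.lf 16931581 0 0) (P.cons (P.lf 0 926427 0) (P.lf 0 102935 0)))) (P.cons (P.cons (P.lf 0 21174281 0) (P.cons (P.lf 0 29533938 0) (P.cons (P.lf 1615978 0 0) (P.lf 179552 0 0)))) (P.cons (P.cons (P.lf 0 29254845 0) (P.cons (P.lf 6677188 0 0) (P.cons (P.lf 0 365348 0) (P.lf 0 40593 0)))) (P.cons (P.cons (P.lf 9539059 0 0) (P.cons (P.lf 7004971 0 0) (P.cons (P.lf 0 383282 0) P.nil))) (P.cons (P.cons (P.lf 16946041 0 0) (P.cons (P.lf 0 496398 0) P.nil)) (P.cons (P.cons (P.lf 0 1610727 0) P.nil) P.nil)))))) 3402971)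
 (EL.cons 8 (TM.mk (P.cons (P.cons (P.lf 62614509 0 0) (P.cons (P.lf 39217991 0 0) (P.cons (P.lf 0 2145850 0) (P.lf 0 238427 0)))) (P.cons (P.cons (P.lf 15610835 0 0) (P.cons (P.lf 0 27911679 0) (P.cons (P.lf 1527214 0 0) (P.lf 169690 0 0)))) (P.cons (P.cons (P.lf 0 54770928 0) (P.cons (P.lf 0 15315328 0) (P.cons (P.lf 837992 0 0) (P.lf 93109 0 0)))) (P.cons (P.cons (P.lf 0 34085761 0) (P.cons (P.lf 2529508 0 0) (P.cons (P.lf 0 138404 0) P.nil))) (P.cons (P.cons (P.lf 6990795 0 0) (P.cons (P.lf 1656605 0 0) P.nil)) (P.cons (P.cons (P.lf 4179507 0 0) P.nil) P.nil)))))) 2297216)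
 EL.nil))
noncomputable def S198_256_586_660_17 : EL := (EL.cons 4 (TM.mk (P.cons (P.cons (P.lf 0 3649971 0) (P.cons (P.lf 0 4572248 0) (P.cons (P.lf 0 1181715 0) (P.cons (P.lf 184491 0 0) (P.cons (P.lf 13123 0 0) (P.cons (P.lf 0 952 0) P.nil)))))) (P.cons (P.cons (P.lf 0 1351487 0) (P.cons (P.lf 2701050 0 0) (P.cons (P.lf 2074177 0 0) (P.cons (P.lf 0 259575 0) (P.cons (P.lf 0 20364 0) P.nil))))) (P.cons (P.cons (P.lf 6127666 0 0) (P.cons (P.lf 5993551 0 0) (P.cons (P.lf 0 300281 0) (P.cons (P.lf 0 39464 0) P.nil)))) (P.cons (P.cons (P.lf 4675265 0 0) (P.cons (P.lf 0 860822 0) (P.cons (P.lf 0 823800 0) P.nil))) (P.cons (P.cons (P.lf 0 2879109 0) (P.cons (P.lf 0 3636506 0) P.nil)) (P.cons (P.cons (P.lf 0 3484520 0) P.nil) P.nil)))))) 8532564)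
 (EL.cons 8 (TM.mk (P.cons (P.cons (P.lf 0 8454292 0) (P.cons (P.lf 0 10590528 0) (P.cons (P.lf 0 2737166 0) (P.cons (P.lf 427331 0 0) (P.cons (P.lf 30397 0 0) (P.cons (P.lf 0 2206 0) P.nil)))))) (P.cons (P.cons (P.lf 0 11860343 0) (P.cons (P.lf 0 4679485 0) (P.cons (P.lf 1977930 0 0) (P.cons (P.lf 0 159980 0) (P.cons (P.lf 0 15781 0) P.nil))))) (P.cons (P.cons (P.lf 2368701 0 0) (P.cons (P.lf 9579789 0 0) (P.cons (P.lf 1483665 0 0) (P.cons (P.lf 0 277961 0) P.nil)))) (P.cons (P.cons (P.lf 13711645 0 0) (P.cons (P.lf 7936541 0 0) (P.cons (P.lf 0 525472 0) P.nil))) (P.cons (P.cons (P.lf 7164566 0 0) (P.cons (P.lf 0 777892 0) P.nil)) (P.cons (P.cons (P.lf 0 1300471 0) P.nil) P.nil)))))) 7007199)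
 EL.nil))
noncomputable def S198_256_586_660_18 : EL := (EL.cons 4 (TM.mk (P.cons (P.lf 44643862 0 0) (P.cons (P.lf 0 129702684 0) (P.cons (P.lf 119397478 0 0) (P.cons (P.lf 0 26667962 0) (P.cons (P.lf 0 8965736 0) (P.cons (P.lf 958581 0 0) P.nil)))))) 467642)
 (EL.cons 8 (TM.mk (P.cons (P.lf 103406910 0 0) (P.cons (P.lf 0 193647023 0) (P.cons (P.lf 71427862 0 0) (P.cons (P.lf 23572483 0 0) (P.cons (P.lf 0 3717003 0) (P.cons (P.lf 0 1166783 0) P.nil)))))) 289701)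
 EL.nil))
noncomputable def S198_256_586_660_19 : EL := (EL.cons 4 (TM.mk (P.cons (P.cons (P.lf 0 6027871 0) (P.cons (P.lf 0 3775499 0) (P.cons (P.lf 206580 0 0) (P.lf 22952 0 0)))) (P.cons (P.cons (P.lf 10559101 0 0) (P.cons (P.lf 10241931 0 0) (P.cons (P.lf 0 560397 0) (P.lf 0 62265 0)))) (P.cons (P.cons (P.lf 2230419 0 0) (P.cons (P.lf 0 7691565 0) (P.cons (P.lf 420851 0 0) (P.lf 46760 0 0)))) (P.cons (P.cons (P.lf 0 8746759 0) (P.cons (P.lf 0 477647 0) (P.cons (P.lf 26134 0 0) P.nil))) (P.cons (P.cons (P.lf 0 1963043 0) (P.cons (P.lf 1779046 0 0) P.nil)) (P.cons (P.cons (P.lf 4213998 0 0) P.nil) P.nil)))))) 3367570)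
 (EL.cons 8 (TM.mk (P.cons (P.cons (P.lf 0 13962135 0) (P.cons (P.lf 0 8745048 0) (P.cons (P.lf 478493 0 0) (P.lf 53165 0 0)))) (P.cons (P.cons (P.lf 10040287 0 0) (P.cons (P.lf 14692825 0 0) (P.cons (P.lf 0 803932 0) (P.lf 0 89325 0)))) (P.cons (P.cons (P.lf 16231573 0 0) (P.cons (P.lf 0 2206814 0) (P.cons (P.lf 120747 0 0) (P.lf 13416 0 0)))) (P.cons (P.cons (P.lf 0 4258492 0) (P.cons (P.lf 0 4280785 0) (P.cons (P.lf 234226 0 0) P.nil))) (P.cons (P.cons (P.lf 0 9550200 0) (P.cons (P.lf 94318 0 0) P.nil)) (P.cons (P.cons (P.lf 392559 0 0) P.nil) P.nil)))))) 2502989)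
 EL.nil))
noncomputable def S198_256_586_660_20 : EL := (EL.cons 4 (TM.mk (P.cons (P.cons (P.lf 813890 0 0) (P.cons (P.lf 1019545 0 0) (P.cons (P.lf 263505 0 0) (P.cons (P.lf 0 41138 0) (P.cons (P.lf 0 2925 0) (P.cons (P.lf 211 0 0) P.nil)))))) (P.cons (P.cons (P.lf 0 486829 0) (P.cons (P.lf 0 1589648 0) (P.cons (P.lf 0 717697 0) (P.cons (P.lf 97721 0 0) (P.cons (P.lf 7374 0 0) P.nil))))) (P.cons (P.cons (P.lf 0 1695964 0) (P.cons (P.lf 0 800469 0) (P.cons (P.lf 502648 0 0) (P.cons (P.lf 0 45345 0) P.nil)))) (P.cons (P.cons (P.lf 277999 0 0) (P.cons (P.lf 1528248 0 0) (P.cons (P.lf 143939 0 0) P.nil))) (P.cons (P.cons (P.lf 1720069 0 0) (P.cons (P.lf 679829 0 0) P.nil)) (P.cons (P.cons (P.lf 184920 0 0) P.nil) P.nil)))))) 5799704)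
 (EL.cons 8 (TM.mk (P.cons (P.cons (P.lf 1885185 0 0) (P.cons (P.lf 2361535 0 0) (P.cons (P.lf 610348 0 0) (P.cons (P.lf 0 95288 0) (P.cons (P.lf 0 6778 0) (P.cons (P.lf 491 0 0) P.nil)))))) (P.cons (P.cons (P.lf 819025 0 0) (P.cons (P.lf 0 1243511 0) (P.cons (P.lf 0 1032126 0) (P.cons (P.lf 127953 0 0) (P.cons (P.lf 10083 0 0) P.nil))))) (P.cons (P.cons (P.lf 0 3176774 0) (P.cons (P.lf 0 3256160 0) (P.cons (P.lf 67988 0 0) (P.cons (P.lf 31852 0 0) P.nil)))) (P.cons (P.cons (P.lf 0 2642550 0) (P.cons (P.lf 283238 0 0) (P.cons (P.lf 466450 0 0) P.nil))) (P.cons (P.cons (P.lf 1426618 0 0) (P.cons (P.lf 2003543 0 0) P.nil)) (P.cons (P.cons (P.lf 1974346 0 0) P.nil) P.nil)))))) 5323944)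
 EL.nil))
noncomputable def S198_256_586_660_21 : EL := (EL.cons 4 (TM.mk (P.cons (P.cons (P.lf 2178980484 0 0) (P.cons (P.lf 227793816 0 0) (P.cons (P.lf 0 12463959 0) (P.lf 0 1384881 0)))) (P.cons (P.cons (P.lf 1230660195 0 0) (P.cons (P.lf 0 176741967 0) (P.cons (P.lf 9670608 0 0) (P.lf 1074510 0 0)))) (P.cons (P.cons (P.lf 0 819119772 0) (P.cons (P.lf 0 70766061 0) (P.cons (P.lf 3872028 0 0) (P.lf 430221 0 0)))) (P.cons (P.cons (P.lf 0 245798508 0) (P.cons (P.lf 14367729 0 0) (P.cons (P.lf 0 786144 0) P.nil))) (P.cons (P.cons (P.lf 55857897 0 0) (P.cons (P.lf 6131787 0 0) P.nil)) (P.cons (P.cons (P.lf 17973981 0 0) P.nil) P.nil)))))) 8018061)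
 (EL.cons 8 (TM.mk (P.cons (P.cons (P.lf 0 334482210 0) (P.cons (P.lf 0 34967268 0) (P.cons (P.lf 1913271 0 0) (P.lf 212589 0 0)))) (P.cons (P.cons (P.lf 156476601 0 0) (P.cons (P.lf 63237951 0 0) (P.cons (P.lf 0 3460122 0) (P.lf 0 384453 0)))) (P.cons (P.cons (P.lf 304094721 0 0) (P.cons (P.lf 0 18899616 0) (P.cons (P.lf 1034109 0 0) (P.lf 114900 0 0)))) (P.cons (P.cons (P.lf 0 95371059 0) (P.cons (P.lf 0 11421237 0) (P.cons (P.lf 624921 0 0) P.nil))) (P.cons (P.cons (P.lf 0 38238477 0) (P.cons (P.lf 1328523 0 0) P.nil)) (P.cons (P.cons (P.lf 5507304 0 0) P.nil) P.nil)))))) 5651790)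
 (EL.cons 11 (TM.mk (P.cons (P.cons (P.lf 2534059914 0 0) (P.cons (P.lf 0 317963625 0) (P.cons (P.lf 0 48544818 0) (P.cons (P.lf 1483038 0 0) (P.lf 123585 0 0))))) (P.cons (P.cons (P.lf 325270515 0 0) (P.cons (P.lf 0 40813632 0) (P.cons (P.lf 0 6231186 0) (P.cons (P.lf 190362 0 0) (P.lf 15861 0 0))))) (P.cons (P.cons (P.lf 0 141926916 0) (P.cons (P.lf 17808417 0 0) (P.cons (P.lf 2718882 0 0) (P.cons (P.lf 0 83061 0) P.nil)))) (P.cons (P.cons (P.lf 0 19724892 0) (P.cons (P.lf 2475000 0 0) (P.cons (P.lf 377868 0 0) P.nil))) (P.cons (P.cons (P.lf 3743370 0 0) (P.cons (P.lf 0 469701 0) P.nil)) (P.cons (P.cons (P.lf 656298 0 0) P.nil) P.nil)))))) 357816)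
 EL.nil)))
noncomputable def S198_256_586_660_22 : EL := (EL.cons 4 (TM.mk (P.cons (P.cons (P.lf 0 294208788 0) (P.cons (P.lf 0 215031840 0) (P.cons (P.lf 0 7498683 0) (P.cons (P.lf 3415431 0 0) (P.cons (P.lf 176562 0 0) (P.cons (P.lf 0 12816 0) P.nil)))))) (P.cons (P.cons (P.lf 0 505553349 0) (P.cons (P.lf 0 151172361 0) (P.cons (P.lf 19509339 0 0) (P.cons (P.lf 0 310713 0) (P.cons (P.lf 0 102996 0) P.nil))))) (P.cons (P.cons (P.lf 0 171391554 0) (P.cons (P.lf 91218816 0 0) (P.cons (P.lf 5370783 0 0) (P.cons (P.lf 0 1688490 0) P.nil)))) (P.cons (P.cons (P.lf 152411619 0 0) (P.cons (P.lf 66260343 0 0) (P.cons (P.lf 0 4520307 0) P.nil))) (P.cons (P.cons (P.lf 96569136 0 0) (P.cons (P.lf 0 7620573 0) P.nil)) (P.cons (P.cons (P.lf 0 14096604 0) P.nil) P.nil)))))) 40887753)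
 (EL.cons 8 (TM.mk (P.cons (P.cons (P.lf 45162222 0 0) (P.cons (P.lf 33008247 0 0) (P.cons (P.lf 1151076 0 0) (P.cons (P.lf 0 524283 0) (P.cons (P.lf 0 27102 0) (P.cons (P.lf 1965 0 0) P.nil)))))) (P.cons (P.cons (P.lf 30969738 0 0) (P.cons (P.lf 0 10878903 0) (P.cons (P.lf 0 4183368 0) (P.cons (P.lf 589071 0 0) (P.cons (P.lf 43794 0 0) P.nil))))) (P.cons (P.cons (P.lf 0 51568674 0) (P.cons (P.lf 0 36315198 0) (P.cons (P.lf 2325486 0 0) (P.cons (P.lf 183738 0 0) P.nil)))) (P.cons (P.cons (P.lf 0 47518824 0) (P.cons (P.lf 4837914 0 0) (P.cons (P.lf 1374300 0 0) P.nil))) (P.cons (P.cons (P.lf 9280686 0 0) (P.cons (P.lf 10591254 0 0) P.nil)) (P.cons (P.cons (P.lf 15910374 0 0) P.nil) P.nil)))))) 17213430)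
 (EL.cons 11 (TM.mk (P.cons (P.cons (P.lf 0 342152076 0) (P.cons (P.lf 0 171371772 0) (P.cons (P.lf 45170373 0 0) (P.cons (P.lf 3736716 0 0) (P.cons (P.lf 0 530214 0) (P.cons (P.lf 0 28548 0) P.nil)))))) (P.cons (P.cons (P.lf 0 438611997 0) (P.cons (P.lf 0 13734471 0) (P.cons (P.lf 20794209 0 0) (P.cons (P.lf 1006668 0 0) (P.cons (P.lf 0 186180 0) P.nil))))) (P.cons (P.cons (P.lf 0 136523997 0) (P.cons (P.lf 40516689 0 0) (P.cons (P.lf 0 1598622 0) (P.cons (P.lf 0 509523 0) P.nil)))) (P.cons (P.cons (P.lf 60883902 0 0) (P.cons (P.lf 2166651 0 0) (P.cons (P.lf 0 2933328 0) P.nil))) (P.cons (P.cons (P.lf 23877006 0 0) (P.cons (P.lf 0 4057260 0) P.nil)) (P.cons (P.cons (P.lf 0 3243549 0) P.nil) P.nil)))))) 6706257)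
 EL.nil)))
noncomputable def S198_256_586_660_23 : EL := (EL.cons 4 (TM.mk (P.cons (P.cons (P.lf 0 485881335 0) (P.cons (P.lf 0 50794746 0) (P.cons (P.lf 2779281 0 0) (P.lf 308808 0 0)))) (P.cons (P.cons (P.lf 196120038 0 0) (P.cons (P.lf 88601814 0 0) (P.cons (P.lf 0 4847934 0) (P.lf 0 538656 0)))) (P.cons (P.cons (P.lf 470934867 0 0) (P.cons (P.lf 0 20031567 0) (P.cons (P.lf 1096047 0 0) (P.lf 121782 0 0)))) (P.cons (P.cons (P.lf 0 116068836 0) (P.cons (P.lf 0 21014916 0) (P.cons (P.lf 1149849 0 0) P.nil))) (P.cons (P.cons (P.lf 0 78364836 0) (P.cons (P.lf 1489197 0 0) P.nil)) (P.cons (P.cons (P.lf 7805631 0 0) P.nil) P.nil)))))) 11982117)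
 (EL.cons 8 (TM.mk (P.cons (P.cons (P.lf 74584725 0 0) (P.cons (P.lf 7797198 0 0) (P.cons (P.lf 0 426630 0) (P.lf 0 47403 0)))) (P.cons (P.cons (P.lf 0 107121738 0) (P.cons (P.lf 0 21652155 0) (P.cons (P.lf 1184718 0 0) (P.lf 131634 0 0)))) (P.cons (P.cons (P.lf 0 37476609 0) (P.cons (P.lf 17508729 0 0) (P.cons (P.lf 0 958005 0) (P.lf 0 106443 0)))) (P.cons (P.cons (P.lf 89582988 0 0) (P.cons (P.lf 0 772896 0) (P.cons (P.lf 42288 0 0) P.nil))) (P.cons (P.cons (P.lf 0 9319485 0) (P.cons (P.lf 0 3143835 0) P.nil)) (P.cons (P.cons (P.lf 0 11463240 0) P.nil) P.nil)))))) 5524431)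
 (EL.cons 11 (TM.mk (P.cons (P.cons (P.lf 0 565058946 0) (P.cons (P.lf 70901319 0 0) (P.cons (P.lf 10824795 0 0) (P.cons (P.lf 0 330696 0) (P.lf 0 27555 0))))) (P.cons (P.cons (P.lf 474686496 0 0) (P.cons (P.lf 0 59561748 0) (P.cons (P.lf 0 9093537 0) (P.cons (P.lf 277806 0 0) (P.lf 23148 0 0))))) (P.cons (P.cons (P.lf 128087490 0 0) (P.cons (P.lf 0 16071900 0) (P.cons (P.lf 0 2453763 0) (P.cons (P.lf 74961 0 0) P.nil)))) (P.cons (P.cons (P.lf 0 30699057 0) (P.cons (P.lf 3851991 0 0) (P.cons (P.lf 588099 0 0) P.nil))) (P.cons (P.cons (P.lf 0 8224596 0) (P.cons (P.lf 1031988 0 0) P.nil)) (P.cons (P.cons (P.lf 913341 0 0) P.nil) P.nil)))))) 929238)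
 EL.nil)))
noncomputable def S198_256_586_660_24 : EL := (EL.cons 4 (TM.mk (P.cons (P.cons (P.lf 65604330 0 0) (P.cons (P.lf 47949009 0 0) (P.cons (P.lf 1672098 0 0) (P.cons (P.lf 0 761592 0) (P.cons (P.lf 0 39369 0) (P.cons (P.lf 2856 0 0) P.nil)))))) (P.cons (P.cons (P.lf 49198263 0 0) (P.cons (P.lf 0 12725748 0) (P.cons (P.lf 0 5969604 0) (P.cons (P.lf 806829 0 0) (P.cons (P.lf 61092 0 0) P.nil))))) (P.cons (P.cons (P.lf 0 73995567 0) (P.cons (P.lf 0 55208562 0) (P.cons (P.lf 2937804 0 0) (P.cons (P.lf 344721 0 0) P.nil)))) (P.cons (P.cons (P.lf 0 75316593 0) (P.cons (P.lf 4023072 0 0) (P.cons (P.lf 2392578 0 0) P.nil))) (P.cons (P.cons (P.lf 11242149 0 0) (P.cons (P.lf 17473017 0 0) P.nil)) (P.cons (P.cons (P.lf 26220906 0 0) P.nil) P.nil)))))) 30905448)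
 (EL.cons 8 (TM.mk (P.cons (P.cons (P.lf 0 10070526 0) (P.cons (P.lf 0 7360362 0) (P.cons (P.lf 0 256671 0) (P.cons (P.lf 116907 0 0) (P.cons (P.lf 6042 0 0) (P.cons (P.lf 0 438 0) P.nil)))))) (P.cons (P.cons (P.lf 2846742 0 0) (P.cons (P.lf 9553797 0 0) (P.cons (P.lf 1181400 0 0) (P.cons (P.lf 0 244569 0) (P.cons (P.lf 0 15618 0) P.nil))))) (P.cons (P.cons (P.lf 18653754 0 0) (P.cons (P.lf 6089793 0 0) (P.cons (P.lf 0 1410024 0) (P.cons (P.lf 80814 0 0) P.nil)))) (P.cons (P.cons (P.lf 0 359007 0) (P.cons (P.lf 0 9135096 0) (P.cons (P.lf 148926 0 0) P.nil))) (P.cons (P.cons (P.lf 0 12971307 0) (P.cons (P.lf 0 1667496 0) P.nil)) (P.cons (P.cons (P.lf 0 1882227 0) P.nil) P.nil)))))) 11941425)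
 (EL.cons 11 (TM.mk (P.cons (P.cons (P.lf 76294995 0 0) (P.cons (P.lf 38213442 0 0) (P.cons (P.lf 0 10072341 0) (P.cons (P.lf 0 833232 0) (P.cons (P.lf 118230 0 0) (P.cons (P.lf 6363 0 0) P.nil)))))) (P.cons (P.cons (P.lf 23918199 0 0) (P.cons (P.lf 0 33944256 0) (P.cons (P.lf 5117496 0 0) (P.cons (P.lf 582450 0 0) (P.cons (P.lf 0 72981 0) P.nil))))) (P.cons (P.cons (P.lf 0 67810572 0) (P.cons (P.lf 0 13772319 0) (P.cons (P.lf 5313882 0 0) (P.cons (P.lf 369633 0 0) P.nil)))) (P.cons (P.cons (P.lf 0 46537860 0) (P.cons (P.lf 8652540 0 0) (P.cons (P.lf 384612 0 0) P.nil))) (P.cons (P.cons (P.lf 7853130 0 0) (P.cons (P.lf 1878477 0 0) P.nil)) (P.cons (P.cons (P.lf 7030176 0 0) P.nil) P.nil)))))) 7122399)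
 EL.nil)))
noncomputable def S198_256_586_660_25 : EL := (EL.cons 4 (TM.mk (P.cons (P.cons (P.lf 108344556 0 0) (P.cons (P.lf 11326497 0 0) (P.cons (P.lf 0 619740 0) (P.lf 0 68859 0)))) (P.cons (P.cons (P.lf 0 148655514 0) (P.cons (P.lf 0 30725793 0) (P.cons (P.lf 1681191 0 0) (P.lf 186798 0 0)))) (P.cons (P.cons (P.lf 0 67684068 0) (P.cons (P.lf 23074695 0 0) (P.cons (P.lf 0 1262553 0) (P.lf 0 140283 0)))) (P.cons (P.cons (P.lf 131103165 0 0) (P.cons (P.lf 1432944 0 0) (P.cons (P.lf 0 78402 0) P.nil))) (P.cons (P.cons (P.lf 0 3199287 0) (P.cons (P.lf 0 5337141 0) P.nil)) (P.cons (P.cons (P.lf 0 21385590 0) P.nil) P.nil)))))) 13091139)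
 (EL.cons 8 (TM.mk (P.cons (P.cons (P.lf 0 16631322 0) (P.cons (P.lf 0 1738662 0) (P.cons (P.lf 95130 0 0) (P.lf 10569 0 0)))) (P.cons (P.cons (P.lf 39992793 0 0) (P.cons (P.lf 6511884 0 0) (P.cons (P.lf 0 356304 0) (P.lf 0 39588 0)))) (P.cons (P.cons (P.lf 0 14004516 0) (P.cons (P.lf 0 8499249 0) (P.cons (P.lf 465042 0 0) (P.lf 51669 0 0)))) (P.cons (P.cons (P.lf 0 29406045 0) (P.cons (P.lf 3705366 0 0) (P.cons (P.lf 0 202740 0) P.nil))) (P.cons (P.cons (P.lf 21346428 0 0) (P.cons (P.lf 779865 0 0) P.nil)) (P.cons (P.cons (P.lf 1616289 0 0) P.nil) P.nil)))))) 6121566)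
 (EL.cons 11 (TM.mk (P.cons (P.cons (P.lf 126000024 0 0) (P.cons (P.lf 0 15809973 0) (P.cons (P.lf 0 2413773 0) (P.cons (P.lf 73740 0 0) (P.lf 6144 0 0))))) (P.cons (P.cons (P.lf 0 227869827 0) (P.cons (P.lf 28592187 0 0) (P.cons (P.lf 4365285 0 0) (P.cons (P.lf 0 133356 0) (P.lf 0 11112 0))))) (P.cons (P.cons (P.lf 68102349 0 0) (P.cons (P.lf 0 8545206 0) (P.cons (P.lf 0 1304631 0) (P.cons (P.lf 39855 0 0) P.nil)))) (P.cons (P.cons (P.lf 41154963 0 0) (P.cons (P.lf 0 5163957 0) (P.cons (P.lf 0 788400 0) P.nil))) (P.cons (P.cons (P.lf 0 4787178 0) (P.cons (P.lf 600675 0 0) P.nil)) (P.cons (P.cons (P.lf 0 2838519 0) P.nil) P.nil)))))) 1650312)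
 EL.nil)))
noncomputable def S198_256_586_660_26 : EL := (EL.cons 4 (TM.mk (P.cons (P.cons (P.lf 0 14628822 0) (P.cons (P.lf 0 10691937 0) (P.cons (P.lf 0 372852 0) (P.cons (P.lf 169821 0 0) (P.cons (P.lf 8778 0 0) (P.cons (P.lf 0 636 0) P.nil)))))) (P.cons (P.cons (P.lf 3196410 0 0) (P.cons (P.lf 13191999 0 0) (P.cons (P.lf 1692216 0 0) (P.cons (P.lf 0 344373 0) (P.cons (P.lf 0 22125 0) P.nil))))) (P.cons (P.cons (P.lf 27802332 0 0) (P.cons (P.lf 10058394 0 0) (P.cons (P.lf 0 1926906 0) (P.cons (P.lf 89487 0 0) P.nil)))) (P.cons (P.cons (P.lf 1121967 0 0) (P.cons (P.lf 0 13098477 0) (P.cons (P.lf 34017 0 0) P.nil))) (P.cons (P.cons (P.lf 0 19704858 0) (P.cons (P.lf 0 3571527 0) P.nil)) (P.cons (P.cons (P.lf 0 3979944 0) P.nil) P.nil)))))) 18828474)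
 (EL.cons 8 (TM.mk (P.cons (P.cons (P.lf 2245581 0 0) (P.cons (P.lf 1641255 0 0) (P.cons (P.lf 57234 0 0) (P.cons (P.lf 0 26067 0) (P.cons (P.lf 0 1347 0) (P.cons (P.lf 96 0 0) P.nil)))))) (P.cons (P.cons (P.lf 0 2809458 0) (P.cons (P.lf 0 3719790 0) (P.cons (P.lf 0 318861 0) (P.cons (P.lf 79779 0 0) (P.cons (P.lf 4785 0 0) P.nil))))) (P.cons (P.cons (P.lf 0 3648897 0) (P.cons (P.lf 629058 0 0) (P.cons (P.lf 566877 0 0) (P.cons (P.lf 0 69624 0) P.nil)))) (P.cons (P.cons (P.lf 4168710 0 0) (P.cons (P.lf 3473520 0 0) (P.cons (P.lf 0 324690 0) P.nil))) (P.cons (P.cons (P.lf 3001596 0 0) (P.cons (P.lf 0 1565421 0) P.nil)) (P.cons (P.cons (P.lf 0 2443743 0) P.nil) P.nil)))))) 6661302)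
 (EL.cons 11 (TM.mk (P.cons (P.cons (P.lf 0 17012685 0) (P.cons (P.lf 0 8521047 0) (P.cons (P.lf 2245986 0 0) (P.cons (P.lf 185796 0 0) (P.cons (P.lf 0 26361 0) (P.cons (P.lf 0 1419 0) P.nil)))))) (P.cons (P.cons (P.lf 11142093 0 0) (P.cons (P.lf 15821076 0 0) (P.cons (P.lf 0 3316197 0) (P.cons (P.lf 0 309810 0) (P.cons (P.lf 41805 0 0) P.nil))))) (P.cons (P.cons (P.lf 21074598 0 0) (P.cons (P.lf 0 3863973 0) (P.cons (P.lf 0 183957 0) (P.cons (P.lf 34737 0 0) P.nil)))) (P.cons (P.cons (P.lf 0 4253982 0) (P.cons (P.lf 0 5372202 0) (P.cons (P.lf 1145700 0 0) P.nil))) (P.cons (P.cons (P.lf 0 12595443 0) (P.cons (P.lf 1401891 0 0) P.nil)) (P.cons (P.cons (P.lf 0 147036 0) P.nil) P.nil)))))) 5702925)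
 EL.nil)))
noncomputable def S198_256_586_660_27 : EL := (EL.cons 13 (TM.mk (P.lf 0 4294967296 0) 0)
 EL.nil)
noncomputable def S198_256_586_660_28 : EL := (EL.cons 13 (TM.mk (P.cons (P.cons (P.lf 579912091 0 0) (P.cons (P.lf 363222316 0 0) (P.cons (P.lf 0 19874064 0) (P.lf 0 2208228 0)))) (P.cons (P.cons (P.lf 668964404 0 0) (P.cons (P.lf 69934520 0 0) (P.cons (P.lf 0 3826532 0) (P.lf 0 425168 0)))) (P.cons (P.cons (P.lf 178005595 0 0) (P.cons (P.lf 0 28270688 0) (P.cons (P.lf 1546856 0 0) (P.lf 171872 0 0)))) (P.cons (P.cons (P.lf 0 84059414 0) (P.cons (P.lf 0 6247380 0) (P.cons (P.lf 341828 0 0) P.nil))) (P.cons (P.cons (P.lf 0 15359031 0) (P.cons (P.lf 1025080 0 0) P.nil)) (P.cons (P.cons (P.lf 3008159 0 0) P.nil) P.nil)))))) 1693636)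
 EL.nil)
noncomputable def S198_256_586_660_29 : EL := (EL.cons 13 (TM.mk (P.cons (P.cons (P.lf 0 78300487 0) (P.cons (P.lf 0 98085502 0) (P.cons (P.lf 0 25350607 0) (P.cons (P.lf 3957786 0 0) (P.cons (P.lf 281533 0 0) (P.cons (P.lf 0 20436 0) P.nil)))))) (P.cons (P.cons (P.lf 0 180648894 0) (P.cons (P.lf 0 132032983 0) (P.cons (P.lf 0 4604312 0) (P.cons (P.lf 2097129 0 0) (P.cons (P.lf 108412 0 0) P.nil))))) (P.cons (P.cons (P.lf 0 152263922 0) (P.cons (P.lf 0 44258681 0) (P.cons (P.lf 6064583 0 0) (P.cons (P.lf 0 129579 0) P.nil)))) (P.cons (P.cons (P.lf 0 32751046 0) (P.cons (P.lf 18914478 0 0) (P.cons (P.lf 942407 0 0) P.nil))) (P.cons (P.cons (P.lf 22955540 0 0) (P.cons (P.lf 9347943 0 0) P.nil)) (P.cons (P.cons (P.lf 10939884 0 0) P.nil) P.nil)))))) 12288256)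
 EL.nil)
noncomputable def S198_256_586_660_30 : EL := (EL.cons 13 (TM.mk (P.cons (P.lf 957715992 0 0) (P.cons (P.lf 0 927476000 0) (P.cons (P.lf 0 44405152 0) (P.cons (P.lf 13240480 0 0) (P.cons (P.lf 1119116 0 0) (P.cons (P.lf 0 173696 0) P.nil)))))) 29016)
 EL.nil)
noncomputable def S198_256_586_660_31 : EL := (EL.cons 13 (TM.mk (P.cons (P.cons (P.lf 0 129312063 0) (P.cons (P.lf 0 80993357 0) (P.cons (P.lf 4431630 0 0) (P.lf 492403 0 0)))) (P.cons (P.cons (P.lf 0 23940429 0) (P.cons (P.lf 62841589 0 0) (P.cons (P.lf 0 3438439 0) (P.lf 0 382049 0)))) (P.cons (P.cons (P.lf 110762358 0 0) (P.cons (P.lf 25161267 0 0) (P.cons (P.lf 0 1376722 0) (P.lf 0 152968 0)))) (P.cons (P.cons (P.lf 62312026 0 0) (P.cons (P.lf 0 5108526 0) (P.cons (P.lf 279518 0 0) P.nil))) (P.cons (P.cons (P.lf 0 15100355 0) (P.cons (P.lf 0 2180191 0) P.nil)) (P.cons (P.cons (P.lf 0 5556169 0) P.nil)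 P.nil)))))) 2671073)
 EL.nil)
noncomputable def S198_256_586_660_32 : EL := (EL.cons 13 (TM.mk (P.cons (P.cons (P.lf 17459883 0 0) (P.cons (P.lf 21871657 0 0) (P.cons (P.lf 5652821 0 0) (P.cons (P.lf 0 882529 0) (P.cons (P.lf 0 62777 0) (P.cons (P.lf 4556 0 0) P.nil)))))) (P.cons (P.cons (P.lf 23373521 0 0) (P.cons (P.lf 8260400 0 0) (P.cons (P.lf 0 4447637 0) (P.cons (P.lf 387033 0 0) (P.cons (P.lf 36621 0 0) P.nil))))) (P.cons (P.cons (P.lf 0 5867068 0) (P.cons (P.lf 0 19656884 0) (P.cons (P.lf 0 2608689 0) (P.cons (P.lf 522677 0 0) P.nil)))) (P.cons (P.cons (P.lf 0 27203918 0) (P.cons (P.lf 0 14837786 0) (P.cons (P.lf 1130019 0 0) P.nil))) (P.cons (P.cons (P.lf 0 13188108 0) (P.cons (P.lf 1975029 0 0) P.nil)) (P.cons (P.cons (P.lf 2692385 0 0) P.nil) P.nil)))))) 11587705)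
 EL.nil)
noncomputable def S198_256_586_660_33 : EL := (EL.cons 14 (TM.mk (P.lf 8589934592 0 0) 0)
 EL.nil)
noncomputable def S198_256_586_660_34 : EL := (EL.cons 14 (TM.mk (P.cons (P.cons (P.lf 0 1159824182 0) (P.cons (P.lf 0 726444632 0) (P.cons (P.lf 39748128 0 0) (P.lf 4416456 0 0)))) (P.cons (P.cons (P.lf 0 1337928808 0) (P.cons (P.lf 0 139869040 0) (P.cons (P.lf 7653064 0 0) (P.lf 850336 0 0)))) (P.cons (P.cons (P.lf 0 356011190 0) (P.cons (P.lf 56541376 0 0) (P.cons (P.lf 0 3093712 0) (P.lf 0 343744 0)))) (P.cons (P.cons (P.lf 168118828 0 0) (P.cons (P.lf 12494760 0 0) (P.cons (P.lf 0 683656 0) P.nil))) (P.cons (P.cons (P.lf 30718062 0 0) (P.cons (P.lf 0 2050160 0) P.nil)) (P.cons (P.cons (P.lf 0 6016318 0) P.nil) P.nil)))))) 3387272)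
 EL.nil)
noncomputable def S198_256_586_660_35 : EL := (EL.cons 14 (TM.mk (P.cons (P.cons (P.lf 156600974 0 0) (P.cons (P.lf 196171004 0 0) (P.cons (P.lf 50701214 0 0) (P.cons (P.lf 0 7915572 0) (P.cons (P.lf 0 563066 0) (P.cons (P.lf 40872 0 0) P.nil)))))) (P.cons (P.cons (P.lf 361297788 0 0) (P.cons (P.lf 264065966 0 0) (P.cons (P.lf 9208624 0 0) (P.cons (P.lf 0 4194258 0) (P.cons (P.lf 0 216824 0) P.nil))))) (P.cons (P.cons (P.lf 304527844 0 0) (P.cons (P.lf 88517362 0 0) (P.cons (P.lf 0 12129166 0) (P.cons (P.lf 259158 0 0) P.nil)))) (P.cons (P.cons (P.lf 65502092 0 0) (P.cons (P.lf 0 37828956 0) (P.cons (P.lf 0 1884814 0) P.nil))) (P.cons (P.cons (P.lf 0 45911080 0) (P.cons (P.lf 0 18695886 0) P.nil)) (P.cons (P.cons (P.lf 0 21879768 0) P.nil) P.nil)))))) 24576512)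
 EL.nil)
noncomputable def S198_256_586_660_36 : EL := (EL.cons 14 (TM.mk (P.cons (P.lf 0 1915431984 0) (P.cons (P.lf 1854952000 0 0) (P.cons (P.lf 88810304 0 0) (P.cons (P.lf 0 26480960 0) (P.cons (P.lf 0 2238232 0) (P.cons (P.lf 347392 0 0) P.nil)))))) 58032)
 EL.nil)
noncomputable def S198_256_586_660_37 : EL := (EL.cons 14 (TM.mk (P.cons (P.cons (P.lf 258624126 0 0) (P.cons (P.lf 161986714 0 0) (P.cons (P.lf 0 8863260 0) (P.lf 0 984806 0)))) (P.cons (P.cons (P.lf 47880858 0 0) (P.cons (P.lf 0 125683178 0) (P.cons (P.lf 6876878 0 0) (P.lf 764098 0 0)))) (P.cons (P.cons (P.lf 0 221524716 0) (P.cons (P.lf 0 50322534 0) (P.cons (P.lf 2753444 0 0) (P.lf 305936 0 0)))) (P.cons (P.cons (P.lf 0 124624052 0) (P.cons (P.lf 10217052 0 0) (P.cons (P.lf 0 559036 0) P.nil))) (P.cons (P.cons (P.lf 30200710 0 0) (P.cons (P.lf 4360382 0 0) P.nil)) (P.cons (P.cons (P.lf 11112338 0 0)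 P.nil) P.nil)))))) 5342146)
 EL.nil)
noncomputable def S198_256_586_660_38 : EL := (EL.cons 14 (TM.mk (P.cons (P.cons (P.lf 0 34919766 0) (P.cons (P.lf 0 43743314 0) (P.cons (P.lf 0 11305642 0) (P.cons (P.lf 1765058 0 0) (P.cons (P.lf 125554 0 0) (P.cons (P.lf 0 9112 0) P.nil)))))) (P.cons (P.cons (P.lf 0 46747042 0) (P.cons (P.lf 0 16520800 0) (P.cons (P.lf 8895274 0 0) (P.cons (P.lf 0 774066 0) (P.cons (P.lf 0 73242 0) P.nil))))) (P.cons (P.cons (P.lf 11734136 0 0) (P.cons (P.lf 39313768 0 0) (P.cons (P.lf 5217378 0 0) (P.cons (P.lf 0 1045354 0) P.nil)))) (P.cons (P.cons (P.lf 54407836 0 0) (P.cons (P.lf 29675572 0 0) (P.cons (P.lf 0 2260038 0) P.nil))) (P.cons (P.cons (P.lf 26376216 0 0) (P.cons (P.lf 0 3950058 0) P.nil)) (P.cons (P.cons (P.lf 0 5384770 0) P.nil) P.nil)))))) 23175410)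
 EL.nil)
noncomputable def S198_256_586_660_39 : EL := (EL.cons 14 (TM.mk (P.cons (P.lf 427113808 0 0) (P.cons (P.lf 0 827255282 0) (P.cons (P.lf 360960458 0 0) (P.cons (P.lf 50165998 0 0) (P.cons (P.lf 0 9520466 0) (P.cons (P.lf 0 1669162 0) P.nil)))))) 354406)
 EL.nil)
noncomputable def S198_256_586_660_40 : EL := (EL.cons 14 (TM.mk (P.cons (P.cons (P.lf 0 57669462 0) (P.cons (P.lf 0 36120708 0) (P.cons (P.lf 1976378 0 0) (P.lf 219596 0 0)))) (P.cons (P.cons (P.lf 45171800 0 0) (P.cons (P.lf 63005736 0 0) (P.cons (P.lf 0 3447420 0) (P.lf 0 383046 0)))) (P.cons (P.cons (P.lf 62410336 0 0) (P.cons (P.lf 0 14244668 0) (P.cons (P.lf 779410 0 0) (P.lf 86600 0 0)))) (P.cons (P.cons (P.lf 0 20349994 0) (P.cons (P.lf 0 14943940 0) (P.cons (P.lf 817670 0 0) P.nil))) (P.cons (P.cons (P.lf 0 36151556 0) (P.cons (P.lf 1058984 0 0) P.nil)) (P.cons (P.cons (P.lf 3436218 0 0) P.nil)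 P.nil)))))) 7259632)
 EL.nil)
noncomputable def S198_256_586_660_41 : EL := (EL.cons 14 (TM.mk (P.cons (P.cons (P.lf 7786606 0 0) (P.cons (P.lf 9754130 0 0) (P.cons (P.lf 2520994 0 0) (P.cons (P.lf 0 393582 0) (P.cons (P.lf 0 27996 0) (P.cons (P.lf 2032 0 0) P.nil)))))) (P.cons (P.cons (P.lf 2883174 0 0) (P.cons (P.lf 0 5762240 0) (P.cons (P.lf 0 4424912 0) (P.cons (P.lf 553760 0 0) (P.cons (P.lf 43444 0 0) P.nil))))) (P.cons (P.cons (P.lf 0 13072356 0) (P.cons (P.lf 0 12786244 0) (P.cons (P.lf 640600 0 0) (P.cons (P.lf 84190 0 0) P.nil)))) (P.cons (P.cons (P.lf 0 9973900 0) (P.cons (P.lf 1836422 0 0) (P.cons (P.lf 1757442 0 0) P.nil))) (P.cons (P.cons (P.lf 6142100 0 0) (P.cons (P.lf 7757880 0 0) P.nil)) (P.cons (P.cons (P.lf 7433644 0 0) P.nil) P.nil)))))) 18202758)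
 EL.nil)
noncomputable def S198_256_586_660_42 : EL := (EL.cons 14 (TM.mk (P.cons (P.lf 0 95240240 0) (P.cons (P.lf 276699060 0 0) (P.cons (P.lf 0 254714620 0) (P.cons (P.lf 56891654 0 0) (P.cons (P.lf 19126904 0 0) (P.cons (P.lf 0 2044974 0) P.nil)))))) 997622)
 EL.nil)
noncomputable def S198_256_586_660_43 : EL := (EL.cons 14 (TM.mk (P.cons (P.cons (P.lf 12859460 0 0) (P.cons (P.lf 8054398 0 0) (P.cons (P.lf 0 440704 0) (P.lf 0 48966 0)))) (P.cons (P.cons (P.lf 0 22526084 0) (P.cons (P.lf 0 21849454 0) (P.cons (P.lf 1195514 0 0) (P.lf 132834 0 0)))) (P.cons (P.cons (P.lf 0 4758228 0) (P.cons (P.lf 16408672 0 0) (P.cons (P.lf 0 897816 0) (P.lf 0 99756 0)))) (P.cons (P.cons (P.lf 18659754 0 0) (P.cons (P.lf 1018982 0 0) (P.cons (P.lf 0 55754 0) P.nil))) (P.cons (P.cons (P.lf 4187826 0 0) (P.cons (P.lf 0 3795300 0) P.nil)) (P.cons (P.cons (P.lf 0 8989864 0) P.nil) P.nil))))))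 7184110)
 EL.nil)
noncomputable def S198_256_586_660_44 : EL := (EL.cons 14 (TM.mk (P.cons (P.cons (P.lf 0 1736300 0) (P.cons (P.lf 0 2175030 0) (P.cons (P.lf 0 562144 0) (P.cons (P.lf 87762 0 0) (P.cons (P.lf 6242 0 0) (P.cons (P.lf 0 452 0) P.nil)))))) (P.cons (P.cons (P.lf 1038570 0 0) (P.cons (P.lf 3391250 0 0) (P.cons (P.lf 1531088 0 0) (P.cons (P.lf 0 208472 0) (P.cons (P.lf 0 15732 0) P.nil))))) (P.cons (P.cons (P.lf 3618058 0 0) (P.cons (P.lf 1707668 0 0) (P.cons (P.lf 0 1072316 0) (P.cons (P.lf 96738 0 0) P.nil)))) (P.cons (P.cons (P.lf 0 593066 0) (P.cons (P.lf 0 3260264 0) (P.cons (P.lf 0 307070 0) P.nil))) (P.cons (P.cons (P.lf 0 3669482 0) (P.cons (P.lf 0 1450302 0) P.nil)) (P.cons (P.cons (P.lf 0 394496 0) P.nil) P.nil)))))) 12372656)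
 EL.nil)
noncomputable def S198_256_586_660_45 : EL := (EL.cons 14 (TM.mk (P.cons (P.cons (P.lf 0 21144466 0) (P.cons (P.lf 0 39730896 0) (P.cons (P.lf 0 22711146 0) (P.cons (P.lf 0 2230738 0) (P.cons (P.lf 1080908 0 0) (P.cons (P.lf 31538 0 0) P.nil)))))) (P.cons (P.cons (P.lf 0 73174348 0) (P.cons (P.lf 0 99313840 0) (P.cons (P.lf 0 32855100 0) (P.cons (P.lf 1792824 0 0) (P.cons (P.lf 843538 0 0) P.nil))))) (P.cons (P.cons (P.lf 0 103882184 0) (P.cons (P.lf 0 91817656 0) (P.cons (P.lf 0 10717642 0) (P.cons (P.lf 2916168 0 0) P.nil)))) (P.cons (P.cons (P.lf 0 68185148 0) (P.cons (P.lf 0 23676324 0) (P.cons (P.lf 6967500 0 0) P.nil))) (P.cons (P.cons (P.lf 0 8993342 0) (P.cons (P.lf 15926256 0 0) P.nil)) (P.cons (P.cons (P.lf 14532826 0 0) P.nil) P.nil)))))) 46918848)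
 EL.nil)
noncomputable def S198_256_586_660_46 : EL := (EL.cons 15 (TM.mk (P.lf 4294967296 0 0) 0)
 EL.nil)
noncomputable def S198_256_586_660_47 : EL := (EL.cons 15 (TM.mk (P.cons (P.cons (P.lf 0 579912091 0) (P.cons (P.lf 0 363222316 0) (P.cons (P.lf 19874064 0 0) (P.lf 2208228 0 0)))) (P.cons (P.cons (P.lf 0 668964404 0) (P.cons (P.lf 0 69934520 0) (P.cons (P.lf 3826532 0 0) (P.lf 425168 0 0)))) (P.cons (P.cons (P.lf 0 178005595 0) (P.cons (P.lf 28270688 0 0) (P.cons (P.lf 0 1546856 0) (P.lf 0 171872 0)))) (P.cons (P.cons (P.lf 84059414 0 0) (P.cons (P.lf 6247380 0 0) (P.cons (P.lf 0 341828 0) P.nil))) (P.cons (P.cons (P.lf 15359031 0 0) (P.cons (P.lf 0 1025080 0) P.nil)) (P.cons (P.cons (P.lf 0 3008159 0) P.nil) P.nil)))))) 1693636)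
 EL.nil)
noncomputable def S198_256_586_660_48 : EL := (EL.cons 15 (TM.mk (P.cons (P.cons (P.lf 78300487 0 0) (P.cons (P.lf 98085502 0 0) (P.cons (P.lf 25350607 0 0) (P.cons (P.lf 0 3957786 0) (P.cons (P.lf 0 281533 0) (P.cons (P.lf 20436 0 0) P.nil)))))) (P.cons (P.cons (P.lf 180648894 0 0) (P.cons (P.lf 132032983 0 0) (P.cons (P.lf 4604312 0 0) (P.cons (P.lf 0 2097129 0) (P.cons (P.lf 0 108412 0) P.nil))))) (P.cons (P.cons (P.lf 152263922 0 0) (P.cons (P.lf 44258681 0 0) (P.cons (P.lf 0 6064583 0) (P.cons (P.lf 129579 0 0) P.nil)))) (P.cons (P.cons (P.lf 32751046 0 0) (P.cons (P.lf 0 18914478 0) (P.cons (P.lf 0 942407 0) P.nil))) (P.cons (P.cons (P.lf 0 22955540 0) (P.cons (P.lf 0 9347943 0) P.nil)) (P.cons (P.cons (P.lf 0 10939884 0) P.nil) P.nil)))))) 12288256)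
 EL.nil)
noncomputable def S198_256_586_660 : SL := (SL.cons S198_256_586_660_0 (SL.cons S198_256_586_660_1 (SL.cons S198_256_586_660_2 (SL.cons S198_256_586_660_3 (SL.cons S198_256_586_660_4 (SL.cons S198_256_586_660_5 (SL.cons S198_256_586_660_6 (SL.cons S198_256_586_660_7 (SL.cons S198_256_586_660_8 (SL.cons S198_256_586_660_9 (SL.cons S198_256_586_660_10 (SL.cons S198_256_586_660_11 (SL.cons S198_256_586_660_12 (SL.cons S198_256_586_660_13 (SL.cons S198_256_586_660_14 (SL.cons S198_256_586_660_15 (SL.cons S198_256_586_660_16 (SL.cons S198_256_586_660_17 (SL.cons S198_256_586_660_18 (SL.cons S198_256_586_660_19 (SL.cons S198_256_586_660_20 (SL.cons S198_256_586_660_21 (SL.cons S198_256_586_660_22 (SL.cons S198_256_586_660_23 (SL.cons S198_256_586_660_24 (SL.cons S198_256_586_660_25 (SL.cons S198_256_586_660_26 (SL.cons S198_256_586_660_27 (SL.cons S198_256_586_660_28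 (SL.cons S198_256_586_660_29 (SL.cons S198_256_586_660_30 (SL.cons S198_256_586_660_31 (SL.cons S198_256_586_660_32 (SL.cons S198_256_586_660_33 (SL.cons S198_256_586_660_34 (SL.cons S198_256_586_660_35 (SL.cons S198_256_586_660_36 (SL.cons S198_256_586_660_37 (SL.cons S198_256_586_660_38 (SL.cons S198_256_586_660_39 (SL.cons S198_256_586_660_40 (SL.cons S198_256_586_660_41 (SL.cons S198_256_586_660_42 (SL.cons S198_256_586_660_43 (SL.cons S198_256_586_660_44 (SL.cons S198_256_586_660_45 (SL.cons S198_256_586_660_46 (SL.cons S198_256_586_660_47 (SL.cons S198_256_586_660_48 SL.nil)))))))))))))))))))))))))))))))))))))))))))))))))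
noncomputable def S198_256_660_808_0 : EL := (EL.cons 0 (TM.mk (P.cons (P.lf 8080323868 0 0) (P.cons (P.lf 727079837 0 0) (P.cons (P.lf 0 317250402 0) (P.cons (P.lf 0 44091209 0) (P.cons (P.lf 8367597 0 0) (P.cons (P.lf 1467036 0 0) P.nil)))))) 311496)
 (EL.cons 1 (TM.mk (P.cons (P.lf 0 869508750 0) (P.cons (P.lf 786249082 0 0) (P.cons (P.lf 120498519 0 0) (P.cons (P.lf 0 33042157 0) (P.cons (P.lf 0 5010903 0) (P.cons (P.lf 683975 0 0) P.nil)))))) 177172)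
 (EL.cons 5 (TM.mk (P.cons (P.lf 4428440364 0 0) (P.cons (P.lf 0 258517274 0) (P.cons (P.lf 112800140 0 0) (P.cons (P.lf 15676876 0 0) (P.cons (P.lf 0 2975142 0) (P.cons (P.lf 0 521612 0) P.nil)))))) 117185)
 (EL.cons 9 (TM.mk (P.lf 6442450944 0 0) 2)
 EL.nil))))
noncomputable def S198_256_660_808_1 : EL := (EL.cons 0 (TM.mk (P.cons (P.cons (P.lf 0 1558163303 0) (P.cons (P.lf 0 596994711 0) (P.cons (P.lf 257430859 0 0) (P.lf 28603431 0 0)))) (P.cons (P.cons (P.lf 0 2566174942 0) (P.cons (P.lf 0 364616276 0) (P.cons (P.lf 157226643 0 0) (P.lf 17469617 0 0)))) (P.cons (P.cons (P.lf 0 1040519643 0) (P.cons (P.lf 107334757 0 0) (P.cons (P.lf 0 46283959 0) (P.lf 0 5142656 0)))) (P.cons (P.cons (P.lf 552945936 0 0) (P.cons (P.lf 65816651 0 0) (P.cons (P.lf 0 28380878 0) P.nil))) (P.cons (P.cons (P.lf 195492185 0 0) (P.cons (P.lf 0 5827882 0) P.nil)) (P.cons (P.cons (P.lf 0 35786000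 0) P.nil) P.nil)))))) 47736459)
 (EL.cons 1 (TM.mk (P.cons (P.cons (P.lf 1516237368 0 0) (P.cons (P.lf 179192149 0 0) (P.cons (P.lf 0 77269675 0) (P.lf 0 8585514 0)))) (P.cons (P.cons (P.lf 534279711 0 0) (P.cons (P.lf 0 112207572 0) (P.cons (P.lf 48385170 0 0) (P.lf 5376128 0 0)))) (P.cons (P.cons (P.lf 0 664364357 0) (P.cons (P.lf 0 89538006 0) (P.cons (P.lf 38609792 0 0) (P.lf 4289968 0 0)))) (P.cons (P.cons (P.lf 0 282870448 0) (P.cons (P.lf 12771795 0 0) (P.cons (P.lf 0 5507340 0) P.nil))) (P.cons (P.cons (P.lf 77547382 0 0) (P.cons (P.lf 10874572 0 0) P.nil)) (P.cons (P.cons (P.lf 32732414 0 0) P.nil) P.nil)))))) 27187942)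
 (EL.cons 5 (TM.mk (P.cons (P.cons (P.lf 0 1878839814 0) (P.cons (P.lf 0 414544660 0) (P.cons (P.lf 178756334 0 0) (P.lf 19861814 0 0)))) (P.cons (P.cons (P.lf 0 503426472 0) (P.cons (P.lf 8955974 0 0) (P.cons (P.lf 0 3861918 0) (P.lf 0 429100 0)))) (P.cons (P.cons (P.lf 179977637 0 0) (P.cons (P.lf 10623010 0 0) (P.cons (P.lf 0 4580764 0) (P.lf 0 508976 0)))) (P.cons (P.cons (P.lf 0 28813707 0) (P.cons (P.lf 0 12620424 0) (P.cons (P.lf 5442068 0 0) P.nil))) (P.cons (P.cons (P.lf 0 47481695 0) (P.cons (P.lf 303156 0 0) P.nil)) (P.cons (P.cons (P.lf 6460081 0 0) P.nil) P.nil)))))) 23444431)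
 (EL.cons 9 (TM.mk (P.cons (P.cons (P.lf 0 2146635382 0) (P.cons (P.lf 0 553067154 0) (P.cons (P.lf 238488798 0 0) (P.lf 26498754 0 0)))) (P.cons (P.cons (P.lf 0 1249274304 0) (P.cons (P.lf 0 106487082 0) (P.cons (P.lf 45918426 0 0) (P.lf 5102046 0 0)))) (P.cons (P.cons (P.lf 0 167633734 0) (P.cons (P.lf 43046886 0 0) (P.cons (P.lf 0 18562302 0) (P.lf 0 2062476 0)))) (P.cons (P.cons (P.lf 148049367 0 0) (P.cons (P.lf 9512688 0 0) (P.cons (P.lf 0 4101978 0) P.nil))) (P.cons (P.cons (P.lf 19435264 0 0) (P.cons (P.lf 0 1560858 0) P.nil)) (P.cons (P.cons (P.lf 0 5526892 0) P.nil) P.nil)))))) 4432273)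
 (EL.cons 2 (TM.mk (P.cons (P.cons (P.lf 249462011 0 0) (P.cons (P.lf 0 232396939 0) (P.cons (P.lf 0 23851485 0) (P.cons (P.lf 4960442 0 0) (P.lf 413370 0 0))))) (P.cons (P.cons (P.lf 0 209564415 0) (P.cons (P.lf 195228638 0 0) (P.cons (P.lf 20036806 0 0) (P.cons (P.lf 0 4167098 0) (P.lf 0 347256 0))))) (P.cons (P.cons (P.lf 0 56548015 0) (P.cons (P.lf 52679708 0 0) (P.cons (P.lf 5406651 0 0) (P.cons (P.lf 0 1124431 0) P.nil)))) (P.cons (P.cons (P.lf 13553007 0 0) (P.cons (P.lf 0 12625880 0) (P.cons (P.lf 0 1295825 0) P.nil))) (P.cons (P.cons (P.lf 3630990 0 0) (P.cons (P.lf 0 3382602 0) P.nil)) (P.cons (P.cons (P.lf 0 403219 0) P.nil) P.nil)))))) 2157056)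
 (EL.cons 6 (TM.mk (P.cons (P.cons (P.lf 577819521 0 0) (P.cons (P.lf 0 538292340 0) (P.cons (P.lf 0 55246302 0) (P.cons (P.lf 11489694 0 0) (P.lf 957471 0 0))))) (P.cons (P.cons (P.lf 111252885 0 0) (P.cons (P.lf 0 103642356 0) (P.cons (P.lf 0 10637076 0) (P.cons (P.lf 2212215 0 0) (P.lf 184350 0 0))))) (P.cons (P.cons (P.lf 0 44973438 0) (P.cons (P.lf 41896920 0 0) (P.cons (P.lf 4299984 0 0) (P.cons (P.lf 0 894276 0) P.nil)))) (P.cons (P.cons (P.lf 0 9938424 0) (P.cons (P.lf 9258564 0 0) (P.cons (P.lf 950229 0 0) P.nil))) (P.cons (P.cons (P.lf 1630713 0 0) (P.cons (P.lf 0 1519161 0) P.nil)) (P.cons (P.cons (P.lf 459195 0 0) P.nil) P.nil)))))) 1312485)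
 EL.nil))))))
noncomputable def S198_256_660_808_2 : EL := (EL.cons 0 (TM.mk (P.cons (P.cons (P.lf 141260593 0 0) (P.cons (P.lf 203100786 0 0) (P.cons (P.lf 0 44628636 0) (P.cons (P.lf 0 46772723 0) (P.cons (P.lf 3870658 0 0) (P.cons (P.lf 1774759 0 0) P.nil)))))) (P.cons (P.cons (P.lf 1189507220 0 0) (P.cons (P.lf 566994955 0 0) (P.cons (P.lf 0 190446377 0) (P.cons (P.lf 0 73778467 0) (P.cons (P.lf 4870738 0 0) P.nil))))) (P.cons (P.cons (P.lf 1267037511 0 0) (P.cons (P.lf 277625056 0 0) (P.cons (P.lf 0 126731358 0) (P.cons (P.lf 0 7250640 0) P.nil)))) (P.cons (P.cons (P.lf 145132435 0 0) (P.cons (P.lf 0 127657145 0) (P.cons (P.lf 39257097 0 0) P.nil))) (P.cons (P.cons (P.lf 0 309133532 0) (P.cons (P.lf 0 95347532 0) P.nil)) (P.cons (P.cons (P.lf 0 119908634 0) P.nil) P.nil)))))) 299476196)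
 (EL.cons 1 (TM.mk (P.cons (P.cons (P.lf 0 913889856 0) (P.cons (P.lf 0 330000395 0) (P.cons (P.lf 117941634 0 0) (P.cons (P.lf 36818202 0 0) (P.cons (P.lf 0 2195125 0) (P.cons (P.lf 0 1006498 0) P.nil)))))) (P.cons (P.cons (P.lf 0 919012157 0) (P.cons (P.lf 0 143030095 0) (P.cons (P.lf 71691040 0 0) (P.cons (P.lf 0 1784123 0) (P.cons (P.lf 902521 0 0) P.nil))))) (P.cons (P.cons (P.lf 89413750 0 0) (P.cons (P.lf 174383462 0 0) (P.cons (P.lf 0 57598259 0) (P.cons (P.lf 0 23531890 0) P.nil)))) (P.cons (P.cons (P.lf 428404067 0 0) (P.cons (P.lf 108144234 0 0) (P.cons (P.lf 0 46659978 0) P.nil))) (P.cons (P.cons (P.lf 119707875 0 0) (P.cons (P.lf 0 19172236 0) P.nil)) (P.cons (P.cons (P.lf 0 57567748 0) P.nil) P.nil)))))) 166831999)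
 (EL.cons 5 (TM.mk (P.cons (P.cons (P.lf 760404820 0 0) (P.cons (P.lf 345494286 0 0) (P.cons (P.lf 0 110442486 0) (P.cons (P.lf 0 49789943 0) (P.cons (P.lf 3473021 0 0) (P.cons (P.lf 1592430 0 0) P.nil)))))) (P.cons (P.cons (P.lf 520587414 0 0) (P.cons (P.lf 121919800 0 0) (P.cons (P.lf 0 51069319 0) (P.cons (P.lf 0 7138455 0) (P.cons (P.lf 135532 0 0) P.nil))))) (P.cons (P.cons (P.lf 0 49345200 0) (P.cons (P.lf 0 51798305 0) (P.cons (P.lf 18449116 0 0) (P.cons (P.lf 5833909 0 0) P.nil)))) (P.cons (P.cons (P.lf 0 89736929 0) (P.cons (P.lf 0 3244001 0) (P.cons (P.lf 3549283 0 0) P.nil))) (P.cons (P.cons (P.lf 35105941 0 0) (P.cons (P.lf 19031532 0 0) P.nil)) (P.cons (P.cons (P.lf 29534098 0 0) P.nil) P.nil)))))) 149066959)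
 (EL.cons 9 (TM.mk (P.cons (P.cons (P.lf 715262484 0 0) (P.cons (P.lf 368565792 0 0) (P.cons (P.lf 0 111450394 0) (P.cons (P.lf 0 58606105 0) (P.cons (P.lf 4278763 0 0) (P.cons (P.lf 1961878 0 0) P.nil)))))) (P.cons (P.cons (P.lf 832520556 0 0) (P.cons (P.lf 285457050 0 0) (P.cons (P.lf 0 104809035 0) (P.cons (P.lf 0 29444815 0) (P.cons (P.lf 1647658 0 0) P.nil))))) (P.cons (P.cons (P.lf 353962074 0 0) (P.cons (P.lf 41393661 0 0) (P.cons (P.lf 0 23480209 0) (P.cons (P.lf 2872857 0 0) P.nil)))) (P.cons (P.cons (P.lf 0 33647905 0) (P.cons (P.lf 0 42911635 0) (P.cons (P.lf 15447661 0 0) P.nil))) (P.cons (P.cons (P.lf 0 66007227 0) (P.cons (P.lf 0 13120417 0) P.nil)) (P.cons (P.cons (P.lf 0 11558899 0) P.nil) P.nil)))))) 41331307)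
 (EL.cons 2 (TM.mk (P.cons (P.cons (P.lf 0 166242313 0) (P.cons (P.lf 112038800 0 0) (P.cons (P.lf 74265350 0 0) (P.cons (P.lf 0 14364230 0) (P.cons (P.lf 0 4804801 0) (P.cons (P.lf 100068 0 0) P.nil)))))) (P.cons (P.cons (P.lf 42906622 0 0) (P.cons (P.lf 0 12237097 0) (P.cons (P.lf 0 41898898 0) (P.cons (P.lf 8013892 0 0) (P.cons (P.lf 3003958 0 0) P.nil))))) (P.cons (P.cons (P.lf 105976175 0 0) (P.cons (P.lf 0 78756165 0) (P.cons (P.lf 0 37348363 0) (P.cons (P.lf 7263438 0 0) P.nil)))) (P.cons (P.cons (P.lf 35270229 0 0) (P.cons (P.lf 0 35378921 0) (P.cons (P.lf 63978 0 0) P.nil))) (P.cons (P.cons (P.lf 0 12859700 0) (P.cons (P.lf 9413116 0 0) P.nil)) (P.cons (P.cons (P.lf 0 6136188 0) P.nil) P.nil)))))) 32215966)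
 (EL.cons 6 (TM.mk (P.cons (P.cons (P.lf 0 385060848 0) (P.cons (P.lf 259511286 0 0) (P.cons (P.lf 172018056 0 0) (P.cons (P.lf 0 33271326 0) (P.cons (P.lf 0 11129184 0) (P.cons (P.lf 231786 0 0) P.nil)))))) (P.cons (P.cons (P.lf 0 298232598 0) (P.cons (P.lf 239628210 0 0) (P.cons (P.lf 80577780 0 0) (P.cons (P.lf 0 15793836 0) (P.cons (P.lf 0 4534086 0) P.nil))))) (P.cons (P.cons (P.lf 0 43246218 0) (P.cons (P.lf 52053462 0 0) (P.cons (P.lf 0 11899362 0) (P.cons (P.lf 2177814 0 0) P.nil)))) (P.cons (P.cons (P.lf 44832132 0 0) (P.cons (P.lf 0 35379072 0) (P.cons (P.lf 0 12989616 0) P.nil))) (P.cons (P.cons (P.lf 13707612 0 0) (P.cons (P.lf 0 13273794 0) P.nil)) (P.cons (P.cons (P.lf 0 2808408 0) P.nil) P.nil)))))) 25978578)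
 EL.nil))))))
noncomputable def S198_256_660_808_3 : EL := (EL.cons 0 (TM.mk (P.cons (P.lf 375392995 0 0) (P.cons (P.lf 0 727079837 0) (P.cons (P.lf 317250402 0 0) (P.cons (P.lf 44091209 0 0) (P.cons (P.lf 0 8367597 0) (P.cons (P.lf 0 1467036 0) P.nil)))))) 311496)
 (EL.cons 1 (TM.mk (P.cons (P.lf 869508750 0 0) (P.cons (P.lf 0 786249082 0) (P.cons (P.lf 0 120498519 0) (P.cons (P.lf 33042157 0 0) (P.cons (P.lf 5010903 0 0) (P.cons (P.lf 0 683975 0) P.nil)))))) 177172)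
 (EL.cons 5 (TM.mk (P.cons (P.lf 2014010580 0 0) (P.cons (P.lf 258517274 0 0) (P.cons (P.lf 0 112800140 0) (P.cons (P.lf 0 15676876 0) (P.cons (P.lf 2975142 0 0) (P.cons (P.lf 521612 0 0) P.nil)))))) 117178)
 EL.nil)))
noncomputable def S198_256_660_808_4 : EL := (EL.cons 0 (TM.mk (P.cons (P.cons (P.lf 0 125081571 0) (P.cons (P.lf 0 32226482 0) (P.cons (P.lf 13896421 0 0) (P.lf 1544046 0 0)))) (P.cons (P.cons (P.lf 169470669 0 0) (P.cons (P.lf 56212996 0 0) (P.cons (P.lf 0 24239677 0) (P.lf 0 2693297 0)))) (P.cons (P.cons (P.lf 25513998 0 0) (P.cons (P.lf 0 12708929 0) (P.cons (P.lf 5480233 0 0) (P.lf 608915 0 0)))) (P.cons (P.cons (P.lf 0 48664819 0) (P.cons (P.lf 0 13332812 0) (P.cons (P.lf 5749258 0 0) P.nil))) (P.cons (P.cons (P.lf 0 29592704 0) (P.cons (P.lf 944813 0 0) P.nil)) (P.cons (P.cons (P.lf 5739183 0 0) P.nil) P.nil)))))) 9934728)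
 (EL.cons 1 (TM.mk (P.cons (P.cons (P.lf 0 289721761 0) (P.cons (P.lf 0 74644995 0) (P.cons (P.lf 32187763 0 0) (P.lf 3576416 0 0)))) (P.cons (P.cons (P.lf 93370545 0 0) (P.cons (P.lf 53125291 0 0) (P.cons (P.lf 0 22908225 0) (P.lf 0 2545357 0)))) (P.cons (P.cons (P.lf 169989365 0 0) (P.cons (P.lf 29150206 0 0) (P.cons (P.lf 0 12569896 0) (P.lf 0 1396653 0)))) (P.cons (P.cons (P.lf 52796415 0 0) (P.cons (P.lf 0 4814503 0) (P.cons (P.lf 2076067 0 0) P.nil))) (P.cons (P.cons (P.lf 0 20386685 0) (P.cons (P.lf 0 3153075 0) P.nil)) (P.cons (P.cons (P.lf 0 7490486 0) P.nil) P.nil)))))) 7071645)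
 (EL.cons 5 (TM.mk (P.cons (P.cons (P.lf 0 671071678 0) (P.cons (P.lf 0 172897412 0) (P.cons (P.lf 74555314 0 0) (P.lf 8283922 0 0)))) (P.cons (P.cons (P.lf 0 476681004 0) (P.cons (P.lf 0 55482536 0) (P.cons (P.lf 23924694 0 0) (P.lf 2658298 0 0)))) (P.cons (P.cons (P.lf 0 64949554 0) (P.cons (P.lf 18867692 0 0) (P.cons (P.lf 0 8135960 0) (P.lf 0 903994 0)))) (P.cons (P.cons (P.lf 66652836 0 0) (P.cons (P.lf 7911450 0 0) (P.cons (P.lf 0 3411506 0) P.nil))) (P.cons (P.cons (P.lf 17000272 0 0) (P.cons (P.lf 0 856218 0) P.nil)) (P.cons (P.cons (P.lf 0 3882894 0) P.nil) P.nil)))))) 4857324)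
 EL.nil)))
noncomputable def S198_256_660_808_5 : EL := (EL.cons 0 (TM.mk (P.cons (P.cons (P.lf 41677386 0 0) (P.cons (P.lf 21475835 0 0) (P.cons (P.lf 0 6494064 0) (P.cons (P.lf 0 3414898 0) (P.cons (P.lf 249317 0 0) (P.cons (P.lf 114315 0 0) P.nil)))))) (P.cons (P.cons (P.lf 0 32212979 0) (P.cons (P.lf 0 24962266 0) (P.cons (P.lf 6470945 0 0) (P.cons (P.lf 4898436 0 0) (P.cons (P.lf 0 386883 0) P.nil))))) (P.cons (P.cons (P.lf 0 38109209 0) (P.cons (P.lf 0 11654497 0) (P.cons (P.lf 4972104 0 0) (P.cons (P.lf 604485 0 0) P.nil)))) (P.cons (P.cons (P.lf 3983637 0 0) (P.cons (P.lf 9407388 0 0) (P.cons (P.lf 0 2373902 0) P.nil))) (P.cons (P.cons (P.lf 22150339 0 0) (P.cons (P.lf 7591700 0 0) P.nil)) (P.cons (P.cons (P.lf 6297243 0 0) P.nil) P.nil)))))) 30539273)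
 (EL.cons 1 (TM.mk (P.cons (P.cons (P.lf 96535771 0 0) (P.cons (P.lf 49743673 0 0) (P.cons (P.lf 0 15041958 0) (P.cons (P.lf 0 7909801 0) (P.cons (P.lf 577485 0 0) (P.cons (P.lf 264785 0 0) P.nil)))))) (P.cons (P.cons (P.lf 25069561 0 0) (P.cons (P.lf 0 6453615 0) (P.cons (P.lf 0 543984 0) (P.cons (P.lf 3178365 0 0) (P.cons (P.lf 0 299810 0) P.nil))))) (P.cons (P.cons (P.lf 0 67207878 0) (P.cons (P.lf 0 36144600 0) (P.cons (P.lf 11706624 0 0) (P.cons (P.lf 5077395 0 0) P.nil)))) (P.cons (P.cons (P.lf 0 59642390 0) (P.cons (P.lf 0 14292185 0) (P.cons (P.lf 6339191 0 0) P.nil))) (P.cons (P.cons (P.lf 0 6596516 0) (P.cons (P.lf 4442718 0 0) P.nil)) (P.cons (P.cons (P.lf 9511938 0 0) P.nil) P.nil)))))) 25344833)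
 (EL.cons 5 (TM.mk (P.cons (P.cons (P.lf 223602200 0 0) (P.cons (P.lf 115219410 0 0) (P.cons (P.lf 0 34841128 0) (P.cons (P.lf 0 18321182 0) (P.cons (P.lf 1337606 0 0) (P.cons (P.lf 613312 0 0) P.nil)))))) (P.cons (P.cons (P.lf 288960354 0 0) (P.cons (P.lf 104027822 0 0) (P.cons (P.lf 0 37237124 0) (P.cons (P.lf 0 11556604 0) (P.cons (P.lf 686778 0 0) P.nil))))) (P.cons (P.cons (P.lf 131537298 0 0) (P.cons (P.lf 17941706 0 0) (P.cons (P.lf 0 9594594 0) (P.cons (P.lf 742688 0 0) P.nil)))) (P.cons (P.cons (P.lf 0 12632372 0) (P.cons (P.lf 0 17648726 0) (P.cons (P.lf 5993274 0 0) P.nil))) (P.cons (P.cons (P.lf 0 29878084 0) (P.cons (P.lf 0 7072742 0) P.nil)) (P.cons (P.cons (P.lf 0 6091986 0) P.nil) P.nil)))))) 23292348)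
 EL.nil)))
noncomputable def S198_256_660_808_6 : EL := (EL.cons 12 (TM.mk (P.lf 8589934592 0 0) 0)
 (EL.cons 3 (TM.mk (P.cons (P.lf 0 897858742 0) (P.cons (P.lf 869508750 0 0) (P.cons (P.lf 41629830 0 0) (P.cons (P.lf 0 12412950 0) (P.cons (P.lf 0 1049171 0) (P.cons (P.lf 162840 0 0) P.nil)))))) 27209)
 (EL.cons 7 (TM.mk (P.cons (P.lf 0 2079676607 0) (P.cons (P.lf 0 133473065 0) (P.cons (P.lf 62522105 0 0) (P.cons (P.lf 4081356 0 0) (P.cons (P.lf 0 858201 0) (P.cons (P.lf 0 91532 0) P.nil)))))) 18219)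
 EL.nil)))
noncomputable def S198_256_660_808_7 : EL := (EL.cons 12 (TM.mk (P.cons (P.cons (P.lf 0 2862180510 0) (P.cons (P.lf 0 737422872 0) (P.cons (P.lf 317985064 0 0) (P.lf 35331672 0 0)))) (P.cons (P.cons (P.lf 0 1665699072 0) (P.cons (P.lf 0 141982776 0) (P.cons (P.lf 61224568 0 0) (P.lf 6802728 0 0)))) (P.cons (P.cons (P.lf 0 223511646 0) (P.cons (P.lf 57395848 0 0) (P.cons (P.lf 0 24749736 0) (P.lf 0 2749968 0)))) (P.cons (P.cons (P.lf 197399156 0 0) (P.cons (P.lf 12683584 0 0) (P.cons (P.lf 0 5469304 0) P.nil))) (P.cons (P.cons (P.lf 25913686 0 0) (P.cons (P.lf 0 2081144 0) P.nil)) (P.cons (P.cons (P.lf 0 7369190 0) P.nil) P.nil)))))) 5909672)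
 (EL.cons 3 (TM.mk (P.cons (P.cons (P.lf 0 2413626364 0) (P.cons (P.lf 0 154157534 0) (P.cons (P.lf 66474468 0 0) (P.lf 7386050 0 0)))) (P.cons (P.cons (P.lf 0 932096984 0) (P.cons (P.lf 119608630 0 0) (P.cons (P.lf 0 51576592 0) (P.lf 0 5730730 0)))) (P.cons (P.cons (P.lf 825835917 0 0) (P.cons (P.lf 47890332 0 0) (P.cons (P.lf 0 20650850 0) (P.lf 0 2294536 0)))) (P.cons (P.cons (P.lf 164934674 0 0) (P.cons (P.lf 0 9723240 0) (P.cons (P.lf 4192770 0 0) P.nil))) (P.cons (P.cons (P.lf 0 51280841 0) (P.cons (P.lf 0 4149632 0) P.nil)) (P.cons (P.cons (P.lf 0 11991643 0) P.nil) P.nil)))))) 17813569)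
 (EL.cons 7 (TM.mk (P.cons (P.cons (P.lf 1109376482 0 0) (P.cons (P.lf 214030368 0 0) (P.cons (P.lf 0 92292309 0) (P.lf 0 10254702 0)))) (P.cons (P.cons (P.lf 143080616 0 0) (P.cons (P.lf 0 18360398 0) (P.cons (P.lf 7917210 0 0) (P.lf 879689 0 0)))) (P.cons (P.cons (P.lf 0 200641955 0) (P.cons (P.lf 2128157 0 0) (P.cons (P.lf 0 917685 0) (P.lf 0 101965 0)))) (P.cons (P.cons (P.lf 64333355 0 0) (P.cons (P.lf 6247428 0 0) (P.cons (P.lf 0 2693961 0) P.nil))) (P.cons (P.cons (P.lf 23651771 0 0) (P.cons (P.lf 0 617855 0) P.nil)) (P.cons (P.cons (P.lf 0 4444333 0) P.nil) P.nil)))))) 12631842)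
 (EL.cons 10 (TM.mk (P.cons (P.cons (P.lf 0 1193318205 0) (P.cons (P.lf 1111686303 0 0) (P.cons (P.lf 114095178 0 0) (P.cons (P.lf 0 23728623 0) (P.lf 0 1977384 0))))) (P.cons (P.cons (P.lf 0 153173658 0) (P.cons (P.lf 142695432 0 0) (P.cons (P.lf 14645193 0 0) (P.cons (P.lf 0 3045792 0) (P.lf 0 253815 0))))) (P.cons (P.cons (P.lf 66835029 0 0) (P.cons (P.lf 0 62263014 0) (P.cons (P.lf 0 6390210 0) (P.cons (P.lf 1328985 0 0) P.nil)))) (P.cons (P.cons (P.lf 9288678 0 0) (P.cons (P.lf 0 8653263 0) (P.cons (P.lf 0 888105 0) P.nil))) (P.cons (P.cons (P.lf 0 1762794 0) (P.cons (P.lf 1642206 0 0) P.nil)) (P.cons (P.cons (P.lf 0 309057 0) P.nil) P.nil)))))) 983838)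
 EL.nil))))
noncomputable def S198_256_660_808_8 : EL := (EL.cons 12 (TM.mk (P.cons (P.cons (P.lf 953683312 0 0) (P.cons (P.lf 491421056 0 0) (P.cons (P.lf 0 148600526 0) (P.cons (P.lf 0 78141474 0) (P.cons (P.lf 5705018 0 0) (P.cons (P.lf 2615838 0 0) P.nil)))))) (P.cons (P.cons (P.lf 1110027408 0 0) (P.cons (P.lf 380609400 0 0) (P.cons (P.lf 0 139745380 0) (P.cons (P.lf 0 39259754 0) (P.cons (P.lf 2196878 0 0) P.nil))))) (P.cons (P.cons (P.lf 471949432 0 0) (P.cons (P.lf 55191548 0 0) (P.cons (P.lf 0 31306946 0) (P.cons (P.lf 3830476 0 0) P.nil)))) (P.cons (P.cons (P.lf 0 44863874 0) (P.cons (P.lf 0 57215514 0) (P.cons (P.lf 20596882 0 0) P.nil))) (P.cons (P.cons (P.lf 0 88009636 0) (P.cons (P.lf 0 17493890 0) P.nil)) (P.cons (P.cons (P.lf 0 15411866 0) P.nil) P.nil)))))) 55108380)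
 (EL.cons 3 (TM.mk (P.cons (P.cons (P.lf 1708131932 0 0) (P.cons (P.lf 568503351 0 0) (P.cons (P.lf 0 212060029 0) (P.cons (P.lf 0 55771608 0) (P.cons (P.lf 2981571 0 0) (P.cons (P.lf 1367095 0 0) P.nil)))))) (P.cons (P.cons (P.lf 1576708381 0 0) (P.cons (P.lf 209943588 0 0) (P.cons (P.lf 0 109830076 0) (P.cons (P.lf 6585894 0 0) (P.cons (P.lf 0 1739285 0) P.nil))))) (P.cons (P.cons (P.lf 0 130895736 0) (P.cons (P.lf 0 248651677 0) (P.cons (P.lf 89425640 0 0) (P.cons (P.lf 27260955 0 0) P.nil)))) (P.cons (P.cons (P.lf 0 549081966 0) (P.cons (P.lf 0 113307395 0) (P.cons (P.lf 50396194 0 0) P.nil))) (P.cons (P.cons (P.lf 0 135395875 0) (P.cons (P.lf 25722033 0 0) P.nil)) (P.cons (P.cons (P.lf 64084060 0 0) P.nil) P.nil)))))) 175866815)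
 (EL.cons 7 (TM.mk (P.cons (P.cons (P.lf 0 508399515 0) (P.cons (P.lf 0 214128451 0) (P.cons (P.lf 70913455 0 0) (P.cons (P.lf 28733475 0 0) (P.cons (P.lf 0 1930436 0) (P.cons (P.lf 0 885130 0) P.nil)))))) (P.cons (P.cons (P.lf 0 242031042 0) (P.cons (P.lf 0 32227188 0) (P.cons (P.lf 16859360 0 0) (P.cons (P.lf 0 1010957 0) (P.cons (P.lf 266984 0 0) P.nil))))) (P.cons (P.cons (P.lf 145054189 0 0) (P.cons (P.lf 54807990 0 0) (P.cons (P.lf 0 22431713 0) (P.cons (P.lf 0 3662702 0) P.nil)))) (P.cons (P.cons (P.lf 66422749 0 0) (P.cons (P.lf 0 9419325 0) (P.cons (P.lf 1994638 0 0) P.nil))) (P.cons (P.cons (P.lf 0 42872797 0) (P.cons (P.lf 0 16316202 0) P.nil)) (P.cons (P.cons (P.lf 0 24696222 0) P.nil) P.nil)))))) 87521020)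
 (EL.cons 10 (TM.mk (P.cons (P.cons (P.lf 795231222 0 0) (P.cons (P.lf 0 535945110 0) (P.cons (P.lf 0 355253286 0) (P.cons (P.lf 68712258 0 0) (P.cons (P.lf 22984098 0 0) (P.cons (P.lf 0 478698 0) P.nil)))))) (P.cons (P.cons (P.lf 564875004 0 0) (P.cons (P.lf 0 460485582 0) (P.cons (P.lf 0 143609922 0) (P.cons (P.lf 28207644 0 0) (P.cons (P.lf 7888728 0 0) P.nil))))) (P.cons (P.cons (P.lf 76966314 0 0) (P.cons (P.lf 0 94059774 0) (P.cons (P.lf 23111412 0 0) (P.cons (P.lf 0 4242288 0) P.nil)))) (P.cons (P.cons (P.lf 0 78984726 0) (P.cons (P.lf 64206378 0 0) (P.cons (P.lf 20328420 0 0) P.nil))) (P.cons (P.cons (P.lf 0 20145606 0) (P.cons (P.lf 19782132 0 0) P.nil)) (P.cons (P.cons (P.lf 4601292 0 0) P.nil) P.nil)))))) 37876884)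
 EL.nil))))
noncomputable def S198_256_660_808_9 : EL := (EL.cons 3 (TM.mk (P.cons (P.lf 0 897858742 0) (P.cons (P.lf 869508750 0 0) (P.cons (P.lf 41629830 0 0) (P.cons (P.lf 0 12412950 0) (P.cons (P.lf 0 1049171 0) (P.cons (P.lf 162840 0 0) P.nil)))))) 27209)
 (EL.cons 7 (TM.mk (P.cons (P.lf 0 2079676607 0) (P.cons (P.lf 0 133473065 0) (P.cons (P.lf 62522105 0 0) (P.cons (P.lf 4081356 0 0) (P.cons (P.lf 0 858201 0) (P.cons (P.lf 0 91532 0) P.nil)))))) 18219)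
 EL.nil))
noncomputable def S198_256_660_808_10 : EL := (EL.cons 3 (TM.mk (P.cons (P.cons (P.lf 299168027 0 0) (P.cons (P.lf 77078767 0 0) (P.cons (P.lf 0 33237234 0) (P.lf 0 3693025 0)))) (P.cons (P.cons (P.lf 0 115615376 0) (P.cons (P.lf 0 59804315 0) (P.cons (P.lf 25788296 0 0) (P.lf 2865365 0 0)))) (P.cons (P.cons (P.lf 0 159117639 0) (P.cons (P.lf 0 23945166 0) (P.cons (P.lf 10325425 0 0) (P.lf 1147268 0 0)))) (P.cons (P.cons (P.lf 0 47194369 0) (P.cons (P.lf 4861620 0 0) (P.cons (P.lf 0 2096385 0) P.nil))) (P.cons (P.cons (P.lf 18946345 0 0) (P.cons (P.lf 2074816 0 0) P.nil)) (P.cons (P.cons (P.lf 4822193 0 0) P.nil) P.nil)))))) 4326984)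
 (EL.cons 7 (TM.mk (P.cons (P.cons (P.lf 692951708 0 0) (P.cons (P.lf 178534665 0 0) (P.cons (P.lf 0 76986162 0) (P.lf 0 8554017 0)))) (P.cons (P.cons (P.lf 447749555 0 0) (P.cons (P.lf 45833218 0 0) (P.cons (P.lf 0 19763799 0) (P.lf 0 2195977 0)))) (P.cons (P.cons (P.lf 59163238 0 0) (P.cons (P.lf 0 17057074 0) (P.cons (P.lf 7355202 0 0) (P.lf 817244 0 0)))) (P.cons (P.cons (P.lf 0 57802327 0) (P.cons (P.lf 0 5346408 0) (P.cons (P.lf 2305431 0 0) P.nil))) (P.cons (P.cons (P.lf 0 11473423 0) (P.cons (P.lf 730747 0 0) P.nil)) (P.cons (P.cons (P.lf 2908964 0 0) P.nil) P.nil)))))) 2854796)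
 EL.nil))
noncomputable def S198_256_660_808_11 : EL := (EL.cons 3 (TM.mk (P.cons (P.cons (P.lf 0 99683284 0) (P.cons (P.lf 0 51365547 0) (P.cons (P.lf 15532397 0 0) (P.cons (P.lf 8167698 0 0) (P.cons (P.lf 0 596313 0) (P.cons (P.lf 0 273419 0) P.nil)))))) (P.cons (P.cons (P.lf 0 19489301 0) (P.cons (P.lf 9960660 0 0) (P.cons (P.lf 0 435142 0) (P.cons (P.lf 0 3806196 0) (P.cons (P.lf 347857 0 0) P.nil))))) (P.cons (P.cons (P.lf 67653168 0 0) (P.cons (P.lf 35139587 0 0) (P.cons (P.lf 0 11593432 0) (P.cons (P.lf 0 4753113 0) P.nil)))) (P.cons (P.cons (P.lf 56463504 0 0) (P.cons (P.lf 12701575 0 0) (P.cons (P.lf 0 5784416 0) P.nil))) (P.cons (P.cons (P.lf 5224553 0 0) (P.cons (P.lf 0 4305597 0) P.nil)) (P.cons (P.cons (P.lf 0 8314700 0) P.nil) P.nil)))))) 20497459)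
 (EL.cons 7 (TM.mk (P.cons (P.cons (P.lf 0 230892663 0) (P.cons (P.lf 0 118976095 0) (P.cons (P.lf 35977111 0 0) (P.cons (P.lf 18918537 0 0) (P.cons (P.lf 0 1381220 0) (P.cons (P.lf 0 633310 0) P.nil)))))) (P.cons (P.cons (P.lf 0 283563168 0) (P.cons (P.lf 0 99783756 0) (P.cons (P.lf 36142226 0 0) (P.cons (P.lf 10719217 0 0) (P.cons (P.lf 0 620524 0) P.nil))))) (P.cons (P.cons (P.lf 0 124568429 0) (P.cons (P.lf 0 15699420 0) (P.cons (P.lf 8669419 0 0) (P.cons (P.lf 0 886106 0) P.nil)))) (P.cons (P.cons (P.lf 12061021 0 0) (P.cons (P.lf 15998415 0 0) (P.cons (P.lf 0 5587922 0) P.nil))) (P.cons (P.cons (P.lf 25872017 0 0) (P.cons (P.lf 5657868 0 0) P.nil)) (P.cons (P.cons (P.lf 4875462 0 0) P.nil) P.nil)))))) 18150960)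
 EL.nil))
noncomputable def S198_256_660_808_12 : EL := (EL.cons 4 (TM.mk (P.cons (P.lf 897858742 0 0) (P.cons (P.lf 0 869508750 0) (P.cons (P.lf 0 41629830 0) (P.cons (P.lf 12412950 0 0) (P.cons (P.lf 1049171 0 0) (P.cons (P.lf 0 162840 0) P.nil)))))) 27209)
 (EL.cons 8 (TM.mk (P.cons (P.lf 2079676607 0 0) (P.cons (P.lf 133473065 0 0) (P.cons (P.lf 0 62522105 0) (P.cons (P.lf 0 4081356 0) (P.cons (P.lf 858201 0 0) (P.cons (P.lf 91532 0 0) P.nil)))))) 18219)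
 EL.nil))
noncomputable def S198_256_660_808_13 : EL := (EL.cons 4 (TM.mk (P.cons (P.cons (P.lf 0 299168027 0) (P.cons (P.lf 0 77078767 0) (P.cons (P.lf 33237234 0 0) (P.lf 3693025 0 0)))) (P.cons (P.cons (P.lf 115615376 0 0) (P.cons (P.lf 59804315 0 0) (P.cons (P.lf 0 25788296 0) (P.lf 0 2865365 0)))) (P.cons (P.cons (P.lf 159117639 0 0) (P.cons (P.lf 23945166 0 0) (P.cons (P.lf 0 10325425 0) (P.lf 0 1147268 0)))) (P.cons (P.cons (P.lf 47194369 0 0) (P.cons (P.lf 0 4861620 0) (P.cons (P.lf 2096385 0 0) P.nil))) (P.cons (P.cons (P.lf 0 18946345 0) (P.cons (P.lf 0 2074816 0) P.nil)) (P.cons (P.cons (P.lf 0 4822193 0) P.nil) P.nil)))))) 4326984)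
 (EL.cons 8 (TM.mk (P.cons (P.cons (P.lf 0 692951708 0) (P.cons (P.lf 0 178534665 0) (P.cons (P.lf 76986162 0 0) (P.lf 8554017 0 0)))) (P.cons (P.cons (P.lf 0 447749555 0) (P.cons (P.lf 0 45833218 0) (P.cons (P.lf 19763799 0 0) (P.lf 2195977 0 0)))) (P.cons (P.cons (P.lf 0 59163238 0) (P.cons (P.lf 17057074 0 0) (P.cons (P.lf 0 7355202 0) (P.lf 0 817244 0)))) (P.cons (P.cons (P.lf 57802327 0 0) (P.cons (P.lf 5346408 0 0) (P.cons (P.lf 0 2305431 0) P.nil))) (P.cons (P.cons (P.lf 11473423 0 0) (P.cons (P.lf 0 730747 0) P.nil)) (P.cons (P.cons (P.lf 0 2908964 0) P.nil) P.nil)))))) 2854796)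
 EL.nil))
noncomputable def S198_256_660_808_14 : EL := (EL.cons 4 (TM.mk (P.cons (P.cons (P.lf 99683284 0 0) (P.cons (P.lf 51365547 0 0) (P.cons (P.lf 0 15532397 0) (P.cons (P.lf 0 8167698 0) (P.cons (P.lf 596313 0 0) (P.cons (P.lf 273419 0 0) P.nil)))))) (P.cons (P.cons (P.lf 19489301 0 0) (P.cons (P.lf 0 9960660 0) (P.cons (P.lf 435142 0 0) (P.cons (P.lf 3806196 0 0) (P.cons (P.lf 0 347857 0) P.nil))))) (P.cons (P.cons (P.lf 0 67653168 0) (P.cons (P.lf 0 35139587 0) (P.cons (P.lf 11593432 0 0) (P.cons (P.lf 4753113 0 0) P.nil)))) (P.cons (P.cons (P.lf 0 56463504 0) (P.cons (P.lf 0 12701575 0) (P.cons (P.lf 5784416 0 0) P.nil))) (P.cons (P.cons (P.lf 0 5224553 0) (P.cons (P.lf 4305597 0 0) P.nil)) (P.cons (P.cons (P.lf 8314700 0 0) P.nil) P.nil)))))) 20497459)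
 (EL.cons 8 (TM.mk (P.cons (P.cons (P.lf 230892663 0 0) (P.cons (P.lf 118976095 0 0) (P.cons (P.lf 0 35977111 0) (P.cons (P.lf 0 18918537 0) (P.cons (P.lf 1381220 0 0) (P.cons (P.lf 633310 0 0) P.nil)))))) (P.cons (P.cons (P.lf 283563168 0 0) (P.cons (P.lf 99783756 0 0) (P.cons (P.lf 0 36142226 0) (P.cons (P.lf 0 10719217 0) (P.cons (P.lf 620524 0 0) P.nil))))) (P.cons (P.cons (P.lf 124568429 0 0) (P.cons (P.lf 15699420 0 0) (P.cons (P.lf 0 8669419 0) (P.cons (P.lf 886106 0 0) P.nil)))) (P.cons (P.cons (P.lf 0 12061021 0) (P.cons (P.lf 0 15998415 0) (P.cons (P.lf 5587922 0 0) P.nil))) (P.cons (P.cons (P.lf 0 25872017 0) (P.cons (P.lf 0 5657868 0) P.nil)) (P.cons (P.cons (P.lf 0 4875462 0) P.nil) P.nil)))))) 18150960)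
 EL.nil))
noncomputable def S198_256_660_808_15 : EL := (EL.cons 4 (TM.mk (P.cons (P.lf 0 200209597 0) (P.cons (P.lf 387775913 0 0) (P.cons (P.lf 0 169200214 0) (P.cons (P.lf 0 23515311 0) (P.cons (P.lf 4462718 0 0) (P.cons (P.lf 782419 0 0) P.nil)))))) 166134)
 (EL.cons 8 (TM.mk (P.cons (P.lf 0 463738000 0) (P.cons (P.lf 419332844 0 0) (P.cons (P.lf 64265877 0 0) (P.cons (P.lf 0 17622484 0) (P.cons (P.lf 0 2672482 0) (P.cons (P.lf 364787 0 0) P.nil)))))) 94488)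
 EL.nil))
noncomputable def S198_256_660_808_16 : EL := (EL.cons 4 (TM.mk (P.cons (P.cons (P.lf 66710171 0 0) (P.cons (P.lf 17187457 0 0) (P.cons (P.lf 0 7411425 0) (P.lf 0 823491 0)))) (P.cons (P.cons (P.lf 0 90384357 0) (P.cons (P.lf 0 29980264 0) (P.cons (P.lf 12927827 0 0) (P.lf 1436425 0 0)))) (P.cons (P.cons (P.lf 0 13607465 0) (P.cons (P.lf 6778095 0 0) (P.cons (P.lf 0 2922791 0) (P.lf 0 324754 0)))) (P.cons (P.cons (P.lf 25954570 0 0) (P.cons (P.lf 7110833 0 0) (P.cons (P.lf 0 3066270 0) P.nil))) (P.cons (P.cons (P.lf 15782775 0 0) (P.cons (P.lf 0 503900 0) P.nil)) (P.cons (P.cons (P.lf 0 3060898 0) P.nil) P.nil)))))) 5298530)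
 (EL.cons 8 (TM.mk (P.cons (P.cons (P.lf 154518273 0 0) (P.cons (P.lf 39810664 0 0) (P.cons (P.lf 0 17166807 0) (P.lf 0 1907422 0)))) (P.cons (P.cons (P.lf 0 49797624 0) (P.cons (P.lf 0 28333489 0) (P.cons (P.lf 12217720 0 0) (P.lf 1357524 0 0)))) (P.cons (P.cons (P.lf 0 90660995 0) (P.cons (P.lf 0 15546777 0) (P.cons (P.lf 6703945 0 0) (P.lf 744882 0 0)))) (P.cons (P.cons (P.lf 0 28158088 0) (P.cons (P.lf 2567735 0 0) (P.cons (P.lf 0 1107236 0) P.nil))) (P.cons (P.cons (P.lf 10872899 0 0) (P.cons (P.lf 1681640 0 0) P.nil)) (P.cons (P.cons (P.lf 3994926 0 0) P.nil) P.nil)))))) 3771534)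
 EL.nil))
noncomputable def S198_256_660_808_17 : EL := (EL.cons 4 (TM.mk (P.cons (P.cons (P.lf 0 22227939 0) (P.cons (P.lf 0 11453778 0) (P.cons (P.lf 3463500 0 0) (P.cons (P.lf 1821279 0 0) (P.cons (P.lf 0 132969 0) (P.cons (P.lf 0 60968 0) P.nil)))))) (P.cons (P.cons (P.lf 17180255 0 0) (P.cons (P.lf 13313208 0 0) (P.cons (P.lf 0 3451170 0) (P.cons (P.lf 0 2612499 0) (P.cons (P.lf 206338 0 0) P.nil))))) (P.cons (P.cons (P.lf 20324911 0 0) (P.cons (P.lf 6215731 0 0) (P.cons (P.lf 0 2651789 0) (P.cons (P.lf 0 322392 0) P.nil)))) (P.cons (P.cons (P.lf 0 2124606 0) (P.cons (P.lf 0 5017274 0) (P.cons (P.lf 1266081 0 0) P.nil))) (P.cons (P.cons (P.lf 0 11813514 0) (P.cons (P.lf 0 4048906 0) P.nil)) (P.cons (P.cons (P.lf 0 3358530 0) P.nil) P.nil)))))) 16287622)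
 (EL.cons 8 (TM.mk (P.cons (P.cons (P.lf 0 51485745 0) (P.cons (P.lf 0 26529959 0) (P.cons (P.lf 8022378 0 0) (P.cons (P.lf 4218561 0 0) (P.cons (P.lf 0 307992 0) (P.cons (P.lf 0 141219 0) P.nil)))))) (P.cons (P.cons (P.lf 0 13370433 0) (P.cons (P.lf 3441928 0 0) (P.cons (P.lf 290125 0 0) (P.cons (P.lf 0 1695128 0) (P.cons (P.lf 159899 0 0) P.nil))))) (P.cons (P.cons (P.lf 35844202 0 0) (P.cons (P.lf 19277120 0 0) (P.cons (P.lf 0 6243533 0) (P.cons (P.lf 0 2707944 0) P.nil)))) (P.cons (P.cons (P.lf 31809275 0 0) (P.cons (P.lf 7622499 0 0) (P.cons (P.lf 0 3380902 0) P.nil))) (P.cons (P.cons (P.lf 3518142 0 0) (P.cons (P.lf 0 2369450 0) P.nil)) (P.cons (P.cons (P.lf 0 5073034 0) P.nil) P.nil)))))) 13517233)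
 EL.nil))
noncomputable def S198_256_660_808_18 : EL := (EL.cons 4 (TM.mk (P.cons (P.lf 44643862 0 0) (P.cons (P.lf 0 129702684 0) (P.cons (P.lf 119397478 0 0) (P.cons (P.lf 0 26667962 0) (P.cons (P.lf 0 8965736 0) (P.cons (P.lf 958581 0 0) P.nil)))))) 467642)
 (EL.cons 8 (TM.mk (P.cons (P.lf 103406910 0 0) (P.cons (P.lf 0 193647023 0) (P.cons (P.lf 71427862 0 0) (P.cons (P.lf 23572483 0 0) (P.cons (P.lf 0 3717003 0) (P.cons (P.lf 0 1166783 0) P.nil)))))) 289701)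
 EL.nil))
noncomputable def S198_256_660_808_19 : EL := (EL.cons 4 (TM.mk (P.cons (P.cons (P.lf 0 14875409 0) (P.cons (P.lf 0 3832555 0) (P.cons (P.lf 1652640 0 0) (P.lf 183626 0 0)))) (P.cons (P.cons (P.lf 34560129 0 0) (P.cons (P.lf 10396710 0 0) (P.cons (P.lf 0 4483178 0) (P.lf 0 498130 0)))) (P.cons (P.cons (P.lf 0 15794056 0) (P.cons (P.lf 0 7807801 0) (P.cons (P.lf 3366811 0 0) (P.lf 374089 0 0)))) (P.cons (P.cons (P.lf 0 9866084 0) (P.cons (P.lf 0 484865 0) (P.cons (P.lf 209079 0 0) P.nil))) (P.cons (P.cons (P.lf 2205990 0 0) (P.cons (P.lf 1805932 0 0) P.nil)) (P.cons (P.cons (P.lf 4427283 0 0) P.nil) P.nil)))))) 4991493)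
 (EL.cons 8 (TM.mk (P.cons (P.cons (P.lf 0 34455354 0) (P.cons (P.lf 0 8877206 0) (P.cons (P.lf 3827951 0 0) (P.lf 425327 0 0)))) (P.cons (P.cons (P.lf 44471577 0 0) (P.cons (P.lf 14914868 0 0) (P.cons (P.lf 0 6431459 0) (P.lf 0 714606 0)))) (P.cons (P.cons (P.lf 11060105 0 0) (P.cons (P.lf 0 2240164 0) (P.cons (P.lf 965984 0 0) (P.lf 107331 0 0)))) (P.cons (P.cons (P.lf 0 14290122 0) (P.cons (P.lf 0 4345478 0) (P.cons (P.lf 1873819 0 0) P.nil))) (P.cons (P.cons (P.lf 0 9329173 0) (P.cons (P.lf 95743 0 0) P.nil)) (P.cons (P.cons (P.lf 1464725 0 0) P.nil) P.nil)))))) 3879652)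
 EL.nil))
noncomputable def S198_256_660_808_20 : EL := (EL.cons 4 (TM.mk (P.cons (P.cons (P.lf 4956510 0 0) (P.cons (P.lf 2554027 0 0) (P.cons (P.lf 0 772310 0) (P.cons (P.lf 0 406118 0) (P.cons (P.lf 29649 0 0) (P.cons (P.lf 13594 0 0) P.nil)))))) (P.cons (P.cons (P.lf 0 8630958 0) (P.cons (P.lf 0 5442038 0) (P.cons (P.lf 1517486 0 0) (P.cons (P.lf 975845 0 0) (P.cons (P.lf 0 74724 0) P.nil))))) (P.cons (P.cons (P.lf 0 1051987 0) (P.cons (P.lf 1370479 0 0) (P.cons (P.lf 0 118142 0) (P.cons (P.lf 0 473436 0) P.nil)))) (P.cons (P.cons (P.lf 5108964 0 0) (P.cons (P.lf 2633987 0 0) (P.cons (P.lf 0 901316 0) P.nil))) (P.cons (P.cons (P.lf 2338410 0 0) (P.cons (P.lf 0 154399 0) P.nil)) (P.cons (P.cons (P.lf 0 1892161 0) P.nil) P.nil)))))) 11127652)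
 (EL.cons 8 (TM.mk (P.cons (P.cons (P.lf 11480581 0 0) (P.cons (P.lf 5915799 0 0) (P.cons (P.lf 0 1788874 0) (P.cons (P.lf 0 940678 0) (P.cons (P.lf 68677 0 0) (P.cons (P.lf 31489 0 0) P.nil)))))) (P.cons (P.cons (P.lf 0 8136665 0) (P.cons (P.lf 0 6496508 0) (P.cons (P.lf 1667697 0 0) (P.cons (P.lf 1288965 0 0) (P.cons (P.lf 0 102164 0) P.nil))))) (P.cons (P.cons (P.lf 0 11412323 0) (P.cons (P.lf 0 3829544 0) (P.cons (P.lf 1537811 0 0) (P.cons (P.lf 281393 0 0) P.nil)))) (P.cons (P.cons (P.lf 667843 0 0) (P.cons (P.lf 2580458 0 0) (P.cons (P.lf 0 616097 0) P.nil))) (P.cons (P.cons (P.lf 6509775 0 0) (P.cons (P.lf 2369998 0 0) P.nil)) (P.cons (P.cons (P.lf 2110712 0 0) P.nil) P.nil)))))) 10088100)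
 EL.nil))
noncomputable def S198_256_660_808_21 : EL := (EL.cons 4 (TM.mk (P.cons (P.cons (P.lf 2712794391 0 0) (P.cons (P.lf 231236301 0 0) (P.cons (P.lf 0 99711702 0) (P.lf 0 11079075 0)))) (P.cons (P.cons (P.lf 816481608 0 0) (P.cons (P.lf 0 179412945 0) (P.cons (P.lf 77364888 0 0) (P.lf 8596095 0 0)))) (P.cons (P.cons (P.lf 0 984953556 0) (P.cons (P.lf 0 71835498 0) (P.cons (P.lf 30976275 0 0) (P.lf 3441804 0 0)))) (P.cons (P.cons (P.lf 0 212129043 0) (P.cons (P.lf 14584860 0 0) (P.cons (P.lf 0 6289155 0) P.nil))) (P.cons (P.cons (P.lf 70227186 0 0) (P.cons (P.lf 6224448 0 0) P.nil)) (P.cons (P.cons (P.lf 16813836 0 0) P.nil) P.nil)))))) 13486566)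
 (EL.cons 8 (TM.mk (P.cons (P.cons (P.lf 0 416424774 0) (P.cons (P.lf 0 35495703 0) (P.cons (P.lf 15306147 0 0) (P.lf 1700685 0 0)))) (P.cons (P.cons (P.lf 304668939 0 0) (P.cons (P.lf 64193616 0 0) (P.cons (P.lf 0 27681009 0) (P.lf 0 3075666 0)))) (P.cons (P.cons (P.lf 259805193 0 0) (P.cons (P.lf 0 19185231 0) (P.cons (P.lf 8272887 0 0) (P.lf 919209 0 0)))) (P.cons (P.cons (P.lf 0 122135682 0) (P.cons (P.lf 0 11593836 0) (P.cons (P.lf 4999392 0 0) P.nil))) (P.cons (P.cons (P.lf 0 35125194 0) (P.cons (P.lf 1348602 0 0) P.nil)) (P.cons (P.cons (P.lf 7353297 0 0) P.nil) P.nil)))))) 9777027)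
 (EL.cons 11 (TM.mk (P.cons (P.cons (P.lf 1193318205 0 0) (P.cons (P.lf 0 1111686303 0) (P.cons (P.lf 0 114095178 0) (P.cons (P.lf 23728623 0 0) (P.lf 1977384 0 0))))) (P.cons (P.cons (P.lf 153173658 0 0) (P.cons (P.lf 0 142695432 0) (P.cons (P.lf 0 14645193 0) (P.cons (P.lf 3045792 0 0) (P.lf 253815 0 0))))) (P.cons (P.cons (P.lf 0 66835029 0) (P.cons (P.lf 62263014 0 0) (P.cons (P.lf 6390210 0 0) (P.cons (P.lf 0 1328985 0) P.nil)))) (P.cons (P.cons (P.lf 0 9288678 0) (P.cons (P.lf 8653263 0 0) (P.cons (P.lf 888105 0 0) P.nil))) (P.cons (P.cons (P.lf 1762794 0 0) (P.cons (P.lf 0 1642206 0) P.nil)) (P.cons (P.cons (P.lf 309057 0 0) P.nil) P.nil)))))) 983838)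
 EL.nil)))
noncomputable def S198_256_660_808_22 : EL := (EL.cons 4 (TM.mk (P.cons (P.cons (P.lf 0 903907608 0) (P.cons (P.lf 0 309934449 0) (P.cons (P.lf 113796213 0 0) (P.cons (P.lf 31969653 0 0) (P.cons (P.lf 0 1788942 0) (P.cons (P.lf 0 820257 0) P.nil)))))) (P.cons (P.cons (P.lf 0 798098841 0) (P.cons (P.lf 0 99991464 0) (P.cons (P.lf 54697467 0 0) (P.cons (P.lf 0 5196045 0) (P.cons (P.lf 1043571 0 0) P.nil))))) (P.cons (P.cons (P.lf 99274452 0 0) (P.cons (P.lf 141895632 0 0) (P.cons (P.lf 0 50509536 0) (P.cons (P.lf 0 16007034 0) P.nil)))) (P.cons (P.cons (P.lf 302772735 0 0) (P.cons (P.lf 63004485 0 0) (P.cons (P.lf 0 28090305 0) P.nil))) (P.cons (P.cons (P.lf 70310214 0 0) (P.cons (P.lf 0 15013815 0) P.nil)) (P.cons (P.cons (P.lf 0 36199380 0) P.nil) P.nil)))))) 77684667)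
 (EL.cons 8 (TM.mk (P.cons (P.cons (P.lf 138753426 0 0) (P.cons (P.lf 47576178 0 0) (P.cons (P.lf 0 17468172 0) (P.cons (P.lf 0 4907469 0) (P.cons (P.lf 274608 0 0) (P.cons (P.lf 125910 0 0) P.nil)))))) (P.cons (P.cons (P.lf 0 20766063 0) (P.cons (P.lf 0 33778284 0) (P.cons (P.lf 9641433 0 0) (P.cons (P.lf 5865087 0 0) (P.cons (P.lf 0 443754 0) P.nil))))) (P.cons (P.cons (P.lf 0 134811309 0) (P.cons (P.lf 0 35253705 0) (P.cons (P.lf 15550566 0 0) (P.cons (P.lf 1388298 0 0) P.nil)))) (P.cons (P.cons (P.lf 0 27180864 0) (P.cons (P.lf 12708870 0 0) (P.cons (P.lf 0 3791280 0) P.nil))) (P.cons (P.cons (P.lf 34372407 0 0) (P.cons (P.lf 10987035 0 0) P.nil)) (P.cons (P.cons (P.lf 14785842 0 0) P.nil) P.nil)))))) 34685019)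
 (EL.cons 11 (TM.mk (P.cons (P.cons (P.lf 0 397615611 0) (P.cons (P.lf 267972555 0 0) (P.cons (P.lf 177626643 0 0) (P.cons (P.lf 0 34356129 0) (P.cons (P.lf 0 11492049 0) (P.cons (P.lf 239349 0 0) P.nil)))))) (P.cons (P.cons (P.lf 0 282437502 0) (P.cons (P.lf 230242791 0 0) (P.cons (P.lf 71804961 0 0) (P.cons (P.lf 0 14103822 0) (P.cons (P.lf 0 3944364 0) P.nil))))) (P.cons (P.cons (P.lf 0 38483157 0) (P.cons (P.lf 47029887 0 0) (P.cons (P.lf 0 11555706 0) (P.cons (P.lf 2121144 0 0) P.nil)))) (P.cons (P.cons (P.lf 39492363 0 0) (P.cons (P.lf 0 32103189 0) (P.cons (P.lf 0 10164210 0) P.nil))) (P.cons (P.cons (P.lf 10072803 0 0) (P.cons (P.lf 0 9891066 0) P.nil)) (P.cons (P.cons (P.lf 0 2300646 0) P.nil) P.nil)))))) 18938442)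
 EL.nil)))
noncomputable def S198_256_660_808_23 : EL := (EL.cons 4 (TM.mk (P.cons (P.cons (P.lf 0 604914168 0) (P.cons (P.lf 0 51562371 0) (P.cons (P.lf 22234275 0 0) (P.lf 2470473 0 0)))) (P.cons (P.cons (P.lf 403750266 0 0) (P.cons (P.lf 89940792 0 0) (P.cons (P.lf 0 38783484 0) (P.lf 0 4309272 0)))) (P.cons (P.cons (P.lf 423992730 0 0) (P.cons (P.lf 0 20334288 0) (P.cons (P.lf 8768376 0 0) (P.lf 974262 0 0)))) (P.cons (P.cons (P.lf 0 165315372 0) (P.cons (P.lf 0 21332499 0) (P.cons (P.lf 9198813 0 0) P.nil))) (P.cons (P.cons (P.lf 0 74875038 0) (P.cons (P.lf 1511703 0 0) P.nil)) (P.cons (P.cons (P.lf 12156144 0 0) P.nil) P.nil)))))) 17058345)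
 (EL.cons 8 (TM.mk (P.cons (P.cons (P.lf 92856738 0 0) (P.cons (P.lf 7915029 0 0) (P.cons (P.lf 0 3413049 0) (P.lf 0 379227 0)))) (P.cons (P.cons (P.lf 0 157861572 0) (P.cons (P.lf 0 21979365 0) (P.cons (P.lf 9477750 0 0) (P.lf 1053081 0 0)))) (P.cons (P.cons (P.lf 3553491 0 0) (P.cons (P.lf 17773323 0 0) (P.cons (P.lf 0 7664055 0) (P.lf 0 851559 0)))) (P.cons (P.cons (P.lf 87771774 0 0) (P.cons (P.lf 0 784575 0) (P.cons (P.lf 338316 0 0) P.nil))) (P.cons (P.cons (P.lf 0 16686783 0) (P.cons (P.lf 0 3191346 0) P.nil)) (P.cons (P.cons (P.lf 0 11384679 0) P.nil) P.nil)))))) 9282981)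
 (EL.cons 11 (TM.mk (P.cons (P.cons (P.lf 0 266092812 0) (P.cons (P.lf 247890069 0 0) (P.cons (P.lf 25441584 0 0) (P.cons (P.lf 0 5291139 0) (P.lf 0 440928 0))))) (P.cons (P.cons (P.lf 223535376 0 0) (P.cons (P.lf 0 208243881 0) (P.cons (P.lf 0 21372594 0) (P.cons (P.lf 4444905 0 0) (P.lf 370407 0 0))))) (P.cons (P.cons (P.lf 60317883 0 0) (P.cons (P.lf 0 56191689 0) (P.cons (P.lf 0 5767095 0) (P.cons (P.lf 1199394 0 0) P.nil)))) (P.cons (P.cons (P.lf 0 14456541 0) (P.cons (P.lf 13467606 0 0) (P.cons (P.lf 1382214 0 0) P.nil))) (P.cons (P.cons (P.lf 0 3873057 0) (P.cons (P.lf 3608109 0 0) P.nil)) (P.cons (P.cons (P.lf 430101 0 0) P.nil) P.nil)))))) 2300838)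
 EL.nil)))
noncomputable def S198_256_660_808_24 : EL := (EL.cons 4 (TM.mk (P.cons (P.cons (P.lf 201558408 0 0) (P.cons (P.lf 69110928 0 0) (P.cons (P.lf 0 25374918 0) (P.cons (P.lf 0 7128771 0) (P.cons (P.lf 398907 0 0) (P.cons (P.lf 182904 0 0) P.nil)))))) (P.cons (P.cons (P.lf 0 17229603 0) (P.cons (P.lf 0 44632083 0) (P.cons (P.lf 12376953 0 0) (P.cons (P.lf 8062323 0 0) (P.cons (P.lf 0 619014 0) P.nil))))) (P.cons (P.cons (P.lf 0 203827488 0) (P.cons (P.lf 0 56437701 0) (P.cons (P.lf 24251061 0 0) (P.cons (P.lf 2777808 0 0) P.nil)))) (P.cons (P.cons (P.lf 0 51541053 0) (P.cons (P.lf 16514196 0 0) (P.cons (P.lf 0 4428837 0) P.nil))) (P.cons (P.cons (P.lf 53426322 0 0) (P.cons (P.lf 18809409 0 0) P.nil)) (P.cons (P.cons (P.lf 26250756 0 0) P.nil) P.nil)))))) 57250563)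
 (EL.cons 8 (TM.mk (P.cons (P.cons (P.lf 0 30940020 0) (P.cons (P.lf 0 10608804 0) (P.cons (P.lf 3895149 0 0) (P.cons (P.lf 1094295 0 0) (P.cons (P.lf 0 61233 0) (P.cons (P.lf 0 28074 0) P.nil)))))) (P.cons (P.cons (P.lf 34593618 0 0) (P.cons (P.lf 17805900 0 0) (P.cons (P.lf 0 5922063 0) (P.cons (P.lf 0 2367573 0) (P.cons (P.lf 158250 0 0) P.nil))))) (P.cons (P.cons (P.lf 27011214 0 0) (P.cons (P.lf 1058706 0 0) (P.cons (P.lf 0 1566135 0) (P.cons (P.lf 906225 0 0) P.nil)))) (P.cons (P.cons (P.lf 0 23693307 0) (P.cons (P.lf 0 10942647 0) (P.cons (P.lf 4356996 0 0) P.nil))) (P.cons (P.cons (P.lf 0 14900055 0) (P.cons (P.lf 21714 0 0) P.nil)) (P.cons (P.cons (P.lf 4271109 0 0) P.nil) P.nil)))))) 22627524)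
 (EL.cons 11 (TM.mk (P.cons (P.cons (P.lf 88662567 0 0) (P.cons (P.lf 0 59754027 0) (P.cons (P.lf 0 39608187 0) (P.cons (P.lf 7660923 0 0) (P.cons (P.lf 2562561 0 0) (P.cons (P.lf 0 53370 0) P.nil)))))) (P.cons (P.cons (P.lf 0 22883532 0) (P.cons (P.lf 6526452 0 0) (P.cons (P.lf 22346079 0 0) (P.cons (P.lf 0 4274076 0) (P.cons (P.lf 0 1602111 0) P.nil))))) (P.cons (P.cons (P.lf 0 56520627 0) (P.cons (P.lf 42003288 0 0) (P.cons (P.lf 19919127 0 0) (P.cons (P.lf 0 3873834 0) P.nil)))) (P.cons (P.cons (P.lf 0 18810789 0) (P.cons (P.lf 18868758 0 0) (P.cons (P.lf 0 34122 0) P.nil))) (P.cons (P.cons (P.lf 6858507 0 0) (P.cons (P.lf 0 5020329 0) P.nil)) (P.cons (P.cons (P.lf 3272634 0 0) P.nil) P.nil)))))) 17181837)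
 EL.nil)))
noncomputable def S198_256_660_808_25 : EL := (EL.cons 4 (TM.mk (P.cons (P.cons (P.lf 134887167 0 0) (P.cons (P.lf 11497668 0 0) (P.cons (P.lf 0 4957923 0) (P.lf 0 550878 0)))) (P.cons (P.cons (P.lf 0 220658595 0) (P.cons (P.lf 0 31190130 0) (P.cons (P.lf 13449537 0 0) (P.lf 1494390 0 0)))) (P.cons (P.cons (P.lf 0 13610634 0) (P.cons (P.lf 23423406 0 0) (P.cons (P.lf 0 10100436 0) (P.lf 0 1122270 0)))) (P.cons (P.cons (P.lf 134461140 0 0) (P.cons (P.lf 1454598 0 0) (P.cons (P.lf 0 627237 0) P.nil))) (P.cons (P.cons (P.lf 0 15706389 0) (P.cons (P.lf 0 5417796 0) P.nil)) (P.cons (P.cons (P.lf 0 22025445 0) P.nil) P.nil)))))) 18254643)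
 (EL.cons 8 (TM.mk (P.cons (P.cons (P.lf 0 20705718 0) (P.cons (P.lf 0 1764936 0) (P.cons (P.lf 761061 0 0) (P.lf 84561 0 0)))) (P.cons (P.cons (P.lf 55252794 0 0) (P.cons (P.lf 6610293 0 0) (P.cons (P.lf 0 2850432 0) (P.lf 0 316713 0)))) (P.cons (P.cons (P.lf 0 33921732 0) (P.cons (P.lf 0 8627694 0) (P.cons (P.lf 3720357 0 0) (P.lf 413373 0 0)))) (P.cons (P.cons (P.lf 0 20722854 0) (P.cons (P.lf 3761364 0 0) (P.cons (P.lf 0 1621941 0) P.nil))) (P.cons (P.cons (P.lf 23173971 0 0) (P.cons (P.lf 791649 0 0) P.nil)) (P.cons (P.cons (P.lf 0 123408 0) P.nil) P.nil)))))) 8673159)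
 (EL.cons 11 (TM.mk (P.cons (P.cons (P.lf 59334873 0 0) (P.cons (P.lf 0 55275921 0) (P.cons (P.lf 0 5673105 0) (P.cons (P.lf 1179846 0 0) (P.lf 98319 0 0))))) (P.cons (P.cons (P.lf 0 107306544 0) (P.cons (P.lf 99965973 0 0) (P.cons (P.lf 10259760 0 0) (P.cons (P.lf 0 2133744 0) (P.lf 0 177810 0))))) (P.cons (P.cons (P.lf 32070186 0 0) (P.cons (P.lf 0 29876343 0) (P.cons (P.lf 0 3066282 0) (P.cons (P.lf 637701 0 0) P.nil)))) (P.cons (P.cons (P.lf 19380348 0 0) (P.cons (P.lf 0 18054588 0) (P.cons (P.lf 0 1852986 0) P.nil))) (P.cons (P.cons (P.lf 0 2254338 0) (P.cons (P.lf 2100123 0 0) P.nil)) (P.cons (P.cons (P.lf 0 1336689 0) P.nil) P.nil)))))) 3481563)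
 EL.nil)))
noncomputable def S198_256_660_808_26 : EL := (EL.cons 4 (TM.mk (P.cons (P.cons (P.lf 0 44944626 0) (P.cons (P.lf 0 15410742 0) (P.cons (P.lf 5658240 0 0) (P.cons (P.lf 1589613 0 0) (P.cons (P.lf 0 88950 0) (P.cons (P.lf 0 40785 0) P.nil)))))) (P.cons (P.cons (P.lf 47367450 0 0) (P.cons (P.lf 24876459 0 0) (P.cons (P.lf 0 8239464 0) (P.cons (P.lf 0 3337203 0) (P.cons (P.lf 224172 0 0) P.nil))))) (P.cons (P.cons (P.lf 43813845 0 0) (P.cons (P.lf 3661257 0 0) (P.cons (P.lf 0 2997246 0) (P.cons (P.lf 1047900 0 0) P.nil)))) (P.cons (P.cons (P.lf 0 33322074 0) (P.cons (P.lf 0 16544358 0) (P.cons (P.lf 6430647 0 0) P.nil))) (P.cons (P.cons (P.lf 0 25150077 0) (P.cons (P.lf 0 1091991 0) P.nil)) (P.cons (P.cons (P.lf 5791716 0 0) P.nil) P.nil)))))) 34379130)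
 (EL.cons 8 (TM.mk (P.cons (P.cons (P.lf 6899178 0 0) (P.cons (P.lf 2365608 0 0) (P.cons (P.lf 0 868560 0) (P.cons (P.lf 0 244011 0) (P.cons (P.lf 13653 0 0) (P.cons (P.lf 6258 0 0) P.nil)))))) (P.cons (P.cons (P.lf 0 14395215 0) (P.cons (P.lf 0 6261375 0) (P.cons (P.lf 2161671 0 0) (P.cons (P.lf 764241 0 0) (P.cons (P.lf 0 48510 0) P.nil))))) (P.cons (P.cons (P.lf 1127313 0 0) (P.cons (P.lf 3499332 0 0) (P.cons (P.lf 0 889341 0) (P.cons (P.lf 0 702027 0) P.nil)))) (P.cons (P.cons (P.lf 11569239 0 0) (P.cons (P.lf 2885472 0 0) (P.cons (P.lf 0 1382982 0) P.nil))) (P.cons (P.cons (P.lf 0 1613265 0) (P.cons (P.lf 0 2409030 0) P.nil)) (P.cons (P.cons (P.lf 0 4508481 0) P.nil) P.nil)))))) 12177405)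
 (EL.cons 11 (TM.mk (P.cons (P.cons (P.lf 0 19770477 0) (P.cons (P.lf 13324287 0 0) (P.cons (P.lf 8832054 0 0) (P.cons (P.lf 0 1708275 0) (P.cons (P.lf 0 571413 0) (P.cons (P.lf 11901 0 0) P.nil)))))) (P.cons (P.cons (P.lf 24248922 0 0) (P.cons (P.lf 0 14358879 0) (P.cons (P.lf 0 13536036 0) (P.cons (P.lf 2607393 0 0) (P.cons (P.lf 910620 0 0) P.nil))))) (P.cons (P.cons (P.lf 8578377 0 0) (P.cons (P.lf 0 8574564 0) (P.cons (P.lf 0 25662 0) (P.cons (P.lf 20049 0 0) P.nil)))) (P.cons (P.cons (P.lf 0 8520717 0) (P.cons (P.lf 5114613 0 0) (P.cons (P.lf 4662177 0 0) P.nil))) (P.cons (P.cons (P.lf 0 6128358 0) (P.cons (P.lf 5623788 0 0) P.nil)) (P.cons (P.cons (P.lf 740613 0 0) P.nil) P.nil)))))) 12030054)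
 EL.nil)))
noncomputable def S198_256_660_808_27 : EL := (EL.cons 13 (TM.mk (P.lf 0 4294967296 0) 0)
 EL.nil)
noncomputable def S198_256_660_808_28 : EL := (EL.cons 13 (TM.mk (P.cons (P.cons (P.lf 1431090255 0 0) (P.cons (P.lf 368711436 0 0) (P.cons (P.lf 0 158992532 0) (P.lf 0 17665836 0)))) (P.cons (P.cons (P.lf 832849536 0 0) (P.cons (P.lf 70991388 0 0) (P.cons (P.lf 0 30612284 0) (P.lf 0 3401364 0)))) (P.cons (P.cons (P.lf 111755823 0 0) (P.cons (P.lf 0 28697924 0) (P.cons (P.lf 12374868 0 0) (P.lf 1374984 0 0)))) (P.cons (P.cons (P.lf 0 98699578 0) (P.cons (P.lf 0 6341792 0) (P.cons (P.lf 2734652 0 0) P.nil))) (P.cons (P.cons (P.lf 0 12956843 0) (P.cons (P.lf 1040572 0 0) P.nil)) (P.cons (P.cons (P.lf 3684595 0 0) P.nil) P.nil)))))) 2954836)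
 EL.nil)
noncomputable def S198_256_660_808_29 : EL := (EL.cons 13 (TM.mk (P.cons (P.cons (P.lf 0 476841656 0) (P.cons (P.lf 0 245710528 0) (P.cons (P.lf 74300263 0 0) (P.cons (P.lf 39070737 0 0) (P.cons (P.lf 0 2852509 0) (P.cons (P.lf 0 1307919 0) P.nil)))))) (P.cons (P.cons (P.lf 0 555013704 0) (P.cons (P.lf 0 190304700 0) (P.cons (P.lf 69872690 0 0) (P.cons (P.lf 19629877 0 0) (P.cons (P.lf 0 1098439 0) P.nil))))) (P.cons (P.cons (P.lf 0 235974716 0) (P.cons (P.lf 0 27595774 0) (P.cons (P.lf 15653473 0 0) (P.cons (P.lf 0 1915238 0) P.nil)))) (P.cons (P.cons (P.lf 22431937 0 0) (P.cons (P.lf 28607757 0 0) (P.cons (P.lf 0 10298441 0) P.nil))) (P.cons (P.cons (P.lf 44004818 0 0) (P.cons (P.lf 8746945 0 0) P.nil)) (P.cons (P.cons (P.lf 7705933 0 0) P.nil) P.nil)))))) 27554190)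
 EL.nil)
noncomputable def S198_256_660_808_30 : EL := (EL.cons 13 (TM.mk (P.cons (P.lf 957715992 0 0) (P.cons (P.lf 0 927476000 0) (P.cons (P.lf 0 44405152 0) (P.cons (P.lf 13240480 0 0) (P.cons (P.lf 1119116 0 0) (P.cons (P.lf 0 173696 0) P.nil)))))) 29016)
 EL.nil)
noncomputable def S198_256_660_808_31 : EL := (EL.cons 13 (TM.mk (P.cons (P.cons (P.lf 0 319112563 0) (P.cons (P.lf 0 82217352 0) (P.cons (P.lf 35453050 0 0) (P.lf 3939227 0 0)))) (P.cons (P.cons (P.lf 123323068 0 0) (P.cons (P.lf 63791270 0 0) (P.cons (P.lf 0 27507516 0) (P.lf 0 3056390 0)))) (P.cons (P.cons (P.lf 169725482 0 0) (P.cons (P.lf 25541511 0 0) (P.cons (P.lf 0 11013787 0) (P.lf 0 1223753 0)))) (P.cons (P.cons (P.lf 50340661 0 0) (P.cons (P.lf 0 5185728 0) (P.cons (P.lf 2236144 0 0) P.nil))) (P.cons (P.cons (P.lf 0 20209435 0) (P.cons (P.lf 0 2213138 0) P.nil)) (P.cons (P.cons (P.lf 0 5143673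 0) P.nil) P.nil)))))) 4615430)
 EL.nil)
noncomputable def S198_256_660_808_32 : EL := (EL.cons 13 (TM.mk (P.cons (P.cons (P.lf 106328837 0 0) (P.cons (P.lf 54789917 0 0) (P.cons (P.lf 0 16567891 0) (P.cons (P.lf 0 8712212 0) (P.cons (P.lf 636068 0 0) (P.cons (P.lf 291647 0 0) P.nil)))))) (P.cons (P.cons (P.lf 20788588 0 0) (P.cons (P.lf 0 10624705 0) (P.cons (P.lf 464152 0 0) (P.cons (P.lf 4059943 0 0) (P.cons (P.lf 0 371048 0) P.nil))))) (P.cons (P.cons (P.lf 0 72163380 0) (P.cons (P.lf 0 37482227 0) (P.cons (P.lf 12366328 0 0) (P.cons (P.lf 5069988 0 0) P.nil)))) (P.cons (P.cons (P.lf 0 60227738 0) (P.cons (P.lf 0 13548347 0) (P.cons (P.lf 6170044 0 0) P.nil))) (P.cons (P.cons (P.lf 0 5572857 0) (P.cons (P.lf 4592637 0 0) P.nil)) (P.cons (P.cons (P.lf 8869014 0 0) P.nil) P.nil)))))) 21863933)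
 EL.nil)
noncomputable def S198_256_660_808_33 : EL := (EL.cons 14 (TM.mk (P.lf 8589934592 0 0) 0)
 EL.nil)
noncomputable def S198_256_660_808_34 : EL := (EL.cons 14 (TM.mk (P.cons (P.cons (P.lf 0 2862180510 0) (P.cons (P.lf 0 737422872 0) (P.cons (P.lf 317985064 0 0) (P.lf 35331672 0 0)))) (P.cons (P.cons (P.lf 0 1665699072 0) (P.cons (P.lf 0 141982776 0) (P.cons (P.lf 61224568 0 0) (P.lf 6802728 0 0)))) (P.cons (P.cons (P.lf 0 223511646 0) (P.cons (P.lf 57395848 0 0) (P.cons (P.lf 0 24749736 0) (P.lf 0 2749968 0)))) (P.cons (P.cons (P.lf 197399156 0 0) (P.cons (P.lf 12683584 0 0) (P.cons (P.lf 0 5469304 0) P.nil))) (P.cons (P.cons (P.lf 25913686 0 0) (P.cons (P.lf 0 2081144 0) P.nil)) (P.cons (P.cons (P.lf 0 7369190 0) P.nil) P.nil)))))) 5909672)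
 EL.nil)
noncomputable def S198_256_660_808_35 : EL := (EL.cons 14 (TM.mk (P.cons (P.cons (P.lf 953683312 0 0) (P.cons (P.lf 491421056 0 0) (P.cons (P.lf 0 148600526 0) (P.cons (P.lf 0 78141474 0) (P.cons (P.lf 5705018 0 0) (P.cons (P.lf 2615838 0 0) P.nil)))))) (P.cons (P.cons (P.lf 1110027408 0 0) (P.cons (P.lf 380609400 0 0) (P.cons (P.lf 0 139745380 0) (P.cons (P.lf 0 39259754 0) (P.cons (P.lf 2196878 0 0) P.nil))))) (P.cons (P.cons (P.lf 471949432 0 0) (P.cons (P.lf 55191548 0 0) (P.cons (P.lf 0 31306946 0) (P.cons (P.lf 3830476 0 0) P.nil)))) (P.cons (P.cons (P.lf 0 44863874 0) (P.cons (P.lf 0 57215514 0) (P.cons (P.lf 20596882 0 0) P.nil))) (P.cons (P.cons (P.lf 0 88009636 0) (P.cons (P.lf 0 17493890 0) P.nil)) (P.cons (P.cons (P.lf 0 15411866 0) P.nil) P.nil)))))) 55108380)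
 EL.nil)
noncomputable def S198_256_660_808_36 : EL := (EL.cons 14 (TM.mk (P.cons (P.lf 0 1915431984 0) (P.cons (P.lf 1854952000 0 0) (P.cons (P.lf 88810304 0 0) (P.cons (P.lf 0 26480960 0) (P.cons (P.lf 0 2238232 0) (P.cons (P.lf 347392 0 0) P.nil)))))) 58032)
 EL.nil)
noncomputable def S198_256_660_808_37 : EL := (EL.cons 14 (TM.mk (P.cons (P.cons (P.lf 638225126 0 0) (P.cons (P.lf 164434704 0 0) (P.cons (P.lf 0 70906100 0) (P.lf 0 7878454 0)))) (P.cons (P.cons (P.lf 0 246646136 0) (P.cons (P.lf 0 127582540 0) (P.cons (P.lf 55015032 0 0) (P.lf 6112780 0 0)))) (P.cons (P.cons (P.lf 0 339450964 0) (P.cons (P.lf 0 51083022 0) (P.cons (P.lf 22027574 0 0) (P.lf 2447506 0 0)))) (P.cons (P.cons (P.lf 0 100681322 0) (P.cons (P.lf 10371456 0 0) (P.cons (P.lf 0 4472288 0) P.nil))) (P.cons (P.cons (P.lf 40418870 0 0) (P.cons (P.lf 4426276 0 0) P.nil)) (P.cons (P.cons (P.lf 10287346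 0 0) P.nil) P.nil)))))) 9230860)
 EL.nil)
noncomputable def S198_256_660_808_38 : EL := (EL.cons 14 (TM.mk (P.cons (P.cons (P.lf 0 212657674 0) (P.cons (P.lf 0 109579834 0) (P.cons (P.lf 33135782 0 0) (P.cons (P.lf 17424424 0 0) (P.cons (P.lf 0 1272136 0) (P.cons (P.lf 0 583294 0) P.nil)))))) (P.cons (P.cons (P.lf 0 41577176 0) (P.cons (P.lf 21249410 0 0) (P.cons (P.lf 0 928304 0) (P.cons (P.lf 0 8119886 0) (P.cons (P.lf 742096 0 0) P.nil))))) (P.cons (P.cons (P.lf 144326760 0 0) (P.cons (P.lf 74964454 0 0) (P.cons (P.lf 0 24732656 0) (P.cons (P.lf 0 10139976 0) P.nil)))) (P.cons (P.cons (P.lf 120455476 0 0) (P.cons (P.lf 27096694 0 0) (P.cons (P.lf 0 12340088 0) P.nil))) (P.cons (P.cons (P.lf 11145714 0 0) (P.cons (P.lf 0 9185274 0) P.nil)) (P.cons (P.cons (P.lf 0 17738028 0) P.nil) P.nil)))))) 43727866)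
 EL.nil)
noncomputable def S198_256_660_808_39 : EL := (EL.cons 14 (TM.mk (P.cons (P.lf 427113808 0 0) (P.cons (P.lf 0 827255282 0) (P.cons (P.lf 360960458 0 0) (P.cons (P.lf 50165998 0 0) (P.cons (P.lf 0 9520466 0) (P.cons (P.lf 0 1669162 0) P.nil)))))) 354406)
 EL.nil)
noncomputable def S198_256_660_808_40 : EL := (EL.cons 14 (TM.mk (P.cons (P.cons (P.lf 0 142315032 0) (P.cons (P.lf 0 36666576 0) (P.cons (P.lf 15811040 0 0) (P.lf 1756782 0 0)))) (P.cons (P.cons (P.lf 192819962 0 0) (P.cons (P.lf 63957898 0 0) (P.cons (P.lf 0 27579366 0) (P.lf 0 3064374 0)))) (P.cons (P.cons (P.lf 29029260 0 0) (P.cons (P.lf 0 14459938 0) (P.cons (P.lf 6235288 0 0) (P.lf 692810 0 0)))) (P.cons (P.cons (P.lf 0 55369750 0) (P.cons (P.lf 0 15169778 0) (P.cons (P.lf 6541378 0 0) P.nil))) (P.cons (P.cons (P.lf 0 33669922 0) (P.cons (P.lf 1074988 0 0) P.nil)) (P.cons (P.cons (P.lf 6529916 0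 0) P.nil) P.nil)))))) 11303492)
 EL.nil)
noncomputable def S198_256_660_808_41 : EL := (EL.cons 14 (TM.mk (P.cons (P.cons (P.lf 47419604 0 0) (P.cons (P.lf 24434728 0 0) (P.cons (P.lf 0 7388802 0) (P.cons (P.lf 0 3885396 0) (P.cons (P.lf 283668 0 0) (P.cons (P.lf 130066 0 0) P.nil)))))) (P.cons (P.cons (P.lf 0 36651212 0) (P.cons (P.lf 0 28401512 0) (P.cons (P.lf 7362498 0 0) (P.cons (P.lf 5573332 0 0) (P.cons (P.lf 0 440188 0) P.nil))))) (P.cons (P.cons (P.lf 0 43359812 0) (P.cons (P.lf 0 13260228 0) (P.cons (P.lf 5657150 0 0) (P.cons (P.lf 687770 0 0) P.nil)))) (P.cons (P.cons (P.lf 4532494 0 0) (P.cons (P.lf 10703518 0 0) (P.cons (P.lf 0 2700974 0) P.nil))) (P.cons (P.cons (P.lf 25202164 0 0) (P.cons (P.lf 8637668 0 0) P.nil)) (P.cons (P.cons (P.lf 7164864 0 0) P.nil) P.nil)))))) 34746882)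
 EL.nil)
noncomputable def S198_256_660_808_42 : EL := (EL.cons 14 (TM.mk (P.cons (P.lf 0 95240240 0) (P.cons (P.lf 276699060 0 0) (P.cons (P.lf 0 254714620 0) (P.cons (P.lf 56891654 0 0) (P.cons (P.lf 19126904 0 0) (P.cons (P.lf 0 2044974 0) P.nil)))))) 997622)
 EL.nil)
noncomputable def S198_256_660_808_43 : EL := (EL.cons 14 (TM.mk (P.cons (P.cons (P.lf 31734206 0 0) (P.cons (P.lf 8176118 0 0) (P.cons (P.lf 0 3525634 0) (P.lf 0 391736 0)))) (P.cons (P.cons (P.lf 0 73728276 0) (P.cons (P.lf 0 22179648 0) (P.cons (P.lf 9564114 0 0) (P.lf 1062678 0 0)))) (P.cons (P.cons (P.lf 33693988 0 0) (P.cons (P.lf 16656644 0 0) (P.cons (P.lf 0 7182532 0) (P.lf 0 798058 0)))) (P.cons (P.cons (P.lf 21047646 0 0) (P.cons (P.lf 1034380 0 0) (P.cons (P.lf 0 446036 0) P.nil))) (P.cons (P.cons (P.lf 0 4706112 0) (P.cons (P.lf 0 3852656 0) P.nil)) (P.cons (P.cons (P.lf 0 9444872 0) P.nil)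 P.nil)))))) 10648478)
 EL.nil)
noncomputable def S198_256_660_808_44 : EL := (EL.cons 14 (TM.mk (P.cons (P.cons (P.lf 0 10573890 0) (P.cons (P.lf 0 5448592 0) (P.cons (P.lf 1647596 0 0) (P.cons (P.lf 866386 0 0) (P.cons (P.lf 0 63252 0) (P.cons (P.lf 0 29002 0) P.nil)))))) (P.cons (P.cons (P.lf 18412712 0 0) (P.cons (P.lf 11609682 0 0) (P.cons (P.lf 0 3237304 0) (P.cons (P.lf 0 2081804 0) (P.cons (P.lf 159412 0 0) P.nil))))) (P.cons (P.cons (P.lf 2244240 0 0) (P.cons (P.lf 0 2923690 0) (P.cons (P.lf 252038 0 0) (P.cons (P.lf 1009998 0 0) P.nil)))) (P.cons (P.cons (P.lf 0 10899124 0) (P.cons (P.lf 0 5619174 0) (P.cons (P.lf 1922808 0 0) P.nil))) (P.cons (P.cons (P.lf 0 4988610 0) (P.cons (P.lf 329386 0 0) P.nil)) (P.cons (P.cons (P.lf 4036612 0 0) P.nil) P.nil)))))) 23738946)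
 EL.nil)
noncomputable def S198_256_660_808_45 : EL := (EL.cons 14 (TM.mk (P.cons (P.cons (P.lf 0 317768866 0) (P.cons (P.lf 0 245613470 0) (P.cons (P.lf 42630528 0 0) (P.cons (P.lf 60908054 0 0) (P.cons (P.lf 1327658 0 0) (P.cons (P.lf 0 4865244 0) P.nil)))))) (P.cons (P.cons (P.lf 0 554794470 0) (P.cons (P.lf 0 333168846 0) (P.cons (P.lf 82470690 0 0) (P.cons (P.lf 65600120 0 0) (P.cons (P.lf 0 1453944 0) P.nil))))) (P.cons (P.cons (P.lf 0 397317974 0) (P.cons (P.lf 0 157472774 0) (P.cons (P.lf 56285676 0 0) (P.cons (P.lf 18229400 0 0) P.nil)))) (P.cons (P.cons (P.lf 0 83535560 0) (P.cons (P.lf 14627134 0 0) (P.cons (P.lf 4595052 0 0) P.nil))) (P.cons (P.cons (P.lf 54130202 0 0) (P.cons (P.lf 38575098 0 0) P.nil)) (P.cons (P.cons (P.lf 36744884 0 0) P.nil) P.nil)))))) 128121110)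
 EL.nil)
noncomputable def S198_256_660_808_46 : EL := (EL.cons 15 (TM.mk (P.lf 4294967296 0 0) 0)
 EL.nil)
noncomputable def S198_256_660_808_47 : EL := (EL.cons 15 (TM.mk (P.cons (P.cons (P.lf 0 1431090255 0) (P.cons (P.lf 0 368711436 0) (P.cons (P.lf 158992532 0 0) (P.lf 17665836 0 0)))) (P.cons (P.cons (P.lf 0 832849536 0) (P.cons (P.lf 0 70991388 0) (P.cons (P.lf 30612284 0 0) (P.lf 3401364 0 0)))) (P.cons (P.cons (P.lf 0 111755823 0) (P.cons (P.lf 28697924 0 0) (P.cons (P.lf 0 12374868 0) (P.lf 0 1374984 0)))) (P.cons (P.cons (P.lf 98699578 0 0) (P.cons (P.lf 6341792 0 0) (P.cons (P.lf 0 2734652 0) P.nil))) (P.cons (P.cons (P.lf 12956843 0 0) (P.cons (P.lf 0 1040572 0) P.nil)) (P.cons (P.cons (P.lf 0 3684595 0) P.nil) P.nil)))))) 2954836)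
 EL.nil)
noncomputable def S198_256_660_808_48 : EL := (EL.cons 15 (TM.mk (P.cons (P.cons (P.lf 476841656 0 0) (P.cons (P.lf 245710528 0 0) (P.cons (P.lf 0 74300263 0) (P.cons (P.lf 0 39070737 0) (P.cons (P.lf 2852509 0 0) (P.cons (P.lf 1307919 0 0) P.nil)))))) (P.cons (P.cons (P.lf 555013704 0 0) (P.cons (P.lf 190304700 0 0) (P.cons (P.lf 0 69872690 0) (P.cons (P.lf 0 19629877 0) (P.cons (P.lf 1098439 0 0) P.nil))))) (P.cons (P.cons (P.lf 235974716 0 0) (P.cons (P.lf 27595774 0 0) (P.cons (P.lf 0 15653473 0) (P.cons (P.lf 1915238 0 0) P.nil)))) (P.cons (P.cons (P.lf 0 22431937 0) (P.cons (P.lf 0 28607757 0) (P.cons (P.lf 10298441 0 0) P.nil))) (P.cons (P.cons (P.lf 0 44004818 0) (P.cons (P.lf 0 8746945 0) P.nil)) (P.cons (P.cons (P.lf 0 7705933 0) P.nil) P.nil)))))) 27554190)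
 EL.nil)
noncomputable def S198_256_660_808 : SL := (SL.cons S198_256_660_808_0 (SL.cons S198_256_660_808_1 (SL.cons S198_256_660_808_2 (SL.cons S198_256_660_808_3 (SL.cons S198_256_660_808_4 (SL.cons S198_256_660_808_5 (SL.cons S198_256_660_808_6 (SL.cons S198_256_660_808_7 (SL.cons S198_256_660_808_8 (SL.cons S198_256_660_808_9 (SL.cons S198_256_660_808_10 (SL.cons S198_256_660_808_11 (SL.cons S198_256_660_808_12 (SL.cons S198_256_660_808_13 (SL.cons S198_256_660_808_14 (SL.cons S198_256_660_808_15 (SL.cons S198_256_660_808_16 (SL.cons S198_256_660_808_17 (SL.cons S198_256_660_808_18 (SL.cons S198_256_660_808_19 (SL.cons S198_256_660_808_20 (SL.cons S198_256_660_808_21 (SL.cons S198_256_660_808_22 (SL.cons S198_256_660_808_23 (SL.cons S198_256_660_808_24 (SL.cons S198_256_660_808_25 (SL.cons S198_256_660_808_26 (SL.cons S198_256_660_808_27 (SL.cons S198_256_660_808_28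 (SL.cons S198_256_660_808_29 (SL.cons S198_256_660_808_30 (SL.cons S198_256_660_808_31 (SL.cons S198_256_660_808_32 (SL.cons S198_256_660_808_33 (SL.cons S198_256_660_808_34 (SL.cons S198_256_660_808_35 (SL.cons S198_256_660_808_36 (SL.cons S198_256_660_808_37 (SL.cons S198_256_660_808_38 (SL.cons S198_256_660_808_39 (SL.cons S198_256_660_808_40 (SL.cons S198_256_660_808_41 (SL.cons S198_256_660_808_42 (SL.cons S198_256_660_808_43 (SL.cons S198_256_660_808_44 (SL.cons S198_256_660_808_45 (SL.cons S198_256_660_808_46 (SL.cons S198_256_660_808_47 (SL.cons S198_256_660_808_48 SL.nil)))))))))))))))))))))))))))))))))))))))))))))))))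
noncomputable def S205_212_364_512_0 : EL := (EL.cons 0 (TM.mk (P.cons (P.lf 7500059311 0 0) (P.cons (P.lf 129212423 0 0) (P.cons (P.lf 0 3153833 0) (P.cons (P.lf 0 103621 0) (P.cons (P.lf 671 0 0) (P.cons (P.lf 40 0 0) P.nil)))))) 77)
 (EL.cons 1 (TM.mk (P.cons (P.lf 0 1314357905 0) (P.cons (P.lf 72153691 0 0) (P.cons (P.lf 2477608 0 0) (P.cons (P.lf 0 32090 0) (P.cons (P.lf 0 1325 0) (P.cons (P.lf 0 0 0) P.nil)))))) 91)
 (EL.cons 5 (TM.mk (P.cons (P.lf 4634756652 0 0) (P.cons (P.lf 0 45942196 0) (P.cons (P.lf 1121364 0 0) (P.cons (P.lf 36840 0 0) (P.cons (P.lf 0 236 0) (P.cons (P.lf 0 14 0) P.nil)))))) 107)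
 (EL.cons 9 (TM.mk (P.lf 6442450944 0 0) 2)
 EL.nil))))
noncomputable def S205_212_364_512_1 : EL := (EL.cons 0 (TM.mk (P.cons (P.cons (P.lf 2196212243 0 0) (P.cons (P.lf 0 727125944 0) (P.cons (P.lf 0 48613954 0) (P.lf 16204653 0 0)))) (P.cons (P.cons (P.lf 301643477 0 0) (P.cons (P.lf 0 108835063 0) (P.cons (P.lf 0 7276450 0) (P.lf 2425474 0 0)))) (P.cons (P.cons (P.lf 0 20603205 0) (P.cons (P.lf 0 611960 0) (P.cons (P.lf 0 40908 0) (P.lf 13635 0 0)))) (P.cons (P.cons (P.lf 0 848111 0) (P.cons (P.lf 227923 0 0) (P.cons (P.lf 15233 0 0) P.nil))) (P.cons (P.cons (P.lf 30263 0 0) (P.cons (P.lf 4191 0 0) P.nil)) (P.cons (P.cons (P.lf 1247 0 0) P.nil) P.nil)))))) 9400)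
 (EL.cons 1 (TM.mk (P.cons (P.cons (P.lf 0 679297936 0) (P.cons (P.lf 457534324 0 0) (P.cons (P.lf 30589674 0 0) (P.lf 0 10196554 0)))) (P.cons (P.cons (P.lf 112749993 0 0) (P.cons (P.lf 1667078 0 0) (P.cons (P.lf 111452 0 0) (P.lf 0 37149 0)))) (P.cons (P.cons (P.lf 9704903 0 0) (P.cons (P.lf 0 2757031 0) (P.cons (P.lf 0 184319 0) (P.lf 61433 0 0)))) (P.cons (P.cons (P.lf 0 415763 0) (P.cons (P.lf 0 49926 0) (P.cons (P.lf 0 3326 0) P.nil))) (P.cons (P.cons (P.lf 0 20421 0) (P.cons (P.lf 3776 0 0) P.nil)) (P.cons (P.cons (P.lf 412 0 0) P.nil) P.nil)))))) 4784)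
 (EL.cons 5 (TM.mk (P.cons (P.cons (P.lf 1747853940 0 0) (P.cons (P.lf 0 887369702 0) (P.cons (P.lf 0 59327474 0) (P.lf 19775822 0 0)))) (P.cons (P.cons (P.lf 0 68289416 0) (P.cons (P.lf 0 4987454 0) (P.cons (P.lf 0 333454 0) (P.lf 111154 0 0)))) (P.cons (P.cons (P.lf 0 2014300 0) (P.cons (P.lf 1006282 0 0) (P.cons (P.lf 67280 0 0) (P.lf 0 22424 0)))) (P.cons (P.cons (P.lf 282361 0 0) (P.cons (P.lf 0 31282 0) (P.cons (P.lf 0 2090 0) P.nil))) (P.cons (P.cons (P.lf 0 3247 0) (P.cons (P.lf 0 1524 0) P.nil)) (P.cons (P.cons (P.lf 0 383 0) P.nil) P.nil)))))) 6128)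
 (EL.cons 9 (TM.mk (P.cons (P.cons (P.lf 2231231820 0 0) (P.cons (P.lf 0 1011091206 0) (P.cons (P.lf 0 67599204 0) (P.lf 22533066 0 0)))) (P.cons (P.cons (P.lf 34377877 0 0) (P.cons (P.lf 0 38545020 0) (P.cons (P.lf 0 2577024 0) (P.lf 859002 0 0)))) (P.cons (P.cons (P.lf 0 8241064 0) (P.cons (P.lf 695904 0 0) (P.cons (P.lf 46524 0 0) (P.lf 0 15504 0)))) (P.cons (P.cons (P.lf 0 16923 0) (P.cons (P.lf 43896 0 0) (P.cons (P.lf 2928 0 0) P.nil))) (P.cons (P.cons (P.lf 6616 0 0) (P.cons (P.lf 0 30 0) P.nil)) (P.cons (P.cons (P.lf 45 0 0) P.nil) P.nil)))))) 1678)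
 (EL.cons 2 (TM.mk (P.cons (P.cons (P.lf 838892041 0 0) (P.cons (P.lf 129881553 0 0) (P.cons (P.lf 0 62572834 0) (P.cons (P.lf 0 2367939 0) (P.lf 591983 0 0))))) (P.cons (P.cons (P.lf 0 35392125 0) (P.cons (P.lf 0 5479588 0) (P.cons (P.lf 2639894 0 0) (P.cons (P.lf 99900 0 0) (P.lf 0 24975 0))))) (P.cons (P.cons (P.lf 0 2494468 0) (P.cons (P.lf 0 386204 0) (P.cons (P.lf 186060 0 0) (P.cons (P.lf 7039 0 0) P.nil)))) (P.cons (P.cons (P.lf 14009 0 0) (P.cons (P.lf 2168 0 0) (P.cons (P.lf 0 1043 0) P.nil))) (P.cons (P.cons (P.lf 2010 0 0) (P.cons (P.lf 309 0 0) P.nil)) (P.cons (P.cons (P.lf 5 0 0) P.nil) P.nil)))))) 2400)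
 (EL.cons 6 (TM.mk (P.cons (P.cons (P.lf 1153765158 0 0) (P.cons (P.lf 178631817 0 0) (P.cons (P.lf 0 86059176 0) (P.cons (P.lf 0 3256731 0) (P.lf 814179 0 0))))) (P.cons (P.cons (P.lf 43984071 0 0) (P.cons (P.lf 6809835 0 0) (P.cons (P.lf 0 3280764 0) (P.cons (P.lf 0 124152 0) (P.lf 31035 0 0))))) (P.cons (P.cons (P.lf 0 794106 0) (P.cons (P.lf 0 122946 0) (P.cons (P.lf 59229 0 0) (P.cons (P.lf 2238 0 0) P.nil)))) (P.cons (P.cons (P.lf 0 50094 0) (P.cons (P.lf 0 7755 0) (P.cons (P.lf 3735 0 0) P.nil))) (P.cons (P.cons (P.lf 39 0 0) (P.cons (P.lf 3 0 0) P.nil)) (P.cons (P.cons (P.lf 24 0 0) P.nil) P.nil)))))) 1572)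
 EL.nil))))))
noncomputable def S205_212_364_512_2 : EL := (EL.cons 0 (TM.mk (P.cons (P.cons (P.lf 621635528 0 0) (P.cons (P.lf 0 377692158 0) (P.cons (P.lf 18249175 0 0) (P.cons (P.lf 14233933 0 0) (P.cons (P.lf 0 1744464 0) (P.cons (P.lf 0 129632 0) P.nil)))))) (P.cons (P.cons (P.lf 189156636 0 0) (P.cons (P.lf 0 146416922 0) (P.cons (P.lf 15805821 0 0) (P.cons (P.lf 6685445 0 0) (P.cons (P.lf 0 1026394 0) P.nil))))) (P.cons (P.cons (P.lf 0 10338082 0) (P.cons (P.lf 922291 0 0) (P.cons (P.lf 1219813 0 0) (P.cons (P.lf 134299 0 0) P.nil)))) (P.cons (P.cons (P.lf 0 1339659 0) (P.cons (P.lf 793497 0 0) (P.cons (P.lf 0 10629 0) P.nil))) (P.cons (P.cons (P.lf 49750 0 0) (P.cons (P.lf 7924 0 0) P.nil)) (P.cons (P.cons (P.lf 3490 0 0) P.nil) P.nil)))))) 447848)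
 (EL.cons 1 (TM.mk (P.cons (P.cons (P.lf 0 312873785 0) (P.cons (P.lf 387257377 0 0) (P.cons (P.lf 0 85347909 0) (P.cons (P.lf 0 23504734 0) (P.cons (P.lf 4460886 0 0) (P.cons (P.lf 331487 0 0) P.nil)))))) (P.cons (P.cons (P.lf 67051875 0 0) (P.cons (P.lf 0 21029022 0) (P.cons (P.lf 0 6712938 0) (P.cons (P.lf 0 240971 0) (P.cons (P.lf 212813 0 0) P.nil))))) (P.cons (P.cons (P.lf 7972413 0 0) (P.cons (P.lf 0 6373213 0) (P.cons (P.lf 324148 0 0) (P.cons (P.lf 242338 0 0) P.nil)))) (P.cons (P.cons (P.lf 0 433066 0) (P.cons (P.lf 0 31114 0) (P.cons (P.lf 44662 0 0) P.nil))) (P.cons (P.cons (P.lf 0 38824 0) (P.cons (P.lf 21492 0 0) P.nil)) (P.cons (P.cons (P.lf 1174 0 0) P.nil) P.nil)))))) 207669)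
 (EL.cons 5 (TM.mk (P.cons (P.cons (P.lf 654755860 0 0) (P.cons (P.lf 0 659437201 0) (P.cons (P.lf 120284978 0 0) (P.cons (P.lf 36675388 0 0) (P.cons (P.lf 0 6591667 0) (P.cons (P.lf 0 489815 0) P.nil)))))) (P.cons (P.cons (P.lf 0 40268332 0) (P.cons (P.lf 9571268 0 0) (P.cons (P.lf 5251326 0 0) (P.cons (P.lf 403320 0 0) (P.cons (P.lf 0 184935 0) P.nil))))) (P.cons (P.cons (P.lf 0 2585753 0) (P.cons (P.lf 2683795 0 0) (P.cons (P.lf 0 218548 0) (P.cons (P.lf 0 113021 0) P.nil)))) (P.cons (P.cons (P.lf 363352 0 0) (P.cons (P.lf 0 121454 0) (P.cons (P.lf 0 10533 0) P.nil))) (P.cons (P.cons (P.lf 0 731 0) (P.cons (P.lf 0 6451 0) P.nil)) (P.cons (P.cons (P.lf 0 1074 0) P.nil) P.nil)))))) 293854)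
 (EL.cons 9 (TM.mk (P.cons (P.cons (P.lf 772748674 0 0) (P.cons (P.lf 0 700348017 0) (P.cons (P.lf 111859048 0 0) (P.cons (P.lf 36826186 0 0) (P.cons (P.lf 0 6363465 0) (P.cons (P.lf 0 472867 0) P.nil)))))) (P.cons (P.cons (P.lf 23812369 0 0) (P.cons (P.lf 0 37489471 0) (P.cons (P.lf 9592210 0 0) (P.cons (P.lf 2453254 0 0) (P.cons (P.lf 0 485175 0) P.nil))))) (P.cons (P.cons (P.lf 0 5524855 0) (P.cons (P.lf 2657403 0 0) (P.cons (P.lf 189846 0 0) (P.cons (P.lf 0 57589 0) P.nil)))) (P.cons (P.cons (P.lf 0 99672 0) (P.cons (P.lf 141756 0 0) (P.cons (P.lf 0 12631 0) P.nil))) (P.cons (P.cons (P.lf 14943 0 0) (P.cons (P.lf 0 3205 0) P.nil)) (P.cons (P.cons (P.lf 144 0 0) P.nil) P.nil)))))) 153892)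
 (EL.cons 2 (TM.mk (P.cons (P.cons (P.lf 581071590 0 0) (P.cons (P.lf 0 173350333 0) (P.cons (P.lf 0 101714400 0) (P.cons (P.lf 21142985 0 0) (P.cons (P.lf 3374971 0 0) (P.cons (P.lf 0 573828 0) P.nil)))))) (P.cons (P.cons (P.lf 0 15561995 0) (P.cons (P.lf 0 1338502 0) (P.cons (P.lf 1398161 0 0) (P.cons (P.lf 0 48729 0) (P.cons (P.lf 0 23040 0) P.nil))))) (P.cons (P.cons (P.lf 0 4251735 0) (P.cons (P.lf 729427 0 0) (P.cons (P.lf 624763 0 0) (P.cons (P.lf 0 108067 0) P.nil)))) (P.cons (P.cons (P.lf 69215 0 0) (P.cons (P.lf 39948 0 0) (P.cons (P.lf 1310 0 0) P.nil))) (P.cons (P.cons (P.lf 9832 0 0) (P.cons (P.lf 0 303 0) P.nil)) (P.cons (P.cons (P.lf 0 56 0) P.nil) P.nil)))))) 102875)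
 (EL.cons 6 (TM.mk (P.cons (P.cons (P.lf 799173342 0 0) (P.cons (P.lf 0 238416342 0) (P.cons (P.lf 0 139892298 0) (P.cons (P.lf 29078880 0 0) (P.cons (P.lf 4641750 0 0) (P.cons (P.lf 0 789210 0) P.nil)))))) (P.cons (P.cons (P.lf 42779568 0 0) (P.cons (P.lf 0 20988438 0) (P.cons (P.lf 0 9311976 0) (P.cons (P.lf 2268336 0 0) (P.cons (P.lf 341088 0 0) P.nil))))) (P.cons (P.cons (P.lf 0 3032388 0) (P.cons (P.lf 0 497286 0) (P.cons (P.lf 220020 0 0) (P.cons (P.lf 10962 0 0) P.nil)))) (P.cons (P.cons (P.lf 0 161760 0) (P.cons (P.lf 25404 0 0) (P.cons (P.lf 23244 0 0) P.nil))) (P.cons (P.cons (P.lf 3660 0 0) (P.cons (P.lf 1566 0 0) P.nil)) (P.cons (P.cons (P.lf 252 0 0) P.nil) P.nil)))))) 146688)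
 EL.nil))))))
noncomputable def S205_212_364_512_3 : EL := (EL.cons 0 (TM.mk (P.cons (P.lf 955657552 0 0) (P.cons (P.lf 0 129212423 0) (P.cons (P.lf 3153833 0 0) (P.cons (P.lf 103621 0 0) (P.cons (P.lf 0 671 0) (P.cons (P.lf 0 40 0) P.nil)))))) 77)
 (EL.cons 1 (TM.mk (P.cons (P.lf 1314357905 0 0) (P.cons (P.lf 0 72153691 0) (P.cons (P.lf 0 2477608 0) (P.cons (P.lf 32090 0 0) (P.cons (P.lf 1325 0 0) (P.cons (P.lf 0 0 0) P.nil)))))) 91)
 (EL.cons 5 (TM.mk (P.cons (P.lf 1807694292 0 0) (P.cons (P.lf 45942196 0 0) (P.cons (P.lf 0 1121364 0) (P.cons (P.lf 0 36840 0) (P.cons (P.lf 236 0 0) (P.cons (P.lf 14 0 0) P.nil)))))) 100)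
 EL.nil)))
noncomputable def S205_212_364_512_4 : EL := (EL.cons 0 (TM.mk (P.cons (P.cons (P.lf 330975516 0 0) (P.cons (P.lf 0 149982816 0) (P.cons (P.lf 0 10027501 0) (P.lf 3342499 0 0)))) (P.cons (P.cons (P.lf 0 39650964 0) (P.cons (P.lf 14561182 0 0) (P.cons (P.lf 973527 0 0) (P.lf 0 324509 0)))) (P.cons (P.cons (P.lf 0 819680 0) (P.cons (P.lf 381332 0 0) (P.cons (P.lf 25493 0 0) (P.lf 0 8497 0)))) (P.cons (P.cons (P.lf 215491 0 0) (P.cons (P.lf 0 42577 0) (P.cons (P.lf 0 2845 0) P.nil))) (P.cons (P.cons (P.lf 0 2392 0) (P.cons (P.lf 0 1058 0) P.nil)) (P.cons (P.cons (P.lf 0 283 0) P.nil) P.nil)))))) 1671)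
 (EL.cons 1 (TM.mk (P.cons (P.cons (P.lf 455205200 0 0) (P.cons (P.lf 0 206277971 0) (P.cons (P.lf 0 13791262 0) (P.lf 4597085 0 0)))) (P.cons (P.cons (P.lf 0 17975576 0) (P.cons (P.lf 3460173 0 0) (P.cons (P.lf 231339 0 0) (P.lf 0 77113 0)))) (P.cons (P.cons (P.lf 0 2924401 0) (P.cons (P.lf 962508 0 0) (P.cons (P.lf 64350 0 0) (P.lf 0 21448 0)))) (P.cons (P.cons (P.lf 86737 0 0) (P.cons (P.lf 10948 0 0) (P.cons (P.lf 729 0 0) P.nil))) (P.cons (P.cons (P.lf 5338 0 0) (P.cons (P.lf 0 1164 0) P.nil)) (P.cons (P.cons (P.lf 0 91 0) P.nil) P.nil)))))) 1286)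
 (EL.cons 5 (TM.mk (P.cons (P.cons (P.lf 626063754 0 0) (P.cons (P.lf 0 283703176 0) (P.cons (P.lf 0 18967732 0) (P.lf 6322576 0 0)))) (P.cons (P.cons (P.lf 25557412 0 0) (P.cons (P.lf 0 18025648 0) (P.cons (P.lf 0 1205150 0) (P.lf 401714 0 0)))) (P.cons (P.cons (P.lf 0 2455578 0) (P.cons (P.lf 96380 0 0) (P.cons (P.lf 6442 0 0) (P.lf 0 2146 0)))) (P.cons (P.cons (P.lf 0 82258 0) (P.cons (P.lf 29770 0 0) (P.cons (P.lf 1988 0 0) P.nil))) (P.cons (P.cons (P.lf 3054 0 0) (P.cons (P.lf 366 0 0) P.nil)) (P.cons (P.cons (P.lf 116 0 0) P.nil) P.nil)))))) 1048)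
 EL.nil)))
noncomputable def S205_212_364_512_5 : EL := (EL.cons 0 (TM.mk (P.cons (P.cons (P.lf 114627663 0 0) (P.cons (P.lf 0 103887926 0) (P.cons (P.lf 16592899 0 0) (P.cons (P.lf 5462706 0 0) (P.cons (P.lf 0 943940 0) (P.cons (P.lf 0 70143 0) P.nil)))))) (P.cons (P.cons (P.lf 0 11966292 0) (P.cons (P.lf 8485366 0 0) (P.cons (P.lf 0 820604 0) (P.cons (P.lf 0 374690 0) (P.cons (P.lf 55657 0 0) P.nil))))) (P.cons (P.cons (P.lf 0 918841 0) (P.cons (P.lf 803248 0 0) (P.cons (P.lf 0 109464 0) (P.cons (P.lf 0 39717 0) P.nil)))) (P.cons (P.cons (P.lf 120109 0 0) (P.cons (P.lf 0 61885 0) (P.cons (P.lf 812 0 0) P.nil))) (P.cons (P.cons (P.lf 1812 0 0) (P.cons (P.lf 0 2547 0) P.nil)) (P.cons (P.cons (P.lf 0 421 0) P.nil) P.nil)))))) 52731)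
 (EL.cons 1 (TM.mk (P.cons (P.cons (P.lf 157652473 0 0) (P.cons (P.lf 0 142881637 0) (P.cons (P.lf 22820945 0 0) (P.cons (P.lf 7513100 0 0) (P.cons (P.lf 0 1298242 0) (P.cons (P.lf 0 96470 0) P.nil)))))) (P.cons (P.cons (P.lf 0 3796486 0) (P.cons (P.lf 195283 0 0) (P.cons (P.lf 704165 0 0) (P.cons (P.lf 88057 0 0) (P.cons (P.lf 0 27712 0) P.nil))))) (P.cons (P.cons (P.lf 0 1691025 0) (P.cons (P.lf 1231357 0 0) (P.cons (P.lf 0 111714 0) (P.cons (P.lf 0 53386 0) P.nil)))) (P.cons (P.cons (P.lf 36232 0 0) (P.cons (P.lf 10085 0 0) (P.cons (P.lf 0 7833 0) P.nil))) (P.cons (P.cons (P.lf 6566 0 0) (P.cons (P.lf 0 3592 0) P.nil)) (P.cons (P.cons (P.lf 0 121 0) P.nil) P.nil)))))) 52782)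
 (EL.cons 5 (TM.mk (P.cons (P.cons (P.lf 216826386 0 0) (P.cons (P.lf 0 196511408 0) (P.cons (P.lf 31386650 0 0) (P.cons (P.lf 10333098 0 0) (P.cons (P.lf 0 1785530 0) (P.cons (P.lf 0 132680 0) P.nil)))))) (P.cons (P.cons (P.lf 12192138 0 0) (P.cons (P.lf 0 15513508 0) (P.cons (P.lf 3489172 0 0) (P.cons (P.lf 950974 0 0) (P.cons (P.lf 0 181512 0) P.nil))))) (P.cons (P.cons (P.lf 0 1514918 0) (P.cons (P.lf 600200 0 0) (P.cons (P.lf 102202 0 0) (P.cons (P.lf 0 5072 0) P.nil)))) (P.cons (P.cons (P.lf 0 75928 0) (P.cons (P.lf 69254 0 0) (P.cons (P.lf 0 4498 0) P.nil))) (P.cons (P.cons (P.lf 4334 0 0) (P.cons (P.lf 0 162 0) P.nil)) (P.cons (P.cons (P.lf 198 0 0) P.nil) P.nil)))))) 54546)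
 EL.nil)))
noncomputable def S205_212_364_512_6 : EL := (EL.cons 12 (TM.mk (P.lf 8589934592 0 0) 0)
 (EL.cons 3 (TM.mk (P.cons (P.lf 0 1432570755 0) (P.cons (P.lf 96847421 0 0) (P.cons (P.lf 909768 0 0) (P.cons (P.lf 0 16162 0) (P.cons (P.lf 0 300 0) (P.cons (P.lf 0 0 0) P.nil)))))) 48)
 (EL.cons 7 (TM.mk (P.cons (P.lf 0 1970277629 0) (P.cons (P.lf 0 25037110 0) (P.cons (P.lf 770188 0 0) (P.cons (P.lf 10290 0 0) (P.cons (P.lf 0 109 0) (P.cons (P.lf 0 3 0) P.nil)))))) 47)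
 EL.nil)))
noncomputable def S205_212_364_512_7 : EL := (EL.cons 12 (TM.mk (P.cons (P.cons (P.lf 2974975760 0 0) (P.cons (P.lf 0 1348121608 0) (P.cons (P.lf 0 90132272 0) (P.lf 30044088 0 0)))) (P.cons (P.cons (P.lf 45837170 0 0) (P.cons (P.lf 0 51393360 0) (P.cons (P.lf 0 3436032 0) (P.lf 1145336 0 0)))) (P.cons (P.cons (P.lf 0 10988086 0) (P.cons (P.lf 927872 0 0) (P.cons (P.lf 62032 0 0) (P.lf 0 20672 0)))) (P.cons (P.cons (P.lf 0 22564 0) (P.cons (P.lf 58528 0 0) (P.cons (P.lf 3904 0 0) P.nil))) (P.cons (P.cons (P.lf 8822 0 0) (P.cons (P.lf 0 40 0) P.nil)) (P.cons (P.cons (P.lf 60 0 0) P.nil) P.nil)))))) 2212)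
 (EL.cons 3 (TM.mk (P.cons (P.cons (P.lf 105425352 0 0) (P.cons (P.lf 0 449661068 0) (P.cons (P.lf 0 30063290 0) (P.lf 10021094 0 0)))) (P.cons (P.cons (P.lf 0 258533925 0) (P.cons (P.lf 13256788 0 0) (P.cons (P.lf 886320 0 0) (P.lf 0 295440 0)))) (P.cons (P.cons (P.lf 0 282649 0) (P.cons (P.lf 1753920 0 0) (P.cons (P.lf 117260 0 0) (P.lf 0 39084 0)))) (P.cons (P.cons (P.lf 407517 0 0) (P.cons (P.lf 4410 0 0) (P.cons (P.lf 290 0 0) P.nil))) (P.cons (P.cons (P.lf 5085 0 0) (P.cons (P.lf 0 1816 0) P.nil)) (P.cons (P.cons (P.lf 0 276 0) P.nil) P.nil)))))) 3981)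
 (EL.cons 7 (TM.mk (P.cons (P.cons (P.lf 0 837890679 0) (P.cons (P.lf 483589701 0 0) (P.cons (P.lf 32331684 0 0) (P.lf 0 10777229 0)))) (P.cons (P.cons (P.lf 66836492 0 0) (P.cons (P.lf 0 3427158 0) (P.cons (P.lf 0 229129 0) (P.lf 76373 0 0)))) (P.cons (P.cons (P.lf 0 2610789 0) (P.cons (P.lf 0 315811 0) (P.cons (P.lf 0 21117 0) (P.lf 7040 0 0)))) (P.cons (P.cons (P.lf 0 91966 0) (P.cons (P.lf 22246 0 0) (P.cons (P.lf 1484 0 0) P.nil))) (P.cons (P.cons (P.lf 4638 0 0) (P.cons (P.lf 385 0 0) P.nil)) (P.cons (P.cons (P.lf 106 0 0) P.nil) P.nil)))))) 4033)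
 (EL.cons 10 (TM.mk (P.cons (P.cons (P.lf 0 2515068717 0) (P.cons (P.lf 0 389395794 0) (P.cons (P.lf 187598613 0 0) (P.cons (P.lf 7099281 0 0) (P.lf 0 1774818 0))))) (P.cons (P.cons (P.lf 0 63919977 0) (P.cons (P.lf 0 9896415 0) (P.cons (P.lf 4767780 0 0) (P.cons (P.lf 180426 0 0) (P.lf 0 45105 0))))) (P.cons (P.cons (P.lf 1560168 0 0) (P.cons (P.lf 241551 0 0) (P.cons (P.lf 0 116370 0) (P.cons (P.lf 0 4401 0) P.nil)))) (P.cons (P.cons (P.lf 51255 0 0) (P.cons (P.lf 7935 0 0) (P.cons (P.lf 0 3822 0) P.nil))) (P.cons (P.cons (P.lf 0 327 0) (P.cons (P.lf 0 48 0) P.nil)) (P.cons (P.cons (P.lf 0 18 0) P.nil) P.nil)))))) 1593)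
 EL.nil))))
noncomputable def S205_212_364_512_8 : EL := (EL.cons 12 (TM.mk (P.cons (P.cons (P.lf 1030331566 0 0) (P.cons (P.lf 0 933797356 0) (P.cons (P.lf 149145398 0 0) (P.cons (P.lf 49101582 0 0) (P.cons (P.lf 0 8484620 0) (P.cons (P.lf 0 630490 0) P.nil)))))) (P.cons (P.cons (P.lf 31749826 0 0) (P.cons (P.lf 0 49985962 0) (P.cons (P.lf 12789614 0 0) (P.cons (P.lf 3271006 0 0) (P.cons (P.lf 0 646900 0) P.nil))))) (P.cons (P.cons (P.lf 0 7366474 0) (P.cons (P.lf 3543204 0 0) (P.cons (P.lf 253128 0 0) (P.cons (P.lf 0 76786 0) P.nil)))) (P.cons (P.cons (P.lf 0 132896 0) (P.cons (P.lf 189008 0 0) (P.cons (P.lf 0 16842 0) P.nil))) (P.cons (P.cons (P.lf 19924 0 0) (P.cons (P.lf 0 4274 0) P.nil)) (P.cons (P.cons (P.lf 192 0 0) P.nil) P.nil)))))) 205160)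
 (EL.cons 3 (TM.mk (P.cons (P.cons (P.lf 244856180 0 0) (P.cons (P.lf 0 500288406 0) (P.cons (P.lf 142978660 0 0) (P.cons (P.lf 34740333 0 0) (P.cons (P.lf 0 7075036 0) (P.cons (P.lf 0 525746 0) P.nil)))))) (P.cons (P.cons (P.lf 0 184273881 0) (P.cons (P.lf 86463557 0 0) (P.cons (P.lf 7305163 0 0) (P.cons (P.lf 0 1723082 0) (P.cons (P.lf 0 61131 0) P.nil))))) (P.cons (P.cons (P.lf 0 4920265 0) (P.cons (P.lf 6965230 0 0) (P.cons (P.lf 0 542199 0) (P.cons (P.lf 0 289983 0) P.nil)))) (P.cons (P.cons (P.lf 999589 0 0) (P.cons (P.lf 0 193615 0) (P.cons (P.lf 0 44991 0) P.nil))) (P.cons (P.cons (P.lf 15862 0 0) (P.cons (P.lf 0 20091 0) P.nil)) (P.cons (P.cons (P.lf 0 1897 0) P.nil) P.nil)))))) 297049)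
 (EL.cons 7 (TM.mk (P.cons (P.cons (P.lf 0 344050308 0) (P.cons (P.lf 383780832 0 0) (P.cons (P.lf 0 77602875 0) (P.cons (P.lf 0 22360552 0) (P.cons (P.lf 4140975 0 0) (P.cons (P.lf 307713 0 0) P.nil)))))) (P.cons (P.cons (P.lf 47638698 0 0) (P.cons (P.lf 0 22352659 0) (P.cons (P.lf 0 1888542 0) (P.cons (P.lf 445446 0 0) (P.cons (P.lf 15807 0 0) P.nil))))) (P.cons (P.cons (P.lf 0 640963 0) (P.cons (P.lf 0 903078 0) (P.cons (P.lf 216001 0 0) (P.cons (P.lf 57078 0 0) P.nil)))) (P.cons (P.cons (P.lf 0 314190 0) (P.cons (P.lf 140670 0 0) (P.cons (P.lf 3640 0 0) P.nil))) (P.cons (P.cons (P.lf 11652 0 0) (P.cons (P.lf 1617 0 0) P.nil)) (P.cons (P.cons (P.lf 621 0 0) P.nil) P.nil)))))) 138257)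
 (EL.cons 10 (TM.mk (P.cons (P.cons (P.lf 0 1742101380 0) (P.cons (P.lf 519718842 0 0) (P.cons (P.lf 304948320 0 0) (P.cons (P.lf 0 63388458 0) (P.cons (P.lf 0 10118460 0) (P.cons (P.lf 1720386 0 0) P.nil)))))) (P.cons (P.cons (P.lf 0 71116722 0) (P.cons (P.lf 39147990 0 0) (P.cons (P.lf 16423884 0 0) (P.cons (P.lf 0 4139202 0) (P.cons (P.lf 0 614964 0) P.nil))))) (P.cons (P.cons (P.lf 6832956 0 0) (P.cons (P.lf 789714 0 0) (P.cons (P.lf 0 569118 0) (P.cons (P.lf 3912 0 0) P.nil)))) (P.cons (P.cons (P.lf 228894 0 0) (P.cons (P.lf 0 47400 0) (P.cons (P.lf 0 35430 0) P.nil))) (P.cons (P.cons (P.lf 0 8496 0) (P.cons (P.lf 0 2334 0) P.nil)) (P.cons (P.cons (P.lf 0 318 0) P.nil) P.nil)))))) 278268)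
 EL.nil))))
noncomputable def S205_212_364_512_9 : EL := (EL.cons 3 (TM.mk (P.cons (P.lf 0 1432570755 0) (P.cons (P.lf 96847421 0 0) (P.cons (P.lf 909768 0 0) (P.cons (P.lf 0 16162 0) (P.cons (P.lf 0 300 0) (P.cons (P.lf 0 0 0) P.nil)))))) 48)
 (EL.cons 7 (TM.mk (P.cons (P.lf 0 1970277629 0) (P.cons (P.lf 0 25037110 0) (P.cons (P.lf 770188 0 0) (P.cons (P.lf 10290 0 0) (P.cons (P.lf 0 109 0) (P.cons (P.lf 0 3 0) P.nil)))))) 47)
 EL.nil))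
noncomputable def S205_212_364_512_10 : EL := (EL.cons 3 (TM.mk (P.cons (P.cons (P.lf 0 496146183 0) (P.cons (P.lf 224830534 0 0) (P.cons (P.lf 15031645 0 0) (P.lf 0 5010547 0)))) (P.cons (P.cons (P.lf 25897023 0 0) (P.cons (P.lf 0 6628394 0) (P.cons (P.lf 0 443160 0) (P.lf 147720 0 0)))) (P.cons (P.cons (P.lf 2664392 0 0) (P.cons (P.lf 0 876960 0) (P.cons (P.lf 0 58630 0) (P.lf 19542 0 0)))) (P.cons (P.cons (P.lf 0 120864 0) (P.cons (P.lf 0 2205 0) (P.cons (P.lf 0 145 0) P.nil))) (P.cons (P.cons (P.lf 0 3078 0) (P.cons (P.lf 908 0 0) P.nil)) (P.cons (P.cons (P.lf 105 0 0) P.nil) P.nil)))))) 941)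
 (EL.cons 7 (TM.mk (P.cons (P.cons (P.lf 0 682371690 0) (P.cons (P.lf 309219333 0 0) (P.cons (P.lf 20673684 0 0) (P.lf 0 6891227 0)))) (P.cons (P.cons (P.lf 0 19184866 0) (P.cons (P.lf 15717495 0 0) (P.cons (P.lf 1050833 0 0) (P.lf 0 350275 0)))) (P.cons (P.cons (P.lf 2653482 0 0) (P.cons (P.lf 0 183904 0) (P.cons (P.lf 0 12294 0) (P.lf 4097 0 0)))) (P.cons (P.cons (P.lf 44876 0 0) (P.cons (P.lf 0 22352 0) (P.cons (P.lf 0 1492 0) P.nil))) (P.cons (P.cons (P.lf 0 2925 0) (P.cons (P.lf 0 122 0) P.nil)) (P.cons (P.cons (P.lf 0 56 0) P.nil) P.nil)))))) 792)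
 EL.nil))
noncomputable def S205_212_364_512_11 : EL := (EL.cons 3 (TM.mk (P.cons (P.cons (P.lf 0 171831676 0) (P.cons (P.lf 155732358 0 0) (P.cons (P.lf 0 24873452 0) (P.cons (P.lf 0 8188827 0) (P.cons (P.lf 1415006 0 0) (P.cons (P.lf 105148 0 0) P.nil)))))) (P.cons (P.cons (P.lf 6321477 0 0) (P.cons (P.lf 0 2191801 0) (P.cons (P.lf 0 451421 0) (P.cons (P.lf 8080 0 0) (P.cons (P.lf 12225 0 0) P.nil))))) (P.cons (P.cons (P.lf 1695617 0 0) (P.cons (P.lf 0 1253378 0) (P.cons (P.lf 117777 0 0) (P.cons (P.lf 54885 0 0) P.nil)))) (P.cons (P.cons (P.lf 0 59465 0) (P.cons (P.lf 4889 0 0) (P.cons (P.lf 6735 0 0) P.nil))) (P.cons (P.cons (P.lf 0 5696 0) (P.cons (P.lf 3345 0 0) P.nil)) (P.cons (P.cons (P.lf 191 0 0) P.nil) P.nil)))))) 53709)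
 (EL.cons 7 (TM.mk (P.cons (P.cons (P.lf 0 236327670 0) (P.cons (P.lf 214185570 0 0) (P.cons (P.lf 0 34209555 0) (P.cons (P.lf 0 11262454 0) (P.cons (P.lf 1946121 0 0) (P.cons (P.lf 144615 0 0) P.nil)))))) (P.cons (P.cons (P.lf 0 10285584 0) (P.cons (P.lf 14187047 0 0) (P.cons (P.lf 0 3368274 0) (P.cons (P.lf 0 893388 0) (P.cons (P.lf 173109 0 0) P.nil))))) (P.cons (P.cons (P.lf 1689491 0 0) (P.cons (P.lf 0 750738 0) (P.cons (P.lf 0 81965 0) (P.cons (P.lf 12480 0 0) P.nil)))) (P.cons (P.cons (P.lf 56034 0 0) (P.cons (P.lf 0 59280 0) (P.cons (P.lf 4450 0 0) P.nil))) (P.cons (P.cons (P.lf 0 4818 0) (P.cons (P.lf 699 0 0) P.nil)) (P.cons (P.cons (P.lf 0 123 0) P.nil) P.nil)))))) 53035)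
 EL.nil))
noncomputable def S205_212_364_512_12 : EL := (EL.cons 4 (TM.mk (P.cons (P.lf 1432570755 0 0) (P.cons (P.lf 0 96847421 0) (P.cons (P.lf 0 909768 0) (P.cons (P.lf 16162 0 0) (P.cons (P.lf 300 0 0) (P.cons (P.lf 0 0 0) P.nil)))))) 48)
 (EL.cons 8 (TM.mk (P.cons (P.lf 1970277629 0 0) (P.cons (P.lf 25037110 0 0) (P.cons (P.lf 0 770188 0) (P.cons (P.lf 0 10290 0) (P.cons (P.lf 109 0 0) (P.cons (P.lf 3 0 0) P.nil)))))) 47)
 EL.nil))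
noncomputable def S205_212_364_512_13 : EL := (EL.cons 4 (TM.mk (P.cons (P.cons (P.lf 496146183 0 0) (P.cons (P.lf 0 224830534 0) (P.cons (P.lf 0 15031645 0) (P.lf 5010547 0 0)))) (P.cons (P.cons (P.lf 0 25897023 0) (P.cons (P.lf 6628394 0 0) (P.cons (P.lf 443160 0 0) (P.lf 0 147720 0)))) (P.cons (P.cons (P.lf 0 2664392 0) (P.cons (P.lf 876960 0 0) (P.cons (P.lf 58630 0 0) (P.lf 0 19542 0)))) (P.cons (P.cons (P.lf 120864 0 0) (P.cons (P.lf 2205 0 0) (P.cons (P.lf 145 0 0) P.nil))) (P.cons (P.cons (P.lf 3078 0 0) (P.cons (P.lf 0 908 0) P.nil)) (P.cons (P.cons (P.lf 0 105 0) P.nil) P.nil)))))) 941)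
 (EL.cons 8 (TM.mk (P.cons (P.cons (P.lf 682371690 0 0) (P.cons (P.lf 0 309219333 0) (P.cons (P.lf 0 20673684 0) (P.lf 6891227 0 0)))) (P.cons (P.cons (P.lf 19184866 0 0) (P.cons (P.lf 0 15717495 0) (P.cons (P.lf 0 1050833 0) (P.lf 350275 0 0)))) (P.cons (P.cons (P.lf 0 2653482 0) (P.cons (P.lf 183904 0 0) (P.cons (P.lf 12294 0 0) (P.lf 0 4097 0)))) (P.cons (P.cons (P.lf 0 44876 0) (P.cons (P.lf 22352 0 0) (P.cons (P.lf 1492 0 0) P.nil))) (P.cons (P.cons (P.lf 2925 0 0) (P.cons (P.lf 122 0 0) P.nil)) (P.cons (P.cons (P.lf 56 0 0) P.nil) P.nil)))))) 792)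
 EL.nil))
noncomputable def S205_212_364_512_14 : EL := (EL.cons 4 (TM.mk (P.cons (P.cons (P.lf 171831676 0 0) (P.cons (P.lf 0 155732358 0) (P.cons (P.lf 24873452 0 0) (P.cons (P.lf 8188827 0 0) (P.cons (P.lf 0 1415006 0) (P.cons (P.lf 0 105148 0) P.nil)))))) (P.cons (P.cons (P.lf 0 6321477 0) (P.cons (P.lf 2191801 0 0) (P.cons (P.lf 451421 0 0) (P.cons (P.lf 0 8080 0) (P.cons (P.lf 0 12225 0) P.nil))))) (P.cons (P.cons (P.lf 0 1695617 0) (P.cons (P.lf 1253378 0 0) (P.cons (P.lf 0 117777 0) (P.cons (P.lf 0 54885 0) P.nil)))) (P.cons (P.cons (P.lf 59465 0 0) (P.cons (P.lf 0 4889 0) (P.cons (P.lf 0 6735 0) P.nil))) (P.cons (P.cons (P.lf 5696 0 0) (P.cons (P.lf 0 3345 0) P.nil)) (P.cons (P.cons (P.lf 0 191 0) P.nil) P.nil)))))) 53709)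
 (EL.cons 8 (TM.mk (P.cons (P.cons (P.lf 236327670 0 0) (P.cons (P.lf 0 214185570 0) (P.cons (P.lf 34209555 0 0) (P.cons (P.lf 11262454 0 0) (P.cons (P.lf 0 1946121 0) (P.cons (P.lf 0 144615 0) P.nil)))))) (P.cons (P.cons (P.lf 10285584 0 0) (P.cons (P.lf 0 14187047 0) (P.cons (P.lf 3368274 0 0) (P.cons (P.lf 893388 0 0) (P.cons (P.lf 0 173109 0) P.nil))))) (P.cons (P.cons (P.lf 0 1689491 0) (P.cons (P.lf 750738 0 0) (P.cons (P.lf 81965 0 0) (P.cons (P.lf 0 12480 0) P.nil)))) (P.cons (P.cons (P.lf 0 56034 0) (P.cons (P.lf 59280 0 0) (P.cons (P.lf 0 4450 0) P.nil))) (P.cons (P.cons (P.lf 4818 0 0) (P.cons (P.lf 0 699 0) P.nil)) (P.cons (P.cons (P.lf 123 0 0) P.nil) P.nil)))))) 53035)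
 EL.nil))
noncomputable def S205_212_364_512_15 : EL := (EL.cons 4 (TM.mk (P.cons (P.lf 0 509684027 0) (P.cons (P.lf 68913292 0 0) (P.cons (P.lf 0 1682044 0) (P.cons (P.lf 0 55264 0) (P.cons (P.lf 358 0 0) (P.cons (P.lf 21 0 0) P.nil)))))) 44)
 (EL.cons 8 (TM.mk (P.cons (P.lf 0 700990883 0) (P.cons (P.lf 38481969 0 0) (P.cons (P.lf 1321391 0 0) (P.cons (P.lf 0 17115 0) (P.cons (P.lf 0 707 0) (P.cons (P.lf 0 0 0) P.nil)))))) 45)
 EL.nil))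
noncomputable def S205_212_364_512_16 : EL := (EL.cons 4 (TM.mk (P.cons (P.cons (P.lf 0 176520275 0) (P.cons (P.lf 79990835 0 0) (P.cons (P.lf 5348000 0 0) (P.lf 0 1782666 0)))) (P.cons (P.cons (P.lf 21147180 0 0) (P.cons (P.lf 0 7765964 0) (P.cons (P.lf 0 519214 0) (P.lf 173071 0 0)))) (P.cons (P.cons (P.lf 437162 0 0) (P.cons (P.lf 0 203377 0) (P.cons (P.lf 0 13596 0) (P.lf 4531 0 0)))) (P.cons (P.cons (P.lf 0 114929 0) (P.cons (P.lf 22708 0 0) (P.cons (P.lf 1517 0 0) P.nil))) (P.cons (P.cons (P.lf 1275 0 0) (P.cons (P.lf 564 0 0) P.nil)) (P.cons (P.cons (P.lf 150 0 0) P.nil) P.nil)))))) 900)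
 (EL.cons 8 (TM.mk (P.cons (P.cons (P.lf 0 242776107 0) (P.cons (P.lf 110014918 0 0) (P.cons (P.lf 7355340 0 0) (P.lf 0 2451779 0)))) (P.cons (P.cons (P.lf 9586974 0 0) (P.cons (P.lf 0 1845426 0) (P.cons (P.lf 0 123381 0) (P.lf 41127 0 0)))) (P.cons (P.cons (P.lf 1559681 0 0) (P.cons (P.lf 0 513338 0) (P.cons (P.lf 0 34320 0) (P.lf 11439 0 0)))) (P.cons (P.cons (P.lf 0 46260 0) (P.cons (P.lf 0 5839 0) (P.cons (P.lf 0 389 0) P.nil))) (P.cons (P.cons (P.lf 0 2847 0) (P.cons (P.lf 621 0 0) P.nil)) (P.cons (P.cons (P.lf 49 0 0) P.nil) P.nil)))))) 676)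
 EL.nil))
noncomputable def S205_212_364_512_17 : EL := (EL.cons 4 (TM.mk (P.cons (P.cons (P.lf 0 61134753 0) (P.cons (P.lf 55406894 0 0) (P.cons (P.lf 0 8849546 0) (P.cons (P.lf 0 2913443 0) (P.cons (P.lf 503434 0 0) (P.cons (P.lf 37410 0 0) P.nil)))))) (P.cons (P.cons (P.lf 6382022 0 0) (P.cons (P.lf 0 4525529 0) (P.cons (P.lf 437655 0 0) (P.cons (P.lf 199834 0 0) (P.cons (P.lf 0 29684 0) P.nil))))) (P.cons (P.cons (P.lf 490049 0 0) (P.cons (P.lf 0 428399 0) (P.cons (P.lf 58380 0 0) (P.cons (P.lf 21182 0 0) P.nil)))) (P.cons (P.cons (P.lf 0 64058 0) (P.cons (P.lf 33005 0 0) (P.cons (P.lf 0 433 0) P.nil))) (P.cons (P.cons (P.lf 0 966 0) (P.cons (P.lf 1358 0 0) P.nil)) (P.cons (P.cons (P.lf 225 0 0) P.nil) P.nil)))))) 28133)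
 (EL.cons 8 (TM.mk (P.cons (P.cons (P.lf 0 84081319 0) (P.cons (P.lf 76203540 0 0) (P.cons (P.lf 0 12171171 0) (P.cons (P.lf 0 4006987 0) (P.cons (P.lf 692396 0 0) (P.cons (P.lf 51451 0 0) P.nil)))))) (P.cons (P.cons (P.lf 2024793 0 0) (P.cons (P.lf 0 104151 0) (P.cons (P.lf 0 375555 0) (P.cons (P.lf 0 46964 0) (P.cons (P.lf 14780 0 0) P.nil))))) (P.cons (P.cons (P.lf 901880 0 0) (P.cons (P.lf 0 656724 0) (P.cons (P.lf 59581 0 0) (P.cons (P.lf 28473 0 0) P.nil)))) (P.cons (P.cons (P.lf 0 19324 0) (P.cons (P.lf 0 5379 0) (P.cons (P.lf 4178 0 0) P.nil))) (P.cons (P.cons (P.lf 0 3502 0) (P.cons (P.lf 1916 0 0) P.nil)) (P.cons (P.cons (P.lf 65 0 0) P.nil) P.nil)))))) 28139)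
 EL.nil))
noncomputable def S205_212_364_512_18 : EL := (EL.cons 4 (TM.mk (P.cons (P.lf 181336807 0 0) (P.cons (P.lf 0 36777245 0) (P.cons (P.lf 2140806 0 0) (P.cons (P.lf 0 3178 0) (P.cons (P.lf 0 2074 0) (P.cons (P.lf 0 9 0) P.nil)))))) 34)
 (EL.cons 8 (TM.mk (P.cons (P.lf 249400495 0 0) (P.cons (P.lf 0 30551677 0) (P.cons (P.lf 297067 0 0) (P.cons (P.lf 49380 0 0) (P.cons (P.lf 36 0 0) (P.cons (P.lf 0 29 0) P.nil)))))) 32)
 EL.nil))
noncomputable def S205_212_364_512_19 : EL := (EL.cons 4 (TM.mk (P.cons (P.cons (P.lf 62802876 0 0) (P.cons (P.lf 0 28459363 0) (P.cons (P.lf 0 1902726 0) (P.lf 634242 0 0)))) (P.cons (P.cons (P.lf 0 11769524 0) (P.cons (P.lf 4686960 0 0) (P.cons (P.lf 313359 0 0) (P.lf 0 104452 0)))) (P.cons (P.cons (P.lf 313219 0 0) (P.cons (P.lf 0 96357 0) (P.cons (P.lf 0 6441 0) (P.lf 2146 0 0)))) (P.cons (P.cons (P.lf 56891 0 0) (P.cons (P.lf 0 15045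 0) (P.cons (P.lf 0 1005 0) P.nil))) (P.cons (P.cons (P.lf 0 3190 0) (P.cons (P.lf 324 0 0) P.nil)) (P.cons (P.cons (P.lf 0 51 0) P.nil) P.nil)))))) 597)
 (EL.cons 8 (TM.mk (P.cons (P.cons (P.lf 86375561 0 0) (P.cons (P.lf 0 39141415 0) (P.cons (P.lf 0 2616903 0) (P.lf 872301 0 0)))) (P.cons (P.cons (P.lf 0 9250208 0) (P.cons (P.lf 3302684 0 0) (P.cons (P.lf 220810 0 0) (P.lf 0 73603 0)))) (P.cons (P.cons (P.lf 0 379172 0) (P.cons (P.lf 163106 0 0) (P.cons (P.lf 10904 0 0) (P.lf 0 3634 0)))) (P.cons (P.cons (P.lf 57113 0 0) (P.cons (P.lf 0 11128 0) (P.cons (P.lf 0 743 0) P.nil))) (P.cons (P.cons (P.lf 232 0 0) (P.cons (P.lf 0 478 0) P.nil)) (P.cons (P.cons (P.lf 0 103 0) P.nil) P.nil)))))) 550)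
 EL.nil))
noncomputable def S205_212_364_512_20 : EL := (EL.cons 4 (TM.mk (P.cons (P.cons (P.lf 21750693 0 0) (P.cons (P.lf 0 19712819 0) (P.cons (P.lf 3148515 0 0) (P.cons (P.lf 1036552 0 0) (P.cons (P.lf 0 179113 0) (P.cons (P.lf 0 13309 0) P.nil)))))) (P.cons (P.cons (P.lf 0 3741045 0) (P.cons (P.lf 2942769 0 0) (P.cons (P.lf 0 368562 0) (P.cons (P.lf 0 141172 0) (P.cons (P.lf 22669 0 0) P.nil))))) (P.cons (P.cons (P.lf 0 34661 0) (P.cons (P.lf 56085 0 0) (P.cons (P.lf 0 12243 0) (P.cons (P.lf 0 3388 0) P.nil)))) (P.cons (P.cons (P.lf 36264 0 0) (P.cons (P.lf 0 23291 0) (P.cons (P.lf 1692 0 0) P.nil))) (P.cons (P.cons (P.lf 0 1106 0) (P.cons (P.lf 226 0 0) P.nil)) (P.cons (P.cons (P.lf 0 120 0) P.nil) P.nil)))))) 14686)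
 (EL.cons 8 (TM.mk (P.cons (P.cons (P.lf 29914686 0 0) (P.cons (P.lf 0 27111908 0) (P.cons (P.lf 4330293 0 0) (P.cons (P.lf 1425617 0 0) (P.cons (P.lf 0 246342 0) (P.cons (P.lf 0 18305 0) P.nil)))))) (P.cons (P.cons (P.lf 0 2742737 0) (P.cons (P.lf 1869926 0 0) (P.cons (P.lf 0 159128 0) (P.cons (P.lf 0 79667 0) (P.cons (P.lf 11394 0 0) P.nil))))) (P.cons (P.cons (P.lf 0 291170 0) (P.cons (P.lf 248363 0 0) (P.cons (P.lf 0 32981 0) (P.cons (P.lf 0 12165 0) P.nil)))) (P.cons (P.cons (P.lf 29362 0 0) (P.cons (P.lf 0 14210 0) (P.cons (P.lf 0 89 0) P.nil))) (P.cons (P.cons (P.lf 982 0 0) (P.cons (P.lf 0 964 0) P.nil)) (P.cons (P.cons (P.lf 0 115 0) P.nil) P.nil)))))) 14703)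
 EL.nil))
noncomputable def S205_212_364_512_21 : EL := (EL.cons 4 (TM.mk (P.cons (P.cons (P.lf 0 601571535 0) (P.cons (P.lf 674491602 0 0) (P.cons (P.lf 45094935 0 0) (P.lf 0 15031641 0)))) (P.cons (P.cons (P.lf 284430948 0 0) (P.cons (P.lf 0 19885182 0) (P.cons (P.lf 0 1329480 0) (P.lf 443160 0 0)))) (P.cons (P.cons (P.lf 2947041 0 0) (P.cons (P.lf 0 2630880 0) (P.cons (P.lf 0 175890 0) (P.lf 58626 0 0)))) (P.cons (P.cons (P.lf 0 528381 0) (P.cons (P.lf 0 6615 0) (P.cons (P.lf 0 435 0) P.nil))) (P.cons (P.cons (P.lf 0 8163 0) (P.cons (P.lf 2724 0 0) P.nil)) (P.cons (P.cons (P.lf 381 0 0) P.nil) P.nil)))))) 3021)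
 (EL.cons 8 (TM.mk (P.cons (P.cons (P.lf 155518989 0 0) (P.cons (P.lf 0 174370368 0) (P.cons (P.lf 0 11658000 0) (P.lf 3886002 0 0)))) (P.cons (P.cons (P.lf 0 86021358 0) (P.cons (P.lf 19144653 0 0) (P.cons (P.lf 1279962 0 0) (P.lf 0 426648 0)))) (P.cons (P.cons (P.lf 5264271 0 0) (P.cons (P.lf 131907 0 0) (P.cons (P.lf 8823 0 0) (P.lf 0 2943 0)))) (P.cons (P.cons (P.lf 136842 0 0) (P.cons (P.lf 0 44598 0) (P.cons (P.lf 0 2976 0) P.nil))) (P.cons (P.cons (P.lf 0 7563 0) (P.cons (P.lf 0 507 0) P.nil)) (P.cons (P.cons (P.lf 0 162 0) P.nil) P.nil)))))) 3222)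
 (EL.cons 11 (TM.mk (P.cons (P.cons (P.lf 2515068717 0 0) (P.cons (P.lf 389395794 0 0) (P.cons (P.lf 0 187598613 0) (P.cons (P.lf 0 7099281 0) (P.lf 1774818 0 0))))) (P.cons (P.cons (P.lf 63919977 0 0) (P.cons (P.lf 9896415 0 0) (P.cons (P.lf 0 4767780 0) (P.cons (P.lf 0 180426 0) (P.lf 45105 0 0))))) (P.cons (P.cons (P.lf 0 1560168 0) (P.cons (P.lf 0 241551 0) (P.cons (P.lf 116370 0 0) (P.cons (P.lf 4401 0 0) P.nil)))) (P.cons (P.cons (P.lf 0 51255 0) (P.cons (P.lf 0 7935 0) (P.cons (P.lf 3822 0 0) P.nil))) (P.cons (P.cons (P.lf 327 0 0) (P.cons (P.lf 48 0 0) P.nil)) (P.cons (P.cons (P.lf 18 0 0) P.nil) P.nil)))))) 1593)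
 EL.nil)))
noncomputable def S205_212_364_512_22 : EL := (EL.cons 4 (TM.mk (P.cons (P.cons (P.lf 0 208343928 0) (P.cons (P.lf 328010382 0 0) (P.cons (P.lf 0 83926056 0) (P.cons (P.lf 0 21464580 0) (P.cons (P.lf 4245021 0 0) (P.cons (P.lf 315447 0 0) P.nil)))))) (P.cons (P.cons (P.lf 95297679 0 0) (P.cons (P.lf 0 44327679 0) (P.cons (P.lf 0 3878292 0) (P.cons (P.lf 865581 0 0) (P.cons (P.lf 36678 0 0) P.nil))))) (P.cons (P.cons (P.lf 3307941 0 0) (P.cons (P.lf 0 4109304 0) (P.cons (P.lf 329988 0 0) (P.cons (P.lf 172434 0 0) P.nil)))) (P.cons (P.cons (P.lf 0 529527 0) (P.cons (P.lf 99252 0 0) (P.cons (P.lf 25863 0 0) P.nil))) (P.cons (P.cons (P.lf 0 10779 0) (P.cons (P.lf 11718 0 0) P.nil)) (P.cons (P.cons (P.lf 1044 0 0) P.nil) P.nil)))))) 121659)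
 (EL.cons 8 (TM.mk (P.cons (P.cons (P.lf 53861319 0 0) (P.cons (P.lf 0 84797631 0) (P.cons (P.lf 21696660 0 0) (P.cons (P.lf 5549049 0 0) (P.cons (P.lf 0 1097427 0) (P.cons (P.lf 0 81549 0) P.nil)))))) (P.cons (P.cons (P.lf 0 28962141 0) (P.cons (P.lf 18269853 0 0) (P.cons (P.lf 0 739866 0) (P.cons (P.lf 0 669417 0) (P.cons (P.lf 78651 0 0) P.nil))))) (P.cons (P.cons (P.lf 1165227 0 0) (P.cons (P.lf 76170 0 0) (P.cons (P.lf 0 148983 0) (P.cons (P.lf 0 22299 0) P.nil)))) (P.cons (P.cons (P.lf 185112 0 0) (P.cons (P.lf 0 99975 0) (P.cons (P.lf 405 0 0) P.nil))) (P.cons (P.cons (P.lf 0 8235 0) (P.cons (P.lf 0 459 0) P.nil)) (P.cons (P.cons (P.lf 0 372 0) P.nil) P.nil)))))) 42600)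
 (EL.cons 11 (TM.mk (P.cons (P.cons (P.lf 871050690 0 0) (P.cons (P.lf 0 259859421 0) (P.cons (P.lf 0 152474160 0) (P.cons (P.lf 31694229 0 0) (P.cons (P.lf 5059230 0 0) (P.cons (P.lf 0 860193 0) P.nil)))))) (P.cons (P.cons (P.lf 35558361 0 0) (P.cons (P.lf 0 19573995 0) (P.cons (P.lf 0 8211942 0) (P.cons (P.lf 2069601 0 0) (P.cons (P.lf 307482 0 0) P.nil))))) (P.cons (P.cons (P.lf 0 3416478 0) (P.cons (P.lf 0 394857 0) (P.cons (P.lf 284559 0 0) (P.cons (P.lf 0 1956 0) P.nil)))) (P.cons (P.cons (P.lf 0 114447 0) (P.cons (P.lf 23700 0 0) (P.cons (P.lf 17715 0 0) P.nil))) (P.cons (P.cons (P.lf 4248 0 0) (P.cons (P.lf 1167 0 0) P.nil)) (P.cons (P.cons (P.lf 159 0 0) P.nil) P.nil)))))) 139134)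
 EL.nil)))
noncomputable def S205_212_364_512_23 : EL := (EL.cons 4 (TM.mk (P.cons (P.cons (P.lf 214028802 0 0) (P.cons (P.lf 0 239972505 0) (P.cons (P.lf 0 16044000 0) (P.lf 5347998 0 0)))) (P.cons (P.cons (P.lf 0 115664826 0) (P.cons (P.lf 23297889 0 0) (P.cons (P.lf 1557642 0 0) (P.lf 0 519213 0)))) (P.cons (P.cons (P.lf 5656794 0 0) (P.cons (P.lf 610134 0 0) (P.cons (P.lf 40788 0 0) (P.lf 0 13593 0)))) (P.cons (P.cons (P.lf 325551 0 0) (P.cons (P.lf 0 68124 0) (P.cons (P.lf 0 4557 0) P.nil))) (P.cons (P.cons (P.lf 0 10233 0) (P.cons (P.lf 0 1692 0) P.nil)) (P.cons (P.cons (P.lf 0 483 0) P.nil) P.nil)))))) 2961)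
 (EL.cons 8 (TM.mk (P.cons (P.cons (P.lf 0 55330980 0) (P.cons (P.lf 62037975 0 0) (P.cons (P.lf 4147713 0 0) (P.lf 0 1382571 0)))) (P.cons (P.cons (P.lf 34345509 0 0) (P.cons (P.lf 0 11005347 0) (P.cons (P.lf 0 735789 0) (P.lf 245259 0 0)))) (P.cons (P.cons (P.lf 0 3906810 0) (P.cons (P.lf 374145 0 0) (P.cons (P.lf 25011 0 0) (P.lf 0 8334 0)))) (P.cons (P.cons (P.lf 57870 0 0) (P.cons (P.lf 24063 0 0) (P.cons (P.lf 1605 0 0) P.nil))) (P.cons (P.cons (P.lf 7503 0 0) (P.cons (P.lf 0 924 0) P.nil)) (P.cons (P.cons (P.lf 0 108 0) P.nil) P.nil)))))) 1581)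
 (EL.cons 11 (TM.mk (P.cons (P.cons (P.lf 0 894818178 0) (P.cons (P.lf 0 138540324 0) (P.cons (P.lf 66744357 0 0) (P.cons (P.lf 2525802 0 0) (P.lf 0 631449 0))))) (P.cons (P.cons (P.lf 37751601 0 0) (P.cons (P.lf 5844894 0 0) (P.cons (P.lf 0 2815887 0) (P.cons (P.lf 0 106560 0) (P.lf 26640 0 0))))) (P.cons (P.cons (P.lf 2660766 0 0) (P.cons (P.lf 411951 0 0) (P.cons (P.lf 0 198465 0) (P.cons (P.lf 0 7509 0) P.nil)))) (P.cons (P.cons (P.lf 0 14943 0) (P.cons (P.lf 0 2313 0) (P.cons (P.lf 1113 0 0) P.nil))) (P.cons (P.cons (P.lf 0 2145 0) (P.cons (P.lf 0 330 0) P.nil)) (P.cons (P.cons (P.lf 0 6 0) P.nil) P.nil)))))) 2538)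
 EL.nil)))
noncomputable def S205_212_364_512_24 : EL := (EL.cons 4 (TM.mk (P.cons (P.cons (P.lf 74125185 0 0) (P.cons (P.lf 0 116700450 0) (P.cons (P.lf 29859447 0 0) (P.cons (P.lf 7636728 0 0) (P.cons (P.lf 0 1510305 0) (P.cons (P.lf 0 112230 0) P.nil)))))) (P.cons (P.cons (P.lf 0 38916429 0) (P.cons (P.lf 23660433 0 0) (P.cons (P.lf 0 638784 0) (P.cons (P.lf 0 824229 0) (P.cons (P.lf 89052 0 0) P.nil))))) (P.cons (P.cons (P.lf 1068147 0 0) (P.cons (P.lf 469947 0 0) (P.cons (P.lf 0 229647 0) (P.cons (P.lf 0 45378 0) P.nil)))) (P.cons (P.cons (P.lf 290328 0 0) (P.cons (P.lf 0 145482 0) (P.cons (P.lf 0 1803 0) P.nil))) (P.cons (P.cons (P.lf 0 8520 0) (P.cons (P.lf 0 2556 0) P.nil)) (P.cons (P.cons (P.lf 0 768 0) P.nil) P.nil)))))) 51510)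
 (EL.cons 8 (TM.mk (P.cons (P.cons (P.lf 0 19162929 0) (P.cons (P.lf 30169539 0 0) (P.cons (P.lf 0 7719297 0) (P.cons (P.lf 0 1974255 0) (P.cons (P.lf 390444 0 0) (P.cons (P.lf 29013 0 0) P.nil)))))) (P.cons (P.cons (P.lf 11599719 0 0) (P.cons (P.lf 0 8539677 0) (P.cons (P.lf 785085 0 0) (P.cons (P.lf 371634 0 0) (P.cons (P.lf 0 54378 0) P.nil))))) (P.cons (P.cons (P.lf 0 1099005 0) (P.cons (P.lf 393171 0 0) (P.cons (P.lf 40110 0 0) (P.cons (P.lf 0 6912 0) P.nil)))) (P.cons (P.cons (P.lf 0 44592 0) (P.cons (P.lf 41868 0 0) (P.cons (P.lf 0 3981 0) P.nil))) (P.cons (P.cons (P.lf 7758 0 0) (P.cons (P.lf 0 2289 0) P.nil)) (P.cons (P.cons (P.lf 0 24 0) P.nil) P.nil)))))) 17448)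
 (EL.cons 11 (TM.mk (P.cons (P.cons (P.lf 0 309904848 0) (P.cons (P.lf 92453511 0 0) (P.cons (P.lf 54247680 0 0) (P.cons (P.lf 0 11276259 0) (P.cons (P.lf 0 1799985 0) (P.cons (P.lf 306042 0 0) P.nil)))))) (P.cons (P.cons (P.lf 8299731 0 0) (P.cons (P.lf 713868 0 0) (P.cons (P.lf 0 745686 0) (P.cons (P.lf 25989 0 0) (P.cons (P.lf 12288 0 0) P.nil))))) (P.cons (P.cons (P.lf 2267592 0 0) (P.cons (P.lf 0 389028 0) (P.cons (P.lf 0 333207 0) (P.cons (P.lf 57636 0 0) P.nil)))) (P.cons (P.cons (P.lf 0 36915 0) (P.cons (P.lf 0 21306 0) (P.cons (P.lf 0 699 0) P.nil))) (P.cons (P.cons (P.lf 0 5244 0) (P.cons (P.lf 162 0 0) P.nil)) (P.cons (P.cons (P.lf 30 0 0) P.nil) P.nil)))))) 54855)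
 EL.nil)))
noncomputable def S205_212_364_512_25 : EL := (EL.cons 4 (TM.mk (P.cons (P.cons (P.lf 0 76147764 0) (P.cons (P.lf 85378089 0 0) (P.cons (P.lf 5708178 0 0) (P.lf 0 1902726 0)))) (P.cons (P.cons (P.lf 46299444 0 0) (P.cons (P.lf 0 14060883 0) (P.cons (P.lf 0 940077 0) (P.lf 313359 0 0)))) (P.cons (P.cons (P.lf 0 4746237 0) (P.cons (P.lf 289071 0 0) (P.cons (P.lf 19326 0 0) (P.lf 0 6441 0)))) (P.cons (P.cons (P.lf 0 6759 0) (P.cons (P.lf 45138 0 0) (P.cons (P.lf 3018 0 0) P.nil))) (P.cons (P.cons (P.lf 13197 0 0) (P.cons (P.lf 0 972 0) P.nil)) (P.cons (P.cons (P.lf 0 12 0) P.nil) P.nil)))))) 2151)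
 (EL.cons 8 (TM.mk (P.cons (P.cons (P.lf 19685808 0 0) (P.cons (P.lf 0 22072044 0) (P.cons (P.lf 0 1475685 0) (P.lf 491895 0 0)))) (P.cons (P.cons (P.lf 0 13550379 0) (P.cons (P.lf 5407671 0 0) (P.cons (P.lf 361542 0 0) (P.lf 0 120513 0)))) (P.cons (P.cons (P.lf 2203563 0 0) (P.cons (P.lf 0 383799 0) (P.cons (P.lf 0 25659 0) (P.lf 8550 0 0)))) (P.cons (P.cons (P.lf 0 106575 0) (P.cons (P.lf 0 2298 0) (P.cons (P.lf 0 153 0) P.nil))) (P.cons (P.cons (P.lf 0 2292 0) (P.cons (P.lf 1032 0 0) P.nil)) (P.cons (P.cons (P.lf 243 0 0) P.nil) P.nil)))))) 930)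
 (EL.cons 11 (TM.mk (P.cons (P.cons (P.lf 318360912 0 0) (P.cons (P.lf 49290261 0 0) (P.cons (P.lf 0 23746494 0) (P.cons (P.lf 0 898635 0) (P.lf 224658 0 0))))) (P.cons (P.cons (P.lf 0 34953819 0) (P.cons (P.lf 0 5411727 0) (P.cons (P.lf 2607198 0 0) (P.cons (P.lf 98664 0 0) (P.lf 0 24666 0))))) (P.cons (P.cons (P.lf 0 240819 0) (P.cons (P.lf 0 37284 0) (P.cons (P.lf 17961 0 0) (P.cons (P.lf 678 0 0) P.nil)))) (P.cons (P.cons (P.lf 81435 0 0) (P.cons (P.lf 12606 0 0) (P.cons (P.lf 0 6072 0) P.nil))) (P.cons (P.cons (P.lf 918 0 0) (P.cons (P.lf 141 0 0) P.nil)) (P.cons (P.cons (P.lf 0 63 0) P.nil) P.nil)))))) 2343)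
 EL.nil)))
noncomputable def S205_212_364_512_26 : EL := (EL.cons 4 (TM.mk (P.cons (P.cons (P.lf 0 26372463 0) (P.cons (P.lf 41520012 0 0) (P.cons (P.lf 0 10623477 0) (P.cons (P.lf 0 2717016 0) (P.cons (P.lf 537339 0 0) (P.cons (P.lf 39927 0 0) P.nil)))))) (P.cons (P.cons (P.lf 15628677 0 0) (P.cons (P.lf 0 11224890 0) (P.cons (P.lf 945456 0 0) (P.cons (P.lf 476928 0 0) (P.cons (P.lf 0 68007 0) P.nil))))) (P.cons (P.cons (P.lf 0 1299309 0) (P.cons (P.lf 375519 0 0) (P.cons (P.lf 73086 0 0) (P.cons (P.lf 0 1953 0) P.nil)))) (P.cons (P.cons (P.lf 0 86691 0) (P.cons (P.lf 68877 0 0) (P.cons (P.lf 0 5145 0) P.nil))) (P.cons (P.cons (P.lf 10404 0 0) (P.cons (P.lf 0 2568 0) P.nil)) (P.cons (P.cons (P.lf 132 0 0) P.nil) P.nil)))))) 24075)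
 (EL.cons 8 (TM.mk (P.cons (P.cons (P.lf 6817839 0 0) (P.cons (P.lf 0 10733802 0) (P.cons (P.lf 2746392 0 0) (P.cons (P.lf 702405 0 0) (P.cons (P.lf 0 138912 0) (P.cons (P.lf 0 10320 0) P.nil)))))) (P.cons (P.cons (P.lf 0 4587894 0) (P.cons (P.lf 3763917 0 0) (P.cons (P.lf 0 464985 0) (P.cons (P.lf 0 179706 0) (P.cons (P.lf 28737 0 0) P.nil))))) (P.cons (P.cons (P.lf 665676 0 0) (P.cons (P.lf 0 338466 0) (P.cons (P.lf 2865 0 0) (P.cons (P.lf 10950 0 0) P.nil)))) (P.cons (P.cons (P.lf 0 7869 0) (P.cons (P.lf 0 7488 0) (P.cons (P.lf 2589 0 0) P.nil))) (P.cons (P.cons (P.lf 0 4125 0) (P.cons (P.lf 1941 0 0) P.nil)) (P.cons (P.cons (P.lf 189 0 0) P.nil) P.nil)))))) 8793)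
 (EL.cons 11 (TM.mk (P.cons (P.cons (P.lf 110258811 0 0) (P.cons (P.lf 0 32893368 0) (P.cons (P.lf 0 19300389 0) (P.cons (P.lf 4011897 0 0) (P.cons (P.lf 640404 0 0) (P.cons (P.lf 0 108882 0) P.nil)))))) (P.cons (P.cons (P.lf 0 10406832 0) (P.cons (P.lf 1969737 0 0) (P.cons (P.lf 1570083 0 0) (P.cons (P.lf 0 280467 0) (P.cons (P.lf 0 47664 0) P.nil))))) (P.cons (P.cons (P.lf 0 677163 0) (P.cons (P.lf 176469 0 0) (P.cons (P.lf 112869 0 0) (P.cons (P.lf 0 22428 0) P.nil)))) (P.cons (P.cons (P.lf 70794 0 0) (P.cons (P.lf 0 1983 0) (P.cons (P.lf 0 8148 0) P.nil))) (P.cons (P.cons (P.lf 1479 0 0) (P.cons (P.lf 0 666 0) P.nil)) (P.cons (P.cons (P.lf 0 153 0) P.nil) P.nil)))))) 30981)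
 EL.nil)))
noncomputable def S205_212_364_512_27 : EL := (EL.cons 13 (TM.mk (P.lf 0 4294967296 0) 0)
 EL.nil)
noncomputable def S205_212_364_512_28 : EL := (EL.cons 13 (TM.mk (P.cons (P.cons (P.lf 0 1487487880 0) (P.cons (P.lf 674060804 0 0) (P.cons (P.lf 45066136 0 0) (P.lf 0 15022044 0)))) (P.cons (P.cons (P.lf 0 22918585 0) (P.cons (P.lf 25696680 0 0) (P.cons (P.lf 1718016 0 0) (P.lf 0 572668 0)))) (P.cons (P.cons (P.lf 5494043 0 0) (P.cons (P.lf 0 463936 0) (P.cons (P.lf 0 31016 0) (P.lf 10336 0 0)))) (P.cons (P.cons (P.lf 11282 0 0) (P.cons (P.lf 0 29264 0) (P.cons (P.lf 0 1952 0) P.nil))) (P.cons (P.cons (P.lf 0 4411 0) (P.cons (P.lf 20 0 0) P.nil)) (P.cons (P.cons (P.lf 0 30 0) P.nil) P.nil)))))) 1106)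
 EL.nil)
noncomputable def S205_212_364_512_29 : EL := (EL.cons 13 (TM.mk (P.cons (P.cons (P.lf 0 515165783 0) (P.cons (P.lf 466898678 0 0) (P.cons (P.lf 0 74572699 0) (P.cons (P.lf 0 24550791 0) (P.cons (P.lf 4242310 0 0) (P.cons (P.lf 315245 0 0) P.nil)))))) (P.cons (P.cons (P.lf 0 15874913 0) (P.cons (P.lf 24992981 0 0) (P.cons (P.lf 0 6394807 0) (P.cons (P.lf 0 1635503 0) (P.cons (P.lf 323450 0 0) P.nil))))) (P.cons (P.cons (P.lf 3683237 0 0) (P.cons (P.lf 0 1771602 0) (P.cons (P.lf 0 126564 0) (P.cons (P.lf 38393 0 0) P.nil)))) (P.cons (P.cons (P.lf 66448 0 0) (P.cons (P.lf 0 94504 0) (P.cons (P.lf 8421 0 0) P.nil))) (P.cons (P.cons (P.lf 0 9962 0) (P.cons (P.lf 2137 0 0) P.nil)) (P.cons (P.cons (P.lf 0 96 0) P.nil) P.nil)))))) 102580)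
 EL.nil)
noncomputable def S205_212_364_512_30 : EL := (EL.cons 13 (TM.mk (P.cons (P.lf 1528075472 0 0) (P.cons (P.lf 0 103303916 0) (P.cons (P.lf 0 970420 0) (P.cons (P.lf 17240 0 0) (P.cons (P.lf 320 0 0) (P.cons (P.lf 0 0 0) P.nil)))))) 44)
 EL.nil)
noncomputable def S205_212_364_512_31 : EL := (EL.cons 13 (TM.mk (P.cons (P.cons (P.lf 529222596 0 0) (P.cons (P.lf 0 239819237 0) (P.cons (P.lf 0 16033755 0) (P.lf 5344584 0 0)))) (P.cons (P.cons (P.lf 0 27623492 0) (P.cons (P.lf 7070287 0 0) (P.cons (P.lf 472704 0 0) (P.lf 0 157569 0)))) (P.cons (P.cons (P.lf 0 2842019 0) (P.cons (P.lf 935424 0 0) (P.cons (P.lf 62539 0 0) (P.lf 0 20845 0)))) (P.cons (P.cons (P.lf 128922 0 0) (P.cons (P.lf 2353 0 0) (P.cons (P.lf 155 0 0) P.nil))) (P.cons (P.cons (P.lf 3284 0 0) (P.cons (P.lf 0 969 0) P.nil)) (P.cons (P.cons (P.lf 0 113 0) P.nil) P.nil)))))) 984)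
 EL.nil)
noncomputable def S205_212_364_512_32 : EL := (EL.cons 13 (TM.mk (P.cons (P.cons (P.lf 183287122 0 0) (P.cons (P.lf 0 166114516 0) (P.cons (P.lf 26531683 0 0) (P.cons (P.lf 8734749 0 0) (P.cons (P.lf 0 1509340 0) (P.cons (P.lf 0 112158 0) P.nil)))))) (P.cons (P.cons (P.lf 0 6742909 0) (P.cons (P.lf 2337922 0 0) (P.cons (P.lf 481516 0 0) (P.cons (P.lf 0 8619 0) (P.cons (P.lf 0 13040 0) P.nil))))) (P.cons (P.cons (P.lf 0 1808659 0) (P.cons (P.lf 1336937 0 0) (P.cons (P.lf 0 125629 0) (P.cons (P.lf 0 58544 0) P.nil)))) (P.cons (P.cons (P.lf 63430 0 0) (P.cons (P.lf 0 5215 0) (P.cons (P.lf 0 7185 0) P.nil))) (P.cons (P.cons (P.lf 6076 0 0) (P.cons (P.lf 0 3568 0) P.nil)) (P.cons (P.cons (P.lf 0 204 0) P.nil) P.nil)))))) 57267)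
 EL.nil)
noncomputable def S205_212_364_512_33 : EL := (EL.cons 14 (TM.mk (P.lf 8589934592 0 0) 0)
 EL.nil)
noncomputable def S205_212_364_512_34 : EL := (EL.cons 14 (TM.mk (P.cons (P.cons (P.lf 2974975760 0 0) (P.cons (P.lf 0 1348121608 0) (P.cons (P.lf 0 90132272 0) (P.lf 30044088 0 0)))) (P.cons (P.cons (P.lf 45837170 0 0) (P.cons (P.lf 0 51393360 0) (P.cons (P.lf 0 3436032 0) (P.lf 1145336 0 0)))) (P.cons (P.cons (P.lf 0 10988086 0) (P.cons (P.lf 927872 0 0) (P.cons (P.lf 62032 0 0) (P.lf 0 20672 0)))) (P.cons (P.cons (P.lf 0 22564 0) (P.cons (P.lf 58528 0 0) (P.cons (P.lf 3904 0 0) P.nil))) (P.cons (P.cons (P.lf 8822 0 0) (P.cons (P.lf 0 40 0) P.nil)) (P.cons (P.cons (P.lf 60 0 0) P.nil) P.nil)))))) 2212)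
 EL.nil)
noncomputable def S205_212_364_512_35 : EL := (EL.cons 14 (TM.mk (P.cons (P.cons (P.lf 1030331566 0 0) (P.cons (P.lf 0 933797356 0) (P.cons (P.lf 149145398 0 0) (P.cons (P.lf 49101582 0 0) (P.cons (P.lf 0 8484620 0) (P.cons (P.lf 0 630490 0) P.nil)))))) (P.cons (P.cons (P.lf 31749826 0 0) (P.cons (P.lf 0 49985962 0) (P.cons (P.lf 12789614 0 0) (P.cons (P.lf 3271006 0 0) (P.cons (P.lf 0 646900 0) P.nil))))) (P.cons (P.cons (P.lf 0 7366474 0) (P.cons (P.lf 3543204 0 0) (P.cons (P.lf 253128 0 0) (P.cons (P.lf 0 76786 0) P.nil)))) (P.cons (P.cons (P.lf 0 132896 0) (P.cons (P.lf 189008 0 0) (P.cons (P.lf 0 16842 0) P.nil))) (P.cons (P.cons (P.lf 19924 0 0) (P.cons (P.lf 0 4274 0) P.nil)) (P.cons (P.cons (P.lf 192 0 0) P.nil) P.nil)))))) 205160)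
 EL.nil)
noncomputable def S205_212_364_512_36 : EL := (EL.cons 14 (TM.mk (P.cons (P.lf 0 3056150944 0) (P.cons (P.lf 206607832 0 0) (P.cons (P.lf 1940840 0 0) (P.cons (P.lf 0 34480 0) (P.cons (P.lf 0 640 0) (P.cons (P.lf 0 0 0) P.nil)))))) 88)
 EL.nil)
noncomputable def S205_212_364_512_37 : EL := (EL.cons 14 (TM.mk (P.cons (P.cons (P.lf 0 1058445192 0) (P.cons (P.lf 479638474 0 0) (P.cons (P.lf 32067510 0 0) (P.lf 0 10689168 0)))) (P.cons (P.cons (P.lf 55246984 0 0) (P.cons (P.lf 0 14140574 0) (P.cons (P.lf 0 945408 0) (P.lf 315138 0 0)))) (P.cons (P.cons (P.lf 5684038 0 0) (P.cons (P.lf 0 1870848 0) (P.cons (P.lf 0 125078 0) (P.lf 41690 0 0)))) (P.cons (P.cons (P.lf 0 257844 0) (P.cons (P.lf 0 4706 0) (P.cons (P.lf 0 310 0) P.nil))) (P.cons (P.cons (P.lf 0 6568 0) (P.cons (P.lf 1938 0 0) P.nil)) (P.cons (P.cons (P.lf 226 0 0) P.nil) P.nil)))))) 1968)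
 EL.nil)
noncomputable def S205_212_364_512_38 : EL := (EL.cons 14 (TM.mk (P.cons (P.cons (P.lf 0 366574244 0) (P.cons (P.lf 332229032 0 0) (P.cons (P.lf 0 53063366 0) (P.cons (P.lf 0 17469498 0) (P.cons (P.lf 3018680 0 0) (P.cons (P.lf 224316 0 0) P.nil)))))) (P.cons (P.cons (P.lf 13485818 0 0) (P.cons (P.lf 0 4675844 0) (P.cons (P.lf 0 963032 0) (P.cons (P.lf 17238 0 0) (P.cons (P.lf 26080 0 0) P.nil))))) (P.cons (P.cons (P.lf 3617318 0 0) (P.cons (P.lf 0 2673874 0) (P.cons (P.lf 251258 0 0) (P.cons (P.lf 117088 0 0) P.nil)))) (P.cons (P.cons (P.lf 0 126860 0) (P.cons (P.lf 10430 0 0) (P.cons (P.lf 14370 0 0) P.nil))) (P.cons (P.cons (P.lf 0 12152 0) (P.cons (P.lf 7136 0 0) P.nil)) (P.cons (P.cons (P.lf 408 0 0) P.nil) P.nil)))))) 114534)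
 EL.nil)
noncomputable def S205_212_364_512_39 : EL := (EL.cons 14 (TM.mk (P.cons (P.lf 1087325926 0 0) (P.cons (P.lf 0 147015024 0) (P.cons (P.lf 3588362 0 0) (P.cons (P.lf 117898 0 0) (P.cons (P.lf 0 764 0) (P.cons (P.lf 0 46 0) P.nil)))))) 80)
 EL.nil)
noncomputable def S205_212_364_512_40 : EL := (EL.cons 14 (TM.mk (P.cons (P.cons (P.lf 376576588 0 0) (P.cons (P.lf 0 170647116 0) (P.cons (P.lf 0 11409068 0) (P.lf 3803022 0 0)))) (P.cons (P.cons (P.lf 0 45113986 0) (P.cons (P.lf 16567390 0 0) (P.cons (P.lf 1107658 0 0) (P.lf 0 369220 0)))) (P.cons (P.cons (P.lf 0 932614 0) (P.cons (P.lf 433872 0 0) (P.cons (P.lf 29006 0 0) (P.lf 0 9668 0)))) (P.cons (P.cons (P.lf 245182 0 0) (P.cons (P.lf 0 48444 0) (P.cons (P.lf 0 3238 0) P.nil))) (P.cons (P.cons (P.lf 0 2722 0) (P.cons (P.lf 0 1204 0) P.nil)) (P.cons (P.cons (P.lf 0 322 0) P.nil) P.nil)))))) 1880)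
 EL.nil)
noncomputable def S205_212_364_512_41 : EL := (EL.cons 14 (TM.mk (P.cons (P.cons (P.lf 130420808 0 0) (P.cons (P.lf 0 118201374 0) (P.cons (P.lf 18879032 0 0) (P.cons (P.lf 6215346 0 0) (P.cons (P.lf 0 1073994 0) (P.cons (P.lf 0 79808 0) P.nil)))))) (P.cons (P.cons (P.lf 0 13614982 0) (P.cons (P.lf 9654462 0 0) (P.cons (P.lf 0 933666 0) (P.cons (P.lf 0 426314 0) (P.cons (P.lf 63326 0 0) P.nil))))) (P.cons (P.cons (P.lf 0 1045438 0) (P.cons (P.lf 913918 0 0) (P.cons (P.lf 0 124546 0) (P.cons (P.lf 0 45190 0) P.nil)))) (P.cons (P.cons (P.lf 136658 0 0) (P.cons (P.lf 0 70412 0) (P.cons (P.lf 924 0 0) P.nil))) (P.cons (P.cons (P.lf 2062 0 0) (P.cons (P.lf 0 2898 0) P.nil)) (P.cons (P.cons (P.lf 0 480 0) P.nil) P.nil)))))) 59972)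
 EL.nil)
noncomputable def S205_212_364_512_42 : EL := (EL.cons 14 (TM.mk (P.cons (P.lf 0 386851856 0) (P.cons (P.lf 78458124 0 0) (P.cons (P.lf 0 4567054 0) (P.cons (P.lf 6780 0 0) (P.cons (P.lf 4426 0 0) (P.cons (P.lf 20 0 0) P.nil)))))) 58)
 EL.nil)
noncomputable def S205_212_364_512_43 : EL := (EL.cons 14 (TM.mk (P.cons (P.cons (P.lf 0 133979470 0) (P.cons (P.lf 60713308 0 0) (P.cons (P.lf 4059150 0 0) (P.lf 0 1353050 0)))) (P.cons (P.cons (P.lf 25108318 0 0) (P.cons (P.lf 0 9998850 0) (P.cons (P.lf 0 668500 0) (P.lf 222832 0 0)))) (P.cons (P.cons (P.lf 0 668202 0) (P.cons (P.lf 205562 0 0) (P.cons (P.lf 13742 0 0) (P.lf 0 4580 0)))) (P.cons (P.cons (P.lf 0 121368 0) (P.cons (P.lf 32098 0 0) (P.cons (P.lf 2146 0 0) P.nil))) (P.cons (P.cons (P.lf 6806 0 0) (P.cons (P.lf 0 692 0) P.nil)) (P.cons (P.cons (P.lf 110 0 0) P.nil) P.nil)))))) 1234)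
 EL.nil)
noncomputable def S205_212_364_512_44 : EL := (EL.cons 14 (TM.mk (P.cons (P.cons (P.lf 0 46401480 0) (P.cons (P.lf 42054014 0 0) (P.cons (P.lf 0 6716834 0) (P.cons (P.lf 0 2211312 0) (P.cons (P.lf 382108 0 0) (P.cons (P.lf 28394 0 0) P.nil)))))) (P.cons (P.cons (P.lf 7980898 0 0) (P.cons (P.lf 0 6277908 0) (P.cons (P.lf 786266 0 0) (P.cons (P.lf 301168 0 0) (P.cons (P.lf 0 48362 0) P.nil))))) (P.cons (P.cons (P.lf 73944 0 0) (P.cons (P.lf 0 119650 0) (P.cons (P.lf 26120 0 0) (P.cons (P.lf 7228 0 0) P.nil)))) (P.cons (P.cons (P.lf 0 77364 0) (P.cons (P.lf 49688 0 0) (P.cons (P.lf 0 3610 0) P.nil))) (P.cons (P.cons (P.lf 2360 0 0) (P.cons (P.lf 0 484 0) P.nil)) (P.cons (P.cons (P.lf 256 0 0) P.nil) P.nil)))))) 31284)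
 EL.nil)
noncomputable def S205_212_364_512_45 : EL := (EL.cons 14 (TM.mk (P.cons (P.cons (P.lf 356837574 0 0) (P.cons (P.lf 0 485106922 0) (P.cons (P.lf 187394932 0 0) (P.cons (P.lf 7000114 0 0) (P.cons (P.lf 0 15475594 0) (P.cons (P.lf 1119670 0 0) P.nil)))))) (P.cons (P.cons (P.lf 16494006 0 0) (P.cons (P.lf 0 33441986 0) (P.cons (P.lf 17911824 0 0) (P.cons (P.lf 0 358246 0) (P.cons (P.lf 0 1569644 0) P.nil))))) (P.cons (P.cons (P.lf 0 3699810 0) (P.cons (P.lf 3232336 0 0) (P.cons (P.lf 0 320714 0) (P.cons (P.lf 0 220022 0) P.nil)))) (P.cons (P.cons (P.lf 0 128654 0) (P.cons (P.lf 226140 0 0) (P.cons (P.lf 0 78818 0) P.nil))) (P.cons (P.cons (P.lf 16588 0 0) (P.cons (P.lf 0 8746 0) P.nil)) (P.cons (P.cons (P.lf 400 0 0) P.nil) P.nil)))))) 937310)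
 EL.nil)
noncomputable def S205_212_364_512_46 : EL := (EL.cons 15 (TM.mk (P.lf 4294967296 0 0) 0)
 EL.nil)
noncomputable def S205_212_364_512_47 : EL := (EL.cons 15 (TM.mk (P.cons (P.cons (P.lf 1487487880 0 0) (P.cons (P.lf 0 674060804 0) (P.cons (P.lf 0 45066136 0) (P.lf 15022044 0 0)))) (P.cons (P.cons (P.lf 22918585 0 0) (P.cons (P.lf 0 25696680 0) (P.cons (P.lf 0 1718016 0) (P.lf 572668 0 0)))) (P.cons (P.cons (P.lf 0 5494043 0) (P.cons (P.lf 463936 0 0) (P.cons (P.lf 31016 0 0) (P.lf 0 10336 0)))) (P.cons (P.cons (P.lf 0 11282 0) (P.cons (P.lf 29264 0 0) (P.cons (P.lf 1952 0 0) P.nil))) (P.cons (P.cons (P.lf 4411 0 0) (P.cons (P.lf 0 20 0) P.nil)) (P.cons (P.cons (P.lf 30 0 0) P.nil) P.nil)))))) 1106)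
 EL.nil)
noncomputable def S205_212_364_512_48 : EL := (EL.cons 15 (TM.mk (P.cons (P.cons (P.lf 515165783 0 0) (P.cons (P.lf 0 466898678 0) (P.cons (P.lf 74572699 0 0) (P.cons (P.lf 24550791 0 0) (P.cons (P.lf 0 4242310 0) (P.cons (P.lf 0 315245 0) P.nil)))))) (P.cons (P.cons (P.lf 15874913 0 0) (P.cons (P.lf 0 24992981 0) (P.cons (P.lf 6394807 0 0) (P.cons (P.lf 1635503 0 0) (P.cons (P.lf 0 323450 0) P.nil))))) (P.cons (P.cons (P.lf 0 3683237 0) (P.cons (P.lf 1771602 0 0) (P.cons (P.lf 126564 0 0) (P.cons (P.lf 0 38393 0) P.nil)))) (P.cons (P.cons (P.lf 0 66448 0) (P.cons (P.lf 94504 0 0) (P.cons (P.lf 0 8421 0) P.nil))) (P.cons (P.cons (P.lf 9962 0 0) (P.cons (P.lf 0 2137 0) P.nil)) (P.cons (P.cons (P.lf 96 0 0) P.nil) P.nil)))))) 102580)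
 EL.nil)
noncomputable def S205_212_364_512 : SL := (SL.cons S205_212_364_512_0 (SL.cons S205_212_364_512_1 (SL.cons S205_212_364_512_2 (SL.cons S205_212_364_512_3 (SL.cons S205_212_364_512_4 (SL.cons S205_212_364_512_5 (SL.cons S205_212_364_512_6 (SL.cons S205_212_364_512_7 (SL.cons S205_212_364_512_8 (SL.cons S205_212_364_512_9 (SL.cons S205_212_364_512_10 (SL.cons S205_212_364_512_11 (SL.cons S205_212_364_512_12 (SL.cons S205_212_364_512_13 (SL.cons S205_212_364_512_14 (SL.cons S205_212_364_512_15 (SL.cons S205_212_364_512_16 (SL.cons S205_212_364_512_17 (SL.cons S205_212_364_512_18 (SL.cons S205_212_364_512_19 (SL.cons S205_212_364_512_20 (SL.cons S205_212_364_512_21 (SL.cons S205_212_364_512_22 (SL.cons S205_212_364_512_23 (SL.cons S205_212_364_512_24 (SL.cons S205_212_364_512_25 (SL.cons S205_212_364_512_26 (SL.cons S205_212_364_512_27 (SL.cons S205_212_364_512_28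 (SL.cons S205_212_364_512_29 (SL.cons S205_212_364_512_30 (SL.cons S205_212_364_512_31 (SL.cons S205_212_364_512_32 (SL.cons S205_212_364_512_33 (SL.cons S205_212_364_512_34 (SL.cons S205_212_364_512_35 (SL.cons S205_212_364_512_36 (SL.cons S205_212_364_512_37 (SL.cons S205_212_364_512_38 (SL.cons S205_212_364_512_39 (SL.cons S205_212_364_512_40 (SL.cons S205_212_364_512_41 (SL.cons S205_212_364_512_42 (SL.cons S205_212_364_512_43 (SL.cons S205_212_364_512_44 (SL.cons S205_212_364_512_45 (SL.cons S205_212_364_512_46 (SL.cons S205_212_364_512_47 (SL.cons S205_212_364_512_48 SL.nil)))))))))))))))))))))))))))))))))))))))))))))))))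
noncomputable def S212_219_216_364_0 : EL := (EL.cons 0 (TM.mk (P.cons (P.lf 7745051952 0 0) (P.cons (P.lf 115378518 0 0) (P.cons (P.lf 0 3756028 0) (P.cons (P.lf 0 96526 0) (P.cons (P.lf 1105 0 0) (P.cons (P.lf 38 0 0) P.nil)))))) 65)
 (EL.cons 1 (TM.mk (P.cons (P.lf 0 1160417966 0) (P.cons (P.lf 81636789 0 0) (P.cons (P.lf 2253468 0 0) (P.cons (P.lf 0 42547 0) (P.cons (P.lf 0 1273 0) (P.cons (P.lf 3 0 0) P.nil)))))) 83)
 (EL.cons 5 (TM.mk (P.cons (P.lf 4547648156 0 0) (P.cons (P.lf 0 41023472 0) (P.cons (P.lf 1335476 0 0) (P.cons (P.lf 34320 0 0) (P.cons (P.lf 0 390 0) (P.cons (P.lf 0 14 0) P.nil)))))) 107)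
 (EL.cons 9 (TM.mk (P.lf 6442450944 0 0) 2)
 EL.nil))))
noncomputable def S212_219_216_364_1 : EL := (EL.cons 0 (TM.mk (P.cons (P.cons (P.lf 4180181210 0 0) (P.cons (P.lf 0 439723450 0) (P.cons (P.lf 0 189613711 0) (P.lf 21068193 0 0)))) (P.cons (P.cons (P.lf 378650521 0 0) (P.cons (P.lf 0 50435085 0) (P.cons (P.lf 0 21748168 0) (P.lf 2416456 0 0)))) (P.cons (P.cons (P.lf 0 26173574 0) (P.cons (P.lf 390412 0 0) (P.cons (P.lf 168355 0 0) (P.lf 0 18708 0)))) (P.cons (P.cons (P.lf 0 951607 0) (P.cons (P.lf 117584 0 0) (P.cons (P.lf 50701 0 0) P.nil))) (P.cons (P.cons (P.lf 38571 0 0) (P.cons (P.lf 898 0 0) P.nil)) (P.cons (P.cons (P.lf 1339 0 0) P.nil) P.nil)))))) 10459)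
 (EL.cons 1 (TM.mk (P.cons (P.cons (P.lf 0 1117273565 0) (P.cons (P.lf 209081867 0 0) (P.cons (P.lf 90158455 0 0) (P.lf 0 10017602 0)))) (P.cons (P.cons (P.lf 161244905 0 0) (P.cons (P.lf 0 4573109 0) (P.cons (P.lf 0 1971975 0) (P.lf 219106 0 0)))) (P.cons (P.cons (P.lf 11356381 0 0) (P.cons (P.lf 0 1376097 0) (P.cons (P.lf 0 593384 0) (P.lf 65923 0 0)))) (P.cons (P.cons (P.lf 0 534200 0) (P.cons (P.lf 0 7488 0) (P.cons (P.lf 0 3228 0) P.nil))) (P.cons (P.cons (P.lf 0 22146 0) (P.cons (P.lf 2131 0 0) P.nil)) (P.cons (P.cons (P.lf 560 0 0) P.nil) P.nil)))))) 5611)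
 (EL.cons 5 (TM.mk (P.cons (P.cons (P.lf 2994308119 0 0) (P.cons (P.lf 0 415644542 0) (P.cons (P.lf 0 179230614 0) (P.lf 19914516 0 0)))) (P.cons (P.cons (P.lf 0 70942674 0) (P.cons (P.lf 0 643378 0) (P.cons (P.lf 0 277434 0) (P.lf 30832 0 0)))) (P.cons (P.cons (P.lf 0 1649059 0) (P.cons (P.lf 365360 0 0) (P.cons (P.lf 157550 0 0) (P.lf 0 17504 0)))) (P.cons (P.cons (P.lf 306213 0 0) (P.cons (P.lf 0 19354 0) (P.cons (P.lf 0 8348 0) P.nil))) (P.cons (P.cons (P.lf 0 5265 0) (P.cons (P.lf 0 472 0) P.nil)) (P.cons (P.cons (P.lf 0 412 0) P.nil) P.nil)))))) 7111)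
 (EL.cons 9 (TM.mk (P.cons (P.cons (P.lf 3953465967 0 0) (P.cons (P.lf 0 504697638 0) (P.cons (P.lf 0 217631310 0) (P.lf 24181254 0 0)))) (P.cons (P.cons (P.lf 56195838 0 0) (P.cons (P.lf 0 16390446 0) (P.cons (P.lf 0 7067742 0) (P.lf 785304 0 0)))) (P.cons (P.cons (P.lf 0 9666357 0) (P.cons (P.lf 444852 0 0) (P.cons (P.lf 191826 0 0) (P.lf 0 21312 0)))) (P.cons (P.cons (P.lf 0 28353 0) (P.cons (P.lf 19800 0 0) (P.cons (P.lf 8538 0 0) P.nil))) (P.cons (P.cons (P.lf 7438 0 0) (P.cons (P.lf 0 132 0) P.nil)) (P.cons (P.cons (P.lf 55 0 0) P.nil) P.nil)))))) 1853)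
 (EL.cons 2 (TM.mk (P.cons (P.cons (P.lf 322920815 0 0) (P.cons (P.lf 300830613 0 0) (P.cons (P.lf 0 30875006 0) (P.cons (P.lf 0 6421140 0) (P.lf 535095 0 0))))) (P.cons (P.cons (P.lf 0 19222163 0) (P.cons (P.lf 0 17907221 0) (P.cons (P.lf 1837861 0 0) (P.cons (P.lf 382224 0 0) (P.lf 0 31851 0))))) (P.cons (P.cons (P.lf 0 1005738 0) (P.cons (P.lf 0 936939 0) (P.cons (P.lf 96159 0 0) (P.cons (P.lf 19996 0 0) P.nil)))) (P.cons (P.cons (P.lf 12900 0 0) (P.cons (P.lf 12017 0 0) (P.cons (P.lf 0 1231 0) P.nil))) (P.cons (P.cons (P.lf 866 0 0) (P.cons (P.lf 804 0 0) P.nil)) (P.cons (P.cons (P.lf 0 0 0) P.nil) P.nil)))))) 2681)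
 (EL.cons 6 (TM.mk (P.cons (P.cons (P.lf 527285235 0 0) (P.cons (P.lf 491214978 0 0) (P.cons (P.lf 0 50414634 0) (P.cons (P.lf 0 10484841 0) (P.lf 873735 0 0))))) (P.cons (P.cons (P.lf 17124000 0 0) (P.cons (P.lf 15952590 0 0) (P.cons (P.lf 0 1637253 0) (P.cons (P.lf 0 340500 0) (P.lf 28374 0 0))))) (P.cons (P.cons (P.lf 0 464766 0) (P.cons (P.lf 0 432972 0) (P.cons (P.lf 44436 0 0) (P.cons (P.lf 9240 0 0) P.nil)))) (P.cons (P.cons (P.lf 0 20694 0) (P.cons (P.lf 0 19278 0) (P.cons (P.lf 1977 0 0) P.nil))) (P.cons (P.cons (P.lf 141 0 0) (P.cons (P.lf 129 0 0) P.nil)) (P.cons (P.cons (P.lf 9 0 0) P.nil) P.nil)))))) 1887)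
 EL.nil))))))
noncomputable def S212_219_216_364_2 : EL := (EL.cons 0 (TM.mk (P.cons (P.cons (P.lf 2213800728 0 0) (P.cons (P.lf 0 449960143 0) (P.cons (P.lf 0 172664396 0) (P.cons (P.lf 39983016 0 0) (P.cons (P.lf 1925248 0 0) (P.cons (P.lf 0 882755 0) P.nil)))))) (P.cons (P.cons (P.lf 411285536 0 0) (P.cons (P.lf 0 104305560 0) (P.cons (P.lf 0 38633538 0) (P.cons (P.lf 10468882 0 0) (P.cons (P.lf 571719 0 0) P.nil))))) (P.cons (P.cons (P.lf 0 24209199 0) (P.cons (P.lf 1693759 0 0) (P.cons (P.lf 875815 0 0) (P.cons (P.lf 44286 0 0) P.nil)))) (P.cons (P.cons (P.lf 0 2272780 0) (P.cons (P.lf 505657 0 0) (P.cons (P.lf 197009 0 0) P.nil))) (P.cons (P.cons (P.lf 85413 0 0) (P.cons (P.lf 531 0 0) P.nil)) (P.cons (P.cons (P.lf 5275 0 0) P.nil) P.nil)))))) 714450)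
 (EL.cons 1 (TM.mk (P.cons (P.cons (P.lf 0 934262554 0) (P.cons (P.lf 320091813 0 0) (P.cons (P.lf 112390055 0 0) (P.cons (P.lf 0 37446391 0) (P.cons (P.lf 0 2310375 0) (P.cons (P.lf 1059338 0 0) P.nil)))))) (P.cons (P.cons (P.lf 160087694 0 0) (P.cons (P.lf 0 18903896 0) (P.cons (P.lf 0 8537381 0) (P.cons (P.lf 572997 0 0) (P.cons (P.lf 0 34773 0) P.nil))))) (P.cons (P.cons (P.lf 16332448 0 0) (P.cons (P.lf 0 4247380 0) (P.cons (P.lf 0 1615177 0) (P.cons (P.lf 390061 0 0) P.nil)))) (P.cons (P.cons (P.lf 0 832176 0) (P.cons (P.lf 18963 0 0) (P.cons (P.lf 15758 0 0) P.nil))) (P.cons (P.cons (P.lf 0 62918 0) (P.cons (P.lf 13516 0 0) P.nil)) (P.cons (P.cons (P.lf 1919 0 0) P.nil) P.nil)))))) 343411)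
 (EL.cons 5 (TM.mk (P.cons (P.cons (P.lf 1962426747 0 0) (P.cons (P.lf 0 542028236 0) (P.cons (P.lf 0 196515189 0) (P.cons (P.lf 58063600 0 0) (P.cons (P.lf 3353610 0 0) (P.cons (P.lf 0 1537685 0) P.nil)))))) (P.cons (P.cons (P.lf 0 68068696 0) (P.cons (P.lf 4309296 0 0) (P.cons (P.lf 2512935 0 0) (P.cons (P.lf 358198 0 0) (P.cons (P.lf 59014 0 0) P.nil))))) (P.cons (P.cons (P.lf 0 4282287 0) (P.cons (P.lf 1408938 0 0) (P.cons (P.lf 524116 0 0) (P.cons (P.lf 0 139471 0) P.nil)))) (P.cons (P.cons (P.lf 577534 0 0) (P.cons (P.lf 0 82662 0) (P.cons (P.lf 0 34240 0) P.nil))) (P.cons (P.cons (P.lf 0 4116 0) (P.cons (P.lf 0 2658 0) P.nil)) (P.cons (P.cons (P.lf 0 1548 0) P.nil) P.nil)))))) 483479)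
 (EL.cons 9 (TM.mk (P.cons (P.cons (P.lf 2426078721 0 0) (P.cons (P.lf 0 619424176 0) (P.cons (P.lf 0 227564983 0) (P.cons (P.lf 63776278 0 0) (P.cons (P.lf 3563076 0 0) (P.cons (P.lf 0 1633725 0) P.nil)))))) (P.cons (P.cons (P.lf 68970127 0 0) (P.cons (P.lf 0 28920973 0) (P.cons (P.lf 0 9903010 0) (P.cons (P.lf 3600400 0 0) (P.cons (P.lf 231426 0 0) P.nil))))) (P.cons (P.cons (P.lf 0 11373505 0) (P.cons (P.lf 1774548 0 0) (P.cons (P.lf 737206 0 0) (P.cons (P.lf 0 109167 0) P.nil)))) (P.cons (P.cons (P.lf 0 203431 0) (P.cons (P.lf 85687 0 0) (P.cons (P.lf 31584 0 0) P.nil))) (P.cons (P.cons (P.lf 23137 0 0) (P.cons (P.lf 0 2172 0) P.nil)) (P.cons (P.cons (P.lf 282 0 0) P.nil) P.nil)))))) 252817)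
 (EL.cons 2 (TM.mk (P.cons (P.cons (P.lf 396326323 0 0) (P.cons (P.lf 318619800 0 0) (P.cons (P.lf 0 106844265 0) (P.cons (P.lf 0 20943815 0) (P.cons (P.lf 6007044 0 0) (P.cons (P.lf 118209 0 0) P.nil)))))) (P.cons (P.cons (P.lf 0 17958183 0) (P.cons (P.lf 0 15361110 0) (P.cons (P.lf 3582140 0 0) (P.cons (P.lf 710448 0 0) (P.cons (P.lf 0 174481 0) P.nil))))) (P.cons (P.cons (P.lf 0 2538731 0) (P.cons (P.lf 0 2065083 0) (P.cons (P.lf 651543 0 0) (P.cons (P.lf 127929 0 0) P.nil)))) (P.cons (P.cons (P.lf 53128 0 0) (P.cons (P.lf 51918 0 0) (P.cons (P.lf 0 1771 0) P.nil))) (P.cons (P.cons (P.lf 5220 0 0) (P.cons (P.lf 4387 0 0) P.nil)) (P.cons (P.cons (P.lf 0 50 0) P.nil) P.nil)))))) 199861)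
 (EL.cons 6 (TM.mk (P.cons (P.cons (P.lf 647146326 0 0) (P.cons (P.lf 520262268 0 0) (P.cons (P.lf 0 174461970 0) (P.cons (P.lf 0 34198362 0) (P.cons (P.lf 9808674 0 0) (P.cons (P.lf 193020 0 0) P.nil)))))) (P.cons (P.cons (P.lf 30215322 0 0) (P.cons (P.lf 22782438 0 0) (P.cons (P.lf 0 10201650 0) (P.cons (P.lf 0 1986240 0) (P.cons (P.lf 617496 0 0) P.nil))))) (P.cons (P.cons (P.lf 0 1853970 0) (P.cons (P.lf 0 1668642 0) (P.cons (P.lf 256992 0 0) (P.cons (P.lf 51966 0 0) P.nil)))) (P.cons (P.cons (P.lf 0 89526 0) (P.cons (P.lf 0 72192 0) (P.cons (P.lf 23838 0 0) P.nil))) (P.cons (P.cons (P.lf 2268 0 0) (P.cons (P.lf 2214 0 0) P.nil)) (P.cons (P.cons (P.lf 126 0 0) P.nil) P.nil)))))) 270096)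
 EL.nil))))))
noncomputable def S212_219_216_364_3 : EL := (EL.cons 0 (TM.mk (P.cons (P.lf 710664911 0 0) (P.cons (P.lf 0 115378518 0) (P.cons (P.lf 3756028 0 0) (P.cons (P.lf 96526 0 0) (P.cons (P.lf 0 1105 0) (P.cons (P.lf 0 38 0) P.nil)))))) 65)
 (EL.cons 1 (TM.mk (P.cons (P.lf 1160417966 0 0) (P.cons (P.lf 0 81636789 0) (P.cons (P.lf 0 2253468 0) (P.cons (P.lf 42547 0 0) (P.cons (P.lf 1273 0 0) (P.cons (P.lf 0 3 0) P.nil)))))) 83)
 (EL.cons 5 (TM.mk (P.cons (P.lf 1894802788 0 0) (P.cons (P.lf 41023472 0 0) (P.cons (P.lf 0 1335476 0) (P.cons (P.lf 0 34320 0) (P.cons (P.lf 390 0 0) (P.cons (P.lf 14 0 0) P.nil)))))) 100)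
 EL.nil)))
noncomputable def S212_219_216_364_4 : EL := (EL.cons 0 (TM.mk (P.cons (P.cons (P.lf 436105692 0 0) (P.cons (P.lf 0 55673050 0) (P.cons (P.lf 0 24006846 0) (P.lf 2667425 0 0)))) (P.cons (P.cons (P.lf 0 64604081 0) (P.cons (P.lf 7230656 0 0) (P.cons (P.lf 3117939 0 0) (P.lf 0 346436 0)))) (P.cons (P.cons (P.lf 232208 0 0) (P.cons (P.lf 48364 0 0) (P.cons (P.lf 20854 0 0) (P.lf 0 2316 0)))) (P.cons (P.cons (P.lf 261984 0 0) (P.cons (P.lf 0 22899 0) (P.cons (P.lf 0 9873 0) P.nil))) (P.cons (P.cons (P.lf 0 4143 0) (P.cons (P.lf 0 267 0) P.nil)) (P.cons (P.cons (P.lf 0 321 0) P.nil) P.nil)))))) 2015)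
 (EL.cons 1 (TM.mk (P.cons (P.cons (P.lf 712100561 0 0) (P.cons (P.lf 0 90906427 0) (P.cons (P.lf 0 39199875 0) (P.lf 4355540 0 0)))) (P.cons (P.cons (P.lf 0 39975097 0) (P.cons (P.lf 3443118 0 0) (P.cons (P.lf 1484711 0 0) (P.lf 0 164966 0)))) (P.cons (P.cons (P.lf 0 3836066 0) (P.cons (P.lf 464356 0 0) (P.cons (P.lf 200235 0 0) (P.lf 0 22246 0)))) (P.cons (P.cons (P.lf 123834 0 0) (P.cons (P.lf 328 0 0) (P.cons (P.lf 140 0 0) P.nil))) (P.cons (P.cons (P.lf 6230 0 0) (P.cons (P.lf 0 637 0) P.nil)) (P.cons (P.cons (P.lf 0 129 0) P.nil) P.nil)))))) 1562)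
 (EL.cons 5 (TM.mk (P.cons (P.cons (P.lf 1162762184 0 0) (P.cons (P.lf 0 148437682 0) (P.cons (P.lf 0 64008000 0) (P.lf 7111998 0 0)))) (P.cons (P.cons (P.lf 41702286 0 0) (P.cons (P.lf 0 8034380 0) (P.cons (P.lf 0 3464514 0) (P.lf 384944 0 0)))) (P.cons (P.cons (P.lf 0 3304682 0) (P.cons (P.lf 131086 0 0) (P.cons (P.lf 56524 0 0) (P.lf 0 6280 0)))) (P.cons (P.cons (P.lf 0 102600 0) (P.cons (P.lf 14740 0 0) (P.cons (P.lf 6356 0 0) P.nil))) (P.cons (P.cons (P.lf 3950 0 0) (P.cons (P.lf 52 0 0) P.nil)) (P.cons (P.cons (P.lf 132 0 0) P.nil) P.nil)))))) 1280)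
 EL.nil)))
noncomputable def S212_219_216_364_5 : EL := (EL.cons 0 (TM.mk (P.cons (P.cons (P.lf 267620044 0 0) (P.cons (P.lf 0 68328502 0) (P.cons (P.lf 0 25102627 0) (P.cons (P.lf 7035141 0 0) (P.cons (P.lf 393041 0 0) (P.cons (P.lf 0 180214 0) P.nil)))))) (P.cons (P.cons (P.lf 0 35840817 0) (P.cons (P.lf 7903066 0 0) (P.cons (P.lf 2983085 0 0) (P.cons (P.lf 0 745015 0) (P.cons (P.lf 0 38281 0) P.nil))))) (P.cons (P.cons (P.lf 0 1075366 0) (P.cons (P.lf 352566 0 0) (P.cons (P.lf 126001 0 0) (P.cons (P.lf 0 39338 0) P.nil)))) (P.cons (P.cons (P.lf 257807 0 0) (P.cons (P.lf 0 48469 0) (P.cons (P.lf 0 18901 0) P.nil))) (P.cons (P.cons (P.lf 181 0 0) (P.cons (P.lf 0 1065 0) P.nil)) (P.cons (P.cons (P.lf 0 697 0) P.nil) P.nil)))))) 75813)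
 (EL.cons 1 (TM.mk (P.cons (P.cons (P.lf 436986691 0 0) (P.cons (P.lf 0 111571036 0) (P.cons (P.lf 0 40989135 0) (P.cons (P.lf 11487418 0 0) (P.cons (P.lf 641782 0 0) (P.cons (P.lf 0 294266 0) P.nil)))))) (P.cons (P.cons (P.lf 0 18319595 0) (P.cons (P.lf 2639893 0 0) (P.cons (P.lf 1099897 0 0) (P.cons (P.lf 0 159646 0) (P.cons (P.lf 0 3463 0) P.nil))))) (P.cons (P.cons (P.lf 0 3771174 0) (P.cons (P.lf 902773 0 0) (P.cons (P.lf 337871 0 0) (P.cons (P.lf 0 87592 0) P.nil)))) (P.cons (P.cons (P.lf 99376 0 0) (P.cons (P.lf 0 1025 0) (P.cons (P.lf 0 1691 0) P.nil))) (P.cons (P.cons (P.lf 11656 0 0) (P.cons (P.lf 0 2409 0) P.nil)) (P.cons (P.cons (P.lf 0 234 0) P.nil) P.nil)))))) 86048)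
 (EL.cons 5 (TM.mk (P.cons (P.cons (P.lf 713539110 0 0) (P.cons (P.lf 0 182180144 0) (P.cons (P.lf 0 66929614 0) (P.cons (P.lf 18757374 0 0) (P.cons (P.lf 1047942 0 0) (P.cons (P.lf 0 480496 0) P.nil)))))) (P.cons (P.cons (P.lf 35733444 0 0) (P.cons (P.lf 0 12450302 0) (P.cons (P.lf 0 4361654 0) (P.cons (P.lf 1465026 0 0) (P.cons (P.lf 90752 0 0) P.nil))))) (P.cons (P.cons (P.lf 0 3408814 0) (P.cons (P.lf 466158 0 0) (P.cons (P.lf 200934 0 0) (P.cons (P.lf 0 22400 0) P.nil)))) (P.cons (P.cons (P.lf 0 159474 0) (P.cons (P.lf 45794 0 0) (P.cons (P.lf 17248 0 0) P.nil))) (P.cons (P.cons (P.lf 7646 0 0) (P.cons (P.lf 0 342 0) P.nil)) (P.cons (P.cons (P.lf 342 0 0) P.nil) P.nil)))))) 91906)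
 EL.nil)))
noncomputable def S212_219_216_364_6 : EL := (EL.cons 12 (TM.mk (P.lf 8589934592 0 0) 0)
 (EL.cons 3 (TM.mk (P.cons (P.lf 0 1235370907 0) (P.cons (P.lf 100283032 0 0) (P.cons (P.lf 805698 0 0) (P.cons (P.lf 0 18495 0) (P.cons (P.lf 0 277 0) (P.cons (P.lf 0 0 0) P.nil)))))) 44)
 (EL.cons 7 (TM.mk (P.cons (P.lf 0 2017190622 0) (P.cons (P.lf 0 21836617 0) (P.cons (P.lf 829062 0 0) (P.cons (P.lf 9294 0 0) (P.cons (P.lf 0 138 0) (P.cons (P.lf 0 3 0) P.nil)))))) 46)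
 EL.nil)))
noncomputable def S212_219_216_364_7 : EL := (EL.cons 12 (TM.mk (P.cons (P.cons (P.lf 5271287956 0 0) (P.cons (P.lf 0 672930184 0) (P.cons (P.lf 0 290175080 0) (P.lf 32241672 0 0)))) (P.cons (P.cons (P.lf 74927784 0 0) (P.cons (P.lf 0 21853928 0) (P.cons (P.lf 0 9423656 0) (P.lf 1047072 0 0)))) (P.cons (P.cons (P.lf 0 12888476 0) (P.cons (P.lf 593136 0 0) (P.cons (P.lf 255768 0 0) (P.lf 0 28416 0)))) (P.cons (P.cons (P.lf 0 37804 0) (P.cons (P.lf 26400 0 0) (P.cons (P.lf 11384 0 0) P.nil))) (P.cons (P.cons (P.lf 9918 0 0) (P.cons (P.lf 0 176 0) P.nil)) (P.cons (P.cons (P.lf 74 0 0) P.nil) P.nil)))))) 2446)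
 (EL.cons 3 (TM.mk (P.cons (P.cons (P.lf 237336927 0 0) (P.cons (P.lf 0 193556390 0) (P.cons (P.lf 0 83463696 0) (P.lf 9273742 0 0)))) (P.cons (P.cons (P.lf 0 286133089 0) (P.cons (P.lf 9426328 0 0) (P.cons (P.lf 4064738 0 0) (P.lf 0 451636 0)))) (P.cons (P.cons (P.lf 0 435827 0) (P.cons (P.lf 807106 0 0) (P.cons (P.lf 348032 0 0) (P.lf 0 38668 0)))) (P.cons (P.cons (P.lf 453143 0 0) (P.cons (P.lf 0 5052 0) (P.cons (P.lf 0 2178 0) P.nil))) (P.cons (P.cons (P.lf 5050 0 0) (P.cons (P.lf 0 914 0) P.nil)) (P.cons (P.cons (P.lf 0 315 0) P.nil) P.nil)))))) 4790)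
 (EL.cons 7 (TM.mk (P.cons (P.cons (P.lf 0 1454621957 0) (P.cons (P.lf 221245790 0 0) (P.cons (P.lf 95403682 0 0) (P.lf 0 10600412 0)))) (P.cons (P.cons (P.lf 62305438 0 0) (P.cons (P.lf 0 2052577 0) (P.cons (P.lf 0 885092 0) (P.lf 98342 0 0)))) (P.cons (P.cons (P.lf 0 2771195 0) (P.cons (P.lf 0 81330 0) (P.cons (P.lf 0 35072 0) (P.lf 3898 0 0)))) (P.cons (P.cons (P.lf 0 88818 0) (P.cons (P.lf 11359 0 0) (P.cons (P.lf 4900 0 0) P.nil))) (P.cons (P.cons (P.lf 5325 0 0) (P.cons (P.lf 72 0 0) P.nil)) (P.cons (P.cons (P.lf 108 0 0) P.nil) P.nil)))))) 4622)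
 (EL.cons 10 (TM.mk (P.cons (P.cons (P.lf 0 1122686586 0) (P.cons (P.lf 0 1045886415 0) (P.cons (P.lf 107341968 0 0) (P.cons (P.lf 22324143 0 0) (P.lf 0 1860345 0))))) (P.cons (P.cons (P.lf 0 24306750 0) (P.cons (P.lf 0 22643988 0) (P.cons (P.lf 2324007 0 0) (P.cons (P.lf 483327 0 0) (P.lf 0 40275 0))))) (P.cons (P.cons (P.lf 791280 0 0) (P.cons (P.lf 737151 0 0) (P.cons (P.lf 0 75654 0) (P.cons (P.lf 0 15732 0) P.nil)))) (P.cons (P.cons (P.lf 20334 0 0) (P.cons (P.lf 18942 0 0) (P.cons (P.lf 0 1944 0) P.nil))) (P.cons (P.cons (P.lf 0 231 0) (P.cons (P.lf 0 213 0) P.nil)) (P.cons (P.cons (P.lf 0 6 0) P.nil) P.nil)))))) 2013)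
 EL.nil))))
noncomputable def S212_219_216_364_8 : EL := (EL.cons 12 (TM.mk (P.cons (P.cons (P.lf 3234771628 0 0) (P.cons (P.lf 0 825898902 0) (P.cons (P.lf 0 303419978 0) (P.cons (P.lf 85035038 0 0) (P.cons (P.lf 4750768 0 0) (P.cons (P.lf 0 2178300 0) P.nil)))))) (P.cons (P.cons (P.lf 91960170 0 0) (P.cons (P.lf 0 38561298 0) (P.cons (P.lf 0 13204014 0) (P.cons (P.lf 4800534 0 0) (P.cons (P.lf 308568 0 0) P.nil))))) (P.cons (P.cons (P.lf 0 15164674 0) (P.cons (P.lf 2366064 0 0) (P.cons (P.lf 982942 0 0) (P.cons (P.lf 0 145556 0) P.nil)))) (P.cons (P.cons (P.lf 0 271242 0) (P.cons (P.lf 114250 0 0) (P.cons (P.lf 42112 0 0) P.nil))) (P.cons (P.cons (P.lf 30850 0 0) (P.cons (P.lf 0 2896 0) P.nil)) (P.cons (P.cons (P.lf 376 0 0) P.nil) P.nil)))))) 337060)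
 (EL.cons 3 (TM.mk (P.cons (P.cons (P.lf 756499973 0 0) (P.cons (P.lf 0 393518334 0) (P.cons (P.lf 0 131781818 0) (P.cons (P.lf 51546861 0 0) (P.cons (P.lf 3416180 0 0) (P.cons (P.lf 0 1566370 0) P.nil)))))) (P.cons (P.cons (P.lf 0 371574575 0) (P.cons (P.lf 55911961 0 0) (P.cons (P.lf 23494814 0 0) (P.cons (P.lf 0 3209299 0) (P.cons (P.lf 0 55425 0) P.nil))))) (P.cons (P.cons (P.lf 0 9796750 0) (P.cons (P.lf 4160758 0 0) (P.cons (P.lf 1542725 0 0) (P.cons (P.lf 0 416192 0) P.nil)))) (P.cons (P.cons (P.lf 1541459 0 0) (P.cons (P.lf 0 134888 0) (P.cons (P.lf 0 62169 0) P.nil))) (P.cons (P.cons (P.lf 27800 0 0) (P.cons (P.lf 0 11167 0) P.nil)) (P.cons (P.cons (P.lf 0 2618 0) P.nil) P.nil)))))) 486216)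
 (EL.cons 7 (TM.mk (P.cons (P.cons (P.lf 0 1025655234 0) (P.cons (P.lf 305499770 0 0) (P.cons (P.lf 109450044 0 0) (P.cons (P.lf 0 33856221 0) (P.cons (P.lf 0 2008275 0) (P.cons (P.lf 920824 0 0) P.nil)))))) (P.cons (P.cons (P.lf 80910308 0 0) (P.cons (P.lf 0 12174810 0) (P.cons (P.lf 0 5115984 0) (P.cons (P.lf 698817 0 0) (P.cons (P.lf 12068 0 0) P.nil))))) (P.cons (P.cons (P.lf 0 1588687 0) (P.cons (P.lf 0 345960 0) (P.cons (P.lf 0 100598 0) (P.cons (P.lf 58480 0 0) P.nil)))) (P.cons (P.cons (P.lf 0 446138 0) (P.cons (P.lf 81869 0 0) (P.cons (P.lf 32852 0 0) P.nil))) (P.cons (P.cons (P.lf 17361 0 0) (P.cons (P.lf 151 0 0) P.nil)) (P.cons (P.cons (P.lf 845 0 0) P.nil) P.nil)))))) 226225)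
 (EL.cons 10 (TM.mk (P.cons (P.cons (P.lf 0 1377892740 0) (P.cons (P.lf 0 1107733410 0) (P.cons (P.lf 371461410 0 0) (P.cons (P.lf 72814572 0 0) (P.cons (P.lf 0 20884464 0) (P.cons (P.lf 0 410976 0) P.nil)))))) (P.cons (P.cons (P.lf 0 49417902 0) (P.cons (P.lf 0 36516474 0) (P.cons (P.lf 17700012 0 0) (P.cons (P.lf 3440838 0 0) (P.cons (P.lf 0 1088694 0) P.nil))))) (P.cons (P.cons (P.lf 3916098 0 0) (P.cons (P.lf 3492870 0 0) (P.cons (P.lf 0 586122 0) (P.cons (P.lf 0 117972 0) P.nil)))) (P.cons (P.cons (P.lf 121578 0 0) (P.cons (P.lf 95790 0 0) (P.cons (P.lf 0 35430 0) P.nil))) (P.cons (P.cons (P.lf 0 4680 0) (P.cons (P.lf 0 4416 0) P.nil)) (P.cons (P.cons (P.lf 0 150 0) P.nil) P.nil)))))) 539178)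
 EL.nil))))
noncomputable def S212_219_216_364_9 : EL := (EL.cons 3 (TM.mk (P.cons (P.lf 0 1235370907 0) (P.cons (P.lf 100283032 0 0) (P.cons (P.lf 805698 0 0) (P.cons (P.lf 0 18495 0) (P.cons (P.lf 0 277 0) (P.cons (P.lf 0 0 0) P.nil)))))) 44)
 (EL.cons 7 (TM.mk (P.cons (P.lf 0 2017190622 0) (P.cons (P.lf 0 21836617 0) (P.cons (P.lf 829062 0 0) (P.cons (P.lf 9294 0 0) (P.cons (P.lf 0 138 0) (P.cons (P.lf 0 3 0) P.nil)))))) 46)
 EL.nil))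
noncomputable def S212_219_216_364_10 : EL := (EL.cons 3 (TM.mk (P.cons (P.cons (P.lf 0 758096085 0) (P.cons (P.lf 96778195 0 0) (P.cons (P.lf 41731848 0 0) (P.lf 0 4636871 0)))) (P.cons (P.cons (P.lf 50763731 0 0) (P.cons (P.lf 0 4713164 0) (P.cons (P.lf 0 2032369 0) (P.lf 225818 0 0)))) (P.cons (P.cons (P.lf 3222736 0 0) (P.cons (P.lf 0 403553 0) (P.cons (P.lf 0 174016 0) (P.lf 19334 0 0)))) (P.cons (P.cons (P.lf 0 149350 0) (P.cons (P.lf 2526 0 0) (P.cons (P.lf 1089 0 0) P.nil))) (P.cons (P.cons (P.lf 0 3407 0) (P.cons (P.lf 457 0 0) P.nil)) (P.cons (P.cons (P.lf 126 0 0) P.nil) P.nil)))))) 1147)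
 (EL.cons 7 (TM.mk (P.cons (P.cons (P.lf 0 1237866542 0) (P.cons (P.lf 158025470 0 0) (P.cons (P.lf 68142364 0 0) (P.lf 0 7571372 0)))) (P.cons (P.cons (P.lf 0 30995663 0) (P.cons (P.lf 6842666 0 0) (P.cons (P.lf 2950633 0 0) (P.lf 0 327847 0)))) (P.cons (P.cons (P.lf 3344911 0 0) (P.cons (P.lf 0 148680 0) (P.cons (P.lf 0 64112 0) (P.lf 7123 0 0)))) (P.cons (P.cons (P.lf 54576 0 0) (P.cons (P.lf 0 10544 0) (P.cons (P.lf 0 4547 0) P.nil))) (P.cons (P.cons (P.lf 0 3480 0) (P.cons (P.lf 18 0 0) P.nil)) (P.cons (P.cons (P.lf 0 63 0) P.nil) P.nil)))))) 922)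
 EL.nil))
noncomputable def S212_219_216_364_11 : EL := (EL.cons 3 (TM.mk (P.cons (P.cons (P.lf 0 465212245 0) (P.cons (P.lf 118777560 0 0) (P.cons (P.lf 43636678 0 0) (P.cons (P.lf 0 12229407 0) (P.cons (P.lf 0 683236 0) (P.cons (P.lf 313274 0 0) P.nil)))))) (P.cons (P.cons (P.lf 24538927 0 0) (P.cons (P.lf 0 4096205 0) (P.cons (P.lf 0 1643320 0) (P.cons (P.lf 302345 0 0) (P.cons (P.lf 11085 0 0) P.nil))))) (P.cons (P.cons (P.lf 3557918 0 0) (P.cons (P.lf 0 867926 0) (P.cons (P.lf 0 323971 0) (P.cons (P.lf 84952 0 0) P.nil)))) (P.cons (P.cons (P.lf 0 136369 0) (P.cons (P.lf 9352 0 0) (P.cons (P.lf 4833 0 0) P.nil))) (P.cons (P.cons (P.lf 0 9328 0) (P.cons (P.lf 2081 0 0) P.nil)) (P.cons (P.cons (P.lf 310 0 0) P.nil) P.nil)))))) 85280)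
 (EL.cons 7 (TM.mk (P.cons (P.cons (P.lf 0 759627552 0) (P.cons (P.lf 193947404 0 0) (P.cons (P.lf 71252688 0 0) (P.cons (P.lf 0 19968939 0) (P.cons (P.lf 0 1115631 0) (P.cons (P.lf 511534 0 0) P.nil)))))) (P.cons (P.cons (P.lf 0 29818348 0) (P.cons (P.lf 11154954 0 0) (P.cons (P.lf 3872052 0 0) (P.cons (P.lf 0 1343487 0) (P.cons (P.lf 0 84538 0) P.nil))))) (P.cons (P.cons (P.lf 3639581 0 0) (P.cons (P.lf 0 537312 0) (P.cons (P.lf 0 226544 0) (P.cons (P.lf 30184 0 0) P.nil)))) (P.cons (P.cons (P.lf 114622 0 0) (P.cons (P.lf 0 37459 0) (P.cons (P.lf 0 13990 0) P.nil))) (P.cons (P.cons (P.lf 0 7971 0) (P.cons (P.lf 589 0 0) P.nil)) (P.cons (P.cons (P.lf 0 211 0) P.nil) P.nil)))))) 88317)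
 EL.nil))
noncomputable def S212_219_216_364_12 : EL := (EL.cons 4 (TM.mk (P.cons (P.lf 1235370907 0 0) (P.cons (P.lf 0 100283032 0) (P.cons (P.lf 0 805698 0) (P.cons (P.lf 18495 0 0) (P.cons (P.lf 277 0 0) (P.cons (P.lf 0 0 0) P.nil)))))) 44)
 (EL.cons 8 (TM.mk (P.cons (P.lf 2017190622 0 0) (P.cons (P.lf 21836617 0 0) (P.cons (P.lf 0 829062 0) (P.cons (P.lf 0 9294 0) (P.cons (P.lf 138 0 0) (P.cons (P.lf 3 0 0) P.nil)))))) 46)
 EL.nil))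
noncomputable def S212_219_216_364_13 : EL := (EL.cons 4 (TM.mk (P.cons (P.cons (P.lf 758096085 0 0) (P.cons (P.lf 0 96778195 0) (P.cons (P.lf 0 41731848 0) (P.lf 4636871 0 0)))) (P.cons (P.cons (P.lf 0 50763731 0) (P.cons (P.lf 4713164 0 0) (P.cons (P.lf 2032369 0 0) (P.lf 0 225818 0)))) (P.cons (P.cons (P.lf 0 3222736 0) (P.cons (P.lf 403553 0 0) (P.cons (P.lf 174016 0 0) (P.lf 0 19334 0)))) (P.cons (P.cons (P.lf 149350 0 0) (P.cons (P.lf 0 2526 0) (P.cons (P.lf 0 1089 0) P.nil))) (P.cons (P.cons (P.lf 3407 0 0) (P.cons (P.lf 0 457 0) P.nil)) (P.cons (P.cons (P.lf 0 126 0) P.nil) P.nil)))))) 1147)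
 (EL.cons 8 (TM.mk (P.cons (P.cons (P.lf 1237866542 0 0) (P.cons (P.lf 0 158025470 0) (P.cons (P.lf 0 68142364 0) (P.lf 7571372 0 0)))) (P.cons (P.cons (P.lf 30995663 0 0) (P.cons (P.lf 0 6842666 0) (P.cons (P.lf 0 2950633 0) (P.lf 327847 0 0)))) (P.cons (P.cons (P.lf 0 3344911 0) (P.cons (P.lf 148680 0 0) (P.cons (P.lf 64112 0 0) (P.lf 0 7123 0)))) (P.cons (P.cons (P.lf 0 54576 0) (P.cons (P.lf 10544 0 0) (P.cons (P.lf 4547 0 0) P.nil))) (P.cons (P.cons (P.lf 3480 0 0) (P.cons (P.lf 0 18 0) P.nil)) (P.cons (P.cons (P.lf 63 0 0) P.nil) P.nil)))))) 922)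
 EL.nil))
noncomputable def S212_219_216_364_14 : EL := (EL.cons 4 (TM.mk (P.cons (P.cons (P.lf 465212245 0 0) (P.cons (P.lf 0 118777560 0) (P.cons (P.lf 0 43636678 0) (P.cons (P.lf 12229407 0 0) (P.cons (P.lf 683236 0 0) (P.cons (P.lf 0 313274 0) P.nil)))))) (P.cons (P.cons (P.lf 0 24538927 0) (P.cons (P.lf 4096205 0 0) (P.cons (P.lf 1643320 0 0) (P.cons (P.lf 0 302345 0) (P.cons (P.lf 0 11085 0) P.nil))))) (P.cons (P.cons (P.lf 0 3557918 0) (P.cons (P.lf 867926 0 0) (P.cons (P.lf 323971 0 0) (P.cons (P.lf 0 84952 0) P.nil)))) (P.cons (P.cons (P.lf 136369 0 0) (P.cons (P.lf 0 9352 0) (P.cons (P.lf 0 4833 0) P.nil))) (P.cons (P.cons (P.lf 9328 0 0) (P.cons (P.lf 0 2081 0) P.nil)) (P.cons (P.cons (P.lf 0 310 0) P.nil) P.nil)))))) 85280)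
 (EL.cons 8 (TM.mk (P.cons (P.cons (P.lf 759627552 0 0) (P.cons (P.lf 0 193947404 0) (P.cons (P.lf 0 71252688 0) (P.cons (P.lf 19968939 0 0) (P.cons (P.lf 1115631 0 0) (P.cons (P.lf 0 511534 0) P.nil)))))) (P.cons (P.cons (P.lf 29818348 0 0) (P.cons (P.lf 0 11154954 0) (P.cons (P.lf 0 3872052 0) (P.cons (P.lf 1343487 0 0) (P.cons (P.lf 84538 0 0) P.nil))))) (P.cons (P.cons (P.lf 0 3639581 0) (P.cons (P.lf 537312 0 0) (P.cons (P.lf 226544 0 0) (P.cons (P.lf 0 30184 0) P.nil)))) (P.cons (P.cons (P.lf 0 114622 0) (P.cons (P.lf 37459 0 0) (P.cons (P.lf 13990 0 0) P.nil))) (P.cons (P.cons (P.lf 7971 0 0) (P.cons (P.lf 0 589 0) P.nil)) (P.cons (P.cons (P.lf 211 0 0) P.nil) P.nil)))))) 88317)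
 EL.nil))
noncomputable def S212_219_216_364_15 : EL := (EL.cons 4 (TM.mk (P.cons (P.lf 0 379021286 0) (P.cons (P.lf 61535209 0 0) (P.cons (P.lf 0 2003215 0) (P.cons (P.lf 0 51480 0) (P.cons (P.lf 589 0 0) (P.cons (P.lf 20 0 0) P.nil)))))) 37)
 (EL.cons 8 (TM.mk (P.cons (P.lf 0 618889582 0) (P.cons (P.lf 43539621 0 0) (P.cons (P.lf 1201850 0 0) (P.cons (P.lf 0 22692 0) (P.cons (P.lf 0 679 0) (P.cons (P.lf 2 0 0) P.nil)))))) 41)
 EL.nil))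
noncomputable def S212_219_216_364_16 : EL := (EL.cons 4 (TM.mk (P.cons (P.cons (P.lf 0 232589702 0) (P.cons (P.lf 29692293 0 0) (P.cons (P.lf 12803651 0 0) (P.lf 0 1422627 0)))) (P.cons (P.cons (P.lf 34455510 0 0) (P.cons (P.lf 0 3856350 0) (P.cons (P.lf 0 1662900 0) (P.lf 184766 0 0)))) (P.cons (P.cons (P.lf 0 123844 0) (P.cons (P.lf 0 25794 0) (P.cons (P.lf 0 11122 0) (P.lf 1235 0 0)))) (P.cons (P.cons (P.lf 0 139725 0) (P.cons (P.lf 12212 0 0) (P.cons (P.lf 5265 0 0) P.nil))) (P.cons (P.cons (P.lf 2209 0 0) (P.cons (P.lf 142 0 0) P.nil)) (P.cons (P.cons (P.lf 171 0 0) P.nil) P.nil)))))) 1084)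
 (EL.cons 8 (TM.mk (P.cons (P.cons (P.lf 0 379786966 0) (P.cons (P.lf 48483428 0 0) (P.cons (P.lf 20906600 0 0) (P.lf 0 2322955 0)))) (P.cons (P.cons (P.lf 21320052 0 0) (P.cons (P.lf 0 1836330 0) (P.cons (P.lf 0 791846 0) (P.lf 87982 0 0)))) (P.cons (P.cons (P.lf 2045902 0 0) (P.cons (P.lf 0 247657 0) (P.cons (P.lf 0 106792 0) (P.lf 11865 0 0)))) (P.cons (P.cons (P.lf 0 66045 0) (P.cons (P.lf 0 175 0) (P.cons (P.lf 0 75 0) P.nil))) (P.cons (P.cons (P.lf 0 3323 0) (P.cons (P.lf 340 0 0) P.nil)) (P.cons (P.cons (P.lf 69 0 0) P.nil) P.nil)))))) 823)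
 EL.nil))
noncomputable def S212_219_216_364_17 : EL := (EL.cons 4 (TM.mk (P.cons (P.cons (P.lf 0 142730690 0) (P.cons (P.lf 36441868 0 0) (P.cons (P.lf 13388068 0 0) (P.cons (P.lf 0 3752075 0) (P.cons (P.lf 0 209622 0) (P.cons (P.lf 96114 0 0) P.nil)))))) (P.cons (P.cons (P.lf 19115102 0 0) (P.cons (P.lf 0 4214969 0) (P.cons (P.lf 0 1590978 0) (P.cons (P.lf 397341 0 0) (P.cons (P.lf 20416 0 0) P.nil))))) (P.cons (P.cons (P.lf 573528 0 0) (P.cons (P.lf 0 188035 0) (P.cons (P.lf 0 67200 0) (P.cons (P.lf 20980 0 0) P.nil)))) (P.cons (P.cons (P.lf 0 137497 0) (P.cons (P.lf 25850 0 0) (P.cons (P.lf 10080 0 0) P.nil))) (P.cons (P.cons (P.lf 0 96 0) (P.cons (P.lf 568 0 0) P.nil)) (P.cons (P.cons (P.lf 372 0 0) P.nil) P.nil)))))) 40444)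
 (EL.cons 8 (TM.mk (P.cons (P.cons (P.lf 0 233059569 0) (P.cons (P.lf 59504553 0 0) (P.cons (P.lf 21860872 0 0) (P.cons (P.lf 0 6126623 0) (P.cons (P.lf 0 342284 0) (P.cons (P.lf 156942 0 0) P.nil)))))) (P.cons (P.cons (P.lf 9770451 0 0) (P.cons (P.lf 0 1407943 0) (P.cons (P.lf 0 586612 0) (P.cons (P.lf 85145 0 0) (P.cons (P.lf 1847 0 0) P.nil))))) (P.cons (P.cons (P.lf 2011293 0 0) (P.cons (P.lf 0 481479 0) (P.cons (P.lf 0 180198 0) (P.cons (P.lf 46716 0 0) P.nil)))) (P.cons (P.cons (P.lf 0 53001 0) (P.cons (P.lf 547 0 0) (P.cons (P.lf 902 0 0) P.nil))) (P.cons (P.cons (P.lf 0 6217 0) (P.cons (P.lf 1285 0 0) P.nil)) (P.cons (P.cons (P.lf 125 0 0) P.nil) P.nil)))))) 45881)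
 EL.nil))
noncomputable def S212_219_216_364_18 : EL := (EL.cons 4 (TM.mk (P.cons (P.lf 116286642 0 0) (P.cons (P.lf 0 28319212 0) (P.cons (P.lf 2071329 0 0) (P.cons (P.lf 0 20041 0) (P.cons (P.lf 0 2119 0) (P.cons (P.lf 2 0 0) P.nil)))))) 28)
 (EL.cons 8 (TM.mk (P.cons (P.lf 189880079 0 0) (P.cons (P.lf 0 28772082 0) (P.cons (P.lf 591803 0 0) (P.cons (P.lf 48449 0 0) (P.cons (P.lf 0 273 0) (P.cons (P.lf 0 30 0) P.nil)))))) 28)
 EL.nil))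
noncomputable def S212_219_216_364_19 : EL := (EL.cons 4 (TM.mk (P.cons (P.cons (P.lf 71360307 0 0) (P.cons (P.lf 0 9109823 0) (P.cons (P.lf 0 3928258 0) (P.lf 436472 0 0)))) (P.cons (P.cons (P.lf 0 16363992 0) (P.cons (P.lf 1922660 0 0) (P.cons (P.lf 829072 0 0) (P.lf 0 92118 0)))) (P.cons (P.cons (P.lf 849589 0 0) (P.cons (P.lf 0 82188 0) (P.cons (P.lf 0 35440 0) (P.lf 3937 0 0)))) (P.cons (P.cons (P.lf 47746 0 0) (P.cons (P.lf 0 5296 0) (P.cons (P.lf 0 2283 0) P.nil))) (P.cons (P.cons (P.lf 0 4323 0) (P.cons (P.lf 270 0 0) P.nil)) (P.cons (P.cons (P.lf 0 27 0) P.nil) P.nil)))))) 752)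
 (EL.cons 8 (TM.mk (P.cons (P.cons (P.lf 116521558 0 0) (P.cons (P.lf 0 14875088 0) (P.cons (P.lf 0 6414305 0) (P.lf 712700 0 0)))) (P.cons (P.cons (P.lf 0 15999962 0) (P.cons (P.lf 1770907 0 0) (P.cons (P.lf 763634 0 0) (P.lf 0 84848 0)))) (P.cons (P.cons (P.lf 0 172705 0) (P.cons (P.lf 39949 0 0) (P.cons (P.lf 17226 0 0) (P.lf 0 1913 0)))) (P.cons (P.cons (P.lf 77227 0 0) (P.cons (P.lf 0 6703 0) (P.cons (P.lf 0 2890 0) P.nil))) (P.cons (P.cons (P.lf 0 287 0) (P.cons (P.lf 0 152 0) P.nil)) (P.cons (P.cons (P.lf 0 127 0) P.nil) P.nil)))))) 652)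
 EL.nil))
noncomputable def S212_219_216_364_20 : EL := (EL.cons 4 (TM.mk (P.cons (P.cons (P.lf 43790872 0 0) (P.cons (P.lf 0 11180644 0) (P.cons (P.lf 0 4107561 0) (P.cons (P.lf 1151165 0 0) (P.cons (P.lf 64313 0 0) (P.cons (P.lf 0 29488 0) P.nil)))))) (P.cons (P.cons (P.lf 0 9419447 0) (P.cons (P.lf 2200789 0 0) (P.cons (P.lf 821561 0 0) (P.cons (P.lf 0 215355 0) (P.cons (P.lf 0 11484 0) P.nil))))) (P.cons (P.cons (P.lf 271548 0 0) (P.cons (P.lf 0 39992 0) (P.cons (P.lf 0 16327 0) (P.cons (P.lf 2707 0 0) P.nil)))) (P.cons (P.cons (P.lf 60949 0 0) (P.cons (P.lf 0 13624 0) (P.cons (P.lf 0 5145 0) P.nil))) (P.cons (P.cons (P.lf 0 3357 0) (P.cons (P.lf 448 0 0) P.nil)) (P.cons (P.cons (P.lf 0 148 0) P.nil) P.nil)))))) 18242)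
 (EL.cons 8 (TM.mk (P.cons (P.cons (P.lf 71504466 0 0) (P.cons (P.lf 0 18256454 0) (P.cons (P.lf 0 6707083 0) (P.cons (P.lf 1879694 0 0) (P.cons (P.lf 105015 0 0) (P.cons (P.lf 0 48150 0) P.nil)))))) (P.cons (P.cons (P.lf 0 8802128 0) (P.cons (P.lf 1913962 0 0) (P.cons (P.lf 724434 0 0) (P.cons (P.lf 0 178709 0) (P.cons (P.lf 0 9091 0) P.nil))))) (P.cons (P.cons (P.lf 0 420376 0) (P.cons (P.lf 124562 0 0) (P.cons (P.lf 45050 0 0) (P.cons (P.lf 0 13438 0) P.nil)))) (P.cons (P.cons (P.lf 69378 0 0) (P.cons (P.lf 0 12714 0) (P.cons (P.lf 0 4982 0) P.nil))) (P.cons (P.cons (P.lf 961 0 0) (P.cons (P.lf 0 474 0) P.nil)) (P.cons (P.cons (P.lf 0 213 0) P.nil) P.nil)))))) 21498)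
 EL.nil))
noncomputable def S212_219_216_364_21 : EL := (EL.cons 4 (TM.mk (P.cons (P.cons (P.lf 0 995433012 0) (P.cons (P.lf 290334585 0 0) (P.cons (P.lf 125195544 0 0) (P.lf 0 13910613 0)))) (P.cons (P.cons (P.lf 336896820 0 0) (P.cons (P.lf 0 14139492 0) (P.cons (P.lf 0 6097107 0) (P.lf 677454 0 0)))) (P.cons (P.cons (P.lf 3658563 0 0) (P.cons (P.lf 0 1210659 0) (P.cons (P.lf 0 522048 0) (P.lf 58002 0 0)))) (P.cons (P.cons (P.lf 0 602493 0) (P.cons (P.lf 7578 0 0) (P.cons (P.lf 3267 0 0) P.nil))) (P.cons (P.cons (P.lf 0 8457 0) (P.cons (P.lf 1371 0 0) P.nil)) (P.cons (P.cons (P.lf 441 0 0) P.nil) P.nil)))))) 3624)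
 (EL.cons 8 (TM.mk (P.cons (P.cons (P.lf 216755415 0 0) (P.cons (P.lf 0 63220320 0) (P.cons (P.lf 0 27261318 0) (P.lf 3029040 0 0)))) (P.cons (P.cons (P.lf 0 93301101 0) (P.cons (P.lf 8895243 0 0) (P.cons (P.lf 3835725 0 0) (P.lf 0 426189 0)))) (P.cons (P.cons (P.lf 6116106 0 0) (P.cons (P.lf 0 67350 0) (P.cons (P.lf 0 29040 0) (P.lf 3225 0 0)))) (P.cons (P.cons (P.lf 143394 0 0) (P.cons (P.lf 0 21903 0) (P.cons (P.lf 0 9447 0) P.nil))) (P.cons (P.cons (P.lf 0 8805 0) (P.cons (P.lf 0 54 0) P.nil)) (P.cons (P.cons (P.lf 0 171 0) P.nil) P.nil)))))) 3681)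
 (EL.cons 11 (TM.mk (P.cons (P.cons (P.lf 1122686586 0 0) (P.cons (P.lf 1045886415 0 0) (P.cons (P.lf 0 107341968 0) (P.cons (P.lf 0 22324143 0) (P.lf 1860345 0 0))))) (P.cons (P.cons (P.lf 24306750 0 0) (P.cons (P.lf 22643988 0 0) (P.cons (P.lf 0 2324007 0) (P.cons (P.lf 0 483327 0) (P.lf 40275 0 0))))) (P.cons (P.cons (P.lf 0 791280 0) (P.cons (P.lf 0 737151 0) (P.cons (P.lf 75654 0 0) (P.cons (P.lf 15732 0 0) P.nil)))) (P.cons (P.cons (P.lf 0 20334 0) (P.cons (P.lf 0 18942 0) (P.cons (P.lf 1944 0 0) P.nil))) (P.cons (P.cons (P.lf 231 0 0) (P.cons (P.lf 213 0 0) P.nil)) (P.cons (P.cons (P.lf 6 0 0) P.nil) P.nil)))))) 2013)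
 EL.nil)))
noncomputable def S212_219_216_364_22 : EL := (EL.cons 4 (TM.mk (P.cons (P.cons (P.lf 0 610856109 0) (P.cons (P.lf 256147947 0 0) (P.cons (P.lf 87709248 0 0) (P.cons (P.lf 0 31888134 0) (P.cons (P.lf 0 2049708 0) (P.cons (P.lf 939822 0 0) P.nil)))))) (P.cons (P.cons (P.lf 198056751 0 0) (P.cons (P.lf 0 30004083 0) (P.cons (P.lf 0 12569067 0) (P.cons (P.lf 1755822 0 0) (P.cons (P.lf 33255 0 0) P.nil))))) (P.cons (P.cons (P.lf 6677334 0 0) (P.cons (P.lf 0 2514342 0) (P.cons (P.lf 0 933348 0) (P.cons (P.lf 250572 0 0) P.nil)))) (P.cons (P.cons (P.lf 0 838914 0) (P.cons (P.lf 72120 0 0) (P.cons (P.lf 33501 0 0) P.nil))) (P.cons (P.cons (P.lf 0 18564 0) (P.cons (P.lf 6624 0 0) P.nil)) (P.cons (P.cons (P.lf 1464 0 0) P.nil) P.nil)))))) 200457)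
 (EL.cons 8 (TM.mk (P.cons (P.cons (P.lf 133013841 0 0) (P.cons (P.lf 0 55776183 0) (P.cons (P.lf 0 19098678 0) (P.cons (P.lf 6943641 0 0) (P.cons (P.lf 446322 0 0) (P.cons (P.lf 0 204645 0) P.nil)))))) (P.cons (P.cons (P.lf 0 55364328 0) (P.cons (P.lf 11664882 0 0) (P.cons (P.lf 4494018 0 0) (P.cons (P.lf 0 1021152 0) (P.cons (P.lf 0 48303 0) P.nil))))) (P.cons (P.cons (P.lf 2614134 0 0) (P.cons (P.lf 0 95676 0) (P.cons (P.lf 0 62973 0) (P.cons (P.lf 0 14148 0) P.nil)))) (P.cons (P.cons (P.lf 280380 0 0) (P.cons (P.lf 0 59664 0) (P.cons (P.lf 0 23421 0) P.nil))) (P.cons (P.cons (P.lf 0 12666 0) (P.cons (P.lf 219 0 0) P.nil)) (P.cons (P.cons (P.lf 0 528 0) P.nil) P.nil)))))) 68943)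
 (EL.cons 11 (TM.mk (P.cons (P.cons (P.lf 688946370 0 0) (P.cons (P.lf 553866705 0 0) (P.cons (P.lf 0 185730705 0) (P.cons (P.lf 0 36407286 0) (P.cons (P.lf 10442232 0 0) (P.cons (P.lf 205488 0 0) P.nil)))))) (P.cons (P.cons (P.lf 24708951 0 0) (P.cons (P.lf 18258237 0 0) (P.cons (P.lf 0 8850006 0) (P.cons (P.lf 0 1720419 0) (P.cons (P.lf 544347 0 0) P.nil))))) (P.cons (P.cons (P.lf 0 1958049 0) (P.cons (P.lf 0 1746435 0) (P.cons (P.lf 293061 0 0) (P.cons (P.lf 58986 0 0) P.nil)))) (P.cons (P.cons (P.lf 0 60789 0) (P.cons (P.lf 0 47895 0) (P.cons (P.lf 17715 0 0) P.nil))) (P.cons (P.cons (P.lf 2340 0 0) (P.cons (P.lf 2208 0 0) P.nil)) (P.cons (P.cons (P.lf 75 0 0) P.nil) P.nil)))))) 269589)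
 EL.nil)))
noncomputable def S212_219_216_364_23 : EL := (EL.cons 4 (TM.mk (P.cons (P.cons (P.lf 305406495 0 0) (P.cons (P.lf 0 89076879 0) (P.cons (P.lf 0 38410953 0) (P.lf 4267881 0 0)))) (P.cons (P.cons (P.lf 0 128154348 0) (P.cons (P.lf 11569050 0 0) (P.cons (P.lf 4988703 0 0) (P.lf 0 554298 0)))) (P.cons (P.cons (P.lf 7068945 0 0) (P.cons (P.lf 77382 0 0) (P.cons (P.lf 33366 0 0) (P.lf 0 3705 0)))) (P.cons (P.cons (P.lf 347952 0 0) (P.cons (P.lf 0 36639 0) (P.cons (P.lf 0 15798 0) P.nil))) (P.cons (P.cons (P.lf 0 13155 0) (P.cons (P.lf 0 429 0) P.nil)) (P.cons (P.cons (P.lf 0 504 0) P.nil) P.nil)))))) 3219)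
 (EL.cons 8 (TM.mk (P.cons (P.cons (P.lf 0 66502224 0) (P.cons (P.lf 19396479 0 0) (P.cons (P.lf 8363979 0 0) (P.lf 0 929331 0)))) (P.cons (P.cons (P.lf 34023909 0 0) (P.cons (P.lf 0 4303665 0) (P.cons (P.lf 0 1855788 0) (P.lf 206196 0 0)))) (P.cons (P.cons (P.lf 0 4156812 0) (P.cons (P.lf 229554 0 0) (P.cons (P.lf 98985 0 0) (P.lf 0 10995 0)))) (P.cons (P.cons (P.lf 88665 0 0) (P.cons (P.lf 7110 0 0) (P.cons (P.lf 3066 0 0) P.nil))) (P.cons (P.cons (P.lf 7908 0 0) (P.cons (P.lf 0 576 0) P.nil)) (P.cons (P.cons (P.lf 0 159 0) P.nil) P.nil)))))) 1740)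
 (EL.cons 11 (TM.mk (P.cons (P.cons (P.lf 0 344448870 0) (P.cons (P.lf 0 320885988 0) (P.cons (P.lf 32933340 0 0) (P.cons (P.lf 6849216 0 0) (P.lf 0 570768 0))))) (P.cons (P.cons (P.lf 20503641 0 0) (P.cons (P.lf 19101036 0 0) (P.cons (P.lf 0 1960386 0) (P.cons (P.lf 0 407706 0) (P.lf 33975 0 0))))) (P.cons (P.cons (P.lf 1072788 0 0) (P.cons (P.lf 999402 0 0) (P.cons (P.lf 0 102570 0) (P.cons (P.lf 0 21330 0) P.nil)))) (P.cons (P.cons (P.lf 0 13761 0) (P.cons (P.lf 0 12819 0) (P.cons (P.lf 1314 0 0) P.nil))) (P.cons (P.cons (P.lf 0 924 0) (P.cons (P.lf 0 858 0) P.nil)) (P.cons (P.cons (P.lf 0 0 0) P.nil) P.nil)))))) 2838)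
 EL.nil)))
noncomputable def S212_219_216_364_24 : EL := (EL.cons 4 (TM.mk (P.cons (P.cons (P.lf 187415346 0 0) (P.cons (P.lf 0 78588156 0) (P.cons (P.lf 0 26909871 0) (P.cons (P.lf 9783522 0 0) (P.cons (P.lf 628866 0 0) (P.cons (P.lf 0 288345 0) P.nil)))))) (P.cons (P.cons (P.lf 0 75979047 0) (P.cons (P.lf 15584991 0 0) (P.cons (P.lf 6040734 0 0) (P.cons (P.lf 0 1332891 0) (P.cons (P.lf 0 61251 0) P.nil))))) (P.cons (P.cons (P.lf 2761824 0 0) (P.cons (P.lf 75405 0 0) (P.cons (P.lf 0 9129 0) (P.cons (P.lf 0 39528 0) P.nil)))) (P.cons (P.cons (P.lf 466125 0 0) (P.cons (P.lf 0 91926 0) (P.cons (P.lf 0 36441 0) P.nil))) (P.cons (P.cons (P.lf 0 14727 0) (P.cons (P.lf 0 618 0) P.nil)) (P.cons (P.cons (P.lf 0 1122 0) P.nil) P.nil)))))) 81825)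
 (EL.cons 8 (TM.mk (P.cons (P.cons (P.lf 0 40809666 0) (P.cons (P.lf 17112561 0 0) (P.cons (P.lf 5859621 0 0) (P.cons (P.lf 0 2130360 0) (P.cons (P.lf 0 136935 0) (P.cons (P.lf 62787 0 0) P.nil)))))) (P.cons (P.cons (P.lf 20298984 0 0) (P.cons (P.lf 0 4968012 0) (P.cons (P.lf 0 1854462 0) (P.cons (P.lf 486231 0 0) (P.cons (P.lf 25935 0 0) P.nil))))) (P.cons (P.cons (P.lf 0 2154300 0) (P.cons (P.lf 308712 0 0) (P.cons (P.lf 127425 0 0) (P.cons (P.lf 0 19701 0) P.nil)))) (P.cons (P.cons (P.lf 0 32604 0) (P.cons (P.lf 18513 0 0) (P.cons (P.lf 6603 0 0) P.nil))) (P.cons (P.cons (P.lf 11637 0 0) (P.cons (P.lf 0 1620 0) P.nil)) (P.cons (P.cons (P.lf 0 105 0) P.nil) P.nil)))))) 27375)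
 (EL.cons 11 (TM.mk (P.cons (P.cons (P.lf 0 211374039 0) (P.cons (P.lf 0 169930560 0) (P.cons (P.lf 56983608 0 0) (P.cons (P.lf 11170035 0 0) (P.cons (P.lf 0 3203757 0) (P.cons (P.lf 0 63045 0) P.nil)))))) (P.cons (P.cons (P.lf 9577698 0 0) (P.cons (P.lf 8192592 0 0) (P.cons (P.lf 0 1910475 0) (P.cons (P.lf 0 378906 0) (P.cons (P.lf 93057 0 0) P.nil))))) (P.cons (P.cons (P.lf 1353990 0 0) (P.cons (P.lf 1101378 0 0) (P.cons (P.lf 0 347490 0) (P.cons (P.lf 0 68229 0) P.nil)))) (P.cons (P.cons (P.lf 0 28335 0) (P.cons (P.lf 0 27690 0) (P.cons (P.lf 945 0 0) P.nil))) (P.cons (P.cons (P.lf 0 2784 0) (P.cons (P.lf 0 2340 0) P.nil)) (P.cons (P.cons (P.lf 27 0 0) P.nil) P.nil)))))) 106581)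
 EL.nil)))
noncomputable def S212_219_216_364_25 : EL := (EL.cons 4 (TM.mk (P.cons (P.cons (P.lf 0 93701058 0) (P.cons (P.lf 27329469 0 0) (P.cons (P.lf 11784774 0 0) (P.lf 0 1309419 0)))) (P.cons (P.cons (P.lf 46925058 0 0) (P.cons (P.lf 0 5767983 0) (P.cons (P.lf 0 2487219 0) (P.lf 276357 0 0)))) (P.cons (P.cons (P.lf 0 5299449 0) (P.cons (P.lf 246567 0 0) (P.cons (P.lf 106323 0 0) (P.lf 0 11811 0)))) (P.cons (P.cons (P.lf 42255 0 0) (P.cons (P.lf 15891 0 0) (P.cons (P.lf 6852 0 0) P.nil))) (P.cons (P.cons (P.lf 14682 0 0) (P.cons (P.lf 0 810 0) P.nil)) (P.cons (P.cons (P.lf 0 126 0) P.nil) P.nil)))))) 2391)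
 (EL.cons 8 (TM.mk (P.cons (P.cons (P.lf 20403393 0 0) (P.cons (P.lf 0 5950989 0) (P.cons (P.lf 0 2566131 0) (P.lf 285126 0 0)))) (P.cons (P.cons (P.lf 0 12095070 0) (P.cons (P.lf 1803477 0 0) (P.cons (P.lf 777678 0 0) (P.lf 0 86406 0)))) (P.cons (P.cons (P.lf 2109417 0 0) (P.cons (P.lf 0 173733 0) (P.cons (P.lf 0 74913 0) (P.lf 8322 0 0)))) (P.cons (P.cons (P.lf 0 123615 0) (P.cons (P.lf 2583 0 0) (P.cons (P.lf 1113 0 0) P.nil))) (P.cons (P.cons (P.lf 0 1200 0) (P.cons (P.lf 417 0 0) P.nil)) (P.cons (P.cons (P.lf 279 0 0) P.nil) P.nil)))))) 1014)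
 (EL.cons 11 (TM.mk (P.cons (P.cons (P.lf 105679560 0 0) (P.cons (P.lf 98450286 0 0) (P.cons (P.lf 0 10104201 0) (P.cons (P.lf 0 2101392 0) (P.lf 175116 0 0))))) (P.cons (P.cons (P.lf 0 14869365 0) (P.cons (P.lf 0 13852188 0) (P.cons (P.lf 1421685 0 0) (P.cons (P.lf 295671 0 0) (P.lf 0 24639 0))))) (P.cons (P.cons (P.lf 112590 0 0) (P.cons (P.lf 104886 0 0) (P.cons (P.lf 0 10764 0) (P.cons (P.lf 0 2238 0) P.nil)))) (P.cons (P.cons (P.lf 36624 0 0) (P.cons (P.lf 34119 0 0) (P.cons (P.lf 0 3501 0) P.nil))) (P.cons (P.cons (P.lf 84 0 0) (P.cons (P.lf 78 0 0) P.nil)) (P.cons (P.cons (P.lf 0 30 0) P.nil) P.nil)))))) 2817)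
 EL.nil)))
noncomputable def S212_219_216_364_26 : EL := (EL.cons 4 (TM.mk (P.cons (P.cons (P.lf 0 57500466 0) (P.cons (P.lf 24111450 0 0) (P.cons (P.lf 8256153 0 0) (P.cons (P.lf 0 3001659 0) (P.cons (P.lf 0 192939 0) (P.cons (P.lf 88464 0 0) P.nil)))))) (P.cons (P.cons (P.lf 27978639 0 0) (P.cons (P.lf 0 6738876 0) (P.cons (P.lf 0 2523549 0) (P.cons (P.lf 652605 0 0) (P.cons (P.lf 34455 0 0) P.nil))))) (P.cons (P.cons (P.lf 0 2702148 0) (P.cons (P.lf 349290 0 0) (P.cons (P.lf 147864 0 0) (P.cons (P.lf 0 19110 0) P.nil)))) (P.cons (P.cons (P.lf 0 90288 0) (P.cons (P.lf 33561 0 0) (P.cons (P.lf 12285 0 0) P.nil))) (P.cons (P.cons (P.lf 17016 0 0) (P.cons (P.lf 0 2148 0) P.nil)) (P.cons (P.cons (P.lf 63 0 0) P.nil) P.nil)))))) 35826)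
 (EL.cons 8 (TM.mk (P.cons (P.cons (P.lf 12520719 0 0) (P.cons (P.lf 0 5250264 0) (P.cons (P.lf 0 1797774 0) (P.cons (P.lf 653610 0 0) (P.cons (P.lf 42012 0 0) (P.cons (P.lf 0 19263 0) P.nil)))))) (P.cons (P.cons (P.lf 0 7244271 0) (P.cons (P.lf 1950420 0 0) (P.cons (P.lf 714900 0 0) (P.cons (P.lf 0 202236 0) (P.cons (P.lf 0 11367 0) P.nil))))) (P.cons (P.cons (P.lf 1158345 0 0) (P.cons (P.lf 0 215022 0) (P.cons (P.lf 0 84108 0) (P.cons (P.lf 17727 0 0) P.nil)))) (P.cons (P.cons (P.lf 0 39399 0) (P.cons (P.lf 933 0 0) (P.cons (P.lf 747 0 0) P.nil))) (P.cons (P.cons (P.lf 0 4902 0) (P.cons (P.lf 1041 0 0) P.nil)) (P.cons (P.cons (P.lf 324 0 0) P.nil) P.nil)))))) 11820)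
 (EL.cons 11 (TM.mk (P.cons (P.cons (P.lf 64851177 0 0) (P.cons (P.lf 52136001 0 0) (P.cons (P.lf 0 17483007 0) (P.cons (P.lf 0 3427050 0) (P.cons (P.lf 982935 0 0) (P.cons (P.lf 19341 0 0) P.nil)))))) (P.cons (P.cons (P.lf 0 8202900 0) (P.cons (P.lf 0 6745764 0) (P.cons (P.lf 2005356 0 0) (P.cons (P.lf 394446 0 0) (P.cons (P.lf 0 108342 0) P.nil))))) (P.cons (P.cons (P.lf 0 219171 0) (P.cons (P.lf 0 167871 0) (P.cons (P.lf 70431 0 0) (P.cons (P.lf 13731 0 0) P.nil)))) (P.cons (P.cons (P.lf 45300 0 0) (P.cons (P.lf 38346 0 0) (P.cons (P.lf 0 9588 0) P.nil))) (P.cons (P.cons (P.lf 390 0 0) (P.cons (P.lf 222 0 0) P.nil)) (P.cons (P.cons (P.lf 0 90 0) P.nil) P.nil)))))) 45075)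
 EL.nil)))
noncomputable def S212_219_216_364_27 : EL := (EL.cons 13 (TM.mk (P.lf 0 4294967296 0) 0)
 EL.nil)
noncomputable def S212_219_216_364_28 : EL := (EL.cons 13 (TM.mk (P.cons (P.cons (P.lf 0 2635643978 0) (P.cons (P.lf 336465092 0 0) (P.cons (P.lf 145087540 0 0) (P.lf 0 16120836 0)))) (P.cons (P.cons (P.lf 0 37463892 0) (P.cons (P.lf 10926964 0 0) (P.cons (P.lf 4711828 0 0) (P.lf 0 523536 0)))) (P.cons (P.cons (P.lf 6444238 0 0) (P.cons (P.lf 0 296568 0) (P.cons (P.lf 0 127884 0) (P.lf 14208 0 0)))) (P.cons (P.cons (P.lf 18902 0 0) (P.cons (P.lf 0 13200 0) (P.cons (P.lf 0 5692 0) P.nil))) (P.cons (P.cons (P.lf 0 4959 0) (P.cons (P.lf 88 0 0) P.nil)) (P.cons (P.cons (P.lf 0 37 0) P.nil) P.nil)))))) 1223)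
 EL.nil)
noncomputable def S212_219_216_364_29 : EL := (EL.cons 13 (TM.mk (P.cons (P.cons (P.lf 0 1617385814 0) (P.cons (P.lf 412949451 0 0) (P.cons (P.lf 151709989 0 0) (P.cons (P.lf 0 42517519 0) (P.cons (P.lf 0 2375384 0) (P.cons (P.lf 1089150 0 0) P.nil)))))) (P.cons (P.cons (P.lf 0 45980085 0) (P.cons (P.lf 19280649 0 0) (P.cons (P.lf 6602007 0 0) (P.cons (P.lf 0 2400267 0) (P.cons (P.lf 0 154284 0) P.nil))))) (P.cons (P.cons (P.lf 7582337 0 0) (P.cons (P.lf 0 1183032 0) (P.cons (P.lf 0 491471 0) (P.cons (P.lf 72778 0 0) P.nil)))) (P.cons (P.cons (P.lf 135621 0 0) (P.cons (P.lf 0 57125 0) (P.cons (P.lf 0 21056 0) P.nil))) (P.cons (P.cons (P.lf 0 15425 0) (P.cons (P.lf 1448 0 0) P.nil)) (P.cons (P.cons (P.lf 0 188 0) P.nil) P.nil)))))) 168530)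
 EL.nil)
noncomputable def S212_219_216_364_30 : EL := (EL.cons 13 (TM.mk (P.cons (P.lf 1317728968 0 0) (P.cons (P.lf 0 106968568 0) (P.cons (P.lf 0 859412 0) (P.cons (P.lf 19728 0 0) (P.cons (P.lf 296 0 0) (P.cons (P.lf 0 0 0) P.nil)))))) 40)
 EL.nil)
noncomputable def S212_219_216_364_31 : EL := (EL.cons 13 (TM.mk (P.cons (P.cons (P.lf 808635824 0 0) (P.cons (P.lf 0 103230075 0) (P.cons (P.lf 0 44513972 0) (P.lf 4945996 0 0)))) (P.cons (P.cons (P.lf 0 54147980 0) (P.cons (P.lf 5027375 0 0) (P.cons (P.lf 2167861 0 0) (P.lf 0 240873 0)))) (P.cons (P.cons (P.lf 0 3437586 0) (P.cons (P.lf 430457 0 0) (P.cons (P.lf 185618 0 0) (P.lf 0 20623 0)))) (P.cons (P.cons (P.lf 159307 0 0) (P.cons (P.lf 0 2695 0) (P.cons (P.lf 0 1162 0) P.nil))) (P.cons (P.cons (P.lf 3635 0 0) (P.cons (P.lf 0 488 0) P.nil)) (P.cons (P.cons (P.lf 0 135 0) P.nil) P.nil)))))) 1204)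
 EL.nil)
noncomputable def S212_219_216_364_32 : EL := (EL.cons 13 (TM.mk (P.cons (P.cons (P.lf 496226395 0 0) (P.cons (P.lf 0 126696064 0) (P.cons (P.lf 0 46545790 0) (P.cons (P.lf 13044701 0 0) (P.cons (P.lf 728786 0 0) (P.cons (P.lf 0 334159 0) P.nil)))))) (P.cons (P.cons (P.lf 0 26174856 0) (P.cons (P.lf 4369286 0 0) (P.cons (P.lf 1752875 0 0) (P.cons (P.lf 0 322502 0) (P.cons (P.lf 0 11824 0) P.nil))))) (P.cons (P.cons (P.lf 0 3795113 0) (P.cons (P.lf 925788 0 0) (P.cons (P.lf 345570 0 0) (P.cons (P.lf 0 90616 0) P.nil)))) (P.cons (P.cons (P.lf 145461 0 0) (P.cons (P.lf 0 9976 0) (P.cons (P.lf 0 5156 0) P.nil))) (P.cons (P.cons (P.lf 9950 0 0) (P.cons (P.lf 0 2220 0) P.nil)) (P.cons (P.cons (P.lf 0 331 0) P.nil) P.nil)))))) 90942)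
 EL.nil)
noncomputable def S212_219_216_364_33 : EL := (EL.cons 14 (TM.mk (P.lf 8589934592 0 0) 0)
 EL.nil)
noncomputable def S212_219_216_364_34 : EL := (EL.cons 14 (TM.mk (P.cons (P.cons (P.lf 5271287956 0 0) (P.cons (P.lf 0 672930184 0) (P.cons (P.lf 0 290175080 0) (P.lf 32241672 0 0)))) (P.cons (P.cons (P.lf 74927784 0 0) (P.cons (P.lf 0 21853928 0) (P.cons (P.lf 0 9423656 0) (P.lf 1047072 0 0)))) (P.cons (P.cons (P.lf 0 12888476 0) (P.cons (P.lf 593136 0 0) (P.cons (P.lf 255768 0 0) (P.lf 0 28416 0)))) (P.cons (P.cons (P.lf 0 37804 0) (P.cons (P.lf 26400 0 0) (P.cons (P.lf 11384 0 0) P.nil))) (P.cons (P.cons (P.lf 9918 0 0) (P.cons (P.lf 0 176 0) P.nil)) (P.cons (P.cons (P.lf 74 0 0) P.nil) P.nil)))))) 2446)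
 EL.nil)
noncomputable def S212_219_216_364_35 : EL := (EL.cons 14 (TM.mk (P.cons (P.cons (P.lf 3234771628 0 0) (P.cons (P.lf 0 825898902 0) (P.cons (P.lf 0 303419978 0) (P.cons (P.lf 85035038 0 0) (P.cons (P.lf 4750768 0 0) (P.cons (P.lf 0 2178300 0) P.nil)))))) (P.cons (P.cons (P.lf 91960170 0 0) (P.cons (P.lf 0 38561298 0) (P.cons (P.lf 0 13204014 0) (P.cons (P.lf 4800534 0 0) (P.cons (P.lf 308568 0 0) P.nil))))) (P.cons (P.cons (P.lf 0 15164674 0) (P.cons (P.lf 2366064 0 0) (P.cons (P.lf 982942 0 0) (P.cons (P.lf 0 145556 0) P.nil)))) (P.cons (P.cons (P.lf 0 271242 0) (P.cons (P.lf 114250 0 0) (P.cons (P.lf 42112 0 0) P.nil))) (P.cons (P.cons (P.lf 30850 0 0) (P.cons (P.lf 0 2896 0) P.nil)) (P.cons (P.cons (P.lf 376 0 0) P.nil) P.nil)))))) 337060)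
 EL.nil)
noncomputable def S212_219_216_364_36 : EL := (EL.cons 14 (TM.mk (P.cons (P.lf 0 2635457936 0) (P.cons (P.lf 213937136 0 0) (P.cons (P.lf 1718824 0 0) (P.cons (P.lf 0 39456 0) (P.cons (P.lf 0 592 0) (P.cons (P.lf 0 0 0) P.nil)))))) 80)
 EL.nil)
noncomputable def S212_219_216_364_37 : EL := (EL.cons 14 (TM.mk (P.cons (P.cons (P.lf 0 1617271648 0) (P.cons (P.lf 206460150 0 0) (P.cons (P.lf 89027944 0 0) (P.lf 0 9891992 0)))) (P.cons (P.cons (P.lf 108295960 0 0) (P.cons (P.lf 0 10054750 0) (P.cons (P.lf 0 4335722 0) (P.lf 481746 0 0)))) (P.cons (P.cons (P.lf 6875172 0 0) (P.cons (P.lf 0 860914 0) (P.cons (P.lf 0 371236 0) (P.lf 41246 0 0)))) (P.cons (P.cons (P.lf 0 318614 0) (P.cons (P.lf 5390 0 0) (P.cons (P.lf 2324 0 0) P.nil))) (P.cons (P.cons (P.lf 0 7270 0) (P.cons (P.lf 976 0 0) P.nil)) (P.cons (P.cons (P.lf 270 0 0) P.nil) P.nil)))))) 2408)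
 EL.nil)
noncomputable def S212_219_216_364_38 : EL := (EL.cons 14 (TM.mk (P.cons (P.cons (P.lf 0 992452790 0) (P.cons (P.lf 253392128 0 0) (P.cons (P.lf 93091580 0 0) (P.cons (P.lf 0 26089402 0) (P.cons (P.lf 0 1457572 0) (P.cons (P.lf 668318 0 0) P.nil)))))) (P.cons (P.cons (P.lf 52349712 0 0) (P.cons (P.lf 0 8738572 0) (P.cons (P.lf 0 3505750 0) (P.cons (P.lf 645004 0 0) (P.cons (P.lf 23648 0 0) P.nil))))) (P.cons (P.cons (P.lf 7590226 0 0) (P.cons (P.lf 0 1851576 0) (P.cons (P.lf 0 691140 0) (P.cons (P.lf 181232 0 0) P.nil)))) (P.cons (P.cons (P.lf 0 290922 0) (P.cons (P.lf 19952 0 0) (P.cons (P.lf 10312 0 0) P.nil))) (P.cons (P.cons (P.lf 0 19900 0) (P.cons (P.lf 4440 0 0) P.nil)) (P.cons (P.cons (P.lf 662 0 0) P.nil) P.nil)))))) 181884)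
 EL.nil)
noncomputable def S212_219_216_364_39 : EL := (EL.cons 14 (TM.mk (P.cons (P.lf 808578744 0 0) (P.cons (P.lf 0 131275114 0) (P.cons (P.lf 4273526 0 0) (P.cons (P.lf 109826 0 0) (P.cons (P.lf 0 1258 0) (P.cons (P.lf 0 44 0) P.nil)))))) 66)
 EL.nil)
noncomputable def S212_219_216_364_40 : EL := (EL.cons 14 (TM.mk (P.cons (P.cons (P.lf 496191366 0 0) (P.cons (P.lf 0 63343560 0) (P.cons (P.lf 0 27314456 0) (P.lf 3034938 0 0)))) (P.cons (P.cons (P.lf 0 73505088 0) (P.cons (P.lf 8226880 0 0) (P.cons (P.lf 3547522 0 0) (P.lf 0 394168 0)))) (P.cons (P.cons (P.lf 264202 0 0) (P.cons (P.lf 55028 0 0) (P.cons (P.lf 23728 0 0) (P.lf 0 2636 0)))) (P.cons (P.cons (P.lf 298080 0 0) (P.cons (P.lf 0 26054 0) (P.cons (P.lf 0 11234 0) P.nil))) (P.cons (P.cons (P.lf 0 4714 0) (P.cons (P.lf 0 304 0) P.nil)) (P.cons (P.cons (P.lf 0 366 0) P.nil) P.nil)))))) 2272)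
 EL.nil)
noncomputable def S212_219_216_364_41 : EL := (EL.cons 14 (TM.mk (P.cons (P.cons (P.lf 304492140 0 0) (P.cons (P.lf 0 77742652 0) (P.cons (P.lf 0 28561212 0) (P.cons (P.lf 8004428 0 0) (P.cons (P.lf 447194 0 0) (P.cons (P.lf 0 205044 0) P.nil)))))) (P.cons (P.cons (P.lf 0 40778886 0) (P.cons (P.lf 8991934 0 0) (P.cons (P.lf 3394088 0 0) (P.cons (P.lf 0 847662 0) (P.cons (P.lf 0 43556 0) P.nil))))) (P.cons (P.cons (P.lf 0 1223528 0) (P.cons (P.lf 401142 0 0) (P.cons (P.lf 143362 0 0) (P.cons (P.lf 0 44758 0) P.nil)))) (P.cons (P.cons (P.lf 293328 0 0) (P.cons (P.lf 0 55148 0) (P.cons (P.lf 0 21506 0) P.nil))) (P.cons (P.cons (P.lf 206 0 0) (P.cons (P.lf 0 1212 0) P.nil)) (P.cons (P.cons (P.lf 0 794 0) P.nil) P.nil)))))) 86234)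
 EL.nil)
noncomputable def S212_219_216_364_42 : EL := (EL.cons 14 (TM.mk (P.cons (P.lf 0 248078170 0) (P.cons (P.lf 60414320 0 0) (P.cons (P.lf 0 4418836 0) (P.cons (P.lf 42756 0 0) (P.cons (P.lf 4522 0 0) (P.cons (P.lf 0 6 0) P.nil)))))) 46)
 EL.nil)
noncomputable def S212_219_216_364_43 : EL := (EL.cons 14 (TM.mk (P.cons (P.cons (P.lf 0 152235322 0) (P.cons (P.lf 19434290 0 0) (P.cons (P.lf 8380284 0 0) (P.lf 0 931142 0)))) (P.cons (P.cons (P.lf 34909850 0 0) (P.cons (P.lf 0 4101676 0) (P.cons (P.lf 0 1768688 0) (P.lf 196520 0 0)))) (P.cons (P.cons (P.lf 0 1812458 0) (P.cons (P.lf 175336 0 0) (P.cons (P.lf 75606 0 0) (P.lf 0 8400 0)))) (P.cons (P.cons (P.lf 0 101860 0) (P.cons (P.lf 11300 0 0) (P.cons (P.lf 4872 0 0) P.nil))) (P.cons (P.cons (P.lf 9224 0 0) (P.cons (P.lf 0 576 0) P.nil)) (P.cons (P.cons (P.lf 58 0 0) P.nil) P.nil)))))) 1564)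
 EL.nil)
noncomputable def S212_219_216_364_44 : EL := (EL.cons 14 (TM.mk (P.cons (P.cons (P.lf 0 93420528 0) (P.cons (P.lf 23852042 0 0) (P.cons (P.lf 8762798 0 0) (P.cons (P.lf 0 2455820 0) (P.cons (P.lf 0 137202 0) (P.cons (P.lf 62908 0 0) P.nil)))))) (P.cons (P.cons (P.lf 20094822 0 0) (P.cons (P.lf 0 4695018 0) (P.cons (P.lf 0 1752664 0) (P.cons (P.lf 459424 0 0) (P.cons (P.lf 24500 0 0) P.nil))))) (P.cons (P.cons (P.lf 0 579304 0) (P.cons (P.lf 85318 0 0) (P.cons (P.lf 34832 0 0) (P.cons (P.lf 0 5776 0) P.nil)))) (P.cons (P.cons (P.lf 0 130026 0) (P.cons (P.lf 29066 0 0) (P.cons (P.lf 10978 0 0) P.nil))) (P.cons (P.cons (P.lf 7162 0 0) (P.cons (P.lf 0 956 0) P.nil)) (P.cons (P.cons (P.lf 316 0 0) P.nil) P.nil)))))) 38870)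
 EL.nil)
noncomputable def S212_219_216_364_45 : EL := (EL.cons 14 (TM.mk (P.cons (P.cons (P.lf 1985045698 0 0) (P.cons (P.lf 0 760230048 0) (P.cons (P.lf 0 230769148 0) (P.cons (P.lf 115993240 0 0) (P.cons (P.lf 3403584 0 0) (P.cons (P.lf 0 5720322 0) P.nil)))))) (P.cons (P.cons (P.lf 84648234 0 0) (P.cons (P.lf 0 46301366 0) (P.cons (P.lf 0 12282570 0) (P.cons (P.lf 8442122 0 0) (P.cons (P.lf 171884 0 0) P.nil))))) (P.cons (P.cons (P.lf 0 13357292 0) (P.cons (P.lf 3532180 0 0) (P.cons (P.lf 1306698 0 0) (P.cons (P.lf 0 358022 0) P.nil)))) (P.cons (P.cons (P.lf 0 450942 0) (P.cons (P.lf 228362 0 0) (P.cons (P.lf 68216 0 0) P.nil))) (P.cons (P.cons (P.lf 42648 0 0) (P.cons (P.lf 0 7672 0) P.nil)) (P.cons (P.cons (P.lf 1106 0 0) P.nil) P.nil)))))) 1632826)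
 EL.nil)
noncomputable def S212_219_216_364_46 : EL := (EL.cons 15 (TM.mk (P.lf 4294967296 0 0) 0)
 EL.nil)
noncomputable def S212_219_216_364_47 : EL := (EL.cons 15 (TM.mk (P.cons (P.cons (P.lf 2635643978 0 0) (P.cons (P.lf 0 336465092 0) (P.cons (P.lf 0 145087540 0) (P.lf 16120836 0 0)))) (P.cons (P.cons (P.lf 37463892 0 0) (P.cons (P.lf 0 10926964 0) (P.cons (P.lf 0 4711828 0) (P.lf 523536 0 0)))) (P.cons (P.cons (P.lf 0 6444238 0) (P.cons (P.lf 296568 0 0) (P.cons (P.lf 127884 0 0) (P.lf 0 14208 0)))) (P.cons (P.cons (P.lf 0 18902 0) (P.cons (P.lf 13200 0 0) (P.cons (P.lf 5692 0 0) P.nil))) (P.cons (P.cons (P.lf 4959 0 0) (P.cons (P.lf 0 88 0) P.nil)) (P.cons (P.cons (P.lf 37 0 0) P.nil) P.nil)))))) 1223)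
 EL.nil)
noncomputable def S212_219_216_364_48 : EL := (EL.cons 15 (TM.mk (P.cons (P.cons (P.lf 1617385814 0 0) (P.cons (P.lf 0 412949451 0) (P.cons (P.lf 0 151709989 0) (P.cons (P.lf 42517519 0 0) (P.cons (P.lf 2375384 0 0) (P.cons (P.lf 0 1089150 0) P.nil)))))) (P.cons (P.cons (P.lf 45980085 0 0) (P.cons (P.lf 0 19280649 0) (P.cons (P.lf 0 6602007 0) (P.cons (P.lf 2400267 0 0) (P.cons (P.lf 154284 0 0) P.nil))))) (P.cons (P.cons (P.lf 0 7582337 0) (P.cons (P.lf 1183032 0 0) (P.cons (P.lf 491471 0 0) (P.cons (P.lf 0 72778 0) P.nil)))) (P.cons (P.cons (P.lf 0 135621 0) (P.cons (P.lf 57125 0 0) (P.cons (P.lf 21056 0 0) P.nil))) (P.cons (P.cons (P.lf 15425 0 0) (P.cons (P.lf 0 1448 0) P.nil)) (P.cons (P.cons (P.lf 188 0 0) P.nil) P.nil)))))) 168530)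
 EL.nil)
noncomputable def S212_219_216_364 : SL := (SL.cons S212_219_216_364_0 (SL.cons S212_219_216_364_1 (SL.cons S212_219_216_364_2 (SL.cons S212_219_216_364_3 (SL.cons S212_219_216_364_4 (SL.cons S212_219_216_364_5 (SL.cons S212_219_216_364_6 (SL.cons S212_219_216_364_7 (SL.cons S212_219_216_364_8 (SL.cons S212_219_216_364_9 (SL.cons S212_219_216_364_10 (SL.cons S212_219_216_364_11 (SL.cons S212_219_216_364_12 (SL.cons S212_219_216_364_13 (SL.cons S212_219_216_364_14 (SL.cons S212_219_216_364_15 (SL.cons S212_219_216_364_16 (SL.cons S212_219_216_364_17 (SL.cons S212_219_216_364_18 (SL.cons S212_219_216_364_19 (SL.cons S212_219_216_364_20 (SL.cons S212_219_216_364_21 (SL.cons S212_219_216_364_22 (SL.cons S212_219_216_364_23 (SL.cons S212_219_216_364_24 (SL.cons S212_219_216_364_25 (SL.cons S212_219_216_364_26 (SL.cons S212_219_216_364_27 (SL.cons S212_219_216_364_28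 (SL.cons S212_219_216_364_29 (SL.cons S212_219_216_364_30 (SL.cons S212_219_216_364_31 (SL.cons S212_219_216_364_32 (SL.cons S212_219_216_364_33 (SL.cons S212_219_216_364_34 (SL.cons S212_219_216_364_35 (SL.cons S212_219_216_364_36 (SL.cons S212_219_216_364_37 (SL.cons S212_219_216_364_38 (SL.cons S212_219_216_364_39 (SL.cons S212_219_216_364_40 (SL.cons S212_219_216_364_41 (SL.cons S212_219_216_364_42 (SL.cons S212_219_216_364_43 (SL.cons S212_219_216_364_44 (SL.cons S212_219_216_364_45 (SL.cons S212_219_216_364_46 (SL.cons S212_219_216_364_47 (SL.cons S212_219_216_364_48 SL.nil)))))))))))))))))))))))))))))))))))))))))))))))))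
theorem S198_256_512_586_ok : band (seq (shp 5 198 256 512 586) S198_256_512_586) (sok S198_256_512_586) = true := by decide +kernel

theorem S198_256_512_660_ok : band (seq (shp 5 198 256 512 660) S198_256_512_660) (sok S198_256_512_660) = true := by decide +kernel

theorem S198_256_586_660_ok : band (seq (shp 5 198 256 586 660) S198_256_586_660) (sok S198_256_586_660) = true := by decide +kernel

theorem S198_256_660_808_ok : band (seq (shp 5 198 256 660 808) S198_256_660_808) (sok S198_256_660_808) = true := by decide +kernel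

theorem S205_212_364_512_ok : band (seq (shp 5 205 212 364 512) S205_212_364_512) (sok S205_212_364_512) = true := by decide +kernel

theorem S212_219_216_364_ok : band (seq (shp 5 212 219 216 364) S212_219_216_364) (sok S212_219_216_364) = true := by decide +kernel

end Vale.Agent.P098.Ck
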