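import Vale.Agent.P098.CkDefs

namespace Vale.Agent.P098.Ck

noncomputable def S111_140_660_808_0 : EL := (EL.cons 0 (TM.mk (P.cons (P.lf 3984603821 0 0) (P.cons (P.lf 506360443 0 0) (P.cons (P.lf 40320479 0 0) (P.cons (P.lf 0 1649728 0) (P.cons (P.lf 0 335571 0) (P.cons (P.lf 0 13014 0) P.nil)))))) 1861)
 (EL.cons 1 (TM.mk (P.cons (P.lf 0 1579171841 0) (P.cons (P.lf 0 165450982 0) (P.cons (P.lf 24357408 0 0) (P.cons (P.lf 2583976 0 0) (P.cons (P.lf 21706 0 0) (P.cons (P.lf 0 11396 0) P.nil)))))) 1057)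
 (EL.cons 5 (TM.mk (P.cons (P.lf 5884696382 0 0) (P.cons (P.lf 0 180039266 0) (P.cons (P.lf 0 14336174 0) (P.cons (P.lf 586566 0 0) (P.cons (P.lf 119316 0 0) (P.cons (P.lf 4630 0 0) P.nil)))))) 385)
 (EL.cons 9 (TM.mk (P.lf 6442450944 0 0) 2)
 EL.nil))))
noncomputable def S111_140_660_808_1 : EL := (EL.cons 0 (TM.mk (P.cons (P.cons (P.lf 0 3562121939 0) (P.cons (P.lf 117964743 0 0) (P.cons (P.lf 0 50867716 0) (P.lf 0 5651954 0)))) (P.cons (P.cons (P.lf 111341360 0 0) (P.cons (P.lf 31776583 0 0) (P.cons (P.lf 0 13702413 0) (P.lf 0 1522476 0)))) (P.cons (P.cons (P.lf 186131984 0 0) (P.cons (P.lf 0 5130140 0) (P.cons (P.lf 2212177 0 0) (P.lf 245813 0 0)))) (P.cons (P.cons (P.lf 10723308 0 0) (P.cons (P.lf 0 2561604 0) (P.cons (P.lf 1104591 0 0) P.nil))) (P.cons (P.cons (P.lf 0 3994533 0) (P.cons (P.lf 0 232188 0) P.nil)) (P.cons (P.cons (P.lf 0 499510 0) P.nil) P.nil))))))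 673868)
 (EL.cons 1 (TM.mk (P.cons (P.cons (P.lf 1260175455 0 0) (P.cons (P.lf 0 35076096 0) (P.cons (P.lf 15125214 0 0) (P.lf 1680583 0 0)))) (P.cons (P.cons (P.lf 0 381113046 0) (P.cons (P.lf 16173996 0 0) (P.cons (P.lf 0 6974406 0) (P.lf 0 774924 0)))) (P.cons (P.cons (P.lf 0 52274250 0) (P.cons (P.lf 8775219 0 0) (P.cons (P.lf 0 3783966 0) (P.lf 0 420431 0)))) (P.cons (P.cons (P.lf 18471540 0 0) (P.cons (P.lf 653854 0 0) (P.cons (P.lf 0 281944 0) P.nil))) (P.cons (P.cons (P.lf 2122470 0 0) (P.cons (P.lf 0 142352 0) P.nil)) (P.cons (P.cons (P.lf 0 160333 0) P.nil) P.nil)))))) 306460)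
 (EL.cons 5 (TM.mk (P.cons (P.cons (P.lf 0 1268983613 0) (P.cons (P.lf 0 133292824 0) (P.cons (P.lf 57477366 0 0) (P.lf 6386368 0 0)))) (P.cons (P.cons (P.lf 534566448 0 0) (P.cons (P.lf 0 55528956 0) (P.cons (P.lf 23944706 0 0) (P.lf 2660516 0 0)))) (P.cons (P.cons (P.lf 0 77169800 0) (P.cons (P.lf 0 5267280 0) (P.cons (P.lf 2271310 0 0) (P.lf 252360 0 0)))) (P.cons (P.cons (P.lf 0 14590590 0) (P.cons (P.lf 678484 0 0) (P.cons (P.lf 0 292566 0) P.nil))) (P.cons (P.cons (P.lf 898301 0 0) (P.cons (P.lf 135120 0 0) P.nil)) (P.cons (P.cons (P.lf 228365 0 0) P.nil) P.nil)))))) 218940)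
 (EL.cons 9 (TM.mk (P.cons (P.cons (P.lf 0 2237219865 0) (P.cons (P.lf 0 80602764 0) (P.cons (P.lf 34756818 0 0) (P.lf 3861864 0 0)))) (P.cons (P.cons (P.lf 506606904 0 0) (P.cons (P.lf 0 39027006 0) (P.cons (P.lf 16828884 0 0) (P.lf 1869870 0 0)))) (P.cons (P.cons (P.lf 0 9696658 0) (P.cons (P.lf 0 6257052 0) (P.cons (P.lf 2698110 0 0) (P.lf 299784 0 0)))) (P.cons (P.cons (P.lf 0 9509866 0) (P.cons (P.lf 0 204978 0) (P.cons (P.lf 88386 0 0) P.nil))) (P.cons (P.cons (P.lf 0 460558 0) (P.cons (P.lf 46380 0 0) P.nil)) (P.cons (P.cons (P.lf 44787 0 0) P.nil) P.nil)))))) 61748)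
 (EL.cons 2 (TM.mk (P.cons (P.cons (P.lf 238424312 0 0) (P.cons (P.lf 0 222114304 0) (P.cons (P.lf 0 22796150 0) (P.cons (P.lf 4740963 0 0) (P.lf 395077 0 0))))) (P.cons (P.cons (P.lf 63460735 0 0) (P.cons (P.lf 0 59119545 0) (P.cons (P.lf 0 6067586 0) (P.cons (P.lf 1261887 0 0) (P.lf 105153 0 0))))) (P.cons (P.cons (P.lf 312986 0 0) (P.cons (P.lf 0 291574 0) (P.cons (P.lf 0 29922 0) (P.cons (P.lf 6221 0 0) P.nil)))) (P.cons (P.cons (P.lf 0 1106701 0) (P.cons (P.lf 1030995 0 0) (P.cons (P.lf 105811 0 0) P.nil))) (P.cons (P.cons (P.lf 0 84389 0) (P.cons (P.lf 78615 0 0) P.nil)) (P.cons (P.cons (P.lf 2438 0 0) P.nil) P.nil)))))) 68016)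
 (EL.cons 6 (TM.mk (P.cons (P.cons (P.lf 84210117 0 0) (P.cons (P.lf 0 78449517 0) (P.cons (P.lf 0 8051469 0) (P.cons (P.lf 1674480 0 0) (P.lf 139539 0 0))))) (P.cons (P.cons (P.lf 40773654 0 0) (P.cons (P.lf 0 37984431 0) (P.cons (P.lf 0 3898437 0) (P.cons (P.lf 810765 0 0) (P.lf 67563 0 0))))) (P.cons (P.cons (P.lf 6537087 0 0) (P.cons (P.lf 0 6089901 0) (P.cons (P.lf 0 625020 0) (P.cons (P.lf 129984 0 0) P.nil)))) (P.cons (P.cons (P.lf 214152 0 0) (P.cons (P.lf 0 199503 0) (P.cons (P.lf 0 20475 0) P.nil))) (P.cons (P.cons (P.lf 0 48456 0) (P.cons (P.lf 45141 0 0) P.nil)) (P.cons (P.cons (P.lf 0 5385 0) P.nil) P.nil)))))) 33423)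
 EL.nil))))))
noncomputable def S111_140_660_808_2 : EL := (EL.cons 0 (TM.mk (P.cons (P.cons (P.lf 1993473220 0 0) (P.cons (P.lf 0 27420127 0) (P.cons (P.lf 8248390 0 0) (P.cons (P.lf 4397313 0 0) (P.cons (P.lf 0 322208 0) (P.cons (P.lf 0 147736 0) P.nil)))))) (P.cons (P.cons (P.lf 0 480995095 0) (P.cons (P.lf 23530043 0 0) (P.cons (P.lf 0 13054005 0) (P.cons (P.lf 1380177 0 0) (P.cons (P.lf 0 262021 0) P.nil))))) (P.cons (P.cons (P.lf 0 107051640 0) (P.cons (P.lf 8592195 0 0) (P.cons (P.lf 0 4516938 0) (P.cons (P.lf 288509 0 0) P.nil)))) (P.cons (P.cons (P.lf 27605511 0 0) (P.cons (P.lf 0 1638087 0) (P.cons (P.lf 676579 0 0) P.nil))) (P.cons (P.cons (P.lf 4058862 0 0) (P.cons (P.lf 0 782375 0) P.nil)) (P.cons (P.cons (P.lf 0 827551 0) P.nil) P.nil)))))) 3587244)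
 (EL.cons 1 (TM.mk (P.cons (P.cons (P.lf 0 684788672 0) (P.cons (P.lf 6550557 0 0) (P.cons (P.lf 0 1699800 0) (P.cons (P.lf 0 1283976 0) (P.cons (P.lf 101370 0 0) (P.cons (P.lf 46484 0 0) P.nil)))))) (P.cons (P.cons (P.lf 396588306 0 0) (P.cons (P.lf 0 17506678 0) (P.cons (P.lf 7834600 0 0) (P.cons (P.lf 592533 0 0) (P.cons (P.lf 25737 0 0) P.nil))))) (P.cons (P.cons (P.lf 0 27983480 0) (P.cons (P.lf 0 188622 0) (P.cons (P.lf 0 148469 0) (P.cons (P.lf 207219 0 0) P.nil)))) (P.cons (P.cons (P.lf 0 20163435 0) (P.cons (P.lf 1576072 0 0) (P.cons (P.lf 0 805647 0) P.nil))) (P.cons (P.cons (P.lf 2341511 0 0) (P.cons (P.lf 6870 0 0) P.nil)) (P.cons (P.cons (P.lf 532380 0 0) P.nil) P.nil)))))) 1535191)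
 (EL.cons 5 (TM.mk (P.cons (P.cons (P.lf 171698410 0 0) (P.cons (P.lf 73194047 0 0) (P.cons (P.lf 0 29147927 0) (P.cons (P.lf 0 5588929 0) (P.cons (P.lf 217555 0 0) (P.cons (P.lf 99742 0 0) P.nil)))))) (P.cons (P.cons (P.lf 0 227743856 0) (P.cons (P.lf 7986299 0 0) (P.cons (P.lf 0 1303216 0) (P.cons (P.lf 0 2228701 0) (P.cons (P.lf 192891 0 0) P.nil))))) (P.cons (P.cons (P.lf 90844370 0 0) (P.cons (P.lf 0 4811119 0) (P.cons (P.lf 2808655 0 0) (P.cons (P.lf 0 402548 0) P.nil)))) (P.cons (P.cons (P.lf 0 4058145 0) (P.cons (P.lf 31340 0 0) (P.cons (P.lf 88804 0 0) P.nil))) (P.cons (P.cons (P.lf 0 2759138 0) (P.cons (P.lf 370113 0 0) P.nil)) (P.cons (P.cons (P.lf 209326 0 0) P.nil) P.nil)))))) 1457248)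
 (EL.cons 9 (TM.mk (P.cons (P.cons (P.lf 776901952 0 0) (P.cons (P.lf 55980589 0 0) (P.cons (P.lf 0 23131023 0) (P.cons (P.lf 0 3551857 0) (P.cons (P.lf 90877 0 0) (P.cons (P.lf 41668 0 0) P.nil)))))) (P.cons (P.cons (P.lf 0 351850882 0) (P.cons (P.lf 14428693 0 0) (P.cons (P.lf 0 5245266 0) (P.cons (P.lf 0 1533507 0) (P.cons (P.lf 88005 0 0) P.nil))))) (P.cons (P.cons (P.lf 46571974 0 0) (P.cons (P.lf 0 1549525 0) (P.cons (P.lf 1061157 0 0) (P.cons (P.lf 0 264672 0) P.nil)))) (P.cons (P.cons (P.lf 5079826 0 0) (P.cons (P.lf 0 486252 0) (P.cons (P.lf 290616 0 0) P.nil))) (P.cons (P.cons (P.lf 0 1161166 0) (P.cons (P.lf 81127 0 0) P.nil)) (P.cons (P.cons (P.lf 0 74910 0) P.nil) P.nil)))))) 568058)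
 (EL.cons 2 (TM.mk (P.cons (P.cons (P.lf 0 165591517 0) (P.cons (P.lf 148297871 0 0) (P.cons (P.lf 23962893 0 0) (P.cons (P.lf 0 4833056 0) (P.cons (P.lf 0 905276 0) (P.cons (P.lf 13938 0 0) P.nil)))))) (P.cons (P.cons (P.lf 0 6577683 0) (P.cons (P.lf 1651134 0 0) (P.cons (P.lf 6729609 0 0) (P.cons (P.lf 0 1286595 0) (P.cons (P.lf 0 484284 0) P.nil))))) (P.cons (P.cons (P.lf 9045472 0 0) (P.cons (P.lf 0 9666511 0) (P.cons (P.lf 824776 0 0) (P.cons (P.lf 0 140242 0) P.nil)))) (P.cons (P.cons (P.lf 0 77062 0) (P.cons (P.lf 0 42744 0) (P.cons (P.lf 163462 0 0) P.nil))) (P.cons (P.cons (P.lf 0 337820 0) (P.cons (P.lf 329017 0 0) P.nil)) (P.cons (P.cons (P.lf 0 18315 0) P.nil) P.nil)))))) 649298)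
 (EL.cons 6 (TM.mk (P.cons (P.cons (P.lf 0 58485984 0) (P.cons (P.lf 52377966 0 0) (P.cons (P.lf 8463558 0 0) (P.cons (P.lf 0 1707006 0) (P.cons (P.lf 0 319734 0) (P.cons (P.lf 4920 0 0) P.nil)))))) (P.cons (P.cons (P.lf 0 15074448 0) (P.cons (P.lf 12002730 0 0) (P.cons (P.lf 4222104 0 0) (P.cons (P.lf 0 826584 0) (P.cons (P.lf 0 240756 0) P.nil))))) (P.cons (P.cons (P.lf 1618866 0 0) (P.cons (P.lf 0 2329266 0) (P.cons (P.lf 964272 0 0) (P.cons (P.lf 0 179814 0) P.nil)))) (P.cons (P.cons (P.lf 508008 0 0) (P.cons (P.lf 0 642378 0) (P.cons (P.lf 181902 0 0) P.nil))) (P.cons (P.cons (P.lf 0 84756 0) (P.cons (P.lf 63492 0 0) P.nil)) (P.cons (P.cons (P.lf 0 28476 0) P.nil) P.nil)))))) 362220)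
 EL.nil))))))
noncomputable def S111_140_660_808_3 : EL := (EL.cons 0 (TM.mk (P.cons (P.lf 4471113042 0 0) (P.cons (P.lf 0 506360443 0) (P.cons (P.lf 0 40320479 0) (P.cons (P.lf 1649728 0 0) (P.cons (P.lf 335571 0 0) (P.cons (P.lf 13014 0 0) P.nil)))))) 1861)
 (EL.cons 1 (TM.mk (P.cons (P.lf 1579171841 0 0) (P.cons (P.lf 165450982 0 0) (P.cons (P.lf 0 24357408 0) (P.cons (P.lf 0 2583976 0) (P.cons (P.lf 0 21706 0) (P.cons (P.lf 11396 0 0) P.nil)))))) 1057)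
 (EL.cons 5 (TM.mk (P.cons (P.lf 557754562 0 0) (P.cons (P.lf 180039266 0 0) (P.cons (P.lf 14336174 0 0) (P.cons (P.lf 0 586566 0) (P.cons (P.lf 0 119316 0) (P.cons (P.lf 0 4630 0) P.nil)))))) 378)
 EL.nil)))
noncomputable def S111_140_660_808_4 : EL := (EL.cons 0 (TM.mk (P.cons (P.cons (P.lf 0 1552648674 0) (P.cons (P.lf 0 55938969 0) (P.cons (P.lf 24121511 0 0) (P.lf 2680163 0 0)))) (P.cons (P.cons (P.lf 527429142 0 0) (P.cons (P.lf 0 20749881 0) (P.cons (P.lf 8947582 0 0) (P.lf 994171 0 0)))) (P.cons (P.cons (P.lf 0 32545807 0) (P.cons (P.lf 0 770561 0) (P.cons (P.lf 332274 0 0) (P.lf 36914 0 0)))) (P.cons (P.cons (P.lf 0 9581308 0) (P.cons (P.lf 573143 0 0) (P.cons (P.lf 0 247148 0) P.nil))) (P.cons (P.cons (P.lf 501702 0 0) (P.cons (P.lf 73265 0 0) P.nil)) (P.cons (P.cons (P.lf 146183 0 0) P.nil) P.nil)))))) 141211)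
 (EL.cons 1 (TM.mk (P.cons (P.cons (P.lf 0 548386730 0) (P.cons (P.lf 0 19757326 0) (P.cons (P.lf 8519580 0 0) (P.lf 946618 0 0)))) (P.cons (P.cons (P.lf 66724470 0 0) (P.cons (P.lf 0 11636278 0) (P.cons (P.lf 5017693 0 0) (P.lf 557518 0 0)))) (P.cons (P.cons (P.lf 19091925 0 0) (P.cons (P.lf 0 2231251 0) (P.cons (P.lf 962139 0 0) (P.lf 106901 0 0)))) (P.cons (P.cons (P.lf 0 3598123 0) (P.cons (P.lf 0 31051 0) (P.cons (P.lf 13389 0 0) P.nil))) (P.cons (P.cons (P.lf 0 516112 0) (P.cons (P.lf 45684 0 0) P.nil)) (P.cons (P.cons (P.lf 33328 0 0) P.nil) P.nil)))))) 67676)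
 (EL.cons 5 (TM.mk (P.cons (P.cons (P.lf 0 193687090 0) (P.cons (P.lf 0 6978176 0) (P.cons (P.lf 3009066 0 0) (P.lf 334340 0 0)))) (P.cons (P.cons (P.lf 0 18661392 0) (P.cons (P.lf 0 5631264 0) (P.cons (P.lf 2428264 0 0) (P.lf 269806 0 0)))) (P.cons (P.cons (P.lf 8339620 0 0) (P.cons (P.lf 0 1811706 0) (P.cons (P.lf 781226 0 0) (P.lf 86802 0 0)))) (P.cons (P.cons (P.lf 236732 0 0) (P.cons (P.lf 0 272110 0) (P.cons (P.lf 117336 0 0) P.nil))) (P.cons (P.cons (P.lf 0 331900 0) (P.cons (P.lf 0 10590 0) P.nil)) (P.cons (P.cons (P.lf 0 37046 0) P.nil) P.nil)))))) 37468)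
 EL.nil)))
noncomputable def S111_140_660_808_5 : EL := (EL.cons 0 (TM.mk (P.cons (P.cons (P.lf 539176236 0 0) (P.cons (P.lf 38850980 0 0) (P.cons (P.lf 0 16053115 0) (P.cons (P.lf 0 2465017 0) (P.cons (P.lf 63068 0 0) (P.cons (P.lf 28917 0 0) P.nil)))))) (P.cons (P.cons (P.lf 0 305249895 0) (P.cons (P.lf 5613695 0 0) (P.cons (P.lf 0 1822215 0) (P.cons (P.lf 0 785098 0) (P.cons (P.lf 53933 0 0) P.nil))))) (P.cons (P.cons (P.lf 55113630 0 0) (P.cons (P.lf 0 2559798 0) (P.cons (P.lf 1293482 0 0) (P.cons (P.lf 0 40923 0) P.nil)))) (P.cons (P.cons (P.lf 2266022 0 0) (P.cons (P.lf 0 291640 0) (P.cons (P.lf 145190 0 0) P.nil))) (P.cons (P.cons (P.lf 0 1546224 0) (P.cons (P.lf 110828 0 0) P.nil)) (P.cons (P.cons (P.lf 2650 0 0) P.nil) P.nil)))))) 553277)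
 (EL.cons 1 (TM.mk (P.cons (P.cons (P.lf 190433996 0 0) (P.cons (P.lf 13721945 0 0) (P.cons (P.lf 0 5669868 0) (P.cons (P.lf 0 870630 0) (P.cons (P.lf 22275 0 0) (P.cons (P.lf 10213 0 0) P.nil)))))) (P.cons (P.cons (P.lf 0 66293683 0) (P.cons (P.lf 4974414 0 0) (P.cons (P.lf 0 1879753 0) (P.cons (P.lf 0 467107 0) (P.cons (P.lf 23904 0 0) P.nil))))) (P.cons (P.cons (P.lf 0 557589 0) (P.cons (P.lf 0 220920 0) (P.cons (P.lf 212855 0 0) (P.cons (P.lf 0 90828 0) P.nil)))) (P.cons (P.cons (P.lf 3459858 0 0) (P.cons (P.lf 0 235987 0) (P.cons (P.lf 127595 0 0) P.nil))) (P.cons (P.cons (P.lf 0 191739 0) (P.cons (P.lf 7278 0 0) P.nil)) (P.cons (P.cons (P.lf 0 83506 0) P.nil) P.nil)))))) 227838)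
 (EL.cons 5 (TM.mk (P.cons (P.cons (P.lf 67260210 0 0) (P.cons (P.lf 4846514 0 0) (P.cons (P.lf 0 2002564 0) (P.cons (P.lf 0 307500 0) (P.cons (P.lf 7866 0 0) (P.cons (P.lf 3606 0 0) P.nil)))))) (P.cons (P.cons (P.lf 0 8750330 0) (P.cons (P.lf 2813582 0 0) (P.cons (P.lf 0 1100522 0) (P.cons (P.lf 0 232022 0) (P.cons (P.lf 10158 0 0) P.nil))))) (P.cons (P.cons (P.lf 0 4071964 0) (P.cons (P.lf 393642 0 0) (P.cons (P.lf 0 106186 0) (P.cons (P.lf 0 73672 0) P.nil)))) (P.cons (P.cons (P.lf 887576 0 0) (P.cons (P.lf 0 58388 0) (P.cons (P.lf 45248 0 0) P.nil))) (P.cons (P.cons (P.lf 162712 0 0) (P.cons (P.lf 0 12362 0) P.nil)) (P.cons (P.cons (P.lf 0 25912 0) P.nil) P.nil)))))) 102890)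
 EL.nil)))
noncomputable def S111_140_660_808_6 : EL := (EL.cons 12 (TM.mk (P.lf 8589934592 0 0) 0)
 (EL.cons 3 (TM.mk (P.cons (P.lf 0 3098651666 0) (P.cons (P.lf 175463538 0 0) (P.cons (P.lf 18939693 0 0) (P.cons (P.lf 500812 0 0) (P.cons (P.lf 0 30041 0) (P.cons (P.lf 0 3150 0) P.nil)))))) 205)
 (EL.cons 7 (TM.mk (P.cons (P.lf 0 1094426245 0) (P.cons (P.lf 0 176636564 0) (P.cons (P.lf 189038 0 0) (P.cons (P.lf 544971 0 0) (P.cons (P.lf 29121 0 0) (P.cons (P.lf 0 63 0) P.nil)))))) 165)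
 EL.nil)))
noncomputable def S111_140_660_808_7 : EL := (EL.cons 12 (TM.mk (P.cons (P.cons (P.lf 0 2982959820 0) (P.cons (P.lf 0 107470352 0) (P.cons (P.lf 46342424 0 0) (P.lf 5149152 0 0)))) (P.cons (P.cons (P.lf 675475872 0 0) (P.cons (P.lf 0 52036008 0) (P.cons (P.lf 22438512 0 0) (P.lf 2493160 0 0)))) (P.cons (P.cons (P.lf 0 12928878 0) (P.cons (P.lf 0 8342736 0) (P.cons (P.lf 3597480 0 0) (P.lf 399712 0 0)))) (P.cons (P.cons (P.lf 0 12679822 0) (P.cons (P.lf 0 273304 0) (P.cons (P.lf 117848 0 0) P.nil))) (P.cons (P.cons (P.lf 0 614078 0) (P.cons (P.lf 61840 0 0) P.nil)) (P.cons (P.cons (P.lf 59716 0 0) P.nil) P.nil)))))) 82306)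
 (EL.cons 3 (TM.mk (P.cons (P.cons (P.lf 2585772410 0 0) (P.cons (P.lf 0 77535672 0) (P.cons (P.lf 33434252 0 0) (P.lf 3714910 0 0)))) (P.cons (P.cons (P.lf 0 200983451 0) (P.cons (P.lf 0 33151436 0) (P.cons (P.lf 14295270 0 0) (P.lf 1588356 0 0)))) (P.cons (P.cons (P.lf 0 88281781 0) (P.cons (P.lf 0 3419198 0) (P.cons (P.lf 1474394 0 0) (P.lf 163814 0 0)))) (P.cons (P.cons (P.lf 0 8611094 0) (P.cons (P.lf 385646 0 0) (P.cons (P.lf 0 166296 0) P.nil))) (P.cons (P.cons (P.lf 569278 0 0) (P.cons (P.lf 97884 0 0) P.nil)) (P.cons (P.cons (P.lf 148954 0 0) P.nil) P.nil)))))) 265660)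
 (EL.cons 7 (TM.mk (P.cons (P.cons (P.lf 0 1139767805 0) (P.cons (P.lf 130773622 0 0) (P.cons (P.lf 0 56391061 0) (P.lf 0 6265674 0)))) (P.cons (P.cons (P.lf 202327086 0 0) (P.cons (P.lf 33373071 0 0) (P.cons (P.lf 0 14390844 0) (P.lf 0 1598985 0)))) (P.cons (P.cons (P.lf 66816065 0 0) (P.cons (P.lf 0 195973 0) (P.cons (P.lf 84504 0 0) (P.lf 9388 0 0)))) (P.cons (P.cons (P.lf 0 2276111 0) (P.cons (P.lf 0 563148 0) (P.cons (P.lf 242833 0 0) P.nil))) (P.cons (P.cons (P.lf 0 914535 0) (P.cons (P.lf 0 21615 0) P.nil)) (P.cons (P.cons (P.lf 0 28914 0) P.nil) P.nil)))))) 146784)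
 (EL.cons 10 (TM.mk (P.cons (P.cons (P.lf 0 330474267 0) (P.cons (P.lf 307867353 0 0) (P.cons (P.lf 31597203 0 0) (P.cons (P.lf 0 6571338 0) (P.lf 0 547611 0))))) (P.cons (P.cons (P.lf 0 106674777 0) (P.cons (P.lf 99377424 0 0) (P.cons (P.lf 10199355 0 0) (P.cons (P.lf 0 2121180 0) (P.lf 0 176763 0))))) (P.cons (P.cons (P.lf 0 8494302 0) (P.cons (P.lf 7913229 0 0) (P.cons (P.lf 812154 0 0) (P.cons (P.lf 0 168903 0) P.nil)))) (P.cons (P.cons (P.lf 347544 0 0) (P.cons (P.lf 0 323769 0) (P.cons (P.lf 0 33228 0) P.nil))) (P.cons (P.cons (P.lf 70695 0 0) (P.cons (P.lf 0 65859 0) P.nil)) (P.cons (P.cons (P.lf 2742 0 0) P.nil) P.nil)))))) 33279)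
 EL.nil))))
noncomputable def S111_140_660_808_8 : EL := (EL.cons 12 (TM.mk (P.cons (P.cons (P.lf 1035869270 0 0) (P.cons (P.lf 74640786 0 0) (P.cons (P.lf 0 30841364 0) (P.cons (P.lf 0 4735810 0) (P.cons (P.lf 121170 0 0) (P.cons (P.lf 55558 0 0) P.nil)))))) (P.cons (P.cons (P.lf 0 469134510 0) (P.cons (P.lf 19238258 0 0) (P.cons (P.lf 0 6993688 0) (P.cons (P.lf 0 2044676 0) (P.cons (P.lf 117340 0 0) P.nil))))) (P.cons (P.cons (P.lf 62095966 0 0) (P.cons (P.lf 0 2066034 0) (P.cons (P.lf 1414876 0 0) (P.cons (P.lf 0 352896 0) P.nil)))) (P.cons (P.cons (P.lf 6773102 0 0) (P.cons (P.lf 0 648336 0) (P.cons (P.lf 387488 0 0) P.nil))) (P.cons (P.cons (P.lf 0 1548222 0) (P.cons (P.lf 108170 0 0) P.nil)) (P.cons (P.cons (P.lf 0 99880 0) P.nil) P.nil)))))) 757382)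
 (EL.cons 3 (TM.mk (P.cons (P.cons (P.lf 0 1422212499 0) (P.cons (P.lf 16073418 0 0) (P.cons (P.lf 0 4505875 0) (P.cons (P.lf 0 2861622 0) (P.cons (P.lf 218551 0 0) (P.cons (P.lf 100206 0 0) P.nil)))))) (P.cons (P.cons (P.lf 355865703 0 0) (P.cons (P.lf 0 10053537 0) (P.cons (P.lf 6546342 0 0) (P.cons (P.lf 0 1425248 0) (P.cons (P.lf 199266 0 0) P.nil))))) (P.cons (P.cons (P.lf 51619894 0 0) (P.cons (P.lf 0 4287151 0) (P.cons (P.lf 2645936 0 0) (P.cons (P.lf 0 482171 0) P.nil)))) (P.cons (P.cons (P.lf 0 12783587 0) (P.cons (P.lf 795583 0 0) (P.cons (P.lf 0 216685 0) P.nil))) (P.cons (P.cons (P.lf 0 2063035 0) (P.cons (P.lf 479459 0 0) P.nil)) (P.cons (P.cons (P.lf 313095 0 0) P.nil) P.nil)))))) 1960667)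
 (EL.cons 7 (TM.mk (P.cons (P.cons (P.lf 923574626 0 0) (P.cons (P.lf 0 52795926 0) (P.cons (P.lf 19665239 0 0) (P.cons (P.lf 5203916 0 0) (P.cons (P.lf 0 279450 0) (P.cons (P.lf 0 128128 0) P.nil)))))) (P.cons (P.cons (P.lf 0 358244772 0) (P.cons (P.lf 10120741 0 0) (P.cons (P.lf 0 6590106 0) (P.cons (P.lf 1434783 0 0) (P.cons (P.lf 0 200591 0) P.nil))))) (P.cons (P.cons (P.lf 0 12912316 0) (P.cons (P.lf 3212532 0 0) (P.cons (P.lf 0 1945222 0) (P.cons (P.lf 328990 0 0) P.nil)))) (P.cons (P.cons (P.lf 16929346 0 0) (P.cons (P.lf 0 1329524 0) (P.cons (P.lf 541038 0 0) P.nil))) (P.cons (P.cons (P.lf 0 391382 0) (P.cons (P.lf 0 299778 0) P.nil)) (P.cons (P.cons (P.lf 0 405978 0) P.nil) P.nil)))))) 1176678)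
 (EL.cons 10 (TM.mk (P.cons (P.cons (P.lf 229522458 0 0) (P.cons (P.lf 0 205552146 0) (P.cons (P.lf 0 33214398 0) (P.cons (P.lf 6698982 0 0) (P.cons (P.lf 1254786 0 0) (P.cons (P.lf 0 19320 0) P.nil)))))) (P.cons (P.cons (P.lf 22114062 0 0) (P.cons (P.lf 0 13928148 0) (P.cons (P.lf 0 11208546 0) (P.cons (P.lf 2162658 0 0) (P.cons (P.lf 742314 0 0) P.nil))))) (P.cons (P.cons (P.lf 0 9882588 0) (P.cons (P.lf 11353446 0 0) (P.cons (P.lf 0 1980912 0) (P.cons (P.lf 357792 0 0) P.nil)))) (P.cons (P.cons (P.lf 0 280524 0) (P.cons (P.lf 583794 0 0) (P.cons (P.lf 0 412620 0) P.nil))) (P.cons (P.cons (P.lf 393306 0 0) (P.cons (P.lf 0 353850 0) P.nil)) (P.cons (P.cons (P.lf 43902 0 0) P.nil) P.nil)))))) 935052)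
 EL.nil))))
noncomputable def S111_140_660_808_9 : EL := (EL.cons 3 (TM.mk (P.cons (P.lf 0 3098651666 0) (P.cons (P.lf 175463538 0 0) (P.cons (P.lf 18939693 0 0) (P.cons (P.lf 500812 0 0) (P.cons (P.lf 0 30041 0) (P.cons (P.lf 0 3150 0) P.nil)))))) 205)
 (EL.cons 7 (TM.mk (P.cons (P.lf 0 1094426245 0) (P.cons (P.lf 0 176636564 0) (P.cons (P.lf 189038 0 0) (P.cons (P.lf 544971 0 0) (P.cons (P.lf 29121 0 0) (P.cons (P.lf 0 63 0) P.nil)))))) 165)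
 EL.nil))
noncomputable def S111_140_660_808_10 : EL := (EL.cons 3 (TM.mk (P.cons (P.cons (P.lf 1076044679 0 0) (P.cons (P.lf 38767836 0 0) (P.cons (P.lf 0 16717126 0) (P.lf 0 1857455 0)))) (P.cons (P.cons (P.lf 0 304596629 0) (P.cons (P.lf 16575718 0 0) (P.cons (P.lf 0 7147635 0) (P.lf 0 794178 0)))) (P.cons (P.cons (P.lf 11884505 0 0) (P.cons (P.lf 1709599 0 0) (P.cons (P.lf 0 737197 0) (P.lf 0 81907 0)))) (P.cons (P.cons (P.lf 5625328 0 0) (P.cons (P.lf 0 192823 0) (P.cons (P.lf 83148 0 0) P.nil))) (P.cons (P.cons (P.lf 0 16181 0) (P.cons (P.lf 0 48942 0) P.nil)) (P.cons (P.cons (P.lf 0 64064 0) P.nil) P.nil)))))) 65748)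
 (EL.cons 7 (TM.mk (P.cons (P.cons (P.lf 380052895 0 0) (P.cons (P.lf 13692580 0 0) (P.cons (P.lf 0 5904394 0) (P.lf 0 656043 0)))) (P.cons (P.cons (P.lf 0 24721812 0) (P.cons (P.lf 8839737 0 0) (P.cons (P.lf 0 3811794 0) (P.lf 0 423531 0)))) (P.cons (P.cons (P.lf 0 12308350 0) (P.cons (P.lf 2130593 0 0) (P.cons (P.lf 0 918735 0) (P.lf 0 102080 0)))) (P.cons (P.cons (P.lf 1706986 0 0) (P.cons (P.lf 198411 0 0) (P.cons (P.lf 0 85556 0) P.nil))) (P.cons (P.cons (P.lf 371433 0 0) (P.cons (P.lf 0 6108 0) P.nil)) (P.cons (P.cons (P.lf 6231 0 0) P.nil) P.nil)))))) 29732)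
 EL.nil))
noncomputable def S111_140_660_808_11 : EL := (EL.cons 3 (TM.mk (P.cons (P.cons (P.lf 0 373669671 0) (P.cons (P.lf 0 26925210 0) (P.cons (P.lf 11125421 0 0) (P.cons (P.lf 1708350 0 0) (P.cons (P.lf 0 43709 0) (P.cons (P.lf 0 20040 0) P.nil)))))) (P.cons (P.cons (P.lf 190390473 0 0) (P.cons (P.lf 0 5415165 0) (P.cons (P.lf 1892850 0 0) (P.cons (P.lf 640840 0 0) (P.cons (P.lf 0 39852 0) P.nil))))) (P.cons (P.cons (P.lf 0 29698796 0) (P.cons (P.lf 1302827 0 0) (P.cons (P.lf 0 721246 0) (P.cons (P.lf 75091 0 0) P.nil)))) (P.cons (P.cons (P.lf 0 2148839 0) (P.cons (P.lf 238441 0 0) (P.cons (P.lf 0 128095 0) P.nil))) (P.cons (P.cons (P.lf 802781 0 0) (P.cons (P.lf 0 55957 0) P.nil)) (P.cons (P.cons (P.lf 24219 0 0) P.nil) P.nil)))))) 330937)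
 (EL.cons 7 (TM.mk (P.cons (P.cons (P.lf 0 131978014 0) (P.cons (P.lf 0 9509832 0) (P.cons (P.lf 3929435 0 0) (P.cons (P.lf 603380 0 0) (P.cons (P.lf 0 15438 0) (P.cons (P.lf 0 7078 0) P.nil)))))) (P.cons (P.cons (P.lf 38470692 0 0) (P.cons (P.lf 0 3985961 0) (P.cons (P.lf 1525248 0 0) (P.cons (P.lf 357891 0 0) (P.cons (P.lf 0 17441 0) P.nil))))) (P.cons (P.cons (P.lf 1758182 0 0) (P.cons (P.lf 0 130728 0) (P.cons (P.lf 0 37132 0) (P.cons (P.lf 86902 0 0) P.nil)))) (P.cons (P.cons (P.lf 0 2084444 0) (P.cons (P.lf 130246 0 0) (P.cons (P.lf 0 80574 0) P.nil))) (P.cons (P.cons (P.lf 33094 0 0) (P.cons (P.lf 978 0 0) P.nil)) (P.cons (P.cons (P.lf 47052 0 0) P.nil) P.nil)))))) 137624)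
 EL.nil))
noncomputable def S111_140_660_808_12 : EL := (EL.cons 4 (TM.mk (P.cons (P.lf 3098651666 0 0) (P.cons (P.lf 0 175463538 0) (P.cons (P.lf 0 18939693 0) (P.cons (P.lf 0 500812 0) (P.cons (P.lf 30041 0 0) (P.cons (P.lf 3150 0 0) P.nil)))))) 205)
 (EL.cons 8 (TM.mk (P.cons (P.lf 1094426245 0 0) (P.cons (P.lf 176636564 0 0) (P.cons (P.lf 0 189038 0) (P.cons (P.lf 0 544971 0) (P.cons (P.lf 0 29121 0) (P.cons (P.lf 63 0 0) P.nil)))))) 165)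
 EL.nil))
noncomputable def S111_140_660_808_13 : EL := (EL.cons 4 (TM.mk (P.cons (P.cons (P.lf 0 1076044679 0) (P.cons (P.lf 0 38767836 0) (P.cons (P.lf 16717126 0 0) (P.lf 1857455 0 0)))) (P.cons (P.cons (P.lf 304596629 0 0) (P.cons (P.lf 0 16575718 0) (P.cons (P.lf 7147635 0 0) (P.lf 794178 0 0)))) (P.cons (P.cons (P.lf 0 11884505 0) (P.cons (P.lf 0 1709599 0) (P.cons (P.lf 737197 0 0) (P.lf 81907 0 0)))) (P.cons (P.cons (P.lf 0 5625328 0) (P.cons (P.lf 192823 0 0) (P.cons (P.lf 0 83148 0) P.nil))) (P.cons (P.cons (P.lf 16181 0 0) (P.cons (P.lf 48942 0 0) P.nil)) (P.cons (P.cons (P.lf 64064 0 0) P.nil) P.nil)))))) 65748)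
 (EL.cons 8 (TM.mk (P.cons (P.cons (P.lf 0 380052895 0) (P.cons (P.lf 0 13692580 0) (P.cons (P.lf 5904394 0 0) (P.lf 656043 0 0)))) (P.cons (P.cons (P.lf 24721812 0 0) (P.cons (P.lf 0 8839737 0) (P.cons (P.lf 3811794 0 0) (P.lf 423531 0 0)))) (P.cons (P.cons (P.lf 12308350 0 0) (P.cons (P.lf 0 2130593 0) (P.cons (P.lf 918735 0 0) (P.lf 102080 0 0)))) (P.cons (P.cons (P.lf 0 1706986 0) (P.cons (P.lf 0 198411 0) (P.cons (P.lf 85556 0 0) P.nil))) (P.cons (P.cons (P.lf 0 371433 0) (P.cons (P.lf 6108 0 0) P.nil)) (P.cons (P.cons (P.lf 0 6231 0) P.nil) P.nil)))))) 29732)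
 EL.nil))
noncomputable def S111_140_660_808_14 : EL := (EL.cons 4 (TM.mk (P.cons (P.cons (P.lf 373669671 0 0) (P.cons (P.lf 26925210 0 0) (P.cons (P.lf 0 11125421 0) (P.cons (P.lf 0 1708350 0) (P.cons (P.lf 43709 0 0) (P.cons (P.lf 20040 0 0) P.nil)))))) (P.cons (P.cons (P.lf 0 190390473 0) (P.cons (P.lf 5415165 0 0) (P.cons (P.lf 0 1892850 0) (P.cons (P.lf 0 640840 0) (P.cons (P.lf 39852 0 0) P.nil))))) (P.cons (P.cons (P.lf 29698796 0 0) (P.cons (P.lf 0 1302827 0) (P.cons (P.lf 721246 0 0) (P.cons (P.lf 0 75091 0) P.nil)))) (P.cons (P.cons (P.lf 2148839 0 0) (P.cons (P.lf 0 238441 0) (P.cons (P.lf 128095 0 0) P.nil))) (P.cons (P.cons (P.lf 0 802781 0) (P.cons (P.lf 55957 0 0) P.nil)) (P.cons (P.cons (P.lf 0 24219 0) P.nil) P.nil)))))) 330937)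
 (EL.cons 8 (TM.mk (P.cons (P.cons (P.lf 131978014 0 0) (P.cons (P.lf 9509832 0 0) (P.cons (P.lf 0 3929435 0) (P.cons (P.lf 0 603380 0) (P.cons (P.lf 15438 0 0) (P.cons (P.lf 7078 0 0) P.nil)))))) (P.cons (P.cons (P.lf 0 38470692 0) (P.cons (P.lf 3985961 0 0) (P.cons (P.lf 0 1525248 0) (P.cons (P.lf 0 357891 0) (P.cons (P.lf 17441 0 0) P.nil))))) (P.cons (P.cons (P.lf 0 1758182 0) (P.cons (P.lf 130728 0 0) (P.cons (P.lf 37132 0 0) (P.cons (P.lf 0 86902 0) P.nil)))) (P.cons (P.cons (P.lf 2084444 0 0) (P.cons (P.lf 0 130246 0) (P.cons (P.lf 80574 0 0) P.nil))) (P.cons (P.cons (P.lf 0 33094 0) (P.cons (P.lf 0 978 0) P.nil)) (P.cons (P.cons (P.lf 0 47052 0) P.nil) P.nil)))))) 137624)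
 EL.nil))
noncomputable def S111_140_660_808_15 : EL := (EL.cons 4 (TM.mk (P.cons (P.lf 0 2384593622 0) (P.cons (P.lf 270058903 0 0) (P.cons (P.lf 21504255 0 0) (P.cons (P.lf 0 879855 0) (P.cons (P.lf 0 178971 0) (P.cons (P.lf 0 6941 0) P.nil)))))) 996)
 (EL.cons 8 (TM.mk (P.cons (P.lf 0 842224982 0) (P.cons (P.lf 0 88240524 0) (P.cons (P.lf 12990618 0 0) (P.cons (P.lf 1378121 0 0) (P.cons (P.lf 11577 0 0) (P.cons (P.lf 0 6078 0) P.nil)))))) 560)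
 EL.nil))
noncomputable def S111_140_660_808_16 : EL := (EL.cons 4 (TM.mk (P.cons (P.cons (P.lf 828079292 0 0) (P.cons (P.lf 29834116 0 0) (P.cons (P.lf 0 12864806 0) (P.lf 0 1429420 0)))) (P.cons (P.cons (P.lf 0 281295542 0) (P.cons (P.lf 11066603 0 0) (P.cons (P.lf 0 4772043 0) (P.lf 0 530224 0)))) (P.cons (P.cons (P.lf 17357763 0 0) (P.cons (P.lf 410966 0 0) (P.cons (P.lf 0 177212 0) (P.lf 0 19687 0)))) (P.cons (P.cons (P.lf 5110031 0 0) (P.cons (P.lf 0 305676 0) (P.cons (P.lf 131812 0 0) P.nil))) (P.cons (P.cons (P.lf 0 267574 0) (P.cons (P.lf 0 39075 0) P.nil)) (P.cons (P.cons (P.lf 0 77964 0) P.nil) P.nil)))))) 75321)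
 (EL.cons 8 (TM.mk (P.cons (P.cons (P.lf 292472923 0 0) (P.cons (P.lf 10537241 0 0) (P.cons (P.lf 0 4543776 0) (P.lf 0 504863 0)))) (P.cons (P.cons (P.lf 0 35586384 0) (P.cons (P.lf 6206015 0 0) (P.cons (P.lf 0 2676103 0) (P.lf 0 297343 0)))) (P.cons (P.cons (P.lf 0 10182360 0) (P.cons (P.lf 1190001 0 0) (P.cons (P.lf 0 513141 0) (P.lf 0 57014 0)))) (P.cons (P.cons (P.lf 1918999 0 0) (P.cons (P.lf 16561 0 0) (P.cons (P.lf 0 7141 0) P.nil))) (P.cons (P.cons (P.lf 275260 0 0) (P.cons (P.lf 0 24365 0) P.nil)) (P.cons (P.cons (P.lf 0 17775 0) P.nil) P.nil)))))) 36084)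
 EL.nil))
noncomputable def S111_140_660_808_17 : EL := (EL.cons 4 (TM.mk (P.cons (P.cons (P.lf 0 287560659 0) (P.cons (P.lf 0 20720522 0) (P.cons (P.lf 8561661 0 0) (P.cons (P.lf 1314675 0 0) (P.cons (P.lf 0 33636 0) (P.cons (P.lf 0 15422 0) P.nil)))))) (P.cons (P.cons (P.lf 162799944 0 0) (P.cons (P.lf 0 2993970 0) (P.cons (P.lf 971848 0 0) (P.cons (P.lf 418719 0 0) (P.cons (P.lf 0 28764 0) P.nil))))) (P.cons (P.cons (P.lf 0 29393936 0) (P.cons (P.lf 1365225 0 0) (P.cons (P.lf 0 689857 0) (P.cons (P.lf 21825 0 0) P.nil)))) (P.cons (P.cons (P.lf 0 1208545 0) (P.cons (P.lf 155541 0 0) (P.cons (P.lf 0 77434 0) P.nil))) (P.cons (P.cons (P.lf 824653 0 0) (P.cons (P.lf 0 59108 0) P.nil)) (P.cons (P.cons (P.lf 0 1413 0) P.nil) P.nil)))))) 295091)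
 (EL.cons 8 (TM.mk (P.cons (P.cons (P.lf 0 101564798 0) (P.cons (P.lf 0 7318371 0) (P.cons (P.lf 3023930 0 0) (P.cons (P.lf 464336 0 0) (P.cons (P.lf 0 11880 0) (P.cons (P.lf 0 5447 0) P.nil)))))) (P.cons (P.cons (P.lf 35356631 0 0) (P.cons (P.lf 0 2653021 0) (P.cons (P.lf 1002535 0 0) (P.cons (P.lf 249124 0 0) (P.cons (P.lf 0 12749 0) P.nil))))) (P.cons (P.cons (P.lf 297381 0 0) (P.cons (P.lf 117824 0 0) (P.cons (P.lf 0 113523 0) (P.cons (P.lf 48442 0 0) P.nil)))) (P.cons (P.cons (P.lf 0 1845258 0) (P.cons (P.lf 125860 0 0) (P.cons (P.lf 0 68051 0) P.nil))) (P.cons (P.cons (P.lf 102261 0 0) (P.cons (P.lf 0 3882 0) P.nil)) (P.cons (P.cons (P.lf 44537 0 0) P.nil) P.nil)))))) 121502)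
 EL.nil))
noncomputable def S111_140_660_808_18 : EL := (EL.cons 4 (TM.mk (P.cons (P.lf 1835084209 0 0) (P.cons (P.lf 0 311739172 0) (P.cons (P.lf 0 15996937 0) (P.cons (P.lf 2587877 0 0) (P.cons (P.lf 251917 0 0) (P.cons (P.lf 0 4069 0) P.nil)))))) 2661)
 (EL.cons 8 (TM.mk (P.cons (P.lf 648141365 0 0) (P.cons (P.lf 31204738 0 0) (P.cons (P.lf 0 17803876 0) (P.cons (P.lf 0 1014268 0) (P.cons (P.lf 107557 0 0) (P.cons (P.lf 14597 0 0) P.nil)))))) 1054)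
 EL.nil))
noncomputable def S111_140_660_808_19 : EL := (EL.cons 4 (TM.mk (P.cons (P.cons (P.lf 0 637255429 0) (P.cons (P.lf 0 22959097 0) (P.cons (P.lf 9900220 0 0) (P.lf 1100023 0 0)))) (P.cons (P.cons (P.lf 252558445 0 0) (P.cons (P.lf 0 7216321 0) (P.cons (P.lf 3111759 0 0) (P.lf 345749 0 0)))) (P.cons (P.cons (P.lf 0 21720729 0) (P.cons (P.lf 306315 0 0) (P.cons (P.lf 0 132087 0) (P.lf 0 14677 0)))) (P.cons (P.cons (P.lf 0 4396213 0) (P.cons (P.lf 308910 0 0) (P.cons (P.lf 0 133205 0) P.nil))) (P.cons (P.cons (P.lf 469074 0 0) (P.cons (P.lf 19837 0 0) P.nil)) (P.cons (P.cons (P.lf 75983 0 0) P.nil) P.nil)))))) 81685)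
 (EL.cons 8 (TM.mk (P.cons (P.cons (P.lf 0 225075014 0) (P.cons (P.lf 0 8109023 0) (P.cons (P.lf 3496701 0 0) (P.lf 388521 0 0)))) (P.cons (P.cons (P.lf 40130849 0 0) (P.cons (P.lf 0 4316711 0) (P.cons (P.lf 1861414 0 0) (P.lf 206823 0 0)))) (P.cons (P.cons (P.lf 7660891 0 0) (P.cons (P.lf 0 595773 0) (P.cons (P.lf 256903 0 0) (P.lf 28544 0 0)))) (P.cons (P.cons (P.lf 0 2051508 0) (P.cons (P.lf 69613 0 0) (P.cons (P.lf 0 30018 0) P.nil))) (P.cons (P.cons (P.lf 0 182708 0) (P.cons (P.lf 25763 0 0) P.nil)) (P.cons (P.cons (P.lf 33470 0 0) P.nil) P.nil)))))) 37902)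
 EL.nil))
noncomputable def S111_140_660_808_20 : EL := (EL.cons 4 (TM.mk (P.cons (P.cons (P.lf 221294739 0 0) (P.cons (P.lf 15945653 0 0) (P.cons (P.lf 0 6588699 0) (P.cons (P.lf 0 1011720 0) (P.cons (P.lf 25885 0 0) (P.cons (P.lf 11868 0 0) P.nil)))))) (P.cons (P.cons (P.lf 0 137815060 0) (P.cons (P.lf 1401100 0 0) (P.cons (P.lf 0 374804 0) (P.cons (P.lf 0 264939 0) (P.cons (P.lf 20670 0 0) P.nil))))) (P.cons (P.cons (P.lf 28362054 0 0) (P.cons (P.lf 0 1278553 0) (P.cons (P.lf 613507 0 0) (P.cons (P.lf 7633 0 0) P.nil)))) (P.cons (P.cons (P.lf 379151 0 0) (P.cons (P.lf 0 76866 0) (P.cons (P.lf 35164 0 0) P.nil))) (P.cons (P.cons (P.lf 0 803150 0) (P.cons (P.lf 58469 0 0) P.nil)) (P.cons (P.cons (P.lf 26693 0 0) P.nil) P.nil)))))) 257757)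
 (EL.cons 8 (TM.mk (P.cons (P.cons (P.lf 78160050 0 0) (P.cons (P.lf 5631914 0 0) (P.cons (P.lf 0 2327091 0) (P.cons (P.lf 0 357333 0) (P.cons (P.lf 9142 0 0) (P.cons (P.lf 4191 0 0) P.nil)))))) (P.cons (P.cons (P.lf 0 31634868 0) (P.cons (P.lf 1722743 0 0) (P.cons (P.lf 0 639736 0) (P.cons (P.lf 0 171481 0) (P.cons (P.lf 9293 0 0) P.nil))))) (P.cons (P.cons (P.lf 834145 0 0) (P.cons (P.lf 0 240706 0) (P.cons (P.lf 145274 0 0) (P.cons (P.lf 0 24239 0) P.nil)))) (P.cons (P.cons (P.lf 1586668 0 0) (P.cons (P.lf 0 105111 0) (P.cons (P.lf 52514 0 0) P.nil))) (P.cons (P.cons (P.lf 0 152552 0) (P.cons (P.lf 8751 0 0) P.nil)) (P.cons (P.cons (P.lf 0 38644 0) P.nil) P.nil)))))) 103625)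
 EL.nil))
noncomputable def S111_140_660_808_21 : EL := (EL.cons 4 (TM.mk (P.cons (P.cons (P.lf 0 1509727731 0) (P.cons (P.lf 116303508 0 0) (P.cons (P.lf 0 50151378 0) (P.lf 0 5572365 0)))) (P.cons (P.cons (P.lf 0 103613178 0) (P.cons (P.lf 49727154 0 0) (P.cons (P.lf 0 21442905 0) (P.lf 0 2382534 0)))) (P.cons (P.cons (P.lf 100166286 0 0) (P.cons (P.lf 5128797 0 0) (P.cons (P.lf 0 2211591 0) (P.lf 0 245721 0)))) (P.cons (P.cons (P.lf 14236422 0 0) (P.cons (P.lf 0 578469 0) (P.cons (P.lf 249444 0 0) P.nil))) (P.cons (P.cons (P.lf 0 585459 0) (P.cons (P.lf 0 146826 0) P.nil)) (P.cons (P.cons (P.lf 0 213018 0) P.nil) P.nil)))))) 199893)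
 (EL.cons 8 (TM.mk (P.cons (P.cons (P.lf 1519820700 0 0) (P.cons (P.lf 0 117081042 0) (P.cons (P.lf 50486667 0 0) (P.lf 5609631 0 0)))) (P.cons (P.cons (P.lf 0 227048898 0) (P.cons (P.lf 0 24533334 0) (P.cons (P.lf 10579050 0 0) (P.lf 1175454 0 0)))) (P.cons (P.cons (P.lf 0 79124415 0) (P.cons (P.lf 2326566 0 0) (P.cons (P.lf 0 1003239 0) (P.lf 0 111468 0)))) (P.cons (P.cons (P.lf 3983097 0 0) (P.cons (P.lf 761559 0 0) (P.cons (P.lf 0 328389 0) P.nil))) (P.cons (P.cons (P.lf 1285968 0 0) (P.cons (P.lf 15507 0 0) P.nil)) (P.cons (P.cons (P.lf 35145 0 0) P.nil) P.nil)))))) 117033)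
 (EL.cons 11 (TM.mk (P.cons (P.cons (P.lf 330474267 0 0) (P.cons (P.lf 0 307867353 0) (P.cons (P.lf 0 31597203 0) (P.cons (P.lf 6571338 0 0) (P.lf 547611 0 0))))) (P.cons (P.cons (P.lf 106674777 0 0) (P.cons (P.lf 0 99377424 0) (P.cons (P.lf 0 10199355 0) (P.cons (P.lf 2121180 0 0) (P.lf 176763 0 0))))) (P.cons (P.cons (P.lf 8494302 0 0) (P.cons (P.lf 0 7913229 0) (P.cons (P.lf 0 812154 0) (P.cons (P.lf 168903 0 0) P.nil)))) (P.cons (P.cons (P.lf 0 347544 0) (P.cons (P.lf 323769 0 0) (P.cons (P.lf 33228 0 0) P.nil))) (P.cons (P.cons (P.lf 0 70695 0) (P.cons (P.lf 65859 0 0) P.nil)) (P.cons (P.cons (P.lf 0 2742 0) P.nil) P.nil)))))) 33279)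
 EL.nil)))
noncomputable def S111_140_660_808_22 : EL := (EL.cons 4 (TM.mk (P.cons (P.cons (P.lf 524271414 0 0) (P.cons (P.lf 0 21499314 0) (P.cons (P.lf 7815648 0 0) (P.cons (P.lf 2284986 0 0) (P.cons (P.lf 0 131130 0) (P.cons (P.lf 0 60123 0) P.nil)))))) (P.cons (P.cons (P.lf 0 82737615 0) (P.cons (P.lf 2319186 0 0) (P.cons (P.lf 0 2326746 0) (P.cons (P.lf 1033044 0 0) (P.cons (P.lf 0 119559 0) P.nil))))) (P.cons (P.cons (P.lf 0 40659345 0) (P.cons (P.lf 2794989 0 0) (P.cons (P.lf 0 1683591 0) (P.cons (P.lf 278631 0 0) P.nil)))) (P.cons (P.cons (P.lf 5317374 0 0) (P.cons (P.lf 0 278571 0) (P.cons (P.lf 44295 0 0) P.nil))) (P.cons (P.cons (P.lf 1432908 0 0) (P.cons (P.lf 0 267708 0) P.nil)) (P.cons (P.cons (P.lf 0 144438 0) P.nil) P.nil)))))) 814854)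
 (EL.cons 8 (TM.mk (P.cons (P.cons (P.lf 0 527776320 0) (P.cons (P.lf 21643047 0 0) (P.cons (P.lf 0 7867902 0) (P.cons (P.lf 0 2300268 0) (P.cons (P.lf 132006 0 0) (P.cons (P.lf 60525 0 0) P.nil)))))) (P.cons (P.cons (P.lf 198357732 0 0) (P.cons (P.lf 0 7053351 0) (P.cons (P.lf 4057677 0 0) (P.cons (P.lf 0 538446 0) (P.cons (P.lf 91575 0 0) P.nil))))) (P.cons (P.cons (P.lf 7335249 0 0) (P.cons (P.lf 0 1671630 0) (P.cons (P.lf 954045 0 0) (P.cons (P.lf 0 121044 0) P.nil)))) (P.cons (P.cons (P.lf 0 9506895 0) (P.cons (P.lf 729885 0 0) (P.cons (P.lf 0 310806 0) P.nil))) (P.cons (P.cons (P.lf 212238 0 0) (P.cons (P.lf 150378 0 0) P.nil)) (P.cons (P.cons (P.lf 226515 0 0) P.nil) P.nil)))))) 519516)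
 (EL.cons 11 (TM.mk (P.cons (P.cons (P.lf 0 114761229 0) (P.cons (P.lf 102776073 0 0) (P.cons (P.lf 16607199 0 0) (P.cons (P.lf 0 3349491 0) (P.cons (P.lf 0 627393 0) (P.cons (P.lf 9660 0 0) P.nil)))))) (P.cons (P.cons (P.lf 0 11057031 0) (P.cons (P.lf 6964074 0 0) (P.cons (P.lf 5604273 0 0) (P.cons (P.lf 0 1081329 0) (P.cons (P.lf 0 371157 0) P.nil))))) (P.cons (P.cons (P.lf 4941294 0 0) (P.cons (P.lf 0 5676723 0) (P.cons (P.lf 990456 0 0) (P.cons (P.lf 0 178896 0) P.nil)))) (P.cons (P.cons (P.lf 140262 0 0) (P.cons (P.lf 0 291897 0) (P.cons (P.lf 206310 0 0) P.nil))) (P.cons (P.cons (P.lf 0 196653 0) (P.cons (P.lf 176925 0 0) P.nil)) (P.cons (P.cons (P.lf 0 21951 0) P.nil) P.nil)))))) 467526)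
 EL.nil)))
noncomputable def S111_140_660_808_23 : EL := (EL.cons 4 (TM.mk (P.cons (P.cons (P.lf 1161823755 0 0) (P.cons (P.lf 0 89502348 0) (P.cons (P.lf 38594415 0 0) (P.lf 4288260 0 0)))) (P.cons (P.cons (P.lf 13947231 0 0) (P.cons (P.lf 0 33199812 0) (P.cons (P.lf 14316129 0 0) (P.lf 1590672 0 0)))) (P.cons (P.cons (P.lf 0 88700289 0) (P.cons (P.lf 0 1232895 0) (P.cons (P.lf 531636 0 0) (P.lf 59061 0 0)))) (P.cons (P.cons (P.lf 0 7265973 0) (P.cons (P.lf 917028 0 0) (P.cons (P.lf 0 395433 0) P.nil))) (P.cons (P.cons (P.lf 1540452 0 0) (P.cons (P.lf 117225 0 0) P.nil)) (P.cons (P.cons (P.lf 219792 0 0) P.nil) P.nil)))))) 240873)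
 (EL.cons 8 (TM.mk (P.cons (P.cons (P.lf 0 1169590884 0) (P.cons (P.lf 90100707 0 0) (P.cons (P.lf 0 38852442 0) (P.lf 0 4316937 0)))) (P.cons (P.cons (P.lf 240956385 0 0) (P.cons (P.lf 13777812 0 0) (P.cons (P.lf 0 5941146 0) (P.lf 0 660129 0)))) (P.cons (P.cons (P.lf 58145604 0 0) (P.cons (P.lf 0 3410229 0) (P.cons (P.lf 1470525 0 0) (P.lf 163389 0 0)))) (P.cons (P.cons (P.lf 0 7392159 0) (P.cons (P.lf 0 614640 0) (P.cons (P.lf 265035 0 0) P.nil))) (P.cons (P.cons (P.lf 0 1227813 0) (P.cons (P.lf 30018 0 0) P.nil)) (P.cons (P.cons (P.lf 38391 0 0) P.nil) P.nil)))))) 144597)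
 (EL.cons 11 (TM.mk (P.cons (P.cons (P.lf 0 254319267 0) (P.cons (P.lf 236921925 0 0) (P.cons (P.lf 24315894 0 0) (P.cons (P.lf 0 5057028 0) (P.lf 0 421416 0))))) (P.cons (P.cons (P.lf 0 67691451 0) (P.cons (P.lf 63060849 0 0) (P.cons (P.lf 6472092 0 0) (P.cons (P.lf 0 1346013 0) (P.lf 0 112164 0))))) (P.cons (P.cons (P.lf 0 333852 0) (P.cons (P.lf 311013 0 0) (P.cons (P.lf 31917 0 0) (P.cons (P.lf 0 6636 0) P.nil)))) (P.cons (P.cons (P.lf 1180482 0 0) (P.cons (P.lf 0 1099728 0) (P.cons (P.lf 0 112866 0) P.nil))) (P.cons (P.cons (P.lf 90015 0 0) (P.cons (P.lf 0 83856 0) P.nil)) (P.cons (P.cons (P.lf 0 2601 0) P.nil) P.nil)))))) 72528)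
 EL.nil)))
noncomputable def S111_140_660_808_24 : EL := (EL.cons 4 (TM.mk (P.cons (P.cons (P.lf 0 403457505 0) (P.cons (P.lf 16544979 0 0) (P.cons (P.lf 0 6014598 0) (P.cons (P.lf 0 1758429 0) (P.cons (P.lf 100911 0 0) (P.cons (P.lf 46269 0 0) P.nil)))))) (P.cons (P.cons (P.lf 86517522 0 0) (P.cons (P.lf 0 2721621 0) (P.cons (P.lf 2131149 0 0) (P.cons (P.lf 0 695415 0) (P.cons (P.lf 86292 0 0) P.nil))))) (P.cons (P.cons (P.lf 30150327 0 0) (P.cons (P.lf 0 2150973 0) (P.cons (P.lf 1230993 0 0) (P.cons (P.lf 0 158658 0) P.nil)))) (P.cons (P.cons (P.lf 0 6187803 0) (P.cons (P.lf 344406 0 0) (P.cons (P.lf 0 117423 0) P.nil))) (P.cons (P.cons (P.lf 0 1076445 0) (P.cons (P.lf 207474 0 0) P.nil)) (P.cons (P.cons (P.lf 193755 0 0) P.nil) P.nil)))))) 610245)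
 (EL.cons 8 (TM.mk (P.cons (P.cons (P.lf 406154736 0 0) (P.cons (P.lf 0 16655592 0) (P.cons (P.lf 6054810 0 0) (P.cons (P.lf 1770189 0 0) (P.cons (P.lf 0 101586 0) (P.cons (P.lf 0 46578 0) P.nil)))))) (P.cons (P.cons (P.lf 0 175646697 0) (P.cons (P.lf 6371103 0 0) (P.cons (P.lf 0 3465477 0) (P.cons (P.lf 314127 0 0) (P.cons (P.lf 0 64722 0) P.nil))))) (P.cons (P.cons (P.lf 516384 0 0) (P.cons (P.lf 1080858 0 0) (P.cons (P.lf 0 594381 0) (P.cons (P.lf 58866 0 0) P.nil)))) (P.cons (P.cons (P.lf 8503134 0 0) (P.cons (P.lf 0 665019 0) (P.cons (P.lf 298863 0 0) P.nil))) (P.cons (P.cons (P.lf 0 514497 0) (P.cons (P.lf 0 92820 0) P.nil)) (P.cons (P.cons (P.lf 0 209940 0) P.nil) P.nil)))))) 396426)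
 (EL.cons 11 (TM.mk (P.cons (P.cons (P.lf 88315476 0 0) (P.cons (P.lf 0 79092198 0) (P.cons (P.lf 0 12780210 0) (P.cons (P.lf 2577630 0 0) (P.cons (P.lf 482814 0 0) (P.cons (P.lf 0 7434 0) P.nil)))))) (P.cons (P.cons (P.lf 3508098 0 0) (P.cons (P.lf 0 880605 0) (P.cons (P.lf 0 3589125 0) (P.cons (P.lf 686184 0 0) (P.cons (P.lf 258285 0 0) P.nil))))) (P.cons (P.cons (P.lf 0 4824252 0) (P.cons (P.lf 5155473 0 0) (P.cons (P.lf 0 439881 0) (P.cons (P.lf 74796 0 0) P.nil)))) (P.cons (P.cons (P.lf 41100 0 0) (P.cons (P.lf 22797 0 0) (P.cons (P.lf 0 87180 0) P.nil))) (P.cons (P.cons (P.lf 180171 0 0) (P.cons (P.lf 0 175476 0) P.nil)) (P.cons (P.cons (P.lf 9768 0 0) P.nil) P.nil)))))) 346281)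
 EL.nil)))
noncomputable def S111_140_660_808_25 : EL := (EL.cons 4 (TM.mk (P.cons (P.cons (P.lf 0 894091305 0) (P.cons (P.lf 68877288 0 0) (P.cons (P.lf 0 29700660 0) (P.lf 0 3300066 0)))) (P.cons (P.cons (P.lf 39895398 0 0) (P.cons (P.lf 21648966 0 0) (P.cons (P.lf 0 9335274 0) (P.lf 0 1037247 0)))) (P.cons (P.cons (P.lf 74332731 0 0) (P.cons (P.lf 0 918948 0) (P.cons (P.lf 396264 0 0) (P.lf 44034 0 0)))) (P.cons (P.cons (P.lf 1936422 0 0) (P.cons (P.lf 0 926727 0) (P.cons (P.lf 399615 0 0) P.nil))) (P.cons (P.cons (P.lf 0 1926252 0) (P.cons (P.lf 0 59508 0) P.nil)) (P.cons (P.cons (P.lf 0 148236 0) P.nil) P.nil)))))) 249756)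
 (EL.cons 8 (TM.mk (P.cons (P.cons (P.lf 900068568 0 0) (P.cons (P.lf 0 69337761 0) (P.cons (P.lf 29899224 0 0) (P.lf 3322134 0 0)))) (P.cons (P.cons (P.lf 0 236397102 0) (P.cons (P.lf 0 6676527 0) (P.cons (P.lf 2878992 0 0) (P.lf 319890 0 0)))) (P.cons (P.cons (P.lf 0 39747756 0) (P.cons (P.lf 3648573 0 0) (P.cons (P.lf 0 1573302 0) (P.lf 0 174810 0)))) (P.cons (P.cons (P.lf 9210420 0 0) (P.cons (P.lf 400407 0 0) (P.cons (P.lf 0 172656 0) P.nil))) (P.cons (P.cons (P.lf 934944 0 0) (P.cons (P.lf 0 64884 0) P.nil)) (P.cons (P.cons (P.lf 0 111468 0) P.nil) P.nil)))))) 151374)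
 (EL.cons 11 (TM.mk (P.cons (P.cons (P.lf 195713547 0 0) (P.cons (P.lf 0 182325273 0) (P.cons (P.lf 0 18712500 0) (P.cons (P.lf 3891678 0 0) (P.lf 324306 0 0))))) (P.cons (P.cons (P.lf 41010099 0 0) (P.cons (P.lf 0 38204700 0) (P.cons (P.lf 0 3921042 0) (P.cons (P.lf 815466 0 0) (P.lf 67953 0 0))))) (P.cons (P.cons (P.lf 0 3889107 0) (P.cons (P.lf 3623061 0 0) (P.cons (P.lf 371844 0 0) (P.cons (P.lf 0 77334 0) P.nil)))) (P.cons (P.cons (P.lf 0 1273032 0) (P.cons (P.lf 1185945 0 0) (P.cons (P.lf 121713 0 0) P.nil))) (P.cons (P.cons (P.lf 0 25923 0) (P.cons (P.lf 24150 0 0) P.nil)) (P.cons (P.cons (P.lf 12141 0 0) P.nil) P.nil)))))) 90438)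
 EL.nil)))
noncomputable def S111_140_660_808_26 : EL := (EL.cons 4 (TM.mk (P.cons (P.cons (P.lf 310484139 0 0) (P.cons (P.lf 0 12732330 0) (P.cons (P.lf 4628586 0 0) (P.cons (P.lf 1353216 0 0) (P.cons (P.lf 0 77658 0) (P.cons (P.lf 0 35607 0) P.nil)))))) (P.cons (P.cons (P.lf 0 84161697 0) (P.cons (P.lf 2815422 0 0) (P.cons (P.lf 0 1902141 0) (P.cons (P.lf 458535 0 0) (P.cons (P.lf 0 62010 0) P.nil))))) (P.cons (P.cons (P.lf 0 21330030 0) (P.cons (P.lf 1614522 0 0) (P.cons (P.lf 0 882741 0) (P.cons (P.lf 83520 0 0) P.nil)))) (P.cons (P.cons (P.lf 6432504 0 0) (P.cons (P.lf 0 369516 0) (P.cons (P.lf 153282 0 0) P.nil))) (P.cons (P.cons (P.lf 714333 0 0) (P.cons (P.lf 0 155235 0) P.nil)) (P.cons (P.cons (P.lf 0 221700 0) P.nil) P.nil)))))) 496596)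
 (EL.cons 8 (TM.mk (P.cons (P.cons (P.lf 0 312559815 0) (P.cons (P.lf 12817449 0 0) (P.cons (P.lf 0 4659531 0) (P.cons (P.lf 0 1362264 0) (P.cons (P.lf 78177 0 0) (P.cons (P.lf 35844 0 0) P.nil)))))) (P.cons (P.cons (P.lf 152869341 0 0) (P.cons (P.lf 0 5628732 0) (P.cons (P.lf 2930736 0 0) (P.cons (P.lf 0 164601 0) (P.cons (P.lf 45378 0 0) P.nil))))) (P.cons (P.cons (P.lf 0 6141075 0) (P.cons (P.lf 0 632493 0) (P.cons (P.lf 334875 0 0) (P.cons (P.lf 0 23286 0) P.nil)))) (P.cons (P.cons (P.lf 0 7296834 0) (P.cons (P.lf 586767 0 0) (P.cons (P.lf 0 271443 0) P.nil))) (P.cons (P.cons (P.lf 744027 0 0) (P.cons (P.lf 48450 0 0) P.nil)) (P.cons (P.cons (P.lf 180195 0 0) P.nil) P.nil)))))) 331245)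
 (EL.cons 11 (TM.mk (P.cons (P.cons (P.lf 0 67963920 0) (P.cons (P.lf 60866070 0 0) (P.cons (P.lf 9835119 0 0) (P.cons (P.lf 0 1983636 0) (P.cons (P.lf 0 371553 0) (P.cons (P.lf 5721 0 0) P.nil)))))) (P.cons (P.cons (P.lf 1148820 0 0) (P.cons (P.lf 0 2768907 0) (P.cons (P.lf 2205120 0 0) (P.cons (P.lf 0 415734 0) (P.cons (P.lf 0 177726 0) P.nil))))) (P.cons (P.cons (P.lf 4280826 0 0) (P.cons (P.lf 0 4377840 0) (P.cons (P.lf 121995 0 0) (P.cons (P.lf 0 15531 0) P.nil)))) (P.cons (P.cons (P.lf 0 214368 0) (P.cons (P.lf 193134 0 0) (P.cons (P.lf 29448 0 0) P.nil))) (P.cons (P.cons (P.lf 0 159777 0) (P.cons (P.lf 160764 0 0) P.nil)) (P.cons (P.cons (P.lf 0 168 0) P.nil) P.nil)))))) 283989)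
 EL.nil)))
noncomputable def S111_140_660_808_27 : EL := (EL.cons 13 (TM.mk (P.lf 0 4294967296 0) 0)
 EL.nil)
noncomputable def S111_140_660_808_28 : EL := (EL.cons 13 (TM.mk (P.cons (P.cons (P.lf 1491479910 0 0) (P.cons (P.lf 53735176 0 0) (P.cons (P.lf 0 23171212 0) (P.lf 0 2574576 0)))) (P.cons (P.cons (P.lf 0 337737936 0) (P.cons (P.lf 26018004 0 0) (P.cons (P.lf 0 11219256 0) (P.lf 0 1246580 0)))) (P.cons (P.cons (P.lf 6464439 0 0) (P.cons (P.lf 4171368 0 0) (P.cons (P.lf 0 1798740 0) (P.lf 0 199856 0)))) (P.cons (P.cons (P.lf 6339911 0 0) (P.cons (P.lf 136652 0 0) (P.cons (P.lf 0 58924 0) P.nil))) (P.cons (P.cons (P.lf 307039 0 0) (P.cons (P.lf 0 30920 0) P.nil)) (P.cons (P.cons (P.lf 0 29858 0) P.nil) P.nil)))))) 41153)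
 EL.nil)
noncomputable def S111_140_660_808_29 : EL := (EL.cons 13 (TM.mk (P.cons (P.cons (P.lf 0 517934635 0) (P.cons (P.lf 0 37320393 0) (P.cons (P.lf 15420682 0 0) (P.cons (P.lf 2367905 0 0) (P.cons (P.lf 0 60585 0) (P.cons (P.lf 0 27779 0) P.nil)))))) (P.cons (P.cons (P.lf 234567255 0 0) (P.cons (P.lf 0 9619129 0) (P.cons (P.lf 3496844 0 0) (P.cons (P.lf 1022338 0 0) (P.cons (P.lf 0 58670 0) P.nil))))) (P.cons (P.cons (P.lf 0 31047983 0) (P.cons (P.lf 1033017 0 0) (P.cons (P.lf 0 707438 0) (P.cons (P.lf 176448 0 0) P.nil)))) (P.cons (P.cons (P.lf 0 3386551 0) (P.cons (P.lf 324168 0 0) (P.cons (P.lf 0 193744 0) P.nil))) (P.cons (P.cons (P.lf 774111 0 0) (P.cons (P.lf 0 54085 0) P.nil)) (P.cons (P.cons (P.lf 49940 0 0) P.nil) P.nil)))))) 378691)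
 EL.nil)
noncomputable def S111_140_660_808_30 : EL := (EL.cons 13 (TM.mk (P.cons (P.lf 3305228444 0 0) (P.cons (P.lf 0 187161108 0) (P.cons (P.lf 0 20202340 0) (P.cons (P.lf 0 534200 0) (P.cons (P.lf 32044 0 0) (P.cons (P.lf 3360 0 0) P.nil)))))) 212)
 EL.nil)
noncomputable def S111_140_660_808_31 : EL := (EL.cons 13 (TM.mk (P.cons (P.cons (P.lf 0 1147780991 0) (P.cons (P.lf 0 41352359 0) (P.cons (P.lf 17831602 0 0) (P.lf 1981286 0 0)))) (P.cons (P.cons (P.lf 324903071 0 0) (P.cons (P.lf 0 17680766 0) (P.cons (P.lf 7624145 0 0) (P.lf 847124 0 0)))) (P.cons (P.cons (P.lf 0 12676806 0) (P.cons (P.lf 0 1823573 0) (P.cons (P.lf 786344 0 0) (P.lf 87368 0 0)))) (P.cons (P.cons (P.lf 0 6000350 0) (P.cons (P.lf 205678 0 0) (P.cons (P.lf 0 88692 0) P.nil))) (P.cons (P.cons (P.lf 17260 0 0) (P.cons (P.lf 52205 0 0) P.nil)) (P.cons (P.cons (P.lf 68335 0 0) P.nil) P.nil))))))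 70111)
 EL.nil)
noncomputable def S111_140_660_808_32 : EL := (EL.cons 13 (TM.mk (P.cons (P.cons (P.lf 398580983 0 0) (P.cons (P.lf 28720224 0 0) (P.cons (P.lf 0 11867116 0) (P.cons (P.lf 0 1822241 0) (P.cons (P.lf 46623 0 0) (P.cons (P.lf 21377 0 0) P.nil)))))) (P.cons (P.cons (P.lf 0 203083172 0) (P.cons (P.lf 5776177 0 0) (P.cons (P.lf 0 2019041 0) (P.cons (P.lf 0 683563 0) (P.cons (P.lf 42509 0 0) P.nil))))) (P.cons (P.cons (P.lf 31678716 0 0) (P.cons (P.lf 0 1389683 0) (P.cons (P.lf 769330 0 0) (P.cons (P.lf 0 80098 0) P.nil)))) (P.cons (P.cons (P.lf 2292095 0 0) (P.cons (P.lf 0 254338 0) (P.cons (P.lf 136635 0 0) P.nil))) (P.cons (P.cons (P.lf 0 856300 0) (P.cons (P.lf 59688 0 0) P.nil)) (P.cons (P.cons (P.lf 0 25834 0) P.nil) P.nil)))))) 352976)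
 EL.nil)
noncomputable def S111_140_660_808_33 : EL := (EL.cons 14 (TM.mk (P.lf 8589934592 0 0) 0)
 EL.nil)
noncomputable def S111_140_660_808_34 : EL := (EL.cons 14 (TM.mk (P.cons (P.cons (P.lf 0 2982959820 0) (P.cons (P.lf 0 107470352 0) (P.cons (P.lf 46342424 0 0) (P.lf 5149152 0 0)))) (P.cons (P.cons (P.lf 675475872 0 0) (P.cons (P.lf 0 52036008 0) (P.cons (P.lf 22438512 0 0) (P.lf 2493160 0 0)))) (P.cons (P.cons (P.lf 0 12928878 0) (P.cons (P.lf 0 8342736 0) (P.cons (P.lf 3597480 0 0) (P.lf 399712 0 0)))) (P.cons (P.cons (P.lf 0 12679822 0) (P.cons (P.lf 0 273304 0) (P.cons (P.lf 117848 0 0) P.nil))) (P.cons (P.cons (P.lf 0 614078 0) (P.cons (P.lf 61840 0 0) P.nil)) (P.cons (P.cons (P.lf 59716 0 0) P.nil) P.nil)))))) 82306)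
 EL.nil)
noncomputable def S111_140_660_808_35 : EL := (EL.cons 14 (TM.mk (P.cons (P.cons (P.lf 1035869270 0 0) (P.cons (P.lf 74640786 0 0) (P.cons (P.lf 0 30841364 0) (P.cons (P.lf 0 4735810 0) (P.cons (P.lf 121170 0 0) (P.cons (P.lf 55558 0 0) P.nil)))))) (P.cons (P.cons (P.lf 0 469134510 0) (P.cons (P.lf 19238258 0 0) (P.cons (P.lf 0 6993688 0) (P.cons (P.lf 0 2044676 0) (P.cons (P.lf 117340 0 0) P.nil))))) (P.cons (P.cons (P.lf 62095966 0 0) (P.cons (P.lf 0 2066034 0) (P.cons (P.lf 1414876 0 0) (P.cons (P.lf 0 352896 0) P.nil)))) (P.cons (P.cons (P.lf 6773102 0 0) (P.cons (P.lf 0 648336 0) (P.cons (P.lf 387488 0 0) P.nil))) (P.cons (P.cons (P.lf 0 1548222 0) (P.cons (P.lf 108170 0 0) P.nil)) (P.cons (P.cons (P.lf 0 99880 0) P.nil) P.nil)))))) 757382)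
 EL.nil)
noncomputable def S111_140_660_808_36 : EL := (EL.cons 14 (TM.mk (P.cons (P.lf 0 6610456888 0) (P.cons (P.lf 374322216 0 0) (P.cons (P.lf 40404680 0 0) (P.cons (P.lf 1068400 0 0) (P.cons (P.lf 0 64088 0) (P.cons (P.lf 0 6720 0) P.nil)))))) 424)
 EL.nil)
noncomputable def S111_140_660_808_37 : EL := (EL.cons 14 (TM.mk (P.cons (P.cons (P.lf 2295561982 0 0) (P.cons (P.lf 82704718 0 0) (P.cons (P.lf 0 35663204 0) (P.lf 0 3962572 0)))) (P.cons (P.cons (P.lf 0 649806142 0) (P.cons (P.lf 35361532 0 0) (P.cons (P.lf 0 15248290 0) (P.lf 0 1694248 0)))) (P.cons (P.cons (P.lf 25353612 0 0) (P.cons (P.lf 3647146 0 0) (P.cons (P.lf 0 1572688 0) (P.lf 0 174736 0)))) (P.cons (P.cons (P.lf 12000700 0 0) (P.cons (P.lf 0 411356 0) (P.cons (P.lf 177384 0 0) P.nil))) (P.cons (P.cons (P.lf 0 34520 0) (P.cons (P.lf 0 104410 0) P.nil)) (P.cons (P.cons (P.lf 0 136670 0) P.nil)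 P.nil)))))) 140222)
 EL.nil)
noncomputable def S111_140_660_808_38 : EL := (EL.cons 14 (TM.mk (P.cons (P.cons (P.lf 0 797161966 0) (P.cons (P.lf 0 57440448 0) (P.cons (P.lf 23734232 0 0) (P.cons (P.lf 3644482 0 0) (P.cons (P.lf 0 93246 0) (P.cons (P.lf 0 42754 0) P.nil)))))) (P.cons (P.cons (P.lf 406166344 0 0) (P.cons (P.lf 0 11552354 0) (P.cons (P.lf 4038082 0 0) (P.cons (P.lf 1367126 0 0) (P.cons (P.lf 0 85018 0) P.nil))))) (P.cons (P.cons (P.lf 0 63357432 0) (P.cons (P.lf 2779366 0 0) (P.cons (P.lf 0 1538660 0) (P.cons (P.lf 160196 0 0) P.nil)))) (P.cons (P.cons (P.lf 0 4584190 0) (P.cons (P.lf 508676 0 0) (P.cons (P.lf 0 273270 0) P.nil))) (P.cons (P.cons (P.lf 1712600 0 0) (P.cons (P.lf 0 119376 0) P.nil)) (P.cons (P.cons (P.lf 51668 0 0) P.nil) P.nil)))))) 705952)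
 EL.nil)
noncomputable def S111_140_660_808_39 : EL := (EL.cons 14 (TM.mk (P.cons (P.lf 5087133062 0 0) (P.cons (P.lf 0 576125660 0) (P.cons (P.lf 0 45875746 0) (P.cons (P.lf 1877024 0 0) (P.cons (P.lf 381806 0 0) (P.cons (P.lf 14808 0 0) P.nil)))))) 2110)
 EL.nil)
noncomputable def S111_140_660_808_40 : EL := (EL.cons 14 (TM.mk (P.cons (P.cons (P.lf 0 1766569158 0) (P.cons (P.lf 0 63646116 0) (P.cons (P.lf 27444920 0 0) (P.lf 3049430 0 0)))) (P.cons (P.cons (P.lf 600097158 0 0) (P.cons (P.lf 0 23608754 0) (P.cons (P.lf 10180360 0 0) (P.lf 1131146 0 0)))) (P.cons (P.cons (P.lf 0 37029896 0) (P.cons (P.lf 0 876728 0) (P.cons (P.lf 378054 0 0) (P.lf 42000 0 0)))) (P.cons (P.cons (P.lf 0 10901400 0) (P.cons (P.lf 652110 0 0) (P.cons (P.lf 0 281200 0) P.nil))) (P.cons (P.cons (P.lf 570826 0 0) (P.cons (P.lf 83360 0 0) P.nil)) (P.cons (P.cons (P.lf 166324 0 0) P.nil)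 P.nil)))))) 160646)
 EL.nil)
noncomputable def S111_140_660_808_41 : EL := (EL.cons 14 (TM.mk (P.cons (P.cons (P.lf 613462740 0 0) (P.cons (P.lf 44203782 0 0) (P.cons (P.lf 0 18264878 0) (P.cons (P.lf 0 2804642 0) (P.cons (P.lf 71758 0 0) (P.cons (P.lf 32902 0 0) P.nil)))))) (P.cons (P.cons (P.lf 0 347306548 0) (P.cons (P.lf 6387138 0 0) (P.cons (P.lf 0 2073276 0) (P.cons (P.lf 0 893268 0) (P.cons (P.lf 61364 0 0) P.nil))))) (P.cons (P.cons (P.lf 62707064 0 0) (P.cons (P.lf 0 2912482 0) (P.cons (P.lf 1471696 0 0) (P.cons (P.lf 0 46562 0) P.nil)))) (P.cons (P.cons (P.lf 2578230 0 0) (P.cons (P.lf 0 331822 0) (P.cons (P.lf 165194 0 0) P.nil))) (P.cons (P.cons (P.lf 0 1759260 0) (P.cons (P.lf 126098 0 0) P.nil)) (P.cons (P.cons (P.lf 3016 0 0) P.nil) P.nil)))))) 629482)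
 EL.nil)
noncomputable def S111_140_660_808_42 : EL := (EL.cons 14 (TM.mk (P.cons (P.lf 0 3914846314 0) (P.cons (P.lf 665043568 0 0) (P.cons (P.lf 34126800 0 0) (P.cons (P.lf 0 5520806 0) (P.cons (P.lf 0 537424 0) (P.cons (P.lf 8682 0 0) P.nil)))))) 5662)
 EL.nil)
noncomputable def S111_140_660_808_43 : EL := (EL.cons 14 (TM.mk (P.cons (P.cons (P.lf 1359478250 0 0) (P.cons (P.lf 48979408 0 0) (P.cons (P.lf 0 21120470 0) (P.lf 0 2346716 0)))) (P.cons (P.cons (P.lf 0 538791350 0) (P.cons (P.lf 15394820 0 0) (P.cons (P.lf 0 6638420 0) (P.lf 0 737598 0)))) (P.cons (P.cons (P.lf 46337556 0 0) (P.cons (P.lf 0 653474 0) (P.cons (P.lf 281786 0 0) (P.lf 31312 0 0)))) (P.cons (P.cons (P.lf 9378588 0 0) (P.cons (P.lf 0 659008 0) (P.cons (P.lf 284172 0 0) P.nil))) (P.cons (P.cons (P.lf 0 1000692 0) (P.cons (P.lf 0 42320 0) P.nil)) (P.cons (P.cons (P.lf 0 162098 0) P.nil)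 P.nil)))))) 174222)
 EL.nil)
noncomputable def S111_140_660_808_44 : EL := (EL.cons 14 (TM.mk (P.cons (P.cons (P.lf 0 472095444 0) (P.cons (P.lf 0 34017394 0) (P.cons (P.lf 14055892 0 0) (P.cons (P.lf 2158336 0 0) (P.cons (P.lf 0 55222 0) (P.cons (P.lf 0 25320 0) P.nil)))))) (P.cons (P.cons (P.lf 294005462 0 0) (P.cons (P.lf 0 2989014 0) (P.cons (P.lf 799582 0 0) (P.cons (P.lf 565204 0 0) (P.cons (P.lf 0 44096 0) P.nil))))) (P.cons (P.cons (P.lf 0 60505716 0) (P.cons (P.lf 2727580 0 0) (P.cons (P.lf 0 1308816 0) (P.cons (P.lf 0 16284 0) P.nil)))) (P.cons (P.cons (P.lf 0 808856 0) (P.cons (P.lf 163982 0 0) (P.cons (P.lf 0 75018 0) P.nil))) (P.cons (P.cons (P.lf 1713388 0 0) (P.cons (P.lf 0 124734 0) P.nil)) (P.cons (P.cons (P.lf 0 56946 0) P.nil) P.nil)))))) 549836)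
 EL.nil)
noncomputable def S111_140_660_808_45 : EL := (EL.cons 14 (TM.mk (P.cons (P.cons (P.lf 0 359718270 0) (P.cons (P.lf 0 38879888 0) (P.cons (P.lf 15364676 0 0) (P.cons (P.lf 3054056 0 0) (P.cons (P.lf 0 104472 0) (P.cons (P.lf 0 64846 0) P.nil)))))) (P.cons (P.cons (P.lf 244369042 0 0) (P.cons (P.lf 0 1216930 0) (P.cons (P.lf 0 514522 0) (P.cons (P.lf 930164 0 0) (P.cons (P.lf 0 62046 0) P.nil))))) (P.cons (P.cons (P.lf 0 60013430 0) (P.cons (P.lf 3176890 0 0) (P.cons (P.lf 0 1614688 0) (P.cons (P.lf 43138 0 0) P.nil)))) (P.cons (P.cons (P.lf 1707950 0 0) (P.cons (P.lf 0 114684 0) (P.cons (P.lf 48802 0 0) P.nil))) (P.cons (P.cons (P.lf 1595234 0 0) (P.cons (P.lf 0 178754 0) P.nil)) (P.cons (P.cons (P.lf 0 148178 0) P.nil) P.nil)))))) 874660)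
 EL.nil)
noncomputable def S111_140_660_808_46 : EL := (EL.cons 15 (TM.mk (P.lf 4294967296 0 0) 0)
 EL.nil)
noncomputable def S111_140_660_808_47 : EL := (EL.cons 15 (TM.mk (P.cons (P.cons (P.lf 0 1491479910 0) (P.cons (P.lf 0 53735176 0) (P.cons (P.lf 23171212 0 0) (P.lf 2574576 0 0)))) (P.cons (P.cons (P.lf 337737936 0 0) (P.cons (P.lf 0 26018004 0) (P.cons (P.lf 11219256 0 0) (P.lf 1246580 0 0)))) (P.cons (P.cons (P.lf 0 6464439 0) (P.cons (P.lf 0 4171368 0) (P.cons (P.lf 1798740 0 0) (P.lf 199856 0 0)))) (P.cons (P.cons (P.lf 0 6339911 0) (P.cons (P.lf 0 136652 0) (P.cons (P.lf 58924 0 0) P.nil))) (P.cons (P.cons (P.lf 0 307039 0) (P.cons (P.lf 30920 0 0) P.nil)) (P.cons (P.cons (P.lf 29858 0 0) P.nil) P.nil)))))) 41153)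
 EL.nil)
noncomputable def S111_140_660_808_48 : EL := (EL.cons 15 (TM.mk (P.cons (P.cons (P.lf 517934635 0 0) (P.cons (P.lf 37320393 0 0) (P.cons (P.lf 0 15420682 0) (P.cons (P.lf 0 2367905 0) (P.cons (P.lf 60585 0 0) (P.cons (P.lf 27779 0 0) P.nil)))))) (P.cons (P.cons (P.lf 0 234567255 0) (P.cons (P.lf 9619129 0 0) (P.cons (P.lf 0 3496844 0) (P.cons (P.lf 0 1022338 0) (P.cons (P.lf 58670 0 0) P.nil))))) (P.cons (P.cons (P.lf 31047983 0 0) (P.cons (P.lf 0 1033017 0) (P.cons (P.lf 707438 0 0) (P.cons (P.lf 0 176448 0) P.nil)))) (P.cons (P.cons (P.lf 3386551 0 0) (P.cons (P.lf 0 324168 0) (P.cons (P.lf 193744 0 0) P.nil))) (P.cons (P.cons (P.lf 0 774111 0) (P.cons (P.lf 54085 0 0) P.nil)) (P.cons (P.cons (P.lf 0 49940 0) P.nil) P.nil)))))) 378691)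
 EL.nil)
noncomputable def S111_140_660_808 : SL := (SL.cons S111_140_660_808_0 (SL.cons S111_140_660_808_1 (SL.cons S111_140_660_808_2 (SL.cons S111_140_660_808_3 (SL.cons S111_140_660_808_4 (SL.cons S111_140_660_808_5 (SL.cons S111_140_660_808_6 (SL.cons S111_140_660_808_7 (SL.cons S111_140_660_808_8 (SL.cons S111_140_660_808_9 (SL.cons S111_140_660_808_10 (SL.cons S111_140_660_808_11 (SL.cons S111_140_660_808_12 (SL.cons S111_140_660_808_13 (SL.cons S111_140_660_808_14 (SL.cons S111_140_660_808_15 (SL.cons S111_140_660_808_16 (SL.cons S111_140_660_808_17 (SL.cons S111_140_660_808_18 (SL.cons S111_140_660_808_19 (SL.cons S111_140_660_808_20 (SL.cons S111_140_660_808_21 (SL.cons S111_140_660_808_22 (SL.cons S111_140_660_808_23 (SL.cons S111_140_660_808_24 (SL.cons S111_140_660_808_25 (SL.cons S111_140_660_808_26 (SL.cons S111_140_660_808_27 (SL.cons S111_140_660_808_28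 (SL.cons S111_140_660_808_29 (SL.cons S111_140_660_808_30 (SL.cons S111_140_660_808_31 (SL.cons S111_140_660_808_32 (SL.cons S111_140_660_808_33 (SL.cons S111_140_660_808_34 (SL.cons S111_140_660_808_35 (SL.cons S111_140_660_808_36 (SL.cons S111_140_660_808_37 (SL.cons S111_140_660_808_38 (SL.cons S111_140_660_808_39 (SL.cons S111_140_660_808_40 (SL.cons S111_140_660_808_41 (SL.cons S111_140_660_808_42 (SL.cons S111_140_660_808_43 (SL.cons S111_140_660_808_44 (SL.cons S111_140_660_808_45 (SL.cons S111_140_660_808_46 (SL.cons S111_140_660_808_47 (SL.cons S111_140_660_808_48 SL.nil)))))))))))))))))))))))))))))))))))))))))))))))))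
noncomputable def S125_140_216_364_0 : EL := (EL.cons 0 (TM.mk (P.cons (P.lf 4238246453 0 0) (P.cons (P.lf 281370350 0 0) (P.cons (P.lf 10018764 0 0) (P.cons (P.lf 0 321929 0) (P.cons (P.lf 0 26059 0) (P.cons (P.lf 0 386 0) P.nil)))))) 230)
 (EL.cons 1 (TM.mk (P.cons (P.lf 0 1653076498 0) (P.cons (P.lf 0 72476017 0) (P.cons (P.lf 7522271 0 0) (P.cons (P.lf 359445 0 0) (P.cons (P.lf 0 615 0) (P.cons (P.lf 0 506 0) P.nil)))))) 138)
 (EL.cons 5 (TM.mk (P.cons (P.lf 5794512336 0 0) (P.cons (P.lf 0 100042792 0) (P.cons (P.lf 0 3562232 0) (P.cons (P.lf 114460 0 0) (P.cons (P.lf 9268 0 0) (P.cons (P.lf 138 0 0) P.nil)))))) 79)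
 (EL.cons 9 (TM.mk (P.lf 6442450944 0 0) 2)
 EL.nil))))
noncomputable def S125_140_216_364_1 : EL := (EL.cons 0 (TM.mk (P.cons (P.cons (P.lf 0 4936922449 0) (P.cons (P.lf 131809253 0 0) (P.cons (P.lf 56837627 0 0) (P.lf 0 6315278 0)))) (P.cons (P.cons (P.lf 9312401 0 0) (P.cons (P.lf 12896487 0 0) (P.cons (P.lf 5561102 0 0) (P.lf 0 617886 0)))) (P.cons (P.cons (P.lf 79641368 0 0) (P.cons (P.lf 0 2445779 0) (P.cons (P.lf 0 1054652 0) (P.lf 117183 0 0)))) (P.cons (P.cons (P.lf 4837196 0 0) (P.cons (P.lf 0 409562 0) (P.cons (P.lf 0 176607 0) P.nil))) (P.cons (P.cons (P.lf 0 228099 0) (P.cons (P.lf 0 12480 0) P.nil)) (P.cons (P.cons (P.lf 0 28935 0) P.nil) P.nil)))))) 63197)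
 (EL.cons 1 (TM.mk (P.cons (P.cons (P.lf 1347320699 0 0) (P.cons (P.lf 0 25157637 0) (P.cons (P.lf 0 10848259 0) (P.lf 1205366 0 0)))) (P.cons (P.cons (P.lf 0 360774958 0) (P.cons (P.lf 12948179 0 0) (P.cons (P.lf 5583393 0 0) (P.lf 0 620367 0)))) (P.cons (P.cons (P.lf 0 34479879 0) (P.cons (P.lf 2540511 0 0) (P.cons (P.lf 1095488 0 0) (P.lf 0 121713 0)))) (P.cons (P.cons (P.lf 2560902 0 0) (P.cons (P.lf 44631 0 0) (P.cons (P.lf 19245 0 0) P.nil))) (P.cons (P.cons (P.lf 275100 0 0) (P.cons (P.lf 0 14359 0) P.nil)) (P.cons (P.cons (P.lf 0 232 0) P.nil) P.nil)))))) 28509)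
 (EL.cons 5 (TM.mk (P.cons (P.cons (P.lf 771336201 0 0) (P.cons (P.lf 0 161243826 0) (P.cons (P.lf 0 69530154 0) (P.lf 7725570 0 0)))) (P.cons (P.cons (P.lf 580182463 0 0) (P.cons (P.lf 0 31075720 0) (P.cons (P.lf 0 13400200 0) (P.lf 1488904 0 0)))) (P.cons (P.cons (P.lf 0 13644951 0) (P.cons (P.lf 0 1096178 0) (P.cons (P.lf 0 472686 0) (P.lf 52520 0 0)))) (P.cons (P.cons (P.lf 0 3151274 0) (P.cons (P.lf 129424 0 0) (P.cons (P.lf 55804 0 0) P.nil))) (P.cons (P.cons (P.lf 817 0 0) (P.cons (P.lf 9220 0 0) P.nil)) (P.cons (P.cons (P.lf 10478 0 0) P.nil) P.nil)))))) 22800)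
 (EL.cons 9 (TM.mk (P.cons (P.cons (P.lf 0 868247644 0) (P.cons (P.lf 0 100922040 0) (P.cons (P.lf 0 43518720 0) (P.lf 4835412 0 0)))) (P.cons (P.cons (P.lf 514847235 0 0) (P.cons (P.lf 0 23373792 0) (P.cons (P.lf 0 10079040 0) (P.lf 1119888 0 0)))) (P.cons (P.cons (P.lf 12945855 0 0) (P.cons (P.lf 0 1734510 0) (P.cons (P.lf 0 747936 0) (P.lf 83100 0 0)))) (P.cons (P.cons (P.lf 0 1262986 0) (P.cons (P.lf 0 14292 0) (P.cons (P.lf 0 6162 0) P.nil))) (P.cons (P.cons (P.lf 0 70828 0) (P.cons (P.lf 4218 0 0) P.nil)) (P.cons (P.cons (P.lf 168 0 0) P.nil) P.nil)))))) 6566)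
 (EL.cons 2 (TM.mk (P.cons (P.cons (P.lf 269004450 0 0) (P.cons (P.lf 250602533 0 0) (P.cons (P.lf 0 25719969 0) (P.cons (P.lf 0 5349034 0) (P.lf 445750 0 0))))) (P.cons (P.cons (P.lf 32561355 0 0) (P.cons (P.lf 30333915 0 0) (P.cons (P.lf 0 3113243 0) (P.cons (P.lf 0 647465 0) (P.lf 53955 0 0))))) (P.cons (P.cons (P.lf 0 375755 0) (P.cons (P.lf 0 350049 0) (P.cons (P.lf 35926 0 0) (P.cons (P.lf 7472 0 0) P.nil)))) (P.cons (P.cons (P.lf 0 174678 0) (P.cons (P.lf 0 162728 0) (P.cons (P.lf 16697 0 0) P.nil))) (P.cons (P.cons (P.lf 0 5428 0) (P.cons (P.lf 0 5056 0) P.nil)) (P.cons (P.cons (P.lf 171 0 0) P.nil) P.nil)))))) 10967)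
 (EL.cons 6 (TM.mk (P.cons (P.cons (P.lf 105438780 0 0) (P.cons (P.lf 98225979 0 0) (P.cons (P.lf 0 10081179 0) (P.cons (P.lf 0 2096604 0) (P.lf 174714 0 0))))) (P.cons (P.cons (P.lf 24419880 0 0) (P.cons (P.lf 22749378 0 0) (P.cons (P.lf 0 2334825 0) (P.cons (P.lf 0 485577 0) (P.lf 40464 0 0))))) (P.cons (P.cons (P.lf 1812135 0 0) (P.cons (P.lf 1688172 0 0) (P.cons (P.lf 0 173259 0) (P.cons (P.lf 0 36030 0) P.nil)))) (P.cons (P.cons (P.lf 14931 0 0) (P.cons (P.lf 13908 0 0) (P.cons (P.lf 0 1425 0) P.nil))) (P.cons (P.cons (P.lf 0 4410 0) (P.cons (P.lf 0 4107 0) P.nil)) (P.cons (P.cons (P.lf 0 201 0) P.nil) P.nil)))))) 5568)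
 EL.nil))))))
noncomputable def S125_140_216_364_2 : EL := (EL.cons 0 (TM.mk (P.cons (P.cons (P.lf 1253717009 0 0) (P.cons (P.lf 101252083 0 0) (P.cons (P.lf 38491352 0 0) (P.cons (P.lf 0 9309670 0) (P.cons (P.lf 0 465880 0) (P.cons (P.lf 213615 0 0) P.nil)))))) (P.cons (P.cons (P.lf 0 705394298 0) (P.cons (P.lf 58401181 0 0) (P.cons (P.lf 23271950 0 0) (P.cons (P.lf 0 4446464 0) (P.cons (P.lf 0 172234 0) P.nil))))) (P.cons (P.cons (P.lf 0 58711882 0) (P.cons (P.lf 6149736 0 0) (P.cons (P.lf 2437921 0 0) (P.cons (P.lf 0 479112 0) P.nil)))) (P.cons (P.cons (P.lf 10390291 0 0) (P.cons (P.lf 0 600195 0) (P.cons (P.lf 0 251470 0) P.nil))) (P.cons (P.cons (P.lf 1192445 0 0) (P.cons (P.lf 0 138222 0) P.nil)) (P.cons (P.cons (P.lf 0 25650 0) P.nil) P.nil)))))) 723634)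
 (EL.cons 1 (TM.mk (P.cons (P.cons (P.lf 0 333131558 0) (P.cons (P.lf 0 28451104 0) (P.cons (P.lf 0 11074572 0) (P.cons (P.lf 2392769 0 0) (P.cons (P.lf 107592 0 0) (P.cons (P.lf 0 49329 0) P.nil)))))) (P.cons (P.cons (P.lf 278293644 0 0) (P.cons (P.lf 0 8200505 0) (P.cons (P.lf 0 3553578 0) (P.cons (P.lf 377868 0 0) (P.cons (P.lf 0 1568 0) P.nil))))) (P.cons (P.cons (P.lf 0 34990015 0) (P.cons (P.lf 3171214 0 0) (P.cons (P.lf 1249554 0 0) (P.cons (P.lf 0 253625 0) P.nil)))) (P.cons (P.cons (P.lf 0 6981976 0) (P.cons (P.lf 698694 0 0) (P.cons (P.lf 278552 0 0) P.nil))) (P.cons (P.cons (P.lf 259081 0 0) (P.cons (P.lf 12831 0 0) P.nil)) (P.cons (P.cons (P.lf 64936 0 0) P.nil) P.nil)))))) 313884)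
 (EL.cons 5 (TM.mk (P.cons (P.cons (P.lf 0 313150706 0) (P.cons (P.lf 0 5171249 0) (P.cons (P.lf 1399972 0 0) (P.cons (P.lf 3378242 0 0) (P.cons (P.lf 327105 0 0) (P.cons (P.lf 0 149981 0) P.nil)))))) (P.cons (P.cons (P.lf 93532271 0 0) (P.cons (P.lf 0 31905717 0) (P.cons (P.lf 0 12248575 0) (P.cons (P.lf 2830506 0 0) (P.cons (P.lf 136034 0 0) P.nil))))) (P.cons (P.cons (P.lf 63550431 0 0) (P.cons (P.lf 0 6350326 0) (P.cons (P.lf 0 2504567 0) (P.cons (P.lf 505840 0 0) P.nil)))) (P.cons (P.cons (P.lf 0 963491 0) (P.cons (P.lf 0 158047 0) (P.cons (P.lf 0 55998 0) P.nil))) (P.cons (P.cons (P.lf 0 601628 0) (P.cons (P.lf 50258 0 0) P.nil)) (P.cons (P.cons (P.lf 0 9519 0) P.nil) P.nil)))))) 319534)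
 (EL.cons 9 (TM.mk (P.cons (P.cons (P.lf 117013536 0 0) (P.cons (P.lf 27202480 0 0) (P.cons (P.lf 13310976 0 0) (P.cons (P.lf 60120 0 0) (P.cons (P.lf 142473 0 0) (P.cons (P.lf 0 65325 0) P.nil)))))) (P.cons (P.cons (P.lf 0 138771688 0) (P.cons (P.lf 0 9830169 0) (P.cons (P.lf 0 3506571 0) (P.cons (P.lf 1102546 0 0) (P.cons (P.lf 65994 0 0) P.nil))))) (P.cons (P.cons (P.lf 37654497 0 0) (P.cons (P.lf 0 3673902 0) (P.cons (P.lf 0 1445083 0) (P.cons (P.lf 296026 0 0) P.nil)))) (P.cons (P.cons (P.lf 2409555 0 0) (P.cons (P.lf 0 327741 0) (P.cons (P.lf 0 128290 0) P.nil))) (P.cons (P.cons (P.lf 0 156756 0) (P.cons (P.lf 990 0 0) P.nil)) (P.cons (P.cons (P.lf 0 16441 0) P.nil) P.nil)))))) 133732)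
 (EL.cons 2 (TM.mk (P.cons (P.cons (P.lf 0 72507335 0) (P.cons (P.lf 0 75975288 0) (P.cons (P.lf 0 4553156 0) (P.cons (P.lf 0 734236 0) (P.cons (P.lf 771097 0 0) (P.cons (P.lf 19687 0 0) P.nil)))))) (P.cons (P.cons (P.lf 34218303 0 0) (P.cons (P.lf 28905412 0 0) (P.cons (P.lf 0 7322062 0) (P.cons (P.lf 0 1447779 0) (P.cons (P.lf 370991 0 0) P.nil))))) (P.cons (P.cons (P.lf 6386653 0 0) (P.cons (P.lf 5580410 0 0) (P.cons (P.lf 0 1113986 0) (P.cons (P.lf 0 222356 0) P.nil)))) (P.cons (P.cons (P.lf 12414 0 0) (P.cons (P.lf 1035 0 0) (P.cons (P.lf 0 15530 0) P.nil))) (P.cons (P.cons (P.lf 0 46642 0) (P.cons (P.lf 0 41602 0) P.nil)) (P.cons (P.cons (P.lf 0 2171 0) P.nil) P.nil)))))) 167894)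
 (EL.cons 6 (TM.mk (P.cons (P.cons (P.lf 0 28419918 0) (P.cons (P.lf 0 29779212 0) (P.cons (P.lf 0 1784646 0) (P.cons (P.lf 0 287790 0) (P.cons (P.lf 302232 0 0) (P.cons (P.lf 7716 0 0) P.nil)))))) (P.cons (P.cons (P.lf 10270110 0 0) (P.cons (P.lf 8037396 0 0) (P.cons (P.lf 0 3067254 0) (P.cons (P.lf 0 599286 0) (P.cons (P.lf 178824 0 0) P.nil))))) (P.cons (P.cons (P.lf 3838326 0 0) (P.cons (P.lf 3285006 0 0) (P.cons (P.lf 0 763212 0) (P.cons (P.lf 0 151386 0) P.nil)))) (P.cons (P.cons (P.lf 342408 0 0) (P.cons (P.lf 291750 0 0) (P.cons (P.lf 0 69846 0) P.nil))) (P.cons (P.cons (P.lf 0 1032 0) (P.cons (P.lf 0 1878 0) P.nil)) (P.cons (P.cons (P.lf 0 1830 0) P.nil) P.nil)))))) 104886)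
 EL.nil))))))
noncomputable def S125_140_216_364_3 : EL := (EL.cons 0 (TM.mk (P.cons (P.lf 4217470410 0 0) (P.cons (P.lf 0 281370350 0) (P.cons (P.lf 0 10018764 0) (P.cons (P.lf 321929 0 0) (P.cons (P.lf 26059 0 0) (P.cons (P.lf 386 0 0) P.nil)))))) 230)
 (EL.cons 1 (TM.mk (P.cons (P.lf 1653076498 0 0) (P.cons (P.lf 72476017 0 0) (P.cons (P.lf 0 7522271 0) (P.cons (P.lf 0 359445 0) (P.cons (P.lf 615 0 0) (P.cons (P.lf 506 0 0) P.nil)))))) 138)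
 (EL.cons 5 (TM.mk (P.cons (P.lf 647938608 0 0) (P.cons (P.lf 100042792 0 0) (P.cons (P.lf 3562232 0 0) (P.cons (P.lf 0 114460 0) (P.cons (P.lf 0 9268 0) (P.cons (P.lf 0 138 0) P.nil)))))) 72)
 EL.nil)))
noncomputable def S125_140_216_364_4 : EL := (EL.cons 0 (TM.mk (P.cons (P.cons (P.lf 0 568387524 0) (P.cons (P.lf 0 66067358 0) (P.cons (P.lf 0 28488988 0) (P.lf 3165440 0 0)))) (P.cons (P.cons (P.lf 374958558 0 0) (P.cons (P.lf 0 10893649 0) (P.cons (P.lf 0 4697462 0) (P.lf 521936 0 0)))) (P.cons (P.cons (P.lf 0 12660586 0) (P.cons (P.lf 42307 0 0) (P.cons (P.lf 18244 0 0) (P.lf 0 2028 0)))) (P.cons (P.cons (P.lf 0 2236234 0) (P.cons (P.lf 97702 0 0) (P.cons (P.lf 42131 0 0) P.nil))) (P.cons (P.cons (P.lf 10875 0 0) (P.cons (P.lf 4505 0 0) P.nil)) (P.cons (P.cons (P.lf 7843 0 0) P.nil) P.nil)))))) 13406)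
 (EL.cons 1 (TM.mk (P.cons (P.cons (P.lf 0 222784741 0) (P.cons (P.lf 0 25895711 0) (P.cons (P.lf 0 11166521 0) (P.lf 1240723 0 0)))) (P.cons (P.cons (P.lf 122337714 0 0) (P.cons (P.lf 0 7132858 0) (P.cons (P.lf 0 3075766 0) (P.lf 341748 0 0)))) (P.cons (P.cons (P.lf 10127475 0 0) (P.cons (P.lf 0 590171 0) (P.cons (P.lf 0 254486 0) (P.lf 28275 0 0)))) (P.cons (P.cons (P.lf 0 731130 0) (P.cons (P.lf 9740 0 0) (P.cons (P.lf 4200 0 0) P.nil))) (P.cons (P.cons (P.lf 0 76305 0) (P.cons (P.lf 4239 0 0) P.nil)) (P.cons (P.cons (P.lf 0 20 0) P.nil) P.nil)))))) 6154)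
 (EL.cons 5 (TM.mk (P.cons (P.cons (P.lf 0 87322538 0) (P.cons (P.lf 0 10150062 0) (P.cons (P.lf 0 4376820 0) (P.lf 486312 0 0)))) (P.cons (P.cons (P.lf 38297144 0 0) (P.cons (P.lf 0 3917966 0) (P.cons (P.lf 0 1689470 0) (P.lf 187718 0 0)))) (P.cons (P.cons (P.lf 8816826 0 0) (P.cons (P.lf 0 593212 0) (P.cons (P.lf 0 255798 0) (P.lf 28420 0 0)))) (P.cons (P.cons (P.lf 374110 0 0) (P.cons (P.lf 0 39502 0) (P.cons (P.lf 0 17032 0) P.nil))) (P.cons (P.cons (P.lf 0 27474 0) (P.cons (P.lf 0 196 0) P.nil)) (P.cons (P.cons (P.lf 0 2732 0) P.nil) P.nil)))))) 3982)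
 EL.nil)))
noncomputable def S125_140_216_364_5 : EL := (EL.cons 0 (TM.mk (P.cons (P.cons (P.lf 76601455 0 0) (P.cons (P.lf 17807765 0 0) (P.cons (P.lf 8713863 0 0) (P.cons (P.lf 39355 0 0) (P.cons (P.lf 93267 0 0) (P.cons (P.lf 0 42764 0) P.nil)))))) (P.cons (P.cons (P.lf 0 95955658 0) (P.cons (P.lf 0 7623249 0) (P.cons (P.lf 0 2876881 0) (P.cons (P.lf 719142 0 0) (P.cons (P.lf 36979 0 0) P.nil))))) (P.cons (P.cons (P.lf 30528850 0 0) (P.cons (P.lf 0 2018049 0) (P.cons (P.lf 0 813557 0) (P.cons (P.lf 145543 0 0) P.nil)))) (P.cons (P.cons (P.lf 154499 0 0) (P.cons (P.lf 0 37448 0) (P.cons (P.lf 0 14751 0) P.nil))) (P.cons (P.cons (P.lf 0 272872 0) (P.cons (P.lf 20293 0 0) P.nil)) (P.cons (P.cons (P.lf 0 6335 0) P.nil) P.nil)))))) 125499)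
 (EL.cons 1 (TM.mk (P.cons (P.cons (P.lf 30024646 0 0) (P.cons (P.lf 6979918 0 0) (P.cons (P.lf 3415479 0 0) (P.cons (P.lf 15425 0 0) (P.cons (P.lf 36556 0 0) (P.cons (P.lf 0 16760 0) P.nil)))))) (P.cons (P.cons (P.lf 0 34291224 0) (P.cons (P.lf 0 2216311 0) (P.cons (P.lf 0 750009 0) (P.cons (P.lf 283578 0 0) (P.cons (P.lf 18534 0 0) P.nil))))) (P.cons (P.cons (P.lf 7964038 0 0) (P.cons (P.lf 0 1085038 0) (P.cons (P.lf 0 425784 0) (P.cons (P.lf 88290 0 0) P.nil)))) (P.cons (P.cons (P.lf 1197376 0 0) (P.cons (P.lf 0 115464 0) (P.cons (P.lf 0 45823 0) P.nil))) (P.cons (P.cons (P.lf 0 49325 0) (P.cons (P.lf 1406 0 0) P.nil)) (P.cons (P.cons (P.lf 0 10899 0) P.nil) P.nil)))))) 55807)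
 (EL.cons 5 (TM.mk (P.cons (P.cons (P.lf 11768438 0 0) (P.cons (P.lf 2735842 0 0) (P.cons (P.lf 1338728 0 0) (P.cons (P.lf 6046 0 0) (P.cons (P.lf 14328 0 0) (P.cons (P.lf 0 6568 0) P.nil)))))) (P.cons (P.cons (P.lf 0 12139660 0) (P.cons (P.lf 0 566232 0) (P.cons (P.lf 0 145964 0) (P.cons (P.lf 111820 0 0) (P.cons (P.lf 8848 0 0) P.nil))))) (P.cons (P.cons (P.lf 1696794 0 0) (P.cons (P.lf 0 507104 0) (P.cons (P.lf 0 192428 0) (P.cons (P.lf 46926 0 0) P.nil)))) (P.cons (P.cons (P.lf 748250 0 0) (P.cons (P.lf 0 95930 0) (P.cons (P.lf 0 37516 0) P.nil))) (P.cons (P.cons (P.lf 44768 0 0) (P.cons (P.lf 0 6884 0) P.nil)) (P.cons (P.cons (P.lf 0 3226 0) P.nil) P.nil)))))) 27258)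
 EL.nil)))
noncomputable def S125_140_216_364_6 : EL := (EL.cons 12 (TM.mk (P.lf 8589934592 0 0) 0)
 (EL.cons 3 (TM.mk (P.cons (P.lf 0 3009476490 0) (P.cons (P.lf 100389258 0 0) (P.cons (P.lf 5248942 0 0) (P.cons (P.lf 60232 0 0) (P.cons (P.lf 0 2711 0) (P.cons (P.lf 0 123 0) P.nil)))))) 70)
 (EL.cons 7 (TM.mk (P.cons (P.lf 0 1179592119 0) (P.cons (P.lf 0 91065487 0) (P.cons (P.lf 272589 0 0) (P.cons (P.lf 83145 0 0) (P.cons (P.lf 2049 0 0) (P.cons (P.lf 0 13 0) P.nil)))))) 46)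
 EL.nil)))
noncomputable def S125_140_216_364_7 : EL := (EL.cons 12 (TM.mk (P.cons (P.cons (P.lf 0 1157663526 0) (P.cons (P.lf 0 134562720 0) (P.cons (P.lf 0 58024960 0) (P.lf 6447216 0 0)))) (P.cons (P.cons (P.lf 686462980 0 0) (P.cons (P.lf 0 31165056 0) (P.cons (P.lf 0 13438720 0) (P.lf 1493184 0 0)))) (P.cons (P.cons (P.lf 17261140 0 0) (P.cons (P.lf 0 2312680 0) (P.cons (P.lf 0 997248 0) (P.lf 110800 0 0)))) (P.cons (P.cons (P.lf 0 1683982 0) (P.cons (P.lf 0 19056 0) (P.cons (P.lf 0 8216 0) P.nil))) (P.cons (P.cons (P.lf 0 94438 0) (P.cons (P.lf 5624 0 0) P.nil)) (P.cons (P.cons (P.lf 224 0 0) P.nil) P.nil)))))) 8730)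
 (EL.cons 3 (TM.mk (P.cons (P.cons (P.lf 3520860637 0 0) (P.cons (P.lf 0 94287874 0) (P.cons (P.lf 0 40657992 0) (P.lf 4517550 0 0)))) (P.cons (P.cons (P.lf 57869789 0 0) (P.cons (P.lf 0 18692072 0) (P.cons (P.lf 0 8060228 0) (P.lf 895574 0 0)))) (P.cons (P.cons (P.lf 0 18565555 0) (P.cons (P.lf 0 727594 0) (P.cons (P.lf 0 313742 0) (P.lf 34856 0 0)))) (P.cons (P.cons (P.lf 0 1891035 0) (P.cons (P.lf 80676 0 0) (P.cons (P.lf 34788 0 0) P.nil))) (P.cons (P.cons (P.lf 0 16565 0) (P.cons (P.lf 7562 0 0) P.nil)) (P.cons (P.cons (P.lf 5196 0 0) P.nil) P.nil)))))) 26715)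
 (EL.cons 7 (TM.mk (P.cons (P.cons (P.lf 0 2666965986 0) (P.cons (P.lf 146774672 0 0) (P.cons (P.lf 63290895 0 0) (P.lf 0 7032321 0)))) (P.cons (P.cons (P.lf 0 52495069 0) (P.cons (P.lf 16956030 0 0) (P.cons (P.lf 7311634 0 0) (P.lf 0 812404 0)))) (P.cons (P.cons (P.lf 19743140 0 0) (P.cons (P.lf 0 277294 0) (P.cons (P.lf 0 119571 0) (P.lf 13284 0 0)))) (P.cons (P.cons (P.lf 351232 0 0) (P.cons (P.lf 0 82140 0) (P.cons (P.lf 0 35419 0) P.nil))) (P.cons (P.cons (P.lf 0 61284 0) (P.cons (P.lf 0 674 0) P.nil)) (P.cons (P.cons (P.lf 0 2687 0) P.nil) P.nil)))))) 15351)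
 (EL.cons 10 (TM.mk (P.cons (P.cons (P.lf 0 383909073 0) (P.cons (P.lf 0 357646818 0) (P.cons (P.lf 36706197 0 0) (P.cons (P.lf 7633866 0 0) (P.lf 0 636153 0))))) (P.cons (P.cons (P.lf 0 59276193 0) (P.cons (P.lf 0 55221258 0) (P.cons (P.lf 5667495 0 0) (P.cons (P.lf 1178679 0 0) (P.lf 0 98223 0))))) (P.cons (P.cons (P.lf 0 2110650 0) (P.cons (P.lf 0 1966266 0) (P.cons (P.lf 201801 0 0) (P.cons (P.lf 41967 0 0) P.nil)))) (P.cons (P.cons (P.lf 67818 0 0) (P.cons (P.lf 63177 0 0) (P.cons (P.lf 0 6483 0) P.nil))) (P.cons (P.cons (P.lf 5490 0 0) (P.cons (P.lf 5115 0 0) P.nil)) (P.cons (P.cons (P.lf 81 0 0) P.nil) P.nil)))))) 5874)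
 EL.nil))))
noncomputable def S125_140_216_364_8 : EL := (EL.cons 12 (TM.mk (P.cons (P.cons (P.lf 156018048 0 0) (P.cons (P.lf 36269974 0 0) (P.cons (P.lf 17747968 0 0) (P.cons (P.lf 80160 0 0) (P.cons (P.lf 189964 0 0) (P.cons (P.lf 0 87100 0) P.nil)))))) (P.cons (P.cons (P.lf 0 185028918 0) (P.cons (P.lf 0 13106892 0) (P.cons (P.lf 0 4675428 0) (P.cons (P.lf 1470062 0 0) (P.cons (P.lf 87992 0 0) P.nil))))) (P.cons (P.cons (P.lf 50205996 0 0) (P.cons (P.lf 0 4898536 0) (P.cons (P.lf 0 1926778 0) (P.cons (P.lf 394702 0 0) P.nil)))) (P.cons (P.cons (P.lf 3212740 0 0) (P.cons (P.lf 0 436988 0) (P.cons (P.lf 0 171054 0) P.nil))) (P.cons (P.cons (P.lf 0 209008 0) (P.cons (P.lf 1320 0 0) P.nil)) (P.cons (P.cons (P.lf 0 21922 0) P.nil) P.nil)))))) 178280)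
 (EL.cons 3 (TM.mk (P.cons (P.cons (P.lf 0 894350372 0) (P.cons (P.lf 0 72188239 0) (P.cons (P.lf 0 27435791 0) (P.cons (P.lf 6643281 0 0) (P.cons (P.lf 332771 0 0) (P.cons (P.lf 0 152582 0) P.nil)))))) (P.cons (P.cons (P.lf 480491523 0 0) (P.cons (P.lf 0 42408689 0) (P.cons (P.lf 0 16699854 0) (P.cons (P.lf 3400771 0 0) (P.cons (P.lf 143041 0 0) P.nil))))) (P.cons (P.cons (P.lf 48060221 0 0) (P.cons (P.lf 0 6489648 0) (P.cons (P.lf 0 2536908 0) (P.cons (P.lf 536451 0 0) P.nil)))) (P.cons (P.cons (P.lf 0 2954703 0) (P.cons (P.lf 0 117105 0) (P.cons (P.lf 0 33950 0) P.nil))) (P.cons (P.cons (P.lf 0 612603 0) (P.cons (P.lf 54593 0 0) P.nil)) (P.cons (P.cons (P.lf 0 13062 0) P.nil) P.nil)))))) 408329)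
 (EL.cons 7 (TM.mk (P.cons (P.cons (P.lf 740277597 0 0) (P.cons (P.lf 48976018 0 0) (P.cons (P.lf 16809975 0 0) (P.cons (P.lf 0 6062757 0) (P.cons (P.lf 0 388318 0) (P.cons (P.lf 178046 0 0) P.nil)))))) (P.cons (P.cons (P.lf 0 435865294 0) (P.cons (P.lf 38469931 0 0) (P.cons (P.lf 15148830 0 0) (P.cons (P.lf 0 3084918 0) (P.cons (P.lf 0 129753 0) P.nil))))) (P.cons (P.cons (P.lf 0 19502251 0) (P.cons (P.lf 3760324 0 0) (P.cons (P.lf 1463869 0 0) (P.cons (P.lf 0 316095 0) P.nil)))) (P.cons (P.cons (P.lf 4873360 0 0) (P.cons (P.lf 0 237620 0) (P.cons (P.lf 0 103355 0) P.nil))) (P.cons (P.cons (P.lf 236744 0 0) (P.cons (P.lf 0 42629 0) P.nil)) (P.cons (P.cons (P.lf 0 20151 0) P.nil) P.nil)))))) 244965)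
 (EL.cons 10 (TM.mk (P.cons (P.cons (P.lf 103478676 0 0) (P.cons (P.lf 108427956 0 0) (P.cons (P.lf 6498024 0 0) (P.cons (P.lf 1047864 0 0) (P.cons (P.lf 0 1100466 0) (P.cons (P.lf 0 28098 0) P.nil)))))) (P.cons (P.cons (P.lf 0 45382758 0) (P.cons (P.lf 0 37635384 0) (P.cons (P.lf 10666422 0 0) (P.cons (P.lf 2101152 0 0) (P.cons (P.lf 0 566172 0) P.nil))))) (P.cons (P.cons (P.lf 0 10448088 0) (P.cons (P.lf 0 9030390 0) (P.cons (P.lf 1956960 0 0) (P.cons (P.lf 389250 0 0) P.nil)))) (P.cons (P.cons (P.lf 0 443322 0) (P.cons (P.lf 0 366186 0) (P.cons (P.lf 106176 0 0) P.nil))) (P.cons (P.cons (P.lf 32556 0 0) (P.cons (P.lf 30564 0 0) P.nil)) (P.cons (P.cons (P.lf 3234 0 0) P.nil) P.nil)))))) 270096)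
 EL.nil))))
noncomputable def S125_140_216_364_9 : EL := (EL.cons 3 (TM.mk (P.cons (P.lf 0 3009476490 0) (P.cons (P.lf 100389258 0 0) (P.cons (P.lf 5248942 0 0) (P.cons (P.lf 60232 0 0) (P.cons (P.lf 0 2711 0) (P.cons (P.lf 0 123 0) P.nil)))))) 70)
 (EL.cons 7 (TM.mk (P.cons (P.lf 0 1179592119 0) (P.cons (P.lf 0 91065487 0) (P.cons (P.lf 272589 0 0) (P.cons (P.lf 83145 0 0) (P.cons (P.lf 2049 0 0) (P.cons (P.lf 0 13 0) P.nil)))))) 46)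
 EL.nil))
noncomputable def S125_140_216_364_10 : EL := (EL.cons 3 (TM.mk (P.cons (P.cons (P.lf 405586459 0 0) (P.cons (P.lf 47143937 0 0) (P.cons (P.lf 20328996 0 0) (P.lf 0 2258775 0)))) (P.cons (P.cons (P.lf 0 254031175 0) (P.cons (P.lf 9346036 0 0) (P.cons (P.lf 4030114 0 0) (P.lf 0 447787 0)))) (P.cons (P.cons (P.lf 1267763 0 0) (P.cons (P.lf 363797 0 0) (P.cons (P.lf 156871 0 0) (P.lf 0 17428 0)))) (P.cons (P.cons (P.lf 1203060 0 0) (P.cons (P.lf 0 40338 0) (P.cons (P.lf 0 17394 0) P.nil))) (P.cons (P.cons (P.lf 29131 0 0) (P.cons (P.lf 0 3781 0) P.nil)) (P.cons (P.cons (P.lf 0 2289 0) P.nil) P.nil)))))) 6587)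
 (EL.cons 7 (TM.mk (P.cons (P.cons (P.lf 158973360 0 0) (P.cons (P.lf 18478502 0 0) (P.cons (P.lf 7968138 0 0) (P.lf 0 885348 0)))) (P.cons (P.cons (P.lf 0 81994003 0) (P.cons (P.lf 5706222 0 0) (P.cons (P.lf 2460586 0 0) (P.lf 0 273397 0)))) (P.cons (P.cons (P.lf 0 9684562 0) (P.cons (P.lf 643706 0 0) (P.cons (P.lf 277572 0 0) (P.lf 0 30840 0)))) (P.cons (P.cons (P.lf 58834 0 0) (P.cons (P.lf 24843 0 0) (P.cons (P.lf 10712 0 0) P.nil))) (P.cons (P.cons (P.lf 37737 0 0) (P.cons (P.lf 0 977 0) P.nil)) (P.cons (P.cons (P.lf 1249 0 0) P.nil) P.nil)))))) 3023)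
 EL.nil))
noncomputable def S125_140_216_364_11 : EL := (EL.cons 3 (TM.mk (P.cons (P.cons (P.lf 0 54660794 0) (P.cons (P.lf 0 12707155 0) (P.cons (P.lf 0 6217985 0) (P.cons (P.lf 0 28083 0) (P.cons (P.lf 0 66553 0) (P.cons (P.lf 30514 0 0) P.nil)))))) (P.cons (P.cons (P.lf 66648087 0 0) (P.cons (P.lf 5015869 0 0) (P.cons (P.lf 1845450 0 0) (P.cons (P.lf 0 514097 0) (P.cons (P.lf 0 28607 0) P.nil))))) (P.cons (P.cons (P.lf 0 19656697 0) (P.cons (P.lf 1585182 0 0) (P.cons (P.lf 631248 0 0) (P.cons (P.lf 0 121053 0) P.nil)))) (P.cons (P.cons (P.lf 0 650799 0) (P.cons (P.lf 88095 0 0) (P.cons (P.lf 34678 0 0) P.nil))) (P.cons (P.cons (P.lf 140103 0 0) (P.cons (P.lf 0 8665 0) P.nil)) (P.cons (P.cons (P.lf 7608 0 0) P.nil) P.nil)))))) 76843)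
 (EL.cons 7 (TM.mk (P.cons (P.cons (P.lf 0 21424803 0) (P.cons (P.lf 0 4980686 0) (P.cons (P.lf 0 2437197 0) (P.cons (P.lf 0 11007 0) (P.cons (P.lf 0 26086 0) (P.cons (P.lf 11960 0 0) P.nil)))))) (P.cons (P.cons (P.lf 23754638 0 0) (P.cons (P.lf 1415359 0 0) (P.cons (P.lf 453888 0 0) (P.cons (P.lf 0 202722 0) (P.cons (P.lf 0 14097 0) P.nil))))) (P.cons (P.cons (P.lf 0 4927897 0) (P.cons (P.lf 812782 0 0) (P.cons (P.lf 314719 0 0) (P.cons (P.lf 0 69783 0) P.nil)))) (P.cons (P.cons (P.lf 0 977798 0) (P.cons (P.lf 111874 0 0) (P.cons (P.lf 43939 0 0) P.nil))) (P.cons (P.cons (P.lf 0 5518 0) (P.cons (P.lf 4177 0 0) P.nil)) (P.cons (P.cons (P.lf 5769 0 0) P.nil) P.nil)))))) 34859)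
 EL.nil))
noncomputable def S125_140_216_364_12 : EL := (EL.cons 4 (TM.mk (P.cons (P.lf 3009476490 0 0) (P.cons (P.lf 0 100389258 0) (P.cons (P.lf 0 5248942 0) (P.cons (P.lf 0 60232 0) (P.cons (P.lf 2711 0 0) (P.cons (P.lf 123 0 0) P.nil)))))) 70)
 (EL.cons 8 (TM.mk (P.cons (P.lf 1179592119 0 0) (P.cons (P.lf 91065487 0 0) (P.cons (P.lf 0 272589 0) (P.cons (P.lf 0 83145 0) (P.cons (P.lf 0 2049 0) (P.cons (P.lf 13 0 0) P.nil)))))) 46)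
 EL.nil))
noncomputable def S125_140_216_364_13 : EL := (EL.cons 4 (TM.mk (P.cons (P.cons (P.lf 0 405586459 0) (P.cons (P.lf 0 47143937 0) (P.cons (P.lf 0 20328996 0) (P.lf 2258775 0 0)))) (P.cons (P.cons (P.lf 254031175 0 0) (P.cons (P.lf 0 9346036 0) (P.cons (P.lf 0 4030114 0) (P.lf 447787 0 0)))) (P.cons (P.cons (P.lf 0 1267763 0) (P.cons (P.lf 0 363797 0) (P.cons (P.lf 0 156871 0) (P.lf 17428 0 0)))) (P.cons (P.cons (P.lf 0 1203060 0) (P.cons (P.lf 40338 0 0) (P.cons (P.lf 17394 0 0) P.nil))) (P.cons (P.cons (P.lf 0 29131 0) (P.cons (P.lf 3781 0 0) P.nil)) (P.cons (P.cons (P.lf 2289 0 0) P.nil) P.nil)))))) 6587)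
 (EL.cons 8 (TM.mk (P.cons (P.cons (P.lf 0 158973360 0) (P.cons (P.lf 0 18478502 0) (P.cons (P.lf 0 7968138 0) (P.lf 885348 0 0)))) (P.cons (P.cons (P.lf 81994003 0 0) (P.cons (P.lf 0 5706222 0) (P.cons (P.lf 0 2460586 0) (P.lf 273397 0 0)))) (P.cons (P.cons (P.lf 9684562 0 0) (P.cons (P.lf 0 643706 0) (P.cons (P.lf 0 277572 0) (P.lf 30840 0 0)))) (P.cons (P.cons (P.lf 0 58834 0) (P.cons (P.lf 0 24843 0) (P.cons (P.lf 0 10712 0) P.nil))) (P.cons (P.cons (P.lf 0 37737 0) (P.cons (P.lf 977 0 0) P.nil)) (P.cons (P.cons (P.lf 0 1249 0) P.nil) P.nil)))))) 3023)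
 EL.nil))
noncomputable def S125_140_216_364_14 : EL := (EL.cons 4 (TM.mk (P.cons (P.cons (P.lf 54660794 0 0) (P.cons (P.lf 12707155 0 0) (P.cons (P.lf 6217985 0 0) (P.cons (P.lf 28083 0 0) (P.cons (P.lf 66553 0 0) (P.cons (P.lf 0 30514 0) P.nil)))))) (P.cons (P.cons (P.lf 0 66648087 0) (P.cons (P.lf 0 5015869 0) (P.cons (P.lf 0 1845450 0) (P.cons (P.lf 514097 0 0) (P.cons (P.lf 28607 0 0) P.nil))))) (P.cons (P.cons (P.lf 19656697 0 0) (P.cons (P.lf 0 1585182 0) (P.cons (P.lf 0 631248 0) (P.cons (P.lf 121053 0 0) P.nil)))) (P.cons (P.cons (P.lf 650799 0 0) (P.cons (P.lf 0 88095 0) (P.cons (P.lf 0 34678 0) P.nil))) (P.cons (P.cons (P.lf 0 140103 0) (P.cons (P.lf 8665 0 0) P.nil)) (P.cons (P.cons (P.lf 0 7608 0) P.nil) P.nil)))))) 76843)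
 (EL.cons 8 (TM.mk (P.cons (P.cons (P.lf 21424803 0 0) (P.cons (P.lf 4980686 0 0) (P.cons (P.lf 2437197 0 0) (P.cons (P.lf 11007 0 0) (P.cons (P.lf 26086 0 0) (P.cons (P.lf 0 11960 0) P.nil)))))) (P.cons (P.cons (P.lf 0 23754638 0) (P.cons (P.lf 0 1415359 0) (P.cons (P.lf 0 453888 0) (P.cons (P.lf 202722 0 0) (P.cons (P.lf 14097 0 0) P.nil))))) (P.cons (P.cons (P.lf 4927897 0 0) (P.cons (P.lf 0 812782 0) (P.cons (P.lf 0 314719 0) (P.cons (P.lf 69783 0 0) P.nil)))) (P.cons (P.cons (P.lf 977798 0 0) (P.cons (P.lf 0 111874 0) (P.cons (P.lf 0 43939 0) P.nil))) (P.cons (P.cons (P.lf 5518 0 0) (P.cons (P.lf 0 4177 0) P.nil)) (P.cons (P.cons (P.lf 0 5769 0) P.nil) P.nil)))))) 34859)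
 EL.nil))
noncomputable def S125_140_216_364_15 : EL := (EL.cons 4 (TM.mk (P.cons (P.lf 0 2249317552 0) (P.cons (P.lf 150064186 0 0) (P.cons (P.lf 5343341 0 0) (P.cons (P.lf 0 171695 0) (P.cons (P.lf 0 13898 0) (P.cons (P.lf 0 206 0) P.nil)))))) 126)
 (EL.cons 8 (TM.mk (P.cons (P.lf 0 881640799 0) (P.cons (P.lf 0 38653876 0) (P.cons (P.lf 4011878 0 0) (P.cons (P.lf 191704 0 0) (P.cons (P.lf 0 328 0) (P.cons (P.lf 0 270 0) P.nil)))))) 70)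
 EL.nil))
noncomputable def S125_140_216_364_16 : EL := (EL.cons 4 (TM.mk (P.cons (P.cons (P.lf 303140012 0 0) (P.cons (P.lf 35235924 0 0) (P.cons (P.lf 15194127 0 0) (P.lf 0 1688235 0)))) (P.cons (P.cons (P.lf 0 199977898 0) (P.cons (P.lf 5809946 0 0) (P.cons (P.lf 2505313 0 0) (P.lf 0 278366 0)))) (P.cons (P.cons (P.lf 6752312 0 0) (P.cons (P.lf 0 22563 0) (P.cons (P.lf 0 9730 0) (P.lf 1081 0 0)))) (P.cons (P.cons (P.lf 1192658 0 0) (P.cons (P.lf 0 52108 0) (P.cons (P.lf 0 22470 0) P.nil))) (P.cons (P.cons (P.lf 0 5800 0) (P.cons (P.lf 0 2402 0) P.nil)) (P.cons (P.cons (P.lf 0 4183 0) P.nil) P.nil)))))) 7159)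
 (EL.cons 8 (TM.mk (P.cons (P.cons (P.lf 118818529 0 0) (P.cons (P.lf 13811046 0 0) (P.cons (P.lf 5955478 0 0) (P.lf 0 661719 0)))) (P.cons (P.cons (P.lf 0 65246781 0) (P.cons (P.lf 3804191 0 0) (P.cons (P.lf 1640409 0 0) (P.lf 0 182266 0)))) (P.cons (P.cons (P.lf 0 5401320 0) (P.cons (P.lf 314758 0 0) (P.cons (P.lf 135726 0 0) (P.lf 0 15080 0)))) (P.cons (P.cons (P.lf 389936 0 0) (P.cons (P.lf 0 5195 0) (P.cons (P.lf 0 2240 0) P.nil))) (P.cons (P.cons (P.lf 40696 0 0) (P.cons (P.lf 0 2261 0) P.nil)) (P.cons (P.cons (P.lf 11 0 0) P.nil) P.nil)))))) 3272)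
 EL.nil))
noncomputable def S125_140_216_364_17 : EL := (EL.cons 4 (TM.mk (P.cons (P.cons (P.lf 0 40854109 0) (P.cons (P.lf 0 9497475 0) (P.cons (P.lf 0 4647393 0) (P.cons (P.lf 0 20989 0) (P.cons (P.lf 0 49742 0) (P.cons (P.lf 22807 0 0) P.nil)))))) (P.cons (P.cons (P.lf 51176351 0 0) (P.cons (P.lf 4065733 0 0) (P.cons (P.lf 1534336 0 0) (P.cons (P.lf 0 383542 0) (P.cons (P.lf 0 19722 0) P.nil))))) (P.cons (P.cons (P.lf 0 16282053 0) (P.cons (P.lf 1076293 0 0) (P.cons (P.lf 433897 0 0) (P.cons (P.lf 0 77623 0) P.nil)))) (P.cons (P.cons (P.lf 0 82399 0) (P.cons (P.lf 19972 0 0) (P.cons (P.lf 7867 0 0) P.nil))) (P.cons (P.cons (P.lf 145531 0 0) (P.cons (P.lf 0 10823 0) P.nil)) (P.cons (P.cons (P.lf 3378 0 0) P.nil) P.nil)))))) 66943)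
 (EL.cons 8 (TM.mk (P.cons (P.cons (P.lf 0 16013145 0) (P.cons (P.lf 0 3722623 0) (P.cons (P.lf 0 1821589 0) (P.cons (P.lf 0 8227 0) (P.cons (P.lf 0 19497 0) (P.cons (P.lf 8939 0 0) P.nil)))))) (P.cons (P.cons (P.lf 18288653 0 0) (P.cons (P.lf 1182033 0 0) (P.cons (P.lf 400005 0 0) (P.cons (P.lf 0 151242 0) (P.cons (P.lf 0 9885 0) P.nil))))) (P.cons (P.cons (P.lf 0 4247487 0) (P.cons (P.lf 578687 0 0) (P.cons (P.lf 227085 0 0) (P.cons (P.lf 0 47088 0) P.nil)))) (P.cons (P.cons (P.lf 0 638601 0) (P.cons (P.lf 61581 0 0) (P.cons (P.lf 24439 0 0) P.nil))) (P.cons (P.cons (P.lf 26307 0 0) (P.cons (P.lf 0 750 0) P.nil)) (P.cons (P.cons (P.lf 5813 0 0) P.nil) P.nil)))))) 29752)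
 EL.nil))
noncomputable def S125_140_216_364_18 : EL := (EL.cons 4 (TM.mk (P.cons (P.lf 1681165965 0 0) (P.cons (P.lf 0 168239564 0) (P.cons (P.lf 0 3184468 0) (P.cons (P.lf 423521 0 0) (P.cons (P.lf 16831 0 0) (P.cons (P.lf 0 367 0) P.nil)))))) 178)
 (EL.cons 8 (TM.mk (P.cons (P.lf 658948535 0 0) (P.cons (P.lf 6909337 0 0) (P.cons (P.lf 0 5111538 0) (P.cons (P.lf 0 106835 0) (P.cons (P.lf 10270 0 0) (P.cons (P.lf 557 0 0) P.nil)))))) 84)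
 EL.nil))
noncomputable def S125_140_216_364_19 : EL := (EL.cons 4 (TM.mk (P.cons (P.cons (P.lf 0 226570353 0) (P.cons (P.lf 0 26335737 0) (P.cons (P.lf 0 11356266 0) (P.lf 1261806 0 0)))) (P.cons (P.cons (P.lf 157023663 0 0) (P.cons (P.lf 0 3463920 0) (P.cons (P.lf 0 1493681 0) (P.lf 165962 0 0)))) (P.cons (P.cons (P.lf 0 9637424 0) (P.cons (P.lf 207650 0 0) (P.cons (P.lf 89541 0 0) (P.lf 0 9949 0)))) (P.cons (P.cons (P.lf 0 979212 0) (P.cons (P.lf 46484 0 0) (P.cons (P.lf 20044 0 0) P.nil))) (P.cons (P.cons (P.lf 39676 0 0) (P.cons (P.lf 530 0 0) P.nil)) (P.cons (P.cons (P.lf 4763 0 0) P.nil) P.nil)))))) 7032)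
 (EL.cons 8 (TM.mk (P.cons (P.cons (P.lf 0 88806343 0) (P.cons (P.lf 0 10322535 0) (P.cons (P.lf 0 4451193 0) (P.lf 494576 0 0)))) (P.cons (P.cons (P.lf 51728576 0 0) (P.cons (P.lf 0 2498960 0) (P.cons (P.lf 0 1077579 0) (P.lf 119730 0 0)))) (P.cons (P.cons (P.lf 2565170 0 0) (P.cons (P.lf 0 122404 0) (P.cons (P.lf 0 52781 0) (P.lf 5864 0 0)))) (P.cons (P.cons (P.lf 0 509386 0) (P.cons (P.lf 16896 0 0) (P.cons (P.lf 7286 0 0) P.nil))) (P.cons (P.cons (P.lf 0 28792 0) (P.cons (P.lf 2018 0 0) P.nil)) (P.cons (P.cons (P.lf 1474 0 0) P.nil) P.nil)))))) 3123)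
 EL.nil))
noncomputable def S125_140_216_364_20 : EL := (EL.cons 4 (TM.mk (P.cons (P.cons (P.lf 30534834 0 0) (P.cons (P.lf 7098522 0 0) (P.cons (P.lf 3473516 0 0) (P.cons (P.lf 15688 0 0) (P.cons (P.lf 37178 0 0) (P.cons (P.lf 0 17046 0) P.nil)))))) (P.cons (P.cons (P.lf 0 39268369 0) (P.cons (P.lf 0 3275566 0) (P.cons (P.lf 0 1262649 0) (P.cons (P.lf 286140 0 0) (P.cons (P.lf 13500 0 0) P.nil))))) (P.cons (P.cons (P.lf 13392064 0 0) (P.cons (P.lf 0 715447 0) (P.cons (P.lf 0 292104 0) (P.cons (P.lf 48426 0 0) P.nil)))) (P.cons (P.cons (P.lf 0 278254 0) (P.cons (P.lf 17063 0 0) (P.cons (P.lf 6867 0 0) P.nil))) (P.cons (P.cons (P.lf 0 131258 0) (P.cons (P.lf 10057 0 0) P.nil)) (P.cons (P.cons (P.lf 718 0 0) P.nil) P.nil)))))) 56416)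
 (EL.cons 8 (TM.mk (P.cons (P.cons (P.lf 11968410 0 0) (P.cons (P.lf 2782331 0 0) (P.cons (P.lf 1361476 0 0) (P.cons (P.lf 6149 0 0) (P.cons (P.lf 14572 0 0) (P.cons (P.lf 0 6681 0) P.nil)))))) (P.cons (P.cons (P.lf 0 14068390 0) (P.cons (P.lf 0 976278 0) (P.cons (P.lf 0 344384 0) (P.cons (P.lf 112835 0 0) (P.cons (P.lf 6902 0 0) P.nil))))) (P.cons (P.cons (P.lf 3609718 0 0) (P.cons (P.lf 0 407900 0) (P.cons (P.lf 0 162128 0) (P.cons (P.lf 31412 0 0) P.nil)))) (P.cons (P.cons (P.lf 395001 0 0) (P.cons (P.lf 0 30113 0) (P.cons (P.lf 0 12110 0) P.nil))) (P.cons (P.cons (P.lf 0 40836 0) (P.cons (P.lf 2871 0 0) P.nil)) (P.cons (P.cons (P.lf 0 4596 0) P.nil) P.nil)))))) 24539)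
 EL.nil))
noncomputable def S125_140_216_364_21 : EL := (EL.cons 4 (TM.mk (P.cons (P.cons (P.lf 0 3115274178 0) (P.cons (P.lf 141431811 0 0) (P.cons (P.lf 60986988 0 0) (P.lf 0 6776325 0)))) (P.cons (P.cons (P.lf 0 311900964 0) (P.cons (P.lf 28038108 0 0) (P.cons (P.lf 12090342 0 0) (P.lf 0 1343361 0)))) (P.cons (P.cons (P.lf 19833318 0 0) (P.cons (P.lf 1091391 0 0) (P.cons (P.lf 470613 0 0) (P.lf 0 52284 0)))) (P.cons (P.cons (P.lf 3094095 0 0) (P.cons (P.lf 0 121014 0) (P.cons (P.lf 0 52182 0) P.nil))) (P.cons (P.cons (P.lf 45696 0 0) (P.cons (P.lf 0 11343 0) P.nil)) (P.cons (P.cons (P.lf 0 7485 0) P.nil) P.nil)))))) 20109)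
 (EL.cons 8 (TM.mk (P.cons (P.cons (P.lf 2825939346 0 0) (P.cons (P.lf 0 128296170 0) (P.cons (P.lf 0 55322757 0) (P.lf 6146973 0 0)))) (P.cons (P.cons (P.lf 0 29498934 0) (P.cons (P.lf 0 11249808 0) (P.cons (P.lf 0 4851048 0) (P.lf 539007 0 0)))) (P.cons (P.cons (P.lf 0 29427702 0) (P.cons (P.lf 921000 0 0) (P.cons (P.lf 397143 0 0) (P.lf 0 44124 0)))) (P.cons (P.cons (P.lf 0 292398 0) (P.cons (P.lf 106983 0 0) (P.cons (P.lf 46131 0 0) P.nil))) (P.cons (P.cons (P.lf 99021 0 0) (P.cons (P.lf 0 303 0) P.nil)) (P.cons (P.cons (P.lf 3936 0 0) P.nil) P.nil)))))) 12309)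
 (EL.cons 11 (TM.mk (P.cons (P.cons (P.lf 383909073 0 0) (P.cons (P.lf 357646818 0 0) (P.cons (P.lf 0 36706197 0) (P.cons (P.lf 0 7633866 0) (P.lf 636153 0 0))))) (P.cons (P.cons (P.lf 59276193 0 0) (P.cons (P.lf 55221258 0 0) (P.cons (P.lf 0 5667495 0) (P.cons (P.lf 0 1178679 0) (P.lf 98223 0 0))))) (P.cons (P.cons (P.lf 2110650 0 0) (P.cons (P.lf 1966266 0 0) (P.cons (P.lf 0 201801 0) (P.cons (P.lf 0 41967 0) P.nil)))) (P.cons (P.cons (P.lf 0 67818 0) (P.cons (P.lf 0 63177 0) (P.cons (P.lf 6483 0 0) P.nil))) (P.cons (P.cons (P.lf 0 5490 0) (P.cons (P.lf 0 5115 0) P.nil)) (P.cons (P.cons (P.lf 0 81 0) P.nil) P.nil)))))) 5874)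
 EL.nil)))
noncomputable def S125_140_216_364_22 : EL := (EL.cons 4 (TM.mk (P.cons (P.cons (P.lf 419844789 0 0) (P.cons (P.lf 29740542 0 0) (P.cons (P.lf 10608903 0 0) (P.cons (P.lf 0 3335682 0) (P.cons (P.lf 0 199662 0) (P.cons (P.lf 91548 0 0) P.nil)))))) (P.cons (P.cons (P.lf 0 206921718 0) (P.cons (P.lf 23712279 0 0) (P.cons (P.lf 9272652 0 0) (P.cons (P.lf 0 1957434 0) (P.cons (P.lf 0 85824 0) P.nil))))) (P.cons (P.cons (P.lf 0 33858459 0) (P.cons (P.lf 4037415 0 0) (P.cons (P.lf 1584078 0 0) (P.cons (P.lf 0 328752 0) P.nil)))) (P.cons (P.cons (P.lf 1151952 0 0) (P.cons (P.lf 102600 0 0) (P.cons (P.lf 34314 0 0) P.nil))) (P.cons (P.cons (P.lf 376353 0 0) (P.cons (P.lf 0 31629 0) P.nil)) (P.cons (P.cons (P.lf 10335 0 0) P.nil) P.nil)))))) 165732)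
 (EL.cons 8 (TM.mk (P.cons (P.cons (P.lf 0 380851200 0) (P.cons (P.lf 0 26978352 0) (P.cons (P.lf 0 9623586 0) (P.cons (P.lf 3025875 0 0) (P.cons (P.lf 181116 0 0) (P.cons (P.lf 0 83043 0) P.nil)))))) (P.cons (P.cons (P.lf 229809966 0 0) (P.cons (P.lf 0 18527286 0) (P.cons (P.lf 0 7347471 0) (P.cons (P.lf 1441098 0 0) (P.cons (P.lf 57828 0 0) P.nil))))) (P.cons (P.cons (P.lf 7287177 0 0) (P.cons (P.lf 0 1473771 0) (P.cons (P.lf 0 574575 0) (P.cons (P.lf 123156 0 0) P.nil)))) (P.cons (P.cons (P.lf 0 2925579 0) (P.cons (P.lf 174747 0 0) (P.cons (P.lf 73647 0 0) P.nil))) (P.cons (P.cons (P.lf 0 121131 0) (P.cons (P.lf 23403 0 0) P.nil)) (P.cons (P.cons (P.lf 12960 0 0) P.nil) P.nil)))))) 105042)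
 (EL.cons 11 (TM.mk (P.cons (P.cons (P.lf 0 51739338 0) (P.cons (P.lf 0 54213978 0) (P.cons (P.lf 0 3249012 0) (P.cons (P.lf 0 523932 0) (P.cons (P.lf 550233 0 0) (P.cons (P.lf 14049 0 0) P.nil)))))) (P.cons (P.cons (P.lf 22691379 0 0) (P.cons (P.lf 18817692 0 0) (P.cons (P.lf 0 5333211 0) (P.cons (P.lf 0 1050576 0) (P.cons (P.lf 283086 0 0) P.nil))))) (P.cons (P.cons (P.lf 5224044 0 0) (P.cons (P.lf 4515195 0 0) (P.cons (P.lf 0 978480 0) (P.cons (P.lf 0 194625 0) P.nil)))) (P.cons (P.cons (P.lf 221661 0 0) (P.cons (P.lf 183093 0 0) (P.cons (P.lf 0 53088 0) P.nil))) (P.cons (P.cons (P.lf 0 16278 0) (P.cons (P.lf 0 15282 0) P.nil)) (P.cons (P.cons (P.lf 0 1617 0) P.nil) P.nil)))))) 135048)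
 EL.nil)))
noncomputable def S125_140_216_364_23 : EL := (EL.cons 4 (TM.mk (P.cons (P.cons (P.lf 2328391968 0 0) (P.cons (P.lf 0 105707772 0) (P.cons (P.lf 0 45582378 0) (P.lf 5064702 0 0)))) (P.cons (P.cons (P.lf 155448552 0 0) (P.cons (P.lf 0 17429835 0) (P.cons (P.lf 0 7515936 0) (P.lf 835095 0 0)))) (P.cons (P.cons (P.lf 0 26660985 0) (P.cons (P.lf 67695 0 0) (P.cons (P.lf 29196 0 0) (P.lf 0 3246 0)))) (P.cons (P.cons (P.lf 0 2271270 0) (P.cons (P.lf 156321 0 0) (P.cons (P.lf 67407 0 0) P.nil))) (P.cons (P.cons (P.lf 66273 0 0) (P.cons (P.lf 7206 0 0) P.nil)) (P.cons (P.cons (P.lf 11367 0 0) P.nil) P.nil)))))) 21972)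
 (EL.cons 8 (TM.mk (P.cons (P.cons (P.lf 0 2112139767 0) (P.cons (P.lf 95890041 0 0) (P.cons (P.lf 41348868 0 0) (P.lf 0 4594317 0)))) (P.cons (P.cons (P.lf 92503998 0 0) (P.cons (P.lf 5209563 0 0) (P.cons (P.lf 2246424 0 0) (P.lf 0 249603 0)))) (P.cons (P.cons (P.lf 24943002 0 0) (P.cons (P.lf 0 1136091 0) (P.cons (P.lf 0 489891 0) (P.lf 54429 0 0)))) (P.cons (P.cons (P.lf 0 511329 0) (P.cons (P.lf 0 73581 0) (P.cons (P.lf 0 31728 0) P.nil))) (P.cons (P.cons (P.lf 0 122004 0) (P.cons (P.lf 4011 0 0) P.nil)) (P.cons (P.cons (P.lf 0 1359 0) P.nil) P.nil)))))) 13878)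
 (EL.cons 11 (TM.mk (P.cons (P.cons (P.lf 0 286938081 0) (P.cons (P.lf 0 267309369 0) (P.cons (P.lf 27434634 0 0) (P.cons (P.lf 5705637 0 0) (P.lf 0 475467 0))))) (P.cons (P.cons (P.lf 0 34732113 0) (P.cons (P.lf 0 32356176 0) (P.cons (P.lf 3320793 0 0) (P.cons (P.lf 690630 0 0) (P.lf 0 57552 0))))) (P.cons (P.cons (P.lf 400806 0 0) (P.cons (P.lf 373386 0 0) (P.cons (P.lf 0 38322 0) (P.cons (P.lf 0 7971 0) P.nil)))) (P.cons (P.cons (P.lf 186324 0 0) (P.cons (P.lf 173577 0 0) (P.cons (P.lf 0 17811 0) P.nil))) (P.cons (P.cons (P.lf 5790 0 0) (P.cons (P.lf 5394 0 0) P.nil)) (P.cons (P.cons (P.lf 0 183 0) P.nil) P.nil)))))) 11676)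
 EL.nil)))
noncomputable def S125_140_216_364_24 : EL := (EL.cons 4 (TM.mk (P.cons (P.cons (P.lf 0 313796853 0) (P.cons (P.lf 0 22228425 0) (P.cons (P.lf 0 7929216 0) (P.cons (P.lf 2493126 0 0) (P.cons (P.lf 149229 0 0) (P.cons (P.lf 0 68424 0) P.nil)))))) (P.cons (P.cons (P.lf 165123231 0 0) (P.cons (P.lf 0 16981341 0) (P.cons (P.lf 0 6665985 0) (P.cons (P.lf 1379844 0 0) (P.cons (P.lf 59166 0 0) P.nil))))) (P.cons (P.cons (P.lf 20694549 0 0) (P.cons (P.lf 0 2387649 0) (P.cons (P.lf 0 938943 0) (P.cons (P.lf 192561 0 0) P.nil)))) (P.cons (P.cons (P.lf 0 1968600 0) (P.cons (P.lf 55329 0 0) (P.cons (P.lf 26091 0 0) P.nil))) (P.cons (P.cons (P.lf 0 300084 0) (P.cons (P.lf 31794 0 0) P.nil)) (P.cons (P.cons (P.lf 2775 0 0) P.nil) P.nil)))))) 112704)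
 (EL.cons 8 (TM.mk (P.cons (P.cons (P.lf 284652594 0 0) (P.cons (P.lf 20163933 0 0) (P.cons (P.lf 7192779 0 0) (P.cons (P.lf 0 2261574 0) (P.cons (P.lf 0 135369 0) (P.cons (P.lf 62067 0 0) P.nil)))))) (P.cons (P.cons (P.lf 0 181257987 0) (P.cons (P.lf 13174884 0 0) (P.cons (P.lf 5251650 0 0) (P.cons (P.lf 0 1001652 0) (P.cons (P.lf 0 38706 0) P.nil))))) (P.cons (P.cons (P.lf 0 213384 0) (P.cons (P.lf 604422 0 0) (P.cons (P.lf 233712 0 0) (P.cons (P.lf 0 52173 0) P.nil)))) (P.cons (P.cons (P.lf 2662176 0 0) (P.cons (P.lf 0 191907 0) (P.cons (P.lf 0 79092 0) P.nil))) (P.cons (P.cons (P.lf 30786 0 0) (P.cons (P.lf 0 15315 0) P.nil)) (P.cons (P.cons (P.lf 0 16554 0) P.nil) P.nil)))))) 71238)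
 (EL.cons 11 (TM.mk (P.cons (P.cons (P.lf 38670579 0 0) (P.cons (P.lf 40520154 0 0) (P.cons (P.lf 2428350 0 0) (P.cons (P.lf 391593 0 0) (P.cons (P.lf 0 411252 0) (P.cons (P.lf 0 10500 0) P.nil)))))) (P.cons (P.cons (P.lf 0 18249762 0) (P.cons (P.lf 0 15416220 0) (P.cons (P.lf 3905100 0 0) (P.cons (P.lf 772149 0 0) (P.cons (P.lf 0 197862 0) P.nil))))) (P.cons (P.cons (P.lf 0 3406215 0) (P.cons (P.lf 0 2976219 0) (P.cons (P.lf 594126 0 0) (P.cons (P.lf 118590 0 0) P.nil)))) (P.cons (P.cons (P.lf 0 6621 0) (P.cons (P.lf 0 552 0) (P.cons (P.lf 8283 0 0) P.nil))) (P.cons (P.cons (P.lf 24876 0 0) (P.cons (P.lf 22188 0 0) P.nil)) (P.cons (P.cons (P.lf 1158 0 0) P.nil) P.nil)))))) 89532)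
 EL.nil)))
noncomputable def S125_140_216_364_25 : EL := (EL.cons 4 (TM.mk (P.cons (P.cons (P.lf 0 1740267099 0) (P.cons (P.lf 79007211 0 0) (P.cons (P.lf 34068798 0 0) (P.lf 0 3785418 0)))) (P.cons (P.cons (P.lf 0 58132713 0) (P.cons (P.lf 10391760 0 0) (P.cons (P.lf 4481040 0 0) (P.lf 0 497886 0)))) (P.cons (P.cons (P.lf 26837628 0 0) (P.cons (P.lf 0 622953 0) (P.cons (P.lf 0 268629 0) (P.lf 29850 0 0)))) (P.cons (P.cons (P.lf 1270335 0 0) (P.cons (P.lf 0 139452 0) (P.cons (P.lf 0 60132 0) P.nil))) (P.cons (P.cons (P.lf 0 140157 0) (P.cons (P.lf 0 1590 0) P.nil)) (P.cons (P.cons (P.lf 0 10380 0) P.nil) P.nil)))))) 21129)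
 (EL.cons 8 (TM.mk (P.cons (P.cons (P.lf 1578637701 0 0) (P.cons (P.lf 0 71669325 0) (P.cons (P.lf 0 30904620 0) (P.lf 3433845 0 0)))) (P.cons (P.cons (P.lf 0 121798305 0) (P.cons (P.lf 0 1502961 0) (P.cons (P.lf 0 648096 0) (P.lf 72009 0 0)))) (P.cons (P.cons (P.lf 0 19089744 0) (P.cons (P.lf 1104012 0 0) (P.cons (P.lf 476061 0 0) (P.lf 0 52893 0)))) (P.cons (P.cons (P.lf 1093041 0 0) (P.cons (P.lf 34896 0 0) (P.cons (P.lf 15045 0 0) P.nil))) (P.cons (P.cons (P.lf 113760 0 0) (P.cons (P.lf 0 6300 0) P.nil)) (P.cons (P.cons (P.lf 0 2313 0) P.nil) P.nil)))))) 13626)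
 (EL.cons 11 (TM.mk (P.cons (P.cons (P.lf 214460841 0 0) (P.cons (P.lf 199790115 0 0) (P.cons (P.lf 0 20504964 0) (P.cons (P.lf 0 4264461 0) (P.lf 355368 0 0))))) (P.cons (P.cons (P.lf 18805260 0 0) (P.cons (P.lf 17518839 0 0) (P.cons (P.lf 0 1797999 0) (P.cons (P.lf 0 373932 0) (P.lf 31161 0 0))))) (P.cons (P.cons (P.lf 0 1539555 0) (P.cons (P.lf 0 1434237 0) (P.cons (P.lf 147198 0 0) (P.cons (P.lf 30612 0 0) P.nil)))) (P.cons (P.cons (P.lf 0 178836 0) (P.cons (P.lf 0 166602 0) (P.cons (P.lf 17097 0 0) P.nil))) (P.cons (P.cons (P.lf 510 0 0) (P.cons (P.lf 477 0 0) P.nil)) (P.cons (P.cons (P.lf 561 0 0) P.nil) P.nil)))))) 13386)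
 EL.nil)))
noncomputable def S125_140_216_364_26 : EL := (EL.cons 4 (TM.mk (P.cons (P.cons (P.lf 234535398 0 0) (P.cons (P.lf 16613781 0 0) (P.cons (P.lf 5926389 0 0) (P.cons (P.lf 0 1863390 0) (P.cons (P.lf 0 111534 0) (P.cons (P.lf 51138 0 0) P.nil)))))) (P.cons (P.cons (P.lf 0 131238579 0) (P.cons (P.lf 12137853 0 0) (P.cons (P.lf 4784544 0 0) (P.cons (P.lf 0 969153 0) (P.cons (P.lf 0 40500 0) P.nil))))) (P.cons (P.cons (P.lf 0 11759565 0) (P.cons (P.lf 1332201 0 0) (P.cons (P.lf 525243 0 0) (P.cons (P.lf 0 106272 0) P.nil)))) (P.cons (P.cons (P.lf 2197869 0 0) (P.cons (P.lf 0 123351 0) (P.cons (P.lf 0 51720 0) P.nil))) (P.cons (P.cons (P.lf 204864 0 0) (P.cons (P.lf 0 25734 0) P.nil)) (P.cons (P.cons (P.lf 0 11916 0) P.nil) P.nil)))))) 80895)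
 (EL.cons 8 (TM.mk (P.cons (P.cons (P.lf 0 212752641 0) (P.cons (P.lf 0 15070755 0) (P.cons (P.lf 0 5375967 0) (P.cons (P.lf 1690326 0 0) (P.cons (P.lf 101175 0 0) (P.cons (P.lf 0 46389 0) P.nil)))))) (P.cons (P.cons (P.lf 142571259 0 0) (P.cons (P.lf 0 9344334 0) (P.cons (P.lf 0 3745812 0) (P.cons (P.lf 692262 0 0) (P.cons (P.lf 25554 0 0) P.nil))))) (P.cons (P.cons (P.lf 0 3988554 0) (P.cons (P.lf 0 96993 0) (P.cons (P.lf 0 34368 0) (P.cons (P.lf 11073 0 0) P.nil)))) (P.cons (P.cons (P.lf 0 2227089 0) (P.cons (P.lf 175980 0 0) (P.cons (P.lf 71895 0 0) P.nil))) (P.cons (P.cons (P.lf 40179 0 0) (P.cons (P.lf 7632 0 0) P.nil)) (P.cons (P.cons (P.lf 16719 0 0) P.nil) P.nil)))))) 50811)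
 (EL.cons 11 (TM.mk (P.cons (P.cons (P.lf 0 28902837 0) (P.cons (P.lf 0 30285231 0) (P.cons (P.lf 0 1814976 0) (P.cons (P.lf 0 292680 0) (P.cons (P.lf 307374 0 0) (P.cons (P.lf 7848 0 0) P.nil)))))) (P.cons (P.cons (P.lf 14604216 0 0) (P.cons (P.lf 12532506 0 0) (P.cons (P.lf 0 2858172 0) (P.cons (P.lf 0 567348 0) (P.cons (P.lf 137631 0 0) P.nil))))) (P.cons (P.cons (P.lf 2141253 0 0) (P.cons (P.lf 1892925 0 0) (P.cons (P.lf 0 343527 0) (P.cons (P.lf 0 68874 0) P.nil)))) (P.cons (P.cons (P.lf 0 103185 0) (P.cons (P.lf 0 93279 0) (P.cons (P.lf 13746 0 0) P.nil))) (P.cons (P.cons (P.lf 0 23496 0) (P.cons (P.lf 0 20736 0) P.nil)) (P.cons (P.cons (P.lf 0 291 0) P.nil) P.nil)))))) 63963)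
 EL.nil)))
noncomputable def S125_140_216_364_27 : EL := (EL.cons 13 (TM.mk (P.lf 0 4294967296 0) 0)
 EL.nil)
noncomputable def S125_140_216_364_28 : EL := (EL.cons 13 (TM.mk (P.cons (P.cons (P.lf 578831763 0 0) (P.cons (P.lf 67281360 0 0) (P.cons (P.lf 29012480 0 0) (P.lf 0 3223608 0)))) (P.cons (P.cons (P.lf 0 343231490 0) (P.cons (P.lf 15582528 0 0) (P.cons (P.lf 6719360 0 0) (P.lf 0 746592 0)))) (P.cons (P.cons (P.lf 0 8630570 0) (P.cons (P.lf 1156340 0 0) (P.cons (P.lf 498624 0 0) (P.lf 0 55400 0)))) (P.cons (P.cons (P.lf 841991 0 0) (P.cons (P.lf 9528 0 0) (P.cons (P.lf 4108 0 0) P.nil))) (P.cons (P.cons (P.lf 47219 0 0) (P.cons (P.lf 0 2812 0) P.nil)) (P.cons (P.cons (P.lf 0 112 0) P.nil) P.nil)))))) 4365)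
 EL.nil)
noncomputable def S125_140_216_364_29 : EL := (EL.cons 13 (TM.mk (P.cons (P.cons (P.lf 0 78009024 0) (P.cons (P.lf 0 18134987 0) (P.cons (P.lf 0 8873984 0) (P.cons (P.lf 0 40080 0) (P.cons (P.lf 0 94982 0) (P.cons (P.lf 43550 0 0) P.nil)))))) (P.cons (P.cons (P.lf 92514459 0 0) (P.cons (P.lf 6553446 0 0) (P.cons (P.lf 2337714 0 0) (P.cons (P.lf 0 735031 0) (P.cons (P.lf 0 43996 0) P.nil))))) (P.cons (P.cons (P.lf 0 25102998 0) (P.cons (P.lf 2449268 0 0) (P.cons (P.lf 963389 0 0) (P.cons (P.lf 0 197351 0) P.nil)))) (P.cons (P.cons (P.lf 0 1606370 0) (P.cons (P.lf 218494 0 0) (P.cons (P.lf 85527 0 0) P.nil))) (P.cons (P.cons (P.lf 104504 0 0) (P.cons (P.lf 0 660 0) P.nil)) (P.cons (P.cons (P.lf 10961 0 0) P.nil) P.nil)))))) 89140)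
 EL.nil)
noncomputable def S125_140_216_364_30 : EL := (EL.cons 13 (TM.mk (P.cons (P.lf 3210108256 0 0) (P.cons (P.lf 0 107081876 0) (P.cons (P.lf 0 5598872 0) (P.cons (P.lf 0 64248 0) (P.cons (P.lf 2892 0 0) (P.cons (P.lf 132 0 0) P.nil)))))) 68)
 EL.nil)
noncomputable def S125_140_216_364_31 : EL := (EL.cons 13 (TM.mk (P.cons (P.cons (P.lf 0 432625557 0) (P.cons (P.lf 0 50286867 0) (P.cons (P.lf 0 21684263 0) (P.lf 2409361 0 0)))) (P.cons (P.cons (P.lf 270966587 0 0) (P.cons (P.lf 0 9969106 0) (P.cons (P.lf 0 4298789 0) (P.lf 477640 0 0)))) (P.cons (P.cons (P.lf 0 1352281 0) (P.cons (P.lf 0 388051 0) (P.cons (P.lf 0 167330 0) (P.lf 18590 0 0)))) (P.cons (P.cons (P.lf 0 1283264 0) (P.cons (P.lf 43028 0 0) (P.cons (P.lf 18554 0 0) P.nil))) (P.cons (P.cons (P.lf 0 31074 0) (P.cons (P.lf 4034 0 0) P.nil)) (P.cons (P.cons (P.lf 2442 0 0) P.nil) P.nil)))))) 7006)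
 EL.nil)
noncomputable def S125_140_216_364_32 : EL := (EL.cons 13 (TM.mk (P.cons (P.cons (P.lf 58304847 0 0) (P.cons (P.lf 13554299 0 0) (P.cons (P.lf 6632518 0 0) (P.cons (P.lf 29956 0 0) (P.cons (P.lf 70990 0 0) (P.cons (P.lf 0 32549 0) P.nil)))))) (P.cons (P.cons (P.lf 0 71091293 0) (P.cons (P.lf 0 5350261 0) (P.cons (P.lf 0 1968480 0) (P.cons (P.lf 548371 0 0) (P.cons (P.lf 30515 0 0) P.nil))))) (P.cons (P.cons (P.lf 20967144 0 0) (P.cons (P.lf 0 1690861 0) (P.cons (P.lf 0 673332 0) (P.cons (P.lf 129124 0 0) P.nil)))) (P.cons (P.cons (P.lf 694186 0 0) (P.cons (P.lf 0 93968 0) (P.cons (P.lf 0 36990 0) P.nil))) (P.cons (P.cons (P.lf 0 149444 0) (P.cons (P.lf 9243 0 0) P.nil)) (P.cons (P.cons (P.lf 0 8116 0) P.nil) P.nil)))))) 81943)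
 EL.nil)
noncomputable def S125_140_216_364_33 : EL := (EL.cons 14 (TM.mk (P.lf 8589934592 0 0) 0)
 EL.nil)
noncomputable def S125_140_216_364_34 : EL := (EL.cons 14 (TM.mk (P.cons (P.cons (P.lf 0 1157663526 0) (P.cons (P.lf 0 134562720 0) (P.cons (P.lf 0 58024960 0) (P.lf 6447216 0 0)))) (P.cons (P.cons (P.lf 686462980 0 0) (P.cons (P.lf 0 31165056 0) (P.cons (P.lf 0 13438720 0) (P.lf 1493184 0 0)))) (P.cons (P.cons (P.lf 17261140 0 0) (P.cons (P.lf 0 2312680 0) (P.cons (P.lf 0 997248 0) (P.lf 110800 0 0)))) (P.cons (P.cons (P.lf 0 1683982 0) (P.cons (P.lf 0 19056 0) (P.cons (P.lf 0 8216 0) P.nil))) (P.cons (P.cons (P.lf 0 94438 0) (P.cons (P.lf 5624 0 0) P.nil)) (P.cons (P.cons (P.lf 224 0 0) P.nil) P.nil)))))) 8730)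
 EL.nil)
noncomputable def S125_140_216_364_35 : EL := (EL.cons 14 (TM.mk (P.cons (P.cons (P.lf 156018048 0 0) (P.cons (P.lf 36269974 0 0) (P.cons (P.lf 17747968 0 0) (P.cons (P.lf 80160 0 0) (P.cons (P.lf 189964 0 0) (P.cons (P.lf 0 87100 0) P.nil)))))) (P.cons (P.cons (P.lf 0 185028918 0) (P.cons (P.lf 0 13106892 0) (P.cons (P.lf 0 4675428 0) (P.cons (P.lf 1470062 0 0) (P.cons (P.lf 87992 0 0) P.nil))))) (P.cons (P.cons (P.lf 50205996 0 0) (P.cons (P.lf 0 4898536 0) (P.cons (P.lf 0 1926778 0) (P.cons (P.lf 394702 0 0) P.nil)))) (P.cons (P.cons (P.lf 3212740 0 0) (P.cons (P.lf 0 436988 0) (P.cons (P.lf 0 171054 0) P.nil))) (P.cons (P.cons (P.lf 0 209008 0) (P.cons (P.lf 1320 0 0) P.nil)) (P.cons (P.cons (P.lf 0 21922 0) P.nil) P.nil)))))) 178280)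
 EL.nil)
noncomputable def S125_140_216_364_36 : EL := (EL.cons 14 (TM.mk (P.cons (P.lf 0 6420216512 0) (P.cons (P.lf 214163752 0 0) (P.cons (P.lf 11197744 0 0) (P.cons (P.lf 128496 0 0) (P.cons (P.lf 0 5784 0) (P.cons (P.lf 0 264 0) P.nil)))))) 136)
 EL.nil)
noncomputable def S125_140_216_364_37 : EL := (EL.cons 14 (TM.mk (P.cons (P.cons (P.lf 865251114 0 0) (P.cons (P.lf 100573734 0 0) (P.cons (P.lf 43368526 0 0) (P.lf 0 4818722 0)))) (P.cons (P.cons (P.lf 0 541933174 0) (P.cons (P.lf 19938212 0 0) (P.cons (P.lf 8597578 0 0) (P.lf 0 955280 0)))) (P.cons (P.cons (P.lf 2704562 0 0) (P.cons (P.lf 776102 0 0) (P.cons (P.lf 334660 0 0) (P.lf 0 37180 0)))) (P.cons (P.cons (P.lf 2566528 0 0) (P.cons (P.lf 0 86056 0) (P.cons (P.lf 0 37108 0) P.nil))) (P.cons (P.cons (P.lf 62148 0 0) (P.cons (P.lf 0 8068 0) P.nil)) (P.cons (P.cons (P.lf 0 4884 0) P.nil) P.nil)))))) 14012)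
 EL.nil)
noncomputable def S125_140_216_364_38 : EL := (EL.cons 14 (TM.mk (P.cons (P.cons (P.lf 0 116609694 0) (P.cons (P.lf 0 27108598 0) (P.cons (P.lf 0 13265036 0) (P.cons (P.lf 0 59912 0) (P.cons (P.lf 0 141980 0) (P.cons (P.lf 65098 0 0) P.nil)))))) (P.cons (P.cons (P.lf 142182586 0 0) (P.cons (P.lf 10700522 0 0) (P.cons (P.lf 3936960 0 0) (P.cons (P.lf 0 1096742 0) (P.cons (P.lf 0 61030 0) P.nil))))) (P.cons (P.cons (P.lf 0 41934288 0) (P.cons (P.lf 3381722 0 0) (P.cons (P.lf 1346664 0 0) (P.cons (P.lf 0 258248 0) P.nil)))) (P.cons (P.cons (P.lf 0 1388372 0) (P.cons (P.lf 187936 0 0) (P.cons (P.lf 73980 0 0) P.nil))) (P.cons (P.cons (P.lf 298888 0 0) (P.cons (P.lf 0 18486 0) P.nil)) (P.cons (P.cons (P.lf 16232 0 0) P.nil) P.nil)))))) 163886)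
 EL.nil)
noncomputable def S125_140_216_364_39 : EL := (EL.cons 14 (TM.mk (P.cons (P.lf 4798544112 0 0) (P.cons (P.lf 0 320136932 0) (P.cons (P.lf 0 11399128 0) (P.cons (P.lf 366284 0 0) (P.cons (P.lf 29650 0 0) (P.cons (P.lf 440 0 0) P.nil)))))) 254)
 EL.nil)
noncomputable def S125_140_216_364_40 : EL := (EL.cons 14 (TM.mk (P.cons (P.cons (P.lf 0 646698694 0) (P.cons (P.lf 0 75169972 0) (P.cons (P.lf 0 32414138 0) (P.lf 3601568 0 0)))) (P.cons (P.cons (P.lf 426619516 0 0) (P.cons (P.lf 0 12394552 0) (P.cons (P.lf 0 5344668 0) (P.lf 593848 0 0)))) (P.cons (P.cons (P.lf 0 14404934 0) (P.cons (P.lf 48136 0 0) (P.cons (P.lf 20758 0 0) (P.lf 0 2308 0)))) (P.cons (P.cons (P.lf 0 2544338 0) (P.cons (P.lf 111164 0 0) (P.cons (P.lf 47936 0 0) P.nil))) (P.cons (P.cons (P.lf 12374 0 0) (P.cons (P.lf 5126 0 0) P.nil)) (P.cons (P.cons (P.lf 8924 0 0) P.nil) P.nil)))))) 15232)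
 EL.nil)
noncomputable def S125_140_216_364_41 : EL := (EL.cons 14 (TM.mk (P.cons (P.cons (P.lf 87155434 0 0) (P.cons (P.lf 20261280 0 0) (P.cons (P.lf 9914440 0 0) (P.cons (P.lf 44778 0 0) (P.cons (P.lf 106118 0 0) (P.cons (P.lf 0 48656 0) P.nil)))))) (P.cons (P.cons (P.lf 0 109176216 0) (P.cons (P.lf 0 8673564 0) (P.cons (P.lf 0 3273252 0) (P.cons (P.lf 818224 0 0) (P.cons (P.lf 42074 0 0) P.nil))))) (P.cons (P.cons (P.lf 34735048 0 0) (P.cons (P.lf 0 2296092 0) (P.cons (P.lf 0 925648 0) (P.cons (P.lf 165596 0 0) P.nil)))) (P.cons (P.cons (P.lf 175786 0 0) (P.cons (P.lf 0 42608 0) (P.cons (P.lf 0 16784 0) P.nil))) (P.cons (P.cons (P.lf 0 310468 0) (P.cons (P.lf 23090 0 0) P.nil)) (P.cons (P.cons (P.lf 0 7208 0) P.nil) P.nil)))))) 142766)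
 EL.nil)
noncomputable def S125_140_216_364_42 : EL := (EL.cons 14 (TM.mk (P.cons (P.lf 0 3586487394 0) (P.cons (P.lf 358911070 0 0) (P.cons (P.lf 6793532 0 0) (P.cons (P.lf 0 903512 0) (P.cons (P.lf 0 35908 0) (P.cons (P.lf 784 0 0) P.nil)))))) 366)
 EL.nil)
noncomputable def S125_140_216_364_43 : EL := (EL.cons 14 (TM.mk (P.cons (P.cons (P.lf 483350088 0 0) (P.cons (P.lf 56182906 0 0) (P.cons (P.lf 24226702 0 0) (P.lf 0 2691854 0)))) (P.cons (P.cons (P.lf 0 334983816 0) (P.cons (P.lf 7389698 0 0) (P.cons (P.lf 3186520 0 0) (P.lf 0 354054 0)))) (P.cons (P.cons (P.lf 20559838 0 0) (P.cons (P.lf 0 442988 0) (P.cons (P.lf 0 191022 0) (P.lf 21226 0 0)))) (P.cons (P.cons (P.lf 2088986 0 0) (P.cons (P.lf 0 99166 0) (P.cons (P.lf 0 42762 0) P.nil))) (P.cons (P.cons (P.lf 0 84644 0) (P.cons (P.lf 0 1132 0) P.nil)) (P.cons (P.cons (P.lf 0 10162 0) P.nil) P.nil)))))) 14962)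
 EL.nil)
noncomputable def S125_140_216_364_44 : EL := (EL.cons 14 (TM.mk (P.cons (P.cons (P.lf 0 65140980 0) (P.cons (P.lf 0 15143514 0) (P.cons (P.lf 0 7410168 0) (P.cons (P.lf 0 33468 0) (P.cons (P.lf 0 79314 0) (P.cons (P.lf 36366 0 0) P.nil)))))) (P.cons (P.cons (P.lf 83772522 0 0) (P.cons (P.lf 6987876 0 0) (P.cons (P.lf 2693652 0 0) (P.cons (P.lf 0 610434 0) (P.cons (P.lf 0 28800 0) P.nil))))) (P.cons (P.cons (P.lf 0 28569738 0) (P.cons (P.lf 1526288 0 0) (P.cons (P.lf 623156 0 0) (P.cons (P.lf 0 103310 0) P.nil)))) (P.cons (P.cons (P.lf 593610 0 0) (P.cons (P.lf 0 36402 0) (P.cons (P.lf 0 14650 0) P.nil))) (P.cons (P.cons (P.lf 280018 0 0) (P.cons (P.lf 0 21456 0) P.nil)) (P.cons (P.cons (P.lf 0 1532 0) P.nil) P.nil)))))) 120308)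
 EL.nil)
noncomputable def S125_140_216_364_45 : EL := (EL.cons 14 (TM.mk (P.cons (P.cons (P.lf 0 21026516 0) (P.cons (P.lf 0 7332144 0) (P.cons (P.lf 0 4013964 0) (P.cons (P.lf 0 416730 0) (P.cons (P.lf 0 119520 0) (P.cons (P.lf 21540 0 0) P.nil)))))) (P.cons (P.cons (P.lf 37404456 0 0) (P.cons (P.lf 6997380 0 0) (P.cons (P.lf 3127944 0 0) (P.cons (P.lf 0 262824 0) (P.cons (P.lf 0 19712 0) P.nil))))) (P.cons (P.cons (P.lf 0 21239288 0) (P.cons (P.lf 0 471564 0) (P.cons (P.lf 0 31556 0) (P.cons (P.lf 163730 0 0) P.nil)))) (P.cons (P.cons (P.lf 3176826 0 0) (P.cons (P.lf 0 549030 0) (P.cons (P.lf 0 194648 0) P.nil))) (P.cons (P.cons (P.lf 420358 0 0) (P.cons (P.lf 0 64158 0) P.nil)) (P.cons (P.cons (P.lf 0 15096 0) P.nil) P.nil)))))) 263620)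
 EL.nil)
noncomputable def S125_140_216_364_46 : EL := (EL.cons 15 (TM.mk (P.lf 4294967296 0 0) 0)
 EL.nil)
noncomputable def S125_140_216_364_47 : EL := (EL.cons 15 (TM.mk (P.cons (P.cons (P.lf 0 578831763 0) (P.cons (P.lf 0 67281360 0) (P.cons (P.lf 0 29012480 0) (P.lf 3223608 0 0)))) (P.cons (P.cons (P.lf 343231490 0 0) (P.cons (P.lf 0 15582528 0) (P.cons (P.lf 0 6719360 0) (P.lf 746592 0 0)))) (P.cons (P.cons (P.lf 8630570 0 0) (P.cons (P.lf 0 1156340 0) (P.cons (P.lf 0 498624 0) (P.lf 55400 0 0)))) (P.cons (P.cons (P.lf 0 841991 0) (P.cons (P.lf 0 9528 0) (P.cons (P.lf 0 4108 0) P.nil))) (P.cons (P.cons (P.lf 0 47219 0) (P.cons (P.lf 2812 0 0) P.nil)) (P.cons (P.cons (P.lf 112 0 0) P.nil) P.nil)))))) 4365)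
 EL.nil)
noncomputable def S125_140_216_364_48 : EL := (EL.cons 15 (TM.mk (P.cons (P.cons (P.lf 78009024 0 0) (P.cons (P.lf 18134987 0 0) (P.cons (P.lf 8873984 0 0) (P.cons (P.lf 40080 0 0) (P.cons (P.lf 94982 0 0) (P.cons (P.lf 0 43550 0) P.nil)))))) (P.cons (P.cons (P.lf 0 92514459 0) (P.cons (P.lf 0 6553446 0) (P.cons (P.lf 0 2337714 0) (P.cons (P.lf 735031 0 0) (P.cons (P.lf 43996 0 0) P.nil))))) (P.cons (P.cons (P.lf 25102998 0 0) (P.cons (P.lf 0 2449268 0) (P.cons (P.lf 0 963389 0) (P.cons (P.lf 197351 0 0) P.nil)))) (P.cons (P.cons (P.lf 1606370 0 0) (P.cons (P.lf 0 218494 0) (P.cons (P.lf 0 85527 0) P.nil))) (P.cons (P.cons (P.lf 0 104504 0) (P.cons (P.lf 660 0 0) P.nil)) (P.cons (P.cons (P.lf 0 10961 0) P.nil) P.nil)))))) 89140)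
 EL.nil)
noncomputable def S125_140_216_364 : SL := (SL.cons S125_140_216_364_0 (SL.cons S125_140_216_364_1 (SL.cons S125_140_216_364_2 (SL.cons S125_140_216_364_3 (SL.cons S125_140_216_364_4 (SL.cons S125_140_216_364_5 (SL.cons S125_140_216_364_6 (SL.cons S125_140_216_364_7 (SL.cons S125_140_216_364_8 (SL.cons S125_140_216_364_9 (SL.cons S125_140_216_364_10 (SL.cons S125_140_216_364_11 (SL.cons S125_140_216_364_12 (SL.cons S125_140_216_364_13 (SL.cons S125_140_216_364_14 (SL.cons S125_140_216_364_15 (SL.cons S125_140_216_364_16 (SL.cons S125_140_216_364_17 (SL.cons S125_140_216_364_18 (SL.cons S125_140_216_364_19 (SL.cons S125_140_216_364_20 (SL.cons S125_140_216_364_21 (SL.cons S125_140_216_364_22 (SL.cons S125_140_216_364_23 (SL.cons S125_140_216_364_24 (SL.cons S125_140_216_364_25 (SL.cons S125_140_216_364_26 (SL.cons S125_140_216_364_27 (SL.cons S125_140_216_364_28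 (SL.cons S125_140_216_364_29 (SL.cons S125_140_216_364_30 (SL.cons S125_140_216_364_31 (SL.cons S125_140_216_364_32 (SL.cons S125_140_216_364_33 (SL.cons S125_140_216_364_34 (SL.cons S125_140_216_364_35 (SL.cons S125_140_216_364_36 (SL.cons S125_140_216_364_37 (SL.cons S125_140_216_364_38 (SL.cons S125_140_216_364_39 (SL.cons S125_140_216_364_40 (SL.cons S125_140_216_364_41 (SL.cons S125_140_216_364_42 (SL.cons S125_140_216_364_43 (SL.cons S125_140_216_364_44 (SL.cons S125_140_216_364_45 (SL.cons S125_140_216_364_46 (SL.cons S125_140_216_364_47 (SL.cons S125_140_216_364_48 SL.nil)))))))))))))))))))))))))))))))))))))))))))))))))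
noncomputable def S125_140_364_438_0 : EL := (EL.cons 0 (TM.mk (P.cons (P.lf 4238246453 0 0) (P.cons (P.lf 281370350 0 0) (P.cons (P.lf 10018764 0 0) (P.cons (P.lf 0 321929 0) (P.cons (P.lf 0 26059 0) (P.cons (P.lf 0 386 0) P.nil)))))) 230)
 (EL.cons 1 (TM.mk (P.cons (P.lf 0 1653076498 0) (P.cons (P.lf 0 72476017 0) (P.cons (P.lf 7522271 0 0) (P.cons (P.lf 359445 0 0) (P.cons (P.lf 0 615 0) (P.cons (P.lf 0 506 0) P.nil)))))) 138)
 (EL.cons 5 (TM.mk (P.cons (P.lf 5794512336 0 0) (P.cons (P.lf 0 100042792 0) (P.cons (P.lf 0 3562232 0) (P.cons (P.lf 114460 0 0) (P.cons (P.lf 9268 0 0) (P.cons (P.lf 138 0 0) P.nil)))))) 79)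
 (EL.cons 9 (TM.mk (P.lf 6442450944 0 0) 2)
 EL.nil))))
noncomputable def S125_140_364_438_1 : EL := (EL.cons 0 (TM.mk (P.cons (P.cons (P.lf 0 4632637973 0) (P.cons (P.lf 129846966 0 0) (P.cons (P.lf 7104692 0 0) (P.lf 0 789399 0)))) (P.cons (P.cons (P.lf 39084256 0 0) (P.cons (P.lf 12704487 0 0) (P.cons (P.lf 695130 0 0) (P.lf 0 77231 0)))) (P.cons (P.cons (P.lf 73995243 0 0) (P.cons (P.lf 0 2409366 0) (P.cons (P.lf 0 131840 0) (P.lf 14649 0 0)))) (P.cons (P.cons (P.lf 3891686 0 0) (P.cons (P.lf 0 403473 0) (P.cons (P.lf 0 22075 0) P.nil))) (P.cons (P.cons (P.lf 0 256950 0) (P.cons (P.lf 0 12290 0) P.nil)) (P.cons (P.cons (P.lf 0 26303 0) P.nil) P.nil)))))) 14792)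
 (EL.cons 1 (TM.mk (P.cons (P.cons (P.lf 1289243776 0 0) (P.cons (P.lf 0 24783105 0) (P.cons (P.lf 0 1356034 0) (P.lf 150676 0 0)))) (P.cons (P.cons (P.lf 0 330883795 0) (P.cons (P.lf 12755412 0 0) (P.cons (P.lf 697922 0 0) (P.lf 0 77545 0)))) (P.cons (P.cons (P.lf 0 28615043 0) (P.cons (P.lf 2502689 0 0) (P.cons (P.lf 136925 0 0) (P.lf 0 15206 0)))) (P.cons (P.cons (P.lf 2663929 0 0) (P.cons (P.lf 43962 0 0) (P.cons (P.lf 2404 0 0) P.nil))) (P.cons (P.cons (P.lf 241921 0 0) (P.cons (P.lf 0 14143 0) P.nil)) (P.cons (P.cons (P.lf 0 2277 0) P.nil) P.nil)))))) 6715)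
 (EL.cons 5 (TM.mk (P.cons (P.cons (P.lf 399101403 0 0) (P.cons (P.lf 0 158843342 0) (P.cons (P.lf 0 8691266 0) (P.lf 965692 0 0)))) (P.cons (P.cons (P.lf 508443497 0 0) (P.cons (P.lf 0 30613088 0) (P.cons (P.lf 0 1675026 0) (P.lf 186110 0 0)))) (P.cons (P.cons (P.lf 0 16175483 0) (P.cons (P.lf 0 1079852 0) (P.cons (P.lf 0 59082 0) (P.lf 6570 0 0)))) (P.cons (P.cons (P.lf 0 2852480 0) (P.cons (P.lf 127498 0 0) (P.cons (P.lf 6970 0 0) P.nil))) (P.cons (P.cons (P.lf 22119 0 0) (P.cons (P.lf 9078 0 0) P.nil)) (P.cons (P.cons (P.lf 10050 0 0) P.nil) P.nil)))))) 5090)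
 (EL.cons 9 (TM.mk (P.cons (P.cons (P.lf 0 1101228322 0) (P.cons (P.lf 0 99419586 0) (P.cons (P.lf 0 5439840 0) (P.lf 604422 0 0)))) (P.cons (P.cons (P.lf 460888329 0 0) (P.cons (P.lf 0 23025816 0) (P.cons (P.lf 0 1259880 0) (P.lf 139986 0 0)))) (P.cons (P.cons (P.lf 8941701 0 0) (P.cons (P.lf 0 1708686 0) (P.cons (P.lf 0 93486 0) (P.lf 10386 0 0)))) (P.cons (P.cons (P.lf 0 1295974 0) (P.cons (P.lf 0 14076 0) (P.cons (P.lf 0 768 0) P.nil))) (P.cons (P.cons (P.lf 0 61078 0) (P.cons (P.lf 4152 0 0) P.nil)) (P.cons (P.cons (P.lf 618 0 0) P.nil) P.nil)))))) 1658)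
 (EL.cons 2 (TM.mk (P.cons (P.cons (P.lf 571241933 0 0) (P.cons (P.lf 71677133 0 0) (P.cons (P.lf 0 10943243 0) (P.cons (P.lf 0 334310 0) (P.lf 27857 0 0))))) (P.cons (P.cons (P.lf 69145371 0 0) (P.cons (P.lf 8676081 0 0) (P.cons (P.lf 0 1324611 0) (P.cons (P.lf 0 40463 0) (P.lf 3369 0 0))))) (P.cons (P.cons (P.lf 0 797928 0) (P.cons (P.lf 0 100119 0) (P.cons (P.lf 15285 0 0) (P.cons (P.lf 466 0 0) P.nil)))) (P.cons (P.cons (P.lf 0 370937 0) (P.cons (P.lf 0 46541 0) (P.cons (P.lf 7104 0 0) P.nil))) (P.cons (P.cons (P.lf 0 11531 0) (P.cons (P.lf 0 1442 0) P.nil)) (P.cons (P.cons (P.lf 368 0 0) P.nil) P.nil)))))) 1342)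
 (EL.cons 6 (TM.mk (P.cons (P.cons (P.lf 223903554 0 0) (P.cons (P.lf 28094514 0 0) (P.cons (P.lf 0 4289304 0) (P.cons (P.lf 0 131037 0) (P.lf 10917 0 0))))) (P.cons (P.cons (P.lf 51856617 0 0) (P.cons (P.lf 6506757 0 0) (P.cons (P.lf 0 993411 0) (P.cons (P.lf 0 30345 0) (P.lf 2526 0 0))))) (P.cons (P.cons (P.lf 3848148 0 0) (P.cons (P.lf 482847 0 0) (P.cons (P.lf 0 73716 0) (P.cons (P.lf 0 2250 0) P.nil)))) (P.cons (P.cons (P.lf 31707 0 0) (P.cons (P.lf 3978 0 0) (P.cons (P.lf 0 606 0) P.nil))) (P.cons (P.cons (P.lf 0 9366 0) (P.cons (P.lf 0 1173 0) P.nil)) (P.cons (P.cons (P.lf 0 429 0) P.nil) P.nil)))))) 690)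
 EL.nil))))))
noncomputable def S125_140_364_438_2 : EL := (EL.cons 0 (TM.mk (P.cons (P.cons (P.lf 1459908974 0 0) (P.cons (P.lf 76231412 0 0) (P.cons (P.lf 0 845819 0) (P.cons (P.lf 0 1012458 0) (P.cons (P.lf 45975 0 0) (P.cons (P.lf 3332 0 0) P.nil)))))) (P.cons (P.cons (P.lf 0 580759669 0) (P.cons (P.lf 48838614 0 0) (P.cons (P.lf 817446 0 0) (P.cons (P.lf 0 499882 0) (P.cons (P.lf 16993 0 0) P.nil))))) (P.cons (P.cons (P.lf 0 45655041 0) (P.cons (P.lf 5085265 0 0) (P.cons (P.lf 70645 0 0) (P.cons (P.lf 0 53623 0) P.nil)))) (P.cons (P.cons (P.lf 9043819 0 0) (P.cons (P.lf 0 557887 0) (P.cons (P.lf 0 23396 0) P.nil))) (P.cons (P.cons (P.lf 893392 0 0) (P.cons (P.lf 0 119039 0) P.nil)) (P.cons (P.cons (P.lf 0 35275 0) P.nil) P.nil)))))) 75395)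
 (EL.cons 1 (TM.mk (P.cons (P.cons (P.lf 0 392449144 0) (P.cons (P.lf 0 22597511 0) (P.cons (P.lf 0 77861 0) (P.cons (P.lf 264164 0 0) (P.cons (P.lf 0 10622 0) (P.cons (P.lf 0 776 0) P.nil)))))) (P.cons (P.cons (P.lf 259269700 0 0) (P.cons (P.lf 0 8157707 0) (P.cons (P.lf 0 463273 0) (P.cons (P.lf 47746 0 0) (P.cons (P.lf 151 0 0) P.nil))))) (P.cons (P.cons (P.lf 0 28297540 0) (P.cons (P.lf 2587726 0 0) (P.cons (P.lf 27166 0 0) (P.cons (P.lf 0 28251 0) P.nil)))) (P.cons (P.cons (P.lf 0 5490126 0) (P.cons (P.lf 584922 0 0) (P.cons (P.lf 9950 0 0) P.nil))) (P.cons (P.cons (P.lf 281902 0 0) (P.cons (P.lf 6836 0 0) P.nil)) (P.cons (P.cons (P.lf 52204 0 0) P.nil) P.nil)))))) 33651)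
 (EL.cons 5 (TM.mk (P.cons (P.cons (P.lf 0 305744141 0) (P.cons (P.lf 11415473 0 0) (P.cons (P.lf 4147188 0 0) (P.cons (P.lf 316074 0 0) (P.cons (P.lf 0 32281 0) (P.cons (P.lf 0 2334 0) P.nil)))))) (P.cons (P.cons (P.lf 27921853 0 0) (P.cons (P.lf 0 24564969 0) (P.cons (P.lf 120823 0 0) (P.cons (P.lf 309636 0 0) (P.cons (P.lf 0 13417 0) P.nil))))) (P.cons (P.cons (P.lf 50136283 0 0) (P.cons (P.lf 0 5192607 0) (P.cons (P.lf 0 57257 0) (P.cons (P.lf 56384 0 0) P.nil)))) (P.cons (P.cons (P.lf 0 1263498 0) (P.cons (P.lf 0 100375 0) (P.cons (P.lf 6299 0 0) P.nil))) (P.cons (P.cons (P.lf 0 490064 0) (P.cons (P.lf 45683 0 0) P.nil)) (P.cons (P.cons (P.lf 0 1683 0) P.nil) P.nil)))))) 31775)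
 (EL.cons 9 (TM.mk (P.cons (P.cons (P.lf 188236407 0 0) (P.cons (P.lf 33988201 0 0) (P.cons (P.lf 3393934 0 0) (P.cons (P.lf 0 38736 0) (P.cons (P.lf 0 14061 0) (P.cons (P.lf 0 1020 0) P.nil)))))) (P.cons (P.cons (P.lf 0 157562170 0) (P.cons (P.lf 0 6353061 0) (P.cons (P.lf 363051 0 0) (P.cons (P.lf 116392 0 0) (P.cons (P.lf 0 6513 0) P.nil))))) (P.cons (P.cons (P.lf 29914755 0 0) (P.cons (P.lf 0 2986333 0) (P.cons (P.lf 0 28369 0) (P.cons (P.lf 32932 0 0) P.nil)))) (P.cons (P.cons (P.lf 1722415 0 0) (P.cons (P.lf 0 263581 0) (P.cons (P.lf 0 1773 0) P.nil))) (P.cons (P.cons (P.lf 0 152134 0) (P.cons (P.lf 2971 0 0) P.nil)) (P.cons (P.cons (P.lf 0 12547 0) P.nil) P.nil)))))) 11647)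
 (EL.cons 2 (TM.mk (P.cons (P.cons (P.lf 0 195288345 0) (P.cons (P.lf 0 42134748 0) (P.cons (P.lf 564204 0 0) (P.cons (P.lf 438181 0 0) (P.cons (P.lf 32720 0 0) (P.cons (P.lf 0 2345 0) P.nil)))))) (P.cons (P.cons (P.lf 58094004 0 0) (P.cons (P.lf 1071978 0 0) (P.cons (P.lf 0 2233231 0) (P.cons (P.lf 80218 0 0) (P.cons (P.lf 17730 0 0) P.nil))))) (P.cons (P.cons (P.lf 11751699 0 0) (P.cons (P.lf 701904 0 0) (P.cons (P.lf 0 364348 0) (P.cons (P.lf 7312 0 0) P.nil)))) (P.cons (P.cons (P.lf 0 25239 0) (P.cons (P.lf 0 25188 0) (P.cons (P.lf 0 3481 0) P.nil))) (P.cons (P.cons (P.lf 0 89994 0) (P.cons (P.lf 0 7425 0) P.nil)) (P.cons (P.cons (P.lf 0 3684 0) P.nil) P.nil)))))) 12262)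
 (EL.cons 6 (TM.mk (P.cons (P.cons (P.lf 0 76545066 0) (P.cons (P.lf 0 16515102 0) (P.cons (P.lf 221142 0 0) (P.cons (P.lf 171744 0 0) (P.cons (P.lf 12822 0 0) (P.cons (P.lf 0 918 0) P.nil)))))) (P.cons (P.cons (P.lf 14307768 0 0) (P.cons (P.lf 0 1405710 0) (P.cons (P.lf 0 850884 0) (P.cons (P.lf 50430 0 0) (P.cons (P.lf 8364 0 0) P.nil))))) (P.cons (P.cons (P.lf 6725544 0 0) (P.cons (P.lf 235674 0 0) (P.cons (P.lf 0 238434 0) (P.cons (P.lf 7236 0 0) P.nil)))) (P.cons (P.cons (P.lf 593610 0 0) (P.cons (P.lf 17508 0 0) (P.cons (P.lf 0 21630 0) P.nil))) (P.cons (P.cons (P.lf 0 6684 0) (P.cons (P.lf 0 2754 0) P.nil)) (P.cons (P.cons (P.lf 0 3588 0) P.nil) P.nil)))))) 7368)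
 EL.nil))))))
noncomputable def S125_140_364_438_3 : EL := (EL.cons 0 (TM.mk (P.cons (P.lf 4217470410 0 0) (P.cons (P.lf 0 281370350 0) (P.cons (P.lf 0 10018764 0) (P.cons (P.lf 321929 0 0) (P.cons (P.lf 26059 0 0) (P.cons (P.lf 386 0 0) P.nil)))))) 230)
 (EL.cons 1 (TM.mk (P.cons (P.lf 1653076498 0 0) (P.cons (P.lf 72476017 0 0) (P.cons (P.lf 0 7522271 0) (P.cons (P.lf 0 359445 0) (P.cons (P.lf 615 0 0) (P.cons (P.lf 506 0 0) P.nil)))))) 138)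
 (EL.cons 5 (TM.mk (P.cons (P.lf 647938608 0 0) (P.cons (P.lf 100042792 0 0) (P.cons (P.lf 3562232 0 0) (P.cons (P.lf 0 114460 0) (P.cons (P.lf 0 9268 0) (P.cons (P.lf 0 138 0) P.nil)))))) 72)
 EL.nil)))
noncomputable def S125_140_364_438_4 : EL := (EL.cons 0 (TM.mk (P.cons (P.cons (P.lf 0 720905428 0) (P.cons (P.lf 0 65083795 0) (P.cons (P.lf 0 3561122 0) (P.lf 395676 0 0)))) (P.cons (P.cons (P.lf 349810328 0 0) (P.cons (P.lf 0 10731469 0) (P.cons (P.lf 0 587181 0) (P.lf 65241 0 0)))) (P.cons (P.cons (P.lf 0 12562920 0) (P.cons (P.lf 41677 0 0) (P.cons (P.lf 2283 0 0) (P.lf 0 253 0)))) (P.cons (P.cons (P.lf 0 2010680 0) (P.cons (P.lf 96250 0 0) (P.cons (P.lf 5266 0 0) P.nil))) (P.cons (P.cons (P.lf 21287 0 0) (P.cons (P.lf 4436 0 0) P.nil)) (P.cons (P.cons (P.lf 7331 0 0) P.nil) P.nil)))))) 2926)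
 (EL.cons 1 (TM.mk (P.cons (P.cons (P.lf 0 282565543 0) (P.cons (P.lf 0 25510194 0) (P.cons (P.lf 0 1395813 0) (P.lf 155088 0 0)))) (P.cons (P.cons (P.lf 105871355 0 0) (P.cons (P.lf 0 7026667 0) (P.cons (P.lf 0 384470 0) (P.lf 42718 0 0)))) (P.cons (P.cons (P.lf 8765049 0 0) (P.cons (P.lf 0 581385 0) (P.cons (P.lf 0 31807 0) (P.lf 3532 0 0)))) (P.cons (P.cons (P.lf 0 708639 0) (P.cons (P.lf 9596 0 0) (P.cons (P.lf 525 0 0) P.nil))) (P.cons (P.cons (P.lf 0 66510 0) (P.cons (P.lf 4175 0 0) P.nil)) (P.cons (P.cons (P.lf 442 0 0) P.nil) P.nil)))))) 1481)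
 (EL.cons 5 (TM.mk (P.cons (P.cons (P.lf 0 110754176 0) (P.cons (P.lf 0 9998956 0) (P.cons (P.lf 0 547102 0) (P.lf 60788 0 0)))) (P.cons (P.cons (P.lf 29252434 0 0) (P.cons (P.lf 0 3859636 0) (P.cons (P.lf 0 211182 0) (P.lf 23464 0 0)))) (P.cons (P.cons (P.lf 7447382 0 0) (P.cons (P.lf 0 584380 0) (P.cons (P.lf 0 31974 0) (P.lf 3552 0 0)))) (P.cons (P.cons (P.lf 282916 0 0) (P.cons (P.lf 0 38914 0) (P.cons (P.lf 0 2128 0) P.nil))) (P.cons (P.cons (P.lf 0 27926 0) (P.cons (P.lf 0 192 0) P.nil)) (P.cons (P.cons (P.lf 0 2400 0) P.nil) P.nil)))))) 828)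
 EL.nil)))
noncomputable def S125_140_364_438_5 : EL := (EL.cons 0 (TM.mk (P.cons (P.cons (P.lf 123226621 0 0) (P.cons (P.lf 22249952 0 0) (P.cons (P.lf 2221795 0 0) (P.cons (P.lf 0 25356 0) (P.cons (P.lf 0 9203 0) (P.cons (P.lf 0 666 0) P.nil)))))) (P.cons (P.cons (P.lf 0 111367232 0) (P.cons (P.lf 0 5643367 0) (P.cons (P.lf 89437 0 0) (P.cons (P.lf 77885 0 0) (P.cons (P.lf 0 3649 0) P.nil))))) (P.cons (P.cons (P.lf 26172029 0 0) (P.cons (P.lf 0 1730353 0) (P.cons (P.lf 0 39705 0) (P.cons (P.lf 16533 0 0) P.nil)))) (P.cons (P.cons (P.lf 75480 0 0) (P.cons (P.lf 0 30545 0) (P.cons (P.lf 0 316 0) P.nil))) (P.cons (P.cons (P.lf 0 228450 0) (P.cons (P.lf 17920 0 0) P.nil)) (P.cons (P.cons (P.lf 0 3378 0) P.nil) P.nil)))))) 12201)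
 (EL.cons 1 (TM.mk (P.cons (P.cons (P.lf 48299812 0 0) (P.cons (P.lf 8721073 0 0) (P.cons (P.lf 870853 0 0) (P.cons (P.lf 0 9937 0) (P.cons (P.lf 0 3607 0) (P.cons (P.lf 0 260 0) P.nil)))))) (P.cons (P.cons (P.lf 0 38311456 0) (P.cons (P.lf 0 1247778 0) (P.cons (P.lf 131336 0 0) (P.cons (P.lf 29428 0 0) (P.cons (P.lf 0 1828 0) P.nil))))) (P.cons (P.cons (P.lf 5683539 0 0) (P.cons (P.lf 0 877421 0) (P.cons (P.lf 0 7156 0) (P.cons (P.lf 9804 0 0) P.nil)))) (P.cons (P.cons (P.lf 951958 0 0) (P.cons (P.lf 0 95705 0) (P.cons (P.lf 0 1385 0) P.nil))) (P.cons (P.cons (P.lf 0 45778 0) (P.cons (P.lf 1640 0 0) P.nil)) (P.cons (P.cons (P.lf 0 8610 0) P.nil) P.nil)))))) 5748)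
 (EL.cons 5 (TM.mk (P.cons (P.cons (P.lf 18931556 0 0) (P.cons (P.lf 3418304 0 0) (P.cons (P.lf 341338 0 0) (P.cons (P.lf 0 3894 0) (P.cons (P.lf 0 1412 0) (P.cons (P.lf 0 102 0) P.nil)))))) (P.cons (P.cons (P.lf 0 12923484 0) (P.cons (P.lf 0 111156 0) (P.cons (P.lf 89216 0 0) (P.cons (P.lf 11104 0 0) (P.cons (P.lf 0 872 0) P.nil))))) (P.cons (P.cons (P.lf 665972 0 0) (P.cons (P.lf 0 380206 0) (P.cons (P.lf 4660 0 0) (P.cons (P.lf 5096 0 0) P.nil)))) (P.cons (P.cons (P.lf 547298 0 0) (P.cons (P.lf 0 76998 0) (P.cons (P.lf 0 476 0) P.nil))) (P.cons (P.cons (P.lf 30514 0 0) (P.cons (P.lf 0 5380 0) P.nil)) (P.cons (P.cons (P.lf 0 2980 0) P.nil) P.nil)))))) 2812)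
 EL.nil)))
noncomputable def S125_140_364_438_6 : EL := (EL.cons 12 (TM.mk (P.lf 8589934592 0 0) 0)
 (EL.cons 3 (TM.mk (P.cons (P.lf 0 3009476490 0) (P.cons (P.lf 100389258 0 0) (P.cons (P.lf 5248942 0 0) (P.cons (P.lf 60232 0 0) (P.cons (P.lf 0 2711 0) (P.cons (P.lf 0 123 0) P.nil)))))) 70)
 (EL.cons 7 (TM.mk (P.cons (P.lf 0 1179592119 0) (P.cons (P.lf 0 91065487 0) (P.cons (P.lf 272589 0 0) (P.cons (P.lf 83145 0 0) (P.cons (P.lf 2049 0 0) (P.cons (P.lf 0 13 0) P.nil)))))) 46)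
 EL.nil)))
noncomputable def S125_140_364_438_7 : EL := (EL.cons 12 (TM.mk (P.cons (P.cons (P.lf 0 1468304430 0) (P.cons (P.lf 0 132559448 0) (P.cons (P.lf 0 7253120 0) (P.lf 805896 0 0)))) (P.cons (P.cons (P.lf 614517772 0 0) (P.cons (P.lf 0 30701088 0) (P.cons (P.lf 0 1679840 0) (P.lf 186648 0 0)))) (P.cons (P.cons (P.lf 11922268 0 0) (P.cons (P.lf 0 2278248 0) (P.cons (P.lf 0 124648 0) (P.lf 13848 0 0)))) (P.cons (P.cons (P.lf 0 1727966 0) (P.cons (P.lf 0 18768 0) (P.cons (P.lf 0 1024 0) P.nil))) (P.cons (P.cons (P.lf 0 81438 0) (P.cons (P.lf 5536 0 0) P.nil)) (P.cons (P.cons (P.lf 824 0 0) P.nil) P.nil)))))) 2186)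
 (EL.cons 3 (TM.mk (P.cons (P.cons (P.lf 3303195069 0 0) (P.cons (P.lf 0 92884184 0) (P.cons (P.lf 0 5082246 0) (P.lf 564688 0 0)))) (P.cons (P.cons (P.lf 14718724 0 0) (P.cons (P.lf 0 18413794 0) (P.cons (P.lf 0 1007526 0) (P.lf 111946 0 0)))) (P.cons (P.cons (P.lf 0 20245229 0) (P.cons (P.lf 0 716762 0) (P.cons (P.lf 0 39210 0) (P.lf 4354 0 0)))) (P.cons (P.cons (P.lf 0 1704786 0) (P.cons (P.lf 79478 0 0) (P.cons (P.lf 4350 0 0) P.nil))) (P.cons (P.cons (P.lf 909 0 0) (P.cons (P.lf 7446 0 0) P.nil)) (P.cons (P.cons (P.lf 5388 0 0) P.nil) P.nil)))))) 6111)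
 (EL.cons 7 (TM.mk (P.cons (P.cons (P.lf 0 2328133552 0) (P.cons (P.lf 144589594 0 0) (P.cons (P.lf 7911362 0 0) (P.lf 0 879042 0)))) (P.cons (P.cons (P.lf 0 13351720 0) (P.cons (P.lf 16703601 0 0) (P.cons (P.lf 913954 0 0) (P.lf 0 101551 0)))) (P.cons (P.cons (P.lf 19102997 0 0) (P.cons (P.lf 0 273167 0) (P.cons (P.lf 0 14946 0) (P.lf 1660 0 0)))) (P.cons (P.cons (P.lf 161604 0 0) (P.cons (P.lf 0 80915 0) (P.cons (P.lf 0 4425 0) P.nil))) (P.cons (P.cons (P.lf 0 62832 0) (P.cons (P.lf 0 662 0) P.nil)) (P.cons (P.cons (P.lf 0 2197 0) P.nil) P.nil)))))) 3424)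
 (EL.cons 10 (TM.mk (P.cons (P.cons (P.lf 0 815246586 0) (P.cons (P.lf 0 102293856 0) (P.cons (P.lf 15617625 0 0) (P.cons (P.lf 477114 0 0) (P.lf 0 39759 0))))) (P.cons (P.cons (P.lf 0 125875419 0) (P.cons (P.lf 0 15794340 0) (P.cons (P.lf 2411385 0 0) (P.cons (P.lf 73665 0 0) (P.lf 0 6138 0))))) (P.cons (P.cons (P.lf 0 4482054 0) (P.cons (P.lf 0 562389 0) (P.cons (P.lf 85860 0 0) (P.cons (P.lf 2622 0 0) P.nil)))) (P.cons (P.cons (P.lf 144015 0 0) (P.cons (P.lf 18069 0 0) (P.cons (P.lf 0 2757 0) P.nil))) (P.cons (P.cons (P.lf 11661 0 0) (P.cons (P.lf 1461 0 0) P.nil)) (P.cons (P.cons (P.lf 171 0 0) P.nil) P.nil)))))) 768)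
 EL.nil))))
noncomputable def S125_140_364_438_8 : EL := (EL.cons 12 (TM.mk (P.cons (P.cons (P.lf 250981876 0 0) (P.cons (P.lf 45317602 0 0) (P.cons (P.lf 4525246 0 0) (P.cons (P.lf 0 51648 0) (P.cons (P.lf 0 18748 0) (P.cons (P.lf 0 1360 0) P.nil)))))) (P.cons (P.cons (P.lf 0 210082894 0) (P.cons (P.lf 0 8470748 0) (P.cons (P.lf 484068 0 0) (P.cons (P.lf 155190 0 0) (P.cons (P.lf 0 8684 0) P.nil))))) (P.cons (P.cons (P.lf 39886340 0 0) (P.cons (P.lf 0 3981778 0) (P.cons (P.lf 0 37826 0) (P.cons (P.lf 43910 0 0) P.nil)))) (P.cons (P.cons (P.lf 2296554 0 0) (P.cons (P.lf 0 351442 0) (P.cons (P.lf 0 2364 0) P.nil))) (P.cons (P.cons (P.lf 0 202846 0) (P.cons (P.lf 3962 0 0) P.nil)) (P.cons (P.cons (P.lf 0 16730 0) P.nil) P.nil)))))) 15500)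
 (EL.cons 3 (TM.mk (P.cons (P.cons (P.lf 0 1041319664 0) (P.cons (P.lf 0 54318528 0) (P.cons (P.lf 611365 0 0) (P.cons (P.lf 722374 0 0) (P.cons (P.lf 0 32840 0) (P.cons (P.lf 0 2380 0) P.nil)))))) (P.cons (P.cons (P.lf 391049026 0 0) (P.cons (P.lf 0 34558045 0) (P.cons (P.lf 0 350532 0) (P.cons (P.lf 378658 0 0) (P.cons (P.lf 0 14116 0) P.nil))))) (P.cons (P.cons (P.lf 34472318 0 0) (P.cons (P.lf 0 5203657 0) (P.cons (P.lf 0 30946 0) (P.cons (P.lf 59401 0 0) P.nil)))) (P.cons (P.cons (P.lf 0 3136880 0) (P.cons (P.lf 0 40113 0) (P.cons (P.lf 13859 0 0) P.nil))) (P.cons (P.cons (P.lf 0 489708 0) (P.cons (P.lf 51099 0 0) P.nil)) (P.cons (P.cons (P.lf 0 3177 0) P.nil) P.nil)))))) 40032)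
 (EL.cons 7 (TM.mk (P.cons (P.cons (P.lf 830375802 0 0) (P.cons (P.lf 28648108 0 0) (P.cons (P.lf 0 2614174 0) (P.cons (P.lf 0 631770 0) (P.cons (P.lf 38322 0 0) (P.cons (P.lf 2778 0 0) P.nil)))))) (P.cons (P.cons (P.lf 0 354729874 0) (P.cons (P.lf 31348422 0 0) (P.cons (P.lf 317979 0 0) (P.cons (P.lf 0 343485 0) (P.cons (P.lf 12803 0 0) P.nil))))) (P.cons (P.cons (P.lf 0 11661450 0) (P.cons (P.lf 2987442 0 0) (P.cons (P.lf 10490 0 0) (P.cons (P.lf 0 34898 0) P.nil)))) (P.cons (P.cons (P.lf 4320037 0 0) (P.cons (P.lf 0 238151 0) (P.cons (P.lf 0 13898 0) P.nil))) (P.cons (P.cons (P.lf 144340 0 0) (P.cons (P.lf 0 36844 0) P.nil)) (P.cons (P.cons (P.lf 0 20524 0) P.nil) P.nil)))))) 22466)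
 (EL.cons 10 (TM.mk (P.cons (P.cons (P.lf 278705304 0 0) (P.cons (P.lf 60132504 0 0) (P.cons (P.lf 0 805200 0) (P.cons (P.lf 0 625350 0) (P.cons (P.lf 0 46698 0) (P.cons (P.lf 3348 0 0) P.nil)))))) (P.cons (P.cons (P.lf 0 73611750 0) (P.cons (P.lf 476004 0 0) (P.cons (P.lf 3160290 0 0) (P.cons (P.lf 0 135342 0) (P.cons (P.lf 0 26862 0) P.nil))))) (P.cons (P.cons (P.lf 0 18740826 0) (P.cons (P.lf 0 880968 0) (P.cons (P.lf 623994 0 0) (P.cons (P.lf 0 16044 0) P.nil)))) (P.cons (P.cons (P.lf 0 711936 0) (P.cons (P.lf 8592 0 0) (P.cons (P.lf 31278 0 0) P.nil))) (P.cons (P.cons (P.lf 70278 0 0) (P.cons (P.lf 9306 0 0) P.nil)) (P.cons (P.cons (P.lf 6042 0 0) P.nil) P.nil)))))) 17118)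
 EL.nil))))
noncomputable def S125_140_364_438_9 : EL := (EL.cons 3 (TM.mk (P.cons (P.lf 0 3009476490 0) (P.cons (P.lf 100389258 0 0) (P.cons (P.lf 5248942 0 0) (P.cons (P.lf 60232 0 0) (P.cons (P.lf 0 2711 0) (P.cons (P.lf 0 123 0) P.nil)))))) 70)
 (EL.cons 7 (TM.mk (P.cons (P.lf 0 1179592119 0) (P.cons (P.lf 0 91065487 0) (P.cons (P.lf 272589 0 0) (P.cons (P.lf 83145 0 0) (P.cons (P.lf 2049 0 0) (P.cons (P.lf 0 13 0) P.nil)))))) 46)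
 EL.nil))
noncomputable def S125_140_364_438_10 : EL := (EL.cons 3 (TM.mk (P.cons (P.cons (P.lf 514419243 0 0) (P.cons (P.lf 46442092 0 0) (P.cons (P.lf 2541123 0 0) (P.lf 0 282344 0)))) (P.cons (P.cons (P.lf 0 232455644 0) (P.cons (P.lf 9206897 0 0) (P.cons (P.lf 503763 0 0) (P.lf 0 55973 0)))) (P.cons (P.cons (P.lf 2107600 0 0) (P.cons (P.lf 358381 0 0) (P.cons (P.lf 19605 0 0) (P.lf 0 2177 0)))) (P.cons (P.cons (P.lf 1109934 0 0) (P.cons (P.lf 0 39739 0) (P.cons (P.lf 0 2175 0) P.nil))) (P.cons (P.cons (P.lf 20394 0 0) (P.cons (P.lf 0 3723 0) P.nil)) (P.cons (P.cons (P.lf 0 2385 0) P.nil) P.nil)))))) 1436)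
 (EL.cons 7 (TM.mk (P.cons (P.cons (P.lf 201631376 0 0) (P.cons (P.lf 18203407 0 0) (P.cons (P.lf 996017 0 0) (P.lf 0 110667 0)))) (P.cons (P.cons (P.lf 0 68821066 0) (P.cons (P.lf 5621271 0 0) (P.cons (P.lf 307573 0 0) (P.lf 0 34174 0)))) (P.cons (P.cons (P.lf 0 8198551 0) (P.cons (P.lf 634123 0 0) (P.cons (P.lf 34695 0 0) (P.lf 0 3854 0)))) (P.cons (P.cons (P.lf 116184 0 0) (P.cons (P.lf 24472 0 0) (P.cons (P.lf 1338 0 0) P.nil))) (P.cons (P.cons (P.lf 35478 0 0) (P.cons (P.lf 0 962 0) P.nil)) (P.cons (P.cons (P.lf 959 0 0) P.nil) P.nil)))))) 675)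
 EL.nil))
noncomputable def S125_140_364_438_11 : EL := (EL.cons 3 (TM.mk (P.cons (P.cons (P.lf 0 87931292 0) (P.cons (P.lf 0 15876984 0) (P.cons (P.lf 0 1585415 0) (P.cons (P.lf 18094 0 0) (P.cons (P.lf 6568 0 0) (P.cons (P.lf 476 0 0) P.nil)))))) (P.cons (P.cons (P.lf 76535554 0 0) (P.cons (P.lf 3497339 0 0) (P.cons (P.lf 0 116706 0) (P.cons (P.lf 0 54974 0) (P.cons (P.lf 2822 0 0) P.nil))))) (P.cons (P.cons (P.lf 0 16275988 0) (P.cons (P.lf 1323707 0 0) (P.cons (P.lf 21674 0 0) (P.cons (P.lf 0 13601 0) P.nil)))) (P.cons (P.cons (P.lf 0 465062 0) (P.cons (P.lf 71733 0 0) (P.cons (P.lf 713 0 0) P.nil))) (P.cons (P.cons (P.lf 120726 0 0) (P.cons (P.lf 0 8001 0) P.nil)) (P.cons (P.cons (P.lf 5235 0 0) P.nil) P.nil)))))) 7160)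
 (EL.cons 7 (TM.mk (P.cons (P.cons (P.lf 0 34465482 0) (P.cons (P.lf 0 6223130 0) (P.cons (P.lf 0 621418 0) (P.cons (P.lf 7092 0 0) (P.cons (P.lf 2574 0 0) (P.cons (P.lf 186 0 0) P.nil)))))) (P.cons (P.cons (P.lf 26188364 0 0) (P.cons (P.lf 682794 0 0) (P.cons (P.lf 0 114447 0) (P.cons (P.lf 0 20763 0) (P.cons (P.lf 1391 0 0) P.nil))))) (P.cons (P.cons (P.lf 0 3242154 0) (P.cons (P.lf 638028 0 0) (P.cons (P.lf 206 0 0) (P.cons (P.lf 0 7676 0) P.nil)))) (P.cons (P.cons (P.lf 0 742457 0) (P.cons (P.lf 90643 0 0) (P.cons (P.lf 784 0 0) P.nil))) (P.cons (P.cons (P.lf 2800 0 0) (P.cons (P.lf 2984 0 0) P.nil)) (P.cons (P.cons (P.lf 4856 0 0) P.nil) P.nil)))))) 3250)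
 EL.nil))
noncomputable def S125_140_364_438_12 : EL := (EL.cons 4 (TM.mk (P.cons (P.lf 3009476490 0 0) (P.cons (P.lf 0 100389258 0) (P.cons (P.lf 0 5248942 0) (P.cons (P.lf 0 60232 0) (P.cons (P.lf 2711 0 0) (P.cons (P.lf 123 0 0) P.nil)))))) 70)
 (EL.cons 8 (TM.mk (P.cons (P.lf 1179592119 0 0) (P.cons (P.lf 91065487 0 0) (P.cons (P.lf 0 272589 0) (P.cons (P.lf 0 83145 0) (P.cons (P.lf 0 2049 0) (P.cons (P.lf 13 0 0) P.nil)))))) 46)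
 EL.nil))
noncomputable def S125_140_364_438_13 : EL := (EL.cons 4 (TM.mk (P.cons (P.cons (P.lf 0 514419243 0) (P.cons (P.lf 0 46442092 0) (P.cons (P.lf 0 2541123 0) (P.lf 282344 0 0)))) (P.cons (P.cons (P.lf 232455644 0 0) (P.cons (P.lf 0 9206897 0) (P.cons (P.lf 0 503763 0) (P.lf 55973 0 0)))) (P.cons (P.cons (P.lf 0 2107600 0) (P.cons (P.lf 0 358381 0) (P.cons (P.lf 0 19605 0) (P.lf 2177 0 0)))) (P.cons (P.cons (P.lf 0 1109934 0) (P.cons (P.lf 39739 0 0) (P.cons (P.lf 2175 0 0) P.nil))) (P.cons (P.cons (P.lf 0 20394 0) (P.cons (P.lf 3723 0 0) P.nil)) (P.cons (P.cons (P.lf 2385 0 0) P.nil) P.nil)))))) 1436)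
 (EL.cons 8 (TM.mk (P.cons (P.cons (P.lf 0 201631376 0) (P.cons (P.lf 0 18203407 0) (P.cons (P.lf 0 996017 0) (P.lf 110667 0 0)))) (P.cons (P.cons (P.lf 68821066 0 0) (P.cons (P.lf 0 5621271 0) (P.cons (P.lf 0 307573 0) (P.lf 34174 0 0)))) (P.cons (P.cons (P.lf 8198551 0 0) (P.cons (P.lf 0 634123 0) (P.cons (P.lf 0 34695 0) (P.lf 3854 0 0)))) (P.cons (P.cons (P.lf 0 116184 0) (P.cons (P.lf 0 24472 0) (P.cons (P.lf 0 1338 0) P.nil))) (P.cons (P.cons (P.lf 0 35478 0) (P.cons (P.lf 962 0 0) P.nil)) (P.cons (P.cons (P.lf 0 959 0) P.nil) P.nil)))))) 675)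
 EL.nil))
noncomputable def S125_140_364_438_14 : EL := (EL.cons 4 (TM.mk (P.cons (P.cons (P.lf 87931292 0 0) (P.cons (P.lf 15876984 0 0) (P.cons (P.lf 1585415 0 0) (P.cons (P.lf 0 18094 0) (P.cons (P.lf 0 6568 0) (P.cons (P.lf 0 476 0) P.nil)))))) (P.cons (P.cons (P.lf 0 76535554 0) (P.cons (P.lf 0 3497339 0) (P.cons (P.lf 116706 0 0) (P.cons (P.lf 54974 0 0) (P.cons (P.lf 0 2822 0) P.nil))))) (P.cons (P.cons (P.lf 16275988 0 0) (P.cons (P.lf 0 1323707 0) (P.cons (P.lf 0 21674 0) (P.cons (P.lf 13601 0 0) P.nil)))) (P.cons (P.cons (P.lf 465062 0 0) (P.cons (P.lf 0 71733 0) (P.cons (P.lf 0 713 0) P.nil))) (P.cons (P.cons (P.lf 0 120726 0) (P.cons (P.lf 8001 0 0) P.nil)) (P.cons (P.cons (P.lf 0 5235 0) P.nil) P.nil)))))) 7160)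
 (EL.cons 8 (TM.mk (P.cons (P.cons (P.lf 34465482 0 0) (P.cons (P.lf 6223130 0 0) (P.cons (P.lf 621418 0 0) (P.cons (P.lf 0 7092 0) (P.cons (P.lf 0 2574 0) (P.cons (P.lf 0 186 0) P.nil)))))) (P.cons (P.cons (P.lf 0 26188364 0) (P.cons (P.lf 0 682794 0) (P.cons (P.lf 114447 0 0) (P.cons (P.lf 20763 0 0) (P.cons (P.lf 0 1391 0) P.nil))))) (P.cons (P.cons (P.lf 3242154 0 0) (P.cons (P.lf 0 638028 0) (P.cons (P.lf 0 206 0) (P.cons (P.lf 7676 0 0) P.nil)))) (P.cons (P.cons (P.lf 742457 0 0) (P.cons (P.lf 0 90643 0) (P.cons (P.lf 0 784 0) P.nil))) (P.cons (P.cons (P.lf 0 2800 0) (P.cons (P.lf 0 2984 0) P.nil)) (P.cons (P.cons (P.lf 0 4856 0) P.nil) P.nil)))))) 3250)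
 EL.nil))
noncomputable def S125_140_364_438_15 : EL := (EL.cons 4 (TM.mk (P.cons (P.lf 0 2249317552 0) (P.cons (P.lf 150064186 0 0) (P.cons (P.lf 5343341 0 0) (P.cons (P.lf 0 171695 0) (P.cons (P.lf 0 13898 0) (P.cons (P.lf 0 206 0) P.nil)))))) 126)
 (EL.cons 8 (TM.mk (P.cons (P.lf 0 881640799 0) (P.cons (P.lf 0 38653876 0) (P.cons (P.lf 4011878 0 0) (P.cons (P.lf 191704 0 0) (P.cons (P.lf 0 328 0) (P.cons (P.lf 0 270 0) P.nil)))))) 70)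
 EL.nil))
noncomputable def S125_140_364_438_16 : EL := (EL.cons 4 (TM.mk (P.cons (P.cons (P.lf 384482895 0 0) (P.cons (P.lf 34711357 0 0) (P.cons (P.lf 1899265 0 0) (P.lf 0 211027 0)))) (P.cons (P.cons (P.lf 0 186565508 0) (P.cons (P.lf 5723450 0 0) (P.cons (P.lf 313163 0 0) (P.lf 0 34795 0)))) (P.cons (P.cons (P.lf 6700224 0 0) (P.cons (P.lf 0 22228 0) (P.cons (P.lf 0 1217 0) (P.lf 135 0 0)))) (P.cons (P.cons (P.lf 1072363 0 0) (P.cons (P.lf 0 51333 0) (P.cons (P.lf 0 2808 0) P.nil))) (P.cons (P.cons (P.lf 0 11353 0) (P.cons (P.lf 0 2366 0) P.nil)) (P.cons (P.cons (P.lf 0 3910 0) P.nil) P.nil)))))) 1569)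
 (EL.cons 8 (TM.mk (P.cons (P.cons (P.lf 150701623 0 0) (P.cons (P.lf 13605437 0 0) (P.cons (P.lf 744434 0 0) (P.lf 0 82714 0)))) (P.cons (P.cons (P.lf 0 56464723 0) (P.cons (P.lf 3747556 0 0) (P.cons (P.lf 205051 0 0) (P.lf 0 22783 0)))) (P.cons (P.cons (P.lf 0 4674693 0) (P.cons (P.lf 310072 0 0) (P.cons (P.lf 16964 0 0) (P.lf 0 1884 0)))) (P.cons (P.cons (P.lf 377941 0 0) (P.cons (P.lf 0 5118 0) (P.cons (P.lf 0 280 0) P.nil))) (P.cons (P.cons (P.lf 35472 0 0) (P.cons (P.lf 0 2227 0) P.nil)) (P.cons (P.cons (P.lf 0 236 0) P.nil) P.nil)))))) 780)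
 EL.nil))
noncomputable def S125_140_364_438_17 : EL := (EL.cons 4 (TM.mk (P.cons (P.cons (P.lf 0 65720865 0) (P.cons (P.lf 0 11866641 0) (P.cons (P.lf 0 1184957 0) (P.cons (P.lf 13523 0 0) (P.cons (P.lf 4908 0 0) (P.cons (P.lf 355 0 0) P.nil)))))) (P.cons (P.cons (P.lf 59395857 0 0) (P.cons (P.lf 3009795 0 0) (P.cons (P.lf 0 47700 0) (P.cons (P.lf 0 41538 0) (P.cons (P.lf 1946 0 0) P.nil))))) (P.cons (P.cons (P.lf 0 13958415 0) (P.cons (P.lf 922855 0 0) (P.cons (P.lf 21176 0 0) (P.cons (P.lf 0 8818 0) P.nil)))) (P.cons (P.cons (P.lf 0 40256 0) (P.cons (P.lf 16290 0 0) (P.cons (P.lf 168 0 0) P.nil))) (P.cons (P.cons (P.lf 121840 0 0) (P.cons (P.lf 0 9557 0) P.nil)) (P.cons (P.cons (P.lf 1801 0 0) P.nil) P.nil)))))) 6517)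
 (EL.cons 8 (TM.mk (P.cons (P.cons (P.lf 0 25759900 0) (P.cons (P.lf 0 4651239 0) (P.cons (P.lf 0 464455 0) (P.cons (P.lf 5300 0 0) (P.cons (P.lf 1924 0 0) (P.cons (P.lf 139 0 0) P.nil)))))) (P.cons (P.cons (P.lf 20432777 0 0) (P.cons (P.lf 665482 0 0) (P.cons (P.lf 0 70046 0) (P.cons (P.lf 0 15695 0) (P.cons (P.lf 975 0 0) P.nil))))) (P.cons (P.cons (P.lf 0 3031221 0) (P.cons (P.lf 467958 0 0) (P.cons (P.lf 3817 0 0) (P.cons (P.lf 0 5229 0) P.nil)))) (P.cons (P.cons (P.lf 0 507711 0) (P.cons (P.lf 51043 0 0) (P.cons (P.lf 739 0 0) P.nil))) (P.cons (P.cons (P.lf 24415 0 0) (P.cons (P.lf 0 875 0) P.nil)) (P.cons (P.cons (P.lf 4592 0 0) P.nil) P.nil)))))) 3054)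
 EL.nil))
noncomputable def S125_140_364_438_18 : EL := (EL.cons 4 (TM.mk (P.cons (P.lf 1681165965 0 0) (P.cons (P.lf 0 168239564 0) (P.cons (P.lf 0 3184468 0) (P.cons (P.lf 423521 0 0) (P.cons (P.lf 16831 0 0) (P.cons (P.lf 0 367 0) P.nil)))))) 178)
 (EL.cons 8 (TM.mk (P.cons (P.lf 658948535 0 0) (P.cons (P.lf 6909337 0 0) (P.cons (P.lf 0 5111538 0) (P.cons (P.lf 0 106835 0) (P.cons (P.lf 10270 0 0) (P.cons (P.lf 557 0 0) P.nil)))))) 84)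
 EL.nil))
noncomputable def S125_140_364_438_19 : EL := (EL.cons 4 (TM.mk (P.cons (P.cons (P.lf 0 287366964 0) (P.cons (P.lf 0 25943670 0) (P.cons (P.lf 0 1419532 0) (P.lf 157724 0 0)))) (P.cons (P.cons (P.lf 149027125 0 0) (P.cons (P.lf 0 3412351 0) (P.cons (P.lf 0 186709 0) (P.lf 20745 0 0)))) (P.cons (P.cons (P.lf 0 9158057 0) (P.cons (P.lf 204559 0 0) (P.cons (P.lf 11193 0 0) (P.lf 0 1244 0)))) (P.cons (P.cons (P.lf 0 871899 0) (P.cons (P.lf 45793 0 0) (P.cons (P.lf 2505 0 0) P.nil))) (P.cons (P.cons (P.lf 40905 0 0) (P.cons (P.lf 522 0 0) P.nil)) (P.cons (P.cons (P.lf 4251 0 0) P.nil) P.nil)))))) 1616)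
 (EL.cons 8 (TM.mk (P.cons (P.cons (P.lf 0 112636137 0) (P.cons (P.lf 0 10168861 0) (P.cons (P.lf 0 556399 0) (P.lf 61821 0 0)))) (P.cons (P.cons (P.lf 45959671 0 0) (P.cons (P.lf 0 2461757 0) (P.cons (P.lf 0 134697 0) (P.lf 14966 0 0)))) (P.cons (P.cons (P.lf 2282597 0 0) (P.cons (P.lf 0 120581 0) (P.cons (P.lf 0 6597 0) (P.lf 733 0 0)))) (P.cons (P.cons (P.lf 0 470379 0) (P.cons (P.lf 16645 0 0) (P.cons (P.lf 910 0 0) P.nil))) (P.cons (P.cons (P.lf 0 24130 0) (P.cons (P.lf 1988 0 0) P.nil)) (P.cons (P.cons (P.lf 1517 0 0) P.nil) P.nil)))))) 775)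
 EL.nil))
noncomputable def S125_140_364_438_20 : EL := (EL.cons 4 (TM.mk (P.cons (P.cons (P.lf 49120534 0 0) (P.cons (P.lf 8869264 0 0) (P.cons (P.lf 885651 0 0) (P.cons (P.lf 0 10108 0) (P.cons (P.lf 0 3668 0) (P.cons (P.lf 0 265 0) P.nil)))))) (P.cons (P.cons (P.lf 0 46031700 0) (P.cons (P.lf 0 2545414 0) (P.cons (P.lf 6107 0 0) (P.cons (P.lf 31383 0 0) (P.cons (P.lf 0 1332 0) P.nil))))) (P.cons (P.cons (P.lf 11827862 0 0) (P.cons (P.lf 0 630181 0) (P.cons (P.lf 0 18560 0) (P.cons (P.lf 5572 0 0) P.nil)))) (P.cons (P.cons (P.lf 0 241476 0) (P.cons (P.lf 14578 0 0) (P.cons (P.lf 321 0 0) P.nil))) (P.cons (P.cons (P.lf 0 109331 0) (P.cons (P.lf 8805 0 0) P.nil)) (P.cons (P.cons (P.lf 1391 0 0) P.nil) P.nil)))))) 5727)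
 (EL.cons 8 (TM.mk (P.cons (P.cons (P.lf 19253247 0 0) (P.cons (P.lf 3476390 0 0) (P.cons (P.lf 347139 0 0) (P.cons (P.lf 0 3961 0) (P.cons (P.lf 0 1438 0) (P.cons (P.lf 0 104 0) P.nil)))))) (P.cons (P.cons (P.lf 0 15913939 0) (P.cons (P.lf 0 613354 0) (P.cons (P.lf 40773 0 0) (P.cons (P.lf 11863 0 0) (P.cons (P.lf 0 681 0) P.nil))))) (P.cons (P.cons (P.lf 2741418 0 0) (P.cons (P.lf 0 339228 0) (P.cons (P.lf 0 5205 0) (P.cons (P.lf 3523 0 0) P.nil)))) (P.cons (P.cons (P.lf 330145 0 0) (P.cons (P.lf 0 25685 0) (P.cons (P.lf 0 556 0) P.nil))) (P.cons (P.cons (P.lf 0 34535 0) (P.cons (P.lf 2550 0 0) P.nil)) (P.cons (P.cons (P.lf 0 3543 0) P.nil) P.nil)))))) 2638)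
 EL.nil))
noncomputable def S125_140_364_438_21 : EL := (EL.cons 4 (TM.mk (P.cons (P.cons (P.lf 0 2788775826 0) (P.cons (P.lf 139326276 0 0) (P.cons (P.lf 7623369 0 0) (P.lf 0 847032 0)))) (P.cons (P.cons (P.lf 0 247174368 0) (P.cons (P.lf 27620691 0 0) (P.cons (P.lf 1511289 0 0) (P.lf 0 167919 0)))) (P.cons (P.cons (P.lf 22352829 0 0) (P.cons (P.lf 1075143 0 0) (P.cons (P.lf 58815 0 0) (P.lf 0 6531 0)))) (P.cons (P.cons (P.lf 2814720 0 0) (P.cons (P.lf 0 119217 0) (P.cons (P.lf 0 6525 0) P.nil))) (P.cons (P.cons (P.lf 19485 0 0) (P.cons (P.lf 0 11169 0) P.nil)) (P.cons (P.cons (P.lf 0 7773 0) P.nil) P.nil)))))) 4656)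
 (EL.cons 8 (TM.mk (P.cons (P.cons (P.lf 2529764928 0 0) (P.cons (P.lf 0 126386187 0) (P.cons (P.lf 0 6915345 0) (P.lf 768375 0 0)))) (P.cons (P.cons (P.lf 0 55469346 0) (P.cons (P.lf 0 11082330 0) (P.cons (P.lf 0 606381 0) (P.lf 67377 0 0)))) (P.cons (P.cons (P.lf 0 27301548 0) (P.cons (P.lf 907290 0 0) (P.cons (P.lf 49641 0 0) (P.lf 0 5514 0)))) (P.cons (P.cons (P.lf 0 45420 0) (P.cons (P.lf 105387 0 0) (P.cons (P.lf 5763 0 0) P.nil))) (P.cons (P.cons (P.lf 98310 0 0) (P.cons (P.lf 0 300 0) P.nil)) (P.cons (P.cons (P.lf 3156 0 0) P.nil) P.nil)))))) 2730)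
 (EL.cons 11 (TM.mk (P.cons (P.cons (P.lf 815246586 0 0) (P.cons (P.lf 102293856 0 0) (P.cons (P.lf 0 15617625 0) (P.cons (P.lf 0 477114 0) (P.lf 39759 0 0))))) (P.cons (P.cons (P.lf 125875419 0 0) (P.cons (P.lf 15794340 0 0) (P.cons (P.lf 0 2411385 0) (P.cons (P.lf 0 73665 0) (P.lf 6138 0 0))))) (P.cons (P.cons (P.lf 4482054 0 0) (P.cons (P.lf 562389 0 0) (P.cons (P.lf 0 85860 0) (P.cons (P.lf 0 2622 0) P.nil)))) (P.cons (P.cons (P.lf 0 144015 0) (P.cons (P.lf 0 18069 0) (P.cons (P.lf 2757 0 0) P.nil))) (P.cons (P.cons (P.lf 0 11661 0) (P.cons (P.lf 0 1461 0) P.nil)) (P.cons (P.cons (P.lf 0 171 0) P.nil) P.nil)))))) 768)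
 EL.nil)))
noncomputable def S125_140_364_438_22 : EL := (EL.cons 4 (TM.mk (P.cons (P.cons (P.lf 476694186 0 0) (P.cons (P.lf 19220772 0 0) (P.cons (P.lf 0 1098390 0) (P.cons (P.lf 0 352140 0) (P.cons (P.lf 19704 0 0) (P.cons (P.lf 1428 0 0) P.nil)))))) (P.cons (P.cons (P.lf 0 157256736 0) (P.cons (P.lf 19027692 0 0) (P.cons (P.lf 116913 0 0) (P.cons (P.lf 0 216816 0) (P.cons (P.lf 8469 0 0) P.nil))))) (P.cons (P.cons (P.lf 0 25374153 0) (P.cons (P.lf 3263682 0 0) (P.cons (P.lf 26310 0 0) (P.cons (P.lf 0 36501 0) P.nil)))) (P.cons (P.cons (P.lf 1335909 0 0) (P.cons (P.lf 55923 0 0) (P.cons (P.lf 0 6573 0) P.nil))) (P.cons (P.cons (P.lf 305217 0 0) (P.cons (P.lf 0 29550 0) P.nil)) (P.cons (P.cons (P.lf 4206 0 0) P.nil) P.nil)))))) 16425)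
 (EL.cons 8 (TM.mk (P.cons (P.cons (P.lf 0 432420642 0) (P.cons (P.lf 0 17435619 0) (P.cons (P.lf 996378 0 0) (P.cons (P.lf 319431 0 0) (P.cons (P.lf 0 17874 0) (P.cons (P.lf 0 1296 0) P.nil)))))) (P.cons (P.cons (P.lf 190459119 0 0) (P.cons (P.lf 0 15332814 0) (P.cons (P.lf 0 216213 0) (P.cons (P.lf 161361 0 0) (P.cons (P.lf 0 5706 0) P.nil))))) (P.cons (P.cons (P.lf 4209648 0 0) (P.cons (P.lf 0 1174707 0) (P.cons (P.lf 0 5142 0) (P.cons (P.lf 13611 0 0) P.nil)))) (P.cons (P.cons (P.lf 0 2531247 0) (P.cons (P.lf 164397 0 0) (P.cons (P.lf 7341 0 0) P.nil))) (P.cons (P.cons (P.lf 0 70770 0) (P.cons (P.lf 19914 0 0) P.nil)) (P.cons (P.cons (P.lf 12690 0 0) P.nil) P.nil)))))) 9597)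
 (EL.cons 11 (TM.mk (P.cons (P.cons (P.lf 0 139352652 0) (P.cons (P.lf 0 30066252 0) (P.cons (P.lf 402600 0 0) (P.cons (P.lf 312675 0 0) (P.cons (P.lf 23349 0 0) (P.cons (P.lf 0 1674 0) P.nil)))))) (P.cons (P.cons (P.lf 36805875 0 0) (P.cons (P.lf 0 238002 0) (P.cons (P.lf 0 1580145 0) (P.cons (P.lf 67671 0 0) (P.cons (P.lf 13431 0 0) P.nil))))) (P.cons (P.cons (P.lf 9370413 0 0) (P.cons (P.lf 440484 0 0) (P.cons (P.lf 0 311997 0) (P.cons (P.lf 8022 0 0) P.nil)))) (P.cons (P.cons (P.lf 355968 0 0) (P.cons (P.lf 0 4296 0) (P.cons (P.lf 0 15639 0) P.nil))) (P.cons (P.cons (P.lf 0 35139 0) (P.cons (P.lf 0 4653 0) P.nil)) (P.cons (P.cons (P.lf 0 3021 0) P.nil) P.nil)))))) 8559)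
 EL.nil)))
noncomputable def S125_140_364_438_23 : EL := (EL.cons 4 (TM.mk (P.cons (P.cons (P.lf 2084363322 0 0) (P.cons (P.lf 0 104134068 0) (P.cons (P.lf 0 5697792 0) (P.lf 633081 0 0)))) (P.cons (P.cons (P.lf 115211385 0 0) (P.cons (P.lf 0 17170347 0) (P.cons (P.lf 0 939489 0) (P.lf 104385 0 0)))) (P.cons (P.cons (P.lf 0 26504715 0) (P.cons (P.lf 66687 0 0) (P.cons (P.lf 3657 0 0) (P.lf 0 408 0)))) (P.cons (P.cons (P.lf 0 1910385 0) (P.cons (P.lf 153999 0 0) (P.cons (P.lf 8427 0 0) P.nil))) (P.cons (P.cons (P.lf 82932 0 0) (P.cons (P.lf 7095 0 0) P.nil)) (P.cons (P.cons (P.lf 10551 0 0) P.nil) P.nil)))))) 5181)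
 (EL.cons 8 (TM.mk (P.cons (P.cons (P.lf 0 1890775578 0) (P.cons (P.lf 94462497 0 0) (P.cons (P.lf 5168607 0 0) (P.lf 0 574290 0)))) (P.cons (P.cons (P.lf 104530383 0 0) (P.cons (P.lf 5132007 0 0) (P.cons (P.lf 280803 0 0) (P.lf 0 31200 0)))) (P.cons (P.cons (P.lf 22320306 0 0) (P.cons (P.lf 0 1119177 0) (P.cons (P.lf 0 61233 0) (P.lf 6801 0 0)))) (P.cons (P.cons (P.lf 0 681198 0) (P.cons (P.lf 0 72483 0) (P.cons (P.lf 0 3963 0) P.nil))) (P.cons (P.cons (P.lf 0 112731 0) (P.cons (P.lf 3951 0 0) P.nil)) (P.cons (P.cons (P.lf 0 414 0) P.nil) P.nil)))))) 3096)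
 (EL.cons 11 (TM.mk (P.cons (P.cons (P.lf 0 609324729 0) (P.cons (P.lf 0 76455609 0) (P.cons (P.lf 11672793 0 0) (P.cons (P.lf 356598 0 0) (P.lf 0 29715 0))))) (P.cons (P.cons (P.lf 0 73755063 0) (P.cons (P.lf 0 9254487 0) (P.cons (P.lf 1412919 0 0) (P.cons (P.lf 43161 0 0) (P.lf 0 3594 0))))) (P.cons (P.cons (P.lf 851124 0 0) (P.cons (P.lf 106794 0 0) (P.cons (P.lf 0 16305 0) (P.cons (P.lf 0 498 0) P.nil)))) (P.cons (P.cons (P.lf 395667 0 0) (P.cons (P.lf 49644 0 0) (P.cons (P.lf 0 7578 0) P.nil))) (P.cons (P.cons (P.lf 12300 0 0) (P.cons (P.lf 1539 0 0) P.nil)) (P.cons (P.cons (P.lf 0 393 0) P.nil) P.nil)))))) 1410)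
 EL.nil)))
noncomputable def S125_140_364_438_24 : EL := (EL.cons 4 (TM.mk (P.cons (P.cons (P.lf 0 356286750 0) (P.cons (P.lf 0 14365827 0) (P.cons (P.lf 820950 0 0) (P.cons (P.lf 263193 0 0) (P.cons (P.lf 0 14727 0) (P.cons (P.lf 0 1068 0) P.nil)))))) (P.cons (P.cons (P.lf 129420414 0 0) (P.cons (P.lf 0 13742304 0) (P.cons (P.lf 0 114768 0) (P.cons (P.lf 153270 0 0) (P.cons (P.lf 0 5838 0) P.nil))))) (P.cons (P.cons (P.lf 15665634 0 0) (P.cons (P.lf 0 1939860 0) (P.cons (P.lf 0 18180 0) (P.cons (P.lf 21417 0 0) P.nil)))) (P.cons (P.cons (P.lf 0 1828968 0) (P.cons (P.lf 64662 0 0) (P.cons (P.lf 5703 0 0) P.nil))) (P.cons (P.cons (P.lf 0 230565 0) (P.cons (P.lf 28005 0 0) P.nil)) (P.cons (P.cons (P.lf 5916 0 0) P.nil) P.nil)))))) 12783)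
 (EL.cons 8 (TM.mk (P.cons (P.cons (P.lf 323196192 0 0) (P.cons (P.lf 13031583 0 0) (P.cons (P.lf 0 744705 0) (P.cons (P.lf 0 238746 0) (P.cons (P.lf 13359 0 0) (P.cons (P.lf 969 0 0) P.nil)))))) (P.cons (P.cons (P.lf 0 153132435 0) (P.cons (P.lf 11025216 0 0) (P.cons (P.lf 186441 0 0) (P.cons (P.lf 0 112638 0) (P.cons (P.lf 3819 0 0) P.nil))))) (P.cons (P.cons (P.lf 1038474 0 0) (P.cons (P.lf 472983 0 0) (P.cons (P.lf 0 246 0) (P.cons (P.lf 0 5733 0) P.nil)))) (P.cons (P.cons (P.lf 2238651 0 0) (P.cons (P.lf 0 172407 0) (P.cons (P.lf 0 5883 0) P.nil))) (P.cons (P.cons (P.lf 0 1584 0) (P.cons (P.lf 0 12534 0) P.nil)) (P.cons (P.cons (P.lf 0 14601 0) P.nil) P.nil)))))) 7464)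
 (EL.cons 11 (TM.mk (P.cons (P.cons (P.lf 104153784 0 0) (P.cons (P.lf 22471866 0 0) (P.cons (P.lf 0 300909 0) (P.cons (P.lf 0 233697 0) (P.cons (P.lf 0 17451 0) (P.cons (P.lf 1251 0 0) P.nil)))))) (P.cons (P.cons (P.lf 0 30983469 0) (P.cons (P.lf 0 571722 0) (P.cons (P.lf 1191057 0 0) (P.cons (P.lf 0 42783 0) (P.cons (P.lf 0 9456 0) P.nil))))) (P.cons (P.cons (P.lf 0 6267573 0) (P.cons (P.lf 0 374349 0) (P.cons (P.lf 194319 0 0) (P.cons (P.lf 0 3900 0) P.nil)))) (P.cons (P.cons (P.lf 13461 0 0) (P.cons (P.lf 13434 0 0) (P.cons (P.lf 1857 0 0) P.nil))) (P.cons (P.cons (P.lf 47997 0 0) (P.cons (P.lf 3960 0 0) P.nil)) (P.cons (P.cons (P.lf 1965 0 0) P.nil) P.nil)))))) 6528)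
 EL.nil)))
noncomputable def S125_140_364_438_25 : EL := (EL.cons 4 (TM.mk (P.cons (P.cons (P.lf 0 1557877266 0) (P.cons (P.lf 77831007 0 0) (P.cons (P.lf 4258596 0 0) (P.lf 0 473172 0)))) (P.cons (P.cons (P.lf 0 34143096 0) (P.cons (P.lf 10237053 0 0) (P.cons (P.lf 560127 0 0) (P.lf 0 62235 0)))) (P.cons (P.cons (P.lf 25399527 0 0) (P.cons (P.lf 0 613680 0) (P.cons (P.lf 0 33582 0) (P.lf 3732 0 0)))) (P.cons (P.cons (P.lf 948396 0 0) (P.cons (P.lf 0 137379 0) (P.cons (P.lf 0 7515 0) P.nil))) (P.cons (P.cons (P.lf 0 143844 0) (P.cons (P.lf 0 1563 0) P.nil)) (P.cons (P.cons (P.lf 0 8844 0) P.nil) P.nil)))))) 5181)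
 (EL.cons 8 (TM.mk (P.cons (P.cons (P.lf 1413187545 0 0) (P.cons (P.lf 0 70602363 0) (P.cons (P.lf 0 3863076 0) (P.lf 429231 0 0)))) (P.cons (P.cons (P.lf 0 125267925 0) (P.cons (P.lf 0 1480587 0) (P.cons (P.lf 0 81012 0) (P.lf 9000 0 0)))) (P.cons (P.cons (P.lf 0 16541103 0) (P.cons (P.lf 1087578 0 0) (P.cons (P.lf 59505 0 0) (P.lf 0 6609 0)))) (P.cons (P.cons (P.lf 1173603 0 0) (P.cons (P.lf 34374 0 0) (P.cons (P.lf 1878 0 0) P.nil))) (P.cons (P.cons (P.lf 99207 0 0) (P.cons (P.lf 0 6207 0) P.nil)) (P.cons (P.cons (P.lf 0 3066 0) P.nil) P.nil)))))) 3054)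
 (EL.cons 11 (TM.mk (P.cons (P.cons (P.lf 455416353 0 0) (P.cons (P.lf 57143808 0 0) (P.cons (P.lf 0 8724381 0) (P.cons (P.lf 0 266526 0) (P.lf 22209 0 0))))) (P.cons (P.cons (P.lf 39933738 0 0) (P.cons (P.lf 5010723 0 0) (P.cons (P.lf 0 765006 0) (P.cons (P.lf 0 23367 0) (P.lf 1947 0 0))))) (P.cons (P.cons (P.lf 0 3269307 0) (P.cons (P.lf 0 410220 0) (P.cons (P.lf 62631 0 0) (P.cons (P.lf 1911 0 0) P.nil)))) (P.cons (P.cons (P.lf 0 379767 0) (P.cons (P.lf 0 47649 0) (P.cons (P.lf 7272 0 0) P.nil))) (P.cons (P.cons (P.lf 1086 0 0) (P.cons (P.lf 135 0 0) P.nil)) (P.cons (P.cons (P.lf 1197 0 0) P.nil) P.nil)))))) 1677)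
 EL.nil)))
noncomputable def S125_140_364_438_26 : EL := (EL.cons 4 (TM.mk (P.cons (P.cons (P.lf 266292840 0 0) (P.cons (P.lf 10737186 0 0) (P.cons (P.lf 0 613587 0) (P.cons (P.lf 0 196713 0) (P.cons (P.lf 11007 0 0) (P.cons (P.lf 798 0 0) P.nil)))))) (P.cons (P.cons (P.lf 0 105613236 0) (P.cons (P.lf 9912990 0 0) (P.cons (P.lf 106245 0 0) (P.cons (P.lf 0 107994 0) (P.cons (P.lf 3996 0 0) P.nil))))) (P.cons (P.cons (P.lf 0 8946423 0) (P.cons (P.lf 1088523 0 0) (P.cons (P.lf 11799 0 0) (P.cons (P.lf 0 11844 0) P.nil)))) (P.cons (P.cons (P.lf 1920948 0 0) (P.cons (P.lf 0 114822 0) (P.cons (P.lf 0 4854 0) P.nil))) (P.cons (P.cons (P.lf 149325 0 0) (P.cons (P.lf 0 22044 0) P.nil)) (P.cons (P.cons (P.lf 0 12396 0) P.nil) P.nil)))))) 10482)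
 (EL.cons 8 (TM.mk (P.cons (P.cons (P.lf 0 241560573 0) (P.cons (P.lf 0 9739956 0) (P.cons (P.lf 556599 0 0) (P.cons (P.lf 178440 0 0) (P.cons (P.lf 0 9984 0) (P.cons (P.lf 0 723 0) P.nil)))))) (P.cons (P.cons (P.lf 122510862 0 0) (P.cons (P.lf 0 7915473 0) (P.cons (P.lf 0 157914 0) (P.cons (P.lf 78234 0 0) (P.cons (P.lf 0 2520 0) P.nil))))) (P.cons (P.cons (P.lf 0 4172742 0) (P.cons (P.lf 0 61644 0) (P.cons (P.lf 3861 0 0) (P.cons (P.lf 1164 0 0) P.nil)))) (P.cons (P.cons (P.lf 0 1842087 0) (P.cons (P.lf 155220 0 0) (P.cons (P.lf 4620 0 0) P.nil))) (P.cons (P.cons (P.lf 55842 0 0) (P.cons (P.lf 5841 0 0) P.nil)) (P.cons (P.cons (P.lf 13899 0 0) P.nil) P.nil)))))) 6324)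
 (EL.cons 11 (TM.mk (P.cons (P.cons (P.lf 0 77845743 0) (P.cons (P.lf 0 16795731 0) (P.cons (P.lf 224901 0 0) (P.cons (P.lf 174666 0 0) (P.cons (P.lf 13044 0 0) (P.cons (P.lf 0 936 0) P.nil)))))) (P.cons (P.cons (P.lf 25754160 0 0) (P.cons (P.lf 987579 0 0) (P.cons (P.lf 0 897711 0) (P.cons (P.lf 26148 0 0) (P.cons (P.lf 6633 0 0) P.nil))))) (P.cons (P.cons (P.lf 4047750 0 0) (P.cons (P.lf 294834 0 0) (P.cons (P.lf 0 115932 0) (P.cons (P.lf 1545 0 0) P.nil)))) (P.cons (P.cons (P.lf 0 205155 0) (P.cons (P.lf 0 19782 0) (P.cons (P.lf 5004 0 0) P.nil))) (P.cons (P.cons (P.lf 0 44241 0) (P.cons (P.lf 0 3135 0) P.nil)) (P.cons (P.cons (P.lf 0 330 0) P.nil) P.nil)))))) 5313)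
 EL.nil)))
noncomputable def S125_140_364_438_27 : EL := (EL.cons 13 (TM.mk (P.lf 0 4294967296 0) 0)
 EL.nil)
noncomputable def S125_140_364_438_28 : EL := (EL.cons 13 (TM.mk (P.cons (P.cons (P.lf 734152215 0 0) (P.cons (P.lf 66279724 0 0) (P.cons (P.lf 3626560 0 0) (P.lf 0 402948 0)))) (P.cons (P.cons (P.lf 0 307258886 0) (P.cons (P.lf 15350544 0 0) (P.cons (P.lf 839920 0 0) (P.lf 0 93324 0)))) (P.cons (P.cons (P.lf 0 5961134 0) (P.cons (P.lf 1139124 0 0) (P.cons (P.lf 62324 0 0) (P.lf 0 6924 0)))) (P.cons (P.cons (P.lf 863983 0 0) (P.cons (P.lf 9384 0 0) (P.cons (P.lf 512 0 0) P.nil))) (P.cons (P.cons (P.lf 40719 0 0) (P.cons (P.lf 0 2768 0) P.nil)) (P.cons (P.cons (P.lf 0 412 0) P.nil) P.nil)))))) 1093)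
 EL.nil)
noncomputable def S125_140_364_438_29 : EL := (EL.cons 13 (TM.mk (P.cons (P.cons (P.lf 0 125490938 0) (P.cons (P.lf 0 22658801 0) (P.cons (P.lf 0 2262623 0) (P.cons (P.lf 25824 0 0) (P.cons (P.lf 9374 0 0) (P.cons (P.lf 680 0 0) P.nil)))))) (P.cons (P.cons (P.lf 105041447 0 0) (P.cons (P.lf 4235374 0 0) (P.cons (P.lf 0 242034 0) (P.cons (P.lf 0 77595 0) (P.cons (P.lf 4342 0 0) P.nil))))) (P.cons (P.cons (P.lf 0 19943170 0) (P.cons (P.lf 1990889 0 0) (P.cons (P.lf 18913 0 0) (P.cons (P.lf 0 21955 0) P.nil)))) (P.cons (P.cons (P.lf 0 1148277 0) (P.cons (P.lf 175721 0 0) (P.cons (P.lf 1182 0 0) P.nil))) (P.cons (P.cons (P.lf 101423 0 0) (P.cons (P.lf 0 1981 0) P.nil)) (P.cons (P.cons (P.lf 8365 0 0) P.nil) P.nil)))))) 7750)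
 EL.nil)
noncomputable def S125_140_364_438_30 : EL := (EL.cons 13 (TM.mk (P.cons (P.lf 3210108256 0 0) (P.cons (P.lf 0 107081876 0) (P.cons (P.lf 0 5598872 0) (P.cons (P.lf 0 64248 0) (P.cons (P.lf 2892 0 0) (P.cons (P.lf 132 0 0) P.nil)))))) 68)
 EL.nil)
noncomputable def S125_140_364_438_31 : EL := (EL.cons 13 (TM.mk (P.cons (P.cons (P.lf 0 548713860 0) (P.cons (P.lf 0 49538232 0) (P.cons (P.lf 0 2710532 0) (P.lf 301167 0 0)))) (P.cons (P.cons (P.lf 247952687 0 0) (P.cons (P.lf 0 9820691 0) (P.cons (P.lf 0 537348 0) (P.lf 59705 0 0)))) (P.cons (P.cons (P.lf 0 2248107 0) (P.cons (P.lf 0 382274 0) (P.cons (P.lf 0 20913 0) (P.lf 2323 0 0)))) (P.cons (P.cons (P.lf 0 1183930 0) (P.cons (P.lf 42389 0 0) (P.cons (P.lf 2320 0 0) P.nil))) (P.cons (P.cons (P.lf 0 21754 0) (P.cons (P.lf 3972 0 0) P.nil)) (P.cons (P.cons (P.lf 2544 0 0) P.nil) P.nil)))))) 1512)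
 EL.nil)
noncomputable def S125_140_364_438_32 : EL := (EL.cons 13 (TM.mk (P.cons (P.cons (P.lf 93793379 0 0) (P.cons (P.lf 16935450 0 0) (P.cons (P.lf 1691110 0 0) (P.cons (P.lf 0 19301 0) (P.cons (P.lf 0 7006 0) (P.cons (P.lf 0 508 0) P.nil)))))) (P.cons (P.cons (P.lf 0 81637925 0) (P.cons (P.lf 0 3730495 0) (P.cons (P.lf 124487 0 0) (P.cons (P.lf 58639 0 0) (P.cons (P.lf 0 3011 0) P.nil))))) (P.cons (P.cons (P.lf 17361054 0 0) (P.cons (P.lf 0 1411955 0) (P.cons (P.lf 0 23119 0) (P.cons (P.lf 14508 0 0) P.nil)))) (P.cons (P.cons (P.lf 496067 0 0) (P.cons (P.lf 0 76516 0) (P.cons (P.lf 0 761 0) P.nil))) (P.cons (P.cons (P.lf 0 128775 0) (P.cons (P.lf 8535 0 0) P.nil)) (P.cons (P.cons (P.lf 0 5585 0) P.nil) P.nil)))))) 7614)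
 EL.nil)
noncomputable def S125_140_364_438_33 : EL := (EL.cons 14 (TM.mk (P.lf 8589934592 0 0) 0)
 EL.nil)
noncomputable def S125_140_364_438_34 : EL := (EL.cons 14 (TM.mk (P.cons (P.cons (P.lf 0 1468304430 0) (P.cons (P.lf 0 132559448 0) (P.cons (P.lf 0 7253120 0) (P.lf 805896 0 0)))) (P.cons (P.cons (P.lf 614517772 0 0) (P.cons (P.lf 0 30701088 0) (P.cons (P.lf 0 1679840 0) (P.lf 186648 0 0)))) (P.cons (P.cons (P.lf 11922268 0 0) (P.cons (P.lf 0 2278248 0) (P.cons (P.lf 0 124648 0) (P.lf 13848 0 0)))) (P.cons (P.cons (P.lf 0 1727966 0) (P.cons (P.lf 0 18768 0) (P.cons (P.lf 0 1024 0) P.nil))) (P.cons (P.cons (P.lf 0 81438 0) (P.cons (P.lf 5536 0 0) P.nil)) (P.cons (P.cons (P.lf 824 0 0) P.nil) P.nil)))))) 2186)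
 EL.nil)
noncomputable def S125_140_364_438_35 : EL := (EL.cons 14 (TM.mk (P.cons (P.cons (P.lf 250981876 0 0) (P.cons (P.lf 45317602 0 0) (P.cons (P.lf 4525246 0 0) (P.cons (P.lf 0 51648 0) (P.cons (P.lf 0 18748 0) (P.cons (P.lf 0 1360 0) P.nil)))))) (P.cons (P.cons (P.lf 0 210082894 0) (P.cons (P.lf 0 8470748 0) (P.cons (P.lf 484068 0 0) (P.cons (P.lf 155190 0 0) (P.cons (P.lf 0 8684 0) P.nil))))) (P.cons (P.cons (P.lf 39886340 0 0) (P.cons (P.lf 0 3981778 0) (P.cons (P.lf 0 37826 0) (P.cons (P.lf 43910 0 0) P.nil)))) (P.cons (P.cons (P.lf 2296554 0 0) (P.cons (P.lf 0 351442 0) (P.cons (P.lf 0 2364 0) P.nil))) (P.cons (P.cons (P.lf 0 202846 0) (P.cons (P.lf 3962 0 0) P.nil)) (P.cons (P.cons (P.lf 0 16730 0) P.nil) P.nil)))))) 15500)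
 EL.nil)
noncomputable def S125_140_364_438_36 : EL := (EL.cons 14 (TM.mk (P.cons (P.lf 0 6420216512 0) (P.cons (P.lf 214163752 0 0) (P.cons (P.lf 11197744 0 0) (P.cons (P.lf 128496 0 0) (P.cons (P.lf 0 5784 0) (P.cons (P.lf 0 264 0) P.nil)))))) 136)
 EL.nil)
noncomputable def S125_140_364_438_37 : EL := (EL.cons 14 (TM.mk (P.cons (P.cons (P.lf 1097427720 0 0) (P.cons (P.lf 99076464 0 0) (P.cons (P.lf 5421064 0 0) (P.lf 0 602334 0)))) (P.cons (P.cons (P.lf 0 495905374 0) (P.cons (P.lf 19641382 0 0) (P.cons (P.lf 1074696 0 0) (P.lf 0 119410 0)))) (P.cons (P.cons (P.lf 4496214 0 0) (P.cons (P.lf 764548 0 0) (P.cons (P.lf 41826 0 0) (P.lf 0 4646 0)))) (P.cons (P.cons (P.lf 2367860 0 0) (P.cons (P.lf 0 84778 0) (P.cons (P.lf 0 4640 0) P.nil))) (P.cons (P.cons (P.lf 43508 0 0) (P.cons (P.lf 0 7944 0) P.nil)) (P.cons (P.cons (P.lf 0 5088 0) P.nil) P.nil)))))) 3024)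
 EL.nil)
noncomputable def S125_140_364_438_38 : EL := (EL.cons 14 (TM.mk (P.cons (P.cons (P.lf 0 187586758 0) (P.cons (P.lf 0 33870900 0) (P.cons (P.lf 0 3382220 0) (P.cons (P.lf 38602 0 0) (P.cons (P.lf 14012 0 0) (P.cons (P.lf 1016 0 0) P.nil)))))) (P.cons (P.cons (P.lf 163275850 0 0) (P.cons (P.lf 7460990 0 0) (P.cons (P.lf 0 248974 0) (P.cons (P.lf 0 117278 0) (P.cons (P.lf 6022 0 0) P.nil))))) (P.cons (P.cons (P.lf 0 34722108 0) (P.cons (P.lf 2823910 0 0) (P.cons (P.lf 46238 0 0) (P.cons (P.lf 0 29016 0) P.nil)))) (P.cons (P.cons (P.lf 0 992134 0) (P.cons (P.lf 153032 0 0) (P.cons (P.lf 1522 0 0) P.nil))) (P.cons (P.cons (P.lf 257550 0 0) (P.cons (P.lf 0 17070 0) P.nil)) (P.cons (P.cons (P.lf 11170 0 0) P.nil) P.nil)))))) 15228)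
 EL.nil)
noncomputable def S125_140_364_438_39 : EL := (EL.cons 14 (TM.mk (P.cons (P.lf 4798544112 0 0) (P.cons (P.lf 0 320136932 0) (P.cons (P.lf 0 11399128 0) (P.cons (P.lf 366284 0 0) (P.cons (P.lf 29650 0 0) (P.cons (P.lf 440 0 0) P.nil)))))) 254)
 EL.nil)
noncomputable def S125_140_364_438_40 : EL := (EL.cons 14 (TM.mk (P.cons (P.cons (P.lf 0 820230176 0) (P.cons (P.lf 0 74050896 0) (P.cons (P.lf 0 4051766 0) (P.lf 450192 0 0)))) (P.cons (P.cons (P.lf 398006418 0 0) (P.cons (P.lf 0 12210028 0) (P.cons (P.lf 0 668082 0) (P.lf 74230 0 0)))) (P.cons (P.cons (P.lf 0 14293812 0) (P.cons (P.lf 47420 0 0) (P.cons (P.lf 2598 0 0) (P.lf 0 288 0)))) (P.cons (P.cons (P.lf 0 2287708 0) (P.cons (P.lf 109512 0 0) (P.cons (P.lf 5992 0 0) P.nil))) (P.cons (P.cons (P.lf 24220 0 0) (P.cons (P.lf 5048 0 0) P.nil)) (P.cons (P.cons (P.lf 8342 0 0) P.nil) P.nil)))))) 3308)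
 EL.nil)
noncomputable def S125_140_364_438_41 : EL := (EL.cons 14 (TM.mk (P.cons (P.cons (P.lf 140204512 0 0) (P.cons (P.lf 25315502 0 0) (P.cons (P.lf 2527910 0 0) (P.cons (P.lf 0 28850 0) (P.cons (P.lf 0 10472 0) (P.cons (P.lf 0 758 0) P.nil)))))) (P.cons (P.cons (P.lf 0 126711162 0) (P.cons (P.lf 0 6420898 0) (P.cons (P.lf 101760 0 0) (P.cons (P.lf 88616 0 0) (P.cons (P.lf 0 4152 0) P.nil))))) (P.cons (P.cons (P.lf 29777954 0 0) (P.cons (P.lf 0 1968758 0) (P.cons (P.lf 0 45176 0) (P.cons (P.lf 18812 0 0) P.nil)))) (P.cons (P.cons (P.lf 85880 0 0) (P.cons (P.lf 0 34754 0) (P.cons (P.lf 0 360 0) P.nil))) (P.cons (P.cons (P.lf 0 259926 0) (P.cons (P.lf 20390 0 0) P.nil)) (P.cons (P.cons (P.lf 0 3844 0) P.nil) P.nil)))))) 13858)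
 EL.nil)
noncomputable def S125_140_364_438_42 : EL := (EL.cons 14 (TM.mk (P.cons (P.lf 0 3586487394 0) (P.cons (P.lf 358911070 0 0) (P.cons (P.lf 6793532 0 0) (P.cons (P.lf 0 903512 0) (P.cons (P.lf 0 35908 0) (P.cons (P.lf 784 0 0) P.nil)))))) 366)
 EL.nil)
noncomputable def S125_140_364_438_43 : EL := (EL.cons 14 (TM.mk (P.cons (P.cons (P.lf 613049524 0 0) (P.cons (P.lf 55346496 0 0) (P.cons (P.lf 3028336 0 0) (P.lf 0 336478 0)))) (P.cons (P.cons (P.lf 0 317924534 0) (P.cons (P.lf 7279684 0 0) (P.cons (P.lf 398314 0 0) (P.lf 0 44256 0)))) (P.cons (P.cons (P.lf 19537190 0 0) (P.cons (P.lf 0 436394 0) (P.cons (P.lf 0 23880 0) (P.lf 2654 0 0)))) (P.cons (P.cons (P.lf 1860052 0 0) (P.cons (P.lf 0 97692 0) (P.cons (P.lf 0 5346 0) P.nil))) (P.cons (P.cons (P.lf 0 87266 0) (P.cons (P.lf 0 1114 0) P.nil)) (P.cons (P.cons (P.lf 0 9070 0) P.nil) P.nil)))))) 3408)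
 EL.nil)
noncomputable def S125_140_364_438_44 : EL := (EL.cons 14 (TM.mk (P.cons (P.cons (P.lf 0 104790474 0) (P.cons (P.lf 0 18921098 0) (P.cons (P.lf 0 1889390 0) (P.cons (P.lf 21564 0 0) (P.cons (P.lf 7826 0 0) (P.cons (P.lf 566 0 0) P.nil)))))) (P.cons (P.cons (P.lf 98200960 0 0) (P.cons (P.lf 5430218 0 0) (P.cons (P.lf 0 13030 0) (P.cons (P.lf 0 66952 0) (P.cons (P.lf 2842 0 0) P.nil))))) (P.cons (P.cons (P.lf 0 25232774 0) (P.cons (P.lf 1344388 0 0) (P.cons (P.lf 39596 0 0) (P.cons (P.lf 0 11888 0) P.nil)))) (P.cons (P.cons (P.lf 515150 0 0) (P.cons (P.lf 0 31100 0) (P.cons (P.lf 0 686 0) P.nil))) (P.cons (P.cons (P.lf 233240 0 0) (P.cons (P.lf 0 18784 0) P.nil)) (P.cons (P.cons (P.lf 0 2968 0) P.nil) P.nil)))))) 12172)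
 EL.nil)
noncomputable def S125_140_364_438_45 : EL := (EL.cons 14 (TM.mk (P.cons (P.cons (P.lf 0 42901118 0) (P.cons (P.lf 0 11619418 0) (P.cons (P.lf 0 1684776 0) (P.cons (P.lf 0 75722 0) (P.cons (P.lf 4432 0 0) (P.cons (P.lf 988 0 0) P.nil)))))) (P.cons (P.cons (P.lf 53865190 0 0) (P.cons (P.lf 7034880 0 0) (P.cons (P.lf 338046 0 0) (P.cons (P.lf 0 69830 0) (P.cons (P.lf 0 3170 0) P.nil))))) (P.cons (P.cons (P.lf 0 21498730 0) (P.cons (P.lf 206286 0 0) (P.cons (P.lf 130840 0 0) (P.cons (P.lf 5120 0 0) P.nil)))) (P.cons (P.cons (P.lf 2118812 0 0) (P.cons (P.lf 0 368480 0) (P.cons (P.lf 12540 0 0) P.nil))) (P.cons (P.cons (P.lf 294206 0 0) (P.cons (P.lf 0 45106 0) P.nil)) (P.cons (P.cons (P.lf 0 14472 0) P.nil) P.nil)))))) 25348)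
 EL.nil)
noncomputable def S125_140_364_438_46 : EL := (EL.cons 15 (TM.mk (P.lf 4294967296 0 0) 0)
 EL.nil)
noncomputable def S125_140_364_438_47 : EL := (EL.cons 15 (TM.mk (P.cons (P.cons (P.lf 0 734152215 0) (P.cons (P.lf 0 66279724 0) (P.cons (P.lf 0 3626560 0) (P.lf 402948 0 0)))) (P.cons (P.cons (P.lf 307258886 0 0) (P.cons (P.lf 0 15350544 0) (P.cons (P.lf 0 839920 0) (P.lf 93324 0 0)))) (P.cons (P.cons (P.lf 5961134 0 0) (P.cons (P.lf 0 1139124 0) (P.cons (P.lf 0 62324 0) (P.lf 6924 0 0)))) (P.cons (P.cons (P.lf 0 863983 0) (P.cons (P.lf 0 9384 0) (P.cons (P.lf 0 512 0) P.nil))) (P.cons (P.cons (P.lf 0 40719 0) (P.cons (P.lf 2768 0 0) P.nil)) (P.cons (P.cons (P.lf 412 0 0) P.nil) P.nil)))))) 1093)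
 EL.nil)
noncomputable def S125_140_364_438_48 : EL := (EL.cons 15 (TM.mk (P.cons (P.cons (P.lf 125490938 0 0) (P.cons (P.lf 22658801 0 0) (P.cons (P.lf 2262623 0 0) (P.cons (P.lf 0 25824 0) (P.cons (P.lf 0 9374 0) (P.cons (P.lf 0 680 0) P.nil)))))) (P.cons (P.cons (P.lf 0 105041447 0) (P.cons (P.lf 0 4235374 0) (P.cons (P.lf 242034 0 0) (P.cons (P.lf 77595 0 0) (P.cons (P.lf 0 4342 0) P.nil))))) (P.cons (P.cons (P.lf 19943170 0 0) (P.cons (P.lf 0 1990889 0) (P.cons (P.lf 0 18913 0) (P.cons (P.lf 21955 0 0) P.nil)))) (P.cons (P.cons (P.lf 1148277 0 0) (P.cons (P.lf 0 175721 0) (P.cons (P.lf 0 1182 0) P.nil))) (P.cons (P.cons (P.lf 0 101423 0) (P.cons (P.lf 1981 0 0) P.nil)) (P.cons (P.cons (P.lf 0 8365 0) P.nil) P.nil)))))) 7750)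
 EL.nil)
noncomputable def S125_140_364_438 : SL := (SL.cons S125_140_364_438_0 (SL.cons S125_140_364_438_1 (SL.cons S125_140_364_438_2 (SL.cons S125_140_364_438_3 (SL.cons S125_140_364_438_4 (SL.cons S125_140_364_438_5 (SL.cons S125_140_364_438_6 (SL.cons S125_140_364_438_7 (SL.cons S125_140_364_438_8 (SL.cons S125_140_364_438_9 (SL.cons S125_140_364_438_10 (SL.cons S125_140_364_438_11 (SL.cons S125_140_364_438_12 (SL.cons S125_140_364_438_13 (SL.cons S125_140_364_438_14 (SL.cons S125_140_364_438_15 (SL.cons S125_140_364_438_16 (SL.cons S125_140_364_438_17 (SL.cons S125_140_364_438_18 (SL.cons S125_140_364_438_19 (SL.cons S125_140_364_438_20 (SL.cons S125_140_364_438_21 (SL.cons S125_140_364_438_22 (SL.cons S125_140_364_438_23 (SL.cons S125_140_364_438_24 (SL.cons S125_140_364_438_25 (SL.cons S125_140_364_438_26 (SL.cons S125_140_364_438_27 (SL.cons S125_140_364_438_28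 (SL.cons S125_140_364_438_29 (SL.cons S125_140_364_438_30 (SL.cons S125_140_364_438_31 (SL.cons S125_140_364_438_32 (SL.cons S125_140_364_438_33 (SL.cons S125_140_364_438_34 (SL.cons S125_140_364_438_35 (SL.cons S125_140_364_438_36 (SL.cons S125_140_364_438_37 (SL.cons S125_140_364_438_38 (SL.cons S125_140_364_438_39 (SL.cons S125_140_364_438_40 (SL.cons S125_140_364_438_41 (SL.cons S125_140_364_438_42 (SL.cons S125_140_364_438_43 (SL.cons S125_140_364_438_44 (SL.cons S125_140_364_438_45 (SL.cons S125_140_364_438_46 (SL.cons S125_140_364_438_47 (SL.cons S125_140_364_438_48 SL.nil)))))))))))))))))))))))))))))))))))))))))))))))))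
noncomputable def S125_140_364_512_0 : EL := (EL.cons 0 (TM.mk (P.cons (P.lf 4238246453 0 0) (P.cons (P.lf 281370350 0 0) (P.cons (P.lf 10018764 0 0) (P.cons (P.lf 0 321929 0) (P.cons (P.lf 0 26059 0) (P.cons (P.lf 0 386 0) P.nil)))))) 230)
 (EL.cons 1 (TM.mk (P.cons (P.lf 0 1653076498 0) (P.cons (P.lf 0 72476017 0) (P.cons (P.lf 7522271 0 0) (P.cons (P.lf 359445 0 0) (P.cons (P.lf 0 615 0) (P.cons (P.lf 0 506 0) P.nil)))))) 138)
 (EL.cons 5 (TM.mk (P.cons (P.lf 5794512336 0 0) (P.cons (P.lf 0 100042792 0) (P.cons (P.lf 0 3562232 0) (P.cons (P.lf 114460 0 0) (P.cons (P.lf 9268 0 0) (P.cons (P.lf 138 0 0) P.nil)))))) 79)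
 (EL.cons 9 (TM.mk (P.lf 6442450944 0 0) 2)
 EL.nil))))
noncomputable def S125_140_364_512_1 : EL := (EL.cons 0 (TM.mk (P.cons (P.cons (P.lf 0 4496475703 0) (P.cons (P.lf 283376291 0 0) (P.cons (P.lf 18945861 0 0) (P.lf 0 6315278 0)))) (P.cons (P.cons (P.lf 52406668 0 0) (P.cons (P.lf 27726134 0 0) (P.cons (P.lf 1853696 0 0) (P.lf 0 617886 0)))) (P.cons (P.cons (P.lf 71468699 0 0) (P.cons (P.lf 0 5258159 0) (P.cons (P.lf 0 351549 0) (P.lf 117183 0 0)))) (P.cons (P.cons (P.lf 3468587 0 0) (P.cons (P.lf 0 880531 0) (P.cons (P.lf 0 58863 0) P.nil))) (P.cons (P.cons (P.lf 0 269848 0) (P.cons (P.lf 0 26848 0) P.nil)) (P.cons (P.cons (P.lf 0 25114 0) P.nil) P.nil)))))) 54018)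
 (EL.cons 1 (TM.mk (P.cons (P.cons (P.lf 1263255309 0 0) (P.cons (P.lf 0 54086318 0) (P.cons (P.lf 0 3616092 0) (P.lf 1205366 0 0)))) (P.cons (P.cons (P.lf 0 317507998 0) (P.cons (P.lf 27837254 0 0) (P.cons (P.lf 1861126 0 0) (P.lf 0 620367 0)))) (P.cons (P.cons (P.lf 0 25990627 0) (P.cons (P.lf 5461843 0 0) (P.cons (P.lf 365160 0 0) (P.lf 0 121713 0)))) (P.cons (P.cons (P.lf 2710036 0 0) (P.cons (P.lf 95946 0 0) (P.cons (P.lf 6412 0 0) P.nil))) (P.cons (P.cons (P.lf 227084 0 0) (P.cons (P.lf 0 30883 0) P.nil)) (P.cons (P.cons (P.lf 0 3186 0) P.nil) P.nil)))))) 23882)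
 (EL.cons 5 (TM.mk (P.cons (P.cons (P.lf 232532481 0 0) (P.cons (P.lf 0 346657588 0) (P.cons (P.lf 0 23176714 0) (P.lf 7725570 0 0)))) (P.cons (P.cons (P.lf 476341489 0 0) (P.cons (P.lf 0 66809596 0) (P.cons (P.lf 0 4466728 0) (P.lf 1488904 0 0)))) (P.cons (P.cons (P.lf 0 17307851 0) (P.cons (P.lf 0 2356660 0) (P.cons (P.lf 0 157566 0) (P.lf 52520 0 0)))) (P.cons (P.cons (P.lf 0 2718780 0) (P.cons (P.lf 278252 0 0) (P.cons (P.lf 18600 0 0) P.nil))) (P.cons (P.cons (P.lf 31647 0 0) (P.cons (P.lf 19830 0 0) P.nil)) (P.cons (P.cons (P.lf 9854 0 0) P.nil) P.nil)))))) 18752)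
 (EL.cons 9 (TM.mk (P.cons (P.cons (P.lf 0 1205483320 0) (P.cons (P.lf 0 216971970 0) (P.cons (P.lf 0 14506236 0) (P.lf 4835412 0 0)))) (P.cons (P.cons (P.lf 436742613 0 0) (P.cons (P.lf 0 50251242 0) (P.cons (P.lf 0 3359676 0) (P.lf 1119888 0 0)))) (P.cons (P.cons (P.lf 7149909 0 0) (P.cons (P.lf 0 3729018 0) (P.cons (P.lf 0 249312 0) (P.lf 83100 0 0)))) (P.cons (P.cons (P.lf 0 1310740 0) (P.cons (P.lf 0 30726 0) (P.cons (P.lf 0 2052 0) P.nil))) (P.cons (P.cons (P.lf 0 56722 0) (P.cons (P.lf 9072 0 0) P.nil)) (P.cons (P.cons (P.lf 816 0 0) P.nil) P.nil)))))) 5474)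
 (EL.cons 2 (TM.mk (P.cons (P.cons (P.lf 631669373 0 0) (P.cons (P.lf 97798277 0 0) (P.cons (P.lf 0 47116125 0) (P.cons (P.lf 0 1783009 0) (P.lf 445750 0 0))))) (P.cons (P.cons (P.lf 76459747 0 0) (P.cons (P.lf 11837885 0 0) (P.cons (P.lf 0 5703120 0) (P.cons (P.lf 0 215820 0) (P.lf 53955 0 0))))) (P.cons (P.cons (P.lf 0 882337 0) (P.cons (P.lf 0 136605 0) (P.cons (P.lf 65812 0 0) (P.cons (P.lf 2489 0 0) P.nil)))) (P.cons (P.cons (P.lf 0 410177 0) (P.cons (P.lf 0 63503 0) (P.cons (P.lf 30591 0 0) P.nil))) (P.cons (P.cons (P.lf 0 12751 0) (P.cons (P.lf 0 1971 0) P.nil)) (P.cons (P.cons (P.lf 405 0 0) P.nil) P.nil)))))) 9125)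
 (EL.cons 6 (TM.mk (P.cons (P.cons (P.lf 247588647 0 0) (P.cons (P.lf 38332938 0 0) (P.cons (P.lf 0 18467601 0) (P.cons (P.lf 0 698865 0) (P.lf 174714 0 0))))) (P.cons (P.cons (P.lf 57342144 0 0) (P.cons (P.lf 8878002 0 0) (P.cons (P.lf 0 4277139 0) (P.cons (P.lf 0 161859 0) (P.lf 40464 0 0))))) (P.cons (P.cons (P.lf 4255215 0 0) (P.cons (P.lf 658812 0 0) (P.cons (P.lf 0 317394 0) (P.cons (P.lf 0 12009 0) P.nil)))) (P.cons (P.cons (P.lf 35061 0 0) (P.cons (P.lf 5427 0 0) (P.cons (P.lf 0 2613 0) P.nil))) (P.cons (P.cons (P.lf 0 10356 0) (P.cons (P.lf 0 1602 0) P.nil)) (P.cons (P.cons (P.lf 0 474 0) P.nil) P.nil)))))) 4782)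
 EL.nil))))))
noncomputable def S125_140_364_512_2 : EL := (EL.cons 0 (TM.mk (P.cons (P.cons (P.lf 1534331241 0 0) (P.cons (P.lf 143403764 0 0) (P.cons (P.lf 0 14306913 0) (P.cons (P.lf 0 6390943 0) (P.cons (P.lf 958210 0 0) (P.cons (P.lf 71196 0 0) P.nil)))))) (P.cons (P.cons (P.lf 0 531585325 0) (P.cons (P.lf 98095206 0 0) (P.cons (P.lf 0 2275670 0) (P.cons (P.lf 0 3367380 0) (P.cons (P.lf 354251 0 0) P.nil))))) (P.cons (P.cons (P.lf 0 40550710 0) (P.cons (P.lf 10147891 0 0) (P.cons (P.lf 0 310219 0) (P.cons (P.lf 0 358346 0) P.nil)))) (P.cons (P.cons (P.lf 8466624 0 0) (P.cons (P.lf 0 1184929 0) (P.cons (P.lf 0 45304 0) P.nil))) (P.cons (P.cons (P.lf 772577 0 0) (P.cons (P.lf 0 243077 0) P.nil)) (P.cons (P.cons (P.lf 0 38539 0) P.nil) P.nil)))))) 499242)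
 (EL.cons 1 (TM.mk (P.cons (P.cons (P.lf 0 414871699 0) (P.cons (P.lf 0 44013634 0) (P.cons (P.lf 2575432 0 0) (P.cons (P.lf 1718727 0 0) (P.cons (P.lf 0 221285 0) (P.cons (P.lf 0 16446 0) P.nil)))))) (P.cons (P.cons (P.lf 250696628 0 0) (P.cons (P.lf 0 17880706 0) (P.cons (P.lf 0 1276039 0) (P.cons (P.lf 387712 0 0) (P.cons (P.lf 3231 0 0) P.nil))))) (P.cons (P.cons (P.lf 0 25709781 0) (P.cons (P.lf 5123699 0 0) (P.cons (P.lf 0 202410 0) (P.cons (P.lf 0 187056 0) P.nil)))) (P.cons (P.cons (P.lf 0 4901002 0) (P.cons (P.lf 1175591 0 0) (P.cons (P.lf 0 26442 0) P.nil))) (P.cons (P.cons (P.lf 287708 0 0) (P.cons (P.lf 9249 0 0) P.nil)) (P.cons (P.cons (P.lf 46802 0 0) P.nil) P.nil)))))) 223694)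
 (EL.cons 5 (TM.mk (P.cons (P.cons (P.lf 0 289899900 0) (P.cons (P.lf 41036065 0 0) (P.cons (P.lf 19521007 0 0) (P.cons (P.lf 1328864 0 0) (P.cons (P.lf 0 672801 0) (P.cons (P.lf 0 49994 0) P.nil)))))) (P.cons (P.cons (P.lf 3772991 0 0) (P.cons (P.lf 0 46905295 0) (P.cons (P.lf 3841099 0 0) (P.cons (P.lf 1978255 0 0) (P.cons (P.lf 0 279787 0) P.nil))))) (P.cons (P.cons (P.lf 44940575 0 0) (P.cons (P.lf 0 10293986 0) (P.cons (P.lf 392180 0 0) (P.cons (P.lf 373866 0 0) P.nil)))) (P.cons (P.cons (P.lf 0 1355767 0) (P.cons (P.lf 0 165022 0) (P.cons (P.lf 45175 0 0) P.nil))) (P.cons (P.cons (P.lf 0 443043 0) (P.cons (P.lf 95976 0 0) P.nil)) (P.cons (P.cons (P.lf 1335 0 0) P.nil) P.nil)))))) 221063)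
 (EL.cons 9 (TM.mk (P.cons (P.cons (P.lf 225564780 0 0) (P.cons (P.lf 81197697 0 0) (P.cons (P.lf 12735973 0 0) (P.cons (P.lf 0 832465 0) (P.cons (P.lf 0 293035 0) (P.cons (P.lf 0 21774 0) P.nil)))))) (P.cons (P.cons (P.lf 0 163442745 0) (P.cons (P.lf 0 10612069 0) (P.cons (P.lf 2675271 0 0) (P.cons (P.lf 689095 0 0) (P.cons (P.lf 0 135735 0) P.nil))))) (P.cons (P.cons (P.lf 26931663 0 0) (P.cons (P.lf 0 5899282 0) (P.cons (P.lf 248722 0 0) (P.cons (P.lf 217468 0 0) P.nil)))) (P.cons (P.cons (P.lf 1459923 0 0) (P.cons (P.lf 0 517342 0) (P.cons (P.lf 25653 0 0) P.nil))) (P.cons (P.cons (P.lf 0 148551 0) (P.cons (P.lf 8430 0 0) P.nil)) (P.cons (P.cons (P.lf 0 10905 0) P.nil) P.nil)))))) 91213)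
 (EL.cons 2 (TM.mk (P.cons (P.cons (P.lf 0 236390433 0) (P.cons (P.lf 0 79146506 0) (P.cons (P.lf 8200316 0 0) (P.cons (P.lf 4348642 0 0) (P.cons (P.lf 312266 0 0) (P.cons (P.lf 0 92716 0) P.nil)))))) (P.cons (P.cons (P.lf 57029838 0 0) (P.cons (P.lf 0 6174506 0) (P.cons (P.lf 0 7580008 0) (P.cons (P.lf 1137245 0 0) (P.cons (P.lf 209188 0 0) P.nil))))) (P.cons (P.cons (P.lf 12098885 0 0) (P.cons (P.lf 8623 0 0) (P.cons (P.lf 0 1315800 0) (P.cons (P.lf 127175 0 0) P.nil)))) (P.cons (P.cons (P.lf 0 53443 0) (P.cons (P.lf 0 61419 0) (P.cons (P.lf 0 7790 0) P.nil))) (P.cons (P.cons (P.lf 0 95028 0) (P.cons (P.lf 0 5383 0) P.nil)) (P.cons (P.cons (P.lf 0 3616 0) P.nil) P.nil)))))) 122135)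
 (EL.cons 6 (TM.mk (P.cons (P.cons (P.lf 0 92655414 0) (P.cons (P.lf 0 31022202 0) (P.cons (P.lf 3214188 0 0) (P.cons (P.lf 1704486 0 0) (P.cons (P.lf 122394 0 0) (P.cons (P.lf 0 36342 0) P.nil)))))) (P.cons (P.cons (P.lf 12109524 0 0) (P.cons (P.lf 0 5849922 0) (P.cons (P.lf 0 2615694 0) (P.cons (P.lf 634200 0 0) (P.cons (P.lf 95520 0 0) P.nil))))) (P.cons (P.cons (P.lf 6731718 0 0) (P.cons (P.lf 0 425532 0) (P.cons (P.lf 0 827496 0) (P.cons (P.lf 107994 0 0) P.nil)))) (P.cons (P.cons (P.lf 590340 0 0) (P.cons (P.lf 0 46080 0) (P.cons (P.lf 0 74508 0) P.nil))) (P.cons (P.cons (P.lf 0 9612 0) (P.cons (P.lf 0 6108 0) P.nil)) (P.cons (P.cons (P.lf 0 3822 0) P.nil) P.nil)))))) 74670)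
 EL.nil))))))
noncomputable def S125_140_364_512_3 : EL := (EL.cons 0 (TM.mk (P.cons (P.lf 4217470410 0 0) (P.cons (P.lf 0 281370350 0) (P.cons (P.lf 0 10018764 0) (P.cons (P.lf 321929 0 0) (P.cons (P.lf 26059 0 0) (P.cons (P.lf 386 0 0) P.nil)))))) 230)
 (EL.cons 1 (TM.mk (P.cons (P.lf 1653076498 0 0) (P.cons (P.lf 72476017 0 0) (P.cons (P.lf 0 7522271 0) (P.cons (P.lf 0 359445 0) (P.cons (P.lf 615 0 0) (P.cons (P.lf 506 0 0) P.nil)))))) 138)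
 (EL.cons 5 (TM.mk (P.cons (P.lf 647938608 0 0) (P.cons (P.lf 100042792 0 0) (P.cons (P.lf 3562232 0 0) (P.cons (P.lf 0 114460 0) (P.cons (P.lf 0 9268 0) (P.cons (P.lf 0 138 0) P.nil)))))) 72)
 EL.nil)))
noncomputable def S125_140_364_512_4 : EL := (EL.cons 0 (TM.mk (P.cons (P.cons (P.lf 0 789154667 0) (P.cons (P.lf 0 142038001 0) (P.cons (P.lf 0 9496325 0) (P.lf 3165440 0 0)))) (P.cons (P.cons (P.lf 338556912 0 0) (P.cons (P.lf 0 23420223 0) (P.cons (P.lf 0 1565817 0) (P.lf 521936 0 0)))) (P.cons (P.cons (P.lf 0 12519216 0) (P.cons (P.lf 90954 0 0) (P.cons (P.lf 6080 0 0) (P.lf 0 2028 0)))) (P.cons (P.cons (P.lf 0 1909750 0) (P.cons (P.lf 210051 0 0) (P.cons (P.lf 14044 0 0) P.nil))) (P.cons (P.cons (P.lf 25941 0 0) (P.cons (P.lf 9690 0 0) P.nil)) (P.cons (P.cons (P.lf 7099 0 0) P.nil) P.nil)))))) 11634)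
 (EL.cons 1 (TM.mk (P.cons (P.cons (P.lf 0 309316462 0) (P.cons (P.lf 0 55673107 0) (P.cons (P.lf 0 3722171 0) (P.lf 1240723 0 0)))) (P.cons (P.cons (P.lf 98502931 0 0) (P.cons (P.lf 0 15334910 0) (P.cons (P.lf 0 1025253 0) (P.lf 341748 0 0)))) (P.cons (P.cons (P.lf 8155387 0 0) (P.cons (P.lf 0 1268806 0) (P.cons (P.lf 0 84828 0) (P.lf 28275 0 0)))) (P.cons (P.cons (P.lf 0 698576 0) (P.cons (P.lf 20943 0 0) (P.cons (P.lf 1398 0 0) P.nil))) (P.cons (P.cons (P.lf 0 62130 0) (P.cons (P.lf 9118 0 0) P.nil)) (P.cons (P.cons (P.lf 648 0 0) P.nil) P.nil)))))) 5179)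
 (EL.cons 5 (TM.mk (P.cons (P.cons (P.lf 0 121239446 0) (P.cons (P.lf 0 21821588 0) (P.cons (P.lf 0 1458938 0) (P.lf 486312 0 0)))) (P.cons (P.cons (P.lf 25205078 0 0) (P.cons (P.lf 0 8423222 0) (P.cons (P.lf 0 563156 0) (P.lf 187718 0 0)))) (P.cons (P.cons (P.lf 6834578 0 0) (P.cons (P.lf 0 1275344 0) (P.cons (P.lf 0 85266 0) (P.lf 28420 0 0)))) (P.cons (P.cons (P.lf 242108 0 0) (P.cons (P.lf 0 84926 0) (P.cons (P.lf 0 5676 0) P.nil))) (P.cons (P.cons (P.lf 0 28130 0) (P.cons (P.lf 0 420 0) P.nil)) (P.cons (P.cons (P.lf 0 2252 0) P.nil) P.nil)))))) 3480)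
 EL.nil)))
noncomputable def S125_140_364_512_5 : EL := (EL.cons 0 (TM.mk (P.cons (P.cons (P.lf 147663177 0 0) (P.cons (P.lf 53155061 0 0) (P.cons (P.lf 8337445 0 0) (P.cons (P.lf 0 544962 0) (P.cons (P.lf 0 191831 0) (P.cons (P.lf 0 14252 0) P.nil)))))) (P.cons (P.cons (P.lf 0 116847172 0) (P.cons (P.lf 0 10493321 0) (P.cons (P.lf 1195096 0 0) (P.cons (P.lf 487464 0 0) (P.cons (P.lf 0 76058 0) P.nil))))) (P.cons (P.cons (P.lf 24417966 0 0) (P.cons (P.lf 0 3524686 0) (P.cons (P.lf 26175 0 0) (P.cons (P.lf 113561 0 0) P.nil)))) (P.cons (P.cons (P.lf 44938 0 0) (P.cons (P.lf 0 60463 0) (P.cons (P.lf 2406 0 0) P.nil))) (P.cons (P.cons (P.lf 0 210144 0) (P.cons (P.lf 37084 0 0) P.nil)) (P.cons (P.cons (P.lf 0 2221 0) P.nil) P.nil)))))) 86784)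
 (EL.cons 1 (TM.mk (P.cons (P.cons (P.lf 57877946 0 0) (P.cons (P.lf 20834617 0 0) (P.cons (P.lf 3267937 0 0) (P.cons (P.lf 0 213601 0) (P.cons (P.lf 0 75189 0) (P.cons (P.lf 0 5585 0) P.nil)))))) (P.cons (P.cons (P.lf 0 39400426 0) (P.cons (P.lf 0 1809508 0) (P.cons (P.lf 829726 0 0) (P.cons (P.lf 167450 0 0) (P.cons (P.lf 0 38124 0) P.nil))))) (P.cons (P.cons (P.lf 4808364 0 0) (P.cons (P.lf 0 1727893 0) (P.cons (P.lf 79044 0 0) (P.cons (P.lf 64522 0 0) P.nil)))) (P.cons (P.cons (P.lf 855828 0 0) (P.cons (P.lf 0 191250 0) (P.cons (P.lf 5544 0 0) P.nil))) (P.cons (P.cons (P.lf 0 43996 0) (P.cons (P.lf 3830 0 0) P.nil)) (P.cons (P.cons (P.lf 0 7672 0) P.nil) P.nil)))))) 39584)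
 (EL.cons 5 (TM.mk (P.cons (P.cons (P.lf 22685796 0 0) (P.cons (P.lf 8166320 0 0) (P.cons (P.lf 1280898 0 0) (P.cons (P.lf 0 83722 0) (P.cons (P.lf 0 29470 0) (P.cons (P.lf 0 2188 0) P.nil)))))) (P.cons (P.cons (P.lf 0 12935252 0) (P.cons (P.lf 193602 0 0) (P.cons (P.lf 466832 0 0) (P.cons (P.lf 56376 0 0) (P.cons (P.lf 0 18200 0) P.nil))))) (P.cons (P.cons (P.lf 295276 0 0) (P.cons (P.lf 0 713204 0) (P.cons (P.lf 73598 0 0) (P.cons (P.lf 32110 0 0) P.nil)))) (P.cons (P.cons (P.lf 470662 0 0) (P.cons (P.lf 0 150948 0) (P.cons (P.lf 7694 0 0) P.nil))) (P.cons (P.cons (P.lf 25200 0 0) (P.cons (P.lf 0 10374 0) P.nil)) (P.cons (P.cons (P.lf 0 2844 0) P.nil) P.nil)))))) 18850)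
 EL.nil)))
noncomputable def S125_140_364_512_6 : EL := (EL.cons 12 (TM.mk (P.lf 8589934592 0 0) 0)
 (EL.cons 3 (TM.mk (P.cons (P.lf 0 3009476490 0) (P.cons (P.lf 100389258 0 0) (P.cons (P.lf 5248942 0 0) (P.cons (P.lf 60232 0 0) (P.cons (P.lf 0 2711 0) (P.cons (P.lf 0 123 0) P.nil)))))) 70)
 (EL.cons 7 (TM.mk (P.cons (P.lf 0 1179592119 0) (P.cons (P.lf 0 91065487 0) (P.cons (P.lf 272589 0 0) (P.cons (P.lf 83145 0 0) (P.cons (P.lf 2049 0 0) (P.cons (P.lf 0 13 0) P.nil)))))) 46)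
 EL.nil)))
noncomputable def S125_140_364_512_7 : EL := (EL.cons 12 (TM.mk (P.cons (P.cons (P.lf 0 1607311094 0) (P.cons (P.lf 0 289295960 0) (P.cons (P.lf 0 19341648 0) (P.lf 6447216 0 0)))) (P.cons (P.cons (P.lf 582323484 0 0) (P.cons (P.lf 0 67001656 0) (P.cons (P.lf 0 4479568 0) (P.lf 1493184 0 0)))) (P.cons (P.cons (P.lf 9533212 0 0) (P.cons (P.lf 0 4972024 0) (P.cons (P.lf 0 332416 0) (P.lf 110800 0 0)))) (P.cons (P.cons (P.lf 0 1747654 0) (P.cons (P.lf 0 40968 0) (P.cons (P.lf 0 2736 0) P.nil))) (P.cons (P.cons (P.lf 0 75630 0) (P.cons (P.lf 12096 0 0) P.nil)) (P.cons (P.cons (P.lf 1088 0 0) P.nil) P.nil)))))) 7274)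
 (EL.cons 3 (TM.mk (P.cons (P.cons (P.lf 3205793330 0 0) (P.cons (P.lf 0 202709200 0) (P.cons (P.lf 0 13552658 0) (P.lf 4517550 0 0)))) (P.cons (P.cons (P.lf 0 4590659 0) (P.cons (P.lf 0 40186032 0) (P.cons (P.lf 0 2686740 0) (P.lf 895574 0 0)))) (P.cons (P.cons (P.lf 0 20996855 0) (P.cons (P.lf 0 1564258 0) (P.cons (P.lf 0 104580 0) (P.lf 34856 0 0)))) (P.cons (P.cons (P.lf 0 1621446 0) (P.cons (P.lf 173448 0 0) (P.cons (P.lf 11596 0 0) P.nil))) (P.cons (P.cons (P.lf 8723 0 0) (P.cons (P.lf 16264 0 0) P.nil)) (P.cons (P.cons (P.lf 5470 0 0) P.nil) P.nil)))))) 22879)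
 (EL.cons 7 (TM.mk (P.cons (P.cons (P.lf 0 2176511636 0) (P.cons (P.lf 315550394 0 0) (P.cons (P.lf 21096967 0 0) (P.lf 0 7032321 0)))) (P.cons (P.cons (P.lf 4164285 0 0) (P.cons (P.lf 36453713 0 0) (P.cons (P.lf 2437212 0 0) (P.lf 0 812404 0)))) (P.cons (P.cons (P.lf 18816543 0 0) (P.cons (P.lf 0 596157 0) (P.cons (P.lf 0 39857 0) (P.lf 13284 0 0)))) (P.cons (P.cons (P.lf 76748 0 0) (P.cons (P.lf 0 176595 0) (P.cons (P.lf 0 11805 0) P.nil))) (P.cons (P.cons (P.lf 0 63527 0) (P.cons (P.lf 0 1445 0) P.nil)) (P.cons (P.cons (P.lf 0 1978 0) P.nil) P.nil)))))) 13440)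
 (EL.cons 10 (TM.mk (P.cons (P.cons (P.lf 0 901485462 0) (P.cons (P.lf 0 139572585 0) (P.cons (P.lf 67241670 0 0) (P.cons (P.lf 2544621 0 0) (P.lf 0 636153 0))))) (P.cons (P.cons (P.lf 0 139190844 0) (P.cons (P.lf 0 21550236 0) (P.cons (P.lf 10382223 0 0) (P.cons (P.lf 392892 0 0) (P.lf 0 98223 0))))) (P.cons (P.cons (P.lf 0 4956177 0) (P.cons (P.lf 0 767340 0) (P.cons (P.lf 369678 0 0) (P.cons (P.lf 13989 0 0) P.nil)))) (P.cons (P.cons (P.lf 159249 0 0) (P.cons (P.lf 24654 0 0) (P.cons (P.lf 0 11877 0) P.nil))) (P.cons (P.cons (P.lf 12894 0 0) (P.cons (P.lf 1995 0 0) P.nil)) (P.cons (P.cons (P.lf 192 0 0) P.nil) P.nil)))))) 5334)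
 EL.nil))))
noncomputable def S125_140_364_512_8 : EL := (EL.cons 12 (TM.mk (P.cons (P.cons (P.lf 300753040 0 0) (P.cons (P.lf 108263596 0 0) (P.cons (P.lf 16981298 0 0) (P.cons (P.lf 0 1109954 0) (P.cons (P.lf 0 390714 0) (P.cons (P.lf 0 29032 0) P.nil)))))) (P.cons (P.cons (P.lf 0 217923660 0) (P.cons (P.lf 0 14149426 0) (P.cons (P.lf 3567028 0 0) (P.cons (P.lf 918794 0 0) (P.cons (P.lf 0 180980 0) P.nil))))) (P.cons (P.cons (P.lf 35908884 0 0) (P.cons (P.lf 0 7865710 0) (P.cons (P.lf 331630 0 0) (P.cons (P.lf 289958 0 0) P.nil)))) (P.cons (P.cons (P.lf 1946564 0 0) (P.cons (P.lf 0 689790 0) (P.cons (P.lf 34204 0 0) P.nil))) (P.cons (P.cons (P.lf 0 198068 0) (P.cons (P.lf 11240 0 0) P.nil)) (P.cons (P.cons (P.lf 0 14540 0) P.nil) P.nil)))))) 121588)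
 (EL.cons 3 (TM.mk (P.cons (P.cons (P.lf 0 1094339549 0) (P.cons (P.lf 0 102142319 0) (P.cons (P.lf 10238347 0 0) (P.cons (P.lf 4558493 0 0) (P.cons (P.lf 0 684430 0) (P.cons (P.lf 0 50862 0) P.nil)))))) (P.cons (P.cons (P.lf 356504015 0 0) (P.cons (P.lf 0 68368787 0) (P.cons (P.lf 2765378 0 0) (P.cons (P.lf 2504636 0 0) (P.cons (P.lf 0 294195 0) P.nil))))) (P.cons (P.cons (P.lf 29294632 0 0) (P.cons (P.lf 0 10194869 0) (P.cons (P.lf 527058 0 0) (P.cons (P.lf 388810 0 0) P.nil)))) (P.cons (P.cons (P.lf 0 3161290 0) (P.cons (P.lf 0 14061 0) (P.cons (P.lf 75528 0 0) P.nil))) (P.cons (P.cons (P.lf 0 436756 0) (P.cons (P.lf 108906 0 0) P.nil)) (P.cons (P.cons (P.lf 690 0 0) P.nil) P.nil)))))) 278153)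
 (EL.cons 7 (TM.mk (P.cons (P.cons (P.lf 855818912 0 0) (P.cons (P.lf 43381424 0 0) (P.cons (P.lf 0 17016195 0) (P.cons (P.lf 0 3629943 0) (P.cons (P.lf 798685 0 0) (P.cons (P.lf 59348 0 0) P.nil)))))) (P.cons (P.cons (P.lf 0 323393274 0) (P.cons (P.lf 62018952 0 0) (P.cons (P.lf 0 2508535 0) (P.cons (P.lf 0 2272010 0) (P.cons (P.lf 266870 0 0) P.nil))))) (P.cons (P.cons (P.lf 0 8696907 0) (P.cons (P.lf 5819643 0 0) (P.cons (P.lf 0 339436 0) (P.cons (P.lf 0 227103 0) P.nil)))) (P.cons (P.cons (P.lf 4069356 0 0) (P.cons (P.lf 0 523704 0) (P.cons (P.lf 0 39147 0) P.nil))) (P.cons (P.cons (P.lf 106908 0 0) (P.cons (P.lf 0 75394 0) P.nil)) (P.cons (P.cons (P.lf 0 20435 0) P.nil) P.nil)))))) 165365)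
 (EL.cons 10 (TM.mk (P.cons (P.cons (P.lf 337364052 0 0) (P.cons (P.lf 112953750 0 0) (P.cons (P.lf 0 11703060 0) (P.cons (P.lf 0 6206154 0) (P.cons (P.lf 0 445650 0) (P.cons (P.lf 132324 0 0) P.nil)))))) (P.cons (P.cons (P.lf 0 70136310 0) (P.cons (P.lf 12579816 0 0) (P.cons (P.lf 10427406 0 0) (P.cons (P.lf 0 1830042 0) (P.cons (P.lf 0 313410 0) P.nil))))) (P.cons (P.cons (P.lf 0 19018074 0) (P.cons (P.lf 604332 0 0) (P.cons (P.lf 2205264 0 0) (P.cons (P.lf 0 253374 0) P.nil)))) (P.cons (P.cons (P.lf 0 673698 0) (P.cons (P.lf 132012 0 0) (P.cons (P.lf 102636 0 0) P.nil))) (P.cons (P.cons (P.lf 78276 0 0) (P.cons (P.lf 13290 0 0) P.nil)) (P.cons (P.cons (P.lf 6264 0 0) P.nil) P.nil)))))) 190188)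
 EL.nil))))
noncomputable def S125_140_364_512_9 : EL := (EL.cons 3 (TM.mk (P.cons (P.lf 0 3009476490 0) (P.cons (P.lf 100389258 0 0) (P.cons (P.lf 5248942 0 0) (P.cons (P.lf 60232 0 0) (P.cons (P.lf 0 2711 0) (P.cons (P.lf 0 123 0) P.nil)))))) 70)
 (EL.cons 7 (TM.mk (P.cons (P.lf 0 1179592119 0) (P.cons (P.lf 0 91065487 0) (P.cons (P.lf 272589 0 0) (P.cons (P.lf 83145 0 0) (P.cons (P.lf 2049 0 0) (P.cons (P.lf 0 13 0) P.nil)))))) 46)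
 EL.nil))
noncomputable def S125_140_364_512_10 : EL := (EL.cons 3 (TM.mk (P.cons (P.cons (P.lf 563120114 0 0) (P.cons (P.lf 101354600 0 0) (P.cons (P.lf 6776329 0 0) (P.lf 0 2258775 0)))) (P.cons (P.cons (P.lf 0 222800951 0) (P.cons (P.lf 20093016 0 0) (P.cons (P.lf 1343370 0 0) (P.lf 0 447787 0)))) (P.cons (P.cons (P.lf 2483413 0 0) (P.cons (P.lf 782129 0 0) (P.cons (P.lf 52290 0 0) (P.lf 0 17428 0)))) (P.cons (P.cons (P.lf 1068264 0 0) (P.cons (P.lf 0 86724 0) (P.cons (P.lf 0 5798 0) P.nil))) (P.cons (P.cons (P.lf 16487 0 0) (P.cons (P.lf 0 8132 0) P.nil)) (P.cons (P.cons (P.lf 0 2426 0) P.nil) P.nil)))))) 5628)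
 (EL.cons 7 (TM.mk (P.cons (P.cons (P.lf 220720132 0 0) (P.cons (P.lf 39726872 0 0) (P.cons (P.lf 2656045 0 0) (P.lf 0 885348 0)))) (P.cons (P.cons (P.lf 0 62926395 0) (P.cons (P.lf 12267788 0 0) (P.cons (P.lf 820194 0 0) (P.lf 0 273397 0)))) (P.cons (P.cons (P.lf 0 7533585 0) (P.cons (P.lf 1383903 0 0) (P.cons (P.lf 92524 0 0) (P.lf 0 30840 0)))) (P.cons (P.cons (P.lf 141848 0 0) (P.cons (P.lf 53409 0 0) (P.cons (P.lf 3570 0 0) P.nil))) (P.cons (P.cons (P.lf 34468 0 0) (P.cons (P.lf 0 2102 0) P.nil)) (P.cons (P.cons (P.lf 830 0 0) P.nil) P.nil)))))) 2738)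
 EL.nil))
noncomputable def S125_140_364_512_11 : EL := (EL.cons 3 (TM.mk (P.cons (P.cons (P.lf 0 105368579 0) (P.cons (P.lf 0 37930061 0) (P.cons (P.lf 0 5949383 0) (P.cons (P.lf 388871 0 0) (P.cons (P.lf 136886 0 0) (P.cons (P.lf 10170 0 0) P.nil)))))) (P.cons (P.cons (P.lf 79864229 0 0) (P.cons (P.lf 6222499 0 0) (P.cons (P.lf 0 1051246 0) (P.cons (P.lf 0 334870 0) (P.cons (P.lf 58839 0 0) P.nil))))) (P.cons (P.cons (P.lf 0 14943710 0) (P.cons (P.lf 2656537 0 0) (P.cons (P.lf 0 64122 0) (P.cons (P.lf 0 91526 0) P.nil)))) (P.cons (P.cons (P.lf 0 393370 0) (P.cons (P.lf 141855 0 0) (P.cons (P.lf 0 5808 0) P.nil))) (P.cons (P.cons (P.lf 112460 0 0) (P.cons (P.lf 0 16938 0) P.nil)) (P.cons (P.cons (P.lf 4284 0 0) P.nil) P.nil)))))) 52729)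
 (EL.cons 7 (TM.mk (P.cons (P.cons (P.lf 0 41300188 0) (P.cons (P.lf 0 14867038 0) (P.cons (P.lf 0 2331915 0) (P.cons (P.lf 152421 0 0) (P.cons (P.lf 53653 0 0) (P.cons (P.lf 3986 0 0) P.nil)))))) (P.cons (P.cons (P.lf 26737434 0 0) (P.cons (P.lf 795288 0 0) (P.cons (P.lf 0 669859 0) (P.cons (P.lf 0 114404 0) (P.cons (P.lf 28994 0 0) P.nil))))) (P.cons (P.cons (P.lf 0 2611257 0) (P.cons (P.lf 1233579 0 0) (P.cons (P.lf 0 82816 0) (P.cons (P.lf 0 49593 0) P.nil)))) (P.cons (P.cons (P.lf 0 651996 0) (P.cons (P.lf 178710 0 0) (P.cons (P.lf 0 7935 0) P.nil))) (P.cons (P.cons (P.lf 5664 0 0) (P.cons (P.lf 5408 0 0) P.nil)) (P.cons (P.cons (P.lf 4453 0 0) P.nil) P.nil)))))) 24241)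
 EL.nil))
noncomputable def S125_140_364_512_12 : EL := (EL.cons 4 (TM.mk (P.cons (P.lf 3009476490 0 0) (P.cons (P.lf 0 100389258 0) (P.cons (P.lf 0 5248942 0) (P.cons (P.lf 0 60232 0) (P.cons (P.lf 2711 0 0) (P.cons (P.lf 123 0 0) P.nil)))))) 70)
 (EL.cons 8 (TM.mk (P.cons (P.lf 1179592119 0 0) (P.cons (P.lf 91065487 0 0) (P.cons (P.lf 0 272589 0) (P.cons (P.lf 0 83145 0) (P.cons (P.lf 0 2049 0) (P.cons (P.lf 13 0 0) P.nil)))))) 46)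
 EL.nil))
noncomputable def S125_140_364_512_13 : EL := (EL.cons 4 (TM.mk (P.cons (P.cons (P.lf 0 563120114 0) (P.cons (P.lf 0 101354600 0) (P.cons (P.lf 0 6776329 0) (P.lf 2258775 0 0)))) (P.cons (P.cons (P.lf 222800951 0 0) (P.cons (P.lf 0 20093016 0) (P.cons (P.lf 0 1343370 0) (P.lf 447787 0 0)))) (P.cons (P.cons (P.lf 0 2483413 0) (P.cons (P.lf 0 782129 0) (P.cons (P.lf 0 52290 0) (P.lf 17428 0 0)))) (P.cons (P.cons (P.lf 0 1068264 0) (P.cons (P.lf 86724 0 0) (P.cons (P.lf 5798 0 0) P.nil))) (P.cons (P.cons (P.lf 0 16487 0) (P.cons (P.lf 8132 0 0) P.nil)) (P.cons (P.cons (P.lf 2426 0 0) P.nil) P.nil)))))) 5628)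
 (EL.cons 8 (TM.mk (P.cons (P.cons (P.lf 0 220720132 0) (P.cons (P.lf 0 39726872 0) (P.cons (P.lf 0 2656045 0) (P.lf 885348 0 0)))) (P.cons (P.cons (P.lf 62926395 0 0) (P.cons (P.lf 0 12267788 0) (P.cons (P.lf 0 820194 0) (P.lf 273397 0 0)))) (P.cons (P.cons (P.lf 7533585 0 0) (P.cons (P.lf 0 1383903 0) (P.cons (P.lf 0 92524 0) (P.lf 30840 0 0)))) (P.cons (P.cons (P.lf 0 141848 0) (P.cons (P.lf 0 53409 0) (P.cons (P.lf 0 3570 0) P.nil))) (P.cons (P.cons (P.lf 0 34468 0) (P.cons (P.lf 2102 0 0) P.nil)) (P.cons (P.cons (P.lf 0 830 0) P.nil) P.nil)))))) 2738)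
 EL.nil))
noncomputable def S125_140_364_512_14 : EL := (EL.cons 4 (TM.mk (P.cons (P.cons (P.lf 105368579 0 0) (P.cons (P.lf 37930061 0 0) (P.cons (P.lf 5949383 0 0) (P.cons (P.lf 0 388871 0) (P.cons (P.lf 0 136886 0) (P.cons (P.lf 0 10170 0) P.nil)))))) (P.cons (P.cons (P.lf 0 79864229 0) (P.cons (P.lf 0 6222499 0) (P.cons (P.lf 1051246 0 0) (P.cons (P.lf 334870 0 0) (P.cons (P.lf 0 58839 0) P.nil))))) (P.cons (P.cons (P.lf 14943710 0 0) (P.cons (P.lf 0 2656537 0) (P.cons (P.lf 64122 0 0) (P.cons (P.lf 91526 0 0) P.nil)))) (P.cons (P.cons (P.lf 393370 0 0) (P.cons (P.lf 0 141855 0) (P.cons (P.lf 5808 0 0) P.nil))) (P.cons (P.cons (P.lf 0 112460 0) (P.cons (P.lf 16938 0 0) P.nil)) (P.cons (P.cons (P.lf 0 4284 0) P.nil) P.nil)))))) 52729)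
 (EL.cons 8 (TM.mk (P.cons (P.cons (P.lf 41300188 0 0) (P.cons (P.lf 14867038 0 0) (P.cons (P.lf 2331915 0 0) (P.cons (P.lf 0 152421 0) (P.cons (P.lf 0 53653 0) (P.cons (P.lf 0 3986 0) P.nil)))))) (P.cons (P.cons (P.lf 0 26737434 0) (P.cons (P.lf 0 795288 0) (P.cons (P.lf 669859 0 0) (P.cons (P.lf 114404 0 0) (P.cons (P.lf 0 28994 0) P.nil))))) (P.cons (P.cons (P.lf 2611257 0 0) (P.cons (P.lf 0 1233579 0) (P.cons (P.lf 82816 0 0) (P.cons (P.lf 49593 0 0) P.nil)))) (P.cons (P.cons (P.lf 651996 0 0) (P.cons (P.lf 0 178710 0) (P.cons (P.lf 7935 0 0) P.nil))) (P.cons (P.cons (P.lf 0 5664 0) (P.cons (P.lf 0 5408 0) P.nil)) (P.cons (P.cons (P.lf 0 4453 0) P.nil) P.nil)))))) 24241)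
 EL.nil))
noncomputable def S125_140_364_512_15 : EL := (EL.cons 4 (TM.mk (P.cons (P.lf 0 2249317552 0) (P.cons (P.lf 150064186 0 0) (P.cons (P.lf 5343341 0 0) (P.cons (P.lf 0 171695 0) (P.cons (P.lf 0 13898 0) (P.cons (P.lf 0 206 0) P.nil)))))) 126)
 (EL.cons 8 (TM.mk (P.cons (P.lf 0 881640799 0) (P.cons (P.lf 0 38653876 0) (P.cons (P.lf 4011878 0 0) (P.cons (P.lf 191704 0 0) (P.cons (P.lf 0 328 0) (P.cons (P.lf 0 270 0) P.nil)))))) 70)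
 EL.nil))
noncomputable def S125_140_364_512_16 : EL := (EL.cons 4 (TM.mk (P.cons (P.cons (P.lf 420882489 0 0) (P.cons (P.lf 75753600 0 0) (P.cons (P.lf 5064706 0 0) (P.lf 0 1688235 0)))) (P.cons (P.cons (P.lf 0 180563686 0) (P.cons (P.lf 12490785 0 0) (P.cons (P.lf 835102 0 0) (P.lf 0 278366 0)))) (P.cons (P.cons (P.lf 6676915 0 0) (P.cons (P.lf 0 48509 0) (P.cons (P.lf 0 3242 0) (P.lf 1081 0 0)))) (P.cons (P.cons (P.lf 1018533 0 0) (P.cons (P.lf 0 112027 0) (P.cons (P.lf 0 7490 0) P.nil))) (P.cons (P.cons (P.lf 0 13835 0) (P.cons (P.lf 0 5168 0) P.nil)) (P.cons (P.cons (P.lf 0 3786 0) P.nil) P.nil)))))) 6214)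
 (EL.cons 8 (TM.mk (P.cons (P.cons (P.lf 164968780 0 0) (P.cons (P.lf 29692324 0 0) (P.cons (P.lf 1985158 0 0) (P.lf 0 661719 0)))) (P.cons (P.cons (P.lf 0 52534897 0) (P.cons (P.lf 8178619 0 0) (P.cons (P.lf 546802 0 0) (P.lf 0 182266 0)))) (P.cons (P.cons (P.lf 0 4349540 0) (P.cons (P.lf 676697 0 0) (P.cons (P.lf 45242 0 0) (P.lf 0 15080 0)))) (P.cons (P.cons (P.lf 372574 0 0) (P.cons (P.lf 0 11170 0) (P.cons (P.lf 0 746 0) P.nil))) (P.cons (P.cons (P.lf 33136 0 0) (P.cons (P.lf 0 4863 0) P.nil)) (P.cons (P.cons (P.lf 0 346 0) P.nil) P.nil)))))) 2752)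
 EL.nil))
noncomputable def S125_140_364_512_17 : EL := (EL.cons 4 (TM.mk (P.cons (P.cons (P.lf 0 78753694 0) (P.cons (P.lf 0 28349366 0) (P.cons (P.lf 0 4446637 0) (P.cons (P.lf 290646 0 0) (P.cons (P.lf 102310 0 0) (P.cons (P.lf 7601 0 0) P.nil)))))) (P.cons (P.cons (P.lf 62318491 0 0) (P.cons (P.lf 5596438 0 0) (P.cons (P.lf 0 637384 0) (P.cons (P.lf 0 259980 0) (P.cons (P.lf 40564 0 0) P.nil))))) (P.cons (P.cons (P.lf 0 13022915 0) (P.cons (P.lf 1879832 0 0) (P.cons (P.lf 0 13960 0) (P.cons (P.lf 0 60566 0) P.nil)))) (P.cons (P.cons (P.lf 0 23967 0) (P.cons (P.lf 32247 0 0) (P.cons (P.lf 0 1283 0) P.nil))) (P.cons (P.cons (P.lf 112077 0 0) (P.cons (P.lf 0 19778 0) P.nil)) (P.cons (P.cons (P.lf 1185 0 0) P.nil) P.nil)))))) 46295)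
 (EL.cons 8 (TM.mk (P.cons (P.cons (P.lf 0 30868238 0) (P.cons (P.lf 0 11111796 0) (P.cons (P.lf 0 1742900 0) (P.cons (P.lf 113921 0 0) (P.cons (P.lf 40101 0 0) (P.cons (P.lf 2979 0 0) P.nil)))))) (P.cons (P.cons (P.lf 21013561 0 0) (P.cons (P.lf 965071 0 0) (P.cons (P.lf 0 442521 0) (P.cons (P.lf 0 89307 0) (P.cons (P.lf 20333 0 0) P.nil))))) (P.cons (P.cons (P.lf 0 2564461 0) (P.cons (P.lf 921543 0 0) (P.cons (P.lf 0 42157 0) (P.cons (P.lf 0 34412 0) P.nil)))) (P.cons (P.cons (P.lf 0 456442 0) (P.cons (P.lf 102000 0 0) (P.cons (P.lf 0 2957 0) P.nil))) (P.cons (P.cons (P.lf 23465 0 0) (P.cons (P.lf 0 2043 0) P.nil)) (P.cons (P.cons (P.lf 4092 0 0) P.nil) P.nil)))))) 21100)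
 EL.nil))
noncomputable def S125_140_364_512_18 : EL := (EL.cons 4 (TM.mk (P.cons (P.lf 1681165965 0 0) (P.cons (P.lf 0 168239564 0) (P.cons (P.lf 0 3184468 0) (P.cons (P.lf 423521 0 0) (P.cons (P.lf 16831 0 0) (P.cons (P.lf 0 367 0) P.nil)))))) 178)
 (EL.cons 8 (TM.mk (P.cons (P.lf 658948535 0 0) (P.cons (P.lf 6909337 0 0) (P.cons (P.lf 0 5111538 0) (P.cons (P.lf 0 106835 0) (P.cons (P.lf 10270 0 0) (P.cons (P.lf 557 0 0) P.nil)))))) 84)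
 EL.nil))
noncomputable def S125_140_364_512_19 : EL := (EL.cons 4 (TM.mk (P.cons (P.cons (P.lf 0 314572441 0) (P.cons (P.lf 0 56619118 0) (P.cons (P.lf 0 3785420 0) (P.lf 1261806 0 0)))) (P.cons (P.cons (P.lf 145448806 0 0) (P.cons (P.lf 0 7447073 0) (P.cons (P.lf 0 497892 0) (P.lf 165962 0 0)))) (P.cons (P.cons (P.lf 0 8943549 0) (P.cons (P.lf 446427 0 0) (P.cons (P.lf 29847 0 0) (P.lf 0 9949 0)))) (P.cons (P.cons (P.lf 0 823880 0) (P.cons (P.lf 99937 0 0) (P.cons (P.lf 6681 0 0) P.nil))) (P.cons (P.cons (P.lf 41454 0 0) (P.cons (P.lf 1141 0 0) P.nil)) (P.cons (P.cons (P.lf 4021 0 0) P.nil) P.nil)))))) 6147)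
 (EL.cons 8 (TM.mk (P.cons (P.cons (P.lf 0 123299575 0) (P.cons (P.lf 0 22192386 0) (P.cons (P.lf 0 1483730 0) (P.lf 494576 0 0)))) (P.cons (P.cons (P.lf 43378182 0 0) (P.cons (P.lf 0 5372507 0) (P.cons (P.lf 0 359192 0) (P.lf 119730 0 0)))) (P.cons (P.cons (P.lf 2156151 0 0) (P.cons (P.lf 0 263156 0) (P.cons (P.lf 0 17594 0) (P.lf 5864 0 0)))) (P.cons (P.cons (P.lf 0 452924 0) (P.cons (P.lf 36325 0 0) (P.cons (P.lf 2428 0 0) P.nil))) (P.cons (P.cons (P.lf 0 22044 0) (P.cons (P.lf 4340 0 0) P.nil)) (P.cons (P.cons (P.lf 1535 0 0) P.nil) P.nil)))))) 2505)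
 EL.nil))
noncomputable def S125_140_364_512_20 : EL := (EL.cons 4 (TM.mk (P.cons (P.cons (P.lf 58861423 0 0) (P.cons (P.lf 21188644 0 0) (P.cons (P.lf 3323468 0 0) (P.cons (P.lf 0 217232 0) (P.cons (P.lf 0 76467 0) (P.cons (P.lf 0 5681 0) P.nil)))))) (P.cons (P.cons (P.lf 0 48541044 0) (P.cons (P.lf 0 4889647 0) (P.cons (P.lf 365524 0 0) (P.cons (P.lf 201558 0 0) (P.cons (P.lf 0 27767 0) P.nil))))) (P.cons (P.cons (P.lf 11184536 0 0) (P.cons (P.lf 0 1302435 0) (P.cons (P.lf 0 11252 0) (P.cons (P.lf 39164 0 0) P.nil)))) (P.cons (P.cons (P.lf 0 226712 0) (P.cons (P.lf 29637 0 0) (P.cons (P.lf 0 285 0) P.nil))) (P.cons (P.cons (P.lf 0 100356 0) (P.cons (P.lf 18139 0 0) P.nil)) (P.cons (P.cons (P.lf 1642 0 0) P.nil) P.nil)))))) 39447)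
 (EL.cons 8 (TM.mk (P.cons (P.cons (P.lf 23071278 0 0) (P.cons (P.lf 8305084 0 0) (P.cons (P.lf 1302664 0 0) (P.cons (P.lf 0 85146 0) (P.cons (P.lf 0 29972 0) (P.cons (P.lf 0 2226 0) P.nil)))))) (P.cons (P.cons (P.lf 0 16475384 0) (P.cons (P.lf 0 998344 0) (P.cons (P.lf 287291 0 0) (P.cons (P.lf 69589 0 0) (P.cons (P.lf 0 14197 0) P.nil))))) (P.cons (P.cons (P.lf 2400377 0 0) (P.cons (P.lf 0 679196 0) (P.cons (P.lf 18204 0 0) (P.cons (P.lf 23642 0 0) P.nil)))) (P.cons (P.cons (P.lf 304144 0 0) (P.cons (P.lf 0 52168 0) (P.cons (P.lf 556 0 0) P.nil))) (P.cons (P.cons (P.lf 0 31926 0) (P.cons (P.lf 5293 0 0) P.nil)) (P.cons (P.cons (P.lf 0 3120 0) P.nil) P.nil)))))) 17723)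
 EL.nil))
noncomputable def S125_140_364_512_21 : EL := (EL.cons 4 (TM.mk (P.cons (P.cons (P.lf 0 2642673216 0) (P.cons (P.lf 304063800 0 0) (P.cons (P.lf 20328987 0 0) (P.lf 0 6776325 0)))) (P.cons (P.cons (P.lf 0 218210292 0) (P.cons (P.lf 60279048 0 0) (P.cons (P.lf 4030110 0 0) (P.lf 0 1343361 0)))) (P.cons (P.cons (P.lf 23480268 0 0) (P.cons (P.lf 2346387 0 0) (P.cons (P.lf 156870 0 0) (P.lf 0 52284 0)))) (P.cons (P.cons (P.lf 2689710 0 0) (P.cons (P.lf 0 260172 0) (P.cons (P.lf 0 17394 0) P.nil))) (P.cons (P.cons (P.lf 7764 0 0) (P.cons (P.lf 0 24396 0) P.nil)) (P.cons (P.cons (P.lf 0 7896 0) P.nil) P.nil)))))) 17232)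
 (EL.cons 8 (TM.mk (P.cons (P.cons (P.lf 2397231768 0 0) (P.cons (P.lf 0 275823522 0) (P.cons (P.lf 0 18440922 0) (P.lf 6146973 0 0)))) (P.cons (P.cons (P.lf 0 67090680 0) (P.cons (P.lf 0 24185925 0) (P.cons (P.lf 0 1617018 0) (P.lf 539007 0 0)))) (P.cons (P.cons (P.lf 0 26350128 0) (P.cons (P.lf 1980060 0 0) (P.cons (P.lf 132381 0 0) (P.lf 0 44124 0)))) (P.cons (P.cons (P.lf 65100 0 0) (P.cons (P.lf 230004 0 0) (P.cons (P.lf 15375 0 0) P.nil))) (P.cons (P.cons (P.lf 97995 0 0) (P.cons (P.lf 0 657 0) P.nil)) (P.cons (P.cons (P.lf 2808 0 0) P.nil) P.nil)))))) 10683)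
 (EL.cons 11 (TM.mk (P.cons (P.cons (P.lf 901485462 0 0) (P.cons (P.lf 139572585 0 0) (P.cons (P.lf 0 67241670 0) (P.cons (P.lf 0 2544621 0) (P.lf 636153 0 0))))) (P.cons (P.cons (P.lf 139190844 0 0) (P.cons (P.lf 21550236 0 0) (P.cons (P.lf 0 10382223 0) (P.cons (P.lf 0 392892 0) (P.lf 98223 0 0))))) (P.cons (P.cons (P.lf 4956177 0 0) (P.cons (P.lf 767340 0 0) (P.cons (P.lf 0 369678 0) (P.cons (P.lf 0 13989 0) P.nil)))) (P.cons (P.cons (P.lf 0 159249 0) (P.cons (P.lf 0 24654 0) (P.cons (P.lf 11877 0 0) P.nil))) (P.cons (P.cons (P.lf 0 12894 0) (P.cons (P.lf 0 1995 0) P.nil)) (P.cons (P.cons (P.lf 0 192 0) P.nil) P.nil)))))) 5334)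
 EL.nil)))
noncomputable def S125_140_364_512_22 : EL := (EL.cons 4 (TM.mk (P.cons (P.cons (P.lf 494485485 0 0) (P.cons (P.lf 32106129 0 0) (P.cons (P.lf 0 8093865 0) (P.cons (P.lf 0 2084811 0) (P.cons (P.lf 410658 0 0) (P.cons (P.lf 30516 0 0) P.nil)))))) (P.cons (P.cons (P.lf 0 138319893 0) (P.cons (P.lf 37295643 0 0) (P.cons (P.lf 0 1908312 0) (P.cons (P.lf 0 1419753 0) (P.cons (P.lf 176517 0 0) P.nil))))) (P.cons (P.cons (P.lf 0 22119171 0) (P.cons (P.lf 6425703 0 0) (P.cons (P.lf 0 295590 0) (P.cons (P.lf 0 240168 0) P.nil)))) (P.cons (P.cons (P.lf 1383960 0 0) (P.cons (P.lf 77958 0 0) (P.cons (P.lf 0 40668 0) P.nil))) (P.cons (P.cons (P.lf 274608 0 0) (P.cons (P.lf 0 62922 0) P.nil)) (P.cons (P.cons (P.lf 1797 0 0) P.nil) P.nil)))))) 112701)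
 (EL.cons 8 (TM.mk (P.cons (P.cons (P.lf 0 448559550 0) (P.cons (P.lf 0 29124231 0) (P.cons (P.lf 7342140 0 0) (P.cons (P.lf 1891182 0 0) (P.cons (P.lf 0 372516 0) (P.cons (P.lf 0 27681 0) P.nil)))))) (P.cons (P.cons (P.lf 175065354 0 0) (P.cons (P.lf 0 30611832 0) (P.cons (P.lf 919338 0 0) (P.cons (P.lf 1078803 0 0) (P.cons (P.lf 0 118938 0) P.nil))))) (P.cons (P.cons (P.lf 3042825 0 0) (P.cons (P.lf 0 2293032 0) (P.cons (P.lf 128310 0 0) (P.cons (P.lf 88755 0 0) P.nil)))) (P.cons (P.cons (P.lf 0 2360676 0) (P.cons (P.lf 351207 0 0) (P.cons (P.lf 15606 0 0) P.nil))) (P.cons (P.cons (P.lf 0 50622 0) (P.cons (P.lf 40401 0 0) P.nil)) (P.cons (P.cons (P.lf 12444 0 0) P.nil) P.nil)))))) 70551)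
 (EL.cons 11 (TM.mk (P.cons (P.cons (P.lf 0 168682026 0) (P.cons (P.lf 0 56476875 0) (P.cons (P.lf 5851530 0 0) (P.cons (P.lf 3103077 0 0) (P.cons (P.lf 222825 0 0) (P.cons (P.lf 0 66162 0) P.nil)))))) (P.cons (P.cons (P.lf 35068155 0 0) (P.cons (P.lf 0 6289908 0) (P.cons (P.lf 0 5213703 0) (P.cons (P.lf 915021 0 0) (P.cons (P.lf 156705 0 0) P.nil))))) (P.cons (P.cons (P.lf 9509037 0 0) (P.cons (P.lf 0 302166 0) (P.cons (P.lf 0 1102632 0) (P.cons (P.lf 126687 0 0) P.nil)))) (P.cons (P.cons (P.lf 336849 0 0) (P.cons (P.lf 0 66006 0) (P.cons (P.lf 0 51318 0) P.nil))) (P.cons (P.cons (P.lf 0 39138 0) (P.cons (P.lf 0 6645 0) P.nil)) (P.cons (P.cons (P.lf 0 3132 0) P.nil) P.nil)))))) 95094)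
 EL.nil)))
noncomputable def S125_140_364_512_23 : EL := (EL.cons 4 (TM.mk (P.cons (P.cons (P.lf 1975164540 0 0) (P.cons (P.lf 0 227260800 0) (P.cons (P.lf 0 15194118 0) (P.lf 5064702 0 0)))) (P.cons (P.cons (P.lf 97205919 0 0) (P.cons (P.lf 0 37472355 0) (P.cons (P.lf 0 2505309 0) (P.lf 835095 0 0)))) (P.cons (P.cons (P.lf 0 26434788 0) (P.cons (P.lf 145530 0 0) (P.cons (P.lf 9732 0 0) (P.lf 0 3246 0)))) (P.cons (P.cons (P.lf 0 1748898 0) (P.cons (P.lf 336081 0 0) (P.cons (P.lf 22467 0 0) P.nil))) (P.cons (P.cons (P.lf 90378 0 0) (P.cons (P.lf 15501 0 0) P.nil)) (P.cons (P.cons (P.lf 10179 0 0) P.nil) P.nil)))))) 18786)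
 (EL.cons 8 (TM.mk (P.cons (P.cons (P.lf 0 1791718761 0) (P.cons (P.lf 206153691 0 0) (P.cons (P.lf 13782957 0 0) (P.lf 0 4594317 0)))) (P.cons (P.cons (P.lf 109911993 0 0) (P.cons (P.lf 11200023 0 0) (P.cons (P.lf 748809 0 0) (P.lf 0 249603 0)))) (P.cons (P.cons (P.lf 21146694 0 0) (P.cons (P.lf 0 2442480 0) (P.cons (P.lf 0 163296 0) (P.lf 54429 0 0)))) (P.cons (P.cons (P.lf 0 757215 0) (P.cons (P.lf 0 158193 0) (P.cons (P.lf 0 10572 0) P.nil))) (P.cons (P.cons (P.lf 0 108585 0) (P.cons (P.lf 8628 0 0) P.nil)) (P.cons (P.cons (P.lf 6 0 0) P.nil) P.nil)))))) 11550)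
 (EL.cons 11 (TM.mk (P.cons (P.cons (P.lf 0 673780665 0) (P.cons (P.lf 0 104318163 0) (P.cons (P.lf 50257200 0 0) (P.cons (P.lf 1901877 0 0) (P.lf 0 475467 0))))) (P.cons (P.cons (P.lf 0 81557064 0) (P.cons (P.lf 0 12627078 0) (P.cons (P.lf 6083328 0 0) (P.cons (P.lf 230208 0 0) (P.lf 0 57552 0))))) (P.cons (P.cons (P.lf 941160 0 0) (P.cons (P.lf 145713 0 0) (P.cons (P.lf 0 70200 0) (P.cons (P.lf 0 2655 0) P.nil)))) (P.cons (P.cons (P.lf 437523 0 0) (P.cons (P.lf 67737 0 0) (P.cons (P.lf 0 32631 0) P.nil))) (P.cons (P.cons (P.lf 13602 0 0) (P.cons (P.lf 2103 0 0) P.nil)) (P.cons (P.cons (P.lf 0 432 0) P.nil) P.nil)))))) 9711)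
 EL.nil)))
noncomputable def S125_140_364_512_24 : EL := (EL.cons 4 (TM.mk (P.cons (P.cons (P.lf 0 369584172 0) (P.cons (P.lf 0 23996493 0) (P.cons (P.lf 6049449 0 0) (P.cons (P.lf 1558212 0 0) (P.cons (P.lf 0 306930 0) (P.cons (P.lf 0 22806 0) P.nil)))))) (P.cons (P.cons (P.lf 115710372 0 0) (P.cons (P.lf 0 27074727 0) (P.cons (P.lf 1224498 0 0) (P.cons (P.lf 1009161 0 0) (P.cons (P.lf 0 121692 0) P.nil))))) (P.cons (P.cons (P.lf 13728147 0 0) (P.cons (P.lf 0 3830937 0) (P.cons (P.lf 162798 0 0) (P.cons (P.lf 141390 0 0) P.nil)))) (P.cons (P.cons (P.lf 0 1758777 0) (P.cons (P.lf 151035 0 0) (P.cons (P.lf 20418 0 0) P.nil))) (P.cons (P.cons (P.lf 0 201975 0) (P.cons (P.lf 57882 0 0) P.nil)) (P.cons (P.cons (P.lf 7053 0 0) P.nil) P.nil)))))) 78072)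
 (EL.cons 8 (TM.mk (P.cons (P.cons (P.lf 335258598 0 0) (P.cons (P.lf 21767787 0 0) (P.cons (P.lf 0 5487600 0) (P.cons (P.lf 0 1413489 0) (P.cons (P.lf 278424 0 0) (P.cons (P.lf 20688 0 0) P.nil)))))) (P.cons (P.cons (P.lf 0 142029330 0) (P.cons (P.lf 22153512 0 0) (P.cons (P.lf 0 504069 0) (P.cons (P.lf 0 759159 0) (P.cons (P.lf 79608 0 0) P.nil))))) (P.cons (P.cons (P.lf 1505736 0 0) (P.cons (P.lf 912660 0 0) (P.cons (P.lf 0 63408 0) (P.cons (P.lf 0 36975 0) P.nil)))) (P.cons (P.cons (P.lf 2061762 0 0) (P.cons (P.lf 0 360006 0) (P.cons (P.lf 0 7155 0) P.nil))) (P.cons (P.cons (P.lf 0 14130 0) (P.cons (P.lf 0 24867 0) P.nil)) (P.cons (P.cons (P.lf 0 13698 0) P.nil) P.nil)))))) 49488)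
 (EL.cons 11 (TM.mk (P.cons (P.cons (P.lf 126074898 0 0) (P.cons (P.lf 42211470 0 0) (P.cons (P.lf 0 4373502 0) (P.cons (P.lf 0 2319276 0) (P.cons (P.lf 0 166542 0) (P.cons (P.lf 49449 0 0) P.nil)))))) (P.cons (P.cons (P.lf 0 30415914 0) (P.cons (P.lf 3293070 0 0) (P.cons (P.lf 4042671 0 0) (P.cons (P.lf 0 606531 0) (P.cons (P.lf 0 111567 0) P.nil))))) (P.cons (P.cons (P.lf 0 6452739 0) (P.cons (P.lf 0 4599 0) (P.cons (P.lf 701760 0 0) (P.cons (P.lf 0 67827 0) P.nil)))) (P.cons (P.cons (P.lf 28503 0 0) (P.cons (P.lf 32757 0 0) (P.cons (P.lf 4155 0 0) P.nil))) (P.cons (P.cons (P.lf 50682 0 0) (P.cons (P.lf 2871 0 0) P.nil)) (P.cons (P.cons (P.lf 1929 0 0) P.nil) P.nil)))))) 65127)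
 EL.nil)))
noncomputable def S125_140_364_512_25 : EL := (EL.cons 4 (TM.mk (P.cons (P.cons (P.lf 0 1476260832 0) (P.cons (P.lf 169857351 0 0) (P.cons (P.lf 11356260 0 0) (P.lf 0 3785418 0)))) (P.cons (P.cons (P.lf 0 23408142 0) (P.cons (P.lf 22341219 0 0) (P.cons (P.lf 1493676 0 0) (P.lf 0 497886 0)))) (P.cons (P.cons (P.lf 24756000 0 0) (P.cons (P.lf 0 1339284 0) (P.cons (P.lf 0 89541 0) (P.lf 29850 0 0)))) (P.cons (P.cons (P.lf 804339 0 0) (P.cons (P.lf 0 299811 0) (P.cons (P.lf 0 20043 0) P.nil))) (P.cons (P.cons (P.lf 0 145488 0) (P.cons (P.lf 0 3423 0) P.nil)) (P.cons (P.cons (P.lf 0 8154 0) P.nil) P.nil)))))) 17937)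
 (EL.cons 8 (TM.mk (P.cons (P.cons (P.lf 1339151334 0 0) (P.cons (P.lf 0 154081653 0) (P.cons (P.lf 0 10301541 0) (P.lf 3433845 0 0)))) (P.cons (P.cons (P.lf 0 126820524 0) (P.cons (P.lf 0 3231213 0) (P.cons (P.lf 0 216033 0) (P.lf 72009 0 0)))) (P.cons (P.cons (P.lf 0 15400629 0) (P.cons (P.lf 2373516 0 0) (P.cons (P.lf 158685 0 0) (P.lf 0 52893 0)))) (P.cons (P.cons (P.lf 1209657 0 0) (P.cons (P.lf 75024 0 0) (P.cons (P.lf 5013 0 0) P.nil))) (P.cons (P.cons (P.lf 92697 0 0) (P.cons (P.lf 0 13548 0) P.nil)) (P.cons (P.cons (P.lf 0 3402 0) P.nil) P.nil)))))) 11037)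
 (EL.cons 11 (TM.mk (P.cons (P.cons (P.lf 503591466 0 0) (P.cons (P.lf 77968602 0 0) (P.cons (P.lf 0 37562814 0) (P.cons (P.lf 0 1421484 0) (P.lf 355368 0 0))))) (P.cons (P.cons (P.lf 44158032 0 0) (P.cons (P.lf 6836769 0 0) (P.cons (P.lf 0 3293739 0) (P.cons (P.lf 0 124641 0) (P.lf 31161 0 0))))) (P.cons (P.cons (P.lf 0 3615141 0) (P.cons (P.lf 0 559713 0) (P.cons (P.lf 269652 0 0) (P.cons (P.lf 10203 0 0) P.nil)))) (P.cons (P.cons (P.lf 0 419940 0) (P.cons (P.lf 0 65016 0) (P.cons (P.lf 31320 0 0) P.nil))) (P.cons (P.cons (P.lf 1200 0 0) (P.cons (P.lf 186 0 0) P.nil)) (P.cons (P.cons (P.lf 1320 0 0) P.nil) P.nil)))))) 11118)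
 EL.nil)))
noncomputable def S125_140_364_512_26 : EL := (EL.cons 4 (TM.mk (P.cons (P.cons (P.lf 276231486 0 0) (P.cons (P.lf 17935254 0 0) (P.cons (P.lf 0 4521426 0) (P.cons (P.lf 0 1164624 0) (P.cons (P.lf 229401 0 0) (P.cons (P.lf 17046 0 0) P.nil)))))) (P.cons (P.cons (P.lf 0 95697720 0) (P.cons (P.lf 19637685 0 0) (P.cons (P.lf 0 764379 0) (P.cons (P.lf 0 715410 0) (P.cons (P.lf 83301 0 0) P.nil))))) (P.cons (P.cons (P.lf 0 7857477 0) (P.cons (P.lf 2156979 0 0) (P.cons (P.lf 0 83262 0) (P.cons (P.lf 0 78486 0) P.nil)))) (P.cons (P.cons (P.lf 1802109 0 0) (P.cons (P.lf 0 244050 0) (P.cons (P.lf 0 9513 0) P.nil))) (P.cons (P.cons (P.lf 126984 0 0) (P.cons (P.lf 0 44880 0) P.nil)) (P.cons (P.cons (P.lf 0 12459 0) P.nil) P.nil)))))) 56811)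
 (EL.cons 8 (TM.mk (P.cons (P.cons (P.lf 0 250576155 0) (P.cons (P.lf 0 16269495 0) (P.cons (P.lf 4101495 0 0) (P.cons (P.lf 1056459 0 0) (P.cons (P.lf 0 208095 0) (P.cons (P.lf 0 15462 0) P.nil)))))) (P.cons (P.cons (P.lf 114513012 0 0) (P.cons (P.lf 0 16015077 0) (P.cons (P.lf 239931 0 0) (P.cons (P.lf 532164 0 0) (P.cons (P.lf 0 52557 0) P.nil))))) (P.cons (P.cons (P.lf 0 4229430 0) (P.cons (P.lf 0 101427 0) (P.cons (P.lf 27669 0 0) (P.cons (P.lf 6864 0 0) P.nil)))) (P.cons (P.cons (P.lf 0 1683576 0) (P.cons (P.lf 321030 0 0) (P.cons (P.lf 3027 0 0) P.nil))) (P.cons (P.cons (P.lf 61578 0 0) (P.cons (P.lf 11115 0 0) P.nil)) (P.cons (P.cons (P.lf 12681 0 0) P.nil) P.nil)))))) 36291)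
 (EL.cons 11 (TM.mk (P.cons (P.cons (P.lf 0 94229838 0) (P.cons (P.lf 0 31549341 0) (P.cons (P.lf 3268806 0 0) (P.cons (P.lf 1733454 0 0) (P.cons (P.lf 124476 0 0) (P.cons (P.lf 0 36960 0) P.nil)))))) (P.cons (P.cons (P.lf 25876497 0 0) (P.cons (P.lf 0 1408866 0) (P.cons (P.lf 0 3130578 0) (P.cons (P.lf 395505 0 0) (P.cons (P.lf 79233 0 0) P.nil))))) (P.cons (P.cons (P.lf 4228875 0 0) (P.cons (P.lf 140565 0 0) (P.cons (P.lf 0 429411 0) (P.cons (P.lf 32550 0 0) P.nil)))) (P.cons (P.cons (P.lf 0 219948 0) (P.cons (P.lf 0 19674 0) (P.cons (P.lf 19593 0 0) P.nil))) (P.cons (P.cons (P.lf 0 46122 0) (P.cons (P.lf 0 1314 0) P.nil)) (P.cons (P.cons (P.lf 0 219 0) P.nil) P.nil)))))) 46908)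
 EL.nil)))
noncomputable def S125_140_364_512_27 : EL := (EL.cons 13 (TM.mk (P.lf 0 4294967296 0) 0)
 EL.nil)
noncomputable def S125_140_364_512_28 : EL := (EL.cons 13 (TM.mk (P.cons (P.cons (P.lf 803655547 0 0) (P.cons (P.lf 144647980 0 0) (P.cons (P.lf 9670824 0 0) (P.lf 0 3223608 0)))) (P.cons (P.cons (P.lf 0 291161742 0) (P.cons (P.lf 33500828 0 0) (P.cons (P.lf 2239784 0 0) (P.lf 0 746592 0)))) (P.cons (P.cons (P.lf 0 4766606 0) (P.cons (P.lf 2486012 0 0) (P.cons (P.lf 166208 0 0) (P.lf 0 55400 0)))) (P.cons (P.cons (P.lf 873827 0 0) (P.cons (P.lf 20484 0 0) (P.cons (P.lf 1368 0 0) P.nil))) (P.cons (P.cons (P.lf 37815 0 0) (P.cons (P.lf 0 6048 0) P.nil)) (P.cons (P.cons (P.lf 0 544 0) P.nil) P.nil)))))) 3637)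
 EL.nil)
noncomputable def S125_140_364_512_29 : EL := (EL.cons 13 (TM.mk (P.cons (P.cons (P.lf 0 150376520 0) (P.cons (P.lf 0 54131798 0) (P.cons (P.lf 0 8490649 0) (P.cons (P.lf 554977 0 0) (P.cons (P.lf 195357 0 0) (P.cons (P.lf 14516 0 0) P.nil)))))) (P.cons (P.cons (P.lf 108961830 0 0) (P.cons (P.lf 7074713 0 0) (P.cons (P.lf 0 1783514 0) (P.cons (P.lf 0 459397 0) (P.cons (P.lf 90490 0 0) P.nil))))) (P.cons (P.cons (P.lf 0 17954442 0) (P.cons (P.lf 3932855 0 0) (P.cons (P.lf 0 165815 0) (P.cons (P.lf 0 144979 0) P.nil)))) (P.cons (P.cons (P.lf 0 973282 0) (P.cons (P.lf 344895 0 0) (P.cons (P.lf 0 17102 0) P.nil))) (P.cons (P.cons (P.lf 99034 0 0) (P.cons (P.lf 0 5620 0) P.nil)) (P.cons (P.cons (P.lf 7270 0 0) P.nil) P.nil)))))) 60794)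
 EL.nil)
noncomputable def S125_140_364_512_30 : EL := (EL.cons 13 (TM.mk (P.cons (P.lf 3210108256 0 0) (P.cons (P.lf 0 107081876 0) (P.cons (P.lf 0 5598872 0) (P.cons (P.lf 0 64248 0) (P.cons (P.lf 2892 0 0) (P.cons (P.lf 132 0 0) P.nil)))))) 68)
 EL.nil)
noncomputable def S125_140_364_512_31 : EL := (EL.cons 13 (TM.mk (P.cons (P.cons (P.lf 0 600661455 0) (P.cons (P.lf 0 108111574 0) (P.cons (P.lf 0 7228085 0) (P.lf 2409361 0 0)))) (P.cons (P.cons (P.lf 237654348 0 0) (P.cons (P.lf 0 21432551 0) (P.cons (P.lf 0 1432928 0) (P.lf 477640 0 0)))) (P.cons (P.cons (P.lf 0 2648974 0) (P.cons (P.lf 0 834271 0) (P.cons (P.lf 0 55776 0) (P.lf 18590 0 0)))) (P.cons (P.cons (P.lf 0 1139482 0) (P.cons (P.lf 92506 0 0) (P.cons (P.lf 6185 0 0) P.nil))) (P.cons (P.cons (P.lf 0 17587 0) (P.cons (P.lf 8675 0 0) P.nil)) (P.cons (P.cons (P.lf 2588 0 0) P.nil) P.nil)))))) 5983)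
 EL.nil)
noncomputable def S125_140_364_512_32 : EL := (EL.cons 13 (TM.mk (P.cons (P.cons (P.lf 112393151 0 0) (P.cons (P.lf 40458732 0 0) (P.cons (P.lf 6346009 0 0) (P.cons (P.lf 0 414796 0) (P.cons (P.lf 0 146012 0) (P.cons (P.lf 0 10849 0) P.nil)))))) (P.cons (P.cons (P.lf 0 85188511 0) (P.cons (P.lf 0 6637333 0) (P.cons (P.lf 1121330 0 0) (P.cons (P.lf 357195 0 0) (P.cons (P.lf 0 62762 0) P.nil))))) (P.cons (P.cons (P.lf 15939958 0 0) (P.cons (P.lf 0 2833640 0) (P.cons (P.lf 68397 0 0) (P.cons (P.lf 97628 0 0) P.nil)))) (P.cons (P.cons (P.lf 419595 0 0) (P.cons (P.lf 0 151312 0) (P.cons (P.lf 6196 0 0) P.nil))) (P.cons (P.cons (P.lf 0 119958 0) (P.cons (P.lf 18068 0 0) P.nil)) (P.cons (P.cons (P.lf 0 4570 0) P.nil) P.nil)))))) 56221)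
 EL.nil)
noncomputable def S125_140_364_512_33 : EL := (EL.cons 14 (TM.mk (P.lf 8589934592 0 0) 0)
 EL.nil)
noncomputable def S125_140_364_512_34 : EL := (EL.cons 14 (TM.mk (P.cons (P.cons (P.lf 0 1607311094 0) (P.cons (P.lf 0 289295960 0) (P.cons (P.lf 0 19341648 0) (P.lf 6447216 0 0)))) (P.cons (P.cons (P.lf 582323484 0 0) (P.cons (P.lf 0 67001656 0) (P.cons (P.lf 0 4479568 0) (P.lf 1493184 0 0)))) (P.cons (P.cons (P.lf 9533212 0 0) (P.cons (P.lf 0 4972024 0) (P.cons (P.lf 0 332416 0) (P.lf 110800 0 0)))) (P.cons (P.cons (P.lf 0 1747654 0) (P.cons (P.lf 0 40968 0) (P.cons (P.lf 0 2736 0) P.nil))) (P.cons (P.cons (P.lf 0 75630 0) (P.cons (P.lf 12096 0 0) P.nil)) (P.cons (P.cons (P.lf 1088 0 0) P.nil) P.nil)))))) 7274)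
 EL.nil)
noncomputable def S125_140_364_512_35 : EL := (EL.cons 14 (TM.mk (P.cons (P.cons (P.lf 300753040 0 0) (P.cons (P.lf 108263596 0 0) (P.cons (P.lf 16981298 0 0) (P.cons (P.lf 0 1109954 0) (P.cons (P.lf 0 390714 0) (P.cons (P.lf 0 29032 0) P.nil)))))) (P.cons (P.cons (P.lf 0 217923660 0) (P.cons (P.lf 0 14149426 0) (P.cons (P.lf 3567028 0 0) (P.cons (P.lf 918794 0 0) (P.cons (P.lf 0 180980 0) P.nil))))) (P.cons (P.cons (P.lf 35908884 0 0) (P.cons (P.lf 0 7865710 0) (P.cons (P.lf 331630 0 0) (P.cons (P.lf 289958 0 0) P.nil)))) (P.cons (P.cons (P.lf 1946564 0 0) (P.cons (P.lf 0 689790 0) (P.cons (P.lf 34204 0 0) P.nil))) (P.cons (P.cons (P.lf 0 198068 0) (P.cons (P.lf 11240 0 0) P.nil)) (P.cons (P.cons (P.lf 0 14540 0) P.nil) P.nil)))))) 121588)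
 EL.nil)
noncomputable def S125_140_364_512_36 : EL := (EL.cons 14 (TM.mk (P.cons (P.lf 0 6420216512 0) (P.cons (P.lf 214163752 0 0) (P.cons (P.lf 11197744 0 0) (P.cons (P.lf 128496 0 0) (P.cons (P.lf 0 5784 0) (P.cons (P.lf 0 264 0) P.nil)))))) 136)
 EL.nil)
noncomputable def S125_140_364_512_37 : EL := (EL.cons 14 (TM.mk (P.cons (P.cons (P.lf 1201322910 0 0) (P.cons (P.lf 216223148 0 0) (P.cons (P.lf 14456170 0 0) (P.lf 0 4818722 0)))) (P.cons (P.cons (P.lf 0 475308696 0) (P.cons (P.lf 42865102 0 0) (P.cons (P.lf 2865856 0 0) (P.lf 0 955280 0)))) (P.cons (P.cons (P.lf 5297948 0 0) (P.cons (P.lf 1668542 0 0) (P.cons (P.lf 111552 0 0) (P.lf 0 37180 0)))) (P.cons (P.cons (P.lf 2278964 0 0) (P.cons (P.lf 0 185012 0) (P.cons (P.lf 0 12370 0) P.nil))) (P.cons (P.cons (P.lf 35174 0 0) (P.cons (P.lf 0 17350 0) P.nil)) (P.cons (P.cons (P.lf 0 5176 0) P.nil) P.nil))))))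 11966)
 EL.nil)
noncomputable def S125_140_364_512_38 : EL := (EL.cons 14 (TM.mk (P.cons (P.cons (P.lf 0 224786302 0) (P.cons (P.lf 0 80917464 0) (P.cons (P.lf 0 12692018 0) (P.cons (P.lf 829592 0 0) (P.cons (P.lf 292024 0 0) (P.cons (P.lf 21698 0 0) P.nil)))))) (P.cons (P.cons (P.lf 170377022 0 0) (P.cons (P.lf 13274666 0 0) (P.cons (P.lf 0 2242660 0) (P.cons (P.lf 0 714390 0) (P.cons (P.lf 125524 0 0) P.nil))))) (P.cons (P.cons (P.lf 0 31879916 0) (P.cons (P.lf 5667280 0 0) (P.cons (P.lf 0 136794 0) (P.cons (P.lf 0 195256 0) P.nil)))) (P.cons (P.cons (P.lf 0 839190 0) (P.cons (P.lf 302624 0 0) (P.cons (P.lf 0 12392 0) P.nil))) (P.cons (P.cons (P.lf 239916 0 0) (P.cons (P.lf 0 36136 0) P.nil)) (P.cons (P.cons (P.lf 9140 0 0) P.nil) P.nil)))))) 112442)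
 EL.nil)
noncomputable def S125_140_364_512_39 : EL := (EL.cons 14 (TM.mk (P.cons (P.lf 4798544112 0 0) (P.cons (P.lf 0 320136932 0) (P.cons (P.lf 0 11399128 0) (P.cons (P.lf 366284 0 0) (P.cons (P.lf 29650 0 0) (P.cons (P.lf 440 0 0) P.nil)))))) 254)
 EL.nil)
noncomputable def S125_140_364_512_40 : EL := (EL.cons 14 (TM.mk (P.cons (P.cons (P.lf 0 897882644 0) (P.cons (P.lf 0 161607682 0) (P.cons (P.lf 0 10804708 0) (P.lf 3601568 0 0)))) (P.cons (P.cons (P.lf 385202532 0 0) (P.cons (P.lf 0 26647010 0) (P.cons (P.lf 0 1781552 0) (P.lf 593848 0 0)))) (P.cons (P.cons (P.lf 0 14244086 0) (P.cons (P.lf 103486 0 0) (P.cons (P.lf 6918 0 0) (P.lf 0 2308 0)))) (P.cons (P.cons (P.lf 0 2172872 0) (P.cons (P.lf 238992 0 0) (P.cons (P.lf 15980 0 0) P.nil))) (P.cons (P.cons (P.lf 29516 0 0) (P.cons (P.lf 11026 0 0) P.nil)) (P.cons (P.cons (P.lf 8078 0 0) P.nil) P.nil))))))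 13216)
 EL.nil)
noncomputable def S125_140_364_512_41 : EL := (EL.cons 14 (TM.mk (P.cons (P.cons (P.lf 168007882 0 0) (P.cons (P.lf 60478648 0 0) (P.cons (P.lf 9486160 0 0) (P.cons (P.lf 0 620046 0) (P.cons (P.lf 0 218262 0) (P.cons (P.lf 0 16216 0) P.nil)))))) (P.cons (P.cons (P.lf 0 132946116 0) (P.cons (P.lf 0 11939068 0) (P.cons (P.lf 1359754 0 0) (P.cons (P.lf 554626 0 0) (P.cons (P.lf 0 86538 0) P.nil))))) (P.cons (P.cons (P.lf 27782220 0 0) (P.cons (P.lf 0 4010310 0) (P.cons (P.lf 29782 0 0) (P.cons (P.lf 129208 0 0) P.nil)))) (P.cons (P.cons (P.lf 51130 0 0) (P.cons (P.lf 0 68794 0) (P.cons (P.lf 2738 0 0) P.nil))) (P.cons (P.cons (P.lf 0 239098 0) (P.cons (P.lf 42194 0 0) P.nil)) (P.cons (P.cons (P.lf 0 2528 0) P.nil) P.nil)))))) 98716)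
 EL.nil)
noncomputable def S125_140_364_512_42 : EL := (EL.cons 14 (TM.mk (P.cons (P.lf 0 3586487394 0) (P.cons (P.lf 358911070 0 0) (P.cons (P.lf 6793532 0 0) (P.cons (P.lf 0 903512 0) (P.cons (P.lf 0 35908 0) (P.cons (P.lf 784 0 0) P.nil)))))) 366)
 EL.nil)
noncomputable def S125_140_364_512_43 : EL := (EL.cons 14 (TM.mk (P.cons (P.cons (P.lf 671087876 0 0) (P.cons (P.lf 120787452 0 0) (P.cons (P.lf 8075564 0 0) (P.lf 0 2691854 0)))) (P.cons (P.cons (P.lf 0 310290788 0) (P.cons (P.lf 15887090 0 0) (P.cons (P.lf 1062170 0 0) (P.lf 0 354054 0)))) (P.cons (P.cons (P.lf 19079572 0 0) (P.cons (P.lf 0 952378 0) (P.cons (P.lf 0 63674 0) (P.lf 21226 0 0)))) (P.cons (P.cons (P.lf 1757612 0 0) (P.cons (P.lf 0 213200 0) (P.cons (P.lf 0 14254 0) P.nil))) (P.cons (P.cons (P.lf 0 88436 0) (P.cons (P.lf 0 2436 0) P.nil)) (P.cons (P.cons (P.lf 0 8580 0) P.nil) P.nil)))))) 13074)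
 EL.nil)
noncomputable def S125_140_364_512_44 : EL := (EL.cons 14 (TM.mk (P.cons (P.cons (P.lf 0 125571036 0) (P.cons (P.lf 0 45202442 0) (P.cons (P.lf 0 7090066 0) (P.cons (P.lf 463430 0 0) (P.cons (P.lf 163130 0 0) (P.cons (P.lf 12120 0 0) P.nil)))))) (P.cons (P.cons (P.lf 103554228 0 0) (P.cons (P.lf 10431248 0 0) (P.cons (P.lf 0 779786 0) (P.cons (P.lf 0 429992 0) (P.cons (P.lf 59238 0 0) P.nil))))) (P.cons (P.cons (P.lf 0 23860344 0) (P.cons (P.lf 2778528 0 0) (P.cons (P.lf 24006 0 0) (P.cons (P.lf 0 83550 0) P.nil)))) (P.cons (P.cons (P.lf 483654 0 0) (P.cons (P.lf 0 63226 0) (P.cons (P.lf 610 0 0) P.nil))) (P.cons (P.cons (P.lf 214094 0 0) (P.cons (P.lf 0 38698 0) P.nil)) (P.cons (P.cons (P.lf 0 3504 0) P.nil) P.nil)))))) 84108)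
 EL.nil)
noncomputable def S125_140_364_512_45 : EL := (EL.cons 14 (TM.mk (P.cons (P.cons (P.lf 0 56275596 0) (P.cons (P.lf 0 30386716 0) (P.cons (P.lf 0 7500814 0) (P.cons (P.lf 0 382256 0) (P.cons (P.lf 153510 0 0) (P.cons (P.lf 33834 0 0) P.nil)))))) (P.cons (P.cons (P.lf 61165386 0 0) (P.cons (P.lf 14980374 0 0) (P.cons (P.lf 449662 0 0) (P.cons (P.lf 0 635634 0) (P.cons (P.lf 0 23596 0) P.nil))))) (P.cons (P.cons (P.lf 0 21158678 0) (P.cons (P.lf 949110 0 0) (P.cons (P.lf 532364 0 0) (P.cons (P.lf 0 28172 0) P.nil)))) (P.cons (P.cons (P.lf 1767036 0 0) (P.cons (P.lf 0 662828 0) (P.cons (P.lf 94070 0 0) P.nil))) (P.cons (P.cons (P.lf 250562 0 0) (P.cons (P.lf 0 83502 0) P.nil)) (P.cons (P.cons (P.lf 0 13894 0) P.nil) P.nil)))))) 189970)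
 EL.nil)
noncomputable def S125_140_364_512_46 : EL := (EL.cons 15 (TM.mk (P.lf 4294967296 0 0) 0)
 EL.nil)
noncomputable def S125_140_364_512_47 : EL := (EL.cons 15 (TM.mk (P.cons (P.cons (P.lf 0 803655547 0) (P.cons (P.lf 0 144647980 0) (P.cons (P.lf 0 9670824 0) (P.lf 3223608 0 0)))) (P.cons (P.cons (P.lf 291161742 0 0) (P.cons (P.lf 0 33500828 0) (P.cons (P.lf 0 2239784 0) (P.lf 746592 0 0)))) (P.cons (P.cons (P.lf 4766606 0 0) (P.cons (P.lf 0 2486012 0) (P.cons (P.lf 0 166208 0) (P.lf 55400 0 0)))) (P.cons (P.cons (P.lf 0 873827 0) (P.cons (P.lf 0 20484 0) (P.cons (P.lf 0 1368 0) P.nil))) (P.cons (P.cons (P.lf 0 37815 0) (P.cons (P.lf 6048 0 0) P.nil)) (P.cons (P.cons (P.lf 544 0 0) P.nil) P.nil)))))) 3637)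
 EL.nil)
noncomputable def S125_140_364_512_48 : EL := (EL.cons 15 (TM.mk (P.cons (P.cons (P.lf 150376520 0 0) (P.cons (P.lf 54131798 0 0) (P.cons (P.lf 8490649 0 0) (P.cons (P.lf 0 554977 0) (P.cons (P.lf 0 195357 0) (P.cons (P.lf 0 14516 0) P.nil)))))) (P.cons (P.cons (P.lf 0 108961830 0) (P.cons (P.lf 0 7074713 0) (P.cons (P.lf 1783514 0 0) (P.cons (P.lf 459397 0 0) (P.cons (P.lf 0 90490 0) P.nil))))) (P.cons (P.cons (P.lf 17954442 0 0) (P.cons (P.lf 0 3932855 0) (P.cons (P.lf 165815 0 0) (P.cons (P.lf 144979 0 0) P.nil)))) (P.cons (P.cons (P.lf 973282 0 0) (P.cons (P.lf 0 344895 0) (P.cons (P.lf 17102 0 0) P.nil))) (P.cons (P.cons (P.lf 0 99034 0) (P.cons (P.lf 5620 0 0) P.nil)) (P.cons (P.cons (P.lf 0 7270 0) P.nil) P.nil)))))) 60794)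
 EL.nil)
noncomputable def S125_140_364_512 : SL := (SL.cons S125_140_364_512_0 (SL.cons S125_140_364_512_1 (SL.cons S125_140_364_512_2 (SL.cons S125_140_364_512_3 (SL.cons S125_140_364_512_4 (SL.cons S125_140_364_512_5 (SL.cons S125_140_364_512_6 (SL.cons S125_140_364_512_7 (SL.cons S125_140_364_512_8 (SL.cons S125_140_364_512_9 (SL.cons S125_140_364_512_10 (SL.cons S125_140_364_512_11 (SL.cons S125_140_364_512_12 (SL.cons S125_140_364_512_13 (SL.cons S125_140_364_512_14 (SL.cons S125_140_364_512_15 (SL.cons S125_140_364_512_16 (SL.cons S125_140_364_512_17 (SL.cons S125_140_364_512_18 (SL.cons S125_140_364_512_19 (SL.cons S125_140_364_512_20 (SL.cons S125_140_364_512_21 (SL.cons S125_140_364_512_22 (SL.cons S125_140_364_512_23 (SL.cons S125_140_364_512_24 (SL.cons S125_140_364_512_25 (SL.cons S125_140_364_512_26 (SL.cons S125_140_364_512_27 (SL.cons S125_140_364_512_28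 (SL.cons S125_140_364_512_29 (SL.cons S125_140_364_512_30 (SL.cons S125_140_364_512_31 (SL.cons S125_140_364_512_32 (SL.cons S125_140_364_512_33 (SL.cons S125_140_364_512_34 (SL.cons S125_140_364_512_35 (SL.cons S125_140_364_512_36 (SL.cons S125_140_364_512_37 (SL.cons S125_140_364_512_38 (SL.cons S125_140_364_512_39 (SL.cons S125_140_364_512_40 (SL.cons S125_140_364_512_41 (SL.cons S125_140_364_512_42 (SL.cons S125_140_364_512_43 (SL.cons S125_140_364_512_44 (SL.cons S125_140_364_512_45 (SL.cons S125_140_364_512_46 (SL.cons S125_140_364_512_47 (SL.cons S125_140_364_512_48 SL.nil)))))))))))))))))))))))))))))))))))))))))))))))))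
noncomputable def S125_140_438_512_0 : EL := (EL.cons 0 (TM.mk (P.cons (P.lf 4238246453 0 0) (P.cons (P.lf 281370350 0 0) (P.cons (P.lf 10018764 0 0) (P.cons (P.lf 0 321929 0) (P.cons (P.lf 0 26059 0) (P.cons (P.lf 0 386 0) P.nil)))))) 230)
 (EL.cons 1 (TM.mk (P.cons (P.lf 0 1653076498 0) (P.cons (P.lf 0 72476017 0) (P.cons (P.lf 7522271 0 0) (P.cons (P.lf 359445 0 0) (P.cons (P.lf 0 615 0) (P.cons (P.lf 0 506 0) P.nil)))))) 138)
 (EL.cons 5 (TM.mk (P.cons (P.lf 5794512336 0 0) (P.cons (P.lf 0 100042792 0) (P.cons (P.lf 0 3562232 0) (P.cons (P.lf 114460 0 0) (P.cons (P.lf 9268 0 0) (P.cons (P.lf 138 0 0) P.nil)))))) 79)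
 (EL.cons 9 (TM.mk (P.lf 6442450944 0 0) 2)
 EL.nil))))
noncomputable def S125_140_438_512_1 : EL := (EL.cons 0 (TM.mk (P.cons (P.cons (P.lf 0 4350840488 0) (P.cons (P.lf 148792846 0 0) (P.cons (P.lf 2368219 0 0) (P.lf 0 789399 0)))) (P.cons (P.cons (P.lf 66655920 0 0) (P.cons (P.lf 14558198 0 0) (P.cons (P.lf 231707 0 0) (P.lf 0 77231 0)))) (P.cons (P.cons (P.lf 68766378 0 0) (P.cons (P.lf 0 2760917 0) (P.cons (P.lf 0 43947 0) (P.lf 14649 0 0)))) (P.cons (P.cons (P.lf 3016056 0 0) (P.cons (P.lf 0 462340 0) (P.cons (P.lf 0 7359 0) P.nil))) (P.cons (P.cons (P.lf 0 283651 0) (P.cons (P.lf 0 14096 0) P.nil)) (P.cons (P.cons (P.lf 0 23855 0) P.nil) P.nil)))))) 13456)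
 (EL.cons 1 (TM.mk (P.cons (P.cons (P.lf 1235458804 0 0) (P.cons (P.lf 0 28399196 0) (P.cons (P.lf 0 452015 0) (P.lf 150676 0 0)))) (P.cons (P.cons (P.lf 0 303201639 0) (P.cons (P.lf 14616546 0 0) (P.cons (P.lf 232640 0 0) (P.lf 0 77545 0)))) (P.cons (P.cons (P.lf 0 23183625 0) (P.cons (P.lf 2867853 0 0) (P.cons (P.lf 45634 0 0) (P.lf 0 15206 0)))) (P.cons (P.cons (P.lf 2759347 0 0) (P.cons (P.lf 50378 0 0) (P.cons (P.lf 799 0 0) P.nil))) (P.cons (P.cons (P.lf 211205 0 0) (P.cons (P.lf 0 16212 0) P.nil)) (P.cons (P.cons (P.lf 0 4162 0) P.nil) P.nil)))))) 6059)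
 (EL.cons 5 (TM.mk (P.cons (P.cons (P.lf 54375203 0 0) (P.cons (P.lf 0 182020060 0) (P.cons (P.lf 0 2897086 0) (P.lf 965692 0 0)))) (P.cons (P.cons (P.lf 442006119 0 0) (P.cons (P.lf 0 35079820 0) (P.cons (P.lf 0 558340 0) (P.lf 186110 0 0)))) (P.cons (P.cons (P.lf 0 18519009 0) (P.cons (P.lf 0 1237412 0) (P.cons (P.lf 0 19698 0) (P.lf 6570 0 0)))) (P.cons (P.cons (P.lf 0 2575774 0) (P.cons (P.lf 146100 0 0) (P.cons (P.lf 2322 0 0) P.nil))) (P.cons (P.cons (P.lf 41847 0 0) (P.cons (P.lf 10408 0 0) P.nil)) (P.cons (P.cons (P.lf 9646 0 0) P.nil) P.nil)))))) 4484)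
 (EL.cons 9 (TM.mk (P.cons (P.cons (P.lf 0 1316991442 0) (P.cons (P.lf 0 113925822 0) (P.cons (P.lf 0 1813278 0) (P.lf 604422 0 0)))) (P.cons (P.cons (P.lf 410917059 0 0) (P.cons (P.lf 0 26385498 0) (P.cons (P.lf 0 419958 0) (P.lf 139986 0 0)))) (P.cons (P.cons (P.lf 5233461 0 0) (P.cons (P.lf 0 1957998 0) (P.cons (P.lf 0 31158 0) (P.lf 10386 0 0)))) (P.cons (P.cons (P.lf 0 1326532 0) (P.cons (P.lf 0 16134 0) (P.cons (P.lf 0 252 0) P.nil))) (P.cons (P.cons (P.lf 0 52054 0) (P.cons (P.lf 4764 0 0) P.nil)) (P.cons (P.cons (P.lf 1032 0 0) P.nil) P.nil)))))) 1484)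
 (EL.cons 2 (TM.mk (P.cons (P.cons (P.lf 668594463 0 0) (P.cons (P.lf 24783882 0 0) (P.cons (P.lf 0 12280500 0) (P.cons (P.lf 0 111434 0) (P.lf 27857 0 0))))) (P.cons (P.cons (P.lf 80929305 0 0) (P.cons (P.lf 2999936 0 0) (P.cons (P.lf 0 1486479 0) (P.cons (P.lf 0 13485 0) (P.lf 3369 0 0))))) (P.cons (P.cons (P.lf 0 933913 0) (P.cons (P.lf 0 34619 0) (P.cons (P.lf 17153 0 0) (P.cons (P.lf 154 0 0) P.nil)))) (P.cons (P.cons (P.lf 0 434154 0) (P.cons (P.lf 0 16090 0) (P.cons (P.lf 7973 0 0) P.nil))) (P.cons (P.cons (P.lf 0 13497 0) (P.cons (P.lf 0 497 0) P.nil)) (P.cons (P.cons (P.lf 430 0 0) P.nil) P.nil)))))) 1185)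
 (EL.cons 6 (TM.mk (P.cons (P.cons (P.lf 262061778 0 0) (P.cons (P.lf 9714270 0 0) (P.cons (P.lf 0 4813455 0) (P.cons (P.lf 0 43677 0) (P.lf 10917 0 0))))) (P.cons (P.cons (P.lf 60694155 0 0) (P.cons (P.lf 2249847 0 0) (P.cons (P.lf 0 1114806 0) (P.cons (P.lf 0 10113 0) (P.lf 2526 0 0))))) (P.cons (P.cons (P.lf 4503960 0 0) (P.cons (P.lf 166953 0 0) (P.cons (P.lf 0 82725 0) (P.cons (P.lf 0 750 0) P.nil)))) (P.cons (P.cons (P.lf 37110 0 0) (P.cons (P.lf 1374 0 0) (P.cons (P.lf 0 681 0) P.nil))) (P.cons (P.cons (P.lf 0 10962 0) (P.cons (P.lf 0 405 0) P.nil)) (P.cons (P.cons (P.lf 0 501 0) P.nil) P.nil)))))) 612)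
 EL.nil))))))
noncomputable def S125_140_438_512_2 : EL := (EL.cons 0 (TM.mk (P.cons (P.cons (P.lf 1601719449 0 0) (P.cons (P.lf 62401374 0 0) (P.cons (P.lf 0 5594531 0) (P.cons (P.lf 0 540758 0) (P.cons (P.lf 68229 0 0) (P.cons (P.lf 1104 0 0) P.nil)))))) (P.cons (P.cons (P.lf 0 483504669 0) (P.cons (P.lf 46739260 0 0) (P.cons (P.lf 0 1691633 0) (P.cons (P.lf 0 325499 0) (P.cons (P.lf 25219 0 0) P.nil))))) (P.cons (P.cons (P.lf 0 35596546 0) (P.cons (P.lf 4794768 0 0) (P.cons (P.lf 0 196268 0) (P.cons (P.lf 0 34103 0) P.nil)))) (P.cons (P.cons (P.lf 7866606 0 0) (P.cons (P.lf 0 603864 0) (P.cons (P.lf 0 264 0) P.nil))) (P.cons (P.cons (P.lf 652236 0 0) (P.cons (P.lf 0 118247 0) P.nil)) (P.cons (P.cons (P.lf 0 41316 0) P.nil) P.nil)))))) 62955)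
 (EL.cons 1 (TM.mk (P.cons (P.cons (P.lf 0 436034125 0) (P.cons (P.lf 0 20132208 0) (P.cons (P.lf 1200913 0 0) (P.cons (P.lf 155230 0 0) (P.cons (P.lf 0 15760 0) (P.cons (P.lf 0 257 0) P.nil)))))) (P.cons (P.cons (P.lf 241485939 0 0) (P.cons (P.lf 0 9432141 0) (P.cons (P.lf 0 172337 0) (P.cons (P.lf 49331 0 0) (P.cons (P.lf 229 0 0) P.nil))))) (P.cons (P.cons (P.lf 0 23220498 0) (P.cons (P.lf 2396191 0 0) (P.cons (P.lf 0 112103 0) (P.cons (P.lf 0 17496 0) P.nil)))) (P.cons (P.cons (P.lf 0 4324576 0) (P.cons (P.lf 560571 0 0) (P.cons (P.lf 0 20030 0) P.nil))) (P.cons (P.cons (P.lf 290910 0 0) (P.cons (P.lf 1674 0 0) P.nil)) (P.cons (P.cons (P.lf 41237 0 0) P.nil) P.nil)))))) 28634)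
 (EL.cons 5 (TM.mk (P.cons (P.cons (P.lf 0 264378998 0) (P.cons (P.lf 30601635 0 0) (P.cons (P.lf 5112606 0 0) (P.cons (P.lf 0 15123 0) (P.cons (P.lf 0 47903 0) (P.cons (P.lf 0 773 0) P.nil)))))) (P.cons (P.cons (P.lf 0 18490182 0) (P.cons (P.lf 0 20863111 0) (P.cons (P.lf 1591508 0 0) (P.cons (P.lf 171907 0 0) (P.cons (P.lf 0 19914 0) P.nil))))) (P.cons (P.cons (P.lf 39935550 0 0) (P.cons (P.lf 0 4821980 0) (P.cons (P.lf 221115 0 0) (P.cons (P.lf 35054 0 0) P.nil)))) (P.cons (P.cons (P.lf 0 1425727 0) (P.cons (P.lf 0 56310 0) (P.cons (P.lf 14599 0 0) P.nil))) (P.cons (P.cons (P.lf 0 394737 0) (P.cons (P.lf 48284 0 0) P.nil)) (P.cons (P.cons (P.lf 4240 0 0) P.nil) P.nil)))))) 26150)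
 (EL.cons 9 (TM.mk (P.cons (P.cons (P.lf 269224627 0 0) (P.cons (P.lf 46578339 0 0) (P.cons (P.lf 2755974 0 0) (P.cons (P.lf 0 182985 0) (P.cons (P.lf 0 20865 0) (P.cons (P.lf 0 339 0) P.nil)))))) (P.cons (P.cons (P.lf 0 168002598 0) (P.cons (P.lf 0 3745341 0) (P.cons (P.lf 873568 0 0) (P.cons (P.lf 49575 0 0) (P.cons (P.lf 0 9664 0) P.nil))))) (P.cons (P.cons (P.lf 24069718 0 0) (P.cons (P.lf 0 2750446 0) (P.cons (P.lf 133533 0 0) (P.cons (P.lf 20236 0 0) P.nil)))) (P.cons (P.cons (P.lf 1209958 0 0) (P.cons (P.lf 0 239128 0) (P.cons (P.lf 12801 0 0) P.nil))) (P.cons (P.cons (P.lf 0 143685 0) (P.cons (P.lf 5518 0 0) P.nil)) (P.cons (P.cons (P.lf 0 9216 0) P.nil) P.nil)))))) 9476)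
 (EL.cons 2 (TM.mk (P.cons (P.cons (P.lf 0 273353473 0) (P.cons (P.lf 0 33779171 0) (P.cons (P.lf 3767956 0 0) (P.cons (P.lf 591384 0 0) (P.cons (P.lf 4111 0 0) (P.cons (P.lf 0 3223 0) P.nil)))))) (P.cons (P.cons (P.lf 52201766 0 0) (P.cons (P.lf 0 6403741 0) (P.cons (P.lf 0 1400653 0) (P.cons (P.lf 183780 0 0) (P.cons (P.lf 7638 0 0) P.nil))))) (P.cons (P.cons (P.lf 11791861 0 0) (P.cons (P.lf 0 599163 0) (P.cons (P.lf 0 271490 0) (P.cons (P.lf 21948 0 0) P.nil)))) (P.cons (P.cons (P.lf 0 85477 0) (P.cons (P.lf 0 32703 0) (P.cons (P.lf 5 0 0) P.nil))) (P.cons (P.cons (P.lf 0 95512 0) (P.cons (P.lf 1642 0 0) P.nil)) (P.cons (P.cons (P.lf 0 3307 0) P.nil) P.nil)))))) 9488)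
 (EL.cons 6 (TM.mk (P.cons (P.cons (P.lf 0 107143416 0) (P.cons (P.lf 0 13240056 0) (P.cons (P.lf 1476882 0 0) (P.cons (P.lf 231798 0 0) (P.cons (P.lf 1608 0 0) (P.cons (P.lf 0 1260 0) P.nil)))))) (P.cons (P.cons (P.lf 8615340 0 0) (P.cons (P.lf 0 3973806 0) (P.cons (P.lf 0 385716 0) (P.cons (P.lf 97656 0 0) (P.cons (P.lf 3168 0 0) P.nil))))) (P.cons (P.cons (P.lf 6326808 0 0) (P.cons (P.lf 0 581208 0) (P.cons (P.lf 0 159426 0) (P.cons (P.lf 17772 0 0) P.nil)))) (P.cons (P.cons (P.lf 550062 0 0) (P.cons (P.lf 0 56016 0) (P.cons (P.lf 0 14148 0) P.nil))) (P.cons (P.cons (P.lf 0 12690 0) (P.cons (P.lf 0 3036 0) P.nil)) (P.cons (P.cons (P.lf 0 3882 0) P.nil) P.nil)))))) 5946)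
 EL.nil))))))
noncomputable def S125_140_438_512_3 : EL := (EL.cons 0 (TM.mk (P.cons (P.lf 4217470410 0 0) (P.cons (P.lf 0 281370350 0) (P.cons (P.lf 0 10018764 0) (P.cons (P.lf 321929 0 0) (P.cons (P.lf 26059 0 0) (P.cons (P.lf 386 0 0) P.nil)))))) 230)
 (EL.cons 1 (TM.mk (P.cons (P.lf 1653076498 0 0) (P.cons (P.lf 72476017 0 0) (P.cons (P.lf 0 7522271 0) (P.cons (P.lf 0 359445 0) (P.cons (P.lf 615 0 0) (P.cons (P.lf 506 0 0) P.nil)))))) 138)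
 (EL.cons 5 (TM.mk (P.cons (P.lf 647938608 0 0) (P.cons (P.lf 100042792 0 0) (P.cons (P.lf 3562232 0 0) (P.cons (P.lf 0 114460 0) (P.cons (P.lf 0 9268 0) (P.cons (P.lf 0 138 0) P.nil)))))) 72)
 EL.nil)))
noncomputable def S125_140_438_512_4 : EL := (EL.cons 0 (TM.mk (P.cons (P.cons (P.lf 0 862152073 0) (P.cons (P.lf 0 74580122 0) (P.cons (P.lf 0 1187038 0) (P.lf 395676 0 0)))) (P.cons (P.cons (P.lf 326520588 0 0) (P.cons (P.lf 0 12297292 0) (P.cons (P.lf 0 195725 0) (P.lf 65241 0 0)))) (P.cons (P.cons (P.lf 0 12472470 0) (P.cons (P.lf 47759 0 0) (P.cons (P.lf 762 0 0) (P.lf 0 253 0)))) (P.cons (P.cons (P.lf 0 1801800 0) (P.cons (P.lf 110290 0 0) (P.cons (P.lf 1757 0 0) P.nil))) (P.cons (P.cons (P.lf 30925 0 0) (P.cons (P.lf 5088 0 0) P.nil)) (P.cons (P.cons (P.lf 6855 0 0) P.nil) P.nil)))))) 2673)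
 (EL.cons 1 (TM.mk (P.cons (P.cons (P.lf 0 337928471 0) (P.cons (P.lf 0 29232367 0) (P.cons (P.lf 0 465270 0) (P.lf 155088 0 0)))) (P.cons (P.cons (P.lf 90621883 0 0) (P.cons (P.lf 0 8051925 0) (P.cons (P.lf 0 128156 0) (P.lf 42718 0 0)))) (P.cons (P.cons (P.lf 7503309 0 0) (P.cons (P.lf 0 666213 0) (P.cons (P.lf 0 10601 0) (P.lf 3532 0 0)))) (P.cons (P.cons (P.lf 0 687811 0) (P.cons (P.lf 10996 0 0) (P.cons (P.lf 174 0 0) P.nil))) (P.cons (P.cons (P.lf 0 57442 0) (P.cons (P.lf 4786 0 0) P.nil)) (P.cons (P.cons (P.lf 870 0 0) P.nil) P.nil)))))) 1350)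
 (EL.cons 5 (TM.mk (P.cons (P.cons (P.lf 0 132454186 0) (P.cons (P.lf 0 11457896 0) (P.cons (P.lf 0 182366 0) (P.lf 60788 0 0)))) (P.cons (P.cons (P.lf 20876142 0 0) (P.cons (P.lf 0 4422794 0) (P.cons (P.lf 0 70394 0) (P.lf 23464 0 0)))) (P.cons (P.cons (P.lf 6179142 0 0) (P.cons (P.lf 0 669646 0) (P.cons (P.lf 0 10656 0) (P.lf 3552 0 0)))) (P.cons (P.cons (P.lf 198462 0 0) (P.cons (P.lf 0 44592 0) (P.cons (P.lf 0 708 0) P.nil))) (P.cons (P.cons (P.lf 0 28346 0) (P.cons (P.lf 0 220 0) P.nil)) (P.cons (P.cons (P.lf 0 2092 0) P.nil) P.nil)))))) 756)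
 EL.nil)))
noncomputable def S125_140_438_512_5 : EL := (EL.cons 0 (TM.mk (P.cons (P.cons (P.lf 176244554 0 0) (P.cons (P.lf 30491929 0 0) (P.cons (P.lf 1804162 0 0) (P.cons (P.lf 0 119787 0) (P.cons (P.lf 0 13658 0) (P.cons (P.lf 0 221 0) P.nil)))))) (P.cons (P.cons (P.lf 0 121739043 0) (P.cons (P.lf 0 4486122 0) (P.cons (P.lf 451504 0 0) (P.cons (P.lf 40443 0 0) (P.cons (P.lf 0 5414 0) P.nil))))) (P.cons (P.cons (P.lf 22675682 0 0) (P.cons (P.lf 0 1709404 0) (P.cons (P.lf 44977 0 0) (P.cons (P.lf 11366 0 0) P.nil)))) (P.cons (P.cons (P.lf 15568 0 0) (P.cons (P.lf 0 28265 0) (P.cons (P.lf 1327 0 0) P.nil))) (P.cons (P.cons (P.lf 0 191641 0) (P.cons (P.lf 18333 0 0) P.nil)) (P.cons (P.cons (P.lf 0 1098 0) P.nil) P.nil)))))) 10665)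
 (EL.cons 1 (TM.mk (P.cons (P.cons (P.lf 69080681 0 0) (P.cons (P.lf 11951593 0 0) (P.cons (P.lf 707158 0 0) (P.cons (P.lf 0 46951 0) (P.cons (P.lf 0 5353 0) (P.cons (P.lf 0 86 0) P.nil)))))) (P.cons (P.cons (P.lf 0 40079281 0) (P.cons (P.lf 0 437025 0) (P.cons (P.lf 255151 0 0) (P.cons (P.lf 10661 0 0) (P.cons (P.lf 0 2713 0) P.nil))))) (P.cons (P.cons (P.lf 3971739 0 0) (P.cons (P.lf 0 802258 0) (P.cons (P.lf 40871 0 0) (P.cons (P.lf 5962 0 0) P.nil)))) (P.cons (P.cons (P.lf 762382 0 0) (P.cons (P.lf 0 90525 0) (P.cons (P.lf 3611 0 0) P.nil))) (P.cons (P.cons (P.lf 0 41960 0) (P.cons (P.lf 2148 0 0) P.nil)) (P.cons (P.cons (P.lf 0 6731 0) P.nil) P.nil)))))) 5018)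
 (EL.cons 5 (TM.mk (P.cons (P.cons (P.lf 27076810 0 0) (P.cons (P.lf 4684536 0 0) (P.cons (P.lf 277176 0 0) (P.cons (P.lf 0 18402 0) (P.cons (P.lf 0 2098 0) (P.cons (P.lf 0 34 0) P.nil)))))) (P.cons (P.cons (P.lf 0 12715872 0) (P.cons (P.lf 346618 0 0) (P.cons (P.lf 130652 0 0) (P.cons (P.lf 2144 0 0) (P.cons (P.lf 0 1294 0) P.nil))))) (P.cons (P.cons (P.lf 0 39224 0) (P.cons (P.lf 0 309026 0) (P.cons (P.lf 28518 0 0) (P.cons (P.lf 2702 0 0) P.nil)))) (P.cons (P.cons (P.lf 397782 0 0) (P.cons (P.lf 0 69658 0) (P.cons (P.lf 3794 0 0) P.nil))) (P.cons (P.cons (P.lf 20244 0 0) (P.cons (P.lf 0 4678 0) P.nil)) (P.cons (P.cons (P.lf 0 2680 0) P.nil) P.nil)))))) 2514)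
 EL.nil)))
noncomputable def S125_140_438_512_6 : EL := (EL.cons 12 (TM.mk (P.lf 8589934592 0 0) 0)
 (EL.cons 3 (TM.mk (P.cons (P.lf 0 3009476490 0) (P.cons (P.lf 100389258 0 0) (P.cons (P.lf 5248942 0 0) (P.cons (P.lf 60232 0 0) (P.cons (P.lf 0 2711 0) (P.cons (P.lf 0 123 0) P.nil)))))) 70)
 (EL.cons 7 (TM.mk (P.cons (P.lf 0 1179592119 0) (P.cons (P.lf 0 91065487 0) (P.cons (P.lf 272589 0 0) (P.cons (P.lf 83145 0 0) (P.cons (P.lf 2049 0 0) (P.cons (P.lf 0 13 0) P.nil)))))) 46)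
 EL.nil)))
noncomputable def S125_140_438_512_7 : EL := (EL.cons 12 (TM.mk (P.cons (P.cons (P.lf 0 1755988590 0) (P.cons (P.lf 0 151901096 0) (P.cons (P.lf 0 2417704 0) (P.lf 805896 0 0)))) (P.cons (P.cons (P.lf 547889412 0 0) (P.cons (P.lf 0 35180664 0) (P.cons (P.lf 0 559944 0) (P.lf 186648 0 0)))) (P.cons (P.cons (P.lf 6977948 0 0) (P.cons (P.lf 0 2610664 0) (P.cons (P.lf 0 41544 0) (P.lf 13848 0 0)))) (P.cons (P.cons (P.lf 0 1768710 0) (P.cons (P.lf 0 21512 0) (P.cons (P.lf 0 336 0) P.nil))) (P.cons (P.cons (P.lf 0 69406 0) (P.cons (P.lf 6352 0 0) P.nil)) (P.cons (P.cons (P.lf 1376 0 0) P.nil) P.nil)))))) 1954)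
 (EL.cons 3 (TM.mk (P.cons (P.cons (P.lf 3101615253 0 0) (P.cons (P.lf 0 106436846 0) (P.cons (P.lf 0 1694078 0) (P.lf 564688 0 0)))) (P.cons (P.cons (P.lf 0 25243413 0) (P.cons (P.lf 0 21100542 0) (P.cons (P.lf 0 335840 0) (P.lf 111946 0 0)))) (P.cons (P.cons (P.lf 0 21800771 0) (P.cons (P.lf 0 821342 0) (P.cons (P.lf 0 13066 0) (P.lf 4354 0 0)))) (P.cons (P.cons (P.lf 0 1532306 0) (P.cons (P.lf 91072 0 0) (P.cons (P.lf 1452 0 0) P.nil))) (P.cons (P.cons (P.lf 17084 0 0) (P.cons (P.lf 8540 0 0) P.nil)) (P.cons (P.cons (P.lf 5562 0 0) P.nil) P.nil)))))) 5558)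
 (EL.cons 7 (TM.mk (P.cons (P.cons (P.lf 0 2014341241 0) (P.cons (P.lf 165686561 0 0) (P.cons (P.lf 2637121 0 0) (P.lf 0 879042 0)))) (P.cons (P.cons (P.lf 22898896 0 0) (P.cons (P.lf 19140812 0 0) (P.cons (P.lf 304652 0 0) (P.lf 0 101551 0)))) (P.cons (P.cons (P.lf 18510164 0 0) (P.cons (P.lf 0 313024 0) (P.cons (P.lf 0 4981 0) (P.lf 1660 0 0)))) (P.cons (P.cons (P.lf 0 14012 0) (P.cons (P.lf 0 92724 0) (P.cons (P.lf 0 1472 0) P.nil))) (P.cons (P.cons (P.lf 0 64269 0) (P.cons (P.lf 0 758 0) P.nil)) (P.cons (P.cons (P.lf 0 1745 0) P.nil) P.nil)))))) 3136)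
 (EL.cons 10 (TM.mk (P.cons (P.cons (P.lf 0 954183018 0) (P.cons (P.lf 0 35370261 0) (P.cons (P.lf 17526090 0 0) (P.cons (P.lf 159036 0 0) (P.lf 0 39759 0))))) (P.cons (P.cons (P.lf 0 147327435 0) (P.cons (P.lf 0 5461227 0) (P.cons (P.lf 2706057 0 0) (P.cons (P.lf 24555 0 0) (P.lf 0 6138 0))))) (P.cons (P.cons (P.lf 0 5245899 0) (P.cons (P.lf 0 194457 0) (P.cons (P.lf 96354 0 0) (P.cons (P.lf 873 0 0) P.nil)))) (P.cons (P.cons (P.lf 168558 0 0) (P.cons (P.lf 6246 0 0) (P.cons (P.lf 0 3096 0) P.nil))) (P.cons (P.cons (P.lf 13647 0 0) (P.cons (P.lf 504 0 0) P.nil)) (P.cons (P.cons (P.lf 201 0 0) P.nil) P.nil)))))) 729)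
 EL.nil))))
noncomputable def S125_140_438_512_8 : EL := (EL.cons 12 (TM.mk (P.cons (P.cons (P.lf 358966170 0 0) (P.cons (P.lf 62104452 0 0) (P.cons (P.lf 3674632 0 0) (P.cons (P.lf 0 243980 0) (P.cons (P.lf 0 27820 0) (P.cons (P.lf 0 452 0) P.nil)))))) (P.cons (P.cons (P.lf 0 224003464 0) (P.cons (P.lf 0 4993788 0) (P.cons (P.lf 1164758 0 0) (P.cons (P.lf 66100 0 0) (P.cons (P.lf 0 12886 0) P.nil))))) (P.cons (P.cons (P.lf 32092958 0 0) (P.cons (P.lf 0 3667262 0) (P.cons (P.lf 178044 0 0) (P.cons (P.lf 26982 0 0) P.nil)))) (P.cons (P.cons (P.lf 1613278 0 0) (P.cons (P.lf 0 318838 0) (P.cons (P.lf 17068 0 0) P.nil))) (P.cons (P.cons (P.lf 0 191580 0) (P.cons (P.lf 7358 0 0) P.nil)) (P.cons (P.cons (P.lf 0 12288 0) P.nil) P.nil)))))) 12606)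
 (EL.cons 3 (TM.mk (P.cons (P.cons (P.lf 0 1142325542 0) (P.cons (P.lf 0 44420807 0) (P.cons (P.lf 3998452 0 0) (P.cons (P.lf 385453 0 0) (P.cons (P.lf 0 48736 0) (P.cons (P.lf 0 791 0) P.nil)))))) (P.cons (P.cons (P.lf 323305031 0 0) (P.cons (P.lf 0 31939090 0) (P.cons (P.lf 1514278 0 0) (P.cons (P.lf 233833 0 0) (P.cons (P.lf 0 20946 0) P.nil))))) (P.cons (P.cons (P.lf 24374428 0 0) (P.cons (P.lf 0 4700719 0) (P.cons (P.lf 258413 0 0) (P.cons (P.lf 35547 0 0) P.nil)))) (P.cons (P.cons (P.lf 0 3148322 0) (P.cons (P.lf 33889 0 0) (P.cons (P.lf 21625 0 0) P.nil))) (P.cons (P.cons (P.lf 0 381500 0) (P.cons (P.lf 55710 0 0) P.nil)) (P.cons (P.cons (P.lf 4446 0 0) P.nil) P.nil)))))) 32833)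
 (EL.cons 7 (TM.mk (P.cons (P.cons (P.lf 872853460 0 0) (P.cons (P.lf 12029402 0 0) (P.cons (P.lf 0 5299540 0) (P.cons (P.lf 0 238609 0) (P.cons (P.lf 56872 0 0) (P.cons (P.lf 926 0 0) P.nil)))))) (P.cons (P.cons (P.lf 0 293277690 0) (P.cons (P.lf 28972702 0 0) (P.cons (P.lf 0 1373637 0) (P.cons (P.lf 0 212116 0) (P.cons (P.lf 19002 0 0) P.nil))))) (P.cons (P.cons (P.lf 0 5898448 0) (P.cons (P.lf 2662541 0 0) (P.cons (P.lf 0 158480 0) (P.cons (P.lf 0 20511 0) P.nil)))) (P.cons (P.cons (P.lf 3799116 0 0) (P.cons (P.lf 0 277208 0) (P.cons (P.lf 0 5550 0) P.nil))) (P.cons (P.cons (P.lf 69539 0 0) (P.cons (P.lf 0 36763 0) P.nil)) (P.cons (P.cons (P.lf 0 20172 0) P.nil) P.nil)))))) 18370)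
 (EL.cons 10 (TM.mk (P.cons (P.cons (P.lf 390115770 0 0) (P.cons (P.lf 48207864 0 0) (P.cons (P.lf 0 5377428 0) (P.cons (P.lf 0 843996 0) (P.cons (P.lf 0 5868 0) (P.cons (P.lf 4602 0 0) P.nil)))))) (P.cons (P.cons (P.lf 0 61486260 0) (P.cons (P.lf 10747194 0 0) (P.cons (P.lf 1819560 0 0) (P.cons (P.lf 0 290436 0) (P.cons (P.lf 0 11100 0) P.nil))))) (P.cons (P.cons (P.lf 0 18199356 0) (P.cons (P.lf 1297674 0 0) (P.cons (P.lf 438780 0 0) (P.cons (P.lf 0 42492 0) P.nil)))) (P.cons (P.cons (P.lf 0 584526 0) (P.cons (P.lf 109668 0 0) (P.cons (P.lf 17688 0 0) P.nil))) (P.cons (P.cons (P.lf 83490 0 0) (P.cons (P.lf 3744 0 0) P.nil)) (P.cons (P.cons (P.lf 6162 0 0) P.nil) P.nil)))))) 12852)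
 EL.nil))))
noncomputable def S125_140_438_512_9 : EL := (EL.cons 3 (TM.mk (P.cons (P.lf 0 3009476490 0) (P.cons (P.lf 100389258 0 0) (P.cons (P.lf 5248942 0 0) (P.cons (P.lf 60232 0 0) (P.cons (P.lf 0 2711 0) (P.cons (P.lf 0 123 0) P.nil)))))) 70)
 (EL.cons 7 (TM.mk (P.cons (P.lf 0 1179592119 0) (P.cons (P.lf 0 91065487 0) (P.cons (P.lf 272589 0 0) (P.cons (P.lf 83145 0 0) (P.cons (P.lf 2049 0 0) (P.cons (P.lf 0 13 0) P.nil)))))) 46)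
 EL.nil))
noncomputable def S125_140_438_512_10 : EL := (EL.cons 3 (TM.mk (P.cons (P.cons (P.lf 615209151 0 0) (P.cons (P.lf 53218423 0 0) (P.cons (P.lf 847039 0 0) (P.lf 0 282344 0)))) (P.cons (P.cons (P.lf 0 212474574 0) (P.cons (P.lf 10550271 0 0) (P.cons (P.lf 167920 0 0) (P.lf 0 55973 0)))) (P.cons (P.cons (P.lf 2885371 0 0) (P.cons (P.lf 410671 0 0) (P.cons (P.lf 6533 0 0) (P.lf 0 2177 0)))) (P.cons (P.cons (P.lf 1023694 0 0) (P.cons (P.lf 0 45536 0) (P.cons (P.lf 0 726 0) P.nil))) (P.cons (P.cons (P.lf 12305 0 0) (P.cons (P.lf 0 4270 0) P.nil)) (P.cons (P.cons (P.lf 0 2472 0) P.nil) P.nil)))))) 1297)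
 (EL.cons 7 (TM.mk (P.cons (P.cons (P.lf 241136912 0 0) (P.cons (P.lf 20859452 0 0) (P.cons (P.lf 332005 0 0) (P.lf 0 110667 0)))) (P.cons (P.cons (P.lf 0 56621627 0) (P.cons (P.lf 6441467 0 0) (P.cons (P.lf 102524 0 0) (P.lf 0 34174 0)))) (P.cons (P.cons (P.lf 0 6822358 0) (P.cons (P.lf 726647 0 0) (P.cons (P.lf 11564 0 0) (P.lf 0 3854 0)))) (P.cons (P.cons (P.lf 169297 0 0) (P.cons (P.lf 28044 0 0) (P.cons (P.lf 445 0 0) P.nil))) (P.cons (P.cons (P.lf 33387 0 0) (P.cons (P.lf 0 1103 0) P.nil)) (P.cons (P.cons (P.lf 691 0 0) P.nil) P.nil)))))) 636)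
 EL.nil))
noncomputable def S125_140_438_512_11 : EL := (EL.cons 3 (TM.mk (P.cons (P.cons (P.lf 0 125763500 0) (P.cons (P.lf 0 21758243 0) (P.cons (P.lf 0 1287404 0) (P.cons (P.lf 85477 0 0) (P.cons (P.lf 9746 0 0) (P.cons (P.lf 157 0 0) P.nil)))))) (P.cons (P.cons (P.lf 82674611 0 0) (P.cons (P.lf 2475374 0 0) (P.cons (P.lf 0 365126 0) (P.cons (P.lf 0 26009 0) (P.cons (P.lf 4188 0 0) P.nil))))) (P.cons (P.cons (P.lf 0 13642286 0) (P.cons (P.lf 1264409 0 0) (P.cons (P.lf 0 46519 0) (P.cons (P.lf 0 8829 0) P.nil)))) (P.cons (P.cons (P.lf 0 324506 0) (P.cons (P.lf 66229 0 0) (P.cons (P.lf 0 3161 0) P.nil))) (P.cons (P.cons (P.lf 103900 0 0) (P.cons (P.lf 0 8598 0) P.nil)) (P.cons (P.cons (P.lf 3342 0 0) P.nil) P.nil)))))) 6117)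
 (EL.cons 7 (TM.mk (P.cons (P.cons (P.lf 0 49294166 0) (P.cons (P.lf 0 8528344 0) (P.cons (P.lf 0 504610 0) (P.cons (P.lf 33503 0 0) (P.cons (P.lf 3820 0 0) (P.cons (P.lf 62 0 0) P.nil)))))) (P.cons (P.cons (P.lf 26955186 0 0) (P.cons (P.lf 27364 0 0) (P.cons (P.lf 0 198903 0) (P.cons (P.lf 0 6490 0) (P.cons (P.lf 2064 0 0) P.nil))))) (P.cons (P.cons (P.lf 0 2020942 0) (P.cons (P.lf 558509 0 0) (P.cons (P.lf 0 36680 0) (P.cons (P.lf 0 4413 0) P.nil)))) (P.cons (P.cons (P.lf 0 565404 0) (P.cons (P.lf 83104 0 0) (P.cons (P.lf 0 4158 0) P.nil))) (P.cons (P.cons (P.lf 8141 0 0) (P.cons (P.lf 2219 0 0) P.nil)) (P.cons (P.cons (P.lf 4026 0 0) P.nil) P.nil)))))) 2820)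
 EL.nil))
noncomputable def S125_140_438_512_12 : EL := (EL.cons 4 (TM.mk (P.cons (P.lf 3009476490 0 0) (P.cons (P.lf 0 100389258 0) (P.cons (P.lf 0 5248942 0) (P.cons (P.lf 0 60232 0) (P.cons (P.lf 2711 0 0) (P.cons (P.lf 123 0 0) P.nil)))))) 70)
 (EL.cons 8 (TM.mk (P.cons (P.lf 1179592119 0 0) (P.cons (P.lf 91065487 0 0) (P.cons (P.lf 0 272589 0) (P.cons (P.lf 0 83145 0) (P.cons (P.lf 0 2049 0) (P.cons (P.lf 13 0 0) P.nil)))))) 46)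
 EL.nil))
noncomputable def S125_140_438_512_13 : EL := (EL.cons 4 (TM.mk (P.cons (P.cons (P.lf 0 615209151 0) (P.cons (P.lf 0 53218423 0) (P.cons (P.lf 0 847039 0) (P.lf 282344 0 0)))) (P.cons (P.cons (P.lf 212474574 0 0) (P.cons (P.lf 0 10550271 0) (P.cons (P.lf 0 167920 0) (P.lf 55973 0 0)))) (P.cons (P.cons (P.lf 0 2885371 0) (P.cons (P.lf 0 410671 0) (P.cons (P.lf 0 6533 0) (P.lf 2177 0 0)))) (P.cons (P.cons (P.lf 0 1023694 0) (P.cons (P.lf 45536 0 0) (P.cons (P.lf 726 0 0) P.nil))) (P.cons (P.cons (P.lf 0 12305 0) (P.cons (P.lf 4270 0 0) P.nil)) (P.cons (P.cons (P.lf 2472 0 0) P.nil) P.nil)))))) 1297)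
 (EL.cons 8 (TM.mk (P.cons (P.cons (P.lf 0 241136912 0) (P.cons (P.lf 0 20859452 0) (P.cons (P.lf 0 332005 0) (P.lf 110667 0 0)))) (P.cons (P.cons (P.lf 56621627 0 0) (P.cons (P.lf 0 6441467 0) (P.cons (P.lf 0 102524 0) (P.lf 34174 0 0)))) (P.cons (P.cons (P.lf 6822358 0 0) (P.cons (P.lf 0 726647 0) (P.cons (P.lf 0 11564 0) (P.lf 3854 0 0)))) (P.cons (P.cons (P.lf 0 169297 0) (P.cons (P.lf 0 28044 0) (P.cons (P.lf 0 445 0) P.nil))) (P.cons (P.cons (P.lf 0 33387 0) (P.cons (P.lf 1103 0 0) P.nil)) (P.cons (P.cons (P.lf 0 691 0) P.nil) P.nil)))))) 636)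
 EL.nil))
noncomputable def S125_140_438_512_14 : EL := (EL.cons 4 (TM.mk (P.cons (P.cons (P.lf 125763500 0 0) (P.cons (P.lf 21758243 0 0) (P.cons (P.lf 1287404 0 0) (P.cons (P.lf 0 85477 0) (P.cons (P.lf 0 9746 0) (P.cons (P.lf 0 157 0) P.nil)))))) (P.cons (P.cons (P.lf 0 82674611 0) (P.cons (P.lf 0 2475374 0) (P.cons (P.lf 365126 0 0) (P.cons (P.lf 26009 0 0) (P.cons (P.lf 0 4188 0) P.nil))))) (P.cons (P.cons (P.lf 13642286 0 0) (P.cons (P.lf 0 1264409 0) (P.cons (P.lf 46519 0 0) (P.cons (P.lf 8829 0 0) P.nil)))) (P.cons (P.cons (P.lf 324506 0 0) (P.cons (P.lf 0 66229 0) (P.cons (P.lf 3161 0 0) P.nil))) (P.cons (P.cons (P.lf 0 103900 0) (P.cons (P.lf 8598 0 0) P.nil)) (P.cons (P.cons (P.lf 0 3342 0) P.nil) P.nil)))))) 6117)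
 (EL.cons 8 (TM.mk (P.cons (P.cons (P.lf 49294166 0 0) (P.cons (P.lf 8528344 0 0) (P.cons (P.lf 504610 0 0) (P.cons (P.lf 0 33503 0) (P.cons (P.lf 0 3820 0) (P.cons (P.lf 0 62 0) P.nil)))))) (P.cons (P.cons (P.lf 0 26955186 0) (P.cons (P.lf 0 27364 0) (P.cons (P.lf 198903 0 0) (P.cons (P.lf 6490 0 0) (P.cons (P.lf 0 2064 0) P.nil))))) (P.cons (P.cons (P.lf 2020942 0 0) (P.cons (P.lf 0 558509 0) (P.cons (P.lf 36680 0 0) (P.cons (P.lf 4413 0 0) P.nil)))) (P.cons (P.cons (P.lf 565404 0 0) (P.cons (P.lf 0 83104 0) (P.cons (P.lf 4158 0 0) P.nil))) (P.cons (P.cons (P.lf 0 8141 0) (P.cons (P.lf 0 2219 0) P.nil)) (P.cons (P.cons (P.lf 0 4026 0) P.nil) P.nil)))))) 2820)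
 EL.nil))
noncomputable def S125_140_438_512_15 : EL := (EL.cons 4 (TM.mk (P.cons (P.lf 0 2249317552 0) (P.cons (P.lf 150064186 0 0) (P.cons (P.lf 5343341 0 0) (P.cons (P.lf 0 171695 0) (P.cons (P.lf 0 13898 0) (P.cons (P.lf 0 206 0) P.nil)))))) 126)
 (EL.cons 8 (TM.mk (P.cons (P.lf 0 881640799 0) (P.cons (P.lf 0 38653876 0) (P.cons (P.lf 4011878 0 0) (P.cons (P.lf 191704 0 0) (P.cons (P.lf 0 328 0) (P.cons (P.lf 0 270 0) P.nil)))))) 70)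
 EL.nil))
noncomputable def S125_140_438_512_16 : EL := (EL.cons 4 (TM.mk (P.cons (P.cons (P.lf 459814439 0 0) (P.cons (P.lf 39776065 0 0) (P.cons (P.lf 633087 0 0) (P.lf 0 211027 0)))) (P.cons (P.cons (P.lf 0 174144314 0) (P.cons (P.lf 6558555 0 0) (P.cons (P.lf 104386 0 0) (P.lf 0 34795 0)))) (P.cons (P.cons (P.lf 6651984 0 0) (P.cons (P.lf 0 25471 0) (P.cons (P.lf 0 406 0) (P.lf 135 0 0)))) (P.cons (P.cons (P.lf 960960 0 0) (P.cons (P.lf 0 58821 0) (P.cons (P.lf 0 937 0) P.nil))) (P.cons (P.cons (P.lf 0 16493 0) (P.cons (P.lf 0 2714 0) P.nil)) (P.cons (P.cons (P.lf 0 3656 0) P.nil) P.nil)))))) 1434)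
 (EL.cons 8 (TM.mk (P.cons (P.cons (P.lf 180228518 0 0) (P.cons (P.lf 15590596 0 0) (P.cons (P.lf 248144 0 0) (P.lf 0 82714 0)))) (P.cons (P.cons (P.lf 0 48331671 0) (P.cons (P.lf 4294360 0 0) (P.cons (P.lf 68350 0 0) (P.lf 0 22783 0)))) (P.cons (P.cons (P.lf 0 4001765 0) (P.cons (P.lf 355314 0 0) (P.cons (P.lf 5654 0 0) (P.lf 0 1884 0)))) (P.cons (P.cons (P.lf 366833 0 0) (P.cons (P.lf 0 5865 0) (P.cons (P.lf 0 93 0) P.nil))) (P.cons (P.cons (P.lf 30636 0 0) (P.cons (P.lf 0 2553 0) P.nil)) (P.cons (P.cons (P.lf 0 464 0) P.nil) P.nil)))))) 710)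
 EL.nil))
noncomputable def S125_140_438_512_17 : EL := (EL.cons 4 (TM.mk (P.cons (P.cons (P.lf 0 93997095 0) (P.cons (P.lf 0 16262362 0) (P.cons (P.lf 0 962220 0) (P.cons (P.lf 63886 0 0) (P.cons (P.lf 7284 0 0) (P.cons (P.lf 118 0 0) P.nil)))))) (P.cons (P.cons (P.lf 64927489 0 0) (P.cons (P.lf 2392598 0 0) (P.cons (P.lf 0 240802 0) (P.cons (P.lf 0 21570 0) (P.cons (P.lf 2887 0 0) P.nil))))) (P.cons (P.cons (P.lf 0 12093697 0) (P.cons (P.lf 911682 0 0) (P.cons (P.lf 0 23987 0) (P.cons (P.lf 0 6061 0) P.nil)))) (P.cons (P.cons (P.lf 0 8303 0) (P.cons (P.lf 15075 0 0) (P.cons (P.lf 0 707 0) P.nil))) (P.cons (P.cons (P.lf 102209 0 0) (P.cons (P.lf 0 9778 0) P.nil)) (P.cons (P.cons (P.lf 585 0 0) P.nil) P.nil)))))) 5698)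
 (EL.cons 8 (TM.mk (P.cons (P.cons (P.lf 0 36843030 0) (P.cons (P.lf 0 6374183 0) (P.cons (P.lf 0 377151 0) (P.cons (P.lf 25041 0 0) (P.cons (P.lf 2855 0 0) (P.cons (P.lf 46 0 0) P.nil)))))) (P.cons (P.cons (P.lf 21375617 0 0) (P.cons (P.lf 233080 0 0) (P.cons (P.lf 0 136081 0) (P.cons (P.lf 0 5686 0) (P.cons (P.lf 1447 0 0) P.nil))))) (P.cons (P.cons (P.lf 0 2118261 0) (P.cons (P.lf 427871 0 0) (P.cons (P.lf 0 21798 0) (P.cons (P.lf 0 3180 0) P.nil)))) (P.cons (P.cons (P.lf 0 406604 0) (P.cons (P.lf 48280 0 0) (P.cons (P.lf 0 1926 0) P.nil))) (P.cons (P.cons (P.lf 22379 0 0) (P.cons (P.lf 0 1146 0) P.nil)) (P.cons (P.cons (P.lf 3590 0 0) P.nil) P.nil)))))) 2665)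
 EL.nil))
noncomputable def S125_140_438_512_18 : EL := (EL.cons 4 (TM.mk (P.cons (P.lf 1681165965 0 0) (P.cons (P.lf 0 168239564 0) (P.cons (P.lf 0 3184468 0) (P.cons (P.lf 423521 0 0) (P.cons (P.lf 16831 0 0) (P.cons (P.lf 0 367 0) P.nil)))))) 178)
 (EL.cons 8 (TM.mk (P.cons (P.lf 658948535 0 0) (P.cons (P.lf 6909337 0 0) (P.cons (P.lf 0 5111538 0) (P.cons (P.lf 0 106835 0) (P.cons (P.lf 10270 0 0) (P.cons (P.lf 557 0 0) P.nil)))))) 84)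
 EL.nil))
noncomputable def S125_140_438_512_19 : EL := (EL.cons 4 (TM.mk (P.cons (P.cons (P.lf 0 343670631 0) (P.cons (P.lf 0 29729091 0) (P.cons (P.lf 0 473176 0) (P.lf 157724 0 0)))) (P.cons (P.cons (P.lf 141621541 0 0) (P.cons (P.lf 0 3910245 0) (P.cons (P.lf 0 62235 0) (P.lf 20745 0 0)))) (P.cons (P.cons (P.lf 0 8714116 0) (P.cons (P.lf 234406 0 0) (P.cons (P.lf 3732 0 0) (P.lf 0 1244 0)))) (P.cons (P.cons (P.lf 0 772519 0) (P.cons (P.lf 52473 0 0) (P.cons (P.lf 836 0 0) P.nil))) (P.cons (P.cons (P.lf 42043 0 0) (P.cons (P.lf 600 0 0) P.nil)) (P.cons (P.cons (P.lf 3776 0 0) P.nil) P.nil)))))) 1494)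
 (EL.cons 8 (TM.mk (P.cons (P.cons (P.lf 0 134704880 0) (P.cons (P.lf 0 11652592 0) (P.cons (P.lf 0 185465 0) (P.lf 61821 0 0)))) (P.cons (P.cons (P.lf 40617097 0 0) (P.cons (P.lf 0 2820950 0) (P.cons (P.lf 0 44898 0) (P.lf 14966 0 0)))) (P.cons (P.cons (P.lf 2020907 0 0) (P.cons (P.lf 0 138175 0) (P.cons (P.lf 0 2198 0) (P.lf 733 0 0)))) (P.cons (P.cons (P.lf 0 434255 0) (P.cons (P.lf 19073 0 0) (P.cons (P.lf 303 0 0) P.nil))) (P.cons (P.cons (P.lf 0 19813 0) (P.cons (P.lf 2279 0 0) P.nil)) (P.cons (P.cons (P.lf 1556 0 0) P.nil) P.nil)))))) 687)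
 EL.nil))
noncomputable def S125_140_438_512_20 : EL := (EL.cons 4 (TM.mk (P.cons (P.cons (P.lf 70254516 0 0) (P.cons (P.lf 12154678 0 0) (P.cons (P.lf 719175 0 0) (P.cons (P.lf 0 47749 0) (P.cons (P.lf 0 5444 0) (P.cons (P.lf 0 88 0) P.nil)))))) (P.cons (P.cons (P.lf 0 50871087 0) (P.cons (P.lf 0 2193707 0) (P.cons (P.lf 155987 0 0) (P.cons (P.lf 17715 0 0) (P.cons (P.lf 0 1976 0) P.nil))))) (P.cons (P.cons (P.lf 10535204 0 0) (P.cons (P.lf 0 642948 0) (P.cons (P.lf 10670 0 0) (P.cons (P.lf 4076 0 0) P.nil)))) (P.cons (P.cons (P.lf 0 212079 0) (P.cons (P.lf 14338 0 0) (P.cons (P.lf 0 396 0) P.nil))) (P.cons (P.cons (P.lf 0 91330 0) (P.cons (P.lf 8919 0 0) P.nil)) (P.cons (P.cons (P.lf 1876 0 0) P.nil) P.nil)))))) 5083)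
 (EL.cons 8 (TM.mk (P.cons (P.cons (P.lf 27536907 0 0) (P.cons (P.lf 4764138 0 0) (P.cons (P.lf 281887 0 0) (P.cons (P.lf 0 18715 0) (P.cons (P.lf 0 2133 0) (P.cons (P.lf 0 34 0) P.nil)))))) (P.cons (P.cons (P.lf 0 16894952 0) (P.cons (P.lf 0 333127 0) (P.cons (P.lf 92306 0 0) (P.cons (P.lf 4874 0 0) (P.cons (P.lf 0 1010 0) P.nil))))) (P.cons (P.cons (P.lf 2068120 0 0) (P.cons (P.lf 0 322294 0) (P.cons (P.lf 12408 0 0) (P.cons (P.lf 2268 0 0) P.nil)))) (P.cons (P.cons (P.lf 278402 0 0) (P.cons (P.lf 0 25209 0) (P.cons (P.lf 713 0 0) P.nil))) (P.cons (P.cons (P.lf 0 29280 0) (P.cons (P.lf 2626 0 0) P.nil)) (P.cons (P.cons (P.lf 0 2700 0) P.nil) P.nil)))))) 2322)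
 EL.nil))
noncomputable def S125_140_438_512_21 : EL := (EL.cons 4 (TM.mk (P.cons (P.cons (P.lf 0 2486406102 0) (P.cons (P.lf 159655269 0 0) (P.cons (P.lf 2541117 0 0) (P.lf 0 847032 0)))) (P.cons (P.cons (P.lf 0 187231161 0) (P.cons (P.lf 31650813 0 0) (P.cons (P.lf 503760 0 0) (P.lf 0 167919 0)))) (P.cons (P.cons (P.lf 24686142 0 0) (P.cons (P.lf 1232013 0 0) (P.cons (P.lf 19599 0 0) (P.lf 0 6531 0)))) (P.cons (P.cons (P.lf 2556000 0 0) (P.cons (P.lf 0 136608 0) (P.cons (P.lf 0 2178 0) P.nil))) (P.cons (P.cons (P.lf 0 4779 0) (P.cons (P.lf 0 12810 0) P.nil)) (P.cons (P.cons (P.lf 0 8034 0) P.nil) P.nil)))))) 4242)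
 (EL.cons 8 (TM.mk (P.cons (P.cons (P.lf 2255478153 0 0) (P.cons (P.lf 0 144827109 0) (P.cons (P.lf 0 2305116 0) (P.lf 768375 0 0)))) (P.cons (P.cons (P.lf 0 79520523 0) (P.cons (P.lf 0 12699345 0) (P.cons (P.lf 0 202128 0) (P.lf 67377 0 0)))) (P.cons (P.cons (P.lf 0 25332522 0) (P.cons (P.lf 1039671 0 0) (P.cons (P.lf 16545 0 0) (P.lf 0 5514 0)))) (P.cons (P.cons (P.lf 183309 0 0) (P.cons (P.lf 120768 0 0) (P.cons (P.lf 1917 0 0) P.nil))) (P.cons (P.cons (P.lf 97656 0 0) (P.cons (P.lf 0 345 0) P.nil)) (P.cons (P.cons (P.lf 2436 0 0) P.nil) P.nil)))))) 2481)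
 (EL.cons 11 (TM.mk (P.cons (P.cons (P.lf 954183018 0 0) (P.cons (P.lf 35370261 0 0) (P.cons (P.lf 0 17526090 0) (P.cons (P.lf 0 159036 0) (P.lf 39759 0 0))))) (P.cons (P.cons (P.lf 147327435 0 0) (P.cons (P.lf 5461227 0 0) (P.cons (P.lf 0 2706057 0) (P.cons (P.lf 0 24555 0) (P.lf 6138 0 0))))) (P.cons (P.cons (P.lf 5245899 0 0) (P.cons (P.lf 194457 0 0) (P.cons (P.lf 0 96354 0) (P.cons (P.lf 0 873 0) P.nil)))) (P.cons (P.cons (P.lf 0 168558 0) (P.cons (P.lf 0 6246 0) (P.cons (P.lf 3096 0 0) P.nil))) (P.cons (P.cons (P.lf 0 13647 0) (P.cons (P.lf 0 504 0) P.nil)) (P.cons (P.cons (P.lf 0 201 0) P.nil) P.nil)))))) 729)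
 EL.nil)))
noncomputable def S125_140_438_512_22 : EL := (EL.cons 4 (TM.mk (P.cons (P.cons (P.lf 508281021 0 0) (P.cons (P.lf 11331282 0 0) (P.cons (P.lf 0 2642928 0) (P.cons (P.lf 0 149988 0) (P.cons (P.lf 29241 0 0) (P.cons (P.lf 474 0 0) P.nil)))))) (P.cons (P.cons (P.lf 0 120315210 0) (P.cons (P.lf 17207232 0 0) (P.cons (P.lf 0 939702 0) (P.cons (P.lf 0 129921 0) (P.cons (P.lf 12567 0 0) P.nil))))) (P.cons (P.cons (P.lf 0 19008357 0) (P.cons (P.lf 2982564 0 0) (P.cons (P.lf 0 152466 0) (P.cons (P.lf 0 22188 0) P.nil)))) (P.cons (P.cons (P.lf 1411908 0 0) (P.cons (P.lf 16170 0 0) (P.cons (P.lf 0 12393 0) P.nil))) (P.cons (P.cons (P.lf 242700 0 0) (P.cons (P.lf 0 32154 0) P.nil)) (P.cons (P.cons (P.lf 0 552 0) P.nil) P.nil)))))) 13347)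
 (EL.cons 8 (TM.mk (P.cons (P.cons (P.lf 0 461073813 0) (P.cons (P.lf 0 10278873 0) (P.cons (P.lf 2397465 0 0) (P.cons (P.lf 136056 0 0) (P.cons (P.lf 0 26526 0) (P.cons (P.lf 0 432 0) P.nil)))))) (P.cons (P.cons (P.lf 160116438 0 0) (P.cons (P.lf 0 14472669 0) (P.cons (P.lf 587367 0 0) (P.cons (P.lf 102813 0 0) (P.cons (P.lf 0 8469 0) P.nil))))) (P.cons (P.cons (P.lf 1938753 0 0) (P.cons (P.lf 0 1052016 0) (P.cons (P.lf 60900 0 0) (P.cons (P.lf 8049 0 0) P.nil)))) (P.cons (P.cons (P.lf 0 2182260 0) (P.cons (P.lf 180156 0 0) (P.cons (P.lf 696 0 0) P.nil))) (P.cons (P.cons (P.lf 0 30699 0) (P.cons (P.lf 19491 0 0) P.nil)) (P.cons (P.cons (P.lf 12099 0 0) P.nil) P.nil)))))) 7764)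
 (EL.cons 11 (TM.mk (P.cons (P.cons (P.lf 0 195057885 0) (P.cons (P.lf 0 24103932 0) (P.cons (P.lf 2688714 0 0) (P.cons (P.lf 421998 0 0) (P.cons (P.lf 2934 0 0) (P.cons (P.lf 0 2301 0) P.nil)))))) (P.cons (P.cons (P.lf 30743130 0 0) (P.cons (P.lf 0 5373597 0) (P.cons (P.lf 0 909780 0) (P.cons (P.lf 145218 0 0) (P.cons (P.lf 5550 0 0) P.nil))))) (P.cons (P.cons (P.lf 9099678 0 0) (P.cons (P.lf 0 648837 0) (P.cons (P.lf 0 219390 0) (P.cons (P.lf 21246 0 0) P.nil)))) (P.cons (P.cons (P.lf 292263 0 0) (P.cons (P.lf 0 54834 0) (P.cons (P.lf 0 8844 0) P.nil))) (P.cons (P.cons (P.lf 0 41745 0) (P.cons (P.lf 0 1872 0) P.nil)) (P.cons (P.cons (P.lf 0 3081 0) P.nil) P.nil)))))) 6426)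
 EL.nil)))
noncomputable def S125_140_438_512_23 : EL := (EL.cons 4 (TM.mk (P.cons (P.cons (P.lf 1858368690 0 0) (P.cons (P.lf 0 119328195 0) (P.cons (P.lf 0 1899258 0) (P.lf 633081 0 0)))) (P.cons (P.cons (P.lf 77947803 0 0) (P.cons (P.lf 0 19675665 0) (P.cons (P.lf 0 313161 0) (P.lf 104385 0 0)))) (P.cons (P.cons (P.lf 0 26359995 0) (P.cons (P.lf 76419 0 0) (P.cons (P.lf 1221 0 0) (P.lf 0 408 0)))) (P.cons (P.cons (P.lf 0 1576176 0) (P.cons (P.lf 176466 0 0) (P.cons (P.lf 2811 0 0) P.nil))) (P.cons (P.cons (P.lf 98349 0 0) (P.cons (P.lf 8139 0 0) P.nil)) (P.cons (P.cons (P.lf 9789 0 0) P.nil) P.nil)))))) 4725)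
 (EL.cons 8 (TM.mk (P.cons (P.cons (P.lf 0 1685770470 0) (P.cons (P.lf 108245457 0 0) (P.cons (P.lf 1722870 0 0) (P.lf 0 574290 0)))) (P.cons (P.cons (P.lf 115668009 0 0) (P.cons (P.lf 5880816 0 0) (P.cons (P.lf 93600 0 0) (P.lf 0 31200 0)))) (P.cons (P.cons (P.lf 19891434 0 0) (P.cons (P.lf 0 1282476 0) (P.cons (P.lf 0 20409 0) (P.lf 6801 0 0)))) (P.cons (P.cons (P.lf 0 838518 0) (P.cons (P.lf 0 83061 0) (P.cons (P.lf 0 1317 0) P.nil))) (P.cons (P.cons (P.lf 0 104148 0) (P.cons (P.lf 4530 0 0) P.nil)) (P.cons (P.cons (P.lf 456 0 0) P.nil) P.nil)))))) 2751)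
 (EL.cons 11 (TM.mk (P.cons (P.cons (P.lf 0 713167428 0) (P.cons (P.lf 0 26436141 0) (P.cons (P.lf 13099200 0 0) (P.cons (P.lf 118863 0 0) (P.lf 0 29715 0))))) (P.cons (P.cons (P.lf 0 86324592 0) (P.cons (P.lf 0 3199932 0) (P.cons (P.lf 1585578 0 0) (P.cons (P.lf 14385 0 0) (P.lf 0 3594 0))))) (P.cons (P.cons (P.lf 996174 0 0) (P.cons (P.lf 36927 0 0) (P.cons (P.lf 0 18297 0) (P.cons (P.lf 0 165 0) P.nil)))) (P.cons (P.cons (P.lf 463098 0 0) (P.cons (P.lf 17163 0 0) (P.cons (P.lf 0 8505 0) P.nil))) (P.cons (P.cons (P.lf 14397 0 0) (P.cons (P.lf 531 0 0) P.nil)) (P.cons (P.cons (P.lf 0 459 0) P.nil) P.nil)))))) 1242)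
 EL.nil)))
noncomputable def S125_140_438_512_24 : EL := (EL.cons 4 (TM.mk (P.cons (P.cons (P.lf 0 379895115 0) (P.cons (P.lf 0 8469129 0) (P.cons (P.lf 1975356 0 0) (P.cons (P.lf 112101 0 0) (P.cons (P.lf 0 21855 0) (P.cons (P.lf 0 354 0) P.nil)))))) (P.cons (P.cons (P.lf 102597414 0 0) (P.cons (P.lf 0 12578373 0) (P.cons (P.lf 636450 0 0) (P.cons (P.lf 93366 0 0) (P.cons (P.lf 0 8664 0) P.nil))))) (P.cons (P.cons (P.lf 11869965 0 0) (P.cons (P.lf 0 1785420 0) (P.cons (P.lf 87081 0 0) (P.cons (P.lf 13146 0 0) P.nil)))) (P.cons (P.cons (P.lf 0 1678428 0) (P.cons (P.lf 84873 0 0) (P.cons (P.lf 4197 0 0) P.nil))) (P.cons (P.cons (P.lf 0 173115 0) (P.cons (P.lf 28575 0 0) P.nil)) (P.cons (P.cons (P.lf 8085 0 0) P.nil) P.nil)))))) 10635)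
 (EL.cons 8 (TM.mk (P.cons (P.cons (P.lf 344611902 0 0) (P.cons (P.lf 7682547 0 0) (P.cons (P.lf 0 1791894 0) (P.cons (P.lf 0 101688 0) (P.cons (P.lf 19824 0 0) (P.cons (P.lf 321 0 0) P.nil)))))) (P.cons (P.cons (P.lf 0 131168343 0) (P.cons (P.lf 10560768 0 0) (P.cons (P.lf 0 379230 0) (P.cons (P.lf 0 73449 0) (P.cons (P.lf 5667 0 0) P.nil))))) (P.cons (P.cons (P.lf 1941915 0 0) (P.cons (P.lf 412056 0 0) (P.cons (P.lf 0 27747 0) (P.cons (P.lf 0 3276 0) P.nil)))) (P.cons (P.cons (P.lf 1881213 0 0) (P.cons (P.lf 0 179901 0) (P.cons (P.lf 1797 0 0) P.nil))) (P.cons (P.cons (P.lf 0 26229 0) (P.cons (P.lf 0 11655 0) P.nil)) (P.cons (P.cons (P.lf 0 12717 0) P.nil) P.nil)))))) 6294)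
 (EL.cons 11 (TM.mk (P.cons (P.cons (P.lf 145788519 0 0) (P.cons (P.lf 18015558 0 0) (P.cons (P.lf 0 2009577 0) (P.cons (P.lf 0 315405 0) (P.cons (P.lf 0 2193 0) (P.cons (P.lf 1719 0 0) P.nil)))))) (P.cons (P.cons (P.lf 0 27840942 0) (P.cons (P.lf 3415329 0 0) (P.cons (P.lf 747015 0 0) (P.cons (P.lf 0 98016 0) (P.cons (P.lf 0 4074 0) P.nil))))) (P.cons (P.cons (P.lf 0 6288993 0) (P.cons (P.lf 319554 0 0) (P.cons (P.lf 144795 0 0) (P.cons (P.lf 0 11706 0) P.nil)))) (P.cons (P.cons (P.lf 45588 0 0) (P.cons (P.lf 17442 0 0) (P.cons (P.lf 0 3 0) P.nil))) (P.cons (P.cons (P.lf 50940 0 0) (P.cons (P.lf 0 876 0) P.nil)) (P.cons (P.cons (P.lf 1764 0 0) P.nil) P.nil)))))) 5049)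
 EL.nil)))
noncomputable def S125_140_438_512_25 : EL := (EL.cons 4 (TM.mk (P.cons (P.cons (P.lf 0 1388966262 0) (P.cons (P.lf 89187273 0 0) (P.cons (P.lf 1419528 0 0) (P.lf 0 473172 0)))) (P.cons (P.cons (P.lf 0 11926347 0) (P.cons (P.lf 11730738 0 0) (P.cons (P.lf 186705 0 0) (P.lf 0 62235 0)))) (P.cons (P.cons (P.lf 24067704 0 0) (P.cons (P.lf 0 703224 0) (P.cons (P.lf 0 11196 0) (P.lf 3732 0 0)))) (P.cons (P.cons (P.lf 650256 0 0) (P.cons (P.lf 0 157422 0) (P.cons (P.lf 0 2505 0) P.nil))) (P.cons (P.cons (P.lf 0 147252 0) (P.cons (P.lf 0 1797 0) P.nil)) (P.cons (P.cons (P.lf 0 7422 0) P.nil) P.nil)))))) 4731)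
 (EL.cons 8 (TM.mk (P.cons (P.cons (P.lf 1259964354 0 0) (P.cons (P.lf 0 80903907 0) (P.cons (P.lf 0 1287693 0) (P.lf 429231 0 0)))) (P.cons (P.cons (P.lf 0 128481138 0) (P.cons (P.lf 0 1696620 0) (P.cons (P.lf 0 27003 0) (P.lf 9000 0 0)))) (P.cons (P.cons (P.lf 0 14180811 0) (P.cons (P.lf 1246263 0 0) (P.cons (P.lf 19833 0 0) (P.lf 0 6609 0)))) (P.cons (P.cons (P.lf 1248216 0 0) (P.cons (P.lf 39393 0 0) (P.cons (P.lf 624 0 0) P.nil))) (P.cons (P.cons (P.lf 85731 0 0) (P.cons (P.lf 0 7113 0) P.nil)) (P.cons (P.cons (P.lf 0 3759 0) P.nil) P.nil)))))) 2676)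
 (EL.cons 11 (TM.mk (P.cons (P.cons (P.lf 533029587 0 0) (P.cons (P.lf 19758678 0 0) (P.cons (P.lf 0 9790494 0) (P.cons (P.lf 0 88839 0) (P.lf 22209 0 0))))) (P.cons (P.cons (P.lf 46739349 0 0) (P.cons (P.lf 1732563 0 0) (P.cons (P.lf 0 858489 0) (P.cons (P.lf 0 7788 0) (P.lf 1947 0 0))))) (P.cons (P.cons (P.lf 0 3826470 0) (P.cons (P.lf 0 141840 0) (P.cons (P.lf 70281 0 0) (P.cons (P.lf 636 0 0) P.nil)))) (P.cons (P.cons (P.lf 0 444489 0) (P.cons (P.lf 0 16473 0) (P.cons (P.lf 8163 0 0) P.nil))) (P.cons (P.cons (P.lf 1272 0 0) (P.cons (P.lf 48 0 0) P.nil)) (P.cons (P.cons (P.lf 1401 0 0) P.nil) P.nil)))))) 1455)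
 EL.nil)))
noncomputable def S125_140_438_512_26 : EL := (EL.cons 4 (TM.mk (P.cons (P.cons (P.lf 283938006 0 0) (P.cons (P.lf 6329925 0 0) (P.cons (P.lf 0 1476402 0) (P.cons (P.lf 0 83787 0) (P.cons (P.lf 16335 0 0) (P.cons (P.lf 264 0 0) P.nil)))))) (P.cons (P.cons (P.lf 0 86154015 0) (P.cons (P.lf 9190068 0 0) (P.cons (P.lf 0 426441 0) (P.cons (P.lf 0 66987 0) (P.cons (P.lf 5931 0 0) P.nil))))) (P.cons (P.cons (P.lf 0 6809022 0) (P.cons (P.lf 1009800 0 0) (P.cons (P.lf 0 46641 0) (P.cons (P.lf 0 7353 0) P.nil)))) (P.cons (P.cons (P.lf 1678479 0 0) (P.cons (P.lf 0 124473 0) (P.cons (P.lf 0 105 0) P.nil))) (P.cons (P.cons (P.lf 104805 0 0) (P.cons (P.lf 0 21750 0) P.nil)) (P.cons (P.cons (P.lf 0 12426 0) P.nil) P.nil)))))) 8916)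
 (EL.cons 8 (TM.mk (P.cons (P.cons (P.lf 0 257566923 0) (P.cons (P.lf 0 5742024 0) (P.cons (P.lf 1339281 0 0) (P.cons (P.lf 76002 0 0) (P.cons (P.lf 0 14817 0) (P.cons (P.lf 0 240 0) P.nil)))))) (P.cons (P.cons (P.lf 106628580 0 0) (P.cons (P.lf 0 7701699 0) (P.cons (P.lf 238767 0 0) (P.cons (P.lf 52362 0 0) (P.cons (P.lf 0 3741 0) P.nil))))) (P.cons (P.cons (P.lf 0 4272459 0) (P.cons (P.lf 0 34662 0) (P.cons (P.lf 8946 0 0) (P.cons (P.lf 486 0 0) P.nil)))) (P.cons (P.cons (P.lf 0 1523457 0) (P.cons (P.lf 158613 0 0) (P.cons (P.lf 0 2556 0) P.nil))) (P.cons (P.cons (P.lf 66843 0 0) (P.cons (P.lf 4917 0 0) P.nil)) (P.cons (P.cons (P.lf 11409 0 0) P.nil) P.nil)))))) 5472)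
 (EL.cons 11 (TM.mk (P.cons (P.cons (P.lf 0 108964026 0) (P.cons (P.lf 0 13465035 0) (P.cons (P.lf 1501980 0 0) (P.cons (P.lf 235737 0 0) (P.cons (P.lf 1638 0 0) (P.cons (P.lf 0 1284 0) P.nil)))))) (P.cons (P.cons (P.lf 24443433 0 0) (P.cons (P.lf 0 2103492 0) (P.cons (P.lf 0 608430 0) (P.cons (P.lf 65394 0 0) (P.cons (P.lf 2991 0 0) P.nil))))) (P.cons (P.cons (P.lf 4196385 0 0) (P.cons (P.lf 0 130203 0) (P.cons (P.lf 0 92217 0) (P.cons (P.lf 5895 0 0) P.nil)))) (P.cons (P.cons (P.lf 0 224982 0) (P.cons (P.lf 0 348 0) (P.cons (P.lf 4554 0 0) P.nil))) (P.cons (P.cons (P.lf 0 45648 0) (P.cons (P.lf 1545 0 0) P.nil)) (P.cons (P.cons (P.lf 0 69 0) P.nil) P.nil)))))) 4203)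
 EL.nil)))
noncomputable def S125_140_438_512_27 : EL := (EL.cons 13 (TM.mk (P.lf 0 4294967296 0) 0)
 EL.nil)
noncomputable def S125_140_438_512_28 : EL := (EL.cons 13 (TM.mk (P.cons (P.cons (P.lf 877994295 0 0) (P.cons (P.lf 75950548 0 0) (P.cons (P.lf 1208852 0 0) (P.lf 0 402948 0)))) (P.cons (P.cons (P.lf 0 273944706 0) (P.cons (P.lf 17590332 0 0) (P.cons (P.lf 279972 0 0) (P.lf 0 93324 0)))) (P.cons (P.cons (P.lf 0 3488974 0) (P.cons (P.lf 1305332 0 0) (P.cons (P.lf 20772 0 0) (P.lf 0 6924 0)))) (P.cons (P.cons (P.lf 884355 0 0) (P.cons (P.lf 10756 0 0) (P.cons (P.lf 168 0 0) P.nil))) (P.cons (P.cons (P.lf 34703 0 0) (P.cons (P.lf 0 3176 0) P.nil)) (P.cons (P.cons (P.lf 0 688 0) P.nil) P.nil)))))) 977)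
 EL.nil)
noncomputable def S125_140_438_512_29 : EL := (EL.cons 13 (TM.mk (P.cons (P.cons (P.lf 0 179483085 0) (P.cons (P.lf 0 31052226 0) (P.cons (P.lf 0 1837316 0) (P.cons (P.lf 121990 0 0) (P.cons (P.lf 13910 0 0) (P.cons (P.lf 226 0 0) P.nil)))))) (P.cons (P.cons (P.lf 112001732 0 0) (P.cons (P.lf 2496894 0 0) (P.cons (P.lf 0 582379 0) (P.cons (P.lf 0 33050 0) (P.cons (P.lf 6443 0 0) P.nil))))) (P.cons (P.cons (P.lf 0 16046479 0) (P.cons (P.lf 1833631 0 0) (P.cons (P.lf 0 89022 0) (P.cons (P.lf 0 13491 0) P.nil)))) (P.cons (P.cons (P.lf 0 806639 0) (P.cons (P.lf 159419 0 0) (P.cons (P.lf 0 8534 0) P.nil))) (P.cons (P.cons (P.lf 95790 0 0) (P.cons (P.lf 0 3679 0) P.nil)) (P.cons (P.cons (P.lf 6144 0 0) P.nil) P.nil)))))) 6303)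
 EL.nil)
noncomputable def S125_140_438_512_30 : EL := (EL.cons 13 (TM.mk (P.cons (P.lf 3210108256 0 0) (P.cons (P.lf 0 107081876 0) (P.cons (P.lf 0 5598872 0) (P.cons (P.lf 0 64248 0) (P.cons (P.lf 2892 0 0) (P.cons (P.lf 132 0 0) P.nil)))))) 68)
 EL.nil)
noncomputable def S125_140_438_512_31 : EL := (EL.cons 13 (TM.mk (P.cons (P.cons (P.lf 0 656223095 0) (P.cons (P.lf 0 56766318 0) (P.cons (P.lf 0 903509 0) (P.lf 301167 0 0)))) (P.cons (P.cons (P.lf 226639546 0 0) (P.cons (P.lf 0 11253623 0) (P.cons (P.lf 0 179115 0) (P.lf 59705 0 0)))) (P.cons (P.cons (P.lf 0 3077730 0) (P.cons (P.lf 0 438050 0) (P.cons (P.lf 0 6969 0) (P.lf 2323 0 0)))) (P.cons (P.cons (P.lf 0 1091941 0) (P.cons (P.lf 48572 0 0) (P.cons (P.lf 775 0 0) P.nil))) (P.cons (P.cons (P.lf 0 13126 0) (P.cons (P.lf 4555 0 0) P.nil)) (P.cons (P.cons (P.lf 2637 0 0) P.nil) P.nil)))))) 1364)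
 EL.nil)
noncomputable def S125_140_438_512_32 : EL := (EL.cons 13 (TM.mk (P.cons (P.cons (P.lf 134147734 0 0) (P.cons (P.lf 23208793 0 0) (P.cons (P.lf 1373231 0 0) (P.cons (P.lf 0 91176 0) (P.cons (P.lf 0 10396 0) (P.cons (P.lf 0 168 0) P.nil)))))) (P.cons (P.cons (P.lf 0 88186252 0) (P.cons (P.lf 0 2640399 0) (P.cons (P.lf 389468 0 0) (P.cons (P.lf 27743 0 0) (P.cons (P.lf 0 4468 0) P.nil))))) (P.cons (P.cons (P.lf 14551772 0 0) (P.cons (P.lf 0 1348703 0) (P.cons (P.lf 49621 0 0) (P.cons (P.lf 9418 0 0) P.nil)))) (P.cons (P.cons (P.lf 346140 0 0) (P.cons (P.lf 0 70645 0) (P.cons (P.lf 3372 0 0) P.nil))) (P.cons (P.cons (P.lf 0 110827 0) (P.cons (P.lf 9172 0 0) P.nil)) (P.cons (P.cons (P.lf 0 3565 0) P.nil) P.nil)))))) 6502)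
 EL.nil)
noncomputable def S125_140_438_512_33 : EL := (EL.cons 14 (TM.mk (P.lf 8589934592 0 0) 0)
 EL.nil)
noncomputable def S125_140_438_512_34 : EL := (EL.cons 14 (TM.mk (P.cons (P.cons (P.lf 0 1755988590 0) (P.cons (P.lf 0 151901096 0) (P.cons (P.lf 0 2417704 0) (P.lf 805896 0 0)))) (P.cons (P.cons (P.lf 547889412 0 0) (P.cons (P.lf 0 35180664 0) (P.cons (P.lf 0 559944 0) (P.lf 186648 0 0)))) (P.cons (P.cons (P.lf 6977948 0 0) (P.cons (P.lf 0 2610664 0) (P.cons (P.lf 0 41544 0) (P.lf 13848 0 0)))) (P.cons (P.cons (P.lf 0 1768710 0) (P.cons (P.lf 0 21512 0) (P.cons (P.lf 0 336 0) P.nil))) (P.cons (P.cons (P.lf 0 69406 0) (P.cons (P.lf 6352 0 0) P.nil)) (P.cons (P.cons (P.lf 1376 0 0) P.nil) P.nil)))))) 1954)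
 EL.nil)
noncomputable def S125_140_438_512_35 : EL := (EL.cons 14 (TM.mk (P.cons (P.cons (P.lf 358966170 0 0) (P.cons (P.lf 62104452 0 0) (P.cons (P.lf 3674632 0 0) (P.cons (P.lf 0 243980 0) (P.cons (P.lf 0 27820 0) (P.cons (P.lf 0 452 0) P.nil)))))) (P.cons (P.cons (P.lf 0 224003464 0) (P.cons (P.lf 0 4993788 0) (P.cons (P.lf 1164758 0 0) (P.cons (P.lf 66100 0 0) (P.cons (P.lf 0 12886 0) P.nil))))) (P.cons (P.cons (P.lf 32092958 0 0) (P.cons (P.lf 0 3667262 0) (P.cons (P.lf 178044 0 0) (P.cons (P.lf 26982 0 0) P.nil)))) (P.cons (P.cons (P.lf 1613278 0 0) (P.cons (P.lf 0 318838 0) (P.cons (P.lf 17068 0 0) P.nil))) (P.cons (P.cons (P.lf 0 191580 0) (P.cons (P.lf 7358 0 0) P.nil)) (P.cons (P.cons (P.lf 0 12288 0) P.nil) P.nil)))))) 12606)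
 EL.nil)
noncomputable def S125_140_438_512_36 : EL := (EL.cons 14 (TM.mk (P.cons (P.lf 0 6420216512 0) (P.cons (P.lf 214163752 0 0) (P.cons (P.lf 11197744 0 0) (P.cons (P.lf 128496 0 0) (P.cons (P.lf 0 5784 0) (P.cons (P.lf 0 264 0) P.nil)))))) 136)
 EL.nil)
noncomputable def S125_140_438_512_37 : EL := (EL.cons 14 (TM.mk (P.cons (P.cons (P.lf 1312446190 0 0) (P.cons (P.lf 113532636 0 0) (P.cons (P.lf 1807018 0 0) (P.lf 0 602334 0)))) (P.cons (P.cons (P.lf 0 453279092 0) (P.cons (P.lf 22507246 0 0) (P.cons (P.lf 358230 0 0) (P.lf 0 119410 0)))) (P.cons (P.cons (P.lf 6155460 0 0) (P.cons (P.lf 876100 0 0) (P.cons (P.lf 13938 0 0) (P.lf 0 4646 0)))) (P.cons (P.cons (P.lf 2183882 0 0) (P.cons (P.lf 0 97144 0) (P.cons (P.lf 0 1550 0) P.nil))) (P.cons (P.cons (P.lf 26252 0 0) (P.cons (P.lf 0 9110 0) P.nil)) (P.cons (P.cons (P.lf 0 5274 0) P.nil) P.nil)))))) 2728)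
 EL.nil)
noncomputable def S125_140_438_512_38 : EL := (EL.cons 14 (TM.mk (P.cons (P.cons (P.lf 0 268295468 0) (P.cons (P.lf 0 46417586 0) (P.cons (P.lf 0 2746462 0) (P.cons (P.lf 182352 0 0) (P.cons (P.lf 20792 0 0) (P.cons (P.lf 336 0 0) P.nil)))))) (P.cons (P.cons (P.lf 176372504 0 0) (P.cons (P.lf 5280798 0 0) (P.cons (P.lf 0 778936 0) (P.cons (P.lf 0 55486 0) (P.cons (P.lf 8936 0 0) P.nil))))) (P.cons (P.cons (P.lf 0 29103544 0) (P.cons (P.lf 2697406 0 0) (P.cons (P.lf 0 99242 0) (P.cons (P.lf 0 18836 0) P.nil)))) (P.cons (P.cons (P.lf 0 692280 0) (P.cons (P.lf 141290 0 0) (P.cons (P.lf 0 6744 0) P.nil))) (P.cons (P.cons (P.lf 221654 0 0) (P.cons (P.lf 0 18344 0) P.nil)) (P.cons (P.cons (P.lf 7130 0 0) P.nil) P.nil)))))) 13004)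
 EL.nil)
noncomputable def S125_140_438_512_39 : EL := (EL.cons 14 (TM.mk (P.cons (P.lf 4798544112 0 0) (P.cons (P.lf 0 320136932 0) (P.cons (P.lf 0 11399128 0) (P.cons (P.lf 366284 0 0) (P.cons (P.lf 29650 0 0) (P.cons (P.lf 440 0 0) P.nil)))))) 254)
 EL.nil)
noncomputable def S125_140_438_512_40 : EL := (EL.cons 14 (TM.mk (P.cons (P.cons (P.lf 0 980937470 0) (P.cons (P.lf 0 84855606 0) (P.cons (P.lf 0 1350586 0) (P.lf 450192 0 0)))) (P.cons (P.cons (P.lf 371507870 0 0) (P.cons (P.lf 0 13991586 0) (P.cons (P.lf 0 222692 0) (P.lf 74230 0 0)))) (P.cons (P.cons (P.lf 0 14190900 0) (P.cons (P.lf 54340 0 0) (P.cons (P.lf 868 0 0) (P.lf 0 288 0)))) (P.cons (P.cons (P.lf 0 2050048 0) (P.cons (P.lf 125486 0 0) (P.cons (P.lf 2000 0 0) P.nil))) (P.cons (P.cons (P.lf 35186 0 0) (P.cons (P.lf 5790 0 0) P.nil)) (P.cons (P.cons (P.lf 7800 0 0) P.nil) P.nil)))))) 3020)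
 EL.nil)
noncomputable def S125_140_438_512_41 : EL := (EL.cons 14 (TM.mk (P.cons (P.cons (P.lf 200527138 0 0) (P.cons (P.lf 34693040 0 0) (P.cons (P.lf 2052736 0 0) (P.cons (P.lf 0 136292 0) (P.cons (P.lf 0 15540 0) (P.cons (P.lf 0 252 0) P.nil)))))) (P.cons (P.cons (P.lf 0 138511978 0) (P.cons (P.lf 0 5104210 0) (P.cons (P.lf 513712 0 0) (P.cons (P.lf 46016 0 0) (P.cons (P.lf 0 6160 0) P.nil))))) (P.cons (P.cons (P.lf 25799888 0 0) (P.cons (P.lf 0 1944922 0) (P.cons (P.lf 51174 0 0) (P.cons (P.lf 12932 0 0) P.nil)))) (P.cons (P.cons (P.lf 17714 0 0) (P.cons (P.lf 0 32160 0) (P.cons (P.lf 1510 0 0) P.nil))) (P.cons (P.cons (P.lf 0 218046 0) (P.cons (P.lf 20860 0 0) P.nil)) (P.cons (P.cons (P.lf 0 1250 0) P.nil) P.nil)))))) 12110)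
 EL.nil)
noncomputable def S125_140_438_512_42 : EL := (EL.cons 14 (TM.mk (P.cons (P.lf 0 3586487394 0) (P.cons (P.lf 358911070 0 0) (P.cons (P.lf 6793532 0 0) (P.cons (P.lf 0 903512 0) (P.cons (P.lf 0 35908 0) (P.cons (P.lf 784 0 0) P.nil)))))) 366)
 EL.nil)
noncomputable def S125_140_438_512_43 : EL := (EL.cons 14 (TM.mk (P.cons (P.cons (P.lf 733164014 0 0) (P.cons (P.lf 63422062 0 0) (P.cons (P.lf 1009444 0 0) (P.lf 0 336478 0)))) (P.cons (P.cons (P.lf 0 302125956 0) (P.cons (P.lf 8341858 0 0) (P.cons (P.lf 132770 0 0) (P.lf 0 44256 0)))) (P.cons (P.cons (P.lf 18590116 0 0) (P.cons (P.lf 0 500068 0) (P.cons (P.lf 0 7962 0) (P.lf 2654 0 0)))) (P.cons (P.cons (P.lf 1648042 0 0) (P.cons (P.lf 0 111944 0) (P.cons (P.lf 0 1784 0) P.nil))) (P.cons (P.cons (P.lf 0 89692 0) (P.cons (P.lf 0 1280 0) P.nil)) (P.cons (P.cons (P.lf 0 8056 0) P.nil) P.nil)))))) 3148)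
 EL.nil)
noncomputable def S125_140_438_512_44 : EL := (EL.cons 14 (TM.mk (P.cons (P.cons (P.lf 0 149876302 0) (P.cons (P.lf 0 25929980 0) (P.cons (P.lf 0 1534240 0) (P.cons (P.lf 101866 0 0) (P.cons (P.lf 11614 0 0) (P.cons (P.lf 188 0 0) P.nil)))))) (P.cons (P.cons (P.lf 108524986 0 0) (P.cons (P.lf 4679910 0 0) (P.cons (P.lf 0 332774 0) (P.cons (P.lf 0 37792 0) (P.cons (P.lf 4216 0 0) P.nil))))) (P.cons (P.cons (P.lf 0 22475102 0) (P.cons (P.lf 1371624 0 0) (P.cons (P.lf 0 22764 0) (P.cons (P.lf 0 8696 0) P.nil)))) (P.cons (P.cons (P.lf 452436 0 0) (P.cons (P.lf 0 30588 0) (P.cons (P.lf 846 0 0) P.nil))) (P.cons (P.cons (P.lf 194838 0 0) (P.cons (P.lf 0 19028 0) P.nil)) (P.cons (P.cons (P.lf 0 4004 0) P.nil) P.nil)))))) 10798)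
 EL.nil)
noncomputable def S125_140_438_512_45 : EL := (EL.cons 14 (TM.mk (P.cons (P.cons (P.lf 0 73381292 0) (P.cons (P.lf 0 19043458 0) (P.cons (P.lf 0 1950446 0) (P.cons (P.lf 1092 0 0) (P.cons (P.lf 14792 0 0) (P.cons (P.lf 996 0 0) P.nil)))))) (P.cons (P.cons (P.lf 68687518 0 0) (P.cons (P.lf 7473060 0 0) (P.cons (P.lf 0 130122 0) (P.cons (P.lf 0 80578 0) (P.cons (P.lf 1002 0 0) P.nil))))) (P.cons (P.cons (P.lf 0 20556518 0) (P.cons (P.lf 722412 0 0) (P.cons (P.lf 111140 0 0) (P.cons (P.lf 0 10752 0) P.nil)))) (P.cons (P.cons (P.lf 1461302 0 0) (P.cons (P.lf 0 278360 0) (P.cons (P.lf 28598 0 0) P.nil))) (P.cons (P.cons (P.lf 211356 0 0) (P.cons (P.lf 0 36438 0) P.nil)) (P.cons (P.cons (P.lf 0 13136 0) P.nil) P.nil)))))) 22312)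
 EL.nil)
noncomputable def S125_140_438_512_46 : EL := (EL.cons 15 (TM.mk (P.lf 4294967296 0 0) 0)
 EL.nil)
noncomputable def S125_140_438_512_47 : EL := (EL.cons 15 (TM.mk (P.cons (P.cons (P.lf 0 877994295 0) (P.cons (P.lf 0 75950548 0) (P.cons (P.lf 0 1208852 0) (P.lf 402948 0 0)))) (P.cons (P.cons (P.lf 273944706 0 0) (P.cons (P.lf 0 17590332 0) (P.cons (P.lf 0 279972 0) (P.lf 93324 0 0)))) (P.cons (P.cons (P.lf 3488974 0 0) (P.cons (P.lf 0 1305332 0) (P.cons (P.lf 0 20772 0) (P.lf 6924 0 0)))) (P.cons (P.cons (P.lf 0 884355 0) (P.cons (P.lf 0 10756 0) (P.cons (P.lf 0 168 0) P.nil))) (P.cons (P.cons (P.lf 0 34703 0) (P.cons (P.lf 3176 0 0) P.nil)) (P.cons (P.cons (P.lf 688 0 0) P.nil) P.nil)))))) 977)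
 EL.nil)
noncomputable def S125_140_438_512_48 : EL := (EL.cons 15 (TM.mk (P.cons (P.cons (P.lf 179483085 0 0) (P.cons (P.lf 31052226 0 0) (P.cons (P.lf 1837316 0 0) (P.cons (P.lf 0 121990 0) (P.cons (P.lf 0 13910 0) (P.cons (P.lf 0 226 0) P.nil)))))) (P.cons (P.cons (P.lf 0 112001732 0) (P.cons (P.lf 0 2496894 0) (P.cons (P.lf 582379 0 0) (P.cons (P.lf 33050 0 0) (P.cons (P.lf 0 6443 0) P.nil))))) (P.cons (P.cons (P.lf 16046479 0 0) (P.cons (P.lf 0 1833631 0) (P.cons (P.lf 89022 0 0) (P.cons (P.lf 13491 0 0) P.nil)))) (P.cons (P.cons (P.lf 806639 0 0) (P.cons (P.lf 0 159419 0) (P.cons (P.lf 8534 0 0) P.nil))) (P.cons (P.cons (P.lf 0 95790 0) (P.cons (P.lf 3679 0 0) P.nil)) (P.cons (P.cons (P.lf 0 6144 0) P.nil) P.nil)))))) 6303)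
 EL.nil)
noncomputable def S125_140_438_512 : SL := (SL.cons S125_140_438_512_0 (SL.cons S125_140_438_512_1 (SL.cons S125_140_438_512_2 (SL.cons S125_140_438_512_3 (SL.cons S125_140_438_512_4 (SL.cons S125_140_438_512_5 (SL.cons S125_140_438_512_6 (SL.cons S125_140_438_512_7 (SL.cons S125_140_438_512_8 (SL.cons S125_140_438_512_9 (SL.cons S125_140_438_512_10 (SL.cons S125_140_438_512_11 (SL.cons S125_140_438_512_12 (SL.cons S125_140_438_512_13 (SL.cons S125_140_438_512_14 (SL.cons S125_140_438_512_15 (SL.cons S125_140_438_512_16 (SL.cons S125_140_438_512_17 (SL.cons S125_140_438_512_18 (SL.cons S125_140_438_512_19 (SL.cons S125_140_438_512_20 (SL.cons S125_140_438_512_21 (SL.cons S125_140_438_512_22 (SL.cons S125_140_438_512_23 (SL.cons S125_140_438_512_24 (SL.cons S125_140_438_512_25 (SL.cons S125_140_438_512_26 (SL.cons S125_140_438_512_27 (SL.cons S125_140_438_512_28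 (SL.cons S125_140_438_512_29 (SL.cons S125_140_438_512_30 (SL.cons S125_140_438_512_31 (SL.cons S125_140_438_512_32 (SL.cons S125_140_438_512_33 (SL.cons S125_140_438_512_34 (SL.cons S125_140_438_512_35 (SL.cons S125_140_438_512_36 (SL.cons S125_140_438_512_37 (SL.cons S125_140_438_512_38 (SL.cons S125_140_438_512_39 (SL.cons S125_140_438_512_40 (SL.cons S125_140_438_512_41 (SL.cons S125_140_438_512_42 (SL.cons S125_140_438_512_43 (SL.cons S125_140_438_512_44 (SL.cons S125_140_438_512_45 (SL.cons S125_140_438_512_46 (SL.cons S125_140_438_512_47 (SL.cons S125_140_438_512_48 SL.nil)))))))))))))))))))))))))))))))))))))))))))))))))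
noncomputable def S125_140_512_660_0 : EL := (EL.cons 0 (TM.mk (P.cons (P.lf 4238246453 0 0) (P.cons (P.lf 281370350 0 0) (P.cons (P.lf 10018764 0 0) (P.cons (P.lf 0 321929 0) (P.cons (P.lf 0 26059 0) (P.cons (P.lf 0 386 0) P.nil)))))) 230)
 (EL.cons 1 (TM.mk (P.cons (P.lf 0 1653076498 0) (P.cons (P.lf 0 72476017 0) (P.cons (P.lf 7522271 0 0) (P.cons (P.lf 359445 0 0) (P.cons (P.lf 0 615 0) (P.cons (P.lf 0 506 0) P.nil)))))) 138)
 (EL.cons 5 (TM.mk (P.cons (P.lf 5794512336 0 0) (P.cons (P.lf 0 100042792 0) (P.cons (P.lf 0 3562232 0) (P.cons (P.lf 114460 0 0) (P.cons (P.lf 9268 0 0) (P.cons (P.lf 138 0 0) P.nil)))))) 79)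
 (EL.cons 9 (TM.mk (P.lf 6442450944 0 0) 2)
 EL.nil))))
noncomputable def S125_140_512_660_1 : EL := (EL.cons 0 (TM.mk (P.cons (P.cons (P.lf 0 3904461921 0) (P.cons (P.lf 283376291 0 0) (P.cons (P.lf 0 18945861 0) (P.lf 0 6315278 0)))) (P.cons (P.cons (P.lf 110330560 0 0) (P.cons (P.lf 27726134 0 0) (P.cons (P.lf 0 1853696 0) (P.lf 0 617886 0)))) (P.cons (P.cons (P.lf 60483642 0 0) (P.cons (P.lf 0 5258159 0) (P.cons (P.lf 351549 0 0) (P.lf 117183 0 0)))) (P.cons (P.cons (P.lf 1629010 0 0) (P.cons (P.lf 0 880531 0) (P.cons (P.lf 58863 0 0) P.nil))) (P.cons (P.cons (P.lf 0 325958 0) (P.cons (P.lf 0 26848 0) P.nil)) (P.cons (P.cons (P.lf 0 19961 0) P.nil) P.nil)))))) 54071)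
 (EL.cons 1 (TM.mk (P.cons (P.cons (P.lf 1150261238 0 0) (P.cons (P.lf 0 54086318 0) (P.cons (P.lf 3616092 0 0) (P.lf 1205366 0 0)))) (P.cons (P.cons (P.lf 0 259351972 0) (P.cons (P.lf 27837254 0 0) (P.cons (P.lf 0 1861126 0) (P.lf 0 620367 0)))) (P.cons (P.cons (P.lf 0 14580045 0) (P.cons (P.lf 5461843 0 0) (P.cons (P.lf 0 365160 0) (P.lf 0 121713 0)))) (P.cons (P.cons (P.lf 2910479 0 0) (P.cons (P.lf 95946 0 0) (P.cons (P.lf 0 6412 0) P.nil))) (P.cons (P.cons (P.lf 162551 0 0) (P.cons (P.lf 0 30883 0) P.nil)) (P.cons (P.cons (P.lf 0 7152 0) P.nil) P.nil)))))) 23859)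
 (EL.cons 5 (TM.mk (P.cons (P.cons (P.lf 0 491684990 0) (P.cons (P.lf 0 346657588 0) (P.cons (P.lf 23176714 0 0) (P.lf 7725570 0 0)))) (P.cons (P.cons (P.lf 336766653 0 0) (P.cons (P.lf 0 66809596 0) (P.cons (P.lf 4466728 0 0) (P.lf 1488904 0 0)))) (P.cons (P.cons (P.lf 0 22231237 0) (P.cons (P.lf 0 2356660 0) (P.cons (P.lf 157566 0 0) (P.lf 52520 0 0)))) (P.cons (P.cons (P.lf 0 2137458 0) (P.cons (P.lf 278252 0 0) (P.cons (P.lf 0 18600 0) P.nil))) (P.cons (P.cons (P.lf 73093 0 0) (P.cons (P.lf 19830 0 0) P.nil)) (P.cons (P.cons (P.lf 9004 0 0) P.nil) P.nil)))))) 18702)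
 (EL.cons 9 (TM.mk (P.cons (P.cons (P.lf 0 1658768920 0) (P.cons (P.lf 0 216971970 0) (P.cons (P.lf 14506236 0 0) (P.lf 4835412 0 0)))) (P.cons (P.cons (P.lf 331760553 0 0) (P.cons (P.lf 0 50251242 0) (P.cons (P.lf 3359676 0 0) (P.lf 1119888 0 0)))) (P.cons (P.cons (P.lf 0 640537 0) (P.cons (P.lf 0 3729018 0) (P.cons (P.lf 249312 0 0) (P.lf 83100 0 0)))) (P.cons (P.cons (P.lf 0 1374928 0) (P.cons (P.lf 0 30726 0) (P.cons (P.lf 2052 0 0) P.nil))) (P.cons (P.cons (P.lf 0 37762 0) (P.cons (P.lf 9072 0 0) P.nil)) (P.cons (P.cons (P.lf 1680 0 0) P.nil) P.nil)))))) 5474)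
 (EL.cons 2 (TM.mk (P.cons (P.cons (P.lf 631669373 0 0) (P.cons (P.lf 0 97798277 0) (P.cons (P.lf 0 47116125 0) (P.cons (P.lf 1783009 0 0) (P.lf 445750 0 0))))) (P.cons (P.cons (P.lf 76459747 0 0) (P.cons (P.lf 0 11837885 0) (P.cons (P.lf 0 5703120 0) (P.cons (P.lf 215820 0 0) (P.lf 53955 0 0))))) (P.cons (P.cons (P.lf 0 882337 0) (P.cons (P.lf 136605 0 0) (P.cons (P.lf 65812 0 0) (P.cons (P.lf 0 2489 0) P.nil)))) (P.cons (P.cons (P.lf 0 410177 0) (P.cons (P.lf 63503 0 0) (P.cons (P.lf 30591 0 0) P.nil))) (P.cons (P.cons (P.lf 0 12751 0) (P.cons (P.lf 1971 0 0) P.nil)) (P.cons (P.cons (P.lf 405 0 0) P.nil) P.nil)))))) 9125)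
 (EL.cons 6 (TM.mk (P.cons (P.cons (P.lf 247588647 0 0) (P.cons (P.lf 0 38332938 0) (P.cons (P.lf 0 18467601 0) (P.cons (P.lf 698865 0 0) (P.lf 174714 0 0))))) (P.cons (P.cons (P.lf 57342144 0 0) (P.cons (P.lf 0 8878002 0) (P.cons (P.lf 0 4277139 0) (P.cons (P.lf 161859 0 0) (P.lf 40464 0 0))))) (P.cons (P.cons (P.lf 4255215 0 0) (P.cons (P.lf 0 658812 0) (P.cons (P.lf 0 317394 0) (P.cons (P.lf 12009 0 0) P.nil)))) (P.cons (P.cons (P.lf 35061 0 0) (P.cons (P.lf 0 5427 0) (P.cons (P.lf 0 2613 0) P.nil))) (P.cons (P.cons (P.lf 0 10356 0) (P.cons (P.lf 1602 0 0) P.nil)) (P.cons (P.cons (P.lf 0 474 0) P.nil) P.nil)))))) 4782)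
 EL.nil))))))
noncomputable def S125_140_512_660_2 : EL := (EL.cons 0 (TM.mk (P.cons (P.cons (P.lf 1729634010 0 0) (P.cons (P.lf 43565448 0 0) (P.cons (P.lf 0 26807240 0) (P.cons (P.lf 2224159 0 0) (P.cons (P.lf 958210 0 0) (P.cons (P.lf 0 71196 0) P.nil)))))) (P.cons (P.cons (P.lf 0 365206896 0) (P.cons (P.lf 61183855 0 0) (P.cons (P.lf 0 12924687 0) (P.cons (P.lf 0 182293 0) (P.cons (P.lf 354251 0 0) P.nil))))) (P.cons (P.cons (P.lf 0 23665437 0) (P.cons (P.lf 6016871 0 0) (P.cons (P.lf 0 1390950 0) (P.cons (P.lf 0 1893 0) P.nil)))) (P.cons (P.cons (P.lf 6139168 0 0) (P.cons (P.lf 0 1043206 0) (P.cons (P.lf 103667 0 0) P.nil))) (P.cons (P.cons (P.lf 340674 0 0) (P.cons (P.lf 0 170379 0) P.nil)) (P.cons (P.cons (P.lf 0 45263 0) P.nil) P.nil)))))) 471462)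
 (EL.cons 1 (TM.mk (P.cons (P.cons (P.lf 0 482738748 0) (P.cons (P.lf 0 20957527 0) (P.cons (P.lf 6919240 0 0) (P.cons (P.lf 0 270797 0) (P.cons (P.lf 0 221285 0) (P.cons (P.lf 16446 0 0) P.nil)))))) (P.cons (P.cons (P.lf 212989583 0 0) (P.cons (P.lf 0 18217384 0) (P.cons (P.lf 1137391 0 0) (P.cons (P.lf 416754 0 0) (P.cons (P.lf 3231 0 0) P.nil))))) (P.cons (P.cons (P.lf 0 17384173 0) (P.cons (P.lf 2846638 0 0) (P.cons (P.lf 0 735294 0) (P.cons (P.lf 9424 0 0) P.nil)))) (P.cons (P.cons (P.lf 0 2903483 0) (P.cons (P.lf 736687 0 0) (P.cons (P.lf 0 154292 0) P.nil))) (P.cons (P.cons (P.lf 281292 0 0) (P.cons (P.lf 0 15394 0) P.nil)) (P.cons (P.cons (P.lf 25479 0 0) P.nil) P.nil)))))) 203134)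
 (EL.cons 5 (TM.mk (P.cons (P.cons (P.lf 0 130944239 0) (P.cons (P.lf 111136981 0 0) (P.cons (P.lf 9347061 0 0) (P.cons (P.lf 0 4720177 0) (P.cons (P.lf 0 672801 0) (P.cons (P.lf 49994 0 0) P.nil)))))) (P.cons (P.cons (P.lf 0 63767314 0) (P.cons (P.lf 0 17753045 0) (P.cons (P.lf 8163998 0 0) (P.cons (P.lf 0 537293 0) (P.cons (P.lf 0 279787 0) P.nil))))) (P.cons (P.cons (P.lf 28150458 0 0) (P.cons (P.lf 0 5779682 0) (P.cons (P.lf 1466825 0 0) (P.cons (P.lf 0 15658 0) P.nil)))) (P.cons (P.cons (P.lf 0 1455152 0) (P.cons (P.lf 69858 0 0) (P.cons (P.lf 51553 0 0) P.nil))) (P.cons (P.cons (P.lf 0 259505 0) (P.cons (P.lf 79725 0 0) P.nil)) (P.cons (P.cons (P.lf 11009 0 0) P.nil) P.nil)))))) 203858)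
 (EL.cons 9 (TM.mk (P.cons (P.cons (P.lf 427091235 0 0) (P.cons (P.lf 111729639 0 0) (P.cons (P.lf 0 162693 0) (P.cons (P.lf 0 3467089 0) (P.cons (P.lf 0 293035 0) (P.cons (P.lf 21774 0 0) P.nil)))))) (P.cons (P.cons (P.lf 0 170839978 0) (P.cons (P.lf 3530475 0 0) (P.cons (P.lf 3148732 0 0) (P.cons (P.lf 0 531271 0) (P.cons (P.lf 0 135735 0) P.nil))))) (P.cons (P.cons (P.lf 17414190 0 0) (P.cons (P.lf 0 3212076 0) (P.cons (P.lf 857887 0 0) (P.cons (P.lf 0 14410 0) P.nil)))) (P.cons (P.cons (P.lf 642048 0 0) (P.cons (P.lf 0 265632 0) (P.cons (P.lf 78003 0 0) P.nil))) (P.cons (P.cons (P.lf 0 122097 0) (P.cons (P.lf 16897 0 0) P.nil)) (P.cons (P.cons (P.lf 0 4480 0) P.nil) P.nil)))))) 85550)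
 (EL.cons 2 (TM.mk (P.cons (P.cons (P.lf 0 325277921 0) (P.cons (P.lf 7813856 0 0) (P.cons (P.lf 33694441 0 0) (P.cons (P.lf 2763219 0 0) (P.cons (P.lf 0 708620 0) (P.cons (P.lf 0 92716 0) P.nil)))))) (P.cons (P.cons (P.lf 25683986 0 0) (P.cons (P.lf 0 18980685 0) (P.cons (P.lf 1410395 0 0) (P.cons (P.lf 1370722 0 0) (P.cons (P.lf 0 150817 0) P.nil))))) (P.cons (P.cons (P.lf 8203494 0 0) (P.cons (P.lf 0 3134694 0) (P.cons (P.lf 0 198551 0) (P.cons (P.lf 184483 0 0) P.nil)))) (P.cons (P.cons (P.lf 0 164469 0) (P.cons (P.lf 0 27675 0) (P.cons (P.lf 24046 0 0) P.nil))) (P.cons (P.cons (P.lf 0 75538 0) (P.cons (P.lf 21020 0 0) P.nil)) (P.cons (P.cons (P.lf 0 1631 0) P.nil) P.nil)))))) 119198)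
 (EL.cons 6 (TM.mk (P.cons (P.cons (P.lf 0 127495680 0) (P.cons (P.lf 3062712 0 0) (P.cons (P.lf 13206846 0 0) (P.cons (P.lf 1083066 0 0) (P.cons (P.lf 0 277746 0) (P.cons (P.lf 0 36342 0) P.nil)))))) (P.cons (P.cons (P.lf 0 4028658 0) (P.cons (P.lf 0 7101042 0) (P.cons (P.lf 2012946 0 0) (P.cons (P.lf 657006 0 0) (P.cons (P.lf 0 89820 0) P.nil))))) (P.cons (P.cons (P.lf 3665322 0 0) (P.cons (P.lf 0 2035260 0) (P.cons (P.lf 51978 0 0) (P.cons (P.lf 137340 0 0) P.nil)))) (P.cons (P.cons (P.lf 303114 0 0) (P.cons (P.lf 0 184410 0) (P.cons (P.lf 7866 0 0) P.nil))) (P.cons (P.cons (P.lf 0 19278 0) (P.cons (P.lf 0 1638 0) P.nil)) (P.cons (P.cons (P.lf 0 3186 0) P.nil) P.nil)))))) 71478)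
 EL.nil))))))
noncomputable def S125_140_512_660_3 : EL := (EL.cons 0 (TM.mk (P.cons (P.lf 4217470410 0 0) (P.cons (P.lf 0 281370350 0) (P.cons (P.lf 0 10018764 0) (P.cons (P.lf 321929 0 0) (P.cons (P.lf 26059 0 0) (P.cons (P.lf 386 0 0) P.nil)))))) 230)
 (EL.cons 1 (TM.mk (P.cons (P.lf 1653076498 0 0) (P.cons (P.lf 72476017 0 0) (P.cons (P.lf 0 7522271 0) (P.cons (P.lf 0 359445 0) (P.cons (P.lf 615 0 0) (P.cons (P.lf 506 0 0) P.nil)))))) 138)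
 (EL.cons 5 (TM.mk (P.cons (P.lf 647938608 0 0) (P.cons (P.lf 100042792 0 0) (P.cons (P.lf 3562232 0 0) (P.cons (P.lf 0 114460 0) (P.cons (P.lf 0 9268 0) (P.cons (P.lf 0 138 0) P.nil)))))) 72)
 EL.nil)))
noncomputable def S125_140_512_660_4 : EL := (EL.cons 0 (TM.mk (P.cons (P.cons (P.lf 0 1085892449 0) (P.cons (P.lf 0 142038001 0) (P.cons (P.lf 9496325 0 0) (P.lf 3165440 0 0)))) (P.cons (P.cons (P.lf 289628701 0 0) (P.cons (P.lf 0 23420223 0) (P.cons (P.lf 1565817 0 0) (P.lf 521936 0 0)))) (P.cons (P.cons (P.lf 0 12329191 0) (P.cons (P.lf 90954 0 0) (P.cons (P.lf 0 6080 0) (P.lf 0 2028 0)))) (P.cons (P.cons (P.lf 0 1470918 0) (P.cons (P.lf 210051 0 0) (P.cons (P.lf 0 14044 0) P.nil))) (P.cons (P.cons (P.lf 46191 0 0) (P.cons (P.lf 9690 0 0) P.nil)) (P.cons (P.cons (P.lf 6096 0 0) P.nil) P.nil)))))) 11625)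
 (EL.cons 1 (TM.mk (P.cons (P.cons (P.lf 0 425625579 0) (P.cons (P.lf 0 55673107 0) (P.cons (P.lf 3722171 0 0) (P.lf 1240723 0 0)))) (P.cons (P.cons (P.lf 66466102 0 0) (P.cons (P.lf 0 15334910 0) (P.cons (P.lf 1025253 0 0) (P.lf 341748 0 0)))) (P.cons (P.cons (P.lf 5504664 0 0) (P.cons (P.lf 0 1268806 0) (P.cons (P.lf 84828 0 0) (P.lf 28275 0 0)))) (P.cons (P.cons (P.lf 0 654817 0) (P.cons (P.lf 20943 0 0) (P.cons (P.lf 0 1398 0) P.nil))) (P.cons (P.cons (P.lf 0 43078 0) (P.cons (P.lf 9118 0 0) P.nil)) (P.cons (P.cons (P.lf 1546 0 0) P.nil) P.nil)))))) 5179)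
 (EL.cons 5 (TM.mk (P.cons (P.cons (P.lf 0 166827878 0) (P.cons (P.lf 0 21821588 0) (P.cons (P.lf 1458938 0 0) (P.lf 486312 0 0)))) (P.cons (P.cons (P.lf 7607754 0 0) (P.cons (P.lf 0 8423222 0) (P.cons (P.lf 563156 0 0) (P.lf 187718 0 0)))) (P.cons (P.cons (P.lf 4170198 0 0) (P.cons (P.lf 0 1275344 0) (P.cons (P.lf 85266 0 0) (P.lf 28420 0 0)))) (P.cons (P.cons (P.lf 64682 0 0) (P.cons (P.lf 0 84926 0) (P.cons (P.lf 5676 0 0) P.nil))) (P.cons (P.cons (P.lf 0 29010 0) (P.cons (P.lf 0 420 0) P.nil)) (P.cons (P.cons (P.lf 0 1606 0) P.nil) P.nil)))))) 3466)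
 EL.nil)))
noncomputable def S125_140_512_660_5 : EL := (EL.cons 0 (TM.mk (P.cons (P.cons (P.lf 279589965 0 0) (P.cons (P.lf 73142418 0 0) (P.cons (P.lf 0 106504 0) (P.cons (P.lf 0 2269685 0) (P.cons (P.lf 0 191831 0) (P.cons (P.lf 14252 0 0) P.nil)))))) (P.cons (P.cons (P.lf 0 130491232 0) (P.cons (P.lf 0 2568545 0) (P.cons (P.lf 2068382 0 0) (P.cons (P.lf 0 196366 0) (P.cons (P.lf 0 76058 0) P.nil))))) (P.cons (P.cons (P.lf 18197143 0 0) (P.cons (P.lf 0 2430689 0) (P.cons (P.lf 424337 0 0) (P.cons (P.lf 19160 0 0) P.nil)))) (P.cons (P.cons (P.lf 0 53226 0) (P.cons (P.lf 0 33512 0) (P.cons (P.lf 8690 0 0) P.nil))) (P.cons (P.cons (P.lf 0 141860 0) (P.cons (P.lf 28284 0 0) P.nil)) (P.cons (P.cons (P.lf 1604 0 0) P.nil) P.nil)))))) 76235)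
 (EL.cons 1 (TM.mk (P.cons (P.cons (P.lf 109587870 0 0) (P.cons (P.lf 28668845 0 0) (P.cons (P.lf 0 41745 0) (P.cons (P.lf 0 889623 0) (P.cons (P.lf 0 75189 0) (P.cons (P.lf 5585 0 0) P.nil)))))) (P.cons (P.cons (P.lf 0 39031368 0) (P.cons (P.lf 2162820 0 0) (P.cons (P.lf 806105 0 0) (P.cons (P.lf 0 175321 0) (P.cons (P.lf 0 38124 0) P.nil))))) (P.cons (P.cons (P.lf 2047741 0 0) (P.cons (P.lf 0 914928 0) (P.cons (P.lf 255736 0 0) (P.cons (P.lf 0 5625 0) P.nil)))) (P.cons (P.cons (P.lf 536293 0 0) (P.cons (P.lf 0 114648 0) (P.cons (P.lf 25996 0 0) P.nil))) (P.cons (P.cons (P.lf 0 34865 0) (P.cons (P.lf 4910 0 0) P.nil)) (P.cons (P.cons (P.lf 0 4226 0) P.nil) P.nil)))))) 33284)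
 (EL.cons 5 (TM.mk (P.cons (P.cons (P.lf 42953978 0 0) (P.cons (P.lf 11237018 0 0) (P.cons (P.lf 0 16362 0) (P.cons (P.lf 0 348696 0) (P.cons (P.lf 0 29470 0) (P.cons (P.lf 2188 0 0) P.nil)))))) (P.cons (P.cons (P.lf 0 10549776 0) (P.cons (P.lf 2090084 0 0) (P.cons (P.lf 314150 0 0) (P.cons (P.lf 0 107270 0) (P.cons (P.lf 0 18200 0) P.nil))))) (P.cons (P.cons (P.lf 0 665364 0) (P.cons (P.lf 0 206446 0) (P.cons (P.lf 135086 0 0) (P.cons (P.lf 0 11616 0) P.nil)))) (P.cons (P.cons (P.lf 232940 0 0) (P.cons (P.lf 0 76626 0) (P.cons (P.lf 22910 0 0) P.nil))) (P.cons (P.cons (P.lf 9740 0 0) (P.cons (P.lf 0 4424 0) P.nil)) (P.cons (P.cons (P.lf 0 2062 0) P.nil) P.nil)))))) 15744)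
 EL.nil)))
noncomputable def S125_140_512_660_6 : EL := (EL.cons 12 (TM.mk (P.lf 8589934592 0 0) 0)
 (EL.cons 3 (TM.mk (P.cons (P.lf 0 3009476490 0) (P.cons (P.lf 100389258 0 0) (P.cons (P.lf 5248942 0 0) (P.cons (P.lf 60232 0 0) (P.cons (P.lf 0 2711 0) (P.cons (P.lf 0 123 0) P.nil)))))) 70)
 (EL.cons 7 (TM.mk (P.cons (P.lf 0 1179592119 0) (P.cons (P.lf 0 91065487 0) (P.cons (P.lf 272589 0 0) (P.cons (P.lf 83145 0 0) (P.cons (P.lf 2049 0 0) (P.cons (P.lf 0 13 0) P.nil)))))) 46)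
 EL.nil)))
noncomputable def S125_140_512_660_7 : EL := (EL.cons 12 (TM.mk (P.cons (P.cons (P.lf 0 2211691894 0) (P.cons (P.lf 0 289295960 0) (P.cons (P.lf 19341648 0 0) (P.lf 6447216 0 0)))) (P.cons (P.cons (P.lf 442347404 0 0) (P.cons (P.lf 0 67001656 0) (P.cons (P.lf 4479568 0 0) (P.lf 1493184 0 0)))) (P.cons (P.cons (P.lf 0 854050 0) (P.cons (P.lf 0 4972024 0) (P.cons (P.lf 332416 0 0) (P.lf 110800 0 0)))) (P.cons (P.cons (P.lf 0 1833238 0) (P.cons (P.lf 0 40968 0) (P.cons (P.lf 2736 0 0) P.nil))) (P.cons (P.cons (P.lf 0 50350 0) (P.cons (P.lf 12096 0 0) P.nil)) (P.cons (P.cons (P.lf 2240 0 0) P.nil) P.nil)))))) 7274)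
 (EL.cons 3 (TM.mk (P.cons (P.cons (P.lf 2782304699 0 0) (P.cons (P.lf 0 202709200 0) (P.cons (P.lf 13552658 0 0) (P.lf 4517550 0 0)))) (P.cons (P.cons (P.lf 0 88545056 0) (P.cons (P.lf 0 40186032 0) (P.cons (P.lf 2686740 0 0) (P.lf 895574 0 0)))) (P.cons (P.cons (P.lf 0 24264811 0) (P.cons (P.lf 0 1564258 0) (P.cons (P.lf 104580 0 0) (P.lf 34856 0 0)))) (P.cons (P.cons (P.lf 0 1259081 0) (P.cons (P.lf 173448 0 0) (P.cons (P.lf 0 11596 0) P.nil))) (P.cons (P.cons (P.lf 42709 0 0) (P.cons (P.lf 16264 0 0) P.nil)) (P.cons (P.cons (P.lf 5830 0 0) P.nil) P.nil)))))) 22867)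
 (EL.cons 7 (TM.mk (P.cons (P.cons (P.lf 0 1517281566 0) (P.cons (P.lf 315550394 0 0) (P.cons (P.lf 0 21096967 0) (P.lf 0 7032321 0)))) (P.cons (P.cons (P.lf 80321323 0 0) (P.cons (P.lf 36453713 0 0) (P.cons (P.lf 0 2437212 0) (P.lf 0 812404 0)))) (P.cons (P.cons (P.lf 17571089 0 0) (P.cons (P.lf 0 596157 0) (P.cons (P.lf 39857 0 0) (P.lf 13284 0 0)))) (P.cons (P.cons (P.lf 0 292188 0) (P.cons (P.lf 0 176595 0) (P.cons (P.lf 11805 0 0) P.nil))) (P.cons (P.cons (P.lf 0 66545 0) (P.cons (P.lf 0 1445 0) P.nil)) (P.cons (P.cons (P.lf 0 1028 0) P.nil) P.nil)))))) 13488)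
 (EL.cons 10 (TM.mk (P.cons (P.cons (P.lf 0 901485462 0) (P.cons (P.lf 139572585 0 0) (P.cons (P.lf 67241670 0 0) (P.cons (P.lf 0 2544621 0) (P.lf 0 636153 0))))) (P.cons (P.cons (P.lf 0 139190844 0) (P.cons (P.lf 21550236 0 0) (P.cons (P.lf 10382223 0 0) (P.cons (P.lf 0 392892 0) (P.lf 0 98223 0))))) (P.cons (P.cons (P.lf 0 4956177 0) (P.cons (P.lf 767340 0 0) (P.cons (P.lf 369678 0 0) (P.cons (P.lf 0 13989 0) P.nil)))) (P.cons (P.cons (P.lf 159249 0 0) (P.cons (P.lf 0 24654 0) (P.cons (P.lf 0 11877 0) P.nil))) (P.cons (P.cons (P.lf 12894 0 0) (P.cons (P.lf 0 1995 0) P.nil)) (P.cons (P.cons (P.lf 192 0 0) P.nil) P.nil)))))) 5334)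
 EL.nil))))
noncomputable def S125_140_512_660_8 : EL := (EL.cons 12 (TM.mk (P.cons (P.cons (P.lf 569454980 0 0) (P.cons (P.lf 148972852 0 0) (P.cons (P.lf 0 216924 0) (P.cons (P.lf 0 4622786 0) (P.cons (P.lf 0 390714 0) (P.cons (P.lf 29032 0 0) P.nil)))))) (P.cons (P.cons (P.lf 0 227786638 0) (P.cons (P.lf 4707300 0 0) (P.cons (P.lf 4198310 0 0) (P.cons (P.lf 0 708362 0) (P.cons (P.lf 0 180980 0) P.nil))))) (P.cons (P.cons (P.lf 23218920 0 0) (P.cons (P.lf 0 4282768 0) (P.cons (P.lf 1143850 0 0) (P.cons (P.lf 0 19214 0) P.nil)))) (P.cons (P.cons (P.lf 856064 0 0) (P.cons (P.lf 0 354176 0) (P.cons (P.lf 104004 0 0) P.nil))) (P.cons (P.cons (P.lf 0 162796 0) (P.cons (P.lf 22530 0 0) P.nil)) (P.cons (P.cons (P.lf 0 5974 0) P.nil) P.nil)))))) 114038)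
 (EL.cons 3 (TM.mk (P.cons (P.cons (P.lf 0 1233238739 0) (P.cons (P.lf 0 30830055 0) (P.cons (P.lf 19128566 0 0) (P.cons (P.lf 0 1595086 0) (P.cons (P.lf 0 684430 0) (P.cons (P.lf 50862 0 0) P.nil)))))) (P.cons (P.cons (P.lf 245691455 0 0) (P.cons (P.lf 0 37715406 0) (P.cons (P.lf 9857910 0 0) (P.cons (P.lf 0 140461 0) (P.cons (P.lf 0 294195 0) P.nil))))) (P.cons (P.cons (P.lf 13271330 0 0) (P.cons (P.lf 0 5144725 0) (P.cons (P.lf 1552629 0 0) (P.cons (P.lf 0 46959 0) P.nil)))) (P.cons (P.cons (P.lf 0 2856928 0) (P.cons (P.lf 305438 0 0) (P.cons (P.lf 56043 0 0) P.nil))) (P.cons (P.cons (P.lf 0 221113 0) (P.cons (P.lf 97525 0 0) P.nil)) (P.cons (P.cons (P.lf 13551 0 0) P.nil) P.nil)))))) 263420)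
 (EL.cons 7 (TM.mk (P.cons (P.cons (P.lf 859522640 0 0) (P.cons (P.lf 0 39835742 0) (P.cons (P.lf 0 17253242 0) (P.cons (P.lf 3550926 0 0) (P.cons (P.lf 798685 0 0) (P.cons (P.lf 0 59348 0) P.nil)))))) (P.cons (P.cons (P.lf 0 222872564 0) (P.cons (P.lf 34212540 0 0) (P.cons (P.lf 0 8942345 0) (P.cons (P.lf 127424 0 0) (P.cons (P.lf 266870 0 0) P.nil))))) (P.cons (P.cons (P.lf 281490 0 0) (P.cons (P.lf 2775652 0 0) (P.cons (P.lf 0 914097 0) (P.cons (P.lf 35555 0 0) P.nil)))) (P.cons (P.cons (P.lf 2957224 0 0) (P.cons (P.lf 0 540969 0) (P.cons (P.lf 32037 0 0) P.nil))) (P.cons (P.cons (P.lf 0 27761 0) (P.cons (P.lf 0 53526 0) P.nil)) (P.cons (P.cons (P.lf 0 18240 0) P.nil) P.nil)))))) 159477)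
 (EL.cons 10 (TM.mk (P.cons (P.cons (P.lf 464219616 0 0) (P.cons (P.lf 0 11151528 0) (P.cons (P.lf 0 48086940 0) (P.cons (P.lf 0 3943530 0) (P.cons (P.lf 1011306 0 0) (P.cons (P.lf 132324 0 0) P.nil)))))) (P.cons (P.cons (P.lf 0 21169542 0) (P.cons (P.lf 26716254 0 0) (P.cons (P.lf 0 3616914 0) (P.cons (P.lf 0 2087772 0) (P.cons (P.lf 248976 0 0) P.nil))))) (P.cons (P.cons (P.lf 0 11604102 0) (P.cons (P.lf 5345418 0 0) (P.cons (P.lf 78840 0 0) (P.cons (P.lf 0 339810 0) P.nil)))) (P.cons (P.cons (P.lf 0 179988 0) (P.cons (P.lf 264186 0 0) (P.cons (P.lf 0 38958 0) P.nil))) (P.cons (P.cons (P.lf 80724 0 0) (P.cons (P.lf 0 11322 0) P.nil)) (P.cons (P.cons (P.lf 4470 0 0) P.nil) P.nil)))))) 183252)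
 EL.nil))))
noncomputable def S125_140_512_660_9 : EL := (EL.cons 3 (TM.mk (P.cons (P.lf 0 3009476490 0) (P.cons (P.lf 100389258 0 0) (P.cons (P.lf 5248942 0 0) (P.cons (P.lf 60232 0 0) (P.cons (P.lf 0 2711 0) (P.cons (P.lf 0 123 0) P.nil)))))) 70)
 (EL.cons 7 (TM.mk (P.cons (P.lf 0 1179592119 0) (P.cons (P.lf 0 91065487 0) (P.cons (P.lf 272589 0 0) (P.cons (P.lf 83145 0 0) (P.cons (P.lf 2049 0 0) (P.cons (P.lf 0 13 0) P.nil)))))) 46)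
 EL.nil))
noncomputable def S125_140_512_660_10 : EL := (EL.cons 3 (TM.mk (P.cons (P.cons (P.lf 774864428 0 0) (P.cons (P.lf 101354600 0 0) (P.cons (P.lf 0 6776329 0) (P.lf 0 2258775 0)))) (P.cons (P.cons (P.lf 0 180823754 0) (P.cons (P.lf 20093016 0 0) (P.cons (P.lf 0 1343370 0) (P.lf 0 447787 0)))) (P.cons (P.cons (P.lf 4117391 0 0) (P.cons (P.lf 782129 0 0) (P.cons (P.lf 0 52290 0) (P.lf 0 17428 0)))) (P.cons (P.cons (P.lf 887083 0 0) (P.cons (P.lf 0 86724 0) (P.cons (P.lf 5798 0 0) P.nil))) (P.cons (P.cons (P.lf 0 506 0) (P.cons (P.lf 0 8132 0) P.nil)) (P.cons (P.cons (P.lf 0 2606 0) P.nil) P.nil)))))) 5625)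
 (EL.cons 7 (TM.mk (P.cons (P.cons (P.lf 303715272 0 0) (P.cons (P.lf 39726872 0 0) (P.cons (P.lf 0 2656045 0) (P.lf 0 885348 0)))) (P.cons (P.cons (P.lf 0 37297223 0) (P.cons (P.lf 12267788 0 0) (P.cons (P.lf 0 820194 0) (P.lf 0 273397 0)))) (P.cons (P.cons (P.lf 0 4642414 0) (P.cons (P.lf 1383903 0 0) (P.cons (P.lf 0 92524 0) (P.lf 0 30840 0)))) (P.cons (P.cons (P.lf 253428 0 0) (P.cons (P.lf 53409 0 0) (P.cons (P.lf 0 3570 0) P.nil))) (P.cons (P.cons (P.lf 30076 0 0) (P.cons (P.lf 0 2102 0) P.nil)) (P.cons (P.cons (P.lf 268 0 0) P.nil) P.nil)))))) 2750)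
 EL.nil))
noncomputable def S125_140_512_660_11 : EL := (EL.cons 3 (TM.mk (P.cons (P.cons (P.lf 0 199508081 0) (P.cons (P.lf 0 52192515 0) (P.cons (P.lf 75998 0 0) (P.cons (P.lf 1619588 0 0) (P.cons (P.lf 136886 0 0) (P.cons (P.lf 0 10170 0) P.nil)))))) (P.cons (P.cons (P.lf 86459993 0 0) (P.cons (P.lf 91824 0 0) (P.cons (P.lf 0 1473408 0) (P.cons (P.lf 194147 0 0) (P.cons (P.lf 58839 0 0) P.nil))))) (P.cons (P.cons (P.lf 0 10448866 0) (P.cons (P.lf 1646507 0 0) (P.cons (P.lf 0 351813 0) (P.cons (P.lf 0 4371 0) P.nil)))) (P.cons (P.cons (P.lf 0 163762 0) (P.cons (P.lf 77954 0 0) (P.cons (P.lf 0 20505 0) P.nil))) (P.cons (P.cons (P.lf 79451 0 0) (P.cons (P.lf 0 14663 0) P.nil)) (P.cons (P.cons (P.lf 939 0 0) P.nil) P.nil)))))) 47680)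
 (EL.cons 7 (TM.mk (P.cons (P.cons (P.lf 0 78199036 0) (P.cons (P.lf 0 20457338 0) (P.cons (P.lf 29788 0 0) (P.cons (P.lf 634812 0 0) (P.cons (P.lf 53653 0 0) (P.cons (P.lf 0 3986 0) P.nil)))))) (P.cons (P.cons (P.lf 25243222 0 0) (P.cons (P.lf 0 2225742 0) (P.cons (P.lf 0 574223 0) (P.cons (P.lf 146282 0 0) (P.cons (P.lf 28994 0 0) P.nil))))) (P.cons (P.cons (P.lf 0 755550 0) (P.cons (P.lf 542944 0 0) (P.cons (P.lf 0 201591 0) (P.cons (P.lf 10001 0 0) P.nil)))) (P.cons (P.cons (P.lf 0 365426 0) (P.cons (P.lf 95631 0 0) (P.cons (P.lf 0 26277 0) P.nil))) (P.cons (P.cons (P.lf 11947 0 0) (P.cons (P.lf 606 0 0) P.nil)) (P.cons (P.cons (P.lf 2742 0 0) P.nil) P.nil)))))) 21011)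
 EL.nil))
noncomputable def S125_140_512_660_12 : EL := (EL.cons 4 (TM.mk (P.cons (P.lf 3009476490 0 0) (P.cons (P.lf 0 100389258 0) (P.cons (P.lf 0 5248942 0) (P.cons (P.lf 0 60232 0) (P.cons (P.lf 2711 0 0) (P.cons (P.lf 123 0 0) P.nil)))))) 70)
 (EL.cons 8 (TM.mk (P.cons (P.lf 1179592119 0 0) (P.cons (P.lf 91065487 0 0) (P.cons (P.lf 0 272589 0) (P.cons (P.lf 0 83145 0) (P.cons (P.lf 0 2049 0) (P.cons (P.lf 13 0 0) P.nil)))))) 46)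
 EL.nil))
noncomputable def S125_140_512_660_13 : EL := (EL.cons 4 (TM.mk (P.cons (P.cons (P.lf 0 774864428 0) (P.cons (P.lf 0 101354600 0) (P.cons (P.lf 6776329 0 0) (P.lf 2258775 0 0)))) (P.cons (P.cons (P.lf 180823754 0 0) (P.cons (P.lf 0 20093016 0) (P.cons (P.lf 1343370 0 0) (P.lf 447787 0 0)))) (P.cons (P.cons (P.lf 0 4117391 0) (P.cons (P.lf 0 782129 0) (P.cons (P.lf 52290 0 0) (P.lf 17428 0 0)))) (P.cons (P.cons (P.lf 0 887083 0) (P.cons (P.lf 86724 0 0) (P.cons (P.lf 0 5798 0) P.nil))) (P.cons (P.cons (P.lf 506 0 0) (P.cons (P.lf 8132 0 0) P.nil)) (P.cons (P.cons (P.lf 2606 0 0) P.nil) P.nil)))))) 5625)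
 (EL.cons 8 (TM.mk (P.cons (P.cons (P.lf 0 303715272 0) (P.cons (P.lf 0 39726872 0) (P.cons (P.lf 2656045 0 0) (P.lf 885348 0 0)))) (P.cons (P.cons (P.lf 37297223 0 0) (P.cons (P.lf 0 12267788 0) (P.cons (P.lf 820194 0 0) (P.lf 273397 0 0)))) (P.cons (P.cons (P.lf 4642414 0 0) (P.cons (P.lf 0 1383903 0) (P.cons (P.lf 92524 0 0) (P.lf 30840 0 0)))) (P.cons (P.cons (P.lf 0 253428 0) (P.cons (P.lf 0 53409 0) (P.cons (P.lf 3570 0 0) P.nil))) (P.cons (P.cons (P.lf 0 30076 0) (P.cons (P.lf 2102 0 0) P.nil)) (P.cons (P.cons (P.lf 0 268 0) P.nil) P.nil)))))) 2750)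
 EL.nil))
noncomputable def S125_140_512_660_14 : EL := (EL.cons 4 (TM.mk (P.cons (P.cons (P.lf 199508081 0 0) (P.cons (P.lf 52192515 0 0) (P.cons (P.lf 0 75998 0) (P.cons (P.lf 0 1619588 0) (P.cons (P.lf 0 136886 0) (P.cons (P.lf 10170 0 0) P.nil)))))) (P.cons (P.cons (P.lf 0 86459993 0) (P.cons (P.lf 0 91824 0) (P.cons (P.lf 1473408 0 0) (P.cons (P.lf 0 194147 0) (P.cons (P.lf 0 58839 0) P.nil))))) (P.cons (P.cons (P.lf 10448866 0 0) (P.cons (P.lf 0 1646507 0) (P.cons (P.lf 351813 0 0) (P.cons (P.lf 4371 0 0) P.nil)))) (P.cons (P.cons (P.lf 163762 0 0) (P.cons (P.lf 0 77954 0) (P.cons (P.lf 20505 0 0) P.nil))) (P.cons (P.cons (P.lf 0 79451 0) (P.cons (P.lf 14663 0 0) P.nil)) (P.cons (P.cons (P.lf 0 939 0) P.nil) P.nil)))))) 47680)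
 (EL.cons 8 (TM.mk (P.cons (P.cons (P.lf 78199036 0 0) (P.cons (P.lf 20457338 0 0) (P.cons (P.lf 0 29788 0) (P.cons (P.lf 0 634812 0) (P.cons (P.lf 0 53653 0) (P.cons (P.lf 3986 0 0) P.nil)))))) (P.cons (P.cons (P.lf 0 25243222 0) (P.cons (P.lf 2225742 0 0) (P.cons (P.lf 574223 0 0) (P.cons (P.lf 0 146282 0) (P.cons (P.lf 0 28994 0) P.nil))))) (P.cons (P.cons (P.lf 755550 0 0) (P.cons (P.lf 0 542944 0) (P.cons (P.lf 201591 0 0) (P.cons (P.lf 0 10001 0) P.nil)))) (P.cons (P.cons (P.lf 365426 0 0) (P.cons (P.lf 0 95631 0) (P.cons (P.lf 26277 0 0) P.nil))) (P.cons (P.cons (P.lf 0 11947 0) (P.cons (P.lf 0 606 0) P.nil)) (P.cons (P.cons (P.lf 0 2742 0) P.nil) P.nil)))))) 21011)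
 EL.nil))
noncomputable def S125_140_512_660_15 : EL := (EL.cons 4 (TM.mk (P.cons (P.lf 0 2249317552 0) (P.cons (P.lf 150064186 0 0) (P.cons (P.lf 5343341 0 0) (P.cons (P.lf 0 171695 0) (P.cons (P.lf 0 13898 0) (P.cons (P.lf 0 206 0) P.nil)))))) 126)
 (EL.cons 8 (TM.mk (P.cons (P.lf 0 881640799 0) (P.cons (P.lf 0 38653876 0) (P.cons (P.lf 4011878 0 0) (P.cons (P.lf 191704 0 0) (P.cons (P.lf 0 328 0) (P.cons (P.lf 0 270 0) P.nil)))))) 70)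
 EL.nil))
noncomputable def S125_140_512_660_16 : EL := (EL.cons 4 (TM.mk (P.cons (P.cons (P.lf 579142639 0 0) (P.cons (P.lf 75753600 0 0) (P.cons (P.lf 0 5064706 0) (P.lf 0 1688235 0)))) (P.cons (P.cons (P.lf 0 154468640 0) (P.cons (P.lf 12490785 0 0) (P.cons (P.lf 0 835102 0) (P.lf 0 278366 0)))) (P.cons (P.cons (P.lf 6575568 0 0) (P.cons (P.lf 0 48509 0) (P.cons (P.lf 3242 0 0) (P.lf 1081 0 0)))) (P.cons (P.cons (P.lf 784489 0 0) (P.cons (P.lf 0 112027 0) (P.cons (P.lf 7490 0 0) P.nil))) (P.cons (P.cons (P.lf 0 24635 0) (P.cons (P.lf 0 5168 0) P.nil)) (P.cons (P.cons (P.lf 0 3251 0) P.nil) P.nil)))))) 6209)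
 (EL.cons 8 (TM.mk (P.cons (P.cons (P.lf 227000309 0 0) (P.cons (P.lf 29692324 0 0) (P.cons (P.lf 0 1985158 0) (P.lf 0 661719 0)))) (P.cons (P.cons (P.lf 0 35448588 0) (P.cons (P.lf 8178619 0 0) (P.cons (P.lf 0 546802 0) (P.lf 0 182266 0)))) (P.cons (P.cons (P.lf 0 2935821 0) (P.cons (P.lf 676697 0 0) (P.cons (P.lf 0 45242 0) (P.lf 0 15080 0)))) (P.cons (P.cons (P.lf 349236 0 0) (P.cons (P.lf 0 11170 0) (P.cons (P.lf 746 0 0) P.nil))) (P.cons (P.cons (P.lf 22975 0 0) (P.cons (P.lf 0 4863 0) P.nil)) (P.cons (P.cons (P.lf 0 825 0) P.nil) P.nil)))))) 2752)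
 EL.nil))
noncomputable def S125_140_512_660_17 : EL := (EL.cons 4 (TM.mk (P.cons (P.cons (P.lf 0 149114648 0) (P.cons (P.lf 0 39009289 0) (P.cons (P.lf 56802 0 0) (P.cons (P.lf 1210499 0 0) (P.cons (P.lf 102310 0 0) (P.cons (P.lf 0 7601 0) P.nil)))))) (P.cons (P.cons (P.lf 69595323 0 0) (P.cons (P.lf 1369890 0 0) (P.cons (P.lf 0 1103137 0) (P.cons (P.lf 104729 0 0) (P.cons (P.lf 40564 0 0) P.nil))))) (P.cons (P.cons (P.lf 0 9705143 0) (P.cons (P.lf 1296367 0 0) (P.cons (P.lf 0 226313 0) (P.cons (P.lf 0 10218 0) P.nil)))) (P.cons (P.cons (P.lf 28387 0 0) (P.cons (P.lf 17873 0 0) (P.cons (P.lf 0 4635 0) P.nil))) (P.cons (P.cons (P.lf 75659 0 0) (P.cons (P.lf 0 15085 0) P.nil)) (P.cons (P.cons (P.lf 0 855 0) P.nil) P.nil)))))) 40669)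
 (EL.cons 8 (TM.mk (P.cons (P.cons (P.lf 0 58446864 0) (P.cons (P.lf 0 15290051 0) (P.cons (P.lf 22264 0 0) (P.cons (P.lf 474466 0 0) (P.cons (P.lf 40101 0 0) (P.cons (P.lf 0 2979 0) P.nil)))))) (P.cons (P.cons (P.lf 20816730 0 0) (P.cons (P.lf 0 1153504 0) (P.cons (P.lf 0 429923 0) (P.cons (P.lf 93505 0 0) (P.cons (P.lf 20333 0 0) P.nil))))) (P.cons (P.cons (P.lf 0 1092129 0) (P.cons (P.lf 487962 0 0) (P.cons (P.lf 0 136393 0) (P.cons (P.lf 3000 0 0) P.nil)))) (P.cons (P.cons (P.lf 0 286023 0) (P.cons (P.lf 61146 0 0) (P.cons (P.lf 0 13865 0) P.nil))) (P.cons (P.cons (P.lf 18595 0 0) (P.cons (P.lf 0 2619 0) P.nil)) (P.cons (P.cons (P.lf 2254 0 0) P.nil) P.nil)))))) 17740)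
 EL.nil))
noncomputable def S125_140_512_660_18 : EL := (EL.cons 4 (TM.mk (P.cons (P.lf 1681165965 0 0) (P.cons (P.lf 0 168239564 0) (P.cons (P.lf 0 3184468 0) (P.cons (P.lf 423521 0 0) (P.cons (P.lf 16831 0 0) (P.cons (P.lf 0 367 0) P.nil)))))) 178)
 (EL.cons 8 (TM.mk (P.cons (P.lf 658948535 0 0) (P.cons (P.lf 6909337 0 0) (P.cons (P.lf 0 5111538 0) (P.cons (P.lf 0 106835 0) (P.cons (P.lf 10270 0 0) (P.cons (P.lf 557 0 0) P.nil)))))) 84)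
 EL.nil))
noncomputable def S125_140_512_660_19 : EL := (EL.cons 4 (TM.mk (P.cons (P.cons (P.lf 0 432857910 0) (P.cons (P.lf 0 56619118 0) (P.cons (P.lf 3785420 0 0) (P.lf 1261806 0 0)))) (P.cons (P.cons (P.lf 129890800 0 0) (P.cons (P.lf 0 7447073 0) (P.cons (P.lf 497892 0 0) (P.lf 165962 0 0)))) (P.cons (P.cons (P.lf 0 8010895 0) (P.cons (P.lf 446427 0 0) (P.cons (P.lf 0 29847 0) (P.lf 0 9949 0)))) (P.cons (P.cons (P.lf 0 615095 0) (P.cons (P.lf 99937 0 0) (P.cons (P.lf 0 6681 0) P.nil))) (P.cons (P.cons (P.lf 43843 0 0) (P.cons (P.lf 1141 0 0) P.nil)) (P.cons (P.cons (P.lf 3023 0 0) P.nil) P.nil)))))) 6149)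
 (EL.cons 8 (TM.mk (P.cons (P.cons (P.lf 0 169662657 0) (P.cons (P.lf 0 22192386 0) (P.cons (P.lf 1483730 0 0) (P.lf 494576 0 0)))) (P.cons (P.cons (P.lf 32154243 0 0) (P.cons (P.lf 0 5372507 0) (P.cons (P.lf 359192 0 0) (P.lf 119730 0 0)))) (P.cons (P.cons (P.lf 1606380 0 0) (P.cons (P.lf 0 263156 0) (P.cons (P.lf 17594 0 0) (P.lf 5864 0 0)))) (P.cons (P.cons (P.lf 0 377033 0) (P.cons (P.lf 36325 0 0) (P.cons (P.lf 0 2428 0) P.nil))) (P.cons (P.cons (P.lf 0 12974 0) (P.cons (P.lf 4340 0 0) P.nil)) (P.cons (P.cons (P.lf 1618 0 0) P.nil) P.nil)))))) 2489)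
 EL.nil))
noncomputable def S125_140_512_660_20 : EL := (EL.cons 4 (TM.mk (P.cons (P.cons (P.lf 111450014 0 0) (P.cons (P.lf 29155994 0 0) (P.cons (P.lf 0 42454 0) (P.cons (P.lf 0 904740 0) (P.cons (P.lf 0 76467 0) (P.cons (P.lf 5681 0 0) P.nil)))))) (P.cons (P.cons (P.lf 0 55734067 0) (P.cons (P.lf 0 1996449 0) (P.cons (P.lf 825914 0 0) (P.cons (P.lf 0 48095 0) (P.cons (P.lf 0 27767 0) P.nil))))) (P.cons (P.cons (P.lf 8794498 0 0) (P.cons (P.lf 0 985618 0) (P.cons (P.lf 141720 0 0) (P.cons (P.lf 11826 0 0) P.nil)))) (P.cons (P.cons (P.lf 0 174691 0) (P.cons (P.lf 20163 0 0) (P.cons (P.lf 0 3615 0) P.nil))) (P.cons (P.cons (P.lf 0 67350 0) (P.cons (P.lf 13457 0 0) P.nil)) (P.cons (P.cons (P.lf 2375 0 0) P.nil) P.nil)))))) 33853)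
 (EL.cons 8 (TM.mk (P.cons (P.cons (P.lf 43683862 0 0) (P.cons (P.lf 11427961 0 0) (P.cons (P.lf 0 16640 0) (P.cons (P.lf 0 354621 0) (P.cons (P.lf 0 29972 0) (P.cons (P.lf 2226 0 0) P.nil)))))) (P.cons (P.cons (P.lf 0 17015858 0) (P.cons (P.lf 480931 0 0) (P.cons (P.lf 321884 0 0) (P.cons (P.lf 0 58057 0) (P.cons (P.lf 0 14197 0) P.nil))))) (P.cons (P.cons (P.lf 1259081 0 0) (P.cons (P.lf 0 413399 0) (P.cons (P.lf 91252 0 0) (P.cons (P.lf 706 0 0) P.nil)))) (P.cons (P.cons (P.lf 212811 0 0) (P.cons (P.lf 0 35267 0) (P.cons (P.lf 6402 0 0) P.nil))) (P.cons (P.cons (P.lf 0 22102 0) (P.cons (P.lf 4111 0 0) P.nil)) (P.cons (P.cons (P.lf 0 1622 0) P.nil) P.nil)))))) 14778)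
 EL.nil))
noncomputable def S125_140_512_660_21 : EL := (EL.cons 4 (TM.mk (P.cons (P.cons (P.lf 0 2007440271 0) (P.cons (P.lf 304063800 0 0) (P.cons (P.lf 0 20328987 0) (P.lf 0 6776325 0)))) (P.cons (P.cons (P.lf 0 92278698 0) (P.cons (P.lf 60279048 0 0) (P.cons (P.lf 0 4030110 0) (P.lf 0 1343361 0)))) (P.cons (P.cons (P.lf 28382202 0 0) (P.cons (P.lf 2346387 0 0) (P.cons (P.lf 0 156870 0) (P.lf 0 52284 0)))) (P.cons (P.cons (P.lf 2146164 0 0) (P.cons (P.lf 0 260172 0) (P.cons (P.lf 17394 0 0) P.nil))) (P.cons (P.cons (P.lf 0 43215 0) (P.cons (P.lf 0 24396 0) P.nil)) (P.cons (P.cons (P.lf 0 8436 0) P.nil) P.nil)))))) 17223)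
 (EL.cons 8 (TM.mk (P.cons (P.cons (P.lf 1820996838 0 0) (P.cons (P.lf 0 275823522 0) (P.cons (P.lf 18440922 0 0) (P.lf 6146973 0 0)))) (P.cons (P.cons (P.lf 0 117618546 0) (P.cons (P.lf 0 24185925 0) (P.cons (P.lf 1617018 0 0) (P.lf 539007 0 0)))) (P.cons (P.cons (P.lf 0 22213503 0) (P.cons (P.lf 1980060 0 0) (P.cons (P.lf 0 132381 0) (P.lf 0 44124 0)))) (P.cons (P.cons (P.lf 545616 0 0) (P.cons (P.lf 230004 0 0) (P.cons (P.lf 0 15375 0) P.nil))) (P.cons (P.cons (P.lf 96621 0 0) (P.cons (P.lf 0 657 0) P.nil)) (P.cons (P.cons (P.lf 1296 0 0) P.nil) P.nil)))))) 10719)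
 (EL.cons 11 (TM.mk (P.cons (P.cons (P.lf 901485462 0 0) (P.cons (P.lf 0 139572585 0) (P.cons (P.lf 0 67241670 0) (P.cons (P.lf 2544621 0 0) (P.lf 636153 0 0))))) (P.cons (P.cons (P.lf 139190844 0 0) (P.cons (P.lf 0 21550236 0) (P.cons (P.lf 0 10382223 0) (P.cons (P.lf 392892 0 0) (P.lf 98223 0 0))))) (P.cons (P.cons (P.lf 4956177 0 0) (P.cons (P.lf 0 767340 0) (P.cons (P.lf 0 369678 0) (P.cons (P.lf 13989 0 0) P.nil)))) (P.cons (P.cons (P.lf 0 159249 0) (P.cons (P.lf 24654 0 0) (P.cons (P.lf 11877 0 0) P.nil))) (P.cons (P.cons (P.lf 0 12894 0) (P.cons (P.lf 1995 0 0) P.nil)) (P.cons (P.cons (P.lf 0 192 0) P.nil) P.nil)))))) 5334)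
 EL.nil)))
noncomputable def S125_140_512_660_22 : EL := (EL.cons 4 (TM.mk (P.cons (P.cons (P.lf 516865329 0 0) (P.cons (P.lf 0 10681230 0) (P.cons (P.lf 0 9526284 0) (P.cons (P.lf 1607337 0 0) (P.cons (P.lf 410658 0 0) (P.cons (P.lf 0 30516 0) P.nil)))))) (P.cons (P.cons (P.lf 0 79615731 0) (P.cons (P.lf 18903615 0 0) (P.cons (P.lf 0 5665659 0) (P.cons (P.lf 167304 0 0) (P.cons (P.lf 176517 0 0) P.nil))))) (P.cons (P.cons (P.lf 0 11860098 0) (P.cons (P.lf 3395616 0 0) (P.cons (P.lf 0 952221 0) (P.cons (P.lf 21294 0 0) P.nil)))) (P.cons (P.cons (P.lf 1346583 0 0) (P.cons (P.lf 0 113742 0) (P.cons (P.lf 0 38274 0) P.nil))) (P.cons (P.cons (P.lf 150282 0 0) (P.cons (P.lf 0 56094 0) P.nil)) (P.cons (P.cons (P.lf 0 6306 0) P.nil) P.nil)))))) 107859)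
 (EL.cons 8 (TM.mk (P.cons (P.cons (P.lf 0 468860838 0) (P.cons (P.lf 9689202 0 0) (P.cons (P.lf 8641515 0 0) (P.cons (P.lf 0 1458057 0) (P.cons (P.lf 0 372516 0) (P.cons (P.lf 27681 0 0) P.nil)))))) (P.cons (P.cons (P.lf 124057893 0 0) (P.cons (P.lf 0 18219141 0) (P.cons (P.lf 4184061 0 0) (P.cons (P.lf 9429 0 0) (P.cons (P.lf 0 118938 0) P.nil))))) (P.cons (P.cons (P.lf 0 518520 0) (P.cons (P.lf 0 1116354 0) (P.cons (P.lf 356253 0 0) (P.cons (P.lf 0 12777 0) P.nil)))) (P.cons (P.cons (P.lf 0 1661325 0) (P.cons (P.lf 318300 0 0) (P.cons (P.lf 0 29157 0) P.nil))) (P.cons (P.cons (P.lf 19854 0 0) (P.cons (P.lf 27066 0 0) P.nil)) (P.cons (P.cons (P.lf 10491 0 0) P.nil) P.nil)))))) 69222)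
 (EL.cons 11 (TM.mk (P.cons (P.cons (P.lf 0 232109808 0) (P.cons (P.lf 5575764 0 0) (P.cons (P.lf 24043470 0 0) (P.cons (P.lf 1971765 0 0) (P.cons (P.lf 0 505653 0) (P.cons (P.lf 0 66162 0) P.nil)))))) (P.cons (P.cons (P.lf 10584771 0 0) (P.cons (P.lf 0 13358127 0) (P.cons (P.lf 1808457 0 0) (P.cons (P.lf 1043886 0 0) (P.cons (P.lf 0 124488 0) P.nil))))) (P.cons (P.cons (P.lf 5802051 0 0) (P.cons (P.lf 0 2672709 0) (P.cons (P.lf 0 39420 0) (P.cons (P.lf 169905 0 0) P.nil)))) (P.cons (P.cons (P.lf 89994 0 0) (P.cons (P.lf 0 132093 0) (P.cons (P.lf 19479 0 0) P.nil))) (P.cons (P.cons (P.lf 0 40362 0) (P.cons (P.lf 5661 0 0) P.nil)) (P.cons (P.cons (P.lf 0 2235 0) P.nil) P.nil)))))) 91626)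
 EL.nil)))
noncomputable def S125_140_512_660_23 : EL := (EL.cons 4 (TM.mk (P.cons (P.cons (P.lf 1500384087 0 0) (P.cons (P.lf 0 227260800 0) (P.cons (P.lf 15194118 0 0) (P.lf 5064702 0 0)))) (P.cons (P.cons (P.lf 18920781 0 0) (P.cons (P.lf 0 37472355 0) (P.cons (P.lf 2505309 0 0) (P.lf 835095 0 0)))) (P.cons (P.cons (P.lf 0 26130750 0) (P.cons (P.lf 145530 0 0) (P.cons (P.lf 0 9732 0) (P.lf 0 3246 0)))) (P.cons (P.cons (P.lf 0 1046766 0) (P.cons (P.lf 336081 0 0) (P.cons (P.lf 0 22467 0) P.nil))) (P.cons (P.cons (P.lf 122775 0 0) (P.cons (P.lf 15501 0 0) P.nil)) (P.cons (P.cons (P.lf 8571 0 0) P.nil) P.nil)))))) 18819)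
 (EL.cons 8 (TM.mk (P.cons (P.cons (P.lf 0 1361034108 0) (P.cons (P.lf 206153691 0 0) (P.cons (P.lf 0 13782957 0) (P.lf 0 4594317 0)))) (P.cons (P.cons (P.lf 133310448 0 0) (P.cons (P.lf 11200023 0 0) (P.cons (P.lf 0 748809 0) (P.lf 0 249603 0)))) (P.cons (P.cons (P.lf 16044000 0 0) (P.cons (P.lf 0 2442480 0) (P.cons (P.lf 163296 0 0) (P.lf 54429 0 0)))) (P.cons (P.cons (P.lf 0 1087710 0) (P.cons (P.lf 0 158193 0) (P.cons (P.lf 10572 0 0) P.nil))) (P.cons (P.cons (P.lf 0 90555 0) (P.cons (P.lf 8628 0 0) P.nil)) (P.cons (P.cons (P.lf 1842 0 0) P.nil) P.nil)))))) 11532)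
 (EL.cons 11 (TM.mk (P.cons (P.cons (P.lf 0 673780665 0) (P.cons (P.lf 104318163 0 0) (P.cons (P.lf 50257200 0 0) (P.cons (P.lf 0 1901877 0) (P.lf 0 475467 0))))) (P.cons (P.cons (P.lf 0 81557064 0) (P.cons (P.lf 12627078 0 0) (P.cons (P.lf 6083328 0 0) (P.cons (P.lf 0 230208 0) (P.lf 0 57552 0))))) (P.cons (P.cons (P.lf 941160 0 0) (P.cons (P.lf 0 145713 0) (P.cons (P.lf 0 70200 0) (P.cons (P.lf 2655 0 0) P.nil)))) (P.cons (P.cons (P.lf 437523 0 0) (P.cons (P.lf 0 67737 0) (P.cons (P.lf 0 32631 0) P.nil))) (P.cons (P.cons (P.lf 13602 0 0) (P.cons (P.lf 0 2103 0) P.nil)) (P.cons (P.cons (P.lf 0 432 0) P.nil) P.nil)))))) 9711)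
 EL.nil)))
noncomputable def S125_140_512_660_24 : EL := (EL.cons 4 (TM.mk (P.cons (P.cons (P.lf 0 386311128 0) (P.cons (P.lf 7983276 0 0) (P.cons (P.lf 7120056 0 0) (P.cons (P.lf 0 1201341 0) (P.cons (P.lf 0 306930 0) (P.cons (P.lf 22806 0 0) P.nil)))))) (P.cons (P.cons (P.lf 72392175 0 0) (P.cons (P.lf 0 14395083 0) (P.cons (P.lf 3997071 0 0) (P.cons (P.lf 0 84969 0) (P.cons (P.lf 0 121692 0) P.nil))))) (P.cons (P.cons (P.lf 7553178 0 0) (P.cons (P.lf 0 2080542 0) (P.cons (P.lf 558024 0 0) (P.cons (P.lf 0 9648 0) P.nil)))) (P.cons (P.cons (P.lf 0 1398201 0) (P.cons (P.lf 194154 0 0) (P.cons (P.lf 0 2661 0) P.nil))) (P.cons (P.cons (P.lf 0 95751 0) (P.cons (P.lf 43806 0 0) P.nil)) (P.cons (P.cons (P.lf 10074 0 0) P.nil) P.nil)))))) 75459)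
 (EL.cons 8 (TM.mk (P.cons (P.cons (P.lf 350432016 0 0) (P.cons (P.lf 0 7241820 0) (P.cons (P.lf 0 6458769 0) (P.cons (P.lf 1089768 0 0) (P.cons (P.lf 278424 0 0) (P.cons (P.lf 0 20688 0) P.nil)))))) (P.cons (P.cons (P.lf 0 104411916 0) (P.cons (P.lf 13858767 0 0) (P.cons (P.lf 0 2911764 0) (P.cons (P.lf 0 43401 0) (P.cons (P.lf 79608 0 0) P.nil))))) (P.cons (P.cons (P.lf 2869350 0 0) (P.cons (P.lf 392769 0 0) (P.cons (P.lf 0 150684 0) (P.cons (P.lf 7884 0 0) P.nil)))) (P.cons (P.cons (P.lf 1383471 0 0) (P.cons (P.lf 0 289338 0) (P.cons (P.lf 36258 0 0) P.nil))) (P.cons (P.cons (P.lf 0 54765 0) (P.cons (P.lf 0 14028 0) P.nil)) (P.cons (P.cons (P.lf 0 9588 0) P.nil) P.nil)))))) 48558)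
 (EL.cons 11 (TM.mk (P.cons (P.cons (P.lf 173481558 0 0) (P.cons (P.lf 0 4167390 0) (P.cons (P.lf 0 17970369 0) (P.cons (P.lf 0 1473717 0) (P.cons (P.lf 377931 0 0) (P.cons (P.lf 49449 0 0) P.nil)))))) (P.cons (P.cons (P.lf 0 13698126 0) (P.cons (P.lf 10123032 0 0) (P.cons (P.lf 0 752211 0) (P.cons (P.lf 0 731052 0) (P.cons (P.lf 80436 0 0) P.nil))))) (P.cons (P.cons (P.lf 0 4375197 0) (P.cons (P.lf 1671837 0 0) (P.cons (P.lf 105894 0 0) (P.cons (P.lf 0 98391 0) P.nil)))) (P.cons (P.cons (P.lf 87717 0 0) (P.cons (P.lf 14760 0 0) (P.cons (P.lf 0 12825 0) P.nil))) (P.cons (P.cons (P.lf 40287 0 0) (P.cons (P.lf 0 11211 0) P.nil)) (P.cons (P.cons (P.lf 870 0 0) P.nil) P.nil)))))) 63561)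
 EL.nil)))
noncomputable def S125_140_512_660_25 : EL := (EL.cons 4 (TM.mk (P.cons (P.cons (P.lf 0 1121404428 0) (P.cons (P.lf 169857351 0 0) (P.cons (P.lf 0 11356260 0) (P.lf 0 3785418 0)))) (P.cons (P.cons (P.lf 23265876 0 0) (P.cons (P.lf 22341219 0 0) (P.cons (P.lf 0 1493676 0) (P.lf 0 497886 0)))) (P.cons (P.cons (P.lf 21958041 0 0) (P.cons (P.lf 0 1339284 0) (P.cons (P.lf 89541 0 0) (P.lf 29850 0 0)))) (P.cons (P.cons (P.lf 177984 0 0) (P.cons (P.lf 0 299811 0) (P.cons (P.lf 20043 0 0) P.nil))) (P.cons (P.cons (P.lf 0 152652 0) (P.cons (P.lf 0 3423 0) P.nil)) (P.cons (P.cons (P.lf 0 5160 0) P.nil) P.nil)))))) 17964)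
 (EL.cons 8 (TM.mk (P.cons (P.cons (P.lf 1017252639 0 0) (P.cons (P.lf 0 154081653 0) (P.cons (P.lf 10301541 0 0) (P.lf 3433845 0 0)))) (P.cons (P.cons (P.lf 0 133570995 0) (P.cons (P.lf 0 3231213 0) (P.cons (P.lf 216033 0 0) (P.lf 72009 0 0)))) (P.cons (P.cons (P.lf 0 10442013 0) (P.cons (P.lf 2373516 0 0) (P.cons (P.lf 0 158685 0) (P.lf 0 52893 0)))) (P.cons (P.cons (P.lf 1366398 0 0) (P.cons (P.lf 75024 0 0) (P.cons (P.lf 0 5013 0) P.nil))) (P.cons (P.cons (P.lf 64386 0 0) (P.cons (P.lf 0 13548 0) P.nil)) (P.cons (P.cons (P.lf 0 4860 0) P.nil) P.nil)))))) 10992)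
 (EL.cons 11 (TM.mk (P.cons (P.cons (P.lf 503591466 0 0) (P.cons (P.lf 0 77968602 0) (P.cons (P.lf 0 37562814 0) (P.cons (P.lf 1421484 0 0) (P.lf 355368 0 0))))) (P.cons (P.cons (P.lf 44158032 0 0) (P.cons (P.lf 0 6836769 0) (P.cons (P.lf 0 3293739 0) (P.cons (P.lf 124641 0 0) (P.lf 31161 0 0))))) (P.cons (P.cons (P.lf 0 3615141 0) (P.cons (P.lf 559713 0 0) (P.cons (P.lf 269652 0 0) (P.cons (P.lf 0 10203 0) P.nil)))) (P.cons (P.cons (P.lf 0 419940 0) (P.cons (P.lf 65016 0 0) (P.cons (P.lf 31320 0 0) P.nil))) (P.cons (P.cons (P.lf 1200 0 0) (P.cons (P.lf 0 186 0) P.nil)) (P.cons (P.cons (P.lf 1320 0 0) P.nil) P.nil)))))) 11118)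
 EL.nil)))
noncomputable def S125_140_512_660_26 : EL := (EL.cons 4 (TM.mk (P.cons (P.cons (P.lf 288733407 0 0) (P.cons (P.lf 0 5966793 0) (P.cons (P.lf 0 5321610 0) (P.cons (P.lf 897897 0 0) (P.cons (P.lf 229401 0 0) (P.cons (P.lf 0 17046 0) P.nil)))))) (P.cons (P.cons (P.lf 0 63738237 0) (P.cons (P.lf 10958091 0 0) (P.cons (P.lf 0 2809938 0) (P.cons (P.lf 33555 0 0) (P.cons (P.lf 83301 0 0) P.nil))))) (P.cons (P.cons (P.lf 0 4344045 0) (P.cons (P.lf 1206531 0 0) (P.cons (P.lf 0 308139 0) (P.cons (P.lf 3525 0 0) P.nil)))) (P.cons (P.cons (P.lf 1321938 0 0) (P.cons (P.lf 0 215628 0) (P.cons (P.lf 21219 0 0) P.nil))) (P.cons (P.cons (P.lf 47892 0 0) (P.cons (P.lf 0 30834 0) P.nil)) (P.cons (P.cons (P.lf 0 11664 0) P.nil) P.nil)))))) 54477)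
 (EL.cons 8 (TM.mk (P.cons (P.cons (P.lf 0 261916944 0) (P.cons (P.lf 5412621 0 0) (P.cons (P.lf 4827357 0 0) (P.cons (P.lf 0 814506 0) (P.cons (P.lf 0 208095 0) (P.cons (P.lf 15462 0 0) P.nil)))))) (P.cons (P.cons (P.lf 86775624 0 0) (P.cons (P.lf 0 10538754 0) (P.cons (P.lf 2015256 0 0) (P.cons (P.lf 59607 0 0) (P.cons (P.lf 0 52557 0) P.nil))))) (P.cons (P.cons (P.lf 0 4290957 0) (P.cons (P.lf 42522 0 0) (P.cons (P.lf 31608 0 0) (P.cons (P.lf 0 5553 0) P.nil)))) (P.cons (P.cons (P.lf 0 1093353 0) (P.cons (P.lf 244005 0 0) (P.cons (P.lf 0 34749 0) P.nil))) (P.cons (P.cons (P.lf 77367 0 0) (P.cons (P.lf 3996 0 0) P.nil)) (P.cons (P.cons (P.lf 7707 0 0) P.nil) P.nil)))))) 35034)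
 (EL.cons 11 (TM.mk (P.cons (P.cons (P.lf 0 129662121 0) (P.cons (P.lf 3114756 0 0) (P.cons (P.lf 13431261 0 0) (P.cons (P.lf 1101474 0 0) (P.cons (P.lf 0 282468 0) (P.cons (P.lf 0 36960 0) P.nil)))))) (P.cons (P.cons (P.lf 14563371 0 0) (P.cons (P.lf 0 7669974 0) (P.cons (P.lf 114174 0 0) (P.cons (P.lf 509655 0 0) (P.cons (P.lf 0 50697 0) P.nil))))) (P.cons (P.cons (P.lf 3154701 0 0) (P.cons (P.lf 0 1002594 0) (P.cons (P.lf 0 121326 0) (P.cons (P.lf 53391 0 0) P.nil)))) (P.cons (P.cons (P.lf 0 189906 0) (P.cons (P.lf 43782 0 0) (P.cons (P.lf 10977 0 0) P.nil))) (P.cons (P.cons (P.lf 0 33951 0) (P.cons (P.lf 11082 0 0) P.nil)) (P.cons (P.cons (P.lf 405 0 0) P.nil) P.nil)))))) 45567)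
 EL.nil)))
noncomputable def S125_140_512_660_27 : EL := (EL.cons 13 (TM.mk (P.lf 0 4294967296 0) 0)
 EL.nil)
noncomputable def S125_140_512_660_28 : EL := (EL.cons 13 (TM.mk (P.cons (P.cons (P.lf 1105845947 0 0) (P.cons (P.lf 144647980 0 0) (P.cons (P.lf 0 9670824 0) (P.lf 0 3223608 0)))) (P.cons (P.cons (P.lf 0 221173702 0) (P.cons (P.lf 33500828 0 0) (P.cons (P.lf 0 2239784 0) (P.lf 0 746592 0)))) (P.cons (P.cons (P.lf 427025 0 0) (P.cons (P.lf 2486012 0 0) (P.cons (P.lf 0 166208 0) (P.lf 0 55400 0)))) (P.cons (P.cons (P.lf 916619 0 0) (P.cons (P.lf 20484 0 0) (P.cons (P.lf 0 1368 0) P.nil))) (P.cons (P.cons (P.lf 25175 0 0) (P.cons (P.lf 0 6048 0) P.nil)) (P.cons (P.cons (P.lf 0 1120 0) P.nil) P.nil)))))) 3637)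
 EL.nil)
noncomputable def S125_140_512_660_29 : EL := (EL.cons 13 (TM.mk (P.cons (P.cons (P.lf 0 284727490 0) (P.cons (P.lf 0 74486426 0) (P.cons (P.lf 108462 0 0) (P.cons (P.lf 2311393 0 0) (P.cons (P.lf 195357 0 0) (P.cons (P.lf 0 14516 0) P.nil)))))) (P.cons (P.cons (P.lf 113893319 0 0) (P.cons (P.lf 0 2353650 0) (P.cons (P.lf 0 2099155 0) (P.cons (P.lf 354181 0 0) (P.cons (P.lf 90490 0 0) P.nil))))) (P.cons (P.cons (P.lf 0 11609460 0) (P.cons (P.lf 2141384 0 0) (P.cons (P.lf 0 571925 0) (P.cons (P.lf 9607 0 0) P.nil)))) (P.cons (P.cons (P.lf 0 428032 0) (P.cons (P.lf 177088 0 0) (P.cons (P.lf 0 52002 0) P.nil))) (P.cons (P.cons (P.lf 81398 0 0) (P.cons (P.lf 0 11265 0) P.nil)) (P.cons (P.cons (P.lf 2987 0 0) P.nil) P.nil)))))) 57019)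
 EL.nil)
noncomputable def S125_140_512_660_30 : EL := (EL.cons 13 (TM.mk (P.cons (P.lf 3210108256 0 0) (P.cons (P.lf 0 107081876 0) (P.cons (P.lf 0 5598872 0) (P.cons (P.lf 0 64248 0) (P.cons (P.lf 2892 0 0) (P.cons (P.lf 132 0 0) P.nil)))))) 68)
 EL.nil)
noncomputable def S125_140_512_660_31 : EL := (EL.cons 13 (TM.mk (P.cons (P.cons (P.lf 0 826522057 0) (P.cons (P.lf 0 108111574 0) (P.cons (P.lf 7228085 0 0) (P.lf 2409361 0 0)))) (P.cons (P.cons (P.lf 192878671 0 0) (P.cons (P.lf 0 21432551 0) (P.cons (P.lf 1432928 0 0) (P.lf 477640 0 0)))) (P.cons (P.cons (P.lf 0 4391884 0) (P.cons (P.lf 0 834271 0) (P.cons (P.lf 55776 0 0) (P.lf 18590 0 0)))) (P.cons (P.cons (P.lf 0 946222 0) (P.cons (P.lf 92506 0 0) (P.cons (P.lf 0 6185 0) P.nil))) (P.cons (P.cons (P.lf 540 0 0) (P.cons (P.lf 8675 0 0) P.nil)) (P.cons (P.cons (P.lf 2780 0 0) P.nil) P.nil)))))) 5980)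
 EL.nil)
noncomputable def S125_140_512_660_32 : EL := (EL.cons 13 (TM.mk (P.cons (P.cons (P.lf 212808620 0 0) (P.cons (P.lf 55672016 0 0) (P.cons (P.lf 0 81065 0) (P.cons (P.lf 0 1727561 0) (P.cons (P.lf 0 146012 0) (P.cons (P.lf 10849 0 0) P.nil)))))) (P.cons (P.cons (P.lf 0 92223993 0) (P.cons (P.lf 0 97946 0) (P.cons (P.lf 1571636 0 0) (P.cons (P.lf 0 207091 0) (P.cons (P.lf 0 62762 0) P.nil))))) (P.cons (P.cons (P.lf 11145458 0 0) (P.cons (P.lf 0 1756275 0) (P.cons (P.lf 375268 0 0) (P.cons (P.lf 4663 0 0) P.nil)))) (P.cons (P.cons (P.lf 174680 0 0) (P.cons (P.lf 0 83151 0) (P.cons (P.lf 21872 0 0) P.nil))) (P.cons (P.cons (P.lf 0 84748 0) (P.cons (P.lf 15641 0 0) P.nil)) (P.cons (P.cons (P.lf 0 1002 0) P.nil) P.nil)))))) 50836)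
 EL.nil)
noncomputable def S125_140_512_660_33 : EL := (EL.cons 14 (TM.mk (P.lf 8589934592 0 0) 0)
 EL.nil)
noncomputable def S125_140_512_660_34 : EL := (EL.cons 14 (TM.mk (P.cons (P.cons (P.lf 0 2211691894 0) (P.cons (P.lf 0 289295960 0) (P.cons (P.lf 19341648 0 0) (P.lf 6447216 0 0)))) (P.cons (P.cons (P.lf 442347404 0 0) (P.cons (P.lf 0 67001656 0) (P.cons (P.lf 4479568 0 0) (P.lf 1493184 0 0)))) (P.cons (P.cons (P.lf 0 854050 0) (P.cons (P.lf 0 4972024 0) (P.cons (P.lf 332416 0 0) (P.lf 110800 0 0)))) (P.cons (P.cons (P.lf 0 1833238 0) (P.cons (P.lf 0 40968 0) (P.cons (P.lf 2736 0 0) P.nil))) (P.cons (P.cons (P.lf 0 50350 0) (P.cons (P.lf 12096 0 0) P.nil)) (P.cons (P.cons (P.lf 2240 0 0) P.nil) P.nil)))))) 7274)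
 EL.nil)
noncomputable def S125_140_512_660_35 : EL := (EL.cons 14 (TM.mk (P.cons (P.cons (P.lf 569454980 0 0) (P.cons (P.lf 148972852 0 0) (P.cons (P.lf 0 216924 0) (P.cons (P.lf 0 4622786 0) (P.cons (P.lf 0 390714 0) (P.cons (P.lf 29032 0 0) P.nil)))))) (P.cons (P.cons (P.lf 0 227786638 0) (P.cons (P.lf 4707300 0 0) (P.cons (P.lf 4198310 0 0) (P.cons (P.lf 0 708362 0) (P.cons (P.lf 0 180980 0) P.nil))))) (P.cons (P.cons (P.lf 23218920 0 0) (P.cons (P.lf 0 4282768 0) (P.cons (P.lf 1143850 0 0) (P.cons (P.lf 0 19214 0) P.nil)))) (P.cons (P.cons (P.lf 856064 0 0) (P.cons (P.lf 0 354176 0) (P.cons (P.lf 104004 0 0) P.nil))) (P.cons (P.cons (P.lf 0 162796 0) (P.cons (P.lf 22530 0 0) P.nil)) (P.cons (P.cons (P.lf 0 5974 0) P.nil) P.nil)))))) 114038)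
 EL.nil)
noncomputable def S125_140_512_660_36 : EL := (EL.cons 14 (TM.mk (P.cons (P.lf 0 6420216512 0) (P.cons (P.lf 214163752 0 0) (P.cons (P.lf 11197744 0 0) (P.cons (P.lf 128496 0 0) (P.cons (P.lf 0 5784 0) (P.cons (P.lf 0 264 0) P.nil)))))) 136)
 EL.nil)
noncomputable def S125_140_512_660_37 : EL := (EL.cons 14 (TM.mk (P.cons (P.cons (P.lf 1653044114 0 0) (P.cons (P.lf 216223148 0 0) (P.cons (P.lf 0 14456170 0) (P.lf 0 4818722 0)))) (P.cons (P.cons (P.lf 0 385757342 0) (P.cons (P.lf 42865102 0 0) (P.cons (P.lf 0 2865856 0) (P.lf 0 955280 0)))) (P.cons (P.cons (P.lf 8783768 0 0) (P.cons (P.lf 1668542 0 0) (P.cons (P.lf 0 111552 0) (P.lf 0 37180 0)))) (P.cons (P.cons (P.lf 1892444 0 0) (P.cons (P.lf 0 185012 0) (P.cons (P.lf 12370 0 0) P.nil))) (P.cons (P.cons (P.lf 0 1080 0) (P.cons (P.lf 0 17350 0) P.nil)) (P.cons (P.cons (P.lf 0 5560 0) P.nil) P.nil))))))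 11960)
 EL.nil)
noncomputable def S125_140_512_660_38 : EL := (EL.cons 14 (TM.mk (P.cons (P.cons (P.lf 0 425617240 0) (P.cons (P.lf 0 111344032 0) (P.cons (P.lf 162130 0 0) (P.cons (P.lf 3455122 0 0) (P.cons (P.lf 292024 0 0) (P.cons (P.lf 0 21698 0) P.nil)))))) (P.cons (P.cons (P.lf 184447986 0 0) (P.cons (P.lf 195892 0 0) (P.cons (P.lf 0 3143272 0) (P.cons (P.lf 414182 0 0) (P.cons (P.lf 125524 0 0) P.nil))))) (P.cons (P.cons (P.lf 0 22290916 0) (P.cons (P.lf 3512550 0 0) (P.cons (P.lf 0 750536 0) (P.cons (P.lf 0 9326 0) P.nil)))) (P.cons (P.cons (P.lf 0 349360 0) (P.cons (P.lf 166302 0 0) (P.cons (P.lf 0 43744 0) P.nil))) (P.cons (P.cons (P.lf 169496 0 0) (P.cons (P.lf 0 31282 0) P.nil)) (P.cons (P.cons (P.lf 2004 0 0) P.nil) P.nil)))))) 101672)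
 EL.nil)
noncomputable def S125_140_512_660_39 : EL := (EL.cons 14 (TM.mk (P.cons (P.lf 4798544112 0 0) (P.cons (P.lf 0 320136932 0) (P.cons (P.lf 0 11399128 0) (P.cons (P.lf 366284 0 0) (P.cons (P.lf 29650 0 0) (P.cons (P.lf 440 0 0) P.nil)))))) 254)
 EL.nil)
noncomputable def S125_140_512_660_40 : EL := (EL.cons 14 (TM.mk (P.cons (P.cons (P.lf 0 1235504298 0) (P.cons (P.lf 0 161607682 0) (P.cons (P.lf 10804708 0 0) (P.lf 3601568 0 0)))) (P.cons (P.cons (P.lf 329533100 0 0) (P.cons (P.lf 0 26647010 0) (P.cons (P.lf 1781552 0 0) (P.lf 593848 0 0)))) (P.cons (P.cons (P.lf 0 14027880 0) (P.cons (P.lf 103486 0 0) (P.cons (P.lf 0 6918 0) (P.lf 0 2308 0)))) (P.cons (P.cons (P.lf 0 1673578 0) (P.cons (P.lf 238992 0 0) (P.cons (P.lf 0 15980 0) P.nil))) (P.cons (P.cons (P.lf 52556 0 0) (P.cons (P.lf 11026 0 0) P.nil)) (P.cons (P.cons (P.lf 6936 0 0) P.nil) P.nil))))))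 13206)
 EL.nil)
noncomputable def S125_140_512_660_41 : EL := (EL.cons 14 (TM.mk (P.cons (P.cons (P.lf 318111250 0 0) (P.cons (P.lf 83219818 0 0) (P.cons (P.lf 0 121178 0) (P.cons (P.lf 0 2582398 0) (P.cons (P.lf 0 218262 0) (P.cons (P.lf 16216 0 0) P.nil)))))) (P.cons (P.cons (P.lf 0 148470024 0) (P.cons (P.lf 0 2922434 0) (P.cons (P.lf 2353360 0 0) (P.cons (P.lf 0 223422 0) (P.cons (P.lf 0 86538 0) P.nil))))) (P.cons (P.cons (P.lf 20704306 0 0) (P.cons (P.lf 0 2765584 0) (P.cons (P.lf 482802 0 0) (P.cons (P.lf 21800 0 0) P.nil)))) (P.cons (P.cons (P.lf 0 60560 0) (P.cons (P.lf 0 38130 0) (P.cons (P.lf 9888 0 0) P.nil))) (P.cons (P.cons (P.lf 0 161406 0) (P.cons (P.lf 32182 0 0) P.nil)) (P.cons (P.cons (P.lf 1826 0 0) P.nil) P.nil)))))) 86714)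
 EL.nil)
noncomputable def S125_140_512_660_42 : EL := (EL.cons 14 (TM.mk (P.cons (P.lf 0 3586487394 0) (P.cons (P.lf 358911070 0 0) (P.cons (P.lf 6793532 0 0) (P.cons (P.lf 0 903512 0) (P.cons (P.lf 0 35908 0) (P.cons (P.lf 784 0 0) P.nil)))))) 366)
 EL.nil)
noncomputable def S125_140_512_660_43 : EL := (EL.cons 14 (TM.mk (P.cons (P.cons (P.lf 923430208 0 0) (P.cons (P.lf 120787452 0 0) (P.cons (P.lf 0 8075564 0) (P.lf 0 2691854 0)))) (P.cons (P.cons (P.lf 0 277100374 0) (P.cons (P.lf 15887090 0 0) (P.cons (P.lf 0 1062170 0) (P.lf 0 354054 0)))) (P.cons (P.cons (P.lf 17089910 0 0) (P.cons (P.lf 0 952378 0) (P.cons (P.lf 63674 0 0) (P.lf 21226 0 0)))) (P.cons (P.cons (P.lf 1312204 0 0) (P.cons (P.lf 0 213200 0) (P.cons (P.lf 14254 0 0) P.nil))) (P.cons (P.cons (P.lf 0 93532 0) (P.cons (P.lf 0 2436 0) P.nil)) (P.cons (P.cons (P.lf 0 6450 0) P.nil) P.nil)))))) 13078)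
 EL.nil)
noncomputable def S125_140_512_660_44 : EL := (EL.cons 14 (TM.mk (P.cons (P.cons (P.lf 0 237760030 0) (P.cons (P.lf 0 62199454 0) (P.cons (P.lf 90570 0 0) (P.cons (P.lf 1930114 0 0) (P.cons (P.lf 163130 0 0) (P.cons (P.lf 0 12120 0) P.nil)))))) (P.cons (P.cons (P.lf 118899344 0 0) (P.cons (P.lf 4259092 0 0) (P.cons (P.lf 0 1761950 0) (P.cons (P.lf 102604 0 0) (P.cons (P.lf 59238 0 0) P.nil))))) (P.cons (P.cons (P.lf 0 18761596 0) (P.cons (P.lf 2102652 0 0) (P.cons (P.lf 0 302336 0) (P.cons (P.lf 0 25230 0) P.nil)))) (P.cons (P.cons (P.lf 372676 0 0) (P.cons (P.lf 0 43016 0) (P.cons (P.lf 7712 0 0) P.nil))) (P.cons (P.cons (P.lf 143680 0 0) (P.cons (P.lf 0 28710 0) P.nil)) (P.cons (P.cons (P.lf 0 5068 0) P.nil) P.nil)))))) 72174)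
 EL.nil)
noncomputable def S125_140_512_660_45 : EL := (EL.cons 14 (TM.mk (P.cons (P.cons (P.lf 0 146620320 0) (P.cons (P.lf 0 57535138 0) (P.cons (P.lf 0 3679104 0) (P.cons (P.lf 1960400 0 0) (P.cons (P.lf 367610 0 0) (P.cons (P.lf 0 4888 0) P.nil)))))) (P.cons (P.cons (P.lf 87973986 0 0) (P.cons (P.lf 9689244 0 0) (P.cons (P.lf 0 2628588 0) (P.cons (P.lf 0 179060 0) (P.cons (P.lf 125160 0 0) P.nil))))) (P.cons (P.cons (P.lf 0 17765008 0) (P.cons (P.lf 1995450 0 0) (P.cons (P.lf 0 101472 0) (P.cons (P.lf 0 118462 0) P.nil)))) (P.cons (P.cons (P.lf 876382 0 0) (P.cons (P.lf 0 242422 0) (P.cons (P.lf 79054 0 0) P.nil))) (P.cons (P.cons (P.lf 128966 0 0) (P.cons (P.lf 0 38236 0) P.nil)) (P.cons (P.cons (P.lf 0 10400 0) P.nil) P.nil)))))) 155512)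
 EL.nil)
noncomputable def S125_140_512_660_46 : EL := (EL.cons 15 (TM.mk (P.lf 4294967296 0 0) 0)
 EL.nil)
noncomputable def S125_140_512_660_47 : EL := (EL.cons 15 (TM.mk (P.cons (P.cons (P.lf 0 1105845947 0) (P.cons (P.lf 0 144647980 0) (P.cons (P.lf 9670824 0 0) (P.lf 3223608 0 0)))) (P.cons (P.cons (P.lf 221173702 0 0) (P.cons (P.lf 0 33500828 0) (P.cons (P.lf 2239784 0 0) (P.lf 746592 0 0)))) (P.cons (P.cons (P.lf 0 427025 0) (P.cons (P.lf 0 2486012 0) (P.cons (P.lf 166208 0 0) (P.lf 55400 0 0)))) (P.cons (P.cons (P.lf 0 916619 0) (P.cons (P.lf 0 20484 0) (P.cons (P.lf 1368 0 0) P.nil))) (P.cons (P.cons (P.lf 0 25175 0) (P.cons (P.lf 6048 0 0) P.nil)) (P.cons (P.cons (P.lf 1120 0 0) P.nil) P.nil)))))) 3637)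
 EL.nil)
noncomputable def S125_140_512_660_48 : EL := (EL.cons 15 (TM.mk (P.cons (P.cons (P.lf 284727490 0 0) (P.cons (P.lf 74486426 0 0) (P.cons (P.lf 0 108462 0) (P.cons (P.lf 0 2311393 0) (P.cons (P.lf 0 195357 0) (P.cons (P.lf 14516 0 0) P.nil)))))) (P.cons (P.cons (P.lf 0 113893319 0) (P.cons (P.lf 2353650 0 0) (P.cons (P.lf 2099155 0 0) (P.cons (P.lf 0 354181 0) (P.cons (P.lf 0 90490 0) P.nil))))) (P.cons (P.cons (P.lf 11609460 0 0) (P.cons (P.lf 0 2141384 0) (P.cons (P.lf 571925 0 0) (P.cons (P.lf 0 9607 0) P.nil)))) (P.cons (P.cons (P.lf 428032 0 0) (P.cons (P.lf 0 177088 0) (P.cons (P.lf 52002 0 0) P.nil))) (P.cons (P.cons (P.lf 0 81398 0) (P.cons (P.lf 11265 0 0) P.nil)) (P.cons (P.cons (P.lf 0 2987 0) P.nil) P.nil)))))) 57019)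
 EL.nil)
noncomputable def S125_140_512_660 : SL := (SL.cons S125_140_512_660_0 (SL.cons S125_140_512_660_1 (SL.cons S125_140_512_660_2 (SL.cons S125_140_512_660_3 (SL.cons S125_140_512_660_4 (SL.cons S125_140_512_660_5 (SL.cons S125_140_512_660_6 (SL.cons S125_140_512_660_7 (SL.cons S125_140_512_660_8 (SL.cons S125_140_512_660_9 (SL.cons S125_140_512_660_10 (SL.cons S125_140_512_660_11 (SL.cons S125_140_512_660_12 (SL.cons S125_140_512_660_13 (SL.cons S125_140_512_660_14 (SL.cons S125_140_512_660_15 (SL.cons S125_140_512_660_16 (SL.cons S125_140_512_660_17 (SL.cons S125_140_512_660_18 (SL.cons S125_140_512_660_19 (SL.cons S125_140_512_660_20 (SL.cons S125_140_512_660_21 (SL.cons S125_140_512_660_22 (SL.cons S125_140_512_660_23 (SL.cons S125_140_512_660_24 (SL.cons S125_140_512_660_25 (SL.cons S125_140_512_660_26 (SL.cons S125_140_512_660_27 (SL.cons S125_140_512_660_28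 (SL.cons S125_140_512_660_29 (SL.cons S125_140_512_660_30 (SL.cons S125_140_512_660_31 (SL.cons S125_140_512_660_32 (SL.cons S125_140_512_660_33 (SL.cons S125_140_512_660_34 (SL.cons S125_140_512_660_35 (SL.cons S125_140_512_660_36 (SL.cons S125_140_512_660_37 (SL.cons S125_140_512_660_38 (SL.cons S125_140_512_660_39 (SL.cons S125_140_512_660_40 (SL.cons S125_140_512_660_41 (SL.cons S125_140_512_660_42 (SL.cons S125_140_512_660_43 (SL.cons S125_140_512_660_44 (SL.cons S125_140_512_660_45 (SL.cons S125_140_512_660_46 (SL.cons S125_140_512_660_47 (SL.cons S125_140_512_660_48 SL.nil)))))))))))))))))))))))))))))))))))))))))))))))))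
theorem S111_140_660_808_ok : band (seq (shp 5 111 140 660 808) S111_140_660_808) (sok S111_140_660_808) = true := by decide +kernel

theorem S125_140_216_364_ok : band (seq (shp 5 125 140 216 364) S125_140_216_364) (sok S125_140_216_364) = true := by decide +kernel

theorem S125_140_364_438_ok : band (seq (shp 5 125 140 364 438) S125_140_364_438) (sok S125_140_364_438) = true := by decide +kernel

theorem S125_140_364_512_ok : band (seq (shp 5 125 140 364 512) S125_140_364_512) (sok S125_140_364_512) = true := by decide +kernel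

theorem S125_140_438_512_ok : band (seq (shp 5 125 140 438 512) S125_140_438_512) (sok S125_140_438_512) = true := by decide +kernel

theorem S125_140_512_660_ok : band (seq (shp 5 125 140 512 660) S125_140_512_660) (sok S125_140_512_660) = true := by decide +kernel

end Vale.Agent.P098.Ck
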