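import Vale.Agent.P098.CkDefs

namespace Vale.Agent.P098.Ck

noncomputable def S140_169_290_364_0 : EL := (EL.cons 0 (TM.mk (P.cons (P.lf 5139680571 0 0) (P.cons (P.lf 636245268 0 0) (P.cons (P.lf 21563379 0 0) (P.cons (P.lf 0 4685115 0) (P.cons (P.lf 0 394321 0) (P.cons (P.lf 4352 0 0) P.nil)))))) 3197)
 (EL.cons 1 (TM.mk (P.cons (P.lf 0 1792040857 0) (P.cons (P.lf 0 37383279 0) (P.cons (P.lf 39281548 0 0) (P.cons (P.lf 2177913 0 0) (P.cons (P.lf 0 137038 0) (P.cons (P.lf 0 19477 0) P.nil)))))) 1484)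
 (EL.cons 5 (TM.mk (P.cons (P.lf 5474002426 0 0) (P.cons (P.lf 0 226220540 0) (P.cons (P.lf 0 7666984 0) (P.cons (P.lf 1665814 0 0) (P.cons (P.lf 140204 0 0) (P.cons (P.lf 0 1546 0) P.nil)))))) 969)
 (EL.cons 9 (TM.mk (P.lf 6442450944 0 0) 2)
 EL.nil))))
noncomputable def S140_169_290_364_1 : EL := (EL.cons 0 (TM.mk (P.cons (P.cons (P.lf 0 4042736039 0) (P.cons (P.lf 96024591 0 0) (P.cons (P.lf 12365183 0 0) (P.lf 0 824334 0)))) (P.cons (P.cons (P.lf 1082163611 0 0) (P.cons (P.lf 0 17177757 0) (P.cons (P.lf 0 2212006 0) (P.lf 147477 0 0)))) (P.cons (P.cons (P.lf 370705017 0 0) (P.cons (P.lf 0 16425162 0) (P.cons (P.lf 0 2115080 0) (P.lf 140997 0 0)))) (P.cons (P.cons (P.lf 0 4368331 0) (P.cons (P.lf 0 2063818 0) (P.cons (P.lf 0 265757 0) P.nil))) (P.cons (P.cons (P.lf 0 8809705 0) (P.cons (P.lf 159446 0 0) P.nil)) (P.cons (P.cons (P.lf 0 540959 0) P.nil) P.nil))))))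 379583)
 (EL.cons 1 (TM.mk (P.cons (P.cons (P.lf 97518771 0 0) (P.cons (P.lf 24114415 0 0) (P.cons (P.lf 3105234 0 0) (P.lf 0 207007 0)))) (P.cons (P.cons (P.lf 0 877954588 0) (P.cons (P.lf 36757680 0 0) (P.cons (P.lf 4733320 0 0) (P.lf 0 315542 0)))) (P.cons (P.cons (P.lf 8651758 0 0) (P.cons (P.lf 5197381 0 0) (P.cons (P.lf 669267 0 0) (P.lf 0 44610 0)))) (P.cons (P.cons (P.lf 37232488 0 0) (P.cons (P.lf 0 942584 0) (P.cons (P.lf 0 121373 0) P.nil))) (P.cons (P.cons (P.lf 1746437 0 0) (P.cons (P.lf 0 226448 0) P.nil)) (P.cons (P.cons (P.lf 0 516674 0) P.nil) P.nil)))))) 193752)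
 (EL.cons 5 (TM.mk (P.cons (P.cons (P.lf 2123515730 0 0) (P.cons (P.lf 0 179952360 0) (P.cons (P.lf 0 23172664 0) (P.lf 1544844 0 0)))) (P.cons (P.cons (P.lf 779090531 0 0) (P.cons (P.lf 0 44982242 0) (P.cons (P.lf 0 5792412 0) (P.lf 386154 0 0)))) (P.cons (P.cons (P.lf 0 142756080 0) (P.cons (P.lf 1125006 0 0) (P.cons (P.lf 144866 0 0) (P.lf 0 9650 0)))) (P.cons (P.cons (P.lf 0 14624562 0) (P.cons (P.lf 1023928 0 0) (P.cons (P.lf 131848 0 0) P.nil))) (P.cons (P.cons (P.lf 2423139 0 0) (P.cons (P.lf 17120 0 0) P.nil)) (P.cons (P.cons (P.lf 286280 0 0) P.nil) P.nil)))))) 133011)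
 (EL.cons 9 (TM.mk (P.cons (P.cons (P.lf 605380992 0 0) (P.cons (P.lf 0 128656128 0) (P.cons (P.lf 0 16567188 0) (P.lf 1104474 0 0)))) (P.cons (P.cons (P.lf 1026935119 0 0) (P.cons (P.lf 0 45079308 0) (P.cons (P.lf 0 5804910 0) (P.lf 386988 0 0)))) (P.cons (P.cons (P.lf 0 9661636 0) (P.cons (P.lf 0 4160334 0) (P.cons (P.lf 0 535728 0) (P.lf 35712 0 0)))) (P.cons (P.cons (P.lf 0 14274474 0) (P.cons (P.lf 255996 0 0) (P.cons (P.lf 32964 0 0) P.nil))) (P.cons (P.cons (P.lf 0 625755 0) (P.cons (P.lf 65124 0 0) P.nil)) (P.cons (P.cons (P.lf 82888 0 0) P.nil) P.nil)))))) 31937)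
 (EL.cons 2 (TM.mk (P.cons (P.cons (P.lf 513216784 0 0) (P.cons (P.lf 146511793 0 0) (P.cons (P.lf 0 10958844 0) (P.cons (P.lf 0 738464 0) (P.lf 36922 0 0))))) (P.cons (P.cons (P.lf 70647401 0 0) (P.cons (P.lf 20168235 0 0) (P.cons (P.lf 0 1508549 0) (P.cons (P.lf 0 101652 0) (P.lf 5082 0 0))))) (P.cons (P.cons (P.lf 0 11468219 0) (P.cons (P.lf 0 3273915 0) (P.cons (P.lf 244884 0 0) (P.cons (P.lf 16500 0 0) P.nil)))) (P.cons (P.cons (P.lf 0 2238105 0) (P.cons (P.lf 0 638926 0) (P.cons (P.lf 47787 0 0) P.nil))) (P.cons (P.cons (P.lf 0 14768 0) (P.cons (P.lf 0 4213 0) P.nil)) (P.cons (P.cons (P.lf 18239 0 0) P.nil) P.nil)))))) 17613)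
 (EL.cons 6 (TM.mk (P.cons (P.cons (P.lf 277350837 0 0) (P.cons (P.lf 79177395 0 0) (P.cons (P.lf 0 5922339 0) (P.cons (P.lf 0 399078 0) (P.lf 19953 0 0))))) (P.cons (P.cons (P.lf 97179852 0 0) (P.cons (P.lf 27742650 0 0) (P.cons (P.lf 0 2075103 0) (P.cons (P.lf 0 139830 0) (P.lf 6990 0 0))))) (P.cons (P.cons (P.lf 8968659 0 0) (P.cons (P.lf 2560347 0 0) (P.cons (P.lf 0 191508 0) (P.cons (P.lf 0 12903 0) P.nil)))) (P.cons (P.cons (P.lf 0 551865 0) (P.cons (P.lf 0 157545 0) (P.cons (P.lf 11781 0 0) P.nil))) (P.cons (P.cons (P.lf 0 140397 0) (P.cons (P.lf 0 40080 0) P.nil)) (P.cons (P.cons (P.lf 0 4719 0) P.nil) P.nil)))))) 9624)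
 EL.nil))))))
noncomputable def S140_169_290_364_2 : EL := (EL.cons 0 (TM.mk (P.cons (P.cons (P.lf 0 805154385 0) (P.cons (P.lf 198803331 0 0) (P.cons (P.lf 19715158 0 0) (P.cons (P.lf 0 3222279 0) (P.cons (P.lf 3452 0 0) (P.cons (P.lf 13006 0 0) P.nil)))))) (P.cons (P.cons (P.lf 0 1245046241 0) (P.cons (P.lf 82607233 0 0) (P.cons (P.lf 8289553 0 0) (P.cons (P.lf 0 1313815 0) (P.cons (P.lf 1370 0 0) P.nil))))) (P.cons (P.cons (P.lf 278395811 0 0) (P.cons (P.lf 0 16830690 0) (P.cons (P.lf 0 1965529 0) (P.cons (P.lf 196459 0 0) P.nil)))) (P.cons (P.cons (P.lf 120035850 0 0) (P.cons (P.lf 0 10667030 0) (P.cons (P.lf 0 1121503 0) P.nil))) (P.cons (P.cons (P.lf 0 4286395 0) (P.cons (P.lf 0 778359 0) P.nil)) (P.cons (P.cons (P.lf 0 4133139 0) P.nil) P.nil)))))) 2032726)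
 (EL.cons 1 (TM.mk (P.cons (P.cons (P.lf 34150716 0 0) (P.cons (P.lf 0 6088628 0) (P.cons (P.lf 0 1032504 0) (P.cons (P.lf 0 11716 0) (P.cons (P.lf 142 0 0) (P.cons (P.lf 547 0 0) P.nil)))))) (P.cons (P.cons (P.lf 0 79894743 0) (P.cons (P.lf 34390758 0 0) (P.cons (P.lf 3138688 0 0) (P.cons (P.lf 0 627416 0) (P.cons (P.lf 757 0 0) P.nil))))) (P.cons (P.cons (P.lf 0 232759206 0) (P.cons (P.lf 20190427 0 0) (P.cons (P.lf 1975541 0 0) (P.cons (P.lf 0 334123 0) P.nil)))) (P.cons (P.cons (P.lf 10096995 0 0) (P.cons (P.lf 861072 0 0) (P.cons (P.lf 34536 0 0) P.nil))) (P.cons (P.cons (P.lf 13664664 0 0) (P.cons (P.lf 0 1000958 0) P.nil)) (P.cons (P.cons (P.lf 401153 0 0) P.nil) P.nil)))))) 1086055)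
 (EL.cons 5 (TM.mk (P.cons (P.cons (P.lf 350748066 0 0) (P.cons (P.lf 0 98088475 0) (P.cons (P.lf 0 7626680 0) (P.cons (P.lf 2130869 0 0) (P.cons (P.lf 0 2939 0) (P.cons (P.lf 0 11055 0) P.nil)))))) (P.cons (P.cons (P.lf 661413095 0 0) (P.cons (P.lf 0 85457741 0) (P.cons (P.lf 0 8129147 0) (P.cons (P.lf 1474144 0 0) (P.cons (P.lf 0 1686 0) P.nil))))) (P.cons (P.cons (P.lf 84477747 0 0) (P.cons (P.lf 0 10752130 0) (P.cons (P.lf 0 910505 0) (P.cons (P.lf 214395 0 0) P.nil)))) (P.cons (P.cons (P.lf 0 49210609 0) (P.cons (P.lf 3143448 0 0) (P.cons (P.lf 369540 0 0) P.nil))) (P.cons (P.cons (P.lf 0 3750320 0) (P.cons (P.lf 651980 0 0) P.nil)) (P.cons (P.cons (P.lf 1309639 0 0) P.nil) P.nil)))))) 873315)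
 (EL.cons 9 (TM.mk (P.cons (P.cons (P.lf 56886136 0 0) (P.cons (P.lf 0 24178987 0) (P.cons (P.lf 0 544282 0) (P.cons (P.lf 869263 0 0) (P.cons (P.lf 0 1509 0) (P.cons (P.lf 0 5679 0) P.nil)))))) (P.cons (P.cons (P.lf 192997045 0 0) (P.cons (P.lf 0 49487889 0) (P.cons (P.lf 0 4572135 0) (P.cons (P.lf 888534 0 0) (P.cons (P.lf 0 1056 0) P.nil))))) (P.cons (P.cons (P.lf 161879043 0 0) (P.cons (P.lf 0 14767386 0) (P.cons (P.lf 0 1420015 0) (P.cons (P.lf 250801 0 0) P.nil)))) (P.cons (P.cons (P.lf 0 5762827 0) (P.cons (P.lf 0 572880 0) (P.cons (P.lf 0 25771 0) P.nil))) (P.cons (P.cons (P.lf 0 4653850 0) (P.cons (P.lf 331084 0 0) P.nil)) (P.cons (P.cons (P.lf 0 141099 0) P.nil) P.nil)))))) 257197)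
 (EL.cons 2 (TM.mk (P.cons (P.cons (P.lf 96451391 0 0) (P.cons (P.lf 7036751 0 0) (P.cons (P.lf 0 10550790 0) (P.cons (P.lf 0 278645 0) (P.cons (P.lf 143026 0 0) (P.cons (P.lf 0 1428 0) P.nil)))))) (P.cons (P.cons (P.lf 176891973 0 0) (P.cons (P.lf 40494802 0 0) (P.cons (P.lf 0 7921299 0) (P.cons (P.lf 0 322785 0) (P.cons (P.lf 79143 0 0) P.nil))))) (P.cons (P.cons (P.lf 18827971 0 0) (P.cons (P.lf 4181490 0 0) (P.cons (P.lf 0 896428 0) (P.cons (P.lf 0 35229 0) P.nil)))) (P.cons (P.cons (P.lf 0 6562873 0) (P.cons (P.lf 0 1674123 0) (P.cons (P.lf 222744 0 0) P.nil))) (P.cons (P.cons (P.lf 0 1094653 0) (P.cons (P.lf 0 249783 0) P.nil)) (P.cons (P.cons (P.lf 55732 0 0) P.nil) P.nil)))))) 215605)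
 (EL.cons 6 (TM.mk (P.cons (P.cons (P.lf 52123926 0 0) (P.cons (P.lf 3802776 0 0) (P.cons (P.lf 0 5701818 0) (P.cons (P.lf 0 150582 0) (P.cons (P.lf 77292 0 0) (P.cons (P.lf 0 768 0) P.nil)))))) (P.cons (P.cons (P.lf 106683666 0 0) (P.cons (P.lf 22693020 0 0) (P.cons (P.lf 0 5493744 0) (P.cons (P.lf 0 206472 0) (P.cons (P.lf 59214 0 0) P.nil))))) (P.cons (P.cons (P.lf 31834836 0 0) (P.cons (P.lf 7011726 0 0) (P.cons (P.lf 0 1539918 0) (P.cons (P.lf 0 59970 0) P.nil)))) (P.cons (P.cons (P.lf 1234992 0 0) (P.cons (P.lf 145620 0 0) (P.cons (P.lf 0 112092 0) P.nil))) (P.cons (P.cons (P.lf 0 713736 0) (P.cons (P.lf 0 188676 0) P.nil)) (P.cons (P.cons (P.lf 0 95472 0) P.nil) P.nil)))))) 132744)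
 EL.nil))))))
noncomputable def S140_169_290_364_3 : EL := (EL.cons 0 (TM.mk (P.cons (P.lf 3316036292 0 0) (P.cons (P.lf 0 636245268 0) (P.cons (P.lf 0 21563379 0) (P.cons (P.lf 4685115 0 0) (P.cons (P.lf 394321 0 0) (P.cons (P.lf 0 4352 0) P.nil)))))) 3197)
 (EL.cons 1 (TM.mk (P.cons (P.lf 1792040857 0 0) (P.cons (P.lf 37383279 0 0) (P.cons (P.lf 0 39281548 0) (P.cons (P.lf 0 2177913 0) (P.cons (P.lf 137038 0 0) (P.cons (P.lf 19477 0 0) P.nil)))))) 1484)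
 (EL.cons 5 (TM.mk (P.cons (P.lf 968448518 0 0) (P.cons (P.lf 226220540 0 0) (P.cons (P.lf 7666984 0 0) (P.cons (P.lf 0 1665814 0) (P.cons (P.lf 0 140204 0) (P.cons (P.lf 1546 0 0) P.nil)))))) 962)
 EL.nil)))
noncomputable def S140_169_290_364_4 : EL := (EL.cons 0 (TM.mk (P.cons (P.cons (P.lf 311599631 0 0) (P.cons (P.lf 0 66221441 0) (P.cons (P.lf 0 8527405 0) (P.lf 568490 0 0)))) (P.cons (P.cons (P.lf 468794151 0 0) (P.cons (P.lf 0 10497209 0) (P.cons (P.lf 0 1351734 0) (P.lf 90112 0 0)))) (P.cons (P.cons (P.lf 0 108417589 0) (P.cons (P.lf 2741182 0 0) (P.cons (P.lf 352986 0 0) (P.lf 0 23531 0)))) (P.cons (P.cons (P.lf 0 9390123 0) (P.cons (P.lf 599953 0 0) (P.cons (P.lf 77255 0 0) P.nil))) (P.cons (P.cons (P.lf 1903839 0 0) (P.cons (P.lf 0 18492 0) P.nil)) (P.cons (P.cons (P.lf 207659 0 0) P.nil) P.nil)))))) 75638)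
 (EL.cons 1 (TM.mk (P.cons (P.cons (P.lf 168393592 0 0) (P.cons (P.lf 0 35787161 0) (P.cons (P.lf 0 4608350 0) (P.lf 307220 0 0)))) (P.cons (P.cons (P.lf 289166471 0 0) (P.cons (P.lf 0 13285865 0) (P.cons (P.lf 0 1710834 0) (P.lf 114052 0 0)))) (P.cons (P.cons (P.lf 0 419737 0) (P.cons (P.lf 0 634368 0) (P.cons (P.lf 0 81686 0) (P.lf 5445 0 0)))) (P.cons (P.cons (P.lf 0 10492852 0) (P.cons (P.lf 365420 0 0) (P.cons (P.lf 47055 0 0) P.nil))) (P.cons (P.cons (P.lf 0 532265 0) (P.cons (P.lf 57468 0 0) P.nil)) (P.cons (P.cons (P.lf 133400 0 0) P.nil) P.nil)))))) 48170)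
 (EL.cons 5 (TM.mk (P.cons (P.cons (P.lf 91002682 0 0) (P.cons (P.lf 0 19339974 0) (P.cons (P.lf 0 2490428 0) (P.lf 166026 0 0)))) (P.cons (P.cons (P.lf 175629338 0 0) (P.cons (P.lf 0 11294092 0) (P.cons (P.lf 0 1454352 0) (P.lf 96954 0 0)))) (P.cons (P.cons (P.lf 35327930 0 0) (P.cons (P.lf 0 2361420 0) (P.cons (P.lf 0 304082 0) (P.lf 20270 0 0)))) (P.cons (P.cons (P.lf 0 1419444 0) (P.cons (P.lf 0 127984 0) (P.cons (P.lf 0 16480 0) P.nil))) (P.cons (P.cons (P.lf 0 885504 0) (P.cons (P.lf 28282 0 0) P.nil)) (P.cons (P.cons (P.lf 0 46204 0) P.nil) P.nil)))))) 24856)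
 EL.nil)))
noncomputable def S140_169_290_364_5 : EL := (EL.cons 0 (TM.mk (P.cons (P.cons (P.lf 29280236 0 0) (P.cons (P.lf 0 12445324 0) (P.cons (P.lf 0 280149 0) (P.cons (P.lf 447423 0 0) (P.cons (P.lf 0 775 0) (P.cons (P.lf 0 2921 0) P.nil)))))) (P.cons (P.cons (P.lf 93720802 0 0) (P.cons (P.lf 0 23084361 0) (P.cons (P.lf 0 2299600 0) (P.cons (P.lf 371496 0 0) (P.cons (P.lf 0 393 0) P.nil))))) (P.cons (P.cons (P.lf 64071370 0 0) (P.cons (P.lf 0 2632751 0) (P.cons (P.lf 0 277546 0) (P.cons (P.lf 38431 0 0) P.nil)))) (P.cons (P.cons (P.lf 0 19557722 0) (P.cons (P.lf 1311586 0 0) (P.cons (P.lf 141880 0 0) P.nil))) (P.cons (P.cons (P.lf 0 2224274 0) (P.cons (P.lf 238950 0 0) P.nil)) (P.cons (P.cons (P.lf 535765 0 0) P.nil) P.nil)))))) 301815)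
 (EL.cons 1 (TM.mk (P.cons (P.cons (P.lf 15823522 0 0) (P.cons (P.lf 0 6725658 0) (P.cons (P.lf 0 151396 0) (P.cons (P.lf 241794 0 0) (P.cons (P.lf 0 418 0) (P.cons (P.lf 0 1578 0) P.nil)))))) (P.cons (P.cons (P.lf 54014407 0 0) (P.cons (P.lf 0 13905918 0) (P.cons (P.lf 0 1274949 0) (P.cons (P.lf 252198 0 0) (P.cons (P.lf 0 301 0) P.nil))))) (P.cons (P.cons (P.lf 45801534 0 0) (P.cons (P.lf 0 4247448 0) (P.cons (P.lf 0 418203 0) (P.cons (P.lf 69616 0 0) P.nil)))) (P.cons (P.cons (P.lf 0 1859658 0) (P.cons (P.lf 64873 0 0) (P.cons (P.lf 12652 0 0) P.nil))) (P.cons (P.cons (P.lf 0 2379018 0) (P.cons (P.lf 195026 0 0) P.nil)) (P.cons (P.cons (P.lf 0 81560 0) P.nil) P.nil)))))) 187484)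
 (EL.cons 5 (TM.mk (P.cons (P.cons (P.lf 8551294 0 0) (P.cons (P.lf 0 3634656 0) (P.cons (P.lf 0 81818 0) (P.cons (P.lf 130670 0 0) (P.cons (P.lf 0 226 0) (P.cons (P.lf 0 852 0) P.nil)))))) (P.cons (P.cons (P.lf 31009394 0 0) (P.cons (P.lf 0 8288188 0) (P.cons (P.lf 0 706408 0) (P.cons (P.lf 164090 0 0) (P.cons (P.lf 0 210 0) P.nil))))) (P.cons (P.cons (P.lf 31178748 0 0) (P.cons (P.lf 0 3986372 0) (P.cons (P.lf 0 374654 0) (P.cons (P.lf 69934 0 0) P.nil)))) (P.cons (P.cons (P.lf 5032914 0 0) (P.cons (P.lf 0 657300 0) (P.cons (P.lf 0 59036 0) P.nil))) (P.cons (P.cons (P.lf 0 760430 0) (P.cons (P.lf 25400 0 0) P.nil)) (P.cons (P.cons (P.lf 0 237526 0) P.nil) P.nil)))))) 109946)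
 EL.nil)))
noncomputable def S140_169_290_364_6 : EL := (EL.cons 12 (TM.mk (P.lf 8589934592 0 0) 0)
 (EL.cons 3 (TM.mk (P.cons (P.lf 0 2668545243 0) (P.cons (P.lf 256005836 0 0) (P.cons (P.lf 20956361 0 0) (P.cons (P.lf 125291 0 0) (P.cons (P.lf 0 64357 0) (P.cons (P.lf 0 3438 0) P.nil)))))) 378)
 (EL.cons 7 (TM.mk (P.cons (P.lf 0 1442125985 0) (P.cons (P.lf 0 168433589 0) (P.cons (P.lf 4127638 0 0) (P.cons (P.lf 758202 0 0) (P.cons (P.lf 21743 0 0) (P.cons (P.lf 0 1521 0) P.nil)))))) 224)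
 EL.nil)))
noncomputable def S140_169_290_364_7 : EL := (EL.cons 12 (TM.mk (P.cons (P.cons (P.lf 807174656 0 0) (P.cons (P.lf 0 171541504 0) (P.cons (P.lf 0 22089584 0) (P.lf 1472632 0 0)))) (P.cons (P.cons (P.lf 1369246826 0 0) (P.cons (P.lf 0 60105744 0) (P.cons (P.lf 0 7739880 0) (P.lf 515984 0 0)))) (P.cons (P.cons (P.lf 0 12882182 0) (P.cons (P.lf 0 5547112 0) (P.cons (P.lf 0 714304 0) (P.lf 47616 0 0)))) (P.cons (P.cons (P.lf 0 19032632 0) (P.cons (P.lf 341328 0 0) (P.cons (P.lf 43952 0 0) P.nil))) (P.cons (P.cons (P.lf 0 834340 0) (P.cons (P.lf 86832 0 0) P.nil)) (P.cons (P.cons (P.lf 110518 0 0) P.nil) P.nil)))))) 42558)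
 (EL.cons 3 (TM.mk (P.cons (P.cons (P.lf 3391252003 0 0) (P.cons (P.lf 0 106582012 0) (P.cons (P.lf 0 13724678 0) (P.lf 914972 0 0)))) (P.cons (P.cons (P.lf 0 215365674 0) (P.cons (P.lf 0 27119940 0) (P.cons (P.lf 0 3492262 0) (P.lf 232810 0 0)))) (P.cons (P.cons (P.lf 0 128059121 0) (P.cons (P.lf 973134 0 0) (P.cons (P.lf 125312 0 0) (P.lf 0 8354 0)))) (P.cons (P.cons (P.lf 0 10265789 0) (P.cons (P.lf 840990 0 0) (P.cons (P.lf 108294 0 0) P.nil))) (P.cons (P.cons (P.lf 1281989 0 0) (P.cons (P.lf 59852 0 0) P.nil)) (P.cons (P.cons (P.lf 225840 0 0) P.nil) P.nil)))))) 133370)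
 (EL.cons 7 (TM.mk (P.cons (P.cons (P.lf 0 2531694950 0) (P.cons (P.lf 133984402 0 0) (P.cons (P.lf 17253321 0 0) (P.lf 0 1150224 0)))) (P.cons (P.cons (P.lf 141695250 0 0) (P.cons (P.lf 17842990 0 0) (P.cons (P.lf 2297662 0 0) (P.lf 0 153179 0)))) (P.cons (P.cons (P.lf 69182359 0 0) (P.cons (P.lf 0 2538119 0) (P.cons (P.lf 0 326835 0) (P.lf 21786 0 0)))) (P.cons (P.cons (P.lf 0 4256919 0) (P.cons (P.lf 0 344420 0) (P.cons (P.lf 0 44351 0) P.nil))) (P.cons (P.cons (P.lf 0 1171387 0) (P.cons (P.lf 31615 0 0) P.nil)) (P.cons (P.cons (P.lf 542 0 0) P.nil) P.nil)))))) 85474)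
 (EL.cons 10 (TM.mk (P.cons (P.cons (P.lf 0 826011594 0) (P.cons (P.lf 0 235807644 0) (P.cons (P.lf 17638032 0 0) (P.cons (P.lf 1188546 0 0) (P.lf 0 59427 0))))) (P.cons (P.cons (P.lf 0 192948603 0) (P.cons (P.lf 0 55082466 0) (P.cons (P.lf 4120077 0 0) (P.cons (P.lf 277632 0 0) (P.lf 0 13881 0))))) (P.cons (P.cons (P.lf 0 6539343 0) (P.cons (P.lf 0 1866834 0) (P.cons (P.lf 139635 0 0) (P.cons (P.lf 9408 0 0) P.nil)))) (P.cons (P.cons (P.lf 1420809 0 0) (P.cons (P.lf 405609 0 0) (P.cons (P.lf 0 30336 0) P.nil))) (P.cons (P.cons (P.lf 119583 0 0) (P.cons (P.lf 34137 0 0) P.nil)) (P.cons (P.cons (P.lf 0 1317 0) P.nil) P.nil)))))) 6933)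
 EL.nil))))
noncomputable def S140_169_290_364_8 : EL := (EL.cons 12 (TM.mk (P.cons (P.cons (P.lf 75848182 0 0) (P.cons (P.lf 0 32238650 0) (P.cons (P.lf 0 725710 0) (P.cons (P.lf 1159018 0 0) (P.cons (P.lf 0 2012 0) (P.cons (P.lf 0 7572 0) P.nil)))))) (P.cons (P.cons (P.lf 257329394 0 0) (P.cons (P.lf 0 65983852 0) (P.cons (P.lf 0 6096180 0) (P.cons (P.lf 1184712 0 0) (P.cons (P.lf 0 1408 0) P.nil))))) (P.cons (P.cons (P.lf 215838724 0 0) (P.cons (P.lf 0 19689848 0) (P.cons (P.lf 0 1893354 0) (P.cons (P.lf 334402 0 0) P.nil)))) (P.cons (P.cons (P.lf 0 7683770 0) (P.cons (P.lf 0 763840 0) (P.cons (P.lf 0 34362 0) P.nil))) (P.cons (P.cons (P.lf 0 6205134 0) (P.cons (P.lf 441446 0 0) P.nil)) (P.cons (P.cons (P.lf 0 188132 0) P.nil) P.nil)))))) 342900)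
 (EL.cons 3 (TM.mk (P.cons (P.cons (P.lf 660897887 0 0) (P.cons (P.lf 0 165492742 0) (P.cons (P.lf 0 15989552 0) (P.cons (P.lf 2791116 0 0) (P.cons (P.lf 0 3126 0) (P.cons (P.lf 0 11760 0) P.nil)))))) (P.cons (P.cons (P.lf 1118346604 0 0) (P.cons (P.lf 0 97470119 0) (P.cons (P.lf 0 9332912 0) (P.cons (P.lf 1665617 0 0) (P.cons (P.lf 0 1886 0) P.nil))))) (P.cons (P.cons (P.lf 0 43699410 0) (P.cons (P.lf 0 8466319 0) (P.cons (P.lf 0 492316 0) (P.cons (P.lf 226656 0 0) P.nil)))) (P.cons (P.cons (P.lf 0 66585423 0) (P.cons (P.lf 4282701 0 0) (P.cons (P.lf 525667 0 0) P.nil))) (P.cons (P.cons (P.lf 0 4580590 0) (P.cons (P.lf 935282 0 0) P.nil)) (P.cons (P.cons (P.lf 1322550 0 0) P.nil) P.nil)))))) 1022106)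
 (EL.cons 7 (TM.mk (P.cons (P.cons (P.lf 0 463060256 0) (P.cons (P.lf 120884149 0 0) (P.cons (P.lf 10790154 0 0) (P.cons (P.lf 0 2267834 0) (P.cons (P.lf 2803 0 0) (P.cons (P.lf 10559 0 0) P.nil)))))) (P.cons (P.cons (P.lf 0 735792341 0) (P.cons (P.lf 64128393 0 0) (P.cons (P.lf 6140390 0 0) (P.cons (P.lf 0 1095864 0) (P.cons (P.lf 1241 0 0) P.nil))))) (P.cons (P.cons (P.lf 107013623 0 0) (P.cons (P.lf 0 1250777 0) (P.cons (P.lf 0 329207 0) (P.cons (P.lf 0 32572 0) P.nil)))) (P.cons (P.cons (P.lf 34861276 0 0) (P.cons (P.lf 0 3183255 0) (P.cons (P.lf 0 351150 0) P.nil))) (P.cons (P.cons (P.lf 0 3239900 0) (P.cons (P.lf 0 149753 0) P.nil)) (P.cons (P.cons (P.lf 0 929065 0) P.nil) P.nil)))))) 534657)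
 (EL.cons 10 (TM.mk (P.cons (P.cons (P.lf 0 155236482 0) (P.cons (P.lf 0 11325504 0) (P.cons (P.lf 16981272 0 0) (P.cons (P.lf 448476 0 0) (P.cons (P.lf 0 230202 0) (P.cons (P.lf 2304 0 0) P.nil)))))) (P.cons (P.cons (P.lf 0 299596452 0) (P.cons (P.lf 0 66262038 0) (P.cons (P.lf 14378256 0 0) (P.cons (P.lf 562542 0 0) (P.cons (P.lf 0 149466 0) P.nil))))) (P.cons (P.cons (P.lf 0 60263976 0) (P.cons (P.lf 0 13175784 0) (P.cons (P.lf 2955510 0 0) (P.cons (P.lf 114198 0 0) P.nil)))) (P.cons (P.cons (P.lf 2421354 0 0) (P.cons (P.lf 909564 0 0) (P.cons (P.lf 38736 0 0) P.nil))) (P.cons (P.cons (P.lf 1510530 0 0) (P.cons (P.lf 382974 0 0) P.nil)) (P.cons (P.cons (P.lf 78816 0 0) P.nil) P.nil)))))) 234420)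
 EL.nil))))
noncomputable def S140_169_290_364_9 : EL := (EL.cons 3 (TM.mk (P.cons (P.lf 0 2668545243 0) (P.cons (P.lf 256005836 0 0) (P.cons (P.lf 20956361 0 0) (P.cons (P.lf 125291 0 0) (P.cons (P.lf 0 64357 0) (P.cons (P.lf 0 3438 0) P.nil)))))) 378)
 (EL.cons 7 (TM.mk (P.cons (P.lf 0 1442125985 0) (P.cons (P.lf 0 168433589 0) (P.cons (P.lf 4127638 0 0) (P.cons (P.lf 758202 0 0) (P.cons (P.lf 21743 0 0) (P.cons (P.lf 0 1521 0) P.nil)))))) 224)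
 EL.nil))
noncomputable def S140_169_290_364_10 : EL := (EL.cons 3 (TM.mk (P.cons (P.cons (P.lf 0 250756517 0) (P.cons (P.lf 53291006 0 0) (P.cons (P.lf 6862339 0 0) (P.lf 0 457486 0)))) (P.cons (P.cons (P.lf 0 401313378 0) (P.cons (P.lf 13559970 0 0) (P.cons (P.lf 1746131 0 0) (P.lf 0 116405 0)))) (P.cons (P.cons (P.lf 46778854 0 0) (P.cons (P.lf 0 486567 0) (P.cons (P.lf 0 62656 0) (P.lf 4177 0 0)))) (P.cons (P.cons (P.lf 8880985 0 0) (P.cons (P.lf 0 420495 0) (P.cons (P.lf 0 54147 0) P.nil))) (P.cons (P.cons (P.lf 0 325537 0) (P.cons (P.lf 0 29926 0) P.nil)) (P.cons (P.cons (P.lf 0 116400 0) P.nil) P.nil)))))) 32110)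
 (EL.cons 7 (TM.mk (P.cons (P.cons (P.lf 0 135512969 0) (P.cons (P.lf 28799341 0 0) (P.cons (P.lf 3708522 0 0) (P.lf 0 247233 0)))) (P.cons (P.cons (P.lf 0 245704053 0) (P.cons (P.lf 13454515 0 0) (P.cons (P.lf 1732552 0 0) (P.lf 0 115502 0)))) (P.cons (P.cons (P.lf 0 24297938 0) (P.cons (P.lf 2027419 0 0) (P.cons (P.lf 261072 0 0) (P.lf 0 17403 0)))) (P.cons (P.cons (P.lf 4177098 0 0) (P.cons (P.lf 7441 0 0) (P.cons (P.lf 958 0 0) P.nil))) (P.cons (P.cons (P.lf 629981 0 0) (P.cons (P.lf 0 29675 0) P.nil)) (P.cons (P.cons (P.lf 0 9154 0) P.nil) P.nil)))))) 18897)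
 EL.nil))
noncomputable def S140_169_290_364_11 : EL := (EL.cons 3 (TM.mk (P.cons (P.cons (P.lf 0 23562961 0) (P.cons (P.lf 10015244 0 0) (P.cons (P.lf 225448 0 0) (P.cons (P.lf 0 360060 0) (P.cons (P.lf 624 0 0) (P.cons (P.lf 2352 0 0) P.nil)))))) (P.cons (P.cons (P.lf 0 77681330 0) (P.cons (P.lf 19537705 0 0) (P.cons (P.lf 1872208 0 0) (P.cons (P.lf 0 333499 0) (P.cons (P.lf 376 0 0) P.nil))))) (P.cons (P.cons (P.lf 0 59198130 0) (P.cons (P.lf 4071671 0 0) (P.cons (P.lf 404732 0 0) (P.cons (P.lf 0 65748 0) P.nil)))) (P.cons (P.cons (P.lf 9448575 0 0) (P.cons (P.lf 0 510969 0) (P.cons (P.lf 0 60635 0) P.nil))) (P.cons (P.cons (P.lf 2228438 0 0) (P.cons (P.lf 0 208660 0) P.nil)) (P.cons (P.cons (P.lf 0 144042 0) P.nil) P.nil)))))) 178028)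
 (EL.cons 7 (TM.mk (P.cons (P.cons (P.lf 0 12733814 0) (P.cons (P.lf 5412403 0 0) (P.cons (P.lf 121836 0 0) (P.cons (P.lf 0 194582 0) (P.cons (P.lf 337 0 0) (P.cons (P.lf 1271 0 0) P.nil)))))) (P.cons (P.cons (P.lf 0 44689139 0) (P.cons (P.lf 11709879 0 0) (P.cons (P.lf 1037690 0 0) (P.cons (P.lf 0 221622 0) (P.cons (P.lf 275 0 0) P.nil))))) (P.cons (P.cons (P.lf 0 41245537 0) (P.cons (P.lf 4583977 0 0) (P.cons (P.lf 437053 0 0) (P.cons (P.lf 0 78814 0) P.nil)))) (P.cons (P.cons (P.lf 0 2811878 0) (P.cons (P.lf 479769 0 0) (P.cons (P.lf 39900 0 0) P.nil))) (P.cons (P.cons (P.lf 1319038 0 0) (P.cons (P.lf 0 74501 0) P.nil)) (P.cons (P.cons (P.lf 169253 0 0) P.nil) P.nil)))))) 94565)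
 EL.nil))
noncomputable def S140_169_290_364_12 : EL := (EL.cons 4 (TM.mk (P.cons (P.lf 2668545243 0 0) (P.cons (P.lf 0 256005836 0) (P.cons (P.lf 0 20956361 0) (P.cons (P.lf 0 125291 0) (P.cons (P.lf 64357 0 0) (P.cons (P.lf 3438 0 0) P.nil)))))) 378)
 (EL.cons 8 (TM.mk (P.cons (P.lf 1442125985 0 0) (P.cons (P.lf 168433589 0 0) (P.cons (P.lf 0 4127638 0) (P.cons (P.lf 0 758202 0) (P.cons (P.lf 0 21743 0) (P.cons (P.lf 1521 0 0) P.nil)))))) 224)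
 EL.nil))
noncomputable def S140_169_290_364_13 : EL := (EL.cons 4 (TM.mk (P.cons (P.cons (P.lf 250756517 0 0) (P.cons (P.lf 0 53291006 0) (P.cons (P.lf 0 6862339 0) (P.lf 457486 0 0)))) (P.cons (P.cons (P.lf 401313378 0 0) (P.cons (P.lf 0 13559970 0) (P.cons (P.lf 0 1746131 0) (P.lf 116405 0 0)))) (P.cons (P.cons (P.lf 0 46778854 0) (P.cons (P.lf 486567 0 0) (P.cons (P.lf 62656 0 0) (P.lf 0 4177 0)))) (P.cons (P.cons (P.lf 0 8880985 0) (P.cons (P.lf 420495 0 0) (P.cons (P.lf 54147 0 0) P.nil))) (P.cons (P.cons (P.lf 325537 0 0) (P.cons (P.lf 29926 0 0) P.nil)) (P.cons (P.cons (P.lf 116400 0 0) P.nil) P.nil)))))) 32110)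
 (EL.cons 8 (TM.mk (P.cons (P.cons (P.lf 135512969 0 0) (P.cons (P.lf 0 28799341 0) (P.cons (P.lf 0 3708522 0) (P.lf 247233 0 0)))) (P.cons (P.cons (P.lf 245704053 0 0) (P.cons (P.lf 0 13454515 0) (P.cons (P.lf 0 1732552 0) (P.lf 115502 0 0)))) (P.cons (P.cons (P.lf 24297938 0 0) (P.cons (P.lf 0 2027419 0) (P.cons (P.lf 0 261072 0) (P.lf 17403 0 0)))) (P.cons (P.cons (P.lf 0 4177098 0) (P.cons (P.lf 0 7441 0) (P.cons (P.lf 0 958 0) P.nil))) (P.cons (P.cons (P.lf 0 629981 0) (P.cons (P.lf 29675 0 0) P.nil)) (P.cons (P.cons (P.lf 9154 0 0) P.nil) P.nil)))))) 18897)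
 EL.nil))
noncomputable def S140_169_290_364_14 : EL := (EL.cons 4 (TM.mk (P.cons (P.cons (P.lf 23562961 0 0) (P.cons (P.lf 0 10015244 0) (P.cons (P.lf 0 225448 0) (P.cons (P.lf 360060 0 0) (P.cons (P.lf 0 624 0) (P.cons (P.lf 0 2352 0) P.nil)))))) (P.cons (P.cons (P.lf 77681330 0 0) (P.cons (P.lf 0 19537705 0) (P.cons (P.lf 0 1872208 0) (P.cons (P.lf 333499 0 0) (P.cons (P.lf 0 376 0) P.nil))))) (P.cons (P.cons (P.lf 59198130 0 0) (P.cons (P.lf 0 4071671 0) (P.cons (P.lf 0 404732 0) (P.cons (P.lf 65748 0 0) P.nil)))) (P.cons (P.cons (P.lf 0 9448575 0) (P.cons (P.lf 510969 0 0) (P.cons (P.lf 60635 0 0) P.nil))) (P.cons (P.cons (P.lf 0 2228438 0) (P.cons (P.lf 208660 0 0) P.nil)) (P.cons (P.cons (P.lf 144042 0 0) P.nil) P.nil)))))) 178028)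
 (EL.cons 8 (TM.mk (P.cons (P.cons (P.lf 12733814 0 0) (P.cons (P.lf 0 5412403 0) (P.cons (P.lf 0 121836 0) (P.cons (P.lf 194582 0 0) (P.cons (P.lf 0 337 0) (P.cons (P.lf 0 1271 0) P.nil)))))) (P.cons (P.cons (P.lf 44689139 0 0) (P.cons (P.lf 0 11709879 0) (P.cons (P.lf 0 1037690 0) (P.cons (P.lf 221622 0 0) (P.cons (P.lf 0 275 0) P.nil))))) (P.cons (P.cons (P.lf 41245537 0 0) (P.cons (P.lf 0 4583977 0) (P.cons (P.lf 0 437053 0) (P.cons (P.lf 78814 0 0) P.nil)))) (P.cons (P.cons (P.lf 2811878 0 0) (P.cons (P.lf 0 479769 0) (P.cons (P.lf 0 39900 0) P.nil))) (P.cons (P.cons (P.lf 0 1319038 0) (P.cons (P.lf 74501 0 0) P.nil)) (P.cons (P.cons (P.lf 0 169253 0) P.nil) P.nil)))))) 94565)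
 EL.nil))
noncomputable def S140_169_290_364_15 : EL := (EL.cons 4 (TM.mk (P.cons (P.lf 0 1768552689 0) (P.cons (P.lf 339330810 0 0) (P.cons (P.lf 11500469 0 0) (P.cons (P.lf 0 2498728 0) (P.cons (P.lf 0 210304 0) (P.cons (P.lf 2321 0 0) P.nil)))))) 1708)
 (EL.cons 8 (TM.mk (P.cons (P.lf 0 955755124 0) (P.cons (P.lf 0 19937749 0) (P.cons (P.lf 20950159 0 0) (P.cons (P.lf 1161554 0 0) (P.cons (P.lf 0 73087 0) (P.cons (P.lf 0 10388 0) P.nil)))))) 788)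
 EL.nil))
noncomputable def S140_169_290_364_16 : EL := (EL.cons 4 (TM.mk (P.cons (P.cons (P.lf 0 166186470 0) (P.cons (P.lf 35318101 0 0) (P.cons (P.lf 4547949 0 0) (P.lf 0 303195 0)))) (P.cons (P.cons (P.lf 0 250023547 0) (P.cons (P.lf 5598511 0 0) (P.cons (P.lf 720925 0 0) (P.lf 0 48060 0)))) (P.cons (P.cons (P.lf 57822714 0 0) (P.cons (P.lf 0 1461963 0) (P.cons (P.lf 0 188259 0) (P.lf 12550 0 0)))) (P.cons (P.cons (P.lf 5008065 0 0) (P.cons (P.lf 0 319975 0) (P.cons (P.lf 0 41203 0) P.nil))) (P.cons (P.cons (P.lf 0 1015380 0) (P.cons (P.lf 9862 0 0) P.nil)) (P.cons (P.cons (P.lf 0 110751 0) P.nil) P.nil)))))) 40349)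
 (EL.cons 8 (TM.mk (P.cons (P.cons (P.lf 0 89809916 0) (P.cons (P.lf 19086486 0 0) (P.cons (P.lf 2457787 0 0) (P.lf 0 163851 0)))) (P.cons (P.cons (P.lf 0 154222118 0) (P.cons (P.lf 7085795 0 0) (P.cons (P.lf 912445 0 0) (P.lf 0 60828 0)))) (P.cons (P.cons (P.lf 223860 0 0) (P.cons (P.lf 338330 0 0) (P.cons (P.lf 43566 0 0) (P.lf 0 2904 0)))) (P.cons (P.cons (P.lf 5596188 0 0) (P.cons (P.lf 0 194891 0) (P.cons (P.lf 0 25096 0) P.nil))) (P.cons (P.cons (P.lf 283875 0 0) (P.cons (P.lf 0 30650 0) P.nil)) (P.cons (P.cons (P.lf 0 71147 0) P.nil) P.nil)))))) 25681)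
 EL.nil))
noncomputable def S140_169_290_364_17 : EL := (EL.cons 4 (TM.mk (P.cons (P.cons (P.lf 0 15616125 0) (P.cons (P.lf 6637506 0 0) (P.cons (P.lf 149413 0 0) (P.cons (P.lf 0 238625 0) (P.cons (P.lf 413 0 0) (P.cons (P.lf 1558 0 0) P.nil)))))) (P.cons (P.cons (P.lf 0 49984427 0) (P.cons (P.lf 12311659 0 0) (P.cons (P.lf 1226453 0 0) (P.cons (P.lf 0 198131 0) (P.cons (P.lf 210 0 0) P.nil))))) (P.cons (P.cons (P.lf 0 34171397 0) (P.cons (P.lf 1404134 0 0) (P.cons (P.lf 148024 0 0) (P.cons (P.lf 0 20496 0) P.nil)))) (P.cons (P.cons (P.lf 10430785 0 0) (P.cons (P.lf 0 699512 0) (P.cons (P.lf 0 75669 0) P.nil))) (P.cons (P.cons (P.lf 1186279 0 0) (P.cons (P.lf 0 127440 0) P.nil)) (P.cons (P.cons (P.lf 0 285741 0) P.nil) P.nil)))))) 160978)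
 (EL.cons 8 (TM.mk (P.cons (P.cons (P.lf 0 8439212 0) (P.cons (P.lf 3587018 0 0) (P.cons (P.lf 80745 0 0) (P.cons (P.lf 0 128957 0) (P.cons (P.lf 223 0 0) (P.cons (P.lf 842 0 0) P.nil)))))) (P.cons (P.cons (P.lf 0 28807684 0) (P.cons (P.lf 7416490 0 0) (P.cons (P.lf 679973 0 0) (P.cons (P.lf 0 134506 0) (P.cons (P.lf 161 0 0) P.nil))))) (P.cons (P.cons (P.lf 0 24427485 0) (P.cons (P.lf 2265306 0 0) (P.cons (P.lf 223042 0 0) (P.cons (P.lf 0 37129 0) P.nil)))) (P.cons (P.cons (P.lf 991818 0 0) (P.cons (P.lf 0 34599 0) (P.cons (P.lf 0 6748 0) P.nil))) (P.cons (P.cons (P.lf 1268810 0 0) (P.cons (P.lf 0 104014 0) P.nil)) (P.cons (P.cons (P.lf 43499 0 0) P.nil) P.nil)))))) 99980)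
 EL.nil))
noncomputable def S140_169_290_364_18 : EL := (EL.cons 4 (TM.mk (P.cons (P.lf 1172091282 0 0) (P.cons (P.lf 0 337332345 0) (P.cons (P.lf 4748184 0 0) (P.cons (P.lf 4098243 0 0) (P.cons (P.lf 79189 0 0) (P.cons (P.lf 0 31469 0) P.nil)))))) 3321)
 (EL.cons 8 (TM.mk (P.cons (P.lf 633417514 0 0) (P.cons (P.lf 0 47553107 0) (P.cons (P.lf 0 20126446 0) (P.cons (P.lf 428689 0 0) (P.cons (P.lf 245981 0 0) (P.cons (P.lf 10070 0 0) P.nil)))))) 1843)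
 EL.nil))
noncomputable def S140_169_290_364_19 : EL := (EL.cons 4 (TM.mk (P.cons (P.cons (P.lf 110138484 0 0) (P.cons (P.lf 0 23406732 0) (P.cons (P.lf 0 3014109 0) (P.lf 200939 0 0)))) (P.cons (P.cons (P.lf 155134608 0 0) (P.cons (P.lf 0 1464844 0) (P.cons (P.lf 0 188628 0) (P.lf 12573 0 0)))) (P.cons (P.cons (P.lf 0 55082807 0) (P.cons (P.lf 1508670 0 0) (P.cons (P.lf 194273 0 0) (P.lf 0 12951 0)))) (P.cons (P.cons (P.lf 0 949130 0) (P.cons (P.lf 149345 0 0) (P.cons (P.lf 19230 0 0) P.nil))) (P.cons (P.cons (P.lf 1287164 0 0) (P.cons (P.lf 0 34879 0) P.nil)) (P.cons (P.cons (P.lf 40844 0 0) P.nil) P.nil)))))) 46099)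
 (EL.cons 8 (TM.mk (P.cons (P.cons (P.lf 59520658 0 0) (P.cons (P.lf 0 12649385 0) (P.cons (P.lf 0 1628874 0) (P.lf 108591 0 0)))) (P.cons (P.cons (P.lf 96499134 0 0) (P.cons (P.lf 0 3482529 0) (P.cons (P.lf 0 448448 0) (P.lf 29895 0 0)))) (P.cons (P.cons (P.lf 0 10421184 0) (P.cons (P.lf 325624 0 0) (P.cons (P.lf 41931 0 0) (P.lf 0 2795 0)))) (P.cons (P.cons (P.lf 0 4500041 0) (P.cons (P.lf 188145 0 0) (P.cons (P.lf 24227 0 0) P.nil))) (P.cons (P.cons (P.lf 165469 0 0) (P.cons (P.lf 9598 0 0) P.nil)) (P.cons (P.cons (P.lf 96875 0 0) P.nil) P.nil)))))) 27606)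
 EL.nil))
noncomputable def S140_169_290_364_20 : EL := (EL.cons 4 (TM.mk (P.cons (P.cons (P.lf 10349437 0 0) (P.cons (P.lf 0 4398943 0) (P.cons (P.lf 0 99022 0) (P.cons (P.lf 158146 0 0) (P.cons (P.lf 0 273 0) (P.cons (P.lf 0 1033 0) P.nil)))))) (P.cons (P.cons (P.lf 32133828 0 0) (P.cons (P.lf 0 7737422 0) (P.cons (P.lf 0 803320 0) (P.cons (P.lf 116137 0 0) (P.cons (P.lf 0 112 0) P.nil))))) (P.cons (P.cons (P.lf 19387492 0 0) (P.cons (P.lf 0 113258 0) (P.cons (P.lf 0 19346 0) (P.cons (P.lf 0 254 0) P.nil)))) (P.cons (P.cons (P.lf 0 9346143 0) (P.cons (P.lf 617152 0 0) (P.cons (P.lf 65948 0 0) P.nil))) (P.cons (P.cons (P.lf 0 302161 0) (P.cons (P.lf 47569 0 0) P.nil)) (P.cons (P.cons (P.lf 318832 0 0) P.nil) P.nil)))))) 133677)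
 (EL.cons 8 (TM.mk (P.cons (P.cons (P.lf 5593007 0 0) (P.cons (P.lf 0 2377261 0) (P.cons (P.lf 0 53513 0) (P.cons (P.lf 85465 0 0) (P.cons (P.lf 0 148 0) (P.cons (P.lf 0 558 0) P.nil)))))) (P.cons (P.cons (P.lf 18555453 0 0) (P.cons (P.lf 0 4687146 0) (P.cons (P.lf 0 445511 0) (P.cons (P.lf 80943 0 0) (P.cons (P.lf 0 92 0) P.nil))))) (P.cons (P.cons (P.lf 14313573 0 0) (P.cons (P.lf 0 1011102 0) (P.cons (P.lf 0 104166 0) (P.cons (P.lf 15384 0 0) P.nil)))) (P.cons (P.cons (P.lf 0 2360605 0) (P.cons (P.lf 205669 0 0) (P.cons (P.lf 22194 0 0) P.nil))) (P.cons (P.cons (P.lf 0 905728 0) (P.cons (P.lf 78698 0 0) P.nil)) (P.cons (P.cons (P.lf 56710 0 0) P.nil) P.nil)))))) 92203)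
 EL.nil))
noncomputable def S140_169_290_364_21 : EL := (EL.cons 4 (TM.mk (P.cons (P.cons (P.lf 0 3642008520 0) (P.cons (P.lf 159873018 0 0) (P.cons (P.lf 20587017 0 0) (P.lf 0 1372458 0)))) (P.cons (P.cons (P.lf 0 185947704 0) (P.cons (P.lf 40679910 0 0) (P.cons (P.lf 5238393 0 0) (P.lf 0 349215 0)))) (P.cons (P.cons (P.lf 174837975 0 0) (P.cons (P.lf 0 1459701 0) (P.cons (P.lf 0 187968 0) (P.lf 12531 0 0)))) (P.cons (P.cons (P.lf 19146774 0 0) (P.cons (P.lf 0 1261485 0) (P.cons (P.lf 0 162441 0) P.nil))) (P.cons (P.cons (P.lf 0 1607526 0) (P.cons (P.lf 0 89778 0) P.nil)) (P.cons (P.cons (P.lf 0 342240 0) P.nil) P.nil)))))) 101241)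
 (EL.cons 8 (TM.mk (P.cons (P.cons (P.lf 2396181981 0 0) (P.cons (P.lf 0 105185061 0) (P.cons (P.lf 0 13544799 0) (P.lf 902991 0 0)))) (P.cons (P.cons (P.lf 0 387399303 0) (P.cons (P.lf 0 4388475 0) (P.cons (P.lf 0 565110 0) (P.lf 37677 0 0)))) (P.cons (P.cons (P.lf 0 93480297 0) (P.cons (P.lf 4565538 0 0) (P.cons (P.lf 587907 0 0) (P.lf 0 39189 0)))) (P.cons (P.cons (P.lf 8434017 0 0) (P.cons (P.lf 351861 0 0) (P.cons (P.lf 45309 0 0) P.nil))) (P.cons (P.cons (P.lf 1801368 0 0) (P.cons (P.lf 0 61290 0) P.nil)) (P.cons (P.cons (P.lf 0 9696 0) P.nil) P.nil)))))) 66558)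
 (EL.cons 11 (TM.mk (P.cons (P.cons (P.lf 826011594 0 0) (P.cons (P.lf 235807644 0 0) (P.cons (P.lf 0 17638032 0) (P.cons (P.lf 0 1188546 0) (P.lf 59427 0 0))))) (P.cons (P.cons (P.lf 192948603 0 0) (P.cons (P.lf 55082466 0 0) (P.cons (P.lf 0 4120077 0) (P.cons (P.lf 0 277632 0) (P.lf 13881 0 0))))) (P.cons (P.cons (P.lf 6539343 0 0) (P.cons (P.lf 1866834 0 0) (P.cons (P.lf 0 139635 0) (P.cons (P.lf 0 9408 0) P.nil)))) (P.cons (P.cons (P.lf 0 1420809 0) (P.cons (P.lf 0 405609 0) (P.cons (P.lf 30336 0 0) P.nil))) (P.cons (P.cons (P.lf 0 119583 0) (P.cons (P.lf 0 34137 0) P.nil)) (P.cons (P.cons (P.lf 1317 0 0) P.nil) P.nil)))))) 6933)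
 EL.nil)))
noncomputable def S140_169_290_364_22 : EL := (EL.cons 4 (TM.mk (P.cons (P.cons (P.lf 0 342230424 0) (P.cons (P.lf 87753993 0 0) (P.cons (P.lf 8107500 0 0) (P.cons (P.lf 0 1575588 0) (P.cons (P.lf 1875 0 0) (P.cons (P.lf 7056 0 0) P.nil)))))) (P.cons (P.cons (P.lf 0 598013967 0) (P.cons (P.lf 58503912 0 0) (P.cons (P.lf 5602560 0 0) (P.cons (P.lf 0 999558 0) (P.cons (P.lf 1131 0 0) P.nil))))) (P.cons (P.cons (P.lf 0 7749360 0) (P.cons (P.lf 6268995 0 0) (P.cons (P.lf 448524 0 0) (P.cons (P.lf 0 146202 0) P.nil)))) (P.cons (P.cons (P.lf 38016999 0 0) (P.cons (P.lf 0 2396835 0) (P.cons (P.lf 0 293151 0) P.nil))) (P.cons (P.cons (P.lf 3404514 0 0) (P.cons (P.lf 0 571971 0) P.nil)) (P.cons (P.cons (P.lf 0 733296 0) P.nil) P.nil)))))) 422028)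
 (EL.cons 8 (TM.mk (P.cons (P.cons (P.lf 225163221 0 0) (P.cons (P.lf 0 57735873 0) (P.cons (P.lf 0 5334159 0) (P.cons (P.lf 1036626 0 0) (P.cons (P.lf 0 1233 0) (P.cons (P.lf 0 4644 0) P.nil)))))) (P.cons (P.cons (P.lf 345551601 0 0) (P.cons (P.lf 0 26209257 0) (P.cons (P.lf 0 2551350 0) (P.cons (P.lf 437121 0 0) (P.cons (P.lf 0 483 0) P.nil))))) (P.cons (P.cons (P.lf 0 74129580 0) (P.cons (P.lf 2917377 0 0) (P.cons (P.lf 383130 0 0) (P.cons (P.lf 0 23121 0) P.nil)))) (P.cons (P.cons (P.lf 0 18836577 0) (P.cons (P.lf 1831512 0 0) (P.cons (P.lf 195525 0 0) P.nil))) (P.cons (P.cons (P.lf 2279469 0 0) (P.cons (P.lf 37626 0 0) P.nil)) (P.cons (P.cons (P.lf 549159 0 0) P.nil) P.nil)))))) 220035)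
 (EL.cons 11 (TM.mk (P.cons (P.cons (P.lf 77618241 0 0) (P.cons (P.lf 5662752 0 0) (P.cons (P.lf 0 8490636 0) (P.cons (P.lf 0 224238 0) (P.cons (P.lf 115101 0 0) (P.cons (P.lf 0 1152 0) P.nil)))))) (P.cons (P.cons (P.lf 149798226 0 0) (P.cons (P.lf 33131019 0 0) (P.cons (P.lf 0 7189128 0) (P.cons (P.lf 0 281271 0) (P.cons (P.lf 74733 0 0) P.nil))))) (P.cons (P.cons (P.lf 30131988 0 0) (P.cons (P.lf 6587892 0 0) (P.cons (P.lf 0 1477755 0) (P.cons (P.lf 0 57099 0) P.nil)))) (P.cons (P.cons (P.lf 0 1210677 0) (P.cons (P.lf 0 454782 0) (P.cons (P.lf 0 19368 0) P.nil))) (P.cons (P.cons (P.lf 0 755265 0) (P.cons (P.lf 0 191487 0) P.nil)) (P.cons (P.cons (P.lf 0 39408 0) P.nil) P.nil)))))) 117210)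
 EL.nil)))
noncomputable def S140_169_290_364_23 : EL := (EL.cons 4 (TM.mk (P.cons (P.cons (P.lf 2413706112 0 0) (P.cons (P.lf 0 105954303 0) (P.cons (P.lf 0 13643847 0) (P.lf 909582 0 0)))) (P.cons (P.cons (P.lf 0 108322890 0) (P.cons (P.lf 0 16795533 0) (P.cons (P.lf 0 2162775 0) (P.lf 144177 0 0)))) (P.cons (P.cons (P.lf 0 146649774 0) (P.cons (P.lf 4385889 0 0) (P.cons (P.lf 564774 0 0) (P.lf 0 37650 0)))) (P.cons (P.cons (P.lf 0 2654289 0) (P.cons (P.lf 959925 0 0) (P.cons (P.lf 123609 0 0) P.nil))) (P.cons (P.cons (P.lf 3245100 0 0) (P.cons (P.lf 0 29589 0) P.nil)) (P.cons (P.cons (P.lf 235782 0 0) P.nil) P.nil)))))) 139761)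
 (EL.cons 8 (TM.mk (P.cons (P.cons (P.lf 0 1588046556 0) (P.cons (P.lf 69710385 0 0) (P.cons (P.lf 8976684 0 0) (P.lf 0 598446 0)))) (P.cons (P.cons (P.lf 409093782 0 0) (P.cons (P.lf 0 3779217 0) (P.cons (P.lf 0 486651 0) (P.lf 32439 0 0)))) (P.cons (P.cons (P.lf 49793514 0 0) (P.cons (P.lf 0 3852225 0) (P.cons (P.lf 0 496053 0) (P.lf 33066 0 0)))) (P.cons (P.cons (P.lf 0 13474701 0) (P.cons (P.lf 30969 0 0) (P.cons (P.lf 3987 0 0) P.nil))) (P.cons (P.cons (P.lf 0 1194483 0) (P.cons (P.lf 88296 0 0) P.nil)) (P.cons (P.cons (P.lf 166086 0 0) P.nil) P.nil)))))) 77313)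
 (EL.cons 11 (TM.mk (P.cons (P.cons (P.lf 0 547431237 0) (P.cons (P.lf 0 156279246 0) (P.cons (P.lf 11689434 0 0) (P.cons (P.lf 787695 0 0) (P.lf 0 39384 0))))) (P.cons (P.cons (P.lf 0 75357228 0) (P.cons (P.lf 0 21512784 0) (P.cons (P.lf 1609119 0 0) (P.cons (P.lf 108429 0 0) (P.lf 0 5421 0))))) (P.cons (P.cons (P.lf 12232767 0 0) (P.cons (P.lf 3492177 0 0) (P.cons (P.lf 0 261210 0) (P.cons (P.lf 0 17601 0) P.nil)))) (P.cons (P.cons (P.lf 2387313 0 0) (P.cons (P.lf 681522 0 0) (P.cons (P.lf 0 50973 0) P.nil))) (P.cons (P.cons (P.lf 15753 0 0) (P.cons (P.lf 4494 0 0) P.nil)) (P.cons (P.cons (P.lf 0 19455 0) P.nil) P.nil)))))) 18765)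
 EL.nil)))
noncomputable def S140_169_290_364_24 : EL := (EL.cons 4 (TM.mk (P.cons (P.cons (P.lf 226809921 0 0) (P.cons (P.lf 0 58158114 0) (P.cons (P.lf 0 5373168 0) (P.cons (P.lf 1044204 0 0) (P.cons (P.lf 0 1242 0) (P.cons (P.lf 0 4677 0) P.nil)))))) (P.cons (P.cons (P.lf 374569083 0 0) (P.cons (P.lf 0 33193527 0) (P.cons (P.lf 0 3197568 0) (P.cons (P.lf 562272 0 0) (P.cons (P.lf 0 630 0) P.nil))))) (P.cons (P.cons (P.lf 0 34666917 0) (P.cons (P.lf 21666 0 0) (P.cons (P.lf 101148 0 0) (P.cons (P.lf 25143 0 0) P.nil)))) (P.cons (P.cons (P.lf 0 28811157 0) (P.cons (P.lf 2294277 0 0) (P.cons (P.lf 252213 0 0) P.nil))) (P.cons (P.cons (P.lf 107331 0 0) (P.cons (P.lf 259722 0 0) P.nil)) (P.cons (P.cons (P.lf 909915 0 0) P.nil) P.nil)))))) 371565)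
 (EL.cons 8 (TM.mk (P.cons (P.cons (P.lf 0 149224758 0) (P.cons (P.lf 38263893 0 0) (P.cons (P.lf 3535161 0 0) (P.cons (P.lf 0 687012 0) (P.cons (P.lf 816 0 0) (P.cons (P.lf 3075 0 0) P.nil)))))) (P.cons (P.cons (P.lf 0 214695180 0) (P.cons (P.lf 13699101 0 0) (P.cons (P.lf 1351737 0 0) (P.cons (P.lf 0 223788 0) (P.cons (P.lf 240 0 0) P.nil))))) (P.cons (P.cons (P.lf 72270621 0 0) (P.cons (P.lf 0 3900330 0) (P.cons (P.lf 0 443892 0) (P.cons (P.lf 48510 0 0) P.nil)))) (P.cons (P.cons (P.lf 9576072 0 0) (P.cons (P.lf 0 1166535 0) (P.cons (P.lf 0 118668 0) P.nil))) (P.cons (P.cons (P.lf 0 3086979 0) (P.cons (P.lf 106800 0 0) P.nil)) (P.cons (P.cons (P.lf 0 325080 0) P.nil) P.nil)))))) 214809)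
 (EL.cons 11 (TM.mk (P.cons (P.cons (P.lf 0 51440742 0) (P.cons (P.lf 0 3752934 0) (P.cons (P.lf 5627088 0 0) (P.cons (P.lf 148611 0 0) (P.cons (P.lf 0 76281 0) (P.cons (P.lf 762 0 0) P.nil)))))) (P.cons (P.cons (P.lf 0 94342386 0) (P.cons (P.lf 0 21597228 0) (P.cons (P.lf 4224693 0 0) (P.cons (P.lf 172152 0 0) (P.cons (P.lf 0 42210 0) P.nil))))) (P.cons (P.cons (P.lf 0 10041585 0) (P.cons (P.lf 0 2230128 0) (P.cons (P.lf 478095 0 0) (P.cons (P.lf 18789 0 0) P.nil)))) (P.cons (P.cons (P.lf 3500199 0 0) (P.cons (P.lf 892866 0 0) (P.cons (P.lf 0 118797 0) P.nil))) (P.cons (P.cons (P.lf 583815 0 0) (P.cons (P.lf 133218 0 0) P.nil)) (P.cons (P.cons (P.lf 0 29724 0) P.nil) P.nil)))))) 114978)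
 EL.nil)))
noncomputable def S140_169_290_364_25 : EL := (EL.cons 4 (TM.mk (P.cons (P.cons (P.lf 0 1599660504 0) (P.cons (P.lf 70220196 0 0) (P.cons (P.lf 9042327 0 0) (P.lf 0 602817 0)))) (P.cons (P.cons (P.lf 225252753 0 0) (P.cons (P.lf 4394532 0 0) (P.cons (P.lf 565887 0 0) (P.lf 0 37719 0)))) (P.cons (P.cons (P.lf 102865884 0 0) (P.cons (P.lf 0 4526007 0) (P.cons (P.lf 0 582819 0) (P.lf 38853 0 0)))) (P.cons (P.cons (P.lf 0 8053515 0) (P.cons (P.lf 0 448038 0) (P.cons (P.lf 0 57693 0) P.nil))) (P.cons (P.cons (P.lf 0 3124614 0) (P.cons (P.lf 104640 0 0) P.nil)) (P.cons (P.cons (P.lf 31350 0 0) P.nil) P.nil)))))) 151524)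
 (EL.cons 8 (TM.mk (P.cons (P.cons (P.lf 1052462577 0 0) (P.cons (P.lf 0 46199886 0) (P.cons (P.lf 0 5949210 0) (P.lf 396615 0 0)))) (P.cons (P.cons (P.lf 0 372090549 0) (P.cons (P.lf 6936807 0 0) (P.cons (P.lf 893259 0 0) (P.lf 0 59547 0)))) (P.cons (P.cons (P.lf 0 15255192 0) (P.cons (P.lf 2675556 0 0) (P.cons (P.lf 344532 0 0) (P.lf 0 22965 0)))) (P.cons (P.cons (P.lf 14175828 0 0) (P.cons (P.lf 0 282948 0) (P.cons (P.lf 0 36435 0) P.nil))) (P.cons (P.cons (P.lf 232179 0 0) (P.cons (P.lf 0 77829 0) P.nil)) (P.cons (P.cons (P.lf 0 259779 0) P.nil) P.nil)))))) 75777)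
 (EL.cons 11 (TM.mk (P.cons (P.cons (P.lf 362804784 0 0) (P.cons (P.lf 103572567 0 0) (P.cons (P.lf 0 7747059 0) (P.cons (P.lf 0 522036 0) (P.lf 26100 0 0))))) (P.cons (P.cons (P.lf 15136743 0 0) (P.cons (P.lf 4321197 0 0) (P.cons (P.lf 0 323217 0) (P.cons (P.lf 0 21777 0) (P.lf 1086 0 0))))) (P.cons (P.cons (P.lf 0 15747486 0) (P.cons (P.lf 0 4495551 0) (P.cons (P.lf 336258 0 0) (P.cons (P.lf 22659 0 0) P.nil)))) (P.cons (P.cons (P.lf 0 1213647 0) (P.cons (P.lf 0 346467 0) (P.cons (P.lf 25911 0 0) P.nil))) (P.cons (P.cons (P.lf 211413 0 0) (P.cons (P.lf 60354 0 0) P.nil)) (P.cons (P.cons (P.lf 28371 0 0) P.nil) P.nil)))))) 25863)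
 EL.nil)))
noncomputable def S140_169_290_364_26 : EL := (EL.cons 4 (TM.mk (P.cons (P.cons (P.lf 0 150316092 0) (P.cons (P.lf 38543730 0 0) (P.cons (P.lf 3561015 0 0) (P.cons (P.lf 0 692037 0) (P.cons (P.lf 822 0 0) (P.cons (P.lf 3099 0 0) P.nil)))))) (P.cons (P.cons (P.lf 0 233821539 0) (P.cons (P.lf 18301014 0 0) (P.cons (P.lf 1777533 0 0) (P.cons (P.lf 0 306249 0) (P.cons (P.lf 339 0 0) P.nil))))) (P.cons (P.cons (P.lf 47970615 0 0) (P.cons (P.lf 0 2427483 0) (P.cons (P.lf 0 298299 0) (P.cons (P.lf 24519 0 0) P.nil)))) (P.cons (P.cons (P.lf 18846729 0 0) (P.cons (P.lf 0 1693698 0) (P.cons (P.lf 0 177528 0) P.nil))) (P.cons (P.cons (P.lf 0 2075334 0) (P.cons (P.lf 0 26250 0) P.nil)) (P.cons (P.cons (P.lf 0 753420 0) P.nil) P.nil)))))) 355767)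
 (EL.cons 8 (TM.mk (P.cons (P.cons (P.lf 98897274 0 0) (P.cons (P.lf 0 25359027 0) (P.cons (P.lf 0 2342892 0) (P.cons (P.lf 455310 0 0) (P.cons (P.lf 0 540 0) (P.cons (P.lf 0 2037 0) P.nil)))))) (P.cons (P.cons (P.lf 132799494 0 0) (P.cons (P.lf 0 6646137 0) (P.cons (P.lf 0 671085 0) (P.cons (P.lf 104631 0 0) (P.cons (P.lf 0 108 0) P.nil))))) (P.cons (P.cons (P.lf 0 62323572 0) (P.cons (P.lf 3655038 0 0) (P.cons (P.lf 398526 0 0) (P.cons (P.lf 0 49953 0) P.nil)))) (P.cons (P.cons (P.lf 0 2873541 0) (P.cons (P.lf 597615 0 0) (P.cons (P.lf 57567 0 0) P.nil))) (P.cons (P.cons (P.lf 3026550 0 0) (P.cons (P.lf 0 165432 0) P.nil)) (P.cons (P.cons (P.lf 74820 0 0) P.nil) P.nil)))))) 209157)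
 (EL.cons 11 (TM.mk (P.cons (P.cons (P.lf 34091856 0 0) (P.cons (P.lf 2487219 0 0) (P.cons (P.lf 0 3729297 0) (P.cons (P.lf 0 98490 0) (P.cons (P.lf 50556 0 0) (P.cons (P.lf 0 504 0) P.nil)))))) (P.cons (P.cons (P.lf 59253918 0 0) (P.cons (P.lf 14074743 0 0) (P.cons (P.lf 0 2442105 0) (P.cons (P.lf 0 104643 0) (P.cons (P.lf 23124 0 0) P.nil))))) (P.cons (P.cons (P.lf 388971 0 0) (P.cons (P.lf 85317 0 0) (P.cons (P.lf 0 18960 0) (P.cons (P.lf 0 735 0) P.nil)))) (P.cons (P.cons (P.lf 0 3450774 0) (P.cons (P.lf 0 846051 0) (P.cons (P.lf 131292 0 0) P.nil))) (P.cons (P.cons (P.lf 0 218751 0) (P.cons (P.lf 0 43740 0) P.nil)) (P.cons (P.cons (P.lf 76275 0 0) P.nil) P.nil)))))) 114330)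
 EL.nil)))
noncomputable def S140_169_290_364_27 : EL := (EL.cons 13 (TM.mk (P.lf 0 4294967296 0) 0)
 EL.nil)
noncomputable def S140_169_290_364_28 : EL := (EL.cons 13 (TM.mk (P.cons (P.cons (P.lf 0 403587328 0) (P.cons (P.lf 85770752 0 0) (P.cons (P.lf 11044792 0 0) (P.lf 0 736316 0)))) (P.cons (P.cons (P.lf 0 684623413 0) (P.cons (P.lf 30052872 0 0) (P.cons (P.lf 3869940 0 0) (P.lf 0 257992 0)))) (P.cons (P.cons (P.lf 6441091 0 0) (P.cons (P.lf 2773556 0 0) (P.cons (P.lf 357152 0 0) (P.lf 0 23808 0)))) (P.cons (P.cons (P.lf 9516316 0 0) (P.cons (P.lf 0 170664 0) (P.cons (P.lf 0 21976 0) P.nil))) (P.cons (P.cons (P.lf 417170 0 0) (P.cons (P.lf 0 43416 0) P.nil)) (P.cons (P.cons (P.lf 0 55259 0) P.nil) P.nil)))))) 21279)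
 EL.nil)
noncomputable def S140_169_290_364_29 : EL := (EL.cons 13 (TM.mk (P.cons (P.cons (P.lf 0 37924091 0) (P.cons (P.lf 16119325 0 0) (P.cons (P.lf 362855 0 0) (P.cons (P.lf 0 579509 0) (P.cons (P.lf 1006 0 0) (P.cons (P.lf 3786 0 0) P.nil)))))) (P.cons (P.cons (P.lf 0 128664697 0) (P.cons (P.lf 32991926 0 0) (P.cons (P.lf 3048090 0 0) (P.cons (P.lf 0 592356 0) (P.cons (P.lf 704 0 0) P.nil))))) (P.cons (P.cons (P.lf 0 107919362 0) (P.cons (P.lf 9844924 0 0) (P.cons (P.lf 946677 0 0) (P.cons (P.lf 0 167201 0) P.nil)))) (P.cons (P.cons (P.lf 3841885 0 0) (P.cons (P.lf 381920 0 0) (P.cons (P.lf 17181 0 0) P.nil))) (P.cons (P.cons (P.lf 3102567 0 0) (P.cons (P.lf 0 220723 0) P.nil)) (P.cons (P.cons (P.lf 94066 0 0) P.nil) P.nil)))))) 171450)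
 EL.nil)
noncomputable def S140_169_290_364_30 : EL := (EL.cons 13 (TM.mk (P.cons (P.lf 2846448260 0 0) (P.cons (P.lf 0 273072892 0) (P.cons (P.lf 0 22353452 0) (P.cons (P.lf 0 133644 0) (P.cons (P.lf 68648 0 0) (P.cons (P.lf 3668 0 0) P.nil)))))) 396)
 EL.nil)
noncomputable def S140_169_290_364_31 : EL := (EL.cons 13 (TM.mk (P.cons (P.cons (P.lf 267473619 0 0) (P.cons (P.lf 0 56843740 0) (P.cons (P.lf 0 7319829 0) (P.lf 487986 0 0)))) (P.cons (P.cons (P.lf 428067604 0 0) (P.cons (P.lf 0 14463969 0) (P.cons (P.lf 0 1862540 0) (P.lf 124166 0 0)))) (P.cons (P.cons (P.lf 0 49897445 0) (P.cons (P.lf 519005 0 0) (P.cons (P.lf 66834 0 0) (P.lf 0 4456 0)))) (P.cons (P.cons (P.lf 0 9473051 0) (P.cons (P.lf 448528 0 0) (P.cons (P.lf 57757 0 0) P.nil))) (P.cons (P.cons (P.lf 347240 0 0) (P.cons (P.lf 31922 0 0) P.nil)) (P.cons (P.cons (P.lf 124161 0 0) P.nil) P.nil)))))) 34231)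
 EL.nil)
noncomputable def S140_169_290_364_32 : EL := (EL.cons 13 (TM.mk (P.cons (P.cons (P.lf 25133826 0 0) (P.cons (P.lf 0 10682927 0) (P.cons (P.lf 0 240478 0) (P.cons (P.lf 384064 0 0) (P.cons (P.lf 0 666 0) (P.cons (P.lf 0 2509 0) P.nil)))))) (P.cons (P.cons (P.lf 82860086 0 0) (P.cons (P.lf 0 20840219 0) (P.cons (P.lf 0 1997022 0) (P.cons (P.lf 355733 0 0) (P.cons (P.lf 0 402 0) P.nil))))) (P.cons (P.cons (P.lf 63144672 0 0) (P.cons (P.lf 0 4343116 0) (P.cons (P.lf 0 431715 0) (P.cons (P.lf 70132 0 0) P.nil)))) (P.cons (P.cons (P.lf 0 10078481 0) (P.cons (P.lf 545034 0 0) (P.cons (P.lf 64678 0 0) P.nil))) (P.cons (P.cons (P.lf 0 2377001 0) (P.cons (P.lf 222571 0 0) P.nil)) (P.cons (P.cons (P.lf 153645 0 0) P.nil) P.nil)))))) 189874)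
 EL.nil)
noncomputable def S140_169_290_364_33 : EL := (EL.cons 14 (TM.mk (P.lf 8589934592 0 0) 0)
 EL.nil)
noncomputable def S140_169_290_364_34 : EL := (EL.cons 14 (TM.mk (P.cons (P.cons (P.lf 807174656 0 0) (P.cons (P.lf 0 171541504 0) (P.cons (P.lf 0 22089584 0) (P.lf 1472632 0 0)))) (P.cons (P.cons (P.lf 1369246826 0 0) (P.cons (P.lf 0 60105744 0) (P.cons (P.lf 0 7739880 0) (P.lf 515984 0 0)))) (P.cons (P.cons (P.lf 0 12882182 0) (P.cons (P.lf 0 5547112 0) (P.cons (P.lf 0 714304 0) (P.lf 47616 0 0)))) (P.cons (P.cons (P.lf 0 19032632 0) (P.cons (P.lf 341328 0 0) (P.cons (P.lf 43952 0 0) P.nil))) (P.cons (P.cons (P.lf 0 834340 0) (P.cons (P.lf 86832 0 0) P.nil)) (P.cons (P.cons (P.lf 110518 0 0) P.nil) P.nil)))))) 42558)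
 EL.nil)
noncomputable def S140_169_290_364_35 : EL := (EL.cons 14 (TM.mk (P.cons (P.cons (P.lf 75848182 0 0) (P.cons (P.lf 0 32238650 0) (P.cons (P.lf 0 725710 0) (P.cons (P.lf 1159018 0 0) (P.cons (P.lf 0 2012 0) (P.cons (P.lf 0 7572 0) P.nil)))))) (P.cons (P.cons (P.lf 257329394 0 0) (P.cons (P.lf 0 65983852 0) (P.cons (P.lf 0 6096180 0) (P.cons (P.lf 1184712 0 0) (P.cons (P.lf 0 1408 0) P.nil))))) (P.cons (P.cons (P.lf 215838724 0 0) (P.cons (P.lf 0 19689848 0) (P.cons (P.lf 0 1893354 0) (P.cons (P.lf 334402 0 0) P.nil)))) (P.cons (P.cons (P.lf 0 7683770 0) (P.cons (P.lf 0 763840 0) (P.cons (P.lf 0 34362 0) P.nil))) (P.cons (P.cons (P.lf 0 6205134 0) (P.cons (P.lf 441446 0 0) P.nil)) (P.cons (P.cons (P.lf 0 188132 0) P.nil) P.nil)))))) 342900)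
 EL.nil)
noncomputable def S140_169_290_364_36 : EL := (EL.cons 14 (TM.mk (P.cons (P.lf 0 5692896520 0) (P.cons (P.lf 546145784 0 0) (P.cons (P.lf 44706904 0 0) (P.cons (P.lf 267288 0 0) (P.cons (P.lf 0 137296 0) (P.cons (P.lf 0 7336 0) P.nil)))))) 792)
 EL.nil)
noncomputable def S140_169_290_364_37 : EL := (EL.cons 14 (TM.mk (P.cons (P.cons (P.lf 0 534947238 0) (P.cons (P.lf 113687480 0 0) (P.cons (P.lf 14639658 0 0) (P.lf 0 975972 0)))) (P.cons (P.cons (P.lf 0 856135208 0) (P.cons (P.lf 28927938 0 0) (P.cons (P.lf 3725080 0 0) (P.lf 0 248332 0)))) (P.cons (P.cons (P.lf 99794890 0 0) (P.cons (P.lf 0 1038010 0) (P.cons (P.lf 0 133668 0) (P.lf 8912 0 0)))) (P.cons (P.cons (P.lf 18946102 0 0) (P.cons (P.lf 0 897056 0) (P.cons (P.lf 0 115514 0) P.nil))) (P.cons (P.cons (P.lf 0 694480 0) (P.cons (P.lf 0 63844 0) P.nil)) (P.cons (P.cons (P.lf 0 248322 0) P.nil) P.nil))))))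 68462)
 EL.nil)
noncomputable def S140_169_290_364_38 : EL := (EL.cons 14 (TM.mk (P.cons (P.cons (P.lf 0 50267652 0) (P.cons (P.lf 21365854 0 0) (P.cons (P.lf 480956 0 0) (P.cons (P.lf 0 768128 0) (P.cons (P.lf 1332 0 0) (P.cons (P.lf 5018 0 0) P.nil)))))) (P.cons (P.cons (P.lf 0 165720172 0) (P.cons (P.lf 41680438 0 0) (P.cons (P.lf 3994044 0 0) (P.cons (P.lf 0 711466 0) (P.cons (P.lf 804 0 0) P.nil))))) (P.cons (P.cons (P.lf 0 126289344 0) (P.cons (P.lf 8686232 0 0) (P.cons (P.lf 863430 0 0) (P.cons (P.lf 0 140264 0) P.nil)))) (P.cons (P.cons (P.lf 20156962 0 0) (P.cons (P.lf 0 1090068 0) (P.cons (P.lf 0 129356 0) P.nil))) (P.cons (P.cons (P.lf 4754002 0 0) (P.cons (P.lf 0 445142 0) P.nil)) (P.cons (P.cons (P.lf 0 307290 0) P.nil) P.nil)))))) 379748)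
 EL.nil)
noncomputable def S140_169_290_364_39 : EL := (EL.cons 14 (TM.mk (P.cons (P.lf 3772912404 0 0) (P.cons (P.lf 0 723905728 0) (P.cons (P.lf 0 24534334 0) (P.cons (P.lf 5330620 0 0) (P.cons (P.lf 448650 0 0) (P.cons (P.lf 0 4952 0) P.nil)))))) 3630)
 EL.nil)
noncomputable def S140_169_290_364_40 : EL := (EL.cons 14 (TM.mk (P.cons (P.cons (P.lf 354531136 0 0) (P.cons (P.lf 0 75345284 0) (P.cons (P.lf 0 9702292 0) (P.lf 646816 0 0)))) (P.cons (P.cons (P.lf 533383568 0 0) (P.cons (P.lf 0 11943492 0) (P.cons (P.lf 0 1537974 0) (P.lf 102528 0 0)))) (P.cons (P.cons (P.lf 0 123355124 0) (P.cons (P.lf 3118856 0 0) (P.cons (P.lf 401620 0 0) (P.lf 0 26774 0)))) (P.cons (P.cons (P.lf 0 10683874 0) (P.cons (P.lf 682614 0 0) (P.cons (P.lf 87900 0 0) P.nil))) (P.cons (P.cons (P.lf 2166146 0 0) (P.cons (P.lf 0 21040 0) P.nil)) (P.cons (P.cons (P.lf 236270 0 0) P.nil) P.nil))))))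 86038)
 EL.nil)
noncomputable def S140_169_290_364_41 : EL := (EL.cons 14 (TM.mk (P.cons (P.cons (P.lf 33314402 0 0) (P.cons (P.lf 0 14160014 0) (P.cons (P.lf 0 318748 0) (P.cons (P.lf 509068 0 0) (P.cons (P.lf 0 882 0) (P.cons (P.lf 0 3324 0) P.nil)))))) (P.cons (P.cons (P.lf 106633446 0 0) (P.cons (P.lf 0 26264874 0) (P.cons (P.lf 0 2616434 0) (P.cons (P.lf 422680 0 0) (P.cons (P.lf 0 448 0) P.nil))))) (P.cons (P.cons (P.lf 72898982 0 0) (P.cons (P.lf 0 2995486 0) (P.cons (P.lf 0 315786 0) (P.cons (P.lf 43726 0 0) P.nil)))) (P.cons (P.cons (P.lf 0 22252342 0) (P.cons (P.lf 1492294 0 0) (P.cons (P.lf 161428 0 0) P.nil))) (P.cons (P.cons (P.lf 0 2530730 0) (P.cons (P.lf 271872 0 0) P.nil)) (P.cons (P.cons (P.lf 609582 0 0) P.nil) P.nil)))))) 343374)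
 EL.nil)
noncomputable def S140_169_290_364_42 : EL := (EL.cons 14 (TM.mk (P.cons (P.lf 0 2500461402 0) (P.cons (P.lf 719642336 0 0) (P.cons (P.lf 0 10129460 0) (P.cons (P.lf 0 8742920 0) (P.cons (P.lf 0 168938 0) (P.cons (P.lf 67134 0 0) P.nil)))))) 7070)
 EL.nil)
noncomputable def S140_169_290_364_43 : EL := (EL.cons 14 (TM.mk (P.cons (P.cons (P.lf 0 234962100 0) (P.cons (P.lf 49934362 0 0) (P.cons (P.lf 6430100 0 0) (P.lf 0 428670 0)))) (P.cons (P.cons (P.lf 0 330953832 0) (P.cons (P.lf 3125002 0 0) (P.cons (P.lf 402408 0 0) (P.lf 0 26824 0)))) (P.cons (P.cons (P.lf 117509990 0 0) (P.cons (P.lf 0 3218496 0) (P.cons (P.lf 0 414450 0) (P.lf 27630 0 0)))) (P.cons (P.cons (P.lf 2024812 0 0) (P.cons (P.lf 0 318604 0) (P.cons (P.lf 0 41026 0) P.nil))) (P.cons (P.cons (P.lf 0 2745950 0) (P.cons (P.lf 74410 0 0) P.nil)) (P.cons (P.cons (P.lf 0 87134 0) P.nil) P.nil))))))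 98304)
 EL.nil)
noncomputable def S140_169_290_364_44 : EL := (EL.cons 14 (TM.mk (P.cons (P.cons (P.lf 0 22078800 0) (P.cons (P.lf 9384412 0 0) (P.cons (P.lf 211248 0 0) (P.cons (P.lf 0 337380 0) (P.cons (P.lf 584 0 0) (P.cons (P.lf 2204 0 0) P.nil)))))) (P.cons (P.cons (P.lf 0 68552168 0) (P.cons (P.lf 16506502 0 0) (P.cons (P.lf 1713750 0 0) (P.cons (P.lf 0 247760 0) (P.cons (P.lf 240 0 0) P.nil))))) (P.cons (P.cons (P.lf 0 41359984 0) (P.cons (P.lf 241618 0 0) (P.cons (P.lf 41272 0 0) (P.cons (P.lf 542 0 0) P.nil)))) (P.cons (P.cons (P.lf 19938440 0 0) (P.cons (P.lf 0 1316592 0) (P.cons (P.lf 0 140690 0) P.nil))) (P.cons (P.cons (P.lf 644612 0 0) (P.cons (P.lf 0 101482 0) P.nil)) (P.cons (P.cons (P.lf 0 680176 0) P.nil) P.nil)))))) 285132)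
 EL.nil)
noncomputable def S140_169_290_364_45 : EL := (EL.cons 14 (TM.mk (P.cons (P.cons (P.lf 7127262 0 0) (P.cons (P.lf 0 4544076 0) (P.cons (P.lf 380564 0 0) (P.cons (P.lf 219308 0 0) (P.cons (P.lf 0 26994 0) (P.cons (P.lf 0 3776 0) P.nil)))))) (P.cons (P.cons (P.lf 36270898 0 0) (P.cons (P.lf 0 17008830 0) (P.cons (P.lf 124678 0 0) (P.cons (P.lf 670294 0 0) (P.cons (P.lf 0 29138 0) P.nil))))) (P.cons (P.cons (P.lf 61186718 0 0) (P.cons (P.lf 0 18479654 0) (P.cons (P.lf 0 1066048 0) (P.cons (P.lf 465114 0 0) P.nil)))) (P.cons (P.cons (P.lf 33128982 0 0) (P.cons (P.lf 0 4559966 0) (P.cons (P.lf 0 295654 0) P.nil))) (P.cons (P.cons (P.lf 0 2709102 0) (P.cons (P.lf 147876 0 0) P.nil)) (P.cons (P.cons (P.lf 0 1497510 0) P.nil) P.nil)))))) 697960)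
 EL.nil)
noncomputable def S140_169_290_364_46 : EL := (EL.cons 15 (TM.mk (P.lf 4294967296 0 0) 0)
 EL.nil)
noncomputable def S140_169_290_364_47 : EL := (EL.cons 15 (TM.mk (P.cons (P.cons (P.lf 403587328 0 0) (P.cons (P.lf 0 85770752 0) (P.cons (P.lf 0 11044792 0) (P.lf 736316 0 0)))) (P.cons (P.cons (P.lf 684623413 0 0) (P.cons (P.lf 0 30052872 0) (P.cons (P.lf 0 3869940 0) (P.lf 257992 0 0)))) (P.cons (P.cons (P.lf 0 6441091 0) (P.cons (P.lf 0 2773556 0) (P.cons (P.lf 0 357152 0) (P.lf 23808 0 0)))) (P.cons (P.cons (P.lf 0 9516316 0) (P.cons (P.lf 170664 0 0) (P.cons (P.lf 21976 0 0) P.nil))) (P.cons (P.cons (P.lf 0 417170 0) (P.cons (P.lf 43416 0 0) P.nil)) (P.cons (P.cons (P.lf 55259 0 0) P.nil) P.nil)))))) 21279)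
 EL.nil)
noncomputable def S140_169_290_364_48 : EL := (EL.cons 15 (TM.mk (P.cons (P.cons (P.lf 37924091 0 0) (P.cons (P.lf 0 16119325 0) (P.cons (P.lf 0 362855 0) (P.cons (P.lf 579509 0 0) (P.cons (P.lf 0 1006 0) (P.cons (P.lf 0 3786 0) P.nil)))))) (P.cons (P.cons (P.lf 128664697 0 0) (P.cons (P.lf 0 32991926 0) (P.cons (P.lf 0 3048090 0) (P.cons (P.lf 592356 0 0) (P.cons (P.lf 0 704 0) P.nil))))) (P.cons (P.cons (P.lf 107919362 0 0) (P.cons (P.lf 0 9844924 0) (P.cons (P.lf 0 946677 0) (P.cons (P.lf 167201 0 0) P.nil)))) (P.cons (P.cons (P.lf 0 3841885 0) (P.cons (P.lf 0 381920 0) (P.cons (P.lf 0 17181 0) P.nil))) (P.cons (P.cons (P.lf 0 3102567 0) (P.cons (P.lf 220723 0 0) P.nil)) (P.cons (P.cons (P.lf 0 94066 0) P.nil) P.nil)))))) 171450)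
 EL.nil)
noncomputable def S140_169_290_364 : SL := (SL.cons S140_169_290_364_0 (SL.cons S140_169_290_364_1 (SL.cons S140_169_290_364_2 (SL.cons S140_169_290_364_3 (SL.cons S140_169_290_364_4 (SL.cons S140_169_290_364_5 (SL.cons S140_169_290_364_6 (SL.cons S140_169_290_364_7 (SL.cons S140_169_290_364_8 (SL.cons S140_169_290_364_9 (SL.cons S140_169_290_364_10 (SL.cons S140_169_290_364_11 (SL.cons S140_169_290_364_12 (SL.cons S140_169_290_364_13 (SL.cons S140_169_290_364_14 (SL.cons S140_169_290_364_15 (SL.cons S140_169_290_364_16 (SL.cons S140_169_290_364_17 (SL.cons S140_169_290_364_18 (SL.cons S140_169_290_364_19 (SL.cons S140_169_290_364_20 (SL.cons S140_169_290_364_21 (SL.cons S140_169_290_364_22 (SL.cons S140_169_290_364_23 (SL.cons S140_169_290_364_24 (SL.cons S140_169_290_364_25 (SL.cons S140_169_290_364_26 (SL.cons S140_169_290_364_27 (SL.cons S140_169_290_364_28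 (SL.cons S140_169_290_364_29 (SL.cons S140_169_290_364_30 (SL.cons S140_169_290_364_31 (SL.cons S140_169_290_364_32 (SL.cons S140_169_290_364_33 (SL.cons S140_169_290_364_34 (SL.cons S140_169_290_364_35 (SL.cons S140_169_290_364_36 (SL.cons S140_169_290_364_37 (SL.cons S140_169_290_364_38 (SL.cons S140_169_290_364_39 (SL.cons S140_169_290_364_40 (SL.cons S140_169_290_364_41 (SL.cons S140_169_290_364_42 (SL.cons S140_169_290_364_43 (SL.cons S140_169_290_364_44 (SL.cons S140_169_290_364_45 (SL.cons S140_169_290_364_46 (SL.cons S140_169_290_364_47 (SL.cons S140_169_290_364_48 SL.nil)))))))))))))))))))))))))))))))))))))))))))))))))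
noncomputable def S140_169_364_438_0 : EL := (EL.cons 0 (TM.mk (P.cons (P.lf 5139680571 0 0) (P.cons (P.lf 636245268 0 0) (P.cons (P.lf 21563379 0 0) (P.cons (P.lf 0 4685115 0) (P.cons (P.lf 0 394321 0) (P.cons (P.lf 4352 0 0) P.nil)))))) 3197)
 (EL.cons 1 (TM.mk (P.cons (P.lf 0 1792040857 0) (P.cons (P.lf 0 37383279 0) (P.cons (P.lf 39281548 0 0) (P.cons (P.lf 2177913 0 0) (P.cons (P.lf 0 137038 0) (P.cons (P.lf 0 19477 0) P.nil)))))) 1484)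
 (EL.cons 5 (TM.mk (P.cons (P.lf 5474002426 0 0) (P.cons (P.lf 0 226220540 0) (P.cons (P.lf 0 7666984 0) (P.cons (P.lf 1665814 0 0) (P.cons (P.lf 140204 0 0) (P.cons (P.lf 0 1546 0) P.nil)))))) 969)
 (EL.cons 9 (TM.mk (P.lf 6442450944 0 0) 2)
 EL.nil))))
noncomputable def S140_169_364_438_1 : EL := (EL.cons 0 (TM.mk (P.cons (P.cons (P.lf 0 3807820826 0) (P.cons (P.lf 135593212 0 0) (P.cons (P.lf 7419107 0 0) (P.lf 0 824334 0)))) (P.cons (P.cons (P.lf 1040139855 0 0) (P.cons (P.lf 0 24256151 0) (P.cons (P.lf 0 1327204 0) (P.lf 147477 0 0)))) (P.cons (P.cons (P.lf 330522375 0 0) (P.cons (P.lf 0 23193441 0) (P.cons (P.lf 0 1269050 0) (P.lf 140997 0 0)))) (P.cons (P.cons (P.lf 0 9417282 0) (P.cons (P.lf 0 2914250 0) (P.cons (P.lf 0 159445 0) P.nil))) (P.cons (P.cons (P.lf 0 8419632 0) (P.cons (P.lf 225151 0 0) P.nil)) (P.cons (P.cons (P.lf 0 417873 0) P.nil) P.nil))))))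 370223)
 (EL.cons 1 (TM.mk (P.cons (P.cons (P.lf 156512455 0 0) (P.cons (P.lf 34051190 0 0) (P.cons (P.lf 1863139 0 0) (P.lf 0 207007 0)))) (P.cons (P.cons (P.lf 0 788030343 0) (P.cons (P.lf 51904330 0 0) (P.cons (P.lf 2839991 0 0) (P.lf 0 315542 0)))) (P.cons (P.cons (P.lf 21366687 0 0) (P.cons (P.lf 7339052 0 0) (P.cons (P.lf 401553 0 0) (P.lf 0 44610 0)))) (P.cons (P.cons (P.lf 34926531 0 0) (P.cons (P.lf 0 1330992 0) (P.cons (P.lf 0 72818 0) P.nil))) (P.cons (P.cons (P.lf 1192430 0 0) (P.cons (P.lf 0 319765 0) P.nil)) (P.cons (P.cons (P.lf 0 521976 0) P.nil) P.nil)))))) 186390)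
 (EL.cons 5 (TM.mk (P.cons (P.cons (P.lf 1683279084 0 0) (P.cons (P.lf 0 254104894 0) (P.cons (P.lf 0 13903598 0) (P.lf 1544844 0 0)))) (P.cons (P.cons (P.lf 669045689 0 0) (P.cons (P.lf 0 63517958 0) (P.cons (P.lf 0 3475446 0) (P.lf 386154 0 0)))) (P.cons (P.cons (P.lf 0 140003844 0) (P.cons (P.lf 1588586 0 0) (P.cons (P.lf 86922 0 0) (P.lf 0 9650 0)))) (P.cons (P.cons (P.lf 0 12119604 0) (P.cons (P.lf 1445858 0 0) (P.cons (P.lf 79104 0 0) P.nil))) (P.cons (P.cons (P.lf 2465023 0 0) (P.cons (P.lf 24178 0 0) P.nil)) (P.cons (P.cons (P.lf 248584 0 0) P.nil) P.nil)))))) 131063)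
 (EL.cons 9 (TM.mk (P.cons (P.cons (P.lf 290635788 0 0) (P.cons (P.lf 0 181671150 0) (P.cons (P.lf 0 9940314 0) (P.lf 1104474 0 0)))) (P.cons (P.cons (P.lf 916652803 0 0) (P.cons (P.lf 0 63655026 0) (P.cons (P.lf 0 3482946 0) (P.lf 386988 0 0)))) (P.cons (P.cons (P.lf 0 19839514 0) (P.cons (P.lf 0 5874672 0) (P.cons (P.lf 0 321432 0) (P.lf 35712 0 0)))) (P.cons (P.cons (P.lf 0 13648200 0) (P.cons (P.lf 361482 0 0) (P.cons (P.lf 19776 0 0) P.nil))) (P.cons (P.cons (P.lf 0 466425 0) (P.cons (P.lf 91962 0 0) P.nil)) (P.cons (P.cons (P.lf 88240 0 0) P.nil) P.nil)))))) 29189)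
 (EL.cons 2 (TM.mk (P.cons (P.cons (P.lf 757088026 0 0) (P.cons (P.lf 94996352 0 0) (P.cons (P.lf 0 14503483 0) (P.cons (P.lf 0 443078 0) (P.lf 36922 0 0))))) (P.cons (P.cons (P.lf 104217758 0 0) (P.cons (P.lf 13076822 0 0) (P.cons (P.lf 0 1996489 0) (P.cons (P.lf 0 60989 0) (P.lf 5082 0 0))))) (P.cons (P.cons (P.lf 0 16917707 0) (P.cons (P.lf 0 2122765 0) (P.cons (P.lf 324090 0 0) (P.cons (P.lf 9900 0 0) P.nil)))) (P.cons (P.cons (P.lf 0 3301613 0) (P.cons (P.lf 0 414270 0) (P.cons (P.lf 63247 0 0) P.nil))) (P.cons (P.cons (P.lf 0 21785 0) (P.cons (P.lf 0 2730 0) P.nil)) (P.cons (P.cons (P.lf 26907 0 0) P.nil) P.nil)))))) 16524)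
 (EL.cons 6 (TM.mk (P.cons (P.cons (P.lf 409142889 0 0) (P.cons (P.lf 51337599 0 0) (P.cons (P.lf 0 7837923 0) (P.cons (P.lf 0 239445 0) (P.lf 19953 0 0))))) (P.cons (P.cons (P.lf 143357943 0 0) (P.cons (P.lf 17987976 0 0) (P.cons (P.lf 0 2746296 0) (P.cons (P.lf 0 83898 0) (P.lf 6990 0 0))))) (P.cons (P.cons (P.lf 13230402 0 0) (P.cons (P.lf 1660095 0 0) (P.cons (P.lf 0 253452 0) (P.cons (P.lf 0 7740 0) P.nil)))) (P.cons (P.cons (P.lf 0 814101 0) (P.cons (P.lf 0 102147 0) (P.cons (P.lf 15594 0 0) P.nil))) (P.cons (P.cons (P.lf 0 207114 0) (P.cons (P.lf 0 25986 0) P.nil)) (P.cons (P.cons (P.lf 0 6963 0) P.nil) P.nil)))))) 9411)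
 EL.nil))))))
noncomputable def S140_169_364_438_2 : EL := (EL.cons 0 (TM.mk (P.cons (P.cons (P.lf 0 354021484 0) (P.cons (P.lf 240064690 0 0) (P.cons (P.lf 1401158 0 0) (P.cons (P.lf 0 2743568 0) (P.cons (P.lf 107543 0 0) (P.cons (P.lf 7798 0 0) P.nil)))))) (P.cons (P.cons (P.lf 0 1057007018 0) (P.cons (P.lf 100425715 0 0) (P.cons (P.lf 813408 0 0) (P.cons (P.lf 0 1122830 0) (P.cons (P.lf 42901 0 0) P.nil))))) (P.cons (P.cons (P.lf 238428712 0 0) (P.cons (P.lf 0 22371991 0) (P.cons (P.lf 0 821774 0) (P.cons (P.lf 180046 0 0) P.nil)))) (P.cons (P.cons (P.lf 95448703 0 0) (P.cons (P.lf 0 13320833 0) (P.cons (P.lf 0 226186 0) P.nil))) (P.cons (P.cons (P.lf 0 5938012 0) (P.cons (P.lf 0 807491 0) P.nil)) (P.cons (P.cons (P.lf 0 3495187 0) P.nil) P.nil)))))) 1956686)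
 (EL.cons 1 (TM.mk (P.cons (P.cons (P.lf 17768439 0 0) (P.cons (P.lf 0 10314172 0) (P.cons (P.lf 0 1059756 0) (P.cons (P.lf 8498 0 0) (P.cons (P.lf 4539 0 0) (P.cons (P.lf 325 0 0) P.nil)))))) (P.cons (P.cons (P.lf 0 3480541 0) (P.cons (P.lf 39650569 0 0) (P.cons (P.lf 0 402332 0) (P.cons (P.lf 0 522496 0) (P.cons (P.lf 23571 0 0) P.nil))))) (P.cons (P.cons (P.lf 0 187102101 0) (P.cons (P.lf 24196353 0 0) (P.cons (P.lf 78934 0 0) (P.cons (P.lf 0 283330 0) P.nil)))) (P.cons (P.cons (P.lf 11746603 0 0) (P.cons (P.lf 688416 0 0) (P.cons (P.lf 0 114566 0) P.nil))) (P.cons (P.cons (P.lf 11304144 0 0) (P.cons (P.lf 0 1311534 0) P.nil)) (P.cons (P.cons (P.lf 71475 0 0) P.nil) P.nil)))))) 1041422)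
 (EL.cons 5 (TM.mk (P.cons (P.cons (P.lf 140733816 0 0) (P.cons (P.lf 0 103933161 0) (P.cons (P.lf 4291373 0 0) (P.cons (P.lf 1723789 0 0) (P.cons (P.lf 0 91447 0) (P.cons (P.lf 0 6630 0) P.nil)))))) (P.cons (P.cons (P.lf 469557279 0 0) (P.cons (P.lf 0 100806506 0) (P.cons (P.lf 217500 0 0) (P.cons (P.lf 1240245 0 0) (P.cons (P.lf 0 52540 0) P.nil))))) (P.cons (P.cons (P.lf 61010899 0 0) (P.cons (P.lf 0 11907430 0) (P.cons (P.lf 293723 0 0) (P.cons (P.lf 175820 0 0) P.nil)))) (P.cons (P.cons (P.lf 0 41731322 0) (P.cons (P.lf 4195303 0 0) (P.cons (P.lf 159276 0 0) P.nil))) (P.cons (P.cons (P.lf 0 2268839 0) (P.cons (P.lf 789573 0 0) P.nil)) (P.cons (P.cons (P.lf 1196593 0 0) P.nil) P.nil)))))) 817491)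
 (EL.cons 9 (TM.mk (P.cons (P.cons (P.lf 13111338 0 0) (P.cons (P.lf 0 16391319 0) (P.cons (P.lf 4226091 0 0) (P.cons (P.lf 660265 0 0) (P.cons (P.lf 0 46951 0) (P.cons (P.lf 0 3408 0) P.nil)))))) (P.cons (P.cons (P.lf 82705203 0 0) (P.cons (P.lf 0 57440808 0) (P.cons (P.lf 447094 0 0) (P.cons (P.lf 742075 0 0) (P.cons (P.lf 0 32902 0) P.nil))))) (P.cons (P.cons (P.lf 128634307 0 0) (P.cons (P.lf 0 17525218 0) (P.cons (P.lf 1359 0 0) (P.cons (P.lf 211626 0 0) P.nil)))) (P.cons (P.cons (P.lf 0 6877072 0) (P.cons (P.lf 0 477334 0) (P.cons (P.lf 69586 0 0) P.nil))) (P.cons (P.cons (P.lf 0 3864807 0) (P.cons (P.lf 443353 0 0) P.nil)) (P.cons (P.cons (P.lf 0 40707 0) P.nil) P.nil)))))) 249455)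
 (EL.cons 2 (TM.mk (P.cons (P.cons (P.lf 68308436 0 0) (P.cons (P.lf 0 34127291 0) (P.cons (P.lf 0 9002480 0) (P.cons (P.lf 744429 0 0) (P.cons (P.lf 105643 0 0) (P.cons (P.lf 0 5686 0) P.nil)))))) (P.cons (P.cons (P.lf 224844946 0 0) (P.cons (P.lf 7374037 0 0) (P.cons (P.lf 0 8062284 0) (P.cons (P.lf 251229 0 0) (P.cons (P.lf 60896 0 0) P.nil))))) (P.cons (P.cons (P.lf 23467573 0 0) (P.cons (P.lf 458550 0 0) (P.cons (P.lf 0 897530 0) (P.cons (P.lf 31933 0 0) P.nil)))) (P.cons (P.cons (P.lf 0 8961727 0) (P.cons (P.lf 0 709065 0) (P.cons (P.lf 246526 0 0) P.nil))) (P.cons (P.cons (P.lf 0 1388486 0) (P.cons (P.lf 0 43582 0) P.nil)) (P.cons (P.cons (P.lf 93886 0 0) P.nil) P.nil)))))) 210644)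
 (EL.cons 6 (TM.mk (P.cons (P.cons (P.lf 36915006 0 0) (P.cons (P.lf 0 18442950 0) (P.cons (P.lf 0 4865082 0) (P.cons (P.lf 402300 0 0) (P.cons (P.lf 57090 0 0) (P.cons (P.lf 0 3072 0) P.nil)))))) (P.cons (P.cons (P.lf 129362850 0 0) (P.cons (P.lf 61680 0 0) (P.cons (P.lf 0 5391942 0) (P.cons (P.lf 221352 0 0) (P.cons (P.lf 45054 0 0) P.nil))))) (P.cons (P.cons (P.lf 39468672 0 0) (P.cons (P.lf 627114 0 0) (P.cons (P.lf 0 1535472 0) (P.cons (P.lf 56358 0 0) P.nil)))) (P.cons (P.cons (P.lf 1075014 0 0) (P.cons (P.lf 0 296172 0) (P.cons (P.lf 0 98268 0) P.nil))) (P.cons (P.cons (P.lf 0 998478 0) (P.cons (P.lf 0 93870 0) P.nil)) (P.cons (P.cons (P.lf 0 120156 0) P.nil) P.nil)))))) 117426)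
 EL.nil))))))
noncomputable def S140_169_364_438_3 : EL := (EL.cons 0 (TM.mk (P.cons (P.lf 3316036292 0 0) (P.cons (P.lf 0 636245268 0) (P.cons (P.lf 0 21563379 0) (P.cons (P.lf 4685115 0 0) (P.cons (P.lf 394321 0 0) (P.cons (P.lf 0 4352 0) P.nil)))))) 3197)
 (EL.cons 1 (TM.mk (P.cons (P.lf 1792040857 0 0) (P.cons (P.lf 37383279 0 0) (P.cons (P.lf 0 39281548 0) (P.cons (P.lf 0 2177913 0) (P.cons (P.lf 137038 0 0) (P.cons (P.lf 19477 0 0) P.nil)))))) 1484)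
 (EL.cons 5 (TM.mk (P.cons (P.lf 968448518 0 0) (P.cons (P.lf 226220540 0 0) (P.cons (P.lf 7666984 0 0) (P.cons (P.lf 0 1665814 0) (P.cons (P.lf 0 140204 0) (P.cons (P.lf 1546 0 0) P.nil)))))) 962)
 EL.nil)))
noncomputable def S140_169_364_438_4 : EL := (EL.cons 0 (TM.mk (P.cons (P.cons (P.lf 149595057 0 0) (P.cons (P.lf 0 93509150 0) (P.cons (P.lf 0 5116443 0) (P.lf 568490 0 0)))) (P.cons (P.cons (P.lf 443113706 0 0) (P.cons (P.lf 0 14822767 0) (P.cons (P.lf 0 811040 0) (P.lf 90112 0 0)))) (P.cons (P.cons (P.lf 0 101711545 0) (P.cons (P.lf 3870734 0 0) (P.cons (P.lf 211793 0 0) (P.lf 0 23531 0)))) (P.cons (P.cons (P.lf 0 7922387 0) (P.cons (P.lf 847174 0 0) (P.cons (P.lf 46351 0 0) P.nil))) (P.cons (P.cons (P.lf 1858601 0 0) (P.cons (P.lf 0 26112 0) P.nil)) (P.cons (P.cons (P.lf 178644 0 0) P.nil) P.nil)))))) 74970)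
 (EL.cons 1 (TM.mk (P.cons (P.cons (P.lf 80843641 0 0) (P.cons (P.lf 0 50533891 0) (P.cons (P.lf 0 2765010 0) (P.lf 307220 0 0)))) (P.cons (P.cons (P.lf 256663837 0 0) (P.cons (P.lf 0 18760541 0) (P.cons (P.lf 0 1026500 0) (P.lf 114052 0 0)))) (P.cons (P.cons (P.lf 0 1971663 0) (P.cons (P.lf 0 895770 0) (P.cons (P.lf 0 49010 0) (P.lf 5445 0 0)))) (P.cons (P.cons (P.lf 0 9598880 0) (P.cons (P.lf 516000 0 0) (P.cons (P.lf 28231 0 0) P.nil))) (P.cons (P.cons (P.lf 0 391666 0) (P.cons (P.lf 81150 0 0) P.nil)) (P.cons (P.cons (P.lf 132138 0 0) P.nil) P.nil)))))) 45898)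
 (EL.cons 5 (TM.mk (P.cons (P.cons (P.lf 43689240 0 0) (P.cons (P.lf 0 27309350 0) (P.cons (P.lf 0 1494256 0) (P.lf 166026 0 0)))) (P.cons (P.cons (P.lf 147999392 0 0) (P.cons (P.lf 0 15948022 0) (P.cons (P.lf 0 872610 0) (P.lf 96954 0 0)))) (P.cons (P.cons (P.lf 29550932 0 0) (P.cons (P.lf 0 3334484 0) (P.cons (P.lf 0 182448 0) (P.lf 20270 0 0)))) (P.cons (P.cons (P.lf 0 1732548 0) (P.cons (P.lf 0 180722 0) (P.cons (P.lf 0 9888 0) P.nil))) (P.cons (P.cons (P.lf 0 816310 0) (P.cons (P.lf 39938 0 0) P.nil)) (P.cons (P.cons (P.lf 0 34104 0) P.nil) P.nil)))))) 25602)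
 EL.nil)))
noncomputable def S140_169_364_438_5 : EL := (EL.cons 0 (TM.mk (P.cons (P.cons (P.lf 6748621 0 0) (P.cons (P.lf 0 8436883 0) (P.cons (P.lf 2175238 0 0) (P.cons (P.lf 339848 0 0) (P.cons (P.lf 0 24166 0) (P.cons (P.lf 0 1752 0) P.nil)))))) (P.cons (P.cons (P.lf 41274885 0 0) (P.cons (P.lf 0 27946956 0) (P.cons (P.lf 0 187233 0) (P.cons (P.lf 316750 0 0) (P.cons (P.lf 0 12297 0) P.nil))))) (P.cons (P.cons (P.lf 57998503 0 0) (P.cons (P.lf 0 3292901 0) (P.cons (P.lf 0 57598 0) (P.cons (P.lf 33430 0 0) P.nil)))) (P.cons (P.cons (P.lf 0 16510728 0) (P.cons (P.lf 1665406 0 0) (P.cons (P.lf 37258 0 0) P.nil))) (P.cons (P.cons (P.lf 0 1679712 0) (P.cons (P.lf 291223 0 0) P.nil)) (P.cons (P.cons (P.lf 482345 0 0) P.nil) P.nil)))))) 289959)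
 (EL.cons 1 (TM.mk (P.cons (P.cons (P.lf 3647066 0 0) (P.cons (P.lf 0 4559430 0) (P.cons (P.lf 1175533 0 0) (P.cons (P.lf 183660 0 0) (P.cons (P.lf 0 13059 0) (P.cons (P.lf 0 946 0) P.nil)))))) (P.cons (P.cons (P.lf 23081469 0 0) (P.cons (P.lf 0 16072923 0) (P.cons (P.lf 148886 0 0) (P.cons (P.lf 210247 0 0) (P.cons (P.lf 0 9423 0) P.nil))))) (P.cons (P.cons (P.lf 36181057 0 0) (P.cons (P.lf 0 5108203 0) (P.cons (P.lf 0 22794 0) (P.cons (P.lf 59145 0 0) P.nil)))) (P.cons (P.cons (P.lf 0 1675224 0) (P.cons (P.lf 121305 0 0) (P.cons (P.lf 15208 0 0) P.nil))) (P.cons (P.cons (P.lf 0 1926945 0) (P.cons (P.lf 246478 0 0) P.nil)) (P.cons (P.cons (P.lf 0 33504 0) P.nil) P.nil)))))) 180213)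
 (EL.cons 5 (TM.mk (P.cons (P.cons (P.lf 1970934 0 0) (P.cons (P.lf 0 2463990 0) (P.cons (P.lf 635278 0 0) (P.cons (P.lf 99252 0 0) (P.cons (P.lf 0 7056 0) (P.cons (P.lf 0 510 0) P.nil)))))) (P.cons (P.cons (P.lf 12892884 0 0) (P.cons (P.lf 0 9210238 0) (P.cons (P.lf 215602 0 0) (P.cons (P.lf 134734 0 0) (P.cons (P.lf 0 6594 0) P.nil))))) (P.cons (P.cons (P.lf 22256412 0 0) (P.cons (P.lf 0 4670928 0) (P.cons (P.lf 20932 0 0) (P.cons (P.lf 58654 0 0) P.nil)))) (P.cons (P.cons (P.lf 3578122 0 0) (P.cons (P.lf 0 751254 0) (P.cons (P.lf 9946 0 0) P.nil))) (P.cons (P.cons (P.lf 0 691036 0) (P.cons (P.lf 44236 0 0) P.nil)) (P.cons (P.cons (P.lf 0 185068 0) P.nil) P.nil)))))) 102220)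
 EL.nil)))
noncomputable def S140_169_364_438_6 : EL := (EL.cons 12 (TM.mk (P.lf 8589934592 0 0) 0)
 (EL.cons 3 (TM.mk (P.cons (P.lf 0 2668545243 0) (P.cons (P.lf 256005836 0 0) (P.cons (P.lf 20956361 0 0) (P.cons (P.lf 125291 0 0) (P.cons (P.lf 0 64357 0) (P.cons (P.lf 0 3438 0) P.nil)))))) 378)
 (EL.cons 7 (TM.mk (P.cons (P.lf 0 1442125985 0) (P.cons (P.lf 0 168433589 0) (P.cons (P.lf 4127638 0 0) (P.cons (P.lf 758202 0 0) (P.cons (P.lf 21743 0 0) (P.cons (P.lf 0 1521 0) P.nil)))))) 224)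
 EL.nil)))
noncomputable def S140_169_364_438_7 : EL := (EL.cons 12 (TM.mk (P.cons (P.cons (P.lf 387514384 0 0) (P.cons (P.lf 0 242228200 0) (P.cons (P.lf 0 13253752 0) (P.lf 1472632 0 0)))) (P.cons (P.cons (P.lf 1222203738 0 0) (P.cons (P.lf 0 84873368 0) (P.cons (P.lf 0 4643928 0) (P.lf 515984 0 0)))) (P.cons (P.cons (P.lf 0 26452686 0) (P.cons (P.lf 0 7832896 0) (P.cons (P.lf 0 428576 0) (P.lf 47616 0 0)))) (P.cons (P.cons (P.lf 0 18197600 0) (P.cons (P.lf 481976 0 0) (P.cons (P.lf 26368 0 0) P.nil))) (P.cons (P.cons (P.lf 0 621900 0) (P.cons (P.lf 122616 0 0) P.nil)) (P.cons (P.cons (P.lf 117654 0 0) P.nil) P.nil)))))) 38894)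
 (EL.cons 3 (TM.mk (P.cons (P.cons (P.lf 3130509059 0 0) (P.cons (P.lf 0 150501006 0) (P.cons (P.lf 0 8234808 0) (P.lf 914972 0 0)))) (P.cons (P.cons (P.lf 0 281712082 0) (P.cons (P.lf 0 38295188 0) (P.cons (P.lf 0 2095356 0) (P.lf 232810 0 0)))) (P.cons (P.cons (P.lf 0 125678443 0) (P.cons (P.lf 1374132 0 0) (P.cons (P.lf 75190 0 0) (P.lf 0 8354 0)))) (P.cons (P.cons (P.lf 0 8208380 0) (P.cons (P.lf 1187534 0 0) (P.cons (P.lf 64972 0 0) P.nil))) (P.cons (P.cons (P.lf 1428425 0 0) (P.cons (P.lf 84518 0 0) P.nil)) (P.cons (P.cons (P.lf 211391 0 0) P.nil) P.nil)))))) 128670)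
 (EL.cons 7 (TM.mk (P.cons (P.cons (P.lf 0 2203914642 0) (P.cons (P.lf 189195024 0 0) (P.cons (P.lf 10351993 0 0) (P.lf 0 1150224 0)))) (P.cons (P.cons (P.lf 185346457 0 0) (P.cons (P.lf 25195508 0 0) (P.cons (P.lf 1378597 0 0) (P.lf 0 153179 0)))) (P.cons (P.cons (P.lf 62973082 0 0) (P.cons (P.lf 0 3583995 0) (P.cons (P.lf 0 196101 0) (P.lf 21786 0 0)))) (P.cons (P.cons (P.lf 0 5099516 0) (P.cons (P.lf 0 486346 0) (P.cons (P.lf 0 26611 0) P.nil))) (P.cons (P.cons (P.lf 0 1094039 0) (P.cons (P.lf 44646 0 0) P.nil)) (P.cons (P.cons (P.lf 14205 0 0) P.nil) P.nil)))))) 81846)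
 (EL.cons 10 (TM.mk (P.cons (P.cons (P.lf 0 1218517215 0) (P.cons (P.lf 0 152894628 0) (P.cons (P.lf 23343054 0 0) (P.cons (P.lf 713127 0 0) (P.lf 0 59427 0))))) (P.cons (P.cons (P.lf 0 284634255 0) (P.cons (P.lf 0 35714757 0) (P.cons (P.lf 5452719 0 0) (P.cons (P.lf 166578 0 0) (P.lf 0 13881 0))))) (P.cons (P.cons (P.lf 0 9646719 0) (P.cons (P.lf 0 1210431 0) (P.cons (P.lf 184800 0 0) (P.cons (P.lf 5643 0 0) P.nil)))) (P.cons (P.cons (P.lf 2095953 0 0) (P.cons (P.lf 262989 0 0) (P.cons (P.lf 0 40152 0) P.nil))) (P.cons (P.cons (P.lf 176406 0 0) (P.cons (P.lf 22134 0 0) P.nil)) (P.cons (P.cons (P.lf 0 1944 0) P.nil) P.nil)))))) 7062)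
 EL.nil))))
noncomputable def S140_169_364_438_8 : EL := (EL.cons 12 (TM.mk (P.cons (P.cons (P.lf 17481784 0 0) (P.cons (P.lf 0 21855092 0) (P.cons (P.lf 5634788 0 0) (P.cons (P.lf 880354 0 0) (P.cons (P.lf 0 62602 0) (P.cons (P.lf 0 4544 0) P.nil)))))) (P.cons (P.cons (P.lf 110273604 0 0) (P.cons (P.lf 0 76587744 0) (P.cons (P.lf 596126 0 0) (P.cons (P.lf 989434 0 0) (P.cons (P.lf 0 43870 0) P.nil))))) (P.cons (P.cons (P.lf 171512410 0 0) (P.cons (P.lf 0 23366958 0) (P.cons (P.lf 1812 0 0) (P.cons (P.lf 282168 0 0) P.nil)))) (P.cons (P.cons (P.lf 0 9169430 0) (P.cons (P.lf 0 636446 0) (P.cons (P.lf 92782 0 0) P.nil))) (P.cons (P.cons (P.lf 0 5153076 0) (P.cons (P.lf 591138 0 0) P.nil)) (P.cons (P.cons (P.lf 0 54276 0) P.nil) P.nil)))))) 332578)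
 (EL.cons 3 (TM.mk (P.cons (P.cons (P.lf 287881763 0 0) (P.cons (P.lf 0 196923390 0) (P.cons (P.lf 0 164886 0) (P.cons (P.lf 2358266 0 0) (P.cons (P.lf 0 97241 0) (P.cons (P.lf 0 7056 0) P.nil)))))) (P.cons (P.cons (P.lf 899156956 0 0) (P.cons (P.lf 0 115398430 0) (P.cons (P.lf 103168 0 0) (P.cons (P.lf 1403817 0 0) (P.cons (P.lf 0 58816 0) P.nil))))) (P.cons (P.cons (P.lf 0 60833138 0) (P.cons (P.lf 0 7824164 0) (P.cons (P.lf 764059 0 0) (P.cons (P.lf 178020 0 0) P.nil)))) (P.cons (P.cons (P.lf 0 56262685 0) (P.cons (P.lf 5869106 0 0) (P.cons (P.lf 269660 0 0) P.nil))) (P.cons (P.cons (P.lf 0 2440063 0) (P.cons (P.lf 1150324 0 0) P.nil)) (P.cons (P.cons (P.lf 1292568 0 0) P.nil) P.nil)))))) 947655)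
 (EL.cons 7 (TM.mk (P.cons (P.cons (P.lf 0 195913749 0) (P.cons (P.lf 137697706 0 0) (P.cons (P.lf 0 1989219 0) (P.cons (P.lf 0 1879308 0) (P.cons (P.lf 87279 0 0) (P.cons (P.lf 6330 0 0) P.nil)))))) (P.cons (P.cons (P.lf 0 591581177 0) (P.cons (P.lf 75923942 0 0) (P.cons (P.lf 0 67883 0) (P.cons (P.lf 0 923611 0) (P.cons (P.lf 38694 0 0) P.nil))))) (P.cons (P.cons (P.lf 102947377 0 0) (P.cons (P.lf 0 2927900 0) (P.cons (P.lf 0 495477 0) (P.cons (P.lf 0 18889 0) P.nil)))) (P.cons (P.cons (P.lf 27425383 0 0) (P.cons (P.lf 0 4089016 0) (P.cons (P.lf 0 106568 0) P.nil))) (P.cons (P.cons (P.lf 0 3541012 0) (P.cons (P.lf 0 136121 0) P.nil)) (P.cons (P.cons (P.lf 0 753823 0) P.nil) P.nil)))))) 539809)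
 (EL.cons 10 (TM.mk (P.cons (P.cons (P.lf 0 109940988 0) (P.cons (P.lf 54927156 0 0) (P.cons (P.lf 14489298 0 0) (P.cons (P.lf 0 1198146 0) (P.cons (P.lf 0 170034 0) (P.cons (P.lf 9150 0 0) P.nil)))))) (P.cons (P.cons (P.lf 0 372430344 0) (P.cons (P.lf 0 6598944 0) (P.cons (P.lf 14366106 0 0) (P.cons (P.lf 0 519300 0) (P.cons (P.lf 0 114330 0) P.nil))))) (P.cons (P.cons (P.lf 0 74362902 0) (P.cons (P.lf 0 939750 0) (P.cons (P.lf 2936550 0 0) (P.cons (P.lf 0 110628 0) P.nil)))) (P.cons (P.cons (P.lf 4359840 0 0) (P.cons (P.lf 1001832 0 0) (P.cons (P.lf 0 1572 0) P.nil))) (P.cons (P.cons (P.lf 2054190 0 0) (P.cons (P.lf 157242 0 0) P.nil)) (P.cons (P.cons (P.lf 85818 0 0) P.nil) P.nil)))))) 228216)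
 EL.nil))))
noncomputable def S140_169_364_438_9 : EL := (EL.cons 3 (TM.mk (P.cons (P.lf 0 2668545243 0) (P.cons (P.lf 256005836 0 0) (P.cons (P.lf 20956361 0 0) (P.cons (P.lf 125291 0 0) (P.cons (P.lf 0 64357 0) (P.cons (P.lf 0 3438 0) P.nil)))))) 378)
 (EL.cons 7 (TM.mk (P.cons (P.lf 0 1442125985 0) (P.cons (P.lf 0 168433589 0) (P.cons (P.lf 4127638 0 0) (P.cons (P.lf 758202 0 0) (P.cons (P.lf 21743 0 0) (P.cons (P.lf 0 1521 0) P.nil)))))) 224)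
 EL.nil))
noncomputable def S140_169_364_438_10 : EL := (EL.cons 3 (TM.mk (P.cons (P.cons (P.lf 0 120385045 0) (P.cons (P.lf 75250503 0 0) (P.cons (P.lf 4117404 0 0) (P.lf 0 457486 0)))) (P.cons (P.cons (P.lf 0 368140174 0) (P.cons (P.lf 19147594 0 0) (P.cons (P.lf 1047678 0 0) (P.lf 0 116405 0)))) (P.cons (P.cons (P.lf 45588515 0 0) (P.cons (P.lf 0 687066 0) (P.cons (P.lf 0 37595 0) (P.lf 4177 0 0)))) (P.cons (P.cons (P.lf 7852279 0 0) (P.cons (P.lf 0 593767 0) (P.cons (P.lf 0 32486 0) P.nil))) (P.cons (P.cons (P.lf 0 398755 0) (P.cons (P.lf 0 42259 0) P.nil)) (P.cons (P.cons (P.lf 0 109177 0) P.nil) P.nil)))))) 30935)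
 (EL.cons 7 (TM.mk (P.cons (P.cons (P.lf 0 65058069 0) (P.cons (P.lf 40666617 0 0) (P.cons (P.lf 2225113 0 0) (P.lf 0 247233 0)))) (P.cons (P.cons (P.lf 0 212788838 0) (P.cons (P.lf 18998684 0 0) (P.cons (P.lf 1039531 0 0) (P.lf 0 115502 0)))) (P.cons (P.cons (P.lf 0 19338044 0) (P.cons (P.lf 2862852 0 0) (P.cons (P.lf 156642 0 0) (P.lf 0 17403 0)))) (P.cons (P.cons (P.lf 4195303 0 0) (P.cons (P.lf 10508 0 0) (P.cons (P.lf 575 0 0) P.nil))) (P.cons (P.cons (P.lf 557380 0 0) (P.cons (P.lf 0 41904 0) P.nil)) (P.cons (P.cons (P.lf 0 15612 0) P.nil) P.nil)))))) 18419)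
 EL.nil))
noncomputable def S140_169_364_438_11 : EL := (EL.cons 3 (TM.mk (P.cons (P.cons (P.lf 0 5430883 0) (P.cons (P.lf 6789492 0 0) (P.cons (P.lf 0 1750500 0) (P.cons (P.lf 0 273490 0) (P.cons (P.lf 19447 0 0) (P.cons (P.lf 1410 0 0) P.nil)))))) (P.cons (P.cons (P.lf 0 33736538 0) (P.cons (P.lf 23141366 0 0) (P.cons (P.lf 0 17258 0) (P.cons (P.lf 0 281139 0) (P.cons (P.lf 11762 0 0) P.nil))))) (P.cons (P.cons (P.lf 0 49952834 0) (P.cons (P.lf 4923304 0 0) (P.cons (P.lf 30949 0 0) (P.cons (P.lf 0 56022 0) P.nil)))) (P.cons (P.cons (P.lf 8229437 0 0) (P.cons (P.lf 0 685852 0) (P.cons (P.lf 0 27232 0) P.nil))) (P.cons (P.cons (P.lf 1747481 0 0) (P.cons (P.lf 0 260570 0) P.nil)) (P.cons (P.cons (P.lf 0 157416 0) P.nil) P.nil)))))) 168263)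
 (EL.cons 7 (TM.mk (P.cons (P.cons (P.lf 0 2934939 0) (P.cons (P.lf 3669154 0 0) (P.cons (P.lf 0 945999 0) (P.cons (P.lf 0 147798 0) (P.cons (P.lf 10509 0 0) (P.cons (P.lf 762 0 0) P.nil)))))) (P.cons (P.cons (P.lf 0 18856133 0) (P.cons (P.lf 13286516 0 0) (P.cons (P.lf 0 210569 0) (P.cons (P.lf 0 183373 0) (P.cons (P.lf 8592 0 0) P.nil))))) (P.cons (P.cons (P.lf 0 30948329 0) (P.cons (P.lf 5414224 0 0) (P.cons (P.lf 0 9285 0) (P.cons (P.lf 0 66349 0) P.nil)))) (P.cons (P.cons (P.lf 0 1769111 0) (P.cons (P.lf 526304 0 0) (P.cons (P.lf 0 14828 0) P.nil))) (P.cons (P.cons (P.lf 1137116 0 0) (P.cons (P.lf 0 104807 0) P.nil)) (P.cons (P.cons (P.lf 121163 0 0) P.nil) P.nil)))))) 91863)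
 EL.nil))
noncomputable def S140_169_364_438_12 : EL := (EL.cons 4 (TM.mk (P.cons (P.lf 2668545243 0 0) (P.cons (P.lf 0 256005836 0) (P.cons (P.lf 0 20956361 0) (P.cons (P.lf 0 125291 0) (P.cons (P.lf 64357 0 0) (P.cons (P.lf 3438 0 0) P.nil)))))) 378)
 (EL.cons 8 (TM.mk (P.cons (P.lf 1442125985 0 0) (P.cons (P.lf 168433589 0 0) (P.cons (P.lf 0 4127638 0) (P.cons (P.lf 0 758202 0) (P.cons (P.lf 0 21743 0) (P.cons (P.lf 1521 0 0) P.nil)))))) 224)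
 EL.nil))
noncomputable def S140_169_364_438_13 : EL := (EL.cons 4 (TM.mk (P.cons (P.cons (P.lf 120385045 0 0) (P.cons (P.lf 0 75250503 0) (P.cons (P.lf 0 4117404 0) (P.lf 457486 0 0)))) (P.cons (P.cons (P.lf 368140174 0 0) (P.cons (P.lf 0 19147594 0) (P.cons (P.lf 0 1047678 0) (P.lf 116405 0 0)))) (P.cons (P.cons (P.lf 0 45588515 0) (P.cons (P.lf 687066 0 0) (P.cons (P.lf 37595 0 0) (P.lf 0 4177 0)))) (P.cons (P.cons (P.lf 0 7852279 0) (P.cons (P.lf 593767 0 0) (P.cons (P.lf 32486 0 0) P.nil))) (P.cons (P.cons (P.lf 398755 0 0) (P.cons (P.lf 42259 0 0) P.nil)) (P.cons (P.cons (P.lf 109177 0 0) P.nil) P.nil)))))) 30935)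
 (EL.cons 8 (TM.mk (P.cons (P.cons (P.lf 65058069 0 0) (P.cons (P.lf 0 40666617 0) (P.cons (P.lf 0 2225113 0) (P.lf 247233 0 0)))) (P.cons (P.cons (P.lf 212788838 0 0) (P.cons (P.lf 0 18998684 0) (P.cons (P.lf 0 1039531 0) (P.lf 115502 0 0)))) (P.cons (P.cons (P.lf 19338044 0 0) (P.cons (P.lf 0 2862852 0) (P.cons (P.lf 0 156642 0) (P.lf 17403 0 0)))) (P.cons (P.cons (P.lf 0 4195303 0) (P.cons (P.lf 0 10508 0) (P.cons (P.lf 0 575 0) P.nil))) (P.cons (P.cons (P.lf 0 557380 0) (P.cons (P.lf 41904 0 0) P.nil)) (P.cons (P.cons (P.lf 15612 0 0) P.nil) P.nil)))))) 18419)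
 EL.nil))
noncomputable def S140_169_364_438_14 : EL := (EL.cons 4 (TM.mk (P.cons (P.cons (P.lf 5430883 0 0) (P.cons (P.lf 0 6789492 0) (P.cons (P.lf 1750500 0 0) (P.cons (P.lf 273490 0 0) (P.cons (P.lf 0 19447 0) (P.cons (P.lf 0 1410 0) P.nil)))))) (P.cons (P.cons (P.lf 33736538 0 0) (P.cons (P.lf 0 23141366 0) (P.cons (P.lf 17258 0 0) (P.cons (P.lf 281139 0 0) (P.cons (P.lf 0 11762 0) P.nil))))) (P.cons (P.cons (P.lf 49952834 0 0) (P.cons (P.lf 0 4923304 0) (P.cons (P.lf 0 30949 0) (P.cons (P.lf 56022 0 0) P.nil)))) (P.cons (P.cons (P.lf 0 8229437 0) (P.cons (P.lf 685852 0 0) (P.cons (P.lf 27232 0 0) P.nil))) (P.cons (P.cons (P.lf 0 1747481 0) (P.cons (P.lf 260570 0 0) P.nil)) (P.cons (P.cons (P.lf 157416 0 0) P.nil) P.nil)))))) 168263)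
 (EL.cons 8 (TM.mk (P.cons (P.cons (P.lf 2934939 0 0) (P.cons (P.lf 0 3669154 0) (P.cons (P.lf 945999 0 0) (P.cons (P.lf 147798 0 0) (P.cons (P.lf 0 10509 0) (P.cons (P.lf 0 762 0) P.nil)))))) (P.cons (P.cons (P.lf 18856133 0 0) (P.cons (P.lf 0 13286516 0) (P.cons (P.lf 210569 0 0) (P.cons (P.lf 183373 0 0) (P.cons (P.lf 0 8592 0) P.nil))))) (P.cons (P.cons (P.lf 30948329 0 0) (P.cons (P.lf 0 5414224 0) (P.cons (P.lf 9285 0 0) (P.cons (P.lf 66349 0 0) P.nil)))) (P.cons (P.cons (P.lf 1769111 0 0) (P.cons (P.lf 0 526304 0) (P.cons (P.lf 14828 0 0) P.nil))) (P.cons (P.cons (P.lf 0 1137116 0) (P.cons (P.lf 104807 0 0) P.nil)) (P.cons (P.cons (P.lf 0 121163 0) P.nil) P.nil)))))) 91863)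
 EL.nil))
noncomputable def S140_169_364_438_15 : EL := (EL.cons 4 (TM.mk (P.cons (P.lf 0 1768552689 0) (P.cons (P.lf 339330810 0 0) (P.cons (P.lf 11500469 0 0) (P.cons (P.lf 0 2498728 0) (P.cons (P.lf 0 210304 0) (P.cons (P.lf 2321 0 0) P.nil)))))) 1708)
 (EL.cons 8 (TM.mk (P.cons (P.lf 0 955755124 0) (P.cons (P.lf 0 19937749 0) (P.cons (P.lf 20950159 0 0) (P.cons (P.lf 1161554 0 0) (P.cons (P.lf 0 73087 0) (P.cons (P.lf 0 10388 0) P.nil)))))) 788)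
 EL.nil))
noncomputable def S140_169_364_438_16 : EL := (EL.cons 4 (TM.mk (P.cons (P.cons (P.lf 0 79784030 0) (P.cons (P.lf 49871547 0 0) (P.cons (P.lf 2728770 0 0) (P.lf 0 303195 0)))) (P.cons (P.cons (P.lf 0 236327310 0) (P.cons (P.lf 7905476 0 0) (P.cons (P.lf 432555 0 0) (P.lf 0 48060 0)))) (P.cons (P.cons (P.lf 54246157 0 0) (P.cons (P.lf 0 2064391 0) (P.cons (P.lf 0 112956 0) (P.lf 12550 0 0)))) (P.cons (P.cons (P.lf 4225273 0 0) (P.cons (P.lf 0 451826 0) (P.cons (P.lf 0 24720 0) P.nil))) (P.cons (P.cons (P.lf 0 991254 0) (P.cons (P.lf 13926 0 0) P.nil)) (P.cons (P.cons (P.lf 0 95277 0) P.nil) P.nil)))))) 39993)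
 (EL.cons 8 (TM.mk (P.cons (P.cons (P.lf 0 43116609 0) (P.cons (P.lf 26951409 0 0) (P.cons (P.lf 1474672 0 0) (P.lf 0 163851 0)))) (P.cons (P.cons (P.lf 0 136887380 0) (P.cons (P.lf 10005622 0 0) (P.cons (P.lf 547467 0 0) (P.lf 0 60828 0)))) (P.cons (P.cons (P.lf 1051554 0 0) (P.cons (P.lf 477744 0 0) (P.cons (P.lf 26139 0 0) (P.lf 0 2904 0)))) (P.cons (P.cons (P.lf 5119403 0 0) (P.cons (P.lf 0 275200 0) (P.cons (P.lf 0 15057 0) P.nil))) (P.cons (P.cons (P.lf 208889 0 0) (P.cons (P.lf 0 43280 0) P.nil)) (P.cons (P.cons (P.lf 0 70474 0) P.nil) P.nil)))))) 24469)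
 EL.nil))
noncomputable def S140_169_364_438_17 : EL := (EL.cons 4 (TM.mk (P.cons (P.cons (P.lf 0 3599265 0) (P.cons (P.lf 4499670 0 0) (P.cons (P.lf 0 1160127 0) (P.cons (P.lf 0 181252 0) (P.cons (P.lf 12888 0 0) (P.cons (P.lf 934 0 0) P.nil)))))) (P.cons (P.cons (P.lf 0 22013272 0) (P.cons (P.lf 14905043 0 0) (P.cons (P.lf 99857 0 0) (P.cons (P.lf 0 168933 0) (P.cons (P.lf 6558 0 0) P.nil))))) (P.cons (P.cons (P.lf 0 30932535 0) (P.cons (P.lf 1756214 0 0) (P.cons (P.lf 30719 0 0) (P.cons (P.lf 0 17829 0) P.nil)))) (P.cons (P.cons (P.lf 8805721 0 0) (P.cons (P.lf 0 888216 0) (P.cons (P.lf 0 19871 0) P.nil))) (P.cons (P.cons (P.lf 895846 0 0) (P.cons (P.lf 0 155319 0) P.nil)) (P.cons (P.cons (P.lf 0 257250 0) P.nil) P.nil)))))) 154655)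
 (EL.cons 8 (TM.mk (P.cons (P.cons (P.lf 0 1945102 0) (P.cons (P.lf 2431696 0 0) (P.cons (P.lf 0 626951 0) (P.cons (P.lf 0 97952 0) (P.cons (P.lf 6965 0 0) (P.cons (P.lf 505 0 0) P.nil)))))) (P.cons (P.cons (P.lf 0 12310117 0) (P.cons (P.lf 8572226 0 0) (P.cons (P.lf 0 79406 0) (P.cons (P.lf 0 112132 0) (P.cons (P.lf 5026 0 0) P.nil))))) (P.cons (P.cons (P.lf 0 19296564 0) (P.cons (P.lf 2724375 0 0) (P.cons (P.lf 12157 0 0) (P.cons (P.lf 0 31544 0) P.nil)))) (P.cons (P.cons (P.lf 893453 0 0) (P.cons (P.lf 0 64696 0) (P.cons (P.lf 0 8111 0) P.nil))) (P.cons (P.cons (P.lf 1027704 0 0) (P.cons (P.lf 0 131455 0) P.nil)) (P.cons (P.cons (P.lf 17869 0 0) P.nil) P.nil)))))) 96102)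
 EL.nil))
noncomputable def S140_169_364_438_18 : EL := (EL.cons 4 (TM.mk (P.cons (P.lf 1172091282 0 0) (P.cons (P.lf 0 337332345 0) (P.cons (P.lf 4748184 0 0) (P.cons (P.lf 4098243 0 0) (P.cons (P.lf 79189 0 0) (P.cons (P.lf 0 31469 0) P.nil)))))) 3321)
 (EL.cons 8 (TM.mk (P.cons (P.lf 633417514 0 0) (P.cons (P.lf 0 47553107 0) (P.cons (P.lf 0 20126446 0) (P.cons (P.lf 428689 0 0) (P.cons (P.lf 245981 0 0) (P.cons (P.lf 10070 0 0) P.nil)))))) 1843)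
 EL.nil))
noncomputable def S140_169_364_438_19 : EL := (EL.cons 4 (TM.mk (P.cons (P.cons (P.lf 52876098 0 0) (P.cons (P.lf 0 33051887 0) (P.cons (P.lf 0 1808465 0) (P.lf 200939 0 0)))) (P.cons (P.cons (P.lf 151551003 0 0) (P.cons (P.lf 0 2068458 0) (P.cons (P.lf 0 113176 0) (P.lf 12573 0 0)))) (P.cons (P.cons (P.lf 0 51391988 0) (P.cons (P.lf 2130344 0 0) (P.cons (P.lf 116564 0 0) (P.lf 0 12951 0)))) (P.cons (P.cons (P.lf 0 583767 0) (P.cons (P.lf 210885 0 0) (P.cons (P.lf 11537 0 0) P.nil))) (P.cons (P.cons (P.lf 1201834 0 0) (P.cons (P.lf 0 49251 0) P.nil)) (P.cons (P.cons (P.lf 27644 0 0) P.nil) P.nil)))))) 45213)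
 (EL.cons 8 (TM.mk (P.cons (P.cons (P.lf 28575118 0 0) (P.cons (P.lf 0 17861787 0) (P.cons (P.lf 0 977324 0) (P.lf 108591 0 0)))) (P.cons (P.cons (P.lf 87979452 0 0) (P.cons (P.lf 0 4917566 0) (P.cons (P.lf 0 269069 0) (P.lf 29895 0 0)))) (P.cons (P.cons (P.lf 0 9624574 0) (P.cons (P.lf 459804 0 0) (P.cons (P.lf 25159 0 0) (P.lf 0 2795 0)))) (P.cons (P.cons (P.lf 0 4039758 0) (P.cons (P.lf 265674 0 0) (P.cons (P.lf 14536 0 0) P.nil))) (P.cons (P.cons (P.lf 188953 0 0) (P.cons (P.lf 13554 0 0) P.nil)) (P.cons (P.cons (P.lf 88889 0 0) P.nil) P.nil)))))) 26189)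
 EL.nil))
noncomputable def S140_169_364_438_20 : EL := (EL.cons 4 (TM.mk (P.cons (P.cons (P.lf 2385377 0 0) (P.cons (P.lf 0 2982113 0) (P.cons (P.lf 768862 0 0) (P.cons (P.lf 120123 0 0) (P.cons (P.lf 0 8541 0) (P.cons (P.lf 0 619 0) P.nil)))))) (P.cons (P.cons (P.lf 14360243 0 0) (P.cons (P.lf 0 9592086 0) (P.cons (P.lf 0 139940 0) (P.cons (P.lf 100435 0 0) (P.cons (P.lf 0 3526 0) P.nil))))) (P.cons (P.cons (P.lf 19081908 0 0) (P.cons (P.lf 0 192836 0) (P.cons (P.lf 0 20047 0) (P.cons (P.lf 132 0 0) P.nil)))) (P.cons (P.cons (P.lf 0 7917271 0) (P.cons (P.lf 778031 0 0) (P.cons (P.lf 15606 0 0) P.nil))) (P.cons (P.cons (P.lf 0 195465 0) (P.cons (P.lf 55995 0 0) P.nil)) (P.cons (P.cons (P.lf 272670 0 0) P.nil) P.nil)))))) 129641)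
 (EL.cons 8 (TM.mk (P.cons (P.cons (P.lf 1289097 0 0) (P.cons (P.lf 0 1611583 0) (P.cons (P.lf 415506 0 0) (P.cons (P.lf 64916 0 0) (P.cons (P.lf 0 4616 0) (P.cons (P.lf 0 334 0) P.nil)))))) (P.cons (P.cons (P.lf 8034743 0 0) (P.cons (P.lf 0 5526554 0) (P.cons (P.lf 12764 0 0) (P.cons (P.lf 68086 0 0) (P.cons (P.lf 0 2888 0) P.nil))))) (P.cons (P.cons (P.lf 11995814 0 0) (P.cons (P.lf 0 1247877 0) (P.cons (P.lf 0 16368 0) (P.cons (P.lf 13266 0 0) P.nil)))) (P.cons (P.cons (P.lf 0 1883127 0) (P.cons (P.lf 260782 0 0) (P.cons (P.lf 5715 0 0) P.nil))) (P.cons (P.cons (P.lf 0 725078 0) (P.cons (P.lf 97414 0 0) P.nil)) (P.cons (P.cons (P.lf 57746 0 0) P.nil) P.nil)))))) 86593)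
 EL.nil))
noncomputable def S140_169_364_438_21 : EL := (EL.cons 4 (TM.mk (P.cons (P.cons (P.lf 0 3250894104 0) (P.cons (P.lf 225751509 0 0) (P.cons (P.lf 12352212 0 0) (P.lf 0 1372458 0)))) (P.cons (P.cons (P.lf 0 86428092 0) (P.cons (P.lf 57442782 0 0) (P.cons (P.lf 3143034 0 0) (P.lf 0 349215 0)))) (P.cons (P.cons (P.lf 171266958 0 0) (P.cons (P.lf 0 2061198 0) (P.cons (P.lf 0 112785 0) (P.lf 12531 0 0)))) (P.cons (P.cons (P.lf 16060659 0 0) (P.cons (P.lf 0 1781301 0) (P.cons (P.lf 0 97458 0) P.nil))) (P.cons (P.cons (P.lf 0 1827180 0) (P.cons (P.lf 0 126777 0) P.nil)) (P.cons (P.cons (P.lf 0 320568 0) P.nil) P.nil)))))) 97716)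
 (EL.cons 8 (TM.mk (P.cons (P.cons (P.lf 2138856573 0 0) (P.cons (P.lf 0 148528407 0) (P.cons (P.lf 0 8126880 0) (P.lf 902991 0 0)))) (P.cons (P.cons (P.lf 0 398135295 0) (P.cons (P.lf 0 6196824 0) (P.cons (P.lf 0 339066 0) (P.lf 37677 0 0)))) (P.cons (P.cons (P.lf 0 82311126 0) (P.cons (P.lf 6446847 0 0) (P.cons (P.lf 352743 0 0) (P.lf 0 39189 0)))) (P.cons (P.cons (P.lf 9294819 0 0) (P.cons (P.lf 496854 0 0) (P.cons (P.lf 27186 0 0) P.nil))) (P.cons (P.cons (P.lf 1651419 0 0) (P.cons (P.lf 0 86550 0) P.nil)) (P.cons (P.cons (P.lf 0 29817 0) P.nil) P.nil)))))) 63408)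
 (EL.cons 11 (TM.mk (P.cons (P.cons (P.lf 1218517215 0 0) (P.cons (P.lf 152894628 0 0) (P.cons (P.lf 0 23343054 0) (P.cons (P.lf 0 713127 0) (P.lf 59427 0 0))))) (P.cons (P.cons (P.lf 284634255 0 0) (P.cons (P.lf 35714757 0 0) (P.cons (P.lf 0 5452719 0) (P.cons (P.lf 0 166578 0) (P.lf 13881 0 0))))) (P.cons (P.cons (P.lf 9646719 0 0) (P.cons (P.lf 1210431 0 0) (P.cons (P.lf 0 184800 0) (P.cons (P.lf 0 5643 0) P.nil)))) (P.cons (P.cons (P.lf 0 2095953 0) (P.cons (P.lf 0 262989 0) (P.cons (P.lf 40152 0 0) P.nil))) (P.cons (P.cons (P.lf 0 176406 0) (P.cons (P.lf 0 22134 0) P.nil)) (P.cons (P.cons (P.lf 1944 0 0) P.nil) P.nil)))))) 7062)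
 EL.nil)))
noncomputable def S140_169_364_438_22 : EL := (EL.cons 4 (TM.mk (P.cons (P.cons (P.lf 0 146656323 0) (P.cons (P.lf 101856441 0 0) (P.cons (P.lf 0 792807 0) (P.cons (P.lf 0 1315878 0) (P.cons (P.lf 58344 0 0) (P.cons (P.lf 4233 0 0) P.nil)))))) (P.cons (P.cons (P.lf 0 466446747 0) (P.cons (P.lf 69269898 0 0) (P.cons (P.lf 0 60213 0) (P.cons (P.lf 0 842478 0) (P.cons (P.lf 35289 0 0) P.nil))))) (P.cons (P.cons (P.lf 5440152 0 0) (P.cons (P.lf 6373734 0 0) (P.cons (P.lf 0 366555 0) (P.cons (P.lf 0 117021 0) P.nil)))) (P.cons (P.cons (P.lf 32246061 0 0) (P.cons (P.lf 0 3277479 0) (P.cons (P.lf 0 148446 0) P.nil))) (P.cons (P.cons (P.lf 2093772 0 0) (P.cons (P.lf 0 705447 0) P.nil)) (P.cons (P.cons (P.lf 0 724992 0) P.nil) P.nil)))))) 389685)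
 (EL.cons 8 (TM.mk (P.cons (P.cons (P.lf 96489405 0 0) (P.cons (P.lf 0 67014276 0) (P.cons (P.lf 521610 0 0) (P.cons (P.lf 865755 0 0) (P.cons (P.lf 0 38385 0) (P.cons (P.lf 0 2784 0) P.nil)))))) (P.cons (P.cons (P.lf 286362522 0 0) (P.cons (P.lf 0 31318713 0) (P.cons (P.lf 0 71343 0) (P.cons (P.lf 370119 0 0) (P.cons (P.lf 0 15051 0) P.nil))))) (P.cons (P.cons (P.lf 0 66947853 0) (P.cons (P.lf 4171062 0 0) (P.cons (P.lf 243096 0 0) (P.cons (P.lf 0 23730 0) P.nil)))) (P.cons (P.cons (P.lf 0 14597247 0) (P.cons (P.lf 2307660 0 0) (P.cons (P.lf 45870 0 0) P.nil))) (P.cons (P.cons (P.lf 2339064 0 0) (P.cons (P.lf 15657 0 0) P.nil)) (P.cons (P.cons (P.lf 437493 0 0) P.nil) P.nil)))))) 223962)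
 (EL.cons 11 (TM.mk (P.cons (P.cons (P.lf 54970494 0 0) (P.cons (P.lf 0 27463578 0) (P.cons (P.lf 0 7244649 0) (P.cons (P.lf 599073 0 0) (P.cons (P.lf 85017 0 0) (P.cons (P.lf 0 4575 0) P.nil)))))) (P.cons (P.cons (P.lf 186215172 0 0) (P.cons (P.lf 3299472 0 0) (P.cons (P.lf 0 7183053 0) (P.cons (P.lf 259650 0 0) (P.cons (P.lf 57165 0 0) P.nil))))) (P.cons (P.cons (P.lf 37181451 0 0) (P.cons (P.lf 469875 0 0) (P.cons (P.lf 0 1468275 0) (P.cons (P.lf 55314 0 0) P.nil)))) (P.cons (P.cons (P.lf 0 2179920 0) (P.cons (P.lf 0 500916 0) (P.cons (P.lf 786 0 0) P.nil))) (P.cons (P.cons (P.lf 0 1027095 0) (P.cons (P.lf 0 78621 0) P.nil)) (P.cons (P.cons (P.lf 0 42909 0) P.nil) P.nil)))))) 114108)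
 EL.nil)))
noncomputable def S140_169_364_438_23 : EL := (EL.cons 4 (TM.mk (P.cons (P.cons (P.lf 2154498795 0 0) (P.cons (P.lf 0 149614638 0) (P.cons (P.lf 0 8186307 0) (P.lf 909582 0 0)))) (P.cons (P.cons (P.lf 0 149411604 0) (P.cons (P.lf 0 23716428 0) (P.cons (P.lf 0 1297665 0) (P.lf 144177 0 0)))) (P.cons (P.cons (P.lf 0 135920103 0) (P.cons (P.lf 6193173 0 0) (P.cons (P.lf 338868 0 0) (P.lf 0 37650 0)))) (P.cons (P.cons (P.lf 0 305916 0) (P.cons (P.lf 1355478 0 0) (P.cons (P.lf 74160 0 0) P.nil))) (P.cons (P.cons (P.lf 3172719 0 0) (P.cons (P.lf 0 41781 0) P.nil)) (P.cons (P.cons (P.lf 189357 0 0) P.nil) P.nil)))))) 137049)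
 (EL.cons 8 (TM.mk (P.cons (P.cons (P.lf 0 1417506618 0) (P.cons (P.lf 98435772 0 0) (P.cons (P.lf 5386011 0 0) (P.lf 0 598446 0)))) (P.cons (P.cons (P.lf 399848274 0 0) (P.cons (P.lf 0 5336511 0) (P.cons (P.lf 0 291990 0) (P.lf 32439 0 0)))) (P.cons (P.cons (P.lf 40369395 0 0) (P.cons (P.lf 0 5439603 0) (P.cons (P.lf 0 297630 0) (P.lf 33066 0 0)))) (P.cons (P.cons (P.lf 0 13398939 0) (P.cons (P.lf 43728 0 0) (P.cons (P.lf 2391 0 0) P.nil))) (P.cons (P.cons (P.lf 0 978468 0) (P.cons (P.lf 124683 0 0) P.nil)) (P.cons (P.cons (P.lf 175107 0 0) P.nil) P.nil)))))) 75522)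
 (EL.cons 11 (TM.mk (P.cons (P.cons (P.lf 0 807560562 0) (P.cons (P.lf 0 101329443 0) (P.cons (P.lf 15470382 0 0) (P.cons (P.lf 472617 0 0) (P.lf 0 39384 0))))) (P.cons (P.cons (P.lf 0 111165609 0) (P.cons (P.lf 0 13948611 0) (P.cons (P.lf 2129589 0 0) (P.cons (P.lf 65055 0 0) (P.lf 0 5421 0))))) (P.cons (P.cons (P.lf 18045555 0 0) (P.cons (P.lf 2264283 0 0) (P.cons (P.lf 0 345696 0) (P.cons (P.lf 0 10560 0) P.nil)))) (P.cons (P.cons (P.lf 3521721 0 0) (P.cons (P.lf 441888 0 0) (P.cons (P.lf 0 67464 0) P.nil))) (P.cons (P.cons (P.lf 23238 0 0) (P.cons (P.lf 2913 0 0) P.nil)) (P.cons (P.cons (P.lf 0 28701 0) P.nil) P.nil)))))) 17604)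
 EL.nil)))
noncomputable def S140_169_364_438_24 : EL := (EL.cons 4 (TM.mk (P.cons (P.cons (P.lf 97195065 0 0) (P.cons (P.lf 0 67504377 0) (P.cons (P.lf 525426 0 0) (P.cons (P.lf 872085 0 0) (P.cons (P.lf 0 38667 0) (P.cons (P.lf 0 2805 0) P.nil)))))) (P.cons (P.cons (P.lf 299808723 0 0) (P.cons (P.lf 0 39431952 0) (P.cons (P.lf 0 10497 0) (P.cons (P.lf 474681 0 0) (P.cons (P.lf 0 19677 0) P.nil))))) (P.cons (P.cons (P.lf 0 34025250 0) (P.cons (P.lf 710145 0 0) (P.cons (P.lf 234975 0 0) (P.cons (P.lf 17142 0 0) P.nil)))) (P.cons (P.cons (P.lf 0 23457102 0) (P.cons (P.lf 2941047 0 0) (P.cons (P.lf 74736 0 0) P.nil))) (P.cons (P.cons (P.lf 678711 0 0) (P.cons (P.lf 292845 0 0) P.nil)) (P.cons (P.cons (P.lf 789177 0 0) P.nil) P.nil)))))) 357159)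
 (EL.cons 8 (TM.mk (P.cons (P.cons (P.lf 0 63947424 0) (P.cons (P.lf 44413068 0 0) (P.cons (P.lf 0 345693 0) (P.cons (P.lf 0 573771 0) (P.cons (P.lf 25440 0 0) (P.cons (P.lf 1845 0 0) P.nil)))))) (P.cons (P.cons (P.lf 0 183649236 0) (P.cons (P.lf 16495425 0 0) (P.cons (P.lf 80445 0 0) (P.cons (P.lf 0 190248 0) (P.cons (P.lf 7533 0 0) P.nil))))) (P.cons (P.cons (P.lf 63078084 0 0) (P.cons (P.lf 0 5104347 0) (P.cons (P.lf 0 162930 0) (P.cons (P.lf 43764 0 0) P.nil)))) (P.cons (P.cons (P.lf 6911052 0 0) (P.cons (P.lf 0 1429269 0) (P.cons (P.lf 0 15297 0) P.nil))) (P.cons (P.cons (P.lf 0 2819346 0) (P.cons (P.lf 158145 0 0) P.nil)) (P.cons (P.cons (P.lf 0 223941 0) P.nil) P.nil)))))) 211635)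
 (EL.cons 11 (TM.mk (P.cons (P.cons (P.lf 0 36431166 0) (P.cons (P.lf 18201222 0 0) (P.cons (P.lf 4801323 0 0) (P.cons (P.lf 0 397029 0) (P.cons (P.lf 0 56343 0) (P.cons (P.lf 3033 0 0) P.nil)))))) (P.cons (P.cons (P.lf 0 119917305 0) (P.cons (P.lf 0 3932820 0) (P.cons (P.lf 4299885 0 0) (P.cons (P.lf 0 133989 0) (P.cons (P.lf 0 32478 0) P.nil))))) (P.cons (P.cons (P.lf 0 12516039 0) (P.cons (P.lf 0 244560 0) (P.cons (P.lf 478683 0 0) (P.cons (P.lf 0 17031 0) P.nil)))) (P.cons (P.cons (P.lf 4779588 0 0) (P.cons (P.lf 378168 0 0) (P.cons (P.lf 0 131481 0) P.nil))) (P.cons (P.cons (P.lf 740526 0 0) (P.cons (P.lf 23244 0 0) P.nil)) (P.cons (P.cons (P.lf 0 50073 0) P.nil) P.nil)))))) 112332)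
 EL.nil)))
noncomputable def S140_169_364_438_25 : EL := (EL.cons 4 (TM.mk (P.cons (P.cons (P.lf 0 1427873349 0) (P.cons (P.lf 99155664 0 0) (P.cons (P.lf 5425395 0 0) (P.lf 0 602817 0)))) (P.cons (P.cons (P.lf 236003571 0 0) (P.cons (P.lf 6205374 0 0) (P.cons (P.lf 339531 0 0) (P.lf 0 37719 0)))) (P.cons (P.cons (P.lf 91793427 0 0) (P.cons (P.lf 0 6391029 0) (P.cons (P.lf 0 349692 0) (P.lf 38853 0 0)))) (P.cons (P.cons (P.lf 0 9149601 0) (P.cons (P.lf 0 632658 0) (P.cons (P.lf 0 34611 0) P.nil))) (P.cons (P.cons (P.lf 0 2868627 0) (P.cons (P.lf 147756 0 0) P.nil)) (P.cons (P.cons (P.lf 70950 0 0) P.nil) P.nil)))))) 144630)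
 (EL.cons 8 (TM.mk (P.cons (P.cons (P.lf 939438873 0 0) (P.cons (P.lf 0 65237361 0) (P.cons (P.lf 0 3569526 0) (P.lf 396615 0 0)))) (P.cons (P.cons (P.lf 0 355120296 0) (P.cons (P.lf 9795240 0 0) (P.cons (P.lf 535956 0 0) (P.lf 0 59547 0)))) (P.cons (P.cons (P.lf 0 8709690 0) (P.cons (P.lf 3778065 0 0) (P.cons (P.lf 206718 0 0) (P.lf 0 22965 0)))) (P.cons (P.cons (P.lf 13483623 0 0) (P.cons (P.lf 0 399540 0) (P.cons (P.lf 0 21861 0) P.nil))) (P.cons (P.cons (P.lf 41772 0 0) (P.cons (P.lf 0 109902 0) P.nil)) (P.cons (P.cons (P.lf 0 251922 0) P.nil) P.nil)))))) 76518)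
 (EL.cons 11 (TM.mk (P.cons (P.cons (P.lf 535202994 0 0) (P.cons (P.lf 67155114 0 0) (P.cons (P.lf 0 10252848 0) (P.cons (P.lf 0 313221 0) (P.lf 26100 0 0))))) (P.cons (P.cons (P.lf 22329450 0 0) (P.cons (P.lf 2801808 0 0) (P.cons (P.lf 0 427761 0) (P.cons (P.lf 0 13065 0) (P.lf 1086 0 0))))) (P.cons (P.cons (P.lf 0 23230401 0) (P.cons (P.lf 0 2914857 0) (P.cons (P.lf 445023 0 0) (P.cons (P.lf 13596 0 0) P.nil)))) (P.cons (P.cons (P.lf 0 1790352 0) (P.cons (P.lf 0 224643 0) (P.cons (P.lf 34296 0 0) P.nil))) (P.cons (P.cons (P.lf 311874 0 0) (P.cons (P.lf 39132 0 0) P.nil)) (P.cons (P.cons (P.lf 41856 0 0) P.nil) P.nil)))))) 25131)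
 EL.nil)))
noncomputable def S140_169_364_438_26 : EL := (EL.cons 4 (TM.mk (P.cons (P.cons (P.lf 0 64415094 0) (P.cons (P.lf 44737875 0 0) (P.cons (P.lf 0 348219 0) (P.cons (P.lf 0 577965 0) (P.cons (P.lf 25626 0 0) (P.cons (P.lf 1860 0 0) P.nil)))))) (P.cons (P.cons (P.lf 0 192515709 0) (P.cons (P.lf 21841236 0 0) (P.cons (P.lf 40362 0 0) (P.cons (P.lf 0 259143 0) (P.cons (P.lf 10581 0 0) P.nil))))) (P.cons (P.cons (P.lf 42117525 0 0) (P.cons (P.lf 0 3329046 0) (P.cons (P.lf 0 153660 0) (P.cons (P.lf 23355 0 0) P.nil)))) (P.cons (P.cons (P.lf 14946051 0 0) (P.cons (P.lf 0 2111325 0) (P.cons (P.lf 0 34629 0) P.nil))) (P.cons (P.cons (P.lf 0 2110515 0) (P.cons (P.lf 0 3540 0) P.nil)) (P.cons (P.cons (P.lf 0 607884 0) P.nil) P.nil)))))) 338541)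
 (EL.cons 8 (TM.mk (P.cons (P.cons (P.lf 42380541 0 0) (P.cons (P.lf 0 29434332 0) (P.cons (P.lf 229104 0 0) (P.cons (P.lf 380259 0 0) (P.cons (P.lf 0 16860 0) (P.cons (P.lf 0 1221 0) P.nil)))))) (P.cons (P.cons (P.lf 117646002 0 0) (P.cons (P.lf 0 8108412 0) (P.cons (P.lf 0 75294 0) (P.cons (P.lf 89604 0 0) (P.cons (P.lf 0 3375 0) P.nil))))) (P.cons (P.cons (P.lf 0 53813583 0) (P.cons (P.lf 4662780 0 0) (P.cons (P.lf 111294 0 0) (P.cons (P.lf 0 44085 0) P.nil)))) (P.cons (P.cons (P.lf 0 1527549 0) (P.cons (P.lf 709935 0 0) (P.cons (P.lf 186 0 0) P.nil))) (P.cons (P.cons (P.lf 2631498 0 0) (P.cons (P.lf 0 222444 0) P.nil)) (P.cons (P.cons (P.lf 10083 0 0) P.nil) P.nil)))))) 196491)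
 (EL.cons 11 (TM.mk (P.cons (P.cons (P.lf 24144402 0 0) (P.cons (P.lf 0 12062685 0) (P.cons (P.lf 0 3182028 0) (P.cons (P.lf 263127 0 0) (P.cons (P.lf 37341 0 0) (P.cons (P.lf 0 2010 0) P.nil)))))) (P.cons (P.cons (P.lf 77157756 0 0) (P.cons (P.lf 3763668 0 0) (P.cons (P.lf 0 2544441 0) (P.cons (P.lf 63558 0 0) (P.cons (P.lf 17943 0 0) P.nil))))) (P.cons (P.cons (P.lf 480966 0 0) (P.cons (P.lf 6762 0 0) (P.cons (P.lf 0 18867 0) (P.cons (P.lf 702 0 0) P.nil)))) (P.cons (P.cons (P.lf 0 4588644 0) (P.cons (P.lf 0 286080 0) (P.cons (P.lf 140100 0 0) P.nil))) (P.cons (P.cons (P.lf 0 255180 0) (P.cons (P.lf 6951 0 0) P.nil)) (P.cons (P.cons (P.lf 106701 0 0) P.nil) P.nil)))))) 107532)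
 EL.nil)))
noncomputable def S140_169_364_438_27 : EL := (EL.cons 13 (TM.mk (P.lf 0 4294967296 0) 0)
 EL.nil)
noncomputable def S140_169_364_438_28 : EL := (EL.cons 13 (TM.mk (P.cons (P.cons (P.lf 0 193757192 0) (P.cons (P.lf 121114100 0 0) (P.cons (P.lf 6626876 0 0) (P.lf 0 736316 0)))) (P.cons (P.cons (P.lf 0 611101869 0) (P.cons (P.lf 42436684 0 0) (P.cons (P.lf 2321964 0 0) (P.lf 0 257992 0)))) (P.cons (P.cons (P.lf 13226343 0 0) (P.cons (P.lf 3916448 0 0) (P.cons (P.lf 214288 0 0) (P.lf 0 23808 0)))) (P.cons (P.cons (P.lf 9098800 0 0) (P.cons (P.lf 0 240988 0) (P.cons (P.lf 0 13184 0) P.nil))) (P.cons (P.cons (P.lf 310950 0 0) (P.cons (P.lf 0 61308 0) P.nil)) (P.cons (P.cons (P.lf 0 58827 0) P.nil) P.nil)))))) 19447)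
 EL.nil)
noncomputable def S140_169_364_438_29 : EL := (EL.cons 13 (TM.mk (P.cons (P.cons (P.lf 0 8740892 0) (P.cons (P.lf 10927546 0 0) (P.cons (P.lf 0 2817394 0) (P.cons (P.lf 0 440177 0) (P.cons (P.lf 31301 0 0) (P.cons (P.lf 2272 0 0) P.nil)))))) (P.cons (P.cons (P.lf 0 55136802 0) (P.cons (P.lf 38293872 0 0) (P.cons (P.lf 0 298063 0) (P.cons (P.lf 0 494717 0) (P.cons (P.lf 21935 0 0) P.nil))))) (P.cons (P.cons (P.lf 0 85756205 0) (P.cons (P.lf 11683479 0 0) (P.cons (P.lf 0 906 0) (P.cons (P.lf 0 141084 0) P.nil)))) (P.cons (P.cons (P.lf 4584715 0 0) (P.cons (P.lf 318223 0 0) (P.cons (P.lf 0 46391 0) P.nil))) (P.cons (P.cons (P.lf 2576538 0 0) (P.cons (P.lf 0 295569 0) P.nil)) (P.cons (P.cons (P.lf 27138 0 0) P.nil) P.nil)))))) 166289)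
 EL.nil)
noncomputable def S140_169_364_438_30 : EL := (EL.cons 13 (TM.mk (P.cons (P.lf 2846448260 0 0) (P.cons (P.lf 0 273072892 0) (P.cons (P.lf 0 22353452 0) (P.cons (P.lf 0 133644 0) (P.cons (P.lf 68648 0 0) (P.cons (P.lf 3668 0 0) P.nil)))))) 396)
 EL.nil)
noncomputable def S140_169_364_438_31 : EL := (EL.cons 13 (TM.mk (P.cons (P.cons (P.lf 128410715 0 0) (P.cons (P.lf 0 80267204 0) (P.cons (P.lf 0 4391898 0) (P.lf 487986 0 0)))) (P.cons (P.cons (P.lf 392682853 0 0) (P.cons (P.lf 0 20424101 0) (P.cons (P.lf 0 1117524 0) (P.lf 124166 0 0)))) (P.cons (P.cons (P.lf 0 48627750 0) (P.cons (P.lf 732871 0 0) (P.cons (P.lf 40102 0 0) (P.lf 0 4456 0)))) (P.cons (P.cons (P.lf 0 8375765 0) (P.cons (P.lf 633352 0 0) (P.cons (P.lf 34652 0 0) P.nil))) (P.cons (P.cons (P.lf 425339 0 0) (P.cons (P.lf 45077 0 0) P.nil)) (P.cons (P.cons (P.lf 116456 0 0) P.nil) P.nil)))))) 32978)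
 EL.nil)
noncomputable def S140_169_364_438_32 : EL := (EL.cons 13 (TM.mk (P.cons (P.cons (P.lf 5792942 0 0) (P.cons (P.lf 0 7242125 0) (P.cons (P.lf 1867200 0 0) (P.cons (P.lf 291723 0 0) (P.cons (P.lf 0 20744 0) (P.cons (P.lf 0 1505 0) P.nil)))))) (P.cons (P.cons (P.lf 35985641 0 0) (P.cons (P.lf 0 24684124 0) (P.cons (P.lf 18409 0 0) (P.cons (P.lf 299882 0 0) (P.cons (P.lf 0 12547 0) P.nil))))) (P.cons (P.cons (P.lf 53283023 0 0) (P.cons (P.lf 0 5251525 0) (P.cons (P.lf 0 33013 0) (P.cons (P.lf 59757 0 0) P.nil)))) (P.cons (P.cons (P.lf 0 8778067 0) (P.cons (P.lf 731576 0 0) (P.cons (P.lf 29048 0 0) P.nil))) (P.cons (P.cons (P.lf 0 1863980 0) (P.cons (P.lf 277942 0 0) P.nil)) (P.cons (P.cons (P.lf 167911 0 0) P.nil) P.nil)))))) 179458)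
 EL.nil)
noncomputable def S140_169_364_438_33 : EL := (EL.cons 14 (TM.mk (P.lf 8589934592 0 0) 0)
 EL.nil)
noncomputable def S140_169_364_438_34 : EL := (EL.cons 14 (TM.mk (P.cons (P.cons (P.lf 387514384 0 0) (P.cons (P.lf 0 242228200 0) (P.cons (P.lf 0 13253752 0) (P.lf 1472632 0 0)))) (P.cons (P.cons (P.lf 1222203738 0 0) (P.cons (P.lf 0 84873368 0) (P.cons (P.lf 0 4643928 0) (P.lf 515984 0 0)))) (P.cons (P.cons (P.lf 0 26452686 0) (P.cons (P.lf 0 7832896 0) (P.cons (P.lf 0 428576 0) (P.lf 47616 0 0)))) (P.cons (P.cons (P.lf 0 18197600 0) (P.cons (P.lf 481976 0 0) (P.cons (P.lf 26368 0 0) P.nil))) (P.cons (P.cons (P.lf 0 621900 0) (P.cons (P.lf 122616 0 0) P.nil)) (P.cons (P.cons (P.lf 117654 0 0) P.nil) P.nil)))))) 38894)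
 EL.nil)
noncomputable def S140_169_364_438_35 : EL := (EL.cons 14 (TM.mk (P.cons (P.cons (P.lf 17481784 0 0) (P.cons (P.lf 0 21855092 0) (P.cons (P.lf 5634788 0 0) (P.cons (P.lf 880354 0 0) (P.cons (P.lf 0 62602 0) (P.cons (P.lf 0 4544 0) P.nil)))))) (P.cons (P.cons (P.lf 110273604 0 0) (P.cons (P.lf 0 76587744 0) (P.cons (P.lf 596126 0 0) (P.cons (P.lf 989434 0 0) (P.cons (P.lf 0 43870 0) P.nil))))) (P.cons (P.cons (P.lf 171512410 0 0) (P.cons (P.lf 0 23366958 0) (P.cons (P.lf 1812 0 0) (P.cons (P.lf 282168 0 0) P.nil)))) (P.cons (P.cons (P.lf 0 9169430 0) (P.cons (P.lf 0 636446 0) (P.cons (P.lf 92782 0 0) P.nil))) (P.cons (P.cons (P.lf 0 5153076 0) (P.cons (P.lf 591138 0 0) P.nil)) (P.cons (P.cons (P.lf 0 54276 0) P.nil) P.nil)))))) 332578)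
 EL.nil)
noncomputable def S140_169_364_438_36 : EL := (EL.cons 14 (TM.mk (P.cons (P.lf 0 5692896520 0) (P.cons (P.lf 546145784 0 0) (P.cons (P.lf 44706904 0 0) (P.cons (P.lf 267288 0 0) (P.cons (P.lf 0 137296 0) (P.cons (P.lf 0 7336 0) P.nil)))))) 792)
 EL.nil)
noncomputable def S140_169_364_438_37 : EL := (EL.cons 14 (TM.mk (P.cons (P.cons (P.lf 0 256821430 0) (P.cons (P.lf 160534408 0 0) (P.cons (P.lf 8783796 0 0) (P.lf 0 975972 0)))) (P.cons (P.cons (P.lf 0 785365706 0) (P.cons (P.lf 40848202 0 0) (P.cons (P.lf 2235048 0 0) (P.lf 0 248332 0)))) (P.cons (P.cons (P.lf 97255500 0 0) (P.cons (P.lf 0 1465742 0) (P.cons (P.lf 0 80204 0) (P.lf 8912 0 0)))) (P.cons (P.cons (P.lf 16751530 0 0) (P.cons (P.lf 0 1266704 0) (P.cons (P.lf 0 69304 0) P.nil))) (P.cons (P.cons (P.lf 0 850678 0) (P.cons (P.lf 0 90154 0) P.nil)) (P.cons (P.cons (P.lf 0 232912 0) P.nil) P.nil))))))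 65956)
 EL.nil)
noncomputable def S140_169_364_438_38 : EL := (EL.cons 14 (TM.mk (P.cons (P.cons (P.lf 0 11585884 0) (P.cons (P.lf 14484250 0 0) (P.cons (P.lf 0 3734400 0) (P.cons (P.lf 0 583446 0) (P.cons (P.lf 41488 0 0) (P.cons (P.lf 3010 0 0) P.nil)))))) (P.cons (P.cons (P.lf 0 71971282 0) (P.cons (P.lf 49368248 0 0) (P.cons (P.lf 0 36818 0) (P.cons (P.lf 0 599764 0) (P.cons (P.lf 25094 0 0) P.nil))))) (P.cons (P.cons (P.lf 0 106566046 0) (P.cons (P.lf 10503050 0 0) (P.cons (P.lf 66026 0 0) (P.cons (P.lf 0 119514 0) P.nil)))) (P.cons (P.cons (P.lf 17556134 0 0) (P.cons (P.lf 0 1463152 0) (P.cons (P.lf 0 58096 0) P.nil))) (P.cons (P.cons (P.lf 3727960 0 0) (P.cons (P.lf 0 555884 0) P.nil)) (P.cons (P.cons (P.lf 0 335822 0) P.nil) P.nil)))))) 358916)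
 EL.nil)
noncomputable def S140_169_364_438_39 : EL := (EL.cons 14 (TM.mk (P.cons (P.lf 3772912404 0 0) (P.cons (P.lf 0 723905728 0) (P.cons (P.lf 0 24534334 0) (P.cons (P.lf 5330620 0 0) (P.cons (P.lf 448650 0 0) (P.cons (P.lf 0 4952 0) P.nil)))))) 3630)
 EL.nil)
noncomputable def S140_169_364_438_40 : EL := (EL.cons 14 (TM.mk (P.cons (P.cons (P.lf 170205932 0 0) (P.cons (P.lf 0 106392634 0) (P.cons (P.lf 0 5821376 0) (P.lf 646816 0 0)))) (P.cons (P.cons (P.lf 504164928 0 0) (P.cons (P.lf 0 16865016 0) (P.cons (P.lf 0 922784 0) (P.lf 102528 0 0)))) (P.cons (P.cons (P.lf 0 115725136 0) (P.cons (P.lf 4404036 0 0) (P.cons (P.lf 240974 0 0) (P.lf 0 26774 0)))) (P.cons (P.cons (P.lf 0 9013916 0) (P.cons (P.lf 963896 0 0) (P.cons (P.lf 52738 0 0) P.nil))) (P.cons (P.cons (P.lf 2114676 0 0) (P.cons (P.lf 0 29710 0) P.nil)) (P.cons (P.cons (P.lf 203258 0 0) P.nil) P.nil))))))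 85278)
 EL.nil)
noncomputable def S140_169_364_438_41 : EL := (EL.cons 14 (TM.mk (P.cons (P.cons (P.lf 7678432 0 0) (P.cons (P.lf 0 9599298 0) (P.cons (P.lf 2474938 0 0) (P.cons (P.lf 386672 0 0) (P.cons (P.lf 0 27496 0) (P.cons (P.lf 0 1994 0) P.nil)))))) (P.cons (P.cons (P.lf 46961648 0 0) (P.cons (P.lf 0 31797426 0) (P.cons (P.lf 0 213030 0) (P.cons (P.lf 360392 0 0) (P.cons (P.lf 0 13992 0) P.nil))))) (P.cons (P.cons (P.lf 65989408 0 0) (P.cons (P.lf 0 3746590 0) (P.cons (P.lf 0 65534 0) (P.cons (P.lf 38036 0 0) P.nil)))) (P.cons (P.cons (P.lf 0 18785540 0) (P.cons (P.lf 1894862 0 0) (P.cons (P.lf 42392 0 0) P.nil))) (P.cons (P.cons (P.lf 0 1911140 0) (P.cons (P.lf 331348 0 0) P.nil)) (P.cons (P.cons (P.lf 548802 0 0) P.nil) P.nil)))))) 329884)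
 EL.nil)
noncomputable def S140_169_364_438_42 : EL := (EL.cons 14 (TM.mk (P.cons (P.lf 0 2500461402 0) (P.cons (P.lf 719642336 0 0) (P.cons (P.lf 0 10129460 0) (P.cons (P.lf 0 8742920 0) (P.cons (P.lf 0 168938 0) (P.cons (P.lf 67134 0 0) P.nil)))))) 7070)
 EL.nil)
noncomputable def S140_169_364_438_43 : EL := (EL.cons 14 (TM.mk (P.cons (P.cons (P.lf 0 112802344 0) (P.cons (P.lf 70510694 0 0) (P.cons (P.lf 3858060 0 0) (P.lf 0 428670 0)))) (P.cons (P.cons (P.lf 0 323308808 0) (P.cons (P.lf 4412712 0 0) (P.cons (P.lf 241444 0 0) (P.lf 0 26824 0)))) (P.cons (P.cons (P.lf 109636242 0 0) (P.cons (P.lf 0 4544734 0) (P.cons (P.lf 0 248670 0) (P.lf 27630 0 0)))) (P.cons (P.cons (P.lf 1245370 0 0) (P.cons (P.lf 0 449890 0) (P.cons (P.lf 0 24614 0) P.nil))) (P.cons (P.cons (P.lf 0 2563914 0) (P.cons (P.lf 105070 0 0) P.nil)) (P.cons (P.cons (P.lf 0 58974 0) P.nil) P.nil))))))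 96414)
 EL.nil)
noncomputable def S140_169_364_438_44 : EL := (EL.cons 14 (TM.mk (P.cons (P.cons (P.lf 0 5088806 0) (P.cons (P.lf 6361842 0 0) (P.cons (P.lf 0 1640240 0) (P.cons (P.lf 0 256264 0) (P.cons (P.lf 18222 0 0) (P.cons (P.lf 1322 0 0) P.nil)))))) (P.cons (P.cons (P.lf 0 30635186 0) (P.cons (P.lf 20463118 0 0) (P.cons (P.lf 298540 0 0) (P.cons (P.lf 0 214262 0) (P.cons (P.lf 7524 0 0) P.nil))))) (P.cons (P.cons (P.lf 0 40708072 0) (P.cons (P.lf 411384 0 0) (P.cons (P.lf 42768 0 0) (P.cons (P.lf 0 282 0) P.nil)))) (P.cons (P.cons (P.lf 16890180 0 0) (P.cons (P.lf 0 1659800 0) (P.cons (P.lf 0 33294 0) P.nil))) (P.cons (P.cons (P.lf 416994 0 0) (P.cons (P.lf 0 119458 0) P.nil)) (P.cons (P.cons (P.lf 0 581698 0) P.nil) P.nil)))))) 276522)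
 EL.nil)
noncomputable def S140_169_364_438_45 : EL := (EL.cons 14 (TM.mk (P.cons (P.cons (P.lf 788648 0 0) (P.cons (P.lf 0 1478910 0) (P.cons (P.lf 843520 0 0) (P.cons (P.lf 0 82462 0) (P.cons (P.lf 0 40090 0) (P.cons (P.lf 1168 0 0) P.nil)))))) (P.cons (P.cons (P.lf 7462094 0 0) (P.cons (P.lf 0 9847028 0) (P.cons (P.lf 3024676 0 0) (P.cons (P.lf 247350 0 0) (P.cons (P.lf 0 65894 0) P.nil))))) (P.cons (P.cons (P.lf 23373622 0 0) (P.cons (P.lf 0 17825990 0) (P.cons (P.lf 1178010 0 0) (P.cons (P.lf 254392 0 0) P.nil)))) (P.cons (P.cons (P.lf 23613062 0 0) (P.cons (P.lf 0 4606930 0) (P.cons (P.lf 224082 0 0) P.nil))) (P.cons (P.cons (P.lf 0 2300174 0) (P.cons (P.lf 257852 0 0) P.nil)) (P.cons (P.cons (P.lf 0 1078496 0) P.nil) P.nil)))))) 619936)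
 EL.nil)
noncomputable def S140_169_364_438_46 : EL := (EL.cons 15 (TM.mk (P.lf 4294967296 0 0) 0)
 EL.nil)
noncomputable def S140_169_364_438_47 : EL := (EL.cons 15 (TM.mk (P.cons (P.cons (P.lf 193757192 0 0) (P.cons (P.lf 0 121114100 0) (P.cons (P.lf 0 6626876 0) (P.lf 736316 0 0)))) (P.cons (P.cons (P.lf 611101869 0 0) (P.cons (P.lf 0 42436684 0) (P.cons (P.lf 0 2321964 0) (P.lf 257992 0 0)))) (P.cons (P.cons (P.lf 0 13226343 0) (P.cons (P.lf 0 3916448 0) (P.cons (P.lf 0 214288 0) (P.lf 23808 0 0)))) (P.cons (P.cons (P.lf 0 9098800 0) (P.cons (P.lf 240988 0 0) (P.cons (P.lf 13184 0 0) P.nil))) (P.cons (P.cons (P.lf 0 310950 0) (P.cons (P.lf 61308 0 0) P.nil)) (P.cons (P.cons (P.lf 58827 0 0) P.nil) P.nil)))))) 19447)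
 EL.nil)
noncomputable def S140_169_364_438_48 : EL := (EL.cons 15 (TM.mk (P.cons (P.cons (P.lf 8740892 0 0) (P.cons (P.lf 0 10927546 0) (P.cons (P.lf 2817394 0 0) (P.cons (P.lf 440177 0 0) (P.cons (P.lf 0 31301 0) (P.cons (P.lf 0 2272 0) P.nil)))))) (P.cons (P.cons (P.lf 55136802 0 0) (P.cons (P.lf 0 38293872 0) (P.cons (P.lf 298063 0 0) (P.cons (P.lf 494717 0 0) (P.cons (P.lf 0 21935 0) P.nil))))) (P.cons (P.cons (P.lf 85756205 0 0) (P.cons (P.lf 0 11683479 0) (P.cons (P.lf 906 0 0) (P.cons (P.lf 141084 0 0) P.nil)))) (P.cons (P.cons (P.lf 0 4584715 0) (P.cons (P.lf 0 318223 0) (P.cons (P.lf 46391 0 0) P.nil))) (P.cons (P.cons (P.lf 0 2576538 0) (P.cons (P.lf 295569 0 0) P.nil)) (P.cons (P.cons (P.lf 0 27138 0) P.nil) P.nil)))))) 166289)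
 EL.nil)
noncomputable def S140_169_364_438 : SL := (SL.cons S140_169_364_438_0 (SL.cons S140_169_364_438_1 (SL.cons S140_169_364_438_2 (SL.cons S140_169_364_438_3 (SL.cons S140_169_364_438_4 (SL.cons S140_169_364_438_5 (SL.cons S140_169_364_438_6 (SL.cons S140_169_364_438_7 (SL.cons S140_169_364_438_8 (SL.cons S140_169_364_438_9 (SL.cons S140_169_364_438_10 (SL.cons S140_169_364_438_11 (SL.cons S140_169_364_438_12 (SL.cons S140_169_364_438_13 (SL.cons S140_169_364_438_14 (SL.cons S140_169_364_438_15 (SL.cons S140_169_364_438_16 (SL.cons S140_169_364_438_17 (SL.cons S140_169_364_438_18 (SL.cons S140_169_364_438_19 (SL.cons S140_169_364_438_20 (SL.cons S140_169_364_438_21 (SL.cons S140_169_364_438_22 (SL.cons S140_169_364_438_23 (SL.cons S140_169_364_438_24 (SL.cons S140_169_364_438_25 (SL.cons S140_169_364_438_26 (SL.cons S140_169_364_438_27 (SL.cons S140_169_364_438_28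 (SL.cons S140_169_364_438_29 (SL.cons S140_169_364_438_30 (SL.cons S140_169_364_438_31 (SL.cons S140_169_364_438_32 (SL.cons S140_169_364_438_33 (SL.cons S140_169_364_438_34 (SL.cons S140_169_364_438_35 (SL.cons S140_169_364_438_36 (SL.cons S140_169_364_438_37 (SL.cons S140_169_364_438_38 (SL.cons S140_169_364_438_39 (SL.cons S140_169_364_438_40 (SL.cons S140_169_364_438_41 (SL.cons S140_169_364_438_42 (SL.cons S140_169_364_438_43 (SL.cons S140_169_364_438_44 (SL.cons S140_169_364_438_45 (SL.cons S140_169_364_438_46 (SL.cons S140_169_364_438_47 (SL.cons S140_169_364_438_48 SL.nil)))))))))))))))))))))))))))))))))))))))))))))))))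
noncomputable def S140_169_364_512_0 : EL := (EL.cons 0 (TM.mk (P.cons (P.lf 5139680571 0 0) (P.cons (P.lf 636245268 0 0) (P.cons (P.lf 21563379 0 0) (P.cons (P.lf 0 4685115 0) (P.cons (P.lf 0 394321 0) (P.cons (P.lf 4352 0 0) P.nil)))))) 3197)
 (EL.cons 1 (TM.mk (P.cons (P.lf 0 1792040857 0) (P.cons (P.lf 0 37383279 0) (P.cons (P.lf 39281548 0 0) (P.cons (P.lf 2177913 0 0) (P.cons (P.lf 0 137038 0) (P.cons (P.lf 0 19477 0) P.nil)))))) 1484)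
 (EL.cons 5 (TM.mk (P.cons (P.lf 5474002426 0 0) (P.cons (P.lf 0 226220540 0) (P.cons (P.lf 0 7666984 0) (P.cons (P.lf 1665814 0 0) (P.cons (P.lf 140204 0 0) (P.cons (P.lf 0 1546 0) P.nil)))))) 969)
 (EL.cons 9 (TM.mk (P.lf 6442450944 0 0) 2)
 EL.nil))))
noncomputable def S140_169_364_512_1 : EL := (EL.cons 0 (TM.mk (P.cons (P.cons (P.lf 0 3665632822 0) (P.cons (P.lf 295916833 0 0) (P.cons (P.lf 19784298 0 0) (P.lf 0 6594759 0)))) (P.cons (P.cons (P.lf 1014703979 0 0) (P.cons (P.lf 0 52936286 0) (P.cons (P.lf 0 3539203 0) (P.lf 1179744 0 0)))) (P.cons (P.cons (P.lf 306200877 0 0) (P.cons (P.lf 0 50617067 0) (P.cons (P.lf 0 3384135 0) (P.lf 1128038 0 0)))) (P.cons (P.cons (P.lf 0 12473278 0) (P.cons (P.lf 0 6360037 0) (P.cons (P.lf 0 425208 0) P.nil))) (P.cons (P.cons (P.lf 0 8183529 0) (P.cons (P.lf 491371 0 0) P.nil)) (P.cons (P.cons (P.lf 0 343381 0) P.nil) P.nil))))))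 865342)
 (EL.cons 1 (TM.mk (P.cons (P.cons (P.lf 192219781 0 0) (P.cons (P.lf 74312870 0 0) (P.cons (P.lf 4968374 0 0) (P.lf 0 1656125 0)))) (P.cons (P.cons (P.lf 0 733601562 0) (P.cons (P.lf 113275325 0 0) (P.cons (P.lf 7573314 0 0) (P.lf 0 2524428 0)))) (P.cons (P.cons (P.lf 29062696 0 0) (P.cons (P.lf 16016673 0 0) (P.cons (P.lf 1070829 0 0) (P.lf 0 356940 0)))) (P.cons (P.cons (P.lf 33530791 0 0) (P.cons (P.lf 0 2904748 0) (P.cons (P.lf 0 194195 0) P.nil))) (P.cons (P.cons (P.lf 857101 0 0) (P.cons (P.lf 0 697863 0) P.nil)) (P.cons (P.cons (P.lf 0 525193 0) P.nil) P.nil)))))) 439723)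
 (EL.cons 5 (TM.mk (P.cons (P.cons (P.lf 1416815430 0 0) (P.cons (P.lf 0 554555128 0) (P.cons (P.lf 0 37076260 0) (P.lf 12358750 0 0)))) (P.cons (P.cons (P.lf 602438441 0 0) (P.cons (P.lf 0 138620752 0) (P.cons (P.lf 0 9267858 0) (P.lf 3089284 0 0)))) (P.cons (P.cons (P.lf 0 138337984 0) (P.cons (P.lf 3466916 0 0) (P.cons (P.lf 231788 0 0) (P.lf 0 77264 0)))) (P.cons (P.cons (P.lf 0 10603418 0) (P.cons (P.lf 3155434 0 0) (P.cons (P.lf 210958 0 0) P.nil))) (P.cons (P.cons (P.lf 2490371 0 0) (P.cons (P.lf 52760 0 0) P.nil)) (P.cons (P.cons (P.lf 225774 0 0) P.nil) P.nil)))))) 349767)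
 (EL.cons 9 (TM.mk (P.cons (P.cons (P.lf 100128798 0 0) (P.cons (P.lf 0 396476688 0) (P.cons (P.lf 0 26507502 0) (P.lf 8835834 0 0)))) (P.cons (P.cons (P.lf 849901819 0 0) (P.cons (P.lf 0 138919884 0) (P.cons (P.lf 0 9287856 0) (P.lf 3095946 0 0)))) (P.cons (P.cons (P.lf 0 25999912 0) (P.cons (P.lf 0 12820818 0) (P.cons (P.lf 0 857166 0) (P.lf 285720 0 0)))) (P.cons (P.cons (P.lf 0 13269132 0) (P.cons (P.lf 788898 0 0) (P.cons (P.lf 52740 0 0) P.nil))) (P.cons (P.cons (P.lf 0 369987 0) (P.cons (P.lf 200700 0 0) P.nil)) (P.cons (P.cons (P.lf 91486 0 0) P.nil) P.nil)))))) 79025)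
 (EL.cons 2 (TM.mk (P.cons (P.cons (P.lf 837174740 0 0) (P.cons (P.lf 129615671 0 0) (P.cons (P.lf 0 62444742 0) (P.cons (P.lf 0 2363090 0) (P.lf 590771 0 0))))) (P.cons (P.cons (P.lf 115242179 0 0) (P.cons (P.lf 17842381 0 0) (P.cons (P.lf 0 8595894 0) (P.cons (P.lf 0 325293 0) (P.lf 81320 0 0))))) (P.cons (P.cons (P.lf 0 18707307 0) (P.cons (P.lf 0 2896360 0) (P.cons (P.lf 1395374 0 0) (P.cons (P.lf 52804 0 0) P.nil)))) (P.cons (P.cons (P.lf 0 3650866 0) (P.cons (P.lf 0 565245 0) (P.cons (P.lf 272314 0 0) P.nil))) (P.cons (P.cons (P.lf 0 24089 0) (P.cons (P.lf 0 3729 0) P.nil)) (P.cons (P.cons (P.lf 29753 0 0) P.nil) P.nil)))))) 72594)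
 (EL.cons 6 (TM.mk (P.cons (P.cons (P.lf 452423076 0 0) (P.cons (P.lf 70046451 0 0) (P.cons (P.lf 0 33746172 0) (P.cons (P.lf 0 1277052 0) (P.lf 319260 0 0))))) (P.cons (P.cons (P.lf 158522715 0 0) (P.cons (P.lf 24543294 0 0) (P.cons (P.lf 0 11824185 0) (P.cons (P.lf 0 447459 0) (P.lf 111864 0 0))))) (P.cons (P.cons (P.lf 14629950 0 0) (P.cons (P.lf 2265081 0 0) (P.cons (P.lf 0 1091244 0) (P.cons (P.lf 0 41295 0) P.nil)))) (P.cons (P.cons (P.lf 0 900219 0) (P.cons (P.lf 0 139374 0) (P.cons (P.lf 67146 0 0) P.nil))) (P.cons (P.cons (P.lf 0 229023 0) (P.cons (P.lf 0 35457 0) P.nil)) (P.cons (P.cons (P.lf 0 7698 0) P.nil) P.nil)))))) 41499)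
 EL.nil))))))
noncomputable def S140_169_364_512_2 : EL := (EL.cons 0 (TM.mk (P.cons (P.cons (P.lf 0 115184295 0) (P.cons (P.lf 470205743 0 0) (P.cons (P.lf 0 24451011 0) (P.cons (P.lf 0 17952008 0) (P.cons (P.lf 2241197 0 0) (P.cons (P.lf 166542 0 0) P.nil)))))) (P.cons (P.cons (P.lf 0 956844862 0) (P.cons (P.lf 197740381 0 0) (P.cons (P.lf 0 9076503 0) (P.cons (P.lf 0 7388243 0) (P.cons (P.lf 894134 0 0) P.nil))))) (P.cons (P.cons (P.lf 215411042 0 0) (P.cons (P.lf 0 46982842 0) (P.cons (P.lf 0 1224931 0) (P.cons (P.lf 1303296 0 0) P.nil)))) (P.cons (P.cons (P.lf 82032720 0 0) (P.cons (P.lf 0 26770498 0) (P.cons (P.lf 604285 0 0) P.nil))) (P.cons (P.cons (P.lf 0 6692244 0) (P.cons (P.lf 0 1377061 0) P.nil)) (P.cons (P.cons (P.lf 0 3117555 0) P.nil) P.nil)))))) 6146459)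
 (EL.cons 1 (TM.mk (P.cons (P.cons (P.lf 6407845 0 0) (P.cons (P.lf 0 24777050 0) (P.cons (P.lf 0 4016102 0) (P.cons (P.lf 236668 0 0) (P.cons (P.lf 94620 0 0) (P.cons (P.lf 7028 0 0) P.nil)))))) (P.cons (P.cons (P.lf 35270376 0 0) (P.cons (P.lf 74761296 0 0) (P.cons (P.lf 0 7250946 0) (P.cons (P.lf 0 3304040 0) (P.cons (P.lf 491217 0 0) P.nil))))) (P.cons (P.cons (P.lf 0 163097955 0) (P.cons (P.lf 47107400 0 0) (P.cons (P.lf 0 2780173 0) (P.cons (P.lf 0 1842708 0) P.nil)))) (P.cons (P.cons (P.lf 12301108 0 0) (P.cons (P.lf 805638 0 0) (P.cons (P.lf 0 671168 0) P.nil))) (P.cons (P.cons (P.lf 9961139 0 0) (P.cons (P.lf 0 2727707 0) P.nil)) (P.cons (P.cons (P.lf 0 99886 0) P.nil) P.nil)))))) 3085640)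
 (EL.cons 5 (TM.mk (P.cons (P.cons (P.lf 42718109 0 0) (P.cons (P.lf 0 181151580 0) (P.cons (P.lf 35412834 0 0) (P.cons (P.lf 10391834 0 0) (P.cons (P.lf 0 1905805 0) (P.cons (P.lf 0 141617 0) P.nil)))))) (P.cons (P.cons (P.lf 370152374 0 0) (P.cons (P.lf 0 193757483 0) (P.cons (P.lf 14352066 0 0) (P.cons (P.lf 7969312 0 0) (P.cons (P.lf 0 1095020 0) P.nil))))) (P.cons (P.cons (P.lf 49563772 0 0) (P.cons (P.lf 0 21660149 0) (P.cons (P.lf 3053907 0 0) (P.cons (P.lf 1084703 0 0) P.nil)))) (P.cons (P.cons (P.lf 0 37409217 0) (P.cons (P.lf 8834207 0 0) (P.cons (P.lf 255997 0 0) P.nil))) (P.cons (P.cons (P.lf 0 1482442 0) (P.cons (P.lf 1550037 0 0) P.nil)) (P.cons (P.cons (P.lf 1122423 0 0) P.nil) P.nil)))))) 2811531)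
 (EL.cons 9 (TM.mk (P.cons (P.cons (P.lf 1556205 0 0) (P.cons (P.lf 0 12324108 0) (P.cons (P.lf 23575722 0 0) (P.cons (P.lf 3537264 0 0) (P.cons (P.lf 0 978471 0) (P.cons (P.lf 0 72709 0) P.nil)))))) (P.cons (P.cons (P.lf 26418406 0 0) (P.cons (P.lf 0 108926289 0) (P.cons (P.lf 9816058 0 0) (P.cons (P.lf 4713864 0 0) (P.cons (P.lf 0 685684 0) P.nil))))) (P.cons (P.cons (P.lf 111312670 0 0) (P.cons (P.lf 0 33851599 0) (P.cons (P.lf 2310337 0 0) (P.cons (P.lf 1365967 0 0) P.nil)))) (P.cons (P.cons (P.lf 0 7272385 0) (P.cons (P.lf 0 603694 0) (P.cons (P.lf 415455 0 0) P.nil))) (P.cons (P.cons (P.lf 0 3407556 0) (P.cons (P.lf 935655 0 0) P.nil)) (P.cons (P.cons (P.lf 12325 0 0) P.nil) P.nil)))))) 1011655)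
 (EL.cons 2 (TM.mk (P.cons (P.cons (P.lf 26022796 0 0) (P.cons (P.lf 0 99012628 0) (P.cons (P.lf 0 24783581 0) (P.cons (P.lf 8842168 0 0) (P.cons (P.lf 1178611 0 0) (P.cons (P.lf 0 224550 0) P.nil)))))) (P.cons (P.cons (P.lf 224465934 0 0) (P.cons (P.lf 0 15535676 0) (P.cons (P.lf 0 27891005 0) (P.cons (P.lf 3717596 0 0) (P.cons (P.lf 724646 0 0) P.nil))))) (P.cons (P.cons (P.lf 23067281 0 0) (P.cons (P.lf 0 2428081 0) (P.cons (P.lf 0 3050561 0) (P.cons (P.lf 453988 0 0) P.nil)))) (P.cons (P.cons (P.lf 0 9428023 0) (P.cons (P.lf 0 457200 0) (P.cons (P.lf 925464 0 0) P.nil))) (P.cons (P.cons (P.lf 0 1383885 0) (P.cons (P.lf 100991 0 0) P.nil)) (P.cons (P.cons (P.lf 111633 0 0) P.nil) P.nil)))))) 970390)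
 (EL.cons 6 (TM.mk (P.cons (P.cons (P.lf 14063148 0 0) (P.cons (P.lf 0 53508060 0) (P.cons (P.lf 0 13393458 0) (P.cons (P.lf 4778448 0 0) (P.cons (P.lf 636942 0 0) (P.cons (P.lf 0 121350 0) P.nil)))))) (P.cons (P.cons (P.lf 124296756 0 0) (P.cons (P.lf 0 19778502 0) (P.cons (P.lf 0 17921946 0) (P.cons (P.lf 3025566 0 0) (P.cons (P.lf 527106 0 0) P.nil))))) (P.cons (P.cons (P.lf 38628360 0 0) (P.cons (P.lf 0 4457256 0) (P.cons (P.lf 0 5195178 0) (P.cons (P.lf 794094 0 0) P.nil)))) (P.cons (P.cons (P.lf 688878 0 0) (P.cons (P.lf 0 933612 0) (P.cons (P.lf 0 281994 0) P.nil))) (P.cons (P.cons (P.lf 0 1067682 0) (P.cons (P.lf 0 89508 0) P.nil)) (P.cons (P.cons (P.lf 0 119016 0) P.nil) P.nil)))))) 708864)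
 EL.nil))))))
noncomputable def S140_169_364_512_3 : EL := (EL.cons 0 (TM.mk (P.cons (P.lf 3316036292 0 0) (P.cons (P.lf 0 636245268 0) (P.cons (P.lf 0 21563379 0) (P.cons (P.lf 4685115 0 0) (P.cons (P.lf 394321 0 0) (P.cons (P.lf 0 4352 0) P.nil)))))) 3197)
 (EL.cons 1 (TM.mk (P.cons (P.lf 1792040857 0 0) (P.cons (P.lf 37383279 0 0) (P.cons (P.lf 0 39281548 0) (P.cons (P.lf 0 2177913 0) (P.cons (P.lf 137038 0 0) (P.cons (P.lf 19477 0 0) P.nil)))))) 1484)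
 (EL.cons 5 (TM.mk (P.cons (P.lf 968448518 0 0) (P.cons (P.lf 226220540 0 0) (P.cons (P.lf 7666984 0 0) (P.cons (P.lf 0 1665814 0) (P.cons (P.lf 0 140204 0) (P.cons (P.lf 1546 0 0) P.nil)))))) 962)
 EL.nil)))
noncomputable def S140_169_364_512_4 : EL := (EL.cons 0 (TM.mk (P.cons (P.cons (P.lf 51537951 0 0) (P.cons (P.lf 0 204073122 0) (P.cons (P.lf 0 13643850 0) (P.lf 4547949 0 0)))) (P.cons (P.cons (P.lf 427570008 0 0) (P.cons (P.lf 0 32349016 0) (P.cons (P.lf 0 2162777 0) (P.lf 720922 0 0)))) (P.cons (P.cons (P.lf 0 97652552 0) (P.cons (P.lf 8447436 0 0) (P.cons (P.lf 564776 0 0) (P.lf 0 188258 0)))) (P.cons (P.cons (P.lf 0 7034006 0) (P.cons (P.lf 1848867 0 0) (P.cons (P.lf 123607 0 0) P.nil))) (P.cons (P.cons (P.lf 1831220 0 0) (P.cons (P.lf 0 56986 0) P.nil)) (P.cons (P.cons (P.lf 161085 0 0) P.nil) P.nil)))))) 183244)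
 (EL.cons 1 (TM.mk (P.cons (P.cons (P.lf 27851960 0 0) (P.cons (P.lf 0 110284490 0) (P.cons (P.lf 0 7373360 0) (P.lf 2457785 0 0)))) (P.cons (P.cons (P.lf 236990850 0 0) (P.cons (P.lf 0 40942756 0) (P.cons (P.lf 0 2737335 0) (P.lf 912442 0 0)))) (P.cons (P.cons (P.lf 0 2911003 0) (P.cons (P.lf 0 1954921 0) (P.cons (P.lf 0 130698 0) (P.lf 43565 0 0)))) (P.cons (P.cons (P.lf 0 9057781 0) (P.cons (P.lf 1126111 0 0) (P.cons (P.lf 75286 0 0) P.nil))) (P.cons (P.cons (P.lf 0 306568 0) (P.cons (P.lf 177105 0 0) P.nil)) (P.cons (P.cons (P.lf 131377 0 0) P.nil) P.nil)))))) 102300)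
 (EL.cons 5 (TM.mk (P.cons (P.cons (P.lf 15051660 0 0) (P.cons (P.lf 0 59599562 0) (P.cons (P.lf 0 3984686 0) (P.lf 1328228 0 0)))) (P.cons (P.cons (P.lf 131275712 0 0) (P.cons (P.lf 0 34804754 0) (P.cons (P.lf 0 2326962 0) (P.lf 775652 0 0)))) (P.cons (P.cons (P.lf 26054268 0 0) (P.cons (P.lf 0 7277138 0) (P.cons (P.lf 0 486530 0) (P.lf 162176 0 0)))) (P.cons (P.cons (P.lf 0 1922062 0) (P.cons (P.lf 0 394408 0) (P.cons (P.lf 0 26368 0) P.nil))) (P.cons (P.cons (P.lf 0 774428 0) (P.cons (P.lf 87160 0 0) P.nil)) (P.cons (P.cons (P.lf 0 26780 0) P.nil) P.nil)))))) 66544)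
 EL.nil)))
noncomputable def S140_169_364_512_5 : EL := (EL.cons 0 (TM.mk (P.cons (P.cons (P.lf 801003 0 0) (P.cons (P.lf 0 6343421 0) (P.cons (P.lf 12134814 0 0) (P.cons (P.lf 1820687 0 0) (P.cons (P.lf 0 503634 0) (P.cons (P.lf 0 37423 0) P.nil)))))) (P.cons (P.cons (P.lf 13444301 0 0) (P.cons (P.lf 0 54849058 0) (P.cons (P.lf 2724189 0 0) (P.cons (P.lf 2076969 0 0) (P.cons (P.lf 0 256299 0) P.nil))))) (P.cons (P.cons (P.lf 54680231 0 0) (P.cons (P.lf 0 6625357 0) (P.cons (P.lf 140841 0 0) (P.cons (P.lf 225711 0 0) P.nil)))) (P.cons (P.cons (P.lf 0 14823555 0) (P.cons (P.lf 3388014 0 0) (P.cons (P.lf 0 30032 0) P.nil))) (P.cons (P.cons (P.lf 0 1388981 0) (P.cons (P.lf 574551 0 0) P.nil)) (P.cons (P.cons (P.lf 449775 0 0) P.nil) P.nil)))))) 1091700)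
 (EL.cons 1 (TM.mk (P.cons (P.cons (P.lf 432875 0 0) (P.cons (P.lf 0 3428088 0) (P.cons (P.lf 6557853 0 0) (P.cons (P.lf 983928 0 0) (P.cons (P.lf 0 272171 0) (P.cons (P.lf 0 20223 0) P.nil)))))) (P.cons (P.cons (P.lf 7357608 0 0) (P.cons (P.lf 0 30370595 0) (P.cons (P.lf 2867248 0 0) (P.cons (P.lf 1331739 0 0) (P.cons (P.lf 0 196406 0) P.nil))))) (P.cons (P.cons (P.lf 31106690 0 0) (P.cons (P.lf 0 9973123 0) (P.cons (P.lf 555856 0 0) (P.cons (P.lf 385743 0 0) P.nil)))) (P.cons (P.cons (P.lf 0 1538593 0) (P.cons (P.lf 303967 0 0) (P.cons (P.lf 61147 0 0) P.nil))) (P.cons (P.cons (P.lf 0 1677652 0) (P.cons (P.lf 499723 0 0) P.nil)) (P.cons (P.cons (P.lf 0 9065 0) P.nil) P.nil)))))) 626765)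
 (EL.cons 5 (TM.mk (P.cons (P.cons (P.lf 233932 0 0) (P.cons (P.lf 0 1852596 0) (P.cons (P.lf 3543972 0 0) (P.cons (P.lf 531730 0 0) (P.cons (P.lf 0 147086 0) (P.cons (P.lf 0 10928 0) P.nil)))))) (P.cons (P.cons (P.lf 4025936 0 0) (P.cons (P.lf 0 16806874 0) (P.cons (P.lf 2303416 0 0) (P.cons (P.lf 832808 0 0) (P.cons (P.lf 0 137432 0) P.nil))))) (P.cons (P.cons (P.lf 17662362 0 0) (P.cons (P.lf 0 8928182 0) (P.cons (P.lf 720034 0 0) (P.cons (P.lf 375068 0 0) P.nil)))) (P.cons (P.cons (P.lf 2846468 0 0) (P.cons (P.lf 0 1405858 0) (P.cons (P.lf 149162 0 0) P.nil))) (P.cons (P.cons (P.lf 0 641990 0) (P.cons (P.lf 107598 0 0) P.nil)) (P.cons (P.cons (P.lf 0 155810 0) P.nil) P.nil)))))) 377516)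
 EL.nil)))
noncomputable def S140_169_364_512_6 : EL := (EL.cons 12 (TM.mk (P.lf 8589934592 0 0) 0)
 (EL.cons 3 (TM.mk (P.cons (P.lf 0 2668545243 0) (P.cons (P.lf 256005836 0 0) (P.cons (P.lf 20956361 0 0) (P.cons (P.lf 125291 0 0) (P.cons (P.lf 0 64357 0) (P.cons (P.lf 0 3438 0) P.nil)))))) 378)
 (EL.cons 7 (TM.mk (P.cons (P.lf 0 1442125985 0) (P.cons (P.lf 0 168433589 0) (P.cons (P.lf 4127638 0 0) (P.cons (P.lf 758202 0 0) (P.cons (P.lf 21743 0 0) (P.cons (P.lf 0 1521 0) P.nil)))))) 224)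
 EL.nil)))
noncomputable def S140_169_364_512_7 : EL := (EL.cons 12 (TM.mk (P.cons (P.cons (P.lf 133505064 0 0) (P.cons (P.lf 0 528635584 0) (P.cons (P.lf 0 35343336 0) (P.lf 11781112 0 0)))) (P.cons (P.cons (P.lf 1133202426 0 0) (P.cons (P.lf 0 185226512 0) (P.cons (P.lf 0 12383808 0) (P.lf 4127928 0 0)))) (P.cons (P.cons (P.lf 0 34666550 0) (P.cons (P.lf 0 17094424 0) (P.cons (P.lf 0 1142888 0) (P.lf 380960 0 0)))) (P.cons (P.cons (P.lf 0 17692176 0) (P.cons (P.lf 1051864 0 0) (P.cons (P.lf 70320 0 0) P.nil))) (P.cons (P.cons (P.lf 0 493316 0) (P.cons (P.lf 267600 0 0) P.nil)) (P.cons (P.cons (P.lf 121982 0 0) P.nil) P.nil)))))) 105342)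
 (EL.cons 3 (TM.mk (P.cons (P.cons (P.lf 2972688212 0 0) (P.cons (P.lf 0 328451388 0) (P.cons (P.lf 0 21959488 0) (P.lf 7319828 0 0)))) (P.cons (P.cons (P.lf 0 321869816 0) (P.cons (P.lf 0 83574914 0) (P.cons (P.lf 0 5587620 0) (P.lf 1862534 0 0)))) (P.cons (P.cons (P.lf 0 124237477 0) (P.cons (P.lf 2998882 0 0) (P.cons (P.lf 200500 0 0) (P.lf 0 66834 0)))) (P.cons (P.cons (P.lf 0 6963082 0) (P.cons (P.lf 2591666 0 0) (P.cons (P.lf 173268 0 0) P.nil))) (P.cons (P.cons (P.lf 1517057 0 0) (P.cons (P.lf 184456 0 0) P.nil)) (P.cons (P.cons (P.lf 202656 0 0) P.nil) P.nil)))))) 341603)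
 (EL.cons 7 (TM.mk (P.cons (P.cons (P.lf 0 2005517849 0) (P.cons (P.lf 412896687 0 0) (P.cons (P.lf 27605314 0 0) (P.lf 0 9201770 0)))) (P.cons (P.cons (P.lf 211767383 0 0) (P.cons (P.lf 54986340 0 0) (P.cons (P.lf 3676259 0 0) (P.lf 0 1225421 0)))) (P.cons (P.cons (P.lf 59214771 0 0) (P.cons (P.lf 0 7821669 0) (P.cons (P.lf 0 522937 0) (P.lf 174313 0 0)))) (P.cons (P.cons (P.lf 0 5609516 0) (P.cons (P.lf 0 1061399 0) (P.cons (P.lf 0 70964 0) P.nil))) (P.cons (P.cons (P.lf 0 1047221 0) (P.cons (P.lf 97434 0 0) P.nil)) (P.cons (P.cons (P.lf 22478 0 0) P.nil) P.nil)))))) 222241)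
 (EL.cons 10 (TM.mk (P.cons (P.cons (P.lf 0 1347415092 0) (P.cons (P.lf 0 208613691 0) (P.cons (P.lf 100503498 0 0) (P.cons (P.lf 3803346 0 0) (P.lf 0 950835 0))))) (P.cons (P.cons (P.lf 0 314743596 0) (P.cons (P.lf 0 48730212 0) (P.cons (P.lf 23476677 0 0) (P.cons (P.lf 888426 0 0) (P.lf 0 222105 0))))) (P.cons (P.cons (P.lf 0 10667175 0) (P.cons (P.lf 0 1651545 0) (P.cons (P.lf 795663 0 0) (P.cons (P.lf 30108 0 0) P.nil)))) (P.cons (P.cons (P.lf 2317668 0 0) (P.cons (P.lf 358833 0 0) (P.cons (P.lf 0 172872 0) P.nil))) (P.cons (P.cons (P.lf 195066 0 0) (P.cons (P.lf 30201 0 0) P.nil)) (P.cons (P.cons (P.lf 0 2148 0) P.nil) P.nil)))))) 33198)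
 EL.nil))))
noncomputable def S140_169_364_512_8 : EL := (EL.cons 12 (TM.mk (P.cons (P.cons (P.lf 2074940 0 0) (P.cons (P.lf 0 16432144 0) (P.cons (P.lf 31434296 0 0) (P.cons (P.lf 4716352 0 0) (P.cons (P.lf 0 1304628 0) (P.cons (P.lf 0 96946 0) P.nil)))))) (P.cons (P.cons (P.lf 35224542 0 0) (P.cons (P.lf 0 145235052 0) (P.cons (P.lf 13088078 0 0) (P.cons (P.lf 6285152 0 0) (P.cons (P.lf 0 914246 0) P.nil))))) (P.cons (P.cons (P.lf 148416894 0 0) (P.cons (P.lf 0 45135466 0) (P.cons (P.lf 3080450 0 0) (P.cons (P.lf 1821290 0 0) P.nil)))) (P.cons (P.cons (P.lf 0 9696514 0) (P.cons (P.lf 0 804926 0) (P.cons (P.lf 553940 0 0) P.nil))) (P.cons (P.cons (P.lf 0 4543408 0) (P.cons (P.lf 1247540 0 0) P.nil)) (P.cons (P.cons (P.lf 16434 0 0) P.nil) P.nil)))))) 1348844)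
 (EL.cons 3 (TM.mk (P.cons (P.cons (P.lf 93047849 0 0) (P.cons (P.lf 0 381200495 0) (P.cons (P.lf 25047123 0 0) (P.cons (P.lf 15252465 0 0) (P.cons (P.lf 0 2026476 0) (P.cons (P.lf 0 150585 0) P.nil)))))) (P.cons (P.cons (P.lf 785202666 0 0) (P.cons (P.lf 0 222471589 0) (P.cons (P.lf 15690501 0 0) (P.cons (P.lf 9044900 0 0) (P.cons (P.lf 0 1225686 0) P.nil))))) (P.cons (P.cons (P.lf 0 67726896 0) (P.cons (P.lf 0 11618758 0) (P.cons (P.lf 4901256 0 0) (P.cons (P.lf 1018171 0 0) P.nil)))) (P.cons (P.cons (P.lf 0 50164720 0) (P.cons (P.lf 12573081 0 0) (P.cons (P.lf 595447 0 0) P.nil))) (P.cons (P.cons (P.lf 0 1287857 0) (P.cons (P.lf 2285410 0 0) P.nil)) (P.cons (P.cons (P.lf 1258202 0 0) P.nil) P.nil)))))) 3260850)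
 (EL.cons 7 (TM.mk (P.cons (P.cons (P.lf 0 61991302 0) (P.cons (P.lf 256920063 0 0) (P.cons (P.lf 0 28181500 0) (P.cons (P.lf 0 11790827 0) (P.cons (P.lf 1818958 0 0) (P.cons (P.lf 135165 0 0) P.nil)))))) (P.cons (P.cons (P.lf 0 516607381 0) (P.cons (P.lf 146370445 0 0) (P.cons (P.lf 0 10323228 0) (P.cons (P.lf 0 5950899 0) (P.cons (P.lf 806412 0 0) P.nil))))) (P.cons (P.cons (P.lf 99508396 0 0) (P.cons (P.lf 0 7924366 0) (P.cons (P.lf 0 2126644 0) (P.cons (P.lf 0 36922 0) P.nil)))) (P.cons (P.cons (P.lf 23266311 0 0) (P.cons (P.lf 0 8387580 0) (P.cons (P.lf 0 2767 0) P.nil))) (P.cons (P.cons (P.lf 0 3659853 0) (P.cons (P.lf 0 197562 0) P.nil)) (P.cons (P.cons (P.lf 0 650390 0) P.nil) P.nil)))))) 1933619)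
 (EL.cons 10 (TM.mk (P.cons (P.cons (P.lf 0 41883144 0) (P.cons (P.lf 159358740 0 0) (P.cons (P.lf 39888660 0 0) (P.cons (P.lf 0 14231280 0) (P.cons (P.lf 0 1896954 0) (P.cons (P.lf 361410 0 0) P.nil)))))) (P.cons (P.cons (P.lf 0 365291232 0) (P.cons (P.lf 40292364 0 0) (P.cons (P.lf 48716688 0 0) (P.cons (P.lf 0 7348668 0) (P.cons (P.lf 0 1348290 0) P.nil))))) (P.cons (P.cons (P.lf 0 72499290 0) (P.cons (P.lf 9024846 0 0) (P.cons (P.lf 9896682 0 0) (P.cons (P.lf 0 1547436 0) P.nil)))) (P.cons (P.cons (P.lf 5348382 0 0) (P.cons (P.lf 1925556 0 0) (P.cons (P.lf 0 155634 0) P.nil))) (P.cons (P.cons (P.lf 2154942 0 0) (P.cons (P.lf 91098 0 0) P.nil)) (P.cons (P.cons (P.lf 74514 0 0) P.nil) P.nil)))))) 1389534)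
 EL.nil))))
noncomputable def S140_169_364_512_9 : EL := (EL.cons 3 (TM.mk (P.cons (P.lf 0 2668545243 0) (P.cons (P.lf 256005836 0 0) (P.cons (P.lf 20956361 0 0) (P.cons (P.lf 125291 0 0) (P.cons (P.lf 0 64357 0) (P.cons (P.lf 0 3438 0) P.nil)))))) 378)
 (EL.cons 7 (TM.mk (P.cons (P.lf 0 1442125985 0) (P.cons (P.lf 0 168433589 0) (P.cons (P.lf 4127638 0 0) (P.cons (P.lf 758202 0 0) (P.cons (P.lf 21743 0 0) (P.cons (P.lf 0 1521 0) P.nil)))))) 224)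
 EL.nil))
noncomputable def S140_169_364_512_10 : EL := (EL.cons 3 (TM.mk (P.cons (P.cons (P.lf 0 41474623 0) (P.cons (P.lf 164225694 0 0) (P.cons (P.lf 10979744 0 0) (P.lf 0 3659914 0)))) (P.cons (P.cons (P.lf 0 348061307 0) (P.cons (P.lf 41787457 0 0) (P.cons (P.lf 2793810 0 0) (P.lf 0 931267 0)))) (P.cons (P.cons (P.lf 44868032 0 0) (P.cons (P.lf 0 1499441 0) (P.cons (P.lf 0 100250 0) (P.lf 33417 0 0)))) (P.cons (P.cons (P.lf 7229630 0 0) (P.cons (P.lf 0 1295833 0) (P.cons (P.lf 0 86634 0) P.nil))) (P.cons (P.cons (P.lf 0 443071 0) (P.cons (P.lf 0 92228 0) P.nil)) (P.cons (P.cons (P.lf 0 104808 0) P.nil) P.nil)))))) 84169)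
 (EL.cons 7 (TM.mk (P.cons (P.cons (P.lf 0 22413572 0) (P.cons (P.lf 88750281 0 0) (P.cons (P.lf 5933635 0 0) (P.lf 0 1977878 0)))) (P.cons (P.cons (P.lf 0 192866125 0) (P.cons (P.lf 41462475 0 0) (P.cons (P.lf 2772083 0 0) (P.lf 0 924026 0)))) (P.cons (P.cons (P.lf 0 16335951 0) (P.cons (P.lf 6247854 0 0) (P.cons (P.lf 417716 0 0) (P.lf 0 139238 0)))) (P.cons (P.cons (P.lf 4206322 0 0) (P.cons (P.lf 22933 0 0) (P.cons (P.lf 1534 0 0) P.nil))) (P.cons (P.cons (P.lf 513436 0 0) (P.cons (P.lf 0 91452 0) P.nil)) (P.cons (P.cons (P.lf 0 19522 0) P.nil) P.nil)))))) 47097)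
 EL.nil))
noncomputable def S140_169_364_512_11 : EL := (EL.cons 3 (TM.mk (P.cons (P.cons (P.lf 0 644599 0) (P.cons (P.lf 5104801 0 0) (P.cons (P.lf 0 9765363 0) (P.cons (P.lf 0 1465179 0) (P.cons (P.lf 405294 0 0) (P.cons (P.lf 30117 0 0) P.nil)))))) (P.cons (P.cons (P.lf 0 10881000 0) (P.cons (P.lf 44628929 0 0) (P.cons (P.lf 0 3129099 0) (P.cons (P.lf 0 1811980 0) (P.cons (P.lf 245136 0 0) P.nil))))) (P.cons (P.cons (P.lf 0 45052266 0) (P.cons (P.lf 9653234 0 0) (P.cons (P.lf 0 490218 0) (P.cons (P.lf 0 366977 0) P.nil)))) (P.cons (P.cons (P.lf 7521548 0 0) (P.cons (P.lf 0 1449675 0) (P.cons (P.lf 0 47891 0) P.nil))) (P.cons (P.cons (P.lf 1485049 0 0) (P.cons (P.lf 0 523658 0) P.nil)) (P.cons (P.cons (P.lf 0 162268 0) P.nil) P.nil)))))) 656318)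
 (EL.cons 7 (TM.mk (P.cons (P.cons (P.lf 0 348352 0) (P.cons (P.lf 2758719 0 0) (P.cons (P.lf 0 5277364 0) (P.cons (P.lf 0 791807 0) (P.cons (P.lf 219028 0 0) (P.cons (P.lf 16275 0 0) P.nil)))))) (P.cons (P.cons (P.lf 0 5954377 0) (P.cons (P.lf 24705073 0 0) (P.cons (P.lf 0 2813670 0) (P.cons (P.lf 0 1147665 0) (P.cons (P.lf 179070 0 0) P.nil))))) (P.cons (P.cons (P.lf 0 25606748 0) (P.cons (P.lf 10417502 0 0) (P.cons (P.lf 0 758692 0) (P.cons (P.lf 0 426742 0) P.nil)))) (P.cons (P.cons (P.lf 0 1265181 0) (P.cons (P.lf 948924 0 0) (P.cons (P.lf 0 144337 0) P.nil))) (P.cons (P.cons (P.lf 1027335 0 0) (P.cons (P.lf 0 228210 0) P.nil)) (P.cons (P.cons (P.lf 94858 0 0) P.nil) P.nil)))))) 364201)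
 EL.nil))
noncomputable def S140_169_364_512_12 : EL := (EL.cons 4 (TM.mk (P.cons (P.lf 2668545243 0 0) (P.cons (P.lf 0 256005836 0) (P.cons (P.lf 0 20956361 0) (P.cons (P.lf 0 125291 0) (P.cons (P.lf 64357 0 0) (P.cons (P.lf 3438 0 0) P.nil)))))) 378)
 (EL.cons 8 (TM.mk (P.cons (P.lf 1442125985 0 0) (P.cons (P.lf 168433589 0 0) (P.cons (P.lf 0 4127638 0) (P.cons (P.lf 0 758202 0) (P.cons (P.lf 0 21743 0) (P.cons (P.lf 1521 0 0) P.nil)))))) 224)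
 EL.nil))
noncomputable def S140_169_364_512_13 : EL := (EL.cons 4 (TM.mk (P.cons (P.cons (P.lf 41474623 0 0) (P.cons (P.lf 0 164225694 0) (P.cons (P.lf 0 10979744 0) (P.lf 3659914 0 0)))) (P.cons (P.cons (P.lf 348061307 0 0) (P.cons (P.lf 0 41787457 0) (P.cons (P.lf 0 2793810 0) (P.lf 931267 0 0)))) (P.cons (P.cons (P.lf 0 44868032 0) (P.cons (P.lf 1499441 0 0) (P.cons (P.lf 100250 0 0) (P.lf 0 33417 0)))) (P.cons (P.cons (P.lf 0 7229630 0) (P.cons (P.lf 1295833 0 0) (P.cons (P.lf 86634 0 0) P.nil))) (P.cons (P.cons (P.lf 443071 0 0) (P.cons (P.lf 92228 0 0) P.nil)) (P.cons (P.cons (P.lf 104808 0 0) P.nil) P.nil)))))) 84169)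
 (EL.cons 8 (TM.mk (P.cons (P.cons (P.lf 22413572 0 0) (P.cons (P.lf 0 88750281 0) (P.cons (P.lf 0 5933635 0) (P.lf 1977878 0 0)))) (P.cons (P.cons (P.lf 192866125 0 0) (P.cons (P.lf 0 41462475 0) (P.cons (P.lf 0 2772083 0) (P.lf 924026 0 0)))) (P.cons (P.cons (P.lf 16335951 0 0) (P.cons (P.lf 0 6247854 0) (P.cons (P.lf 0 417716 0) (P.lf 139238 0 0)))) (P.cons (P.cons (P.lf 0 4206322 0) (P.cons (P.lf 0 22933 0) (P.cons (P.lf 0 1534 0) P.nil))) (P.cons (P.cons (P.lf 0 513436 0) (P.cons (P.lf 91452 0 0) P.nil)) (P.cons (P.cons (P.lf 19522 0 0) P.nil) P.nil)))))) 47097)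
 EL.nil))
noncomputable def S140_169_364_512_14 : EL := (EL.cons 4 (TM.mk (P.cons (P.cons (P.lf 644599 0 0) (P.cons (P.lf 0 5104801 0) (P.cons (P.lf 9765363 0 0) (P.cons (P.lf 1465179 0 0) (P.cons (P.lf 0 405294 0) (P.cons (P.lf 0 30117 0) P.nil)))))) (P.cons (P.cons (P.lf 10881000 0 0) (P.cons (P.lf 0 44628929 0) (P.cons (P.lf 3129099 0 0) (P.cons (P.lf 1811980 0 0) (P.cons (P.lf 0 245136 0) P.nil))))) (P.cons (P.cons (P.lf 45052266 0 0) (P.cons (P.lf 0 9653234 0) (P.cons (P.lf 490218 0 0) (P.cons (P.lf 366977 0 0) P.nil)))) (P.cons (P.cons (P.lf 0 7521548 0) (P.cons (P.lf 1449675 0 0) (P.cons (P.lf 47891 0 0) P.nil))) (P.cons (P.cons (P.lf 0 1485049 0) (P.cons (P.lf 523658 0 0) P.nil)) (P.cons (P.cons (P.lf 162268 0 0) P.nil) P.nil)))))) 656318)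
 (EL.cons 8 (TM.mk (P.cons (P.cons (P.lf 348352 0 0) (P.cons (P.lf 0 2758719 0) (P.cons (P.lf 5277364 0 0) (P.cons (P.lf 791807 0 0) (P.cons (P.lf 0 219028 0) (P.cons (P.lf 0 16275 0) P.nil)))))) (P.cons (P.cons (P.lf 5954377 0 0) (P.cons (P.lf 0 24705073 0) (P.cons (P.lf 2813670 0 0) (P.cons (P.lf 1147665 0 0) (P.cons (P.lf 0 179070 0) P.nil))))) (P.cons (P.cons (P.lf 25606748 0 0) (P.cons (P.lf 0 10417502 0) (P.cons (P.lf 758692 0 0) (P.cons (P.lf 426742 0 0) P.nil)))) (P.cons (P.cons (P.lf 1265181 0 0) (P.cons (P.lf 0 948924 0) (P.cons (P.lf 144337 0 0) P.nil))) (P.cons (P.cons (P.lf 0 1027335 0) (P.cons (P.lf 228210 0 0) P.nil)) (P.cons (P.cons (P.lf 0 94858 0) P.nil) P.nil)))))) 364201)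
 EL.nil))
noncomputable def S140_169_364_512_15 : EL := (EL.cons 4 (TM.mk (P.cons (P.lf 0 1768552689 0) (P.cons (P.lf 339330810 0 0) (P.cons (P.lf 11500469 0 0) (P.cons (P.lf 0 2498728 0) (P.cons (P.lf 0 210304 0) (P.cons (P.lf 2321 0 0) P.nil)))))) 1708)
 (EL.cons 8 (TM.mk (P.cons (P.lf 0 955755124 0) (P.cons (P.lf 0 19937749 0) (P.cons (P.lf 20950159 0 0) (P.cons (P.lf 1161554 0 0) (P.cons (P.lf 0 73087 0) (P.cons (P.lf 0 10388 0) P.nil)))))) 788)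
 EL.nil))
noncomputable def S140_169_364_512_16 : EL := (EL.cons 4 (TM.mk (P.cons (P.cons (P.lf 0 27486907 0) (P.cons (P.lf 108838998 0 0) (P.cons (P.lf 7276720 0 0) (P.lf 0 2425573 0)))) (P.cons (P.cons (P.lf 0 228037337 0) (P.cons (P.lf 17252808 0 0) (P.cons (P.lf 1153481 0 0) (P.lf 0 384492 0)))) (P.cons (P.cons (P.lf 52081361 0 0) (P.cons (P.lf 0 4505299 0) (P.cons (P.lf 0 301214 0) (P.lf 100404 0 0)))) (P.cons (P.cons (P.lf 3751470 0 0) (P.cons (P.lf 0 986062 0) (P.cons (P.lf 0 65924 0) P.nil))) (P.cons (P.cons (P.lf 0 976650 0) (P.cons (P.lf 30392 0 0) P.nil)) (P.cons (P.cons (P.lf 0 85912 0) P.nil) P.nil)))))) 97739)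
 (EL.cons 8 (TM.mk (P.cons (P.cons (P.lf 0 14854379 0) (P.cons (P.lf 58818395 0 0) (P.cons (P.lf 3932459 0 0) (P.lf 0 1310819 0)))) (P.cons (P.cons (P.lf 0 126395120 0) (P.cons (P.lf 21836137 0 0) (P.cons (P.lf 1459912 0 0) (P.lf 0 486636 0)))) (P.cons (P.cons (P.lf 1552535 0 0) (P.cons (P.lf 1042625 0 0) (P.cons (P.lf 69706 0 0) (P.lf 0 23235 0)))) (P.cons (P.cons (P.lf 4830817 0 0) (P.cons (P.lf 0 600593 0) (P.cons (P.lf 0 40153 0) P.nil))) (P.cons (P.cons (P.lf 163503 0 0) (P.cons (P.lf 0 94456 0) P.nil)) (P.cons (P.cons (P.lf 0 70068 0) P.nil) P.nil)))))) 54550)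
 EL.nil))
noncomputable def S140_169_364_512_17 : EL := (EL.cons 4 (TM.mk (P.cons (P.cons (P.lf 0 427201 0) (P.cons (P.lf 3383158 0 0) (P.cons (P.lf 0 6471900 0) (P.cons (P.lf 0 971033 0) (P.cons (P.lf 268605 0 0) (P.cons (P.lf 19959 0 0) P.nil)))))) (P.cons (P.cons (P.lf 0 7170294 0) (P.cons (P.lf 29252831 0 0) (P.cons (P.lf 0 1452900 0) (P.cons (P.lf 0 1107717 0) (P.cons (P.lf 136693 0 0) P.nil))))) (P.cons (P.cons (P.lf 0 29162790 0) (P.cons (P.lf 3533523 0 0) (P.cons (P.lf 0 75115 0) (P.cons (P.lf 0 120379 0) P.nil)))) (P.cons (P.cons (P.lf 7905896 0 0) (P.cons (P.lf 0 1806941 0) (P.cons (P.lf 16017 0 0) P.nil))) (P.cons (P.cons (P.lf 740790 0 0) (P.cons (P.lf 0 306427 0) P.nil)) (P.cons (P.cons (P.lf 0 239880 0) P.nil) P.nil)))))) 582250)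
 (EL.cons 8 (TM.mk (P.cons (P.cons (P.lf 0 230867 0) (P.cons (P.lf 1828314 0 0) (P.cons (P.lf 0 3497522 0) (P.cons (P.lf 0 524762 0) (P.cons (P.lf 145158 0 0) (P.cons (P.lf 10786 0 0) P.nil)))))) (P.cons (P.cons (P.lf 0 3924058 0) (P.cons (P.lf 16197651 0 0) (P.cons (P.lf 0 1529199 0) (P.cons (P.lf 0 710261 0) (P.cons (P.lf 104750 0 0) P.nil))))) (P.cons (P.cons (P.lf 0 16590235 0) (P.cons (P.lf 5318999 0 0) (P.cons (P.lf 0 296457 0) (P.cons (P.lf 0 205730 0) P.nil)))) (P.cons (P.cons (P.lf 820583 0 0) (P.cons (P.lf 0 162116 0) (P.cons (P.lf 0 32612 0) P.nil))) (P.cons (P.cons (P.lf 894748 0 0) (P.cons (P.lf 0 266519 0) P.nil)) (P.cons (P.cons (P.lf 4835 0 0) P.nil) P.nil)))))) 334263)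
 EL.nil))
noncomputable def S140_169_364_512_18 : EL := (EL.cons 4 (TM.mk (P.cons (P.lf 1172091282 0 0) (P.cons (P.lf 0 337332345 0) (P.cons (P.lf 4748184 0 0) (P.cons (P.lf 4098243 0 0) (P.cons (P.lf 79189 0 0) (P.cons (P.lf 0 31469 0) P.nil)))))) 3321)
 (EL.cons 8 (TM.mk (P.cons (P.lf 633417514 0 0) (P.cons (P.lf 0 47553107 0) (P.cons (P.lf 0 20126446 0) (P.cons (P.lf 428689 0 0) (P.cons (P.lf 245981 0 0) (P.cons (P.lf 10070 0 0) P.nil)))))) 1843)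
 EL.nil))
noncomputable def S140_169_364_512_19 : EL := (EL.cons 4 (TM.mk (P.cons (P.cons (P.lf 18216683 0 0) (P.cons (P.lf 0 72131999 0) (P.cons (P.lf 0 4822575 0) (P.lf 1607524 0 0)))) (P.cons (P.cons (P.lf 149381940 0 0) (P.cons (P.lf 0 4514177 0) (P.cons (P.lf 0 301806 0) (P.lf 100601 0 0)))) (P.cons (P.cons (P.lf 0 49158031 0) (P.cons (P.lf 4649233 0 0) (P.cons (P.lf 310836 0 0) (P.lf 0 103612 0)))) (P.cons (P.cons (P.lf 0 362622 0) (P.cons (P.lf 460237 0 0) (P.cons (P.lf 30768 0 0) P.nil))) (P.cons (P.cons (P.lf 1150187 0 0) (P.cons (P.lf 0 107487 0) P.nil)) (P.cons (P.cons (P.lf 19655 0 0) P.nil) P.nil)))))) 98740)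
 (EL.cons 8 (TM.mk (P.cons (P.cons (P.lf 9844597 0 0) (P.cons (P.lf 0 38981325 0) (P.cons (P.lf 0 2606200 0) (P.lf 868733 0 0)))) (P.cons (P.cons (P.lf 82822712 0 0) (P.cons (P.lf 0 10732031 0) (P.cons (P.lf 0 717518 0) (P.lf 239172 0 0)))) (P.cons (P.cons (P.lf 0 9142407 0) (P.cons (P.lf 1003470 0 0) (P.cons (P.lf 67089 0 0) (P.lf 0 22363 0)))) (P.cons (P.cons (P.lf 0 3761162 0) (P.cons (P.lf 579805 0 0) (P.cons (P.lf 38763 0 0) P.nil))) (P.cons (P.cons (P.lf 203166 0 0) (P.cons (P.lf 29580 0 0) P.nil)) (P.cons (P.cons (P.lf 84055 0 0) P.nil) P.nil)))))) 57513)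
 EL.nil))
noncomputable def S140_169_364_512_20 : EL := (EL.cons 4 (TM.mk (P.cons (P.cons (P.lf 283124 0 0) (P.cons (P.lf 0 2242155 0) (P.cons (P.lf 4289190 0 0) (P.cons (P.lf 643543 0 0) (P.cons (P.lf 0 178015 0) (P.cons (P.lf 0 13228 0) P.nil)))))) (P.cons (P.cons (P.lf 4724881 0 0) (P.cons (P.lf 0 19171932 0) (P.cons (P.lf 551414 0 0) (P.cons (P.lf 672390 0 0) (P.cons (P.lf 0 73514 0) P.nil))))) (P.cons (P.cons (P.lf 18869249 0 0) (P.cons (P.lf 0 464313 0) (P.cons (P.lf 0 76275 0) (P.cons (P.lf 4298 0 0) P.nil)))) (P.cons (P.cons (P.lf 0 7131050 0) (P.cons (P.lf 1574547 0 0) (P.cons (P.lf 0 23154 0) P.nil))) (P.cons (P.cons (P.lf 0 140292 0) (P.cons (P.lf 107443 0 0) P.nil)) (P.cons (P.cons (P.lf 246431 0 0) P.nil) P.nil)))))) 482794)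
 (EL.cons 8 (TM.mk (P.cons (P.cons (P.lf 153004 0 0) (P.cons (P.lf 0 1211697 0) (P.cons (P.lf 2317949 0 0) (P.cons (P.lf 347781 0 0) (P.cons (P.lf 0 96202 0) (P.cons (P.lf 0 7148 0) P.nil)))))) (P.cons (P.cons (P.lf 2585953 0 0) (P.cons (P.lf 0 10618593 0) (P.cons (P.lf 791090 0 0) (P.cons (P.lf 437354 0 0) (P.cons (P.lf 0 60193 0) P.nil))))) (P.cons (P.cons (P.lf 10744326 0 0) (P.cons (P.lf 0 2485757 0) (P.cons (P.lf 81044 0 0) (P.cons (P.lf 88456 0 0) P.nil)))) (P.cons (P.cons (P.lf 0 1619067 0) (P.cons (P.lf 529980 0 0) (P.cons (P.lf 0 5302 0) P.nil))) (P.cons (P.cons (P.lf 0 627276 0) (P.cons (P.lf 194483 0 0) P.nil)) (P.cons (P.cons (P.lf 57500 0 0) P.nil) P.nil)))))) 277700)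
 EL.nil))
noncomputable def S140_169_364_512_21 : EL := (EL.cons 4 (TM.mk (P.cons (P.cons (P.lf 0 3014162835 0) (P.cons (P.lf 492677082 0 0) (P.cons (P.lf 32939232 0 0) (P.lf 0 10979742 0)))) (P.cons (P.cons (P.lf 0 26191491 0) (P.cons (P.lf 125362371 0 0) (P.cons (P.lf 8381430 0 0) (P.lf 0 2793801 0)))) (P.cons (P.cons (P.lf 169105509 0 0) (P.cons (P.lf 0 4498323 0) (P.cons (P.lf 0 300750 0) (P.lf 100251 0 0)))) (P.cons (P.cons (P.lf 14192712 0 0) (P.cons (P.lf 0 3887499 0) (P.cons (P.lf 0 259902 0) P.nil))) (P.cons (P.cons (P.lf 0 1960128 0) (P.cons (P.lf 0 276684 0) P.nil)) (P.cons (P.cons (P.lf 0 307464 0) P.nil) P.nil)))))) 257415)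
 (EL.cons 8 (TM.mk (P.cons (P.cons (P.lf 1983104277 0 0) (P.cons (P.lf 0 324146406 0) (P.cons (P.lf 0 21671679 0) (P.lf 7223892 0 0)))) (P.cons (P.cons (P.lf 0 404633508 0) (P.cons (P.lf 0 13523865 0) (P.cons (P.lf 0 904176 0) (P.lf 301395 0 0)))) (P.cons (P.cons (P.lf 0 75550722 0) (P.cons (P.lf 14069523 0 0) (P.cons (P.lf 940653 0 0) (P.lf 0 313551 0)))) (P.cons (P.cons (P.lf 9815838 0 0) (P.cons (P.lf 1084332 0 0) (P.cons (P.lf 72498 0 0) P.nil))) (P.cons (P.cons (P.lf 1560657 0 0) (P.cons (P.lf 0 188886 0) P.nil)) (P.cons (P.cons (P.lf 0 42000 0) P.nil) P.nil)))))) 175125)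
 (EL.cons 11 (TM.mk (P.cons (P.cons (P.lf 1347415092 0 0) (P.cons (P.lf 208613691 0 0) (P.cons (P.lf 0 100503498 0) (P.cons (P.lf 0 3803346 0) (P.lf 950835 0 0))))) (P.cons (P.cons (P.lf 314743596 0 0) (P.cons (P.lf 48730212 0 0) (P.cons (P.lf 0 23476677 0) (P.cons (P.lf 0 888426 0) (P.lf 222105 0 0))))) (P.cons (P.cons (P.lf 10667175 0 0) (P.cons (P.lf 1651545 0 0) (P.cons (P.lf 0 795663 0) (P.cons (P.lf 0 30108 0) P.nil)))) (P.cons (P.cons (P.lf 0 2317668 0) (P.cons (P.lf 0 358833 0) (P.cons (P.lf 172872 0 0) P.nil))) (P.cons (P.cons (P.lf 0 195066 0) (P.cons (P.lf 0 30201 0) P.nil)) (P.cons (P.cons (P.lf 2148 0 0) P.nil) P.nil)))))) 33198)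
 EL.nil)))
noncomputable def S140_169_364_512_22 : EL := (EL.cons 4 (TM.mk (P.cons (P.cons (P.lf 0 46846224 0) (P.cons (P.lf 193152648 0 0) (P.cons (P.lf 0 17406243 0) (P.cons (P.lf 0 8358822 0) (P.cons (P.lf 1215885 0 0) (P.cons (P.lf 90351 0 0) P.nil)))))) (P.cons (P.cons (P.lf 0 398041833 0) (P.cons (P.lf 133550259 0 0) (P.cons (P.lf 0 9409800 0) (P.cons (P.lf 0 5428440 0) (P.cons (P.lf 735411 0 0) P.nil))))) (P.cons (P.cons (P.lf 11337315 0 0) (P.cons (P.lf 10635996 0 0) (P.cons (P.lf 0 2695737 0) (P.cons (P.lf 0 692574 0) P.nil)))) (P.cons (P.cons (P.lf 28843134 0 0) (P.cons (P.lf 0 7011378 0) (P.cons (P.lf 0 321669 0) P.nil))) (P.cons (P.cons (P.lf 1386453 0 0) (P.cons (P.lf 0 1404534 0) P.nil)) (P.cons (P.cons (P.lf 0 710235 0) P.nil) P.nil)))))) 1302255)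
 (EL.cons 8 (TM.mk (P.cons (P.cons (P.lf 30821475 0 0) (P.cons (P.lf 0 127080672 0) (P.cons (P.lf 11452068 0 0) (P.cons (P.lf 5499510 0 0) (P.cons (P.lf 0 799965 0) (P.cons (P.lf 0 59445 0) P.nil)))))) (P.cons (P.cons (P.lf 255326502 0 0) (P.cons (P.lf 0 60832686 0) (P.cons (P.lf 3754779 0 0) (P.cons (P.lf 2401617 0 0) (P.cons (P.lf 0 313671 0) P.nil))))) (P.cons (P.cons (P.lf 0 62557572 0) (P.cons (P.lf 9170934 0 0) (P.cons (P.lf 683976 0 0) (P.cons (P.lf 0 194910 0) P.nil)))) (P.cons (P.cons (P.lf 0 12265746 0) (P.cons (P.lf 4668252 0 0) (P.cons (P.lf 0 70785 0) P.nil))) (P.cons (P.cons (P.lf 2343594 0 0) (P.cons (P.lf 0 15324 0) P.nil)) (P.cons (P.cons (P.lf 372624 0 0) P.nil) P.nil)))))) 784698)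
 (EL.cons 11 (TM.mk (P.cons (P.cons (P.lf 20941572 0 0) (P.cons (P.lf 0 79679370 0) (P.cons (P.lf 0 19944330 0) (P.cons (P.lf 7115640 0 0) (P.cons (P.lf 948477 0 0) (P.cons (P.lf 0 180705 0) P.nil)))))) (P.cons (P.cons (P.lf 182645616 0 0) (P.cons (P.lf 0 20146182 0) (P.cons (P.lf 0 24358344 0) (P.cons (P.lf 3674334 0 0) (P.cons (P.lf 674145 0 0) P.nil))))) (P.cons (P.cons (P.lf 36249645 0 0) (P.cons (P.lf 0 4512423 0) (P.cons (P.lf 0 4948341 0) (P.cons (P.lf 773718 0 0) P.nil)))) (P.cons (P.cons (P.lf 0 2674191 0) (P.cons (P.lf 0 962778 0) (P.cons (P.lf 77817 0 0) P.nil))) (P.cons (P.cons (P.lf 0 1077471 0) (P.cons (P.lf 0 45549 0) P.nil)) (P.cons (P.cons (P.lf 0 37257 0) P.nil) P.nil)))))) 694767)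
 EL.nil)))
noncomputable def S140_169_364_512_23 : EL := (EL.cons 4 (TM.mk (P.cons (P.cons (P.lf 1997607423 0 0) (P.cons (P.lf 0 326516994 0) (P.cons (P.lf 0 21830157 0) (P.lf 7276716 0 0)))) (P.cons (P.cons (P.lf 0 174281520 0) (P.cons (P.lf 0 51758424 0) (P.cons (P.lf 0 3460443 0) (P.lf 1153473 0 0)))) (P.cons (P.cons (P.lf 0 129425712 0) (P.cons (P.lf 13515897 0 0) (P.cons (P.lf 903642 0 0) (P.lf 0 301212 0)))) (P.cons (P.cons (P.lf 1115493 0 0) (P.cons (P.lf 2958186 0 0) (P.cons (P.lf 197772 0 0) P.nil))) (P.cons (P.cons (P.lf 3128907 0 0) (P.cons (P.lf 0 91182 0) P.nil)) (P.cons (P.cons (P.lf 161265 0 0) P.nil) P.nil)))))) 308481)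
 (EL.cons 8 (TM.mk (P.cons (P.cons (P.lf 0 1314283281 0) (P.cons (P.lf 214824912 0 0) (P.cons (P.lf 14362695 0 0) (P.lf 0 4787562 0)))) (P.cons (P.cons (P.lf 394252212 0 0) (P.cons (P.lf 0 11646330 0) (P.cons (P.lf 0 778644 0) (P.lf 259545 0 0)))) (P.cons (P.cons (P.lf 34665222 0 0) (P.cons (P.lf 0 11871327 0) (P.cons (P.lf 0 793686 0) (P.lf 264561 0 0)))) (P.cons (P.cons (P.lf 0 13353081 0) (P.cons (P.lf 95433 0 0) (P.cons (P.lf 6378 0 0) P.nil))) (P.cons (P.cons (P.lf 0 847716 0) (P.cons (P.lf 272109 0 0) P.nil)) (P.cons (P.cons (P.lf 180570 0 0) P.nil) P.nil)))))) 195339)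
 (EL.cons 11 (TM.mk (P.cons (P.cons (P.lf 0 892986390 0) (P.cons (P.lf 0 138256716 0) (P.cons (P.lf 66607725 0 0) (P.cons (P.lf 2520630 0 0) (P.lf 0 630156 0))))) (P.cons (P.cons (P.lf 0 122924991 0) (P.cons (P.lf 0 19031874 0) (P.cons (P.lf 9168954 0 0) (P.cons (P.lf 346980 0 0) (P.lf 0 86742 0))))) (P.cons (P.cons (P.lf 19954461 0 0) (P.cons (P.lf 3089451 0 0) (P.cons (P.lf 0 1488399 0) (P.cons (P.lf 0 56325 0) P.nil)))) (P.cons (P.cons (P.lf 3894258 0 0) (P.cons (P.lf 602928 0 0) (P.cons (P.lf 0 290469 0) P.nil))) (P.cons (P.cons (P.lf 25695 0 0) (P.cons (P.lf 3978 0 0) P.nil)) (P.cons (P.cons (P.lf 0 31737 0) P.nil) P.nil)))))) 77412)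
 EL.nil)))
noncomputable def S140_169_364_512_24 : EL := (EL.cons 4 (TM.mk (P.cons (P.cons (P.lf 31046883 0 0) (P.cons (P.lf 0 128010057 0) (P.cons (P.lf 11535822 0 0) (P.cons (P.lf 5539728 0 0) (P.cons (P.lf 0 805815 0) (P.cons (P.lf 0 59880 0) P.nil)))))) (P.cons (P.cons (P.lf 260819925 0 0) (P.cons (P.lf 0 76228554 0) (P.cons (P.lf 5129571 0 0) (P.cons (P.lf 3066192 0 0) (P.cons (P.lf 0 410079 0) P.nil))))) (P.cons (P.cons (P.lf 0 33064905 0) (P.cons (P.lf 2447460 0 0) (P.cons (P.lf 1097709 0 0) (P.cons (P.lf 70353 0 0) P.nil)))) (P.cons (P.cons (P.lf 0 20467779 0) (P.cons (P.lf 6024036 0 0) (P.cons (P.lf 0 7725 0) P.nil))) (P.cons (P.cons (P.lf 962349 0 0) (P.cons (P.lf 541482 0 0) P.nil)) (P.cons (P.cons (P.lf 715722 0 0) P.nil) P.nil)))))) 993864)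
 (EL.cons 8 (TM.mk (P.cons (P.cons (P.lf 0 20426634 0) (P.cons (P.lf 84221493 0 0) (P.cons (P.lf 0 7589748 0) (P.cons (P.lf 0 3644745 0) (P.cons (P.lf 530169 0 0) (P.cons (P.lf 39396 0 0) P.nil)))))) (P.cons (P.cons (P.lf 0 167255562 0) (P.cons (P.lf 32236521 0 0) (P.cons (P.lf 0 1760322 0) (P.cons (P.lf 0 1241991 0) (P.cons (P.lf 157020 0 0) P.nil))))) (P.cons (P.cons (P.lf 57853431 0 0) (P.cons (P.lf 0 10607076 0) (P.cons (P.lf 0 154968 0) (P.cons (P.lf 310491 0 0) P.nil)))) (P.cons (P.cons (P.lf 5481435 0 0) (P.cons (P.lf 0 2831316 0) (P.cons (P.lf 110298 0 0) P.nil))) (P.cons (P.cons (P.lf 0 2651178 0) (P.cons (P.lf 354831 0 0) P.nil)) (P.cons (P.cons (P.lf 0 167838 0) P.nil) P.nil)))))) 584658)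
 (EL.cons 11 (TM.mk (P.cons (P.cons (P.lf 0 13878825 0) (P.cons (P.lf 52806735 0 0) (P.cons (P.lf 13217910 0 0) (P.cons (P.lf 0 4715823 0) (P.cons (P.lf 0 628593 0) (P.cons (P.lf 119760 0 0) P.nil)))))) (P.cons (P.cons (P.lf 0 119715165 0) (P.cons (P.lf 8285694 0 0) (P.cons (P.lf 14875203 0 0) (P.cons (P.lf 0 1982718 0) (P.cons (P.lf 0 386478 0) P.nil))))) (P.cons (P.cons (P.lf 0 12302550 0) (P.cons (P.lf 1294977 0 0) (P.cons (P.lf 1626966 0 0) (P.cons (P.lf 0 242127 0) P.nil)))) (P.cons (P.cons (P.lf 5028279 0 0) (P.cons (P.lf 243840 0 0) (P.cons (P.lf 0 493581 0) P.nil))) (P.cons (P.cons (P.lf 738072 0 0) (P.cons (P.lf 0 53862 0) P.nil)) (P.cons (P.cons (P.lf 0 59538 0) P.nil) P.nil)))))) 517530)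
 EL.nil)))
noncomputable def S140_169_364_512_25 : EL := (EL.cons 4 (TM.mk (P.cons (P.cons (P.lf 0 1323895101 0) (P.cons (P.lf 216395997 0 0) (P.cons (P.lf 14467725 0 0) (P.lf 0 4822575 0)))) (P.cons (P.cons (P.lf 242510754 0 0) (P.cons (P.lf 13542534 0 0) (P.cons (P.lf 905418 0 0) (P.lf 0 301803 0)))) (P.cons (P.cons (P.lf 85091556 0 0) (P.cons (P.lf 0 13947696 0) (P.cons (P.lf 0 932511 0) (P.lf 310836 0 0)))) (P.cons (P.cons (P.lf 0 9813036 0) (P.cons (P.lf 0 1380711 0) (P.cons (P.lf 0 92307 0) P.nil))) (P.cons (P.cons (P.lf 0 2713686 0) (P.cons (P.lf 322461 0 0) P.nil)) (P.cons (P.cons (P.lf 94914 0 0) P.nil) P.nil)))))) 295059)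
 (EL.cons 8 (TM.mk (P.cons (P.cons (P.lf 871028601 0 0) (P.cons (P.lf 0 142373142 0) (P.cons (P.lf 0 9518739 0) (P.lf 3172911 0 0)))) (P.cons (P.cons (P.lf 0 344848647 0) (P.cons (P.lf 21377004 0 0) (P.cons (P.lf 1429215 0 0) (P.lf 0 476403 0)))) (P.cons (P.cons (P.lf 0 4747869 0) (P.cons (P.lf 8245206 0 0) (P.cons (P.lf 551253 0 0) (P.lf 0 183750 0)))) (P.cons (P.cons (P.lf 13064649 0 0) (P.cons (P.lf 0 871953 0) (P.cons (P.lf 0 58293 0) P.nil))) (P.cons (P.cons (P.lf 0 73476 0) (P.cons (P.lf 0 239850 0) P.nil)) (P.cons (P.cons (P.lf 0 247164 0) P.nil) P.nil)))))) 189273)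
 (EL.cons 11 (TM.mk (P.cons (P.cons (P.lf 591818139 0 0) (P.cons (P.lf 91628307 0 0) (P.cons (P.lf 0 44143629 0) (P.cons (P.lf 0 1670523 0) (P.lf 417630 0 0))))) (P.cons (P.cons (P.lf 24691515 0 0) (P.cons (P.lf 3822864 0 0) (P.cons (P.lf 0 1841733 0) (P.cons (P.lf 0 69696 0) (P.lf 17421 0 0))))) (P.cons (P.cons (P.lf 0 25687773 0) (P.cons (P.lf 0 3977112 0) (P.cons (P.lf 1916046 0 0) (P.cons (P.lf 72507 0 0) P.nil)))) (P.cons (P.cons (P.lf 0 1979739 0) (P.cons (P.lf 0 306513 0) (P.cons (P.lf 147666 0 0) P.nil))) (P.cons (P.cons (P.lf 344865 0 0) (P.cons (P.lf 53394 0 0) P.nil)) (P.cons (P.cons (P.lf 46281 0 0) P.nil) P.nil)))))) 99639)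
 EL.nil)))
noncomputable def S140_169_364_512_26 : EL := (EL.cons 4 (TM.mk (P.cons (P.cons (P.lf 0 20576022 0) (P.cons (P.lf 84837435 0 0) (P.cons (P.lf 0 7645254 0) (P.cons (P.lf 0 3671400 0) (P.cons (P.lf 534045 0 0) (P.cons (P.lf 39684 0 0) P.nil)))))) (P.cons (P.cons (P.lf 0 170881944 0) (P.cons (P.lf 42380895 0 0) (P.cons (P.lf 0 2666127 0) (P.cons (P.lf 0 1679874 0) (P.cons (P.lf 220542 0 0) P.nil))))) (P.cons (P.cons (P.lf 38657895 0 0) (P.cons (P.lf 0 7134858 0) (P.cons (P.lf 0 341319 0) (P.cons (P.lf 177150 0 0) P.nil)))) (P.cons (P.cons (P.lf 12820986 0 0) (P.cons (P.lf 0 4237482 0) (P.cons (P.lf 101967 0 0) P.nil))) (P.cons (P.cons (P.lf 0 2103591 0) (P.cons (P.lf 36552 0 0) P.nil)) (P.cons (P.cons (P.lf 0 524901 0) P.nil) P.nil)))))) 841731)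
 (EL.cons 8 (TM.mk (P.cons (P.cons (P.lf 13537554 0 0) (P.cons (P.lf 0 55816983 0) (P.cons (P.lf 5030031 0 0) (P.cons (P.lf 2415519 0 0) (P.cons (P.lf 0 351363 0) (P.cons (P.lf 0 26109 0) P.nil)))))) (P.cons (P.cons (P.lf 109548294 0 0) (P.cons (P.lf 0 16009662 0) (P.cons (P.lf 684084 0 0) (P.cons (P.lf 591384 0 0) (P.cons (P.lf 0 70356 0) P.nil))))) (P.cons (P.cons (P.lf 0 49082181 0) (P.cons (P.lf 9517662 0 0) (P.cons (P.lf 0 48717 0) (P.cons (P.lf 0 303708 0) P.nil)))) (P.cons (P.cons (P.lf 0 825591 0) (P.cons (P.lf 1372428 0 0) (P.cons (P.lf 0 92349 0) P.nil))) (P.cons (P.cons (P.lf 2401776 0 0) (P.cons (P.lf 0 470721 0) P.nil)) (P.cons (P.cons (P.lf 0 24306 0) P.nil) P.nil)))))) 492285)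
 (EL.cons 11 (TM.mk (P.cons (P.cons (P.lf 9198057 0 0) (P.cons (P.lf 0 34997154 0) (P.cons (P.lf 0 8760042 0) (P.cons (P.lf 3125364 0 0) (P.cons (P.lf 416592 0 0) (P.cons (P.lf 0 79371 0) P.nil)))))) (P.cons (P.cons (P.lf 78457662 0 0) (P.cons (P.lf 0 2133825 0) (P.cons (P.lf 0 9018006 0) (P.cons (P.lf 1014195 0 0) (P.cons (P.lf 216168 0 0) P.nil))))) (P.cons (P.cons (P.lf 469704 0 0) (P.cons (P.lf 0 56595 0) (P.cons (P.lf 0 63702 0) (P.cons (P.lf 9861 0 0) P.nil)))) (P.cons (P.cons (P.lf 0 4738134 0) (P.cons (P.lf 0 34503 0) (P.cons (P.lf 508389 0 0) P.nil))) (P.cons (P.cons (P.lf 0 236985 0) (P.cons (P.lf 57354 0 0) P.nil)) (P.cons (P.cons (P.lf 114096 0 0) P.nil) P.nil)))))) 442707)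
 EL.nil)))
noncomputable def S140_169_364_512_27 : EL := (EL.cons 13 (TM.mk (P.lf 0 4294967296 0) 0)
 EL.nil)
noncomputable def S140_169_364_512_28 : EL := (EL.cons 13 (TM.mk (P.cons (P.cons (P.lf 0 66752532 0) (P.cons (P.lf 264317792 0 0) (P.cons (P.lf 17671668 0 0) (P.lf 0 5890556 0)))) (P.cons (P.cons (P.lf 0 566601213 0) (P.cons (P.lf 92613256 0 0) (P.cons (P.lf 6191904 0 0) (P.lf 0 2063964 0)))) (P.cons (P.cons (P.lf 17333275 0 0) (P.cons (P.lf 8547212 0 0) (P.cons (P.lf 571444 0 0) (P.lf 0 190480 0)))) (P.cons (P.cons (P.lf 8846088 0 0) (P.cons (P.lf 0 525932 0) (P.cons (P.lf 0 35160 0) P.nil))) (P.cons (P.cons (P.lf 246658 0 0) (P.cons (P.lf 0 133800 0) P.nil)) (P.cons (P.cons (P.lf 0 60991 0) P.nil) P.nil)))))) 52671)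
 EL.nil)
noncomputable def S140_169_364_512_29 : EL := (EL.cons 13 (TM.mk (P.cons (P.cons (P.lf 0 1037470 0) (P.cons (P.lf 8216072 0 0) (P.cons (P.lf 0 15717148 0) (P.cons (P.lf 0 2358176 0) (P.cons (P.lf 652314 0 0) (P.cons (P.lf 48473 0 0) P.nil)))))) (P.cons (P.cons (P.lf 0 17612271 0) (P.cons (P.lf 72617526 0 0) (P.cons (P.lf 0 6544039 0) (P.cons (P.lf 0 3142576 0) (P.cons (P.lf 457123 0 0) P.nil))))) (P.cons (P.cons (P.lf 0 74208447 0) (P.cons (P.lf 22567733 0 0) (P.cons (P.lf 0 1540225 0) (P.cons (P.lf 0 910645 0) P.nil)))) (P.cons (P.cons (P.lf 4848257 0 0) (P.cons (P.lf 402463 0 0) (P.cons (P.lf 0 276970 0) P.nil))) (P.cons (P.cons (P.lf 2271704 0 0) (P.cons (P.lf 0 623770 0) P.nil)) (P.cons (P.cons (P.lf 0 8217 0) P.nil) P.nil)))))) 674422)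
 EL.nil)
noncomputable def S140_169_364_512_30 : EL := (EL.cons 13 (TM.mk (P.cons (P.lf 2846448260 0 0) (P.cons (P.lf 0 273072892 0) (P.cons (P.lf 0 22353452 0) (P.cons (P.lf 0 133644 0) (P.cons (P.lf 68648 0 0) (P.cons (P.lf 3668 0 0) P.nil)))))) 396)
 EL.nil)
noncomputable def S140_169_364_512_31 : EL := (EL.cons 13 (TM.mk (P.cons (P.cons (P.lf 44239598 0 0) (P.cons (P.lf 0 175174074 0) (P.cons (P.lf 0 11711727 0) (P.lf 3903909 0 0)))) (P.cons (P.cons (P.lf 371265395 0 0) (P.cons (P.lf 0 44573288 0) (P.cons (P.lf 0 2980064 0) (P.lf 993352 0 0)))) (P.cons (P.cons (P.lf 0 47859235 0) (P.cons (P.lf 1599404 0 0) (P.cons (P.lf 106934 0 0) (P.lf 0 35645 0)))) (P.cons (P.cons (P.lf 0 7711606 0) (P.cons (P.lf 1382222 0 0) (P.cons (P.lf 92410 0 0) P.nil))) (P.cons (P.cons (P.lf 472610 0 0) (P.cons (P.lf 98377 0 0) P.nil)) (P.cons (P.cons (P.lf 111796 0 0) P.nil) P.nil))))))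 89760)
 EL.nil)
noncomputable def S140_169_364_512_32 : EL := (EL.cons 13 (TM.mk (P.cons (P.cons (P.lf 687573 0 0) (P.cons (P.lf 0 5445122 0) (P.cons (P.lf 10416388 0 0) (P.cons (P.lf 1562858 0 0) (P.cons (P.lf 0 432314 0) (P.cons (P.lf 0 32125 0) P.nil)))))) (P.cons (P.cons (P.lf 11606401 0 0) (P.cons (P.lf 0 47604191 0) (P.cons (P.lf 3337706 0 0) (P.cons (P.lf 1932779 0 0) (P.cons (P.lf 0 261479 0) P.nil))))) (P.cons (P.cons (P.lf 48055751 0 0) (P.cons (P.lf 0 10296783 0) (P.cons (P.lf 522900 0 0) (P.cons (P.lf 391443 0 0) P.nil)))) (P.cons (P.cons (P.lf 0 8022985 0) (P.cons (P.lf 1546320 0 0) (P.cons (P.lf 51084 0 0) P.nil))) (P.cons (P.cons (P.lf 0 1584053 0) (P.cons (P.lf 558569 0 0) P.nil)) (P.cons (P.cons (P.lf 173086 0 0) P.nil) P.nil)))))) 700050)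
 EL.nil)
noncomputable def S140_169_364_512_33 : EL := (EL.cons 14 (TM.mk (P.lf 8589934592 0 0) 0)
 EL.nil)
noncomputable def S140_169_364_512_34 : EL := (EL.cons 14 (TM.mk (P.cons (P.cons (P.lf 133505064 0 0) (P.cons (P.lf 0 528635584 0) (P.cons (P.lf 0 35343336 0) (P.lf 11781112 0 0)))) (P.cons (P.cons (P.lf 1133202426 0 0) (P.cons (P.lf 0 185226512 0) (P.cons (P.lf 0 12383808 0) (P.lf 4127928 0 0)))) (P.cons (P.cons (P.lf 0 34666550 0) (P.cons (P.lf 0 17094424 0) (P.cons (P.lf 0 1142888 0) (P.lf 380960 0 0)))) (P.cons (P.cons (P.lf 0 17692176 0) (P.cons (P.lf 1051864 0 0) (P.cons (P.lf 70320 0 0) P.nil))) (P.cons (P.cons (P.lf 0 493316 0) (P.cons (P.lf 267600 0 0) P.nil)) (P.cons (P.cons (P.lf 121982 0 0) P.nil) P.nil)))))) 105342)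
 EL.nil)
noncomputable def S140_169_364_512_35 : EL := (EL.cons 14 (TM.mk (P.cons (P.cons (P.lf 2074940 0 0) (P.cons (P.lf 0 16432144 0) (P.cons (P.lf 31434296 0 0) (P.cons (P.lf 4716352 0 0) (P.cons (P.lf 0 1304628 0) (P.cons (P.lf 0 96946 0) P.nil)))))) (P.cons (P.cons (P.lf 35224542 0 0) (P.cons (P.lf 0 145235052 0) (P.cons (P.lf 13088078 0 0) (P.cons (P.lf 6285152 0 0) (P.cons (P.lf 0 914246 0) P.nil))))) (P.cons (P.cons (P.lf 148416894 0 0) (P.cons (P.lf 0 45135466 0) (P.cons (P.lf 3080450 0 0) (P.cons (P.lf 1821290 0 0) P.nil)))) (P.cons (P.cons (P.lf 0 9696514 0) (P.cons (P.lf 0 804926 0) (P.cons (P.lf 553940 0 0) P.nil))) (P.cons (P.cons (P.lf 0 4543408 0) (P.cons (P.lf 1247540 0 0) P.nil)) (P.cons (P.cons (P.lf 16434 0 0) P.nil) P.nil)))))) 1348844)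
 EL.nil)
noncomputable def S140_169_364_512_36 : EL := (EL.cons 14 (TM.mk (P.cons (P.lf 0 5692896520 0) (P.cons (P.lf 546145784 0 0) (P.cons (P.lf 44706904 0 0) (P.cons (P.lf 267288 0 0) (P.cons (P.lf 0 137296 0) (P.cons (P.lf 0 7336 0) P.nil)))))) 792)
 EL.nil)
noncomputable def S140_169_364_512_37 : EL := (EL.cons 14 (TM.mk (P.cons (P.cons (P.lf 0 88479196 0) (P.cons (P.lf 350348148 0 0) (P.cons (P.lf 23423454 0 0) (P.lf 0 7807818 0)))) (P.cons (P.cons (P.lf 0 742530790 0) (P.cons (P.lf 89146576 0 0) (P.cons (P.lf 5960128 0 0) (P.lf 0 1986704 0)))) (P.cons (P.cons (P.lf 95718470 0 0) (P.cons (P.lf 0 3198808 0) (P.cons (P.lf 0 213868 0) (P.lf 71290 0 0)))) (P.cons (P.cons (P.lf 15423212 0 0) (P.cons (P.lf 0 2764444 0) (P.cons (P.lf 0 184820 0) P.nil))) (P.cons (P.cons (P.lf 0 945220 0) (P.cons (P.lf 0 196754 0) P.nil)) (P.cons (P.cons (P.lf 0 223592 0) P.nil) P.nil))))))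 179520)
 EL.nil)
noncomputable def S140_169_364_512_38 : EL := (EL.cons 14 (TM.mk (P.cons (P.cons (P.lf 0 1375146 0) (P.cons (P.lf 10890244 0 0) (P.cons (P.lf 0 20832776 0) (P.cons (P.lf 0 3125716 0) (P.cons (P.lf 864628 0 0) (P.cons (P.lf 64250 0 0) P.nil)))))) (P.cons (P.cons (P.lf 0 23212802 0) (P.cons (P.lf 95208382 0 0) (P.cons (P.lf 0 6675412 0) (P.cons (P.lf 0 3865558 0) (P.cons (P.lf 522958 0 0) P.nil))))) (P.cons (P.cons (P.lf 0 96111502 0) (P.cons (P.lf 20593566 0 0) (P.cons (P.lf 0 1045800 0) (P.cons (P.lf 0 782886 0) P.nil)))) (P.cons (P.cons (P.lf 16045970 0 0) (P.cons (P.lf 0 3092640 0) (P.cons (P.lf 0 102168 0) P.nil))) (P.cons (P.cons (P.lf 3168106 0 0) (P.cons (P.lf 0 1117138 0) P.nil)) (P.cons (P.cons (P.lf 0 346172 0) P.nil) P.nil)))))) 1400100)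
 EL.nil)
noncomputable def S140_169_364_512_39 : EL := (EL.cons 14 (TM.mk (P.cons (P.lf 3772912404 0 0) (P.cons (P.lf 0 723905728 0) (P.cons (P.lf 0 24534334 0) (P.cons (P.lf 5330620 0 0) (P.cons (P.lf 448650 0 0) (P.cons (P.lf 0 4952 0) P.nil)))))) 3630)
 EL.nil)
noncomputable def S140_169_364_512_40 : EL := (EL.cons 14 (TM.mk (P.cons (P.cons (P.lf 58638736 0 0) (P.cons (P.lf 0 232189864 0) (P.cons (P.lf 0 15523670 0) (P.lf 5174556 0 0)))) (P.cons (P.cons (P.lf 486479654 0 0) (P.cons (P.lf 0 36805992 0) (P.cons (P.lf 0 2460760 0) (P.lf 820250 0 0)))) (P.cons (P.cons (P.lf 0 111106904 0) (P.cons (P.lf 9611306 0 0) (P.cons (P.lf 642590 0 0) (P.lf 0 214196 0)))) (P.cons (P.cons (P.lf 0 8003136 0) (P.cons (P.lf 2103600 0 0) (P.cons (P.lf 140638 0 0) P.nil))) (P.cons (P.cons (P.lf 2083522 0 0) (P.cons (P.lf 0 64838 0) P.nil)) (P.cons (P.cons (P.lf 183280 0 0) P.nil) P.nil))))))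 208470)
 EL.nil)
noncomputable def S140_169_364_512_41 : EL := (EL.cons 14 (TM.mk (P.cons (P.cons (P.lf 911364 0 0) (P.cons (P.lf 0 7217404 0) (P.cons (P.lf 13806722 0 0) (P.cons (P.lf 2071538 0 0) (P.cons (P.lf 0 573024 0) (P.cons (P.lf 0 42580 0) P.nil)))))) (P.cons (P.cons (P.lf 15296628 0 0) (P.cons (P.lf 0 62406040 0) (P.cons (P.lf 3099522 0 0) (P.cons (P.lf 2363130 0 0) (P.cons (P.lf 0 291612 0) P.nil))))) (P.cons (P.cons (P.lf 62213952 0 0) (P.cons (P.lf 0 7538184 0) (P.cons (P.lf 160246 0 0) (P.cons (P.lf 256810 0 0) P.nil)))) (P.cons (P.cons (P.lf 0 16865912 0) (P.cons (P.lf 3854808 0 0) (P.cons (P.lf 0 34170 0) P.nil))) (P.cons (P.cons (P.lf 0 1580352 0) (P.cons (P.lf 653712 0 0) P.nil)) (P.cons (P.cons (P.lf 511744 0 0) P.nil) P.nil)))))) 1242088)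
 EL.nil)
noncomputable def S140_169_364_512_42 : EL := (EL.cons 14 (TM.mk (P.cons (P.lf 0 2500461402 0) (P.cons (P.lf 719642336 0 0) (P.cons (P.lf 0 10129460 0) (P.cons (P.lf 0 8742920 0) (P.cons (P.lf 0 168938 0) (P.cons (P.lf 67134 0 0) P.nil)))))) 7070)
 EL.nil)
noncomputable def S140_169_364_512_43 : EL := (EL.cons 14 (TM.mk (P.cons (P.cons (P.lf 0 38862258 0) (P.cons (P.lf 153881598 0 0) (P.cons (P.lf 10288162 0 0) (P.lf 0 3429386 0)))) (P.cons (P.cons (P.lf 0 318681474 0) (P.cons (P.lf 9630246 0 0) (P.cons (P.lf 643854 0 0) (P.lf 0 214616 0)))) (P.cons (P.cons (P.lf 104870468 0 0) (P.cons (P.lf 0 9918364 0) (P.cons (P.lf 0 663118 0) (P.lf 221040 0 0)))) (P.cons (P.cons (P.lf 773594 0 0) (P.cons (P.lf 0 981840 0) (P.cons (P.lf 0 65640 0) P.nil))) (P.cons (P.cons (P.lf 0 2453734 0) (P.cons (P.lf 229306 0 0) P.nil)) (P.cons (P.cons (P.lf 0 41932 0) P.nil) P.nil))))))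 210606)
 EL.nil)
noncomputable def S140_169_364_512_44 : EL := (EL.cons 14 (TM.mk (P.cons (P.cons (P.lf 0 603998 0) (P.cons (P.lf 4783264 0 0) (P.cons (P.lf 0 9150272 0) (P.cons (P.lf 0 1372892 0) (P.cons (P.lf 379766 0 0) (P.cons (P.lf 28220 0 0) P.nil)))))) (P.cons (P.cons (P.lf 0 10079748 0) (P.cons (P.lf 40900122 0 0) (P.cons (P.lf 0 1176350 0) (P.cons (P.lf 0 1434432 0) (P.cons (P.lf 156830 0 0) P.nil))))) (P.cons (P.cons (P.lf 0 40254398 0) (P.cons (P.lf 990536 0 0) (P.cons (P.lf 162722 0 0) (P.cons (P.lf 0 9170 0) P.nil)))) (P.cons (P.cons (P.lf 15212908 0 0) (P.cons (P.lf 0 3359034 0) (P.cons (P.lf 49396 0 0) P.nil))) (P.cons (P.cons (P.lf 299290 0 0) (P.cons (P.lf 0 229212 0) P.nil)) (P.cons (P.cons (P.lf 0 525720 0) P.nil) P.nil)))))) 1029914)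
 EL.nil)
noncomputable def S140_169_364_512_45 : EL := (EL.cons 14 (TM.mk (P.cons (P.cons (P.lf 32248 0 0) (P.cons (P.lf 0 383082 0) (P.cons (P.lf 1491270 0 0) (P.cons (P.lf 0 1790748 0) (P.cons (P.lf 0 462400 0) (P.cons (P.lf 102488 0 0) P.nil)))))) (P.cons (P.cons (P.lf 821190 0 0) (P.cons (P.lf 0 6637516 0) (P.cons (P.lf 13494652 0 0) (P.cons (P.lf 0 92838 0) (P.cons (P.lf 0 981068 0) P.nil))))) (P.cons (P.cons (P.lf 6945222 0 0) (P.cons (P.lf 0 29692346 0) (P.cons (P.lf 6928030 0 0) (P.cons (P.lf 921920 0 0) P.nil)))) (P.cons (P.cons (P.lf 19282338 0 0) (P.cons (P.lf 0 8020356 0) (P.cons (P.lf 1428498 0 0) P.nil))) (P.cons (P.cons (P.lf 0 2021436 0) (P.cons (P.lf 593146 0 0) P.nil)) (P.cons (P.cons (P.lf 0 867666 0) P.nil) P.nil)))))) 2870472)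
 EL.nil)
noncomputable def S140_169_364_512_46 : EL := (EL.cons 15 (TM.mk (P.lf 4294967296 0 0) 0)
 EL.nil)
noncomputable def S140_169_364_512_47 : EL := (EL.cons 15 (TM.mk (P.cons (P.cons (P.lf 66752532 0 0) (P.cons (P.lf 0 264317792 0) (P.cons (P.lf 0 17671668 0) (P.lf 5890556 0 0)))) (P.cons (P.cons (P.lf 566601213 0 0) (P.cons (P.lf 0 92613256 0) (P.cons (P.lf 0 6191904 0) (P.lf 2063964 0 0)))) (P.cons (P.cons (P.lf 0 17333275 0) (P.cons (P.lf 0 8547212 0) (P.cons (P.lf 0 571444 0) (P.lf 190480 0 0)))) (P.cons (P.cons (P.lf 0 8846088 0) (P.cons (P.lf 525932 0 0) (P.cons (P.lf 35160 0 0) P.nil))) (P.cons (P.cons (P.lf 0 246658 0) (P.cons (P.lf 133800 0 0) P.nil)) (P.cons (P.cons (P.lf 60991 0 0) P.nil) P.nil)))))) 52671)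
 EL.nil)
noncomputable def S140_169_364_512_48 : EL := (EL.cons 15 (TM.mk (P.cons (P.cons (P.lf 1037470 0 0) (P.cons (P.lf 0 8216072 0) (P.cons (P.lf 15717148 0 0) (P.cons (P.lf 2358176 0 0) (P.cons (P.lf 0 652314 0) (P.cons (P.lf 0 48473 0) P.nil)))))) (P.cons (P.cons (P.lf 17612271 0 0) (P.cons (P.lf 0 72617526 0) (P.cons (P.lf 6544039 0 0) (P.cons (P.lf 3142576 0 0) (P.cons (P.lf 0 457123 0) P.nil))))) (P.cons (P.cons (P.lf 74208447 0 0) (P.cons (P.lf 0 22567733 0) (P.cons (P.lf 1540225 0 0) (P.cons (P.lf 910645 0 0) P.nil)))) (P.cons (P.cons (P.lf 0 4848257 0) (P.cons (P.lf 0 402463 0) (P.cons (P.lf 276970 0 0) P.nil))) (P.cons (P.cons (P.lf 0 2271704 0) (P.cons (P.lf 623770 0 0) P.nil)) (P.cons (P.cons (P.lf 8217 0 0) P.nil) P.nil)))))) 674422)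
 EL.nil)
noncomputable def S140_169_364_512 : SL := (SL.cons S140_169_364_512_0 (SL.cons S140_169_364_512_1 (SL.cons S140_169_364_512_2 (SL.cons S140_169_364_512_3 (SL.cons S140_169_364_512_4 (SL.cons S140_169_364_512_5 (SL.cons S140_169_364_512_6 (SL.cons S140_169_364_512_7 (SL.cons S140_169_364_512_8 (SL.cons S140_169_364_512_9 (SL.cons S140_169_364_512_10 (SL.cons S140_169_364_512_11 (SL.cons S140_169_364_512_12 (SL.cons S140_169_364_512_13 (SL.cons S140_169_364_512_14 (SL.cons S140_169_364_512_15 (SL.cons S140_169_364_512_16 (SL.cons S140_169_364_512_17 (SL.cons S140_169_364_512_18 (SL.cons S140_169_364_512_19 (SL.cons S140_169_364_512_20 (SL.cons S140_169_364_512_21 (SL.cons S140_169_364_512_22 (SL.cons S140_169_364_512_23 (SL.cons S140_169_364_512_24 (SL.cons S140_169_364_512_25 (SL.cons S140_169_364_512_26 (SL.cons S140_169_364_512_27 (SL.cons S140_169_364_512_28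 (SL.cons S140_169_364_512_29 (SL.cons S140_169_364_512_30 (SL.cons S140_169_364_512_31 (SL.cons S140_169_364_512_32 (SL.cons S140_169_364_512_33 (SL.cons S140_169_364_512_34 (SL.cons S140_169_364_512_35 (SL.cons S140_169_364_512_36 (SL.cons S140_169_364_512_37 (SL.cons S140_169_364_512_38 (SL.cons S140_169_364_512_39 (SL.cons S140_169_364_512_40 (SL.cons S140_169_364_512_41 (SL.cons S140_169_364_512_42 (SL.cons S140_169_364_512_43 (SL.cons S140_169_364_512_44 (SL.cons S140_169_364_512_45 (SL.cons S140_169_364_512_46 (SL.cons S140_169_364_512_47 (SL.cons S140_169_364_512_48 SL.nil)))))))))))))))))))))))))))))))))))))))))))))))))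
noncomputable def S140_169_438_512_0 : EL := (EL.cons 0 (TM.mk (P.cons (P.lf 5139680571 0 0) (P.cons (P.lf 636245268 0 0) (P.cons (P.lf 21563379 0 0) (P.cons (P.lf 0 4685115 0) (P.cons (P.lf 0 394321 0) (P.cons (P.lf 4352 0 0) P.nil)))))) 3197)
 (EL.cons 1 (TM.mk (P.cons (P.lf 0 1792040857 0) (P.cons (P.lf 0 37383279 0) (P.cons (P.lf 39281548 0 0) (P.cons (P.lf 2177913 0 0) (P.cons (P.lf 0 137038 0) (P.cons (P.lf 0 19477 0) P.nil)))))) 1484)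
 (EL.cons 5 (TM.mk (P.cons (P.lf 5474002426 0 0) (P.cons (P.lf 0 226220540 0) (P.cons (P.lf 0 7666984 0) (P.cons (P.lf 1665814 0 0) (P.cons (P.lf 140204 0 0) (P.cons (P.lf 0 1546 0) P.nil)))))) 969)
 (EL.cons 9 (TM.mk (P.lf 6442450944 0 0) 2)
 EL.nil))))
noncomputable def S140_169_438_512_1 : EL := (EL.cons 0 (TM.mk (P.cons (P.cons (P.lf 0 3513552680 0) (P.cons (P.lf 155377529 0 0) (P.cons (P.lf 2473029 0 0) (P.lf 0 824334 0)))) (P.cons (P.cons (P.lf 987498506 0 0) (P.cons (P.lf 0 27795345 0) (P.cons (P.lf 0 442407 0) (P.lf 147477 0 0)))) (P.cons (P.cons (P.lf 280187318 0 0) (P.cons (P.lf 0 26577584 0) (P.cons (P.lf 0 423013 0) (P.lf 140997 0 0)))) (P.cons (P.cons (P.lf 0 15741887 0) (P.cons (P.lf 0 3339466 0) (P.cons (P.lf 0 53139 0) P.nil))) (P.cons (P.cons (P.lf 0 7930998 0) (P.cons (P.lf 258006 0 0) P.nil)) (P.cons (P.cons (P.lf 0 263694 0) P.nil) P.nil))))))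 344055)
 (EL.cons 1 (TM.mk (P.cons (P.cons (P.lf 230411291 0 0) (P.cons (P.lf 39019577 0 0) (P.cons (P.lf 621040 0 0) (P.lf 0 207007 0)))) (P.cons (P.cons (P.lf 0 675386122 0) (P.cons (P.lf 59477655 0 0) (P.cons (P.lf 946652 0 0) (P.lf 0 315542 0)))) (P.cons (P.cons (P.lf 37294127 0 0) (P.cons (P.lf 8409894 0 0) (P.cons (P.lf 133845 0 0) (P.lf 0 44610 0)))) (P.cons (P.cons (P.lf 32037956 0 0) (P.cons (P.lf 0 1525197 0) (P.cons (P.lf 0 24266 0) P.nil))) (P.cons (P.cons (P.lf 498447 0 0) (P.cons (P.lf 0 366420 0) P.nil)) (P.cons (P.cons (P.lf 0 528631 0) P.nil) P.nil)))))) 170737)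
 (EL.cons 5 (TM.mk (P.cons (P.cons (P.lf 1131813637 0 0) (P.cons (P.lf 0 291181164 0) (P.cons (P.lf 0 4634532 0) (P.lf 1544844 0 0)))) (P.cons (P.cons (P.lf 531197257 0 0) (P.cons (P.lf 0 72785818 0) (P.cons (P.lf 0 1158480 0) (P.lf 386154 0 0)))) (P.cons (P.cons (P.lf 0 136556244 0) (P.cons (P.lf 1820378 0 0) (P.cons (P.lf 28972 0 0) (P.lf 0 9650 0)))) (P.cons (P.cons (P.lf 0 8981750 0) (P.cons (P.lf 1656818 0 0) (P.cons (P.lf 26360 0 0) P.nil))) (P.cons (P.cons (P.lf 2517479 0 0) (P.cons (P.lf 27700 0 0) P.nil)) (P.cons (P.cons (P.lf 201372 0 0) P.nil) P.nil)))))) 123377)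
 (EL.cons 9 (TM.mk (P.cons (P.cons (P.lf 0 103631944 0) (P.cons (P.lf 0 208178658 0) (P.cons (P.lf 0 3313434 0) (P.lf 1104474 0 0)))) (P.cons (P.cons (P.lf 778506907 0 0) (P.cons (P.lf 0 72942888 0) (P.cons (P.lf 0 1160976 0) (P.lf 386988 0 0)))) (P.cons (P.cons (P.lf 0 32588902 0) (P.cons (P.lf 0 6731844 0) (P.cons (P.lf 0 107142 0) (P.lf 35712 0 0)))) (P.cons (P.cons (P.lf 0 12863694 0) (P.cons (P.lf 414222 0 0) (P.cons (P.lf 6588 0 0) P.nil))) (P.cons (P.cons (P.lf 0 266841 0) (P.cons (P.lf 105378 0 0) P.nil)) (P.cons (P.cons (P.lf 94954 0 0) P.nil) P.nil)))))) 25241)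
 (EL.cons 2 (TM.mk (P.cons (P.cons (P.lf 886112926 0 0) (P.cons (P.lf 32846996 0 0) (P.cons (P.lf 0 16275802 0) (P.cons (P.lf 0 147690 0) (P.lf 36922 0 0))))) (P.cons (P.cons (P.lf 121978816 0 0) (P.cons (P.lf 4521585 0 0) (P.cons (P.lf 0 2240460 0) (P.cons (P.lf 0 20328 0) (P.lf 5082 0 0))))) (P.cons (P.cons (P.lf 0 19800869 0) (P.cons (P.lf 0 733992 0) (P.cons (P.lf 363692 0 0) (P.cons (P.lf 3299 0 0) P.nil)))) (P.cons (P.cons (P.lf 0 3864285 0) (P.cons (P.lf 0 143240 0) (P.cons (P.lf 70976 0 0) P.nil))) (P.cons (P.cons (P.lf 0 25498 0) (P.cons (P.lf 0 942 0) P.nil)) (P.cons (P.cons (P.lf 31491 0 0) P.nil) P.nil)))))) 13855)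
 (EL.cons 6 (TM.mk (P.cons (P.cons (P.lf 478870080 0 0) (P.cons (P.lf 17751060 0 0) (P.cons (P.lf 0 8795712 0) (P.cons (P.lf 0 79815 0) (P.lf 19953 0 0))))) (P.cons (P.cons (P.lf 167789373 0 0) (P.cons (P.lf 6219720 0 0) (P.cons (P.lf 0 3081894 0) (P.cons (P.lf 0 27963 0) (P.lf 6990 0 0))))) (P.cons (P.cons (P.lf 15485163 0 0) (P.cons (P.lf 574011 0 0) (P.cons (P.lf 0 284424 0) (P.cons (P.lf 0 2580 0) P.nil)))) (P.cons (P.cons (P.lf 0 952842 0) (P.cons (P.lf 0 35319 0) (P.cons (P.lf 17499 0 0) P.nil))) (P.cons (P.cons (P.lf 0 242409 0) (P.cons (P.lf 0 8985 0) P.nil)) (P.cons (P.cons (P.lf 0 8148 0) P.nil) P.nil)))))) 8271)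
 EL.nil))))))
noncomputable def S140_169_438_512_2 : EL := (EL.cons 0 (TM.mk (P.cons (P.cons (P.lf 111706660 0 0) (P.cons (P.lf 216729086 0 0) (P.cons (P.lf 0 11958770 0) (P.cons (P.lf 0 1640321 0) (P.cons (P.lf 159582 0 0) (P.cons (P.lf 2592 0 0) P.nil)))))) (P.cons (P.cons (P.lf 0 861109542 0) (P.cons (P.lf 91794210 0 0) (P.cons (P.lf 0 4686249 0) (P.cons (P.lf 0 682676 0) (P.cons (P.lf 63663 0 0) P.nil))))) (P.cons (P.cons (P.lf 191771336 0 0) (P.cons (P.lf 0 23635169 0) (P.cons (P.lf 152124 0 0) (P.cons (P.lf 142216 0 0) P.nil)))) (P.cons (P.cons (P.lf 68906918 0 0) (P.cons (P.lf 0 12764331 0) (P.cons (P.lf 456892 0 0) P.nil))) (P.cons (P.cons (P.lf 0 7294091 0) (P.cons (P.lf 0 506719 0) P.nil)) (P.cons (P.cons (P.lf 0 2720709 0) P.nil) P.nil)))))) 1749359)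
 (EL.cons 1 (TM.mk (P.cons (P.cons (P.lf 0 6948999 0) (P.cons (P.lf 0 14283179 0) (P.cons (P.lf 0 877866 0) (P.cons (P.lf 55071 0 0) (P.cons (P.lf 6735 0 0) (P.cons (P.lf 103 0 0) P.nil)))))) (P.cons (P.cons (P.lf 70457025 0 0) (P.cons (P.lf 32644096 0 0) (P.cons (P.lf 0 2857564 0) (P.cons (P.lf 0 280688 0) (P.cons (P.lf 34971 0 0) P.nil))))) (P.cons (P.cons (P.lf 0 140454272 0) (P.cons (P.lf 21534520 0 0) (P.cons (P.lf 0 1292049 0) (P.cons (P.lf 0 166279 0) P.nil)))) (P.cons (P.cons (P.lf 12523652 0 0) (P.cons (P.lf 31708 0 0) (P.cons (P.lf 0 199380 0) P.nil))) (P.cons (P.cons (P.lf 8596278 0 0) (P.cons (P.lf 0 1356648 0) P.nil)) (P.cons (P.cons (P.lf 0 259648 0) P.nil) P.nil)))))) 911157)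
 (EL.cons 5 (TM.mk (P.cons (P.cons (P.lf 0 37828651 0) (P.cons (P.lf 0 69468797 0) (P.cons (P.lf 11996741 0 0) (P.cons (P.lf 785633 0 0) (P.cons (P.lf 0 135701 0) (P.cons (P.lf 0 2201 0) P.nil)))))) (P.cons (P.cons (P.lf 277787031 0 0) (P.cons (P.lf 0 86999408 0) (P.cons (P.lf 6143617 0 0) (P.cons (P.lf 701203 0 0) (P.cons (P.lf 0 77969 0) P.nil))))) (P.cons (P.cons (P.lf 39621101 0 0) (P.cons (P.lf 0 8943372 0) (P.cons (P.lf 1098874 0 0) (P.cons (P.lf 86970 0 0) P.nil)))) (P.cons (P.cons (P.lf 0 32957443 0) (P.cons (P.lf 4457973 0 0) (P.cons (P.lf 0 21301 0) P.nil))) (P.cons (P.cons (P.lf 0 733421 0) (P.cons (P.lf 716645 0 0) P.nil)) (P.cons (P.cons (P.lf 1038299 0 0) P.nil) P.nil)))))) 733617)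
 (EL.cons 9 (TM.mk (P.cons (P.cons (P.lf 1667001 0 0) (P.cons (P.lf 6697437 0 0) (P.cons (P.lf 6833595 0 0) (P.cons (P.lf 178605 0 0) (P.cons (P.lf 0 69673 0) (P.cons (P.lf 0 1135 0) P.nil)))))) (P.cons (P.cons (P.lf 0 25045804 0) (P.cons (P.lf 0 47966002 0) (P.cons (P.lf 3950649 0 0) (P.cons (P.lf 404541 0 0) (P.cons (P.lf 0 48825 0) P.nil))))) (P.cons (P.cons (P.lf 95123347 0 0) (P.cons (P.lf 0 15306160 0) (P.cons (P.lf 1017318 0 0) (P.cons (P.lf 121342 0 0) P.nil)))) (P.cons (P.cons (P.lf 0 7462251 0) (P.cons (P.lf 0 70978 0) (P.cons (P.lf 124539 0 0) P.nil))) (P.cons (P.cons (P.lf 0 2935467 0) (P.cons (P.lf 473361 0 0) P.nil)) (P.cons (P.cons (P.lf 62595 0 0) P.nil) P.nil)))))) 215969)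
 (EL.cons 2 (TM.mk (P.cons (P.cons (P.lf 0 28507657 0) (P.cons (P.lf 0 58323701 0) (P.cons (P.lf 0 2510662 0) (P.cons (P.lf 1326645 0 0) (P.cons (P.lf 36360 0 0) (P.cons (P.lf 0 7813 0) P.nil)))))) (P.cons (P.cons (P.lf 210231826 0 0) (P.cons (P.lf 0 20155674 0) (P.cons (P.lf 0 5342315 0) (P.cons (P.lf 610098 0 0) (P.cons (P.lf 27084 0 0) P.nil))))) (P.cons (P.cons (P.lf 21152165 0 0) (P.cons (P.lf 0 2550217 0) (P.cons (P.lf 0 565177 0) (P.cons (P.lf 73440 0 0) P.nil)))) (P.cons (P.cons (P.lf 0 9433828 0) (P.cons (P.lf 207444 0 0) (P.cons (P.lf 202792 0 0) P.nil))) (P.cons (P.cons (P.lf 0 1293288 0) (P.cons (P.lf 127265 0 0) P.nil)) (P.cons (P.cons (P.lf 127006 0 0) P.nil) P.nil)))))) 169458)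
 (EL.cons 6 (TM.mk (P.cons (P.cons (P.lf 0 15406008 0) (P.cons (P.lf 0 31519092 0) (P.cons (P.lf 0 1356804 0) (P.cons (P.lf 716940 0 0) (P.cons (P.lf 19644 0 0) (P.cons (P.lf 0 4218 0) P.nil)))))) (P.cons (P.cons (P.lf 110335434 0 0) (P.cons (P.lf 0 17597514 0) (P.cons (P.lf 0 3175710 0) (P.cons (P.lf 482220 0 0) (P.cons (P.lf 18816 0 0) P.nil))))) (P.cons (P.cons (P.lf 35208516 0 0) (P.cons (P.lf 0 4495884 0) (P.cons (P.lf 0 954060 0) (P.cons (P.lf 128034 0 0) P.nil)))) (P.cons (P.cons (P.lf 163272 0 0) (P.cons (P.lf 0 572094 0) (P.cons (P.lf 0 33630 0) P.nil))) (P.cons (P.cons (P.lf 0 1088862 0) (P.cons (P.lf 1758 0 0) P.nil)) (P.cons (P.cons (P.lf 0 110304 0) P.nil) P.nil)))))) 102504)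
 EL.nil))))))
noncomputable def S140_169_438_512_3 : EL := (EL.cons 0 (TM.mk (P.cons (P.lf 3316036292 0 0) (P.cons (P.lf 0 636245268 0) (P.cons (P.lf 0 21563379 0) (P.cons (P.lf 4685115 0 0) (P.cons (P.lf 394321 0 0) (P.cons (P.lf 0 4352 0) P.nil)))))) 3197)
 (EL.cons 1 (TM.mk (P.cons (P.lf 1792040857 0 0) (P.cons (P.lf 37383279 0 0) (P.cons (P.lf 0 39281548 0) (P.cons (P.lf 0 2177913 0) (P.cons (P.lf 137038 0 0) (P.cons (P.lf 19477 0 0) P.nil)))))) 1484)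
 (EL.cons 5 (TM.mk (P.cons (P.lf 968448518 0 0) (P.cons (P.lf 226220540 0 0) (P.cons (P.lf 7666984 0 0) (P.cons (P.lf 0 1665814 0) (P.cons (P.lf 0 140204 0) (P.cons (P.lf 1546 0 0) P.nil)))))) 962)
 EL.nil)))
noncomputable def S140_169_438_512_4 : EL := (EL.cons 0 (TM.mk (P.cons (P.cons (P.lf 0 53341078 0) (P.cons (P.lf 0 107153005 0) (P.cons (P.lf 0 1705478 0) (P.lf 568490 0 0)))) (P.cons (P.cons (P.lf 410944920 0 0) (P.cons (P.lf 0 16985550 0) (P.cons (P.lf 0 270344 0) (P.lf 90112 0 0)))) (P.cons (P.cons (P.lf 0 93311173 0) (P.cons (P.lf 4435511 0 0) (P.cons (P.lf 70597 0 0) (P.lf 0 23531 0)))) (P.cons (P.cons (P.lf 0 6083818 0) (P.cons (P.lf 970783 0 0) (P.cons (P.lf 15447 0 0) P.nil))) (P.cons (P.cons (P.lf 1801931 0 0) (P.cons (P.lf 0 29923 0) P.nil)) (P.cons (P.cons (P.lf 142301 0 0) P.nil) P.nil)))))) 70712)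
 (EL.cons 1 (TM.mk (P.cons (P.cons (P.lf 0 28826400 0) (P.cons (P.lf 0 57907256 0) (P.cons (P.lf 0 921667 0) (P.lf 307220 0 0)))) (P.cons (P.cons (P.lf 215949191 0 0) (P.cons (P.lf 0 21497878 0) (P.cons (P.lf 0 342163 0) (P.lf 114052 0 0)))) (P.cons (P.cons (P.lf 0 3915693 0) (P.cons (P.lf 0 1026472 0) (P.cons (P.lf 0 16335 0) (P.lf 5445 0 0)))) (P.cons (P.cons (P.lf 0 8479038 0) (P.cons (P.lf 591288 0 0) (P.cons (P.lf 9408 0 0) P.nil))) (P.cons (P.cons (P.lf 0 215548 0) (P.cons (P.lf 92990 0 0) P.nil)) (P.cons (P.cons (P.lf 130560 0 0) P.nil) P.nil)))))) 41522)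
 (EL.cons 5 (TM.mk (P.cons (P.cons (P.lf 0 15578262 0) (P.cons (P.lf 0 31294038 0) (P.cons (P.lf 0 498084 0) (P.lf 166026 0 0)))) (P.cons (P.cons (P.lf 113388552 0 0) (P.cons (P.lf 0 18274988 0) (P.cons (P.lf 0 290868 0) (P.lf 96954 0 0)))) (P.cons (P.cons (P.lf 22314338 0 0) (P.cons (P.lf 0 3821018 0) (P.cons (P.lf 0 60814 0) (P.lf 20270 0 0)))) (P.cons (P.cons (P.lf 0 2124760 0) (P.cons (P.lf 0 207092 0) (P.cons (P.lf 0 3296 0) P.nil))) (P.cons (P.cons (P.lf 0 729632 0) (P.cons (P.lf 45764 0 0) P.nil)) (P.cons (P.cons (P.lf 0 18944 0) P.nil) P.nil)))))) 25092)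
 EL.nil)))
noncomputable def S140_169_438_512_5 : EL := (EL.cons 0 (TM.mk (P.cons (P.cons (P.lf 858032 0 0) (P.cons (P.lf 3447281 0 0) (P.cons (P.lf 3517363 0 0) (P.cons (P.lf 91930 0 0) (P.cons (P.lf 0 35861 0) (P.cons (P.lf 0 583 0) P.nil)))))) (P.cons (P.cons (P.lf 0 13056120 0) (P.cons (P.lf 0 25350322 0) (P.cons (P.lf 1358590 0 0) (P.cons (P.lf 190583 0 0) (P.cons (P.lf 0 18249 0) P.nil))))) (P.cons (P.cons (P.lf 51429462 0 0) (P.cons (P.lf 0 3163710 0) (P.cons (P.lf 110598 0 0) (P.cons (P.lf 21905 0 0) P.nil)))) (P.cons (P.cons (P.lf 0 13150117 0) (P.cons (P.lf 1640490 0 0) (P.cons (P.lf 0 44618 0) P.nil))) (P.cons (P.cons (P.lf 0 1110469 0) (P.cons (P.lf 267414 0 0) P.nil)) (P.cons (P.cons (P.lf 414738 0 0) P.nil) P.nil)))))) 268253)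
 (EL.cons 1 (TM.mk (P.cons (P.cons (P.lf 463693 0 0) (P.cons (P.lf 1862966 0 0) (P.cons (P.lf 1900841 0 0) (P.cons (P.lf 49680 0 0) (P.cons (P.lf 0 19380 0) (P.cons (P.lf 0 315 0) P.nil)))))) (P.cons (P.cons (P.lf 0 6957099 0) (P.cons (P.lf 0 13303425 0) (P.cons (P.lf 1138569 0 0) (P.cons (P.lf 113563 0 0) (P.cons (P.lf 0 13983 0) P.nil))))) (P.cons (P.cons (P.lf 26304140 0 0) (P.cons (P.lf 0 4576747 0) (P.cons (P.lf 264234 0 0) (P.cons (P.lf 35010 0 0) P.nil)))) (P.cons (P.cons (P.lf 0 1371592 0) (P.cons (P.lf 181638 0 0) (P.cons (P.lf 14145 0 0) P.nil))) (P.cons (P.cons (P.lf 0 1431326 0) (P.cons (P.lf 240941 0 0) P.nil)) (P.cons (P.cons (P.lf 13190 0 0) P.nil) P.nil)))))) 162751)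
 (EL.cons 5 (TM.mk (P.cons (P.cons (P.lf 250588 0 0) (P.cons (P.lf 1006778 0 0) (P.cons (P.lf 1027246 0 0) (P.cons (P.lf 26848 0 0) (P.cons (P.lf 0 10472 0) (P.cons (P.lf 0 170 0) P.nil)))))) (P.cons (P.cons (P.lf 0 3706424 0) (P.cons (P.lf 0 6975218 0) (P.cons (P.lf 833828 0 0) (P.cons (P.lf 67082 0 0) (P.cons (P.lf 0 9784 0) P.nil))))) (P.cons (P.cons (P.lf 13421750 0 0) (P.cons (P.lf 0 3977176 0) (P.cons (P.lf 299780 0 0) (P.cons (P.lf 32656 0 0) P.nil)))) (P.cons (P.cons (P.lf 2188180 0 0) (P.cons (P.lf 0 606944 0) (P.cons (P.lf 57376 0 0) P.nil))) (P.cons (P.cons (P.lf 0 583654 0) (P.cons (P.lf 62704 0 0) P.nil)) (P.cons (P.cons (P.lf 0 126596 0) P.nil) P.nil)))))) 93256)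
 EL.nil)))
noncomputable def S140_169_438_512_6 : EL := (EL.cons 12 (TM.mk (P.lf 8589934592 0 0) 0)
 (EL.cons 3 (TM.mk (P.cons (P.lf 0 2668545243 0) (P.cons (P.lf 256005836 0 0) (P.cons (P.lf 20956361 0 0) (P.cons (P.lf 125291 0 0) (P.cons (P.lf 0 64357 0) (P.cons (P.lf 0 3438 0) P.nil)))))) 378)
 (EL.cons 7 (TM.mk (P.cons (P.lf 0 1442125985 0) (P.cons (P.lf 0 168433589 0) (P.cons (P.lf 4127638 0 0) (P.cons (P.lf 758202 0 0) (P.cons (P.lf 21743 0 0) (P.cons (P.lf 0 1521 0) P.nil)))))) 224)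
 EL.nil)))
noncomputable def S140_169_438_512_7 : EL := (EL.cons 12 (TM.mk (P.cons (P.cons (P.lf 0 138175926 0) (P.cons (P.lf 0 277571544 0) (P.cons (P.lf 0 4417912 0) (P.lf 1472632 0 0)))) (P.cons (P.cons (P.lf 1038009210 0 0) (P.cons (P.lf 0 97257184 0) (P.cons (P.lf 0 1547968 0) (P.lf 515984 0 0)))) (P.cons (P.cons (P.lf 0 43451870 0) (P.cons (P.lf 0 8975792 0) (P.cons (P.lf 0 142856 0) (P.lf 47616 0 0)))) (P.cons (P.cons (P.lf 0 17151592 0) (P.cons (P.lf 552296 0 0) (P.cons (P.lf 8784 0 0) P.nil))) (P.cons (P.cons (P.lf 0 355788 0) (P.cons (P.lf 140504 0 0) P.nil)) (P.cons (P.cons (P.lf 126606 0 0) P.nil) P.nil)))))) 33630)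
 (EL.cons 3 (TM.mk (P.cons (P.cons (P.lf 2803887626 0 0) (P.cons (P.lf 0 172460502 0) (P.cons (P.lf 0 2744932 0) (P.lf 914972 0 0)))) (P.cons (P.cons (P.lf 0 364821359 0) (P.cons (P.lf 0 43882814 0) (P.cons (P.lf 0 698446 0) (P.lf 232810 0 0)))) (P.cons (P.cons (P.lf 0 122696269 0) (P.cons (P.lf 1574630 0 0) (P.cons (P.lf 25064 0 0) (P.lf 0 8354 0)))) (P.cons (P.cons (P.lf 0 5631150 0) (P.cons (P.lf 1360804 0 0) (P.cons (P.lf 21654 0 0) P.nil))) (P.cons (P.cons (P.lf 1611855 0 0) (P.cons (P.lf 96848 0 0) P.nil)) (P.cons (P.cons (P.lf 193303 0 0) P.nil) P.nil)))))) 117979)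
 (EL.cons 7 (TM.mk (P.cons (P.cons (P.lf 0 1793318395 0) (P.cons (P.lf 216800337 0 0) (P.cons (P.lf 3450667 0 0) (P.lf 0 1150224 0)))) (P.cons (P.cons (P.lf 240026442 0 0) (P.cons (P.lf 28871766 0 0) (P.cons (P.lf 459534 0 0) (P.lf 0 153179 0)))) (P.cons (P.cons (P.lf 55194991 0 0) (P.cons (P.lf 0 4106936 0) (P.cons (P.lf 0 65366 0) (P.lf 21786 0 0)))) (P.cons (P.cons (P.lf 0 6155001 0) (P.cons (P.lf 0 557310 0) (P.cons (P.lf 0 8871 0) P.nil))) (P.cons (P.cons (P.lf 0 997147 0) (P.cons (P.lf 51159 0 0) P.nil)) (P.cons (P.cons (P.lf 31328 0 0) P.nil) P.nil)))))) 74583)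
 (EL.cons 10 (TM.mk (P.cons (P.cons (P.lf 0 1426180074 0) (P.cons (P.lf 0 52866549 0) (P.cons (P.lf 26195565 0 0) (P.cons (P.lf 237708 0 0) (P.lf 0 59427 0))))) (P.cons (P.cons (P.lf 0 333142359 0) (P.cons (P.lf 0 12349131 0) (P.cons (P.lf 6119037 0 0) (P.cons (P.lf 55524 0 0) (P.lf 0 13881 0))))) (P.cons (P.cons (P.lf 0 11290737 0) (P.cons (P.lf 0 418530 0) (P.cons (P.lf 207384 0 0) (P.cons (P.lf 1881 0 0) P.nil)))) (P.cons (P.cons (P.lf 2453151 0 0) (P.cons (P.lf 90933 0 0) (P.cons (P.lf 0 45057 0) P.nil))) (P.cons (P.cons (P.lf 206469 0 0) (P.cons (P.lf 7653 0 0) P.nil)) (P.cons (P.cons (P.lf 0 2274 0) P.nil) P.nil)))))) 6543)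
 EL.nil))))
noncomputable def S140_169_438_512_8 : EL := (EL.cons 12 (TM.mk (P.cons (P.cons (P.lf 2222668 0 0) (P.cons (P.lf 8929916 0 0) (P.cons (P.lf 9111460 0 0) (P.cons (P.lf 238140 0 0) (P.cons (P.lf 0 92898 0) (P.cons (P.lf 0 1514 0) P.nil)))))) (P.cons (P.cons (P.lf 0 33394406 0) (P.cons (P.lf 0 63954670 0) (P.cons (P.lf 5267532 0 0) (P.cons (P.lf 539388 0 0) (P.cons (P.lf 0 65100 0) P.nil))))) (P.cons (P.cons (P.lf 126831130 0 0) (P.cons (P.lf 0 20408214 0) (P.cons (P.lf 1356424 0 0) (P.cons (P.lf 161790 0 0) P.nil)))) (P.cons (P.cons (P.lf 0 9949668 0) (P.cons (P.lf 0 94638 0) (P.cons (P.lf 166052 0 0) P.nil))) (P.cons (P.cons (P.lf 0 3913956 0) (P.cons (P.lf 631148 0 0) P.nil)) (P.cons (P.cons (P.lf 83460 0 0) P.nil) P.nil)))))) 287930)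
 (EL.cons 3 (TM.mk (P.cons (P.cons (P.lf 0 89515026 0) (P.cons (P.lf 0 172884800 0) (P.cons (P.lf 11180351 0 0) (P.cons (P.lf 1360716 0 0) (P.cons (P.lf 0 144301 0) (P.cons (P.lf 0 2351 0) P.nil)))))) (P.cons (P.cons (P.lf 678940894 0 0) (P.cons (P.lf 0 100317935 0) (P.cons (P.lf 6829929 0 0) (P.cons (P.lf 800462 0 0) (P.cons (P.lf 0 87276 0) P.nil))))) (P.cons (P.cons (P.lf 0 72198410 0) (P.cons (P.lf 0 3036234 0) (P.cons (P.lf 1517122 0 0) (P.cons (P.lf 65936 0 0) P.nil)))) (P.cons (P.cons (P.lf 0 43767803 0) (P.cons (P.lf 6469455 0 0) (P.cons (P.lf 35375 0 0) P.nil))) (P.cons (P.cons (P.lf 0 175164 0) (P.cons (P.lf 1073614 0 0) P.nil)) (P.cons (P.cons (P.lf 1207902 0 0) P.nil) P.nil)))))) 814982)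
 (EL.cons 7 (TM.mk (P.cons (P.cons (P.lf 58067057 0 0) (P.cons (P.lf 110421467 0 0) (P.cons (P.lf 0 10747866 0) (P.cons (P.lf 0 983906 0) (P.cons (P.lf 129524 0 0) (P.cons (P.lf 2108 0 0) P.nil)))))) (P.cons (P.cons (P.lf 0 446694705 0) (P.cons (P.lf 66002049 0 0) (P.cons (P.lf 0 4493604 0) (P.cons (P.lf 0 526648 0) (P.cons (P.lf 57420 0 0) P.nil))))) (P.cons (P.cons (P.lf 95014073 0 0) (P.cons (P.lf 0 5022676 0) (P.cons (P.lf 0 520192 0) (P.cons (P.lf 12632 0 0) P.nil)))) (P.cons (P.cons (P.lf 19103075 0 0) (P.cons (P.lf 0 4102918 0) (P.cons (P.lf 88541 0 0) P.nil))) (P.cons (P.cons (P.lf 0 3734027 0) (P.cons (P.lf 0 47839 0) P.nil)) (P.cons (P.cons (P.lf 0 541953 0) P.nil) P.nil)))))) 499296)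
 (EL.cons 10 (TM.mk (P.cons (P.cons (P.lf 45882480 0 0) (P.cons (P.lf 93870768 0 0) (P.cons (P.lf 4040862 0 0) (P.cons (P.lf 0 2135208 0) (P.cons (P.lf 0 58518 0) (P.cons (P.lf 12576 0 0) P.nil)))))) (P.cons (P.cons (P.lf 0 333961980 0) (P.cons (P.lf 41445594 0 0) (P.cons (P.lf 8986008 0 0) (P.cons (P.lf 0 1186782 0) (P.cons (P.lf 0 49206 0) P.nil))))) (P.cons (P.cons (P.lf 0 65722158 0) (P.cons (P.lf 8817768 0 0) (P.cons (P.lf 1803450 0 0) (P.cons (P.lf 0 248820 0) P.nil)))) (P.cons (P.cons (P.lf 6258036 0 0) (P.cons (P.lf 841926 0 0) (P.cons (P.lf 0 82620 0) P.nil))) (P.cons (P.cons (P.lf 2148978 0 0) (P.cons (P.lf 0 55128 0) P.nil)) (P.cons (P.cons (P.lf 55794 0 0) P.nil) P.nil)))))) 184962)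
 EL.nil))))
noncomputable def S140_169_438_512_9 : EL := (EL.cons 3 (TM.mk (P.cons (P.lf 0 2668545243 0) (P.cons (P.lf 256005836 0 0) (P.cons (P.lf 20956361 0 0) (P.cons (P.lf 125291 0 0) (P.cons (P.lf 0 64357 0) (P.cons (P.lf 0 3438 0) P.nil)))))) 378)
 (EL.cons 7 (TM.mk (P.cons (P.lf 0 1442125985 0) (P.cons (P.lf 0 168433589 0) (P.cons (P.lf 4127638 0 0) (P.cons (P.lf 758202 0 0) (P.cons (P.lf 21743 0 0) (P.cons (P.lf 0 1521 0) P.nil)))))) 224)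
 EL.nil))
noncomputable def S140_169_438_512_10 : EL := (EL.cons 3 (TM.mk (P.cons (P.cons (P.lf 42925670 0 0) (P.cons (P.lf 86230251 0 0) (P.cons (P.lf 1372466 0 0) (P.lf 0 457486 0)))) (P.cons (P.cons (P.lf 0 326585534 0) (P.cons (P.lf 21941407 0 0) (P.cons (P.lf 349223 0 0) (P.lf 0 116405 0)))) (P.cons (P.cons (P.lf 44097428 0 0) (P.cons (P.lf 0 787315 0) (P.cons (P.lf 0 12532 0) (P.lf 4177 0 0)))) (P.cons (P.cons (P.lf 6563664 0 0) (P.cons (P.lf 0 680402 0) (P.cons (P.lf 0 10827 0) P.nil))) (P.cons (P.cons (P.lf 0 490470 0) (P.cons (P.lf 0 48424 0) P.nil)) (P.cons (P.cons (P.lf 0 100133 0) P.nil) P.nil)))))) 28263)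
 (EL.cons 7 (TM.mk (P.cons (P.cons (P.lf 23197742 0 0) (P.cons (P.lf 46600254 0 0) (P.cons (P.lf 741703 0 0) (P.lf 0 247233 0)))) (P.cons (P.cons (P.lf 0 171557370 0) (P.cons (P.lf 21770769 0 0) (P.cons (P.lf 346509 0 0) (P.lf 0 115502 0)))) (P.cons (P.cons (P.lf 0 13124999 0) (P.cons (P.lf 3280570 0 0) (P.cons (P.lf 52213 0 0) (P.lf 0 17403 0)))) (P.cons (P.cons (P.lf 4218108 0 0) (P.cons (P.lf 12042 0 0) (P.cons (P.lf 192 0 0) P.nil))) (P.cons (P.cons (P.lf 466436 0 0) (P.cons (P.lf 0 48018 0) P.nil)) (P.cons (P.cons (P.lf 0 23704 0) P.nil) P.nil)))))) 17087)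
 EL.nil))
noncomputable def S140_169_438_512_11 : EL := (EL.cons 3 (TM.mk (P.cons (P.cons (P.lf 0 690492 0) (P.cons (P.lf 0 2774162 0) (P.cons (P.lf 0 2830561 0) (P.cons (P.lf 0 73980 0) (P.cons (P.lf 28859 0 0) (P.cons (P.lf 469 0 0) P.nil)))))) (P.cons (P.cons (P.lf 10440532 0 0) (P.cons (P.lf 20134267 0 0) (P.cons (P.lf 0 1364859 0) (P.cons (P.lf 0 160468 0) (P.cons (P.lf 17454 0 0) P.nil))))) (P.cons (P.cons (P.lf 0 40391132 0) (P.cons (P.lf 4455750 0 0) (P.cons (P.lf 0 242168 0) (P.cons (P.lf 0 33604 0) P.nil)))) (P.cons (P.cons (P.lf 6789469 0 0) (P.cons (P.lf 0 734721 0) (P.cons (P.lf 1823 0 0) P.nil))) (P.cons (P.cons (P.lf 1228296 0 0) (P.cons (P.lf 0 249680 0) P.nil)) (P.cons (P.cons (P.lf 0 164748 0) P.nil) P.nil)))))) 151744)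
 (EL.cons 7 (TM.mk (P.cons (P.cons (P.lf 0 373153 0) (P.cons (P.lf 0 1499203 0) (P.cons (P.lf 0 1529682 0) (P.cons (P.lf 0 39980 0) (P.cons (P.lf 15596 0 0) (P.cons (P.lf 254 0 0) P.nil)))))) (P.cons (P.cons (P.lf 5562855 0 0) (P.cons (P.lf 10561965 0 0) (P.cons (P.lf 0 1063002 0) (P.cons (P.lf 0 95224 0) (P.cons (P.lf 12750 0 0) P.nil))))) (P.cons (P.cons (P.lf 0 20637241 0) (P.cons (P.lf 4684574 0 0) (P.cons (P.lf 0 326632 0) (P.cons (P.lf 0 37624 0) P.nil)))) (P.cons (P.cons (P.lf 0 832381 0) (P.cons (P.lf 386114 0 0) (P.cons (P.lf 0 51139 0) P.nil))) (P.cons (P.cons (P.lf 910195 0 0) (P.cons (P.lf 0 119533 0) P.nil)) (P.cons (P.cons (P.lf 69063 0 0) P.nil) P.nil)))))) 83798)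
 EL.nil))
noncomputable def S140_169_438_512_12 : EL := (EL.cons 4 (TM.mk (P.cons (P.lf 2668545243 0 0) (P.cons (P.lf 0 256005836 0) (P.cons (P.lf 0 20956361 0) (P.cons (P.lf 0 125291 0) (P.cons (P.lf 64357 0 0) (P.cons (P.lf 3438 0 0) P.nil)))))) 378)
 (EL.cons 8 (TM.mk (P.cons (P.lf 1442125985 0 0) (P.cons (P.lf 168433589 0 0) (P.cons (P.lf 0 4127638 0) (P.cons (P.lf 0 758202 0) (P.cons (P.lf 0 21743 0) (P.cons (P.lf 1521 0 0) P.nil)))))) 224)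
 EL.nil))
noncomputable def S140_169_438_512_13 : EL := (EL.cons 4 (TM.mk (P.cons (P.cons (P.lf 0 42925670 0) (P.cons (P.lf 0 86230251 0) (P.cons (P.lf 0 1372466 0) (P.lf 457486 0 0)))) (P.cons (P.cons (P.lf 326585534 0 0) (P.cons (P.lf 0 21941407 0) (P.cons (P.lf 0 349223 0) (P.lf 116405 0 0)))) (P.cons (P.cons (P.lf 0 44097428 0) (P.cons (P.lf 787315 0 0) (P.cons (P.lf 12532 0 0) (P.lf 0 4177 0)))) (P.cons (P.cons (P.lf 0 6563664 0) (P.cons (P.lf 680402 0 0) (P.cons (P.lf 10827 0 0) P.nil))) (P.cons (P.cons (P.lf 490470 0 0) (P.cons (P.lf 48424 0 0) P.nil)) (P.cons (P.cons (P.lf 100133 0 0) P.nil) P.nil)))))) 28263)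
 (EL.cons 8 (TM.mk (P.cons (P.cons (P.lf 0 23197742 0) (P.cons (P.lf 0 46600254 0) (P.cons (P.lf 0 741703 0) (P.lf 247233 0 0)))) (P.cons (P.cons (P.lf 171557370 0 0) (P.cons (P.lf 0 21770769 0) (P.cons (P.lf 0 346509 0) (P.lf 115502 0 0)))) (P.cons (P.cons (P.lf 13124999 0 0) (P.cons (P.lf 0 3280570 0) (P.cons (P.lf 0 52213 0) (P.lf 17403 0 0)))) (P.cons (P.cons (P.lf 0 4218108 0) (P.cons (P.lf 0 12042 0) (P.cons (P.lf 0 192 0) P.nil))) (P.cons (P.cons (P.lf 0 466436 0) (P.cons (P.lf 48018 0 0) P.nil)) (P.cons (P.cons (P.lf 23704 0 0) P.nil) P.nil)))))) 17087)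
 EL.nil))
noncomputable def S140_169_438_512_14 : EL := (EL.cons 4 (TM.mk (P.cons (P.cons (P.lf 690492 0 0) (P.cons (P.lf 2774162 0 0) (P.cons (P.lf 2830561 0 0) (P.cons (P.lf 73980 0 0) (P.cons (P.lf 0 28859 0) (P.cons (P.lf 0 469 0) P.nil)))))) (P.cons (P.cons (P.lf 0 10440532 0) (P.cons (P.lf 0 20134267 0) (P.cons (P.lf 1364859 0 0) (P.cons (P.lf 160468 0 0) (P.cons (P.lf 0 17454 0) P.nil))))) (P.cons (P.cons (P.lf 40391132 0 0) (P.cons (P.lf 0 4455750 0) (P.cons (P.lf 242168 0 0) (P.cons (P.lf 33604 0 0) P.nil)))) (P.cons (P.cons (P.lf 0 6789469 0) (P.cons (P.lf 734721 0 0) (P.cons (P.lf 0 1823 0) P.nil))) (P.cons (P.cons (P.lf 0 1228296 0) (P.cons (P.lf 249680 0 0) P.nil)) (P.cons (P.cons (P.lf 164748 0 0) P.nil) P.nil)))))) 151744)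
 (EL.cons 8 (TM.mk (P.cons (P.cons (P.lf 373153 0 0) (P.cons (P.lf 1499203 0 0) (P.cons (P.lf 1529682 0 0) (P.cons (P.lf 39980 0 0) (P.cons (P.lf 0 15596 0) (P.cons (P.lf 0 254 0) P.nil)))))) (P.cons (P.cons (P.lf 0 5562855 0) (P.cons (P.lf 0 10561965 0) (P.cons (P.lf 1063002 0 0) (P.cons (P.lf 95224 0 0) (P.cons (P.lf 0 12750 0) P.nil))))) (P.cons (P.cons (P.lf 20637241 0 0) (P.cons (P.lf 0 4684574 0) (P.cons (P.lf 326632 0 0) (P.cons (P.lf 37624 0 0) P.nil)))) (P.cons (P.cons (P.lf 832381 0 0) (P.cons (P.lf 0 386114 0) (P.cons (P.lf 51139 0 0) P.nil))) (P.cons (P.cons (P.lf 0 910195 0) (P.cons (P.lf 119533 0 0) P.nil)) (P.cons (P.cons (P.lf 0 69063 0) P.nil) P.nil)))))) 83798)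
 EL.nil))
noncomputable def S140_169_438_512_15 : EL := (EL.cons 4 (TM.mk (P.cons (P.lf 0 1768552689 0) (P.cons (P.lf 339330810 0 0) (P.cons (P.lf 11500469 0 0) (P.cons (P.lf 0 2498728 0) (P.cons (P.lf 0 210304 0) (P.cons (P.lf 2321 0 0) P.nil)))))) 1708)
 (EL.cons 8 (TM.mk (P.cons (P.lf 0 955755124 0) (P.cons (P.lf 0 19937749 0) (P.cons (P.lf 20950159 0 0) (P.cons (P.lf 1161554 0 0) (P.cons (P.lf 0 73087 0) (P.cons (P.lf 0 10388 0) P.nil)))))) 788)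
 EL.nil))
noncomputable def S140_169_438_512_16 : EL := (EL.cons 4 (TM.mk (P.cons (P.cons (P.lf 28448575 0 0) (P.cons (P.lf 57148269 0 0) (P.cons (P.lf 909588 0 0) (P.lf 0 303195 0)))) (P.cons (P.cons (P.lf 0 219170624 0) (P.cons (P.lf 9058960 0 0) (P.cons (P.lf 144183 0 0) (P.lf 0 48060 0)))) (P.cons (P.cons (P.lf 49765959 0 0) (P.cons (P.lf 0 2365605 0) (P.cons (P.lf 0 37651 0) (P.lf 12550 0 0)))) (P.cons (P.cons (P.lf 3244703 0 0) (P.cons (P.lf 0 517751 0) (P.cons (P.lf 0 8238 0) P.nil))) (P.cons (P.cons (P.lf 0 961030 0) (P.cons (P.lf 15959 0 0) P.nil)) (P.cons (P.cons (P.lf 0 75894 0) P.nil) P.nil)))))) 37722)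
 (EL.cons 8 (TM.mk (P.cons (P.cons (P.lf 15374080 0 0) (P.cons (P.lf 30883870 0 0) (P.cons (P.lf 491556 0 0) (P.lf 0 163851 0)))) (P.cons (P.cons (P.lf 0 115172902 0) (P.cons (P.lf 11465535 0 0) (P.cons (P.lf 182487 0 0) (P.lf 0 60828 0)))) (P.cons (P.cons (P.lf 2088370 0 0) (P.cons (P.lf 547452 0 0) (P.cons (P.lf 8712 0 0) (P.lf 0 2904 0)))) (P.cons (P.cons (P.lf 4522154 0 0) (P.cons (P.lf 0 315354 0) (P.cons (P.lf 0 5018 0) P.nil))) (P.cons (P.cons (P.lf 114959 0 0) (P.cons (P.lf 0 49595 0) P.nil)) (P.cons (P.cons (P.lf 0 69632 0) P.nil) P.nil)))))) 22135)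
 EL.nil))
noncomputable def S140_169_438_512_17 : EL := (EL.cons 4 (TM.mk (P.cons (P.cons (P.lf 0 457617 0) (P.cons (P.lf 0 1838550 0) (P.cons (P.lf 0 1875927 0) (P.cons (P.lf 0 49029 0) (P.cons (P.lf 19125 0 0) (P.cons (P.lf 311 0 0) P.nil)))))) (P.cons (P.cons (P.lf 6963264 0 0) (P.cons (P.lf 13520172 0 0) (P.cons (P.lf 0 724581 0) (P.cons (P.lf 0 101644 0) (P.cons (P.lf 9733 0 0) P.nil))))) (P.cons (P.cons (P.lf 0 27429046 0) (P.cons (P.lf 1687312 0 0) (P.cons (P.lf 0 58985 0) (P.cons (P.lf 0 11683 0) P.nil)))) (P.cons (P.cons (P.lf 7013396 0 0) (P.cons (P.lf 0 874928 0) (P.cons (P.lf 23796 0 0) P.nil))) (P.cons (P.cons (P.lf 592250 0 0) (P.cons (P.lf 0 142620 0) P.nil)) (P.cons (P.cons (P.lf 0 221193 0) P.nil) P.nil)))))) 143078)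
 (EL.cons 8 (TM.mk (P.cons (P.cons (P.lf 0 247303 0) (P.cons (P.lf 0 993582 0) (P.cons (P.lf 0 1013782 0) (P.cons (P.lf 0 26496 0) (P.cons (P.lf 10336 0 0) (P.cons (P.lf 168 0 0) P.nil)))))) (P.cons (P.cons (P.lf 3710453 0 0) (P.cons (P.lf 7095160 0 0) (P.cons (P.lf 0 607237 0) (P.cons (P.lf 0 60567 0) (P.cons (P.lf 7458 0 0) P.nil))))) (P.cons (P.cons (P.lf 0 14028875 0) (P.cons (P.lf 2440932 0 0) (P.cons (P.lf 0 140925 0) (P.cons (P.lf 0 18672 0) P.nil)))) (P.cons (P.cons (P.lf 731516 0 0) (P.cons (P.lf 0 96874 0) (P.cons (P.lf 0 7544 0) P.nil))) (P.cons (P.cons (P.lf 763374 0 0) (P.cons (P.lf 0 128502 0) P.nil)) (P.cons (P.cons (P.lf 0 7035 0) P.nil) P.nil)))))) 86789)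
 EL.nil))
noncomputable def S140_169_438_512_18 : EL := (EL.cons 4 (TM.mk (P.cons (P.lf 1172091282 0 0) (P.cons (P.lf 0 337332345 0) (P.cons (P.lf 4748184 0 0) (P.cons (P.lf 4098243 0 0) (P.cons (P.lf 79189 0 0) (P.cons (P.lf 0 31469 0) P.nil)))))) 3321)
 (EL.cons 8 (TM.mk (P.cons (P.lf 633417514 0 0) (P.cons (P.lf 0 47553107 0) (P.cons (P.lf 0 20126446 0) (P.cons (P.lf 428689 0 0) (P.cons (P.lf 245981 0 0) (P.cons (P.lf 10070 0 0) P.nil)))))) 1843)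
 EL.nil))
noncomputable def S140_169_438_512_19 : EL := (EL.cons 4 (TM.mk (P.cons (P.cons (P.lf 0 18854019 0) (P.cons (P.lf 0 37874465 0) (P.cons (P.lf 0 602820 0) (P.lf 200939 0 0)))) (P.cons (P.cons (P.lf 147061975 0 0) (P.cons (P.lf 0 2370266 0) (P.cons (P.lf 0 37724 0) (P.lf 12573 0 0)))) (P.cons (P.cons (P.lf 0 46768658 0) (P.cons (P.lf 2441180 0 0) (P.cons (P.lf 38854 0 0) (P.lf 0 12951 0)))) (P.cons (P.cons (P.lf 0 126092 0) (P.cons (P.lf 241656 0 0) (P.cons (P.lf 3844 0 0) P.nil))) (P.cons (P.cons (P.lf 1094946 0 0) (P.cons (P.lf 0 56438 0) P.nil)) (P.cons (P.cons (P.lf 11111 0 0) P.nil) P.nil)))))) 42256)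
 (EL.cons 8 (TM.mk (P.cons (P.cons (P.lf 0 10189024 0) (P.cons (P.lf 0 20467987 0) (P.cons (P.lf 0 325774 0) (P.lf 108591 0 0)))) (P.cons (P.cons (P.lf 77307213 0 0) (P.cons (P.lf 0 5635085 0) (P.cons (P.lf 0 89689 0) (P.lf 29895 0 0)))) (P.cons (P.cons (P.lf 0 8626695 0) (P.cons (P.lf 526894 0 0) (P.cons (P.lf 8386 0 0) (P.lf 0 2795 0)))) (P.cons (P.cons (P.lf 0 3463183 0) (P.cons (P.lf 304438 0 0) (P.cons (P.lf 4844 0 0) P.nil))) (P.cons (P.cons (P.lf 218368 0 0) (P.cons (P.lf 15531 0 0) P.nil)) (P.cons (P.cons (P.lf 78885 0 0) P.nil) P.nil)))))) 23548)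
 EL.nil))
noncomputable def S140_169_438_512_20 : EL := (EL.cons 4 (TM.mk (P.cons (P.cons (P.lf 303281 0 0) (P.cons (P.lf 1218480 0 0) (P.cons (P.lf 1243252 0 0) (P.cons (P.lf 32493 0 0) (P.cons (P.lf 0 12675 0) (P.cons (P.lf 0 206 0) P.nil)))))) (P.cons (P.cons (P.lf 0 4643931 0) (P.cons (P.lf 0 9077258 0) (P.cons (P.lf 360938 0 0) (P.cons (P.lf 64246 0 0) (P.cons (P.lf 0 5234 0) P.nil))))) (P.cons (P.cons (P.lf 18618677 0 0) (P.cons (P.lf 0 268210 0) (P.cons (P.lf 0 16739 0) (P.cons (P.lf 1025 0 0) P.nil)))) (P.cons (P.cons (P.lf 0 6355765 0) (P.cons (P.lf 757439 0 0) (P.cons (P.lf 0 23350 0) P.nil))) (P.cons (P.cons (P.lf 0 89130 0) (P.cons (P.lf 48124 0 0) P.nil)) (P.cons (P.cons (P.lf 219786 0 0) P.nil) P.nil)))))) 122315)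
 (EL.cons 8 (TM.mk (P.cons (P.cons (P.lf 163898 0 0) (P.cons (P.lf 658487 0 0) (P.cons (P.lf 671874 0 0) (P.cons (P.lf 17560 0 0) (P.cons (P.lf 0 6850 0) (P.cons (P.lf 0 111 0) P.nil)))))) (P.cons (P.cons (P.lf 0 2474791 0) (P.cons (P.lf 0 4765420 0) (P.cons (P.lf 337984 0 0) (P.cons (P.lf 38455 0 0) (P.cons (P.lf 0 4286 0) P.nil))))) (P.cons (P.cons (P.lf 9532124 0 0) (P.cons (P.lf 0 1171767 0) (P.cons (P.lf 49512 0 0) (P.cons (P.lf 8386 0 0) P.nil)))) (P.cons (P.cons (P.lf 0 1357454 0) (P.cons (P.lf 256292 0 0) (P.cons (P.lf 0 7151 0) P.nil))) (P.cons (P.cons (P.lf 0 532304 0) (P.cons (P.lf 91945 0 0) P.nil)) (P.cons (P.cons (P.lf 56509 0 0) P.nil) P.nil)))))) 79140)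
 EL.nil))
noncomputable def S140_169_438_512_21 : EL := (EL.cons 4 (TM.mk (P.cons (P.cons (P.lf 0 2760961956 0) (P.cons (P.lf 258690753 0 0) (P.cons (P.lf 4117398 0 0) (P.lf 0 1372458 0)))) (P.cons (P.cons (P.lf 38235825 0 0) (P.cons (P.lf 65824221 0 0) (P.cons (P.lf 1047669 0 0) (P.lf 0 349215 0)))) (P.cons (P.cons (P.lf 166793697 0 0) (P.cons (P.lf 0 2361945 0) (P.cons (P.lf 0 37596 0) (P.lf 12531 0 0)))) (P.cons (P.cons (P.lf 12194814 0 0) (P.cons (P.lf 0 2041206 0) (P.cons (P.lf 0 32481 0) P.nil))) (P.cons (P.cons (P.lf 0 2102325 0) (P.cons (P.lf 0 145272 0) P.nil)) (P.cons (P.cons (P.lf 0 293436 0) P.nil) P.nil)))))) 89697)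
 (EL.cons 8 (TM.mk (P.cons (P.cons (P.lf 1816516137 0 0) (P.cons (P.lf 0 170200083 0) (P.cons (P.lf 0 2708964 0) (P.lf 902991 0 0)))) (P.cons (P.cons (P.lf 0 411583812 0) (P.cons (P.lf 0 7100997 0) (P.cons (P.lf 0 113025 0) (P.lf 37677 0 0)))) (P.cons (P.cons (P.lf 0 68319990 0) (P.cons (P.lf 7387506 0 0) (P.cons (P.lf 117579 0 0) (P.lf 0 39189 0)))) (P.cons (P.cons (P.lf 10373109 0 0) (P.cons (P.lf 569352 0 0) (P.cons (P.lf 9063 0 0) P.nil))) (P.cons (P.cons (P.lf 1463583 0 0) (P.cons (P.lf 0 99177 0) P.nil)) (P.cons (P.cons (P.lf 0 55032 0) P.nil) P.nil)))))) 57477)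
 (EL.cons 11 (TM.mk (P.cons (P.cons (P.lf 1426180074 0 0) (P.cons (P.lf 52866549 0 0) (P.cons (P.lf 0 26195565 0) (P.cons (P.lf 0 237708 0) (P.lf 59427 0 0))))) (P.cons (P.cons (P.lf 333142359 0 0) (P.cons (P.lf 12349131 0 0) (P.cons (P.lf 0 6119037 0) (P.cons (P.lf 0 55524 0) (P.lf 13881 0 0))))) (P.cons (P.cons (P.lf 11290737 0 0) (P.cons (P.lf 418530 0 0) (P.cons (P.lf 0 207384 0) (P.cons (P.lf 0 1881 0) P.nil)))) (P.cons (P.cons (P.lf 0 2453151 0) (P.cons (P.lf 0 90933 0) (P.cons (P.lf 45057 0 0) P.nil))) (P.cons (P.cons (P.lf 0 206469 0) (P.cons (P.lf 0 7653 0) P.nil)) (P.cons (P.cons (P.lf 2274 0 0) P.nil) P.nil)))))) 6543)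
 EL.nil)))
noncomputable def S140_169_438_512_22 : EL := (EL.cons 4 (TM.mk (P.cons (P.cons (P.lf 44412267 0 0) (P.cons (P.lf 85055319 0 0) (P.cons (P.lf 0 7005456 0) (P.cons (P.lf 0 717348 0) (P.cons (P.lf 86580 0 0) (P.cons (P.lf 1410 0 0) P.nil)))))) (P.cons (P.cons (P.lf 0 334250181 0) (P.cons (P.lf 60226101 0 0) (P.cons (P.lf 0 4097394 0) (P.cons (P.lf 0 480465 0) (P.cons (P.lf 52365 0 0) P.nil))))) (P.cons (P.cons (P.lf 15903639 0 0) (P.cons (P.lf 3745992 0 0) (P.cons (P.lf 0 879645 0) (P.cons (P.lf 0 49770 0) P.nil)))) (P.cons (P.cons (P.lf 25278636 0 0) (P.cons (P.lf 0 3602088 0) (P.cons (P.lf 0 16776 0) P.nil))) (P.cons (P.cons (P.lf 701730 0 0) (P.cons (P.lf 0 661647 0) P.nil)) (P.cons (P.cons (P.lf 0 686325 0) P.nil) P.nil)))))) 331608)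
 (EL.cons 8 (TM.mk (P.cons (P.cons (P.lf 0 29220105 0) (P.cons (P.lf 0 55960335 0) (P.cons (P.lf 4609092 0 0) (P.cons (P.lf 471963 0 0) (P.cons (P.lf 0 56964 0) (P.cons (P.lf 0 927 0) P.nil)))))) (P.cons (P.cons (P.lf 226128780 0 0) (P.cons (P.lf 0 27720042 0) (P.cons (P.lf 1715301 0 0) (P.cons (P.lf 215712 0 0) (P.cons (P.lf 0 22335 0) P.nil))))) (P.cons (P.cons (P.lf 0 57825657 0) (P.cons (P.lf 4853625 0 0) (P.cons (P.lf 96780 0 0) (P.cons (P.lf 0 25128 0) P.nil)))) (P.cons (P.cons (P.lf 0 9967728 0) (P.cons (P.lf 2244516 0 0) (P.cons (P.lf 0 69840 0) P.nil))) (P.cons (P.cons (P.lf 2322111 0 0) (P.cons (P.lf 0 35847 0) P.nil)) (P.cons (P.cons (P.lf 305508 0 0) P.nil) P.nil)))))) 207738)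
 (EL.cons 11 (TM.mk (P.cons (P.cons (P.lf 0 22941240 0) (P.cons (P.lf 0 46935384 0) (P.cons (P.lf 0 2020431 0) (P.cons (P.lf 1067604 0 0) (P.cons (P.lf 29259 0 0) (P.cons (P.lf 0 6288 0) P.nil)))))) (P.cons (P.cons (P.lf 166980990 0 0) (P.cons (P.lf 0 20722797 0) (P.cons (P.lf 0 4493004 0) (P.cons (P.lf 593391 0 0) (P.cons (P.lf 24603 0 0) P.nil))))) (P.cons (P.cons (P.lf 32861079 0 0) (P.cons (P.lf 0 4408884 0) (P.cons (P.lf 0 901725 0) (P.cons (P.lf 124410 0 0) P.nil)))) (P.cons (P.cons (P.lf 0 3129018 0) (P.cons (P.lf 0 420963 0) (P.cons (P.lf 41310 0 0) P.nil))) (P.cons (P.cons (P.lf 0 1074489 0) (P.cons (P.lf 27564 0 0) P.nil)) (P.cons (P.cons (P.lf 0 27897 0) P.nil) P.nil)))))) 92481)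
 EL.nil)))
noncomputable def S140_169_438_512_23 : EL := (EL.cons 4 (TM.mk (P.cons (P.cons (P.lf 1829800977 0 0) (P.cons (P.lf 0 171444807 0) (P.cons (P.lf 0 2728764 0) (P.lf 909582 0 0)))) (P.cons (P.cons (P.lf 0 200881659 0) (P.cons (P.lf 0 27176877 0) (P.cons (P.lf 0 432549 0) (P.lf 144177 0 0)))) (P.cons (P.cons (P.lf 0 122479509 0) (P.cons (P.lf 7096815 0 0) (P.cons (P.lf 112956 0 0) (P.lf 0 37650 0)))) (P.cons (P.cons (P.lf 2635791 0 0) (P.cons (P.lf 1553253 0 0) (P.cons (P.lf 24714 0 0) P.nil))) (P.cons (P.cons (P.lf 3082047 0 0) (P.cons (P.lf 0 47880 0) P.nil)) (P.cons (P.cons (P.lf 131211 0 0) P.nil) P.nil)))))) 128127)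
 (EL.cons 8 (TM.mk (P.cons (P.cons (P.lf 0 1203878595 0) (P.cons (P.lf 112798467 0 0) (P.cons (P.lf 1795338 0 0) (P.lf 0 598446 0)))) (P.cons (P.cons (P.lf 388266828 0 0) (P.cons (P.lf 0 6115158 0) (P.cons (P.lf 0 97326 0) (P.lf 32439 0 0)))) (P.cons (P.cons (P.lf 28564206 0 0) (P.cons (P.lf 0 6233295 0) (P.cons (P.lf 0 99207 0) (P.lf 33066 0 0)))) (P.cons (P.cons (P.lf 0 13304037 0) (P.cons (P.lf 50109 0 0) (P.cons (P.lf 795 0 0) P.nil))) (P.cons (P.cons (P.lf 0 707871 0) (P.cons (P.lf 142875 0 0) P.nil)) (P.cons (P.cons (P.lf 186414 0 0) P.nil) P.nil)))))) 70476)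
 (EL.cons 11 (TM.mk (P.cons (P.cons (P.lf 0 945187122 0) (P.cons (P.lf 0 35036796 0) (P.cons (P.lf 17360856 0 0) (P.cons (P.lf 157536 0 0) (P.lf 0 39384 0))))) (P.cons (P.cons (P.lf 0 130110738 0) (P.cons (P.lf 0 4823025 0) (P.cons (P.lf 2389824 0 0) (P.cons (P.lf 21684 0 0) (P.lf 0 5421 0))))) (P.cons (P.cons (P.lf 21120927 0 0) (P.cons (P.lf 782925 0 0) (P.cons (P.lf 0 387939 0) (P.cons (P.lf 0 3519 0) P.nil)))) (P.cons (P.cons (P.lf 4121904 0 0) (P.cons (P.lf 152790 0 0) (P.cons (P.lf 0 75708 0) P.nil))) (P.cons (P.cons (P.lf 27198 0 0) (P.cons (P.lf 1005 0 0) P.nil)) (P.cons (P.cons (P.lf 0 33591 0) P.nil) P.nil)))))) 14757)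
 EL.nil)))
noncomputable def S140_169_438_512_24 : EL := (EL.cons 4 (TM.mk (P.cons (P.cons (P.lf 0 29433801 0) (P.cons (P.lf 0 56369595 0) (P.cons (P.lf 4642800 0 0) (P.cons (P.lf 475416 0 0) (P.cons (P.lf 0 57378 0) (P.cons (P.lf 0 933 0) P.nil)))))) (P.cons (P.cons (P.lf 224344812 0 0) (P.cons (P.lf 0 34506471 0) (P.cons (P.lf 2270103 0 0) (P.cons (P.lf 272814 0 0) (P.cons (P.lf 0 29199 0) P.nil))))) (P.cons (P.cons (P.lf 0 31560375 0) (P.cons (P.lf 1789212 0 0) (P.cons (P.lf 286002 0 0) (P.cons (P.lf 0 1296 0) P.nil)))) (P.cons (P.cons (P.lf 0 17480268 0) (P.cons (P.lf 2941515 0 0) (P.cons (P.lf 0 66351 0) P.nil))) (P.cons (P.cons (P.lf 1213803 0 0) (P.cons (P.lf 229491 0 0) P.nil)) (P.cons (P.cons (P.lf 636834 0 0) P.nil) P.nil)))))) 319380)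
 (EL.cons 8 (TM.mk (P.cons (P.cons (P.lf 19365342 0 0) (P.cons (P.lf 37087173 0 0) (P.cons (P.lf 0 3054630 0) (P.cons (P.lf 0 312789 0) (P.cons (P.lf 37752 0 0) (P.cons (P.lf 615 0 0) P.nil)))))) (P.cons (P.cons (P.lf 0 151722480 0) (P.cons (P.lf 14813247 0 0) (P.cons (P.lf 0 843753 0) (P.cons (P.lf 0 112953 0) (P.cons (P.lf 11181 0 0) P.nil))))) (P.cons (P.cons (P.lf 52548528 0 0) (P.cons (P.lf 0 5270376 0) (P.cons (P.lf 68904 0 0) (P.cons (P.lf 32823 0 0) P.nil)))) (P.cons (P.cons (P.lf 4105470 0 0) (P.cons (P.lf 0 1324950 0) (P.cons (P.lf 61509 0 0) P.nil))) (P.cons (P.cons (P.lf 0 2466156 0) (P.cons (P.lf 191754 0 0) P.nil)) (P.cons (P.cons (P.lf 0 112098 0) P.nil) P.nil)))))) 188577)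
 (EL.cons 11 (TM.mk (P.cons (P.cons (P.lf 15204084 0 0) (P.cons (P.lf 31105974 0 0) (P.cons (P.lf 1339020 0 0) (P.cons (P.lf 0 707544 0) (P.cons (P.lf 0 19392 0) (P.cons (P.lf 4167 0 0) P.nil)))))) (P.cons (P.cons (P.lf 0 112123641 0) (P.cons (P.lf 10749693 0 0) (P.cons (P.lf 2849235 0 0) (P.cons (P.lf 0 325386 0) (P.cons (P.lf 0 14445 0) P.nil))))) (P.cons (P.cons (P.lf 0 11281155 0) (P.cons (P.lf 1360116 0 0) (P.cons (P.lf 301428 0 0) (P.cons (P.lf 0 39168 0) P.nil)))) (P.cons (P.cons (P.lf 5031375 0 0) (P.cons (P.lf 0 110637 0) (P.cons (P.lf 0 108156 0) P.nil))) (P.cons (P.cons (P.lf 689754 0 0) (P.cons (P.lf 0 67875 0) P.nil)) (P.cons (P.cons (P.lf 0 67737 0) P.nil) P.nil)))))) 90366)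
 EL.nil)))
noncomputable def S140_169_438_512_25 : EL := (EL.cons 4 (TM.mk (P.cons (P.cons (P.lf 0 1212682995 0) (P.cons (P.lf 113623395 0 0) (P.cons (P.lf 1808463 0 0) (P.lf 0 602817 0)))) (P.cons (P.cons (P.lf 249470652 0 0) (P.cons (P.lf 7110798 0 0) (P.cons (P.lf 113172 0 0) (P.lf 0 37719 0)))) (P.cons (P.cons (P.lf 77923437 0 0) (P.cons (P.lf 0 7323540 0) (P.cons (P.lf 0 116562 0) (P.lf 38853 0 0)))) (P.cons (P.cons (P.lf 0 10522626 0) (P.cons (P.lf 0 724968 0) (P.cons (P.lf 0 11535 0) P.nil))) (P.cons (P.cons (P.lf 0 2547963 0) (P.cons (P.lf 169317 0 0) P.nil)) (P.cons (P.cons (P.lf 120549 0 0) P.nil) P.nil)))))) 131295)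
 (EL.cons 8 (TM.mk (P.cons (P.cons (P.lf 797858958 0 0) (P.cons (P.lf 0 74756097 0) (P.cons (P.lf 0 1189842 0) (P.lf 396615 0 0)))) (P.cons (P.cons (P.lf 0 333862389 0) (P.cons (P.lf 11224458 0 0) (P.cons (P.lf 178650 0 0) (P.lf 0 59547 0)))) (P.cons (P.cons (P.lf 0 510417 0) (P.cons (P.lf 4329324 0 0) (P.cons (P.lf 68904 0 0) (P.lf 0 22965 0)))) (P.cons (P.cons (P.lf 12616527 0 0) (P.cons (P.lf 0 457836 0) (P.cons (P.lf 0 7284 0) P.nil))) (P.cons (P.cons (P.lf 0 196743 0) (P.cons (P.lf 0 125937 0) P.nil)) (P.cons (P.cons (P.lf 0 242079 0) P.nil) P.nil)))))) 74007)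
 (EL.cons 11 (TM.mk (P.cons (P.cons (P.lf 626413674 0 0) (P.cons (P.lf 23220300 0 0) (P.cons (P.lf 0 11505741 0) (P.cons (P.lf 0 104406 0) (P.lf 26100 0 0))))) (P.cons (P.cons (P.lf 26134890 0 0) (P.cons (P.lf 968784 0 0) (P.cons (P.lf 0 480033 0) (P.cons (P.lf 0 4353 0) (P.lf 1086 0 0))))) (P.cons (P.cons (P.lf 0 27189387 0) (P.cons (P.lf 0 1007874 0) (P.cons (P.lf 499404 0 0) (P.cons (P.lf 4530 0 0) P.nil)))) (P.cons (P.cons (P.lf 0 2095470 0) (P.cons (P.lf 0 77673 0) (P.cons (P.lf 38487 0 0) P.nil))) (P.cons (P.cons (P.lf 365025 0 0) (P.cons (P.lf 13530 0 0) P.nil)) (P.cons (P.cons (P.lf 48987 0 0) P.nil) P.nil)))))) 21768)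
 EL.nil)))
noncomputable def S140_169_438_512_26 : EL := (EL.cons 4 (TM.mk (P.cons (P.cons (P.lf 19506969 0 0) (P.cons (P.lf 37358406 0 0) (P.cons (P.lf 0 3076971 0) (P.cons (P.lf 0 315075 0) (P.cons (P.lf 38028 0 0) (P.cons (P.lf 618 0 0) P.nil)))))) (P.cons (P.cons (P.lf 0 150553758 0) (P.cons (P.lf 19284867 0 0) (P.cons (P.lf 0 1209300 0) (P.cons (P.lf 0 150576 0) (P.cons (P.lf 15702 0 0) P.nil))))) (P.cons (P.cons (P.lf 35026929 0 0) (P.cons (P.lf 0 3673074 0) (P.cons (P.lf 0 21048 0) (P.cons (P.lf 20676 0 0) P.nil)))) (P.cons (P.cons (P.lf 10744980 0 0) (P.cons (P.lf 0 2017047 0) (P.cons (P.lf 74115 0 0) P.nil))) (P.cons (P.cons (P.lf 0 2072634 0) (P.cons (P.lf 44064 0 0) P.nil)) (P.cons (P.cons (P.lf 0 440403 0) P.nil) P.nil)))))) 296148)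
 (EL.cons 8 (TM.mk (P.cons (P.cons (P.lf 0 12834195 0) (P.cons (P.lf 0 24579168 0) (P.cons (P.lf 2024427 0 0) (P.cons (P.lf 207297 0 0) (P.cons (P.lf 0 25020 0) (P.cons (P.lf 0 405 0) P.nil)))))) (P.cons (P.cons (P.lf 101783856 0 0) (P.cons (P.lf 0 7459344 0) (P.cons (P.lf 364977 0 0) (P.cons (P.lf 54972 0 0) (P.cons (P.lf 0 5007 0) P.nil))))) (P.cons (P.cons (P.lf 0 44371719 0) (P.cons (P.lf 4627734 0 0) (P.cons (P.lf 0 115209 0) (P.cons (P.lf 0 30561 0) P.nil)))) (P.cons (P.cons (P.lf 0 168885 0) (P.cons (P.lf 621258 0 0) (P.cons (P.lf 0 40869 0) P.nil))) (P.cons (P.cons (P.lf 2163906 0 0) (P.cons (P.lf 0 238884 0) P.nil)) (P.cons (P.cons (P.lf 0 57093 0) P.nil) P.nil)))))) 167604)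
 (EL.cons 11 (TM.mk (P.cons (P.cons (P.lf 0 10076361 0) (P.cons (P.lf 0 20615184 0) (P.cons (P.lf 0 887424 0) (P.cons (P.lf 468918 0 0) (P.cons (P.lf 12852 0 0) (P.cons (P.lf 0 2760 0) P.nil)))))) (P.cons (P.cons (P.lf 75275538 0 0) (P.cons (P.lf 0 5146545 0) (P.cons (P.lf 0 1803168 0) (P.cons (P.lf 170661 0 0) (P.cons (P.lf 8340 0 0) P.nil))))) (P.cons (P.cons (P.lf 426816 0 0) (P.cons (P.lf 0 56049 0) (P.cons (P.lf 0 11646 0) (P.cons (P.lf 1587 0 0) P.nil)))) (P.cons (P.cons (P.lf 0 4634829 0) (P.cons (P.lf 216714 0 0) (P.cons (P.lf 105714 0 0) P.nil))) (P.cons (P.cons (P.lf 0 199680 0) (P.cons (P.lf 44865 0 0) P.nil)) (P.cons (P.cons (P.lf 116358 0 0) P.nil) P.nil)))))) 83907)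
 EL.nil)))
noncomputable def S140_169_438_512_27 : EL := (EL.cons 13 (TM.mk (P.lf 0 4294967296 0) 0)
 EL.nil)
noncomputable def S140_169_438_512_28 : EL := (EL.cons 13 (TM.mk (P.cons (P.cons (P.lf 69087963 0 0) (P.cons (P.lf 138785772 0 0) (P.cons (P.lf 2208956 0 0) (P.lf 0 736316 0)))) (P.cons (P.cons (P.lf 0 519004605 0) (P.cons (P.lf 48628592 0 0) (P.cons (P.lf 773984 0 0) (P.lf 0 257992 0)))) (P.cons (P.cons (P.lf 21725935 0 0) (P.cons (P.lf 4487896 0 0) (P.cons (P.lf 71428 0 0) (P.lf 0 23808 0)))) (P.cons (P.cons (P.lf 8575796 0 0) (P.cons (P.lf 0 276148 0) (P.cons (P.lf 0 4392 0) P.nil))) (P.cons (P.cons (P.lf 177894 0 0) (P.cons (P.lf 0 70252 0) P.nil)) (P.cons (P.cons (P.lf 0 63303 0) P.nil) P.nil)))))) 16815)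
 EL.nil)
noncomputable def S140_169_438_512_29 : EL := (EL.cons 13 (TM.mk (P.cons (P.cons (P.lf 0 1111334 0) (P.cons (P.lf 0 4464958 0) (P.cons (P.lf 0 4555730 0) (P.cons (P.lf 0 119070 0) (P.cons (P.lf 46449 0 0) (P.cons (P.lf 757 0 0) P.nil)))))) (P.cons (P.cons (P.lf 16697203 0 0) (P.cons (P.lf 31977335 0 0) (P.cons (P.lf 0 2633766 0) (P.cons (P.lf 0 269694 0) (P.cons (P.lf 32550 0 0) P.nil))))) (P.cons (P.cons (P.lf 0 63415565 0) (P.cons (P.lf 10204107 0 0) (P.cons (P.lf 0 678212 0) (P.cons (P.lf 0 80895 0) P.nil)))) (P.cons (P.cons (P.lf 4974834 0 0) (P.cons (P.lf 47319 0 0) (P.cons (P.lf 0 83026 0) P.nil))) (P.cons (P.cons (P.lf 1956978 0 0) (P.cons (P.lf 0 315574 0) P.nil)) (P.cons (P.cons (P.lf 0 41730 0) P.nil) P.nil)))))) 143965)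
 EL.nil)
noncomputable def S140_169_438_512_30 : EL := (EL.cons 13 (TM.mk (P.cons (P.lf 2846448260 0 0) (P.cons (P.lf 0 273072892 0) (P.cons (P.lf 0 22353452 0) (P.cons (P.lf 0 133644 0) (P.cons (P.lf 68648 0 0) (P.cons (P.lf 3668 0 0) P.nil)))))) 396)
 EL.nil)
noncomputable def S140_169_438_512_31 : EL := (EL.cons 13 (TM.mk (P.cons (P.cons (P.lf 0 45787382 0) (P.cons (P.lf 0 91978935 0) (P.cons (P.lf 0 1463964 0) (P.lf 487986 0 0)))) (P.cons (P.cons (P.lf 348357903 0 0) (P.cons (P.lf 0 23404168 0) (P.cons (P.lf 0 372505 0) (P.lf 124166 0 0)))) (P.cons (P.cons (P.lf 0 47037257 0) (P.cons (P.lf 839803 0 0) (P.cons (P.lf 13368 0 0) (P.lf 0 4456 0)))) (P.cons (P.cons (P.lf 0 7001242 0) (P.cons (P.lf 725763 0 0) (P.cons (P.lf 11549 0 0) P.nil))) (P.cons (P.cons (P.lf 523169 0 0) (P.cons (P.lf 51653 0 0) P.nil)) (P.cons (P.cons (P.lf 106809 0 0) P.nil) P.nil)))))) 30127)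
 EL.nil)
noncomputable def S140_169_438_512_32 : EL := (EL.cons 13 (TM.mk (P.cons (P.cons (P.lf 736525 0 0) (P.cons (P.lf 2959107 0 0) (P.cons (P.lf 3019266 0 0) (P.cons (P.lf 78912 0 0) (P.cons (P.lf 0 30783 0) (P.cons (P.lf 0 501 0) P.nil)))))) (P.cons (P.cons (P.lf 0 11136568 0) (P.cons (P.lf 0 21476552 0) (P.cons (P.lf 1455850 0 0) (P.cons (P.lf 171166 0 0) (P.cons (P.lf 0 18618 0) P.nil))))) (P.cons (P.cons (P.lf 43083875 0 0) (P.cons (P.lf 0 4752801 0) (P.cons (P.lf 258313 0 0) (P.cons (P.lf 35845 0 0) P.nil)))) (P.cons (P.cons (P.lf 0 7242101 0) (P.cons (P.lf 783703 0 0) (P.cons (P.lf 0 1945 0) P.nil))) (P.cons (P.cons (P.lf 0 1310183 0) (P.cons (P.lf 266326 0 0) P.nil)) (P.cons (P.cons (P.lf 175732 0 0) P.nil) P.nil)))))) 161837)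
 EL.nil)
noncomputable def S140_169_438_512_33 : EL := (EL.cons 14 (TM.mk (P.lf 8589934592 0 0) 0)
 EL.nil)
noncomputable def S140_169_438_512_34 : EL := (EL.cons 14 (TM.mk (P.cons (P.cons (P.lf 0 138175926 0) (P.cons (P.lf 0 277571544 0) (P.cons (P.lf 0 4417912 0) (P.lf 1472632 0 0)))) (P.cons (P.cons (P.lf 1038009210 0 0) (P.cons (P.lf 0 97257184 0) (P.cons (P.lf 0 1547968 0) (P.lf 515984 0 0)))) (P.cons (P.cons (P.lf 0 43451870 0) (P.cons (P.lf 0 8975792 0) (P.cons (P.lf 0 142856 0) (P.lf 47616 0 0)))) (P.cons (P.cons (P.lf 0 17151592 0) (P.cons (P.lf 552296 0 0) (P.cons (P.lf 8784 0 0) P.nil))) (P.cons (P.cons (P.lf 0 355788 0) (P.cons (P.lf 140504 0 0) P.nil)) (P.cons (P.cons (P.lf 126606 0 0) P.nil) P.nil)))))) 33630)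
 EL.nil)
noncomputable def S140_169_438_512_35 : EL := (EL.cons 14 (TM.mk (P.cons (P.cons (P.lf 2222668 0 0) (P.cons (P.lf 8929916 0 0) (P.cons (P.lf 9111460 0 0) (P.cons (P.lf 238140 0 0) (P.cons (P.lf 0 92898 0) (P.cons (P.lf 0 1514 0) P.nil)))))) (P.cons (P.cons (P.lf 0 33394406 0) (P.cons (P.lf 0 63954670 0) (P.cons (P.lf 5267532 0 0) (P.cons (P.lf 539388 0 0) (P.cons (P.lf 0 65100 0) P.nil))))) (P.cons (P.cons (P.lf 126831130 0 0) (P.cons (P.lf 0 20408214 0) (P.cons (P.lf 1356424 0 0) (P.cons (P.lf 161790 0 0) P.nil)))) (P.cons (P.cons (P.lf 0 9949668 0) (P.cons (P.lf 0 94638 0) (P.cons (P.lf 166052 0 0) P.nil))) (P.cons (P.cons (P.lf 0 3913956 0) (P.cons (P.lf 631148 0 0) P.nil)) (P.cons (P.cons (P.lf 83460 0 0) P.nil) P.nil)))))) 287930)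
 EL.nil)
noncomputable def S140_169_438_512_36 : EL := (EL.cons 14 (TM.mk (P.cons (P.lf 0 5692896520 0) (P.cons (P.lf 546145784 0 0) (P.cons (P.lf 44706904 0 0) (P.cons (P.lf 267288 0 0) (P.cons (P.lf 0 137296 0) (P.cons (P.lf 0 7336 0) P.nil)))))) 792)
 EL.nil)
noncomputable def S140_169_438_512_37 : EL := (EL.cons 14 (TM.mk (P.cons (P.cons (P.lf 91574764 0 0) (P.cons (P.lf 183957870 0 0) (P.cons (P.lf 2927928 0 0) (P.lf 0 975972 0)))) (P.cons (P.cons (P.lf 0 696715806 0) (P.cons (P.lf 46808336 0 0) (P.cons (P.lf 745010 0 0) (P.lf 0 248332 0)))) (P.cons (P.cons (P.lf 94074514 0 0) (P.cons (P.lf 0 1679606 0) (P.cons (P.lf 0 26736 0) (P.lf 8912 0 0)))) (P.cons (P.cons (P.lf 14002484 0 0) (P.cons (P.lf 0 1451526 0) (P.cons (P.lf 0 23098 0) P.nil))) (P.cons (P.cons (P.lf 0 1046338 0) (P.cons (P.lf 0 103306 0) P.nil)) (P.cons (P.cons (P.lf 0 213618 0) P.nil) P.nil))))))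 60254)
 EL.nil)
noncomputable def S140_169_438_512_38 : EL := (EL.cons 14 (TM.mk (P.cons (P.cons (P.lf 0 1473050 0) (P.cons (P.lf 0 5918214 0) (P.cons (P.lf 0 6038532 0) (P.cons (P.lf 0 157824 0) (P.cons (P.lf 61566 0 0) (P.cons (P.lf 1002 0 0) P.nil)))))) (P.cons (P.cons (P.lf 22273136 0 0) (P.cons (P.lf 42953104 0 0) (P.cons (P.lf 0 2911700 0) (P.cons (P.lf 0 342332 0) (P.cons (P.lf 37236 0 0) P.nil))))) (P.cons (P.cons (P.lf 0 86167750 0) (P.cons (P.lf 9505602 0 0) (P.cons (P.lf 0 516626 0) (P.cons (P.lf 0 71690 0) P.nil)))) (P.cons (P.cons (P.lf 14484202 0 0) (P.cons (P.lf 0 1567406 0) (P.cons (P.lf 3890 0 0) P.nil))) (P.cons (P.cons (P.lf 2620366 0 0) (P.cons (P.lf 0 532652 0) P.nil)) (P.cons (P.cons (P.lf 0 351464 0) P.nil) P.nil)))))) 323674)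
 EL.nil)
noncomputable def S140_169_438_512_39 : EL := (EL.cons 14 (TM.mk (P.cons (P.lf 3772912404 0 0) (P.cons (P.lf 0 723905728 0) (P.cons (P.lf 0 24534334 0) (P.cons (P.lf 5330620 0 0) (P.cons (P.lf 448650 0 0) (P.cons (P.lf 0 4952 0) P.nil)))))) 3630)
 EL.nil)
noncomputable def S140_169_438_512_40 : EL := (EL.cons 14 (TM.mk (P.cons (P.cons (P.lf 0 60690294 0) (P.cons (P.lf 0 121916308 0) (P.cons (P.lf 0 1940456 0) (P.lf 646816 0 0)))) (P.cons (P.cons (P.lf 467563998 0 0) (P.cons (P.lf 0 19325782 0) (P.cons (P.lf 0 307592 0) (P.lf 102528 0 0)))) (P.cons (P.cons (P.lf 0 106167380 0) (P.cons (P.lf 5046626 0 0) (P.cons (P.lf 80324 0 0) (P.lf 0 26774 0)))) (P.cons (P.cons (P.lf 0 6922034 0) (P.cons (P.lf 1104536 0 0) (P.cons (P.lf 17576 0 0) P.nil))) (P.cons (P.cons (P.lf 2050198 0 0) (P.cons (P.lf 0 34046 0) P.nil)) (P.cons (P.cons (P.lf 161908 0 0) P.nil) P.nil))))))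 80434)
 EL.nil)
noncomputable def S140_169_438_512_41 : EL := (EL.cons 14 (TM.mk (P.cons (P.cons (P.lf 976250 0 0) (P.cons (P.lf 3922240 0 0) (P.cons (P.lf 4001978 0 0) (P.cons (P.lf 104596 0 0) (P.cons (P.lf 0 40802 0) (P.cons (P.lf 0 664 0) P.nil)))))) (P.cons (P.cons (P.lf 0 14854964 0) (P.cons (P.lf 0 28843034 0) (P.cons (P.lf 1545774 0 0) (P.cons (P.lf 216842 0 0) (P.cons (P.lf 0 20764 0) P.nil))))) (P.cons (P.cons (P.lf 58515300 0 0) (P.cons (P.lf 0 3599600 0) (P.cons (P.lf 125836 0 0) (P.cons (P.lf 24924 0 0) P.nil)))) (P.cons (P.cons (P.lf 0 14961912 0) (P.cons (P.lf 1866514 0 0) (P.cons (P.lf 0 50766 0) P.nil))) (P.cons (P.cons (P.lf 0 1263468 0) (P.cons (P.lf 304258 0 0) P.nil)) (P.cons (P.cons (P.lf 471880 0 0) P.nil) P.nil)))))) 305188)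
 EL.nil)
noncomputable def S140_169_438_512_42 : EL := (EL.cons 14 (TM.mk (P.cons (P.lf 0 2500461402 0) (P.cons (P.lf 719642336 0 0) (P.cons (P.lf 0 10129460 0) (P.cons (P.lf 0 8742920 0) (P.cons (P.lf 0 168938 0) (P.cons (P.lf 67134 0 0) P.nil)))))) 7070)
 EL.nil)
noncomputable def S140_169_438_512_43 : EL := (EL.cons 14 (TM.mk (P.cons (P.cons (P.lf 40221908 0 0) (P.cons (P.lf 80798860 0 0) (P.cons (P.lf 1286018 0 0) (P.lf 0 428670 0)))) (P.cons (P.cons (P.lf 0 313732214 0) (P.cons (P.lf 5056568 0 0) (P.cons (P.lf 80478 0 0) (P.lf 0 26824 0)))) (P.cons (P.cons (P.lf 99773138 0 0) (P.cons (P.lf 0 5207852 0) (P.cons (P.lf 0 82890 0) (P.lf 27630 0 0)))) (P.cons (P.cons (P.lf 268998 0 0) (P.cons (P.lf 0 515534 0) (P.cons (P.lf 0 8202 0) P.nil))) (P.cons (P.cons (P.lf 0 2335886 0) (P.cons (P.lf 120402 0 0) P.nil)) (P.cons (P.cons (P.lf 0 23704 0) P.nil) P.nil)))))) 90106)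
 EL.nil)
noncomputable def S140_169_438_512_44 : EL := (EL.cons 14 (TM.mk (P.cons (P.cons (P.lf 0 647000 0) (P.cons (P.lf 0 2599426 0) (P.cons (P.lf 0 2652272 0) (P.cons (P.lf 0 69320 0) (P.cons (P.lf 27040 0 0) (P.cons (P.lf 440 0 0) P.nil)))))) (P.cons (P.cons (P.lf 9907054 0 0) (P.cons (P.lf 19364818 0 0) (P.cons (P.lf 0 770002 0) (P.cons (P.lf 0 137060 0) (P.cons (P.lf 11166 0 0) P.nil))))) (P.cons (P.cons (P.lf 0 39719846 0) (P.cons (P.lf 572182 0 0) (P.cons (P.lf 35710 0 0) (P.cons (P.lf 0 2188 0) P.nil)))) (P.cons (P.cons (P.lf 13558966 0 0) (P.cons (P.lf 0 1615870 0) (P.cons (P.lf 49814 0 0) P.nil))) (P.cons (P.cons (P.lf 190146 0 0) (P.cons (P.lf 0 102666 0) P.nil)) (P.cons (P.cons (P.lf 0 468878 0) P.nil) P.nil)))))) 260892)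
 EL.nil)
noncomputable def S140_169_438_512_45 : EL := (EL.cons 14 (TM.mk (P.cons (P.cons (P.lf 0 35752 0) (P.cons (P.lf 0 215466 0) (P.cons (P.lf 0 436264 0) (P.cons (P.lf 0 302466 0) (P.cons (P.lf 0 9356 0) (P.cons (P.lf 4464 0 0) P.nil)))))) (P.cons (P.cons (P.lf 805762 0 0) (P.cons (P.lf 3161780 0 0) (P.cons (P.lf 2998570 0 0) (P.cons (P.lf 0 227582 0) (P.cons (P.lf 0 45082 0) P.nil))))) (P.cons (P.cons (P.lf 0 6086808 0) (P.cons (P.lf 0 11167774 0) (P.cons (P.lf 1883610 0 0) (P.cons (P.lf 0 9996 0) P.nil)))) (P.cons (P.cons (P.lf 15650830 0 0) (P.cons (P.lf 0 3238390 0) (P.cons (P.lf 400746 0 0) P.nil))) (P.cons (P.cons (P.lf 0 1714344 0) (P.cons (P.lf 313460 0 0) P.nil)) (P.cons (P.cons (P.lf 0 675804 0) P.nil) P.nil)))))) 546574)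
 EL.nil)
noncomputable def S140_169_438_512_46 : EL := (EL.cons 15 (TM.mk (P.lf 4294967296 0 0) 0)
 EL.nil)
noncomputable def S140_169_438_512_47 : EL := (EL.cons 15 (TM.mk (P.cons (P.cons (P.lf 0 69087963 0) (P.cons (P.lf 0 138785772 0) (P.cons (P.lf 0 2208956 0) (P.lf 736316 0 0)))) (P.cons (P.cons (P.lf 519004605 0 0) (P.cons (P.lf 0 48628592 0) (P.cons (P.lf 0 773984 0) (P.lf 257992 0 0)))) (P.cons (P.cons (P.lf 0 21725935 0) (P.cons (P.lf 0 4487896 0) (P.cons (P.lf 0 71428 0) (P.lf 23808 0 0)))) (P.cons (P.cons (P.lf 0 8575796 0) (P.cons (P.lf 276148 0 0) (P.cons (P.lf 4392 0 0) P.nil))) (P.cons (P.cons (P.lf 0 177894 0) (P.cons (P.lf 70252 0 0) P.nil)) (P.cons (P.cons (P.lf 63303 0 0) P.nil) P.nil)))))) 16815)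
 EL.nil)
noncomputable def S140_169_438_512_48 : EL := (EL.cons 15 (TM.mk (P.cons (P.cons (P.lf 1111334 0 0) (P.cons (P.lf 4464958 0 0) (P.cons (P.lf 4555730 0 0) (P.cons (P.lf 119070 0 0) (P.cons (P.lf 0 46449 0) (P.cons (P.lf 0 757 0) P.nil)))))) (P.cons (P.cons (P.lf 0 16697203 0) (P.cons (P.lf 0 31977335 0) (P.cons (P.lf 2633766 0 0) (P.cons (P.lf 269694 0 0) (P.cons (P.lf 0 32550 0) P.nil))))) (P.cons (P.cons (P.lf 63415565 0 0) (P.cons (P.lf 0 10204107 0) (P.cons (P.lf 678212 0 0) (P.cons (P.lf 80895 0 0) P.nil)))) (P.cons (P.cons (P.lf 0 4974834 0) (P.cons (P.lf 0 47319 0) (P.cons (P.lf 83026 0 0) P.nil))) (P.cons (P.cons (P.lf 0 1956978 0) (P.cons (P.lf 315574 0 0) P.nil)) (P.cons (P.cons (P.lf 41730 0 0) P.nil) P.nil)))))) 143965)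
 EL.nil)
noncomputable def S140_169_438_512 : SL := (SL.cons S140_169_438_512_0 (SL.cons S140_169_438_512_1 (SL.cons S140_169_438_512_2 (SL.cons S140_169_438_512_3 (SL.cons S140_169_438_512_4 (SL.cons S140_169_438_512_5 (SL.cons S140_169_438_512_6 (SL.cons S140_169_438_512_7 (SL.cons S140_169_438_512_8 (SL.cons S140_169_438_512_9 (SL.cons S140_169_438_512_10 (SL.cons S140_169_438_512_11 (SL.cons S140_169_438_512_12 (SL.cons S140_169_438_512_13 (SL.cons S140_169_438_512_14 (SL.cons S140_169_438_512_15 (SL.cons S140_169_438_512_16 (SL.cons S140_169_438_512_17 (SL.cons S140_169_438_512_18 (SL.cons S140_169_438_512_19 (SL.cons S140_169_438_512_20 (SL.cons S140_169_438_512_21 (SL.cons S140_169_438_512_22 (SL.cons S140_169_438_512_23 (SL.cons S140_169_438_512_24 (SL.cons S140_169_438_512_25 (SL.cons S140_169_438_512_26 (SL.cons S140_169_438_512_27 (SL.cons S140_169_438_512_28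 (SL.cons S140_169_438_512_29 (SL.cons S140_169_438_512_30 (SL.cons S140_169_438_512_31 (SL.cons S140_169_438_512_32 (SL.cons S140_169_438_512_33 (SL.cons S140_169_438_512_34 (SL.cons S140_169_438_512_35 (SL.cons S140_169_438_512_36 (SL.cons S140_169_438_512_37 (SL.cons S140_169_438_512_38 (SL.cons S140_169_438_512_39 (SL.cons S140_169_438_512_40 (SL.cons S140_169_438_512_41 (SL.cons S140_169_438_512_42 (SL.cons S140_169_438_512_43 (SL.cons S140_169_438_512_44 (SL.cons S140_169_438_512_45 (SL.cons S140_169_438_512_46 (SL.cons S140_169_438_512_47 (SL.cons S140_169_438_512_48 SL.nil)))))))))))))))))))))))))))))))))))))))))))))))))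
noncomputable def S140_169_512_549_0 : EL := (EL.cons 0 (TM.mk (P.cons (P.lf 5139680571 0 0) (P.cons (P.lf 636245268 0 0) (P.cons (P.lf 21563379 0 0) (P.cons (P.lf 0 4685115 0) (P.cons (P.lf 0 394321 0) (P.cons (P.lf 4352 0 0) P.nil)))))) 3197)
 (EL.cons 1 (TM.mk (P.cons (P.lf 0 1792040857 0) (P.cons (P.lf 0 37383279 0) (P.cons (P.lf 39281548 0 0) (P.cons (P.lf 2177913 0 0) (P.cons (P.lf 0 137038 0) (P.cons (P.lf 0 19477 0) P.nil)))))) 1484)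
 (EL.cons 5 (TM.mk (P.cons (P.lf 5474002426 0 0) (P.cons (P.lf 0 226220540 0) (P.cons (P.lf 0 7666984 0) (P.cons (P.lf 1665814 0 0) (P.cons (P.lf 140204 0 0) (P.cons (P.lf 0 1546 0) P.nil)))))) 969)
 (EL.cons 9 (TM.mk (P.lf 6442450944 0 0) 2)
 EL.nil))))
noncomputable def S140_169_512_549_1 : EL := (EL.cons 0 (TM.mk (P.cons (P.cons (P.lf 0 3277704206 0) (P.cons (P.lf 78616145 0 0) (P.cons (P.lf 0 309117 0) (P.lf 0 103026 0)))) (P.cons (P.cons (P.lf 945307801 0 0) (P.cons (P.lf 0 14063576 0) (P.cons (P.lf 55306 0 0) (P.lf 18436 0 0)))) (P.cons (P.cons (P.lf 239845038 0 0) (P.cons (P.lf 0 13447420 0) (P.cons (P.lf 52872 0 0) (P.lf 17621 0 0)))) (P.cons (P.cons (P.lf 0 20810899 0) (P.cons (P.lf 0 1689664 0) (P.cons (P.lf 6633 0 0) P.nil))) (P.cons (P.cons (P.lf 0 7539372 0) (P.cons (P.lf 130546 0 0) P.nil)) (P.cons (P.cons (P.lf 0 140118 0) P.nil) P.nil)))))) 230010)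
 (EL.cons 1 (TM.mk (P.cons (P.cons (P.lf 289639338 0 0) (P.cons (P.lf 19742674 0 0) (P.cons (P.lf 0 77622 0) (P.lf 0 25870 0)))) (P.cons (P.cons (P.lf 0 585104630 0) (P.cons (P.lf 30093822 0 0) (P.cons (P.lf 0 118325 0) (P.lf 0 39436 0)))) (P.cons (P.cons (P.lf 50059562 0 0) (P.cons (P.lf 4255138 0 0) (P.cons (P.lf 0 16728 0) (P.lf 0 5568 0)))) (P.cons (P.cons (P.lf 29722844 0 0) (P.cons (P.lf 0 771699 0) (P.cons (P.lf 3027 0 0) P.nil))) (P.cons (P.cons (P.lf 0 57760 0) (P.cons (P.lf 0 185394 0) P.nil)) (P.cons (P.cons (P.lf 0 533946 0) P.nil) P.nil)))))) 112751)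
 (EL.cons 5 (TM.mk (P.cons (P.cons (P.lf 689828041 0 0) (P.cons (P.lf 0 147328532 0) (P.cons (P.lf 579316 0 0) (P.lf 193100 0 0)))) (P.cons (P.cons (P.lf 420715235 0 0) (P.cons (P.lf 0 36827340 0) (P.cons (P.lf 144812 0 0) (P.lf 48266 0 0)))) (P.cons (P.cons (P.lf 0 133793070 0) (P.cons (P.lf 921054 0 0) (P.cons (P.lf 0 3616 0) (P.lf 0 1206 0)))) (P.cons (P.cons (P.lf 0 6466846 0) (P.cons (P.lf 838300 0 0) (P.cons (P.lf 0 3290 0) P.nil))) (P.cons (P.cons (P.lf 2559527 0 0) (P.cons (P.lf 14016 0 0) P.nil)) (P.cons (P.cons (P.lf 163528 0 0) P.nil) P.nil)))))) 79261)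
 (EL.cons 9 (TM.mk (P.cons (P.cons (P.lf 0 419627548 0) (P.cons (P.lf 0 105331866 0) (P.cons (P.lf 414174 0 0) (P.lf 138054 0 0)))) (P.cons (P.cons (P.lf 667786471 0 0) (P.cons (P.lf 0 36906810 0) (P.cons (P.lf 145122 0 0) (P.lf 48372 0 0)))) (P.cons (P.cons (P.lf 0 42807208 0) (P.cons (P.lf 0 3406098 0) (P.cons (P.lf 13392 0 0) (P.lf 4458 0 0)))) (P.cons (P.cons (P.lf 0 12234942 0) (P.cons (P.lf 209586 0 0) (P.cons (P.lf 0 822 0) P.nil))) (P.cons (P.cons (P.lf 0 106881 0) (P.cons (P.lf 53316 0 0) P.nil)) (P.cons (P.cons (P.lf 100324 0 0) P.nil) P.nil)))))) 15443)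
 (EL.cons 2 (TM.mk (P.cons (P.cons (P.lf 898451322 0 0) (P.cons (P.lf 0 8239438 0) (P.cons (P.lf 0 4110488 0) (P.cons (P.lf 9227 0 0) (P.lf 2306 0 0))))) (P.cons (P.cons (P.lf 123677271 0 0) (P.cons (P.lf 0 1134205 0) (P.cons (P.lf 0 565830 0) (P.cons (P.lf 1268 0 0) (P.lf 315 0 0))))) (P.cons (P.cons (P.lf 0 20076578 0) (P.cons (P.lf 184114 0 0) (P.cons (P.lf 91850 0 0) (P.cons (P.lf 0 205 0) P.nil)))) (P.cons (P.cons (P.lf 0 3918090 0) (P.cons (P.lf 35929 0 0) (P.cons (P.lf 17924 0 0) P.nil))) (P.cons (P.cons (P.lf 0 25852 0) (P.cons (P.lf 233 0 0) P.nil)) (P.cons (P.cons (P.lf 31930 0 0) P.nil) P.nil)))))) 5336)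
 (EL.cons 6 (TM.mk (P.cons (P.cons (P.lf 485537952 0 0) (P.cons (P.lf 0 4452729 0) (P.cons (P.lf 0 2221374 0) (P.cons (P.lf 4986 0 0) (P.lf 1245 0 0))))) (P.cons (P.cons (P.lf 170125704 0 0) (P.cons (P.lf 0 1560171 0) (P.cons (P.lf 0 778338 0) (P.cons (P.lf 1746 0 0) (P.lf 435 0 0))))) (P.cons (P.cons (P.lf 15700782 0 0) (P.cons (P.lf 0 143985 0) (P.cons (P.lf 0 71829 0) (P.cons (P.lf 159 0 0) P.nil)))) (P.cons (P.cons (P.lf 0 966111 0) (P.cons (P.lf 8859 0 0) (P.cons (P.lf 4419 0 0) P.nil))) (P.cons (P.cons (P.lf 0 245784 0) (P.cons (P.lf 2253 0 0) P.nil)) (P.cons (P.cons (P.lf 0 8262 0) P.nil) P.nil)))))) 3138)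
 EL.nil))))))
noncomputable def S140_169_512_549_2 : EL := (EL.cons 0 (TM.mk (P.cons (P.cons (P.lf 405179707 0 0) (P.cons (P.lf 85990577 0 0) (P.cons (P.lf 0 4282708 0) (P.cons (P.lf 0 81672 0) (P.cons (P.lf 10268 0 0) (P.cons (P.lf 0 30 0) P.nil)))))) (P.cons (P.cons (P.lf 0 735938112 0) (P.cons (P.lf 37002615 0 0) (P.cons (P.lf 0 1719220 0) (P.cons (P.lf 0 36114 0) (P.cons (P.lf 4090 0 0) P.nil))))) (P.cons (P.cons (P.lf 157112599 0 0) (P.cons (P.lf 0 11147165 0) (P.cons (P.lf 179089 0 0) (P.cons (P.lf 13546 0 0) P.nil)))) (P.cons (P.cons (P.lf 51052642 0 0) (P.cons (P.lf 0 5444486 0) (P.cons (P.lf 190370 0 0) P.nil))) (P.cons (P.cons (P.lf 0 7808635 0) (P.cons (P.lf 0 86629 0) P.nil)) (P.cons (P.cons (P.lf 0 2119756 0) P.nil) P.nil)))))) 952164)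
 (EL.cons 1 (TM.mk (P.cons (P.cons (P.lf 0 30128380 0) (P.cons (P.lf 0 8226073 0) (P.cons (P.lf 0 134193 0) (P.cons (P.lf 12088 0 0) (P.cons (P.lf 428 0 0) (P.cons (P.lf 1 0 0) P.nil)))))) (P.cons (P.cons (P.lf 112226644 0 0) (P.cons (P.lf 11329516 0 0) (P.cons (P.lf 0 909105 0) (P.cons (P.lf 0 8046 0) (P.cons (P.lf 2248 0 0) P.nil))))) (P.cons (P.cons (P.lf 0 111533547 0) (P.cons (P.lf 8384672 0 0) (P.cons (P.lf 0 451483 0) (P.cons (P.lf 0 7694 0) P.nil)))) (P.cons (P.cons (P.lf 12111228 0 0) (P.cons (P.lf 0 290997 0) (P.cons (P.lf 0 50018 0) P.nil))) (P.cons (P.cons (P.lf 6625968 0 0) (P.cons (P.lf 0 627112 0) P.nil)) (P.cons (P.cons (P.lf 0 459323 0) P.nil) P.nil)))))) 502735)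
 (EL.cons 5 (TM.mk (P.cons (P.cons (P.lf 0 113087239 0) (P.cons (P.lf 0 15023344 0) (P.cons (P.lf 3413344 0 0) (P.cons (P.lf 0 6701 0) (P.cons (P.lf 0 8732 0) (P.cons (P.lf 26 0 0) P.nil)))))) (P.cons (P.cons (P.lf 163075673 0 0) (P.cons (P.lf 0 32455253 0) (P.cons (P.lf 2054901 0 0) (P.cons (P.lf 27378 0 0) (P.cons (P.lf 0 5010 0) P.nil))))) (P.cons (P.cons (P.lf 28905737 0 0) (P.cons (P.lf 0 2618531 0) (P.cons (P.lf 328054 0 0) (P.cons (P.lf 935 0 0) P.nil)))) (P.cons (P.cons (P.lf 0 26403213 0) (P.cons (P.lf 2113875 0 0) (P.cons (P.lf 0 31927 0) P.nil))) (P.cons (P.cons (P.lf 239943 0 0) (P.cons (P.lf 286296 0 0) P.nil)) (P.cons (P.cons (P.lf 898023 0 0) P.nil) P.nil)))))) 377685)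
 (EL.cons 9 (TM.mk (P.cons (P.cons (P.lf 27332343 0 0) (P.cons (P.lf 13721532 0 0) (P.cons (P.lf 1668184 0 0) (P.cons (P.lf 0 31527 0) (P.cons (P.lf 0 4486 0) (P.cons (P.lf 16 0 0) P.nil)))))) (P.cons (P.cons (P.lf 0 86992233 0) (P.cons (P.lf 0 17028327 0) (P.cons (P.lf 1273783 0 0) (P.cons (P.lf 12826 0 0) (P.cons (P.lf 0 3144 0) P.nil))))) (P.cons (P.cons (P.lf 74795281 0 0) (P.cons (P.lf 0 5807607 0) (P.cons (P.lf 345640 0 0) (P.cons (P.lf 5073 0 0) P.nil)))) (P.cons (P.cons (P.lf 0 7280445 0) (P.cons (P.lf 157117 0 0) (P.cons (P.lf 31552 0 0) P.nil))) (P.cons (P.cons (P.lf 0 2238045 0) (P.cons (P.lf 225442 0 0) P.nil)) (P.cons (P.cons (P.lf 127363 0 0) P.nil) P.nil)))))) 99793)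
 (EL.cons 2 (TM.mk (P.cons (P.cons (P.lf 0 117040831 0) (P.cons (P.lf 0 28305393 0) (P.cons (P.lf 920413 0 0) (P.cons (P.lf 170651 0 0) (P.cons (P.lf 0 1479 0) (P.cons (P.lf 0 247 0) P.nil)))))) (P.cons (P.cons (P.lf 170144949 0 0) (P.cons (P.lf 0 15898410 0) (P.cons (P.lf 0 590557 0) (P.cons (P.lf 85618 0 0) (P.cons (P.lf 0 135 0) P.nil))))) (P.cons (P.cons (P.lf 16315065 0 0) (P.cons (P.lf 0 1860159 0) (P.cons (P.lf 0 52228 0) (P.cons (P.lf 10170 0 0) P.nil)))) (P.cons (P.cons (P.lf 0 8707708 0) (P.cons (P.lf 365681 0 0) (P.cons (P.lf 36090 0 0) P.nil))) (P.cons (P.cons (P.lf 0 1041648 0) (P.cons (P.lf 99433 0 0) P.nil)) (P.cons (P.cons (P.lf 142678 0 0) P.nil) P.nil)))))) 70081)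
 (EL.cons 6 (TM.mk (P.cons (P.cons (P.lf 0 63250800 0) (P.cons (P.lf 0 15296700 0) (P.cons (P.lf 497406 0 0) (P.cons (P.lf 92220 0 0) (P.cons (P.lf 0 798 0) (P.cons (P.lf 0 132 0) P.nil)))))) (P.cons (P.cons (P.lf 78493800 0 0) (P.cons (P.lf 0 11845830 0) (P.cons (P.lf 0 213330 0) (P.cons (P.lf 65886 0 0) (P.cons (P.lf 0 240 0) P.nil))))) (P.cons (P.cons (P.lf 26770752 0 0) (P.cons (P.lf 0 3221508 0) (P.cons (P.lf 0 83478 0) (P.cons (P.lf 17676 0 0) P.nil)))) (P.cons (P.cons (P.lf 0 724242 0) (P.cons (P.lf 0 289950 0) (P.cons (P.lf 7194 0 0) P.nil))) (P.cons (P.cons (P.lf 0 1039194 0) (P.cons (P.lf 31134 0 0) P.nil)) (P.cons (P.cons (P.lf 0 87192 0) P.nil) P.nil)))))) 38046)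
 EL.nil))))))
noncomputable def S140_169_512_549_3 : EL := (EL.cons 0 (TM.mk (P.cons (P.lf 3316036292 0 0) (P.cons (P.lf 0 636245268 0) (P.cons (P.lf 0 21563379 0) (P.cons (P.lf 4685115 0 0) (P.cons (P.lf 394321 0 0) (P.cons (P.lf 0 4352 0) P.nil)))))) 3197)
 (EL.cons 1 (TM.mk (P.cons (P.lf 1792040857 0 0) (P.cons (P.lf 37383279 0 0) (P.cons (P.lf 0 39281548 0) (P.cons (P.lf 0 2177913 0) (P.cons (P.lf 137038 0 0) (P.cons (P.lf 19477 0 0) P.nil)))))) 1484)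
 (EL.cons 5 (TM.mk (P.cons (P.lf 968448518 0 0) (P.cons (P.lf 226220540 0 0) (P.cons (P.lf 7666984 0 0) (P.cons (P.lf 0 1665814 0) (P.cons (P.lf 0 140204 0) (P.cons (P.lf 1546 0 0) P.nil)))))) 962)
 EL.nil)))
noncomputable def S140_169_512_549_4 : EL := (EL.cons 0 (TM.mk (P.cons (P.cons (P.lf 0 215989254 0) (P.cons (P.lf 0 54216056 0) (P.cons (P.lf 213180 0 0) (P.lf 71057 0 0)))) (P.cons (P.cons (P.lf 385162453 0 0) (P.cons (P.lf 0 8594154 0) (P.cons (P.lf 33792 0 0) (P.lf 11262 0 0)))) (P.cons (P.cons (P.lf 0 86578484 0) (P.cons (P.lf 2244230 0 0) (P.cons (P.lf 0 8824 0) (P.lf 0 2944 0)))) (P.cons (P.cons (P.lf 0 4610257 0) (P.cons (P.lf 491187 0 0) (P.cons (P.lf 0 1930 0) P.nil))) (P.cons (P.cons (P.lf 1756513 0 0) (P.cons (P.lf 0 15141 0) P.nil)) (P.cons (P.cons (P.lf 113169 0 0) P.nil) P.nil)))))) 46179)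
 (EL.cons 1 (TM.mk (P.cons (P.cons (P.lf 0 116724165 0) (P.cons (P.lf 0 29299252 0) (P.cons (P.lf 115205 0 0) (P.lf 38400 0 0)))) (P.cons (P.cons (P.lf 183317433 0 0) (P.cons (P.lf 0 10877250 0) (P.cons (P.lf 42768 0 0) (P.lf 14255 0 0)))) (P.cons (P.cons (P.lf 0 5473785 0) (P.cons (P.lf 0 519361 0) (P.cons (P.lf 2041 0 0) (P.lf 678 0 0)))) (P.cons (P.cons (P.lf 0 7581517 0) (P.cons (P.lf 299173 0 0) (P.cons (P.lf 0 1173 0) P.nil))) (P.cons (P.cons (P.lf 0 74392 0) (P.cons (P.lf 47049 0 0) P.nil)) (P.cons (P.cons (P.lf 129292 0 0) P.nil) P.nil)))))) 27628)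
 (EL.cons 5 (TM.mk (P.cons (P.cons (P.lf 0 63079668 0) (P.cons (P.lf 0 15833800 0) (P.cons (P.lf 62258 0 0) (P.lf 20752 0 0)))) (P.cons (P.cons (P.lf 85648838 0 0) (P.cons (P.lf 0 9246570 0) (P.cons (P.lf 36358 0 0) (P.lf 12118 0 0)))) (P.cons (P.cons (P.lf 16514390 0 0) (P.cons (P.lf 0 1933314 0) (P.cons (P.lf 7600 0 0) (P.lf 2532 0 0)))) (P.cons (P.cons (P.lf 0 2439110 0) (P.cons (P.lf 0 104782 0) (P.cons (P.lf 410 0 0) P.nil))) (P.cons (P.cons (P.lf 0 660164 0) (P.cons (P.lf 23154 0 0) P.nil)) (P.cons (P.cons (P.lf 0 6798 0) P.nil) P.nil)))))) 16298)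
 EL.nil)))
noncomputable def S140_169_512_549_5 : EL := (EL.cons 0 (TM.mk (P.cons (P.cons (P.lf 14068409 0 0) (P.cons (P.lf 7062699 0 0) (P.cons (P.lf 858642 0 0) (P.cons (P.lf 0 16226 0) (P.cons (P.lf 0 2308 0) (P.cons (P.lf 7 0 0) P.nil)))))) (P.cons (P.cons (P.lf 0 47475638 0) (P.cons (P.lf 0 10119875 0) (P.cons (P.lf 490890 0 0) (P.cons (P.lf 9715 0 0) (P.cons (P.lf 0 1174 0) P.nil))))) (P.cons (P.cons (P.lf 46998087 0 0) (P.cons (P.lf 0 1353510 0) (P.cons (P.lf 46525 0 0) (P.cons (P.lf 1448 0 0) P.nil)))) (P.cons (P.cons (P.lf 0 10822971 0) (P.cons (P.lf 721392 0 0) (P.cons (P.lf 0 20944 0) P.nil))) (P.cons (P.cons (P.lf 0 744888 0) (P.cons (P.lf 108416 0 0) P.nil)) (P.cons (P.cons (P.lf 359998 0 0) P.nil) P.nil)))))) 130813)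
 (EL.cons 1 (TM.mk (P.cons (P.cons (P.lf 7602800 0 0) (P.cons (P.lf 3816798 0 0) (P.cons (P.lf 464023 0 0) (P.cons (P.lf 0 8767 0) (P.cons (P.lf 0 1246 0) (P.cons (P.lf 3 0 0) P.nil)))))) (P.cons (P.cons (P.lf 0 24039275 0) (P.cons (P.lf 0 4656999 0) (P.cons (P.lf 363995 0 0) (P.cons (P.lf 3384 0 0) (P.cons (P.lf 0 898 0) P.nil))))) (P.cons (P.cons (P.lf 20133716 0 0) (P.cons (P.lf 0 1797924 0) (P.cons (P.lf 93361 0 0) (P.cons (P.lf 1676 0 0) P.nil)))) (P.cons (P.cons (P.lf 0 1069948 0) (P.cons (P.lf 109190 0 0) (P.cons (P.lf 2450 0 0) P.nil))) (P.cons (P.cons (P.lf 0 1090841 0) (P.cons (P.lf 105078 0 0) P.nil)) (P.cons (P.cons (P.lf 39778 0 0) P.nil) P.nil)))))) 83830)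
 (EL.cons 5 (TM.mk (P.cons (P.cons (P.lf 4108678 0 0) (P.cons (P.lf 2062660 0 0) (P.cons (P.lf 250764 0 0) (P.cons (P.lf 0 4738 0) (P.cons (P.lf 0 674 0) (P.cons (P.lf 2 0 0) P.nil)))))) (P.cons (P.cons (P.lf 0 12117182 0) (P.cons (P.lf 0 2077930 0) (P.cons (P.lf 250054 0 0) (P.cons (P.lf 820 0 0) (P.cons (P.lf 0 630 0) P.nil))))) (P.cons (P.cons (P.lf 8221328 0 0) (P.cons (P.lf 0 1454620 0) (P.cons (P.lf 98670 0 0) (P.cons (P.lf 1174 0 0) P.nil)))) (P.cons (P.cons (P.lf 1421352 0 0) (P.cons (P.lf 0 204122 0) (P.cons (P.lf 17964 0 0) P.nil))) (P.cons (P.cons (P.lf 0 481164 0) (P.cons (P.lf 36598 0 0) P.nil)) (P.cons (P.cons (P.lf 0 85544 0) P.nil) P.nil)))))) 42284)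
 EL.nil)))
noncomputable def S140_169_512_549_6 : EL := (EL.cons 12 (TM.mk (P.lf 8589934592 0 0) 0)
 (EL.cons 3 (TM.mk (P.cons (P.lf 0 2668545243 0) (P.cons (P.lf 256005836 0 0) (P.cons (P.lf 20956361 0 0) (P.cons (P.lf 125291 0 0) (P.cons (P.lf 0 64357 0) (P.cons (P.lf 0 3438 0) P.nil)))))) 378)
 (EL.cons 7 (TM.mk (P.cons (P.lf 0 1442125985 0) (P.cons (P.lf 0 168433589 0) (P.cons (P.lf 4127638 0 0) (P.cons (P.lf 758202 0 0) (P.cons (P.lf 21743 0 0) (P.cons (P.lf 0 1521 0) P.nil)))))) 224)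
 EL.nil)))
noncomputable def S140_169_512_549_7 : EL := (EL.cons 12 (TM.mk (P.cons (P.cons (P.lf 0 559503398 0) (P.cons (P.lf 0 140442488 0) (P.cons (P.lf 552232 0 0) (P.lf 184072 0 0)))) (P.cons (P.cons (P.lf 890381962 0 0) (P.cons (P.lf 0 49209080 0) (P.cons (P.lf 193496 0 0) (P.lf 64496 0 0)))) (P.cons (P.cons (P.lf 0 57076278 0) (P.cons (P.lf 0 4541464 0) (P.cons (P.lf 17856 0 0) (P.lf 5944 0 0)))) (P.cons (P.cons (P.lf 0 16313256 0) (P.cons (P.lf 279448 0 0) (P.cons (P.lf 0 1096 0) P.nil))) (P.cons (P.cons (P.lf 0 142508 0) (P.cons (P.lf 71088 0 0) P.nil)) (P.cons (P.cons (P.lf 133766 0 0) P.nil) P.nil)))))) 20566)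
 (EL.cons 3 (TM.mk (P.cons (P.cons (P.lf 2542108816 0 0) (P.cons (P.lf 0 87259598 0) (P.cons (P.lf 343110 0 0) (P.lf 114364 0 0)))) (P.cons (P.cons (P.lf 0 431431343 0) (P.cons (P.lf 0 22203324 0) (P.cons (P.lf 87304 0 0) (P.lf 29100 0 0)))) (P.cons (P.cons (P.lf 0 120306127 0) (P.cons (P.lf 796714 0 0) (P.cons (P.lf 0 3132 0) (P.lf 0 1048 0)))) (P.cons (P.cons (P.lf 0 3565572 0) (P.cons (P.lf 688526 0 0) (P.cons (P.lf 0 2702 0) P.nil))) (P.cons (P.cons (P.lf 1758871 0 0) (P.cons (P.lf 49000 0 0) P.nil)) (P.cons (P.cons (P.lf 178797 0 0) P.nil) P.nil)))))) 72826)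
 (EL.cons 7 (TM.mk (P.cons (P.cons (P.lf 0 1464235896 0) (P.cons (P.lf 109694168 0 0) (P.cons (P.lf 0 431336 0) (P.lf 0 143778 0)))) (P.cons (P.cons (P.lf 283851063 0 0) (P.cons (P.lf 14608209 0 0) (P.cons (P.lf 0 57443 0) (P.lf 0 19147 0)))) (P.cons (P.cons (P.lf 48961047 0 0) (P.cons (P.lf 0 2077980 0) (P.cons (P.lf 8171 0 0) (P.lf 2722 0 0)))) (P.cons (P.cons (P.lf 0 7000944 0) (P.cons (P.lf 0 281980 0) (P.cons (P.lf 1107 0 0) P.nil))) (P.cons (P.cons (P.lf 0 919490 0) (P.cons (P.lf 25883 0 0) P.nil)) (P.cons (P.cons (P.lf 45039 0 0) P.nil) P.nil)))))) 45955)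
 (EL.cons 10 (TM.mk (P.cons (P.cons (P.lf 0 1446038457 0) (P.cons (P.lf 13261206 0 0) (P.cons (P.lf 6615747 0 0) (P.cons (P.lf 0 14856 0) (P.lf 0 3714 0))))) (P.cons (P.cons (P.lf 0 337781094 0) (P.cons (P.lf 3097692 0 0) (P.cons (P.lf 1545375 0 0) (P.cons (P.lf 0 3468 0) (P.lf 0 867 0))))) (P.cons (P.cons (P.lf 0 11447952 0) (P.cons (P.lf 104985 0 0) (P.cons (P.lf 52374 0 0) (P.cons (P.lf 0 117 0) P.nil)))) (P.cons (P.cons (P.lf 2487309 0 0) (P.cons (P.lf 0 22809 0) (P.cons (P.lf 0 11379 0) P.nil))) (P.cons (P.cons (P.lf 209343 0 0) (P.cons (P.lf 0 1917 0) P.nil)) (P.cons (P.cons (P.lf 0 2307 0) P.nil) P.nil)))))) 2613)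
 EL.nil))))
noncomputable def S140_169_512_549_8 : EL := (EL.cons 12 (TM.mk (P.cons (P.cons (P.lf 36443124 0 0) (P.cons (P.lf 18295376 0 0) (P.cons (P.lf 2224246 0 0) (P.cons (P.lf 0 42036 0) (P.cons (P.lf 0 5982 0) (P.cons (P.lf 22 0 0) P.nil)))))) (P.cons (P.cons (P.lf 0 115989644 0) (P.cons (P.lf 0 22704436 0) (P.cons (P.lf 1698378 0 0) (P.cons (P.lf 17102 0 0) (P.cons (P.lf 0 4192 0) P.nil))))) (P.cons (P.cons (P.lf 99727042 0 0) (P.cons (P.lf 0 7743476 0) (P.cons (P.lf 460854 0 0) (P.cons (P.lf 6764 0 0) P.nil)))) (P.cons (P.cons (P.lf 0 9707260 0) (P.cons (P.lf 209490 0 0) (P.cons (P.lf 42070 0 0) P.nil))) (P.cons (P.cons (P.lf 0 2984060 0) (P.cons (P.lf 300590 0 0) P.nil)) (P.cons (P.cons (P.lf 169818 0 0) P.nil) P.nil)))))) 133028)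
 (EL.cons 3 (TM.mk (P.cons (P.cons (P.lf 0 319837929 0) (P.cons (P.lf 0 66074311 0) (P.cons (P.lf 3826472 0 0) (P.cons (P.lf 58550 0 0) (P.cons (P.lf 0 9290 0) (P.cons (P.lf 36 0 0) P.nil)))))) (P.cons (P.cons (P.lf 546082965 0 0) (P.cons (P.lf 0 37814218 0) (P.cons (P.lf 2305939 0 0) (P.cons (P.lf 32591 0 0) (P.cons (P.lf 0 5621 0) P.nil))))) (P.cons (P.cons (P.lf 0 73200295 0) (P.cons (P.lf 868325 0 0) (P.cons (P.lf 397340 0 0) (P.cons (P.lf 0 4292 0) P.nil)))) (P.cons (P.cons (P.lf 0 34103502 0) (P.cons (P.lf 3169524 0 0) (P.cons (P.lf 0 29761 0) P.nil))) (P.cons (P.cons (P.lf 1305726 0 0) (P.cons (P.lf 444045 0 0) P.nil)) (P.cons (P.cons (P.lf 1102218 0 0) P.nil) P.nil)))))) 406277)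
 (EL.cons 7 (TM.mk (P.cons (P.cons (P.lf 196863604 0 0) (P.cons (P.lf 36661227 0 0) (P.cons (P.lf 0 3345578 0) (P.cons (P.lf 0 22871 0) (P.cons (P.lf 8342 0 0) (P.cons (P.lf 0 27 0) P.nil)))))) (P.cons (P.cons (P.lf 0 359283660 0) (P.cons (P.lf 24879060 0 0) (P.cons (P.lf 0 1517142 0) (P.cons (P.lf 0 21444 0) (P.cons (P.lf 3695 0 0) P.nil))))) (P.cons (P.cons (P.lf 86375770 0 0) (P.cons (P.lf 0 3217549 0) (P.cons (P.lf 0 100058 0) (P.cons (P.lf 5103 0 0) P.nil)))) (P.cons (P.cons (P.lf 13229688 0 0) (P.cons (P.lf 0 1839642 0) (P.cons (P.lf 46617 0 0) P.nil))) (P.cons (P.cons (P.lf 0 3740860 0) (P.cons (P.lf 19651 0 0) P.nil)) (P.cons (P.cons (P.lf 0 378270 0) P.nil) P.nil)))))) 260780)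
 (EL.cons 10 (TM.mk (P.cons (P.cons (P.lf 188374758 0 0) (P.cons (P.lf 45556932 0 0) (P.cons (P.lf 0 1481388 0) (P.cons (P.lf 0 274662 0) (P.cons (P.lf 2388 0 0) (P.cons (P.lf 402 0 0) P.nil)))))) (P.cons (P.cons (P.lf 0 255773046 0) (P.cons (P.lf 29958642 0 0) (P.cons (P.lf 808374 0 0) (P.cons (P.lf 0 164154 0) (P.cons (P.lf 450 0 0) P.nil))))) (P.cons (P.cons (P.lf 0 49316910 0) (P.cons (P.lf 6225726 0 0) (P.cons (P.lf 149976 0 0) (P.cons (P.lf 0 34272 0) P.nil)))) (P.cons (P.cons (P.lf 7283910 0 0) (P.cons (P.lf 246108 0 0) (P.cons (P.lf 0 37422 0) P.nil))) (P.cons (P.cons (P.lf 1971450 0 0) (P.cons (P.lf 0 87228 0) P.nil)) (P.cons (P.cons (P.lf 20292 0 0) P.nil) P.nil)))))) 65196)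
 EL.nil))))
noncomputable def S140_169_512_549_9 : EL := (EL.cons 3 (TM.mk (P.cons (P.lf 0 2668545243 0) (P.cons (P.lf 256005836 0 0) (P.cons (P.lf 20956361 0 0) (P.cons (P.lf 125291 0 0) (P.cons (P.lf 0 64357 0) (P.cons (P.lf 0 3438 0) P.nil)))))) 378)
 (EL.cons 7 (TM.mk (P.cons (P.lf 0 1442125985 0) (P.cons (P.lf 0 168433589 0) (P.cons (P.lf 4127638 0 0) (P.cons (P.lf 758202 0 0) (P.cons (P.lf 21743 0 0) (P.cons (P.lf 0 1521 0) P.nil)))))) 224)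
 EL.nil))
noncomputable def S140_169_512_549_10 : EL := (EL.cons 3 (TM.mk (P.cons (P.cons (P.lf 173815075 0 0) (P.cons (P.lf 43629799 0 0) (P.cons (P.lf 0 171555 0) (P.lf 0 57182 0)))) (P.cons (P.cons (P.lf 0 293280542 0) (P.cons (P.lf 11101662 0 0) (P.cons (P.lf 0 43652 0) (P.lf 0 14550 0)))) (P.cons (P.cons (P.lf 42902357 0 0) (P.cons (P.lf 0 398357 0) (P.cons (P.lf 1566 0 0) (P.lf 524 0 0)))) (P.cons (P.cons (P.lf 5530875 0 0) (P.cons (P.lf 0 344263 0) (P.cons (P.lf 1351 0 0) P.nil))) (P.cons (P.cons (P.lf 0 563978 0) (P.cons (P.lf 0 24500 0) P.nil)) (P.cons (P.cons (P.lf 0 92880 0) P.nil) P.nil)))))) 16974)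
 (EL.cons 7 (TM.mk (P.cons (P.cons (P.lf 93932541 0 0) (P.cons (P.lf 23578265 0 0) (P.cons (P.lf 0 92711 0) (P.lf 0 30903 0)))) (P.cons (P.cons (P.lf 0 138511392 0) (P.cons (P.lf 11015325 0 0) (P.cons (P.lf 0 43313 0) (P.lf 0 14437 0)))) (P.cons (P.cons (P.lf 0 8145402 0) (P.cons (P.lf 1659864 0 0) (P.cons (P.lf 0 6526 0) (P.lf 0 2174 0)))) (P.cons (P.cons (P.lf 4236387 0 0) (P.cons (P.lf 6092 0 0) (P.cons (P.lf 0 24 0) P.nil))) (P.cons (P.cons (P.lf 393547 0 0) (P.cons (P.lf 0 24295 0) P.nil)) (P.cons (P.cons (P.lf 0 30186 0) P.nil) P.nil)))))) 10899)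
 EL.nil))
noncomputable def S140_169_512_549_11 : EL := (EL.cons 3 (TM.mk (P.cons (P.cons (P.lf 0 11321403 0) (P.cons (P.lf 0 5683633 0) (P.cons (P.lf 0 690982 0) (P.cons (P.lf 13058 0 0) (P.cons (P.lf 1858 0 0) (P.cons (P.lf 0 6 0) P.nil)))))) (P.cons (P.cons (P.lf 37119405 0 0) (P.cons (P.lf 7598606 0 0) (P.cons (P.lf 0 461327 0) (P.cons (P.lf 0 6565 0) (P.cons (P.lf 1123 0 0) P.nil))))) (P.cons (P.cons (P.lf 0 34349089 0) (P.cons (P.lf 1773557 0 0) (P.cons (P.lf 0 87124 0) (P.cons (P.lf 0 1694 0) P.nil)))) (P.cons (P.cons (P.lf 5705376 0 0) (P.cons (P.lf 0 350982 0) (P.cons (P.lf 4841 0 0) P.nil))) (P.cons (P.cons (P.lf 879054 0 0) (P.cons (P.lf 0 106497 0) P.nil)) (P.cons (P.cons (P.lf 0 163062 0) P.nil) P.nil)))))) 73087)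
 (EL.cons 7 (TM.mk (P.cons (P.cons (P.lf 0 6118274 0) (P.cons (P.lf 0 3071529 0) (P.cons (P.lf 0 373418 0) (P.cons (P.lf 7057 0 0) (P.cons (P.lf 1004 0 0) (P.cons (P.lf 0 3 0) P.nil)))))) (P.cons (P.cons (P.lf 18758400 0 0) (P.cons (P.lf 3453006 0 0) (P.cons (P.lf 0 328746 0) (P.cons (P.lf 0 2046 0) (P.cons (P.lf 821 0 0) P.nil))))) (P.cons (P.cons (P.lf 0 14450864 0) (P.cons (P.lf 1754003 0 0) (P.cons (P.lf 0 109604 0) (P.cons (P.lf 0 1491 0) P.nil)))) (P.cons (P.cons (P.lf 0 378282 0) (P.cons (P.lf 107370 0 0) (P.cons (P.lf 0 15087 0) P.nil))) (P.cons (P.cons (P.lf 729098 0 0) (P.cons (P.lf 0 60251 0) P.nil)) (P.cons (P.cons (P.lf 33840 0 0) P.nil) P.nil)))))) 39820)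
 EL.nil))
noncomputable def S140_169_512_549_12 : EL := (EL.cons 4 (TM.mk (P.cons (P.lf 2668545243 0 0) (P.cons (P.lf 0 256005836 0) (P.cons (P.lf 0 20956361 0) (P.cons (P.lf 0 125291 0) (P.cons (P.lf 64357 0 0) (P.cons (P.lf 3438 0 0) P.nil)))))) 378)
 (EL.cons 8 (TM.mk (P.cons (P.lf 1442125985 0 0) (P.cons (P.lf 168433589 0 0) (P.cons (P.lf 0 4127638 0) (P.cons (P.lf 0 758202 0) (P.cons (P.lf 0 21743 0) (P.cons (P.lf 1521 0 0) P.nil)))))) 224)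
 EL.nil))
noncomputable def S140_169_512_549_13 : EL := (EL.cons 4 (TM.mk (P.cons (P.cons (P.lf 0 173815075 0) (P.cons (P.lf 0 43629799 0) (P.cons (P.lf 171555 0 0) (P.lf 57182 0 0)))) (P.cons (P.cons (P.lf 293280542 0 0) (P.cons (P.lf 0 11101662 0) (P.cons (P.lf 43652 0 0) (P.lf 14550 0 0)))) (P.cons (P.cons (P.lf 0 42902357 0) (P.cons (P.lf 398357 0 0) (P.cons (P.lf 0 1566 0) (P.lf 0 524 0)))) (P.cons (P.cons (P.lf 0 5530875 0) (P.cons (P.lf 344263 0 0) (P.cons (P.lf 0 1351 0) P.nil))) (P.cons (P.cons (P.lf 563978 0 0) (P.cons (P.lf 24500 0 0) P.nil)) (P.cons (P.cons (P.lf 92880 0 0) P.nil) P.nil)))))) 16974)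
 (EL.cons 8 (TM.mk (P.cons (P.cons (P.lf 0 93932541 0) (P.cons (P.lf 0 23578265 0) (P.cons (P.lf 92711 0 0) (P.lf 30903 0 0)))) (P.cons (P.cons (P.lf 138511392 0 0) (P.cons (P.lf 0 11015325 0) (P.cons (P.lf 43313 0 0) (P.lf 14437 0 0)))) (P.cons (P.cons (P.lf 8145402 0 0) (P.cons (P.lf 0 1659864 0) (P.cons (P.lf 6526 0 0) (P.lf 2174 0 0)))) (P.cons (P.cons (P.lf 0 4236387 0) (P.cons (P.lf 0 6092 0) (P.cons (P.lf 24 0 0) P.nil))) (P.cons (P.cons (P.lf 0 393547 0) (P.cons (P.lf 24295 0 0) P.nil)) (P.cons (P.cons (P.lf 30186 0 0) P.nil) P.nil)))))) 10899)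
 EL.nil))
noncomputable def S140_169_512_549_14 : EL := (EL.cons 4 (TM.mk (P.cons (P.cons (P.lf 11321403 0 0) (P.cons (P.lf 5683633 0 0) (P.cons (P.lf 690982 0 0) (P.cons (P.lf 0 13058 0) (P.cons (P.lf 0 1858 0) (P.cons (P.lf 6 0 0) P.nil)))))) (P.cons (P.cons (P.lf 0 37119405 0) (P.cons (P.lf 0 7598606 0) (P.cons (P.lf 461327 0 0) (P.cons (P.lf 6565 0 0) (P.cons (P.lf 0 1123 0) P.nil))))) (P.cons (P.cons (P.lf 34349089 0 0) (P.cons (P.lf 0 1773557 0) (P.cons (P.lf 87124 0 0) (P.cons (P.lf 1694 0 0) P.nil)))) (P.cons (P.cons (P.lf 0 5705376 0) (P.cons (P.lf 350982 0 0) (P.cons (P.lf 0 4841 0) P.nil))) (P.cons (P.cons (P.lf 0 879054 0) (P.cons (P.lf 106497 0 0) P.nil)) (P.cons (P.cons (P.lf 163062 0 0) P.nil) P.nil)))))) 73087)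
 (EL.cons 8 (TM.mk (P.cons (P.cons (P.lf 6118274 0 0) (P.cons (P.lf 3071529 0 0) (P.cons (P.lf 373418 0 0) (P.cons (P.lf 0 7057 0) (P.cons (P.lf 0 1004 0) (P.cons (P.lf 3 0 0) P.nil)))))) (P.cons (P.cons (P.lf 0 18758400 0) (P.cons (P.lf 0 3453006 0) (P.cons (P.lf 328746 0 0) (P.cons (P.lf 2046 0 0) (P.cons (P.lf 0 821 0) P.nil))))) (P.cons (P.cons (P.lf 14450864 0 0) (P.cons (P.lf 0 1754003 0) (P.cons (P.lf 109604 0 0) (P.cons (P.lf 1491 0 0) P.nil)))) (P.cons (P.cons (P.lf 378282 0 0) (P.cons (P.lf 0 107370 0) (P.cons (P.lf 15087 0 0) P.nil))) (P.cons (P.cons (P.lf 0 729098 0) (P.cons (P.lf 60251 0 0) P.nil)) (P.cons (P.cons (P.lf 0 33840 0) P.nil) P.nil)))))) 39820)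
 EL.nil))
noncomputable def S140_169_512_549_15 : EL := (EL.cons 4 (TM.mk (P.cons (P.lf 0 1768552689 0) (P.cons (P.lf 339330810 0 0) (P.cons (P.lf 11500469 0 0) (P.cons (P.lf 0 2498728 0) (P.cons (P.lf 0 210304 0) (P.cons (P.lf 2321 0 0) P.nil)))))) 1708)
 (EL.cons 8 (TM.mk (P.cons (P.lf 0 955755124 0) (P.cons (P.lf 0 19937749 0) (P.cons (P.lf 20950159 0 0) (P.cons (P.lf 1161554 0 0) (P.cons (P.lf 0 73087 0) (P.cons (P.lf 0 10388 0) P.nil)))))) 788)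
 EL.nil))
noncomputable def S140_169_512_549_16 : EL := (EL.cons 4 (TM.mk (P.cons (P.cons (P.lf 115194269 0 0) (P.cons (P.lf 28915230 0 0) (P.cons (P.lf 0 113696 0) (P.lf 0 37897 0)))) (P.cons (P.cons (P.lf 0 205419975 0) (P.cons (P.lf 4583549 0 0) (P.cons (P.lf 0 18022 0) (P.lf 0 6006 0)))) (P.cons (P.cons (P.lf 46175191 0 0) (P.cons (P.lf 0 1196923 0) (P.cons (P.lf 4706 0 0) (P.lf 1570 0 0)))) (P.cons (P.cons (P.lf 2458803 0 0) (P.cons (P.lf 0 261966 0) (P.cons (P.lf 1029 0 0) P.nil))) (P.cons (P.cons (P.lf 0 936807 0) (P.cons (P.lf 8075 0 0) P.nil)) (P.cons (P.cons (P.lf 0 60357 0) P.nil) P.nil)))))) 24637)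
 (EL.cons 8 (TM.mk (P.cons (P.cons (P.lf 62252888 0 0) (P.cons (P.lf 15626268 0 0) (P.cons (P.lf 0 61443 0) (P.lf 0 20480 0)))) (P.cons (P.cons (P.lf 0 97769298 0) (P.cons (P.lf 5801200 0 0) (P.cons (P.lf 0 22810 0) (P.lf 0 7603 0)))) (P.cons (P.cons (P.lf 2919352 0 0) (P.cons (P.lf 276993 0 0) (P.cons (P.lf 0 1089 0) (P.lf 0 362 0)))) (P.cons (P.cons (P.lf 4043476 0 0) (P.cons (P.lf 0 159559 0) (P.cons (P.lf 626 0 0) P.nil))) (P.cons (P.cons (P.lf 39676 0 0) (P.cons (P.lf 0 25093 0) P.nil)) (P.cons (P.cons (P.lf 0 68956 0) P.nil) P.nil)))))) 14725)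
 EL.nil))
noncomputable def S140_169_512_549_17 : EL := (EL.cons 4 (TM.mk (P.cons (P.cons (P.lf 0 7503151 0) (P.cons (P.lf 0 3766772 0) (P.cons (P.lf 0 457942 0) (P.cons (P.lf 8654 0 0) (P.cons (P.lf 1230 0 0) (P.cons (P.lf 0 3 0) P.nil)))))) (P.cons (P.cons (P.lf 25320340 0 0) (P.cons (P.lf 5397267 0 0) (P.cons (P.lf 0 261808 0) (P.cons (P.lf 0 5181 0) (P.cons (P.lf 626 0 0) P.nil))))) (P.cons (P.cons (P.lf 0 25065646 0) (P.cons (P.lf 721872 0 0) (P.cons (P.lf 0 24813 0) (P.cons (P.lf 0 772 0) P.nil)))) (P.cons (P.cons (P.lf 5772251 0 0) (P.cons (P.lf 0 384742 0) (P.cons (P.lf 11170 0 0) P.nil))) (P.cons (P.cons (P.lf 397274 0 0) (P.cons (P.lf 0 57822 0) P.nil)) (P.cons (P.cons (P.lf 0 191999 0) P.nil) P.nil)))))) 69777)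
 (EL.cons 8 (TM.mk (P.cons (P.cons (P.lf 0 4054827 0) (P.cons (P.lf 0 2035626 0) (P.cons (P.lf 0 247479 0) (P.cons (P.lf 4676 0 0) (P.cons (P.lf 665 0 0) (P.cons (P.lf 0 2 0) P.nil)))))) (P.cons (P.cons (P.lf 12820947 0 0) (P.cons (P.lf 2483733 0 0) (P.cons (P.lf 0 194131 0) (P.cons (P.lf 0 1805 0) (P.cons (P.lf 479 0 0) P.nil))))) (P.cons (P.cons (P.lf 0 10737982 0) (P.cons (P.lf 958893 0 0) (P.cons (P.lf 0 49793 0) (P.cons (P.lf 0 894 0) P.nil)))) (P.cons (P.cons (P.lf 570639 0 0) (P.cons (P.lf 0 58235 0) (P.cons (P.lf 0 1307 0) P.nil))) (P.cons (P.cons (P.lf 581782 0 0) (P.cons (P.lf 0 56042 0) P.nil)) (P.cons (P.cons (P.lf 0 21215 0) P.nil) P.nil)))))) 44698)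
 EL.nil))
noncomputable def S140_169_512_549_18 : EL := (EL.cons 4 (TM.mk (P.cons (P.lf 1172091282 0 0) (P.cons (P.lf 0 337332345 0) (P.cons (P.lf 4748184 0 0) (P.cons (P.lf 4098243 0 0) (P.cons (P.lf 79189 0 0) (P.cons (P.lf 0 31469 0) P.nil)))))) 3321)
 (EL.cons 8 (TM.mk (P.cons (P.lf 633417514 0 0) (P.cons (P.lf 0 47553107 0) (P.cons (P.lf 0 20126446 0) (P.cons (P.lf 428689 0 0) (P.cons (P.lf 245981 0 0) (P.cons (P.lf 10070 0 0) P.nil)))))) 1843)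
 EL.nil))
noncomputable def S140_169_512_549_19 : EL := (EL.cons 4 (TM.mk (P.cons (P.cons (P.lf 0 76343893 0) (P.cons (P.lf 0 19163290 0) (P.cons (P.lf 75351 0 0) (P.lf 25115 0 0)))) (P.cons (P.cons (P.lf 143464133 0 0) (P.cons (P.lf 0 1199280 0) (P.cons (P.lf 4715 0 0) (P.lf 1571 0 0)))) (P.cons (P.cons (P.lf 0 43063175 0) (P.cons (P.lf 1235160 0 0) (P.cons (P.lf 0 4856 0) (P.lf 0 1619 0)))) (P.cons (P.cons (P.lf 240719 0 0) (P.cons (P.lf 122270 0 0) (P.cons (P.lf 0 480 0) P.nil))) (P.cons (P.cons (P.lf 1009278 0 0) (P.cons (P.lf 0 28556 0) P.nil)) (P.cons (P.cons (P.lf 0 2141 0) P.nil) P.nil)))))) 28958)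
 (EL.cons 8 (TM.mk (P.cons (P.cons (P.lf 0 41257502 0) (P.cons (P.lf 0 10356159 0) (P.cons (P.lf 40720 0 0) (P.lf 13573 0 0)))) (P.cons (P.cons (P.lf 68753684 0 0) (P.cons (P.lf 0 2851176 0) (P.cons (P.lf 11210 0 0) (P.lf 3736 0 0)))) (P.cons (P.cons (P.lf 0 7826919 0) (P.cons (P.lf 266592 0 0) (P.cons (P.lf 0 1048 0) (P.lf 0 350 0)))) (P.cons (P.cons (P.lf 0 3001073 0) (P.cons (P.lf 154036 0 0) (P.cons (P.lf 0 605 0) P.nil))) (P.cons (P.cons (P.lf 241944 0 0) (P.cons (P.lf 7858 0 0) P.nil)) (P.cons (P.cons (P.lf 70867 0 0) P.nil) P.nil)))))) 15554)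
 EL.nil))
noncomputable def S140_169_512_549_20 : EL := (EL.cons 4 (TM.mk (P.cons (P.cons (P.lf 4972641 0 0) (P.cons (P.lf 2496391 0 0) (P.cons (P.lf 303496 0 0) (P.cons (P.lf 0 5735 0) (P.cons (P.lf 0 815 0) (P.cons (P.lf 2 0 0) P.nil)))))) (P.cons (P.cons (P.lf 0 17257860 0) (P.cons (P.lf 0 3816477 0) (P.cons (P.lf 144394 0 0) (P.cons (P.lf 3983 0 0) (P.cons (P.lf 0 336 0) P.nil))))) (P.cons (P.cons (P.lf 18182826 0 0) (P.cons (P.lf 0 154860 0) (P.cons (P.lf 0 2582 0) (P.cons (P.lf 227 0 0) P.nil)))) (P.cons (P.cons (P.lf 0 5287622 0) (P.cons (P.lf 328854 0 0) (P.cons (P.lf 0 10357 0) P.nil))) (P.cons (P.cons (P.lf 0 25839 0) (P.cons (P.lf 17844 0 0) P.nil)) (P.cons (P.cons (P.lf 181367 0 0) P.nil) P.nil)))))) 60117)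
 (EL.cons 8 (TM.mk (P.cons (P.cons (P.lf 2687297 0 0) (P.cons (P.lf 1349091 0 0) (P.cons (P.lf 164014 0 0) (P.cons (P.lf 0 3099 0) (P.cons (P.lf 0 440 0) (P.cons (P.lf 1 0 0) P.nil)))))) (P.cons (P.cons (P.lf 0 8754764 0) (P.cons (P.lf 0 1775495 0) (P.cons (P.lf 112924 0 0) (P.cons (P.lf 1493 0 0) (P.cons (P.lf 0 275 0) P.nil))))) (P.cons (P.cons (P.lf 7910543 0 0) (P.cons (P.lf 0 488176 0) (P.cons (P.lf 19369 0 0) (P.cons (P.lf 502 0 0) P.nil)))) (P.cons (P.cons (P.lf 0 994302 0) (P.cons (P.lf 112424 0 0) (P.cons (P.lf 0 3317 0) P.nil))) (P.cons (P.cons (P.lf 0 404712 0) (P.cons (P.lf 38539 0 0) P.nil)) (P.cons (P.cons (P.lf 53484 0 0) P.nil) P.nil)))))) 41802)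
 EL.nil))
noncomputable def S140_169_512_549_21 : EL := (EL.cons 4 (TM.mk (P.cons (P.cons (P.lf 0 2368293741 0) (P.cons (P.lf 130889397 0 0) (P.cons (P.lf 0 514665 0) (P.lf 0 171546 0)))) (P.cons (P.cons (P.lf 138150801 0 0) (P.cons (P.lf 33304986 0 0) (P.cons (P.lf 0 130956 0) (P.lf 0 43650 0)))) (P.cons (P.cons (P.lf 163208484 0 0) (P.cons (P.lf 0 1195071 0) (P.cons (P.lf 4698 0 0) (P.lf 1572 0 0)))) (P.cons (P.cons (P.lf 9096447 0 0) (P.cons (P.lf 0 1032789 0) (P.cons (P.lf 4053 0 0) P.nil))) (P.cons (P.cons (P.lf 0 2322849 0) (P.cons (P.lf 0 73500 0) P.nil)) (P.cons (P.cons (P.lf 0 271677 0) P.nil) P.nil)))))) 55833)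
 (EL.cons 8 (TM.mk (P.cons (P.cons (P.lf 1558168437 0 0) (P.cons (P.lf 0 86115903 0) (P.cons (P.lf 338625 0 0) (P.lf 112875 0 0)))) (P.cons (P.cons (P.lf 0 422362455 0) (P.cons (P.lf 0 3592884 0) (P.cons (P.lf 14130 0 0) (P.lf 4710 0 0)))) (P.cons (P.cons (P.lf 0 57106449 0) (P.cons (P.lf 3737844 0 0) (P.cons (P.lf 0 14697 0) (P.lf 0 4896 0)))) (P.cons (P.cons (P.lf 11237331 0 0) (P.cons (P.lf 288072 0 0) (P.cons (P.lf 0 1131 0) P.nil))) (P.cons (P.cons (P.lf 1313037 0 0) (P.cons (P.lf 0 50178 0) P.nil)) (P.cons (P.cons (P.lf 0 75225 0) P.nil) P.nil)))))) 35037)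
 (EL.cons 11 (TM.mk (P.cons (P.cons (P.lf 1446038457 0 0) (P.cons (P.lf 0 13261206 0) (P.cons (P.lf 0 6615747 0) (P.cons (P.lf 14856 0 0) (P.lf 3714 0 0))))) (P.cons (P.cons (P.lf 337781094 0 0) (P.cons (P.lf 0 3097692 0) (P.cons (P.lf 0 1545375 0) (P.cons (P.lf 3468 0 0) (P.lf 867 0 0))))) (P.cons (P.cons (P.lf 11447952 0 0) (P.cons (P.lf 0 104985 0) (P.cons (P.lf 0 52374 0) (P.cons (P.lf 117 0 0) P.nil)))) (P.cons (P.cons (P.lf 0 2487309 0) (P.cons (P.lf 22809 0 0) (P.cons (P.lf 11379 0 0) P.nil))) (P.cons (P.cons (P.lf 0 209343 0) (P.cons (P.lf 1917 0 0) P.nil)) (P.cons (P.cons (P.lf 2307 0 0) P.nil) P.nil)))))) 2613)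
 EL.nil)))
noncomputable def S140_169_512_549_22 : EL := (EL.cons 4 (TM.mk (P.cons (P.cons (P.lf 154258263 0 0) (P.cons (P.lf 30195339 0 0) (P.cons (P.lf 0 2258727 0) (P.cons (P.lf 0 22746 0) (P.cons (P.lf 5574 0 0) (P.cons (P.lf 0 21 0) P.nil)))))) (P.cons (P.cons (P.lf 0 254481780 0) (P.cons (P.lf 22706412 0 0) (P.cons (P.lf 0 1383633 0) (P.cons (P.lf 0 19578 0) (P.cons (P.lf 3372 0 0) P.nil))))) (P.cons (P.cons (P.lf 19425603 0 0) (P.cons (P.lf 452616 0 0) (P.cons (P.lf 0 242232 0) (P.cons (P.lf 1299 0 0) P.nil)))) (P.cons (P.cons (P.lf 19904439 0 0) (P.cons (P.lf 0 1760253 0) (P.cons (P.lf 17301 0 0) P.nil))) (P.cons (P.cons (P.lf 0 213336 0) (P.cons (P.lf 0 275271 0) P.nil)) (P.cons (P.cons (P.lf 0 632640 0) P.nil) P.nil)))))) 166584)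
 (EL.cons 8 (TM.mk (P.cons (P.cons (P.lf 0 101490939 0) (P.cons (P.lf 0 19866378 0) (P.cons (P.lf 1486080 0 0) (P.cons (P.lf 14964 0 0) (P.cons (P.lf 0 3669 0) (P.cons (P.lf 12 0 0) P.nil)))))) (P.cons (P.cons (P.lf 189021030 0 0) (P.cons (P.lf 0 10713027 0) (P.cons (P.lf 594198 0 0) (P.cons (P.lf 9699 0 0) (P.cons (P.lf 0 1437 0) P.nil))))) (P.cons (P.cons (P.lf 0 50413317 0) (P.cons (P.lf 2485776 0 0) (P.cons (P.lf 0 4773 0) (P.cons (P.lf 0 3297 0) P.nil)))) (P.cons (P.cons (P.lf 0 6803985 0) (P.cons (P.lf 973506 0 0) (P.cons (P.lf 0 30852 0) P.nil))) (P.cons (P.cons (P.lf 2234979 0 0) (P.cons (P.lf 0 39951 0) P.nil)) (P.cons (P.cons (P.lf 206055 0 0) P.nil) P.nil)))))) 110469)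
 (EL.cons 11 (TM.mk (P.cons (P.cons (P.lf 0 94187379 0) (P.cons (P.lf 0 22778466 0) (P.cons (P.lf 740694 0 0) (P.cons (P.lf 137331 0 0) (P.cons (P.lf 0 1194 0) (P.cons (P.lf 0 201 0) P.nil)))))) (P.cons (P.cons (P.lf 127886523 0 0) (P.cons (P.lf 0 14979321 0) (P.cons (P.lf 0 404187 0) (P.cons (P.lf 82077 0 0) (P.cons (P.lf 0 225 0) P.nil))))) (P.cons (P.cons (P.lf 24658455 0 0) (P.cons (P.lf 0 3112863 0) (P.cons (P.lf 0 74988 0) (P.cons (P.lf 17136 0 0) P.nil)))) (P.cons (P.cons (P.lf 0 3641955 0) (P.cons (P.lf 0 123054 0) (P.cons (P.lf 18711 0 0) P.nil))) (P.cons (P.cons (P.lf 0 985725 0) (P.cons (P.lf 43614 0 0) P.nil)) (P.cons (P.cons (P.lf 0 10146 0) P.nil) P.nil)))))) 32598)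
 EL.nil)))
noncomputable def S140_169_512_549_23 : EL := (EL.cons 4 (TM.mk (P.cons (P.cons (P.lf 1569563895 0 0) (P.cons (P.lf 0 86745687 0) (P.cons (P.lf 341088 0 0) (P.lf 113688 0 0)))) (P.cons (P.cons (P.lf 0 242133606 0) (P.cons (P.lf 0 13750644 0) (P.cons (P.lf 54066 0 0) (P.lf 18021 0 0)))) (P.cons (P.cons (P.lf 0 111707208 0) (P.cons (P.lf 3590766 0 0) (P.cons (P.lf 0 14118 0) (P.lf 0 4707 0)))) (P.cons (P.cons (P.lf 4993491 0 0) (P.cons (P.lf 785898 0 0) (P.cons (P.lf 0 3084 0) P.nil))) (P.cons (P.cons (P.lf 3009375 0 0) (P.cons (P.lf 0 24228 0) P.nil)) (P.cons (P.cons (P.lf 84600 0 0) P.nil) P.nil)))))) 87246)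
 (EL.cons 8 (TM.mk (P.cons (P.cons (P.lf 0 1032661140 0) (P.cons (P.lf 57072486 0 0) (P.cons (P.lf 0 224418 0) (P.lf 0 74805 0)))) (P.cons (P.cons (P.lf 378984591 0 0) (P.cons (P.lf 0 3094077 0) (P.cons (P.lf 12165 0 0) (P.lf 4053 0 0)))) (P.cons (P.cons (P.lf 19102650 0 0) (P.cons (P.lf 0 3153849 0) (P.cons (P.lf 12399 0 0) (P.lf 4131 0 0)))) (P.cons (P.cons (P.lf 0 13227975 0) (P.cons (P.lf 25353 0 0) (P.cons (P.lf 0 99 0) P.nil))) (P.cons (P.cons (P.lf 0 490995 0) (P.cons (P.lf 72288 0 0) P.nil)) (P.cons (P.cons (P.lf 195465 0 0) P.nil) P.nil)))))) 45630)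
 (EL.cons 11 (TM.mk (P.cons (P.cons (P.lf 0 958348077 0) (P.cons (P.lf 8788734 0 0) (P.cons (P.lf 4384521 0 0) (P.cons (P.lf 0 9843 0) (P.lf 0 2460 0))))) (P.cons (P.cons (P.lf 0 131922423 0) (P.cons (P.lf 1209819 0 0) (P.cons (P.lf 603552 0 0) (P.cons (P.lf 0 1353 0) (P.lf 0 336 0))))) (P.cons (P.cons (P.lf 21415017 0 0) (P.cons (P.lf 0 196389 0) (P.cons (P.lf 0 97974 0) (P.cons (P.lf 219 0 0) P.nil)))) (P.cons (P.cons (P.lf 4179297 0 0) (P.cons (P.lf 0 38325 0) (P.cons (P.lf 0 19119 0) P.nil))) (P.cons (P.cons (P.lf 27576 0 0) (P.cons (P.lf 0 249 0) P.nil)) (P.cons (P.cons (P.lf 0 34059 0) P.nil) P.nil)))))) 5670)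
 EL.nil)))
noncomputable def S140_169_512_549_24 : EL := (EL.cons 4 (TM.mk (P.cons (P.cons (P.lf 0 102233178 0) (P.cons (P.lf 0 20011671 0) (P.cons (P.lf 1496949 0 0) (P.cons (P.lf 15072 0 0) (P.cons (P.lf 0 3693 0) (P.cons (P.lf 12 0 0) P.nil)))))) (P.cons (P.cons (P.lf 178463052 0 0) (P.cons (P.lf 0 13128645 0) (P.cons (P.lf 773379 0 0) (P.cons (P.lf 11529 0 0) (P.cons (P.lf 0 1878 0) P.nil))))) (P.cons (P.cons (P.lf 0 28251168 0) (P.cons (P.lf 1300851 0 0) (P.cons (P.lf 60810 0 0) (P.cons (P.lf 0 2223 0) P.nil)))) (P.cons (P.cons (P.lf 0 13276068 0) (P.cons (P.lf 1314483 0 0) (P.cons (P.lf 0 34137 0) P.nil))) (P.cons (P.cons (P.lf 1497624 0 0) (P.cons (P.lf 73095 0 0) P.nil)) (P.cons (P.cons (P.lf 513846 0 0) P.nil) P.nil)))))) 184107)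
 (EL.cons 8 (TM.mk (P.cons (P.cons (P.lf 67262142 0 0) (P.cons (P.lf 13166250 0 0) (P.cons (P.lf 0 984885 0) (P.cons (P.lf 0 9915 0) (P.cons (P.lf 2430 0 0) (P.cons (P.lf 0 9 0) P.nil)))))) (P.cons (P.cons (P.lf 0 131724636 0) (P.cons (P.lf 5836857 0 0) (P.cons (P.lf 0 299313 0) (P.cons (P.lf 0 5475 0) (P.cons (P.lf 720 0 0) P.nil))))) (P.cons (P.cons (P.lf 44900631 0 0) (P.cons (P.lf 0 2431950 0) (P.cons (P.lf 48678 0 0) (P.cons (P.lf 2880 0 0) P.nil)))) (P.cons (P.cons (P.lf 2284623 0 0) (P.cons (P.lf 0 543510 0) (P.cons (P.lf 23280 0 0) P.nil))) (P.cons (P.cons (P.lf 0 2168682 0) (P.cons (P.lf 101295 0 0) P.nil)) (P.cons (P.cons (P.lf 0 34377 0) P.nil) P.nil)))))) 109131)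
 (EL.cons 11 (TM.mk (P.cons (P.cons (P.lf 62421777 0 0) (P.cons (P.lf 15096210 0 0) (P.cons (P.lf 0 490887 0) (P.cons (P.lf 0 91014 0) (P.cons (P.lf 789 0 0) (P.cons (P.lf 132 0 0) P.nil)))))) (P.cons (P.cons (P.lf 0 90743973 0) (P.cons (P.lf 8479152 0 0) (P.cons (P.lf 314964 0 0) (P.cons (P.lf 0 45663 0) (P.cons (P.lf 72 0 0) P.nil))))) (P.cons (P.cons (P.lf 0 8701368 0) (P.cons (P.lf 992085 0 0) (P.cons (P.lf 27855 0 0) (P.cons (P.lf 0 5424 0) P.nil)))) (P.cons (P.cons (P.lf 4644111 0 0) (P.cons (P.lf 0 195030 0) (P.cons (P.lf 0 19248 0) P.nil))) (P.cons (P.cons (P.lf 555546 0 0) (P.cons (P.lf 0 53031 0) P.nil)) (P.cons (P.cons (P.lf 0 76095 0) P.nil) P.nil)))))) 37365)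
 EL.nil)))
noncomputable def S140_169_512_549_25 : EL := (EL.cons 4 (TM.mk (P.cons (P.cons (P.lf 0 1040213370 0) (P.cons (P.lf 57489870 0 0) (P.cons (P.lf 0 226053 0) (P.lf 0 75345 0)))) (P.cons (P.cons (P.lf 260264178 0 0) (P.cons (P.lf 3597840 0 0) (P.cons (P.lf 0 14145 0) (P.lf 0 4713 0)))) (P.cons (P.cons (P.lf 66806988 0 0) (P.cons (P.lf 0 3705480 0) (P.cons (P.lf 14568 0 0) (P.lf 4857 0 0)))) (P.cons (P.cons (P.lf 0 11623065 0) (P.cons (P.lf 0 366810 0) (P.cons (P.lf 1437 0 0) P.nil))) (P.cons (P.cons (P.lf 0 2290959 0) (P.cons (P.lf 85671 0 0) P.nil)) (P.cons (P.cons (P.lf 160308 0 0) P.nil) P.nil)))))) 91194)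
 (EL.cons 8 (TM.mk (P.cons (P.cons (P.lf 684386238 0 0) (P.cons (P.lf 0 37824240 0) (P.cons (P.lf 148731 0 0) (P.lf 49575 0 0)))) (P.cons (P.cons (P.lf 0 316824717 0) (P.cons (P.lf 5679222 0 0) (P.cons (P.lf 0 22329 0) (P.lf 0 7443 0)))) (P.cons (P.cons (P.lf 6061086 0 0) (P.cons (P.lf 2190501 0 0) (P.cons (P.lf 0 8613 0) (P.lf 0 2868 0)))) (P.cons (P.cons (P.lf 11921571 0 0) (P.cons (P.lf 0 231651 0) (P.cons (P.lf 909 0 0) P.nil))) (P.cons (P.cons (P.lf 0 387906 0) (P.cons (P.lf 0 63717 0) P.nil)) (P.cons (P.cons (P.lf 0 234186 0) P.nil) P.nil)))))) 50373)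
 (EL.cons 11 (TM.mk (P.cons (P.cons (P.lf 635135967 0 0) (P.cons (P.lf 0 5824650 0) (P.cons (P.lf 0 2905800 0) (P.cons (P.lf 6525 0 0) (P.lf 1629 0 0))))) (P.cons (P.cons (P.lf 26498799 0 0) (P.cons (P.lf 0 243012 0) (P.cons (P.lf 0 121233 0) (P.cons (P.lf 270 0 0) (P.lf 66 0 0))))) (P.cons (P.cons (P.lf 0 27567978 0) (P.cons (P.lf 252816 0 0) (P.cons (P.lf 126126 0 0) (P.cons (P.lf 0 282 0) P.nil)))) (P.cons (P.cons (P.lf 0 2124648 0) (P.cons (P.lf 19482 0 0) (P.cons (P.lf 9720 0 0) P.nil))) (P.cons (P.cons (P.lf 370110 0 0) (P.cons (P.lf 0 3393 0) P.nil)) (P.cons (P.cons (P.lf 49671 0 0) P.nil) P.nil)))))) 8811)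
 EL.nil)))
noncomputable def S140_169_512_549_26 : EL := (EL.cons 4 (TM.mk (P.cons (P.cons (P.lf 67754055 0 0) (P.cons (P.lf 13262541 0 0) (P.cons (P.lf 0 992088 0) (P.cons (P.lf 0 9990 0) (P.cons (P.lf 2448 0 0) (P.cons (P.lf 0 9 0) P.nil)))))) (P.cons (P.cons (P.lf 0 124774629 0) (P.cons (P.lf 7428546 0 0) (P.cons (P.lf 0 417372 0) (P.cons (P.lf 0 6681 0) (P.cons (P.lf 1011 0 0) P.nil))))) (P.cons (P.cons (P.lf 29537742 0 0) (P.cons (P.lf 0 1800993 0) (P.cons (P.lf 16659 0 0) (P.cons (P.lf 2283 0 0) P.nil)))) (P.cons (P.cons (P.lf 7928025 0 0) (P.cons (P.lf 0 857406 0) (P.cons (P.lf 30564 0 0) P.nil))) (P.cons (P.cons (P.lf 0 1976472 0) (P.cons (P.lf 41811 0 0) P.nil)) (P.cons (P.cons (P.lf 0 318066 0) P.nil) P.nil)))))) 176154)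
 (EL.cons 8 (TM.mk (P.cons (P.cons (P.lf 0 44577336 0) (P.cons (P.lf 0 8725806 0) (P.cons (P.lf 652722 0 0) (P.cons (P.lf 6570 0 0) (P.cons (P.lf 0 1611 0) (P.cons (P.lf 6 0 0) P.nil)))))) (P.cons (P.cons (P.lf 91575744 0 0) (P.cons (P.lf 0 3031212 0) (P.cons (P.lf 135747 0 0) (P.cons (P.lf 2997 0 0) (P.cons (P.lf 0 321 0) P.nil))))) (P.cons (P.cons (P.lf 0 37782408 0) (P.cons (P.lf 2051382 0 0) (P.cons (P.lf 0 56415 0) (P.cons (P.lf 0 2307 0) P.nil)))) (P.cons (P.cons (P.lf 657177 0 0) (P.cons (P.lf 236370 0 0) (P.cons (P.lf 0 13923 0) P.nil))) (P.cons (P.cons (P.lf 1811043 0 0) (P.cons (P.lf 0 114372 0) P.nil)) (P.cons (P.cons (P.lf 0 99765 0) P.nil) P.nil)))))) 95766)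
 (EL.cons 11 (TM.mk (P.cons (P.cons (P.lf 0 41369433 0) (P.cons (P.lf 0 10004868 0) (P.cons (P.lf 325329 0 0) (P.cons (P.lf 60318 0 0) (P.cons (P.lf 0 522 0) (P.cons (P.lf 0 87 0) P.nil)))))) (P.cons (P.cons (P.lf 64108455 0 0) (P.cons (P.lf 0 4659663 0) (P.cons (P.lf 0 239949 0) (P.cons (P.lf 24474 0 0) (P.cons (P.lf 0 0 0) P.nil))))) (P.cons (P.cons (P.lf 322146 0 0) (P.cons (P.lf 0 39822 0) (P.cons (P.lf 0 990 0) (P.cons (P.lf 216 0 0) P.nil)))) (P.cons (P.cons (P.lf 0 4101411 0) (P.cons (P.lf 236931 0 0) (P.cons (P.lf 16152 0 0) P.nil))) (P.cons (P.cons (P.lf 0 122019 0) (P.cons (P.lf 27930 0 0) P.nil)) (P.cons (P.cons (P.lf 111048 0 0) P.nil) P.nil)))))) 34785)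
 EL.nil)))
noncomputable def S140_169_512_549_27 : EL := (EL.cons 13 (TM.mk (P.lf 0 4294967296 0) 0)
 EL.nil)
noncomputable def S140_169_512_549_28 : EL := (EL.cons 13 (TM.mk (P.cons (P.cons (P.lf 279751699 0 0) (P.cons (P.lf 70221244 0 0) (P.cons (P.lf 0 276116 0) (P.lf 0 92036 0)))) (P.cons (P.cons (P.lf 0 445190981 0) (P.cons (P.lf 24604540 0 0) (P.cons (P.lf 0 96748 0) (P.lf 0 32248 0)))) (P.cons (P.cons (P.lf 28538139 0 0) (P.cons (P.lf 2270732 0 0) (P.cons (P.lf 0 8928 0) (P.lf 0 2972 0)))) (P.cons (P.cons (P.lf 8156628 0 0) (P.cons (P.lf 0 139724 0) (P.cons (P.lf 548 0 0) P.nil))) (P.cons (P.cons (P.lf 71254 0 0) (P.cons (P.lf 0 35544 0) P.nil)) (P.cons (P.cons (P.lf 0 66883 0) P.nil) P.nil)))))) 10283)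
 EL.nil)
noncomputable def S140_169_512_549_29 : EL := (EL.cons 13 (TM.mk (P.cons (P.cons (P.lf 0 18221562 0) (P.cons (P.lf 0 9147688 0) (P.cons (P.lf 0 1112123 0) (P.cons (P.lf 21018 0 0) (P.cons (P.lf 2991 0 0) (P.cons (P.lf 0 11 0) P.nil)))))) (P.cons (P.cons (P.lf 57994822 0 0) (P.cons (P.lf 11352218 0 0) (P.cons (P.lf 0 849189 0) (P.cons (P.lf 0 8551 0) (P.cons (P.lf 2096 0 0) P.nil))))) (P.cons (P.cons (P.lf 0 49863521 0) (P.cons (P.lf 3871738 0 0) (P.cons (P.lf 0 230427 0) (P.cons (P.lf 0 3382 0) P.nil)))) (P.cons (P.cons (P.lf 4853630 0 0) (P.cons (P.lf 0 104745 0) (P.cons (P.lf 0 21035 0) P.nil))) (P.cons (P.cons (P.lf 1492030 0 0) (P.cons (P.lf 0 150295 0) P.nil)) (P.cons (P.cons (P.lf 0 84909 0) P.nil) P.nil)))))) 66514)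
 EL.nil)
noncomputable def S140_169_512_549_30 : EL := (EL.cons 13 (TM.mk (P.cons (P.lf 2846448260 0 0) (P.cons (P.lf 0 273072892 0) (P.cons (P.lf 0 22353452 0) (P.cons (P.lf 0 133644 0) (P.cons (P.lf 68648 0 0) (P.cons (P.lf 3668 0 0) P.nil)))))) 396)
 EL.nil)
noncomputable def S140_169_512_549_31 : EL := (EL.cons 13 (TM.mk (P.cons (P.cons (P.lf 0 185402747 0) (P.cons (P.lf 0 46538453 0) (P.cons (P.lf 182993 0 0) (P.lf 60995 0 0)))) (P.cons (P.cons (P.lf 312832579 0 0) (P.cons (P.lf 0 11841773 0) (P.cons (P.lf 46563 0 0) (P.lf 15520 0 0)))) (P.cons (P.cons (P.lf 0 45762515 0) (P.cons (P.lf 424915 0 0) (P.cons (P.lf 0 1671 0) (P.lf 0 559 0)))) (P.cons (P.cons (P.lf 0 5899601 0) (P.cons (P.lf 367214 0 0) (P.cons (P.lf 0 1442 0) P.nil))) (P.cons (P.cons (P.lf 601577 0 0) (P.cons (P.lf 26134 0 0) P.nil)) (P.cons (P.cons (P.lf 99072 0 0) P.nil) P.nil)))))) 18086)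
 EL.nil)
noncomputable def S140_169_512_549_32 : EL := (EL.cons 13 (TM.mk (P.cons (P.cons (P.lf 12076164 0 0) (P.cons (P.lf 6062542 0 0) (P.cons (P.lf 737048 0 0) (P.cons (P.lf 0 13929 0) (P.cons (P.lf 0 1982 0) (P.cons (P.lf 7 0 0) P.nil)))))) (P.cons (P.cons (P.lf 0 39594032 0) (P.cons (P.lf 0 8105180 0) (P.cons (P.lf 492083 0 0) (P.cons (P.lf 7003 0 0) (P.cons (P.lf 0 1198 0) P.nil))))) (P.cons (P.cons (P.lf 36639029 0 0) (P.cons (P.lf 0 1891795 0) (P.cons (P.lf 92933 0 0) (P.cons (P.lf 1807 0 0) P.nil)))) (P.cons (P.cons (P.lf 0 6085735 0) (P.cons (P.lf 374381 0 0) (P.cons (P.lf 0 5164 0) P.nil))) (P.cons (P.cons (P.lf 0 937658 0) (P.cons (P.lf 113597 0 0) P.nil)) (P.cons (P.cons (P.lf 173933 0 0) P.nil) P.nil)))))) 77936)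
 EL.nil)
noncomputable def S140_169_512_549_33 : EL := (EL.cons 14 (TM.mk (P.lf 8589934592 0 0) 0)
 EL.nil)
noncomputable def S140_169_512_549_34 : EL := (EL.cons 14 (TM.mk (P.cons (P.cons (P.lf 0 559503398 0) (P.cons (P.lf 0 140442488 0) (P.cons (P.lf 552232 0 0) (P.lf 184072 0 0)))) (P.cons (P.cons (P.lf 890381962 0 0) (P.cons (P.lf 0 49209080 0) (P.cons (P.lf 193496 0 0) (P.lf 64496 0 0)))) (P.cons (P.cons (P.lf 0 57076278 0) (P.cons (P.lf 0 4541464 0) (P.cons (P.lf 17856 0 0) (P.lf 5944 0 0)))) (P.cons (P.cons (P.lf 0 16313256 0) (P.cons (P.lf 279448 0 0) (P.cons (P.lf 0 1096 0) P.nil))) (P.cons (P.cons (P.lf 0 142508 0) (P.cons (P.lf 71088 0 0) P.nil)) (P.cons (P.cons (P.lf 133766 0 0) P.nil) P.nil)))))) 20566)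
 EL.nil)
noncomputable def S140_169_512_549_35 : EL := (EL.cons 14 (TM.mk (P.cons (P.cons (P.lf 36443124 0 0) (P.cons (P.lf 18295376 0 0) (P.cons (P.lf 2224246 0 0) (P.cons (P.lf 0 42036 0) (P.cons (P.lf 0 5982 0) (P.cons (P.lf 22 0 0) P.nil)))))) (P.cons (P.cons (P.lf 0 115989644 0) (P.cons (P.lf 0 22704436 0) (P.cons (P.lf 1698378 0 0) (P.cons (P.lf 17102 0 0) (P.cons (P.lf 0 4192 0) P.nil))))) (P.cons (P.cons (P.lf 99727042 0 0) (P.cons (P.lf 0 7743476 0) (P.cons (P.lf 460854 0 0) (P.cons (P.lf 6764 0 0) P.nil)))) (P.cons (P.cons (P.lf 0 9707260 0) (P.cons (P.lf 209490 0 0) (P.cons (P.lf 42070 0 0) P.nil))) (P.cons (P.cons (P.lf 0 2984060 0) (P.cons (P.lf 300590 0 0) P.nil)) (P.cons (P.cons (P.lf 169818 0 0) P.nil) P.nil)))))) 133028)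
 EL.nil)
noncomputable def S140_169_512_549_36 : EL := (EL.cons 14 (TM.mk (P.cons (P.lf 0 5692896520 0) (P.cons (P.lf 546145784 0 0) (P.cons (P.lf 44706904 0 0) (P.cons (P.lf 267288 0 0) (P.cons (P.lf 0 137296 0) (P.cons (P.lf 0 7336 0) P.nil)))))) 792)
 EL.nil)
noncomputable def S140_169_512_549_37 : EL := (EL.cons 14 (TM.mk (P.cons (P.cons (P.lf 370805494 0 0) (P.cons (P.lf 93076906 0 0) (P.cons (P.lf 0 365986 0) (P.lf 0 121990 0)))) (P.cons (P.cons (P.lf 0 625665158 0) (P.cons (P.lf 23683546 0 0) (P.cons (P.lf 0 93126 0) (P.lf 0 31040 0)))) (P.cons (P.cons (P.lf 91525030 0 0) (P.cons (P.lf 0 849830 0) (P.cons (P.lf 3342 0 0) (P.lf 1118 0 0)))) (P.cons (P.cons (P.lf 11799202 0 0) (P.cons (P.lf 0 734428 0) (P.cons (P.lf 2884 0 0) P.nil))) (P.cons (P.cons (P.lf 0 1203154 0) (P.cons (P.lf 0 52268 0) P.nil)) (P.cons (P.cons (P.lf 0 198144 0) P.nil) P.nil)))))) 36172)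
 EL.nil)
noncomputable def S140_169_512_549_38 : EL := (EL.cons 14 (TM.mk (P.cons (P.cons (P.lf 0 24152328 0) (P.cons (P.lf 0 12125084 0) (P.cons (P.lf 0 1474096 0) (P.cons (P.lf 27858 0 0) (P.cons (P.lf 3964 0 0) (P.cons (P.lf 0 14 0) P.nil)))))) (P.cons (P.cons (P.lf 79188064 0 0) (P.cons (P.lf 16210360 0 0) (P.cons (P.lf 0 984166 0) (P.cons (P.lf 0 14006 0) (P.cons (P.lf 2396 0 0) P.nil))))) (P.cons (P.cons (P.lf 0 73278058 0) (P.cons (P.lf 3783590 0 0) (P.cons (P.lf 0 185866 0) (P.cons (P.lf 0 3614 0) P.nil)))) (P.cons (P.cons (P.lf 12171470 0 0) (P.cons (P.lf 0 748762 0) (P.cons (P.lf 10328 0 0) P.nil))) (P.cons (P.cons (P.lf 1875316 0 0) (P.cons (P.lf 0 227194 0) P.nil)) (P.cons (P.cons (P.lf 0 347866 0) P.nil) P.nil)))))) 155872)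
 EL.nil)
noncomputable def S140_169_512_549_39 : EL := (EL.cons 14 (TM.mk (P.cons (P.lf 3772912404 0 0) (P.cons (P.lf 0 723905728 0) (P.cons (P.lf 0 24534334 0) (P.cons (P.lf 5330620 0 0) (P.cons (P.lf 448650 0 0) (P.cons (P.lf 0 4952 0) P.nil)))))) 3630)
 EL.nil)
noncomputable def S140_169_512_549_40 : EL := (EL.cons 14 (TM.mk (P.cons (P.cons (P.lf 0 245747774 0) (P.cons (P.lf 0 61685824 0) (P.cons (P.lf 242552 0 0) (P.lf 80848 0 0)))) (P.cons (P.cons (P.lf 438229280 0 0) (P.cons (P.lf 0 9778238 0) (P.cons (P.lf 38448 0 0) (P.lf 12814 0 0)))) (P.cons (P.cons (P.lf 0 98507076 0) (P.cons (P.lf 2553436 0 0) (P.cons (P.lf 0 10040 0) (P.lf 0 3350 0)))) (P.cons (P.cons (P.lf 0 5245448 0) (P.cons (P.lf 558862 0 0) (P.cons (P.lf 0 2196 0) P.nil))) (P.cons (P.cons (P.lf 1998522 0 0) (P.cons (P.lf 0 17228 0) P.nil)) (P.cons (P.cons (P.lf 128762 0 0) P.nil) P.nil)))))) 52520)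
 EL.nil)
noncomputable def S140_169_512_549_41 : EL := (EL.cons 14 (TM.mk (P.cons (P.cons (P.lf 16006724 0 0) (P.cons (P.lf 8035782 0 0) (P.cons (P.lf 976944 0 0) (P.cons (P.lf 0 18462 0) (P.cons (P.lf 0 2626 0) (P.cons (P.lf 8 0 0) P.nil)))))) (P.cons (P.cons (P.lf 0 54016726 0) (P.cons (P.lf 0 11514170 0) (P.cons (P.lf 558524 0 0) (P.cons (P.lf 11054 0 0) (P.cons (P.lf 0 1336 0) P.nil))))) (P.cons (P.cons (P.lf 53473380 0 0) (P.cons (P.lf 0 1539994 0) (P.cons (P.lf 52936 0 0) (P.cons (P.lf 1648 0 0) P.nil)))) (P.cons (P.cons (P.lf 0 12314136 0) (P.cons (P.lf 820784 0 0) (P.cons (P.lf 0 23830 0) P.nil))) (P.cons (P.cons (P.lf 0 847518 0) (P.cons (P.lf 123354 0 0) P.nil)) (P.cons (P.cons (P.lf 409598 0 0) P.nil) P.nil)))))) 148812)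
 EL.nil)
noncomputable def S140_169_512_549_42 : EL := (EL.cons 14 (TM.mk (P.cons (P.lf 0 2500461402 0) (P.cons (P.lf 719642336 0 0) (P.cons (P.lf 0 10129460 0) (P.cons (P.lf 0 8742920 0) (P.cons (P.lf 0 168938 0) (P.cons (P.lf 67134 0 0) P.nil)))))) 7070)
 EL.nil)
noncomputable def S140_169_512_549_43 : EL := (EL.cons 14 (TM.mk (P.cons (P.cons (P.lf 162866972 0 0) (P.cons (P.lf 40881686 0 0) (P.cons (P.lf 0 160750 0) (P.lf 0 53580 0)))) (P.cons (P.cons (P.lf 0 306056818 0) (P.cons (P.lf 2558464 0 0) (P.cons (P.lf 0 10060 0) (P.lf 0 3352 0)))) (P.cons (P.cons (P.lf 91868108 0 0) (P.cons (P.lf 0 2635010 0) (P.cons (P.lf 10360 0 0) (P.lf 3454 0 0)))) (P.cons (P.cons (P.lf 0 513534 0) (P.cons (P.lf 0 260844 0) (P.cons (P.lf 1024 0 0) P.nil))) (P.cons (P.cons (P.lf 0 2153128 0) (P.cons (P.lf 60920 0 0) P.nil)) (P.cons (P.cons (P.lf 4568 0 0) P.nil) P.nil)))))) 61738)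
 EL.nil)
noncomputable def S140_169_512_549_44 : EL := (EL.cons 14 (TM.mk (P.cons (P.cons (P.lf 0 10608302 0) (P.cons (P.lf 0 5325636 0) (P.cons (P.lf 0 647460 0) (P.cons (P.lf 12236 0 0) (P.cons (P.lf 1740 0 0) (P.cons (P.lf 0 6 0) P.nil)))))) (P.cons (P.cons (P.lf 36816768 0 0) (P.cons (P.lf 8141818 0 0) (P.cons (P.lf 0 308042 0) (P.cons (P.lf 0 8498 0) (P.cons (P.lf 718 0 0) P.nil))))) (P.cons (P.cons (P.lf 0 38790030 0) (P.cons (P.lf 330370 0 0) (P.cons (P.lf 5510 0 0) (P.cons (P.lf 0 486 0) P.nil)))) (P.cons (P.cons (P.lf 11280262 0 0) (P.cons (P.lf 0 701556 0) (P.cons (P.lf 22096 0 0) P.nil))) (P.cons (P.cons (P.lf 55124 0 0) (P.cons (P.lf 0 38068 0) P.nil)) (P.cons (P.cons (P.lf 0 386918 0) P.nil) P.nil)))))) 128204)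
 EL.nil)
noncomputable def S140_169_512_549_45 : EL := (EL.cons 14 (TM.mk (P.cons (P.cons (P.lf 0 2373714 0) (P.cons (P.lf 0 1787496 0) (P.cons (P.lf 0 441656 0) (P.cons (P.lf 0 31670 0) (P.cons (P.lf 1610 0 0) (P.cons (P.lf 140 0 0) P.nil)))))) (P.cons (P.cons (P.lf 11332436 0 0) (P.cons (P.lf 5062858 0 0) (P.cons (P.lf 379694 0 0) (P.cons (P.lf 0 49240 0) (P.cons (P.lf 0 574 0) P.nil))))) (P.cons (P.cons (P.lf 0 18760648 0) (P.cons (P.lf 0 2955904 0) (P.cons (P.lf 382118 0 0) (P.cons (P.lf 0 16508 0) P.nil)))) (P.cons (P.cons (P.lf 11670886 0 0) (P.cons (P.lf 0 1050258 0) (P.cons (P.lf 84430 0 0) P.nil))) (P.cons (P.cons (P.lf 0 1254800 0) (P.cons (P.lf 144602 0 0) P.nil)) (P.cons (P.cons (P.lf 0 442770 0) P.nil) P.nil)))))) 215972)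
 EL.nil)
noncomputable def S140_169_512_549_46 : EL := (EL.cons 15 (TM.mk (P.lf 4294967296 0 0) 0)
 EL.nil)
noncomputable def S140_169_512_549_47 : EL := (EL.cons 15 (TM.mk (P.cons (P.cons (P.lf 0 279751699 0) (P.cons (P.lf 0 70221244 0) (P.cons (P.lf 276116 0 0) (P.lf 92036 0 0)))) (P.cons (P.cons (P.lf 445190981 0 0) (P.cons (P.lf 0 24604540 0) (P.cons (P.lf 96748 0 0) (P.lf 32248 0 0)))) (P.cons (P.cons (P.lf 0 28538139 0) (P.cons (P.lf 0 2270732 0) (P.cons (P.lf 8928 0 0) (P.lf 2972 0 0)))) (P.cons (P.cons (P.lf 0 8156628 0) (P.cons (P.lf 139724 0 0) (P.cons (P.lf 0 548 0) P.nil))) (P.cons (P.cons (P.lf 0 71254 0) (P.cons (P.lf 35544 0 0) P.nil)) (P.cons (P.cons (P.lf 66883 0 0) P.nil) P.nil)))))) 10283)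
 EL.nil)
noncomputable def S140_169_512_549_48 : EL := (EL.cons 15 (TM.mk (P.cons (P.cons (P.lf 18221562 0 0) (P.cons (P.lf 9147688 0 0) (P.cons (P.lf 1112123 0 0) (P.cons (P.lf 0 21018 0) (P.cons (P.lf 0 2991 0) (P.cons (P.lf 11 0 0) P.nil)))))) (P.cons (P.cons (P.lf 0 57994822 0) (P.cons (P.lf 0 11352218 0) (P.cons (P.lf 849189 0 0) (P.cons (P.lf 8551 0 0) (P.cons (P.lf 0 2096 0) P.nil))))) (P.cons (P.cons (P.lf 49863521 0 0) (P.cons (P.lf 0 3871738 0) (P.cons (P.lf 230427 0 0) (P.cons (P.lf 3382 0 0) P.nil)))) (P.cons (P.cons (P.lf 0 4853630 0) (P.cons (P.lf 104745 0 0) (P.cons (P.lf 21035 0 0) P.nil))) (P.cons (P.cons (P.lf 0 1492030 0) (P.cons (P.lf 150295 0 0) P.nil)) (P.cons (P.cons (P.lf 84909 0 0) P.nil) P.nil)))))) 66514)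
 EL.nil)
noncomputable def S140_169_512_549 : SL := (SL.cons S140_169_512_549_0 (SL.cons S140_169_512_549_1 (SL.cons S140_169_512_549_2 (SL.cons S140_169_512_549_3 (SL.cons S140_169_512_549_4 (SL.cons S140_169_512_549_5 (SL.cons S140_169_512_549_6 (SL.cons S140_169_512_549_7 (SL.cons S140_169_512_549_8 (SL.cons S140_169_512_549_9 (SL.cons S140_169_512_549_10 (SL.cons S140_169_512_549_11 (SL.cons S140_169_512_549_12 (SL.cons S140_169_512_549_13 (SL.cons S140_169_512_549_14 (SL.cons S140_169_512_549_15 (SL.cons S140_169_512_549_16 (SL.cons S140_169_512_549_17 (SL.cons S140_169_512_549_18 (SL.cons S140_169_512_549_19 (SL.cons S140_169_512_549_20 (SL.cons S140_169_512_549_21 (SL.cons S140_169_512_549_22 (SL.cons S140_169_512_549_23 (SL.cons S140_169_512_549_24 (SL.cons S140_169_512_549_25 (SL.cons S140_169_512_549_26 (SL.cons S140_169_512_549_27 (SL.cons S140_169_512_549_28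 (SL.cons S140_169_512_549_29 (SL.cons S140_169_512_549_30 (SL.cons S140_169_512_549_31 (SL.cons S140_169_512_549_32 (SL.cons S140_169_512_549_33 (SL.cons S140_169_512_549_34 (SL.cons S140_169_512_549_35 (SL.cons S140_169_512_549_36 (SL.cons S140_169_512_549_37 (SL.cons S140_169_512_549_38 (SL.cons S140_169_512_549_39 (SL.cons S140_169_512_549_40 (SL.cons S140_169_512_549_41 (SL.cons S140_169_512_549_42 (SL.cons S140_169_512_549_43 (SL.cons S140_169_512_549_44 (SL.cons S140_169_512_549_45 (SL.cons S140_169_512_549_46 (SL.cons S140_169_512_549_47 (SL.cons S140_169_512_549_48 SL.nil)))))))))))))))))))))))))))))))))))))))))))))))))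
noncomputable def S140_169_512_586_0 : EL := (EL.cons 0 (TM.mk (P.cons (P.lf 5139680571 0 0) (P.cons (P.lf 636245268 0 0) (P.cons (P.lf 21563379 0 0) (P.cons (P.lf 0 4685115 0) (P.cons (P.lf 0 394321 0) (P.cons (P.lf 4352 0 0) P.nil)))))) 3197)
 (EL.cons 1 (TM.mk (P.cons (P.lf 0 1792040857 0) (P.cons (P.lf 0 37383279 0) (P.cons (P.lf 39281548 0 0) (P.cons (P.lf 2177913 0 0) (P.cons (P.lf 0 137038 0) (P.cons (P.lf 0 19477 0) P.nil)))))) 1484)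
 (EL.cons 5 (TM.mk (P.cons (P.lf 5474002426 0 0) (P.cons (P.lf 0 226220540 0) (P.cons (P.lf 0 7666984 0) (P.cons (P.lf 1665814 0 0) (P.cons (P.lf 140204 0 0) (P.cons (P.lf 0 1546 0) P.nil)))))) 969)
 (EL.cons 9 (TM.mk (P.lf 6442450944 0 0) 2)
 EL.nil))))
noncomputable def S140_169_512_586_1 : EL := (EL.cons 0 (TM.mk (P.cons (P.cons (P.lf 0 3199500219 0) (P.cons (P.lf 155377529 0 0) (P.cons (P.lf 0 2473029 0) (P.lf 0 824334 0)))) (P.cons (P.cons (P.lf 931317967 0 0) (P.cons (P.lf 0 27795345 0) (P.cons (P.lf 442407 0 0) (P.lf 147477 0 0)))) (P.cons (P.cons (P.lf 226468111 0 0) (P.cons (P.lf 0 26577584 0) (P.cons (P.lf 423013 0 0) (P.lf 140997 0 0)))) (P.cons (P.cons (P.lf 0 22491712 0) (P.cons (P.lf 0 3339466 0) (P.cons (P.lf 53139 0 0) P.nil))) (P.cons (P.cons (P.lf 0 7409516 0) (P.cons (P.lf 258006 0 0) P.nil)) (P.cons (P.cons (P.lf 0 99146 0) P.nil) P.nil)))))) 341530)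
 (EL.cons 1 (TM.mk (P.cons (P.cons (P.lf 309278519 0 0) (P.cons (P.lf 39019577 0 0) (P.cons (P.lf 0 621040 0) (P.lf 0 207007 0)))) (P.cons (P.cons (P.lf 0 555168581 0) (P.cons (P.lf 59477655 0 0) (P.cons (P.lf 0 946652 0) (P.lf 0 315542 0)))) (P.cons (P.cons (P.lf 54292398 0 0) (P.cons (P.lf 8409894 0 0) (P.cons (P.lf 0 133845 0) (P.lf 0 44610 0)))) (P.cons (P.cons (P.lf 28955184 0 0) (P.cons (P.lf 0 1525197 0) (P.cons (P.lf 24266 0 0) P.nil))) (P.cons (P.cons (P.lf 0 242193 0) (P.cons (P.lf 0 366420 0) P.nil)) (P.cons (P.cons (P.lf 0 535712 0) P.nil) P.nil)))))) 167881)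
 (EL.cons 5 (TM.mk (P.cons (P.cons (P.lf 543271935 0 0) (P.cons (P.lf 0 291181164 0) (P.cons (P.lf 4634532 0 0) (P.lf 1544844 0 0)))) (P.cons (P.cons (P.lf 384080971 0 0) (P.cons (P.lf 0 72785818 0) (P.cons (P.lf 1158480 0 0) (P.lf 386154 0 0)))) (P.cons (P.cons (P.lf 0 132876842 0) (P.cons (P.lf 1820378 0 0) (P.cons (P.lf 0 28972 0) (P.lf 0 9650 0)))) (P.cons (P.cons (P.lf 0 5632936 0) (P.cons (P.lf 1656818 0 0) (P.cons (P.lf 0 26360 0) P.nil))) (P.cons (P.cons (P.lf 2573463 0 0) (P.cons (P.lf 27700 0 0) P.nil)) (P.cons (P.cons (P.lf 150978 0 0) P.nil) P.nil)))))) 125563)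
 (EL.cons 9 (TM.mk (P.cons (P.cons (P.lf 0 524407180 0) (P.cons (P.lf 0 208178658 0) (P.cons (P.lf 3313434 0 0) (P.lf 1104474 0 0)))) (P.cons (P.cons (P.lf 631073155 0 0) (P.cons (P.lf 0 72942888 0) (P.cons (P.lf 1160976 0 0) (P.lf 386988 0 0)))) (P.cons (P.cons (P.lf 0 46195450 0) (P.cons (P.lf 0 6731844 0) (P.cons (P.lf 107142 0 0) (P.lf 35712 0 0)))) (P.cons (P.cons (P.lf 0 12026454 0) (P.cons (P.lf 414222 0 0) (P.cons (P.lf 0 6588 0) P.nil))) (P.cons (P.cons (P.lf 0 53841 0) (P.cons (P.lf 105378 0 0) P.nil)) (P.cons (P.cons (P.lf 102106 0 0) P.nil) P.nil)))))) 25241)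
 (EL.cons 2 (TM.mk (P.cons (P.cons (P.lf 886112926 0 0) (P.cons (P.lf 0 32846996 0) (P.cons (P.lf 0 16275802 0) (P.cons (P.lf 147690 0 0) (P.lf 36922 0 0))))) (P.cons (P.cons (P.lf 121978816 0 0) (P.cons (P.lf 0 4521585 0) (P.cons (P.lf 0 2240460 0) (P.cons (P.lf 20328 0 0) (P.lf 5082 0 0))))) (P.cons (P.cons (P.lf 0 19800869 0) (P.cons (P.lf 733992 0 0) (P.cons (P.lf 363692 0 0) (P.cons (P.lf 0 3299 0) P.nil)))) (P.cons (P.cons (P.lf 0 3864285 0) (P.cons (P.lf 143240 0 0) (P.cons (P.lf 70976 0 0) P.nil))) (P.cons (P.cons (P.lf 0 25498 0) (P.cons (P.lf 942 0 0) P.nil)) (P.cons (P.cons (P.lf 31491 0 0) P.nil) P.nil)))))) 13855)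
 (EL.cons 6 (TM.mk (P.cons (P.cons (P.lf 478870080 0 0) (P.cons (P.lf 0 17751060 0) (P.cons (P.lf 0 8795712 0) (P.cons (P.lf 79815 0 0) (P.lf 19953 0 0))))) (P.cons (P.cons (P.lf 167789373 0 0) (P.cons (P.lf 0 6219720 0) (P.cons (P.lf 0 3081894 0) (P.cons (P.lf 27963 0 0) (P.lf 6990 0 0))))) (P.cons (P.cons (P.lf 15485163 0 0) (P.cons (P.lf 0 574011 0) (P.cons (P.lf 0 284424 0) (P.cons (P.lf 2580 0 0) P.nil)))) (P.cons (P.cons (P.lf 0 952842 0) (P.cons (P.lf 35319 0 0) (P.cons (P.lf 17499 0 0) P.nil))) (P.cons (P.cons (P.lf 0 242409 0) (P.cons (P.lf 8985 0 0) P.nil)) (P.cons (P.cons (P.lf 0 8148 0) P.nil) P.nil)))))) 8271)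
 EL.nil))))))
noncomputable def S140_169_512_586_2 : EL := (EL.cons 0 (TM.mk (P.cons (P.cons (P.lf 486816121 0 0) (P.cons (P.lf 154441917 0 0) (P.cons (P.lf 0 17866435 0) (P.cons (P.lf 0 328884 0) (P.cons (P.lf 159582 0 0) (P.cons (P.lf 0 2592 0) P.nil)))))) (P.cons (P.cons (P.lf 0 700686759 0) (P.cons (P.lf 66944200 0 0) (P.cons (P.lf 0 7212767 0) (P.cons (P.lf 0 159469 0) (P.cons (P.lf 63663 0 0) P.nil))))) (P.cons (P.cons (P.lf 146157705 0 0) (P.cons (P.lf 0 21499530 0) (P.cons (P.lf 870510 0 0) (P.cons (P.lf 97238 0 0) P.nil)))) (P.cons (P.cons (P.lf 45803890 0 0) (P.cons (P.lf 0 10096100 0) (P.cons (P.lf 820735 0 0) P.nil))) (P.cons (P.cons (P.lf 0 7866822 0) (P.cons (P.lf 0 59988 0) P.nil)) (P.cons (P.cons (P.lf 0 1924372 0) P.nil) P.nil)))))) 1653085)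
 (EL.cons 1 (TM.mk (P.cons (P.cons (P.lf 0 38476124 0) (P.cons (P.lf 0 16912929 0) (P.cons (P.lf 0 381336 0) (P.cons (P.lf 110440 0 0) (P.cons (P.lf 6735 0 0) (P.cons (P.lf 0 103 0) P.nil)))))) (P.cons (P.cons (P.lf 122641247 0 0) (P.cons (P.lf 18992214 0 0) (P.cons (P.lf 0 3679421 0) (P.cons (P.lf 6745 0 0) (P.cons (P.lf 34971 0 0) P.nil))))) (P.cons (P.cons (P.lf 0 103606962 0) (P.cons (P.lf 14925889 0 0) (P.cons (P.lf 0 1872366 0) (P.cons (P.lf 0 27147 0) P.nil)))) (P.cons (P.cons (P.lf 11771116 0 0) (P.cons (P.lf 0 776347 0) (P.cons (P.lf 0 187534 0) P.nil))) (P.cons (P.cons (P.lf 6011920 0 0) (P.cons (P.lf 0 1200563 0) P.nil)) (P.cons (P.cons (P.lf 0 512628 0) P.nil) P.nil)))))) 836153)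
 (EL.cons 5 (TM.mk (P.cons (P.cons (P.lf 0 124712634 0) (P.cons (P.lf 0 16502934 0) (P.cons (P.lf 13365088 0 0) (P.cons (P.lf 0 329542 0) (P.cons (P.lf 0 135701 0) (P.cons (P.lf 2201 0 0) P.nil)))))) (P.cons (P.cons (P.lf 132697702 0 0) (P.cons (P.lf 0 56566532 0) (P.cons (P.lf 8428662 0 0) (P.cons (P.lf 60449 0 0) (P.cons (P.lf 0 77969 0) P.nil))))) (P.cons (P.cons (P.lf 26615383 0 0) (P.cons (P.lf 0 3925816 0) (P.cons (P.lf 1303694 0 0) (P.cons (P.lf 0 18678 0) P.nil)))) (P.cons (P.cons (P.lf 0 24323777 0) (P.cons (P.lf 4085011 0 0) (P.cons (P.lf 0 157264 0) P.nil))) (P.cons (P.cons (P.lf 512164 0 0) (P.cons (P.lf 515849 0 0) P.nil)) (P.cons (P.cons (P.lf 848889 0 0) P.nil) P.nil)))))) 693082)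
 (EL.cons 9 (TM.mk (P.cons (P.cons (P.lf 42686065 0 0) (P.cons (P.lf 33890946 0 0) (P.cons (P.lf 6187578 0 0) (P.cons (P.lf 0 393942 0) (P.cons (P.lf 0 69673 0) (P.cons (P.lf 1135 0 0) P.nil)))))) (P.cons (P.cons (P.lf 0 102737077 0) (P.cons (P.lf 0 28909552 0) (P.cons (P.lf 5174224 0 0) (P.cons (P.lf 3315 0 0) (P.cons (P.lf 0 48825 0) P.nil))))) (P.cons (P.cons (P.lf 69337551 0 0) (P.cons (P.lf 0 10208898 0) (P.cons (P.lf 1423422 0 0) (P.cons (P.lf 14023 0 0) P.nil)))) (P.cons (P.cons (P.lf 0 7092315 0) (P.cons (P.lf 437029 0 0) (P.cons (P.lf 118711 0 0) P.nil))) (P.cons (P.cons (P.lf 0 2016103 0) (P.cons (P.lf 436347 0 0) P.nil)) (P.cons (P.cons (P.lf 145299 0 0) P.nil) P.nil)))))) 199760)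
 (EL.cons 2 (TM.mk (P.cons (P.cons (P.lf 0 144256893 0) (P.cons (P.lf 0 51919554 0) (P.cons (P.lf 5683944 0 0) (P.cons (P.lf 1297850 0 0) (P.cons (P.lf 0 43560 0) (P.cons (P.lf 0 7813 0) P.nil)))))) (P.cons (P.cons (P.lf 153741335 0 0) (P.cons (P.lf 0 33647664 0) (P.cons (P.lf 0 1343008 0) (P.cons (P.lf 670764 0 0) (P.cons (P.lf 0 11913 0) P.nil))))) (P.cons (P.cons (P.lf 14412802 0 0) (P.cons (P.lf 0 3868565 0) (P.cons (P.lf 0 88059 0) (P.cons (P.lf 79363 0 0) P.nil)))) (P.cons (P.cons (P.lf 0 8307703 0) (P.cons (P.lf 865102 0 0) (P.cons (P.lf 123069 0 0) P.nil))) (P.cons (P.cons (P.lf 0 939155 0) (P.cons (P.lf 210015 0 0) P.nil)) (P.cons (P.cons (P.lf 145265 0 0) P.nil) P.nil)))))) 161948)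
 (EL.cons 6 (TM.mk (P.cons (P.cons (P.lf 0 77958804 0) (P.cons (P.lf 0 28058184 0) (P.cons (P.lf 3071694 0 0) (P.cons (P.lf 701376 0 0) (P.cons (P.lf 0 23538 0) (P.cons (P.lf 0 4218 0) P.nil)))))) (P.cons (P.cons (P.lf 66500184 0 0) (P.cons (P.lf 0 24152568 0) (P.cons (P.lf 0 72336 0) (P.cons (P.lf 511692 0 0) (P.cons (P.lf 0 11448 0) P.nil))))) (P.cons (P.cons (P.lf 23483364 0 0) (P.cons (P.lf 0 6671514 0) (P.cons (P.lf 0 123966 0) (P.cons (P.lf 137814 0 0) P.nil)))) (P.cons (P.cons (P.lf 0 1005288 0) (P.cons (P.lf 0 540882 0) (P.cons (P.lf 49092 0 0) P.nil))) (P.cons (P.cons (P.lf 0 1003722 0) (P.cons (P.lf 79326 0 0) P.nil)) (P.cons (P.cons (P.lf 0 77934 0) P.nil) P.nil)))))) 104838)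
 EL.nil))))))
noncomputable def S140_169_512_586_3 : EL := (EL.cons 0 (TM.mk (P.cons (P.lf 3316036292 0 0) (P.cons (P.lf 0 636245268 0) (P.cons (P.lf 0 21563379 0) (P.cons (P.lf 4685115 0 0) (P.cons (P.lf 394321 0 0) (P.cons (P.lf 0 4352 0) P.nil)))))) 3197)
 (EL.cons 1 (TM.mk (P.cons (P.lf 1792040857 0 0) (P.cons (P.lf 37383279 0 0) (P.cons (P.lf 0 39281548 0) (P.cons (P.lf 0 2177913 0) (P.cons (P.lf 137038 0 0) (P.cons (P.lf 19477 0 0) P.nil)))))) 1484)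
 (EL.cons 5 (TM.mk (P.cons (P.lf 968448518 0 0) (P.cons (P.lf 226220540 0 0) (P.cons (P.lf 7666984 0 0) (P.cons (P.lf 0 1665814 0) (P.cons (P.lf 0 140204 0) (P.cons (P.lf 1546 0 0) P.nil)))))) 962)
 EL.nil)))
noncomputable def S140_169_512_586_4 : EL := (EL.cons 0 (TM.mk (P.cons (P.cons (P.lf 0 269921067 0) (P.cons (P.lf 0 107153005 0) (P.cons (P.lf 1705478 0 0) (P.lf 568490 0 0)))) (P.cons (P.cons (P.lf 376613354 0 0) (P.cons (P.lf 0 16985550 0) (P.cons (P.lf 270344 0 0) (P.lf 90112 0 0)))) (P.cons (P.cons (P.lf 0 84346020 0) (P.cons (P.lf 4435511 0 0) (P.cons (P.lf 0 70597 0) (P.lf 0 23531 0)))) (P.cons (P.cons (P.lf 0 4121644 0) (P.cons (P.lf 970783 0 0) (P.cons (P.lf 0 15447 0) P.nil))) (P.cons (P.cons (P.lf 1741452 0 0) (P.cons (P.lf 0 29923 0) P.nil)) (P.cons (P.cons (P.lf 103510 0 0) P.nil) P.nil)))))) 70792)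
 (EL.cons 1 (TM.mk (P.cons (P.cons (P.lf 0 145869808 0) (P.cons (P.lf 0 57907256 0) (P.cons (P.lf 921667 0 0) (P.lf 307220 0 0)))) (P.cons (P.cons (P.lf 172497210 0 0) (P.cons (P.lf 0 21497878 0) (P.cons (P.lf 342163 0 0) (P.lf 114052 0 0)))) (P.cons (P.cons (P.lf 0 5990424 0) (P.cons (P.lf 0 1026472 0) (P.cons (P.lf 16335 0 0) (P.lf 5445 0 0)))) (P.cons (P.cons (P.lf 0 7283911 0) (P.cons (P.lf 591288 0 0) (P.cons (P.lf 0 9408 0) P.nil))) (P.cons (P.cons (P.lf 0 27586 0) (P.cons (P.lf 92990 0 0) P.nil)) (P.cons (P.cons (P.lf 128872 0 0) P.nil) P.nil)))))) 40177)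
 (EL.cons 5 (TM.mk (P.cons (P.cons (P.lf 0 78830456 0) (P.cons (P.lf 0 31294038 0) (P.cons (P.lf 498084 0 0) (P.lf 166026 0 0)))) (P.cons (P.cons (P.lf 76450746 0 0) (P.cons (P.lf 0 18274988 0) (P.cons (P.lf 290868 0 0) (P.lf 96954 0 0)))) (P.cons (P.cons (P.lf 14591212 0 0) (P.cons (P.lf 0 3821018 0) (P.cons (P.lf 60814 0 0) (P.lf 20270 0 0)))) (P.cons (P.cons (P.lf 0 2543342 0) (P.cons (P.lf 0 207092 0) (P.cons (P.lf 3296 0 0) P.nil))) (P.cons (P.cons (P.lf 0 637128 0) (P.cons (P.lf 45764 0 0) P.nil)) (P.cons (P.cons (P.lf 0 2768 0) P.nil) P.nil)))))) 25442)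
 EL.nil)))
noncomputable def S140_169_512_586_5 : EL := (EL.cons 0 (TM.mk (P.cons (P.cons (P.lf 21971225 0 0) (P.cons (P.lf 17444230 0 0) (P.cons (P.lf 3184848 0 0) (P.cons (P.lf 0 202767 0) (P.cons (P.lf 0 35861 0) (P.cons (P.lf 583 0 0) P.nil)))))) (P.cons (P.cons (P.lf 0 57096077 0) (P.cons (P.lf 0 18227235 0) (P.cons (P.lf 2052184 0 0) (P.cons (P.lf 40610 0 0) (P.cons (P.lf 0 18249 0) P.nil))))) (P.cons (P.cons (P.lf 45692448 0 0) (P.cons (P.lf 0 2513067 0) (P.cons (P.lf 200949 0 0) (P.cons (P.lf 8208 0 0) P.nil)))) (P.cons (P.cons (P.lf 0 10123275 0) (P.cons (P.lf 1354566 0 0) (P.cons (P.lf 0 92290 0) P.nil))) (P.cons (P.cons (P.lf 0 641475 0) (P.cons (P.lf 196655 0 0) P.nil)) (P.cons (P.cons (P.lf 341739 0 0) P.nil) P.nil)))))) 243159)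
 (EL.cons 1 (TM.mk (P.cons (P.cons (P.lf 11873611 0 0) (P.cons (P.lf 9427149 0 0) (P.cons (P.lf 1721143 0 0) (P.cons (P.lf 0 109578 0) (P.cons (P.lf 0 19380 0) (P.cons (P.lf 315 0 0) P.nil)))))) (P.cons (P.cons (P.lf 0 28329791 0) (P.cons (P.lf 0 7844861 0) (P.cons (P.lf 1475171 0 0) (P.cons (P.lf 0 1363 0) (P.cons (P.lf 0 13983 0) P.nil))))) (P.cons (P.cons (P.lf 18430608 0 0) (P.cons (P.lf 0 3214115 0) (P.cons (P.lf 388235 0 0) (P.cons (P.lf 6320 0 0) P.nil)))) (P.cons (P.cons (P.lf 0 958477 0) (P.cons (P.lf 227137 0 0) (P.cons (P.lf 7638 0 0) P.nil))) (P.cons (P.cons (P.lf 0 989086 0) (P.cons (P.lf 196650 0 0) P.nil)) (P.cons (P.cons (P.lf 46464 0 0) P.nil) P.nil)))))) 146300)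
 (EL.cons 5 (TM.mk (P.cons (P.cons (P.lf 6416696 0 0) (P.cons (P.lf 5094588 0 0) (P.cons (P.lf 930134 0 0) (P.cons (P.lf 0 59216 0) (P.cons (P.lf 0 10472 0) (P.cons (P.lf 170 0 0) P.nil)))))) (P.cons (P.cons (P.lf 0 13944864 0) (P.cons (P.lf 0 3155720 0) (P.cons (P.lf 995074 0 0) (P.cons (P.lf 0 13334 0) (P.cons (P.lf 0 9784 0) P.nil))))) (P.cons (P.cons (P.lf 6866312 0 0) (P.cons (P.lf 0 2509430 0) (P.cons (P.lf 403024 0 0) (P.cons (P.lf 1754 0 0) P.nil)))) (P.cons (P.cons (P.lf 1235282 0 0) (P.cons (P.lf 0 335946 0) (P.cons (P.lf 72384 0 0) P.nil))) (P.cons (P.cons (P.lf 0 443952 0) (P.cons (P.lf 75526 0 0) P.nil)) (P.cons (P.cons (P.lf 0 73074 0) P.nil) P.nil)))))) 80462)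
 EL.nil)))
noncomputable def S140_169_512_586_6 : EL := (EL.cons 12 (TM.mk (P.lf 8589934592 0 0) 0)
 (EL.cons 3 (TM.mk (P.cons (P.lf 0 2668545243 0) (P.cons (P.lf 256005836 0 0) (P.cons (P.lf 20956361 0 0) (P.cons (P.lf 125291 0 0) (P.cons (P.lf 0 64357 0) (P.cons (P.lf 0 3438 0) P.nil)))))) 378)
 (EL.cons 7 (TM.mk (P.cons (P.lf 0 1442125985 0) (P.cons (P.lf 0 168433589 0) (P.cons (P.lf 4127638 0 0) (P.cons (P.lf 758202 0 0) (P.cons (P.lf 21743 0 0) (P.cons (P.lf 0 1521 0) P.nil)))))) 224)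
 EL.nil)))
noncomputable def S140_169_512_586_7 : EL := (EL.cons 12 (TM.mk (P.cons (P.cons (P.lf 0 699209574 0) (P.cons (P.lf 0 277571544 0) (P.cons (P.lf 4417912 0 0) (P.lf 1472632 0 0)))) (P.cons (P.cons (P.lf 841430874 0 0) (P.cons (P.lf 0 97257184 0) (P.cons (P.lf 1547968 0 0) (P.lf 515984 0 0)))) (P.cons (P.cons (P.lf 0 61593934 0) (P.cons (P.lf 0 8975792 0) (P.cons (P.lf 142856 0 0) (P.lf 47616 0 0)))) (P.cons (P.cons (P.lf 0 16035272 0) (P.cons (P.lf 552296 0 0) (P.cons (P.lf 0 8784 0) P.nil))) (P.cons (P.cons (P.lf 0 71788 0) (P.cons (P.lf 140504 0 0) P.nil)) (P.cons (P.cons (P.lf 136142 0 0) P.nil) P.nil)))))) 33630)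
 (EL.cons 3 (TM.mk (P.cons (P.cons (P.lf 2455306700 0 0) (P.cons (P.lf 0 172460502 0) (P.cons (P.lf 2744932 0 0) (P.lf 914972 0 0)))) (P.cons (P.cons (P.lf 0 453518261 0) (P.cons (P.lf 0 43882814 0) (P.cons (P.lf 698446 0 0) (P.lf 232810 0 0)))) (P.cons (P.cons (P.lf 0 119513589 0) (P.cons (P.lf 1574630 0 0) (P.cons (P.lf 0 25064 0) (P.lf 0 8354 0)))) (P.cons (P.cons (P.lf 0 2880654 0) (P.cons (P.lf 1360804 0 0) (P.cons (P.lf 0 21654 0) P.nil))) (P.cons (P.cons (P.lf 1807619 0 0) (P.cons (P.lf 96848 0 0) P.nil)) (P.cons (P.cons (P.lf 173989 0 0) P.nil) P.nil)))))) 116638)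
 (EL.cons 7 (TM.mk (P.cons (P.cons (P.lf 0 1355116843 0) (P.cons (P.lf 216800337 0 0) (P.cons (P.lf 0 3450667 0) (P.lf 0 1150224 0)))) (P.cons (P.cons (P.lf 298382682 0 0) (P.cons (P.lf 28871766 0 0) (P.cons (P.lf 0 459534 0) (P.lf 0 153179 0)))) (P.cons (P.cons (P.lf 46893959 0 0) (P.cons (P.lf 0 4106936 0) (P.cons (P.lf 65366 0 0) (P.lf 21786 0 0)))) (P.cons (P.cons (P.lf 0 7281447 0) (P.cons (P.lf 0 557310 0) (P.cons (P.lf 8871 0 0) P.nil))) (P.cons (P.cons (P.lf 0 893739 0) (P.cons (P.lf 51159 0 0) P.nil)) (P.cons (P.cons (P.lf 49588 0 0) P.nil) P.nil)))))) 74395)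
 (EL.cons 10 (TM.mk (P.cons (P.cons (P.lf 0 1426180074 0) (P.cons (P.lf 52866549 0 0) (P.cons (P.lf 26195565 0 0) (P.cons (P.lf 0 237708 0) (P.lf 0 59427 0))))) (P.cons (P.cons (P.lf 0 333142359 0) (P.cons (P.lf 12349131 0 0) (P.cons (P.lf 6119037 0 0) (P.cons (P.lf 0 55524 0) (P.lf 0 13881 0))))) (P.cons (P.cons (P.lf 0 11290737 0) (P.cons (P.lf 418530 0 0) (P.cons (P.lf 207384 0 0) (P.cons (P.lf 0 1881 0) P.nil)))) (P.cons (P.cons (P.lf 2453151 0 0) (P.cons (P.lf 0 90933 0) (P.cons (P.lf 0 45057 0) P.nil))) (P.cons (P.cons (P.lf 206469 0 0) (P.cons (P.lf 0 7653 0) P.nil)) (P.cons (P.cons (P.lf 0 2274 0) P.nil) P.nil)))))) 6543)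
 EL.nil))))
noncomputable def S140_169_512_586_8 : EL := (EL.cons 12 (TM.mk (P.cons (P.cons (P.lf 56914754 0 0) (P.cons (P.lf 45187928 0 0) (P.cons (P.lf 8250104 0 0) (P.cons (P.lf 0 525256 0) (P.cons (P.lf 0 92898 0) (P.cons (P.lf 1514 0 0) P.nil)))))) (P.cons (P.cons (P.lf 0 136982770 0) (P.cons (P.lf 0 38546070 0) (P.cons (P.lf 6898966 0 0) (P.cons (P.lf 4420 0 0) (P.cons (P.lf 0 65100 0) P.nil))))) (P.cons (P.cons (P.lf 92450068 0 0) (P.cons (P.lf 0 13611864 0) (P.cons (P.lf 1897896 0 0) (P.cons (P.lf 18698 0 0) P.nil)))) (P.cons (P.cons (P.lf 0 9456420 0) (P.cons (P.lf 582706 0 0) (P.cons (P.lf 158282 0 0) P.nil))) (P.cons (P.cons (P.lf 0 2688138 0) (P.cons (P.lf 581796 0 0) P.nil)) (P.cons (P.cons (P.lf 193732 0 0) P.nil) P.nil)))))) 266318)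
 (EL.cons 3 (TM.mk (P.cons (P.cons (P.lf 0 382036469 0) (P.cons (P.lf 0 116565311 0) (P.cons (P.lf 15787325 0 0) (P.cons (P.lf 174929 0 0) (P.cons (P.lf 0 144301 0) (P.cons (P.lf 2351 0 0) P.nil)))))) (P.cons (P.cons (P.lf 510601686 0 0) (P.cons (P.lf 0 66253800 0) (P.cons (P.lf 9481134 0 0) (P.cons (P.lf 83258 0 0) (P.cons (P.lf 0 87276 0) P.nil))))) (P.cons (P.cons (P.lf 0 71939962 0) (P.cons (P.lf 3291971 0 0) (P.cons (P.lf 1513041 0 0) (P.cons (P.lf 0 67294 0) P.nil)))) (P.cons (P.cons (P.lf 0 30967715 0) (P.cons (P.lf 6196230 0 0) (P.cons (P.lf 0 166206 0) P.nil))) (P.cons (P.cons (P.lf 1731093 0 0) (P.cons (P.lf 812624 0 0) P.nil)) (P.cons (P.cons (P.lf 1059749 0 0) P.nil) P.nil)))))) 768532)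
 (EL.cons 7 (TM.mk (P.cons (P.cons (P.lf 230164683 0 0) (P.cons (P.lf 59869218 0 0) (P.cons (P.lf 0 13458261 0) (P.cons (P.lf 80454 0 0) (P.cons (P.lf 129524 0 0) (P.cons (P.lf 0 2108 0) P.nil)))))) (P.cons (P.cons (P.lf 0 335939508 0) (P.cons (P.lf 43590274 0 0) (P.cons (P.lf 0 6237906 0) (P.cons (P.lf 0 54775 0) (P.cons (P.lf 57420 0 0) P.nil))))) (P.cons (P.cons (P.lf 83063562 0 0) (P.cons (P.lf 0 6802358 0) (P.cons (P.lf 0 331981 0) (P.cons (P.lf 50102 0 0) P.nil)))) (P.cons (P.cons (P.lf 11438661 0 0) (P.cons (P.lf 0 3481013 0) (P.cons (P.lf 209242 0 0) P.nil))) (P.cons (P.cons (P.lf 0 3714082 0) (P.cons (P.lf 67581 0 0) P.nil)) (P.cons (P.cons (P.lf 0 325204 0) P.nil) P.nil)))))) 487640)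
 (EL.cons 10 (TM.mk (P.cons (P.cons (P.lf 232178424 0 0) (P.cons (P.lf 83563428 0 0) (P.cons (P.lf 0 9148188 0) (P.cons (P.lf 0 2088864 0) (P.cons (P.lf 70104 0 0) (P.cons (P.lf 12576 0 0) P.nil)))))) (P.cons (P.cons (P.lf 0 225169494 0) (P.cons (P.lf 62171838 0 0) (P.cons (P.lf 1283910 0 0) (P.cons (P.lf 0 1279974 0) (P.cons (P.lf 25908 0 0) P.nil))))) (P.cons (P.cons (P.lf 0 42975324 0) (P.cons (P.lf 12847038 0 0) (P.cons (P.lf 193062 0 0) (P.cons (P.lf 0 266934 0) P.nil)))) (P.cons (P.cons (P.lf 7490880 0 0) (P.cons (P.lf 332274 0 0) (P.cons (P.lf 0 169908 0) P.nil))) (P.cons (P.cons (P.lf 1876530 0 0) (P.cons (P.lf 0 204348 0) P.nil)) (P.cons (P.cons (P.lf 8154 0 0) P.nil) P.nil)))))) 179682)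
 EL.nil))))
noncomputable def S140_169_512_586_9 : EL := (EL.cons 3 (TM.mk (P.cons (P.lf 0 2668545243 0) (P.cons (P.lf 256005836 0 0) (P.cons (P.lf 20956361 0 0) (P.cons (P.lf 125291 0 0) (P.cons (P.lf 0 64357 0) (P.cons (P.lf 0 3438 0) P.nil)))))) 378)
 (EL.cons 7 (TM.mk (P.cons (P.lf 0 1442125985 0) (P.cons (P.lf 0 168433589 0) (P.cons (P.lf 4127638 0 0) (P.cons (P.lf 758202 0 0) (P.cons (P.lf 21743 0 0) (P.cons (P.lf 0 1521 0) P.nil)))))) 224)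
 EL.nil))
noncomputable def S140_169_512_586_10 : EL := (EL.cons 3 (TM.mk (P.cons (P.cons (P.lf 217216133 0 0) (P.cons (P.lf 86230251 0 0) (P.cons (P.lf 0 1372466 0) (P.lf 0 457486 0)))) (P.cons (P.cons (P.lf 0 282237083 0) (P.cons (P.lf 21941407 0 0) (P.cons (P.lf 0 349223 0) (P.lf 0 116405 0)))) (P.cons (P.cons (P.lf 42506088 0 0) (P.cons (P.lf 0 787315 0) (P.cons (P.lf 12532 0 0) (P.lf 4177 0 0)))) (P.cons (P.cons (P.lf 5188416 0 0) (P.cons (P.lf 0 680402 0) (P.cons (P.lf 10827 0 0) P.nil))) (P.cons (P.cons (P.lf 0 588352 0) (P.cons (P.lf 0 48424 0) P.nil)) (P.cons (P.cons (P.lf 0 90476 0) P.nil) P.nil)))))) 27927)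
 (EL.cons 7 (TM.mk (P.cons (P.cons (P.lf 117387191 0 0) (P.cons (P.lf 46600254 0 0) (P.cons (P.lf 0 741703 0) (P.lf 0 247233 0)))) (P.cons (P.cons (P.lf 0 127553817 0) (P.cons (P.lf 21770769 0 0) (P.cons (P.lf 0 346509 0) (P.lf 0 115502 0)))) (P.cons (P.cons (P.lf 0 6494239 0) (P.cons (P.lf 3280570 0 0) (P.cons (P.lf 0 52213 0) (P.lf 0 17403 0)))) (P.cons (P.cons (P.lf 4242447 0 0) (P.cons (P.lf 12042 0 0) (P.cons (P.lf 0 192 0) P.nil))) (P.cons (P.cons (P.lf 369378 0 0) (P.cons (P.lf 0 48018 0) P.nil)) (P.cons (P.cons (P.lf 0 32336 0) P.nil) P.nil)))))) 17040)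
 EL.nil))
noncomputable def S140_169_512_586_11 : EL := (EL.cons 3 (TM.mk (P.cons (P.cons (P.lf 0 17681111 0) (P.cons (P.lf 0 14038061 0) (P.cons (P.lf 0 2562973 0) (P.cons (P.lf 163175 0 0) (P.cons (P.lf 28859 0 0) (P.cons (P.lf 0 469 0) P.nil)))))) (P.cons (P.cons (P.lf 44251236 0 0) (P.cons (P.lf 13321440 0 0) (P.cons (P.lf 0 1897350 0) (P.cons (P.lf 0 17026 0) (P.cons (P.lf 17454 0 0) P.nil))))) (P.cons (P.cons (P.lf 0 32664142 0) (P.cons (P.lf 3190109 0 0) (P.cons (P.lf 0 363861 0) (P.cons (P.lf 0 6958 0) P.nil)))) (P.cons (P.cons (P.lf 5359657 0 0) (P.cons (P.lf 0 680076 0) (P.cons (P.lf 24342 0 0) P.nil))) (P.cons (P.cons (P.lf 776385 0 0) (P.cons (P.lf 0 197482 0) P.nil)) (P.cons (P.cons (P.lf 0 161017 0) P.nil) P.nil)))))) 139092)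
 (EL.cons 7 (TM.mk (P.cons (P.cons (P.lf 0 9555165 0) (P.cons (P.lf 0 7586400 0) (P.cons (P.lf 0 1385073 0) (P.cons (P.lf 88182 0 0) (P.cons (P.lf 15596 0 0) (P.cons (P.lf 0 254 0) P.nil)))))) (P.cons (P.cons (P.lf 21881430 0 0) (P.cons (P.lf 5585272 0 0) (P.cons (P.lf 0 1320006 0) (P.cons (P.lf 9557 0 0) (P.cons (P.lf 12750 0 0) P.nil))))) (P.cons (P.cons (P.lf 0 12807690 0) (P.cons (P.lf 3062770 0 0) (P.cons (P.lf 0 449941 0) (P.cons (P.lf 0 3478 0) P.nil)))) (P.cons (P.cons (P.lf 0 285987 0) (P.cons (P.lf 154543 0 0) (P.cons (P.lf 0 59744 0) P.nil))) (P.cons (P.cons (P.lf 669200 0 0) (P.cons (P.lf 0 118929 0) P.nil)) (P.cons (P.cons (P.lf 23444 0 0) P.nil) P.nil)))))) 76876)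
 EL.nil))
noncomputable def S140_169_512_586_12 : EL := (EL.cons 4 (TM.mk (P.cons (P.lf 2668545243 0 0) (P.cons (P.lf 0 256005836 0) (P.cons (P.lf 0 20956361 0) (P.cons (P.lf 0 125291 0) (P.cons (P.lf 64357 0 0) (P.cons (P.lf 3438 0 0) P.nil)))))) 378)
 (EL.cons 8 (TM.mk (P.cons (P.lf 1442125985 0 0) (P.cons (P.lf 168433589 0 0) (P.cons (P.lf 0 4127638 0) (P.cons (P.lf 0 758202 0) (P.cons (P.lf 0 21743 0) (P.cons (P.lf 1521 0 0) P.nil)))))) 224)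
 EL.nil))
noncomputable def S140_169_512_586_13 : EL := (EL.cons 4 (TM.mk (P.cons (P.cons (P.lf 0 217216133 0) (P.cons (P.lf 0 86230251 0) (P.cons (P.lf 1372466 0 0) (P.lf 457486 0 0)))) (P.cons (P.cons (P.lf 282237083 0 0) (P.cons (P.lf 0 21941407 0) (P.cons (P.lf 349223 0 0) (P.lf 116405 0 0)))) (P.cons (P.cons (P.lf 0 42506088 0) (P.cons (P.lf 787315 0 0) (P.cons (P.lf 0 12532 0) (P.lf 0 4177 0)))) (P.cons (P.cons (P.lf 0 5188416 0) (P.cons (P.lf 680402 0 0) (P.cons (P.lf 0 10827 0) P.nil))) (P.cons (P.cons (P.lf 588352 0 0) (P.cons (P.lf 48424 0 0) P.nil)) (P.cons (P.cons (P.lf 90476 0 0) P.nil) P.nil)))))) 27927)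
 (EL.cons 8 (TM.mk (P.cons (P.cons (P.lf 0 117387191 0) (P.cons (P.lf 0 46600254 0) (P.cons (P.lf 741703 0 0) (P.lf 247233 0 0)))) (P.cons (P.cons (P.lf 127553817 0 0) (P.cons (P.lf 0 21770769 0) (P.cons (P.lf 346509 0 0) (P.lf 115502 0 0)))) (P.cons (P.cons (P.lf 6494239 0 0) (P.cons (P.lf 0 3280570 0) (P.cons (P.lf 52213 0 0) (P.lf 17403 0 0)))) (P.cons (P.cons (P.lf 0 4242447 0) (P.cons (P.lf 0 12042 0) (P.cons (P.lf 192 0 0) P.nil))) (P.cons (P.cons (P.lf 0 369378 0) (P.cons (P.lf 48018 0 0) P.nil)) (P.cons (P.cons (P.lf 32336 0 0) P.nil) P.nil)))))) 17040)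
 EL.nil))
noncomputable def S140_169_512_586_14 : EL := (EL.cons 4 (TM.mk (P.cons (P.cons (P.lf 17681111 0 0) (P.cons (P.lf 14038061 0 0) (P.cons (P.lf 2562973 0 0) (P.cons (P.lf 0 163175 0) (P.cons (P.lf 0 28859 0) (P.cons (P.lf 469 0 0) P.nil)))))) (P.cons (P.cons (P.lf 0 44251236 0) (P.cons (P.lf 0 13321440 0) (P.cons (P.lf 1897350 0 0) (P.cons (P.lf 17026 0 0) (P.cons (P.lf 0 17454 0) P.nil))))) (P.cons (P.cons (P.lf 32664142 0 0) (P.cons (P.lf 0 3190109 0) (P.cons (P.lf 363861 0 0) (P.cons (P.lf 6958 0 0) P.nil)))) (P.cons (P.cons (P.lf 0 5359657 0) (P.cons (P.lf 680076 0 0) (P.cons (P.lf 0 24342 0) P.nil))) (P.cons (P.cons (P.lf 0 776385 0) (P.cons (P.lf 197482 0 0) P.nil)) (P.cons (P.cons (P.lf 161017 0 0) P.nil) P.nil)))))) 139092)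
 (EL.cons 8 (TM.mk (P.cons (P.cons (P.lf 9555165 0 0) (P.cons (P.lf 7586400 0 0) (P.cons (P.lf 1385073 0 0) (P.cons (P.lf 0 88182 0) (P.cons (P.lf 0 15596 0) (P.cons (P.lf 254 0 0) P.nil)))))) (P.cons (P.cons (P.lf 0 21881430 0) (P.cons (P.lf 0 5585272 0) (P.cons (P.lf 1320006 0 0) (P.cons (P.lf 0 9557 0) (P.cons (P.lf 0 12750 0) P.nil))))) (P.cons (P.cons (P.lf 12807690 0 0) (P.cons (P.lf 0 3062770 0) (P.cons (P.lf 449941 0 0) (P.cons (P.lf 3478 0 0) P.nil)))) (P.cons (P.cons (P.lf 285987 0 0) (P.cons (P.lf 0 154543 0) (P.cons (P.lf 59744 0 0) P.nil))) (P.cons (P.cons (P.lf 0 669200 0) (P.cons (P.lf 118929 0 0) P.nil)) (P.cons (P.cons (P.lf 0 23444 0) P.nil) P.nil)))))) 76876)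
 EL.nil))
noncomputable def S140_169_512_586_15 : EL := (EL.cons 4 (TM.mk (P.cons (P.lf 0 1768552689 0) (P.cons (P.lf 339330810 0 0) (P.cons (P.lf 11500469 0 0) (P.cons (P.lf 0 2498728 0) (P.cons (P.lf 0 210304 0) (P.cons (P.lf 2321 0 0) P.nil)))))) 1708)
 (EL.cons 8 (TM.mk (P.cons (P.lf 0 955755124 0) (P.cons (P.lf 0 19937749 0) (P.cons (P.lf 20950159 0 0) (P.cons (P.lf 1161554 0 0) (P.cons (P.lf 0 73087 0) (P.cons (P.lf 0 10388 0) P.nil)))))) 788)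
 EL.nil))
noncomputable def S140_169_512_586_16 : EL := (EL.cons 4 (TM.mk (P.cons (P.cons (P.lf 143957902 0 0) (P.cons (P.lf 57148269 0 0) (P.cons (P.lf 0 909588 0) (P.lf 0 303195 0)))) (P.cons (P.cons (P.lf 0 200860455 0) (P.cons (P.lf 9058960 0 0) (P.cons (P.lf 0 144183 0) (P.lf 0 48060 0)))) (P.cons (P.cons (P.lf 44984544 0 0) (P.cons (P.lf 0 2365605 0) (P.cons (P.lf 37651 0 0) (P.lf 12550 0 0)))) (P.cons (P.cons (P.lf 2198210 0 0) (P.cons (P.lf 0 517751 0) (P.cons (P.lf 8238 0 0) P.nil))) (P.cons (P.cons (P.lf 0 928774 0) (P.cons (P.lf 15959 0 0) P.nil)) (P.cons (P.cons (P.lf 0 55205 0) P.nil) P.nil)))))) 37764)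
 (EL.cons 8 (TM.mk (P.cons (P.cons (P.lf 77797231 0 0) (P.cons (P.lf 30883870 0 0) (P.cons (P.lf 0 491556 0) (P.lf 0 163851 0)))) (P.cons (P.cons (P.lf 0 91998512 0) (P.cons (P.lf 11465535 0 0) (P.cons (P.lf 0 182487 0) (P.lf 0 60828 0)))) (P.cons (P.cons (P.lf 3194893 0 0) (P.cons (P.lf 547452 0 0) (P.cons (P.lf 0 8712 0) (P.lf 0 2904 0)))) (P.cons (P.cons (P.lf 3884753 0 0) (P.cons (P.lf 0 315354 0) (P.cons (P.lf 5018 0 0) P.nil))) (P.cons (P.cons (P.lf 14713 0 0) (P.cons (P.lf 0 49595 0) P.nil)) (P.cons (P.cons (P.lf 0 68732 0) P.nil) P.nil)))))) 21418)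
 EL.nil))
noncomputable def S140_169_512_586_17 : EL := (EL.cons 4 (TM.mk (P.cons (P.cons (P.lf 0 11717986 0) (P.cons (P.lf 0 9303589 0) (P.cons (P.lf 0 1698585 0) (P.cons (P.lf 108142 0 0) (P.cons (P.lf 19125 0 0) (P.cons (P.lf 0 311 0) P.nil)))))) (P.cons (P.cons (P.lf 30451241 0 0) (P.cons (P.lf 9721192 0 0) (P.cons (P.lf 0 1094498 0) (P.cons (P.lf 0 21659 0) (P.cons (P.lf 9733 0 0) P.nil))))) (P.cons (P.cons (P.lf 0 24369305 0) (P.cons (P.lf 1340302 0 0) (P.cons (P.lf 0 107173 0) (P.cons (P.lf 0 4378 0) P.nil)))) (P.cons (P.cons (P.lf 5399080 0 0) (P.cons (P.lf 0 722435 0) (P.cons (P.lf 49221 0 0) P.nil))) (P.cons (P.cons (P.lf 342120 0 0) (P.cons (P.lf 0 104882 0) P.nil)) (P.cons (P.cons (P.lf 0 182261 0) P.nil) P.nil)))))) 129695)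
 (EL.cons 8 (TM.mk (P.cons (P.cons (P.lf 0 6332593 0) (P.cons (P.lf 0 5027813 0) (P.cons (P.lf 0 917943 0) (P.cons (P.lf 58442 0 0) (P.cons (P.lf 10336 0 0) (P.cons (P.lf 0 168 0) P.nil)))))) (P.cons (P.cons (P.lf 15109222 0 0) (P.cons (P.lf 4183926 0 0) (P.cons (P.lf 0 786758 0) (P.cons (P.lf 727 0 0) (P.cons (P.lf 7458 0 0) P.nil))))) (P.cons (P.cons (P.lf 0 9829658 0) (P.cons (P.lf 1714195 0 0) (P.cons (P.lf 0 207059 0) (P.cons (P.lf 0 3371 0) P.nil)))) (P.cons (P.cons (P.lf 511188 0 0) (P.cons (P.lf 0 121140 0) (P.cons (P.lf 0 4074 0) P.nil))) (P.cons (P.cons (P.lf 527513 0 0) (P.cons (P.lf 0 104880 0) P.nil)) (P.cons (P.cons (P.lf 0 24781 0) P.nil) P.nil)))))) 78015)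
 EL.nil))
noncomputable def S140_169_512_586_18 : EL := (EL.cons 4 (TM.mk (P.cons (P.lf 1172091282 0 0) (P.cons (P.lf 0 337332345 0) (P.cons (P.lf 4748184 0 0) (P.cons (P.lf 4098243 0 0) (P.cons (P.lf 79189 0 0) (P.cons (P.lf 0 31469 0) P.nil)))))) 3321)
 (EL.cons 8 (TM.mk (P.cons (P.lf 633417514 0 0) (P.cons (P.lf 0 47553107 0) (P.cons (P.lf 0 20126446 0) (P.cons (P.lf 428689 0 0) (P.cons (P.lf 245981 0 0) (P.cons (P.lf 10070 0 0) P.nil)))))) 1843)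
 EL.nil))
noncomputable def S140_169_512_586_19 : EL := (EL.cons 4 (TM.mk (P.cons (P.cons (P.lf 0 95406715 0) (P.cons (P.lf 0 37874465 0) (P.cons (P.lf 602820 0 0) (P.lf 200939 0 0)))) (P.cons (P.cons (P.lf 142271140 0 0) (P.cons (P.lf 0 2370266 0) (P.cons (P.lf 37724 0 0) (P.lf 12573 0 0)))) (P.cons (P.cons (P.lf 0 41834490 0) (P.cons (P.lf 2441180 0 0) (P.cons (P.lf 0 38854 0) (P.lf 0 12951 0)))) (P.cons (P.cons (P.lf 362349 0 0) (P.cons (P.lf 241656 0 0) (P.cons (P.lf 0 3844 0) P.nil))) (P.cons (P.cons (P.lf 980872 0 0) (P.cons (P.lf 0 56438 0) P.nil)) (P.cons (P.cons (P.lf 0 6535 0) P.nil) P.nil)))))) 41458)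
 (EL.cons 8 (TM.mk (P.cons (P.cons (P.lf 0 51559366 0) (P.cons (P.lf 0 20467987 0) (P.cons (P.lf 325774 0 0) (P.lf 108591 0 0)))) (P.cons (P.cons (P.lf 65917456 0 0) (P.cons (P.lf 0 5635085 0) (P.cons (P.lf 89689 0 0) (P.lf 29895 0 0)))) (P.cons (P.cons (P.lf 0 7561725 0) (P.cons (P.lf 526894 0 0) (P.cons (P.lf 0 8386 0) (P.lf 0 2795 0)))) (P.cons (P.cons (P.lf 0 2847844 0) (P.cons (P.lf 304438 0 0) (P.cons (P.lf 0 4844 0) P.nil))) (P.cons (P.cons (P.lf 249762 0 0) (P.cons (P.lf 15531 0 0) P.nil)) (P.cons (P.cons (P.lf 68208 0 0) P.nil) P.nil)))))) 22402)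
 EL.nil))
noncomputable def S140_169_512_586_20 : EL := (EL.cons 4 (TM.mk (P.cons (P.cons (P.lf 7765982 0 0) (P.cons (P.lf 6165864 0 0) (P.cons (P.lf 1125720 0 0) (P.cons (P.lf 0 71670 0) (P.cons (P.lf 0 12675 0) (P.cons (P.lf 206 0 0) P.nil)))))) (P.cons (P.cons (P.lf 0 20926293 0) (P.cons (P.lf 0 7034146 0) (P.cons (P.lf 617371 0 0) (P.cons (P.lf 21229 0 0) (P.cons (P.lf 0 5234 0) P.nil))))) (P.cons (P.cons (P.lf 18025617 0 0) (P.cons (P.lf 0 318622 0) (P.cons (P.lf 0 7399 0) (P.cons (P.lf 2086 0 0) P.nil)))) (P.cons (P.cons (P.lf 0 4969461 0) (P.cons (P.lf 614308 0 0) (P.cons (P.lf 0 45183 0) P.nil))) (P.cons (P.cons (P.lf 0 9161 0) (P.cons (P.lf 31004 0 0) P.nil)) (P.cons (P.cons (P.lf 169408 0 0) P.nil) P.nil)))))) 111254)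
 (EL.cons 8 (TM.mk (P.cons (P.cons (P.lf 4196865 0 0) (P.cons (P.lf 3332135 0 0) (P.cons (P.lf 608358 0 0) (P.cons (P.lf 0 38731 0) (P.cons (P.lf 0 6850 0) (P.cons (P.lf 111 0 0) P.nil)))))) (P.cons (P.cons (P.lf 0 10416116 0) (P.cons (P.lf 0 3092524 0) (P.cons (P.lf 463054 0 0) (P.cons (P.lf 3233 0 0) (P.cons (P.lf 0 4286 0) P.nil))))) (P.cons (P.cons (P.lf 7442193 0 0) (P.cons (P.lf 0 896220 0) (P.cons (P.lf 82427 0 0) (P.cons (P.lf 2584 0 0) P.nil)))) (P.cons (P.cons (P.lf 0 885312 0) (P.cons (P.lf 210891 0 0) (P.cons (P.lf 0 14587 0) P.nil))) (P.cons (P.cons (P.lf 0 367691 0) (P.cons (P.lf 70938 0 0) P.nil)) (P.cons (P.cons (P.lf 52081 0 0) P.nil) P.nil)))))) 70395)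
 EL.nil))
noncomputable def S140_169_512_586_21 : EL := (EL.cons 4 (TM.mk (P.cons (P.cons (P.lf 0 2238090567 0) (P.cons (P.lf 258690753 0 0) (P.cons (P.lf 0 4117398 0) (P.lf 0 1372458 0)))) (P.cons (P.cons (P.lf 171281178 0 0) (P.cons (P.lf 65824221 0 0) (P.cons (P.lf 0 1047669 0) (P.lf 0 349215 0)))) (P.cons (P.cons (P.lf 162019677 0 0) (P.cons (P.lf 0 2361945 0) (P.cons (P.lf 37596 0 0) (P.lf 12531 0 0)))) (P.cons (P.cons (P.lf 8069070 0 0) (P.cons (P.lf 0 2041206 0) (P.cons (P.lf 32481 0 0) P.nil))) (P.cons (P.cons (P.lf 0 2395971 0) (P.cons (P.lf 0 145272 0) P.nil)) (P.cons (P.cons (P.lf 0 264465 0) P.nil) P.nil)))))) 88692)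
 (EL.cons 8 (TM.mk (P.cons (P.cons (P.lf 1472504034 0 0) (P.cons (P.lf 0 170200083 0) (P.cons (P.lf 2708964 0 0) (P.lf 902991 0 0)))) (P.cons (P.cons (P.lf 0 425936499 0) (P.cons (P.lf 0 7100997 0) (P.cons (P.lf 113025 0 0) (P.lf 37677 0 0)))) (P.cons (P.cons (P.lf 0 53388198 0) (P.cons (P.lf 7387506 0 0) (P.cons (P.lf 0 117579 0) (P.lf 0 39189 0)))) (P.cons (P.cons (P.lf 11523894 0 0) (P.cons (P.lf 569352 0 0) (P.cons (P.lf 0 9063 0) P.nil))) (P.cons (P.cons (P.lf 1263117 0 0) (P.cons (P.lf 0 99177 0) P.nil)) (P.cons (P.cons (P.lf 0 81924 0) P.nil) P.nil)))))) 57336)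
 (EL.cons 11 (TM.mk (P.cons (P.cons (P.lf 1426180074 0 0) (P.cons (P.lf 0 52866549 0) (P.cons (P.lf 0 26195565 0) (P.cons (P.lf 237708 0 0) (P.lf 59427 0 0))))) (P.cons (P.cons (P.lf 333142359 0 0) (P.cons (P.lf 0 12349131 0) (P.cons (P.lf 0 6119037 0) (P.cons (P.lf 55524 0 0) (P.lf 13881 0 0))))) (P.cons (P.cons (P.lf 11290737 0 0) (P.cons (P.lf 0 418530 0) (P.cons (P.lf 0 207384 0) (P.cons (P.lf 1881 0 0) P.nil)))) (P.cons (P.cons (P.lf 0 2453151 0) (P.cons (P.lf 90933 0 0) (P.cons (P.lf 45057 0 0) P.nil))) (P.cons (P.cons (P.lf 0 206469 0) (P.cons (P.lf 7653 0 0) P.nil)) (P.cons (P.cons (P.lf 2274 0 0) P.nil) P.nil)))))) 6543)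
 EL.nil)))
noncomputable def S140_169_512_586_22 : EL := (EL.cons 4 (TM.mk (P.cons (P.cons (P.lf 182177679 0 0) (P.cons (P.lf 51263625 0 0) (P.cons (P.lf 0 9175149 0) (P.cons (P.lf 0 5877 0) (P.cons (P.lf 86580 0 0) (P.cons (P.lf 0 1410 0) P.nil)))))) (P.cons (P.cons (P.lf 0 233175225 0) (P.cons (P.lf 39787620 0 0) (P.cons (P.lf 0 5689242 0) (P.cons (P.lf 0 50142 0) (P.cons (P.lf 52365 0 0) P.nil))))) (P.cons (P.cons (P.lf 19637910 0 0) (P.cons (P.lf 0 50931 0) (P.cons (P.lf 0 938451 0) (P.cons (P.lf 30168 0 0) P.nil)))) (P.cons (P.cons (P.lf 18163686 0 0) (P.cons (P.lf 0 3438153 0) (P.cons (P.lf 95274 0 0) P.nil))) (P.cons (P.cons (P.lf 0 477354 0) (P.cons (P.lf 0 505053 0) P.nil)) (P.cons (P.cons (P.lf 0 610383 0) P.nil) P.nil)))))) 314709)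
 (EL.cons 8 (TM.mk (P.cons (P.cons (P.lf 0 119859924 0) (P.cons (P.lf 0 33727809 0) (P.cons (P.lf 6036594 0 0) (P.cons (P.lf 3864 0 0) (P.cons (P.lf 0 56964 0) (P.cons (P.lf 927 0 0) P.nil)))))) (P.cons (P.cons (P.lf 178910469 0 0) (P.cons (P.lf 0 19002501 0) (P.cons (P.lf 2458950 0 0) (P.cons (P.lf 32166 0 0) (P.cons (P.lf 0 22335 0) P.nil))))) (P.cons (P.cons (P.lf 0 47935626 0) (P.cons (P.lf 4932564 0 0) (P.cons (P.lf 0 58980 0) (P.cons (P.lf 0 26790 0) P.nil)))) (P.cons (P.cons (P.lf 0 5862324 0) (P.cons (P.lf 1817778 0 0) (P.cons (P.lf 0 134493 0) P.nil))) (P.cons (P.cons (P.lf 2191641 0 0) (P.cons (P.lf 0 93255 0) P.nil)) (P.cons (P.cons (P.lf 174324 0 0) P.nil) P.nil)))))) 205371)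
 (EL.cons 11 (TM.mk (P.cons (P.cons (P.lf 0 116089212 0) (P.cons (P.lf 0 41781714 0) (P.cons (P.lf 4574094 0 0) (P.cons (P.lf 1044432 0 0) (P.cons (P.lf 0 35052 0) (P.cons (P.lf 0 6288 0) P.nil)))))) (P.cons (P.cons (P.lf 112584747 0 0) (P.cons (P.lf 0 31085919 0) (P.cons (P.lf 0 641955 0) (P.cons (P.lf 639987 0 0) (P.cons (P.lf 0 12954 0) P.nil))))) (P.cons (P.cons (P.lf 21487662 0 0) (P.cons (P.lf 0 6423519 0) (P.cons (P.lf 0 96531 0) (P.cons (P.lf 133467 0 0) P.nil)))) (P.cons (P.cons (P.lf 0 3745440 0) (P.cons (P.lf 0 166137 0) (P.cons (P.lf 84954 0 0) P.nil))) (P.cons (P.cons (P.lf 0 938265 0) (P.cons (P.lf 102174 0 0) P.nil)) (P.cons (P.cons (P.lf 0 4077 0) P.nil) P.nil)))))) 89841)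
 EL.nil)))
noncomputable def S140_169_512_586_23 : EL := (EL.cons 4 (TM.mk (P.cons (P.cons (P.lf 1483272993 0 0) (P.cons (P.lf 0 171444807 0) (P.cons (P.lf 2728764 0 0) (P.lf 909582 0 0)))) (P.cons (P.cons (P.lf 0 255812163 0) (P.cons (P.lf 0 27176877 0) (P.cons (P.lf 432549 0 0) (P.lf 144177 0 0)))) (P.cons (P.cons (P.lf 0 108135264 0) (P.cons (P.lf 7096815 0 0) (P.cons (P.lf 0 112956 0) (P.lf 0 37650 0)))) (P.cons (P.cons (P.lf 5775273 0 0) (P.cons (P.lf 1553253 0 0) (P.cons (P.lf 0 24714 0) P.nil))) (P.cons (P.cons (P.lf 2985279 0 0) (P.cons (P.lf 0 47880 0) P.nil)) (P.cons (P.cons (P.lf 69147 0 0) P.nil) P.nil)))))) 126738)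
 (EL.cons 8 (TM.mk (P.cons (P.cons (P.lf 0 975887883 0) (P.cons (P.lf 112798467 0 0) (P.cons (P.lf 0 1795338 0) (P.lf 0 598446 0)))) (P.cons (P.cons (P.lf 375906735 0 0) (P.cons (P.lf 0 6115158 0) (P.cons (P.lf 97326 0 0) (P.lf 32439 0 0)))) (P.cons (P.cons (P.lf 15965331 0 0) (P.cons (P.lf 0 6233295 0) (P.cons (P.lf 99207 0 0) (P.lf 33066 0 0)))) (P.cons (P.cons (P.lf 0 13202754 0) (P.cons (P.lf 50109 0 0) (P.cons (P.lf 0 795 0) P.nil))) (P.cons (P.cons (P.lf 0 419082 0) (P.cons (P.lf 142875 0 0) P.nil)) (P.cons (P.cons (P.lf 198468 0 0) P.nil) P.nil)))))) 70956)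
 (EL.cons 11 (TM.mk (P.cons (P.cons (P.lf 0 945187122 0) (P.cons (P.lf 35036796 0 0) (P.cons (P.lf 17360856 0 0) (P.cons (P.lf 0 157536 0) (P.lf 0 39384 0))))) (P.cons (P.cons (P.lf 0 130110738 0) (P.cons (P.lf 4823025 0 0) (P.cons (P.lf 2389824 0 0) (P.cons (P.lf 0 21684 0) (P.lf 0 5421 0))))) (P.cons (P.cons (P.lf 21120927 0 0) (P.cons (P.lf 0 782925 0) (P.cons (P.lf 0 387939 0) (P.cons (P.lf 3519 0 0) P.nil)))) (P.cons (P.cons (P.lf 4121904 0 0) (P.cons (P.lf 0 152790 0) (P.cons (P.lf 0 75708 0) P.nil))) (P.cons (P.cons (P.lf 27198 0 0) (P.cons (P.lf 0 1005 0) P.nil)) (P.cons (P.cons (P.lf 0 33591 0) P.nil) P.nil)))))) 14757)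
 EL.nil)))
noncomputable def S140_169_512_586_24 : EL := (EL.cons 4 (TM.mk (P.cons (P.cons (P.lf 0 120736503 0) (P.cons (P.lf 0 33974475 0) (P.cons (P.lf 6080742 0 0) (P.cons (P.lf 3894 0 0) (P.cons (P.lf 0 57378 0) (P.cons (P.lf 933 0 0) P.nil)))))) (P.cons (P.cons (P.lf 166117446 0 0) (P.cons (P.lf 0 23109534 0) (P.cons (P.lf 3187134 0 0) (P.cons (P.lf 32856 0 0) (P.cons (P.lf 0 29199 0) P.nil))))) (P.cons (P.cons (P.lf 0 26891898 0) (P.cons (P.lf 2830245 0 0) (P.cons (P.lf 212475 0 0) (P.cons (P.lf 0 23211 0) P.nil)))) (P.cons (P.cons (P.lf 0 11997141 0) (P.cons (P.lf 2484036 0 0) (P.cons (P.lf 0 152703 0) P.nil))) (P.cons (P.cons (P.lf 1563243 0 0) (P.cons (P.lf 116277 0 0) P.nil)) (P.cons (P.cons (P.lf 472890 0 0) P.nil) P.nil)))))) 306072)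
 (EL.cons 8 (TM.mk (P.cons (P.cons (P.lf 79436010 0 0) (P.cons (P.lf 22352781 0 0) (P.cons (P.lf 0 4000695 0) (P.cons (P.lf 0 2562 0) (P.cons (P.lf 37752 0 0) (P.cons (P.lf 0 615 0) P.nil)))))) (P.cons (P.cons (P.lf 0 126191853 0) (P.cons (P.lf 10449318 0 0) (P.cons (P.lf 0 1245840 0) (P.cons (P.lf 0 21072 0) (P.cons (P.lf 11181 0 0) P.nil))))) (P.cons (P.cons (P.lf 42520134 0 0) (P.cons (P.lf 0 4652721 0) (P.cons (P.lf 226845 0 0) (P.cons (P.lf 19818 0 0) P.nil)))) (P.cons (P.cons (P.lf 1764885 0 0) (P.cons (P.lf 0 991053 0) (P.cons (P.lf 98370 0 0) P.nil))) (P.cons (P.cons (P.lf 0 2067216 0) (P.cons (P.lf 202998 0 0) P.nil)) (P.cons (P.cons (P.lf 0 10947 0) P.nil) P.nil)))))) 174594)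
 (EL.cons 11 (TM.mk (P.cons (P.cons (P.lf 76937010 0 0) (P.cons (P.lf 27690429 0 0) (P.cons (P.lf 0 3031437 0) (P.cons (P.lf 0 692187 0) (P.cons (P.lf 23232 0 0) (P.cons (P.lf 4167 0 0) P.nil)))))) (P.cons (P.cons (P.lf 0 81995379 0) (P.cons (P.lf 17945421 0 0) (P.cons (P.lf 716271 0 0) (P.cons (P.lf 0 357741 0) (P.cons (P.lf 6354 0 0) P.nil))))) (P.cons (P.cons (P.lf 0 7686828 0) (P.cons (P.lf 2063235 0 0) (P.cons (P.lf 46965 0 0) (P.cons (P.lf 0 42327 0) P.nil)))) (P.cons (P.cons (P.lf 4430775 0 0) (P.cons (P.lf 0 461388 0) (P.cons (P.lf 0 65637 0) P.nil))) (P.cons (P.cons (P.lf 500883 0 0) (P.cons (P.lf 0 112008 0) P.nil)) (P.cons (P.cons (P.lf 0 77475 0) P.nil) P.nil)))))) 86361)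
 EL.nil)))
noncomputable def S140_169_512_586_25 : EL := (EL.cons 4 (TM.mk (P.cons (P.cons (P.lf 0 983024907 0) (P.cons (P.lf 113623395 0 0) (P.cons (P.lf 0 1808463 0) (P.lf 0 602817 0)))) (P.cons (P.cons (P.lf 263843157 0 0) (P.cons (P.lf 7110798 0 0) (P.cons (P.lf 0 113172 0) (P.lf 0 37719 0)))) (P.cons (P.cons (P.lf 63120930 0 0) (P.cons (P.lf 0 7323540 0) (P.cons (P.lf 116562 0 0) (P.lf 38853 0 0)))) (P.cons (P.cons (P.lf 0 11987955 0) (P.cons (P.lf 0 724968 0) (P.cons (P.lf 11535 0 0) P.nil))) (P.cons (P.cons (P.lf 0 2205738 0) (P.cons (P.lf 169317 0 0) P.nil)) (P.cons (P.cons (P.lf 173490 0 0) P.nil) P.nil)))))) 126138)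
 (EL.cons 8 (TM.mk (P.cons (P.cons (P.lf 646760307 0 0) (P.cons (P.lf 0 74756097 0) (P.cons (P.lf 1189842 0 0) (P.lf 396615 0 0)))) (P.cons (P.cons (P.lf 0 311175267 0) (P.cons (P.lf 11224458 0 0) (P.cons (P.lf 0 178650 0) (P.lf 0 59547 0)))) (P.cons (P.cons (P.lf 8240103 0 0) (P.cons (P.lf 4329324 0 0) (P.cons (P.lf 0 68904 0) (P.lf 0 22965 0)))) (P.cons (P.cons (P.lf 11691135 0 0) (P.cons (P.lf 0 457836 0) (P.cons (P.lf 7284 0 0) P.nil))) (P.cons (P.cons (P.lf 0 451296 0) (P.cons (P.lf 0 125937 0) P.nil)) (P.cons (P.cons (P.lf 0 231570 0) P.nil) P.nil)))))) 75438)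
 (EL.cons 11 (TM.mk (P.cons (P.cons (P.lf 626413674 0 0) (P.cons (P.lf 0 23220300 0) (P.cons (P.lf 0 11505741 0) (P.cons (P.lf 104406 0 0) (P.lf 26100 0 0))))) (P.cons (P.cons (P.lf 26134890 0 0) (P.cons (P.lf 0 968784 0) (P.cons (P.lf 0 480033 0) (P.cons (P.lf 4353 0 0) (P.lf 1086 0 0))))) (P.cons (P.cons (P.lf 0 27189387 0) (P.cons (P.lf 1007874 0 0) (P.cons (P.lf 499404 0 0) (P.cons (P.lf 0 4530 0) P.nil)))) (P.cons (P.cons (P.lf 0 2095470 0) (P.cons (P.lf 77673 0 0) (P.cons (P.lf 38487 0 0) P.nil))) (P.cons (P.cons (P.lf 365025 0 0) (P.cons (P.lf 0 13530 0) P.nil)) (P.cons (P.cons (P.lf 48987 0 0) P.nil) P.nil)))))) 21768)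
 EL.nil)))
noncomputable def S140_169_512_586_26 : EL := (EL.cons 4 (TM.mk (P.cons (P.cons (P.lf 80016954 0 0) (P.cons (P.lf 22516254 0 0) (P.cons (P.lf 0 4029954 0) (P.cons (P.lf 0 2580 0) (P.cons (P.lf 38028 0 0) (P.cons (P.lf 0 618 0) P.nil)))))) (P.cons (P.cons (P.lf 0 117769134 0) (P.cons (P.lf 13155534 0 0) (P.cons (P.lf 0 1725630 0) (P.cons (P.lf 0 21528 0) (P.cons (P.lf 15702 0 0) P.nil))))) (P.cons (P.cons (P.lf 27755667 0 0) (P.cons (P.lf 0 3521838 0) (P.cons (P.lf 93465 0 0) (P.cons (P.lf 17493 0 0) P.nil)))) (P.cons (P.cons (P.lf 7102023 0 0) (P.cons (P.lf 0 1587657 0) (P.cons (P.lf 131487 0 0) P.nil))) (P.cons (P.cons (P.lf 0 1931661 0) (P.cons (P.lf 95424 0 0) P.nil)) (P.cons (P.cons (P.lf 0 279840 0) P.nil) P.nil)))))) 272076)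
 (EL.cons 8 (TM.mk (P.cons (P.cons (P.lf 0 52645452 0) (P.cons (P.lf 0 14814090 0) (P.cons (P.lf 2651421 0 0) (P.cons (P.lf 1698 0 0) (P.cons (P.lf 0 25020 0) (P.cons (P.lf 405 0 0) P.nil)))))) (P.cons (P.cons (P.lf 88682958 0 0) (P.cons (P.lf 0 5504001 0) (P.cons (P.lf 571305 0 0) (P.cons (P.lf 13803 0 0) (P.cons (P.lf 0 5007 0) P.nil))))) (P.cons (P.cons (P.lf 0 35789625 0) (P.cons (P.lf 3864249 0 0) (P.cons (P.lf 0 250371 0) (P.cons (P.lf 0 14487 0) P.nil)))) (P.cons (P.cons (P.lf 879453 0 0) (P.cons (P.lf 416070 0 0) (P.cons (P.lf 0 57378 0) P.nil))) (P.cons (P.cons (P.lf 1698339 0 0) (P.cons (P.lf 0 221793 0) P.nil)) (P.cons (P.cons (P.lf 0 111717 0) P.nil) P.nil)))))) 147411)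
 (EL.cons 11 (TM.mk (P.cons (P.cons (P.lf 0 50989263 0) (P.cons (P.lf 0 18351564 0) (P.cons (P.lf 2009055 0 0) (P.cons (P.lf 458739 0 0) (P.cons (P.lf 0 15396 0) (P.cons (P.lf 0 2760 0) P.nil)))))) (P.cons (P.cons (P.lf 59233284 0 0) (P.cons (P.lf 0 10132605 0) (P.cons (P.lf 0 667437 0) (P.cons (P.lf 193080 0 0) (P.cons (P.lf 0 2733 0) P.nil))))) (P.cons (P.cons (P.lf 281550 0 0) (P.cons (P.lf 0 82305 0) (P.cons (P.lf 0 1362 0) (P.cons (P.lf 1704 0 0) P.nil)))) (P.cons (P.cons (P.lf 0 3849537 0) (P.cons (P.lf 531219 0 0) (P.cons (P.lf 50121 0 0) P.nil))) (P.cons (P.cons (P.lf 0 94035 0) (P.cons (P.lf 55752 0 0) P.nil)) (P.cons (P.cons (P.lf 107259 0 0) P.nil) P.nil)))))) 77586)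
 EL.nil)))
noncomputable def S140_169_512_586_27 : EL := (EL.cons 13 (TM.mk (P.lf 0 4294967296 0) 0)
 EL.nil)
noncomputable def S140_169_512_586_28 : EL := (EL.cons 13 (TM.mk (P.cons (P.cons (P.lf 349604787 0 0) (P.cons (P.lf 138785772 0 0) (P.cons (P.lf 0 2208956 0) (P.lf 0 736316 0)))) (P.cons (P.cons (P.lf 0 420715437 0) (P.cons (P.lf 48628592 0 0) (P.cons (P.lf 0 773984 0) (P.lf 0 257992 0)))) (P.cons (P.cons (P.lf 30796967 0 0) (P.cons (P.lf 4487896 0 0) (P.cons (P.lf 0 71428 0) (P.lf 0 23808 0)))) (P.cons (P.cons (P.lf 8017636 0 0) (P.cons (P.lf 0 276148 0) (P.cons (P.lf 4392 0 0) P.nil))) (P.cons (P.cons (P.lf 35894 0 0) (P.cons (P.lf 0 70252 0) P.nil)) (P.cons (P.cons (P.lf 0 68071 0) P.nil) P.nil)))))) 16815)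
 EL.nil)
noncomputable def S140_169_512_586_29 : EL := (EL.cons 13 (TM.mk (P.cons (P.cons (P.lf 0 28457377 0) (P.cons (P.lf 0 22593964 0) (P.cons (P.lf 0 4125052 0) (P.cons (P.lf 262628 0 0) (P.cons (P.lf 46449 0 0) (P.cons (P.lf 0 757 0) P.nil)))))) (P.cons (P.cons (P.lf 68491385 0 0) (P.cons (P.lf 19273035 0 0) (P.cons (P.lf 0 3449483 0) (P.cons (P.lf 0 2210 0) (P.cons (P.lf 32550 0 0) P.nil))))) (P.cons (P.cons (P.lf 0 46225034 0) (P.cons (P.lf 6805932 0 0) (P.cons (P.lf 0 948948 0) (P.cons (P.lf 0 9349 0) P.nil)))) (P.cons (P.cons (P.lf 4728210 0 0) (P.cons (P.lf 0 291353 0) (P.cons (P.lf 0 79141 0) P.nil))) (P.cons (P.cons (P.lf 1344069 0 0) (P.cons (P.lf 0 290898 0) P.nil)) (P.cons (P.cons (P.lf 0 96866 0) P.nil) P.nil)))))) 133159)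
 EL.nil)
noncomputable def S140_169_512_586_30 : EL := (EL.cons 13 (TM.mk (P.cons (P.lf 2846448260 0 0) (P.cons (P.lf 0 273072892 0) (P.cons (P.lf 0 22353452 0) (P.cons (P.lf 0 133644 0) (P.cons (P.lf 68648 0 0) (P.cons (P.lf 3668 0 0) P.nil)))))) 396)
 EL.nil)
noncomputable def S140_169_512_586_31 : EL := (EL.cons 13 (TM.mk (P.cons (P.cons (P.lf 0 231697209 0) (P.cons (P.lf 0 91978935 0) (P.cons (P.lf 1463964 0 0) (P.lf 487986 0 0)))) (P.cons (P.cons (P.lf 301052889 0 0) (P.cons (P.lf 0 23404168 0) (P.cons (P.lf 372505 0 0) (P.lf 124166 0 0)))) (P.cons (P.cons (P.lf 0 45339828 0) (P.cons (P.lf 839803 0 0) (P.cons (P.lf 0 13368 0) (P.lf 0 4456 0)))) (P.cons (P.cons (P.lf 0 5534311 0) (P.cons (P.lf 725763 0 0) (P.cons (P.lf 0 11549 0) P.nil))) (P.cons (P.cons (P.lf 627576 0 0) (P.cons (P.lf 51653 0 0) P.nil)) (P.cons (P.cons (P.lf 96508 0 0) P.nil) P.nil)))))) 29769)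
 EL.nil)
noncomputable def S140_169_512_586_32 : EL := (EL.cons 13 (TM.mk (P.cons (P.cons (P.lf 18859852 0 0) (P.cons (P.lf 14973932 0 0) (P.cons (P.lf 2733838 0 0) (P.cons (P.lf 0 174054 0) (P.cons (P.lf 0 30783 0) (P.cons (P.lf 501 0 0) P.nil)))))) (P.cons (P.cons (P.lf 0 47201319 0) (P.cons (P.lf 0 14209536 0) (P.cons (P.lf 2023841 0 0) (P.cons (P.lf 18162 0 0) (P.cons (P.lf 0 18618 0) P.nil))))) (P.cons (P.cons (P.lf 34841752 0 0) (P.cons (P.lf 0 3402783 0) (P.cons (P.lf 388119 0 0) (P.cons (P.lf 7422 0 0) P.nil)))) (P.cons (P.cons (P.lf 0 5716968 0) (P.cons (P.lf 725415 0 0) (P.cons (P.lf 0 25965 0) P.nil))) (P.cons (P.cons (P.lf 0 828145 0) (P.cons (P.lf 210648 0 0) P.nil)) (P.cons (P.cons (P.lf 171752 0 0) P.nil) P.nil)))))) 148342)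
 EL.nil)
noncomputable def S140_169_512_586_33 : EL := (EL.cons 14 (TM.mk (P.lf 8589934592 0 0) 0)
 EL.nil)
noncomputable def S140_169_512_586_34 : EL := (EL.cons 14 (TM.mk (P.cons (P.cons (P.lf 0 699209574 0) (P.cons (P.lf 0 277571544 0) (P.cons (P.lf 4417912 0 0) (P.lf 1472632 0 0)))) (P.cons (P.cons (P.lf 841430874 0 0) (P.cons (P.lf 0 97257184 0) (P.cons (P.lf 1547968 0 0) (P.lf 515984 0 0)))) (P.cons (P.cons (P.lf 0 61593934 0) (P.cons (P.lf 0 8975792 0) (P.cons (P.lf 142856 0 0) (P.lf 47616 0 0)))) (P.cons (P.cons (P.lf 0 16035272 0) (P.cons (P.lf 552296 0 0) (P.cons (P.lf 0 8784 0) P.nil))) (P.cons (P.cons (P.lf 0 71788 0) (P.cons (P.lf 140504 0 0) P.nil)) (P.cons (P.cons (P.lf 136142 0 0) P.nil) P.nil)))))) 33630)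
 EL.nil)
noncomputable def S140_169_512_586_35 : EL := (EL.cons 14 (TM.mk (P.cons (P.cons (P.lf 56914754 0 0) (P.cons (P.lf 45187928 0 0) (P.cons (P.lf 8250104 0 0) (P.cons (P.lf 0 525256 0) (P.cons (P.lf 0 92898 0) (P.cons (P.lf 1514 0 0) P.nil)))))) (P.cons (P.cons (P.lf 0 136982770 0) (P.cons (P.lf 0 38546070 0) (P.cons (P.lf 6898966 0 0) (P.cons (P.lf 4420 0 0) (P.cons (P.lf 0 65100 0) P.nil))))) (P.cons (P.cons (P.lf 92450068 0 0) (P.cons (P.lf 0 13611864 0) (P.cons (P.lf 1897896 0 0) (P.cons (P.lf 18698 0 0) P.nil)))) (P.cons (P.cons (P.lf 0 9456420 0) (P.cons (P.lf 582706 0 0) (P.cons (P.lf 158282 0 0) P.nil))) (P.cons (P.cons (P.lf 0 2688138 0) (P.cons (P.lf 581796 0 0) P.nil)) (P.cons (P.cons (P.lf 193732 0 0) P.nil) P.nil)))))) 266318)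
 EL.nil)
noncomputable def S140_169_512_586_36 : EL := (EL.cons 14 (TM.mk (P.cons (P.lf 0 5692896520 0) (P.cons (P.lf 546145784 0 0) (P.cons (P.lf 44706904 0 0) (P.cons (P.lf 267288 0 0) (P.cons (P.lf 0 137296 0) (P.cons (P.lf 0 7336 0) P.nil)))))) 792)
 EL.nil)
noncomputable def S140_169_512_586_37 : EL := (EL.cons 14 (TM.mk (P.cons (P.cons (P.lf 463394418 0 0) (P.cons (P.lf 183957870 0 0) (P.cons (P.lf 0 2927928 0) (P.lf 0 975972 0)))) (P.cons (P.cons (P.lf 0 602105778 0) (P.cons (P.lf 46808336 0 0) (P.cons (P.lf 0 745010 0) (P.lf 0 248332 0)))) (P.cons (P.cons (P.lf 90679656 0 0) (P.cons (P.lf 0 1679606 0) (P.cons (P.lf 26736 0 0) (P.lf 8912 0 0)))) (P.cons (P.cons (P.lf 11068622 0 0) (P.cons (P.lf 0 1451526 0) (P.cons (P.lf 23098 0 0) P.nil))) (P.cons (P.cons (P.lf 0 1255152 0) (P.cons (P.lf 0 103306 0) P.nil)) (P.cons (P.cons (P.lf 0 193016 0) P.nil) P.nil))))))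 59538)
 EL.nil)
noncomputable def S140_169_512_586_38 : EL := (EL.cons 14 (TM.mk (P.cons (P.cons (P.lf 0 37719704 0) (P.cons (P.lf 0 29947864 0) (P.cons (P.lf 0 5467676 0) (P.cons (P.lf 348108 0 0) (P.cons (P.lf 61566 0 0) (P.cons (P.lf 0 1002 0) P.nil)))))) (P.cons (P.cons (P.lf 94402638 0 0) (P.cons (P.lf 28419072 0 0) (P.cons (P.lf 0 4047682 0) (P.cons (P.lf 0 36324 0) (P.cons (P.lf 37236 0 0) P.nil))))) (P.cons (P.cons (P.lf 0 69683504 0) (P.cons (P.lf 6805566 0 0) (P.cons (P.lf 0 776238 0) (P.cons (P.lf 0 14844 0) P.nil)))) (P.cons (P.cons (P.lf 11433936 0 0) (P.cons (P.lf 0 1450830 0) (P.cons (P.lf 51930 0 0) P.nil))) (P.cons (P.cons (P.lf 1656290 0 0) (P.cons (P.lf 0 421296 0) P.nil)) (P.cons (P.cons (P.lf 0 343504 0) P.nil) P.nil)))))) 296684)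
 EL.nil)
noncomputable def S140_169_512_586_39 : EL := (EL.cons 14 (TM.mk (P.cons (P.lf 3772912404 0 0) (P.cons (P.lf 0 723905728 0) (P.cons (P.lf 0 24534334 0) (P.cons (P.lf 5330620 0 0) (P.cons (P.lf 448650 0 0) (P.cons (P.lf 0 4952 0) P.nil)))))) 3630)
 EL.nil)
noncomputable def S140_169_512_586_40 : EL := (EL.cons 14 (TM.mk (P.cons (P.cons (P.lf 0 307110192 0) (P.cons (P.lf 0 121916308 0) (P.cons (P.lf 1940456 0 0) (P.lf 646816 0 0)))) (P.cons (P.cons (P.lf 428502306 0 0) (P.cons (P.lf 0 19325782 0) (P.cons (P.lf 307592 0 0) (P.lf 102528 0 0)))) (P.cons (P.cons (P.lf 0 95967028 0) (P.cons (P.lf 5046626 0 0) (P.cons (P.lf 0 80324 0) (P.lf 0 26774 0)))) (P.cons (P.cons (P.lf 0 4689516 0) (P.cons (P.lf 1104536 0 0) (P.cons (P.lf 0 17576 0) P.nil))) (P.cons (P.cons (P.lf 1981386 0 0) (P.cons (P.lf 0 34046 0) P.nil)) (P.cons (P.cons (P.lf 117772 0 0) P.nil) P.nil))))))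 80524)
 EL.nil)
noncomputable def S140_169_512_586_41 : EL := (EL.cons 14 (TM.mk (P.cons (P.cons (P.lf 24998372 0 0) (P.cons (P.lf 19847658 0 0) (P.cons (P.lf 3623650 0 0) (P.cons (P.lf 0 230704 0) (P.cons (P.lf 0 40802 0) (P.cons (P.lf 664 0 0) P.nil)))))) (P.cons (P.cons (P.lf 0 64962648 0) (P.cons (P.lf 0 20738544 0) (P.cons (P.lf 2334930 0 0) (P.cons (P.lf 46206 0 0) (P.cons (P.lf 0 20764 0) P.nil))))) (P.cons (P.cons (P.lf 51987852 0 0) (P.cons (P.lf 0 2859312 0) (P.cons (P.lf 228636 0 0) (P.cons (P.lf 9340 0 0) P.nil)))) (P.cons (P.cons (P.lf 0 11518038 0) (P.cons (P.lf 1541196 0 0) (P.cons (P.lf 0 105006 0) P.nil))) (P.cons (P.cons (P.lf 0 729856 0) (P.cons (P.lf 223750 0 0) P.nil)) (P.cons (P.cons (P.lf 388824 0 0) P.nil) P.nil)))))) 276636)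
 EL.nil)
noncomputable def S140_169_512_586_42 : EL := (EL.cons 14 (TM.mk (P.cons (P.lf 0 2500461402 0) (P.cons (P.lf 719642336 0 0) (P.cons (P.lf 0 10129460 0) (P.cons (P.lf 0 8742920 0) (P.cons (P.lf 0 168938 0) (P.cons (P.lf 67134 0 0) P.nil)))))) 7070)
 EL.nil)
noncomputable def S140_169_512_586_43 : EL := (EL.cons 14 (TM.mk (P.cons (P.cons (P.lf 203534326 0 0) (P.cons (P.lf 80798860 0 0) (P.cons (P.lf 0 1286018 0) (P.lf 0 428670 0)))) (P.cons (P.cons (P.lf 0 303511766 0) (P.cons (P.lf 5056568 0 0) (P.cons (P.lf 0 80478 0) (P.lf 0 26824 0)))) (P.cons (P.cons (P.lf 89246912 0 0) (P.cons (P.lf 0 5207852 0) (P.cons (P.lf 82890 0 0) (P.lf 27630 0 0)))) (P.cons (P.cons (P.lf 0 773012 0) (P.cons (P.lf 0 515534 0) (P.cons (P.lf 8202 0 0) P.nil))) (P.cons (P.cons (P.lf 0 2092528 0) (P.cons (P.lf 120402 0 0) P.nil)) (P.cons (P.cons (P.lf 13942 0 0) P.nil) P.nil)))))) 88404)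
 EL.nil)
noncomputable def S140_169_512_586_44 : EL := (EL.cons 14 (TM.mk (P.cons (P.cons (P.lf 0 16567430 0) (P.cons (P.lf 0 13153844 0) (P.cons (P.lf 0 2401538 0) (P.cons (P.lf 152896 0 0) (P.cons (P.lf 27040 0 0) (P.cons (P.lf 0 440 0) P.nil)))))) (P.cons (P.cons (P.lf 44642760 0 0) (P.cons (P.lf 15006180 0 0) (P.cons (P.lf 0 1317060 0) (P.cons (P.lf 0 45290 0) (P.cons (P.lf 11166 0 0) P.nil))))) (P.cons (P.cons (P.lf 0 38454650 0) (P.cons (P.lf 679728 0 0) (P.cons (P.lf 15786 0 0) (P.cons (P.lf 0 4452 0) P.nil)))) (P.cons (P.cons (P.lf 10601518 0 0) (P.cons (P.lf 0 1310524 0) (P.cons (P.lf 96392 0 0) P.nil))) (P.cons (P.cons (P.lf 19544 0 0) (P.cons (P.lf 0 66142 0) P.nil)) (P.cons (P.cons (P.lf 0 361404 0) P.nil) P.nil)))))) 237296)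
 EL.nil)
noncomputable def S140_169_512_586_45 : EL := (EL.cons 14 (TM.mk (P.cons (P.cons (P.lf 0 4632786 0) (P.cons (P.lf 0 5517358 0) (P.cons (P.lf 0 2102458 0) (P.cons (P.lf 0 190836 0) (P.cons (P.lf 36524 0 0) (P.cons (P.lf 4022 0 0) P.nil)))))) (P.cons (P.cons (P.lf 16725330 0 0) (P.cons (P.lf 11346004 0 0) (P.cons (P.lf 920312 0 0) (P.cons (P.lf 0 399896 0) (P.cons (P.lf 3144 0 0) P.nil))))) (P.cons (P.cons (P.lf 0 21351630 0) (P.cons (P.lf 0 4487742 0) (P.cons (P.lf 1315014 0 0) (P.cons (P.lf 0 150640 0) P.nil)))) (P.cons (P.cons (P.lf 10701714 0 0) (P.cons (P.lf 0 1783122 0) (P.cons (P.lf 296086 0 0) P.nil))) (P.cons (P.cons (P.lf 0 1115170 0) (P.cons (P.lf 268354 0 0) P.nil)) (P.cons (P.cons (P.lf 0 381814 0) P.nil) P.nil)))))) 476438)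
 EL.nil)
noncomputable def S140_169_512_586_46 : EL := (EL.cons 15 (TM.mk (P.lf 4294967296 0 0) 0)
 EL.nil)
noncomputable def S140_169_512_586_47 : EL := (EL.cons 15 (TM.mk (P.cons (P.cons (P.lf 0 349604787 0) (P.cons (P.lf 0 138785772 0) (P.cons (P.lf 2208956 0 0) (P.lf 736316 0 0)))) (P.cons (P.cons (P.lf 420715437 0 0) (P.cons (P.lf 0 48628592 0) (P.cons (P.lf 773984 0 0) (P.lf 257992 0 0)))) (P.cons (P.cons (P.lf 0 30796967 0) (P.cons (P.lf 0 4487896 0) (P.cons (P.lf 71428 0 0) (P.lf 23808 0 0)))) (P.cons (P.cons (P.lf 0 8017636 0) (P.cons (P.lf 276148 0 0) (P.cons (P.lf 0 4392 0) P.nil))) (P.cons (P.cons (P.lf 0 35894 0) (P.cons (P.lf 70252 0 0) P.nil)) (P.cons (P.cons (P.lf 68071 0 0) P.nil) P.nil)))))) 16815)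
 EL.nil)
noncomputable def S140_169_512_586_48 : EL := (EL.cons 15 (TM.mk (P.cons (P.cons (P.lf 28457377 0 0) (P.cons (P.lf 22593964 0 0) (P.cons (P.lf 4125052 0 0) (P.cons (P.lf 0 262628 0) (P.cons (P.lf 0 46449 0) (P.cons (P.lf 757 0 0) P.nil)))))) (P.cons (P.cons (P.lf 0 68491385 0) (P.cons (P.lf 0 19273035 0) (P.cons (P.lf 3449483 0 0) (P.cons (P.lf 2210 0 0) (P.cons (P.lf 0 32550 0) P.nil))))) (P.cons (P.cons (P.lf 46225034 0 0) (P.cons (P.lf 0 6805932 0) (P.cons (P.lf 948948 0 0) (P.cons (P.lf 9349 0 0) P.nil)))) (P.cons (P.cons (P.lf 0 4728210 0) (P.cons (P.lf 291353 0 0) (P.cons (P.lf 79141 0 0) P.nil))) (P.cons (P.cons (P.lf 0 1344069 0) (P.cons (P.lf 290898 0 0) P.nil)) (P.cons (P.cons (P.lf 96866 0 0) P.nil) P.nil)))))) 133159)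
 EL.nil)
noncomputable def S140_169_512_586 : SL := (SL.cons S140_169_512_586_0 (SL.cons S140_169_512_586_1 (SL.cons S140_169_512_586_2 (SL.cons S140_169_512_586_3 (SL.cons S140_169_512_586_4 (SL.cons S140_169_512_586_5 (SL.cons S140_169_512_586_6 (SL.cons S140_169_512_586_7 (SL.cons S140_169_512_586_8 (SL.cons S140_169_512_586_9 (SL.cons S140_169_512_586_10 (SL.cons S140_169_512_586_11 (SL.cons S140_169_512_586_12 (SL.cons S140_169_512_586_13 (SL.cons S140_169_512_586_14 (SL.cons S140_169_512_586_15 (SL.cons S140_169_512_586_16 (SL.cons S140_169_512_586_17 (SL.cons S140_169_512_586_18 (SL.cons S140_169_512_586_19 (SL.cons S140_169_512_586_20 (SL.cons S140_169_512_586_21 (SL.cons S140_169_512_586_22 (SL.cons S140_169_512_586_23 (SL.cons S140_169_512_586_24 (SL.cons S140_169_512_586_25 (SL.cons S140_169_512_586_26 (SL.cons S140_169_512_586_27 (SL.cons S140_169_512_586_28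 (SL.cons S140_169_512_586_29 (SL.cons S140_169_512_586_30 (SL.cons S140_169_512_586_31 (SL.cons S140_169_512_586_32 (SL.cons S140_169_512_586_33 (SL.cons S140_169_512_586_34 (SL.cons S140_169_512_586_35 (SL.cons S140_169_512_586_36 (SL.cons S140_169_512_586_37 (SL.cons S140_169_512_586_38 (SL.cons S140_169_512_586_39 (SL.cons S140_169_512_586_40 (SL.cons S140_169_512_586_41 (SL.cons S140_169_512_586_42 (SL.cons S140_169_512_586_43 (SL.cons S140_169_512_586_44 (SL.cons S140_169_512_586_45 (SL.cons S140_169_512_586_46 (SL.cons S140_169_512_586_47 (SL.cons S140_169_512_586_48 SL.nil)))))))))))))))))))))))))))))))))))))))))))))))))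
theorem S140_169_290_364_ok : band (seq (shp 5 140 169 290 364) S140_169_290_364) (sok S140_169_290_364) = true := by decide +kernel

theorem S140_169_364_438_ok : band (seq (shp 5 140 169 364 438) S140_169_364_438) (sok S140_169_364_438) = true := by decide +kernel

theorem S140_169_364_512_ok : band (seq (shp 5 140 169 364 512) S140_169_364_512) (sok S140_169_364_512) = true := by decide +kernel

theorem S140_169_438_512_ok : band (seq (shp 5 140 169 438 512) S140_169_438_512) (sok S140_169_438_512) = true := by decide +kernel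

theorem S140_169_512_549_ok : band (seq (shp 5 140 169 512 549) S140_169_512_549) (sok S140_169_512_549) = true := by decide +kernel

theorem S140_169_512_586_ok : band (seq (shp 5 140 169 512 586) S140_169_512_586) (sok S140_169_512_586) = true := by decide +kernel

end Vale.Agent.P098.Ck
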