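import Vale.Agent.P098.CkDefs

namespace Vale.Agent.P098.Ck

noncomputable def S256_285_771_808_0 : EL := (EL.cons 0 (TM.mk (P.cons (P.lf 8359606057 0 0) (P.cons (P.lf 0 190686074 0) (P.cons (P.lf 0 92290364 0) (P.cons (P.lf 3016066 0 0) (P.cons (P.lf 708651 0 0) (P.cons (P.lf 0 26673 0) P.nil)))))) 4788)
 (EL.cons 1 (TM.mk (P.cons (P.lf 450679505 0 0) (P.cons (P.lf 439849933 0 0) (P.cons (P.lf 0 16100088 0) (P.cons (P.lf 0 5127871 0) (P.cons (P.lf 176304 0 0) (P.cons (P.lf 32482 0 0) P.nil)))))) 1651)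
 (EL.cons 5 (TM.mk (P.cons (P.lf 4329140030 0 0) (P.cons (P.lf 67799490 0 0) (P.cons (P.lf 32814348 0 0) (P.cons (P.lf 0 1072376 0) (P.cons (P.lf 0 251962 0) (P.cons (P.lf 9484 0 0) P.nil)))))) 1837)
 (EL.cons 9 (TM.mk (P.lf 6442450944 0 0) 2)
 EL.nil))))
noncomputable def S256_285_771_808_1 : EL := (EL.cons 0 (TM.mk (P.cons (P.cons (P.lf 0 5663926850 0) (P.cons (P.lf 0 50705876 0) (P.cons (P.lf 25090046 0 0) (P.lf 557554 0 0)))) (P.cons (P.cons (P.lf 0 315318555 0) (P.cons (P.lf 7231882 0 0) (P.cons (P.lf 0 3578432 0) (P.lf 0 79510 0)))) (P.cons (P.cons (P.lf 550642404 0 0) (P.cons (P.lf 3249993 0 0) (P.cons (P.lf 0 1608139 0) (P.lf 0 35722 0)))) (P.cons (P.cons (P.lf 41743394 0 0) (P.cons (P.lf 0 354790 0) (P.cons (P.lf 175550 0 0) P.nil))) (P.cons (P.cons (P.lf 0 16415648 0) (P.cons (P.lf 0 75012 0) P.nil)) (P.cons (P.cons (P.lf 0 855738 0) P.nil) P.nil)))))) 383270)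
 (EL.cons 1 (TM.mk (P.cons (P.cons (P.lf 387071041 0 0) (P.cons (P.lf 0 7009541 0) (P.cons (P.lf 3468424 0 0) (P.lf 77071 0 0)))) (P.cons (P.cons (P.lf 0 943231826 0) (P.cons (P.lf 0 6365334 0) (P.cons (P.lf 3149664 0 0) (P.lf 69988 0 0)))) (P.cons (P.cons (P.lf 0 73024838 0) (P.cons (P.lf 940087 0 0) (P.cons (P.lf 0 465164 0) (P.lf 0 10329 0)))) (P.cons (P.cons (P.lf 53744253 0 0) (P.cons (P.lf 270356 0 0) (P.cons (P.lf 0 133773 0) P.nil))) (P.cons (P.cons (P.lf 3254346 0 0) (P.cons (P.lf 0 31040 0) P.nil)) (P.cons (P.cons (P.lf 0 1239564 0) P.nil) P.nil)))))) 170824)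
 (EL.cons 5 (TM.mk (P.cons (P.cons (P.lf 0 2676947004 0) (P.cons (P.lf 0 27840850 0) (P.cons (P.lf 13776076 0 0) (P.lf 306136 0 0)))) (P.cons (P.cons (P.lf 0 245341882 0) (P.cons (P.lf 0 363938 0) (P.cons (P.lf 180082 0 0) (P.lf 3996 0 0)))) (P.cons (P.cons (P.lf 0 37328284 0) (P.cons (P.lf 0 104900 0) (P.cons (P.lf 51898 0 0) (P.lf 1146 0 0)))) (P.cons (P.cons (P.lf 467902 0 0) (P.cons (P.lf 74000 0 0) (P.cons (P.lf 0 36616 0) P.nil))) (P.cons (P.cons (P.lf 3592322 0 0) (P.cons (P.lf 14736 0 0) P.nil)) (P.cons (P.cons (P.lf 152159 0 0) P.nil) P.nil)))))) 178029)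
 (EL.cons 9 (TM.mk (P.cons (P.cons (P.lf 0 4138930278 0) (P.cons (P.lf 0 40473180 0) (P.cons (P.lf 20026746 0 0) (P.lf 445032 0 0)))) (P.cons (P.cons (P.lf 0 315401596 0) (P.cons (P.lf 1947696 0 0) (P.cons (P.lf 0 963744 0) (P.lf 0 21414 0)))) (P.cons (P.cons (P.lf 139813824 0 0) (P.cons (P.lf 927042 0 0) (P.cons (P.lf 0 458712 0) (P.lf 0 10188 0)))) (P.cons (P.cons (P.lf 13508820 0 0) (P.cons (P.lf 0 46008 0) (P.cons (P.lf 22764 0 0) P.nil))) (P.cons (P.cons (P.lf 0 1980288 0) (P.cons (P.lf 0 10524 0) P.nil)) (P.cons (P.cons (P.lf 0 134200 0) P.nil) P.nil)))))) 30599)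
 (EL.cons 2 (TM.mk (P.cons (P.cons (P.lf 0 33964875 0) (P.cons (P.lf 34392352 0 0) (P.cons (P.lf 374819 0 0) (P.cons (P.lf 0 51437 0) (P.lf 0 855 0))))) (P.cons (P.cons (P.lf 0 32603883 0) (P.cons (P.lf 33014235 0 0) (P.cons (P.lf 359800 0 0) (P.cons (P.lf 0 49376 0) (P.lf 0 821 0))))) (P.cons (P.cons (P.lf 2013165 0 0) (P.cons (P.lf 0 2038502 0) (P.cons (P.lf 0 22215 0) (P.cons (P.lf 3045 0 0) P.nil)))) (P.cons (P.cons (P.lf 624296 0 0) (P.cons (P.lf 0 632151 0) (P.cons (P.lf 0 6887 0) P.nil))) (P.cons (P.cons (P.lf 0 34309 0) (P.cons (P.lf 34742 0 0) P.nil)) (P.cons (P.cons (P.lf 0 6114 0) P.nil) P.nil)))))) 9690)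
 (EL.cons 6 (TM.mk (P.cons (P.cons (P.lf 159266928 0 0) (P.cons (P.lf 0 161271453 0) (P.cons (P.lf 0 1757598 0) (P.cons (P.lf 241206 0 0) (P.lf 4017 0 0))))) (P.cons (P.cons (P.lf 0 7664430 0) (P.cons (P.lf 7760892 0 0) (P.cons (P.lf 84579 0 0) (P.cons (P.lf 0 11604 0) (P.lf 0 192 0))))) (P.cons (P.cons (P.lf 0 3648042 0) (P.cons (P.lf 3693954 0 0) (P.cons (P.lf 40257 0 0) (P.cons (P.lf 0 5523 0) P.nil)))) (P.cons (P.cons (P.lf 181059 0 0) (P.cons (P.lf 0 183339 0) (P.cons (P.lf 0 1995 0) P.nil))) (P.cons (P.cons (P.lf 41418 0 0) (P.cons (P.lf 0 41937 0) P.nil)) (P.cons (P.cons (P.lf 0 2244 0) P.nil) P.nil)))))) 4239)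
 EL.nil))))))
noncomputable def S256_285_771_808_2 : EL := (EL.cons 0 (TM.mk (P.cons (P.cons (P.lf 3827217021 0 0) (P.cons (P.lf 68837134 0 0) (P.cons (P.lf 0 33754493 0) (P.cons (P.lf 0 1060904 0) (P.cons (P.lf 68463 0 0) (P.cons (P.lf 3342 0 0) P.nil)))))) (P.cons (P.cons (P.lf 512574601 0 0) (P.cons (P.lf 0 4145852 0) (P.cons (P.lf 1969178 0 0) (P.cons (P.lf 126959 0 0) (P.cons (P.lf 0 18324 0) P.nil))))) (P.cons (P.cons (P.lf 0 659323553 0) (P.cons (P.lf 0 10963358 0) (P.cons (P.lf 5391036 0 0) (P.cons (P.lf 153966 0 0) P.nil)))) (P.cons (P.cons (P.lf 0 105003450 0) (P.cons (P.lf 92796 0 0) (P.cons (P.lf 0 38951 0) P.nil))) (P.cons (P.cons (P.lf 33788827 0 0) (P.cons (P.lf 573346 0 0) P.nil)) (P.cons (P.cons (P.lf 5746064 0 0) P.nil) P.nil)))))) 2145429)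
 (EL.cons 1 (TM.mk (P.cons (P.cons (P.lf 0 683357247 0) (P.cons (P.lf 505246 0 0) (P.cons (P.lf 0 179714 0) (P.cons (P.lf 0 75105 0) (P.cons (P.lf 15656 0 0) (P.cons (P.lf 763 0 0) P.nil)))))) (P.cons (P.cons (P.lf 964160309 0 0) (P.cons (P.lf 17297769 0 0) (P.cons (P.lf 0 8499103 0) (P.cons (P.lf 0 249669 0) (P.cons (P.lf 13392 0 0) P.nil))))) (P.cons (P.cons (P.lf 193448266 0 0) (P.cons (P.lf 0 180490 0) (P.cons (P.lf 74704 0 0) (P.cons (P.lf 16422 0 0) P.nil)))) (P.cons (P.cons (P.lf 0 84710217 0) (P.cons (P.lf 0 1474012 0) (P.cons (P.lf 725612 0 0) P.nil))) (P.cons (P.cons (P.lf 0 15145510 0) (P.cons (P.lf 8119 0 0) P.nil)) (P.cons (P.cons (P.lf 3274263 0 0) P.nil) P.nil)))))) 1082504)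
 (EL.cons 5 (TM.mk (P.cons (P.cons (P.lf 1652792005 0 0) (P.cons (P.lf 34462127 0 0) (P.cons (P.lf 0 16873433 0) (P.cons (P.lf 0 556032 0) (P.cons (P.lf 39864 0 0) (P.cons (P.lf 1932 0 0) P.nil)))))) (P.cons (P.cons (P.lf 277042891 0 0) (P.cons (P.lf 3129064 0 0) (P.cons (P.lf 0 1546800 0) (P.cons (P.lf 0 35883 0) (P.cons (P.lf 327 0 0) P.nil))))) (P.cons (P.cons (P.lf 48327385 0 0) (P.cons (P.lf 341047 0 0) (P.cons (P.lf 0 169265 0) (P.cons (P.lf 0 3219 0) P.nil)))) (P.cons (P.cons (P.lf 2147884 0 0) (P.cons (P.lf 0 165412 0) (P.cons (P.lf 80667 0 0) P.nil))) (P.cons (P.cons (P.lf 0 7190299 0) (P.cons (P.lf 0 100355 0) P.nil)) (P.cons (P.cons (P.lf 0 963341 0) P.nil) P.nil)))))) 1013583)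
 (EL.cons 9 (TM.mk (P.cons (P.cons (P.lf 2659041409 0 0) (P.cons (P.lf 52003707 0 0) (P.cons (P.lf 0 25477963 0) (P.cons (P.lf 0 823444 0) (P.cons (P.lf 56662 0 0) (P.cons (P.lf 2766 0 0) P.nil)))))) (P.cons (P.cons (P.lf 405257323 0 0) (P.cons (P.lf 1460290 0 0) (P.cons (P.lf 0 747052 0) (P.cons (P.lf 8157 0 0) (P.cons (P.lf 0 5452 0) P.nil))))) (P.cons (P.cons (P.lf 0 164204769 0) (P.cons (P.lf 0 3138549 0) (P.cons (P.lf 1541938 0 0) (P.cons (P.lf 45447 0 0) P.nil)))) (P.cons (P.cons (P.lf 0 31047055 0) (P.cons (P.lf 0 116848 0) (P.cons (P.lf 58959 0 0) P.nil))) (P.cons (P.cons (P.lf 4255995 0 0) (P.cons (P.lf 91312 0 0) P.nil)) (P.cons (P.cons (P.lf 952665 0 0) P.nil) P.nil)))))) 252167)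
 (EL.cons 2 (TM.mk (P.cons (P.cons (P.lf 43641230 0 0) (P.cons (P.lf 0 43763743 0) (P.cons (P.lf 0 1124887 0) (P.cons (P.lf 270511 0 0) (P.cons (P.lf 8825 0 0) (P.cons (P.lf 0 253 0) P.nil)))))) (P.cons (P.cons (P.lf 45218126 0 0) (P.cons (P.lf 0 45398120 0) (P.cons (P.lf 0 1085557 0) (P.cons (P.lf 254868 0 0) (P.cons (P.lf 8184 0 0) P.nil))))) (P.cons (P.cons (P.lf 0 868550 0) (P.cons (P.lf 824698 0 0) (P.cons (P.lf 92160 0 0) (P.cons (P.lf 0 27551 0) P.nil)))) (P.cons (P.cons (P.lf 0 2556843 0) (P.cons (P.lf 2573499 0 0) (P.cons (P.lf 51615 0 0) P.nil))) (P.cons (P.cons (P.lf 0 45506 0) (P.cons (P.lf 48043 0 0) P.nil)) (P.cons (P.cons (P.lf 68214 0 0) P.nil) P.nil)))))) 110525)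
 (EL.cons 6 (TM.mk (P.cons (P.cons (P.lf 0 204640968 0) (P.cons (P.lf 205215456 0 0) (P.cons (P.lf 5274804 0 0) (P.cons (P.lf 0 1268478 0) (P.cons (P.lf 0 41400 0) (P.cons (P.lf 1200 0 0) P.nil)))))) (P.cons (P.cons (P.lf 0 5746410 0) (P.cons (P.lf 6011334 0 0) (P.cons (P.lf 0 226902 0) (P.cons (P.lf 83550 0 0) (P.cons (P.lf 3336 0 0) P.nil))))) (P.cons (P.cons (P.lf 12350604 0 0) (P.cons (P.lf 0 12419004 0) (P.cons (P.lf 0 267492 0) (P.cons (P.lf 60390 0 0) P.nil)))) (P.cons (P.cons (P.lf 459798 0 0) (P.cons (P.lf 0 474546 0) (P.cons (P.lf 8430 0 0) P.nil))) (P.cons (P.cons (P.lf 0 359334 0) (P.cons (P.lf 361986 0 0) P.nil)) (P.cons (P.cons (P.lf 0 10530 0) P.nil) P.nil)))))) 72894)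
 EL.nil))))))
noncomputable def S256_285_771_808_3 : EL := (EL.cons 0 (TM.mk (P.cons (P.lf 96110806 0 0) (P.cons (P.lf 190686074 0 0) (P.cons (P.lf 92290364 0 0) (P.cons (P.lf 0 3016066 0) (P.cons (P.lf 0 708651 0) (P.cons (P.lf 26673 0 0) P.nil)))))) 4788)
 (EL.cons 1 (TM.mk (P.cons (P.lf 0 450679505 0) (P.cons (P.lf 0 439849933 0) (P.cons (P.lf 16100088 0 0) (P.cons (P.lf 5127871 0 0) (P.cons (P.lf 0 176304 0) (P.cons (P.lf 0 32482 0) P.nil)))))) 1651)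
 (EL.cons 5 (TM.mk (P.cons (P.lf 2113310914 0 0) (P.cons (P.lf 0 67799490 0) (P.cons (P.lf 0 32814348 0) (P.cons (P.lf 1072376 0 0) (P.cons (P.lf 251962 0 0) (P.cons (P.lf 0 9484 0) P.nil)))))) 1830)
 EL.nil)))
noncomputable def S256_285_771_808_4 : EL := (EL.cons 0 (TM.mk (P.cons (P.cons (P.lf 0 61746053 0) (P.cons (P.lf 0 603792 0) (P.cons (P.lf 298764 0 0) (P.lf 6637 0 0)))) (P.cons (P.cons (P.lf 0 127210881 0) (P.cons (P.lf 0 1168883 0) (P.cons (P.lf 578380 0 0) (P.lf 12851 0 0)))) (P.cons (P.cons (P.lf 0 66541204 0) (P.cons (P.lf 0 508313 0) (P.cons (P.lf 251520 0 0) (P.lf 5588 0 0)))) (P.cons (P.cons (P.lf 1759213 0 0) (P.cons (P.lf 73601 0 0) (P.cons (P.lf 0 36418 0) P.nil))) (P.cons (P.cons (P.lf 2976104 0 0) (P.cons (P.lf 15300 0 0) P.nil)) (P.cons (P.cons (P.lf 85004 0 0) P.nil) P.nil)))))) 79776)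
 (EL.cons 1 (TM.mk (P.cons (P.cons (P.lf 289537485 0 0) (P.cons (P.lf 2831285 0 0) (P.cons (P.lf 0 1400962 0) (P.lf 0 31130 0)))) (P.cons (P.cons (P.lf 304643878 0 0) (P.cons (P.lf 2627002 0 0) (P.cons (P.lf 0 1299879 0) (P.lf 0 28884 0)))) (P.cons (P.cons (P.lf 1409553 0 0) (P.cons (P.lf 0 298970 0) (P.cons (P.lf 147933 0 0) (P.lf 3285 0 0)))) (P.cons (P.cons (P.lf 0 14573201 0) (P.cons (P.lf 0 87420 0) (P.cons (P.lf 43256 0 0) P.nil))) (P.cons (P.cons (P.lf 0 572139 0) (P.cons (P.lf 8850 0 0) P.nil)) (P.cons (P.cons (P.lf 319132 0 0) P.nil) P.nil)))))) 42814)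
 (EL.cons 5 (TM.mk (P.cons (P.cons (P.lf 0 1357689270 0) (P.cons (P.lf 0 13276376 0) (P.cons (P.lf 6569354 0 0) (P.lf 145982 0 0)))) (P.cons (P.cons (P.lf 0 59903328 0) (P.cons (P.lf 1064834 0 0) (P.cons (P.lf 0 526894 0) (P.lf 0 11706 0)))) (P.cons (P.cons (P.lf 70263700 0 0) (P.cons (P.lf 489746 0 0) (P.cons (P.lf 0 242332 0) (P.lf 0 5382 0)))) (P.cons (P.cons (P.lf 3877442 0 0) (P.cons (P.lf 0 41504 0) (P.cons (P.lf 20536 0 0) P.nil))) (P.cons (P.cons (P.lf 0 1718264 0) (P.cons (P.lf 0 8946 0) P.nil)) (P.cons (P.cons (P.lf 0 74956 0) P.nil) P.nil)))))) 38032)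
 EL.nil)))
noncomputable def S256_285_771_808_5 : EL := (EL.cons 0 (TM.mk (P.cons (P.cons (P.lf 39668537 0 0) (P.cons (P.lf 775808 0 0) (P.cons (P.lf 0 380088 0) (P.cons (P.lf 0 12283 0) (P.cons (P.lf 843 0 0) (P.cons (P.lf 40 0 0) P.nil)))))) (P.cons (P.cons (P.lf 84749076 0 0) (P.cons (P.lf 1561009 0 0) (P.cons (P.lf 0 765249 0) (P.cons (P.lf 0 24250 0) (P.cons (P.lf 1594 0 0) P.nil))))) (P.cons (P.cons (P.lf 47636989 0 0) (P.cons (P.lf 741371 0 0) (P.cons (P.lf 0 364088 0) (P.cons (P.lf 0 10875 0) P.nil)))) (P.cons (P.cons (P.lf 0 762755 0) (P.cons (P.lf 0 98064 0) (P.cons (P.lf 47743 0 0) P.nil))) (P.cons (P.cons (P.lf 0 3689950 0) (P.cons (P.lf 0 53460 0) P.nil)) (P.cons (P.cons (P.lf 0 261270 0) P.nil) P.nil)))))) 202678)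
 (EL.cons 1 (TM.mk (P.cons (P.cons (P.lf 0 186012352 0) (P.cons (P.lf 0 3637901 0) (P.cons (P.lf 1782300 0 0) (P.cons (P.lf 57601 0 0) (P.cons (P.lf 0 3961 0) (P.cons (P.lf 0 193 0) P.nil)))))) (P.cons (P.cons (P.lf 0 209892223 0) (P.cons (P.lf 0 3652638 0) (P.cons (P.lf 1791733 0 0) (P.cons (P.lf 55648 0 0) (P.cons (P.lf 0 3485 0) P.nil))))) (P.cons (P.cons (P.lf 0 9536411 0) (P.cons (P.lf 249815 0 0) (P.cons (P.lf 0 120532 0) (P.cons (P.lf 0 5791 0) P.nil)))) (P.cons (P.cons (P.lf 16511979 0 0) (P.cons (P.lf 267495 0 0) (P.cons (P.lf 0 131542 0) P.nil))) (P.cons (P.cons (P.lf 1661409 0 0) (P.cons (P.lf 0 6513 0) P.nil)) (P.cons (P.cons (P.lf 0 589998 0) P.nil) P.nil)))))) 173480)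
 (EL.cons 5 (TM.mk (P.cons (P.cons (P.lf 872242764 0 0) (P.cons (P.lf 17058724 0 0) (P.cons (P.lf 0 8357510 0) (P.cons (P.lf 0 270112 0) (P.cons (P.lf 18586 0 0) (P.cons (P.lf 906 0 0) P.nil)))))) (P.cons (P.cons (P.lf 104952768 0 0) (P.cons (P.lf 0 68262 0) (P.cons (P.lf 23072 0 0) (P.cons (P.lf 11340 0 0) (P.cons (P.lf 0 2384 0) P.nil))))) (P.cons (P.cons (P.lf 0 71672518 0) (P.cons (P.lf 0 1309780 0) (P.cons (P.lf 643432 0 0) (P.cons (P.lf 19014 0 0) P.nil)))) (P.cons (P.cons (P.lf 0 10077816 0) (P.cons (P.lf 0 4080 0) (P.cons (P.lf 2676 0 0) P.nil))) (P.cons (P.cons (P.lf 2730646 0 0) (P.cons (P.lf 49444 0 0) P.nil)) (P.cons (P.cons (P.lf 410450 0 0) P.nil) P.nil)))))) 152836)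
 EL.nil)))
noncomputable def S256_285_771_808_6 : EL := (EL.cons 12 (TM.mk (P.lf 8589934592 0 0) 0)
 (EL.cons 3 (TM.mk (P.cons (P.lf 454308690 0 0) (P.cons (P.lf 450679503 0 0) (P.cons (P.lf 0 5414782 0) (P.cons (P.lf 0 1756837 0) (P.cons (P.lf 35658 0 0) (P.cons (P.lf 6731 0 0) P.nil)))))) 269)
 (EL.cons 7 (TM.mk (P.cons (P.lf 0 2130328762 0) (P.cons (P.lf 34172730 0 0) (P.cons (P.lf 16813380 0 0) (P.cons (P.lf 0 270802 0) (P.cons (P.lf 0 64991 0) (P.cons (P.lf 1601 0 0) P.nil)))))) 330)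
 EL.nil)))
noncomputable def S256_285_771_808_7 : EL := (EL.cons 12 (TM.mk (P.cons (P.cons (P.lf 0 5518573704 0) (P.cons (P.lf 0 53964240 0) (P.cons (P.lf 26702328 0 0) (P.lf 593376 0 0)))) (P.cons (P.cons (P.lf 0 420535462 0) (P.cons (P.lf 2596928 0 0) (P.cons (P.lf 0 1284992 0) (P.lf 0 28552 0)))) (P.cons (P.cons (P.lf 186418432 0 0) (P.cons (P.lf 1236056 0 0) (P.cons (P.lf 0 611616 0) (P.lf 0 13584 0)))) (P.cons (P.cons (P.lf 18011760 0 0) (P.cons (P.lf 0 61344 0) (P.cons (P.lf 30352 0 0) P.nil))) (P.cons (P.cons (P.lf 0 2640384 0) (P.cons (P.lf 0 14032 0) P.nil)) (P.cons (P.cons (P.lf 0 178934 0) P.nil) P.nil)))))) 40774)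
 (EL.cons 3 (TM.mk (P.cons (P.cons (P.lf 0 1678403723 0) (P.cons (P.lf 5708172 0 0) (P.cons (P.lf 0 2824490 0) (P.lf 0 62762 0)))) (P.cons (P.cons (P.lf 928655656 0 0) (P.cons (P.lf 5387880 0 0) (P.cons (P.lf 0 2666004 0) (P.lf 0 59242 0)))) (P.cons (P.cons (P.lf 165116009 0 0) (P.cons (P.lf 0 471280 0) (P.cons (P.lf 233194 0 0) (P.lf 5180 0 0)))) (P.cons (P.cons (P.lf 0 29079718 0) (P.cons (P.lf 0 142012 0) (P.cons (P.lf 70268 0 0) P.nil))) (P.cons (P.cons (P.lf 0 2635735 0) (P.cons (P.lf 10988 0 0) P.nil)) (P.cons (P.cons (P.lf 449766 0 0) P.nil) P.nil)))))) 111224)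
 (EL.cons 7 (TM.mk (P.cons (P.cons (P.lf 1263488474 0 0) (P.cons (P.lf 14032524 0 0) (P.cons (P.lf 0 6943507 0) (P.lf 0 154304 0)))) (P.cons (P.cons (P.lf 70415231 0 0) (P.cons (P.lf 408533 0 0) (P.cons (P.lf 0 202145 0) (P.lf 0 4491 0)))) (P.cons (P.cons (P.lf 48011031 0 0) (P.cons (P.lf 170176 0 0) (P.cons (P.lf 0 84203 0) (P.lf 0 1869 0)))) (P.cons (P.cons (P.lf 6493885 0 0) (P.cons (P.lf 0 33127 0) (P.cons (P.lf 16392 0 0) P.nil))) (P.cons (P.cons (P.lf 0 1717693 0) (P.cons (P.lf 0 7099 0) P.nil)) (P.cons (P.cons (P.lf 0 121155 0) P.nil) P.nil)))))) 92804)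
 (EL.cons 10 (TM.mk (P.cons (P.cons (P.lf 0 321098916 0) (P.cons (P.lf 325140246 0 0) (P.cons (P.lf 3543507 0 0) (P.cons (P.lf 0 486297 0) (P.lf 0 8103 0))))) (P.cons (P.cons (P.lf 10301532 0 0) (P.cons (P.lf 0 10431186 0) (P.cons (P.lf 0 113682 0) (P.cons (P.lf 15600 0 0) (P.lf 258 0 0))))) (P.cons (P.cons (P.lf 4985850 0 0) (P.cons (P.lf 0 5048601 0) (P.cons (P.lf 0 55020 0) (P.cons (P.lf 7548 0 0) P.nil)))) (P.cons (P.cons (P.lf 0 162936 0) (P.cons (P.lf 164988 0 0) (P.cons (P.lf 1797 0 0) P.nil))) (P.cons (P.cons (P.lf 0 38283 0) (P.cons (P.lf 38763 0 0) P.nil)) (P.cons (P.cons (P.lf 1440 0 0) P.nil) P.nil)))))) 3006)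
 EL.nil))))
noncomputable def S256_285_771_808_8 : EL := (EL.cons 12 (TM.mk (P.cons (P.cons (P.lf 3545388546 0 0) (P.cons (P.lf 69338276 0 0) (P.cons (P.lf 0 33970618 0) (P.cons (P.lf 0 1097926 0) (P.cons (P.lf 75550 0 0) (P.cons (P.lf 3688 0 0) P.nil)))))) (P.cons (P.cons (P.lf 540343098 0 0) (P.cons (P.lf 1947054 0 0) (P.cons (P.lf 0 996070 0) (P.cons (P.lf 10876 0 0) (P.cons (P.lf 0 7270 0) P.nil))))) (P.cons (P.cons (P.lf 0 218939692 0) (P.cons (P.lf 0 4184732 0) (P.cons (P.lf 2055918 0 0) (P.cons (P.lf 60596 0 0) P.nil)))) (P.cons (P.cons (P.lf 0 41396074 0) (P.cons (P.lf 0 155798 0) (P.cons (P.lf 78612 0 0) P.nil))) (P.cons (P.cons (P.lf 5674660 0 0) (P.cons (P.lf 121750 0 0) P.nil)) (P.cons (P.cons (P.lf 1270220 0 0) P.nil) P.nil)))))) 336194)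
 (EL.cons 3 (TM.mk (P.cons (P.cons (P.lf 1969059048 0 0) (P.cons (P.lf 10086764 0 0) (P.cons (P.lf 0 5080736 0) (P.cons (P.lf 0 22198 0) (P.cons (P.lf 0 19975 0) (P.cons (P.lf 0 975 0) P.nil)))))) (P.cons (P.cons (P.lf 0 1243475043 0) (P.cons (P.lf 0 23905592 0) (P.cons (P.lf 11748538 0 0) (P.cons (P.lf 342326 0 0) (P.cons (P.lf 0 17896 0) P.nil))))) (P.cons (P.cons (P.lf 0 390469051 0) (P.cons (P.lf 0 1507495 0) (P.cons (P.lf 759464 0 0) (P.cons (P.lf 3195 0 0) P.nil)))) (P.cons (P.cons (P.lf 69207814 0 0) (P.cons (P.lf 1486050 0 0) (P.cons (P.lf 0 731604 0) P.nil))) (P.cons (P.cons (P.lf 20156471 0 0) (P.cons (P.lf 52896 0 0) P.nil)) (P.cons (P.cons (P.lf 0 1831334 0) P.nil) P.nil)))))) 1132836)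
 (EL.cons 7 (TM.mk (P.cons (P.cons (P.lf 0 744180912 0) (P.cons (P.lf 0 16709338 0) (P.cons (P.lf 8175800 0 0) (P.cons (P.lf 275012 0 0) (P.cons (P.lf 0 20548 0) (P.cons (P.lf 0 998 0) P.nil)))))) (P.cons (P.cons (P.lf 0 94286389 0) (P.cons (P.lf 0 1812631 0) (P.cons (P.lf 890823 0 0) (P.cons (P.lf 25953 0 0) (P.cons (P.lf 0 1353 0) P.nil))))) (P.cons (P.cons (P.lf 0 77130090 0) (P.cons (P.lf 0 1027917 0) (P.cons (P.lf 506578 0 0) (P.cons (P.lf 13317 0 0) P.nil)))) (P.cons (P.cons (P.lf 0 15031116 0) (P.cons (P.lf 28517 0 0) (P.cons (P.lf 0 13161 0) P.nil))) (P.cons (P.cons (P.lf 5218042 0 0) (P.cons (P.lf 86619 0 0) P.nil)) (P.cons (P.cons (P.lf 1081124 0 0) P.nil) P.nil)))))) 600803)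
 (EL.cons 10 (TM.mk (P.cons (P.cons (P.lf 412577766 0 0) (P.cons (P.lf 0 413735988 0) (P.cons (P.lf 0 10634568 0) (P.cons (P.lf 2557386 0 0) (P.cons (P.lf 83472 0 0) (P.cons (P.lf 0 2430 0) P.nil)))))) (P.cons (P.cons (P.lf 18203562 0 0) (P.cons (P.lf 0 18756258 0) (P.cons (P.lf 286878 0 0) (P.cons (P.lf 0 127428 0) (P.cons (P.lf 0 5394 0) P.nil))))) (P.cons (P.cons (P.lf 0 21351894 0) (P.cons (P.lf 21471798 0 0) (P.cons (P.lf 459966 0 0) (P.cons (P.lf 0 103620 0) P.nil)))) (P.cons (P.cons (P.lf 0 1178286 0) (P.cons (P.lf 1205730 0 0) (P.cons (P.lf 0 6006 0) P.nil))) (P.cons (P.cons (P.lf 522144 0 0) (P.cons (P.lf 0 525996 0) P.nil)) (P.cons (P.cons (P.lf 22776 0 0) P.nil) P.nil)))))) 102768)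
 EL.nil))))
noncomputable def S256_285_771_808_9 : EL := (EL.cons 3 (TM.mk (P.cons (P.lf 454308690 0 0) (P.cons (P.lf 450679503 0 0) (P.cons (P.lf 0 5414782 0) (P.cons (P.lf 0 1756837 0) (P.cons (P.lf 35658 0 0) (P.cons (P.lf 6731 0 0) P.nil)))))) 269)
 (EL.cons 7 (TM.mk (P.cons (P.lf 0 2130328762 0) (P.cons (P.lf 34172730 0 0) (P.cons (P.lf 16813380 0 0) (P.cons (P.lf 0 270802 0) (P.cons (P.lf 0 64991 0) (P.cons (P.lf 1601 0 0) P.nil)))))) 330)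
 EL.nil))
noncomputable def S256_285_771_808_10 : EL := (EL.cons 3 (TM.mk (P.cons (P.cons (P.lf 0 291869042 0) (P.cons (P.lf 0 2854086 0) (P.cons (P.lf 1412245 0 0) (P.lf 31381 0 0)))) (P.cons (P.cons (P.lf 0 311778971 0) (P.cons (P.lf 0 2693940 0) (P.cons (P.lf 1333002 0 0) (P.lf 29621 0 0)))) (P.cons (P.cons (P.lf 0 8725714 0) (P.cons (P.lf 235640 0 0) (P.cons (P.lf 0 116597 0) (P.lf 0 2590 0)))) (P.cons (P.cons (P.lf 12127007 0 0) (P.cons (P.lf 71006 0 0) (P.cons (P.lf 0 35134 0) P.nil))) (P.cons (P.cons (P.lf 750947 0 0) (P.cons (P.lf 0 5494 0) P.nil)) (P.cons (P.cons (P.lf 0 203544 0) P.nil) P.nil)))))) 25852)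
 (EL.cons 7 (TM.mk (P.cons (P.cons (P.lf 1368622328 0 0) (P.cons (P.lf 13383288 0 0) (P.cons (P.lf 0 6622255 0) (P.lf 0 147158 0)))) (P.cons (P.cons (P.lf 82339865 0 0) (P.cons (P.lf 0 858727 0) (P.cons (P.lf 424909 0 0) (P.lf 9441 0 0)))) (P.cons (P.cons (P.lf 0 58706997 0) (P.cons (P.lf 0 401840 0) (P.cons (P.lf 198835 0 0) (P.lf 4416 0 0)))) (P.cons (P.cons (P.lf 0 4374506 0) (P.cons (P.lf 26915 0 0) (P.cons (P.lf 0 13317 0) P.nil))) (P.cons (P.cons (P.lf 1146371 0 0) (P.cons (P.lf 5981 0 0) P.nil)) (P.cons (P.cons (P.lf 65403 0 0) P.nil) P.nil)))))) 21292)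
 EL.nil))
noncomputable def S256_285_771_808_11 : EL := (EL.cons 3 (TM.mk (P.cons (P.cons (P.lf 187510254 0 0) (P.cons (P.lf 3667196 0 0) (P.cons (P.lf 0 1796654 0) (P.cons (P.lf 0 58066 0) (P.cons (P.lf 3995 0 0) (P.cons (P.lf 195 0 0) P.nil)))))) (P.cons (P.cons (P.lf 214590285 0 0) (P.cons (P.lf 3740878 0 0) (P.cons (P.lf 0 1834982 0) (P.cons (P.lf 0 57028 0) (P.cons (P.lf 3578 0 0) P.nil))))) (P.cons (P.cons (P.lf 14535365 0 0) (P.cons (P.lf 0 162877 0) (P.cons (P.lf 77888 0 0) (P.cons (P.lf 4467 0 0) P.nil)))) (P.cons (P.cons (P.lf 0 14741990 0) (P.cons (P.lf 0 243204 0) (P.cons (P.lf 119598 0 0) P.nil))) (P.cons (P.cons (P.lf 0 1829545 0) (P.cons (P.lf 792 0 0) P.nil)) (P.cons (P.cons (P.lf 440800 0 0) P.nil) P.nil)))))) 136502)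
 (EL.cons 7 (TM.mk (P.cons (P.cons (P.lf 0 879266670 0) (P.cons (P.lf 0 17196094 0) (P.cons (P.lf 8424812 0 0) (P.cons (P.lf 272288 0 0) (P.cons (P.lf 0 18736 0) (P.cons (P.lf 0 914 0) P.nil)))))) (P.cons (P.cons (P.lf 0 119902291 0) (P.cons (P.lf 0 207031 0) (P.cons (P.lf 111885 0 0) (P.cons (P.lf 0 7065 0) (P.cons (P.lf 2103 0 0) P.nil))))) (P.cons (P.cons (P.lf 63386802 0 0) (P.cons (P.lf 1181289 0 0) (P.cons (P.lf 0 580328 0) (P.cons (P.lf 0 17133 0) P.nil)))) (P.cons (P.cons (P.lf 10341216 0 0) (P.cons (P.lf 23615 0 0) (P.cons (P.lf 0 12195 0) P.nil))) (P.cons (P.cons (P.lf 0 2044412 0) (P.cons (P.lf 0 39591 0) P.nil)) (P.cons (P.cons (P.lf 0 369994 0) P.nil) P.nil)))))) 114673)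
 EL.nil))
noncomputable def S256_285_771_808_12 : EL := (EL.cons 4 (TM.mk (P.cons (P.lf 0 454308690 0) (P.cons (P.lf 0 450679503 0) (P.cons (P.lf 5414782 0 0) (P.cons (P.lf 1756837 0 0) (P.cons (P.lf 0 35658 0) (P.cons (P.lf 0 6731 0) P.nil)))))) 269)
 (EL.cons 8 (TM.mk (P.cons (P.lf 2130328762 0 0) (P.cons (P.lf 0 34172730 0) (P.cons (P.lf 0 16813380 0) (P.cons (P.lf 270802 0 0) (P.cons (P.lf 64991 0 0) (P.cons (P.lf 0 1601 0) P.nil)))))) 330)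
 EL.nil))
noncomputable def S256_285_771_808_13 : EL := (EL.cons 4 (TM.mk (P.cons (P.cons (P.lf 291869042 0 0) (P.cons (P.lf 2854086 0 0) (P.cons (P.lf 0 1412245 0) (P.lf 0 31381 0)))) (P.cons (P.cons (P.lf 311778971 0 0) (P.cons (P.lf 2693940 0 0) (P.cons (P.lf 0 1333002 0) (P.lf 0 29621 0)))) (P.cons (P.cons (P.lf 8725714 0 0) (P.cons (P.lf 0 235640 0) (P.cons (P.lf 116597 0 0) (P.lf 2590 0 0)))) (P.cons (P.cons (P.lf 0 12127007 0) (P.cons (P.lf 0 71006 0) (P.cons (P.lf 35134 0 0) P.nil))) (P.cons (P.cons (P.lf 0 750947 0) (P.cons (P.lf 5494 0 0) P.nil)) (P.cons (P.cons (P.lf 203544 0 0) P.nil) P.nil)))))) 25852)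
 (EL.cons 8 (TM.mk (P.cons (P.cons (P.lf 0 1368622328 0) (P.cons (P.lf 0 13383288 0) (P.cons (P.lf 6622255 0 0) (P.lf 147158 0 0)))) (P.cons (P.cons (P.lf 0 82339865 0) (P.cons (P.lf 858727 0 0) (P.cons (P.lf 0 424909 0) (P.lf 0 9441 0)))) (P.cons (P.cons (P.lf 58706997 0 0) (P.cons (P.lf 401840 0 0) (P.cons (P.lf 0 198835 0) (P.lf 0 4416 0)))) (P.cons (P.cons (P.lf 4374506 0 0) (P.cons (P.lf 0 26915 0) (P.cons (P.lf 13317 0 0) P.nil))) (P.cons (P.cons (P.lf 0 1146371 0) (P.cons (P.lf 0 5981 0) P.nil)) (P.cons (P.cons (P.lf 0 65403 0) P.nil) P.nil)))))) 21292)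
 EL.nil))
noncomputable def S256_285_771_808_14 : EL := (EL.cons 4 (TM.mk (P.cons (P.cons (P.lf 0 187510254 0) (P.cons (P.lf 0 3667196 0) (P.cons (P.lf 1796654 0 0) (P.cons (P.lf 58066 0 0) (P.cons (P.lf 0 3995 0) (P.cons (P.lf 0 195 0) P.nil)))))) (P.cons (P.cons (P.lf 0 214590285 0) (P.cons (P.lf 0 3740878 0) (P.cons (P.lf 1834982 0 0) (P.cons (P.lf 57028 0 0) (P.cons (P.lf 0 3578 0) P.nil))))) (P.cons (P.cons (P.lf 0 14535365 0) (P.cons (P.lf 162877 0 0) (P.cons (P.lf 0 77888 0) (P.cons (P.lf 0 4467 0) P.nil)))) (P.cons (P.cons (P.lf 14741990 0 0) (P.cons (P.lf 243204 0 0) (P.cons (P.lf 0 119598 0) P.nil))) (P.cons (P.cons (P.lf 1829545 0 0) (P.cons (P.lf 0 792 0) P.nil)) (P.cons (P.cons (P.lf 0 440800 0) P.nil) P.nil)))))) 136502)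
 (EL.cons 8 (TM.mk (P.cons (P.cons (P.lf 879266670 0 0) (P.cons (P.lf 17196094 0 0) (P.cons (P.lf 0 8424812 0) (P.cons (P.lf 0 272288 0) (P.cons (P.lf 18736 0 0) (P.cons (P.lf 914 0 0) P.nil)))))) (P.cons (P.cons (P.lf 119902291 0 0) (P.cons (P.lf 207031 0 0) (P.cons (P.lf 0 111885 0) (P.cons (P.lf 7065 0 0) (P.cons (P.lf 0 2103 0) P.nil))))) (P.cons (P.cons (P.lf 0 63386802 0) (P.cons (P.lf 0 1181289 0) (P.cons (P.lf 580328 0 0) (P.cons (P.lf 17133 0 0) P.nil)))) (P.cons (P.cons (P.lf 0 10341216 0) (P.cons (P.lf 0 23615 0) (P.cons (P.lf 12195 0 0) P.nil))) (P.cons (P.cons (P.lf 2044412 0 0) (P.cons (P.lf 39591 0 0) P.nil)) (P.cons (P.cons (P.lf 369994 0 0) P.nil) P.nil)))))) 114673)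
 EL.nil))
noncomputable def S256_285_771_808_15 : EL := (EL.cons 4 (TM.mk (P.cons (P.lf 0 51259096 0) (P.cons (P.lf 0 101699239 0) (P.cons (P.lf 0 49221527 0) (P.cons (P.lf 1608569 0 0) (P.cons (P.lf 377947 0 0) (P.cons (P.lf 0 14225 0) P.nil)))))) 2557)
 (EL.cons 8 (TM.mk (P.cons (P.lf 240362403 0 0) (P.cons (P.lf 234586631 0 0) (P.cons (P.lf 0 8586714 0) (P.cons (P.lf 0 2734865 0) (P.cons (P.lf 94029 0 0) (P.cons (P.lf 17324 0 0) P.nil)))))) 877)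
 EL.nil))
noncomputable def S256_285_771_808_16 : EL := (EL.cons 4 (TM.mk (P.cons (P.cons (P.lf 32931228 0 0) (P.cons (P.lf 322022 0 0) (P.cons (P.lf 0 159341 0) (P.lf 0 3540 0)))) (P.cons (P.cons (P.lf 67845803 0 0) (P.cons (P.lf 623404 0 0) (P.cons (P.lf 0 308469 0) (P.lf 0 6854 0)))) (P.cons (P.cons (P.lf 35488642 0 0) (P.cons (P.lf 271100 0 0) (P.cons (P.lf 0 134144 0) (P.lf 0 2980 0)))) (P.cons (P.cons (P.lf 0 938247 0) (P.cons (P.lf 0 39254 0) (P.cons (P.lf 19423 0 0) P.nil))) (P.cons (P.cons (P.lf 0 1587255 0) (P.cons (P.lf 0 8160 0) P.nil)) (P.cons (P.cons (P.lf 0 45335 0) P.nil) P.nil)))))) 42556)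
 (EL.cons 8 (TM.mk (P.cons (P.cons (P.lf 0 154419992 0) (P.cons (P.lf 0 1510019 0) (P.cons (P.lf 747180 0 0) (P.lf 16603 0 0)))) (P.cons (P.cons (P.lf 0 162476735 0) (P.cons (P.lf 0 1401068 0) (P.cons (P.lf 693269 0 0) (P.lf 15405 0 0)))) (P.cons (P.cons (P.lf 0 751762 0) (P.cons (P.lf 159451 0 0) (P.cons (P.lf 0 78898 0) (P.lf 0 1752 0)))) (P.cons (P.cons (P.lf 7772374 0 0) (P.cons (P.lf 46624 0 0) (P.cons (P.lf 0 23070 0) P.nil))) (P.cons (P.cons (P.lf 305141 0 0) (P.cons (P.lf 0 4720 0) P.nil)) (P.cons (P.cons (P.lf 0 170204 0) P.nil) P.nil)))))) 22824)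
 EL.nil))
noncomputable def S256_285_771_808_17 : EL := (EL.cons 4 (TM.mk (P.cons (P.cons (P.lf 0 21156553 0) (P.cons (P.lf 0 413764 0) (P.cons (P.lf 202713 0 0) (P.cons (P.lf 6551 0 0) (P.cons (P.lf 0 450 0) (P.cons (P.lf 0 21 0) P.nil)))))) (P.cons (P.cons (P.lf 0 45199507 0) (P.cons (P.lf 0 832538 0) (P.cons (P.lf 408133 0 0) (P.cons (P.lf 12933 0 0) (P.cons (P.lf 0 850 0) P.nil))))) (P.cons (P.cons (P.lf 0 25406394 0) (P.cons (P.lf 0 395398 0) (P.cons (P.lf 194180 0 0) (P.cons (P.lf 5800 0 0) P.nil)))) (P.cons (P.cons (P.lf 406802 0 0) (P.cons (P.lf 52301 0 0) (P.cons (P.lf 0 25463 0) P.nil))) (P.cons (P.cons (P.lf 1967973 0 0) (P.cons (P.lf 28512 0 0) P.nil)) (P.cons (P.cons (P.lf 139344 0 0) P.nil) P.nil)))))) 108105)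
 (EL.cons 8 (TM.mk (P.cons (P.cons (P.lf 99206588 0 0) (P.cons (P.lf 1940214 0 0) (P.cons (P.lf 0 950560 0) (P.cons (P.lf 0 30721 0) (P.cons (P.lf 2113 0 0) (P.cons (P.lf 103 0 0) P.nil)))))) (P.cons (P.cons (P.lf 111942519 0 0) (P.cons (P.lf 1948074 0 0) (P.cons (P.lf 0 955591 0) (P.cons (P.lf 0 29679 0) (P.cons (P.lf 1859 0 0) P.nil))))) (P.cons (P.cons (P.lf 5086086 0 0) (P.cons (P.lf 0 133235 0) (P.cons (P.lf 64284 0 0) (P.cons (P.lf 3089 0 0) P.nil)))) (P.cons (P.cons (P.lf 0 8806389 0) (P.cons (P.lf 0 142664 0) (P.cons (P.lf 70156 0 0) P.nil))) (P.cons (P.cons (P.lf 0 886085 0) (P.cons (P.lf 3474 0 0) P.nil)) (P.cons (P.cons (P.lf 314666 0 0) P.nil) P.nil)))))) 92511)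
 EL.nil))
noncomputable def S256_285_771_808_18 : EL := (EL.cons 4 (TM.mk (P.cons (P.lf 0 5783501 0) (P.cons (P.lf 0 17211901 0) (P.cons (P.lf 0 16867610 0) (P.cons (P.lf 0 5168619 0) (P.cons (P.lf 332796 0 0) (P.cons (P.lf 59024 0 0) P.nil)))))) 4306)
 (EL.cons 8 (TM.mk (P.cons (P.lf 27119797 0 0) (P.cons (P.lf 53371278 0 0) (P.cons (P.lf 24964624 0 0) (P.cons (P.lf 0 1690000 0) (P.cons (P.lf 0 384174 0) (P.cons (P.lf 22382 0 0) P.nil)))))) 4185)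
 EL.nil))
noncomputable def S256_285_771_808_19 : EL := (EL.cons 4 (TM.mk (P.cons (P.cons (P.lf 3715590 0 0) (P.cons (P.lf 36332 0 0) (P.cons (P.lf 0 17977 0) (P.lf 0 399 0)))) (P.cons (P.cons (P.lf 11340868 0 0) (P.cons (P.lf 106380 0 0) (P.cons (P.lf 0 52638 0) (P.lf 0 1169 0)))) (P.cons (P.cons (P.lf 11553663 0 0) (P.cons (P.lf 99930 0 0) (P.cons (P.lf 0 49446 0) (P.lf 0 1098 0)))) (P.cons (P.cons (P.lf 3760685 0 0) (P.cons (P.lf 24935 0 0) (P.cons (P.lf 0 12338 0) P.nil))) (P.cons (P.cons (P.lf 0 361138 0) (P.cons (P.lf 0 5947 0) P.nil)) (P.cons (P.cons (P.lf 0 196338 0) P.nil) P.nil)))))) 39965)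
 (EL.cons 8 (TM.mk (P.cons (P.cons (P.lf 0 17423019 0) (P.cons (P.lf 0 170373 0) (P.cons (P.lf 84303 0 0) (P.lf 1872 0 0)))) (P.cons (P.cons (P.lf 0 35615890 0) (P.cons (P.lf 0 327093 0) (P.cons (P.lf 161850 0 0) (P.lf 3596 0 0)))) (P.cons (P.cons (P.lf 0 18062768 0) (P.cons (P.lf 0 136796 0) (P.cons (P.lf 67688 0 0) (P.lf 1503 0 0)))) (P.cons (P.cons (P.lf 1078674 0 0) (P.cons (P.lf 25650 0 0) (P.cons (P.lf 0 12692 0) P.nil))) (P.cons (P.cons (P.lf 974904 0 0) (P.cons (P.lf 5068 0 0) P.nil)) (P.cons (P.cons (P.lf 3128 0 0) P.nil) P.nil)))))) 32328)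
 EL.nil))
noncomputable def S256_285_771_808_20 : EL := (EL.cons 4 (TM.mk (P.cons (P.cons (P.lf 0 2387068 0) (P.cons (P.lf 0 46683 0) (P.cons (P.lf 22871 0 0) (P.cons (P.lf 738 0 0) (P.cons (P.lf 0 50 0) (P.cons (P.lf 0 1 0) P.nil)))))) (P.cons (P.cons (P.lf 0 7467804 0) (P.cons (P.lf 0 140245 0) (P.cons (P.lf 68738 0 0) (P.cons (P.lf 2191 0 0) (P.cons (P.lf 0 146 0) P.nil))))) (P.cons (P.cons (P.lf 0 7897187 0) (P.cons (P.lf 0 137239 0) (P.cons (P.lf 67317 0 0) (P.cons (P.lf 2092 0 0) P.nil)))) (P.cons (P.cons (P.lf 0 2727759 0) (P.cons (P.lf 0 37053 0) (P.cons (P.lf 18223 0 0) P.nil))) (P.cons (P.cons (P.lf 321275 0 0) (P.cons (P.lf 9961 0 0) P.nil)) (P.cons (P.cons (P.lf 246094 0 0) P.nil) P.nil)))))) 78664)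
 (EL.cons 8 (TM.mk (P.cons (P.cons (P.lf 11193358 0 0) (P.cons (P.lf 218911 0 0) (P.cons (P.lf 0 107250 0) (P.cons (P.lf 0 3466 0) (P.cons (P.lf 238 0 0) (P.cons (P.lf 11 0 0) P.nil)))))) (P.cons (P.cons (P.lf 23734279 0 0) (P.cons (P.lf 436961 0 0) (P.cons (P.lf 0 214211 0) (P.cons (P.lf 0 6787 0) (P.cons (P.lf 446 0 0) P.nil))))) (P.cons (P.cons (P.lf 12969888 0 0) (P.cons (P.lf 200401 0 0) (P.cons (P.lf 0 98425 0) (P.cons (P.lf 0 2931 0) P.nil)))) (P.cons (P.cons (P.lf 0 618163 0) (P.cons (P.lf 0 34475 0) (P.cons (P.lf 16810 0 0) P.nil))) (P.cons (P.cons (P.lf 0 1140455 0) (P.cons (P.lf 0 16229 0) P.nil)) (P.cons (P.cons (P.lf 0 52892 0) P.nil) P.nil)))))) 71187)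
 EL.nil))
noncomputable def S256_285_771_808_21 : EL := (EL.cons 4 (TM.mk (P.cons (P.cons (P.lf 1386534681 0 0) (P.cons (P.lf 0 8562258 0) (P.cons (P.lf 4236735 0 0) (P.lf 94143 0 0)))) (P.cons (P.cons (P.lf 0 1240434627 0) (P.cons (P.lf 0 8081820 0) (P.cons (P.lf 3999006 0 0) (P.lf 88863 0 0)))) (P.cons (P.cons (P.lf 0 173841723 0) (P.cons (P.lf 706920 0 0) (P.cons (P.lf 0 349791 0) (P.lf 0 7770 0)))) (P.cons (P.cons (P.lf 41206725 0 0) (P.cons (P.lf 213018 0 0) (P.cons (P.lf 0 105402 0) P.nil))) (P.cons (P.cons (P.lf 3386682 0 0) (P.cons (P.lf 0 16482 0) P.nil)) (P.cons (P.cons (P.lf 0 653310 0) P.nil) P.nil)))))) 85353)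
 (EL.cons 8 (TM.mk (P.cons (P.cons (P.lf 105133854 0 0) (P.cons (P.lf 0 649236 0) (P.cons (P.lf 321252 0 0) (P.lf 7146 0 0)))) (P.cons (P.cons (P.lf 11924634 0 0) (P.cons (P.lf 0 1267260 0) (P.cons (P.lf 627054 0 0) (P.lf 13932 0 0)))) (P.cons (P.cons (P.lf 0 106718028 0) (P.cons (P.lf 0 572016 0) (P.cons (P.lf 283038 0 0) (P.lf 6285 0 0)))) (P.cons (P.cons (P.lf 0 10868391 0) (P.cons (P.lf 60042 0 0) (P.cons (P.lf 0 29709 0) P.nil))) (P.cons (P.cons (P.lf 2864064 0 0) (P.cons (P.lf 13080 0 0) P.nil)) (P.cons (P.cons (P.lf 186558 0 0) P.nil) P.nil)))))) 71493)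
 (EL.cons 11 (TM.mk (P.cons (P.cons (P.lf 321098916 0 0) (P.cons (P.lf 0 325140246 0) (P.cons (P.lf 0 3543507 0) (P.cons (P.lf 486297 0 0) (P.lf 8103 0 0))))) (P.cons (P.cons (P.lf 0 10301532 0) (P.cons (P.lf 10431186 0 0) (P.cons (P.lf 113682 0 0) (P.cons (P.lf 0 15600 0) (P.lf 0 258 0))))) (P.cons (P.cons (P.lf 0 4985850 0) (P.cons (P.lf 5048601 0 0) (P.cons (P.lf 55020 0 0) (P.cons (P.lf 0 7548 0) P.nil)))) (P.cons (P.cons (P.lf 162936 0 0) (P.cons (P.lf 0 164988 0) (P.cons (P.lf 0 1797 0) P.nil))) (P.cons (P.cons (P.lf 38283 0 0) (P.cons (P.lf 0 38763 0) P.nil)) (P.cons (P.cons (P.lf 0 1440 0) P.nil) P.nil)))))) 3006)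
 EL.nil)))
noncomputable def S256_285_771_808_22 : EL := (EL.cons 4 (TM.mk (P.cons (P.cons (P.lf 0 890774397 0) (P.cons (P.lf 0 3209784 0) (P.cons (P.lf 1642041 0 0) (P.cons (P.lf 0 17934 0) (P.cons (P.lf 11985 0 0) (P.cons (P.lf 585 0 0) P.nil)))))) (P.cons (P.cons (P.lf 729032664 0 0) (P.cons (P.lf 13823235 0 0) (P.cons (P.lf 0 6791760 0) (P.cons (P.lf 0 199677 0) (P.cons (P.lf 10737 0 0) P.nil))))) (P.cons (P.cons (P.lf 202502208 0 0) (P.cons (P.lf 672309 0 0) (P.cons (P.lf 0 340788 0) (P.cons (P.lf 636 0 0) P.nil)))) (P.cons (P.cons (P.lf 0 41974902 0) (P.cons (P.lf 0 864627 0) (P.cons (P.lf 425601 0 0) P.nil))) (P.cons (P.cons (P.lf 0 10993008 0) (P.cons (P.lf 0 26052 0) P.nil)) (P.cons (P.cons (P.lf 1136067 0 0) P.nil) P.nil)))))) 498156)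
 (EL.cons 8 (TM.mk (P.cons (P.cons (P.lf 0 67542879 0) (P.cons (P.lf 0 243378 0) (P.cons (P.lf 124506 0 0) (P.cons (P.lf 0 1362 0) (P.cons (P.lf 906 0 0) (P.cons (P.lf 42 0 0) P.nil)))))) (P.cons (P.cons (P.lf 0 12807951 0) (P.cons (P.lf 802800 0 0) (P.cons (P.lf 0 389469 0) (P.cons (P.lf 0 16509 0) (P.cons (P.lf 1728 0 0) P.nil))))) (P.cons (P.cons (P.lf 70258446 0 0) (P.cons (P.lf 1104603 0 0) (P.cons (P.lf 0 543453 0) (P.cons (P.lf 0 15225 0) P.nil)))) (P.cons (P.cons (P.lf 12686166 0 0) (P.cons (P.lf 0 2451 0) (P.cons (P.lf 483 0 0) P.nil))) (P.cons (P.cons (P.lf 0 3631227 0) (P.cons (P.lf 0 63105 0) P.nil)) (P.cons (P.cons (P.lf 0 725559 0) P.nil) P.nil)))))) 243054)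
 (EL.cons 11 (TM.mk (P.cons (P.cons (P.lf 0 206288883 0) (P.cons (P.lf 206867994 0 0) (P.cons (P.lf 5317284 0 0) (P.cons (P.lf 0 1278693 0) (P.cons (P.lf 0 41736 0) (P.cons (P.lf 1215 0 0) P.nil)))))) (P.cons (P.cons (P.lf 0 9101781 0) (P.cons (P.lf 9378129 0 0) (P.cons (P.lf 0 143439 0) (P.cons (P.lf 63714 0 0) (P.cons (P.lf 2697 0 0) P.nil))))) (P.cons (P.cons (P.lf 10675947 0 0) (P.cons (P.lf 0 10735899 0) (P.cons (P.lf 0 229983 0) (P.cons (P.lf 51810 0 0) P.nil)))) (P.cons (P.cons (P.lf 589143 0 0) (P.cons (P.lf 0 602865 0) (P.cons (P.lf 3003 0 0) P.nil))) (P.cons (P.cons (P.lf 0 261072 0) (P.cons (P.lf 262998 0 0) P.nil)) (P.cons (P.cons (P.lf 0 11388 0) P.nil) P.nil)))))) 51384)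
 EL.nil)))
noncomputable def S256_285_771_808_23 : EL := (EL.cons 4 (TM.mk (P.cons (P.cons (P.lf 156441021 0 0) (P.cons (P.lf 0 966069 0) (P.cons (P.lf 478023 0 0) (P.lf 10620 0 0)))) (P.cons (P.cons (P.lf 15234582 0 0) (P.cons (P.lf 0 1870212 0) (P.cons (P.lf 925407 0 0) (P.lf 20562 0 0)))) (P.cons (P.cons (P.lf 0 160317630 0) (P.cons (P.lf 0 813300 0) (P.cons (P.lf 402432 0 0) (P.lf 8940 0 0)))) (P.cons (P.cons (P.lf 0 13745217 0) (P.cons (P.lf 117762 0 0) (P.cons (P.lf 0 58269 0) P.nil))) (P.cons (P.cons (P.lf 5781555 0 0) (P.cons (P.lf 24480 0 0) P.nil)) (P.cons (P.cons (P.lf 317118 0 0) P.nil) P.nil)))))) 140457)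
 (EL.cons 8 (TM.mk (P.cons (P.cons (P.lf 11862123 0 0) (P.cons (P.lf 0 73251 0) (P.cons (P.lf 36246 0 0) (P.lf 804 0 0)))) (P.cons (P.cons (P.lf 13112805 0 0) (P.cons (P.lf 0 215649 0) (P.cons (P.lf 106704 0 0) (P.lf 2370 0 0)))) (P.cons (P.cons (P.lf 0 10847550 0) (P.cons (P.lf 0 205506 0) (P.cons (P.lf 101685 0 0) (P.lf 2256 0 0)))) (P.cons (P.cons (P.lf 0 13232853 0) (P.cons (P.lf 0 55260 0) (P.cons (P.lf 27342 0 0) P.nil))) (P.cons (P.cons (P.lf 0 754080 0) (P.cons (P.lf 9510 0 0) P.nil)) (P.cons (P.cons (P.lf 403074 0 0) P.nil) P.nil)))))) 55392)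
 (EL.cons 11 (TM.mk (P.cons (P.cons (P.lf 36229200 0 0) (P.cons (P.lf 0 36685176 0) (P.cons (P.lf 0 399807 0) (P.cons (P.lf 54867 0 0) (P.lf 912 0 0))))) (P.cons (P.cons (P.lf 34777476 0 0) (P.cons (P.lf 0 35215185 0) (P.cons (P.lf 0 383787 0) (P.cons (P.lf 52668 0 0) (P.lf 876 0 0))))) (P.cons (P.cons (P.lf 0 2147376 0) (P.cons (P.lf 2174403 0 0) (P.cons (P.lf 23697 0 0) (P.cons (P.lf 0 3249 0) P.nil)))) (P.cons (P.cons (P.lf 0 665916 0) (P.cons (P.lf 674295 0 0) (P.cons (P.lf 7347 0 0) P.nil))) (P.cons (P.cons (P.lf 36597 0 0) (P.cons (P.lf 0 37059 0) P.nil)) (P.cons (P.cons (P.lf 6522 0 0) P.nil) P.nil)))))) 10314)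
 EL.nil)))
noncomputable def S256_285_771_808_24 : EL := (EL.cons 4 (TM.mk (P.cons (P.cons (P.lf 0 100504989 0) (P.cons (P.lf 0 362154 0) (P.cons (P.lf 185268 0 0) (P.cons (P.lf 0 2022 0) (P.cons (P.lf 1350 0 0) (P.cons (P.lf 66 0 0) P.nil)))))) (P.cons (P.cons (P.lf 0 17446251 0) (P.cons (P.lf 1200393 0 0) (P.cons (P.lf 0 582516 0) (P.cons (P.lf 0 24534 0) (P.cons (P.lf 2553 0 0) P.nil))))) (P.cons (P.cons (P.lf 105644748 0 0) (P.cons (P.lf 1627371 0 0) (P.cons (P.lf 0 800841 0) (P.cons (P.lf 0 22251 0) P.nil)))) (P.cons (P.cons (P.lf 17337852 0 0) (P.cons (P.lf 0 39492 0) (P.cons (P.lf 18291 0 0) P.nil))) (P.cons (P.cons (P.lf 0 6536769 0) (P.cons (P.lf 0 106677 0) P.nil)) (P.cons (P.cons (P.lf 0 1129179 0) P.nil) P.nil)))))) 429816)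
 (EL.cons 8 (TM.mk (P.cons (P.cons (P.lf 0 7620780 0) (P.cons (P.lf 0 27459 0) (P.cons (P.lf 14046 0 0) (P.cons (P.lf 0 153 0) (P.cons (P.lf 102 0 0) (P.cons (P.lf 3 0 0) P.nil)))))) (P.cons (P.cons (P.lf 0 9005007 0) (P.cons (P.lf 63336 0 0) (P.cons (P.lf 0 30006 0) (P.cons (P.lf 0 2013 0) (P.cons (P.lf 294 0 0) P.nil))))) (P.cons (P.cons (P.lf 6584442 0 0) (P.cons (P.lf 214812 0 0) (P.cons (P.lf 0 105075 0) (P.cons (P.lf 0 3564 0) P.nil)))) (P.cons (P.cons (P.lf 9341907 0 0) (P.cons (P.lf 122385 0 0) (P.cons (P.lf 0 60303 0) P.nil))) (P.cons (P.cons (P.lf 920730 0 0) (P.cons (P.lf 0 9231 0) P.nil)) (P.cons (P.cons (P.lf 0 536238 0) P.nil) P.nil)))))) 133389)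
 (EL.cons 11 (TM.mk (P.cons (P.cons (P.lf 0 23275323 0) (P.cons (P.lf 23340663 0 0) (P.cons (P.lf 599940 0 0) (P.cons (P.lf 0 144273 0) (P.cons (P.lf 0 4707 0) (P.cons (P.lf 135 0 0) P.nil)))))) (P.cons (P.cons (P.lf 0 24116334 0) (P.cons (P.lf 24212331 0 0) (P.cons (P.lf 578964 0 0) (P.cons (P.lf 0 135930 0) (P.cons (P.lf 0 4365 0) P.nil))))) (P.cons (P.cons (P.lf 463227 0 0) (P.cons (P.lf 0 439839 0) (P.cons (P.lf 0 49152 0) (P.cons (P.lf 14694 0 0) P.nil)))) (P.cons (P.cons (P.lf 1363650 0 0) (P.cons (P.lf 0 1372533 0) (P.cons (P.lf 0 27528 0) P.nil))) (P.cons (P.cons (P.lf 24270 0 0) (P.cons (P.lf 0 25623 0) P.nil)) (P.cons (P.cons (P.lf 0 36381 0) P.nil) P.nil)))))) 58935)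
 EL.nil)))
noncomputable def S256_285_771_808_25 : EL := (EL.cons 4 (TM.mk (P.cons (P.cons (P.lf 17651049 0 0) (P.cons (P.lf 0 108999 0) (P.cons (P.lf 53934 0 0) (P.lf 1197 0 0)))) (P.cons (P.cons (P.lf 19228944 0 0) (P.cons (P.lf 0 319143 0) (P.cons (P.lf 157917 0 0) (P.lf 3507 0 0)))) (P.cons (P.cons (P.lf 0 16593651 0) (P.cons (P.lf 0 299793 0) (P.cons (P.lf 148341 0 0) (P.lf 3294 0 0)))) (P.cons (P.cons (P.lf 0 19583547 0) (P.cons (P.lf 0 74805 0) (P.cons (P.lf 37014 0 0) P.nil))) (P.cons (P.cons (P.lf 0 675810 0) (P.cons (P.lf 17844 0 0) P.nil)) (P.cons (P.cons (P.lf 771723 0 0) P.nil) P.nil)))))) 132717)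
 (EL.cons 8 (TM.mk (P.cons (P.cons (P.lf 1338387 0 0) (P.cons (P.lf 0 8262 0) (P.cons (P.lf 4089 0 0) (P.lf 90 0 0)))) (P.cons (P.cons (P.lf 2807199 0 0) (P.cons (P.lf 0 32529 0) (P.cons (P.lf 16095 0 0) (P.lf 357 0 0)))) (P.cons (P.cons (P.lf 227814 0 0) (P.cons (P.lf 0 47223 0) (P.cons (P.lf 23367 0 0) (P.lf 519 0 0)))) (P.cons (P.cons (P.lf 0 2729994 0) (P.cons (P.lf 0 28914 0) (P.cons (P.lf 14307 0 0) P.nil))) (P.cons (P.cons (P.lf 0 1557228 0) (P.cons (P.lf 0 4740 0) P.nil)) (P.cons (P.cons (P.lf 0 16257 0) P.nil) P.nil)))))) 70353)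
 (EL.cons 11 (TM.mk (P.cons (P.cons (P.lf 4087695 0 0) (P.cons (P.lf 0 4139142 0) (P.cons (P.lf 0 45108 0) (P.cons (P.lf 6189 0 0) (P.lf 102 0 0))))) (P.cons (P.cons (P.lf 7978941 0 0) (P.cons (P.lf 0 8079363 0) (P.cons (P.lf 0 88050 0) (P.cons (P.lf 12081 0 0) (P.lf 201 0 0))))) (P.cons (P.cons (P.lf 3601548 0 0) (P.cons (P.lf 0 3646875 0) (P.cons (P.lf 0 39744 0) (P.cons (P.lf 5454 0 0) P.nil)))) (P.cons (P.cons (P.lf 0 378060 0) (P.cons (P.lf 382818 0 0) (P.cons (P.lf 4170 0 0) P.nil))) (P.cons (P.cons (P.lf 0 82368 0) (P.cons (P.lf 83406 0 0) P.nil)) (P.cons (P.cons (P.lf 7032 0 0) P.nil) P.nil)))))) 12045)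
 EL.nil)))
noncomputable def S256_285_771_808_26 : EL := (EL.cons 4 (TM.mk (P.cons (P.cons (P.lf 0 11339853 0) (P.cons (P.lf 0 40860 0) (P.cons (P.lf 20901 0 0) (P.cons (P.lf 0 228 0) (P.cons (P.lf 150 0 0) (P.cons (P.lf 6 0 0) P.nil)))))) (P.cons (P.cons (P.lf 0 13217706 0) (P.cons (P.lf 94902 0 0) (P.cons (P.lf 0 44985 0) (P.cons (P.lf 0 2994 0) (P.cons (P.lf 438 0 0) P.nil))))) (P.cons (P.cons (P.lf 10102209 0 0) (P.cons (P.lf 318456 0 0) (P.cons (P.lf 0 155805 0) (P.cons (P.lf 0 5253 0) P.nil)))) (P.cons (P.cons (P.lf 13848069 0 0) (P.cons (P.lf 176235 0 0) (P.cons (P.lf 0 86868 0) P.nil))) (P.cons (P.cons (P.lf 1067697 0 0) (P.cons (P.lf 0 19170 0) P.nil)) (P.cons (P.cons (P.lf 0 928779 0) P.nil) P.nil)))))) 241326)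
 (EL.cons 8 (TM.mk (P.cons (P.cons (P.lf 0 859842 0) (P.cons (P.lf 0 3096 0) (P.cons (P.lf 1584 0 0) (P.cons (P.lf 0 15 0) (P.cons (P.lf 9 0 0) (P.cons (P.lf 0 0 0) P.nil)))))) (P.cons (P.cons (P.lf 0 1868997 0) (P.cons (P.lf 4071 0 0) (P.cons (P.lf 0 1812 0) (P.cons (P.lf 0 243 0) (P.cons (P.lf 42 0 0) P.nil))))) (P.cons (P.cons (P.lf 0 254742 0) (P.cons (P.lf 31362 0 0) (P.cons (P.lf 0 15231 0) (P.cons (P.lf 0 627 0) P.nil)))) (P.cons (P.cons (P.lf 1806450 0 0) (P.cons (P.lf 37779 0 0) (P.cons (P.lf 0 18528 0) P.nil))) (P.cons (P.cons (P.lf 1144506 0 0) (P.cons (P.lf 12339 0 0) P.nil)) (P.cons (P.cons (P.lf 27021 0 0) P.nil) P.nil)))))) 103044)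
 (EL.cons 11 (TM.mk (P.cons (P.cons (P.lf 0 2626125 0) (P.cons (P.lf 2633496 0 0) (P.cons (P.lf 67689 0 0) (P.cons (P.lf 0 16278 0) (P.cons (P.lf 0 531 0) (P.cons (P.lf 15 0 0) P.nil)))))) (P.cons (P.cons (P.lf 0 5326164 0) (P.cons (P.lf 5344308 0 0) (P.cons (P.lf 132474 0 0) (P.cons (P.lf 0 31485 0) (P.cons (P.lf 0 1017 0) P.nil))))) (P.cons (P.cons (P.lf 0 2615712 0) (P.cons (P.lf 2629008 0 0) (P.cons (P.lf 58449 0 0) (P.cons (P.lf 0 13362 0) P.nil)))) (P.cons (P.cons (P.lf 248292 0 0) (P.cons (P.lf 0 246834 0) (P.cons (P.lf 0 9648 0) P.nil))) (P.cons (P.cons (P.lf 165060 0 0) (P.cons (P.lf 0 166281 0) P.nil)) (P.cons (P.cons (P.lf 0 3675 0) P.nil) P.nil)))))) 31341)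
 EL.nil)))
noncomputable def S256_285_771_808_27 : EL := (EL.cons 13 (TM.mk (P.lf 0 4294967296 0) 0)
 EL.nil)
noncomputable def S256_285_771_808_28 : EL := (EL.cons 13 (TM.mk (P.cons (P.cons (P.lf 2759286852 0 0) (P.cons (P.lf 26982120 0 0) (P.cons (P.lf 0 13351164 0) (P.lf 0 296688 0)))) (P.cons (P.cons (P.lf 210267731 0 0) (P.cons (P.lf 0 1298464 0) (P.cons (P.lf 642496 0 0) (P.lf 14276 0 0)))) (P.cons (P.cons (P.lf 0 93209216 0) (P.cons (P.lf 0 618028 0) (P.cons (P.lf 305808 0 0) (P.lf 6792 0 0)))) (P.cons (P.cons (P.lf 0 9005880 0) (P.cons (P.lf 30672 0 0) (P.cons (P.lf 0 15176 0) P.nil))) (P.cons (P.cons (P.lf 1320192 0 0) (P.cons (P.lf 7016 0 0) P.nil)) (P.cons (P.cons (P.lf 89467 0 0) P.nil) P.nil)))))) 20387)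
 EL.nil)
noncomputable def S256_285_771_808_29 : EL := (EL.cons 13 (TM.mk (P.cons (P.cons (P.lf 0 1772694273 0) (P.cons (P.lf 0 34669138 0) (P.cons (P.lf 16985309 0 0) (P.cons (P.lf 548963 0 0) (P.cons (P.lf 0 37775 0) (P.cons (P.lf 0 1844 0) P.nil)))))) (P.cons (P.cons (P.lf 0 270171549 0) (P.cons (P.lf 0 973527 0) (P.cons (P.lf 498035 0 0) (P.cons (P.lf 0 5438 0) (P.cons (P.lf 3635 0 0) P.nil))))) (P.cons (P.cons (P.lf 109469846 0 0) (P.cons (P.lf 2092366 0 0) (P.cons (P.lf 0 1027959 0) (P.cons (P.lf 0 30298 0) P.nil)))) (P.cons (P.cons (P.lf 20698037 0 0) (P.cons (P.lf 77899 0 0) (P.cons (P.lf 0 39306 0) P.nil))) (P.cons (P.cons (P.lf 0 2837330 0) (P.cons (P.lf 0 60875 0) P.nil)) (P.cons (P.cons (P.lf 0 635110 0) P.nil) P.nil)))))) 168097)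
 EL.nil)
noncomputable def S256_285_771_808_30 : EL := (EL.cons 13 (TM.mk (P.cons (P.lf 0 484595936 0) (P.cons (P.lf 0 480724804 0) (P.cons (P.lf 5775768 0 0) (P.cons (P.lf 1873960 0 0) (P.cons (P.lf 0 38036 0) (P.cons (P.lf 0 7180 0) P.nil)))))) 280)
 EL.nil)
noncomputable def S256_285_771_808_31 : EL := (EL.cons 13 (TM.mk (P.cons (P.cons (P.lf 311326979 0 0) (P.cons (P.lf 3044359 0 0) (P.cons (P.lf 0 1506395 0) (P.lf 0 33474 0)))) (P.cons (P.cons (P.lf 332564236 0 0) (P.cons (P.lf 2873536 0 0) (P.cons (P.lf 0 1421869 0) (P.lf 0 31596 0)))) (P.cons (P.cons (P.lf 9307429 0 0) (P.cons (P.lf 0 251350 0) (P.cons (P.lf 124371 0 0) (P.lf 2763 0 0)))) (P.cons (P.cons (P.lf 0 12935475 0) (P.cons (P.lf 0 75740 0) (P.cons (P.lf 37477 0 0) P.nil))) (P.cons (P.cons (P.lf 0 801011 0) (P.cons (P.lf 5861 0 0) P.nil)) (P.cons (P.cons (P.lf 217114 0 0) P.nil) P.nil)))))) 27556)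
 EL.nil)
noncomputable def S256_285_771_808_32 : EL := (EL.cons 13 (TM.mk (P.cons (P.cons (P.lf 0 200010938 0) (P.cons (P.lf 0 3911676 0) (P.cons (P.lf 1916431 0 0) (P.cons (P.lf 61938 0 0) (P.cons (P.lf 0 4262 0) (P.cons (P.lf 0 208 0) P.nil)))))) (P.cons (P.cons (P.lf 0 228896304 0) (P.cons (P.lf 0 3990270 0) (P.cons (P.lf 1957315 0 0) (P.cons (P.lf 60830 0 0) (P.cons (P.lf 0 3817 0) P.nil))))) (P.cons (P.cons (P.lf 0 15504390 0) (P.cons (P.lf 173736 0 0) (P.cons (P.lf 0 83081 0) (P.cons (P.lf 0 4765 0) P.nil)))) (P.cons (P.cons (P.lf 15724790 0 0) (P.cons (P.lf 259418 0 0) (P.cons (P.lf 0 127572 0) P.nil))) (P.cons (P.cons (P.lf 1951515 0 0) (P.cons (P.lf 0 845 0) P.nil)) (P.cons (P.cons (P.lf 0 470187 0) P.nil) P.nil)))))) 145579)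
 EL.nil)
noncomputable def S256_285_771_808_33 : EL := (EL.cons 14 (TM.mk (P.lf 8589934592 0 0) 0)
 EL.nil)
noncomputable def S256_285_771_808_34 : EL := (EL.cons 14 (TM.mk (P.cons (P.cons (P.lf 0 5518573704 0) (P.cons (P.lf 0 53964240 0) (P.cons (P.lf 26702328 0 0) (P.lf 593376 0 0)))) (P.cons (P.cons (P.lf 0 420535462 0) (P.cons (P.lf 2596928 0 0) (P.cons (P.lf 0 1284992 0) (P.lf 0 28552 0)))) (P.cons (P.cons (P.lf 186418432 0 0) (P.cons (P.lf 1236056 0 0) (P.cons (P.lf 0 611616 0) (P.lf 0 13584 0)))) (P.cons (P.cons (P.lf 18011760 0 0) (P.cons (P.lf 0 61344 0) (P.cons (P.lf 30352 0 0) P.nil))) (P.cons (P.cons (P.lf 0 2640384 0) (P.cons (P.lf 0 14032 0) P.nil)) (P.cons (P.cons (P.lf 0 178934 0) P.nil) P.nil)))))) 40774)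
 EL.nil)
noncomputable def S256_285_771_808_35 : EL := (EL.cons 14 (TM.mk (P.cons (P.cons (P.lf 3545388546 0 0) (P.cons (P.lf 69338276 0 0) (P.cons (P.lf 0 33970618 0) (P.cons (P.lf 0 1097926 0) (P.cons (P.lf 75550 0 0) (P.cons (P.lf 3688 0 0) P.nil)))))) (P.cons (P.cons (P.lf 540343098 0 0) (P.cons (P.lf 1947054 0 0) (P.cons (P.lf 0 996070 0) (P.cons (P.lf 10876 0 0) (P.cons (P.lf 0 7270 0) P.nil))))) (P.cons (P.cons (P.lf 0 218939692 0) (P.cons (P.lf 0 4184732 0) (P.cons (P.lf 2055918 0 0) (P.cons (P.lf 60596 0 0) P.nil)))) (P.cons (P.cons (P.lf 0 41396074 0) (P.cons (P.lf 0 155798 0) (P.cons (P.lf 78612 0 0) P.nil))) (P.cons (P.cons (P.lf 5674660 0 0) (P.cons (P.lf 121750 0 0) P.nil)) (P.cons (P.cons (P.lf 1270220 0 0) P.nil) P.nil)))))) 336194)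
 EL.nil)
noncomputable def S256_285_771_808_36 : EL := (EL.cons 14 (TM.mk (P.cons (P.lf 969191872 0 0) (P.cons (P.lf 961449608 0 0) (P.cons (P.lf 0 11551536 0) (P.cons (P.lf 0 3747920 0) (P.cons (P.lf 76072 0 0) (P.cons (P.lf 14360 0 0) P.nil)))))) 560)
 EL.nil)
noncomputable def S256_285_771_808_37 : EL := (EL.cons 14 (TM.mk (P.cons (P.cons (P.lf 0 622653958 0) (P.cons (P.lf 0 6088718 0) (P.cons (P.lf 3012790 0 0) (P.lf 66948 0 0)))) (P.cons (P.cons (P.lf 0 665128472 0) (P.cons (P.lf 0 5747072 0) (P.cons (P.lf 2843738 0 0) (P.lf 63192 0 0)))) (P.cons (P.cons (P.lf 0 18614858 0) (P.cons (P.lf 502700 0 0) (P.cons (P.lf 0 248742 0) (P.lf 0 5526 0)))) (P.cons (P.cons (P.lf 25870950 0 0) (P.cons (P.lf 151480 0 0) (P.cons (P.lf 0 74954 0) P.nil))) (P.cons (P.cons (P.lf 1602022 0 0) (P.cons (P.lf 0 11722 0) P.nil)) (P.cons (P.cons (P.lf 0 434228 0) P.nil) P.nil)))))) 55112)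
 EL.nil)
noncomputable def S256_285_771_808_38 : EL := (EL.cons 14 (TM.mk (P.cons (P.cons (P.lf 400021876 0 0) (P.cons (P.lf 7823352 0 0) (P.cons (P.lf 0 3832862 0) (P.cons (P.lf 0 123876 0) (P.cons (P.lf 8524 0 0) (P.cons (P.lf 416 0 0) P.nil)))))) (P.cons (P.cons (P.lf 457792608 0 0) (P.cons (P.lf 7980540 0 0) (P.cons (P.lf 0 3914630 0) (P.cons (P.lf 0 121660 0) (P.cons (P.lf 7634 0 0) P.nil))))) (P.cons (P.cons (P.lf 31008780 0 0) (P.cons (P.lf 0 347472 0) (P.cons (P.lf 166162 0 0) (P.cons (P.lf 9530 0 0) P.nil)))) (P.cons (P.cons (P.lf 0 31449580 0) (P.cons (P.lf 0 518836 0) (P.cons (P.lf 255144 0 0) P.nil))) (P.cons (P.cons (P.lf 0 3903030 0) (P.cons (P.lf 1690 0 0) P.nil)) (P.cons (P.cons (P.lf 940374 0 0) P.nil) P.nil)))))) 291158)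
 EL.nil)
noncomputable def S256_285_771_808_39 : EL := (EL.cons 14 (TM.mk (P.cons (P.lf 109352740 0 0) (P.cons (P.lf 216958378 0 0) (P.cons (P.lf 105005926 0 0) (P.cons (P.lf 0 3431614 0) (P.cons (P.lf 0 806288 0) (P.cons (P.lf 30348 0 0) P.nil)))))) 5440)
 EL.nil)
noncomputable def S256_285_771_808_40 : EL := (EL.cons 14 (TM.mk (P.cons (P.cons (P.lf 0 70253288 0) (P.cons (P.lf 0 686982 0) (P.cons (P.lf 339928 0 0) (P.lf 7552 0 0)))) (P.cons (P.cons (P.lf 0 144737714 0) (P.cons (P.lf 0 1329930 0) (P.cons (P.lf 658068 0 0) (P.lf 14622 0 0)))) (P.cons (P.cons (P.lf 0 75709104 0) (P.cons (P.lf 0 578348 0) (P.cons (P.lf 286174 0 0) (P.lf 6358 0 0)))) (P.cons (P.cons (P.lf 2001594 0 0) (P.cons (P.lf 83742 0 0) (P.cons (P.lf 0 41436 0) P.nil))) (P.cons (P.cons (P.lf 3386146 0 0) (P.cons (P.lf 17408 0 0) P.nil)) (P.cons (P.cons (P.lf 96716 0 0) P.nil) P.nil)))))) 90746)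
 EL.nil)
noncomputable def S256_285_771_808_41 : EL := (EL.cons 14 (TM.mk (P.cons (P.cons (P.lf 45133980 0 0) (P.cons (P.lf 882698 0 0) (P.cons (P.lf 0 432456 0) (P.cons (P.lf 0 13976 0) (P.cons (P.lf 960 0 0) (P.cons (P.lf 46 0 0) P.nil)))))) (P.cons (P.cons (P.lf 96425616 0 0) (P.cons (P.lf 1776082 0 0) (P.cons (P.lf 0 870684 0) (P.cons (P.lf 0 27592 0) (P.cons (P.lf 1814 0 0) P.nil))))) (P.cons (P.cons (P.lf 54200308 0 0) (P.cons (P.lf 843516 0 0) (P.cons (P.lf 0 414252 0) (P.cons (P.lf 0 12374 0) P.nil)))) (P.cons (P.cons (P.lf 0 867846 0) (P.cons (P.lf 0 111576 0) (P.cons (P.lf 54322 0 0) P.nil))) (P.cons (P.cons (P.lf 0 4198344 0) (P.cons (P.lf 0 60826 0) P.nil)) (P.cons (P.cons (P.lf 0 297268 0) P.nil) P.nil)))))) 230578)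
 EL.nil)
noncomputable def S256_285_771_808_42 : EL := (EL.cons 14 (TM.mk (P.cons (P.lf 12338136 0 0) (P.cons (P.lf 36718724 0 0) (P.cons (P.lf 35984236 0 0) (P.cons (P.lf 11026388 0 0) (P.cons (P.lf 0 709966 0) (P.cons (P.lf 0 125918 0) P.nil)))))) 9172)
 EL.nil)
noncomputable def S256_285_771_808_43 : EL := (EL.cons 14 (TM.mk (P.cons (P.cons (P.lf 0 7926592 0) (P.cons (P.lf 0 77510 0) (P.cons (P.lf 38352 0 0) (P.lf 852 0 0)))) (P.cons (P.cons (P.lf 0 24193852 0) (P.cons (P.lf 0 226946 0) (P.cons (P.lf 112296 0 0) (P.lf 2494 0 0)))) (P.cons (P.cons (P.lf 0 24647816 0) (P.cons (P.lf 0 213186 0) (P.cons (P.lf 105486 0 0) (P.lf 2344 0 0)))) (P.cons (P.cons (P.lf 0 8022796 0) (P.cons (P.lf 0 53196 0) (P.cons (P.lf 26322 0 0) P.nil))) (P.cons (P.cons (P.lf 770428 0 0) (P.cons (P.lf 12688 0 0) P.nil)) (P.cons (P.cons (P.lf 418856 0 0) P.nil) P.nil)))))) 85220)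
 EL.nil)
noncomputable def S256_285_771_808_44 : EL := (EL.cons 14 (TM.mk (P.cons (P.cons (P.lf 5092412 0 0) (P.cons (P.lf 99592 0 0) (P.cons (P.lf 0 48792 0) (P.cons (P.lf 0 1576 0) (P.cons (P.lf 108 0 0) (P.cons (P.lf 4 0 0) P.nil)))))) (P.cons (P.cons (P.lf 15931316 0 0) (P.cons (P.lf 299190 0 0) (P.cons (P.lf 0 146642 0) (P.cons (P.lf 0 4676 0) (P.cons (P.lf 312 0 0) P.nil))))) (P.cons (P.cons (P.lf 16847334 0 0) (P.cons (P.lf 292778 0 0) (P.cons (P.lf 0 143610 0) (P.cons (P.lf 0 4464 0) P.nil)))) (P.cons (P.cons (P.lf 5819220 0 0) (P.cons (P.lf 79048 0 0) (P.cons (P.lf 0 38876 0) P.nil))) (P.cons (P.cons (P.lf 0 685388 0) (P.cons (P.lf 0 21252 0) P.nil)) (P.cons (P.cons (P.lf 0 525002 0) P.nil) P.nil)))))) 167770)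
 EL.nil)
noncomputable def S256_285_771_808_45 : EL := (EL.cons 14 (TM.mk (P.cons (P.cons (P.lf 0 2277722582 0) (P.cons (P.lf 0 66819202 0) (P.cons (P.lf 32409756 0 0) (P.cons (P.lf 1379220 0 0) (P.cons (P.lf 0 142448 0) (P.cons (P.lf 0 8602 0) P.nil)))))) (P.cons (P.cons (P.lf 0 520712326 0) (P.cons (P.lf 0 6968184 0) (P.cons (P.lf 3461068 0 0) (P.cons (P.lf 63972 0 0) (P.cons (P.lf 2460 0 0) P.nil))))) (P.cons (P.cons (P.lf 191145478 0 0) (P.cons (P.lf 6146882 0 0) (P.cons (P.lf 0 2986280 0) (P.cons (P.lf 0 122156 0) P.nil)))) (P.cons (P.cons (P.lf 56473978 0 0) (P.cons (P.lf 738914 0 0) (P.cons (P.lf 0 366380 0) P.nil))) (P.cons (P.cons (P.lf 0 6327238 0) (P.cons (P.lf 0 267956 0) P.nil)) (P.cons (P.cons (P.lf 0 2691264 0) P.nil) P.nil)))))) 876824)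
 EL.nil)
noncomputable def S256_285_771_808_46 : EL := (EL.cons 15 (TM.mk (P.lf 4294967296 0 0) 0)
 EL.nil)
noncomputable def S256_285_771_808_47 : EL := (EL.cons 15 (TM.mk (P.cons (P.cons (P.lf 0 2759286852 0) (P.cons (P.lf 0 26982120 0) (P.cons (P.lf 13351164 0 0) (P.lf 296688 0 0)))) (P.cons (P.cons (P.lf 0 210267731 0) (P.cons (P.lf 1298464 0 0) (P.cons (P.lf 0 642496 0) (P.lf 0 14276 0)))) (P.cons (P.cons (P.lf 93209216 0 0) (P.cons (P.lf 618028 0 0) (P.cons (P.lf 0 305808 0) (P.lf 0 6792 0)))) (P.cons (P.cons (P.lf 9005880 0 0) (P.cons (P.lf 0 30672 0) (P.cons (P.lf 15176 0 0) P.nil))) (P.cons (P.cons (P.lf 0 1320192 0) (P.cons (P.lf 0 7016 0) P.nil)) (P.cons (P.cons (P.lf 0 89467 0) P.nil) P.nil)))))) 20387)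
 EL.nil)
noncomputable def S256_285_771_808_48 : EL := (EL.cons 15 (TM.mk (P.cons (P.cons (P.lf 1772694273 0 0) (P.cons (P.lf 34669138 0 0) (P.cons (P.lf 0 16985309 0) (P.cons (P.lf 0 548963 0) (P.cons (P.lf 37775 0 0) (P.cons (P.lf 1844 0 0) P.nil)))))) (P.cons (P.cons (P.lf 270171549 0 0) (P.cons (P.lf 973527 0 0) (P.cons (P.lf 0 498035 0) (P.cons (P.lf 5438 0 0) (P.cons (P.lf 0 3635 0) P.nil))))) (P.cons (P.cons (P.lf 0 109469846 0) (P.cons (P.lf 0 2092366 0) (P.cons (P.lf 1027959 0 0) (P.cons (P.lf 30298 0 0) P.nil)))) (P.cons (P.cons (P.lf 0 20698037 0) (P.cons (P.lf 0 77899 0) (P.cons (P.lf 39306 0 0) P.nil))) (P.cons (P.cons (P.lf 2837330 0 0) (P.cons (P.lf 60875 0 0) P.nil)) (P.cons (P.cons (P.lf 635110 0 0) P.nil) P.nil)))))) 168097)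
 EL.nil)
noncomputable def S256_285_771_808 : SL := (SL.cons S256_285_771_808_0 (SL.cons S256_285_771_808_1 (SL.cons S256_285_771_808_2 (SL.cons S256_285_771_808_3 (SL.cons S256_285_771_808_4 (SL.cons S256_285_771_808_5 (SL.cons S256_285_771_808_6 (SL.cons S256_285_771_808_7 (SL.cons S256_285_771_808_8 (SL.cons S256_285_771_808_9 (SL.cons S256_285_771_808_10 (SL.cons S256_285_771_808_11 (SL.cons S256_285_771_808_12 (SL.cons S256_285_771_808_13 (SL.cons S256_285_771_808_14 (SL.cons S256_285_771_808_15 (SL.cons S256_285_771_808_16 (SL.cons S256_285_771_808_17 (SL.cons S256_285_771_808_18 (SL.cons S256_285_771_808_19 (SL.cons S256_285_771_808_20 (SL.cons S256_285_771_808_21 (SL.cons S256_285_771_808_22 (SL.cons S256_285_771_808_23 (SL.cons S256_285_771_808_24 (SL.cons S256_285_771_808_25 (SL.cons S256_285_771_808_26 (SL.cons S256_285_771_808_27 (SL.cons S256_285_771_808_28 (SL.cons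 S256_285_771_808_29 (SL.cons S256_285_771_808_30 (SL.cons S256_285_771_808_31 (SL.cons S256_285_771_808_32 (SL.cons S256_285_771_808_33 (SL.cons S256_285_771_808_34 (SL.cons S256_285_771_808_35 (SL.cons S256_285_771_808_36 (SL.cons S256_285_771_808_37 (SL.cons S256_285_771_808_38 (SL.cons S256_285_771_808_39 (SL.cons S256_285_771_808_40 (SL.cons S256_285_771_808_41 (SL.cons S256_285_771_808_42 (SL.cons S256_285_771_808_43 (SL.cons S256_285_771_808_44 (SL.cons S256_285_771_808_45 (SL.cons S256_285_771_808_46 (SL.cons S256_285_771_808_47 (SL.cons S256_285_771_808_48 SL.nil)))))))))))))))))))))))))))))))))))))))))))))))))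
noncomputable def S256_314_216_364_0 : EL := (EL.cons 0 (TM.mk (P.cons (P.lf 8080323868 0 0) (P.cons (P.lf 0 727079837 0) (P.cons (P.lf 0 317250402 0) (P.cons (P.lf 44091209 0 0) (P.cons (P.lf 8367597 0 0) (P.cons (P.lf 0 1467036 0) P.nil)))))) 311496)
 (EL.cons 1 (TM.mk (P.cons (P.lf 869508750 0 0) (P.cons (P.lf 786249082 0 0) (P.cons (P.lf 0 120498519 0) (P.cons (P.lf 0 33042157 0) (P.cons (P.lf 5010903 0 0) (P.cons (P.lf 683975 0 0) P.nil)))))) 177172)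
 (EL.cons 5 (TM.mk (P.cons (P.lf 4428440364 0 0) (P.cons (P.lf 258517274 0 0) (P.cons (P.lf 112800140 0 0) (P.cons (P.lf 0 15676876 0) (P.cons (P.lf 0 2975142 0) (P.cons (P.lf 521612 0 0) P.nil)))))) 117185)
 (EL.cons 9 (TM.mk (P.lf 6442450944 0 0) 2)
 EL.nil))))
noncomputable def S256_314_216_364_1 : EL := (EL.cons 0 (TM.mk (P.cons (P.cons (P.lf 1558163303 0 0) (P.cons (P.lf 0 596994711 0) (P.cons (P.lf 0 257430859 0) (P.lf 28603431 0 0)))) (P.cons (P.cons (P.lf 0 2566174942 0) (P.cons (P.lf 364616276 0 0) (P.cons (P.lf 157226643 0 0) (P.lf 0 17469617 0)))) (P.cons (P.cons (P.lf 1040519643 0 0) (P.cons (P.lf 107334757 0 0) (P.cons (P.lf 46283959 0 0) (P.lf 0 5142656 0)))) (P.cons (P.cons (P.lf 552945936 0 0) (P.cons (P.lf 0 65816651 0) (P.cons (P.lf 0 28380878 0) P.nil))) (P.cons (P.cons (P.lf 0 195492185 0) (P.cons (P.lf 0 5827882 0) P.nil)) (P.cons (P.cons (P.lf 0 35786000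 0) P.nil) P.nil)))))) 47736459)
 (EL.cons 1 (TM.mk (P.cons (P.cons (P.lf 1516237368 0 0) (P.cons (P.lf 0 179192149 0) (P.cons (P.lf 0 77269675 0) (P.lf 8585514 0 0)))) (P.cons (P.cons (P.lf 0 534279711 0) (P.cons (P.lf 0 112207572 0) (P.cons (P.lf 0 48385170 0) (P.lf 5376128 0 0)))) (P.cons (P.cons (P.lf 0 664364357 0) (P.cons (P.lf 89538006 0 0) (P.cons (P.lf 38609792 0 0) (P.lf 0 4289968 0)))) (P.cons (P.cons (P.lf 282870448 0 0) (P.cons (P.lf 12771795 0 0) (P.cons (P.lf 5507340 0 0) P.nil))) (P.cons (P.cons (P.lf 77547382 0 0) (P.cons (P.lf 0 10874572 0) P.nil)) (P.cons (P.cons (P.lf 0 32732414 0) P.nil) P.nil)))))) 27187942)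
 (EL.cons 5 (TM.mk (P.cons (P.cons (P.lf 1878839814 0 0) (P.cons (P.lf 0 414544660 0) (P.cons (P.lf 0 178756334 0) (P.lf 19861814 0 0)))) (P.cons (P.cons (P.lf 0 503426472 0) (P.cons (P.lf 0 8955974 0) (P.cons (P.lf 0 3861918 0) (P.lf 429100 0 0)))) (P.cons (P.cons (P.lf 0 179977637 0) (P.cons (P.lf 10623010 0 0) (P.cons (P.lf 4580764 0 0) (P.lf 0 508976 0)))) (P.cons (P.cons (P.lf 0 28813707 0) (P.cons (P.lf 12620424 0 0) (P.cons (P.lf 5442068 0 0) P.nil))) (P.cons (P.cons (P.lf 47481695 0 0) (P.cons (P.lf 303156 0 0) P.nil)) (P.cons (P.cons (P.lf 6460081 0 0) P.nil) P.nil)))))) 23444431)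
 (EL.cons 9 (TM.mk (P.cons (P.cons (P.lf 2146635382 0 0) (P.cons (P.lf 0 553067154 0) (P.cons (P.lf 0 238488798 0) (P.lf 26498754 0 0)))) (P.cons (P.cons (P.lf 0 1249274304 0) (P.cons (P.lf 106487082 0 0) (P.cons (P.lf 45918426 0 0) (P.lf 0 5102046 0)))) (P.cons (P.cons (P.lf 167633734 0 0) (P.cons (P.lf 43046886 0 0) (P.cons (P.lf 18562302 0 0) (P.lf 0 2062476 0)))) (P.cons (P.cons (P.lf 148049367 0 0) (P.cons (P.lf 0 9512688 0) (P.cons (P.lf 0 4101978 0) P.nil))) (P.cons (P.cons (P.lf 0 19435264 0) (P.cons (P.lf 0 1560858 0) P.nil)) (P.cons (P.cons (P.lf 0 5526892 0) P.nil) P.nil)))))) 4432273)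
 (EL.cons 2 (TM.mk (P.cons (P.cons (P.lf 0 249462011 0) (P.cons (P.lf 0 232396939 0) (P.cons (P.lf 23851485 0 0) (P.cons (P.lf 4960442 0 0) (P.lf 0 413370 0))))) (P.cons (P.cons (P.lf 0 209564415 0) (P.cons (P.lf 0 195228638 0) (P.cons (P.lf 20036806 0 0) (P.cons (P.lf 4167098 0 0) (P.lf 0 347256 0))))) (P.cons (P.cons (P.lf 56548015 0 0) (P.cons (P.lf 52679708 0 0) (P.cons (P.lf 0 5406651 0) (P.cons (P.lf 0 1124431 0) P.nil)))) (P.cons (P.cons (P.lf 13553007 0 0) (P.cons (P.lf 12625880 0 0) (P.cons (P.lf 0 1295825 0) P.nil))) (P.cons (P.cons (P.lf 0 3630990 0) (P.cons (P.lf 0 3382602 0) P.nil)) (P.cons (P.cons (P.lf 0 403219 0) P.nil) P.nil)))))) 2157056)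
 (EL.cons 6 (TM.mk (P.cons (P.cons (P.lf 577819521 0 0) (P.cons (P.lf 538292340 0 0) (P.cons (P.lf 0 55246302 0) (P.cons (P.lf 0 11489694 0) (P.lf 957471 0 0))))) (P.cons (P.cons (P.lf 0 111252885 0) (P.cons (P.lf 0 103642356 0) (P.cons (P.lf 10637076 0 0) (P.cons (P.lf 2212215 0 0) (P.lf 0 184350 0))))) (P.cons (P.cons (P.lf 0 44973438 0) (P.cons (P.lf 0 41896920 0) (P.cons (P.lf 4299984 0 0) (P.cons (P.lf 894276 0 0) P.nil)))) (P.cons (P.cons (P.lf 9938424 0 0) (P.cons (P.lf 9258564 0 0) (P.cons (P.lf 0 950229 0) P.nil))) (P.cons (P.cons (P.lf 1630713 0 0) (P.cons (P.lf 1519161 0 0) P.nil)) (P.cons (P.cons (P.lf 0 459195 0) P.nil) P.nil)))))) 1312485)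
 EL.nil))))))
noncomputable def S256_314_216_364_2 : EL := (EL.cons 0 (TM.mk (P.cons (P.cons (P.lf 141260593 0 0) (P.cons (P.lf 0 203100786 0) (P.cons (P.lf 0 44628636 0) (P.cons (P.lf 46772723 0 0) (P.cons (P.lf 3870658 0 0) (P.cons (P.lf 0 1774759 0) P.nil)))))) (P.cons (P.cons (P.lf 0 1189507220 0) (P.cons (P.lf 566994955 0 0) (P.cons (P.lf 190446377 0 0) (P.cons (P.lf 0 73778467 0) (P.cons (P.lf 0 4870738 0) P.nil))))) (P.cons (P.cons (P.lf 1267037511 0 0) (P.cons (P.lf 0 277625056 0) (P.cons (P.lf 0 126731358 0) (P.cons (P.lf 7250640 0 0) P.nil)))) (P.cons (P.cons (P.lf 0 145132435 0) (P.cons (P.lf 0 127657145 0) (P.cons (P.lf 0 39257097 0) P.nil))) (P.cons (P.cons (P.lf 0 309133532 0) (P.cons (P.lf 95347532 0 0) P.nil)) (P.cons (P.cons (P.lf 119908634 0 0) P.nil) P.nil)))))) 299476196)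
 (EL.cons 1 (TM.mk (P.cons (P.cons (P.lf 913889856 0 0) (P.cons (P.lf 0 330000395 0) (P.cons (P.lf 0 117941634 0) (P.cons (P.lf 36818202 0 0) (P.cons (P.lf 2195125 0 0) (P.cons (P.lf 0 1006498 0) P.nil)))))) (P.cons (P.cons (P.lf 0 919012157 0) (P.cons (P.lf 143030095 0 0) (P.cons (P.lf 71691040 0 0) (P.cons (P.lf 1784123 0 0) (P.cons (P.lf 902521 0 0) P.nil))))) (P.cons (P.cons (P.lf 0 89413750 0) (P.cons (P.lf 174383462 0 0) (P.cons (P.lf 57598259 0 0) (P.cons (P.lf 0 23531890 0) P.nil)))) (P.cons (P.cons (P.lf 428404067 0 0) (P.cons (P.lf 0 108144234 0) (P.cons (P.lf 0 46659978 0) P.nil))) (P.cons (P.cons (P.lf 0 119707875 0) (P.cons (P.lf 0 19172236 0) P.nil)) (P.cons (P.cons (P.lf 0 57567748 0) P.nil) P.nil)))))) 166831999)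
 (EL.cons 5 (TM.mk (P.cons (P.cons (P.lf 760404820 0 0) (P.cons (P.lf 0 345494286 0) (P.cons (P.lf 0 110442486 0) (P.cons (P.lf 49789943 0 0) (P.cons (P.lf 3473021 0 0) (P.cons (P.lf 0 1592430 0) P.nil)))))) (P.cons (P.cons (P.lf 0 520587414 0) (P.cons (P.lf 121919800 0 0) (P.cons (P.lf 51069319 0 0) (P.cons (P.lf 0 7138455 0) (P.cons (P.lf 0 135532 0) P.nil))))) (P.cons (P.cons (P.lf 0 49345200 0) (P.cons (P.lf 51798305 0 0) (P.cons (P.lf 18449116 0 0) (P.cons (P.lf 0 5833909 0) P.nil)))) (P.cons (P.cons (P.lf 89736929 0 0) (P.cons (P.lf 0 3244001 0) (P.cons (P.lf 0 3549283 0) P.nil))) (P.cons (P.cons (P.lf 35105941 0 0) (P.cons (P.lf 0 19031532 0) P.nil)) (P.cons (P.cons (P.lf 0 29534098 0) P.nil) P.nil)))))) 149066959)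
 (EL.cons 9 (TM.mk (P.cons (P.cons (P.lf 715262484 0 0) (P.cons (P.lf 0 368565792 0) (P.cons (P.lf 0 111450394 0) (P.cons (P.lf 58606105 0 0) (P.cons (P.lf 4278763 0 0) (P.cons (P.lf 0 1961878 0) P.nil)))))) (P.cons (P.cons (P.lf 0 832520556 0) (P.cons (P.lf 285457050 0 0) (P.cons (P.lf 104809035 0 0) (P.cons (P.lf 0 29444815 0) (P.cons (P.lf 0 1647658 0) P.nil))))) (P.cons (P.cons (P.lf 353962074 0 0) (P.cons (P.lf 0 41393661 0) (P.cons (P.lf 0 23480209 0) (P.cons (P.lf 0 2872857 0) P.nil)))) (P.cons (P.cons (P.lf 33647905 0 0) (P.cons (P.lf 0 42911635 0) (P.cons (P.lf 0 15447661 0) P.nil))) (P.cons (P.cons (P.lf 0 66007227 0) (P.cons (P.lf 13120417 0 0) P.nil)) (P.cons (P.cons (P.lf 11558899 0 0) P.nil) P.nil)))))) 41331307)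
 (EL.cons 2 (TM.mk (P.cons (P.cons (P.lf 0 166242313 0) (P.cons (P.lf 0 112038800 0) (P.cons (P.lf 74265350 0 0) (P.cons (P.lf 14364230 0 0) (P.cons (P.lf 0 4804801 0) (P.cons (P.lf 0 100068 0) P.nil)))))) (P.cons (P.cons (P.lf 0 42906622 0) (P.cons (P.lf 0 12237097 0) (P.cons (P.lf 41898898 0 0) (P.cons (P.lf 8013892 0 0) (P.cons (P.lf 0 3003958 0) P.nil))))) (P.cons (P.cons (P.lf 105976175 0 0) (P.cons (P.lf 78756165 0 0) (P.cons (P.lf 0 37348363 0) (P.cons (P.lf 0 7263438 0) P.nil)))) (P.cons (P.cons (P.lf 0 35270229 0) (P.cons (P.lf 0 35378921 0) (P.cons (P.lf 0 63978 0) P.nil))) (P.cons (P.cons (P.lf 0 12859700 0) (P.cons (P.lf 0 9413116 0) P.nil)) (P.cons (P.cons (P.lf 6136188 0 0) P.nil) P.nil)))))) 32215966)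
 (EL.cons 6 (TM.mk (P.cons (P.cons (P.lf 385060848 0 0) (P.cons (P.lf 259511286 0 0) (P.cons (P.lf 0 172018056 0) (P.cons (P.lf 0 33271326 0) (P.cons (P.lf 11129184 0 0) (P.cons (P.lf 231786 0 0) P.nil)))))) (P.cons (P.cons (P.lf 0 298232598 0) (P.cons (P.lf 0 239628210 0) (P.cons (P.lf 80577780 0 0) (P.cons (P.lf 15793836 0 0) (P.cons (P.lf 0 4534086 0) P.nil))))) (P.cons (P.cons (P.lf 43246218 0 0) (P.cons (P.lf 52053462 0 0) (P.cons (P.lf 11899362 0 0) (P.cons (P.lf 2177814 0 0) P.nil)))) (P.cons (P.cons (P.lf 44832132 0 0) (P.cons (P.lf 35379072 0 0) (P.cons (P.lf 0 12989616 0) P.nil))) (P.cons (P.cons (P.lf 0 13707612 0) (P.cons (P.lf 0 13273794 0) P.nil)) (P.cons (P.cons (P.lf 0 2808408 0) P.nil) P.nil)))))) 25978578)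
 EL.nil))))))
noncomputable def S256_314_216_364_3 : EL := (EL.cons 0 (TM.mk (P.cons (P.lf 375392995 0 0) (P.cons (P.lf 727079837 0 0) (P.cons (P.lf 317250402 0 0) (P.cons (P.lf 0 44091209 0) (P.cons (P.lf 0 8367597 0) (P.cons (P.lf 1467036 0 0) P.nil)))))) 311496)
 (EL.cons 1 (TM.mk (P.cons (P.lf 0 869508750 0) (P.cons (P.lf 0 786249082 0) (P.cons (P.lf 120498519 0 0) (P.cons (P.lf 33042157 0 0) (P.cons (P.lf 0 5010903 0) (P.cons (P.lf 0 683975 0) P.nil)))))) 177172)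
 (EL.cons 5 (TM.mk (P.cons (P.lf 2014010580 0 0) (P.cons (P.lf 0 258517274 0) (P.cons (P.lf 0 112800140 0) (P.cons (P.lf 15676876 0 0) (P.cons (P.lf 2975142 0 0) (P.cons (P.lf 0 521612 0) P.nil)))))) 117178)
 EL.nil)))
noncomputable def S256_314_216_364_4 : EL := (EL.cons 0 (TM.mk (P.cons (P.cons (P.lf 125081571 0 0) (P.cons (P.lf 0 32226482 0) (P.cons (P.lf 0 13896421 0) (P.lf 1544046 0 0)))) (P.cons (P.cons (P.lf 169470669 0 0) (P.cons (P.lf 0 56212996 0) (P.cons (P.lf 0 24239677 0) (P.lf 2693297 0 0)))) (P.cons (P.cons (P.lf 0 25513998 0) (P.cons (P.lf 0 12708929 0) (P.cons (P.lf 0 5480233 0) (P.lf 608915 0 0)))) (P.cons (P.cons (P.lf 0 48664819 0) (P.cons (P.lf 13332812 0 0) (P.cons (P.lf 5749258 0 0) P.nil))) (P.cons (P.cons (P.lf 29592704 0 0) (P.cons (P.lf 944813 0 0) P.nil)) (P.cons (P.cons (P.lf 5739183 0 0) P.nil) P.nil)))))) 9934728)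
 (EL.cons 1 (TM.mk (P.cons (P.cons (P.lf 0 289721761 0) (P.cons (P.lf 74644995 0 0) (P.cons (P.lf 32187763 0 0) (P.lf 0 3576416 0)))) (P.cons (P.cons (P.lf 0 93370545 0) (P.cons (P.lf 53125291 0 0) (P.cons (P.lf 22908225 0 0) (P.lf 0 2545357 0)))) (P.cons (P.cons (P.lf 169989365 0 0) (P.cons (P.lf 0 29150206 0) (P.cons (P.lf 0 12569896 0) (P.lf 1396653 0 0)))) (P.cons (P.cons (P.lf 0 52796415 0) (P.cons (P.lf 0 4814503 0) (P.cons (P.lf 0 2076067 0) P.nil))) (P.cons (P.cons (P.lf 0 20386685 0) (P.cons (P.lf 3153075 0 0) P.nil)) (P.cons (P.cons (P.lf 7490486 0 0) P.nil) P.nil)))))) 7071645)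
 (EL.cons 5 (TM.mk (P.cons (P.cons (P.lf 671071678 0 0) (P.cons (P.lf 0 172897412 0) (P.cons (P.lf 0 74555314 0) (P.lf 8283922 0 0)))) (P.cons (P.cons (P.lf 0 476681004 0) (P.cons (P.lf 55482536 0 0) (P.cons (P.lf 23924694 0 0) (P.lf 0 2658298 0)))) (P.cons (P.cons (P.lf 64949554 0 0) (P.cons (P.lf 18867692 0 0) (P.cons (P.lf 8135960 0 0) (P.lf 0 903994 0)))) (P.cons (P.cons (P.lf 66652836 0 0) (P.cons (P.lf 0 7911450 0) (P.cons (P.lf 0 3411506 0) P.nil))) (P.cons (P.cons (P.lf 0 17000272 0) (P.cons (P.lf 0 856218 0) P.nil)) (P.cons (P.cons (P.lf 0 3882894 0) P.nil) P.nil)))))) 4857324)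
 EL.nil)))
noncomputable def S256_314_216_364_5 : EL := (EL.cons 0 (TM.mk (P.cons (P.cons (P.lf 41677386 0 0) (P.cons (P.lf 0 21475835 0) (P.cons (P.lf 0 6494064 0) (P.cons (P.lf 3414898 0 0) (P.cons (P.lf 249317 0 0) (P.cons (P.lf 0 114315 0) P.nil)))))) (P.cons (P.cons (P.lf 32212979 0 0) (P.cons (P.lf 0 24962266 0) (P.cons (P.lf 0 6470945 0) (P.cons (P.lf 4898436 0 0) (P.cons (P.lf 386883 0 0) P.nil))))) (P.cons (P.cons (P.lf 0 38109209 0) (P.cons (P.lf 11654497 0 0) (P.cons (P.lf 4972104 0 0) (P.cons (P.lf 0 604485 0) P.nil)))) (P.cons (P.cons (P.lf 0 3983637 0) (P.cons (P.lf 9407388 0 0) (P.cons (P.lf 2373902 0 0) P.nil))) (P.cons (P.cons (P.lf 22150339 0 0) (P.cons (P.lf 0 7591700 0) P.nil)) (P.cons (P.cons (P.lf 0 6297243 0) P.nil) P.nil)))))) 30539273)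
 (EL.cons 1 (TM.mk (P.cons (P.cons (P.lf 0 96535771 0) (P.cons (P.lf 49743673 0 0) (P.cons (P.lf 15041958 0 0) (P.cons (P.lf 0 7909801 0) (P.cons (P.lf 0 577485 0) (P.cons (P.lf 264785 0 0) P.nil)))))) (P.cons (P.cons (P.lf 25069561 0 0) (P.cons (P.lf 6453615 0 0) (P.cons (P.lf 0 543984 0) (P.cons (P.lf 0 3178365 0) (P.cons (P.lf 0 299810 0) P.nil))))) (P.cons (P.cons (P.lf 67207878 0 0) (P.cons (P.lf 0 36144600 0) (P.cons (P.lf 0 11706624 0) (P.cons (P.lf 5077395 0 0) P.nil)))) (P.cons (P.cons (P.lf 0 59642390 0) (P.cons (P.lf 14292185 0 0) (P.cons (P.lf 6339191 0 0) P.nil))) (P.cons (P.cons (P.lf 6596516 0 0) (P.cons (P.lf 4442718 0 0) P.nil)) (P.cons (P.cons (P.lf 9511938 0 0) P.nil) P.nil)))))) 25344833)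
 (EL.cons 5 (TM.mk (P.cons (P.cons (P.lf 223602200 0 0) (P.cons (P.lf 0 115219410 0) (P.cons (P.lf 0 34841128 0) (P.cons (P.lf 18321182 0 0) (P.cons (P.lf 1337606 0 0) (P.cons (P.lf 0 613312 0) P.nil)))))) (P.cons (P.cons (P.lf 0 288960354 0) (P.cons (P.lf 104027822 0 0) (P.cons (P.lf 37237124 0 0) (P.cons (P.lf 0 11556604 0) (P.cons (P.lf 0 686778 0) P.nil))))) (P.cons (P.cons (P.lf 131537298 0 0) (P.cons (P.lf 0 17941706 0) (P.cons (P.lf 0 9594594 0) (P.cons (P.lf 0 742688 0) P.nil)))) (P.cons (P.cons (P.lf 12632372 0 0) (P.cons (P.lf 0 17648726 0) (P.cons (P.lf 0 5993274 0) P.nil))) (P.cons (P.cons (P.lf 0 29878084 0) (P.cons (P.lf 7072742 0 0) P.nil)) (P.cons (P.cons (P.lf 6091986 0 0) P.nil) P.nil)))))) 23292348)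
 EL.nil)))
noncomputable def S256_314_216_364_6 : EL := (EL.cons 12 (TM.mk (P.lf 8589934592 0 0) 0)
 (EL.cons 3 (TM.mk (P.cons (P.lf 897858742 0 0) (P.cons (P.lf 869508750 0 0) (P.cons (P.lf 0 41629830 0) (P.cons (P.lf 0 12412950 0) (P.cons (P.lf 1049171 0 0) (P.cons (P.lf 162840 0 0) P.nil)))))) 27209)
 (EL.cons 7 (TM.mk (P.cons (P.lf 0 2079676607 0) (P.cons (P.lf 133473065 0 0) (P.cons (P.lf 62522105 0 0) (P.cons (P.lf 0 4081356 0) (P.cons (P.lf 0 858201 0) (P.cons (P.lf 91532 0 0) P.nil)))))) 18219)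
 EL.nil)))
noncomputable def S256_314_216_364_7 : EL := (EL.cons 12 (TM.mk (P.cons (P.cons (P.lf 2862180510 0 0) (P.cons (P.lf 0 737422872 0) (P.cons (P.lf 0 317985064 0) (P.lf 35331672 0 0)))) (P.cons (P.cons (P.lf 0 1665699072 0) (P.cons (P.lf 141982776 0 0) (P.cons (P.lf 61224568 0 0) (P.lf 0 6802728 0)))) (P.cons (P.cons (P.lf 223511646 0 0) (P.cons (P.lf 57395848 0 0) (P.cons (P.lf 24749736 0 0) (P.lf 0 2749968 0)))) (P.cons (P.cons (P.lf 197399156 0 0) (P.cons (P.lf 0 12683584 0) (P.cons (P.lf 0 5469304 0) P.nil))) (P.cons (P.cons (P.lf 0 25913686 0) (P.cons (P.lf 0 2081144 0) P.nil)) (P.cons (P.cons (P.lf 0 7369190 0) P.nil) P.nil)))))) 5909672)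
 (EL.cons 3 (TM.mk (P.cons (P.cons (P.lf 0 2413626364 0) (P.cons (P.lf 154157534 0 0) (P.cons (P.lf 66474468 0 0) (P.lf 0 7386050 0)))) (P.cons (P.cons (P.lf 932096984 0 0) (P.cons (P.lf 119608630 0 0) (P.cons (P.lf 51576592 0 0) (P.lf 0 5730730 0)))) (P.cons (P.cons (P.lf 825835917 0 0) (P.cons (P.lf 0 47890332 0) (P.cons (P.lf 0 20650850 0) (P.lf 2294536 0 0)))) (P.cons (P.cons (P.lf 0 164934674 0) (P.cons (P.lf 0 9723240 0) (P.cons (P.lf 0 4192770 0) P.nil))) (P.cons (P.cons (P.lf 0 51280841 0) (P.cons (P.lf 4149632 0 0) P.nil)) (P.cons (P.cons (P.lf 11991643 0 0) P.nil) P.nil)))))) 17813569)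
 (EL.cons 7 (TM.mk (P.cons (P.cons (P.lf 0 1109376482 0) (P.cons (P.lf 214030368 0 0) (P.cons (P.lf 92292309 0 0) (P.lf 0 10254702 0)))) (P.cons (P.cons (P.lf 143080616 0 0) (P.cons (P.lf 18360398 0 0) (P.cons (P.lf 7917210 0 0) (P.lf 0 879689 0)))) (P.cons (P.cons (P.lf 200641955 0 0) (P.cons (P.lf 2128157 0 0) (P.cons (P.lf 917685 0 0) (P.lf 0 101965 0)))) (P.cons (P.cons (P.lf 64333355 0 0) (P.cons (P.lf 0 6247428 0) (P.cons (P.lf 0 2693961 0) P.nil))) (P.cons (P.cons (P.lf 0 23651771 0) (P.cons (P.lf 0 617855 0) P.nil)) (P.cons (P.cons (P.lf 0 4444333 0) P.nil) P.nil)))))) 12631842)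
 (EL.cons 10 (TM.mk (P.cons (P.cons (P.lf 0 1193318205 0) (P.cons (P.lf 0 1111686303 0) (P.cons (P.lf 114095178 0 0) (P.cons (P.lf 23728623 0 0) (P.lf 0 1977384 0))))) (P.cons (P.cons (P.lf 153173658 0 0) (P.cons (P.lf 142695432 0 0) (P.cons (P.lf 0 14645193 0) (P.cons (P.lf 0 3045792 0) (P.lf 253815 0 0))))) (P.cons (P.cons (P.lf 66835029 0 0) (P.cons (P.lf 62263014 0 0) (P.cons (P.lf 0 6390210 0) (P.cons (P.lf 0 1328985 0) P.nil)))) (P.cons (P.cons (P.lf 0 9288678 0) (P.cons (P.lf 0 8653263 0) (P.cons (P.lf 888105 0 0) P.nil))) (P.cons (P.cons (P.lf 0 1762794 0) (P.cons (P.lf 0 1642206 0) P.nil)) (P.cons (P.cons (P.lf 309057 0 0) P.nil) P.nil)))))) 983838)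
 EL.nil))))
noncomputable def S256_314_216_364_8 : EL := (EL.cons 12 (TM.mk (P.cons (P.cons (P.lf 953683312 0 0) (P.cons (P.lf 0 491421056 0) (P.cons (P.lf 0 148600526 0) (P.cons (P.lf 78141474 0 0) (P.cons (P.lf 5705018 0 0) (P.cons (P.lf 0 2615838 0) P.nil)))))) (P.cons (P.cons (P.lf 0 1110027408 0) (P.cons (P.lf 380609400 0 0) (P.cons (P.lf 139745380 0 0) (P.cons (P.lf 0 39259754 0) (P.cons (P.lf 0 2196878 0) P.nil))))) (P.cons (P.cons (P.lf 471949432 0 0) (P.cons (P.lf 0 55191548 0) (P.cons (P.lf 0 31306946 0) (P.cons (P.lf 0 3830476 0) P.nil)))) (P.cons (P.cons (P.lf 44863874 0 0) (P.cons (P.lf 0 57215514 0) (P.cons (P.lf 0 20596882 0) P.nil))) (P.cons (P.cons (P.lf 0 88009636 0) (P.cons (P.lf 17493890 0 0) P.nil)) (P.cons (P.cons (P.lf 15411866 0 0) P.nil) P.nil)))))) 55108380)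
 (EL.cons 3 (TM.mk (P.cons (P.cons (P.lf 0 1708131932 0) (P.cons (P.lf 568503351 0 0) (P.cons (P.lf 212060029 0 0) (P.cons (P.lf 0 55771608 0) (P.cons (P.lf 0 2981571 0) (P.cons (P.lf 1367095 0 0) P.nil)))))) (P.cons (P.cons (P.lf 1576708381 0 0) (P.cons (P.lf 0 209943588 0) (P.cons (P.lf 0 109830076 0) (P.cons (P.lf 0 6585894 0) (P.cons (P.lf 0 1739285 0) P.nil))))) (P.cons (P.cons (P.lf 130895736 0 0) (P.cons (P.lf 0 248651677 0) (P.cons (P.lf 0 89425640 0) (P.cons (P.lf 27260955 0 0) P.nil)))) (P.cons (P.cons (P.lf 0 549081966 0) (P.cons (P.lf 113307395 0 0) (P.cons (P.lf 50396194 0 0) P.nil))) (P.cons (P.cons (P.lf 135395875 0 0) (P.cons (P.lf 25722033 0 0) P.nil)) (P.cons (P.cons (P.lf 64084060 0 0) P.nil) P.nil)))))) 175866815)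
 (EL.cons 7 (TM.mk (P.cons (P.cons (P.lf 0 508399515 0) (P.cons (P.lf 214128451 0 0) (P.cons (P.lf 70913455 0 0) (P.cons (P.lf 0 28733475 0) (P.cons (P.lf 0 1930436 0) (P.cons (P.lf 885130 0 0) P.nil)))))) (P.cons (P.cons (P.lf 242031042 0 0) (P.cons (P.lf 0 32227188 0) (P.cons (P.lf 0 16859360 0) (P.cons (P.lf 0 1010957 0) (P.cons (P.lf 0 266984 0) P.nil))))) (P.cons (P.cons (P.lf 145054189 0 0) (P.cons (P.lf 0 54807990 0) (P.cons (P.lf 0 22431713 0) (P.cons (P.lf 3662702 0 0) P.nil)))) (P.cons (P.cons (P.lf 0 66422749 0) (P.cons (P.lf 0 9419325 0) (P.cons (P.lf 0 1994638 0) P.nil))) (P.cons (P.cons (P.lf 0 42872797 0) (P.cons (P.lf 16316202 0 0) P.nil)) (P.cons (P.cons (P.lf 24696222 0 0) P.nil) P.nil)))))) 87521020)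
 (EL.cons 10 (TM.mk (P.cons (P.cons (P.lf 0 795231222 0) (P.cons (P.lf 0 535945110 0) (P.cons (P.lf 355253286 0 0) (P.cons (P.lf 68712258 0 0) (P.cons (P.lf 0 22984098 0) (P.cons (P.lf 0 478698 0) P.nil)))))) (P.cons (P.cons (P.lf 564875004 0 0) (P.cons (P.lf 460485582 0 0) (P.cons (P.lf 0 143609922 0) (P.cons (P.lf 0 28207644 0) (P.cons (P.lf 7888728 0 0) P.nil))))) (P.cons (P.cons (P.lf 0 76966314 0) (P.cons (P.lf 0 94059774 0) (P.cons (P.lf 0 23111412 0) (P.cons (P.lf 0 4242288 0) P.nil)))) (P.cons (P.cons (P.lf 0 78984726 0) (P.cons (P.lf 0 64206378 0) (P.cons (P.lf 20328420 0 0) P.nil))) (P.cons (P.cons (P.lf 20145606 0 0) (P.cons (P.lf 19782132 0 0) P.nil)) (P.cons (P.cons (P.lf 4601292 0 0) P.nil) P.nil)))))) 37876884)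
 EL.nil))))
noncomputable def S256_314_216_364_9 : EL := (EL.cons 3 (TM.mk (P.cons (P.lf 897858742 0 0) (P.cons (P.lf 869508750 0 0) (P.cons (P.lf 0 41629830 0) (P.cons (P.lf 0 12412950 0) (P.cons (P.lf 1049171 0 0) (P.cons (P.lf 162840 0 0) P.nil)))))) 27209)
 (EL.cons 7 (TM.mk (P.cons (P.lf 0 2079676607 0) (P.cons (P.lf 133473065 0 0) (P.cons (P.lf 62522105 0 0) (P.cons (P.lf 0 4081356 0) (P.cons (P.lf 0 858201 0) (P.cons (P.lf 91532 0 0) P.nil)))))) 18219)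
 EL.nil))
noncomputable def S256_314_216_364_10 : EL := (EL.cons 3 (TM.mk (P.cons (P.cons (P.lf 299168027 0 0) (P.cons (P.lf 0 77078767 0) (P.cons (P.lf 0 33237234 0) (P.lf 3693025 0 0)))) (P.cons (P.cons (P.lf 115615376 0 0) (P.cons (P.lf 0 59804315 0) (P.cons (P.lf 0 25788296 0) (P.lf 2865365 0 0)))) (P.cons (P.cons (P.lf 0 159117639 0) (P.cons (P.lf 23945166 0 0) (P.cons (P.lf 10325425 0 0) (P.lf 0 1147268 0)))) (P.cons (P.cons (P.lf 47194369 0 0) (P.cons (P.lf 4861620 0 0) (P.cons (P.lf 2096385 0 0) P.nil))) (P.cons (P.cons (P.lf 18946345 0 0) (P.cons (P.lf 0 2074816 0) P.nil)) (P.cons (P.cons (P.lf 0 4822193 0) P.nil) P.nil)))))) 4326984)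
 (EL.cons 7 (TM.mk (P.cons (P.cons (P.lf 0 692951708 0) (P.cons (P.lf 178534665 0 0) (P.cons (P.lf 76986162 0 0) (P.lf 0 8554017 0)))) (P.cons (P.cons (P.lf 447749555 0 0) (P.cons (P.lf 0 45833218 0) (P.cons (P.lf 0 19763799 0) (P.lf 2195977 0 0)))) (P.cons (P.cons (P.lf 0 59163238 0) (P.cons (P.lf 0 17057074 0) (P.cons (P.lf 0 7355202 0) (P.lf 817244 0 0)))) (P.cons (P.cons (P.lf 0 57802327 0) (P.cons (P.lf 5346408 0 0) (P.cons (P.lf 2305431 0 0) P.nil))) (P.cons (P.cons (P.lf 11473423 0 0) (P.cons (P.lf 730747 0 0) P.nil)) (P.cons (P.cons (P.lf 2908964 0 0) P.nil) P.nil)))))) 2854796)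
 EL.nil))
noncomputable def S256_314_216_364_11 : EL := (EL.cons 3 (TM.mk (P.cons (P.cons (P.lf 99683284 0 0) (P.cons (P.lf 0 51365547 0) (P.cons (P.lf 0 15532397 0) (P.cons (P.lf 8167698 0 0) (P.cons (P.lf 596313 0 0) (P.cons (P.lf 0 273419 0) P.nil)))))) (P.cons (P.cons (P.lf 0 19489301 0) (P.cons (P.lf 0 9960660 0) (P.cons (P.lf 0 435142 0) (P.cons (P.lf 3806196 0 0) (P.cons (P.lf 347857 0 0) P.nil))))) (P.cons (P.cons (P.lf 0 67653168 0) (P.cons (P.lf 35139587 0 0) (P.cons (P.lf 11593432 0 0) (P.cons (P.lf 0 4753113 0) P.nil)))) (P.cons (P.cons (P.lf 56463504 0 0) (P.cons (P.lf 0 12701575 0) (P.cons (P.lf 0 5784416 0) P.nil))) (P.cons (P.cons (P.lf 0 5224553 0) (P.cons (P.lf 0 4305597 0) P.nil)) (P.cons (P.cons (P.lf 0 8314700 0) P.nil) P.nil)))))) 20497459)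
 (EL.cons 7 (TM.mk (P.cons (P.cons (P.lf 0 230892663 0) (P.cons (P.lf 118976095 0 0) (P.cons (P.lf 35977111 0 0) (P.cons (P.lf 0 18918537 0) (P.cons (P.lf 0 1381220 0) (P.cons (P.lf 633310 0 0) P.nil)))))) (P.cons (P.cons (P.lf 283563168 0 0) (P.cons (P.lf 0 99783756 0) (P.cons (P.lf 0 36142226 0) (P.cons (P.lf 10719217 0 0) (P.cons (P.lf 620524 0 0) P.nil))))) (P.cons (P.cons (P.lf 0 124568429 0) (P.cons (P.lf 15699420 0 0) (P.cons (P.lf 8669419 0 0) (P.cons (P.lf 886106 0 0) P.nil)))) (P.cons (P.cons (P.lf 0 12061021 0) (P.cons (P.lf 15998415 0 0) (P.cons (P.lf 5587922 0 0) P.nil))) (P.cons (P.cons (P.lf 25872017 0 0) (P.cons (P.lf 0 5657868 0) P.nil)) (P.cons (P.cons (P.lf 0 4875462 0) P.nil) P.nil)))))) 18150960)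
 EL.nil))
noncomputable def S256_314_216_364_12 : EL := (EL.cons 4 (TM.mk (P.cons (P.lf 0 897858742 0) (P.cons (P.lf 0 869508750 0) (P.cons (P.lf 41629830 0 0) (P.cons (P.lf 12412950 0 0) (P.cons (P.lf 0 1049171 0) (P.cons (P.lf 0 162840 0) P.nil)))))) 27209)
 (EL.cons 8 (TM.mk (P.cons (P.lf 2079676607 0 0) (P.cons (P.lf 0 133473065 0) (P.cons (P.lf 0 62522105 0) (P.cons (P.lf 4081356 0 0) (P.cons (P.lf 858201 0 0) (P.cons (P.lf 0 91532 0) P.nil)))))) 18219)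
 EL.nil))
noncomputable def S256_314_216_364_13 : EL := (EL.cons 4 (TM.mk (P.cons (P.cons (P.lf 0 299168027 0) (P.cons (P.lf 77078767 0 0) (P.cons (P.lf 33237234 0 0) (P.lf 0 3693025 0)))) (P.cons (P.cons (P.lf 0 115615376 0) (P.cons (P.lf 59804315 0 0) (P.cons (P.lf 25788296 0 0) (P.lf 0 2865365 0)))) (P.cons (P.cons (P.lf 159117639 0 0) (P.cons (P.lf 0 23945166 0) (P.cons (P.lf 0 10325425 0) (P.lf 1147268 0 0)))) (P.cons (P.cons (P.lf 0 47194369 0) (P.cons (P.lf 0 4861620 0) (P.cons (P.lf 0 2096385 0) P.nil))) (P.cons (P.cons (P.lf 0 18946345 0) (P.cons (P.lf 2074816 0 0) P.nil)) (P.cons (P.cons (P.lf 4822193 0 0) P.nil) P.nil)))))) 4326984)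
 (EL.cons 8 (TM.mk (P.cons (P.cons (P.lf 692951708 0 0) (P.cons (P.lf 0 178534665 0) (P.cons (P.lf 0 76986162 0) (P.lf 8554017 0 0)))) (P.cons (P.cons (P.lf 0 447749555 0) (P.cons (P.lf 45833218 0 0) (P.cons (P.lf 19763799 0 0) (P.lf 0 2195977 0)))) (P.cons (P.cons (P.lf 59163238 0 0) (P.cons (P.lf 17057074 0 0) (P.cons (P.lf 7355202 0 0) (P.lf 0 817244 0)))) (P.cons (P.cons (P.lf 57802327 0 0) (P.cons (P.lf 0 5346408 0) (P.cons (P.lf 0 2305431 0) P.nil))) (P.cons (P.cons (P.lf 0 11473423 0) (P.cons (P.lf 0 730747 0) P.nil)) (P.cons (P.cons (P.lf 0 2908964 0) P.nil) P.nil)))))) 2854796)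
 EL.nil))
noncomputable def S256_314_216_364_14 : EL := (EL.cons 4 (TM.mk (P.cons (P.cons (P.lf 0 99683284 0) (P.cons (P.lf 51365547 0 0) (P.cons (P.lf 15532397 0 0) (P.cons (P.lf 0 8167698 0) (P.cons (P.lf 0 596313 0) (P.cons (P.lf 273419 0 0) P.nil)))))) (P.cons (P.cons (P.lf 19489301 0 0) (P.cons (P.lf 9960660 0 0) (P.cons (P.lf 435142 0 0) (P.cons (P.lf 0 3806196 0) (P.cons (P.lf 0 347857 0) P.nil))))) (P.cons (P.cons (P.lf 67653168 0 0) (P.cons (P.lf 0 35139587 0) (P.cons (P.lf 0 11593432 0) (P.cons (P.lf 4753113 0 0) P.nil)))) (P.cons (P.cons (P.lf 0 56463504 0) (P.cons (P.lf 12701575 0 0) (P.cons (P.lf 5784416 0 0) P.nil))) (P.cons (P.cons (P.lf 5224553 0 0) (P.cons (P.lf 4305597 0 0) P.nil)) (P.cons (P.cons (P.lf 8314700 0 0) P.nil) P.nil)))))) 20497459)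
 (EL.cons 8 (TM.mk (P.cons (P.cons (P.lf 230892663 0 0) (P.cons (P.lf 0 118976095 0) (P.cons (P.lf 0 35977111 0) (P.cons (P.lf 18918537 0 0) (P.cons (P.lf 1381220 0 0) (P.cons (P.lf 0 633310 0) P.nil)))))) (P.cons (P.cons (P.lf 0 283563168 0) (P.cons (P.lf 99783756 0 0) (P.cons (P.lf 36142226 0 0) (P.cons (P.lf 0 10719217 0) (P.cons (P.lf 0 620524 0) P.nil))))) (P.cons (P.cons (P.lf 124568429 0 0) (P.cons (P.lf 0 15699420 0) (P.cons (P.lf 0 8669419 0) (P.cons (P.lf 0 886106 0) P.nil)))) (P.cons (P.cons (P.lf 12061021 0 0) (P.cons (P.lf 0 15998415 0) (P.cons (P.lf 0 5587922 0) P.nil))) (P.cons (P.cons (P.lf 0 25872017 0) (P.cons (P.lf 5657868 0 0) P.nil)) (P.cons (P.cons (P.lf 4875462 0 0) P.nil) P.nil)))))) 18150960)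
 EL.nil))
noncomputable def S256_314_216_364_15 : EL := (EL.cons 4 (TM.mk (P.cons (P.lf 0 200209597 0) (P.cons (P.lf 0 387775913 0) (P.cons (P.lf 0 169200214 0) (P.cons (P.lf 23515311 0 0) (P.cons (P.lf 4462718 0 0) (P.cons (P.lf 0 782419 0) P.nil)))))) 166134)
 (EL.cons 8 (TM.mk (P.cons (P.lf 463738000 0 0) (P.cons (P.lf 419332844 0 0) (P.cons (P.lf 0 64265877 0) (P.cons (P.lf 0 17622484 0) (P.cons (P.lf 2672482 0 0) (P.cons (P.lf 364787 0 0) P.nil)))))) 94488)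
 EL.nil))
noncomputable def S256_314_216_364_16 : EL := (EL.cons 4 (TM.mk (P.cons (P.cons (P.lf 0 66710171 0) (P.cons (P.lf 17187457 0 0) (P.cons (P.lf 7411425 0 0) (P.lf 0 823491 0)))) (P.cons (P.cons (P.lf 0 90384357 0) (P.cons (P.lf 29980264 0 0) (P.cons (P.lf 12927827 0 0) (P.lf 0 1436425 0)))) (P.cons (P.cons (P.lf 13607465 0 0) (P.cons (P.lf 6778095 0 0) (P.cons (P.lf 2922791 0 0) (P.lf 0 324754 0)))) (P.cons (P.cons (P.lf 25954570 0 0) (P.cons (P.lf 0 7110833 0) (P.cons (P.lf 0 3066270 0) P.nil))) (P.cons (P.cons (P.lf 0 15782775 0) (P.cons (P.lf 0 503900 0) P.nil)) (P.cons (P.cons (P.lf 0 3060898 0) P.nil) P.nil)))))) 5298530)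
 (EL.cons 8 (TM.mk (P.cons (P.cons (P.lf 154518273 0 0) (P.cons (P.lf 0 39810664 0) (P.cons (P.lf 0 17166807 0) (P.lf 1907422 0 0)))) (P.cons (P.cons (P.lf 49797624 0 0) (P.cons (P.lf 0 28333489 0) (P.cons (P.lf 0 12217720 0) (P.lf 1357524 0 0)))) (P.cons (P.cons (P.lf 0 90660995 0) (P.cons (P.lf 15546777 0 0) (P.cons (P.lf 6703945 0 0) (P.lf 0 744882 0)))) (P.cons (P.cons (P.lf 28158088 0 0) (P.cons (P.lf 2567735 0 0) (P.cons (P.lf 1107236 0 0) P.nil))) (P.cons (P.cons (P.lf 10872899 0 0) (P.cons (P.lf 0 1681640 0) P.nil)) (P.cons (P.cons (P.lf 0 3994926 0) P.nil) P.nil)))))) 3771534)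
 EL.nil))
noncomputable def S256_314_216_364_17 : EL := (EL.cons 4 (TM.mk (P.cons (P.cons (P.lf 0 22227939 0) (P.cons (P.lf 11453778 0 0) (P.cons (P.lf 3463500 0 0) (P.cons (P.lf 0 1821279 0) (P.cons (P.lf 0 132969 0) (P.cons (P.lf 60968 0 0) P.nil)))))) (P.cons (P.cons (P.lf 0 17180255 0) (P.cons (P.lf 13313208 0 0) (P.cons (P.lf 3451170 0 0) (P.cons (P.lf 0 2612499 0) (P.cons (P.lf 0 206338 0) P.nil))))) (P.cons (P.cons (P.lf 20324911 0 0) (P.cons (P.lf 0 6215731 0) (P.cons (P.lf 0 2651789 0) (P.cons (P.lf 322392 0 0) P.nil)))) (P.cons (P.cons (P.lf 2124606 0 0) (P.cons (P.lf 0 5017274 0) (P.cons (P.lf 0 1266081 0) P.nil))) (P.cons (P.cons (P.lf 0 11813514 0) (P.cons (P.lf 4048906 0 0) P.nil)) (P.cons (P.cons (P.lf 3358530 0 0) P.nil) P.nil)))))) 16287622)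
 (EL.cons 8 (TM.mk (P.cons (P.cons (P.lf 51485745 0 0) (P.cons (P.lf 0 26529959 0) (P.cons (P.lf 0 8022378 0) (P.cons (P.lf 4218561 0 0) (P.cons (P.lf 307992 0 0) (P.cons (P.lf 0 141219 0) P.nil)))))) (P.cons (P.cons (P.lf 0 13370433 0) (P.cons (P.lf 0 3441928 0) (P.cons (P.lf 290125 0 0) (P.cons (P.lf 1695128 0 0) (P.cons (P.lf 159899 0 0) P.nil))))) (P.cons (P.cons (P.lf 0 35844202 0) (P.cons (P.lf 19277120 0 0) (P.cons (P.lf 6243533 0 0) (P.cons (P.lf 0 2707944 0) P.nil)))) (P.cons (P.cons (P.lf 31809275 0 0) (P.cons (P.lf 0 7622499 0) (P.cons (P.lf 0 3380902 0) P.nil))) (P.cons (P.cons (P.lf 0 3518142 0) (P.cons (P.lf 0 2369450 0) P.nil)) (P.cons (P.cons (P.lf 0 5073034 0) P.nil) P.nil)))))) 13517233)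
 EL.nil))
noncomputable def S256_314_216_364_18 : EL := (EL.cons 4 (TM.mk (P.cons (P.lf 0 44643862 0) (P.cons (P.lf 0 129702684 0) (P.cons (P.lf 0 119397478 0) (P.cons (P.lf 0 26667962 0) (P.cons (P.lf 8965736 0 0) (P.cons (P.lf 958581 0 0) P.nil)))))) 467642)
 (EL.cons 8 (TM.mk (P.cons (P.lf 103406910 0 0) (P.cons (P.lf 193647023 0 0) (P.cons (P.lf 71427862 0 0) (P.cons (P.lf 0 23572483 0) (P.cons (P.lf 0 3717003 0) (P.cons (P.lf 1166783 0 0) P.nil)))))) 289701)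
 EL.nil))
noncomputable def S256_314_216_364_19 : EL := (EL.cons 4 (TM.mk (P.cons (P.cons (P.lf 0 14875409 0) (P.cons (P.lf 3832555 0 0) (P.cons (P.lf 1652640 0 0) (P.lf 0 183626 0)))) (P.cons (P.cons (P.lf 0 34560129 0) (P.cons (P.lf 10396710 0 0) (P.cons (P.lf 4483178 0 0) (P.lf 0 498130 0)))) (P.cons (P.cons (P.lf 0 15794056 0) (P.cons (P.lf 7807801 0 0) (P.cons (P.lf 3366811 0 0) (P.lf 0 374089 0)))) (P.cons (P.cons (P.lf 9866084 0 0) (P.cons (P.lf 0 484865 0) (P.cons (P.lf 0 209079 0) P.nil))) (P.cons (P.cons (P.lf 2205990 0 0) (P.cons (P.lf 0 1805932 0) P.nil)) (P.cons (P.cons (P.lf 0 4427283 0) P.nil) P.nil)))))) 4991493)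
 (EL.cons 8 (TM.mk (P.cons (P.cons (P.lf 34455354 0 0) (P.cons (P.lf 0 8877206 0) (P.cons (P.lf 0 3827951 0) (P.lf 425327 0 0)))) (P.cons (P.cons (P.lf 44471577 0 0) (P.cons (P.lf 0 14914868 0) (P.cons (P.lf 0 6431459 0) (P.lf 714606 0 0)))) (P.cons (P.cons (P.lf 0 11060105 0) (P.cons (P.lf 0 2240164 0) (P.cons (P.lf 0 965984 0) (P.lf 107331 0 0)))) (P.cons (P.cons (P.lf 0 14290122 0) (P.cons (P.lf 4345478 0 0) (P.cons (P.lf 1873819 0 0) P.nil))) (P.cons (P.cons (P.lf 9329173 0 0) (P.cons (P.lf 95743 0 0) P.nil)) (P.cons (P.cons (P.lf 1464725 0 0) P.nil) P.nil)))))) 3879652)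
 EL.nil))
noncomputable def S256_314_216_364_20 : EL := (EL.cons 4 (TM.mk (P.cons (P.cons (P.lf 0 4956510 0) (P.cons (P.lf 2554027 0 0) (P.cons (P.lf 772310 0 0) (P.cons (P.lf 0 406118 0) (P.cons (P.lf 0 29649 0) (P.cons (P.lf 13594 0 0) P.nil)))))) (P.cons (P.cons (P.lf 0 8630958 0) (P.cons (P.lf 5442038 0 0) (P.cons (P.lf 1517486 0 0) (P.cons (P.lf 0 975845 0) (P.cons (P.lf 0 74724 0) P.nil))))) (P.cons (P.cons (P.lf 1051987 0 0) (P.cons (P.lf 1370479 0 0) (P.cons (P.lf 118142 0 0) (P.cons (P.lf 0 473436 0) P.nil)))) (P.cons (P.cons (P.lf 5108964 0 0) (P.cons (P.lf 0 2633987 0) (P.cons (P.lf 0 901316 0) P.nil))) (P.cons (P.cons (P.lf 0 2338410 0) (P.cons (P.lf 0 154399 0) P.nil)) (P.cons (P.cons (P.lf 0 1892161 0) P.nil) P.nil)))))) 11127652)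
 (EL.cons 8 (TM.mk (P.cons (P.cons (P.lf 11480581 0 0) (P.cons (P.lf 0 5915799 0) (P.cons (P.lf 0 1788874 0) (P.cons (P.lf 940678 0 0) (P.cons (P.lf 68677 0 0) (P.cons (P.lf 0 31489 0) P.nil)))))) (P.cons (P.cons (P.lf 8136665 0 0) (P.cons (P.lf 0 6496508 0) (P.cons (P.lf 0 1667697 0) (P.cons (P.lf 1288965 0 0) (P.cons (P.lf 102164 0 0) P.nil))))) (P.cons (P.cons (P.lf 0 11412323 0) (P.cons (P.lf 3829544 0 0) (P.cons (P.lf 1537811 0 0) (P.cons (P.lf 0 281393 0) P.nil)))) (P.cons (P.cons (P.lf 0 667843 0) (P.cons (P.lf 2580458 0 0) (P.cons (P.lf 616097 0 0) P.nil))) (P.cons (P.cons (P.lf 6509775 0 0) (P.cons (P.lf 0 2369998 0) P.nil)) (P.cons (P.cons (P.lf 0 2110712 0) P.nil) P.nil)))))) 10088100)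
 EL.nil))
noncomputable def S256_314_216_364_21 : EL := (EL.cons 4 (TM.mk (P.cons (P.cons (P.lf 2712794391 0 0) (P.cons (P.lf 0 231236301 0) (P.cons (P.lf 0 99711702 0) (P.lf 11079075 0 0)))) (P.cons (P.cons (P.lf 0 816481608 0) (P.cons (P.lf 0 179412945 0) (P.cons (P.lf 0 77364888 0) (P.lf 8596095 0 0)))) (P.cons (P.cons (P.lf 0 984953556 0) (P.cons (P.lf 71835498 0 0) (P.cons (P.lf 30976275 0 0) (P.lf 0 3441804 0)))) (P.cons (P.cons (P.lf 212129043 0 0) (P.cons (P.lf 14584860 0 0) (P.cons (P.lf 6289155 0 0) P.nil))) (P.cons (P.cons (P.lf 70227186 0 0) (P.cons (P.lf 0 6224448 0) P.nil)) (P.cons (P.cons (P.lf 0 16813836 0) P.nil) P.nil)))))) 13486566)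
 (EL.cons 8 (TM.mk (P.cons (P.cons (P.lf 416424774 0 0) (P.cons (P.lf 0 35495703 0) (P.cons (P.lf 0 15306147 0) (P.lf 1700685 0 0)))) (P.cons (P.cons (P.lf 304668939 0 0) (P.cons (P.lf 0 64193616 0) (P.cons (P.lf 0 27681009 0) (P.lf 3075666 0 0)))) (P.cons (P.cons (P.lf 0 259805193 0) (P.cons (P.lf 0 19185231 0) (P.cons (P.lf 0 8272887 0) (P.lf 919209 0 0)))) (P.cons (P.cons (P.lf 0 122135682 0) (P.cons (P.lf 11593836 0 0) (P.cons (P.lf 4999392 0 0) P.nil))) (P.cons (P.cons (P.lf 35125194 0 0) (P.cons (P.lf 1348602 0 0) P.nil)) (P.cons (P.cons (P.lf 7353297 0 0) P.nil) P.nil)))))) 9777027)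
 (EL.cons 11 (TM.mk (P.cons (P.cons (P.lf 1193318205 0 0) (P.cons (P.lf 1111686303 0 0) (P.cons (P.lf 0 114095178 0) (P.cons (P.lf 0 23728623 0) (P.lf 1977384 0 0))))) (P.cons (P.cons (P.lf 0 153173658 0) (P.cons (P.lf 0 142695432 0) (P.cons (P.lf 14645193 0 0) (P.cons (P.lf 3045792 0 0) (P.lf 0 253815 0))))) (P.cons (P.cons (P.lf 0 66835029 0) (P.cons (P.lf 0 62263014 0) (P.cons (P.lf 6390210 0 0) (P.cons (P.lf 1328985 0 0) P.nil)))) (P.cons (P.cons (P.lf 9288678 0 0) (P.cons (P.lf 8653263 0 0) (P.cons (P.lf 0 888105 0) P.nil))) (P.cons (P.cons (P.lf 1762794 0 0) (P.cons (P.lf 1642206 0 0) P.nil)) (P.cons (P.cons (P.lf 0 309057 0) P.nil) P.nil)))))) 983838)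
 EL.nil)))
noncomputable def S256_314_216_364_22 : EL := (EL.cons 4 (TM.mk (P.cons (P.cons (P.lf 903907608 0 0) (P.cons (P.lf 0 309934449 0) (P.cons (P.lf 0 113796213 0) (P.cons (P.lf 31969653 0 0) (P.cons (P.lf 1788942 0 0) (P.cons (P.lf 0 820257 0) P.nil)))))) (P.cons (P.cons (P.lf 0 798098841 0) (P.cons (P.lf 99991464 0 0) (P.cons (P.lf 54697467 0 0) (P.cons (P.lf 5196045 0 0) (P.cons (P.lf 1043571 0 0) P.nil))))) (P.cons (P.cons (P.lf 0 99274452 0) (P.cons (P.lf 141895632 0 0) (P.cons (P.lf 50509536 0 0) (P.cons (P.lf 0 16007034 0) P.nil)))) (P.cons (P.cons (P.lf 302772735 0 0) (P.cons (P.lf 0 63004485 0) (P.cons (P.lf 0 28090305 0) P.nil))) (P.cons (P.cons (P.lf 0 70310214 0) (P.cons (P.lf 0 15013815 0) P.nil)) (P.cons (P.cons (P.lf 0 36199380 0) P.nil) P.nil)))))) 77684667)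
 (EL.cons 8 (TM.mk (P.cons (P.cons (P.lf 138753426 0 0) (P.cons (P.lf 0 47576178 0) (P.cons (P.lf 0 17468172 0) (P.cons (P.lf 4907469 0 0) (P.cons (P.lf 274608 0 0) (P.cons (P.lf 0 125910 0) P.nil)))))) (P.cons (P.cons (P.lf 20766063 0 0) (P.cons (P.lf 0 33778284 0) (P.cons (P.lf 0 9641433 0) (P.cons (P.lf 5865087 0 0) (P.cons (P.lf 443754 0 0) P.nil))))) (P.cons (P.cons (P.lf 0 134811309 0) (P.cons (P.lf 35253705 0 0) (P.cons (P.lf 15550566 0 0) (P.cons (P.lf 0 1388298 0) P.nil)))) (P.cons (P.cons (P.lf 27180864 0 0) (P.cons (P.lf 12708870 0 0) (P.cons (P.lf 3791280 0 0) P.nil))) (P.cons (P.cons (P.lf 34372407 0 0) (P.cons (P.lf 0 10987035 0) P.nil)) (P.cons (P.cons (P.lf 0 14785842 0) P.nil) P.nil)))))) 34685019)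
 (EL.cons 11 (TM.mk (P.cons (P.cons (P.lf 397615611 0 0) (P.cons (P.lf 267972555 0 0) (P.cons (P.lf 0 177626643 0) (P.cons (P.lf 0 34356129 0) (P.cons (P.lf 11492049 0 0) (P.cons (P.lf 239349 0 0) P.nil)))))) (P.cons (P.cons (P.lf 0 282437502 0) (P.cons (P.lf 0 230242791 0) (P.cons (P.lf 71804961 0 0) (P.cons (P.lf 14103822 0 0) (P.cons (P.lf 0 3944364 0) P.nil))))) (P.cons (P.cons (P.lf 38483157 0 0) (P.cons (P.lf 47029887 0 0) (P.cons (P.lf 11555706 0 0) (P.cons (P.lf 2121144 0 0) P.nil)))) (P.cons (P.cons (P.lf 39492363 0 0) (P.cons (P.lf 32103189 0 0) (P.cons (P.lf 0 10164210 0) P.nil))) (P.cons (P.cons (P.lf 0 10072803 0) (P.cons (P.lf 0 9891066 0) P.nil)) (P.cons (P.cons (P.lf 0 2300646 0) P.nil) P.nil)))))) 18938442)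
 EL.nil)))
noncomputable def S256_314_216_364_23 : EL := (EL.cons 4 (TM.mk (P.cons (P.cons (P.lf 604914168 0 0) (P.cons (P.lf 0 51562371 0) (P.cons (P.lf 0 22234275 0) (P.lf 2470473 0 0)))) (P.cons (P.cons (P.lf 403750266 0 0) (P.cons (P.lf 0 89940792 0) (P.cons (P.lf 0 38783484 0) (P.lf 4309272 0 0)))) (P.cons (P.cons (P.lf 0 423992730 0) (P.cons (P.lf 0 20334288 0) (P.cons (P.lf 0 8768376 0) (P.lf 974262 0 0)))) (P.cons (P.cons (P.lf 0 165315372 0) (P.cons (P.lf 21332499 0 0) (P.cons (P.lf 9198813 0 0) P.nil))) (P.cons (P.cons (P.lf 74875038 0 0) (P.cons (P.lf 1511703 0 0) P.nil)) (P.cons (P.cons (P.lf 12156144 0 0) P.nil) P.nil)))))) 17058345)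
 (EL.cons 8 (TM.mk (P.cons (P.cons (P.lf 92856738 0 0) (P.cons (P.lf 0 7915029 0) (P.cons (P.lf 0 3413049 0) (P.lf 379227 0 0)))) (P.cons (P.cons (P.lf 157861572 0 0) (P.cons (P.lf 0 21979365 0) (P.cons (P.lf 0 9477750 0) (P.lf 1053081 0 0)))) (P.cons (P.cons (P.lf 3553491 0 0) (P.cons (P.lf 0 17773323 0) (P.cons (P.lf 0 7664055 0) (P.lf 851559 0 0)))) (P.cons (P.cons (P.lf 0 87771774 0) (P.cons (P.lf 0 784575 0) (P.cons (P.lf 0 338316 0) P.nil))) (P.cons (P.cons (P.lf 0 16686783 0) (P.cons (P.lf 3191346 0 0) P.nil)) (P.cons (P.cons (P.lf 11384679 0 0) P.nil) P.nil)))))) 9282981)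
 (EL.cons 11 (TM.mk (P.cons (P.cons (P.lf 266092812 0 0) (P.cons (P.lf 247890069 0 0) (P.cons (P.lf 0 25441584 0) (P.cons (P.lf 0 5291139 0) (P.lf 440928 0 0))))) (P.cons (P.cons (P.lf 223535376 0 0) (P.cons (P.lf 208243881 0 0) (P.cons (P.lf 0 21372594 0) (P.cons (P.lf 0 4444905 0) (P.lf 370407 0 0))))) (P.cons (P.cons (P.lf 0 60317883 0) (P.cons (P.lf 0 56191689 0) (P.cons (P.lf 5767095 0 0) (P.cons (P.lf 1199394 0 0) P.nil)))) (P.cons (P.cons (P.lf 0 14456541 0) (P.cons (P.lf 0 13467606 0) (P.cons (P.lf 1382214 0 0) P.nil))) (P.cons (P.cons (P.lf 3873057 0 0) (P.cons (P.lf 3608109 0 0) P.nil)) (P.cons (P.cons (P.lf 430101 0 0) P.nil) P.nil)))))) 2300838)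
 EL.nil)))
noncomputable def S256_314_216_364_24 : EL := (EL.cons 4 (TM.mk (P.cons (P.cons (P.lf 201558408 0 0) (P.cons (P.lf 0 69110928 0) (P.cons (P.lf 0 25374918 0) (P.cons (P.lf 7128771 0 0) (P.cons (P.lf 398907 0 0) (P.cons (P.lf 0 182904 0) P.nil)))))) (P.cons (P.cons (P.lf 17229603 0 0) (P.cons (P.lf 0 44632083 0) (P.cons (P.lf 0 12376953 0) (P.cons (P.lf 8062323 0 0) (P.cons (P.lf 619014 0 0) P.nil))))) (P.cons (P.cons (P.lf 0 203827488 0) (P.cons (P.lf 56437701 0 0) (P.cons (P.lf 24251061 0 0) (P.cons (P.lf 0 2777808 0) P.nil)))) (P.cons (P.cons (P.lf 51541053 0 0) (P.cons (P.lf 16514196 0 0) (P.cons (P.lf 4428837 0 0) P.nil))) (P.cons (P.cons (P.lf 53426322 0 0) (P.cons (P.lf 0 18809409 0) P.nil)) (P.cons (P.cons (P.lf 0 26250756 0) P.nil) P.nil)))))) 57250563)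
 (EL.cons 8 (TM.mk (P.cons (P.cons (P.lf 30940020 0 0) (P.cons (P.lf 0 10608804 0) (P.cons (P.lf 0 3895149 0) (P.cons (P.lf 1094295 0 0) (P.cons (P.lf 61233 0 0) (P.cons (P.lf 0 28074 0) P.nil)))))) (P.cons (P.cons (P.lf 34593618 0 0) (P.cons (P.lf 0 17805900 0) (P.cons (P.lf 0 5922063 0) (P.cons (P.lf 2367573 0 0) (P.cons (P.lf 158250 0 0) P.nil))))) (P.cons (P.cons (P.lf 0 27011214 0) (P.cons (P.lf 1058706 0 0) (P.cons (P.lf 1566135 0 0) (P.cons (P.lf 906225 0 0) P.nil)))) (P.cons (P.cons (P.lf 0 23693307 0) (P.cons (P.lf 10942647 0 0) (P.cons (P.lf 4356996 0 0) P.nil))) (P.cons (P.cons (P.lf 14900055 0 0) (P.cons (P.lf 21714 0 0) P.nil)) (P.cons (P.cons (P.lf 4271109 0 0) P.nil) P.nil)))))) 22627524)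
 (EL.cons 11 (TM.mk (P.cons (P.cons (P.lf 88662567 0 0) (P.cons (P.lf 59754027 0 0) (P.cons (P.lf 0 39608187 0) (P.cons (P.lf 0 7660923 0) (P.cons (P.lf 2562561 0 0) (P.cons (P.lf 53370 0 0) P.nil)))))) (P.cons (P.cons (P.lf 22883532 0 0) (P.cons (P.lf 6526452 0 0) (P.cons (P.lf 0 22346079 0) (P.cons (P.lf 0 4274076 0) (P.cons (P.lf 1602111 0 0) P.nil))))) (P.cons (P.cons (P.lf 0 56520627 0) (P.cons (P.lf 0 42003288 0) (P.cons (P.lf 19919127 0 0) (P.cons (P.lf 3873834 0 0) P.nil)))) (P.cons (P.cons (P.lf 18810789 0 0) (P.cons (P.lf 18868758 0 0) (P.cons (P.lf 34122 0 0) P.nil))) (P.cons (P.cons (P.lf 6858507 0 0) (P.cons (P.lf 5020329 0 0) P.nil)) (P.cons (P.cons (P.lf 0 3272634 0) P.nil) P.nil)))))) 17181837)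
 EL.nil)))
noncomputable def S256_314_216_364_25 : EL := (EL.cons 4 (TM.mk (P.cons (P.cons (P.lf 134887167 0 0) (P.cons (P.lf 0 11497668 0) (P.cons (P.lf 0 4957923 0) (P.lf 550878 0 0)))) (P.cons (P.cons (P.lf 220658595 0 0) (P.cons (P.lf 0 31190130 0) (P.cons (P.lf 0 13449537 0) (P.lf 1494390 0 0)))) (P.cons (P.cons (P.lf 0 13610634 0) (P.cons (P.lf 0 23423406 0) (P.cons (P.lf 0 10100436 0) (P.lf 1122270 0 0)))) (P.cons (P.cons (P.lf 0 134461140 0) (P.cons (P.lf 1454598 0 0) (P.cons (P.lf 627237 0 0) P.nil))) (P.cons (P.cons (P.lf 0 15706389 0) (P.cons (P.lf 5417796 0 0) P.nil)) (P.cons (P.cons (P.lf 22025445 0 0) P.nil) P.nil)))))) 18254643)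
 (EL.cons 8 (TM.mk (P.cons (P.cons (P.lf 20705718 0 0) (P.cons (P.lf 0 1764936 0) (P.cons (P.lf 0 761061 0) (P.lf 84561 0 0)))) (P.cons (P.cons (P.lf 55252794 0 0) (P.cons (P.lf 0 6610293 0) (P.cons (P.lf 0 2850432 0) (P.lf 316713 0 0)))) (P.cons (P.cons (P.lf 33921732 0 0) (P.cons (P.lf 0 8627694 0) (P.cons (P.lf 0 3720357 0) (P.lf 413373 0 0)))) (P.cons (P.cons (P.lf 0 20722854 0) (P.cons (P.lf 0 3761364 0) (P.cons (P.lf 0 1621941 0) P.nil))) (P.cons (P.cons (P.lf 0 23173971 0) (P.cons (P.lf 791649 0 0) P.nil)) (P.cons (P.cons (P.lf 0 123408 0) P.nil) P.nil)))))) 8673159)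
 (EL.cons 11 (TM.mk (P.cons (P.cons (P.lf 59334873 0 0) (P.cons (P.lf 55275921 0 0) (P.cons (P.lf 0 5673105 0) (P.cons (P.lf 0 1179846 0) (P.lf 98319 0 0))))) (P.cons (P.cons (P.lf 107306544 0 0) (P.cons (P.lf 99965973 0 0) (P.cons (P.lf 0 10259760 0) (P.cons (P.lf 0 2133744 0) (P.lf 177810 0 0))))) (P.cons (P.cons (P.lf 32070186 0 0) (P.cons (P.lf 29876343 0 0) (P.cons (P.lf 0 3066282 0) (P.cons (P.lf 0 637701 0) P.nil)))) (P.cons (P.cons (P.lf 0 19380348 0) (P.cons (P.lf 0 18054588 0) (P.cons (P.lf 1852986 0 0) P.nil))) (P.cons (P.cons (P.lf 0 2254338 0) (P.cons (P.lf 0 2100123 0) P.nil)) (P.cons (P.cons (P.lf 1336689 0 0) P.nil) P.nil)))))) 3481563)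
 EL.nil)))
noncomputable def S256_314_216_364_26 : EL := (EL.cons 4 (TM.mk (P.cons (P.cons (P.lf 44944626 0 0) (P.cons (P.lf 0 15410742 0) (P.cons (P.lf 0 5658240 0) (P.cons (P.lf 1589613 0 0) (P.cons (P.lf 88950 0 0) (P.cons (P.lf 0 40785 0) P.nil)))))) (P.cons (P.cons (P.lf 47367450 0 0) (P.cons (P.lf 0 24876459 0) (P.cons (P.lf 0 8239464 0) (P.cons (P.lf 3337203 0 0) (P.cons (P.lf 224172 0 0) P.nil))))) (P.cons (P.cons (P.lf 0 43813845 0) (P.cons (P.lf 3661257 0 0) (P.cons (P.lf 2997246 0 0) (P.cons (P.lf 1047900 0 0) P.nil)))) (P.cons (P.cons (P.lf 0 33322074 0) (P.cons (P.lf 16544358 0 0) (P.cons (P.lf 6430647 0 0) P.nil))) (P.cons (P.cons (P.lf 25150077 0 0) (P.cons (P.lf 0 1091991 0) P.nil)) (P.cons (P.cons (P.lf 5791716 0 0) P.nil) P.nil)))))) 34379130)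
 (EL.cons 8 (TM.mk (P.cons (P.cons (P.lf 6899178 0 0) (P.cons (P.lf 0 2365608 0) (P.cons (P.lf 0 868560 0) (P.cons (P.lf 244011 0 0) (P.cons (P.lf 13653 0 0) (P.cons (P.lf 0 6258 0) P.nil)))))) (P.cons (P.cons (P.lf 14395215 0 0) (P.cons (P.lf 0 6261375 0) (P.cons (P.lf 0 2161671 0) (P.cons (P.lf 764241 0 0) (P.cons (P.lf 48510 0 0) P.nil))))) (P.cons (P.cons (P.lf 1127313 0 0) (P.cons (P.lf 0 3499332 0) (P.cons (P.lf 0 889341 0) (P.cons (P.lf 702027 0 0) P.nil)))) (P.cons (P.cons (P.lf 0 11569239 0) (P.cons (P.lf 2885472 0 0) (P.cons (P.lf 1382982 0 0) P.nil))) (P.cons (P.cons (P.lf 0 1613265 0) (P.cons (P.lf 2409030 0 0) P.nil)) (P.cons (P.cons (P.lf 4508481 0 0) P.nil) P.nil)))))) 12177405)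
 (EL.cons 11 (TM.mk (P.cons (P.cons (P.lf 19770477 0 0) (P.cons (P.lf 13324287 0 0) (P.cons (P.lf 0 8832054 0) (P.cons (P.lf 0 1708275 0) (P.cons (P.lf 571413 0 0) (P.cons (P.lf 11901 0 0) P.nil)))))) (P.cons (P.cons (P.lf 24248922 0 0) (P.cons (P.lf 14358879 0 0) (P.cons (P.lf 0 13536036 0) (P.cons (P.lf 0 2607393 0) (P.cons (P.lf 910620 0 0) P.nil))))) (P.cons (P.cons (P.lf 0 8578377 0) (P.cons (P.lf 0 8574564 0) (P.cons (P.lf 25662 0 0) (P.cons (P.lf 20049 0 0) P.nil)))) (P.cons (P.cons (P.lf 0 8520717 0) (P.cons (P.lf 0 5114613 0) (P.cons (P.lf 4662177 0 0) P.nil))) (P.cons (P.cons (P.lf 6128358 0 0) (P.cons (P.lf 5623788 0 0) P.nil)) (P.cons (P.cons (P.lf 740613 0 0) P.nil) P.nil)))))) 12030054)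
 EL.nil)))
noncomputable def S256_314_216_364_27 : EL := (EL.cons 13 (TM.mk (P.lf 0 4294967296 0) 0)
 EL.nil)
noncomputable def S256_314_216_364_28 : EL := (EL.cons 13 (TM.mk (P.cons (P.cons (P.lf 0 1431090255 0) (P.cons (P.lf 368711436 0 0) (P.cons (P.lf 158992532 0 0) (P.lf 0 17665836 0)))) (P.cons (P.cons (P.lf 832849536 0 0) (P.cons (P.lf 0 70991388 0) (P.cons (P.lf 0 30612284 0) (P.lf 3401364 0 0)))) (P.cons (P.cons (P.lf 0 111755823 0) (P.cons (P.lf 0 28697924 0) (P.cons (P.lf 0 12374868 0) (P.lf 1374984 0 0)))) (P.cons (P.cons (P.lf 0 98699578 0) (P.cons (P.lf 6341792 0 0) (P.cons (P.lf 2734652 0 0) P.nil))) (P.cons (P.cons (P.lf 12956843 0 0) (P.cons (P.lf 1040572 0 0) P.nil)) (P.cons (P.cons (P.lf 3684595 0 0) P.nil) P.nil)))))) 2954836)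
 EL.nil)
noncomputable def S256_314_216_364_29 : EL := (EL.cons 13 (TM.mk (P.cons (P.cons (P.lf 0 476841656 0) (P.cons (P.lf 245710528 0 0) (P.cons (P.lf 74300263 0 0) (P.cons (P.lf 0 39070737 0) (P.cons (P.lf 0 2852509 0) (P.cons (P.lf 1307919 0 0) P.nil)))))) (P.cons (P.cons (P.lf 555013704 0 0) (P.cons (P.lf 0 190304700 0) (P.cons (P.lf 0 69872690 0) (P.cons (P.lf 19629877 0 0) (P.cons (P.lf 1098439 0 0) P.nil))))) (P.cons (P.cons (P.lf 0 235974716 0) (P.cons (P.lf 27595774 0 0) (P.cons (P.lf 15653473 0 0) (P.cons (P.lf 1915238 0 0) P.nil)))) (P.cons (P.cons (P.lf 0 22431937 0) (P.cons (P.lf 28607757 0 0) (P.cons (P.lf 10298441 0 0) P.nil))) (P.cons (P.cons (P.lf 44004818 0 0) (P.cons (P.lf 0 8746945 0) P.nil)) (P.cons (P.cons (P.lf 0 7705933 0) P.nil) P.nil)))))) 27554190)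
 EL.nil)
noncomputable def S256_314_216_364_30 : EL := (EL.cons 13 (TM.mk (P.cons (P.lf 0 957715992 0) (P.cons (P.lf 0 927476000 0) (P.cons (P.lf 44405152 0 0) (P.cons (P.lf 13240480 0 0) (P.cons (P.lf 0 1119116 0) (P.cons (P.lf 0 173696 0) P.nil)))))) 29016)
 EL.nil)
noncomputable def S256_314_216_364_31 : EL := (EL.cons 13 (TM.mk (P.cons (P.cons (P.lf 0 319112563 0) (P.cons (P.lf 82217352 0 0) (P.cons (P.lf 35453050 0 0) (P.lf 0 3939227 0)))) (P.cons (P.cons (P.lf 0 123323068 0) (P.cons (P.lf 63791270 0 0) (P.cons (P.lf 27507516 0 0) (P.lf 0 3056390 0)))) (P.cons (P.cons (P.lf 169725482 0 0) (P.cons (P.lf 0 25541511 0) (P.cons (P.lf 0 11013787 0) (P.lf 1223753 0 0)))) (P.cons (P.cons (P.lf 0 50340661 0) (P.cons (P.lf 0 5185728 0) (P.cons (P.lf 0 2236144 0) P.nil))) (P.cons (P.cons (P.lf 0 20209435 0) (P.cons (P.lf 2213138 0 0) P.nil)) (P.cons (P.cons (P.lf 5143673 0 0)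 P.nil) P.nil)))))) 4615430)
 EL.nil)
noncomputable def S256_314_216_364_32 : EL := (EL.cons 13 (TM.mk (P.cons (P.cons (P.lf 0 106328837 0) (P.cons (P.lf 54789917 0 0) (P.cons (P.lf 16567891 0 0) (P.cons (P.lf 0 8712212 0) (P.cons (P.lf 0 636068 0) (P.cons (P.lf 291647 0 0) P.nil)))))) (P.cons (P.cons (P.lf 20788588 0 0) (P.cons (P.lf 10624705 0 0) (P.cons (P.lf 464152 0 0) (P.cons (P.lf 0 4059943 0) (P.cons (P.lf 0 371048 0) P.nil))))) (P.cons (P.cons (P.lf 72163380 0 0) (P.cons (P.lf 0 37482227 0) (P.cons (P.lf 0 12366328 0) (P.cons (P.lf 5069988 0 0) P.nil)))) (P.cons (P.cons (P.lf 0 60227738 0) (P.cons (P.lf 13548347 0 0) (P.cons (P.lf 6170044 0 0) P.nil))) (P.cons (P.cons (P.lf 5572857 0 0) (P.cons (P.lf 4592637 0 0) P.nil)) (P.cons (P.cons (P.lf 8869014 0 0) P.nil) P.nil)))))) 21863933)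
 EL.nil)
noncomputable def S256_314_216_364_33 : EL := (EL.cons 14 (TM.mk (P.lf 8589934592 0 0) 0)
 EL.nil)
noncomputable def S256_314_216_364_34 : EL := (EL.cons 14 (TM.mk (P.cons (P.cons (P.lf 2862180510 0 0) (P.cons (P.lf 0 737422872 0) (P.cons (P.lf 0 317985064 0) (P.lf 35331672 0 0)))) (P.cons (P.cons (P.lf 0 1665699072 0) (P.cons (P.lf 141982776 0 0) (P.cons (P.lf 61224568 0 0) (P.lf 0 6802728 0)))) (P.cons (P.cons (P.lf 223511646 0 0) (P.cons (P.lf 57395848 0 0) (P.cons (P.lf 24749736 0 0) (P.lf 0 2749968 0)))) (P.cons (P.cons (P.lf 197399156 0 0) (P.cons (P.lf 0 12683584 0) (P.cons (P.lf 0 5469304 0) P.nil))) (P.cons (P.cons (P.lf 0 25913686 0) (P.cons (P.lf 0 2081144 0) P.nil)) (P.cons (P.cons (P.lf 0 7369190 0) P.nil) P.nil)))))) 5909672)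
 EL.nil)
noncomputable def S256_314_216_364_35 : EL := (EL.cons 14 (TM.mk (P.cons (P.cons (P.lf 953683312 0 0) (P.cons (P.lf 0 491421056 0) (P.cons (P.lf 0 148600526 0) (P.cons (P.lf 78141474 0 0) (P.cons (P.lf 5705018 0 0) (P.cons (P.lf 0 2615838 0) P.nil)))))) (P.cons (P.cons (P.lf 0 1110027408 0) (P.cons (P.lf 380609400 0 0) (P.cons (P.lf 139745380 0 0) (P.cons (P.lf 0 39259754 0) (P.cons (P.lf 0 2196878 0) P.nil))))) (P.cons (P.cons (P.lf 471949432 0 0) (P.cons (P.lf 0 55191548 0) (P.cons (P.lf 0 31306946 0) (P.cons (P.lf 0 3830476 0) P.nil)))) (P.cons (P.cons (P.lf 44863874 0 0) (P.cons (P.lf 0 57215514 0) (P.cons (P.lf 0 20596882 0) P.nil))) (P.cons (P.cons (P.lf 0 88009636 0) (P.cons (P.lf 17493890 0 0) P.nil)) (P.cons (P.cons (P.lf 15411866 0 0) P.nil) P.nil)))))) 55108380)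
 EL.nil)
noncomputable def S256_314_216_364_36 : EL := (EL.cons 14 (TM.mk (P.cons (P.lf 1915431984 0 0) (P.cons (P.lf 1854952000 0 0) (P.cons (P.lf 0 88810304 0) (P.cons (P.lf 0 26480960 0) (P.cons (P.lf 2238232 0 0) (P.cons (P.lf 347392 0 0) P.nil)))))) 58032)
 EL.nil)
noncomputable def S256_314_216_364_37 : EL := (EL.cons 14 (TM.mk (P.cons (P.cons (P.lf 638225126 0 0) (P.cons (P.lf 0 164434704 0) (P.cons (P.lf 0 70906100 0) (P.lf 7878454 0 0)))) (P.cons (P.cons (P.lf 246646136 0 0) (P.cons (P.lf 0 127582540 0) (P.cons (P.lf 0 55015032 0) (P.lf 6112780 0 0)))) (P.cons (P.cons (P.lf 0 339450964 0) (P.cons (P.lf 51083022 0 0) (P.cons (P.lf 22027574 0 0) (P.lf 0 2447506 0)))) (P.cons (P.cons (P.lf 100681322 0 0) (P.cons (P.lf 10371456 0 0) (P.cons (P.lf 4472288 0 0) P.nil))) (P.cons (P.cons (P.lf 40418870 0 0) (P.cons (P.lf 0 4426276 0) P.nil)) (P.cons (P.cons (P.lf 0 10287346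 0) P.nil) P.nil)))))) 9230860)
 EL.nil)
noncomputable def S256_314_216_364_38 : EL := (EL.cons 14 (TM.mk (P.cons (P.cons (P.lf 212657674 0 0) (P.cons (P.lf 0 109579834 0) (P.cons (P.lf 0 33135782 0) (P.cons (P.lf 17424424 0 0) (P.cons (P.lf 1272136 0 0) (P.cons (P.lf 0 583294 0) P.nil)))))) (P.cons (P.cons (P.lf 0 41577176 0) (P.cons (P.lf 0 21249410 0) (P.cons (P.lf 0 928304 0) (P.cons (P.lf 8119886 0 0) (P.cons (P.lf 742096 0 0) P.nil))))) (P.cons (P.cons (P.lf 0 144326760 0) (P.cons (P.lf 74964454 0 0) (P.cons (P.lf 24732656 0 0) (P.cons (P.lf 0 10139976 0) P.nil)))) (P.cons (P.cons (P.lf 120455476 0 0) (P.cons (P.lf 0 27096694 0) (P.cons (P.lf 0 12340088 0) P.nil))) (P.cons (P.cons (P.lf 0 11145714 0) (P.cons (P.lf 0 9185274 0) P.nil)) (P.cons (P.cons (P.lf 0 17738028 0) P.nil) P.nil)))))) 43727866)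
 EL.nil)
noncomputable def S256_314_216_364_39 : EL := (EL.cons 14 (TM.mk (P.cons (P.lf 427113808 0 0) (P.cons (P.lf 827255282 0 0) (P.cons (P.lf 360960458 0 0) (P.cons (P.lf 0 50165998 0) (P.cons (P.lf 0 9520466 0) (P.cons (P.lf 1669162 0 0) P.nil)))))) 354406)
 EL.nil)
noncomputable def S256_314_216_364_40 : EL := (EL.cons 14 (TM.mk (P.cons (P.cons (P.lf 142315032 0 0) (P.cons (P.lf 0 36666576 0) (P.cons (P.lf 0 15811040 0) (P.lf 1756782 0 0)))) (P.cons (P.cons (P.lf 192819962 0 0) (P.cons (P.lf 0 63957898 0) (P.cons (P.lf 0 27579366 0) (P.lf 3064374 0 0)))) (P.cons (P.cons (P.lf 0 29029260 0) (P.cons (P.lf 0 14459938 0) (P.cons (P.lf 0 6235288 0) (P.lf 692810 0 0)))) (P.cons (P.cons (P.lf 0 55369750 0) (P.cons (P.lf 15169778 0 0) (P.cons (P.lf 6541378 0 0) P.nil))) (P.cons (P.cons (P.lf 33669922 0 0) (P.cons (P.lf 1074988 0 0) P.nil)) (P.cons (P.cons (P.lf 6529916 0 0)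 P.nil) P.nil)))))) 11303492)
 EL.nil)
noncomputable def S256_314_216_364_41 : EL := (EL.cons 14 (TM.mk (P.cons (P.cons (P.lf 47419604 0 0) (P.cons (P.lf 0 24434728 0) (P.cons (P.lf 0 7388802 0) (P.cons (P.lf 3885396 0 0) (P.cons (P.lf 283668 0 0) (P.cons (P.lf 0 130066 0) P.nil)))))) (P.cons (P.cons (P.lf 36651212 0 0) (P.cons (P.lf 0 28401512 0) (P.cons (P.lf 0 7362498 0) (P.cons (P.lf 5573332 0 0) (P.cons (P.lf 440188 0 0) P.nil))))) (P.cons (P.cons (P.lf 0 43359812 0) (P.cons (P.lf 13260228 0 0) (P.cons (P.lf 5657150 0 0) (P.cons (P.lf 0 687770 0) P.nil)))) (P.cons (P.cons (P.lf 0 4532494 0) (P.cons (P.lf 10703518 0 0) (P.cons (P.lf 2700974 0 0) P.nil))) (P.cons (P.cons (P.lf 25202164 0 0) (P.cons (P.lf 0 8637668 0) P.nil)) (P.cons (P.cons (P.lf 0 7164864 0) P.nil) P.nil)))))) 34746882)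
 EL.nil)
noncomputable def S256_314_216_364_42 : EL := (EL.cons 14 (TM.mk (P.cons (P.lf 95240240 0 0) (P.cons (P.lf 276699060 0 0) (P.cons (P.lf 254714620 0 0) (P.cons (P.lf 56891654 0 0) (P.cons (P.lf 0 19126904 0) (P.cons (P.lf 0 2044974 0) P.nil)))))) 997622)
 EL.nil)
noncomputable def S256_314_216_364_43 : EL := (EL.cons 14 (TM.mk (P.cons (P.cons (P.lf 31734206 0 0) (P.cons (P.lf 0 8176118 0) (P.cons (P.lf 0 3525634 0) (P.lf 391736 0 0)))) (P.cons (P.cons (P.lf 73728276 0 0) (P.cons (P.lf 0 22179648 0) (P.cons (P.lf 0 9564114 0) (P.lf 1062678 0 0)))) (P.cons (P.cons (P.lf 33693988 0 0) (P.cons (P.lf 0 16656644 0) (P.cons (P.lf 0 7182532 0) (P.lf 798058 0 0)))) (P.cons (P.cons (P.lf 0 21047646 0) (P.cons (P.lf 1034380 0 0) (P.cons (P.lf 446036 0 0) P.nil))) (P.cons (P.cons (P.lf 0 4706112 0) (P.cons (P.lf 3852656 0 0) P.nil)) (P.cons (P.cons (P.lf 9444872 0 0) P.nil) P.nil))))))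 10648478)
 EL.nil)
noncomputable def S256_314_216_364_44 : EL := (EL.cons 14 (TM.mk (P.cons (P.cons (P.lf 10573890 0 0) (P.cons (P.lf 0 5448592 0) (P.cons (P.lf 0 1647596 0) (P.cons (P.lf 866386 0 0) (P.cons (P.lf 63252 0 0) (P.cons (P.lf 0 29002 0) P.nil)))))) (P.cons (P.cons (P.lf 18412712 0 0) (P.cons (P.lf 0 11609682 0) (P.cons (P.lf 0 3237304 0) (P.cons (P.lf 2081804 0 0) (P.cons (P.lf 159412 0 0) P.nil))))) (P.cons (P.cons (P.lf 0 2244240 0) (P.cons (P.lf 0 2923690 0) (P.cons (P.lf 0 252038 0) (P.cons (P.lf 1009998 0 0) P.nil)))) (P.cons (P.cons (P.lf 0 10899124 0) (P.cons (P.lf 5619174 0 0) (P.cons (P.lf 1922808 0 0) P.nil))) (P.cons (P.cons (P.lf 4988610 0 0) (P.cons (P.lf 329386 0 0) P.nil)) (P.cons (P.cons (P.lf 4036612 0 0) P.nil) P.nil)))))) 23738946)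
 EL.nil)
noncomputable def S256_314_216_364_45 : EL := (EL.cons 14 (TM.mk (P.cons (P.cons (P.lf 317768866 0 0) (P.cons (P.lf 0 245613470 0) (P.cons (P.lf 0 42630528 0) (P.cons (P.lf 60908054 0 0) (P.cons (P.lf 0 1327658 0) (P.cons (P.lf 0 4865244 0) P.nil)))))) (P.cons (P.cons (P.lf 0 554794470 0) (P.cons (P.lf 333168846 0 0) (P.cons (P.lf 82470690 0 0) (P.cons (P.lf 0 65600120 0) (P.cons (P.lf 0 1453944 0) P.nil))))) (P.cons (P.cons (P.lf 397317974 0 0) (P.cons (P.lf 0 157472774 0) (P.cons (P.lf 0 56285676 0) (P.cons (P.lf 18229400 0 0) P.nil)))) (P.cons (P.cons (P.lf 0 83535560 0) (P.cons (P.lf 0 14627134 0) (P.cons (P.lf 4595052 0 0) P.nil))) (P.cons (P.cons (P.lf 0 54130202 0) (P.cons (P.lf 38575098 0 0) P.nil)) (P.cons (P.cons (P.lf 36744884 0 0) P.nil) P.nil)))))) 128121110)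
 EL.nil)
noncomputable def S256_314_216_364_46 : EL := (EL.cons 15 (TM.mk (P.lf 4294967296 0 0) 0)
 EL.nil)
noncomputable def S256_314_216_364_47 : EL := (EL.cons 15 (TM.mk (P.cons (P.cons (P.lf 1431090255 0 0) (P.cons (P.lf 0 368711436 0) (P.cons (P.lf 0 158992532 0) (P.lf 17665836 0 0)))) (P.cons (P.cons (P.lf 0 832849536 0) (P.cons (P.lf 70991388 0 0) (P.cons (P.lf 30612284 0 0) (P.lf 0 3401364 0)))) (P.cons (P.cons (P.lf 111755823 0 0) (P.cons (P.lf 28697924 0 0) (P.cons (P.lf 12374868 0 0) (P.lf 0 1374984 0)))) (P.cons (P.cons (P.lf 98699578 0 0) (P.cons (P.lf 0 6341792 0) (P.cons (P.lf 0 2734652 0) P.nil))) (P.cons (P.cons (P.lf 0 12956843 0) (P.cons (P.lf 0 1040572 0) P.nil)) (P.cons (P.cons (P.lf 0 3684595 0) P.nil) P.nil)))))) 2954836)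
 EL.nil)
noncomputable def S256_314_216_364_48 : EL := (EL.cons 15 (TM.mk (P.cons (P.cons (P.lf 476841656 0 0) (P.cons (P.lf 0 245710528 0) (P.cons (P.lf 0 74300263 0) (P.cons (P.lf 39070737 0 0) (P.cons (P.lf 2852509 0 0) (P.cons (P.lf 0 1307919 0) P.nil)))))) (P.cons (P.cons (P.lf 0 555013704 0) (P.cons (P.lf 190304700 0 0) (P.cons (P.lf 69872690 0 0) (P.cons (P.lf 0 19629877 0) (P.cons (P.lf 0 1098439 0) P.nil))))) (P.cons (P.cons (P.lf 235974716 0 0) (P.cons (P.lf 0 27595774 0) (P.cons (P.lf 0 15653473 0) (P.cons (P.lf 0 1915238 0) P.nil)))) (P.cons (P.cons (P.lf 22431937 0 0) (P.cons (P.lf 0 28607757 0) (P.cons (P.lf 0 10298441 0) P.nil))) (P.cons (P.cons (P.lf 0 44004818 0) (P.cons (P.lf 8746945 0 0) P.nil)) (P.cons (P.cons (P.lf 7705933 0 0) P.nil) P.nil)))))) 27554190)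
 EL.nil)
noncomputable def S256_314_216_364 : SL := (SL.cons S256_314_216_364_0 (SL.cons S256_314_216_364_1 (SL.cons S256_314_216_364_2 (SL.cons S256_314_216_364_3 (SL.cons S256_314_216_364_4 (SL.cons S256_314_216_364_5 (SL.cons S256_314_216_364_6 (SL.cons S256_314_216_364_7 (SL.cons S256_314_216_364_8 (SL.cons S256_314_216_364_9 (SL.cons S256_314_216_364_10 (SL.cons S256_314_216_364_11 (SL.cons S256_314_216_364_12 (SL.cons S256_314_216_364_13 (SL.cons S256_314_216_364_14 (SL.cons S256_314_216_364_15 (SL.cons S256_314_216_364_16 (SL.cons S256_314_216_364_17 (SL.cons S256_314_216_364_18 (SL.cons S256_314_216_364_19 (SL.cons S256_314_216_364_20 (SL.cons S256_314_216_364_21 (SL.cons S256_314_216_364_22 (SL.cons S256_314_216_364_23 (SL.cons S256_314_216_364_24 (SL.cons S256_314_216_364_25 (SL.cons S256_314_216_364_26 (SL.cons S256_314_216_364_27 (SL.cons S256_314_216_364_28 (SL.cons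 S256_314_216_364_29 (SL.cons S256_314_216_364_30 (SL.cons S256_314_216_364_31 (SL.cons S256_314_216_364_32 (SL.cons S256_314_216_364_33 (SL.cons S256_314_216_364_34 (SL.cons S256_314_216_364_35 (SL.cons S256_314_216_364_36 (SL.cons S256_314_216_364_37 (SL.cons S256_314_216_364_38 (SL.cons S256_314_216_364_39 (SL.cons S256_314_216_364_40 (SL.cons S256_314_216_364_41 (SL.cons S256_314_216_364_42 (SL.cons S256_314_216_364_43 (SL.cons S256_314_216_364_44 (SL.cons S256_314_216_364_45 (SL.cons S256_314_216_364_46 (SL.cons S256_314_216_364_47 (SL.cons S256_314_216_364_48 SL.nil)))))))))))))))))))))))))))))))))))))))))))))))))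
noncomputable def S256_314_364_438_0 : EL := (EL.cons 0 (TM.mk (P.cons (P.lf 8080323868 0 0) (P.cons (P.lf 0 727079837 0) (P.cons (P.lf 0 317250402 0) (P.cons (P.lf 44091209 0 0) (P.cons (P.lf 8367597 0 0) (P.cons (P.lf 0 1467036 0) P.nil)))))) 311496)
 (EL.cons 1 (TM.mk (P.cons (P.lf 869508750 0 0) (P.cons (P.lf 786249082 0 0) (P.cons (P.lf 0 120498519 0) (P.cons (P.lf 0 33042157 0) (P.cons (P.lf 5010903 0 0) (P.cons (P.lf 683975 0 0) P.nil)))))) 177172)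
 (EL.cons 5 (TM.mk (P.cons (P.lf 4428440364 0 0) (P.cons (P.lf 258517274 0 0) (P.cons (P.lf 112800140 0 0) (P.cons (P.lf 0 15676876 0) (P.cons (P.lf 0 2975142 0) (P.cons (P.lf 521612 0 0) P.nil)))))) 117185)
 (EL.cons 9 (TM.mk (P.lf 6442450944 0 0) 2)
 EL.nil))))
noncomputable def S256_314_364_438_1 : EL := (EL.cons 0 (TM.mk (P.cons (P.cons (P.lf 179988375 0 0) (P.cons (P.lf 0 588107069 0) (P.cons (P.lf 0 32178860 0) (P.lf 3575429 0 0)))) (P.cons (P.cons (P.lf 0 1724450518 0) (P.cons (P.lf 359188122 0 0) (P.cons (P.lf 19653320 0 0) (P.lf 0 2183691 0)))) (P.cons (P.cons (P.lf 1288304225 0 0) (P.cons (P.lf 105736832 0 0) (P.cons (P.lf 5785489 0 0) (P.lf 0 642827 0)))) (P.cons (P.cons (P.lf 401006775 0 0) (P.cons (P.lf 0 64836819 0) (P.cons (P.lf 0 3547596 0) P.nil))) (P.cons (P.cons (P.lf 0 208945988 0) (P.cons (P.lf 0 5741118 0) P.nil)) (P.cons (P.cons (P.lf 0 23577984 0)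 P.nil) P.nil)))))) 32181370)
 (EL.cons 1 (TM.mk (P.cons (P.cons (P.lf 1102568485 0 0) (P.cons (P.lf 0 176524458 0) (P.cons (P.lf 0 9658705 0) (P.lf 1073185 0 0)))) (P.cons (P.cons (P.lf 0 793313271 0) (P.cons (P.lf 0 110537099 0) (P.cons (P.lf 0 6048142 0) (P.lf 672013 0 0)))) (P.cons (P.cons (P.lf 0 457663949 0) (P.cons (P.lf 88205030 0 0) (P.cons (P.lf 4826215 0 0) (P.lf 0 536239 0)))) (P.cons (P.cons (P.lf 312354427 0 0) (P.cons (P.lf 12581659 0 0) (P.cons (P.lf 688414 0 0) P.nil))) (P.cons (P.cons (P.lf 52443176 0 0) (P.cons (P.lf 0 10712680 0) P.nil)) (P.cons (P.cons (P.lf 0 33671287 0) P.nil) P.nil)))))) 16771164)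
 (EL.cons 5 (TM.mk (P.cons (P.cons (P.lf 921854696 0 0) (P.cons (P.lf 0 408373212 0) (P.cons (P.lf 0 22344538 0) (P.lf 2482726 0 0)))) (P.cons (P.cons (P.lf 0 524101540 0) (P.cons (P.lf 0 8822648 0) (P.cons (P.lf 0 482734 0) (P.lf 53632 0 0)))) (P.cons (P.cons (P.lf 0 155454209 0) (P.cons (P.lf 10464862 0 0) (P.cons (P.lf 572598 0 0) (P.lf 0 63624 0)))) (P.cons (P.cons (P.lf 320827 0 0) (P.cons (P.lf 12432540 0 0) (P.cons (P.lf 680254 0 0) P.nil))) (P.cons (P.cons (P.lf 48181547 0 0) (P.cons (P.lf 298642 0 0) P.nil)) (P.cons (P.cons (P.lf 3269397 0 0) P.nil) P.nil)))))) 14311623)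
 (EL.cons 9 (TM.mk (P.cons (P.cons (P.lf 869868136 0 0) (P.cons (P.lf 0 544833474 0) (P.cons (P.lf 0 29811096 0) (P.lf 3312342 0 0)))) (P.cons (P.cons (P.lf 0 1003446606 0) (P.cons (P.lf 104901780 0 0) (P.cons (P.lf 5739798 0 0) (P.lf 0 637752 0)))) (P.cons (P.cons (P.lf 267008392 0 0) (P.cons (P.lf 42406032 0 0) (P.cons (P.lf 2320284 0 0) (P.lf 0 257808 0)))) (P.cons (P.cons (P.lf 126089121 0 0) (P.cons (P.lf 0 9371070 0) (P.cons (P.lf 0 512742 0) P.nil))) (P.cons (P.cons (P.lf 0 23038546 0) (P.cons (P.lf 0 1537620 0) P.nil)) (P.cons (P.cons (P.lf 0 4512238 0) P.nil) P.nil)))))) 2540473)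
 (EL.cons 2 (TM.mk (P.cons (P.cons (P.lf 0 529742761 0) (P.cons (P.lf 0 66469986 0) (P.cons (P.lf 10148245 0 0) (P.cons (P.lf 310027 0 0) (P.lf 0 25832 0))))) (P.cons (P.cons (P.lf 0 445018590 0) (P.cons (P.lf 0 55839138 0) (P.cons (P.lf 8525190 0 0) (P.cons (P.lf 260443 0 0) (P.lf 0 21701 0))))) (P.cons (P.cons (P.lf 120082021 0 0) (P.cons (P.lf 15067406 0 0) (P.cons (P.lf 0 2300402 0) (P.cons (P.lf 0 70275 0) P.nil)))) (P.cons (P.cons (P.lf 28780365 0 0) (P.cons (P.lf 3611241 0 0) (P.cons (P.lf 0 551342 0) P.nil))) (P.cons (P.cons (P.lf 0 7710558 0) (P.cons (P.lf 0 967488 0) P.nil)) (P.cons (P.cons (P.lf 0 856257 0) P.nil) P.nil)))))) 871181)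
 (EL.cons 6 (TM.mk (P.cons (P.cons (P.lf 1227023340 0 0) (P.cons (P.lf 153961941 0 0) (P.cons (P.lf 0 23506002 0) (P.cons (P.lf 0 718104 0) (P.lf 59841 0 0))))) (P.cons (P.cons (P.lf 0 236250045 0) (P.cons (P.lf 0 29643702 0) (P.cons (P.lf 4525824 0 0) (P.cons (P.lf 138261 0 0) (P.lf 0 11520 0))))) (P.cons (P.cons (P.lf 0 95502936 0) (P.cons (P.lf 0 11983323 0) (P.cons (P.lf 1829541 0 0) (P.cons (P.lf 55890 0 0) P.nil)))) (P.cons (P.cons (P.lf 21104655 0 0) (P.cons (P.lf 2648127 0 0) (P.cons (P.lf 0 404298 0) P.nil))) (P.cons (P.cons (P.lf 3462891 0 0) (P.cons (P.lf 434508 0 0) P.nil)) (P.cons (P.cons (P.lf 0 975120 0) P.nil) P.nil)))))) 543147)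
 EL.nil))))))
noncomputable def S256_314_364_438_2 : EL := (EL.cons 0 (TM.mk (P.cons (P.cons (P.lf 0 98705850 0) (P.cons (P.lf 0 4724082 0) (P.cons (P.lf 41422922 0 0) (P.cons (P.lf 4589999 0 0) (P.cons (P.lf 0 382028 0) (P.cons (P.lf 0 27737 0) P.nil)))))) (P.cons (P.cons (P.lf 0 168624984 0) (P.cons (P.lf 312725959 0 0) (P.cons (P.lf 0 35339837 0) (P.cons (P.lf 0 7641034 0) (P.cons (P.lf 480714 0 0) P.nil))))) (P.cons (P.cons (P.lf 588742348 0 0) (P.cons (P.lf 0 305404295 0) (P.cons (P.lf 0 23519440 0) (P.cons (P.lf 1111590 0 0) P.nil)))) (P.cons (P.cons (P.lf 0 355681968 0) (P.cons (P.lf 0 53938441 0) (P.cons (P.lf 12372158 0 0) P.nil))) (P.cons (P.cons (P.lf 0 92750108 0) (P.cons (P.lf 90746025 0 0) P.nil)) (P.cons (P.cons (P.lf 126399770 0 0) P.nil) P.nil)))))) 156086473)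
 (EL.cons 1 (TM.mk (P.cons (P.cons (P.lf 281888669 0 0) (P.cons (P.lf 0 214298741 0) (P.cons (P.lf 11912836 0 0) (P.cons (P.lf 3889629 0 0) (P.cons (P.lf 0 216647 0) (P.cons (P.lf 0 15723 0) P.nil)))))) (P.cons (P.cons (P.lf 0 535452252 0) (P.cons (P.lf 186451401 0 0) (P.cons (P.lf 19920753 0 0) (P.cons (P.lf 0 69984 0) (P.cons (P.lf 0 89069 0) P.nil))))) (P.cons (P.cons (P.lf 219370464 0 0) (P.cons (P.lf 91746922 0 0) (P.cons (P.lf 0 12057748 0) (P.cons (P.lf 0 2426623 0) P.nil)))) (P.cons (P.cons (P.lf 178607026 0 0) (P.cons (P.lf 0 106656951 0) (P.cons (P.lf 0 5862008 0) P.nil))) (P.cons (P.cons (P.lf 0 146580745 0) (P.cons (P.lf 0 4048030 0) P.nil)) (P.cons (P.cons (P.lf 0 10884793 0) P.nil) P.nil)))))) 87701284)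
 (EL.cons 5 (TM.mk (P.cons (P.cons (P.lf 168206230 0 0) (P.cons (P.lf 0 165065673 0) (P.cons (P.lf 28367876 0 0) (P.cons (P.lf 5096233 0 0) (P.cons (P.lf 0 342771 0) (P.cons (P.lf 0 24876 0) P.nil)))))) (P.cons (P.cons (P.lf 0 247147565 0) (P.cons (P.lf 113264632 0 0) (P.cons (P.lf 4737940 0 0) (P.cons (P.lf 0 848315 0) (P.cons (P.lf 13392 0 0) P.nil))))) (P.cons (P.cons (P.lf 49518063 0 0) (P.cons (P.lf 33348426 0 0) (P.cons (P.lf 0 1947332 0) (P.cons (P.lf 0 615514 0) P.nil)))) (P.cons (P.cons (P.lf 70787917 0 0) (P.cons (P.lf 0 12976513 0) (P.cons (P.lf 0 2796883 0) P.nil))) (P.cons (P.cons (P.lf 0 6046610 0) (P.cons (P.lf 0 16373745 0) P.nil)) (P.cons (P.cons (P.lf 0 26344336 0) P.nil) P.nil)))))) 73116606)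
 (EL.cons 9 (TM.mk (P.cons (P.cons (P.lf 117450730 0 0) (P.cons (P.lf 0 147128253 0) (P.cons (P.lf 38025910 0 0) (P.cons (P.lf 5936679 0 0) (P.cons (P.lf 0 422299 0) (P.cons (P.lf 0 30654 0) P.nil)))))) (P.cons (P.cons (P.lf 0 270973341 0) (P.cons (P.lf 198049474 0 0) (P.cons (P.lf 0 6906468 0) (P.cons (P.lf 0 3145693 0) (P.cons (P.lf 162618 0 0) P.nil))))) (P.cons (P.cons (P.lf 228395883 0 0) (P.cons (P.lf 0 66388021 0) (P.cons (P.lf 0 9096874 0) (P.cons (P.lf 0 194368 0) P.nil)))) (P.cons (P.cons (P.lf 0 49126569 0) (P.cons (P.lf 0 28371717 0) (P.cons (P.lf 1413610 0 0) P.nil))) (P.cons (P.cons (P.lf 0 34433310 0) (P.cons (P.lf 14021914 0 0) P.nil)) (P.cons (P.cons (P.lf 16409826 0 0) P.nil) P.nil)))))) 18432406)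
 (EL.cons 2 (TM.mk (P.cons (P.cons (P.lf 0 143053115 0) (P.cons (P.lf 71650203 0 0) (P.cons (P.lf 18885639 0 0) (P.cons (P.lf 0 1562310 0) (P.cons (P.lf 0 221681 0) (P.cons (P.lf 11930 0 0) P.nil)))))) (P.cons (P.cons (P.lf 44846623 0 0) (P.cons (P.lf 63645480 0 0) (P.cons (P.lf 9595305 0 0) (P.cons (P.lf 0 1092093 0) (P.cons (P.lf 0 136839 0) P.nil))))) (P.cons (P.cons (P.lf 127144822 0 0) (P.cons (P.lf 0 25823098 0) (P.cons (P.lf 0 9963528 0) (P.cons (P.lf 693061 0 0) P.nil)))) (P.cons (P.cons (P.lf 0 87258487 0) (P.cons (P.lf 0 16223512 0) (P.cons (P.lf 721147 0 0) P.nil))) (P.cons (P.cons (P.lf 0 14724618 0) (P.cons (P.lf 3522144 0 0) P.nil)) (P.cons (P.cons (P.lf 13181580 0 0) P.nil) P.nil)))))) 13354520)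
 (EL.cons 6 (TM.mk (P.cons (P.cons (P.lf 331348584 0 0) (P.cons (P.lf 0 165960684 0) (P.cons (P.lf 0 43744110 0) (P.cons (P.lf 3618726 0 0) (P.cons (P.lf 513468 0 0) (P.cons (P.lf 0 27642 0) P.nil)))))) (P.cons (P.cons (P.lf 0 446028630 0) (P.cons (P.lf 23952114 0 0) (P.cons (P.lf 22945110 0 0) (P.cons (P.lf 0 1207128 0) (P.cons (P.lf 0 213252 0) P.nil))))) (P.cons (P.cons (P.lf 149512932 0 0) (P.cons (P.lf 43373064 0 0) (P.cons (P.lf 1570812 0 0) (P.cons (P.lf 0 539658 0) P.nil)))) (P.cons (P.cons (P.lf 63896148 0 0) (P.cons (P.lf 0 5342046 0) (P.cons (P.lf 0 3631320 0) P.nil))) (P.cons (P.cons (P.lf 0 31578852 0) (P.cons (P.lf 0 5016474 0) P.nil)) (P.cons (P.cons (P.lf 0 3360078 0) P.nil) P.nil)))))) 9484770)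
 EL.nil))))))
noncomputable def S256_314_364_438_3 : EL := (EL.cons 0 (TM.mk (P.cons (P.lf 375392995 0 0) (P.cons (P.lf 727079837 0 0) (P.cons (P.lf 317250402 0 0) (P.cons (P.lf 0 44091209 0) (P.cons (P.lf 0 8367597 0) (P.cons (P.lf 1467036 0 0) P.nil)))))) 311496)
 (EL.cons 1 (TM.mk (P.cons (P.lf 0 869508750 0) (P.cons (P.lf 0 786249082 0) (P.cons (P.lf 120498519 0 0) (P.cons (P.lf 33042157 0 0) (P.cons (P.lf 0 5010903 0) (P.cons (P.lf 0 683975 0) P.nil)))))) 177172)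
 (EL.cons 5 (TM.mk (P.cons (P.lf 2014010580 0 0) (P.cons (P.lf 0 258517274 0) (P.cons (P.lf 0 112800140 0) (P.cons (P.lf 15676876 0 0) (P.cons (P.lf 2975142 0 0) (P.cons (P.lf 0 521612 0) P.nil)))))) 117178)
 EL.nil)))
noncomputable def S256_314_364_438_4 : EL := (EL.cons 0 (TM.mk (P.cons (P.cons (P.lf 50686050 0 0) (P.cons (P.lf 0 31746716 0) (P.cons (P.lf 0 1737050 0) (P.lf 193004 0 0)))) (P.cons (P.cons (P.lf 39701777 0 0) (P.cons (P.lf 0 55376135 0) (P.cons (P.lf 0 3029958 0) (P.lf 336661 0 0)))) (P.cons (P.cons (P.lf 0 54852834 0) (P.cons (P.lf 0 12519727 0) (P.cons (P.lf 0 685028 0) (P.lf 76113 0 0)))) (P.cons (P.cons (P.lf 0 17885736 0) (P.cons (P.lf 13134322 0 0) (P.cons (P.lf 718655 0 0) P.nil))) (P.cons (P.cons (P.lf 31773828 0 0) (P.cons (P.lf 930747 0 0) P.nil)) (P.cons (P.cons (P.lf 3020113 0 0) P.nil) P.nil)))))) 6380554)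
 (EL.cons 1 (TM.mk (P.cons (P.cons (P.lf 0 117402204 0) (P.cons (P.lf 73533733 0 0) (P.cons (P.lf 4023468 0 0) (P.lf 0 447050 0)))) (P.cons (P.cons (P.lf 29270315 0 0) (P.cons (P.lf 52334398 0 0) (P.cons (P.lf 2863526 0 0) (P.lf 0 318168 0)))) (P.cons (P.cons (P.lf 102695490 0 0) (P.cons (P.lf 0 28716240 0) (P.cons (P.lf 0 1571235 0) (P.lf 174579 0 0)))) (P.cons (P.cons (P.lf 0 63910801 0) (P.cons (P.lf 0 4742827 0) (P.cons (P.lf 0 259507 0) P.nil))) (P.cons (P.cons (P.lf 0 13107740 0) (P.cons (P.lf 3106134 0 0) P.nil)) (P.cons (P.cons (P.lf 7836575 0 0) P.nil) P.nil)))))) 4307299)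
 (EL.cons 5 (TM.mk (P.cons (P.cons (P.lf 271934336 0 0) (P.cons (P.lf 0 170323434 0) (P.cons (P.lf 0 9319412 0) (P.lf 1035488 0 0)))) (P.cons (P.cons (P.lf 0 348598388 0) (P.cons (P.lf 54656552 0 0) (P.cons (P.lf 2990584 0 0) (P.lf 0 332284 0)))) (P.cons (P.cons (P.lf 108506026 0 0) (P.cons (P.lf 18586802 0 0) (P.cons (P.lf 1016994 0 0) (P.lf 0 112998 0)))) (P.cons (P.cons (P.lf 48389078 0 0) (P.cons (P.lf 0 7793670 0) (P.cons (P.lf 0 426436 0) P.nil))) (P.cons (P.cons (P.lf 0 18976876 0) (P.cons (P.lf 0 843472 0) P.nil)) (P.cons (P.cons (P.lf 0 2577896 0) P.nil) P.nil)))))) 2995802)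
 EL.nil)))
noncomputable def S256_314_364_438_5 : EL := (EL.cons 0 (TM.mk (P.cons (P.cons (P.lf 6843696 0 0) (P.cons (P.lf 0 8572965 0) (P.cons (P.lf 2215717 0 0) (P.cons (P.lf 345921 0 0) (P.cons (P.lf 0 24605 0) (P.cons (P.lf 0 1785 0) P.nil)))))) (P.cons (P.cons (P.lf 0 2534039 0) (P.cons (P.lf 0 5064468 0) (P.cons (P.lf 3889082 0 0) (P.cons (P.lf 486703 0 0) (P.cons (P.lf 0 38183 0) P.nil))))) (P.cons (P.cons (P.lf 0 11489375 0) (P.cons (P.lf 11237909 0 0) (P.cons (P.lf 563027 0 0) (P.cons (P.lf 0 73995 0) P.nil)))) (P.cons (P.cons (P.lf 8766123 0 0) (P.cons (P.lf 1614042 0 0) (P.cons (P.lf 0 1544626 0) P.nil))) (P.cons (P.cons (P.lf 5398330 0 0) (P.cons (P.lf 0 6818449 0) P.nil)) (P.cons (P.cons (P.lf 0 6533476 0) P.nil) P.nil)))))) 15998539)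
 (EL.cons 1 (TM.mk (P.cons (P.cons (P.lf 0 15851797 0) (P.cons (P.lf 19857240 0 0) (P.cons (P.lf 0 5132186 0) (P.cons (P.lf 0 801245 0) (P.cons (P.lf 56994 0 0) (P.cons (P.lf 4136 0 0) P.nil)))))) (P.cons (P.cons (P.lf 22238143 0 0) (P.cons (P.lf 0 8774034 0) (P.cons (P.lf 0 3708618 0) (P.cons (P.lf 0 299962 0) (P.cons (P.lf 29589 0 0) P.nil))))) (P.cons (P.cons (P.lf 4441314 0 0) (P.cons (P.lf 0 17962104 0) (P.cons (P.lf 2781871 0 0) (P.cons (P.lf 521176 0 0) P.nil)))) (P.cons (P.cons (P.lf 0 25709334 0) (P.cons (P.lf 14881014 0 0) (P.cons (P.lf 985260 0 0) P.nil))) (P.cons (P.cons (P.lf 13433561 0 0) (P.cons (P.lf 1458547 0 0) P.nil)) (P.cons (P.cons (P.lf 2438383 0 0) P.nil) P.nil)))))) 13138520)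
 (EL.cons 5 (TM.mk (P.cons (P.cons (P.lf 36716928 0 0) (P.cons (P.lf 0 45994584 0) (P.cons (P.lf 11887490 0 0) (P.cons (P.lf 1855898 0 0) (P.cons (P.lf 0 132016 0) (P.cons (P.lf 0 9582 0) P.nil)))))) (P.cons (P.cons (P.lf 0 89423452 0) (P.cons (P.lf 67817190 0 0) (P.cons (P.lf 0 3684940 0) (P.cons (P.lf 0 1221614 0) (P.cons (P.lf 67782 0 0) P.nil))))) (P.cons (P.cons (P.lf 80217072 0 0) (P.cons (P.lf 0 26125040 0) (P.cons (P.lf 0 3232478 0) (P.cons (P.lf 0 38478 0) P.nil)))) (P.cons (P.cons (P.lf 0 19492366 0) (P.cons (P.lf 0 10031120 0) (P.cons (P.lf 1020402 0 0) P.nil))) (P.cons (P.cons (P.lf 0 13397176 0) (P.cons (P.lf 7098308 0 0) P.nil)) (P.cons (P.cons (P.lf 7792954 0 0) P.nil) P.nil)))))) 11304116)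
 EL.nil)))
noncomputable def S256_314_364_438_6 : EL := (EL.cons 12 (TM.mk (P.lf 8589934592 0 0) 0)
 (EL.cons 3 (TM.mk (P.cons (P.lf 897858742 0 0) (P.cons (P.lf 869508750 0 0) (P.cons (P.lf 0 41629830 0) (P.cons (P.lf 0 12412950 0) (P.cons (P.lf 1049171 0 0) (P.cons (P.lf 162840 0 0) P.nil)))))) 27209)
 (EL.cons 7 (TM.mk (P.cons (P.lf 0 2079676607 0) (P.cons (P.lf 133473065 0 0) (P.cons (P.lf 62522105 0 0) (P.cons (P.lf 0 4081356 0) (P.cons (P.lf 0 858201 0) (P.cons (P.lf 91532 0 0) P.nil)))))) 18219)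
 EL.nil)))
noncomputable def S256_314_364_438_7 : EL := (EL.cons 12 (TM.mk (P.cons (P.cons (P.lf 1159824182 0 0) (P.cons (P.lf 0 726444632 0) (P.cons (P.lf 0 39748128 0) (P.lf 4416456 0 0)))) (P.cons (P.cons (P.lf 0 1337928808 0) (P.cons (P.lf 139869040 0 0) (P.cons (P.lf 7653064 0 0) (P.lf 0 850336 0)))) (P.cons (P.cons (P.lf 356011190 0 0) (P.cons (P.lf 56541376 0 0) (P.cons (P.lf 3093712 0 0) (P.lf 0 343744 0)))) (P.cons (P.cons (P.lf 168118828 0 0) (P.cons (P.lf 0 12494760 0) (P.cons (P.lf 0 683656 0) P.nil))) (P.cons (P.cons (P.lf 0 30718062 0) (P.cons (P.lf 0 2050160 0) P.nil)) (P.cons (P.cons (P.lf 0 6016318 0) P.nil) P.nil)))))) 3387272)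
 (EL.cons 3 (TM.mk (P.cons (P.cons (P.lf 0 2057750425 0) (P.cons (P.lf 151862544 0 0) (P.cons (P.lf 8309306 0 0) (P.lf 0 923254 0)))) (P.cons (P.cons (P.lf 1208216043 0 0) (P.cons (P.lf 117827978 0 0) (P.cons (P.lf 6447072 0 0) (P.lf 0 716340 0)))) (P.cons (P.cons (P.lf 715280062 0 0) (P.cons (P.lf 0 47177374 0) (P.cons (P.lf 0 2581352 0) (P.lf 286814 0 0)))) (P.cons (P.cons (P.lf 0 187380984 0) (P.cons (P.lf 0 9578486 0) (P.cons (P.lf 0 524096 0) P.nil))) (P.cons (P.cons (P.lf 0 41701315 0) (P.cons (P.lf 4087858 0 0) P.nil)) (P.cons (P.cons (P.lf 12765073 0 0) P.nil) P.nil)))))) 10522229)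
 (EL.cons 7 (TM.mk (P.cons (P.cons (P.lf 0 615282860 0) (P.cons (P.lf 210844032 0 0) (P.cons (P.lf 11536540 0 0) (P.lf 0 1281840 0)))) (P.cons (P.cons (P.lf 185465994 0 0) (P.cons (P.lf 18087065 0 0) (P.cons (P.lf 989649 0 0) (P.lf 0 109958 0)))) (P.cons (P.cons (P.lf 205554861 0 0) (P.cons (P.lf 2096476 0 0) (P.cons (P.lf 114710 0 0) (P.lf 0 12745 0)))) (P.cons (P.cons (P.lf 49911031 0 0) (P.cons (P.lf 0 6154422 0) (P.cons (P.lf 0 336744 0) P.nil))) (P.cons (P.cons (P.lf 0 25078105 0) (P.cons (P.lf 0 608655 0) P.nil)) (P.cons (P.cons (P.lf 0 3327489 0) P.nil) P.nil)))))) 7363323)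
 (EL.cons 10 (TM.mk (P.cons (P.cons (P.lf 0 2534059914 0) (P.cons (P.lf 0 317963625 0) (P.cons (P.lf 48544818 0 0) (P.cons (P.lf 1483038 0 0) (P.lf 0 123585 0))))) (P.cons (P.cons (P.lf 325270515 0 0) (P.cons (P.lf 40813632 0 0) (P.cons (P.lf 0 6231186 0) (P.cons (P.lf 0 190362 0) (P.lf 15861 0 0))))) (P.cons (P.cons (P.lf 141926916 0 0) (P.cons (P.lf 17808417 0 0) (P.cons (P.lf 0 2718882 0) (P.cons (P.lf 0 83061 0) P.nil)))) (P.cons (P.cons (P.lf 0 19724892 0) (P.cons (P.lf 0 2475000 0) (P.cons (P.lf 377868 0 0) P.nil))) (P.cons (P.cons (P.lf 0 3743370 0) (P.cons (P.lf 0 469701 0) P.nil)) (P.cons (P.cons (P.lf 656298 0 0) P.nil) P.nil)))))) 357816)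
 EL.nil))))
noncomputable def S256_314_364_438_8 : EL := (EL.cons 12 (TM.mk (P.cons (P.cons (P.lf 156600974 0 0) (P.cons (P.lf 0 196171004 0) (P.cons (P.lf 50701214 0 0) (P.cons (P.lf 7915572 0 0) (P.cons (P.lf 0 563066 0) (P.cons (P.lf 0 40872 0) P.nil)))))) (P.cons (P.cons (P.lf 0 361297788 0) (P.cons (P.lf 264065966 0 0) (P.cons (P.lf 0 9208624 0) (P.cons (P.lf 0 4194258 0) (P.cons (P.lf 216824 0 0) P.nil))))) (P.cons (P.cons (P.lf 304527844 0 0) (P.cons (P.lf 0 88517362 0) (P.cons (P.lf 0 12129166 0) (P.cons (P.lf 0 259158 0) P.nil)))) (P.cons (P.cons (P.lf 0 65502092 0) (P.cons (P.lf 0 37828956 0) (P.cons (P.lf 1884814 0 0) P.nil))) (P.cons (P.cons (P.lf 0 45911080 0) (P.cons (P.lf 18695886 0 0) P.nil)) (P.cons (P.cons (P.lf 21879768 0 0) P.nil) P.nil)))))) 24576512)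
 (EL.cons 3 (TM.mk (P.cons (P.cons (P.lf 0 572048936 0) (P.cons (P.lf 409559002 0 0) (P.cons (P.lf 0 9697847 0) (P.cons (P.lf 0 6003492 0) (P.cons (P.lf 294271 0 0) (P.cons (P.lf 21361 0 0) P.nil)))))) (P.cons (P.cons (P.lf 989194023 0 0) (P.cons (P.lf 0 294600597 0) (P.cons (P.lf 0 34849019 0) (P.cons (P.lf 0 258583 0) (P.cons (P.lf 171660 0 0) P.nil))))) (P.cons (P.cons (P.lf 0 348283484 0) (P.cons (P.lf 0 164009304 0) (P.cons (P.lf 8295921 0 0) (P.cons (P.lf 2886971 0 0) P.nil)))) (P.cons (P.cons (P.lf 0 279319565 0) (P.cons (P.lf 118610262 0 0) (P.cons (P.lf 7981222 0 0) P.nil))) (P.cons (P.cons (P.lf 180774421 0 0) (P.cons (P.lf 13389557 0 0) P.nil)) (P.cons (P.cons (P.lf 25669098 0 0) P.nil) P.nil)))))) 92639023)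
 (EL.cons 7 (TM.mk (P.cons (P.cons (P.lf 0 128238514 0) (P.cons (P.lf 113510714 0 0) (P.cons (P.lf 0 14577231 0) (P.cons (P.lf 0 2964975 0) (P.cons (P.lf 190525 0 0) (P.cons (P.lf 13825 0 0) P.nil)))))) (P.cons (P.cons (P.lf 151845232 0 0) (P.cons (P.lf 0 45222373 0) (P.cons (P.lf 0 5349460 0) (P.cons (P.lf 0 39692 0) (P.cons (P.lf 26345 0 0) P.nil))))) (P.cons (P.cons (P.lf 24935131 0 0) (P.cons (P.lf 0 48524490 0) (P.cons (P.lf 0 1488482 0) (P.cons (P.lf 422661 0 0) P.nil)))) (P.cons (P.cons (P.lf 0 77151460 0) (P.cons (P.lf 122606 0 0) (P.cons (P.lf 2012694 0 0) P.nil))) (P.cons (P.cons (P.lf 0 6091272 0) (P.cons (P.lf 15318176 0 0) P.nil)) (P.cons (P.cons (P.lf 25226455 0 0) P.nil) P.nil)))))) 42927508)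
 (EL.cons 10 (TM.mk (P.cons (P.cons (P.lf 0 684304152 0) (P.cons (P.lf 342743544 0 0) (P.cons (P.lf 90340746 0 0) (P.cons (P.lf 0 7473432 0) (P.cons (P.lf 0 1060428 0) (P.cons (P.lf 57096 0 0) P.nil)))))) (P.cons (P.cons (P.lf 877223994 0 0) (P.cons (P.lf 0 27468942 0) (P.cons (P.lf 0 41588418 0) (P.cons (P.lf 2013336 0 0) (P.cons (P.lf 372360 0 0) P.nil))))) (P.cons (P.cons (P.lf 0 273047994 0) (P.cons (P.lf 0 81033378 0) (P.cons (P.lf 0 3197244 0) (P.cons (P.lf 1019046 0 0) P.nil)))) (P.cons (P.cons (P.lf 0 121767804 0) (P.cons (P.lf 4333302 0 0) (P.cons (P.lf 5866656 0 0) P.nil))) (P.cons (P.cons (P.lf 47754012 0 0) (P.cons (P.lf 8114520 0 0) P.nil)) (P.cons (P.cons (P.lf 6487098 0 0) P.nil) P.nil)))))) 13412514)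
 EL.nil))))
noncomputable def S256_314_364_438_9 : EL := (EL.cons 3 (TM.mk (P.cons (P.lf 897858742 0 0) (P.cons (P.lf 869508750 0 0) (P.cons (P.lf 0 41629830 0) (P.cons (P.lf 0 12412950 0) (P.cons (P.lf 1049171 0 0) (P.cons (P.lf 162840 0 0) P.nil)))))) 27209)
 (EL.cons 7 (TM.mk (P.cons (P.lf 0 2079676607 0) (P.cons (P.lf 133473065 0 0) (P.cons (P.lf 62522105 0 0) (P.cons (P.lf 0 4081356 0) (P.cons (P.lf 0 858201 0) (P.cons (P.lf 91532 0 0) P.nil)))))) 18219)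
 EL.nil))
noncomputable def S256_314_364_438_10 : EL := (EL.cons 3 (TM.mk (P.cons (P.cons (P.lf 121230059 0 0) (P.cons (P.lf 0 75931272 0) (P.cons (P.lf 0 4154653 0) (P.lf 461627 0 0)))) (P.cons (P.cons (P.lf 0 22444152 0) (P.cons (P.lf 0 58913989 0) (P.cons (P.lf 0 3223536 0) (P.lf 358170 0 0)))) (P.cons (P.cons (P.lf 0 103839710 0) (P.cons (P.lf 23588687 0 0) (P.cons (P.lf 1290676 0 0) (P.lf 0 143407 0)))) (P.cons (P.cons (P.lf 58417524 0 0) (P.cons (P.lf 4789243 0 0) (P.cons (P.lf 262048 0 0) P.nil))) (P.cons (P.cons (P.lf 14156582 0 0) (P.cons (P.lf 0 2043929 0) P.nil)) (P.cons (P.cons (P.lf 0 5208908 0) P.nil) P.nil)))))) 2504149)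
 (EL.cons 7 (TM.mk (P.cons (P.cons (P.lf 0 280800650 0) (P.cons (P.lf 175876764 0 0) (P.cons (P.lf 9623269 0 0) (P.lf 0 1069251 0)))) (P.cons (P.cons (P.lf 341942595 0 0) (P.cons (P.lf 0 45150886 0) (P.cons (P.lf 0 2470473 0) (P.lf 274495 0 0)))) (P.cons (P.cons (P.lf 0 98539860 0) (P.cons (P.lf 0 16803140 0) (P.cons (P.lf 0 919399 0) (P.lf 102155 0 0)))) (P.cons (P.cons (P.lf 0 45460028 0) (P.cons (P.lf 5266815 0 0) (P.cons (P.lf 288177 0 0) P.nil))) (P.cons (P.cons (P.lf 13160372 0 0) (P.cons (P.lf 719868 0 0) P.nil)) (P.cons (P.cons (P.lf 2179815 0 0) P.nil) P.nil)))))) 1711514)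
 EL.nil))
noncomputable def S256_314_364_438_11 : EL := (EL.cons 3 (TM.mk (P.cons (P.cons (P.lf 16368640 0 0) (P.cons (P.lf 0 20504678 0) (P.cons (P.lf 5299519 0 0) (P.cons (P.lf 827370 0 0) (P.cons (P.lf 0 58853 0) (P.cons (P.lf 0 4271 0) P.nil)))))) (P.cons (P.cons (P.lf 0 21912675 0) (P.cons (P.lf 7744125 0 0) (P.cons (P.lf 4169659 0 0) (P.cons (P.lf 362843 0 0) (P.cons (P.lf 0 34332 0) P.nil))))) (P.cons (P.cons (P.lf 0 5500376 0) (P.cons (P.lf 18428328 0 0) (P.cons (P.lf 0 2445645 0) (P.cons (P.lf 0 490009 0) P.nil)))) (P.cons (P.cons (P.lf 25503673 0 0) (P.cons (P.lf 0 13910424 0) (P.cons (P.lf 0 1059392 0) P.nil))) (P.cons (P.cons (P.lf 0 12363851 0) (P.cons (P.lf 0 1851589 0) P.nil)) (P.cons (P.cons (P.lf 0 2524110 0) P.nil) P.nil)))))) 10863495)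
 (EL.cons 7 (TM.mk (P.cons (P.cons (P.lf 0 37914070 0) (P.cons (P.lf 47494220 0 0) (P.cons (P.lf 0 12275079 0) (P.cons (P.lf 0 1916409 0) (P.cons (P.lf 136321 0 0) (P.cons (P.lf 9895 0 0) P.nil)))))) (P.cons (P.cons (P.lf 89905756 0 0) (P.cons (P.lf 0 66980179 0) (P.cons (P.lf 3017276 0 0) (P.cons (P.lf 1138450 0 0) (P.cons (P.lf 0 61243 0) P.nil))))) (P.cons (P.cons (P.lf 0 78202217 0) (P.cons (P.lf 24105906 0 0) (P.cons (P.lf 3162490 0 0) (P.cons (P.lf 55185 0 0) P.nil)))) (P.cons (P.cons (P.lf 17886188 0 0) (P.cons (P.lf 9798434 0 0) (P.cons (P.lf 0 735906 0) P.nil))) (P.cons (P.cons (P.lf 12470100 0 0) (P.cons (P.lf 0 5864332 0) P.nil)) (P.cons (P.cons (P.lf 0 6594293 0) P.nil) P.nil)))))) 8500626)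
 EL.nil))
noncomputable def S256_314_364_438_12 : EL := (EL.cons 4 (TM.mk (P.cons (P.lf 0 897858742 0) (P.cons (P.lf 0 869508750 0) (P.cons (P.lf 41629830 0 0) (P.cons (P.lf 12412950 0 0) (P.cons (P.lf 0 1049171 0) (P.cons (P.lf 0 162840 0) P.nil)))))) 27209)
 (EL.cons 8 (TM.mk (P.cons (P.lf 2079676607 0 0) (P.cons (P.lf 0 133473065 0) (P.cons (P.lf 0 62522105 0) (P.cons (P.lf 4081356 0 0) (P.cons (P.lf 858201 0 0) (P.cons (P.lf 0 91532 0) P.nil)))))) 18219)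
 EL.nil))
noncomputable def S256_314_364_438_13 : EL := (EL.cons 4 (TM.mk (P.cons (P.cons (P.lf 0 121230059 0) (P.cons (P.lf 75931272 0 0) (P.cons (P.lf 4154653 0 0) (P.lf 0 461627 0)))) (P.cons (P.cons (P.lf 22444152 0 0) (P.cons (P.lf 58913989 0 0) (P.cons (P.lf 3223536 0 0) (P.lf 0 358170 0)))) (P.cons (P.cons (P.lf 103839710 0 0) (P.cons (P.lf 0 23588687 0) (P.cons (P.lf 0 1290676 0) (P.lf 143407 0 0)))) (P.cons (P.cons (P.lf 0 58417524 0) (P.cons (P.lf 0 4789243 0) (P.cons (P.lf 0 262048 0) P.nil))) (P.cons (P.cons (P.lf 0 14156582 0) (P.cons (P.lf 2043929 0 0) P.nil)) (P.cons (P.cons (P.lf 5208908 0 0) P.nil) P.nil)))))) 2504149)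
 (EL.cons 8 (TM.mk (P.cons (P.cons (P.lf 280800650 0 0) (P.cons (P.lf 0 175876764 0) (P.cons (P.lf 0 9623269 0) (P.lf 1069251 0 0)))) (P.cons (P.cons (P.lf 0 341942595 0) (P.cons (P.lf 45150886 0 0) (P.cons (P.lf 2470473 0 0) (P.lf 0 274495 0)))) (P.cons (P.cons (P.lf 98539860 0 0) (P.cons (P.lf 16803140 0 0) (P.cons (P.lf 919399 0 0) (P.lf 0 102155 0)))) (P.cons (P.cons (P.lf 45460028 0 0) (P.cons (P.lf 0 5266815 0) (P.cons (P.lf 0 288177 0) P.nil))) (P.cons (P.cons (P.lf 0 13160372 0) (P.cons (P.lf 0 719868 0) P.nil)) (P.cons (P.cons (P.lf 0 2179815 0) P.nil) P.nil)))))) 1711514)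
 EL.nil))
noncomputable def S256_314_364_438_14 : EL := (EL.cons 4 (TM.mk (P.cons (P.cons (P.lf 0 16368640 0) (P.cons (P.lf 20504678 0 0) (P.cons (P.lf 0 5299519 0) (P.cons (P.lf 0 827370 0) (P.cons (P.lf 58853 0 0) (P.cons (P.lf 4271 0 0) P.nil)))))) (P.cons (P.cons (P.lf 21912675 0 0) (P.cons (P.lf 0 7744125 0) (P.cons (P.lf 0 4169659 0) (P.cons (P.lf 0 362843 0) (P.cons (P.lf 34332 0 0) P.nil))))) (P.cons (P.cons (P.lf 5500376 0 0) (P.cons (P.lf 0 18428328 0) (P.cons (P.lf 2445645 0 0) (P.cons (P.lf 490009 0 0) P.nil)))) (P.cons (P.cons (P.lf 0 25503673 0) (P.cons (P.lf 13910424 0 0) (P.cons (P.lf 1059392 0 0) P.nil))) (P.cons (P.cons (P.lf 12363851 0 0) (P.cons (P.lf 1851589 0 0) P.nil)) (P.cons (P.cons (P.lf 2524110 0 0) P.nil) P.nil)))))) 10863495)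
 (EL.cons 8 (TM.mk (P.cons (P.cons (P.lf 37914070 0 0) (P.cons (P.lf 0 47494220 0) (P.cons (P.lf 12275079 0 0) (P.cons (P.lf 1916409 0 0) (P.cons (P.lf 0 136321 0) (P.cons (P.lf 0 9895 0) P.nil)))))) (P.cons (P.cons (P.lf 0 89905756 0) (P.cons (P.lf 66980179 0 0) (P.cons (P.lf 0 3017276 0) (P.cons (P.lf 0 1138450 0) (P.cons (P.lf 61243 0 0) P.nil))))) (P.cons (P.cons (P.lf 78202217 0 0) (P.cons (P.lf 0 24105906 0) (P.cons (P.lf 0 3162490 0) (P.cons (P.lf 0 55185 0) P.nil)))) (P.cons (P.cons (P.lf 0 17886188 0) (P.cons (P.lf 0 9798434 0) (P.cons (P.lf 735906 0 0) P.nil))) (P.cons (P.cons (P.lf 0 12470100 0) (P.cons (P.lf 5864332 0 0) P.nil)) (P.cons (P.cons (P.lf 6594293 0 0) P.nil) P.nil)))))) 8500626)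
 EL.nil))
noncomputable def S256_314_364_438_15 : EL := (EL.cons 4 (TM.mk (P.cons (P.lf 0 200209597 0) (P.cons (P.lf 0 387775913 0) (P.cons (P.lf 0 169200214 0) (P.cons (P.lf 23515311 0 0) (P.cons (P.lf 4462718 0 0) (P.cons (P.lf 0 782419 0) P.nil)))))) 166134)
 (EL.cons 8 (TM.mk (P.cons (P.lf 463738000 0 0) (P.cons (P.lf 419332844 0 0) (P.cons (P.lf 0 64265877 0) (P.cons (P.lf 0 17622484 0) (P.cons (P.lf 2672482 0 0) (P.cons (P.lf 364787 0 0) P.nil)))))) 94488)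
 EL.nil))
noncomputable def S256_314_364_438_16 : EL := (EL.cons 4 (TM.mk (P.cons (P.cons (P.lf 0 27032560 0) (P.cons (P.lf 16931581 0 0) (P.cons (P.lf 926427 0 0) (P.lf 0 102935 0)))) (P.cons (P.cons (P.lf 0 21174281 0) (P.cons (P.lf 29533938 0 0) (P.cons (P.lf 1615978 0 0) (P.lf 0 179552 0)))) (P.cons (P.cons (P.lf 29254845 0 0) (P.cons (P.lf 6677188 0 0) (P.cons (P.lf 365348 0 0) (P.lf 0 40593 0)))) (P.cons (P.cons (P.lf 9539059 0 0) (P.cons (P.lf 0 7004971 0) (P.cons (P.lf 0 383282 0) P.nil))) (P.cons (P.cons (P.lf 0 16946041 0) (P.cons (P.lf 0 496398 0) P.nil)) (P.cons (P.cons (P.lf 0 1610727 0) P.nil) P.nil)))))) 3402971)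
 (EL.cons 8 (TM.mk (P.cons (P.cons (P.lf 62614509 0 0) (P.cons (P.lf 0 39217991 0) (P.cons (P.lf 0 2145850 0) (P.lf 238427 0 0)))) (P.cons (P.cons (P.lf 0 15610835 0) (P.cons (P.lf 0 27911679 0) (P.cons (P.lf 0 1527214 0) (P.lf 169690 0 0)))) (P.cons (P.cons (P.lf 0 54770928 0) (P.cons (P.lf 15315328 0 0) (P.cons (P.lf 837992 0 0) (P.lf 0 93109 0)))) (P.cons (P.cons (P.lf 34085761 0 0) (P.cons (P.lf 2529508 0 0) (P.cons (P.lf 138404 0 0) P.nil))) (P.cons (P.cons (P.lf 6990795 0 0) (P.cons (P.lf 0 1656605 0) P.nil)) (P.cons (P.cons (P.lf 0 4179507 0) P.nil) P.nil)))))) 2297216)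
 EL.nil))
noncomputable def S256_314_364_438_17 : EL := (EL.cons 4 (TM.mk (P.cons (P.cons (P.lf 0 3649971 0) (P.cons (P.lf 4572248 0 0) (P.cons (P.lf 0 1181715 0) (P.cons (P.lf 0 184491 0) (P.cons (P.lf 13123 0 0) (P.cons (P.lf 952 0 0) P.nil)))))) (P.cons (P.cons (P.lf 1351487 0 0) (P.cons (P.lf 2701050 0 0) (P.cons (P.lf 0 2074177 0) (P.cons (P.lf 0 259575 0) (P.cons (P.lf 20364 0 0) P.nil))))) (P.cons (P.cons (P.lf 6127666 0 0) (P.cons (P.lf 0 5993551 0) (P.cons (P.lf 0 300281 0) (P.cons (P.lf 39464 0 0) P.nil)))) (P.cons (P.cons (P.lf 0 4675265 0) (P.cons (P.lf 0 860822 0) (P.cons (P.lf 823800 0 0) P.nil))) (P.cons (P.cons (P.lf 0 2879109 0) (P.cons (P.lf 3636506 0 0) P.nil)) (P.cons (P.cons (P.lf 3484520 0 0) P.nil) P.nil)))))) 8532564)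
 (EL.cons 8 (TM.mk (P.cons (P.cons (P.lf 8454292 0 0) (P.cons (P.lf 0 10590528 0) (P.cons (P.lf 2737166 0 0) (P.cons (P.lf 427331 0 0) (P.cons (P.lf 0 30397 0) (P.cons (P.lf 0 2206 0) P.nil)))))) (P.cons (P.cons (P.lf 0 11860343 0) (P.cons (P.lf 4679485 0 0) (P.cons (P.lf 1977930 0 0) (P.cons (P.lf 159980 0 0) (P.cons (P.lf 0 15781 0) P.nil))))) (P.cons (P.cons (P.lf 0 2368701 0) (P.cons (P.lf 9579789 0 0) (P.cons (P.lf 0 1483665 0) (P.cons (P.lf 0 277961 0) P.nil)))) (P.cons (P.cons (P.lf 13711645 0 0) (P.cons (P.lf 0 7936541 0) (P.cons (P.lf 0 525472 0) P.nil))) (P.cons (P.cons (P.lf 0 7164566 0) (P.cons (P.lf 0 777892 0) P.nil)) (P.cons (P.cons (P.lf 0 1300471 0) P.nil) P.nil)))))) 7007199)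
 EL.nil))
noncomputable def S256_314_364_438_18 : EL := (EL.cons 4 (TM.mk (P.cons (P.lf 0 44643862 0) (P.cons (P.lf 0 129702684 0) (P.cons (P.lf 0 119397478 0) (P.cons (P.lf 0 26667962 0) (P.cons (P.lf 8965736 0 0) (P.cons (P.lf 958581 0 0) P.nil)))))) 467642)
 (EL.cons 8 (TM.mk (P.cons (P.lf 103406910 0 0) (P.cons (P.lf 193647023 0 0) (P.cons (P.lf 71427862 0 0) (P.cons (P.lf 0 23572483 0) (P.cons (P.lf 0 3717003 0) (P.cons (P.lf 1166783 0 0) P.nil)))))) 289701)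
 EL.nil))
noncomputable def S256_314_364_438_19 : EL := (EL.cons 4 (TM.mk (P.cons (P.cons (P.lf 0 6027871 0) (P.cons (P.lf 3775499 0 0) (P.cons (P.lf 206580 0 0) (P.lf 0 22952 0)))) (P.cons (P.cons (P.lf 0 10559101 0) (P.cons (P.lf 10241931 0 0) (P.cons (P.lf 560397 0 0) (P.lf 0 62265 0)))) (P.cons (P.cons (P.lf 2230419 0 0) (P.cons (P.lf 7691565 0 0) (P.cons (P.lf 420851 0 0) (P.lf 0 46760 0)))) (P.cons (P.cons (P.lf 8746759 0 0) (P.cons (P.lf 0 477647 0) (P.cons (P.lf 0 26134 0) P.nil))) (P.cons (P.cons (P.lf 0 1963043 0) (P.cons (P.lf 0 1779046 0) P.nil)) (P.cons (P.cons (P.lf 0 4213998 0) P.nil) P.nil)))))) 3367570)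
 (EL.cons 8 (TM.mk (P.cons (P.cons (P.lf 13962135 0 0) (P.cons (P.lf 0 8745048 0) (P.cons (P.lf 0 478493 0) (P.lf 53165 0 0)))) (P.cons (P.cons (P.lf 10040287 0 0) (P.cons (P.lf 0 14692825 0) (P.cons (P.lf 0 803932 0) (P.lf 89325 0 0)))) (P.cons (P.cons (P.lf 0 16231573 0) (P.cons (P.lf 0 2206814 0) (P.cons (P.lf 0 120747 0) (P.lf 13416 0 0)))) (P.cons (P.cons (P.lf 0 4258492 0) (P.cons (P.lf 4280785 0 0) (P.cons (P.lf 234226 0 0) P.nil))) (P.cons (P.cons (P.lf 9550200 0 0) (P.cons (P.lf 94318 0 0) P.nil)) (P.cons (P.cons (P.lf 392559 0 0) P.nil) P.nil)))))) 2502989)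
 EL.nil))
noncomputable def S256_314_364_438_20 : EL := (EL.cons 4 (TM.mk (P.cons (P.cons (P.lf 0 813890 0) (P.cons (P.lf 1019545 0 0) (P.cons (P.lf 0 263505 0) (P.cons (P.lf 0 41138 0) (P.cons (P.lf 2925 0 0) (P.cons (P.lf 211 0 0) P.nil)))))) (P.cons (P.cons (P.lf 0 486829 0) (P.cons (P.lf 1589648 0 0) (P.cons (P.lf 0 717697 0) (P.cons (P.lf 0 97721 0) (P.cons (P.lf 7374 0 0) P.nil))))) (P.cons (P.cons (P.lf 1695964 0 0) (P.cons (P.lf 0 800469 0) (P.cons (P.lf 0 502648 0) (P.cons (P.lf 0 45345 0) P.nil)))) (P.cons (P.cons (P.lf 277999 0 0) (P.cons (P.lf 0 1528248 0) (P.cons (P.lf 143939 0 0) P.nil))) (P.cons (P.cons (P.lf 0 1720069 0) (P.cons (P.lf 679829 0 0) P.nil)) (P.cons (P.cons (P.lf 184920 0 0) P.nil) P.nil)))))) 5799704)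
 (EL.cons 8 (TM.mk (P.cons (P.cons (P.lf 1885185 0 0) (P.cons (P.lf 0 2361535 0) (P.cons (P.lf 610348 0 0) (P.cons (P.lf 95288 0 0) (P.cons (P.lf 0 6778 0) (P.cons (P.lf 0 491 0) P.nil)))))) (P.cons (P.cons (P.lf 0 819025 0) (P.cons (P.lf 0 1243511 0) (P.cons (P.lf 1032126 0 0) (P.cons (P.lf 127953 0 0) (P.cons (P.lf 0 10083 0) P.nil))))) (P.cons (P.cons (P.lf 0 3176774 0) (P.cons (P.lf 3256160 0 0) (P.cons (P.lf 67988 0 0) (P.cons (P.lf 0 31852 0) P.nil)))) (P.cons (P.cons (P.lf 2642550 0 0) (P.cons (P.lf 283238 0 0) (P.cons (P.lf 0 466450 0) P.nil))) (P.cons (P.cons (P.lf 1426618 0 0) (P.cons (P.lf 0 2003543 0) P.nil)) (P.cons (P.cons (P.lf 0 1974346 0) P.nil) P.nil)))))) 5323944)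
 EL.nil))
noncomputable def S256_314_364_438_21 : EL := (EL.cons 4 (TM.mk (P.cons (P.cons (P.lf 2178980484 0 0) (P.cons (P.lf 0 227793816 0) (P.cons (P.lf 0 12463959 0) (P.lf 1384881 0 0)))) (P.cons (P.cons (P.lf 0 1230660195 0) (P.cons (P.lf 0 176741967 0) (P.cons (P.lf 0 9670608 0) (P.lf 1074510 0 0)))) (P.cons (P.cons (P.lf 0 819119772 0) (P.cons (P.lf 70766061 0 0) (P.cons (P.lf 3872028 0 0) (P.lf 0 430221 0)))) (P.cons (P.cons (P.lf 245798508 0 0) (P.cons (P.lf 14367729 0 0) (P.cons (P.lf 786144 0 0) P.nil))) (P.cons (P.cons (P.lf 55857897 0 0) (P.cons (P.lf 0 6131787 0) P.nil)) (P.cons (P.cons (P.lf 0 17973981 0) P.nil) P.nil)))))) 8018061)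
 (EL.cons 8 (TM.mk (P.cons (P.cons (P.lf 334482210 0 0) (P.cons (P.lf 0 34967268 0) (P.cons (P.lf 0 1913271 0) (P.lf 212589 0 0)))) (P.cons (P.cons (P.lf 156476601 0 0) (P.cons (P.lf 0 63237951 0) (P.cons (P.lf 0 3460122 0) (P.lf 384453 0 0)))) (P.cons (P.cons (P.lf 0 304094721 0) (P.cons (P.lf 0 18899616 0) (P.cons (P.lf 0 1034109 0) (P.lf 114900 0 0)))) (P.cons (P.cons (P.lf 0 95371059 0) (P.cons (P.lf 11421237 0 0) (P.cons (P.lf 624921 0 0) P.nil))) (P.cons (P.cons (P.lf 38238477 0 0) (P.cons (P.lf 1328523 0 0) P.nil)) (P.cons (P.cons (P.lf 5507304 0 0) P.nil) P.nil)))))) 5651790)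
 (EL.cons 11 (TM.mk (P.cons (P.cons (P.lf 2534059914 0 0) (P.cons (P.lf 317963625 0 0) (P.cons (P.lf 0 48544818 0) (P.cons (P.lf 0 1483038 0) (P.lf 123585 0 0))))) (P.cons (P.cons (P.lf 0 325270515 0) (P.cons (P.lf 0 40813632 0) (P.cons (P.lf 6231186 0 0) (P.cons (P.lf 190362 0 0) (P.lf 0 15861 0))))) (P.cons (P.cons (P.lf 0 141926916 0) (P.cons (P.lf 0 17808417 0) (P.cons (P.lf 2718882 0 0) (P.cons (P.lf 83061 0 0) P.nil)))) (P.cons (P.cons (P.lf 19724892 0 0) (P.cons (P.lf 2475000 0 0) (P.cons (P.lf 0 377868 0) P.nil))) (P.cons (P.cons (P.lf 3743370 0 0) (P.cons (P.lf 469701 0 0) P.nil)) (P.cons (P.cons (P.lf 0 656298 0) P.nil) P.nil)))))) 357816)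
 EL.nil)))
noncomputable def S256_314_364_438_22 : EL := (EL.cons 4 (TM.mk (P.cons (P.cons (P.lf 294208788 0 0) (P.cons (P.lf 0 215031840 0) (P.cons (P.lf 7498683 0 0) (P.cons (P.lf 3415431 0 0) (P.cons (P.lf 0 176562 0) (P.cons (P.lf 0 12816 0) P.nil)))))) (P.cons (P.cons (P.lf 0 505553349 0) (P.cons (P.lf 151172361 0 0) (P.cons (P.lf 19509339 0 0) (P.cons (P.lf 310713 0 0) (P.cons (P.lf 0 102996 0) P.nil))))) (P.cons (P.cons (P.lf 171391554 0 0) (P.cons (P.lf 91218816 0 0) (P.cons (P.lf 0 5370783 0) (P.cons (P.lf 0 1688490 0) P.nil)))) (P.cons (P.cons (P.lf 152411619 0 0) (P.cons (P.lf 0 66260343 0) (P.cons (P.lf 0 4520307 0) P.nil))) (P.cons (P.cons (P.lf 0 96569136 0) (P.cons (P.lf 0 7620573 0) P.nil)) (P.cons (P.cons (P.lf 0 14096604 0) P.nil) P.nil)))))) 40887753)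
 (EL.cons 8 (TM.mk (P.cons (P.cons (P.lf 45162222 0 0) (P.cons (P.lf 0 33008247 0) (P.cons (P.lf 1151076 0 0) (P.cons (P.lf 524283 0 0) (P.cons (P.lf 0 27102 0) (P.cons (P.lf 0 1965 0) P.nil)))))) (P.cons (P.cons (P.lf 0 30969738 0) (P.cons (P.lf 0 10878903 0) (P.cons (P.lf 4183368 0 0) (P.cons (P.lf 589071 0 0) (P.cons (P.lf 0 43794 0) P.nil))))) (P.cons (P.cons (P.lf 0 51568674 0) (P.cons (P.lf 36315198 0 0) (P.cons (P.lf 2325486 0 0) (P.cons (P.lf 0 183738 0) P.nil)))) (P.cons (P.cons (P.lf 47518824 0 0) (P.cons (P.lf 4837914 0 0) (P.cons (P.lf 0 1374300 0) P.nil))) (P.cons (P.cons (P.lf 9280686 0 0) (P.cons (P.lf 0 10591254 0) P.nil)) (P.cons (P.cons (P.lf 0 15910374 0) P.nil) P.nil)))))) 17213430)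
 (EL.cons 11 (TM.mk (P.cons (P.cons (P.lf 342152076 0 0) (P.cons (P.lf 0 171371772 0) (P.cons (P.lf 0 45170373 0) (P.cons (P.lf 3736716 0 0) (P.cons (P.lf 530214 0 0) (P.cons (P.lf 0 28548 0) P.nil)))))) (P.cons (P.cons (P.lf 0 438611997 0) (P.cons (P.lf 13734471 0 0) (P.cons (P.lf 20794209 0 0) (P.cons (P.lf 0 1006668 0) (P.cons (P.lf 0 186180 0) P.nil))))) (P.cons (P.cons (P.lf 136523997 0 0) (P.cons (P.lf 40516689 0 0) (P.cons (P.lf 1598622 0 0) (P.cons (P.lf 0 509523 0) P.nil)))) (P.cons (P.cons (P.lf 60883902 0 0) (P.cons (P.lf 0 2166651 0) (P.cons (P.lf 0 2933328 0) P.nil))) (P.cons (P.cons (P.lf 0 23877006 0) (P.cons (P.lf 0 4057260 0) P.nil)) (P.cons (P.cons (P.lf 0 3243549 0) P.nil) P.nil)))))) 6706257)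
 EL.nil)))
noncomputable def S256_314_364_438_23 : EL := (EL.cons 4 (TM.mk (P.cons (P.cons (P.lf 485881335 0 0) (P.cons (P.lf 0 50794746 0) (P.cons (P.lf 0 2779281 0) (P.lf 308808 0 0)))) (P.cons (P.cons (P.lf 196120038 0 0) (P.cons (P.lf 0 88601814 0) (P.cons (P.lf 0 4847934 0) (P.lf 538656 0 0)))) (P.cons (P.cons (P.lf 0 470934867 0) (P.cons (P.lf 0 20031567 0) (P.cons (P.lf 0 1096047 0) (P.lf 121782 0 0)))) (P.cons (P.cons (P.lf 0 116068836 0) (P.cons (P.lf 21014916 0 0) (P.cons (P.lf 1149849 0 0) P.nil))) (P.cons (P.cons (P.lf 78364836 0 0) (P.cons (P.lf 1489197 0 0) P.nil)) (P.cons (P.cons (P.lf 7805631 0 0) P.nil) P.nil)))))) 11982117)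
 (EL.cons 8 (TM.mk (P.cons (P.cons (P.lf 74584725 0 0) (P.cons (P.lf 0 7797198 0) (P.cons (P.lf 0 426630 0) (P.lf 47403 0 0)))) (P.cons (P.cons (P.lf 107121738 0 0) (P.cons (P.lf 0 21652155 0) (P.cons (P.lf 0 1184718 0) (P.lf 131634 0 0)))) (P.cons (P.cons (P.lf 0 37476609 0) (P.cons (P.lf 0 17508729 0) (P.cons (P.lf 0 958005 0) (P.lf 106443 0 0)))) (P.cons (P.cons (P.lf 0 89582988 0) (P.cons (P.lf 0 772896 0) (P.cons (P.lf 0 42288 0) P.nil))) (P.cons (P.cons (P.lf 0 9319485 0) (P.cons (P.lf 3143835 0 0) P.nil)) (P.cons (P.cons (P.lf 11463240 0 0) P.nil) P.nil)))))) 5524431)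
 (EL.cons 11 (TM.mk (P.cons (P.cons (P.lf 565058946 0 0) (P.cons (P.lf 70901319 0 0) (P.cons (P.lf 0 10824795 0) (P.cons (P.lf 0 330696 0) (P.lf 27555 0 0))))) (P.cons (P.cons (P.lf 474686496 0 0) (P.cons (P.lf 59561748 0 0) (P.cons (P.lf 0 9093537 0) (P.cons (P.lf 0 277806 0) (P.lf 23148 0 0))))) (P.cons (P.cons (P.lf 0 128087490 0) (P.cons (P.lf 0 16071900 0) (P.cons (P.lf 2453763 0 0) (P.cons (P.lf 74961 0 0) P.nil)))) (P.cons (P.cons (P.lf 0 30699057 0) (P.cons (P.lf 0 3851991 0) (P.cons (P.lf 588099 0 0) P.nil))) (P.cons (P.cons (P.lf 8224596 0 0) (P.cons (P.lf 1031988 0 0) P.nil)) (P.cons (P.cons (P.lf 913341 0 0) P.nil) P.nil)))))) 929238)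
 EL.nil)))
noncomputable def S256_314_364_438_24 : EL := (EL.cons 4 (TM.mk (P.cons (P.cons (P.lf 65604330 0 0) (P.cons (P.lf 0 47949009 0) (P.cons (P.lf 1672098 0 0) (P.cons (P.lf 761592 0 0) (P.cons (P.lf 0 39369 0) (P.cons (P.lf 0 2856 0) P.nil)))))) (P.cons (P.cons (P.lf 0 49198263 0) (P.cons (P.lf 0 12725748 0) (P.cons (P.lf 5969604 0 0) (P.cons (P.lf 806829 0 0) (P.cons (P.lf 0 61092 0) P.nil))))) (P.cons (P.cons (P.lf 0 73995567 0) (P.cons (P.lf 55208562 0 0) (P.cons (P.lf 2937804 0 0) (P.cons (P.lf 0 344721 0) P.nil)))) (P.cons (P.cons (P.lf 75316593 0 0) (P.cons (P.lf 4023072 0 0) (P.cons (P.lf 0 2392578 0) P.nil))) (P.cons (P.cons (P.lf 11242149 0 0) (P.cons (P.lf 0 17473017 0) P.nil)) (P.cons (P.cons (P.lf 0 26220906 0) P.nil) P.nil)))))) 30905448)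
 (EL.cons 8 (TM.mk (P.cons (P.cons (P.lf 10070526 0 0) (P.cons (P.lf 0 7360362 0) (P.cons (P.lf 256671 0 0) (P.cons (P.lf 116907 0 0) (P.cons (P.lf 0 6042 0) (P.cons (P.lf 0 438 0) P.nil)))))) (P.cons (P.cons (P.lf 2846742 0 0) (P.cons (P.lf 0 9553797 0) (P.cons (P.lf 1181400 0 0) (P.cons (P.lf 244569 0 0) (P.cons (P.lf 0 15618 0) P.nil))))) (P.cons (P.cons (P.lf 0 18653754 0) (P.cons (P.lf 6089793 0 0) (P.cons (P.lf 1410024 0 0) (P.cons (P.lf 80814 0 0) P.nil)))) (P.cons (P.cons (P.lf 0 359007 0) (P.cons (P.lf 9135096 0 0) (P.cons (P.lf 148926 0 0) P.nil))) (P.cons (P.cons (P.lf 12971307 0 0) (P.cons (P.lf 0 1667496 0) P.nil)) (P.cons (P.cons (P.lf 0 1882227 0) P.nil) P.nil)))))) 11941425)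
 (EL.cons 11 (TM.mk (P.cons (P.cons (P.lf 76294995 0 0) (P.cons (P.lf 0 38213442 0) (P.cons (P.lf 0 10072341 0) (P.cons (P.lf 833232 0 0) (P.cons (P.lf 118230 0 0) (P.cons (P.lf 0 6363 0) P.nil)))))) (P.cons (P.cons (P.lf 0 23918199 0) (P.cons (P.lf 0 33944256 0) (P.cons (P.lf 0 5117496 0) (P.cons (P.lf 582450 0 0) (P.cons (P.lf 72981 0 0) P.nil))))) (P.cons (P.cons (P.lf 0 67810572 0) (P.cons (P.lf 13772319 0 0) (P.cons (P.lf 5313882 0 0) (P.cons (P.lf 0 369633 0) P.nil)))) (P.cons (P.cons (P.lf 46537860 0 0) (P.cons (P.lf 8652540 0 0) (P.cons (P.lf 0 384612 0) P.nil))) (P.cons (P.cons (P.lf 7853130 0 0) (P.cons (P.lf 0 1878477 0) P.nil)) (P.cons (P.cons (P.lf 0 7030176 0) P.nil) P.nil)))))) 7122399)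
 EL.nil)))
noncomputable def S256_314_364_438_25 : EL := (EL.cons 4 (TM.mk (P.cons (P.cons (P.lf 108344556 0 0) (P.cons (P.lf 0 11326497 0) (P.cons (P.lf 0 619740 0) (P.lf 68859 0 0)))) (P.cons (P.cons (P.lf 148655514 0 0) (P.cons (P.lf 0 30725793 0) (P.cons (P.lf 0 1681191 0) (P.lf 186798 0 0)))) (P.cons (P.cons (P.lf 0 67684068 0) (P.cons (P.lf 0 23074695 0) (P.cons (P.lf 0 1262553 0) (P.lf 140283 0 0)))) (P.cons (P.cons (P.lf 0 131103165 0) (P.cons (P.lf 1432944 0 0) (P.cons (P.lf 78402 0 0) P.nil))) (P.cons (P.cons (P.lf 0 3199287 0) (P.cons (P.lf 5337141 0 0) P.nil)) (P.cons (P.cons (P.lf 21385590 0 0) P.nil) P.nil)))))) 13091139)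
 (EL.cons 8 (TM.mk (P.cons (P.cons (P.lf 16631322 0 0) (P.cons (P.lf 0 1738662 0) (P.cons (P.lf 0 95130 0) (P.lf 10569 0 0)))) (P.cons (P.cons (P.lf 39992793 0 0) (P.cons (P.lf 0 6511884 0) (P.cons (P.lf 0 356304 0) (P.lf 39588 0 0)))) (P.cons (P.cons (P.lf 14004516 0 0) (P.cons (P.lf 0 8499249 0) (P.cons (P.lf 0 465042 0) (P.lf 51669 0 0)))) (P.cons (P.cons (P.lf 0 29406045 0) (P.cons (P.lf 0 3705366 0) (P.cons (P.lf 0 202740 0) P.nil))) (P.cons (P.cons (P.lf 0 21346428 0) (P.cons (P.lf 779865 0 0) P.nil)) (P.cons (P.cons (P.lf 1616289 0 0) P.nil) P.nil)))))) 6121566)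
 (EL.cons 11 (TM.mk (P.cons (P.cons (P.lf 126000024 0 0) (P.cons (P.lf 15809973 0 0) (P.cons (P.lf 0 2413773 0) (P.cons (P.lf 0 73740 0) (P.lf 6144 0 0))))) (P.cons (P.cons (P.lf 227869827 0 0) (P.cons (P.lf 28592187 0 0) (P.cons (P.lf 0 4365285 0) (P.cons (P.lf 0 133356 0) (P.lf 11112 0 0))))) (P.cons (P.cons (P.lf 68102349 0 0) (P.cons (P.lf 8545206 0 0) (P.cons (P.lf 0 1304631 0) (P.cons (P.lf 0 39855 0) P.nil)))) (P.cons (P.cons (P.lf 0 41154963 0) (P.cons (P.lf 0 5163957 0) (P.cons (P.lf 788400 0 0) P.nil))) (P.cons (P.cons (P.lf 0 4787178 0) (P.cons (P.lf 0 600675 0) P.nil)) (P.cons (P.cons (P.lf 2838519 0 0) P.nil) P.nil)))))) 1650312)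
 EL.nil)))
noncomputable def S256_314_364_438_26 : EL := (EL.cons 4 (TM.mk (P.cons (P.cons (P.lf 14628822 0 0) (P.cons (P.lf 0 10691937 0) (P.cons (P.lf 372852 0 0) (P.cons (P.lf 169821 0 0) (P.cons (P.lf 0 8778 0) (P.cons (P.lf 0 636 0) P.nil)))))) (P.cons (P.cons (P.lf 3196410 0 0) (P.cons (P.lf 0 13191999 0) (P.cons (P.lf 1692216 0 0) (P.cons (P.lf 344373 0 0) (P.cons (P.lf 0 22125 0) P.nil))))) (P.cons (P.cons (P.lf 0 27802332 0) (P.cons (P.lf 10058394 0 0) (P.cons (P.lf 1926906 0 0) (P.cons (P.lf 89487 0 0) P.nil)))) (P.cons (P.cons (P.lf 1121967 0 0) (P.cons (P.lf 13098477 0 0) (P.cons (P.lf 34017 0 0) P.nil))) (P.cons (P.cons (P.lf 19704858 0 0) (P.cons (P.lf 0 3571527 0) P.nil)) (P.cons (P.cons (P.lf 0 3979944 0) P.nil) P.nil)))))) 18828474)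
 (EL.cons 8 (TM.mk (P.cons (P.cons (P.lf 2245581 0 0) (P.cons (P.lf 0 1641255 0) (P.cons (P.lf 57234 0 0) (P.cons (P.lf 26067 0 0) (P.cons (P.lf 0 1347 0) (P.cons (P.lf 0 96 0) P.nil)))))) (P.cons (P.cons (P.lf 2809458 0 0) (P.cons (P.lf 0 3719790 0) (P.cons (P.lf 318861 0 0) (P.cons (P.lf 79779 0 0) (P.cons (P.lf 0 4785 0) P.nil))))) (P.cons (P.cons (P.lf 0 3648897 0) (P.cons (P.lf 0 629058 0) (P.cons (P.lf 566877 0 0) (P.cons (P.lf 69624 0 0) P.nil)))) (P.cons (P.cons (P.lf 0 4168710 0) (P.cons (P.lf 3473520 0 0) (P.cons (P.lf 324690 0 0) P.nil))) (P.cons (P.cons (P.lf 3001596 0 0) (P.cons (P.lf 1565421 0 0) P.nil)) (P.cons (P.cons (P.lf 2443743 0 0) P.nil) P.nil)))))) 6661302)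
 (EL.cons 11 (TM.mk (P.cons (P.cons (P.lf 17012685 0 0) (P.cons (P.lf 0 8521047 0) (P.cons (P.lf 0 2245986 0) (P.cons (P.lf 185796 0 0) (P.cons (P.lf 26361 0 0) (P.cons (P.lf 0 1419 0) P.nil)))))) (P.cons (P.cons (P.lf 11142093 0 0) (P.cons (P.lf 0 15821076 0) (P.cons (P.lf 0 3316197 0) (P.cons (P.lf 309810 0 0) (P.cons (P.lf 41805 0 0) P.nil))))) (P.cons (P.cons (P.lf 0 21074598 0) (P.cons (P.lf 0 3863973 0) (P.cons (P.lf 183957 0 0) (P.cons (P.lf 34737 0 0) P.nil)))) (P.cons (P.cons (P.lf 0 4253982 0) (P.cons (P.lf 5372202 0 0) (P.cons (P.lf 1145700 0 0) P.nil))) (P.cons (P.cons (P.lf 12595443 0 0) (P.cons (P.lf 1401891 0 0) P.nil)) (P.cons (P.cons (P.lf 0 147036 0) P.nil) P.nil)))))) 5702925)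
 EL.nil)))
noncomputable def S256_314_364_438_27 : EL := (EL.cons 13 (TM.mk (P.lf 0 4294967296 0) 0)
 EL.nil)
noncomputable def S256_314_364_438_28 : EL := (EL.cons 13 (TM.mk (P.cons (P.cons (P.lf 0 579912091 0) (P.cons (P.lf 363222316 0 0) (P.cons (P.lf 19874064 0 0) (P.lf 0 2208228 0)))) (P.cons (P.cons (P.lf 668964404 0 0) (P.cons (P.lf 0 69934520 0) (P.cons (P.lf 0 3826532 0) (P.lf 425168 0 0)))) (P.cons (P.cons (P.lf 0 178005595 0) (P.cons (P.lf 0 28270688 0) (P.cons (P.lf 0 1546856 0) (P.lf 171872 0 0)))) (P.cons (P.cons (P.lf 0 84059414 0) (P.cons (P.lf 6247380 0 0) (P.cons (P.lf 341828 0 0) P.nil))) (P.cons (P.cons (P.lf 15359031 0 0) (P.cons (P.lf 1025080 0 0) P.nil)) (P.cons (P.cons (P.lf 3008159 0 0) P.nil) P.nil)))))) 1693636)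
 EL.nil)
noncomputable def S256_314_364_438_29 : EL := (EL.cons 13 (TM.mk (P.cons (P.cons (P.lf 0 78300487 0) (P.cons (P.lf 98085502 0 0) (P.cons (P.lf 0 25350607 0) (P.cons (P.lf 0 3957786 0) (P.cons (P.lf 281533 0 0) (P.cons (P.lf 20436 0 0) P.nil)))))) (P.cons (P.cons (P.lf 180648894 0 0) (P.cons (P.lf 0 132032983 0) (P.cons (P.lf 4604312 0 0) (P.cons (P.lf 2097129 0 0) (P.cons (P.lf 0 108412 0) P.nil))))) (P.cons (P.cons (P.lf 0 152263922 0) (P.cons (P.lf 44258681 0 0) (P.cons (P.lf 6064583 0 0) (P.cons (P.lf 129579 0 0) P.nil)))) (P.cons (P.cons (P.lf 32751046 0 0) (P.cons (P.lf 18914478 0 0) (P.cons (P.lf 0 942407 0) P.nil))) (P.cons (P.cons (P.lf 22955540 0 0) (P.cons (P.lf 0 9347943 0) P.nil)) (P.cons (P.cons (P.lf 0 10939884 0) P.nil) P.nil)))))) 12288256)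
 EL.nil)
noncomputable def S256_314_364_438_30 : EL := (EL.cons 13 (TM.mk (P.cons (P.lf 0 957715992 0) (P.cons (P.lf 0 927476000 0) (P.cons (P.lf 44405152 0 0) (P.cons (P.lf 13240480 0 0) (P.cons (P.lf 0 1119116 0) (P.cons (P.lf 0 173696 0) P.nil)))))) 29016)
 EL.nil)
noncomputable def S256_314_364_438_31 : EL := (EL.cons 13 (TM.mk (P.cons (P.cons (P.lf 0 129312063 0) (P.cons (P.lf 80993357 0 0) (P.cons (P.lf 4431630 0 0) (P.lf 0 492403 0)))) (P.cons (P.cons (P.lf 23940429 0 0) (P.cons (P.lf 62841589 0 0) (P.cons (P.lf 3438439 0 0) (P.lf 0 382049 0)))) (P.cons (P.cons (P.lf 110762358 0 0) (P.cons (P.lf 0 25161267 0) (P.cons (P.lf 0 1376722 0) (P.lf 152968 0 0)))) (P.cons (P.cons (P.lf 0 62312026 0) (P.cons (P.lf 0 5108526 0) (P.cons (P.lf 0 279518 0) P.nil))) (P.cons (P.cons (P.lf 0 15100355 0) (P.cons (P.lf 2180191 0 0) P.nil)) (P.cons (P.cons (P.lf 5556169 0 0) P.nil) P.nil))))))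 2671073)
 EL.nil)
noncomputable def S256_314_364_438_32 : EL := (EL.cons 13 (TM.mk (P.cons (P.cons (P.lf 0 17459883 0) (P.cons (P.lf 21871657 0 0) (P.cons (P.lf 0 5652821 0) (P.cons (P.lf 0 882529 0) (P.cons (P.lf 62777 0 0) (P.cons (P.lf 4556 0 0) P.nil)))))) (P.cons (P.cons (P.lf 23373521 0 0) (P.cons (P.lf 0 8260400 0) (P.cons (P.lf 0 4447637 0) (P.cons (P.lf 0 387033 0) (P.cons (P.lf 36621 0 0) P.nil))))) (P.cons (P.cons (P.lf 5867068 0 0) (P.cons (P.lf 0 19656884 0) (P.cons (P.lf 2608689 0 0) (P.cons (P.lf 522677 0 0) P.nil)))) (P.cons (P.cons (P.lf 0 27203918 0) (P.cons (P.lf 14837786 0 0) (P.cons (P.lf 1130019 0 0) P.nil))) (P.cons (P.cons (P.lf 13188108 0 0) (P.cons (P.lf 1975029 0 0) P.nil)) (P.cons (P.cons (P.lf 2692385 0 0) P.nil) P.nil)))))) 11587705)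
 EL.nil)
noncomputable def S256_314_364_438_33 : EL := (EL.cons 14 (TM.mk (P.lf 8589934592 0 0) 0)
 EL.nil)
noncomputable def S256_314_364_438_34 : EL := (EL.cons 14 (TM.mk (P.cons (P.cons (P.lf 1159824182 0 0) (P.cons (P.lf 0 726444632 0) (P.cons (P.lf 0 39748128 0) (P.lf 4416456 0 0)))) (P.cons (P.cons (P.lf 0 1337928808 0) (P.cons (P.lf 139869040 0 0) (P.cons (P.lf 7653064 0 0) (P.lf 0 850336 0)))) (P.cons (P.cons (P.lf 356011190 0 0) (P.cons (P.lf 56541376 0 0) (P.cons (P.lf 3093712 0 0) (P.lf 0 343744 0)))) (P.cons (P.cons (P.lf 168118828 0 0) (P.cons (P.lf 0 12494760 0) (P.cons (P.lf 0 683656 0) P.nil))) (P.cons (P.cons (P.lf 0 30718062 0) (P.cons (P.lf 0 2050160 0) P.nil)) (P.cons (P.cons (P.lf 0 6016318 0) P.nil) P.nil)))))) 3387272)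
 EL.nil)
noncomputable def S256_314_364_438_35 : EL := (EL.cons 14 (TM.mk (P.cons (P.cons (P.lf 156600974 0 0) (P.cons (P.lf 0 196171004 0) (P.cons (P.lf 50701214 0 0) (P.cons (P.lf 7915572 0 0) (P.cons (P.lf 0 563066 0) (P.cons (P.lf 0 40872 0) P.nil)))))) (P.cons (P.cons (P.lf 0 361297788 0) (P.cons (P.lf 264065966 0 0) (P.cons (P.lf 0 9208624 0) (P.cons (P.lf 0 4194258 0) (P.cons (P.lf 216824 0 0) P.nil))))) (P.cons (P.cons (P.lf 304527844 0 0) (P.cons (P.lf 0 88517362 0) (P.cons (P.lf 0 12129166 0) (P.cons (P.lf 0 259158 0) P.nil)))) (P.cons (P.cons (P.lf 0 65502092 0) (P.cons (P.lf 0 37828956 0) (P.cons (P.lf 1884814 0 0) P.nil))) (P.cons (P.cons (P.lf 0 45911080 0) (P.cons (P.lf 18695886 0 0) P.nil)) (P.cons (P.cons (P.lf 21879768 0 0) P.nil) P.nil)))))) 24576512)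
 EL.nil)
noncomputable def S256_314_364_438_36 : EL := (EL.cons 14 (TM.mk (P.cons (P.lf 1915431984 0 0) (P.cons (P.lf 1854952000 0 0) (P.cons (P.lf 0 88810304 0) (P.cons (P.lf 0 26480960 0) (P.cons (P.lf 2238232 0 0) (P.cons (P.lf 347392 0 0) P.nil)))))) 58032)
 EL.nil)
noncomputable def S256_314_364_438_37 : EL := (EL.cons 14 (TM.mk (P.cons (P.cons (P.lf 258624126 0 0) (P.cons (P.lf 0 161986714 0) (P.cons (P.lf 0 8863260 0) (P.lf 984806 0 0)))) (P.cons (P.cons (P.lf 0 47880858 0) (P.cons (P.lf 0 125683178 0) (P.cons (P.lf 0 6876878 0) (P.lf 764098 0 0)))) (P.cons (P.cons (P.lf 0 221524716 0) (P.cons (P.lf 50322534 0 0) (P.cons (P.lf 2753444 0 0) (P.lf 0 305936 0)))) (P.cons (P.cons (P.lf 124624052 0 0) (P.cons (P.lf 10217052 0 0) (P.cons (P.lf 559036 0 0) P.nil))) (P.cons (P.cons (P.lf 30200710 0 0) (P.cons (P.lf 0 4360382 0) P.nil)) (P.cons (P.cons (P.lf 0 11112338 0) P.nil)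 P.nil)))))) 5342146)
 EL.nil)
noncomputable def S256_314_364_438_38 : EL := (EL.cons 14 (TM.mk (P.cons (P.cons (P.lf 34919766 0 0) (P.cons (P.lf 0 43743314 0) (P.cons (P.lf 11305642 0 0) (P.cons (P.lf 1765058 0 0) (P.cons (P.lf 0 125554 0) (P.cons (P.lf 0 9112 0) P.nil)))))) (P.cons (P.cons (P.lf 0 46747042 0) (P.cons (P.lf 16520800 0 0) (P.cons (P.lf 8895274 0 0) (P.cons (P.lf 774066 0 0) (P.cons (P.lf 0 73242 0) P.nil))))) (P.cons (P.cons (P.lf 0 11734136 0) (P.cons (P.lf 39313768 0 0) (P.cons (P.lf 0 5217378 0) (P.cons (P.lf 0 1045354 0) P.nil)))) (P.cons (P.cons (P.lf 54407836 0 0) (P.cons (P.lf 0 29675572 0) (P.cons (P.lf 0 2260038 0) P.nil))) (P.cons (P.cons (P.lf 0 26376216 0) (P.cons (P.lf 0 3950058 0) P.nil)) (P.cons (P.cons (P.lf 0 5384770 0) P.nil) P.nil)))))) 23175410)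
 EL.nil)
noncomputable def S256_314_364_438_39 : EL := (EL.cons 14 (TM.mk (P.cons (P.lf 427113808 0 0) (P.cons (P.lf 827255282 0 0) (P.cons (P.lf 360960458 0 0) (P.cons (P.lf 0 50165998 0) (P.cons (P.lf 0 9520466 0) (P.cons (P.lf 1669162 0 0) P.nil)))))) 354406)
 EL.nil)
noncomputable def S256_314_364_438_40 : EL := (EL.cons 14 (TM.mk (P.cons (P.cons (P.lf 57669462 0 0) (P.cons (P.lf 0 36120708 0) (P.cons (P.lf 0 1976378 0) (P.lf 219596 0 0)))) (P.cons (P.cons (P.lf 45171800 0 0) (P.cons (P.lf 0 63005736 0) (P.cons (P.lf 0 3447420 0) (P.lf 383046 0 0)))) (P.cons (P.cons (P.lf 0 62410336 0) (P.cons (P.lf 0 14244668 0) (P.cons (P.lf 0 779410 0) (P.lf 86600 0 0)))) (P.cons (P.cons (P.lf 0 20349994 0) (P.cons (P.lf 14943940 0 0) (P.cons (P.lf 817670 0 0) P.nil))) (P.cons (P.cons (P.lf 36151556 0 0) (P.cons (P.lf 1058984 0 0) P.nil)) (P.cons (P.cons (P.lf 3436218 0 0) P.nil) P.nil))))))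 7259632)
 EL.nil)
noncomputable def S256_314_364_438_41 : EL := (EL.cons 14 (TM.mk (P.cons (P.cons (P.lf 7786606 0 0) (P.cons (P.lf 0 9754130 0) (P.cons (P.lf 2520994 0 0) (P.cons (P.lf 393582 0 0) (P.cons (P.lf 0 27996 0) (P.cons (P.lf 0 2032 0) P.nil)))))) (P.cons (P.cons (P.lf 0 2883174 0) (P.cons (P.lf 0 5762240 0) (P.cons (P.lf 4424912 0 0) (P.cons (P.lf 553760 0 0) (P.cons (P.lf 0 43444 0) P.nil))))) (P.cons (P.cons (P.lf 0 13072356 0) (P.cons (P.lf 12786244 0 0) (P.cons (P.lf 640600 0 0) (P.cons (P.lf 0 84190 0) P.nil)))) (P.cons (P.cons (P.lf 9973900 0 0) (P.cons (P.lf 1836422 0 0) (P.cons (P.lf 0 1757442 0) P.nil))) (P.cons (P.cons (P.lf 6142100 0 0) (P.cons (P.lf 0 7757880 0) P.nil)) (P.cons (P.cons (P.lf 0 7433644 0) P.nil) P.nil)))))) 18202758)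
 EL.nil)
noncomputable def S256_314_364_438_42 : EL := (EL.cons 14 (TM.mk (P.cons (P.lf 95240240 0 0) (P.cons (P.lf 276699060 0 0) (P.cons (P.lf 254714620 0 0) (P.cons (P.lf 56891654 0 0) (P.cons (P.lf 0 19126904 0) (P.cons (P.lf 0 2044974 0) P.nil)))))) 997622)
 EL.nil)
noncomputable def S256_314_364_438_43 : EL := (EL.cons 14 (TM.mk (P.cons (P.cons (P.lf 12859460 0 0) (P.cons (P.lf 0 8054398 0) (P.cons (P.lf 0 440704 0) (P.lf 48966 0 0)))) (P.cons (P.cons (P.lf 22526084 0 0) (P.cons (P.lf 0 21849454 0) (P.cons (P.lf 0 1195514 0) (P.lf 132834 0 0)))) (P.cons (P.cons (P.lf 0 4758228 0) (P.cons (P.lf 0 16408672 0) (P.cons (P.lf 0 897816 0) (P.lf 99756 0 0)))) (P.cons (P.cons (P.lf 0 18659754 0) (P.cons (P.lf 1018982 0 0) (P.cons (P.lf 55754 0 0) P.nil))) (P.cons (P.cons (P.lf 4187826 0 0) (P.cons (P.lf 3795300 0 0) P.nil)) (P.cons (P.cons (P.lf 8989864 0 0) P.nil) P.nil))))))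 7184110)
 EL.nil)
noncomputable def S256_314_364_438_44 : EL := (EL.cons 14 (TM.mk (P.cons (P.cons (P.lf 1736300 0 0) (P.cons (P.lf 0 2175030 0) (P.cons (P.lf 562144 0 0) (P.cons (P.lf 87762 0 0) (P.cons (P.lf 0 6242 0) (P.cons (P.lf 0 452 0) P.nil)))))) (P.cons (P.cons (P.lf 1038570 0 0) (P.cons (P.lf 0 3391250 0) (P.cons (P.lf 1531088 0 0) (P.cons (P.lf 208472 0 0) (P.cons (P.lf 0 15732 0) P.nil))))) (P.cons (P.cons (P.lf 0 3618058 0) (P.cons (P.lf 1707668 0 0) (P.cons (P.lf 1072316 0 0) (P.cons (P.lf 96738 0 0) P.nil)))) (P.cons (P.cons (P.lf 0 593066 0) (P.cons (P.lf 3260264 0 0) (P.cons (P.lf 0 307070 0) P.nil))) (P.cons (P.cons (P.lf 3669482 0 0) (P.cons (P.lf 0 1450302 0) P.nil)) (P.cons (P.cons (P.lf 0 394496 0) P.nil) P.nil)))))) 12372656)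
 EL.nil)
noncomputable def S256_314_364_438_45 : EL := (EL.cons 14 (TM.mk (P.cons (P.cons (P.lf 21144466 0 0) (P.cons (P.lf 0 39730896 0) (P.cons (P.lf 22711146 0 0) (P.cons (P.lf 0 2230738 0) (P.cons (P.lf 0 1080908 0) (P.cons (P.lf 31538 0 0) P.nil)))))) (P.cons (P.cons (P.lf 0 73174348 0) (P.cons (P.lf 99313840 0 0) (P.cons (P.lf 0 32855100 0) (P.cons (P.lf 0 1792824 0) (P.cons (P.lf 843538 0 0) P.nil))))) (P.cons (P.cons (P.lf 103882184 0 0) (P.cons (P.lf 0 91817656 0) (P.cons (P.lf 10717642 0 0) (P.cons (P.lf 2916168 0 0) P.nil)))) (P.cons (P.cons (P.lf 0 68185148 0) (P.cons (P.lf 23676324 0 0) (P.cons (P.lf 6967500 0 0) P.nil))) (P.cons (P.cons (P.lf 8993342 0 0) (P.cons (P.lf 15926256 0 0) P.nil)) (P.cons (P.cons (P.lf 14532826 0 0) P.nil) P.nil)))))) 46918848)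
 EL.nil)
noncomputable def S256_314_364_438_46 : EL := (EL.cons 15 (TM.mk (P.lf 4294967296 0 0) 0)
 EL.nil)
noncomputable def S256_314_364_438_47 : EL := (EL.cons 15 (TM.mk (P.cons (P.cons (P.lf 579912091 0 0) (P.cons (P.lf 0 363222316 0) (P.cons (P.lf 0 19874064 0) (P.lf 2208228 0 0)))) (P.cons (P.cons (P.lf 0 668964404 0) (P.cons (P.lf 69934520 0 0) (P.cons (P.lf 3826532 0 0) (P.lf 0 425168 0)))) (P.cons (P.cons (P.lf 178005595 0 0) (P.cons (P.lf 28270688 0 0) (P.cons (P.lf 1546856 0 0) (P.lf 0 171872 0)))) (P.cons (P.cons (P.lf 84059414 0 0) (P.cons (P.lf 0 6247380 0) (P.cons (P.lf 0 341828 0) P.nil))) (P.cons (P.cons (P.lf 0 15359031 0) (P.cons (P.lf 0 1025080 0) P.nil)) (P.cons (P.cons (P.lf 0 3008159 0) P.nil) P.nil)))))) 1693636)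
 EL.nil)
noncomputable def S256_314_364_438_48 : EL := (EL.cons 15 (TM.mk (P.cons (P.cons (P.lf 78300487 0 0) (P.cons (P.lf 0 98085502 0) (P.cons (P.lf 25350607 0 0) (P.cons (P.lf 3957786 0 0) (P.cons (P.lf 0 281533 0) (P.cons (P.lf 0 20436 0) P.nil)))))) (P.cons (P.cons (P.lf 0 180648894 0) (P.cons (P.lf 132032983 0 0) (P.cons (P.lf 0 4604312 0) (P.cons (P.lf 0 2097129 0) (P.cons (P.lf 108412 0 0) P.nil))))) (P.cons (P.cons (P.lf 152263922 0 0) (P.cons (P.lf 0 44258681 0) (P.cons (P.lf 0 6064583 0) (P.cons (P.lf 0 129579 0) P.nil)))) (P.cons (P.cons (P.lf 0 32751046 0) (P.cons (P.lf 0 18914478 0) (P.cons (P.lf 942407 0 0) P.nil))) (P.cons (P.cons (P.lf 0 22955540 0) (P.cons (P.lf 9347943 0 0) P.nil)) (P.cons (P.cons (P.lf 10939884 0 0) P.nil) P.nil)))))) 12288256)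
 EL.nil)
noncomputable def S256_314_364_438 : SL := (SL.cons S256_314_364_438_0 (SL.cons S256_314_364_438_1 (SL.cons S256_314_364_438_2 (SL.cons S256_314_364_438_3 (SL.cons S256_314_364_438_4 (SL.cons S256_314_364_438_5 (SL.cons S256_314_364_438_6 (SL.cons S256_314_364_438_7 (SL.cons S256_314_364_438_8 (SL.cons S256_314_364_438_9 (SL.cons S256_314_364_438_10 (SL.cons S256_314_364_438_11 (SL.cons S256_314_364_438_12 (SL.cons S256_314_364_438_13 (SL.cons S256_314_364_438_14 (SL.cons S256_314_364_438_15 (SL.cons S256_314_364_438_16 (SL.cons S256_314_364_438_17 (SL.cons S256_314_364_438_18 (SL.cons S256_314_364_438_19 (SL.cons S256_314_364_438_20 (SL.cons S256_314_364_438_21 (SL.cons S256_314_364_438_22 (SL.cons S256_314_364_438_23 (SL.cons S256_314_364_438_24 (SL.cons S256_314_364_438_25 (SL.cons S256_314_364_438_26 (SL.cons S256_314_364_438_27 (SL.cons S256_314_364_438_28 (SL.cons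 S256_314_364_438_29 (SL.cons S256_314_364_438_30 (SL.cons S256_314_364_438_31 (SL.cons S256_314_364_438_32 (SL.cons S256_314_364_438_33 (SL.cons S256_314_364_438_34 (SL.cons S256_314_364_438_35 (SL.cons S256_314_364_438_36 (SL.cons S256_314_364_438_37 (SL.cons S256_314_364_438_38 (SL.cons S256_314_364_438_39 (SL.cons S256_314_364_438_40 (SL.cons S256_314_364_438_41 (SL.cons S256_314_364_438_42 (SL.cons S256_314_364_438_43 (SL.cons S256_314_364_438_44 (SL.cons S256_314_364_438_45 (SL.cons S256_314_364_438_46 (SL.cons S256_314_364_438_47 (SL.cons S256_314_364_438_48 SL.nil)))))))))))))))))))))))))))))))))))))))))))))))))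
noncomputable def S256_314_364_512_0 : EL := (EL.cons 0 (TM.mk (P.cons (P.lf 8080323868 0 0) (P.cons (P.lf 0 727079837 0) (P.cons (P.lf 0 317250402 0) (P.cons (P.lf 44091209 0 0) (P.cons (P.lf 8367597 0 0) (P.cons (P.lf 0 1467036 0) P.nil)))))) 311496)
 (EL.cons 1 (TM.mk (P.cons (P.lf 869508750 0 0) (P.cons (P.lf 786249082 0 0) (P.cons (P.lf 0 120498519 0) (P.cons (P.lf 0 33042157 0) (P.cons (P.lf 5010903 0 0) (P.cons (P.lf 683975 0 0) P.nil)))))) 177172)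
 (EL.cons 5 (TM.mk (P.cons (P.lf 4428440364 0 0) (P.cons (P.lf 258517274 0 0) (P.cons (P.lf 112800140 0 0) (P.cons (P.lf 0 15676876 0) (P.cons (P.lf 0 2975142 0) (P.cons (P.lf 521612 0 0) P.nil)))))) 117185)
 (EL.cons 9 (TM.mk (P.lf 6442450944 0 0) 2)
 EL.nil))))
noncomputable def S256_314_364_512_1 : EL := (EL.cons 0 (TM.mk (P.cons (P.cons (P.lf 0 436722125 0) (P.cons (P.lf 0 1283476995 0) (P.cons (P.lf 0 85810287 0) (P.lf 28603431 0 0)))) (P.cons (P.cons (P.lf 0 1347792761 0) (P.cons (P.lf 783887362 0 0) (P.cons (P.lf 52408870 0 0) (P.lf 0 17469617 0)))) (P.cons (P.cons (P.lf 1399183729 0 0) (P.cons (P.lf 230758656 0 0) (P.cons (P.lf 15427979 0 0) (P.lf 0 5142656 0)))) (P.cons (P.cons (P.lf 333016518 0 0) (P.cons (P.lf 0 141499017 0) (P.cons (P.lf 0 9460278 0) P.nil))) (P.cons (P.cons (P.lf 0 214966347 0) (P.cons (P.lf 0 12529349 0) P.nil)) (P.cons (P.cons (P.lf 0 18115099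 0) P.nil) P.nil)))))) 47349149)
 (EL.cons 1 (TM.mk (P.cons (P.cons (P.lf 917458503 0 0) (P.cons (P.lf 0 385244619 0) (P.cons (P.lf 0 25756551 0) (P.lf 8585514 0 0)))) (P.cons (P.cons (P.lf 0 909226508 0) (P.cons (P.lf 0 241234698 0) (P.cons (P.lf 0 16128389 0) (P.lf 5376128 0 0)))) (P.cons (P.cons (P.lf 0 365168934 0) (P.cons (P.lf 192497483 0 0) (P.cons (P.lf 12869921 0 0) (P.lf 0 4289968 0)))) (P.cons (P.cons (P.lf 325548016 0 0) (P.cons (P.lf 27458049 0 0) (P.cons (P.lf 1835775 0 0) P.nil))) (P.cons (P.cons (P.lf 41209465 0 0) (P.cons (P.lf 0 23379218 0) P.nil)) (P.cons (P.cons (P.lf 0 34091413 0) P.nil) P.nil)))))) 24491209)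
 (EL.cons 5 (TM.mk (P.cons (P.cons (P.lf 493619670 0 0) (P.cons (P.lf 0 891228220 0) (P.cons (P.lf 0 59585446 0) (P.lf 19861814 0 0)))) (P.cons (P.cons (P.lf 0 533353290 0) (P.cons (P.lf 0 19254426 0) (P.cons (P.lf 0 1287300 0) (P.lf 429100 0 0)))) (P.cons (P.cons (P.lf 0 144480381 0) (P.cons (P.lf 22838366 0 0) (P.cons (P.lf 1526926 0 0) (P.lf 0 508976 0)))) (P.cons (P.cons (P.lf 13358049 0 0) (P.cons (P.lf 27132616 0 0) (P.cons (P.lf 1814014 0 0) P.nil))) (P.cons (P.cons (P.lf 48494719 0 0) (P.cons (P.lf 651758 0 0) P.nil)) (P.cons (P.cons (P.lf 1841621 0 0) P.nil) P.nil)))))) 21542145)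
 (EL.cons 9 (TM.mk (P.cons (P.cons (P.lf 298535902 0 0) (P.cons (P.lf 0 1189037286 0) (P.cons (P.lf 0 79496262 0) (P.lf 26498754 0 0)))) (P.cons (P.cons (P.lf 0 893442780 0) (P.cons (P.lf 228936240 0 0) (P.cons (P.lf 15306138 0 0) (P.lf 0 5102046 0)))) (P.cons (P.cons (P.lf 311476906 0 0) (P.cons (P.lf 92546364 0 0) (P.cons (P.lf 6187428 0 0) (P.lf 0 2062476 0)))) (P.cons (P.cons (P.lf 116262273 0 0) (P.cons (P.lf 0 20451300 0) (P.cons (P.lf 0 1367322 0) P.nil))) (P.cons (P.cons (P.lf 0 24650956 0) (P.cons (P.lf 0 3355686 0) P.nil)) (P.cons (P.cons (P.lf 0 4058194 0) P.nil) P.nil)))))) 3853087)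
 (EL.cons 2 (TM.mk (P.cons (P.cons (P.lf 0 585780311 0) (P.cons (P.lf 0 90693500 0) (P.cons (P.lf 43693267 0 0) (P.cons (P.lf 1653480 0 0) (P.lf 0 413370 0))))) (P.cons (P.cons (P.lf 0 492093795 0) (P.cons (P.lf 0 76188476 0) (P.cons (P.lf 36705203 0 0) (P.cons (P.lf 1389031 0 0) (P.lf 0 347256 0))))) (P.cons (P.cons (P.lf 132784605 0 0) (P.cons (P.lf 20558390 0 0) (P.cons (P.lf 0 9904381 0) (P.cons (P.lf 0 374810 0) P.nil)))) (P.cons (P.cons (P.lf 31824826 0 0) (P.cons (P.lf 4927280 0 0) (P.cons (P.lf 0 2373806 0) P.nil))) (P.cons (P.cons (P.lf 0 8526200 0) (P.cons (P.lf 0 1320069 0) P.nil)) (P.cons (P.cons (P.lf 0 946833 0) P.nil) P.nil)))))) 1886083)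
 (EL.cons 6 (TM.mk (P.cons (P.cons (P.lf 1356821016 0 0) (P.cons (P.lf 210069966 0 0) (P.cons (P.lf 0 101205084 0) (P.cons (P.lf 0 3829896 0) (P.lf 957471 0 0))))) (P.cons (P.cons (P.lf 0 261241179 0) (P.cons (P.lf 0 40446693 0) (P.cons (P.lf 19485939 0 0) (P.cons (P.lf 737403 0 0) (P.lf 0 184350 0))))) (P.cons (P.cons (P.lf 0 105605481 0) (P.cons (P.lf 0 16350378 0) (P.cons (P.lf 7877094 0 0) (P.cons (P.lf 298092 0 0) P.nil)))) (P.cons (P.cons (P.lf 23337159 0 0) (P.cons (P.lf 3613176 0 0) (P.cons (P.lf 0 1740714 0) P.nil))) (P.cons (P.cons (P.lf 3829206 0 0) (P.cons (P.lf 592857 0 0) P.nil)) (P.cons (P.cons (P.lf 0 1078272 0) P.nil) P.nil)))))) 1212498)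
 EL.nil))))))
noncomputable def S256_314_364_512_2 : EL := (EL.cons 0 (TM.mk (P.cons (P.cons (P.lf 0 57825214 0) (P.cons (P.lf 180468521 0 0) (P.cons (P.lf 210586371 0 0) (P.cons (P.lf 22523362 0 0) (P.cons (P.lf 0 7961049 0) (P.cons (P.lf 0 591595 0) P.nil)))))) (P.cons (P.cons (P.lf 101633788 0 0) (P.cons (P.lf 442417844 0 0) (P.cons (P.lf 0 220234927 0) (P.cons (P.lf 0 43263623 0) (P.cons (P.lf 10017990 0 0) P.nil))))) (P.cons (P.cons (P.lf 260996884 0 0) (P.cons (P.lf 0 697675261 0) (P.cons (P.lf 0 79074700 0) (P.cons (P.lf 11211943 0 0) P.nil)))) (P.cons (P.cons (P.lf 0 395393521 0) (P.cons (P.lf 0 47578165 0) (P.cons (P.lf 69801763 0 0) P.nil))) (P.cons (P.cons (P.lf 1662904 0 0) (P.cons (P.lf 194935421 0 0) P.nil)) (P.cons (P.cons (P.lf 122450179 0 0) P.nil) P.nil)))))) 304824344)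
 (EL.cons 1 (TM.mk (P.cons (P.cons (P.lf 83160888 0 0) (P.cons (P.lf 0 359488326 0) (P.cons (P.lf 88550682 0 0) (P.cons (P.lf 23065888 0 0) (P.cons (P.lf 0 4514871 0) (P.cons (P.lf 0 335495 0) P.nil)))))) (P.cons (P.cons (P.lf 0 329245251 0) (P.cons (P.lf 451392991 0 0) (P.cons (P.lf 76468308 0 0) (P.cons (P.lf 0 3870104 0) (P.cons (P.lf 0 1856284 0) P.nil))))) (P.cons (P.cons (P.lf 296800251 0 0) (P.cons (P.lf 122061225 0 0) (P.cons (P.lf 0 73177523 0) (P.cons (P.lf 0 13596405 0) P.nil)))) (P.cons (P.cons (P.lf 66733865 0 0) (P.cons (P.lf 0 232886541 0) (P.cons (P.lf 0 15694927 0) P.nil))) (P.cons (P.cons (P.lf 0 147344129 0) (P.cons (P.lf 5656924 0 0) P.nil)) (P.cons (P.cons (P.lf 8931013 0 0) P.nil) P.nil)))))) 166157922)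
 (EL.cons 5 (TM.mk (P.cons (P.cons (P.lf 36238396 0 0) (P.cons (P.lf 0 189056844 0) (P.cons (P.lf 165487392 0 0) (P.cons (P.lf 28031647 0 0) (P.cons (P.lf 0 7143226 0) (P.cons (P.lf 0 530811 0) P.nil)))))) (P.cons (P.cons (P.lf 0 129979017 0) (P.cons (P.lf 240507263 0 0) (P.cons (P.lf 9128721 0 0) (P.cons (P.lf 0 6289385 0) (P.cons (P.lf 278754 0 0) P.nil))))) (P.cons (P.cons (P.lf 80340595 0 0) (P.cons (P.lf 55514443 0 0) (P.cons (P.lf 0 14253839 0) (P.cons (P.lf 0 3639431 0) P.nil)))) (P.cons (P.cons (P.lf 54885471 0 0) (P.cons (P.lf 0 37871509 0) (P.cons (P.lf 0 12471396 0) P.nil))) (P.cons (P.cons (P.lf 0 22659611 0) (P.cons (P.lf 0 33415000 0) P.nil)) (P.cons (P.cons (P.lf 0 23474307 0) P.nil) P.nil)))))) 141901009)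
 (EL.cons 9 (TM.mk (P.cons (P.cons (P.lf 13833816 0 0) (P.cons (P.lf 0 110197290 0) (P.cons (P.lf 212084608 0 0) (P.cons (P.lf 31799961 0 0) (P.cons (P.lf 0 8800432 0) (P.cons (P.lf 0 653959 0) P.nil)))))) (P.cons (P.cons (P.lf 0 82802259 0) (P.cons (P.lf 351010033 0 0) (P.cons (P.lf 0 61038549 0) (P.cons (P.lf 0 19122351 0) (P.cons (P.lf 3388854 0 0) P.nil))))) (P.cons (P.cons (P.lf 152770131 0 0) (P.cons (P.lf 0 169895176 0) (P.cons (P.lf 0 37384657 0) (P.cons (P.lf 306208 0 0) P.nil)))) (P.cons (P.cons (P.lf 0 75616665 0) (P.cons (P.lf 0 48342519 0) (P.cons (P.lf 10894411 0 0) P.nil))) (P.cons (P.cons (P.lf 0 19472077 0) (P.cons (P.lf 31672381 0 0) P.nil)) (P.cons (P.cons (P.lf 17703111 0 0) P.nil) P.nil)))))) 39603139)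
 (EL.cons 2 (TM.mk (P.cons (P.cons (P.lf 0 54288793 0) (P.cons (P.lf 207821328 0 0) (P.cons (P.lf 51983105 0 0) (P.cons (P.lf 0 18555654 0) (P.cons (P.lf 0 2473020 0) (P.cons (P.lf 471211 0 0) P.nil)))))) (P.cons (P.cons (P.lf 116866552 0 0) (P.cons (P.lf 158106279 0 0) (P.cons (P.lf 22321276 0 0) (P.cons (P.lf 0 12444378 0) (P.cons (P.lf 0 1494067 0) P.nil))))) (P.cons (P.cons (P.lf 92151753 0 0) (P.cons (P.lf 0 86550058 0) (P.cons (P.lf 0 29223078 0) (P.cons (P.lf 8463060 0 0) P.nil)))) (P.cons (P.cons (P.lf 0 102605231 0) (P.cons (P.lf 0 28614937 0) (P.cons (P.lf 4831492 0 0) P.nil))) (P.cons (P.cons (P.lf 0 10055671 0) (P.cons (P.lf 11401616 0 0) P.nil)) (P.cons (P.cons (P.lf 14650740 0 0) P.nil) P.nil)))))) 31327688)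
 (EL.cons 6 (TM.mk (P.cons (P.cons (P.lf 125747100 0 0) (P.cons (P.lf 0 481368768 0) (P.cons (P.lf 0 120406524 0) (P.cons (P.lf 42979770 0 0) (P.cons (P.lf 5728176 0 0) (P.cons (P.lf 0 1091448 0) P.nil)))))) (P.cons (P.cons (P.lf 0 400540668 0) (P.cons (P.lf 130847940 0 0) (P.cons (P.lf 72630378 0 0) (P.cons (P.lf 0 15556650 0) (P.cons (P.lf 0 2454276 0) P.nil))))) (P.cons (P.cons (P.lf 193868892 0 0) (P.cons (P.lf 89412462 0 0) (P.cons (P.lf 0 1293426 0) (P.cons (P.lf 0 5686500 0) P.nil)))) (P.cons (P.cons (P.lf 55164078 0 0) (P.cons (P.lf 0 23698914 0) (P.cons (P.lf 0 11261664 0) P.nil))) (P.cons (P.cons (P.lf 0 36141630 0) (P.cons (P.lf 0 8139408 0) P.nil)) (P.cons (P.cons (P.lf 0 2427156 0) P.nil) P.nil)))))) 24084210)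
 EL.nil))))))
noncomputable def S256_314_364_512_3 : EL := (EL.cons 0 (TM.mk (P.cons (P.lf 375392995 0 0) (P.cons (P.lf 727079837 0 0) (P.cons (P.lf 317250402 0 0) (P.cons (P.lf 0 44091209 0) (P.cons (P.lf 0 8367597 0) (P.cons (P.lf 1467036 0 0) P.nil)))))) 311496)
 (EL.cons 1 (TM.mk (P.cons (P.lf 0 869508750 0) (P.cons (P.lf 0 786249082 0) (P.cons (P.lf 120498519 0 0) (P.cons (P.lf 33042157 0 0) (P.cons (P.lf 0 5010903 0) (P.cons (P.lf 0 683975 0) P.nil)))))) 177172)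
 (EL.cons 5 (TM.mk (P.cons (P.lf 2014010580 0 0) (P.cons (P.lf 0 258517274 0) (P.cons (P.lf 0 112800140 0) (P.cons (P.lf 15676876 0 0) (P.cons (P.lf 2975142 0 0) (P.cons (P.lf 0 521612 0) P.nil)))))) 117178)
 EL.nil)))
noncomputable def S256_314_364_512_4 : EL := (EL.cons 0 (TM.mk (P.cons (P.cons (P.lf 17395286 0 0) (P.cons (P.lf 0 69283610 0) (P.cons (P.lf 0 4632140 0) (P.lf 1544046 0 0)))) (P.cons (P.cons (P.lf 0 18367655 0) (P.cons (P.lf 0 120852137 0) (P.cons (P.lf 0 8079892 0) (P.lf 2693297 0 0)))) (P.cons (P.cons (P.lf 0 67981478 0) (P.cons (P.lf 0 27322889 0) (P.cons (P.lf 0 1826745 0) (P.lf 608915 0 0)))) (P.cons (P.cons (P.lf 0 4112606 0) (P.cons (P.lf 28664172 0 0) (P.cons (P.lf 1916418 0 0) P.nil))) (P.cons (P.cons (P.lf 32749845 0 0) (P.cons (P.lf 2031252 0 0) P.nil)) (P.cons (P.cons (P.lf 1803375 0 0) P.nil) P.nil)))))) 9657811)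
 (EL.cons 1 (TM.mk (P.cons (P.cons (P.lf 0 40292051 0) (P.cons (P.lf 160479035 0 0) (P.cons (P.lf 10729252 0 0) (P.lf 0 3576416 0)))) (P.cons (P.cons (P.lf 84150075 0 0) (P.cons (P.lf 114213894 0 0) (P.cons (P.lf 7636074 0 0) (P.lf 0 2545357 0)))) (P.cons (P.cons (P.lf 72582592 0 0) (P.cons (P.lf 0 62669938 0) (P.cons (P.lf 0 4189963 0) (P.lf 1396653 0 0)))) (P.cons (P.cons (P.lf 0 68884305 0) (P.cons (P.lf 0 10350686 0) (P.cons (P.lf 0 692021 0) P.nil))) (P.cons (P.cons (P.lf 0 9850533 0) (P.cons (P.lf 6778786 0 0) P.nil)) (P.cons (P.cons (P.lf 7991443 0 0) P.nil) P.nil)))))) 6492527)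
 (EL.cons 5 (TM.mk (P.cons (P.cons (P.lf 93326974 0 0) (P.cons (P.lf 0 371711588 0) (P.cons (P.lf 0 24851768 0) (P.lf 8283922 0 0)))) (P.cons (P.cons (P.lf 0 291283536 0) (P.cons (P.lf 119281728 0 0) (P.cons (P.lf 7974894 0 0) (P.lf 0 2658298 0)))) (P.cons (P.cons (P.lf 127996826 0 0) (P.cons (P.lf 40563592 0 0) (P.cons (P.lf 2711984 0 0) (P.lf 0 903994 0)))) (P.cons (P.cons (P.lf 40216350 0 0) (P.cons (P.lf 0 17008804 0) (P.cons (P.lf 0 1137166 0) P.nil))) (P.cons (P.cons (P.lf 0 19861374 0) (P.cons (P.lf 0 1840784 0) P.nil)) (P.cons (P.cons (P.lf 0 1993930 0) P.nil) P.nil)))))) 4556744)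
 EL.nil)))
noncomputable def S256_314_364_512_5 : EL := (EL.cons 0 (TM.mk (P.cons (P.cons (P.lf 806076 0 0) (P.cons (P.lf 0 6421048 0) (P.cons (P.lf 12357885 0 0) (P.cons (P.lf 1852940 0 0) (P.cons (P.lf 0 512789 0) (P.cons (P.lf 0 38104 0) P.nil)))))) (P.cons (P.cons (P.lf 0 3263524 0) (P.cons (P.lf 8016277 0 0) (P.cons (P.lf 20378733 0 0) (P.cons (P.lf 2474634 0 0) (P.cons (P.lf 0 795731 0) P.nil))))) (P.cons (P.cons (P.lf 238071 0 0) (P.cons (P.lf 24288073 0 0) (P.cons (P.lf 1376818 0 0) (P.cons (P.lf 0 574310 0) P.nil)))) (P.cons (P.cons (P.lf 8663023 0 0) (P.cons (P.lf 0 3951599 0) (P.cons (P.lf 0 8041584 0) P.nil))) (P.cons (P.cons (P.lf 0 1596837 0) (P.cons (P.lf 0 14235725 0) P.nil)) (P.cons (P.cons (P.lf 0 5824524 0) P.nil) P.nil)))))) 31785622)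
 (EL.cons 1 (TM.mk (P.cons (P.cons (P.lf 0 1867085 0) (P.cons (P.lf 14872833 0 0) (P.cons (P.lf 0 28624108 0) (P.cons (P.lf 0 4291897 0) (P.cons (P.lf 1187752 0 0) (P.cons (P.lf 88260 0 0) P.nil)))))) (P.cons (P.cons (P.lf 9487141 0 0) (P.cons (P.lf 0 33925561 0) (P.cons (P.lf 0 17645111 0) (P.cons (P.lf 0 1300068 0) (P.cons (P.lf 616642 0 0) P.nil))))) (P.cons (P.cons (P.lf 0 10254607 0) (P.cons (P.lf 0 21969056 0) (P.cons (P.lf 16461695 0 0) (P.cons (P.lf 2887181 0 0) P.nil)))) (P.cons (P.cons (P.lf 0 9916485 0) (P.cons (P.lf 33258956 0 0) (P.cons (P.lf 3038212 0 0) P.nil))) (P.cons (P.cons (P.lf 14278410 0 0) (P.cons (P.lf 333420 0 0) P.nil)) (P.cons (P.cons (P.lf 0 580755 0) P.nil) P.nil)))))) 26864618)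
 (EL.cons 5 (TM.mk (P.cons (P.cons (P.lf 4324664 0 0) (P.cons (P.lf 0 34449390 0) (P.cons (P.lf 66300952 0 0) (P.cons (P.lf 9941162 0 0) (P.cons (P.lf 0 2751150 0) (P.cons (P.lf 0 204436 0) P.nil)))))) (P.cons (P.cons (P.lf 0 26440386 0) (P.cons (P.lf 114153110 0 0) (P.cons (P.lf 0 27591954 0) (P.cons (P.lf 0 7253986 0) (P.cons (P.lf 1412544 0 0) P.nil))))) (P.cons (P.cons (P.lf 50838728 0 0) (P.cons (P.lf 0 65267484 0) (P.cons (P.lf 0 12951086 0) (P.cons (P.lf 306268 0 0) P.nil)))) (P.cons (P.cons (P.lf 0 28285740 0) (P.cons (P.lf 0 14709158 0) (P.cons (P.lf 6490700 0 0) P.nil))) (P.cons (P.cons (P.lf 0 5922926 0) (P.cons (P.lf 15619050 0 0) P.nil)) (P.cons (P.cons (P.lf 7971978 0 0) P.nil) P.nil)))))) 23206422)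
 EL.nil)))
noncomputable def S256_314_364_512_6 : EL := (EL.cons 12 (TM.mk (P.lf 8589934592 0 0) 0)
 (EL.cons 3 (TM.mk (P.cons (P.lf 897858742 0 0) (P.cons (P.lf 869508750 0 0) (P.cons (P.lf 0 41629830 0) (P.cons (P.lf 0 12412950 0) (P.cons (P.lf 1049171 0 0) (P.cons (P.lf 162840 0 0) P.nil)))))) 27209)
 (EL.cons 7 (TM.mk (P.cons (P.lf 0 2079676607 0) (P.cons (P.lf 133473065 0 0) (P.cons (P.lf 62522105 0 0) (P.cons (P.lf 0 4081356 0) (P.cons (P.lf 0 858201 0) (P.cons (P.lf 91532 0 0) P.nil)))))) 18219)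
 EL.nil)))
noncomputable def S256_314_364_512_7 : EL := (EL.cons 12 (TM.mk (P.cons (P.cons (P.lf 398047870 0 0) (P.cons (P.lf 0 1585383048 0) (P.cons (P.lf 0 105995016 0) (P.lf 35331672 0 0)))) (P.cons (P.cons (P.lf 0 1191257040 0) (P.cons (P.lf 305248320 0 0) (P.cons (P.lf 20408184 0 0) (P.lf 0 6802728 0)))) (P.cons (P.cons (P.lf 415302542 0 0) (P.cons (P.lf 123395152 0 0) (P.cons (P.lf 8249904 0 0) (P.lf 0 2749968 0)))) (P.cons (P.cons (P.lf 155016364 0 0) (P.cons (P.lf 0 27268400 0) (P.cons (P.lf 0 1823096 0) P.nil))) (P.cons (P.cons (P.lf 0 32867942 0) (P.cons (P.lf 0 4474248 0) P.nil)) (P.cons (P.cons (P.lf 0 5410926 0) P.nil) P.nil)))))) 5137424)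
 (EL.cons 3 (TM.mk (P.cons (P.cons (P.lf 0 1898501828 0) (P.cons (P.lf 331422784 0 0) (P.cons (P.lf 22158152 0 0) (P.lf 0 7386050 0)))) (P.cons (P.cons (P.lf 1331774757 0 0) (P.cons (P.lf 257146208 0 0) (P.cons (P.lf 17192196 0 0) (P.lf 0 5730730 0)))) (P.cons (P.cons (P.lf 665808146 0 0) (P.cons (P.lf 0 102959276 0) (P.cons (P.lf 0 6883612 0) (P.lf 2294536 0 0)))) (P.cons (P.cons (P.lf 0 197425334 0) (P.cons (P.lf 0 20903962 0) (P.cons (P.lf 0 1397588 0) P.nil))) (P.cons (P.cons (P.lf 0 37414637 0) (P.cons (P.lf 8921286 0 0) P.nil)) (P.cons (P.cons (P.lf 13111172 0 0) P.nil) P.nil)))))) 15879966)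
 (EL.cons 7 (TM.mk (P.cons (P.cons (P.lf 0 394184131 0) (P.cons (P.lf 460143188 0 0) (P.cons (P.lf 30764107 0 0) (P.lf 0 10254702 0)))) (P.cons (P.cons (P.lf 204432747 0 0) (P.cons (P.lf 39472967 0 0) (P.cons (P.lf 2639067 0 0) (P.lf 0 879689 0)))) (P.cons (P.cons (P.lf 207753303 0 0) (P.cons (P.lf 4575321 0 0) (P.cons (P.lf 305892 0 0) (P.lf 0 101965 0)))) (P.cons (P.cons (P.lf 43457277 0 0) (P.cons (P.lf 0 13431330 0) (P.cons (P.lf 0 897983 0) P.nil))) (P.cons (P.cons (P.lf 0 25716366 0) (P.cons (P.lf 0 1328324 0) P.nil)) (P.cons (P.cons (P.lf 0 2827717 0) P.nil) P.nil)))))) 11494486)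
 (EL.cons 10 (TM.mk (P.cons (P.cons (P.lf 0 2802119268 0) (P.cons (P.lf 0 433838430 0) (P.cons (P.lf 209009673 0 0) (P.cons (P.lf 7909539 0 0) (P.lf 0 1977384 0))))) (P.cons (P.cons (P.lf 359678463 0 0) (P.cons (P.lf 55687257 0 0) (P.cons (P.lf 0 26828364 0) (P.cons (P.lf 0 1015263 0) (P.lf 253815 0 0))))) (P.cons (P.cons (P.lf 156940308 0 0) (P.cons (P.lf 24298299 0 0) (P.cons (P.lf 0 11706153 0) (P.cons (P.lf 0 442995 0) P.nil)))) (P.cons (P.cons (P.lf 0 21811440 0) (P.cons (P.lf 0 3376959 0) (P.cons (P.lf 1626912 0 0) P.nil))) (P.cons (P.cons (P.lf 0 4139352 0) (P.cons (P.lf 0 640875 0) P.nil)) (P.cons (P.cons (P.lf 725724 0 0) P.nil) P.nil)))))) 881241)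
 EL.nil))))
noncomputable def S256_314_364_512_8 : EL := (EL.cons 12 (TM.mk (P.cons (P.cons (P.lf 18445088 0 0) (P.cons (P.lf 0 146929720 0) (P.cons (P.lf 282779478 0 0) (P.cons (P.lf 42399948 0 0) (P.cons (P.lf 0 11733910 0) (P.cons (P.lf 0 871946 0) P.nil)))))) (P.cons (P.cons (P.lf 0 110403012 0) (P.cons (P.lf 468013378 0 0) (P.cons (P.lf 0 81384732 0) (P.cons (P.lf 0 25496468 0) (P.cons (P.lf 4518472 0 0) P.nil))))) (P.cons (P.cons (P.lf 203693508 0 0) (P.cons (P.lf 0 226526902 0) (P.cons (P.lf 0 49846210 0) (P.cons (P.lf 408278 0 0) P.nil)))) (P.cons (P.cons (P.lf 0 100822220 0) (P.cons (P.lf 0 64456692 0) (P.cons (P.lf 14525882 0 0) P.nil))) (P.cons (P.cons (P.lf 0 25962770 0) (P.cons (P.lf 42229842 0 0) P.nil)) (P.cons (P.cons (P.lf 23604148 0 0) P.nil) P.nil)))))) 52804156)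
 (EL.cons 3 (TM.mk (P.cons (P.cons (P.lf 0 177876821 0) (P.cons (P.lf 746859191 0 0) (P.cons (P.lf 0 102987587 0) (P.cons (P.lf 0 37092283 0) (P.cons (P.lf 6132406 0 0) (P.cons (P.lf 455695 0 0) P.nil)))))) (P.cons (P.cons (P.lf 659669244 0 0) (P.cons (P.lf 0 728659204 0) (P.cons (P.lf 0 137922309 0) (P.cons (P.lf 4310619 0 0) (P.cons (P.lf 3577315 0 0) P.nil))))) (P.cons (P.cons (P.lf 0 501279028 0) (P.cons (P.lf 0 278886569 0) (P.cons (P.lf 63607338 0 0) (P.cons (P.lf 17213719 0 0) P.nil)))) (P.cons (P.cons (P.lf 0 153300565 0) (P.cons (P.lf 265679477 0 0) (P.cons (P.lf 24865740 0 0) P.nil))) (P.cons (P.cons (P.lf 192011560 0 0) (P.cons (P.lf 17551486 0 0) P.nil)) (P.cons (P.cons (P.lf 8712998 0 0) P.nil) P.nil)))))) 181059689)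
 (EL.cons 7 (TM.mk (P.cons (P.cons (P.lf 0 32066420 0) (P.cons (P.lf 152575947 0 0) (P.cons (P.lf 0 88808850 0) (P.cons (P.lf 0 16639409 0) (P.cons (P.lf 3970466 0 0) (P.cons (P.lf 295043 0 0) P.nil)))))) (P.cons (P.cons (P.lf 101261859 0 0) (P.cons (P.lf 0 111852106 0) (P.cons (P.lf 0 21171621 0) (P.cons (P.lf 661703 0 0) (P.cons (P.lf 549129 0 0) P.nil))))) (P.cons (P.cons (P.lf 0 24666602 0) (P.cons (P.lf 0 100559692 0) (P.cons (P.lf 0 1166975 0) (P.cons (P.lf 2984009 0 0) P.nil)))) (P.cons (P.cons (P.lf 0 74817033 0) (P.cons (P.lf 9449107 0 0) (P.cons (P.lf 10185895 0 0) P.nil))) (P.cons (P.cons (P.lf 9794755 0 0) (P.cons (P.lf 32692749 0 0) P.nil)) (P.cons (P.cons (P.lf 24440781 0 0) P.nil) P.nil)))))) 82044964)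
 (EL.cons 10 (TM.mk (P.cons (P.cons (P.lf 0 259694082 0) (P.cons (P.lf 994127220 0 0) (P.cons (P.lf 248664666 0 0) (P.cons (P.lf 0 88762224 0) (P.cons (P.lf 0 11829882 0) (P.cons (P.lf 2254080 0 0) P.nil)))))) (P.cons (P.cons (P.lf 810533190 0 0) (P.cons (P.lf 0 206425566 0) (P.cons (P.lf 0 134037708 0) (P.cons (P.lf 26431008 0 0) (P.cons (P.lf 4309356 0 0) P.nil))))) (P.cons (P.cons (P.lf 0 356167320 0) (P.cons (P.lf 0 168016956 0) (P.cons (P.lf 1544400 0 0) (P.cons (P.lf 10771656 0 0) P.nil)))) (P.cons (P.cons (P.lf 0 111907068 0) (P.cons (P.lf 30003120 0 0) (P.cons (P.lf 18839184 0 0) P.nil))) (P.cons (P.cons (P.lf 55266780 0 0) (P.cons (P.lf 13678896 0 0) P.nil)) (P.cons (P.cons (P.lf 5548362 0 0) P.nil) P.nil)))))) 35218770)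
 EL.nil))))
noncomputable def S256_314_364_512_9 : EL := (EL.cons 3 (TM.mk (P.cons (P.lf 897858742 0 0) (P.cons (P.lf 869508750 0 0) (P.cons (P.lf 0 41629830 0) (P.cons (P.lf 0 12412950 0) (P.cons (P.lf 1049171 0 0) (P.cons (P.lf 162840 0 0) P.nil)))))) 27209)
 (EL.cons 7 (TM.mk (P.cons (P.lf 0 2079676607 0) (P.cons (P.lf 133473065 0 0) (P.cons (P.lf 62522105 0 0) (P.cons (P.lf 0 4081356 0) (P.cons (P.lf 0 858201 0) (P.cons (P.lf 91532 0 0) P.nil)))))) 18219)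
 EL.nil))
noncomputable def S256_314_364_512_10 : EL := (EL.cons 3 (TM.mk (P.cons (P.cons (P.lf 41605759 0 0) (P.cons (P.lf 0 165711392 0) (P.cons (P.lf 0 11079076 0) (P.lf 3693025 0 0)))) (P.cons (P.cons (P.lf 0 84223509 0) (P.cons (P.lf 0 128573104 0) (P.cons (P.lf 0 8596098 0) (P.lf 2865365 0 0)))) (P.cons (P.cons (P.lf 0 79103752 0) (P.cons (P.lf 51479638 0 0) (P.cons (P.lf 3441806 0 0) (P.lf 0 1147268 0)))) (P.cons (P.cons (P.lf 63439699 0 0) (P.cons (P.lf 10451981 0 0) (P.cons (P.lf 698794 0 0) P.nil))) (P.cons (P.cons (P.lf 12013243 0 0) (P.cons (P.lf 0 4460643 0) P.nil)) (P.cons (P.cons (P.lf 0 5381956 0) P.nil) P.nil)))))) 3843584)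
 (EL.cons 7 (TM.mk (P.cons (P.cons (P.lf 0 96369865 0) (P.cons (P.lf 383831099 0 0) (P.cons (P.lf 25662052 0 0) (P.lf 0 8554017 0)))) (P.cons (P.cons (P.lf 294595731 0 0) (P.cons (P.lf 0 98536690 0) (P.cons (P.lf 0 6587931 0) (P.lf 2195977 0 0)))) (P.cons (P.cons (P.lf 0 116160246 0) (P.cons (P.lf 0 36670950 0) (P.cons (P.lf 0 2451732 0) (P.lf 817244 0 0)))) (P.cons (P.cons (P.lf 0 39937053 0) (P.cons (P.lf 11494227 0 0) (P.cons (P.lf 768475 0 0) P.nil))) (P.cons (P.cons (P.lf 13915254 0 0) (P.cons (P.lf 1571032 0 0) P.nil)) (P.cons (P.cons (P.lf 1853531 0 0) P.nil) P.nil)))))) 2619792)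
 EL.nil))
noncomputable def S256_314_364_512_11 : EL := (EL.cons 3 (TM.mk (P.cons (P.cons (P.lf 1927963 0 0) (P.cons (P.lf 0 15357757 0) (P.cons (P.lf 29557387 0 0) (P.cons (P.lf 4431833 0 0) (P.cons (P.lf 0 1226480 0) (P.cons (P.lf 0 91139 0) P.nil)))))) (P.cons (P.cons (P.lf 0 9672732 0) (P.cons (P.lf 34046036 0 0) (P.cons (P.lf 20117409 0 0) (P.cons (P.lf 1626891 0 0) (P.cons (P.lf 0 715463 0) P.nil))))) (P.cons (P.cons (P.lf 10026122 0 0) (P.cons (P.lf 24408709 0 0) (P.cons (P.lf 0 14818698 0) (P.cons (P.lf 0 2743667 0) P.nil)))) (P.cons (P.cons (P.lf 10588703 0 0) (P.cons (P.lf 0 31723129 0) (P.cons (P.lf 0 3541542 0) P.nil))) (P.cons (P.cons (P.lf 0 13744766 0) (P.cons (P.lf 0 1706942 0) P.nil)) (P.cons (P.cons (P.lf 20288 0 0) P.nil) P.nil)))))) 22482823)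
 (EL.cons 7 (TM.mk (P.cons (P.cons (P.lf 0 4465670 0) (P.cons (P.lf 35572599 0 0) (P.cons (P.lf 0 68462670 0) (P.cons (P.lf 0 10265291 0) (P.cons (P.lf 2840852 0 0) (P.cons (P.lf 211103 0 0) P.nil)))))) (P.cons (P.cons (P.lf 27015861 0 0) (P.cons (P.lf 0 115591990 0) (P.cons (P.lf 24097665 0 0) (P.cons (P.lf 6831677 0 0) (P.cons (P.lf 0 1276275 0) P.nil))))) (P.cons (P.cons (P.lf 0 50896688 0) (P.cons (P.lf 61046276 0 0) (P.cons (P.lf 12861715 0 0) (P.cons (P.lf 0 186409 0) P.nil)))) (P.cons (P.cons (P.lf 26762403 0 0) (P.cons (P.lf 15561781 0 0) (P.cons (P.lf 0 5018051 0) P.nil))) (P.cons (P.cons (P.lf 6252343 0 0) (P.cons (P.lf 0 13082127 0) P.nil)) (P.cons (P.cons (P.lf 0 6937521 0) P.nil) P.nil)))))) 17808924)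
 EL.nil))
noncomputable def S256_314_364_512_12 : EL := (EL.cons 4 (TM.mk (P.cons (P.lf 0 897858742 0) (P.cons (P.lf 0 869508750 0) (P.cons (P.lf 41629830 0 0) (P.cons (P.lf 12412950 0 0) (P.cons (P.lf 0 1049171 0) (P.cons (P.lf 0 162840 0) P.nil)))))) 27209)
 (EL.cons 8 (TM.mk (P.cons (P.lf 2079676607 0 0) (P.cons (P.lf 0 133473065 0) (P.cons (P.lf 0 62522105 0) (P.cons (P.lf 4081356 0 0) (P.cons (P.lf 858201 0 0) (P.cons (P.lf 0 91532 0) P.nil)))))) 18219)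
 EL.nil))
noncomputable def S256_314_364_512_13 : EL := (EL.cons 4 (TM.mk (P.cons (P.cons (P.lf 0 41605759 0) (P.cons (P.lf 165711392 0 0) (P.cons (P.lf 11079076 0 0) (P.lf 0 3693025 0)))) (P.cons (P.cons (P.lf 84223509 0 0) (P.cons (P.lf 128573104 0 0) (P.cons (P.lf 8596098 0 0) (P.lf 0 2865365 0)))) (P.cons (P.cons (P.lf 79103752 0 0) (P.cons (P.lf 0 51479638 0) (P.cons (P.lf 0 3441806 0) (P.lf 1147268 0 0)))) (P.cons (P.cons (P.lf 0 63439699 0) (P.cons (P.lf 0 10451981 0) (P.cons (P.lf 0 698794 0) P.nil))) (P.cons (P.cons (P.lf 0 12013243 0) (P.cons (P.lf 4460643 0 0) P.nil)) (P.cons (P.cons (P.lf 5381956 0 0) P.nil) P.nil)))))) 3843584)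
 (EL.cons 8 (TM.mk (P.cons (P.cons (P.lf 96369865 0 0) (P.cons (P.lf 0 383831099 0) (P.cons (P.lf 0 25662052 0) (P.lf 8554017 0 0)))) (P.cons (P.cons (P.lf 0 294595731 0) (P.cons (P.lf 98536690 0 0) (P.cons (P.lf 6587931 0 0) (P.lf 0 2195977 0)))) (P.cons (P.cons (P.lf 116160246 0 0) (P.cons (P.lf 36670950 0 0) (P.cons (P.lf 2451732 0 0) (P.lf 0 817244 0)))) (P.cons (P.cons (P.lf 39937053 0 0) (P.cons (P.lf 0 11494227 0) (P.cons (P.lf 0 768475 0) P.nil))) (P.cons (P.cons (P.lf 0 13915254 0) (P.cons (P.lf 0 1571032 0) P.nil)) (P.cons (P.cons (P.lf 0 1853531 0) P.nil) P.nil)))))) 2619792)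
 EL.nil))
noncomputable def S256_314_364_512_14 : EL := (EL.cons 4 (TM.mk (P.cons (P.cons (P.lf 0 1927963 0) (P.cons (P.lf 15357757 0 0) (P.cons (P.lf 0 29557387 0) (P.cons (P.lf 0 4431833 0) (P.cons (P.lf 1226480 0 0) (P.cons (P.lf 91139 0 0) P.nil)))))) (P.cons (P.cons (P.lf 9672732 0 0) (P.cons (P.lf 0 34046036 0) (P.cons (P.lf 0 20117409 0) (P.cons (P.lf 0 1626891 0) (P.cons (P.lf 715463 0 0) P.nil))))) (P.cons (P.cons (P.lf 0 10026122 0) (P.cons (P.lf 0 24408709 0) (P.cons (P.lf 14818698 0 0) (P.cons (P.lf 2743667 0 0) P.nil)))) (P.cons (P.cons (P.lf 0 10588703 0) (P.cons (P.lf 31723129 0 0) (P.cons (P.lf 3541542 0 0) P.nil))) (P.cons (P.cons (P.lf 13744766 0 0) (P.cons (P.lf 1706942 0 0) P.nil)) (P.cons (P.cons (P.lf 0 20288 0) P.nil) P.nil)))))) 22482823)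
 (EL.cons 8 (TM.mk (P.cons (P.cons (P.lf 4465670 0 0) (P.cons (P.lf 0 35572599 0) (P.cons (P.lf 68462670 0 0) (P.cons (P.lf 10265291 0 0) (P.cons (P.lf 0 2840852 0) (P.cons (P.lf 0 211103 0) P.nil)))))) (P.cons (P.cons (P.lf 0 27015861 0) (P.cons (P.lf 115591990 0 0) (P.cons (P.lf 0 24097665 0) (P.cons (P.lf 0 6831677 0) (P.cons (P.lf 1276275 0 0) P.nil))))) (P.cons (P.cons (P.lf 50896688 0 0) (P.cons (P.lf 0 61046276 0) (P.cons (P.lf 0 12861715 0) (P.cons (P.lf 186409 0 0) P.nil)))) (P.cons (P.cons (P.lf 0 26762403 0) (P.cons (P.lf 0 15561781 0) (P.cons (P.lf 5018051 0 0) P.nil))) (P.cons (P.cons (P.lf 0 6252343 0) (P.cons (P.lf 13082127 0 0) P.nil)) (P.cons (P.cons (P.lf 6937521 0 0) P.nil) P.nil)))))) 17808924)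
 EL.nil))
noncomputable def S256_314_364_512_15 : EL := (EL.cons 4 (TM.mk (P.cons (P.lf 0 200209597 0) (P.cons (P.lf 0 387775913 0) (P.cons (P.lf 0 169200214 0) (P.cons (P.lf 23515311 0 0) (P.cons (P.lf 4462718 0 0) (P.cons (P.lf 0 782419 0) P.nil)))))) 166134)
 (EL.cons 8 (TM.mk (P.cons (P.lf 463738000 0 0) (P.cons (P.lf 419332844 0 0) (P.cons (P.lf 0 64265877 0) (P.cons (P.lf 0 17622484 0) (P.cons (P.lf 2672482 0 0) (P.cons (P.lf 364787 0 0) P.nil)))))) 94488)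
 EL.nil))
noncomputable def S256_314_364_512_16 : EL := (EL.cons 4 (TM.mk (P.cons (P.cons (P.lf 0 9277485 0) (P.cons (P.lf 36951258 0 0) (P.cons (P.lf 2470474 0 0) (P.lf 0 823491 0)))) (P.cons (P.cons (P.lf 9796082 0 0) (P.cons (P.lf 64454473 0 0) (P.cons (P.lf 4309275 0 0) (P.lf 0 1436425 0)))) (P.cons (P.cons (P.lf 36256788 0 0) (P.cons (P.lf 14572207 0 0) (P.cons (P.lf 974264 0 0) (P.lf 0 324754 0)))) (P.cons (P.cons (P.lf 2193390 0 0) (P.cons (P.lf 0 15287558 0) (P.cons (P.lf 0 1022089 0) P.nil))) (P.cons (P.cons (P.lf 0 17466584 0) (P.cons (P.lf 0 1083334 0) P.nil)) (P.cons (P.cons (P.lf 0 961800 0) P.nil) P.nil)))))) 5150841)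
 (EL.cons 8 (TM.mk (P.cons (P.cons (P.lf 21489094 0 0) (P.cons (P.lf 0 85588819 0) (P.cons (P.lf 0 5722268 0) (P.lf 1907422 0 0)))) (P.cons (P.cons (P.lf 0 44880040 0) (P.cons (P.lf 0 60914077 0) (P.cons (P.lf 0 4072573 0) (P.lf 1357524 0 0)))) (P.cons (P.cons (P.lf 0 38710716 0) (P.cons (P.lf 33423967 0 0) (P.cons (P.lf 2234647 0 0) (P.lf 0 744882 0)))) (P.cons (P.cons (P.lf 36738296 0 0) (P.cons (P.lf 5520366 0 0) (P.cons (P.lf 369078 0 0) P.nil))) (P.cons (P.cons (P.lf 5253618 0 0) (P.cons (P.lf 0 3615353 0) P.nil)) (P.cons (P.cons (P.lf 0 4262103 0) P.nil) P.nil)))))) 3462671)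
 EL.nil))
noncomputable def S256_314_364_512_17 : EL := (EL.cons 4 (TM.mk (P.cons (P.cons (P.lf 0 429907 0) (P.cons (P.lf 3424559 0 0) (P.cons (P.lf 0 6590872 0) (P.cons (P.lf 0 988234 0) (P.cons (P.lf 273487 0 0) (P.cons (P.lf 20322 0 0) P.nil)))))) (P.cons (P.cons (P.lf 1740546 0 0) (P.cons (P.lf 0 4275347 0) (P.cons (P.lf 0 10868657 0) (P.cons (P.lf 0 1319805 0) (P.cons (P.lf 424390 0 0) P.nil))))) (P.cons (P.cons (P.lf 0 126971 0) (P.cons (P.lf 0 12953639 0) (P.cons (P.lf 0 734303 0) (P.cons (P.lf 306299 0 0) P.nil)))) (P.cons (P.cons (P.lf 0 4620279 0) (P.cons (P.lf 2107519 0 0) (P.cons (P.lf 4288845 0 0) P.nil))) (P.cons (P.cons (P.lf 851646 0 0) (P.cons (P.lf 7592386 0 0) P.nil)) (P.cons (P.cons (P.lf 3106412 0 0) P.nil) P.nil)))))) 16952342)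
 (EL.cons 8 (TM.mk (P.cons (P.cons (P.lf 995779 0 0) (P.cons (P.lf 0 7932178 0) (P.cons (P.lf 15266191 0 0) (P.cons (P.lf 2289012 0 0) (P.cons (P.lf 0 633468 0) (P.cons (P.lf 0 47072 0) P.nil)))))) (P.cons (P.cons (P.lf 0 5059809 0) (P.cons (P.lf 18093633 0 0) (P.cons (P.lf 9410726 0 0) (P.cons (P.lf 693370 0 0) (P.cons (P.lf 0 328876 0) P.nil))))) (P.cons (P.cons (P.lf 5469124 0 0) (P.cons (P.lf 11716830 0 0) (P.cons (P.lf 0 8779571 0) (P.cons (P.lf 0 1539830 0) P.nil)))) (P.cons (P.cons (P.lf 5288792 0 0) (P.cons (P.lf 0 17738110 0) (P.cons (P.lf 0 1620380 0) P.nil))) (P.cons (P.cons (P.lf 0 7615152 0) (P.cons (P.lf 0 177824 0) P.nil)) (P.cons (P.cons (P.lf 309736 0 0) P.nil) P.nil)))))) 14327785)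
 EL.nil))
noncomputable def S256_314_364_512_18 : EL := (EL.cons 4 (TM.mk (P.cons (P.lf 0 44643862 0) (P.cons (P.lf 0 129702684 0) (P.cons (P.lf 0 119397478 0) (P.cons (P.lf 0 26667962 0) (P.cons (P.lf 8965736 0 0) (P.cons (P.lf 958581 0 0) P.nil)))))) 467642)
 (EL.cons 8 (TM.mk (P.cons (P.lf 103406910 0 0) (P.cons (P.lf 193647023 0 0) (P.cons (P.lf 71427862 0 0) (P.cons (P.lf 0 23572483 0) (P.cons (P.lf 0 3717003 0) (P.cons (P.lf 1166783 0 0) P.nil)))))) 289701)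
 EL.nil))
noncomputable def S256_314_364_512_19 : EL := (EL.cons 4 (TM.mk (P.cons (P.cons (P.lf 0 2068745 0) (P.cons (P.lf 8239599 0 0) (P.cons (P.lf 550879 0 0) (P.lf 0 183626 0)))) (P.cons (P.cons (P.lf 180960 0 0) (P.cons (P.lf 22351854 0 0) (P.cons (P.lf 1494392 0 0) (P.lf 0 498130 0)))) (P.cons (P.cons (P.lf 10296075 0 0) (P.cons (P.lf 16785968 0 0) (P.cons (P.lf 1122270 0 0) (P.lf 0 374089 0)))) (P.cons (P.cons (P.lf 8245880 0 0) (P.cons (P.lf 0 1042412 0) (P.cons (P.lf 0 69692 0) P.nil))) (P.cons (P.cons (P.lf 0 3828616 0) (P.cons (P.lf 0 3882569 0) P.nil)) (P.cons (P.cons (P.lf 0 4118557 0) P.nil) P.nil)))))) 4973299)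
 (EL.cons 8 (TM.mk (P.cons (P.cons (P.lf 4791759 0 0) (P.cons (P.lf 0 19085076 0) (P.cons (P.lf 0 1275983 0) (P.lf 425327 0 0)))) (P.cons (P.cons (P.lf 0 5367144 0) (P.cons (P.lf 0 32065426 0) (P.cons (P.lf 0 2143819 0) (P.lf 714606 0 0)))) (P.cons (P.cons (P.lf 0 18545719 0) (P.cons (P.lf 0 4816122 0) (P.cons (P.lf 0 321994 0) (P.lf 107331 0 0)))) (P.cons (P.cons (P.lf 230495 0 0) (P.cons (P.lf 9342330 0 0) (P.cons (P.lf 624606 0 0) P.nil))) (P.cons (P.cons (P.lf 9649106 0 0) (P.cons (P.lf 205839 0 0) P.nil)) (P.cons (P.cons (P.lf 0 87217 0) P.nil) P.nil)))))) 3730627)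
 EL.nil))
noncomputable def S256_314_364_512_20 : EL := (EL.cons 4 (TM.mk (P.cons (P.cons (P.lf 0 95863 0) (P.cons (P.lf 763626 0 0) (P.cons (P.lf 0 1469669 0) (P.cons (P.lf 0 220362 0) (P.cons (P.lf 60983 0 0) (P.cons (P.lf 4530 0 0) P.nil)))))) (P.cons (P.cons (P.lf 295279 0 0) (P.cons (P.lf 0 213825 0) (P.cons (P.lf 0 3846819 0) (P.cons (P.lf 0 507701 0) (P.cons (P.lf 153690 0 0) P.nil))))) (P.cons (P.cons (P.lf 351993 0 0) (P.cons (P.lf 0 3847120 0) (P.cons (P.lf 0 2442627 0) (P.cons (P.lf 0 206487 0) P.nil)))) (P.cons (P.cons (P.lf 0 1074344 0) (P.cons (P.lf 0 2293679 0) (P.cons (P.lf 930469 0 0) P.nil))) (P.cons (P.cons (P.lf 0 811984 0) (P.cons (P.lf 2296099 0 0) P.nil)) (P.cons (P.cons (P.lf 925189 0 0) P.nil) P.nil)))))) 11281517)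
 (EL.cons 8 (TM.mk (P.cons (P.cons (P.lf 222044 0 0) (P.cons (P.lf 0 1768761 0) (P.cons (P.lf 3404141 0 0) (P.cons (P.lf 510416 0 0) (P.cons (P.lf 0 141254 0) (P.cons (P.lf 0 10496 0) P.nil)))))) (P.cons (P.cons (P.lf 0 913231 0) (P.cons (P.lf 2321707 0 0) (P.cons (P.lf 5395111 0 0) (P.cons (P.lf 648912 0 0) (P.cons (P.lf 0 210129 0) P.nil))))) (P.cons (P.cons (P.lf 116600 0 0) (P.cons (P.lf 6601921 0 0) (P.cons (P.lf 0 83355 0) (P.cons (P.lf 0 217295 0) P.nil)))) (P.cons (P.cons (P.lf 2409596 0 0) (P.cons (P.lf 0 1587768 0) (P.cons (P.lf 0 2401583 0) P.nil))) (P.cons (P.cons (P.lf 0 596668 0) (P.cons (P.lf 0 4049090 0) P.nil)) (P.cons (P.cons (P.lf 0 1648204 0) P.nil) P.nil)))))) 10516451)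
 EL.nil))
noncomputable def S256_314_364_512_21 : EL := (EL.cons 4 (TM.mk (P.cons (P.cons (P.lf 1940107587 0 0) (P.cons (P.lf 0 497134176 0) (P.cons (P.lf 0 33237228 0) (P.lf 11079075 0 0)))) (P.cons (P.cons (P.lf 0 1415998266 0) (P.cons (P.lf 0 385719312 0) (P.cons (P.lf 0 25788294 0) (P.lf 8596095 0 0)))) (P.cons (P.cons (P.lf 0 744911898 0) (P.cons (P.lf 154438914 0 0) (P.cons (P.lf 10325418 0 0) (P.lf 0 3441804 0)))) (P.cons (P.cons (P.lf 260865033 0 0) (P.cons (P.lf 31355943 0 0) (P.cons (P.lf 2096382 0 0) P.nil))) (P.cons (P.cons (P.lf 49427880 0 0) (P.cons (P.lf 0 13381929 0) P.nil)) (P.cons (P.cons (P.lf 0 18493128 0) P.nil) P.nil)))))) 12036363)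
 (EL.cons 8 (TM.mk (P.cons (P.cons (P.lf 297814266 0 0) (P.cons (P.lf 0 76312089 0) (P.cons (P.lf 0 5102055 0) (P.lf 1700685 0 0)))) (P.cons (P.cons (P.lf 90162984 0 0) (P.cons (P.lf 0 138009657 0) (P.cons (P.lf 0 9226998 0) (P.lf 3075666 0 0)))) (P.cons (P.cons (P.lf 0 323913549 0) (P.cons (P.lf 0 41246271 0) (P.cons (P.lf 0 2757624 0) (P.lf 919209 0 0)))) (P.cons (P.cons (P.lf 0 83394330 0) (P.cons (P.lf 24925557 0 0) (P.cons (P.lf 1666458 0 0) P.nil))) (P.cons (P.cons (P.lf 39631620 0 0) (P.cons (P.lf 2899356 0 0) P.nil)) (P.cons (P.cons (P.lf 4681248 0 0) P.nil) P.nil)))))) 8874675)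
 (EL.cons 11 (TM.mk (P.cons (P.cons (P.lf 2802119268 0 0) (P.cons (P.lf 433838430 0 0) (P.cons (P.lf 0 209009673 0) (P.cons (P.lf 0 7909539 0) (P.lf 1977384 0 0))))) (P.cons (P.cons (P.lf 0 359678463 0) (P.cons (P.lf 0 55687257 0) (P.cons (P.lf 26828364 0 0) (P.cons (P.lf 1015263 0 0) (P.lf 0 253815 0))))) (P.cons (P.cons (P.lf 0 156940308 0) (P.cons (P.lf 0 24298299 0) (P.cons (P.lf 11706153 0 0) (P.cons (P.lf 442995 0 0) P.nil)))) (P.cons (P.cons (P.lf 21811440 0 0) (P.cons (P.lf 3376959 0 0) (P.cons (P.lf 0 1626912 0) P.nil))) (P.cons (P.cons (P.lf 4139352 0 0) (P.cons (P.lf 640875 0 0) P.nil)) (P.cons (P.cons (P.lf 0 725724 0) P.nil) P.nil)))))) 881241)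
 EL.nil)))
noncomputable def S256_314_364_512_22 : EL := (EL.cons 4 (TM.mk (P.cons (P.cons (P.lf 89902392 0 0) (P.cons (P.lf 0 381108474 0) (P.cons (P.lf 66272487 0 0) (P.cons (P.lf 20762058 0 0) (P.cons (P.lf 0 3679443 0) (P.cons (P.lf 0 273417 0) P.nil)))))) (P.cons (P.cons (P.lf 0 334670988 0) (P.cons (P.lf 381352620 0 0) (P.cons (P.lf 79019859 0 0) (P.cons (P.lf 0 1341864 0) (P.cons (P.lf 0 2146389 0) P.nil))))) (P.cons (P.cons (P.lf 255652575 0 0) (P.cons (P.lf 151647639 0 0) (P.cons (P.lf 0 39213018 0) (P.cons (P.lf 0 9978693 0) P.nil)))) (P.cons (P.cons (P.lf 81944634 0 0) (P.cons (P.lf 0 148701303 0) (P.cons (P.lf 0 14203641 0) P.nil))) (P.cons (P.cons (P.lf 0 102878163 0) (P.cons (P.lf 0 9629214 0) P.nil)) (P.cons (P.cons (P.lf 0 4346355 0) P.nil) P.nil)))))) 79288422)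
 (EL.cons 8 (TM.mk (P.cons (P.cons (P.lf 13800375 0 0) (P.cons (P.lf 0 58501674 0) (P.cons (P.lf 10173090 0 0) (P.cons (P.lf 3187059 0 0) (P.cons (P.lf 0 564807 0) (P.cons (P.lf 0 41970 0) P.nil)))))) (P.cons (P.cons (P.lf 0 37122999 0) (P.cons (P.lf 0 1869942 0) (P.cons (P.lf 22634643 0 0) (P.cons (P.lf 3084987 0 0) (P.cons (P.lf 0 912702 0) P.nil))))) (P.cons (P.cons (P.lf 0 13115043 0) (P.cons (P.lf 80802984 0 0) (P.cons (P.lf 7014345 0 0) (P.cons (P.lf 0 1585209 0) P.nil)))) (P.cons (P.cons (P.lf 50789718 0 0) (P.cons (P.lf 3056337 0 0) (P.cons (P.lf 0 7601973 0) P.nil))) (P.cons (P.cons (P.lf 0 1771206 0) (P.cons (P.lf 0 22887438 0) P.nil)) (P.cons (P.cons (P.lf 0 15689151 0) P.nil) P.nil)))))) 32118009)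
 (EL.cons 11 (TM.mk (P.cons (P.cons (P.lf 129847041 0 0) (P.cons (P.lf 0 497063610 0) (P.cons (P.lf 0 124332333 0) (P.cons (P.lf 44381112 0 0) (P.cons (P.lf 5914941 0 0) (P.cons (P.lf 0 1127040 0) P.nil)))))) (P.cons (P.cons (P.lf 0 405266595 0) (P.cons (P.lf 103212783 0 0) (P.cons (P.lf 67018854 0 0) (P.cons (P.lf 0 13215504 0) (P.cons (P.lf 0 2154678 0) P.nil))))) (P.cons (P.cons (P.lf 178083660 0 0) (P.cons (P.lf 84008478 0 0) (P.cons (P.lf 0 772200 0) (P.cons (P.lf 0 5385828 0) P.nil)))) (P.cons (P.cons (P.lf 55953534 0 0) (P.cons (P.lf 0 15001560 0) (P.cons (P.lf 0 9419592 0) P.nil))) (P.cons (P.cons (P.lf 0 27633390 0) (P.cons (P.lf 0 6839448 0) P.nil)) (P.cons (P.cons (P.lf 0 2774181 0) P.nil) P.nil)))))) 17609385)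
 EL.nil)))
noncomputable def S256_314_364_512_23 : EL := (EL.cons 4 (TM.mk (P.cons (P.cons (P.lf 432616113 0 0) (P.cons (P.lf 0 110853777 0) (P.cons (P.lf 0 7411422 0) (P.lf 2470473 0 0)))) (P.cons (P.cons (P.lf 103208943 0 0) (P.cons (P.lf 0 193363419 0) (P.cons (P.lf 0 12927825 0) (P.lf 4309272 0 0)))) (P.cons (P.cons (P.lf 0 491940699 0) (P.cons (P.lf 0 43716621 0) (P.cons (P.lf 0 2922792 0) (P.lf 974262 0 0)))) (P.cons (P.cons (P.lf 0 94031829 0) (P.cons (P.lf 45862674 0 0) (P.cons (P.lf 3066267 0 0) P.nil))) (P.cons (P.cons (P.lf 79926465 0 0) (P.cons (P.lf 3250005 0 0) P.nil)) (P.cons (P.cons (P.lf 5858850 0 0) P.nil) P.nil)))))) 17404899)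
 (EL.cons 8 (TM.mk (P.cons (P.cons (P.lf 66408300 0 0) (P.cons (P.lf 0 17016498 0) (P.cons (P.lf 0 1137684 0) (P.lf 379227 0 0)))) (P.cons (P.cons (P.lf 84416502 0 0) (P.cons (P.lf 0 47253369 0) (P.cons (P.lf 0 3159249 0) (P.lf 1053081 0 0)))) (P.cons (P.cons (P.lf 0 55836900 0) (P.cons (P.lf 0 38210814 0) (P.cons (P.lf 0 2554683 0) (P.lf 851559 0 0)))) (P.cons (P.cons (P.lf 0 90393477 0) (P.cons (P.lf 0 1686756 0) (P.cons (P.lf 0 112773 0) P.nil))) (P.cons (P.cons (P.lf 0 6022743 0) (P.cons (P.lf 6861069 0 0) P.nil)) (P.cons (P.cons (P.lf 11498391 0 0) P.nil) P.nil)))))) 7931871)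
 (EL.cons 11 (TM.mk (P.cons (P.cons (P.lf 624832332 0 0) (P.cons (P.lf 96739734 0 0) (P.cons (P.lf 0 46606152 0) (P.cons (P.lf 0 1763712 0) (P.lf 440928 0 0))))) (P.cons (P.cons (P.lf 524900049 0 0) (P.cons (P.lf 81267708 0 0) (P.cons (P.lf 0 39152217 0) (P.cons (P.lf 0 1481634 0) (P.lf 370407 0 0))))) (P.cons (P.cons (P.lf 0 141636912 0) (P.cons (P.lf 0 21928950 0) (P.cons (P.lf 10564674 0 0) (P.cons (P.lf 399798 0 0) P.nil)))) (P.cons (P.cons (P.lf 0 33946482 0) (P.cons (P.lf 0 5255766 0) (P.cons (P.lf 2532060 0 0) P.nil))) (P.cons (P.cons (P.lf 9094614 0 0) (P.cons (P.lf 1408074 0 0) P.nil)) (P.cons (P.cons (P.lf 1009956 0 0) P.nil) P.nil)))))) 2011800)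
 EL.nil)))
noncomputable def S256_314_364_512_24 : EL := (EL.cons 4 (TM.mk (P.cons (P.cons (P.lf 20046939 0 0) (P.cons (P.lf 0 84981711 0) (P.cons (P.lf 14777811 0 0) (P.cons (P.lf 4629639 0 0) (P.cons (P.lf 0 820461 0) (P.cons (P.lf 0 60966 0) P.nil)))))) (P.cons (P.cons (P.lf 0 55212861 0) (P.cons (P.lf 2737746 0 0) (P.cons (P.lf 31931493 0 0) (P.cons (P.lf 4184241 0 0) (P.cons (P.lf 0 1273170 0) P.nil))))) (P.cons (P.cons (P.lf 0 16193109 0) (P.cons (P.lf 120106605 0 0) (P.cons (P.lf 7634805 0 0) (P.cons (P.lf 0 2729529 0) P.nil)))) (P.cons (P.cons (P.lf 76662300 0 0) (P.cons (P.lf 0 3178611 0) (P.cons (P.lf 0 12656337 0) P.nil))) (P.cons (P.cons (P.lf 0 6832845 0) (P.cons (P.lf 0 37101252 0) P.nil)) (P.cons (P.cons (P.lf 0 24904086 0) P.nil) P.nil)))))) 58949235)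
 (EL.cons 8 (TM.mk (P.cons (P.cons (P.lf 3077283 0 0) (P.cons (P.lf 0 13045032 0) (P.cons (P.lf 2268453 0 0) (P.cons (P.lf 710667 0 0) (P.cons (P.lf 0 125943 0) (P.cons (P.lf 0 9357 0) P.nil)))))) (P.cons (P.cons (P.lf 0 5297775 0) (P.cons (P.lf 0 13050102 0) (P.cons (P.lf 7244025 0 0) (P.cons (P.lf 1376136 0 0) (P.cons (P.lf 0 325485 0) P.nil))))) (P.cons (P.cons (P.lf 0 11083665 0) (P.cons (P.lf 18218940 0 0) (P.cons (P.lf 6346752 0 0) (P.cons (P.lf 279756 0 0) P.nil)))) (P.cons (P.cons (P.lf 8834517 0 0) (P.cons (P.lf 18330186 0 0) (P.cons (P.lf 0 445797 0) P.nil))) (P.cons (P.cons (P.lf 10826454 0 0) (P.cons (P.lf 0 5288460 0) P.nil)) (P.cons (P.cons (P.lf 0 4374729 0) P.nil) P.nil)))))) 21781602)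
 (EL.cons 11 (TM.mk (P.cons (P.cons (P.lf 28954023 0 0) (P.cons (P.lf 0 110838042 0) (P.cons (P.lf 0 27724323 0) (P.cons (P.lf 9896349 0 0) (P.cons (P.lf 1318944 0 0) (P.cons (P.lf 0 251313 0) P.nil)))))) (P.cons (P.cons (P.lf 0 62328828 0) (P.cons (P.lf 0 84323349 0) (P.cons (P.lf 0 11904681 0) (P.cons (P.lf 6637002 0 0) (P.cons (P.lf 796836 0 0) P.nil))))) (P.cons (P.cons (P.lf 0 49147602 0) (P.cons (P.lf 46160031 0 0) (P.cons (P.lf 15585642 0 0) (P.cons (P.lf 0 4513632 0) P.nil)))) (P.cons (P.cons (P.lf 54722790 0 0) (P.cons (P.lf 15261300 0 0) (P.cons (P.lf 0 2576796 0) P.nil))) (P.cons (P.cons (P.lf 5363025 0 0) (P.cons (P.lf 0 6080862 0) P.nil)) (P.cons (P.cons (P.lf 0 7813728 0) P.nil) P.nil)))))) 16708089)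
 EL.nil)))
noncomputable def S256_314_364_512_25 : EL := (EL.cons 4 (TM.mk (P.cons (P.cons (P.lf 96467175 0 0) (P.cons (P.lf 0 24718797 0) (P.cons (P.lf 0 1652640 0) (P.lf 550878 0 0)))) (P.cons (P.cons (P.lf 116435325 0 0) (P.cons (P.lf 0 67055562 0) (P.cons (P.lf 0 4483176 0) (P.lf 1494390 0 0)))) (P.cons (P.cons (P.lf 0 91881033 0) (P.cons (P.lf 0 50357904 0) (P.cons (P.lf 0 3366810 0) (P.lf 1122270 0 0)))) (P.cons (P.cons (P.lf 0 129600528 0) (P.cons (P.lf 3127236 0 0) (P.cons (P.lf 209076 0 0) P.nil))) (P.cons (P.cons (P.lf 2397432 0 0) (P.cons (P.lf 11647707 0 0) P.nil)) (P.cons (P.cons (P.lf 21099267 0 0) P.nil) P.nil)))))) 18043257)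
 (EL.cons 8 (TM.mk (P.cons (P.cons (P.lf 14808096 0 0) (P.cons (P.lf 0 3794433 0) (P.cons (P.lf 0 253686 0) (P.lf 84561 0 0)))) (P.cons (P.cons (P.lf 33164196 0 0) (P.cons (P.lf 0 14211447 0) (P.cons (P.lf 0 950142 0) (P.lf 316713 0 0)))) (P.cons (P.cons (P.lf 5091891 0 0) (P.cons (P.lf 0 18548652 0) (P.cons (P.lf 0 1240119 0) (P.lf 413373 0 0)))) (P.cons (P.cons (P.lf 0 33291630 0) (P.cons (P.lf 0 8086545 0) (P.cons (P.lf 0 540645 0) P.nil))) (P.cons (P.cons (P.lf 0 20528631 0) (P.cons (P.lf 1701966 0 0) P.nil)) (P.cons (P.cons (P.lf 2394777 0 0) P.nil) P.nil)))))) 8328633)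
 (EL.cons 11 (TM.mk (P.cons (P.cons (P.lf 139328631 0 0) (P.cons (P.lf 21571569 0 0) (P.cons (P.lf 0 10392501 0) (P.cons (P.lf 0 393282 0) (P.lf 98319 0 0))))) (P.cons (P.cons (P.lf 251974482 0 0) (P.cons (P.lf 39011976 0 0) (P.cons (P.lf 0 18794739 0) (P.cons (P.lf 0 711246 0) (P.lf 177810 0 0))))) (P.cons (P.cons (P.lf 75306390 0 0) (P.cons (P.lf 11659320 0 0) (P.cons (P.lf 0 5617092 0) (P.cons (P.lf 0 212565 0) P.nil)))) (P.cons (P.cons (P.lf 0 45508440 0) (P.cons (P.lf 0 7045848 0) (P.cons (P.lf 3394467 0 0) P.nil))) (P.cons (P.cons (P.lf 0 5293578 0) (P.cons (P.lf 0 819576 0) P.nil)) (P.cons (P.cons (P.lf 3138783 0 0) P.nil) P.nil)))))) 3252183)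
 EL.nil)))
noncomputable def S256_314_364_512_26 : EL := (EL.cons 4 (TM.mk (P.cons (P.cons (P.lf 4470177 0 0) (P.cons (P.lf 0 18949698 0) (P.cons (P.lf 3295239 0 0) (P.cons (P.lf 1032342 0 0) (P.cons (P.lf 0 182949 0) (P.cons (P.lf 0 13593 0) P.nil)))))) (P.cons (P.cons (P.lf 0 7982640 0) (P.cons (P.lf 0 17740881 0) (P.cons (P.lf 10311456 0 0) (P.cons (P.lf 1932771 0 0) (P.cons (P.lf 0 461073 0) P.nil))))) (P.cons (P.cons (P.lf 0 15741024 0) (P.cons (P.lf 28251864 0 0) (P.cons (P.lf 8445105 0 0) (P.cons (P.lf 247053 0 0) P.nil)))) (P.cons (P.cons (P.lf 14106810 0 0) (P.cons (P.lf 25461291 0 0) (P.cons (P.lf 0 1549176 0) P.nil))) (P.cons (P.cons (P.lf 15374052 0 0) (P.cons (P.lf 0 10231800 0) P.nil)) (P.cons (P.cons (P.lf 0 7785030 0) P.nil) P.nil)))))) 33396195)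
 (EL.cons 8 (TM.mk (P.cons (P.cons (P.lf 686190 0 0) (P.cons (P.lf 0 2908854 0) (P.cons (P.lf 505830 0 0) (P.cons (P.lf 158466 0 0) (P.cons (P.lf 0 28083 0) (P.cons (P.lf 0 2085 0) P.nil)))))) (P.cons (P.cons (P.lf 0 516801 0) (P.cons (P.lf 0 5726991 0) (P.cons (P.lf 2105172 0 0) (P.cons (P.lf 460323 0 0) (P.cons (P.lf 0 99774 0) P.nil))))) (P.cons (P.cons (P.lf 0 3647340 0) (P.cons (P.lf 1379328 0 0) (P.cons (P.lf 2956092 0 0) (P.cons (P.lf 352203 0 0) P.nil)))) (P.cons (P.cons (P.lf 0 378201 0) (P.cons (P.lf 8196792 0 0) (P.cons (P.lf 1189254 0 0) P.nil))) (P.cons (P.cons (P.lf 4453638 0 0) (P.cons (P.lf 2627526 0 0) P.nil)) (P.cons (P.cons (P.lf 1303986 0 0) P.nil) P.nil)))))) 12002997)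
 (EL.cons 11 (TM.mk (P.cons (P.cons (P.lf 6456330 0 0) (P.cons (P.lf 0 24715290 0) (P.cons (P.lf 0 6182124 0) (P.cons (P.lf 2206743 0 0) (P.cons (P.lf 294105 0 0) (P.cons (P.lf 0 56037 0) P.nil)))))) (P.cons (P.cons (P.lf 0 7645959 0) (P.cons (P.lf 0 42737796 0) (P.cons (P.lf 0 8641497 0) (P.cons (P.lf 3617022 0 0) (P.cons (P.lf 462501 0 0) P.nil))))) (P.cons (P.cons (P.lf 0 24718149 0) (P.cons (P.lf 0 6770226 0) (P.cons (P.lf 1191258 0 0) (P.cons (P.lf 324432 0 0) P.nil)))) (P.cons (P.cons (P.lf 2144376 0 0) (P.cons (P.lf 14584569 0 0) (P.cons (P.lf 2999598 0 0) P.nil))) (P.cons (P.cons (P.lf 13720803 0 0) (P.cons (P.lf 1693479 0 0) P.nil)) (P.cons (P.cons (P.lf 0 1013559 0) P.nil) P.nil)))))) 12340233)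
 EL.nil)))
noncomputable def S256_314_364_512_27 : EL := (EL.cons 13 (TM.mk (P.lf 0 4294967296 0) 0)
 EL.nil)
noncomputable def S256_314_364_512_28 : EL := (EL.cons 13 (TM.mk (P.cons (P.cons (P.lf 0 199023935 0) (P.cons (P.lf 792691524 0 0) (P.cons (P.lf 52997508 0 0) (P.lf 0 17665836 0)))) (P.cons (P.cons (P.lf 595628520 0 0) (P.cons (P.lf 0 152624160 0) (P.cons (P.lf 0 10204092 0) (P.lf 3401364 0 0)))) (P.cons (P.cons (P.lf 0 207651271 0) (P.cons (P.lf 0 61697576 0) (P.cons (P.lf 0 4124952 0) (P.lf 1374984 0 0)))) (P.cons (P.cons (P.lf 0 77508182 0) (P.cons (P.lf 13634200 0 0) (P.cons (P.lf 911548 0 0) P.nil))) (P.cons (P.cons (P.lf 16433971 0 0) (P.cons (P.lf 2237124 0 0) P.nil)) (P.cons (P.cons (P.lf 2705463 0 0) P.nil) P.nil)))))) 2568712)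
 EL.nil)
noncomputable def S256_314_364_512_29 : EL := (EL.cons 13 (TM.mk (P.cons (P.cons (P.lf 0 9222544 0) (P.cons (P.lf 73464860 0 0) (P.cons (P.lf 0 141389739 0) (P.cons (P.lf 0 21199974 0) (P.cons (P.lf 5866955 0 0) (P.cons (P.lf 435973 0 0) P.nil)))))) (P.cons (P.cons (P.lf 55201506 0 0) (P.cons (P.lf 0 234006689 0) (P.cons (P.lf 40692366 0 0) (P.cons (P.lf 12748234 0 0) (P.cons (P.lf 0 2259236 0) P.nil))))) (P.cons (P.cons (P.lf 0 101846754 0) (P.cons (P.lf 113263451 0 0) (P.cons (P.lf 24923105 0 0) (P.cons (P.lf 0 204139 0) P.nil)))) (P.cons (P.cons (P.lf 50411110 0 0) (P.cons (P.lf 32228346 0 0) (P.cons (P.lf 0 7262941 0) P.nil))) (P.cons (P.cons (P.lf 12981385 0 0) (P.cons (P.lf 0 21114921 0) P.nil)) (P.cons (P.cons (P.lf 0 11802074 0) P.nil) P.nil)))))) 26402078)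
 EL.nil)
noncomputable def S256_314_364_512_30 : EL := (EL.cons 13 (TM.mk (P.cons (P.lf 0 957715992 0) (P.cons (P.lf 0 927476000 0) (P.cons (P.lf 44405152 0 0) (P.cons (P.lf 13240480 0 0) (P.cons (P.lf 0 1119116 0) (P.cons (P.lf 0 173696 0) P.nil)))))) 29016)
 EL.nil)
noncomputable def S256_314_364_512_31 : EL := (EL.cons 13 (TM.mk (P.cons (P.cons (P.lf 0 44379477 0) (P.cons (P.lf 176758819 0 0) (P.cons (P.lf 11817682 0 0) (P.lf 0 3939227 0)))) (P.cons (P.cons (P.lf 89838410 0 0) (P.cons (P.lf 137144645 0 0) (P.cons (P.lf 9169172 0 0) (P.lf 0 3056390 0)))) (P.cons (P.cons (P.lf 84377336 0 0) (P.cons (P.lf 0 54911614 0) (P.cons (P.lf 0 3671260 0) (P.lf 1223753 0 0)))) (P.cons (P.cons (P.lf 0 67669013 0) (P.cons (P.lf 0 11148780 0) (P.cons (P.lf 0 745381 0) P.nil))) (P.cons (P.cons (P.lf 0 12814126 0) (P.cons (P.lf 4758020 0 0) P.nil)) (P.cons (P.cons (P.lf 5740754 0 0) P.nil)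 P.nil)))))) 4099803)
 EL.nil)
noncomputable def S256_314_364_512_32 : EL := (EL.cons 13 (TM.mk (P.cons (P.cons (P.lf 0 2056494 0) (P.cons (P.lf 16381608 0 0) (P.cons (P.lf 0 31527880 0) (P.cons (P.lf 0 4727289 0) (P.cons (P.lf 1308246 0 0) (P.cons (P.lf 97215 0 0) P.nil)))))) (P.cons (P.cons (P.lf 10317581 0 0) (P.cons (P.lf 0 36315772 0) (P.cons (P.lf 0 21458570 0) (P.cons (P.lf 0 1735351 0) (P.cons (P.lf 763161 0 0) P.nil))))) (P.cons (P.cons (P.lf 0 10694531 0) (P.cons (P.lf 0 26035957 0) (P.cons (P.lf 15806612 0 0) (P.cons (P.lf 2926579 0 0) P.nil)))) (P.cons (P.cons (P.lf 0 11294617 0) (P.cons (P.lf 33838005 0 0) (P.cons (P.lf 3777645 0 0) P.nil))) (P.cons (P.cons (P.lf 14661084 0 0) (P.cons (P.lf 1820739 0 0) P.nil)) (P.cons (P.cons (P.lf 0 21641 0) P.nil) P.nil)))))) 23981655)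
 EL.nil)
noncomputable def S256_314_364_512_33 : EL := (EL.cons 14 (TM.mk (P.lf 8589934592 0 0) 0)
 EL.nil)
noncomputable def S256_314_364_512_34 : EL := (EL.cons 14 (TM.mk (P.cons (P.cons (P.lf 398047870 0 0) (P.cons (P.lf 0 1585383048 0) (P.cons (P.lf 0 105995016 0) (P.lf 35331672 0 0)))) (P.cons (P.cons (P.lf 0 1191257040 0) (P.cons (P.lf 305248320 0 0) (P.cons (P.lf 20408184 0 0) (P.lf 0 6802728 0)))) (P.cons (P.cons (P.lf 415302542 0 0) (P.cons (P.lf 123395152 0 0) (P.cons (P.lf 8249904 0 0) (P.lf 0 2749968 0)))) (P.cons (P.cons (P.lf 155016364 0 0) (P.cons (P.lf 0 27268400 0) (P.cons (P.lf 0 1823096 0) P.nil))) (P.cons (P.cons (P.lf 0 32867942 0) (P.cons (P.lf 0 4474248 0) P.nil)) (P.cons (P.cons (P.lf 0 5410926 0) P.nil) P.nil)))))) 5137424)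
 EL.nil)
noncomputable def S256_314_364_512_35 : EL := (EL.cons 14 (TM.mk (P.cons (P.cons (P.lf 18445088 0 0) (P.cons (P.lf 0 146929720 0) (P.cons (P.lf 282779478 0 0) (P.cons (P.lf 42399948 0 0) (P.cons (P.lf 0 11733910 0) (P.cons (P.lf 0 871946 0) P.nil)))))) (P.cons (P.cons (P.lf 0 110403012 0) (P.cons (P.lf 468013378 0 0) (P.cons (P.lf 0 81384732 0) (P.cons (P.lf 0 25496468 0) (P.cons (P.lf 4518472 0 0) P.nil))))) (P.cons (P.cons (P.lf 203693508 0 0) (P.cons (P.lf 0 226526902 0) (P.cons (P.lf 0 49846210 0) (P.cons (P.lf 408278 0 0) P.nil)))) (P.cons (P.cons (P.lf 0 100822220 0) (P.cons (P.lf 0 64456692 0) (P.cons (P.lf 14525882 0 0) P.nil))) (P.cons (P.cons (P.lf 0 25962770 0) (P.cons (P.lf 42229842 0 0) P.nil)) (P.cons (P.cons (P.lf 23604148 0 0) P.nil) P.nil)))))) 52804156)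
 EL.nil)
noncomputable def S256_314_364_512_36 : EL := (EL.cons 14 (TM.mk (P.cons (P.lf 1915431984 0 0) (P.cons (P.lf 1854952000 0 0) (P.cons (P.lf 0 88810304 0) (P.cons (P.lf 0 26480960 0) (P.cons (P.lf 2238232 0 0) (P.cons (P.lf 347392 0 0) P.nil)))))) 58032)
 EL.nil)
noncomputable def S256_314_364_512_37 : EL := (EL.cons 14 (TM.mk (P.cons (P.cons (P.lf 88758954 0 0) (P.cons (P.lf 0 353517638 0) (P.cons (P.lf 0 23635364 0) (P.lf 7878454 0 0)))) (P.cons (P.cons (P.lf 0 179676820 0) (P.cons (P.lf 0 274289290 0) (P.cons (P.lf 0 18338344 0) (P.lf 6112780 0 0)))) (P.cons (P.cons (P.lf 0 168754672 0) (P.cons (P.lf 109823228 0 0) (P.cons (P.lf 7342520 0 0) (P.lf 0 2447506 0)))) (P.cons (P.cons (P.lf 135338026 0 0) (P.cons (P.lf 22297560 0 0) (P.cons (P.lf 1490762 0 0) P.nil))) (P.cons (P.cons (P.lf 25628252 0 0) (P.cons (P.lf 0 9516040 0) P.nil)) (P.cons (P.cons (P.lf 0 11481508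 0) P.nil) P.nil)))))) 8199606)
 EL.nil)
noncomputable def S256_314_364_512_38 : EL := (EL.cons 14 (TM.mk (P.cons (P.cons (P.lf 4112988 0 0) (P.cons (P.lf 0 32763216 0) (P.cons (P.lf 63055760 0 0) (P.cons (P.lf 9454578 0 0) (P.cons (P.lf 0 2616492 0) (P.cons (P.lf 0 194430 0) P.nil)))))) (P.cons (P.cons (P.lf 0 20635162 0) (P.cons (P.lf 72631544 0 0) (P.cons (P.lf 42917140 0 0) (P.cons (P.lf 3470702 0 0) (P.cons (P.lf 0 1526322 0) P.nil))))) (P.cons (P.cons (P.lf 21389062 0 0) (P.cons (P.lf 52071914 0 0) (P.cons (P.lf 0 31613224 0) (P.cons (P.lf 0 5853158 0) P.nil)))) (P.cons (P.cons (P.lf 22589234 0 0) (P.cons (P.lf 0 67676010 0) (P.cons (P.lf 0 7555290 0) P.nil))) (P.cons (P.cons (P.lf 0 29322168 0) (P.cons (P.lf 0 3641478 0) P.nil)) (P.cons (P.cons (P.lf 43282 0 0) P.nil) P.nil)))))) 47963310)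
 EL.nil)
noncomputable def S256_314_364_512_39 : EL := (EL.cons 14 (TM.mk (P.cons (P.lf 427113808 0 0) (P.cons (P.lf 827255282 0 0) (P.cons (P.lf 360960458 0 0) (P.cons (P.lf 0 50165998 0) (P.cons (P.lf 0 9520466 0) (P.cons (P.lf 1669162 0 0) P.nil)))))) 354406)
 EL.nil)
noncomputable def S256_314_364_512_40 : EL := (EL.cons 14 (TM.mk (P.cons (P.cons (P.lf 19791970 0 0) (P.cons (P.lf 0 78829352 0) (P.cons (P.lf 0 5270346 0) (P.lf 1756782 0 0)))) (P.cons (P.cons (P.lf 0 20898310 0) (P.cons (P.lf 0 137502876 0) (P.cons (P.lf 0 9193122 0) (P.lf 3064374 0 0)))) (P.cons (P.cons (P.lf 0 77347816 0) (P.cons (P.lf 0 31087376 0) (P.cons (P.lf 0 2078430 0) (P.lf 692810 0 0)))) (P.cons (P.cons (P.lf 0 4679232 0) (P.cons (P.lf 32613458 0 0) (P.cons (P.lf 2180458 0 0) P.nil))) (P.cons (P.cons (P.lf 37262046 0 0) (P.cons (P.lf 2311114 0 0) P.nil)) (P.cons (P.cons (P.lf 2051840 0 0) P.nil)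 P.nil)))))) 10988422)
 EL.nil)
noncomputable def S256_314_364_512_41 : EL := (EL.cons 14 (TM.mk (P.cons (P.cons (P.lf 917136 0 0) (P.cons (P.lf 0 7305726 0) (P.cons (P.lf 14060528 0 0) (P.cons (P.lf 2108234 0 0) (P.cons (P.lf 0 583440 0) (P.cons (P.lf 0 43354 0) P.nil)))))) (P.cons (P.cons (P.lf 0 3713166 0) (P.cons (P.lf 9120742 0 0) (P.cons (P.lf 23186470 0 0) (P.cons (P.lf 2815584 0 0) (P.cons (P.lf 0 905366 0) P.nil))))) (P.cons (P.cons (P.lf 270872 0 0) (P.cons (P.lf 27634430 0 0) (P.cons (P.lf 1566514 0 0) (P.cons (P.lf 0 653438 0) P.nil)))) (P.cons (P.cons (P.lf 9856596 0 0) (P.cons (P.lf 0 4496042 0) (P.cons (P.lf 0 9149536 0) P.nil))) (P.cons (P.cons (P.lf 0 1816846 0) (P.cons (P.lf 0 16197092 0) P.nil)) (P.cons (P.cons (P.lf 0 6627014 0) P.nil) P.nil)))))) 36164950)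
 EL.nil)
noncomputable def S256_314_364_512_42 : EL := (EL.cons 14 (TM.mk (P.cons (P.lf 95240240 0 0) (P.cons (P.lf 276699060 0 0) (P.cons (P.lf 254714620 0 0) (P.cons (P.lf 56891654 0 0) (P.cons (P.lf 0 19126904 0) (P.cons (P.lf 0 2044974 0) P.nil)))))) 997622)
 EL.nil)
noncomputable def S256_314_364_512_43 : EL := (EL.cons 14 (TM.mk (P.cons (P.cons (P.lf 4413324 0 0) (P.cons (P.lf 0 17577812 0) (P.cons (P.lf 0 1175210 0) (P.lf 391736 0 0)))) (P.cons (P.cons (P.lf 0 386048 0) (P.cons (P.lf 0 47683956 0) (P.cons (P.lf 0 3188038 0) (P.lf 1062678 0 0)))) (P.cons (P.cons (P.lf 0 21964960 0) (P.cons (P.lf 0 35810066 0) (P.cons (P.lf 0 2394176 0) (P.lf 798058 0 0)))) (P.cons (P.cons (P.lf 0 17591212 0) (P.cons (P.lf 2223814 0 0) (P.cons (P.lf 148678 0 0) P.nil))) (P.cons (P.cons (P.lf 8167716 0 0) (P.cons (P.lf 8282814 0 0) P.nil)) (P.cons (P.cons (P.lf 8786256 0 0) P.nil) P.nil))))))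 10609664)
 EL.nil)
noncomputable def S256_314_364_512_44 : EL := (EL.cons 14 (TM.mk (P.cons (P.cons (P.lf 204508 0 0) (P.cons (P.lf 0 1629070 0) (P.cons (P.lf 3135294 0 0) (P.cons (P.lf 470106 0 0) (P.cons (P.lf 0 130098 0) (P.cons (P.lf 0 9666 0) P.nil)))))) (P.cons (P.cons (P.lf 0 629930 0) (P.cons (P.lf 456160 0 0) (P.cons (P.lf 8206548 0 0) (P.cons (P.lf 1083096 0 0) (P.cons (P.lf 0 327874 0) P.nil))))) (P.cons (P.cons (P.lf 0 750920 0) (P.cons (P.lf 8207190 0 0) (P.cons (P.lf 5210938 0 0) (P.cons (P.lf 440506 0 0) P.nil)))) (P.cons (P.cons (P.lf 2291934 0 0) (P.cons (P.lf 4893182 0 0) (P.cons (P.lf 0 1985002 0) P.nil))) (P.cons (P.cons (P.lf 1732234 0 0) (P.cons (P.lf 0 4898346 0) P.nil)) (P.cons (P.cons (P.lf 0 1973738 0) P.nil) P.nil)))))) 24067190)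
 EL.nil)
noncomputable def S256_314_364_512_45 : EL := (EL.cons 14 (TM.mk (P.cons (P.cons (P.lf 854724 0 0) (P.cons (P.lf 0 10212834 0) (P.cons (P.lf 39993850 0 0) (P.cons (P.lf 0 48336930 0) (P.cons (P.lf 0 12462876 0) (P.cons (P.lf 2765160 0 0) P.nil)))))) (P.cons (P.cons (P.lf 0 7673926 0) (P.cons (P.lf 63095262 0 0) (P.cons (P.lf 0 133180290 0) (P.cons (P.lf 11414990 0 0) (P.cons (P.lf 11766498 0 0) P.nil))))) (P.cons (P.cons (P.lf 25641454 0 0) (P.cons (P.lf 0 123757588 0) (P.cons (P.lf 76219244 0 0) (P.cons (P.lf 20659946 0 0) P.nil)))) (P.cons (P.cons (P.lf 0 37925172 0) (P.cons (P.lf 72605712 0 0) (P.cons (P.lf 21408282 0 0) P.nil))) (P.cons (P.cons (P.lf 20564144 0 0) (P.cons (P.lf 13427772 0 0) P.nil)) (P.cons (P.cons (P.lf 3906540 0 0) P.nil) P.nil)))))) 127275966)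
 EL.nil)
noncomputable def S256_314_364_512_46 : EL := (EL.cons 15 (TM.mk (P.lf 4294967296 0 0) 0)
 EL.nil)
noncomputable def S256_314_364_512_47 : EL := (EL.cons 15 (TM.mk (P.cons (P.cons (P.lf 199023935 0 0) (P.cons (P.lf 0 792691524 0) (P.cons (P.lf 0 52997508 0) (P.lf 17665836 0 0)))) (P.cons (P.cons (P.lf 0 595628520 0) (P.cons (P.lf 152624160 0 0) (P.cons (P.lf 10204092 0 0) (P.lf 0 3401364 0)))) (P.cons (P.cons (P.lf 207651271 0 0) (P.cons (P.lf 61697576 0 0) (P.cons (P.lf 4124952 0 0) (P.lf 0 1374984 0)))) (P.cons (P.cons (P.lf 77508182 0 0) (P.cons (P.lf 0 13634200 0) (P.cons (P.lf 0 911548 0) P.nil))) (P.cons (P.cons (P.lf 0 16433971 0) (P.cons (P.lf 0 2237124 0) P.nil)) (P.cons (P.cons (P.lf 0 2705463 0) P.nil) P.nil)))))) 2568712)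
 EL.nil)
noncomputable def S256_314_364_512_48 : EL := (EL.cons 15 (TM.mk (P.cons (P.cons (P.lf 9222544 0 0) (P.cons (P.lf 0 73464860 0) (P.cons (P.lf 141389739 0 0) (P.cons (P.lf 21199974 0 0) (P.cons (P.lf 0 5866955 0) (P.cons (P.lf 0 435973 0) P.nil)))))) (P.cons (P.cons (P.lf 0 55201506 0) (P.cons (P.lf 234006689 0 0) (P.cons (P.lf 0 40692366 0) (P.cons (P.lf 0 12748234 0) (P.cons (P.lf 2259236 0 0) P.nil))))) (P.cons (P.cons (P.lf 101846754 0 0) (P.cons (P.lf 0 113263451 0) (P.cons (P.lf 0 24923105 0) (P.cons (P.lf 204139 0 0) P.nil)))) (P.cons (P.cons (P.lf 0 50411110 0) (P.cons (P.lf 0 32228346 0) (P.cons (P.lf 7262941 0 0) P.nil))) (P.cons (P.cons (P.lf 0 12981385 0) (P.cons (P.lf 21114921 0 0) P.nil)) (P.cons (P.cons (P.lf 11802074 0 0) P.nil) P.nil)))))) 26402078)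
 EL.nil)
noncomputable def S256_314_364_512 : SL := (SL.cons S256_314_364_512_0 (SL.cons S256_314_364_512_1 (SL.cons S256_314_364_512_2 (SL.cons S256_314_364_512_3 (SL.cons S256_314_364_512_4 (SL.cons S256_314_364_512_5 (SL.cons S256_314_364_512_6 (SL.cons S256_314_364_512_7 (SL.cons S256_314_364_512_8 (SL.cons S256_314_364_512_9 (SL.cons S256_314_364_512_10 (SL.cons S256_314_364_512_11 (SL.cons S256_314_364_512_12 (SL.cons S256_314_364_512_13 (SL.cons S256_314_364_512_14 (SL.cons S256_314_364_512_15 (SL.cons S256_314_364_512_16 (SL.cons S256_314_364_512_17 (SL.cons S256_314_364_512_18 (SL.cons S256_314_364_512_19 (SL.cons S256_314_364_512_20 (SL.cons S256_314_364_512_21 (SL.cons S256_314_364_512_22 (SL.cons S256_314_364_512_23 (SL.cons S256_314_364_512_24 (SL.cons S256_314_364_512_25 (SL.cons S256_314_364_512_26 (SL.cons S256_314_364_512_27 (SL.cons S256_314_364_512_28 (SL.cons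 S256_314_364_512_29 (SL.cons S256_314_364_512_30 (SL.cons S256_314_364_512_31 (SL.cons S256_314_364_512_32 (SL.cons S256_314_364_512_33 (SL.cons S256_314_364_512_34 (SL.cons S256_314_364_512_35 (SL.cons S256_314_364_512_36 (SL.cons S256_314_364_512_37 (SL.cons S256_314_364_512_38 (SL.cons S256_314_364_512_39 (SL.cons S256_314_364_512_40 (SL.cons S256_314_364_512_41 (SL.cons S256_314_364_512_42 (SL.cons S256_314_364_512_43 (SL.cons S256_314_364_512_44 (SL.cons S256_314_364_512_45 (SL.cons S256_314_364_512_46 (SL.cons S256_314_364_512_47 (SL.cons S256_314_364_512_48 SL.nil)))))))))))))))))))))))))))))))))))))))))))))))))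
noncomputable def S256_314_438_512_0 : EL := (EL.cons 0 (TM.mk (P.cons (P.lf 8080323868 0 0) (P.cons (P.lf 0 727079837 0) (P.cons (P.lf 0 317250402 0) (P.cons (P.lf 44091209 0 0) (P.cons (P.lf 8367597 0 0) (P.cons (P.lf 0 1467036 0) P.nil)))))) 311496)
 (EL.cons 1 (TM.mk (P.cons (P.lf 869508750 0 0) (P.cons (P.lf 786249082 0 0) (P.cons (P.lf 0 120498519 0) (P.cons (P.lf 0 33042157 0) (P.cons (P.lf 5010903 0 0) (P.cons (P.lf 683975 0 0) P.nil)))))) 177172)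
 (EL.cons 5 (TM.mk (P.cons (P.lf 4428440364 0 0) (P.cons (P.lf 258517274 0 0) (P.cons (P.lf 112800140 0 0) (P.cons (P.lf 0 15676876 0) (P.cons (P.lf 0 2975142 0) (P.cons (P.lf 521612 0 0) P.nil)))))) 117185)
 (EL.cons 9 (TM.mk (P.lf 6442450944 0 0) 2)
 EL.nil))))
noncomputable def S256_314_438_512_1 : EL := (EL.cons 0 (TM.mk (P.cons (P.cons (P.lf 0 1096337768 0) (P.cons (P.lf 0 673917357 0) (P.cons (P.lf 0 10726287 0) (P.lf 3575429 0 0)))) (P.cons (P.cons (P.lf 0 944930551 0) (P.cons (P.lf 411597012 0 0) (P.cons (P.lf 6551099 0 0) (P.lf 0 2183691 0)))) (P.cons (P.cons (P.lf 1517777224 0 0) (P.cons (P.lf 121164814 0 0) (P.cons (P.lf 1928491 0 0) (P.lf 0 642827 0)))) (P.cons (P.cons (P.lf 260296105 0 0) (P.cons (P.lf 0 74297113 0) (P.cons (P.lf 0 1182520 0) P.nil))) (P.cons (P.cons (P.lf 0 221405543 0) (P.cons (P.lf 0 6578798 0) P.nil)) (P.cons (P.cons (P.lf 0 12272156 0) P.nil)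 P.nil)))))) 31566856)
 (EL.cons 1 (TM.mk (P.cons (P.cons (P.lf 719470245 0 0) (P.cons (P.lf 0 202281020 0) (P.cons (P.lf 0 3219568 0) (P.lf 1073185 0 0)))) (P.cons (P.cons (P.lf 0 1033203937 0) (P.cons (P.lf 0 126665494 0) (P.cons (P.lf 0 2016046 0) (P.lf 672013 0 0)))) (P.cons (P.cons (P.lf 0 266238947 0) (P.cons (P.lf 101074959 0 0) (P.cons (P.lf 1608730 0 0) (P.lf 0 536239 0)))) (P.cons (P.cons (P.lf 339659495 0 0) (P.cons (P.lf 14417437 0 0) (P.cons (P.lf 229467 0 0) P.nil))) (P.cons (P.cons (P.lf 29194205 0 0) (P.cons (P.lf 0 12275760 0) P.nil)) (P.cons (P.cons (P.lf 0 34540773 0) P.nil) P.nil)))))) 15359907)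
 (EL.cons 5 (TM.mk (P.cons (P.cons (P.lf 35591918 0 0) (P.cons (P.lf 0 467958654 0) (P.cons (P.lf 0 7448178 0) (P.lf 2482726 0 0)))) (P.cons (P.cons (P.lf 0 543248696 0) (P.cons (P.lf 0 10109952 0) (P.cons (P.lf 0 160902 0) (P.lf 53632 0 0)))) (P.cons (P.cons (P.lf 0 132743091 0) (P.cons (P.lf 11991778 0 0) (P.cons (P.lf 190870 0 0) (P.lf 0 63624 0)))) (P.cons (P.cons (P.lf 27302281 0 0) (P.cons (P.lf 14246564 0 0) (P.cons (P.lf 226748 0 0) P.nil))) (P.cons (P.cons (P.lf 48829683 0 0) (P.cons (P.lf 342218 0 0) P.nil)) (P.cons (P.cons (P.lf 314509 0 0) P.nil) P.nil)))))) 13419415)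
 (EL.cons 9 (TM.mk (P.cons (P.cons (P.lf 0 312544464 0) (P.cons (P.lf 0 624329742 0) (P.cons (P.lf 0 9937032 0) (P.lf 3312342 0 0)))) (P.cons (P.cons (P.lf 0 775785876 0) (P.cons (P.lf 120207924 0 0) (P.cons (P.lf 1913262 0 0) (P.lf 0 637752 0)))) (P.cons (P.cons (P.lf 359039140 0 0) (P.cons (P.lf 48593466 0 0) (P.cons (P.lf 773424 0 0) (P.lf 0 257808 0)))) (P.cons (P.cons (P.lf 105751761 0 0) (P.cons (P.lf 0 10738398 0) (P.cons (P.lf 0 170910 0) P.nil))) (P.cons (P.cons (P.lf 0 26375542 0) (P.cons (P.lf 0 1761972 0) P.nil)) (P.cons (P.cons (P.lf 0 3572566 0) P.nil) P.nil)))))) 2280319)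
 (EL.cons 2 (TM.mk (P.cons (P.cons (P.lf 0 620022895 0) (P.cons (P.lf 0 22983401 0) (P.cons (P.lf 11388358 0 0) (P.cons (P.lf 103342 0 0) (P.lf 0 25832 0))))) (P.cons (P.cons (P.lf 0 520859809 0) (P.cons (P.lf 0 19307562 0) (P.cons (P.lf 9566966 0 0) (P.cons (P.lf 86813 0 0) (P.lf 0 21701 0))))) (P.cons (P.cons (P.lf 140546711 0 0) (P.cons (P.lf 5209872 0 0) (P.cons (P.lf 0 2581509 0) (P.cons (P.lf 0 23425 0) P.nil)))) (P.cons (P.cons (P.lf 33685188 0 0) (P.cons (P.lf 1248662 0 0) (P.cons (P.lf 0 618716 0) P.nil))) (P.cons (P.cons (P.lf 0 9024612 0) (P.cons (P.lf 0 334527 0) P.nil)) (P.cons (P.cons (P.lf 0 1002180 0) P.nil) P.nil)))))) 770190)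
 (EL.cons 6 (TM.mk (P.cons (P.cons (P.lf 1436135832 0 0) (P.cons (P.lf 53235594 0 0) (P.cons (P.lf 0 26378427 0) (P.cons (P.lf 0 239367 0) (P.lf 59841 0 0))))) (P.cons (P.cons (P.lf 0 276512388 0) (P.cons (P.lf 0 10249935 0) (P.cons (P.lf 5078880 0 0) (P.cons (P.lf 46086 0 0) (P.lf 0 11520 0))))) (P.cons (P.cons (P.lf 0 111778794 0) (P.cons (P.lf 0 4143486 0) (P.cons (P.lf 2053110 0 0) (P.cons (P.lf 18630 0 0) P.nil)))) (P.cons (P.cons (P.lf 24701367 0 0) (P.cons (P.lf 915645 0 0) (P.cons (P.lf 0 453702 0) P.nil))) (P.cons (P.cons (P.lf 4053048 0 0) (P.cons (P.lf 150240 0 0) P.nil)) (P.cons (P.cons (P.lf 0 1141305 0) P.nil) P.nil)))))) 488982)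
 EL.nil))))))
noncomputable def S256_314_438_512_2 : EL := (EL.cons 0 (TM.mk (P.cons (P.cons (P.lf 87356527 0 0) (P.cons (P.lf 201900243 0 0) (P.cons (P.lf 57945703 0 0) (P.cons (P.lf 671104 0 0) (P.cons (P.lf 0 566898 0) (P.cons (P.lf 0 9250 0) P.nil)))))) (P.cons (P.cons (P.lf 263023467 0 0) (P.cons (P.lf 97476772 0 0) (P.cons (P.lf 0 67322282 0) (P.cons (P.lf 0 2709585 0) (P.cons (P.lf 713358 0 0) P.nil))))) (P.cons (P.cons (P.lf 0 106123878 0) (P.cons (P.lf 0 383831788 0) (P.cons (P.lf 0 15050068 0) (P.cons (P.lf 1751776 0 0) P.nil)))) (P.cons (P.cons (P.lf 0 400568908 0) (P.cons (P.lf 14406741 0 0) (P.cons (P.lf 20350643 0 0) P.nil))) (P.cons (P.cons (P.lf 100991742 0 0) (P.cons (P.lf 100609869 0 0) P.nil)) (P.cons (P.cons (P.lf 113535384 0 0) P.nil) P.nil)))))) 152434149)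
 (EL.cons 1 (TM.mk (P.cons (P.cons (P.lf 0 71854153 0) (P.cons (P.lf 0 127995011 0) (P.cons (P.lf 29002561 0 0) (P.cons (P.lf 1667140 0 0) (P.cons (P.lf 0 321490 0) (P.cons (P.lf 0 5242 0) P.nil)))))) (P.cons (P.cons (P.lf 0 85035408 0) (P.cons (P.lf 261995892 0 0) (P.cons (P.lf 16931954 0 0) (P.cons (P.lf 0 983743 0) (P.cons (P.lf 0 132179 0) P.nil))))) (P.cons (P.cons (P.lf 338047740 0 0) (P.cons (P.lf 20192733 0 0) (P.cons (P.lf 0 22103570 0) (P.cons (P.lf 0 820971 0) P.nil)))) (P.cons (P.cons (P.lf 0 52986141 0) (P.cons (P.lf 0 122349398 0) (P.cons (P.lf 0 1981718 0) P.nil))) (P.cons (P.cons (P.lf 0 140454063 0) (P.cons (P.lf 11108616 0 0) P.nil)) (P.cons (P.cons (P.lf 29390458 0 0) P.nil) P.nil)))))) 82725726)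
 (EL.cons 5 (TM.mk (P.cons (P.cons (P.lf 0 13875860 0) (P.cons (P.lf 0 3133291 0) (P.cons (P.lf 49059863 0 0) (P.cons (P.lf 1579908 0 0) (P.cons (P.lf 0 508652 0) (P.cons (P.lf 0 8286 0) P.nil)))))) (P.cons (P.cons (P.lf 0 8211360 0) (P.cons (P.lf 122532073 0 0) (P.cons (P.lf 33858 0 0) (P.cons (P.lf 0 711102 0) (P.cons (P.lf 19866 0 0) P.nil))))) (P.cons (P.cons (P.lf 104125984 0 0) (P.cons (P.lf 19453156 0 0) (P.cons (P.lf 0 4643446 0) (P.cons (P.lf 0 260866 0) P.nil)))) (P.cons (P.cons (P.lf 32796997 0 0) (P.cons (P.lf 0 25249537 0) (P.cons (P.lf 0 3142167 0) P.nil))) (P.cons (P.cons (P.lf 0 39195223 0) (P.cons (P.lf 0 16242986 0) P.nil)) (P.cons (P.cons (P.lf 0 19417397 0) P.nil) P.nil)))))) 68741831)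
 (EL.cons 9 (TM.mk (P.cons (P.cons (P.lf 15162558 0 0) (P.cons (P.lf 60576573 0 0) (P.cons (P.lf 61467157 0 0) (P.cons (P.lf 1604584 0 0) (P.cons (P.lf 0 626662 0) (P.cons (P.lf 0 10218 0) P.nil)))))) (P.cons (P.cons (P.lf 75271843 0 0) (P.cons (P.lf 138697485 0 0) (P.cons (P.lf 0 21090840 0) (P.cons (P.lf 0 1477498 0) (P.cons (P.lf 241312 0 0) P.nil))))) (P.cons (P.cons (P.lf 58582104 0 0) (P.cons (P.lf 0 103253262 0) (P.cons (P.lf 0 8818744 0) (P.cons (P.lf 319393 0 0) P.nil)))) (P.cons (P.cons (P.lf 0 96730149 0) (P.cons (P.lf 0 17759239 0) (P.cons (P.lf 3612010 0 0) P.nil))) (P.cons (P.cons (P.lf 0 2900337 0) (P.cons (P.lf 17231821 0 0) P.nil)) (P.cons (P.cons (P.lf 18485938 0 0) P.nil) P.nil)))))) 17385365)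
 (EL.cons 2 (TM.mk (P.cons (P.cons (P.lf 60158694 0 0) (P.cons (P.lf 122401260 0 0) (P.cons (P.lf 5262294 0 0) (P.cons (P.lf 0 2783947 0) (P.cons (P.lf 0 76286 0) (P.cons (P.lf 16396 0 0) P.nil)))))) (P.cons (P.cons (P.lf 199860845 0 0) (P.cons (P.lf 85222614 0 0) (P.cons (P.lf 451996 0 0) (P.cons (P.lf 0 1829497 0) (P.cons (P.lf 0 42688 0) P.nil))))) (P.cons (P.cons (P.lf 42696821 0 0) (P.cons (P.lf 0 54448143 0) (P.cons (P.lf 0 3753028 0) (P.cons (P.lf 1286246 0 0) P.nil)))) (P.cons (P.cons (P.lf 0 115527408 0) (P.cons (P.lf 0 11356818 0) (P.cons (P.lf 1747130 0 0) P.nil))) (P.cons (P.cons (P.lf 0 3594448 0) (P.cons (P.lf 7068633 0 0) P.nil)) (P.cons (P.cons (P.lf 15591825 0 0) P.nil) P.nil)))))) 11891148)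
 (EL.cons 6 (TM.mk (P.cons (P.cons (P.lf 0 139343334 0) (P.cons (P.lf 0 283513464 0) (P.cons (P.lf 0 12188856 0) (P.cons (P.lf 6448356 0 0) (P.cons (P.lf 176700 0 0) (P.cons (P.lf 0 37980 0) P.nil)))))) (P.cons (P.cons (P.lf 0 319043628 0) (P.cons (P.lf 95359338 0 0) (P.cons (P.lf 11539308 0 0) (P.cons (P.lf 0 2421000 0) (P.cons (P.lf 0 83568 0) P.nil))))) (P.cons (P.cons (P.lf 237511848 0 0) (P.cons (P.lf 41814858 0 0) (P.cons (P.lf 0 2613462 0) (P.cons (P.lf 0 801570 0) P.nil)))) (P.cons (P.cons (P.lf 40851300 0 0) (P.cons (P.lf 0 16403406 0) (P.cons (P.lf 0 1699704 0) P.nil))) (P.cons (P.cons (P.lf 0 39638088 0) (P.cons (P.lf 0 2883072 0) P.nil)) (P.cons (P.cons (P.lf 0 1110492 0) P.nil) P.nil)))))) 8938374)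
 EL.nil))))))
noncomputable def S256_314_438_512_3 : EL := (EL.cons 0 (TM.mk (P.cons (P.lf 375392995 0 0) (P.cons (P.lf 727079837 0 0) (P.cons (P.lf 317250402 0 0) (P.cons (P.lf 0 44091209 0) (P.cons (P.lf 0 8367597 0) (P.cons (P.lf 1467036 0 0) P.nil)))))) 311496)
 (EL.cons 1 (TM.mk (P.cons (P.lf 0 869508750 0) (P.cons (P.lf 0 786249082 0) (P.cons (P.lf 120498519 0 0) (P.cons (P.lf 33042157 0 0) (P.cons (P.lf 0 5010903 0) (P.cons (P.lf 0 683975 0) P.nil)))))) 177172)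
 (EL.cons 5 (TM.mk (P.cons (P.lf 2014010580 0 0) (P.cons (P.lf 0 258517274 0) (P.cons (P.lf 0 112800140 0) (P.cons (P.lf 15676876 0 0) (P.cons (P.lf 2975142 0 0) (P.cons (P.lf 0 521612 0) P.nil)))))) 117178)
 EL.nil)))
noncomputable def S256_314_438_512_4 : EL := (EL.cons 0 (TM.mk (P.cons (P.cons (P.lf 0 18211547 0) (P.cons (P.lf 0 36378857 0) (P.cons (P.lf 0 579016 0) (P.lf 193004 0 0)))) (P.cons (P.cons (P.lf 0 80477036 0) (P.cons (P.lf 0 63456027 0) (P.cons (P.lf 0 1009986 0) (P.lf 336661 0 0)))) (P.cons (P.cons (P.lf 0 82023495 0) (P.cons (P.lf 0 14346472 0) (P.cons (P.lf 0 228343 0) (P.lf 76113 0 0)))) (P.cons (P.cons (P.lf 10618732 0 0) (P.cons (P.lf 15050742 0 0) (P.cons (P.lf 239551 0 0) P.nil))) (P.cons (P.cons (P.lf 33793764 0 0) (P.cons (P.lf 1066552 0 0) P.nil)) (P.cons (P.cons (P.lf 501985 0 0) P.nil) P.nil)))))) 6241390)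
 (EL.cons 1 (TM.mk (P.cons (P.cons (P.lf 42182724 0 0) (P.cons (P.lf 84262987 0 0) (P.cons (P.lf 1341155 0 0) (P.lf 0 447050 0)))) (P.cons (P.cons (P.lf 142847870 0 0) (P.cons (P.lf 59970474 0 0) (P.cons (P.lf 954508 0 0) (P.lf 0 318168 0)))) (P.cons (P.cons (P.lf 40374712 0 0) (P.cons (P.lf 0 32906205 0) (P.cons (P.lf 0 523743 0) (P.lf 174579 0 0)))) (P.cons (P.cons (P.lf 0 74203818 0) (P.cons (P.lf 0 5434850 0) (P.cons (P.lf 0 86501 0) P.nil))) (P.cons (P.cons (P.lf 0 6366720 0) (P.cons (P.lf 3559348 0 0) P.nil)) (P.cons (P.cons (P.lf 8157088 0 0) P.nil) P.nil)))))) 3980914)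
 (EL.cons 5 (TM.mk (P.cons (P.cons (P.lf 0 97706270 0) (P.cons (P.lf 0 195175206 0) (P.cons (P.lf 0 3106470 0) (P.lf 1035488 0 0)))) (P.cons (P.cons (P.lf 0 229981234 0) (P.cons (P.lf 62631450 0 0) (P.cons (P.lf 996858 0 0) (P.lf 0 332284 0)))) (P.cons (P.cons (P.lf 148843622 0 0) (P.cons (P.lf 21298790 0 0) (P.cons (P.lf 338996 0 0) (P.lf 0 112998 0)))) (P.cons (P.cons (P.lf 31475036 0 0) (P.cons (P.lf 0 8930840 0) (P.cons (P.lf 0 142142 0) P.nil))) (P.cons (P.cons (P.lf 0 20807408 0) (P.cons (P.lf 0 966542 0) P.nil)) (P.cons (P.cons (P.lf 0 1369338 0) P.nil) P.nil)))))) 2861754)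
 EL.nil)))
noncomputable def S256_314_438_512_5 : EL := (EL.cons 0 (TM.mk (P.cons (P.cons (P.lf 883501 0 0) (P.cons (P.lf 3529715 0 0) (P.cons (P.lf 3581608 0 0) (P.cons (P.lf 93496 0 0) (P.cons (P.lf 0 36513 0) (P.cons (P.lf 0 594 0) P.nil)))))) (P.cons (P.cons (P.lf 6097199 0 0) (P.cons (P.lf 14918245 0 0) (P.cons (P.lf 5708102 0 0) (P.cons (P.lf 94997 0 0) (P.cons (P.lf 0 56661 0) P.nil))))) (P.cons (P.cons (P.lf 12655163 0 0) (P.cons (P.lf 12619657 0 0) (P.cons (P.lf 132753 0 0) (P.cons (P.lf 0 69118 0) P.nil)))) (P.cons (P.cons (P.lf 4577997 0 0) (P.cons (P.lf 0 6272319 0) (P.cons (P.lf 0 2244058 0) P.nil))) (P.cons (P.cons (P.lf 0 8735776 0) (P.cons (P.lf 0 7112670 0) P.nil)) (P.cons (P.cons (P.lf 0 4508767 0) P.nil) P.nil)))))) 14923036)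
 (EL.cons 1 (TM.mk (P.cons (P.cons (P.lf 0 2046421 0) (P.cons (P.lf 0 8175746 0) (P.cons (P.lf 0 8295945 0) (P.cons (P.lf 0 216562 0) (P.cons (P.lf 84575 0 0) (P.cons (P.lf 1378 0 0) P.nil)))))) (P.cons (P.cons (P.lf 0 12009570 0) (P.cons (P.lf 0 26112258 0) (P.cons (P.lf 0 4655032 0) (P.cons (P.lf 3585 0 0) (P.cons (P.lf 43908 0 0) P.nil))))) (P.cons (P.cons (P.lf 0 16809285 0) (P.cons (P.lf 0 1858261 0) (P.cons (P.lf 4913863 0 0) (P.cons (P.lf 167220 0 0) P.nil)))) (P.cons (P.cons (P.lf 7391400 0 0) (P.cons (P.lf 17902970 0 0) (P.cons (P.lf 509533 0 0) P.nil))) (P.cons (P.cons (P.lf 13666548 0 0) (P.cons (P.lf 0 1425322 0) P.nil)) (P.cons (P.cons (P.lf 0 3709923 0) P.nil) P.nil)))))) 13722607)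
 (EL.cons 5 (TM.mk (P.cons (P.cons (P.lf 4740050 0 0) (P.cons (P.lf 18937180 0 0) (P.cons (P.lf 19215590 0 0) (P.cons (P.lf 501616 0 0) (P.cons (P.lf 0 195902 0) (P.cons (P.lf 0 3192 0) P.nil)))))) (P.cons (P.cons (P.lf 22922720 0 0) (P.cons (P.lf 40928228 0 0) (P.cons (P.lf 0 9059826 0) (P.cons (P.lf 0 526276 0) (P.cons (P.lf 100582 0 0) P.nil))))) (P.cons (P.cons (P.lf 15027752 0 0) (P.cons (P.lf 0 38904742 0) (P.cons (P.lf 0 2986782 0) (P.cons (P.lf 131040 0 0) P.nil)))) (P.cons (P.cons (P.lf 0 33871114 0) (P.cons (P.lf 0 3689586 0) (P.cons (P.lf 2001890 0 0) P.nil))) (P.cons (P.cons (P.lf 2139274 0 0) (P.cons (P.lf 8272888 0 0) P.nil)) (P.cons (P.cons (P.lf 7765096 0 0) P.nil) P.nil)))))) 10435230)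
 EL.nil)))
noncomputable def S256_314_438_512_6 : EL := (EL.cons 12 (TM.mk (P.lf 8589934592 0 0) 0)
 (EL.cons 3 (TM.mk (P.cons (P.lf 897858742 0 0) (P.cons (P.lf 869508750 0 0) (P.cons (P.lf 0 41629830 0) (P.cons (P.lf 0 12412950 0) (P.cons (P.lf 1049171 0 0) (P.cons (P.lf 162840 0 0) P.nil)))))) 27209)
 (EL.cons 7 (TM.mk (P.cons (P.lf 0 2079676607 0) (P.cons (P.lf 133473065 0 0) (P.cons (P.lf 62522105 0 0) (P.cons (P.lf 0 4081356 0) (P.cons (P.lf 0 858201 0) (P.cons (P.lf 91532 0 0) P.nil)))))) 18219)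
 EL.nil)))
noncomputable def S256_314_438_512_7 : EL := (EL.cons 12 (TM.mk (P.cons (P.cons (P.lf 0 416725952 0) (P.cons (P.lf 0 832439656 0) (P.cons (P.lf 0 13249376 0) (P.lf 4416456 0 0)))) (P.cons (P.cons (P.lf 0 1034381168 0) (P.cons (P.lf 160277232 0 0) (P.cons (P.lf 2551016 0 0) (P.lf 0 850336 0)))) (P.cons (P.cons (P.lf 478718854 0 0) (P.cons (P.lf 64791288 0 0) (P.cons (P.lf 1031232 0 0) (P.lf 0 343744 0)))) (P.cons (P.cons (P.lf 141002348 0 0) (P.cons (P.lf 0 14317864 0) (P.cons (P.lf 0 227880 0) P.nil))) (P.cons (P.cons (P.lf 0 35167390 0) (P.cons (P.lf 0 2349296 0) P.nil)) (P.cons (P.cons (P.lf 0 4763422 0) P.nil) P.nil)))))) 3040400)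
 (EL.cons 3 (TM.mk (P.cons (P.cons (P.lf 0 1728174153 0) (P.cons (P.lf 174020700 0 0) (P.cons (P.lf 2769768 0 0) (P.lf 0 923254 0)))) (P.cons (P.cons (P.lf 1463929566 0 0) (P.cons (P.lf 135020176 0 0) (P.cons (P.lf 2149024 0 0) (P.lf 0 716340 0)))) (P.cons (P.cons (P.lf 612894417 0 0) (P.cons (P.lf 0 54060992 0) (P.cons (P.lf 0 860448 0) (P.lf 286814 0 0)))) (P.cons (P.cons (P.lf 0 208168480 0) (P.cons (P.lf 0 10976074 0) (P.cons (P.lf 0 174696 0) P.nil))) (P.cons (P.cons (P.lf 0 32829729 0) (P.cons (P.lf 4684314 0 0) P.nil)) (P.cons (P.cons (P.lf 13481345 0 0) P.nil) P.nil)))))) 9617222)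
 (EL.cons 7 (TM.mk (P.cons (P.cons (P.lf 0 157703345 0) (P.cons (P.lf 241608133 0 0) (P.cons (P.lf 3845514 0 0) (P.lf 0 1281840 0)))) (P.cons (P.cons (P.lf 224719040 0 0) (P.cons (P.lf 20726135 0 0) (P.cons (P.lf 329879 0 0) (P.lf 0 109958 0)))) (P.cons (P.cons (P.lf 210104692 0 0) (P.cons (P.lf 2402369 0 0) (P.cons (P.lf 38235 0 0) (P.lf 0 12745 0)))) (P.cons (P.cons (P.lf 36554530 0 0) (P.cons (P.lf 0 7052409 0) (P.cons (P.lf 0 112245 0) P.nil))) (P.cons (P.cons (P.lf 0 26399033 0) (P.cons (P.lf 0 697462 0) P.nil)) (P.cons (P.cons (P.lf 0 2293178 0) P.nil) P.nil)))))) 6893416)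
 (EL.cons 10 (TM.mk (P.cons (P.cons (P.lf 0 2965920960 0) (P.cons (P.lf 0 109942644 0) (P.cons (P.lf 54476976 0 0) (P.cons (P.lf 494346 0 0) (P.lf 0 123585 0))))) (P.cons (P.cons (P.lf 380703957 0 0) (P.cons (P.lf 14112174 0 0) (P.cons (P.lf 0 6992634 0) (P.cons (P.lf 0 63453 0) (P.lf 15861 0 0))))) (P.cons (P.cons (P.lf 166114467 0 0) (P.cons (P.lf 6157635 0 0) (P.cons (P.lf 0 3051129 0) (P.cons (P.lf 0 27687 0) P.nil)))) (P.cons (P.cons (P.lf 0 23086458 0) (P.cons (P.lf 0 855783 0) (P.cons (P.lf 424041 0 0) P.nil))) (P.cons (P.cons (P.lf 0 4381323 0) (P.cons (P.lf 0 162408 0) P.nil)) (P.cons (P.cons (P.lf 768147 0 0) P.nil) P.nil)))))) 318138)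
 EL.nil))))
noncomputable def S256_314_438_512_8 : EL := (EL.cons 12 (TM.mk (P.cons (P.cons (P.lf 20216744 0 0) (P.cons (P.lf 80768764 0 0) (P.cons (P.lf 81956210 0 0) (P.cons (P.lf 2139446 0 0) (P.cons (P.lf 0 835550 0) (P.cons (P.lf 0 13624 0) P.nil)))))) (P.cons (P.cons (P.lf 100362458 0 0) (P.cons (P.lf 184929980 0 0) (P.cons (P.lf 0 28121120 0) (P.cons (P.lf 0 1969998 0) (P.cons (P.lf 321750 0 0) P.nil))))) (P.cons (P.cons (P.lf 78109472 0 0) (P.cons (P.lf 0 137671016 0) (P.cons (P.lf 0 11758326 0) (P.cons (P.lf 425858 0 0) P.nil)))) (P.cons (P.cons (P.lf 0 128973532 0) (P.cons (P.lf 0 23678986 0) (P.cons (P.lf 4816014 0 0) P.nil))) (P.cons (P.cons (P.lf 0 3867116 0) (P.cons (P.lf 22975762 0 0) P.nil)) (P.cons (P.cons (P.lf 24647918 0 0) P.nil) P.nil)))))) 23180458)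
 (EL.cons 3 (TM.mk (P.cons (P.cons (P.lf 165565666 0 0) (P.cons (P.lf 309623373 0 0) (P.cons (P.lf 0 37232246 0) (P.cons (P.lf 0 2984757 0) (P.cons (P.lf 436676 0 0) (P.cons (P.lf 7121 0 0) P.nil)))))) (P.cons (P.cons (P.lf 261629087 0 0) (P.cons (P.lf 0 430742562 0) (P.cons (P.lf 0 31449902 0) (P.cons (P.lf 1502376 0 0) (P.cons (P.lf 254730 0 0) P.nil))))) (P.cons (P.cons (P.lf 0 622881942 0) (P.cons (P.lf 0 102043556 0) (P.cons (P.lf 21053019 0 0) (P.cons (P.lf 1263255 0 0) P.nil)))) (P.cons (P.cons (P.lf 0 14884179 0) (P.cons (P.lf 143334253 0 0) (P.cons (P.lf 4239655 0 0) P.nil))) (P.cons (P.cons (P.lf 197824449 0 0) (P.cons (P.lf 2662053 0 0) P.nil)) (P.cons (P.cons (P.lf 0 9262643 0) P.nil) P.nil)))))) 89285120)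
 (EL.cons 7 (TM.mk (P.cons (P.cons (P.lf 20196015 0 0) (P.cons (P.lf 26677870 0 0) (P.cons (P.lf 0 26872386 0) (P.cons (P.lf 0 1010471 0) (P.cons (P.lf 282727 0 0) (P.cons (P.lf 4606 0 0) P.nil)))))) (P.cons (P.cons (P.lf 40161105 0 0) (P.cons (P.lf 0 66120702 0) (P.cons (P.lf 0 4827685 0) (P.cons (P.lf 230628 0 0) (P.cons (P.lf 39098 0 0) P.nil))))) (P.cons (P.cons (P.lf 0 74879591 0) (P.cons (P.lf 0 49802362 0) (P.cons (P.lf 739182 0 0) (P.cons (P.lf 312983 0 0) P.nil)))) (P.cons (P.cons (P.lf 0 67437397 0) (P.cons (P.lf 10117817 0 0) (P.cons (P.lf 2795117 0 0) P.nil))) (P.cons (P.cons (P.lf 26393824 0 0) (P.cons (P.lf 16751886 0 0) P.nil)) (P.cons (P.cons (P.lf 22900436 0 0) P.nil) P.nil)))))) 39790571)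
 (EL.cons 10 (TM.mk (P.cons (P.cons (P.lf 287773140 0 0) (P.cons (P.lf 585514626 0 0) (P.cons (P.lf 25172538 0 0) (P.cons (P.lf 0 13317210 0) (P.cons (P.lf 0 364926 0) (P.cons (P.lf 78444 0 0) P.nil)))))) (P.cons (P.cons (P.lf 677361048 0 0) (P.cons (P.lf 0 159358830 0) (P.cons (P.lf 0 22215528 0) (P.cons (P.lf 4145178 0 0) (P.cons (P.lf 149172 0 0) P.nil))))) (P.cons (P.cons (P.lf 0 438387384 0) (P.cons (P.lf 0 78981498 0) (P.cons (P.lf 4728342 0 0) (P.cons (P.lf 1521090 0 0) P.nil)))) (P.cons (P.cons (P.lf 0 92703054 0) (P.cons (P.lf 22867524 0 0) (P.cons (P.lf 3096438 0 0) P.nil))) (P.cons (P.cons (P.lf 61283814 0 0) (P.cons (P.lf 5118450 0 0) P.nil)) (P.cons (P.cons (P.lf 4033098 0 0) P.nil) P.nil)))))) 12045282)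
 EL.nil))))
noncomputable def S256_314_438_512_9 : EL := (EL.cons 3 (TM.mk (P.cons (P.lf 897858742 0 0) (P.cons (P.lf 869508750 0 0) (P.cons (P.lf 0 41629830 0) (P.cons (P.lf 0 12412950 0) (P.cons (P.lf 1049171 0 0) (P.cons (P.lf 162840 0 0) P.nil)))))) 27209)
 (EL.cons 7 (TM.mk (P.cons (P.lf 0 2079676607 0) (P.cons (P.lf 133473065 0 0) (P.cons (P.lf 62522105 0 0) (P.cons (P.lf 0 4081356 0) (P.cons (P.lf 0 858201 0) (P.cons (P.lf 91532 0 0) P.nil)))))) 18219)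
 EL.nil))
noncomputable def S256_314_438_512_10 : EL := (EL.cons 3 (TM.mk (P.cons (P.cons (P.lf 0 43558077 0) (P.cons (P.lf 0 87010350 0) (P.cons (P.lf 0 1384884 0) (P.lf 461627 0 0)))) (P.cons (P.cons (P.lf 0 150300915 0) (P.cons (P.lf 0 67510088 0) (P.cons (P.lf 0 1074512 0) (P.lf 358170 0 0)))) (P.cons (P.cons (P.lf 0 52646889 0) (P.cons (P.lf 27030496 0 0) (P.cons (P.lf 430224 0 0) (P.lf 0 143407 0)))) (P.cons (P.cons (P.lf 68811272 0 0) (P.cons (P.lf 5488037 0 0) (P.cons (P.lf 87348 0 0) P.nil))) (P.cons (P.cons (P.lf 9720789 0 0) (P.cons (P.lf 0 2342157 0) P.nil)) (P.cons (P.cons (P.lf 0 5567044 0) P.nil) P.nil)))))) 2277898)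
 (EL.cons 7 (TM.mk (P.cons (P.cons (P.lf 100891945 0 0) (P.cons (P.lf 201538819 0 0) (P.cons (P.lf 3207756 0 0) (P.lf 0 1069251 0)))) (P.cons (P.cons (P.lf 243954899 0 0) (P.cons (P.lf 0 51738820 0) (P.cons (P.lf 0 823489 0) (P.lf 274495 0 0)))) (P.cons (P.cons (P.lf 0 135006500 0) (P.cons (P.lf 0 19254874 0) (P.cons (P.lf 0 306465 0) (P.lf 102155 0 0)))) (P.cons (P.cons (P.lf 0 34029839 0) (P.cons (P.lf 6035292 0 0) (P.cons (P.lf 96057 0 0) P.nil))) (P.cons (P.cons (P.lf 14722654 0 0) (P.cons (P.lf 824903 0 0) P.nil)) (P.cons (P.cons (P.lf 1504549 0 0) P.nil) P.nil)))))) 1614495)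
 EL.nil))
noncomputable def S256_314_438_512_11 : EL := (EL.cons 3 (TM.mk (P.cons (P.cons (P.lf 2113144 0 0) (P.cons (P.lf 8442315 0 0) (P.cons (P.lf 8566432 0 0) (P.cons (P.lf 223623 0 0) (P.cons (P.lf 0 87334 0) (P.cons (P.lf 0 1423 0) P.nil)))))) (P.cons (P.cons (P.lf 12536759 0 0) (P.cons (P.lf 27505464 0 0) (P.cons (P.lf 5356600 0 0) (P.cons (P.lf 10650 0 0) (P.cons (P.lf 0 50946 0) P.nil))))) (P.cons (P.cons (P.lf 18225480 0 0) (P.cons (P.lf 3937948 0 0) (P.cons (P.lf 0 4472757 0) (P.cons (P.lf 0 165267 0) P.nil)))) (P.cons (P.cons (P.lf 0 6089937 0) (P.cons (P.lf 0 17423615 0) (P.cons (P.lf 0 668981 0) P.nil))) (P.cons (P.cons (P.lf 0 13980549 0) (P.cons (P.lf 414477 0 0) P.nil)) (P.cons (P.cons (P.lf 2709685 0 0) P.nil) P.nil)))))) 11442898)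
 (EL.cons 7 (TM.mk (P.cons (P.cons (P.lf 0 4894599 0) (P.cons (P.lf 0 19554620 0) (P.cons (P.lf 0 19842108 0) (P.cons (P.lf 0 517973 0) (P.cons (P.lf 202291 0 0) (P.cons (P.lf 3298 0 0) P.nil)))))) (P.cons (P.cons (P.lf 0 23984241 0) (P.cons (P.lf 0 43517688 0) (P.cons (P.lf 8081759 0 0) (P.cons (P.lf 510192 0 0) (P.cons (P.lf 0 90880 0) P.nil))))) (P.cons (P.cons (P.lf 0 17204177 0) (P.cons (P.lf 36792386 0 0) (P.cons (P.lf 3006330 0 0) (P.cons (P.lf 0 118141 0) P.nil)))) (P.cons (P.cons (P.lf 33159869 0 0) (P.cons (P.lf 4901297 0 0) (P.cons (P.lf 0 1592311 0) P.nil))) (P.cons (P.cons (P.lf 0 548960 0) (P.cons (P.lf 0 7028484 0) P.nil)) (P.cons (P.cons (P.lf 0 7013164 0) P.nil) P.nil)))))) 7946845)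
 EL.nil))
noncomputable def S256_314_438_512_12 : EL := (EL.cons 4 (TM.mk (P.cons (P.lf 0 897858742 0) (P.cons (P.lf 0 869508750 0) (P.cons (P.lf 41629830 0 0) (P.cons (P.lf 12412950 0 0) (P.cons (P.lf 0 1049171 0) (P.cons (P.lf 0 162840 0) P.nil)))))) 27209)
 (EL.cons 8 (TM.mk (P.cons (P.lf 2079676607 0 0) (P.cons (P.lf 0 133473065 0) (P.cons (P.lf 0 62522105 0) (P.cons (P.lf 4081356 0 0) (P.cons (P.lf 858201 0 0) (P.cons (P.lf 0 91532 0) P.nil)))))) 18219)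
 EL.nil))
noncomputable def S256_314_438_512_13 : EL := (EL.cons 4 (TM.mk (P.cons (P.cons (P.lf 43558077 0 0) (P.cons (P.lf 87010350 0 0) (P.cons (P.lf 1384884 0 0) (P.lf 0 461627 0)))) (P.cons (P.cons (P.lf 150300915 0 0) (P.cons (P.lf 67510088 0 0) (P.cons (P.lf 1074512 0 0) (P.lf 0 358170 0)))) (P.cons (P.cons (P.lf 52646889 0 0) (P.cons (P.lf 0 27030496 0) (P.cons (P.lf 0 430224 0) (P.lf 143407 0 0)))) (P.cons (P.cons (P.lf 0 68811272 0) (P.cons (P.lf 0 5488037 0) (P.cons (P.lf 0 87348 0) P.nil))) (P.cons (P.cons (P.lf 0 9720789 0) (P.cons (P.lf 2342157 0 0) P.nil)) (P.cons (P.cons (P.lf 5567044 0 0) P.nil) P.nil)))))) 2277898)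
 (EL.cons 8 (TM.mk (P.cons (P.cons (P.lf 0 100891945 0) (P.cons (P.lf 0 201538819 0) (P.cons (P.lf 0 3207756 0) (P.lf 1069251 0 0)))) (P.cons (P.cons (P.lf 0 243954899 0) (P.cons (P.lf 51738820 0 0) (P.cons (P.lf 823489 0 0) (P.lf 0 274495 0)))) (P.cons (P.cons (P.lf 135006500 0 0) (P.cons (P.lf 19254874 0 0) (P.cons (P.lf 306465 0 0) (P.lf 0 102155 0)))) (P.cons (P.cons (P.lf 34029839 0 0) (P.cons (P.lf 0 6035292 0) (P.cons (P.lf 0 96057 0) P.nil))) (P.cons (P.cons (P.lf 0 14722654 0) (P.cons (P.lf 0 824903 0) P.nil)) (P.cons (P.cons (P.lf 0 1504549 0) P.nil) P.nil)))))) 1614495)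
 EL.nil))
noncomputable def S256_314_438_512_14 : EL := (EL.cons 4 (TM.mk (P.cons (P.cons (P.lf 0 2113144 0) (P.cons (P.lf 0 8442315 0) (P.cons (P.lf 0 8566432 0) (P.cons (P.lf 0 223623 0) (P.cons (P.lf 87334 0 0) (P.cons (P.lf 1423 0 0) P.nil)))))) (P.cons (P.cons (P.lf 0 12536759 0) (P.cons (P.lf 0 27505464 0) (P.cons (P.lf 0 5356600 0) (P.cons (P.lf 0 10650 0) (P.cons (P.lf 50946 0 0) P.nil))))) (P.cons (P.cons (P.lf 0 18225480 0) (P.cons (P.lf 0 3937948 0) (P.cons (P.lf 4472757 0 0) (P.cons (P.lf 165267 0 0) P.nil)))) (P.cons (P.cons (P.lf 6089937 0 0) (P.cons (P.lf 17423615 0 0) (P.cons (P.lf 668981 0 0) P.nil))) (P.cons (P.cons (P.lf 13980549 0 0) (P.cons (P.lf 0 414477 0) P.nil)) (P.cons (P.cons (P.lf 0 2709685 0) P.nil) P.nil)))))) 11442898)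
 (EL.cons 8 (TM.mk (P.cons (P.cons (P.lf 4894599 0 0) (P.cons (P.lf 19554620 0 0) (P.cons (P.lf 19842108 0 0) (P.cons (P.lf 517973 0 0) (P.cons (P.lf 0 202291 0) (P.cons (P.lf 0 3298 0) P.nil)))))) (P.cons (P.cons (P.lf 23984241 0 0) (P.cons (P.lf 43517688 0 0) (P.cons (P.lf 0 8081759 0) (P.cons (P.lf 0 510192 0) (P.cons (P.lf 90880 0 0) P.nil))))) (P.cons (P.cons (P.lf 17204177 0 0) (P.cons (P.lf 0 36792386 0) (P.cons (P.lf 0 3006330 0) (P.cons (P.lf 118141 0 0) P.nil)))) (P.cons (P.cons (P.lf 0 33159869 0) (P.cons (P.lf 0 4901297 0) (P.cons (P.lf 1592311 0 0) P.nil))) (P.cons (P.cons (P.lf 548960 0 0) (P.cons (P.lf 7028484 0 0) P.nil)) (P.cons (P.cons (P.lf 7013164 0 0) P.nil) P.nil)))))) 7946845)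
 EL.nil))
noncomputable def S256_314_438_512_15 : EL := (EL.cons 4 (TM.mk (P.cons (P.lf 0 200209597 0) (P.cons (P.lf 0 387775913 0) (P.cons (P.lf 0 169200214 0) (P.cons (P.lf 23515311 0 0) (P.cons (P.lf 4462718 0 0) (P.cons (P.lf 0 782419 0) P.nil)))))) 166134)
 (EL.cons 8 (TM.mk (P.cons (P.lf 463738000 0 0) (P.cons (P.lf 419332844 0 0) (P.cons (P.lf 0 64265877 0) (P.cons (P.lf 0 17622484 0) (P.cons (P.lf 2672482 0 0) (P.cons (P.lf 364787 0 0) P.nil)))))) 94488)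
 EL.nil))
noncomputable def S256_314_438_512_16 : EL := (EL.cons 4 (TM.mk (P.cons (P.cons (P.lf 9712825 0 0) (P.cons (P.lf 19402057 0 0) (P.cons (P.lf 308808 0 0) (P.lf 0 102935 0)))) (P.cons (P.cons (P.lf 42921086 0 0) (P.cons (P.lf 33843214 0 0) (P.cons (P.lf 538659 0 0) (P.lf 0 179552 0)))) (P.cons (P.cons (P.lf 43745864 0 0) (P.cons (P.lf 7651452 0 0) (P.cons (P.lf 121783 0 0) (P.lf 0 40593 0)))) (P.cons (P.cons (P.lf 0 5663324 0) (P.cons (P.lf 0 8027062 0) (P.cons (P.lf 0 127760 0) P.nil))) (P.cons (P.cons (P.lf 0 18023340 0) (P.cons (P.lf 0 568828 0) P.nil)) (P.cons (P.cons (P.lf 0 267725 0) P.nil) P.nil)))))) 3328750)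
 (EL.cons 8 (TM.mk (P.cons (P.cons (P.lf 0 22497453 0) (P.cons (P.lf 0 44940260 0) (P.cons (P.lf 0 715283 0) (P.lf 238427 0 0)))) (P.cons (P.cons (P.lf 0 76185531 0) (P.cons (P.lf 0 31984253 0) (P.cons (P.lf 0 509071 0) (P.lf 169690 0 0)))) (P.cons (P.cons (P.lf 0 21533180 0) (P.cons (P.lf 17549976 0 0) (P.cons (P.lf 279330 0 0) (P.lf 0 93109 0)))) (P.cons (P.cons (P.lf 39575370 0 0) (P.cons (P.lf 2898587 0 0) (P.cons (P.lf 46134 0 0) P.nil))) (P.cons (P.cons (P.lf 3395584 0 0) (P.cons (P.lf 0 1898319 0) P.nil)) (P.cons (P.cons (P.lf 0 4350447 0) P.nil) P.nil)))))) 2123144)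
 EL.nil))
noncomputable def S256_314_438_512_17 : EL := (EL.cons 4 (TM.mk (P.cons (P.cons (P.lf 0 471200 0) (P.cons (P.lf 0 1882515 0) (P.cons (P.lf 0 1910190 0) (P.cons (P.lf 0 49864 0) (P.cons (P.lf 19473 0 0) (P.cons (P.lf 316 0 0) P.nil)))))) (P.cons (P.cons (P.lf 0 3251839 0) (P.cons (P.lf 0 7956397 0) (P.cons (P.lf 0 3044321 0) (P.cons (P.lf 0 50665 0) (P.cons (P.lf 30219 0 0) P.nil))))) (P.cons (P.cons (P.lf 0 6749420 0) (P.cons (P.lf 0 6730484 0) (P.cons (P.lf 0 70801 0) (P.cons (P.lf 36863 0 0) P.nil)))) (P.cons (P.cons (P.lf 0 2441598 0) (P.cons (P.lf 3345237 0 0) (P.cons (P.lf 1196831 0 0) P.nil))) (P.cons (P.cons (P.lf 4659080 0 0) (P.cons (P.lf 3793424 0 0) P.nil)) (P.cons (P.cons (P.lf 2404676 0 0) P.nil) P.nil)))))) 7958962)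
 (EL.cons 8 (TM.mk (P.cons (P.cons (P.lf 1091425 0 0) (P.cons (P.lf 4360398 0 0) (P.cons (P.lf 4424504 0 0) (P.cons (P.lf 115500 0 0) (P.cons (P.lf 0 45107 0) (P.cons (P.lf 0 735 0) P.nil)))))) (P.cons (P.cons (P.lf 6405104 0 0) (P.cons (P.lf 13926538 0 0) (P.cons (P.lf 2482684 0 0) (P.cons (P.lf 0 1912 0) (P.cons (P.lf 0 23418 0) P.nil))))) (P.cons (P.cons (P.lf 8964952 0 0) (P.cons (P.lf 991073 0 0) (P.cons (P.lf 0 2620727 0) (P.cons (P.lf 0 89184 0) P.nil)))) (P.cons (P.cons (P.lf 0 3942080 0) (P.cons (P.lf 0 9548251 0) (P.cons (P.lf 0 271751 0) P.nil))) (P.cons (P.cons (P.lf 0 7288826 0) (P.cons (P.lf 760172 0 0) P.nil)) (P.cons (P.cons (P.lf 1978626 0 0) P.nil) P.nil)))))) 7318712)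
 EL.nil))
noncomputable def S256_314_438_512_18 : EL := (EL.cons 4 (TM.mk (P.cons (P.lf 0 44643862 0) (P.cons (P.lf 0 129702684 0) (P.cons (P.lf 0 119397478 0) (P.cons (P.lf 0 26667962 0) (P.cons (P.lf 8965736 0 0) (P.cons (P.lf 958581 0 0) P.nil)))))) 467642)
 (EL.cons 8 (TM.mk (P.cons (P.lf 103406910 0 0) (P.cons (P.lf 193647023 0 0) (P.cons (P.lf 71427862 0 0) (P.cons (P.lf 0 23572483 0) (P.cons (P.lf 0 3717003 0) (P.cons (P.lf 1166783 0 0) P.nil)))))) 289701)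
 EL.nil))
noncomputable def S256_314_438_512_19 : EL := (EL.cons 4 (TM.mk (P.cons (P.cons (P.lf 2165820 0 0) (P.cons (P.lf 4326379 0 0) (P.cons (P.lf 68859 0 0) (P.lf 0 22952 0)))) (P.cons (P.cons (P.lf 11668219 0 0) (P.cons (P.lf 11736324 0 0) (P.cons (P.lf 186798 0 0) (P.lf 0 62265 0)))) (P.cons (P.cons (P.lf 18922865 0 0) (P.cons (P.lf 8813835 0 0) (P.cons (P.lf 140283 0 0) (P.lf 0 46760 0)))) (P.cons (P.cons (P.lf 7710154 0 0) (P.cons (P.lf 0 547340 0) (P.cons (P.lf 0 8711 0) P.nil))) (P.cons (P.cons (P.lf 0 5823980 0) (P.cons (P.lf 0 2038626 0) P.nil)) (P.cons (P.cons (P.lf 0 4016475 0) P.nil) P.nil)))))) 3348353)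
 (EL.cons 8 (TM.mk (P.cons (P.cons (P.lf 0 5016608 0) (P.cons (P.lf 0 10021032 0) (P.cons (P.lf 0 159497 0) (P.lf 53165 0 0)))) (P.cons (P.cons (P.lf 0 21846487 0) (P.cons (P.lf 0 16836645 0) (P.cons (P.lf 0 267977 0) (P.lf 89325 0 0)))) (P.cons (P.cons (P.lf 0 21020863 0) (P.cons (P.lf 0 2528809 0) (P.cons (P.lf 0 40249 0) (P.lf 13416 0 0)))) (P.cons (P.cons (P.lf 5031787 0 0) (P.cons (P.lf 4905392 0 0) (P.cons (P.lf 78075 0 0) P.nil))) (P.cons (P.cons (P.lf 9754893 0 0) (P.cons (P.lf 108080 0 0) P.nil)) (P.cons (P.cons (P.lf 0 600372 0) P.nil) P.nil)))))) 2415857)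
 EL.nil))
noncomputable def S256_314_438_512_20 : EL := (EL.cons 4 (TM.mk (P.cons (P.cons (P.lf 0 105070 0) (P.cons (P.lf 0 419773 0) (P.cons (P.lf 0 425944 0) (P.cons (P.lf 0 11118 0) (P.cons (P.lf 4342 0 0) (P.cons (P.lf 70 0 0) P.nil)))))) (P.cons (P.cons (P.lf 0 826866 0) (P.cons (P.lf 0 2180681 0) (P.cons (P.lf 0 1091335 0) (P.cons (P.lf 0 22065 0) (P.cons (P.lf 10943 0 0) P.nil))))) (P.cons (P.cons (P.lf 0 2202370 0) (P.cons (P.lf 0 3199481 0) (P.cons (P.lf 0 653444 0) (P.cons (P.lf 0 2205 0) P.nil)))) (P.cons (P.cons (P.lf 0 1966870 0) (P.cons (P.lf 0 619409 0) (P.cons (P.lf 288949 0 0) P.nil))) (P.cons (P.cons (P.lf 591340 0 0) (P.cons (P.lf 1661888 0 0) P.nil)) (P.cons (P.cons (P.lf 1587495 0 0) P.nil) P.nil)))))) 5161528)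
 (EL.cons 8 (TM.mk (P.cons (P.cons (P.lf 243371 0 0) (P.cons (P.lf 972306 0 0) (P.cons (P.lf 986600 0 0) (P.cons (P.lf 25754 0 0) (P.cons (P.lf 0 10058 0) (P.cons (P.lf 0 163 0) P.nil)))))) (P.cons (P.cons (P.lf 1663933 0 0) (P.cons (P.lf 4047023 0 0) (P.cons (P.lf 1509051 0 0) (P.cons (P.lf 24515 0 0) (P.cons (P.lf 0 14962 0) P.nil))))) (P.cons (P.cons (P.lf 3370920 0 0) (P.cons (P.lf 3183277 0 0) (P.cons (P.lf 0 94006 0) (P.cons (P.lf 0 21493 0) P.nil)))) (P.cons (P.cons (P.lf 987321 0 0) (P.cons (P.lf 0 2072532 0) (P.cons (P.lf 0 665836 0) P.nil))) (P.cons (P.cons (P.lf 0 2588724 0) (P.cons (P.lf 0 1944430 0) P.nil)) (P.cons (P.cons (P.lf 0 1117946 0) P.nil) P.nil)))))) 5036953)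
 EL.nil))
noncomputable def S256_314_438_512_21 : EL := (EL.cons 4 (TM.mk (P.cons (P.cons (P.lf 1684616076 0 0) (P.cons (P.lf 0 261031050 0) (P.cons (P.lf 0 4154652 0) (P.lf 1384881 0 0)))) (P.cons (P.cons (P.lf 0 1614230481 0) (P.cons (P.lf 0 202530264 0) (P.cons (P.lf 0 3223536 0) (P.lf 1074510 0 0)))) (P.cons (P.cons (P.lf 0 665541306 0) (P.cons (P.lf 81091488 0 0) (P.cons (P.lf 1290672 0 0) (P.lf 0 430221 0)))) (P.cons (P.cons (P.lf 276979752 0 0) (P.cons (P.lf 16464111 0 0) (P.cons (P.lf 262044 0 0) P.nil))) (P.cons (P.cons (P.lf 42550518 0 0) (P.cons (P.lf 0 7026471 0) P.nil)) (P.cons (P.cons (P.lf 0 19048389 0) P.nil) P.nil)))))) 7339305)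
 (EL.cons 8 (TM.mk (P.cons (P.cons (P.lf 258595290 0 0) (P.cons (P.lf 0 40069314 0) (P.cons (P.lf 0 637758 0) (P.lf 212589 0 0)))) (P.cons (P.cons (P.lf 19235859 0 0) (P.cons (P.lf 0 72464955 0) (P.cons (P.lf 0 1153368 0) (P.lf 384453 0 0)))) (P.cons (P.cons (P.lf 0 345111192 0) (P.cons (P.lf 0 21657243 0) (P.cons (P.lf 0 344700 0) (P.lf 114900 0 0)))) (P.cons (P.cons (P.lf 0 70584369 0) (P.cons (P.lf 13087701 0 0) (P.cons (P.lf 208302 0 0) P.nil))) (P.cons (P.cons (P.lf 41121687 0 0) (P.cons (P.lf 1522365 0 0) P.nil)) (P.cons (P.cons (P.lf 3797727 0 0) P.nil) P.nil)))))) 5278902)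
 (EL.cons 11 (TM.mk (P.cons (P.cons (P.lf 2965920960 0 0) (P.cons (P.lf 109942644 0 0) (P.cons (P.lf 0 54476976 0) (P.cons (P.lf 0 494346 0) (P.lf 123585 0 0))))) (P.cons (P.cons (P.lf 0 380703957 0) (P.cons (P.lf 0 14112174 0) (P.cons (P.lf 6992634 0 0) (P.cons (P.lf 63453 0 0) (P.lf 0 15861 0))))) (P.cons (P.cons (P.lf 0 166114467 0) (P.cons (P.lf 0 6157635 0) (P.cons (P.lf 3051129 0 0) (P.cons (P.lf 27687 0 0) P.nil)))) (P.cons (P.cons (P.lf 23086458 0 0) (P.cons (P.lf 855783 0 0) (P.cons (P.lf 0 424041 0) P.nil))) (P.cons (P.cons (P.lf 4381323 0 0) (P.cons (P.lf 162408 0 0) P.nil)) (P.cons (P.cons (P.lf 0 768147 0) P.nil) P.nil)))))) 318138)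
 EL.nil)))
noncomputable def S256_314_438_512_22 : EL := (EL.cons 4 (TM.mk (P.cons (P.cons (P.lf 0 81726261 0) (P.cons (P.lf 0 150590529 0) (P.cons (P.lf 22899339 0 0) (P.cons (P.lf 1604190 0 0) (P.cons (P.lf 0 262005 0) (P.cons (P.lf 0 4272 0) P.nil)))))) (P.cons (P.cons (P.lf 0 124546164 0) (P.cons (P.lf 229124013 0 0) (P.cons (P.lf 18403251 0 0) (P.cons (P.lf 0 745863 0) (P.cons (P.lf 0 152838 0) P.nil))))) (P.cons (P.cons (P.lf 320553711 0 0) (P.cons (P.lf 52990752 0 0) (P.cons (P.lf 0 12762888 0) (P.cons (P.lf 0 714261 0) P.nil)))) (P.cons (P.cons (P.lf 4397121 0 0) (P.cons (P.lf 0 80378934 0) (P.cons (P.lf 0 2454318 0) P.nil))) (P.cons (P.cons (P.lf 0 105902499 0) (P.cons (P.lf 0 1123788 0) P.nil)) (P.cons (P.cons (P.lf 5986164 0 0) P.nil) P.nil)))))) 38921100)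
 (EL.cons 8 (TM.mk (P.cons (P.cons (P.lf 0 12545307 0) (P.cons (P.lf 0 23116245 0) (P.cons (P.lf 3515139 0 0) (P.cons (P.lf 246249 0 0) (P.cons (P.lf 0 40218 0) (P.cons (P.lf 0 654 0) P.nil)))))) (P.cons (P.cons (P.lf 0 32072673 0) (P.cons (P.lf 11301507 0 0) (P.cons (P.lf 6454722 0 0) (P.cons (P.lf 139782 0 0) (P.cons (P.lf 0 64989 0) P.nil))))) (P.cons (P.cons (P.lf 28837707 0 0) (P.cons (P.lf 43297374 0 0) (P.cons (P.lf 1133574 0 0) (P.cons (P.lf 0 215562 0) P.nil)))) (P.cons (P.cons (P.lf 50298633 0 0) (P.cons (P.lf 0 2608260 0) (P.cons (P.lf 0 2193714 0) P.nil))) (P.cons (P.cons (P.lf 0 13471392 0) (P.cons (P.lf 0 11890185 0) P.nil)) (P.cons (P.cons (P.lf 0 14956800 0) P.nil) P.nil)))))) 15921852)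
 (EL.cons 11 (TM.mk (P.cons (P.cons (P.lf 0 143886570 0) (P.cons (P.lf 0 292757313 0) (P.cons (P.lf 0 12586269 0) (P.cons (P.lf 6658605 0 0) (P.cons (P.lf 182463 0 0) (P.cons (P.lf 0 39222 0) P.nil)))))) (P.cons (P.cons (P.lf 0 338680524 0) (P.cons (P.lf 79679415 0 0) (P.cons (P.lf 11107764 0 0) (P.cons (P.lf 0 2072589 0) (P.cons (P.lf 0 74586 0) P.nil))))) (P.cons (P.cons (P.lf 219193692 0 0) (P.cons (P.lf 39490749 0 0) (P.cons (P.lf 0 2364171 0) (P.cons (P.lf 0 760545 0) P.nil)))) (P.cons (P.cons (P.lf 46351527 0 0) (P.cons (P.lf 0 11433762 0) (P.cons (P.lf 0 1548219 0) P.nil))) (P.cons (P.cons (P.lf 0 30641907 0) (P.cons (P.lf 0 2559225 0) P.nil)) (P.cons (P.cons (P.lf 0 2016549 0) P.nil) P.nil)))))) 6022641)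
 EL.nil)))
noncomputable def S256_314_438_512_23 : EL := (EL.cons 4 (TM.mk (P.cons (P.cons (P.lf 375645177 0 0) (P.cons (P.lf 0 58206171 0) (P.cons (P.lf 0 926427 0) (P.lf 308808 0 0)))) (P.cons (P.cons (P.lf 3833934 0 0) (P.cons (P.lf 0 101529645 0) (P.cons (P.lf 0 1615977 0) (P.lf 538656 0 0)))) (P.cons (P.cons (P.lf 0 514407924 0) (P.cons (P.lf 0 22954356 0) (P.cons (P.lf 0 365349 0) (P.lf 121782 0 0)))) (P.cons (P.cons (P.lf 0 70461681 0) (P.cons (P.lf 24081186 0 0) (P.cons (P.lf 383280 0 0) P.nil))) (P.cons (P.cons (P.lf 81596736 0 0) (P.cons (P.lf 1706484 0 0) P.nil)) (P.cons (P.cons (P.lf 3776628 0 0) P.nil) P.nil)))))) 11910705)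
 (EL.cons 8 (TM.mk (P.cons (P.cons (P.lf 57663033 0 0) (P.cons (P.lf 0 8934879 0) (P.cons (P.lf 0 142209 0) (P.lf 47403 0 0)))) (P.cons (P.cons (P.lf 60131637 0 0) (P.cons (P.lf 0 24811404 0) (P.cons (P.lf 0 394905 0) (P.lf 131634 0 0)))) (P.cons (P.cons (P.lf 0 75474537 0) (P.cons (P.lf 0 20063412 0) (P.cons (P.lf 0 319332 0) (P.lf 106443 0 0)))) (P.cons (P.cons (P.lf 0 91260351 0) (P.cons (P.lf 0 885666 0) (P.cons (P.lf 0 14097 0) P.nil))) (P.cons (P.cons (P.lf 0 2496639 0) (P.cons (P.lf 3602550 0 0) P.nil)) (P.cons (P.cons (P.lf 11535993 0 0) P.nil) P.nil)))))) 4890636)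
 (EL.cons 11 (TM.mk (P.cons (P.cons (P.lf 661357755 0 0) (P.cons (P.lf 24515628 0 0) (P.cons (P.lf 0 12147582 0) (P.cons (P.lf 0 110232 0) (P.lf 27555 0 0))))) (P.cons (P.cons (P.lf 555583797 0 0) (P.cons (P.lf 20594733 0 0) (P.cons (P.lf 0 10204764 0) (P.cons (P.lf 0 92601 0) (P.lf 23148 0 0))))) (P.cons (P.cons (P.lf 0 149916492 0) (P.cons (P.lf 0 5557197 0) (P.cons (P.lf 2753610 0 0) (P.cons (P.lf 24987 0 0) P.nil)))) (P.cons (P.cons (P.lf 0 35930868 0) (P.cons (P.lf 0 1331907 0) (P.cons (P.lf 659964 0 0) P.nil))) (P.cons (P.cons (P.lf 9626253 0 0) (P.cons (P.lf 356829 0 0) P.nil)) (P.cons (P.cons (P.lf 1068993 0 0) P.nil) P.nil)))))) 821514)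
 EL.nil)))
noncomputable def S256_314_438_512_24 : EL := (EL.cons 4 (TM.mk (P.cons (P.cons (P.lf 0 18223779 0) (P.cons (P.lf 0 33579522 0) (P.cons (P.lf 5106222 0 0) (P.cons (P.lf 357711 0 0) (P.cons (P.lf 0 58422 0) (P.cons (P.lf 0 951 0) P.nil)))))) (P.cons (P.cons (P.lf 0 45420366 0) (P.cons (P.lf 18572115 0 0) (P.cons (P.lf 9048654 0 0) (P.cons (P.lf 180099 0 0) (P.cons (P.lf 0 90660 0) P.nil))))) (P.cons (P.cons (P.lf 45428727 0 0) (P.cons (P.lf 62851260 0 0) (P.cons (P.lf 891390 0 0) (P.cons (P.lf 0 336921 0) P.nil)))) (P.cons (P.cons (P.lf 71742024 0 0) (P.cons (P.lf 0 8384913 0) (P.cons (P.lf 0 3564219 0) P.nil))) (P.cons (P.cons (P.lf 0 25616709 0) (P.cons (P.lf 0 18901449 0) P.nil)) (P.cons (P.cons (P.lf 0 22603686 0) P.nil) P.nil)))))) 30584760)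
 (EL.cons 8 (TM.mk (P.cons (P.cons (P.lf 0 2797422 0) (P.cons (P.lf 0 5154588 0) (P.cons (P.lf 783825 0 0) (P.cons (P.lf 54909 0 0) (P.cons (P.lf 0 8967 0) (P.cons (P.lf 0 144 0) P.nil)))))) (P.cons (P.cons (P.lf 0 9860838 0) (P.cons (P.lf 0 2471760 0) (P.cons (P.lf 2198385 0 0) (P.cons (P.lf 84345 0 0) (P.cons (P.lf 0 23175 0) P.nil))))) (P.cons (P.cons (P.lf 0 365829 0) (P.cons (P.lf 12334188 0 0) (P.cons (P.lf 1610292 0 0) (P.cons (P.lf 0 20427 0) P.nil)))) (P.cons (P.cons (P.lf 17813496 0 0) (P.cons (P.lf 8722656 0 0) (P.cons (P.lf 0 321948 0) P.nil))) (P.cons (P.cons (P.lf 7655256 0 0) (P.cons (P.lf 0 3703089 0) P.nil)) (P.cons (P.cons (P.lf 0 6862023 0) P.nil) P.nil)))))) 10634979)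
 (EL.cons 11 (TM.mk (P.cons (P.cons (P.lf 0 32084637 0) (P.cons (P.lf 0 65280672 0) (P.cons (P.lf 0 2806557 0) (P.cons (P.lf 1484772 0 0) (P.cons (P.lf 40686 0 0) (P.cons (P.lf 0 8745 0) P.nil)))))) (P.cons (P.cons (P.lf 0 106592451 0) (P.cons (P.lf 0 45452061 0) (P.cons (P.lf 0 241065 0) (P.cons (P.lf 975732 0 0) (P.cons (P.lf 22767 0 0) P.nil))))) (P.cons (P.cons (P.lf 0 22771638 0) (P.cons (P.lf 29039010 0 0) (P.cons (P.lf 2001615 0 0) (P.cons (P.lf 0 685998 0) P.nil)))) (P.cons (P.cons (P.lf 61614618 0 0) (P.cons (P.lf 6056970 0 0) (P.cons (P.lf 0 931803 0) P.nil))) (P.cons (P.cons (P.lf 1917039 0 0) (P.cons (P.lf 0 3769938 0) P.nil)) (P.cons (P.cons (P.lf 0 8315640 0) P.nil) P.nil)))))) 6341934)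
 EL.nil)))
noncomputable def S256_314_438_512_25 : EL := (EL.cons 4 (TM.mk (P.cons (P.cons (P.lf 83763474 0 0) (P.cons (P.lf 0 12979140 0) (P.cons (P.lf 0 206580 0) (P.lf 68859 0 0)))) (P.cons (P.cons (P.lf 81973548 0 0) (P.cons (P.lf 0 35208972 0) (P.cons (P.lf 0 560397 0) (P.lf 186798 0 0)))) (P.cons (P.cons (P.lf 0 117761406 0) (P.cons (P.lf 0 26441505 0) (P.cons (P.lf 0 420849 0) (P.lf 140283 0 0)))) (P.cons (P.cons (P.lf 0 127993347 0) (P.cons (P.lf 1642023 0 0) (P.cons (P.lf 26133 0 0) P.nil))) (P.cons (P.cons (P.lf 8383524 0 0) (P.cons (P.lf 6115878 0 0) P.nil)) (P.cons (P.cons (P.lf 20793024 0 0) P.nil) P.nil)))))) 12636984)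
 (EL.cons 8 (TM.mk (P.cons (P.cons (P.lf 12858027 0 0) (P.cons (P.lf 0 1992348 0) (P.cons (P.lf 0 31710 0) (P.lf 10569 0 0)))) (P.cons (P.cons (P.lf 25860525 0 0) (P.cons (P.lf 0 7462026 0) (P.cons (P.lf 0 118767 0) (P.lf 39588 0 0)))) (P.cons (P.cons (P.lf 0 4440792 0) (P.cons (P.lf 0 9739371 0) (P.cons (P.lf 0 155013 0) (P.lf 51669 0 0)))) (P.cons (P.cons (P.lf 0 37447539 0) (P.cons (P.lf 0 4246014 0) (P.cons (P.lf 0 67578 0) P.nil))) (P.cons (P.cons (P.lf 0 19653942 0) (P.cons (P.lf 893655 0 0) P.nil)) (P.cons (P.cons (P.lf 3227424 0 0) P.nil) P.nil)))))) 5814255)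
 (EL.cons 11 (TM.mk (P.cons (P.cons (P.lf 147473274 0 0) (P.cons (P.lf 5466633 0 0) (P.cons (P.lf 0 2708736 0) (P.cons (P.lf 0 24579 0) (P.lf 6144 0 0))))) (P.cons (P.cons (P.lf 266703993 0 0) (P.cons (P.lf 9886353 0 0) (P.cons (P.lf 0 4898721 0) (P.cons (P.lf 0 44451 0) (P.lf 11112 0 0))))) (P.cons (P.cons (P.lf 79708527 0 0) (P.cons (P.lf 2954685 0 0) (P.cons (P.lf 0 1464057 0) (P.cons (P.lf 0 13284 0) P.nil)))) (P.cons (P.cons (P.lf 0 48168699 0) (P.cons (P.lf 0 1785546 0) (P.cons (P.lf 884745 0 0) P.nil))) (P.cons (P.cons (P.lf 0 5603019 0) (P.cons (P.lf 0 207696 0) P.nil)) (P.cons (P.cons (P.lf 3322266 0 0) P.nil) P.nil)))))) 1499892)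
 EL.nil)))
noncomputable def S256_314_438_512_26 : EL := (EL.cons 4 (TM.mk (P.cons (P.cons (P.lf 0 4063641 0) (P.cons (P.lf 0 7487751 0) (P.cons (P.lf 1138614 0 0) (P.cons (P.lf 79764 0 0) (P.cons (P.lf 0 13026 0) (P.cons (P.lf 0 210 0) P.nil)))))) (P.cons (P.cons (P.lf 0 14063421 0) (P.cons (P.lf 0 3110007 0) (P.cons (P.lf 3120381 0 0) (P.cons (P.lf 117405 0 0) (P.cons (P.lf 0 32832 0) P.nil))))) (P.cons (P.cons (P.lf 510072 0 0) (P.cons (P.lf 18372654 0 0) (P.cons (P.lf 2099985 0 0) (P.cons (P.lf 0 39933 0) P.nil)))) (P.cons (P.cons (P.lf 26333313 0 0) (P.cons (P.lf 11614191 0 0) (P.cons (P.lf 0 711570 0) P.nil))) (P.cons (P.cons (P.lf 9445752 0 0) (P.cons (P.lf 0 6741243 0) P.nil)) (P.cons (P.cons (P.lf 0 11466444 0) P.nil) P.nil)))))) 17530620)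
 (EL.cons 8 (TM.mk (P.cons (P.cons (P.lf 0 623784 0) (P.cons (P.lf 0 1149399 0) (P.cons (P.lf 174780 0 0) (P.cons (P.lf 12243 0 0) (P.cons (P.lf 0 1998 0) (P.cons (P.lf 0 30 0) P.nil)))))) (P.cons (P.cons (P.lf 0 2802912 0) (P.cons (P.lf 0 1664274 0) (P.cons (P.lf 659469 0 0) (P.cons (P.lf 30663 0 0) (P.cons (P.lf 0 7104 0) P.nil))))) (P.cons (P.cons (P.lf 0 2182047 0) (P.cons (P.lf 2269875 0 0) (P.cons (P.lf 825696 0 0) (P.cons (P.lf 13089 0 0) P.nil)))) (P.cons (P.cons (P.lf 4003728 0 0) (P.cons (P.lf 4649976 0 0) (P.cons (P.lf 250797 0 0) P.nil))) (P.cons (P.cons (P.lf 5587197 0 0) (P.cons (P.lf 936630 0 0) P.nil)) (P.cons (P.cons (P.lf 0 62745 0) P.nil) P.nil)))))) 6688746)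
 (EL.cons 11 (TM.mk (P.cons (P.cons (P.lf 0 7154412 0) (P.cons (P.lf 0 14556651 0) (P.cons (P.lf 0 625821 0) (P.cons (P.lf 331080 0 0) (P.cons (P.lf 9072 0 0) (P.cons (P.lf 0 1950 0) P.nil)))))) (P.cons (P.cons (P.lf 0 30697095 0) (P.cons (P.lf 0 24232179 0) (P.cons (P.lf 0 659814 0) (P.cons (P.lf 538203 0 0) (P.cons (P.lf 13863 0 0) P.nil))))) (P.cons (P.cons (P.lf 0 27764118 0) (P.cons (P.lf 0 2664924 0) (P.cons (P.lf 423291 0 0) (P.cons (P.lf 42384 0 0) P.nil)))) (P.cons (P.cons (P.lf 10022712 0 0) (P.cons (P.lf 8292609 0 0) (P.cons (P.lf 235602 0 0) P.nil))) (P.cons (P.cons (P.lf 14288505 0 0) (P.cons (P.lf 290205 0 0) P.nil)) (P.cons (P.cons (P.lf 0 2036190 0) P.nil) P.nil)))))) 5513412)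
 EL.nil)))
noncomputable def S256_314_438_512_27 : EL := (EL.cons 13 (TM.mk (P.lf 0 4294967296 0) 0)
 EL.nil)
noncomputable def S256_314_438_512_28 : EL := (EL.cons 13 (TM.mk (P.cons (P.cons (P.lf 208362976 0 0) (P.cons (P.lf 416219828 0 0) (P.cons (P.lf 6624688 0 0) (P.lf 0 2208228 0)))) (P.cons (P.cons (P.lf 517190584 0 0) (P.cons (P.lf 0 80138616 0) (P.cons (P.lf 0 1275508 0) (P.lf 425168 0 0)))) (P.cons (P.cons (P.lf 0 239359427 0) (P.cons (P.lf 0 32395644 0) (P.cons (P.lf 0 515616 0) (P.lf 171872 0 0)))) (P.cons (P.cons (P.lf 0 70501174 0) (P.cons (P.lf 7158932 0 0) (P.cons (P.lf 113940 0 0) P.nil))) (P.cons (P.cons (P.lf 17583695 0 0) (P.cons (P.lf 1174648 0 0) P.nil)) (P.cons (P.cons (P.lf 2381711 0 0) P.nil) P.nil)))))) 1520200)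
 EL.nil)
noncomputable def S256_314_438_512_29 : EL := (EL.cons 13 (TM.mk (P.cons (P.cons (P.lf 0 10108372 0) (P.cons (P.lf 0 40384382 0) (P.cons (P.lf 0 40978105 0) (P.cons (P.lf 0 1069723 0) (P.cons (P.lf 417775 0 0) (P.cons (P.lf 6812 0 0) P.nil)))))) (P.cons (P.cons (P.lf 0 50181229 0) (P.cons (P.lf 0 92464990 0) (P.cons (P.lf 14060560 0 0) (P.cons (P.lf 984999 0 0) (P.cons (P.lf 0 160875 0) P.nil))))) (P.cons (P.cons (P.lf 0 39054736 0) (P.cons (P.lf 68835508 0 0) (P.cons (P.lf 5879163 0 0) (P.cons (P.lf 0 212929 0) P.nil)))) (P.cons (P.cons (P.lf 64486766 0 0) (P.cons (P.lf 11839493 0 0) (P.cons (P.lf 0 2408007 0) P.nil))) (P.cons (P.cons (P.lf 1933558 0 0) (P.cons (P.lf 0 11487881 0) P.nil)) (P.cons (P.cons (P.lf 0 12323959 0) P.nil) P.nil)))))) 11590229)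
 EL.nil)
noncomputable def S256_314_438_512_30 : EL := (EL.cons 13 (TM.mk (P.cons (P.lf 0 957715992 0) (P.cons (P.lf 0 927476000 0) (P.cons (P.lf 44405152 0 0) (P.cons (P.lf 13240480 0 0) (P.cons (P.lf 0 1119116 0) (P.cons (P.lf 0 173696 0) P.nil)))))) 29016)
 EL.nil)
noncomputable def S256_314_438_512_31 : EL := (EL.cons 13 (TM.mk (P.cons (P.cons (P.lf 46461949 0 0) (P.cons (P.lf 92811040 0 0) (P.cons (P.lf 1477210 0 0) (P.lf 0 492403 0)))) (P.cons (P.cons (P.lf 160320976 0 0) (P.cons (P.lf 72010761 0 0) (P.cons (P.lf 1146147 0 0) (P.lf 0 382049 0)))) (P.cons (P.cons (P.lf 56156682 0 0) (P.cons (P.lf 0 28832530 0) (P.cons (P.lf 0 458906 0) (P.lf 152968 0 0)))) (P.cons (P.cons (P.lf 0 73398691 0) (P.cons (P.lf 0 5853907 0) (P.cons (P.lf 0 93172 0) P.nil))) (P.cons (P.cons (P.lf 0 10368842 0) (P.cons (P.lf 2498301 0 0) P.nil)) (P.cons (P.cons (P.lf 5938181 0 0) P.nil) P.nil))))))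 2429738)
 EL.nil)
noncomputable def S256_314_438_512_32 : EL := (EL.cons 13 (TM.mk (P.cons (P.cons (P.lf 0 2254021 0) (P.cons (P.lf 0 9005136 0) (P.cons (P.lf 0 9137528 0) (P.cons (P.lf 0 238532 0) (P.cons (P.lf 93157 0 0) (P.cons (P.lf 1518 0 0) P.nil)))))) (P.cons (P.cons (P.lf 0 13372543 0) (P.cons (P.lf 0 29339162 0) (P.cons (P.lf 0 5713707 0) (P.cons (P.lf 0 11360 0) (P.cons (P.lf 54343 0 0) P.nil))))) (P.cons (P.cons (P.lf 0 19440512 0) (P.cons (P.lf 0 4200478 0) (P.cons (P.lf 4770941 0 0) (P.cons (P.lf 176285 0 0) P.nil)))) (P.cons (P.cons (P.lf 6495933 0 0) (P.cons (P.lf 18585190 0 0) (P.cons (P.lf 713580 0 0) P.nil))) (P.cons (P.cons (P.lf 14912586 0 0) (P.cons (P.lf 0 442109 0) P.nil)) (P.cons (P.cons (P.lf 0 2890331 0) P.nil) P.nil)))))) 12205735)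
 EL.nil)
noncomputable def S256_314_438_512_33 : EL := (EL.cons 14 (TM.mk (P.lf 8589934592 0 0) 0)
 EL.nil)
noncomputable def S256_314_438_512_34 : EL := (EL.cons 14 (TM.mk (P.cons (P.cons (P.lf 0 416725952 0) (P.cons (P.lf 0 832439656 0) (P.cons (P.lf 0 13249376 0) (P.lf 4416456 0 0)))) (P.cons (P.cons (P.lf 0 1034381168 0) (P.cons (P.lf 160277232 0 0) (P.cons (P.lf 2551016 0 0) (P.lf 0 850336 0)))) (P.cons (P.cons (P.lf 478718854 0 0) (P.cons (P.lf 64791288 0 0) (P.cons (P.lf 1031232 0 0) (P.lf 0 343744 0)))) (P.cons (P.cons (P.lf 141002348 0 0) (P.cons (P.lf 0 14317864 0) (P.cons (P.lf 0 227880 0) P.nil))) (P.cons (P.cons (P.lf 0 35167390 0) (P.cons (P.lf 0 2349296 0) P.nil)) (P.cons (P.cons (P.lf 0 4763422 0) P.nil) P.nil)))))) 3040400)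
 EL.nil)
noncomputable def S256_314_438_512_35 : EL := (EL.cons 14 (TM.mk (P.cons (P.cons (P.lf 20216744 0 0) (P.cons (P.lf 80768764 0 0) (P.cons (P.lf 81956210 0 0) (P.cons (P.lf 2139446 0 0) (P.cons (P.lf 0 835550 0) (P.cons (P.lf 0 13624 0) P.nil)))))) (P.cons (P.cons (P.lf 100362458 0 0) (P.cons (P.lf 184929980 0 0) (P.cons (P.lf 0 28121120 0) (P.cons (P.lf 0 1969998 0) (P.cons (P.lf 321750 0 0) P.nil))))) (P.cons (P.cons (P.lf 78109472 0 0) (P.cons (P.lf 0 137671016 0) (P.cons (P.lf 0 11758326 0) (P.cons (P.lf 425858 0 0) P.nil)))) (P.cons (P.cons (P.lf 0 128973532 0) (P.cons (P.lf 0 23678986 0) (P.cons (P.lf 4816014 0 0) P.nil))) (P.cons (P.cons (P.lf 0 3867116 0) (P.cons (P.lf 22975762 0 0) P.nil)) (P.cons (P.cons (P.lf 24647918 0 0) P.nil) P.nil)))))) 23180458)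
 EL.nil)
noncomputable def S256_314_438_512_36 : EL := (EL.cons 14 (TM.mk (P.cons (P.lf 1915431984 0 0) (P.cons (P.lf 1854952000 0 0) (P.cons (P.lf 0 88810304 0) (P.cons (P.lf 0 26480960 0) (P.cons (P.lf 2238232 0 0) (P.cons (P.lf 347392 0 0) P.nil)))))) 58032)
 EL.nil)
noncomputable def S256_314_438_512_37 : EL := (EL.cons 14 (TM.mk (P.cons (P.cons (P.lf 0 92923898 0) (P.cons (P.lf 0 185622080 0) (P.cons (P.lf 0 2954420 0) (P.lf 984806 0 0)))) (P.cons (P.cons (P.lf 0 320641952 0) (P.cons (P.lf 0 144021522 0) (P.cons (P.lf 0 2292294 0) (P.lf 764098 0 0)))) (P.cons (P.cons (P.lf 0 112313364 0) (P.cons (P.lf 57665060 0 0) (P.cons (P.lf 917812 0 0) (P.lf 0 305936 0)))) (P.cons (P.cons (P.lf 146797382 0 0) (P.cons (P.lf 11707814 0 0) (P.cons (P.lf 186344 0 0) P.nil))) (P.cons (P.cons (P.lf 20737684 0 0) (P.cons (P.lf 0 4996602 0) P.nil)) (P.cons (P.cons (P.lf 0 11876362 0) P.nil)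 P.nil)))))) 4859476)
 EL.nil)
noncomputable def S256_314_438_512_38 : EL := (EL.cons 14 (TM.mk (P.cons (P.cons (P.lf 4508042 0 0) (P.cons (P.lf 18010272 0 0) (P.cons (P.lf 18275056 0 0) (P.cons (P.lf 477064 0 0) (P.cons (P.lf 0 186314 0) (P.cons (P.lf 0 3036 0) P.nil)))))) (P.cons (P.cons (P.lf 26745086 0 0) (P.cons (P.lf 58678324 0 0) (P.cons (P.lf 11427414 0 0) (P.cons (P.lf 22720 0 0) (P.cons (P.lf 0 108686 0) P.nil))))) (P.cons (P.cons (P.lf 38881024 0 0) (P.cons (P.lf 8400956 0 0) (P.cons (P.lf 0 9541882 0) (P.cons (P.lf 0 352570 0) P.nil)))) (P.cons (P.cons (P.lf 0 12991866 0) (P.cons (P.lf 0 37170380 0) (P.cons (P.lf 0 1427160 0) P.nil))) (P.cons (P.cons (P.lf 0 29825172 0) (P.cons (P.lf 884218 0 0) P.nil)) (P.cons (P.cons (P.lf 5780662 0 0) P.nil) P.nil)))))) 24411470)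
 EL.nil)
noncomputable def S256_314_438_512_39 : EL := (EL.cons 14 (TM.mk (P.cons (P.lf 427113808 0 0) (P.cons (P.lf 827255282 0 0) (P.cons (P.lf 360960458 0 0) (P.cons (P.lf 0 50165998 0) (P.cons (P.lf 0 9520466 0) (P.cons (P.lf 1669162 0 0) P.nil)))))) 354406)
 EL.nil)
noncomputable def S256_314_438_512_40 : EL := (EL.cons 14 (TM.mk (P.cons (P.cons (P.lf 0 20720694 0) (P.cons (P.lf 0 41391056 0) (P.cons (P.lf 0 658792 0) (P.lf 219596 0 0)))) (P.cons (P.cons (P.lf 0 91564984 0) (P.cons (P.lf 0 72198858 0) (P.cons (P.lf 0 1149140 0) (P.lf 383046 0 0)))) (P.cons (P.cons (P.lf 0 93324510 0) (P.cons (P.lf 0 16323098 0) (P.cons (P.lf 0 259804 0) (P.lf 86600 0 0)))) (P.cons (P.cons (P.lf 12081758 0 0) (P.cons (P.lf 17124400 0 0) (P.cons (P.lf 272556 0 0) P.nil))) (P.cons (P.cons (P.lf 38449794 0 0) (P.cons (P.lf 1213500 0 0) P.nil)) (P.cons (P.cons (P.lf 571148 0 0) P.nil) P.nil))))))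 7101294)
 EL.nil)
noncomputable def S256_314_438_512_41 : EL := (EL.cons 14 (TM.mk (P.cons (P.cons (P.lf 1005228 0 0) (P.cons (P.lf 4016032 0 0) (P.cons (P.lf 4075074 0 0) (P.cons (P.lf 106378 0 0) (P.cons (P.lf 0 41544 0) (P.cons (P.lf 0 676 0) P.nil)))))) (P.cons (P.cons (P.lf 6937258 0 0) (P.cons (P.lf 16973648 0 0) (P.cons (P.lf 6494552 0 0) (P.cons (P.lf 108086 0 0) (P.cons (P.lf 0 64468 0) P.nil))))) (P.cons (P.cons (P.lf 14398764 0 0) (P.cons (P.lf 14358366 0 0) (P.cons (P.lf 151044 0 0) (P.cons (P.lf 0 78642 0) P.nil)))) (P.cons (P.cons (P.lf 5208744 0 0) (P.cons (P.lf 0 7136506 0) (P.cons (P.lf 0 2553240 0) P.nil))) (P.cons (P.cons (P.lf 0 9939372 0) (P.cons (P.lf 0 8092638 0) P.nil)) (P.cons (P.cons (P.lf 0 5129976 0) P.nil) P.nil)))))) 16979074)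
 EL.nil)
noncomputable def S256_314_438_512_42 : EL := (EL.cons 14 (TM.mk (P.cons (P.lf 95240240 0 0) (P.cons (P.lf 276699060 0 0) (P.cons (P.lf 254714620 0 0) (P.cons (P.lf 56891654 0 0) (P.cons (P.lf 0 19126904 0) (P.cons (P.lf 0 2044974 0) P.nil)))))) 997622)
 EL.nil)
noncomputable def S256_314_438_512_43 : EL := (EL.cons 14 (TM.mk (P.cons (P.cons (P.lf 0 4620416 0) (P.cons (P.lf 0 9229610 0) (P.cons (P.lf 0 146900 0) (P.lf 48966 0 0)))) (P.cons (P.cons (P.lf 0 24892202 0) (P.cons (P.lf 0 25037492 0) (P.cons (P.lf 0 398504 0) (P.lf 132834 0 0)))) (P.cons (P.cons (P.lf 0 40368780 0) (P.cons (P.lf 0 18802850 0) (P.cons (P.lf 0 299272 0) (P.lf 99756 0 0)))) (P.cons (P.cons (P.lf 0 16448330 0) (P.cons (P.lf 1167660 0 0) (P.cons (P.lf 18584 0 0) P.nil))) (P.cons (P.cons (P.lf 12424492 0 0) (P.cons (P.lf 4349070 0 0) P.nil)) (P.cons (P.cons (P.lf 8568482 0 0) P.nil) P.nil))))))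 7143114)
 EL.nil)
noncomputable def S256_314_438_512_44 : EL := (EL.cons 14 (TM.mk (P.cons (P.cons (P.lf 224150 0 0) (P.cons (P.lf 895516 0 0) (P.cons (P.lf 908682 0 0) (P.cons (P.lf 23720 0 0) (P.cons (P.lf 0 9264 0) (P.cons (P.lf 0 150 0) P.nil)))))) (P.cons (P.cons (P.lf 1763982 0 0) (P.cons (P.lf 4652120 0 0) (P.cons (P.lf 2328182 0 0) (P.cons (P.lf 47072 0 0) (P.cons (P.lf 0 23346 0) P.nil))))) (P.cons (P.cons (P.lf 4698390 0 0) (P.cons (P.lf 6825560 0 0) (P.cons (P.lf 1394014 0 0) (P.cons (P.lf 4704 0 0) P.nil)))) (P.cons (P.cons (P.lf 4195990 0 0) (P.cons (P.lf 1321406 0 0) (P.cons (P.lf 0 616426 0) P.nil))) (P.cons (P.cons (P.lf 0 1261526 0) (P.cons (P.lf 0 3545362 0) P.nil)) (P.cons (P.cons (P.lf 0 3386658 0) P.nil) P.nil)))))) 11011214)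
 EL.nil)
noncomputable def S256_314_438_512_45 : EL := (EL.cons 14 (TM.mk (P.cons (P.cons (P.lf 0 980780 0) (P.cons (P.lf 0 5877536 0) (P.cons (P.lf 0 11834346 0) (P.cons (P.lf 0 8160248 0) (P.cons (P.lf 0 251680 0) (P.cons (P.lf 120470 0 0) P.nil)))))) (P.cons (P.cons (P.lf 0 7303368 0) (P.cons (P.lf 0 28046338 0) (P.cons (P.lf 0 25067824 0) (P.cons (P.lf 3880668 0 0) (P.cons (P.lf 470634 0 0) P.nil))))) (P.cons (P.cons (P.lf 0 14748090 0) (P.cons (P.lf 0 16633096 0) (P.cons (P.lf 25837204 0 0) (P.cons (P.lf 1875124 0 0) P.nil)))) (P.cons (P.cons (P.lf 2776232 0 0) (P.cons (P.lf 44038170 0 0) (P.cons (P.lf 2180192 0 0) P.nil))) (P.cons (P.cons (P.lf 21636040 0 0) (P.cons (P.lf 0 4846150 0) P.nil)) (P.cons (P.cons (P.lf 0 7057746 0) P.nil) P.nil)))))) 42740056)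
 EL.nil)
noncomputable def S256_314_438_512_46 : EL := (EL.cons 15 (TM.mk (P.lf 4294967296 0 0) 0)
 EL.nil)
noncomputable def S256_314_438_512_47 : EL := (EL.cons 15 (TM.mk (P.cons (P.cons (P.lf 0 208362976 0) (P.cons (P.lf 0 416219828 0) (P.cons (P.lf 0 6624688 0) (P.lf 2208228 0 0)))) (P.cons (P.cons (P.lf 0 517190584 0) (P.cons (P.lf 80138616 0 0) (P.cons (P.lf 1275508 0 0) (P.lf 0 425168 0)))) (P.cons (P.cons (P.lf 239359427 0 0) (P.cons (P.lf 32395644 0 0) (P.cons (P.lf 515616 0 0) (P.lf 0 171872 0)))) (P.cons (P.cons (P.lf 70501174 0 0) (P.cons (P.lf 0 7158932 0) (P.cons (P.lf 0 113940 0) P.nil))) (P.cons (P.cons (P.lf 0 17583695 0) (P.cons (P.lf 0 1174648 0) P.nil)) (P.cons (P.cons (P.lf 0 2381711 0) P.nil) P.nil)))))) 1520200)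
 EL.nil)
noncomputable def S256_314_438_512_48 : EL := (EL.cons 15 (TM.mk (P.cons (P.cons (P.lf 10108372 0 0) (P.cons (P.lf 40384382 0 0) (P.cons (P.lf 40978105 0 0) (P.cons (P.lf 1069723 0 0) (P.cons (P.lf 0 417775 0) (P.cons (P.lf 0 6812 0) P.nil)))))) (P.cons (P.cons (P.lf 50181229 0 0) (P.cons (P.lf 92464990 0 0) (P.cons (P.lf 0 14060560 0) (P.cons (P.lf 0 984999 0) (P.cons (P.lf 160875 0 0) P.nil))))) (P.cons (P.cons (P.lf 39054736 0 0) (P.cons (P.lf 0 68835508 0) (P.cons (P.lf 0 5879163 0) (P.cons (P.lf 212929 0 0) P.nil)))) (P.cons (P.cons (P.lf 0 64486766 0) (P.cons (P.lf 0 11839493 0) (P.cons (P.lf 2408007 0 0) P.nil))) (P.cons (P.cons (P.lf 0 1933558 0) (P.cons (P.lf 11487881 0 0) P.nil)) (P.cons (P.cons (P.lf 12323959 0 0) P.nil) P.nil)))))) 11590229)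
 EL.nil)
noncomputable def S256_314_438_512 : SL := (SL.cons S256_314_438_512_0 (SL.cons S256_314_438_512_1 (SL.cons S256_314_438_512_2 (SL.cons S256_314_438_512_3 (SL.cons S256_314_438_512_4 (SL.cons S256_314_438_512_5 (SL.cons S256_314_438_512_6 (SL.cons S256_314_438_512_7 (SL.cons S256_314_438_512_8 (SL.cons S256_314_438_512_9 (SL.cons S256_314_438_512_10 (SL.cons S256_314_438_512_11 (SL.cons S256_314_438_512_12 (SL.cons S256_314_438_512_13 (SL.cons S256_314_438_512_14 (SL.cons S256_314_438_512_15 (SL.cons S256_314_438_512_16 (SL.cons S256_314_438_512_17 (SL.cons S256_314_438_512_18 (SL.cons S256_314_438_512_19 (SL.cons S256_314_438_512_20 (SL.cons S256_314_438_512_21 (SL.cons S256_314_438_512_22 (SL.cons S256_314_438_512_23 (SL.cons S256_314_438_512_24 (SL.cons S256_314_438_512_25 (SL.cons S256_314_438_512_26 (SL.cons S256_314_438_512_27 (SL.cons S256_314_438_512_28 (SL.cons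 S256_314_438_512_29 (SL.cons S256_314_438_512_30 (SL.cons S256_314_438_512_31 (SL.cons S256_314_438_512_32 (SL.cons S256_314_438_512_33 (SL.cons S256_314_438_512_34 (SL.cons S256_314_438_512_35 (SL.cons S256_314_438_512_36 (SL.cons S256_314_438_512_37 (SL.cons S256_314_438_512_38 (SL.cons S256_314_438_512_39 (SL.cons S256_314_438_512_40 (SL.cons S256_314_438_512_41 (SL.cons S256_314_438_512_42 (SL.cons S256_314_438_512_43 (SL.cons S256_314_438_512_44 (SL.cons S256_314_438_512_45 (SL.cons S256_314_438_512_46 (SL.cons S256_314_438_512_47 (SL.cons S256_314_438_512_48 SL.nil)))))))))))))))))))))))))))))))))))))))))))))))))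
noncomputable def S256_314_512_586_0 : EL := (EL.cons 0 (TM.mk (P.cons (P.lf 8080323868 0 0) (P.cons (P.lf 0 727079837 0) (P.cons (P.lf 0 317250402 0) (P.cons (P.lf 44091209 0 0) (P.cons (P.lf 8367597 0 0) (P.cons (P.lf 0 1467036 0) P.nil)))))) 311496)
 (EL.cons 1 (TM.mk (P.cons (P.lf 869508750 0 0) (P.cons (P.lf 786249082 0 0) (P.cons (P.lf 0 120498519 0) (P.cons (P.lf 0 33042157 0) (P.cons (P.lf 5010903 0 0) (P.cons (P.lf 683975 0 0) P.nil)))))) 177172)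
 (EL.cons 5 (TM.mk (P.cons (P.lf 4428440364 0 0) (P.cons (P.lf 258517274 0 0) (P.cons (P.lf 112800140 0 0) (P.cons (P.lf 0 15676876 0) (P.cons (P.lf 0 2975142 0) (P.cons (P.lf 521612 0 0) P.nil)))))) 117185)
 (EL.cons 9 (TM.mk (P.lf 6442450944 0 0) 2)
 EL.nil))))
noncomputable def S256_314_512_586_1 : EL := (EL.cons 0 (TM.mk (P.cons (P.cons (P.lf 0 2458474188 0) (P.cons (P.lf 0 673917357 0) (P.cons (P.lf 10726287 0 0) (P.lf 3575429 0 0)))) (P.cons (P.cons (P.lf 0 113001714 0) (P.cons (P.lf 411597012 0 0) (P.cons (P.lf 0 6551099 0) (P.lf 0 2183691 0)))) (P.cons (P.cons (P.lf 1762678208 0 0) (P.cons (P.lf 121164814 0 0) (P.cons (P.lf 0 1928491 0) (P.lf 0 642827 0)))) (P.cons (P.cons (P.lf 110125155 0 0) (P.cons (P.lf 0 74297113 0) (P.cons (P.lf 1182520 0 0) P.nil))) (P.cons (P.cons (P.lf 0 234702765 0) (P.cons (P.lf 0 6578798 0) P.nil)) (P.cons (P.cons (P.lf 0 206233 0) P.nil)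 P.nil)))))) 31479397)
 (EL.cons 1 (TM.mk (P.cons (P.cons (P.lf 310615442 0 0) (P.cons (P.lf 0 202281020 0) (P.cons (P.lf 3219568 0 0) (P.lf 1073185 0 0)))) (P.cons (P.cons (P.lf 0 1289222993 0) (P.cons (P.lf 0 126665494 0) (P.cons (P.lf 2016046 0 0) (P.lf 672013 0 0)))) (P.cons (P.cons (P.lf 0 61944025 0) (P.cons (P.lf 101074959 0 0) (P.cons (P.lf 0 1608730 0) (P.lf 0 536239 0)))) (P.cons (P.cons (P.lf 368800353 0 0) (P.cons (P.lf 14417437 0 0) (P.cons (P.lf 0 229467 0) P.nil))) (P.cons (P.cons (P.lf 4382163 0 0) (P.cons (P.lf 0 12275760 0) P.nil)) (P.cons (P.cons (P.lf 0 35468714 0) P.nil) P.nil)))))) 14304850)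
 (EL.cons 5 (TM.mk (P.cons (P.cons (P.lf 0 910256298 0) (P.cons (P.lf 0 467958654 0) (P.cons (P.lf 7448178 0 0) (P.lf 2482726 0 0)))) (P.cons (P.cons (P.lf 0 563683158 0) (P.cons (P.lf 0 10109952 0) (P.cons (P.lf 160902 0 0) (P.lf 53632 0 0)))) (P.cons (P.cons (P.lf 0 108505059 0) (P.cons (P.lf 11991778 0 0) (P.cons (P.lf 0 190870 0) (P.lf 0 63624 0)))) (P.cons (P.cons (P.lf 56097757 0 0) (P.cons (P.lf 14246564 0 0) (P.cons (P.lf 0 226748 0) P.nil))) (P.cons (P.cons (P.lf 49521397 0 0) (P.cons (P.lf 342218 0 0) P.nil)) (P.cons (P.cons (P.lf 0 2839038 0) P.nil) P.nil)))))) 13293493)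
 (EL.cons 9 (TM.mk (P.cons (P.cons (P.lf 0 1574453328 0) (P.cons (P.lf 0 624329742 0) (P.cons (P.lf 9937032 0 0) (P.lf 3312342 0 0)))) (P.cons (P.cons (P.lf 0 532819008 0) (P.cons (P.lf 120207924 0 0) (P.cons (P.lf 0 1913262 0) (P.lf 0 637752 0)))) (P.cons (P.cons (P.lf 457257316 0 0) (P.cons (P.lf 48593466 0 0) (P.cons (P.lf 0 773424 0) (P.lf 0 257808 0)))) (P.cons (P.cons (P.lf 84047085 0 0) (P.cons (P.lf 0 10738398 0) (P.cons (P.lf 170910 0 0) P.nil))) (P.cons (P.cons (P.lf 0 29936878 0) (P.cons (P.lf 0 1761972 0) P.nil)) (P.cons (P.cons (P.lf 0 2569726 0) P.nil) P.nil)))))) 2280319)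
 (EL.cons 2 (TM.mk (P.cons (P.cons (P.lf 0 620022895 0) (P.cons (P.lf 22983401 0 0) (P.cons (P.lf 11388358 0 0) (P.cons (P.lf 0 103342 0) (P.lf 0 25832 0))))) (P.cons (P.cons (P.lf 0 520859809 0) (P.cons (P.lf 19307562 0 0) (P.cons (P.lf 9566966 0 0) (P.cons (P.lf 0 86813 0) (P.lf 0 21701 0))))) (P.cons (P.cons (P.lf 140546711 0 0) (P.cons (P.lf 0 5209872 0) (P.cons (P.lf 0 2581509 0) (P.cons (P.lf 23425 0 0) P.nil)))) (P.cons (P.cons (P.lf 33685188 0 0) (P.cons (P.lf 0 1248662 0) (P.cons (P.lf 0 618716 0) P.nil))) (P.cons (P.cons (P.lf 0 9024612 0) (P.cons (P.lf 334527 0 0) P.nil)) (P.cons (P.cons (P.lf 0 1002180 0) P.nil) P.nil)))))) 770190)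
 (EL.cons 6 (TM.mk (P.cons (P.cons (P.lf 1436135832 0 0) (P.cons (P.lf 0 53235594 0) (P.cons (P.lf 0 26378427 0) (P.cons (P.lf 239367 0 0) (P.lf 59841 0 0))))) (P.cons (P.cons (P.lf 0 276512388 0) (P.cons (P.lf 10249935 0 0) (P.cons (P.lf 5078880 0 0) (P.cons (P.lf 0 46086 0) (P.lf 0 11520 0))))) (P.cons (P.cons (P.lf 0 111778794 0) (P.cons (P.lf 4143486 0 0) (P.cons (P.lf 2053110 0 0) (P.cons (P.lf 0 18630 0) P.nil)))) (P.cons (P.cons (P.lf 24701367 0 0) (P.cons (P.lf 0 915645 0) (P.cons (P.lf 0 453702 0) P.nil))) (P.cons (P.cons (P.lf 4053048 0 0) (P.cons (P.lf 0 150240 0) P.nil)) (P.cons (P.cons (P.lf 0 1141305 0) P.nil) P.nil)))))) 488982)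
 EL.nil))))))
noncomputable def S256_314_512_586_2 : EL := (EL.cons 0 (TM.mk (P.cons (P.cons (P.lf 719041179 0 0) (P.cons (P.lf 423152033 0 0) (P.cons (P.lf 47997170 0 0) (P.cons (P.lf 0 3987278 0) (P.cons (P.lf 0 566898 0) (P.cons (P.lf 9250 0 0) P.nil)))))) (P.cons (P.cons (P.lf 178673090 0 0) (P.cons (P.lf 0 180941522 0) (P.cons (P.lf 0 65993832 0) (P.cons (P.lf 3152397 0 0) (P.cons (P.lf 713358 0 0) P.nil))))) (P.cons (P.cons (P.lf 0 918459635 0) (P.cons (P.lf 0 419974851 0) (P.cons (P.lf 0 2256446 0) (P.cons (P.lf 2512747 0 0) P.nil)))) (P.cons (P.cons (P.lf 0 289247152 0) (P.cons (P.lf 95746180 0 0) (P.cons (P.lf 18597428 0 0) P.nil))) (P.cons (P.cons (P.lf 300704489 0 0) (P.cons (P.lf 97005970 0 0) P.nil)) (P.cons (P.cons (P.lf 79782940 0 0) P.nil) P.nil)))))) 156663323)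
 (EL.cons 1 (TM.mk (P.cons (P.cons (P.lf 0 203752504 0) (P.cons (P.lf 0 2518473 0) (P.cons (P.lf 31079858 0 0) (P.cons (P.lf 0 974713 0) (P.cons (P.lf 0 321490 0) (P.cons (P.lf 5242 0 0) P.nil)))))) (P.cons (P.cons (P.lf 496653265 0 0) (P.cons (P.lf 313585358 0 0) (P.cons (P.lf 7770826 0 0) (P.cons (P.lf 0 2069949 0) (P.cons (P.lf 0 132179 0) P.nil))))) (P.cons (P.cons (P.lf 287248138 0 0) (P.cons (P.lf 0 70458957 0) (P.cons (P.lf 0 21303520 0) (P.cons (P.lf 1087650 0 0) P.nil)))) (P.cons (P.cons (P.lf 0 300421863 0) (P.cons (P.lf 0 122488357 0) (P.cons (P.lf 1915174 0 0) P.nil))) (P.cons (P.cons (P.lf 0 101016744 0) (P.cons (P.lf 27914629 0 0) P.nil)) (P.cons (P.cons (P.lf 69235981 0 0) P.nil) P.nil)))))) 83680671)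
 (EL.cons 5 (TM.mk (P.cons (P.cons (P.lf 180420886 0 0) (P.cons (P.lf 195390045 0 0) (P.cons (P.lf 45999840 0 0) (P.cons (P.lf 0 2599915 0) (P.cons (P.lf 0 508652 0) (P.cons (P.lf 8286 0 0) P.nil)))))) (P.cons (P.cons (P.lf 231623991 0 0) (P.cons (P.lf 114785141 0 0) (P.cons (P.lf 0 3743370 0) (P.cons (P.lf 0 547971 0) (P.cons (P.lf 19866 0 0) P.nil))))) (P.cons (P.cons (P.lf 123210201 0 0) (P.cons (P.lf 0 569332 0) (P.cons (P.lf 0 4943995 0) (P.cons (P.lf 160703 0 0) P.nil)))) (P.cons (P.cons (P.lf 0 29432965 0) (P.cons (P.lf 0 36327020 0) (P.cons (P.lf 0 2162099 0) P.nil))) (P.cons (P.cons (P.lf 0 69308143 0) (P.cons (P.lf 0 13553731 0) P.nil)) (P.cons (P.cons (P.lf 0 7810359 0) P.nil) P.nil)))))) 73250764)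
 (EL.cons 9 (TM.mk (P.cons (P.cons (P.lf 384776430 0 0) (P.cons (P.lf 305156545 0 0) (P.cons (P.lf 55646032 0 0) (P.cons (P.lf 0 3544959 0) (P.cons (P.lf 0 626662 0) (P.cons (P.lf 10218 0 0) P.nil)))))) (P.cons (P.cons (P.lf 260428419 0 0) (P.cons (P.lf 44515041 0 0) (P.cons (P.lf 0 24006912 0) (P.cons (P.lf 505474 0 0) (P.cons (P.lf 241312 0 0) P.nil))))) (P.cons (P.cons (P.lf 0 179429307 0) (P.cons (P.lf 0 132259152 0) (P.cons (P.lf 0 5070259 0) (P.cons (P.lf 930099 0 0) P.nil)))) (P.cons (P.cons (P.lf 0 116714463 0) (P.cons (P.lf 0 2015244 0) (P.cons (P.lf 3926751 0 0) P.nil))) (P.cons (P.cons (P.lf 33184407 0 0) (P.cons (P.lf 18474052 0 0) P.nil)) (P.cons (P.cons (P.lf 18138436 0 0) P.nil) P.nil)))))) 18029852)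
 (EL.cons 2 (TM.mk (P.cons (P.cons (P.lf 303051465 0 0) (P.cons (P.lf 108937552 0 0) (P.cons (P.lf 0 11933606 0) (P.cons (P.lf 0 2723411 0) (P.cons (P.lf 91417 0 0) (P.cons (P.lf 16396 0 0) P.nil)))))) (P.cons (P.cons (P.lf 357140300 0 0) (P.cons (P.lf 64575343 0 0) (P.cons (P.lf 0 10682797 0) (P.cons (P.lf 0 1736656 0) (P.cons (P.lf 65902 0 0) P.nil))))) (P.cons (P.cons (P.lf 0 70553964 0) (P.cons (P.lf 0 53415517 0) (P.cons (P.lf 4264695 0 0) (P.cons (P.lf 1281600 0 0) P.nil)))) (P.cons (P.cons (P.lf 0 129826299 0) (P.cons (P.lf 0 2261891 0) (P.cons (P.lf 2759433 0 0) P.nil))) (P.cons (P.cons (P.lf 10962140 0 0) (P.cons (P.lf 6795523 0 0) P.nil)) (P.cons (P.cons (P.lf 15766644 0 0) P.nil) P.nil)))))) 11297063)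
 (EL.cons 6 (TM.mk (P.cons (P.cons (P.lf 0 701946774 0) (P.cons (P.lf 0 252327990 0) (P.cons (P.lf 27641370 0 0) (P.cons (P.lf 6308130 0 0) (P.cons (P.lf 0 211752 0) (P.cons (P.lf 0 37980 0) P.nil)))))) (P.cons (P.cons (P.lf 0 102397242 0) (P.cons (P.lf 110981580 0 0) (P.cons (P.lf 0 3798432 0) (P.cons (P.lf 0 2491242 0) (P.cons (P.lf 66006 0 0) P.nil))))) (P.cons (P.cons (P.lf 304233642 0 0) (P.cons (P.lf 21733098 0 0) (P.cons (P.lf 0 7337112 0) (P.cons (P.lf 0 711276 0) P.nil)))) (P.cons (P.cons (P.lf 4635636 0 0) (P.cons (P.lf 0 18089544 0) (P.cons (P.lf 864216 0 0) P.nil))) (P.cons (P.cons (P.lf 0 42495576 0) (P.cons (P.lf 161508 0 0) P.nil)) (P.cons (P.cons (P.lf 1901460 0 0) P.nil) P.nil)))))) 8669214)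
 EL.nil))))))
noncomputable def S256_314_512_586_3 : EL := (EL.cons 0 (TM.mk (P.cons (P.lf 375392995 0 0) (P.cons (P.lf 727079837 0 0) (P.cons (P.lf 317250402 0 0) (P.cons (P.lf 0 44091209 0) (P.cons (P.lf 0 8367597 0) (P.cons (P.lf 1467036 0 0) P.nil)))))) 311496)
 (EL.cons 1 (TM.mk (P.cons (P.lf 0 869508750 0) (P.cons (P.lf 0 786249082 0) (P.cons (P.lf 120498519 0 0) (P.cons (P.lf 33042157 0 0) (P.cons (P.lf 0 5010903 0) (P.cons (P.lf 0 683975 0) P.nil)))))) 177172)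
 (EL.cons 5 (TM.mk (P.cons (P.lf 2014010580 0 0) (P.cons (P.lf 0 258517274 0) (P.cons (P.lf 0 112800140 0) (P.cons (P.lf 15676876 0 0) (P.cons (P.lf 2975142 0 0) (P.cons (P.lf 0 521612 0) P.nil)))))) 117178)
 EL.nil)))
noncomputable def S256_314_512_586_4 : EL := (EL.cons 0 (TM.mk (P.cons (P.cons (P.lf 0 91741287 0) (P.cons (P.lf 0 36378857 0) (P.cons (P.lf 579016 0 0) (P.lf 193004 0 0)))) (P.cons (P.cons (P.lf 0 208735743 0) (P.cons (P.lf 0 63456027 0) (P.cons (P.lf 1009986 0 0) (P.lf 336661 0 0)))) (P.cons (P.cons (P.lf 0 111020900 0) (P.cons (P.lf 0 14346472 0) (P.cons (P.lf 228343 0 0) (P.lf 76113 0 0)))) (P.cons (P.cons (P.lf 41039623 0 0) (P.cons (P.lf 15050742 0 0) (P.cons (P.lf 0 239551 0) P.nil))) (P.cons (P.cons (P.lf 35949506 0 0) (P.cons (P.lf 1066552 0 0) P.nil)) (P.cons (P.cons (P.lf 0 2185437 0) P.nil) P.nil)))))) 6241636)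
 (EL.cons 1 (TM.mk (P.cons (P.cons (P.lf 212496913 0 0) (P.cons (P.lf 84262987 0 0) (P.cons (P.lf 0 1341155 0) (P.lf 0 447050 0)))) (P.cons (P.cons (P.lf 264061500 0 0) (P.cons (P.lf 59970474 0 0) (P.cons (P.lf 0 954508 0) (P.lf 0 318168 0)))) (P.cons (P.cons (P.lf 0 26136026 0) (P.cons (P.lf 0 32906205 0) (P.cons (P.lf 523743 0 0) (P.lf 174579 0 0)))) (P.cons (P.cons (P.lf 0 85188860 0) (P.cons (P.lf 0 5434850 0) (P.cons (P.lf 86501 0 0) P.nil))) (P.cons (P.cons (P.lf 827512 0 0) (P.cons (P.lf 3559348 0 0) P.nil)) (P.cons (P.cons (P.lf 8499148 0 0) P.nil) P.nil)))))) 3728285)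
 (EL.cons 5 (TM.mk (P.cons (P.cons (P.lf 0 492198648 0) (P.cons (P.lf 0 195175206 0) (P.cons (P.lf 3106470 0 0) (P.lf 1035488 0 0)))) (P.cons (P.cons (P.lf 0 103389180 0) (P.cons (P.lf 62631450 0 0) (P.cons (P.lf 0 996858 0) (P.lf 0 332284 0)))) (P.cons (P.cons (P.lf 191893202 0 0) (P.cons (P.lf 21298790 0 0) (P.cons (P.lf 0 338996 0) (P.lf 0 112998 0)))) (P.cons (P.cons (P.lf 13423826 0 0) (P.cons (P.lf 0 8930840 0) (P.cons (P.lf 142142 0 0) P.nil))) (P.cons (P.cons (P.lf 0 22761006 0) (P.cons (P.lf 0 966542 0) P.nil)) (P.cons (P.cons (P.lf 0 79528 0) P.nil) P.nil)))))) 2837154)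
 EL.nil)))
noncomputable def S256_314_512_586_5 : EL := (EL.cons 0 (TM.mk (P.cons (P.cons (P.lf 22420406 0 0) (P.cons (P.lf 17781062 0 0) (P.cons (P.lf 3242418 0 0) (P.cons (P.lf 0 206558 0) (P.cons (P.lf 0 36513 0) (P.cons (P.lf 594 0 0) P.nil)))))) (P.cons (P.cons (P.lf 58599776 0 0) (P.cons (P.lf 37033080 0 0) (P.cons (P.lf 4881229 0 0) (P.cons (P.lf 0 370620 0) (P.cons (P.lf 0 56661 0) P.nil))))) (P.cons (P.cons (P.lf 37884063 0 0) (P.cons (P.lf 12344349 0 0) (P.cons (P.lf 0 264580 0) (P.cons (P.lf 0 63323 0) P.nil)))) (P.cons (P.cons (P.lf 0 16859647 0) (P.cons (P.lf 0 14940240 0) (P.cons (P.lf 0 1906433 0) P.nil))) (P.cons (P.cons (P.lf 0 22356369 0) (P.cons (P.lf 0 6364910 0) P.nil)) (P.cons (P.cons (P.lf 31916 0 0) P.nil) P.nil)))))) 16569737)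
 (EL.cons 1 (TM.mk (P.cons (P.cons (P.lf 0 51931550 0) (P.cons (P.lf 0 41185610 0) (P.cons (P.lf 0 7510295 0) (P.cons (P.lf 478445 0 0) (P.cons (P.lf 84575 0 0) (P.cons (P.lf 0 1378 0) P.nil)))))) (P.cons (P.cons (P.lf 0 82107710 0) (P.cons (P.lf 0 43249886 0) (P.cons (P.lf 0 3551041 0) (P.cons (P.lf 364410 0 0) (P.cons (P.lf 43908 0 0) P.nil))))) (P.cons (P.cons (P.lf 0 369618 0) (P.cons (P.lf 18125319 0 0) (P.cons (P.lf 4654951 0 0) (P.cons (P.lf 0 253522 0) P.nil)))) (P.cons (P.cons (P.lf 44494781 0 0) (P.cons (P.lf 18810841 0 0) (P.cons (P.lf 0 74814 0) P.nil))) (P.cons (P.cons (P.lf 7445701 0 0) (P.cons (P.lf 0 4730206 0) P.nil)) (P.cons (P.cons (P.lf 0 9844629 0) P.nil) P.nil)))))) 15201755)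
 (EL.cons 5 (TM.mk (P.cons (P.cons (P.lf 120287108 0 0) (P.cons (P.lf 95396692 0 0) (P.cons (P.lf 17395816 0 0) (P.cons (P.lf 0 1108208 0) (P.cons (P.lf 0 195902 0) (P.cons (P.lf 3192 0 0) P.nil)))))) (P.cons (P.cons (P.lf 65973996 0 0) (P.cons (P.lf 1671028 0 0) (P.cons (P.lf 0 9737850 0) (P.cons (P.lf 300266 0 0) (P.cons (P.lf 100582 0 0) P.nil))))) (P.cons (P.cons (P.lf 0 73279656 0) (P.cons (P.lf 0 48475484 0) (P.cons (P.lf 0 1596012 0) (P.cons (P.lf 332548 0 0) P.nil)))) (P.cons (P.cons (P.lf 0 32910278 0) (P.cons (P.lf 4640336 0 0) (P.cons (P.lf 1986758 0 0) P.nil))) (P.cons (P.cons (P.lf 19010398 0 0) (P.cons (P.lf 8421096 0 0) P.nil)) (P.cons (P.cons (P.lf 6034796 0 0) P.nil) P.nil)))))) 11242436)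
 EL.nil)))
noncomputable def S256_314_512_586_6 : EL := (EL.cons 12 (TM.mk (P.lf 8589934592 0 0) 0)
 (EL.cons 3 (TM.mk (P.cons (P.lf 897858742 0 0) (P.cons (P.lf 869508750 0 0) (P.cons (P.lf 0 41629830 0) (P.cons (P.lf 0 12412950 0) (P.cons (P.lf 1049171 0 0) (P.cons (P.lf 162840 0 0) P.nil)))))) 27209)
 (EL.cons 7 (TM.mk (P.cons (P.lf 0 2079676607 0) (P.cons (P.lf 133473065 0 0) (P.cons (P.lf 62522105 0 0) (P.cons (P.lf 0 4081356 0) (P.cons (P.lf 0 858201 0) (P.cons (P.lf 91532 0 0) P.nil)))))) 18219)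
 EL.nil)))
noncomputable def S256_314_512_586_7 : EL := (EL.cons 12 (TM.mk (P.cons (P.cons (P.lf 0 2099271104 0) (P.cons (P.lf 0 832439656 0) (P.cons (P.lf 13249376 0 0) (P.lf 4416456 0 0)))) (P.cons (P.cons (P.lf 0 710425344 0) (P.cons (P.lf 160277232 0 0) (P.cons (P.lf 0 2551016 0) (P.lf 0 850336 0)))) (P.cons (P.cons (P.lf 609676422 0 0) (P.cons (P.lf 64791288 0 0) (P.cons (P.lf 0 1031232 0) (P.lf 0 343744 0)))) (P.cons (P.cons (P.lf 112062780 0 0) (P.cons (P.lf 0 14317864 0) (P.cons (P.lf 227880 0 0) P.nil))) (P.cons (P.cons (P.lf 0 39915838 0) (P.cons (P.lf 0 2349296 0) P.nil)) (P.cons (P.cons (P.lf 0 3426302 0) P.nil) P.nil)))))) 3040400)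
 (EL.cons 3 (TM.mk (P.cons (P.cons (P.lf 0 1376439723 0) (P.cons (P.lf 174020700 0 0) (P.cons (P.lf 0 2769768 0) (P.lf 0 923254 0)))) (P.cons (P.cons (P.lf 1736835293 0 0) (P.cons (P.lf 135020176 0 0) (P.cons (P.lf 0 2149024 0) (P.lf 0 716340 0)))) (P.cons (P.cons (P.lf 503625161 0 0) (P.cons (P.lf 0 54060992 0) (P.cons (P.lf 860448 0 0) (P.lf 286814 0 0)))) (P.cons (P.cons (P.lf 0 230353571 0) (P.cons (P.lf 0 10976074 0) (P.cons (P.lf 174696 0 0) P.nil))) (P.cons (P.cons (P.lf 0 23361691 0) (P.cons (P.lf 4684314 0 0) P.nil)) (P.cons (P.cons (P.lf 14245776 0 0) P.nil) P.nil)))))) 9047881)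
 (EL.cons 7 (TM.mk (P.cons (P.cons (P.lf 330640267 0 0) (P.cons (P.lf 241608133 0 0) (P.cons (P.lf 0 3845514 0) (P.lf 0 1281840 0)))) (P.cons (P.cons (P.lf 266611154 0 0) (P.cons (P.lf 20726135 0 0) (P.cons (P.lf 0 329879 0) (P.lf 0 109958 0)))) (P.cons (P.cons (P.lf 214960420 0 0) (P.cons (P.lf 2402369 0 0) (P.cons (P.lf 0 38235 0) (P.lf 0 12745 0)))) (P.cons (P.cons (P.lf 22300048 0 0) (P.cons (P.lf 0 7052409 0) (P.cons (P.lf 112245 0 0) P.nil))) (P.cons (P.cons (P.lf 0 27808763 0) (P.cons (P.lf 0 697462 0) P.nil)) (P.cons (P.cons (P.lf 0 1189330 0) P.nil) P.nil)))))) 6906348)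
 (EL.cons 10 (TM.mk (P.cons (P.cons (P.lf 0 2965920960 0) (P.cons (P.lf 109942644 0 0) (P.cons (P.lf 54476976 0 0) (P.cons (P.lf 0 494346 0) (P.lf 0 123585 0))))) (P.cons (P.cons (P.lf 380703957 0 0) (P.cons (P.lf 0 14112174 0) (P.cons (P.lf 0 6992634 0) (P.cons (P.lf 63453 0 0) (P.lf 15861 0 0))))) (P.cons (P.cons (P.lf 166114467 0 0) (P.cons (P.lf 0 6157635 0) (P.cons (P.lf 0 3051129 0) (P.cons (P.lf 27687 0 0) P.nil)))) (P.cons (P.cons (P.lf 0 23086458 0) (P.cons (P.lf 855783 0 0) (P.cons (P.lf 424041 0 0) P.nil))) (P.cons (P.cons (P.lf 0 4381323 0) (P.cons (P.lf 162408 0 0) P.nil)) (P.cons (P.cons (P.lf 768147 0 0) P.nil) P.nil)))))) 318138)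
 EL.nil))))
noncomputable def S256_314_512_586_8 : EL := (EL.cons 12 (TM.mk (P.cons (P.cons (P.lf 513035240 0 0) (P.cons (P.lf 406875394 0 0) (P.cons (P.lf 74194710 0 0) (P.cons (P.lf 0 4726612 0) (P.cons (P.lf 0 835550 0) (P.cons (P.lf 13624 0 0) P.nil)))))) (P.cons (P.cons (P.lf 347237892 0 0) (P.cons (P.lf 59353388 0 0) (P.cons (P.lf 0 32009216 0) (P.cons (P.lf 673966 0 0) (P.cons (P.lf 321750 0 0) P.nil))))) (P.cons (P.cons (P.lf 0 239239076 0) (P.cons (P.lf 0 176345536 0) (P.cons (P.lf 0 6760346 0) (P.cons (P.lf 1240132 0 0) P.nil)))) (P.cons (P.cons (P.lf 0 155619284 0) (P.cons (P.lf 0 2686992 0) (P.cons (P.lf 5235668 0 0) P.nil))) (P.cons (P.cons (P.lf 44245876 0 0) (P.cons (P.lf 24632070 0 0) P.nil)) (P.cons (P.cons (P.lf 24184582 0 0) P.nil) P.nil)))))) 24039774)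
 (EL.cons 3 (TM.mk (P.cons (P.cons (P.lf 619144073 0 0) (P.cons (P.lf 139192688 0 0) (P.cons (P.lf 0 44375745 0) (P.cons (P.lf 603594 0 0) (P.cons (P.lf 436676 0 0) (P.cons (P.lf 0 7121 0) P.nil)))))) (P.cons (P.cons (P.lf 0 709472239 0) (P.cons (P.lf 0 530162716 0) (P.cons (P.lf 0 16155833 0) (P.cons (P.lf 3595632 0 0) (P.cons (P.lf 254730 0 0) P.nil))))) (P.cons (P.cons (P.lf 0 736490672 0) (P.cons (P.lf 0 10372335 0) (P.cons (P.lf 22842272 0 0) (P.cons (P.lf 0 666840 0) P.nil)))) (P.cons (P.cons (P.lf 282826495 0 0) (P.cons (P.lf 151250613 0 0) (P.cons (P.lf 0 449034 0) P.nil))) (P.cons (P.cons (P.lf 189527724 0 0) (P.cons (P.lf 0 10871675 0) P.nil)) (P.cons (P.cons (P.lf 0 45859458 0) P.nil) P.nil)))))) 87307069)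
 (EL.cons 7 (TM.mk (P.cons (P.cons (P.lf 0 37399559 0) (P.cons (P.lf 0 83668722 0) (P.cons (P.lf 0 25965302 0) (P.cons (P.lf 1312834 0 0) (P.cons (P.lf 282727 0 0) (P.cons (P.lf 0 4606 0) P.nil)))))) (P.cons (P.cons (P.lf 0 108906823 0) (P.cons (P.lf 0 81382092 0) (P.cons (P.lf 0 2479984 0) (P.cons (P.lf 551942 0 0) (P.cons (P.lf 39098 0 0) P.nil))))) (P.cons (P.cons (P.lf 0 169283099 0) (P.cons (P.lf 0 43609953 0) (P.cons (P.lf 2225951 0 0) (P.cons (P.lf 182604 0 0) P.nil)))) (P.cons (P.cons (P.lf 0 36225922 0) (P.cons (P.lf 20765944 0 0) (P.cons (P.lf 2303566 0 0) P.nil))) (P.cons (P.cons (P.lf 59388803 0 0) (P.cons (P.lf 15896653 0 0) P.nil)) (P.cons (P.cons (P.lf 17429734 0 0) P.nil) P.nil)))))) 41817380)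
 (EL.cons 10 (TM.mk (P.cons (P.cons (P.lf 1449666954 0 0) (P.cons (P.lf 521110092 0 0) (P.cons (P.lf 0 57085218 0) (P.cons (P.lf 0 13027620 0) (P.cons (P.lf 437322 0 0) (P.cons (P.lf 78444 0 0) P.nil)))))) (P.cons (P.cons (P.lf 304510956 0 0) (P.cons (P.lf 0 195755490 0) (P.cons (P.lf 4180854 0 0) (P.cons (P.lf 4308834 0 0) (P.cons (P.lf 0 108258 0) P.nil))))) (P.cons (P.cons (P.lf 0 565180812 0) (P.cons (P.lf 0 41780598 0) (P.cons (P.lf 13704834 0 0) (P.cons (P.lf 1353822 0 0) P.nil)))) (P.cons (P.cons (P.lf 0 39537042 0) (P.cons (P.lf 27769482 0 0) (P.cons (P.lf 0 667500 0) P.nil))) (P.cons (P.cons (P.lf 67037718 0 0) (P.cons (P.lf 361746 0 0) P.nil)) (P.cons (P.cons (P.lf 234240 0 0) P.nil) P.nil)))))) 12105978)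
 EL.nil))))
noncomputable def S256_314_512_586_9 : EL := (EL.cons 3 (TM.mk (P.cons (P.lf 897858742 0 0) (P.cons (P.lf 869508750 0 0) (P.cons (P.lf 0 41629830 0) (P.cons (P.lf 0 12412950 0) (P.cons (P.lf 1049171 0 0) (P.cons (P.lf 162840 0 0) P.nil)))))) 27209)
 (EL.cons 7 (TM.mk (P.cons (P.lf 0 2079676607 0) (P.cons (P.lf 133473065 0 0) (P.cons (P.lf 62522105 0 0) (P.cons (P.lf 0 4081356 0) (P.cons (P.lf 0 858201 0) (P.cons (P.lf 91532 0 0) P.nil)))))) 18219)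
 EL.nil))
noncomputable def S256_314_512_586_10 : EL := (EL.cons 3 (TM.mk (P.cons (P.cons (P.lf 0 219425292 0) (P.cons (P.lf 0 87010350 0) (P.cons (P.lf 1384884 0 0) (P.lf 461627 0 0)))) (P.cons (P.cons (P.lf 0 286753777 0) (P.cons (P.lf 0 67510088 0) (P.cons (P.lf 1074512 0 0) (P.lf 358170 0 0)))) (P.cons (P.cons (P.lf 1987739 0 0) (P.cons (P.lf 27030496 0 0) (P.cons (P.lf 0 430224 0) (P.lf 0 143407 0)))) (P.cons (P.cons (P.lf 79903816 0 0) (P.cons (P.lf 5488037 0 0) (P.cons (P.lf 0 87348 0) P.nil))) (P.cons (P.cons (P.lf 4986770 0 0) (P.cons (P.lf 0 2342157 0) P.nil)) (P.cons (P.cons (P.lf 0 5949258 0) P.nil) P.nil)))))) 2135562)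
 (EL.cons 7 (TM.mk (P.cons (P.cons (P.lf 508246594 0 0) (P.cons (P.lf 201538819 0 0) (P.cons (P.lf 0 3207756 0) (P.lf 0 1069251 0)))) (P.cons (P.cons (P.lf 139379270 0 0) (P.cons (P.lf 0 51738820 0) (P.cons (P.lf 823489 0 0) (P.lf 274495 0 0)))) (P.cons (P.cons (P.lf 0 173924873 0) (P.cons (P.lf 0 19254874 0) (P.cons (P.lf 306465 0 0) (P.lf 102155 0 0)))) (P.cons (P.cons (P.lf 0 21831176 0) (P.cons (P.lf 6035292 0 0) (P.cons (P.lf 0 96057 0) P.nil))) (P.cons (P.cons (P.lf 16389967 0 0) (P.cons (P.lf 824903 0 0) P.nil)) (P.cons (P.cons (P.lf 783887 0 0) P.nil) P.nil)))))) 1617728)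
 EL.nil))
noncomputable def S256_314_512_586_11 : EL := (EL.cons 3 (TM.mk (P.cons (P.cons (P.lf 53624759 0 0) (P.cons (P.lf 42528452 0 0) (P.cons (P.lf 7755165 0 0) (P.cons (P.lf 0 494046 0) (P.cons (P.lf 0 87334 0) (P.cons (P.lf 1423 0 0) P.nil)))))) (P.cons (P.cons (P.lf 88226423 0 0) (P.cons (P.lf 47389496 0 0) (P.cons (P.lf 4164547 0 0) (P.cons (P.lf 0 408000 0) (P.cons (P.lf 0 50946 0) P.nil))))) (P.cons (P.cons (P.lf 7656160 0 0) (P.cons (P.lf 0 14396295 0) (P.cons (P.lf 0 4306300 0) (P.cons (P.lf 220752 0 0) P.nil)))) (P.cons (P.cons (P.lf 0 42907001 0) (P.cons (P.lf 0 19006887 0) (P.cons (P.lf 0 89142 0) P.nil))) (P.cons (P.cons (P.lf 0 10407330 0) (P.cons (P.lf 3121225 0 0) P.nil)) (P.cons (P.cons (P.lf 8158668 0 0) P.nil) P.nil)))))) 12103125)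
 (EL.cons 7 (TM.mk (P.cons (P.cons (P.lf 0 124209023 0) (P.cons (P.lf 0 98507064 0) (P.cons (P.lf 0 17963000 0) (P.cons (P.lf 1144342 0 0) (P.cons (P.lf 202291 0 0) (P.cons (P.lf 0 3298 0) P.nil)))))) (P.cons (P.cons (P.lf 0 76096753 0) (P.cons (P.lf 0 8047668 0) (P.cons (P.lf 8902490 0 0) (P.cons (P.lf 0 236614 0) (P.cons (P.lf 0 90880 0) P.nil))))) (P.cons (P.cons (P.lf 67050901 0 0) (P.cons (P.lf 46578057 0 0) (P.cons (P.lf 1679381 0 0) (P.cons (P.lf 0 324174 0) P.nil)))) (P.cons (P.cons (P.lf 36242648 0 0) (P.cons (P.lf 0 1850888 0) (P.cons (P.lf 0 1640864 0) P.nil))) (P.cons (P.cons (P.lf 0 15087811 0) (P.cons (P.lf 0 7357715 0) P.nil)) (P.cons (P.cons (P.lf 0 6215966 0) P.nil) P.nil)))))) 8388496)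
 EL.nil))
noncomputable def S256_314_512_586_12 : EL := (EL.cons 4 (TM.mk (P.cons (P.lf 0 897858742 0) (P.cons (P.lf 0 869508750 0) (P.cons (P.lf 41629830 0 0) (P.cons (P.lf 12412950 0 0) (P.cons (P.lf 0 1049171 0) (P.cons (P.lf 0 162840 0) P.nil)))))) 27209)
 (EL.cons 8 (TM.mk (P.cons (P.lf 2079676607 0 0) (P.cons (P.lf 0 133473065 0) (P.cons (P.lf 0 62522105 0) (P.cons (P.lf 4081356 0 0) (P.cons (P.lf 858201 0 0) (P.cons (P.lf 0 91532 0) P.nil)))))) 18219)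
 EL.nil))
noncomputable def S256_314_512_586_13 : EL := (EL.cons 4 (TM.mk (P.cons (P.cons (P.lf 219425292 0 0) (P.cons (P.lf 87010350 0 0) (P.cons (P.lf 0 1384884 0) (P.lf 0 461627 0)))) (P.cons (P.cons (P.lf 286753777 0 0) (P.cons (P.lf 67510088 0 0) (P.cons (P.lf 0 1074512 0) (P.lf 0 358170 0)))) (P.cons (P.cons (P.lf 0 1987739 0) (P.cons (P.lf 0 27030496 0) (P.cons (P.lf 430224 0 0) (P.lf 143407 0 0)))) (P.cons (P.cons (P.lf 0 79903816 0) (P.cons (P.lf 0 5488037 0) (P.cons (P.lf 87348 0 0) P.nil))) (P.cons (P.cons (P.lf 0 4986770 0) (P.cons (P.lf 2342157 0 0) P.nil)) (P.cons (P.cons (P.lf 5949258 0 0) P.nil) P.nil)))))) 2135562)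
 (EL.cons 8 (TM.mk (P.cons (P.cons (P.lf 0 508246594 0) (P.cons (P.lf 0 201538819 0) (P.cons (P.lf 3207756 0 0) (P.lf 1069251 0 0)))) (P.cons (P.cons (P.lf 0 139379270 0) (P.cons (P.lf 51738820 0 0) (P.cons (P.lf 0 823489 0) (P.lf 0 274495 0)))) (P.cons (P.cons (P.lf 173924873 0 0) (P.cons (P.lf 19254874 0 0) (P.cons (P.lf 0 306465 0) (P.lf 0 102155 0)))) (P.cons (P.cons (P.lf 21831176 0 0) (P.cons (P.lf 0 6035292 0) (P.cons (P.lf 96057 0 0) P.nil))) (P.cons (P.cons (P.lf 0 16389967 0) (P.cons (P.lf 0 824903 0) P.nil)) (P.cons (P.cons (P.lf 0 783887 0) P.nil) P.nil)))))) 1617728)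
 EL.nil))
noncomputable def S256_314_512_586_14 : EL := (EL.cons 4 (TM.mk (P.cons (P.cons (P.lf 0 53624759 0) (P.cons (P.lf 0 42528452 0) (P.cons (P.lf 0 7755165 0) (P.cons (P.lf 494046 0 0) (P.cons (P.lf 87334 0 0) (P.cons (P.lf 0 1423 0) P.nil)))))) (P.cons (P.cons (P.lf 0 88226423 0) (P.cons (P.lf 0 47389496 0) (P.cons (P.lf 0 4164547 0) (P.cons (P.lf 408000 0 0) (P.cons (P.lf 50946 0 0) P.nil))))) (P.cons (P.cons (P.lf 0 7656160 0) (P.cons (P.lf 14396295 0 0) (P.cons (P.lf 4306300 0 0) (P.cons (P.lf 0 220752 0) P.nil)))) (P.cons (P.cons (P.lf 42907001 0 0) (P.cons (P.lf 19006887 0 0) (P.cons (P.lf 89142 0 0) P.nil))) (P.cons (P.cons (P.lf 10407330 0 0) (P.cons (P.lf 0 3121225 0) P.nil)) (P.cons (P.cons (P.lf 0 8158668 0) P.nil) P.nil)))))) 12103125)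
 (EL.cons 8 (TM.mk (P.cons (P.cons (P.lf 124209023 0 0) (P.cons (P.lf 98507064 0 0) (P.cons (P.lf 17963000 0 0) (P.cons (P.lf 0 1144342 0) (P.cons (P.lf 0 202291 0) (P.cons (P.lf 3298 0 0) P.nil)))))) (P.cons (P.cons (P.lf 76096753 0 0) (P.cons (P.lf 8047668 0 0) (P.cons (P.lf 0 8902490 0) (P.cons (P.lf 236614 0 0) (P.cons (P.lf 90880 0 0) P.nil))))) (P.cons (P.cons (P.lf 0 67050901 0) (P.cons (P.lf 0 46578057 0) (P.cons (P.lf 0 1679381 0) (P.cons (P.lf 324174 0 0) P.nil)))) (P.cons (P.cons (P.lf 0 36242648 0) (P.cons (P.lf 1850888 0 0) (P.cons (P.lf 1640864 0 0) P.nil))) (P.cons (P.cons (P.lf 15087811 0 0) (P.cons (P.lf 7357715 0 0) P.nil)) (P.cons (P.cons (P.lf 6215966 0 0) P.nil) P.nil)))))) 8388496)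
 EL.nil))
noncomputable def S256_314_512_586_15 : EL := (EL.cons 4 (TM.mk (P.cons (P.lf 0 200209597 0) (P.cons (P.lf 0 387775913 0) (P.cons (P.lf 0 169200214 0) (P.cons (P.lf 23515311 0 0) (P.cons (P.lf 4462718 0 0) (P.cons (P.lf 0 782419 0) P.nil)))))) 166134)
 (EL.cons 8 (TM.mk (P.cons (P.lf 463738000 0 0) (P.cons (P.lf 419332844 0 0) (P.cons (P.lf 0 64265877 0) (P.cons (P.lf 0 17622484 0) (P.cons (P.lf 2672482 0 0) (P.cons (P.lf 364787 0 0) P.nil)))))) 94488)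
 EL.nil))
noncomputable def S256_314_512_586_16 : EL := (EL.cons 4 (TM.mk (P.cons (P.cons (P.lf 48928686 0 0) (P.cons (P.lf 19402057 0 0) (P.cons (P.lf 0 308808 0) (P.lf 0 102935 0)))) (P.cons (P.cons (P.lf 111325729 0 0) (P.cons (P.lf 33843214 0 0) (P.cons (P.lf 0 538659 0) (P.lf 0 179552 0)))) (P.cons (P.cons (P.lf 59211147 0 0) (P.cons (P.lf 7651452 0 0) (P.cons (P.lf 0 121783 0) (P.lf 0 40593 0)))) (P.cons (P.cons (P.lf 0 21887799 0) (P.cons (P.lf 0 8027062 0) (P.cons (P.lf 127760 0 0) P.nil))) (P.cons (P.cons (P.lf 0 19173070 0) (P.cons (P.lf 0 568828 0) P.nil)) (P.cons (P.cons (P.lf 1165566 0 0) P.nil) P.nil)))))) 3328881)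
 (EL.cons 8 (TM.mk (P.cons (P.cons (P.lf 0 113331687 0) (P.cons (P.lf 0 44940260 0) (P.cons (P.lf 715283 0 0) (P.lf 238427 0 0)))) (P.cons (P.cons (P.lf 0 140832800 0) (P.cons (P.lf 0 31984253 0) (P.cons (P.lf 509071 0 0) (P.lf 169690 0 0)))) (P.cons (P.cons (P.lf 13939214 0 0) (P.cons (P.lf 17549976 0 0) (P.cons (P.lf 0 279330 0) (P.lf 0 93109 0)))) (P.cons (P.cons (P.lf 45434059 0 0) (P.cons (P.lf 2898587 0 0) (P.cons (P.lf 0 46134 0) P.nil))) (P.cons (P.cons (P.lf 0 441340 0) (P.cons (P.lf 0 1898319 0) P.nil)) (P.cons (P.cons (P.lf 0 4532879 0) P.nil) P.nil)))))) 1988409)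
 EL.nil))
noncomputable def S256_314_512_586_17 : EL := (EL.cons 4 (TM.mk (P.cons (P.cons (P.lf 0 11957550 0) (P.cons (P.lf 0 9483233 0) (P.cons (P.lf 0 1729290 0) (P.cons (P.lf 110164 0 0) (P.cons (P.lf 19473 0 0) (P.cons (P.lf 0 316 0) P.nil)))))) (P.cons (P.cons (P.lf 0 31253214 0) (P.cons (P.lf 0 19750976 0) (P.cons (P.lf 0 2603322 0) (P.cons (P.lf 197664 0 0) (P.cons (P.lf 30219 0 0) P.nil))))) (P.cons (P.cons (P.lf 0 20204834 0) (P.cons (P.lf 0 6583652 0) (P.cons (P.lf 141109 0 0) (P.cons (P.lf 33772 0 0) P.nil)))) (P.cons (P.cons (P.lf 8991811 0 0) (P.cons (P.lf 7968128 0 0) (P.cons (P.lf 1016764 0 0) P.nil))) (P.cons (P.cons (P.lf 11923396 0 0) (P.cons (P.lf 3394619 0 0) P.nil)) (P.cons (P.cons (P.lf 0 17022 0) P.nil) P.nil)))))) 8837203)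
 (EL.cons 8 (TM.mk (P.cons (P.cons (P.lf 27696827 0 0) (P.cons (P.lf 21965659 0 0) (P.cons (P.lf 4005491 0 0) (P.cons (P.lf 0 255171 0) (P.cons (P.lf 0 45107 0) (P.cons (P.lf 735 0 0) P.nil)))))) (P.cons (P.cons (P.lf 43790779 0 0) (P.cons (P.lf 23066606 0 0) (P.cons (P.lf 1893889 0 0) (P.cons (P.lf 0 194352 0) (P.cons (P.lf 0 23418 0) P.nil))))) (P.cons (P.cons (P.lf 197130 0 0) (P.cons (P.lf 0 9666837 0) (P.cons (P.lf 0 2482641 0) (P.cons (P.lf 135212 0 0) P.nil)))) (P.cons (P.cons (P.lf 0 23730550 0) (P.cons (P.lf 0 10032449 0) (P.cons (P.lf 39901 0 0) P.nil))) (P.cons (P.cons (P.lf 0 3971041 0) (P.cons (P.lf 2522777 0 0) P.nil)) (P.cons (P.cons (P.lf 5250469 0 0) P.nil) P.nil)))))) 8107591)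
 EL.nil))
noncomputable def S256_314_512_586_18 : EL := (EL.cons 4 (TM.mk (P.cons (P.lf 0 44643862 0) (P.cons (P.lf 0 129702684 0) (P.cons (P.lf 0 119397478 0) (P.cons (P.lf 0 26667962 0) (P.cons (P.lf 8965736 0 0) (P.cons (P.lf 958581 0 0) P.nil)))))) 467642)
 (EL.cons 8 (TM.mk (P.cons (P.lf 103406910 0 0) (P.cons (P.lf 193647023 0 0) (P.cons (P.lf 71427862 0 0) (P.cons (P.lf 0 23572483 0) (P.cons (P.lf 0 3717003 0) (P.cons (P.lf 1166783 0 0) P.nil)))))) 289701)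
 EL.nil))
noncomputable def S256_314_512_586_19 : EL := (EL.cons 4 (TM.mk (P.cons (P.cons (P.lf 10910393 0 0) (P.cons (P.lf 4326379 0 0) (P.cons (P.lf 0 68859 0) (P.lf 0 22952 0)))) (P.cons (P.cons (P.lf 35389935 0 0) (P.cons (P.lf 11736324 0 0) (P.cons (P.lf 0 186798 0) (P.lf 0 62265 0)))) (P.cons (P.cons (P.lf 36737582 0 0) (P.cons (P.lf 8813835 0 0) (P.cons (P.lf 0 140283 0) (P.lf 0 46760 0)))) (P.cons (P.cons (P.lf 6603855 0 0) (P.cons (P.lf 0 547340 0) (P.cons (P.lf 8711 0 0) P.nil))) (P.cons (P.cons (P.lf 0 9944497 0) (P.cons (P.lf 0 2038626 0) P.nil)) (P.cons (P.cons (P.lf 0 3805674 0) P.nil) P.nil)))))) 3461683)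
 (EL.cons 8 (TM.mk (P.cons (P.cons (P.lf 0 25271337 0) (P.cons (P.lf 0 10021032 0) (P.cons (P.lf 159497 0 0) (P.lf 53165 0 0)))) (P.cons (P.cons (P.lf 0 55877083 0) (P.cons (P.lf 0 16836645 0) (P.cons (P.lf 267977 0 0) (P.lf 89325 0 0)))) (P.cons (P.cons (P.lf 0 26132148 0) (P.cons (P.lf 0 2528809 0) (P.cons (P.lf 40249 0 0) (P.lf 13416 0 0)))) (P.cons (P.cons (P.lf 14946674 0 0) (P.cons (P.lf 4905392 0 0) (P.cons (P.lf 0 78075 0) P.nil))) (P.cons (P.cons (P.lf 9973349 0 0) (P.cons (P.lf 108080 0 0) P.nil)) (P.cons (P.cons (P.lf 0 1660059 0) P.nil) P.nil)))))) 2506160)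
 EL.nil))
noncomputable def S256_314_512_586_20 : EL := (EL.cons 4 (TM.mk (P.cons (P.cons (P.lf 0 2666361 0) (P.cons (P.lf 0 2114624 0) (P.cons (P.lf 0 385606 0) (P.cons (P.lf 24564 0 0) (P.cons (P.lf 4342 0 0) (P.cons (P.lf 0 70 0) P.nil)))))) (P.cons (P.cons (P.lf 0 9551188 0) (P.cons (P.lf 0 6452039 0) (P.cons (P.lf 0 953934 0) (P.cons (P.lf 67865 0 0) (P.cons (P.lf 10943 0 0) P.nil))))) (P.cons (P.cons (P.lf 0 11130729 0) (P.cons (P.lf 0 5635135 0) (P.cons (P.lf 0 512829 0) (P.cons (P.lf 49076 0 0) P.nil)))) (P.cons (P.cons (P.lf 0 1998098 0) (P.cons (P.lf 588510 0 0) (P.cons (P.lf 289441 0 0) P.nil))) (P.cons (P.cons (P.lf 4902608 0 0) (P.cons (P.lf 2604111 0 0) P.nil)) (P.cons (P.cons (P.lf 2531694 0 0) P.nil) P.nil)))))) 5979277)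
 (EL.cons 8 (TM.mk (P.cons (P.cons (P.lf 6175994 0 0) (P.cons (P.lf 4898026 0 0) (P.cons (P.lf 893166 0 0) (P.cons (P.lf 0 56899 0) (P.cons (P.lf 0 10058 0) (P.cons (P.lf 163 0 0) P.nil)))))) (P.cons (P.cons (P.lf 15745701 0 0) (P.cons (P.lf 9886892 0 0) (P.cons (P.lf 1287275 0 0) (P.cons (P.lf 0 98440 0) (P.cons (P.lf 0 14962 0) P.nil))))) (P.cons (P.cons (P.lf 9213995 0 0) (P.cons (P.lf 2598448 0 0) (P.cons (P.lf 0 186029 0) (P.cons (P.lf 0 9180 0) P.nil)))) (P.cons (P.cons (P.lf 0 5787133 0) (P.cons (P.lf 0 4630793 0) (P.cons (P.lf 0 559144 0) P.nil))) (P.cons (P.cons (P.lf 0 6139794 0) (P.cons (P.lf 0 1569354 0) P.nil)) (P.cons (P.cons (P.lf 570523 0 0) P.nil) P.nil)))))) 5603869)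
 EL.nil))
noncomputable def S256_314_512_586_21 : EL := (EL.cons 4 (TM.mk (P.cons (P.cons (P.lf 1157014431 0 0) (P.cons (P.lf 0 261031050 0) (P.cons (P.lf 4154652 0 0) (P.lf 1384881 0 0)))) (P.cons (P.cons (P.lf 0 2023589070 0) (P.cons (P.lf 0 202530264 0) (P.cons (P.lf 3223536 0 0) (P.lf 1074510 0 0)))) (P.cons (P.cons (P.lf 0 501637422 0) (P.cons (P.lf 81091488 0 0) (P.cons (P.lf 0 1290672 0) (P.lf 0 430221 0)))) (P.cons (P.cons (P.lf 310257387 0 0) (P.cons (P.lf 16464111 0 0) (P.cons (P.lf 0 262044 0) P.nil))) (P.cons (P.cons (P.lf 28348461 0 0) (P.cons (P.lf 0 7026471 0) P.nil)) (P.cons (P.cons (P.lf 0 20195034 0) P.nil) P.nil)))))) 6912300)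
 (EL.cons 8 (TM.mk (P.cons (P.cons (P.lf 177606327 0 0) (P.cons (P.lf 0 40069314 0) (P.cons (P.lf 637758 0 0) (P.lf 212589 0 0)))) (P.cons (P.cons (P.lf 0 127231884 0) (P.cons (P.lf 0 72464955 0) (P.cons (P.lf 1153368 0 0) (P.lf 384453 0 0)))) (P.cons (P.cons (P.lf 0 388885293 0) (P.cons (P.lf 0 21657243 0) (P.cons (P.lf 344700 0 0) (P.lf 114900 0 0)))) (P.cons (P.cons (P.lf 0 44131224 0) (P.cons (P.lf 13087701 0 0) (P.cons (P.lf 0 208302 0) P.nil))) (P.cons (P.cons (P.lf 44198730 0 0) (P.cons (P.lf 1522365 0 0) P.nil)) (P.cons (P.cons (P.lf 1973217 0 0) P.nil) P.nil)))))) 5288601)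
 (EL.cons 11 (TM.mk (P.cons (P.cons (P.lf 2965920960 0 0) (P.cons (P.lf 0 109942644 0) (P.cons (P.lf 0 54476976 0) (P.cons (P.lf 494346 0 0) (P.lf 123585 0 0))))) (P.cons (P.cons (P.lf 0 380703957 0) (P.cons (P.lf 14112174 0 0) (P.cons (P.lf 6992634 0 0) (P.cons (P.lf 0 63453 0) (P.lf 0 15861 0))))) (P.cons (P.cons (P.lf 0 166114467 0) (P.cons (P.lf 6157635 0 0) (P.cons (P.lf 3051129 0 0) (P.cons (P.lf 0 27687 0) P.nil)))) (P.cons (P.cons (P.lf 23086458 0 0) (P.cons (P.lf 0 855783 0) (P.cons (P.lf 0 424041 0) P.nil))) (P.cons (P.cons (P.lf 4381323 0 0) (P.cons (P.lf 0 162408 0) P.nil)) (P.cons (P.cons (P.lf 0 768147 0) P.nil) P.nil)))))) 318138)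
 EL.nil)))
noncomputable def S256_314_512_586_22 : EL := (EL.cons 4 (TM.mk (P.cons (P.cons (P.lf 0 282759657 0) (P.cons (P.lf 0 48332118 0) (P.cons (P.lf 26065455 0 0) (P.cons (P.lf 0 548820 0) (P.cons (P.lf 0 262005 0) (P.cons (P.lf 4272 0 0) P.nil)))))) (P.cons (P.cons (P.lf 398849331 0 0) (P.cons (P.lf 288776106 0 0) (P.cons (P.lf 10160190 0 0) (P.cons (P.lf 0 2001816 0) (P.cons (P.lf 0 152838 0) P.nil))))) (P.cons (P.cons (P.lf 372073416 0 0) (P.cons (P.lf 0 2011980 0) (P.cons (P.lf 0 13574286 0) (P.cons (P.lf 443796 0 0) P.nil)))) (P.cons (P.cons (P.lf 0 162866748 0) (P.cons (P.lf 0 85128750 0) (P.cons (P.lf 179946 0 0) P.nil))) (P.cons (P.cons (P.lf 0 99967527 0) (P.cons (P.lf 6996450 0 0) P.nil)) (P.cons (P.cons (P.lf 27009063 0 0) P.nil) P.nil)))))) 37601961)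
 (EL.cons 8 (TM.mk (P.cons (P.cons (P.lf 0 43404732 0) (P.cons (P.lf 0 7419171 0) (P.cons (P.lf 4001151 0 0) (P.cons (P.lf 0 84246 0) (P.cons (P.lf 0 40218 0) (P.cons (P.lf 654 0 0) P.nil)))))) (P.cons (P.cons (P.lf 16405035 0 0) (P.cons (P.lf 36667212 0 0) (P.cons (P.lf 5691237 0 0) (P.cons (P.lf 0 394278 0) (P.cons (P.lf 0 64989 0) P.nil))))) (P.cons (P.cons (P.lf 118167000 0 0) (P.cons (P.lf 45094005 0 0) (P.cons (P.lf 0 273285 0) (P.cons (P.lf 0 253389 0) P.nil)))) (P.cons (P.cons (P.lf 36234285 0 0) (P.cons (P.lf 0 11308416 0) (P.cons (P.lf 0 1972215 0) P.nil))) (P.cons (P.cons (P.lf 0 37238307 0) (P.cons (P.lf 0 11627184 0) P.nil)) (P.cons (P.cons (P.lf 0 11822850 0) P.nil) P.nil)))))) 16714431)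
 (EL.cons 11 (TM.mk (P.cons (P.cons (P.lf 0 724833477 0) (P.cons (P.lf 0 260555046 0) (P.cons (P.lf 28542609 0 0) (P.cons (P.lf 6513810 0 0) (P.cons (P.lf 0 218661 0) (P.cons (P.lf 0 39222 0) P.nil)))))) (P.cons (P.cons (P.lf 0 152255478 0) (P.cons (P.lf 97877745 0 0) (P.cons (P.lf 0 2090427 0) (P.cons (P.lf 0 2154417 0) (P.cons (P.lf 54129 0 0) P.nil))))) (P.cons (P.cons (P.lf 282590406 0 0) (P.cons (P.lf 20890299 0 0) (P.cons (P.lf 0 6852417 0) (P.cons (P.lf 0 676911 0) P.nil)))) (P.cons (P.cons (P.lf 19768521 0 0) (P.cons (P.lf 0 13884741 0) (P.cons (P.lf 333750 0 0) P.nil))) (P.cons (P.cons (P.lf 0 33518859 0) (P.cons (P.lf 0 180873 0) P.nil)) (P.cons (P.cons (P.lf 0 117120 0) P.nil) P.nil)))))) 6052989)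
 EL.nil)))
noncomputable def S256_314_512_586_23 : EL := (EL.cons 4 (TM.mk (P.cons (P.cons (P.lf 257997591 0 0) (P.cons (P.lf 0 58206171 0) (P.cons (P.lf 926427 0 0) (P.lf 308808 0 0)))) (P.cons (P.cons (P.lf 0 201379995 0) (P.cons (P.lf 0 101529645 0) (P.cons (P.lf 1615977 0 0) (P.lf 538656 0 0)))) (P.cons (P.cons (P.lf 0 560803776 0) (P.cons (P.lf 0 22954356 0) (P.cons (P.lf 365349 0 0) (P.lf 121782 0 0)))) (P.cons (P.cons (P.lf 0 21788256 0) (P.cons (P.lf 24081186 0 0) (P.cons (P.lf 0 383280 0) P.nil))) (P.cons (P.cons (P.lf 85045923 0 0) (P.cons (P.lf 1706484 0 0) P.nil)) (P.cons (P.cons (P.lf 0 523251 0) P.nil) P.nil)))))) 11863929)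
 (EL.cons 8 (TM.mk (P.cons (P.cons (P.lf 39603657 0 0) (P.cons (P.lf 0 8934879 0) (P.cons (P.lf 142209 0 0) (P.lf 47403 0 0)))) (P.cons (P.cons (P.lf 9982284 0 0) (P.cons (P.lf 0 24811404 0) (P.cons (P.lf 394905 0 0) (P.lf 131634 0 0)))) (P.cons (P.cons (P.lf 0 116027148 0) (P.cons (P.lf 0 20063412 0) (P.cons (P.lf 319332 0 0) (P.lf 106443 0 0)))) (P.cons (P.cons (P.lf 0 93050484 0) (P.cons (P.lf 0 885666 0) (P.cons (P.lf 14097 0 0) P.nil))) (P.cons (P.cons (P.lf 4784916 0 0) (P.cons (P.lf 3602550 0 0) P.nil)) (P.cons (P.cons (P.lf 11613633 0 0) P.nil) P.nil)))))) 4446558)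
 (EL.cons 11 (TM.mk (P.cons (P.cons (P.lf 661357755 0 0) (P.cons (P.lf 0 24515628 0) (P.cons (P.lf 0 12147582 0) (P.cons (P.lf 110232 0 0) (P.lf 27555 0 0))))) (P.cons (P.cons (P.lf 555583797 0 0) (P.cons (P.lf 0 20594733 0) (P.cons (P.lf 0 10204764 0) (P.cons (P.lf 92601 0 0) (P.lf 23148 0 0))))) (P.cons (P.cons (P.lf 0 149916492 0) (P.cons (P.lf 5557197 0 0) (P.cons (P.lf 2753610 0 0) (P.cons (P.lf 0 24987 0) P.nil)))) (P.cons (P.cons (P.lf 0 35930868 0) (P.cons (P.lf 1331907 0 0) (P.cons (P.lf 659964 0 0) P.nil))) (P.cons (P.cons (P.lf 9626253 0 0) (P.cons (P.lf 0 356829 0) P.nil)) (P.cons (P.cons (P.lf 1068993 0 0) P.nil) P.nil)))))) 821514)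
 EL.nil)))
noncomputable def S256_314_512_586_24 : EL := (EL.cons 4 (TM.mk (P.cons (P.cons (P.lf 0 63051339 0) (P.cons (P.lf 0 10777368 0) (P.cons (P.lf 5812221 0 0) (P.cons (P.lf 0 122379 0) (P.cons (P.lf 0 58422 0) (P.cons (P.lf 951 0 0) P.nil)))))) (P.cons (P.cons (P.lf 27877182 0 0) (P.cons (P.lf 53955849 0 0) (P.cons (P.lf 7894275 0 0) (P.cons (P.lf 0 564891 0) (P.cons (P.lf 0 90660 0) P.nil))))) (P.cons (P.cons (P.lf 172019895 0 0) (P.cons (P.lf 62410764 0 0) (P.cons (P.lf 0 1102317 0) (P.cons (P.lf 0 327645 0) P.nil)))) (P.cons (P.cons (P.lf 40778418 0 0) (P.cons (P.lf 0 22253586 0) (P.cons (P.lf 0 3076569 0) P.nil))) (P.cons (P.cons (P.lf 0 62611623 0) (P.cons (P.lf 0 17705031 0) P.nil)) (P.cons (P.cons (P.lf 0 14935509 0) P.nil) P.nil)))))) 31047849)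
 (EL.cons 8 (TM.mk (P.cons (P.cons (P.lf 0 9678630 0) (P.cons (P.lf 0 1654368 0) (P.cons (P.lf 892197 0 0) (P.cons (P.lf 0 18783 0) (P.cons (P.lf 0 8967 0) (P.cons (P.lf 144 0 0) P.nil)))))) (P.cons (P.cons (P.lf 0 5714940 0) (P.cons (P.lf 6574128 0 0) (P.cons (P.lf 2133090 0 0) (P.cons (P.lf 0 106110 0) (P.cons (P.lf 0 23175 0) P.nil))))) (P.cons (P.cons (P.lf 30340881 0 0) (P.cons (P.lf 18050115 0 0) (P.cons (P.lf 1126686 0 0) (P.cons (P.lf 0 140772 0) P.nil)))) (P.cons (P.cons (P.lf 33561474 0 0) (P.cons (P.lf 6859974 0 0) (P.cons (P.lf 0 569964 0) P.nil))) (P.cons (P.cons (P.lf 0 1762596 0) (P.cons (P.lf 0 5615880 0) P.nil)) (P.cons (P.cons (P.lf 0 11414130 0) P.nil) P.nil)))))) 9715740)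
 (EL.cons 11 (TM.mk (P.cons (P.cons (P.lf 0 161627448 0) (P.cons (P.lf 0 58100028 0) (P.cons (P.lf 6364590 0 0) (P.cons (P.lf 1452486 0 0) (P.cons (P.lf 0 48756 0) (P.cons (P.lf 0 8745 0) P.nil)))))) (P.cons (P.cons (P.lf 0 190474827 0) (P.cons (P.lf 0 34440183 0) (P.cons (P.lf 5697492 0 0) (P.cons (P.lf 926217 0 0) (P.cons (P.lf 0 35148 0) P.nil))))) (P.cons (P.cons (P.lf 37628781 0 0) (P.cons (P.lf 28488276 0 0) (P.cons (P.lf 0 2274504 0) (P.cons (P.lf 0 683520 0) P.nil)))) (P.cons (P.cons (P.lf 69240693 0 0) (P.cons (P.lf 1206342 0 0) (P.cons (P.lf 0 1471698 0) P.nil))) (P.cons (P.cons (P.lf 0 5846475 0) (P.cons (P.lf 0 3624279 0) P.nil)) (P.cons (P.cons (P.lf 0 8408877 0) P.nil) P.nil)))))) 6025089)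
 EL.nil)))
noncomputable def S256_314_512_586_25 : EL := (EL.cons 4 (TM.mk (P.cons (P.cons (P.lf 57529755 0 0) (P.cons (P.lf 0 12979140 0) (P.cons (P.lf 206580 0 0) (P.lf 68859 0 0)))) (P.cons (P.cons (P.lf 10808400 0 0) (P.cons (P.lf 0 35208972 0) (P.cons (P.lf 560397 0 0) (P.lf 186798 0 0)))) (P.cons (P.cons (P.lf 0 171205557 0) (P.cons (P.lf 0 26441505 0) (P.cons (P.lf 420849 0 0) (P.lf 140283 0 0)))) (P.cons (P.cons (P.lf 0 124674453 0) (P.cons (P.lf 1642023 0 0) (P.cons (P.lf 0 26133 0) P.nil))) (P.cons (P.cons (P.lf 20745075 0 0) (P.cons (P.lf 6115878 0 0) P.nil)) (P.cons (P.cons (P.lf 20160615 0 0) P.nil) P.nil)))))) 12115113)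
 (EL.cons 8 (TM.mk (P.cons (P.cons (P.lf 8831046 0 0) (P.cons (P.lf 0 1992348 0) (P.cons (P.lf 31710 0 0) (P.lf 10569 0 0)))) (P.cons (P.cons (P.lf 10778112 0 0) (P.cons (P.lf 0 7462026 0) (P.cons (P.lf 118767 0 0) (P.lf 39588 0 0)))) (P.cons (P.cons (P.lf 0 24126219 0) (P.cons (P.lf 0 9739371 0) (P.cons (P.lf 155013 0 0) (P.lf 51669 0 0)))) (P.cons (P.cons (P.lf 0 46029678 0) (P.cons (P.lf 0 4246014 0) (P.cons (P.lf 67578 0 0) P.nil))) (P.cons (P.cons (P.lf 0 17847666 0) (P.cons (P.lf 893655 0 0) P.nil)) (P.cons (P.cons (P.lf 4946877 0 0) P.nil) P.nil)))))) 5592957)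
 (EL.cons 11 (TM.mk (P.cons (P.cons (P.lf 147473274 0 0) (P.cons (P.lf 0 5466633 0) (P.cons (P.lf 0 2708736 0) (P.cons (P.lf 24579 0 0) (P.lf 6144 0 0))))) (P.cons (P.cons (P.lf 266703993 0 0) (P.cons (P.lf 0 9886353 0) (P.cons (P.lf 0 4898721 0) (P.cons (P.lf 44451 0 0) (P.lf 11112 0 0))))) (P.cons (P.cons (P.lf 79708527 0 0) (P.cons (P.lf 0 2954685 0) (P.cons (P.lf 0 1464057 0) (P.cons (P.lf 13284 0 0) P.nil)))) (P.cons (P.cons (P.lf 0 48168699 0) (P.cons (P.lf 1785546 0 0) (P.cons (P.lf 884745 0 0) P.nil))) (P.cons (P.cons (P.lf 0 5603019 0) (P.cons (P.lf 207696 0 0) P.nil)) (P.cons (P.cons (P.lf 3322266 0 0) P.nil) P.nil)))))) 1499892)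
 EL.nil)))
noncomputable def S256_314_512_586_26 : EL := (EL.cons 4 (TM.mk (P.cons (P.cons (P.lf 0 14059542 0) (P.cons (P.lf 0 2403198 0) (P.cons (P.lf 1296039 0 0) (P.cons (P.lf 0 27288 0) (P.cons (P.lf 0 13026 0) (P.cons (P.lf 210 0 0) P.nil)))))) (P.cons (P.cons (P.lf 0 7399398 0) (P.cons (P.lf 9704061 0 0) (P.cons (P.lf 3015429 0 0) (P.cons (P.lf 0 152388 0) (P.cons (P.lf 0 32832 0) P.nil))))) (P.cons (P.cons (P.lf 45029778 0 0) (P.cons (P.lf 25679616 0 0) (P.cons (P.lf 1398834 0 0) (P.cons (P.lf 0 193779 0) P.nil)))) (P.cons (P.cons (P.lf 46145964 0 0) (P.cons (P.lf 7990431 0 0) (P.cons (P.lf 0 1023606 0) P.nil))) (P.cons (P.cons (P.lf 0 7036464 0) (P.cons (P.lf 0 9567915 0) P.nil)) (P.cons (P.cons (P.lf 0 17798250 0) P.nil) P.nil)))))) 20267346)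
 (EL.cons 8 (TM.mk (P.cons (P.cons (P.lf 0 2158194 0) (P.cons (P.lf 0 368898 0) (P.cons (P.lf 198945 0 0) (P.cons (P.lf 0 4188 0) (P.cons (P.lf 0 1998 0) (P.cons (P.lf 30 0 0) P.nil)))))) (P.cons (P.cons (P.lf 0 3364398 0) (P.cons (P.lf 1108683 0 0) (P.cons (P.lf 668313 0 0) (P.cons (P.lf 0 27717 0) (P.cons (P.lf 0 7104 0) P.nil))))) (P.cons (P.cons (P.lf 5631534 0 0) (P.cons (P.lf 5461668 0 0) (P.cons (P.lf 702639 0 0) (P.cons (P.lf 0 54108 0) P.nil)))) (P.cons (P.cons (P.lf 14124606 0 0) (P.cons (P.lf 5364636 0 0) (P.cons (P.lf 91401 0 0) P.nil))) (P.cons (P.cons (P.lf 6555798 0 0) (P.cons (P.lf 21798 0 0) P.nil)) (P.cons (P.cons (P.lf 0 3368214 0) P.nil) P.nil)))))) 8134323)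
 (EL.cons 11 (TM.mk (P.cons (P.cons (P.lf 0 36040596 0) (P.cons (P.lf 0 12955470 0) (P.cons (P.lf 1419210 0 0) (P.cons (P.lf 323883 0 0) (P.cons (P.lf 0 10872 0) (P.cons (P.lf 0 1950 0) P.nil)))))) (P.cons (P.cons (P.lf 0 77375760 0) (P.cons (P.lf 0 20226066 0) (P.cons (P.lf 2644857 0 0) (P.cons (P.lf 520188 0 0) (P.cons (P.lf 0 18366 0) P.nil))))) (P.cons (P.cons (P.lf 0 31070328 0) (P.cons (P.lf 0 484011 0) (P.cons (P.lf 657357 0 0) (P.cons (P.lf 32577 0 0) P.nil)))) (P.cons (P.cons (P.lf 26032980 0 0) (P.cons (P.lf 6956076 0 0) (P.cons (P.lf 0 897861 0) P.nil))) (P.cons (P.cons (P.lf 13804527 0 0) (P.cons (P.lf 0 751161 0) P.nil)) (P.cons (P.cons (P.lf 0 4025613 0) P.nil) P.nil)))))) 6026622)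
 EL.nil)))
noncomputable def S256_314_512_586_27 : EL := (EL.cons 13 (TM.mk (P.lf 0 4294967296 0) 0)
 EL.nil)
noncomputable def S256_314_512_586_28 : EL := (EL.cons 13 (TM.mk (P.cons (P.cons (P.lf 1049635552 0 0) (P.cons (P.lf 416219828 0 0) (P.cons (P.lf 0 6624688 0) (P.lf 0 2208228 0)))) (P.cons (P.cons (P.lf 355212672 0 0) (P.cons (P.lf 0 80138616 0) (P.cons (P.lf 1275508 0 0) (P.lf 425168 0 0)))) (P.cons (P.cons (P.lf 0 304838211 0) (P.cons (P.lf 0 32395644 0) (P.cons (P.lf 515616 0 0) (P.lf 171872 0 0)))) (P.cons (P.cons (P.lf 0 56031390 0) (P.cons (P.lf 7158932 0 0) (P.cons (P.lf 0 113940 0) P.nil))) (P.cons (P.cons (P.lf 19957919 0 0) (P.cons (P.lf 1174648 0 0) P.nil)) (P.cons (P.cons (P.lf 1713151 0 0) P.nil) P.nil)))))) 1520200)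
 EL.nil)
noncomputable def S256_314_512_586_29 : EL := (EL.cons 13 (TM.mk (P.cons (P.cons (P.lf 0 256517620 0) (P.cons (P.lf 0 203437697 0) (P.cons (P.lf 0 37097355 0) (P.cons (P.lf 2363306 0 0) (P.cons (P.lf 417775 0 0) (P.cons (P.lf 0 6812 0) P.nil)))))) (P.cons (P.cons (P.lf 0 173618946 0) (P.cons (P.lf 0 29676694 0) (P.cons (P.lf 16004608 0 0) (P.cons (P.lf 0 336983 0) (P.cons (P.lf 0 160875 0) P.nil))))) (P.cons (P.cons (P.lf 119619538 0 0) (P.cons (P.lf 88172768 0 0) (P.cons (P.lf 3380173 0 0) (P.cons (P.lf 0 620066 0) P.nil)))) (P.cons (P.cons (P.lf 77809642 0 0) (P.cons (P.lf 1343496 0 0) (P.cons (P.lf 0 2617834 0) P.nil))) (P.cons (P.cons (P.lf 0 22122938 0) (P.cons (P.lf 0 12316035 0) P.nil)) (P.cons (P.cons (P.lf 0 12092291 0) P.nil) P.nil)))))) 12019887)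
 EL.nil)
noncomputable def S256_314_512_586_30 : EL := (EL.cons 13 (TM.mk (P.cons (P.lf 0 957715992 0) (P.cons (P.lf 0 927476000 0) (P.cons (P.lf 44405152 0 0) (P.cons (P.lf 13240480 0 0) (P.cons (P.lf 0 1119116 0) (P.cons (P.lf 0 173696 0) P.nil)))))) 29016)
 EL.nil)
noncomputable def S256_314_512_586_31 : EL := (EL.cons 13 (TM.mk (P.cons (P.cons (P.lf 234053645 0 0) (P.cons (P.lf 92811040 0 0) (P.cons (P.lf 0 1477210 0) (P.lf 0 492403 0)))) (P.cons (P.cons (P.lf 305870696 0 0) (P.cons (P.lf 72010761 0 0) (P.cons (P.lf 0 1146147 0) (P.lf 0 382049 0)))) (P.cons (P.cons (P.lf 0 2120255 0) (P.cons (P.lf 0 28832530 0) (P.cons (P.lf 458906 0 0) (P.lf 152968 0 0)))) (P.cons (P.cons (P.lf 0 85230738 0) (P.cons (P.lf 0 5853907 0) (P.cons (P.lf 93172 0 0) P.nil))) (P.cons (P.cons (P.lf 0 5319222 0) (P.cons (P.lf 2498301 0 0) P.nil)) (P.cons (P.cons (P.lf 6345876 0 0) P.nil) P.nil))))))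 2277913)
 EL.nil)
noncomputable def S256_314_512_586_32 : EL := (EL.cons 13 (TM.mk (P.cons (P.cons (P.lf 0 57199743 0) (P.cons (P.lf 0 45363683 0) (P.cons (P.lf 0 8272177 0) (P.cons (P.lf 526983 0 0) (P.cons (P.lf 93157 0 0) (P.cons (P.lf 0 1518 0) P.nil)))))) (P.cons (P.cons (P.lf 0 94108185 0) (P.cons (P.lf 0 50548796 0) (P.cons (P.lf 0 4442184 0) (P.cons (P.lf 435201 0 0) (P.cons (P.lf 54343 0 0) P.nil))))) (P.cons (P.cons (P.lf 0 8166571 0) (P.cons (P.lf 15356049 0 0) (P.cons (P.lf 4593387 0 0) (P.cons (P.lf 0 235469 0) P.nil)))) (P.cons (P.cons (P.lf 45767468 0 0) (P.cons (P.lf 20274013 0 0) (P.cons (P.lf 95085 0 0) P.nil))) (P.cons (P.cons (P.lf 11101152 0 0) (P.cons (P.lf 0 3329307 0) P.nil)) (P.cons (P.cons (P.lf 0 8702580 0) P.nil) P.nil)))))) 12909977)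
 EL.nil)
noncomputable def S256_314_512_586_33 : EL := (EL.cons 14 (TM.mk (P.lf 8589934592 0 0) 0)
 EL.nil)
noncomputable def S256_314_512_586_34 : EL := (EL.cons 14 (TM.mk (P.cons (P.cons (P.lf 0 2099271104 0) (P.cons (P.lf 0 832439656 0) (P.cons (P.lf 13249376 0 0) (P.lf 4416456 0 0)))) (P.cons (P.cons (P.lf 0 710425344 0) (P.cons (P.lf 160277232 0 0) (P.cons (P.lf 0 2551016 0) (P.lf 0 850336 0)))) (P.cons (P.cons (P.lf 609676422 0 0) (P.cons (P.lf 64791288 0 0) (P.cons (P.lf 0 1031232 0) (P.lf 0 343744 0)))) (P.cons (P.cons (P.lf 112062780 0 0) (P.cons (P.lf 0 14317864 0) (P.cons (P.lf 227880 0 0) P.nil))) (P.cons (P.cons (P.lf 0 39915838 0) (P.cons (P.lf 0 2349296 0) P.nil)) (P.cons (P.cons (P.lf 0 3426302 0) P.nil) P.nil)))))) 3040400)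
 EL.nil)
noncomputable def S256_314_512_586_35 : EL := (EL.cons 14 (TM.mk (P.cons (P.cons (P.lf 513035240 0 0) (P.cons (P.lf 406875394 0 0) (P.cons (P.lf 74194710 0 0) (P.cons (P.lf 0 4726612 0) (P.cons (P.lf 0 835550 0) (P.cons (P.lf 13624 0 0) P.nil)))))) (P.cons (P.cons (P.lf 347237892 0 0) (P.cons (P.lf 59353388 0 0) (P.cons (P.lf 0 32009216 0) (P.cons (P.lf 673966 0 0) (P.cons (P.lf 321750 0 0) P.nil))))) (P.cons (P.cons (P.lf 0 239239076 0) (P.cons (P.lf 0 176345536 0) (P.cons (P.lf 0 6760346 0) (P.cons (P.lf 1240132 0 0) P.nil)))) (P.cons (P.cons (P.lf 0 155619284 0) (P.cons (P.lf 0 2686992 0) (P.cons (P.lf 5235668 0 0) P.nil))) (P.cons (P.cons (P.lf 44245876 0 0) (P.cons (P.lf 24632070 0 0) P.nil)) (P.cons (P.cons (P.lf 24184582 0 0) P.nil) P.nil)))))) 24039774)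
 EL.nil)
noncomputable def S256_314_512_586_36 : EL := (EL.cons 14 (TM.mk (P.cons (P.lf 1915431984 0 0) (P.cons (P.lf 1854952000 0 0) (P.cons (P.lf 0 88810304 0) (P.cons (P.lf 0 26480960 0) (P.cons (P.lf 2238232 0 0) (P.cons (P.lf 347392 0 0) P.nil)))))) 58032)
 EL.nil)
noncomputable def S256_314_512_586_37 : EL := (EL.cons 14 (TM.mk (P.cons (P.cons (P.lf 0 468107290 0) (P.cons (P.lf 0 185622080 0) (P.cons (P.lf 2954420 0 0) (P.lf 984806 0 0)))) (P.cons (P.cons (P.lf 0 611741392 0) (P.cons (P.lf 0 144021522 0) (P.cons (P.lf 2292294 0 0) (P.lf 764098 0 0)))) (P.cons (P.cons (P.lf 4240510 0 0) (P.cons (P.lf 57665060 0 0) (P.cons (P.lf 0 917812 0) (P.lf 0 305936 0)))) (P.cons (P.cons (P.lf 170461476 0 0) (P.cons (P.lf 11707814 0 0) (P.cons (P.lf 0 186344 0) P.nil))) (P.cons (P.cons (P.lf 10638444 0 0) (P.cons (P.lf 0 4996602 0) P.nil)) (P.cons (P.cons (P.lf 0 12691752 0) P.nil)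 P.nil)))))) 4555826)
 EL.nil)
noncomputable def S256_314_512_586_38 : EL := (EL.cons 14 (TM.mk (P.cons (P.cons (P.lf 114399486 0 0) (P.cons (P.lf 90727366 0 0) (P.cons (P.lf 16544354 0 0) (P.cons (P.lf 0 1053966 0) (P.cons (P.lf 0 186314 0) (P.cons (P.lf 3036 0 0) P.nil)))))) (P.cons (P.cons (P.lf 188216370 0 0) (P.cons (P.lf 101097592 0 0) (P.cons (P.lf 8884368 0 0) (P.cons (P.lf 0 870402 0) (P.cons (P.lf 0 108686 0) P.nil))))) (P.cons (P.cons (P.lf 16333142 0 0) (P.cons (P.lf 0 30712098 0) (P.cons (P.lf 0 9186774 0) (P.cons (P.lf 470938 0 0) P.nil)))) (P.cons (P.cons (P.lf 0 91534936 0) (P.cons (P.lf 0 40548026 0) (P.cons (P.lf 0 190170 0) P.nil))) (P.cons (P.cons (P.lf 0 22202304 0) (P.cons (P.lf 6658614 0 0) P.nil)) (P.cons (P.cons (P.lf 17405160 0 0) P.nil) P.nil)))))) 25819954)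
 EL.nil)
noncomputable def S256_314_512_586_39 : EL := (EL.cons 14 (TM.mk (P.cons (P.lf 427113808 0 0) (P.cons (P.lf 827255282 0 0) (P.cons (P.lf 360960458 0 0) (P.cons (P.lf 0 50165998 0) (P.cons (P.lf 0 9520466 0) (P.cons (P.lf 1669162 0 0) P.nil)))))) 354406)
 EL.nil)
noncomputable def S256_314_512_586_40 : EL := (EL.cons 14 (TM.mk (P.cons (P.cons (P.lf 0 104381198 0) (P.cons (P.lf 0 41391056 0) (P.cons (P.lf 658792 0 0) (P.lf 219596 0 0)))) (P.cons (P.cons (P.lf 0 237494890 0) (P.cons (P.lf 0 72198858 0) (P.cons (P.lf 1149140 0 0) (P.lf 383046 0 0)))) (P.cons (P.cons (P.lf 0 126317114 0) (P.cons (P.lf 0 16323098 0) (P.cons (P.lf 259804 0 0) (P.lf 86600 0 0)))) (P.cons (P.cons (P.lf 46693972 0 0) (P.cons (P.lf 17124400 0 0) (P.cons (P.lf 0 272556 0) P.nil))) (P.cons (P.cons (P.lf 40902550 0 0) (P.cons (P.lf 1213500 0 0) P.nil)) (P.cons (P.cons (P.lf 0 2486542 0) P.nil)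 P.nil)))))) 7101574)
 EL.nil)
noncomputable def S256_314_512_586_41 : EL := (EL.cons 14 (TM.mk (P.cons (P.cons (P.lf 25509440 0 0) (P.cons (P.lf 20230898 0 0) (P.cons (P.lf 3689152 0 0) (P.cons (P.lf 0 235018 0) (P.cons (P.lf 0 41544 0) (P.cons (P.lf 676 0 0) P.nil)))))) (P.cons (P.cons (P.lf 66673524 0 0) (P.cons (P.lf 42135416 0 0) (P.cons (P.lf 5553754 0 0) (P.cons (P.lf 0 421684 0) (P.cons (P.lf 0 64468 0) P.nil))))) (P.cons (P.cons (P.lf 43103646 0 0) (P.cons (P.lf 14045126 0 0) (P.cons (P.lf 0 301034 0) (P.cons (P.lf 0 72048 0) P.nil)))) (P.cons (P.cons (P.lf 0 19182532 0) (P.cons (P.lf 0 16998674 0) (P.cons (P.lf 0 2169098 0) P.nil))) (P.cons (P.cons (P.lf 0 25436580 0) (P.cons (P.lf 0 7241854 0) P.nil)) (P.cons (P.cons (P.lf 36314 0 0) P.nil) P.nil)))))) 18852654)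
 EL.nil)
noncomputable def S256_314_512_586_42 : EL := (EL.cons 14 (TM.mk (P.cons (P.lf 95240240 0 0) (P.cons (P.lf 276699060 0 0) (P.cons (P.lf 254714620 0 0) (P.cons (P.lf 56891654 0 0) (P.cons (P.lf 0 19126904 0) (P.cons (P.lf 0 2044974 0) P.nil)))))) 997622)
 EL.nil)
noncomputable def S256_314_512_586_43 : EL := (EL.cons 14 (TM.mk (P.cons (P.cons (P.lf 0 23275506 0) (P.cons (P.lf 0 9229610 0) (P.cons (P.lf 146900 0 0) (P.lf 48966 0 0)))) (P.cons (P.cons (P.lf 0 75498528 0) (P.cons (P.lf 0 25037492 0) (P.cons (P.lf 398504 0 0) (P.lf 132834 0 0)))) (P.cons (P.cons (P.lf 0 78373510 0) (P.cons (P.lf 0 18802850 0) (P.cons (P.lf 299272 0 0) (P.lf 99756 0 0)))) (P.cons (P.cons (P.lf 0 14088226 0) (P.cons (P.lf 1167660 0 0) (P.cons (P.lf 0 18584 0) P.nil))) (P.cons (P.cons (P.lf 21214928 0 0) (P.cons (P.lf 4349070 0 0) P.nil)) (P.cons (P.cons (P.lf 8118772 0 0) P.nil) P.nil))))))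 7384884)
 EL.nil)
noncomputable def S256_314_512_586_44 : EL := (EL.cons 14 (TM.mk (P.cons (P.cons (P.lf 5688238 0 0) (P.cons (P.lf 4511198 0 0) (P.cons (P.lf 822628 0 0) (P.cons (P.lf 0 52404 0) (P.cons (P.lf 0 9264 0) (P.cons (P.lf 150 0 0) P.nil)))))) (P.cons (P.cons (P.lf 20375868 0 0) (P.cons (P.lf 13764350 0 0) (P.cons (P.lf 2035060 0 0) (P.cons (P.lf 0 144780 0) (P.cons (P.lf 0 23346 0) P.nil))))) (P.cons (P.cons (P.lf 23745556 0 0) (P.cons (P.lf 12021622 0 0) (P.cons (P.lf 1094036 0 0) (P.cons (P.lf 0 104696 0) P.nil)))) (P.cons (P.cons (P.lf 4262610 0 0) (P.cons (P.lf 0 1255488 0) (P.cons (P.lf 0 617476 0) P.nil))) (P.cons (P.cons (P.lf 0 10458898 0) (P.cons (P.lf 0 5555438 0) P.nil)) (P.cons (P.cons (P.lf 0 5400948 0) P.nil) P.nil)))))) 12755744)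
 EL.nil)
noncomputable def S256_314_512_586_45 : EL := (EL.cons 14 (TM.mk (P.cons (P.cons (P.lf 0 125379306 0) (P.cons (P.lf 0 149152780 0) (P.cons (P.lf 0 56770702 0) (P.cons (P.lf 0 5143640 0) (P.cons (P.lf 985880 0 0) (P.cons (P.lf 108498 0 0) P.nil)))))) (P.cons (P.cons (P.lf 0 127290806 0) (P.cons (P.lf 0 72233398 0) (P.cons (P.lf 3909562 0 0) (P.cons (P.lf 4811012 0 0) (P.cons (P.lf 0 244200 0) P.nil))))) (P.cons (P.cons (P.lf 66161920 0 0) (P.cons (P.lf 100599124 0 0) (P.cons (P.lf 30297562 0 0) (P.cons (P.lf 0 593152 0) P.nil)))) (P.cons (P.cons (P.lf 89155914 0 0) (P.cons (P.lf 37142834 0 0) (P.cons (P.lf 0 5481916 0) P.nil))) (P.cons (P.cons (P.lf 0 12776862 0) (P.cons (P.lf 0 29145216 0) P.nil)) (P.cons (P.cons (P.lf 0 25554174 0) P.nil) P.nil)))))) 50946130)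
 EL.nil)
noncomputable def S256_314_512_586_46 : EL := (EL.cons 15 (TM.mk (P.lf 4294967296 0 0) 0)
 EL.nil)
noncomputable def S256_314_512_586_47 : EL := (EL.cons 15 (TM.mk (P.cons (P.cons (P.lf 0 1049635552 0) (P.cons (P.lf 0 416219828 0) (P.cons (P.lf 6624688 0 0) (P.lf 2208228 0 0)))) (P.cons (P.cons (P.lf 0 355212672 0) (P.cons (P.lf 80138616 0 0) (P.cons (P.lf 0 1275508 0) (P.lf 0 425168 0)))) (P.cons (P.cons (P.lf 304838211 0 0) (P.cons (P.lf 32395644 0 0) (P.cons (P.lf 0 515616 0) (P.lf 0 171872 0)))) (P.cons (P.cons (P.lf 56031390 0 0) (P.cons (P.lf 0 7158932 0) (P.cons (P.lf 113940 0 0) P.nil))) (P.cons (P.cons (P.lf 0 19957919 0) (P.cons (P.lf 0 1174648 0) P.nil)) (P.cons (P.cons (P.lf 0 1713151 0) P.nil) P.nil)))))) 1520200)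
 EL.nil)
noncomputable def S256_314_512_586_48 : EL := (EL.cons 15 (TM.mk (P.cons (P.cons (P.lf 256517620 0 0) (P.cons (P.lf 203437697 0 0) (P.cons (P.lf 37097355 0 0) (P.cons (P.lf 0 2363306 0) (P.cons (P.lf 0 417775 0) (P.cons (P.lf 6812 0 0) P.nil)))))) (P.cons (P.cons (P.lf 173618946 0 0) (P.cons (P.lf 29676694 0 0) (P.cons (P.lf 0 16004608 0) (P.cons (P.lf 336983 0 0) (P.cons (P.lf 160875 0 0) P.nil))))) (P.cons (P.cons (P.lf 0 119619538 0) (P.cons (P.lf 0 88172768 0) (P.cons (P.lf 0 3380173 0) (P.cons (P.lf 620066 0 0) P.nil)))) (P.cons (P.cons (P.lf 0 77809642 0) (P.cons (P.lf 0 1343496 0) (P.cons (P.lf 2617834 0 0) P.nil))) (P.cons (P.cons (P.lf 22122938 0 0) (P.cons (P.lf 12316035 0 0) P.nil)) (P.cons (P.cons (P.lf 12092291 0 0) P.nil) P.nil)))))) 12019887)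
 EL.nil)
noncomputable def S256_314_512_586 : SL := (SL.cons S256_314_512_586_0 (SL.cons S256_314_512_586_1 (SL.cons S256_314_512_586_2 (SL.cons S256_314_512_586_3 (SL.cons S256_314_512_586_4 (SL.cons S256_314_512_586_5 (SL.cons S256_314_512_586_6 (SL.cons S256_314_512_586_7 (SL.cons S256_314_512_586_8 (SL.cons S256_314_512_586_9 (SL.cons S256_314_512_586_10 (SL.cons S256_314_512_586_11 (SL.cons S256_314_512_586_12 (SL.cons S256_314_512_586_13 (SL.cons S256_314_512_586_14 (SL.cons S256_314_512_586_15 (SL.cons S256_314_512_586_16 (SL.cons S256_314_512_586_17 (SL.cons S256_314_512_586_18 (SL.cons S256_314_512_586_19 (SL.cons S256_314_512_586_20 (SL.cons S256_314_512_586_21 (SL.cons S256_314_512_586_22 (SL.cons S256_314_512_586_23 (SL.cons S256_314_512_586_24 (SL.cons S256_314_512_586_25 (SL.cons S256_314_512_586_26 (SL.cons S256_314_512_586_27 (SL.cons S256_314_512_586_28 (SL.cons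 S256_314_512_586_29 (SL.cons S256_314_512_586_30 (SL.cons S256_314_512_586_31 (SL.cons S256_314_512_586_32 (SL.cons S256_314_512_586_33 (SL.cons S256_314_512_586_34 (SL.cons S256_314_512_586_35 (SL.cons S256_314_512_586_36 (SL.cons S256_314_512_586_37 (SL.cons S256_314_512_586_38 (SL.cons S256_314_512_586_39 (SL.cons S256_314_512_586_40 (SL.cons S256_314_512_586_41 (SL.cons S256_314_512_586_42 (SL.cons S256_314_512_586_43 (SL.cons S256_314_512_586_44 (SL.cons S256_314_512_586_45 (SL.cons S256_314_512_586_46 (SL.cons S256_314_512_586_47 (SL.cons S256_314_512_586_48 SL.nil)))))))))))))))))))))))))))))))))))))))))))))))))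
theorem S256_285_771_808_ok : band (seq (shp 5 256 285 771 808) S256_285_771_808) (sok S256_285_771_808) = true := by decide +kernel

theorem S256_314_216_364_ok : band (seq (shp 5 256 314 216 364) S256_314_216_364) (sok S256_314_216_364) = true := by decide +kernel

theorem S256_314_364_438_ok : band (seq (shp 5 256 314 364 438) S256_314_364_438) (sok S256_314_364_438) = true := by decide +kernel

theorem S256_314_364_512_ok : band (seq (shp 5 256 314 364 512) S256_314_364_512) (sok S256_314_364_512) = true := by decide +kernel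

theorem S256_314_438_512_ok : band (seq (shp 5 256 314 438 512) S256_314_438_512) (sok S256_314_438_512) = true := by decide +kernel

theorem S256_314_512_586_ok : band (seq (shp 5 256 314 512 586) S256_314_512_586) (sok S256_314_512_586) = true := by decide +kernel

end Vale.Agent.P098.Ck
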