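import Vale.Agent.P098.CkDefs

namespace Vale.Agent.P098.Ck

noncomputable def S256_285_216_290_0 : EL := (EL.cons 0 (TM.mk (P.cons (P.lf 8359606057 0 0) (P.cons (P.lf 0 190686074 0) (P.cons (P.lf 0 92290364 0) (P.cons (P.lf 3016066 0 0) (P.cons (P.lf 708651 0 0) (P.cons (P.lf 0 26673 0) P.nil)))))) 4788)
 (EL.cons 1 (TM.mk (P.cons (P.lf 450679505 0 0) (P.cons (P.lf 439849933 0 0) (P.cons (P.lf 0 16100088 0) (P.cons (P.lf 0 5127871 0) (P.cons (P.lf 176304 0 0) (P.cons (P.lf 32482 0 0) P.nil)))))) 1651)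
 (EL.cons 5 (TM.mk (P.cons (P.lf 4329140030 0 0) (P.cons (P.lf 67799490 0 0) (P.cons (P.lf 32814348 0 0) (P.cons (P.lf 0 1072376 0) (P.cons (P.lf 0 251962 0) (P.cons (P.lf 9484 0 0) P.nil)))))) 1837)
 (EL.cons 9 (TM.mk (P.lf 6442450944 0 0) 2)
 EL.nil))))
noncomputable def S256_285_216_290_1 : EL := (EL.cons 0 (TM.mk (P.cons (P.cons (P.lf 3309024690 0 0) (P.cons (P.lf 0 198426601 0) (P.cons (P.lf 0 93669504 0) (P.lf 4460455 0 0)))) (P.cons (P.cons (P.lf 0 1595079328 0) (P.cons (P.lf 28300439 0 0) (P.cons (P.lf 13359535 0 0) (P.lf 0 636163 0)))) (P.cons (P.cons (P.lf 0 24480864 0) (P.cons (P.lf 12718181 0 0) (P.cons (P.lf 6003758 0 0) (P.lf 0 285887 0)))) (P.cons (P.cons (P.lf 104528611 0 0) (P.cons (P.lf 0 1388410 0) (P.cons (P.lf 0 655413 0) P.nil))) (P.cons (P.cons (P.lf 0 3139909 0) (P.cons (P.lf 0 293566 0) P.nil)) (P.cons (P.cons (P.lf 0 2246884 0) P.nil) P.nil))))))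 433708)
 (EL.cons 1 (TM.mk (P.cons (P.cons (P.lf 1627485749 0 0) (P.cons (P.lf 0 27430354 0) (P.cons (P.lf 0 12948805 0) (P.lf 616603 0 0)))) (P.cons (P.cons (P.lf 183182831 0 0) (P.cons (P.lf 0 24909376 0) (P.cons (P.lf 0 11758750 0) (P.lf 559938 0 0)))) (P.cons (P.cons (P.lf 0 239385066 0) (P.cons (P.lf 3678857 0 0) (P.cons (P.lf 1736638 0 0) (P.lf 0 82691 0)))) (P.cons (P.cons (P.lf 5900773 0 0) (P.cons (P.lf 1057998 0 0) (P.cons (P.lf 499435 0 0) P.nil))) (P.cons (P.cons (P.lf 8748873 0 0) (P.cons (P.lf 0 121493 0) P.nil)) (P.cons (P.cons (P.lf 0 349065 0) P.nil) P.nil)))))) 320149)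
 (EL.cons 5 (TM.mk (P.cons (P.cons (P.lf 2249791500 0 0) (P.cons (P.lf 0 108949206 0) (P.cons (P.lf 0 51430694 0) (P.lf 2449078 0 0)))) (P.cons (P.cons (P.lf 0 180937494 0) (P.cons (P.lf 0 1424224 0) (P.cons (P.lf 0 672314 0) (P.lf 32012 0 0)))) (P.cons (P.cons (P.lf 0 18764428 0) (P.cons (P.lf 0 410514 0) (P.cons (P.lf 0 193782 0) (P.lf 9222 0 0)))) (P.cons (P.cons (P.lf 0 12627878 0) (P.cons (P.lf 289594 0 0) (P.cons (P.lf 136704 0 0) P.nil))) (P.cons (P.cons (P.lf 983042 0 0) (P.cons (P.lf 57696 0 0) P.nil)) (P.cons (P.cons (P.lf 532275 0 0) P.nil) P.nil)))))) 247783)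
 (EL.cons 9 (TM.mk (P.cons (P.cons (P.lf 3023235532 0 0) (P.cons (P.lf 0 158383134 0) (P.cons (P.lf 0 74766534 0) (P.lf 3560310 0 0)))) (P.cons (P.cons (P.lf 0 660067756 0) (P.cons (P.lf 7621896 0 0) (P.cons (P.lf 3597996 0 0) (P.lf 0 171330 0)))) (P.cons (P.cons (P.lf 0 24237118 0) (P.cons (P.lf 3627792 0 0) (P.cons (P.lf 1712538 0 0) (P.lf 0 81546 0)))) (P.cons (P.cons (P.lf 21651030 0 0) (P.cons (P.lf 0 180048 0) (P.cons (P.lf 0 84996 0) P.nil))) (P.cons (P.cons (P.lf 0 117678 0) (P.cons (P.lf 0 41184 0) P.nil)) (P.cons (P.cons (P.lf 0 235246 0) P.nil) P.nil)))))) 53387)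
 (EL.cons 2 (TM.mk (P.cons (P.cons (P.lf 0 67931825 0) (P.cons (P.lf 0 66983644 0) (P.cons (P.lf 2095981 0 0) (P.cons (P.lf 384077 0 0) (P.lf 0 13716 0))))) (P.cons (P.cons (P.lf 0 65209764 0) (P.cons (P.lf 0 64299577 0) (P.cons (P.lf 2011995 0 0) (P.cons (P.lf 368687 0 0) (P.lf 0 13165 0))))) (P.cons (P.cons (P.lf 4026453 0 0) (P.cons (P.lf 3970254 0 0) (P.cons (P.lf 0 124230 0) (P.cons (P.lf 0 22764 0) P.nil)))) (P.cons (P.cons (P.lf 1248629 0 0) (P.cons (P.lf 1231202 0 0) (P.cons (P.lf 0 38522 0) P.nil))) (P.cons (P.cons (P.lf 0 68625 0) (P.cons (P.lf 0 67665 0) P.nil)) (P.cons (P.cons (P.lf 0 12231 0) P.nil) P.nil)))))) 27521)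
 (EL.cons 6 (TM.mk (P.cons (P.cons (P.lf 318543594 0 0) (P.cons (P.lf 314097417 0 0) (P.cons (P.lf 0 9828411 0) (P.cons (P.lf 0 1801014 0) (P.lf 64320 0 0))))) (P.cons (P.cons (P.lf 0 15329328 0) (P.cons (P.lf 0 15115362 0) (P.cons (P.lf 472971 0 0) (P.cons (P.lf 86667 0 0) (P.lf 0 3093 0))))) (P.cons (P.cons (P.lf 0 7296306 0) (P.cons (P.lf 0 7194465 0) (P.cons (P.lf 225120 0 0) (P.cons (P.lf 41250 0 0) P.nil)))) (P.cons (P.cons (P.lf 362130 0 0) (P.cons (P.lf 357075 0 0) (P.cons (P.lf 0 11172 0) P.nil))) (P.cons (P.cons (P.lf 82839 0 0) (P.cons (P.lf 81684 0 0) P.nil)) (P.cons (P.cons (P.lf 0 4491 0) P.nil) P.nil)))))) 13443)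
 EL.nil))))))
noncomputable def S256_285_216_290_2 : EL := (EL.cons 0 (TM.mk (P.cons (P.cons (P.lf 1264749517 0 0) (P.cons (P.lf 0 156047338 0) (P.cons (P.lf 0 68959987 0) (P.cons (P.lf 7948882 0 0) (P.cons (P.lf 836758 0 0) (P.cons (P.lf 0 99836 0) P.nil)))))) (P.cons (P.cons (P.lf 0 1329258288 0) (P.cons (P.lf 97684026 0 0) (P.cons (P.lf 44853351 0 0) (P.cons (P.lf 0 3384933 0) (P.cons (P.lf 0 224033 0) P.nil))))) (P.cons (P.cons (P.lf 222728243 0 0) (P.cons (P.lf 3891667 0 0) (P.cons (P.lf 1319713 0 0) (P.cons (P.lf 0 575961 0) P.nil)))) (P.cons (P.cons (P.lf 96341189 0 0) (P.cons (P.lf 0 9268187 0) (P.cons (P.lf 0 4268652 0) P.nil))) (P.cons (P.cons (P.lf 0 27716743 0) (P.cons (P.lf 476521 0 0) P.nil)) (P.cons (P.cons (P.lf 0 1849846 0) P.nil) P.nil)))))) 3113269)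
 (EL.cons 1 (TM.mk (P.cons (P.cons (P.lf 1428208486 0 0) (P.cons (P.lf 0 95366917 0) (P.cons (P.lf 0 43942691 0) (P.cons (P.lf 3159940 0 0) (P.cons (P.lf 191462 0 0) (P.cons (P.lf 0 22843 0) P.nil)))))) (P.cons (P.cons (P.lf 0 215091372 0) (P.cons (P.lf 0 15535501 0) (P.cons (P.lf 0 6413478 0) (P.cons (P.lf 1218034 0 0) (P.cons (P.lf 163690 0 0) P.nil))))) (P.cons (P.cons (P.lf 0 231752133 0) (P.cons (P.lf 19511957 0 0) (P.cons (P.lf 8987277 0 0) (P.cons (P.lf 0 649660 0) P.nil)))) (P.cons (P.cons (P.lf 58899555 0 0) (P.cons (P.lf 0 583246 0) (P.cons (P.lf 0 332653 0) P.nil))) (P.cons (P.cons (P.lf 8140483 0 0) (P.cons (P.lf 0 1061668 0) P.nil)) (P.cons (P.cons (P.lf 0 3461211 0) P.nil) P.nil)))))) 1505421)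
 (EL.cons 5 (TM.mk (P.cons (P.cons (P.lf 1158179710 0 0) (P.cons (P.lf 0 112984516 0) (P.cons (P.lf 0 50595196 0) (P.cons (P.lf 5127063 0 0) (P.cons (P.lf 487461 0 0) (P.cons (P.lf 0 58146 0) P.nil)))))) (P.cons (P.cons (P.lf 0 229471733 0) (P.cons (P.lf 10157014 0 0) (P.cons (P.lf 4817830 0 0) (P.cons (P.lf 0 206532 0) (P.cons (P.lf 4097 0 0) P.nil))))) (P.cons (P.cons (P.lf 0 28327688 0) (P.cons (P.lf 2055627 0 0) (P.cons (P.lf 962409 0 0) (P.cons (P.lf 0 53746 0) P.nil)))) (P.cons (P.cons (P.lf 0 5596314 0) (P.cons (P.lf 989850 0 0) (P.cons (P.lf 449164 0 0) P.nil))) (P.cons (P.cons (P.lf 4804898 0 0) (P.cons (P.lf 0 137736 0) P.nil)) (P.cons (P.cons (P.lf 250190 0 0) P.nil) P.nil)))))) 1571456)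
 (EL.cons 9 (TM.mk (P.cons (P.cons (P.lf 1418707438 0 0) (P.cons (P.lf 0 148648246 0) (P.cons (P.lf 0 66277332 0) (P.cons (P.lf 7017643 0 0) (P.cons (P.lf 692631 0 0) (P.cons (P.lf 0 82636 0) P.nil)))))) (P.cons (P.cons (P.lf 0 619497241 0) (P.cons (P.lf 39608026 0 0) (P.cons (P.lf 18322650 0 0) (P.cons (P.lf 0 1244166 0) (P.cons (P.lf 0 66663 0) P.nil))))) (P.cons (P.cons (P.lf 44880498 0 0) (P.cons (P.lf 3034699 0 0) (P.cons (P.lf 1263207 0 0) (P.cons (P.lf 0 228106 0) P.nil)))) (P.cons (P.cons (P.lf 25286743 0 0) (P.cons (P.lf 0 2034258 0) (P.cons (P.lf 0 942859 0) P.nil))) (P.cons (P.cons (P.lf 0 4455817 0) (P.cons (P.lf 27960 0 0) P.nil)) (P.cons (P.cons (P.lf 0 359580 0) P.nil) P.nil)))))) 456292)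
 (EL.cons 2 (TM.mk (P.cons (P.cons (P.lf 0 63756450 0) (P.cons (P.lf 0 59526438 0) (P.cons (P.lf 6837378 0 0) (P.cons (P.lf 1737061 0 0) (P.cons (P.lf 0 154440 0) (P.cons (P.lf 0 5923 0) P.nil)))))) (P.cons (P.cons (P.lf 0 47281651 0) (P.cons (P.lf 0 43576166 0) (P.cons (P.lf 5899539 0 0) (P.cons (P.lf 1522507 0 0) (P.cons (P.lf 0 138628 0) P.nil))))) (P.cons (P.cons (P.lf 17652363 0 0) (P.cons (P.lf 16977200 0 0) (P.cons (P.lf 0 1169848 0) (P.cons (P.lf 0 276519 0) P.nil)))) (P.cons (P.cons (P.lf 380868 0 0) (P.cons (P.lf 254041 0 0) (P.cons (P.lf 0 188921 0) P.nil))) (P.cons (P.cons (P.lf 0 786380 0) (P.cons (P.lf 0 760027 0) P.nil)) (P.cons (P.cons (P.lf 27590 0 0) P.nil) P.nil)))))) 281620)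
 (EL.cons 6 (TM.mk (P.cons (P.cons (P.lf 298964574 0 0) (P.cons (P.lf 279129336 0 0) (P.cons (P.lf 0 32061624 0) (P.cons (P.lf 0 8145372 0) (P.cons (P.lf 724200 0 0) (P.cons (P.lf 27774 0 0) P.nil)))))) (P.cons (P.cons (P.lf 0 79660524 0) (P.cons (P.lf 0 77041194 0) (P.cons (P.lf 4655868 0 0) (P.cons (P.lf 1071666 0 0) (P.cons (P.lf 0 79968 0) P.nil))))) (P.cons (P.cons (P.lf 0 6103464 0) (P.cons (P.lf 0 5337042 0) (P.cons (P.lf 1181610 0 0) (P.cons (P.lf 315264 0 0) P.nil)))) (P.cons (P.cons (P.lf 4091358 0 0) (P.cons (P.lf 3964116 0 0) (P.cons (P.lf 0 228498 0) P.nil))) (P.cons (P.cons (P.lf 0 56226 0) (P.cons (P.lf 0 70086 0) P.nil)) (P.cons (P.cons (P.lf 0 95658 0) P.nil) P.nil)))))) 279462)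
 EL.nil))))))
noncomputable def S256_285_216_290_3 : EL := (EL.cons 0 (TM.mk (P.cons (P.lf 96110806 0 0) (P.cons (P.lf 190686074 0 0) (P.cons (P.lf 92290364 0 0) (P.cons (P.lf 0 3016066 0) (P.cons (P.lf 0 708651 0) (P.cons (P.lf 26673 0 0) P.nil)))))) 4788)
 (EL.cons 1 (TM.mk (P.cons (P.lf 0 450679505 0) (P.cons (P.lf 0 439849933 0) (P.cons (P.lf 16100088 0 0) (P.cons (P.lf 5127871 0 0) (P.cons (P.lf 0 176304 0) (P.cons (P.lf 0 32482 0) P.nil)))))) 1651)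
 (EL.cons 5 (TM.mk (P.cons (P.lf 2113310914 0 0) (P.cons (P.lf 0 67799490 0) (P.cons (P.lf 0 32814348 0) (P.cons (P.lf 1072376 0 0) (P.cons (P.lf 251962 0 0) (P.cons (P.lf 0 9484 0) P.nil)))))) 1830)
 EL.nil)))
noncomputable def S256_285_216_290_4 : EL := (EL.cons 0 (TM.mk (P.cons (P.cons (P.lf 45101717 0 0) (P.cons (P.lf 0 2362816 0) (P.cons (P.lf 0 1115393 0) (P.lf 53112 0 0)))) (P.cons (P.cons (P.lf 79635726 0 0) (P.cons (P.lf 0 4574176 0) (P.cons (P.lf 0 2159291 0) (P.lf 102823 0 0)))) (P.cons (P.cons (P.lf 23410395 0 0) (P.cons (P.lf 0 1989175 0) (P.cons (P.lf 0 939012 0) (P.lf 44713 0 0)))) (P.cons (P.cons (P.lf 0 11265424 0) (P.cons (P.lf 288024 0 0) (P.cons (P.lf 135965 0 0) P.nil))) (P.cons (P.cons (P.lf 268340 0 0) (P.cons (P.lf 59878 0 0) P.nil)) (P.cons (P.cons (P.lf 399635 0 0) P.nil) P.nil)))))) 92863)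
 (EL.cons 1 (TM.mk (P.cons (P.cons (P.lf 0 211489430 0) (P.cons (P.lf 11079637 0 0) (P.cons (P.lf 5230267 0 0) (P.lf 0 249058 0)))) (P.cons (P.cons (P.lf 0 160232640 0) (P.cons (P.lf 10280214 0 0) (P.cons (P.lf 4852890 0 0) (P.lf 0 231090 0)))) (P.cons (P.cons (P.lf 54316018 0 0) (P.cons (P.lf 0 1169964 0) (P.cons (P.lf 0 552292 0) (P.lf 26298 0 0)))) (P.cons (P.cons (P.lf 896960 0 0) (P.cons (P.lf 0 342103 0) (P.cons (P.lf 0 161493 0) P.nil))) (P.cons (P.cons (P.lf 0 2138647 0) (P.cons (P.lf 34638 0 0) P.nil)) (P.cons (P.cons (P.lf 62126 0 0) P.nil) P.nil)))))) 82834)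
 (EL.cons 5 (TM.mk (P.cons (P.cons (P.lf 991709008 0 0) (P.cons (P.lf 0 51954264 0) (P.cons (P.lf 0 24525592 0) (P.lf 1167884 0 0)))) (P.cons (P.cons (P.lf 0 248337508 0) (P.cons (P.lf 4167004 0 0) (P.cons (P.lf 1967078 0 0) (P.lf 0 93668 0)))) (P.cons (P.cons (P.lf 0 16402734 0) (P.cons (P.lf 1916526 0 0) (P.cons (P.lf 904716 0 0) (P.lf 0 43080 0)))) (P.cons (P.cons (P.lf 11222492 0 0) (P.cons (P.lf 0 162424 0) (P.cons (P.lf 0 76674 0) P.nil))) (P.cons (P.cons (P.lf 0 134636 0) (P.cons (P.lf 0 35016 0) P.nil)) (P.cons (P.cons (P.lf 0 220508 0) P.nil) P.nil)))))) 49016)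
 EL.nil)))
noncomputable def S256_285_216_290_5 : EL := (EL.cons 0 (TM.mk (P.cons (P.cons (P.lf 21164788 0 0) (P.cons (P.lf 0 2217587 0) (P.cons (P.lf 0 988748 0) (P.cons (P.lf 104690 0 0) (P.cons (P.lf 10332 0 0) (P.cons (P.lf 0 1232 0) P.nil)))))) (P.cons (P.cons (P.lf 32749549 0 0) (P.cons (P.lf 0 3808858 0) (P.cons (P.lf 0 1688356 0) (P.cons (P.lf 189149 0 0) (P.cons (P.lf 19504 0 0) P.nil))))) (P.cons (P.cons (P.lf 2656912 0 0) (P.cons (P.lf 0 911831 0) (P.cons (P.lf 0 388279 0) (P.cons (P.lf 60301 0 0) P.nil)))) (P.cons (P.cons (P.lf 0 7833062 0) (P.cons (P.lf 696462 0 0) (P.cons (P.lf 316828 0 0) P.nil))) (P.cons (P.cons (P.lf 1458868 0 0) (P.cons (P.lf 0 18511 0) P.nil)) (P.cons (P.cons (P.lf 277996 0 0) P.nil) P.nil)))))) 301056)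
 (EL.cons 1 (TM.mk (P.cons (P.cons (P.lf 0 99245205 0) (P.cons (P.lf 10398637 0 0) (P.cons (P.lf 4636408 0 0) (P.cons (P.lf 0 490916 0) (P.cons (P.lf 0 48451 0) (P.cons (P.lf 5778 0 0) P.nil)))))) (P.cons (P.cons (P.lf 0 53523675 0) (P.cons (P.lf 7377997 0 0) (P.cons (P.lf 3243241 0 0) (P.cons (P.lf 0 392083 0) (P.cons (P.lf 0 42624 0) P.nil))))) (P.cons (P.cons (P.lf 42701203 0 0) (P.cons (P.lf 0 3287956 0) (P.cons (P.lf 0 1504951 0) (P.cons (P.lf 118436 0 0) P.nil)))) (P.cons (P.cons (P.lf 0 5252023 0) (P.cons (P.lf 0 84215 0) (P.cons (P.lf 0 27249 0) P.nil))) (P.cons (P.cons (P.lf 0 1834468 0) (P.cons (P.lf 180106 0 0) P.nil)) (P.cons (P.cons (P.lf 438084 0 0) P.nil) P.nil)))))) 266144)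
 (EL.cons 5 (TM.mk (P.cons (P.cons (P.lf 465377220 0 0) (P.cons (P.lf 0 48760938 0) (P.cons (P.lf 0 21740888 0) (P.cons (P.lf 2301988 0 0) (P.cons (P.lf 227202 0 0) (P.cons (P.lf 0 27106 0) P.nil)))))) (P.cons (P.cons (P.lf 0 218143364 0) (P.cons (P.lf 14556936 0 0) (P.cons (P.lf 6707852 0 0) (P.cons (P.lf 0 481974 0) (P.cons (P.lf 0 29156 0) P.nil))))) (P.cons (P.cons (P.lf 14015486 0 0) (P.cons (P.lf 1335772 0 0) (P.cons (P.lf 559122 0 0) (P.cons (P.lf 0 97476 0) P.nil)))) (P.cons (P.cons (P.lf 11214002 0 0) (P.cons (P.lf 0 925716 0) (P.cons (P.lf 0 426936 0) P.nil))) (P.cons (P.cons (P.lf 0 2003980 0) (P.cons (P.lf 15900 0 0) P.nil)) (P.cons (P.cons (P.lf 0 218702 0) P.nil) P.nil)))))) 252820)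
 EL.nil)))
noncomputable def S256_285_216_290_6 : EL := (EL.cons 12 (TM.mk (P.lf 8589934592 0 0) 0)
 (EL.cons 3 (TM.mk (P.cons (P.lf 454308690 0 0) (P.cons (P.lf 450679503 0 0) (P.cons (P.lf 0 5414782 0) (P.cons (P.lf 0 1756837 0) (P.cons (P.lf 35658 0 0) (P.cons (P.lf 6731 0 0) P.nil)))))) 269)
 (EL.cons 7 (TM.mk (P.cons (P.lf 0 2130328762 0) (P.cons (P.lf 34172730 0 0) (P.cons (P.lf 16813380 0 0) (P.cons (P.lf 0 270802 0) (P.cons (P.lf 0 64991 0) (P.cons (P.lf 1601 0 0) P.nil)))))) 330)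
 EL.nil)))
noncomputable def S256_285_216_290_7 : EL := (EL.cons 12 (TM.mk (P.cons (P.cons (P.lf 4030980710 0 0) (P.cons (P.lf 0 211177512 0) (P.cons (P.lf 0 99688712 0) (P.lf 4747080 0 0)))) (P.cons (P.cons (P.lf 0 880090342 0) (P.cons (P.lf 10162528 0 0) (P.cons (P.lf 4797328 0 0) (P.lf 0 228440 0)))) (P.cons (P.cons (P.lf 0 32316158 0) (P.cons (P.lf 4837056 0 0) (P.cons (P.lf 2283384 0 0) (P.lf 0 108728 0)))) (P.cons (P.cons (P.lf 28868040 0 0) (P.cons (P.lf 0 240064 0) (P.cons (P.lf 0 113328 0) P.nil))) (P.cons (P.cons (P.lf 0 156904 0) (P.cons (P.lf 0 54912 0) P.nil)) (P.cons (P.cons (P.lf 0 313662 0) P.nil) P.nil)))))) 71158)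
 (EL.cons 3 (TM.mk (P.cons (P.cons (P.lf 0 2688526794 0) (P.cons (P.lf 22337718 0 0) (P.cons (P.lf 10544770 0 0) (P.lf 0 502130 0)))) (P.cons (P.cons (P.lf 0 24787844 0) (P.cons (P.lf 21084316 0 0) (P.cons (P.lf 9953088 0 0) (P.lf 0 473956 0)))) (P.cons (P.cons (P.lf 248514488 0 0) (P.cons (P.lf 0 1844258 0) (P.cons (P.lf 0 870600 0) (P.lf 41456 0 0)))) (P.cons (P.cons (P.lf 0 3948974 0) (P.cons (P.lf 0 555736 0) (P.cons (P.lf 0 262340 0) P.nil))) (P.cons (P.cons (P.lf 0 4580628 0) (P.cons (P.lf 43006 0 0) P.nil)) (P.cons (P.cons (P.lf 116484 0 0) P.nil) P.nil)))))) 217004)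
 (EL.cons 7 (TM.mk (P.cons (P.cons (P.lf 0 1219717540 0) (P.cons (P.lf 54913271 0 0) (P.cons (P.lf 25922427 0 0) (P.lf 0 1234403 0)))) (P.cons (P.cons (P.lf 0 1879528 0) (P.cons (P.lf 1598716 0 0) (P.cons (P.lf 754688 0 0) (P.lf 0 35936 0)))) (P.cons (P.cons (P.lf 17896252 0 0) (P.cons (P.lf 665951 0 0) (P.cons (P.lf 314368 0 0) (P.lf 0 14969 0)))) (P.cons (P.cons (P.lf 12356507 0 0) (P.cons (P.lf 0 129641 0) (P.cons (P.lf 0 61200 0) P.nil))) (P.cons (P.cons (P.lf 0 461239 0) (P.cons (P.lf 0 27781 0) P.nil)) (P.cons (P.cons (P.lf 0 242148 0) P.nil) P.nil)))))) 139621)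
 (EL.cons 10 (TM.mk (P.cons (P.cons (P.lf 0 642217461 0) (P.cons (P.lf 0 633253500 0) (P.cons (P.lf 19815114 0 0) (P.cons (P.lf 3631038 0 0) (P.lf 0 129678 0))))) (P.cons (P.cons (P.lf 20603694 0 0) (P.cons (P.lf 20316111 0 0) (P.cons (P.lf 0 635709 0) (P.cons (P.lf 0 116490 0) (P.lf 4158 0 0))))) (P.cons (P.cons (P.lf 9972003 0 0) (P.cons (P.lf 9832815 0 0) (P.cons (P.lf 0 307677 0) (P.cons (P.lf 0 56379 0) P.nil)))) (P.cons (P.cons (P.lf 0 325884 0) (P.cons (P.lf 0 321336 0) (P.cons (P.lf 10053 0 0) P.nil))) (P.cons (P.cons (P.lf 0 76569 0) (P.cons (P.lf 0 75498 0) P.nil)) (P.cons (P.cons (P.lf 2880 0 0) P.nil) P.nil)))))) 10914)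
 EL.nil))))
noncomputable def S256_285_216_290_8 : EL := (EL.cons 12 (TM.mk (P.cons (P.cons (P.lf 1891609918 0 0) (P.cons (P.lf 0 198197662 0) (P.cons (P.lf 0 88369776 0) (P.cons (P.lf 9356858 0 0) (P.cons (P.lf 923508 0 0) (P.cons (P.lf 0 110182 0) P.nil)))))) (P.cons (P.cons (P.lf 0 825996322 0) (P.cons (P.lf 52810702 0 0) (P.cons (P.lf 24430200 0 0) (P.cons (P.lf 0 1658888 0) (P.cons (P.lf 0 88884 0) P.nil))))) (P.cons (P.cons (P.lf 59840664 0 0) (P.cons (P.lf 4046266 0 0) (P.cons (P.lf 1684276 0 0) (P.cons (P.lf 0 304142 0) P.nil)))) (P.cons (P.cons (P.lf 33715658 0 0) (P.cons (P.lf 0 2712344 0) (P.cons (P.lf 0 1257146 0) P.nil))) (P.cons (P.cons (P.lf 0 5941090 0) (P.cons (P.lf 37280 0 0) P.nil)) (P.cons (P.cons (P.lf 0 479440 0) P.nil) P.nil)))))) 608360)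
 (EL.cons 3 (TM.mk (P.cons (P.cons (P.lf 0 2623323126 0) (P.cons (P.lf 163638207 0 0) (P.cons (P.lf 75874354 0 0) (P.cons (P.lf 0 4974611 0) (P.cons (P.lf 0 244216 0) (P.cons (P.lf 29136 0 0) P.nil)))))) (P.cons (P.cons (P.lf 472087616 0 0) (P.cons (P.lf 17674007 0 0) (P.cons (P.lf 7113429 0 0) (P.cons (P.lf 0 1558370 0) (P.cons (P.lf 0 218755 0) P.nil))))) (P.cons (P.cons (P.lf 299912309 0 0) (P.cons (P.lf 0 24634723 0) (P.cons (P.lf 0 11421934 0) (P.cons (P.lf 749342 0 0) P.nil)))) (P.cons (P.cons (P.lf 0 77570485 0) (P.cons (P.lf 676282 0 0) (P.cons (P.lf 376074 0 0) P.nil))) (P.cons (P.cons (P.lf 0 7021924 0) (P.cons (P.lf 995038 0 0) P.nil)) (P.cons (P.cons (P.lf 3317765 0 0) P.nil) P.nil)))))) 1630985)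
 (EL.cons 7 (TM.mk (P.cons (P.cons (P.lf 0 675623851 0) (P.cons (P.lf 62356272 0 0) (P.cons (P.lf 28023511 0 0) (P.cons (P.lf 0 2735253 0) (P.cons (P.lf 0 251250 0) (P.cons (P.lf 29971 0 0) P.nil)))))) (P.cons (P.cons (P.lf 35796014 0 0) (P.cons (P.lf 1340127 0 0) (P.cons (P.lf 539365 0 0) (P.cons (P.lf 0 118158 0) (P.cons (P.lf 0 16583 0) P.nil))))) (P.cons (P.cons (P.lf 40782945 0 0) (P.cons (P.lf 0 1192467 0) (P.cons (P.lf 0 594207 0) (P.cons (P.lf 0 2737 0) P.nil)))) (P.cons (P.cons (P.lf 9545750 0 0) (P.cons (P.lf 0 1198598 0) (P.cons (P.lf 0 551326 0) P.nil))) (P.cons (P.cons (P.lf 0 4804004 0) (P.cons (P.lf 104269 0 0) P.nil)) (P.cons (P.cons (P.lf 0 182265 0) P.nil) P.nil)))))) 932240)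
 (EL.cons 10 (TM.mk (P.cons (P.cons (P.lf 0 602744094 0) (P.cons (P.lf 0 562754166 0) (P.cons (P.lf 64639620 0 0) (P.cons (P.lf 16421940 0 0) (P.cons (P.lf 0 1460070 0) (P.cons (P.lf 0 55998 0) P.nil)))))) (P.cons (P.cons (P.lf 150935364 0 0) (P.cons (P.lf 146296002 0 0) (P.cons (P.lf 0 8349834 0) (P.cons (P.lf 0 1897170 0) (P.cons (P.lf 137814 0 0) P.nil))))) (P.cons (P.cons (P.lf 9969300 0 0) (P.cons (P.lf 8665320 0 0) (P.cons (P.lf 0 2006040 0) (P.cons (P.lf 0 536436 0) P.nil)))) (P.cons (P.cons (P.lf 0 6820836 0) (P.cons (P.lf 0 6626916 0) (P.cons (P.lf 354390 0 0) P.nil))) (P.cons (P.cons (P.lf 81828 0 0) (P.cons (P.lf 101970 0 0) P.nil)) (P.cons (P.cons (P.lf 134016 0 0) P.nil) P.nil)))))) 410208)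
 EL.nil))))
noncomputable def S256_285_216_290_9 : EL := (EL.cons 3 (TM.mk (P.cons (P.lf 454308690 0 0) (P.cons (P.lf 450679503 0 0) (P.cons (P.lf 0 5414782 0) (P.cons (P.lf 0 1756837 0) (P.cons (P.lf 35658 0 0) (P.cons (P.lf 6731 0 0) P.nil)))))) 269)
 (EL.cons 7 (TM.mk (P.cons (P.lf 0 2130328762 0) (P.cons (P.lf 34172730 0 0) (P.cons (P.lf 16813380 0 0) (P.cons (P.lf 0 270802 0) (P.cons (P.lf 0 64991 0) (P.cons (P.lf 1601 0 0) P.nil)))))) 330)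
 EL.nil))
noncomputable def S256_285_216_290_10 : EL := (EL.cons 3 (TM.mk (P.cons (P.cons (P.lf 213192492 0 0) (P.cons (P.lf 0 11168859 0) (P.cons (P.lf 0 5272385 0) (P.lf 251065 0 0)))) (P.cons (P.cons (P.lf 164942779 0 0) (P.cons (P.lf 0 10542158 0) (P.cons (P.lf 0 4976544 0) (P.lf 236978 0 0)))) (P.cons (P.cons (P.lf 0 50424955 0) (P.cons (P.lf 922129 0 0) (P.cons (P.lf 435300 0 0) (P.lf 0 20728 0)))) (P.cons (P.cons (P.lf 0 438362 0) (P.cons (P.lf 277868 0 0) (P.cons (P.lf 131170 0 0) P.nil))) (P.cons (P.cons (P.lf 1723395 0 0) (P.cons (P.lf 0 21503 0) P.nil)) (P.cons (P.cons (P.lf 0 36903 0) P.nil) P.nil)))))) 52297)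
 (EL.cons 7 (TM.mk (P.cons (P.cons (P.lf 0 999694939 0) (P.cons (P.lf 52372637 0 0) (P.cons (P.lf 24723090 0 0) (P.lf 0 1177289 0)))) (P.cons (P.cons (P.lf 234301130 0 0) (P.cons (P.lf 0 3360449 0) (P.cons (P.lf 0 1586335 0) (P.lf 75538 0 0)))) (P.cons (P.cons (P.lf 12403279 0 0) (P.cons (P.lf 0 1572520 0) (P.cons (P.lf 0 742325 0) (P.lf 35347 0 0)))) (P.cons (P.cons (P.lf 0 9137629 0) (P.cons (P.lf 105328 0 0) (P.cons (P.lf 49722 0 0) P.nil))) (P.cons (P.cons (P.lf 87749 0 0) (P.cons (P.lf 23408 0 0) P.nil)) (P.cons (P.cons (P.lf 142098 0 0) P.nil) P.nil)))))) 30636)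
 EL.nil))
noncomputable def S256_285_216_290_11 : EL := (EL.cons 3 (TM.mk (P.cons (P.cons (P.lf 100044396 0 0) (P.cons (P.lf 0 10482375 0) (P.cons (P.lf 0 4673744 0) (P.cons (P.lf 494869 0 0) (P.cons (P.lf 48842 0 0) (P.cons (P.lf 0 5826 0) P.nil)))))) (P.cons (P.cons (P.lf 55559504 0 0) (P.cons (P.lf 0 7605559 0) (P.cons (P.lf 0 3344331 0) (P.cons (P.lf 403180 0 0) (P.cons (P.lf 43751 0 0) P.nil))))) (P.cons (P.cons (P.lf 0 41364241 0) (P.cons (P.lf 3109703 0 0) (P.cons (P.lf 1426538 0 0) (P.cons (P.lf 0 109018 0) P.nil)))) (P.cons (P.cons (P.lf 5056571 0 0) (P.cons (P.lf 76084 0 0) (P.cons (P.lf 24552 0 0) P.nil))) (P.cons (P.cons (P.lf 1593776 0 0) (P.cons (P.lf 0 154508 0) P.nil)) (P.cons (P.cons (P.lf 0 372499 0) P.nil) P.nil)))))) 213757)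
 (EL.cons 7 (TM.mk (P.cons (P.cons (P.lf 0 469124761 0) (P.cons (P.lf 49153596 0 0) (P.cons (P.lf 21915961 0 0) (P.cons (P.lf 0 2320527 0) (P.cons (P.lf 0 229032 0) (P.cons (P.lf 27325 0 0) P.nil)))))) (P.cons (P.cons (P.lf 212374748 0 0) (P.cons (P.lf 0 13885683 0) (P.cons (P.lf 0 6410315 0) (P.cons (P.lf 448632 0 0) (P.cons (P.lf 25717 0 0) P.nil))))) (P.cons (P.cons (P.lf 0 14424147 0) (P.cons (P.lf 0 1181331 0) (P.cons (P.lf 0 493485 0) (P.cons (P.lf 87143 0 0) P.nil)))) (P.cons (P.cons (P.lf 0 9799906 0) (P.cons (P.lf 798382 0 0) (P.cons (P.lf 369080 0 0) P.nil))) (P.cons (P.cons (P.lf 1736392 0 0) (P.cons (P.lf 0 12281 0) P.nil)) (P.cons (P.cons (P.lf 165975 0 0) P.nil) P.nil)))))) 198616)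
 EL.nil))
noncomputable def S256_285_216_290_12 : EL := (EL.cons 4 (TM.mk (P.cons (P.lf 0 454308690 0) (P.cons (P.lf 0 450679503 0) (P.cons (P.lf 5414782 0 0) (P.cons (P.lf 1756837 0 0) (P.cons (P.lf 0 35658 0) (P.cons (P.lf 0 6731 0) P.nil)))))) 269)
 (EL.cons 8 (TM.mk (P.cons (P.lf 2130328762 0 0) (P.cons (P.lf 0 34172730 0) (P.cons (P.lf 0 16813380 0) (P.cons (P.lf 270802 0 0) (P.cons (P.lf 64991 0 0) (P.cons (P.lf 0 1601 0) P.nil)))))) 330)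
 EL.nil))
noncomputable def S256_285_216_290_13 : EL := (EL.cons 4 (TM.mk (P.cons (P.cons (P.lf 0 213192492 0) (P.cons (P.lf 11168859 0 0) (P.cons (P.lf 5272385 0 0) (P.lf 0 251065 0)))) (P.cons (P.cons (P.lf 0 164942779 0) (P.cons (P.lf 10542158 0 0) (P.cons (P.lf 4976544 0 0) (P.lf 0 236978 0)))) (P.cons (P.cons (P.lf 50424955 0 0) (P.cons (P.lf 0 922129 0) (P.cons (P.lf 0 435300 0) (P.lf 20728 0 0)))) (P.cons (P.cons (P.lf 438362 0 0) (P.cons (P.lf 0 277868 0) (P.cons (P.lf 0 131170 0) P.nil))) (P.cons (P.cons (P.lf 0 1723395 0) (P.cons (P.lf 21503 0 0) P.nil)) (P.cons (P.cons (P.lf 36903 0 0) P.nil) P.nil)))))) 52297)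
 (EL.cons 8 (TM.mk (P.cons (P.cons (P.lf 999694939 0 0) (P.cons (P.lf 0 52372637 0) (P.cons (P.lf 0 24723090 0) (P.lf 1177289 0 0)))) (P.cons (P.cons (P.lf 0 234301130 0) (P.cons (P.lf 3360449 0 0) (P.cons (P.lf 1586335 0 0) (P.lf 0 75538 0)))) (P.cons (P.cons (P.lf 0 12403279 0) (P.cons (P.lf 1572520 0 0) (P.cons (P.lf 742325 0 0) (P.lf 0 35347 0)))) (P.cons (P.cons (P.lf 9137629 0 0) (P.cons (P.lf 0 105328 0) (P.cons (P.lf 0 49722 0) P.nil))) (P.cons (P.cons (P.lf 0 87749 0) (P.cons (P.lf 0 23408 0) P.nil)) (P.cons (P.cons (P.lf 0 142098 0) P.nil) P.nil)))))) 30636)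
 EL.nil))
noncomputable def S256_285_216_290_14 : EL := (EL.cons 4 (TM.mk (P.cons (P.cons (P.lf 0 100044396 0) (P.cons (P.lf 10482375 0 0) (P.cons (P.lf 4673744 0 0) (P.cons (P.lf 0 494869 0) (P.cons (P.lf 0 48842 0) (P.cons (P.lf 5826 0 0) P.nil)))))) (P.cons (P.cons (P.lf 0 55559504 0) (P.cons (P.lf 7605559 0 0) (P.cons (P.lf 3344331 0 0) (P.cons (P.lf 0 403180 0) (P.cons (P.lf 0 43751 0) P.nil))))) (P.cons (P.cons (P.lf 41364241 0 0) (P.cons (P.lf 0 3109703 0) (P.cons (P.lf 0 1426538 0) (P.cons (P.lf 109018 0 0) P.nil)))) (P.cons (P.cons (P.lf 0 5056571 0) (P.cons (P.lf 0 76084 0) (P.cons (P.lf 0 24552 0) P.nil))) (P.cons (P.cons (P.lf 0 1593776 0) (P.cons (P.lf 154508 0 0) P.nil)) (P.cons (P.cons (P.lf 372499 0 0) P.nil) P.nil)))))) 213757)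
 (EL.cons 8 (TM.mk (P.cons (P.cons (P.lf 469124761 0 0) (P.cons (P.lf 0 49153596 0) (P.cons (P.lf 0 21915961 0) (P.cons (P.lf 2320527 0 0) (P.cons (P.lf 229032 0 0) (P.cons (P.lf 0 27325 0) P.nil)))))) (P.cons (P.cons (P.lf 0 212374748 0) (P.cons (P.lf 13885683 0 0) (P.cons (P.lf 6410315 0 0) (P.cons (P.lf 0 448632 0) (P.cons (P.lf 0 25717 0) P.nil))))) (P.cons (P.cons (P.lf 14424147 0 0) (P.cons (P.lf 1181331 0 0) (P.cons (P.lf 493485 0 0) (P.cons (P.lf 0 87143 0) P.nil)))) (P.cons (P.cons (P.lf 9799906 0 0) (P.cons (P.lf 0 798382 0) (P.cons (P.lf 0 369080 0) P.nil))) (P.cons (P.cons (P.lf 0 1736392 0) (P.cons (P.lf 12281 0 0) P.nil)) (P.cons (P.cons (P.lf 0 165975 0) P.nil) P.nil)))))) 198616)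
 EL.nil))
noncomputable def S256_285_216_290_15 : EL := (EL.cons 4 (TM.mk (P.cons (P.lf 0 51259096 0) (P.cons (P.lf 0 101699239 0) (P.cons (P.lf 0 49221527 0) (P.cons (P.lf 1608569 0 0) (P.cons (P.lf 377947 0 0) (P.cons (P.lf 0 14225 0) P.nil)))))) 2557)
 (EL.cons 8 (TM.mk (P.cons (P.lf 240362403 0 0) (P.cons (P.lf 234586631 0 0) (P.cons (P.lf 0 8586714 0) (P.cons (P.lf 0 2734865 0) (P.cons (P.lf 94029 0 0) (P.cons (P.lf 17324 0 0) P.nil)))))) 877)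
 EL.nil))
noncomputable def S256_285_216_290_16 : EL := (EL.cons 4 (TM.mk (P.cons (P.cons (P.lf 0 24054249 0) (P.cons (P.lf 1260168 0 0) (P.cons (P.lf 594876 0 0) (P.lf 0 28326 0)))) (P.cons (P.cons (P.lf 0 42472387 0) (P.cons (P.lf 2439560 0 0) (P.cons (P.lf 1151622 0 0) (P.lf 0 54839 0)))) (P.cons (P.cons (P.lf 0 12485544 0) (P.cons (P.lf 1060893 0 0) (P.cons (P.lf 500806 0 0) (P.lf 0 23847 0)))) (P.cons (P.cons (P.lf 6008226 0 0) (P.cons (P.lf 0 153613 0) (P.cons (P.lf 0 72514 0) P.nil))) (P.cons (P.cons (P.lf 0 143115 0) (P.cons (P.lf 0 31935 0) P.nil)) (P.cons (P.cons (P.lf 0 213138 0) P.nil) P.nil)))))) 49535)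
 (EL.cons 8 (TM.mk (P.cons (P.cons (P.lf 112794363 0 0) (P.cons (P.lf 0 5909140 0) (P.cons (P.lf 0 2789476 0) (P.lf 132831 0 0)))) (P.cons (P.cons (P.lf 85457408 0 0) (P.cons (P.lf 0 5482781 0) (P.cons (P.lf 0 2588208 0) (P.lf 123248 0 0)))) (P.cons (P.cons (P.lf 0 28968543 0) (P.cons (P.lf 623981 0 0) (P.cons (P.lf 294556 0 0) (P.lf 0 14026 0)))) (P.cons (P.cons (P.lf 0 478379 0) (P.cons (P.lf 182455 0 0) (P.cons (P.lf 86130 0 0) P.nil))) (P.cons (P.cons (P.lf 1140612 0 0) (P.cons (P.lf 0 18474 0) P.nil)) (P.cons (P.cons (P.lf 0 33134 0) P.nil) P.nil)))))) 44168)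
 EL.nil))
noncomputable def S256_285_216_290_17 : EL := (EL.cons 4 (TM.mk (P.cons (P.cons (P.lf 0 11287887 0) (P.cons (P.lf 1182713 0 0) (P.cons (P.lf 527332 0 0) (P.cons (P.lf 0 55834 0) (P.cons (P.lf 0 5510 0) (P.cons (P.lf 657 0 0) P.nil)))))) (P.cons (P.cons (P.lf 0 17466426 0) (P.cons (P.lf 2031390 0 0) (P.cons (P.lf 900456 0 0) (P.cons (P.lf 0 100879 0) (P.cons (P.lf 0 10402 0) P.nil))))) (P.cons (P.cons (P.lf 0 1417020 0) (P.cons (P.lf 486310 0 0) (P.cons (P.lf 207082 0 0) (P.cons (P.lf 0 32160 0) P.nil)))) (P.cons (P.cons (P.lf 4177633 0 0) (P.cons (P.lf 0 371446 0) (P.cons (P.lf 0 168975 0) P.nil))) (P.cons (P.cons (P.lf 0 778063 0) (P.cons (P.lf 9872 0 0) P.nil)) (P.cons (P.cons (P.lf 0 148264 0) P.nil) P.nil)))))) 160573)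
 (EL.cons 8 (TM.mk (P.cons (P.cons (P.lf 52930776 0 0) (P.cons (P.lf 0 5545940 0) (P.cons (P.lf 0 2472751 0) (P.cons (P.lf 261822 0 0) (P.cons (P.lf 25841 0 0) (P.cons (P.lf 0 3082 0) P.nil)))))) (P.cons (P.cons (P.lf 28545960 0 0) (P.cons (P.lf 0 3934932 0) (P.cons (P.lf 0 1729729 0) (P.cons (P.lf 209111 0 0) (P.cons (P.lf 22733 0 0) P.nil))))) (P.cons (P.cons (P.lf 0 22773975 0) (P.cons (P.lf 1753577 0 0) (P.cons (P.lf 802641 0 0) (P.cons (P.lf 0 63166 0) P.nil)))) (P.cons (P.cons (P.lf 2801079 0 0) (P.cons (P.lf 44915 0 0) (P.cons (P.lf 14533 0 0) P.nil))) (P.cons (P.cons (P.lf 978383 0 0) (P.cons (P.lf 0 96057 0) P.nil)) (P.cons (P.cons (P.lf 0 233645 0) P.nil) P.nil)))))) 141932)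
 EL.nil))
noncomputable def S256_285_216_290_18 : EL := (EL.cons 4 (TM.mk (P.cons (P.lf 0 5783501 0) (P.cons (P.lf 0 17211901 0) (P.cons (P.lf 0 16867610 0) (P.cons (P.lf 0 5168619 0) (P.cons (P.lf 332796 0 0) (P.cons (P.lf 59024 0 0) P.nil)))))) 4306)
 (EL.cons 8 (TM.mk (P.cons (P.lf 27119797 0 0) (P.cons (P.lf 53371278 0 0) (P.cons (P.lf 24964624 0 0) (P.cons (P.lf 0 1690000 0) (P.cons (P.lf 0 384174 0) (P.cons (P.lf 22382 0 0) P.nil)))))) 4185)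
 EL.nil))
noncomputable def S256_285_216_290_19 : EL := (EL.cons 4 (TM.mk (P.cons (P.cons (P.lf 0 2714010 0) (P.cons (P.lf 142183 0 0) (P.cons (P.lf 67118 0 0) (P.lf 0 3195 0)))) (P.cons (P.cons (P.lf 0 7484438 0) (P.cons (P.lf 416299 0 0) (P.cons (P.lf 196518 0 0) (P.lf 0 9357 0)))) (P.cons (P.cons (P.lf 0 6130207 0) (P.cons (P.lf 391058 0 0) (P.cons (P.lf 184603 0 0) (P.lf 0 8790 0)))) (P.cons (P.cons (P.lf 0 651962 0) (P.cons (P.lf 97580 0 0) (P.cons (P.lf 46064 0 0) P.nil))) (P.cons (P.cons (P.lf 691445 0 0) (P.cons (P.lf 0 23276 0) P.nil)) (P.cons (P.cons (P.lf 0 43114 0) P.nil) P.nil)))))) 55370)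
 (EL.cons 8 (TM.mk (P.cons (P.cons (P.lf 12726450 0 0) (P.cons (P.lf 0 666721 0) (P.cons (P.lf 0 314733 0) (P.lf 14986 0 0)))) (P.cons (P.cons (P.lf 22266842 0 0) (P.cons (P.lf 0 1280010 0) (P.cons (P.lf 0 604243 0) (P.lf 28773 0 0)))) (P.cons (P.cons (P.lf 6144862 0 0) (P.cons (P.lf 0 535323 0) (P.cons (P.lf 0 252705 0) (P.lf 12033 0 0)))) (P.cons (P.cons (P.lf 0 3460485 0) (P.cons (P.lf 100378 0 0) (P.cons (P.lf 47384 0 0) P.nil))) (P.cons (P.cons (P.lf 77818 0 0) (P.cons (P.lf 19837 0 0) P.nil)) (P.cons (P.cons (P.lf 138155 0 0) P.nil) P.nil)))))) 35803)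
 EL.nil))
noncomputable def S256_285_216_290_20 : EL := (EL.cons 4 (TM.mk (P.cons (P.cons (P.lf 0 1273598 0) (P.cons (P.lf 133443 0 0) (P.cons (P.lf 59497 0 0) (P.cons (P.lf 0 6299 0) (P.cons (P.lf 0 621 0) (P.cons (P.lf 74 0 0) P.nil)))))) (P.cons (P.cons (P.lf 0 3234139 0) (P.cons (P.lf 361576 0 0) (P.cons (P.lf 160620 0 0) (P.cons (P.lf 0 17631 0) (P.cons (P.lf 0 1789 0) P.nil))))) (P.cons (P.cons (P.lf 0 2099673 0) (P.cons (P.lf 280647 0 0) (P.cons (P.lf 123441 0 0) (P.cons (P.lf 0 14844 0) P.nil)))) (P.cons (P.cons (P.lf 341166 0 0) (P.cons (P.lf 9272 0 0) (P.cons (P.lf 2671 0 0) P.nil))) (P.cons (P.cons (P.lf 389229 0 0) (P.cons (P.lf 0 41990 0) P.nil)) (P.cons (P.cons (P.lf 0 108988 0) P.nil) P.nil)))))) 111626)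
 (EL.cons 8 (TM.mk (P.cons (P.cons (P.lf 5972114 0 0) (P.cons (P.lf 0 625741 0) (P.cons (P.lf 0 278997 0) (P.cons (P.lf 29540 0 0) (P.cons (P.lf 2915 0 0) (P.cons (P.lf 0 347 0) P.nil)))))) (P.cons (P.cons (P.lf 9145213 0 0) (P.cons (P.lf 0 1064716 0) (P.cons (P.lf 0 471931 0) (P.cons (P.lf 52898 0 0) (P.cons (P.lf 5456 0 0) P.nil))))) (P.cons (P.cons (P.lf 554336 0 0) (P.cons (P.lf 0 235114 0) (P.cons (P.lf 0 99717 0) (P.cons (P.lf 15926 0 0) P.nil)))) (P.cons (P.cons (P.lf 0 2294472 0) (P.cons (P.lf 209052 0 0) (P.cons (P.lf 94882 0 0) P.nil))) (P.cons (P.cons (P.lf 442547 0 0) (P.cons (P.lf 0 6500 0) P.nil)) (P.cons (P.cons (P.lf 89656 0 0) P.nil) P.nil)))))) 98511)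
 EL.nil))
noncomputable def S256_285_216_290_21 : EL := (EL.cons 4 (TM.mk (P.cons (P.cons (P.lf 2901719286 0 0) (P.cons (P.lf 0 33506577 0) (P.cons (P.lf 0 15817155 0) (P.lf 753195 0 0)))) (P.cons (P.cons (P.lf 189730623 0 0) (P.cons (P.lf 0 31626474 0) (P.cons (P.lf 0 14929632 0) (P.lf 710934 0 0)))) (P.cons (P.cons (P.lf 0 298939443 0) (P.cons (P.lf 2766387 0 0) (P.cons (P.lf 1305900 0 0) (P.lf 0 62184 0)))) (P.cons (P.cons (P.lf 3510612 0 0) (P.cons (P.lf 833604 0 0) (P.cons (P.lf 393510 0 0) P.nil))) (P.cons (P.cons (P.lf 6304023 0 0) (P.cons (P.lf 0 64509 0) P.nil)) (P.cons (P.cons (P.lf 0 153387 0) P.nil) P.nil)))))) 164688)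
 (EL.cons 8 (TM.mk (P.cons (P.cons (P.lf 220022601 0 0) (P.cons (P.lf 0 2540634 0) (P.cons (P.lf 0 1199337 0) (P.lf 57114 0 0)))) (P.cons (P.cons (P.lf 236180658 0 0) (P.cons (P.lf 0 4959165 0) (P.cons (P.lf 0 2341023 0) (P.lf 111474 0 0)))) (P.cons (P.cons (P.lf 0 5492973 0) (P.cons (P.lf 0 2238471 0) (P.cons (P.lf 0 1056693 0) (P.lf 50316 0 0)))) (P.cons (P.cons (P.lf 0 21494136 0) (P.cons (P.lf 234969 0 0) (P.cons (P.lf 110922 0 0) P.nil))) (P.cons (P.cons (P.lf 548988 0 0) (P.cons (P.lf 51189 0 0) P.nil)) (P.cons (P.cons (P.lf 384246 0 0) P.nil) P.nil)))))) 108966)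
 (EL.cons 11 (TM.mk (P.cons (P.cons (P.lf 642217461 0 0) (P.cons (P.lf 633253500 0 0) (P.cons (P.lf 0 19815114 0) (P.cons (P.lf 0 3631038 0) (P.lf 129678 0 0))))) (P.cons (P.cons (P.lf 0 20603694 0) (P.cons (P.lf 0 20316111 0) (P.cons (P.lf 635709 0 0) (P.cons (P.lf 116490 0 0) (P.lf 0 4158 0))))) (P.cons (P.cons (P.lf 0 9972003 0) (P.cons (P.lf 0 9832815 0) (P.cons (P.lf 307677 0 0) (P.cons (P.lf 56379 0 0) P.nil)))) (P.cons (P.cons (P.lf 325884 0 0) (P.cons (P.lf 321336 0 0) (P.cons (P.lf 0 10053 0) P.nil))) (P.cons (P.cons (P.lf 76569 0 0) (P.cons (P.lf 75498 0 0) P.nil)) (P.cons (P.cons (P.lf 0 2880 0) P.nil) P.nil)))))) 10914)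
 EL.nil)))
noncomputable def S256_285_216_290_22 : EL := (EL.cons 4 (TM.mk (P.cons (P.cons (P.lf 1361683761 0 0) (P.cons (P.lf 0 87060291 0) (P.cons (P.lf 0 40274049 0) (P.cons (P.lf 2734740 0 0) (P.cons (P.lf 146529 0 0) (P.cons (P.lf 0 17481 0) P.nil)))))) (P.cons (P.cons (P.lf 0 208264056 0) (P.cons (P.lf 0 12639783 0) (P.cons (P.lf 0 5228880 0) (P.cons (P.lf 980775 0 0) (P.cons (P.lf 131253 0 0) P.nil))))) (P.cons (P.cons (P.lf 0 170638275 0) (P.cons (P.lf 13872213 0 0) (P.cons (P.lf 6424236 0 0) (P.cons (P.lf 0 429180 0) P.nil)))) (P.cons (P.cons (P.lf 41313528 0 0) (P.cons (P.lf 0 300099 0) (P.cons (P.lf 0 175761 0) P.nil))) (P.cons (P.cons (P.lf 4307850 0 0) (P.cons (P.lf 0 574773 0) P.nil)) (P.cons (P.cons (P.lf 0 1845132 0) P.nil) P.nil)))))) 708603)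
 (EL.cons 8 (TM.mk (P.cons (P.cons (P.lf 103249545 0 0) (P.cons (P.lf 0 6601338 0) (P.cons (P.lf 0 3053775 0) (P.cons (P.lf 207363 0 0) (P.cons (P.lf 11109 0 0) (P.cons (P.lf 0 1323 0) P.nil)))))) (P.cons (P.cons (P.lf 88289367 0 0) (P.cons (P.lf 0 7612905 0) (P.cons (P.lf 0 3474840 0) (P.cons (P.lf 283395 0 0) (P.cons (P.lf 21150 0 0) P.nil))))) (P.cons (P.cons (P.lf 0 27603546 0) (P.cons (P.lf 5568 0 0) (P.cons (P.lf 50361 0 0) (P.cons (P.lf 44940 0 0) P.nil)))) (P.cons (P.cons (P.lf 0 9672828 0) (P.cons (P.lf 998490 0 0) (P.cons (P.lf 460203 0 0) P.nil))) (P.cons (P.cons (P.lf 3270198 0 0) (P.cons (P.lf 0 58275 0) P.nil)) (P.cons (P.cons (P.lf 174120 0 0) P.nil) P.nil)))))) 366801)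
 (EL.cons 11 (TM.mk (P.cons (P.cons (P.lf 301372047 0 0) (P.cons (P.lf 281377083 0 0) (P.cons (P.lf 0 32319810 0) (P.cons (P.lf 0 8210970 0) (P.cons (P.lf 730035 0 0) (P.cons (P.lf 27999 0 0) P.nil)))))) (P.cons (P.cons (P.lf 0 75467682 0) (P.cons (P.lf 0 73148001 0) (P.cons (P.lf 4174917 0 0) (P.cons (P.lf 948585 0 0) (P.cons (P.lf 0 68907 0) P.nil))))) (P.cons (P.cons (P.lf 0 4984650 0) (P.cons (P.lf 0 4332660 0) (P.cons (P.lf 1003020 0 0) (P.cons (P.lf 268218 0 0) P.nil)))) (P.cons (P.cons (P.lf 3410418 0 0) (P.cons (P.lf 3313458 0 0) (P.cons (P.lf 0 177195 0) P.nil))) (P.cons (P.cons (P.lf 0 40914 0) (P.cons (P.lf 0 50985 0) P.nil)) (P.cons (P.cons (P.lf 0 67008 0) P.nil) P.nil)))))) 205104)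
 EL.nil)))
noncomputable def S256_285_216_290_23 : EL := (EL.cons 4 (TM.mk (P.cons (P.cons (P.lf 327397455 0 0) (P.cons (P.lf 0 3780504 0) (P.cons (P.lf 0 1784628 0) (P.lf 84981 0 0)))) (P.cons (P.cons (P.lf 346189158 0 0) (P.cons (P.lf 0 7318680 0) (P.cons (P.lf 0 3454866 0) (P.lf 164517 0 0)))) (P.cons (P.cons (P.lf 0 16395066 0) (P.cons (P.lf 0 3182682 0) (P.cons (P.lf 0 1502421 0) (P.lf 71544 0 0)))) (P.cons (P.cons (P.lf 0 34584645 0) (P.cons (P.lf 460839 0 0) (P.cons (P.lf 217542 0 0) P.nil))) (P.cons (P.cons (P.lf 1449129 0 0) (P.cons (P.lf 95805 0 0) P.nil)) (P.cons (P.cons (P.lf 820527 0 0) P.nil) P.nil)))))) 144426)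
 (EL.cons 8 (TM.mk (P.cons (P.cons (P.lf 24824880 0 0) (P.cons (P.lf 0 286656 0) (P.cons (P.lf 0 135318 0) (P.lf 6444 0 0)))) (P.cons (P.cons (P.lf 51274548 0 0) (P.cons (P.lf 0 843903 0) (P.cons (P.lf 0 398373 0) (P.lf 18969 0 0)))) (P.cons (P.cons (P.lf 25519455 0 0) (P.cons (P.lf 0 804213 0) (P.cons (P.lf 0 379635 0) (P.lf 18075 0 0)))) (P.cons (P.cons (P.lf 0 3453579 0) (P.cons (P.lf 0 216255 0) (P.cons (P.lf 0 102084 0) P.nil))) (P.cons (P.cons (P.lf 0 2437554 0) (P.cons (P.lf 37224 0 0) P.nil)) (P.cons (P.cons (P.lf 138561 0 0) P.nil) P.nil)))))) 108324)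
 (EL.cons 11 (TM.mk (P.cons (P.cons (P.lf 72460614 0 0) (P.cons (P.lf 71449221 0 0) (P.cons (P.lf 0 2235714 0) (P.cons (P.lf 0 409683 0) (P.lf 14631 0 0))))) (P.cons (P.cons (P.lf 69557082 0 0) (P.cons (P.lf 68586216 0 0) (P.cons (P.lf 0 2146128 0) (P.cons (P.lf 0 393267 0) (P.lf 14043 0 0))))) (P.cons (P.cons (P.lf 0 4294884 0) (P.cons (P.lf 0 4234938 0) (P.cons (P.lf 132513 0 0) (P.cons (P.lf 24282 0 0) P.nil)))) (P.cons (P.cons (P.lf 0 1331871 0) (P.cons (P.lf 0 1313283 0) (P.cons (P.lf 41091 0 0) P.nil))) (P.cons (P.cons (P.lf 73200 0 0) (P.cons (P.lf 72177 0 0) P.nil)) (P.cons (P.cons (P.lf 13047 0 0) P.nil) P.nil)))))) 29334)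
 EL.nil)))
noncomputable def S256_285_216_290_24 : EL := (EL.cons 4 (TM.mk (P.cons (P.cons (P.lf 153637122 0 0) (P.cons (P.lf 0 9822906 0) (P.cons (P.lf 0 4544070 0) (P.cons (P.lf 308556 0 0) (P.cons (P.lf 16530 0 0) (P.cons (P.lf 0 1971 0) P.nil)))))) (P.cons (P.cons (P.lf 128911629 0 0) (P.cons (P.lf 0 11170569 0) (P.cons (P.lf 0 5097738 0) (P.cons (P.lf 416751 0 0) (P.cons (P.lf 31209 0 0) P.nil))))) (P.cons (P.cons (P.lf 0 44394534 0) (P.cons (P.lf 267522 0 0) (P.cons (P.lf 193740 0 0) (P.cons (P.lf 57672 0 0) P.nil)))) (P.cons (P.cons (P.lf 0 14751807 0) (P.cons (P.lf 1573803 0 0) (P.cons (P.lf 723819 0 0) P.nil))) (P.cons (P.cons (P.lf 5442564 0 0) (P.cons (P.lf 0 112350 0) P.nil)) (P.cons (P.cons (P.lf 293307 0 0) P.nil) P.nil)))))) 590229)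
 (EL.cons 8 (TM.mk (P.cons (P.cons (P.lf 11649519 0 0) (P.cons (P.lf 0 744819 0) (P.cons (P.lf 0 344553 0) (P.cons (P.lf 23394 0 0) (P.cons (P.lf 1251 0 0) (P.cons (P.lf 0 147 0) P.nil)))))) (P.cons (P.cons (P.lf 21518040 0 0) (P.cons (P.lf 0 1597824 0) (P.cons (P.lf 0 733863 0) (P.cons (P.lf 55182 0 0) (P.cons (P.lf 3630 0 0) P.nil))))) (P.cons (P.cons (P.lf 6628683 0 0) (P.cons (P.lf 0 842586 0) (P.cons (P.lf 0 379140 0) (P.cons (P.lf 36510 0 0) P.nil)))) (P.cons (P.cons (P.lf 0 4344747 0) (P.cons (P.lf 126399 0 0) (P.cons (P.lf 63564 0 0) P.nil))) (P.cons (P.cons (P.lf 0 714168 0) (P.cons (P.lf 108438 0 0) P.nil)) (P.cons (P.cons (P.lf 411675 0 0) P.nil) P.nil)))))) 175434)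
 (EL.cons 11 (TM.mk (P.cons (P.cons (P.lf 34003440 0 0) (P.cons (P.lf 31747434 0 0) (P.cons (P.lf 0 3646602 0) (P.cons (P.lf 0 926433 0) (P.cons (P.lf 82368 0 0) (P.cons (P.lf 3159 0 0) P.nil)))))) (P.cons (P.cons (P.lf 25216881 0 0) (P.cons (P.lf 23240622 0 0) (P.cons (P.lf 0 3146421 0) (P.cons (P.lf 0 812004 0) (P.cons (P.lf 73935 0 0) P.nil))))) (P.cons (P.cons (P.lf 0 9414594 0) (P.cons (P.lf 0 9054507 0) (P.cons (P.lf 623919 0 0) (P.cons (P.lf 147477 0 0) P.nil)))) (P.cons (P.cons (P.lf 0 203130 0) (P.cons (P.lf 0 135489 0) (P.cons (P.lf 100758 0 0) P.nil))) (P.cons (P.cons (P.lf 419403 0 0) (P.cons (P.lf 405348 0 0) P.nil)) (P.cons (P.cons (P.lf 0 14715 0) P.nil) P.nil)))))) 150186)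
 EL.nil)))
noncomputable def S256_285_216_290_25 : EL := (EL.cons 4 (TM.mk (P.cons (P.cons (P.lf 36939855 0 0) (P.cons (P.lf 0 426549 0) (P.cons (P.lf 0 201357 0) (P.lf 9588 0 0)))) (P.cons (P.cons (P.lf 75704868 0 0) (P.cons (P.lf 0 1248900 0) (P.cons (P.lf 0 589557 0) (P.lf 28074 0 0)))) (P.cons (P.cons (P.lf 36457962 0 0) (P.cons (P.lf 0 1173174 0) (P.cons (P.lf 0 553809 0) (P.lf 26370 0 0)))) (P.cons (P.cons (P.lf 0 6345594 0) (P.cons (P.lf 0 292740 0) (P.cons (P.lf 0 138192 0) P.nil))) (P.cons (P.cons (P.lf 0 3833565 0) (P.cons (P.lf 69828 0 0) P.nil)) (P.cons (P.cons (P.lf 312051 0 0) P.nil) P.nil)))))) 198099)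
 (EL.cons 8 (TM.mk (P.cons (P.cons (P.lf 2800959 0 0) (P.cons (P.lf 0 32343 0) (P.cons (P.lf 0 15267 0) (P.lf 726 0 0)))) (P.cons (P.cons (P.lf 8563830 0 0) (P.cons (P.lf 0 127299 0) (P.cons (P.lf 0 60093 0) (P.lf 2859 0 0)))) (P.cons (P.cons (P.lf 8584974 0 0) (P.cons (P.lf 0 184806 0) (P.cons (P.lf 0 87240 0) (P.lf 4152 0 0)))) (P.cons (P.cons (P.lf 2386878 0 0) (P.cons (P.lf 0 113151 0) (P.cons (P.lf 0 53415 0) P.nil))) (P.cons (P.cons (P.lf 0 718044 0) (P.cons (P.lf 0 18555 0) P.nil)) (P.cons (P.cons (P.lf 0 263190 0) P.nil) P.nil)))))) 68355)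
 (EL.cons 11 (TM.mk (P.cons (P.cons (P.lf 8175642 0 0) (P.cons (P.lf 8061528 0 0) (P.cons (P.lf 0 252252 0) (P.cons (P.lf 0 46224 0) (P.lf 1650 0 0))))) (P.cons (P.cons (P.lf 15958371 0 0) (P.cons (P.lf 15735627 0 0) (P.cons (P.lf 0 492381 0) (P.cons (P.lf 0 90225 0) (P.lf 3222 0 0))))) (P.cons (P.cons (P.lf 7203315 0 0) (P.cons (P.lf 7102773 0 0) (P.cons (P.lf 0 222252 0) (P.cons (P.lf 0 40725 0) P.nil)))) (P.cons (P.cons (P.lf 0 756141 0) (P.cons (P.lf 0 745587 0) (P.cons (P.lf 23328 0 0) P.nil))) (P.cons (P.cons (P.lf 0 164745 0) (P.cons (P.lf 0 162444 0) P.nil)) (P.cons (P.cons (P.lf 14067 0 0) P.nil) P.nil)))))) 33600)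
 EL.nil)))
noncomputable def S256_285_216_290_26 : EL := (EL.cons 4 (TM.mk (P.cons (P.cons (P.lf 17334687 0 0) (P.cons (P.lf 0 1108305 0) (P.cons (P.lf 0 512700 0) (P.cons (P.lf 34812 0 0) (P.cons (P.lf 1863 0 0) (P.cons (P.lf 0 222 0) P.nil)))))) (P.cons (P.cons (P.lf 31741155 0 0) (P.cons (P.lf 0 2359812 0) (P.cons (P.lf 0 1083777 0) (P.cons (P.lf 81555 0 0) (P.cons (P.lf 5370 0 0) P.nil))))) (P.cons (P.cons (P.lf 9213162 0 0) (P.cons (P.lf 0 1206897 0) (P.cons (P.lf 0 542604 0) (P.cons (P.lf 52737 0 0) P.nil)))) (P.cons (P.cons (P.lf 0 6873786 0) (P.cons (P.lf 226821 0 0) (P.cons (P.lf 112188 0 0) P.nil))) (P.cons (P.cons (P.lf 0 1032237 0) (P.cons (P.lf 167901 0 0) P.nil)) (P.cons (P.cons (P.lf 682872 0 0) P.nil) P.nil)))))) 288312)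
 (EL.cons 8 (TM.mk (P.cons (P.cons (P.lf 1314399 0 0) (P.cons (P.lf 0 84036 0) (P.cons (P.lf 0 38874 0) (P.cons (P.lf 2637 0 0) (P.cons (P.lf 141 0 0) (P.cons (P.lf 0 15 0) P.nil)))))) (P.cons (P.cons (P.lf 3731754 0 0) (P.cons (P.lf 0 263646 0) (P.cons (P.lf 0 121365 0) (P.cons (P.lf 8844 0 0) (P.cons (P.lf 549 0 0) P.nil))))) (P.cons (P.cons (P.lf 3140700 0 0) (P.cons (P.lf 0 272907 0) (P.cons (P.lf 0 124452 0) (P.cons (P.lf 10263 0 0) P.nil)))) (P.cons (P.cons (P.lf 217698 0 0) (P.cons (P.lf 0 77571 0) (P.cons (P.lf 0 34125 0) P.nil))) (P.cons (P.cons (P.lf 0 585072 0) (P.cons (P.lf 28206 0 0) P.nil)) (P.cons (P.cons (P.lf 0 30324 0) P.nil) P.nil)))))) 115974)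
 (EL.cons 11 (TM.mk (P.cons (P.cons (P.lf 3836565 0 0) (P.cons (P.lf 3582024 0 0) (P.cons (P.lf 0 411441 0) (P.cons (P.lf 0 104526 0) (P.cons (P.lf 9291 0 0) (P.cons (P.lf 354 0 0) P.nil)))))) (P.cons (P.cons (P.lf 6651108 0 0) (P.cons (P.lf 6175620 0 0) (P.cons (P.lf 0 763161 0) (P.cons (P.lf 0 195309 0) (P.cons (P.lf 17559 0 0) P.nil))))) (P.cons (P.cons (P.lf 1714497 0 0) (P.cons (P.lf 1536960 0 0) (P.cons (P.lf 0 276870 0) (P.cons (P.lf 0 72999 0) P.nil)))) (P.cons (P.cons (P.lf 0 1125417 0) (P.cons (P.lf 0 1073838 0) (P.cons (P.lf 87024 0 0) P.nil))) (P.cons (P.cons (P.lf 26541 0 0) (P.cons (P.lf 32886 0 0) P.nil)) (P.cons (P.cons (P.lf 49941 0 0) P.nil) P.nil)))))) 129633)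
 EL.nil)))
noncomputable def S256_285_216_290_27 : EL := (EL.cons 13 (TM.mk (P.lf 0 4294967296 0) 0)
 EL.nil)
noncomputable def S256_285_216_290_28 : EL := (EL.cons 13 (TM.mk (P.cons (P.cons (P.lf 0 2015490355 0) (P.cons (P.lf 105588756 0 0) (P.cons (P.lf 49844356 0 0) (P.lf 0 2373540 0)))) (P.cons (P.cons (P.lf 440045171 0 0) (P.cons (P.lf 0 5081264 0) (P.cons (P.lf 0 2398664 0) (P.lf 114220 0 0)))) (P.cons (P.cons (P.lf 16158079 0 0) (P.cons (P.lf 0 2418528 0) (P.cons (P.lf 0 1141692 0) (P.lf 54364 0 0)))) (P.cons (P.cons (P.lf 0 14434020 0) (P.cons (P.lf 120032 0 0) (P.cons (P.lf 56664 0 0) P.nil))) (P.cons (P.cons (P.lf 78452 0 0) (P.cons (P.lf 27456 0 0) P.nil)) (P.cons (P.cons (P.lf 156831 0 0) P.nil) P.nil)))))) 35579)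
 EL.nil)
noncomputable def S256_285_216_290_29 : EL := (EL.cons 13 (TM.mk (P.cons (P.cons (P.lf 0 945804959 0) (P.cons (P.lf 99098831 0 0) (P.cons (P.lf 44184888 0 0) (P.cons (P.lf 0 4678429 0) (P.cons (P.lf 0 461754 0) (P.cons (P.lf 55091 0 0) P.nil)))))) (P.cons (P.cons (P.lf 412998161 0 0) (P.cons (P.lf 0 26405351 0) (P.cons (P.lf 0 12215100 0) (P.cons (P.lf 829444 0 0) (P.cons (P.lf 44442 0 0) P.nil))))) (P.cons (P.cons (P.lf 0 29920332 0) (P.cons (P.lf 0 2023133 0) (P.cons (P.lf 0 842138 0) (P.cons (P.lf 152071 0 0) P.nil)))) (P.cons (P.cons (P.lf 0 16857829 0) (P.cons (P.lf 1356172 0 0) (P.cons (P.lf 628573 0 0) P.nil))) (P.cons (P.cons (P.lf 2970545 0 0) (P.cons (P.lf 0 18640 0) P.nil)) (P.cons (P.cons (P.lf 239720 0 0) P.nil) P.nil)))))) 304180)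
 EL.nil)
noncomputable def S256_285_216_290_30 : EL := (EL.cons 13 (TM.mk (P.cons (P.lf 0 484595936 0) (P.cons (P.lf 0 480724804 0) (P.cons (P.lf 5775768 0 0) (P.cons (P.lf 1873960 0 0) (P.cons (P.lf 0 38036 0) (P.cons (P.lf 0 7180 0) P.nil)))))) 280)
 EL.nil)
noncomputable def S256_285_216_290_31 : EL := (EL.cons 13 (TM.mk (P.cons (P.cons (P.lf 0 227405325 0) (P.cons (P.lf 11913450 0 0) (P.cons (P.lf 5623878 0 0) (P.lf 0 267803 0)))) (P.cons (P.cons (P.lf 0 175938965 0) (P.cons (P.lf 11244969 0 0) (P.cons (P.lf 5308314 0 0) (P.lf 0 252777 0)))) (P.cons (P.cons (P.lf 53786619 0 0) (P.cons (P.lf 0 983605 0) (P.cons (P.lf 0 464321 0) (P.lf 22110 0 0)))) (P.cons (P.cons (P.lf 467587 0 0) (P.cons (P.lf 0 296393 0) (P.cons (P.lf 0 139915 0) P.nil))) (P.cons (P.cons (P.lf 0 1838288 0) (P.cons (P.lf 22937 0 0) P.nil)) (P.cons (P.cons (P.lf 39364 0 0) P.nil) P.nil)))))) 55764)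
 EL.nil)
noncomputable def S256_285_216_290_32 : EL := (EL.cons 13 (TM.mk (P.cons (P.cons (P.lf 0 106714023 0) (P.cons (P.lf 11181200 0 0) (P.cons (P.lf 4985327 0 0) (P.cons (P.lf 0 527861 0) (P.cons (P.lf 0 52099 0) (P.cons (P.lf 6215 0 0) P.nil)))))) (P.cons (P.cons (P.lf 0 59263471 0) (P.cons (P.lf 8112597 0 0) (P.cons (P.lf 3567287 0 0) (P.cons (P.lf 0 430059 0) (P.cons (P.lf 0 46668 0) P.nil))))) (P.cons (P.cons (P.lf 44121858 0 0) (P.cons (P.lf 0 3317017 0) (P.cons (P.lf 0 1521641 0) (P.cons (P.lf 116286 0 0) P.nil)))) (P.cons (P.cons (P.lf 0 5393676 0) (P.cons (P.lf 0 81157 0) (P.cons (P.lf 0 26189 0) P.nil))) (P.cons (P.cons (P.lf 0 1700028 0) (P.cons (P.lf 164809 0 0) P.nil)) (P.cons (P.cons (P.lf 397333 0 0) P.nil) P.nil)))))) 227984)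
 EL.nil)
noncomputable def S256_285_216_290_33 : EL := (EL.cons 14 (TM.mk (P.lf 8589934592 0 0) 0)
 EL.nil)
noncomputable def S256_285_216_290_34 : EL := (EL.cons 14 (TM.mk (P.cons (P.cons (P.lf 4030980710 0 0) (P.cons (P.lf 0 211177512 0) (P.cons (P.lf 0 99688712 0) (P.lf 4747080 0 0)))) (P.cons (P.cons (P.lf 0 880090342 0) (P.cons (P.lf 10162528 0 0) (P.cons (P.lf 4797328 0 0) (P.lf 0 228440 0)))) (P.cons (P.cons (P.lf 0 32316158 0) (P.cons (P.lf 4837056 0 0) (P.cons (P.lf 2283384 0 0) (P.lf 0 108728 0)))) (P.cons (P.cons (P.lf 28868040 0 0) (P.cons (P.lf 0 240064 0) (P.cons (P.lf 0 113328 0) P.nil))) (P.cons (P.cons (P.lf 0 156904 0) (P.cons (P.lf 0 54912 0) P.nil)) (P.cons (P.cons (P.lf 0 313662 0) P.nil) P.nil)))))) 71158)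
 EL.nil)
noncomputable def S256_285_216_290_35 : EL := (EL.cons 14 (TM.mk (P.cons (P.cons (P.lf 1891609918 0 0) (P.cons (P.lf 0 198197662 0) (P.cons (P.lf 0 88369776 0) (P.cons (P.lf 9356858 0 0) (P.cons (P.lf 923508 0 0) (P.cons (P.lf 0 110182 0) P.nil)))))) (P.cons (P.cons (P.lf 0 825996322 0) (P.cons (P.lf 52810702 0 0) (P.cons (P.lf 24430200 0 0) (P.cons (P.lf 0 1658888 0) (P.cons (P.lf 0 88884 0) P.nil))))) (P.cons (P.cons (P.lf 59840664 0 0) (P.cons (P.lf 4046266 0 0) (P.cons (P.lf 1684276 0 0) (P.cons (P.lf 0 304142 0) P.nil)))) (P.cons (P.cons (P.lf 33715658 0 0) (P.cons (P.lf 0 2712344 0) (P.cons (P.lf 0 1257146 0) P.nil))) (P.cons (P.cons (P.lf 0 5941090 0) (P.cons (P.lf 37280 0 0) P.nil)) (P.cons (P.cons (P.lf 0 479440 0) P.nil) P.nil)))))) 608360)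
 EL.nil)
noncomputable def S256_285_216_290_36 : EL := (EL.cons 14 (TM.mk (P.cons (P.lf 969191872 0 0) (P.cons (P.lf 961449608 0 0) (P.cons (P.lf 0 11551536 0) (P.cons (P.lf 0 3747920 0) (P.cons (P.lf 76072 0 0) (P.cons (P.lf 14360 0 0) P.nil)))))) 560)
 EL.nil)
noncomputable def S256_285_216_290_37 : EL := (EL.cons 14 (TM.mk (P.cons (P.cons (P.lf 454810650 0 0) (P.cons (P.lf 0 23826900 0) (P.cons (P.lf 0 11247756 0) (P.lf 535606 0 0)))) (P.cons (P.cons (P.lf 351877930 0 0) (P.cons (P.lf 0 22489938 0) (P.cons (P.lf 0 10616628 0) (P.lf 505554 0 0)))) (P.cons (P.cons (P.lf 0 107573238 0) (P.cons (P.lf 1967210 0 0) (P.cons (P.lf 928642 0 0) (P.lf 0 44220 0)))) (P.cons (P.cons (P.lf 0 935174 0) (P.cons (P.lf 592786 0 0) (P.cons (P.lf 279830 0 0) P.nil))) (P.cons (P.cons (P.lf 3676576 0 0) (P.cons (P.lf 0 45874 0) P.nil)) (P.cons (P.cons (P.lf 0 78728 0) P.nil) P.nil))))))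 111528)
 EL.nil)
noncomputable def S256_285_216_290_38 : EL := (EL.cons 14 (TM.mk (P.cons (P.cons (P.lf 213428046 0 0) (P.cons (P.lf 0 22362400 0) (P.cons (P.lf 0 9970654 0) (P.cons (P.lf 1055722 0 0) (P.cons (P.lf 104198 0 0) (P.cons (P.lf 0 12430 0) P.nil)))))) (P.cons (P.cons (P.lf 118526942 0 0) (P.cons (P.lf 0 16225194 0) (P.cons (P.lf 0 7134574 0) (P.cons (P.lf 860118 0 0) (P.cons (P.lf 93336 0 0) P.nil))))) (P.cons (P.cons (P.lf 0 88243716 0) (P.cons (P.lf 6634034 0 0) (P.cons (P.lf 3043282 0 0) (P.cons (P.lf 0 232572 0) P.nil)))) (P.cons (P.cons (P.lf 10787352 0 0) (P.cons (P.lf 162314 0 0) (P.cons (P.lf 52378 0 0) P.nil))) (P.cons (P.cons (P.lf 3400056 0 0) (P.cons (P.lf 0 329618 0) P.nil)) (P.cons (P.cons (P.lf 0 794666 0) P.nil) P.nil)))))) 455968)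
 EL.nil)
noncomputable def S256_285_216_290_39 : EL := (EL.cons 14 (TM.mk (P.cons (P.lf 109352740 0 0) (P.cons (P.lf 216958378 0 0) (P.cons (P.lf 105005926 0 0) (P.cons (P.lf 0 3431614 0) (P.cons (P.lf 0 806288 0) (P.cons (P.lf 30348 0 0) P.nil)))))) 5440)
 EL.nil)
noncomputable def S256_285_216_290_40 : EL := (EL.cons 14 (TM.mk (P.cons (P.cons (P.lf 51315732 0 0) (P.cons (P.lf 0 2688360 0) (P.cons (P.lf 0 1269070 0) (P.lf 60430 0 0)))) (P.cons (P.cons (P.lf 90607760 0 0) (P.cons (P.lf 0 5204396 0) (P.cons (P.lf 0 2456794 0) (P.lf 116990 0 0)))) (P.cons (P.cons (P.lf 26635828 0 0) (P.cons (P.lf 0 2263240 0) (P.cons (P.lf 0 1068388 0) (P.lf 50874 0 0)))) (P.cons (P.cons (P.lf 0 12817550 0) (P.cons (P.lf 327708 0 0) (P.cons (P.lf 154698 0 0) P.nil))) (P.cons (P.cons (P.lf 305312 0 0) (P.cons (P.lf 68128 0 0) P.nil)) (P.cons (P.cons (P.lf 454696 0 0) P.nil) P.nil))))))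 105636)
 EL.nil)
noncomputable def S256_285_216_290_41 : EL := (EL.cons 14 (TM.mk (P.cons (P.cons (P.lf 24080826 0 0) (P.cons (P.lf 0 2523122 0) (P.cons (P.lf 0 1124976 0) (P.cons (P.lf 119114 0 0) (P.cons (P.lf 11756 0 0) (P.cons (P.lf 0 1402 0) P.nil)))))) (P.cons (P.cons (P.lf 37261710 0 0) (P.cons (P.lf 0 4333634 0) (P.cons (P.lf 0 1920974 0) (P.cons (P.lf 215210 0 0) (P.cons (P.lf 22192 0 0) P.nil))))) (P.cons (P.cons (P.lf 3022976 0 0) (P.cons (P.lf 0 1037462 0) (P.cons (P.lf 0 441776 0) (P.cons (P.lf 68610 0 0) P.nil)))) (P.cons (P.cons (P.lf 0 8912284 0) (P.cons (P.lf 792420 0 0) (P.cons (P.lf 360480 0 0) P.nil))) (P.cons (P.cons (P.lf 1659868 0 0) (P.cons (P.lf 0 21062 0) P.nil)) (P.cons (P.cons (P.lf 316298 0 0) P.nil) P.nil)))))) 342510)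
 EL.nil)
noncomputable def S256_285_216_290_42 : EL := (EL.cons 14 (TM.mk (P.cons (P.lf 12338136 0 0) (P.cons (P.lf 36718724 0 0) (P.cons (P.lf 35984236 0 0) (P.cons (P.lf 11026388 0 0) (P.cons (P.lf 0 709966 0) (P.cons (P.lf 0 125918 0) P.nil)))))) 9172)
 EL.nil)
noncomputable def S256_285_216_290_43 : EL := (EL.cons 14 (TM.mk (P.cons (P.cons (P.lf 5789890 0 0) (P.cons (P.lf 0 303324 0) (P.cons (P.lf 0 143186 0) (P.lf 6818 0 0)))) (P.cons (P.cons (P.lf 15966802 0 0) (P.cons (P.lf 0 888106 0) (P.cons (P.lf 0 419240 0) (P.lf 19962 0 0)))) (P.cons (P.cons (P.lf 13077776 0 0) (P.cons (P.lf 0 834258 0) (P.cons (P.lf 0 393820 0) (P.lf 18752 0 0)))) (P.cons (P.cons (P.lf 1390854 0 0) (P.cons (P.lf 0 208172 0) (P.cons (P.lf 0 98270 0) P.nil))) (P.cons (P.cons (P.lf 0 1475084 0) (P.cons (P.lf 49656 0 0) P.nil)) (P.cons (P.cons (P.lf 91978 0 0) P.nil) P.nil)))))) 118084)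
 EL.nil)
noncomputable def S256_285_216_290_44 : EL := (EL.cons 14 (TM.mk (P.cons (P.cons (P.lf 2717010 0 0) (P.cons (P.lf 0 284680 0) (P.cons (P.lf 0 126928 0) (P.cons (P.lf 13438 0 0) (P.cons (P.lf 1326 0 0) (P.cons (P.lf 0 158 0) P.nil)))))) (P.cons (P.cons (P.lf 6899498 0 0) (P.cons (P.lf 0 771364 0) (P.cons (P.lf 0 342656 0) (P.cons (P.lf 37614 0 0) (P.cons (P.lf 3818 0 0) P.nil))))) (P.cons (P.cons (P.lf 4479304 0 0) (P.cons (P.lf 0 598714 0) (P.cons (P.lf 0 263342 0) (P.cons (P.lf 31668 0 0) P.nil)))) (P.cons (P.cons (P.lf 0 727822 0) (P.cons (P.lf 0 19782 0) (P.cons (P.lf 0 5700 0) P.nil))) (P.cons (P.cons (P.lf 0 830356 0) (P.cons (P.lf 89580 0 0) P.nil)) (P.cons (P.cons (P.lf 232508 0 0) P.nil) P.nil)))))) 238090)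
 EL.nil)
noncomputable def S256_285_216_290_45 : EL := (EL.cons 14 (TM.mk (P.cons (P.cons (P.lf 887671844 0 0) (P.cons (P.lf 0 139511704 0) (P.cons (P.lf 0 58549238 0) (P.cons (P.lf 9908888 0 0) (P.cons (P.lf 1119366 0 0) (P.cons (P.lf 0 231832 0) P.nil)))))) (P.cons (P.cons (P.lf 0 581420358 0) (P.cons (P.lf 67633362 0 0) (P.cons (P.lf 29627886 0 0) (P.cons (P.lf 0 3672628 0) (P.cons (P.lf 0 382892 0) P.nil))))) (P.cons (P.cons (P.lf 105593164 0 0) (P.cons (P.lf 0 4149526 0) (P.cons (P.lf 0 2181734 0) (P.cons (P.lf 0 109284 0) P.nil)))) (P.cons (P.cons (P.lf 19155218 0 0) (P.cons (P.lf 0 3828208 0) (P.cons (P.lf 0 1647032 0) P.nil))) (P.cons (P.cons (P.lf 0 9277924 0) (P.cons (P.lf 691902 0 0) P.nil)) (P.cons (P.cons (P.lf 403992 0 0) P.nil) P.nil)))))) 1567950)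
 EL.nil)
noncomputable def S256_285_216_290_46 : EL := (EL.cons 15 (TM.mk (P.lf 4294967296 0 0) 0)
 EL.nil)
noncomputable def S256_285_216_290_47 : EL := (EL.cons 15 (TM.mk (P.cons (P.cons (P.lf 2015490355 0 0) (P.cons (P.lf 0 105588756 0) (P.cons (P.lf 0 49844356 0) (P.lf 2373540 0 0)))) (P.cons (P.cons (P.lf 0 440045171 0) (P.cons (P.lf 5081264 0 0) (P.cons (P.lf 2398664 0 0) (P.lf 0 114220 0)))) (P.cons (P.cons (P.lf 0 16158079 0) (P.cons (P.lf 2418528 0 0) (P.cons (P.lf 1141692 0 0) (P.lf 0 54364 0)))) (P.cons (P.cons (P.lf 14434020 0 0) (P.cons (P.lf 0 120032 0) (P.cons (P.lf 0 56664 0) P.nil))) (P.cons (P.cons (P.lf 0 78452 0) (P.cons (P.lf 0 27456 0) P.nil)) (P.cons (P.cons (P.lf 0 156831 0) P.nil) P.nil)))))) 35579)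
 EL.nil)
noncomputable def S256_285_216_290_48 : EL := (EL.cons 15 (TM.mk (P.cons (P.cons (P.lf 945804959 0 0) (P.cons (P.lf 0 99098831 0) (P.cons (P.lf 0 44184888 0) (P.cons (P.lf 4678429 0 0) (P.cons (P.lf 461754 0 0) (P.cons (P.lf 0 55091 0) P.nil)))))) (P.cons (P.cons (P.lf 0 412998161 0) (P.cons (P.lf 26405351 0 0) (P.cons (P.lf 12215100 0 0) (P.cons (P.lf 0 829444 0) (P.cons (P.lf 0 44442 0) P.nil))))) (P.cons (P.cons (P.lf 29920332 0 0) (P.cons (P.lf 2023133 0 0) (P.cons (P.lf 842138 0 0) (P.cons (P.lf 0 152071 0) P.nil)))) (P.cons (P.cons (P.lf 16857829 0 0) (P.cons (P.lf 0 1356172 0) (P.cons (P.lf 0 628573 0) P.nil))) (P.cons (P.cons (P.lf 0 2970545 0) (P.cons (P.lf 18640 0 0) P.nil)) (P.cons (P.cons (P.lf 0 239720 0) P.nil) P.nil)))))) 304180)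
 EL.nil)
noncomputable def S256_285_216_290 : SL := (SL.cons S256_285_216_290_0 (SL.cons S256_285_216_290_1 (SL.cons S256_285_216_290_2 (SL.cons S256_285_216_290_3 (SL.cons S256_285_216_290_4 (SL.cons S256_285_216_290_5 (SL.cons S256_285_216_290_6 (SL.cons S256_285_216_290_7 (SL.cons S256_285_216_290_8 (SL.cons S256_285_216_290_9 (SL.cons S256_285_216_290_10 (SL.cons S256_285_216_290_11 (SL.cons S256_285_216_290_12 (SL.cons S256_285_216_290_13 (SL.cons S256_285_216_290_14 (SL.cons S256_285_216_290_15 (SL.cons S256_285_216_290_16 (SL.cons S256_285_216_290_17 (SL.cons S256_285_216_290_18 (SL.cons S256_285_216_290_19 (SL.cons S256_285_216_290_20 (SL.cons S256_285_216_290_21 (SL.cons S256_285_216_290_22 (SL.cons S256_285_216_290_23 (SL.cons S256_285_216_290_24 (SL.cons S256_285_216_290_25 (SL.cons S256_285_216_290_26 (SL.cons S256_285_216_290_27 (SL.cons S256_285_216_290_28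 (SL.cons S256_285_216_290_29 (SL.cons S256_285_216_290_30 (SL.cons S256_285_216_290_31 (SL.cons S256_285_216_290_32 (SL.cons S256_285_216_290_33 (SL.cons S256_285_216_290_34 (SL.cons S256_285_216_290_35 (SL.cons S256_285_216_290_36 (SL.cons S256_285_216_290_37 (SL.cons S256_285_216_290_38 (SL.cons S256_285_216_290_39 (SL.cons S256_285_216_290_40 (SL.cons S256_285_216_290_41 (SL.cons S256_285_216_290_42 (SL.cons S256_285_216_290_43 (SL.cons S256_285_216_290_44 (SL.cons S256_285_216_290_45 (SL.cons S256_285_216_290_46 (SL.cons S256_285_216_290_47 (SL.cons S256_285_216_290_48 SL.nil)))))))))))))))))))))))))))))))))))))))))))))))))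
noncomputable def S256_285_216_364_0 : EL := (EL.cons 0 (TM.mk (P.cons (P.lf 8359606057 0 0) (P.cons (P.lf 0 190686074 0) (P.cons (P.lf 0 92290364 0) (P.cons (P.lf 3016066 0 0) (P.cons (P.lf 708651 0 0) (P.cons (P.lf 0 26673 0) P.nil)))))) 4788)
 (EL.cons 1 (TM.mk (P.cons (P.lf 450679505 0 0) (P.cons (P.lf 439849933 0 0) (P.cons (P.lf 0 16100088 0) (P.cons (P.lf 0 5127871 0) (P.cons (P.lf 176304 0 0) (P.cons (P.lf 32482 0 0) P.nil)))))) 1651)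
 (EL.cons 5 (TM.mk (P.cons (P.lf 4329140030 0 0) (P.cons (P.lf 67799490 0 0) (P.cons (P.lf 32814348 0 0) (P.cons (P.lf 0 1072376 0) (P.cons (P.lf 0 251962 0) (P.cons (P.lf 9484 0 0) P.nil)))))) 1837)
 (EL.cons 9 (TM.mk (P.lf 6442450944 0 0) 2)
 EL.nil))))
noncomputable def S256_285_216_364_1 : EL := (EL.cons 0 (TM.mk (P.cons (P.cons (P.lf 3021389044 0 0) (P.cons (P.lf 0 744768489 0) (P.cons (P.lf 0 321152577 0) (P.lf 35683620 0 0)))) (P.cons (P.cons (P.lf 0 1554055503 0) (P.cons (P.lf 106222061 0 0) (P.cons (P.lf 45804143 0 0) (P.lf 0 5089337 0)))) (P.cons (P.cons (P.lf 0 6044791 0) (P.cons (P.lf 47736087 0 0) (P.cons (P.lf 20584340 0 0) (P.lf 0 2287137 0)))) (P.cons (P.cons (P.lf 102515972 0 0) (P.cons (P.lf 0 5211253 0) (P.cons (P.lf 0 2247146 0) P.nil))) (P.cons (P.cons (P.lf 0 3565471 0) (P.cons (P.lf 0 1101902 0) P.nil)) (P.cons (P.cons (P.lf 0 2202288 0) P.nil)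 P.nil)))))) 1286144)
 (EL.cons 1 (TM.mk (P.cons (P.cons (P.lf 1587723192 0 0) (P.cons (P.lf 0 102956285 0) (P.cons (P.lf 0 44395912 0) (P.lf 4932877 0 0)))) (P.cons (P.cons (P.lf 147074646 0 0) (P.cons (P.lf 0 93494112 0) (P.cons (P.lf 0 40315713 0) (P.lf 4479519 0 0)))) (P.cons (P.cons (P.lf 0 234052248 0) (P.cons (P.lf 13808143 0 0) (P.cons (P.lf 5954221 0 0) (P.lf 0 661573 0)))) (P.cons (P.cons (P.lf 7434443 0 0) (P.cons (P.lf 3971075 0 0) (P.cons (P.lf 1712370 0 0) P.nil))) (P.cons (P.cons (P.lf 8572743 0 0) (P.cons (P.lf 0 456045 0) P.nil)) (P.cons (P.cons (P.lf 0 377607 0) P.nil) P.nil)))))) 817152)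
 (EL.cons 5 (TM.mk (P.cons (P.cons (P.lf 2091860674 0 0) (P.cons (P.lf 0 408926714 0) (P.cons (P.lf 0 176333810 0) (P.lf 19592644 0 0)))) (P.cons (P.cons (P.lf 0 183002030 0) (P.cons (P.lf 0 5345656 0) (P.cons (P.lf 0 2305108 0) (P.lf 256120 0 0)))) (P.cons (P.cons (P.lf 0 19359508 0) (P.cons (P.lf 0 1540824 0) (P.cons (P.lf 0 664416 0) (P.lf 73818 0 0)))) (P.cons (P.cons (P.lf 0 12208082 0) (P.cons (P.lf 1086958 0 0) (P.cons (P.lf 468710 0 0) P.nil))) (P.cons (P.cons (P.lf 1066680 0 0) (P.cons (P.lf 216570 0 0) P.nil)) (P.cons (P.cons (P.lf 520091 0 0) P.nil) P.nil)))))) 720447)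
 (EL.cons 9 (TM.mk (P.cons (P.cons (P.lf 2793646174 0 0) (P.cons (P.lf 0 594470544 0) (P.cons (P.lf 0 256342404 0) (P.lf 28482486 0 0)))) (P.cons (P.cons (P.lf 0 649019188 0) (P.cons (P.lf 28607808 0 0) (P.cons (P.lf 12336006 0 0) (P.lf 0 1370664 0)))) (P.cons (P.cons (P.lf 0 18978322 0) (P.cons (P.lf 13616472 0 0) (P.cons (P.lf 5871576 0 0) (P.lf 0 652392 0)))) (P.cons (P.cons (P.lf 21390024 0 0) (P.cons (P.lf 0 675810 0) (P.cons (P.lf 0 291414 0) P.nil))) (P.cons (P.cons (P.lf 0 177384 0) (P.cons (P.lf 0 154596 0) P.nil)) (P.cons (P.cons (P.lf 0 232006 0) P.nil) P.nil)))))) 150659)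
 (EL.cons 2 (TM.mk (P.cons (P.cons (P.lf 0 132449124 0) (P.cons (P.lf 0 123388613 0) (P.cons (P.lf 12663683 0 0) (P.cons (P.lf 2633692 0 0) (P.lf 0 219473 0))))) (P.cons (P.cons (P.lf 0 127141824 0) (P.cons (P.lf 0 118444370 0) (P.cons (P.lf 12156243 0 0) (P.cons (P.lf 2528159 0 0) (P.lf 0 210678 0))))) (P.cons (P.cons (P.lf 7850525 0 0) (P.cons (P.lf 7313490 0 0) (P.cons (P.lf 0 750600 0) (P.cons (P.lf 0 156102 0) P.nil)))) (P.cons (P.cons (P.lf 2434500 0 0) (P.cons (P.lf 2267963 0 0) (P.cons (P.lf 0 232765 0) P.nil))) (P.cons (P.cons (P.lf 0 133801 0) (P.cons (P.lf 0 124650 0) P.nil)) (P.cons (P.cons (P.lf 0 23850 0) P.nil) P.nil)))))) 118390)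
 (EL.cons 6 (TM.mk (P.cons (P.cons (P.lf 621075909 0 0) (P.cons (P.lf 578589663 0 0) (P.cons (P.lf 0 59382120 0) (P.cons (P.lf 0 12349827 0) (P.lf 1029150 0 0))))) (P.cons (P.cons (P.lf 0 29888145 0) (P.cons (P.lf 0 27843570 0) (P.cons (P.lf 2857653 0 0) (P.cons (P.lf 594312 0 0) (P.lf 0 49524 0))))) (P.cons (P.cons (P.lf 0 14225874 0) (P.cons (P.lf 0 13252719 0) (P.cons (P.lf 1360158 0 0) (P.cons (P.lf 282873 0 0) P.nil)))) (P.cons (P.cons (P.lf 706062 0 0) (P.cons (P.lf 657759 0 0) (P.cons (P.lf 0 67506 0) P.nil))) (P.cons (P.cons (P.lf 161517 0 0) (P.cons (P.lf 150468 0 0) P.nil)) (P.cons (P.cons (P.lf 0 8760 0) P.nil) P.nil)))))) 73293)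
 EL.nil))))))
noncomputable def S256_285_216_364_2 : EL := (EL.cons 0 (TM.mk (P.cons (P.cons (P.lf 1048430379 0 0) (P.cons (P.lf 0 534517150 0) (P.cons (P.lf 0 164222078 0) (P.cons (P.lf 82760784 0 0) (P.cons (P.lf 5971955 0 0) (P.cons (P.lf 0 2738231 0) P.nil)))))) (P.cons (P.cons (P.lf 0 1190303782 0) (P.cons (P.lf 352939220 0 0) (P.cons (P.lf 134448175 0 0) (P.cons (P.lf 0 32212254 0) (P.cons (P.lf 0 1598980 0) P.nil))))) (P.cons (P.cons (P.lf 227282334 0 0) (P.cons (P.lf 8976688 0 0) (P.cons (P.lf 0 3418211 0) (P.cons (P.lf 0 6716339 0) P.nil)))) (P.cons (P.cons (P.lf 83129929 0 0) (P.cons (P.lf 0 33628182 0) (P.cons (P.lf 0 13000584 0) P.nil))) (P.cons (P.cons (P.lf 0 26984917 0) (P.cons (P.lf 2001203 0 0) P.nil)) (P.cons (P.cons (P.lf 0 1355420 0) P.nil) P.nil)))))) 13787838)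
 (EL.cons 1 (TM.mk (P.cons (P.cons (P.lf 1292227968 0 0) (P.cons (P.lf 0 346235174 0) (P.cons (P.lf 0 134137446 0) (P.cons (P.lf 29665908 0 0) (P.cons (P.lf 1366466 0 0) (P.cons (P.lf 0 626544 0) P.nil)))))) (P.cons (P.cons (P.lf 0 235677695 0) (P.cons (P.lf 0 48296879 0) (P.cons (P.lf 0 7862136 0) (P.cons (P.lf 13494478 0 0) (P.cons (P.lf 1168295 0 0) P.nil))))) (P.cons (P.cons (P.lf 0 203937666 0) (P.cons (P.lf 70803049 0 0) (P.cons (P.lf 27381714 0 0) (P.cons (P.lf 0 6108404 0) P.nil)))) (P.cons (P.cons (P.lf 57933610 0 0) (P.cons (P.lf 0 2813012 0) (P.cons (P.lf 0 2020651 0) P.nil))) (P.cons (P.cons (P.lf 6626887 0 0) (P.cons (P.lf 0 3853325 0) P.nil)) (P.cons (P.cons (P.lf 0 3349707 0) P.nil) P.nil)))))) 7145321)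
 (EL.cons 5 (TM.mk (P.cons (P.cons (P.lf 1000157746 0 0) (P.cons (P.lf 0 394252682 0) (P.cons (P.lf 0 131400017 0) (P.cons (P.lf 52184414 0 0) (P.cons (P.lf 3479123 0 0) (P.cons (P.lf 0 1595231 0) P.nil)))))) (P.cons (P.cons (P.lf 0 214699802 0) (P.cons (P.lf 38374215 0 0) (P.cons (P.lf 16872638 0 0) (P.cons (P.lf 0 1558114 0) (P.cons (P.lf 29299 0 0) P.nil))))) (P.cons (P.cons (P.lf 0 25364646 0) (P.cons (P.lf 7628787 0 0) (P.cons (P.lf 3177308 0 0) (P.cons (P.lf 0 462382 0) P.nil)))) (P.cons (P.cons (P.lf 0 4199477 0) (P.cons (P.lf 3518308 0 0) (P.cons (P.lf 1262109 0 0) P.nil))) (P.cons (P.cons (P.lf 4599306 0 0) (P.cons (P.lf 0 547692 0) P.nil)) (P.cons (P.cons (P.lf 151560 0 0) P.nil) P.nil)))))) 7461324)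
 (EL.cons 9 (TM.mk (P.cons (P.cons (P.lf 1211411466 0 0) (P.cons (P.lf 0 515561662 0) (P.cons (P.lf 0 167461845 0) (P.cons (P.lf 72009238 0 0) (P.cons (P.lf 4943371 0 0) (P.cons (P.lf 0 2266611 0) P.nil)))))) (P.cons (P.cons (P.lf 0 562869624 0) (P.cons (P.lf 144585619 0 0) (P.cons (P.lf 57067434 0 0) (P.cons (P.lf 0 11480604 0) (P.cons (P.lf 0 475780 0) P.nil))))) (P.cons (P.cons (P.lf 48923689 0 0) (P.cons (P.lf 9547497 0 0) (P.cons (P.lf 1731130 0 0) (P.cons (P.lf 0 2515056 0) P.nil)))) (P.cons (P.cons (P.lf 22374544 0 0) (P.cons (P.lf 0 7445610 0) (P.cons (P.lf 0 2964981 0) P.nil))) (P.cons (P.cons (P.lf 0 4407637 0) (P.cons (P.lf 144565 0 0) P.nil)) (P.cons (P.cons (P.lf 0 291492 0) P.nil) P.nil)))))) 2738074)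
 (EL.cons 2 (TM.mk (P.cons (P.cons (P.lf 0 114868080 0) (P.cons (P.lf 0 82567029 0) (P.cons (P.lf 44294034 0 0) (P.cons (P.lf 8595073 0 0) (P.cons (P.lf 0 2775166 0) (P.cons (P.lf 0 57105 0) P.nil)))))) (P.cons (P.cons (P.lf 0 83579135 0) (P.cons (P.lf 0 55574218 0) (P.cons (P.lf 38364598 0 0) (P.cons (P.lf 7416315 0 0) (P.cons (P.lf 0 2495351 0) P.nil))))) (P.cons (P.cons (P.lf 33205601 0 0) (P.cons (P.lf 27796263 0 0) (P.cons (P.lf 0 7451083 0) (P.cons (P.lf 0 1470431 0) P.nil)))) (P.cons (P.cons (P.lf 399178 0 0) (P.cons (P.lf 0 517342 0) (P.cons (P.lf 0 1249987 0) P.nil))) (P.cons (P.cons (P.lf 0 1489770 0) (P.cons (P.lf 0 1275328 0) P.nil)) (P.cons (P.cons (P.lf 60598 0 0) P.nil) P.nil)))))) 2282607)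
 (EL.cons 6 (TM.mk (P.cons (P.cons (P.lf 538635480 0 0) (P.cons (P.lf 387170496 0 0) (P.cons (P.lf 0 207702078 0) (P.cons (P.lf 0 40303728 0) (P.cons (P.lf 13013220 0 0) (P.cons (P.lf 267792 0 0) P.nil)))))) (P.cons (P.cons (P.lf 0 151056510 0) (P.cons (P.lf 0 129691524 0) (P.cons (P.lf 29476656 0 0) (P.cons (P.lf 5851926 0 0) (P.cons (P.lf 0 1416876 0) P.nil))))) (P.cons (P.cons (P.lf 0 9974790 0) (P.cons (P.lf 0 4307166 0) (P.cons (P.lf 7747656 0 0) (P.cons (P.lf 1485486 0 0) P.nil)))) (P.cons (P.cons (P.lf 7778838 0 0) (P.cons (P.lf 6733422 0 0) (P.cons (P.lf 0 1443246 0) P.nil))) (P.cons (P.cons (P.lf 0 151032 0) (P.cons (P.lf 0 247908 0) P.nil)) (P.cons (P.cons (P.lf 0 181848 0) P.nil) P.nil)))))) 2142210)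
 EL.nil))))))
noncomputable def S256_285_216_364_3 : EL := (EL.cons 0 (TM.mk (P.cons (P.lf 96110806 0 0) (P.cons (P.lf 190686074 0 0) (P.cons (P.lf 92290364 0 0) (P.cons (P.lf 0 3016066 0) (P.cons (P.lf 0 708651 0) (P.cons (P.lf 26673 0 0) P.nil)))))) 4788)
 (EL.cons 1 (TM.mk (P.cons (P.lf 0 450679505 0) (P.cons (P.lf 0 439849933 0) (P.cons (P.lf 16100088 0 0) (P.cons (P.lf 5127871 0 0) (P.cons (P.lf 0 176304 0) (P.cons (P.lf 0 32482 0) P.nil)))))) 1651)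
 (EL.cons 5 (TM.mk (P.cons (P.lf 2113310914 0 0) (P.cons (P.lf 0 67799490 0) (P.cons (P.lf 0 32814348 0) (P.cons (P.lf 1072376 0 0) (P.cons (P.lf 251962 0 0) (P.cons (P.lf 0 9484 0) P.nil)))))) 1830)
 EL.nil)))
noncomputable def S256_285_216_364_4 : EL := (EL.cons 0 (TM.mk (P.cons (P.cons (P.lf 41676619 0 0) (P.cons (P.lf 0 8868524 0) (P.cons (P.lf 0 3824207 0) (P.lf 424910 0 0)))) (P.cons (P.cons (P.lf 73005082 0 0) (P.cons (P.lf 0 17168579 0) (P.cons (P.lf 0 7403283 0) (P.lf 822585 0 0)))) (P.cons (P.cons (P.lf 20526920 0 0) (P.cons (P.lf 0 7466116 0) (P.cons (P.lf 0 3219474 0) (P.lf 357718 0 0)))) (P.cons (P.cons (P.lf 0 10847909 0) (P.cons (P.lf 1081063 0 0) (P.cons (P.lf 466166 0 0) P.nil))) (P.cons (P.cons (P.lf 355139 0 0) (P.cons (P.lf 224748 0 0) P.nil)) (P.cons (P.cons (P.lf 389548 0 0) P.nil) P.nil)))))) 276173)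
 (EL.cons 1 (TM.mk (P.cons (P.cons (P.lf 0 195428583 0) (P.cons (P.lf 41585986 0 0) (P.cons (P.lf 17932346 0 0) (P.lf 0 1992481 0)))) (P.cons (P.cons (P.lf 0 145330625 0) (P.cons (P.lf 38585450 0 0) (P.cons (P.lf 16638480 0 0) (P.lf 0 1848718 0)))) (P.cons (P.cons (P.lf 52620058 0 0) (P.cons (P.lf 0 4391313 0) (P.cons (P.lf 0 1893583 0) (P.lf 210397 0 0)))) (P.cons (P.cons (P.lf 401051 0 0) (P.cons (P.lf 0 1284045 0) (P.cons (P.lf 0 553695 0) P.nil))) (P.cons (P.cons (P.lf 0 2088433 0) (P.cons (P.lf 130020 0 0) P.nil)) (P.cons (P.cons (P.lf 70363 0 0) P.nil) P.nil)))))) 225692)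
 (EL.cons 5 (TM.mk (P.cons (P.cons (P.lf 916397034 0 0) (P.cons (P.lf 0 195003592 0) (P.cons (P.lf 0 84087748 0) (P.lf 9343082 0 0)))) (P.cons (P.cons (P.lf 0 242297090 0) (P.cons (P.lf 15640318 0 0) (P.cons (P.lf 6744280 0 0) (P.lf 0 749362 0)))) (P.cons (P.cons (P.lf 0 13624566 0) (P.cons (P.lf 7193442 0 0) (P.cons (P.lf 3101892 0 0) (P.lf 0 344652 0)))) (P.cons (P.cons (P.lf 10987040 0 0) (P.cons (P.lf 0 609646 0) (P.cons (P.lf 0 262886 0) P.nil))) (P.cons (P.cons (P.lf 0 185400 0) (P.cons (P.lf 0 131442 0) P.nil)) (P.cons (P.cons (P.lf 0 215842 0) P.nil) P.nil)))))) 146416)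
 EL.nil)))
noncomputable def S256_285_216_364_5 : EL := (EL.cons 0 (TM.mk (P.cons (P.cons (P.lf 18072272 0 0) (P.cons (P.lf 0 7691333 0) (P.cons (P.lf 0 2498255 0) (P.cons (P.lf 1074258 0 0) (P.cons (P.lf 73745 0 0) (P.cons (P.lf 0 33813 0) P.nil)))))) (P.cons (P.cons (P.lf 27458716 0 0) (P.cons (P.lf 0 13102806 0) (P.cons (P.lf 0 4105244 0) (P.cons (P.lf 1960083 0 0) (P.cons (P.lf 139216 0 0) P.nil))))) (P.cons (P.cons (P.lf 1423727 0 0) (P.cons (P.lf 0 2963668 0) (P.cons (P.lf 0 684019 0) (P.cons (P.lf 654229 0 0) P.nil)))) (P.cons (P.cons (P.lf 0 6848578 0) (P.cons (P.lf 2484116 0 0) (P.cons (P.lf 902914 0 0) P.nil))) (P.cons (P.cons (P.lf 1427602 0 0) (P.cons (P.lf 0 92427 0) P.nil)) (P.cons (P.cons (P.lf 229740 0 0) P.nil) P.nil)))))) 1137006)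
 (EL.cons 1 (TM.mk (P.cons (P.cons (P.lf 0 84743883 0) (P.cons (P.lf 36065943 0 0) (P.cons (P.lf 11714735 0 0) (P.cons (P.lf 0 5037380 0) (P.cons (P.lf 0 345810 0) (P.cons (P.lf 158559 0 0) P.nil)))))) (P.cons (P.cons (P.lf 0 43332180 0) (P.cons (P.lf 25084860 0 0) (P.cons (P.lf 7441104 0 0) (P.cons (P.lf 0 4113213 0) (P.cons (P.lf 0 304218 0) P.nil))))) (P.cons (P.cons (P.lf 38034140 0 0) (P.cons (P.lf 0 11827706 0) (P.cons (P.lf 0 4435801 0) (P.cons (P.lf 1139716 0 0) P.nil)))) (P.cons (P.cons (P.lf 0 5347826 0) (P.cons (P.lf 0 180018 0) (P.cons (P.lf 98546 0 0) P.nil))) (P.cons (P.cons (P.lf 0 1578161 0) (P.cons (P.lf 651275 0 0) P.nil)) (P.cons (P.cons (P.lf 425467 0 0) P.nil) P.nil)))))) 1252807)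
 (EL.cons 5 (TM.mk (P.cons (P.cons (P.lf 397378124 0 0) (P.cons (P.lf 0 169119188 0) (P.cons (P.lf 0 54932344 0) (P.cons (P.lf 23621120 0 0) (P.cons (P.lf 1621568 0 0) (P.cons (P.lf 0 743512 0) P.nil)))))) (P.cons (P.cons (P.lf 0 197386306 0) (P.cons (P.lf 52853980 0 0) (P.cons (P.lf 20482120 0 0) (P.cons (P.lf 0 4523786 0) (P.cons (P.lf 0 208092 0) P.nil))))) (P.cons (P.cons (P.lf 15801680 0 0) (P.cons (P.lf 4236246 0 0) (P.cons (P.lf 820250 0 0) (P.cons (P.lf 0 1070966 0) P.nil)))) (P.cons (P.cons (P.lf 9893230 0 0) (P.cons (P.lf 0 3365110 0) (P.cons (P.lf 0 1309362 0) P.nil))) (P.cons (P.cons (P.lf 0 1976804 0) (P.cons (P.lf 81050 0 0) P.nil)) (P.cons (P.cons (P.lf 0 178848 0) P.nil) P.nil)))))) 1285382)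
 EL.nil)))
noncomputable def S256_285_216_364_6 : EL := (EL.cons 12 (TM.mk (P.lf 8589934592 0 0) 0)
 (EL.cons 3 (TM.mk (P.cons (P.lf 454308690 0 0) (P.cons (P.lf 450679503 0 0) (P.cons (P.lf 0 5414782 0) (P.cons (P.lf 0 1756837 0) (P.cons (P.lf 35658 0 0) (P.cons (P.lf 6731 0 0) P.nil)))))) 269)
 (EL.cons 7 (TM.mk (P.cons (P.lf 0 2130328762 0) (P.cons (P.lf 34172730 0 0) (P.cons (P.lf 16813380 0 0) (P.cons (P.lf 0 270802 0) (P.cons (P.lf 0 64991 0) (P.cons (P.lf 1601 0 0) P.nil)))))) 330)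
 EL.nil)))
noncomputable def S256_285_216_364_7 : EL := (EL.cons 12 (TM.mk (P.cons (P.cons (P.lf 3724861566 0 0) (P.cons (P.lf 0 792627392 0) (P.cons (P.lf 0 341789872 0) (P.lf 37976648 0 0)))) (P.cons (P.cons (P.lf 0 865358918 0) (P.cons (P.lf 38143744 0 0) (P.cons (P.lf 16448008 0 0) (P.lf 0 1827552 0)))) (P.cons (P.cons (P.lf 0 25304430 0) (P.cons (P.lf 18155296 0 0) (P.cons (P.lf 7828768 0 0) (P.lf 0 869856 0)))) (P.cons (P.cons (P.lf 28520032 0 0) (P.cons (P.lf 0 901080 0) (P.cons (P.lf 0 388552 0) P.nil))) (P.cons (P.cons (P.lf 0 236512 0) (P.cons (P.lf 0 206128 0) P.nil)) (P.cons (P.cons (P.lf 0 309342 0) P.nil) P.nil)))))) 200854)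
 (EL.cons 3 (TM.mk (P.cons (P.cons (P.lf 0 2656146432 0) (P.cons (P.lf 83841734 0 0) (P.cons (P.lf 36153500 0 0) (P.lf 0 4017054 0)))) (P.cons (P.cons (P.lf 5775605 0 0) (P.cons (P.lf 79137244 0 0) (P.cons (P.lf 34124872 0 0) (P.lf 0 3791650 0)))) (P.cons (P.cons (P.lf 245841081 0 0) (P.cons (P.lf 0 6922198 0) (P.cons (P.lf 0 2984928 0) (P.lf 331656 0 0)))) (P.cons (P.cons (P.lf 0 4754565 0) (P.cons (P.lf 0 2085888 0) (P.cons (P.lf 0 899458 0) P.nil))) (P.cons (P.cons (P.lf 0 4518282 0) (P.cons (P.lf 161426 0 0) P.nil)) (P.cons (P.cons (P.lf 127166 0 0) P.nil) P.nil)))))) 606389)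
 (EL.cons 7 (TM.mk (P.cons (P.cons (P.lf 0 1140116242 0) (P.cons (P.lf 206109842 0 0) (P.cons (P.lf 88876889 0 0) (P.lf 0 9875210 0)))) (P.cons (P.cons (P.lf 437941 0 0) (P.cons (P.lf 6000574 0 0) (P.cons (P.lf 2587514 0 0) (P.lf 0 287501 0)))) (P.cons (P.cons (P.lf 18861608 0 0) (P.cons (P.lf 2499571 0 0) (P.cons (P.lf 1077842 0 0) (P.lf 0 119757 0)))) (P.cons (P.cons (P.lf 12168576 0 0) (P.cons (P.lf 0 486602 0) (P.cons (P.lf 0 209828 0) P.nil))) (P.cons (P.cons (P.lf 0 501515 0) (P.cons (P.lf 0 104287 0) P.nil)) (P.cons (P.cons (P.lf 0 238268 0) P.nil) P.nil)))))) 421229)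
 (EL.cons 10 (TM.mk (P.cons (P.cons (P.lf 0 1252154487 0) (P.cons (P.lf 0 1166497743 0) (P.cons (P.lf 119720616 0 0) (P.cons (P.lf 24898557 0 0) (P.lf 0 2074878 0))))) (P.cons (P.cons (P.lf 40171767 0 0) (P.cons (P.lf 37423716 0 0) (P.cons (P.lf 0 3840888 0) (P.cons (P.lf 0 798798 0) (P.lf 66564 0 0))))) (P.cons (P.cons (P.lf 19442775 0 0) (P.cons (P.lf 18112743 0 0) (P.cons (P.lf 0 1858956 0) (P.cons (P.lf 0 386610 0) P.nil)))) (P.cons (P.cons (P.lf 0 635391 0) (P.cons (P.lf 0 591924 0) (P.cons (P.lf 60750 0 0) P.nil))) (P.cons (P.cons (P.lf 0 149289 0) (P.cons (P.lf 0 139077 0) P.nil)) (P.cons (P.cons (P.lf 5619 0 0) P.nil) P.nil)))))) 71619)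
 EL.nil))))
noncomputable def S256_285_216_364_8 : EL := (EL.cons 12 (TM.mk (P.cons (P.cons (P.lf 1615215288 0 0) (P.cons (P.lf 0 687415550 0) (P.cons (P.lf 0 223282460 0) (P.cons (P.lf 96012318 0 0) (P.cons (P.lf 6591162 0 0) (P.cons (P.lf 0 3022148 0) P.nil)))))) (P.cons (P.cons (P.lf 0 750492832 0) (P.cons (P.lf 192780826 0 0) (P.cons (P.lf 76089912 0 0) (P.cons (P.lf 0 15307472 0) (P.cons (P.lf 0 634374 0) P.nil))))) (P.cons (P.cons (P.lf 65231586 0 0) (P.cons (P.lf 12729996 0 0) (P.cons (P.lf 2308174 0 0) (P.cons (P.lf 0 3353408 0) P.nil)))) (P.cons (P.cons (P.lf 29832726 0 0) (P.cons (P.lf 0 9927480 0) (P.cons (P.lf 0 3953308 0) P.nil))) (P.cons (P.cons (P.lf 0 5876850 0) (P.cons (P.lf 192754 0 0) P.nil)) (P.cons (P.cons (P.lf 0 388656 0) P.nil) P.nil)))))) 3650736)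
 (EL.cons 3 (TM.mk (P.cons (P.cons (P.lf 0 2389000939 0) (P.cons (P.lf 599255483 0 0) (P.cons (P.lf 239064692 0 0) (P.cons (P.lf 0 45391876 0) (P.cons (P.lf 0 1742980 0) (P.cons (P.lf 799180 0 0) P.nil)))))) (P.cons (P.cons (P.lf 495123402 0 0) (P.cons (P.lf 52954968 0 0) (P.cons (P.lf 5509761 0 0) (P.cons (P.lf 0 17478684 0) (P.cons (P.lf 0 1561300 0) P.nil))))) (P.cons (P.cons (P.lf 264637531 0 0) (P.cons (P.lf 0 90209084 0) (P.cons (P.lf 0 35980790 0) (P.cons (P.lf 6838998 0 0) P.nil)))) (P.cons (P.cons (P.lf 0 76470740 0) (P.cons (P.lf 3156697 0 0) (P.cons (P.lf 2161705 0 0) P.nil))) (P.cons (P.cons (P.lf 0 5597829 0) (P.cons (P.lf 3639970 0 0) P.nil)) (P.cons (P.cons (P.lf 3234990 0 0) P.nil) P.nil)))))) 8780674)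
 (EL.cons 7 (TM.mk (P.cons (P.cons (P.lf 0 588201305 0) (P.cons (P.lf 218676265 0 0) (P.cons (P.lf 74397177 0 0) (P.cons (P.lf 0 27638206 0) (P.cons (P.lf 0 1793219 0) (P.cons (P.lf 822215 0 0) P.nil)))))) (P.cons (P.cons (P.lf 37542693 0 0) (P.cons (P.lf 4015300 0 0) (P.cons (P.lf 417772 0 0) (P.cons (P.lf 0 1325316 0) (P.cons (P.lf 0 118385 0) P.nil))))) (P.cons (P.cons (P.lf 38988616 0 0) (P.cons (P.lf 0 4816276 0) (P.cons (P.lf 0 2517665 0) (P.cons (P.lf 0 149424 0) P.nil)))) (P.cons (P.cons (P.lf 7838714 0 0) (P.cons (P.lf 0 4341166 0) (P.cons (P.lf 0 1667868 0) P.nil))) (P.cons (P.cons (P.lf 0 4647406 0) (P.cons (P.lf 419599 0 0) P.nil)) (P.cons (P.cons (P.lf 0 105271 0) P.nil) P.nil)))))) 4178000)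
 (EL.cons 10 (TM.mk (P.cons (P.cons (P.lf 0 1085945898 0) (P.cons (P.lf 0 780576528 0) (P.cons (P.lf 418749288 0 0) (P.cons (P.lf 81256572 0 0) (P.cons (P.lf 0 26236026 0) (P.cons (P.lf 0 539904 0) P.nil)))))) (P.cons (P.cons (P.lf 287126124 0 0) (P.cons (P.lf 248950506 0 0) (P.cons (P.lf 0 52710870 0) (P.cons (P.lf 0 10494666 0) (P.cons (P.lf 2435718 0 0) P.nil))))) (P.cons (P.cons (P.lf 16145334 0 0) (P.cons (P.lf 6516522 0 0) (P.cons (P.lf 0 13160700 0) (P.cons (P.lf 0 2521938 0) P.nil)))) (P.cons (P.cons (P.lf 0 13019826 0) (P.cons (P.lf 0 11406726 0) (P.cons (P.lf 2229390 0 0) P.nil))) (P.cons (P.cons (P.lf 219702 0 0) (P.cons (P.lf 360432 0 0) P.nil)) (P.cons (P.cons (P.lf 255774 0 0) P.nil) P.nil)))))) 3491322)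
 EL.nil))))
noncomputable def S256_285_216_364_9 : EL := (EL.cons 3 (TM.mk (P.cons (P.lf 454308690 0 0) (P.cons (P.lf 450679503 0 0) (P.cons (P.lf 0 5414782 0) (P.cons (P.lf 0 1756837 0) (P.cons (P.lf 35658 0 0) (P.cons (P.lf 6731 0 0) P.nil)))))) 269)
 (EL.cons 7 (TM.mk (P.cons (P.lf 0 2130328762 0) (P.cons (P.lf 34172730 0 0) (P.cons (P.lf 16813380 0 0) (P.cons (P.lf 0 270802 0) (P.cons (P.lf 0 64991 0) (P.cons (P.lf 1601 0 0) P.nil)))))) 330)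
 EL.nil))
noncomputable def S256_285_216_364_10 : EL := (EL.cons 3 (TM.mk (P.cons (P.cons (P.lf 197002311 0 0) (P.cons (P.lf 0 41920867 0) (P.cons (P.lf 0 18076750 0) (P.lf 2008527 0 0)))) (P.cons (P.cons (P.lf 149661056 0 0) (P.cons (P.lf 0 39568622 0) (P.cons (P.lf 0 17062436 0) (P.lf 1895825 0 0)))) (P.cons (P.cons (P.lf 0 49088250 0) (P.cons (P.lf 3461099 0 0) (P.cons (P.lf 1492464 0 0) (P.lf 0 165828 0)))) (P.cons (P.cons (P.lf 0 35568 0) (P.cons (P.lf 1042944 0 0) (P.cons (P.lf 449729 0 0) P.nil))) (P.cons (P.cons (P.lf 1692222 0 0) (P.cons (P.lf 0 80713 0) P.nil)) (P.cons (P.cons (P.lf 0 42244 0) P.nil) P.nil)))))) 149644)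
 (EL.cons 7 (TM.mk (P.cons (P.cons (P.lf 0 923776501 0) (P.cons (P.lf 196573898 0 0) (P.cons (P.lf 84764882 0 0) (P.lf 0 9418319 0)))) (P.cons (P.cons (P.lf 229429882 0 0) (P.cons (P.lf 0 12613013 0) (P.cons (P.lf 0 5438872 0) (P.lf 604318 0 0)))) (P.cons (P.cons (P.lf 10123778 0 0) (P.cons (P.lf 0 5902259 0) (P.cons (P.lf 0 2545120 0) (P.lf 282789 0 0)))) (P.cons (P.cons (P.lf 0 8984943 0) (P.cons (P.lf 395344 0 0) (P.cons (P.lf 170476 0 0) P.nil))) (P.cons (P.cons (P.lf 121684 0 0) (P.cons (P.lf 87866 0 0) P.nil)) (P.cons (P.cons (P.lf 139639 0 0) P.nil) P.nil)))))) 90829)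
 EL.nil))
noncomputable def S256_285_216_364_11 : EL := (EL.cons 3 (TM.mk (P.cons (P.cons (P.lf 85426301 0 0) (P.cons (P.lf 0 36356371 0) (P.cons (P.lf 0 11809072 0) (P.cons (P.lf 5077946 0 0) (P.cons (P.lf 348596 0 0) (P.cons (P.lf 0 159836 0) P.nil)))))) (P.cons (P.cons (P.lf 45051450 0 0) (P.cons (P.lf 0 25870056 0) (P.cons (P.lf 0 7690455 0) (P.cons (P.lf 4227792 0 0) (P.cons (P.lf 312260 0 0) P.nil))))) (P.cons (P.cons (P.lf 0 36943529 0) (P.cons (P.lf 11221030 0 0) (P.cons (P.lf 4254958 0 0) (P.cons (P.lf 0 1041000 0) P.nil)))) (P.cons (P.cons (P.lf 5142982 0 0) (P.cons (P.lf 161911 0 0) (P.cons (P.lf 0 90281 0) P.nil))) (P.cons (P.cons (P.lf 1373463 0 0) (P.cons (P.lf 0 560966 0) P.nil)) (P.cons (P.cons (P.lf 0 362886 0) P.nil) P.nil)))))) 1085310)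
 (EL.cons 7 (TM.mk (P.cons (P.cons (P.lf 0 400578089 0) (P.cons (P.lf 170481055 0 0) (P.cons (P.lf 55374699 0 0) (P.cons (P.lf 0 23811334 0) (P.cons (P.lf 0 1634627 0) (P.cons (P.lf 749501 0 0) P.nil)))))) (P.cons (P.cons (P.lf 192550101 0 0) (P.cons (P.lf 0 50544902 0) (P.cons (P.lf 0 19758788 0) (P.cons (P.lf 4178256 0 0) (P.cons (P.lf 183547 0 0) P.nil))))) (P.cons (P.cons (P.lf 0 16001738 0) (P.cons (P.lf 0 3735652 0) (P.cons (P.lf 0 706769 0) (P.cons (P.lf 958686 0 0) P.nil)))) (P.cons (P.cons (P.lf 0 8658982 0) (P.cons (P.lf 2911694 0 0) (P.cons (P.lf 1145586 0 0) P.nil))) (P.cons (P.cons (P.lf 1715276 0 0) (P.cons (P.lf 0 63257 0) P.nil)) (P.cons (P.cons (P.lf 135323 0 0) P.nil) P.nil)))))) 1088668)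
 EL.nil))
noncomputable def S256_285_216_364_12 : EL := (EL.cons 4 (TM.mk (P.cons (P.lf 0 454308690 0) (P.cons (P.lf 0 450679503 0) (P.cons (P.lf 5414782 0 0) (P.cons (P.lf 1756837 0 0) (P.cons (P.lf 0 35658 0) (P.cons (P.lf 0 6731 0) P.nil)))))) 269)
 (EL.cons 8 (TM.mk (P.cons (P.lf 2130328762 0 0) (P.cons (P.lf 0 34172730 0) (P.cons (P.lf 0 16813380 0) (P.cons (P.lf 270802 0 0) (P.cons (P.lf 64991 0 0) (P.cons (P.lf 0 1601 0) P.nil)))))) 330)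
 EL.nil))
noncomputable def S256_285_216_364_13 : EL := (EL.cons 4 (TM.mk (P.cons (P.cons (P.lf 0 197002311 0) (P.cons (P.lf 41920867 0 0) (P.cons (P.lf 18076750 0 0) (P.lf 0 2008527 0)))) (P.cons (P.cons (P.lf 0 149661056 0) (P.cons (P.lf 39568622 0 0) (P.cons (P.lf 17062436 0 0) (P.lf 0 1895825 0)))) (P.cons (P.cons (P.lf 49088250 0 0) (P.cons (P.lf 0 3461099 0) (P.cons (P.lf 0 1492464 0) (P.lf 165828 0 0)))) (P.cons (P.cons (P.lf 35568 0 0) (P.cons (P.lf 0 1042944 0) (P.cons (P.lf 0 449729 0) P.nil))) (P.cons (P.cons (P.lf 0 1692222 0) (P.cons (P.lf 80713 0 0) P.nil)) (P.cons (P.cons (P.lf 42244 0 0) P.nil) P.nil)))))) 149644)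
 (EL.cons 8 (TM.mk (P.cons (P.cons (P.lf 923776501 0 0) (P.cons (P.lf 0 196573898 0) (P.cons (P.lf 0 84764882 0) (P.lf 9418319 0 0)))) (P.cons (P.cons (P.lf 0 229429882 0) (P.cons (P.lf 12613013 0 0) (P.cons (P.lf 5438872 0 0) (P.lf 0 604318 0)))) (P.cons (P.cons (P.lf 0 10123778 0) (P.cons (P.lf 5902259 0 0) (P.cons (P.lf 2545120 0 0) (P.lf 0 282789 0)))) (P.cons (P.cons (P.lf 8984943 0 0) (P.cons (P.lf 0 395344 0) (P.cons (P.lf 0 170476 0) P.nil))) (P.cons (P.cons (P.lf 0 121684 0) (P.cons (P.lf 0 87866 0) P.nil)) (P.cons (P.cons (P.lf 0 139639 0) P.nil) P.nil)))))) 90829)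
 EL.nil))
noncomputable def S256_285_216_364_14 : EL := (EL.cons 4 (TM.mk (P.cons (P.cons (P.lf 0 85426301 0) (P.cons (P.lf 36356371 0 0) (P.cons (P.lf 11809072 0 0) (P.cons (P.lf 0 5077946 0) (P.cons (P.lf 0 348596 0) (P.cons (P.lf 159836 0 0) P.nil)))))) (P.cons (P.cons (P.lf 0 45051450 0) (P.cons (P.lf 25870056 0 0) (P.cons (P.lf 7690455 0 0) (P.cons (P.lf 0 4227792 0) (P.cons (P.lf 0 312260 0) P.nil))))) (P.cons (P.cons (P.lf 36943529 0 0) (P.cons (P.lf 0 11221030 0) (P.cons (P.lf 0 4254958 0) (P.cons (P.lf 1041000 0 0) P.nil)))) (P.cons (P.cons (P.lf 0 5142982 0) (P.cons (P.lf 0 161911 0) (P.cons (P.lf 90281 0 0) P.nil))) (P.cons (P.cons (P.lf 0 1373463 0) (P.cons (P.lf 560966 0 0) P.nil)) (P.cons (P.cons (P.lf 362886 0 0) P.nil) P.nil)))))) 1085310)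
 (EL.cons 8 (TM.mk (P.cons (P.cons (P.lf 400578089 0 0) (P.cons (P.lf 0 170481055 0) (P.cons (P.lf 0 55374699 0) (P.cons (P.lf 23811334 0 0) (P.cons (P.lf 1634627 0 0) (P.cons (P.lf 0 749501 0) P.nil)))))) (P.cons (P.cons (P.lf 0 192550101 0) (P.cons (P.lf 50544902 0 0) (P.cons (P.lf 19758788 0 0) (P.cons (P.lf 0 4178256 0) (P.cons (P.lf 0 183547 0) P.nil))))) (P.cons (P.cons (P.lf 16001738 0 0) (P.cons (P.lf 3735652 0 0) (P.cons (P.lf 706769 0 0) (P.cons (P.lf 0 958686 0) P.nil)))) (P.cons (P.cons (P.lf 8658982 0 0) (P.cons (P.lf 0 2911694 0) (P.cons (P.lf 0 1145586 0) P.nil))) (P.cons (P.cons (P.lf 0 1715276 0) (P.cons (P.lf 63257 0 0) P.nil)) (P.cons (P.cons (P.lf 0 135323 0) P.nil) P.nil)))))) 1088668)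
 EL.nil))
noncomputable def S256_285_216_364_15 : EL := (EL.cons 4 (TM.mk (P.cons (P.lf 0 51259096 0) (P.cons (P.lf 0 101699239 0) (P.cons (P.lf 0 49221527 0) (P.cons (P.lf 1608569 0 0) (P.cons (P.lf 377947 0 0) (P.cons (P.lf 0 14225 0) P.nil)))))) 2557)
 (EL.cons 8 (TM.mk (P.cons (P.lf 240362403 0 0) (P.cons (P.lf 234586631 0 0) (P.cons (P.lf 0 8586714 0) (P.cons (P.lf 0 2734865 0) (P.cons (P.lf 94029 0 0) (P.cons (P.lf 17324 0 0) P.nil)))))) 877)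
 EL.nil))
noncomputable def S256_285_216_364_16 : EL := (EL.cons 4 (TM.mk (P.cons (P.cons (P.lf 0 22227530 0) (P.cons (P.lf 4729879 0 0) (P.cons (P.lf 2039577 0 0) (P.lf 0 226619 0)))) (P.cons (P.cons (P.lf 0 38936043 0) (P.cons (P.lf 9156575 0 0) (P.cons (P.lf 3948418 0 0) (P.lf 0 438712 0)))) (P.cons (P.cons (P.lf 0 10947690 0) (P.cons (P.lf 3981929 0 0) (P.cons (P.lf 1717052 0 0) (P.lf 0 190783 0)))) (P.cons (P.cons (P.lf 5785551 0 0) (P.cons (P.lf 0 576567 0) (P.cons (P.lf 0 248622 0) P.nil))) (P.cons (P.cons (P.lf 0 189407 0) (P.cons (P.lf 0 119865 0) P.nil)) (P.cons (P.cons (P.lf 0 207759 0) P.nil) P.nil)))))) 147301)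
 (EL.cons 8 (TM.mk (P.cons (P.cons (P.lf 104228578 0 0) (P.cons (P.lf 0 22179193 0) (P.cons (P.lf 0 9563918 0) (P.lf 1062657 0 0)))) (P.cons (P.cons (P.lf 77509667 0 0) (P.cons (P.lf 0 20578907 0) (P.cons (P.lf 0 8873856 0) (P.lf 985983 0 0)))) (P.cons (P.cons (P.lf 0 28064031 0) (P.cons (P.lf 2342034 0 0) (P.cons (P.lf 1009911 0 0) (P.lf 0 112212 0)))) (P.cons (P.cons (P.lf 0 213894 0) (P.cons (P.lf 684824 0 0) (P.cons (P.lf 295304 0 0) P.nil))) (P.cons (P.cons (P.lf 1113831 0 0) (P.cons (P.lf 0 69344 0) P.nil)) (P.cons (P.cons (P.lf 0 37527 0) P.nil) P.nil)))))) 120359)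
 EL.nil))
noncomputable def S256_285_216_364_17 : EL := (EL.cons 4 (TM.mk (P.cons (P.cons (P.lf 0 9638545 0) (P.cons (P.lf 4102044 0 0) (P.cons (P.lf 1332403 0 0) (P.cons (P.lf 0 572938 0) (P.cons (P.lf 0 39330 0) (P.cons (P.lf 18033 0 0) P.nil)))))) (P.cons (P.cons (P.lf 0 14644649 0) (P.cons (P.lf 6988163 0 0) (P.cons (P.lf 2189463 0 0) (P.cons (P.lf 0 1045378 0) (P.cons (P.lf 0 74249 0) P.nil))))) (P.cons (P.cons (P.lf 0 759321 0) (P.cons (P.lf 1580623 0 0) (P.cons (P.lf 364810 0 0) (P.cons (P.lf 0 348922 0) P.nil)))) (P.cons (P.cons (P.lf 3652575 0 0) (P.cons (P.lf 0 1324861 0) (P.cons (P.lf 0 481554 0) P.nil))) (P.cons (P.cons (P.lf 0 761387 0) (P.cons (P.lf 49294 0 0) P.nil)) (P.cons (P.cons (P.lf 0 122528 0) P.nil) P.nil)))))) 606413)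
 (EL.cons 8 (TM.mk (P.cons (P.cons (P.lf 45196738 0 0) (P.cons (P.lf 0 19235170 0) (P.cons (P.lf 0 6247859 0) (P.cons (P.lf 2686603 0 0) (P.cons (P.lf 184432 0 0) (P.cons (P.lf 0 84565 0) P.nil)))))) (P.cons (P.cons (P.lf 23110496 0 0) (P.cons (P.lf 0 13378592 0) (P.cons (P.lf 0 3968589 0) (P.cons (P.lf 2193714 0 0) (P.cons (P.lf 162250 0 0) P.nil))))) (P.cons (P.cons (P.lf 0 20284875 0) (P.cons (P.lf 6308110 0 0) (P.cons (P.lf 2365761 0 0) (P.cons (P.lf 0 607849 0) P.nil)))) (P.cons (P.cons (P.lf 2852174 0 0) (P.cons (P.lf 96010 0 0) (P.cons (P.lf 0 52558 0) P.nil))) (P.cons (P.cons (P.lf 841686 0 0) (P.cons (P.lf 0 347347 0) P.nil)) (P.cons (P.cons (P.lf 0 226916 0) P.nil) P.nil)))))) 668152)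
 EL.nil))
noncomputable def S256_285_216_364_18 : EL := (EL.cons 4 (TM.mk (P.cons (P.lf 0 5783501 0) (P.cons (P.lf 0 17211901 0) (P.cons (P.lf 0 16867610 0) (P.cons (P.lf 0 5168619 0) (P.cons (P.lf 332796 0 0) (P.cons (P.lf 59024 0 0) P.nil)))))) 4306)
 (EL.cons 8 (TM.mk (P.cons (P.lf 27119797 0 0) (P.cons (P.lf 53371278 0 0) (P.cons (P.lf 24964624 0 0) (P.cons (P.lf 0 1690000 0) (P.cons (P.lf 0 384174 0) (P.cons (P.lf 22382 0 0) P.nil)))))) 4185)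
 EL.nil))
noncomputable def S256_285_216_364_19 : EL := (EL.cons 4 (TM.mk (P.cons (P.cons (P.lf 0 2507904 0) (P.cons (P.lf 533666 0 0) (P.cons (P.lf 230122 0 0) (P.lf 0 25568 0)))) (P.cons (P.cons (P.lf 0 6880977 0) (P.cons (P.lf 1562528 0 0) (P.cons (P.lf 673779 0 0) (P.lf 0 74864 0)))) (P.cons (P.cons (P.lf 0 5563335 0) (P.cons (P.lf 1467787 0 0) (P.cons (P.lf 632925 0 0) (P.lf 0 70324 0)))) (P.cons (P.cons (P.lf 0 510510 0) (P.cons (P.lf 366255 0 0) (P.cons (P.lf 157933 0 0) P.nil))) (P.cons (P.cons (P.lf 657704 0 0) (P.cons (P.lf 0 87365 0) P.nil)) (P.cons (P.cons (P.lf 0 48026 0) P.nil) P.nil)))))) 135741)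
 (EL.cons 8 (TM.mk (P.cons (P.cons (P.lf 11759983 0 0) (P.cons (P.lf 0 2502451 0) (P.cons (P.lf 0 1079084 0) (P.lf 119897 0 0)))) (P.cons (P.cons (P.lf 20411361 0 0) (P.cons (P.lf 0 4804353 0) (P.cons (P.lf 0 2071691 0) (P.lf 230187 0 0)))) (P.cons (P.cons (P.lf 5368866 0 0) (P.cons (P.lf 0 2009269 0) (P.cons (P.lf 0 866419 0) (P.lf 96268 0 0)))) (P.cons (P.cons (P.lf 0 3314978 0) (P.cons (P.lf 376756 0 0) (P.cons (P.lf 162461 0 0) P.nil))) (P.cons (P.cons (P.lf 106575 0 0) (P.cons (P.lf 74459 0 0) P.nil)) (P.cons (P.cons (P.lf 133826 0 0) P.nil) P.nil)))))) 103601)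
 EL.nil))
noncomputable def S256_285_216_364_20 : EL := (EL.cons 4 (TM.mk (P.cons (P.cons (P.lf 0 1087504 0) (P.cons (P.lf 462828 0 0) (P.cons (P.lf 150332 0 0) (P.cons (P.lf 0 64643 0) (P.cons (P.lf 0 4437 0) (P.cons (P.lf 2034 0 0) P.nil)))))) (P.cons (P.cons (P.lf 0 2731155 0) (P.cons (P.lf 1247596 0 0) (P.cons (P.lf 396166 0 0) (P.cons (P.lf 0 182075 0) (P.cons (P.lf 0 12779 0) P.nil))))) (P.cons (P.cons (P.lf 0 1711849 0) (P.cons (P.lf 954990 0 0) (P.cons (P.lf 284430 0 0) (P.cons (P.lf 0 155604 0) P.nil)))) (P.cons (P.cons (P.lf 351025 0 0) (P.cons (P.lf 16245 0 0) (P.cons (P.lf 0 17025 0) P.nil))) (P.cons (P.cons (P.lf 330241 0 0) (P.cons (P.lf 0 147864 0) P.nil)) (P.cons (P.cons (P.lf 0 103770 0) P.nil) P.nil)))))) 349785)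
 (EL.cons 8 (TM.mk (P.cons (P.cons (P.lf 5099492 0 0) (P.cons (P.lf 0 2170280 0) (P.cons (P.lf 0 704938 0) (P.cons (P.lf 303126 0 0) (P.cons (P.lf 20808 0 0) (P.cons (P.lf 0 9541 0) P.nil)))))) (P.cons (P.cons (P.lf 7666285 0 0) (P.cons (P.lf 0 3662434 0) (P.cons (P.lf 0 1147077 0) (P.cons (P.lf 548218 0 0) (P.cons (P.lf 38949 0 0) P.nil))))) (P.cons (P.cons (P.lf 237201 0 0) (P.cons (P.lf 0 759828 0) (P.cons (P.lf 0 168865 0) (P.cons (P.lf 173341 0 0) P.nil)))) (P.cons (P.cons (P.lf 0 1999425 0) (P.cons (P.lf 743267 0 0) (P.cons (P.lf 266926 0 0) P.nil))) (P.cons (P.cons (P.lf 431798 0 0) (P.cons (P.lf 0 31260 0) P.nil)) (P.cons (P.cons (P.lf 73900 0 0) P.nil) P.nil)))))) 358420)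
 EL.nil))
noncomputable def S256_285_216_364_21 : EL := (EL.cons 4 (TM.mk (P.cons (P.cons (P.lf 2853148743 0 0) (P.cons (P.lf 0 125762601 0) (P.cons (P.lf 0 54230250 0) (P.lf 6025581 0 0)))) (P.cons (P.cons (P.lf 143885451 0 0) (P.cons (P.lf 0 118705866 0) (P.cons (P.lf 0 51187308 0) (P.lf 5687475 0 0)))) (P.cons (P.cons (P.lf 0 294929331 0) (P.cons (P.lf 10383297 0 0) (P.cons (P.lf 4477392 0 0) (P.lf 0 497484 0)))) (P.cons (P.cons (P.lf 4718997 0 0) (P.cons (P.lf 3128832 0 0) (P.cons (P.lf 1349187 0 0) P.nil))) (P.cons (P.cons (P.lf 6210504 0 0) (P.cons (P.lf 0 242139 0) P.nil)) (P.cons (P.cons (P.lf 0 169410 0) P.nil) P.nil)))))) 456726)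
 (EL.cons 8 (TM.mk (P.cons (P.cons (P.lf 216339741 0 0) (P.cons (P.lf 0 9535944 0) (P.cons (P.lf 0 4112007 0) (P.lf 456891 0 0)))) (P.cons (P.cons (P.lf 228991941 0 0) (P.cons (P.lf 0 18613587 0) (P.cons (P.lf 0 8026386 0) (P.lf 891819 0 0)))) (P.cons (P.cons (P.lf 0 8737830 0) (P.cons (P.lf 0 8401830 0) (P.cons (P.lf 0 3622962 0) (P.lf 402546 0 0)))) (P.cons (P.cons (P.lf 0 21153519 0) (P.cons (P.lf 881946 0 0) (P.cons (P.lf 380304 0 0) P.nil))) (P.cons (P.cons (P.lf 623199 0 0) (P.cons (P.lf 192153 0 0) P.nil)) (P.cons (P.cons (P.lf 377907 0 0) P.nil) P.nil)))))) 330381)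
 (EL.cons 11 (TM.mk (P.cons (P.cons (P.lf 1252154487 0 0) (P.cons (P.lf 1166497743 0 0) (P.cons (P.lf 0 119720616 0) (P.cons (P.lf 0 24898557 0) (P.lf 2074878 0 0))))) (P.cons (P.cons (P.lf 0 40171767 0) (P.cons (P.lf 0 37423716 0) (P.cons (P.lf 3840888 0 0) (P.cons (P.lf 798798 0 0) (P.lf 0 66564 0))))) (P.cons (P.cons (P.lf 0 19442775 0) (P.cons (P.lf 0 18112743 0) (P.cons (P.lf 1858956 0 0) (P.cons (P.lf 386610 0 0) P.nil)))) (P.cons (P.cons (P.lf 635391 0 0) (P.cons (P.lf 591924 0 0) (P.cons (P.lf 0 60750 0) P.nil))) (P.cons (P.cons (P.lf 149289 0 0) (P.cons (P.lf 139077 0 0) P.nil)) (P.cons (P.cons (P.lf 0 5619 0) P.nil) P.nil)))))) 71619)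
 EL.nil)))
noncomputable def S256_285_216_364_22 : EL := (EL.cons 4 (TM.mk (P.cons (P.cons (P.lf 1237213620 0 0) (P.cons (P.lf 0 317805927 0) (P.cons (P.lf 0 125436882 0) (P.cons (P.lf 25234911 0 0) (P.cons (P.lf 1045788 0 0) (P.cons (P.lf 0 479508 0) P.nil)))))) (P.cons (P.cons (P.lf 0 225035976 0) (P.cons (P.lf 0 39412512 0) (P.cons (P.lf 0 6600108 0) (P.cons (P.lf 10853238 0 0) (P.cons (P.lf 936780 0 0) P.nil))))) (P.cons (P.cons (P.lf 0 150790530 0) (P.cons (P.lf 50715057 0 0) (P.cons (P.lf 20117874 0 0) (P.cons (P.lf 0 3939999 0) P.nil)))) (P.cons (P.cons (P.lf 40806861 0 0) (P.cons (P.lf 0 1497393 0) (P.cons (P.lf 0 1125993 0) P.nil))) (P.cons (P.cons (P.lf 3485646 0 0) (P.cons (P.lf 0 2100468 0) P.nil)) (P.cons (P.cons (P.lf 0 1798938 0) P.nil) P.nil)))))) 3847671)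
 (EL.cons 8 (TM.mk (P.cons (P.cons (P.lf 93811608 0 0) (P.cons (P.lf 0 24097605 0) (P.cons (P.lf 0 9511239 0) (P.cons (P.lf 1913436 0 0) (P.cons (P.lf 79296 0 0) (P.cons (P.lf 0 36357 0) P.nil)))))) (P.cons (P.cons (P.lf 77503704 0 0) (P.cons (P.lf 0 27280101 0) (P.cons (P.lf 0 10088280 0) (P.cons (P.lf 2751786 0 0) (P.cons (P.lf 150966 0 0) P.nil))))) (P.cons (P.cons (P.lf 0 27495177 0) (P.cons (P.lf 540312 0 0) (P.cons (P.lf 905448 0 0) (P.cons (P.lf 554055 0 0) P.nil)))) (P.cons (P.cons (P.lf 0 8248848 0) (P.cons (P.lf 3626430 0 0) (P.cons (P.lf 1406727 0 0) P.nil))) (P.cons (P.cons (P.lf 3181341 0 0) (P.cons (P.lf 0 241428 0) P.nil)) (P.cons (P.cons (P.lf 120297 0 0) P.nil) P.nil)))))) 1544655)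
 (EL.cons 11 (TM.mk (P.cons (P.cons (P.lf 542972949 0 0) (P.cons (P.lf 390288264 0 0) (P.cons (P.lf 0 209374644 0) (P.cons (P.lf 0 40628286 0) (P.cons (P.lf 13118013 0 0) (P.cons (P.lf 269952 0 0) P.nil)))))) (P.cons (P.cons (P.lf 0 143563062 0) (P.cons (P.lf 0 124475253 0) (P.cons (P.lf 26355435 0 0) (P.cons (P.lf 5247333 0 0) (P.cons (P.lf 0 1217859 0) P.nil))))) (P.cons (P.cons (P.lf 0 8072667 0) (P.cons (P.lf 0 3258261 0) (P.cons (P.lf 6580350 0 0) (P.cons (P.lf 1260969 0 0) P.nil)))) (P.cons (P.cons (P.lf 6509913 0 0) (P.cons (P.lf 5703363 0 0) (P.cons (P.lf 0 1114695 0) P.nil))) (P.cons (P.cons (P.lf 0 109851 0) (P.cons (P.lf 0 180216 0) P.nil)) (P.cons (P.cons (P.lf 0 127887 0) P.nil) P.nil)))))) 1745661)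
 EL.nil)))
noncomputable def S256_285_216_364_23 : EL := (EL.cons 4 (TM.mk (P.cons (P.cons (P.lf 321917301 0 0) (P.cons (P.lf 0 14189640 0) (P.cons (P.lf 0 6118731 0) (P.lf 679857 0 0)))) (P.cons (P.cons (P.lf 335580126 0 0) (P.cons (P.lf 0 27469725 0) (P.cons (P.lf 0 11845254 0) (P.lf 1316136 0 0)))) (P.cons (P.cons (P.lf 0 21008628 0) (P.cons (P.lf 0 11945787 0) (P.cons (P.lf 0 5151159 0) (P.lf 572349 0 0)))) (P.cons (P.cons (P.lf 0 33916617 0) (P.cons (P.lf 1729701 0 0) (P.cons (P.lf 745866 0 0) P.nil))) (P.cons (P.cons (P.lf 1588008 0 0) (P.cons (P.lf 359598 0 0) P.nil)) (P.cons (P.cons (P.lf 804390 0 0) P.nil) P.nil)))))) 433203)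
 (EL.cons 8 (TM.mk (P.cons (P.cons (P.lf 24409347 0 0) (P.cons (P.lf 0 1075926 0) (P.cons (P.lf 0 463950 0) (P.lf 51549 0 0)))) (P.cons (P.cons (P.lf 50051241 0 0) (P.cons (P.lf 0 3167481 0) (P.cons (P.lf 0 1365852 0) (P.lf 151761 0 0)))) (P.cons (P.cons (P.lf 24353679 0 0) (P.cons (P.lf 0 3018516 0) (P.cons (P.lf 0 1301616 0) (P.lf 144621 0 0)))) (P.cons (P.cons (P.lf 0 3767064 0) (P.cons (P.lf 0 811692 0) (P.cons (P.lf 0 350010 0) P.nil))) (P.cons (P.cons (P.lf 0 2383590 0) (P.cons (P.lf 139728 0 0) P.nil)) (P.cons (P.cons (P.lf 147039 0 0) P.nil) P.nil)))))) 257301)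
 (EL.cons 11 (TM.mk (P.cons (P.cons (P.lf 141279066 0 0) (P.cons (P.lf 131614521 0 0) (P.cons (P.lf 0 13507929 0) (P.cons (P.lf 0 2809272 0) (P.lf 234105 0 0))))) (P.cons (P.cons (P.lf 135617946 0 0) (P.cons (P.lf 126340662 0 0) (P.cons (P.lf 0 12966660 0) (P.cons (P.lf 0 2696703 0) (P.lf 224724 0 0))))) (P.cons (P.cons (P.lf 0 8373894 0) (P.cons (P.lf 0 7801056 0) (P.cons (P.lf 800640 0 0) (P.cons (P.lf 166509 0 0) P.nil)))) (P.cons (P.cons (P.lf 0 2596800 0) (P.cons (P.lf 0 2419161 0) (P.cons (P.lf 248283 0 0) P.nil))) (P.cons (P.cons (P.lf 142722 0 0) (P.cons (P.lf 132960 0 0) P.nil)) (P.cons (P.cons (P.lf 25440 0 0) P.nil) P.nil)))))) 126261)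
 EL.nil)))
noncomputable def S256_285_216_364_24 : EL := (EL.cons 4 (TM.mk (P.cons (P.cons (P.lf 139593306 0 0) (P.cons (P.lf 0 35857653 0) (P.cons (P.lf 0 14152890 0) (P.cons (P.lf 2847222 0 0) (P.cons (P.lf 117993 0 0) (P.cons (P.lf 0 54102 0) P.nil)))))) (P.cons (P.cons (P.lf 113087649 0 0) (P.cons (P.lf 0 40018077 0) (P.cons (P.lf 0 14784513 0) (P.cons (P.lf 4049034 0 0) (P.cons (P.lf 222747 0 0) P.nil))))) (P.cons (P.cons (P.lf 0 43864992 0) (P.cons (P.lf 1738152 0 0) (P.cons (P.lf 1699824 0 0) (P.cons (P.lf 736293 0 0) P.nil)))) (P.cons (P.cons (P.lf 0 12510603 0) (P.cons (P.lf 5699121 0 0) (P.cons (P.lf 2188302 0 0) P.nil))) (P.cons (P.cons (P.lf 5272611 0 0) (P.cons (P.lf 0 458409 0) P.nil)) (P.cons (P.cons (P.lf 198159 0 0) P.nil) P.nil)))))) 2415237)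
 (EL.cons 8 (TM.mk (P.cons (P.cons (P.lf 10584648 0 0) (P.cons (P.lf 0 2718903 0) (P.cons (P.lf 0 1073139 0) (P.cons (P.lf 215889 0 0) (P.cons (P.lf 8946 0 0) (P.cons (P.lf 0 4101 0) P.nil)))))) (P.cons (P.cons (P.lf 19244742 0 0) (P.cons (P.lf 0 5775162 0) (P.cons (P.lf 0 2202816 0) (P.cons (P.lf 524646 0 0) (P.cons (P.lf 25908 0 0) P.nil))))) (P.cons (P.cons (P.lf 5446389 0 0) (P.cons (P.lf 0 2960022 0) (P.cons (P.lf 0 1014204 0) (P.cons (P.lf 367938 0 0) P.nil)))) (P.cons (P.cons (P.lf 0 4153329 0) (P.cons (P.lf 516840 0 0) (P.cons (P.lf 277779 0 0) P.nil))) (P.cons (P.cons (P.lf 0 560334 0) (P.cons (P.lf 389619 0 0) P.nil)) (P.cons (P.cons (P.lf 393585 0 0) P.nil) P.nil)))))) 751977)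
 (EL.cons 11 (TM.mk (P.cons (P.cons (P.lf 61262976 0 0) (P.cons (P.lf 44035749 0 0) (P.cons (P.lf 0 23623485 0) (P.cons (P.lf 0 4584039 0) (P.cons (P.lf 1480089 0 0) (P.cons (P.lf 30456 0 0) P.nil)))))) (P.cons (P.cons (P.lf 44575539 0 0) (P.cons (P.lf 29639583 0 0) (P.cons (P.lf 0 20461119 0) (P.cons (P.lf 0 3955368 0) (P.cons (P.lf 1330854 0 0) P.nil))))) (P.cons (P.cons (P.lf 0 17709654 0) (P.cons (P.lf 0 14824674 0) (P.cons (P.lf 3973911 0 0) (P.cons (P.lf 784230 0 0) P.nil)))) (P.cons (P.cons (P.lf 0 212895 0) (P.cons (P.lf 275916 0 0) (P.cons (P.lf 666660 0 0) P.nil))) (P.cons (P.cons (P.lf 794544 0 0) (P.cons (P.lf 680175 0 0) P.nil)) (P.cons (P.cons (P.lf 0 32319 0) P.nil) P.nil)))))) 1217379)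
 EL.nil)))
noncomputable def S256_285_216_364_25 : EL := (EL.cons 4 (TM.mk (P.cons (P.cons (P.lf 36321537 0 0) (P.cons (P.lf 0 1600998 0) (P.cons (P.lf 0 690369 0) (P.lf 76707 0 0)))) (P.cons (P.cons (P.lf 73894482 0 0) (P.cons (P.lf 0 4687584 0) (P.cons (P.lf 0 2021340 0) (P.lf 224592 0 0)))) (P.cons (P.cons (P.lf 34757346 0 0) (P.cons (P.lf 0 4403361 0) (P.cons (P.lf 0 1898778 0) (P.lf 210975 0 0)))) (P.cons (P.cons (P.lf 0 6769950 0) (P.cons (P.lf 0 1098768 0) (P.cons (P.lf 0 473802 0) P.nil))) (P.cons (P.cons (P.lf 0 3732342 0) (P.cons (P.lf 262098 0 0) P.nil)) (P.cons (P.cons (P.lf 326784 0 0) P.nil) P.nil)))))) 441885)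
 (EL.cons 8 (TM.mk (P.cons (P.cons (P.lf 2754075 0 0) (P.cons (P.lf 0 121395 0) (P.cons (P.lf 0 52347 0) (P.lf 5814 0 0)))) (P.cons (P.cons (P.lf 8379297 0 0) (P.cons (P.lf 0 477807 0) (P.cons (P.lf 0 206034 0) (P.lf 22890 0 0)))) (P.cons (P.cons (P.lf 8317077 0 0) (P.cons (P.lf 0 693654 0) (P.cons (P.lf 0 299112 0) (P.lf 33234 0 0)))) (P.cons (P.cons (P.lf 2222853 0 0) (P.cons (P.lf 0 424707 0) (P.cons (P.lf 0 183138 0) P.nil))) (P.cons (P.cons (P.lf 0 744945 0) (P.cons (P.lf 0 69651 0) P.nil)) (P.cons (P.cons (P.lf 0 255273 0) P.nil) P.nil)))))) 167916)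
 (EL.cons 11 (TM.mk (P.cons (P.cons (P.lf 15940344 0 0) (P.cons (P.lf 14849904 0 0) (P.cons (P.lf 0 1524081 0) (P.cons (P.lf 0 316965 0) (P.lf 26412 0 0))))) (P.cons (P.cons (P.lf 31114614 0 0) (P.cons (P.lf 28986141 0 0) (P.cons (P.lf 0 2974920 0) (P.cons (P.lf 0 618699 0) (P.lf 51558 0 0))))) (P.cons (P.cons (P.lf 14044566 0 0) (P.cons (P.lf 13083813 0 0) (P.cons (P.lf 0 1342824 0) (P.cons (P.lf 0 279270 0) P.nil)))) (P.cons (P.cons (P.lf 0 1474278 0) (P.cons (P.lf 0 1373427 0) (P.cons (P.lf 140958 0 0) P.nil))) (P.cons (P.cons (P.lf 0 321207 0) (P.cons (P.lf 0 299235 0) P.nil)) (P.cons (P.cons (P.lf 27426 0 0) P.nil) P.nil)))))) 145101)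
 EL.nil)))
noncomputable def S256_285_216_364_26 : EL := (EL.cons 4 (TM.mk (P.cons (P.cons (P.lf 15750141 0 0) (P.cons (P.lf 0 4045773 0) (P.cons (P.lf 0 1596852 0) (P.cons (P.lf 321246 0 0) (P.cons (P.lf 13311 0 0) (P.cons (P.lf 0 6102 0) P.nil)))))) (P.cons (P.cons (P.lf 28383864 0 0) (P.cons (P.lf 0 8528646 0) (P.cons (P.lf 0 3252213 0) (P.cons (P.lf 775530 0 0) (P.cons (P.lf 38337 0 0) P.nil))))) (P.cons (P.cons (P.lf 7520658 0 0) (P.cons (P.lf 0 4234785 0) (P.cons (P.lf 0 1443969 0) (P.cons (P.lf 532443 0 0) P.nil)))) (P.cons (P.cons (P.lf 0 6534237 0) (P.cons (P.lf 907032 0 0) (P.cons (P.lf 463215 0 0) P.nil))) (P.cons (P.cons (P.lf 0 794493 0) (P.cons (P.lf 600969 0 0) P.nil)) (P.cons (P.cons (P.lf 649704 0 0) P.nil) P.nil)))))) 1182948)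
 (EL.cons 8 (TM.mk (P.cons (P.cons (P.lf 1194252 0 0) (P.cons (P.lf 0 306768 0) (P.cons (P.lf 0 121080 0) (P.cons (P.lf 24357 0 0) (P.cons (P.lf 1008 0 0) (P.cons (P.lf 0 462 0) P.nil)))))) (P.cons (P.cons (P.lf 3356073 0 0) (P.cons (P.lf 0 955923 0) (P.cons (P.lf 0 368655 0) (P.cons (P.lf 83358 0 0) (P.cons (P.lf 3924 0 0) P.nil))))) (P.cons (P.cons (P.lf 2754291 0 0) (P.cons (P.lf 0 976719 0) (P.cons (P.lf 0 359544 0) (P.cons (P.lf 99945 0 0) P.nil)))) (P.cons (P.cons (P.lf 110487 0 0) (P.cons (P.lf 0 264039 0) (P.cons (P.lf 0 78744 0) P.nil))) (P.cons (P.cons (P.lf 0 543720 0) (P.cons (P.lf 108285 0 0) P.nil)) (P.cons (P.cons (P.lf 0 14910 0) P.nil) P.nil)))))) 356523)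
 (EL.cons 11 (TM.mk (P.cons (P.cons (P.lf 6912225 0 0) (P.cons (P.lf 4968498 0 0) (P.cons (P.lf 0 2665407 0) (P.cons (P.lf 0 517209 0) (P.cons (P.lf 166995 0 0) (P.cons (P.lf 3435 0 0) P.nil)))))) (P.cons (P.cons (P.lf 11886411 0 0) (P.cons (P.lf 8273007 0 0) (P.cons (P.lf 0 4952718 0) (P.cons (P.lf 0 959358 0) (P.cons (P.lf 315819 0 0) P.nil))))) (P.cons (P.cons (P.lf 2908683 0 0) (P.cons (P.lf 1585614 0 0) (P.cons (P.lf 0 1810020 0) (P.cons (P.lf 0 348066 0) P.nil)))) (P.cons (P.cons (P.lf 0 2092890 0) (P.cons (P.lf 0 1687227 0) (P.cons (P.lf 557829 0 0) P.nil))) (P.cons (P.cons (P.lf 70725 0 0) (P.cons (P.lf 115017 0 0) P.nil)) (P.cons (P.cons (P.lf 93795 0 0) P.nil) P.nil)))))) 767601)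
 EL.nil)))
noncomputable def S256_285_216_364_27 : EL := (EL.cons 13 (TM.mk (P.lf 0 4294967296 0) 0)
 EL.nil)
noncomputable def S256_285_216_364_28 : EL := (EL.cons 13 (TM.mk (P.cons (P.cons (P.lf 0 1862430783 0) (P.cons (P.lf 396313696 0 0) (P.cons (P.lf 170894936 0 0) (P.lf 0 18988324 0)))) (P.cons (P.cons (P.lf 432679459 0 0) (P.cons (P.lf 0 19071872 0) (P.cons (P.lf 0 8224004 0) (P.lf 913776 0 0)))) (P.cons (P.cons (P.lf 12652215 0 0) (P.cons (P.lf 0 9077648 0) (P.cons (P.lf 0 3914384 0) (P.lf 434928 0 0)))) (P.cons (P.cons (P.lf 0 14260016 0) (P.cons (P.lf 450540 0 0) (P.cons (P.lf 194276 0 0) P.nil))) (P.cons (P.cons (P.lf 118256 0 0) (P.cons (P.lf 103064 0 0) P.nil)) (P.cons (P.cons (P.lf 154671 0 0) P.nil) P.nil)))))) 100427)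
 EL.nil)
noncomputable def S256_285_216_364_29 : EL := (EL.cons 13 (TM.mk (P.cons (P.cons (P.lf 0 807607644 0) (P.cons (P.lf 343707775 0 0) (P.cons (P.lf 111641230 0 0) (P.cons (P.lf 0 48006159 0) (P.cons (P.lf 0 3295581 0) (P.cons (P.lf 1511074 0 0) P.nil)))))) (P.cons (P.cons (P.lf 375246416 0 0) (P.cons (P.lf 0 96390413 0) (P.cons (P.lf 0 38044956 0) (P.cons (P.lf 7653736 0 0) (P.cons (P.lf 317187 0 0) P.nil))))) (P.cons (P.cons (P.lf 0 32615793 0) (P.cons (P.lf 0 6364998 0) (P.cons (P.lf 0 1154087 0) (P.cons (P.lf 1676704 0 0) P.nil)))) (P.cons (P.cons (P.lf 0 14916363 0) (P.cons (P.lf 4963740 0 0) (P.cons (P.lf 1976654 0 0) P.nil))) (P.cons (P.cons (P.lf 2938425 0 0) (P.cons (P.lf 0 96377 0) P.nil)) (P.cons (P.cons (P.lf 194328 0 0) P.nil) P.nil)))))) 1825368)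
 EL.nil)
noncomputable def S256_285_216_364_30 : EL := (EL.cons 13 (TM.mk (P.cons (P.lf 0 484595936 0) (P.cons (P.lf 0 480724804 0) (P.cons (P.lf 5775768 0 0) (P.cons (P.lf 1873960 0 0) (P.cons (P.lf 0 38036 0) (P.cons (P.lf 0 7180 0) P.nil)))))) 280)
 EL.nil)
noncomputable def S256_285_216_364_31 : EL := (EL.cons 13 (TM.mk (P.cons (P.cons (P.lf 0 210135799 0) (P.cons (P.lf 44715592 0 0) (P.cons (P.lf 19281867 0 0) (P.lf 0 2142429 0)))) (P.cons (P.cons (P.lf 0 159638460 0) (P.cons (P.lf 42206531 0 0) (P.cons (P.lf 18199932 0 0) (P.lf 0 2022214 0)))) (P.cons (P.cons (P.lf 52360801 0 0) (P.cons (P.lf 0 3691839 0) (P.cons (P.lf 0 1591962 0) (P.lf 176884 0 0)))) (P.cons (P.cons (P.lf 37940 0 0) (P.cons (P.lf 0 1112474 0) (P.cons (P.lf 0 479711 0) P.nil))) (P.cons (P.cons (P.lf 0 1805037 0) (P.cons (P.lf 86094 0 0) P.nil)) (P.cons (P.cons (P.lf 45061 0 0) P.nil) P.nil))))))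 159600)
 EL.nil)
noncomputable def S256_285_216_364_32 : EL := (EL.cons 13 (TM.mk (P.cons (P.cons (P.lf 0 91121388 0) (P.cons (P.lf 38780130 0 0) (P.cons (P.lf 12596344 0 0) (P.cons (P.lf 0 5416476 0) (P.cons (P.lf 0 371836 0) (P.cons (P.lf 170492 0 0) P.nil)))))) (P.cons (P.cons (P.lf 0 48054880 0) (P.cons (P.lf 27594727 0 0) (P.cons (P.lf 8203153 0 0) (P.cons (P.lf 0 4509645 0) (P.cons (P.lf 0 333078 0) P.nil))))) (P.cons (P.cons (P.lf 39406431 0 0) (P.cons (P.lf 0 11969099 0) (P.cons (P.lf 0 4538622 0) (P.cons (P.lf 1110401 0 0) P.nil)))) (P.cons (P.cons (P.lf 0 5485848 0) (P.cons (P.lf 0 172706 0) (P.cons (P.lf 96300 0 0) P.nil))) (P.cons (P.cons (P.lf 0 1465028 0) (P.cons (P.lf 598364 0 0) P.nil)) (P.cons (P.cons (P.lf 387079 0 0) P.nil) P.nil)))))) 1157641)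
 EL.nil)
noncomputable def S256_285_216_364_33 : EL := (EL.cons 14 (TM.mk (P.lf 8589934592 0 0) 0)
 EL.nil)
noncomputable def S256_285_216_364_34 : EL := (EL.cons 14 (TM.mk (P.cons (P.cons (P.lf 3724861566 0 0) (P.cons (P.lf 0 792627392 0) (P.cons (P.lf 0 341789872 0) (P.lf 37976648 0 0)))) (P.cons (P.cons (P.lf 0 865358918 0) (P.cons (P.lf 38143744 0 0) (P.cons (P.lf 16448008 0 0) (P.lf 0 1827552 0)))) (P.cons (P.cons (P.lf 0 25304430 0) (P.cons (P.lf 18155296 0 0) (P.cons (P.lf 7828768 0 0) (P.lf 0 869856 0)))) (P.cons (P.cons (P.lf 28520032 0 0) (P.cons (P.lf 0 901080 0) (P.cons (P.lf 0 388552 0) P.nil))) (P.cons (P.cons (P.lf 0 236512 0) (P.cons (P.lf 0 206128 0) P.nil)) (P.cons (P.cons (P.lf 0 309342 0) P.nil) P.nil)))))) 200854)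
 EL.nil)
noncomputable def S256_285_216_364_35 : EL := (EL.cons 14 (TM.mk (P.cons (P.cons (P.lf 1615215288 0 0) (P.cons (P.lf 0 687415550 0) (P.cons (P.lf 0 223282460 0) (P.cons (P.lf 96012318 0 0) (P.cons (P.lf 6591162 0 0) (P.cons (P.lf 0 3022148 0) P.nil)))))) (P.cons (P.cons (P.lf 0 750492832 0) (P.cons (P.lf 192780826 0 0) (P.cons (P.lf 76089912 0 0) (P.cons (P.lf 0 15307472 0) (P.cons (P.lf 0 634374 0) P.nil))))) (P.cons (P.cons (P.lf 65231586 0 0) (P.cons (P.lf 12729996 0 0) (P.cons (P.lf 2308174 0 0) (P.cons (P.lf 0 3353408 0) P.nil)))) (P.cons (P.cons (P.lf 29832726 0 0) (P.cons (P.lf 0 9927480 0) (P.cons (P.lf 0 3953308 0) P.nil))) (P.cons (P.cons (P.lf 0 5876850 0) (P.cons (P.lf 192754 0 0) P.nil)) (P.cons (P.cons (P.lf 0 388656 0) P.nil) P.nil)))))) 3650736)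
 EL.nil)
noncomputable def S256_285_216_364_36 : EL := (EL.cons 14 (TM.mk (P.cons (P.lf 969191872 0 0) (P.cons (P.lf 961449608 0 0) (P.cons (P.lf 0 11551536 0) (P.cons (P.lf 0 3747920 0) (P.cons (P.lf 76072 0 0) (P.cons (P.lf 14360 0 0) P.nil)))))) 560)
 EL.nil)
noncomputable def S256_285_216_364_37 : EL := (EL.cons 14 (TM.mk (P.cons (P.cons (P.lf 420271598 0 0) (P.cons (P.lf 0 89431184 0) (P.cons (P.lf 0 38563734 0) (P.lf 4284858 0 0)))) (P.cons (P.cons (P.lf 319276920 0 0) (P.cons (P.lf 0 84413062 0) (P.cons (P.lf 0 36399864 0) (P.lf 4044428 0 0)))) (P.cons (P.cons (P.lf 0 104721602 0) (P.cons (P.lf 7383678 0 0) (P.cons (P.lf 3183924 0 0) (P.lf 0 353768 0)))) (P.cons (P.cons (P.lf 0 75880 0) (P.cons (P.lf 2224948 0 0) (P.cons (P.lf 959422 0 0) P.nil))) (P.cons (P.cons (P.lf 3610074 0 0) (P.cons (P.lf 0 172188 0) P.nil)) (P.cons (P.cons (P.lf 0 90122 0) P.nil) P.nil))))))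 319200)
 EL.nil)
noncomputable def S256_285_216_364_38 : EL := (EL.cons 14 (TM.mk (P.cons (P.cons (P.lf 182242776 0 0) (P.cons (P.lf 0 77560260 0) (P.cons (P.lf 0 25192688 0) (P.cons (P.lf 10832952 0 0) (P.cons (P.lf 743672 0 0) (P.cons (P.lf 0 340984 0) P.nil)))))) (P.cons (P.cons (P.lf 96109760 0 0) (P.cons (P.lf 0 55189454 0) (P.cons (P.lf 0 16406306 0) (P.cons (P.lf 9019290 0 0) (P.cons (P.lf 666156 0 0) P.nil))))) (P.cons (P.cons (P.lf 0 78812862 0) (P.cons (P.lf 23938198 0 0) (P.cons (P.lf 9077244 0 0) (P.cons (P.lf 0 2220802 0) P.nil)))) (P.cons (P.cons (P.lf 10971696 0 0) (P.cons (P.lf 345412 0 0) (P.cons (P.lf 0 192600 0) P.nil))) (P.cons (P.cons (P.lf 2930056 0 0) (P.cons (P.lf 0 1196728 0) P.nil)) (P.cons (P.cons (P.lf 0 774158 0) P.nil) P.nil)))))) 2315282)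
 EL.nil)
noncomputable def S256_285_216_364_39 : EL := (EL.cons 14 (TM.mk (P.cons (P.lf 109352740 0 0) (P.cons (P.lf 216958378 0 0) (P.cons (P.lf 105005926 0 0) (P.cons (P.lf 0 3431614 0) (P.cons (P.lf 0 806288 0) (P.cons (P.lf 30348 0 0) P.nil)))))) 5440)
 EL.nil)
noncomputable def S256_285_216_364_40 : EL := (EL.cons 14 (TM.mk (P.cons (P.cons (P.lf 47418732 0 0) (P.cons (P.lf 0 10090410 0) (P.cons (P.lf 0 4351098 0) (P.lf 483454 0 0)))) (P.cons (P.cons (P.lf 83063560 0 0) (P.cons (P.lf 0 19534028 0) (P.cons (P.lf 0 8423292 0) (P.lf 935920 0 0)))) (P.cons (P.cons (P.lf 23355074 0 0) (P.cons (P.lf 0 8494782 0) (P.cons (P.lf 0 3663046 0) (P.lf 407004 0 0)))) (P.cons (P.cons (P.lf 0 12342510 0) (P.cons (P.lf 1230010 0 0) (P.cons (P.lf 530394 0 0) P.nil))) (P.cons (P.cons (P.lf 404070 0 0) (P.cons (P.lf 255714 0 0) P.nil)) (P.cons (P.cons (P.lf 443220 0 0) P.nil) P.nil))))))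 314202)
 EL.nil)
noncomputable def S256_285_216_364_41 : EL := (EL.cons 14 (TM.mk (P.cons (P.cons (P.lf 20562230 0 0) (P.cons (P.lf 0 8751028 0) (P.cons (P.lf 0 2842460 0) (P.cons (P.lf 1222268 0 0) (P.cons (P.lf 83906 0 0) (P.cons (P.lf 0 38472 0) P.nil)))))) (P.cons (P.cons (P.lf 31241918 0 0) (P.cons (P.lf 0 14908082 0) (P.cons (P.lf 0 4670856 0) (P.cons (P.lf 2230140 0 0) (P.cons (P.lf 158398 0 0) P.nil))))) (P.cons (P.cons (P.lf 1619886 0 0) (P.cons (P.lf 0 3371996 0) (P.cons (P.lf 0 778262 0) (P.cons (P.lf 744368 0 0) P.nil)))) (P.cons (P.cons (P.lf 0 7792160 0) (P.cons (P.lf 2826372 0 0) (P.cons (P.lf 1027316 0 0) P.nil))) (P.cons (P.cons (P.lf 1624294 0 0) (P.cons (P.lf 0 105162 0) P.nil)) (P.cons (P.cons (P.lf 261394 0 0) P.nil) P.nil)))))) 1293636)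
 EL.nil)
noncomputable def S256_285_216_364_42 : EL := (EL.cons 14 (TM.mk (P.cons (P.lf 12338136 0 0) (P.cons (P.lf 36718724 0 0) (P.cons (P.lf 35984236 0 0) (P.cons (P.lf 11026388 0 0) (P.cons (P.lf 0 709966 0) (P.cons (P.lf 0 125918 0) P.nil)))))) 9172)
 EL.nil)
noncomputable def S256_285_216_364_43 : EL := (EL.cons 14 (TM.mk (P.cons (P.cons (P.lf 5350196 0 0) (P.cons (P.lf 0 1138488 0) (P.cons (P.lf 0 490928 0) (P.lf 54546 0 0)))) (P.cons (P.cons (P.lf 14679418 0 0) (P.cons (P.lf 0 3333394 0) (P.cons (P.lf 0 1437396 0) (P.lf 159710 0 0)))) (P.cons (P.cons (P.lf 11868450 0 0) (P.cons (P.lf 0 3131280 0) (P.cons (P.lf 0 1350242 0) (P.lf 150026 0 0)))) (P.cons (P.cons (P.lf 1089090 0 0) (P.cons (P.lf 0 781346 0) (P.cons (P.lf 0 336924 0) P.nil))) (P.cons (P.cons (P.lf 0 1403102 0) (P.cons (P.lf 186380 0 0) P.nil)) (P.cons (P.cons (P.lf 102456 0 0) P.nil) P.nil)))))) 289542)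
 EL.nil)
noncomputable def S256_285_216_364_44 : EL := (EL.cons 14 (TM.mk (P.cons (P.cons (P.lf 2320010 0 0) (P.cons (P.lf 0 987368 0) (P.cons (P.lf 0 320710 0) (P.cons (P.lf 137906 0 0) (P.cons (P.lf 9466 0 0) (P.cons (P.lf 0 4340 0) P.nil)))))) (P.cons (P.cons (P.lf 5826464 0 0) (P.cons (P.lf 0 2661540 0) (P.cons (P.lf 0 845156 0) (P.cons (P.lf 388428 0 0) (P.cons (P.lf 27262 0 0) P.nil))))) (P.cons (P.cons (P.lf 3651946 0 0) (P.cons (P.lf 0 2037312 0) (P.cons (P.lf 0 606784 0) (P.cons (P.lf 331956 0 0) P.nil)))) (P.cons (P.cons (P.lf 0 748854 0) (P.cons (P.lf 0 34656 0) (P.cons (P.lf 36322 0 0) P.nil))) (P.cons (P.cons (P.lf 0 704516 0) (P.cons (P.lf 315444 0 0) P.nil)) (P.cons (P.cons (P.lf 221378 0 0) P.nil) P.nil)))))) 746162)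
 EL.nil)
noncomputable def S256_285_216_364_45 : EL := (EL.cons 14 (TM.mk (P.cons (P.cons (P.lf 700407352 0 0) (P.cons (P.lf 0 447126994 0) (P.cons (P.lf 0 97660356 0) (P.cons (P.lf 96730016 0 0) (P.cons (P.lf 0 156098 0) (P.cons (P.lf 0 6726124 0) P.nil)))))) (P.cons (P.cons (P.lf 0 488155388 0) (P.cons (P.lf 229270034 0 0) (P.cons (P.lf 67602122 0 0) (P.cons (P.lf 0 36971334 0) (P.cons (P.lf 0 1556838 0) P.nil))))) (P.cons (P.cons (P.lf 99133722 0 0) (P.cons (P.lf 0 17813722 0) (P.cons (P.lf 0 10338712 0) (P.cons (P.lf 0 1021298 0) P.nil)))) (P.cons (P.cons (P.lf 13938502 0 0) (P.cons (P.lf 0 12656294 0) (P.cons (P.lf 0 3279326 0) P.nil))) (P.cons (P.cons (P.lf 0 8282160 0) (P.cons (P.lf 2557770 0 0) P.nil)) (P.cons (P.cons (P.lf 514700 0 0) P.nil) P.nil)))))) 11781656)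
 EL.nil)
noncomputable def S256_285_216_364_46 : EL := (EL.cons 15 (TM.mk (P.lf 4294967296 0 0) 0)
 EL.nil)
noncomputable def S256_285_216_364_47 : EL := (EL.cons 15 (TM.mk (P.cons (P.cons (P.lf 1862430783 0 0) (P.cons (P.lf 0 396313696 0) (P.cons (P.lf 0 170894936 0) (P.lf 18988324 0 0)))) (P.cons (P.cons (P.lf 0 432679459 0) (P.cons (P.lf 19071872 0 0) (P.cons (P.lf 8224004 0 0) (P.lf 0 913776 0)))) (P.cons (P.cons (P.lf 0 12652215 0) (P.cons (P.lf 9077648 0 0) (P.cons (P.lf 3914384 0 0) (P.lf 0 434928 0)))) (P.cons (P.cons (P.lf 14260016 0 0) (P.cons (P.lf 0 450540 0) (P.cons (P.lf 0 194276 0) P.nil))) (P.cons (P.cons (P.lf 0 118256 0) (P.cons (P.lf 0 103064 0) P.nil)) (P.cons (P.cons (P.lf 0 154671 0) P.nil) P.nil)))))) 100427)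
 EL.nil)
noncomputable def S256_285_216_364_48 : EL := (EL.cons 15 (TM.mk (P.cons (P.cons (P.lf 807607644 0 0) (P.cons (P.lf 0 343707775 0) (P.cons (P.lf 0 111641230 0) (P.cons (P.lf 48006159 0 0) (P.cons (P.lf 3295581 0 0) (P.cons (P.lf 0 1511074 0) P.nil)))))) (P.cons (P.cons (P.lf 0 375246416 0) (P.cons (P.lf 96390413 0 0) (P.cons (P.lf 38044956 0 0) (P.cons (P.lf 0 7653736 0) (P.cons (P.lf 0 317187 0) P.nil))))) (P.cons (P.cons (P.lf 32615793 0 0) (P.cons (P.lf 6364998 0 0) (P.cons (P.lf 1154087 0 0) (P.cons (P.lf 0 1676704 0) P.nil)))) (P.cons (P.cons (P.lf 14916363 0 0) (P.cons (P.lf 0 4963740 0) (P.cons (P.lf 0 1976654 0) P.nil))) (P.cons (P.cons (P.lf 0 2938425 0) (P.cons (P.lf 96377 0 0) P.nil)) (P.cons (P.cons (P.lf 0 194328 0) P.nil) P.nil)))))) 1825368)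
 EL.nil)
noncomputable def S256_285_216_364 : SL := (SL.cons S256_285_216_364_0 (SL.cons S256_285_216_364_1 (SL.cons S256_285_216_364_2 (SL.cons S256_285_216_364_3 (SL.cons S256_285_216_364_4 (SL.cons S256_285_216_364_5 (SL.cons S256_285_216_364_6 (SL.cons S256_285_216_364_7 (SL.cons S256_285_216_364_8 (SL.cons S256_285_216_364_9 (SL.cons S256_285_216_364_10 (SL.cons S256_285_216_364_11 (SL.cons S256_285_216_364_12 (SL.cons S256_285_216_364_13 (SL.cons S256_285_216_364_14 (SL.cons S256_285_216_364_15 (SL.cons S256_285_216_364_16 (SL.cons S256_285_216_364_17 (SL.cons S256_285_216_364_18 (SL.cons S256_285_216_364_19 (SL.cons S256_285_216_364_20 (SL.cons S256_285_216_364_21 (SL.cons S256_285_216_364_22 (SL.cons S256_285_216_364_23 (SL.cons S256_285_216_364_24 (SL.cons S256_285_216_364_25 (SL.cons S256_285_216_364_26 (SL.cons S256_285_216_364_27 (SL.cons S256_285_216_364_28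 (SL.cons S256_285_216_364_29 (SL.cons S256_285_216_364_30 (SL.cons S256_285_216_364_31 (SL.cons S256_285_216_364_32 (SL.cons S256_285_216_364_33 (SL.cons S256_285_216_364_34 (SL.cons S256_285_216_364_35 (SL.cons S256_285_216_364_36 (SL.cons S256_285_216_364_37 (SL.cons S256_285_216_364_38 (SL.cons S256_285_216_364_39 (SL.cons S256_285_216_364_40 (SL.cons S256_285_216_364_41 (SL.cons S256_285_216_364_42 (SL.cons S256_285_216_364_43 (SL.cons S256_285_216_364_44 (SL.cons S256_285_216_364_45 (SL.cons S256_285_216_364_46 (SL.cons S256_285_216_364_47 (SL.cons S256_285_216_364_48 SL.nil)))))))))))))))))))))))))))))))))))))))))))))))))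
noncomputable def S256_285_290_364_0 : EL := (EL.cons 0 (TM.mk (P.cons (P.lf 8359606057 0 0) (P.cons (P.lf 0 190686074 0) (P.cons (P.lf 0 92290364 0) (P.cons (P.lf 3016066 0 0) (P.cons (P.lf 708651 0 0) (P.cons (P.lf 0 26673 0) P.nil)))))) 4788)
 (EL.cons 1 (TM.mk (P.cons (P.lf 450679505 0 0) (P.cons (P.lf 439849933 0 0) (P.cons (P.lf 0 16100088 0) (P.cons (P.lf 0 5127871 0) (P.cons (P.lf 176304 0 0) (P.cons (P.lf 32482 0 0) P.nil)))))) 1651)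
 (EL.cons 5 (TM.mk (P.cons (P.lf 4329140030 0 0) (P.cons (P.lf 67799490 0 0) (P.cons (P.lf 32814348 0 0) (P.cons (P.lf 0 1072376 0) (P.cons (P.lf 0 251962 0) (P.cons (P.lf 9484 0 0) P.nil)))))) 1837)
 (EL.cons 9 (TM.mk (P.lf 6442450944 0 0) 2)
 EL.nil))))
noncomputable def S256_285_290_364_1 : EL := (EL.cons 0 (TM.mk (P.cons (P.cons (P.lf 2573177104 0 0) (P.cons (P.lf 0 519579173 0) (P.cons (P.lf 0 66906785 0) (P.lf 4460455 0 0)))) (P.cons (P.cons (P.lf 0 1490129600 0) (P.cons (P.lf 74104598 0 0) (P.cons (P.lf 9542524 0 0) (P.lf 0 636163 0)))) (P.cons (P.cons (P.lf 22683450 0 0) (P.cons (P.lf 33302531 0 0) (P.cons (P.lf 4288392 0 0) (P.lf 0 285887 0)))) (P.cons (P.cons (P.lf 99379761 0 0) (P.cons (P.lf 0 3635572 0) (P.cons (P.lf 0 468149 0) P.nil))) (P.cons (P.cons (P.lf 0 4228616 0) (P.cons (P.lf 0 768724 0) P.nil)) (P.cons (P.cons (P.lf 0 2132800 0) P.nil) P.nil))))))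 446704)
 (EL.cons 1 (TM.mk (P.cons (P.cons (P.lf 1525762681 0 0) (P.cons (P.lf 0 71826265 0) (P.cons (P.lf 0 9249143 0) (P.lf 616603 0 0)))) (P.cons (P.cons (P.lf 90808602 0 0) (P.cons (P.lf 0 65225090 0) (P.cons (P.lf 0 8399101 0) (P.lf 559938 0 0)))) (P.cons (P.cons (P.lf 0 225742310 0) (P.cons (P.lf 9633088 0 0) (P.cons (P.lf 1240454 0 0) (P.lf 0 82691 0)))) (P.cons (P.cons (P.lf 9824288 0 0) (P.cons (P.lf 2770371 0 0) (P.cons (P.lf 356737 0 0) P.nil))) (P.cons (P.cons (P.lf 8298280 0 0) (P.cons (P.lf 0 318155 0) P.nil)) (P.cons (P.cons (P.lf 0 422093 0) P.nil) P.nil)))))) 338841)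
 (EL.cons 5 (TM.mk (P.cons (P.cons (P.lf 1845762948 0 0) (P.cons (P.lf 0 285283020 0) (P.cons (P.lf 0 36736212 0) (P.lf 2449078 0 0)))) (P.cons (P.cons (P.lf 0 186219122 0) (P.cons (P.lf 0 3729336 0) (P.cons (P.lf 0 480228 0) (P.lf 32012 0 0)))) (P.cons (P.cons (P.lf 0 20286802 0) (P.cons (P.lf 0 1074934 0) (P.cons (P.lf 0 138414 0) (P.lf 9222 0 0)))) (P.cons (P.cons (P.lf 0 11553930 0) (P.cons (P.lf 758308 0 0) (P.cons (P.lf 97642 0 0) P.nil))) (P.cons (P.cons (P.lf 1197018 0 0) (P.cons (P.lf 151086 0 0) P.nil)) (P.cons (P.cons (P.lf 501095 0 0) P.nil) P.nil)))))) 242465)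
 (EL.cons 9 (TM.mk (P.cons (P.cons (P.lf 2435885608 0 0) (P.cons (P.lf 0 414725538 0) (P.cons (P.lf 0 53404662 0) (P.lf 3560310 0 0)))) (P.cons (P.cons (P.lf 0 631802614 0) (P.cons (P.lf 19957908 0 0) (P.cons (P.lf 2569998 0 0) (P.lf 0 171330 0)))) (P.cons (P.cons (P.lf 0 10783738 0) (P.cons (P.lf 9499374 0 0) (P.cons (P.lf 1223238 0 0) (P.lf 0 81546 0)))) (P.cons (P.cons (P.lf 20983308 0 0) (P.cons (P.lf 0 471474 0) (P.cons (P.lf 0 60708 0) P.nil))) (P.cons (P.cons (P.lf 0 270426 0) (P.cons (P.lf 0 107850 0) P.nil)) (P.cons (P.cons (P.lf 0 226960 0) P.nil) P.nil)))))) 49673)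
 (EL.cons 2 (TM.mk (P.cons (P.cons (P.lf 0 190662015 0) (P.cons (P.lf 0 54429696 0) (P.cons (P.lf 4071251 0 0) (P.cons (P.lf 274342 0 0) (P.lf 0 13716 0))))) (P.cons (P.cons (P.lf 0 183022095 0) (P.cons (P.lf 0 52248670 0) (P.cons (P.lf 3908115 0 0) (P.cons (P.lf 263348 0 0) (P.lf 0 13165 0))))) (P.cons (P.cons (P.lf 11300920 0 0) (P.cons (P.lf 3226156 0 0) (P.cons (P.lf 0 241309 0) (P.cons (P.lf 0 16259 0) P.nil)))) (P.cons (P.cons (P.lf 3504493 0 0) (P.cons (P.lf 1000451 0 0) (P.cons (P.lf 0 74832 0) P.nil))) (P.cons (P.cons (P.lf 0 192611 0) (P.cons (P.lf 0 54984 0) P.nil)) (P.cons (P.cons (P.lf 0 34332 0) P.nil) P.nil)))))) 26413)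
 (EL.cons 6 (TM.mk (P.cons (P.cons (P.lf 894045804 0 0) (P.cons (P.lf 255229872 0 0) (P.cons (P.lf 0 19090782 0) (P.cons (P.lf 0 1286439 0) (P.lf 64320 0 0))))) (P.cons (P.cons (P.lf 0 43024323 0) (P.cons (P.lf 0 12282471 0) (P.cons (P.lf 918708 0 0) (P.cons (P.lf 61905 0 0) (P.lf 0 3093 0))))) (P.cons (P.cons (P.lf 0 20478309 0) (P.cons (P.lf 0 5846094 0) (P.cons (P.lf 437277 0 0) (P.cons (P.lf 29466 0 0) P.nil)))) (P.cons (P.cons (P.lf 1016382 0 0) (P.cons (P.lf 290151 0 0) (P.cons (P.lf 0 21702 0) P.nil))) (P.cons (P.cons (P.lf 232506 0 0) (P.cons (P.lf 66375 0 0) P.nil)) (P.cons (P.cons (P.lf 0 12612 0) P.nil) P.nil)))))) 16062)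
 EL.nil))))))
noncomputable def S256_285_290_364_2 : EL := (EL.cons 0 (TM.mk (P.cons (P.cons (P.lf 750751439 0 0) (P.cons (P.lf 0 317254922 0) (P.cons (P.lf 0 8600796 0) (P.cons (P.lf 11029932 0 0) (P.cons (P.lf 0 18956 0) (P.cons (P.lf 0 71315 0) P.nil)))))) (P.cons (P.cons (P.lf 0 984326311 0) (P.cons (P.lf 231325086 0 0) (P.cons (P.lf 21152380 0 0) (P.cons (P.lf 0 4209885 0) (P.cons (P.lf 5065 0 0) P.nil))))) (P.cons (P.cons (P.lf 230044672 0 0) (P.cons (P.lf 141871 0 0) (P.cons (P.lf 0 3529308 0) (P.cons (P.lf 0 914858 0) P.nil)))) (P.cons (P.cons (P.lf 63435378 0 0) (P.cons (P.lf 0 22200544 0) (P.cons (P.lf 0 2128592 0) P.nil))) (P.cons (P.cons (P.lf 0 25680854 0) (P.cons (P.lf 1627264 0 0) P.nil)) (P.cons (P.cons (P.lf 0 618086 0) P.nil) P.nil)))))) 3584618)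
 (EL.cons 1 (TM.mk (P.cons (P.cons (P.lf 1089350625 0 0) (P.cons (P.lf 0 228814599 0) (P.cons (P.lf 0 22084846 0) (P.cons (P.lf 3864935 0 0) (P.cons (P.lf 0 4332 0) (P.cons (P.lf 0 16314 0) P.nil)))))) (P.cons (P.cons (P.lf 0 260048111 0) (P.cons (P.lf 0 22807914 0) (P.cons (P.lf 3372574 0 0) (P.cons (P.lf 1820780 0 0) (P.cons (P.lf 0 3703 0) P.nil))))) (P.cons (P.cons (P.lf 0 162468036 0) (P.cons (P.lf 46750425 0 0) (P.cons (P.lf 4487301 0 0) (P.cons (P.lf 0 796083 0) P.nil)))) (P.cons (P.cons (P.lf 55948177 0 0) (P.cons (P.lf 0 2640649 0) (P.cons (P.lf 0 733117 0) P.nil))) (P.cons (P.cons (P.lf 4369582 0 0) (P.cons (P.lf 0 2545199 0) P.nil)) (P.cons (P.cons (P.lf 0 3162178 0) P.nil) P.nil)))))) 1585517)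
 (EL.cons 5 (TM.mk (P.cons (P.cons (P.lf 776873435 0 0) (P.cons (P.lf 0 242628359 0) (P.cons (P.lf 0 12453908 0) (P.cons (P.lf 6922016 0 0) (P.cons (P.lf 0 11032 0) (P.cons (P.lf 0 41537 0) P.nil)))))) (P.cons (P.cons (P.lf 0 191487886 0) (P.cons (P.lf 27044438 0 0) (P.cons (P.lf 3640851 0 0) (P.cons (P.lf 0 191410 0) (P.cons (P.lf 0 85 0) P.nil))))) (P.cons (P.cons (P.lf 0 20814210 0) (P.cons (P.lf 5227826 0 0) (P.cons (P.lf 618530 0 0) (P.cons (P.lf 0 58972 0) P.nil)))) (P.cons (P.cons (P.lf 0 2174464 0) (P.cons (P.lf 2240360 0 0) (P.cons (P.lf 164370 0 0) P.nil))) (P.cons (P.cons (P.lf 4255298 0 0) (P.cons (P.lf 0 415450 0) P.nil)) (P.cons (P.cons (P.lf 5742 0 0) P.nil) P.nil)))))) 1774805)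
 (EL.cons 9 (TM.mk (P.cons (P.cons (P.lf 921006421 0 0) (P.cons (P.lf 0 313614795 0) (P.cons (P.lf 0 13687030 0) (P.cons (P.lf 9568030 0 0) (P.cons (P.lf 0 15684 0) (P.cons (P.lf 0 59025 0) P.nil)))))) (P.cons (P.cons (P.lf 0 477768138 0) (P.cons (P.lf 96435304 0 0) (P.cons (P.lf 9848541 0 0) (P.cons (P.lf 0 1489632 0) (P.cons (P.lf 1509 0 0) P.nil))))) (P.cons (P.cons (P.lf 53805397 0 0) (P.cons (P.lf 4657302 0 0) (P.cons (P.lf 0 561474 0) (P.cons (P.lf 0 339034 0) P.nil)))) (P.cons (P.cons (P.lf 17982637 0 0) (P.cons (P.lf 0 4988076 0) (P.cons (P.lf 0 522757 0) P.nil))) (P.cons (P.cons (P.lf 0 4302055 0) (P.cons (P.lf 143940 0 0) P.nil)) (P.cons (P.cons (P.lf 0 188832 0) P.nil) P.nil)))))) 517741)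
 (EL.cons 2 (TM.mk (P.cons (P.cons (P.lf 0 144178312 0) (P.cons (P.lf 0 16612340 0) (P.cons (P.lf 13247358 0 0) (P.cons (P.lf 374945 0 0) (P.cons (P.lf 0 173345 0) (P.cons (P.lf 1715 0 0) P.nil)))))) (P.cons (P.cons (P.lf 0 101005076 0) (P.cons (P.lf 0 6452274 0) (P.cons (P.lf 11428655 0 0) (P.cons (P.lf 298051 0 0) (P.cons (P.lf 0 155868 0) P.nil))))) (P.cons (P.cons (P.lf 45081483 0 0) (P.cons (P.lf 9718554 0 0) (P.cons (P.lf 0 2268005 0) (P.cons (P.lf 0 86366 0) P.nil)))) (P.cons (P.cons (P.lf 0 195716 0) (P.cons (P.lf 0 948875 0) (P.cons (P.lf 0 365743 0) P.nil))) (P.cons (P.cons (P.lf 0 2047055 0) (P.cons (P.lf 0 471375 0) P.nil)) (P.cons (P.cons (P.lf 102493 0 0) P.nil) P.nil)))))) 373775)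
 (EL.cons 6 (TM.mk (P.cons (P.cons (P.lf 676076022 0 0) (P.cons (P.lf 77898036 0 0) (P.cons (P.lf 0 62119068 0) (P.cons (P.lf 0 1758198 0) (P.cons (P.lf 812868 0 0) (P.cons (P.lf 0 8052 0) P.nil)))))) (P.cons (P.cons (P.lf 0 207890694 0) (P.cons (P.lf 0 48269520 0) (P.cons (P.lf 9028416 0 0) (P.cons (P.lf 374724 0 0) (P.cons (P.lf 0 88506 0) P.nil))))) (P.cons (P.cons (P.lf 0 10039992 0) (P.cons (P.lf 2140308 0 0) (P.cons (P.lf 2288316 0 0) (P.cons (P.lf 48606 0 0) P.nil)))) (P.cons (P.cons (P.lf 10753062 0 0) (P.cons (P.lf 2554284 0 0) (P.cons (P.lf 0 443142 0) P.nil))) (P.cons (P.cons (P.lf 0 310290 0) (P.cons (P.lf 0 196242 0) P.nil)) (P.cons (P.cons (P.lf 0 251316 0) P.nil) P.nil)))))) 303162)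
 EL.nil))))))
noncomputable def S256_285_290_364_3 : EL := (EL.cons 0 (TM.mk (P.cons (P.lf 96110806 0 0) (P.cons (P.lf 190686074 0 0) (P.cons (P.lf 92290364 0 0) (P.cons (P.lf 0 3016066 0) (P.cons (P.lf 0 708651 0) (P.cons (P.lf 26673 0 0) P.nil)))))) 4788)
 (EL.cons 1 (TM.mk (P.cons (P.lf 0 450679505 0) (P.cons (P.lf 0 439849933 0) (P.cons (P.lf 16100088 0 0) (P.cons (P.lf 5127871 0 0) (P.cons (P.lf 0 176304 0) (P.cons (P.lf 0 32482 0) P.nil)))))) 1651)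
 (EL.cons 5 (TM.mk (P.cons (P.lf 2113310914 0 0) (P.cons (P.lf 0 67799490 0) (P.cons (P.lf 0 32814348 0) (P.cons (P.lf 1072376 0 0) (P.cons (P.lf 251962 0 0) (P.cons (P.lf 0 9484 0) P.nil)))))) 1830)
 EL.nil)))
noncomputable def S256_285_290_364_4 : EL := (EL.cons 0 (TM.mk (P.cons (P.cons (P.lf 36339419 0 0) (P.cons (P.lf 0 6187023 0) (P.cons (P.lf 0 796709 0) (P.lf 53112 0 0)))) (P.cons (P.cons (P.lf 62672793 0 0) (P.cons (P.lf 0 11977461 0) (P.cons (P.lf 0 1542350 0) (P.lf 102823 0 0)))) (P.cons (P.cons (P.lf 16033707 0 0) (P.cons (P.lf 0 5208651 0) (P.cons (P.lf 0 670723 0) (P.lf 44713 0 0)))) (P.cons (P.cons (P.lf 0 10197309 0) (P.cons (P.lf 754191 0 0) (P.cons (P.lf 97117 0 0) P.nil))) (P.cons (P.cons (P.lf 490396 0 0) (P.cons (P.lf 156791 0 0) P.nil)) (P.cons (P.cons (P.lf 373832 0 0) P.nil) P.nil)))))) 94016)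
 (EL.cons 1 (TM.mk (P.cons (P.cons (P.lf 0 170401563 0) (P.cons (P.lf 29011985 0 0) (P.cons (P.lf 3735903 0 0) (P.lf 0 249058 0)))) (P.cons (P.cons (P.lf 0 122109369 0) (P.cons (P.lf 26918694 0 0) (P.cons (P.lf 3466348 0 0) (P.lf 0 231090 0)))) (P.cons (P.cons (P.lf 49977301 0 0) (P.cons (P.lf 0 3063549 0) (P.cons (P.lf 0 394494 0) (P.lf 26298 0 0)))) (P.cons (P.cons (P.lf 0 371703 0) (P.cons (P.lf 0 895798 0) (P.cons (P.lf 0 115351 0) P.nil))) (P.cons (P.cons (P.lf 0 2010181 0) (P.cons (P.lf 90706 0 0) P.nil)) (P.cons (P.cons (P.lf 83203 0 0) P.nil) P.nil)))))) 88584)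
 (EL.cons 5 (TM.mk (P.cons (P.cons (P.lf 799041184 0 0) (P.cons (P.lf 0 136042014 0) (P.cons (P.lf 0 17518278 0) (P.lf 1167884 0 0)))) (P.cons (P.cons (P.lf 0 232884530 0) (P.cons (P.lf 10911288 0 0) (P.cons (P.lf 1405056 0 0) (P.lf 0 93668 0)))) (P.cons (P.cons (P.lf 0 9295452 0) (P.cons (P.lf 5018422 0 0) (P.cons (P.lf 646224 0 0) (P.lf 0 43080 0)))) (P.cons (P.cons (P.lf 10620144 0 0) (P.cons (P.lf 0 425314 0) (P.cons (P.lf 0 54766 0) P.nil))) (P.cons (P.cons (P.lf 0 264504 0) (P.cons (P.lf 0 91698 0) P.nil)) (P.cons (P.cons (P.lf 0 208570 0) P.nil) P.nil)))))) 48762)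
 EL.nil)))
noncomputable def S256_285_290_364_5 : EL := (EL.cons 0 (TM.mk (P.cons (P.cons (P.lf 13739904 0 0) (P.cons (P.lf 0 4678618 0) (P.cons (P.lf 0 204187 0) (P.cons (P.lf 142737 0 0) (P.cons (P.lf 0 233 0) (P.cons (P.lf 0 878 0) P.nil)))))) (P.cons (P.cons (P.lf 20132775 0 0) (P.cons (P.lf 0 7843830 0) (P.cons (P.lf 0 258189 0) (P.cons (P.lf 260973 0 0) (P.cons (P.lf 0 441 0) P.nil))))) (P.cons (P.cons (P.lf 0 144731 0) (P.cons (P.lf 0 1568833 0) (P.cons (P.lf 87052 0 0) (P.cons (P.lf 87915 0 0) P.nil)))) (P.cons (P.cons (P.lf 0 5414545 0) (P.cons (P.lf 1591723 0 0) (P.cons (P.lf 123073 0 0) P.nil))) (P.cons (P.cons (P.lf 1361218 0 0) (P.cons (P.lf 0 89423 0) P.nil)) (P.cons (P.cons (P.lf 158632 0 0) P.nil) P.nil)))))) 303898)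
 (EL.cons 1 (TM.mk (P.cons (P.cons (P.lf 0 64428695 0) (P.cons (P.lf 21938816 0 0) (P.cons (P.lf 957470 0 0) (P.cons (P.lf 0 669326 0) (P.cons (P.lf 1095 0 0) (P.cons (P.lf 4126 0 0) P.nil)))))) (P.cons (P.cons (P.lf 0 29458400 0) (P.cons (P.lf 14665539 0 0) (P.cons (P.lf 245510 0 0) (P.cons (P.lf 0 549037 0) (P.cons (P.lf 963 0 0) P.nil))))) (P.cons (P.cons (P.lf 31156708 0 0) (P.cons (P.lf 0 7693537 0) (P.cons (P.lf 0 667321 0) (P.cons (P.lf 149328 0 0) P.nil)))) (P.cons (P.cons (P.lf 0 5392359 0) (P.cons (P.lf 22342 0 0) (P.cons (P.lf 88620 0 0) P.nil))) (P.cons (P.cons (P.lf 0 1197811 0) (P.cons (P.lf 427462 0 0) P.nil)) (P.cons (P.cons (P.lf 403123 0 0) P.nil) P.nil)))))) 236407)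
 (EL.cons 5 (TM.mk (P.cons (P.cons (P.lf 302116838 0 0) (P.cons (P.lf 0 102874756 0) (P.cons (P.lf 0 4489742 0) (P.cons (P.lf 3138590 0 0) (P.cons (P.lf 0 5144 0) (P.cons (P.lf 0 19360 0) P.nil)))))) (P.cons (P.cons (P.lf 0 166414364 0) (P.cons (P.lf 34934018 0 0) (P.cons (P.lf 3374646 0 0) (P.cons (P.lf 0 589334 0) (P.cons (P.lf 658 0 0) P.nil))))) (P.cons (P.cons (P.lf 17986592 0 0) (P.cons (P.lf 2110240 0 0) (P.cons (P.lf 0 218108 0) (P.cons (P.lf 0 144270 0) P.nil)))) (P.cons (P.cons (P.lf 7919382 0 0) (P.cons (P.lf 0 2228636 0) (P.cons (P.lf 0 218012 0) P.nil))) (P.cons (P.cons (P.lf 0 1918006 0) (P.cons (P.lf 79774 0 0) P.nil)) (P.cons (P.cons (P.lf 0 119346 0) P.nil) P.nil)))))) 274444)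
 EL.nil)))
noncomputable def S256_285_290_364_6 : EL := (EL.cons 12 (TM.mk (P.lf 8589934592 0 0) 0)
 (EL.cons 3 (TM.mk (P.cons (P.lf 454308690 0 0) (P.cons (P.lf 450679503 0 0) (P.cons (P.lf 0 5414782 0) (P.cons (P.lf 0 1756837 0) (P.cons (P.lf 35658 0 0) (P.cons (P.lf 6731 0 0) P.nil)))))) 269)
 (EL.cons 7 (TM.mk (P.cons (P.lf 0 2130328762 0) (P.cons (P.lf 34172730 0 0) (P.cons (P.lf 16813380 0 0) (P.cons (P.lf 0 270802 0) (P.cons (P.lf 0 64991 0) (P.cons (P.lf 1601 0 0) P.nil)))))) 330)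
 EL.nil)))
noncomputable def S256_285_290_364_7 : EL := (EL.cons 12 (TM.mk (P.cons (P.cons (P.lf 3247847478 0 0) (P.cons (P.lf 0 552967384 0) (P.cons (P.lf 0 71206216 0) (P.lf 4747080 0 0)))) (P.cons (P.cons (P.lf 0 842403486 0) (P.cons (P.lf 26610544 0 0) (P.cons (P.lf 3426664 0 0) (P.lf 0 228440 0)))) (P.cons (P.cons (P.lf 0 14378318 0) (P.cons (P.lf 12665832 0 0) (P.cons (P.lf 1630984 0 0) (P.lf 0 108728 0)))) (P.cons (P.cons (P.lf 27977744 0 0) (P.cons (P.lf 0 628632 0) (P.cons (P.lf 0 80944 0) P.nil))) (P.cons (P.cons (P.lf 0 360568 0) (P.cons (P.lf 0 143800 0) P.nil)) (P.cons (P.cons (P.lf 0 302614 0) P.nil) P.nil)))))) 66206)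
 (EL.cons 3 (TM.mk (P.cons (P.cons (P.lf 0 2605689322 0) (P.cons (P.lf 58491220 0 0) (P.cons (P.lf 7531978 0 0) (P.lf 0 502130 0)))) (P.cons (P.cons (P.lf 53401490 0 0) (P.cons (P.lf 55209188 0 0) (P.cons (P.lf 7109346 0 0) (P.lf 0 473956 0)))) (P.cons (P.cons (P.lf 241675202 0 0) (P.cons (P.lf 0 4829190 0) (P.cons (P.lf 0 621858 0) (P.lf 41456 0 0)))) (P.cons (P.cons (P.lf 0 6009882 0) (P.cons (P.lf 0 1455194 0) (P.cons (P.lf 0 187384 0) P.nil))) (P.cons (P.cons (P.lf 0 4421130 0) (P.cons (P.lf 112618 0 0) P.nil)) (P.cons (P.cons (P.lf 143816 0 0) P.nil) P.nil)))))) 229356)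
 (EL.cons 7 (TM.mk (P.cons (P.cons (P.lf 0 1016076502 0) (P.cons (P.lf 143790163 0 0) (P.cons (P.lf 18516022 0 0) (P.lf 0 1234403 0)))) (P.cons (P.cons (P.lf 4049171 0 0) (P.cons (P.lf 4186231 0 0) (P.cons (P.lf 539064 0 0) (P.lf 0 35936 0)))) (P.cons (P.cons (P.lf 20365887 0 0) (P.cons (P.lf 1743794 0 0) (P.cons (P.lf 224548 0 0) (P.lf 0 14969 0)))) (P.cons (P.cons (P.lf 11875729 0 0) (P.cons (P.lf 0 339474 0) (P.cons (P.lf 0 43713 0) P.nil))) (P.cons (P.cons (P.lf 0 564279 0) (P.cons (P.lf 0 72754 0) P.nil)) (P.cons (P.cons (P.lf 0 232223 0) P.nil) P.nil)))))) 133477)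
 (EL.cons 10 (TM.mk (P.cons (P.cons (P.lf 0 1802490564 0) (P.cons (P.lf 0 514570323 0) (P.cons (P.lf 38489031 0 0) (P.cons (P.lf 2593599 0 0) (P.lf 0 129678 0))))) (P.cons (P.cons (P.lf 57827712 0 0) (P.cons (P.lf 16508505 0 0) (P.cons (P.lf 0 1234809 0) (P.cons (P.lf 0 83208 0) (P.lf 4158 0 0))))) (P.cons (P.cons (P.lf 27988095 0 0) (P.cons (P.lf 7989969 0 0) (P.cons (P.lf 0 597636 0) (P.cons (P.lf 0 40272 0) P.nil)))) (P.cons (P.cons (P.lf 0 914652 0) (P.cons (P.lf 0 261111 0) (P.cons (P.lf 19530 0 0) P.nil))) (P.cons (P.cons (P.lf 0 214902 0) (P.cons (P.lf 0 61350 0) P.nil)) (P.cons (P.cons (P.lf 8088 0 0) P.nil) P.nil)))))) 12954)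
 EL.nil))))
noncomputable def S256_285_290_364_8 : EL := (EL.cons 12 (TM.mk (P.cons (P.cons (P.lf 1228008562 0 0) (P.cons (P.lf 0 418153060 0) (P.cons (P.lf 0 18249374 0) (P.cons (P.lf 12757374 0 0) (P.cons (P.lf 0 20912 0) (P.cons (P.lf 0 78700 0) P.nil)))))) (P.cons (P.cons (P.lf 0 637024184 0) (P.cons (P.lf 128580406 0 0) (P.cons (P.lf 13131388 0 0) (P.cons (P.lf 0 1986176 0) (P.cons (P.lf 2012 0 0) P.nil))))) (P.cons (P.cons (P.lf 71740530 0 0) (P.cons (P.lf 6209736 0 0) (P.cons (P.lf 0 748632 0) (P.cons (P.lf 0 452046 0) P.nil)))) (P.cons (P.cons (P.lf 23976850 0 0) (P.cons (P.lf 0 6650768 0) (P.cons (P.lf 0 697010 0) P.nil))) (P.cons (P.cons (P.lf 0 5736074 0) (P.cons (P.lf 191920 0 0) P.nil)) (P.cons (P.cons (P.lf 0 251776 0) P.nil) P.nil)))))) 690292)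
 (EL.cons 3 (TM.mk (P.cons (P.cons (P.lf 0 2035365661 0) (P.cons (P.lf 401823090 0 0) (P.cons (P.lf 42329931 0 0) (P.cons (P.lf 0 5873857 0) (P.cons (P.lf 5525 0 0) (P.cons (P.lf 20811 0 0) P.nil)))))) (P.cons (P.cons (P.lf 520717661 0 0) (P.cons (P.lf 22395657 0 0) (P.cons (P.lf 0 5548155 0) (P.cons (P.lf 0 2363874 0) (P.cons (P.lf 4950 0 0) P.nil))))) (P.cons (P.cons (P.lf 211405427 0 0) (P.cons (P.lf 0 60482769 0) (P.cons (P.lf 0 6368050 0) (P.cons (P.lf 885027 0 0) P.nil)))) (P.cons (P.cons (P.lf 0 74281063 0) (P.cons (P.lf 2874421 0 0) (P.cons (P.lf 759741 0 0) P.nil))) (P.cons (P.cons (P.lf 0 3451691 0) (P.cons (P.lf 2436304 0 0) P.nil)) (P.cons (P.cons (P.lf 3095153 0 0) P.nil) P.nil)))))) 1713003)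
 (EL.cons 7 (TM.mk (P.cons (P.cons (P.lf 0 463805744 0) (P.cons (P.lf 135848283 0 0) (P.cons (P.lf 7808749 0 0) (P.cons (P.lf 0 3660413 0) (P.cons (P.lf 5684 0 0) (P.cons (P.lf 21407 0 0) P.nil)))))) (P.cons (P.cons (P.lf 39483380 0 0) (P.cons (P.lf 1698141 0 0) (P.cons (P.lf 0 420692 0) (P.cons (P.lf 0 179233 0) (P.cons (P.lf 372 0 0) P.nil))))) (P.cons (P.cons (P.lf 35930452 0 0) (P.cons (P.lf 0 3730189 0) (P.cons (P.lf 0 694896 0) (P.cons (P.lf 0 23229 0) P.nil)))) (P.cons (P.cons (P.lf 5300053 0 0) (P.cons (P.lf 0 2857190 0) (P.cons (P.lf 0 268588 0) P.nil))) (P.cons (P.cons (P.lf 0 4381642 0) (P.cons (P.lf 323430 0 0) P.nil)) (P.cons (P.cons (P.lf 9893 0 0) P.nil) P.nil)))))) 1057507)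
 (EL.cons 10 (TM.mk (P.cons (P.cons (P.lf 0 1363040514 0) (P.cons (P.lf 0 157050654 0) (P.cons (P.lf 125238588 0 0) (P.cons (P.lf 3544722 0 0) (P.cons (P.lf 0 1638828 0) (P.cons (P.lf 16236 0 0) P.nil)))))) (P.cons (P.cons (P.lf 397264938 0 0) (P.cons (P.lf 94797192 0 0) (P.cons (P.lf 0 16193286 0) (P.cons (P.lf 0 698622 0) (P.cons (P.lf 152154 0 0) P.nil))))) (P.cons (P.cons (P.lf 15856596 0 0) (P.cons (P.lf 0 4033950 0) (P.cons (P.lf 0 3884820 0) (P.cons (P.lf 0 81228 0) P.nil)))) (P.cons (P.cons (P.lf 0 18116316 0) (P.cons (P.lf 0 4446276 0) (P.cons (P.lf 687384 0 0) P.nil))) (P.cons (P.cons (P.lf 451206 0 0) (P.cons (P.lf 285228 0 0) P.nil)) (P.cons (P.cons (P.lf 355788 0 0) P.nil) P.nil)))))) 457620)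
 EL.nil))))
noncomputable def S256_285_290_364_9 : EL := (EL.cons 3 (TM.mk (P.cons (P.lf 454308690 0 0) (P.cons (P.lf 450679503 0 0) (P.cons (P.lf 0 5414782 0) (P.cons (P.lf 0 1756837 0) (P.cons (P.lf 35658 0 0) (P.cons (P.lf 6731 0 0) P.nil)))))) 269)
 (EL.cons 7 (TM.mk (P.cons (P.lf 0 2130328762 0) (P.cons (P.lf 34172730 0 0) (P.cons (P.lf 16813380 0 0) (P.cons (P.lf 0 270802 0) (P.cons (P.lf 0 64991 0) (P.cons (P.lf 1601 0 0) P.nil)))))) 330)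
 EL.nil))
noncomputable def S256_285_290_364_10 : EL := (EL.cons 3 (TM.mk (P.cons (P.cons (P.lf 171773756 0 0) (P.cons (P.lf 0 29245610 0) (P.cons (P.lf 0 3765989 0) (P.lf 251065 0 0)))) (P.cons (P.cons (P.lf 125848112 0 0) (P.cons (P.lf 0 27604594 0) (P.cons (P.lf 0 3554673 0) (P.lf 236978 0 0)))) (P.cons (P.cons (P.lf 0 47005312 0) (P.cons (P.lf 2414595 0 0) (P.cons (P.lf 310929 0 0) (P.lf 0 20728 0)))) (P.cons (P.cons (P.lf 592089 0 0) (P.cons (P.lf 727597 0 0) (P.cons (P.lf 93692 0 0) P.nil))) (P.cons (P.cons (P.lf 1643646 0 0) (P.cons (P.lf 0 56309 0) P.nil)) (P.cons (P.cons (P.lf 0 50569 0) P.nil) P.nil)))))) 55385)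
 (EL.cons 7 (TM.mk (P.cons (P.cons (P.lf 0 805475620 0) (P.cons (P.lf 137137519 0 0) (P.cons (P.lf 17659348 0 0) (P.lf 0 1177289 0)))) (P.cons (P.cons (P.lf 221839196 0 0) (P.cons (P.lf 0 8799323 0) (P.cons (P.lf 0 1133097 0) (P.lf 75538 0 0)))) (P.cons (P.cons (P.lf 6571716 0 0) (P.cons (P.lf 0 4117642 0) (P.cons (P.lf 0 530231 0) (P.lf 35347 0 0)))) (P.cons (P.cons (P.lf 0 8747018 0) (P.cons (P.lf 275808 0 0) (P.cons (P.lf 35514 0 0) P.nil))) (P.cons (P.cons (P.lf 174564 0 0) (P.cons (P.lf 61298 0 0) P.nil)) (P.cons (P.cons (P.lf 135808 0 0) P.nil) P.nil)))))) 29553)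
 EL.nil))
noncomputable def S256_285_290_364_11 : EL := (EL.cons 3 (TM.mk (P.cons (P.cons (P.lf 64947521 0 0) (P.cons (P.lf 0 22115484 0) (P.cons (P.lf 0 965181 0) (P.cons (P.lf 674717 0 0) (P.cons (P.lf 0 1105 0) (P.cons (P.lf 0 4161 0) P.nil)))))) (P.cons (P.cons (P.lf 30737447 0 0) (P.cons (P.lf 0 15138393 0) (P.cons (P.lf 0 262971 0) (P.cons (P.lf 564282 0 0) (P.cons (P.lf 0 990 0) P.nil))))) (P.cons (P.cons (P.lf 0 30401953 0) (P.cons (P.lf 7338111 0 0) (P.cons (P.lf 660860 0 0) (P.cons (P.lf 0 136155 0) P.nil)))) (P.cons (P.cons (P.lf 5182439 0 0) (P.cons (P.lf 0 21479 0) (P.cons (P.lf 0 80685 0) P.nil))) (P.cons (P.cons (P.lf 1044757 0 0) (P.cons (P.lf 0 370736 0) P.nil)) (P.cons (P.cons (P.lf 0 345733 0) P.nil) P.nil)))))) 188999)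
 (EL.cons 7 (TM.mk (P.cons (P.cons (P.lf 0 304549694 0) (P.cons (P.lf 103703175 0 0) (P.cons (P.lf 4525897 0 0) (P.cons (P.lf 0 3163865 0) (P.cons (P.lf 5186 0 0) (P.cons (P.lf 19517 0 0) P.nil)))))) (P.cons (P.cons (P.lf 162869150 0 0) (P.cons (P.lf 0 33551823 0) (P.cons (P.lf 0 3329222 0) (P.cons (P.lf 543329 0 0) (P.cons (P.lf 0 582 0) P.nil))))) (P.cons (P.cons (P.lf 0 17922464 0) (P.cons (P.lf 0 1846975 0) (P.cons (P.lf 202182 0 0) (P.cons (P.lf 129177 0 0) P.nil)))) (P.cons (P.cons (P.lf 0 6946511 0) (P.cons (P.lf 1938970 0 0) (P.cons (P.lf 196160 0 0) P.nil))) (P.cons (P.cons (P.lf 1669160 0 0) (P.cons (P.lf 0 62790 0) P.nil)) (P.cons (P.cons (P.lf 89339 0 0) P.nil) P.nil)))))) 219765)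
 EL.nil))
noncomputable def S256_285_290_364_12 : EL := (EL.cons 4 (TM.mk (P.cons (P.lf 0 454308690 0) (P.cons (P.lf 0 450679503 0) (P.cons (P.lf 5414782 0 0) (P.cons (P.lf 1756837 0 0) (P.cons (P.lf 0 35658 0) (P.cons (P.lf 0 6731 0) P.nil)))))) 269)
 (EL.cons 8 (TM.mk (P.cons (P.lf 2130328762 0 0) (P.cons (P.lf 0 34172730 0) (P.cons (P.lf 0 16813380 0) (P.cons (P.lf 270802 0 0) (P.cons (P.lf 64991 0 0) (P.cons (P.lf 0 1601 0) P.nil)))))) 330)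
 EL.nil))
noncomputable def S256_285_290_364_13 : EL := (EL.cons 4 (TM.mk (P.cons (P.cons (P.lf 0 171773756 0) (P.cons (P.lf 29245610 0 0) (P.cons (P.lf 3765989 0 0) (P.lf 0 251065 0)))) (P.cons (P.cons (P.lf 0 125848112 0) (P.cons (P.lf 27604594 0 0) (P.cons (P.lf 3554673 0 0) (P.lf 0 236978 0)))) (P.cons (P.cons (P.lf 47005312 0 0) (P.cons (P.lf 0 2414595 0) (P.cons (P.lf 0 310929 0) (P.lf 20728 0 0)))) (P.cons (P.cons (P.lf 0 592089 0) (P.cons (P.lf 0 727597 0) (P.cons (P.lf 0 93692 0) P.nil))) (P.cons (P.cons (P.lf 0 1643646 0) (P.cons (P.lf 56309 0 0) P.nil)) (P.cons (P.cons (P.lf 50569 0 0) P.nil) P.nil)))))) 55385)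
 (EL.cons 8 (TM.mk (P.cons (P.cons (P.lf 805475620 0 0) (P.cons (P.lf 0 137137519 0) (P.cons (P.lf 0 17659348 0) (P.lf 1177289 0 0)))) (P.cons (P.cons (P.lf 0 221839196 0) (P.cons (P.lf 8799323 0 0) (P.cons (P.lf 1133097 0 0) (P.lf 0 75538 0)))) (P.cons (P.cons (P.lf 0 6571716 0) (P.cons (P.lf 4117642 0 0) (P.cons (P.lf 530231 0 0) (P.lf 0 35347 0)))) (P.cons (P.cons (P.lf 8747018 0 0) (P.cons (P.lf 0 275808 0) (P.cons (P.lf 0 35514 0) P.nil))) (P.cons (P.cons (P.lf 0 174564 0) (P.cons (P.lf 0 61298 0) P.nil)) (P.cons (P.cons (P.lf 0 135808 0) P.nil) P.nil)))))) 29553)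
 EL.nil))
noncomputable def S256_285_290_364_14 : EL := (EL.cons 4 (TM.mk (P.cons (P.cons (P.lf 0 64947521 0) (P.cons (P.lf 22115484 0 0) (P.cons (P.lf 965181 0 0) (P.cons (P.lf 0 674717 0) (P.cons (P.lf 1105 0 0) (P.cons (P.lf 4161 0 0) P.nil)))))) (P.cons (P.cons (P.lf 0 30737447 0) (P.cons (P.lf 15138393 0 0) (P.cons (P.lf 262971 0 0) (P.cons (P.lf 0 564282 0) (P.cons (P.lf 990 0 0) P.nil))))) (P.cons (P.cons (P.lf 30401953 0 0) (P.cons (P.lf 0 7338111 0) (P.cons (P.lf 0 660860 0) (P.cons (P.lf 136155 0 0) P.nil)))) (P.cons (P.cons (P.lf 0 5182439 0) (P.cons (P.lf 21479 0 0) (P.cons (P.lf 80685 0 0) P.nil))) (P.cons (P.cons (P.lf 0 1044757 0) (P.cons (P.lf 370736 0 0) P.nil)) (P.cons (P.cons (P.lf 345733 0 0) P.nil) P.nil)))))) 188999)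
 (EL.cons 8 (TM.mk (P.cons (P.cons (P.lf 304549694 0 0) (P.cons (P.lf 0 103703175 0) (P.cons (P.lf 0 4525897 0) (P.cons (P.lf 3163865 0 0) (P.cons (P.lf 0 5186 0) (P.cons (P.lf 0 19517 0) P.nil)))))) (P.cons (P.cons (P.lf 0 162869150 0) (P.cons (P.lf 33551823 0 0) (P.cons (P.lf 3329222 0 0) (P.cons (P.lf 0 543329 0) (P.cons (P.lf 582 0 0) P.nil))))) (P.cons (P.cons (P.lf 17922464 0 0) (P.cons (P.lf 1846975 0 0) (P.cons (P.lf 0 202182 0) (P.cons (P.lf 0 129177 0) P.nil)))) (P.cons (P.cons (P.lf 6946511 0 0) (P.cons (P.lf 0 1938970 0) (P.cons (P.lf 0 196160 0) P.nil))) (P.cons (P.cons (P.lf 0 1669160 0) (P.cons (P.lf 62790 0 0) P.nil)) (P.cons (P.cons (P.lf 0 89339 0) P.nil) P.nil)))))) 219765)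
 EL.nil))
noncomputable def S256_285_290_364_15 : EL := (EL.cons 4 (TM.mk (P.cons (P.lf 0 51259096 0) (P.cons (P.lf 0 101699239 0) (P.cons (P.lf 0 49221527 0) (P.cons (P.lf 1608569 0 0) (P.cons (P.lf 377947 0 0) (P.cons (P.lf 0 14225 0) P.nil)))))) 2557)
 (EL.cons 8 (TM.mk (P.cons (P.lf 240362403 0 0) (P.cons (P.lf 234586631 0 0) (P.cons (P.lf 0 8586714 0) (P.cons (P.lf 0 2734865 0) (P.cons (P.lf 94029 0 0) (P.cons (P.lf 17324 0 0) P.nil)))))) 877)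
 EL.nil))
noncomputable def S256_285_290_364_16 : EL := (EL.cons 4 (TM.mk (P.cons (P.cons (P.lf 0 19381023 0) (P.cons (P.lf 3299745 0 0) (P.cons (P.lf 424911 0 0) (P.lf 0 28326 0)))) (P.cons (P.cons (P.lf 0 33425490 0) (P.cons (P.lf 6387979 0 0) (P.cons (P.lf 822586 0 0) (P.lf 0 54839 0)))) (P.cons (P.cons (P.lf 0 8551310 0) (P.cons (P.lf 2777947 0 0) (P.cons (P.lf 357719 0 0) (P.lf 0 23847 0)))) (P.cons (P.cons (P.lf 5438565 0 0) (P.cons (P.lf 0 402235 0) (P.cons (P.lf 0 51795 0) P.nil))) (P.cons (P.cons (P.lf 0 261544 0) (P.cons (P.lf 0 83622 0) P.nil)) (P.cons (P.cons (P.lf 0 199377 0) P.nil) P.nil)))))) 50150)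
 (EL.cons 8 (TM.mk (P.cons (P.cons (P.lf 90880834 0 0) (P.cons (P.lf 0 15473059 0) (P.cons (P.lf 0 1992482 0) (P.lf 132831 0 0)))) (P.cons (P.cons (P.lf 65124997 0 0) (P.cons (P.lf 0 14356637 0) (P.cons (P.lf 0 1848719 0) (P.lf 123248 0 0)))) (P.cons (P.cons (P.lf 0 26654561 0) (P.cons (P.lf 1633893 0 0) (P.cons (P.lf 210397 0 0) (P.lf 0 14026 0)))) (P.cons (P.cons (P.lf 198242 0 0) (P.cons (P.lf 477759 0 0) (P.cons (P.lf 61521 0 0) P.nil))) (P.cons (P.cons (P.lf 1072097 0 0) (P.cons (P.lf 0 48377 0) P.nil)) (P.cons (P.cons (P.lf 0 44375 0) P.nil) P.nil)))))) 47235)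
 EL.nil))
noncomputable def S256_285_290_364_17 : EL := (EL.cons 4 (TM.mk (P.cons (P.cons (P.lf 0 7327949 0) (P.cons (P.lf 2495263 0 0) (P.cons (P.lf 108900 0 0) (P.cons (P.lf 0 76126 0) (P.cons (P.lf 124 0 0) (P.cons (P.lf 468 0 0) P.nil)))))) (P.cons (P.cons (P.lf 0 10737480 0) (P.cons (P.lf 4183376 0 0) (P.cons (P.lf 137700 0 0) (P.cons (P.lf 0 139185 0) (P.cons (P.lf 235 0 0) P.nil))))) (P.cons (P.cons (P.lf 77190 0 0) (P.cons (P.lf 836711 0 0) (P.cons (P.lf 0 46427 0) (P.cons (P.lf 0 46888 0) P.nil)))) (P.cons (P.cons (P.lf 2887757 0 0) (P.cons (P.lf 0 848919 0) (P.cons (P.lf 0 65639 0) P.nil))) (P.cons (P.cons (P.lf 0 725983 0) (P.cons (P.lf 47692 0 0) P.nil)) (P.cons (P.cons (P.lf 0 84603 0) P.nil) P.nil)))))) 162089)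
 (EL.cons 8 (TM.mk (P.cons (P.cons (P.lf 34361971 0 0) (P.cons (P.lf 0 11700702 0) (P.cons (P.lf 0 510651 0) (P.cons (P.lf 356974 0 0) (P.cons (P.lf 0 584 0) (P.cons (P.lf 0 2201 0) P.nil)))))) (P.cons (P.cons (P.lf 15711147 0 0) (P.cons (P.lf 0 7821621 0) (P.cons (P.lf 0 130939 0) (P.cons (P.lf 292820 0 0) (P.cons (P.lf 0 514 0) P.nil))))) (P.cons (P.cons (P.lf 0 16616911 0) (P.cons (P.lf 4103220 0 0) (P.cons (P.lf 355905 0 0) (P.cons (P.lf 0 79642 0) P.nil)))) (P.cons (P.cons (P.lf 2875925 0 0) (P.cons (P.lf 0 11916 0) (P.cons (P.lf 0 47264 0) P.nil))) (P.cons (P.cons (P.lf 638833 0 0) (P.cons (P.lf 0 227980 0) P.nil)) (P.cons (P.cons (P.lf 0 214999 0) P.nil) P.nil)))))) 126072)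
 EL.nil))
noncomputable def S256_285_290_364_18 : EL := (EL.cons 4 (TM.mk (P.cons (P.lf 0 5783501 0) (P.cons (P.lf 0 17211901 0) (P.cons (P.lf 0 16867610 0) (P.cons (P.lf 0 5168619 0) (P.cons (P.lf 332796 0 0) (P.cons (P.lf 59024 0 0) P.nil)))))) 4306)
 (EL.cons 8 (TM.mk (P.cons (P.lf 27119797 0 0) (P.cons (P.lf 53371278 0 0) (P.cons (P.lf 24964624 0 0) (P.cons (P.lf 0 1690000 0) (P.cons (P.lf 0 384174 0) (P.cons (P.lf 22382 0 0) P.nil)))))) 4185)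
 EL.nil))
noncomputable def S256_285_290_364_19 : EL := (EL.cons 4 (TM.mk (P.cons (P.cons (P.lf 0 2186736 0) (P.cons (P.lf 372305 0 0) (P.cons (P.lf 47941 0 0) (P.lf 0 3195 0)))) (P.cons (P.cons (P.lf 0 5940625 0) (P.cons (P.lf 1090080 0 0) (P.cons (P.lf 140370 0 0) (P.lf 0 9357 0)))) (P.cons (P.cons (P.lf 0 4680000 0) (P.cons (P.lf 1023985 0 0) (P.cons (P.lf 131859 0 0) (P.lf 0 8790 0)))) (P.cons (P.cons (P.lf 0 290093 0) (P.cons (P.lf 255513 0 0) (P.cons (P.lf 32902 0 0) P.nil))) (P.cons (P.cons (P.lf 605126 0 0) (P.cons (P.lf 0 60949 0) P.nil)) (P.cons (P.cons (P.lf 0 55680 0) P.nil) P.nil)))))) 59471)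
 (EL.cons 8 (TM.mk (P.cons (P.cons (P.lf 10253973 0 0) (P.cons (P.lf 0 1745806 0) (P.cons (P.lf 0 224809 0) (P.lf 14986 0 0)))) (P.cons (P.cons (P.lf 17520035 0 0) (P.cons (P.lf 0 3351702 0) (P.cons (P.lf 0 431602 0) (P.lf 28773 0 0)))) (P.cons (P.cons (P.lf 4159659 0 0) (P.cons (P.lf 0 1401744 0) (P.cons (P.lf 0 180503 0) (P.lf 12033 0 0)))) (P.cons (P.cons (P.lf 0 3088240 0) (P.cons (P.lf 262839 0 0) (P.cons (P.lf 33846 0 0) P.nil))) (P.cons (P.cons (P.lf 151386 0 0) (P.cons (P.lf 51945 0 0) P.nil)) (P.cons (P.cons (P.lf 127081 0 0) P.nil) P.nil)))))) 37372)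
 EL.nil))
noncomputable def S256_285_290_364_20 : EL := (EL.cons 4 (TM.mk (P.cons (P.cons (P.lf 0 826802 0) (P.cons (P.lf 281536 0 0) (P.cons (P.lf 12286 0 0) (P.cons (P.lf 0 8589 0) (P.cons (P.lf 14 0 0) (P.cons (P.lf 52 0 0) P.nil)))))) (P.cons (P.cons (P.lf 0 2031695 0) (P.cons (P.lf 751293 0 0) (P.cons (P.lf 27724 0 0) (P.cons (P.lf 0 24225 0) (P.cons (P.lf 40 0 0) P.nil))))) (P.cons (P.cons (P.lf 0 1183254 0) (P.cons (P.lf 559283 0 0) (P.cons (P.lf 10027 0 0) (P.cons (P.lf 0 20766 0) P.nil)))) (P.cons (P.cons (P.lf 352098 0 0) (P.cons (P.lf 0 8845 0) (P.cons (P.lf 0 12835 0) P.nil))) (P.cons (P.cons (P.lf 245822 0 0) (P.cons (P.lf 0 92564 0) P.nil)) (P.cons (P.cons (P.lf 0 94827 0) P.nil) P.nil)))))) 105759)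
 (EL.cons 8 (TM.mk (P.cons (P.cons (P.lf 3877019 0 0) (P.cons (P.lf 0 1320176 0) (P.cons (P.lf 0 57616 0) (P.cons (P.lf 40276 0 0) (P.cons (P.lf 0 65 0) (P.cons (P.lf 0 248 0) P.nil)))))) (P.cons (P.cons (P.lf 5618717 0 0) (P.cons (P.lf 0 2192133 0) (P.cons (P.lf 0 71929 0) (P.cons (P.lf 72993 0 0) (P.cons (P.lf 0 123 0) P.nil))))) (P.cons (P.cons (P.lf 0 162565 0) (P.cons (P.lf 0 396758 0) (P.cons (P.lf 26187 0 0) (P.cons (P.lf 23308 0 0) P.nil)))) (P.cons (P.cons (P.lf 0 1571522 0) (P.cons (P.lf 473541 0 0) (P.cons (P.lf 34901 0 0) P.nil))) (P.cons (P.cons (P.lf 409768 0 0) (P.cons (P.lf 0 29265 0) P.nil)) (P.cons (P.cons (P.lf 50823 0 0) P.nil) P.nil)))))) 98872)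
 EL.nil))
noncomputable def S256_285_290_364_21 : EL := (EL.cons 4 (TM.mk (P.cons (P.cons (P.lf 2777463078 0 0) (P.cons (P.lf 0 87736830 0) (P.cons (P.lf 0 11297967 0) (P.lf 753195 0 0)))) (P.cons (P.cons (P.lf 72446622 0 0) (P.cons (P.lf 0 82813782 0) (P.cons (P.lf 0 10664019 0) (P.lf 710934 0 0)))) (P.cons (P.cons (P.lf 0 288680514 0) (P.cons (P.lf 7243785 0 0) (P.cons (P.lf 932787 0 0) (P.lf 0 62184 0)))) (P.cons (P.cons (P.lf 6601971 0 0) (P.cons (P.lf 2182791 0 0) (P.cons (P.lf 281076 0 0) P.nil))) (P.cons (P.cons (P.lf 6064776 0 0) (P.cons (P.lf 0 168927 0) P.nil)) (P.cons (P.cons (P.lf 0 194385 0) P.nil) P.nil)))))) 173952)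
 (EL.cons 8 (TM.mk (P.cons (P.cons (P.lf 210600882 0 0) (P.cons (P.lf 0 6652644 0) (P.cons (P.lf 0 856674 0) (P.lf 57114 0 0)))) (P.cons (P.cons (P.lf 217790025 0 0) (P.cons (P.lf 0 12985554 0) (P.cons (P.lf 0 1672161 0) (P.lf 111474 0 0)))) (P.cons (P.cons (P.lf 0 13794171 0) (P.cons (P.lf 0 5861436 0) (P.cons (P.lf 0 754779 0) (P.lf 50316 0 0)))) (P.cons (P.cons (P.lf 0 20622747 0) (P.cons (P.lf 615282 0 0) (P.cons (P.lf 79227 0 0) P.nil))) (P.cons (P.cons (P.lf 738843 0 0) (P.cons (P.lf 134052 0 0) P.nil)) (P.cons (P.cons (P.lf 368031 0 0) P.nil) P.nil)))))) 103905)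
 (EL.cons 11 (TM.mk (P.cons (P.cons (P.lf 1802490564 0 0) (P.cons (P.lf 514570323 0 0) (P.cons (P.lf 0 38489031 0) (P.cons (P.lf 0 2593599 0) (P.lf 129678 0 0))))) (P.cons (P.cons (P.lf 0 57827712 0) (P.cons (P.lf 0 16508505 0) (P.cons (P.lf 1234809 0 0) (P.cons (P.lf 83208 0 0) (P.lf 0 4158 0))))) (P.cons (P.cons (P.lf 0 27988095 0) (P.cons (P.lf 0 7989969 0) (P.cons (P.lf 597636 0 0) (P.cons (P.lf 40272 0 0) P.nil)))) (P.cons (P.cons (P.lf 914652 0 0) (P.cons (P.lf 261111 0 0) (P.cons (P.lf 0 19530 0) P.nil))) (P.cons (P.cons (P.lf 214902 0 0) (P.cons (P.lf 61350 0 0) P.nil)) (P.cons (P.cons (P.lf 0 8088 0) P.nil) P.nil)))))) 12954)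
 EL.nil)))
noncomputable def S256_285_290_364_22 : EL := (EL.cons 4 (TM.mk (P.cons (P.cons (P.lf 1050156591 0 0) (P.cons (P.lf 0 211969287 0) (P.cons (P.lf 0 21647556 0) (P.cons (P.lf 3274287 0 0) (P.cons (P.lf 0 3315 0) (P.cons (P.lf 0 12486 0) P.nil)))))) (P.cons (P.cons (P.lf 0 244990107 0) (P.cons (P.lf 0 18767025 0) (P.cons (P.lf 2642592 0 0) (P.cons (P.lf 1464078 0 0) (P.cons (P.lf 0 2970 0) P.nil))))) (P.cons (P.cons (P.lf 0 120903690 0) (P.cons (P.lf 33910440 0 0) (P.cons (P.lf 3514455 0 0) (P.cons (P.lf 0 510591 0) P.nil)))) (P.cons (P.cons (P.lf 39731751 0 0) (P.cons (P.lf 0 1447950 0) (P.cons (P.lf 0 420213 0) P.nil))) (P.cons (P.cons (P.lf 2248224 0 0) (P.cons (P.lf 0 1403520 0) P.nil)) (P.cons (P.cons (P.lf 0 1720443 0) P.nil) P.nil)))))) 761991)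
 (EL.cons 8 (TM.mk (P.cons (P.cons (P.lf 79628025 0 0) (P.cons (P.lf 0 16072554 0) (P.cons (P.lf 0 1641426 0) (P.cons (P.lf 248274 0 0) (P.cons (P.lf 0 249 0) (P.cons (P.lf 0 945 0) P.nil)))))) (P.cons (P.cons (P.lf 61692885 0 0) (P.cons (P.lf 0 17624982 0) (P.cons (P.lf 0 1454265 0) (P.cons (P.lf 361281 0 0) (P.cons (P.lf 0 477 0) P.nil))))) (P.cons (P.cons (P.lf 0 26926458 0) (P.cons (P.lf 941607 0 0) (P.cons (P.lf 448539 0 0) (P.cons (P.lf 76203 0 0) P.nil)))) (P.cons (P.cons (P.lf 0 6123282 0) (P.cons (P.lf 2398080 0 0) (P.cons (P.lf 232374 0 0) P.nil))) (P.cons (P.cons (P.lf 3025401 0 0) (P.cons (P.lf 0 193110 0) P.nil)) (P.cons (P.cons (P.lf 39723 0 0) P.nil) P.nil)))))) 418860)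
 (EL.cons 11 (TM.mk (P.cons (P.cons (P.lf 681520257 0 0) (P.cons (P.lf 78525327 0 0) (P.cons (P.lf 0 62619294 0) (P.cons (P.lf 0 1772361 0) (P.cons (P.lf 819414 0 0) (P.cons (P.lf 0 8118 0) P.nil)))))) (P.cons (P.cons (P.lf 0 198632469 0) (P.cons (P.lf 0 47398596 0) (P.cons (P.lf 8096643 0 0) (P.cons (P.lf 349311 0 0) (P.cons (P.lf 0 76077 0) P.nil))))) (P.cons (P.cons (P.lf 0 7928298 0) (P.cons (P.lf 2016975 0 0) (P.cons (P.lf 1942410 0 0) (P.cons (P.lf 40614 0 0) P.nil)))) (P.cons (P.cons (P.lf 9058158 0 0) (P.cons (P.lf 2223138 0 0) (P.cons (P.lf 0 343692 0) P.nil))) (P.cons (P.cons (P.lf 0 225603 0) (P.cons (P.lf 0 142614 0) P.nil)) (P.cons (P.cons (P.lf 0 177894 0) P.nil) P.nil)))))) 228810)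
 EL.nil)))
noncomputable def S256_285_290_364_23 : EL := (EL.cons 4 (TM.mk (P.cons (P.cons (P.lf 313377780 0 0) (P.cons (P.lf 0 9899238 0) (P.cons (P.lf 0 1274733 0) (P.lf 84981 0 0)))) (P.cons (P.cons (P.lf 319048467 0 0) (P.cons (P.lf 0 19163937 0) (P.cons (P.lf 0 2467761 0) (P.lf 164517 0 0)))) (P.cons (P.cons (P.lf 0 28197768 0) (P.cons (P.lf 0 8333841 0) (P.cons (P.lf 0 1073157 0) (P.lf 71544 0 0)))) (P.cons (P.cons (P.lf 0 32875659 0) (P.cons (P.lf 1206705 0 0) (P.cons (P.lf 155388 0 0) P.nil))) (P.cons (P.cons (P.lf 1804419 0 0) (P.cons (P.lf 250869 0 0) P.nil)) (P.cons (P.cons (P.lf 779244 0 0) P.nil) P.nil)))))) 153342)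
 (EL.cons 8 (TM.mk (P.cons (P.cons (P.lf 23761839 0 0) (P.cons (P.lf 0 750609 0) (P.cons (P.lf 0 96657 0) (P.lf 6444 0 0)))) (P.cons (P.cons (P.lf 48145005 0 0) (P.cons (P.lf 0 2209755 0) (P.cons (P.lf 0 284553 0) (P.lf 18969 0 0)))) (P.cons (P.cons (P.lf 22537095 0 0) (P.cons (P.lf 0 2105832 0) (P.cons (P.lf 0 271167 0) (P.lf 18075 0 0)))) (P.cons (P.cons (P.lf 0 4255551 0) (P.cons (P.lf 0 566268 0) (P.cons (P.lf 0 72918 0) P.nil))) (P.cons (P.cons (P.lf 0 2299497 0) (P.cons (P.lf 97479 0 0) P.nil)) (P.cons (P.cons (P.lf 160251 0 0) P.nil) P.nil)))))) 112707)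
 (EL.cons 11 (TM.mk (P.cons (P.cons (P.lf 203372817 0 0) (P.cons (P.lf 58058343 0 0) (P.cons (P.lf 0 4342668 0) (P.cons (P.lf 0 292632 0) (P.lf 14631 0 0))))) (P.cons (P.cons (P.lf 195223569 0 0) (P.cons (P.lf 55731915 0 0) (P.cons (P.lf 0 4168656 0) (P.cons (P.lf 0 280905 0) (P.lf 14043 0 0))))) (P.cons (P.cons (P.lf 0 12054315 0) (P.cons (P.lf 0 3441234 0) (P.cons (P.lf 257397 0 0) (P.cons (P.lf 17343 0 0) P.nil)))) (P.cons (P.cons (P.lf 0 3738126 0) (P.cons (P.lf 0 1067148 0) (P.cons (P.lf 79821 0 0) P.nil))) (P.cons (P.cons (P.lf 205452 0 0) (P.cons (P.lf 58650 0 0) P.nil)) (P.cons (P.cons (P.lf 36621 0 0) P.nil) P.nil)))))) 28152)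
 EL.nil)))
noncomputable def S256_285_290_364_24 : EL := (EL.cons 4 (TM.mk (P.cons (P.cons (P.lf 118487889 0 0) (P.cons (P.lf 0 23916234 0) (P.cons (P.lf 0 2442465 0) (P.cons (P.lf 369432 0 0) (P.cons (P.lf 0 372 0) (P.cons (P.lf 0 1407 0) P.nil)))))) (P.cons (P.cons (P.lf 89899428 0 0) (P.cons (P.lf 0 25842645 0) (P.cons (P.lf 0 2124795 0) (P.cons (P.lf 531672 0 0) (P.cons (P.lf 0 705 0) P.nil))))) (P.cons (P.cons (P.lf 0 42474762 0) (P.cons (P.lf 2010579 0 0) (P.cons (P.lf 721419 0 0) (P.cons (P.lf 101856 0 0) P.nil)))) (P.cons (P.cons (P.lf 0 9178299 0) (P.cons (P.lf 3749859 0 0) (P.cons (P.lf 351840 0 0) P.nil))) (P.cons (P.cons (P.lf 4979517 0 0) (P.cons (P.lf 0 359712 0) P.nil)) (P.cons (P.cons (P.lf 56430 0 0) P.nil) P.nil)))))) 693657)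
 (EL.cons 8 (TM.mk (P.cons (P.cons (P.lf 8984331 0 0) (P.cons (P.lf 0 1813446 0) (P.cons (P.lf 0 185199 0) (P.cons (P.lf 28011 0 0) (P.cons (P.lf 0 27 0) (P.cons (P.lf 0 105 0) P.nil)))))) (P.cons (P.cons (P.lf 15873294 0 0) (P.cons (P.lf 0 3787563 0) (P.cons (P.lf 0 347802 0) (P.cons (P.lf 68550 0 0) (P.cons (P.lf 0 81 0) P.nil))))) (P.cons (P.cons (P.lf 3759966 0 0) (P.cons (P.lf 0 1844865 0) (P.cons (P.lf 0 109956 0) (P.cons (P.lf 48699 0 0) P.nil)))) (P.cons (P.cons (P.lf 0 3822396 0) (P.cons (P.lf 406677 0 0) (P.cons (P.lf 79092 0 0) P.nil))) (P.cons (P.cons (P.lf 0 334011 0) (P.cons (P.lf 252903 0 0) P.nil)) (P.cons (P.cons (P.lf 363768 0 0) P.nil) P.nil)))))) 208092)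
 (EL.cons 11 (TM.mk (P.cons (P.cons (P.lf 76895100 0 0) (P.cons (P.lf 8859915 0 0) (P.cons (P.lf 0 7065258 0) (P.cons (P.lf 0 199971 0) (P.cons (P.lf 92451 0 0) (P.cons (P.lf 0 915 0) P.nil)))))) (P.cons (P.cons (P.lf 53869374 0 0) (P.cons (P.lf 3441213 0 0) (P.cons (P.lf 0 6095283 0) (P.cons (P.lf 0 158961 0) (P.cons (P.lf 83130 0 0) P.nil))))) (P.cons (P.cons (P.lf 0 24043458 0) (P.cons (P.lf 0 5183229 0) (P.cons (P.lf 1209603 0 0) (P.cons (P.lf 46062 0 0) P.nil)))) (P.cons (P.cons (P.lf 104382 0 0) (P.cons (P.lf 506067 0 0) (P.cons (P.lf 195063 0 0) P.nil))) (P.cons (P.cons (P.lf 1091763 0 0) (P.cons (P.lf 251400 0 0) P.nil)) (P.cons (P.cons (P.lf 0 54663 0) P.nil) P.nil)))))) 199335)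
 EL.nil)))
noncomputable def S256_285_290_364_25 : EL := (EL.cons 4 (TM.mk (P.cons (P.cons (P.lf 35358033 0 0) (P.cons (P.lf 0 1116918 0) (P.cons (P.lf 0 143826 0) (P.lf 9588 0 0)))) (P.cons (P.cons (P.lf 71073429 0 0) (P.cons (P.lf 0 3270240 0) (P.cons (P.lf 0 421110 0) (P.lf 28074 0 0)))) (P.cons (P.cons (P.lf 32107341 0 0) (P.cons (P.lf 0 3071955 0) (P.cons (P.lf 0 395577 0) (P.lf 26370 0 0)))) (P.cons (P.cons (P.lf 0 7431204 0) (P.cons (P.lf 0 766542 0) (P.cons (P.lf 0 98706 0) P.nil))) (P.cons (P.cons (P.lf 0 3574608 0) (P.cons (P.lf 182847 0 0) P.nil)) (P.cons (P.cons (P.lf 349746 0 0) P.nil) P.nil)))))) 214068)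
 (EL.cons 8 (TM.mk (P.cons (P.cons (P.lf 2681019 0 0) (P.cons (P.lf 0 84690 0) (P.cons (P.lf 0 10905 0) (P.lf 726 0 0)))) (P.cons (P.cons (P.lf 8091744 0 0) (P.cons (P.lf 0 333336 0) (P.cons (P.lf 0 42924 0) (P.lf 2859 0 0)))) (P.cons (P.cons (P.lf 7899627 0 0) (P.cons (P.lf 0 483921 0) (P.cons (P.lf 0 62313 0) (P.lf 4152 0 0)))) (P.cons (P.cons (P.lf 1967259 0 0) (P.cons (P.lf 0 296292 0) (P.cons (P.lf 0 38151 0) P.nil))) (P.cons (P.cons (P.lf 0 786864 0) (P.cons (P.lf 0 48591 0) P.nil)) (P.cons (P.cons (P.lf 0 242940 0) P.nil) P.nil)))))) 75375)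
 (EL.cons 11 (TM.mk (P.cons (P.cons (P.lf 22946307 0 0) (P.cons (P.lf 6550650 0 0) (P.cons (P.lf 0 489978 0) (P.cons (P.lf 0 33015 0) (P.lf 1650 0 0))))) (P.cons (P.cons (P.lf 44789841 0 0) (P.cons (P.lf 12786486 0 0) (P.cons (P.lf 0 956406 0) (P.cons (P.lf 0 64446 0) (P.lf 3222 0 0))))) (P.cons (P.cons (P.lf 20217312 0 0) (P.cons (P.lf 5771586 0 0) (P.cons (P.lf 0 431703 0) (P.cons (P.lf 0 29088 0) P.nil)))) (P.cons (P.cons (P.lf 0 2122242 0) (P.cons (P.lf 0 605850 0) (P.cons (P.lf 45315 0 0) P.nil))) (P.cons (P.cons (P.lf 0 462384 0) (P.cons (P.lf 0 132000 0) P.nil)) (P.cons (P.cons (P.lf 39480 0 0) P.nil) P.nil)))))) 40149)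
 EL.nil)))
noncomputable def S256_285_290_364_26 : EL := (EL.cons 4 (TM.mk (P.cons (P.cons (P.lf 13368843 0 0) (P.cons (P.lf 0 2698437 0) (P.cons (P.lf 0 275580 0) (P.cons (P.lf 41682 0 0) (P.cons (P.lf 0 42 0) (P.cons (P.lf 0 156 0) P.nil)))))) (P.cons (P.cons (P.lf 23405292 0 0) (P.cons (P.lf 0 5592675 0) (P.cons (P.lf 0 513117 0) (P.cons (P.lf 101337 0 0) (P.cons (P.lf 0 120 0) P.nil))))) (P.cons (P.cons (P.lf 5110497 0 0) (P.cons (P.lf 0 2633487 0) (P.cons (P.lf 0 153141 0) (P.cons (P.lf 70503 0 0) P.nil)))) (P.cons (P.cons (P.lf 0 5962260 0) (P.cons (P.lf 693318 0 0) (P.cons (P.lf 124365 0 0) P.nil))) (P.cons (P.cons (P.lf 0 446526 0) (P.cons (P.lf 387483 0 0) P.nil)) (P.cons (P.cons (P.lf 595578 0 0) P.nil) P.nil)))))) 336501)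
 (EL.cons 8 (TM.mk (P.cons (P.cons (P.lf 1013691 0 0) (P.cons (P.lf 0 204606 0) (P.cons (P.lf 0 20895 0) (P.cons (P.lf 3159 0 0) (P.cons (P.lf 0 3 0) (P.cons (P.lf 0 12 0) P.nil)))))) (P.cons (P.cons (P.lf 2796558 0 0) (P.cons (P.lf 0 630318 0) (P.cons (P.lf 0 59970 0) (P.cons (P.lf 10869 0 0) (P.cons (P.lf 0 12 0) P.nil))))) (P.cons (P.cons (P.lf 2188806 0 0) (P.cons (P.lf 0 629646 0) (P.cons (P.lf 0 51084 0) (P.cons (P.lf 13128 0 0) P.nil)))) (P.cons (P.cons (P.lf 0 35697 0) (P.cons (P.lf 0 154719 0) (P.cons (P.lf 0 2832 0) P.nil))) (P.cons (P.cons (P.lf 0 477420 0) (P.cons (P.lf 78168 0 0) P.nil)) (P.cons (P.cons (P.lf 7311 0 0) P.nil) P.nil)))))) 135840)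
 (EL.cons 11 (TM.mk (P.cons (P.cons (P.lf 8675979 0 0) (P.cons (P.lf 999654 0 0) (P.cons (P.lf 0 797163 0) (P.cons (P.lf 0 22563 0) (P.cons (P.lf 10431 0 0) (P.cons (P.lf 0 102 0) P.nil)))))) (P.cons (P.cons (P.lf 14684688 0 0) (P.cons (P.lf 1379934 0 0) (P.cons (P.lf 0 1478517 0) (P.cons (P.lf 0 40317 0) (P.cons (P.lf 19725 0 0) P.nil))))) (P.cons (P.cons (P.lf 3213261 0 0) (P.cons (P.lf 0 211563 0) (P.cons (P.lf 0 536247 0) (P.cons (P.lf 0 12324 0) P.nil)))) (P.cons (P.cons (P.lf 0 2785338 0) (P.cons (P.lf 0 531540 0) (P.cons (P.lf 168675 0 0) P.nil))) (P.cons (P.cons (P.lf 144375 0 0) (P.cons (P.lf 90555 0 0) P.nil)) (P.cons (P.cons (P.lf 126984 0 0) P.nil) P.nil)))))) 155214)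
 EL.nil)))
noncomputable def S256_285_290_364_27 : EL := (EL.cons 13 (TM.mk (P.lf 0 4294967296 0) 0)
 EL.nil)
noncomputable def S256_285_290_364_28 : EL := (EL.cons 13 (TM.mk (P.cons (P.cons (P.lf 0 1623923739 0) (P.cons (P.lf 276483692 0 0) (P.cons (P.lf 35603108 0 0) (P.lf 0 2373540 0)))) (P.cons (P.cons (P.lf 421201743 0 0) (P.cons (P.lf 0 13305272 0) (P.cons (P.lf 0 1713332 0) (P.lf 114220 0 0)))) (P.cons (P.cons (P.lf 7189159 0 0) (P.cons (P.lf 0 6332916 0) (P.cons (P.lf 0 815492 0) (P.lf 54364 0 0)))) (P.cons (P.cons (P.lf 0 13988872 0) (P.cons (P.lf 314316 0 0) (P.cons (P.lf 40472 0 0) P.nil))) (P.cons (P.cons (P.lf 180284 0 0) (P.cons (P.lf 71900 0 0) P.nil)) (P.cons (P.cons (P.lf 151307 0 0) P.nil) P.nil)))))) 33103)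
 EL.nil)
noncomputable def S256_285_290_364_29 : EL := (EL.cons 13 (TM.mk (P.cons (P.cons (P.lf 0 614004281 0) (P.cons (P.lf 209076530 0 0) (P.cons (P.lf 9124687 0 0) (P.cons (P.lf 0 6378687 0) (P.cons (P.lf 10456 0 0) (P.cons (P.lf 39350 0 0) P.nil)))))) (P.cons (P.cons (P.lf 318512092 0 0) (P.cons (P.lf 0 64290203 0) (P.cons (P.lf 0 6565694 0) (P.cons (P.lf 993088 0 0) (P.cons (P.lf 0 1006 0) P.nil))))) (P.cons (P.cons (P.lf 0 35870265 0) (P.cons (P.lf 0 3104868 0) (P.cons (P.lf 374316 0 0) (P.cons (P.lf 226023 0 0) P.nil)))) (P.cons (P.cons (P.lf 0 11988425 0) (P.cons (P.lf 3325384 0 0) (P.cons (P.lf 348505 0 0) P.nil))) (P.cons (P.cons (P.lf 2868037 0 0) (P.cons (P.lf 0 95960 0) P.nil)) (P.cons (P.cons (P.lf 125888 0 0) P.nil) P.nil)))))) 345146)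
 EL.nil)
noncomputable def S256_285_290_364_30 : EL := (EL.cons 13 (TM.mk (P.cons (P.lf 0 484595936 0) (P.cons (P.lf 0 480724804 0) (P.cons (P.lf 5775768 0 0) (P.cons (P.lf 1873960 0 0) (P.cons (P.lf 0 38036 0) (P.cons (P.lf 0 7180 0) P.nil)))))) 280)
 EL.nil)
noncomputable def S256_285_290_364_31 : EL := (EL.cons 13 (TM.mk (P.cons (P.cons (P.lf 0 183225340 0) (P.cons (P.lf 31195318 0 0) (P.cons (P.lf 4017055 0 0) (P.lf 0 267803 0)))) (P.cons (P.cons (P.lf 0 134237987 0) (P.cons (P.lf 29444901 0 0) (P.cons (P.lf 3791652 0 0) (P.lf 0 252777 0)))) (P.cons (P.cons (P.lf 50139000 0 0) (P.cons (P.lf 0 2575569 0) (P.cons (P.lf 0 331658 0) (P.lf 22110 0 0)))) (P.cons (P.cons (P.lf 0 631562 0) (P.cons (P.lf 0 776104 0) (P.cons (P.lf 0 99939 0) P.nil))) (P.cons (P.cons (P.lf 0 1753223 0) (P.cons (P.lf 60063 0 0) P.nil)) (P.cons (P.cons (P.lf 53941 0 0) P.nil) P.nil)))))) 59058)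
 EL.nil)
noncomputable def S256_285_290_364_32 : EL := (EL.cons 13 (TM.mk (P.cons (P.cons (P.lf 0 69277356 0) (P.cons (P.lf 23589850 0 0) (P.cons (P.lf 1029527 0 0) (P.cons (P.lf 0 719699 0) (P.cons (P.lf 1179 0 0) (P.cons (P.lf 4439 0 0) P.nil)))))) (P.cons (P.cons (P.lf 0 32786611 0) (P.cons (P.lf 16147620 0 0) (P.cons (P.lf 280503 0 0) (P.cons (P.lf 0 601901 0) (P.cons (P.lf 1056 0 0) P.nil))))) (P.cons (P.cons (P.lf 32428750 0 0) (P.cons (P.lf 0 7827319 0) (P.cons (P.lf 0 704918 0) (P.cons (P.lf 145233 0 0) P.nil)))) (P.cons (P.cons (P.lf 0 5527935 0) (P.cons (P.lf 22911 0 0) (P.cons (P.lf 86065 0 0) P.nil))) (P.cons (P.cons (P.lf 0 1114408 0) (P.cons (P.lf 395452 0 0) P.nil)) (P.cons (P.cons (P.lf 368782 0 0) P.nil) P.nil)))))) 201576)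
 EL.nil)
noncomputable def S256_285_290_364_33 : EL := (EL.cons 14 (TM.mk (P.lf 8589934592 0 0) 0)
 EL.nil)
noncomputable def S256_285_290_364_34 : EL := (EL.cons 14 (TM.mk (P.cons (P.cons (P.lf 3247847478 0 0) (P.cons (P.lf 0 552967384 0) (P.cons (P.lf 0 71206216 0) (P.lf 4747080 0 0)))) (P.cons (P.cons (P.lf 0 842403486 0) (P.cons (P.lf 26610544 0 0) (P.cons (P.lf 3426664 0 0) (P.lf 0 228440 0)))) (P.cons (P.cons (P.lf 0 14378318 0) (P.cons (P.lf 12665832 0 0) (P.cons (P.lf 1630984 0 0) (P.lf 0 108728 0)))) (P.cons (P.cons (P.lf 27977744 0 0) (P.cons (P.lf 0 628632 0) (P.cons (P.lf 0 80944 0) P.nil))) (P.cons (P.cons (P.lf 0 360568 0) (P.cons (P.lf 0 143800 0) P.nil)) (P.cons (P.cons (P.lf 0 302614 0) P.nil) P.nil)))))) 66206)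
 EL.nil)
noncomputable def S256_285_290_364_35 : EL := (EL.cons 14 (TM.mk (P.cons (P.cons (P.lf 1228008562 0 0) (P.cons (P.lf 0 418153060 0) (P.cons (P.lf 0 18249374 0) (P.cons (P.lf 12757374 0 0) (P.cons (P.lf 0 20912 0) (P.cons (P.lf 0 78700 0) P.nil)))))) (P.cons (P.cons (P.lf 0 637024184 0) (P.cons (P.lf 128580406 0 0) (P.cons (P.lf 13131388 0 0) (P.cons (P.lf 0 1986176 0) (P.cons (P.lf 2012 0 0) P.nil))))) (P.cons (P.cons (P.lf 71740530 0 0) (P.cons (P.lf 6209736 0 0) (P.cons (P.lf 0 748632 0) (P.cons (P.lf 0 452046 0) P.nil)))) (P.cons (P.cons (P.lf 23976850 0 0) (P.cons (P.lf 0 6650768 0) (P.cons (P.lf 0 697010 0) P.nil))) (P.cons (P.cons (P.lf 0 5736074 0) (P.cons (P.lf 191920 0 0) P.nil)) (P.cons (P.cons (P.lf 0 251776 0) P.nil) P.nil)))))) 690292)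
 EL.nil)
noncomputable def S256_285_290_364_36 : EL := (EL.cons 14 (TM.mk (P.cons (P.lf 969191872 0 0) (P.cons (P.lf 961449608 0 0) (P.cons (P.lf 0 11551536 0) (P.cons (P.lf 0 3747920 0) (P.cons (P.lf 76072 0 0) (P.cons (P.lf 14360 0 0) P.nil)))))) 560)
 EL.nil)
noncomputable def S256_285_290_364_37 : EL := (EL.cons 14 (TM.mk (P.cons (P.cons (P.lf 366450680 0 0) (P.cons (P.lf 0 62390636 0) (P.cons (P.lf 0 8034110 0) (P.lf 535606 0 0)))) (P.cons (P.cons (P.lf 268475974 0 0) (P.cons (P.lf 0 58889802 0) (P.cons (P.lf 0 7583304 0) (P.lf 505554 0 0)))) (P.cons (P.cons (P.lf 0 100278000 0) (P.cons (P.lf 5151138 0 0) (P.cons (P.lf 663316 0 0) (P.lf 0 44220 0)))) (P.cons (P.cons (P.lf 1263124 0 0) (P.cons (P.lf 1552208 0 0) (P.cons (P.lf 199878 0 0) P.nil))) (P.cons (P.cons (P.lf 3506446 0 0) (P.cons (P.lf 0 120126 0) P.nil)) (P.cons (P.cons (P.lf 0 107882 0) P.nil) P.nil))))))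 118116)
 EL.nil)
noncomputable def S256_285_290_364_38 : EL := (EL.cons 14 (TM.mk (P.cons (P.cons (P.lf 138554712 0 0) (P.cons (P.lf 0 47179700 0) (P.cons (P.lf 0 2059054 0) (P.cons (P.lf 1439398 0 0) (P.cons (P.lf 0 2358 0) (P.cons (P.lf 0 8878 0) P.nil)))))) (P.cons (P.cons (P.lf 65573222 0 0) (P.cons (P.lf 0 32295240 0) (P.cons (P.lf 0 561006 0) (P.cons (P.lf 1203802 0 0) (P.cons (P.lf 0 2112 0) P.nil))))) (P.cons (P.cons (P.lf 0 64857500 0) (P.cons (P.lf 15654638 0 0) (P.cons (P.lf 1409836 0 0) (P.cons (P.lf 0 290466 0) P.nil)))) (P.cons (P.cons (P.lf 11055870 0 0) (P.cons (P.lf 0 45822 0) (P.cons (P.lf 0 172130 0) P.nil))) (P.cons (P.cons (P.lf 2228816 0 0) (P.cons (P.lf 0 790904 0) P.nil)) (P.cons (P.cons (P.lf 0 737564 0) P.nil) P.nil)))))) 403152)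
 EL.nil)
noncomputable def S256_285_290_364_39 : EL := (EL.cons 14 (TM.mk (P.cons (P.lf 109352740 0 0) (P.cons (P.lf 216958378 0 0) (P.cons (P.lf 105005926 0 0) (P.cons (P.lf 0 3431614 0) (P.cons (P.lf 0 806288 0) (P.cons (P.lf 30348 0 0) P.nil)))))) 5440)
 EL.nil)
noncomputable def S256_285_290_364_40 : EL := (EL.cons 14 (TM.mk (P.cons (P.cons (P.lf 41346184 0 0) (P.cons (P.lf 0 7039458 0) (P.cons (P.lf 0 906478 0) (P.lf 60430 0 0)))) (P.cons (P.cons (P.lf 71307712 0 0) (P.cons (P.lf 0 13627690 0) (P.cons (P.lf 0 1754852 0) (P.lf 116990 0 0)))) (P.cons (P.cons (P.lf 18242796 0 0) (P.cons (P.lf 0 5926288 0) (P.cons (P.lf 0 763134 0) (P.lf 50874 0 0)))) (P.cons (P.cons (P.lf 0 11602272 0) (P.cons (P.lf 858102 0 0) (P.cons (P.lf 110498 0 0) P.nil))) (P.cons (P.cons (P.lf 557962 0 0) (P.cons (P.lf 178394 0 0) P.nil)) (P.cons (P.cons (P.lf 425338 0 0) P.nil) P.nil))))))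 106948)
 EL.nil)
noncomputable def S256_285_290_364_41 : EL := (EL.cons 14 (TM.mk (P.cons (P.cons (P.lf 15632958 0 0) (P.cons (P.lf 0 5323228 0) (P.cons (P.lf 0 232320 0) (P.cons (P.lf 162404 0 0) (P.cons (P.lf 0 266 0) (P.cons (P.lf 0 1000 0) P.nil)))))) (P.cons (P.cons (P.lf 22906624 0 0) (P.cons (P.lf 0 8924536 0) (P.cons (P.lf 0 293762 0) (P.cons (P.lf 296930 0 0) (P.cons (P.lf 0 502 0) P.nil))))) (P.cons (P.cons (P.lf 0 164672 0) (P.cons (P.lf 0 1784984 0) (P.cons (P.lf 99046 0 0) (P.cons (P.lf 100028 0 0) P.nil)))) (P.cons (P.cons (P.lf 0 6160550 0) (P.cons (P.lf 1811028 0 0) (P.cons (P.lf 140030 0 0) P.nil))) (P.cons (P.cons (P.lf 1548764 0 0) (P.cons (P.lf 0 101744 0) P.nil)) (P.cons (P.cons (P.lf 180488 0 0) P.nil) P.nil)))))) 345744)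
 EL.nil)
noncomputable def S256_285_290_364_42 : EL := (EL.cons 14 (TM.mk (P.cons (P.lf 12338136 0 0) (P.cons (P.lf 36718724 0 0) (P.cons (P.lf 35984236 0 0) (P.cons (P.lf 11026388 0 0) (P.cons (P.lf 0 709966 0) (P.cons (P.lf 0 125918 0) P.nil)))))) 9172)
 EL.nil)
noncomputable def S256_285_290_364_43 : EL := (EL.cons 14 (TM.mk (P.cons (P.cons (P.lf 4665038 0 0) (P.cons (P.lf 0 794252 0) (P.cons (P.lf 0 102276 0) (P.lf 6818 0 0)))) (P.cons (P.cons (P.lf 12673334 0 0) (P.cons (P.lf 0 2325504 0) (P.cons (P.lf 0 299456 0) (P.lf 19962 0 0)))) (P.cons (P.cons (P.lf 9984002 0 0) (P.cons (P.lf 0 2184502 0) (P.cons (P.lf 0 281300 0) (P.lf 18752 0 0)))) (P.cons (P.cons (P.lf 618866 0 0) (P.cons (P.lf 0 545096 0) (P.cons (P.lf 0 70192 0) P.nil))) (P.cons (P.cons (P.lf 0 1290936 0) (P.cons (P.lf 130026 0 0) P.nil)) (P.cons (P.cons (P.lf 118784 0 0) P.nil) P.nil)))))) 126832)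
 EL.nil)
noncomputable def S256_285_290_364_44 : EL := (EL.cons 14 (TM.mk (P.cons (P.cons (P.lf 1763846 0 0) (P.cons (P.lf 0 600612 0) (P.cons (P.lf 0 26212 0) (P.cons (P.lf 18324 0 0) (P.cons (P.lf 0 30 0) (P.cons (P.lf 0 112 0) P.nil)))))) (P.cons (P.cons (P.lf 4334284 0 0) (P.cons (P.lf 0 1602760 0) (P.cons (P.lf 0 59146 0) (P.cons (P.lf 51680 0 0) (P.cons (P.lf 0 86 0) P.nil))))) (P.cons (P.cons (P.lf 2524276 0 0) (P.cons (P.lf 0 1193138 0) (P.cons (P.lf 0 21392 0) (P.cons (P.lf 44302 0 0) P.nil)))) (P.cons (P.cons (P.lf 0 751144 0) (P.cons (P.lf 18870 0 0) (P.cons (P.lf 27382 0 0) P.nil))) (P.cons (P.cons (P.lf 0 524422 0) (P.cons (P.lf 197470 0 0) P.nil)) (P.cons (P.cons (P.lf 202298 0 0) P.nil) P.nil)))))) 225574)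
 EL.nil)
noncomputable def S256_285_290_364_45 : EL := (EL.cons 14 (TM.mk (P.cons (P.cons (P.lf 464309066 0 0) (P.cons (P.lf 0 237155012 0) (P.cons (P.lf 9838488 0 0) (P.cons (P.lf 10143250 0 0) (P.cons (P.lf 0 908954 0) (P.cons (P.lf 0 144246 0) P.nil)))))) (P.cons (P.cons (P.lf 0 361287510 0) (P.cons (P.lf 134435798 0 0) (P.cons (P.lf 2952534 0 0) (P.cons (P.lf 0 4521294 0) (P.cons (P.lf 136234 0 0) P.nil))))) (P.cons (P.cons (P.lf 87541642 0 0) (P.cons (P.lf 0 14342826 0) (P.cons (P.lf 0 2773920 0) (P.cons (P.lf 25936 0 0) P.nil)))) (P.cons (P.cons (P.lf 7096086 0 0) (P.cons (P.lf 0 7051194 0) (P.cons (P.lf 93362 0 0) P.nil))) (P.cons (P.cons (P.lf 0 6766624 0) (P.cons (P.lf 1726118 0 0) P.nil)) (P.cons (P.cons (P.lf 644338 0 0) P.nil) P.nil)))))) 1508344)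
 EL.nil)
noncomputable def S256_285_290_364_46 : EL := (EL.cons 15 (TM.mk (P.lf 4294967296 0 0) 0)
 EL.nil)
noncomputable def S256_285_290_364_47 : EL := (EL.cons 15 (TM.mk (P.cons (P.cons (P.lf 1623923739 0 0) (P.cons (P.lf 0 276483692 0) (P.cons (P.lf 0 35603108 0) (P.lf 2373540 0 0)))) (P.cons (P.cons (P.lf 0 421201743 0) (P.cons (P.lf 13305272 0 0) (P.cons (P.lf 1713332 0 0) (P.lf 0 114220 0)))) (P.cons (P.cons (P.lf 0 7189159 0) (P.cons (P.lf 6332916 0 0) (P.cons (P.lf 815492 0 0) (P.lf 0 54364 0)))) (P.cons (P.cons (P.lf 13988872 0 0) (P.cons (P.lf 0 314316 0) (P.cons (P.lf 0 40472 0) P.nil))) (P.cons (P.cons (P.lf 0 180284 0) (P.cons (P.lf 0 71900 0) P.nil)) (P.cons (P.cons (P.lf 0 151307 0) P.nil) P.nil)))))) 33103)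
 EL.nil)
noncomputable def S256_285_290_364_48 : EL := (EL.cons 15 (TM.mk (P.cons (P.cons (P.lf 614004281 0 0) (P.cons (P.lf 0 209076530 0) (P.cons (P.lf 0 9124687 0) (P.cons (P.lf 6378687 0 0) (P.cons (P.lf 0 10456 0) (P.cons (P.lf 0 39350 0) P.nil)))))) (P.cons (P.cons (P.lf 0 318512092 0) (P.cons (P.lf 64290203 0 0) (P.cons (P.lf 6565694 0 0) (P.cons (P.lf 0 993088 0) (P.cons (P.lf 1006 0 0) P.nil))))) (P.cons (P.cons (P.lf 35870265 0 0) (P.cons (P.lf 3104868 0 0) (P.cons (P.lf 0 374316 0) (P.cons (P.lf 0 226023 0) P.nil)))) (P.cons (P.cons (P.lf 11988425 0 0) (P.cons (P.lf 0 3325384 0) (P.cons (P.lf 0 348505 0) P.nil))) (P.cons (P.cons (P.lf 0 2868037 0) (P.cons (P.lf 95960 0 0) P.nil)) (P.cons (P.cons (P.lf 0 125888 0) P.nil) P.nil)))))) 345146)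
 EL.nil)
noncomputable def S256_285_290_364 : SL := (SL.cons S256_285_290_364_0 (SL.cons S256_285_290_364_1 (SL.cons S256_285_290_364_2 (SL.cons S256_285_290_364_3 (SL.cons S256_285_290_364_4 (SL.cons S256_285_290_364_5 (SL.cons S256_285_290_364_6 (SL.cons S256_285_290_364_7 (SL.cons S256_285_290_364_8 (SL.cons S256_285_290_364_9 (SL.cons S256_285_290_364_10 (SL.cons S256_285_290_364_11 (SL.cons S256_285_290_364_12 (SL.cons S256_285_290_364_13 (SL.cons S256_285_290_364_14 (SL.cons S256_285_290_364_15 (SL.cons S256_285_290_364_16 (SL.cons S256_285_290_364_17 (SL.cons S256_285_290_364_18 (SL.cons S256_285_290_364_19 (SL.cons S256_285_290_364_20 (SL.cons S256_285_290_364_21 (SL.cons S256_285_290_364_22 (SL.cons S256_285_290_364_23 (SL.cons S256_285_290_364_24 (SL.cons S256_285_290_364_25 (SL.cons S256_285_290_364_26 (SL.cons S256_285_290_364_27 (SL.cons S256_285_290_364_28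 (SL.cons S256_285_290_364_29 (SL.cons S256_285_290_364_30 (SL.cons S256_285_290_364_31 (SL.cons S256_285_290_364_32 (SL.cons S256_285_290_364_33 (SL.cons S256_285_290_364_34 (SL.cons S256_285_290_364_35 (SL.cons S256_285_290_364_36 (SL.cons S256_285_290_364_37 (SL.cons S256_285_290_364_38 (SL.cons S256_285_290_364_39 (SL.cons S256_285_290_364_40 (SL.cons S256_285_290_364_41 (SL.cons S256_285_290_364_42 (SL.cons S256_285_290_364_43 (SL.cons S256_285_290_364_44 (SL.cons S256_285_290_364_45 (SL.cons S256_285_290_364_46 (SL.cons S256_285_290_364_47 (SL.cons S256_285_290_364_48 SL.nil)))))))))))))))))))))))))))))))))))))))))))))))))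
noncomputable def S256_285_364_438_0 : EL := (EL.cons 0 (TM.mk (P.cons (P.lf 8359606057 0 0) (P.cons (P.lf 0 190686074 0) (P.cons (P.lf 0 92290364 0) (P.cons (P.lf 3016066 0 0) (P.cons (P.lf 708651 0 0) (P.cons (P.lf 0 26673 0) P.nil)))))) 4788)
 (EL.cons 1 (TM.mk (P.cons (P.lf 450679505 0 0) (P.cons (P.lf 439849933 0 0) (P.cons (P.lf 0 16100088 0) (P.cons (P.lf 0 5127871 0) (P.cons (P.lf 176304 0 0) (P.cons (P.lf 32482 0 0) P.nil)))))) 1651)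
 (EL.cons 5 (TM.mk (P.cons (P.lf 4329140030 0 0) (P.cons (P.lf 67799490 0 0) (P.cons (P.lf 32814348 0 0) (P.cons (P.lf 0 1072376 0) (P.cons (P.lf 0 251962 0) (P.cons (P.lf 9484 0 0) P.nil)))))) 1837)
 (EL.cons 9 (TM.mk (P.lf 6442450944 0 0) 2)
 EL.nil))))
noncomputable def S256_285_364_438_1 : EL := (EL.cons 0 (TM.mk (P.cons (P.cons (P.lf 1302075221 0 0) (P.cons (P.lf 0 733680897 0) (P.cons (P.lf 0 40144068 0) (P.lf 4460455 0 0)))) (P.cons (P.cons (P.lf 0 1308839599 0) (P.cons (P.lf 104640706 0 0) (P.cons (P.lf 5725514 0 0) (P.lf 0 636163 0)))) (P.cons (P.cons (P.lf 104154997 0 0) (P.cons (P.lf 47025430 0 0) (P.cons (P.lf 2573034 0 0) (P.lf 0 285887 0)))) (P.cons (P.cons (P.lf 90485648 0 0) (P.cons (P.lf 0 5133681 0) (P.cons (P.lf 0 280879 0) P.nil))) (P.cons (P.cons (P.lf 0 6109248 0) (P.cons (P.lf 0 1085498 0) P.nil)) (P.cons (P.cons (P.lf 0 1935729 0) P.nil) P.nil))))))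 447625)
 (EL.cons 1 (TM.mk (P.cons (P.cons (P.lf 1350046422 0 0) (P.cons (P.lf 0 101423545 0) (P.cons (P.lf 0 5549486 0) (P.lf 616603 0 0)))) (P.cons (P.cons (P.lf 0 68758488 0) (P.cons (P.lf 0 92102236 0) (P.cons (P.lf 0 5039460 0) (P.lf 559938 0 0)))) (P.cons (P.cons (P.lf 0 202175840 0) (P.cons (P.lf 13602577 0 0) (P.cons (P.lf 744270 0 0) (P.lf 0 82691 0)))) (P.cons (P.cons (P.lf 16601761 0 0) (P.cons (P.lf 3911953 0 0) (P.cons (P.lf 214041 0 0) P.nil))) (P.cons (P.cons (P.lf 7519931 0 0) (P.cons (P.lf 0 449256 0) P.nil)) (P.cons (P.cons (P.lf 0 548238 0) P.nil) P.nil)))))) 339187)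
 (EL.cons 5 (TM.mk (P.cons (P.cons (P.lf 1147844704 0 0) (P.cons (P.lf 0 402838898 0) (P.cons (P.lf 0 22041728 0) (P.lf 2449078 0 0)))) (P.cons (P.cons (P.lf 0 195342606 0) (P.cons (P.lf 0 5266072 0) (P.cons (P.lf 0 288130 0) (P.lf 32012 0 0)))) (P.cons (P.cons (P.lf 0 22916542 0) (P.cons (P.lf 0 1517884 0) (P.cons (P.lf 0 83048 0) (P.lf 9222 0 0)))) (P.cons (P.cons (P.lf 0 9698790 0) (P.cons (P.lf 1070780 0 0) (P.cons (P.lf 58586 0 0) P.nil))) (P.cons (P.cons (P.lf 1566650 0 0) (P.cons (P.lf 213348 0 0) P.nil)) (P.cons (P.cons (P.lf 447255 0 0) P.nil) P.nil)))))) 227475)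
 (EL.cons 9 (TM.mk (P.cons (P.cons (P.lf 1421298334 0 0) (P.cons (P.lf 0 585620484 0) (P.cons (P.lf 0 32042796 0) (P.lf 3560310 0 0)))) (P.cons (P.cons (P.lf 0 582977452 0) (P.cons (P.lf 28181916 0 0) (P.cons (P.lf 1542000 0 0) (P.lf 0 171330 0)))) (P.cons (P.cons (P.lf 12455598 0 0) (P.cons (P.lf 13413762 0 0) (P.cons (P.lf 733944 0 0) (P.lf 0 81546 0)))) (P.cons (P.cons (P.lf 19829886 0 0) (P.cons (P.lf 0 665754 0) (P.cons (P.lf 0 36420 0) P.nil))) (P.cons (P.cons (P.lf 0 534282 0) (P.cons (P.lf 0 152298 0) P.nil)) (P.cons (P.cons (P.lf 0 212644 0) P.nil) P.nil)))))) 43361)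
 (EL.cons 2 (TM.mk (P.cons (P.cons (P.lf 0 281261123 0) (P.cons (P.lf 0 35291511 0) (P.cons (P.lf 5388100 0 0) (P.cons (P.lf 164604 0 0) (P.lf 0 13716 0))))) (P.cons (P.cons (P.lf 0 269990853 0) (P.cons (P.lf 0 33877364 0) (P.cons (P.lf 5172195 0 0) (P.cons (P.lf 158009 0 0) (P.lf 0 13165 0))))) (P.cons (P.cons (P.lf 16670913 0 0) (P.cons (P.lf 2091796 0 0) (P.cons (P.lf 0 319362 0) (P.cons (P.lf 0 9753 0) P.nil)))) (P.cons (P.cons (P.lf 5169763 0 0) (P.cons (P.lf 648680 0 0) (P.cons (P.lf 0 99036 0) P.nil))) (P.cons (P.cons (P.lf 0 284138 0) (P.cons (P.lf 0 35651 0) P.nil)) (P.cons (P.cons (P.lf 0 50647 0) P.nil) P.nil)))))) 22647)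
 (EL.cons 6 (TM.mk (P.cons (P.cons (P.lf 1318880040 0 0) (P.cons (P.lf 165487752 0 0) (P.cons (P.lf 0 25265697 0) (P.cons (P.lf 0 771861 0) (P.lf 64320 0 0))))) (P.cons (P.cons (P.lf 0 63468696 0) (P.cons (P.lf 0 7963794 0) (P.cons (P.lf 1215864 0 0) (P.cons (P.lf 37143 0 0) (P.lf 0 3093 0))))) (P.cons (P.cons (P.lf 0 30209229 0) (P.cons (P.lf 0 3790530 0) (P.cons (P.lf 578715 0 0) (P.cons (P.lf 17679 0 0) P.nil)))) (P.cons (P.cons (P.lf 1499352 0 0) (P.cons (P.lf 188130 0 0) (P.cons (P.lf 0 28722 0) P.nil))) (P.cons (P.cons (P.lf 342993 0 0) (P.cons (P.lf 43035 0 0) P.nil)) (P.cons (P.cons (P.lf 0 18606 0) P.nil) P.nil)))))) 16824)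
 EL.nil))))))
noncomputable def S256_285_364_438_2 : EL := (EL.cons 0 (TM.mk (P.cons (P.cons (P.lf 167644954 0 0) (P.cons (P.lf 0 225153576 0) (P.cons (P.lf 51989830 0 0) (P.cons (P.lf 8406333 0 0) (P.cons (P.lf 0 589422 0) (P.cons (P.lf 0 42793 0) P.nil)))))) (P.cons (P.cons (P.lf 0 470094327 0) (P.cons (P.lf 266983452 0 0) (P.cons (P.lf 0 2610553 0) (P.cons (P.lf 0 3507423 0) (P.cons (P.lf 157810 0 0) P.nil))))) (P.cons (P.cons (P.lf 209159781 0 0) (P.cons (P.lf 0 24309862 0) (P.cons (P.lf 0 8403790 0) (P.cons (P.lf 0 626283 0) P.nil)))) (P.cons (P.cons (P.lf 13493821 0 0) (P.cons (P.lf 0 26303905 0) (P.cons (P.lf 16684 0 0) P.nil))) (P.cons (P.cons (P.lf 0 20898073 0) (P.cons (P.lf 3223432 0 0) P.nil)) (P.cons (P.cons (P.lf 1253398 0 0) P.nil) P.nil)))))) 3772152)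
 (EL.cons 1 (TM.mk (P.cons (P.cons (P.lf 573744814 0 0) (P.cons (P.lf 0 272114382 0) (P.cons (P.lf 0 174049 0) (P.cons (P.lf 3264610 0 0) (P.cons (P.lf 0 134865 0) (P.cons (P.lf 0 9784 0) P.nil)))))) (P.cons (P.cons (P.lf 0 278083306 0) (P.cons (P.lf 11386462 0 0) (P.cons (P.lf 13203914 0 0) (P.cons (P.lf 1307527 0 0) (P.cons (P.lf 0 115303 0) P.nil))))) (P.cons (P.cons (P.lf 0 57271085 0) (P.cons (P.lf 55424733 0 0) (P.cons (P.lf 0 23673 0) (P.cons (P.lf 0 671398 0) P.nil)))) (P.cons (P.cons (P.lf 47135460 0 0) (P.cons (P.lf 0 6444615 0) (P.cons (P.lf 0 1136400 0) P.nil))) (P.cons (P.cons (P.lf 0 1360879 0) (P.cons (P.lf 0 3021247 0) P.nil)) (P.cons (P.cons (P.lf 0 2539002 0) P.nil) P.nil)))))) 1600826)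
 (EL.cons 5 (TM.mk (P.cons (P.cons (P.lf 295759858 0 0) (P.cons (P.lf 0 212790552 0) (P.cons (P.lf 25822220 0 0) (P.cons (P.lf 5393562 0 0) (P.cons (P.lf 0 343368 0) (P.cons (P.lf 0 24915 0) P.nil)))))) (P.cons (P.cons (P.lf 0 124378845 0) (P.cons (P.lf 39282217 0 0) (P.cons (P.lf 2464982 0 0) (P.cons (P.lf 0 204287 0) (P.cons (P.lf 0 2882 0) P.nil))))) (P.cons (P.cons (P.lf 0 8351919 0) (P.cons (P.lf 7004417 0 0) (P.cons (P.lf 274257 0 0) (P.cons (P.lf 0 54524 0) P.nil)))) (P.cons (P.cons (P.lf 2563561 0 0) (P.cons (P.lf 2306012 0 0) (P.cons (P.lf 0 121314 0) P.nil))) (P.cons (P.cons (P.lf 3123208 0 0) (P.cons (P.lf 0 720219 0) P.nil)) (P.cons (P.cons (P.lf 0 355497 0) P.nil) P.nil)))))) 1818435)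
 (EL.cons 9 (TM.mk (P.cons (P.cons (P.lf 313559074 0 0) (P.cons (P.lf 0 258392784 0) (P.cons (P.lf 39094842 0 0) (P.cons (P.lf 7396308 0 0) (P.cons (P.lf 0 487894 0) (P.cons (P.lf 0 35415 0) P.nil)))))) (P.cons (P.cons (P.lf 0 257226601 0) (P.cons (P.lf 118420287 0 0) (P.cons (P.lf 1355992 0 0) (P.cons (P.lf 0 1280613 0) (P.cons (P.lf 46957 0 0) P.nil))))) (P.cons (P.cons (P.lf 58249407 0 0) (P.cons (P.lf 0 1446255 0) (P.cons (P.lf 0 2394483 0) (P.cons (P.lf 0 244578 0) P.nil)))) (P.cons (P.cons (P.lf 6495307 0 0) (P.cons (P.lf 0 6217483 0) (P.cons (P.lf 0 101802 0) P.nil))) (P.cons (P.cons (P.lf 0 3800472 0) (P.cons (P.lf 375777 0 0) P.nil)) (P.cons (P.cons (P.lf 79545 0 0) P.nil) P.nil)))))) 530107)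
 (EL.cons 2 (TM.mk (P.cons (P.cons (P.lf 0 124100583 0) (P.cons (P.lf 35561773 0 0) (P.cons (P.lf 11591212 0 0) (P.cons (P.lf 0 866739 0) (P.cons (P.lf 0 128576 0) (P.cons (P.lf 6806 0 0) P.nil)))))) (P.cons (P.cons (P.lf 0 68225169 0) (P.cons (P.lf 38063154 0 0) (P.cons (P.lf 9708210 0 0) (P.cons (P.lf 0 816592 0) (P.cons (P.lf 0 115048 0) P.nil))))) (P.cons (P.cons (P.lf 55131080 0 0) (P.cons (P.lf 353520 0 0) (P.cons (P.lf 0 2238935 0) (P.cons (P.lf 88318 0 0) P.nil)))) (P.cons (P.cons (P.lf 0 3511473 0) (P.cons (P.lf 0 2300776 0) (P.cons (P.lf 0 267918 0) P.nil))) (P.cons (P.cons (P.lf 0 2611946 0) (P.cons (P.lf 0 92328 0) P.nil)) (P.cons (P.cons (P.lf 215038 0 0) P.nil) P.nil)))))) 406535)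
 (EL.cons 6 (TM.mk (P.cons (P.cons (P.lf 581928216 0 0) (P.cons (P.lf 0 166755072 0) (P.cons (P.lf 0 54353136 0) (P.cons (P.lf 4064286 0 0) (P.cons (P.lf 602934 0 0) (P.cons (P.lf 0 31938 0) P.nil)))))) (P.cons (P.cons (P.lf 0 266695164 0) (P.cons (P.lf 0 10386546 0) (P.cons (P.lf 9267396 0 0) (P.cons (P.lf 0 267864 0) (P.cons (P.lf 0 68298 0) P.nil))))) (P.cons (P.cons (P.lf 3257118 0 0) (P.cons (P.lf 10837518 0 0) (P.cons (P.lf 1816788 0 0) (P.cons (P.lf 0 193488 0) P.nil)))) (P.cons (P.cons (P.lf 14002440 0 0) (P.cons (P.lf 683208 0 0) (P.cons (P.lf 0 461718 0) P.nil))) (P.cons (P.cons (P.lf 0 846288 0) (P.cons (P.lf 0 330456 0) P.nil)) (P.cons (P.cons (P.lf 0 326988 0) P.nil) P.nil)))))) 276048)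
 EL.nil))))))
noncomputable def S256_285_364_438_3 : EL := (EL.cons 0 (TM.mk (P.cons (P.lf 96110806 0 0) (P.cons (P.lf 190686074 0 0) (P.cons (P.lf 92290364 0 0) (P.cons (P.lf 0 3016066 0) (P.cons (P.lf 0 708651 0) (P.cons (P.lf 26673 0 0) P.nil)))))) 4788)
 (EL.cons 1 (TM.mk (P.cons (P.lf 0 450679505 0) (P.cons (P.lf 0 439849933 0) (P.cons (P.lf 16100088 0 0) (P.cons (P.lf 5127871 0 0) (P.cons (P.lf 0 176304 0) (P.cons (P.lf 0 32482 0) P.nil)))))) 1651)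
 (EL.cons 5 (TM.mk (P.cons (P.lf 2113310914 0 0) (P.cons (P.lf 0 67799490 0) (P.cons (P.lf 0 32814348 0) (P.cons (P.lf 1072376 0 0) (P.cons (P.lf 251962 0 0) (P.cons (P.lf 0 9484 0) P.nil)))))) 1830)
 EL.nil)))
noncomputable def S256_285_364_438_4 : EL := (EL.cons 0 (TM.mk (P.cons (P.cons (P.lf 21203441 0 0) (P.cons (P.lf 0 8736496 0) (P.cons (P.lf 0 478024 0) (P.lf 53112 0 0)))) (P.cons (P.cons (P.lf 33371050 0 0) (P.cons (P.lf 0 16912984 0) (P.cons (P.lf 0 925409 0) (P.lf 102823 0 0)))) (P.cons (P.cons (P.lf 3291227 0 0) (P.cons (P.lf 0 7354966 0) (P.cons (P.lf 0 402433 0) (P.lf 44713 0 0)))) (P.cons (P.cons (P.lf 0 8352247 0) (P.cons (P.lf 1064968 0 0) (P.cons (P.lf 58269 0 0) P.nil))) (P.cons (P.cons (P.lf 873977 0 0) (P.cons (P.lf 221401 0 0) P.nil)) (P.cons (P.cons (P.lf 329262 0 0) P.nil) P.nil)))))) 92973)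
 (EL.cons 1 (TM.mk (P.cons (P.cons (P.lf 0 99426450 0) (P.cons (P.lf 40966884 0 0) (P.cons (P.lf 2241541 0 0) (P.lf 0 249058 0)))) (P.cons (P.cons (P.lf 0 56255295 0) (P.cons (P.lf 38011016 0 0) (P.cons (P.lf 2079808 0 0) (P.lf 0 231090 0)))) (P.cons (P.cons (P.lf 42482610 0 0) (P.cons (P.lf 0 4325940 0) (P.cons (P.lf 0 236696 0) (P.lf 26298 0 0)))) (P.cons (P.cons (P.lf 0 2563196 0) (P.cons (P.lf 0 1264929 0) (P.cons (P.lf 0 69211 0) P.nil))) (P.cons (P.cons (P.lf 0 1788271 0) (P.cons (P.lf 128085 0 0) P.nil)) (P.cons (P.cons (P.lf 119608 0 0) P.nil) P.nil)))))) 89370)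
 (EL.cons 5 (TM.mk (P.cons (P.cons (P.lf 466227108 0 0) (P.cons (P.lf 0 192100516 0) (P.cons (P.lf 0 10510966 0) (P.lf 1167884 0 0)))) (P.cons (P.cons (P.lf 0 206191078 0) (P.cons (P.lf 15407476 0 0) (P.cons (P.lf 843034 0 0) (P.lf 0 93668 0)))) (P.cons (P.cons (P.lf 2981650 0 0) (P.cons (P.lf 7086352 0 0) (P.cons (P.lf 387734 0 0) (P.lf 0 43080 0)))) (P.cons (P.cons (P.lf 9579648 0 0) (P.cons (P.lf 0 600572 0) (P.cons (P.lf 0 32858 0) P.nil))) (P.cons (P.cons (P.lf 0 488840 0) (P.cons (P.lf 0 129486 0) P.nil)) (P.cons (P.cons (P.lf 0 187952 0) P.nil) P.nil)))))) 46792)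
 EL.nil)))
noncomputable def S256_285_364_438_5 : EL := (EL.cons 0 (TM.mk (P.cons (P.cons (P.lf 4677786 0 0) (P.cons (P.lf 0 3854796 0) (P.cons (P.lf 583229 0 0) (P.cons (P.lf 110339 0 0) (P.cons (P.lf 0 7277 0) (P.cons (P.lf 0 527 0) P.nil)))))) (P.cons (P.cons (P.lf 5443439 0 0) (P.cons (P.lf 0 5881368 0) (P.cons (P.lf 1177372 0 0) (P.cons (P.lf 199812 0 0) (P.cons (P.lf 0 13739 0) P.nil))))) (P.cons (P.cons (P.lf 0 2252659 0) (P.cons (P.lf 0 218093 0) (P.cons (P.lf 564459 0 0) (P.cons (P.lf 64400 0 0) P.nil)))) (P.cons (P.cons (P.lf 0 2010666 0) (P.cons (P.lf 1681816 0 0) (P.cons (P.lf 0 71268 0) P.nil))) (P.cons (P.cons (P.lf 1055926 0 0) (P.cons (P.lf 0 226154 0) P.nil)) (P.cons (P.cons (P.lf 0 15929 0) P.nil) P.nil)))))) 319592)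
 (EL.cons 1 (TM.mk (P.cons (P.cons (P.lf 0 21934920 0) (P.cons (P.lf 18075780 0 0) (P.cons (P.lf 0 2734865 0) (P.cons (P.lf 0 517404 0) (P.cons (P.lf 34128 0 0) (P.cons (P.lf 2475 0 0) P.nil)))))) (P.cons (P.cons (P.lf 0 3413634 0) (P.cons (P.lf 9357376 0 0) (P.cons (P.lf 0 2764005 0) (P.cons (P.lf 0 415387 0) (P.cons (P.lf 30024 0 0) P.nil))))) (P.cons (P.cons (P.lf 14270595 0 0) (P.cons (P.lf 0 8629556 0) (P.cons (P.lf 172625 0 0) (P.cons (P.lf 123024 0 0) P.nil)))) (P.cons (P.cons (P.lf 0 4824526 0) (P.cons (P.lf 623953 0 0) (P.cons (P.lf 205106 0 0) P.nil))) (P.cons (P.cons (P.lf 0 245347 0) (P.cons (P.lf 495915 0 0) P.nil)) (P.cons (P.cons (P.lf 321960 0 0) P.nil) P.nil)))))) 202507)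
 (EL.cons 5 (TM.mk (P.cons (P.cons (P.lf 102856476 0 0) (P.cons (P.lf 0 84760332 0) (P.cons (P.lf 12824242 0 0) (P.cons (P.lf 2426202 0 0) (P.cons (P.lf 0 160042 0) (P.cons (P.lf 0 11616 0) P.nil)))))) (P.cons (P.cons (P.lf 0 87677644 0) (P.cons (P.lf 41564582 0 0) (P.cons (P.lf 33374 0 0) (P.cons (P.lf 0 497914 0) (P.cons (P.lf 20536 0 0) P.nil))))) (P.cons (P.cons (P.lf 20217414 0 0) (P.cons (P.lf 0 404540 0) (P.cons (P.lf 0 998856 0) (P.cons (P.lf 0 104422 0) P.nil)))) (P.cons (P.cons (P.lf 2880006 0 0) (P.cons (P.lf 0 2670472 0) (P.cons (P.lf 0 8592 0) P.nil))) (P.cons (P.cons (P.lf 0 1642264 0) (P.cons (P.lf 205668 0 0) P.nil)) (P.cons (P.cons (P.lf 32178 0 0) P.nil) P.nil)))))) 285392)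
 EL.nil)))
noncomputable def S256_285_364_438_6 : EL := (EL.cons 12 (TM.mk (P.lf 8589934592 0 0) 0)
 (EL.cons 3 (TM.mk (P.cons (P.lf 454308690 0 0) (P.cons (P.lf 450679503 0 0) (P.cons (P.lf 0 5414782 0) (P.cons (P.lf 0 1756837 0) (P.cons (P.lf 35658 0 0) (P.cons (P.lf 6731 0 0) P.nil)))))) 269)
 (EL.cons 7 (TM.mk (P.cons (P.lf 0 2130328762 0) (P.cons (P.lf 34172730 0 0) (P.cons (P.lf 16813380 0 0) (P.cons (P.lf 0 270802 0) (P.cons (P.lf 0 64991 0) (P.cons (P.lf 1601 0 0) P.nil)))))) 330)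
 EL.nil)))
noncomputable def S256_285_364_438_7 : EL := (EL.cons 12 (TM.mk (P.cons (P.cons (P.lf 1895064446 0 0) (P.cons (P.lf 0 780827312 0) (P.cons (P.lf 0 42723728 0) (P.lf 4747080 0 0)))) (P.cons (P.cons (P.lf 0 777303270 0) (P.cons (P.lf 37575888 0 0) (P.cons (P.lf 2056000 0 0) (P.lf 0 228440 0)))) (P.cons (P.cons (P.lf 16607464 0 0) (P.cons (P.lf 17885016 0 0) (P.cons (P.lf 978592 0 0) (P.lf 0 108728 0)))) (P.cons (P.cons (P.lf 26439848 0 0) (P.cons (P.lf 0 887672 0) (P.cons (P.lf 0 48560 0) P.nil))) (P.cons (P.cons (P.lf 0 712376 0) (P.cons (P.lf 0 203064 0) P.nil)) (P.cons (P.cons (P.lf 0 283526 0) P.nil) P.nil)))))) 57790)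
 (EL.cons 3 (TM.mk (P.cons (P.cons (P.lf 0 2462596012 0) (P.cons (P.lf 82593556 0 0) (P.cons (P.lf 4519186 0 0) (P.lf 0 502130 0)))) (P.cons (P.cons (P.lf 188465612 0 0) (P.cons (P.lf 77959106 0 0) (P.cons (P.lf 4265608 0 0) (P.lf 0 473956 0)))) (P.cons (P.cons (P.lf 229861034 0 0) (P.cons (P.lf 0 6819146 0) (P.cons (P.lf 0 373114 0) (P.lf 41456 0 0)))) (P.cons (P.cons (P.lf 0 9569884 0) (P.cons (P.lf 0 2054834 0) (P.cons (P.lf 0 112432 0) P.nil))) (P.cons (P.cons (P.lf 0 4145618 0) (P.cons (P.lf 159024 0 0) P.nil)) (P.cons (P.cons (P.lf 191025 0 0) P.nil) P.nil)))))) 229300)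
 (EL.cons 7 (TM.mk (P.cons (P.cons (P.lf 0 664307319 0) (P.cons (P.lf 203041419 0 0) (P.cons (P.lf 11109613 0 0) (P.lf 0 1234403 0)))) (P.cons (P.cons (P.lf 14290395 0 0) (P.cons (P.lf 5911241 0 0) (P.cons (P.lf 323438 0 0) (P.lf 0 35936 0)))) (P.cons (P.cons (P.lf 24631923 0 0) (P.cons (P.lf 2462360 0 0) (P.cons (P.lf 134729 0 0) (P.lf 0 14969 0)))) (P.cons (P.cons (P.lf 11045233 0 0) (P.cons (P.lf 0 479361 0) (P.cons (P.lf 0 26225 0) P.nil))) (P.cons (P.cons (P.lf 0 742266 0) (P.cons (P.lf 0 102735 0) P.nil)) (P.cons (P.cons (P.lf 0 215083 0) P.nil) P.nil)))))) 121963)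
 (EL.cons 10 (TM.mk (P.cons (P.cons (P.lf 0 2659001160 0) (P.cons (P.lf 0 333640752 0) (P.cons (P.lf 50938311 0 0) (P.cons (P.lf 1556157 0 0) (P.lf 0 129678 0))))) (P.cons (P.cons (P.lf 85306386 0 0) (P.cons (P.lf 10703901 0 0) (P.cons (P.lf 0 1634208 0) (P.cons (P.lf 0 49923 0) (P.lf 4158 0 0))))) (P.cons (P.cons (P.lf 41287530 0 0) (P.cons (P.lf 5180592 0 0) (P.cons (P.lf 0 790941 0) (P.cons (P.lf 0 24162 0) P.nil)))) (P.cons (P.cons (P.lf 0 1349280 0) (P.cons (P.lf 0 169302 0) (P.cons (P.lf 25848 0 0) P.nil))) (P.cons (P.cons (P.lf 0 317022 0) (P.cons (P.lf 0 39777 0) P.nil)) (P.cons (P.cons (P.lf 11931 0 0) P.nil) P.nil)))))) 13623)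
 EL.nil))))
noncomputable def S256_285_364_438_8 : EL := (EL.cons 12 (TM.mk (P.cons (P.cons (P.lf 418078766 0 0) (P.cons (P.lf 0 344523712 0) (P.cons (P.lf 52126456 0 0) (P.cons (P.lf 9861744 0 0) (P.cons (P.lf 0 650526 0) (P.cons (P.lf 0 47220 0) P.nil)))))) (P.cons (P.cons (P.lf 0 342968802 0) (P.cons (P.lf 157893716 0 0) (P.cons (P.lf 1807990 0 0) (P.cons (P.lf 0 1707484 0) (P.cons (P.lf 62610 0 0) P.nil))))) (P.cons (P.cons (P.lf 77665876 0 0) (P.cons (P.lf 0 1928340 0) (P.cons (P.lf 0 3192644 0) (P.cons (P.lf 0 326104 0) P.nil)))) (P.cons (P.cons (P.lf 8660410 0 0) (P.cons (P.lf 0 8289978 0) (P.cons (P.lf 0 135736 0) P.nil))) (P.cons (P.cons (P.lf 0 5067296 0) (P.cons (P.lf 501036 0 0) P.nil)) (P.cons (P.cons (P.lf 106060 0 0) P.nil) P.nil)))))) 706780)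
 (EL.cons 3 (TM.mk (P.cons (P.cons (P.lf 0 1108680515 0) (P.cons (P.lf 502365265 0 0) (P.cons (P.lf 8717961 0 0) (P.cons (P.lf 0 5108126 0) (P.cons (P.lf 172025 0 0) (P.cons (P.lf 12486 0 0) P.nil)))))) (P.cons (P.cons (P.lf 525041364 0 0) (P.cons (P.lf 0 26632887 0) (P.cons (P.lf 0 18270253 0) (P.cons (P.lf 0 1677965 0) (P.cons (P.lf 154096 0 0) P.nil))))) (P.cons (P.cons (P.lf 71940787 0 0) (P.cons (P.lf 0 75592415 0) (P.cons (P.lf 0 1303968 0) (P.cons (P.lf 769486 0 0) P.nil)))) (P.cons (P.cons (P.lf 0 64917318 0) (P.cons (P.lf 6750645 0 0) (P.cons (P.lf 1146206 0 0) P.nil))) (P.cons (P.cons (P.lf 2150945 0 0) (P.cons (P.lf 3027458 0 0) P.nil)) (P.cons (P.cons (P.lf 2626578 0 0) P.nil) P.nil)))))) 1723415)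
 (EL.cons 7 (TM.mk (P.cons (P.cons (P.lf 0 189426951 0) (P.cons (P.lf 124916312 0 0) (P.cons (P.lf 0 12475514 0) (P.cons (P.lf 0 2872611 0) (P.cons (P.lf 176980 0 0) (P.cons (P.lf 12844 0 0) P.nil)))))) (P.cons (P.cons (P.lf 39811219 0 0) (P.cons (P.lf 0 2019441 0) (P.cons (P.lf 0 1385335 0) (P.cons (P.lf 0 127227 0) (P.cons (P.lf 11681 0 0) P.nil))))) (P.cons (P.cons (P.lf 25520797 0 0) (P.cons (P.lf 0 6749635 0) (P.cons (P.lf 0 797120 0) (P.cons (P.lf 0 5778 0) P.nil)))) (P.cons (P.cons (P.lf 0 1095313 0) (P.cons (P.lf 0 3348267 0) (P.cons (P.lf 14859 0 0) P.nil))) (P.cons (P.cons (P.lf 0 3483900 0) (P.cons (P.lf 579645 0 0) P.nil)) (P.cons (P.cons (P.lf 304548 0 0) P.nil) P.nil)))))) 1079926)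
 (EL.cons 10 (TM.mk (P.cons (P.cons (P.lf 0 1173228618 0) (P.cons (P.lf 336195804 0 0) (P.cons (P.lf 109581654 0 0) (P.cons (P.lf 0 8194032 0) (P.cons (P.lf 0 1215588 0) (P.cons (P.lf 64392 0 0) P.nil)))))) (P.cons (P.cons (P.lf 518865738 0 0) (P.cons (P.lf 26333316 0 0) (P.cons (P.lf 0 16926252 0) (P.cons (P.lf 408612 0 0) (P.cons (P.lf 118206 0 0) P.nil))))) (P.cons (P.cons (P.lf 0 7503120 0) (P.cons (P.lf 0 18773784 0) (P.cons (P.lf 0 3069498 0) (P.cons (P.lf 331980 0 0) P.nil)))) (P.cons (P.cons (P.lf 0 24106530 0) (P.cons (P.lf 0 1513482 0) (P.cons (P.lf 734124 0 0) P.nil))) (P.cons (P.cons (P.lf 1230132 0 0) (P.cons (P.lf 480192 0 0) P.nil)) (P.cons (P.cons (P.lf 472968 0 0) P.nil) P.nil)))))) 417072)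
 EL.nil))))
noncomputable def S256_285_364_438_9 : EL := (EL.cons 3 (TM.mk (P.cons (P.lf 454308690 0 0) (P.cons (P.lf 450679503 0 0) (P.cons (P.lf 0 5414782 0) (P.cons (P.lf 0 1756837 0) (P.cons (P.lf 35658 0 0) (P.cons (P.lf 6731 0 0) P.nil)))))) 269)
 (EL.cons 7 (TM.mk (P.cons (P.lf 0 2130328762 0) (P.cons (P.lf 34172730 0 0) (P.cons (P.lf 16813380 0 0) (P.cons (P.lf 0 270802 0) (P.cons (P.lf 0 64991 0) (P.cons (P.lf 1601 0 0) P.nil)))))) 330)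
 EL.nil))
noncomputable def S256_285_364_438_10 : EL := (EL.cons 3 (TM.mk (P.cons (P.cons (P.lf 100227101 0 0) (P.cons (P.lf 0 41296778 0) (P.cons (P.lf 0 2259593 0) (P.lf 251065 0 0)))) (P.cons (P.cons (P.lf 58316051 0 0) (P.cons (P.lf 0 38979553 0) (P.cons (P.lf 0 2132804 0) (P.lf 236978 0 0)))) (P.cons (P.cons (P.lf 0 41098228 0) (P.cons (P.lf 3409573 0 0) (P.cons (P.lf 186557 0 0) (P.lf 0 20728 0)))) (P.cons (P.cons (P.lf 2372090 0 0) (P.cons (P.lf 1027417 0 0) (P.cons (P.lf 56216 0 0) P.nil))) (P.cons (P.cons (P.lf 1505890 0 0) (P.cons (P.lf 0 79512 0) P.nil)) (P.cons (P.cons (P.lf 0 74175 0) P.nil) P.nil)))))) 55371)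
 (EL.cons 7 (TM.mk (P.cons (P.cons (P.lf 0 469981494 0) (P.cons (P.lf 193647444 0 0) (P.cons (P.lf 10595608 0 0) (P.lf 0 1177289 0)))) (P.cons (P.cons (P.lf 200312472 0 0) (P.cons (P.lf 0 12425239 0) (P.cons (P.lf 0 679858 0) (P.lf 75538 0 0)))) (P.cons (P.cons (P.lf 0 3501714 0) (P.cons (P.lf 0 5814391 0) (P.cons (P.lf 0 318139 0) (P.lf 35347 0 0)))) (P.cons (P.cons (P.lf 0 8072276 0) (P.cons (P.lf 389460 0 0) (P.cons (P.lf 21307 0 0) P.nil))) (P.cons (P.cons (P.lf 324528 0 0) (P.cons (P.lf 86559 0 0) P.nil)) (P.cons (P.cons (P.lf 124943 0 0) P.nil) P.nil)))))) 27336)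
 EL.nil))
noncomputable def S256_285_364_438_11 : EL := (EL.cons 3 (TM.mk (P.cons (P.cons (P.lf 22111555 0 0) (P.cons (P.lf 0 18221339 0) (P.cons (P.lf 2756889 0 0) (P.cons (P.lf 521572 0 0) (P.cons (P.lf 0 34405 0) (P.cons (P.lf 0 2496 0) P.nil)))))) (P.cons (P.cons (P.lf 3795816 0 0) (P.cons (P.lf 0 9725019 0) (P.cons (P.lf 2830487 0 0) (P.cons (P.lf 427099 0 0) (P.cons (P.lf 0 30818 0) P.nil))))) (P.cons (P.cons (P.lf 0 14150111 0) (P.cons (P.lf 8399239 0 0) (P.cons (P.lf 0 106854 0) (P.cons (P.lf 0 113048 0) P.nil)))) (P.cons (P.cons (P.lf 4663542 0 0) (P.cons (P.lf 0 568683 0) (P.cons (P.lf 0 186484 0) P.nil))) (P.cons (P.cons (P.lf 209297 0 0) (P.cons (P.lf 0 440950 0) P.nil)) (P.cons (P.cons (P.lf 0 282690 0) P.nil) P.nil)))))) 160477)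
 (EL.cons 7 (TM.mk (P.cons (P.cons (P.lf 0 103684749 0) (P.cons (P.lf 85442882 0 0) (P.cons (P.lf 0 12927512 0) (P.cons (P.lf 0 2445741 0) (P.cons (P.lf 161332 0 0) (P.cons (P.lf 11710 0 0) P.nil)))))) (P.cons (P.cons (P.lf 86720473 0 0) (P.cons (P.lf 0 40528695 0) (P.cons (P.lf 0 241015 0) (P.cons (P.lf 462693 0 0) (P.cons (P.lf 0 18115 0) P.nil))))) (P.cons (P.cons (P.lf 0 19807451 0) (P.cons (P.lf 432023 0 0) (P.cons (P.lf 901006 0 0) (P.cons (P.lf 93384 0 0) P.nil)))) (P.cons (P.cons (P.lf 0 2523319 0) (P.cons (P.lf 2368179 0 0) (P.cons (P.lf 22857 0 0) P.nil))) (P.cons (P.cons (P.lf 1450824 0 0) (P.cons (P.lf 0 163383 0) P.nil)) (P.cons (P.cons (P.lf 0 29286 0) P.nil) P.nil)))))) 227610)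
 EL.nil))
noncomputable def S256_285_364_438_12 : EL := (EL.cons 4 (TM.mk (P.cons (P.lf 0 454308690 0) (P.cons (P.lf 0 450679503 0) (P.cons (P.lf 5414782 0 0) (P.cons (P.lf 1756837 0 0) (P.cons (P.lf 0 35658 0) (P.cons (P.lf 0 6731 0) P.nil)))))) 269)
 (EL.cons 8 (TM.mk (P.cons (P.lf 2130328762 0 0) (P.cons (P.lf 0 34172730 0) (P.cons (P.lf 0 16813380 0) (P.cons (P.lf 270802 0 0) (P.cons (P.lf 64991 0 0) (P.cons (P.lf 0 1601 0) P.nil)))))) 330)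
 EL.nil))
noncomputable def S256_285_364_438_13 : EL := (EL.cons 4 (TM.mk (P.cons (P.cons (P.lf 0 100227101 0) (P.cons (P.lf 41296778 0 0) (P.cons (P.lf 2259593 0 0) (P.lf 0 251065 0)))) (P.cons (P.cons (P.lf 0 58316051 0) (P.cons (P.lf 38979553 0 0) (P.cons (P.lf 2132804 0 0) (P.lf 0 236978 0)))) (P.cons (P.cons (P.lf 41098228 0 0) (P.cons (P.lf 0 3409573 0) (P.cons (P.lf 0 186557 0) (P.lf 20728 0 0)))) (P.cons (P.cons (P.lf 0 2372090 0) (P.cons (P.lf 0 1027417 0) (P.cons (P.lf 0 56216 0) P.nil))) (P.cons (P.cons (P.lf 0 1505890 0) (P.cons (P.lf 79512 0 0) P.nil)) (P.cons (P.cons (P.lf 74175 0 0) P.nil) P.nil)))))) 55371)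
 (EL.cons 8 (TM.mk (P.cons (P.cons (P.lf 469981494 0 0) (P.cons (P.lf 0 193647444 0) (P.cons (P.lf 0 10595608 0) (P.lf 1177289 0 0)))) (P.cons (P.cons (P.lf 0 200312472 0) (P.cons (P.lf 12425239 0 0) (P.cons (P.lf 679858 0 0) (P.lf 0 75538 0)))) (P.cons (P.cons (P.lf 3501714 0 0) (P.cons (P.lf 5814391 0 0) (P.cons (P.lf 318139 0 0) (P.lf 0 35347 0)))) (P.cons (P.cons (P.lf 8072276 0 0) (P.cons (P.lf 0 389460 0) (P.cons (P.lf 0 21307 0) P.nil))) (P.cons (P.cons (P.lf 0 324528 0) (P.cons (P.lf 0 86559 0) P.nil)) (P.cons (P.cons (P.lf 0 124943 0) P.nil) P.nil)))))) 27336)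
 EL.nil))
noncomputable def S256_285_364_438_14 : EL := (EL.cons 4 (TM.mk (P.cons (P.cons (P.lf 0 22111555 0) (P.cons (P.lf 18221339 0 0) (P.cons (P.lf 0 2756889 0) (P.cons (P.lf 0 521572 0) (P.cons (P.lf 34405 0 0) (P.cons (P.lf 2496 0 0) P.nil)))))) (P.cons (P.cons (P.lf 0 3795816 0) (P.cons (P.lf 9725019 0 0) (P.cons (P.lf 0 2830487 0) (P.cons (P.lf 0 427099 0) (P.cons (P.lf 30818 0 0) P.nil))))) (P.cons (P.cons (P.lf 14150111 0 0) (P.cons (P.lf 0 8399239 0) (P.cons (P.lf 106854 0 0) (P.cons (P.lf 113048 0 0) P.nil)))) (P.cons (P.cons (P.lf 0 4663542 0) (P.cons (P.lf 568683 0 0) (P.cons (P.lf 186484 0 0) P.nil))) (P.cons (P.cons (P.lf 0 209297 0) (P.cons (P.lf 440950 0 0) P.nil)) (P.cons (P.cons (P.lf 282690 0 0) P.nil) P.nil)))))) 160477)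
 (EL.cons 8 (TM.mk (P.cons (P.cons (P.lf 103684749 0 0) (P.cons (P.lf 0 85442882 0) (P.cons (P.lf 12927512 0 0) (P.cons (P.lf 2445741 0 0) (P.cons (P.lf 0 161332 0) (P.cons (P.lf 0 11710 0) P.nil)))))) (P.cons (P.cons (P.lf 0 86720473 0) (P.cons (P.lf 40528695 0 0) (P.cons (P.lf 241015 0 0) (P.cons (P.lf 0 462693 0) (P.cons (P.lf 18115 0 0) P.nil))))) (P.cons (P.cons (P.lf 19807451 0 0) (P.cons (P.lf 0 432023 0) (P.cons (P.lf 0 901006 0) (P.cons (P.lf 0 93384 0) P.nil)))) (P.cons (P.cons (P.lf 2523319 0 0) (P.cons (P.lf 0 2368179 0) (P.cons (P.lf 0 22857 0) P.nil))) (P.cons (P.cons (P.lf 0 1450824 0) (P.cons (P.lf 163383 0 0) P.nil)) (P.cons (P.cons (P.lf 29286 0 0) P.nil) P.nil)))))) 227610)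
 EL.nil))
noncomputable def S256_285_364_438_15 : EL := (EL.cons 4 (TM.mk (P.cons (P.lf 0 51259096 0) (P.cons (P.lf 0 101699239 0) (P.cons (P.lf 0 49221527 0) (P.cons (P.lf 1608569 0 0) (P.cons (P.lf 377947 0 0) (P.cons (P.lf 0 14225 0) P.nil)))))) 2557)
 (EL.cons 8 (TM.mk (P.cons (P.lf 240362403 0 0) (P.cons (P.lf 234586631 0 0) (P.cons (P.lf 0 8586714 0) (P.cons (P.lf 0 2734865 0) (P.cons (P.lf 94029 0 0) (P.cons (P.lf 17324 0 0) P.nil)))))) 877)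
 EL.nil))
noncomputable def S256_285_364_438_16 : EL := (EL.cons 4 (TM.mk (P.cons (P.cons (P.lf 0 11308501 0) (P.cons (P.lf 4659465 0 0) (P.cons (P.lf 254946 0 0) (P.lf 0 28326 0)))) (P.cons (P.cons (P.lf 0 17797893 0) (P.cons (P.lf 9020258 0 0) (P.cons (P.lf 493551 0 0) (P.lf 0 54839 0)))) (P.cons (P.cons (P.lf 0 1755321 0) (P.cons (P.lf 3922649 0 0) (P.cons (P.lf 214631 0 0) (P.lf 0 23847 0)))) (P.cons (P.cons (P.lf 4454532 0 0) (P.cons (P.lf 0 567983 0) (P.cons (P.lf 0 31077 0) P.nil))) (P.cons (P.cons (P.lf 0 466121 0) (P.cons (P.lf 0 118080 0) P.nil)) (P.cons (P.cons (P.lf 0 175606 0) P.nil) P.nil)))))) 49594)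
 (EL.cons 8 (TM.mk (P.cons (P.cons (P.lf 53027440 0 0) (P.cons (P.lf 0 21849005 0) (P.cons (P.lf 0 1195489 0) (P.lf 132831 0 0)))) (P.cons (P.cons (P.lf 30002824 0 0) (P.cons (P.lf 0 20272542 0) (P.cons (P.lf 0 1109231 0) (P.lf 123248 0 0)))) (P.cons (P.cons (P.lf 0 22657392 0) (P.cons (P.lf 2307168 0 0) (P.cons (P.lf 126238 0 0) (P.lf 0 14026 0)))) (P.cons (P.cons (P.lf 1367038 0 0) (P.cons (P.lf 674629 0 0) (P.cons (P.lf 36913 0 0) P.nil))) (P.cons (P.cons (P.lf 953745 0 0) (P.cons (P.lf 0 68312 0) P.nil)) (P.cons (P.cons (P.lf 0 63791 0) P.nil) P.nil)))))) 47654)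
 EL.nil))
noncomputable def S256_285_364_438_17 : EL := (EL.cons 4 (TM.mk (P.cons (P.cons (P.lf 0 2494819 0) (P.cons (P.lf 2055891 0 0) (P.cons (P.lf 0 311055 0) (P.cons (P.lf 0 58847 0) (P.cons (P.lf 3881 0 0) (P.cons (P.lf 281 0 0) P.nil)))))) (P.cons (P.cons (P.lf 0 2903167 0) (P.cons (P.lf 3136729 0 0) (P.cons (P.lf 0 627931 0) (P.cons (P.lf 0 106566 0) (P.cons (P.lf 7327 0 0) P.nil))))) (P.cons (P.cons (P.lf 1201418 0 0) (P.cons (P.lf 116316 0 0) (P.cons (P.lf 0 301045 0) (P.cons (P.lf 0 34347 0) P.nil)))) (P.cons (P.cons (P.lf 1072355 0 0) (P.cons (P.lf 0 896969 0) (P.cons (P.lf 38010 0 0) P.nil))) (P.cons (P.cons (P.lf 0 563160 0) (P.cons (P.lf 120615 0 0) P.nil)) (P.cons (P.cons (P.lf 8495 0 0) P.nil) P.nil)))))) 170459)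
 (EL.cons 8 (TM.mk (P.cons (P.cons (P.lf 11698624 0 0) (P.cons (P.lf 0 9640416 0) (P.cons (P.lf 1458595 0 0) (P.cons (P.lf 275949 0 0) (P.cons (P.lf 0 18202 0) (P.cons (P.lf 0 1320 0) P.nil)))))) (P.cons (P.cons (P.lf 1820605 0 0) (P.cons (P.lf 0 4990601 0) (P.cons (P.lf 1474136 0 0) (P.cons (P.lf 221540 0 0) (P.cons (P.lf 0 16013 0) P.nil))))) (P.cons (P.cons (P.lf 0 7610984 0) (P.cons (P.lf 4602430 0 0) (P.cons (P.lf 0 92067 0) (P.cons (P.lf 0 65613 0) P.nil)))) (P.cons (P.cons (P.lf 2573081 0 0) (P.cons (P.lf 0 332775 0) (P.cons (P.lf 0 109390 0) P.nil))) (P.cons (P.cons (P.lf 130852 0 0) (P.cons (P.lf 0 264488 0) P.nil)) (P.cons (P.cons (P.lf 0 171712 0) P.nil) P.nil)))))) 107992)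
 EL.nil))
noncomputable def S256_285_364_438_18 : EL := (EL.cons 4 (TM.mk (P.cons (P.lf 0 5783501 0) (P.cons (P.lf 0 17211901 0) (P.cons (P.lf 0 16867610 0) (P.cons (P.lf 0 5168619 0) (P.cons (P.lf 332796 0 0) (P.cons (P.lf 59024 0 0) P.nil)))))) 4306)
 (EL.cons 8 (TM.mk (P.cons (P.lf 27119797 0 0) (P.cons (P.lf 53371278 0 0) (P.cons (P.lf 24964624 0 0) (P.cons (P.lf 0 1690000 0) (P.cons (P.lf 0 384174 0) (P.cons (P.lf 22382 0 0) P.nil)))))) 4185)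
 EL.nil))
noncomputable def S256_285_364_438_19 : EL := (EL.cons 4 (TM.mk (P.cons (P.cons (P.lf 0 1275924 0) (P.cons (P.lf 525720 0 0) (P.cons (P.lf 28765 0 0) (P.lf 0 3195 0)))) (P.cons (P.cons (P.lf 0 3273846 0) (P.cons (P.lf 1539266 0 0) (P.cons (P.lf 84222 0 0) (P.lf 0 9357 0)))) (P.cons (P.cons (P.lf 0 2174915 0) (P.cons (P.lf 1445936 0 0) (P.cons (P.lf 79115 0 0) (P.lf 0 8790 0)))) (P.cons (P.cons (P.lf 334998 0 0) (P.cons (P.lf 360803 0 0) (P.cons (P.lf 19740 0 0) P.nil))) (P.cons (P.cons (P.lf 456017 0 0) (P.cons (P.lf 0 86065 0) P.nil)) (P.cons (P.cons (P.lf 0 77385 0) P.nil) P.nil)))))) 60669)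
 (EL.cons 8 (TM.mk (P.cons (P.cons (P.lf 5983021 0 0) (P.cons (P.lf 0 2465196 0) (P.cons (P.lf 0 134885 0) (P.lf 14986 0 0)))) (P.cons (P.cons (P.lf 9320408 0 0) (P.cons (P.lf 0 4732829 0) (P.cons (P.lf 0 258961 0) (P.lf 28773 0 0)))) (P.cons (P.cons (P.lf 730423 0 0) (P.cons (P.lf 0 1979356 0) (P.cons (P.lf 0 108302 0) (P.lf 12033 0 0)))) (P.cons (P.cons (P.lf 0 2445226 0) (P.cons (P.lf 371147 0 0) (P.cons (P.lf 20307 0 0) P.nil))) (P.cons (P.cons (P.lf 278467 0 0) (P.cons (P.lf 73350 0 0) P.nil)) (P.cons (P.cons (P.lf 107954 0 0) P.nil) P.nil)))))) 37817)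
 EL.nil))
noncomputable def S256_285_364_438_20 : EL := (EL.cons 4 (TM.mk (P.cons (P.cons (P.lf 0 281487 0) (P.cons (P.lf 231962 0 0) (P.cons (P.lf 0 35095 0) (P.cons (P.lf 0 6639 0) (P.cons (P.lf 437 0 0) (P.cons (P.lf 30 0 0) P.nil)))))) (P.cons (P.cons (P.lf 0 606799 0) (P.cons (P.lf 584024 0 0) (P.cons (P.lf 0 105663 0) (P.cons (P.lf 0 18610 0) (P.cons (P.lf 1260 0 0) P.nil))))) (P.cons (P.cons (P.lf 0 186033 0) (P.cons (P.lf 361444 0 0) (P.cons (P.lf 0 103830 0) (P.cons (P.lf 0 15723 0) P.nil)))) (P.cons (P.cons (P.lf 260456 0 0) (P.cons (P.lf 0 93300 0) (P.cons (P.lf 0 28425 0) P.nil))) (P.cons (P.cons (P.lf 56114 0 0) (P.cons (P.lf 0 88292 0) P.nil)) (P.cons (P.cons (P.lf 0 64070 0) P.nil) P.nil)))))) 91561)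
 (EL.cons 8 (TM.mk (P.cons (P.cons (P.lf 1319941 0 0) (P.cons (P.lf 0 1087716 0) (P.cons (P.lf 164571 0 0) (P.cons (P.lf 31134 0 0) (P.cons (P.lf 0 2053 0) (P.cons (P.lf 0 148 0) P.nil)))))) (P.cons (P.cons (P.lf 1514813 0 0) (P.cons (P.lf 0 1642110 0) (P.cons (P.lf 329581 0 0) (P.cons (P.lf 55882 0 0) (P.cons (P.lf 0 3843 0) P.nil))))) (P.cons (P.cons (P.lf 0 670694 0) (P.cons (P.lf 0 26334 0) (P.cons (P.lf 152646 0 0) (P.cons (P.lf 17022 0 0) P.nil)))) (P.cons (P.cons (P.lf 0 569112 0) (P.cons (P.lf 488508 0 0) (P.cons (P.lf 0 25266 0) P.nil))) (P.cons (P.cons (P.lf 312306 0 0) (P.cons (P.lf 0 71185 0) P.nil)) (P.cons (P.cons (P.lf 0 4831 0) P.nil) P.nil)))))) 103242)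
 EL.nil))
noncomputable def S256_285_364_438_21 : EL := (EL.cons 4 (TM.mk (P.cons (P.cons (P.lf 2562823113 0 0) (P.cons (P.lf 0 123890334 0) (P.cons (P.lf 0 6778779 0) (P.lf 753195 0 0)))) (P.cons (P.cons (P.lf 0 130149561 0) (P.cons (P.lf 0 116938659 0) (P.cons (P.lf 0 6398412 0) (P.lf 710934 0 0)))) (P.cons (P.cons (P.lf 0 270959262 0) (P.cons (P.lf 10228719 0 0) (P.cons (P.lf 559671 0 0) (P.lf 0 62184 0)))) (P.cons (P.cons (P.lf 11941974 0 0) (P.cons (P.lf 3082251 0 0) (P.cons (P.lf 168648 0 0) P.nil))) (P.cons (P.cons (P.lf 5651508 0 0) (P.cons (P.lf 0 238536 0) P.nil)) (P.cons (P.cons (P.lf 0 265200 0) P.nil) P.nil)))))) 173910)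
 (EL.cons 8 (TM.mk (P.cons (P.cons (P.lf 194325825 0 0) (P.cons (P.lf 0 9393975 0) (P.cons (P.lf 0 514005 0) (P.lf 57114 0 0)))) (P.cons (P.cons (P.lf 186022077 0 0) (P.cons (P.lf 0 18336480 0) (P.cons (P.lf 0 1003296 0) (P.lf 111474 0 0)))) (P.cons (P.cons (P.lf 0 28133637 0) (P.cons (P.lf 0 8276751 0) (P.cons (P.lf 0 452868 0) (P.lf 50316 0 0)))) (P.cons (P.cons (P.lf 0 19117509 0) (P.cons (P.lf 868821 0 0) (P.cons (P.lf 47532 0 0) P.nil))) (P.cons (P.cons (P.lf 1066794 0 0) (P.cons (P.lf 189294 0 0) P.nil)) (P.cons (P.cons (P.lf 340026 0 0) P.nil) P.nil)))))) 94608)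
 (EL.cons 11 (TM.mk (P.cons (P.cons (P.lf 2659001160 0 0) (P.cons (P.lf 333640752 0 0) (P.cons (P.lf 0 50938311 0) (P.cons (P.lf 0 1556157 0) (P.lf 129678 0 0))))) (P.cons (P.cons (P.lf 0 85306386 0) (P.cons (P.lf 0 10703901 0) (P.cons (P.lf 1634208 0 0) (P.cons (P.lf 49923 0 0) (P.lf 0 4158 0))))) (P.cons (P.cons (P.lf 0 41287530 0) (P.cons (P.lf 0 5180592 0) (P.cons (P.lf 790941 0 0) (P.cons (P.lf 24162 0 0) P.nil)))) (P.cons (P.cons (P.lf 1349280 0 0) (P.cons (P.lf 169302 0 0) (P.cons (P.lf 0 25848 0) P.nil))) (P.cons (P.cons (P.lf 317022 0 0) (P.cons (P.lf 39777 0 0) P.nil)) (P.cons (P.cons (P.lf 0 11931 0) P.nil) P.nil)))))) 13623)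
 EL.nil)))
noncomputable def S256_285_364_438_22 : EL := (EL.cons 4 (TM.mk (P.cons (P.cons (P.lf 565396035 0 0) (P.cons (P.lf 0 260293302 0) (P.cons (P.lf 0 2980536 0) (P.cons (P.lf 2814849 0 0) (P.cons (P.lf 0 103215 0) (P.cons (P.lf 0 7491 0) P.nil)))))) (P.cons (P.cons (P.lf 0 260622774 0) (P.cons (P.lf 8453934 0 0) (P.cons (P.lf 10550370 0 0) (P.cons (P.lf 1052532 0 0) (P.cons (P.lf 0 92457 0) P.nil))))) (P.cons (P.cons (P.lf 0 43045449 0) (P.cons (P.lf 41995827 0 0) (P.cons (P.lf 598557 0 0) (P.cons (P.lf 0 441267 0) P.nil)))) (P.cons (P.cons (P.lf 34790430 0 0) (P.cons (P.lf 0 3659664 0) (P.cons (P.lf 0 666345 0) P.nil))) (P.cons (P.cons (P.lf 0 970824 0) (P.cons (P.lf 0 1734204 0) P.nil)) (P.cons (P.cons (P.lf 0 1454634 0) P.nil) P.nil)))))) 781458)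
 (EL.cons 8 (TM.mk (P.cons (P.cons (P.lf 42871101 0 0) (P.cons (P.lf 0 19736715 0) (P.cons (P.lf 0 225999 0) (P.cons (P.lf 213435 0 0) (P.cons (P.lf 0 7824 0) (P.cons (P.lf 0 567 0) P.nil)))))) (P.cons (P.cons (P.lf 23454627 0 0) (P.cons (P.lf 0 19254627 0) (P.cons (P.lf 572160 0 0) (P.cons (P.lf 294960 0 0) (P.cons (P.lf 0 14898 0) P.nil))))) (P.cons (P.cons (P.lf 0 22664124 0) (P.cons (P.lf 3590829 0 0) (P.cons (P.lf 849063 0 0) (P.cons (P.lf 49581 0 0) P.nil)))) (P.cons (P.cons (P.lf 0 714003 0) (P.cons (P.lf 2858223 0 0) (P.cons (P.lf 3999 0 0) P.nil))) (P.cons (P.cons (P.lf 2467362 0 0) (P.cons (P.lf 0 371514 0) P.nil)) (P.cons (P.cons (P.lf 0 166917 0) P.nil) P.nil)))))) 426147)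
 (EL.cons 11 (TM.mk (P.cons (P.cons (P.lf 586614309 0 0) (P.cons (P.lf 0 168097902 0) (P.cons (P.lf 0 54790827 0) (P.cons (P.lf 4097016 0 0) (P.cons (P.lf 607794 0 0) (P.cons (P.lf 0 32196 0) P.nil)))))) (P.cons (P.cons (P.lf 0 259432869 0) (P.cons (P.lf 0 13166658 0) (P.cons (P.lf 8463126 0 0) (P.cons (P.lf 0 204306 0) (P.cons (P.lf 0 59103 0) P.nil))))) (P.cons (P.cons (P.lf 3751560 0 0) (P.cons (P.lf 9386892 0 0) (P.cons (P.lf 1534749 0 0) (P.cons (P.lf 0 165990 0) P.nil)))) (P.cons (P.cons (P.lf 12053265 0 0) (P.cons (P.lf 756741 0 0) (P.cons (P.lf 0 367062 0) P.nil))) (P.cons (P.cons (P.lf 0 615066 0) (P.cons (P.lf 0 240096 0) P.nil)) (P.cons (P.cons (P.lf 0 236484 0) P.nil) P.nil)))))) 208536)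
 EL.nil)))
noncomputable def S256_285_364_438_23 : EL := (EL.cons 4 (TM.mk (P.cons (P.cons (P.lf 289160214 0 0) (P.cons (P.lf 0 13978395 0) (P.cons (P.lf 0 764841 0) (P.lf 84981 0 0)))) (P.cons (P.cons (P.lf 272165676 0 0) (P.cons (P.lf 0 27060777 0) (P.cons (P.lf 0 1480656 0) (P.lf 164517 0 0)))) (P.cons (P.cons (P.lf 0 48585735 0) (P.cons (P.lf 0 11767947 0) (P.cons (P.lf 0 643893 0) (P.lf 71544 0 0)))) (P.cons (P.cons (P.lf 0 29923560 0) (P.cons (P.lf 1703952 0 0) (P.cons (P.lf 93231 0 0) P.nil))) (P.cons (P.cons (P.lf 2418147 0 0) (P.cons (P.lf 354243 0 0) P.nil)) (P.cons (P.cons (P.lf 707931 0 0) P.nil) P.nil)))))) 158808)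
 (EL.cons 8 (TM.mk (P.cons (P.cons (P.lf 21925545 0 0) (P.cons (P.lf 0 1059909 0) (P.cons (P.lf 0 57993 0) (P.lf 6444 0 0)))) (P.cons (P.cons (P.lf 42739041 0 0) (P.cons (P.lf 0 3120324 0) (P.cons (P.lf 0 170730 0) (P.lf 18969 0 0)))) (P.cons (P.cons (P.lf 17385369 0 0) (P.cons (P.lf 0 2973576 0) (P.cons (P.lf 0 162699 0) (P.lf 18075 0 0)))) (P.cons (P.cons (P.lf 0 5640876 0) (P.cons (P.lf 0 799608 0) (P.cons (P.lf 0 43749 0) P.nil))) (P.cons (P.cons (P.lf 0 2061018 0) (P.cons (P.lf 137649 0 0) P.nil)) (P.cons (P.cons (P.lf 197724 0 0) P.nil) P.nil)))))) 110856)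
 (EL.cons 11 (TM.mk (P.cons (P.cons (P.lf 300011865 0 0) (P.cons (P.lf 37644279 0 0) (P.cons (P.lf 0 5747307 0) (P.cons (P.lf 0 175578 0) (P.lf 14631 0 0))))) (P.cons (P.cons (P.lf 287990244 0 0) (P.cons (P.lf 36135855 0 0) (P.cons (P.lf 0 5517009 0) (P.cons (P.lf 0 168543 0) (P.lf 14043 0 0))))) (P.cons (P.cons (P.lf 0 17782308 0) (P.cons (P.lf 0 2231250 0) (P.cons (P.lf 340653 0 0) (P.cons (P.lf 10404 0 0) P.nil)))) (P.cons (P.cons (P.lf 0 5514414 0) (P.cons (P.lf 0 691926 0) (P.cons (P.lf 105639 0 0) P.nil))) (P.cons (P.cons (P.lf 303081 0 0) (P.cons (P.lf 38028 0 0) P.nil)) (P.cons (P.cons (P.lf 54024 0 0) P.nil) P.nil)))))) 24135)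
 EL.nil)))
noncomputable def S256_285_364_438_24 : EL := (EL.cons 4 (TM.mk (P.cons (P.cons (P.lf 63792945 0 0) (P.cons (P.lf 0 29368575 0) (P.cons (P.lf 0 336288 0) (P.cons (P.lf 317595 0 0) (P.cons (P.lf 0 11643 0) (P.cons (P.lf 0 843 0) P.nil)))))) (P.cons (P.cons (P.lf 33877593 0 0) (P.cons (P.lf 0 28180122 0) (P.cons (P.lf 856779 0 0) (P.cons (P.lf 433815 0 0) (P.cons (P.lf 0 21984 0) P.nil))))) (P.cons (P.cons (P.lf 0 34787940 0) (P.cons (P.lf 6034599 0 0) (P.cons (P.lf 1252419 0 0) (P.cons (P.lf 64233 0 0) P.nil)))) (P.cons (P.cons (P.lf 0 788817 0) (P.cons (P.lf 4389771 0 0) (P.cons (P.lf 0 21075 0) P.nil))) (P.cons (P.cons (P.lf 3961074 0 0) (P.cons (P.lf 0 667752 0) P.nil)) (P.cons (P.cons (P.lf 0 302151 0) P.nil) P.nil)))))) 735153)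
 (EL.cons 8 (TM.mk (P.cons (P.cons (P.lf 4837092 0 0) (P.cons (P.lf 0 2226867 0) (P.cons (P.lf 0 25497 0) (P.cons (P.lf 24081 0 0) (P.cons (P.lf 0 882 0) (P.cons (P.lf 0 63 0) P.nil)))))) (P.cons (P.cons (P.lf 7444809 0 0) (P.cons (P.lf 0 4381554 0) (P.cons (P.lf 39258 0 0) (P.cons (P.lf 57168 0 0) (P.cons (P.lf 0 2556 0) P.nil))))) (P.cons (P.cons (P.lf 10398 0 0) (P.cons (P.lf 0 1723431 0) (P.cons (P.lf 160143 0 0) (P.cons (P.lf 38319 0 0) P.nil)))) (P.cons (P.cons (P.lf 0 2667543 0) (P.cons (P.lf 758907 0 0) (P.cons (P.lf 94812 0 0) P.nil))) (P.cons (P.cons (P.lf 219096 0 0) (P.cons (P.lf 281391 0 0) P.nil)) (P.cons (P.cons (P.lf 268458 0 0) P.nil) P.nil)))))) 230295)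
 (EL.cons 11 (TM.mk (P.cons (P.cons (P.lf 66186978 0 0) (P.cons (P.lf 0 18966279 0) (P.cons (P.lf 0 6181980 0) (P.cons (P.lf 462261 0 0) (P.cons (P.lf 68574 0 0) (P.cons (P.lf 0 3630 0) P.nil)))))) (P.cons (P.cons (P.lf 36386757 0 0) (P.cons (P.lf 0 20300349 0) (P.cons (P.lf 0 5177712 0) (P.cons (P.lf 435516 0 0) (P.cons (P.lf 61359 0 0) P.nil))))) (P.cons (P.cons (P.lf 0 29403243 0) (P.cons (P.lf 0 188544 0) (P.cons (P.lf 1194099 0 0) (P.cons (P.lf 0 47103 0) P.nil)))) (P.cons (P.cons (P.lf 1872786 0 0) (P.cons (P.lf 1227081 0 0) (P.cons (P.lf 142890 0 0) P.nil))) (P.cons (P.cons (P.lf 1393038 0 0) (P.cons (P.lf 49242 0 0) P.nil)) (P.cons (P.cons (P.lf 0 114687 0) P.nil) P.nil)))))) 216807)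
 EL.nil)))
noncomputable def S256_285_364_438_25 : EL := (EL.cons 4 (TM.mk (P.cons (P.cons (P.lf 32625594 0 0) (P.cons (P.lf 0 1577163 0) (P.cons (P.lf 0 86295 0) (P.lf 9588 0 0)))) (P.cons (P.cons (P.lf 63073089 0 0) (P.cons (P.lf 0 4617801 0) (P.cons (P.lf 0 252666 0) (P.lf 28074 0 0)))) (P.cons (P.cons (P.lf 24592089 0 0) (P.cons (P.lf 0 4337808 0) (P.cons (P.lf 0 237345 0) (P.lf 26370 0 0)))) (P.cons (P.cons (P.lf 0 9306483 0) (P.cons (P.lf 0 1082412 0) (P.cons (P.lf 0 59223 0) P.nil))) (P.cons (P.cons (P.lf 0 3127281 0) (P.cons (P.lf 258195 0 0) P.nil)) (P.cons (P.cons (P.lf 414864 0 0) P.nil) P.nil)))))) 220008)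
 (EL.cons 8 (TM.mk (P.cons (P.cons (P.lf 2473830 0 0) (P.cons (P.lf 0 119586 0) (P.cons (P.lf 0 6543 0) (P.lf 726 0 0)))) (P.cons (P.cons (P.lf 7276263 0 0) (P.cons (P.lf 0 470694 0) (P.cons (P.lf 0 25752 0) (P.lf 2859 0 0)))) (P.cons (P.cons (P.lf 6715755 0 0) (P.cons (P.lf 0 683328 0) (P.cons (P.lf 0 37389 0) (P.lf 4152 0 0)))) (P.cons (P.cons (P.lf 1242405 0 0) (P.cons (P.lf 0 418383 0) (P.cons (P.lf 0 22890 0) P.nil))) (P.cons (P.cons (P.lf 0 905742 0) (P.cons (P.lf 0 68616 0) P.nil)) (P.cons (P.cons (P.lf 0 207960 0) P.nil) P.nil)))))) 80175)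
 (EL.cons 11 (TM.mk (P.cons (P.cons (P.lf 33849972 0 0) (P.cons (P.lf 4247358 0 0) (P.cons (P.lf 0 648459 0) (P.cons (P.lf 0 19809 0) (P.lf 1650 0 0))))) (P.cons (P.cons (P.lf 66073155 0 0) (P.cons (P.lf 8290593 0 0) (P.cons (P.lf 0 1265757 0) (P.cons (P.lf 0 38667 0) (P.lf 3222 0 0))))) (P.cons (P.cons (P.lf 29824212 0 0) (P.cons (P.lf 3742221 0 0) (P.cons (P.lf 0 571338 0) (P.cons (P.lf 0 17454 0) P.nil)))) (P.cons (P.cons (P.lf 0 3130695 0) (P.cons (P.lf 0 392826 0) (P.cons (P.lf 59973 0 0) P.nil))) (P.cons (P.cons (P.lf 0 682101 0) (P.cons (P.lf 0 85587 0) P.nil)) (P.cons (P.cons (P.lf 58242 0 0) P.nil) P.nil)))))) 41664)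
 EL.nil)))
noncomputable def S256_285_364_438_26 : EL := (EL.cons 4 (TM.mk (P.cons (P.cons (P.lf 7197678 0 0) (P.cons (P.lf 0 3313620 0) (P.cons (P.lf 0 37941 0) (P.cons (P.lf 35832 0 0) (P.cons (P.lf 0 1311 0) (P.cons (P.lf 0 93 0) P.nil)))))) (P.cons (P.cons (P.lf 10962549 0 0) (P.cons (P.lf 0 6466677 0) (P.cons (P.lf 59028 0 0) (P.cons (P.lf 84492 0 0) (P.cons (P.lf 0 3783 0) P.nil))))) (P.cons (P.cons (P.lf 0 219033 0) (P.cons (P.lf 0 2433756 0) (P.cons (P.lf 237657 0 0) (P.cons (P.lf 55374 0 0) P.nil)))) (P.cons (P.cons (P.lf 0 4056117 0) (P.cons (P.lf 1221438 0 0) (P.cons (P.lf 136794 0 0) P.nil))) (P.cons (P.cons (P.lf 391197 0 0) (P.cons (P.lf 419913 0 0) P.nil)) (P.cons (P.cons (P.lf 425907 0 0) P.nil) P.nil)))))) 364926)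
 (EL.cons 8 (TM.mk (P.cons (P.cons (P.lf 545763 0 0) (P.cons (P.lf 0 251253 0) (P.cons (P.lf 0 2877 0) (P.cons (P.lf 2715 0 0) (P.cons (P.lf 0 99 0) (P.cons (P.lf 0 6 0) P.nil)))))) (P.cons (P.cons (P.lf 1381392 0 0) (P.cons (P.lf 0 743613 0) (P.cons (P.lf 1575 0 0) (P.cons (P.lf 9144 0 0) (P.cons (P.lf 0 387 0) P.nil))))) (P.cons (P.cons (P.lf 827946 0 0) (P.cons (P.lf 0 681873 0) (P.cons (P.lf 22497 0 0) (P.cons (P.lf 10689 0 0) P.nil)))) (P.cons (P.cons (P.lf 0 311931 0) (P.cons (P.lf 0 100407 0) (P.cons (P.lf 28578 0 0) P.nil))) (P.cons (P.cons (P.lf 0 277068 0) (P.cons (P.lf 120900 0 0) P.nil)) (P.cons (P.cons (P.lf 58467 0 0) P.nil) P.nil)))))) 138153)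
 (EL.cons 11 (TM.mk (P.cons (P.cons (P.lf 7467795 0 0) (P.cons (P.lf 0 2139942 0) (P.cons (P.lf 0 697503 0) (P.cons (P.lf 52155 0 0) (P.cons (P.lf 7737 0 0) (P.cons (P.lf 0 408 0) P.nil)))))) (P.cons (P.cons (P.lf 11513613 0 0) (P.cons (P.lf 0 4413309 0) (P.cons (P.lf 0 1276128 0) (P.cons (P.lf 100878 0 0) (P.cons (P.lf 14598 0 0) P.nil))))) (P.cons (P.cons (P.lf 666138 0 0) (P.cons (P.lf 0 2267934 0) (P.cons (P.lf 0 436485 0) (P.cons (P.lf 42807 0 0) P.nil)))) (P.cons (P.cons (P.lf 0 3157533 0) (P.cons (P.lf 152919 0 0) (P.cons (P.lf 159432 0 0) P.nil))) (P.cons (P.cons (P.lf 391041 0 0) (P.cons (P.lf 151842 0 0) P.nil)) (P.cons (P.cons (P.lf 153720 0 0) P.nil) P.nil)))))) 152499)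
 EL.nil)))
noncomputable def S256_285_364_438_27 : EL := (EL.cons 13 (TM.mk (P.lf 0 4294967296 0) 0)
 EL.nil)
noncomputable def S256_285_364_438_28 : EL := (EL.cons 13 (TM.mk (P.cons (P.cons (P.lf 0 947532223 0) (P.cons (P.lf 390413656 0 0) (P.cons (P.lf 21361864 0 0) (P.lf 0 2373540 0)))) (P.cons (P.cons (P.lf 388651635 0 0) (P.cons (P.lf 0 18787944 0) (P.cons (P.lf 0 1028000 0) (P.lf 114220 0 0)))) (P.cons (P.cons (P.lf 0 8303732 0) (P.cons (P.lf 0 8942508 0) (P.cons (P.lf 0 489296 0) (P.lf 54364 0 0)))) (P.cons (P.cons (P.lf 0 13219924 0) (P.cons (P.lf 443836 0 0) (P.cons (P.lf 24280 0 0) P.nil))) (P.cons (P.cons (P.lf 356188 0 0) (P.cons (P.lf 101532 0 0) P.nil)) (P.cons (P.cons (P.lf 141763 0 0) P.nil) P.nil)))))) 28895)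
 EL.nil)
noncomputable def S256_285_364_438_29 : EL := (EL.cons 13 (TM.mk (P.cons (P.cons (P.lf 0 209039383 0) (P.cons (P.lf 172261856 0 0) (P.cons (P.lf 0 26063228 0) (P.cons (P.lf 0 4930872 0) (P.cons (P.lf 325263 0 0) (P.cons (P.lf 23610 0 0) P.nil)))))) (P.cons (P.cons (P.lf 171484401 0 0) (P.cons (P.lf 0 78946858 0) (P.cons (P.lf 0 903995 0) (P.cons (P.lf 853742 0 0) (P.cons (P.lf 0 31305 0) P.nil))))) (P.cons (P.cons (P.lf 0 38832938 0) (P.cons (P.lf 964170 0 0) (P.cons (P.lf 1596322 0 0) (P.cons (P.lf 163052 0 0) P.nil)))) (P.cons (P.cons (P.lf 0 4330205 0) (P.cons (P.lf 4144989 0 0) (P.cons (P.lf 67868 0 0) P.nil))) (P.cons (P.cons (P.lf 2533648 0 0) (P.cons (P.lf 0 250518 0) P.nil)) (P.cons (P.cons (P.lf 0 53030 0) P.nil) P.nil)))))) 353390)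
 EL.nil)
noncomputable def S256_285_364_438_30 : EL := (EL.cons 13 (TM.mk (P.cons (P.lf 0 484595936 0) (P.cons (P.lf 0 480724804 0) (P.cons (P.lf 5775768 0 0) (P.cons (P.lf 1873960 0 0) (P.cons (P.lf 0 38036 0) (P.cons (P.lf 0 7180 0) P.nil)))))) 280)
 EL.nil)
noncomputable def S256_285_364_438_31 : EL := (EL.cons 13 (TM.mk (P.cons (P.cons (P.lf 0 106908908 0) (P.cons (P.lf 44049897 0 0) (P.cons (P.lf 2410233 0 0) (P.lf 0 267803 0)))) (P.cons (P.cons (P.lf 0 62203788 0) (P.cons (P.lf 41578190 0 0) (P.cons (P.lf 2274991 0 0) (P.lf 0 252777 0)))) (P.cons (P.cons (P.lf 43838110 0 0) (P.cons (P.lf 0 3636878 0) (P.cons (P.lf 0 198995 0) (P.lf 22110 0 0)))) (P.cons (P.cons (P.lf 0 2530230 0) (P.cons (P.lf 0 1095912 0) (P.cons (P.lf 0 59964 0) P.nil))) (P.cons (P.cons (P.lf 0 1606283 0) (P.cons (P.lf 84813 0 0) P.nil)) (P.cons (P.cons (P.lf 79120 0 0) P.nil) P.nil)))))) 59043)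
 EL.nil)
noncomputable def S256_285_364_438_32 : EL := (EL.cons 13 (TM.mk (P.cons (P.cons (P.lf 0 23585659 0) (P.cons (P.lf 19436095 0 0) (P.cons (P.lf 0 2940682 0) (P.cons (P.lf 0 556344 0) (P.cons (P.lf 36699 0 0) (P.cons (P.lf 2663 0 0) P.nil)))))) (P.cons (P.cons (P.lf 0 4048871 0) (P.cons (P.lf 10373354 0 0) (P.cons (P.lf 0 3019187 0) (P.cons (P.lf 0 455573 0) (P.cons (P.lf 32873 0 0) P.nil))))) (P.cons (P.cons (P.lf 15093452 0 0) (P.cons (P.lf 0 8959189 0) (P.cons (P.lf 113978 0 0) (P.cons (P.lf 120585 0 0) P.nil)))) (P.cons (P.cons (P.lf 0 4974445 0) (P.cons (P.lf 606596 0 0) (P.cons (P.lf 198917 0 0) P.nil))) (P.cons (P.cons (P.lf 0 223251 0) (P.cons (P.lf 470347 0 0) P.nil)) (P.cons (P.cons (P.lf 301537 0 0) P.nil) P.nil)))))) 171152)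
 EL.nil)
noncomputable def S256_285_364_438_33 : EL := (EL.cons 14 (TM.mk (P.lf 8589934592 0 0) 0)
 EL.nil)
noncomputable def S256_285_364_438_34 : EL := (EL.cons 14 (TM.mk (P.cons (P.cons (P.lf 1895064446 0 0) (P.cons (P.lf 0 780827312 0) (P.cons (P.lf 0 42723728 0) (P.lf 4747080 0 0)))) (P.cons (P.cons (P.lf 0 777303270 0) (P.cons (P.lf 37575888 0 0) (P.cons (P.lf 2056000 0 0) (P.lf 0 228440 0)))) (P.cons (P.cons (P.lf 16607464 0 0) (P.cons (P.lf 17885016 0 0) (P.cons (P.lf 978592 0 0) (P.lf 0 108728 0)))) (P.cons (P.cons (P.lf 26439848 0 0) (P.cons (P.lf 0 887672 0) (P.cons (P.lf 0 48560 0) P.nil))) (P.cons (P.cons (P.lf 0 712376 0) (P.cons (P.lf 0 203064 0) P.nil)) (P.cons (P.cons (P.lf 0 283526 0) P.nil) P.nil)))))) 57790)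
 EL.nil)
noncomputable def S256_285_364_438_35 : EL := (EL.cons 14 (TM.mk (P.cons (P.cons (P.lf 418078766 0 0) (P.cons (P.lf 0 344523712 0) (P.cons (P.lf 52126456 0 0) (P.cons (P.lf 9861744 0 0) (P.cons (P.lf 0 650526 0) (P.cons (P.lf 0 47220 0) P.nil)))))) (P.cons (P.cons (P.lf 0 342968802 0) (P.cons (P.lf 157893716 0 0) (P.cons (P.lf 1807990 0 0) (P.cons (P.lf 0 1707484 0) (P.cons (P.lf 62610 0 0) P.nil))))) (P.cons (P.cons (P.lf 77665876 0 0) (P.cons (P.lf 0 1928340 0) (P.cons (P.lf 0 3192644 0) (P.cons (P.lf 0 326104 0) P.nil)))) (P.cons (P.cons (P.lf 8660410 0 0) (P.cons (P.lf 0 8289978 0) (P.cons (P.lf 0 135736 0) P.nil))) (P.cons (P.cons (P.lf 0 5067296 0) (P.cons (P.lf 501036 0 0) P.nil)) (P.cons (P.cons (P.lf 106060 0 0) P.nil) P.nil)))))) 706780)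
 EL.nil)
noncomputable def S256_285_364_438_36 : EL := (EL.cons 14 (TM.mk (P.cons (P.lf 969191872 0 0) (P.cons (P.lf 961449608 0 0) (P.cons (P.lf 0 11551536 0) (P.cons (P.lf 0 3747920 0) (P.cons (P.lf 76072 0 0) (P.cons (P.lf 14360 0 0) P.nil)))))) 560)
 EL.nil)
noncomputable def S256_285_364_438_37 : EL := (EL.cons 14 (TM.mk (P.cons (P.cons (P.lf 213817816 0 0) (P.cons (P.lf 0 88099794 0) (P.cons (P.lf 0 4820466 0) (P.lf 535606 0 0)))) (P.cons (P.cons (P.lf 124407576 0 0) (P.cons (P.lf 0 83156380 0) (P.cons (P.lf 0 4549982 0) (P.lf 505554 0 0)))) (P.cons (P.cons (P.lf 0 87676220 0) (P.cons (P.lf 7273756 0 0) (P.cons (P.lf 397990 0 0) (P.lf 0 44220 0)))) (P.cons (P.cons (P.lf 5060460 0 0) (P.cons (P.lf 2191824 0 0) (P.cons (P.lf 119928 0 0) P.nil))) (P.cons (P.cons (P.lf 3212566 0 0) (P.cons (P.lf 0 169626 0) P.nil)) (P.cons (P.cons (P.lf 0 158240 0) P.nil) P.nil))))))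 118086)
 EL.nil)
noncomputable def S256_285_364_438_38 : EL := (EL.cons 14 (TM.mk (P.cons (P.cons (P.lf 47171318 0 0) (P.cons (P.lf 0 38872190 0) (P.cons (P.lf 5881364 0 0) (P.cons (P.lf 1112688 0 0) (P.cons (P.lf 0 73398 0) (P.cons (P.lf 0 5326 0) P.nil)))))) (P.cons (P.cons (P.lf 8097742 0 0) (P.cons (P.lf 0 20746708 0) (P.cons (P.lf 6038374 0 0) (P.cons (P.lf 911146 0 0) (P.cons (P.lf 0 65746 0) P.nil))))) (P.cons (P.cons (P.lf 0 30186904 0) (P.cons (P.lf 17918378 0 0) (P.cons (P.lf 0 227956 0) (P.cons (P.lf 0 241170 0) P.nil)))) (P.cons (P.cons (P.lf 9948890 0 0) (P.cons (P.lf 0 1213192 0) (P.cons (P.lf 0 397834 0) P.nil))) (P.cons (P.cons (P.lf 446502 0 0) (P.cons (P.lf 0 940694 0) P.nil)) (P.cons (P.cons (P.lf 0 603074 0) P.nil) P.nil)))))) 342304)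
 EL.nil)
noncomputable def S256_285_364_438_39 : EL := (EL.cons 14 (TM.mk (P.cons (P.lf 109352740 0 0) (P.cons (P.lf 216958378 0 0) (P.cons (P.lf 105005926 0 0) (P.cons (P.lf 0 3431614 0) (P.cons (P.lf 0 806288 0) (P.cons (P.lf 30348 0 0) P.nil)))))) 5440)
 EL.nil)
noncomputable def S256_285_364_438_40 : EL := (EL.cons 14 (TM.mk (P.cons (P.cons (P.lf 24124804 0 0) (P.cons (P.lf 0 9940192 0) (P.cons (P.lf 0 543886 0) (P.lf 60430 0 0)))) (P.cons (P.cons (P.lf 37968840 0 0) (P.cons (P.lf 0 19243218 0) (P.cons (P.lf 0 1052910 0) (P.lf 116990 0 0)))) (P.cons (P.cons (P.lf 3744686 0 0) (P.cons (P.lf 0 8368318 0) (P.cons (P.lf 0 457880 0) (P.lf 50874 0 0)))) (P.cons (P.cons (P.lf 0 9503002 0) (P.cons (P.lf 1211698 0 0) (P.cons (P.lf 66298 0 0) P.nil))) (P.cons (P.cons (P.lf 994392 0 0) (P.cons (P.lf 251906 0 0) P.nil)) (P.cons (P.cons (P.lf 374628 0 0) P.nil) P.nil)))))) 105762)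
 EL.nil)
noncomputable def S256_285_364_438_41 : EL := (EL.cons 14 (TM.mk (P.cons (P.cons (P.lf 5322282 0 0) (P.cons (P.lf 0 4385902 0) (P.cons (P.lf 663586 0 0) (P.cons (P.lf 125542 0 0) (P.cons (P.lf 0 8280 0) (P.cons (P.lf 0 600 0) P.nil)))))) (P.cons (P.cons (P.lf 6193424 0 0) (P.cons (P.lf 0 6691690 0) (P.cons (P.lf 1339588 0 0) (P.cons (P.lf 227342 0 0) (P.cons (P.lf 0 15632 0) P.nil))))) (P.cons (P.cons (P.lf 0 2563026 0) (P.cons (P.lf 0 248142 0) (P.cons (P.lf 642230 0 0) (P.cons (P.lf 73274 0 0) P.nil)))) (P.cons (P.cons (P.lf 0 2287692 0) (P.cons (P.lf 1913534 0 0) (P.cons (P.lf 0 81088 0) P.nil))) (P.cons (P.cons (P.lf 1201410 0 0) (P.cons (P.lf 0 257314 0) P.nil)) (P.cons (P.cons (P.lf 0 18124 0) P.nil) P.nil)))))) 363600)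
 EL.nil)
noncomputable def S256_285_364_438_42 : EL := (EL.cons 14 (TM.mk (P.cons (P.lf 12338136 0 0) (P.cons (P.lf 36718724 0 0) (P.cons (P.lf 35984236 0 0) (P.cons (P.lf 11026388 0 0) (P.cons (P.lf 0 709966 0) (P.cons (P.lf 0 125918 0) P.nil)))))) 9172)
 EL.nil)
noncomputable def S256_285_364_438_43 : EL := (EL.cons 14 (TM.mk (P.cons (P.cons (P.lf 2721972 0 0) (P.cons (P.lf 0 1121538 0) (P.cons (P.lf 0 61366 0) (P.lf 6818 0 0)))) (P.cons (P.cons (P.lf 6984206 0 0) (P.cons (P.lf 0 3283768 0) (P.cons (P.lf 0 179674 0) (P.lf 19962 0 0)))) (P.cons (P.cons (P.lf 4639820 0 0) (P.cons (P.lf 0 3084664 0) (P.cons (P.lf 0 168780 0) (P.lf 18752 0 0)))) (P.cons (P.cons (P.lf 0 714664 0) (P.cons (P.lf 0 769714 0) (P.cons (P.lf 0 42114 0) P.nil))) (P.cons (P.cons (P.lf 0 972838 0) (P.cons (P.lf 183606 0 0) P.nil)) (P.cons (P.cons (P.lf 165090 0 0) P.nil) P.nil)))))) 129388)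
 EL.nil)
noncomputable def S256_285_364_438_44 : EL := (EL.cons 14 (TM.mk (P.cons (P.cons (P.lf 600506 0 0) (P.cons (P.lf 0 494854 0) (P.cons (P.lf 74870 0 0) (P.cons (P.lf 14164 0 0) (P.cons (P.lf 0 934 0) (P.cons (P.lf 0 66 0) P.nil)))))) (P.cons (P.cons (P.lf 1294506 0 0) (P.cons (P.lf 0 1245918 0) (P.cons (P.lf 225416 0 0) (P.cons (P.lf 39702 0 0) (P.cons (P.lf 0 2690 0) P.nil))))) (P.cons (P.cons (P.lf 396872 0 0) (P.cons (P.lf 0 771082 0) (P.cons (P.lf 221506 0 0) (P.cons (P.lf 33544 0 0) P.nil)))) (P.cons (P.cons (P.lf 0 555640 0) (P.cons (P.lf 199040 0 0) (P.cons (P.lf 60642 0 0) P.nil))) (P.cons (P.cons (P.lf 0 119710 0) (P.cons (P.lf 188358 0 0) P.nil)) (P.cons (P.cons (P.lf 136684 0 0) P.nil) P.nil)))))) 195284)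
 EL.nil)
noncomputable def S256_285_364_438_45 : EL := (EL.cons 14 (TM.mk (P.cons (P.cons (P.lf 92234252 0 0) (P.cons (P.lf 0 114010408 0) (P.cons (P.lf 40737752 0 0) (P.cons (P.lf 0 618064 0) (P.cons (P.lf 0 1489606 0) (P.cons (P.lf 28472 0 0) P.nil)))))) (P.cons (P.cons (P.lf 0 113495854 0) (P.cons (P.lf 99014404 0 0) (P.cons (P.lf 0 18371832 0) (P.cons (P.lf 0 2273840 0) (P.cons (P.lf 370932 0 0) P.nil))))) (P.cons (P.cons (P.lf 48977768 0 0) (P.cons (P.lf 0 23068970 0) (P.cons (P.lf 0 1039266 0) (P.cons (P.lf 563168 0 0) P.nil)))) (P.cons (P.cons (P.lf 0 4493608 0) (P.cons (P.lf 0 3614360 0) (P.cons (P.lf 1466454 0 0) P.nil))) (P.cons (P.cons (P.lf 0 2841774 0) (P.cons (P.lf 2057304 0 0) P.nil)) (P.cons (P.cons (P.lf 752380 0 0) P.nil) P.nil)))))) 1182886)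
 EL.nil)
noncomputable def S256_285_364_438_46 : EL := (EL.cons 15 (TM.mk (P.lf 4294967296 0 0) 0)
 EL.nil)
noncomputable def S256_285_364_438_47 : EL := (EL.cons 15 (TM.mk (P.cons (P.cons (P.lf 947532223 0 0) (P.cons (P.lf 0 390413656 0) (P.cons (P.lf 0 21361864 0) (P.lf 2373540 0 0)))) (P.cons (P.cons (P.lf 0 388651635 0) (P.cons (P.lf 18787944 0 0) (P.cons (P.lf 1028000 0 0) (P.lf 0 114220 0)))) (P.cons (P.cons (P.lf 8303732 0 0) (P.cons (P.lf 8942508 0 0) (P.cons (P.lf 489296 0 0) (P.lf 0 54364 0)))) (P.cons (P.cons (P.lf 13219924 0 0) (P.cons (P.lf 0 443836 0) (P.cons (P.lf 0 24280 0) P.nil))) (P.cons (P.cons (P.lf 0 356188 0) (P.cons (P.lf 0 101532 0) P.nil)) (P.cons (P.cons (P.lf 0 141763 0) P.nil) P.nil)))))) 28895)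
 EL.nil)
noncomputable def S256_285_364_438_48 : EL := (EL.cons 15 (TM.mk (P.cons (P.cons (P.lf 209039383 0 0) (P.cons (P.lf 0 172261856 0) (P.cons (P.lf 26063228 0 0) (P.cons (P.lf 4930872 0 0) (P.cons (P.lf 0 325263 0) (P.cons (P.lf 0 23610 0) P.nil)))))) (P.cons (P.cons (P.lf 0 171484401 0) (P.cons (P.lf 78946858 0 0) (P.cons (P.lf 903995 0 0) (P.cons (P.lf 0 853742 0) (P.cons (P.lf 31305 0 0) P.nil))))) (P.cons (P.cons (P.lf 38832938 0 0) (P.cons (P.lf 0 964170 0) (P.cons (P.lf 0 1596322 0) (P.cons (P.lf 0 163052 0) P.nil)))) (P.cons (P.cons (P.lf 4330205 0 0) (P.cons (P.lf 0 4144989 0) (P.cons (P.lf 0 67868 0) P.nil))) (P.cons (P.cons (P.lf 0 2533648 0) (P.cons (P.lf 250518 0 0) P.nil)) (P.cons (P.cons (P.lf 53030 0 0) P.nil) P.nil)))))) 353390)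
 EL.nil)
noncomputable def S256_285_364_438 : SL := (SL.cons S256_285_364_438_0 (SL.cons S256_285_364_438_1 (SL.cons S256_285_364_438_2 (SL.cons S256_285_364_438_3 (SL.cons S256_285_364_438_4 (SL.cons S256_285_364_438_5 (SL.cons S256_285_364_438_6 (SL.cons S256_285_364_438_7 (SL.cons S256_285_364_438_8 (SL.cons S256_285_364_438_9 (SL.cons S256_285_364_438_10 (SL.cons S256_285_364_438_11 (SL.cons S256_285_364_438_12 (SL.cons S256_285_364_438_13 (SL.cons S256_285_364_438_14 (SL.cons S256_285_364_438_15 (SL.cons S256_285_364_438_16 (SL.cons S256_285_364_438_17 (SL.cons S256_285_364_438_18 (SL.cons S256_285_364_438_19 (SL.cons S256_285_364_438_20 (SL.cons S256_285_364_438_21 (SL.cons S256_285_364_438_22 (SL.cons S256_285_364_438_23 (SL.cons S256_285_364_438_24 (SL.cons S256_285_364_438_25 (SL.cons S256_285_364_438_26 (SL.cons S256_285_364_438_27 (SL.cons S256_285_364_438_28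 (SL.cons S256_285_364_438_29 (SL.cons S256_285_364_438_30 (SL.cons S256_285_364_438_31 (SL.cons S256_285_364_438_32 (SL.cons S256_285_364_438_33 (SL.cons S256_285_364_438_34 (SL.cons S256_285_364_438_35 (SL.cons S256_285_364_438_36 (SL.cons S256_285_364_438_37 (SL.cons S256_285_364_438_38 (SL.cons S256_285_364_438_39 (SL.cons S256_285_364_438_40 (SL.cons S256_285_364_438_41 (SL.cons S256_285_364_438_42 (SL.cons S256_285_364_438_43 (SL.cons S256_285_364_438_44 (SL.cons S256_285_364_438_45 (SL.cons S256_285_364_438_46 (SL.cons S256_285_364_438_47 (SL.cons S256_285_364_438_48 SL.nil)))))))))))))))))))))))))))))))))))))))))))))))))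
noncomputable def S256_285_364_512_0 : EL := (EL.cons 0 (TM.mk (P.cons (P.lf 8359606057 0 0) (P.cons (P.lf 0 190686074 0) (P.cons (P.lf 0 92290364 0) (P.cons (P.lf 3016066 0 0) (P.cons (P.lf 708651 0 0) (P.cons (P.lf 0 26673 0) P.nil)))))) 4788)
 (EL.cons 1 (TM.mk (P.cons (P.lf 450679505 0 0) (P.cons (P.lf 439849933 0 0) (P.cons (P.lf 0 16100088 0) (P.cons (P.lf 0 5127871 0) (P.cons (P.lf 176304 0 0) (P.cons (P.lf 32482 0 0) P.nil)))))) 1651)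
 (EL.cons 5 (TM.mk (P.cons (P.lf 4329140030 0 0) (P.cons (P.lf 67799490 0 0) (P.cons (P.lf 32814348 0 0) (P.cons (P.lf 0 1072376 0) (P.cons (P.lf 0 251962 0) (P.cons (P.lf 9484 0 0) P.nil)))))) 1837)
 (EL.cons 9 (TM.mk (P.lf 6442450944 0 0) 2)
 EL.nil))))
noncomputable def S256_285_364_512_1 : EL := (EL.cons 0 (TM.mk (P.cons (P.cons (P.lf 532710710 0 0) (P.cons (P.lf 0 1601175368 0) (P.cons (P.lf 0 107050853 0) (P.lf 35683620 0 0)))) (P.cons (P.cons (P.lf 0 1199109540 0) (P.cons (P.lf 228366478 0 0) (P.cons (P.lf 15268040 0 0) (P.lf 0 5089337 0)))) (P.cons (P.cons (P.lf 153467578 0 0) (P.cons (P.lf 102627675 0 0) (P.cons (P.lf 6861440 0 0) (P.lf 0 2287137 0)))) (P.cons (P.cons (P.lf 85102285 0 0) (P.cons (P.lf 0 11203677 0) (P.cons (P.lf 0 749037 0) P.nil))) (P.cons (P.cons (P.lf 0 7247550 0) (P.cons (P.lf 0 2368978 0) P.nil)) (P.cons (P.cons (P.lf 0 1816448 0) P.nil)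 P.nil)))))) 1046496)
 (EL.cons 1 (TM.mk (P.cons (P.cons (P.lf 1243689992 0 0) (P.cons (P.lf 0 221345390 0) (P.cons (P.lf 0 14798632 0) (P.lf 4932877 0 0)))) (P.cons (P.cons (P.lf 0 165340251 0) (P.cons (P.lf 0 201002690 0) (P.cons (P.lf 0 13438569 0) (P.lf 4479519 0 0)))) (P.cons (P.cons (P.lf 0 187911675 0) (P.cons (P.lf 29686086 0 0) (P.cons (P.lf 1984732 0 0) (P.lf 0 661573 0)))) (P.cons (P.cons (P.lf 20703985 0 0) (P.cons (P.lf 8537412 0 0) (P.cons (P.lf 570787 0 0) P.nil))) (P.cons (P.cons (P.lf 7048813 0 0) (P.cons (P.lf 0 980465 0) P.nil)) (P.cons (P.cons (P.lf 0 624591 0) P.nil) P.nil)))))) 748573)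
 (EL.cons 5 (TM.mk (P.cons (P.cons (P.lf 725413160 0 0) (P.cons (P.lf 0 879150218 0) (P.cons (P.lf 0 58777936 0) (P.lf 19592644 0 0)))) (P.cons (P.cons (P.lf 0 200864802 0) (P.cons (P.lf 0 11492614 0) (P.cons (P.lf 0 768366 0) (P.lf 256120 0 0)))) (P.cons (P.cons (P.lf 0 24508256 0) (P.cons (P.lf 0 3312616 0) (P.cons (P.lf 0 221466 0) (P.lf 73818 0 0)))) (P.cons (P.cons (P.lf 0 8575922 0) (P.cons (P.lf 2336862 0 0) (P.cons (P.lf 156230 0 0) P.nil))) (P.cons (P.cons (P.lf 1790378 0 0) (P.cons (P.lf 465606 0 0) P.nil)) (P.cons (P.cons (P.lf 414663 0 0) P.nil) P.nil)))))) 543025)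
 (EL.cons 9 (TM.mk (P.cons (P.cons (P.lf 807195358 0 0) (P.cons (P.lf 0 1278050304 0) (P.cons (P.lf 0 85447464 0) (P.lf 28482486 0 0)))) (P.cons (P.cons (P.lf 0 553424866 0) (P.cons (P.lf 61503834 0 0) (P.cons (P.lf 4111998 0 0) (P.lf 0 1370664 0)))) (P.cons (P.cons (P.lf 26521758 0 0) (P.cons (P.lf 29274012 0 0) (P.cons (P.lf 1957188 0 0) (P.lf 0 652392 0)))) (P.cons (P.cons (P.lf 19131756 0 0) (P.cons (P.lf 0 1452930 0) (P.cons (P.lf 0 97134 0) P.nil))) (P.cons (P.cons (P.lf 0 693990 0) (P.cons (P.lf 0 332370 0) P.nil)) (P.cons (P.cons (P.lf 0 203980 0) P.nil) P.nil)))))) 105281)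
 (EL.cons 2 (TM.mk (P.cons (P.cons (P.lf 0 311013646 0) (P.cons (P.lf 0 48152722 0) (P.cons (P.lf 23198461 0 0) (P.cons (P.lf 877896 0 0) (P.lf 0 219473 0))))) (P.cons (P.cons (P.lf 0 298551178 0) (P.cons (P.lf 0 46223218 0) (P.cons (P.lf 22268888 0 0) (P.cons (P.lf 842717 0 0) (P.lf 0 210678 0))))) (P.cons (P.cons (P.lf 18434407 0 0) (P.cons (P.lf 2854108 0 0) (P.cons (P.lf 0 1375017 0) (P.cons (P.lf 0 52034 0) P.nil)))) (P.cons (P.cons (P.lf 5716634 0 0) (P.cons (P.lf 885076 0 0) (P.cons (P.lf 0 426400 0) P.nil))) (P.cons (P.cons (P.lf 0 314192 0) (P.cons (P.lf 0 48645 0) P.nil)) (P.cons (P.cons (P.lf 0 56005 0) P.nil) P.nil)))))) 79583)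
 (EL.cons 6 (TM.mk (P.cons (P.cons (P.lf 1458394554 0 0) (P.cons (P.lf 225796098 0 0) (P.cons (P.lf 0 108781437 0) (P.cons (P.lf 0 4116609 0) (P.lf 1029150 0 0))))) (P.cons (P.cons (P.lf 0 70182579 0) (P.cons (P.lf 0 10866024 0) (P.cons (P.lf 5234907 0 0) (P.cons (P.lf 198102 0 0) (P.lf 0 49524 0))))) (P.cons (P.cons (P.lf 0 33404838 0) (P.cons (P.lf 0 5171907 0) (P.cons (P.lf 2491662 0 0) (P.cons (P.lf 94290 0 0) P.nil)))) (P.cons (P.cons (P.lf 1657956 0 0) (P.cons (P.lf 256692 0 0) (P.cons (P.lf 0 123666 0) P.nil))) (P.cons (P.cons (P.lf 379275 0 0) (P.cons (P.lf 58719 0 0) P.nil)) (P.cons (P.cons (P.lf 0 20574 0) P.nil) P.nil)))))) 72672)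
 EL.nil))))))
noncomputable def S256_285_364_512_2 : EL := (EL.cons 0 (TM.mk (P.cons (P.cons (P.lf 2257730 0 0) (P.cons (P.lf 0 197024432 0) (P.cons (P.lf 293120643 0 0) (P.cons (P.lf 45346971 0 0) (P.cons (P.lf 0 12282921 0) (P.cons (P.lf 0 912746 0) P.nil)))))) (P.cons (P.cons (P.lf 0 209060222 0) (P.cons (P.lf 503849524 0 0) (P.cons (P.lf 0 48323788 0) (P.cons (P.lf 0 22194720 0) (P.cons (P.lf 3288746 0 0) P.nil))))) (P.cons (P.cons (P.lf 175889107 0 0) (P.cons (P.lf 0 85430078 0) (P.cons (P.lf 0 39402124 0) (P.cons (P.lf 0 2601037 0) P.nil)))) (P.cons (P.cons (P.lf 0 12488417 0) (P.cons (P.lf 0 50741449 0) (P.cons (P.lf 3541833 0 0) P.nil))) (P.cons (P.cons (P.lf 0 17224095 0) (P.cons (P.lf 8257489 0 0) P.nil)) (P.cons (P.cons (P.lf 2228482 0 0) P.nil) P.nil)))))) 13049580)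
 (EL.cons 1 (TM.mk (P.cons (P.cons (P.lf 304576879 0 0) (P.cons (P.lf 0 526507561 0) (P.cons (P.lf 34883474 0 0) (P.cons (P.lf 21105062 0 0) (P.cons (P.lf 0 2810517 0) (P.cons (P.lf 0 208849 0) P.nil)))))) (P.cons (P.cons (P.lf 0 252308602 0) (P.cons (P.lf 82433181 0 0) (P.cons (P.lf 65431709 0 0) (P.cons (P.lf 6175177 0 0) (P.cons (P.lf 0 2402920 0) P.nil))))) (P.cons (P.cons (P.lf 0 2511499 0) (P.cons (P.lf 106969391 0 0) (P.cons (P.lf 0 7404785 0) (P.cons (P.lf 0 4330323 0) P.nil)))) (P.cons (P.cons (P.lf 39515508 0 0) (P.cons (P.lf 0 17652103 0) (P.cons (P.lf 0 4913217 0) P.nil))) (P.cons (P.cons (P.lf 0 4347308 0) (P.cons (P.lf 0 5836973 0) P.nil)) (P.cons (P.cons (P.lf 0 2096210 0) P.nil) P.nil)))))) 5898165)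
 (EL.cons 5 (TM.mk (P.cons (P.cons (P.lf 113818150 0 0) (P.cons (P.lf 0 292910521 0) (P.cons (P.lf 158856612 0 0) (P.cons (P.lf 30387924 0 0) (P.cons (P.lf 0 7155764 0) (P.cons (P.lf 0 531736 0) P.nil)))))) (P.cons (P.cons (P.lf 0 82839009 0) (P.cons (P.lf 87173633 0 0) (P.cons (P.lf 7331493 0 0) (P.cons (P.lf 0 1741742 0) (P.cons (P.lf 0 60274 0) P.nil))))) (P.cons (P.cons (P.lf 0 1126668 0) (P.cons (P.lf 14787511 0 0) (P.cons (P.lf 469563 0 0) (P.cons (P.lf 0 398980 0) P.nil)))) (P.cons (P.cons (P.lf 4709566 0 0) (P.cons (P.lf 3899842 0 0) (P.cons (P.lf 0 917987 0) P.nil))) (P.cons (P.cons (P.lf 2325562 0 0) (P.cons (P.lf 0 1748259 0) P.nil)) (P.cons (P.cons (P.lf 0 536622 0) P.nil) P.nil)))))) 6724748)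
 (EL.cons 9 (TM.mk (P.cons (P.cons (P.lf 101136096 0 0) (P.cons (P.lf 0 320262049 0) (P.cons (P.lf 232127026 0 0) (P.cons (P.lf 41039376 0 0) (P.cons (P.lf 0 10167376 0) (P.cons (P.lf 0 755536 0) P.nil)))))) (P.cons (P.cons (P.lf 0 138680755 0) (P.cons (P.lf 234988339 0 0) (P.cons (P.lf 0 8691429 0) (P.cons (P.lf 0 8499868 0) (P.cons (P.lf 978571 0 0) P.nil))))) (P.cons (P.cons (P.lf 54186762 0 0) (P.cons (P.lf 0 13753785 0) (P.cons (P.lf 0 11947119 0) (P.cons (P.lf 0 1168038 0) P.nil)))) (P.cons (P.cons (P.lf 237568 0 0) (P.cons (P.lf 0 12477834 0) (P.cons (P.lf 301162 0 0) P.nil))) (P.cons (P.cons (P.lf 0 3351666 0) (P.cons (P.lf 1047994 0 0) P.nil)) (P.cons (P.cons (P.lf 225636 0 0) P.nil) P.nil)))))) 2385508)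
 (EL.cons 2 (TM.mk (P.cons (P.cons (P.lf 0 77935792 0) (P.cons (P.lf 111331051 0 0) (P.cons (P.lf 33168313 0 0) (P.cons (P.lf 0 10456914 0) (P.cons (P.lf 0 1444449 0) (P.cons (P.lf 268914 0 0) P.nil)))))) (P.cons (P.cons (P.lf 0 21378954 0) (P.cons (P.lf 109204593 0 0) (P.cons (P.lf 26537197 0 0) (P.cons (P.lf 0 9674921 0) (P.cons (P.lf 0 1281999 0) P.nil))))) (P.cons (P.cons (P.lf 53351488 0 0) (P.cons (P.lf 0 7580638 0) (P.cons (P.lf 0 7491105 0) (P.cons (P.lf 1220017 0 0) P.nil)))) (P.cons (P.cons (P.lf 0 6039922 0) (P.cons (P.lf 0 5424187 0) (P.cons (P.lf 0 544623 0) P.nil))) (P.cons (P.cons (P.lf 0 2615276 0) (P.cons (P.lf 163175 0 0) P.nil)) (P.cons (P.cons (P.lf 280513 0 0) P.nil) P.nil)))))) 2046593)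
 (EL.cons 6 (TM.mk (P.cons (P.cons (P.lf 365453868 0 0) (P.cons (P.lf 0 522049770 0) (P.cons (P.lf 0 155531724 0) (P.cons (P.lf 49034202 0 0) (P.cons (P.lf 6773286 0 0) (P.cons (P.lf 0 1260984 0) P.nil)))))) (P.cons (P.cons (P.lf 0 268147278 0) (P.cons (P.lf 14175204 0 0) (P.cons (P.lf 32346828 0 0) (P.cons (P.lf 0 4061742 0) (P.cons (P.lf 0 816300 0) P.nil))))) (P.cons (P.cons (P.lf 15694566 0 0) (P.cons (P.lf 27597234 0 0) (P.cons (P.lf 4408500 0 0) (P.cons (P.lf 0 2221884 0) P.nil)))) (P.cons (P.cons (P.lf 14238564 0 0) (P.cons (P.lf 0 386748 0) (P.cons (P.lf 0 1636476 0) P.nil))) (P.cons (P.cons (P.lf 0 1195872 0) (P.cons (P.lf 0 726372 0) P.nil)) (P.cons (P.cons (P.lf 0 332298 0) P.nil) P.nil)))))) 1506006)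
 EL.nil))))))
noncomputable def S256_285_364_512_3 : EL := (EL.cons 0 (TM.mk (P.cons (P.lf 96110806 0 0) (P.cons (P.lf 190686074 0 0) (P.cons (P.lf 92290364 0 0) (P.cons (P.lf 0 3016066 0) (P.cons (P.lf 0 708651 0) (P.cons (P.lf 26673 0 0) P.nil)))))) 4788)
 (EL.cons 1 (TM.mk (P.cons (P.lf 0 450679505 0) (P.cons (P.lf 0 439849933 0) (P.cons (P.lf 16100088 0 0) (P.cons (P.lf 5127871 0 0) (P.cons (P.lf 0 176304 0) (P.cons (P.lf 0 32482 0) P.nil)))))) 1651)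
 (EL.cons 5 (TM.mk (P.cons (P.lf 2113310914 0 0) (P.cons (P.lf 0 67799490 0) (P.cons (P.lf 0 32814348 0) (P.cons (P.lf 1072376 0 0) (P.cons (P.lf 251962 0 0) (P.cons (P.lf 0 9484 0) P.nil)))))) 1830)
 EL.nil)))
noncomputable def S256_285_364_512_4 : EL := (EL.cons 0 (TM.mk (P.cons (P.cons (P.lf 12042029 0 0) (P.cons (P.lf 0 19066413 0) (P.cons (P.lf 0 1274735 0) (P.lf 424910 0 0)))) (P.cons (P.cons (P.lf 15635478 0 0) (P.cons (P.lf 0 36910673 0) (P.cons (P.lf 0 2467761 0) (P.lf 822585 0 0)))) (P.cons (P.cons (P.lf 0 4421457 0) (P.cons (P.lf 0 16051383 0) (P.cons (P.lf 0 1073156 0) (P.lf 357718 0 0)))) (P.cons (P.cons (P.lf 0 7235481 0) (P.cons (P.lf 2324176 0 0) (P.cons (P.lf 155388 0 0) P.nil))) (P.cons (P.cons (P.lf 1106147 0 0) (P.cons (P.lf 483185 0 0) P.nil)) (P.cons (P.cons (P.lf 302285 0 0) P.nil) P.nil)))))) 221853)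
 (EL.cons 1 (TM.mk (P.cons (P.cons (P.lf 0 56467080 0) (P.cons (P.lf 89405581 0 0) (P.cons (P.lf 5977447 0 0) (P.lf 0 1992481 0)))) (P.cons (P.cons (P.lf 0 16395556 0) (P.cons (P.lf 82954736 0 0) (P.cons (P.lf 5546160 0 0) (P.lf 0 1848718 0)))) (P.cons (P.cons (P.lf 37946270 0 0) (P.cons (P.lf 0 9440874 0) (P.cons (P.lf 0 631192 0) (P.lf 210397 0 0)))) (P.cons (P.cons (P.lf 0 3889648 0) (P.cons (P.lf 0 2760568 0) (P.cons (P.lf 0 184563 0) P.nil))) (P.cons (P.cons (P.lf 0 1653954 0) (P.cons (P.lf 279534 0 0) P.nil)) (P.cons (P.cons (P.lf 141645 0 0) P.nil) P.nil)))))) 209720)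
 (EL.cons 5 (TM.mk (P.cons (P.cons (P.lf 264783506 0 0) (P.cons (P.lf 0 419237596 0) (P.cons (P.lf 0 28029248 0) (P.lf 9343082 0 0)))) (P.cons (P.cons (P.lf 0 190034236 0) (P.cons (P.lf 33625072 0 0) (P.cons (P.lf 2248092 0 0) (P.lf 0 749362 0)))) (P.cons (P.cons (P.lf 10412660 0 0) (P.cons (P.lf 15465160 0 0) (P.cons (P.lf 1033962 0 0) (P.lf 0 344652 0)))) (P.cons (P.cons (P.lf 8949866 0 0) (P.cons (P.lf 0 1310682 0) (P.cons (P.lf 0 87626 0) P.nil))) (P.cons (P.cons (P.lf 0 624626 0) (P.cons (P.lf 0 282588 0) P.nil)) (P.cons (P.cons (P.lf 0 175472 0) P.nil) P.nil)))))) 112976)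
 EL.nil)))
noncomputable def S256_285_364_512_5 : EL := (EL.cons 0 (TM.mk (P.cons (P.cons (P.lf 1508783 0 0) (P.cons (P.lf 0 4777783 0) (P.cons (P.lf 3462953 0 0) (P.cons (P.lf 612239 0 0) (P.cons (P.lf 0 151679 0) (P.cons (P.lf 0 11271 0) P.nil)))))) (P.cons (P.cons (P.lf 924574 0 0) (P.cons (P.lf 0 5973593 0) (P.cons (P.lf 6740919 0 0) (P.cons (P.lf 1087894 0 0) (P.cons (P.lf 0 286338 0) P.nil))))) (P.cons (P.cons (P.lf 0 1847536 0) (P.cons (P.lf 2162221 0 0) (P.cons (P.lf 2889815 0 0) (P.cons (P.lf 318895 0 0) P.nil)))) (P.cons (P.cons (P.lf 0 426612 0) (P.cons (P.lf 2922983 0 0) (P.cons (P.lf 0 582300 0) P.nil))) (P.cons (P.cons (P.lf 787072 0 0) (P.cons (P.lf 0 625500 0) P.nil)) (P.cons (P.cons (P.lf 0 102128 0) P.nil) P.nil)))))) 1132830)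
 (EL.cons 1 (TM.mk (P.cons (P.cons (P.lf 0 7074941 0) (P.cons (P.lf 22403823 0 0) (P.cons (P.lf 0 16238366 0) (P.cons (P.lf 0 2870895 0) (P.cons (P.lf 711253 0 0) (P.cons (P.lf 52852 0 0) P.nil)))))) (P.cons (P.cons (P.lf 2796429 0 0) (P.cons (P.lf 5426941 0 0) (P.cons (P.lf 0 15240163 0) (P.cons (P.lf 0 2207302 0) (P.cons (P.lf 625708 0 0) P.nil))))) (P.cons (P.cons (P.lf 5930375 0 0) (P.cons (P.lf 0 15881733 0) (P.cons (P.lf 2009251 0 0) (P.cons (P.lf 764585 0 0) P.nil)))) (P.cons (P.cons (P.lf 0 3982220 0) (P.cons (P.lf 2144240 0 0) (P.cons (P.lf 957646 0 0) P.nil))) (P.cons (P.cons (P.lf 240508 0 0) (P.cons (P.lf 940025 0 0) P.nil)) (P.cons (P.cons (P.lf 260055 0 0) P.nil) P.nil)))))) 883154)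
 (EL.cons 5 (TM.mk (P.cons (P.cons (P.lf 33175574 0 0) (P.cons (P.lf 0 105055248 0) (P.cons (P.lf 76144402 0 0) (P.cons (P.lf 13462104 0 0) (P.cons (P.lf 0 3335192 0) (P.cons (P.lf 0 247836 0) P.nil)))))) (P.cons (P.cons (P.lf 0 46555654 0) (P.cons (P.lf 80453390 0 0) (P.cons (P.lf 0 5293914 0) (P.cons (P.lf 0 3220094 0) (P.cons (P.lf 427998 0 0) P.nil))))) (P.cons (P.cons (P.lf 18719154 0 0) (P.cons (P.lf 0 5353384 0) (P.cons (P.lf 0 5009862 0) (P.cons (P.lf 0 502730 0) P.nil)))) (P.cons (P.cons (P.lf 230874 0 0) (P.cons (P.lf 0 5198560 0) (P.cons (P.lf 307426 0 0) P.nil))) (P.cons (P.cons (P.lf 0 1397068 0) (P.cons (P.lf 571730 0 0) P.nil)) (P.cons (P.cons (P.lf 111522 0 0) P.nil) P.nil)))))) 1178716)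
 EL.nil)))
noncomputable def S256_285_364_512_6 : EL := (EL.cons 12 (TM.mk (P.lf 8589934592 0 0) 0)
 (EL.cons 3 (TM.mk (P.cons (P.lf 454308690 0 0) (P.cons (P.lf 450679503 0 0) (P.cons (P.lf 0 5414782 0) (P.cons (P.lf 0 1756837 0) (P.cons (P.lf 35658 0 0) (P.cons (P.lf 6731 0 0) P.nil)))))) 269)
 (EL.cons 7 (TM.mk (P.cons (P.lf 0 2130328762 0) (P.cons (P.lf 34172730 0 0) (P.cons (P.lf 16813380 0 0) (P.cons (P.lf 0 270802 0) (P.cons (P.lf 0 64991 0) (P.cons (P.lf 1601 0 0) P.nil)))))) 330)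
 EL.nil)))
noncomputable def S256_285_364_512_7 : EL := (EL.cons 12 (TM.mk (P.cons (P.cons (P.lf 1076260478 0 0) (P.cons (P.lf 0 1704067072 0) (P.cons (P.lf 0 113929952 0) (P.lf 37976648 0 0)))) (P.cons (P.cons (P.lf 0 737899822 0) (P.cons (P.lf 82005112 0 0) (P.cons (P.lf 5482664 0 0) (P.lf 0 1827552 0)))) (P.cons (P.cons (P.lf 35362344 0 0) (P.cons (P.lf 39032016 0 0) (P.cons (P.lf 2609584 0 0) (P.lf 0 869856 0)))) (P.cons (P.cons (P.lf 25509008 0 0) (P.cons (P.lf 0 1937240 0) (P.cons (P.lf 0 129512 0) P.nil))) (P.cons (P.cons (P.lf 0 925320 0) (P.cons (P.lf 0 443160 0) P.nil)) (P.cons (P.cons (P.lf 0 271974 0) P.nil) P.nil)))))) 140350)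
 (EL.cons 3 (TM.mk (P.cons (P.cons (P.lf 0 2375985396 0) (P.cons (P.lf 180251074 0 0) (P.cons (P.lf 12051164 0 0) (P.lf 0 4017054 0)))) (P.cons (P.cons (P.lf 270216370 0 0) (P.cons (P.lf 170136908 0 0) (P.cons (P.lf 11374956 0 0) (P.lf 0 3791650 0)))) (P.cons (P.cons (P.lf 222710228 0 0) (P.cons (P.lf 0 14882010 0) (P.cons (P.lf 0 994974 0) (P.lf 331656 0 0)))) (P.cons (P.cons (P.lf 0 11724660 0) (P.cons (P.lf 0 4484446 0) (P.cons (P.lf 0 299818 0) P.nil))) (P.cons (P.cons (P.lf 0 3978858 0) (P.cons (P.lf 347054 0 0) P.nil)) (P.cons (P.cons (P.lf 219604 0 0) P.nil) P.nil)))))) 560849)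
 (EL.cons 7 (TM.mk (P.cons (P.cons (P.lf 0 451390693 0) (P.cons (P.lf 443114873 0 0) (P.cons (P.lf 29625632 0 0) (P.lf 0 9875210 0)))) (P.cons (P.cons (P.lf 20489135 0 0) (P.cons (P.lf 12900610 0 0) (P.cons (P.lf 862504 0 0) (P.lf 0 287501 0)))) (P.cons (P.cons (P.lf 27214041 0 0) (P.cons (P.lf 5373818 0 0) (P.cons (P.lf 359278 0 0) (P.lf 0 119757 0)))) (P.cons (P.cons (P.lf 10542558 0 0) (P.cons (P.lf 0 1046150 0) (P.cons (P.lf 0 69939 0) P.nil))) (P.cons (P.cons (P.lf 0 850000 0) (P.cons (P.lf 0 224205 0) P.nil)) (P.cons (P.cons (P.lf 0 204709 0) P.nil) P.nil)))))) 306892)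
 (EL.cons 10 (TM.mk (P.cons (P.cons (P.lf 0 2940277122 0) (P.cons (P.lf 0 455228733 0) (P.cons (P.lf 219314847 0 0) (P.cons (P.lf 8299518 0 0) (P.lf 0 2074878 0))))) (P.cons (P.cons (P.lf 94330317 0 0) (P.cons (P.lf 14604699 0 0) (P.cons (P.lf 0 7036083 0) (P.cons (P.lf 0 266265 0) (P.lf 66564 0 0))))) (P.cons (P.cons (P.lf 45655029 0 0) (P.cons (P.lf 7068543 0 0) (P.cons (P.lf 0 3405402 0) (P.cons (P.lf 0 128868 0) P.nil)))) (P.cons (P.cons (P.lf 0 1492008 0) (P.cons (P.lf 0 231000 0) (P.cons (P.lf 111288 0 0) P.nil))) (P.cons (P.cons (P.lf 0 350556 0) (P.cons (P.lf 0 54273 0) P.nil)) (P.cons (P.cons (P.lf 13194 0 0) P.nil) P.nil)))))) 71190)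
 EL.nil))))
noncomputable def S256_285_364_512_8 : EL := (EL.cons 12 (TM.mk (P.cons (P.cons (P.lf 134848128 0 0) (P.cons (P.lf 0 427016066 0) (P.cons (P.lf 309502702 0 0) (P.cons (P.lf 54719168 0 0) (P.cons (P.lf 0 13556502 0) (P.cons (P.lf 0 1007382 0) P.nil)))))) (P.cons (P.cons (P.lf 0 184907674 0) (P.cons (P.lf 313317786 0 0) (P.cons (P.lf 0 11588572 0) (P.cons (P.lf 0 11333158 0) (P.cons (P.lf 1304762 0 0) P.nil))))) (P.cons (P.cons (P.lf 72249016 0 0) (P.cons (P.lf 0 18338380 0) (P.cons (P.lf 0 15929492 0) (P.cons (P.lf 0 1557384 0) P.nil)))) (P.cons (P.cons (P.lf 316758 0 0) (P.cons (P.lf 0 16637112 0) (P.cons (P.lf 401550 0 0) P.nil))) (P.cons (P.cons (P.lf 0 4468888 0) (P.cons (P.lf 1397326 0 0) P.nil)) (P.cons (P.cons (P.lf 300848 0 0) P.nil) P.nil)))))) 3180648)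
 (EL.cons 3 (TM.mk (P.cons (P.cons (P.lf 0 602521588 0) (P.cons (P.lf 1010446373 0 0) (P.cons (P.lf 0 21839212 0) (P.cons (P.lf 0 34472217 0) (P.cons (P.lf 3584910 0 0) (P.cons (P.lf 266390 0 0) P.nil)))))) (P.cons (P.cons (P.lf 478624911 0 0) (P.cons (P.lf 0 135077436 0) (P.cons (P.lf 0 89108164 0) (P.cons (P.lf 0 7697229 0) (P.cons (P.lf 3211240 0 0) P.nil))))) (P.cons (P.cons (P.lf 0 4213851 0) (P.cons (P.lf 0 152009014 0) (P.cons (P.lf 3325961 0 0) (P.cons (P.lf 5191323 0 0) P.nil)))) (P.cons (P.cons (P.lf 0 56984104 0) (P.cons (P.lf 18288178 0 0) (P.cons (P.lf 4922666 0 0) P.nil))) (P.cons (P.cons (P.lf 5194666 0 0) (P.cons (P.lf 6061835 0 0) P.nil)) (P.cons (P.cons (P.lf 2291251 0 0) P.nil) P.nil)))))) 6925777)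
 (EL.cons 7 (TM.mk (P.cons (P.cons (P.lf 0 79669643 0) (P.cons (P.lf 184230674 0 0) (P.cons (P.lf 0 79654712 0) (P.cons (P.lf 0 16403802 0) (P.cons (P.lf 3688241 0 0) (P.cons (P.lf 274067 0 0) P.nil)))))) (P.cons (P.cons (P.lf 36291693 0 0) (P.cons (P.lf 0 10242242 0) (P.cons (P.lf 0 6756612 0) (P.cons (P.lf 0 583641 0) (P.cons (P.lf 243491 0 0) P.nil))))) (P.cons (P.cons (P.lf 17972448 0 0) (P.cons (P.lf 0 16688420 0) (P.cons (P.lf 0 3153320 0) (P.cons (P.lf 99467 0 0) P.nil)))) (P.cons (P.cons (P.lf 0 4388631 0) (P.cons (P.lf 0 6400679 0) (P.cons (P.lf 515388 0 0) P.nil))) (P.cons (P.cons (P.lf 0 2837047 0) (P.cons (P.lf 1427406 0 0) P.nil)) (P.cons (P.cons (P.lf 459960 0 0) P.nil) P.nil)))))) 3769406)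
 (EL.cons 10 (TM.mk (P.cons (P.cons (P.lf 0 736793514 0) (P.cons (P.lf 1052507364 0 0) (P.cons (P.lf 313568352 0 0) (P.cons (P.lf 0 98858130 0) (P.cons (P.lf 0 13655664 0) (P.cons (P.lf 2542278 0 0) P.nil)))))) (P.cons (P.cons (P.lf 528794232 0 0) (P.cons (P.lf 0 11695380 0) (P.cons (P.lf 0 60184650 0) (P.cons (P.lf 6603120 0 0) (P.cons (P.lf 1426704 0 0) P.nil))))) (P.cons (P.cons (P.lf 0 28974540 0) (P.cons (P.lf 0 47519748 0) (P.cons (P.lf 0 7378632 0) (P.cons (P.lf 3805254 0 0) P.nil)))) (P.cons (P.cons (P.lf 0 24904128 0) (P.cons (P.lf 0 208638 0) (P.cons (P.lf 2666094 0 0) P.nil))) (P.cons (P.cons (P.lf 1738104 0 0) (P.cons (P.lf 1055436 0 0) P.nil)) (P.cons (P.cons (P.lf 488274 0 0) P.nil) P.nil)))))) 2401872)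
 EL.nil))))
noncomputable def S256_285_364_512_9 : EL := (EL.cons 3 (TM.mk (P.cons (P.lf 454308690 0 0) (P.cons (P.lf 450679503 0 0) (P.cons (P.lf 0 5414782 0) (P.cons (P.lf 0 1756837 0) (P.cons (P.lf 35658 0 0) (P.cons (P.lf 6731 0 0) P.nil)))))) 269)
 (EL.cons 7 (TM.mk (P.cons (P.lf 0 2130328762 0) (P.cons (P.lf 34172730 0 0) (P.cons (P.lf 16813380 0 0) (P.cons (P.lf 0 270802 0) (P.cons (P.lf 0 64991 0) (P.cons (P.lf 1601 0 0) P.nil)))))) 330)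
 EL.nil))
noncomputable def S256_285_364_512_10 : EL := (EL.cons 3 (TM.mk (P.cons (P.cons (P.lf 56921793 0 0) (P.cons (P.lf 0 90125537 0) (P.cons (P.lf 0 6025582 0) (P.lf 2008527 0 0)))) (P.cons (P.cons (P.lf 17440672 0 0) (P.cons (P.lf 0 85068454 0) (P.cons (P.lf 0 5687478 0) (P.lf 1895825 0 0)))) (P.cons (P.cons (P.lf 0 37522825 0) (P.cons (P.lf 7441005 0 0) (P.cons (P.lf 497487 0 0) (P.lf 0 165828 0)))) (P.cons (P.cons (P.lf 3449478 0 0) (P.cons (P.lf 2242223 0 0) (P.cons (P.lf 149909 0 0) P.nil))) (P.cons (P.cons (P.lf 1422510 0 0) (P.cons (P.lf 0 173527 0) P.nil)) (P.cons (P.cons (P.lf 0 88463 0) P.nil) P.nil)))))) 138259)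
 (EL.cons 7 (TM.mk (P.cons (P.cons (P.lf 0 266915728 0) (P.cons (P.lf 422613590 0 0) (P.cons (P.lf 28254959 0 0) (P.lf 0 9418319 0)))) (P.cons (P.cons (P.lf 187282913 0 0) (P.cons (P.lf 0 27116675 0) (P.cons (P.lf 0 1812956 0) (P.lf 604318 0 0)))) (P.cons (P.cons (P.lf 0 9598896 0) (P.cons (P.lf 0 12689248 0) (P.cons (P.lf 0 848372 0) (P.lf 282789 0 0)))) (P.cons (P.cons (P.lf 0 7663875 0) (P.cons (P.lf 849952 0 0) (P.cons (P.lf 56823 0 0) P.nil))) (P.cons (P.cons (P.lf 415298 0 0) (P.cons (P.lf 188904 0 0) P.nil)) (P.cons (P.cons (P.lf 118367 0 0) P.nil) P.nil)))))) 67122)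
 EL.nil))
noncomputable def S256_285_364_512_11 : EL := (EL.cons 3 (TM.mk (P.cons (P.cons (P.lf 7131914 0 0) (P.cons (P.lf 0 22584235 0) (P.cons (P.lf 16369130 0 0) (P.cons (P.lf 2894013 0 0) (P.cons (P.lf 0 716982 0) (P.cons (P.lf 0 53278 0) P.nil)))))) (P.cons (P.cons (P.lf 0 2704545 0) (P.cons (P.lf 0 5832918 0) (P.cons (P.lf 15625466 0 0) (P.cons (P.lf 2271501 0 0) (P.cons (P.lf 0 642248 0) P.nil))))) (P.cons (P.cons (P.lf 0 5965227 0) (P.cons (P.lf 15737816 0 0) (P.cons (P.lf 0 1645591 0) (P.cons (P.lf 0 711465 0) P.nil)))) (P.cons (P.cons (P.lf 3896348 0 0) (P.cons (P.lf 0 1952222 0) (P.cons (P.lf 0 870514 0) P.nil))) (P.cons (P.cons (P.lf 0 226898 0) (P.cons (P.lf 0 853273 0) P.nil)) (P.cons (P.cons (P.lf 0 234191 0) P.nil) P.nil)))))) 729765)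
 (EL.cons 7 (TM.mk (P.cons (P.cons (P.lf 0 33442727 0) (P.cons (P.lf 105901226 0 0) (P.cons (P.lf 0 76757570 0) (P.cons (P.lf 0 13570512 0) (P.cons (P.lf 3362051 0 0) (P.cons (P.lf 249833 0 0) P.nil)))))) (P.cons (P.cons (P.lf 46394097 0 0) (P.cons (P.lf 0 79402490 0) (P.cons (P.lf 4105272 0 0) (P.cons (P.lf 3028341 0 0) (P.cons (P.lf 0 377515 0) P.nil))))) (P.cons (P.cons (P.lf 0 18389628 0) (P.cons (P.lf 4958608 0 0) (P.cons (P.lf 4510258 0 0) (P.cons (P.lf 448253 0 0) P.nil)))) (P.cons (P.cons (P.lf 0 157311 0) (P.cons (P.lf 4679827 0 0) (P.cons (P.lf 0 195396 0) P.nil))) (P.cons (P.cons (P.lf 1255781 0 0) (P.cons (P.lf 0 455268 0) P.nil)) (P.cons (P.cons (P.lf 0 92622 0) P.nil) P.nil)))))) 976042)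
 EL.nil))
noncomputable def S256_285_364_512_12 : EL := (EL.cons 4 (TM.mk (P.cons (P.lf 0 454308690 0) (P.cons (P.lf 0 450679503 0) (P.cons (P.lf 5414782 0 0) (P.cons (P.lf 1756837 0 0) (P.cons (P.lf 0 35658 0) (P.cons (P.lf 0 6731 0) P.nil)))))) 269)
 (EL.cons 8 (TM.mk (P.cons (P.lf 2130328762 0 0) (P.cons (P.lf 0 34172730 0) (P.cons (P.lf 0 16813380 0) (P.cons (P.lf 270802 0 0) (P.cons (P.lf 64991 0 0) (P.cons (P.lf 0 1601 0) P.nil)))))) 330)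
 EL.nil))
noncomputable def S256_285_364_512_13 : EL := (EL.cons 4 (TM.mk (P.cons (P.cons (P.lf 0 56921793 0) (P.cons (P.lf 90125537 0 0) (P.cons (P.lf 6025582 0 0) (P.lf 0 2008527 0)))) (P.cons (P.cons (P.lf 0 17440672 0) (P.cons (P.lf 85068454 0 0) (P.cons (P.lf 5687478 0 0) (P.lf 0 1895825 0)))) (P.cons (P.cons (P.lf 37522825 0 0) (P.cons (P.lf 0 7441005 0) (P.cons (P.lf 0 497487 0) (P.lf 165828 0 0)))) (P.cons (P.cons (P.lf 0 3449478 0) (P.cons (P.lf 0 2242223 0) (P.cons (P.lf 0 149909 0) P.nil))) (P.cons (P.cons (P.lf 0 1422510 0) (P.cons (P.lf 173527 0 0) P.nil)) (P.cons (P.cons (P.lf 88463 0 0) P.nil) P.nil)))))) 138259)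
 (EL.cons 8 (TM.mk (P.cons (P.cons (P.lf 266915728 0 0) (P.cons (P.lf 0 422613590 0) (P.cons (P.lf 0 28254959 0) (P.lf 9418319 0 0)))) (P.cons (P.cons (P.lf 0 187282913 0) (P.cons (P.lf 27116675 0 0) (P.cons (P.lf 1812956 0 0) (P.lf 0 604318 0)))) (P.cons (P.cons (P.lf 9598896 0 0) (P.cons (P.lf 12689248 0 0) (P.cons (P.lf 848372 0 0) (P.lf 0 282789 0)))) (P.cons (P.cons (P.lf 7663875 0 0) (P.cons (P.lf 0 849952 0) (P.cons (P.lf 0 56823 0) P.nil))) (P.cons (P.cons (P.lf 0 415298 0) (P.cons (P.lf 0 188904 0) P.nil)) (P.cons (P.cons (P.lf 0 118367 0) P.nil) P.nil)))))) 67122)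
 EL.nil))
noncomputable def S256_285_364_512_14 : EL := (EL.cons 4 (TM.mk (P.cons (P.cons (P.lf 0 7131914 0) (P.cons (P.lf 22584235 0 0) (P.cons (P.lf 0 16369130 0) (P.cons (P.lf 0 2894013 0) (P.cons (P.lf 716982 0 0) (P.cons (P.lf 53278 0 0) P.nil)))))) (P.cons (P.cons (P.lf 2704545 0 0) (P.cons (P.lf 5832918 0 0) (P.cons (P.lf 0 15625466 0) (P.cons (P.lf 0 2271501 0) (P.cons (P.lf 642248 0 0) P.nil))))) (P.cons (P.cons (P.lf 5965227 0 0) (P.cons (P.lf 0 15737816 0) (P.cons (P.lf 1645591 0 0) (P.cons (P.lf 711465 0 0) P.nil)))) (P.cons (P.cons (P.lf 0 3896348 0) (P.cons (P.lf 1952222 0 0) (P.cons (P.lf 870514 0 0) P.nil))) (P.cons (P.cons (P.lf 226898 0 0) (P.cons (P.lf 853273 0 0) P.nil)) (P.cons (P.cons (P.lf 234191 0 0) P.nil) P.nil)))))) 729765)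
 (EL.cons 8 (TM.mk (P.cons (P.cons (P.lf 33442727 0 0) (P.cons (P.lf 0 105901226 0) (P.cons (P.lf 76757570 0 0) (P.cons (P.lf 13570512 0 0) (P.cons (P.lf 0 3362051 0) (P.cons (P.lf 0 249833 0) P.nil)))))) (P.cons (P.cons (P.lf 0 46394097 0) (P.cons (P.lf 79402490 0 0) (P.cons (P.lf 0 4105272 0) (P.cons (P.lf 0 3028341 0) (P.cons (P.lf 377515 0 0) P.nil))))) (P.cons (P.cons (P.lf 18389628 0 0) (P.cons (P.lf 0 4958608 0) (P.cons (P.lf 0 4510258 0) (P.cons (P.lf 0 448253 0) P.nil)))) (P.cons (P.cons (P.lf 157311 0 0) (P.cons (P.lf 0 4679827 0) (P.cons (P.lf 195396 0 0) P.nil))) (P.cons (P.cons (P.lf 0 1255781 0) (P.cons (P.lf 455268 0 0) P.nil)) (P.cons (P.cons (P.lf 92622 0 0) P.nil) P.nil)))))) 976042)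
 EL.nil))
noncomputable def S256_285_364_512_15 : EL := (EL.cons 4 (TM.mk (P.cons (P.lf 0 51259096 0) (P.cons (P.lf 0 101699239 0) (P.cons (P.lf 0 49221527 0) (P.cons (P.lf 1608569 0 0) (P.cons (P.lf 377947 0 0) (P.cons (P.lf 0 14225 0) P.nil)))))) 2557)
 (EL.cons 8 (TM.mk (P.cons (P.lf 240362403 0 0) (P.cons (P.lf 234586631 0 0) (P.cons (P.lf 0 8586714 0) (P.cons (P.lf 0 2734865 0) (P.cons (P.lf 94029 0 0) (P.cons (P.lf 17324 0 0) P.nil)))))) 877)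
 EL.nil))
noncomputable def S256_285_364_512_16 : EL := (EL.cons 4 (TM.mk (P.cons (P.cons (P.lf 0 6422415 0) (P.cons (P.lf 10168754 0 0) (P.cons (P.lf 679859 0 0) (P.lf 0 226619 0)))) (P.cons (P.cons (P.lf 0 8338921 0) (P.cons (P.lf 19685692 0 0) (P.cons (P.lf 1316139 0 0) (P.lf 0 438712 0)))) (P.cons (P.cons (P.lf 2358110 0 0) (P.cons (P.lf 8560738 0 0) (P.cons (P.lf 572350 0 0) (P.lf 0 190783 0)))) (P.cons (P.cons (P.lf 3858923 0 0) (P.cons (P.lf 0 1239560 0) (P.cons (P.lf 0 82874 0) P.nil))) (P.cons (P.cons (P.lf 0 589945 0) (P.cons (P.lf 0 257699 0) P.nil)) (P.cons (P.cons (P.lf 0 161219 0) P.nil) P.nil)))))) 118330)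
 (EL.cons 8 (TM.mk (P.cons (P.cons (P.lf 30115776 0 0) (P.cons (P.lf 0 47682977 0) (P.cons (P.lf 0 3187972 0) (P.lf 1062657 0 0)))) (P.cons (P.cons (P.lf 8744297 0 0) (P.cons (P.lf 0 44242526 0) (P.cons (P.lf 0 2957952 0) (P.lf 985983 0 0)))) (P.cons (P.cons (P.lf 0 20238011 0) (P.cons (P.lf 5035133 0 0) (P.cons (P.lf 336636 0 0) (P.lf 0 112212 0)))) (P.cons (P.cons (P.lf 2074479 0 0) (P.cons (P.lf 1472303 0 0) (P.cons (P.lf 98434 0 0) P.nil))) (P.cons (P.cons (P.lf 882109 0 0) (P.cons (P.lf 0 149085 0) P.nil)) (P.cons (P.cons (P.lf 0 75544 0) P.nil) P.nil)))))) 111841)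
 EL.nil))
noncomputable def S256_285_364_512_17 : EL := (EL.cons 4 (TM.mk (P.cons (P.cons (P.lf 0 804684 0) (P.cons (P.lf 2548151 0 0) (P.cons (P.lf 0 1846908 0) (P.cons (P.lf 0 326527 0) (P.cons (P.lf 80895 0 0) (P.cons (P.lf 6011 0 0) P.nil)))))) (P.cons (P.cons (P.lf 0 493106 0) (P.cons (P.lf 3185916 0 0) (P.cons (P.lf 0 3595156 0) (P.cons (P.lf 0 580210 0) (P.cons (P.lf 152714 0 0) P.nil))))) (P.cons (P.cons (P.lf 985352 0 0) (P.cons (P.lf 0 1153185 0) (P.cons (P.lf 0 1541235 0) (P.cons (P.lf 0 170077 0) P.nil)))) (P.cons (P.cons (P.lf 227526 0 0) (P.cons (P.lf 0 1558924 0) (P.cons (P.lf 310560 0 0) P.nil))) (P.cons (P.cons (P.lf 0 419772 0) (P.cons (P.lf 333600 0 0) P.nil)) (P.cons (P.cons (P.lf 54468 0 0) P.nil) P.nil)))))) 604186)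
 (EL.cons 8 (TM.mk (P.cons (P.cons (P.lf 3773302 0 0) (P.cons (P.lf 0 11948706 0) (P.cons (P.lf 8660462 0 0) (P.cons (P.lf 1531144 0 0) (P.cons (P.lf 0 379335 0) (P.cons (P.lf 0 28188 0) P.nil)))))) (P.cons (P.cons (P.lf 0 1491429 0) (P.cons (P.lf 0 2894369 0) (P.cons (P.lf 8128087 0 0) (P.cons (P.lf 1177228 0 0) (P.cons (P.lf 0 333711 0) P.nil))))) (P.cons (P.cons (P.lf 0 3162867 0) (P.cons (P.lf 8470258 0 0) (P.cons (P.lf 0 1071601 0) (P.cons (P.lf 0 407779 0) P.nil)))) (P.cons (P.cons (P.lf 2123851 0 0) (P.cons (P.lf 0 1143595 0) (P.cons (P.lf 0 510745 0) P.nil))) (P.cons (P.cons (P.lf 0 128271 0) (P.cons (P.lf 0 501347 0) P.nil)) (P.cons (P.cons (P.lf 0 138696 0) P.nil) P.nil)))))) 471004)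
 EL.nil))
noncomputable def S256_285_364_512_18 : EL := (EL.cons 4 (TM.mk (P.cons (P.lf 0 5783501 0) (P.cons (P.lf 0 17211901 0) (P.cons (P.lf 0 16867610 0) (P.cons (P.lf 0 5168619 0) (P.cons (P.lf 332796 0 0) (P.cons (P.lf 59024 0 0) P.nil)))))) 4306)
 (EL.cons 8 (TM.mk (P.cons (P.lf 27119797 0 0) (P.cons (P.lf 53371278 0 0) (P.cons (P.lf 24964624 0 0) (P.cons (P.lf 0 1690000 0) (P.cons (P.lf 0 384174 0) (P.cons (P.lf 22382 0 0) P.nil)))))) 4185)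
 EL.nil))
noncomputable def S256_285_364_512_19 : EL := (EL.cons 4 (TM.mk (P.cons (P.cons (P.lf 0 724633 0) (P.cons (P.lf 1147327 0 0) (P.cons (P.lf 76707 0 0) (P.lf 0 25568 0)))) (P.cons (P.cons (P.lf 0 1659714 0) (P.cons (P.lf 3359275 0 0) (P.cons (P.lf 224593 0 0) (P.lf 0 74864 0)))) (P.cons (P.cons (P.lf 0 658654 0) (P.cons (P.lf 3155592 0 0) (P.cons (P.lf 210975 0 0) (P.lf 0 70324 0)))) (P.cons (P.cons (P.lf 713351 0 0) (P.cons (P.lf 787412 0 0) (P.cons (P.lf 52644 0 0) P.nil))) (P.cons (P.cons (P.lf 365766 0 0) (P.cons (P.lf 0 187827 0) P.nil)) (P.cons (P.cons (P.lf 0 90524 0) P.nil) P.nil)))))) 126925)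
 (EL.cons 8 (TM.mk (P.cons (P.cons (P.lf 3397926 0 0) (P.cons (P.lf 0 5380011 0) (P.cons (P.lf 0 359694 0) (P.lf 119897 0 0)))) (P.cons (P.cons (P.lf 4357391 0 0) (P.cons (P.lf 0 10328864 0) (P.cons (P.lf 0 690563 0) (P.lf 230187 0 0)))) (P.cons (P.cons (P.lf 0 1345201 0) (P.cons (P.lf 0 4319722 0) (P.cons (P.lf 0 288806 0) (P.lf 96268 0 0)))) (P.cons (P.cons (P.lf 0 2056027 0) (P.cons (P.lf 809988 0 0) (P.cons (P.lf 54153 0 0) P.nil))) (P.cons (P.cons (P.lf 355385 0 0) (P.cons (P.lf 160080 0 0) P.nil)) (P.cons (P.cons (P.lf 96376 0 0) P.nil) P.nil)))))) 86607)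
 EL.nil))
noncomputable def S256_285_364_512_20 : EL := (EL.cons 4 (TM.mk (P.cons (P.cons (P.lf 0 90791 0) (P.cons (P.lf 287504 0 0) (P.cons (P.lf 0 208383 0) (P.cons (P.lf 0 36840 0) (P.cons (P.lf 9126 0 0) (P.cons (P.lf 677 0 0) P.nil)))))) (P.cons (P.cons (P.lf 0 145702 0) (P.cons (P.lf 644670 0 0) (P.cons (P.lf 0 612356 0) (P.cons (P.lf 0 102011 0) (P.cons (P.lf 26284 0 0) P.nil))))) (P.cons (P.cons (P.lf 57065 0 0) (P.cons (P.lf 223051 0 0) (P.cons (P.lf 0 573808 0) (P.cons (P.lf 0 83691 0) P.nil)))) (P.cons (P.cons (P.lf 136973 0 0) (P.cons (P.lf 0 310360 0) (P.cons (P.lf 0 131825 0) P.nil))) (P.cons (P.cons (P.lf 0 23012 0) (P.cons (P.lf 0 136663 0) P.nil)) (P.cons (P.cons (P.lf 0 41580 0) P.nil) P.nil)))))) 297800)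
 (EL.cons 8 (TM.mk (P.cons (P.cons (P.lf 425736 0 0) (P.cons (P.lf 0 1348157 0) (P.cons (P.lf 977149 0 0) (P.cons (P.lf 172756 0 0) (P.cons (P.lf 0 42799 0) (P.cons (P.lf 0 3180 0) P.nil)))))) (P.cons (P.cons (P.lf 254059 0 0) (P.cons (P.lf 0 1663956 0) (P.cons (P.lf 1886425 0 0) (P.cons (P.lf 304202 0 0) (P.cons (P.lf 0 80110 0) P.nil))))) (P.cons (P.cons (P.lf 0 528868 0) (P.cons (P.lf 647797 0 0) (P.cons (P.lf 777201 0 0) (P.cons (P.lf 83695 0 0) P.nil)))) (P.cons (P.cons (P.lf 0 114020 0) (P.cons (P.lf 828129 0 0) (P.cons (P.lf 0 192277 0) P.nil))) (P.cons (P.cons (P.lf 228181 0 0) (P.cons (P.lf 0 194799 0) P.nil)) (P.cons (P.cons (P.lf 0 31489 0) P.nil) P.nil)))))) 358821)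
 EL.nil))
noncomputable def S256_285_364_512_21 : EL := (EL.cons 4 (TM.mk (P.cons (P.cons (P.lf 2432907189 0 0) (P.cons (P.lf 0 270376611 0) (P.cons (P.lf 0 18076746 0) (P.lf 6025581 0 0)))) (P.cons (P.cons (P.lf 0 252775698 0) (P.cons (P.lf 0 255205362 0) (P.cons (P.lf 0 17062434 0) (P.lf 5687475 0 0)))) (P.cons (P.cons (P.lf 0 260233053 0) (P.cons (P.lf 22323015 0 0) (P.cons (P.lf 1492461 0 0) (P.lf 0 497484 0)))) (P.cons (P.cons (P.lf 15174138 0 0) (P.cons (P.lf 6726669 0 0) (P.cons (P.lf 449727 0 0) P.nil))) (P.cons (P.cons (P.lf 5401368 0 0) (P.cons (P.lf 0 520581 0) P.nil)) (P.cons (P.cons (P.lf 0 308067 0) P.nil) P.nil)))))) 422571)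
 (EL.cons 8 (TM.mk (P.cons (P.cons (P.lf 184474965 0 0) (P.cons (P.lf 0 20501283 0) (P.cons (P.lf 0 1370673 0) (P.lf 456891 0 0)))) (P.cons (P.cons (P.lf 166793778 0 0) (P.cons (P.lf 0 40017285 0) (P.cons (P.lf 0 2675460 0) (P.lf 891819 0 0)))) (P.cons (P.cons (P.lf 0 36812937 0) (P.cons (P.lf 0 18063066 0) (P.cons (P.lf 0 1207650 0) (P.lf 402546 0 0)))) (P.cons (P.cons (P.lf 0 18206433 0) (P.cons (P.lf 1896102 0 0) (P.cons (P.lf 126762 0 0) P.nil))) (P.cons (P.cons (P.lf 1265298 0 0) (P.cons (P.lf 413109 0 0) P.nil)) (P.cons (P.cons (P.lf 323076 0 0) P.nil) P.nil)))))) 239751)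
 (EL.cons 11 (TM.mk (P.cons (P.cons (P.lf 2940277122 0 0) (P.cons (P.lf 455228733 0 0) (P.cons (P.lf 0 219314847 0) (P.cons (P.lf 0 8299518 0) (P.lf 2074878 0 0))))) (P.cons (P.cons (P.lf 0 94330317 0) (P.cons (P.lf 0 14604699 0) (P.cons (P.lf 7036083 0 0) (P.cons (P.lf 266265 0 0) (P.lf 0 66564 0))))) (P.cons (P.cons (P.lf 0 45655029 0) (P.cons (P.lf 0 7068543 0) (P.cons (P.lf 3405402 0 0) (P.cons (P.lf 128868 0 0) P.nil)))) (P.cons (P.cons (P.lf 1492008 0 0) (P.cons (P.lf 231000 0 0) (P.cons (P.lf 0 111288 0) P.nil))) (P.cons (P.cons (P.lf 350556 0 0) (P.cons (P.lf 54273 0 0) P.nil)) (P.cons (P.cons (P.lf 0 13194 0) P.nil) P.nil)))))) 71190)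
 EL.nil)))
noncomputable def S256_285_364_512_22 : EL := (EL.cons 4 (TM.mk (P.cons (P.cons (P.lf 304826751 0 0) (P.cons (P.lf 0 516515304 0) (P.cons (P.lf 19104171 0 0) (P.cons (P.lf 18683115 0 0) (P.cons (P.lf 0 2150946 0) (P.cons (P.lf 0 159834 0) P.nil)))))) (P.cons (P.cons (P.lf 0 240664728 0) (P.cons (P.lf 64622259 0 0) (P.cons (P.lf 52366815 0 0) (P.cons (P.lf 4984365 0 0) (P.cons (P.lf 0 1926744 0) P.nil))))) (P.cons (P.cons (P.lf 0 875688 0) (P.cons (P.lf 83873415 0 0) (P.cons (P.lf 0 2485776 0) (P.cons (P.lf 0 2951394 0) P.nil)))) (P.cons (P.cons (P.lf 30440226 0 0) (P.cons (P.lf 0 10120200 0) (P.cons (P.lf 0 2896590 0) P.nil))) (P.cons (P.cons (P.lf 0 2710782 0) (P.cons (P.lf 0 3457554 0) P.nil)) (P.cons (P.cons (P.lf 0 1262721 0) P.nil) P.nil)))))) 3097995)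
 (EL.cons 8 (TM.mk (P.cons (P.cons (P.lf 23113458 0 0) (P.cons (P.lf 0 39164724 0) (P.cons (P.lf 1448571 0 0) (P.cons (P.lf 1416645 0 0) (P.cons (P.lf 0 163095 0) (P.cons (P.lf 0 12117 0) P.nil)))))) (P.cons (P.cons (P.lf 5051202 0 0) (P.cons (P.lf 0 34580124 0) (P.cons (P.lf 5430942 0 0) (P.cons (P.lf 1805991 0 0) (P.cons (P.lf 0 310503 0) P.nil))))) (P.cons (P.cons (P.lf 0 18181038 0) (P.cons (P.lf 10823514 0 0) (P.cons (P.lf 3831789 0 0) (P.cons (P.lf 174393 0 0) P.nil)))) (P.cons (P.cons (P.lf 2115660 0 0) (P.cons (P.lf 5540253 0 0) (P.cons (P.lf 0 355392 0) P.nil))) (P.cons (P.cons (P.lf 2046414 0 0) (P.cons (P.lf 0 941337 0) P.nil)) (P.cons (P.cons (P.lf 0 276291 0) P.nil) P.nil)))))) 1396671)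
 (EL.cons 11 (TM.mk (P.cons (P.cons (P.lf 368396757 0 0) (P.cons (P.lf 0 526253682 0) (P.cons (P.lf 0 156784176 0) (P.cons (P.lf 49429065 0 0) (P.cons (P.lf 6827832 0 0) (P.cons (P.lf 0 1271139 0) P.nil)))))) (P.cons (P.cons (P.lf 0 264397116 0) (P.cons (P.lf 5847690 0 0) (P.cons (P.lf 30092325 0 0) (P.cons (P.lf 0 3301560 0) (P.cons (P.lf 0 713352 0) P.nil))))) (P.cons (P.cons (P.lf 14487270 0 0) (P.cons (P.lf 23759874 0 0) (P.cons (P.lf 3689316 0 0) (P.cons (P.lf 0 1902627 0) P.nil)))) (P.cons (P.cons (P.lf 12452064 0 0) (P.cons (P.lf 104319 0 0) (P.cons (P.lf 0 1333047 0) P.nil))) (P.cons (P.cons (P.lf 0 869052 0) (P.cons (P.lf 0 527718 0) P.nil)) (P.cons (P.cons (P.lf 0 244137 0) P.nil) P.nil)))))) 1200936)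
 EL.nil)))
noncomputable def S256_285_364_512_23 : EL := (EL.cons 4 (TM.mk (P.cons (P.cons (P.lf 274501956 0 0) (P.cons (P.lf 0 30506262 0) (P.cons (P.lf 0 2039577 0) (P.lf 679857 0 0)))) (P.cons (P.cons (P.lf 243788760 0 0) (P.cons (P.lf 0 59057079 0) (P.cons (P.lf 0 3948417 0) (P.lf 1316136 0 0)))) (P.cons (P.cons (P.lf 0 60926034 0) (P.cons (P.lf 0 25682214 0) (P.cons (P.lf 0 1717053 0) (P.lf 572349 0 0)))) (P.cons (P.cons (P.lf 0 28136733 0) (P.cons (P.lf 3718683 0 0) (P.cons (P.lf 248619 0 0) P.nil))) (P.cons (P.cons (P.lf 2789622 0 0) (P.cons (P.lf 773097 0 0) P.nil)) (P.cons (P.cons (P.lf 664767 0 0) P.nil) P.nil)))))) 366126)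
 (EL.cons 8 (TM.mk (P.cons (P.cons (P.lf 20814084 0 0) (P.cons (P.lf 0 2313132 0) (P.cons (P.lf 0 154650 0) (P.lf 51549 0 0)))) (P.cons (P.cons (P.lf 39466953 0 0) (P.cons (P.lf 0 6809757 0) (P.cons (P.lf 0 455283 0) (P.lf 151761 0 0)))) (P.cons (P.cons (P.lf 14267166 0 0) (P.cons (P.lf 0 6489495 0) (P.cons (P.lf 0 433869 0) (P.lf 144621 0 0)))) (P.cons (P.cons (P.lf 0 6479376 0) (P.cons (P.lf 0 1745058 0) (P.cons (P.lf 0 116670 0) P.nil))) (P.cons (P.cons (P.lf 0 1916673 0) (P.cons (P.lf 300405 0 0) P.nil)) (P.cons (P.cons (P.lf 220404 0 0) P.nil) P.nil)))))) 226482)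
 (EL.cons 11 (TM.mk (P.cons (P.cons (P.lf 331747890 0 0) (P.cons (P.lf 51362904 0 0) (P.cons (P.lf 0 24745026 0) (P.cons (P.lf 0 936423 0) (P.lf 234105 0 0))))) (P.cons (P.cons (P.lf 318454590 0 0) (P.cons (P.lf 49304766 0 0) (P.cons (P.lf 0 23753481 0) (P.cons (P.lf 0 898899 0) (P.lf 224724 0 0))))) (P.cons (P.cons (P.lf 0 19663368 0) (P.cons (P.lf 0 3044382 0) (P.cons (P.lf 1466685 0 0) (P.cons (P.lf 55503 0 0) P.nil)))) (P.cons (P.cons (P.lf 0 6097743 0) (P.cons (P.lf 0 944082 0) (P.cons (P.lf 454827 0 0) P.nil))) (P.cons (P.cons (P.lf 335139 0 0) (P.cons (P.lf 51888 0 0) P.nil)) (P.cons (P.cons (P.lf 59739 0 0) P.nil) P.nil)))))) 84867)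
 EL.nil)))
noncomputable def S256_285_364_512_24 : EL := (EL.cons 4 (TM.mk (P.cons (P.cons (P.lf 34393230 0 0) (P.cons (P.lf 0 58277793 0) (P.cons (P.lf 2155500 0 0) (P.cons (P.lf 2107992 0 0) (P.cons (P.lf 0 242688 0) (P.cons (P.lf 0 18033 0) P.nil)))))) (P.cons (P.cons (P.lf 6964575 0 0) (P.cons (P.lf 0 50520996 0) (P.cons (P.lf 8046765 0 0) (P.cons (P.lf 2653533 0 0) (P.cons (P.lf 0 458142 0) P.nil))))) (P.cons (P.cons (P.lf 0 27445719 0) (P.cons (P.lf 17390937 0 0) (P.cons (P.lf 5555124 0 0) (P.cons (P.lf 199758 0 0) P.nil)))) (P.cons (P.cons (P.lf 3527157 0 0) (P.cons (P.lf 8384349 0 0) (P.cons (P.lf 0 683802 0) P.nil))) (P.cons (P.cons (P.lf 3210123 0 0) (P.cons (P.lf 0 1668399 0) P.nil)) (P.cons (P.cons (P.lf 0 488055 0) P.nil) P.nil)))))) 2342880)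
 (EL.cons 8 (TM.mk (P.cons (P.cons (P.lf 2607861 0 0) (P.cons (P.lf 0 4418907 0) (P.cons (P.lf 163440 0 0) (P.cons (P.lf 159837 0 0) (P.cons (P.lf 0 18399 0) (P.cons (P.lf 0 1365 0) P.nil)))))) (P.cons (P.cons (P.lf 3156951 0 0) (P.cons (P.lf 0 8285241 0) (P.cons (P.lf 774900 0 0) (P.cons (P.lf 362328 0 0) (P.cons (P.lf 0 53286 0) P.nil))))) (P.cons (P.cons (P.lf 0 1517058 0) (P.cons (P.lf 0 2596593 0) (P.cons (P.lf 1038258 0 0) (P.cons (P.lf 219909 0 0) P.nil)))) (P.cons (P.cons (P.lf 0 1813125 0) (P.cons (P.lf 1900137 0 0) (P.cons (P.lf 380847 0 0) P.nil))) (P.cons (P.cons (P.lf 490143 0 0) (P.cons (P.lf 514080 0 0) P.nil)) (P.cons (P.cons (P.lf 203046 0 0) P.nil) P.nil)))))) 721770)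
 (EL.cons 11 (TM.mk (P.cons (P.cons (P.lf 41565756 0 0) (P.cons (P.lf 0 59376561 0) (P.cons (P.lf 0 17689767 0) (P.cons (P.lf 5577021 0 0) (P.cons (P.lf 770373 0 0) (P.cons (P.lf 0 143421 0) P.nil)))))) (P.cons (P.cons (P.lf 11402109 0 0) (P.cons (P.lf 0 58242450 0) (P.cons (P.lf 0 14153172 0) (P.cons (P.lf 5159958 0 0) (P.cons (P.lf 683733 0 0) P.nil))))) (P.cons (P.cons (P.lf 0 28454127 0) (P.cons (P.lf 4043007 0 0) (P.cons (P.lf 3995256 0 0) (P.cons (P.lf 0 650676 0) P.nil)))) (P.cons (P.cons (P.lf 3221292 0 0) (P.cons (P.lf 2892900 0 0) (P.cons (P.lf 290466 0 0) P.nil))) (P.cons (P.cons (P.lf 1394814 0 0) (P.cons (P.lf 0 87027 0) P.nil)) (P.cons (P.cons (P.lf 0 149607 0) P.nil) P.nil)))))) 1091505)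
 EL.nil)))
noncomputable def S256_285_364_512_25 : EL := (EL.cons 4 (TM.mk (P.cons (P.cons (P.lf 30971721 0 0) (P.cons (P.lf 0 3441984 0) (P.cons (P.lf 0 230121 0) (P.lf 76707 0 0)))) (P.cons (P.cons (P.lf 58230696 0 0) (P.cons (P.lf 0 10077825 0) (P.cons (P.lf 0 673779 0) (P.lf 224592 0 0)))) (P.cons (P.cons (P.lf 20043303 0 0) (P.cons (P.lf 0 9466776 0) (P.cons (P.lf 0 632925 0) (P.lf 210975 0 0)))) (P.cons (P.cons (P.lf 0 10441539 0) (P.cons (P.lf 0 2362239 0) (P.cons (P.lf 0 157932 0) P.nil))) (P.cons (P.cons (P.lf 0 2856528 0) (P.cons (P.lf 563484 0 0) P.nil)) (P.cons (P.cons (P.lf 454278 0 0) P.nil) P.nil)))))) 420726)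
 (EL.cons 8 (TM.mk (P.cons (P.cons (P.lf 2348427 0 0) (P.cons (P.lf 0 260988 0) (P.cons (P.lf 0 17448 0) (P.lf 5814 0 0)))) (P.cons (P.cons (P.lf 6782676 0 0) (P.cons (P.lf 0 1027239 0) (P.cons (P.lf 0 68676 0) (P.lf 22890 0 0)))) (P.cons (P.cons (P.lf 5999193 0 0) (P.cons (P.lf 0 1491288 0) (P.cons (P.lf 0 99702 0) (P.lf 33234 0 0)))) (P.cons (P.cons (P.lf 803670 0 0) (P.cons (P.lf 0 913077 0) (P.cons (P.lf 0 61044 0) P.nil))) (P.cons (P.cons (P.lf 0 977697 0) (P.cons (P.lf 0 149745 0) P.nil)) (P.cons (P.cons (P.lf 0 186786 0) P.nil) P.nil)))))) 155370)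
 (EL.cons 11 (TM.mk (P.cons (P.cons (P.lf 37430709 0 0) (P.cons (P.lf 5795214 0 0) (P.cons (P.lf 0 2791950 0) (P.cons (P.lf 0 105654 0) (P.lf 26412 0 0))))) (P.cons (P.cons (P.lf 73062543 0 0) (P.cons (P.lf 11311914 0 0) (P.cons (P.lf 0 5449722 0) (P.cons (P.lf 0 206232 0) (P.lf 51558 0 0))))) (P.cons (P.cons (P.lf 32979093 0 0) (P.cons (P.lf 5105991 0 0) (P.cons (P.lf 0 2459904 0) (P.cons (P.lf 0 93090 0) P.nil)))) (P.cons (P.cons (P.lf 0 3461868 0) (P.cons (P.lf 0 535983 0) (P.cons (P.lf 258219 0 0) P.nil))) (P.cons (P.cons (P.lf 0 754254 0) (P.cons (P.lf 0 116775 0) P.nil)) (P.cons (P.cons (P.lf 64404 0 0) P.nil) P.nil)))))) 141834)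
 EL.nil)))
noncomputable def S256_285_364_512_26 : EL := (EL.cons 4 (TM.mk (P.cons (P.cons (P.lf 3880545 0 0) (P.cons (P.lf 0 6575412 0) (P.cons (P.lf 243201 0 0) (P.cons (P.lf 237840 0 0) (P.cons (P.lf 0 27381 0) (P.cons (P.lf 0 2034 0) P.nil)))))) (P.cons (P.cons (P.lf 4635351 0 0) (P.cons (P.lf 0 12223107 0) (P.cons (P.lf 1149165 0 0) (P.cons (P.lf 535335 0 0) (P.cons (P.lf 0 78855 0) P.nil))))) (P.cons (P.cons (P.lf 0 2363388 0) (P.cons (P.lf 0 3614118 0) (P.cons (P.lf 1524534 0 0) (P.cons (P.lf 316704 0 0) P.nil)))) (P.cons (P.cons (P.lf 0 2698335 0) (P.cons (P.lf 2985885 0 0) (P.cons (P.lf 532857 0 0) P.nil))) (P.cons (P.cons (P.lf 791154 0 0) (P.cons (P.lf 748335 0 0) P.nil)) (P.cons (P.cons (P.lf 311583 0 0) P.nil) P.nil)))))) 1151979)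
 (EL.cons 8 (TM.mk (P.cons (P.cons (P.lf 294240 0 0) (P.cons (P.lf 0 498579 0) (P.cons (P.lf 18438 0 0) (P.cons (P.lf 18033 0 0) (P.cons (P.lf 0 2076 0) (P.cons (P.lf 0 153 0) P.nil)))))) (P.cons (P.cons (P.lf 648084 0 0) (P.cons (P.lf 0 1429410 0) (P.cons (P.lf 105723 0 0) (P.cons (P.lf 58770 0 0) (P.cons (P.lf 0 8070 0) P.nil))))) (P.cons (P.cons (P.lf 178674 0 0) (P.cons (P.lf 0 1214373 0) (P.cons (P.lf 203658 0 0) (P.cons (P.lf 65151 0 0) P.nil)))) (P.cons (P.cons (P.lf 0 379755 0) (P.cons (P.lf 0 63168 0) (P.cons (P.lf 158067 0 0) P.nil))) (P.cons (P.cons (P.lf 0 146949 0) (P.cons (P.lf 277746 0 0) P.nil)) (P.cons (P.cons (P.lf 80901 0 0) P.nil) P.nil)))))) 361566)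
 (EL.cons 11 (TM.mk (P.cons (P.cons (P.lf 4689813 0 0) (P.cons (P.lf 0 6699384 0) (P.cons (P.lf 0 1995912 0) (P.cons (P.lf 629247 0 0) (P.cons (P.lf 86919 0 0) (P.cons (P.lf 0 16182 0) P.nil)))))) (P.cons (P.cons (P.lf 5938836 0 0) (P.cons (P.lf 0 13217292 0) (P.cons (P.lf 0 3576855 0) (P.cons (P.lf 1206411 0 0) (P.cons (P.lf 163371 0 0) P.nil))))) (P.cons (P.cons (P.lf 0 1990131 0) (P.cons (P.lf 0 5982912 0) (P.cons (P.lf 0 1109559 0) (P.cons (P.lf 496623 0 0) P.nil)))) (P.cons (P.cons (P.lf 0 2854812 0) (P.cons (P.lf 883155 0 0) (P.cons (P.lf 506703 0 0) P.nil))) (P.cons (P.cons (P.lf 551583 0 0) (P.cons (P.lf 333423 0 0) P.nil)) (P.cons (P.cons (P.lf 147489 0 0) P.nil) P.nil)))))) 625215)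
 EL.nil)))
noncomputable def S256_285_364_512_27 : EL := (EL.cons 13 (TM.mk (P.lf 0 4294967296 0) 0)
 EL.nil)
noncomputable def S256_285_364_512_28 : EL := (EL.cons 13 (TM.mk (P.cons (P.cons (P.lf 0 538130239 0) (P.cons (P.lf 852033536 0 0) (P.cons (P.lf 56964976 0 0) (P.lf 0 18988324 0)))) (P.cons (P.cons (P.lf 368949911 0 0) (P.cons (P.lf 0 41002556 0) (P.cons (P.lf 0 2741332 0) (P.lf 913776 0 0)))) (P.cons (P.cons (P.lf 0 17681172 0) (P.cons (P.lf 0 19516008 0) (P.cons (P.lf 0 1304792 0) (P.lf 434928 0 0)))) (P.cons (P.cons (P.lf 0 12754504 0) (P.cons (P.lf 968620 0 0) (P.cons (P.lf 64756 0 0) P.nil))) (P.cons (P.cons (P.lf 462660 0 0) (P.cons (P.lf 221580 0 0) P.nil)) (P.cons (P.cons (P.lf 135987 0 0) P.nil) P.nil)))))) 70175)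
 EL.nil)
noncomputable def S256_285_364_512_29 : EL := (EL.cons 13 (TM.mk (P.cons (P.cons (P.lf 0 67424064 0) (P.cons (P.lf 213508033 0 0) (P.cons (P.lf 0 154751351 0) (P.cons (P.lf 0 27359584 0) (P.cons (P.lf 6778251 0 0) (P.cons (P.lf 503691 0 0) P.nil)))))) (P.cons (P.cons (P.lf 92453837 0 0) (P.cons (P.lf 0 156658893 0) (P.cons (P.lf 5794286 0 0) (P.cons (P.lf 5666579 0 0) (P.cons (P.lf 0 652381 0) P.nil))))) (P.cons (P.cons (P.lf 0 36124508 0) (P.cons (P.lf 9169190 0 0) (P.cons (P.lf 7964746 0 0) (P.cons (P.lf 778692 0 0) P.nil)))) (P.cons (P.cons (P.lf 0 158379 0) (P.cons (P.lf 8318556 0 0) (P.cons (P.lf 0 200775 0) P.nil))) (P.cons (P.cons (P.lf 2234444 0 0) (P.cons (P.lf 0 698663 0) P.nil)) (P.cons (P.cons (P.lf 0 150424 0) P.nil) P.nil)))))) 1590324)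
 EL.nil)
noncomputable def S256_285_364_512_30 : EL := (EL.cons 13 (TM.mk (P.cons (P.lf 0 484595936 0) (P.cons (P.lf 0 480724804 0) (P.cons (P.lf 5775768 0 0) (P.cons (P.lf 1873960 0 0) (P.cons (P.lf 0 38036 0) (P.cons (P.lf 0 7180 0) P.nil)))))) 280)
 EL.nil)
noncomputable def S256_285_364_512_31 : EL := (EL.cons 13 (TM.mk (P.cons (P.cons (P.lf 0 60716580 0) (P.cons (P.lf 96133907 0 0) (P.cons (P.lf 6427288 0 0) (P.lf 0 2142429 0)))) (P.cons (P.cons (P.lf 0 18603384 0) (P.cons (P.lf 90739685 0 0) (P.cons (P.lf 6066644 0 0) (P.lf 0 2022214 0)))) (P.cons (P.cons (P.lf 40024347 0 0) (P.cons (P.lf 0 7937073 0) (P.cons (P.lf 0 530653 0) (P.lf 176884 0 0)))) (P.cons (P.cons (P.lf 0 3679444 0) (P.cons (P.lf 0 2391705 0) (P.cons (P.lf 0 159903 0) P.nil))) (P.cons (P.cons (P.lf 0 1517344 0) (P.cons (P.lf 185096 0 0) P.nil)) (P.cons (P.cons (P.lf 94361 0 0) P.nil) P.nil))))))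 147456)
 EL.nil)
noncomputable def S256_285_364_512_32 : EL := (EL.cons 13 (TM.mk (P.cons (P.cons (P.lf 0 7607375 0) (P.cons (P.lf 24089851 0 0) (P.cons (P.lf 0 17460406 0) (P.cons (P.lf 0 3086948 0) (P.cons (P.lf 764781 0 0) (P.cons (P.lf 56830 0 0) P.nil)))))) (P.cons (P.cons (P.lf 2884849 0 0) (P.cons (P.lf 6221780 0 0) (P.cons (P.lf 0 16667164 0) (P.cons (P.lf 0 2422935 0) (P.cons (P.lf 685065 0 0) P.nil))))) (P.cons (P.cons (P.lf 6362909 0 0) (P.cons (P.lf 0 16787004 0) (P.cons (P.lf 1755298 0 0) (P.cons (P.lf 758897 0 0) P.nil)))) (P.cons (P.cons (P.lf 0 4156105 0) (P.cons (P.lf 2082371 0 0) (P.cons (P.lf 928549 0 0) P.nil))) (P.cons (P.cons (P.lf 242025 0 0) (P.cons (P.lf 910158 0 0) P.nil)) (P.cons (P.cons (P.lf 249804 0 0) P.nil) P.nil)))))) 778393)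
 EL.nil)
noncomputable def S256_285_364_512_33 : EL := (EL.cons 14 (TM.mk (P.lf 8589934592 0 0) 0)
 EL.nil)
noncomputable def S256_285_364_512_34 : EL := (EL.cons 14 (TM.mk (P.cons (P.cons (P.lf 1076260478 0 0) (P.cons (P.lf 0 1704067072 0) (P.cons (P.lf 0 113929952 0) (P.lf 37976648 0 0)))) (P.cons (P.cons (P.lf 0 737899822 0) (P.cons (P.lf 82005112 0 0) (P.cons (P.lf 5482664 0 0) (P.lf 0 1827552 0)))) (P.cons (P.cons (P.lf 35362344 0 0) (P.cons (P.lf 39032016 0 0) (P.cons (P.lf 2609584 0 0) (P.lf 0 869856 0)))) (P.cons (P.cons (P.lf 25509008 0 0) (P.cons (P.lf 0 1937240 0) (P.cons (P.lf 0 129512 0) P.nil))) (P.cons (P.cons (P.lf 0 925320 0) (P.cons (P.lf 0 443160 0) P.nil)) (P.cons (P.cons (P.lf 0 271974 0) P.nil) P.nil)))))) 140350)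
 EL.nil)
noncomputable def S256_285_364_512_35 : EL := (EL.cons 14 (TM.mk (P.cons (P.cons (P.lf 134848128 0 0) (P.cons (P.lf 0 427016066 0) (P.cons (P.lf 309502702 0 0) (P.cons (P.lf 54719168 0 0) (P.cons (P.lf 0 13556502 0) (P.cons (P.lf 0 1007382 0) P.nil)))))) (P.cons (P.cons (P.lf 0 184907674 0) (P.cons (P.lf 313317786 0 0) (P.cons (P.lf 0 11588572 0) (P.cons (P.lf 0 11333158 0) (P.cons (P.lf 1304762 0 0) P.nil))))) (P.cons (P.cons (P.lf 72249016 0 0) (P.cons (P.lf 0 18338380 0) (P.cons (P.lf 0 15929492 0) (P.cons (P.lf 0 1557384 0) P.nil)))) (P.cons (P.cons (P.lf 316758 0 0) (P.cons (P.lf 0 16637112 0) (P.cons (P.lf 401550 0 0) P.nil))) (P.cons (P.cons (P.lf 0 4468888 0) (P.cons (P.lf 1397326 0 0) P.nil)) (P.cons (P.cons (P.lf 300848 0 0) P.nil) P.nil)))))) 3180648)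
 EL.nil)
noncomputable def S256_285_364_512_36 : EL := (EL.cons 14 (TM.mk (P.cons (P.lf 969191872 0 0) (P.cons (P.lf 961449608 0 0) (P.cons (P.lf 0 11551536 0) (P.cons (P.lf 0 3747920 0) (P.cons (P.lf 76072 0 0) (P.cons (P.lf 14360 0 0) P.nil)))))) 560)
 EL.nil)
noncomputable def S256_285_364_512_37 : EL := (EL.cons 14 (TM.mk (P.cons (P.cons (P.lf 121433160 0 0) (P.cons (P.lf 0 192267814 0) (P.cons (P.lf 0 12854576 0) (P.lf 4284858 0 0)))) (P.cons (P.cons (P.lf 37206768 0 0) (P.cons (P.lf 0 181479370 0) (P.cons (P.lf 0 12133288 0) (P.lf 4044428 0 0)))) (P.cons (P.cons (P.lf 0 80048694 0) (P.cons (P.lf 15874146 0 0) (P.cons (P.lf 1061306 0 0) (P.lf 0 353768 0)))) (P.cons (P.cons (P.lf 7358888 0 0) (P.cons (P.lf 4783410 0 0) (P.cons (P.lf 319806 0 0) P.nil))) (P.cons (P.cons (P.lf 3034688 0 0) (P.cons (P.lf 0 370192 0) P.nil)) (P.cons (P.cons (P.lf 0 188722 0) P.nil) P.nil))))))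 294912)
 EL.nil)
noncomputable def S256_285_364_512_38 : EL := (EL.cons 14 (TM.mk (P.cons (P.cons (P.lf 15214750 0 0) (P.cons (P.lf 0 48179702 0) (P.cons (P.lf 34920812 0 0) (P.cons (P.lf 6173896 0 0) (P.cons (P.lf 0 1529562 0) (P.cons (P.lf 0 113660 0) P.nil)))))) (P.cons (P.cons (P.lf 0 5769698 0) (P.cons (P.lf 0 12443560 0) (P.cons (P.lf 33334328 0 0) (P.cons (P.lf 4845870 0 0) (P.cons (P.lf 0 1370130 0) P.nil))))) (P.cons (P.cons (P.lf 0 12725818 0) (P.cons (P.lf 33574008 0 0) (P.cons (P.lf 0 3510596 0) (P.cons (P.lf 0 1517794 0) P.nil)))) (P.cons (P.cons (P.lf 8312210 0 0) (P.cons (P.lf 0 4164742 0) (P.cons (P.lf 0 1857098 0) P.nil))) (P.cons (P.cons (P.lf 0 484050 0) (P.cons (P.lf 0 1820316 0) P.nil)) (P.cons (P.cons (P.lf 0 499608 0) P.nil) P.nil)))))) 1556786)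
 EL.nil)
noncomputable def S256_285_364_512_39 : EL := (EL.cons 14 (TM.mk (P.cons (P.lf 109352740 0 0) (P.cons (P.lf 216958378 0 0) (P.cons (P.lf 105005926 0 0) (P.cons (P.lf 0 3431614 0) (P.cons (P.lf 0 806288 0) (P.cons (P.lf 30348 0 0) P.nil)))))) 5440)
 EL.nil)
noncomputable def S256_285_364_512_40 : EL := (EL.cons 14 (TM.mk (P.cons (P.cons (P.lf 13701154 0 0) (P.cons (P.lf 0 21693342 0) (P.cons (P.lf 0 1450366 0) (P.lf 483454 0 0)))) (P.cons (P.cons (P.lf 17789700 0 0) (P.cons (P.lf 0 41996144 0) (P.cons (P.lf 0 2807764 0) (P.lf 935920 0 0)))) (P.cons (P.cons (P.lf 0 5030636 0) (P.cons (P.lf 0 18262908 0) (P.cons (P.lf 0 1221014 0) (P.lf 407004 0 0)))) (P.cons (P.cons (P.lf 0 8232370 0) (P.cons (P.lf 2644396 0 0) (P.cons (P.lf 176798 0 0) P.nil))) (P.cons (P.cons (P.lf 1258550 0 0) (P.cons (P.lf 549758 0 0) P.nil)) (P.cons (P.cons (P.lf 343934 0 0) P.nil) P.nil))))))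 252398)
 EL.nil)
noncomputable def S256_285_364_512_41 : EL := (EL.cons 14 (TM.mk (P.cons (P.cons (P.lf 1716660 0 0) (P.cons (P.lf 0 5436056 0) (P.cons (P.lf 3940072 0 0) (P.cons (P.lf 696592 0 0) (P.cons (P.lf 0 172578 0) (P.cons (P.lf 0 12824 0) P.nil)))))) (P.cons (P.cons (P.lf 1051960 0 0) (P.cons (P.lf 0 6796622 0) (P.cons (P.lf 7669668 0 0) (P.cons (P.lf 1237782 0 0) (P.cons (P.lf 0 325790 0) P.nil))))) (P.cons (P.cons (P.lf 0 2102086 0) (P.cons (P.lf 2460128 0 0) (P.cons (P.lf 3287968 0 0) (P.cons (P.lf 362832 0 0) P.nil)))) (P.cons (P.cons (P.lf 0 485390 0) (P.cons (P.lf 3325706 0 0) (P.cons (P.lf 0 662528 0) P.nil))) (P.cons (P.cons (P.lf 895514 0 0) (P.cons (P.lf 0 711680 0) P.nil)) (P.cons (P.cons (P.lf 0 116200 0) P.nil) P.nil)))))) 1288884)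
 EL.nil)
noncomputable def S256_285_364_512_42 : EL := (EL.cons 14 (TM.mk (P.cons (P.lf 12338136 0 0) (P.cons (P.lf 36718724 0 0) (P.cons (P.lf 35984236 0 0) (P.cons (P.lf 11026388 0 0) (P.cons (P.lf 0 709966 0) (P.cons (P.lf 0 125918 0) P.nil)))))) 9172)
 EL.nil)
noncomputable def S256_285_364_512_43 : EL := (EL.cons 14 (TM.mk (P.cons (P.cons (P.lf 1545884 0 0) (P.cons (P.lf 0 2447632 0) (P.cons (P.lf 0 163642 0) (P.lf 54546 0 0)))) (P.cons (P.cons (P.lf 3540724 0 0) (P.cons (P.lf 0 7166454 0) (P.cons (P.lf 0 479132 0) (P.lf 159710 0 0)))) (P.cons (P.cons (P.lf 1405130 0 0) (P.cons (P.lf 0 6731930 0) (P.cons (P.lf 0 450080 0) (P.lf 150026 0 0)))) (P.cons (P.cons (P.lf 0 1521816 0) (P.cons (P.lf 0 1679814 0) (P.cons (P.lf 0 112308 0) P.nil))) (P.cons (P.cons (P.lf 0 780302 0) (P.cons (P.lf 400698 0 0) P.nil)) (P.cons (P.cons (P.lf 193118 0 0) P.nil) P.nil)))))) 270734)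
 EL.nil)
noncomputable def S256_285_364_512_44 : EL := (EL.cons 14 (TM.mk (P.cons (P.cons (P.lf 193688 0 0) (P.cons (P.lf 0 613342 0) (P.cons (P.lf 444552 0 0) (P.cons (P.lf 78594 0 0) (P.cons (P.lf 0 19470 0) (P.cons (P.lf 0 1446 0) P.nil)))))) (P.cons (P.cons (P.lf 310832 0 0) (P.cons (P.lf 0 1375298 0) (P.cons (P.lf 1306360 0 0) (P.cons (P.lf 217624 0 0) (P.cons (P.lf 0 56074 0) P.nil))))) (P.cons (P.cons (P.lf 0 121740 0) (P.cons (P.lf 0 475844 0) (P.cons (P.lf 1224124 0 0) (P.cons (P.lf 178542 0 0) P.nil)))) (P.cons (P.cons (P.lf 0 292210 0) (P.cons (P.lf 662102 0 0) (P.cons (P.lf 281228 0 0) P.nil))) (P.cons (P.cons (P.lf 49094 0 0) (P.cons (P.lf 291548 0 0) P.nil)) (P.cons (P.cons (P.lf 88704 0 0) P.nil) P.nil)))))) 635260)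
 EL.nil)
noncomputable def S256_285_364_512_45 : EL := (EL.cons 14 (TM.mk (P.cons (P.cons (P.lf 16895554 0 0) (P.cons (P.lf 0 80253320 0) (P.cons (P.lf 121701310 0 0) (P.cons (P.lf 0 48283286 0) (P.cons (P.lf 0 18546558 0) (P.cons (P.lf 3205694 0 0) P.nil)))))) (P.cons (P.cons (P.lf 0 34751512 0) (P.cons (P.lf 113907728 0 0) (P.cons (P.lf 0 91733000 0) (P.cons (P.lf 0 6141172 0) (P.cons (P.lf 5925964 0 0) P.nil))))) (P.cons (P.cons (P.lf 25491538 0 0) (P.cons (P.lf 0 46455702 0) (P.cons (P.lf 3927228 0 0) (P.cons (P.lf 6118076 0 0) P.nil)))) (P.cons (P.cons (P.lf 0 6527470 0) (P.cons (P.lf 0 731160 0) (P.cons (P.lf 6919196 0 0) P.nil))) (P.cons (P.cons (P.lf 0 853338 0) (P.cons (P.lf 3757794 0 0) P.nil)) (P.cons (P.cons (P.lf 653090 0 0) P.nil) P.nil)))))) 7916756)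
 EL.nil)
noncomputable def S256_285_364_512_46 : EL := (EL.cons 15 (TM.mk (P.lf 4294967296 0 0) 0)
 EL.nil)
noncomputable def S256_285_364_512_47 : EL := (EL.cons 15 (TM.mk (P.cons (P.cons (P.lf 538130239 0 0) (P.cons (P.lf 0 852033536 0) (P.cons (P.lf 0 56964976 0) (P.lf 18988324 0 0)))) (P.cons (P.cons (P.lf 0 368949911 0) (P.cons (P.lf 41002556 0 0) (P.cons (P.lf 2741332 0 0) (P.lf 0 913776 0)))) (P.cons (P.cons (P.lf 17681172 0 0) (P.cons (P.lf 19516008 0 0) (P.cons (P.lf 1304792 0 0) (P.lf 0 434928 0)))) (P.cons (P.cons (P.lf 12754504 0 0) (P.cons (P.lf 0 968620 0) (P.cons (P.lf 0 64756 0) P.nil))) (P.cons (P.cons (P.lf 0 462660 0) (P.cons (P.lf 0 221580 0) P.nil)) (P.cons (P.cons (P.lf 0 135987 0) P.nil) P.nil)))))) 70175)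
 EL.nil)
noncomputable def S256_285_364_512_48 : EL := (EL.cons 15 (TM.mk (P.cons (P.cons (P.lf 67424064 0 0) (P.cons (P.lf 0 213508033 0) (P.cons (P.lf 154751351 0 0) (P.cons (P.lf 27359584 0 0) (P.cons (P.lf 0 6778251 0) (P.cons (P.lf 0 503691 0) P.nil)))))) (P.cons (P.cons (P.lf 0 92453837 0) (P.cons (P.lf 156658893 0 0) (P.cons (P.lf 0 5794286 0) (P.cons (P.lf 0 5666579 0) (P.cons (P.lf 652381 0 0) P.nil))))) (P.cons (P.cons (P.lf 36124508 0 0) (P.cons (P.lf 0 9169190 0) (P.cons (P.lf 0 7964746 0) (P.cons (P.lf 0 778692 0) P.nil)))) (P.cons (P.cons (P.lf 158379 0 0) (P.cons (P.lf 0 8318556 0) (P.cons (P.lf 200775 0 0) P.nil))) (P.cons (P.cons (P.lf 0 2234444 0) (P.cons (P.lf 698663 0 0) P.nil)) (P.cons (P.cons (P.lf 150424 0 0) P.nil) P.nil)))))) 1590324)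
 EL.nil)
noncomputable def S256_285_364_512 : SL := (SL.cons S256_285_364_512_0 (SL.cons S256_285_364_512_1 (SL.cons S256_285_364_512_2 (SL.cons S256_285_364_512_3 (SL.cons S256_285_364_512_4 (SL.cons S256_285_364_512_5 (SL.cons S256_285_364_512_6 (SL.cons S256_285_364_512_7 (SL.cons S256_285_364_512_8 (SL.cons S256_285_364_512_9 (SL.cons S256_285_364_512_10 (SL.cons S256_285_364_512_11 (SL.cons S256_285_364_512_12 (SL.cons S256_285_364_512_13 (SL.cons S256_285_364_512_14 (SL.cons S256_285_364_512_15 (SL.cons S256_285_364_512_16 (SL.cons S256_285_364_512_17 (SL.cons S256_285_364_512_18 (SL.cons S256_285_364_512_19 (SL.cons S256_285_364_512_20 (SL.cons S256_285_364_512_21 (SL.cons S256_285_364_512_22 (SL.cons S256_285_364_512_23 (SL.cons S256_285_364_512_24 (SL.cons S256_285_364_512_25 (SL.cons S256_285_364_512_26 (SL.cons S256_285_364_512_27 (SL.cons S256_285_364_512_28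 (SL.cons S256_285_364_512_29 (SL.cons S256_285_364_512_30 (SL.cons S256_285_364_512_31 (SL.cons S256_285_364_512_32 (SL.cons S256_285_364_512_33 (SL.cons S256_285_364_512_34 (SL.cons S256_285_364_512_35 (SL.cons S256_285_364_512_36 (SL.cons S256_285_364_512_37 (SL.cons S256_285_364_512_38 (SL.cons S256_285_364_512_39 (SL.cons S256_285_364_512_40 (SL.cons S256_285_364_512_41 (SL.cons S256_285_364_512_42 (SL.cons S256_285_364_512_43 (SL.cons S256_285_364_512_44 (SL.cons S256_285_364_512_45 (SL.cons S256_285_364_512_46 (SL.cons S256_285_364_512_47 (SL.cons S256_285_364_512_48 SL.nil)))))))))))))))))))))))))))))))))))))))))))))))))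
noncomputable def S256_285_438_512_0 : EL := (EL.cons 0 (TM.mk (P.cons (P.lf 8359606057 0 0) (P.cons (P.lf 0 190686074 0) (P.cons (P.lf 0 92290364 0) (P.cons (P.lf 3016066 0 0) (P.cons (P.lf 708651 0 0) (P.cons (P.lf 0 26673 0) P.nil)))))) 4788)
 (EL.cons 1 (TM.mk (P.cons (P.lf 450679505 0 0) (P.cons (P.lf 439849933 0 0) (P.cons (P.lf 0 16100088 0) (P.cons (P.lf 0 5127871 0) (P.cons (P.lf 176304 0 0) (P.cons (P.lf 32482 0 0) P.nil)))))) 1651)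
 (EL.cons 5 (TM.mk (P.cons (P.lf 4329140030 0 0) (P.cons (P.lf 67799490 0 0) (P.cons (P.lf 32814348 0 0) (P.cons (P.lf 0 1072376 0) (P.cons (P.lf 0 251962 0) (P.cons (P.lf 9484 0 0) P.nil)))))) 1837)
 (EL.cons 9 (TM.mk (P.lf 6442450944 0 0) 2)
 EL.nil))))
noncomputable def S256_285_438_512_1 : EL := (EL.cons 0 (TM.mk (P.cons (P.cons (P.lf 0 290179246 0) (P.cons (P.lf 0 840731751 0) (P.cons (P.lf 0 13381356 0) (P.lf 4460455 0 0)))) (P.cons (P.cons (P.lf 0 1081745449 0) (P.cons (P.lf 119908756 0 0) (P.cons (P.lf 1908497 0 0) (P.lf 0 636163 0)))) (P.cons (P.cons (P.lf 206210886 0 0) (P.cons (P.lf 53886872 0 0) (P.cons (P.lf 857668 0 0) (P.lf 0 285887 0)))) (P.cons (P.cons (P.lf 79344380 0 0) (P.cons (P.lf 0 5882726 0) (P.cons (P.lf 0 93616 0) P.nil))) (P.cons (P.cons (P.lf 0 8465035 0) (P.cons (P.lf 0 1243877 0) P.nil)) (P.cons (P.cons (P.lf 0 1688863 0) P.nil) P.nil))))))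 435754)
 (EL.cons 1 (TM.mk (P.cons (P.cons (P.lf 1129934247 0 0) (P.cons (P.lf 0 116222178 0) (P.cons (P.lf 0 1849826 0) (P.lf 616603 0 0)))) (P.cons (P.cons (P.lf 0 268641300 0) (P.cons (P.lf 0 105540805 0) (P.cons (P.lf 0 1679817 0) (P.lf 559938 0 0)))) (P.cons (P.cons (P.lf 0 172655138 0) (P.cons (P.lf 15587317 0 0) (P.cons (P.lf 248086 0 0) (P.lf 0 82691 0)))) (P.cons (P.cons (P.lf 25091607 0 0) (P.cons (P.lf 4482749 0 0) (P.cons (P.lf 71341 0 0) P.nil))) (P.cons (P.cons (P.lf 6544923 0 0) (P.cons (P.lf 0 514808 0) P.nil)) (P.cons (P.cons (P.lf 0 706259 0) P.nil) P.nil)))))) 322825)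
 (EL.cons 5 (TM.mk (P.cons (P.cons (P.lf 273592644 0 0) (P.cons (P.lf 0 461616840 0) (P.cons (P.lf 0 7347244 0) (P.lf 2449078 0 0)))) (P.cons (P.cons (P.lf 0 206771194 0) (P.cons (P.lf 0 6034440 0) (P.cons (P.lf 0 96042 0) (P.lf 32012 0 0)))) (P.cons (P.cons (P.lf 0 26210708 0) (P.cons (P.lf 0 1739358 0) (P.cons (P.lf 0 27680 0) (P.lf 9222 0 0)))) (P.cons (P.cons (P.lf 0 7374938 0) (P.cons (P.lf 1227018 0 0) (P.cons (P.lf 19524 0 0) P.nil))) (P.cons (P.cons (P.lf 2029664 0 0) (P.cons (P.lf 244474 0 0) P.nil)) (P.cons (P.cons (P.lf 379803 0 0) P.nil) P.nil)))))) 204191)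
 (EL.cons 9 (TM.mk (P.cons (P.cons (P.lf 150368644 0 0) (P.cons (P.lf 0 671067948 0) (P.cons (P.lf 0 10680930 0) (P.lf 3560310 0 0)))) (P.cons (P.cons (P.lf 0 521816278 0) (P.cons (P.lf 32293920 0 0) (P.cons (P.lf 513996 0 0) (P.lf 0 171330 0)))) (P.cons (P.cons (P.lf 41566512 0 0) (P.cons (P.lf 15370950 0 0) (P.cons (P.lf 244644 0 0) (P.lf 0 81546 0)))) (P.cons (P.cons (P.lf 18385044 0 0) (P.cons (P.lf 0 762888 0) (P.cons (P.lf 0 12138 0) P.nil))) (P.cons (P.cons (P.lf 0 864804 0) (P.cons (P.lf 0 174516 0) P.nil)) (P.cons (P.cons (P.lf 0 194710 0) P.nil) P.nil)))))) 34919)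
 (EL.cons 2 (TM.mk (P.cons (P.cons (P.lf 0 329194372 0) (P.cons (P.lf 0 12202785 0) (P.cons (P.lf 6046523 0 0) (P.cons (P.lf 54866 0 0) (P.lf 0 13716 0))))) (P.cons (P.cons (P.lf 0 316003393 0) (P.cons (P.lf 0 11713812 0) (P.cons (P.lf 5804235 0 0) (P.cons (P.lf 52669 0 0) (P.lf 0 13165 0))))) (P.cons (P.cons (P.lf 19512014 0 0) (P.cons (P.lf 723282 0 0) (P.cons (P.lf 0 358388 0) (P.cons (P.lf 0 3251 0) P.nil)))) (P.cons (P.cons (P.lf 6050806 0 0) (P.cons (P.lf 224294 0 0) (P.cons (P.lf 0 111138 0) P.nil))) (P.cons (P.cons (P.lf 0 332561 0) (P.cons (P.lf 0 12327 0) P.nil)) (P.cons (P.cons (P.lf 0 59281 0) P.nil) P.nil)))))) 16662)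
 (EL.cons 6 (TM.mk (P.cons (P.cons (P.lf 1543646991 0 0) (P.cons (P.lf 57220887 0 0) (P.cons (P.lf 0 28353156 0) (P.cons (P.lf 0 257286 0) (P.lf 64320 0 0))))) (P.cons (P.cons (P.lf 0 74285196 0) (P.cons (P.lf 0 2753649 0) (P.cons (P.lf 1364442 0 0) (P.cons (P.lf 12381 0 0) (P.lf 0 3093 0))))) (P.cons (P.cons (P.lf 0 35357562 0) (P.cons (P.lf 0 1310655 0) (P.cons (P.lf 649434 0 0) (P.cons (P.lf 5892 0 0) P.nil)))) (P.cons (P.cons (P.lf 1754874 0 0) (P.cons (P.lf 65049 0 0) (P.cons (P.lf 0 32229 0) P.nil))) (P.cons (P.cons (P.lf 401445 0 0) (P.cons (P.lf 14877 0 0) P.nil)) (P.cons (P.cons (P.lf 0 21777 0) P.nil) P.nil)))))) 15804)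
 EL.nil))))))
noncomputable def S256_285_438_512_2 : EL := (EL.cons 0 (TM.mk (P.cons (P.cons (P.lf 0 18099778 0) (P.cons (P.lf 61854126 0 0) (P.cons (P.lf 85429603 0 0) (P.cons (P.lf 2359952 0 0) (P.cons (P.lf 0 874648 0) (P.cons (P.lf 0 14272 0) P.nil)))))) (P.cons (P.cons (P.lf 28221789 0 0) (P.cons (P.lf 220296396 0 0) (P.cons (P.lf 0 19103857 0) (P.cons (P.lf 0 1888506 0) (P.cons (P.lf 234177 0 0) P.nil))))) (P.cons (P.cons (P.lf 123085712 0 0) (P.cons (P.lf 0 63039622 0) (P.cons (P.lf 0 10291823 0) (P.cons (P.lf 38774 0 0) P.nil)))) (P.cons (P.cons (P.lf 0 36734402 0) (P.cons (P.lf 0 22900459 0) (P.cons (P.lf 1547290 0 0) P.nil))) (P.cons (P.cons (P.lf 0 12644280 0) (P.cons (P.lf 5022434 0 0) P.nil)) (P.cons (P.cons (P.lf 3139785 0 0) P.nil) P.nil)))))) 3708117)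
 (EL.cons 1 (TM.mk (P.cons (P.cons (P.lf 52500455 0 0) (P.cons (P.lf 0 238629634 0) (P.cons (P.lf 15524211 0 0) (P.cons (P.lf 1881117 0 0) (P.cons (P.lf 0 200131 0) (P.cons (P.lf 0 3255 0) P.nil)))))) (P.cons (P.cons (P.lf 0 194117480 0) (P.cons (P.lf 75622293 0 0) (P.cons (P.lf 17723693 0 0) (P.cons (P.lf 124664 0 0) (P.cons (P.lf 0 171105 0) P.nil))))) (P.cons (P.cons (P.lf 48618433 0 0) (P.cons (P.lf 48310452 0 0) (P.cons (P.lf 0 3244299 0) (P.cons (P.lf 0 384048 0) P.nil)))) (P.cons (P.cons (P.lf 29457594 0 0) (P.cons (P.lf 0 11283331 0) (P.cons (P.lf 0 1208782 0) P.nil))) (P.cons (P.cons (P.lf 0 7139170 0) (P.cons (P.lf 0 2639935 0) P.nil)) (P.cons (P.cons (P.lf 0 1567839 0) P.nil) P.nil)))))) 1703849)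
 (EL.cons 5 (TM.mk (P.cons (P.cons (P.lf 10413070 0 0) (P.cons (P.lf 0 57495193 0) (P.cons (P.lf 48280805 0 0) (P.cons (P.lf 1871067 0 0) (P.cons (P.lf 0 509547 0) (P.cons (P.lf 0 8307 0) P.nil)))))) (P.cons (P.cons (P.lf 0 37640909 0) (P.cons (P.lf 46583722 0 0) (P.cons (P.lf 1155888 0 0) (P.cons (P.lf 0 233957 0) (P.cons (P.lf 0 4281 0) P.nil))))) (P.cons (P.cons (P.lf 6335962 0 0) (P.cons (P.lf 7484342 0 0) (P.cons (P.lf 0 24004 0) (P.cons (P.lf 0 44249 0) P.nil)))) (P.cons (P.cons (P.lf 6402485 0 0) (P.cons (P.lf 1411532 0 0) (P.cons (P.lf 0 302496 0) P.nil))) (P.cons (P.cons (P.lf 1378577 0 0) (P.cons (P.lf 0 1017042 0) P.nil)) (P.cons (P.cons (P.lf 0 699017 0) P.nil) P.nil)))))) 1747916)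
 (EL.cons 9 (TM.mk (P.cons (P.cons (P.lf 3509646 0 0) (P.cons (P.lf 0 31325835 0) (P.cons (P.lf 69402163 0 0) (P.cons (P.lf 2391321 0 0) (P.cons (P.lf 0 723999 0) (P.cons (P.lf 0 11805 0) P.nil)))))) (P.cons (P.cons (P.lf 0 24358681 0) (P.cons (P.lf 110215870 0 0) (P.cons (P.lf 0 4973461 0) (P.cons (P.lf 0 798901 0) (P.cons (P.lf 69681 0 0) P.nil))))) (P.cons (P.cons (P.lf 44205664 0 0) (P.cons (P.lf 0 13173289 0) (P.cons (P.lf 0 3249972 0) (P.cons (P.lf 0 26889 0) P.nil)))) (P.cons (P.cons (P.lf 0 5875263 0) (P.cons (P.lf 0 5938980 0) (P.cons (P.lf 218503 0 0) P.nil))) (P.cons (P.cons (P.lf 0 2750433 0) (P.cons (P.lf 678259 0 0) P.nil)) (P.cons (P.cons (P.lf 368242 0 0) P.nil) P.nil)))))) 505724)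
 (EL.cons 2 (TM.mk (P.cons (P.cons (P.lf 0 15366976 0) (P.cons (P.lf 68010406 0 0) (P.cons (P.lf 3915961 0 0) (P.cons (P.lf 0 1580473 0) (P.cons (P.lf 0 45601 0) (P.cons (P.lf 9354 0 0) P.nil)))))) (P.cons (P.cons (P.lf 38575991 0 0) (P.cons (P.lf 63961678 0 0) (P.cons (P.lf 2604684 0 0) (P.cons (P.lf 0 1449855 0) (P.cons (P.lf 0 39391 0) P.nil))))) (P.cons (P.cons (P.lf 47853292 0 0) (P.cons (P.lf 0 7029905 0) (P.cons (P.lf 0 1345415 0) (P.cons (P.lf 195238 0 0) P.nil)))) (P.cons (P.cons (P.lf 0 8834911 0) (P.cons (P.lf 0 2822360 0) (P.cons (P.lf 30082 0 0) P.nil))) (P.cons (P.cons (P.lf 0 2459131 0) (P.cons (P.lf 224566 0 0) P.nil)) (P.cons (P.cons (P.lf 345279 0 0) P.nil) P.nil)))))) 364882)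
 (EL.cons 6 (TM.mk (P.cons (P.cons (P.lf 72058320 0 0) (P.cons (P.lf 0 318912102 0) (P.cons (P.lf 0 18362610 0) (P.cons (P.lf 7411116 0 0) (P.cons (P.lf 213852 0 0) (P.cons (P.lf 0 43878 0) P.nil)))))) (P.cons (P.cons (P.lf 0 253527822 0) (P.cons (P.lf 21553278 0 0) (P.cons (P.lf 6296652 0 0) (P.cons (P.lf 0 672186 0) (P.cons (P.lf 0 30852 0) P.nil))))) (P.cons (P.cons (P.lf 30302304 0 0) (P.cons (P.lf 15110388 0 0) (P.cons (P.lf 184518 0 0) (P.cons (P.lf 0 327912 0) P.nil)))) (P.cons (P.cons (P.lf 13661340 0 0) (P.cons (P.lf 0 933702 0) (P.cons (P.lf 0 327222 0) P.nil))) (P.cons (P.cons (P.lf 0 1560186 0) (P.cons (P.lf 0 358620 0) P.nil)) (P.cons (P.cons (P.lf 0 318564 0) P.nil) P.nil)))))) 216912)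
 EL.nil))))))
noncomputable def S256_285_438_512_3 : EL := (EL.cons 0 (TM.mk (P.cons (P.lf 96110806 0 0) (P.cons (P.lf 190686074 0 0) (P.cons (P.lf 92290364 0 0) (P.cons (P.lf 0 3016066 0) (P.cons (P.lf 0 708651 0) (P.cons (P.lf 26673 0 0) P.nil)))))) 4788)
 (EL.cons 1 (TM.mk (P.cons (P.lf 0 450679505 0) (P.cons (P.lf 0 439849933 0) (P.cons (P.lf 16100088 0 0) (P.cons (P.lf 5127871 0 0) (P.cons (P.lf 0 176304 0) (P.cons (P.lf 0 32482 0) P.nil)))))) 1651)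
 (EL.cons 5 (TM.mk (P.cons (P.lf 2113310914 0 0) (P.cons (P.lf 0 67799490 0) (P.cons (P.lf 0 32814348 0) (P.cons (P.lf 1072376 0 0) (P.cons (P.lf 251962 0 0) (P.cons (P.lf 0 9484 0) P.nil)))))) 1830)
 EL.nil)))
noncomputable def S256_285_438_512_4 : EL := (EL.cons 0 (TM.mk (P.cons (P.cons (P.lf 2243253 0 0) (P.cons (P.lf 0 10011232 0) (P.cons (P.lf 0 159340 0) (P.lf 53112 0 0)))) (P.cons (P.cons (P.lf 0 3333974 0) (P.cons (P.lf 0 19380747 0) (P.cons (P.lf 0 308469 0) (P.lf 102823 0 0)))) (P.cons (P.cons (P.lf 0 12670725 0) (P.cons (P.lf 0 8428125 0) (P.cons (P.lf 0 134143 0) (P.lf 44713 0 0)))) (P.cons (P.cons (P.lf 0 6041019 0) (P.cons (P.lf 1220359 0 0) (P.cons (P.lf 19422 0 0) P.nil))) (P.cons (P.cons (P.lf 1354470 0 0) (P.cons (P.lf 253706 0 0) P.nil)) (P.cons (P.cons (P.lf 273431 0 0) P.nil) P.nil)))))) 90899)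
 (EL.cons 1 (TM.mk (P.cons (P.cons (P.lf 0 10518986 0) (P.cons (P.lf 46944331 0 0) (P.cons (P.lf 747180 0 0) (P.lf 0 249058 0)))) (P.cons (P.cons (P.lf 26237259 0 0) (P.cons (P.lf 43557176 0 0) (P.cons (P.lf 693268 0 0) (P.lf 0 231090 0)))) (P.cons (P.cons (P.lf 33094333 0 0) (P.cons (P.lf 0 4957134 0) (P.cons (P.lf 0 78898 0) (P.lf 26298 0 0)))) (P.cons (P.cons (P.lf 0 5308383 0) (P.cons (P.lf 0 1449495 0) (P.cons (P.lf 0 23068 0) P.nil))) (P.cons (P.cons (P.lf 0 1510293 0) (P.cons (P.lf 146775 0 0) P.nil)) (P.cons (P.cons (P.lf 165215 0 0) P.nil) P.nil)))))) 85530)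
 (EL.cons 5 (TM.mk (P.cons (P.cons (P.lf 49325278 0 0) (P.cons (P.lf 0 220129764 0) (P.cons (P.lf 0 3503654 0) (P.lf 1167884 0 0)))) (P.cons (P.cons (P.lf 0 172753344 0) (P.cons (P.lf 17655570 0 0) (P.cons (P.lf 281010 0 0) (P.lf 0 93668 0)))) (P.cons (P.cons (P.lf 18360650 0 0) (P.cons (P.lf 8120316 0 0) (P.cons (P.lf 129242 0 0) (P.lf 0 43080 0)))) (P.cons (P.cons (P.lf 8276264 0 0) (P.cons (P.lf 0 688200 0) (P.cons (P.lf 0 10950 0) P.nil))) (P.cons (P.cons (P.lf 0 769856 0) (P.cons (P.lf 0 148378 0) P.nil)) (P.cons (P.cons (P.lf 0 162122 0) P.nil) P.nil)))))) 43590)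
 EL.nil)))
noncomputable def S256_285_438_512_5 : EL := (EL.cons 0 (TM.mk (P.cons (P.cons (P.lf 52356 0 0) (P.cons (P.lf 0 467328 0) (P.cons (P.lf 1035365 0 0) (P.cons (P.lf 35673 0 0) (P.cons (P.lf 0 10800 0) (P.cons (P.lf 0 175 0) P.nil)))))) (P.cons (P.cons (P.lf 0 259511 0) (P.cons (P.lf 717045 0 0) (P.cons (P.lf 1979994 0 0) (P.cons (P.lf 58860 0 0) (P.cons (P.lf 0 20388 0) P.nil))))) (P.cons (P.cons (P.lf 0 11223 0) (P.cons (P.lf 2616932 0 0) (P.cons (P.lf 798517 0 0) (P.cons (P.lf 10207 0 0) P.nil)))) (P.cons (P.cons (P.lf 870175 0 0) (P.cons (P.lf 1115036 0 0) (P.cons (P.lf 0 196671 0) P.nil))) (P.cons (P.cons (P.lf 429347 0 0) (P.cons (P.lf 0 402528 0) P.nil)) (P.cons (P.cons (P.lf 0 178080 0) P.nil) P.nil)))))) 333324)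
 (EL.cons 1 (TM.mk (P.cons (P.cons (P.lf 0 245514 0) (P.cons (P.lf 2191385 0 0) (P.cons (P.lf 0 4855003 0) (P.cons (P.lf 0 167283 0) (P.cons (P.lf 50645 0 0) (P.cons (P.lf 823 0 0) P.nil)))))) (P.cons (P.cons (P.lf 1464386 0 0) (P.cons (P.lf 0 5571382 0) (P.cons (P.lf 0 4390423 0) (P.cons (P.lf 0 107375 0) (P.cons (P.lf 44553 0 0) P.nil))))) (P.cons (P.cons (P.lf 0 1420563 0) (P.cons (P.lf 0 6681596 0) (P.cons (P.lf 740345 0 0) (P.cons (P.lf 62400 0 0) P.nil)))) (P.cons (P.cons (P.lf 0 2665160 0) (P.cons (P.lf 1565349 0 0) (P.cons (P.lf 249412 0 0) P.nil))) (P.cons (P.cons (P.lf 684519 0 0) (P.cons (P.lf 413690 0 0) P.nil)) (P.cons (P.cons (P.lf 183172 0 0) P.nil) P.nil)))))) 243145)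
 (EL.cons 5 (TM.mk (P.cons (P.cons (P.lf 1151264 0 0) (P.cons (P.lf 0 10275782 0) (P.cons (P.lf 22765922 0 0) (P.cons (P.lf 784422 0 0) (P.cons (P.lf 0 237492 0) (P.cons (P.lf 0 3870 0) P.nil)))))) (P.cons (P.cons (P.lf 0 8027288 0) (P.cons (P.lf 36483672 0 0) (P.cons (P.lf 0 2361818 0) (P.cons (P.lf 0 287228 0) (P.cons (P.lf 30474 0 0) P.nil))))) (P.cons (P.cons (P.lf 14739210 0 0) (P.cons (P.lf 0 5321560 0) (P.cons (P.lf 0 1367240 0) (P.cons (P.lf 0 12592 0) P.nil)))) (P.cons (P.cons (P.lf 0 2267816 0) (P.cons (P.lf 0 2376116 0) (P.cons (P.lf 142760 0 0) P.nil))) (P.cons (P.cons (P.lf 0 1069466 0) (P.cons (P.lf 369206 0 0) P.nil)) (P.cons (P.cons (P.lf 186064 0 0) P.nil) P.nil)))))) 282756)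
 EL.nil)))
noncomputable def S256_285_438_512_6 : EL := (EL.cons 12 (TM.mk (P.lf 8589934592 0 0) 0)
 (EL.cons 3 (TM.mk (P.cons (P.lf 454308690 0 0) (P.cons (P.lf 450679503 0 0) (P.cons (P.lf 0 5414782 0) (P.cons (P.lf 0 1756837 0) (P.cons (P.lf 35658 0 0) (P.cons (P.lf 6731 0 0) P.nil)))))) 269)
 (EL.cons 7 (TM.mk (P.cons (P.lf 0 2130328762 0) (P.cons (P.lf 34172730 0 0) (P.cons (P.lf 16813380 0 0) (P.cons (P.lf 0 270802 0) (P.cons (P.lf 0 64991 0) (P.cons (P.lf 1601 0 0) P.nil)))))) 330)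
 EL.nil)))
noncomputable def S256_285_438_512_7 : EL := (EL.cons 12 (TM.mk (P.cons (P.cons (P.lf 200491526 0 0) (P.cons (P.lf 0 894757264 0) (P.cons (P.lf 0 14241240 0) (P.lf 4747080 0 0)))) (P.cons (P.cons (P.lf 0 695755038 0) (P.cons (P.lf 43058560 0 0) (P.cons (P.lf 685328 0 0) (P.lf 0 228440 0)))) (P.cons (P.cons (P.lf 55422016 0 0) (P.cons (P.lf 20494600 0 0) (P.cons (P.lf 326192 0 0) (P.lf 0 108728 0)))) (P.cons (P.cons (P.lf 24513392 0 0) (P.cons (P.lf 0 1017184 0) (P.cons (P.lf 0 16184 0) P.nil))) (P.cons (P.cons (P.lf 0 1153072 0) (P.cons (P.lf 0 232688 0) P.nil)) (P.cons (P.cons (P.lf 0 259614 0) P.nil) P.nil)))))) 46534)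
 (EL.cons 3 (TM.mk (P.cons (P.cons (P.lf 0 2283349198 0) (P.cons (P.lf 94644722 0 0) (P.cons (P.lf 1506392 0 0) (P.lf 0 502130 0)))) (P.cons (P.cons (P.lf 357654609 0 0) (P.cons (P.lf 89334060 0 0) (P.cons (P.lf 1421868 0 0) (P.lf 0 473956 0)))) (P.cons (P.cons (P.lf 215061934 0 0) (P.cons (P.lf 0 7814122 0) (P.cons (P.lf 0 124370 0) (P.lf 41456 0 0)))) (P.cons (P.cons (P.lf 0 14029344 0) (P.cons (P.lf 0 2354654 0) (P.cons (P.lf 0 37474 0) P.nil))) (P.cons (P.cons (P.lf 0 3800496 0) (P.cons (P.lf 182226 0 0) P.nil)) (P.cons (P.cons (P.lf 250168 0 0) P.nil) P.nil)))))) 218192)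
 (EL.cons 7 (TM.mk (P.cons (P.cons (P.lf 0 223661251 0) (P.cons (P.lf 232667051 0 0) (P.cons (P.lf 3703207 0 0) (P.lf 0 1234403 0)))) (P.cons (P.cons (P.lf 27119134 0 0) (P.cons (P.lf 6773746 0 0) (P.cons (P.lf 107810 0 0) (P.lf 0 35936 0)))) (P.cons (P.cons (P.lf 29975803 0 0) (P.cons (P.lf 2821638 0 0) (P.cons (P.lf 44909 0 0) (P.lf 0 14969 0)))) (P.cons (P.cons (P.lf 10004907 0 0) (P.cons (P.lf 0 549302 0) (P.cons (P.lf 0 8739 0) P.nil))) (P.cons (P.cons (P.lf 0 965224 0) (P.cons (P.lf 0 117722 0) P.nil)) (P.cons (P.cons (P.lf 0 193612 0) P.nil) P.nil)))))) 106051)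
 (EL.cons 10 (TM.mk (P.cons (P.cons (P.lf 0 3112155018 0) (P.cons (P.lf 0 115363341 0) (P.cons (P.lf 57162951 0 0) (P.cons (P.lf 518718 0 0) (P.lf 0 129678 0))))) (P.cons (P.cons (P.lf 99844524 0 0) (P.cons (P.lf 3701100 0 0) (P.cons (P.lf 0 1833906 0) (P.cons (P.lf 0 16641 0) (P.lf 4158 0 0))))) (P.cons (P.cons (P.lf 48323856 0 0) (P.cons (P.lf 1791297 0 0) (P.cons (P.lf 0 887595 0) (P.cons (P.lf 0 8052 0) P.nil)))) (P.cons (P.cons (P.lf 0 1579227 0) (P.cons (P.lf 0 58539 0) (P.cons (P.lf 29004 0 0) P.nil))) (P.cons (P.cons (P.lf 0 371049 0) (P.cons (P.lf 0 13752 0) P.nil)) (P.cons (P.cons (P.lf 13965 0 0) P.nil) P.nil)))))) 12969)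
 EL.nil))))
noncomputable def S256_285_438_512_8 : EL := (EL.cons 12 (TM.mk (P.cons (P.cons (P.lf 4679528 0 0) (P.cons (P.lf 0 41767780 0) (P.cons (P.lf 92536218 0 0) (P.cons (P.lf 3188428 0 0) (P.cons (P.lf 0 965332 0) (P.cons (P.lf 0 15740 0) P.nil)))))) (P.cons (P.cons (P.lf 0 32478242 0) (P.cons (P.lf 146954494 0 0) (P.cons (P.lf 0 6631282 0) (P.cons (P.lf 0 1065202 0) (P.cons (P.lf 92908 0 0) P.nil))))) (P.cons (P.cons (P.lf 58940886 0 0) (P.cons (P.lf 0 17564386 0) (P.cons (P.lf 0 4333296 0) (P.cons (P.lf 0 35852 0) P.nil)))) (P.cons (P.cons (P.lf 0 7833684 0) (P.cons (P.lf 0 7918640 0) (P.cons (P.lf 291338 0 0) P.nil))) (P.cons (P.cons (P.lf 0 3667244 0) (P.cons (P.lf 904346 0 0) P.nil)) (P.cons (P.cons (P.lf 490990 0 0) P.nil) P.nil)))))) 674270)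
 (EL.cons 3 (TM.mk (P.cons (P.cons (P.lf 0 106835534 0) (P.cons (P.lf 482310184 0 0) (P.cons (P.lf 0 16969702 0) (P.cons (P.lf 0 3343422 0) (P.cons (P.lf 255270 0 0) (P.cons (P.lf 4161 0 0) P.nil)))))) (P.cons (P.cons (P.lf 388054530 0 0) (P.cons (P.lf 0 114142900 0) (P.cons (P.lf 0 23894032 0) (P.cons (P.lf 0 97200 0) (P.cons (P.lf 228665 0 0) P.nil))))) (P.cons (P.cons (P.lf 0 78772909 0) (P.cons (P.lf 0 72535659 0) (P.cons (P.lf 2564401 0 0) (P.cons (P.lf 503212 0 0) P.nil)))) (P.cons (P.cons (P.lf 0 46608028 0) (P.cons (P.lf 11599464 0 0) (P.cons (P.lf 1204697 0 0) P.nil))) (P.cons (P.cons (P.lf 8160156 0 0) (P.cons (P.lf 2876680 0 0) P.nil)) (P.cons (P.cons (P.lf 1889439 0 0) P.nil) P.nil)))))) 1771238)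
 (EL.cons 7 (TM.mk (P.cons (P.cons (P.lf 0 9280096 0) (P.cons (P.lf 47097154 0 0) (P.cons (P.lf 0 24607069 0) (P.cons (P.lf 0 1057037 0) (P.cons (P.lf 262631 0 0) (P.cons (P.lf 4281 0 0) P.nil)))))) (P.cons (P.cons (P.lf 29424194 0 0) (P.cons (P.lf 0 8654879 0) (P.cons (P.lf 0 1811759 0) (P.cons (P.lf 0 7369 0) (P.cons (P.lf 17339 0 0) P.nil))))) (P.cons (P.cons (P.lf 8857617 0 0) (P.cons (P.lf 0 9862291 0) (P.cons (P.lf 0 718727 0) (P.cons (P.lf 34438 0 0) P.nil)))) (P.cons (P.cons (P.lf 0 7428970 0) (P.cons (P.lf 0 2851698 0) (P.cons (P.lf 214682 0 0) P.nil))) (P.cons (P.cons (P.lf 0 2058824 0) (P.cons (P.lf 840686 0 0) P.nil)) (P.cons (P.cons (P.lf 607050 0 0) P.nil) P.nil)))))) 1024840)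
 (EL.cons 10 (TM.mk (P.cons (P.cons (P.lf 0 145277172 0) (P.cons (P.lf 642960408 0 0) (P.cons (P.lf 37020960 0 0) (P.cons (P.lf 0 14941602 0) (P.cons (P.lf 0 431160 0) (P.cons (P.lf 88470 0 0) P.nil)))))) (P.cons (P.cons (P.lf 508808412 0 0) (P.cons (P.lf 0 33139914 0) (P.cons (P.lf 0 12100860 0) (P.cons (P.lf 1115526 0 0) (P.cons (P.lf 55296 0 0) P.nil))))) (P.cons (P.cons (P.lf 0 54077406 0) (P.cons (P.lf 0 25921248 0) (P.cons (P.lf 0 273942 0) (P.cons (P.lf 561078 0 0) P.nil)))) (P.cons (P.cons (P.lf 0 24375984 0) (P.cons (P.lf 1123362 0 0) (P.cons (P.lf 555120 0 0) P.nil))) (P.cons (P.cons (P.lf 2267448 0 0) (P.cons (P.lf 521064 0 0) P.nil)) (P.cons (P.cons (P.lf 477498 0 0) P.nil) P.nil)))))) 315846)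
 EL.nil))))
noncomputable def S256_285_438_512_9 : EL := (EL.cons 3 (TM.mk (P.cons (P.lf 454308690 0 0) (P.cons (P.lf 450679503 0 0) (P.cons (P.lf 0 5414782 0) (P.cons (P.lf 0 1756837 0) (P.cons (P.lf 35658 0 0) (P.cons (P.lf 6731 0 0) P.nil)))))) 269)
 (EL.cons 7 (TM.mk (P.cons (P.lf 0 2130328762 0) (P.cons (P.lf 34172730 0 0) (P.cons (P.lf 16813380 0 0) (P.cons (P.lf 0 270802 0) (P.cons (P.lf 0 64991 0) (P.cons (P.lf 1601 0 0) P.nil)))))) 330)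
 EL.nil))
noncomputable def S256_285_438_512_10 : EL := (EL.cons 3 (TM.mk (P.cons (P.cons (P.lf 10603694 0 0) (P.cons (P.lf 0 47322361 0) (P.cons (P.lf 0 753196 0) (P.lf 251065 0 0)))) (P.cons (P.cons (P.lf 0 26278446 0) (P.cons (P.lf 0 44667030 0) (P.cons (P.lf 0 710934 0) (P.lf 236978 0 0)))) (P.cons (P.cons (P.lf 0 33698678 0) (P.cons (P.lf 3907061 0 0) (P.cons (P.lf 62185 0 0) (P.lf 0 20728 0)))) (P.cons (P.cons (P.lf 4601820 0 0) (P.cons (P.lf 1177327 0 0) (P.cons (P.lf 18737 0 0) P.nil))) (P.cons (P.cons (P.lf 1333329 0 0) (P.cons (P.lf 0 91113 0) P.nil)) (P.cons (P.cons (P.lf 0 103745 0) P.nil) P.nil)))))) 52594)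
 (EL.cons 7 (TM.mk (P.cons (P.cons (P.lf 0 49722481 0) (P.cons (P.lf 221902403 0 0) (P.cons (P.lf 3531868 0 0) (P.lf 0 1177289 0)))) (P.cons (P.cons (P.lf 173346874 0 0) (P.cons (P.lf 0 14238197 0) (P.cons (P.lf 0 226618 0) (P.lf 75538 0 0)))) (P.cons (P.cons (P.lf 0 16120265 0) (P.cons (P.lf 0 6662763 0) (P.cons (P.lf 0 106045 0) (P.lf 35347 0 0)))) (P.cons (P.cons (P.lf 0 7227057 0) (P.cons (P.lf 446284 0 0) (P.cons (P.lf 7101 0 0) P.nil))) (P.cons (P.cons (P.lf 512381 0 0) (P.cons (P.lf 99187 0 0) P.nil)) (P.cons (P.cons (P.lf 111332 0 0) P.nil) P.nil)))))) 24192)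
 EL.nil))
noncomputable def S256_285_438_512_11 : EL := (EL.cons 3 (TM.mk (P.cons (P.cons (P.lf 247492 0 0) (P.cons (P.lf 0 2209034 0) (P.cons (P.lf 4894100 0 0) (P.cons (P.lf 168630 0 0) (P.cons (P.lf 0 51054 0) (P.cons (P.lf 0 831 0) P.nil)))))) (P.cons (P.cons (P.lf 0 1472208 0) (P.cons (P.lf 5580812 0 0) (P.cons (P.lf 4504286 0 0) (P.cons (P.lf 110946 0 0) (P.cons (P.lf 0 45733 0) P.nil))))) (P.cons (P.cons (P.lf 1410341 0 0) (P.cons (P.lf 6807489 0 0) (P.cons (P.lf 0 635429 0) (P.cons (P.lf 0 59792 0) P.nil)))) (P.cons (P.cons (P.lf 2697596 0 0) (P.cons (P.lf 0 1424430 0) (P.cons (P.lf 0 226687 0) P.nil))) (P.cons (P.cons (P.lf 0 635448 0) (P.cons (P.lf 0 386786 0) P.nil)) (P.cons (P.cons (P.lf 0 173685 0) P.nil) P.nil)))))) 193252)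
 (EL.cons 7 (TM.mk (P.cons (P.cons (P.lf 0 1160536 0) (P.cons (P.lf 10358530 0 0) (P.cons (P.lf 0 22949251 0) (P.cons (P.lf 0 790739 0) (P.cons (P.lf 239405 0 0) (P.cons (P.lf 3903 0 0) P.nil)))))) (P.cons (P.cons (P.lf 8073314 0 0) (P.cons (P.lf 0 36611303 0) (P.cons (P.lf 2012707 0 0) (P.cons (P.lf 276857 0 0) (P.cons (P.lf 0 26881 0) P.nil))))) (P.cons (P.cons (P.lf 0 14737557 0) (P.cons (P.lf 4858883 0 0) (P.cons (P.lf 1229413 0 0) (P.cons (P.lf 10894 0 0) P.nil)))) (P.cons (P.cons (P.lf 2113538 0 0) (P.cons (P.lf 2182926 0 0) (P.cons (P.lf 0 105388 0) P.nil))) (P.cons (P.cons (P.lf 994678 0 0) (P.cons (P.lf 0 294478 0) P.nil)) (P.cons (P.cons (P.lf 0 153300 0) P.nil) P.nil)))))) 221778)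
 EL.nil))
noncomputable def S256_285_438_512_12 : EL := (EL.cons 4 (TM.mk (P.cons (P.lf 0 454308690 0) (P.cons (P.lf 0 450679503 0) (P.cons (P.lf 5414782 0 0) (P.cons (P.lf 1756837 0 0) (P.cons (P.lf 0 35658 0) (P.cons (P.lf 0 6731 0) P.nil)))))) 269)
 (EL.cons 8 (TM.mk (P.cons (P.lf 2130328762 0 0) (P.cons (P.lf 0 34172730 0) (P.cons (P.lf 0 16813380 0) (P.cons (P.lf 270802 0 0) (P.cons (P.lf 64991 0 0) (P.cons (P.lf 0 1601 0) P.nil)))))) 330)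
 EL.nil))
noncomputable def S256_285_438_512_13 : EL := (EL.cons 4 (TM.mk (P.cons (P.cons (P.lf 0 10603694 0) (P.cons (P.lf 47322361 0 0) (P.cons (P.lf 753196 0 0) (P.lf 0 251065 0)))) (P.cons (P.cons (P.lf 26278446 0 0) (P.cons (P.lf 44667030 0 0) (P.cons (P.lf 710934 0 0) (P.lf 0 236978 0)))) (P.cons (P.cons (P.lf 33698678 0 0) (P.cons (P.lf 0 3907061 0) (P.cons (P.lf 0 62185 0) (P.lf 20728 0 0)))) (P.cons (P.cons (P.lf 0 4601820 0) (P.cons (P.lf 0 1177327 0) (P.cons (P.lf 0 18737 0) P.nil))) (P.cons (P.cons (P.lf 0 1333329 0) (P.cons (P.lf 91113 0 0) P.nil)) (P.cons (P.cons (P.lf 103745 0 0) P.nil) P.nil)))))) 52594)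
 (EL.cons 8 (TM.mk (P.cons (P.cons (P.lf 49722481 0 0) (P.cons (P.lf 0 221902403 0) (P.cons (P.lf 0 3531868 0) (P.lf 1177289 0 0)))) (P.cons (P.cons (P.lf 0 173346874 0) (P.cons (P.lf 14238197 0 0) (P.cons (P.lf 226618 0 0) (P.lf 0 75538 0)))) (P.cons (P.cons (P.lf 16120265 0 0) (P.cons (P.lf 6662763 0 0) (P.cons (P.lf 106045 0 0) (P.lf 0 35347 0)))) (P.cons (P.cons (P.lf 7227057 0 0) (P.cons (P.lf 0 446284 0) (P.cons (P.lf 0 7101 0) P.nil))) (P.cons (P.cons (P.lf 0 512381 0) (P.cons (P.lf 0 99187 0) P.nil)) (P.cons (P.cons (P.lf 0 111332 0) P.nil) P.nil)))))) 24192)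
 EL.nil))
noncomputable def S256_285_438_512_14 : EL := (EL.cons 4 (TM.mk (P.cons (P.cons (P.lf 0 247492 0) (P.cons (P.lf 2209034 0 0) (P.cons (P.lf 0 4894100 0) (P.cons (P.lf 0 168630 0) (P.cons (P.lf 51054 0 0) (P.cons (P.lf 831 0 0) P.nil)))))) (P.cons (P.cons (P.lf 1472208 0 0) (P.cons (P.lf 0 5580812 0) (P.cons (P.lf 0 4504286 0) (P.cons (P.lf 0 110946 0) (P.cons (P.lf 45733 0 0) P.nil))))) (P.cons (P.cons (P.lf 0 1410341 0) (P.cons (P.lf 0 6807489 0) (P.cons (P.lf 635429 0 0) (P.cons (P.lf 59792 0 0) P.nil)))) (P.cons (P.cons (P.lf 0 2697596 0) (P.cons (P.lf 1424430 0 0) (P.cons (P.lf 226687 0 0) P.nil))) (P.cons (P.cons (P.lf 635448 0 0) (P.cons (P.lf 386786 0 0) P.nil)) (P.cons (P.cons (P.lf 173685 0 0) P.nil) P.nil)))))) 193252)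
 (EL.cons 8 (TM.mk (P.cons (P.cons (P.lf 1160536 0 0) (P.cons (P.lf 0 10358530 0) (P.cons (P.lf 22949251 0 0) (P.cons (P.lf 790739 0 0) (P.cons (P.lf 0 239405 0) (P.cons (P.lf 0 3903 0) P.nil)))))) (P.cons (P.cons (P.lf 0 8073314 0) (P.cons (P.lf 36611303 0 0) (P.cons (P.lf 0 2012707 0) (P.cons (P.lf 0 276857 0) (P.cons (P.lf 26881 0 0) P.nil))))) (P.cons (P.cons (P.lf 14737557 0 0) (P.cons (P.lf 0 4858883 0) (P.cons (P.lf 0 1229413 0) (P.cons (P.lf 0 10894 0) P.nil)))) (P.cons (P.cons (P.lf 0 2113538 0) (P.cons (P.lf 0 2182926 0) (P.cons (P.lf 105388 0 0) P.nil))) (P.cons (P.cons (P.lf 0 994678 0) (P.cons (P.lf 294478 0 0) P.nil)) (P.cons (P.cons (P.lf 153300 0 0) P.nil) P.nil)))))) 221778)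
 EL.nil))
noncomputable def S256_285_438_512_15 : EL := (EL.cons 4 (TM.mk (P.cons (P.lf 0 51259096 0) (P.cons (P.lf 0 101699239 0) (P.cons (P.lf 0 49221527 0) (P.cons (P.lf 1608569 0 0) (P.cons (P.lf 377947 0 0) (P.cons (P.lf 0 14225 0) P.nil)))))) 2557)
 (EL.cons 8 (TM.mk (P.cons (P.lf 240362403 0 0) (P.cons (P.lf 234586631 0 0) (P.cons (P.lf 0 8586714 0) (P.cons (P.lf 0 2734865 0) (P.cons (P.lf 94029 0 0) (P.cons (P.lf 17324 0 0) P.nil)))))) 877)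
 EL.nil))
noncomputable def S256_285_438_512_16 : EL := (EL.cons 4 (TM.mk (P.cons (P.cons (P.lf 0 1196401 0) (P.cons (P.lf 5339324 0 0) (P.cons (P.lf 84981 0 0) (P.lf 0 28326 0)))) (P.cons (P.cons (P.lf 1778119 0 0) (P.cons (P.lf 10336398 0 0) (P.cons (P.lf 164517 0 0) (P.lf 0 54839 0)))) (P.cons (P.cons (P.lf 6757720 0 0) (P.cons (P.lf 4495000 0 0) (P.cons (P.lf 71543 0 0) (P.lf 0 23847 0)))) (P.cons (P.cons (P.lf 3221877 0 0) (P.cons (P.lf 0 650858 0) (P.cons (P.lf 0 10358 0) P.nil))) (P.cons (P.cons (P.lf 0 722384 0) (P.cons (P.lf 0 135310 0) P.nil)) (P.cons (P.cons (P.lf 0 145830 0) P.nil) P.nil)))))) 48488)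
 (EL.cons 8 (TM.mk (P.cons (P.cons (P.lf 5610126 0 0) (P.cons (P.lf 0 25036977 0) (P.cons (P.lf 0 398496 0) (P.lf 132831 0 0)))) (P.cons (P.cons (P.lf 0 13993205 0) (P.cons (P.lf 0 23230494 0) (P.cons (P.lf 0 369743 0) (P.lf 123248 0 0)))) (P.cons (P.cons (P.lf 0 17650311 0) (P.cons (P.lf 2643805 0 0) (P.cons (P.lf 42079 0 0) (P.lf 0 14026 0)))) (P.cons (P.cons (P.lf 2831138 0 0) (P.cons (P.lf 773064 0 0) (P.cons (P.lf 12303 0 0) P.nil))) (P.cons (P.cons (P.lf 805490 0 0) (P.cons (P.lf 0 78280 0) P.nil)) (P.cons (P.cons (P.lf 0 88115 0) P.nil) P.nil)))))) 45606)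
 EL.nil))
noncomputable def S256_285_438_512_17 : EL := (EL.cons 4 (TM.mk (P.cons (P.cons (P.lf 0 27923 0) (P.cons (P.lf 249241 0 0) (P.cons (P.lf 0 552195 0) (P.cons (P.lf 0 19025 0) (P.cons (P.lf 5760 0 0) (P.cons (P.lf 93 0 0) P.nil)))))) (P.cons (P.cons (P.lf 138405 0 0) (P.cons (P.lf 0 382424 0) (P.cons (P.lf 0 1055997 0) (P.cons (P.lf 0 31392 0) (P.cons (P.lf 10874 0 0) P.nil))))) (P.cons (P.cons (P.lf 5985 0 0) (P.cons (P.lf 0 1395697 0) (P.cons (P.lf 0 425876 0) (P.cons (P.lf 0 5444 0) P.nil)))) (P.cons (P.cons (P.lf 0 464093 0) (P.cons (P.lf 0 594686 0) (P.cons (P.lf 104891 0 0) P.nil))) (P.cons (P.cons (P.lf 0 228985 0) (P.cons (P.lf 214681 0 0) P.nil)) (P.cons (P.cons (P.lf 94976 0 0) P.nil) P.nil)))))) 177783)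
 (EL.cons 8 (TM.mk (P.cons (P.cons (P.lf 130941 0 0) (P.cons (P.lf 0 1168739 0) (P.cons (P.lf 2589335 0 0) (P.cons (P.lf 89218 0 0) (P.cons (P.lf 0 27011 0) (P.cons (P.lf 0 439 0) P.nil)))))) (P.cons (P.cons (P.lf 0 781006 0) (P.cons (P.lf 2971404 0 0) (P.cons (P.lf 2341559 0 0) (P.cons (P.lf 57267 0 0) (P.cons (P.lf 0 23762 0) P.nil))))) (P.cons (P.cons (P.lf 757634 0 0) (P.cons (P.lf 3563518 0 0) (P.cons (P.lf 0 394851 0) (P.cons (P.lf 0 33280 0) P.nil)))) (P.cons (P.cons (P.lf 1421419 0 0) (P.cons (P.lf 0 834853 0) (P.cons (P.lf 0 133020 0) P.nil))) (P.cons (P.cons (P.lf 0 365077 0) (P.cons (P.lf 0 220635 0) P.nil)) (P.cons (P.cons (P.lf 0 97692 0) P.nil) P.nil)))))) 129666)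
 EL.nil))
noncomputable def S256_285_438_512_18 : EL := (EL.cons 4 (TM.mk (P.cons (P.lf 0 5783501 0) (P.cons (P.lf 0 17211901 0) (P.cons (P.lf 0 16867610 0) (P.cons (P.lf 0 5168619 0) (P.cons (P.lf 332796 0 0) (P.cons (P.lf 59024 0 0) P.nil)))))) 4306)
 (EL.cons 8 (TM.mk (P.cons (P.lf 27119797 0 0) (P.cons (P.lf 53371278 0 0) (P.cons (P.lf 24964624 0 0) (P.cons (P.lf 0 1690000 0) (P.cons (P.lf 0 384174 0) (P.cons (P.lf 22382 0 0) P.nil)))))) 4185)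
 EL.nil))
noncomputable def S256_285_438_512_19 : EL := (EL.cons 4 (TM.mk (P.cons (P.cons (P.lf 0 134987 0) (P.cons (P.lf 602429 0 0) (P.cons (P.lf 9587 0 0) (P.lf 0 3195 0)))) (P.cons (P.cons (P.lf 66712 0 0) (P.cons (P.lf 1763860 0 0) (P.cons (P.lf 28073 0 0) (P.lf 0 9357 0)))) (P.cons (P.cons (P.lf 963094 0 0) (P.cons (P.lf 1656911 0 0) (P.cons (P.lf 26371 0 0) (P.lf 0 8790 0)))) (P.cons (P.cons (P.lf 1118025 0 0) (P.cons (P.lf 413447 0 0) (P.cons (P.lf 6580 0 0) P.nil))) (P.cons (P.cons (P.lf 269235 0 0) (P.cons (P.lf 0 98623 0) P.nil)) (P.cons (P.cons (P.lf 0 104575 0) P.nil) P.nil)))))) 59946)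
 (EL.cons 8 (TM.mk (P.cons (P.cons (P.lf 632983 0 0) (P.cons (P.lf 0 2824891 0) (P.cons (P.lf 0 44961 0) (P.lf 14986 0 0)))) (P.cons (P.cons (P.lf 0 950908 0) (P.cons (P.lf 0 5423393 0) (P.cons (P.lf 0 86320 0) (P.lf 28773 0 0)))) (P.cons (P.cons (P.lf 0 3565231 0) (P.cons (P.lf 0 2268163 0) (P.cons (P.lf 0 36100 0) (P.lf 12033 0 0)))) (P.cons (P.cons (P.lf 0 1639750 0) (P.cons (P.lf 425302 0 0) (P.cons (P.lf 6768 0 0) P.nil))) (P.cons (P.cons (P.lf 437655 0 0) (P.cons (P.lf 84053 0 0) P.nil)) (P.cons (P.cons (P.lf 83993 0 0) P.nil) P.nil)))))) 37640)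
 EL.nil))
noncomputable def S256_285_438_512_20 : EL := (EL.cons 4 (TM.mk (P.cons (P.cons (P.lf 0 3150 0) (P.cons (P.lf 28121 0 0) (P.cons (P.lf 0 62303 0) (P.cons (P.lf 0 2145 0) (P.cons (P.lf 649 0 0) (P.cons (P.lf 10 0 0) P.nil)))))) (P.cons (P.cons (P.lf 12490 0 0) (P.cons (P.lf 0 15251 0) (P.cons (P.lf 0 180952 0) (P.cons (P.lf 0 5670 0) (P.cons (P.lf 1871 0 0) P.nil))))) (P.cons (P.cons (P.lf 16203 0 0) (P.cons (P.lf 0 200613 0) (P.cons (P.lf 0 165503 0) (P.cons (P.lf 0 4101 0) P.nil)))) (P.cons (P.cons (P.lf 0 51866 0) (P.cons (P.lf 0 222908 0) (P.cons (P.lf 0 34170 0) P.nil))) (P.cons (P.cons (P.lf 0 77849 0) (P.cons (P.lf 0 40292 0) P.nil)) (P.cons (P.cons (P.lf 0 14290 0) P.nil) P.nil)))))) 96060)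
 (EL.cons 8 (TM.mk (P.cons (P.cons (P.lf 14773 0 0) (P.cons (P.lf 0 131867 0) (P.cons (P.lf 292151 0 0) (P.cons (P.lf 10065 0 0) (P.cons (P.lf 0 3047 0) (P.cons (P.lf 0 49 0) P.nil)))))) (P.cons (P.cons (P.lf 0 73463 0) (P.cons (P.lf 204445 0 0) (P.cons (P.lf 554013 0 0) (P.cons (P.lf 16447 0 0) (P.cons (P.lf 0 5704 0) P.nil))))) (P.cons (P.cons (P.lf 0 2108 0) (P.cons (P.lf 736220 0 0) (P.cons (P.lf 214051 0 0) (P.cons (P.lf 2534 0 0) P.nil)))) (P.cons (P.cons (P.lf 246169 0 0) (P.cons (P.lf 301173 0 0) (P.cons (P.lf 0 63481 0) P.nil))) (P.cons (P.cons (P.lf 117227 0 0) (P.cons (P.lf 0 124435 0) P.nil)) (P.cons (P.cons (P.lf 0 54133 0) P.nil) P.nil)))))) 107572)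
 EL.nil))
noncomputable def S256_285_438_512_21 : EL := (EL.cons 4 (TM.mk (P.cons (P.cons (P.lf 2293952892 0 0) (P.cons (P.lf 0 141967083 0) (P.cons (P.lf 0 2259588 0) (P.lf 753195 0 0)))) (P.cons (P.cons (P.lf 0 383933055 0) (P.cons (P.lf 0 134001090 0) (P.cons (P.lf 0 2132802 0) (P.lf 710934 0 0)))) (P.cons (P.cons (P.lf 0 248760612 0) (P.cons (P.lf 11721183 0 0) (P.cons (P.lf 186555 0 0) (P.lf 0 62184 0)))) (P.cons (P.cons (P.lf 18631164 0 0) (P.cons (P.lf 3531981 0 0) (P.cons (P.lf 56211 0 0) P.nil))) (P.cons (P.cons (P.lf 5133825 0 0) (P.cons (P.lf 0 273339 0) P.nil)) (P.cons (P.cons (P.lf 0 353913 0) P.nil) P.nil)))))) 165579)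
 (EL.cons 8 (TM.mk (P.cons (P.cons (P.lf 173938770 0 0) (P.cons (P.lf 0 10764648 0) (P.cons (P.lf 0 171339 0) (P.lf 57114 0 0)))) (P.cons (P.cons (P.lf 146227740 0 0) (P.cons (P.lf 0 21011943 0) (P.cons (P.lf 0 334428 0) (P.lf 111474 0 0)))) (P.cons (P.cons (P.lf 0 46096068 0) (P.cons (P.lf 0 9484401 0) (P.cons (P.lf 0 150954 0) (P.lf 50316 0 0)))) (P.cons (P.cons (P.lf 0 17231964 0) (P.cons (P.lf 995586 0 0) (P.cons (P.lf 15840 0 0) P.nil))) (P.cons (P.cons (P.lf 1477605 0 0) (P.cons (P.lf 216909 0 0) P.nil)) (P.cons (P.cons (P.lf 304944 0 0) P.nil) P.nil)))))) 81840)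
 (EL.cons 11 (TM.mk (P.cons (P.cons (P.lf 3112155018 0 0) (P.cons (P.lf 115363341 0 0) (P.cons (P.lf 0 57162951 0) (P.cons (P.lf 0 518718 0) (P.lf 129678 0 0))))) (P.cons (P.cons (P.lf 0 99844524 0) (P.cons (P.lf 0 3701100 0) (P.cons (P.lf 1833906 0 0) (P.cons (P.lf 16641 0 0) (P.lf 0 4158 0))))) (P.cons (P.cons (P.lf 0 48323856 0) (P.cons (P.lf 0 1791297 0) (P.cons (P.lf 887595 0 0) (P.cons (P.lf 8052 0 0) P.nil)))) (P.cons (P.cons (P.lf 1579227 0 0) (P.cons (P.lf 58539 0 0) (P.cons (P.lf 0 29004 0) P.nil))) (P.cons (P.cons (P.lf 371049 0 0) (P.cons (P.lf 13752 0 0) P.nil)) (P.cons (P.cons (P.lf 0 13965 0) P.nil) P.nil)))))) 12969)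
 EL.nil)))
noncomputable def S256_285_438_512_22 : EL := (EL.cons 4 (TM.mk (P.cons (P.cons (P.lf 53541513 0 0) (P.cons (P.lf 0 242259609 0) (P.cons (P.lf 10931901 0 0) (P.cons (P.lf 1756026 0 0) (P.cons (P.lf 0 153162 0) (P.cons (P.lf 0 2496 0) P.nil)))))) (P.cons (P.cons (P.lf 0 194763369 0) (P.cons (P.lf 59861856 0 0) (P.cons (P.lf 14199159 0 0) (P.cons (P.lf 104073 0 0) (P.cons (P.lf 0 137199 0) P.nil))))) (P.cons (P.cons (P.lf 40091625 0 0) (P.cons (P.lf 39671574 0 0) (P.cons (P.lf 0 1599915 0) (P.cons (P.lf 0 281502 0) P.nil)))) (P.cons (P.cons (P.lf 24652812 0 0) (P.cons (P.lf 0 6511947 0) (P.cons (P.lf 0 715692 0) P.nil))) (P.cons (P.cons (P.lf 0 4397802 0) (P.cons (P.lf 0 1631733 0) P.nil)) (P.cons (P.cons (P.lf 0 1031562 0) P.nil) P.nil)))))) 788982)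
 (EL.cons 8 (TM.mk (P.cons (P.cons (P.lf 4059780 0 0) (P.cons (P.lf 0 18369312 0) (P.cons (P.lf 828909 0 0) (P.cons (P.lf 133149 0 0) (P.cons (P.lf 0 11613 0) (P.cons (P.lf 0 189 0) P.nil)))))) (P.cons (P.cons (P.lf 0 10675440 0) (P.cons (P.lf 0 13978212 0) (P.cons (P.lf 1912233 0 0) (P.cons (P.lf 142113 0 0) (P.cons (P.lf 0 22110 0) P.nil))))) (P.cons (P.cons (P.lf 0 11797587 0) (P.cons (P.lf 7360587 0 0) (P.cons (P.lf 974070 0 0) (P.cons (P.lf 0 11772 0) P.nil)))) (P.cons (P.cons (P.lf 4771254 0 0) (P.cons (P.lf 2517312 0 0) (P.cons (P.lf 0 160035 0) P.nil))) (P.cons (P.cons (P.lf 1526751 0 0) (P.cons (P.lf 0 567582 0) P.nil)) (P.cons (P.cons (P.lf 0 380175 0) P.nil) P.nil)))))) 401520)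
 (EL.cons 11 (TM.mk (P.cons (P.cons (P.lf 72638586 0 0) (P.cons (P.lf 0 321480204 0) (P.cons (P.lf 0 18510480 0) (P.cons (P.lf 7470801 0 0) (P.cons (P.lf 215580 0 0) (P.cons (P.lf 0 44235 0) P.nil)))))) (P.cons (P.cons (P.lf 0 254404206 0) (P.cons (P.lf 16569957 0 0) (P.cons (P.lf 6050430 0 0) (P.cons (P.lf 0 557763 0) (P.cons (P.lf 0 27648 0) P.nil))))) (P.cons (P.cons (P.lf 27038703 0 0) (P.cons (P.lf 12960624 0 0) (P.cons (P.lf 136971 0 0) (P.cons (P.lf 0 280539 0) P.nil)))) (P.cons (P.cons (P.lf 12187992 0 0) (P.cons (P.lf 0 561681 0) (P.cons (P.lf 0 277560 0) P.nil))) (P.cons (P.cons (P.lf 0 1133724 0) (P.cons (P.lf 0 260532 0) P.nil)) (P.cons (P.cons (P.lf 0 238749 0) P.nil) P.nil)))))) 157923)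
 EL.nil)))
noncomputable def S256_285_438_512_23 : EL := (EL.cons 4 (TM.mk (P.cons (P.cons (P.lf 258823914 0 0) (P.cons (P.lf 0 16017972 0) (P.cons (P.lf 0 254946 0) (P.lf 84981 0 0)))) (P.cons (P.cons (P.lf 213437631 0 0) (P.cons (P.lf 0 31009194 0) (P.cons (P.lf 0 493551 0) (P.lf 164517 0 0)))) (P.cons (P.cons (P.lf 0 74124861 0) (P.cons (P.lf 0 13485000 0) (P.cons (P.lf 0 214629 0) (P.lf 71544 0 0)))) (P.cons (P.cons (P.lf 0 26225595 0) (P.cons (P.lf 1952574 0 0) (P.cons (P.lf 31074 0 0) P.nil))) (P.cons (P.cons (P.lf 3186939 0 0) (P.cons (P.lf 405930 0 0) P.nil)) (P.cons (P.cons (P.lf 618600 0 0) P.nil) P.nil)))))) 159492)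
 (EL.cons 8 (TM.mk (P.cons (P.cons (P.lf 19625298 0 0) (P.cons (P.lf 0 1214562 0) (P.cons (P.lf 0 19329 0) (P.lf 6444 0 0)))) (P.cons (P.cons (P.lf 35967222 0 0) (P.cons (P.lf 0 3575610 0) (P.cons (P.lf 0 56910 0) (P.lf 18969 0 0)))) (P.cons (P.cons (P.lf 10932027 0 0) (P.cons (P.lf 0 3407448 0) (P.cons (P.lf 0 54231 0) (P.lf 18075 0 0)))) (P.cons (P.cons (P.lf 0 7376211 0) (P.cons (P.lf 0 916281 0) (P.cons (P.lf 0 14583 0) P.nil))) (P.cons (P.cons (P.lf 0 1762284 0) (P.cons (P.lf 157731 0 0) P.nil)) (P.cons (P.cons (P.lf 244662 0 0) P.nil) P.nil)))))) 103476)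
 (EL.cons 11 (TM.mk (P.cons (P.cons (P.lf 351140664 0 0) (P.cons (P.lf 13016304 0 0) (P.cons (P.lf 0 6449625 0) (P.cons (P.lf 0 58524 0) (P.lf 14631 0 0))))) (P.cons (P.cons (P.lf 337070286 0 0) (P.cons (P.lf 12494733 0 0) (P.cons (P.lf 0 6191184 0) (P.cons (P.lf 0 56181 0) (P.lf 14043 0 0))))) (P.cons (P.cons (P.lf 0 20812815 0) (P.cons (P.lf 0 771501 0) (P.cons (P.lf 382281 0 0) (P.cons (P.lf 3468 0 0) P.nil)))) (P.cons (P.cons (P.lf 0 6454194 0) (P.cons (P.lf 0 239247 0) (P.cons (P.lf 118548 0 0) P.nil))) (P.cons (P.cons (P.lf 354732 0 0) (P.cons (P.lf 13149 0 0) P.nil)) (P.cons (P.cons (P.lf 63234 0 0) P.nil) P.nil)))))) 17751)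
 EL.nil)))
noncomputable def S256_285_438_512_24 : EL := (EL.cons 4 (TM.mk (P.cons (P.cons (P.lf 6041022 0 0) (P.cons (P.lf 0 27333855 0) (P.cons (P.lf 1233432 0 0) (P.cons (P.lf 198129 0 0) (P.cons (P.lf 0 17280 0) (P.cons (P.lf 0 279 0) P.nil)))))) (P.cons (P.cons (P.lf 0 15982146 0) (P.cons (P.lf 0 20361363 0) (P.cons (P.lf 2825652 0 0) (P.cons (P.lf 208290 0 0) (P.cons (P.lf 0 32622 0) P.nil))))) (P.cons (P.cons (P.lf 0 17347881 0) (P.cons (P.lf 11502066 0 0) (P.cons (P.lf 1394058 0 0) (P.cons (P.lf 0 22473 0) P.nil)))) (P.cons (P.cons (P.lf 7507452 0 0) (P.cons (P.lf 3730803 0 0) (P.cons (P.lf 0 283689 0) P.nil))) (P.cons (P.cons (P.lf 2294664 0 0) (P.cons (P.lf 0 994584 0) P.nil)) (P.cons (P.cons (P.lf 0 660903 0) P.nil) P.nil)))))) 722949)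
 (EL.cons 8 (TM.mk (P.cons (P.cons (P.lf 458058 0 0) (P.cons (P.lf 0 2072586 0) (P.cons (P.lf 93525 0 0) (P.cons (P.lf 15021 0 0) (P.cons (P.lf 0 1308 0) (P.cons (P.lf 0 21 0) P.nil)))))) (P.cons (P.cons (P.lf 0 750096 0) (P.cons (P.lf 0 3633174 0) (P.cons (P.lf 308532 0 0) (P.cons (P.lf 30936 0 0) (P.cons (P.lf 0 3792 0) P.nil))))) (P.cons (P.cons (P.lf 0 2531442 0) (P.cons (P.lf 0 709356 0) (P.cons (P.lf 322818 0 0) (P.cons (P.lf 14397 0 0) P.nil)))) (P.cons (P.cons (P.lf 0 769554 0) (P.cons (P.lf 1134687 0 0) (P.cons (P.lf 88035 0 0) P.nil))) (P.cons (P.cons (P.lf 726855 0 0) (P.cons (P.lf 213753 0 0) P.nil)) (P.cons (P.cons (P.lf 126633 0 0) P.nil) P.nil)))))) 239877)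
 (EL.cons 11 (TM.mk (P.cons (P.cons (P.lf 8195721 0 0) (P.cons (P.lf 0 36272217 0) (P.cons (P.lf 0 2088513 0) (P.cons (P.lf 842919 0 0) (P.cons (P.lf 24321 0 0) (P.cons (P.lf 0 4989 0) P.nil)))))) (P.cons (P.cons (P.lf 0 20573862 0) (P.cons (P.lf 0 34112895 0) (P.cons (P.lf 0 1389165 0) (P.cons (P.lf 773256 0 0) (P.cons (P.lf 21009 0 0) P.nil))))) (P.cons (P.cons (P.lf 0 25521756 0) (P.cons (P.lf 3749283 0 0) (P.cons (P.lf 717555 0 0) (P.cons (P.lf 0 104127 0) P.nil)))) (P.cons (P.cons (P.lf 4711953 0 0) (P.cons (P.lf 1505259 0 0) (P.cons (P.lf 0 16044 0) P.nil))) (P.cons (P.cons (P.lf 1311537 0 0) (P.cons (P.lf 0 119769 0) P.nil)) (P.cons (P.cons (P.lf 0 184149 0) P.nil) P.nil)))))) 194592)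
 EL.nil)))
noncomputable def S256_285_438_512_25 : EL := (EL.cons 4 (TM.mk (P.cons (P.cons (P.lf 29202786 0 0) (P.cons (P.lf 0 1807287 0) (P.cons (P.lf 0 28764 0) (P.lf 9588 0 0)))) (P.cons (P.cons (P.lf 53051412 0 0) (P.cons (P.lf 0 5291580 0) (P.cons (P.lf 0 84222 0) (P.lf 28074 0 0)))) (P.cons (P.cons (P.lf 15178053 0 0) (P.cons (P.lf 0 4970736 0) (P.cons (P.lf 0 79113 0) (P.lf 26370 0 0)))) (P.cons (P.cons (P.lf 0 11655564 0) (P.cons (P.lf 0 1240344 0) (P.cons (P.lf 0 19740 0) P.nil))) (P.cons (P.cons (P.lf 0 2566938 0) (P.cons (P.lf 295869 0 0) P.nil)) (P.cons (P.cons (P.lf 496431 0 0) P.nil) P.nil)))))) 216357)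
 (EL.cons 8 (TM.mk (P.cons (P.cons (P.lf 2214297 0 0) (P.cons (P.lf 0 137037 0) (P.cons (P.lf 0 2181 0) (P.lf 726 0 0)))) (P.cons (P.cons (P.lf 6254748 0 0) (P.cons (P.lf 0 539373 0) (P.cons (P.lf 0 8583 0) (P.lf 2859 0 0)))) (P.cons (P.cons (P.lf 5232774 0 0) (P.cons (P.lf 0 783033 0) (P.cons (P.lf 0 12462 0) (P.lf 4152 0 0)))) (P.cons (P.cons (P.lf 334413 0 0) (P.cons (P.lf 0 479430 0) (P.cons (P.lf 0 7629 0) P.nil))) (P.cons (P.cons (P.lf 0 1054656 0) (P.cons (P.lf 0 78627 0) P.nil)) (P.cons (P.cons (P.lf 0 164142 0) P.nil) P.nil)))))) 82185)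
 (EL.cons 11 (TM.mk (P.cons (P.cons (P.lf 39618774 0 0) (P.cons (P.lf 1468611 0 0) (P.cons (P.lf 0 727701 0) (P.cons (P.lf 0 6603 0) (P.lf 1650 0 0))))) (P.cons (P.cons (P.lf 77333514 0 0) (P.cons (P.lf 2866647 0 0) (P.cons (P.lf 0 1420434 0) (P.cons (P.lf 0 12888 0) (P.lf 3222 0 0))))) (P.cons (P.cons (P.lf 34906932 0 0) (P.cons (P.lf 1293951 0 0) (P.cons (P.lf 0 641157 0) (P.cons (P.lf 0 5817 0) P.nil)))) (P.cons (P.cons (P.lf 0 3664236 0) (P.cons (P.lf 0 135828 0) (P.cons (P.lf 67302 0 0) P.nil))) (P.cons (P.cons (P.lf 0 798345 0) (P.cons (P.lf 0 29592 0) P.nil)) (P.cons (P.cons (P.lf 68169 0 0) P.nil) P.nil)))))) 38373)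
 EL.nil)))
noncomputable def S256_285_438_512_26 : EL := (EL.cons 4 (TM.mk (P.cons (P.cons (P.lf 681600 0 0) (P.cons (P.lf 0 3084045 0) (P.cons (P.lf 139167 0 0) (P.cons (P.lf 22353 0 0) (P.cons (P.lf 0 1947 0) (P.cons (P.lf 0 30 0) P.nil)))))) (P.cons (P.cons (P.lf 0 1127088 0) (P.cons (P.lf 0 5356755 0) (P.cons (P.lf 456870 0 0) (P.cons (P.lf 45675 0 0) (P.cons (P.lf 0 5613 0) P.nil))))) (P.cons (P.cons (P.lf 0 3754305 0) (P.cons (P.lf 0 944472 0) (P.cons (P.lf 471897 0 0) (P.cons (P.lf 20508 0 0) P.nil)))) (P.cons (P.cons (P.lf 0 1075788 0) (P.cons (P.lf 1747644 0 0) (P.cons (P.lf 119685 0 0) P.nil))) (P.cons (P.cons (P.lf 1129548 0 0) (P.cons (P.lf 298533 0 0) P.nil)) (P.cons (P.cons (P.lf 179607 0 0) P.nil) P.nil)))))) 405828)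
 (EL.cons 8 (TM.mk (P.cons (P.cons (P.lf 51681 0 0) (P.cons (P.lf 0 233847 0) (P.cons (P.lf 10551 0 0) (P.cons (P.lf 1695 0 0) (P.cons (P.lf 0 147 0) (P.cons (P.lf 0 0 0) P.nil)))))) (P.cons (P.cons (P.lf 0 33360 0) (P.cons (P.lf 0 641904 0) (P.cons (P.lf 45279 0 0) (P.cons (P.lf 5172 0 0) (P.cons (P.lf 0 573 0) P.nil))))) (P.cons (P.cons (P.lf 0 370191 0) (P.cons (P.lf 0 483900 0) (P.cons (P.lf 70830 0 0) (P.cons (P.lf 5067 0 0) P.nil)))) (P.cons (P.cons (P.lf 0 369354 0) (P.cons (P.lf 54417 0 0) (P.cons (P.lf 45609 0 0) P.nil))) (P.cons (P.cons (P.lf 0 387 0) (P.cons (P.lf 153639 0 0) P.nil)) (P.cons (P.cons (P.lf 97776 0 0) P.nil) P.nil)))))) 137280)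
 (EL.cons 11 (TM.mk (P.cons (P.cons (P.lf 924711 0 0) (P.cons (P.lf 0 4092549 0) (P.cons (P.lf 0 235641 0) (P.cons (P.lf 95103 0 0) (P.cons (P.lf 2742 0 0) (P.cons (P.lf 0 561 0) P.nil)))))) (P.cons (P.cons (P.lf 0 1403994 0) (P.cons (P.lf 0 7908774 0) (P.cons (P.lf 0 390498 0) (P.cons (P.lf 181590 0 0) (P.cons (P.lf 5091 0 0) P.nil))))) (P.cons (P.cons (P.lf 0 5193390 0) (P.cons (P.lf 0 3346362 0) (P.cons (P.lf 0 71715 0) (P.cons (P.lf 73665 0 0) P.nil)))) (P.cons (P.cons (P.lf 0 2300847 0) (P.cons (P.lf 651183 0 0) (P.cons (P.lf 81282 0 0) P.nil))) (P.cons (P.cons (P.lf 718743 0 0) (P.cons (P.lf 164484 0 0) P.nil)) (P.cons (P.cons (P.lf 130647 0 0) P.nil) P.nil)))))) 131889)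
 EL.nil)))
noncomputable def S256_285_438_512_27 : EL := (EL.cons 13 (TM.mk (P.lf 0 4294967296 0) 0)
 EL.nil)
noncomputable def S256_285_438_512_28 : EL := (EL.cons 13 (TM.mk (P.cons (P.cons (P.lf 0 100245763 0) (P.cons (P.lf 447378632 0 0) (P.cons (P.lf 7120620 0 0) (P.lf 0 2373540 0)))) (P.cons (P.cons (P.lf 347877519 0 0) (P.cons (P.lf 0 21529280 0) (P.cons (P.lf 0 342664 0) (P.lf 114220 0 0)))) (P.cons (P.cons (P.lf 0 27711008 0) (P.cons (P.lf 0 10247300 0) (P.cons (P.lf 0 163096 0) (P.lf 54364 0 0)))) (P.cons (P.cons (P.lf 0 12256696 0) (P.cons (P.lf 508592 0 0) (P.cons (P.lf 8092 0 0) P.nil))) (P.cons (P.cons (P.lf 576536 0 0) (P.cons (P.lf 116344 0 0) P.nil)) (P.cons (P.cons (P.lf 129807 0 0) P.nil) P.nil)))))) 23267)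
 EL.nil)
noncomputable def S256_285_438_512_29 : EL := (EL.cons 13 (TM.mk (P.cons (P.cons (P.lf 0 2339764 0) (P.cons (P.lf 20883890 0 0) (P.cons (P.lf 0 46268109 0) (P.cons (P.lf 0 1594214 0) (P.cons (P.lf 482666 0 0) (P.cons (P.lf 7870 0 0) P.nil)))))) (P.cons (P.cons (P.lf 16239121 0 0) (P.cons (P.lf 0 73477247 0) (P.cons (P.lf 3315641 0 0) (P.cons (P.lf 532601 0 0) (P.cons (P.lf 0 46454 0) P.nil))))) (P.cons (P.cons (P.lf 0 29470443 0) (P.cons (P.lf 8782193 0 0) (P.cons (P.lf 2166648 0 0) (P.cons (P.lf 17926 0 0) P.nil)))) (P.cons (P.cons (P.lf 3916842 0 0) (P.cons (P.lf 3959320 0 0) (P.cons (P.lf 0 145669 0) P.nil))) (P.cons (P.cons (P.lf 1833622 0 0) (P.cons (P.lf 0 452173 0) P.nil)) (P.cons (P.cons (P.lf 0 245495 0) P.nil) P.nil)))))) 337135)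
 EL.nil)
noncomputable def S256_285_438_512_30 : EL := (EL.cons 13 (TM.mk (P.cons (P.lf 0 484595936 0) (P.cons (P.lf 0 480724804 0) (P.cons (P.lf 5775768 0 0) (P.cons (P.lf 1873960 0 0) (P.cons (P.lf 0 38036 0) (P.cons (P.lf 0 7180 0) P.nil)))))) 280)
 EL.nil)
noncomputable def S256_285_438_512_31 : EL := (EL.cons 13 (TM.mk (P.cons (P.cons (P.lf 0 11310607 0) (P.cons (P.lf 50477186 0 0) (P.cons (P.lf 803410 0 0) (P.lf 0 267803 0)))) (P.cons (P.cons (P.lf 28030343 0 0) (P.cons (P.lf 47644833 0 0) (P.cons (P.lf 758330 0 0) (P.lf 0 252777 0)))) (P.cons (P.cons (P.lf 35945257 0 0) (P.cons (P.lf 0 4167532 0) (P.cons (P.lf 0 66331 0) (P.lf 22110 0 0)))) (P.cons (P.cons (P.lf 0 4908609 0) (P.cons (P.lf 0 1255816 0) (P.cons (P.lf 0 19987 0) P.nil))) (P.cons (P.cons (P.lf 0 1422218 0) (P.cons (P.lf 97188 0 0) P.nil)) (P.cons (P.cons (P.lf 110662 0 0) P.nil) P.nil)))))) 56081)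
 EL.nil)
noncomputable def S256_285_438_512_32 : EL := (EL.cons 13 (TM.mk (P.cons (P.cons (P.lf 0 263992 0) (P.cons (P.lf 2356303 0 0) (P.cons (P.lf 0 5220374 0) (P.cons (P.lf 0 179873 0) (P.cons (P.lf 54458 0 0) (P.cons (P.lf 887 0 0) P.nil)))))) (P.cons (P.cons (P.lf 1570356 0 0) (P.cons (P.lf 0 5952867 0) (P.cons (P.lf 0 4804572 0) (P.cons (P.lf 0 118343 0) (P.cons (P.lf 48782 0 0) P.nil))))) (P.cons (P.cons (P.lf 0 1504364 0) (P.cons (P.lf 0 7261322 0) (P.cons (P.lf 677791 0 0) (P.cons (P.lf 63779 0 0) P.nil)))) (P.cons (P.cons (P.lf 0 2877436 0) (P.cons (P.lf 1519392 0 0) (P.cons (P.lf 241800 0 0) P.nil))) (P.cons (P.cons (P.lf 677812 0 0) (P.cons (P.lf 412572 0 0) P.nil)) (P.cons (P.cons (P.lf 185264 0 0) P.nil) P.nil)))))) 206113)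
 EL.nil)
noncomputable def S256_285_438_512_33 : EL := (EL.cons 14 (TM.mk (P.lf 8589934592 0 0) 0)
 EL.nil)
noncomputable def S256_285_438_512_34 : EL := (EL.cons 14 (TM.mk (P.cons (P.cons (P.lf 200491526 0 0) (P.cons (P.lf 0 894757264 0) (P.cons (P.lf 0 14241240 0) (P.lf 4747080 0 0)))) (P.cons (P.cons (P.lf 0 695755038 0) (P.cons (P.lf 43058560 0 0) (P.cons (P.lf 685328 0 0) (P.lf 0 228440 0)))) (P.cons (P.cons (P.lf 55422016 0 0) (P.cons (P.lf 20494600 0 0) (P.cons (P.lf 326192 0 0) (P.lf 0 108728 0)))) (P.cons (P.cons (P.lf 24513392 0 0) (P.cons (P.lf 0 1017184 0) (P.cons (P.lf 0 16184 0) P.nil))) (P.cons (P.cons (P.lf 0 1153072 0) (P.cons (P.lf 0 232688 0) P.nil)) (P.cons (P.cons (P.lf 0 259614 0) P.nil) P.nil)))))) 46534)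
 EL.nil)
noncomputable def S256_285_438_512_35 : EL := (EL.cons 14 (TM.mk (P.cons (P.cons (P.lf 4679528 0 0) (P.cons (P.lf 0 41767780 0) (P.cons (P.lf 92536218 0 0) (P.cons (P.lf 3188428 0 0) (P.cons (P.lf 0 965332 0) (P.cons (P.lf 0 15740 0) P.nil)))))) (P.cons (P.cons (P.lf 0 32478242 0) (P.cons (P.lf 146954494 0 0) (P.cons (P.lf 0 6631282 0) (P.cons (P.lf 0 1065202 0) (P.cons (P.lf 92908 0 0) P.nil))))) (P.cons (P.cons (P.lf 58940886 0 0) (P.cons (P.lf 0 17564386 0) (P.cons (P.lf 0 4333296 0) (P.cons (P.lf 0 35852 0) P.nil)))) (P.cons (P.cons (P.lf 0 7833684 0) (P.cons (P.lf 0 7918640 0) (P.cons (P.lf 291338 0 0) P.nil))) (P.cons (P.cons (P.lf 0 3667244 0) (P.cons (P.lf 904346 0 0) P.nil)) (P.cons (P.cons (P.lf 490990 0 0) P.nil) P.nil)))))) 674270)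
 EL.nil)
noncomputable def S256_285_438_512_36 : EL := (EL.cons 14 (TM.mk (P.cons (P.lf 969191872 0 0) (P.cons (P.lf 961449608 0 0) (P.cons (P.lf 0 11551536 0) (P.cons (P.lf 0 3747920 0) (P.cons (P.lf 76072 0 0) (P.cons (P.lf 14360 0 0) P.nil)))))) 560)
 EL.nil)
noncomputable def S256_285_438_512_37 : EL := (EL.cons 14 (TM.mk (P.cons (P.cons (P.lf 22621214 0 0) (P.cons (P.lf 0 100954372 0) (P.cons (P.lf 0 1606820 0) (P.lf 535606 0 0)))) (P.cons (P.cons (P.lf 0 56060686 0) (P.cons (P.lf 0 95289666 0) (P.cons (P.lf 0 1516660 0) (P.lf 505554 0 0)))) (P.cons (P.cons (P.lf 0 71890514 0) (P.cons (P.lf 8335064 0 0) (P.cons (P.lf 132662 0 0) (P.lf 0 44220 0)))) (P.cons (P.cons (P.lf 9817218 0 0) (P.cons (P.lf 2511632 0 0) (P.cons (P.lf 39974 0 0) P.nil))) (P.cons (P.cons (P.lf 2844436 0 0) (P.cons (P.lf 0 194376 0) P.nil)) (P.cons (P.cons (P.lf 0 221324 0) P.nil) P.nil))))))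 112162)
 EL.nil)
noncomputable def S256_285_438_512_38 : EL := (EL.cons 14 (TM.mk (P.cons (P.cons (P.lf 527984 0 0) (P.cons (P.lf 0 4712606 0) (P.cons (P.lf 10440748 0 0) (P.cons (P.lf 359746 0 0) (P.cons (P.lf 0 108916 0) (P.cons (P.lf 0 1774 0) P.nil)))))) (P.cons (P.cons (P.lf 0 3140712 0) (P.cons (P.lf 11905734 0 0) (P.cons (P.lf 9609144 0 0) (P.cons (P.lf 236686 0 0) (P.cons (P.lf 0 97564 0) P.nil))))) (P.cons (P.cons (P.lf 3008728 0 0) (P.cons (P.lf 14522644 0 0) (P.cons (P.lf 0 1355582 0) (P.cons (P.lf 0 127558 0) P.nil)))) (P.cons (P.cons (P.lf 5754872 0 0) (P.cons (P.lf 0 3038784 0) (P.cons (P.lf 0 483600 0) P.nil))) (P.cons (P.cons (P.lf 0 1355624 0) (P.cons (P.lf 0 825144 0) P.nil)) (P.cons (P.cons (P.lf 0 370528 0) P.nil) P.nil)))))) 412226)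
 EL.nil)
noncomputable def S256_285_438_512_39 : EL := (EL.cons 14 (TM.mk (P.cons (P.lf 109352740 0 0) (P.cons (P.lf 216958378 0 0) (P.cons (P.lf 105005926 0 0) (P.cons (P.lf 0 3431614 0) (P.cons (P.lf 0 806288 0) (P.cons (P.lf 30348 0 0) P.nil)))))) 5440)
 EL.nil)
noncomputable def S256_285_438_512_40 : EL := (EL.cons 14 (TM.mk (P.cons (P.cons (P.lf 2552324 0 0) (P.cons (P.lf 0 11390558 0) (P.cons (P.lf 0 181294 0) (P.lf 60430 0 0)))) (P.cons (P.cons (P.lf 0 3793322 0) (P.cons (P.lf 0 22050984 0) (P.cons (P.lf 0 350970 0) (P.lf 116990 0 0)))) (P.cons (P.cons (P.lf 0 14416470 0) (P.cons (P.lf 0 9589334 0) (P.cons (P.lf 0 152626 0) (P.lf 50874 0 0)))) (P.cons (P.cons (P.lf 0 6873338 0) (P.cons (P.lf 1388498 0 0) (P.cons (P.lf 22098 0 0) P.nil))) (P.cons (P.cons (P.lf 1541086 0 0) (P.cons (P.lf 288662 0 0) P.nil)) (P.cons (P.cons (P.lf 311104 0 0) P.nil) P.nil)))))) 103402)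
 EL.nil)
noncomputable def S256_285_438_512_41 : EL := (EL.cons 14 (TM.mk (P.cons (P.cons (P.lf 59570 0 0) (P.cons (P.lf 0 531716 0) (P.cons (P.lf 1178016 0 0) (P.cons (P.lf 40588 0 0) (P.cons (P.lf 0 12288 0) (P.cons (P.lf 0 200 0) P.nil)))))) (P.cons (P.cons (P.lf 0 295266 0) (P.cons (P.lf 815838 0 0) (P.cons (P.lf 2252794 0 0) (P.cons (P.lf 66970 0 0) (P.cons (P.lf 0 23198 0) P.nil))))) (P.cons (P.cons (P.lf 0 12770 0) (P.cons (P.lf 2977488 0 0) (P.cons (P.lf 908536 0 0) (P.cons (P.lf 11614 0 0) P.nil)))) (P.cons (P.cons (P.lf 990066 0 0) (P.cons (P.lf 1268664 0 0) (P.cons (P.lf 0 223768 0) P.nil))) (P.cons (P.cons (P.lf 488502 0 0) (P.cons (P.lf 0 457988 0) P.nil)) (P.cons (P.cons (P.lf 0 202616 0) P.nil) P.nil)))))) 379224)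
 EL.nil)
noncomputable def S256_285_438_512_42 : EL := (EL.cons 14 (TM.mk (P.cons (P.lf 12338136 0 0) (P.cons (P.lf 36718724 0 0) (P.cons (P.lf 35984236 0 0) (P.cons (P.lf 11026388 0 0) (P.cons (P.lf 0 709966 0) (P.cons (P.lf 0 125918 0) P.nil)))))) 9172)
 EL.nil)
noncomputable def S256_285_438_512_43 : EL := (EL.cons 14 (TM.mk (P.cons (P.cons (P.lf 287974 0 0) (P.cons (P.lf 0 1285182 0) (P.cons (P.lf 0 20454 0) (P.lf 6818 0 0)))) (P.cons (P.cons (P.lf 0 142320 0) (P.cons (P.lf 0 3762902 0) (P.cons (P.lf 0 59890 0) (P.lf 19962 0 0)))) (P.cons (P.cons (P.lf 0 2054602 0) (P.cons (P.lf 0 3534744 0) (P.cons (P.lf 0 56260 0) (P.lf 18752 0 0)))) (P.cons (P.cons (P.lf 0 2385120 0) (P.cons (P.lf 0 882022 0) (P.cons (P.lf 0 14038 0) P.nil))) (P.cons (P.cons (P.lf 0 574370 0) (P.cons (P.lf 210396 0 0) P.nil)) (P.cons (P.cons (P.lf 223094 0 0) P.nil) P.nil)))))) 127846)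
 EL.nil)
noncomputable def S256_285_438_512_44 : EL := (EL.cons 14 (TM.mk (P.cons (P.cons (P.lf 6720 0 0) (P.cons (P.lf 0 59992 0) (P.cons (P.lf 132914 0 0) (P.cons (P.lf 4578 0 0) (P.cons (P.lf 0 1386 0) (P.cons (P.lf 0 22 0) P.nil)))))) (P.cons (P.cons (P.lf 0 26646 0) (P.cons (P.lf 32536 0 0) (P.cons (P.lf 386032 0 0) (P.cons (P.lf 12098 0 0) (P.cons (P.lf 0 3992 0) P.nil))))) (P.cons (P.cons (P.lf 0 34568 0) (P.cons (P.lf 427976 0 0) (P.cons (P.lf 353074 0 0) (P.cons (P.lf 8750 0 0) P.nil)))) (P.cons (P.cons (P.lf 110648 0 0) (P.cons (P.lf 475538 0 0) (P.cons (P.lf 72898 0 0) P.nil))) (P.cons (P.cons (P.lf 166078 0 0) (P.cons (P.lf 85958 0 0) P.nil)) (P.cons (P.cons (P.lf 30486 0 0) P.nil) P.nil)))))) 204882)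
 EL.nil)
noncomputable def S256_285_438_512_45 : EL := (EL.cons 14 (TM.mk (P.cons (P.cons (P.lf 109220 0 0) (P.cons (P.lf 0 1462306 0) (P.cons (P.lf 6502738 0 0) (P.cons (P.lf 0 9492640 0) (P.cons (P.lf 0 531146 0) (P.cons (P.lf 146036 0 0) P.nil)))))) (P.cons (P.cons (P.lf 0 1137076 0) (P.cons (P.lf 10219508 0 0) (P.cons (P.lf 0 23112326 0) (P.cons (P.lf 606436 0 0) (P.cons (P.lf 307994 0 0) P.nil))))) (P.cons (P.cons (P.lf 4036514 0 0) (P.cons (P.lf 0 18873372 0) (P.cons (P.lf 3399428 0 0) (P.cons (P.lf 817558 0 0) P.nil)))) (P.cons (P.cons (P.lf 0 5153042 0) (P.cons (P.lf 3100174 0 0) (P.cons (P.lf 1687868 0 0) P.nil))) (P.cons (P.cons (P.lf 835878 0 0) (P.cons (P.lf 1461210 0 0) P.nil)) (P.cons (P.cons (P.lf 430370 0 0) P.nil) P.nil)))))) 1220478)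
 EL.nil)
noncomputable def S256_285_438_512_46 : EL := (EL.cons 15 (TM.mk (P.lf 4294967296 0 0) 0)
 EL.nil)
noncomputable def S256_285_438_512_47 : EL := (EL.cons 15 (TM.mk (P.cons (P.cons (P.lf 100245763 0 0) (P.cons (P.lf 0 447378632 0) (P.cons (P.lf 0 7120620 0) (P.lf 2373540 0 0)))) (P.cons (P.cons (P.lf 0 347877519 0) (P.cons (P.lf 21529280 0 0) (P.cons (P.lf 342664 0 0) (P.lf 0 114220 0)))) (P.cons (P.cons (P.lf 27711008 0 0) (P.cons (P.lf 10247300 0 0) (P.cons (P.lf 163096 0 0) (P.lf 0 54364 0)))) (P.cons (P.cons (P.lf 12256696 0 0) (P.cons (P.lf 0 508592 0) (P.cons (P.lf 0 8092 0) P.nil))) (P.cons (P.cons (P.lf 0 576536 0) (P.cons (P.lf 0 116344 0) P.nil)) (P.cons (P.cons (P.lf 0 129807 0) P.nil) P.nil)))))) 23267)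
 EL.nil)
noncomputable def S256_285_438_512_48 : EL := (EL.cons 15 (TM.mk (P.cons (P.cons (P.lf 2339764 0 0) (P.cons (P.lf 0 20883890 0) (P.cons (P.lf 46268109 0 0) (P.cons (P.lf 1594214 0 0) (P.cons (P.lf 0 482666 0) (P.cons (P.lf 0 7870 0) P.nil)))))) (P.cons (P.cons (P.lf 0 16239121 0) (P.cons (P.lf 73477247 0 0) (P.cons (P.lf 0 3315641 0) (P.cons (P.lf 0 532601 0) (P.cons (P.lf 46454 0 0) P.nil))))) (P.cons (P.cons (P.lf 29470443 0 0) (P.cons (P.lf 0 8782193 0) (P.cons (P.lf 0 2166648 0) (P.cons (P.lf 0 17926 0) P.nil)))) (P.cons (P.cons (P.lf 0 3916842 0) (P.cons (P.lf 0 3959320 0) (P.cons (P.lf 145669 0 0) P.nil))) (P.cons (P.cons (P.lf 0 1833622 0) (P.cons (P.lf 452173 0 0) P.nil)) (P.cons (P.cons (P.lf 245495 0 0) P.nil) P.nil)))))) 337135)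
 EL.nil)
noncomputable def S256_285_438_512 : SL := (SL.cons S256_285_438_512_0 (SL.cons S256_285_438_512_1 (SL.cons S256_285_438_512_2 (SL.cons S256_285_438_512_3 (SL.cons S256_285_438_512_4 (SL.cons S256_285_438_512_5 (SL.cons S256_285_438_512_6 (SL.cons S256_285_438_512_7 (SL.cons S256_285_438_512_8 (SL.cons S256_285_438_512_9 (SL.cons S256_285_438_512_10 (SL.cons S256_285_438_512_11 (SL.cons S256_285_438_512_12 (SL.cons S256_285_438_512_13 (SL.cons S256_285_438_512_14 (SL.cons S256_285_438_512_15 (SL.cons S256_285_438_512_16 (SL.cons S256_285_438_512_17 (SL.cons S256_285_438_512_18 (SL.cons S256_285_438_512_19 (SL.cons S256_285_438_512_20 (SL.cons S256_285_438_512_21 (SL.cons S256_285_438_512_22 (SL.cons S256_285_438_512_23 (SL.cons S256_285_438_512_24 (SL.cons S256_285_438_512_25 (SL.cons S256_285_438_512_26 (SL.cons S256_285_438_512_27 (SL.cons S256_285_438_512_28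 (SL.cons S256_285_438_512_29 (SL.cons S256_285_438_512_30 (SL.cons S256_285_438_512_31 (SL.cons S256_285_438_512_32 (SL.cons S256_285_438_512_33 (SL.cons S256_285_438_512_34 (SL.cons S256_285_438_512_35 (SL.cons S256_285_438_512_36 (SL.cons S256_285_438_512_37 (SL.cons S256_285_438_512_38 (SL.cons S256_285_438_512_39 (SL.cons S256_285_438_512_40 (SL.cons S256_285_438_512_41 (SL.cons S256_285_438_512_42 (SL.cons S256_285_438_512_43 (SL.cons S256_285_438_512_44 (SL.cons S256_285_438_512_45 (SL.cons S256_285_438_512_46 (SL.cons S256_285_438_512_47 (SL.cons S256_285_438_512_48 SL.nil)))))))))))))))))))))))))))))))))))))))))))))))))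
theorem S256_285_216_290_ok : band (seq (shp 5 256 285 216 290) S256_285_216_290) (sok S256_285_216_290) = true := by decide +kernel

theorem S256_285_216_364_ok : band (seq (shp 5 256 285 216 364) S256_285_216_364) (sok S256_285_216_364) = true := by decide +kernel

theorem S256_285_290_364_ok : band (seq (shp 5 256 285 290 364) S256_285_290_364) (sok S256_285_290_364) = true := by decide +kernel

theorem S256_285_364_438_ok : band (seq (shp 5 256 285 364 438) S256_285_364_438) (sok S256_285_364_438) = true := by decide +kernel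

theorem S256_285_364_512_ok : band (seq (shp 5 256 285 364 512) S256_285_364_512) (sok S256_285_364_512) = true := by decide +kernel

theorem S256_285_438_512_ok : band (seq (shp 5 256 285 438 512) S256_285_438_512) (sok S256_285_438_512) = true := by decide +kernel

end Vale.Agent.P098.Ck
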