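import Vale.Agent.P098.CkDefs

namespace Vale.Agent.P098.Ck

noncomputable def S256_285_512_586_0 : EL := (EL.cons 0 (TM.mk (P.cons (P.lf 8359606057 0 0) (P.cons (P.lf 0 190686074 0) (P.cons (P.lf 0 92290364 0) (P.cons (P.lf 3016066 0 0) (P.cons (P.lf 708651 0 0) (P.cons (P.lf 0 26673 0) P.nil)))))) 4788)
 (EL.cons 1 (TM.mk (P.cons (P.lf 450679505 0 0) (P.cons (P.lf 439849933 0 0) (P.cons (P.lf 0 16100088 0) (P.cons (P.lf 0 5127871 0) (P.cons (P.lf 176304 0 0) (P.cons (P.lf 32482 0 0) P.nil)))))) 1651)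
 (EL.cons 5 (TM.mk (P.cons (P.lf 4329140030 0 0) (P.cons (P.lf 67799490 0 0) (P.cons (P.lf 32814348 0 0) (P.cons (P.lf 0 1072376 0) (P.cons (P.lf 0 251962 0) (P.cons (P.lf 9484 0 0) P.nil)))))) 1837)
 (EL.cons 9 (TM.mk (P.lf 6442450944 0 0) 2)
 EL.nil))))
noncomputable def S256_285_512_586_1 : EL := (EL.cons 0 (TM.mk (P.cons (P.cons (P.lf 0 1989484544 0) (P.cons (P.lf 0 840731751 0) (P.cons (P.lf 13381356 0 0) (P.lf 4460455 0 0)))) (P.cons (P.cons (P.lf 0 839383254 0) (P.cons (P.lf 119908756 0 0) (P.cons (P.lf 0 1908497 0) (P.lf 0 636163 0)))) (P.cons (P.cons (P.lf 315128226 0 0) (P.cons (P.lf 53886872 0 0) (P.cons (P.lf 0 857668 0) (P.lf 0 285887 0)))) (P.cons (P.cons (P.lf 67454079 0 0) (P.cons (P.lf 0 5882726 0) (P.cons (P.lf 93616 0 0) P.nil))) (P.cons (P.cons (P.lf 0 10979204 0) (P.cons (P.lf 0 1243877 0) P.nil)) (P.cons (P.cons (P.lf 0 1425422 0) P.nil) P.nil))))))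 466438)
 (EL.cons 1 (TM.mk (P.cons (P.cons (P.lf 895023445 0 0) (P.cons (P.lf 0 116222178 0) (P.cons (P.lf 1849826 0 0) (P.lf 616603 0 0)))) (P.cons (P.cons (P.lf 0 481962679 0) (P.cons (P.lf 0 105540805 0) (P.cons (P.lf 1679817 0 0) (P.lf 559938 0 0)))) (P.cons (P.cons (P.lf 0 141149696 0) (P.cons (P.lf 15587317 0 0) (P.cons (P.lf 0 248086 0) (P.lf 0 82691 0)))) (P.cons (P.cons (P.lf 34152251 0 0) (P.cons (P.lf 4482749 0 0) (P.cons (P.lf 0 71341 0) P.nil))) (P.cons (P.cons (P.lf 5504367 0 0) (P.cons (P.lf 0 514808 0) P.nil)) (P.cons (P.cons (P.lf 0 874901 0) P.nil) P.nil)))))) 315156)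
 (EL.cons 5 (TM.mk (P.cons (P.cons (P.lf 0 659437354 0) (P.cons (P.lf 0 461616840 0) (P.cons (P.lf 7347244 0 0) (P.lf 2449078 0 0)))) (P.cons (P.cons (P.lf 0 218968148 0) (P.cons (P.lf 0 6034440 0) (P.cons (P.lf 96042 0 0) (P.lf 32012 0 0)))) (P.cons (P.cons (P.lf 0 29726342 0) (P.cons (P.lf 0 1739358 0) (P.cons (P.lf 27680 0 0) (P.lf 9222 0 0)))) (P.cons (P.cons (P.lf 0 4894848 0) (P.cons (P.lf 1227018 0 0) (P.cons (P.lf 0 19524 0) P.nil))) (P.cons (P.cons (P.lf 2523816 0 0) (P.cons (P.lf 244474 0 0) P.nil)) (P.cons (P.cons (P.lf 307817 0 0) P.nil) P.nil)))))) 212915)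
 (EL.cons 9 (TM.mk (P.cons (P.cons (P.lf 0 1206008490 0) (P.cons (P.lf 0 671067948 0) (P.cons (P.lf 10680930 0 0) (P.lf 3560310 0 0)))) (P.cons (P.cons (P.lf 0 456543106 0) (P.cons (P.lf 32293920 0 0) (P.cons (P.lf 0 513996 0) (P.lf 0 171330 0)))) (P.cons (P.cons (P.lf 72634620 0 0) (P.cons (P.lf 15370950 0 0) (P.cons (P.lf 0 244644 0) (P.lf 0 81546 0)))) (P.cons (P.cons (P.lf 16843080 0 0) (P.cons (P.lf 0 762888 0) (P.cons (P.lf 12138 0 0) P.nil))) (P.cons (P.cons (P.lf 0 1217544 0) (P.cons (P.lf 0 174516 0) P.nil)) (P.cons (P.cons (P.lf 0 175582 0) P.nil) P.nil)))))) 34919)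
 (EL.cons 2 (TM.mk (P.cons (P.cons (P.lf 0 329194372 0) (P.cons (P.lf 12202785 0 0) (P.cons (P.lf 6046523 0 0) (P.cons (P.lf 0 54866 0) (P.lf 0 13716 0))))) (P.cons (P.cons (P.lf 0 316003393 0) (P.cons (P.lf 11713812 0 0) (P.cons (P.lf 5804235 0 0) (P.cons (P.lf 0 52669 0) (P.lf 0 13165 0))))) (P.cons (P.cons (P.lf 19512014 0 0) (P.cons (P.lf 0 723282 0) (P.cons (P.lf 0 358388 0) (P.cons (P.lf 3251 0 0) P.nil)))) (P.cons (P.cons (P.lf 6050806 0 0) (P.cons (P.lf 0 224294 0) (P.cons (P.lf 0 111138 0) P.nil))) (P.cons (P.cons (P.lf 0 332561 0) (P.cons (P.lf 12327 0 0) P.nil)) (P.cons (P.cons (P.lf 0 59281 0) P.nil) P.nil)))))) 16662)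
 (EL.cons 6 (TM.mk (P.cons (P.cons (P.lf 1543646991 0 0) (P.cons (P.lf 0 57220887 0) (P.cons (P.lf 0 28353156 0) (P.cons (P.lf 257286 0 0) (P.lf 64320 0 0))))) (P.cons (P.cons (P.lf 0 74285196 0) (P.cons (P.lf 2753649 0 0) (P.cons (P.lf 1364442 0 0) (P.cons (P.lf 0 12381 0) (P.lf 0 3093 0))))) (P.cons (P.cons (P.lf 0 35357562 0) (P.cons (P.lf 1310655 0 0) (P.cons (P.lf 649434 0 0) (P.cons (P.lf 0 5892 0) P.nil)))) (P.cons (P.cons (P.lf 1754874 0 0) (P.cons (P.lf 0 65049 0) (P.cons (P.lf 0 32229 0) P.nil))) (P.cons (P.cons (P.lf 401445 0 0) (P.cons (P.lf 0 14877 0) P.nil)) (P.cons (P.cons (P.lf 0 21777 0) P.nil) P.nil)))))) 15804)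
 EL.nil))))))
noncomputable def S256_285_512_586_2 : EL := (EL.cons 0 (TM.mk (P.cons (P.cons (P.lf 451907891 0 0) (P.cons (P.lf 403218716 0 0) (P.cons (P.lf 78027360 0 0) (P.cons (P.lf 0 4827358 0) (P.cons (P.lf 0 874648 0) (P.cons (P.lf 14272 0 0) P.nil)))))) (P.cons (P.cons (P.lf 381119476 0 0) (P.cons (P.lf 128896039 0 0) (P.cons (P.lf 0 24661717 0) (P.cons (P.lf 35876 0 0) (P.cons (P.lf 234177 0 0) P.nil))))) (P.cons (P.cons (P.lf 0 42277891 0) (P.cons (P.lf 0 100587738 0) (P.cons (P.lf 0 7687484 0) (P.cons (P.lf 829332 0 0) P.nil)))) (P.cons (P.cons (P.lf 0 75211042 0) (P.cons (P.lf 0 15172180 0) (P.cons (P.lf 2153262 0 0) P.nil))) (P.cons (P.cons (P.lf 0 1059759 0) (P.cons (P.lf 6440435 0 0) P.nil)) (P.cons (P.cons (P.lf 4591154 0 0) P.nil) P.nil)))))) 3853876)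
 (EL.cons 1 (TM.mk (P.cons (P.cons (P.lf 0 350884745 0) (P.cons (P.lf 0 160520236 0) (P.cons (P.lf 21877213 0 0) (P.cons (P.lf 236547 0 0) (P.cons (P.lf 0 200131 0) (P.cons (P.lf 3255 0 0) P.nil)))))) (P.cons (P.cons (P.lf 26222028 0 0) (P.cons (P.lf 142403752 0 0) (P.cons (P.lf 14253529 0 0) (P.cons (P.lf 0 1281388 0) (P.cons (P.lf 0 171105 0) P.nil))))) (P.cons (P.cons (P.lf 129869171 0 0) (P.cons (P.lf 32087187 0 0) (P.cons (P.lf 0 4523935 0) (P.cons (P.lf 0 42486 0) P.nil)))) (P.cons (P.cons (P.lf 2446824 0 0) (P.cons (P.lf 0 15443824 0) (P.cons (P.lf 0 783388 0) P.nil))) (P.cons (P.cons (P.lf 0 11588348 0) (P.cons (P.lf 0 1762516 0) P.nil)) (P.cons (P.cons (P.lf 0 297624 0) P.nil) P.nil)))))) 2007220)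
 (EL.cons 5 (TM.mk (P.cons (P.cons (P.lf 95184528 0 0) (P.cons (P.lf 141376579 0 0) (P.cons (P.lf 46945724 0 0) (P.cons (P.lf 0 2316110 0) (P.cons (P.lf 0 509547 0) (P.cons (P.lf 8307 0 0) P.nil)))))) (P.cons (P.cons (P.lf 58208288 0 0) (P.cons (P.lf 48259133 0 0) (P.cons (P.lf 0 353660 0) (P.cons (P.lf 0 269214 0) (P.cons (P.lf 0 4281 0) P.nil))))) (P.cons (P.cons (P.lf 20878824 0 0) (P.cons (P.lf 6905829 0 0) (P.cons (P.lf 0 253036 0) (P.cons (P.lf 0 32067 0) P.nil)))) (P.cons (P.cons (P.lf 7927877 0 0) (P.cons (P.lf 97831 0 0) (P.cons (P.lf 0 326532 0) P.nil))) (P.cons (P.cons (P.lf 0 883930 0) (P.cons (P.lf 0 1221683 0) P.nil)) (P.cons (P.cons (P.lf 0 931895 0) P.nil) P.nil)))))) 1782051)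
 (EL.cons 9 (TM.mk (P.cons (P.cons (P.lf 225761358 0 0) (P.cons (P.lf 251244021 0 0) (P.cons (P.lf 65901876 0 0) (P.cons (P.lf 0 3558084 0) (P.cons (P.lf 0 723999 0) (P.cons (P.lf 11805 0 0) P.nil)))))) (P.cons (P.cons (P.lf 170927140 0 0) (P.cons (P.lf 83019553 0 0) (P.cons (P.lf 0 8049058 0) (P.cons (P.lf 0 226296 0) (P.cons (P.lf 69681 0 0) P.nil))))) (P.cons (P.cons (P.lf 5158854 0 0) (P.cons (P.lf 0 25463547 0) (P.cons (P.lf 0 2635020 0) (P.cons (P.lf 231873 0 0) P.nil)))) (P.cons (P.cons (P.lf 0 16600431 0) (P.cons (P.lf 0 4673577 0) (P.cons (P.lf 387415 0 0) P.nil))) (P.cons (P.cons (P.lf 0 1112410 0) (P.cons (P.lf 942561 0 0) P.nil)) (P.cons (P.cons (P.lf 618088 0 0) P.nil) P.nil)))))) 521947)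
 (EL.cons 2 (TM.mk (P.cons (P.cons (P.lf 123248497 0 0) (P.cons (P.lf 64011386 0 0) (P.cons (P.lf 0 5897491 0) (P.cons (P.lf 0 1562495 0) (P.cons (P.lf 50101 0 0) (P.cons (P.lf 9354 0 0) P.nil)))))) (P.cons (P.cons (P.lf 164966467 0 0) (P.cons (P.lf 56416635 0 0) (P.cons (P.lf 0 6343284 0) (P.cons (P.lf 0 1415925 0) (P.cons (P.lf 47874 0 0) P.nil))))) (P.cons (P.cons (P.lf 30058931 0 0) (P.cons (P.lf 0 9918005 0) (P.cons (P.lf 0 85640 0) (P.cons (P.lf 208226 0 0) P.nil)))) (P.cons (P.cons (P.lf 0 13877583 0) (P.cons (P.lf 0 1980438 0) (P.cons (P.lf 387084 0 0) P.nil))) (P.cons (P.cons (P.lf 0 1820981 0) (P.cons (P.lf 383220 0 0) P.nil)) (P.cons (P.cons (P.lf 445173 0 0) P.nil) P.nil)))))) 364083)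
 (EL.cons 6 (TM.mk (P.cons (P.cons (P.lf 0 577932648 0) (P.cons (P.lf 0 300160032 0) (P.cons (P.lf 27654330 0 0) (P.cons (P.lf 7326804 0 0) (P.cons (P.lf 0 234936 0) (P.cons (P.lf 0 43878 0) P.nil)))))) (P.cons (P.cons (P.lf 0 190968564 0) (P.cons (P.lf 38030154 0 0) (P.cons (P.lf 1867692 0 0) (P.cons (P.lf 0 746274 0) (P.cons (P.lf 12330 0 0) P.nil))))) (P.cons (P.cons (P.lf 58573398 0 0) (P.cons (P.lf 11815890 0 0) (P.cons (P.lf 0 1816956 0) (P.cons (P.lf 0 313098 0) P.nil)))) (P.cons (P.cons (P.lf 10750548 0 0) (P.cons (P.lf 0 1838622 0) (P.cons (P.lf 0 121158 0) P.nil))) (P.cons (P.cons (P.lf 0 2168160 0) (P.cons (P.lf 0 220416 0) P.nil)) (P.cons (P.cons (P.lf 0 250104 0) P.nil) P.nil)))))) 244506)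
 EL.nil))))))
noncomputable def S256_285_512_586_3 : EL := (EL.cons 0 (TM.mk (P.cons (P.lf 96110806 0 0) (P.cons (P.lf 190686074 0 0) (P.cons (P.lf 92290364 0 0) (P.cons (P.lf 0 3016066 0) (P.cons (P.lf 0 708651 0) (P.cons (P.lf 26673 0 0) P.nil)))))) 4788)
 (EL.cons 1 (TM.mk (P.cons (P.lf 0 450679505 0) (P.cons (P.lf 0 439849933 0) (P.cons (P.lf 16100088 0 0) (P.cons (P.lf 5127871 0 0) (P.cons (P.lf 0 176304 0) (P.cons (P.lf 0 32482 0) P.nil)))))) 1651)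
 (EL.cons 5 (TM.mk (P.cons (P.lf 2113310914 0 0) (P.cons (P.lf 0 67799490 0) (P.cons (P.lf 0 32814348 0) (P.cons (P.lf 1072376 0 0) (P.cons (P.lf 251962 0 0) (P.cons (P.lf 0 9484 0) P.nil)))))) 1830)
 EL.nil)))
noncomputable def S256_285_512_586_4 : EL := (EL.cons 0 (TM.mk (P.cons (P.cons (P.lf 0 17991667 0) (P.cons (P.lf 0 10011232 0) (P.cons (P.lf 159340 0 0) (P.lf 53112 0 0)))) (P.cons (P.cons (P.lf 0 42506764 0) (P.cons (P.lf 0 19380747 0) (P.cons (P.lf 308469 0 0) (P.lf 102823 0 0)))) (P.cons (P.cons (P.lf 0 29705837 0) (P.cons (P.lf 0 8428125 0) (P.cons (P.lf 134143 0 0) (P.lf 44713 0 0)))) (P.cons (P.cons (P.lf 0 3574402 0) (P.cons (P.lf 1220359 0 0) (P.cons (P.lf 0 19422 0) P.nil))) (P.cons (P.cons (P.lf 1867269 0 0) (P.cons (P.lf 253706 0 0) P.nil)) (P.cons (P.cons (P.lf 213846 0 0) P.nil) P.nil)))))) 98442)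
 (EL.cons 1 (TM.mk (P.cons (P.cons (P.lf 84365919 0 0) (P.cons (P.lf 46944331 0 0) (P.cons (P.lf 0 747180 0) (P.lf 0 249058 0)))) (P.cons (P.cons (P.lf 114275975 0 0) (P.cons (P.lf 43557176 0 0) (P.cons (P.lf 0 693268 0) (P.lf 0 231090 0)))) (P.cons (P.cons (P.lf 23074861 0 0) (P.cons (P.lf 0 4957134 0) (P.cons (P.lf 78898 0 0) (P.lf 26298 0 0)))) (P.cons (P.cons (P.lf 0 8238138 0) (P.cons (P.lf 0 1449495 0) (P.cons (P.lf 23068 0 0) P.nil))) (P.cons (P.cons (P.lf 0 1213627 0) (P.cons (P.lf 146775 0 0) P.nil)) (P.cons (P.cons (P.lf 213886 0 0) P.nil) P.nil)))))) 83797)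
 (EL.cons 5 (TM.mk (P.cons (P.cons (P.lf 0 395605790 0) (P.cons (P.lf 0 220129764 0) (P.cons (P.lf 3503654 0 0) (P.lf 1167884 0 0)))) (P.cons (P.cons (P.lf 0 137067518 0) (P.cons (P.lf 17655570 0 0) (P.cons (P.lf 0 281010 0) (P.lf 0 93668 0)))) (P.cons (P.cons (P.lf 34773614 0 0) (P.cons (P.lf 8120316 0 0) (P.cons (P.lf 0 129242 0) (P.lf 0 43080 0)))) (P.cons (P.cons (P.lf 6885258 0 0) (P.cons (P.lf 0 688200 0) (P.cons (P.lf 10950 0 0) P.nil))) (P.cons (P.cons (P.lf 0 1069764 0) (P.cons (P.lf 0 148378 0) P.nil)) (P.cons (P.cons (P.lf 0 134560 0) P.nil) P.nil)))))) 46230)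
 EL.nil)))
noncomputable def S256_285_512_586_5 : EL := (EL.cons 0 (TM.mk (P.cons (P.cons (P.lf 3367988 0 0) (P.cons (P.lf 3748148 0 0) (P.cons (P.lf 983146 0 0) (P.cons (P.lf 0 53080 0) (P.cons (P.lf 0 10800 0) (P.cons (P.lf 175 0 0) P.nil)))))) (P.cons (P.cons (P.lf 9232120 0 0) (P.cons (P.lf 8674929 0 0) (P.cons (P.lf 1830508 0 0) (P.cons (P.lf 0 108689 0) (P.cons (P.lf 0 20388 0) P.nil))))) (P.cons (P.cons (P.lf 8370237 0 0) (P.cons (P.lf 5676526 0 0) (P.cons (P.lf 666516 0 0) (P.cons (P.lf 0 54209 0) P.nil)))) (P.cons (P.cons (P.lf 2247941 0 0) (P.cons (P.lf 248261 0 0) (P.cons (P.lf 0 218369 0) P.nil))) (P.cons (P.cons (P.lf 0 538890 0) (P.cons (P.lf 0 555544 0) P.nil)) (P.cons (P.cons (P.lf 0 281793 0) P.nil) P.nil)))))) 322656)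
 (EL.cons 1 (TM.mk (P.cons (P.cons (P.lf 0 15793059 0) (P.cons (P.lf 0 17575689 0) (P.cons (P.lf 0 4610141 0) (P.cons (P.lf 248904 0 0) (P.cons (P.lf 50645 0 0) (P.cons (P.lf 0 823 0) P.nil)))))) (P.cons (P.cons (P.lf 0 27370711 0) (P.cons (P.lf 0 22960961 0) (P.cons (P.lf 0 3936294 0) (P.cons (P.lf 258753 0 0) (P.cons (P.lf 44553 0 0) P.nil))))) (P.cons (P.cons (P.lf 0 11466521 0) (P.cons (P.lf 0 3258881 0) (P.cons (P.lf 898561 0 0) (P.cons (P.lf 0 9661 0) P.nil)))) (P.cons (P.cons (P.lf 1415913 0 0) (P.cons (P.lf 2472877 0 0) (P.cons (P.lf 185139 0 0) P.nil))) (P.cons (P.cons (P.lf 1353952 0 0) (P.cons (P.lf 248713 0 0) P.nil)) (P.cons (P.cons (P.lf 0 10485 0) P.nil) P.nil)))))) 317714)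
 (EL.cons 5 (TM.mk (P.cons (P.cons (P.lf 74056278 0 0) (P.cons (P.lf 82415330 0 0) (P.cons (P.lf 21617728 0 0) (P.cons (P.lf 0 1167154 0) (P.cons (P.lf 0 237492 0) (P.cons (P.lf 3870 0 0) P.nil)))))) (P.cons (P.cons (P.lf 53693180 0 0) (P.cons (P.lf 24588764 0 0) (P.cons (P.lf 0 3333866 0) (P.cons (P.lf 0 36786 0) (P.cons (P.lf 30474 0 0) P.nil))))) (P.cons (P.cons (P.lf 0 1256466 0) (P.cons (P.lf 0 10506168 0) (P.cons (P.lf 0 1115324 0) (P.cons (P.lf 96564 0 0) P.nil)))) (P.cons (P.cons (P.lf 0 6332744 0) (P.cons (P.lf 0 1646128 0) (P.cons (P.lf 206780 0 0) P.nil))) (P.cons (P.cons (P.lf 0 179196 0) (P.cons (P.lf 511712 0 0) P.nil)) (P.cons (P.cons (P.lf 306220 0 0) P.nil) P.nil)))))) 280808)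
 EL.nil)))
noncomputable def S256_285_512_586_6 : EL := (EL.cons 12 (TM.mk (P.lf 8589934592 0 0) 0)
 (EL.cons 3 (TM.mk (P.cons (P.lf 454308690 0 0) (P.cons (P.lf 450679503 0 0) (P.cons (P.lf 0 5414782 0) (P.cons (P.lf 0 1756837 0) (P.cons (P.lf 35658 0 0) (P.cons (P.lf 6731 0 0) P.nil)))))) 269)
 (EL.cons 7 (TM.mk (P.cons (P.lf 0 2130328762 0) (P.cons (P.lf 34172730 0 0) (P.cons (P.lf 16813380 0 0) (P.cons (P.lf 0 270802 0) (P.cons (P.lf 0 64991 0) (P.cons (P.lf 1601 0 0) P.nil)))))) 330)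
 EL.nil)))
noncomputable def S256_285_512_586_7 : EL := (EL.cons 12 (TM.mk (P.cons (P.cons (P.lf 0 1608011320 0) (P.cons (P.lf 0 894757264 0) (P.cons (P.lf 14241240 0 0) (P.lf 4747080 0 0)))) (P.cons (P.cons (P.lf 0 608724142 0) (P.cons (P.lf 43058560 0 0) (P.cons (P.lf 0 685328 0) (P.lf 0 228440 0)))) (P.cons (P.cons (P.lf 96846160 0 0) (P.cons (P.lf 20494600 0 0) (P.cons (P.lf 0 326192 0) (P.lf 0 108728 0)))) (P.cons (P.cons (P.lf 22457440 0 0) (P.cons (P.lf 0 1017184 0) (P.cons (P.lf 16184 0 0) P.nil))) (P.cons (P.cons (P.lf 0 1623392 0) (P.cons (P.lf 0 232688 0) P.nil)) (P.cons (P.cons (P.lf 0 234110 0) P.nil) P.nil)))))) 46534)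
 (EL.cons 3 (TM.mk (P.cons (P.cons (P.lf 0 2092051221 0) (P.cons (P.lf 94644722 0 0) (P.cons (P.lf 0 1506392 0) (P.lf 0 502130 0)))) (P.cons (P.cons (P.lf 538218560 0 0) (P.cons (P.lf 89334060 0 0) (P.cons (P.lf 0 1421868 0) (P.lf 0 473956 0)))) (P.cons (P.cons (P.lf 199267858 0 0) (P.cons (P.lf 0 7814122 0) (P.cons (P.lf 124370 0 0) (P.lf 41456 0 0)))) (P.cons (P.cons (P.lf 0 18788627 0) (P.cons (P.lf 0 2354654 0) (P.cons (P.lf 37474 0 0) P.nil))) (P.cons (P.cons (P.lf 0 3432173 0) (P.cons (P.lf 182226 0 0) P.nil)) (P.cons (P.cons (P.lf 313286 0 0) P.nil) P.nil)))))) 213325)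
 (EL.cons 7 (TM.mk (P.cons (P.cons (P.lf 246610457 0 0) (P.cons (P.lf 232667051 0 0) (P.cons (P.lf 0 3703207 0) (P.lf 0 1234403 0)))) (P.cons (P.cons (P.lf 40810376 0 0) (P.cons (P.lf 6773746 0 0) (P.cons (P.lf 0 107810 0) (P.lf 0 35936 0)))) (P.cons (P.cons (P.lf 35678965 0 0) (P.cons (P.lf 2821638 0 0) (P.cons (P.lf 0 44909 0) (P.lf 0 14969 0)))) (P.cons (P.cons (P.lf 8894643 0 0) (P.cons (P.lf 0 549302 0) (P.cons (P.lf 8739 0 0) P.nil))) (P.cons (P.cons (P.lf 0 1203174 0) (P.cons (P.lf 0 117722 0) P.nil)) (P.cons (P.cons (P.lf 0 170702 0) P.nil) P.nil)))))) 110303)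
 (EL.cons 10 (TM.mk (P.cons (P.cons (P.lf 0 3112155018 0) (P.cons (P.lf 115363341 0 0) (P.cons (P.lf 57162951 0 0) (P.cons (P.lf 0 518718 0) (P.lf 0 129678 0))))) (P.cons (P.cons (P.lf 99844524 0 0) (P.cons (P.lf 0 3701100 0) (P.cons (P.lf 0 1833906 0) (P.cons (P.lf 16641 0 0) (P.lf 4158 0 0))))) (P.cons (P.cons (P.lf 48323856 0 0) (P.cons (P.lf 0 1791297 0) (P.cons (P.lf 0 887595 0) (P.cons (P.lf 8052 0 0) P.nil)))) (P.cons (P.cons (P.lf 0 1579227 0) (P.cons (P.lf 58539 0 0) (P.cons (P.lf 29004 0 0) P.nil))) (P.cons (P.cons (P.lf 0 371049 0) (P.cons (P.lf 13752 0 0) P.nil)) (P.cons (P.cons (P.lf 13965 0 0) P.nil) P.nil)))))) 12969)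
 EL.nil))))
noncomputable def S256_285_512_586_8 : EL := (EL.cons 12 (TM.mk (P.cons (P.cons (P.lf 301015144 0 0) (P.cons (P.lf 334992028 0 0) (P.cons (P.lf 87869168 0 0) (P.cons (P.lf 0 4744112 0) (P.cons (P.lf 0 965332 0) (P.cons (P.lf 15740 0 0) P.nil)))))) (P.cons (P.cons (P.lf 227902854 0 0) (P.cons (P.lf 110692738 0 0) (P.cons (P.lf 0 10732078 0) (P.cons (P.lf 0 301728 0) (P.cons (P.lf 92908 0 0) P.nil))))) (P.cons (P.cons (P.lf 6878472 0 0) (P.cons (P.lf 0 33951396 0) (P.cons (P.lf 0 3513360 0) (P.cons (P.lf 309164 0 0) P.nil)))) (P.cons (P.cons (P.lf 0 22133908 0) (P.cons (P.lf 0 6231436 0) (P.cons (P.lf 516554 0 0) P.nil))) (P.cons (P.cons (P.lf 0 1483214 0) (P.cons (P.lf 1256748 0 0) P.nil)) (P.cons (P.cons (P.lf 824118 0 0) P.nil) P.nil)))))) 695900)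
 (EL.cons 3 (TM.mk (P.cons (P.cons (P.lf 767331832 0 0) (P.cons (P.lf 382678892 0 0) (P.cons (P.lf 0 30737139 0) (P.cons (P.lf 0 1245720 0) (P.cons (P.lf 255270 0 0) (P.cons (P.lf 0 4161 0) P.nil)))))) (P.cons (P.cons (P.lf 67153181 0 0) (P.cons (P.lf 0 203389144 0) (P.cons (P.lf 0 18840099 0) (P.cons (P.lf 1781840 0 0) (P.cons (P.lf 228665 0 0) P.nil))))) (P.cons (P.cons (P.lf 0 210190611 0) (P.cons (P.lf 0 57502215 0) (P.cons (P.lf 4634120 0 0) (P.cons (P.lf 186690 0 0) P.nil)))) (P.cons (P.cons (P.lf 0 18995552 0) (P.cons (P.lf 15723089 0 0) (P.cons (P.lf 769835 0 0) P.nil))) (P.cons (P.cons (P.lf 13335521 0 0) (P.cons (P.lf 2244335 0 0) P.nil)) (P.cons (P.cons (P.lf 918520 0 0) P.nil) P.nil)))))) 2107921)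
 (EL.cons 7 (TM.mk (P.cons (P.cons (P.lf 0 17676925 0) (P.cons (P.lf 0 55405821 0) (P.cons (P.lf 0 24474823 0) (P.cons (P.lf 1101127 0 0) (P.cons (P.lf 262631 0 0) (P.cons (P.lf 0 4281 0) P.nil)))))) (P.cons (P.cons (P.lf 5091879 0 0) (P.cons (P.lf 0 15421967 0) (P.cons (P.lf 0 1428544 0) (P.cons (P.lf 135102 0 0) (P.cons (P.lf 17339 0 0) P.nil))))) (P.cons (P.cons (P.lf 0 13371235 0) (P.cons (P.lf 0 12133169 0) (P.cons (P.lf 0 368642 0) (P.cons (P.lf 82251 0 0) P.nil)))) (P.cons (P.cons (P.lf 0 12130404 0) (P.cons (P.lf 0 1800365 0) (P.cons (P.lf 288730 0 0) P.nil))) (P.cons (P.cons (P.lf 0 169266 0) (P.cons (P.lf 1029021 0 0) P.nil)) (P.cons (P.cons (P.lf 848178 0 0) P.nil) P.nil)))))) 1062749)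
 (EL.cons 10 (TM.mk (P.cons (P.cons (P.lf 1165173132 0 0) (P.cons (P.lf 605154258 0 0) (P.cons (P.lf 0 55754046 0) (P.cons (P.lf 0 14771610 0) (P.cons (P.lf 473658 0 0) (P.cons (P.lf 88470 0 0) P.nil)))))) (P.cons (P.cons (P.lf 403703364 0 0) (P.cons (P.lf 0 66965484 0) (P.cons (P.lf 0 4659822 0) (P.cons (P.lf 1267620 0 0) (P.cons (P.lf 0 17268 0) P.nil))))) (P.cons (P.cons (P.lf 0 102418320 0) (P.cons (P.lf 0 20120166 0) (P.cons (P.lf 3148398 0 0) (P.cons (P.lf 534996 0 0) P.nil)))) (P.cons (P.cons (P.lf 0 20279070 0) (P.cons (P.lf 2778666 0 0) (P.cons (P.lf 265086 0 0) P.nil))) (P.cons (P.cons (P.lf 3150762 0 0) (P.cons (P.lf 320220 0 0) P.nil)) (P.cons (P.cons (P.lf 396318 0 0) P.nil) P.nil)))))) 340644)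
 EL.nil))))
noncomputable def S256_285_512_586_9 : EL := (EL.cons 3 (TM.mk (P.cons (P.lf 454308690 0 0) (P.cons (P.lf 450679503 0 0) (P.cons (P.lf 0 5414782 0) (P.cons (P.lf 0 1756837 0) (P.cons (P.lf 35658 0 0) (P.cons (P.lf 6731 0 0) P.nil)))))) 269)
 (EL.cons 7 (TM.mk (P.cons (P.lf 0 2130328762 0) (P.cons (P.lf 34172730 0 0) (P.cons (P.lf 16813380 0 0) (P.cons (P.lf 0 270802 0) (P.cons (P.lf 0 64991 0) (P.cons (P.lf 1601 0 0) P.nil)))))) 330)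
 EL.nil))
noncomputable def S256_285_512_586_10 : EL := (EL.cons 3 (TM.mk (P.cons (P.cons (P.lf 0 85045293 0) (P.cons (P.lf 0 47322361 0) (P.cons (P.lf 753196 0 0) (P.lf 251065 0 0)))) (P.cons (P.cons (P.lf 0 116560423 0) (P.cons (P.lf 0 44667030 0) (P.cons (P.lf 710934 0 0) (P.lf 236978 0 0)))) (P.cons (P.cons (P.lf 0 25801640 0) (P.cons (P.lf 3907061 0 0) (P.cons (P.lf 0 62185 0) (P.lf 0 20728 0)))) (P.cons (P.cons (P.lf 6981463 0 0) (P.cons (P.lf 1177327 0 0) (P.cons (P.lf 0 18737 0) P.nil))) (P.cons (P.cons (P.lf 1149166 0 0) (P.cons (P.lf 0 91113 0) P.nil)) (P.cons (P.cons (P.lf 0 135304 0) P.nil) P.nil)))))) 51378)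
 (EL.cons 7 (TM.mk (P.cons (P.cons (P.lf 398791484 0 0) (P.cons (P.lf 221902403 0 0) (P.cons (P.lf 0 3531868 0) (P.lf 0 1177289 0)))) (P.cons (P.cons (P.lf 144568319 0 0) (P.cons (P.lf 0 14238197 0) (P.cons (P.lf 226618 0 0) (P.lf 75538 0 0)))) (P.cons (P.cons (P.lf 0 29587190 0) (P.cons (P.lf 0 6662763 0) (P.cons (P.lf 106045 0 0) (P.lf 35347 0 0)))) (P.cons (P.cons (P.lf 0 6325017 0) (P.cons (P.lf 446284 0 0) (P.cons (P.lf 0 7101 0) P.nil))) (P.cons (P.cons (P.lf 712863 0 0) (P.cons (P.lf 99187 0 0) P.nil)) (P.cons (P.cons (P.lf 96811 0 0) P.nil) P.nil)))))) 25255)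
 EL.nil))
noncomputable def S256_285_512_586_11 : EL := (EL.cons 3 (TM.mk (P.cons (P.cons (P.lf 15920236 0 0) (P.cons (P.lf 17717222 0 0) (P.cons (P.lf 4647267 0 0) (P.cons (P.lf 0 250908 0) (P.cons (P.lf 0 51054 0) (P.cons (P.lf 831 0 0) P.nil)))))) (P.cons (P.cons (P.lf 27846497 0 0) (P.cons (P.lf 23430062 0 0) (P.cons (P.lf 4042539 0 0) (P.cons (P.lf 0 264862 0) (P.cons (P.lf 0 45733 0) P.nil))))) (P.cons (P.cons (P.lf 12131193 0 0) (P.cons (P.lf 3800799 0 0) (P.cons (P.lf 0 804274 0) (P.cons (P.lf 3510 0 0) P.nil)))) (P.cons (P.cons (P.lf 0 1014968 0) (P.cons (P.lf 0 2249155 0) (P.cons (P.lf 0 168217 0) P.nil))) (P.cons (P.cons (P.lf 0 1289419 0) (P.cons (P.lf 0 260317 0) P.nil)) (P.cons (P.cons (P.lf 0 20504 0) P.nil) P.nil)))))) 261645)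
 (EL.cons 7 (TM.mk (P.cons (P.cons (P.lf 0 74652631 0) (P.cons (P.lf 0 83078997 0) (P.cons (P.lf 0 21791809 0) (P.cons (P.lf 1176553 0 0) (P.cons (P.lf 239405 0 0) (P.cons (P.lf 0 3903 0) P.nil)))))) (P.cons (P.cons (P.lf 0 55323063 0) (P.cons (P.lf 0 26119445 0) (P.cons (P.lf 3011150 0 0) (P.cons (P.lf 55956 0 0) (P.cons (P.lf 0 26881 0) P.nil))))) (P.cons (P.cons (P.lf 0 210043 0) (P.cons (P.lf 9516097 0 0) (P.cons (P.lf 1000618 0 0) (P.cons (P.lf 0 87159 0) P.nil)))) (P.cons (P.cons (P.lf 5953230 0 0) (P.cons (P.lf 1616449 0 0) (P.cons (P.lf 0 165860 0) P.nil))) (P.cons (P.cons (P.lf 283788 0 0) (P.cons (P.lf 0 408945 0) P.nil)) (P.cons (P.cons (P.lf 0 255492 0) P.nil) P.nil)))))) 224281)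
 EL.nil))
noncomputable def S256_285_512_586_12 : EL := (EL.cons 4 (TM.mk (P.cons (P.lf 0 454308690 0) (P.cons (P.lf 0 450679503 0) (P.cons (P.lf 5414782 0 0) (P.cons (P.lf 1756837 0 0) (P.cons (P.lf 0 35658 0) (P.cons (P.lf 0 6731 0) P.nil)))))) 269)
 (EL.cons 8 (TM.mk (P.cons (P.lf 2130328762 0 0) (P.cons (P.lf 0 34172730 0) (P.cons (P.lf 0 16813380 0) (P.cons (P.lf 270802 0 0) (P.cons (P.lf 64991 0 0) (P.cons (P.lf 0 1601 0) P.nil)))))) 330)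
 EL.nil))
noncomputable def S256_285_512_586_13 : EL := (EL.cons 4 (TM.mk (P.cons (P.cons (P.lf 85045293 0 0) (P.cons (P.lf 47322361 0 0) (P.cons (P.lf 0 753196 0) (P.lf 0 251065 0)))) (P.cons (P.cons (P.lf 116560423 0 0) (P.cons (P.lf 44667030 0 0) (P.cons (P.lf 0 710934 0) (P.lf 0 236978 0)))) (P.cons (P.cons (P.lf 25801640 0 0) (P.cons (P.lf 0 3907061 0) (P.cons (P.lf 62185 0 0) (P.lf 20728 0 0)))) (P.cons (P.cons (P.lf 0 6981463 0) (P.cons (P.lf 0 1177327 0) (P.cons (P.lf 18737 0 0) P.nil))) (P.cons (P.cons (P.lf 0 1149166 0) (P.cons (P.lf 91113 0 0) P.nil)) (P.cons (P.cons (P.lf 135304 0 0) P.nil) P.nil)))))) 51378)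
 (EL.cons 8 (TM.mk (P.cons (P.cons (P.lf 0 398791484 0) (P.cons (P.lf 0 221902403 0) (P.cons (P.lf 3531868 0 0) (P.lf 1177289 0 0)))) (P.cons (P.cons (P.lf 0 144568319 0) (P.cons (P.lf 14238197 0 0) (P.cons (P.lf 0 226618 0) (P.lf 0 75538 0)))) (P.cons (P.cons (P.lf 29587190 0 0) (P.cons (P.lf 6662763 0 0) (P.cons (P.lf 0 106045 0) (P.lf 0 35347 0)))) (P.cons (P.cons (P.lf 6325017 0 0) (P.cons (P.lf 0 446284 0) (P.cons (P.lf 7101 0 0) P.nil))) (P.cons (P.cons (P.lf 0 712863 0) (P.cons (P.lf 0 99187 0) P.nil)) (P.cons (P.cons (P.lf 0 96811 0) P.nil) P.nil)))))) 25255)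
 EL.nil))
noncomputable def S256_285_512_586_14 : EL := (EL.cons 4 (TM.mk (P.cons (P.cons (P.lf 0 15920236 0) (P.cons (P.lf 0 17717222 0) (P.cons (P.lf 0 4647267 0) (P.cons (P.lf 250908 0 0) (P.cons (P.lf 51054 0 0) (P.cons (P.lf 0 831 0) P.nil)))))) (P.cons (P.cons (P.lf 0 27846497 0) (P.cons (P.lf 0 23430062 0) (P.cons (P.lf 0 4042539 0) (P.cons (P.lf 264862 0 0) (P.cons (P.lf 45733 0 0) P.nil))))) (P.cons (P.cons (P.lf 0 12131193 0) (P.cons (P.lf 0 3800799 0) (P.cons (P.lf 804274 0 0) (P.cons (P.lf 0 3510 0) P.nil)))) (P.cons (P.cons (P.lf 1014968 0 0) (P.cons (P.lf 2249155 0 0) (P.cons (P.lf 168217 0 0) P.nil))) (P.cons (P.cons (P.lf 1289419 0 0) (P.cons (P.lf 260317 0 0) P.nil)) (P.cons (P.cons (P.lf 20504 0 0) P.nil) P.nil)))))) 261645)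
 (EL.cons 8 (TM.mk (P.cons (P.cons (P.lf 74652631 0 0) (P.cons (P.lf 83078997 0 0) (P.cons (P.lf 21791809 0 0) (P.cons (P.lf 0 1176553 0) (P.cons (P.lf 0 239405 0) (P.cons (P.lf 3903 0 0) P.nil)))))) (P.cons (P.cons (P.lf 55323063 0 0) (P.cons (P.lf 26119445 0 0) (P.cons (P.lf 0 3011150 0) (P.cons (P.lf 0 55956 0) (P.cons (P.lf 26881 0 0) P.nil))))) (P.cons (P.cons (P.lf 210043 0 0) (P.cons (P.lf 0 9516097 0) (P.cons (P.lf 0 1000618 0) (P.cons (P.lf 87159 0 0) P.nil)))) (P.cons (P.cons (P.lf 0 5953230 0) (P.cons (P.lf 0 1616449 0) (P.cons (P.lf 165860 0 0) P.nil))) (P.cons (P.cons (P.lf 0 283788 0) (P.cons (P.lf 408945 0 0) P.nil)) (P.cons (P.cons (P.lf 255492 0 0) P.nil) P.nil)))))) 224281)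
 EL.nil))
noncomputable def S256_285_512_586_15 : EL := (EL.cons 4 (TM.mk (P.cons (P.lf 0 51259096 0) (P.cons (P.lf 0 101699239 0) (P.cons (P.lf 0 49221527 0) (P.cons (P.lf 1608569 0 0) (P.cons (P.lf 377947 0 0) (P.cons (P.lf 0 14225 0) P.nil)))))) 2557)
 (EL.cons 8 (TM.mk (P.cons (P.lf 240362403 0 0) (P.cons (P.lf 234586631 0 0) (P.cons (P.lf 0 8586714 0) (P.cons (P.lf 0 2734865 0) (P.cons (P.lf 94029 0 0) (P.cons (P.lf 17324 0 0) P.nil)))))) 877)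
 EL.nil))
noncomputable def S256_285_512_586_16 : EL := (EL.cons 4 (TM.mk (P.cons (P.cons (P.lf 9595556 0 0) (P.cons (P.lf 5339324 0 0) (P.cons (P.lf 0 84981 0) (P.lf 0 28326 0)))) (P.cons (P.cons (P.lf 22670274 0 0) (P.cons (P.lf 10336398 0 0) (P.cons (P.lf 0 164517 0) (P.lf 0 54839 0)))) (P.cons (P.cons (P.lf 15843113 0 0) (P.cons (P.lf 4495000 0 0) (P.cons (P.lf 0 71543 0) (P.lf 0 23847 0)))) (P.cons (P.cons (P.lf 1906348 0 0) (P.cons (P.lf 0 650858 0) (P.cons (P.lf 10358 0 0) P.nil))) (P.cons (P.cons (P.lf 0 995877 0) (P.cons (P.lf 0 135310 0) P.nil)) (P.cons (P.cons (P.lf 0 114051 0) P.nil) P.nil)))))) 52511)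
 (EL.cons 8 (TM.mk (P.cons (P.cons (P.lf 0 44995157 0) (P.cons (P.lf 0 25036977 0) (P.cons (P.lf 398496 0 0) (P.lf 132831 0 0)))) (P.cons (P.cons (P.lf 0 60947187 0) (P.cons (P.lf 0 23230494 0) (P.cons (P.lf 369743 0 0) (P.lf 123248 0 0)))) (P.cons (P.cons (P.lf 0 12306593 0) (P.cons (P.lf 2643805 0 0) (P.cons (P.lf 0 42079 0) (P.lf 0 14026 0)))) (P.cons (P.cons (P.lf 4393674 0 0) (P.cons (P.lf 773064 0 0) (P.cons (P.lf 0 12303 0) P.nil))) (P.cons (P.cons (P.lf 647268 0 0) (P.cons (P.lf 0 78280 0) P.nil)) (P.cons (P.cons (P.lf 0 114073 0) P.nil) P.nil)))))) 44682)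
 EL.nil))
noncomputable def S256_285_512_586_17 : EL := (EL.cons 4 (TM.mk (P.cons (P.cons (P.lf 0 1796260 0) (P.cons (P.lf 0 1999012 0) (P.cons (P.lf 0 524344 0) (P.cons (P.lf 28309 0 0) (P.cons (P.lf 5760 0 0) (P.cons (P.lf 0 93 0) P.nil)))))) (P.cons (P.cons (P.lf 0 4923797 0) (P.cons (P.lf 0 4626629 0) (P.cons (P.lf 0 976271 0) (P.cons (P.lf 57967 0 0) (P.cons (P.lf 10874 0 0) P.nil))))) (P.cons (P.cons (P.lf 0 4464126 0) (P.cons (P.lf 0 3027480 0) (P.cons (P.lf 0 355475 0) (P.cons (P.lf 28911 0 0) P.nil)))) (P.cons (P.cons (P.lf 0 1198902 0) (P.cons (P.lf 0 132405 0) (P.cons (P.lf 116463 0 0) P.nil))) (P.cons (P.cons (P.lf 287408 0 0) (P.cons (P.lf 296290 0 0) P.nil)) (P.cons (P.cons (P.lf 150289 0 0) P.nil) P.nil)))))) 172093)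
 (EL.cons 8 (TM.mk (P.cons (P.cons (P.lf 8422965 0 0) (P.cons (P.lf 9373701 0 0) (P.cons (P.lf 2458742 0 0) (P.cons (P.lf 0 132749 0) (P.cons (P.lf 0 27011 0) (P.cons (P.lf 439 0 0) P.nil)))))) (P.cons (P.cons (P.lf 14597713 0 0) (P.cons (P.lf 12245846 0 0) (P.cons (P.lf 2099357 0 0) (P.cons (P.lf 0 138002 0) (P.cons (P.lf 0 23762 0) P.nil))))) (P.cons (P.cons (P.lf 6115478 0 0) (P.cons (P.lf 1738070 0 0) (P.cons (P.lf 0 479233 0) (P.cons (P.lf 5153 0 0) P.nil)))) (P.cons (P.cons (P.lf 0 755154 0) (P.cons (P.lf 0 1318868 0) (P.cons (P.lf 0 98741 0) P.nil))) (P.cons (P.cons (P.lf 0 722108 0) (P.cons (P.lf 0 132647 0) P.nil)) (P.cons (P.cons (P.lf 5592 0 0) P.nil) P.nil)))))) 169436)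
 EL.nil))
noncomputable def S256_285_512_586_18 : EL := (EL.cons 4 (TM.mk (P.cons (P.lf 0 5783501 0) (P.cons (P.lf 0 17211901 0) (P.cons (P.lf 0 16867610 0) (P.cons (P.lf 0 5168619 0) (P.cons (P.lf 332796 0 0) (P.cons (P.lf 59024 0 0) P.nil)))))) 4306)
 (EL.cons 8 (TM.mk (P.cons (P.lf 27119797 0 0) (P.cons (P.lf 53371278 0 0) (P.cons (P.lf 24964624 0 0) (P.cons (P.lf 0 1690000 0) (P.cons (P.lf 0 384174 0) (P.cons (P.lf 22382 0 0) P.nil)))))) 4185)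
 EL.nil))
noncomputable def S256_285_512_586_19 : EL := (EL.cons 4 (TM.mk (P.cons (P.cons (P.lf 1082654 0 0) (P.cons (P.lf 602429 0 0) (P.cons (P.lf 0 9587 0) (P.lf 0 3195 0)))) (P.cons (P.cons (P.lf 3631865 0 0) (P.cons (P.lf 1763860 0 0) (P.cons (P.lf 0 28073 0) (P.lf 0 9357 0)))) (P.cons (P.cons (P.lf 4312080 0 0) (P.cons (P.lf 1656911 0 0) (P.cons (P.lf 0 26371 0) (P.lf 0 8790 0)))) (P.cons (P.cons (P.lf 1953696 0 0) (P.cons (P.lf 413447 0 0) (P.cons (P.lf 0 6580 0) P.nil))) (P.cons (P.cons (P.lf 69897 0 0) (P.cons (P.lf 0 98623 0) P.nil)) (P.cons (P.cons (P.lf 0 133592 0) P.nil) P.nil)))))) 61698)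
 (EL.cons 8 (TM.mk (P.cons (P.cons (P.lf 0 5076748 0) (P.cons (P.lf 0 2824891 0) (P.cons (P.lf 44961 0 0) (P.lf 14986 0 0)))) (P.cons (P.cons (P.lf 0 11912790 0) (P.cons (P.lf 0 5423393 0) (P.cons (P.lf 86320 0 0) (P.lf 28773 0 0)))) (P.cons (P.cons (P.lf 0 8149693 0) (P.cons (P.lf 0 2268163 0) (P.cons (P.lf 36100 0 0) (P.lf 12033 0 0)))) (P.cons (P.cons (P.lf 0 780120 0) (P.cons (P.lf 425302 0 0) (P.cons (P.lf 0 6768 0) P.nil))) (P.cons (P.cons (P.lf 607546 0 0) (P.cons (P.lf 84053 0 0) P.nil)) (P.cons (P.cons (P.lf 58422 0 0) P.nil) P.nil)))))) 40631)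
 EL.nil))
noncomputable def S256_285_512_586_20 : EL := (EL.cons 4 (TM.mk (P.cons (P.cons (P.lf 0 202669 0) (P.cons (P.lf 0 225545 0) (P.cons (P.lf 0 59160 0) (P.cons (P.lf 3194 0 0) (P.cons (P.lf 649 0 0) (P.cons (P.lf 0 10 0) P.nil)))))) (P.cons (P.cons (P.lf 0 756596 0) (P.cons (P.lf 0 745760 0) (P.cons (P.lf 0 168840 0) (P.cons (P.lf 9708 0 0) (P.cons (P.lf 1871 0 0) P.nil))))) (P.cons (P.cons (P.lf 0 1052373 0) (P.cons (P.lf 0 856745 0) (P.cons (P.lf 0 148674 0) (P.cons (P.lf 9711 0 0) P.nil)))) (P.cons (P.cons (P.lf 0 627523 0) (P.cons (P.lf 0 346703 0) (P.cons (P.lf 0 25105 0) P.nil))) (P.cons (P.cons (P.lf 0 93626 0) (P.cons (P.lf 24681 0 0) P.nil)) (P.cons (P.cons (P.lf 52638 0 0) P.nil) P.nil)))))) 110401)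
 (EL.cons 8 (TM.mk (P.cons (P.cons (P.lf 950352 0 0) (P.cons (P.lf 1057623 0 0) (P.cons (P.lf 277416 0 0) (P.cons (P.lf 0 14977 0) (P.cons (P.lf 0 3047 0) (P.cons (P.lf 49 0 0) P.nil)))))) (P.cons (P.cons (P.lf 2589803 0 0) (P.cons (P.lf 2430858 0 0) (P.cons (P.lf 512068 0 0) (P.cons (P.lf 0 30428 0) (P.cons (P.lf 0 5704 0) P.nil))))) (P.cons (P.cons (P.lf 2312559 0 0) (P.cons (P.lf 1554145 0 0) (P.cons (P.lf 177597 0 0) (P.cons (P.lf 0 14686 0) P.nil)))) (P.cons (P.cons (P.lf 575980 0 0) (P.cons (P.lf 25173 0 0) (P.cons (P.lf 0 68675 0) P.nil))) (P.cons (P.cons (P.lf 0 180515 0) (P.cons (P.lf 0 170181 0) P.nil)) (P.cons (P.cons (P.lf 0 81702 0) P.nil) P.nil)))))) 105114)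
 EL.nil))
noncomputable def S256_285_512_586_21 : EL := (EL.cons 4 (TM.mk (P.cons (P.cons (P.lf 2007005928 0 0) (P.cons (P.lf 0 141967083 0) (P.cons (P.lf 2259588 0 0) (P.lf 753195 0 0)))) (P.cons (P.cons (P.lf 0 654778983 0) (P.cons (P.lf 0 134001090 0) (P.cons (P.lf 2132802 0 0) (P.lf 710934 0 0)))) (P.cons (P.cons (P.lf 0 225069498 0) (P.cons (P.lf 11721183 0 0) (P.cons (P.lf 0 186555 0) (P.lf 0 62184 0)))) (P.cons (P.cons (P.lf 25770090 0 0) (P.cons (P.lf 3531981 0 0) (P.cons (P.lf 0 56211 0) P.nil))) (P.cons (P.cons (P.lf 4581339 0 0) (P.cons (P.lf 0 273339 0) P.nil)) (P.cons (P.cons (P.lf 0 448590 0) P.nil) P.nil)))))) 161928)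
 (EL.cons 8 (TM.mk (P.cons (P.cons (P.lf 152181027 0 0) (P.cons (P.lf 0 10764648 0) (P.cons (P.lf 171339 0 0) (P.lf 57114 0 0)))) (P.cons (P.cons (P.lf 103757943 0 0) (P.cons (P.lf 0 21011943 0) (P.cons (P.lf 334428 0 0) (P.lf 111474 0 0)))) (P.cons (P.cons (P.lf 0 65266155 0) (P.cons (P.lf 0 9484401 0) (P.cons (P.lf 150954 0 0) (P.lf 50316 0 0)))) (P.cons (P.cons (P.lf 0 15219660 0) (P.cons (P.lf 995586 0 0) (P.cons (P.lf 0 15840 0) P.nil))) (P.cons (P.cons (P.lf 1916037 0 0) (P.cons (P.lf 216909 0 0) P.nil)) (P.cons (P.cons (P.lf 267513 0 0) P.nil) P.nil)))))) 85029)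
 (EL.cons 11 (TM.mk (P.cons (P.cons (P.lf 3112155018 0 0) (P.cons (P.lf 0 115363341 0) (P.cons (P.lf 0 57162951 0) (P.cons (P.lf 518718 0 0) (P.lf 129678 0 0))))) (P.cons (P.cons (P.lf 0 99844524 0) (P.cons (P.lf 3701100 0 0) (P.cons (P.lf 1833906 0 0) (P.cons (P.lf 0 16641 0) (P.lf 0 4158 0))))) (P.cons (P.cons (P.lf 0 48323856 0) (P.cons (P.lf 1791297 0 0) (P.cons (P.lf 887595 0 0) (P.cons (P.lf 0 8052 0) P.nil)))) (P.cons (P.cons (P.lf 1579227 0 0) (P.cons (P.lf 0 58539 0) (P.cons (P.lf 0 29004 0) P.nil))) (P.cons (P.cons (P.lf 371049 0 0) (P.cons (P.lf 0 13752 0) P.nil)) (P.cons (P.cons (P.lf 0 13965 0) P.nil) P.nil)))))) 12969)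
 EL.nil)))
noncomputable def S256_285_512_586_22 : EL := (EL.cons 4 (TM.mk (P.cons (P.cons (P.lf 0 375705798 0) (P.cons (P.lf 0 182480835 0) (P.cons (P.lf 17692203 0 0) (P.cons (P.lf 497406 0 0) (P.cons (P.lf 0 153162 0) (P.cons (P.lf 2496 0 0) P.nil)))))) (P.cons (P.cons (P.lf 0 19653342 0) (P.cons (P.lf 113409603 0 0) (P.cons (P.lf 11441319 0 0) (P.cons (P.lf 0 1023351 0) (P.cons (P.lf 0 137199 0) P.nil))))) (P.cons (P.cons (P.lf 111160902 0 0) (P.cons (P.lf 30651507 0 0) (P.cons (P.lf 0 2719197 0) (P.cons (P.lf 0 91590 0) P.nil)))) (P.cons (P.cons (P.lf 8990292 0 0) (P.cons (P.lf 0 8986122 0) (P.cons (P.lf 0 469026 0) P.nil))) (P.cons (P.cons (P.lf 0 7312470 0) (P.cons (P.lf 0 1252326 0) P.nil)) (P.cons (P.cons (P.lf 0 469512 0) P.nil) P.nil)))))) 923127)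
 (EL.cons 8 (TM.mk (P.cons (P.cons (P.lf 0 28487853 0) (P.cons (P.lf 0 13836588 0) (P.cons (P.lf 1341507 0 0) (P.cons (P.lf 37713 0 0) (P.cons (P.lf 0 11613 0) (P.cons (P.lf 189 0 0) P.nil)))))) (P.cons (P.cons (P.lf 0 30207471 0) (P.cons (P.lf 0 5348739 0) (P.cons (P.lf 2219847 0 0) (P.cons (P.lf 0 39573 0) (P.cons (P.lf 0 22110 0) P.nil))))) (P.cons (P.cons (P.lf 6580596 0 0) (P.cons (P.lf 10824633 0 0) (P.cons (P.lf 684630 0 0) (P.cons (P.lf 0 84705 0) P.nil)))) (P.cons (P.cons (P.lf 9041817 0 0) (P.cons (P.lf 1708407 0 0) (P.cons (P.lf 0 227295 0) P.nil))) (P.cons (P.cons (P.lf 226527 0 0) (P.cons (P.lf 0 718983 0) P.nil)) (P.cons (P.cons (P.lf 0 551835 0) P.nil) P.nil)))))) 419223)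
 (EL.cons 11 (TM.mk (P.cons (P.cons (P.lf 0 582586566 0) (P.cons (P.lf 0 302577129 0) (P.cons (P.lf 27877023 0 0) (P.cons (P.lf 7385805 0 0) (P.cons (P.lf 0 236829 0) (P.cons (P.lf 0 44235 0) P.nil)))))) (P.cons (P.cons (P.lf 0 201851682 0) (P.cons (P.lf 33482742 0 0) (P.cons (P.lf 2329911 0 0) (P.cons (P.lf 0 633810 0) (P.cons (P.lf 8634 0 0) P.nil))))) (P.cons (P.cons (P.lf 51209160 0 0) (P.cons (P.lf 10060083 0 0) (P.cons (P.lf 0 1574199 0) (P.cons (P.lf 0 267498 0) P.nil)))) (P.cons (P.cons (P.lf 10139535 0 0) (P.cons (P.lf 0 1389333 0) (P.cons (P.lf 0 132543 0) P.nil))) (P.cons (P.cons (P.lf 0 1575381 0) (P.cons (P.lf 0 160110 0) P.nil)) (P.cons (P.cons (P.lf 0 198159 0) P.nil) P.nil)))))) 170322)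
 EL.nil)))
noncomputable def S256_285_512_586_23 : EL := (EL.cons 4 (TM.mk (P.cons (P.cons (P.lf 226448037 0 0) (P.cons (P.lf 0 16017972 0) (P.cons (P.lf 254946 0 0) (P.lf 84981 0 0)))) (P.cons (P.cons (P.lf 150761169 0 0) (P.cons (P.lf 0 31009194 0) (P.cons (P.lf 493551 0 0) (P.lf 164517 0 0)))) (P.cons (P.cons (P.lf 0 101381040 0) (P.cons (P.lf 0 13485000 0) (P.cons (P.lf 214629 0 0) (P.lf 71544 0 0)))) (P.cons (P.cons (P.lf 0 22279005 0) (P.cons (P.lf 1952574 0 0) (P.cons (P.lf 0 31074 0) P.nil))) (P.cons (P.cons (P.lf 4007418 0 0) (P.cons (P.lf 405930 0 0) P.nil)) (P.cons (P.cons (P.lf 523266 0 0) P.nil) P.nil)))))) 171834)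
 (EL.cons 8 (TM.mk (P.cons (P.cons (P.lf 17170398 0 0) (P.cons (P.lf 0 1214562 0) (P.cons (P.lf 19329 0 0) (P.lf 6444 0 0)))) (P.cons (P.cons (P.lf 28740117 0 0) (P.cons (P.lf 0 3575610 0) (P.cons (P.lf 56910 0 0) (P.lf 18969 0 0)))) (P.cons (P.cons (P.lf 4044813 0 0) (P.cons (P.lf 0 3407448 0) (P.cons (P.lf 54231 0 0) (P.lf 18075 0 0)))) (P.cons (P.cons (P.lf 0 9228219 0) (P.cons (P.lf 0 916281 0) (P.cons (P.lf 14583 0 0) P.nil))) (P.cons (P.cons (P.lf 0 1443468 0) (P.cons (P.lf 157731 0 0) P.nil)) (P.cons (P.cons (P.lf 294756 0 0) P.nil) P.nil)))))) 99957)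
 (EL.cons 11 (TM.mk (P.cons (P.cons (P.lf 351140664 0 0) (P.cons (P.lf 0 13016304 0) (P.cons (P.lf 0 6449625 0) (P.cons (P.lf 58524 0 0) (P.lf 14631 0 0))))) (P.cons (P.cons (P.lf 337070286 0 0) (P.cons (P.lf 0 12494733 0) (P.cons (P.lf 0 6191184 0) (P.cons (P.lf 56181 0 0) (P.lf 14043 0 0))))) (P.cons (P.cons (P.lf 0 20812815 0) (P.cons (P.lf 771501 0 0) (P.cons (P.lf 382281 0 0) (P.cons (P.lf 0 3468 0) P.nil)))) (P.cons (P.cons (P.lf 0 6454194 0) (P.cons (P.lf 239247 0 0) (P.cons (P.lf 118548 0 0) P.nil))) (P.cons (P.cons (P.lf 354732 0 0) (P.cons (P.lf 0 13149 0) P.nil)) (P.cons (P.cons (P.lf 63234 0 0) P.nil) P.nil)))))) 17751)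
 EL.nil)))
noncomputable def S256_285_512_586_24 : EL := (EL.cons 4 (TM.mk (P.cons (P.cons (P.lf 0 42390426 0) (P.cons (P.lf 0 20589090 0) (P.cons (P.lf 1996188 0 0) (P.cons (P.lf 56121 0 0) (P.cons (P.lf 0 17280 0) (P.cons (P.lf 279 0 0) P.nil)))))) (P.cons (P.cons (P.lf 0 44269260 0) (P.cons (P.lf 0 7628748 0) (P.cons (P.lf 3271152 0 0) (P.cons (P.lf 0 59787 0) (P.cons (P.lf 0 32622 0) P.nil))))) (P.cons (P.cons (P.lf 10847640 0 0) (P.cons (P.lf 16397415 0 0) (P.cons (P.lf 950001 0 0) (P.cons (P.lf 0 125544 0) P.nil)))) (P.cons (P.cons (P.lf 13646676 0 0) (P.cons (P.lf 2343960 0 0) (P.cons (P.lf 0 380376 0) P.nil))) (P.cons (P.cons (P.lf 36963 0 0) (P.cons (P.lf 0 1239408 0) P.nil)) (P.cons (P.cons (P.lf 0 932832 0) P.nil) P.nil)))))) 758985)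
 (EL.cons 8 (TM.mk (P.cons (P.cons (P.lf 0 3214248 0) (P.cons (P.lf 0 1561164 0) (P.cons (P.lf 151359 0 0) (P.cons (P.lf 4254 0 0) (P.cons (P.lf 0 1308 0) (P.cons (P.lf 21 0 0) P.nil)))))) (P.cons (P.cons (P.lf 0 6596844 0) (P.cons (P.lf 0 2152185 0) (P.cons (P.lf 400614 0 0) (P.cons (P.lf 0 243 0) (P.cons (P.lf 0 3792 0) P.nil))))) (P.cons (P.cons (P.lf 0 2600253 0) (P.cons (P.lf 641265 0 0) (P.cons (P.lf 323904 0 0) (P.cons (P.lf 0 14037 0) P.nil)))) (P.cons (P.cons (P.lf 1809777 0 0) (P.cons (P.lf 1417560 0 0) (P.cons (P.lf 47412 0 0) P.nil))) (P.cons (P.cons (P.lf 1041663 0 0) (P.cons (P.lf 97749 0 0) P.nil)) (P.cons (P.cons (P.lf 0 52251 0) P.nil) P.nil)))))) 275460)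
 (EL.cons 11 (TM.mk (P.cons (P.cons (P.lf 0 65732532 0) (P.cons (P.lf 0 34139406 0) (P.cons (P.lf 3145329 0 0) (P.cons (P.lf 833331 0 0) (P.cons (P.lf 0 26721 0) (P.cons (P.lf 0 4989 0) P.nil)))))) (P.cons (P.cons (P.lf 0 87982116 0) (P.cons (P.lf 0 30088872 0) (P.cons (P.lf 3383085 0 0) (P.cons (P.lf 755160 0 0) (P.cons (P.lf 0 25533 0) P.nil))))) (P.cons (P.cons (P.lf 0 16031430 0) (P.cons (P.lf 5289603 0 0) (P.cons (P.lf 45675 0 0) (P.cons (P.lf 0 111054 0) P.nil)))) (P.cons (P.cons (P.lf 7401378 0 0) (P.cons (P.lf 1056234 0 0) (P.cons (P.lf 0 206445 0) P.nil))) (P.cons (P.cons (P.lf 971190 0 0) (P.cons (P.lf 0 204384 0) P.nil)) (P.cons (P.cons (P.lf 0 237426 0) P.nil) P.nil)))))) 194166)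
 EL.nil)))
noncomputable def S256_285_512_586_25 : EL := (EL.cons 4 (TM.mk (P.cons (P.cons (P.lf 25549854 0 0) (P.cons (P.lf 0 1807287 0) (P.cons (P.lf 28764 0 0) (P.lf 9588 0 0)))) (P.cons (P.cons (P.lf 42355953 0 0) (P.cons (P.lf 0 5291580 0) (P.cons (P.lf 84222 0 0) (P.lf 28074 0 0)))) (P.cons (P.cons (P.lf 5131092 0 0) (P.cons (P.lf 0 4970736 0) (P.cons (P.lf 79113 0 0) (P.lf 26370 0 0)))) (P.cons (P.cons (P.lf 0 14162577 0) (P.cons (P.lf 0 1240344 0) (P.cons (P.lf 19740 0 0) P.nil))) (P.cons (P.cons (P.lf 0 1968918 0) (P.cons (P.lf 295869 0 0) P.nil)) (P.cons (P.cons (P.lf 583485 0 0) P.nil) P.nil)))))) 214917)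
 (EL.cons 8 (TM.mk (P.cons (P.cons (P.lf 1937313 0 0) (P.cons (P.lf 0 137037 0) (P.cons (P.lf 2181 0 0) (P.lf 726 0 0)))) (P.cons (P.cons (P.lf 5164551 0 0) (P.cons (P.lf 0 539373 0) (P.cons (P.lf 8583 0 0) (P.lf 2859 0 0)))) (P.cons (P.cons (P.lf 3650088 0 0) (P.cons (P.lf 0 783033 0) (P.cons (P.lf 12462 0 0) (P.lf 4152 0 0)))) (P.cons (P.cons (P.lf 0 634623 0) (P.cons (P.lf 0 479430 0) (P.cons (P.lf 7629 0 0) P.nil))) (P.cons (P.cons (P.lf 0 1213581 0) (P.cons (P.lf 0 78627 0) P.nil)) (P.cons (P.cons (P.lf 0 117378 0) P.nil) P.nil)))))) 87192)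
 (EL.cons 11 (TM.mk (P.cons (P.cons (P.lf 39618774 0 0) (P.cons (P.lf 0 1468611 0) (P.cons (P.lf 0 727701 0) (P.cons (P.lf 6603 0 0) (P.lf 1650 0 0))))) (P.cons (P.cons (P.lf 77333514 0 0) (P.cons (P.lf 0 2866647 0) (P.cons (P.lf 0 1420434 0) (P.cons (P.lf 12888 0 0) (P.lf 3222 0 0))))) (P.cons (P.cons (P.lf 34906932 0 0) (P.cons (P.lf 0 1293951 0) (P.cons (P.lf 0 641157 0) (P.cons (P.lf 5817 0 0) P.nil)))) (P.cons (P.cons (P.lf 0 3664236 0) (P.cons (P.lf 135828 0 0) (P.cons (P.lf 67302 0 0) P.nil))) (P.cons (P.cons (P.lf 0 798345 0) (P.cons (P.lf 29592 0 0) P.nil)) (P.cons (P.cons (P.lf 68169 0 0) P.nil) P.nil)))))) 38373)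
 EL.nil)))
noncomputable def S256_285_512_586_26 : EL := (EL.cons 4 (TM.mk (P.cons (P.cons (P.lf 0 4782858 0) (P.cons (P.lf 0 2323041 0) (P.cons (P.lf 225225 0 0) (P.cons (P.lf 6330 0 0) (P.cons (P.lf 0 1947 0) (P.cons (P.lf 30 0 0) P.nil)))))) (P.cons (P.cons (P.lf 0 9739497 0) (P.cons (P.lf 0 3165225 0) (P.cons (P.lf 592506 0 0) (P.cons (P.lf 0 462 0) (P.cons (P.lf 0 5613 0) P.nil))))) (P.cons (P.cons (P.lf 0 3674013 0) (P.cons (P.lf 1023921 0 0) (P.cons (P.lf 470634 0 0) (P.cons (P.lf 0 20931 0) P.nil)))) (P.cons (P.cons (P.lf 2831913 0 0) (P.cons (P.lf 2119029 0 0) (P.cons (P.lf 58143 0 0) P.nil))) (P.cons (P.cons (P.lf 1535958 0 0) (P.cons (P.lf 103605 0 0) P.nil)) (P.cons (P.cons (P.lf 0 124659 0) P.nil) P.nil)))))) 463590)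
 (EL.cons 8 (TM.mk (P.cons (P.cons (P.lf 0 362658 0) (P.cons (P.lf 0 176142 0) (P.cons (P.lf 17076 0 0) (P.cons (P.lf 480 0 0) (P.cons (P.lf 0 147 0) (P.cons (P.lf 0 0 0) P.nil)))))) (P.cons (P.cons (P.lf 0 1104075 0) (P.cons (P.lf 0 417564 0) (P.cons (P.lf 62142 0 0) (P.cons (P.lf 447 0 0) (P.cons (P.lf 0 573 0) P.nil))))) (P.cons (P.cons (P.lf 0 1027428 0) (P.cons (P.lf 0 166434 0) (P.cons (P.lf 81180 0 0) (P.cons (P.lf 0 1614 0) P.nil)))) (P.cons (P.cons (P.lf 0 76569 0) (P.cons (P.lf 235290 0 0) (P.cons (P.lf 40998 0 0) P.nil))) (P.cons (P.cons (P.lf 326439 0 0) (P.cons (P.lf 169755 0 0) P.nil)) (P.cons (P.cons (P.lf 109332 0 0) P.nil) P.nil)))))) 148842)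
 (EL.cons 11 (TM.mk (P.cons (P.cons (P.lf 0 7416519 0) (P.cons (P.lf 0 3851907 0) (P.cons (P.lf 354882 0 0) (P.cons (P.lf 94023 0 0) (P.cons (P.lf 0 3012 0) (P.cons (P.lf 0 561 0) P.nil)))))) (P.cons (P.cons (P.lf 0 17284188 0) (P.cons (P.lf 0 7216026 0) (P.cons (P.lf 733758 0 0) (P.cons (P.lf 178476 0 0) (P.cons (P.lf 0 5871 0) P.nil))))) (P.cons (P.cons (P.lf 0 11568024 0) (P.cons (P.lf 0 2725041 0) (P.cons (P.lf 379581 0 0) (P.cons (P.lf 70869 0 0) P.nil)))) (P.cons (P.cons (P.lf 0 812271 0) (P.cons (P.lf 766581 0 0) (P.cons (P.lf 0 24099 0) P.nil))) (P.cons (P.cons (P.lf 997359 0 0) (P.cons (P.lf 100872 0 0) P.nil)) (P.cons (P.cons (P.lf 78066 0 0) P.nil) P.nil)))))) 142185)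
 EL.nil)))
noncomputable def S256_285_512_586_27 : EL := (EL.cons 13 (TM.mk (P.lf 0 4294967296 0) 0)
 EL.nil)
noncomputable def S256_285_512_586_28 : EL := (EL.cons 13 (TM.mk (P.cons (P.cons (P.lf 804005660 0 0) (P.cons (P.lf 447378632 0 0) (P.cons (P.lf 0 7120620 0) (P.lf 0 2373540 0)))) (P.cons (P.cons (P.lf 304362071 0 0) (P.cons (P.lf 0 21529280 0) (P.cons (P.lf 342664 0 0) (P.lf 114220 0 0)))) (P.cons (P.cons (P.lf 0 48423080 0) (P.cons (P.lf 0 10247300 0) (P.cons (P.lf 163096 0 0) (P.lf 54364 0 0)))) (P.cons (P.cons (P.lf 0 11228720 0) (P.cons (P.lf 508592 0 0) (P.cons (P.lf 0 8092 0) P.nil))) (P.cons (P.cons (P.lf 811696 0 0) (P.cons (P.lf 116344 0 0) P.nil)) (P.cons (P.cons (P.lf 117055 0 0) P.nil) P.nil)))))) 23267)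
 EL.nil)
noncomputable def S256_285_512_586_29 : EL := (EL.cons 13 (TM.mk (P.cons (P.cons (P.lf 0 150507572 0) (P.cons (P.lf 0 167496014 0) (P.cons (P.lf 0 43934584 0) (P.cons (P.lf 2372056 0 0) (P.cons (P.lf 482666 0 0) (P.cons (P.lf 0 7870 0) P.nil)))))) (P.cons (P.cons (P.lf 0 113951427 0) (P.cons (P.lf 0 55346369 0) (P.cons (P.lf 5366039 0 0) (P.cons (P.lf 150864 0 0) (P.cons (P.lf 0 46454 0) P.nil))))) (P.cons (P.cons (P.lf 0 3439236 0) (P.cons (P.lf 16975698 0 0) (P.cons (P.lf 1756680 0 0) (P.cons (P.lf 0 154582 0) P.nil)))) (P.cons (P.cons (P.lf 11066954 0 0) (P.cons (P.lf 3115718 0 0) (P.cons (P.lf 0 258277 0) P.nil))) (P.cons (P.cons (P.lf 741607 0 0) (P.cons (P.lf 0 628374 0) P.nil)) (P.cons (P.cons (P.lf 0 412059 0) P.nil) P.nil)))))) 347950)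
 EL.nil)
noncomputable def S256_285_512_586_30 : EL := (EL.cons 13 (TM.mk (P.cons (P.lf 0 484595936 0) (P.cons (P.lf 0 480724804 0) (P.cons (P.lf 5775768 0 0) (P.cons (P.lf 1873960 0 0) (P.cons (P.lf 0 38036 0) (P.cons (P.lf 0 7180 0) P.nil)))))) 280)
 EL.nil)
noncomputable def S256_285_512_586_31 : EL := (EL.cons 13 (TM.mk (P.cons (P.cons (P.lf 90714980 0 0) (P.cons (P.lf 50477186 0 0) (P.cons (P.lf 0 803410 0) (P.lf 0 267803 0)))) (P.cons (P.cons (P.lf 124331118 0 0) (P.cons (P.lf 47644833 0 0) (P.cons (P.lf 0 758330 0) (P.lf 0 252777 0)))) (P.cons (P.cons (P.lf 27521750 0 0) (P.cons (P.lf 0 4167532 0) (P.cons (P.lf 66331 0 0) (P.lf 22110 0 0)))) (P.cons (P.cons (P.lf 0 7446894 0) (P.cons (P.lf 0 1255816 0) (P.cons (P.lf 19987 0 0) P.nil))) (P.cons (P.cons (P.lf 0 1225778 0) (P.cons (P.lf 97188 0 0) P.nil)) (P.cons (P.cons (P.lf 144325 0 0) P.nil) P.nil)))))) 54783)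
 EL.nil)
noncomputable def S256_285_512_586_32 : EL := (EL.cons 13 (TM.mk (P.cons (P.cons (P.lf 0 16981586 0) (P.cons (P.lf 0 18898371 0) (P.cons (P.lf 0 4957085 0) (P.cons (P.lf 267636 0 0) (P.cons (P.lf 54458 0 0) (P.cons (P.lf 0 887 0) P.nil)))))) (P.cons (P.cons (P.lf 0 29702931 0) (P.cons (P.lf 0 24992067 0) (P.cons (P.lf 0 4312042 0) (P.cons (P.lf 282520 0 0) (P.cons (P.lf 48782 0 0) P.nil))))) (P.cons (P.cons (P.lf 0 12939940 0) (P.cons (P.lf 0 4054186 0) (P.cons (P.lf 857893 0 0) (P.cons (P.lf 0 3745 0) P.nil)))) (P.cons (P.cons (P.lf 1082633 0 0) (P.cons (P.lf 2399099 0 0) (P.cons (P.lf 179432 0 0) P.nil))) (P.cons (P.cons (P.lf 1375381 0 0) (P.cons (P.lf 277672 0 0) P.nil)) (P.cons (P.cons (P.lf 21871 0 0) P.nil) P.nil)))))) 279065)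
 EL.nil)
noncomputable def S256_285_512_586_33 : EL := (EL.cons 14 (TM.mk (P.lf 8589934592 0 0) 0)
 EL.nil)
noncomputable def S256_285_512_586_34 : EL := (EL.cons 14 (TM.mk (P.cons (P.cons (P.lf 0 1608011320 0) (P.cons (P.lf 0 894757264 0) (P.cons (P.lf 14241240 0 0) (P.lf 4747080 0 0)))) (P.cons (P.cons (P.lf 0 608724142 0) (P.cons (P.lf 43058560 0 0) (P.cons (P.lf 0 685328 0) (P.lf 0 228440 0)))) (P.cons (P.cons (P.lf 96846160 0 0) (P.cons (P.lf 20494600 0 0) (P.cons (P.lf 0 326192 0) (P.lf 0 108728 0)))) (P.cons (P.cons (P.lf 22457440 0 0) (P.cons (P.lf 0 1017184 0) (P.cons (P.lf 16184 0 0) P.nil))) (P.cons (P.cons (P.lf 0 1623392 0) (P.cons (P.lf 0 232688 0) P.nil)) (P.cons (P.cons (P.lf 0 234110 0) P.nil) P.nil)))))) 46534)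
 EL.nil)
noncomputable def S256_285_512_586_35 : EL := (EL.cons 14 (TM.mk (P.cons (P.cons (P.lf 301015144 0 0) (P.cons (P.lf 334992028 0 0) (P.cons (P.lf 87869168 0 0) (P.cons (P.lf 0 4744112 0) (P.cons (P.lf 0 965332 0) (P.cons (P.lf 15740 0 0) P.nil)))))) (P.cons (P.cons (P.lf 227902854 0 0) (P.cons (P.lf 110692738 0 0) (P.cons (P.lf 0 10732078 0) (P.cons (P.lf 0 301728 0) (P.cons (P.lf 92908 0 0) P.nil))))) (P.cons (P.cons (P.lf 6878472 0 0) (P.cons (P.lf 0 33951396 0) (P.cons (P.lf 0 3513360 0) (P.cons (P.lf 309164 0 0) P.nil)))) (P.cons (P.cons (P.lf 0 22133908 0) (P.cons (P.lf 0 6231436 0) (P.cons (P.lf 516554 0 0) P.nil))) (P.cons (P.cons (P.lf 0 1483214 0) (P.cons (P.lf 1256748 0 0) P.nil)) (P.cons (P.cons (P.lf 824118 0 0) P.nil) P.nil)))))) 695900)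
 EL.nil)
noncomputable def S256_285_512_586_36 : EL := (EL.cons 14 (TM.mk (P.cons (P.lf 969191872 0 0) (P.cons (P.lf 961449608 0 0) (P.cons (P.lf 0 11551536 0) (P.cons (P.lf 0 3747920 0) (P.cons (P.lf 76072 0 0) (P.cons (P.lf 14360 0 0) P.nil)))))) 560)
 EL.nil)
noncomputable def S256_285_512_586_37 : EL := (EL.cons 14 (TM.mk (P.cons (P.cons (P.lf 0 181429960 0) (P.cons (P.lf 0 100954372 0) (P.cons (P.lf 1606820 0 0) (P.lf 535606 0 0)))) (P.cons (P.cons (P.lf 0 248662236 0) (P.cons (P.lf 0 95289666 0) (P.cons (P.lf 1516660 0 0) (P.lf 505554 0 0)))) (P.cons (P.cons (P.lf 0 55043500 0) (P.cons (P.lf 8335064 0 0) (P.cons (P.lf 0 132662 0) (P.lf 0 44220 0)))) (P.cons (P.cons (P.lf 14893788 0 0) (P.cons (P.lf 2511632 0 0) (P.cons (P.lf 0 39974 0) P.nil))) (P.cons (P.cons (P.lf 2451556 0 0) (P.cons (P.lf 0 194376 0) P.nil)) (P.cons (P.cons (P.lf 0 288650 0) P.nil) P.nil))))))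 109566)
 EL.nil)
noncomputable def S256_285_512_586_38 : EL := (EL.cons 14 (TM.mk (P.cons (P.cons (P.lf 33963172 0 0) (P.cons (P.lf 37796742 0 0) (P.cons (P.lf 9914170 0 0) (P.cons (P.lf 0 535272 0) (P.cons (P.lf 0 108916 0) (P.cons (P.lf 1774 0 0) P.nil)))))) (P.cons (P.cons (P.lf 59405862 0 0) (P.cons (P.lf 49984134 0 0) (P.cons (P.lf 8624084 0 0) (P.cons (P.lf 0 565040 0) (P.cons (P.lf 0 97564 0) P.nil))))) (P.cons (P.cons (P.lf 25879880 0 0) (P.cons (P.lf 8108372 0 0) (P.cons (P.lf 0 1715786 0) (P.cons (P.lf 7490 0 0) P.nil)))) (P.cons (P.cons (P.lf 0 2165266 0) (P.cons (P.lf 0 4798198 0) (P.cons (P.lf 0 358864 0) P.nil))) (P.cons (P.cons (P.lf 0 2750762 0) (P.cons (P.lf 0 555344 0) P.nil)) (P.cons (P.cons (P.lf 0 43742 0) P.nil) P.nil)))))) 558130)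
 EL.nil)
noncomputable def S256_285_512_586_39 : EL := (EL.cons 14 (TM.mk (P.cons (P.lf 109352740 0 0) (P.cons (P.lf 216958378 0 0) (P.cons (P.lf 105005926 0 0) (P.cons (P.lf 0 3431614 0) (P.cons (P.lf 0 806288 0) (P.cons (P.lf 30348 0 0) P.nil)))))) 5440)
 EL.nil)
noncomputable def S256_285_512_586_40 : EL := (EL.cons 14 (TM.mk (P.cons (P.cons (P.lf 0 20470520 0) (P.cons (P.lf 0 11390558 0) (P.cons (P.lf 181294 0 0) (P.lf 60430 0 0)))) (P.cons (P.cons (P.lf 0 48363252 0) (P.cons (P.lf 0 22050984 0) (P.cons (P.lf 350970 0 0) (P.lf 116990 0 0)))) (P.cons (P.cons (P.lf 0 33798642 0) (P.cons (P.lf 0 9589334 0) (P.cons (P.lf 152626 0 0) (P.lf 50874 0 0)))) (P.cons (P.cons (P.lf 0 4066876 0) (P.cons (P.lf 1388498 0 0) (P.cons (P.lf 0 22098 0) P.nil))) (P.cons (P.cons (P.lf 2124538 0 0) (P.cons (P.lf 288662 0 0) P.nil)) (P.cons (P.cons (P.lf 243310 0 0) P.nil) P.nil))))))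 111984)
 EL.nil)
noncomputable def S256_285_512_586_41 : EL := (EL.cons 14 (TM.mk (P.cons (P.cons (P.lf 3832022 0 0) (P.cons (P.lf 4264560 0 0) (P.cons (P.lf 1118602 0 0) (P.cons (P.lf 0 60394 0) (P.cons (P.lf 0 12288 0) (P.cons (P.lf 200 0 0) P.nil)))))) (P.cons (P.cons (P.lf 10504102 0 0) (P.cons (P.lf 9870142 0 0) (P.cons (P.lf 2082712 0 0) (P.cons (P.lf 0 123664 0) (P.cons (P.lf 0 23198 0) P.nil))))) (P.cons (P.cons (P.lf 9523470 0 0) (P.cons (P.lf 6458626 0 0) (P.cons (P.lf 758348 0 0) (P.cons (P.lf 0 61678 0) P.nil)))) (P.cons (P.cons (P.lf 2557658 0 0) (P.cons (P.lf 282466 0 0) (P.cons (P.lf 0 248456 0) P.nil))) (P.cons (P.cons (P.lf 0 613138 0) (P.cons (P.lf 0 632086 0) P.nil)) (P.cons (P.cons (P.lf 0 320618 0) P.nil) P.nil)))))) 367086)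
 EL.nil)
noncomputable def S256_285_512_586_42 : EL := (EL.cons 14 (TM.mk (P.cons (P.lf 12338136 0 0) (P.cons (P.lf 36718724 0 0) (P.cons (P.lf 35984236 0 0) (P.cons (P.lf 11026388 0 0) (P.cons (P.lf 0 709966 0) (P.cons (P.lf 0 125918 0) P.nil)))))) 9172)
 EL.nil)
noncomputable def S256_285_512_586_43 : EL := (EL.cons 14 (TM.mk (P.cons (P.cons (P.lf 0 2309662 0) (P.cons (P.lf 0 1285182 0) (P.cons (P.lf 20454 0 0) (P.lf 6818 0 0)))) (P.cons (P.cons (P.lf 0 7747980 0) (P.cons (P.lf 0 3762902 0) (P.cons (P.lf 59890 0 0) (P.lf 19962 0 0)))) (P.cons (P.cons (P.lf 0 9199106 0) (P.cons (P.lf 0 3534744 0) (P.cons (P.lf 56260 0 0) (P.lf 18752 0 0)))) (P.cons (P.cons (P.lf 0 4167886 0) (P.cons (P.lf 0 882022 0) (P.cons (P.lf 14038 0 0) P.nil))) (P.cons (P.cons (P.lf 0 149114 0) (P.cons (P.lf 210396 0 0) P.nil)) (P.cons (P.cons (P.lf 284998 0 0) P.nil) P.nil)))))) 131582)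
 EL.nil)
noncomputable def S256_285_512_586_44 : EL := (EL.cons 14 (TM.mk (P.cons (P.cons (P.lf 432362 0 0) (P.cons (P.lf 481164 0 0) (P.cons (P.lf 126210 0 0) (P.cons (P.lf 0 6814 0) (P.cons (P.lf 0 1386 0) (P.cons (P.lf 22 0 0) P.nil)))))) (P.cons (P.cons (P.lf 1614072 0 0) (P.cons (P.lf 1590956 0 0) (P.cons (P.lf 360192 0 0) (P.cons (P.lf 0 20712 0) (P.cons (P.lf 0 3992 0) P.nil))))) (P.cons (P.cons (P.lf 2245064 0 0) (P.cons (P.lf 1827724 0 0) (P.cons (P.lf 317172 0 0) (P.cons (P.lf 0 20718 0) P.nil)))) (P.cons (P.cons (P.lf 1338716 0 0) (P.cons (P.lf 739634 0 0) (P.cons (P.lf 53558 0 0) P.nil))) (P.cons (P.cons (P.lf 199736 0 0) (P.cons (P.lf 0 52654 0) P.nil)) (P.cons (P.cons (P.lf 0 112296 0) P.nil) P.nil)))))) 235476)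
 EL.nil)
noncomputable def S256_285_512_586_45 : EL := (EL.cons 14 (TM.mk (P.cons (P.cons (P.lf 0 56349178 0) (P.cons (P.lf 0 94064332 0) (P.cons (P.lf 0 50843732 0) (P.cons (P.lf 0 7542938 0) (P.cons (P.lf 1005676 0 0) (P.cons (P.lf 138298 0 0) P.nil)))))) (P.cons (P.cons (P.lf 0 63994148 0) (P.cons (P.lf 0 66690770 0) (P.cons (P.lf 0 13714924 0) (P.cons (P.lf 2225754 0 0) (P.cons (P.lf 86124 0 0) P.nil))))) (P.cons (P.cons (P.lf 0 14044166 0) (P.cons (P.lf 3432314 0 0) (P.cons (P.lf 7281292 0 0) (P.cons (P.lf 347922 0 0) P.nil)))) (P.cons (P.cons (P.lf 7012396 0 0) (P.cons (P.lf 8544386 0 0) (P.cons (P.lf 919002 0 0) P.nil))) (P.cons (P.cons (P.lf 2462658 0 0) (P.cons (P.lf 74450 0 0) P.nil)) (P.cons (P.cons (P.lf 0 332002 0) P.nil) P.nil)))))) 1739360)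
 EL.nil)
noncomputable def S256_285_512_586_46 : EL := (EL.cons 15 (TM.mk (P.lf 4294967296 0 0) 0)
 EL.nil)
noncomputable def S256_285_512_586_47 : EL := (EL.cons 15 (TM.mk (P.cons (P.cons (P.lf 0 804005660 0) (P.cons (P.lf 0 447378632 0) (P.cons (P.lf 7120620 0 0) (P.lf 2373540 0 0)))) (P.cons (P.cons (P.lf 0 304362071 0) (P.cons (P.lf 21529280 0 0) (P.cons (P.lf 0 342664 0) (P.lf 0 114220 0)))) (P.cons (P.cons (P.lf 48423080 0 0) (P.cons (P.lf 10247300 0 0) (P.cons (P.lf 0 163096 0) (P.lf 0 54364 0)))) (P.cons (P.cons (P.lf 11228720 0 0) (P.cons (P.lf 0 508592 0) (P.cons (P.lf 8092 0 0) P.nil))) (P.cons (P.cons (P.lf 0 811696 0) (P.cons (P.lf 0 116344 0) P.nil)) (P.cons (P.cons (P.lf 0 117055 0) P.nil) P.nil)))))) 23267)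
 EL.nil)
noncomputable def S256_285_512_586_48 : EL := (EL.cons 15 (TM.mk (P.cons (P.cons (P.lf 150507572 0 0) (P.cons (P.lf 167496014 0 0) (P.cons (P.lf 43934584 0 0) (P.cons (P.lf 0 2372056 0) (P.cons (P.lf 0 482666 0) (P.cons (P.lf 7870 0 0) P.nil)))))) (P.cons (P.cons (P.lf 113951427 0 0) (P.cons (P.lf 55346369 0 0) (P.cons (P.lf 0 5366039 0) (P.cons (P.lf 0 150864 0) (P.cons (P.lf 46454 0 0) P.nil))))) (P.cons (P.cons (P.lf 3439236 0 0) (P.cons (P.lf 0 16975698 0) (P.cons (P.lf 0 1756680 0) (P.cons (P.lf 154582 0 0) P.nil)))) (P.cons (P.cons (P.lf 0 11066954 0) (P.cons (P.lf 0 3115718 0) (P.cons (P.lf 258277 0 0) P.nil))) (P.cons (P.cons (P.lf 0 741607 0) (P.cons (P.lf 628374 0 0) P.nil)) (P.cons (P.cons (P.lf 412059 0 0) P.nil) P.nil)))))) 347950)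
 EL.nil)
noncomputable def S256_285_512_586 : SL := (SL.cons S256_285_512_586_0 (SL.cons S256_285_512_586_1 (SL.cons S256_285_512_586_2 (SL.cons S256_285_512_586_3 (SL.cons S256_285_512_586_4 (SL.cons S256_285_512_586_5 (SL.cons S256_285_512_586_6 (SL.cons S256_285_512_586_7 (SL.cons S256_285_512_586_8 (SL.cons S256_285_512_586_9 (SL.cons S256_285_512_586_10 (SL.cons S256_285_512_586_11 (SL.cons S256_285_512_586_12 (SL.cons S256_285_512_586_13 (SL.cons S256_285_512_586_14 (SL.cons S256_285_512_586_15 (SL.cons S256_285_512_586_16 (SL.cons S256_285_512_586_17 (SL.cons S256_285_512_586_18 (SL.cons S256_285_512_586_19 (SL.cons S256_285_512_586_20 (SL.cons S256_285_512_586_21 (SL.cons S256_285_512_586_22 (SL.cons S256_285_512_586_23 (SL.cons S256_285_512_586_24 (SL.cons S256_285_512_586_25 (SL.cons S256_285_512_586_26 (SL.cons S256_285_512_586_27 (SL.cons S256_285_512_586_28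 (SL.cons S256_285_512_586_29 (SL.cons S256_285_512_586_30 (SL.cons S256_285_512_586_31 (SL.cons S256_285_512_586_32 (SL.cons S256_285_512_586_33 (SL.cons S256_285_512_586_34 (SL.cons S256_285_512_586_35 (SL.cons S256_285_512_586_36 (SL.cons S256_285_512_586_37 (SL.cons S256_285_512_586_38 (SL.cons S256_285_512_586_39 (SL.cons S256_285_512_586_40 (SL.cons S256_285_512_586_41 (SL.cons S256_285_512_586_42 (SL.cons S256_285_512_586_43 (SL.cons S256_285_512_586_44 (SL.cons S256_285_512_586_45 (SL.cons S256_285_512_586_46 (SL.cons S256_285_512_586_47 (SL.cons S256_285_512_586_48 SL.nil)))))))))))))))))))))))))))))))))))))))))))))))))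
noncomputable def S256_285_512_660_0 : EL := (EL.cons 0 (TM.mk (P.cons (P.lf 8359606057 0 0) (P.cons (P.lf 0 190686074 0) (P.cons (P.lf 0 92290364 0) (P.cons (P.lf 3016066 0 0) (P.cons (P.lf 708651 0 0) (P.cons (P.lf 0 26673 0) P.nil)))))) 4788)
 (EL.cons 1 (TM.mk (P.cons (P.lf 450679505 0 0) (P.cons (P.lf 439849933 0 0) (P.cons (P.lf 0 16100088 0) (P.cons (P.lf 0 5127871 0) (P.cons (P.lf 176304 0 0) (P.cons (P.lf 32482 0 0) P.nil)))))) 1651)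
 (EL.cons 5 (TM.mk (P.cons (P.lf 4329140030 0 0) (P.cons (P.lf 67799490 0 0) (P.cons (P.lf 32814348 0 0) (P.cons (P.lf 0 1072376 0) (P.cons (P.lf 0 251962 0) (P.cons (P.lf 9484 0 0) P.nil)))))) 1837)
 (EL.cons 9 (TM.mk (P.lf 6442450944 0 0) 2)
 EL.nil))))
noncomputable def S256_285_512_660_1 : EL := (EL.cons 0 (TM.mk (P.cons (P.cons (P.lf 0 2812374494 0) (P.cons (P.lf 0 1601175368 0) (P.cons (P.lf 107050853 0 0) (P.lf 35683620 0 0)))) (P.cons (P.cons (P.lf 0 722019161 0) (P.cons (P.lf 228366478 0 0) (P.cons (P.lf 0 15268040 0) (P.lf 0 5089337 0)))) (P.cons (P.cons (P.lf 367871533 0 0) (P.cons (P.lf 102627675 0 0) (P.cons (P.lf 0 6861440 0) (P.lf 0 2287137 0)))) (P.cons (P.cons (P.lf 61696174 0 0) (P.cons (P.lf 0 11203677 0) (P.cons (P.lf 749037 0 0) P.nil))) (P.cons (P.cons (P.lf 0 12196690 0) (P.cons (P.lf 0 2368978 0) P.nil)) (P.cons (P.cons (P.lf 0 1297837 0) P.nil)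 P.nil)))))) 1106078)
 (EL.cons 1 (TM.mk (P.cons (P.cons (P.lf 781267697 0 0) (P.cons (P.lf 0 221345390 0) (P.cons (P.lf 14798632 0 0) (P.lf 4932877 0 0)))) (P.cons (P.cons (P.lf 0 585263728 0) (P.cons (P.lf 0 201002690 0) (P.cons (P.lf 13438569 0 0) (P.lf 4479519 0 0)))) (P.cons (P.cons (P.lf 0 125893158 0) (P.cons (P.lf 29686086 0 0) (P.cons (P.lf 0 1984732 0) (P.lf 0 661573 0)))) (P.cons (P.cons (P.lf 38539871 0 0) (P.cons (P.lf 8537412 0 0) (P.cons (P.lf 0 570787 0) P.nil))) (P.cons (P.cons (P.lf 5000474 0 0) (P.cons (P.lf 0 980465 0) P.nil)) (P.cons (P.cons (P.lf 0 956569 0) P.nil) P.nil)))))) 733287)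
 (EL.cons 5 (TM.mk (P.cons (P.cons (P.lf 0 1111257870 0) (P.cons (P.lf 0 879150218 0) (P.cons (P.lf 58777936 0 0) (P.lf 19592644 0 0)))) (P.cons (P.cons (P.lf 0 224874532 0) (P.cons (P.lf 0 11492614 0) (P.cons (P.lf 768366 0 0) (P.lf 256120 0 0)))) (P.cons (P.cons (P.lf 0 31428800 0) (P.cons (P.lf 0 3312616 0) (P.cons (P.lf 221466 0 0) (P.lf 73818 0 0)))) (P.cons (P.cons (P.lf 0 3693858 0) (P.cons (P.lf 2336862 0 0) (P.cons (P.lf 0 156230 0) P.nil))) (P.cons (P.cons (P.lf 2763108 0 0) (P.cons (P.lf 465606 0 0) P.nil)) (P.cons (P.cons (P.lf 272957 0 0) P.nil) P.nil)))))) 559935)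
 (EL.cons 9 (TM.mk (P.cons (P.cons (P.lf 0 1862835204 0) (P.cons (P.lf 0 1278050304 0) (P.cons (P.lf 85447464 0 0) (P.lf 28482486 0 0)))) (P.cons (P.cons (P.lf 0 424934518 0) (P.cons (P.lf 61503834 0 0) (P.cons (P.lf 0 4111998 0) (P.lf 0 1370664 0)))) (P.cons (P.cons (P.lf 87679374 0 0) (P.cons (P.lf 29274012 0 0) (P.cons (P.lf 0 1957188 0) (P.lf 0 652392 0)))) (P.cons (P.cons (P.lf 16096368 0 0) (P.cons (P.lf 0 1452930 0) (P.cons (P.lf 97134 0 0) P.nil))) (P.cons (P.cons (P.lf 0 1388358 0) (P.cons (P.lf 0 332370 0) P.nil)) (P.cons (P.cons (P.lf 0 166312 0) P.nil) P.nil)))))) 105281)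
 (EL.cons 2 (TM.mk (P.cons (P.cons (P.lf 0 311013646 0) (P.cons (P.lf 48152722 0 0) (P.cons (P.lf 23198461 0 0) (P.cons (P.lf 0 877896 0) (P.lf 0 219473 0))))) (P.cons (P.cons (P.lf 0 298551178 0) (P.cons (P.lf 46223218 0 0) (P.cons (P.lf 22268888 0 0) (P.cons (P.lf 0 842717 0) (P.lf 0 210678 0))))) (P.cons (P.cons (P.lf 18434407 0 0) (P.cons (P.lf 0 2854108 0) (P.cons (P.lf 0 1375017 0) (P.cons (P.lf 52034 0 0) P.nil)))) (P.cons (P.cons (P.lf 5716634 0 0) (P.cons (P.lf 0 885076 0) (P.cons (P.lf 0 426400 0) P.nil))) (P.cons (P.cons (P.lf 0 314192 0) (P.cons (P.lf 48645 0 0) P.nil)) (P.cons (P.cons (P.lf 0 56005 0) P.nil) P.nil)))))) 79583)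
 (EL.cons 6 (TM.mk (P.cons (P.cons (P.lf 1458394554 0 0) (P.cons (P.lf 0 225796098 0) (P.cons (P.lf 0 108781437 0) (P.cons (P.lf 4116609 0 0) (P.lf 1029150 0 0))))) (P.cons (P.cons (P.lf 0 70182579 0) (P.cons (P.lf 10866024 0 0) (P.cons (P.lf 5234907 0 0) (P.cons (P.lf 0 198102 0) (P.lf 0 49524 0))))) (P.cons (P.cons (P.lf 0 33404838 0) (P.cons (P.lf 5171907 0 0) (P.cons (P.lf 2491662 0 0) (P.cons (P.lf 0 94290 0) P.nil)))) (P.cons (P.cons (P.lf 1657956 0 0) (P.cons (P.lf 0 256692 0) (P.cons (P.lf 0 123666 0) P.nil))) (P.cons (P.cons (P.lf 379275 0 0) (P.cons (P.lf 0 58719 0) P.nil)) (P.cons (P.cons (P.lf 0 20574 0) P.nil) P.nil)))))) 72672)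
 EL.nil))))))
noncomputable def S256_285_512_660_2 : EL := (EL.cons 0 (TM.mk (P.cons (P.cons (P.lf 927468607 0 0) (P.cons (P.lf 1082756641 0 0) (P.cons (P.lf 233902661 0 0) (P.cons (P.lf 0 65086298 0) (P.cons (P.lf 0 12282921 0) (P.cons (P.lf 912746 0 0) P.nil)))))) (P.cons (P.cons (P.lf 485619411 0 0) (P.cons (P.lf 161188197 0 0) (P.cons (P.lf 0 92786664 0) (P.cons (P.lf 7373758 0 0) (P.cons (P.lf 3288746 0 0) P.nil))))) (P.cons (P.cons (P.lf 0 149629417 0) (P.cons (P.lf 0 226198587 0) (P.cons (P.lf 0 18567365 0) (P.cons (P.lf 9545960 0 0) P.nil)))) (P.cons (P.cons (P.lf 0 88229724 0) (P.cons (P.lf 0 21767982 0) (P.cons (P.lf 8389642 0 0) P.nil))) (P.cons (P.cons (P.lf 5580045 0 0) (P.cons (P.lf 13573604 0 0) P.nil)) (P.cons (P.cons (P.lf 5085504 0 0) P.nil) P.nil)))))) 13638209)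
 (EL.cons 1 (TM.mk (P.cons (P.cons (P.lf 0 489487539 0) (P.cons (P.lf 0 233674207 0) (P.cons (P.lf 85707454 0 0) (P.cons (P.lf 0 4163739 0) (P.cons (P.lf 0 2810517 0) (P.cons (P.lf 208849 0 0) P.nil)))))) (P.cons (P.cons (P.lf 181430071 0 0) (P.cons (P.lf 332797903 0 0) (P.cons (P.lf 37670328 0 0) (P.cons (P.lf 0 15428971 0) (P.cons (P.lf 0 2402920 0) P.nil))))) (P.cons (P.cons (P.lf 157430706 0 0) (P.cons (P.lf 46148089 0 0) (P.cons (P.lf 0 17641858 0) (P.cons (P.lf 917967 0 0) P.nil)))) (P.cons (P.cons (P.lf 0 13655242 0) (P.cons (P.lf 0 33249844 0) (P.cons (P.lf 0 1510029 0) P.nil))) (P.cons (P.cons (P.lf 0 13105539 0) (P.cons (P.lf 0 2547520 0) P.nil)) (P.cons (P.cons (P.lf 404227 0 0) P.nil) P.nil)))))) 7034407)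
 (EL.cons 5 (TM.mk (P.cons (P.cons (P.lf 280690874 0 0) (P.cons (P.lf 452662789 0 0) (P.cons (P.lf 148175959 0 0) (P.cons (P.lf 0 33948144 0) (P.cons (P.lf 0 7155764 0) (P.cons (P.lf 531736 0 0) P.nil)))))) (P.cons (P.cons (P.lf 105840327 0 0) (P.cons (P.lf 93454765 0 0) (P.cons (P.lf 0 4744898 0) (P.cons (P.lf 0 2283721 0) (P.cons (P.lf 0 60274 0) P.nil))))) (P.cons (P.cons (P.lf 27501019 0 0) (P.cons (P.lf 12618636 0 0) (P.cons (P.lf 0 1362745 0) (P.cons (P.lf 0 211800 0) P.nil)))) (P.cons (P.cons (P.lf 7712297 0 0) (P.cons (P.lf 0 1025256 0) (P.cons (P.lf 0 1110180 0) P.nil))) (P.cons (P.cons (P.lf 0 2128177 0) (P.cons (P.lf 0 2515439 0) P.nil)) (P.cons (P.cons (P.lf 0 995042 0) P.nil) P.nil)))))) 6899853)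
 (EL.cons 9 (TM.mk (P.cons (P.cons (P.lf 538638946 0 0) (P.cons (P.lf 739096693 0 0) (P.cons (P.lf 204124719 0 0) (P.cons (P.lf 0 50373478 0) (P.cons (P.lf 0 10167376 0) (P.cons (P.lf 755536 0 0) P.nil)))))) (P.cons (P.cons (P.lf 245739699 0 0) (P.cons (P.lf 133028931 0 0) (P.cons (P.lf 0 33296208 0) (P.cons (P.lf 298276 0 0) (P.cons (P.lf 978571 0 0) P.nil))))) (P.cons (P.cons (P.lf 0 22676944 0) (P.cons (P.lf 0 59830152 0) (P.cons (P.lf 0 7027471 0) (P.cons (P.lf 2807917 0 0) P.nil)))) (P.cons (P.cons (P.lf 0 20874934 0) (P.cons (P.lf 0 7733800 0) (P.cons (P.lf 1652466 0 0) P.nil))) (P.cons (P.cons (P.lf 0 127213 0) (P.cons (P.lf 2038869 0 0) P.nil)) (P.cons (P.cons (P.lf 717457 0 0) P.nil) P.nil)))))) 2458781)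
 (EL.cons 2 (TM.mk (P.cons (P.cons (P.lf 179859240 0 0) (P.cons (P.lf 95550744 0 0) (P.cons (P.lf 0 40770765 0) (P.cons (P.lf 0 10169212 0) (P.cons (P.lf 1516376 0 0) (P.cons (P.lf 268914 0 0) P.nil)))))) (P.cons (P.cons (P.lf 213680188 0 0) (P.cons (P.lf 79431536 0 0) (P.cons (P.lf 0 40880919 0) (P.cons (P.lf 0 9132108 0) (P.cons (P.lf 1417702 0 0) P.nil))))) (P.cons (P.cons (P.lf 20257801 0 0) (P.cons (P.lf 0 18977203 0) (P.cons (P.lf 2000598 0 0) (P.cons (P.lf 1427793 0 0) P.nil)))) (P.cons (P.cons (P.lf 0 15418209 0) (P.cons (P.lf 0 2101927 0) (P.cons (P.lf 2145183 0 0) P.nil))) (P.cons (P.cons (P.lf 0 1428451 0) (P.cons (P.lf 789249 0 0) P.nil)) (P.cons (P.cons (P.lf 466284 0 0) P.nil) P.nil)))))) 2064734)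
 (EL.cons 6 (TM.mk (P.cons (P.cons (P.lf 0 843389802 0) (P.cons (P.lf 0 448053288 0) (P.cons (P.lf 191180898 0 0) (P.cons (P.lf 47685138 0 0) (P.cons (P.lf 0 7110552 0) (P.cons (P.lf 0 1260984 0) P.nil)))))) (P.cons (P.cons (P.lf 0 151800486 0) (P.cons (P.lf 79193664 0 0) (P.cons (P.lf 0 1022982 0) (P.cons (P.lf 0 5247132 0) (P.cons (P.lf 519954 0 0) P.nil))))) (P.cons (P.cons (P.lf 68272716 0 0) (P.cons (P.lf 14596986 0 0) (P.cons (P.lf 0 10671612 0) (P.cons (P.lf 0 1984872 0) P.nil)))) (P.cons (P.cons (P.lf 8825106 0 0) (P.cons (P.lf 0 3957576 0) (P.cons (P.lf 0 83832 0) P.nil))) (P.cons (P.cons (P.lf 0 2326572 0) (P.cons (P.lf 0 181008 0) P.nil)) (P.cons (P.cons (P.lf 0 204972 0) P.nil) P.nil)))))) 1623642)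
 EL.nil))))))
noncomputable def S256_285_512_660_3 : EL := (EL.cons 0 (TM.mk (P.cons (P.lf 96110806 0 0) (P.cons (P.lf 190686074 0 0) (P.cons (P.lf 92290364 0 0) (P.cons (P.lf 0 3016066 0) (P.cons (P.lf 0 708651 0) (P.cons (P.lf 26673 0 0) P.nil)))))) 4788)
 (EL.cons 1 (TM.mk (P.cons (P.lf 0 450679505 0) (P.cons (P.lf 0 439849933 0) (P.cons (P.lf 16100088 0 0) (P.cons (P.lf 5127871 0 0) (P.cons (P.lf 0 176304 0) (P.cons (P.lf 0 32482 0) P.nil)))))) 1651)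
 (EL.cons 5 (TM.mk (P.cons (P.lf 2113310914 0 0) (P.cons (P.lf 0 67799490 0) (P.cons (P.lf 0 32814348 0) (P.cons (P.lf 1072376 0 0) (P.cons (P.lf 251962 0 0) (P.cons (P.lf 0 9484 0) P.nil)))))) 1830)
 EL.nil)))
noncomputable def S256_285_512_660_4 : EL := (EL.cons 0 (TM.mk (P.cons (P.cons (P.lf 0 27790446 0) (P.cons (P.lf 0 19066413 0) (P.cons (P.lf 1274735 0 0) (P.lf 424910 0 0)))) (P.cons (P.cons (P.lf 0 61476219 0) (P.cons (P.lf 0 36910673 0) (P.cons (P.lf 2467761 0 0) (P.lf 822585 0 0)))) (P.cons (P.cons (P.lf 0 37955104 0) (P.cons (P.lf 0 16051383 0) (P.cons (P.lf 1073156 0 0) (P.lf 357718 0 0)))) (P.cons (P.cons (P.lf 0 2379941 0) (P.cons (P.lf 2324176 0 0) (P.cons (P.lf 0 155388 0) P.nil))) (P.cons (P.cons (P.lf 2115592 0 0) (P.cons (P.lf 483185 0 0) P.nil)) (P.cons (P.cons (P.lf 184992 0 0) P.nil) P.nil)))))) 235940)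
 (EL.cons 1 (TM.mk (P.cons (P.cons (P.lf 130314013 0 0) (P.cons (P.lf 89405581 0 0) (P.cons (P.lf 0 5977447 0) (P.lf 0 1992481 0)))) (P.cons (P.cons (P.lf 156908795 0 0) (P.cons (P.lf 82954736 0 0) (P.cons (P.lf 0 5546160 0) (P.lf 0 1848718 0)))) (P.cons (P.cons (P.lf 18222924 0 0) (P.cons (P.lf 0 9440874 0) (P.cons (P.lf 631192 0 0) (P.lf 210397 0 0)))) (P.cons (P.cons (P.lf 0 9656872 0) (P.cons (P.lf 0 2760568 0) (P.cons (P.lf 184563 0 0) P.nil))) (P.cons (P.cons (P.lf 0 1069966 0) (P.cons (P.lf 279534 0 0) P.nil)) (P.cons (P.cons (P.lf 237457 0 0) P.nil) P.nil)))))) 206224)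
 (EL.cons 5 (TM.mk (P.cons (P.cons (P.lf 0 611064018 0) (P.cons (P.lf 0 419237596 0) (P.cons (P.lf 28029248 0 0) (P.lf 9343082 0 0)))) (P.cons (P.cons (P.lf 0 119786628 0) (P.cons (P.lf 33625072 0 0) (P.cons (P.lf 0 2248092 0) (P.lf 0 749362 0)))) (P.cons (P.cons (P.lf 42721604 0 0) (P.cons (P.lf 15465160 0 0) (P.cons (P.lf 0 1033962 0) (P.lf 0 344652 0)))) (P.cons (P.cons (P.lf 6211656 0 0) (P.cons (P.lf 0 1310682 0) (P.cons (P.lf 87626 0 0) P.nil))) (P.cons (P.cons (P.lf 0 1214994 0) (P.cons (P.lf 0 282588 0) P.nil)) (P.cons (P.cons (P.lf 0 121210 0) P.nil) P.nil)))))) 118066)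
 EL.nil)))
noncomputable def S256_285_512_660_5 : EL := (EL.cons 0 (TM.mk (P.cons (P.cons (P.lf 8035609 0 0) (P.cons (P.lf 11026110 0 0) (P.cons (P.lf 3045204 0 0) (P.cons (P.lf 0 751489 0) (P.cons (P.lf 0 151679 0) (P.cons (P.lf 11271 0 0) P.nil)))))) (P.cons (P.cons (P.lf 19608869 0 0) (P.cons (P.lf 23860633 0 0) (P.cons (P.lf 5545033 0 0) (P.cons (P.lf 0 1486522 0) (P.cons (P.lf 0 286338 0) P.nil))))) (P.cons (P.cons (P.lf 14651383 0 0) (P.cons (P.lf 13632690 0 0) (P.cons (P.lf 1833804 0 0) (P.cons (P.lf 0 670899 0) P.nil)))) (P.cons (P.cons (P.lf 2285518 0 0) (P.cons (P.lf 0 326575 0) (P.cons (P.lf 0 755891 0) P.nil))) (P.cons (P.cons (P.lf 0 1118909 0) (P.cons (P.lf 0 1199155 0) P.nil)) (P.cons (P.cons (P.lf 0 306286 0) P.nil) P.nil)))))) 1064913)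
 (EL.cons 1 (TM.mk (P.cons (P.cons (P.lf 0 37680305 0) (P.cons (P.lf 0 51703260 0) (P.cons (P.lf 0 14279475 0) (P.cons (P.lf 3523858 0 0) (P.cons (P.lf 711253 0 0) (P.cons (P.lf 0 52852 0) P.nil)))))) (P.cons (P.cons (P.lf 0 53965507 0) (P.cons (P.lf 0 59766855 0) (P.cons (P.lf 0 11607121 0) (P.cons (P.lf 3418316 0 0) (P.cons (P.lf 625708 0 0) P.nil))))) (P.cons (P.cons (P.lf 0 13845105 0) (P.cons (P.lf 0 3049927 0) (P.cons (P.lf 3274978 0 0) (P.cons (P.lf 0 342676 0) P.nil)))) (P.cons (P.cons (P.lf 4051385 0 0) (P.cons (P.lf 5546570 0 0) (P.cons (P.lf 443456 0 0) P.nil))) (P.cons (P.cons (P.lf 1558291 0 0) (P.cons (P.lf 321523 0 0) P.nil)) (P.cons (P.cons (P.lf 0 121160 0) P.nil) P.nil)))))) 1238849)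
 (EL.cons 5 (TM.mk (P.cons (P.cons (P.lf 176689208 0 0) (P.cons (P.lf 242445168 0 0) (P.cons (P.lf 66958832 0 0) (P.cons (P.lf 0 16523962 0) (P.cons (P.lf 0 3335192 0) (P.cons (P.lf 247836 0 0) P.nil)))))) (P.cons (P.cons (P.lf 74941188 0 0) (P.cons (P.lf 35859194 0 0) (P.cons (P.lf 0 13070302 0) (P.cons (P.lf 627966 0 0) (P.cons (P.lf 427998 0 0) P.nil))))) (P.cons (P.cons (P.lf 0 12768360 0) (P.cons (P.lf 0 24790560 0) (P.cons (P.lf 0 2994510 0) (P.cons (P.lf 1174514 0 0) P.nil)))) (P.cons (P.cons (P.lf 0 7770940 0) (P.cons (P.lf 0 2461816 0) (P.cons (P.lf 819582 0 0) P.nil))) (P.cons (P.cons (P.lf 355428 0 0) (P.cons (P.lf 1105988 0 0) P.nil)) (P.cons (P.cons (P.lf 348052 0 0) P.nil) P.nil)))))) 1170448)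
 EL.nil)))
noncomputable def S256_285_512_660_6 : EL := (EL.cons 12 (TM.mk (P.lf 8589934592 0 0) 0)
 (EL.cons 3 (TM.mk (P.cons (P.lf 454308690 0 0) (P.cons (P.lf 450679503 0 0) (P.cons (P.lf 0 5414782 0) (P.cons (P.lf 0 1756837 0) (P.cons (P.lf 35658 0 0) (P.cons (P.lf 6731 0 0) P.nil)))))) 269)
 (EL.cons 7 (TM.mk (P.cons (P.lf 0 2130328762 0) (P.cons (P.lf 34172730 0 0) (P.cons (P.lf 16813380 0 0) (P.cons (P.lf 0 270802 0) (P.cons (P.lf 0 64991 0) (P.cons (P.lf 1601 0 0) P.nil)))))) 330)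
 EL.nil)))
noncomputable def S256_285_512_660_7 : EL := (EL.cons 12 (TM.mk (P.cons (P.cons (P.lf 0 2483780272 0) (P.cons (P.lf 0 1704067072 0) (P.cons (P.lf 113929952 0 0) (P.lf 37976648 0 0)))) (P.cons (P.cons (P.lf 0 566579358 0) (P.cons (P.lf 82005112 0 0) (P.cons (P.lf 0 5482664 0) (P.lf 0 1827552 0)))) (P.cons (P.cons (P.lf 116905832 0 0) (P.cons (P.lf 39032016 0 0) (P.cons (P.lf 0 2609584 0) (P.lf 0 869856 0)))) (P.cons (P.cons (P.lf 21461824 0 0) (P.cons (P.lf 0 1937240 0) (P.cons (P.lf 129512 0 0) P.nil))) (P.cons (P.cons (P.lf 0 1851144 0) (P.cons (P.lf 0 443160 0) P.nil)) (P.cons (P.cons (P.lf 0 221750 0) P.nil) P.nil)))))) 140350)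
 (EL.cons 3 (TM.mk (P.cons (P.cons (P.lf 0 1999415021 0) (P.cons (P.lf 180251074 0 0) (P.cons (P.lf 0 12051164 0) (P.lf 0 4017054 0)))) (P.cons (P.cons (P.lf 625656798 0 0) (P.cons (P.lf 170136908 0 0) (P.cons (P.lf 0 11374956 0) (P.lf 0 3791650 0)))) (P.cons (P.cons (P.lf 191619567 0 0) (P.cons (P.lf 0 14882010 0) (P.cons (P.lf 994974 0 0) (P.lf 331656 0 0)))) (P.cons (P.cons (P.lf 0 21093314 0) (P.cons (P.lf 0 4484446 0) (P.cons (P.lf 299818 0 0) P.nil))) (P.cons (P.cons (P.lf 0 3253810 0) (P.cons (P.lf 347054 0 0) P.nil)) (P.cons (P.cons (P.lf 343850 0 0) P.nil) P.nil)))))) 551092)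
 (EL.cons 7 (TM.mk (P.cons (P.cons (P.lf 474339899 0 0) (P.cons (P.lf 443114873 0 0) (P.cons (P.lf 0 29625632 0) (P.lf 0 9875210 0)))) (P.cons (P.cons (P.lf 47440373 0 0) (P.cons (P.lf 12900610 0 0) (P.cons (P.lf 0 862504 0) (P.lf 0 287501 0)))) (P.cons (P.cons (P.lf 38440727 0 0) (P.cons (P.lf 5373818 0 0) (P.cons (P.lf 0 359278 0) (P.lf 0 119757 0)))) (P.cons (P.cons (P.lf 8356992 0 0) (P.cons (P.lf 0 1046150 0) (P.cons (P.lf 69939 0 0) P.nil))) (P.cons (P.cons (P.lf 0 1318398 0) (P.cons (P.lf 0 224205 0) P.nil)) (P.cons (P.cons (P.lf 0 159605 0) P.nil) P.nil)))))) 315052)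
 (EL.cons 10 (TM.mk (P.cons (P.cons (P.lf 0 2940277122 0) (P.cons (P.lf 455228733 0 0) (P.cons (P.lf 219314847 0 0) (P.cons (P.lf 0 8299518 0) (P.lf 0 2074878 0))))) (P.cons (P.cons (P.lf 94330317 0 0) (P.cons (P.lf 0 14604699 0) (P.cons (P.lf 0 7036083 0) (P.cons (P.lf 266265 0 0) (P.lf 66564 0 0))))) (P.cons (P.cons (P.lf 45655029 0 0) (P.cons (P.lf 0 7068543 0) (P.cons (P.lf 0 3405402 0) (P.cons (P.lf 128868 0 0) P.nil)))) (P.cons (P.cons (P.lf 0 1492008 0) (P.cons (P.lf 231000 0 0) (P.cons (P.lf 111288 0 0) P.nil))) (P.cons (P.cons (P.lf 0 350556 0) (P.cons (P.lf 54273 0 0) P.nil)) (P.cons (P.cons (P.lf 13194 0 0) P.nil) P.nil)))))) 71190)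
 EL.nil))))
noncomputable def S256_285_512_660_8 : EL := (EL.cons 12 (TM.mk (P.cons (P.cons (P.lf 718185262 0 0) (P.cons (P.lf 985462258 0 0) (P.cons (P.lf 272166292 0 0) (P.cons (P.lf 0 67164638 0) (P.cons (P.lf 0 13556502 0) (P.cons (P.lf 1007382 0 0) P.nil)))))) (P.cons (P.cons (P.lf 327652932 0 0) (P.cons (P.lf 177371908 0 0) (P.cons (P.lf 0 44394944 0) (P.cons (P.lf 397702 0 0) (P.cons (P.lf 1304762 0 0) P.nil))))) (P.cons (P.cons (P.lf 0 30235926 0) (P.cons (P.lf 0 79773536 0) (P.cons (P.lf 0 9369962 0) (P.cons (P.lf 3743890 0 0) P.nil)))) (P.cons (P.cons (P.lf 0 27833246 0) (P.cons (P.lf 0 10311734 0) (P.cons (P.lf 2203288 0 0) P.nil))) (P.cons (P.cons (P.lf 0 169618 0) (P.cons (P.lf 2718492 0 0) P.nil)) (P.cons (P.cons (P.lf 956610 0 0) P.nil) P.nil)))))) 3278346)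
 (EL.cons 3 (TM.mk (P.cons (P.cons (P.lf 1118278287 0 0) (P.cons (P.lf 636927132 0 0) (P.cons (P.lf 0 131978764 0) (P.cons (P.lf 0 2240966 0) (P.cons (P.lf 3584910 0 0) (P.cons (P.lf 0 266390 0) P.nil)))))) (P.cons (P.cons (P.lf 0 153069898 0) (P.cons (P.lf 0 469663002 0) (P.cons (P.lf 0 48676636 0) (P.cons (P.lf 21174401 0 0) (P.cons (P.lf 3211240 0 0) P.nil))))) (P.cons (P.cons (P.lf 0 262909799 0) (P.cons (P.lf 0 95648400 0) (P.cons (P.lf 19883755 0 0) (P.cons (P.lf 327931 0 0) P.nil)))) (P.cons (P.cons (P.lf 0 2628883 0) (P.cons (P.lf 33747703 0 0) (P.cons (P.lf 1443680 0 0) P.nil))) (P.cons (P.cons (P.lf 15382372 0 0) (P.cons (P.lf 3691161 0 0) P.nil)) (P.cons (P.cons (P.lf 379976 0 0) P.nil) P.nil)))))) 8229026)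
 (EL.cons 7 (TM.mk (P.cons (P.cons (P.lf 0 96198809 0) (P.cons (P.lf 0 200054536 0) (P.cons (P.lf 0 78596765 0) (P.cons (P.lf 16756451 0 0) (P.cons (P.lf 3688241 0 0) (P.cons (P.lf 0 274067 0) P.nil)))))) (P.cons (P.cons (P.lf 0 11606516 0) (P.cons (P.lf 0 35612154 0) (P.cons (P.lf 0 3690899 0) (P.cons (P.lf 1605545 0 0) (P.cons (P.lf 243491 0 0) P.nil))))) (P.cons (P.cons (P.lf 0 25785091 0) (P.cons (P.lf 0 25201986 0) (P.cons (P.lf 0 352623 0) (P.cons (P.lf 834095 0 0) P.nil)))) (P.cons (P.cons (P.lf 0 13643407 0) (P.cons (P.lf 0 2459195 0) (P.cons (P.lf 1107741 0 0) P.nil))) (P.cons (P.cons (P.lf 882550 0 0) (P.cons (P.lf 2133473 0 0) P.nil)) (P.cons (P.cons (P.lf 934623 0 0) P.nil) P.nil)))))) 3897483)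
 (EL.cons 10 (TM.mk (P.cons (P.cons (P.lf 1700362728 0 0) (P.cons (P.lf 903322656 0 0) (P.cons (P.lf 0 385440840 0) (P.cons (P.lf 0 96138264 0) (P.cons (P.lf 14335626 0 0) (P.cons (P.lf 2542278 0 0) P.nil)))))) (P.cons (P.cons (P.lf 333321402 0 0) (P.cons (P.lf 0 145172532 0) (P.cons (P.lf 0 4120428 0) (P.cons (P.lf 9036612 0 0) (P.cons (P.lf 0 818334 0) P.nil))))) (P.cons (P.cons (P.lf 0 118878252 0) (P.cons (P.lf 0 24628422 0) (P.cons (P.lf 18406950 0 0) (P.cons (P.lf 3387912 0 0) P.nil)))) (P.cons (P.cons (P.lf 0 17284722 0) (P.cons (P.lf 6323250 0 0) (P.cons (P.lf 480762 0 0) P.nil))) (P.cons (P.cons (P.lf 3380874 0 0) (P.cons (P.lf 262890 0 0) P.nil)) (P.cons (P.cons (P.lf 337290 0 0) P.nil) P.nil)))))) 2563956)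
 EL.nil))))
noncomputable def S256_285_512_660_9 : EL := (EL.cons 3 (TM.mk (P.cons (P.lf 454308690 0 0) (P.cons (P.lf 450679503 0 0) (P.cons (P.lf 0 5414782 0) (P.cons (P.lf 0 1756837 0) (P.cons (P.lf 35658 0 0) (P.cons (P.lf 6731 0 0) P.nil)))))) 269)
 (EL.cons 7 (TM.mk (P.cons (P.lf 0 2130328762 0) (P.cons (P.lf 34172730 0 0) (P.cons (P.lf 16813380 0 0) (P.cons (P.lf 0 270802 0) (P.cons (P.lf 0 64991 0) (P.cons (P.lf 1601 0 0) P.nil)))))) 330)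
 EL.nil))
noncomputable def S256_285_512_660_10 : EL := (EL.cons 3 (TM.mk (P.cons (P.cons (P.lf 0 131363393 0) (P.cons (P.lf 0 90125537 0) (P.cons (P.lf 6025582 0 0) (P.lf 2008527 0 0)))) (P.cons (P.cons (P.lf 0 160279542 0) (P.cons (P.lf 0 85068454 0) (P.cons (P.lf 5687478 0 0) (P.lf 1895825 0 0)))) (P.cons (P.cons (P.lf 0 21977493 0) (P.cons (P.lf 7441005 0 0) (P.cons (P.lf 0 497487 0) (P.lf 0 165828 0)))) (P.cons (P.cons (P.lf 8133805 0 0) (P.cons (P.lf 2242223 0 0) (P.cons (P.lf 0 149909 0) P.nil))) (P.cons (P.cons (P.lf 1059986 0 0) (P.cons (P.lf 0 173527 0) P.nil)) (P.cons (P.cons (P.lf 0 150586 0) P.nil) P.nil)))))) 135819)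
 (EL.cons 7 (TM.mk (P.cons (P.cons (P.lf 615984731 0 0) (P.cons (P.lf 422613590 0 0) (P.cons (P.lf 0 28254959 0) (P.lf 0 9418319 0)))) (P.cons (P.cons (P.lf 130632281 0 0) (P.cons (P.lf 0 27116675 0) (P.cons (P.lf 1812956 0 0) (P.lf 604318 0 0)))) (P.cons (P.cons (P.lf 0 36108559 0) (P.cons (P.lf 0 12689248 0) (P.cons (P.lf 848372 0 0) (P.lf 282789 0 0)))) (P.cons (P.cons (P.lf 0 5888199 0) (P.cons (P.lf 849952 0 0) (P.cons (P.lf 0 56823 0) P.nil))) (P.cons (P.cons (P.lf 809946 0 0) (P.cons (P.lf 188904 0 0) P.nil)) (P.cons (P.cons (P.lf 89776 0 0) P.nil) P.nil)))))) 69162)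
 EL.nil))
noncomputable def S256_285_512_660_11 : EL := (EL.cons 3 (TM.mk (P.cons (P.cons (P.lf 37983735 0 0) (P.cons (P.lf 52119612 0 0) (P.cons (P.lf 14394464 0 0) (P.cons (P.lf 0 3552236 0) (P.cons (P.lf 0 716982 0) (P.cons (P.lf 53278 0 0) P.nil)))))) (P.cons (P.cons (P.lf 55009376 0 0) (P.cons (P.lf 61084194 0 0) (P.cons (P.lf 11931494 0 0) (P.cons (P.lf 0 3502825 0) (P.cons (P.lf 0 642248 0) P.nil))))) (P.cons (P.cons (P.lf 15138787 0 0) (P.cons (P.lf 4465692 0 0) (P.cons (P.lf 0 2996351 0) (P.cons (P.lf 261211 0 0) P.nil)))) (P.cons (P.cons (P.lf 0 3411841 0) (P.cons (P.lf 0 5044127 0) (P.cons (P.lf 0 402754 0) P.nil))) (P.cons (P.cons (P.lf 0 1514240 0) (P.cons (P.lf 0 379137 0) P.nil)) (P.cons (P.cons (P.lf 67346 0 0) P.nil) P.nil)))))) 1062136)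
 (EL.cons 7 (TM.mk (P.cons (P.cons (P.lf 0 178112033 0) (P.cons (P.lf 0 244397506 0) (P.cons (P.lf 0 67498031 0) (P.cons (P.lf 16657025 0 0) (P.cons (P.lf 3362051 0 0) (P.cons (P.lf 0 249833 0) P.nil)))))) (P.cons (P.cons (P.lf 0 78401774 0) (P.cons (P.lf 0 40068354 0) (P.cons (P.lf 12092815 0 0) (P.cons (P.lf 0 365827 0) (P.cons (P.lf 0 377515 0) P.nil))))) (P.cons (P.cons (P.lf 10207805 0 0) (P.cons (P.lf 22418574 0 0) (P.cons (P.lf 2679885 0 0) (P.cons (P.lf 0 1058377 0) P.nil)))) (P.cons (P.cons (P.lf 7401125 0 0) (P.cons (P.lf 2556091 0 0) (P.cons (P.lf 0 679173 0) P.nil))) (P.cons (P.cons (P.lf 0 143606 0) (P.cons (P.lf 0 884407 0) P.nil)) (P.cons (P.cons (P.lf 0 293787 0) P.nil) P.nil)))))) 984131)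
 EL.nil))
noncomputable def S256_285_512_660_12 : EL := (EL.cons 4 (TM.mk (P.cons (P.lf 0 454308690 0) (P.cons (P.lf 0 450679503 0) (P.cons (P.lf 5414782 0 0) (P.cons (P.lf 1756837 0 0) (P.cons (P.lf 0 35658 0) (P.cons (P.lf 0 6731 0) P.nil)))))) 269)
 (EL.cons 8 (TM.mk (P.cons (P.lf 2130328762 0 0) (P.cons (P.lf 0 34172730 0) (P.cons (P.lf 0 16813380 0) (P.cons (P.lf 270802 0 0) (P.cons (P.lf 64991 0 0) (P.cons (P.lf 0 1601 0) P.nil)))))) 330)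
 EL.nil))
noncomputable def S256_285_512_660_13 : EL := (EL.cons 4 (TM.mk (P.cons (P.cons (P.lf 131363393 0 0) (P.cons (P.lf 90125537 0 0) (P.cons (P.lf 0 6025582 0) (P.lf 0 2008527 0)))) (P.cons (P.cons (P.lf 160279542 0 0) (P.cons (P.lf 85068454 0 0) (P.cons (P.lf 0 5687478 0) (P.lf 0 1895825 0)))) (P.cons (P.cons (P.lf 21977493 0 0) (P.cons (P.lf 0 7441005 0) (P.cons (P.lf 497487 0 0) (P.lf 165828 0 0)))) (P.cons (P.cons (P.lf 0 8133805 0) (P.cons (P.lf 0 2242223 0) (P.cons (P.lf 149909 0 0) P.nil))) (P.cons (P.cons (P.lf 0 1059986 0) (P.cons (P.lf 173527 0 0) P.nil)) (P.cons (P.cons (P.lf 150586 0 0) P.nil) P.nil)))))) 135819)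
 (EL.cons 8 (TM.mk (P.cons (P.cons (P.lf 0 615984731 0) (P.cons (P.lf 0 422613590 0) (P.cons (P.lf 28254959 0 0) (P.lf 9418319 0 0)))) (P.cons (P.cons (P.lf 0 130632281 0) (P.cons (P.lf 27116675 0 0) (P.cons (P.lf 0 1812956 0) (P.lf 0 604318 0)))) (P.cons (P.cons (P.lf 36108559 0 0) (P.cons (P.lf 12689248 0 0) (P.cons (P.lf 0 848372 0) (P.lf 0 282789 0)))) (P.cons (P.cons (P.lf 5888199 0 0) (P.cons (P.lf 0 849952 0) (P.cons (P.lf 56823 0 0) P.nil))) (P.cons (P.cons (P.lf 0 809946 0) (P.cons (P.lf 0 188904 0) P.nil)) (P.cons (P.cons (P.lf 0 89776 0) P.nil) P.nil)))))) 69162)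
 EL.nil))
noncomputable def S256_285_512_660_14 : EL := (EL.cons 4 (TM.mk (P.cons (P.cons (P.lf 0 37983735 0) (P.cons (P.lf 0 52119612 0) (P.cons (P.lf 0 14394464 0) (P.cons (P.lf 3552236 0 0) (P.cons (P.lf 716982 0 0) (P.cons (P.lf 0 53278 0) P.nil)))))) (P.cons (P.cons (P.lf 0 55009376 0) (P.cons (P.lf 0 61084194 0) (P.cons (P.lf 0 11931494 0) (P.cons (P.lf 3502825 0 0) (P.cons (P.lf 642248 0 0) P.nil))))) (P.cons (P.cons (P.lf 0 15138787 0) (P.cons (P.lf 0 4465692 0) (P.cons (P.lf 2996351 0 0) (P.cons (P.lf 0 261211 0) P.nil)))) (P.cons (P.cons (P.lf 3411841 0 0) (P.cons (P.lf 5044127 0 0) (P.cons (P.lf 402754 0 0) P.nil))) (P.cons (P.cons (P.lf 1514240 0 0) (P.cons (P.lf 379137 0 0) P.nil)) (P.cons (P.cons (P.lf 0 67346 0) P.nil) P.nil)))))) 1062136)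
 (EL.cons 8 (TM.mk (P.cons (P.cons (P.lf 178112033 0 0) (P.cons (P.lf 244397506 0 0) (P.cons (P.lf 67498031 0 0) (P.cons (P.lf 0 16657025 0) (P.cons (P.lf 0 3362051 0) (P.cons (P.lf 249833 0 0) P.nil)))))) (P.cons (P.cons (P.lf 78401774 0 0) (P.cons (P.lf 40068354 0 0) (P.cons (P.lf 0 12092815 0) (P.cons (P.lf 365827 0 0) (P.cons (P.lf 377515 0 0) P.nil))))) (P.cons (P.cons (P.lf 0 10207805 0) (P.cons (P.lf 0 22418574 0) (P.cons (P.lf 0 2679885 0) (P.cons (P.lf 1058377 0 0) P.nil)))) (P.cons (P.cons (P.lf 0 7401125 0) (P.cons (P.lf 0 2556091 0) (P.cons (P.lf 679173 0 0) P.nil))) (P.cons (P.cons (P.lf 143606 0 0) (P.cons (P.lf 884407 0 0) P.nil)) (P.cons (P.cons (P.lf 293787 0 0) P.nil) P.nil)))))) 984131)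
 EL.nil))
noncomputable def S256_285_512_660_15 : EL := (EL.cons 4 (TM.mk (P.cons (P.lf 0 51259096 0) (P.cons (P.lf 0 101699239 0) (P.cons (P.lf 0 49221527 0) (P.cons (P.lf 1608569 0 0) (P.cons (P.lf 377947 0 0) (P.cons (P.lf 0 14225 0) P.nil)))))) 2557)
 (EL.cons 8 (TM.mk (P.cons (P.lf 240362403 0 0) (P.cons (P.lf 234586631 0 0) (P.cons (P.lf 0 8586714 0) (P.cons (P.lf 0 2734865 0) (P.cons (P.lf 94029 0 0) (P.cons (P.lf 17324 0 0) P.nil)))))) 877)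
 EL.nil))
noncomputable def S256_285_512_660_16 : EL := (EL.cons 4 (TM.mk (P.cons (P.cons (P.lf 14821571 0 0) (P.cons (P.lf 10168754 0 0) (P.cons (P.lf 0 679859 0) (P.lf 0 226619 0)))) (P.cons (P.cons (P.lf 32787316 0 0) (P.cons (P.lf 19685692 0 0) (P.cons (P.lf 0 1316139 0) (P.lf 0 438712 0)))) (P.cons (P.cons (P.lf 20242722 0 0) (P.cons (P.lf 8560738 0 0) (P.cons (P.lf 0 572350 0) (P.lf 0 190783 0)))) (P.cons (P.cons (P.lf 1269301 0 0) (P.cons (P.lf 0 1239560 0) (P.cons (P.lf 82874 0 0) P.nil))) (P.cons (P.cons (P.lf 0 1128315 0) (P.cons (P.lf 0 257699 0) P.nil)) (P.cons (P.cons (P.lf 0 98662 0) P.nil) P.nil)))))) 125843)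
 (EL.cons 8 (TM.mk (P.cons (P.cons (P.lf 0 69500807 0) (P.cons (P.lf 0 47682977 0) (P.cons (P.lf 3187972 0 0) (P.lf 1062657 0 0)))) (P.cons (P.cons (P.lf 0 83684691 0) (P.cons (P.lf 0 44242526 0) (P.cons (P.lf 2957952 0 0) (P.lf 985983 0 0)))) (P.cons (P.cons (P.lf 0 9718893 0) (P.cons (P.lf 5035133 0 0) (P.cons (P.lf 0 336636 0) (P.lf 0 112212 0)))) (P.cons (P.cons (P.lf 5150332 0 0) (P.cons (P.lf 1472303 0 0) (P.cons (P.lf 0 98434 0) P.nil))) (P.cons (P.cons (P.lf 570649 0 0) (P.cons (P.lf 0 149085 0) P.nil)) (P.cons (P.cons (P.lf 0 126644 0) P.nil) P.nil)))))) 109976)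
 EL.nil))
noncomputable def S256_285_512_660_17 : EL := (EL.cons 4 (TM.mk (P.cons (P.cons (P.lf 0 4285658 0) (P.cons (P.lf 0 5880592 0) (P.cons (P.lf 0 1624109 0) (P.cons (P.lf 400794 0 0) (P.cons (P.lf 80895 0 0) (P.cons (P.lf 0 6011 0) P.nil)))))) (P.cons (P.cons (P.lf 0 10458063 0) (P.cons (P.lf 0 12725670 0) (P.cons (P.lf 0 2957351 0) (P.cons (P.lf 792811 0 0) (P.cons (P.lf 152714 0 0) P.nil))))) (P.cons (P.cons (P.lf 0 7814070 0) (P.cons (P.lf 0 7270768 0) (P.cons (P.lf 0 978029 0) (P.cons (P.lf 357812 0 0) P.nil)))) (P.cons (P.cons (P.lf 0 1218943 0) (P.cons (P.lf 174173 0 0) (P.cons (P.lf 403141 0 0) P.nil))) (P.cons (P.cons (P.lf 596751 0 0) (P.cons (P.lf 639549 0 0) P.nil)) (P.cons (P.cons (P.lf 163352 0 0) P.nil) P.nil)))))) 567964)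
 (EL.cons 8 (TM.mk (P.cons (P.cons (P.lf 20096163 0 0) (P.cons (P.lf 27575072 0 0) (P.cons (P.lf 7615720 0 0) (P.cons (P.lf 0 1879391 0) (P.cons (P.lf 0 379335 0) (P.cons (P.lf 28188 0 0) P.nil)))))) (P.cons (P.cons (P.lf 28781604 0 0) (P.cons (P.lf 31875656 0 0) (P.cons (P.lf 6190465 0 0) (P.cons (P.lf 0 1823102 0) (P.cons (P.lf 0 333711 0) P.nil))))) (P.cons (P.cons (P.lf 7384056 0 0) (P.cons (P.lf 1626628 0 0) (P.cons (P.lf 0 1746655 0) (P.cons (P.lf 182761 0 0) P.nil)))) (P.cons (P.cons (P.lf 0 2160739 0) (P.cons (P.lf 0 2958171 0) (P.cons (P.lf 0 236510 0) P.nil))) (P.cons (P.cons (P.lf 0 831089 0) (P.cons (P.lf 0 171479 0) P.nil)) (P.cons (P.cons (P.lf 64619 0 0) P.nil) P.nil)))))) 660708)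
 EL.nil))
noncomputable def S256_285_512_660_18 : EL := (EL.cons 4 (TM.mk (P.cons (P.lf 0 5783501 0) (P.cons (P.lf 0 17211901 0) (P.cons (P.lf 0 16867610 0) (P.cons (P.lf 0 5168619 0) (P.cons (P.lf 332796 0 0) (P.cons (P.lf 59024 0 0) P.nil)))))) 4306)
 (EL.cons 8 (TM.mk (P.cons (P.lf 27119797 0 0) (P.cons (P.lf 53371278 0 0) (P.cons (P.lf 24964624 0 0) (P.cons (P.lf 0 1690000 0) (P.cons (P.lf 0 384174 0) (P.cons (P.lf 22382 0 0) P.nil)))))) 4185)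
 EL.nil))
noncomputable def S256_285_512_660_19 : EL := (EL.cons 4 (TM.mk (P.cons (P.cons (P.lf 1672299 0 0) (P.cons (P.lf 1147327 0 0) (P.cons (P.lf 0 76707 0) (P.lf 0 25568 0)))) (P.cons (P.cons (P.lf 5358293 0 0) (P.cons (P.lf 3359275 0 0) (P.cons (P.lf 0 224593 0) (P.lf 0 74864 0)))) (P.cons (P.cons (P.lf 5933830 0 0) (P.cons (P.lf 3155592 0 0) (P.cons (P.lf 0 210975 0) (P.lf 0 70324 0)))) (P.cons (P.cons (P.lf 2358371 0 0) (P.cons (P.lf 787412 0 0) (P.cons (P.lf 0 52644 0) P.nil))) (P.cons (P.cons (P.lf 0 26632 0) (P.cons (P.lf 0 187827 0) P.nil)) (P.cons (P.cons (P.lf 0 147645 0) P.nil) P.nil)))))) 129692)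
 (EL.cons 8 (TM.mk (P.cons (P.cons (P.lf 0 7841691 0) (P.cons (P.lf 0 5380011 0) (P.cons (P.lf 359694 0 0) (P.lf 119897 0 0)))) (P.cons (P.cons (P.lf 0 17221090 0) (P.cons (P.lf 0 10328864 0) (P.cons (P.lf 690563 0 0) (P.lf 230187 0 0)))) (P.cons (P.cons (P.lf 0 10369723 0) (P.cons (P.lf 0 4319722 0) (P.cons (P.lf 288806 0 0) (P.lf 96268 0 0)))) (P.cons (P.cons (P.lf 0 363843 0) (P.cons (P.lf 809988 0 0) (P.cons (P.lf 0 54153 0) P.nil))) (P.cons (P.cons (P.lf 689815 0 0) (P.cons (P.lf 160080 0 0) P.nil)) (P.cons (P.cons (P.lf 46039 0 0) P.nil) P.nil)))))) 92267)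
 EL.nil))
noncomputable def S256_285_512_660_20 : EL := (EL.cons 4 (TM.mk (P.cons (P.cons (P.lf 0 483545 0) (P.cons (P.lf 0 663499 0) (P.cons (P.lf 0 183245 0) (P.cons (P.lf 45220 0 0) (P.cons (P.lf 9126 0 0) (P.cons (P.lf 0 677 0) P.nil)))))) (P.cons (P.cons (P.lf 0 1659653 0) (P.cons (P.lf 0 2094021 0) (P.cons (P.lf 0 515456 0) (P.cons (P.lf 134311 0 0) (P.cons (P.lf 26284 0 0) P.nil))))) (P.cons (P.cons (P.lf 0 2046433 0) (P.cons (P.lf 0 2236795 0) (P.cons (P.lf 0 439174 0) (P.cons (P.lf 128569 0 0) P.nil)))) (P.cons (P.cons (P.lf 0 996207 0) (P.cons (P.lf 0 774466 0) (P.cons (P.lf 0 59295 0) P.nil))) (P.cons (P.cons (P.lf 0 54068 0) (P.cons (P.lf 106932 0 0) P.nil)) (P.cons (P.cons (P.lf 90172 0 0) P.nil) P.nil)))))) 334885)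
 (EL.cons 8 (TM.mk (P.cons (P.cons (P.lf 2267425 0 0) (P.cons (P.lf 3111261 0 0) (P.cons (P.lf 859272 0 0) (P.cons (P.lf 0 212049 0) (P.cons (P.lf 0 42799 0) (P.cons (P.lf 3180 0 0) P.nil)))))) (P.cons (P.cons (P.lf 5496705 0 0) (P.cons (P.lf 6682899 0 0) (P.cons (P.lf 1550870 0 0) (P.cons (P.lf 0 416053 0) (P.cons (P.lf 0 80110 0) P.nil))))) (P.cons (P.cons (P.lf 4027561 0 0) (P.cons (P.lf 3714209 0 0) (P.cons (P.lf 485568 0 0) (P.cons (P.lf 0 180906 0) P.nil)))) (P.cons (P.cons (P.lf 535211 0 0) (P.cons (P.lf 0 206599 0) (P.cons (P.lf 0 233831 0) P.nil))) (P.cons (P.cons (P.lf 0 357926 0) (P.cons (P.lf 0 366299 0) P.nil)) (P.cons (P.cons (P.lf 0 85758 0) P.nil) P.nil)))))) 342242)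
 EL.nil))
noncomputable def S256_285_512_660_21 : EL := (EL.cons 4 (TM.mk (P.cons (P.cons (P.lf 1868051628 0 0) (P.cons (P.lf 0 270376611 0) (P.cons (P.lf 18076746 0 0) (P.lf 6025581 0 0)))) (P.cons (P.cons (P.lf 0 785936340 0) (P.cons (P.lf 0 255205362 0) (P.cons (P.lf 17062434 0 0) (P.lf 5687475 0 0)))) (P.cons (P.cons (P.lf 0 213597060 0) (P.cons (P.lf 22323015 0 0) (P.cons (P.lf 0 1492461 0) (P.lf 0 497484 0)))) (P.cons (P.cons (P.lf 29227119 0 0) (P.cons (P.lf 6726669 0 0) (P.cons (P.lf 0 449727 0) P.nil))) (P.cons (P.cons (P.lf 4313796 0 0) (P.cons (P.lf 0 520581 0) P.nil)) (P.cons (P.cons (P.lf 0 494436 0) P.nil) P.nil)))))) 415254)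
 (EL.cons 8 (TM.mk (P.cons (P.cons (P.lf 141644832 0 0) (P.cons (P.lf 0 20501283 0) (P.cons (P.lf 1370673 0 0) (P.lf 456891 0 0)))) (P.cons (P.cons (P.lf 83191908 0 0) (P.cons (P.lf 0 40017285 0) (P.cons (P.lf 2675460 0 0) (P.lf 891819 0 0)))) (P.cons (P.cons (P.lf 0 74549286 0) (P.cons (P.lf 0 18063066 0) (P.cons (P.lf 1207650 0 0) (P.lf 402546 0 0)))) (P.cons (P.cons (P.lf 0 14245191 0) (P.cons (P.lf 1896102 0 0) (P.cons (P.lf 0 126762 0) P.nil))) (P.cons (P.cons (P.lf 2128344 0 0) (P.cons (P.lf 413109 0 0) P.nil)) (P.cons (P.cons (P.lf 249381 0 0) P.nil) P.nil)))))) 245871)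
 (EL.cons 11 (TM.mk (P.cons (P.cons (P.lf 2940277122 0 0) (P.cons (P.lf 0 455228733 0) (P.cons (P.lf 0 219314847 0) (P.cons (P.lf 8299518 0 0) (P.lf 2074878 0 0))))) (P.cons (P.cons (P.lf 0 94330317 0) (P.cons (P.lf 14604699 0 0) (P.cons (P.lf 7036083 0 0) (P.cons (P.lf 0 266265 0) (P.lf 0 66564 0))))) (P.cons (P.cons (P.lf 0 45655029 0) (P.cons (P.lf 7068543 0 0) (P.cons (P.lf 3405402 0 0) (P.cons (P.lf 0 128868 0) P.nil)))) (P.cons (P.cons (P.lf 1492008 0 0) (P.cons (P.lf 0 231000 0) (P.cons (P.lf 0 111288 0) P.nil))) (P.cons (P.cons (P.lf 350556 0 0) (P.cons (P.lf 0 54273 0) P.nil)) (P.cons (P.cons (P.lf 0 13194 0) P.nil) P.nil)))))) 71190)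
 EL.nil)))
noncomputable def S256_285_512_660_22 : EL := (EL.cons 4 (TM.mk (P.cons (P.cons (P.lf 0 540147276 0) (P.cons (P.lf 0 292403760 0) (P.cons (P.lf 73186614 0 0) (P.cons (P.lf 0 655635 0) (P.cons (P.lf 0 2150946 0) (P.cons (P.lf 159834 0 0) P.nil)))))) (P.cons (P.cons (P.lf 104039637 0 0) (P.cons (P.lf 265373598 0 0) (P.cons (P.lf 30304065 0 0) (P.cons (P.lf 0 12338613 0) (P.cons (P.lf 0 1926744 0) P.nil))))) (P.cons (P.cons (P.lf 139024293 0 0) (P.cons (P.lf 50057046 0 0) (P.cons (P.lf 0 11440053 0) (P.cons (P.lf 0 33360 0) P.nil)))) (P.cons (P.cons (P.lf 0 391479 0) (P.cons (P.lf 0 19395915 0) (P.cons (P.lf 0 923217 0) P.nil))) (P.cons (P.cons (P.lf 0 8448306 0) (P.cons (P.lf 0 2035149 0) P.nil)) (P.cons (P.cons (P.lf 0 156315 0) P.nil) P.nil)))))) 3583434)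
 (EL.cons 8 (TM.mk (P.cons (P.cons (P.lf 0 40956612 0) (P.cons (P.lf 0 22171485 0) (P.cons (P.lf 5549367 0 0) (P.cons (P.lf 0 49713 0) (P.cons (P.lf 0 163095 0) (P.cons (P.lf 12117 0 0) P.nil)))))) (P.cons (P.cons (P.lf 0 33397629 0) (P.cons (P.lf 0 2228100 0) (P.cons (P.lf 7891857 0 0) (P.cons (P.lf 0 985686 0) (P.cons (P.lf 0 310503 0) P.nil))))) (P.cons (P.cons (P.lf 17996448 0 0) (P.cons (P.lf 23810280 0 0) (P.cons (P.lf 1516254 0 0) (P.cons (P.lf 0 946236 0) P.nil)))) (P.cons (P.cons (P.lf 10522266 0 0) (P.cons (P.lf 2507643 0 0) (P.cons (P.lf 0 893457 0) P.nil))) (P.cons (P.cons (P.lf 0 513078 0) (P.cons (P.lf 0 1508940 0) P.nil)) (P.cons (P.cons (P.lf 0 614205 0) P.nil) P.nil)))))) 1456665)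
 (EL.cons 11 (TM.mk (P.cons (P.cons (P.lf 0 850181364 0) (P.cons (P.lf 0 451661328 0) (P.cons (P.lf 192720420 0 0) (P.cons (P.lf 48069132 0 0) (P.cons (P.lf 0 7167813 0) (P.cons (P.lf 0 1271139 0) P.nil)))))) (P.cons (P.cons (P.lf 0 166660701 0) (P.cons (P.lf 72586266 0 0) (P.cons (P.lf 2060214 0 0) (P.cons (P.lf 0 4518306 0) (P.cons (P.lf 409167 0 0) P.nil))))) (P.cons (P.cons (P.lf 59439126 0 0) (P.cons (P.lf 12314211 0 0) (P.cons (P.lf 0 9203475 0) (P.cons (P.lf 0 1693956 0) P.nil)))) (P.cons (P.cons (P.lf 8642361 0 0) (P.cons (P.lf 0 3161625 0) (P.cons (P.lf 0 240381 0) P.nil))) (P.cons (P.cons (P.lf 0 1690437 0) (P.cons (P.lf 0 131445 0) P.nil)) (P.cons (P.cons (P.lf 0 168645 0) P.nil) P.nil)))))) 1281978)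
 EL.nil)))
noncomputable def S256_285_512_660_23 : EL := (EL.cons 4 (TM.mk (P.cons (P.cons (P.lf 210769992 0 0) (P.cons (P.lf 0 30506262 0) (P.cons (P.lf 2039577 0 0) (P.lf 679857 0 0)))) (P.cons (P.cons (P.lf 120410040 0 0) (P.cons (P.lf 0 59057079 0) (P.cons (P.lf 3948417 0 0) (P.lf 1316136 0 0)))) (P.cons (P.cons (P.lf 0 114579867 0) (P.cons (P.lf 0 25682214 0) (P.cons (P.lf 1717053 0 0) (P.lf 572349 0 0)))) (P.cons (P.cons (P.lf 0 20367867 0) (P.cons (P.lf 3718683 0 0) (P.cons (P.lf 0 248619 0) P.nil))) (P.cons (P.cons (P.lf 4404735 0 0) (P.cons (P.lf 773097 0 0) P.nil)) (P.cons (P.cons (P.lf 477099 0 0) P.nil) P.nil)))))) 390390)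
 (EL.cons 8 (TM.mk (P.cons (P.cons (P.lf 15981612 0 0) (P.cons (P.lf 0 2313132 0) (P.cons (P.lf 154650 0 0) (P.lf 51549 0 0)))) (P.cons (P.cons (P.lf 25240386 0 0) (P.cons (P.lf 0 6809757 0) (P.cons (P.lf 455283 0 0) (P.lf 151761 0 0)))) (P.cons (P.cons (P.lf 709671 0 0) (P.cons (P.lf 0 6489495 0) (P.cons (P.lf 433869 0 0) (P.lf 144621 0 0)))) (P.cons (P.cons (P.lf 0 10125054 0) (P.cons (P.lf 0 1745058 0) (P.cons (P.lf 116670 0 0) P.nil))) (P.cons (P.cons (P.lf 0 1289079 0) (P.cons (P.lf 300405 0 0) P.nil)) (P.cons (P.cons (P.lf 319014 0 0) P.nil) P.nil)))))) 219516)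
 (EL.cons 11 (TM.mk (P.cons (P.cons (P.lf 331747890 0 0) (P.cons (P.lf 0 51362904 0) (P.cons (P.lf 0 24745026 0) (P.cons (P.lf 936423 0 0) (P.lf 234105 0 0))))) (P.cons (P.cons (P.lf 318454590 0 0) (P.cons (P.lf 0 49304766 0) (P.cons (P.lf 0 23753481 0) (P.cons (P.lf 898899 0 0) (P.lf 224724 0 0))))) (P.cons (P.cons (P.lf 0 19663368 0) (P.cons (P.lf 3044382 0 0) (P.cons (P.lf 1466685 0 0) (P.cons (P.lf 0 55503 0) P.nil)))) (P.cons (P.cons (P.lf 0 6097743 0) (P.cons (P.lf 944082 0 0) (P.cons (P.lf 454827 0 0) P.nil))) (P.cons (P.cons (P.lf 335139 0 0) (P.cons (P.lf 0 51888 0) P.nil)) (P.cons (P.cons (P.lf 59739 0 0) P.nil) P.nil)))))) 84867)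
 EL.nil)))
noncomputable def S256_285_512_660_24 : EL := (EL.cons 4 (TM.mk (P.cons (P.cons (P.lf 0 60944160 0) (P.cons (P.lf 0 32991558 0) (P.cons (P.lf 8257554 0 0) (P.cons (P.lf 0 73974 0) (P.cons (P.lf 0 242688 0) (P.cons (P.lf 18033 0 0) P.nil)))))) (P.cons (P.cons (P.lf 0 48718647 0) (P.cons (P.lf 0 2786229 0) (P.cons (P.lf 11610762 0 0) (P.cons (P.lf 0 1465533 0) (P.cons (P.lf 0 458142 0) P.nil))))) (P.cons (P.cons (P.lf 28057212 0 0) (P.cons (P.lf 35743686 0 0) (P.cons (P.lf 2002668 0 0) (P.cons (P.lf 0 1383912 0) P.nil)))) (P.cons (P.cons (P.lf 15612228 0 0) (P.cons (P.lf 3185052 0 0) (P.cons (P.lf 0 1457304 0) P.nil))) (P.cons (P.cons (P.lf 0 1234161 0) (P.cons (P.lf 0 2586249 0) P.nil)) (P.cons (P.cons (P.lf 0 1023348 0) P.nil) P.nil)))))) 2492313)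
 (EL.cons 8 (TM.mk (P.cons (P.cons (P.lf 0 4621083 0) (P.cons (P.lf 0 2501580 0) (P.cons (P.lf 626127 0 0) (P.cons (P.lf 0 5607 0) (P.cons (P.lf 0 18399 0) (P.cons (P.lf 1365 0 0) P.nil)))))) (P.cons (P.cons (P.lf 0 8352384 0) (P.cons (P.lf 0 2732991 0) (P.cons (P.lf 1511553 0 0) (P.cons (P.lf 0 116778 0) (P.cons (P.lf 0 53286 0) P.nil))))) (P.cons (P.cons (P.lf 0 1652514 0) (P.cons (P.lf 2466915 0 0) (P.cons (P.lf 1046928 0 0) (P.cons (P.lf 0 217020 0) P.nil)))) (P.cons (P.cons (P.lf 3264294 0 0) (P.cons (P.lf 2960628 0 0) (P.cons (P.lf 55866 0 0) P.nil))) (P.cons (P.cons (P.lf 1109847 0 0) (P.cons (P.lf 79176 0 0) P.nil)) (P.cons (P.cons (P.lf 0 149094 0) P.nil) P.nil)))))) 838548)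
 (EL.cons 11 (TM.mk (P.cons (P.cons (P.lf 0 95924928 0) (P.cons (P.lf 0 50960397 0) (P.cons (P.lf 21744408 0 0) (P.cons (P.lf 5423580 0 0) (P.cons (P.lf 0 808734 0) (P.cons (P.lf 0 143421 0) P.nil)))))) (P.cons (P.cons (P.lf 0 113962767 0) (P.cons (P.lf 0 42363486 0) (P.cons (P.lf 21803157 0 0) (P.cons (P.lf 4870458 0 0) (P.cons (P.lf 0 756108 0) P.nil))))) (P.cons (P.cons (P.lf 0 10804161 0) (P.cons (P.lf 10121175 0 0) (P.cons (P.lf 0 1066986 0) (P.cons (P.lf 0 761490 0) P.nil)))) (P.cons (P.cons (P.lf 8223045 0 0) (P.cons (P.lf 1121028 0 0) (P.cons (P.lf 0 1144098 0) P.nil))) (P.cons (P.cons (P.lf 761841 0 0) (P.cons (P.lf 0 420933 0) P.nil)) (P.cons (P.cons (P.lf 0 248685 0) P.nil) P.nil)))))) 1101180)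
 EL.nil)))
noncomputable def S256_285_512_660_25 : EL := (EL.cons 4 (TM.mk (P.cons (P.cons (P.lf 23780919 0 0) (P.cons (P.lf 0 3441984 0) (P.cons (P.lf 230121 0 0) (P.lf 76707 0 0)))) (P.cons (P.cons (P.lf 37176669 0 0) (P.cons (P.lf 0 10077825 0) (P.cons (P.lf 673779 0 0) (P.lf 224592 0 0)))) (P.cons (P.cons (P.lf 265845 0 0) (P.cons (P.lf 0 9466776 0) (P.cons (P.lf 632925 0 0) (P.lf 210975 0 0)))) (P.cons (P.cons (P.lf 0 15376602 0) (P.cons (P.lf 0 2362239 0) (P.cons (P.lf 157932 0 0) P.nil))) (P.cons (P.cons (P.lf 0 1679328 0) (P.cons (P.lf 563484 0 0) P.nil)) (P.cons (P.cons (P.lf 625641 0 0) P.nil) P.nil)))))) 417879)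
 (EL.cons 8 (TM.mk (P.cons (P.cons (P.lf 1803186 0 0) (P.cons (P.lf 0 260988 0) (P.cons (P.lf 17448 0 0) (P.lf 5814 0 0)))) (P.cons (P.cons (P.lf 4636623 0 0) (P.cons (P.lf 0 1027239 0) (P.cons (P.lf 68676 0 0) (P.lf 22890 0 0)))) (P.cons (P.cons (P.lf 2883672 0 0) (P.cons (P.lf 0 1491288 0) (P.cons (P.lf 99702 0 0) (P.lf 33234 0 0)))) (P.cons (P.cons (P.lf 0 1103880 0) (P.cons (P.lf 0 913077 0) (P.cons (P.lf 61044 0 0) P.nil))) (P.cons (P.cons (P.lf 0 1290540 0) (P.cons (P.lf 0 149745 0) P.nil)) (P.cons (P.cons (P.lf 0 94731 0) P.nil) P.nil)))))) 165213)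
 (EL.cons 11 (TM.mk (P.cons (P.cons (P.lf 37430709 0 0) (P.cons (P.lf 0 5795214 0) (P.cons (P.lf 0 2791950 0) (P.cons (P.lf 105654 0 0) (P.lf 26412 0 0))))) (P.cons (P.cons (P.lf 73062543 0 0) (P.cons (P.lf 0 11311914 0) (P.cons (P.lf 0 5449722 0) (P.cons (P.lf 206232 0 0) (P.lf 51558 0 0))))) (P.cons (P.cons (P.lf 32979093 0 0) (P.cons (P.lf 0 5105991 0) (P.cons (P.lf 0 2459904 0) (P.cons (P.lf 93090 0 0) P.nil)))) (P.cons (P.cons (P.lf 0 3461868 0) (P.cons (P.lf 535983 0 0) (P.cons (P.lf 258219 0 0) P.nil))) (P.cons (P.cons (P.lf 0 754254 0) (P.cons (P.lf 116775 0 0) P.nil)) (P.cons (P.cons (P.lf 64404 0 0) P.nil) P.nil)))))) 141834)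
 EL.nil)))
noncomputable def S256_285_512_660_26 : EL := (EL.cons 4 (TM.mk (P.cons (P.cons (P.lf 0 6876255 0) (P.cons (P.lf 0 3722397 0) (P.cons (P.lf 931689 0 0) (P.cons (P.lf 0 8346 0) (P.cons (P.lf 0 27381 0) (P.cons (P.lf 2034 0 0) P.nil)))))) (P.cons (P.cons (P.lf 0 12318189 0) (P.cons (P.lf 0 4007028 0) (P.cons (P.lf 2234274 0 0) (P.cons (P.lf 0 173634 0) (P.cons (P.lf 0 78855 0) P.nil))))) (P.cons (P.cons (P.lf 0 2205336 0) (P.cons (P.lf 3765426 0 0) (P.cons (P.lf 1514415 0 0) (P.cons (P.lf 0 320079 0) P.nil)))) (P.cons (P.cons (P.lf 4993986 0 0) (P.cons (P.lf 4378206 0 0) (P.cons (P.lf 40509 0 0) P.nil))) (P.cons (P.cons (P.lf 1591173 0 0) (P.cons (P.lf 17547 0 0) P.nil)) (P.cons (P.cons (P.lf 0 287370 0) P.nil) P.nil)))))) 1358106)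
 (EL.cons 8 (TM.mk (P.cons (P.cons (P.lf 0 521391 0) (P.cons (P.lf 0 282249 0) (P.cons (P.lf 70644 0 0) (P.cons (P.lf 0 630 0) (P.cons (P.lf 0 2076 0) (P.cons (P.lf 153 0 0) P.nil)))))) (P.cons (P.cons (P.lf 0 1459614 0) (P.cons (P.lf 0 588354 0) (P.cons (P.lf 240627 0 0) (P.cons (P.lf 0 13803 0) (P.cons (P.lf 0 8070 0) P.nil))))) (P.cons (P.cons (P.lf 0 1115097 0) (P.cons (P.lf 0 24192 0) (P.cons (P.lf 286464 0 0) (P.cons (P.lf 0 37548 0) P.nil)))) (P.cons (P.cons (P.lf 196590 0 0) (P.cons (P.lf 614925 0 0) (P.cons (P.lf 121176 0 0) P.nil))) (P.cons (P.cons (P.lf 496410 0 0) (P.cons (P.lf 338160 0 0) P.nil)) (P.cons (P.cons (P.lf 103647 0 0) P.nil) P.nil)))))) 401130)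
 (EL.cons 11 (TM.mk (P.cons (P.cons (P.lf 0 10823091 0) (P.cons (P.lf 0 5749797 0) (P.cons (P.lf 2453394 0 0) (P.cons (P.lf 611934 0 0) (P.cons (P.lf 0 91248 0) (P.cons (P.lf 0 16182 0) P.nil)))))) (P.cons (P.cons (P.lf 0 23594913 0) (P.cons (P.lf 0 10483686 0) (P.cons (P.lf 4893819 0 0) (P.cons (P.lf 1156575 0 0) (P.cons (P.lf 0 175830 0) P.nil))))) (P.cons (P.cons (P.lf 0 13845585 0) (P.cons (P.lf 0 3531147 0) (P.cons (P.lf 2290743 0 0) (P.cons (P.lf 451926 0 0) P.nil)))) (P.cons (P.cons (P.lf 0 86376 0) (P.cons (P.lf 1338525 0 0) (P.cons (P.lf 0 287319 0) P.nil))) (P.cons (P.cons (P.lf 1069743 0 0) (P.cons (P.lf 82401 0 0) P.nil)) (P.cons (P.cons (P.lf 49695 0 0) P.nil) P.nil)))))) 673641)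
 EL.nil)))
noncomputable def S256_285_512_660_27 : EL := (EL.cons 13 (TM.mk (P.lf 0 4294967296 0) 0)
 EL.nil)
noncomputable def S256_285_512_660_28 : EL := (EL.cons 13 (TM.mk (P.cons (P.cons (P.lf 1241890136 0 0) (P.cons (P.lf 852033536 0 0) (P.cons (P.lf 0 56964976 0) (P.lf 0 18988324 0)))) (P.cons (P.cons (P.lf 283289679 0 0) (P.cons (P.lf 0 41002556 0) (P.cons (P.lf 2741332 0 0) (P.lf 913776 0 0)))) (P.cons (P.cons (P.lf 0 58452916 0) (P.cons (P.lf 0 19516008 0) (P.cons (P.lf 1304792 0 0) (P.lf 434928 0 0)))) (P.cons (P.cons (P.lf 0 10730912 0) (P.cons (P.lf 968620 0 0) (P.cons (P.lf 0 64756 0) P.nil))) (P.cons (P.cons (P.lf 925572 0 0) (P.cons (P.lf 221580 0 0) P.nil)) (P.cons (P.cons (P.lf 110875 0 0) P.nil) P.nil)))))) 70175)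
 EL.nil)
noncomputable def S256_285_512_660_29 : EL := (EL.cons 13 (TM.mk (P.cons (P.cons (P.lf 0 359092631 0) (P.cons (P.lf 0 492731129 0) (P.cons (P.lf 0 136083146 0) (P.cons (P.lf 33582319 0 0) (P.cons (P.lf 6778251 0 0) (P.cons (P.lf 0 503691 0) P.nil)))))) (P.cons (P.cons (P.lf 0 163826466 0) (P.cons (P.lf 0 88685954 0) (P.cons (P.lf 22197472 0 0) (P.cons (P.lf 0 198851 0) (P.cons (P.lf 0 652381 0) P.nil))))) (P.cons (P.cons (P.lf 15117963 0 0) (P.cons (P.lf 39886768 0 0) (P.cons (P.lf 4684981 0 0) (P.cons (P.lf 0 1871945 0) P.nil)))) (P.cons (P.cons (P.lf 13916623 0 0) (P.cons (P.lf 5155867 0 0) (P.cons (P.lf 0 1101644 0) P.nil))) (P.cons (P.cons (P.lf 84809 0 0) (P.cons (P.lf 0 1359246 0) P.nil)) (P.cons (P.cons (P.lf 0 478305 0) P.nil) P.nil)))))) 1639173)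
 EL.nil)
noncomputable def S256_285_512_660_30 : EL := (EL.cons 13 (TM.mk (P.cons (P.lf 0 484595936 0) (P.cons (P.lf 0 480724804 0) (P.cons (P.lf 5775768 0 0) (P.cons (P.lf 1873960 0 0) (P.cons (P.lf 0 38036 0) (P.cons (P.lf 0 7180 0) P.nil)))))) 280)
 EL.nil)
noncomputable def S256_285_512_660_31 : EL := (EL.cons 13 (TM.mk (P.cons (P.cons (P.lf 140120953 0 0) (P.cons (P.lf 96133907 0 0) (P.cons (P.lf 0 6427288 0) (P.lf 0 2142429 0)))) (P.cons (P.cons (P.lf 170964845 0 0) (P.cons (P.lf 90739685 0 0) (P.cons (P.lf 0 6066644 0) (P.lf 0 2022214 0)))) (P.cons (P.cons (P.lf 23442660 0 0) (P.cons (P.lf 0 7937073 0) (P.cons (P.lf 530653 0 0) (P.lf 176884 0 0)))) (P.cons (P.cons (P.lf 0 8676059 0) (P.cons (P.lf 0 2391705 0) (P.cons (P.lf 159903 0 0) P.nil))) (P.cons (P.cons (P.lf 0 1130652 0) (P.cons (P.lf 185096 0 0) P.nil)) (P.cons (P.cons (P.lf 160626 0 0) P.nil) P.nil))))))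 144854)
 EL.nil)
noncomputable def S256_285_512_660_32 : EL := (EL.cons 13 (TM.mk (P.cons (P.cons (P.lf 0 40515984 0) (P.cons (P.lf 0 55594253 0) (P.cons (P.lf 0 15354095 0) (P.cons (P.lf 3789052 0 0) (P.cons (P.lf 764781 0 0) (P.cons (P.lf 0 56830 0) P.nil)))))) (P.cons (P.cons (P.lf 0 58676668 0) (P.cons (P.lf 0 65156474 0) (P.cons (P.lf 0 12726927 0) (P.cons (P.lf 3736347 0 0) (P.cons (P.lf 685065 0 0) P.nil))))) (P.cons (P.cons (P.lf 0 16148040 0) (P.cons (P.lf 0 4763405 0) (P.cons (P.lf 3196108 0 0) (P.cons (P.lf 0 278626 0) P.nil)))) (P.cons (P.cons (P.lf 3639298 0 0) (P.cons (P.lf 5380403 0 0) (P.cons (P.lf 429605 0 0) P.nil))) (P.cons (P.cons (P.lf 1615190 0 0) (P.cons (P.lf 404413 0 0) P.nil)) (P.cons (P.cons (P.lf 0 71836 0) P.nil) P.nil)))))) 1132922)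
 EL.nil)
noncomputable def S256_285_512_660_33 : EL := (EL.cons 14 (TM.mk (P.lf 8589934592 0 0) 0)
 EL.nil)
noncomputable def S256_285_512_660_34 : EL := (EL.cons 14 (TM.mk (P.cons (P.cons (P.lf 0 2483780272 0) (P.cons (P.lf 0 1704067072 0) (P.cons (P.lf 113929952 0 0) (P.lf 37976648 0 0)))) (P.cons (P.cons (P.lf 0 566579358 0) (P.cons (P.lf 82005112 0 0) (P.cons (P.lf 0 5482664 0) (P.lf 0 1827552 0)))) (P.cons (P.cons (P.lf 116905832 0 0) (P.cons (P.lf 39032016 0 0) (P.cons (P.lf 0 2609584 0) (P.lf 0 869856 0)))) (P.cons (P.cons (P.lf 21461824 0 0) (P.cons (P.lf 0 1937240 0) (P.cons (P.lf 129512 0 0) P.nil))) (P.cons (P.cons (P.lf 0 1851144 0) (P.cons (P.lf 0 443160 0) P.nil)) (P.cons (P.cons (P.lf 0 221750 0) P.nil) P.nil)))))) 140350)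
 EL.nil)
noncomputable def S256_285_512_660_35 : EL := (EL.cons 14 (TM.mk (P.cons (P.cons (P.lf 718185262 0 0) (P.cons (P.lf 985462258 0 0) (P.cons (P.lf 272166292 0 0) (P.cons (P.lf 0 67164638 0) (P.cons (P.lf 0 13556502 0) (P.cons (P.lf 1007382 0 0) P.nil)))))) (P.cons (P.cons (P.lf 327652932 0 0) (P.cons (P.lf 177371908 0 0) (P.cons (P.lf 0 44394944 0) (P.cons (P.lf 397702 0 0) (P.cons (P.lf 1304762 0 0) P.nil))))) (P.cons (P.cons (P.lf 0 30235926 0) (P.cons (P.lf 0 79773536 0) (P.cons (P.lf 0 9369962 0) (P.cons (P.lf 3743890 0 0) P.nil)))) (P.cons (P.cons (P.lf 0 27833246 0) (P.cons (P.lf 0 10311734 0) (P.cons (P.lf 2203288 0 0) P.nil))) (P.cons (P.cons (P.lf 0 169618 0) (P.cons (P.lf 2718492 0 0) P.nil)) (P.cons (P.cons (P.lf 956610 0 0) P.nil) P.nil)))))) 3278346)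
 EL.nil)
noncomputable def S256_285_512_660_36 : EL := (EL.cons 14 (TM.mk (P.cons (P.lf 969191872 0 0) (P.cons (P.lf 961449608 0 0) (P.cons (P.lf 0 11551536 0) (P.cons (P.lf 0 3747920 0) (P.cons (P.lf 76072 0 0) (P.cons (P.lf 14360 0 0) P.nil)))))) 560)
 EL.nil)
noncomputable def S256_285_512_660_37 : EL := (EL.cons 14 (TM.mk (P.cons (P.cons (P.lf 0 280241906 0) (P.cons (P.lf 0 192267814 0) (P.cons (P.lf 12854576 0 0) (P.lf 4284858 0 0)))) (P.cons (P.cons (P.lf 0 341929690 0) (P.cons (P.lf 0 181479370 0) (P.cons (P.lf 12133288 0 0) (P.lf 4044428 0 0)))) (P.cons (P.cons (P.lf 0 46885320 0) (P.cons (P.lf 15874146 0 0) (P.cons (P.lf 0 1061306 0) (P.lf 0 353768 0)))) (P.cons (P.cons (P.lf 17352118 0 0) (P.cons (P.lf 4783410 0 0) (P.cons (P.lf 0 319806 0) P.nil))) (P.cons (P.cons (P.lf 2261304 0 0) (P.cons (P.lf 0 370192 0) P.nil)) (P.cons (P.cons (P.lf 0 321252 0) P.nil)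 P.nil)))))) 289708)
 EL.nil)
noncomputable def S256_285_512_660_38 : EL := (EL.cons 14 (TM.mk (P.cons (P.cons (P.lf 81031968 0 0) (P.cons (P.lf 111188506 0 0) (P.cons (P.lf 30708190 0 0) (P.cons (P.lf 0 7578104 0) (P.cons (P.lf 0 1529562 0) (P.cons (P.lf 113660 0 0) P.nil)))))) (P.cons (P.cons (P.lf 117353336 0 0) (P.cons (P.lf 130312948 0 0) (P.cons (P.lf 25453854 0 0) (P.cons (P.lf 0 7472694 0) (P.cons (P.lf 0 1370130 0) P.nil))))) (P.cons (P.cons (P.lf 32296080 0 0) (P.cons (P.lf 9526810 0 0) (P.cons (P.lf 0 6392216 0) (P.cons (P.lf 557252 0 0) P.nil)))) (P.cons (P.cons (P.lf 0 7278596 0) (P.cons (P.lf 0 10760806 0) (P.cons (P.lf 0 859210 0) P.nil))) (P.cons (P.cons (P.lf 0 3230380 0) (P.cons (P.lf 0 808826 0) P.nil)) (P.cons (P.cons (P.lf 143672 0 0) P.nil) P.nil)))))) 2265844)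
 EL.nil)
noncomputable def S256_285_512_660_39 : EL := (EL.cons 14 (TM.mk (P.cons (P.lf 109352740 0 0) (P.cons (P.lf 216958378 0 0) (P.cons (P.lf 105005926 0 0) (P.cons (P.lf 0 3431614 0) (P.cons (P.lf 0 806288 0) (P.cons (P.lf 30348 0 0) P.nil)))))) 5440)
 EL.nil)
noncomputable def S256_285_512_660_40 : EL := (EL.cons 14 (TM.mk (P.cons (P.cons (P.lf 0 31619352 0) (P.cons (P.lf 0 21693342 0) (P.cons (P.lf 1450366 0 0) (P.lf 483454 0 0)))) (P.cons (P.cons (P.lf 0 69946276 0) (P.cons (P.lf 0 41996144 0) (P.cons (P.lf 2807764 0 0) (P.lf 935920 0 0)))) (P.cons (P.cons (P.lf 0 43184474 0) (P.cons (P.lf 0 18262908 0) (P.cons (P.lf 1221014 0 0) (P.lf 407004 0 0)))) (P.cons (P.cons (P.lf 0 2707844 0) (P.cons (P.lf 2644396 0 0) (P.cons (P.lf 0 176798 0) P.nil))) (P.cons (P.cons (P.lf 2407074 0 0) (P.cons (P.lf 549758 0 0) P.nil)) (P.cons (P.cons (P.lf 210480 0 0) P.nil) P.nil))))))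 268426)
 EL.nil)
noncomputable def S256_285_512_660_41 : EL := (EL.cons 14 (TM.mk (P.cons (P.cons (P.lf 9142738 0 0) (P.cons (P.lf 12545264 0 0) (P.cons (P.lf 3464766 0 0) (P.cons (P.lf 0 855028 0) (P.cons (P.lf 0 172578 0) (P.cons (P.lf 12824 0 0) P.nil)))))) (P.cons (P.cons (P.lf 22310536 0 0) (P.cons (P.lf 27148098 0 0) (P.cons (P.lf 6309016 0 0) (P.cons (P.lf 0 1691332 0) (P.cons (P.lf 0 325790 0) P.nil))))) (P.cons (P.cons (P.lf 16670018 0 0) (P.cons (P.lf 15510972 0 0) (P.cons (P.lf 2086462 0 0) (P.cons (P.lf 0 763334 0) P.nil)))) (P.cons (P.cons (P.lf 2600412 0 0) (P.cons (P.lf 0 371570 0) (P.cons (P.lf 0 860036 0) P.nil))) (P.cons (P.cons (P.lf 0 1273070 0) (P.cons (P.lf 0 1364372 0) P.nil)) (P.cons (P.cons (P.lf 0 348486 0) P.nil) P.nil)))))) 1211610)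
 EL.nil)
noncomputable def S256_285_512_660_42 : EL := (EL.cons 14 (TM.mk (P.cons (P.lf 12338136 0 0) (P.cons (P.lf 36718724 0 0) (P.cons (P.lf 35984236 0 0) (P.cons (P.lf 11026388 0 0) (P.cons (P.lf 0 709966 0) (P.cons (P.lf 0 125918 0) P.nil)))))) 9172)
 EL.nil)
noncomputable def S256_285_512_660_43 : EL := (EL.cons 14 (TM.mk (P.cons (P.cons (P.lf 0 3567572 0) (P.cons (P.lf 0 2447632 0) (P.cons (P.lf 163642 0 0) (P.lf 54546 0 0)))) (P.cons (P.cons (P.lf 0 11431026 0) (P.cons (P.lf 0 7166454 0) (P.cons (P.lf 479132 0 0) (P.lf 159710 0 0)))) (P.cons (P.cons (P.lf 0 12658838 0) (P.cons (P.lf 0 6731930 0) (P.cons (P.lf 450080 0 0) (P.lf 150026 0 0)))) (P.cons (P.cons (P.lf 0 5031192 0) (P.cons (P.lf 0 1679814 0) (P.cons (P.lf 112308 0 0) P.nil))) (P.cons (P.cons (P.lf 56816 0 0) (P.cons (P.lf 400698 0 0) P.nil)) (P.cons (P.cons (P.lf 314976 0 0) P.nil) P.nil)))))) 276636)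
 EL.nil)
noncomputable def S256_285_512_660_44 : EL := (EL.cons 14 (TM.mk (P.cons (P.cons (P.lf 1031564 0 0) (P.cons (P.lf 1415466 0 0) (P.cons (P.lf 390924 0 0) (P.cons (P.lf 0 96470 0) (P.cons (P.lf 0 19470 0) (P.cons (P.lf 1446 0 0) P.nil)))))) (P.cons (P.cons (P.lf 3540594 0 0) (P.cons (P.lf 4467246 0 0) (P.cons (P.lf 1099640 0 0) (P.cons (P.lf 0 286532 0) (P.cons (P.lf 0 56074 0) P.nil))))) (P.cons (P.cons (P.lf 4365724 0 0) (P.cons (P.lf 4771830 0 0) (P.cons (P.lf 936906 0 0) (P.cons (P.lf 0 274282 0) P.nil)))) (P.cons (P.cons (P.lf 2125242 0 0) (P.cons (P.lf 1652196 0 0) (P.cons (P.lf 126498 0 0) P.nil))) (P.cons (P.cons (P.lf 115346 0 0) (P.cons (P.lf 0 228122 0) P.nil)) (P.cons (P.cons (P.lf 0 192368 0) P.nil) P.nil)))))) 714376)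
 EL.nil)
noncomputable def S256_285_512_660_45 : EL := (EL.cons 14 (TM.mk (P.cons (P.cons (P.lf 0 207663324 0) (P.cons (P.lf 0 427419734 0) (P.cons (P.lf 0 264667002 0) (P.cons (P.lf 0 18326038 0) (P.cons (P.lf 25210536 0 0) (P.cons (P.lf 2710494 0 0) P.nil)))))) (P.cons (P.cons (P.lf 0 142111306 0) (P.cons (P.lf 0 174430096 0) (P.cons (P.lf 0 27006640 0) (P.cons (P.lf 18739716 0 0) (P.cons (P.lf 0 391220 0) P.nil))))) (P.cons (P.cons (P.lf 0 3094544 0) (P.cons (P.lf 37168668 0 0) (P.cons (P.lf 30509904 0 0) (P.cons (P.lf 0 1097926 0) P.nil)))) (P.cons (P.cons (P.lf 16295912 0 0) (P.cons (P.lf 19679266 0 0) (P.cons (P.lf 1485966 0 0) P.nil))) (P.cons (P.cons (P.lf 2137250 0 0) (P.cons (P.lf 0 1441202 0) P.nil)) (P.cons (P.cons (P.lf 0 808910 0) P.nil) P.nil)))))) 11160978)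
 EL.nil)
noncomputable def S256_285_512_660_46 : EL := (EL.cons 15 (TM.mk (P.lf 4294967296 0 0) 0)
 EL.nil)
noncomputable def S256_285_512_660_47 : EL := (EL.cons 15 (TM.mk (P.cons (P.cons (P.lf 0 1241890136 0) (P.cons (P.lf 0 852033536 0) (P.cons (P.lf 56964976 0 0) (P.lf 18988324 0 0)))) (P.cons (P.cons (P.lf 0 283289679 0) (P.cons (P.lf 41002556 0 0) (P.cons (P.lf 0 2741332 0) (P.lf 0 913776 0)))) (P.cons (P.cons (P.lf 58452916 0 0) (P.cons (P.lf 19516008 0 0) (P.cons (P.lf 0 1304792 0) (P.lf 0 434928 0)))) (P.cons (P.cons (P.lf 10730912 0 0) (P.cons (P.lf 0 968620 0) (P.cons (P.lf 64756 0 0) P.nil))) (P.cons (P.cons (P.lf 0 925572 0) (P.cons (P.lf 0 221580 0) P.nil)) (P.cons (P.cons (P.lf 0 110875 0) P.nil) P.nil)))))) 70175)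
 EL.nil)
noncomputable def S256_285_512_660_48 : EL := (EL.cons 15 (TM.mk (P.cons (P.cons (P.lf 359092631 0 0) (P.cons (P.lf 492731129 0 0) (P.cons (P.lf 136083146 0 0) (P.cons (P.lf 0 33582319 0) (P.cons (P.lf 0 6778251 0) (P.cons (P.lf 503691 0 0) P.nil)))))) (P.cons (P.cons (P.lf 163826466 0 0) (P.cons (P.lf 88685954 0 0) (P.cons (P.lf 0 22197472 0) (P.cons (P.lf 198851 0 0) (P.cons (P.lf 652381 0 0) P.nil))))) (P.cons (P.cons (P.lf 0 15117963 0) (P.cons (P.lf 0 39886768 0) (P.cons (P.lf 0 4684981 0) (P.cons (P.lf 1871945 0 0) P.nil)))) (P.cons (P.cons (P.lf 0 13916623 0) (P.cons (P.lf 0 5155867 0) (P.cons (P.lf 1101644 0 0) P.nil))) (P.cons (P.cons (P.lf 0 84809 0) (P.cons (P.lf 1359246 0 0) P.nil)) (P.cons (P.cons (P.lf 478305 0 0) P.nil) P.nil)))))) 1639173)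
 EL.nil)
noncomputable def S256_285_512_660 : SL := (SL.cons S256_285_512_660_0 (SL.cons S256_285_512_660_1 (SL.cons S256_285_512_660_2 (SL.cons S256_285_512_660_3 (SL.cons S256_285_512_660_4 (SL.cons S256_285_512_660_5 (SL.cons S256_285_512_660_6 (SL.cons S256_285_512_660_7 (SL.cons S256_285_512_660_8 (SL.cons S256_285_512_660_9 (SL.cons S256_285_512_660_10 (SL.cons S256_285_512_660_11 (SL.cons S256_285_512_660_12 (SL.cons S256_285_512_660_13 (SL.cons S256_285_512_660_14 (SL.cons S256_285_512_660_15 (SL.cons S256_285_512_660_16 (SL.cons S256_285_512_660_17 (SL.cons S256_285_512_660_18 (SL.cons S256_285_512_660_19 (SL.cons S256_285_512_660_20 (SL.cons S256_285_512_660_21 (SL.cons S256_285_512_660_22 (SL.cons S256_285_512_660_23 (SL.cons S256_285_512_660_24 (SL.cons S256_285_512_660_25 (SL.cons S256_285_512_660_26 (SL.cons S256_285_512_660_27 (SL.cons S256_285_512_660_28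 (SL.cons S256_285_512_660_29 (SL.cons S256_285_512_660_30 (SL.cons S256_285_512_660_31 (SL.cons S256_285_512_660_32 (SL.cons S256_285_512_660_33 (SL.cons S256_285_512_660_34 (SL.cons S256_285_512_660_35 (SL.cons S256_285_512_660_36 (SL.cons S256_285_512_660_37 (SL.cons S256_285_512_660_38 (SL.cons S256_285_512_660_39 (SL.cons S256_285_512_660_40 (SL.cons S256_285_512_660_41 (SL.cons S256_285_512_660_42 (SL.cons S256_285_512_660_43 (SL.cons S256_285_512_660_44 (SL.cons S256_285_512_660_45 (SL.cons S256_285_512_660_46 (SL.cons S256_285_512_660_47 (SL.cons S256_285_512_660_48 SL.nil)))))))))))))))))))))))))))))))))))))))))))))))))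
noncomputable def S256_285_586_660_0 : EL := (EL.cons 0 (TM.mk (P.cons (P.lf 8359606057 0 0) (P.cons (P.lf 0 190686074 0) (P.cons (P.lf 0 92290364 0) (P.cons (P.lf 3016066 0 0) (P.cons (P.lf 708651 0 0) (P.cons (P.lf 0 26673 0) P.nil)))))) 4788)
 (EL.cons 1 (TM.mk (P.cons (P.lf 450679505 0 0) (P.cons (P.lf 439849933 0 0) (P.cons (P.lf 0 16100088 0) (P.cons (P.lf 0 5127871 0) (P.cons (P.lf 176304 0 0) (P.cons (P.lf 32482 0 0) P.nil)))))) 1651)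
 (EL.cons 5 (TM.mk (P.cons (P.lf 4329140030 0 0) (P.cons (P.lf 67799490 0 0) (P.cons (P.lf 32814348 0 0) (P.cons (P.lf 0 1072376 0) (P.cons (P.lf 0 251962 0) (P.cons (P.lf 9484 0 0) P.nil)))))) 1837)
 (EL.cons 9 (TM.mk (P.lf 6442450944 0 0) 2)
 EL.nil))))
noncomputable def S256_285_586_660_1 : EL := (EL.cons 0 (TM.mk (P.cons (P.cons (P.lf 0 3581739012 0) (P.cons (P.lf 0 733680897 0) (P.cons (P.lf 40144068 0 0) (P.lf 4460455 0 0)))) (P.cons (P.cons (P.lf 0 612289100 0) (P.cons (P.lf 104640706 0 0) (P.cons (P.lf 0 5725514 0) (P.lf 0 636163 0)))) (P.cons (P.cons (P.lf 417184121 0 0) (P.cons (P.lf 47025430 0 0) (P.cons (P.lf 0 2573034 0) (P.lf 0 285887 0)))) (P.cons (P.cons (P.lf 56312810 0 0) (P.cons (P.lf 0 5133681 0) (P.cons (P.lf 280879 0 0) P.nil))) (P.cons (P.cons (P.lf 0 13334994 0) (P.cons (P.lf 0 1085498 0) P.nil)) (P.cons (P.cons (P.lf 0 1178556 0) P.nil) P.nil))))))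 534225)
 (EL.cons 1 (TM.mk (P.cons (P.cons (P.lf 674911270 0 0) (P.cons (P.lf 0 101423545 0) (P.cons (P.lf 5549486 0 0) (P.lf 616603 0 0)))) (P.cons (P.cons (P.lf 0 681845491 0) (P.cons (P.lf 0 92102236 0) (P.cons (P.lf 5039460 0 0) (P.lf 559938 0 0)))) (P.cons (P.cons (P.lf 0 111628997 0) (P.cons (P.lf 13602577 0 0) (P.cons (P.lf 0 744270 0) (P.lf 0 82691 0)))) (P.cons (P.cons (P.lf 42642098 0 0) (P.cons (P.lf 3911953 0 0) (P.cons (P.lf 0 214041 0) P.nil))) (P.cons (P.cons (P.lf 4529361 0 0) (P.cons (P.lf 0 449256 0) P.nil)) (P.cons (P.cons (P.lf 0 1032922 0) P.nil) P.nil)))))) 316739)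
 (EL.cons 5 (TM.mk (P.cons (P.cons (P.lf 0 1533689414 0) (P.cons (P.lf 0 402838898 0) (P.cons (P.lf 22041728 0 0) (P.lf 2449078 0 0)))) (P.cons (P.cons (P.lf 0 230396736 0) (P.cons (P.lf 0 5266072 0) (P.cons (P.lf 288130 0 0) (P.lf 32012 0 0)))) (P.cons (P.cons (P.lf 0 33020506 0) (P.cons (P.lf 0 1517884 0) (P.cons (P.lf 83048 0 0) (P.lf 9222 0 0)))) (P.cons (P.cons (P.lf 0 2570996 0) (P.cons (P.lf 1070780 0 0) (P.cons (P.lf 0 58586 0) P.nil))) (P.cons (P.cons (P.lf 2986836 0 0) (P.cons (P.lf 213348 0 0) P.nil)) (P.cons (P.cons (P.lf 240365 0 0) P.nil) P.nil)))))) 252043)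
 (EL.cons 9 (TM.mk (P.cons (P.cons (P.lf 0 2476938180 0) (P.cons (P.lf 0 585620484 0) (P.cons (P.lf 32042796 0 0) (P.lf 3560310 0 0)))) (P.cons (P.cons (P.lf 0 395381932 0) (P.cons (P.lf 28181916 0 0) (P.cons (P.lf 0 1542000 0) (P.lf 0 171330 0)))) (P.cons (P.cons (P.lf 101745534 0 0) (P.cons (P.lf 13413762 0 0) (P.cons (P.lf 0 733944 0) (P.lf 0 81546 0)))) (P.cons (P.cons (P.lf 15398238 0 0) (P.cons (P.lf 0 665754 0) (P.cons (P.lf 36420 0 0) P.nil))) (P.cons (P.cons (P.lf 0 1548066 0) (P.cons (P.lf 0 152298 0) P.nil)) (P.cons (P.cons (P.lf 0 157648 0) P.nil) P.nil)))))) 43361)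
 (EL.cons 2 (TM.mk (P.cons (P.cons (P.lf 0 281261123 0) (P.cons (P.lf 35291511 0 0) (P.cons (P.lf 5388100 0 0) (P.cons (P.lf 0 164604 0) (P.lf 0 13716 0))))) (P.cons (P.cons (P.lf 0 269990853 0) (P.cons (P.lf 33877364 0 0) (P.cons (P.lf 5172195 0 0) (P.cons (P.lf 0 158009 0) (P.lf 0 13165 0))))) (P.cons (P.cons (P.lf 16670913 0 0) (P.cons (P.lf 0 2091796 0) (P.cons (P.lf 0 319362 0) (P.cons (P.lf 9753 0 0) P.nil)))) (P.cons (P.cons (P.lf 5169763 0 0) (P.cons (P.lf 0 648680 0) (P.cons (P.lf 0 99036 0) P.nil))) (P.cons (P.cons (P.lf 0 284138 0) (P.cons (P.lf 35651 0 0) P.nil)) (P.cons (P.cons (P.lf 0 50647 0) P.nil) P.nil)))))) 22647)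
 (EL.cons 6 (TM.mk (P.cons (P.cons (P.lf 1318880040 0 0) (P.cons (P.lf 0 165487752 0) (P.cons (P.lf 0 25265697 0) (P.cons (P.lf 771861 0 0) (P.lf 64320 0 0))))) (P.cons (P.cons (P.lf 0 63468696 0) (P.cons (P.lf 7963794 0 0) (P.cons (P.lf 1215864 0 0) (P.cons (P.lf 0 37143 0) (P.lf 0 3093 0))))) (P.cons (P.cons (P.lf 0 30209229 0) (P.cons (P.lf 3790530 0 0) (P.cons (P.lf 578715 0 0) (P.cons (P.lf 0 17679 0) P.nil)))) (P.cons (P.cons (P.lf 1499352 0 0) (P.cons (P.lf 0 188130 0) (P.cons (P.lf 0 28722 0) P.nil))) (P.cons (P.cons (P.lf 342993 0 0) (P.cons (P.lf 0 43035 0) P.nil)) (P.cons (P.cons (P.lf 0 18606 0) P.nil) P.nil)))))) 16824)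
 EL.nil))))))
noncomputable def S256_285_586_660_2 : EL := (EL.cons 0 (TM.mk (P.cons (P.cons (P.lf 1518450023 0 0) (P.cons (P.lf 631008427 0 0) (P.cons (P.lf 29783097 0 0) (P.cons (P.lf 0 10873752 0) (P.cons (P.lf 0 589422 0) (P.cons (P.lf 42793 0 0) P.nil)))))) (P.cons (P.cons (P.lf 544135841 0 0) (P.cons (P.lf 37746121 0 0) (P.cons (P.lf 0 19284130 0) (P.cons (P.lf 1654789 0 0) (P.cons (P.lf 157810 0 0) P.nil))))) (P.cons (P.cons (P.lf 0 266096266 0) (P.cons (P.lf 0 118482726 0) (P.cons (P.lf 0 590769 0) (P.cons (P.lf 1494388 0 0) P.nil)))) (P.cons (P.cons (P.lf 0 97088251 0) (P.cons (P.lf 0 6920914 0) (P.cons (P.lf 1834615 0 0) P.nil))) (P.cons (P.cons (P.lf 12395932 0 0) (P.cons (P.lf 6779872 0 0) P.nil)) (P.cons (P.cons (P.lf 5424636 0 0) P.nil) P.nil)))))) 4157003)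
 (EL.cons 1 (TM.mk (P.cons (P.cons (P.lf 0 585586831 0) (P.cons (P.lf 0 76211509 0) (P.cons (P.lf 18884937 0 0) (P.cons (P.lf 0 1146945 0) (P.cons (P.lf 0 134865 0) (P.cons (P.lf 9784 0 0) P.nil)))))) (P.cons (P.cons (P.lf 355173851 0 0) (P.cons (P.lf 178878207 0 0) (P.cons (P.lf 2793394 0 0) (P.cons (P.lf 0 2464243 0) (P.cons (P.lf 0 115303 0) P.nil))))) (P.cons (P.cons (P.lf 176244052 0 0) (P.cons (P.lf 14735832 0 0) (P.cons (P.lf 0 3862560 0) (P.cons (P.lf 244857 0 0) P.nil)))) (P.cons (P.cons (P.lf 0 30493682 0) (P.cons (P.lf 0 16879356 0) (P.cons (P.lf 139775 0 0) P.nil))) (P.cons (P.cons (P.lf 0 14147858 0) (P.cons (P.lf 0 820641 0) P.nil)) (P.cons (P.cons (P.lf 1111621 0 0) P.nil) P.nil)))))) 2292716)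
 (EL.cons 5 (TM.mk (P.cons (P.cons (P.lf 539393499 0 0) (P.cons (P.lf 285991284 0 0) (P.cons (P.lf 21816944 0 0) (P.cons (P.lf 0 5838593 0) (P.cons (P.lf 0 343368 0) (P.cons (P.lf 24915 0 0) P.nil)))))) (P.cons (P.cons (P.lf 151092394 0 0) (P.cons (P.lf 43484227 0 0) (P.cons (P.lf 0 2063663 0) (P.cons (P.lf 0 298897 0) (P.cons (P.lf 0 2882 0) P.nil))))) (P.cons (P.cons (P.lf 33444425 0 0) (P.cons (P.lf 5553461 0 0) (P.cons (P.lf 0 412848 0) (P.cons (P.lf 0 21830 0) P.nil)))) (P.cons (P.cons (P.lf 6947524 0 0) (P.cons (P.lf 0 988840 0) (P.cons (P.lf 0 193379 0) P.nil))) (P.cons (P.cons (P.lf 0 3379240 0) (P.cons (P.lf 0 1233458 0) P.nil)) (P.cons (P.cons (P.lf 0 1024790 0) P.nil) P.nil)))))) 1943314)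
 (EL.cons 9 (TM.mk (P.cons (P.cons (P.lf 952311907 0 0) (P.cons (P.lf 450308662 0 0) (P.cons (P.lf 28593978 0 0) (P.cons (P.lf 0 8563071 0) (P.cons (P.lf 0 487894 0) (P.cons (P.lf 35415 0 0) P.nil)))))) (P.cons (P.cons (P.lf 304026094 0 0) (P.cons (P.lf 50210361 0 0) (P.cons (P.lf 0 7870795 0) (P.cons (P.lf 255412 0 0) (P.cons (P.lf 46957 0 0) P.nil))))) (P.cons (P.cons (P.lf 0 53971372 0) (P.cons (P.lf 0 32270931 0) (P.cons (P.lf 0 549616 0) (P.cons (P.lf 449562 0 0) P.nil)))) (P.cons (P.cons (P.lf 0 24328885 0) (P.cons (P.lf 0 3043768 0) (P.cons (P.lf 404937 0 0) P.nil))) (P.cons (P.cons (P.lf 907218 0 0) (P.cons (P.lf 1038666 0 0) P.nil)) (P.cons (P.cons (P.lf 797604 0 0) P.nil) P.nil)))))) 575762)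
 (EL.cons 2 (TM.mk (P.cons (P.cons (P.lf 216273718 0 0) (P.cons (P.lf 23996261 0 0) (P.cons (P.lf 0 13356967 0) (P.cons (P.lf 0 812795 0) (P.cons (P.lf 133076 0 0) (P.cons (P.lf 6806 0 0) P.nil)))))) (P.cons (P.cons (P.lf 242130273 0 0) (P.cons (P.lf 16242243 0 0) (P.cons (P.lf 0 13039700 0) (P.cons (P.lf 0 714813 0) (P.cons (P.lf 123530 0 0) P.nil))))) (P.cons (P.cons (P.lf 11436519 0 0) (P.cons (P.lf 0 7999110 0) (P.cons (P.lf 963708 0 0) (P.cons (P.lf 127276 0 0) P.nil)))) (P.cons (P.cons (P.lf 0 15893904 0) (P.cons (P.lf 134128 0 0) (P.cons (P.lf 639663 0 0) P.nil))) (P.cons (P.cons (P.lf 0 1044945 0) (P.cons (P.lf 366519 0 0) P.nil)) (P.cons (P.cons (P.lf 460321 0 0) P.nil) P.nil)))))) 423314)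
 (EL.cons 6 (TM.mk (P.cons (P.cons (P.lf 0 1014143328 0) (P.cons (P.lf 0 112522458 0) (P.cons (P.lf 62633052 0 0) (P.cons (P.lf 3811338 0 0) (P.cons (P.lf 0 624012 0) (P.cons (P.lf 0 31938 0) P.nil)))))) (P.cons (P.cons (P.lf 0 113079102 0) (P.cons (P.lf 37265994 0 0) (P.cons (P.lf 0 1992084 0) (P.cons (P.lf 0 490122 0) (P.cons (P.lf 49776 0 0) P.nil))))) (P.cons (P.cons (P.lf 72677592 0 0) (P.cons (P.lf 1309536 0 0) (P.cons (P.lf 0 3271464 0) (P.cons (P.lf 0 149052 0) P.nil)))) (P.cons (P.cons (P.lf 6854886 0 0) (P.cons (P.lf 0 1933872 0) (P.cons (P.lf 62154 0 0) P.nil))) (P.cons (P.cons (P.lf 0 2339184 0) (P.cons (P.lf 69234 0 0) P.nil)) (P.cons (P.cons (P.lf 0 158880 0) P.nil) P.nil)))))) 312984)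
 EL.nil))))))
noncomputable def S256_285_586_660_3 : EL := (EL.cons 0 (TM.mk (P.cons (P.lf 96110806 0 0) (P.cons (P.lf 190686074 0 0) (P.cons (P.lf 92290364 0 0) (P.cons (P.lf 0 3016066 0) (P.cons (P.lf 0 708651 0) (P.cons (P.lf 26673 0 0) P.nil)))))) 4788)
 (EL.cons 1 (TM.mk (P.cons (P.lf 0 450679505 0) (P.cons (P.lf 0 439849933 0) (P.cons (P.lf 16100088 0 0) (P.cons (P.lf 5127871 0 0) (P.cons (P.lf 0 176304 0) (P.cons (P.lf 0 32482 0) P.nil)))))) 1651)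
 (EL.cons 5 (TM.mk (P.cons (P.lf 2113310914 0 0) (P.cons (P.lf 0 67799490 0) (P.cons (P.lf 0 32814348 0) (P.cons (P.lf 1072376 0 0) (P.cons (P.lf 251962 0 0) (P.cons (P.lf 0 9484 0) P.nil)))))) 1830)
 EL.nil)))
noncomputable def S256_285_586_660_4 : EL := (EL.cons 0 (TM.mk (P.cons (P.cons (P.lf 0 36951855 0) (P.cons (P.lf 0 8736496 0) (P.cons (P.lf 478024 0 0) (P.lf 53112 0 0)))) (P.cons (P.cons (P.lf 0 79211793 0) (P.cons (P.lf 0 16912984 0) (P.cons (P.lf 925409 0 0) (P.lf 102823 0 0)))) (P.cons (P.cons (P.lf 0 45667791 0) (P.cons (P.lf 0 7354966 0) (P.cons (P.lf 402433 0 0) (P.lf 44713 0 0)))) (P.cons (P.cons (P.lf 0 1263172 0) (P.cons (P.lf 1064968 0 0) (P.cons (P.lf 0 58269 0) P.nil))) (P.cons (P.cons (P.lf 2347764 0 0) (P.cons (P.lf 221401 0 0) P.nil)) (P.cons (P.cons (P.lf 158015 0 0) P.nil) P.nil)))))) 113181)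
 (EL.cons 1 (TM.mk (P.cons (P.cons (P.lf 173273383 0 0) (P.cons (P.lf 40966884 0 0) (P.cons (P.lf 0 2241541 0) (P.lf 0 249058 0)))) (P.cons (P.cons (P.lf 196768533 0 0) (P.cons (P.lf 38011016 0 0) (P.cons (P.lf 0 2079808 0) (P.lf 0 231090 0)))) (P.cons (P.cons (P.lf 13686585 0 0) (P.cons (P.lf 0 4325940 0) (P.cons (P.lf 236696 0 0) (P.lf 26298 0 0)))) (P.cons (P.cons (P.lf 0 10983324 0) (P.cons (P.lf 0 1264929 0) (P.cons (P.lf 69211 0 0) P.nil))) (P.cons (P.cons (P.lf 0 935651 0) (P.cons (P.lf 128085 0 0) P.nil)) (P.cons (P.cons (P.lf 259494 0 0) P.nil) P.nil)))))) 84180)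
 (EL.cons 5 (TM.mk (P.cons (P.cons (P.lf 0 812507620 0) (P.cons (P.lf 0 192100516 0) (P.cons (P.lf 10510966 0 0) (P.lf 1167884 0 0)))) (P.cons (P.cons (P.lf 0 103629784 0) (P.cons (P.lf 15407476 0 0) (P.cons (P.lf 0 843034 0) (P.lf 0 93668 0)))) (P.cons (P.cons (P.lf 50152612 0 0) (P.cons (P.lf 7086352 0 0) (P.cons (P.lf 0 387734 0) (P.lf 0 43080 0)))) (P.cons (P.cons (P.lf 5581874 0 0) (P.cons (P.lf 0 600572 0) (P.cons (P.lf 32858 0 0) P.nil))) (P.cons (P.cons (P.lf 0 1350780 0) (P.cons (P.lf 0 129486 0) P.nil)) (P.cons (P.cons (P.lf 0 108730 0) P.nil) P.nil)))))) 54176)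
 EL.nil)))
noncomputable def S256_285_586_660_5 : EL := (EL.cons 0 (TM.mk (P.cons (P.cons (P.lf 14206932 0 0) (P.cons (P.lf 6717865 0 0) (P.cons (P.lf 426573 0 0) (P.cons (P.lf 0 127745 0) (P.cons (P.lf 0 7277 0) (P.cons (P.lf 527 0 0) P.nil)))))) (P.cons (P.cons (P.lf 32722454 0 0) (P.cons (P.lf 14077458 0 0) (P.cons (P.lf 728915 0 0) (P.cons (P.lf 0 249641 0) (P.cons (P.lf 0 13739 0) P.nil))))) (P.cons (P.cons (P.lf 21835713 0 0) (P.cons (P.lf 7455543 0 0) (P.cons (P.lf 168456 0 0) (P.cons (P.lf 0 108400 0) P.nil)))) (P.cons (P.cons (P.lf 1949037 0 0) (P.cons (P.lf 0 492108 0) (P.cons (P.lf 0 136364 0) P.nil))) (P.cons (P.cons (P.lf 0 1726802 0) (P.cons (P.lf 0 609925 0) P.nil)) (P.cons (P.cons (P.lf 0 313999 0) P.nil) P.nil)))))) 298099)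
 (EL.cons 1 (TM.mk (P.cons (P.cons (P.lf 0 66618660 0) (P.cons (P.lf 0 31501190 0) (P.cons (P.lf 0 2000280 0) (P.cons (P.lf 599025 0 0) (P.cons (P.lf 34128 0 0) (P.cons (P.lf 0 2475 0) P.nil)))))) (P.cons (P.cons (P.lf 0 86285895 0) (P.cons (P.lf 0 34256685 0) (P.cons (P.lf 0 1401616 0) (P.cons (P.lf 566763 0 0) (P.cons (P.lf 30024 0 0) P.nil))))) (P.cons (P.cons (P.lf 0 14601547 0) (P.cons (P.lf 0 45193 0) (P.cons (P.lf 647274 0 0) (P.cons (P.lf 0 70286 0) P.nil)))) (P.cons (P.cons (P.lf 6904515 0 0) (P.cons (P.lf 2900081 0 0) (P.cons (P.lf 12285 0 0) P.nil))) (P.cons (P.cons (P.lf 1678608 0 0) (P.cons (P.lf 82143 0 0) P.nil)) (P.cons (P.cons (P.lf 0 234613 0) P.nil) P.nil)))))) 368140)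
 (EL.cons 5 (TM.mk (P.cons (P.cons (P.lf 312385948 0 0) (P.cons (P.lf 147714310 0 0) (P.cons (P.lf 9379654 0 0) (P.cons (P.lf 0 2808934 0) (P.cons (P.lf 0 160042 0) (P.cons (P.lf 11616 0 0) P.nil)))))) (P.cons (P.cons (P.lf 89707380 0 0) (P.cons (P.lf 11731466 0 0) (P.cons (P.lf 0 2882768 0) (P.cons (P.lf 173898 0 0) (P.cons (P.lf 20536 0 0) P.nil))))) (P.cons (P.cons (P.lf 0 25754266 0) (P.cons (P.lf 0 13407836 0) (P.cons (P.lf 0 243100 0) (P.cons (P.lf 188396 0 0) P.nil)))) (P.cons (P.cons (P.lf 0 8802618 0) (P.cons (P.lf 0 839616 0) (P.cons (P.lf 183464 0 0) P.nil))) (P.cons (P.cons (P.lf 916378 0 0) (P.cons (P.lf 563084 0 0) P.nil)) (P.cons (P.cons (P.lf 377510 0 0) P.nil) P.nil)))))) 289520)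
 EL.nil)))
noncomputable def S256_285_586_660_6 : EL := (EL.cons 12 (TM.mk (P.lf 8589934592 0 0) 0)
 (EL.cons 3 (TM.mk (P.cons (P.lf 454308690 0 0) (P.cons (P.lf 450679503 0 0) (P.cons (P.lf 0 5414782 0) (P.cons (P.lf 0 1756837 0) (P.cons (P.lf 35658 0 0) (P.cons (P.lf 6731 0 0) P.nil)))))) 269)
 (EL.cons 7 (TM.mk (P.cons (P.lf 0 2130328762 0) (P.cons (P.lf 34172730 0 0) (P.cons (P.lf 16813380 0 0) (P.cons (P.lf 0 270802 0) (P.cons (P.lf 0 64991 0) (P.cons (P.lf 1601 0 0) P.nil)))))) 330)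
 EL.nil)))
noncomputable def S256_285_586_660_7 : EL := (EL.cons 12 (TM.mk (P.cons (P.cons (P.lf 0 3302584240 0) (P.cons (P.lf 0 780827312 0) (P.cons (P.lf 42723728 0 0) (P.lf 4747080 0 0)))) (P.cons (P.cons (P.lf 0 527175910 0) (P.cons (P.lf 37575888 0 0) (P.cons (P.lf 0 2056000 0) (P.lf 0 228440 0)))) (P.cons (P.cons (P.lf 135660712 0 0) (P.cons (P.lf 17885016 0 0) (P.cons (P.lf 0 978592 0) (P.lf 0 108728 0)))) (P.cons (P.cons (P.lf 20530984 0 0) (P.cons (P.lf 0 887672 0) (P.cons (P.lf 48560 0 0) P.nil))) (P.cons (P.cons (P.lf 0 2064088 0) (P.cons (P.lf 0 203064 0) P.nil)) (P.cons (P.cons (P.lf 0 210198 0) P.nil) P.nil)))))) 57790)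
 (EL.cons 3 (TM.mk (P.cons (P.cons (P.lf 0 1912804407 0) (P.cons (P.lf 82593556 0 0) (P.cons (P.lf 0 4519186 0) (P.lf 0 502130 0)))) (P.cons (P.cons (P.lf 707407559 0 0) (P.cons (P.lf 77959106 0 0) (P.cons (P.lf 0 4265608 0) (P.lf 0 473956 0)))) (P.cons (P.cons (P.lf 184468761 0 0) (P.cons (P.lf 0 6819146 0) (P.cons (P.lf 373114 0 0) (P.lf 41456 0 0)))) (P.cons (P.cons (P.lf 0 23248090 0) (P.cons (P.lf 0 2054834 0) (P.cons (P.lf 112432 0 0) P.nil))) (P.cons (P.cons (P.lf 0 3087051 0) (P.cons (P.lf 159024 0 0) P.nil)) (P.cons (P.cons (P.lf 372428 0 0) P.nil) P.nil)))))) 214976)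
 (EL.cons 7 (TM.mk (P.cons (P.cons (P.lf 687256527 0 0) (P.cons (P.lf 203041419 0 0) (P.cons (P.lf 0 11109613 0) (P.lf 0 1234403 0)))) (P.cons (P.cons (P.lf 53639115 0 0) (P.cons (P.lf 5911241 0 0) (P.cons (P.lf 0 323438 0) (P.lf 0 35936 0)))) (P.cons (P.cons (P.lf 41022845 0 0) (P.cons (P.lf 2462360 0 0) (P.cons (P.lf 0 134729 0) (P.lf 0 14969 0)))) (P.cons (P.cons (P.lf 7854317 0 0) (P.cons (P.lf 0 479361 0) (P.cons (P.lf 26225 0 0) P.nil))) (P.cons (P.cons (P.lf 0 1426132 0) (P.cons (P.lf 0 102735 0) P.nil)) (P.cons (P.cons (P.lf 0 149231 0) P.nil) P.nil)))))) 133779)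
 (EL.cons 10 (TM.mk (P.cons (P.cons (P.lf 0 2659001160 0) (P.cons (P.lf 333640752 0 0) (P.cons (P.lf 50938311 0 0) (P.cons (P.lf 0 1556157 0) (P.lf 0 129678 0))))) (P.cons (P.cons (P.lf 85306386 0 0) (P.cons (P.lf 0 10703901 0) (P.cons (P.lf 0 1634208 0) (P.cons (P.lf 49923 0 0) (P.lf 4158 0 0))))) (P.cons (P.cons (P.lf 41287530 0 0) (P.cons (P.lf 0 5180592 0) (P.cons (P.lf 0 790941 0) (P.cons (P.lf 24162 0 0) P.nil)))) (P.cons (P.cons (P.lf 0 1349280 0) (P.cons (P.lf 169302 0 0) (P.cons (P.lf 25848 0 0) P.nil))) (P.cons (P.cons (P.lf 0 317022 0) (P.cons (P.lf 39777 0 0) P.nil)) (P.cons (P.cons (P.lf 11931 0 0) P.nil) P.nil)))))) 13623)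
 EL.nil))))
noncomputable def S256_285_586_660_8 : EL := (EL.cons 12 (TM.mk (P.cons (P.cons (P.lf 1269749210 0 0) (P.cons (P.lf 600411550 0 0) (P.cons (P.lf 38125304 0 0) (P.cons (P.lf 0 11417428 0) (P.cons (P.lf 0 650526 0) (P.cons (P.lf 47220 0 0) P.nil)))))) (P.cons (P.cons (P.lf 405368126 0 0) (P.cons (P.lf 66947148 0 0) (P.cons (P.lf 0 10494394 0) (P.cons (P.lf 340550 0 0) (P.cons (P.lf 62610 0 0) P.nil))))) (P.cons (P.cons (P.lf 0 71961830 0) (P.cons (P.lf 0 43027908 0) (P.cons (P.lf 0 732822 0) (P.cons (P.lf 599416 0 0) P.nil)))) (P.cons (P.cons (P.lf 0 32438514 0) (P.cons (P.lf 0 4058358 0) (P.cons (P.lf 539916 0 0) P.nil))) (P.cons (P.cons (P.lf 1209624 0 0) (P.cons (P.lf 1384888 0 0) P.nil)) (P.cons (P.cons (P.lf 1063472 0 0) P.nil) P.nil)))))) 767654)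
 (EL.cons 3 (TM.mk (P.cons (P.cons (P.lf 1403682078 0 0) (P.cons (P.lf 252484259 0 0) (P.cons (P.lf 0 32584363 0) (P.cons (P.lf 518978 0 0) (P.cons (P.lf 172025 0 0) (P.cons (P.lf 0 12486 0) P.nil)))))) (P.cons (P.cons (P.lf 0 397231139 0) (P.cons (P.lf 0 250467619 0) (P.cons (P.lf 0 3108433 0) (P.cons (P.lf 3362606 0 0) (P.cons (P.lf 154096 0 0) P.nil))))) (P.cons (P.cons (P.lf 0 305754518 0) (P.cons (P.lf 0 37887671 0) (P.cons (P.lf 4905195 0 0) (P.cons (P.lf 0 79584 0) P.nil)))) (P.cons (P.cons (P.lf 14441138 0 0) (P.cons (P.lf 17092924 0 0) (P.cons (P.lf 0 158404 0) P.nil))) (P.cons (P.cons (P.lf 17024979 0 0) (P.cons (P.lf 1441499 0 0) P.nil)) (P.cons (P.cons (P.lf 0 163874 0) P.nil) P.nil)))))) 2500916)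
 (EL.cons 7 (TM.mk (P.cons (P.cons (P.lf 0 213559475 0) (P.cons (P.lf 0 132167032 0) (P.cons (P.lf 0 12078776 0) (P.cons (P.lf 2916695 0 0) (P.cons (P.lf 176980 0 0) (P.cons (P.lf 0 12844 0) P.nil)))))) (P.cons (P.cons (P.lf 0 30120018 0) (P.cons (P.lf 0 18991682 0) (P.cons (P.lf 0 235693 0) (P.cons (P.lf 254968 0 0) (P.cons (P.lf 11681 0 0) P.nil))))) (P.cons (P.cons (P.lf 0 38365077 0) (P.cons (P.lf 0 12445134 0) (P.cons (P.lf 253136 0 0) (P.cons (P.lf 122473 0 0) P.nil)))) (P.cons (P.cons (P.lf 0 14607254 0) (P.cons (P.lf 0 711449 0) (P.cons (P.lf 236991 0 0) P.nil))) (P.cons (P.cons (P.lf 1946701 0 0) (P.cons (P.lf 1051998 0 0) P.nil)) (P.cons (P.cons (P.lf 997554 0 0) P.nil) P.nil)))))) 1167644)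
 (EL.cons 10 (TM.mk (P.cons (P.cons (P.lf 2044619832 0 0) (P.cons (P.lf 226857144 0 0) (P.cons (P.lf 0 126274842 0) (P.cons (P.lf 0 7684062 0) (P.cons (P.lf 1258086 0 0) (P.cons (P.lf 64392 0 0) P.nil)))))) (P.cons (P.cons (P.lf 260777262 0 0) (P.cons (P.lf 0 71493144 0) (P.cons (P.lf 1990680 0 0) (P.cons (P.lf 864888 0 0) (P.cons (P.lf 0 80184 0) P.nil))))) (P.cons (P.cons (P.lf 0 126205614 0) (P.cons (P.lf 0 1996548 0) (P.cons (P.lf 5630946 0 0) (P.cons (P.lf 253734 0 0) P.nil)))) (P.cons (P.cons (P.lf 0 14046408 0) (P.cons (P.lf 3273786 0 0) (P.cons (P.lf 0 3228 0) P.nil))) (P.cons (P.cons (P.lf 3399144 0 0) (P.cons (P.lf 0 100662 0) P.nil)) (P.cons (P.cons (P.lf 273618 0 0) P.nil) P.nil)))))) 469578)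
 EL.nil))))
noncomputable def S256_285_586_660_9 : EL := (EL.cons 3 (TM.mk (P.cons (P.lf 454308690 0 0) (P.cons (P.lf 450679503 0 0) (P.cons (P.lf 0 5414782 0) (P.cons (P.lf 0 1756837 0) (P.cons (P.lf 35658 0 0) (P.cons (P.lf 6731 0 0) P.nil)))))) 269)
 (EL.cons 7 (TM.mk (P.cons (P.lf 0 2130328762 0) (P.cons (P.lf 34172730 0 0) (P.cons (P.lf 16813380 0 0) (P.cons (P.lf 0 270802 0) (P.cons (P.lf 0 64991 0) (P.cons (P.lf 1601 0 0) P.nil)))))) 330)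
 EL.nil))
noncomputable def S256_285_586_660_10 : EL := (EL.cons 3 (TM.mk (P.cons (P.cons (P.lf 0 174668700 0) (P.cons (P.lf 0 41296778 0) (P.cons (P.lf 2259593 0 0) (P.lf 251065 0 0)))) (P.cons (P.cons (P.lf 0 201154921 0) (P.cons (P.lf 0 38979553 0) (P.cons (P.lf 2132804 0 0) (P.lf 236978 0 0)))) (P.cons (P.cons (P.lf 0 18402090 0) (P.cons (P.lf 3409573 0 0) (P.cons (P.lf 0 186557 0) (P.lf 0 20728 0)))) (P.cons (P.cons (P.lf 9211193 0 0) (P.cons (P.lf 1027417 0 0) (P.cons (P.lf 0 56216 0) P.nil))) (P.cons (P.cons (P.lf 976605 0 0) (P.cons (P.lf 0 79512 0) P.nil)) (P.cons (P.cons (P.lf 0 164875 0) P.nil) P.nil)))))) 51790)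
 (EL.cons 7 (TM.mk (P.cons (P.cons (P.lf 819050496 0 0) (P.cons (P.lf 193647444 0 0) (P.cons (P.lf 0 10595608 0) (P.lf 0 1177289 0)))) (P.cons (P.cons (P.lf 117602721 0 0) (P.cons (P.lf 0 12425239 0) (P.cons (P.lf 679858 0 0) (P.lf 75538 0 0)))) (P.cons (P.cons (P.lf 0 42205741 0) (P.cons (P.lf 0 5814391 0) (P.cons (P.lf 318139 0 0) (P.lf 35347 0 0)))) (P.cons (P.cons (P.lf 0 5479798 0) (P.cons (P.lf 389460 0 0) (P.cons (P.lf 0 21307 0) P.nil))) (P.cons (P.cons (P.lf 900716 0 0) (P.cons (P.lf 86559 0 0) P.nil)) (P.cons (P.cons (P.lf 83200 0 0) P.nil) P.nil)))))) 30290)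
 EL.nil))
noncomputable def S256_285_586_660_11 : EL := (EL.cons 3 (TM.mk (P.cons (P.cons (P.lf 67155120 0 0) (P.cons (P.lf 31754861 0 0) (P.cons (P.lf 2016389 0 0) (P.cons (P.lf 0 603850 0) (P.cons (P.lf 0 34405 0) (P.cons (P.lf 2496 0 0) P.nil)))))) (P.cons (P.cons (P.lf 88057969 0 0) (P.cons (P.lf 35041925 0 0) (P.cons (P.lf 1445249 0 0) (P.cons (P.lf 0 581014 0) (P.cons (P.lf 0 30818 0) P.nil))))) (P.cons (P.cons (P.lf 16661686 0 0) (P.cons (P.lf 858289 0 0) (P.cons (P.lf 0 613389 0) (P.cons (P.lf 56766 0 0) P.nil)))) (P.cons (P.cons (P.lf 0 6006394 0) (P.cons (P.lf 0 2637140 0) (P.cons (P.lf 0 11074 0) P.nil))) (P.cons (P.cons (P.lf 0 1670217 0) (P.cons (P.lf 0 123757 0) P.nil)) (P.cons (P.cons (P.lf 157552 0 0) P.nil) P.nil)))))) 306670)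
 (EL.cons 7 (TM.mk (P.cons (P.cons (P.lf 0 314901497 0) (P.cons (P.lf 0 148903810 0) (P.cons (P.lf 0 9455186 0) (P.cons (P.lf 2831555 0 0) (P.cons (P.lf 161332 0 0) (P.cons (P.lf 0 11710 0) P.nil)))))) (P.cons (P.cons (P.lf 0 95481120 0) (P.cons (P.lf 0 14214512 0) (P.cons (P.lf 2754311 0 0) (P.cons (P.lf 0 129878 0) (P.cons (P.lf 0 18115 0) P.nil))))) (P.cons (P.cons (P.lf 21944715 0 0) (P.cons (P.lf 12112584 0 0) (P.cons (P.lf 214616 0 0) (P.cons (P.lf 0 169649 0) P.nil)))) (P.cons (P.cons (P.lf 8511976 0 0) (P.cons (P.lf 947419 0 0) (P.cons (P.lf 0 158559 0) P.nil))) (P.cons (P.cons (P.lf 0 592277 0) (P.cons (P.lf 0 450474 0) P.nil)) (P.cons (P.cons (P.lf 0 322986 0) P.nil) P.nil)))))) 236524)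
 EL.nil))
noncomputable def S256_285_586_660_12 : EL := (EL.cons 4 (TM.mk (P.cons (P.lf 0 454308690 0) (P.cons (P.lf 0 450679503 0) (P.cons (P.lf 5414782 0 0) (P.cons (P.lf 1756837 0 0) (P.cons (P.lf 0 35658 0) (P.cons (P.lf 0 6731 0) P.nil)))))) 269)
 (EL.cons 8 (TM.mk (P.cons (P.lf 2130328762 0 0) (P.cons (P.lf 0 34172730 0) (P.cons (P.lf 0 16813380 0) (P.cons (P.lf 270802 0 0) (P.cons (P.lf 64991 0 0) (P.cons (P.lf 0 1601 0) P.nil)))))) 330)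
 EL.nil))
noncomputable def S256_285_586_660_13 : EL := (EL.cons 4 (TM.mk (P.cons (P.cons (P.lf 174668700 0 0) (P.cons (P.lf 41296778 0 0) (P.cons (P.lf 0 2259593 0) (P.lf 0 251065 0)))) (P.cons (P.cons (P.lf 201154921 0 0) (P.cons (P.lf 38979553 0 0) (P.cons (P.lf 0 2132804 0) (P.lf 0 236978 0)))) (P.cons (P.cons (P.lf 18402090 0 0) (P.cons (P.lf 0 3409573 0) (P.cons (P.lf 186557 0 0) (P.lf 20728 0 0)))) (P.cons (P.cons (P.lf 0 9211193 0) (P.cons (P.lf 0 1027417 0) (P.cons (P.lf 56216 0 0) P.nil))) (P.cons (P.cons (P.lf 0 976605 0) (P.cons (P.lf 79512 0 0) P.nil)) (P.cons (P.cons (P.lf 164875 0 0) P.nil) P.nil)))))) 51790)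
 (EL.cons 8 (TM.mk (P.cons (P.cons (P.lf 0 819050496 0) (P.cons (P.lf 0 193647444 0) (P.cons (P.lf 10595608 0 0) (P.lf 1177289 0 0)))) (P.cons (P.cons (P.lf 0 117602721 0) (P.cons (P.lf 12425239 0 0) (P.cons (P.lf 0 679858 0) (P.lf 0 75538 0)))) (P.cons (P.cons (P.lf 42205741 0 0) (P.cons (P.lf 5814391 0 0) (P.cons (P.lf 0 318139 0) (P.lf 0 35347 0)))) (P.cons (P.cons (P.lf 5479798 0 0) (P.cons (P.lf 0 389460 0) (P.cons (P.lf 21307 0 0) P.nil))) (P.cons (P.cons (P.lf 0 900716 0) (P.cons (P.lf 0 86559 0) P.nil)) (P.cons (P.cons (P.lf 0 83200 0) P.nil) P.nil)))))) 30290)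
 EL.nil))
noncomputable def S256_285_586_660_14 : EL := (EL.cons 4 (TM.mk (P.cons (P.cons (P.lf 0 67155120 0) (P.cons (P.lf 0 31754861 0) (P.cons (P.lf 0 2016389 0) (P.cons (P.lf 603850 0 0) (P.cons (P.lf 34405 0 0) (P.cons (P.lf 0 2496 0) P.nil)))))) (P.cons (P.cons (P.lf 0 88057969 0) (P.cons (P.lf 0 35041925 0) (P.cons (P.lf 0 1445249 0) (P.cons (P.lf 581014 0 0) (P.cons (P.lf 30818 0 0) P.nil))))) (P.cons (P.cons (P.lf 0 16661686 0) (P.cons (P.lf 0 858289 0) (P.cons (P.lf 613389 0 0) (P.cons (P.lf 0 56766 0) P.nil)))) (P.cons (P.cons (P.lf 6006394 0 0) (P.cons (P.lf 2637140 0 0) (P.cons (P.lf 11074 0 0) P.nil))) (P.cons (P.cons (P.lf 1670217 0 0) (P.cons (P.lf 123757 0 0) P.nil)) (P.cons (P.cons (P.lf 0 157552 0) P.nil) P.nil)))))) 306670)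
 (EL.cons 8 (TM.mk (P.cons (P.cons (P.lf 314901497 0 0) (P.cons (P.lf 148903810 0 0) (P.cons (P.lf 9455186 0 0) (P.cons (P.lf 0 2831555 0) (P.cons (P.lf 0 161332 0) (P.cons (P.lf 11710 0 0) P.nil)))))) (P.cons (P.cons (P.lf 95481120 0 0) (P.cons (P.lf 14214512 0 0) (P.cons (P.lf 0 2754311 0) (P.cons (P.lf 129878 0 0) (P.cons (P.lf 18115 0 0) P.nil))))) (P.cons (P.cons (P.lf 0 21944715 0) (P.cons (P.lf 0 12112584 0) (P.cons (P.lf 0 214616 0) (P.cons (P.lf 169649 0 0) P.nil)))) (P.cons (P.cons (P.lf 0 8511976 0) (P.cons (P.lf 0 947419 0) (P.cons (P.lf 158559 0 0) P.nil))) (P.cons (P.cons (P.lf 592277 0 0) (P.cons (P.lf 450474 0 0) P.nil)) (P.cons (P.cons (P.lf 322986 0 0) P.nil) P.nil)))))) 236524)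
 EL.nil))
noncomputable def S256_285_586_660_15 : EL := (EL.cons 4 (TM.mk (P.cons (P.lf 0 51259096 0) (P.cons (P.lf 0 101699239 0) (P.cons (P.lf 0 49221527 0) (P.cons (P.lf 1608569 0 0) (P.cons (P.lf 377947 0 0) (P.cons (P.lf 0 14225 0) P.nil)))))) 2557)
 (EL.cons 8 (TM.mk (P.cons (P.lf 240362403 0 0) (P.cons (P.lf 234586631 0 0) (P.cons (P.lf 0 8586714 0) (P.cons (P.lf 0 2734865 0) (P.cons (P.lf 94029 0 0) (P.cons (P.lf 17324 0 0) P.nil)))))) 877)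
 EL.nil))
noncomputable def S256_285_586_660_16 : EL := (EL.cons 4 (TM.mk (P.cons (P.cons (P.lf 19707656 0 0) (P.cons (P.lf 4659465 0 0) (P.cons (P.lf 0 254946 0) (P.lf 0 28326 0)))) (P.cons (P.cons (P.lf 42246289 0 0) (P.cons (P.lf 9020258 0 0) (P.cons (P.lf 0 493551 0) (P.lf 0 54839 0)))) (P.cons (P.cons (P.lf 24356155 0 0) (P.cons (P.lf 3922649 0 0) (P.cons (P.lf 0 214631 0) (P.lf 0 23847 0)))) (P.cons (P.cons (P.lf 673692 0 0) (P.cons (P.lf 0 567983 0) (P.cons (P.lf 31077 0 0) P.nil))) (P.cons (P.cons (P.lf 0 1252140 0) (P.cons (P.lf 0 118080 0) P.nil)) (P.cons (P.cons (P.lf 0 84274 0) P.nil) P.nil)))))) 60372)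
 (EL.cons 8 (TM.mk (P.cons (P.cons (P.lf 0 92412471 0) (P.cons (P.lf 0 21849005 0) (P.cons (P.lf 1195489 0 0) (P.lf 132831 0 0)))) (P.cons (P.cons (P.lf 0 104943218 0) (P.cons (P.lf 0 20272542 0) (P.cons (P.lf 1109231 0 0) (P.lf 123248 0 0)))) (P.cons (P.cons (P.lf 0 7299512 0) (P.cons (P.lf 2307168 0 0) (P.cons (P.lf 0 126238 0) (P.lf 0 14026 0)))) (P.cons (P.cons (P.lf 5857773 0 0) (P.cons (P.lf 674629 0 0) (P.cons (P.lf 0 36913 0) P.nil))) (P.cons (P.cons (P.lf 499014 0 0) (P.cons (P.lf 0 68312 0) P.nil)) (P.cons (P.cons (P.lf 0 138397 0) P.nil) P.nil)))))) 44886)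
 EL.nil))
noncomputable def S256_285_586_660_17 : EL := (EL.cons 4 (TM.mk (P.cons (P.cons (P.lf 0 7577030 0) (P.cons (P.lf 0 3582861 0) (P.cons (P.lf 0 227505 0) (P.cons (P.lf 68130 0 0) (P.cons (P.lf 3881 0 0) (P.cons (P.lf 0 281 0) P.nil)))))) (P.cons (P.cons (P.lf 0 17451975 0) (P.cons (P.lf 0 7507978 0) (P.cons (P.lf 0 388755 0) (P.cons (P.lf 133141 0 0) (P.cons (P.lf 7327 0 0) P.nil))))) (P.cons (P.cons (P.lf 0 11645714 0) (P.cons (P.lf 0 3976290 0) (P.cons (P.lf 0 89843 0) (P.cons (P.lf 57813 0 0) P.nil)))) (P.cons (P.cons (P.lf 0 1039486 0) (P.cons (P.lf 262457 0 0) (P.cons (P.lf 72727 0 0) P.nil))) (P.cons (P.cons (P.lf 920961 0 0) (P.cons (P.lf 325293 0 0) P.nil)) (P.cons (P.cons (P.lf 167466 0 0) P.nil) P.nil)))))) 158996)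
 (EL.cons 8 (TM.mk (P.cons (P.cons (P.lf 35529952 0 0) (P.cons (P.lf 16800635 0 0) (P.cons (P.lf 1066816 0 0) (P.cons (P.lf 0 319480 0) (P.cons (P.lf 0 18202 0) (P.cons (P.lf 1320 0 0) P.nil)))))) (P.cons (P.cons (P.lf 46019144 0 0) (P.cons (P.lf 18270232 0 0) (P.cons (P.lf 747529 0 0) (P.cons (P.lf 0 302274 0) (P.cons (P.lf 0 16013 0) P.nil))))) (P.cons (P.cons (P.lf 7787492 0 0) (P.cons (P.lf 24103 0 0) (P.cons (P.lf 0 345213 0) (P.cons (P.lf 37486 0 0) P.nil)))) (P.cons (P.cons (P.lf 0 3682408 0) (P.cons (P.lf 0 1546710 0) (P.cons (P.lf 0 6552 0) P.nil))) (P.cons (P.cons (P.lf 0 895258 0) (P.cons (P.lf 0 43810 0) P.nil)) (P.cons (P.cons (P.lf 125127 0 0) P.nil) P.nil)))))) 196330)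
 EL.nil))
noncomputable def S256_285_586_660_18 : EL := (EL.cons 4 (TM.mk (P.cons (P.lf 0 5783501 0) (P.cons (P.lf 0 17211901 0) (P.cons (P.lf 0 16867610 0) (P.cons (P.lf 0 5168619 0) (P.cons (P.lf 332796 0 0) (P.cons (P.lf 59024 0 0) P.nil)))))) 4306)
 (EL.cons 8 (TM.mk (P.cons (P.lf 27119797 0 0) (P.cons (P.lf 53371278 0 0) (P.cons (P.lf 24964624 0 0) (P.cons (P.lf 0 1690000 0) (P.cons (P.lf 0 384174 0) (P.cons (P.lf 22382 0 0) P.nil)))))) 4185)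
 EL.nil))
noncomputable def S256_285_586_660_19 : EL := (EL.cons 4 (TM.mk (P.cons (P.cons (P.lf 2223590 0 0) (P.cons (P.lf 525720 0 0) (P.cons (P.lf 0 28765 0) (P.lf 0 3195 0)))) (P.cons (P.cons (P.lf 6972424 0 0) (P.cons (P.lf 1539266 0 0) (P.cons (P.lf 0 84222 0) (P.lf 0 9357 0)))) (P.cons (P.cons (P.lf 7450092 0 0) (P.cons (P.lf 1445936 0 0) (P.cons (P.lf 0 79115 0) (P.lf 0 8790 0)))) (P.cons (P.cons (P.lf 2736723 0 0) (P.cons (P.lf 360803 0 0) (P.cons (P.lf 0 19740 0) P.nil))) (P.cons (P.cons (P.lf 0 116883 0) (P.cons (P.lf 0 86065 0) P.nil)) (P.cons (P.cons (P.lf 0 160783 0) P.nil) P.nil)))))) 64384)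
 (EL.cons 8 (TM.mk (P.cons (P.cons (P.lf 0 10426786 0) (P.cons (P.lf 0 2465196 0) (P.cons (P.lf 134885 0 0) (P.lf 14986 0 0)))) (P.cons (P.cons (P.lf 0 22184109 0) (P.cons (P.lf 0 4732829 0) (P.cons (P.lf 258961 0 0) (P.lf 28773 0 0)))) (P.cons (P.cons (P.lf 0 12445349 0) (P.cons (P.lf 0 1979356 0) (P.cons (P.lf 108302 0 0) (P.lf 12033 0 0)))) (P.cons (P.cons (P.lf 25355 0 0) (P.cons (P.lf 371147 0 0) (P.cons (P.lf 0 20307 0) P.nil))) (P.cons (P.cons (P.lf 766734 0 0) (P.cons (P.lf 73350 0 0) P.nil)) (P.cons (P.cons (P.lf 34461 0 0) P.nil) P.nil)))))) 45912)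
 EL.nil))
noncomputable def S256_285_586_660_20 : EL := (EL.cons 4 (TM.mk (P.cons (P.cons (P.lf 0 854906 0) (P.cons (P.lf 0 404249 0) (P.cons (P.lf 0 25668 0) (P.cons (P.lf 7686 0 0) (P.cons (P.lf 437 0 0) (P.cons (P.lf 0 30 0) P.nil)))))) (P.cons (P.cons (P.lf 0 2817162 0) (P.cons (P.lf 0 1248135 0) (P.cons (P.lf 0 69326 0) (P.cons (P.lf 22648 0 0) (P.cons (P.lf 1260 0 0) P.nil))))) (P.cons (P.cons (P.lf 0 3257137 0) (P.cons (P.lf 0 1284170 0) (P.cons (P.lf 0 53342 0) (P.cons (P.lf 21333 0 0) P.nil)))) (P.cons (P.cons (P.lf 0 1393983 0) (P.cons (P.lf 0 403783 0) (P.cons (P.lf 0 1227 0) P.nil))) (P.cons (P.cons (P.lf 10771 0 0) (P.cons (P.lf 74670 0 0) P.nil)) (P.cons (P.cons (P.lf 128287 0 0) P.nil) P.nil)))))) 118723)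
 (EL.cons 8 (TM.mk (P.cons (P.cons (P.lf 4008801 0 0) (P.cons (P.lf 1895594 0 0) (P.cons (P.lf 120367 0 0) (P.cons (P.lf 0 36046 0) (P.cons (P.lf 0 2053 0) (P.cons (P.lf 148 0 0) P.nil)))))) (P.cons (P.cons (P.lf 9169061 0 0) (P.cons (P.lf 3941860 0 0) (P.cons (P.lf 203748 0 0) (P.cons (P.lf 0 69863 0) (P.cons (P.lf 0 3843 0) P.nil))))) (P.cons (P.cons (P.lf 5981679 0 0) (P.cons (P.lf 2025067 0 0) (P.cons (P.lf 43284 0 0) (P.cons (P.lf 0 29173 0) P.nil)))) (P.cons (P.cons (P.lf 378764 0 0) (P.cons (P.lf 0 203715 0) (P.cons (P.lf 0 40848 0) P.nil))) (P.cons (P.cons (P.lf 0 543410 0) (P.cons (P.lf 0 185917 0) P.nil)) (P.cons (P.cons (P.lf 0 84064 0) P.nil) P.nil)))))) 100998)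
 EL.nil))
noncomputable def S256_285_586_660_21 : EL := (EL.cons 4 (TM.mk (P.cons (P.cons (P.lf 1738135707 0 0) (P.cons (P.lf 0 123890334 0) (P.cons (P.lf 6778779 0 0) (P.lf 753195 0 0)))) (P.cons (P.cons (P.lf 0 908562480 0) (P.cons (P.lf 0 116938659 0) (P.cons (P.lf 6398412 0 0) (P.lf 710934 0 0)))) (P.cons (P.cons (P.lf 0 202870851 0) (P.cons (P.lf 10228719 0 0) (P.cons (P.lf 0 559671 0) (P.lf 0 62184 0)))) (P.cons (P.cons (P.lf 32459283 0 0) (P.cons (P.lf 3082251 0 0) (P.cons (P.lf 0 168648 0) P.nil))) (P.cons (P.cons (P.lf 4063656 0 0) (P.cons (P.lf 0 238536 0) P.nil)) (P.cons (P.cons (P.lf 0 537303 0) P.nil) P.nil)))))) 163167)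
 (EL.cons 8 (TM.mk (P.cons (P.cons (P.lf 131793969 0 0) (P.cons (P.lf 0 9393975 0) (P.cons (P.lf 514005 0 0) (P.lf 57114 0 0)))) (P.cons (P.cons (P.lf 63963606 0 0) (P.cons (P.lf 0 18336480 0) (P.cons (P.lf 1003296 0 0) (P.lf 111474 0 0)))) (P.cons (P.cons (P.lf 0 83228586 0) (P.cons (P.lf 0 8276751 0) (P.cons (P.lf 452868 0 0) (P.lf 50316 0 0)))) (P.cons (P.cons (P.lf 0 13334115 0) (P.cons (P.lf 868821 0 0) (P.cons (P.lf 0 47532 0) P.nil))) (P.cons (P.cons (P.lf 2326848 0 0) (P.cons (P.lf 189294 0 0) P.nil)) (P.cons (P.cons (P.lf 232431 0 0) P.nil) P.nil)))))) 103470)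
 (EL.cons 11 (TM.mk (P.cons (P.cons (P.lf 2659001160 0 0) (P.cons (P.lf 0 333640752 0) (P.cons (P.lf 0 50938311 0) (P.cons (P.lf 1556157 0 0) (P.lf 129678 0 0))))) (P.cons (P.cons (P.lf 0 85306386 0) (P.cons (P.lf 10703901 0 0) (P.cons (P.lf 1634208 0 0) (P.cons (P.lf 0 49923 0) (P.lf 0 4158 0))))) (P.cons (P.cons (P.lf 0 41287530 0) (P.cons (P.lf 5180592 0 0) (P.cons (P.lf 790941 0 0) (P.cons (P.lf 0 24162 0) P.nil)))) (P.cons (P.cons (P.lf 1349280 0 0) (P.cons (P.lf 0 169302 0) (P.cons (P.lf 0 25848 0) P.nil))) (P.cons (P.cons (P.lf 317022 0 0) (P.cons (P.lf 0 39777 0) P.nil)) (P.cons (P.cons (P.lf 0 11931 0) P.nil) P.nil)))))) 13623)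
 EL.nil)))
noncomputable def S256_285_586_660_22 : EL := (EL.cons 4 (TM.mk (P.cons (P.cons (P.lf 0 668263479 0) (P.cons (P.lf 0 110364699 0) (P.cons (P.lf 17300376 0 0) (P.cons (P.lf 0 561414 0) (P.cons (P.lf 0 103215 0) (P.cons (P.lf 7491 0 0) P.nil)))))) (P.cons (P.cons (P.lf 242644554 0 0) (P.cons (P.lf 142754772 0 0) (P.cons (P.lf 2276841 0 0) (P.cons (P.lf 0 1971810 0) (P.cons (P.lf 0 92457 0) P.nil))))) (P.cons (P.cons (P.lf 161208102 0 0) (P.cons (P.lf 19372980 0 0) (P.cons (P.lf 0 2759292 0) (P.cons (P.lf 68175 0 0) P.nil)))) (P.cons (P.cons (P.lf 0 10223766 0) (P.cons (P.lf 0 9865032 0) (P.cons (P.lf 73665 0 0) P.nil))) (P.cons (P.cons (P.lf 0 9347598 0) (P.cons (P.lf 0 782628 0) P.nil)) (P.cons (P.cons (P.lf 160713 0 0) P.nil) P.nil)))))) 1097112)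
 (EL.cons 8 (TM.mk (P.cons (P.cons (P.lf 0 50671011 0) (P.cons (P.lf 0 8368389 0) (P.cons (P.lf 1311795 0 0) (P.cons (P.lf 0 42570 0) (P.cons (P.lf 0 7824 0) (P.cons (P.lf 567 0 0) P.nil)))))) (P.cons (P.cons (P.lf 0 32680551 0) (P.cons (P.lf 2388585 0 0) (P.cons (P.lf 1495002 0 0) (P.cons (P.lf 0 192423 0) (P.cons (P.lf 0 14898 0) P.nil))))) (P.cons (P.cons (P.lf 30154896 0 0) (P.cons (P.lf 12278859 0 0) (P.cons (P.lf 0 19260 0) (P.cons (P.lf 0 146061 0) P.nil)))) (P.cons (P.cons (P.lf 11559615 0 0) (P.cons (P.lf 829434 0 0) (P.cons (P.lf 0 197775 0) P.nil))) (P.cons (P.cons (P.lf 0 1269489 0) (P.cons (P.lf 0 751236 0) P.nil)) (P.cons (P.cons (P.lf 0 660270 0) P.nil) P.nil)))))) 465549)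
 (EL.cons 11 (TM.mk (P.cons (P.cons (P.lf 0 1022309916 0) (P.cons (P.lf 0 113428572 0) (P.cons (P.lf 63137421 0 0) (P.cons (P.lf 3842031 0 0) (P.cons (P.lf 0 629043 0) (P.cons (P.lf 0 32196 0) P.nil)))))) (P.cons (P.cons (P.lf 0 130388631 0) (P.cons (P.lf 35746572 0 0) (P.cons (P.lf 0 995340 0) (P.cons (P.lf 0 432444 0) (P.cons (P.lf 40092 0 0) P.nil))))) (P.cons (P.cons (P.lf 63102807 0 0) (P.cons (P.lf 998274 0 0) (P.cons (P.lf 0 2815473 0) (P.cons (P.lf 0 126867 0) P.nil)))) (P.cons (P.cons (P.lf 7023204 0 0) (P.cons (P.lf 0 1636893 0) (P.cons (P.lf 1614 0 0) P.nil))) (P.cons (P.cons (P.lf 0 1699572 0) (P.cons (P.lf 50331 0 0) P.nil)) (P.cons (P.cons (P.lf 0 136809 0) P.nil) P.nil)))))) 234789)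
 EL.nil)))
noncomputable def S256_285_586_660_23 : EL := (EL.cons 4 (TM.mk (P.cons (P.cons (P.lf 196111737 0 0) (P.cons (P.lf 0 13978395 0) (P.cons (P.lf 764841 0 0) (P.lf 84981 0 0)))) (P.cons (P.cons (P.lf 92033124 0 0) (P.cons (P.lf 0 27060777 0) (P.cons (P.lf 1480656 0 0) (P.lf 164517 0 0)))) (P.cons (P.cons (P.lf 0 126920169 0) (P.cons (P.lf 0 11767947 0) (P.cons (P.lf 643893 0 0) (P.lf 71544 0 0)))) (P.cons (P.cons (P.lf 0 18581040 0) (P.cons (P.lf 1703952 0 0) (P.cons (P.lf 0 93231 0) P.nil))) (P.cons (P.cons (P.lf 4776210 0 0) (P.cons (P.lf 354243 0 0) P.nil)) (P.cons (P.cons (P.lf 433935 0 0) P.nil) P.nil)))))) 194217)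
 (EL.cons 8 (TM.mk (P.cons (P.cons (P.lf 14870151 0 0) (P.cons (P.lf 0 1059909 0) (P.cons (P.lf 57993 0 0) (P.lf 6444 0 0)))) (P.cons (P.cons (P.lf 21968298 0 0) (P.cons (P.lf 0 3120324 0) (P.cons (P.lf 170730 0 0) (P.lf 18969 0 0)))) (P.cons (P.cons (P.lf 0 2408529 0) (P.cons (P.lf 0 2973576 0) (P.cons (P.lf 162699 0 0) (P.lf 18075 0 0)))) (P.cons (P.cons (P.lf 0 10963557 0) (P.cons (P.lf 0 799608 0) (P.cons (P.lf 43749 0 0) P.nil))) (P.cons (P.cons (P.lf 0 1144734 0) (P.cons (P.lf 137649 0 0) P.nil)) (P.cons (P.cons (P.lf 341694 0 0) P.nil) P.nil)))))) 100668)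
 (EL.cons 11 (TM.mk (P.cons (P.cons (P.lf 300011865 0 0) (P.cons (P.lf 0 37644279 0) (P.cons (P.lf 0 5747307 0) (P.cons (P.lf 175578 0 0) (P.lf 14631 0 0))))) (P.cons (P.cons (P.lf 287990244 0 0) (P.cons (P.lf 0 36135855 0) (P.cons (P.lf 0 5517009 0) (P.cons (P.lf 168543 0 0) (P.lf 14043 0 0))))) (P.cons (P.cons (P.lf 0 17782308 0) (P.cons (P.lf 2231250 0 0) (P.cons (P.lf 340653 0 0) (P.cons (P.lf 0 10404 0) P.nil)))) (P.cons (P.cons (P.lf 0 5514414 0) (P.cons (P.lf 691926 0 0) (P.cons (P.lf 105639 0 0) P.nil))) (P.cons (P.cons (P.lf 303081 0 0) (P.cons (P.lf 0 38028 0) P.nil)) (P.cons (P.cons (P.lf 54024 0 0) P.nil) P.nil)))))) 24135)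
 EL.nil)))
noncomputable def S256_285_586_660_24 : EL := (EL.cons 4 (TM.mk (P.cons (P.cons (P.lf 0 75399354 0) (P.cons (P.lf 0 12452313 0) (P.cons (P.lf 1951980 0 0) (P.cons (P.lf 0 63342 0) (P.cons (P.lf 0 11643 0) (P.cons (P.lf 843 0 0) P.nil)))))) (P.cons (P.cons (P.lf 0 47419746 0) (P.cons (P.lf 3754005 0 0) (P.cons (P.lf 2193279 0 0) (P.cons (P.lf 0 285312 0) (P.cons (P.lf 0 21984 0) P.nil))))) (P.cons (P.cons (P.lf 46246167 0 0) (P.cons (P.lf 18312423 0 0) (P.cons (P.lf 0 79749 0) (P.cons (P.lf 0 212250 0) P.nil)))) (P.cons (P.cons (P.lf 16855347 0 0) (P.cons (P.lf 911487 0 0) (P.cons (P.lf 0 311139 0) P.nil))) (P.cons (P.cons (P.lf 0 2527575 0) (P.cons (P.lf 0 1281786 0) P.nil)) (P.cons (P.cons (P.lf 0 1083675 0) P.nil) P.nil)))))) 827532)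
 (EL.cons 8 (TM.mk (P.cons (P.cons (P.lf 0 5717148 0) (P.cons (P.lf 0 944193 0) (P.cons (P.lf 148008 0 0) (P.cons (P.lf 0 4803 0) (P.cons (P.lf 0 882 0) (P.cons (P.lf 63 0 0) P.nil)))))) (P.cons (P.cons (P.lf 0 9358782 0) (P.cons (P.lf 0 667149 0) (P.cons (P.lf 315504 0 0) (P.cons (P.lf 0 26475 0) (P.cons (P.lf 0 2556 0) P.nil))))) (P.cons (P.cons (P.lf 0 187368 0) (P.cons (P.lf 1664010 0 0) (P.cons (P.lf 163392 0 0) (P.cons (P.lf 0 37959 0) P.nil)))) (P.cons (P.cons (P.lf 4745475 0 0) (P.cons (P.lf 1468362 0 0) (P.cons (P.lf 0 27051 0) P.nil))) (P.cons (P.cons (P.lf 1123860 0 0) (P.cons (P.lf 0 9552 0) P.nil)) (P.cons (P.cons (P.lf 0 245664 0) P.nil) P.nil)))))) 306117)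
 (EL.cons 11 (TM.mk (P.cons (P.cons (P.lf 0 115345983 0) (P.cons (P.lf 0 12798006 0) (P.cons (P.lf 7123716 0 0) (P.cons (P.lf 433491 0 0) (P.cons (P.lf 0 70974 0) (P.cons (P.lf 0 3630 0) P.nil)))))) (P.cons (P.cons (P.lf 0 129136146 0) (P.cons (P.lf 0 8662530 0) (P.cons (P.lf 6954507 0 0) (P.cons (P.lf 381234 0 0) (P.cons (P.lf 0 65883 0) P.nil))))) (P.cons (P.cons (P.lf 0 6099477 0) (P.cons (P.lf 4266192 0 0) (P.cons (P.lf 0 513978 0) (P.cons (P.lf 0 67881 0) P.nil)))) (P.cons (P.cons (P.lf 8476749 0 0) (P.cons (P.lf 0 71535 0) (P.cons (P.lf 0 341154 0) P.nil))) (P.cons (P.cons (P.lf 557304 0 0) (P.cons (P.lf 0 195477 0) P.nil)) (P.cons (P.cons (P.lf 0 245505 0) P.nil) P.nil)))))) 225756)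
 EL.nil)))
noncomputable def S256_285_586_660_25 : EL := (EL.cons 4 (TM.mk (P.cons (P.cons (P.lf 22127046 0 0) (P.cons (P.lf 0 1577163 0) (P.cons (P.lf 86295 0 0) (P.lf 9588 0 0)))) (P.cons (P.cons (P.lf 32334273 0 0) (P.cons (P.lf 0 4617801 0) (P.cons (P.lf 252666 0 0) (P.lf 28074 0 0)))) (P.cons (P.cons (P.lf 0 4282938 0) (P.cons (P.lf 0 4337808 0) (P.cons (P.lf 237345 0 0) (P.lf 26370 0 0)))) (P.cons (P.cons (P.lf 0 16511658 0) (P.cons (P.lf 0 1082412 0) (P.cons (P.lf 59223 0 0) P.nil))) (P.cons (P.cons (P.lf 0 1408572 0) (P.cons (P.lf 258195 0 0) P.nil)) (P.cons (P.cons (P.lf 665055 0 0) P.nil) P.nil)))))) 215850)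
 (EL.cons 8 (TM.mk (P.cons (P.cons (P.lf 1677780 0 0) (P.cons (P.lf 0 119586 0) (P.cons (P.lf 6543 0 0) (P.lf 726 0 0)))) (P.cons (P.cons (P.lf 4143033 0 0) (P.cons (P.lf 0 470694 0) (P.cons (P.lf 25752 0 0) (P.lf 2859 0 0)))) (P.cons (P.cons (P.lf 2167107 0 0) (P.cons (P.lf 0 683328 0) (P.cons (P.lf 37389 0 0) (P.lf 4152 0 0)))) (P.cons (P.cons (P.lf 0 1542615 0) (P.cons (P.lf 0 418383 0) (P.cons (P.lf 22890 0 0) P.nil))) (P.cons (P.cons (P.lf 0 1362495 0) (P.cons (P.lf 0 68616 0) P.nil)) (P.cons (P.cons (P.lf 0 73560 0) P.nil) P.nil)))))) 94545)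
 (EL.cons 11 (TM.mk (P.cons (P.cons (P.lf 33849972 0 0) (P.cons (P.lf 0 4247358 0) (P.cons (P.lf 0 648459 0) (P.cons (P.lf 19809 0 0) (P.lf 1650 0 0))))) (P.cons (P.cons (P.lf 66073155 0 0) (P.cons (P.lf 0 8290593 0) (P.cons (P.lf 0 1265757 0) (P.cons (P.lf 38667 0 0) (P.lf 3222 0 0))))) (P.cons (P.cons (P.lf 29824212 0 0) (P.cons (P.lf 0 3742221 0) (P.cons (P.lf 0 571338 0) (P.cons (P.lf 17454 0 0) P.nil)))) (P.cons (P.cons (P.lf 0 3130695 0) (P.cons (P.lf 392826 0 0) (P.cons (P.lf 59973 0 0) P.nil))) (P.cons (P.cons (P.lf 0 682101 0) (P.cons (P.lf 85587 0 0) P.nil)) (P.cons (P.cons (P.lf 58242 0 0) P.nil) P.nil)))))) 41664)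
 EL.nil)))
noncomputable def S256_285_586_660_26 : EL := (EL.cons 4 (TM.mk (P.cons (P.cons (P.lf 0 8507217 0) (P.cons (P.lf 0 1404978 0) (P.cons (P.lf 220239 0 0) (P.cons (P.lf 0 7146 0) (P.cons (P.lf 0 1311 0) (P.cons (P.lf 93 0 0) P.nil)))))) (P.cons (P.cons (P.lf 0 13789569 0) (P.cons (P.lf 0 970194 0) (P.cons (P.lf 465945 0 0) (P.cons (P.lf 0 39279 0) (P.cons (P.lf 0 3783 0) P.nil))))) (P.cons (P.cons (P.lf 11721 0 0) (P.cons (P.lf 2503089 0 0) (P.cons (P.lf 233865 0 0) (P.cons (P.lf 0 55797 0) P.nil)))) (P.cons (P.cons (P.lf 7174650 0 0) (P.cons (P.lf 2152887 0 0) (P.cons (P.lf 0 47832 0) P.nil))) (P.cons (P.cons (P.lf 1559223 0 0) (P.cons (P.lf 0 68976 0) P.nil)) (P.cons (P.cons (P.lf 0 448563 0) P.nil) P.nil)))))) 508371)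
 (EL.cons 8 (TM.mk (P.cons (P.cons (P.lf 0 645057 0) (P.cons (P.lf 0 106530 0) (P.cons (P.lf 16698 0 0) (P.cons (P.lf 0 540 0) (P.cons (P.lf 0 99 0) (P.cons (P.lf 6 0 0) P.nil)))))) (P.cons (P.cons (P.lf 0 1695846 0) (P.cons (P.lf 0 180954 0) (P.cons (P.lf 52164 0 0) (P.cons (P.lf 0 3522 0) (P.cons (P.lf 0 387 0) P.nil))))) (P.cons (P.cons (P.lf 0 1060956 0) (P.cons (P.lf 114345 0 0) (P.cons (P.lf 53550 0 0) (P.cons (P.lf 0 7239 0) P.nil)))) (P.cons (P.cons (P.lf 529533 0 0) (P.cons (P.lf 353229 0 0) (P.cons (P.lf 14745 0 0) P.nil))) (P.cons (P.cons (P.lf 662235 0 0) (P.cons (P.lf 161316 0 0) P.nil)) (P.cons (P.cons (P.lf 91680 0 0) P.nil) P.nil)))))) 163791)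
 (EL.cons 11 (TM.mk (P.cons (P.cons (P.lf 0 13014345 0) (P.cons (P.lf 0 1443981 0) (P.cons (P.lf 803760 0 0) (P.cons (P.lf 48909 0 0) (P.cons (P.lf 0 8007 0) (P.cons (P.lf 0 408 0) P.nil)))))) (P.cons (P.cons (P.lf 0 27480657 0) (P.cons (P.lf 0 2409828 0) (P.cons (P.lf 1582005 0 0) (P.cons (P.lf 91533 0 0) (P.cons (P.lf 0 15375 0) P.nil))))) (P.cons (P.cons (P.lf 0 14986962 0) (P.cons (P.lf 0 471012 0) (P.cons (P.lf 710826 0 0) (P.cons (P.lf 34428 0 0) P.nil)))) (P.cons (P.cons (P.lf 497706 0 0) (P.cons (P.lf 486663 0 0) (P.cons (P.lf 0 108480 0) P.nil))) (P.cons (P.cons (P.lf 1075185 0 0) (P.cons (P.lf 0 32133 0) P.nil)) (P.cons (P.cons (P.lf 24603 0 0) P.nil) P.nil)))))) 170244)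
 EL.nil)))
noncomputable def S256_285_586_660_27 : EL := (EL.cons 13 (TM.mk (P.lf 0 4294967296 0) 0)
 EL.nil)
noncomputable def S256_285_586_660_28 : EL := (EL.cons 13 (TM.mk (P.cons (P.cons (P.lf 1651292120 0 0) (P.cons (P.lf 390413656 0 0) (P.cons (P.lf 0 21361864 0) (P.lf 0 2373540 0)))) (P.cons (P.cons (P.lf 263587955 0 0) (P.cons (P.lf 0 18787944 0) (P.cons (P.lf 1028000 0 0) (P.lf 114220 0 0)))) (P.cons (P.cons (P.lf 0 67830356 0) (P.cons (P.lf 0 8942508 0) (P.cons (P.lf 489296 0 0) (P.lf 54364 0 0)))) (P.cons (P.cons (P.lf 0 10265492 0) (P.cons (P.lf 443836 0 0) (P.cons (P.lf 0 24280 0) P.nil))) (P.cons (P.cons (P.lf 1032044 0 0) (P.cons (P.lf 101532 0 0) P.nil)) (P.cons (P.cons (P.lf 105099 0 0) P.nil) P.nil)))))) 28895)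
 EL.nil)
noncomputable def S256_285_586_660_29 : EL := (EL.cons 13 (TM.mk (P.cons (P.cons (P.lf 0 634874605 0) (P.cons (P.lf 0 300205775 0) (P.cons (P.lf 0 19062652 0) (P.cons (P.lf 5708714 0 0) (P.cons (P.lf 325263 0 0) (P.cons (P.lf 0 23610 0) P.nil)))))) (P.cons (P.cons (P.lf 0 202684063 0) (P.cons (P.lf 0 33473574 0) (P.cons (P.lf 5247197 0 0) (P.cons (P.lf 0 170275 0) (P.cons (P.lf 0 31305 0) P.nil))))) (P.cons (P.cons (P.lf 35980915 0 0) (P.cons (P.lf 21513954 0 0) (P.cons (P.lf 366411 0 0) (P.cons (P.lf 0 299708 0) P.nil)))) (P.cons (P.cons (P.lf 16219257 0 0) (P.cons (P.lf 2029179 0 0) (P.cons (P.lf 0 269958 0) P.nil))) (P.cons (P.cons (P.lf 0 604812 0) (P.cons (P.lf 0 692444 0) P.nil)) (P.cons (P.cons (P.lf 0 531736 0) P.nil) P.nil)))))) 383827)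
 EL.nil)
noncomputable def S256_285_586_660_30 : EL := (EL.cons 13 (TM.mk (P.cons (P.lf 0 484595936 0) (P.cons (P.lf 0 480724804 0) (P.cons (P.lf 5775768 0 0) (P.cons (P.lf 1873960 0 0) (P.cons (P.lf 0 38036 0) (P.cons (P.lf 0 7180 0) P.nil)))))) 280)
 EL.nil)
noncomputable def S256_285_586_660_31 : EL := (EL.cons 13 (TM.mk (P.cons (P.cons (P.lf 186313281 0 0) (P.cons (P.lf 44049897 0 0) (P.cons (P.lf 0 2410233 0) (P.lf 0 267803 0)))) (P.cons (P.cons (P.lf 214565250 0 0) (P.cons (P.lf 41578190 0 0) (P.cons (P.lf 0 2274991 0) (P.lf 0 252777 0)))) (P.cons (P.cons (P.lf 19628897 0 0) (P.cons (P.lf 0 3636878 0) (P.cons (P.lf 198995 0 0) (P.lf 22110 0 0)))) (P.cons (P.cons (P.lf 0 9825273 0) (P.cons (P.lf 0 1095912 0) (P.cons (P.lf 59964 0 0) P.nil))) (P.cons (P.cons (P.lf 0 1041713 0) (P.cons (P.lf 84813 0 0) P.nil)) (P.cons (P.cons (P.lf 175867 0 0) P.nil) P.nil)))))) 55223)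
 EL.nil)
noncomputable def S256_285_586_660_32 : EL := (EL.cons 13 (TM.mk (P.cons (P.cons (P.lf 0 71632129 0) (P.cons (P.lf 0 33871852 0) (P.cons (P.lf 0 2150815 0) (P.cons (P.lf 644107 0 0) (P.cons (P.lf 36699 0 0) (P.cons (P.lf 0 2663 0) P.nil)))))) (P.cons (P.cons (P.lf 0 93928501 0) (P.cons (P.lf 0 37378054 0) (P.cons (P.lf 0 1541599 0) (P.cons (P.lf 619749 0 0) (P.cons (P.lf 32873 0 0) P.nil))))) (P.cons (P.cons (P.lf 0 17772466 0) (P.cons (P.lf 0 915509 0) (P.cons (P.lf 654282 0 0) (P.cons (P.lf 0 60551 0) P.nil)))) (P.cons (P.cons (P.lf 6406821 0 0) (P.cons (P.lf 2812950 0 0) (P.cons (P.lf 11813 0 0) P.nil))) (P.cons (P.cons (P.lf 1781565 0 0) (P.cons (P.lf 132008 0 0) P.nil)) (P.cons (P.cons (P.lf 0 168056 0) P.nil) P.nil)))))) 327092)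
 EL.nil)
noncomputable def S256_285_586_660_33 : EL := (EL.cons 14 (TM.mk (P.lf 8589934592 0 0) 0)
 EL.nil)
noncomputable def S256_285_586_660_34 : EL := (EL.cons 14 (TM.mk (P.cons (P.cons (P.lf 0 3302584240 0) (P.cons (P.lf 0 780827312 0) (P.cons (P.lf 42723728 0 0) (P.lf 4747080 0 0)))) (P.cons (P.cons (P.lf 0 527175910 0) (P.cons (P.lf 37575888 0 0) (P.cons (P.lf 0 2056000 0) (P.lf 0 228440 0)))) (P.cons (P.cons (P.lf 135660712 0 0) (P.cons (P.lf 17885016 0 0) (P.cons (P.lf 0 978592 0) (P.lf 0 108728 0)))) (P.cons (P.cons (P.lf 20530984 0 0) (P.cons (P.lf 0 887672 0) (P.cons (P.lf 48560 0 0) P.nil))) (P.cons (P.cons (P.lf 0 2064088 0) (P.cons (P.lf 0 203064 0) P.nil)) (P.cons (P.cons (P.lf 0 210198 0) P.nil) P.nil)))))) 57790)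
 EL.nil)
noncomputable def S256_285_586_660_35 : EL := (EL.cons 14 (TM.mk (P.cons (P.cons (P.lf 1269749210 0 0) (P.cons (P.lf 600411550 0 0) (P.cons (P.lf 38125304 0 0) (P.cons (P.lf 0 11417428 0) (P.cons (P.lf 0 650526 0) (P.cons (P.lf 47220 0 0) P.nil)))))) (P.cons (P.cons (P.lf 405368126 0 0) (P.cons (P.lf 66947148 0 0) (P.cons (P.lf 0 10494394 0) (P.cons (P.lf 340550 0 0) (P.cons (P.lf 62610 0 0) P.nil))))) (P.cons (P.cons (P.lf 0 71961830 0) (P.cons (P.lf 0 43027908 0) (P.cons (P.lf 0 732822 0) (P.cons (P.lf 599416 0 0) P.nil)))) (P.cons (P.cons (P.lf 0 32438514 0) (P.cons (P.lf 0 4058358 0) (P.cons (P.lf 539916 0 0) P.nil))) (P.cons (P.cons (P.lf 1209624 0 0) (P.cons (P.lf 1384888 0 0) P.nil)) (P.cons (P.cons (P.lf 1063472 0 0) P.nil) P.nil)))))) 767654)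
 EL.nil)
noncomputable def S256_285_586_660_36 : EL := (EL.cons 14 (TM.mk (P.cons (P.lf 969191872 0 0) (P.cons (P.lf 961449608 0 0) (P.cons (P.lf 0 11551536 0) (P.cons (P.lf 0 3747920 0) (P.cons (P.lf 76072 0 0) (P.cons (P.lf 14360 0 0) P.nil)))))) 560)
 EL.nil)
noncomputable def S256_285_586_660_37 : EL := (EL.cons 14 (TM.mk (P.cons (P.cons (P.lf 0 372626562 0) (P.cons (P.lf 0 88099794 0) (P.cons (P.lf 4820466 0 0) (P.lf 535606 0 0)))) (P.cons (P.cons (P.lf 0 429130500 0) (P.cons (P.lf 0 83156380 0) (P.cons (P.lf 4549982 0 0) (P.lf 505554 0 0)))) (P.cons (P.cons (P.lf 0 39257794 0) (P.cons (P.lf 7273756 0 0) (P.cons (P.lf 0 397990 0) (P.lf 0 44220 0)))) (P.cons (P.cons (P.lf 19650546 0 0) (P.cons (P.lf 2191824 0 0) (P.cons (P.lf 0 119928 0) P.nil))) (P.cons (P.cons (P.lf 2083426 0 0) (P.cons (P.lf 0 169626 0) P.nil)) (P.cons (P.cons (P.lf 0 351734 0) P.nil) P.nil))))))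 110446)
 EL.nil)
noncomputable def S256_285_586_660_38 : EL := (EL.cons 14 (TM.mk (P.cons (P.cons (P.lf 143264258 0 0) (P.cons (P.lf 67743704 0 0) (P.cons (P.lf 4301630 0 0) (P.cons (P.lf 0 1288214 0) (P.cons (P.lf 0 73398 0) (P.cons (P.lf 5326 0 0) P.nil)))))) (P.cons (P.cons (P.lf 187857002 0 0) (P.cons (P.lf 74756108 0 0) (P.cons (P.lf 3083198 0 0) (P.cons (P.lf 0 1239498 0) (P.cons (P.lf 0 65746 0) P.nil))))) (P.cons (P.cons (P.lf 35544932 0 0) (P.cons (P.lf 1831018 0 0) (P.cons (P.lf 0 1308564 0) (P.cons (P.lf 121102 0 0) P.nil)))) (P.cons (P.cons (P.lf 0 12813642 0) (P.cons (P.lf 0 5625900 0) (P.cons (P.lf 0 23626 0) P.nil))) (P.cons (P.cons (P.lf 0 3563130 0) (P.cons (P.lf 0 264016 0) P.nil)) (P.cons (P.cons (P.lf 336112 0 0) P.nil) P.nil)))))) 654184)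
 EL.nil)
noncomputable def S256_285_586_660_39 : EL := (EL.cons 14 (TM.mk (P.cons (P.lf 109352740 0 0) (P.cons (P.lf 216958378 0 0) (P.cons (P.lf 105005926 0 0) (P.cons (P.lf 0 3431614 0) (P.cons (P.lf 0 806288 0) (P.cons (P.lf 30348 0 0) P.nil)))))) 5440)
 EL.nil)
noncomputable def S256_285_586_660_40 : EL := (EL.cons 14 (TM.mk (P.cons (P.cons (P.lf 0 42043000 0) (P.cons (P.lf 0 9940192 0) (P.cons (P.lf 543886 0 0) (P.lf 60430 0 0)))) (P.cons (P.cons (P.lf 0 90125418 0) (P.cons (P.lf 0 19243218 0) (P.cons (P.lf 1052910 0 0) (P.lf 116990 0 0)))) (P.cons (P.cons (P.lf 0 51959798 0) (P.cons (P.lf 0 8368318 0) (P.cons (P.lf 457880 0 0) (P.lf 50874 0 0)))) (P.cons (P.cons (P.lf 0 1437210 0) (P.cons (P.lf 1211698 0 0) (P.cons (P.lf 0 66298 0) P.nil))) (P.cons (P.cons (P.lf 2671234 0 0) (P.cons (P.lf 251906 0 0) P.nil)) (P.cons (P.cons (P.lf 179786 0 0) P.nil) P.nil))))))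 128754)
 EL.nil)
noncomputable def S256_285_586_660_41 : EL := (EL.cons 14 (TM.mk (P.cons (P.cons (P.lf 16164332 0 0) (P.cons (P.lf 7643438 0 0) (P.cons (P.lf 485346 0 0) (P.cons (P.lf 0 145346 0) (P.cons (P.lf 0 8280 0) (P.cons (P.lf 600 0 0) P.nil)))))) (P.cons (P.cons (P.lf 37230882 0 0) (P.cons (P.lf 16017020 0 0) (P.cons (P.lf 829344 0 0) (P.cons (P.lf 0 284036 0) (P.cons (P.lf 0 15632 0) P.nil))))) (P.cons (P.cons (P.lf 24844190 0 0) (P.cons (P.lf 8482752 0 0) (P.cons (P.lf 191666 0 0) (P.cons (P.lf 0 123336 0) P.nil)))) (P.cons (P.cons (P.lf 2217572 0 0) (P.cons (P.lf 0 559910 0) (P.cons (P.lf 0 155152 0) P.nil))) (P.cons (P.cons (P.lf 0 1964718 0) (P.cons (P.lf 0 693960 0) P.nil)) (P.cons (P.cons (P.lf 0 357262 0) P.nil) P.nil)))))) 339146)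
 EL.nil)
noncomputable def S256_285_586_660_42 : EL := (EL.cons 14 (TM.mk (P.cons (P.lf 12338136 0 0) (P.cons (P.lf 36718724 0 0) (P.cons (P.lf 35984236 0 0) (P.cons (P.lf 11026388 0 0) (P.cons (P.lf 0 709966 0) (P.cons (P.lf 0 125918 0) P.nil)))))) 9172)
 EL.nil)
noncomputable def S256_285_586_660_43 : EL := (EL.cons 14 (TM.mk (P.cons (P.cons (P.lf 0 4743660 0) (P.cons (P.lf 0 1121538 0) (P.cons (P.lf 61366 0 0) (P.lf 6818 0 0)))) (P.cons (P.cons (P.lf 0 14874506 0) (P.cons (P.lf 0 3283768 0) (P.cons (P.lf 179674 0 0) (P.lf 19962 0 0)))) (P.cons (P.cons (P.lf 0 15893530 0) (P.cons (P.lf 0 3084664 0) (P.cons (P.lf 168780 0 0) (P.lf 18752 0 0)))) (P.cons (P.cons (P.lf 0 5838344 0) (P.cons (P.lf 0 769714 0) (P.cons (P.lf 42114 0 0) P.nil))) (P.cons (P.cons (P.lf 249352 0 0) (P.cons (P.lf 183606 0 0) P.nil)) (P.cons (P.cons (P.lf 343004 0 0) P.nil) P.nil)))))) 137312)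
 EL.nil)
noncomputable def S256_285_586_660_44 : EL := (EL.cons 14 (TM.mk (P.cons (P.cons (P.lf 1823800 0 0) (P.cons (P.lf 862398 0 0) (P.cons (P.lf 54760 0 0) (P.cons (P.lf 0 16398 0) (P.cons (P.lf 0 934 0) (P.cons (P.lf 66 0 0) P.nil)))))) (P.cons (P.cons (P.lf 6009946 0 0) (P.cons (P.lf 2662690 0 0) (P.cons (P.lf 147896 0 0) (P.cons (P.lf 0 48316 0) (P.cons (P.lf 0 2690 0) P.nil))))) (P.cons (P.cons (P.lf 6948560 0 0) (P.cons (P.lf 2739564 0 0) (P.cons (P.lf 113798 0 0) (P.cons (P.lf 0 45512 0) P.nil)))) (P.cons (P.cons (P.lf 2973832 0 0) (P.cons (P.lf 861404 0 0) (P.cons (P.lf 2618 0 0) P.nil))) (P.cons (P.cons (P.lf 0 22980 0) (P.cons (P.lf 0 159296 0) P.nil)) (P.cons (P.cons (P.lf 0 273680 0) P.nil) P.nil)))))) 253230)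
 EL.nil)
noncomputable def S256_285_586_660_45 : EL := (EL.cons 14 (TM.mk (P.cons (P.cons (P.lf 0 488182264 0) (P.cons (P.lf 0 346261610 0) (P.cons (P.lf 0 62920308 0) (P.cons (P.lf 4612044 0 0) (P.cons (P.lf 1809386 0 0) (P.cons (P.lf 5260 0 0) P.nil)))))) (P.cons (P.cons (P.lf 0 233778680 0) (P.cons (P.lf 0 93881000 0) (P.cons (P.lf 0 51810 0) (P.cons (P.lf 2070008 0 0) (P.cons (P.lf 0 105338 0) P.nil))))) (P.cons (P.cons (P.lf 22842406 0 0) (P.cons (P.lf 32874980 0 0) (P.cons (P.lf 6382534 0 0) (P.cons (P.lf 0 696638 0) P.nil)))) (P.cons (P.cons (P.lf 26324902 0 0) (P.cons (P.lf 10040032 0 0) (P.cons (P.lf 0 162310 0) P.nil))) (P.cons (P.cons (P.lf 1053006 0 0) (P.cons (P.lf 0 1420776 0) P.nil)) (P.cons (P.cons (P.lf 0 1295886 0) P.nil) P.nil)))))) 2077504)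
 EL.nil)
noncomputable def S256_285_586_660_46 : EL := (EL.cons 15 (TM.mk (P.lf 4294967296 0 0) 0)
 EL.nil)
noncomputable def S256_285_586_660_47 : EL := (EL.cons 15 (TM.mk (P.cons (P.cons (P.lf 0 1651292120 0) (P.cons (P.lf 0 390413656 0) (P.cons (P.lf 21361864 0 0) (P.lf 2373540 0 0)))) (P.cons (P.cons (P.lf 0 263587955 0) (P.cons (P.lf 18787944 0 0) (P.cons (P.lf 0 1028000 0) (P.lf 0 114220 0)))) (P.cons (P.cons (P.lf 67830356 0 0) (P.cons (P.lf 8942508 0 0) (P.cons (P.lf 0 489296 0) (P.lf 0 54364 0)))) (P.cons (P.cons (P.lf 10265492 0 0) (P.cons (P.lf 0 443836 0) (P.cons (P.lf 24280 0 0) P.nil))) (P.cons (P.cons (P.lf 0 1032044 0) (P.cons (P.lf 0 101532 0) P.nil)) (P.cons (P.cons (P.lf 0 105099 0) P.nil) P.nil)))))) 28895)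
 EL.nil)
noncomputable def S256_285_586_660_48 : EL := (EL.cons 15 (TM.mk (P.cons (P.cons (P.lf 634874605 0 0) (P.cons (P.lf 300205775 0 0) (P.cons (P.lf 19062652 0 0) (P.cons (P.lf 0 5708714 0) (P.cons (P.lf 0 325263 0) (P.cons (P.lf 23610 0 0) P.nil)))))) (P.cons (P.cons (P.lf 202684063 0 0) (P.cons (P.lf 33473574 0 0) (P.cons (P.lf 0 5247197 0) (P.cons (P.lf 170275 0 0) (P.cons (P.lf 31305 0 0) P.nil))))) (P.cons (P.cons (P.lf 0 35980915 0) (P.cons (P.lf 0 21513954 0) (P.cons (P.lf 0 366411 0) (P.cons (P.lf 299708 0 0) P.nil)))) (P.cons (P.cons (P.lf 0 16219257 0) (P.cons (P.lf 0 2029179 0) (P.cons (P.lf 269958 0 0) P.nil))) (P.cons (P.cons (P.lf 604812 0 0) (P.cons (P.lf 692444 0 0) P.nil)) (P.cons (P.cons (P.lf 531736 0 0) P.nil) P.nil)))))) 383827)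
 EL.nil)
noncomputable def S256_285_586_660 : SL := (SL.cons S256_285_586_660_0 (SL.cons S256_285_586_660_1 (SL.cons S256_285_586_660_2 (SL.cons S256_285_586_660_3 (SL.cons S256_285_586_660_4 (SL.cons S256_285_586_660_5 (SL.cons S256_285_586_660_6 (SL.cons S256_285_586_660_7 (SL.cons S256_285_586_660_8 (SL.cons S256_285_586_660_9 (SL.cons S256_285_586_660_10 (SL.cons S256_285_586_660_11 (SL.cons S256_285_586_660_12 (SL.cons S256_285_586_660_13 (SL.cons S256_285_586_660_14 (SL.cons S256_285_586_660_15 (SL.cons S256_285_586_660_16 (SL.cons S256_285_586_660_17 (SL.cons S256_285_586_660_18 (SL.cons S256_285_586_660_19 (SL.cons S256_285_586_660_20 (SL.cons S256_285_586_660_21 (SL.cons S256_285_586_660_22 (SL.cons S256_285_586_660_23 (SL.cons S256_285_586_660_24 (SL.cons S256_285_586_660_25 (SL.cons S256_285_586_660_26 (SL.cons S256_285_586_660_27 (SL.cons S256_285_586_660_28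 (SL.cons S256_285_586_660_29 (SL.cons S256_285_586_660_30 (SL.cons S256_285_586_660_31 (SL.cons S256_285_586_660_32 (SL.cons S256_285_586_660_33 (SL.cons S256_285_586_660_34 (SL.cons S256_285_586_660_35 (SL.cons S256_285_586_660_36 (SL.cons S256_285_586_660_37 (SL.cons S256_285_586_660_38 (SL.cons S256_285_586_660_39 (SL.cons S256_285_586_660_40 (SL.cons S256_285_586_660_41 (SL.cons S256_285_586_660_42 (SL.cons S256_285_586_660_43 (SL.cons S256_285_586_660_44 (SL.cons S256_285_586_660_45 (SL.cons S256_285_586_660_46 (SL.cons S256_285_586_660_47 (SL.cons S256_285_586_660_48 SL.nil)))))))))))))))))))))))))))))))))))))))))))))))))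
noncomputable def S256_285_660_734_0 : EL := (EL.cons 0 (TM.mk (P.cons (P.lf 8359606057 0 0) (P.cons (P.lf 0 190686074 0) (P.cons (P.lf 0 92290364 0) (P.cons (P.lf 3016066 0 0) (P.cons (P.lf 708651 0 0) (P.cons (P.lf 0 26673 0) P.nil)))))) 4788)
 (EL.cons 1 (TM.mk (P.cons (P.lf 450679505 0 0) (P.cons (P.lf 439849933 0 0) (P.cons (P.lf 0 16100088 0) (P.cons (P.lf 0 5127871 0) (P.cons (P.lf 176304 0 0) (P.cons (P.lf 32482 0 0) P.nil)))))) 1651)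
 (EL.cons 5 (TM.mk (P.cons (P.lf 4329140030 0 0) (P.cons (P.lf 67799490 0 0) (P.cons (P.lf 32814348 0 0) (P.cons (P.lf 0 1072376 0) (P.cons (P.lf 0 251962 0) (P.cons (P.lf 9484 0 0) P.nil)))))) 1837)
 (EL.cons 9 (TM.mk (P.lf 6442450944 0 0) 2)
 EL.nil))))
noncomputable def S256_285_660_734_1 : EL := (EL.cons 0 (TM.mk (P.cons (P.cons (P.lf 0 4852840893 0) (P.cons (P.lf 0 519579173 0) (P.cons (P.lf 66906785 0 0) (P.lf 4460455 0 0)))) (P.cons (P.cons (P.lf 0 430999105 0) (P.cons (P.lf 74104598 0 0) (P.cons (P.lf 0 9542524 0) (P.lf 0 636163 0)))) (P.cons (P.cons (P.lf 498655670 0 0) (P.cons (P.lf 33302531 0 0) (P.cons (P.lf 0 4288392 0) (P.lf 0 285887 0)))) (P.cons (P.cons (P.lf 47418698 0 0) (P.cons (P.lf 0 3635572 0) (P.cons (P.lf 468149 0 0) P.nil))) (P.cons (P.cons (P.lf 0 15215624 0) (P.cons (P.lf 0 768724 0) P.nil)) (P.cons (P.cons (P.lf 0 981485 0) P.nil) P.nil))))))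 574815)
 (EL.cons 1 (TM.mk (P.cons (P.cons (P.lf 499195011 0 0) (P.cons (P.lf 0 71826265 0) (P.cons (P.lf 9249143 0 0) (P.lf 616603 0 0)))) (P.cons (P.cons (P.lf 0 841412585 0) (P.cons (P.lf 0 65225090 0) (P.cons (P.lf 8399101 0 0) (P.lf 559938 0 0)))) (P.cons (P.cons (P.lf 0 88062526 0) (P.cons (P.lf 9633088 0 0) (P.cons (P.lf 0 1240454 0) (P.lf 0 82691 0)))) (P.cons (P.cons (P.lf 49419567 0 0) (P.cons (P.lf 2770371 0 0) (P.cons (P.lf 0 356737 0) P.nil))) (P.cons (P.cons (P.lf 3751010 0 0) (P.cons (P.lf 0 318155 0) P.nil)) (P.cons (P.cons (P.lf 0 1159069 0) P.nil) P.nil)))))) 303989)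
 (EL.cons 5 (TM.mk (P.cons (P.cons (P.lf 0 2231607652 0) (P.cons (P.lf 0 285283020 0) (P.cons (P.lf 36736212 0 0) (P.lf 2449078 0 0)))) (P.cons (P.cons (P.lf 0 239520214 0) (P.cons (P.lf 0 3729336 0) (P.cons (P.lf 480228 0 0) (P.lf 32012 0 0)))) (P.cons (P.cons (P.lf 0 35650254 0) (P.cons (P.lf 0 1074934 0) (P.cons (P.lf 138414 0 0) (P.lf 9222 0 0)))) (P.cons (P.cons (P.lf 0 715856 0) (P.cons (P.lf 758308 0 0) (P.cons (P.lf 0 97642 0) P.nil))) (P.cons (P.cons (P.lf 3356462 0 0) (P.cons (P.lf 151086 0 0) P.nil)) (P.cons (P.cons (P.lf 186519 0 0) P.nil) P.nil)))))) 278359)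
 (EL.cons 9 (TM.mk (P.cons (P.cons (P.lf 0 3491525454 0) (P.cons (P.lf 0 414725538 0) (P.cons (P.lf 53404662 0 0) (P.lf 3560310 0 0)))) (P.cons (P.cons (P.lf 0 346556770 0) (P.cons (P.lf 19957908 0 0) (P.cons (P.lf 0 2569998 0) (P.lf 0 171330 0)))) (P.cons (P.cons (P.lf 124984872 0 0) (P.cons (P.lf 9499374 0 0) (P.cons (P.lf 0 1223238 0) (P.lf 0 81546 0)))) (P.cons (P.cons (P.lf 14244816 0 0) (P.cons (P.lf 0 471474 0) (P.cons (P.lf 60708 0 0) P.nil))) (P.cons (P.cons (P.lf 0 1811922 0) (P.cons (P.lf 0 107850 0) P.nil)) (P.cons (P.cons (P.lf 0 143332 0) P.nil) P.nil)))))) 49673)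
 (EL.cons 2 (TM.mk (P.cons (P.cons (P.lf 0 190662015 0) (P.cons (P.lf 54429696 0 0) (P.cons (P.lf 4071251 0 0) (P.cons (P.lf 0 274342 0) (P.lf 0 13716 0))))) (P.cons (P.cons (P.lf 0 183022095 0) (P.cons (P.lf 52248670 0 0) (P.cons (P.lf 3908115 0 0) (P.cons (P.lf 0 263348 0) (P.lf 0 13165 0))))) (P.cons (P.cons (P.lf 11300920 0 0) (P.cons (P.lf 0 3226156 0) (P.cons (P.lf 0 241309 0) (P.cons (P.lf 16259 0 0) P.nil)))) (P.cons (P.cons (P.lf 3504493 0 0) (P.cons (P.lf 0 1000451 0) (P.cons (P.lf 0 74832 0) P.nil))) (P.cons (P.cons (P.lf 0 192611 0) (P.cons (P.lf 54984 0 0) P.nil)) (P.cons (P.cons (P.lf 0 34332 0) P.nil) P.nil)))))) 26413)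
 (EL.cons 6 (TM.mk (P.cons (P.cons (P.lf 894045804 0 0) (P.cons (P.lf 0 255229872 0) (P.cons (P.lf 0 19090782 0) (P.cons (P.lf 1286439 0 0) (P.lf 64320 0 0))))) (P.cons (P.cons (P.lf 0 43024323 0) (P.cons (P.lf 12282471 0 0) (P.cons (P.lf 918708 0 0) (P.cons (P.lf 0 61905 0) (P.lf 0 3093 0))))) (P.cons (P.cons (P.lf 0 20478309 0) (P.cons (P.lf 5846094 0 0) (P.cons (P.lf 437277 0 0) (P.cons (P.lf 0 29466 0) P.nil)))) (P.cons (P.cons (P.lf 1016382 0 0) (P.cons (P.lf 0 290151 0) (P.cons (P.lf 0 21702 0) P.nil))) (P.cons (P.cons (P.lf 232506 0 0) (P.cons (P.lf 0 66375 0) P.nil)) (P.cons (P.cons (P.lf 0 12612 0) P.nil) P.nil)))))) 16062)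
 EL.nil))))))
noncomputable def S256_285_660_734_2 : EL := (EL.cons 0 (TM.mk (P.cons (P.cons (P.lf 2804699913 0 0) (P.cons (P.lf 604673778 0 0) (P.cons (P.lf 0 45612018 0) (P.cons (P.lf 0 13497349 0) (P.cons (P.lf 0 18956 0) (P.cons (P.lf 71315 0 0) P.nil)))))) (P.cons (P.cons (P.lf 557847729 0 0) (P.cons (P.lf 0 15521264 0) (P.cons (P.lf 0 6636909 0) (P.cons (P.lf 2357263 0 0) (P.cons (P.lf 5065 0 0) P.nil))))) (P.cons (P.cons (P.lf 0 492599533 0) (P.cons (P.lf 0 101264935 0) (P.cons (P.lf 9492388 0 0) (P.cons (P.lf 1782976 0 0) P.nil)))) (P.cons (P.cons (P.lf 0 104708712 0) (P.cons (P.lf 0 1328648 0) (P.cons (P.lf 901269 0 0) P.nil))) (P.cons (P.cons (P.lf 24943895 0 0) (P.cons (P.lf 5456877 0 0) P.nil)) (P.cons (P.cons (P.lf 5724415 0 0) P.nil) P.nil)))))) 4240582)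
 (EL.cons 1 (TM.mk (P.cons (P.cons (P.lf 0 673455505 0) (P.cons (P.lf 0 17863313 0) (P.cons (P.lf 9680139 0 0) (P.cons (P.lf 0 1747264 0) (P.cons (P.lf 0 4332 0) (P.cons (P.lf 16314 0 0) P.nil)))))) (P.cons (P.cons (P.lf 702842539 0 0) (P.cons (P.lf 157549823 0 0) (P.cons (P.lf 0 13978268 0) (P.cons (P.lf 0 2977501 0) (P.cons (P.lf 0 3703 0) P.nil))))) (P.cons (P.cons (P.lf 192600263 0 0) (P.cons (P.lf 2935981 0 0) (P.cons (P.lf 0 1910866 0) (P.cons (P.lf 369542 0 0) P.nil)))) (P.cons (P.cons (P.lf 0 62089774 0) (P.cons (P.lf 0 13876949 0) (P.cons (P.lf 1393849 0 0) P.nil))) (P.cons (P.cons (P.lf 0 15073474 0) (P.cons (P.lf 0 175552 0) P.nil)) (P.cons (P.cons (P.lf 2388748 0 0) P.nil) P.nil)))))) 2317477)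
 (EL.cons 5 (TM.mk (P.cons (P.cons (P.lf 1147327282 0 0) (P.cons (P.lf 294467756 0 0) (P.cons (P.lf 0 19129333 0) (P.cons (P.lf 0 7367034 0) (P.cons (P.lf 0 11032 0) (P.cons (P.lf 41537 0 0) P.nil)))))) (P.cons (P.cons (P.lf 227376192 0 0) (P.cons (P.lf 31569225 0 0) (P.cons (P.lf 0 3906918 0) (P.cons (P.lf 0 311774 0) (P.cons (P.lf 0 85 0) P.nil))))) (P.cons (P.cons (P.lf 42738691 0 0) (P.cons (P.lf 3665415 0 0) (P.cons (P.lf 0 526649 0) (P.cons (P.lf 0 17379 0) P.nil)))) (P.cons (P.cons (P.lf 4491529 0 0) (P.cons (P.lf 0 1307571 0) (P.cons (P.lf 44258 0 0) P.nil))) (P.cons (P.cons (P.lf 0 5631922 0) (P.cons (P.lf 0 968095 0) P.nil)) (P.cons (P.cons (P.lf 0 1011934 0) P.nil) P.nil)))))) 2027254)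
 (EL.cons 9 (TM.mk (P.cons (P.cons (P.lf 1892253444 0 0) (P.cons (P.lf 449526052 0 0) (P.cons (P.lf 0 31188471 0) (P.cons (P.lf 0 10734792 0) (P.cons (P.lf 0 15684 0) (P.cons (P.lf 59025 0 0) P.nil)))))) (P.cons (P.cons (P.lf 375637096 0 0) (P.cons (P.lf 22985785 0 0) (P.cons (P.lf 0 5529444 0) (P.cons (P.lf 464431 0 0) (P.cons (P.lf 1509 0 0) P.nil))))) (P.cons (P.cons (P.lf 0 116830401 0) (P.cons (P.lf 0 28535187 0) (P.cons (P.lf 2513302 0 0) (P.cons (P.lf 544018 0 0) P.nil)))) (P.cons (P.cons (P.lf 0 28886673 0) (P.cons (P.lf 0 1570569 0) (P.cons (P.lf 321804 0 0) P.nil))) (P.cons (P.cons (P.lf 2856162 0 0) (P.cons (P.lf 857740 0 0) P.nil)) (P.cons (P.cons (P.lf 903000 0 0) P.nil) P.nil)))))) 591734)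
 (EL.cons 2 (TM.mk (P.cons (P.cons (P.lf 206660874 0 0) (P.cons (P.lf 0 34449699 0) (P.cons (P.lf 0 14581563 0) (P.cons (P.lf 464855 0 0) (P.cons (P.lf 177840 0 0) (P.cons (P.lf 1715 0 0) P.nil)))))) (P.cons (P.cons (P.lf 218892318 0 0) (P.cons (P.lf 0 40106418 0) (P.cons (P.lf 0 13945933 0) (P.cons (P.lf 467679 0 0) (P.cons (P.lf 164351 0 0) P.nil))))) (P.cons (P.cons (P.lf 43526 0 0) (P.cons (P.lf 0 3163612 0) (P.cons (P.lf 1304443 0 0) (P.cons (P.lf 0 21436 0) P.nil)))) (P.cons (P.cons (P.lf 0 12958846 0) (P.cons (P.lf 2806453 0 0) (P.cons (P.lf 646633 0 0) P.nil))) (P.cons (P.cons (P.lf 0 431881 0) (P.cons (P.lf 236300 0 0) P.nil)) (P.cons (P.cons (P.lf 355320 0 0) P.nil) P.nil)))))) 429659)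
 (EL.cons 6 (TM.mk (P.cons (P.cons (P.lf 0 969067110 0) (P.cons (P.lf 161540370 0 0) (P.cons (P.lf 68375376 0 0) (P.cons (P.lf 0 2179782 0) (P.cons (P.lf 0 833940 0) (P.cons (P.lf 0 8052 0) P.nil)))))) (P.cons (P.cons (P.lf 0 49551666 0) (P.cons (P.lf 25224450 0 0) (P.cons (P.lf 0 3531186 0) (P.cons (P.lf 4290 0 0) (P.cons (P.lf 69984 0 0) P.nil))))) (P.cons (P.cons (P.lf 61514814 0 0) (P.cons (P.lf 0 12554586 0) (P.cons (P.lf 0 3387468 0) (P.cons (P.lf 122670 0 0) P.nil)))) (P.cons (P.cons (P.lf 3385752 0 0) (P.cons (P.lf 0 1482024 0) (P.cons (P.lf 141228 0 0) P.nil))) (P.cons (P.cons (P.lf 0 1849086 0) (P.cons (P.lf 420204 0 0) P.nil)) (P.cons (P.cons (P.lf 0 78042 0) P.nil) P.nil)))))) 329238)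
 EL.nil))))))
noncomputable def S256_285_660_734_3 : EL := (EL.cons 0 (TM.mk (P.cons (P.lf 96110806 0 0) (P.cons (P.lf 190686074 0 0) (P.cons (P.lf 92290364 0 0) (P.cons (P.lf 0 3016066 0) (P.cons (P.lf 0 708651 0) (P.cons (P.lf 26673 0 0) P.nil)))))) 4788)
 (EL.cons 1 (TM.mk (P.cons (P.lf 0 450679505 0) (P.cons (P.lf 0 439849933 0) (P.cons (P.lf 16100088 0 0) (P.cons (P.lf 5127871 0 0) (P.cons (P.lf 0 176304 0) (P.cons (P.lf 0 32482 0) P.nil)))))) 1651)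
 (EL.cons 5 (TM.mk (P.cons (P.lf 2113310914 0 0) (P.cons (P.lf 0 67799490 0) (P.cons (P.lf 0 32814348 0) (P.cons (P.lf 1072376 0 0) (P.cons (P.lf 251962 0 0) (P.cons (P.lf 0 9484 0) P.nil)))))) 1830)
 EL.nil)))
noncomputable def S256_285_660_734_4 : EL := (EL.cons 0 (TM.mk (P.cons (P.cons (P.lf 0 52087835 0) (P.cons (P.lf 0 6187023 0) (P.cons (P.lf 796709 0 0) (P.lf 53112 0 0)))) (P.cons (P.cons (P.lf 0 108513536 0) (P.cons (P.lf 0 11977461 0) (P.cons (P.lf 1542350 0 0) (P.lf 102823 0 0)))) (P.cons (P.cons (P.lf 0 58410270 0) (P.cons (P.lf 0 5208651 0) (P.cons (P.lf 670723 0 0) (P.lf 44713 0 0)))) (P.cons (P.cons (P.lf 581886 0 0) (P.cons (P.lf 754191 0 0) (P.cons (P.lf 0 97117 0) P.nil))) (P.cons (P.cons (P.lf 2731343 0 0) (P.cons (P.lf 156791 0 0) P.nil)) (P.cons (P.cons (P.lf 113445 0 0) P.nil) P.nil)))))) 121856)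
 (EL.cons 1 (TM.mk (P.cons (P.cons (P.lf 244248496 0 0) (P.cons (P.lf 29011985 0 0) (P.cons (P.lf 0 3735903 0) (P.lf 0 249058 0)))) (P.cons (P.cons (P.lf 262622608 0 0) (P.cons (P.lf 26918694 0 0) (P.cons (P.lf 0 3466348 0) (P.lf 0 231090 0)))) (P.cons (P.cons (P.lf 6191893 0 0) (P.cons (P.lf 0 3063549 0) (P.cons (P.lf 394494 0 0) (P.lf 26298 0 0)))) (P.cons (P.cons (P.lf 0 13174816 0) (P.cons (P.lf 0 895798 0) (P.cons (P.lf 115351 0 0) P.nil))) (P.cons (P.cons (P.lf 0 713739 0) (P.cons (P.lf 90706 0 0) P.nil)) (P.cons (P.cons (P.lf 295901 0 0) P.nil) P.nil)))))) 80452)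
 (EL.cons 5 (TM.mk (P.cons (P.cons (P.lf 0 1145321696 0) (P.cons (P.lf 0 136042014 0) (P.cons (P.lf 17518278 0 0) (P.lf 1167884 0 0)))) (P.cons (P.cons (P.lf 0 76936332 0) (P.cons (P.lf 10911288 0 0) (P.cons (P.lf 0 1405056 0) (P.lf 0 93668 0)))) (P.cons (P.cons (P.lf 62429718 0 0) (P.cons (P.lf 5018422 0 0) (P.cons (P.lf 0 646224 0) (P.lf 0 43080 0)))) (P.cons (P.cons (P.lf 4541378 0 0) (P.cons (P.lf 0 425314 0) (P.cons (P.lf 54766 0 0) P.nil))) (P.cons (P.cons (P.lf 0 1575116 0) (P.cons (P.lf 0 91698 0) P.nil)) (P.cons (P.cons (P.lf 0 88112 0) P.nil) P.nil)))))) 59294)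
 EL.nil)))
noncomputable def S256_285_660_734_5 : EL := (EL.cons 0 (TM.mk (P.cons (P.cons (P.lf 28229319 0 0) (P.cons (P.lf 6706190 0 0) (P.cons (P.lf 0 465280 0) (P.cons (P.lf 0 160143 0) (P.cons (P.lf 0 233 0) (P.cons (P.lf 878 0 0) P.nil)))))) (P.cons (P.cons (P.lf 61611514 0 0) (P.cons (P.lf 13648150 0 0) (P.cons (P.lf 0 1005618 0) (P.cons (P.lf 0 310802 0) (P.cons (P.lf 0 441 0) P.nil))))) (P.cons (P.cons (P.lf 36482521 0 0) (P.cons (P.lf 6694261 0 0) (P.cons (P.lf 0 572953 0) (P.cons (P.lf 0 131916 0) P.nil)))) (P.cons (P.cons (P.lf 606332 0 0) (P.cons (P.lf 0 749193 0) (P.cons (P.lf 14579 0 0) P.nil))) (P.cons (P.cons (P.lf 0 2870024 0) (P.cons (P.lf 0 502672 0) P.nil)) (P.cons (P.cons (P.lf 0 294591 0) P.nil) P.nil)))))) 333479)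
 (EL.cons 1 (TM.mk (P.cons (P.cons (P.lf 0 132371956 0) (P.cons (P.lf 0 31446444 0) (P.cons (P.lf 2181778 0 0) (P.cons (P.lf 750946 0 0) (P.cons (P.lf 1095 0 0) (P.cons (P.lf 0 4126 0) P.nil)))))) (P.cons (P.cons (P.lf 0 155468701 0) (P.cons (P.lf 0 32298766 0) (P.cons (P.lf 2516161 0 0) (P.cons (P.lf 700413 0 0) (P.cons (P.lf 963 0 0) P.nil))))) (P.cons (P.cons (P.lf 0 12744438 0) (P.cons (P.lf 1550236 0 0) (P.cons (P.lf 123755 0 0) (P.cons (P.lf 0 96590 0) P.nil)))) (P.cons (P.cons (P.lf 12442080 0 0) (P.cons (P.lf 2473314 0 0) (P.cons (P.lf 0 232745 0) P.nil))) (P.cons (P.cons (P.lf 1727634 0 0) (P.cons (P.lf 0 18091 0) P.nil)) (P.cons (P.cons (P.lf 0 443169 0) P.nil) P.nil)))))) 370070)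
 (EL.cons 5 (TM.mk (P.cons (P.cons (P.lf 620714054 0 0) (P.cons (P.lf 147457592 0 0) (P.cons (P.lf 0 10230722 0) (P.cons (P.lf 0 3521322 0) (P.cons (P.lf 0 5144 0) (P.cons (P.lf 19360 0 0) P.nil)))))) (P.cons (P.cons (P.lf 103306048 0 0) (P.cons (P.lf 2809252 0 0) (P.cons (P.lf 0 1485594 0) (P.cons (P.lf 265318 0 0) (P.cons (P.lf 658 0 0) P.nil))))) (P.cons (P.cons (P.lf 0 51915028 0) (P.cons (P.lf 0 11891910 0) (P.cons (P.lf 1041484 0 0) (P.cons (P.lf 228242 0 0) P.nil)))) (P.cons (P.cons (P.lf 0 9844474 0) (P.cons (P.lf 0 257142 0) (P.cons (P.lf 102082 0 0) P.nil))) (P.cons (P.cons (P.lf 1972504 0 0) (P.cons (P.lf 464640 0 0) P.nil)) (P.cons (P.cons (P.lf 405742 0 0) P.nil) P.nil)))))) 307160)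
 EL.nil)))
noncomputable def S256_285_660_734_6 : EL := (EL.cons 12 (TM.mk (P.lf 8589934592 0 0) 0)
 (EL.cons 3 (TM.mk (P.cons (P.lf 454308690 0 0) (P.cons (P.lf 450679503 0 0) (P.cons (P.lf 0 5414782 0) (P.cons (P.lf 0 1756837 0) (P.cons (P.lf 35658 0 0) (P.cons (P.lf 6731 0 0) P.nil)))))) 269)
 (EL.cons 7 (TM.mk (P.cons (P.lf 0 2130328762 0) (P.cons (P.lf 34172730 0 0) (P.cons (P.lf 16813380 0 0) (P.cons (P.lf 0 270802 0) (P.cons (P.lf 0 64991 0) (P.cons (P.lf 1601 0 0) P.nil)))))) 330)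
 EL.nil)))
noncomputable def S256_285_660_734_7 : EL := (EL.cons 12 (TM.mk (P.cons (P.cons (P.lf 0 4655367272 0) (P.cons (P.lf 0 552967384 0) (P.cons (P.lf 71206216 0 0) (P.lf 4747080 0 0)))) (P.cons (P.cons (P.lf 0 462075694 0) (P.cons (P.lf 26610544 0 0) (P.cons (P.lf 0 3426664 0) (P.lf 0 228440 0)))) (P.cons (P.cons (P.lf 166646496 0 0) (P.cons (P.lf 12665832 0 0) (P.cons (P.lf 0 1630984 0) (P.lf 0 108728 0)))) (P.cons (P.cons (P.lf 18993088 0 0) (P.cons (P.lf 0 628632 0) (P.cons (P.lf 80944 0 0) P.nil))) (P.cons (P.cons (P.lf 0 2415896 0) (P.cons (P.lf 0 143800 0) P.nil)) (P.cons (P.cons (P.lf 0 191110 0) P.nil) P.nil)))))) 66206)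
 (EL.cons 3 (TM.mk (P.cons (P.cons (P.lf 0 1769711097 0) (P.cons (P.lf 58491220 0 0) (P.cons (P.lf 0 7531978 0) (P.lf 0 502130 0)))) (P.cons (P.cons (P.lf 842471680 0 0) (P.cons (P.lf 55209188 0 0) (P.cons (P.lf 0 7109346 0) (P.lf 0 473956 0)))) (P.cons (P.cons (P.lf 172654590 0 0) (P.cons (P.lf 0 4829190 0) (P.cons (P.lf 621858 0 0) (P.lf 41456 0 0)))) (P.cons (P.cons (P.lf 0 26808092 0) (P.cons (P.lf 0 1455194 0) (P.cons (P.lf 187384 0 0) P.nil))) (P.cons (P.cons (P.lf 0 2811539 0) (P.cons (P.lf 112618 0 0) P.nil)) (P.cons (P.cons (P.lf 419640 0 0) P.nil) P.nil)))))) 206912)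
 (EL.cons 7 (TM.mk (P.cons (P.cons (P.lf 1039025708 0 0) (P.cons (P.lf 143790163 0 0) (P.cons (P.lf 0 18516022 0) (P.lf 0 1234403 0)))) (P.cons (P.cons (P.lf 63880339 0 0) (P.cons (P.lf 4186231 0 0) (P.cons (P.lf 0 539064 0) (P.lf 0 35936 0)))) (P.cons (P.cons (P.lf 45288883 0 0) (P.cons (P.lf 1743794 0 0) (P.cons (P.lf 0 224548 0) (P.lf 0 14969 0)))) (P.cons (P.cons (P.lf 7023823 0 0) (P.cons (P.lf 0 339474 0) (P.cons (P.lf 43713 0 0) P.nil))) (P.cons (P.cons (P.lf 0 1604119 0) (P.cons (P.lf 0 72754 0) P.nil)) (P.cons (P.cons (P.lf 0 132091 0) P.nil) P.nil)))))) 150437)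
 (EL.cons 10 (TM.mk (P.cons (P.cons (P.lf 0 1802490564 0) (P.cons (P.lf 514570323 0 0) (P.cons (P.lf 38489031 0 0) (P.cons (P.lf 0 2593599 0) (P.lf 0 129678 0))))) (P.cons (P.cons (P.lf 57827712 0 0) (P.cons (P.lf 0 16508505 0) (P.cons (P.lf 0 1234809 0) (P.cons (P.lf 83208 0 0) (P.lf 4158 0 0))))) (P.cons (P.cons (P.lf 27988095 0 0) (P.cons (P.lf 0 7989969 0) (P.cons (P.lf 0 597636 0) (P.cons (P.lf 40272 0 0) P.nil)))) (P.cons (P.cons (P.lf 0 914652 0) (P.cons (P.lf 261111 0 0) (P.cons (P.lf 19530 0 0) P.nil))) (P.cons (P.cons (P.lf 0 214902 0) (P.cons (P.lf 61350 0 0) P.nil)) (P.cons (P.cons (P.lf 8088 0 0) P.nil) P.nil)))))) 12954)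
 EL.nil))))
noncomputable def S256_285_660_734_8 : EL := (EL.cons 12 (TM.mk (P.cons (P.cons (P.lf 2523004592 0 0) (P.cons (P.lf 599368070 0 0) (P.cons (P.lf 0 41584628 0) (P.cons (P.lf 0 14313056 0) (P.cons (P.lf 0 20912 0) (P.cons (P.lf 78700 0 0) P.nil)))))) (P.cons (P.cons (P.lf 500849462 0 0) (P.cons (P.lf 30647714 0 0) (P.cons (P.lf 0 7372592 0) (P.cons (P.lf 619242 0 0) (P.cons (P.lf 2012 0 0) P.nil))))) (P.cons (P.cons (P.lf 0 155773868 0) (P.cons (P.lf 0 38046916 0) (P.cons (P.lf 3351070 0 0) (P.cons (P.lf 725358 0 0) P.nil)))) (P.cons (P.cons (P.lf 0 38515564 0) (P.cons (P.lf 0 2094092 0) (P.cons (P.lf 429072 0 0) P.nil))) (P.cons (P.cons (P.lf 3808216 0 0) (P.cons (P.lf 1143654 0 0) P.nil)) (P.cons (P.cons (P.lf 1204000 0 0) P.nil) P.nil)))))) 788950)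
 (EL.cons 3 (TM.mk (P.cons (P.cons (P.lf 1784773466 0 0) (P.cons (P.lf 132747305 0 0) (P.cons (P.lf 0 26507279 0) (P.cons (P.lf 1284709 0 0) (P.cons (P.lf 5525 0 0) (P.cons (P.lf 0 20811 0) P.nil)))))) (P.cons (P.cons (P.lf 0 881631384 0) (P.cons (P.lf 0 218633089 0) (P.cons (P.lf 19721536 0 0) (P.cons (P.lf 4048521 0 0) (P.cons (P.lf 4950 0 0) P.nil))))) (P.cons (P.cons (P.lf 0 362894073 0) (P.cons (P.lf 0 19881708 0) (P.cons (P.lf 3980565 0 0) (P.cons (P.lf 0 195124 0) P.nil)))) (P.cons (P.cons (P.lf 46386372 0 0) (P.cons (P.lf 14011144 0 0) (P.cons (P.lf 0 1414614 0) P.nil))) (P.cons (P.cons (P.lf 19164807 0 0) (P.cons (P.lf 728520 0 0) P.nil)) (P.cons (P.cons (P.lf 0 1147839 0) P.nil) P.nil)))))) 2551122)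
 (EL.cons 7 (TM.mk (P.cons (P.cons (P.lf 0 500500120 0) (P.cons (P.lf 0 140983108 0) (P.cons (P.lf 8469968 0 0) (P.cons (P.lf 3704491 0 0) (P.cons (P.lf 5684 0 0) (P.cons (P.lf 0 21407 0) P.nil)))))) (P.cons (P.cons (P.lf 0 66849624 0) (P.cons (P.lf 0 16577832 0) (P.cons (P.lf 1495387 0 0) (P.cons (P.lf 306974 0 0) (P.cons (P.lf 372 0 0) P.nil))))) (P.cons (P.cons (P.lf 0 61210369 0) (P.cons (P.lf 0 9863183 0) (P.cons (P.lf 1055534 0 0) (P.cons (P.lf 139924 0 0) P.nil)))) (P.cons (P.cons (P.lf 0 15245352 0) (P.cons (P.lf 0 17826 0) (P.cons (P.lf 101629 0 0) P.nil))) (P.cons (P.cons (P.lf 3875782 0 0) (P.cons (P.lf 832065 0 0) P.nil)) (P.cons (P.cons (P.lf 1063631 0 0) P.nil) P.nil)))))) 1207395)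
 (EL.cons 10 (TM.mk (P.cons (P.cons (P.lf 1953741432 0 0) (P.cons (P.lf 0 325682418 0) (P.cons (P.lf 0 137851968 0) (P.cons (P.lf 4394682 0 0) (P.cons (P.lf 1681320 0 0) (P.cons (P.lf 16236 0 0) P.nil)))))) (P.cons (P.cons (P.lf 131241474 0 0) (P.cons (P.lf 0 56079444 0) (P.cons (P.lf 4907958 0 0) (P.cons (P.lf 61836 0 0) (P.cons (P.lf 0 114132 0) P.nil))))) (P.cons (P.cons (P.lf 0 106495422 0) (P.cons (P.lf 21841386 0 0) (P.cons (P.lf 5820252 0 0) (P.cons (P.lf 0 211644 0) P.nil)))) (P.cons (P.cons (P.lf 0 7746888 0) (P.cons (P.lf 2937084 0 0) (P.cons (P.lf 0 135120 0) P.nil))) (P.cons (P.cons (P.lf 2686902 0 0) (P.cons (P.lf 0 610626 0) P.nil)) (P.cons (P.cons (P.lf 150306 0 0) P.nil) P.nil)))))) 499176)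
 EL.nil))))
noncomputable def S256_285_660_734_9 : EL := (EL.cons 3 (TM.mk (P.cons (P.lf 454308690 0 0) (P.cons (P.lf 450679503 0 0) (P.cons (P.lf 0 5414782 0) (P.cons (P.lf 0 1756837 0) (P.cons (P.lf 35658 0 0) (P.cons (P.lf 6731 0 0) P.nil)))))) 269)
 (EL.cons 7 (TM.mk (P.cons (P.lf 0 2130328762 0) (P.cons (P.lf 34172730 0 0) (P.cons (P.lf 16813380 0 0) (P.cons (P.lf 0 270802 0) (P.cons (P.lf 0 64991 0) (P.cons (P.lf 1601 0 0) P.nil)))))) 330)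
 EL.nil))
noncomputable def S256_285_660_734_10 : EL := (EL.cons 3 (TM.mk (P.cons (P.cons (P.lf 0 246215355 0) (P.cons (P.lf 0 29245610 0) (P.cons (P.lf 3765989 0 0) (P.lf 251065 0 0)))) (P.cons (P.cons (P.lf 0 268686983 0) (P.cons (P.lf 0 27604594 0) (P.cons (P.lf 3554673 0 0) (P.lf 236978 0 0)))) (P.cons (P.cons (P.lf 0 12495006 0) (P.cons (P.lf 2414595 0 0) (P.cons (P.lf 0 310929 0) (P.lf 0 20728 0)))) (P.cons (P.cons (P.lf 10991194 0 0) (P.cons (P.lf 727597 0 0) (P.cons (P.lf 0 93692 0) P.nil))) (P.cons (P.cons (P.lf 838849 0 0) (P.cons (P.lf 0 56309 0) P.nil)) (P.cons (P.cons (P.lf 0 188481 0) P.nil) P.nil)))))) 49774)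
 (EL.cons 7 (TM.mk (P.cons (P.cons (P.lf 1154544623 0 0) (P.cons (P.lf 137137519 0 0) (P.cons (P.lf 0 17659348 0) (P.lf 0 1177289 0)))) (P.cons (P.cons (P.lf 96075997 0 0) (P.cons (P.lf 0 8799323 0) (P.cons (P.lf 1133097 0 0) (P.lf 75538 0 0)))) (P.cons (P.cons (P.lf 0 52279172 0) (P.cons (P.lf 0 4117642 0) (P.cons (P.lf 530231 0 0) (P.lf 35347 0 0)))) (P.cons (P.cons (P.lf 0 4805057 0) (P.cons (P.lf 275808 0 0) (P.cons (P.lf 0 35514 0) P.nil))) (P.cons (P.cons (P.lf 1050680 0 0) (P.cons (P.lf 61298 0 0) P.nil)) (P.cons (P.cons (P.lf 72335 0 0) P.nil) P.nil)))))) 33793)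
 EL.nil))
noncomputable def S256_285_660_734_11 : EL := (EL.cons 3 (TM.mk (P.cons (P.cons (P.lf 133437908 0 0) (P.cons (P.lf 31699673 0 0) (P.cons (P.lf 0 2199347 0) (P.cons (P.lf 0 756995 0) (P.cons (P.lf 0 1105 0) (P.cons (P.lf 4161 0 0) P.nil)))))) (P.cons (P.cons (P.lf 158861130 0 0) (P.cons (P.lf 33067355 0 0) (P.cons (P.lf 0 2571704 0) (P.cons (P.lf 0 718197 0) (P.cons (P.lf 0 990 0) P.nil))))) (P.cons (P.cons (P.lf 16448511 0 0) (P.cons (P.lf 0 782100 0) (P.cons (P.lf 0 183363 0) (P.cons (P.lf 79874 0 0) P.nil)))) (P.cons (P.cons (P.lf 0 11041590 0) (P.cons (P.lf 0 2248826 0) (P.cons (P.lf 211662 0 0) P.nil))) (P.cons (P.cons (P.lf 0 1813113 0) (P.cons (P.lf 0 29178 0) P.nil)) (P.cons (P.cons (P.lf 323673 0 0) P.nil) P.nil)))))) 305804)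
 (EL.cons 7 (TM.mk (P.cons (P.cons (P.lf 0 625712476 0) (P.cons (P.lf 0 148645024 0) (P.cons (P.lf 10313108 0 0) (P.cons (P.lf 3549679 0 0) (P.cons (P.lf 5186 0 0) (P.cons (P.lf 0 19517 0) P.nil)))))) (P.cons (P.cons (P.lf 0 114175032 0) (P.cons (P.lf 0 5216298 0) (P.cons (P.lf 1662991 0 0) (P.cons (P.lf 0 210514 0) (P.cons (P.lf 0 582 0) P.nil))))) (P.cons (P.cons (P.lf 45563231 0 0) (P.cons (P.lf 10730833 0 0) (P.cons (P.lf 0 941800 0) (P.cons (P.lf 0 205442 0) P.nil)))) (P.cons (P.cons (P.lf 9833058 0 0) (P.cons (P.lf 409074 0 0) (P.cons (P.lf 0 106199 0) P.nil))) (P.cons (P.cons (P.lf 0 1437452 0) (P.cons (P.lf 0 371931 0) P.nil)) (P.cons (P.cons (P.lf 0 357241 0) P.nil) P.nil)))))) 247541)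
 EL.nil))
noncomputable def S256_285_660_734_12 : EL := (EL.cons 4 (TM.mk (P.cons (P.lf 0 454308690 0) (P.cons (P.lf 0 450679503 0) (P.cons (P.lf 5414782 0 0) (P.cons (P.lf 1756837 0 0) (P.cons (P.lf 0 35658 0) (P.cons (P.lf 0 6731 0) P.nil)))))) 269)
 (EL.cons 8 (TM.mk (P.cons (P.lf 2130328762 0 0) (P.cons (P.lf 0 34172730 0) (P.cons (P.lf 0 16813380 0) (P.cons (P.lf 270802 0 0) (P.cons (P.lf 64991 0 0) (P.cons (P.lf 0 1601 0) P.nil)))))) 330)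
 EL.nil))
noncomputable def S256_285_660_734_13 : EL := (EL.cons 4 (TM.mk (P.cons (P.cons (P.lf 246215355 0 0) (P.cons (P.lf 29245610 0 0) (P.cons (P.lf 0 3765989 0) (P.lf 0 251065 0)))) (P.cons (P.cons (P.lf 268686983 0 0) (P.cons (P.lf 27604594 0 0) (P.cons (P.lf 0 3554673 0) (P.lf 0 236978 0)))) (P.cons (P.cons (P.lf 12495006 0 0) (P.cons (P.lf 0 2414595 0) (P.cons (P.lf 310929 0 0) (P.lf 20728 0 0)))) (P.cons (P.cons (P.lf 0 10991194 0) (P.cons (P.lf 0 727597 0) (P.cons (P.lf 93692 0 0) P.nil))) (P.cons (P.cons (P.lf 0 838849 0) (P.cons (P.lf 56309 0 0) P.nil)) (P.cons (P.cons (P.lf 188481 0 0) P.nil) P.nil)))))) 49774)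
 (EL.cons 8 (TM.mk (P.cons (P.cons (P.lf 0 1154544623 0) (P.cons (P.lf 0 137137519 0) (P.cons (P.lf 17659348 0 0) (P.lf 1177289 0 0)))) (P.cons (P.cons (P.lf 0 96075997 0) (P.cons (P.lf 8799323 0 0) (P.cons (P.lf 0 1133097 0) (P.lf 0 75538 0)))) (P.cons (P.cons (P.lf 52279172 0 0) (P.cons (P.lf 4117642 0 0) (P.cons (P.lf 0 530231 0) (P.lf 0 35347 0)))) (P.cons (P.cons (P.lf 4805057 0 0) (P.cons (P.lf 0 275808 0) (P.cons (P.lf 35514 0 0) P.nil))) (P.cons (P.cons (P.lf 0 1050680 0) (P.cons (P.lf 0 61298 0) P.nil)) (P.cons (P.cons (P.lf 0 72335 0) P.nil) P.nil)))))) 33793)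
 EL.nil))
noncomputable def S256_285_660_734_14 : EL := (EL.cons 4 (TM.mk (P.cons (P.cons (P.lf 0 133437908 0) (P.cons (P.lf 0 31699673 0) (P.cons (P.lf 2199347 0 0) (P.cons (P.lf 756995 0 0) (P.cons (P.lf 1105 0 0) (P.cons (P.lf 0 4161 0) P.nil)))))) (P.cons (P.cons (P.lf 0 158861130 0) (P.cons (P.lf 0 33067355 0) (P.cons (P.lf 2571704 0 0) (P.cons (P.lf 718197 0 0) (P.cons (P.lf 990 0 0) P.nil))))) (P.cons (P.cons (P.lf 0 16448511 0) (P.cons (P.lf 782100 0 0) (P.cons (P.lf 183363 0 0) (P.cons (P.lf 0 79874 0) P.nil)))) (P.cons (P.cons (P.lf 11041590 0 0) (P.cons (P.lf 2248826 0 0) (P.cons (P.lf 0 211662 0) P.nil))) (P.cons (P.cons (P.lf 1813113 0 0) (P.cons (P.lf 29178 0 0) P.nil)) (P.cons (P.cons (P.lf 0 323673 0) P.nil) P.nil)))))) 305804)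
 (EL.cons 8 (TM.mk (P.cons (P.cons (P.lf 625712476 0 0) (P.cons (P.lf 148645024 0 0) (P.cons (P.lf 0 10313108 0) (P.cons (P.lf 0 3549679 0) (P.cons (P.lf 0 5186 0) (P.cons (P.lf 19517 0 0) P.nil)))))) (P.cons (P.cons (P.lf 114175032 0 0) (P.cons (P.lf 5216298 0 0) (P.cons (P.lf 0 1662991 0) (P.cons (P.lf 210514 0 0) (P.cons (P.lf 582 0 0) P.nil))))) (P.cons (P.cons (P.lf 0 45563231 0) (P.cons (P.lf 0 10730833 0) (P.cons (P.lf 941800 0 0) (P.cons (P.lf 205442 0 0) P.nil)))) (P.cons (P.cons (P.lf 0 9833058 0) (P.cons (P.lf 0 409074 0) (P.cons (P.lf 106199 0 0) P.nil))) (P.cons (P.cons (P.lf 1437452 0 0) (P.cons (P.lf 371931 0 0) P.nil)) (P.cons (P.cons (P.lf 357241 0 0) P.nil) P.nil)))))) 247541)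
 EL.nil))
noncomputable def S256_285_660_734_15 : EL := (EL.cons 4 (TM.mk (P.cons (P.lf 0 51259096 0) (P.cons (P.lf 0 101699239 0) (P.cons (P.lf 0 49221527 0) (P.cons (P.lf 1608569 0 0) (P.cons (P.lf 377947 0 0) (P.cons (P.lf 0 14225 0) P.nil)))))) 2557)
 (EL.cons 8 (TM.mk (P.cons (P.lf 240362403 0 0) (P.cons (P.lf 234586631 0 0) (P.cons (P.lf 0 8586714 0) (P.cons (P.lf 0 2734865 0) (P.cons (P.lf 94029 0 0) (P.cons (P.lf 17324 0 0) P.nil)))))) 877)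
 EL.nil))
noncomputable def S256_285_660_734_16 : EL := (EL.cons 4 (TM.mk (P.cons (P.cons (P.lf 27780179 0 0) (P.cons (P.lf 3299745 0 0) (P.cons (P.lf 0 424911 0) (P.lf 0 28326 0)))) (P.cons (P.cons (P.lf 57873885 0 0) (P.cons (P.lf 6387979 0 0) (P.cons (P.lf 0 822586 0) (P.lf 0 54839 0)))) (P.cons (P.cons (P.lf 31152144 0 0) (P.cons (P.lf 2777947 0 0) (P.cons (P.lf 0 357719 0) (P.lf 0 23847 0)))) (P.cons (P.cons (P.lf 0 310339 0) (P.cons (P.lf 0 402235 0) (P.cons (P.lf 51795 0 0) P.nil))) (P.cons (P.cons (P.lf 0 1456716 0) (P.cons (P.lf 0 83622 0) P.nil)) (P.cons (P.cons (P.lf 0 60504 0) P.nil) P.nil)))))) 64999)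
 (EL.cons 8 (TM.mk (P.cons (P.cons (P.lf 0 130265865 0) (P.cons (P.lf 0 15473059 0) (P.cons (P.lf 1992482 0 0) (P.lf 132831 0 0)))) (P.cons (P.cons (P.lf 0 140065391 0) (P.cons (P.lf 0 14356637 0) (P.cons (P.lf 1848719 0 0) (P.lf 123248 0 0)))) (P.cons (P.cons (P.lf 0 3302343 0) (P.cons (P.lf 1633893 0 0) (P.cons (P.lf 0 210397 0) (P.lf 0 14026 0)))) (P.cons (P.cons (P.lf 7026569 0 0) (P.cons (P.lf 477759 0 0) (P.cons (P.lf 0 61521 0) P.nil))) (P.cons (P.cons (P.lf 380661 0 0) (P.cons (P.lf 0 48377 0) P.nil)) (P.cons (P.cons (P.lf 0 157814 0) P.nil) P.nil)))))) 42898)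
 EL.nil))
noncomputable def S256_285_660_734_17 : EL := (EL.cons 4 (TM.mk (P.cons (P.cons (P.lf 0 15055636 0) (P.cons (P.lf 0 3576634 0) (P.cons (P.lf 248149 0 0) (P.cons (P.lf 85410 0 0) (P.cons (P.lf 124 0 0) (P.cons (P.lf 0 468 0) P.nil)))))) (P.cons (P.cons (P.lf 0 32859474 0) (P.cons (P.lf 0 7279013 0) (P.cons (P.lf 536329 0 0) (P.cons (P.lf 165761 0 0) (P.cons (P.lf 235 0 0) P.nil))))) (P.cons (P.cons (P.lf 0 19457344 0) (P.cons (P.lf 0 3570272 0) (P.cons (P.lf 305575 0 0) (P.cons (P.lf 70355 0 0) P.nil)))) (P.cons (P.cons (P.lf 0 323377 0) (P.cons (P.lf 399570 0 0) (P.cons (P.lf 0 7775 0) P.nil))) (P.cons (P.cons (P.lf 1530679 0 0) (P.cons (P.lf 268092 0 0) P.nil)) (P.cons (P.cons (P.lf 157115 0 0) P.nil) P.nil)))))) 177865)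
 (EL.cons 8 (TM.mk (P.cons (P.cons (P.lf 70598377 0 0) (P.cons (P.lf 16771437 0 0) (P.cons (P.lf 0 1163615 0) (P.cons (P.lf 0 400505 0) (P.cons (P.lf 0 584 0) (P.cons (P.lf 2201 0 0) P.nil)))))) (P.cons (P.cons (P.lf 82916641 0 0) (P.cons (P.lf 17226009 0 0) (P.cons (P.lf 0 1341953 0) (P.cons (P.lf 0 373554 0) (P.cons (P.lf 0 514 0) P.nil))))) (P.cons (P.cons (P.lf 6797034 0 0) (P.cons (P.lf 0 826793 0) (P.cons (P.lf 0 66003 0) (P.cons (P.lf 51515 0 0) P.nil)))) (P.cons (P.cons (P.lf 0 6635776 0) (P.cons (P.lf 0 1319101 0) (P.cons (P.lf 124131 0 0) P.nil))) (P.cons (P.cons (P.lf 0 921405 0) (P.cons (P.lf 9649 0 0) P.nil)) (P.cons (P.cons (P.lf 236357 0 0) P.nil) P.nil)))))) 197359)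
 EL.nil))
noncomputable def S256_285_660_734_18 : EL := (EL.cons 4 (TM.mk (P.cons (P.lf 0 5783501 0) (P.cons (P.lf 0 17211901 0) (P.cons (P.lf 0 16867610 0) (P.cons (P.lf 0 5168619 0) (P.cons (P.lf 332796 0 0) (P.cons (P.lf 59024 0 0) P.nil)))))) 4306)
 (EL.cons 8 (TM.mk (P.cons (P.lf 27119797 0 0) (P.cons (P.lf 53371278 0 0) (P.cons (P.lf 24964624 0 0) (P.cons (P.lf 0 1690000 0) (P.cons (P.lf 0 384174 0) (P.cons (P.lf 22382 0 0) P.nil)))))) 4185)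
 EL.nil))
noncomputable def S256_285_660_734_19 : EL := (EL.cons 4 (TM.mk (P.cons (P.cons (P.lf 3134402 0 0) (P.cons (P.lf 372305 0 0) (P.cons (P.lf 0 47941 0) (P.lf 0 3195 0)))) (P.cons (P.cons (P.lf 9639204 0 0) (P.cons (P.lf 1090080 0 0) (P.cons (P.lf 0 140370 0) (P.lf 0 9357 0)))) (P.cons (P.cons (P.lf 9955177 0 0) (P.cons (P.lf 1023985 0 0) (P.cons (P.lf 0 131859 0) (P.lf 0 8790 0)))) (P.cons (P.cons (P.lf 3361815 0 0) (P.cons (P.lf 255513 0 0) (P.cons (P.lf 0 32902 0) P.nil))) (P.cons (P.cons (P.lf 0 265992 0) (P.cons (P.lf 0 60949 0) P.nil)) (P.cons (P.cons (P.lf 0 182488 0) P.nil) P.nil)))))) 63426)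
 (EL.cons 8 (TM.mk (P.cons (P.cons (P.lf 0 14697739 0) (P.cons (P.lf 0 1745806 0) (P.cons (P.lf 224809 0 0) (P.lf 14986 0 0)))) (P.cons (P.cons (P.lf 0 30383735 0) (P.cons (P.lf 0 3351702 0) (P.cons (P.lf 431602 0 0) (P.lf 28773 0 0)))) (P.cons (P.cons (P.lf 0 15874584 0) (P.cons (P.lf 0 1401744 0) (P.cons (P.lf 180503 0 0) (P.lf 12033 0 0)))) (P.cons (P.cons (P.lf 668369 0 0) (P.cons (P.lf 262839 0 0) (P.cons (P.lf 0 33846 0) P.nil))) (P.cons (P.cons (P.lf 893815 0 0) (P.cons (P.lf 51945 0 0) P.nil)) (P.cons (P.cons (P.lf 15334 0 0) P.nil) P.nil)))))) 48696)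
 EL.nil))
noncomputable def S256_285_660_734_20 : EL := (EL.cons 4 (TM.mk (P.cons (P.cons (P.lf 0 1698708 0) (P.cons (P.lf 0 403546 0) (P.cons (P.lf 27998 0 0) (P.cons (P.lf 9636 0 0) (P.cons (P.lf 14 0 0) (P.cons (P.lf 0 52 0) P.nil)))))) (P.cons (P.cons (P.lf 0 5392633 0) (P.cons (P.lf 0 1221605 0) (P.cons (P.lf 88288 0 0) (P.cons (P.lf 28261 0 0) (P.cons (P.lf 40 0 0) P.nil))))) (P.cons (P.cons (P.lf 0 5852979 0) (P.cons (P.lf 0 1212740 0) (P.cons (P.lf 94173 0 0) (P.cons (P.lf 26376 0 0) P.nil)))) (P.cons (P.cons (P.lf 0 2163539 0) (P.cons (P.lf 0 343178 0) (P.cons (P.lf 32494 0 0) P.nil))) (P.cons (P.cons (P.lf 176879 0 0) (P.cons (P.lf 82916 0 0) P.nil)) (P.cons (P.cons (P.lf 197659 0 0) P.nil) P.nil)))))) 130121)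
 (EL.cons 8 (TM.mk (P.cons (P.cons (P.lf 7965529 0 0) (P.cons (P.lf 1892300 0 0) (P.cons (P.lf 0 131289 0) (P.cons (P.lf 0 45188 0) (P.cons (P.lf 0 65 0) (P.cons (P.lf 248 0 0) P.nil)))))) (P.cons (P.cons (P.lf 17257280 0 0) (P.cons (P.lf 3820774 0 0) (P.cons (P.lf 0 281651 0) (P.cons (P.lf 0 86974 0) (P.cons (P.lf 0 123 0) P.nil))))) (P.cons (P.cons (P.lf 9952611 0 0) (P.cons (P.lf 1812223 0 0) (P.cons (P.lf 0 156083 0) (P.cons (P.lf 0 35459 0) P.nil)))) (P.cons (P.cons (P.lf 0 130239 0) (P.cons (P.lf 0 271856 0) (P.cons (P.lf 8930 0 0) P.nil))) (P.cons (P.cons (P.lf 0 891379 0) (P.cons (P.lf 0 152810 0) P.nil)) (P.cons (P.cons (P.lf 0 69652 0) P.nil) P.nil)))))) 113881)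
 EL.nil))
noncomputable def S256_285_660_734_21 : EL := (EL.cons 4 (TM.mk (P.cons (P.cons (P.lf 1523495742 0 0) (P.cons (P.lf 0 87736830 0) (P.cons (P.lf 11297967 0 0) (P.lf 753195 0 0)))) (P.cons (P.cons (P.lf 0 1111158663 0) (P.cons (P.lf 0 82813782 0) (P.cons (P.lf 10664019 0 0) (P.lf 710934 0 0)))) (P.cons (P.cons (P.lf 0 185149596 0) (P.cons (P.lf 7243785 0 0) (P.cons (P.lf 0 932787 0) (P.lf 0 62184 0)))) (P.cons (P.cons (P.lf 37799286 0 0) (P.cons (P.lf 2182791 0 0) (P.cons (P.lf 0 281076 0) P.nil))) (P.cons (P.cons (P.lf 3650388 0 0) (P.cons (P.lf 0 168927 0) P.nil)) (P.cons (P.cons (P.lf 0 608121 0) P.nil) P.nil)))))) 157119)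
 (EL.cons 8 (TM.mk (P.cons (P.cons (P.lf 115518915 0 0) (P.cons (P.lf 0 6652644 0) (P.cons (P.lf 856674 0 0) (P.lf 57114 0 0)))) (P.cons (P.cons (P.lf 32195658 0 0) (P.cons (P.lf 0 12985554 0) (P.cons (P.lf 1672161 0 0) (P.lf 111474 0 0)))) (P.cons (P.cons (P.lf 0 97568055 0) (P.cons (P.lf 0 5861436 0) (P.cons (P.lf 754779 0 0) (P.lf 50316 0 0)))) (P.cons (P.cons (P.lf 0 11828880 0) (P.cons (P.lf 615282 0 0) (P.cons (P.lf 0 79227 0) P.nil))) (P.cons (P.cons (P.lf 2654799 0 0) (P.cons (P.lf 134052 0 0) P.nil)) (P.cons (P.cons (P.lf 204426 0 0) P.nil) P.nil)))))) 116625)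
 (EL.cons 11 (TM.mk (P.cons (P.cons (P.lf 1802490564 0 0) (P.cons (P.lf 0 514570323 0) (P.cons (P.lf 0 38489031 0) (P.cons (P.lf 2593599 0 0) (P.lf 129678 0 0))))) (P.cons (P.cons (P.lf 0 57827712 0) (P.cons (P.lf 16508505 0 0) (P.cons (P.lf 1234809 0 0) (P.cons (P.lf 0 83208 0) (P.lf 0 4158 0))))) (P.cons (P.cons (P.lf 0 27988095 0) (P.cons (P.lf 7989969 0 0) (P.cons (P.lf 597636 0 0) (P.cons (P.lf 0 40272 0) P.nil)))) (P.cons (P.cons (P.lf 914652 0 0) (P.cons (P.lf 0 261111 0) (P.cons (P.lf 0 19530 0) P.nil))) (P.cons (P.cons (P.lf 214902 0 0) (P.cons (P.lf 0 61350 0) P.nil)) (P.cons (P.cons (P.lf 0 8088 0) P.nil) P.nil)))))) 12954)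
 EL.nil)))
noncomputable def S256_285_660_734_22 : EL := (EL.cons 4 (TM.mk (P.cons (P.cons (P.lf 0 825667779 0) (P.cons (P.lf 0 50523816 0) (P.cons (P.lf 12153966 0 0) (P.cons (P.lf 0 1020852 0) (P.cons (P.lf 0 3315 0) (P.cons (P.lf 12486 0 0) P.nil)))))) (P.cons (P.cons (P.lf 520246257 0 0) (P.cons (P.lf 125850222 0 0) (P.cons (P.lf 0 11146620 0) (P.cons (P.lf 0 2383359 0) (P.cons (P.lf 0 2970 0) P.nil))))) (P.cons (P.cons (P.lf 189671292 0 0) (P.cons (P.lf 9549804 0 0) (P.cons (P.lf 0 2081964 0) (P.cons (P.lf 137499 0 0) P.nil)))) (P.cons (P.cons (P.lf 0 28713981 0) (P.cons (P.lf 0 8129985 0) (P.cons (P.lf 813138 0 0) P.nil))) (P.cons (P.cons (P.lf 0 10488960 0) (P.cons (P.lf 0 378849 0) P.nil)) (P.cons (P.cons (P.lf 735756 0 0) P.nil) P.nil)))))) 1122648)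
 (EL.cons 8 (TM.mk (P.cons (P.cons (P.lf 0 62606178 0) (P.cons (P.lf 0 3830958 0) (P.cons (P.lf 921570 0 0) (P.cons (P.lf 0 77406 0) (P.cons (P.lf 0 249 0) (P.cons (P.lf 945 0 0) P.nil)))))) (P.cons (P.cons (P.lf 0 23662704 0) (P.cons (P.lf 5680767 0 0) (P.cons (P.lf 83802 0 0) (P.cons (P.lf 0 258744 0) (P.cons (P.lf 0 477 0) P.nil))))) (P.cons (P.cons (P.lf 53386800 0 0) (P.cons (P.lf 10297008 0 0) (P.cons (P.lf 0 998667 0) (P.cons (P.lf 0 172683 0) P.nil)))) (P.cons (P.cons (P.lf 12539205 0 0) (P.cons (P.lf 213450 0 0) (P.cons (P.lf 0 103914 0) P.nil))) (P.cons (P.cons (P.lf 0 2656617 0) (P.cons (P.lf 0 601998 0) P.nil)) (P.cons (P.cons (P.lf 0 710436 0) P.nil) P.nil)))))) 479916)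
 (EL.cons 11 (TM.mk (P.cons (P.cons (P.lf 0 976870716 0) (P.cons (P.lf 162841209 0 0) (P.cons (P.lf 68925984 0 0) (P.cons (P.lf 0 2197341 0) (P.cons (P.lf 0 840660 0) (P.cons (P.lf 0 8118 0) P.nil)))))) (P.cons (P.cons (P.lf 0 65620737 0) (P.cons (P.lf 28039722 0 0) (P.cons (P.lf 0 2453979 0) (P.cons (P.lf 0 30918 0) (P.cons (P.lf 57066 0 0) P.nil))))) (P.cons (P.cons (P.lf 53247711 0 0) (P.cons (P.lf 0 10920693 0) (P.cons (P.lf 0 2910126 0) (P.cons (P.lf 105822 0 0) P.nil)))) (P.cons (P.cons (P.lf 3873444 0 0) (P.cons (P.lf 0 1468542 0) (P.cons (P.lf 67560 0 0) P.nil))) (P.cons (P.cons (P.lf 0 1343451 0) (P.cons (P.lf 305313 0 0) P.nil)) (P.cons (P.cons (P.lf 0 75153 0) P.nil) P.nil)))))) 249588)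
 EL.nil)))
noncomputable def S256_285_660_734_23 : EL := (EL.cons 4 (TM.mk (P.cons (P.cons (P.lf 171894171 0 0) (P.cons (P.lf 0 9899238 0) (P.cons (P.lf 1274733 0 0) (P.lf 84981 0 0)))) (P.cons (P.cons (P.lf 45150336 0 0) (P.cons (P.lf 0 19163937 0) (P.cons (P.lf 2467761 0 0) (P.lf 164517 0 0)))) (P.cons (P.cons (P.lf 0 147308136 0) (P.cons (P.lf 0 8333841 0) (P.cons (P.lf 1073157 0 0) (P.lf 71544 0 0)))) (P.cons (P.cons (P.lf 0 15628941 0) (P.cons (P.lf 1206705 0 0) (P.cons (P.lf 0 155388 0) P.nil))) (P.cons (P.cons (P.lf 5389938 0 0) (P.cons (P.lf 250869 0 0) P.nil)) (P.cons (P.cons (P.lf 362622 0 0) P.nil) P.nil)))))) 206820)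
 (EL.cons 8 (TM.mk (P.cons (P.cons (P.lf 13033857 0 0) (P.cons (P.lf 0 750609 0) (P.cons (P.lf 96657 0 0) (P.lf 6444 0 0)))) (P.cons (P.cons (P.lf 16562334 0 0) (P.cons (P.lf 0 2209755 0) (P.cons (P.lf 284553 0 0) (P.lf 18969 0 0)))) (P.cons (P.cons (P.lf 0 7560252 0) (P.cons (P.lf 0 2105832 0) (P.cons (P.lf 271167 0 0) (P.lf 18075 0 0)))) (P.cons (P.cons (P.lf 0 12348879 0) (P.cons (P.lf 0 566268 0) (P.cons (P.lf 72918 0 0) P.nil))) (P.cons (P.cons (P.lf 0 906255 0) (P.cons (P.lf 97479 0 0) P.nil)) (P.cons (P.cons (P.lf 379164 0 0) P.nil) P.nil)))))) 97044)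
 (EL.cons 11 (TM.mk (P.cons (P.cons (P.lf 203372817 0 0) (P.cons (P.lf 0 58058343 0) (P.cons (P.lf 0 4342668 0) (P.cons (P.lf 292632 0 0) (P.lf 14631 0 0))))) (P.cons (P.cons (P.lf 195223569 0 0) (P.cons (P.lf 0 55731915 0) (P.cons (P.lf 0 4168656 0) (P.cons (P.lf 280905 0 0) (P.lf 14043 0 0))))) (P.cons (P.cons (P.lf 0 12054315 0) (P.cons (P.lf 3441234 0 0) (P.cons (P.lf 257397 0 0) (P.cons (P.lf 0 17343 0) P.nil)))) (P.cons (P.cons (P.lf 0 3738126 0) (P.cons (P.lf 1067148 0 0) (P.cons (P.lf 79821 0 0) P.nil))) (P.cons (P.cons (P.lf 205452 0 0) (P.cons (P.lf 0 58650 0) P.nil)) (P.cons (P.cons (P.lf 36621 0 0) P.nil) P.nil)))))) 28152)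
 EL.nil)))
noncomputable def S256_285_660_734_24 : EL := (EL.cons 4 (TM.mk (P.cons (P.cons (P.lf 0 93159090 0) (P.cons (P.lf 0 5700540 0) (P.cons (P.lf 1371315 0 0) (P.cons (P.lf 0 115179 0) (P.cons (P.lf 0 372 0) (P.cons (P.lf 1407 0 0) P.nil)))))) (P.cons (P.cons (P.lf 0 33716148 0) (P.cons (P.lf 8544522 0 0) (P.cons (P.lf 102702 0 0) (P.cons (P.lf 0 383172 0) (P.cons (P.lf 0 705 0) P.nil))))) (P.cons (P.cons (P.lf 80740563 0 0) (P.cons (P.lf 15231531 0 0) (P.cons (P.lf 0 1498860 0) (P.cons (P.lf 0 249876 0) P.nil)))) (P.cons (P.cons (P.lf 17650299 0 0) (P.cons (P.lf 4392 0 0) (P.cons (P.lf 0 131595 0) P.nil))) (P.cons (P.cons (P.lf 0 4886709 0) (P.cons (P.lf 0 1020912 0) P.nil)) (P.cons (P.cons (P.lf 0 1131903 0) P.nil) P.nil)))))) 834795)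
 (EL.cons 8 (TM.mk (P.cons (P.cons (P.lf 0 7063776 0) (P.cons (P.lf 0 432240 0) (P.cons (P.lf 103977 0 0) (P.cons (P.lf 0 8733 0) (P.cons (P.lf 0 27 0) (P.cons (P.lf 105 0 0) P.nil)))))) (P.cons (P.cons (P.lf 0 9677184 0) (P.cons (P.lf 212163 0 0) (P.cons (P.lf 112602 0 0) (P.cons (P.lf 0 37857 0) (P.cons (P.lf 0 81 0) P.nil))))) (P.cons (P.cons (P.lf 3459252 0 0) (P.cons (P.lf 1802784 0 0) (P.cons (P.lf 0 104535 0) (P.cons (P.lf 0 48339 0) P.nil)))) (P.cons (P.cons (P.lf 7449369 0 0) (P.cons (P.lf 1170633 0 0) (P.cons (P.lf 0 124017 0) P.nil))) (P.cons (P.cons (P.lf 1041714 0 0) (P.cons (P.lf 0 60390 0) P.nil)) (P.cons (P.cons (P.lf 0 417975 0) P.nil) P.nil)))))) 295395)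
 (EL.cons 11 (TM.mk (P.cons (P.cons (P.lf 0 110219133 0) (P.cons (P.lf 18373173 0 0) (P.cons (P.lf 7776834 0 0) (P.cons (P.lf 0 247923 0) (P.cons (P.lf 0 94848 0) (P.cons (P.lf 0 915 0) P.nil)))))) (P.cons (P.cons (P.lf 0 116742570 0) (P.cons (P.lf 21390090 0 0) (P.cons (P.lf 7437831 0 0) (P.cons (P.lf 0 249429 0) (P.cons (P.lf 0 87654 0) P.nil))))) (P.cons (P.cons (P.lf 0 23214 0) (P.cons (P.lf 1687260 0 0) (P.cons (P.lf 0 695703 0) (P.cons (P.lf 11433 0 0) P.nil)))) (P.cons (P.cons (P.lf 6911385 0 0) (P.cons (P.lf 0 1496775 0) (P.cons (P.lf 0 344871 0) P.nil))) (P.cons (P.cons (P.lf 230337 0 0) (P.cons (P.lf 0 126027 0) P.nil)) (P.cons (P.cons (P.lf 0 189504 0) P.nil) P.nil)))))) 229140)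
 EL.nil)))
noncomputable def S256_285_660_734_25 : EL := (EL.cons 4 (TM.mk (P.cons (P.cons (P.lf 19394610 0 0) (P.cons (P.lf 0 1116918 0) (P.cons (P.lf 143826 0 0) (P.lf 9588 0 0)))) (P.cons (P.cons (P.lf 24333936 0 0) (P.cons (P.lf 0 3270240 0) (P.cons (P.lf 421110 0 0) (P.lf 28074 0 0)))) (P.cons (P.cons (P.lf 0 11798193 0) (P.cons (P.lf 0 3071955 0) (P.cons (P.lf 395577 0 0) (P.lf 26370 0 0)))) (P.cons (P.cons (P.lf 0 18386937 0) (P.cons (P.lf 0 766542 0) (P.cons (P.lf 98706 0 0) P.nil))) (P.cons (P.cons (P.lf 0 961248 0) (P.cons (P.lf 182847 0 0) P.nil)) (P.cons (P.cons (P.lf 730173 0 0) P.nil) P.nil)))))) 207117)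
 (EL.cons 8 (TM.mk (P.cons (P.cons (P.lf 1470594 0 0) (P.cons (P.lf 0 84690 0) (P.cons (P.lf 10905 0 0) (P.lf 726 0 0)))) (P.cons (P.cons (P.lf 3327555 0 0) (P.cons (P.lf 0 333336 0) (P.cons (P.lf 42924 0 0) (P.lf 2859 0 0)))) (P.cons (P.cons (P.lf 983238 0 0) (P.cons (P.lf 0 483921 0) (P.cons (P.lf 62313 0 0) (P.lf 4152 0 0)))) (P.cons (P.cons (P.lf 0 2267466 0) (P.cons (P.lf 0 296292 0) (P.cons (P.lf 38151 0 0) P.nil))) (P.cons (P.cons (P.lf 0 1481373 0) (P.cons (P.lf 0 48591 0) P.nil)) (P.cons (P.cons (P.lf 0 38580 0) P.nil) P.nil)))))) 97185)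
 (EL.cons 11 (TM.mk (P.cons (P.cons (P.lf 22946307 0 0) (P.cons (P.lf 0 6550650 0) (P.cons (P.lf 0 489978 0) (P.cons (P.lf 33015 0 0) (P.lf 1650 0 0))))) (P.cons (P.cons (P.lf 44789841 0 0) (P.cons (P.lf 0 12786486 0) (P.cons (P.lf 0 956406 0) (P.cons (P.lf 64446 0 0) (P.lf 3222 0 0))))) (P.cons (P.cons (P.lf 20217312 0 0) (P.cons (P.lf 0 5771586 0) (P.cons (P.lf 0 431703 0) (P.cons (P.lf 29088 0 0) P.nil)))) (P.cons (P.cons (P.lf 0 2122242 0) (P.cons (P.lf 605850 0 0) (P.cons (P.lf 45315 0 0) P.nil))) (P.cons (P.cons (P.lf 0 462384 0) (P.cons (P.lf 132000 0 0) P.nil)) (P.cons (P.cons (P.lf 39480 0 0) P.nil) P.nil)))))) 40149)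
 EL.nil)))
noncomputable def S256_285_660_734_26 : EL := (EL.cons 4 (TM.mk (P.cons (P.cons (P.lf 0 10511025 0) (P.cons (P.lf 0 643182 0) (P.cons (P.lf 154722 0 0) (P.cons (P.lf 0 12996 0) (P.cons (P.lf 0 42 0) (P.cons (P.lf 156 0 0) P.nil)))))) (P.cons (P.cons (P.lf 0 14231211 0) (P.cons (P.lf 326019 0 0) (P.cons (P.lf 165075 0 0) (P.cons (P.lf 0 56124 0) (P.cons (P.lf 0 120 0) P.nil))))) (P.cons (P.cons (P.lf 5461374 0 0) (P.cons (P.lf 2682588 0 0) (P.cons (P.lf 0 159462 0) (P.cons (P.lf 0 70926 0) P.nil)))) (P.cons (P.cons (P.lf 11114535 0 0) (P.cons (P.lf 1696317 0 0) (P.cons (P.lf 0 183348 0) P.nil))) (P.cons (P.cons (P.lf 1329498 0 0) (P.cons (P.lf 0 138957 0) P.nil)) (P.cons (P.cons (P.lf 0 734085 0) P.nil) P.nil)))))) 494961)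
 (EL.cons 8 (TM.mk (P.cons (P.cons (P.lf 0 796995 0) (P.cons (P.lf 0 48768 0) (P.cons (P.lf 11730 0 0) (P.cons (P.lf 0 984 0) (P.cons (P.lf 0 3 0) (P.cons (P.lf 12 0 0) P.nil)))))) (P.cons (P.cons (P.lf 0 1882494 0) (P.cons (P.lf 0 24441 0) (P.cons (P.lf 24342 0 0) (P.cons (P.lf 0 5247 0) (P.cons (P.lf 0 12 0) P.nil))))) (P.cons (P.cons (P.lf 0 683340 0) (P.cons (P.lf 227733 0 0) (P.cons (P.lf 666 0 0) (P.cons (P.lf 0 9678 0) P.nil)))) (P.cons (P.cons (P.lf 1243782 0 0) (P.cons (P.lf 333765 0 0) (P.cons (P.lf 0 25890 0) P.nil))) (P.cons (P.cons (P.lf 950832 0 0) (P.cons (P.lf 121689 0 0) P.nil)) (P.cons (P.cons (P.lf 57810 0 0) P.nil) P.nil)))))) 168549)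
 (EL.cons 11 (TM.mk (P.cons (P.cons (P.lf 0 12435888 0) (P.cons (P.lf 2073021 0 0) (P.cons (P.lf 877449 0 0) (P.cons (P.lf 0 27972 0) (P.cons (P.lf 0 10701 0) (P.cons (P.lf 0 102 0) P.nil)))))) (P.cons (P.cons (P.lf 0 25508469 0) (P.cons (P.lf 4469880 0 0) (P.cons (P.lf 1709640 0 0) (P.cons (P.lf 0 55890 0) (P.cons (P.lf 0 20505 0) P.nil))))) (P.cons (P.cons (P.lf 0 12921099 0) (P.cons (P.lf 2559801 0 0) (P.cons (P.lf 743541 0 0) (P.cons (P.lf 0 26295 0) P.nil)))) (P.cons (P.cons (P.lf 982287 0 0) (P.cons (P.lf 0 16809 0) (P.cons (P.lf 0 130173 0) P.nil))) (P.cons (P.cons (P.lf 849552 0 0) (P.cons (P.lf 0 193188 0) P.nil)) (P.cons (P.cons (P.lf 0 6102 0) P.nil) P.nil)))))) 160992)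
 EL.nil)))
noncomputable def S256_285_660_734_27 : EL := (EL.cons 13 (TM.mk (P.lf 0 4294967296 0) 0)
 EL.nil)
noncomputable def S256_285_660_734_28 : EL := (EL.cons 13 (TM.mk (P.cons (P.cons (P.lf 2327683636 0 0) (P.cons (P.lf 276483692 0 0) (P.cons (P.lf 0 35603108 0) (P.lf 0 2373540 0)))) (P.cons (P.cons (P.lf 231037847 0 0) (P.cons (P.lf 0 13305272 0) (P.cons (P.lf 1713332 0 0) (P.lf 114220 0 0)))) (P.cons (P.cons (P.lf 0 83323248 0) (P.cons (P.lf 0 6332916 0) (P.cons (P.lf 815492 0 0) (P.lf 54364 0 0)))) (P.cons (P.cons (P.lf 0 9496544 0) (P.cons (P.lf 314316 0 0) (P.cons (P.lf 0 40472 0) P.nil))) (P.cons (P.cons (P.lf 1207948 0 0) (P.cons (P.lf 71900 0 0) P.nil)) (P.cons (P.cons (P.lf 95555 0 0) P.nil) P.nil)))))) 33103)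
 EL.nil)
noncomputable def S256_285_660_734_29 : EL := (EL.cons 13 (TM.mk (P.cons (P.cons (P.lf 0 1261502296 0) (P.cons (P.lf 0 299684035 0) (P.cons (P.lf 20792314 0 0) (P.cons (P.lf 7156528 0 0) (P.cons (P.lf 10456 0 0) (P.cons (P.lf 0 39350 0) P.nil)))))) (P.cons (P.cons (P.lf 0 250424731 0) (P.cons (P.lf 0 15323857 0) (P.cons (P.lf 3686296 0 0) (P.cons (P.lf 0 309621 0) (P.cons (P.lf 0 1006 0) P.nil))))) (P.cons (P.cons (P.lf 77886934 0 0) (P.cons (P.lf 19023458 0 0) (P.cons (P.lf 0 1675535 0) (P.cons (P.lf 0 362679 0) P.nil)))) (P.cons (P.cons (P.lf 19257782 0 0) (P.cons (P.lf 1047046 0 0) (P.cons (P.lf 0 214536 0) P.nil))) (P.cons (P.cons (P.lf 0 1904108 0) (P.cons (P.lf 0 571827 0) P.nil)) (P.cons (P.cons (P.lf 0 602000 0) P.nil) P.nil)))))) 394475)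
 EL.nil)
noncomputable def S256_285_660_734_30 : EL := (EL.cons 13 (TM.mk (P.cons (P.lf 0 484595936 0) (P.cons (P.lf 0 480724804 0) (P.cons (P.lf 5775768 0 0) (P.cons (P.lf 1873960 0 0) (P.cons (P.lf 0 38036 0) (P.cons (P.lf 0 7180 0) P.nil)))))) 280)
 EL.nil)
noncomputable def S256_285_660_734_31 : EL := (EL.cons 13 (TM.mk (P.cons (P.cons (P.lf 262629713 0 0) (P.cons (P.lf 31195318 0 0) (P.cons (P.lf 0 4017055 0) (P.lf 0 267803 0)))) (P.cons (P.cons (P.lf 286599449 0 0) (P.cons (P.lf 29444901 0 0) (P.cons (P.lf 0 3791652 0) (P.lf 0 252777 0)))) (P.cons (P.cons (P.lf 13328007 0 0) (P.cons (P.lf 0 2575569 0) (P.cons (P.lf 331658 0 0) (P.lf 22110 0 0)))) (P.cons (P.cons (P.lf 0 11723941 0) (P.cons (P.lf 0 776104 0) (P.cons (P.lf 99939 0 0) P.nil))) (P.cons (P.cons (P.lf 0 894773 0) (P.cons (P.lf 60063 0 0) P.nil)) (P.cons (P.cons (P.lf 201047 0 0) P.nil) P.nil)))))) 53073)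
 EL.nil)
noncomputable def S256_285_660_734_32 : EL := (EL.cons 13 (TM.mk (P.cons (P.cons (P.lf 0 142333769 0) (P.cons (P.lf 0 33812985 0) (P.cons (P.lf 2345971 0 0) (P.cons (P.lf 807462 0 0) (P.cons (P.lf 1179 0 0) (P.cons (P.lf 0 4439 0) P.nil)))))) (P.cons (P.cons (P.lf 0 169451872 0) (P.cons (P.lf 0 35271846 0) (P.cons (P.lf 2743151 0 0) (P.cons (P.lf 766077 0 0) (P.cons (P.lf 1056 0 0) P.nil))))) (P.cons (P.cons (P.lf 0 17545079 0) (P.cons (P.lf 834240 0 0) (P.cons (P.lf 195588 0 0) (P.cons (P.lf 0 85199 0) P.nil)))) (P.cons (P.cons (P.lf 11777697 0 0) (P.cons (P.lf 2398748 0 0) (P.cons (P.lf 0 225773 0) P.nil))) (P.cons (P.cons (P.lf 1933988 0 0) (P.cons (P.lf 31124 0 0) P.nil)) (P.cons (P.cons (P.lf 0 345252 0) P.nil) P.nil)))))) 326168)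
 EL.nil)
noncomputable def S256_285_660_734_33 : EL := (EL.cons 14 (TM.mk (P.lf 8589934592 0 0) 0)
 EL.nil)
noncomputable def S256_285_660_734_34 : EL := (EL.cons 14 (TM.mk (P.cons (P.cons (P.lf 0 4655367272 0) (P.cons (P.lf 0 552967384 0) (P.cons (P.lf 71206216 0 0) (P.lf 4747080 0 0)))) (P.cons (P.cons (P.lf 0 462075694 0) (P.cons (P.lf 26610544 0 0) (P.cons (P.lf 0 3426664 0) (P.lf 0 228440 0)))) (P.cons (P.cons (P.lf 166646496 0 0) (P.cons (P.lf 12665832 0 0) (P.cons (P.lf 0 1630984 0) (P.lf 0 108728 0)))) (P.cons (P.cons (P.lf 18993088 0 0) (P.cons (P.lf 0 628632 0) (P.cons (P.lf 80944 0 0) P.nil))) (P.cons (P.cons (P.lf 0 2415896 0) (P.cons (P.lf 0 143800 0) P.nil)) (P.cons (P.cons (P.lf 0 191110 0) P.nil) P.nil)))))) 66206)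
 EL.nil)
noncomputable def S256_285_660_734_35 : EL := (EL.cons 14 (TM.mk (P.cons (P.cons (P.lf 2523004592 0 0) (P.cons (P.lf 599368070 0 0) (P.cons (P.lf 0 41584628 0) (P.cons (P.lf 0 14313056 0) (P.cons (P.lf 0 20912 0) (P.cons (P.lf 78700 0 0) P.nil)))))) (P.cons (P.cons (P.lf 500849462 0 0) (P.cons (P.lf 30647714 0 0) (P.cons (P.lf 0 7372592 0) (P.cons (P.lf 619242 0 0) (P.cons (P.lf 2012 0 0) P.nil))))) (P.cons (P.cons (P.lf 0 155773868 0) (P.cons (P.lf 0 38046916 0) (P.cons (P.lf 3351070 0 0) (P.cons (P.lf 725358 0 0) P.nil)))) (P.cons (P.cons (P.lf 0 38515564 0) (P.cons (P.lf 0 2094092 0) (P.cons (P.lf 429072 0 0) P.nil))) (P.cons (P.cons (P.lf 3808216 0 0) (P.cons (P.lf 1143654 0 0) P.nil)) (P.cons (P.cons (P.lf 1204000 0 0) P.nil) P.nil)))))) 788950)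
 EL.nil)
noncomputable def S256_285_660_734_36 : EL := (EL.cons 14 (TM.mk (P.cons (P.lf 969191872 0 0) (P.cons (P.lf 961449608 0 0) (P.cons (P.lf 0 11551536 0) (P.cons (P.lf 0 3747920 0) (P.cons (P.lf 76072 0 0) (P.cons (P.lf 14360 0 0) P.nil)))))) 560)
 EL.nil)
noncomputable def S256_285_660_734_37 : EL := (EL.cons 14 (TM.mk (P.cons (P.cons (P.lf 0 525259426 0) (P.cons (P.lf 0 62390636 0) (P.cons (P.lf 8034110 0 0) (P.lf 535606 0 0)))) (P.cons (P.cons (P.lf 0 573198898 0) (P.cons (P.lf 0 58889802 0) (P.cons (P.lf 7583304 0 0) (P.lf 505554 0 0)))) (P.cons (P.cons (P.lf 0 26656014 0) (P.cons (P.lf 5151138 0 0) (P.cons (P.lf 0 663316 0) (P.lf 0 44220 0)))) (P.cons (P.cons (P.lf 23447882 0 0) (P.cons (P.lf 1552208 0 0) (P.cons (P.lf 0 199878 0) P.nil))) (P.cons (P.cons (P.lf 1789546 0 0) (P.cons (P.lf 0 120126 0) P.nil)) (P.cons (P.cons (P.lf 0 402094 0) P.nil) P.nil))))))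 106146)
 EL.nil)
noncomputable def S256_285_660_734_38 : EL := (EL.cons 14 (TM.mk (P.cons (P.cons (P.lf 284667538 0 0) (P.cons (P.lf 67625970 0 0) (P.cons (P.lf 0 4691942 0) (P.cons (P.lf 0 1614924 0) (P.cons (P.lf 0 2358 0) (P.cons (P.lf 8878 0 0) P.nil)))))) (P.cons (P.cons (P.lf 338903744 0 0) (P.cons (P.lf 70543692 0 0) (P.cons (P.lf 0 5486302 0) (P.cons (P.lf 0 1532154 0) (P.cons (P.lf 0 2112 0) P.nil))))) (P.cons (P.cons (P.lf 35090158 0 0) (P.cons (P.lf 0 1668480 0) (P.cons (P.lf 0 391176 0) (P.cons (P.lf 170398 0 0) P.nil)))) (P.cons (P.cons (P.lf 0 23555394 0) (P.cons (P.lf 0 4797496 0) (P.cons (P.lf 451546 0 0) P.nil))) (P.cons (P.cons (P.lf 0 3867976 0) (P.cons (P.lf 0 62248 0) P.nil)) (P.cons (P.cons (P.lf 690504 0 0) P.nil) P.nil)))))) 652336)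
 EL.nil)
noncomputable def S256_285_660_734_39 : EL := (EL.cons 14 (TM.mk (P.cons (P.lf 109352740 0 0) (P.cons (P.lf 216958378 0 0) (P.cons (P.lf 105005926 0 0) (P.cons (P.lf 0 3431614 0) (P.cons (P.lf 0 806288 0) (P.cons (P.lf 30348 0 0) P.nil)))))) 5440)
 EL.nil)
noncomputable def S256_285_660_734_40 : EL := (EL.cons 14 (TM.mk (P.cons (P.cons (P.lf 0 59264382 0) (P.cons (P.lf 0 7039458 0) (P.cons (P.lf 906478 0 0) (P.lf 60430 0 0)))) (P.cons (P.cons (P.lf 0 123464290 0) (P.cons (P.lf 0 13627690 0) (P.cons (P.lf 1754852 0 0) (P.lf 116990 0 0)))) (P.cons (P.cons (P.lf 0 66457908 0) (P.cons (P.lf 0 5926288 0) (P.cons (P.lf 763134 0 0) (P.lf 50874 0 0)))) (P.cons (P.cons (P.lf 662058 0 0) (P.cons (P.lf 858102 0 0) (P.cons (P.lf 0 110498 0) P.nil))) (P.cons (P.cons (P.lf 3107662 0 0) (P.cons (P.lf 178394 0 0) P.nil)) (P.cons (P.cons (P.lf 129076 0 0) P.nil) P.nil))))))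 138624)
 EL.nil)
noncomputable def S256_285_660_734_41 : EL := (EL.cons 14 (TM.mk (P.cons (P.cons (P.lf 32118692 0 0) (P.cons (P.lf 7630154 0 0) (P.cons (P.lf 0 529386 0) (P.cons (P.lf 0 182208 0) (P.cons (P.lf 0 266 0) (P.cons (P.lf 1000 0 0) P.nil)))))) (P.cons (P.cons (P.lf 70100212 0 0) (P.cons (P.lf 15528562 0 0) (P.cons (P.lf 0 1144170 0) (P.cons (P.lf 0 353624 0) (P.cons (P.lf 0 502 0) P.nil))))) (P.cons (P.cons (P.lf 41509002 0 0) (P.cons (P.lf 7616582 0 0) (P.cons (P.lf 0 651894 0) (P.cons (P.lf 0 150092 0) P.nil)))) (P.cons (P.cons (P.lf 689872 0 0) (P.cons (P.lf 0 852416 0) (P.cons (P.lf 16588 0 0) P.nil))) (P.cons (P.cons (P.lf 0 3265450 0) (P.cons (P.lf 0 571930 0) P.nil)) (P.cons (P.cons (P.lf 0 335180 0) P.nil) P.nil)))))) 379400)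
 EL.nil)
noncomputable def S256_285_660_734_42 : EL := (EL.cons 14 (TM.mk (P.cons (P.lf 12338136 0 0) (P.cons (P.lf 36718724 0 0) (P.cons (P.lf 35984236 0 0) (P.cons (P.lf 11026388 0 0) (P.cons (P.lf 0 709966 0) (P.cons (P.lf 0 125918 0) P.nil)))))) 9172)
 EL.nil)
noncomputable def S256_285_660_734_43 : EL := (EL.cons 14 (TM.mk (P.cons (P.cons (P.lf 0 6686726 0) (P.cons (P.lf 0 794252 0) (P.cons (P.lf 102276 0 0) (P.lf 6818 0 0)))) (P.cons (P.cons (P.lf 0 20563636 0) (P.cons (P.lf 0 2325504 0) (P.cons (P.lf 299456 0 0) (P.lf 19962 0 0)))) (P.cons (P.cons (P.lf 0 21237712 0) (P.cons (P.lf 0 2184502 0) (P.cons (P.lf 281300 0 0) (P.lf 18752 0 0)))) (P.cons (P.cons (P.lf 0 7171874 0) (P.cons (P.lf 0 545096 0) (P.cons (P.lf 70192 0 0) P.nil))) (P.cons (P.cons (P.lf 567450 0 0) (P.cons (P.lf 130026 0 0) P.nil)) (P.cons (P.cons (P.lf 389308 0 0) P.nil) P.nil)))))) 135270)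
 EL.nil)
noncomputable def S256_285_660_734_44 : EL := (EL.cons 14 (TM.mk (P.cons (P.cons (P.lf 3623912 0 0) (P.cons (P.lf 860900 0 0) (P.cons (P.lf 0 59730 0) (P.cons (P.lf 0 20558 0) (P.cons (P.lf 0 30 0) (P.cons (P.lf 112 0 0) P.nil)))))) (P.cons (P.cons (P.lf 11504284 0 0) (P.cons (P.lf 2606092 0 0) (P.cons (P.lf 0 188348 0) (P.cons (P.lf 0 60292 0) (P.cons (P.lf 0 86 0) P.nil))))) (P.cons (P.cons (P.lf 12486356 0 0) (P.cons (P.lf 2587180 0 0) (P.cons (P.lf 0 200904 0) (P.cons (P.lf 0 56270 0) P.nil)))) (P.cons (P.cons (P.lf 4615550 0 0) (P.cons (P.lf 732114 0 0) (P.cons (P.lf 0 69322 0) P.nil))) (P.cons (P.cons (P.lf 0 377342 0) (P.cons (P.lf 0 176888 0) P.nil)) (P.cons (P.cons (P.lf 0 421674 0) P.nil) P.nil)))))) 277546)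
 EL.nil)
noncomputable def S256_285_660_734_45 : EL := (EL.cons 14 (TM.mk (P.cons (P.cons (P.lf 0 1367357676 0) (P.cons (P.lf 0 487246752 0) (P.cons (P.lf 4867828 0 0) (P.cons (P.lf 16796764 0 0) (P.cons (P.lf 919234 0 0) (P.cons (P.lf 0 182934 0) P.nil)))))) (P.cons (P.cons (P.lf 0 407157616 0) (P.cons (P.lf 0 73277004 0) (P.cons (P.lf 9261746 0 0) (P.cons (P.lf 1004758 0 0) (P.cons (P.lf 0 127696 0) P.nil))))) (P.cons (P.cons (P.lf 106427362 0 0) (P.cons (P.lf 45898496 0 0) (P.cons (P.lf 0 768484 0) (P.cons (P.lf 0 1576734 0) P.nil)))) (P.cons (P.cons (P.lf 44548402 0 0) (P.cons (P.lf 7652068 0 0) (P.cons (P.lf 0 957966 0) P.nil))) (P.cons (P.cons (P.lf 0 2616240 0) (P.cons (P.lf 0 2019130 0) P.nil)) (P.cons (P.cons (P.lf 0 2146002 0) P.nil) P.nil)))))) 2218082)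
 EL.nil)
noncomputable def S256_285_660_734_46 : EL := (EL.cons 15 (TM.mk (P.lf 4294967296 0 0) 0)
 EL.nil)
noncomputable def S256_285_660_734_47 : EL := (EL.cons 15 (TM.mk (P.cons (P.cons (P.lf 0 2327683636 0) (P.cons (P.lf 0 276483692 0) (P.cons (P.lf 35603108 0 0) (P.lf 2373540 0 0)))) (P.cons (P.cons (P.lf 0 231037847 0) (P.cons (P.lf 13305272 0 0) (P.cons (P.lf 0 1713332 0) (P.lf 0 114220 0)))) (P.cons (P.cons (P.lf 83323248 0 0) (P.cons (P.lf 6332916 0 0) (P.cons (P.lf 0 815492 0) (P.lf 0 54364 0)))) (P.cons (P.cons (P.lf 9496544 0 0) (P.cons (P.lf 0 314316 0) (P.cons (P.lf 40472 0 0) P.nil))) (P.cons (P.cons (P.lf 0 1207948 0) (P.cons (P.lf 0 71900 0) P.nil)) (P.cons (P.cons (P.lf 0 95555 0) P.nil) P.nil)))))) 33103)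
 EL.nil)
noncomputable def S256_285_660_734_48 : EL := (EL.cons 15 (TM.mk (P.cons (P.cons (P.lf 1261502296 0 0) (P.cons (P.lf 299684035 0 0) (P.cons (P.lf 0 20792314 0) (P.cons (P.lf 0 7156528 0) (P.cons (P.lf 0 10456 0) (P.cons (P.lf 39350 0 0) P.nil)))))) (P.cons (P.cons (P.lf 250424731 0 0) (P.cons (P.lf 15323857 0 0) (P.cons (P.lf 0 3686296 0) (P.cons (P.lf 309621 0 0) (P.cons (P.lf 1006 0 0) P.nil))))) (P.cons (P.cons (P.lf 0 77886934 0) (P.cons (P.lf 0 19023458 0) (P.cons (P.lf 1675535 0 0) (P.cons (P.lf 362679 0 0) P.nil)))) (P.cons (P.cons (P.lf 0 19257782 0) (P.cons (P.lf 0 1047046 0) (P.cons (P.lf 214536 0 0) P.nil))) (P.cons (P.cons (P.lf 1904108 0 0) (P.cons (P.lf 571827 0 0) P.nil)) (P.cons (P.cons (P.lf 602000 0 0) P.nil) P.nil)))))) 394475)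
 EL.nil)
noncomputable def S256_285_660_734 : SL := (SL.cons S256_285_660_734_0 (SL.cons S256_285_660_734_1 (SL.cons S256_285_660_734_2 (SL.cons S256_285_660_734_3 (SL.cons S256_285_660_734_4 (SL.cons S256_285_660_734_5 (SL.cons S256_285_660_734_6 (SL.cons S256_285_660_734_7 (SL.cons S256_285_660_734_8 (SL.cons S256_285_660_734_9 (SL.cons S256_285_660_734_10 (SL.cons S256_285_660_734_11 (SL.cons S256_285_660_734_12 (SL.cons S256_285_660_734_13 (SL.cons S256_285_660_734_14 (SL.cons S256_285_660_734_15 (SL.cons S256_285_660_734_16 (SL.cons S256_285_660_734_17 (SL.cons S256_285_660_734_18 (SL.cons S256_285_660_734_19 (SL.cons S256_285_660_734_20 (SL.cons S256_285_660_734_21 (SL.cons S256_285_660_734_22 (SL.cons S256_285_660_734_23 (SL.cons S256_285_660_734_24 (SL.cons S256_285_660_734_25 (SL.cons S256_285_660_734_26 (SL.cons S256_285_660_734_27 (SL.cons S256_285_660_734_28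 (SL.cons S256_285_660_734_29 (SL.cons S256_285_660_734_30 (SL.cons S256_285_660_734_31 (SL.cons S256_285_660_734_32 (SL.cons S256_285_660_734_33 (SL.cons S256_285_660_734_34 (SL.cons S256_285_660_734_35 (SL.cons S256_285_660_734_36 (SL.cons S256_285_660_734_37 (SL.cons S256_285_660_734_38 (SL.cons S256_285_660_734_39 (SL.cons S256_285_660_734_40 (SL.cons S256_285_660_734_41 (SL.cons S256_285_660_734_42 (SL.cons S256_285_660_734_43 (SL.cons S256_285_660_734_44 (SL.cons S256_285_660_734_45 (SL.cons S256_285_660_734_46 (SL.cons S256_285_660_734_47 (SL.cons S256_285_660_734_48 SL.nil)))))))))))))))))))))))))))))))))))))))))))))))))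
noncomputable def S256_285_660_808_0 : EL := (EL.cons 0 (TM.mk (P.cons (P.lf 8359606057 0 0) (P.cons (P.lf 0 190686074 0) (P.cons (P.lf 0 92290364 0) (P.cons (P.lf 3016066 0 0) (P.cons (P.lf 708651 0 0) (P.cons (P.lf 0 26673 0) P.nil)))))) 4788)
 (EL.cons 1 (TM.mk (P.cons (P.lf 450679505 0 0) (P.cons (P.lf 439849933 0 0) (P.cons (P.lf 0 16100088 0) (P.cons (P.lf 0 5127871 0) (P.cons (P.lf 176304 0 0) (P.cons (P.lf 32482 0 0) P.nil)))))) 1651)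
 (EL.cons 5 (TM.mk (P.cons (P.lf 4329140030 0 0) (P.cons (P.lf 67799490 0 0) (P.cons (P.lf 32814348 0 0) (P.cons (P.lf 0 1072376 0) (P.cons (P.lf 0 251962 0) (P.cons (P.lf 9484 0 0) P.nil)))))) 1837)
 (EL.cons 9 (TM.mk (P.lf 6442450944 0 0) 2)
 EL.nil))))
noncomputable def S256_285_660_808_1 : EL := (EL.cons 0 (TM.mk (P.cons (P.cons (P.lf 0 5301052828 0) (P.cons (P.lf 0 744768489 0) (P.cons (P.lf 321152577 0 0) (P.lf 35683620 0 0)))) (P.cons (P.cons (P.lf 0 367073199 0) (P.cons (P.lf 106222061 0 0) (P.cons (P.lf 0 45804143 0) (P.lf 0 5089337 0)))) (P.cons (P.cons (P.lf 527383912 0 0) (P.cons (P.lf 47736087 0 0) (P.cons (P.lf 0 20584340 0) (P.lf 0 2287137 0)))) (P.cons (P.cons (P.lf 44282487 0 0) (P.cons (P.lf 0 5211253 0) (P.cons (P.lf 2247146 0 0) P.nil))) (P.cons (P.cons (P.lf 0 15878769 0) (P.cons (P.lf 0 1101902 0) P.nil)) (P.cons (P.cons (P.lf 0 911997 0) P.nil)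 P.nil)))))) 1427516)
 (EL.cons 1 (TM.mk (P.cons (P.cons (P.lf 437234495 0 0) (P.cons (P.lf 0 102956285 0) (P.cons (P.lf 44395912 0 0) (P.lf 4932877 0 0)))) (P.cons (P.cons (P.lf 0 897678635 0) (P.cons (P.lf 0 93494112 0) (P.cons (P.lf 40315713 0 0) (P.lf 4479519 0 0)))) (P.cons (P.cons (P.lf 0 79752591 0) (P.cons (P.lf 13808143 0 0) (P.cons (P.lf 0 5954221 0) (P.lf 0 661573 0)))) (P.cons (P.cons (P.lf 51809423 0 0) (P.cons (P.lf 3971075 0 0) (P.cons (P.lf 0 1712370 0) P.nil))) (P.cons (P.cons (P.lf 3476548 0 0) (P.cons (P.lf 0 456045 0) P.nil)) (P.cons (P.cons (P.lf 0 1203550 0) P.nil) P.nil)))))) 777671)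
 (EL.cons 5 (TM.mk (P.cons (P.cons (P.lf 0 2477705384 0) (P.cons (P.lf 0 408926714 0) (P.cons (P.lf 176333810 0 0) (P.lf 19592644 0 0)))) (P.cons (P.cons (P.lf 0 242737312 0) (P.cons (P.lf 0 5345656 0) (P.cons (P.lf 2305108 0 0) (P.lf 256120 0 0)))) (P.cons (P.cons (P.lf 0 36577542 0) (P.cons (P.lf 0 1540824 0) (P.cons (P.lf 664416 0 0) (P.lf 73818 0 0)))) (P.cons (P.cons (P.lf 0 61704 0) (P.cons (P.lf 1086958 0 0) (P.cons (P.lf 0 468710 0) P.nil))) (P.cons (P.cons (P.lf 3486800 0 0) (P.cons (P.lf 216570 0 0) P.nil)) (P.cons (P.cons (P.lf 167531 0 0) P.nil) P.nil)))))) 759881)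
 (EL.cons 9 (TM.mk (P.cons (P.cons (P.lf 0 3849286020 0) (P.cons (P.lf 0 594470544 0) (P.cons (P.lf 256342404 0 0) (P.lf 28482486 0 0)))) (P.cons (P.cons (P.lf 0 329340196 0) (P.cons (P.lf 28607808 0 0) (P.cons (P.lf 0 12336006 0) (P.lf 0 1370664 0)))) (P.cons (P.cons (P.lf 133179456 0 0) (P.cons (P.lf 13616472 0 0) (P.cons (P.lf 0 5871576 0) (P.lf 0 652392 0)))) (P.cons (P.cons (P.lf 13838100 0 0) (P.cons (P.lf 0 675810 0) (P.cons (P.lf 291414 0 0) P.nil))) (P.cons (P.cons (P.lf 0 1904964 0) (P.cons (P.lf 0 154596 0) P.nil)) (P.cons (P.cons (P.lf 0 138286 0) P.nil) P.nil)))))) 150659)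
 (EL.cons 2 (TM.mk (P.cons (P.cons (P.lf 0 132449124 0) (P.cons (P.lf 123388613 0 0) (P.cons (P.lf 12663683 0 0) (P.cons (P.lf 0 2633692 0) (P.lf 0 219473 0))))) (P.cons (P.cons (P.lf 0 127141824 0) (P.cons (P.lf 118444370 0 0) (P.cons (P.lf 12156243 0 0) (P.cons (P.lf 0 2528159 0) (P.lf 0 210678 0))))) (P.cons (P.cons (P.lf 7850525 0 0) (P.cons (P.lf 0 7313490 0) (P.cons (P.lf 0 750600 0) (P.cons (P.lf 156102 0 0) P.nil)))) (P.cons (P.cons (P.lf 2434500 0 0) (P.cons (P.lf 0 2267963 0) (P.cons (P.lf 0 232765 0) P.nil))) (P.cons (P.cons (P.lf 0 133801 0) (P.cons (P.lf 124650 0 0) P.nil)) (P.cons (P.cons (P.lf 0 23850 0) P.nil) P.nil)))))) 118390)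
 (EL.cons 6 (TM.mk (P.cons (P.cons (P.lf 621075909 0 0) (P.cons (P.lf 0 578589663 0) (P.cons (P.lf 0 59382120 0) (P.cons (P.lf 12349827 0 0) (P.lf 1029150 0 0))))) (P.cons (P.cons (P.lf 0 29888145 0) (P.cons (P.lf 27843570 0 0) (P.cons (P.lf 2857653 0 0) (P.cons (P.lf 0 594312 0) (P.lf 0 49524 0))))) (P.cons (P.cons (P.lf 0 14225874 0) (P.cons (P.lf 13252719 0 0) (P.cons (P.lf 1360158 0 0) (P.cons (P.lf 0 282873 0) P.nil)))) (P.cons (P.cons (P.lf 706062 0 0) (P.cons (P.lf 0 657759 0) (P.cons (P.lf 0 67506 0) P.nil))) (P.cons (P.cons (P.lf 161517 0 0) (P.cons (P.lf 0 150468 0) P.nil)) (P.cons (P.cons (P.lf 0 8760 0) P.nil) P.nil)))))) 73293)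
 EL.nil))))))
noncomputable def S256_285_660_808_2 : EL := (EL.cons 0 (TM.mk (P.cons (P.cons (P.lf 3350319067 0 0) (P.cons (P.lf 946505383 0 0) (P.cons (P.lf 0 341876055 0) (P.cons (P.lf 0 102500112 0) (P.cons (P.lf 5971955 0 0) (P.cons (P.lf 2738231 0 0) P.nil)))))) (P.cons (P.cons (P.lf 538032170 0 0) (P.cons (P.lf 0 43604485 0) (P.cons (P.lf 1059554 0 0) (P.cons (P.lf 17391301 0 0) (P.cons (P.lf 0 1598980 0) P.nil))))) (P.cons (P.cons (P.lf 0 582595107 0) (P.cons (P.lf 0 153927209 0) (P.cons (P.lf 59086073 0 0) (P.cons (P.lf 13661253 0 0) P.nil)))) (P.cons (P.cons (P.lf 0 105311503 0) (P.cons (P.lf 0 98755 0) (P.cons (P.lf 1542838 0 0) P.nil))) (P.cons (P.cons (P.lf 29750948 0 0) (P.cons (P.lf 8153263 0 0) P.nil)) (P.cons (P.cons (P.lf 5752711 0 0) P.nil) P.nil)))))) 15850836)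
 (EL.cons 1 (TM.mk (P.cons (P.cons (P.lf 0 683373425 0) (P.cons (P.lf 0 7354713 0) (P.cons (P.lf 18334503 0 0) (P.cons (P.lf 0 12724587 0) (P.cons (P.lf 1366466 0 0) (P.cons (P.lf 626544 0 0) P.nil)))))) (P.cons (P.cons (P.lf 843447288 0 0) (P.cons (P.lf 241436890 0 0) (P.cons (P.lf 0 91146277 0) (P.cons (P.lf 0 22748272 0) (P.cons (P.lf 1168295 0 0) P.nil))))) (P.cons (P.cons (P.lf 193992335 0 0) (P.cons (P.lf 417802 0 0) (P.cons (P.lf 0 3329517 0) (P.cons (P.lf 2696049 0 0) P.nil)))) (P.cons (P.cons (P.lf 0 74353171 0) (P.cons (P.lf 0 20863445 0) (P.cons (P.lf 8188891 0 0) P.nil))) (P.cons (P.cons (P.lf 0 15163221 0) (P.cons (P.lf 0 46627 0) P.nil)) (P.cons (P.cons (P.lf 2871296 0 0) P.nil) P.nil)))))) 8319280)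
 (EL.cons 5 (TM.mk (P.cons (P.cons (P.lf 1415330546 0 0) (P.cons (P.lf 468559645 0 0) (P.cons (P.lf 0 163442030 0) (P.cons (P.lf 0 55744637 0) (P.cons (P.lf 3479123 0 0) (P.cons (P.lf 1595231 0 0) P.nil)))))) (P.cons (P.cons (P.lf 254727000 0 0) (P.cons (P.lf 45643030 0 0) (P.cons (P.lf 0 19356544 0) (P.cons (P.lf 0 2467349 0) (P.cons (P.lf 29299 0 0) P.nil))))) (P.cons (P.cons (P.lf 45859975 0 0) (P.cons (P.lf 5118867 0 0) (P.cons (P.lf 0 2319613 0) (P.cons (P.lf 0 148385 0) P.nil)))) (P.cons (P.cons (P.lf 3271199 0 0) (P.cons (P.lf 0 2181225 0) (P.cons (P.lf 685560 0 0) P.nil))) (P.cons (P.cons (P.lf 0 6481454 0) (P.cons (P.lf 0 1435503 0) P.nil)) (P.cons (P.cons (P.lf 0 988969 0) P.nil) P.nil)))))) 8327186)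
 (EL.cons 9 (TM.mk (P.cons (P.cons (P.lf 2299901542 0 0) (P.cons (P.lf 710377827 0 0) (P.cons (P.lf 0 251468772 0) (P.cons (P.lf 0 81343341 0) (P.cons (P.lf 4943371 0 0) (P.cons (P.lf 2266611 0 0) P.nil)))))) (P.cons (P.cons (P.lf 393553516 0 0) (P.cons (P.lf 26593422 0 0) (P.cons (P.lf 0 16746900 0) (P.cons (P.lf 3279010 0 0) (P.cons (P.lf 0 475780 0) P.nil))))) (P.cons (P.cons (P.lf 0 142310229 0) (P.cons (P.lf 0 43774228 0) (P.cons (P.lf 16490080 0 0) (P.cons (P.lf 4154937 0 0) P.nil)))) (P.cons (P.cons (P.lf 0 30152547 0) (P.cons (P.lf 0 1955601 0) (P.cons (P.lf 1088928 0 0) P.nil))) (P.cons (P.cons (P.lf 3614677 0 0) (P.cons (P.lf 1291251 0 0) P.nil)) (P.cons (P.cons (P.lf 932140 0 0) P.nil) P.nil)))))) 3013712)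
 (EL.cons 2 (TM.mk (P.cons (P.cons (P.lf 158273476 0 0) (P.cons (P.lf 0 123003174 0) (P.cons (P.lf 0 48444097 0) (P.cons (P.lf 9458167 0 0) (P.cons (P.lf 2847088 0 0) (P.cons (P.lf 0 57105 0) P.nil)))))) (P.cons (P.cons (P.lf 165473066 0 0) (P.cons (P.lf 0 131865991 0) (P.cons (P.lf 0 46194615 0) (P.cons (P.lf 9044741 0 0) (P.cons (P.lf 2631054 0 0) P.nil))))) (P.cons (P.cons (P.lf 0 1858145 0) (P.cons (P.lf 0 1406784 0) (P.cons (P.lf 4453897 0 0) (P.cons (P.lf 0 847096 0) P.nil)))) (P.cons (P.cons (P.lf 0 9537395 0) (P.cons (P.lf 7995751 0 0) (P.cons (P.lf 2123713 0 0) P.nil))) (P.cons (P.cons (P.lf 0 232295 0) (P.cons (P.lf 328933 0 0) P.nil)) (P.cons (P.cons (P.lf 257433 0 0) P.nil) P.nil)))))) 2510245)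
 (EL.cons 6 (TM.mk (P.cons (P.cons (P.lf 0 742170588 0) (P.cons (P.lf 576782274 0 0) (P.cons (P.lf 227162418 0 0) (P.cons (P.lf 0 44350938 0) (P.cons (P.lf 0 13350486 0) (P.cons (P.lf 267792 0 0) P.nil)))))) (P.cons (P.cons (P.lf 0 27783594 0) (P.cons (P.lf 36914580 0 0) (P.cons (P.lf 0 12377454 0) (P.cons (P.lf 2295768 0 0) (P.cons (P.lf 1120524 0 0) P.nil))))) (P.cons (P.cons (P.lf 45733332 0 0) (P.cons (P.lf 0 37619556 0) (P.cons (P.lf 0 11166588 0) (P.cons (P.lf 2196528 0 0) P.nil)))) (P.cons (P.cons (P.lf 2043114 0 0) (P.cons (P.lf 0 2416632 0) (P.cons (P.lf 504156 0 0) P.nil))) (P.cons (P.cons (P.lf 0 1349046 0) (P.cons (P.lf 1149552 0 0) P.nil)) (P.cons (P.cons (P.lf 0 46944 0) P.nil) P.nil)))))) 2188932)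
 EL.nil))))))
noncomputable def S256_285_660_808_3 : EL := (EL.cons 0 (TM.mk (P.cons (P.lf 96110806 0 0) (P.cons (P.lf 190686074 0 0) (P.cons (P.lf 92290364 0 0) (P.cons (P.lf 0 3016066 0) (P.cons (P.lf 0 708651 0) (P.cons (P.lf 26673 0 0) P.nil)))))) 4788)
 (EL.cons 1 (TM.mk (P.cons (P.lf 0 450679505 0) (P.cons (P.lf 0 439849933 0) (P.cons (P.lf 16100088 0 0) (P.cons (P.lf 5127871 0 0) (P.cons (P.lf 0 176304 0) (P.cons (P.lf 0 32482 0) P.nil)))))) 1651)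
 (EL.cons 5 (TM.mk (P.cons (P.lf 2113310914 0 0) (P.cons (P.lf 0 67799490 0) (P.cons (P.lf 0 32814348 0) (P.cons (P.lf 1072376 0 0) (P.cons (P.lf 251962 0 0) (P.cons (P.lf 0 9484 0) P.nil)))))) 1830)
 EL.nil)))
noncomputable def S256_285_660_808_4 : EL := (EL.cons 0 (TM.mk (P.cons (P.cons (P.lf 0 57425036 0) (P.cons (P.lf 0 8868524 0) (P.cons (P.lf 3824207 0 0) (P.lf 424910 0 0)))) (P.cons (P.cons (P.lf 0 118845822 0) (P.cons (P.lf 0 17168579 0) (P.cons (P.lf 7403283 0 0) (P.lf 822585 0 0)))) (P.cons (P.cons (P.lf 0 62903483 0) (P.cons (P.lf 0 7466116 0) (P.cons (P.lf 3219474 0 0) (P.lf 357718 0 0)))) (P.cons (P.cons (P.lf 1232486 0 0) (P.cons (P.lf 1081063 0 0) (P.cons (P.lf 0 466166 0) P.nil))) (P.cons (P.cons (P.lf 2866600 0 0) (P.cons (P.lf 224748 0 0) P.nil)) (P.cons (P.cons (P.lf 97729 0 0) P.nil) P.nil)))))) 305697)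
 (EL.cons 1 (TM.mk (P.cons (P.cons (P.lf 269275518 0 0) (P.cons (P.lf 41585986 0 0) (P.cons (P.lf 0 17932346 0) (P.lf 0 1992481 0)))) (P.cons (P.cons (P.lf 285843864 0 0) (P.cons (P.lf 38585450 0 0) (P.cons (P.lf 0 16638480 0) (P.lf 0 1848718 0)))) (P.cons (P.cons (P.lf 3549138 0 0) (P.cons (P.lf 0 4391313 0) (P.cons (P.lf 1893583 0 0) (P.lf 210397 0 0)))) (P.cons (P.cons (P.lf 0 13947575 0) (P.cons (P.lf 0 1284045 0) (P.cons (P.lf 553695 0 0) P.nil))) (P.cons (P.cons (P.lf 0 635490 0) (P.cons (P.lf 130020 0 0) P.nil)) (P.cons (P.cons (P.lf 308739 0 0) P.nil) P.nil)))))) 216454)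
 (EL.cons 5 (TM.mk (P.cons (P.cons (P.lf 0 1262677546 0) (P.cons (P.lf 0 195003592 0) (P.cons (P.lf 84087748 0 0) (P.lf 9343082 0 0)))) (P.cons (P.cons (P.lf 0 67523772 0) (P.cons (P.lf 15640318 0 0) (P.cons (P.lf 0 6744280 0) (P.lf 0 749362 0)))) (P.cons (P.cons (P.lf 66758832 0 0) (P.cons (P.lf 7193442 0 0) (P.cons (P.lf 0 3101892 0) (P.lf 0 344652 0)))) (P.cons (P.cons (P.lf 4174482 0 0) (P.cons (P.lf 0 609646 0) (P.cons (P.lf 262886 0 0) P.nil))) (P.cons (P.cons (P.lf 0 1654220 0) (P.cons (P.lf 0 131442 0) P.nil)) (P.cons (P.cons (P.lf 0 80842 0) P.nil) P.nil)))))) 157890)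
 EL.nil)))
noncomputable def S256_285_660_808_5 : EL := (EL.cons 0 (TM.mk (P.cons (P.cons (P.lf 34310759 0 0) (P.cons (P.lf 10597672 0 0) (P.cons (P.lf 0 3751500 0) (P.cons (P.lf 0 1213507 0) (P.cons (P.lf 73745 0 0) (P.cons (P.lf 33813 0 0) P.nil)))))) (P.cons (P.cons (P.lf 73944518 0 0) (P.cons (P.lf 21422758 0 0) (P.cons (P.lf 0 7692902 0) (P.cons (P.lf 0 2358711 0) (P.cons (P.lf 139216 0 0) P.nil))))) (P.cons (P.cons (P.lf 42472402 0 0) (P.cons (P.lf 10310493 0 0) (P.cons (P.lf 0 3852052 0) (P.cons (P.lf 0 1006233 0) P.nil)))) (P.cons (P.cons (P.lf 0 100896 0) (P.cons (P.lf 0 1276426 0) (P.cons (P.lf 382144 0 0) P.nil))) (P.cons (P.cons (P.lf 0 3314411 0) (P.cons (P.lf 0 756288 0) P.nil)) (P.cons (P.cons (P.lf 0 278194 0) P.nil) P.nil)))))) 1240694)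
 (EL.cons 1 (TM.mk (P.cons (P.cons (P.lf 0 160888843 0) (P.cons (P.lf 0 49694242 0) (P.cons (P.lf 17591413 0 0) (P.cons (P.lf 5690345 0 0) (P.cons (P.lf 0 345810 0) (P.cons (P.lf 0 158559 0) P.nil)))))) (P.cons (P.cons (P.lf 0 184553681 0) (P.cons (P.lf 0 50360452 0) (P.cons (P.lf 18340224 0 0) (P.cons (P.lf 5324227 0 0) (P.cons (P.lf 0 304218 0) P.nil))))) (P.cons (P.cons (P.lf 0 11166489 0) (P.cons (P.lf 3021856 0 0) (P.cons (P.lf 0 638621 0) (P.cons (P.lf 0 717808 0) P.nil)))) (P.cons (P.cons (P.lf 14639478 0 0) (P.cons (P.lf 3757314 0 0) (P.cons (P.lf 0 1444021 0) P.nil))) (P.cons (P.cons (P.lf 1700428 0 0) (P.cons (P.lf 0 64481 0) P.nil)) (P.cons (P.cons (P.lf 0 522984 0) P.nil) P.nil)))))) 1423486)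
 (EL.cons 5 (TM.mk (P.cons (P.cons (P.lf 754434464 0 0) (P.cons (P.lf 233024546 0 0) (P.cons (P.lf 0 82489054 0) (P.cons (P.lf 0 26682976 0) (P.cons (P.lf 1621568 0 0) (P.cons (P.lf 743512 0 0) P.nil)))))) (P.cons (P.cons (P.lf 104893120 0 0) (P.cons (P.lf 1247492 0 0) (P.cons (P.lf 0 2847044 0) (P.cons (P.lf 1931656 0 0) (P.cons (P.lf 0 208092 0) P.nil))))) (P.cons (P.cons (P.lf 0 62538040 0) (P.cons (P.lf 0 18257360 0) (P.cons (P.lf 6866310 0 0) (P.cons (P.lf 1742750 0 0) P.nil)))) (P.cons (P.cons (P.lf 0 10014974 0) (P.cons (P.lf 0 198024 0) (P.cons (P.lf 227100 0 0) P.nil))) (P.cons (P.cons (P.lf 2383348 0 0) (P.cons (P.lf 699318 0 0) P.nil)) (P.cons (P.cons (P.lf 409626 0 0) P.nil) P.nil)))))) 1411014)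
 EL.nil)))
noncomputable def S256_285_660_808_6 : EL := (EL.cons 12 (TM.mk (P.lf 8589934592 0 0) 0)
 (EL.cons 3 (TM.mk (P.cons (P.lf 454308690 0 0) (P.cons (P.lf 450679503 0 0) (P.cons (P.lf 0 5414782 0) (P.cons (P.lf 0 1756837 0) (P.cons (P.lf 35658 0 0) (P.cons (P.lf 6731 0 0) P.nil)))))) 269)
 (EL.cons 7 (TM.mk (P.cons (P.lf 0 2130328762 0) (P.cons (P.lf 34172730 0 0) (P.cons (P.lf 16813380 0 0) (P.cons (P.lf 0 270802 0) (P.cons (P.lf 0 64991 0) (P.cons (P.lf 1601 0 0) P.nil)))))) 330)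
 EL.nil)))
noncomputable def S256_285_660_808_7 : EL := (EL.cons 12 (TM.mk (P.cons (P.cons (P.lf 0 5132381360 0) (P.cons (P.lf 0 792627392 0) (P.cons (P.lf 341789872 0 0) (P.lf 37976648 0 0)))) (P.cons (P.cons (P.lf 0 439120262 0) (P.cons (P.lf 38143744 0 0) (P.cons (P.lf 0 16448008 0) (P.lf 0 1827552 0)))) (P.cons (P.cons (P.lf 177572608 0 0) (P.cons (P.lf 18155296 0 0) (P.cons (P.lf 0 7828768 0) (P.lf 0 869856 0)))) (P.cons (P.cons (P.lf 18450800 0 0) (P.cons (P.lf 0 901080 0) (P.cons (P.lf 388552 0 0) P.nil))) (P.cons (P.cons (P.lf 0 2539952 0) (P.cons (P.lf 0 206128 0) P.nil)) (P.cons (P.cons (P.lf 0 184382 0) P.nil) P.nil)))))) 200854)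
 (EL.cons 3 (TM.mk (P.cons (P.cons (P.lf 0 1719253983 0) (P.cons (P.lf 83841734 0 0) (P.cons (P.lf 0 36153500 0) (P.lf 0 4017054 0)))) (P.cons (P.cons (P.lf 890097567 0 0) (P.cons (P.lf 79137244 0 0) (P.cons (P.lf 0 34124872 0) (P.lf 0 3791650 0)))) (P.cons (P.cons (P.lf 168488716 0 0) (P.cons (P.lf 0 6922198 0) (P.cons (P.lf 2984928 0 0) (P.lf 331656 0 0)))) (P.cons (P.cons (P.lf 0 28063410 0) (P.cons (P.lf 0 2085888 0) (P.cons (P.lf 899458 0 0) P.nil))) (P.cons (P.cons (P.lf 0 2714386 0) (P.cons (P.lf 161426 0 0) P.nil)) (P.cons (P.cons (P.lf 436288 0 0) P.nil) P.nil)))))) 580856)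
 (EL.cons 7 (TM.mk (P.cons (P.cons (P.lf 1163065448 0 0) (P.cons (P.lf 206109842 0 0) (P.cons (P.lf 0 88876889 0) (P.lf 0 9875210 0)))) (P.cons (P.cons (P.lf 67491569 0 0) (P.cons (P.lf 6000574 0 0) (P.cons (P.lf 0 2587514 0) (P.lf 0 287501 0)))) (P.cons (P.cons (P.lf 46793162 0 0) (P.cons (P.lf 2499571 0 0) (P.cons (P.lf 0 1077842 0) (P.lf 0 119757 0)))) (P.cons (P.cons (P.lf 6730976 0 0) (P.cons (P.lf 0 486602 0) (P.cons (P.lf 209828 0 0) P.nil))) (P.cons (P.cons (P.lf 0 1666883 0) (P.cons (P.lf 0 104287 0) P.nil)) (P.cons (P.cons (P.lf 0 126046 0) P.nil) P.nil)))))) 439633)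
 (EL.cons 10 (TM.mk (P.cons (P.cons (P.lf 0 1252154487 0) (P.cons (P.lf 1166497743 0 0) (P.cons (P.lf 119720616 0 0) (P.cons (P.lf 0 24898557 0) (P.lf 0 2074878 0))))) (P.cons (P.cons (P.lf 40171767 0 0) (P.cons (P.lf 0 37423716 0) (P.cons (P.lf 0 3840888 0) (P.cons (P.lf 798798 0 0) (P.lf 66564 0 0))))) (P.cons (P.cons (P.lf 19442775 0 0) (P.cons (P.lf 0 18112743 0) (P.cons (P.lf 0 1858956 0) (P.cons (P.lf 386610 0 0) P.nil)))) (P.cons (P.cons (P.lf 0 635391 0) (P.cons (P.lf 591924 0 0) (P.cons (P.lf 60750 0 0) P.nil))) (P.cons (P.cons (P.lf 0 149289 0) (P.cons (P.lf 139077 0 0) P.nil)) (P.cons (P.cons (P.lf 5619 0 0) P.nil) P.nil)))))) 71619)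
 EL.nil))))
noncomputable def S256_285_660_808_8 : EL := (EL.cons 12 (TM.mk (P.cons (P.cons (P.lf 3066535390 0 0) (P.cons (P.lf 947170436 0 0) (P.cons (P.lf 0 335291696 0) (P.cons (P.lf 0 108457788 0) (P.cons (P.lf 6591162 0 0) (P.cons (P.lf 3022148 0 0) P.nil)))))) (P.cons (P.cons (P.lf 524738022 0 0) (P.cons (P.lf 35457896 0 0) (P.cons (P.lf 0 22329200 0) (P.cons (P.lf 4372014 0 0) (P.cons (P.lf 0 634374 0) P.nil))))) (P.cons (P.cons (P.lf 0 189746972 0) (P.cons (P.lf 0 58365638 0) (P.cons (P.lf 21986774 0 0) (P.cons (P.lf 5539916 0 0) P.nil)))) (P.cons (P.cons (P.lf 0 40203396 0) (P.cons (P.lf 0 2607468 0) (P.cons (P.lf 1451904 0 0) P.nil))) (P.cons (P.cons (P.lf 4819570 0 0) (P.cons (P.lf 1721668 0 0) P.nil)) (P.cons (P.cons (P.lf 1242854 0 0) P.nil) P.nil)))))) 4018254)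
 (EL.cons 3 (TM.mk (P.cons (P.cons (P.lf 1892282219 0 0) (P.cons (P.lf 167001542 0 0) (P.cons (P.lf 0 91353972 0) (P.cons (P.lf 8678694 0 0) (P.cons (P.lf 0 1742980 0) (P.cons (P.lf 0 799180 0) P.nil)))))) (P.cons (P.cons (P.lf 0 1076508714 0) (P.cons (P.lf 0 334243097 0) (P.cons (P.lf 126804369 0 0) (P.cons (P.lf 30955856 0 0) (P.cons (P.lf 0 1561300 0) P.nil))))) (P.cons (P.cons (P.lf 0 378987936 0) (P.cons (P.lf 0 24985937 0) (P.cons (P.lf 13692605 0 0) (P.cons (P.lf 0 1319738 0) P.nil)))) (P.cons (P.cons (P.lf 58762943 0 0) (P.cons (P.lf 21047189 0 0) (P.cons (P.lf 0 8275280 0) P.nil))) (P.cons (P.cons (P.lf 19748804 0 0) (P.cons (P.lf 896522 0 0) P.nil)) (P.cons (P.cons (P.lf 0 1520187 0) P.nil) P.nil)))))) 10253387)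
 (EL.cons 7 (TM.mk (P.cons (P.cons (P.lf 0 629325203 0) (P.cons (P.lf 0 226036562 0) (P.cons (P.lf 77571023 0 0) (P.cons (P.lf 27990854 0 0) (P.cons (P.lf 0 1793219 0) (P.cons (P.lf 0 822215 0) P.nil)))))) (P.cons (P.cons (P.lf 0 81626182 0) (P.cons (P.lf 0 25343952 0) (P.cons (P.lf 9614927 0 0) (P.cons (P.lf 2347220 0 0) (P.cons (P.lf 0 118385 0) P.nil))))) (P.cons (P.cons (P.lf 0 69878454 0) (P.cons (P.lf 0 14668573 0) (P.cons (P.lf 5884416 0 0) (P.cons (P.lf 1082986 0 0) P.nil)))) (P.cons (P.cons (P.lf 0 15186808 0) (P.cons (P.lf 220100 0 0) (P.cons (P.lf 109181 0 0) P.nil))) (P.cons (P.cons (P.lf 4606811 0 0) (P.cons (P.lf 1236698 0 0) P.nil)) (P.cons (P.cons (P.lf 1075674 0 0) P.nil) P.nil)))))) 4687358)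
 (EL.cons 10 (TM.mk (P.cons (P.cons (P.lf 1496294124 0 0) (P.cons (P.lf 0 1162853862 0) (P.cons (P.lf 0 457983378 0) (P.cons (P.lf 89416170 0 0) (P.cons (P.lf 26915988 0 0) (P.cons (P.lf 0 539904 0) P.nil)))))) (P.cons (P.cons (P.lf 80016804 0 0) (P.cons (P.lf 0 93077100 0) (P.cons (P.lf 17607714 0 0) (P.cons (P.lf 0 3194184 0) (P.cons (P.lf 0 1827342 0) P.nil))))) (P.cons (P.cons (P.lf 0 79110336 0) (P.cons (P.lf 65174244 0 0) (P.cons (P.lf 19180890 0 0) (P.cons (P.lf 0 3773970 0) P.nil)))) (P.cons (P.cons (P.lf 0 4946832 0) (P.cons (P.lf 5330874 0 0) (P.cons (P.lf 0 511566 0) P.nil))) (P.cons (P.cons (P.lf 1960278 0 0) (P.cons (P.lf 0 1670418 0) P.nil)) (P.cons (P.cons (P.lf 95796 0 0) P.nil) P.nil)))))) 3618090)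
 EL.nil))))
noncomputable def S256_285_660_808_9 : EL := (EL.cons 3 (TM.mk (P.cons (P.lf 454308690 0 0) (P.cons (P.lf 450679503 0 0) (P.cons (P.lf 0 5414782 0) (P.cons (P.lf 0 1756837 0) (P.cons (P.lf 35658 0 0) (P.cons (P.lf 6731 0 0) P.nil)))))) 269)
 (EL.cons 7 (TM.mk (P.cons (P.lf 0 2130328762 0) (P.cons (P.lf 34172730 0 0) (P.cons (P.lf 16813380 0 0) (P.cons (P.lf 0 270802 0) (P.cons (P.lf 0 64991 0) (P.cons (P.lf 1601 0 0) P.nil)))))) 330)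
 EL.nil))
noncomputable def S256_285_660_808_10 : EL := (EL.cons 3 (TM.mk (P.cons (P.cons (P.lf 0 271443912 0) (P.cons (P.lf 0 41920867 0) (P.cons (P.lf 18076750 0 0) (P.lf 2008527 0 0)))) (P.cons (P.cons (P.lf 0 292499925 0) (P.cons (P.lf 0 39568622 0) (P.cons (P.lf 17062436 0 0) (P.lf 1895825 0 0)))) (P.cons (P.cons (P.lf 0 10412069 0) (P.cons (P.lf 3461099 0 0) (P.cons (P.lf 0 1492464 0) (P.lf 0 165828 0)))) (P.cons (P.cons (P.lf 11618853 0 0) (P.cons (P.lf 1042944 0 0) (P.cons (P.lf 0 449729 0) P.nil))) (P.cons (P.cons (P.lf 790274 0 0) (P.cons (P.lf 0 80713 0) P.nil)) (P.cons (P.cons (P.lf 0 196805 0) P.nil) P.nil)))))) 143260)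
 (EL.cons 7 (TM.mk (P.cons (P.cons (P.lf 1272845504 0 0) (P.cons (P.lf 196573898 0 0) (P.cons (P.lf 0 84764882 0) (P.lf 0 9418319 0)))) (P.cons (P.cons (P.lf 88485311 0 0) (P.cons (P.lf 0 12613013 0) (P.cons (P.lf 5438872 0 0) (P.lf 604318 0 0)))) (P.cons (P.cons (P.lf 0 55831234 0) (P.cons (P.lf 0 5902259 0) (P.cons (P.lf 2545120 0 0) (P.lf 282789 0 0)))) (P.cons (P.cons (P.lf 0 4567132 0) (P.cons (P.lf 395344 0 0) (P.cons (P.lf 0 170476 0) P.nil))) (P.cons (P.cons (P.lf 1103560 0 0) (P.cons (P.lf 87866 0 0) P.nil)) (P.cons (P.cons (P.lf 68504 0 0) P.nil) P.nil)))))) 95430)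
 EL.nil))
noncomputable def S256_285_660_808_11 : EL := (EL.cons 3 (TM.mk (P.cons (P.cons (P.lf 162184433 0 0) (P.cons (P.lf 50094416 0 0) (P.cons (P.lf 0 17733072 0) (P.cons (P.lf 0 5736168 0) (P.cons (P.lf 348596 0 0) (P.cons (P.lf 159836 0 0) P.nil)))))) (P.cons (P.cons (P.lf 188641446 0 0) (P.cons (P.lf 51569557 0 0) (P.cons (P.lf 0 18772371 0) (P.cons (P.lf 0 5459116 0) (P.cons (P.lf 312260 0 0) P.nil))))) (P.cons (P.cons (P.lf 15562440 0 0) (P.cons (P.lf 0 1823597 0) (P.cons (P.lf 202679 0 0) (P.cons (P.lf 590746 0 0) P.nil)))) (P.cons (P.cons (P.lf 0 13039513 0) (P.cons (P.lf 0 3416185 0) (P.cons (P.lf 1312996 0 0) P.nil))) (P.cons (P.cons (P.lf 0 1829392 0) (P.cons (P.lf 0 12274 0) P.nil)) (P.cons (P.cons (P.lf 387327 0 0) P.nil) P.nil)))))) 1238437)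
 (EL.cons 7 (TM.mk (P.cons (P.cons (P.lf 0 760509695 0) (P.cons (P.lf 0 234901022 0) (P.cons (P.lf 83153315 0 0) (P.cons (P.lf 26897846 0 0) (P.cons (P.lf 0 1634627 0) (P.cons (P.lf 0 749501 0) P.nil)))))) (P.cons (P.cons (P.lf 0 117937174 0) (P.cons (P.lf 0 5025600 0) (P.cons (P.lf 4203839 0 0) (P.cons (P.lf 0 1515742 0) (P.cons (P.lf 183547 0 0) P.nil))))) (P.cons (P.cons (P.lf 55147566 0 0) (P.cons (P.lf 16469837 0 0) (P.cons (P.lf 0 6197892 0) (P.cons (P.lf 0 1568810 0) P.nil)))) (P.cons (P.cons (P.lf 10146116 0 0) (P.cons (P.lf 454010 0 0) (P.cons (P.lf 0 305743 0) P.nil))) (P.cons (P.cons (P.lf 0 1766347 0) (P.cons (P.lf 0 559876 0) P.nil)) (P.cons (P.cons (P.lf 0 365166 0) P.nil) P.nil)))))) 1196356)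
 EL.nil))
noncomputable def S256_285_660_808_12 : EL := (EL.cons 4 (TM.mk (P.cons (P.lf 0 454308690 0) (P.cons (P.lf 0 450679503 0) (P.cons (P.lf 5414782 0 0) (P.cons (P.lf 1756837 0 0) (P.cons (P.lf 0 35658 0) (P.cons (P.lf 0 6731 0) P.nil)))))) 269)
 (EL.cons 8 (TM.mk (P.cons (P.lf 2130328762 0 0) (P.cons (P.lf 0 34172730 0) (P.cons (P.lf 0 16813380 0) (P.cons (P.lf 270802 0 0) (P.cons (P.lf 64991 0 0) (P.cons (P.lf 0 1601 0) P.nil)))))) 330)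
 EL.nil))
noncomputable def S256_285_660_808_13 : EL := (EL.cons 4 (TM.mk (P.cons (P.cons (P.lf 271443912 0 0) (P.cons (P.lf 41920867 0 0) (P.cons (P.lf 0 18076750 0) (P.lf 0 2008527 0)))) (P.cons (P.cons (P.lf 292499925 0 0) (P.cons (P.lf 39568622 0 0) (P.cons (P.lf 0 17062436 0) (P.lf 0 1895825 0)))) (P.cons (P.cons (P.lf 10412069 0 0) (P.cons (P.lf 0 3461099 0) (P.cons (P.lf 1492464 0 0) (P.lf 165828 0 0)))) (P.cons (P.cons (P.lf 0 11618853 0) (P.cons (P.lf 0 1042944 0) (P.cons (P.lf 449729 0 0) P.nil))) (P.cons (P.cons (P.lf 0 790274 0) (P.cons (P.lf 80713 0 0) P.nil)) (P.cons (P.cons (P.lf 196805 0 0) P.nil) P.nil)))))) 143260)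
 (EL.cons 8 (TM.mk (P.cons (P.cons (P.lf 0 1272845504 0) (P.cons (P.lf 0 196573898 0) (P.cons (P.lf 84764882 0 0) (P.lf 9418319 0 0)))) (P.cons (P.cons (P.lf 0 88485311 0) (P.cons (P.lf 12613013 0 0) (P.cons (P.lf 0 5438872 0) (P.lf 0 604318 0)))) (P.cons (P.cons (P.lf 55831234 0 0) (P.cons (P.lf 5902259 0 0) (P.cons (P.lf 0 2545120 0) (P.lf 0 282789 0)))) (P.cons (P.cons (P.lf 4567132 0 0) (P.cons (P.lf 0 395344 0) (P.cons (P.lf 170476 0 0) P.nil))) (P.cons (P.cons (P.lf 0 1103560 0) (P.cons (P.lf 0 87866 0) P.nil)) (P.cons (P.cons (P.lf 0 68504 0) P.nil) P.nil)))))) 95430)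
 EL.nil))
noncomputable def S256_285_660_808_14 : EL := (EL.cons 4 (TM.mk (P.cons (P.cons (P.lf 0 162184433 0) (P.cons (P.lf 0 50094416 0) (P.cons (P.lf 17733072 0 0) (P.cons (P.lf 5736168 0 0) (P.cons (P.lf 0 348596 0) (P.cons (P.lf 0 159836 0) P.nil)))))) (P.cons (P.cons (P.lf 0 188641446 0) (P.cons (P.lf 0 51569557 0) (P.cons (P.lf 18772371 0 0) (P.cons (P.lf 5459116 0 0) (P.cons (P.lf 0 312260 0) P.nil))))) (P.cons (P.cons (P.lf 0 15562440 0) (P.cons (P.lf 1823597 0 0) (P.cons (P.lf 0 202679 0) (P.cons (P.lf 0 590746 0) P.nil)))) (P.cons (P.cons (P.lf 13039513 0 0) (P.cons (P.lf 3416185 0 0) (P.cons (P.lf 0 1312996 0) P.nil))) (P.cons (P.cons (P.lf 1829392 0 0) (P.cons (P.lf 12274 0 0) P.nil)) (P.cons (P.cons (P.lf 0 387327 0) P.nil) P.nil)))))) 1238437)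
 (EL.cons 8 (TM.mk (P.cons (P.cons (P.lf 760509695 0 0) (P.cons (P.lf 234901022 0 0) (P.cons (P.lf 0 83153315 0) (P.cons (P.lf 0 26897846 0) (P.cons (P.lf 1634627 0 0) (P.cons (P.lf 749501 0 0) P.nil)))))) (P.cons (P.cons (P.lf 117937174 0 0) (P.cons (P.lf 5025600 0 0) (P.cons (P.lf 0 4203839 0) (P.cons (P.lf 1515742 0 0) (P.cons (P.lf 0 183547 0) P.nil))))) (P.cons (P.cons (P.lf 0 55147566 0) (P.cons (P.lf 0 16469837 0) (P.cons (P.lf 6197892 0 0) (P.cons (P.lf 1568810 0 0) P.nil)))) (P.cons (P.cons (P.lf 0 10146116 0) (P.cons (P.lf 0 454010 0) (P.cons (P.lf 305743 0 0) P.nil))) (P.cons (P.cons (P.lf 1766347 0 0) (P.cons (P.lf 559876 0 0) P.nil)) (P.cons (P.cons (P.lf 365166 0 0) P.nil) P.nil)))))) 1196356)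
 EL.nil))
noncomputable def S256_285_660_808_15 : EL := (EL.cons 4 (TM.mk (P.cons (P.lf 0 51259096 0) (P.cons (P.lf 0 101699239 0) (P.cons (P.lf 0 49221527 0) (P.cons (P.lf 1608569 0 0) (P.cons (P.lf 377947 0 0) (P.cons (P.lf 0 14225 0) P.nil)))))) 2557)
 (EL.cons 8 (TM.mk (P.cons (P.lf 240362403 0 0) (P.cons (P.lf 234586631 0 0) (P.cons (P.lf 0 8586714 0) (P.cons (P.lf 0 2734865 0) (P.cons (P.lf 94029 0 0) (P.cons (P.lf 17324 0 0) P.nil)))))) 877)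
 EL.nil))
noncomputable def S256_285_660_808_16 : EL := (EL.cons 4 (TM.mk (P.cons (P.cons (P.lf 30626685 0 0) (P.cons (P.lf 4729879 0 0) (P.cons (P.lf 0 2039577 0) (P.lf 0 226619 0)))) (P.cons (P.cons (P.lf 63384438 0 0) (P.cons (P.lf 9156575 0 0) (P.cons (P.lf 0 3948418 0) (P.lf 0 438712 0)))) (P.cons (P.cons (P.lf 33548524 0 0) (P.cons (P.lf 3981929 0 0) (P.cons (P.lf 0 1717052 0) (P.lf 0 190783 0)))) (P.cons (P.cons (P.lf 0 657326 0) (P.cons (P.lf 0 576567 0) (P.cons (P.lf 248622 0 0) P.nil))) (P.cons (P.cons (P.lf 0 1528853 0) (P.cons (P.lf 0 119865 0) P.nil)) (P.cons (P.cons (P.lf 0 52122 0) P.nil) P.nil)))))) 163047)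
 (EL.cons 8 (TM.mk (P.cons (P.cons (P.lf 0 143613610 0) (P.cons (P.lf 0 22179193 0) (P.cons (P.lf 9563918 0 0) (P.lf 1062657 0 0)))) (P.cons (P.cons (P.lf 0 152450061 0) (P.cons (P.lf 0 20578907 0) (P.cons (P.lf 8873856 0 0) (P.lf 985983 0 0)))) (P.cons (P.cons (P.lf 0 1892874 0) (P.cons (P.lf 2342034 0 0) (P.cons (P.lf 0 1009911 0) (P.lf 0 112212 0)))) (P.cons (P.cons (P.lf 7438707 0 0) (P.cons (P.lf 684824 0 0) (P.cons (P.lf 0 295304 0) P.nil))) (P.cons (P.cons (P.lf 338928 0 0) (P.cons (P.lf 0 69344 0) P.nil)) (P.cons (P.cons (P.lf 0 164661 0) P.nil) P.nil)))))) 115432)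
 EL.nil))
noncomputable def S256_285_660_808_17 : EL := (EL.cons 4 (TM.mk (P.cons (P.cons (P.lf 0 18299071 0) (P.cons (P.lf 0 5652091 0) (P.cons (P.lf 2000800 0 0) (P.cons (P.lf 647204 0 0) (P.cons (P.lf 0 39330 0) (P.cons (P.lf 0 18033 0) P.nil)))))) (P.cons (P.cons (P.lf 0 39437076 0) (P.cons (P.lf 0 11425470 0) (P.cons (P.lf 4102881 0 0) (P.cons (P.lf 1257979 0 0) (P.cons (P.lf 0 74249 0) P.nil))))) (P.cons (P.cons (P.lf 0 22651948 0) (P.cons (P.lf 0 5498929 0) (P.cons (P.lf 2054428 0 0) (P.cons (P.lf 536657 0 0) P.nil)))) (P.cons (P.cons (P.lf 53811 0 0) (P.cons (P.lf 680760 0 0) (P.cons (P.lf 0 203810 0) P.nil))) (P.cons (P.cons (P.lf 1767686 0 0) (P.cons (P.lf 403353 0 0) P.nil)) (P.cons (P.cons (P.lf 148370 0 0) P.nil) P.nil)))))) 661714)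
 (EL.cons 8 (TM.mk (P.cons (P.cons (P.lf 85807383 0 0) (P.cons (P.lf 26503596 0 0) (P.cons (P.lf 0 9382087 0) (P.cons (P.lf 0 3034851 0) (P.cons (P.lf 184432 0 0) (P.cons (P.lf 84565 0 0) P.nil)))))) (P.cons (P.cons (P.lf 98428630 0 0) (P.cons (P.lf 26858908 0 0) (P.cons (P.lf 0 9781453 0) (P.cons (P.lf 0 2839588 0) (P.cons (P.lf 162250 0 0) P.nil))))) (P.cons (P.cons (P.lf 5955461 0 0) (P.cons (P.lf 0 1611657 0) (P.cons (P.lf 340598 0 0) (P.cons (P.lf 382831 0 0) P.nil)))) (P.cons (P.cons (P.lf 0 7807722 0) (P.cons (P.lf 0 2003901 0) (P.cons (P.lf 770145 0 0) P.nil))) (P.cons (P.cons (P.lf 0 906895 0) (P.cons (P.lf 34390 0 0) P.nil)) (P.cons (P.cons (P.lf 278925 0 0) P.nil) P.nil)))))) 759181)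
 EL.nil))
noncomputable def S256_285_660_808_18 : EL := (EL.cons 4 (TM.mk (P.cons (P.lf 0 5783501 0) (P.cons (P.lf 0 17211901 0) (P.cons (P.lf 0 16867610 0) (P.cons (P.lf 0 5168619 0) (P.cons (P.lf 332796 0 0) (P.cons (P.lf 59024 0 0) P.nil)))))) 4306)
 (EL.cons 8 (TM.mk (P.cons (P.lf 27119797 0 0) (P.cons (P.lf 53371278 0 0) (P.cons (P.lf 24964624 0 0) (P.cons (P.lf 0 1690000 0) (P.cons (P.lf 0 384174 0) (P.cons (P.lf 22382 0 0) P.nil)))))) 4185)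
 EL.nil))
noncomputable def S256_285_660_808_19 : EL := (EL.cons 4 (TM.mk (P.cons (P.cons (P.lf 3455571 0 0) (P.cons (P.lf 533666 0 0) (P.cons (P.lf 0 230122 0) (P.lf 0 25568 0)))) (P.cons (P.cons (P.lf 10579556 0 0) (P.cons (P.lf 1562528 0 0) (P.cons (P.lf 0 673779 0) (P.lf 0 74864 0)))) (P.cons (P.cons (P.lf 10838512 0 0) (P.cons (P.lf 1467787 0 0) (P.cons (P.lf 0 632925 0) (P.lf 0 70324 0)))) (P.cons (P.cons (P.lf 3582234 0 0) (P.cons (P.lf 366255 0 0) (P.cons (P.lf 0 157933 0) P.nil))) (P.cons (P.cons (P.lf 0 318570 0) (P.cons (P.lf 0 87365 0) P.nil)) (P.cons (P.cons (P.lf 0 190141 0) P.nil) P.nil)))))) 139241)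
 (EL.cons 8 (TM.mk (P.cons (P.cons (P.lf 0 16203748 0) (P.cons (P.lf 0 2502451 0) (P.cons (P.lf 1079084 0 0) (P.lf 119897 0 0)))) (P.cons (P.cons (P.lf 0 33275061 0) (P.cons (P.lf 0 4804353 0) (P.cons (P.lf 2071691 0 0) (P.lf 230187 0 0)))) (P.cons (P.cons (P.lf 0 17083791 0) (P.cons (P.lf 0 2009269 0) (P.cons (P.lf 866419 0 0) (P.lf 96268 0 0)))) (P.cons (P.cons (P.lf 895107 0 0) (P.cons (P.lf 376756 0 0) (P.cons (P.lf 0 162461 0) P.nil))) (P.cons (P.cons (P.lf 938625 0 0) (P.cons (P.lf 74459 0 0) P.nil)) (P.cons (P.cons (P.lf 8589 0 0) P.nil) P.nil)))))) 115812)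
 EL.nil))
noncomputable def S256_285_660_808_20 : EL := (EL.cons 4 (TM.mk (P.cons (P.cons (P.lf 0 2064661 0) (P.cons (P.lf 0 637718 0) (P.cons (P.lf 225747 0 0) (P.cons (P.lf 73022 0 0) (P.cons (P.lf 0 4437 0) (P.cons (P.lf 0 2034 0) P.nil)))))) (P.cons (P.cons (P.lf 0 6497805 0) (P.cons (P.lf 0 1921745 0) (P.cons (P.lf 686866 0 0) (P.cons (P.lf 214376 0 0) (P.cons (P.lf 0 12779 0) P.nil))))) (P.cons (P.cons (P.lf 0 6945274 0) (P.cons (P.lf 0 1891660 0) (P.cons (P.lf 688333 0 0) (P.cons (P.lf 200482 0 0) P.nil)))) (P.cons (P.cons (P.lf 0 2468284 0) (P.cons (P.lf 0 520840 0) (P.cons (P.lf 200560 0 0) P.nil))) (P.cons (P.cons (P.lf 252975 0 0) (P.cons (P.lf 134035 0 0) P.nil)) (P.cons (P.cons (P.lf 224024 0 0) P.nil) P.nil)))))) 376375)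
 (EL.cons 8 (TM.mk (P.cons (P.cons (P.lf 9681542 0 0) (P.cons (P.lf 2990368 0 0) (P.cons (P.lf 0 1058569 0) (P.cons (P.lf 0 342418 0) (P.cons (P.lf 20808 0 0) (P.cons (P.lf 9541 0 0) P.nil)))))) (P.cons (P.cons (P.lf 20709785 0 0) (P.cons (P.lf 5996938 0 0) (P.cons (P.lf 0 2153742 0) (P.cons (P.lf 0 660070 0) (P.cons (P.lf 38949 0 0) P.nil))))) (P.cons (P.cons (P.lf 11573422 0 0) (P.cons (P.lf 2788766 0 0) (P.cons (P.lf 0 1043766 0) (P.cons (P.lf 0 270552 0) P.nil)))) (P.cons (P.cons (P.lf 0 384159 0) (P.cons (P.lf 0 454169 0) (P.cons (P.lf 142264 0 0) P.nil))) (P.cons (P.cons (P.lf 0 1026417 0) (P.cons (P.lf 0 229727 0) P.nil)) (P.cons (P.cons (P.lf 0 61119 0) P.nil) P.nil)))))) 402379)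
 EL.nil))
noncomputable def S256_285_660_808_21 : EL := (EL.cons 4 (TM.mk (P.cons (P.cons (P.lf 1447810071 0 0) (P.cons (P.lf 0 125762601 0) (P.cons (P.lf 54230250 0 0) (P.lf 6025581 0 0)))) (P.cons (P.cons (P.lf 0 1182597492 0) (P.cons (P.lf 0 118705866 0) (P.cons (P.lf 51187308 0 0) (P.lf 5687475 0 0)))) (P.cons (P.cons (P.lf 0 178900785 0) (P.cons (P.lf 10383297 0 0) (P.cons (P.lf 0 4477392 0) (P.lf 0 497484 0)))) (P.cons (P.cons (P.lf 39682263 0 0) (P.cons (P.lf 3128832 0 0) (P.cons (P.lf 0 1349187 0) P.nil))) (P.cons (P.cons (P.lf 3504660 0 0) (P.cons (P.lf 0 242139 0) P.nil)) (P.cons (P.cons (P.lf 0 633093 0) P.nil) P.nil)))))) 437577)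
 (EL.cons 8 (TM.mk (P.cons (P.cons (P.lf 109780056 0 0) (P.cons (P.lf 0 9535944 0) (P.cons (P.lf 4112007 0 0) (P.lf 456891 0 0)))) (P.cons (P.cons (P.lf 20993742 0 0) (P.cons (P.lf 0 18613587 0) (P.cons (P.lf 8026386 0 0) (P.lf 891819 0 0)))) (P.cons (P.cons (P.lf 0 102624396 0) (P.cons (P.lf 0 8401830 0) (P.cons (P.lf 3622962 0 0) (P.lf 402546 0 0)))) (P.cons (P.cons (P.lf 0 11298108 0) (P.cons (P.lf 881946 0 0) (P.cons (P.lf 0 380304 0) P.nil))) (P.cons (P.cons (P.lf 2770443 0 0) (P.cons (P.lf 192153 0 0) P.nil)) (P.cons (P.cons (P.lf 194550 0 0) P.nil) P.nil)))))) 344184)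
 (EL.cons 11 (TM.mk (P.cons (P.cons (P.lf 1252154487 0 0) (P.cons (P.lf 0 1166497743 0) (P.cons (P.lf 0 119720616 0) (P.cons (P.lf 24898557 0 0) (P.lf 2074878 0 0))))) (P.cons (P.cons (P.lf 0 40171767 0) (P.cons (P.lf 37423716 0 0) (P.cons (P.lf 3840888 0 0) (P.cons (P.lf 0 798798 0) (P.lf 0 66564 0))))) (P.cons (P.cons (P.lf 0 19442775 0) (P.cons (P.lf 18112743 0 0) (P.cons (P.lf 1858956 0 0) (P.cons (P.lf 0 386610 0) P.nil)))) (P.cons (P.cons (P.lf 635391 0 0) (P.cons (P.lf 0 591924 0) (P.cons (P.lf 0 60750 0) P.nil))) (P.cons (P.cons (P.lf 149289 0 0) (P.cons (P.lf 0 139077 0) P.nil)) (P.cons (P.cons (P.lf 0 5619 0) P.nil) P.nil)))))) 71619)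
 EL.nil)))
noncomputable def S256_285_660_808_22 : EL := (EL.cons 4 (TM.mk (P.cons (P.cons (P.lf 0 865048893 0) (P.cons (P.lf 0 58453563 0) (P.cons (P.lf 36810450 0 0) (P.cons (P.lf 0 7207431 0) (P.cons (P.lf 1045788 0 0) (P.cons (P.lf 479508 0 0) P.nil)))))) (P.cons (P.cons (P.lf 632575080 0 0) (P.cons (P.lf 192906327 0 0) (P.cons (P.lf 0 72788370 0) (P.cons (P.lf 0 18207486 0) (P.cons (P.lf 936780 0 0) P.nil))))) (P.cons (P.cons (P.lf 197275188 0 0) (P.cons (P.lf 11581170 0 0) (P.cons (P.lf 0 6744963 0) (P.cons (P.lf 955242 0 0) P.nil)))) (P.cons (P.cons (P.lf 0 35901228 0) (P.cons (P.lf 0 12231687 0) (P.cons (P.lf 4794138 0 0) P.nil))) (P.cons (P.cons (P.lf 0 10789098 0) (P.cons (P.lf 0 454398 0) P.nil)) (P.cons (P.cons (P.lf 953757 0 0) P.nil) P.nil)))))) 4507464)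
 (EL.cons 8 (TM.mk (P.cons (P.cons (P.lf 0 65592246 0) (P.cons (P.lf 0 4432230 0) (P.cons (P.lf 2791146 0 0) (P.cons (P.lf 0 546504 0) (P.cons (P.lf 79296 0 0) (P.cons (P.lf 36357 0 0) P.nil)))))) (P.cons (P.cons (P.lf 0 18155496 0) (P.cons (P.lf 10159176 0 0) (P.cons (P.lf 0 2705544 0) (P.cons (P.lf 0 1931481 0) (P.cons (P.lf 150966 0 0) P.nil))))) (P.cons (P.cons (P.lf 62513010 0 0) (P.cons (P.lf 15569205 0 0) (P.cons (P.lf 0 6041154 0) (P.cons (P.lf 0 1325898 0) P.nil)))) (P.cons (P.cons (P.lf 12666462 0 0) (P.cons (P.lf 116955 0 0) (P.cons (P.lf 0 207462 0) P.nil))) (P.cons (P.cons (P.lf 0 3186579 0) (P.cons (P.lf 0 898287 0) P.nil)) (P.cons (P.cons (P.lf 0 720420 0) P.nil) P.nil)))))) 1745490)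
 (EL.cons 11 (TM.mk (P.cons (P.cons (P.lf 0 748147062 0) (P.cons (P.lf 581426931 0 0) (P.cons (P.lf 228991689 0 0) (P.cons (P.lf 0 44708085 0) (P.cons (P.lf 0 13457994 0) (P.cons (P.lf 269952 0 0) P.nil)))))) (P.cons (P.cons (P.lf 0 40008402 0) (P.cons (P.lf 46538550 0 0) (P.cons (P.lf 0 8803857 0) (P.cons (P.lf 1597092 0 0) (P.cons (P.lf 913671 0 0) P.nil))))) (P.cons (P.cons (P.lf 39555168 0 0) (P.cons (P.lf 0 32587122 0) (P.cons (P.lf 0 9590445 0) (P.cons (P.lf 1886985 0 0) P.nil)))) (P.cons (P.cons (P.lf 2473416 0 0) (P.cons (P.lf 0 2665437 0) (P.cons (P.lf 255783 0 0) P.nil))) (P.cons (P.cons (P.lf 0 980139 0) (P.cons (P.lf 835209 0 0) P.nil)) (P.cons (P.cons (P.lf 0 47898 0) P.nil) P.nil)))))) 1809045)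
 EL.nil)))
noncomputable def S256_285_660_808_23 : EL := (EL.cons 4 (TM.mk (P.cons (P.cons (P.lf 163354647 0 0) (P.cons (P.lf 0 14189640 0) (P.cons (P.lf 6118731 0 0) (P.lf 679857 0 0)))) (P.cons (P.cons (P.lf 28618674 0 0) (P.cons (P.lf 0 27469725 0) (P.cons (P.lf 11845254 0 0) (P.lf 1316136 0 0)))) (P.cons (P.cons (P.lf 0 154497276 0) (P.cons (P.lf 0 11945787 0) (P.cons (P.lf 5151159 0 0) (P.lf 572349 0 0)))) (P.cons (P.cons (P.lf 0 14587983 0) (P.cons (P.lf 1729701 0 0) (P.cons (P.lf 0 745866 0) P.nil))) (P.cons (P.cons (P.lf 5606349 0 0) (P.cons (P.lf 359598 0 0) P.nil)) (P.cons (P.cons (P.lf 337476 0 0) P.nil) P.nil)))))) 492855)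
 (EL.cons 8 (TM.mk (P.cons (P.cons (P.lf 12386349 0 0) (P.cons (P.lf 0 1075926 0) (P.cons (P.lf 463950 0 0) (P.lf 51549 0 0)))) (P.cons (P.cons (P.lf 14656101 0 0) (P.cons (P.lf 0 3167481 0) (P.cons (P.lf 1365852 0 0) (P.lf 151761 0 0)))) (P.cons (P.cons (P.lf 0 9376839 0) (P.cons (P.lf 0 3018516 0) (P.cons (P.lf 1301616 0 0) (P.lf 144621 0 0)))) (P.cons (P.cons (P.lf 0 12837369 0) (P.cons (P.lf 0 811692 0) (P.cons (P.lf 350010 0 0) P.nil))) (P.cons (P.cons (P.lf 0 822162 0) (P.cons (P.lf 139728 0 0) P.nil)) (P.cons (P.cons (P.lf 392376 0 0) P.nil) P.nil)))))) 239646)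
 (EL.cons 11 (TM.mk (P.cons (P.cons (P.lf 141279066 0 0) (P.cons (P.lf 0 131614521 0) (P.cons (P.lf 0 13507929 0) (P.cons (P.lf 2809272 0 0) (P.lf 234105 0 0))))) (P.cons (P.cons (P.lf 135617946 0 0) (P.cons (P.lf 0 126340662 0) (P.cons (P.lf 0 12966660 0) (P.cons (P.lf 2696703 0 0) (P.lf 224724 0 0))))) (P.cons (P.cons (P.lf 0 8373894 0) (P.cons (P.lf 7801056 0 0) (P.cons (P.lf 800640 0 0) (P.cons (P.lf 0 166509 0) P.nil)))) (P.cons (P.cons (P.lf 0 2596800 0) (P.cons (P.lf 2419161 0 0) (P.cons (P.lf 248283 0 0) P.nil))) (P.cons (P.cons (P.lf 142722 0 0) (P.cons (P.lf 0 132960 0) P.nil)) (P.cons (P.cons (P.lf 25440 0 0) P.nil) P.nil)))))) 126261)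
 EL.nil)))
noncomputable def S256_285_660_808_24 : EL := (EL.cons 4 (TM.mk (P.cons (P.cons (P.lf 0 97602414 0) (P.cons (P.lf 0 6595242 0) (P.cons (P.lf 4153278 0 0) (P.cons (P.lf 0 813204 0) (P.cons (P.lf 117993 0 0) (P.cons (P.lf 54102 0 0) P.nil)))))) (P.cons (P.cons (P.lf 0 25450053 0) (P.cons (P.lf 15222825 0 0) (P.cons (P.lf 0 4092522 0) (P.cons (P.lf 0 2861037 0) (P.cons (P.lf 222747 0 0) P.nil))))) (P.cons (P.cons (P.lf 94224141 0 0) (P.cons (P.lf 22976811 0 0) (P.cons (P.lf 0 8957544 0) (P.cons (P.lf 0 1920444 0) P.nil)))) (P.cons (P.cons (P.lf 17556582 0 0) (P.cons (P.lf 0 317745 0) (P.cons (P.lf 0 132204 0) P.nil))) (P.cons (P.cons (P.lf 0 5784606 0) (P.cons (P.lf 0 1520589 0) P.nil)) (P.cons (P.cons (P.lf 0 1133622 0) P.nil) P.nil)))))) 2841246)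
 (EL.cons 8 (TM.mk (P.cons (P.cons (P.lf 0 7400691 0) (P.cons (P.lf 0 500082 0) (P.cons (P.lf 314919 0 0) (P.cons (P.lf 0 61659 0) (P.cons (P.lf 8946 0 0) (P.cons (P.lf 4101 0 0) P.nil)))))) (P.cons (P.cons (P.lf 0 9390036 0) (P.cons (P.lf 650157 0 0) (P.cons (P.lf 7140 0 0) (P.cons (P.lf 0 279093 0) (P.cons (P.lf 25908 0 0) P.nil))))) (P.cons (P.cons (P.lf 5109375 0 0) (P.cons (P.lf 2899704 0 0) (P.cons (P.lf 0 988194 0) (P.cons (P.lf 0 365049 0) P.nil)))) (P.cons (P.cons (P.lf 8479098 0 0) (P.cons (P.lf 1744089 0 0) (P.cons (P.lf 0 697158 0) P.nil))) (P.cons (P.cons (P.lf 981459 0 0) (P.cons (P.lf 0 113670 0) P.nil)) (P.cons (P.cons (P.lf 0 482529 0) P.nil) P.nil)))))) 899184)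
 (EL.cons 11 (TM.mk (P.cons (P.cons (P.lf 0 84412521 0) (P.cons (P.lf 65601693 0 0) (P.cons (P.lf 25836852 0 0) (P.cons (P.lf 0 5044356 0) (P.cons (P.lf 0 1518447 0) (P.cons (P.lf 30456 0 0) P.nil)))))) (P.cons (P.cons (P.lf 0 88252302 0) (P.cons (P.lf 70328529 0 0) (P.cons (P.lf 24637128 0 0) (P.cons (P.lf 0 4823862 0) (P.cons (P.lf 0 1403229 0) P.nil))))) (P.cons (P.cons (P.lf 991011 0 0) (P.cons (P.lf 750285 0 0) (P.cons (P.lf 0 2375412 0) (P.cons (P.lf 451785 0 0) P.nil)))) (P.cons (P.cons (P.lf 5086611 0 0) (P.cons (P.lf 0 4264401 0) (P.cons (P.lf 0 1132647 0) P.nil))) (P.cons (P.cons (P.lf 123891 0 0) (P.cons (P.lf 0 175431 0) P.nil)) (P.cons (P.cons (P.lf 0 137298 0) P.nil) P.nil)))))) 1338786)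
 EL.nil)))
noncomputable def S256_285_660_808_25 : EL := (EL.cons 4 (TM.mk (P.cons (P.cons (P.lf 18431106 0 0) (P.cons (P.lf 0 1600998 0) (P.cons (P.lf 690369 0 0) (P.lf 76707 0 0)))) (P.cons (P.cons (P.lf 21512880 0 0) (P.cons (P.lf 0 4687584 0) (P.cons (P.lf 2021340 0 0) (P.lf 224592 0 0)))) (P.cons (P.cons (P.lf 0 14448198 0) (P.cons (P.lf 0 4403361 0) (P.cons (P.lf 1898778 0 0) (P.lf 210975 0 0)))) (P.cons (P.cons (P.lf 0 19048191 0) (P.cons (P.lf 0 1098768 0) (P.cons (P.lf 473802 0 0) P.nil))) (P.cons (P.cons (P.lf 0 803514 0) (P.cons (P.lf 262098 0 0) P.nil)) (P.cons (P.cons (P.lf 753132 0 0) P.nil) P.nil)))))) 433557)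
 (EL.cons 8 (TM.mk (P.cons (P.cons (P.lf 1397535 0 0) (P.cons (P.lf 0 121395 0) (P.cons (P.lf 52347 0 0) (P.lf 5814 0 0)))) (P.cons (P.cons (P.lf 3040002 0 0) (P.cons (P.lf 0 477807 0) (P.cons (P.lf 206034 0 0) (P.lf 22890 0 0)))) (P.cons (P.cons (P.lf 565785 0 0) (P.cons (P.lf 0 693654 0) (P.cons (P.lf 299112 0 0) (P.lf 33234 0 0)))) (P.cons (P.cons (P.lf 0 2523063 0) (P.cons (P.lf 0 424707 0) (P.cons (P.lf 183138 0 0) P.nil))) (P.cons (P.cons (P.lf 0 1523292 0) (P.cons (P.lf 0 69651 0) P.nil)) (P.cons (P.cons (P.lf 0 26244 0) P.nil) P.nil)))))) 192336)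
 (EL.cons 11 (TM.mk (P.cons (P.cons (P.lf 15940344 0 0) (P.cons (P.lf 0 14849904 0) (P.cons (P.lf 0 1524081 0) (P.cons (P.lf 316965 0 0) (P.lf 26412 0 0))))) (P.cons (P.cons (P.lf 31114614 0 0) (P.cons (P.lf 0 28986141 0) (P.cons (P.lf 0 2974920 0) (P.cons (P.lf 618699 0 0) (P.lf 51558 0 0))))) (P.cons (P.cons (P.lf 14044566 0 0) (P.cons (P.lf 0 13083813 0) (P.cons (P.lf 0 1342824 0) (P.cons (P.lf 279270 0 0) P.nil)))) (P.cons (P.cons (P.lf 0 1474278 0) (P.cons (P.lf 1373427 0 0) (P.cons (P.lf 140958 0 0) P.nil))) (P.cons (P.cons (P.lf 0 321207 0) (P.cons (P.lf 299235 0 0) P.nil)) (P.cons (P.cons (P.lf 27426 0 0) P.nil) P.nil)))))) 145101)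
 EL.nil)))
noncomputable def S256_285_660_808_26 : EL := (EL.cons 4 (TM.mk (P.cons (P.cons (P.lf 0 11012361 0) (P.cons (P.lf 0 744132 0) (P.cons (P.lf 468609 0 0) (P.cons (P.lf 0 91752 0) (P.cons (P.lf 13311 0 0) (P.cons (P.lf 6102 0 0) P.nil)))))) (P.cons (P.cons (P.lf 0 13795887 0) (P.cons (P.lf 979383 0 0) (P.cons (P.lf 3111 0 0) (P.cons (P.lf 0 413826 0) (P.cons (P.lf 38337 0 0) P.nil))))) (P.cons (P.cons (P.lf 7913886 0 0) (P.cons (P.lf 4305165 0 0) (P.cons (P.lf 0 1474317 0) (P.cons (P.lf 0 535815 0) P.nil)))) (P.cons (P.cons (P.lf 12603966 0 0) (P.cons (P.lf 2518290 0 0) (P.cons (P.lf 0 1013820 0) P.nil))) (P.cons (P.cons (P.lf 1195920 0 0) (P.cons (P.lf 0 244728 0) P.nil)) (P.cons (P.cons (P.lf 0 840471 0) P.nil) P.nil)))))) 1466535)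
 (EL.cons 8 (TM.mk (P.cons (P.cons (P.lf 0 835011 0) (P.cons (P.lf 0 56421 0) (P.cons (P.lf 35532 0 0) (P.cons (P.lf 0 6957 0) (P.cons (P.lf 1008 0 0) (P.cons (P.lf 462 0 0) P.nil)))))) (P.cons (P.cons (P.lf 0 1887807 0) (P.cons (P.lf 17382 0 0) (P.cons (P.lf 36054 0 0) (P.cons (P.lf 0 38391 0) (P.cons (P.lf 3924 0 0) P.nil))))) (P.cons (P.cons (P.lf 0 464565 0) (P.cons (P.lf 400611 0 0) (P.cons (P.lf 0 111120 0) (P.cons (P.lf 0 72342 0) P.nil)))) (P.cons (P.cons (P.lf 1544421 0 0) (P.cons (P.lf 520683 0 0) (P.cons (P.lf 0 189411 0) P.nil))) (P.cons (P.cons (P.lf 1056939 0 0) (P.cons (P.lf 178197 0 0) P.nil)) (P.cons (P.cons (P.lf 41682 0 0) P.nil) P.nil)))))) 433188)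
 (EL.cons 11 (TM.mk (P.cons (P.cons (P.lf 0 9524160 0) (P.cons (P.lf 7401759 0 0) (P.cons (P.lf 2915139 0 0) (P.cons (P.lf 0 569148 0) (P.cons (P.lf 0 171324 0) (P.cons (P.lf 3435 0 0) P.nil)))))) (P.cons (P.cons (P.lf 0 19405479 0) (P.cons (P.lf 15277713 0 0) (P.cons (P.lf 5671629 0 0) (P.cons (P.lf 0 1108872 0) (P.cons (P.lf 0 328278 0) P.nil))))) (P.cons (P.cons (P.lf 0 9652524 0) (P.cons (P.lf 7868127 0 0) (P.cons (P.lf 2454810 0 0) (P.cons (P.lf 0 482163 0) P.nil)))) (P.cons (P.cons (P.lf 840345 0 0) (P.cons (P.lf 0 520368 0) (P.cons (P.lf 0 438072 0) P.nil))) (P.cons (P.cons (P.lf 619734 0 0) (P.cons (P.lf 0 528210 0) P.nil)) (P.cons (P.cons (P.lf 0 9819 0) P.nil) P.nil)))))) 770202)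
 EL.nil)))
noncomputable def S256_285_660_808_27 : EL := (EL.cons 13 (TM.mk (P.lf 0 4294967296 0) 0)
 EL.nil)
noncomputable def S256_285_660_808_28 : EL := (EL.cons 13 (TM.mk (P.cons (P.cons (P.lf 2566190680 0 0) (P.cons (P.lf 396313696 0 0) (P.cons (P.lf 0 170894936 0) (P.lf 0 18988324 0)))) (P.cons (P.cons (P.lf 219560131 0 0) (P.cons (P.lf 0 19071872 0) (P.cons (P.lf 8224004 0 0) (P.lf 913776 0 0)))) (P.cons (P.cons (P.lf 0 88786304 0) (P.cons (P.lf 0 9077648 0) (P.cons (P.lf 3914384 0 0) (P.lf 434928 0 0)))) (P.cons (P.cons (P.lf 0 9225400 0) (P.cons (P.lf 450540 0 0) (P.cons (P.lf 0 194276 0) P.nil))) (P.cons (P.cons (P.lf 1269976 0 0) (P.cons (P.lf 103064 0 0) P.nil)) (P.cons (P.cons (P.lf 92191 0 0) P.nil) P.nil)))))) 100427)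
 EL.nil)
noncomputable def S256_285_660_808_29 : EL := (EL.cons 13 (TM.mk (P.cons (P.cons (P.lf 0 1533267695 0) (P.cons (P.lf 0 473585218 0) (P.cons (P.lf 167645848 0 0) (P.cons (P.lf 54228894 0 0) (P.cons (P.lf 0 3295581 0) (P.cons (P.lf 0 1511074 0) P.nil)))))) (P.cons (P.cons (P.lf 0 262369011 0) (P.cons (P.lf 0 17728948 0) (P.cons (P.lf 11164600 0 0) (P.cons (P.lf 0 2186007 0) (P.cons (P.lf 317187 0 0) P.nil))))) (P.cons (P.cons (P.lf 94873486 0 0) (P.cons (P.lf 29182819 0 0) (P.cons (P.lf 0 10993387 0) (P.cons (P.lf 0 2769958 0) P.nil)))) (P.cons (P.cons (P.lf 20101698 0 0) (P.cons (P.lf 1303734 0 0) (P.cons (P.lf 0 725952 0) P.nil))) (P.cons (P.cons (P.lf 0 2409785 0) (P.cons (P.lf 0 860834 0) P.nil)) (P.cons (P.cons (P.lf 0 621427 0) P.nil) P.nil)))))) 2009127)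
 EL.nil)
noncomputable def S256_285_660_808_30 : EL := (EL.cons 13 (TM.mk (P.cons (P.lf 0 484595936 0) (P.cons (P.lf 0 480724804 0) (P.cons (P.lf 5775768 0 0) (P.cons (P.lf 1873960 0 0) (P.cons (P.lf 0 38036 0) (P.cons (P.lf 0 7180 0) P.nil)))))) 280)
 EL.nil)
noncomputable def S256_285_660_808_31 : EL := (EL.cons 13 (TM.mk (P.cons (P.cons (P.lf 289540173 0 0) (P.cons (P.lf 44715592 0 0) (P.cons (P.lf 0 19281867 0) (P.lf 0 2142429 0)))) (P.cons (P.cons (P.lf 311999921 0 0) (P.cons (P.lf 42206531 0 0) (P.cons (P.lf 0 18199932 0) (P.lf 0 2022214 0)))) (P.cons (P.cons (P.lf 11106207 0 0) (P.cons (P.lf 0 3691839 0) (P.cons (P.lf 1591962 0 0) (P.lf 176884 0 0)))) (P.cons (P.cons (P.lf 0 12393444 0) (P.cons (P.lf 0 1112474 0) (P.cons (P.lf 479711 0 0) P.nil))) (P.cons (P.cons (P.lf 0 842959 0) (P.cons (P.lf 86094 0 0) P.nil)) (P.cons (P.cons (P.lf 209926 0 0) P.nil) P.nil))))))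 152791)
 EL.nil)
noncomputable def S256_285_660_808_32 : EL := (EL.cons 13 (TM.mk (P.cons (P.cons (P.lf 0 172996729 0) (P.cons (P.lf 0 53434044 0) (P.cons (P.lf 18915277 0 0) (P.cons (P.lf 6118580 0 0) (P.cons (P.lf 0 371836 0) (P.cons (P.lf 0 170492 0) P.nil)))))) (P.cons (P.cons (P.lf 0 201217543 0) (P.cons (P.lf 0 55007528 0) (P.cons (P.lf 20023863 0 0) (P.cons (P.lf 5823058 0 0) (P.cons (P.lf 0 333078 0) P.nil))))) (P.cons (P.cons (P.lf 0 16599937 0) (P.cons (P.lf 1945171 0 0) (P.cons (P.lf 0 216191 0) (P.cons (P.lf 0 630130 0) P.nil)))) (P.cons (P.cons (P.lf 13908814 0 0) (P.cons (P.lf 3643931 0 0) (P.cons (P.lf 0 1400530 0) P.nil))) (P.cons (P.cons (P.lf 1951352 0 0) (P.cons (P.lf 13093 0 0) P.nil)) (P.cons (P.cons (P.lf 0 413149 0) P.nil) P.nil)))))) 1320976)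
 EL.nil)
noncomputable def S256_285_660_808_33 : EL := (EL.cons 14 (TM.mk (P.lf 8589934592 0 0) 0)
 EL.nil)
noncomputable def S256_285_660_808_34 : EL := (EL.cons 14 (TM.mk (P.cons (P.cons (P.lf 0 5132381360 0) (P.cons (P.lf 0 792627392 0) (P.cons (P.lf 341789872 0 0) (P.lf 37976648 0 0)))) (P.cons (P.cons (P.lf 0 439120262 0) (P.cons (P.lf 38143744 0 0) (P.cons (P.lf 0 16448008 0) (P.lf 0 1827552 0)))) (P.cons (P.cons (P.lf 177572608 0 0) (P.cons (P.lf 18155296 0 0) (P.cons (P.lf 0 7828768 0) (P.lf 0 869856 0)))) (P.cons (P.cons (P.lf 18450800 0 0) (P.cons (P.lf 0 901080 0) (P.cons (P.lf 388552 0 0) P.nil))) (P.cons (P.cons (P.lf 0 2539952 0) (P.cons (P.lf 0 206128 0) P.nil)) (P.cons (P.cons (P.lf 0 184382 0) P.nil) P.nil)))))) 200854)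
 EL.nil)
noncomputable def S256_285_660_808_35 : EL := (EL.cons 14 (TM.mk (P.cons (P.cons (P.lf 3066535390 0 0) (P.cons (P.lf 947170436 0 0) (P.cons (P.lf 0 335291696 0) (P.cons (P.lf 0 108457788 0) (P.cons (P.lf 6591162 0 0) (P.cons (P.lf 3022148 0 0) P.nil)))))) (P.cons (P.cons (P.lf 524738022 0 0) (P.cons (P.lf 35457896 0 0) (P.cons (P.lf 0 22329200 0) (P.cons (P.lf 4372014 0 0) (P.cons (P.lf 0 634374 0) P.nil))))) (P.cons (P.cons (P.lf 0 189746972 0) (P.cons (P.lf 0 58365638 0) (P.cons (P.lf 21986774 0 0) (P.cons (P.lf 5539916 0 0) P.nil)))) (P.cons (P.cons (P.lf 0 40203396 0) (P.cons (P.lf 0 2607468 0) (P.cons (P.lf 1451904 0 0) P.nil))) (P.cons (P.cons (P.lf 4819570 0 0) (P.cons (P.lf 1721668 0 0) P.nil)) (P.cons (P.cons (P.lf 1242854 0 0) P.nil) P.nil)))))) 4018254)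
 EL.nil)
noncomputable def S256_285_660_808_36 : EL := (EL.cons 14 (TM.mk (P.cons (P.lf 969191872 0 0) (P.cons (P.lf 961449608 0 0) (P.cons (P.lf 0 11551536 0) (P.cons (P.lf 0 3747920 0) (P.cons (P.lf 76072 0 0) (P.cons (P.lf 14360 0 0) P.nil)))))) 560)
 EL.nil)
noncomputable def S256_285_660_808_37 : EL := (EL.cons 14 (TM.mk (P.cons (P.cons (P.lf 0 579080346 0) (P.cons (P.lf 0 89431184 0) (P.cons (P.lf 38563734 0 0) (P.lf 4284858 0 0)))) (P.cons (P.cons (P.lf 0 623999842 0) (P.cons (P.lf 0 84413062 0) (P.cons (P.lf 36399864 0 0) (P.lf 4044428 0 0)))) (P.cons (P.cons (P.lf 0 22212414 0) (P.cons (P.lf 7383678 0 0) (P.cons (P.lf 0 3183924 0) (P.lf 0 353768 0)))) (P.cons (P.cons (P.lf 24786888 0 0) (P.cons (P.lf 2224948 0 0) (P.cons (P.lf 0 959422 0) P.nil))) (P.cons (P.cons (P.lf 1685918 0 0) (P.cons (P.lf 0 172188 0) P.nil)) (P.cons (P.cons (P.lf 0 419852 0) P.nil) P.nil))))))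 305582)
 EL.nil)
noncomputable def S256_285_660_808_38 : EL := (EL.cons 14 (TM.mk (P.cons (P.cons (P.lf 345993458 0 0) (P.cons (P.lf 106868088 0 0) (P.cons (P.lf 0 37830554 0) (P.cons (P.lf 0 12237160 0) (P.cons (P.lf 743672 0 0) (P.cons (P.lf 340984 0 0) P.nil)))))) (P.cons (P.cons (P.lf 402435086 0 0) (P.cons (P.lf 110015056 0 0) (P.cons (P.lf 0 40047726 0) (P.cons (P.lf 0 11646116 0) (P.cons (P.lf 666156 0 0) P.nil))))) (P.cons (P.cons (P.lf 33199874 0 0) (P.cons (P.lf 0 3890342 0) (P.cons (P.lf 432382 0 0) (P.cons (P.lf 1260260 0 0) P.nil)))) (P.cons (P.cons (P.lf 0 27817628 0) (P.cons (P.lf 0 7287862 0) (P.cons (P.lf 2801060 0 0) P.nil))) (P.cons (P.cons (P.lf 0 3902704 0) (P.cons (P.lf 0 26186 0) P.nil)) (P.cons (P.cons (P.lf 826298 0 0) P.nil) P.nil)))))) 2641952)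
 EL.nil)
noncomputable def S256_285_660_808_39 : EL := (EL.cons 14 (TM.mk (P.cons (P.lf 109352740 0 0) (P.cons (P.lf 216958378 0 0) (P.cons (P.lf 105005926 0 0) (P.cons (P.lf 0 3431614 0) (P.cons (P.lf 0 806288 0) (P.cons (P.lf 30348 0 0) P.nil)))))) 5440)
 EL.nil)
noncomputable def S256_285_660_808_40 : EL := (EL.cons 14 (TM.mk (P.cons (P.cons (P.lf 0 65336930 0) (P.cons (P.lf 0 10090410 0) (P.cons (P.lf 4351098 0 0) (P.lf 483454 0 0)))) (P.cons (P.cons (P.lf 0 135220136 0) (P.cons (P.lf 0 19534028 0) (P.cons (P.lf 8423292 0 0) (P.lf 935920 0 0)))) (P.cons (P.cons (P.lf 0 71570186 0) (P.cons (P.lf 0 8494782 0) (P.cons (P.lf 3663046 0 0) (P.lf 407004 0 0)))) (P.cons (P.cons (P.lf 1402296 0 0) (P.cons (P.lf 1230010 0 0) (P.cons (P.lf 0 530394 0) P.nil))) (P.cons (P.cons (P.lf 3261554 0 0) (P.cons (P.lf 255714 0 0) P.nil)) (P.cons (P.cons (P.lf 111194 0 0) P.nil) P.nil))))))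 347794)
 EL.nil)
noncomputable def S256_285_660_808_41 : EL := (EL.cons 14 (TM.mk (P.cons (P.cons (P.lf 39038020 0 0) (P.cons (P.lf 12057796 0 0) (P.cons (P.lf 0 4268374 0) (P.cons (P.lf 0 1380702 0) (P.cons (P.lf 83906 0 0) (P.cons (P.lf 38472 0 0) P.nil)))))) (P.cons (P.cons (P.lf 84132430 0 0) (P.cons (P.lf 24374338 0 0) (P.cons (P.lf 0 8752814 0) (P.cons (P.lf 0 2683690 0) (P.cons (P.lf 158398 0 0) P.nil))))) (P.cons (P.cons (P.lf 48324156 0 0) (P.cons (P.lf 11731050 0 0) (P.cons (P.lf 0 4382780 0) (P.cons (P.lf 0 1144870 0) P.nil)))) (P.cons (P.cons (P.lf 0 114798 0) (P.cons (P.lf 0 1452290 0) (P.cons (P.lf 434796 0 0) P.nil))) (P.cons (P.cons (P.lf 0 3771064 0) (P.cons (P.lf 0 860488 0) P.nil)) (P.cons (P.cons (P.lf 0 316524 0) P.nil) P.nil)))))) 1411610)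
 EL.nil)
noncomputable def S256_285_660_808_42 : EL := (EL.cons 14 (TM.mk (P.cons (P.lf 12338136 0 0) (P.cons (P.lf 36718724 0 0) (P.cons (P.lf 35984236 0 0) (P.cons (P.lf 11026388 0 0) (P.cons (P.lf 0 709966 0) (P.cons (P.lf 0 125918 0) P.nil)))))) 9172)
 EL.nil)
noncomputable def S256_285_660_808_43 : EL := (EL.cons 14 (TM.mk (P.cons (P.cons (P.lf 0 7371886 0) (P.cons (P.lf 0 1138488 0) (P.cons (P.lf 490928 0 0) (P.lf 54546 0 0)))) (P.cons (P.cons (P.lf 0 22569720 0) (P.cons (P.lf 0 3333394 0) (P.cons (P.lf 1437396 0 0) (P.lf 159710 0 0)))) (P.cons (P.cons (P.lf 0 23122160 0) (P.cons (P.lf 0 3131280 0) (P.cons (P.lf 1350242 0 0) (P.lf 150026 0 0)))) (P.cons (P.cons (P.lf 0 7642100 0) (P.cons (P.lf 0 781346 0) (P.cons (P.lf 336924 0 0) P.nil))) (P.cons (P.cons (P.lf 679616 0 0) (P.cons (P.lf 186380 0 0) P.nil)) (P.cons (P.cons (P.lf 405636 0 0) P.nil) P.nil)))))) 297008)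
 EL.nil)
noncomputable def S256_285_660_808_44 : EL := (EL.cons 14 (TM.mk (P.cons (P.cons (P.lf 4404612 0 0) (P.cons (P.lf 1360466 0 0) (P.cons (P.lf 0 481594 0) (P.cons (P.lf 0 155782 0) (P.cons (P.lf 9466 0 0) (P.cons (P.lf 4340 0 0) P.nil)))))) (P.cons (P.cons (P.lf 13861986 0 0) (P.cons (P.lf 4099724 0 0) (P.cons (P.lf 0 1465316 0) (P.cons (P.lf 0 457336 0) (P.cons (P.lf 27262 0 0) P.nil))))) (P.cons (P.cons (P.lf 14816586 0 0) (P.cons (P.lf 4035542 0 0) (P.cons (P.lf 0 1468444 0) (P.cons (P.lf 0 427696 0) P.nil)))) (P.cons (P.cons (P.lf 5265674 0 0) (P.cons (P.lf 1111126 0 0) (P.cons (P.lf 0 427862 0) P.nil))) (P.cons (P.cons (P.lf 0 539680 0) (P.cons (P.lf 0 285942 0) P.nil)) (P.cons (P.cons (P.lf 0 477918 0) P.nil) P.nil)))))) 802888)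
 EL.nil)
noncomputable def S256_285_660_808_45 : EL := (EL.cons 14 (TM.mk (P.cons (P.cons (P.lf 0 1832217568 0) (P.cons (P.lf 0 848884208 0) (P.cons (P.lf 234949676 0 0) (P.cons (P.lf 146985764 0 0) (P.cons (P.lf 0 3083922 0) (P.cons (P.lf 0 8211724 0) P.nil)))))) (P.cons (P.cons (P.lf 0 470286870 0) (P.cons (P.lf 0 104407984 0) (P.cons (P.lf 46423032 0 0) (P.cons (P.lf 4768400 0 0) (P.cons (P.lf 0 1134148 0) P.nil))))) (P.cons (P.cons (P.lf 149938674 0 0) (P.cons (P.lf 78960314 0 0) (P.cons (P.lf 0 22731110 0) (P.cons (P.lf 0 13126740 0) P.nil)))) (P.cons (P.cons (P.lf 51155224 0 0) (P.cons (P.lf 10963608 0 0) (P.cons (P.lf 0 4792116 0) P.nil))) (P.cons (P.cons (P.lf 0 4526532 0) (P.cons (P.lf 0 3458746 0) P.nil)) (P.cons (P.cons (P.lf 0 2448610 0) P.nil) P.nil)))))) 13603272)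
 EL.nil)
noncomputable def S256_285_660_808_46 : EL := (EL.cons 15 (TM.mk (P.lf 4294967296 0 0) 0)
 EL.nil)
noncomputable def S256_285_660_808_47 : EL := (EL.cons 15 (TM.mk (P.cons (P.cons (P.lf 0 2566190680 0) (P.cons (P.lf 0 396313696 0) (P.cons (P.lf 170894936 0 0) (P.lf 18988324 0 0)))) (P.cons (P.cons (P.lf 0 219560131 0) (P.cons (P.lf 19071872 0 0) (P.cons (P.lf 0 8224004 0) (P.lf 0 913776 0)))) (P.cons (P.cons (P.lf 88786304 0 0) (P.cons (P.lf 9077648 0 0) (P.cons (P.lf 0 3914384 0) (P.lf 0 434928 0)))) (P.cons (P.cons (P.lf 9225400 0 0) (P.cons (P.lf 0 450540 0) (P.cons (P.lf 194276 0 0) P.nil))) (P.cons (P.cons (P.lf 0 1269976 0) (P.cons (P.lf 0 103064 0) P.nil)) (P.cons (P.cons (P.lf 0 92191 0) P.nil) P.nil)))))) 100427)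
 EL.nil)
noncomputable def S256_285_660_808_48 : EL := (EL.cons 15 (TM.mk (P.cons (P.cons (P.lf 1533267695 0 0) (P.cons (P.lf 473585218 0 0) (P.cons (P.lf 0 167645848 0) (P.cons (P.lf 0 54228894 0) (P.cons (P.lf 3295581 0 0) (P.cons (P.lf 1511074 0 0) P.nil)))))) (P.cons (P.cons (P.lf 262369011 0 0) (P.cons (P.lf 17728948 0 0) (P.cons (P.lf 0 11164600 0) (P.cons (P.lf 2186007 0 0) (P.cons (P.lf 0 317187 0) P.nil))))) (P.cons (P.cons (P.lf 0 94873486 0) (P.cons (P.lf 0 29182819 0) (P.cons (P.lf 10993387 0 0) (P.cons (P.lf 2769958 0 0) P.nil)))) (P.cons (P.cons (P.lf 0 20101698 0) (P.cons (P.lf 0 1303734 0) (P.cons (P.lf 725952 0 0) P.nil))) (P.cons (P.cons (P.lf 2409785 0 0) (P.cons (P.lf 860834 0 0) P.nil)) (P.cons (P.cons (P.lf 621427 0 0) P.nil) P.nil)))))) 2009127)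
 EL.nil)
noncomputable def S256_285_660_808 : SL := (SL.cons S256_285_660_808_0 (SL.cons S256_285_660_808_1 (SL.cons S256_285_660_808_2 (SL.cons S256_285_660_808_3 (SL.cons S256_285_660_808_4 (SL.cons S256_285_660_808_5 (SL.cons S256_285_660_808_6 (SL.cons S256_285_660_808_7 (SL.cons S256_285_660_808_8 (SL.cons S256_285_660_808_9 (SL.cons S256_285_660_808_10 (SL.cons S256_285_660_808_11 (SL.cons S256_285_660_808_12 (SL.cons S256_285_660_808_13 (SL.cons S256_285_660_808_14 (SL.cons S256_285_660_808_15 (SL.cons S256_285_660_808_16 (SL.cons S256_285_660_808_17 (SL.cons S256_285_660_808_18 (SL.cons S256_285_660_808_19 (SL.cons S256_285_660_808_20 (SL.cons S256_285_660_808_21 (SL.cons S256_285_660_808_22 (SL.cons S256_285_660_808_23 (SL.cons S256_285_660_808_24 (SL.cons S256_285_660_808_25 (SL.cons S256_285_660_808_26 (SL.cons S256_285_660_808_27 (SL.cons S256_285_660_808_28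 (SL.cons S256_285_660_808_29 (SL.cons S256_285_660_808_30 (SL.cons S256_285_660_808_31 (SL.cons S256_285_660_808_32 (SL.cons S256_285_660_808_33 (SL.cons S256_285_660_808_34 (SL.cons S256_285_660_808_35 (SL.cons S256_285_660_808_36 (SL.cons S256_285_660_808_37 (SL.cons S256_285_660_808_38 (SL.cons S256_285_660_808_39 (SL.cons S256_285_660_808_40 (SL.cons S256_285_660_808_41 (SL.cons S256_285_660_808_42 (SL.cons S256_285_660_808_43 (SL.cons S256_285_660_808_44 (SL.cons S256_285_660_808_45 (SL.cons S256_285_660_808_46 (SL.cons S256_285_660_808_47 (SL.cons S256_285_660_808_48 SL.nil)))))))))))))))))))))))))))))))))))))))))))))))))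
noncomputable def S256_285_734_771_0 : EL := (EL.cons 0 (TM.mk (P.cons (P.lf 8359606057 0 0) (P.cons (P.lf 0 190686074 0) (P.cons (P.lf 0 92290364 0) (P.cons (P.lf 3016066 0 0) (P.cons (P.lf 708651 0 0) (P.cons (P.lf 0 26673 0) P.nil)))))) 4788)
 (EL.cons 1 (TM.mk (P.cons (P.lf 450679505 0 0) (P.cons (P.lf 439849933 0 0) (P.cons (P.lf 0 16100088 0) (P.cons (P.lf 0 5127871 0) (P.cons (P.lf 176304 0 0) (P.cons (P.lf 32482 0 0) P.nil)))))) 1651)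
 (EL.cons 5 (TM.mk (P.cons (P.lf 4329140030 0 0) (P.cons (P.lf 67799490 0 0) (P.cons (P.lf 32814348 0 0) (P.cons (P.lf 0 1072376 0) (P.cons (P.lf 0 251962 0) (P.cons (P.lf 9484 0 0) P.nil)))))) 1837)
 (EL.cons 9 (TM.mk (P.lf 6442450944 0 0) 2)
 EL.nil))))
noncomputable def S256_285_734_771_1 : EL := (EL.cons 0 (TM.mk (P.cons (P.cons (P.lf 0 5466615363 0) (P.cons (P.lf 0 144375381 0) (P.cons (P.lf 21744702 0 0) (P.lf 557554 0 0)))) (P.cons (P.cons (P.lf 0 343459957 0) (P.cons (P.lf 20591425 0 0) (P.cons (P.lf 0 3101305 0) (P.lf 0 79510 0)))) (P.cons (P.cons (P.lf 537995681 0 0) (P.cons (P.lf 9253760 0 0) (P.cons (P.lf 0 1393723 0) (P.lf 0 35722 0)))) (P.cons (P.cons (P.lf 43124016 0 0) (P.cons (P.lf 0 1010209 0) (P.cons (P.lf 152140 0 0) P.nil))) (P.cons (P.cons (P.lf 0 16123723 0) (P.cons (P.lf 0 213597 0) P.nil)) (P.cons (P.cons (P.lf 0 886335 0) P.nil) P.nil))))))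 390032)
 (EL.cons 1 (TM.mk (P.cons (P.cons (P.lf 414347247 0 0) (P.cons (P.lf 0 19958347 0) (P.cons (P.lf 3005966 0 0) (P.lf 77071 0 0)))) (P.cons (P.cons (P.lf 0 918462437 0) (P.cons (P.lf 0 18124084 0) (P.cons (P.lf 2729708 0 0) (P.lf 69988 0 0)))) (P.cons (P.cons (P.lf 0 76683033 0) (P.cons (P.lf 2676738 0 0) (P.cons (P.lf 0 403140 0) (P.lf 0 10329 0)))) (P.cons (P.cons (P.lf 52692196 0 0) (P.cons (P.lf 769799 0 0) (P.cons (P.lf 0 115936 0) P.nil))) (P.cons (P.cons (P.lf 3375169 0 0) (P.cons (P.lf 0 88398 0) P.nil)) (P.cons (P.cons (P.lf 0 1219981 0) P.nil) P.nil)))))) 182109)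
 (EL.cons 5 (TM.mk (P.cons (P.cons (P.lf 0 2568610064 0) (P.cons (P.lf 0 79271548 0) (P.cons (P.lf 11939266 0 0) (P.lf 306136 0 0)))) (P.cons (P.cons (P.lf 0 243925652 0) (P.cons (P.lf 0 1036262 0) (P.cons (P.lf 156070 0 0) (P.lf 3996 0 0)))) (P.cons (P.cons (P.lf 0 36920070 0) (P.cons (P.lf 0 298686 0) (P.cons (P.lf 44978 0 0) (P.lf 1146 0 0)))) (P.cons (P.cons (P.lf 179932 0 0) (P.cons (P.lf 210706 0 0) (P.cons (P.lf 0 31728 0) P.nil))) (P.cons (P.cons (P.lf 3534944 0 0) (P.cons (P.lf 41978 0 0) P.nil)) (P.cons (P.cons (P.lf 160521 0 0) P.nil) P.nil)))))) 180085)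
 (EL.cons 9 (TM.mk (P.cons (P.cons (P.lf 0 3981437220 0) (P.cons (P.lf 0 115239714 0) (P.cons (P.lf 17356512 0 0) (P.lf 445032 0 0)))) (P.cons (P.cons (P.lf 0 322980658 0) (P.cons (P.lf 5545698 0 0) (P.cons (P.lf 0 835242 0) (P.lf 0 21414 0)))) (P.cons (P.cons (P.lf 136206408 0 0) (P.cons (P.lf 2639586 0 0) (P.cons (P.lf 0 397548 0) (P.lf 0 10188 0)))) (P.cons (P.cons (P.lf 13687866 0 0) (P.cons (P.lf 0 131004 0) (P.cons (P.lf 19728 0 0) P.nil))) (P.cons (P.cons (P.lf 0 1939332 0) (P.cons (P.lf 0 29964 0) P.nil)) (P.cons (P.cons (P.lf 0 136426 0) P.nil) P.nil)))))) 30617)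
 (EL.cons 2 (TM.mk (P.cons (P.cons (P.lf 0 100852500 0) (P.cons (P.lf 32303227 0 0) (P.cons (P.lf 662880 0 0) (P.cons (P.lf 0 44578 0) (P.lf 0 855 0))))) (P.cons (P.cons (P.lf 0 96811290 0) (P.cons (P.lf 31008822 0 0) (P.cons (P.lf 636319 0 0) (P.cons (P.lf 0 42792 0) (P.lf 0 821 0))))) (P.cons (P.cons (P.lf 5977729 0 0) (P.cons (P.lf 0 1914676 0) (P.cons (P.lf 0 39287 0) (P.cons (P.lf 2640 0 0) P.nil)))) (P.cons (P.cons (P.lf 1853732 0 0) (P.cons (P.lf 0 593752 0) (P.cons (P.lf 0 12183 0) P.nil))) (P.cons (P.cons (P.lf 0 101882 0) (P.cons (P.lf 32630 0 0) P.nil)) (P.cons (P.cons (P.lf 0 18160 0) P.nil) P.nil)))))) 10289)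
 (EL.cons 6 (TM.mk (P.cons (P.cons (P.lf 472914096 0 0) (P.cons (P.lf 0 151475202 0) (P.cons (P.lf 0 3108360 0) (P.cons (P.lf 209043 0 0) (P.lf 4017 0 0))))) (P.cons (P.cons (P.lf 0 22758126 0) (P.cons (P.lf 7289466 0 0) (P.cons (P.lf 149583 0 0) (P.cons (P.lf 0 10059 0) (P.lf 0 192 0))))) (P.cons (P.cons (P.lf 0 10832196 0) (P.cons (P.lf 3469569 0 0) (P.cons (P.lf 71196 0 0) (P.cons (P.lf 0 4785 0) P.nil)))) (P.cons (P.cons (P.lf 537624 0 0) (P.cons (P.lf 0 172200 0) (P.cons (P.lf 0 3531 0) P.nil))) (P.cons (P.cons (P.lf 122985 0 0) (P.cons (P.lf 0 39390 0) P.nil)) (P.cons (P.cons (P.lf 0 6672 0) P.nil) P.nil)))))) 5283)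
 EL.nil))))))
noncomputable def S256_285_734_771_2 : EL := (EL.cons 0 (TM.mk (P.cons (P.cons (P.lf 3564002640 0 0) (P.cons (P.lf 189194037 0 0) (P.cons (P.lf 0 26004662 0) (P.cons (P.lf 0 1480766 0) (P.cons (P.lf 37260 0 0) (P.cons (P.lf 2897 0 0) P.nil)))))) (P.cons (P.cons (P.lf 527462027 0 0) (P.cons (P.lf 0 9982074 0) (P.cons (P.lf 836631 0 0) (P.cons (P.lf 239386 0 0) (P.cons (P.lf 0 9971 0) P.nil))))) (P.cons (P.cons (P.lf 0 617173439 0) (P.cons (P.lf 0 30467416 0) (P.cons (P.lf 4314829 0 0) (P.cons (P.lf 200149 0 0) P.nil)))) (P.cons (P.cons (P.lf 0 105259312 0) (P.cons (P.lf 110149 0 0) (P.cons (P.lf 39801 0 0) P.nil))) (P.cons (P.cons (P.lf 31577029 0 0) (P.cons (P.lf 1604244 0 0) P.nil)) (P.cons (P.cons (P.lf 5752964 0 0) P.nil) P.nil)))))) 2262544)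
 (EL.cons 1 (TM.mk (P.cons (P.cons (P.lf 0 684259057 0) (P.cons (P.lf 0 118872 0) (P.cons (P.lf 587716 0 0) (P.cons (P.lf 0 171172 0) (P.cons (P.lf 8523 0 0) (P.cons (P.lf 659 0 0) P.nil)))))) (P.cons (P.cons (P.lf 897759517 0 0) (P.cons (P.lf 47920517 0 0) (P.cons (P.lf 0 6730239 0) (P.cons (P.lf 0 331801 0) (P.cons (P.lf 7285 0 0) P.nil))))) (P.cons (P.cons (P.lf 193929583 0 0) (P.cons (P.lf 0 190440 0) (P.cons (P.lf 0 89670 0) (P.cons (P.lf 36368 0 0) P.nil)))) (P.cons (P.cons (P.lf 0 79031048 0) (P.cons (P.lf 0 4114034 0) (P.cons (P.lf 589261 0 0) P.nil))) (P.cons (P.cons (P.lf 0 15165170 0) (P.cons (P.lf 5638 0 0) P.nil)) (P.cons (P.cons (P.lf 3053790 0 0) P.nil) P.nil)))))) 1187727)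
 (EL.cons 5 (TM.mk (P.cons (P.cons (P.lf 1521399484 0 0) (P.cons (P.lf 94158920 0 0) (P.cons (P.lf 0 12730718 0) (P.cons (P.lf 0 800638 0) (P.cons (P.lf 21696 0 0) (P.cons (P.lf 1673 0 0) P.nil)))))) (P.cons (P.cons (P.lf 264889550 0 0) (P.cons (P.lf 8876040 0 0) (P.cons (P.lf 0 1324612 0) (P.cons (P.lf 0 37943 0) (P.cons (P.lf 165 0 0) P.nil))))) (P.cons (P.cons (P.lf 46992356 0 0) (P.cons (P.lf 982615 0 0) (P.cons (P.lf 0 152209 0) (P.cons (P.lf 0 2508 0) P.nil)))) (P.cons (P.cons (P.lf 2773702 0 0) (P.cons (P.lf 0 444820 0) (P.cons (P.lf 57402 0 0) P.nil))) (P.cons (P.cons (P.lf 0 6802526 0) (P.cons (P.lf 0 281691 0) P.nil)) (P.cons (P.cons (P.lf 0 978058 0) P.nil) P.nil)))))) 1060388)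
 (EL.cons 9 (TM.mk (P.cons (P.cons (P.lf 2460529768 0 0) (P.cons (P.lf 142436376 0 0) (P.cons (P.lf 0 19391304 0) (P.cons (P.lf 0 1170990 0) (P.cons (P.lf 30838 0 0) (P.cons (P.lf 2397 0 0) P.nil)))))) (P.cons (P.cons (P.lf 399204348 0 0) (P.cons (P.lf 4700182 0 0) (P.cons (P.lf 0 906312 0) (P.cons (P.lf 41607 0 0) (P.cons (P.lf 0 2967 0) P.nil))))) (P.cons (P.cons (P.lf 0 152159173 0) (P.cons (P.lf 0 8691376 0) (P.cons (P.lf 1219360 0 0) (P.cons (P.lf 60564 0 0) P.nil)))) (P.cons (P.cons (P.lf 0 30575137 0) (P.cons (P.lf 0 357930 0) (P.cons (P.lf 63142 0 0) P.nil))) (P.cons (P.cons (P.lf 3904260 0 0) (P.cons (P.lf 254727 0 0) P.nil)) (P.cons (P.cons (P.lf 941850 0 0) P.nil) P.nil)))))) 267022)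
 (EL.cons 2 (TM.mk (P.cons (P.cons (P.lf 124653768 0 0) (P.cons (P.lf 0 36318808 0) (P.cons (P.lf 0 2518380 0) (P.cons (P.lf 191508 0 0) (P.cons (P.lf 10687 0 0) (P.cons (P.lf 0 112 0) P.nil)))))) (P.cons (P.cons (P.lf 129770949 0 0) (P.cons (P.lf 0 38276049 0) (P.cons (P.lf 0 2402167 0) (P.cons (P.lf 181738 0 0) (P.cons (P.lf 9883 0 0) P.nil))))) (P.cons (P.cons (P.lf 0 1946008 0) (P.cons (P.lf 160138 0 0) (P.cons (P.lf 230900 0 0) (P.cons (P.lf 0 18365 0) P.nil)))) (P.cons (P.cons (P.lf 0 7412703 0) (P.cons (P.lf 2243041 0 0) (P.cons (P.lf 110531 0 0) P.nil))) (P.cons (P.cons (P.lf 0 157831 0) (P.cons (P.lf 67162 0 0) P.nil)) (P.cons (P.cons (P.lf 199001 0 0) P.nil) P.nil)))))) 131866)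
 (EL.cons 6 (TM.mk (P.cons (P.cons (P.lf 0 584522190 0) (P.cons (P.lf 170304906 0 0) (P.cons (P.lf 11809116 0 0) (P.cons (P.lf 0 898014 0) (P.cons (P.lf 0 50118 0) (P.cons (P.lf 546 0 0) P.nil)))))) (P.cons (P.cons (P.lf 0 19288320 0) (P.cons (P.lf 7806432 0 0) (P.cons (P.lf 0 640032 0) (P.cons (P.lf 53034 0 0) (P.cons (P.lf 4176 0 0) P.nil))))) (P.cons (P.cons (P.lf 35667192 0 0) (P.cons (P.lf 0 10688394 0) (P.cons (P.lf 0 580956 0) (P.cons (P.lf 43584 0 0) P.nil)))) (P.cons (P.cons (P.lf 1468830 0 0) (P.cons (P.lf 0 546228 0) (P.cons (P.lf 26016 0 0) P.nil))) (P.cons (P.cons (P.lf 0 1045362 0) (P.cons (P.lf 319002 0 0) P.nil)) (P.cons (P.cons (P.lf 0 33702 0) P.nil) P.nil)))))) 94824)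
 EL.nil))))))
noncomputable def S256_285_734_771_3 : EL := (EL.cons 0 (TM.mk (P.cons (P.lf 96110806 0 0) (P.cons (P.lf 190686074 0 0) (P.cons (P.lf 92290364 0 0) (P.cons (P.lf 0 3016066 0) (P.cons (P.lf 0 708651 0) (P.cons (P.lf 26673 0 0) P.nil)))))) 4788)
 (EL.cons 1 (TM.mk (P.cons (P.lf 0 450679505 0) (P.cons (P.lf 0 439849933 0) (P.cons (P.lf 16100088 0 0) (P.cons (P.lf 5127871 0 0) (P.cons (P.lf 0 176304 0) (P.cons (P.lf 0 32482 0) P.nil)))))) 1651)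
 (EL.cons 5 (TM.mk (P.cons (P.lf 2113310914 0 0) (P.cons (P.lf 0 67799490 0) (P.cons (P.lf 0 32814348 0) (P.cons (P.lf 1072376 0 0) (P.cons (P.lf 251962 0 0) (P.cons (P.lf 0 9484 0) P.nil)))))) 1830)
 EL.nil)))
noncomputable def S256_285_734_771_4 : EL := (EL.cons 0 (TM.mk (P.cons (P.cons (P.lf 0 59396516 0) (P.cons (P.lf 0 1719186 0) (P.cons (P.lf 258929 0 0) (P.lf 6637 0 0)))) (P.cons (P.cons (P.lf 0 122662409 0) (P.cons (P.lf 0 3328175 0) (P.cons (P.lf 501263 0 0) (P.lf 12851 0 0)))) (P.cons (P.cons (P.lf 0 64563206 0) (P.cons (P.lf 0 1447326 0) (P.cons (P.lf 217984 0 0) (P.lf 5588 0 0)))) (P.cons (P.cons (P.lf 1472807 0 0) (P.cons (P.lf 209566 0 0) (P.cons (P.lf 0 31561 0) P.nil))) (P.cons (P.cons (P.lf 2916562 0 0) (P.cons (P.lf 43567 0 0) P.nil)) (P.cons (P.cons (P.lf 91923 0 0) P.nil) P.nil)))))) 81356)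
 (EL.cons 1 (TM.mk (P.cons (P.cons (P.lf 278520110 0 0) (P.cons (P.lf 8061553 0 0) (P.cons (P.lf 0 1214167 0) (P.lf 0 31130 0)))) (P.cons (P.cons (P.lf 294421436 0 0) (P.cons (P.lf 7479892 0 0) (P.cons (P.lf 0 1126563 0) (P.lf 0 28884 0)))) (P.cons (P.cons (P.lf 2572946 0 0) (P.cons (P.lf 0 851266 0) (P.cons (P.lf 128208 0 0) (P.lf 3285 0 0)))) (P.cons (P.cons (P.lf 0 14233020 0) (P.cons (P.lf 0 248915 0) (P.cons (P.lf 37488 0 0) P.nil))) (P.cons (P.cons (P.lf 0 606586 0) (P.cons (P.lf 25203 0 0) P.nil)) (P.cons (P.cons (P.lf 313481 0 0) P.nil) P.nil)))))) 46016)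
 (EL.cons 5 (TM.mk (P.cons (P.cons (P.lf 0 1306026976 0) (P.cons (P.lf 0 37801970 0) (P.cons (P.lf 5693438 0 0) (P.lf 145982 0 0)))) (P.cons (P.cons (P.lf 0 64046918 0) (P.cons (P.lf 3031916 0 0) (P.cons (P.lf 0 456640 0) (P.lf 0 11706 0)))) (P.cons (P.cons (P.lf 68357940 0 0) (P.cons (P.lf 1394466 0 0) (P.cons (P.lf 0 210020 0) (P.lf 0 5382 0)))) (P.cons (P.cons (P.lf 4038956 0 0) (P.cons (P.lf 0 118180 0) (P.cons (P.lf 17796 0 0) P.nil))) (P.cons (P.cons (P.lf 0 1683440 0) (P.cons (P.lf 0 25478 0) P.nil)) (P.cons (P.cons (P.lf 0 78158 0) P.nil) P.nil)))))) 38600)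
 EL.nil)))
noncomputable def S256_285_734_771_5 : EL := (EL.cons 0 (TM.mk (P.cons (P.cons (P.lf 36707069 0 0) (P.cons (P.lf 2124915 0 0) (P.cons (P.lf 0 289284 0) (P.cons (P.lf 0 17469 0) (P.cons (P.lf 458 0 0) (P.cons (P.lf 35 0 0) P.nil)))))) (P.cons (P.cons (P.lf 78783154 0 0) (P.cons (P.lf 4286003 0 0) (P.cons (P.lf 0 587471 0) (P.cons (P.lf 0 34038 0) (P.cons (P.lf 868 0 0) P.nil))))) (P.cons (P.cons (P.lf 44793783 0 0) (P.cons (P.lf 2049906 0 0) (P.cons (P.lf 0 286421 0) (P.cons (P.lf 0 14639 0) P.nil)))) (P.cons (P.cons (P.lf 0 392962 0) (P.cons (P.lf 0 261940 0) (P.cons (P.lf 33127 0 0) P.nil))) (P.cons (P.cons (P.lf 0 3484001 0) (P.cons (P.lf 0 149167 0) P.nil)) (P.cons (P.cons (P.lf 0 270878 0) P.nil) P.nil)))))) 206550)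
 (EL.cons 1 (TM.mk (P.cons (P.cons (P.lf 0 172125538 0) (P.cons (P.lf 0 9964087 0) (P.cons (P.lf 1356511 0 0) (P.cons (P.lf 81915 0 0) (P.cons (P.lf 0 2156 0) (P.cons (P.lf 0 166 0) P.nil)))))) (P.cons (P.cons (P.lf 0 195915665 0) (P.cons (P.lf 0 10053455 0) (P.cons (P.lf 1387316 0 0) (P.cons (P.lf 77036 0 0) (P.cons (P.lf 0 1895 0) P.nil))))) (P.cons (P.cons (P.lf 0 10461892 0) (P.cons (P.lf 643059 0 0) (P.cons (P.lf 0 71881 0) (P.cons (P.lf 0 10003 0) P.nil)))) (P.cons (P.cons (P.lf 15483438 0 0) (P.cons (P.lf 743548 0 0) (P.cons (P.lf 0 105365 0) P.nil))) (P.cons (P.cons (P.lf 1684511 0 0) (P.cons (P.lf 0 15258 0) P.nil)) (P.cons (P.cons (P.lf 0 553295 0) P.nil) P.nil)))))) 191022)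
 (EL.cons 5 (TM.mk (P.cons (P.cons (P.lf 807125184 0 0) (P.cons (P.lf 46723264 0 0) (P.cons (P.lf 0 6360910 0) (P.cons (P.lf 0 384116 0) (P.cons (P.lf 10114 0 0) (P.cons (P.lf 784 0 0) P.nil)))))) (P.cons (P.cons (P.lf 105056326 0 0) (P.cons (P.lf 42814 0 0) (P.cons (P.lf 0 93224 0) (P.cons (P.lf 25970 0 0) (P.cons (P.lf 0 1296 0) P.nil))))) (P.cons (P.cons (P.lf 0 66646402 0) (P.cons (P.lf 0 3625980 0) (P.cons (P.lf 508290 0 0) (P.cons (P.lf 25392 0 0) P.nil)))) (P.cons (P.cons (P.lf 0 10051992 0) (P.cons (P.lf 0 26174 0) (P.cons (P.lf 9268 0 0) P.nil))) (P.cons (P.cons (P.lf 2540174 0 0) (P.cons (P.lf 137946 0 0) P.nil)) (P.cons (P.cons (P.lf 410260 0 0) P.nil) P.nil)))))) 158614)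
 EL.nil)))
noncomputable def S256_285_734_771_6 : EL := (EL.cons 12 (TM.mk (P.lf 8589934592 0 0) 0)
 (EL.cons 3 (TM.mk (P.cons (P.lf 454308690 0 0) (P.cons (P.lf 450679503 0 0) (P.cons (P.lf 0 5414782 0) (P.cons (P.lf 0 1756837 0) (P.cons (P.lf 35658 0 0) (P.cons (P.lf 6731 0 0) P.nil)))))) 269)
 (EL.cons 7 (TM.mk (P.cons (P.lf 0 2130328762 0) (P.cons (P.lf 34172730 0 0) (P.cons (P.lf 16813380 0 0) (P.cons (P.lf 0 270802 0) (P.cons (P.lf 0 64991 0) (P.cons (P.lf 1601 0 0) P.nil)))))) 330)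
 EL.nil)))
noncomputable def S256_285_734_771_7 : EL := (EL.cons 12 (TM.mk (P.cons (P.cons (P.lf 0 5308582960 0) (P.cons (P.lf 0 153652952 0) (P.cons (P.lf 23142016 0 0) (P.lf 593376 0 0)))) (P.cons (P.cons (P.lf 0 430640878 0) (P.cons (P.lf 7394264 0 0) (P.cons (P.lf 0 1113656 0) (P.lf 0 28552 0)))) (P.cons (P.cons (P.lf 181608544 0 0) (P.cons (P.lf 3519448 0 0) (P.cons (P.lf 0 530064 0) (P.lf 0 13584 0)))) (P.cons (P.cons (P.lf 18250488 0 0) (P.cons (P.lf 0 174672 0) (P.cons (P.lf 26304 0 0) P.nil))) (P.cons (P.cons (P.lf 0 2585776 0) (P.cons (P.lf 0 39952 0) P.nil)) (P.cons (P.cons (P.lf 0 181902 0) P.nil) P.nil)))))) 40798)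
 (EL.cons 3 (TM.mk (P.cons (P.cons (P.lf 0 1700615912 0) (P.cons (P.lf 16252944 0 0) (P.cons (P.lf 0 2447890 0) (P.lf 0 62762 0)))) (P.cons (P.cons (P.lf 907689828 0 0) (P.cons (P.lf 15340966 0 0) (P.cons (P.lf 0 2310538 0) (P.lf 0 59242 0)))) (P.cons (P.cons (P.lf 166949907 0 0) (P.cons (P.lf 0 1341884 0) (P.cons (P.lf 202100 0 0) (P.lf 5180 0 0)))) (P.cons (P.cons (P.lf 0 28527104 0) (P.cons (P.lf 0 404354 0) (P.cons (P.lf 60900 0 0) P.nil))) (P.cons (P.cons (P.lf 0 2678500 0) (P.cons (P.lf 31290 0 0) P.nil)) (P.cons (P.cons (P.lf 442438 0 0) P.nil) P.nil)))))) 118688)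
 (EL.cons 7 (TM.mk (P.cons (P.cons (P.lf 1208883802 0 0) (P.cons (P.lf 39954951 0 0) (P.cons (P.lf 0 6017708 0) (P.lf 0 154304 0)))) (P.cons (P.cons (P.lf 68825500 0 0) (P.cons (P.lf 1163224 0 0) (P.cons (P.lf 0 175193 0) (P.lf 0 4491 0)))) (P.cons (P.cons (P.lf 47348817 0 0) (P.cons (P.lf 484545 0 0) (P.cons (P.lf 0 72975 0) (P.lf 0 1869 0)))) (P.cons (P.cons (P.lf 6622803 0 0) (P.cons (P.lf 0 94327 0) (P.cons (P.lf 14205 0 0) P.nil))) (P.cons (P.cons (P.lf 0 1690064 0) (P.cons (P.lf 0 20214 0) P.nil)) (P.cons (P.cons (P.lf 0 123817 0) P.nil) P.nil)))))) 93492)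
 (EL.cons 10 (TM.mk (P.cons (P.cons (P.lf 0 953444658 0) (P.cons (P.lf 305389971 0 0) (P.cons (P.lf 6266787 0 0) (P.cons (P.lf 0 421458 0) (P.lf 0 8103 0))))) (P.cons (P.cons (P.lf 30588522 0 0) (P.cons (P.lf 0 9797556 0) (P.cons (P.lf 0 201051 0) (P.cons (P.lf 13521 0 0) (P.lf 258 0 0))))) (P.cons (P.cons (P.lf 14804571 0 0) (P.cons (P.lf 0 4741929 0) (P.cons (P.lf 0 97305 0) (P.cons (P.lf 6543 0 0) P.nil)))) (P.cons (P.cons (P.lf 0 483813 0) (P.cons (P.lf 154965 0 0) (P.cons (P.lf 3180 0 0) P.nil))) (P.cons (P.cons (P.lf 0 113673 0) (P.cons (P.lf 36408 0 0) P.nil)) (P.cons (P.cons (P.lf 4278 0 0) P.nil) P.nil)))))) 3747)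
 EL.nil))))
noncomputable def S256_285_734_771_8 : EL := (EL.cons 12 (TM.mk (P.cons (P.cons (P.lf 3280706358 0 0) (P.cons (P.lf 189915168 0 0) (P.cons (P.lf 0 25855072 0) (P.cons (P.lf 0 1561320 0) (P.cons (P.lf 41118 0 0) (P.cons (P.lf 3196 0 0) P.nil)))))) (P.cons (P.cons (P.lf 532272464 0 0) (P.cons (P.lf 6266910 0 0) (P.cons (P.lf 0 1208416 0) (P.cons (P.lf 55476 0 0) (P.cons (P.lf 0 3956 0) P.nil))))) (P.cons (P.cons (P.lf 0 202878898 0) (P.cons (P.lf 0 11588502 0) (P.cons (P.lf 1625814 0 0) (P.cons (P.lf 80752 0 0) P.nil)))) (P.cons (P.cons (P.lf 0 40766850 0) (P.cons (P.lf 0 477240 0) (P.cons (P.lf 84190 0 0) P.nil))) (P.cons (P.cons (P.lf 5205680 0 0) (P.cons (P.lf 339636 0 0) P.nil)) (P.cons (P.cons (P.lf 1255800 0 0) P.nil) P.nil)))))) 356000)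
 (EL.cons 3 (TM.mk (P.cons (P.cons (P.lf 1928450989 0 0) (P.cons (P.lf 30706748 0 0) (P.cons (P.lf 0 5351627 0) (P.cons (P.lf 100341 0 0) (P.cons (P.lf 0 10870 0) (P.cons (P.lf 0 846 0) P.nil)))))) (P.cons (P.cons (P.lf 0 1151667345 0) (P.cons (P.lf 0 66287109 0) (P.cons (P.lf 9332591 0 0) (P.cons (P.lf 452097 0 0) (P.cons (P.lf 0 9741 0) P.nil))))) (P.cons (P.cons (P.lf 0 384398111 0) (P.cons (P.lf 0 4592066 0) (P.cons (P.lf 801291 0 0) (P.cons (P.lf 0 15295 0) P.nil)))) (P.cons (P.cons (P.lf 63481309 0 0) (P.cons (P.lf 4149039 0 0) (P.cons (P.lf 0 594804 0) P.nil))) (P.cons (P.cons (P.lf 19942031 0 0) (P.cons (P.lf 163212 0 0) P.nil)) (P.cons (P.cons (P.lf 0 1661070 0) P.nil) P.nil)))))) 1242397)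
 (EL.cons 7 (TM.mk (P.cons (P.cons (P.lf 0 680556616 0) (P.cons (P.lf 0 45532800 0) (P.cons (P.lf 6110039 0 0) (P.cons (P.lf 401089 0 0) (P.cons (P.lf 0 11181 0) (P.cons (P.lf 0 864 0) P.nil)))))) (P.cons (P.cons (P.lf 0 87325076 0) (P.cons (P.lf 0 5026207 0) (P.cons (P.lf 707637 0 0) (P.cons (P.lf 34277 0 0) (P.cons (P.lf 0 734 0) P.nil))))) (P.cons (P.cons (P.lf 0 73161074 0) (P.cons (P.lf 0 2881531 0) (P.cons (P.lf 417422 0 0) (P.cons (P.lf 16108 0 0) P.nil)))) (P.cons (P.cons (P.lf 0 15127796 0) (P.cons (P.lf 60258 0 0) (P.cons (P.lf 0 1405 0) P.nil))) (P.cons (P.cons (P.lf 4883533 0 0) (P.cons (P.lf 242882 0 0) P.nil)) (P.cons (P.cons (P.lf 1078640 0 0) P.nil) P.nil)))))) 631083)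
 (EL.cons 10 (TM.mk (P.cons (P.cons (P.lf 1178458344 0 0) (P.cons (P.lf 0 343352646 0) (P.cons (P.lf 0 23808432 0) (P.cons (P.lf 1810494 0 0) (P.cons (P.lf 101046 0 0) (P.cons (P.lf 0 1110 0) P.nil)))))) (P.cons (P.cons (P.lf 57791016 0 0) (P.cons (P.lf 0 21246330 0) (P.cons (P.lf 908460 0 0) (P.cons (P.lf 0 77880 0) (P.cons (P.lf 0 6804 0) P.nil))))) (P.cons (P.cons (P.lf 0 61680948 0) (P.cons (P.lf 18498252 0 0) (P.cons (P.lf 997938 0 0) (P.cons (P.lf 0 74832 0) P.nil)))) (P.cons (P.cons (P.lf 0 3644448 0) (P.cons (P.lf 1273956 0 0) (P.cons (P.lf 0 26256 0) P.nil))) (P.cons (P.cons (P.lf 1519002 0 0) (P.cons (P.lf 0 463542 0) P.nil)) (P.cons (P.cons (P.lf 70524 0 0) P.nil) P.nil)))))) 132432)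
 EL.nil))))
noncomputable def S256_285_734_771_9 : EL := (EL.cons 3 (TM.mk (P.cons (P.lf 454308690 0 0) (P.cons (P.lf 450679503 0 0) (P.cons (P.lf 0 5414782 0) (P.cons (P.lf 0 1756837 0) (P.cons (P.lf 35658 0 0) (P.cons (P.lf 6731 0 0) P.nil)))))) 269)
 (EL.cons 7 (TM.mk (P.cons (P.lf 0 2130328762 0) (P.cons (P.lf 34172730 0 0) (P.cons (P.lf 16813380 0 0) (P.cons (P.lf 0 270802 0) (P.cons (P.lf 0 64991 0) (P.cons (P.lf 1601 0 0) P.nil)))))) 330)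
 EL.nil))
noncomputable def S256_285_734_771_10 : EL := (EL.cons 3 (TM.mk (P.cons (P.cons (P.lf 0 280762949 0) (P.cons (P.lf 0 8126472 0) (P.cons (P.lf 1223945 0 0) (P.lf 31381 0 0)))) (P.cons (P.cons (P.lf 0 301296057 0) (P.cons (P.lf 0 7670483 0) (P.cons (P.lf 1155269 0 0) (P.lf 29621 0 0)))) (P.cons (P.cons (P.lf 0 9642663 0) (P.cons (P.lf 670942 0 0) (P.cons (P.lf 0 101050 0) (P.lf 0 2590 0)))) (P.cons (P.cons (P.lf 11850700 0 0) (P.cons (P.lf 202177 0 0) (P.cons (P.lf 0 30450 0) P.nil))) (P.cons (P.cons (P.lf 772331 0 0) (P.cons (P.lf 0 15645 0) P.nil)) (P.cons (P.cons (P.lf 0 199880 0) P.nil) P.nil)))))) 27718)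
 (EL.cons 7 (TM.mk (P.cons (P.cons (P.lf 1316544013 0 0) (P.cons (P.lf 38106378 0 0) (P.cons (P.lf 0 5739287 0) (P.lf 0 147158 0)))) (P.cons (P.cons (P.lf 85681429 0 0) (P.cons (P.lf 0 2445065 0) (P.cons (P.lf 368254 0 0) (P.lf 9441 0 0)))) (P.cons (P.cons (P.lf 0 57143310 0) (P.cons (P.lf 0 1144167 0) (P.cons (P.lf 172323 0 0) (P.lf 4416 0 0)))) (P.cons (P.cons (P.lf 0 4479246 0) (P.cons (P.lf 76637 0 0) (P.cons (P.lf 0 11541 0) P.nil))) (P.cons (P.cons (P.lf 1123093 0 0) (P.cons (P.lf 17031 0 0) P.nil)) (P.cons (P.cons (P.lf 67091 0 0) P.nil) P.nil)))))) 21482)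
 EL.nil))
noncomputable def S256_285_734_771_11 : EL := (EL.cons 3 (TM.mk (P.cons (P.cons (P.lf 173511613 0 0) (P.cons (P.lf 10044326 0 0) (P.cons (P.lf 0 1367435 0) (P.cons (P.lf 0 82575 0) (P.cons (P.lf 2174 0 0) (P.cons (P.lf 168 0 0) P.nil)))))) (P.cons (P.cons (P.lf 200276625 0 0) (P.cons (P.lf 10295535 0 0) (P.cons (P.lf 0 1420423 0) (P.cons (P.lf 0 78981 0) (P.cons (P.lf 1947 0 0) P.nil))))) (P.cons (P.cons (P.lf 15128209 0 0) (P.cons (P.lf 0 403814 0) (P.cons (P.lf 38883 0 0) (P.cons (P.lf 8165 0 0) P.nil)))) (P.cons (P.cons (P.lf 0 13806845 0) (P.cons (P.lf 0 676035 0) (P.cons (P.lf 95802 0 0) P.nil))) (P.cons (P.cons (P.lf 0 1830907 0) (P.cons (P.lf 0 264 0) P.nil)) (P.cons (P.cons (P.lf 411510 0 0) P.nil) P.nil)))))) 151689)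
 (EL.cons 7 (TM.mk (P.cons (P.cons (P.lf 0 813624718 0) (P.cons (P.lf 0 47099514 0) (P.cons (P.lf 6412133 0 0) (P.cons (P.lf 387211 0 0) (P.cons (P.lf 0 10197 0) (P.cons (P.lf 0 792 0) P.nil)))))) (P.cons (P.cons (P.lf 0 118953716 0) (P.cons (P.lf 0 798685 0) (P.cons (P.lf 196833 0 0) (P.cons (P.lf 0 19969 0) (P.cons (P.lf 1144 0 0) P.nil))))) (P.cons (P.cons (P.lf 58853500 0 0) (P.cons (P.lf 3270641 0 0) (P.cons (P.lf 0 458620 0) (P.cons (P.lf 0 22862 0) P.nil)))) (P.cons (P.cons (P.lf 10241608 0 0) (P.cons (P.lf 78534 0 0) (P.cons (P.lf 0 15961 0) P.nil))) (P.cons (P.cons (P.lf 0 1891907 0) (P.cons (P.lf 0 110446 0) P.nil)) (P.cons (P.cons (P.lf 0 367546 0) P.nil) P.nil)))))) 120071)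
 EL.nil))
noncomputable def S256_285_734_771_12 : EL := (EL.cons 4 (TM.mk (P.cons (P.lf 0 454308690 0) (P.cons (P.lf 0 450679503 0) (P.cons (P.lf 5414782 0 0) (P.cons (P.lf 1756837 0 0) (P.cons (P.lf 0 35658 0) (P.cons (P.lf 0 6731 0) P.nil)))))) 269)
 (EL.cons 8 (TM.mk (P.cons (P.lf 2130328762 0 0) (P.cons (P.lf 0 34172730 0) (P.cons (P.lf 0 16813380 0) (P.cons (P.lf 270802 0 0) (P.cons (P.lf 64991 0 0) (P.cons (P.lf 0 1601 0) P.nil)))))) 330)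
 EL.nil))
noncomputable def S256_285_734_771_13 : EL := (EL.cons 4 (TM.mk (P.cons (P.cons (P.lf 280762949 0 0) (P.cons (P.lf 8126472 0 0) (P.cons (P.lf 0 1223945 0) (P.lf 0 31381 0)))) (P.cons (P.cons (P.lf 301296057 0 0) (P.cons (P.lf 7670483 0 0) (P.cons (P.lf 0 1155269 0) (P.lf 0 29621 0)))) (P.cons (P.cons (P.lf 9642663 0 0) (P.cons (P.lf 0 670942 0) (P.cons (P.lf 101050 0 0) (P.lf 2590 0 0)))) (P.cons (P.cons (P.lf 0 11850700 0) (P.cons (P.lf 0 202177 0) (P.cons (P.lf 30450 0 0) P.nil))) (P.cons (P.cons (P.lf 0 772331 0) (P.cons (P.lf 15645 0 0) P.nil)) (P.cons (P.cons (P.lf 199880 0 0) P.nil) P.nil)))))) 27718)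
 (EL.cons 8 (TM.mk (P.cons (P.cons (P.lf 0 1316544013 0) (P.cons (P.lf 0 38106378 0) (P.cons (P.lf 5739287 0 0) (P.lf 147158 0 0)))) (P.cons (P.cons (P.lf 0 85681429 0) (P.cons (P.lf 2445065 0 0) (P.cons (P.lf 0 368254 0) (P.lf 0 9441 0)))) (P.cons (P.cons (P.lf 57143310 0 0) (P.cons (P.lf 1144167 0 0) (P.cons (P.lf 0 172323 0) (P.lf 0 4416 0)))) (P.cons (P.cons (P.lf 4479246 0 0) (P.cons (P.lf 0 76637 0) (P.cons (P.lf 11541 0 0) P.nil))) (P.cons (P.cons (P.lf 0 1123093 0) (P.cons (P.lf 0 17031 0) P.nil)) (P.cons (P.cons (P.lf 0 67091 0) P.nil) P.nil)))))) 21482)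
 EL.nil))
noncomputable def S256_285_734_771_14 : EL := (EL.cons 4 (TM.mk (P.cons (P.cons (P.lf 0 173511613 0) (P.cons (P.lf 0 10044326 0) (P.cons (P.lf 1367435 0 0) (P.cons (P.lf 82575 0 0) (P.cons (P.lf 0 2174 0) (P.cons (P.lf 0 168 0) P.nil)))))) (P.cons (P.cons (P.lf 0 200276625 0) (P.cons (P.lf 0 10295535 0) (P.cons (P.lf 1420423 0 0) (P.cons (P.lf 78981 0 0) (P.cons (P.lf 0 1947 0) P.nil))))) (P.cons (P.cons (P.lf 0 15128209 0) (P.cons (P.lf 403814 0 0) (P.cons (P.lf 0 38883 0) (P.cons (P.lf 0 8165 0) P.nil)))) (P.cons (P.cons (P.lf 13806845 0 0) (P.cons (P.lf 676035 0 0) (P.cons (P.lf 0 95802 0) P.nil))) (P.cons (P.cons (P.lf 1830907 0 0) (P.cons (P.lf 264 0 0) P.nil)) (P.cons (P.cons (P.lf 0 411510 0) P.nil) P.nil)))))) 151689)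
 (EL.cons 8 (TM.mk (P.cons (P.cons (P.lf 813624718 0 0) (P.cons (P.lf 47099514 0 0) (P.cons (P.lf 0 6412133 0) (P.cons (P.lf 0 387211 0) (P.cons (P.lf 10197 0 0) (P.cons (P.lf 792 0 0) P.nil)))))) (P.cons (P.cons (P.lf 118953716 0 0) (P.cons (P.lf 798685 0 0) (P.cons (P.lf 0 196833 0) (P.cons (P.lf 19969 0 0) (P.cons (P.lf 0 1144 0) P.nil))))) (P.cons (P.cons (P.lf 0 58853500 0) (P.cons (P.lf 0 3270641 0) (P.cons (P.lf 458620 0 0) (P.cons (P.lf 22862 0 0) P.nil)))) (P.cons (P.cons (P.lf 0 10241608 0) (P.cons (P.lf 0 78534 0) (P.cons (P.lf 15961 0 0) P.nil))) (P.cons (P.cons (P.lf 1891907 0 0) (P.cons (P.lf 110446 0 0) P.nil)) (P.cons (P.cons (P.lf 367546 0 0) P.nil) P.nil)))))) 120071)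
 EL.nil))
noncomputable def S256_285_734_771_15 : EL := (EL.cons 4 (TM.mk (P.cons (P.lf 0 51259096 0) (P.cons (P.lf 0 101699239 0) (P.cons (P.lf 0 49221527 0) (P.cons (P.lf 1608569 0 0) (P.cons (P.lf 377947 0 0) (P.cons (P.lf 0 14225 0) P.nil)))))) 2557)
 (EL.cons 8 (TM.mk (P.cons (P.lf 240362403 0 0) (P.cons (P.lf 234586631 0 0) (P.cons (P.lf 0 8586714 0) (P.cons (P.lf 0 2734865 0) (P.cons (P.lf 94029 0 0) (P.cons (P.lf 17324 0 0) P.nil)))))) 877)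
 EL.nil))
noncomputable def S256_285_734_771_16 : EL := (EL.cons 4 (TM.mk (P.cons (P.cons (P.lf 31678141 0 0) (P.cons (P.lf 916899 0 0) (P.cons (P.lf 0 138095 0) (P.lf 0 3540 0)))) (P.cons (P.cons (P.lf 65419951 0 0) (P.cons (P.lf 1775026 0 0) (P.cons (P.lf 0 267340 0) (P.lf 0 6854 0)))) (P.cons (P.cons (P.lf 34433710 0 0) (P.cons (P.lf 771907 0 0) (P.cons (P.lf 0 116258 0) (P.lf 0 2980 0)))) (P.cons (P.cons (P.lf 0 785497 0) (P.cons (P.lf 0 111768 0) (P.cons (P.lf 16832 0 0) P.nil))) (P.cons (P.cons (P.lf 0 1555500 0) (P.cons (P.lf 0 23235 0) P.nil)) (P.cons (P.cons (P.lf 0 49025 0) P.nil) P.nil)))))) 43399)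
 (EL.cons 8 (TM.mk (P.cons (P.cons (P.lf 0 148544059 0) (P.cons (P.lf 0 4299495 0) (P.cons (P.lf 647556 0 0) (P.lf 16603 0 0)))) (P.cons (P.cons (P.lf 0 157024766 0) (P.cons (P.lf 0 3989276 0) (P.cons (P.lf 600834 0 0) (P.lf 15405 0 0)))) (P.cons (P.cons (P.lf 0 1372238 0) (P.cons (P.lf 454009 0 0) (P.cons (P.lf 0 68378 0) (P.lf 0 1752 0)))) (P.cons (P.cons (P.lf 7590944 0 0) (P.cons (P.lf 132755 0 0) (P.cons (P.lf 0 19994 0) P.nil))) (P.cons (P.cons (P.lf 323513 0 0) (P.cons (P.lf 0 13442 0) P.nil)) (P.cons (P.cons (P.lf 0 167190 0) P.nil) P.nil)))))) 24532)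
 EL.nil))
noncomputable def S256_285_734_771_17 : EL := (EL.cons 4 (TM.mk (P.cons (P.cons (P.lf 0 19577103 0) (P.cons (P.lf 0 1133288 0) (P.cons (P.lf 154285 0 0) (P.cons (P.lf 9316 0 0) (P.cons (P.lf 0 244 0) (P.cons (P.lf 0 18 0) P.nil)))))) (P.cons (P.cons (P.lf 0 42017682 0) (P.cons (P.lf 0 2285868 0) (P.cons (P.lf 313318 0 0) (P.cons (P.lf 18153 0 0) (P.cons (P.lf 0 463 0) P.nil))))) (P.cons (P.cons (P.lf 0 23890018 0) (P.cons (P.lf 0 1093283 0) (P.cons (P.lf 152758 0 0) (P.cons (P.lf 7807 0 0) P.nil)))) (P.cons (P.cons (P.lf 209580 0 0) (P.cons (P.lf 139701 0 0) (P.cons (P.lf 0 17668 0) P.nil))) (P.cons (P.cons (P.lf 1858134 0 0) (P.cons (P.lf 79556 0 0) P.nil)) (P.cons (P.cons (P.lf 144468 0 0) P.nil) P.nil)))))) 110170)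
 (EL.cons 8 (TM.mk (P.cons (P.cons (P.lf 91800287 0 0) (P.cons (P.lf 5314180 0 0) (P.cons (P.lf 0 723473 0) (P.cons (P.lf 0 43688 0) (P.cons (P.lf 1150 0 0) (P.cons (P.lf 89 0 0) P.nil)))))) (P.cons (P.cons (P.lf 104488355 0 0) (P.cons (P.lf 5361843 0 0) (P.cons (P.lf 0 739902 0) (P.cons (P.lf 0 41086 0) (P.cons (P.lf 1011 0 0) P.nil))))) (P.cons (P.cons (P.lf 5579676 0 0) (P.cons (P.lf 0 342965 0) (P.cons (P.lf 38337 0 0) (P.cons (P.lf 5335 0 0) P.nil)))) (P.cons (P.cons (P.lf 0 8257834 0) (P.cons (P.lf 0 396559 0) (P.cons (P.lf 56195 0 0) P.nil))) (P.cons (P.cons (P.lf 0 898406 0) (P.cons (P.lf 8138 0 0) P.nil)) (P.cons (P.cons (P.lf 295091 0 0) P.nil) P.nil)))))) 101867)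
 EL.nil))
noncomputable def S256_285_734_771_18 : EL := (EL.cons 4 (TM.mk (P.cons (P.lf 0 5783501 0) (P.cons (P.lf 0 17211901 0) (P.cons (P.lf 0 16867610 0) (P.cons (P.lf 0 5168619 0) (P.cons (P.lf 332796 0 0) (P.cons (P.lf 59024 0 0) P.nil)))))) 4306)
 (EL.cons 8 (TM.mk (P.cons (P.lf 27119797 0 0) (P.cons (P.lf 53371278 0 0) (P.cons (P.lf 24964624 0 0) (P.cons (P.lf 0 1690000 0) (P.cons (P.lf 0 384174 0) (P.cons (P.lf 22382 0 0) P.nil)))))) 4185)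
 EL.nil))
noncomputable def S256_285_734_771_19 : EL := (EL.cons 4 (TM.mk (P.cons (P.cons (P.lf 3574205 0 0) (P.cons (P.lf 103452 0 0) (P.cons (P.lf 0 15580 0) (P.lf 0 399 0)))) (P.cons (P.cons (P.lf 10926907 0 0) (P.cons (P.lf 302899 0 0) (P.cons (P.lf 0 45619 0) (P.lf 0 1169 0)))) (P.cons (P.cons (P.lf 11164801 0 0) (P.cons (P.lf 284534 0 0) (P.cons (P.lf 0 42854 0) (P.lf 0 1098 0)))) (P.cons (P.cons (P.lf 3663653 0 0) (P.cons (P.lf 70999 0 0) (P.cons (P.lf 0 10693 0) P.nil))) (P.cons (P.cons (P.lf 0 337992 0) (P.cons (P.lf 0 16935 0) P.nil)) (P.cons (P.cons (P.lf 0 192969 0) P.nil) P.nil)))))) 42083)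
 (EL.cons 8 (TM.mk (P.cons (P.cons (P.lf 0 16760045 0) (P.cons (P.lf 0 485106 0) (P.cons (P.lf 73062 0 0) (P.lf 1872 0 0)))) (P.cons (P.cons (P.lf 0 34343072 0) (P.cons (P.lf 0 931336 0) (P.cons (P.lf 140270 0 0) (P.lf 3596 0 0)))) (P.cons (P.cons (P.lf 0 17530453 0) (P.cons (P.lf 0 389502 0) (P.cons (P.lf 58663 0 0) (P.lf 1503 0 0)))) (P.cons (P.cons (P.lf 978860 0 0) (P.cons (P.lf 73035 0 0) (P.cons (P.lf 0 10999 0) P.nil))) (P.cons (P.cons (P.lf 955178 0 0) (P.cons (P.lf 14433 0 0) P.nil)) (P.cons (P.cons (P.lf 6097 0 0) P.nil) P.nil)))))) 33114)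
 EL.nil))
noncomputable def S256_285_734_771_20 : EL := (EL.cons 4 (TM.mk (P.cons (P.cons (P.lf 0 2208860 0) (P.cons (P.lf 0 127867 0) (P.cons (P.lf 17407 0 0) (P.cons (P.lf 1050 0 0) (P.cons (P.lf 0 27 0) (P.cons (P.lf 0 1 0) P.nil)))))) (P.cons (P.cons (P.lf 0 6932019 0) (P.cons (P.lf 0 384757 0) (P.cons (P.lf 52620 0 0) (P.cons (P.lf 3090 0 0) (P.cons (P.lf 0 79 0) P.nil))))) (P.cons (P.cons (P.lf 0 7372086 0) (P.cons (P.lf 0 377681 0) (P.cons (P.lf 52096 0 0) (P.cons (P.lf 2899 0 0) P.nil)))) (P.cons (P.cons (P.lf 0 2585255 0) (P.cons (P.lf 0 103036 0) (P.cons (P.lf 14615 0 0) P.nil))) (P.cons (P.cons (P.lf 283394 0 0) (P.cons (P.lf 27069 0 0) P.nil)) (P.cons (P.cons (P.lf 234013 0 0) P.nil) P.nil)))))) 82935)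
 (EL.cons 8 (TM.mk (P.cons (P.cons (P.lf 10357714 0 0) (P.cons (P.lf 599592 0 0) (P.cons (P.lf 0 81628 0) (P.cons (P.lf 0 4929 0) (P.cons (P.lf 129 0 0) (P.cons (P.lf 9 0 0) P.nil)))))) (P.cons (P.cons (P.lf 22064267 0 0) (P.cons (P.lf 1199773 0 0) (P.cons (P.lf 0 164458 0) (P.cons (P.lf 0 9525 0) (P.cons (P.lf 242 0 0) P.nil))))) (P.cons (P.cons (P.lf 12201213 0 0) (P.cons (P.lf 554294 0 0) (P.cons (P.lf 0 77516 0) (P.cons (P.lf 0 3937 0) P.nil)))) (P.cons (P.cons (P.lf 0 487769 0) (P.cons (P.lf 0 92659 0) (P.cons (P.lf 11942 0 0) P.nil))) (P.cons (P.cons (P.lf 0 1077924 0) (P.cons (P.lf 0 45298 0) P.nil)) (P.cons (P.cons (P.lf 0 57512 0) P.nil) P.nil)))))) 72724)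
 EL.nil))
noncomputable def S256_285_734_771_21 : EL := (EL.cons 4 (TM.mk (P.cons (P.cons (P.lf 1419852963 0 0) (P.cons (P.lf 0 24379416 0) (P.cons (P.lf 3671835 0 0) (P.lf 94143 0 0)))) (P.cons (P.cons (P.lf 0 1208985885 0) (P.cons (P.lf 0 23011449 0) (P.cons (P.lf 3465807 0 0) (P.lf 88863 0 0)))) (P.cons (P.cons (P.lf 0 176592570 0) (P.cons (P.lf 2012826 0 0) (P.cons (P.lf 0 303150 0) (P.lf 0 7770 0)))) (P.cons (P.cons (P.lf 40377804 0 0) (P.cons (P.lf 606531 0 0) (P.cons (P.lf 0 91350 0) P.nil))) (P.cons (P.cons (P.lf 3450831 0 0) (P.cons (P.lf 0 46935 0) P.nil)) (P.cons (P.cons (P.lf 0 642318 0) P.nil) P.nil)))))) 90951)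
 (EL.cons 8 (TM.mk (P.cons (P.cons (P.lf 107660211 0 0) (P.cons (P.lf 0 1848573 0) (P.cons (P.lf 278421 0 0) (P.lf 7146 0 0)))) (P.cons (P.cons (P.lf 16855929 0 0) (P.cons (P.lf 0 3608289 0) (P.cons (P.lf 543447 0 0) (P.lf 13932 0 0)))) (P.cons (P.cons (P.lf 0 104492127 0) (P.cons (P.lf 0 1628712 0) (P.cons (P.lf 245298 0 0) (P.lf 6285 0 0)))) (P.cons (P.cons (P.lf 0 11102049 0) (P.cons (P.lf 170964 0 0) (P.cons (P.lf 0 25746 0) P.nil))) (P.cons (P.cons (P.lf 2813157 0 0) (P.cons (P.lf 37245 0 0) P.nil)) (P.cons (P.cons (P.lf 190908 0 0) P.nil) P.nil)))))) 71991)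
 (EL.cons 11 (TM.mk (P.cons (P.cons (P.lf 953444658 0 0) (P.cons (P.lf 0 305389971 0) (P.cons (P.lf 0 6266787 0) (P.cons (P.lf 421458 0 0) (P.lf 8103 0 0))))) (P.cons (P.cons (P.lf 0 30588522 0) (P.cons (P.lf 9797556 0 0) (P.cons (P.lf 201051 0 0) (P.cons (P.lf 0 13521 0) (P.lf 0 258 0))))) (P.cons (P.cons (P.lf 0 14804571 0) (P.cons (P.lf 4741929 0 0) (P.cons (P.lf 97305 0 0) (P.cons (P.lf 0 6543 0) P.nil)))) (P.cons (P.cons (P.lf 483813 0 0) (P.cons (P.lf 0 154965 0) (P.cons (P.lf 0 3180 0) P.nil))) (P.cons (P.cons (P.lf 113673 0 0) (P.cons (P.lf 0 36408 0) P.nil)) (P.cons (P.cons (P.lf 0 4278 0) P.nil) P.nil)))))) 3747)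
 EL.nil)))
noncomputable def S256_285_734_771_22 : EL := (EL.cons 4 (TM.mk (P.cons (P.cons (P.lf 0 877469688 0) (P.cons (P.lf 0 10331211 0) (P.cons (P.lf 1992096 0 0) (P.cons (P.lf 0 91458 0) (P.cons (P.lf 6522 0 0) (P.cons (P.lf 507 0 0) P.nil)))))) (P.cons (P.cons (P.lf 675971985 0 0) (P.cons (P.lf 38291322 0 0) (P.cons (P.lf 0 5376507 0) (P.cons (P.lf 0 265539 0) (P.cons (P.lf 5844 0 0) P.nil))))) (P.cons (P.cons (P.lf 199763160 0 0) (P.cons (P.lf 2094126 0 0) (P.cons (P.lf 0 381204 0) (P.cons (P.lf 11730 0 0) P.nil)))) (P.cons (P.cons (P.lf 0 38644077 0) (P.cons (P.lf 0 2412537 0) (P.cons (P.lf 345303 0 0) P.nil))) (P.cons (P.cons (P.lf 0 10886469 0) (P.cons (P.lf 0 81738 0) P.nil)) (P.cons (P.cons (P.lf 1036290 0 0) P.nil) P.nil)))))) 545343)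
 (EL.cons 8 (TM.mk (P.cons (P.cons (P.lf 0 66534051 0) (P.cons (P.lf 0 783357 0) (P.cons (P.lf 151047 0 0) (P.cons (P.lf 0 6939 0) (P.cons (P.lf 492 0 0) (P.cons (P.lf 36 0 0) P.nil)))))) (P.cons (P.cons (P.lf 0 15814320 0) (P.cons (P.lf 2113761 0 0) (P.cons (P.lf 0 255402 0) (P.cons (P.lf 0 27123 0) (P.cons (P.lf 939 0 0) P.nil))))) (P.cons (P.cons (P.lf 66007287 0 0) (P.cons (P.lf 3076086 0 0) (P.cons (P.lf 0 438021 0) (P.cons (P.lf 0 19485 0) P.nil)))) (P.cons (P.cons (P.lf 12684702 0 0) (P.cons (P.lf 9138 0 0) (P.cons (P.lf 0 7278 0) P.nil))) (P.cons (P.cons (P.lf 0 3387720 0) (P.cons (P.lf 0 176664 0) P.nil)) (P.cons (P.cons (P.lf 0 723093 0) P.nil) P.nil)))))) 255495)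
 (EL.cons 11 (TM.mk (P.cons (P.cons (P.lf 0 589229172 0) (P.cons (P.lf 171676323 0 0) (P.cons (P.lf 11904216 0 0) (P.cons (P.lf 0 905247 0) (P.cons (P.lf 0 50523 0) (P.cons (P.lf 555 0 0) P.nil)))))) (P.cons (P.cons (P.lf 0 28895508 0) (P.cons (P.lf 10623165 0 0) (P.cons (P.lf 0 454230 0) (P.cons (P.lf 38940 0 0) (P.cons (P.lf 3402 0 0) P.nil))))) (P.cons (P.cons (P.lf 30840474 0 0) (P.cons (P.lf 0 9249126 0) (P.cons (P.lf 0 498969 0) (P.cons (P.lf 37416 0 0) P.nil)))) (P.cons (P.cons (P.lf 1822224 0 0) (P.cons (P.lf 0 636978 0) (P.cons (P.lf 13128 0 0) P.nil))) (P.cons (P.cons (P.lf 0 759501 0) (P.cons (P.lf 231771 0 0) P.nil)) (P.cons (P.cons (P.lf 0 35262 0) P.nil) P.nil)))))) 66216)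
 EL.nil)))
noncomputable def S256_285_734_771_23 : EL := (EL.cons 4 (TM.mk (P.cons (P.cons (P.lf 160200282 0 0) (P.cons (P.lf 0 2750697 0) (P.cons (P.lf 414288 0 0) (P.lf 10620 0 0)))) (P.cons (P.cons (P.lf 22512135 0 0) (P.cons (P.lf 0 5325078 0) (P.cons (P.lf 802020 0 0) (P.lf 20562 0 0)))) (P.cons (P.cons (P.lf 0 157152834 0) (P.cons (P.lf 0 2315721 0) (P.cons (P.lf 348777 0 0) (P.lf 8940 0 0)))) (P.cons (P.cons (P.lf 0 14203467 0) (P.cons (P.lf 335307 0 0) (P.cons (P.lf 0 50499 0) P.nil))) (P.cons (P.cons (P.lf 5686287 0 0) (P.cons (P.lf 69708 0 0) P.nil)) (P.cons (P.cons (P.lf 328188 0 0) P.nil) P.nil)))))) 143208)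
 (EL.cons 8 (TM.mk (P.cons (P.cons (P.lf 12147168 0 0) (P.cons (P.lf 0 208572 0) (P.cons (P.lf 31413 0 0) (P.lf 804 0 0)))) (P.cons (P.cons (P.lf 13951968 0 0) (P.cons (P.lf 0 614022 0) (P.cons (P.lf 92478 0 0) (P.lf 2370 0 0)))) (P.cons (P.cons (P.lf 0 10047855 0) (P.cons (P.lf 0 585144 0) (P.cons (P.lf 88128 0 0) (P.lf 2256 0 0)))) (P.cons (P.cons (P.lf 0 13017810 0) (P.cons (P.lf 0 157347 0) (P.cons (P.lf 23697 0 0) P.nil))) (P.cons (P.cons (P.lf 0 791100 0) (P.cons (P.lf 27084 0 0) P.nil)) (P.cons (P.cons (P.lf 397257 0 0) P.nil) P.nil)))))) 58887)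
 (EL.cons 11 (TM.mk (P.cons (P.cons (P.lf 107576001 0 0) (P.cons (P.lf 0 34456776 0) (P.cons (P.lf 0 707073 0) (P.cons (P.lf 47550 0 0) (P.lf 912 0 0))))) (P.cons (P.cons (P.lf 103265376 0 0) (P.cons (P.lf 0 33076077 0) (P.cons (P.lf 0 678741 0) (P.cons (P.lf 45645 0 0) (P.lf 876 0 0))))) (P.cons (P.cons (P.lf 0 6376245 0) (P.cons (P.lf 2042322 0 0) (P.cons (P.lf 41907 0 0) (P.cons (P.lf 0 2817 0) P.nil)))) (P.cons (P.cons (P.lf 0 1977315 0) (P.cons (P.lf 633336 0 0) (P.cons (P.lf 12996 0 0) P.nil))) (P.cons (P.cons (P.lf 108675 0 0) (P.cons (P.lf 0 34806 0) P.nil)) (P.cons (P.cons (P.lf 19371 0 0) P.nil) P.nil)))))) 10953)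
 EL.nil)))
noncomputable def S256_285_734_771_24 : EL := (EL.cons 4 (TM.mk (P.cons (P.cons (P.lf 0 99003837 0) (P.cons (P.lf 0 1165656 0) (P.cons (P.lf 224763 0 0) (P.cons (P.lf 0 10317 0) (P.cons (P.lf 735 0 0) (P.cons (P.lf 57 0 0) P.nil)))))) (P.cons (P.cons (P.lf 0 21943860 0) (P.cons (P.lf 3164016 0 0) (P.cons (P.lf 0 383652 0) (P.cons (P.lf 0 40197 0) (P.cons (P.lf 1389 0 0) P.nil))))) (P.cons (P.cons (P.lf 99378864 0 0) (P.cons (P.lf 4536021 0 0) (P.cons (P.lf 0 647466 0) (P.cons (P.lf 0 28272 0) P.nil)))) (P.cons (P.cons (P.lf 17472642 0 0) (P.cons (P.lf 0 84798 0) (P.cons (P.lf 2652 0 0) P.nil))) (P.cons (P.cons (P.lf 0 6124983 0) (P.cons (P.lf 0 298866 0) P.nil)) (P.cons (P.cons (P.lf 0 1132242 0) P.nil) P.nil)))))) 454815)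
 (EL.cons 8 (TM.mk (P.cons (P.cons (P.lf 0 7506954 0) (P.cons (P.lf 0 88383 0) (P.cons (P.lf 17040 0 0) (P.cons (P.lf 0 783 0) (P.cons (P.lf 54 0 0) (P.cons (P.lf 3 0 0) P.nil)))))) (P.cons (P.cons (P.lf 0 9231297 0) (P.cons (P.lf 150813 0 0) (P.cons (P.lf 0 11910 0) (P.cons (P.lf 0 3837 0) (P.cons (P.lf 159 0 0) P.nil))))) (P.cons (P.cons (P.lf 5766936 0 0) (P.cons (P.lf 584712 0 0) (P.cons (P.lf 0 78210 0) (P.cons (P.lf 0 5223 0) P.nil)))) (P.cons (P.cons (P.lf 8869524 0 0) (P.cons (P.lf 342828 0 0) (P.cons (P.lf 0 49569 0) P.nil))) (P.cons (P.cons (P.lf 955077 0 0) (P.cons (P.lf 0 23973 0) P.nil)) (P.cons (P.cons (P.lf 0 506874 0) P.nil) P.nil)))))) 149451)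
 (EL.cons 11 (TM.mk (P.cons (P.cons (P.lf 0 66482010 0) (P.cons (P.lf 19370031 0 0) (P.cons (P.lf 1343136 0 0) (P.cons (P.lf 0 102138 0) (P.cons (P.lf 0 5700 0) (P.cons (P.lf 60 0 0) P.nil)))))) (P.cons (P.cons (P.lf 0 69211173 0) (P.cons (P.lf 20413893 0 0) (P.cons (P.lf 1281156 0 0) (P.cons (P.lf 0 96927 0) (P.cons (P.lf 0 5271 0) P.nil))))) (P.cons (P.cons (P.lf 1037871 0 0) (P.cons (P.lf 0 85407 0) (P.cons (P.lf 0 123147 0) (P.cons (P.lf 9795 0 0) P.nil)))) (P.cons (P.cons (P.lf 3953442 0 0) (P.cons (P.lf 0 1196289 0) (P.cons (P.lf 0 58950 0) P.nil))) (P.cons (P.cons (P.lf 84177 0 0) (P.cons (P.lf 0 35820 0) P.nil)) (P.cons (P.cons (P.lf 0 106134 0) P.nil) P.nil)))))) 70317)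
 EL.nil)))
noncomputable def S256_285_734_771_25 : EL := (EL.cons 4 (TM.mk (P.cons (P.cons (P.lf 18075201 0 0) (P.cons (P.lf 0 310356 0) (P.cons (P.lf 46743 0 0) (P.lf 1197 0 0)))) (P.cons (P.cons (P.lf 20470827 0 0) (P.cons (P.lf 0 908700 0) (P.cons (P.lf 136860 0 0) (P.lf 3507 0 0)))) (P.cons (P.cons (P.lf 0 15427068 0) (P.cons (P.lf 0 853602 0) (P.cons (P.lf 128562 0 0) (P.lf 3294 0 0)))) (P.cons (P.cons (P.lf 0 19292448 0) (P.cons (P.lf 0 212997 0) (P.cons (P.lf 32079 0 0) P.nil))) (P.cons (P.cons (P.lf 0 745248 0) (P.cons (P.lf 50808 0 0) P.nil)) (P.cons (P.cons (P.lf 761616 0 0) P.nil) P.nil)))))) 140040)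
 (EL.cons 8 (TM.mk (P.cons (P.cons (P.lf 1370550 0 0) (P.cons (P.lf 0 23532 0) (P.cons (P.lf 3543 0 0) (P.lf 90 0 0)))) (P.cons (P.cons (P.lf 2933784 0 0) (P.cons (P.lf 0 92622 0) (P.cons (P.lf 13950 0 0) (P.lf 357 0 0)))) (P.cons (P.cons (P.lf 411585 0 0) (P.cons (P.lf 0 134466 0) (P.cons (P.lf 20250 0 0) (P.lf 519 0 0)))) (P.cons (P.cons (P.lf 0 2617476 0) (P.cons (P.lf 0 82329 0) (P.cons (P.lf 12399 0 0) P.nil))) (P.cons (P.cons (P.lf 0 1538775 0) (P.cons (P.lf 0 13500 0) P.nil)) (P.cons (P.cons (P.lf 0 21687 0) P.nil) P.nil)))))) 72228)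
 (EL.cons 11 (TM.mk (P.cons (P.cons (P.lf 12137667 0 0) (P.cons (P.lf 0 3887715 0) (P.cons (P.lf 0 79776 0) (P.cons (P.lf 5364 0 0) (P.lf 102 0 0))))) (P.cons (P.cons (P.lf 23692014 0 0) (P.cons (P.lf 0 7588593 0) (P.cons (P.lf 0 155721 0) (P.cons (P.lf 10470 0 0) (P.lf 201 0 0))))) (P.cons (P.cons (P.lf 10694142 0 0) (P.cons (P.lf 0 3425352 0) (P.cons (P.lf 0 70290 0) (P.cons (P.lf 4725 0 0) P.nil)))) (P.cons (P.cons (P.lf 0 1122579 0) (P.cons (P.lf 359562 0 0) (P.cons (P.lf 7377 0 0) P.nil))) (P.cons (P.cons (P.lf 0 244581 0) (P.cons (P.lf 78339 0 0) P.nil)) (P.cons (P.cons (P.lf 20883 0 0) P.nil) P.nil)))))) 15045)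
 EL.nil)))
noncomputable def S256_285_734_771_26 : EL := (EL.cons 4 (TM.mk (P.cons (P.cons (P.lf 0 11170482 0) (P.cons (P.lf 0 131517 0) (P.cons (P.lf 25359 0 0) (P.cons (P.lf 0 1164 0) (P.cons (P.lf 81 0 0) (P.cons (P.lf 6 0 0) P.nil)))))) (P.cons (P.cons (P.lf 0 13557147 0) (P.cons (P.lf 226521 0 0) (P.cons (P.lf 0 18129 0) (P.cons (P.lf 0 5688 0) (P.cons (P.lf 237 0 0) P.nil))))) (P.cons (P.cons (P.lf 8889813 0 0) (P.cons (P.lf 867501 0 0) (P.cons (P.lf 0 116295 0) (P.cons (P.lf 0 7674 0) P.nil)))) (P.cons (P.cons (P.lf 13167345 0 0) (P.cons (P.lf 494391 0 0) (P.cons (P.lf 0 71751 0) P.nil))) (P.cons (P.cons (P.lf 1139649 0 0) (P.cons (P.lf 0 50700 0) P.nil)) (P.cons (P.cons (P.lf 0 880518 0) P.nil) P.nil)))))) 265191)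
 (EL.cons 8 (TM.mk (P.cons (P.cons (P.lf 0 846999 0) (P.cons (P.lf 0 9972 0) (P.cons (P.lf 1920 0 0) (P.cons (P.lf 0 87 0) (P.cons (P.lf 6 0 0) (P.cons (P.lf 0 0 0) P.nil)))))) (P.cons (P.cons (P.lf 0 1881789 0) (P.cons (P.lf 7122 0 0) (P.cons (P.lf 561 0 0) (P.cons (P.lf 0 519 0) (P.cons (P.lf 24 0 0) P.nil))))) (P.cons (P.cons (P.lf 0 372462 0) (P.cons (P.lf 82971 0 0) (P.cons (P.lf 0 10179 0) (P.cons (P.lf 0 1017 0) P.nil)))) (P.cons (P.cons (P.lf 1661904 0 0) (P.cons (P.lf 103962 0 0) (P.cons (P.lf 0 14337 0) P.nil))) (P.cons (P.cons (P.lf 1096707 0 0) (P.cons (P.lf 34812 0 0) P.nil)) (P.cons (P.cons (P.lf 35169 0 0) P.nil) P.nil)))))) 107721)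
 (EL.cons 11 (TM.mk (P.cons (P.cons (P.lf 0 7501083 0) (P.cons (P.lf 2185497 0 0) (P.cons (P.lf 151542 0 0) (P.cons (P.lf 0 11523 0) (P.cons (P.lf 0 642 0) (P.cons (P.lf 6 0 0) P.nil)))))) (P.cons (P.cons (P.lf 0 15250173 0) (P.cons (P.lf 4471311 0 0) (P.cons (P.lf 294885 0 0) (P.cons (P.lf 0 22368 0) (P.cons (P.lf 0 1230 0) P.nil))))) (P.cons (P.cons (P.lf 0 7540125 0) (P.cons (P.lf 2249190 0 0) (P.cons (P.lf 127695 0 0) (P.cons (P.lf 0 9606 0) P.nil)))) (P.cons (P.cons (P.lf 684309 0 0) (P.cons (P.lf 0 180438 0) (P.cons (P.lf 0 22743 0) P.nil))) (P.cons (P.cons (P.lf 480207 0 0) (P.cons (P.lf 0 146559 0) P.nil)) (P.cons (P.cons (P.lf 0 9045 0) P.nil) P.nil)))))) 47184)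
 EL.nil)))
noncomputable def S256_285_734_771_27 : EL := (EL.cons 13 (TM.mk (P.lf 0 4294967296 0) 0)
 EL.nil)
noncomputable def S256_285_734_771_28 : EL := (EL.cons 13 (TM.mk (P.cons (P.cons (P.lf 2654291480 0 0) (P.cons (P.lf 76826476 0 0) (P.cons (P.lf 0 11571008 0) (P.lf 0 296688 0)))) (P.cons (P.cons (P.lf 215320439 0 0) (P.cons (P.lf 0 3697132 0) (P.cons (P.lf 556828 0 0) (P.lf 14276 0 0)))) (P.cons (P.cons (P.lf 0 90804272 0) (P.cons (P.lf 0 1759724 0) (P.cons (P.lf 265032 0 0) (P.lf 6792 0 0)))) (P.cons (P.cons (P.lf 0 9125244 0) (P.cons (P.lf 87336 0 0) (P.cons (P.lf 0 13152 0) P.nil))) (P.cons (P.cons (P.lf 1292888 0 0) (P.cons (P.lf 19976 0 0) P.nil)) (P.cons (P.cons (P.lf 90951 0 0) P.nil) P.nil)))))) 20399)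
 EL.nil)
noncomputable def S256_285_734_771_29 : EL := (EL.cons 13 (TM.mk (P.cons (P.cons (P.lf 0 1640353179 0) (P.cons (P.lf 0 94957584 0) (P.cons (P.lf 12927536 0 0) (P.cons (P.lf 780660 0 0) (P.cons (P.lf 0 20559 0) (P.cons (P.lf 0 1598 0) P.nil)))))) (P.cons (P.cons (P.lf 0 266136232 0) (P.cons (P.lf 0 3133455 0) (P.cons (P.lf 604208 0 0) (P.cons (P.lf 0 27738 0) (P.cons (P.lf 1978 0 0) P.nil))))) (P.cons (P.cons (P.lf 101439449 0 0) (P.cons (P.lf 5794251 0 0) (P.cons (P.lf 0 812907 0) (P.cons (P.lf 0 40376 0) P.nil)))) (P.cons (P.cons (P.lf 20383425 0 0) (P.cons (P.lf 238620 0 0) (P.cons (P.lf 0 42095 0) P.nil))) (P.cons (P.cons (P.lf 0 2602840 0) (P.cons (P.lf 0 169818 0) P.nil)) (P.cons (P.cons (P.lf 0 627900 0) P.nil) P.nil)))))) 178000)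
 EL.nil)
noncomputable def S256_285_734_771_30 : EL := (EL.cons 13 (TM.mk (P.cons (P.lf 0 484595936 0) (P.cons (P.lf 0 480724804 0) (P.cons (P.lf 5775768 0 0) (P.cons (P.lf 1873960 0 0) (P.cons (P.lf 0 38036 0) (P.cons (P.lf 0 7180 0) P.nil)))))) 280)
 EL.nil)
noncomputable def S256_285_734_771_31 : EL := (EL.cons 13 (TM.mk (P.cons (P.cons (P.lf 299480479 0 0) (P.cons (P.lf 8668237 0 0) (P.cons (P.lf 0 1305542 0) (P.lf 0 33474 0)))) (P.cons (P.cons (P.lf 321382461 0 0) (P.cons (P.lf 8181849 0 0) (P.cons (P.lf 0 1232287 0) (P.lf 0 31596 0)))) (P.cons (P.cons (P.lf 10285508 0 0) (P.cons (P.lf 0 715672 0) (P.cons (P.lf 107787 0 0) (P.lf 2763 0 0)))) (P.cons (P.cons (P.lf 0 12640747 0) (P.cons (P.lf 0 215656 0) (P.cons (P.lf 32480 0 0) P.nil))) (P.cons (P.cons (P.lf 0 823820 0) (P.cons (P.lf 16689 0 0) P.nil)) (P.cons (P.cons (P.lf 213206 0 0) P.nil) P.nil)))))) 29546)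
 EL.nil)
noncomputable def S256_285_734_771_32 : EL := (EL.cons 13 (TM.mk (P.cons (P.cons (P.lf 0 185079054 0) (P.cons (P.lf 0 10713948 0) (P.cons (P.lf 1458598 0 0) (P.cons (P.lf 88080 0 0) (P.cons (P.lf 0 2319 0) (P.cons (P.lf 0 180 0) P.nil)))))) (P.cons (P.cons (P.lf 0 213628401 0) (P.cons (P.lf 0 10981905 0) (P.cons (P.lf 1515118 0 0) (P.cons (P.lf 84247 0 0) (P.cons (P.lf 0 2077 0) P.nil))))) (P.cons (P.cons (P.lf 0 16136757 0) (P.cons (P.lf 430735 0 0) (P.cons (P.lf 0 41476 0) (P.cons (P.lf 0 8710 0) P.nil)))) (P.cons (P.cons (P.lf 14727302 0 0) (P.cons (P.lf 721104 0 0) (P.cons (P.lf 0 102189 0) P.nil))) (P.cons (P.cons (P.lf 1952968 0 0) (P.cons (P.lf 282 0 0) P.nil)) (P.cons (P.cons (P.lf 0 438944 0) P.nil) P.nil)))))) 161779)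
 EL.nil)
noncomputable def S256_285_734_771_33 : EL := (EL.cons 14 (TM.mk (P.lf 8589934592 0 0) 0)
 EL.nil)
noncomputable def S256_285_734_771_34 : EL := (EL.cons 14 (TM.mk (P.cons (P.cons (P.lf 0 5308582960 0) (P.cons (P.lf 0 153652952 0) (P.cons (P.lf 23142016 0 0) (P.lf 593376 0 0)))) (P.cons (P.cons (P.lf 0 430640878 0) (P.cons (P.lf 7394264 0 0) (P.cons (P.lf 0 1113656 0) (P.lf 0 28552 0)))) (P.cons (P.cons (P.lf 181608544 0 0) (P.cons (P.lf 3519448 0 0) (P.cons (P.lf 0 530064 0) (P.lf 0 13584 0)))) (P.cons (P.cons (P.lf 18250488 0 0) (P.cons (P.lf 0 174672 0) (P.cons (P.lf 26304 0 0) P.nil))) (P.cons (P.cons (P.lf 0 2585776 0) (P.cons (P.lf 0 39952 0) P.nil)) (P.cons (P.cons (P.lf 0 181902 0) P.nil) P.nil)))))) 40798)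
 EL.nil)
noncomputable def S256_285_734_771_35 : EL := (EL.cons 14 (TM.mk (P.cons (P.cons (P.lf 3280706358 0 0) (P.cons (P.lf 189915168 0 0) (P.cons (P.lf 0 25855072 0) (P.cons (P.lf 0 1561320 0) (P.cons (P.lf 41118 0 0) (P.cons (P.lf 3196 0 0) P.nil)))))) (P.cons (P.cons (P.lf 532272464 0 0) (P.cons (P.lf 6266910 0 0) (P.cons (P.lf 0 1208416 0) (P.cons (P.lf 55476 0 0) (P.cons (P.lf 0 3956 0) P.nil))))) (P.cons (P.cons (P.lf 0 202878898 0) (P.cons (P.lf 0 11588502 0) (P.cons (P.lf 1625814 0 0) (P.cons (P.lf 80752 0 0) P.nil)))) (P.cons (P.cons (P.lf 0 40766850 0) (P.cons (P.lf 0 477240 0) (P.cons (P.lf 84190 0 0) P.nil))) (P.cons (P.cons (P.lf 5205680 0 0) (P.cons (P.lf 339636 0 0) P.nil)) (P.cons (P.cons (P.lf 1255800 0 0) P.nil) P.nil)))))) 356000)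
 EL.nil)
noncomputable def S256_285_734_771_36 : EL := (EL.cons 14 (TM.mk (P.cons (P.lf 969191872 0 0) (P.cons (P.lf 961449608 0 0) (P.cons (P.lf 0 11551536 0) (P.cons (P.lf 0 3747920 0) (P.cons (P.lf 76072 0 0) (P.cons (P.lf 14360 0 0) P.nil)))))) 560)
 EL.nil)
noncomputable def S256_285_734_771_37 : EL := (EL.cons 14 (TM.mk (P.cons (P.cons (P.lf 0 598960958 0) (P.cons (P.lf 0 17336474 0) (P.cons (P.lf 2611084 0 0) (P.lf 66948 0 0)))) (P.cons (P.cons (P.lf 0 642764922 0) (P.cons (P.lf 0 16363698 0) (P.cons (P.lf 2464574 0 0) (P.lf 63192 0 0)))) (P.cons (P.cons (P.lf 0 20571016 0) (P.cons (P.lf 1431344 0 0) (P.cons (P.lf 0 215574 0) (P.lf 0 5526 0)))) (P.cons (P.cons (P.lf 25281494 0 0) (P.cons (P.lf 431312 0 0) (P.cons (P.lf 0 64960 0) P.nil))) (P.cons (P.cons (P.lf 1647640 0 0) (P.cons (P.lf 0 33378 0) P.nil)) (P.cons (P.cons (P.lf 0 426412 0) P.nil) P.nil)))))) 59092)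
 EL.nil)
noncomputable def S256_285_734_771_38 : EL := (EL.cons 14 (TM.mk (P.cons (P.cons (P.lf 370158108 0 0) (P.cons (P.lf 21427896 0 0) (P.cons (P.lf 0 2917196 0) (P.cons (P.lf 0 176160 0) (P.cons (P.lf 4638 0 0) (P.cons (P.lf 360 0 0) P.nil)))))) (P.cons (P.cons (P.lf 427256802 0 0) (P.cons (P.lf 21963810 0 0) (P.cons (P.lf 0 3030236 0) (P.cons (P.lf 0 168494 0) (P.cons (P.lf 4154 0 0) P.nil))))) (P.cons (P.cons (P.lf 32273514 0 0) (P.cons (P.lf 0 861470 0) (P.cons (P.lf 82952 0 0) (P.cons (P.lf 17420 0 0) P.nil)))) (P.cons (P.cons (P.lf 0 29454604 0) (P.cons (P.lf 0 1442208 0) (P.cons (P.lf 204378 0 0) P.nil))) (P.cons (P.cons (P.lf 0 3905936 0) (P.cons (P.lf 0 564 0) P.nil)) (P.cons (P.cons (P.lf 877888 0 0) P.nil) P.nil)))))) 323558)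
 EL.nil)
noncomputable def S256_285_734_771_39 : EL := (EL.cons 14 (TM.mk (P.cons (P.lf 109352740 0 0) (P.cons (P.lf 216958378 0 0) (P.cons (P.lf 105005926 0 0) (P.cons (P.lf 0 3431614 0) (P.cons (P.lf 0 806288 0) (P.cons (P.lf 30348 0 0) P.nil)))))) 5440)
 EL.nil)
noncomputable def S256_285_734_771_40 : EL := (EL.cons 14 (TM.mk (P.cons (P.cons (P.lf 0 67580036 0) (P.cons (P.lf 0 1956052 0) (P.cons (P.lf 294604 0 0) (P.lf 7552 0 0)))) (P.cons (P.cons (P.lf 0 139562564 0) (P.cons (P.lf 0 3786724 0) (P.cons (P.lf 570326 0 0) (P.lf 14622 0 0)))) (P.cons (P.cons (P.lf 0 73458582 0) (P.cons (P.lf 0 1646736 0) (P.cons (P.lf 248018 0 0) (P.lf 6358 0 0)))) (P.cons (P.cons (P.lf 1675728 0 0) (P.cons (P.lf 238440 0 0) (P.cons (P.lf 0 35910 0) P.nil))) (P.cons (P.cons (P.lf 3318400 0 0) (P.cons (P.lf 49570 0 0) P.nil)) (P.cons (P.cons (P.lf 104588 0 0) P.nil) P.nil)))))) 92544)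
 EL.nil)
noncomputable def S256_285_734_771_41 : EL := (EL.cons 14 (TM.mk (P.cons (P.cons (P.lf 41764488 0 0) (P.cons (P.lf 2417682 0 0) (P.cons (P.lf 0 329142 0) (P.cons (P.lf 0 19876 0) (P.cons (P.lf 522 0 0) (P.cons (P.lf 40 0 0) P.nil)))))) (P.cons (P.cons (P.lf 89637722 0 0) (P.cons (P.lf 4876520 0 0) (P.cons (P.lf 0 668412 0) (P.cons (P.lf 0 38728 0) (P.cons (P.lf 988 0 0) P.nil))))) (P.cons (P.cons (P.lf 50965372 0 0) (P.cons (P.lf 2332338 0 0) (P.cons (P.lf 0 325884 0) (P.cons (P.lf 0 16656 0) P.nil)))) (P.cons (P.cons (P.lf 0 447104 0) (P.cons (P.lf 0 298030 0) (P.cons (P.lf 37692 0 0) P.nil))) (P.cons (P.cons (P.lf 0 3964020 0) (P.cons (P.lf 0 169720 0) P.nil)) (P.cons (P.cons (P.lf 0 308200 0) P.nil) P.nil)))))) 234984)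
 EL.nil)
noncomputable def S256_285_734_771_42 : EL := (EL.cons 14 (TM.mk (P.cons (P.lf 12338136 0 0) (P.cons (P.lf 36718724 0 0) (P.cons (P.lf 35984236 0 0) (P.cons (P.lf 11026388 0 0) (P.cons (P.lf 0 709966 0) (P.cons (P.lf 0 125918 0) P.nil)))))) 9172)
 EL.nil)
noncomputable def S256_285_734_771_43 : EL := (EL.cons 14 (TM.mk (P.cons (P.cons (P.lf 0 7624972 0) (P.cons (P.lf 0 220698 0) (P.cons (P.lf 33238 0 0) (P.lf 852 0 0)))) (P.cons (P.cons (P.lf 0 23310736 0) (P.cons (P.lf 0 646186 0) (P.cons (P.lf 97322 0 0) (P.lf 2494 0 0)))) (P.cons (P.cons (P.lf 0 23818244 0) (P.cons (P.lf 0 607006 0) (P.cons (P.lf 91422 0 0) (P.lf 2344 0 0)))) (P.cons (P.cons (P.lf 0 7815794 0) (P.cons (P.lf 0 151466 0) (P.cons (P.lf 22812 0 0) P.nil))) (P.cons (P.cons (P.lf 721050 0 0) (P.cons (P.lf 36130 0 0) P.nil)) (P.cons (P.cons (P.lf 411668 0 0) P.nil) P.nil)))))) 89738)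
 EL.nil)
noncomputable def S256_285_734_771_44 : EL := (EL.cons 14 (TM.mk (P.cons (P.cons (P.lf 4712236 0 0) (P.cons (P.lf 272784 0 0) (P.cons (P.lf 0 37136 0) (P.cons (P.lf 0 2242 0) (P.cons (P.lf 58 0 0) (P.cons (P.lf 4 0 0) P.nil)))))) (P.cons (P.cons (P.lf 14788308 0 0) (P.cons (P.lf 820816 0 0) (P.cons (P.lf 0 112256 0) (P.cons (P.lf 0 6594 0) (P.cons (P.lf 170 0 0) P.nil))))) (P.cons (P.cons (P.lf 15727118 0 0) (P.cons (P.lf 805720 0 0) (P.cons (P.lf 0 111140 0) (P.cons (P.lf 0 6186 0) P.nil)))) (P.cons (P.cons (P.lf 5515212 0 0) (P.cons (P.lf 219812 0 0) (P.cons (P.lf 0 31180 0) P.nil))) (P.cons (P.cons (P.lf 0 604574 0) (P.cons (P.lf 0 57748 0) P.nil)) (P.cons (P.cons (P.lf 0 499228 0) P.nil) P.nil)))))) 176882)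
 EL.nil)
noncomputable def S256_285_734_771_45 : EL := (EL.cons 14 (TM.mk (P.cons (P.cons (P.lf 0 2027477820 0) (P.cons (P.lf 0 176051472 0) (P.cons (P.lf 21419828 0 0) (P.cons (P.lf 2165652 0 0) (P.cons (P.lf 0 54018 0) (P.cons (P.lf 0 8702 0) P.nil)))))) (P.cons (P.cons (P.lf 0 493416888 0) (P.cons (P.lf 0 20091010 0) (P.cons (P.lf 3103034 0 0) (P.cons (P.lf 61474 0 0) (P.cons (P.lf 0 2054 0) P.nil))))) (P.cons (P.cons (P.lf 168055468 0 0) (P.cons (P.lf 16294062 0 0) (P.cons (P.lf 0 2018328 0) (P.cons (P.lf 0 191134 0) P.nil)))) (P.cons (P.cons (P.lf 53588518 0 0) (P.cons (P.lf 2117848 0 0) (P.cons (P.lf 0 323076 0) P.nil))) (P.cons (P.cons (P.lf 0 5319294 0) (P.cons (P.lf 0 712242 0) P.nil)) (P.cons (P.cons (P.lf 0 2559698 0) P.nil) P.nil)))))) 943888)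
 EL.nil)
noncomputable def S256_285_734_771_46 : EL := (EL.cons 15 (TM.mk (P.lf 4294967296 0 0) 0)
 EL.nil)
noncomputable def S256_285_734_771_47 : EL := (EL.cons 15 (TM.mk (P.cons (P.cons (P.lf 0 2654291480 0) (P.cons (P.lf 0 76826476 0) (P.cons (P.lf 11571008 0 0) (P.lf 296688 0 0)))) (P.cons (P.cons (P.lf 0 215320439 0) (P.cons (P.lf 3697132 0 0) (P.cons (P.lf 0 556828 0) (P.lf 0 14276 0)))) (P.cons (P.cons (P.lf 90804272 0 0) (P.cons (P.lf 1759724 0 0) (P.cons (P.lf 0 265032 0) (P.lf 0 6792 0)))) (P.cons (P.cons (P.lf 9125244 0 0) (P.cons (P.lf 0 87336 0) (P.cons (P.lf 13152 0 0) P.nil))) (P.cons (P.cons (P.lf 0 1292888 0) (P.cons (P.lf 0 19976 0) P.nil)) (P.cons (P.cons (P.lf 0 90951 0) P.nil) P.nil)))))) 20399)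
 EL.nil)
noncomputable def S256_285_734_771_48 : EL := (EL.cons 15 (TM.mk (P.cons (P.cons (P.lf 1640353179 0 0) (P.cons (P.lf 94957584 0 0) (P.cons (P.lf 0 12927536 0) (P.cons (P.lf 0 780660 0) (P.cons (P.lf 20559 0 0) (P.cons (P.lf 1598 0 0) P.nil)))))) (P.cons (P.cons (P.lf 266136232 0 0) (P.cons (P.lf 3133455 0 0) (P.cons (P.lf 0 604208 0) (P.cons (P.lf 27738 0 0) (P.cons (P.lf 0 1978 0) P.nil))))) (P.cons (P.cons (P.lf 0 101439449 0) (P.cons (P.lf 0 5794251 0) (P.cons (P.lf 812907 0 0) (P.cons (P.lf 40376 0 0) P.nil)))) (P.cons (P.cons (P.lf 0 20383425 0) (P.cons (P.lf 0 238620 0) (P.cons (P.lf 42095 0 0) P.nil))) (P.cons (P.cons (P.lf 2602840 0 0) (P.cons (P.lf 169818 0 0) P.nil)) (P.cons (P.cons (P.lf 627900 0 0) P.nil) P.nil)))))) 178000)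
 EL.nil)
noncomputable def S256_285_734_771 : SL := (SL.cons S256_285_734_771_0 (SL.cons S256_285_734_771_1 (SL.cons S256_285_734_771_2 (SL.cons S256_285_734_771_3 (SL.cons S256_285_734_771_4 (SL.cons S256_285_734_771_5 (SL.cons S256_285_734_771_6 (SL.cons S256_285_734_771_7 (SL.cons S256_285_734_771_8 (SL.cons S256_285_734_771_9 (SL.cons S256_285_734_771_10 (SL.cons S256_285_734_771_11 (SL.cons S256_285_734_771_12 (SL.cons S256_285_734_771_13 (SL.cons S256_285_734_771_14 (SL.cons S256_285_734_771_15 (SL.cons S256_285_734_771_16 (SL.cons S256_285_734_771_17 (SL.cons S256_285_734_771_18 (SL.cons S256_285_734_771_19 (SL.cons S256_285_734_771_20 (SL.cons S256_285_734_771_21 (SL.cons S256_285_734_771_22 (SL.cons S256_285_734_771_23 (SL.cons S256_285_734_771_24 (SL.cons S256_285_734_771_25 (SL.cons S256_285_734_771_26 (SL.cons S256_285_734_771_27 (SL.cons S256_285_734_771_28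 (SL.cons S256_285_734_771_29 (SL.cons S256_285_734_771_30 (SL.cons S256_285_734_771_31 (SL.cons S256_285_734_771_32 (SL.cons S256_285_734_771_33 (SL.cons S256_285_734_771_34 (SL.cons S256_285_734_771_35 (SL.cons S256_285_734_771_36 (SL.cons S256_285_734_771_37 (SL.cons S256_285_734_771_38 (SL.cons S256_285_734_771_39 (SL.cons S256_285_734_771_40 (SL.cons S256_285_734_771_41 (SL.cons S256_285_734_771_42 (SL.cons S256_285_734_771_43 (SL.cons S256_285_734_771_44 (SL.cons S256_285_734_771_45 (SL.cons S256_285_734_771_46 (SL.cons S256_285_734_771_47 (SL.cons S256_285_734_771_48 SL.nil)))))))))))))))))))))))))))))))))))))))))))))))))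
theorem S256_285_512_586_ok : band (seq (shp 5 256 285 512 586) S256_285_512_586) (sok S256_285_512_586) = true := by decide +kernel

theorem S256_285_512_660_ok : band (seq (shp 5 256 285 512 660) S256_285_512_660) (sok S256_285_512_660) = true := by decide +kernel

theorem S256_285_586_660_ok : band (seq (shp 5 256 285 586 660) S256_285_586_660) (sok S256_285_586_660) = true := by decide +kernel

theorem S256_285_660_734_ok : band (seq (shp 5 256 285 660 734) S256_285_660_734) (sok S256_285_660_734) = true := by decide +kernel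

theorem S256_285_660_808_ok : band (seq (shp 5 256 285 660 808) S256_285_660_808) (sok S256_285_660_808) = true := by decide +kernel

theorem S256_285_734_771_ok : band (seq (shp 5 256 285 734 771) S256_285_734_771) (sok S256_285_734_771) = true := by decide +kernel

end Vale.Agent.P098.Ck
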