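import Vale.Agent.P098.CkDefs

namespace Vale.Agent.P098.Ck

noncomputable def S256_314_512_660_0 : EL := (EL.cons 0 (TM.mk (P.cons (P.lf 8080323868 0 0) (P.cons (P.lf 0 727079837 0) (P.cons (P.lf 0 317250402 0) (P.cons (P.lf 44091209 0 0) (P.cons (P.lf 8367597 0 0) (P.cons (P.lf 0 1467036 0) P.nil)))))) 311496)
 (EL.cons 1 (TM.mk (P.cons (P.lf 869508750 0 0) (P.cons (P.lf 786249082 0 0) (P.cons (P.lf 0 120498519 0) (P.cons (P.lf 0 33042157 0) (P.cons (P.lf 5010903 0 0) (P.cons (P.lf 683975 0 0) P.nil)))))) 177172)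
 (EL.cons 5 (TM.mk (P.cons (P.lf 4428440364 0 0) (P.cons (P.lf 258517274 0 0) (P.cons (P.lf 112800140 0 0) (P.cons (P.lf 0 15676876 0) (P.cons (P.lf 0 2975142 0) (P.cons (P.lf 521612 0 0) P.nil)))))) 117185)
 (EL.cons 9 (TM.mk (P.lf 6442450944 0 0) 2)
 EL.nil))))
noncomputable def S256_314_512_660_1 : EL := (EL.cons 0 (TM.mk (P.cons (P.cons (P.lf 0 3118089831 0) (P.cons (P.lf 0 1283476995 0) (P.cons (P.lf 85810287 0 0) (P.lf 28603431 0 0)))) (P.cons (P.cons (P.lf 289860495 0 0) (P.cons (P.lf 783887362 0 0) (P.cons (P.lf 0 52408870 0) (P.lf 0 17469617 0)))) (P.cons (P.cons (P.lf 1881271704 0 0) (P.cons (P.lf 230758656 0 0) (P.cons (P.lf 0 15427979 0) (P.lf 0 5142656 0)))) (P.cons (P.cons (P.lf 37404751 0 0) (P.cons (P.lf 0 141499017 0) (P.cons (P.lf 9460278 0 0) P.nil))) (P.cons (P.cons (P.lf 0 241141961 0) (P.cons (P.lf 0 12529349 0) P.nil)) (P.cons (P.cons (P.lf 5636709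 0 0) P.nil) P.nil)))))) 47141686)
 (EL.cons 1 (TM.mk (P.cons (P.cons (P.lf 112627176 0 0) (P.cons (P.lf 0 385244619 0) (P.cons (P.lf 25756551 0 0) (P.lf 8585514 0 0)))) (P.cons (P.cons (P.lf 0 1413200429 0) (P.cons (P.lf 0 241234698 0) (P.cons (P.lf 16128389 0 0) (P.lf 5376128 0 0)))) (P.cons (P.cons (P.lf 36985961 0 0) (P.cons (P.lf 192497483 0 0) (P.cons (P.lf 0 12869921 0) (P.lf 0 4289968 0)))) (P.cons (P.cons (P.lf 382911832 0 0) (P.cons (P.lf 27458049 0 0) (P.cons (P.lf 0 1835775 0) P.nil))) (P.cons (P.cons (P.lf 0 7633090 0) (P.cons (P.lf 0 23379218 0) P.nil)) (P.cons (P.cons (P.lf 0 35918075 0) P.nil) P.nil)))))) 22422270)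
 (EL.cons 5 (TM.mk (P.cons (P.cons (P.lf 0 1368284042 0) (P.cons (P.lf 0 891228220 0) (P.cons (P.lf 59585446 0 0) (P.lf 19861814 0 0)))) (P.cons (P.cons (P.lf 0 573578564 0) (P.cons (P.lf 0 19254426 0) (P.cons (P.lf 1287300 0 0) (P.lf 429100 0 0)))) (P.cons (P.cons (P.lf 0 96767769 0) (P.cons (P.lf 22838366 0 0) (P.cons (P.lf 0 1526926 0) (P.lf 0 508976 0)))) (P.cons (P.cons (P.lf 70041983 0 0) (P.cons (P.lf 27132616 0 0) (P.cons (P.lf 0 1814014 0) P.nil))) (P.cons (P.cons (P.lf 49856353 0 0) (P.cons (P.lf 651758 0 0) P.nil)) (P.cons (P.cons (P.lf 0 4366148 0) P.nil) P.nil)))))) 21280119)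
 (EL.cons 9 (TM.mk (P.cons (P.cons (P.lf 0 2185533696 0) (P.cons (P.lf 0 1189037286 0) (P.cons (P.lf 79496262 0 0) (P.lf 26498754 0 0)))) (P.cons (P.cons (P.lf 0 415162104 0) (P.cons (P.lf 228936240 0 0) (P.cons (P.lf 0 15306138 0) (P.lf 0 5102046 0)))) (P.cons (P.cons (P.lf 504819550 0 0) (P.cons (P.lf 92546364 0 0) (P.cons (P.lf 0 6187428 0) (P.lf 0 2062476 0)))) (P.cons (P.cons (P.lf 73536573 0 0) (P.cons (P.lf 0 20451300 0) (P.cons (P.lf 1367322 0 0) P.nil))) (P.cons (P.cons (P.lf 0 31661464 0) (P.cons (P.lf 0 3355686 0) P.nil)) (P.cons (P.cons (P.lf 0 2084098 0) P.nil) P.nil)))))) 3853087)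
 (EL.cons 2 (TM.mk (P.cons (P.cons (P.lf 0 585780311 0) (P.cons (P.lf 90693500 0 0) (P.cons (P.lf 43693267 0 0) (P.cons (P.lf 0 1653480 0) (P.lf 0 413370 0))))) (P.cons (P.cons (P.lf 0 492093795 0) (P.cons (P.lf 76188476 0 0) (P.cons (P.lf 36705203 0 0) (P.cons (P.lf 0 1389031 0) (P.lf 0 347256 0))))) (P.cons (P.cons (P.lf 132784605 0 0) (P.cons (P.lf 0 20558390 0) (P.cons (P.lf 0 9904381 0) (P.cons (P.lf 374810 0 0) P.nil)))) (P.cons (P.cons (P.lf 31824826 0 0) (P.cons (P.lf 0 4927280 0) (P.cons (P.lf 0 2373806 0) P.nil))) (P.cons (P.cons (P.lf 0 8526200 0) (P.cons (P.lf 1320069 0 0) P.nil)) (P.cons (P.cons (P.lf 0 946833 0) P.nil) P.nil)))))) 1886083)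
 (EL.cons 6 (TM.mk (P.cons (P.cons (P.lf 1356821016 0 0) (P.cons (P.lf 0 210069966 0) (P.cons (P.lf 0 101205084 0) (P.cons (P.lf 3829896 0 0) (P.lf 957471 0 0))))) (P.cons (P.cons (P.lf 0 261241179 0) (P.cons (P.lf 40446693 0 0) (P.cons (P.lf 19485939 0 0) (P.cons (P.lf 0 737403 0) (P.lf 0 184350 0))))) (P.cons (P.cons (P.lf 0 105605481 0) (P.cons (P.lf 16350378 0 0) (P.cons (P.lf 7877094 0 0) (P.cons (P.lf 0 298092 0) P.nil)))) (P.cons (P.cons (P.lf 23337159 0 0) (P.cons (P.lf 0 3613176 0) (P.cons (P.lf 0 1740714 0) P.nil))) (P.cons (P.cons (P.lf 3829206 0 0) (P.cons (P.lf 0 592857 0) P.nil)) (P.cons (P.cons (P.lf 0 1078272 0) P.nil) P.nil)))))) 1212498)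
 EL.nil))))))
noncomputable def S256_314_512_660_2 : EL := (EL.cons 0 (TM.mk (P.cons (P.cons (P.lf 1185646998 0 0) (P.cons (P.lf 1009944850 0 0) (P.cons (P.lf 130998104 0 0) (P.cons (P.lf 0 49052781 0) (P.cons (P.lf 0 7961049 0) (P.cons (P.lf 591595 0 0) P.nil)))))) (P.cons (P.cons (P.lf 0 64410082 0) (P.cons (P.lf 0 601376629 0) (P.cons (P.lf 0 209607323 0) (P.cons (P.lf 46806158 0 0) (P.cons (P.lf 10017990 0 0) P.nil))))) (P.cons (P.cons (P.lf 0 1338087338 0) (P.cons (P.lf 0 833176165 0) (P.cons (P.lf 23274429 0 0) (P.cons (P.lf 22904422 0 0) P.nil)))) (P.cons (P.cons (P.lf 0 176256468 0) (P.cons (P.lf 257364654 0 0) (P.cons (P.lf 55775941 0 0) P.nil))) (P.cons (P.cons (P.lf 394797764 0 0) (P.cons (P.lf 181424393 0 0) P.nil)) (P.cons (P.cons (P.lf 56008451 0 0) P.nil) P.nil)))))) 315374358)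
 (EL.cons 1 (TM.mk (P.cons (P.cons (P.lf 0 176481213 0) (P.cons (P.lf 110925124 0 0) (P.cons (P.lf 105169040 0 0) (P.cons (P.lf 0 17526435 0) (P.cons (P.lf 0 4514871 0) (P.cons (P.lf 335495 0 0) P.nil)))))) (P.cons (P.cons (P.lf 815809835 0 0) (P.cons (P.lf 644802688 0 0) (P.cons (P.lf 3179224 0 0) (P.cons (P.lf 0 20559579 0) (P.cons (P.lf 0 1856284 0) P.nil))))) (P.cons (P.cons (P.lf 196801157 0 0) (P.cons (P.lf 0 217793369 0) (P.cons (P.lf 0 66777103 0) (P.cons (P.lf 15729871 0 0) P.nil)))) (P.cons (P.cons (P.lf 0 420343759 0) (P.cons (P.lf 0 233407506 0) (P.cons (P.lf 15480388 0 0) P.nil))) (P.cons (P.cons (P.lf 0 69711685 0) (P.cons (P.lf 68662954 0 0) P.nil)) (P.cons (P.cons (P.lf 87366977 0 0) P.nil) P.nil)))))) 169292679)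
 (EL.cons 5 (TM.mk (P.cons (P.cons (P.lf 418711856 0 0) (P.cons (P.lf 555210177 0 0) (P.cons (P.lf 141007241 0 0) (P.cons (P.lf 0 36191698 0) (P.cons (P.lf 0 7143226 0) (P.cons (P.lf 530811 0 0) P.nil)))))) (P.cons (P.cons (P.lf 342137273 0 0) (P.cons (P.lf 211463876 0 0) (P.cons (P.lf 0 21089018 0) (P.cons (P.lf 0 3783193 0) (P.cons (P.lf 278754 0 0) P.nil))))) (P.cons (P.cons (P.lf 117907894 0 0) (P.cons (P.lf 0 19550135 0) (P.cons (P.lf 0 16658308 0) (P.cons (P.lf 2837948 0 0) P.nil)))) (P.cons (P.cons (P.lf 0 67614310 0) (P.cons (P.lf 0 79401195 0) (P.cons (P.lf 0 4630822 0) P.nil))) (P.cons (P.cons (P.lf 0 81936942 0) (P.cons (P.lf 0 23332953 0) P.nil)) (P.cons (P.cons (P.lf 0 625843 0) P.nil) P.nil)))))) 149651105)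
 (EL.cons 9 (TM.mk (P.cons (P.cons (P.lf 741419310 0 0) (P.cons (P.lf 806736775 0 0) (P.cons (P.lf 165515601 0 0) (P.cons (P.lf 0 47322964 0) (P.cons (P.lf 0 8800432 0) (P.cons (P.lf 653959 0 0) P.nil)))))) (P.cons (P.cons (P.lf 281678749 0 0) (P.cons (P.lf 0 2081395 0) (P.cons (P.lf 0 84367108 0) (P.cons (P.lf 11346165 0 0) (P.cons (P.lf 3388854 0 0) P.nil))))) (P.cons (P.cons (P.lf 0 315755713 0) (P.cons (P.lf 0 278638711 0) (P.cons (P.lf 0 7396734 0) (P.cons (P.lf 9689764 0 0) P.nil)))) (P.cons (P.cons (P.lf 0 114955816 0) (P.cons (P.lf 10681966 0 0) (P.cons (P.lf 13412310 0 0) P.nil))) (P.cons (P.cons (P.lf 51560808 0 0) (P.cons (P.lf 36329536 0 0) P.nil)) (P.cons (P.cons (P.lf 17019052 0 0) P.nil) P.nil)))))) 40689851)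
 (EL.cons 2 (TM.mk (P.cons (P.cons (P.lf 397439611 0 0) (P.cons (P.lf 154692961 0 0) (P.cons (P.lf 0 77578672 0) (P.cons (P.lf 0 17587040 0) (P.cons (P.lf 2715176 0 0) (P.cons (P.lf 471211 0 0) P.nil)))))) (P.cons (P.cons (P.lf 409372571 0 0) (P.cons (P.lf 76631248 0 0) (P.cons (P.lf 0 61573381 0) (P.cons (P.lf 0 10958962 0) (P.cons (P.lf 1865424 0 0) P.nil))))) (P.cons (P.cons (P.lf 0 118470403 0) (P.cons (P.lf 0 82475268 0) (P.cons (P.lf 31186181 0 0) (P.cons (P.lf 8388770 0 0) P.nil)))) (P.cons (P.cons (P.lf 0 129198099 0) (P.cons (P.lf 7274030 0 0) (P.cons (P.lf 12458683 0 0) P.nil))) (P.cons (P.cons (P.lf 17016463 0 0) (P.cons (P.lf 10323911 0 0) P.nil)) (P.cons (P.cons (P.lf 14975865 0 0) P.nil) P.nil)))))) 30093614)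
 (EL.cons 6 (TM.mk (P.cons (P.cons (P.lf 0 920574504 0) (P.cons (P.lf 0 358309530 0) (P.cons (P.lf 179692584 0 0) (P.cons (P.lf 40736214 0 0) (P.cons (P.lf 0 6289062 0) (P.cons (P.lf 0 1091448 0) P.nil)))))) (P.cons (P.cons (P.lf 2375100 0 0) (P.cons (P.lf 192493968 0 0) (P.cons (P.lf 0 42931266 0) (P.cons (P.lf 0 16680552 0) (P.cons (P.lf 2173296 0 0) P.nil))))) (P.cons (P.cons (P.lf 317957106 0 0) (P.cons (P.lf 10168938 0 0) (P.cons (P.lf 0 36883590 0) (P.cons (P.lf 0 4241766 0) P.nil)))) (P.cons (P.cons (P.lf 0 12189288 0) (P.cons (P.lf 0 30352488 0) (P.cons (P.lf 8056176 0 0) P.nil))) (P.cons (P.cons (P.lf 0 41455956 0) (P.cons (P.lf 3874638 0 0) P.nil)) (P.cons (P.cons (P.lf 3174432 0 0) P.nil) P.nil)))))) 24408300)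
 EL.nil))))))
noncomputable def S256_314_512_660_3 : EL := (EL.cons 0 (TM.mk (P.cons (P.lf 375392995 0 0) (P.cons (P.lf 727079837 0 0) (P.cons (P.lf 317250402 0 0) (P.cons (P.lf 0 44091209 0) (P.cons (P.lf 0 8367597 0) (P.cons (P.lf 1467036 0 0) P.nil)))))) 311496)
 (EL.cons 1 (TM.mk (P.cons (P.lf 0 869508750 0) (P.cons (P.lf 0 786249082 0) (P.cons (P.lf 120498519 0 0) (P.cons (P.lf 33042157 0 0) (P.cons (P.lf 0 5010903 0) (P.cons (P.lf 0 683975 0) P.nil)))))) 177172)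
 (EL.cons 5 (TM.mk (P.cons (P.lf 2014010580 0 0) (P.cons (P.lf 0 258517274 0) (P.cons (P.lf 0 112800140 0) (P.cons (P.lf 15676876 0 0) (P.cons (P.lf 2975142 0 0) (P.cons (P.lf 0 521612 0) P.nil)))))) 117178)
 EL.nil)))
noncomputable def S256_314_512_660_4 : EL := (EL.cons 0 (TM.mk (P.cons (P.cons (P.lf 0 127348122 0) (P.cons (P.lf 0 69283610 0) (P.cons (P.lf 4632140 0 0) (P.lf 1544046 0 0)))) (P.cons (P.cons (P.lf 0 270845124 0) (P.cons (P.lf 0 120852137 0) (P.cons (P.lf 8079892 0 0) (P.lf 2693297 0 0)))) (P.cons (P.cons (P.lf 0 125062917 0) (P.cons (P.lf 0 27322889 0) (P.cons (P.lf 1826745 0 0) (P.lf 608915 0 0)))) (P.cons (P.cons (P.lf 55770964 0 0) (P.cons (P.lf 28664172 0 0) (P.cons (P.lf 0 1916418 0) P.nil))) (P.cons (P.cons (P.lf 36993425 0 0) (P.cons (P.lf 2031252 0 0) P.nil)) (P.cons (P.cons (P.lf 0 3486826 0) P.nil) P.nil)))))) 9629426)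
 (EL.cons 1 (TM.mk (P.cons (P.cons (P.lf 294971694 0 0) (P.cons (P.lf 160479035 0 0) (P.cons (P.lf 0 10729252 0) (P.lf 0 3576416 0)))) (P.cons (P.cons (P.lf 322759297 0 0) (P.cons (P.lf 114213894 0 0) (P.cons (P.lf 0 7636074 0) (P.lf 0 2545357 0)))) (P.cons (P.cons (P.lf 0 58343908 0) (P.cons (P.lf 0 62669938 0) (P.cons (P.lf 4189963 0 0) (P.lf 1396653 0 0)))) (P.cons (P.cons (P.lf 0 90508374 0) (P.cons (P.lf 0 10350686 0) (P.cons (P.lf 692021 0 0) P.nil))) (P.cons (P.cons (P.lf 4311326 0 0) (P.cons (P.lf 6778786 0 0) P.nil)) (P.cons (P.cons (P.lf 8664791 0 0) P.nil) P.nil)))))) 6013959)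
 (EL.cons 5 (TM.mk (P.cons (P.cons (P.lf 0 683231896 0) (P.cons (P.lf 0 371711588 0) (P.cons (P.lf 24851768 0 0) (P.lf 8283922 0 0)))) (P.cons (P.cons (P.lf 0 42086878 0) (P.cons (P.lf 119281728 0 0) (P.cons (P.lf 0 7974894 0) (P.lf 0 2658298 0)))) (P.cons (P.cons (P.lf 212739998 0 0) (P.cons (P.lf 40563592 0 0) (P.cons (P.lf 0 2711984 0) (P.lf 0 903994 0)))) (P.cons (P.cons (P.lf 4682512 0 0) (P.cons (P.lf 0 17008804 0) (P.cons (P.lf 1137166 0 0) P.nil))) (P.cons (P.cons (P.lf 0 23707038 0) (P.cons (P.lf 0 1840784 0) P.nil)) (P.cons (P.cons (P.lf 545062 0 0) P.nil) P.nil)))))) 4504892)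
 EL.nil)))
noncomputable def S256_314_512_660_5 : EL := (EL.cons 0 (TM.mk (P.cons (P.cons (P.lf 43201509 0 0) (P.cons (P.lf 47007471 0 0) (P.cons (P.lf 9644371 0 0) (P.cons (P.lf 0 2757445 0) (P.cons (P.lf 0 512789 0) (P.cons (P.lf 38104 0 0) P.nil)))))) (P.cons (P.cons (P.lf 100087880 0 0) (P.cons (P.lf 90925131 0 0) (P.cons (P.lf 13763742 0 0) (P.cons (P.lf 0 4679630 0) (P.cons (P.lf 0 795731 0) P.nil))))) (P.cons (P.cons (P.lf 49901199 0 0) (P.cons (P.lf 23255931 0 0) (P.cons (P.lf 0 1801861 0) (P.cons (P.lf 0 485247 0) P.nil)))) (P.cons (P.cons (P.lf 0 33537018 0) (P.cons (P.lf 0 36447769 0) (P.cons (P.lf 0 5340577 0) P.nil))) (P.cons (P.cons (P.lf 0 28408995 0) (P.cons (P.lf 0 11432360 0) P.nil)) (P.cons (P.cons (P.lf 3113820 0 0) P.nil) P.nil)))))) 33732264)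
 (EL.cons 1 (TM.mk (P.cons (P.cons (P.lf 0 100066042 0) (P.cons (P.lf 0 108881647 0) (P.cons (P.lf 0 22338898 0) (P.cons (P.lf 6386968 0 0) (P.cons (P.lf 1187752 0 0) (P.cons (P.lf 0 88260 0) P.nil)))))) (P.cons (P.cons (P.lf 0 128501154 0) (P.cons (P.lf 0 98174786 0) (P.cons (P.lf 0 8813190 0) (P.cons (P.lf 4244043 0 0) (P.cons (P.lf 616642 0 0) P.nil))))) (P.cons (P.cons (P.lf 22106900 0 0) (P.cons (P.lf 52949703 0 0) (P.cons (P.lf 14390401 0 0) (P.cons (P.lf 0 3577610 0) P.nil)))) (P.cons (P.cons (P.lf 63121580 0 0) (P.cons (P.lf 36662581 0 0) (P.cons (P.lf 0 1636575 0) P.nil))) (P.cons (P.cons (P.lf 2032661 0 0) (P.cons (P.lf 0 12056643 0) P.nil)) (P.cons (P.cons (P.lf 0 12656934 0) P.nil) P.nil)))))) 31285291)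
 (EL.cons 5 (TM.mk (P.cons (P.cons (P.lf 231779230 0 0) (P.cons (P.lf 252198490 0 0) (P.cons (P.lf 51742756 0 0) (P.cons (P.lf 0 14793894 0) (P.cons (P.lf 0 2751150 0) (P.cons (P.lf 204436 0 0) P.nil)))))) (P.cons (P.cons (P.lf 58306112 0 0) (P.cons (P.lf 0 33022732 0) (P.cons (P.lf 0 33016142 0) (P.cons (P.lf 5445922 0 0) (P.cons (P.lf 1412544 0 0) P.nil))))) (P.cons (P.cons (P.lf 0 122994552 0) (P.cons (P.lf 0 101148344 0) (P.cons (P.lf 0 1824914 0) (P.cons (P.lf 3402452 0 0) P.nil)))) (P.cons (P.cons (P.lf 0 26394330 0) (P.cons (P.lf 16519862 0 0) (P.cons (P.lf 6369640 0 0) P.nil))) (P.cons (P.cons (P.lf 27287910 0 0) (P.cons (P.lf 16174682 0 0) P.nil)) (P.cons (P.cons (P.lf 4565880 0 0) P.nil) P.nil)))))) 24139578)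
 EL.nil)))
noncomputable def S256_314_512_660_6 : EL := (EL.cons 12 (TM.mk (P.lf 8589934592 0 0) 0)
 (EL.cons 3 (TM.mk (P.cons (P.lf 897858742 0 0) (P.cons (P.lf 869508750 0 0) (P.cons (P.lf 0 41629830 0) (P.cons (P.lf 0 12412950 0) (P.cons (P.lf 1049171 0 0) (P.cons (P.lf 162840 0 0) P.nil)))))) 27209)
 (EL.cons 7 (TM.mk (P.cons (P.lf 0 2079676607 0) (P.cons (P.lf 133473065 0 0) (P.cons (P.lf 62522105 0 0) (P.cons (P.lf 0 4081356 0) (P.cons (P.lf 0 858201 0) (P.cons (P.lf 91532 0 0) P.nil)))))) 18219)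
 EL.nil)))
noncomputable def S256_314_512_660_7 : EL := (EL.cons 12 (TM.mk (P.cons (P.cons (P.lf 0 2914044928 0) (P.cons (P.lf 0 1585383048 0) (P.cons (P.lf 105995016 0 0) (P.lf 35331672 0 0)))) (P.cons (P.cons (P.lf 0 553549472 0) (P.cons (P.lf 305248320 0 0) (P.cons (P.lf 0 20408184 0) (P.lf 0 6802728 0)))) (P.cons (P.cons (P.lf 673092734 0 0) (P.cons (P.lf 123395152 0 0) (P.cons (P.lf 0 8249904 0) (P.lf 0 2749968 0)))) (P.cons (P.cons (P.lf 98048764 0 0) (P.cons (P.lf 0 27268400 0) (P.cons (P.lf 1823096 0 0) P.nil))) (P.cons (P.cons (P.lf 0 42215286 0) (P.cons (P.lf 0 4474248 0) P.nil)) (P.cons (P.cons (P.lf 0 2778798 0) P.nil) P.nil)))))) 5137424)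
 (EL.cons 3 (TM.mk (P.cons (P.cons (P.lf 0 1206112044 0) (P.cons (P.lf 331422784 0 0) (P.cons (P.lf 0 22158152 0) (P.lf 0 7386050 0)))) (P.cons (P.cons (P.lf 1868990104 0 0) (P.cons (P.lf 257146208 0 0) (P.cons (P.lf 0 17192196 0) (P.lf 0 5730730 0)))) (P.cons (P.cons (P.lf 450711433 0 0) (P.cons (P.lf 0 102959276 0) (P.cons (P.lf 6883612 0 0) (P.lf 2294536 0 0)))) (P.cons (P.cons (P.lf 0 241096716 0) (P.cons (P.lf 0 20903962 0) (P.cons (P.lf 1397588 0 0) P.nil))) (P.cons (P.cons (P.lf 0 18776783 0) (P.cons (P.lf 8921286 0 0) P.nil)) (P.cons (P.cons (P.lf 14615949 0 0) P.nil) P.nil)))))) 14749133)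
 (EL.cons 7 (TM.mk (P.cons (P.cons (P.lf 567121049 0 0) (P.cons (P.lf 460143188 0 0) (P.cons (P.lf 0 30764107 0) (P.lf 0 10254702 0)))) (P.cons (P.cons (P.lf 286897447 0 0) (P.cons (P.lf 39472967 0 0) (P.cons (P.lf 0 2639067 0) (P.lf 0 879689 0)))) (P.cons (P.cons (P.lf 217311811 0 0) (P.cons (P.lf 4575321 0 0) (P.cons (P.lf 0 305892 0) (P.lf 0 101965 0)))) (P.cons (P.cons (P.lf 15397301 0 0) (P.cons (P.lf 0 13431330 0) (P.cons (P.lf 897983 0 0) P.nil))) (P.cons (P.cons (P.lf 0 28491428 0) (P.cons (P.lf 0 1328324 0) P.nil)) (P.cons (P.cons (P.lf 0 654791 0) P.nil) P.nil)))))) 11513194)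
 (EL.cons 10 (TM.mk (P.cons (P.cons (P.lf 0 2802119268 0) (P.cons (P.lf 433838430 0 0) (P.cons (P.lf 209009673 0 0) (P.cons (P.lf 0 7909539 0) (P.lf 0 1977384 0))))) (P.cons (P.cons (P.lf 359678463 0 0) (P.cons (P.lf 0 55687257 0) (P.cons (P.lf 0 26828364 0) (P.cons (P.lf 1015263 0 0) (P.lf 253815 0 0))))) (P.cons (P.cons (P.lf 156940308 0 0) (P.cons (P.lf 0 24298299 0) (P.cons (P.lf 0 11706153 0) (P.cons (P.lf 442995 0 0) P.nil)))) (P.cons (P.cons (P.lf 0 21811440 0) (P.cons (P.lf 3376959 0 0) (P.cons (P.lf 1626912 0 0) P.nil))) (P.cons (P.cons (P.lf 0 4139352 0) (P.cons (P.lf 640875 0 0) P.nil)) (P.cons (P.cons (P.lf 725724 0 0) P.nil) P.nil)))))) 881241)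
 EL.nil))))
noncomputable def S256_314_512_660_8 : EL := (EL.cons 12 (TM.mk (P.cons (P.cons (P.lf 988559080 0 0) (P.cons (P.lf 1075649034 0 0) (P.cons (P.lf 220687468 0 0) (P.cons (P.lf 0 63097286 0) (P.cons (P.lf 0 11733910 0) (P.cons (P.lf 871946 0 0) P.nil)))))) (P.cons (P.cons (P.lf 375571666 0 0) (P.cons (P.lf 0 2775194 0) (P.cons (P.lf 0 112489478 0) (P.cons (P.lf 15128220 0 0) (P.cons (P.lf 4518472 0 0) P.nil))))) (P.cons (P.cons (P.lf 0 421007618 0) (P.cons (P.lf 0 371518282 0) (P.cons (P.lf 0 9862312 0) (P.cons (P.lf 12919686 0 0) P.nil)))) (P.cons (P.cons (P.lf 0 153274422 0) (P.cons (P.lf 14242622 0 0) (P.cons (P.lf 17883080 0 0) P.nil))) (P.cons (P.cons (P.lf 68747744 0 0) (P.cons (P.lf 48439382 0 0) P.nil)) (P.cons (P.cons (P.lf 22692070 0 0) P.nil) P.nil)))))) 54253106)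
 (EL.cons 3 (TM.mk (P.cons (P.cons (P.lf 714992981 0 0) (P.cons (P.lf 107911946 0 0) (P.cons (P.lf 0 160135598 0) (P.cons (P.lf 18042947 0 0) (P.cons (P.lf 6132406 0 0) (P.cons (P.lf 0 455695 0) P.nil)))))) (P.cons (P.cons (P.lf 0 1251945265 0) (P.cons (P.lf 0 1101386890 0) (P.cons (P.lf 0 15569698 0) (P.cons (P.lf 36473576 0 0) (P.cons (P.lf 3577315 0 0) P.nil))))) (P.cons (P.cons (P.lf 0 724917990 0) (P.cons (P.lf 64790263 0 0) (P.cons (P.lf 77921324 0 0) (P.cons (P.lf 0 12442390 0) P.nil)))) (P.cons (P.cons (P.lf 432743390 0 0) (P.cons (P.lf 295358026 0 0) (P.cons (P.lf 0 12643895 0) P.nil))) (P.cons (P.cons (P.lf 175679439 0 0) (P.cons (P.lf 0 33186710 0) P.nil)) (P.cons (P.cons (P.lf 0 63327884 0) P.nil) P.nil)))))) 177102156)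
 (EL.cons 7 (TM.mk (P.cons (P.cons (P.lf 0 145443395 0) (P.cons (P.lf 0 261115127 0) (P.cons (P.lf 0 81552175 0) (P.cons (P.lf 19058303 0 0) (P.cons (P.lf 3970466 0 0) (P.cons (P.lf 0 295043 0) P.nil)))))) (P.cons (P.cons (P.lf 0 192178599 0) (P.cons (P.lf 0 169067281 0) (P.cons (P.lf 0 2390008 0) (P.cons (P.lf 5598837 0 0) (P.cons (P.lf 549129 0 0) P.nil))))) (P.cons (P.cons (P.lf 0 210500050 0) (P.cons (P.lf 0 77344258 0) (P.cons (P.lf 10727261 0 0) (P.cons (P.lf 980734 0 0) P.nil)))) (P.cons (P.cons (P.lf 0 13377195 0) (P.cons (P.lf 49369098 0 0) (P.cons (P.lf 6253452 0 0) P.nil))) (P.cons (P.cons (P.lf 74745429 0 0) (P.cons (P.lf 29486475 0 0) P.nil)) (P.cons (P.cons (P.lf 13671692 0 0) P.nil) P.nil)))))) 85087999)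
 (EL.cons 10 (TM.mk (P.cons (P.cons (P.lf 1901178954 0 0) (P.cons (P.lf 739984146 0 0) (P.cons (P.lf 0 371102790 0) (P.cons (P.lf 0 84128808 0) (P.cons (P.lf 12988236 0 0) (P.cons (P.lf 2254080 0 0) P.nil)))))) (P.cons (P.cons (P.lf 117112050 0 0) (P.cons (P.lf 0 350048346 0) (P.cons (P.lf 64844784 0 0) (P.cons (P.lf 29049474 0 0) (P.cons (P.lf 0 3654738 0) P.nil))))) (P.cons (P.cons (P.lf 0 591975876 0) (P.cons (P.lf 0 21220578 0) (P.cons (P.lf 69177456 0 0) (P.cons (P.lf 8095332 0 0) P.nil)))) (P.cons (P.cons (P.lf 0 13029684 0) (P.cons (P.lf 49346466 0 0) (P.cons (P.lf 0 9520164 0) P.nil))) (P.cons (P.cons (P.lf 65967822 0 0) (P.cons (P.lf 0 5091258 0) P.nil)) (P.cons (P.cons (P.lf 0 1516698 0) P.nil) P.nil)))))) 35577582)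
 EL.nil))))
noncomputable def S256_314_512_660_9 : EL := (EL.cons 3 (TM.mk (P.cons (P.lf 897858742 0 0) (P.cons (P.lf 869508750 0 0) (P.cons (P.lf 0 41629830 0) (P.cons (P.lf 0 12412950 0) (P.cons (P.lf 1049171 0 0) (P.cons (P.lf 162840 0 0) P.nil)))))) 27209)
 (EL.cons 7 (TM.mk (P.cons (P.lf 0 2079676607 0) (P.cons (P.lf 133473065 0 0) (P.cons (P.lf 62522105 0 0) (P.cons (P.lf 0 4081356 0) (P.cons (P.lf 0 858201 0) (P.cons (P.lf 91532 0 0) P.nil)))))) 18219)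
 EL.nil))
noncomputable def S256_314_512_660_10 : EL := (EL.cons 3 (TM.mk (P.cons (P.cons (P.lf 0 304589130 0) (P.cons (P.lf 0 165711392 0) (P.cons (P.lf 11079076 0 0) (P.lf 3693025 0 0)))) (P.cons (P.cons (P.lf 0 352831184 0) (P.cons (P.lf 0 128573104 0) (P.cons (P.lf 8596098 0 0) (P.lf 2865365 0 0)))) (P.cons (P.cons (P.lf 28444603 0 0) (P.cons (P.lf 51479638 0 0) (P.cons (P.lf 0 3441806 0) (P.lf 0 1147268 0)))) (P.cons (P.cons (P.lf 85275390 0 0) (P.cons (P.lf 10451981 0 0) (P.cons (P.lf 0 698794 0) P.nil))) (P.cons (P.cons (P.lf 2694316 0 0) (P.cons (P.lf 0 4460643 0) P.nil)) (P.cons (P.cons (P.lf 0 6134346 0) P.nil) P.nil)))))) 3560875)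
 (EL.cons 7 (TM.mk (P.cons (P.cons (P.lf 705508406 0 0) (P.cons (P.lf 383831099 0 0) (P.cons (P.lf 0 25662052 0) (P.lf 0 8554017 0)))) (P.cons (P.cons (P.lf 88738438 0 0) (P.cons (P.lf 0 98536690 0) (P.cons (P.lf 6587931 0 0) (P.lf 2195977 0 0)))) (P.cons (P.cons (P.lf 0 192771128 0) (P.cons (P.lf 0 36670950 0) (P.cons (P.lf 2451732 0 0) (P.lf 817244 0 0)))) (P.cons (P.cons (P.lf 0 15923962 0) (P.cons (P.lf 11494227 0 0) (P.cons (P.lf 0 768475 0) P.nil))) (P.cons (P.cons (P.lf 17197366 0 0) (P.cons (P.lf 1571032 0 0) P.nil)) (P.cons (P.cons (P.lf 434905 0 0) P.nil) P.nil)))))) 2624469)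
 EL.nil))
noncomputable def S256_314_512_660_11 : EL := (EL.cons 3 (TM.mk (P.cons (P.cons (P.lf 103328657 0 0) (P.cons (P.lf 112431692 0 0) (P.cons (P.lf 23067250 0 0) (P.cons (P.lf 0 6595213 0) (P.cons (P.lf 0 1226480 0) (P.cons (P.lf 91139 0 0) P.nil)))))) (P.cons (P.cons (P.lf 139322489 0 0) (P.cons (P.lf 108591572 0 0) (P.cons (P.lf 10580990 0 0) (P.cons (P.lf 0 4805698 0) (P.cons (P.lf 0 715463 0) P.nil))))) (P.cons (P.cons (P.lf 0 10779600 0) (P.cons (P.lf 0 44326655 0) (P.cons (P.lf 0 13487032 0) (P.cons (P.lf 3187556 0 0) P.nil)))) (P.cons (P.cons (P.lf 0 61885744 0) (P.cons (P.lf 0 37658840 0) (P.cons (P.lf 1097173 0 0) P.nil))) (P.cons (P.cons (P.lf 0 6710877 0) (P.cons (P.lf 8440696 0 0) P.nil)) (P.cons (P.cons (P.lf 10746622 0 0) P.nil) P.nil)))))) 25078034)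
 (EL.cons 7 (TM.mk (P.cons (P.cons (P.lf 0 239336303 0) (P.cons (P.lf 0 260421323 0) (P.cons (P.lf 0 53429809 0) (P.cons (P.lf 15276245 0 0) (P.cons (P.lf 2840852 0 0) (P.cons (P.lf 0 211103 0) P.nil)))))) (P.cons (P.cons (P.lf 0 75567699 0) (P.cons (P.lf 17385659 0 0) (P.cons (P.lf 30663512 0 0) (P.cons (P.lf 0 4643061 0) (P.cons (P.lf 0 1276275 0) P.nil))))) (P.cons (P.cons (P.lf 114959570 0 0) (P.cons (P.lf 97732910 0 0) (P.cons (P.lf 2246111 0 0) (P.cons (P.lf 0 3352124 0) P.nil)))) (P.cons (P.cons (P.lf 32830857 0 0) (P.cons (P.lf 0 9752268 0) (P.cons (P.lf 0 5406462 0) P.nil))) (P.cons (P.cons (P.lf 0 22367409 0) (P.cons (P.lf 0 14316423 0) P.nil)) (P.cons (P.cons (P.lf 0 5368234 0) P.nil) P.nil)))))) 18363381)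
 EL.nil))
noncomputable def S256_314_512_660_12 : EL := (EL.cons 4 (TM.mk (P.cons (P.lf 0 897858742 0) (P.cons (P.lf 0 869508750 0) (P.cons (P.lf 41629830 0 0) (P.cons (P.lf 12412950 0 0) (P.cons (P.lf 0 1049171 0) (P.cons (P.lf 0 162840 0) P.nil)))))) 27209)
 (EL.cons 8 (TM.mk (P.cons (P.lf 2079676607 0 0) (P.cons (P.lf 0 133473065 0) (P.cons (P.lf 0 62522105 0) (P.cons (P.lf 4081356 0 0) (P.cons (P.lf 858201 0 0) (P.cons (P.lf 0 91532 0) P.nil)))))) 18219)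
 EL.nil))
noncomputable def S256_314_512_660_13 : EL := (EL.cons 4 (TM.mk (P.cons (P.cons (P.lf 304589130 0 0) (P.cons (P.lf 165711392 0 0) (P.cons (P.lf 0 11079076 0) (P.lf 0 3693025 0)))) (P.cons (P.cons (P.lf 352831184 0 0) (P.cons (P.lf 128573104 0 0) (P.cons (P.lf 0 8596098 0) (P.lf 0 2865365 0)))) (P.cons (P.cons (P.lf 0 28444603 0) (P.cons (P.lf 0 51479638 0) (P.cons (P.lf 3441806 0 0) (P.lf 1147268 0 0)))) (P.cons (P.cons (P.lf 0 85275390 0) (P.cons (P.lf 0 10451981 0) (P.cons (P.lf 698794 0 0) P.nil))) (P.cons (P.cons (P.lf 0 2694316 0) (P.cons (P.lf 4460643 0 0) P.nil)) (P.cons (P.cons (P.lf 6134346 0 0) P.nil) P.nil)))))) 3560875)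
 (EL.cons 8 (TM.mk (P.cons (P.cons (P.lf 0 705508406 0) (P.cons (P.lf 0 383831099 0) (P.cons (P.lf 25662052 0 0) (P.lf 8554017 0 0)))) (P.cons (P.cons (P.lf 0 88738438 0) (P.cons (P.lf 98536690 0 0) (P.cons (P.lf 0 6587931 0) (P.lf 0 2195977 0)))) (P.cons (P.cons (P.lf 192771128 0 0) (P.cons (P.lf 36670950 0 0) (P.cons (P.lf 0 2451732 0) (P.lf 0 817244 0)))) (P.cons (P.cons (P.lf 15923962 0 0) (P.cons (P.lf 0 11494227 0) (P.cons (P.lf 768475 0 0) P.nil))) (P.cons (P.cons (P.lf 0 17197366 0) (P.cons (P.lf 0 1571032 0) P.nil)) (P.cons (P.cons (P.lf 0 434905 0) P.nil) P.nil)))))) 2624469)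
 EL.nil))
noncomputable def S256_314_512_660_14 : EL := (EL.cons 4 (TM.mk (P.cons (P.cons (P.lf 0 103328657 0) (P.cons (P.lf 0 112431692 0) (P.cons (P.lf 0 23067250 0) (P.cons (P.lf 6595213 0 0) (P.cons (P.lf 1226480 0 0) (P.cons (P.lf 0 91139 0) P.nil)))))) (P.cons (P.cons (P.lf 0 139322489 0) (P.cons (P.lf 0 108591572 0) (P.cons (P.lf 0 10580990 0) (P.cons (P.lf 4805698 0 0) (P.cons (P.lf 715463 0 0) P.nil))))) (P.cons (P.cons (P.lf 10779600 0 0) (P.cons (P.lf 44326655 0 0) (P.cons (P.lf 13487032 0 0) (P.cons (P.lf 0 3187556 0) P.nil)))) (P.cons (P.cons (P.lf 61885744 0 0) (P.cons (P.lf 37658840 0 0) (P.cons (P.lf 0 1097173 0) P.nil))) (P.cons (P.cons (P.lf 6710877 0 0) (P.cons (P.lf 0 8440696 0) P.nil)) (P.cons (P.cons (P.lf 0 10746622 0) P.nil) P.nil)))))) 25078034)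
 (EL.cons 8 (TM.mk (P.cons (P.cons (P.lf 239336303 0 0) (P.cons (P.lf 260421323 0 0) (P.cons (P.lf 53429809 0 0) (P.cons (P.lf 0 15276245 0) (P.cons (P.lf 0 2840852 0) (P.cons (P.lf 211103 0 0) P.nil)))))) (P.cons (P.cons (P.lf 75567699 0 0) (P.cons (P.lf 0 17385659 0) (P.cons (P.lf 0 30663512 0) (P.cons (P.lf 4643061 0 0) (P.cons (P.lf 1276275 0 0) P.nil))))) (P.cons (P.cons (P.lf 0 114959570 0) (P.cons (P.lf 0 97732910 0) (P.cons (P.lf 0 2246111 0) (P.cons (P.lf 3352124 0 0) P.nil)))) (P.cons (P.cons (P.lf 0 32830857 0) (P.cons (P.lf 9752268 0 0) (P.cons (P.lf 5406462 0 0) P.nil))) (P.cons (P.cons (P.lf 22367409 0 0) (P.cons (P.lf 14316423 0 0) P.nil)) (P.cons (P.cons (P.lf 5368234 0 0) P.nil) P.nil)))))) 18363381)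
 EL.nil))
noncomputable def S256_314_512_660_15 : EL := (EL.cons 4 (TM.mk (P.cons (P.lf 0 200209597 0) (P.cons (P.lf 0 387775913 0) (P.cons (P.lf 0 169200214 0) (P.cons (P.lf 23515311 0 0) (P.cons (P.lf 4462718 0 0) (P.cons (P.lf 0 782419 0) P.nil)))))) 166134)
 (EL.cons 8 (TM.mk (P.cons (P.lf 463738000 0 0) (P.cons (P.lf 419332844 0 0) (P.cons (P.lf 0 64265877 0) (P.cons (P.lf 0 17622484 0) (P.cons (P.lf 2672482 0 0) (P.cons (P.lf 364787 0 0) P.nil)))))) 94488)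
 EL.nil))
noncomputable def S256_314_512_660_16 : EL := (EL.cons 4 (TM.mk (P.cons (P.cons (P.lf 67918998 0 0) (P.cons (P.lf 36951258 0 0) (P.cons (P.lf 0 2470474 0) (P.lf 0 823491 0)))) (P.cons (P.cons (P.lf 144450733 0 0) (P.cons (P.lf 64454473 0 0) (P.cons (P.lf 0 4309275 0) (P.lf 0 1436425 0)))) (P.cons (P.cons (P.lf 66700222 0 0) (P.cons (P.lf 14572207 0 0) (P.cons (P.lf 0 974264 0) (P.lf 0 324754 0)))) (P.cons (P.cons (P.lf 0 29744514 0) (P.cons (P.lf 0 15287558 0) (P.cons (P.lf 1022089 0 0) P.nil))) (P.cons (P.cons (P.lf 0 19729827 0) (P.cons (P.lf 0 1083334 0) P.nil)) (P.cons (P.cons (P.lf 1859640 0 0) P.nil) P.nil)))))) 5135703)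
 (EL.cons 8 (TM.mk (P.cons (P.cons (P.lf 0 157318237 0) (P.cons (P.lf 0 85588819 0) (P.cons (P.lf 5722268 0 0) (P.lf 1907422 0 0)))) (P.cons (P.cons (P.lf 0 172138292 0) (P.cons (P.lf 0 60914077 0) (P.cons (P.lf 4072573 0 0) (P.lf 1357524 0 0)))) (P.cons (P.cons (P.lf 31116751 0 0) (P.cons (P.lf 33423967 0 0) (P.cons (P.lf 0 2234647 0) (P.lf 0 744882 0)))) (P.cons (P.cons (P.lf 48271133 0 0) (P.cons (P.lf 5520366 0 0) (P.cons (P.lf 0 369078 0) P.nil))) (P.cons (P.cons (P.lf 0 2299374 0) (P.cons (P.lf 0 3615353 0) P.nil)) (P.cons (P.cons (P.lf 0 4621222 0) P.nil) P.nil)))))) 3207435)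
 EL.nil))
noncomputable def S256_314_512_660_17 : EL := (EL.cons 4 (TM.mk (P.cons (P.cons (P.lf 0 23040805 0) (P.cons (P.lf 0 25070651 0) (P.cons (P.lf 0 5143665 0) (P.cons (P.lf 1470637 0 0) (P.cons (P.lf 273487 0 0) (P.cons (P.lf 0 20322 0) P.nil)))))) (P.cons (P.cons (P.lf 0 53380202 0) (P.cons (P.lf 0 48493403 0) (P.cons (P.lf 0 7340662 0) (P.cons (P.lf 2495803 0 0) (P.cons (P.lf 424390 0 0) P.nil))))) (P.cons (P.cons (P.lf 0 26613973 0) (P.cons (P.lf 0 12403163 0) (P.cons (P.lf 960992 0 0) (P.cons (P.lf 258798 0 0) P.nil)))) (P.cons (P.cons (P.lf 17886409 0 0) (P.cons (P.lf 19438810 0 0) (P.cons (P.lf 2848307 0 0) P.nil))) (P.cons (P.cons (P.lf 15151464 0 0) (P.cons (P.lf 6097259 0 0) P.nil)) (P.cons (P.cons (P.lf 0 1660704 0) P.nil) P.nil)))))) 17990551)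
 (EL.cons 8 (TM.mk (P.cons (P.cons (P.lf 53368556 0 0) (P.cons (P.lf 58070212 0 0) (P.cons (P.lf 11914079 0 0) (P.cons (P.lf 0 3406383 0) (P.cons (P.lf 0 633468 0) (P.cons (P.lf 47072 0 0) P.nil)))))) (P.cons (P.cons (P.lf 68533949 0 0) (P.cons (P.lf 52359886 0 0) (P.cons (P.lf 4700368 0 0) (P.cons (P.lf 0 2263490 0) (P.cons (P.lf 0 328876 0) P.nil))))) (P.cons (P.cons (P.lf 0 11790347 0) (P.cons (P.lf 0 28239842 0) (P.cons (P.lf 0 7674881 0) (P.cons (P.lf 1908059 0 0) P.nil)))) (P.cons (P.cons (P.lf 0 33664843 0) (P.cons (P.lf 0 19553377 0) (P.cons (P.lf 872840 0 0) P.nil))) (P.cons (P.cons (P.lf 0 1084086 0) (P.cons (P.lf 6430210 0 0) P.nil)) (P.cons (P.cons (P.lf 6750365 0 0) P.nil) P.nil)))))) 16685477)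
 EL.nil))
noncomputable def S256_314_512_660_18 : EL := (EL.cons 4 (TM.mk (P.cons (P.lf 0 44643862 0) (P.cons (P.lf 0 129702684 0) (P.cons (P.lf 0 119397478 0) (P.cons (P.lf 0 26667962 0) (P.cons (P.lf 8965736 0 0) (P.cons (P.lf 958581 0 0) P.nil)))))) 467642)
 (EL.cons 8 (TM.mk (P.cons (P.lf 103406910 0 0) (P.cons (P.lf 193647023 0 0) (P.cons (P.lf 71427862 0 0) (P.cons (P.lf 0 23572483 0) (P.cons (P.lf 0 3717003 0) (P.cons (P.lf 1166783 0 0) P.nil)))))) 289701)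
 EL.nil))
noncomputable def S256_314_512_660_19 : EL := (EL.cons 4 (TM.mk (P.cons (P.cons (P.lf 15144960 0 0) (P.cons (P.lf 8239599 0 0) (P.cons (P.lf 0 550879 0) (P.lf 0 183626 0)))) (P.cons (P.cons (P.lf 46877193 0 0) (P.cons (P.lf 22351854 0 0) (P.cons (P.lf 0 1494392 0) (P.lf 0 498130 0)))) (P.cons (P.cons (P.lf 45364373 0 0) (P.cons (P.lf 16785968 0 0) (P.cons (P.lf 0 1122270 0) (P.lf 0 374089 0)))) (P.cons (P.cons (P.lf 6068130 0 0) (P.cons (P.lf 0 1042412 0) (P.cons (P.lf 69692 0 0) P.nil))) (P.cons (P.cons (P.lf 0 11939861 0) (P.cons (P.lf 0 3882569 0) P.nil)) (P.cons (P.cons (P.lf 0 3703592 0) P.nil) P.nil)))))) 5153048)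
 (EL.cons 8 (TM.mk (P.cons (P.cons (P.lf 0 35079705 0) (P.cons (P.lf 0 19085076 0) (P.cons (P.lf 1275983 0 0) (P.lf 425327 0 0)))) (P.cons (P.cons (P.lf 0 72356426 0) (P.cons (P.lf 0 32065426 0) (P.cons (P.lf 2143819 0 0) (P.lf 714606 0 0)))) (P.cons (P.cons (P.lf 0 28607291 0) (P.cons (P.lf 0 4816122 0) (P.cons (P.lf 321994 0 0) (P.lf 107331 0 0)))) (P.cons (P.cons (P.lf 19747966 0 0) (P.cons (P.lf 9342330 0 0) (P.cons (P.lf 0 624606 0) P.nil))) (P.cons (P.cons (P.lf 10079136 0 0) (P.cons (P.lf 205839 0 0) P.nil)) (P.cons (P.cons (P.lf 0 2173215 0) P.nil) P.nil)))))) 3850665)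
 EL.nil))
noncomputable def S256_314_512_660_20 : EL := (EL.cons 4 (TM.mk (P.cons (P.cons (P.lf 0 5137768 0) (P.cons (P.lf 0 5590395 0) (P.cons (P.lf 0 1146962 0) (P.cons (P.lf 327930 0 0) (P.cons (P.lf 60983 0 0) (P.cons (P.lf 0 4530 0) P.nil)))))) (P.cons (P.cons (P.lf 0 16878560 0) (P.cons (P.lf 0 16227209 0) (P.cons (P.lf 0 2747610 0) (P.cons (P.lf 874104 0 0) (P.cons (P.lf 153690 0 0) P.nil))))) (P.cons (P.cons (P.lf 0 17223495 0) (P.cons (P.lf 0 12978424 0) (P.cons (P.lf 0 1317710 0) (P.cons (P.lf 581459 0 0) P.nil)))) (P.cons (P.cons (P.lf 0 1135815 0) (P.cons (P.lf 2234831 0 0) (P.cons (P.lf 934404 0 0) P.nil))) (P.cons (P.cons (P.lf 7674750 0 0) (P.cons (P.lf 5828508 0 0) P.nil)) (P.cons (P.cons (P.lf 2783846 0 0) P.nil) P.nil)))))) 11941318)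
 (EL.cons 8 (TM.mk (P.cons (P.cons (P.lf 11900420 0 0) (P.cons (P.lf 12948822 0 0) (P.cons (P.lf 2656668 0 0) (P.cons (P.lf 0 759574 0) (P.cons (P.lf 0 141254 0) (P.cons (P.lf 10496 0 0) P.nil)))))) (P.cons (P.cons (P.lf 26806749 0 0) (P.cons (P.lf 24215464 0 0) (P.cons (P.lf 3620898 0 0) (P.cons (P.lf 0 1240316 0) (P.cons (P.lf 0 210129 0) P.nil))))) (P.cons (P.cons (P.lf 11618703 0 0) (P.cons (P.lf 4409386 0 0) (P.cons (P.lf 0 819545 0) (P.cons (P.lf 0 28100 0) P.nil)))) (P.cons (P.cons (P.lf 0 10925929 0) (P.cons (P.lf 0 11178730 0) (P.cons (P.lf 0 1548045 0) P.nil))) (P.cons (P.cons (P.lf 0 7586955 0) (P.cons (P.lf 0 2642921 0) P.nil)) (P.cons (P.cons (P.lf 1675551 0 0) P.nil) P.nil)))))) 11468617)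
 EL.nil))
noncomputable def S256_314_512_660_21 : EL := (EL.cons 4 (TM.mk (P.cons (P.cons (P.lf 901522914 0 0) (P.cons (P.lf 0 497134176 0) (P.cons (P.lf 33237228 0 0) (P.lf 11079075 0 0)))) (P.cons (P.cons (P.lf 0 2221821288 0) (P.cons (P.lf 0 385719312 0) (P.cons (P.lf 25788294 0 0) (P.lf 8596095 0 0)))) (P.cons (P.cons (P.lf 0 422266830 0) (P.cons (P.lf 154438914 0 0) (P.cons (P.lf 0 10325418 0) (P.lf 0 3441804 0)))) (P.cons (P.cons (P.lf 326372106 0 0) (P.cons (P.lf 31355943 0 0) (P.cons (P.lf 0 2096382 0) P.nil))) (P.cons (P.cons (P.lf 21471099 0 0) (P.cons (P.lf 0 13381929 0) P.nil)) (P.cons (P.cons (P.lf 0 20750295 0) P.nil) P.nil)))))) 11188239)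
 (EL.cons 8 (TM.mk (P.cons (P.cons (P.lf 138387357 0 0) (P.cons (P.lf 0 76312089 0) (P.cons (P.lf 5102055 0 0) (P.lf 1700685 0 0)))) (P.cons (P.cons (P.lf 0 198159009 0) (P.cons (P.lf 0 138009657 0) (P.cons (P.lf 9226998 0 0) (P.lf 3075666 0 0)))) (P.cons (P.cons (P.lf 0 410082939 0) (P.cons (P.lf 0 41246271 0) (P.cons (P.lf 2757624 0 0) (P.lf 919209 0 0)))) (P.cons (P.cons (P.lf 0 31321263 0) (P.cons (P.lf 24925557 0 0) (P.cons (P.lf 0 1666458 0) P.nil))) (P.cons (P.cons (P.lf 45688794 0 0) (P.cons (P.lf 2899356 0 0) P.nil)) (P.cons (P.cons (P.lf 1089696 0 0) P.nil) P.nil)))))) 8888706)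
 (EL.cons 11 (TM.mk (P.cons (P.cons (P.lf 2802119268 0 0) (P.cons (P.lf 0 433838430 0) (P.cons (P.lf 0 209009673 0) (P.cons (P.lf 7909539 0 0) (P.lf 1977384 0 0))))) (P.cons (P.cons (P.lf 0 359678463 0) (P.cons (P.lf 55687257 0 0) (P.cons (P.lf 26828364 0 0) (P.cons (P.lf 0 1015263 0) (P.lf 0 253815 0))))) (P.cons (P.cons (P.lf 0 156940308 0) (P.cons (P.lf 24298299 0 0) (P.cons (P.lf 11706153 0 0) (P.cons (P.lf 0 442995 0) P.nil)))) (P.cons (P.cons (P.lf 21811440 0 0) (P.cons (P.lf 0 3376959 0) (P.cons (P.lf 0 1626912 0) P.nil))) (P.cons (P.cons (P.lf 4139352 0 0) (P.cons (P.lf 0 640875 0) P.nil)) (P.cons (P.cons (P.lf 0 725724 0) P.nil) P.nil)))))) 881241)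
 EL.nil)))
noncomputable def S256_314_512_660_22 : EL := (EL.cons 4 (TM.mk (P.cons (P.cons (P.lf 0 305832162 0) (P.cons (P.lf 2259873 0 0) (P.cons (P.lf 91601424 0 0) (P.cons (P.lf 0 12319080 0) (P.cons (P.lf 0 3679443 0) (P.cons (P.lf 273417 0 0) P.nil)))))) (P.cons (P.cons (P.lf 695633877 0 0) (P.cons (P.lf 604989231 0 0) (P.cons (P.lf 13075344 0 0) (P.cons (P.lf 0 20639637 0) (P.cons (P.lf 0 2146389 0) P.nil))))) (P.cons (P.cons (P.lf 357069195 0 0) (P.cons (P.lf 0 54558459 0) (P.cons (P.lf 0 45704178 0) (P.cons (P.lf 7814973 0 0) P.nil)))) (P.cons (P.cons (P.lf 0 247314567 0) (P.cons (P.lf 0 166508433 0) (P.cons (P.lf 6870534 0 0) P.nil))) (P.cons (P.cons (P.lf 0 91195158 0) (P.cons (P.lf 20813703 0 0) P.nil)) (P.cons (P.cons (P.lf 37037253 0 0) P.nil) P.nil)))))) 76012050)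
 (EL.cons 8 (TM.mk (P.cons (P.cons (P.lf 0 46946454 0) (P.cons (P.lf 346902 0 0) (P.cons (P.lf 14061183 0 0) (P.cons (P.lf 0 1891029 0) (P.cons (P.lf 0 564807 0) (P.cons (P.lf 41970 0 0) P.nil)))))) (P.cons (P.cons (P.lf 58305450 0 0) (P.cons (P.lf 93226470 0 0) (P.cons (P.lf 16526760 0 0) (P.cons (P.lf 0 5120949 0) (P.cons (P.lf 0 912702 0) P.nil))))) (P.cons (P.cons (P.lf 162729810 0 0) (P.cons (P.lf 87538584 0 0) (P.cons (P.lf 0 4240575 0) (P.cons (P.lf 0 2166429 0) P.nil)))) (P.cons (P.cons (P.lf 23104026 0 0) (P.cons (P.lf 0 29560683 0) (P.cons (P.lf 0 5829957 0) P.nil))) (P.cons (P.cons (P.lf 0 48556419 0) (P.cons (P.lf 0 21901449 0) P.nil)) (P.cons (P.cons (P.lf 0 9519963 0) P.nil) P.nil)))))) 33362298)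
 (EL.cons 11 (TM.mk (P.cons (P.cons (P.lf 0 950589477 0) (P.cons (P.lf 0 369992073 0) (P.cons (P.lf 185551395 0 0) (P.cons (P.lf 42064404 0 0) (P.cons (P.lf 0 6494118 0) (P.cons (P.lf 0 1127040 0) P.nil)))))) (P.cons (P.cons (P.lf 0 58556025 0) (P.cons (P.lf 175024173 0 0) (P.cons (P.lf 0 32422392 0) (P.cons (P.lf 0 14524737 0) (P.cons (P.lf 1827369 0 0) P.nil))))) (P.cons (P.cons (P.lf 295987938 0 0) (P.cons (P.lf 10610289 0 0) (P.cons (P.lf 0 34588728 0) (P.cons (P.lf 0 4047666 0) P.nil)))) (P.cons (P.cons (P.lf 6514842 0 0) (P.cons (P.lf 0 24673233 0) (P.cons (P.lf 4760082 0 0) P.nil))) (P.cons (P.cons (P.lf 0 32983911 0) (P.cons (P.lf 2545629 0 0) P.nil)) (P.cons (P.cons (P.lf 758349 0 0) P.nil) P.nil)))))) 17788791)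
 EL.nil)))
noncomputable def S256_314_512_660_23 : EL := (EL.cons 4 (TM.mk (P.cons (P.cons (P.lf 201026655 0 0) (P.cons (P.lf 0 110853777 0) (P.cons (P.lf 7411422 0 0) (P.lf 2470473 0 0)))) (P.cons (P.cons (P.lf 0 300755004 0) (P.cons (P.lf 0 193363419 0) (P.cons (P.lf 12927825 0 0) (P.lf 4309272 0 0)))) (P.cons (P.cons (P.lf 0 583271001 0) (P.cons (P.lf 0 43716621 0) (P.cons (P.lf 2922792 0 0) (P.lf 974262 0 0)))) (P.cons (P.cons (P.lf 1781886 0 0) (P.cons (P.lf 45862674 0 0) (P.cons (P.lf 0 3066267 0) P.nil))) (P.cons (P.cons (P.lf 86716194 0 0) (P.cons (P.lf 3250005 0 0) P.nil)) (P.cons (P.cons (P.lf 0 2605473 0) P.nil) P.nil)))))) 17309391)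
 (EL.cons 8 (TM.mk (P.cons (P.cons (P.lf 30858390 0 0) (P.cons (P.lf 0 17016498 0) (P.cons (P.lf 1137684 0 0) (P.lf 379227 0 0)))) (P.cons (P.cons (P.lf 0 14302575 0) (P.cons (P.lf 0 47253369 0) (P.cons (P.lf 3159249 0 0) (P.lf 1053081 0 0)))) (P.cons (P.cons (P.lf 0 135664785 0) (P.cons (P.lf 0 38210814 0) (P.cons (P.lf 2554683 0 0) (P.lf 851559 0 0)))) (P.cons (P.cons (P.lf 0 93917358 0) (P.cons (P.lf 0 1686756 0) (P.cons (P.lf 112773 0 0) P.nil))) (P.cons (P.cons (P.lf 8311017 0 0) (P.cons (P.lf 6861069 0 0) P.nil)) (P.cons (P.cons (P.lf 11651235 0 0) P.nil) P.nil)))))) 7050480)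
 (EL.cons 11 (TM.mk (P.cons (P.cons (P.lf 624832332 0 0) (P.cons (P.lf 0 96739734 0) (P.cons (P.lf 0 46606152 0) (P.cons (P.lf 1763712 0 0) (P.lf 440928 0 0))))) (P.cons (P.cons (P.lf 524900049 0 0) (P.cons (P.lf 0 81267708 0) (P.cons (P.lf 0 39152217 0) (P.cons (P.lf 1481634 0 0) (P.lf 370407 0 0))))) (P.cons (P.cons (P.lf 0 141636912 0) (P.cons (P.lf 21928950 0 0) (P.cons (P.lf 10564674 0 0) (P.cons (P.lf 0 399798 0) P.nil)))) (P.cons (P.cons (P.lf 0 33946482 0) (P.cons (P.lf 5255766 0 0) (P.cons (P.lf 2532060 0 0) P.nil))) (P.cons (P.cons (P.lf 9094614 0 0) (P.cons (P.lf 0 1408074 0) P.nil)) (P.cons (P.cons (P.lf 1009956 0 0) P.nil) P.nil)))))) 2011800)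
 EL.nil)))
noncomputable def S256_314_512_660_24 : EL := (EL.cons 4 (TM.mk (P.cons (P.cons (P.lf 0 68196177 0) (P.cons (P.lf 503919 0 0) (P.cons (P.lf 20425800 0 0) (P.cons (P.lf 0 2746977 0) (P.cons (P.lf 0 820461 0) (P.cons (P.lf 60966 0 0) P.nil)))))) (P.cons (P.cons (P.lf 89073483 0 0) (P.cons (P.lf 135391911 0 0) (P.cons (P.lf 22696467 0 0) (P.cons (P.lf 0 7262583 0) (P.cons (P.lf 0 1273170 0) P.nil))))) (P.cons (P.cons (P.lf 233001804 0 0) (P.cons (P.lf 118455180 0 0) (P.cons (P.lf 0 8314875 0) (P.cons (P.lf 0 2587029 0) P.nil)))) (P.cons (P.cons (P.lf 15710394 0 0) (P.cons (P.lf 0 55172481 0) (P.cons (P.lf 0 8755122 0) P.nil))) (P.cons (P.cons (P.lf 0 79657389 0) (P.cons (P.lf 0 32615871 0) P.nil)) (P.cons (P.cons (P.lf 0 9809271 0) P.nil) P.nil)))))) 60863118)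
 (EL.cons 8 (TM.mk (P.cons (P.cons (P.lf 0 10468383 0) (P.cons (P.lf 77352 0 0) (P.cons (P.lf 3135441 0 0) (P.cons (P.lf 0 421671 0) (P.cons (P.lf 0 125943 0) (P.cons (P.lf 9357 0 0) P.nil)))))) (P.cons (P.cons (P.lf 2863431 0 0) (P.cons (P.lf 20863074 0 0) (P.cons (P.lf 6721668 0 0) (P.cons (P.lf 0 1550256 0) (P.cons (P.lf 0 325485 0) P.nil))))) (P.cons (P.cons (P.lf 49362543 0 0) (P.cons (P.lf 39648033 0 0) (P.cons (P.lf 2477904 0 0) (P.cons (P.lf 0 1569372 0) P.nil)))) (P.cons (P.cons (P.lf 39834441 0 0) (P.cons (P.lf 11346969 0 0) (P.cons (P.lf 0 2429943 0) P.nil))) (P.cons (P.cons (P.lf 0 7712607 0) (P.cons (P.lf 0 12459543 0) P.nil)) (P.cons (P.cons (P.lf 0 13335561 0) P.nil) P.nil)))))) 20622462)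
 (EL.cons 11 (TM.mk (P.cons (P.cons (P.lf 0 211967793 0) (P.cons (P.lf 0 82502913 0) (P.cons (P.lf 41375292 0 0) (P.cons (P.lf 9379755 0 0) (P.cons (P.lf 0 1448094 0) (P.cons (P.lf 0 251313 0) P.nil)))))) (P.cons (P.cons (P.lf 0 218332038 0) (P.cons (P.lf 0 40869999 0) (P.cons (P.lf 32839137 0 0) (P.cons (P.lf 5844780 0 0) (P.cons (P.lf 0 994893 0) P.nil))))) (P.cons (P.cons (P.lf 63184215 0 0) (P.cons (P.lf 43986810 0 0) (P.cons (P.lf 0 16632630 0) (P.cons (P.lf 0 4474011 0) P.nil)))) (P.cons (P.cons (P.lf 68905653 0 0) (P.cons (P.lf 0 3879483 0) (P.cons (P.lf 0 6644631 0) P.nil))) (P.cons (P.cons (P.lf 0 9075447 0) (P.cons (P.lf 0 5506086 0) P.nil)) (P.cons (P.cons (P.lf 0 7987128 0) P.nil) P.nil)))))) 16049916)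
 EL.nil)))
noncomputable def S256_314_512_660_25 : EL := (EL.cons 4 (TM.mk (P.cons (P.cons (P.lf 44826054 0 0) (P.cons (P.lf 0 24718797 0) (P.cons (P.lf 1652640 0 0) (P.lf 550878 0 0)))) (P.cons (P.cons (P.lf 0 23653374 0) (P.cons (P.lf 0 67055562 0) (P.cons (P.lf 4483176 0 0) (P.lf 1494390 0 0)))) (P.cons (P.cons (P.lf 0 197085930 0) (P.cons (P.lf 0 50357904 0) (P.cons (P.lf 3366810 0 0) (P.lf 1122270 0 0)))) (P.cons (P.cons (P.lf 0 123067275 0) (P.cons (P.lf 3127236 0 0) (P.cons (P.lf 0 209076 0) P.nil))) (P.cons (P.cons (P.lf 26731167 0 0) (P.cons (P.lf 11647707 0 0) P.nil)) (P.cons (P.cons (P.lf 19854372 0 0) P.nil) P.nil)))))) 17014473)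
 (EL.cons 8 (TM.mk (P.cons (P.cons (P.lf 6880977 0 0) (P.cons (P.lf 0 3794433 0) (P.cons (P.lf 253686 0 0) (P.lf 84561 0 0)))) (P.cons (P.cons (P.lf 3474441 0 0) (P.cons (P.lf 0 14211447 0) (P.cons (P.lf 950142 0 0) (P.lf 316713 0 0)))) (P.cons (P.cons (P.lf 0 33658905 0) (P.cons (P.lf 0 18548652 0) (P.cons (P.lf 1240119 0 0) (P.lf 413373 0 0)))) (P.cons (P.cons (P.lf 0 50185587 0) (P.cons (P.lf 0 8086545 0) (P.cons (P.lf 540645 0 0) P.nil))) (P.cons (P.cons (P.lf 0 16972974 0) (P.cons (P.lf 1701966 0 0) P.nil)) (P.cons (P.cons (P.lf 5779527 0 0) P.nil) P.nil)))))) 7867383)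
 (EL.cons 11 (TM.mk (P.cons (P.cons (P.lf 139328631 0 0) (P.cons (P.lf 0 21571569 0) (P.cons (P.lf 0 10392501 0) (P.cons (P.lf 393282 0 0) (P.lf 98319 0 0))))) (P.cons (P.cons (P.lf 251974482 0 0) (P.cons (P.lf 0 39011976 0) (P.cons (P.lf 0 18794739 0) (P.cons (P.lf 711246 0 0) (P.lf 177810 0 0))))) (P.cons (P.cons (P.lf 75306390 0 0) (P.cons (P.lf 0 11659320 0) (P.cons (P.lf 0 5617092 0) (P.cons (P.lf 212565 0 0) P.nil)))) (P.cons (P.cons (P.lf 0 45508440 0) (P.cons (P.lf 7045848 0 0) (P.cons (P.lf 3394467 0 0) P.nil))) (P.cons (P.cons (P.lf 0 5293578 0) (P.cons (P.lf 819576 0 0) P.nil)) (P.cons (P.cons (P.lf 3138783 0 0) P.nil) P.nil)))))) 3252183)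
 EL.nil)))
noncomputable def S256_314_512_660_26 : EL := (EL.cons 4 (TM.mk (P.cons (P.cons (P.lf 0 15206766 0) (P.cons (P.lf 112365 0 0) (P.cons (P.lf 4554660 0 0) (P.cons (P.lf 0 612534 0) (P.cons (P.lf 0 182949 0) (P.cons (P.lf 13593 0 0) P.nil)))))) (P.cons (P.cons (P.lf 5135493 0 0) (P.cons (P.lf 30299268 0 0) (P.cons (P.lf 9471831 0 0) (P.cons (P.lf 0 2212647 0) (P.cons (P.lf 0 461073 0) P.nil))))) (P.cons (P.cons (P.lf 71896083 0 0) (P.cons (P.lf 55645776 0 0) (P.cons (P.lf 2835906 0 0) (P.cons (P.lf 0 2116785 0) P.nil)))) (P.cons (P.cons (P.lf 53108040 0 0) (P.cons (P.lf 11875758 0 0) (P.cons (P.lf 0 4045443 0) P.nil))) (P.cons (P.cons (P.lf 0 17071215 0) (P.cons (P.lf 0 20829030 0) P.nil)) (P.cons (P.cons (P.lf 0 20249199 0) P.nil) P.nil)))))) 39165885)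
 (EL.cons 8 (TM.mk (P.cons (P.cons (P.lf 0 2334297 0) (P.cons (P.lf 17247 0 0) (P.cons (P.lf 699156 0 0) (P.cons (P.lf 0 94026 0) (P.cons (P.lf 0 28083 0) (P.cons (P.lf 2085 0 0) P.nil)))))) (P.cons (P.cons (P.lf 0 1622088 0) (P.cons (P.lf 4668870 0 0) (P.cons (P.lf 2175918 0 0) (P.cons (P.lf 0 436740 0) (P.cons (P.lf 0 99774 0) P.nil))))) (P.cons (P.cons (P.lf 11733711 0 0) (P.cons (P.lf 13345413 0 0) (P.cons (P.lf 1971630 0 0) (P.cons (P.lf 0 680358 0) P.nil)))) (P.cons (P.cons (P.lf 19544760 0 0) (P.cons (P.lf 10876059 0 0) (P.cons (P.lf 0 85911 0) P.nil))) (P.cons (P.cons (P.lf 6360330 0 0) (P.cons (P.lf 0 802191 0) P.nil)) (P.cons (P.cons (P.lf 0 5202831 0) P.nil) P.nil)))))) 15348135)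
 (EL.cons 11 (TM.mk (P.cons (P.cons (P.lf 0 47265771 0) (P.cons (P.lf 0 18396963 0) (P.cons (P.lf 9226095 0 0) (P.cons (P.lf 2091549 0 0) (P.cons (P.lf 0 322902 0) (P.cons (P.lf 0 56037 0) P.nil)))))) (P.cons (P.cons (P.lf 0 94458255 0) (P.cons (P.lf 0 26929500 0) (P.cons (P.lf 16257435 0 0) (P.cons (P.lf 3328812 0 0) (P.cons (P.lf 0 534555 0) P.nil))))) (P.cons (P.cons (P.lf 0 30866991 0) (P.cons (P.lf 1835748 0 0) (P.cons (P.lf 2954829 0 0) (P.cons (P.lf 167532 0 0) P.nil)))) (P.cons (P.cons (P.lf 31920036 0 0) (P.cons (P.lf 9310542 0 0) (P.cons (P.lf 0 5540457 0) P.nil))) (P.cons (P.cons (P.lf 12820710 0 0) (P.cons (P.lf 0 2415810 0) P.nil)) (P.cons (P.cons (P.lf 0 4713462 0) P.nil) P.nil)))))) 14021895)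
 EL.nil)))
noncomputable def S256_314_512_660_27 : EL := (EL.cons 13 (TM.mk (P.lf 0 4294967296 0) 0)
 EL.nil)
noncomputable def S256_314_512_660_28 : EL := (EL.cons 13 (TM.mk (P.cons (P.cons (P.lf 1457022464 0 0) (P.cons (P.lf 792691524 0 0) (P.cons (P.lf 0 52997508 0) (P.lf 0 17665836 0)))) (P.cons (P.cons (P.lf 276774736 0 0) (P.cons (P.lf 0 152624160 0) (P.cons (P.lf 10204092 0 0) (P.lf 3401364 0 0)))) (P.cons (P.cons (P.lf 0 336546367 0) (P.cons (P.lf 0 61697576 0) (P.cons (P.lf 4124952 0 0) (P.lf 1374984 0 0)))) (P.cons (P.cons (P.lf 0 49024382 0) (P.cons (P.lf 13634200 0 0) (P.cons (P.lf 0 911548 0) P.nil))) (P.cons (P.cons (P.lf 21107643 0 0) (P.cons (P.lf 2237124 0 0) P.nil)) (P.cons (P.cons (P.lf 1389399 0 0) P.nil) P.nil)))))) 2568712)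
 EL.nil)
noncomputable def S256_314_512_660_29 : EL := (EL.cons 13 (TM.mk (P.cons (P.cons (P.lf 0 494279540 0) (P.cons (P.lf 0 537824517 0) (P.cons (P.lf 0 110343734 0) (P.cons (P.lf 31548643 0 0) (P.cons (P.lf 5866955 0 0) (P.cons (P.lf 0 435973 0) P.nil)))))) (P.cons (P.cons (P.lf 0 187785833 0) (P.cons (P.lf 1387597 0 0) (P.cons (P.lf 56244739 0 0) (P.cons (P.lf 0 7564110 0) (P.cons (P.lf 0 2259236 0) P.nil))))) (P.cons (P.cons (P.lf 210503809 0 0) (P.cons (P.lf 185759141 0 0) (P.cons (P.lf 4931156 0 0) (P.cons (P.lf 0 6459843 0) P.nil)))) (P.cons (P.cons (P.lf 76637211 0 0) (P.cons (P.lf 0 7121311 0) (P.cons (P.lf 0 8941540 0) P.nil))) (P.cons (P.cons (P.lf 0 34373872 0) (P.cons (P.lf 0 24219691 0) P.nil)) (P.cons (P.cons (P.lf 0 11346035 0) P.nil) P.nil)))))) 27126553)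
 EL.nil)
noncomputable def S256_314_512_660_30 : EL := (EL.cons 13 (TM.mk (P.cons (P.lf 0 957715992 0) (P.cons (P.lf 0 927476000 0) (P.cons (P.lf 44405152 0 0) (P.cons (P.lf 13240480 0 0) (P.cons (P.lf 0 1119116 0) (P.cons (P.lf 0 173696 0) P.nil)))))) 29016)
 EL.nil)
noncomputable def S256_314_512_660_31 : EL := (EL.cons 13 (TM.mk (P.cons (P.cons (P.lf 324895073 0 0) (P.cons (P.lf 176758819 0 0) (P.cons (P.lf 0 11817682 0) (P.lf 0 3939227 0)))) (P.cons (P.cons (P.lf 376353263 0 0) (P.cons (P.lf 137144645 0 0) (P.cons (P.lf 0 9169172 0) (P.lf 0 3056390 0)))) (P.cons (P.cons (P.lf 0 30340910 0) (P.cons (P.lf 0 54911614 0) (P.cons (P.lf 3671260 0 0) (P.lf 1223753 0 0)))) (P.cons (P.cons (P.lf 0 90960416 0) (P.cons (P.lf 0 11148780 0) (P.cons (P.lf 745381 0 0) P.nil))) (P.cons (P.cons (P.lf 0 2873938 0) (P.cons (P.lf 4758020 0 0) P.nil)) (P.cons (P.cons (P.lf 6543303 0 0)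 P.nil) P.nil)))))) 3798247)
 EL.nil)
noncomputable def S256_314_512_660_32 : EL := (EL.cons 13 (TM.mk (P.cons (P.cons (P.lf 0 110217235 0) (P.cons (P.lf 0 119927139 0) (P.cons (P.lf 0 24605067 0) (P.cons (P.lf 7034894 0 0) (P.cons (P.lf 1308246 0 0) (P.cons (P.lf 0 97215 0) P.nil)))))) (P.cons (P.cons (P.lf 0 148610655 0) (P.cons (P.lf 0 115831011 0) (P.cons (P.lf 0 11286390 0) (P.cons (P.lf 5126078 0 0) (P.cons (P.lf 763161 0 0) P.nil))))) (P.cons (P.cons (P.lf 11498241 0 0) (P.cons (P.lf 47281766 0 0) (P.cons (P.lf 14386168 0 0) (P.cons (P.lf 0 3400060 0) P.nil)))) (P.cons (P.cons (P.lf 66011461 0 0) (P.cons (P.lf 40169430 0 0) (P.cons (P.lf 0 1170318 0) P.nil))) (P.cons (P.cons (P.lf 7158269 0 0) (P.cons (P.lf 0 9003410 0) P.nil)) (P.cons (P.cons (P.lf 0 11463064 0) P.nil) P.nil)))))) 26749880)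
 EL.nil)
noncomputable def S256_314_512_660_33 : EL := (EL.cons 14 (TM.mk (P.lf 8589934592 0 0) 0)
 EL.nil)
noncomputable def S256_314_512_660_34 : EL := (EL.cons 14 (TM.mk (P.cons (P.cons (P.lf 0 2914044928 0) (P.cons (P.lf 0 1585383048 0) (P.cons (P.lf 105995016 0 0) (P.lf 35331672 0 0)))) (P.cons (P.cons (P.lf 0 553549472 0) (P.cons (P.lf 305248320 0 0) (P.cons (P.lf 0 20408184 0) (P.lf 0 6802728 0)))) (P.cons (P.cons (P.lf 673092734 0 0) (P.cons (P.lf 123395152 0 0) (P.cons (P.lf 0 8249904 0) (P.lf 0 2749968 0)))) (P.cons (P.cons (P.lf 98048764 0 0) (P.cons (P.lf 0 27268400 0) (P.cons (P.lf 1823096 0 0) P.nil))) (P.cons (P.cons (P.lf 0 42215286 0) (P.cons (P.lf 0 4474248 0) P.nil)) (P.cons (P.cons (P.lf 0 2778798 0) P.nil) P.nil)))))) 5137424)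
 EL.nil)
noncomputable def S256_314_512_660_35 : EL := (EL.cons 14 (TM.mk (P.cons (P.cons (P.lf 988559080 0 0) (P.cons (P.lf 1075649034 0 0) (P.cons (P.lf 220687468 0 0) (P.cons (P.lf 0 63097286 0) (P.cons (P.lf 0 11733910 0) (P.cons (P.lf 871946 0 0) P.nil)))))) (P.cons (P.cons (P.lf 375571666 0 0) (P.cons (P.lf 0 2775194 0) (P.cons (P.lf 0 112489478 0) (P.cons (P.lf 15128220 0 0) (P.cons (P.lf 4518472 0 0) P.nil))))) (P.cons (P.cons (P.lf 0 421007618 0) (P.cons (P.lf 0 371518282 0) (P.cons (P.lf 0 9862312 0) (P.cons (P.lf 12919686 0 0) P.nil)))) (P.cons (P.cons (P.lf 0 153274422 0) (P.cons (P.lf 14242622 0 0) (P.cons (P.lf 17883080 0 0) P.nil))) (P.cons (P.cons (P.lf 68747744 0 0) (P.cons (P.lf 48439382 0 0) P.nil)) (P.cons (P.cons (P.lf 22692070 0 0) P.nil) P.nil)))))) 54253106)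
 EL.nil)
noncomputable def S256_314_512_660_36 : EL := (EL.cons 14 (TM.mk (P.cons (P.lf 1915431984 0 0) (P.cons (P.lf 1854952000 0 0) (P.cons (P.lf 0 88810304 0) (P.cons (P.lf 0 26480960 0) (P.cons (P.lf 2238232 0 0) (P.cons (P.lf 347392 0 0) P.nil)))))) 58032)
 EL.nil)
noncomputable def S256_314_512_660_37 : EL := (EL.cons 14 (TM.mk (P.cons (P.cons (P.lf 0 649790146 0) (P.cons (P.lf 0 353517638 0) (P.cons (P.lf 23635364 0 0) (P.lf 7878454 0 0)))) (P.cons (P.cons (P.lf 0 752706526 0) (P.cons (P.lf 0 274289290 0) (P.cons (P.lf 18338344 0 0) (P.lf 6112780 0 0)))) (P.cons (P.cons (P.lf 60681820 0 0) (P.cons (P.lf 109823228 0 0) (P.cons (P.lf 0 7342520 0) (P.lf 0 2447506 0)))) (P.cons (P.cons (P.lf 181920832 0 0) (P.cons (P.lf 22297560 0 0) (P.cons (P.lf 0 1490762 0) P.nil))) (P.cons (P.cons (P.lf 5747876 0 0) (P.cons (P.lf 0 9516040 0) P.nil)) (P.cons (P.cons (P.lf 0 13086606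 0) P.nil) P.nil)))))) 7596494)
 EL.nil)
noncomputable def S256_314_512_660_38 : EL := (EL.cons 14 (TM.mk (P.cons (P.cons (P.lf 220434470 0 0) (P.cons (P.lf 239854278 0 0) (P.cons (P.lf 49210134 0 0) (P.cons (P.lf 0 14069788 0) (P.cons (P.lf 0 2616492 0) (P.cons (P.lf 194430 0 0) P.nil)))))) (P.cons (P.cons (P.lf 297221310 0 0) (P.cons (P.lf 231662022 0 0) (P.cons (P.lf 22572780 0 0) (P.cons (P.lf 0 10252156 0) (P.cons (P.lf 0 1526322 0) P.nil))))) (P.cons (P.cons (P.lf 0 22996482 0) (P.cons (P.lf 0 94563532 0) (P.cons (P.lf 0 28772336 0) (P.cons (P.lf 6800120 0 0) P.nil)))) (P.cons (P.cons (P.lf 0 132022922 0) (P.cons (P.lf 0 80338860 0) (P.cons (P.lf 2340636 0 0) P.nil))) (P.cons (P.cons (P.lf 0 14316538 0) (P.cons (P.lf 18006820 0 0) P.nil)) (P.cons (P.cons (P.lf 22926128 0 0) P.nil) P.nil)))))) 53499760)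
 EL.nil)
noncomputable def S256_314_512_660_39 : EL := (EL.cons 14 (TM.mk (P.cons (P.lf 427113808 0 0) (P.cons (P.lf 827255282 0 0) (P.cons (P.lf 360960458 0 0) (P.cons (P.lf 0 50165998 0) (P.cons (P.lf 0 9520466 0) (P.cons (P.lf 1669162 0 0) P.nil)))))) 354406)
 EL.nil)
noncomputable def S256_314_512_660_40 : EL := (EL.cons 14 (TM.mk (P.cons (P.cons (P.lf 0 144893864 0) (P.cons (P.lf 0 78829352 0) (P.cons (P.lf 5270346 0 0) (P.lf 1756782 0 0)))) (P.cons (P.cons (P.lf 0 308161564 0) (P.cons (P.lf 0 137502876 0) (P.cons (P.lf 9193122 0 0) (P.lf 3064374 0 0)))) (P.cons (P.cons (P.lf 0 142293808 0) (P.cons (P.lf 0 31087376 0) (P.cons (P.lf 2078430 0 0) (P.lf 692810 0 0)))) (P.cons (P.cons (P.lf 63454964 0 0) (P.cons (P.lf 32613458 0 0) (P.cons (P.lf 0 2180458 0) P.nil))) (P.cons (P.cons (P.lf 42090298 0 0) (P.cons (P.lf 2311114 0 0) P.nil)) (P.cons (P.cons (P.lf 0 3967234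 0) P.nil) P.nil)))))) 10956126)
 EL.nil)
noncomputable def S256_314_512_660_41 : EL := (EL.cons 14 (TM.mk (P.cons (P.cons (P.lf 49153718 0 0) (P.cons (P.lf 53484056 0 0) (P.cons (P.lf 10973152 0 0) (P.cons (P.lf 0 3137360 0) (P.cons (P.lf 0 583440 0) (P.cons (P.lf 43354 0 0) P.nil)))))) (P.cons (P.cons (P.lf 113877766 0 0) (P.cons (P.lf 103452594 0 0) (P.cons (P.lf 15660080 0 0) (P.cons (P.lf 0 5324380 0) (P.cons (P.lf 0 905366 0) P.nil))))) (P.cons (P.cons (P.lf 56776476 0 0) (P.cons (P.lf 26460082 0 0) (P.cons (P.lf 0 2050118 0) (P.cons (P.lf 0 552104 0) P.nil)))) (P.cons (P.cons (P.lf 0 38157674 0) (P.cons (P.lf 0 41469462 0) (P.cons (P.lf 0 6076390 0) P.nil))) (P.cons (P.cons (P.lf 0 32323124 0) (P.cons (P.lf 0 13007486 0) P.nil)) (P.cons (P.cons (P.lf 3542836 0 0) P.nil) P.nil)))))) 38379796)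
 EL.nil)
noncomputable def S256_314_512_660_42 : EL := (EL.cons 14 (TM.mk (P.cons (P.lf 95240240 0 0) (P.cons (P.lf 276699060 0 0) (P.cons (P.lf 254714620 0 0) (P.cons (P.lf 56891654 0 0) (P.cons (P.lf 0 19126904 0) (P.cons (P.lf 0 2044974 0) P.nil)))))) 997622)
 EL.nil)
noncomputable def S256_314_512_660_43 : EL := (EL.cons 14 (TM.mk (P.cons (P.cons (P.lf 0 32309248 0) (P.cons (P.lf 0 17577812 0) (P.cons (P.lf 1175210 0 0) (P.lf 391736 0 0)))) (P.cons (P.cons (P.lf 0 100004680 0) (P.cons (P.lf 0 47683956 0) (P.cons (P.lf 3188038 0 0) (P.lf 1062678 0 0)))) (P.cons (P.cons (P.lf 0 96777330 0) (P.cons (P.lf 0 35810066 0) (P.cons (P.lf 2394176 0 0) (P.lf 798058 0 0)))) (P.cons (P.cons (P.lf 0 12945344 0) (P.cons (P.lf 2223814 0 0) (P.cons (P.lf 0 148678 0) P.nil))) (P.cons (P.cons (P.lf 25471704 0 0) (P.cons (P.lf 8282814 0 0) P.nil)) (P.cons (P.cons (P.lf 7900998 0 0) P.nil)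 P.nil)))))) 10993130)
 EL.nil)
noncomputable def S256_314_512_660_44 : EL := (EL.cons 14 (TM.mk (P.cons (P.cons (P.lf 10960572 0 0) (P.cons (P.lf 11926176 0 0) (P.cons (P.lf 2446854 0 0) (P.cons (P.lf 0 699586 0) (P.cons (P.lf 0 130098 0) (P.cons (P.lf 9666 0 0) P.nil)))))) (P.cons (P.cons (P.lf 36007596 0 0) (P.cons (P.lf 34618046 0 0) (P.cons (P.lf 5861568 0 0) (P.cons (P.lf 0 1864756 0) (P.cons (P.lf 0 327874 0) P.nil))))) (P.cons (P.cons (P.lf 36743458 0 0) (P.cons (P.lf 27687306 0 0) (P.cons (P.lf 2811116 0 0) (P.cons (P.lf 0 1240446 0) P.nil)))) (P.cons (P.cons (P.lf 2423074 0 0) (P.cons (P.lf 0 4767640 0) (P.cons (P.lf 0 1993396 0) P.nil))) (P.cons (P.cons (P.lf 0 16372802 0) (P.cons (P.lf 0 12434152 0) P.nil)) (P.cons (P.cons (P.lf 0 5938872 0) P.nil) P.nil)))))) 25474766)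
 EL.nil)
noncomputable def S256_314_512_660_45 : EL := (EL.cons 14 (TM.mk (P.cons (P.cons (P.lf 0 335358266 0) (P.cons (P.lf 0 547353924 0) (P.cons (P.lf 0 261192512 0) (P.cons (P.lf 0 1986622 0) (P.cons (P.lf 22773486 0 0) (P.cons (P.lf 1998980 0 0) P.nil)))))) (P.cons (P.cons (P.lf 0 191113104 0) (P.cons (P.lf 0 102562698 0) (P.cons (P.lf 64961122 0 0) (P.cons (P.lf 25709744 0 0) (P.cons (P.lf 0 8586636 0) P.nil))))) (P.cons (P.cons (P.lf 196081766 0 0) (P.cons (P.lf 315747814 0 0) (P.cons (P.lf 104772324 0 0) (P.cons (P.lf 0 17265296 0) P.nil)))) (P.cons (P.cons (P.lf 119840102 0 0) (P.cons (P.lf 46754988 0 0) (P.cons (P.lf 0 32053802 0) P.nil))) (P.cons (P.cons (P.lf 0 47005500 0) (P.cons (P.lf 0 77669808 0) P.nil)) (P.cons (P.cons (P.lf 0 31109670 0) P.nil) P.nil)))))) 148495792)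
 EL.nil)
noncomputable def S256_314_512_660_46 : EL := (EL.cons 15 (TM.mk (P.lf 4294967296 0 0) 0)
 EL.nil)
noncomputable def S256_314_512_660_47 : EL := (EL.cons 15 (TM.mk (P.cons (P.cons (P.lf 0 1457022464 0) (P.cons (P.lf 0 792691524 0) (P.cons (P.lf 52997508 0 0) (P.lf 17665836 0 0)))) (P.cons (P.cons (P.lf 0 276774736 0) (P.cons (P.lf 152624160 0 0) (P.cons (P.lf 0 10204092 0) (P.lf 0 3401364 0)))) (P.cons (P.cons (P.lf 336546367 0 0) (P.cons (P.lf 61697576 0 0) (P.cons (P.lf 0 4124952 0) (P.lf 0 1374984 0)))) (P.cons (P.cons (P.lf 49024382 0 0) (P.cons (P.lf 0 13634200 0) (P.cons (P.lf 911548 0 0) P.nil))) (P.cons (P.cons (P.lf 0 21107643 0) (P.cons (P.lf 0 2237124 0) P.nil)) (P.cons (P.cons (P.lf 0 1389399 0) P.nil) P.nil)))))) 2568712)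
 EL.nil)
noncomputable def S256_314_512_660_48 : EL := (EL.cons 15 (TM.mk (P.cons (P.cons (P.lf 494279540 0 0) (P.cons (P.lf 537824517 0 0) (P.cons (P.lf 110343734 0 0) (P.cons (P.lf 0 31548643 0) (P.cons (P.lf 0 5866955 0) (P.cons (P.lf 435973 0 0) P.nil)))))) (P.cons (P.cons (P.lf 187785833 0 0) (P.cons (P.lf 0 1387597 0) (P.cons (P.lf 0 56244739 0) (P.cons (P.lf 7564110 0 0) (P.cons (P.lf 2259236 0 0) P.nil))))) (P.cons (P.cons (P.lf 0 210503809 0) (P.cons (P.lf 0 185759141 0) (P.cons (P.lf 0 4931156 0) (P.cons (P.lf 6459843 0 0) P.nil)))) (P.cons (P.cons (P.lf 0 76637211 0) (P.cons (P.lf 7121311 0 0) (P.cons (P.lf 8941540 0 0) P.nil))) (P.cons (P.cons (P.lf 34373872 0 0) (P.cons (P.lf 24219691 0 0) P.nil)) (P.cons (P.cons (P.lf 11346035 0 0) P.nil) P.nil)))))) 27126553)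
 EL.nil)
noncomputable def S256_314_512_660 : SL := (SL.cons S256_314_512_660_0 (SL.cons S256_314_512_660_1 (SL.cons S256_314_512_660_2 (SL.cons S256_314_512_660_3 (SL.cons S256_314_512_660_4 (SL.cons S256_314_512_660_5 (SL.cons S256_314_512_660_6 (SL.cons S256_314_512_660_7 (SL.cons S256_314_512_660_8 (SL.cons S256_314_512_660_9 (SL.cons S256_314_512_660_10 (SL.cons S256_314_512_660_11 (SL.cons S256_314_512_660_12 (SL.cons S256_314_512_660_13 (SL.cons S256_314_512_660_14 (SL.cons S256_314_512_660_15 (SL.cons S256_314_512_660_16 (SL.cons S256_314_512_660_17 (SL.cons S256_314_512_660_18 (SL.cons S256_314_512_660_19 (SL.cons S256_314_512_660_20 (SL.cons S256_314_512_660_21 (SL.cons S256_314_512_660_22 (SL.cons S256_314_512_660_23 (SL.cons S256_314_512_660_24 (SL.cons S256_314_512_660_25 (SL.cons S256_314_512_660_26 (SL.cons S256_314_512_660_27 (SL.cons S256_314_512_660_28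 (SL.cons S256_314_512_660_29 (SL.cons S256_314_512_660_30 (SL.cons S256_314_512_660_31 (SL.cons S256_314_512_660_32 (SL.cons S256_314_512_660_33 (SL.cons S256_314_512_660_34 (SL.cons S256_314_512_660_35 (SL.cons S256_314_512_660_36 (SL.cons S256_314_512_660_37 (SL.cons S256_314_512_660_38 (SL.cons S256_314_512_660_39 (SL.cons S256_314_512_660_40 (SL.cons S256_314_512_660_41 (SL.cons S256_314_512_660_42 (SL.cons S256_314_512_660_43 (SL.cons S256_314_512_660_44 (SL.cons S256_314_512_660_45 (SL.cons S256_314_512_660_46 (SL.cons S256_314_512_660_47 (SL.cons S256_314_512_660_48 SL.nil)))))))))))))))))))))))))))))))))))))))))))))))))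
noncomputable def S256_314_660_808_0 : EL := (EL.cons 0 (TM.mk (P.cons (P.lf 8080323868 0 0) (P.cons (P.lf 0 727079837 0) (P.cons (P.lf 0 317250402 0) (P.cons (P.lf 44091209 0 0) (P.cons (P.lf 8367597 0 0) (P.cons (P.lf 0 1467036 0) P.nil)))))) 311496)
 (EL.cons 1 (TM.mk (P.cons (P.lf 869508750 0 0) (P.cons (P.lf 786249082 0 0) (P.cons (P.lf 0 120498519 0) (P.cons (P.lf 0 33042157 0) (P.cons (P.lf 5010903 0 0) (P.cons (P.lf 683975 0 0) P.nil)))))) 177172)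
 (EL.cons 5 (TM.mk (P.cons (P.lf 4428440364 0 0) (P.cons (P.lf 258517274 0 0) (P.cons (P.lf 112800140 0 0) (P.cons (P.lf 0 15676876 0) (P.cons (P.lf 0 2975142 0) (P.cons (P.lf 521612 0 0) P.nil)))))) 117185)
 (EL.cons 9 (TM.mk (P.lf 6442450944 0 0) 2)
 EL.nil))))
noncomputable def S256_314_660_808_1 : EL := (EL.cons 0 (TM.mk (P.cons (P.cons (P.lf 0 5112975262 0) (P.cons (P.lf 0 596994711 0) (P.cons (P.lf 257430859 0 0) (P.lf 28603431 0 0)))) (P.cons (P.cons (P.lf 1508242678 0 0) (P.cons (P.lf 364616276 0 0) (P.cons (P.lf 0 157226643 0) (P.lf 0 17469617 0)))) (P.cons (P.cons (P.lf 2239935790 0 0) (P.cons (P.lf 107334757 0 0) (P.cons (P.lf 0 46283959 0) (P.lf 0 5142656 0)))) (P.cons (P.cons (P.lf 0 182524667 0) (P.cons (P.lf 0 65816651 0) (P.cons (P.lf 28380878 0 0) P.nil))) (P.cons (P.cons (P.lf 0 260616123 0) (P.cons (P.lf 0 5827882 0) P.nil)) (P.cons (P.cons (P.lf 23307616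 0 0) P.nil) P.nil)))))) 47054359)
 (EL.cons 1 (TM.mk (P.cons (P.cons (P.lf 0 486151684 0) (P.cons (P.lf 0 179192149 0) (P.cons (P.lf 77269675 0 0) (P.lf 8585514 0 0)))) (P.cons (P.cons (P.lf 0 1788147228 0) (P.cons (P.lf 0 112207572 0) (P.cons (P.lf 48385170 0 0) (P.lf 5376128 0 0)))) (P.cons (P.cons (P.lf 336181387 0 0) (P.cons (P.lf 89538006 0 0) (P.cons (P.lf 0 38609792 0) (P.lf 0 4289968 0)))) (P.cons (P.cons (P.lf 425589399 0 0) (P.cons (P.lf 12771795 0 0) (P.cons (P.lf 0 5507340 0) P.nil))) (P.cons (P.cons (P.lf 0 43971004 0) (P.cons (P.lf 0 10874572 0) P.nil)) (P.cons (P.cons (P.lf 0 37277075 0) P.nil) P.nil)))))) 23005972)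
 (EL.cons 5 (TM.mk (P.cons (P.cons (P.lf 0 2753504186 0) (P.cons (P.lf 0 414544660 0) (P.cons (P.lf 178756334 0 0) (P.lf 19861814 0 0)))) (P.cons (P.cons (P.lf 0 603505380 0) (P.cons (P.lf 0 8955974 0) (P.cons (P.lf 3861918 0 0) (P.lf 429100 0 0)))) (P.cons (P.cons (P.lf 0 61270511 0) (P.cons (P.lf 10623010 0 0) (P.cons (P.lf 0 4580764 0) (P.lf 0 508976 0)))) (P.cons (P.cons (P.lf 112213735 0 0) (P.cons (P.lf 12620424 0 0) (P.cons (P.lf 0 5442068 0) P.nil))) (P.cons (P.cons (P.lf 50869383 0 0) (P.cons (P.lf 303156 0 0) P.nil)) (P.cons (P.cons (P.lf 0 8984602 0) P.nil) P.nil)))))) 23205941)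
 (EL.cons 9 (TM.mk (P.cons (P.cons (P.lf 0 4033633176 0) (P.cons (P.lf 0 553067154 0) (P.cons (P.lf 238488798 0 0) (P.lf 26498754 0 0)))) (P.cons (P.cons (P.lf 0 59330580 0) (P.cons (P.lf 106487082 0 0) (P.cons (P.lf 0 45918426 0) (P.lf 0 5102046 0)))) (P.cons (P.cons (P.lf 648662722 0 0) (P.cons (P.lf 43046886 0 0) (P.cons (P.lf 0 18562302 0) (P.lf 0 2062476 0)))) (P.cons (P.cons (P.lf 41749479 0 0) (P.cons (P.lf 0 9512688 0) (P.cons (P.lf 4101978 0 0) P.nil))) (P.cons (P.cons (P.lf 0 36877156 0) (P.cons (P.lf 0 1560858 0) P.nil)) (P.cons (P.cons (P.lf 0 615400 0) P.nil) P.nil)))))) 4432273)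
 (EL.cons 2 (TM.mk (P.cons (P.cons (P.lf 0 249462011 0) (P.cons (P.lf 232396939 0 0) (P.cons (P.lf 23851485 0 0) (P.cons (P.lf 0 4960442 0) (P.lf 0 413370 0))))) (P.cons (P.cons (P.lf 0 209564415 0) (P.cons (P.lf 195228638 0 0) (P.cons (P.lf 20036806 0 0) (P.cons (P.lf 0 4167098 0) (P.lf 0 347256 0))))) (P.cons (P.cons (P.lf 56548015 0 0) (P.cons (P.lf 0 52679708 0) (P.cons (P.lf 0 5406651 0) (P.cons (P.lf 1124431 0 0) P.nil)))) (P.cons (P.cons (P.lf 13553007 0 0) (P.cons (P.lf 0 12625880 0) (P.cons (P.lf 0 1295825 0) P.nil))) (P.cons (P.cons (P.lf 0 3630990 0) (P.cons (P.lf 3382602 0 0) P.nil)) (P.cons (P.cons (P.lf 0 403219 0) P.nil) P.nil)))))) 2157056)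
 (EL.cons 6 (TM.mk (P.cons (P.cons (P.lf 577819521 0 0) (P.cons (P.lf 0 538292340 0) (P.cons (P.lf 0 55246302 0) (P.cons (P.lf 11489694 0 0) (P.lf 957471 0 0))))) (P.cons (P.cons (P.lf 0 111252885 0) (P.cons (P.lf 103642356 0 0) (P.cons (P.lf 10637076 0 0) (P.cons (P.lf 0 2212215 0) (P.lf 0 184350 0))))) (P.cons (P.cons (P.lf 0 44973438 0) (P.cons (P.lf 41896920 0 0) (P.cons (P.lf 4299984 0 0) (P.cons (P.lf 0 894276 0) P.nil)))) (P.cons (P.cons (P.lf 9938424 0 0) (P.cons (P.lf 0 9258564 0) (P.cons (P.lf 0 950229 0) P.nil))) (P.cons (P.cons (P.lf 1630713 0 0) (P.cons (P.lf 0 1519161 0) P.nil)) (P.cons (P.cons (P.lf 0 459195 0) P.nil) P.nil)))))) 1312485)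
 EL.nil))))))
noncomputable def S256_314_660_808_2 : EL := (EL.cons 0 (TM.mk (P.cons (P.cons (P.lf 3234971126 0 0) (P.cons (P.lf 756808012 0 0) (P.cons (P.lf 0 283393433 0) (P.cons (P.lf 0 73302142 0) (P.cons (P.lf 3870658 0 0) (P.cons (P.lf 1774759 0 0) P.nil)))))) (P.cons (P.cons (P.lf 0 1602617945 0) (P.cons (P.lf 0 640932820 0) (P.cons (P.lf 222329224 0 0) (P.cons (P.lf 77321002 0 0) (P.cons (P.lf 0 4870738 0) P.nil))))) (P.cons (P.cons (P.lf 0 2711421859 0) (P.cons (P.lf 0 434433044 0) (P.cons (P.lf 180316115 0 0) (P.cons (P.lf 26865728 0 0) P.nil)))) (P.cons (P.cons (P.lf 400072050 0 0) (P.cons (P.lf 225236938 0 0) (P.cons (P.lf 0 81334601 0) P.nil))) (P.cons (P.cons (P.lf 668970712 0 0) (P.cons (P.lf 79711941 0 0) P.nil)) (P.cons (P.cons (P.lf 0 45395816 0) P.nil) P.nil)))))) 323510901)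
 (EL.cons 1 (TM.mk (P.cons (P.cons (P.lf 267910392 0 0) (P.cons (P.lf 214384056 0 0) (P.cons (P.lf 0 68086563 0) (P.cons (P.lf 0 31278748 0) (P.cons (P.lf 2195125 0 0) (P.cons (P.lf 1006498 0 0) P.nil)))))) (P.cons (P.cons (P.lf 1929840375 0 0) (P.cons (P.lf 366852839 0 0) (P.cons (P.lf 0 148176223 0) (P.cons (P.lf 0 26213823 0) (P.cons (P.lf 902521 0 0) P.nil))))) (P.cons (P.cons (P.lf 0 338207621 0) (P.cons (P.lf 0 218912169 0) (P.cons (P.lf 76799535 0 0) (P.cons (P.lf 25665364 0 0) P.nil)))) (P.cons (P.cons (P.lf 0 783426116 0) (P.cons (P.lf 0 108747124 0) (P.cons (P.lf 46865999 0 0) P.nil))) (P.cons (P.cons (P.lf 73438644 0 0) (P.cons (P.lf 53741276 0 0) P.nil)) (P.cons (P.cons (P.lf 137577877 0 0) P.nil) P.nil)))))) 161708533)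
 (EL.cons 5 (TM.mk (P.cons (P.cons (P.lf 1711983875 0 0) (P.cons (P.lf 515806338 0 0) (P.cons (P.lf 0 183882963 0) (P.cons (P.lf 0 57950007 0) (P.cons (P.lf 3473021 0 0) (P.cons (P.lf 1592430 0 0) P.nil)))))) (P.cons (P.cons (P.lf 654019590 0 0) (P.cons (P.lf 88309424 0 0) (P.cons (P.lf 0 39583893 0) (P.cons (P.lf 0 2934122 0) (P.cons (P.lf 0 135532 0) P.nil))))) (P.cons (P.cons (P.lf 44120797 0 0) (P.cons (P.lf 0 35069939 0) (P.cons (P.lf 11235666 0 0) (P.cons (P.lf 5032435 0 0) P.nil)))) (P.cons (P.cons (P.lf 0 215037714 0) (P.cons (P.lf 0 51304076 0) (P.cons (P.lf 19972457 0 0) P.nil))) (P.cons (P.cons (P.lf 0 112373748 0) (P.cons (P.lf 0 7364118 0) P.nil)) (P.cons (P.cons (P.lf 27311972 0 0) P.nil) P.nil)))))) 157364747)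
 (EL.cons 9 (TM.mk (P.cons (P.cons (P.lf 2525466897 0 0) (P.cons (P.lf 692553202 0 0) (P.cons (P.lf 0 251157423 0) (P.cons (P.lf 0 74129107 0) (P.cons (P.lf 4278763 0 0) (P.cons (P.lf 1961878 0 0) P.nil)))))) (P.cons (P.cons (P.lf 74294020 0 0) (P.cons (P.lf 0 123156864 0) (P.cons (P.lf 34823361 0 0) (P.cons (P.lf 21668629 0 0) (P.cons (P.lf 0 1647658 0) P.nil))))) (P.cons (P.cons (P.lf 0 811712014 0) (P.cons (P.lf 0 167236765 0) (P.cons (P.lf 66483580 0 0) (P.cons (P.lf 12868833 0 0) P.nil)))) (P.cons (P.cons (P.lf 0 64226370 0) (P.cons (P.lf 25394257 0 0) (P.cons (P.lf 0 7893969 0) P.nil))) (P.cons (P.cons (P.lf 110719837 0 0) (P.cons (P.lf 18509898 0 0) P.nil)) (P.cons (P.cons (P.lf 9856984 0 0) P.nil) P.nil)))))) 42471547)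
 (EL.cons 2 (TM.mk (P.cons (P.cons (P.lf 312377461 0 0) (P.cons (P.lf 0 248177210 0) (P.cons (P.lf 0 88237580 0) (P.cons (P.lf 17270066 0 0) (P.cons (P.lf 5046952 0 0) (P.cons (P.lf 0 100068 0) P.nil)))))) (P.cons (P.cons (P.lf 267012258 0 0) (P.cons (P.lf 0 221012235 0) (P.cons (P.lf 0 63326019 0) (P.cons (P.lf 12470141 0 0) (P.cons (P.lf 3375309 0 0) P.nil))))) (P.cons (P.cons (P.lf 0 117184308 0) (P.cons (P.lf 89197576 0 0) (P.cons (P.lf 38419987 0 0) (P.cons (P.lf 0 7486312 0) P.nil)))) (P.cons (P.cons (P.lf 0 63446169 0) (P.cons (P.lf 56584535 0 0) (P.cons (P.lf 9502425 0 0) P.nil))) (P.cons (P.cons (P.lf 15824041 0 0) (P.cons (P.lf 0 12174676 0) P.nil)) (P.cons (P.cons (P.lf 6480675 0 0) P.nil) P.nil)))))) 33640272)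
 (EL.cons 6 (TM.mk (P.cons (P.cons (P.lf 0 723548232 0) (P.cons (P.lf 574843596 0 0) (P.cons (P.lf 204381414 0 0) (P.cons (P.lf 0 40002006 0) (P.cons (P.lf 0 11690070 0) (P.cons (P.lf 231786 0 0) P.nil)))))) (P.cons (P.cons (P.lf 128668716 0 0) (P.cons (P.lf 0 81663762 0) (P.cons (P.lf 0 64365492 0) (P.cons (P.lf 12422130 0 0) (P.cons (P.lf 4253106 0 0) P.nil))))) (P.cons (P.cons (P.lf 174721404 0 0) (P.cons (P.lf 0 151003542 0) (P.cons (P.lf 0 32739618 0) (P.cons (P.lf 6512010 0 0) P.nil)))) (P.cons (P.cons (P.lf 0 26530770 0) (P.cons (P.lf 18329658 0 0) (P.cons (P.lf 11239794 0 0) P.nil))) (P.cons (P.cons (P.lf 0 19338300 0) (P.cons (P.lf 17511534 0 0) P.nil)) (P.cons (P.cons (P.lf 3126648 0 0) P.nil) P.nil)))))) 25363134)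
 EL.nil))))))
noncomputable def S256_314_660_808_3 : EL := (EL.cons 0 (TM.mk (P.cons (P.lf 375392995 0 0) (P.cons (P.lf 727079837 0 0) (P.cons (P.lf 317250402 0 0) (P.cons (P.lf 0 44091209 0) (P.cons (P.lf 0 8367597 0) (P.cons (P.lf 1467036 0 0) P.nil)))))) 311496)
 (EL.cons 1 (TM.mk (P.cons (P.lf 0 869508750 0) (P.cons (P.lf 0 786249082 0) (P.cons (P.lf 120498519 0 0) (P.cons (P.lf 33042157 0 0) (P.cons (P.lf 0 5010903 0) (P.cons (P.lf 0 683975 0) P.nil)))))) 177172)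
 (EL.cons 5 (TM.mk (P.cons (P.lf 2014010580 0 0) (P.cons (P.lf 0 258517274 0) (P.cons (P.lf 0 112800140 0) (P.cons (P.lf 15676876 0 0) (P.cons (P.lf 2975142 0 0) (P.cons (P.lf 0 521612 0) P.nil)))))) 117178)
 EL.nil)))
noncomputable def S256_314_660_808_4 : EL := (EL.cons 0 (TM.mk (P.cons (P.cons (P.lf 0 235034405 0) (P.cons (P.lf 0 32226482 0) (P.cons (P.lf 13896421 0 0) (P.lf 1544046 0 0)))) (P.cons (P.cons (P.lf 0 458683451 0) (P.cons (P.lf 0 56212996 0) (P.cons (P.lf 24239677 0 0) (P.lf 2693297 0 0)))) (P.cons (P.cons (P.lf 0 167530398 0) (P.cons (P.lf 0 12708929 0) (P.cons (P.lf 5480233 0 0) (P.lf 608915 0 0)))) (P.cons (P.cons (P.lf 100323179 0 0) (P.cons (P.lf 13332812 0 0) (P.cons (P.lf 0 5749258 0) P.nil))) (P.cons (P.cons (P.lf 40150566 0 0) (P.cons (P.lf 944813 0 0) P.nil)) (P.cons (P.cons (P.lf 0 7422635 0) P.nil) P.nil)))))) 9728352)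
 (EL.cons 1 (TM.mk (P.cons (P.cons (P.lf 544401403 0 0) (P.cons (P.lf 74644995 0 0) (P.cons (P.lf 0 32187763 0) (P.lf 0 3576416 0)))) (P.cons (P.cons (P.lf 500279919 0 0) (P.cons (P.lf 53125291 0 0) (P.cons (P.lf 0 22908225 0) (P.lf 0 2545357 0)))) (P.cons (P.cons (P.lf 0 155750679 0) (P.cons (P.lf 0 29150206 0) (P.cons (P.lf 12569896 0 0) (P.lf 1396653 0 0)))) (P.cons (P.cons (P.lf 0 106596262 0) (P.cons (P.lf 0 4814503 0) (P.cons (P.lf 2076067 0 0) P.nil))) (P.cons (P.cons (P.lf 14847478 0 0) (P.cons (P.lf 3153075 0 0) P.nil)) (P.cons (P.cons (P.lf 9165750 0 0) P.nil) P.nil)))))) 6153979)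
 (EL.cons 5 (TM.mk (P.cons (P.cons (P.lf 0 1260976600 0) (P.cons (P.lf 0 172897412 0) (P.cons (P.lf 74555314 0 0) (P.lf 8283922 0 0)))) (P.cons (P.cons (P.lf 143310588 0 0) (P.cons (P.lf 55482536 0 0) (P.cons (P.lf 0 23924694 0) (P.lf 0 2658298 0)))) (P.cons (P.cons (P.lf 275787268 0 0) (P.cons (P.lf 18867692 0 0) (P.cons (P.lf 0 8135960 0) (P.lf 0 903994 0)))) (P.cons (P.cons (P.lf 0 21753970 0) (P.cons (P.lf 0 7911450 0) (P.cons (P.lf 3411506 0 0) P.nil))) (P.cons (P.cons (P.lf 0 26568140 0) (P.cons (P.lf 0 856218 0) P.nil)) (P.cons (P.cons (P.lf 2434026 0 0) P.nil) P.nil)))))) 4844092)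
 EL.nil)))
noncomputable def S256_314_660_808_5 : EL := (EL.cons 0 (TM.mk (P.cons (P.cons (P.lf 147155575 0 0) (P.cons (P.lf 40354147 0 0) (P.cons (P.lf 0 14634606 0) (P.cons (P.lf 0 4319402 0) (P.cons (P.lf 249317 0 0) (P.cons (P.lf 114315 0 0) P.nil)))))) (P.cons (P.cons (P.lf 289347257 0 0) (P.cons (P.lf 70983736 0 0) (P.cons (P.lf 0 26315924 0) (P.cons (P.lf 0 7103432 0) (P.cons (P.lf 386883 0 0) P.nil))))) (P.cons (P.cons (P.lf 85450717 0 0) (P.cons (P.lf 10460054 0 0) (P.cons (P.lf 0 4563938 0) (P.cons (P.lf 0 455073 0) P.nil)))) (P.cons (P.cons (P.lf 0 108975707 0) (P.cons (P.lf 0 28198696 0) (P.cons (P.lf 10476926 0 0) P.nil))) (P.cons (P.cons (P.lf 0 44557266 0) (P.cons (P.lf 0 4347515 0) P.nil)) (P.cons (P.cons (P.lf 15941016 0 0) P.nil) P.nil)))))) 36956175)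
 (EL.cons 1 (TM.mk (P.cons (P.cons (P.lf 0 340850955 0) (P.cons (P.lf 0 93470803 0) (P.cons (P.lf 33897590 0 0) (P.cons (P.lf 10004872 0 0) (P.cons (P.lf 0 577485 0) (P.cons (P.lf 0 264785 0) P.nil)))))) (P.cons (P.cons (P.lf 0 318239958 0) (P.cons (P.lf 0 67898591 0) (P.cons (P.lf 25951779 0 0) (P.cons (P.lf 6122338 0 0) (P.cons (P.lf 0 299810 0) P.nil))))) (P.cons (P.cons (P.lf 147722056 0 0) (P.cons (P.lf 50554893 0 0) (P.cons (P.lf 0 17920505 0) (P.cons (P.lf 0 5767826 0) P.nil)))) (P.cons (P.cons (P.lf 122073480 0 0) (P.cons (P.lf 18231018 0 0) (P.cons (P.lf 0 7685178 0) P.nil))) (P.cons (P.cons (P.lf 0 23870428 0) (P.cons (P.lf 0 9895642 0) P.nil)) (P.cons (P.cons (P.lf 0 20533123 0) P.nil) P.nil)))))) 29999502)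
 (EL.cons 5 (TM.mk (P.cons (P.cons (P.lf 789500314 0 0) (P.cons (P.lf 216502924 0 0) (P.cons (P.lf 0 78515724 0) (P.cons (P.lf 0 23173912 0) (P.cons (P.lf 1337606 0 0) (P.cons (P.lf 613312 0 0) P.nil)))))) (P.cons (P.cons (P.lf 0 78114350 0) (P.cons (P.lf 0 66290948 0) (P.cons (P.lf 20964558 0 0) (P.cons (P.lf 9748540 0 0) (P.cons (P.lf 0 686778 0) P.nil))))) (P.cons (P.cons (P.lf 0 300953148 0) (P.cons (P.lf 0 59464718 0) (P.cons (P.lf 23783926 0 0) (P.cons (P.lf 4451414 0 0) P.nil)))) (P.cons (P.cons (P.lf 17338128 0 0) (P.cons (P.lf 18490954 0 0) (P.cons (P.lf 0 6356450 0) P.nil))) (P.cons (P.cons (P.lf 52749194 0 0) (P.cons (P.lf 7715748 0 0) P.nil)) (P.cons (P.cons (P.lf 0 2382256 0) P.nil) P.nil)))))) 25791544)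
 EL.nil)))
noncomputable def S256_314_660_808_6 : EL := (EL.cons 12 (TM.mk (P.lf 8589934592 0 0) 0)
 (EL.cons 3 (TM.mk (P.cons (P.lf 897858742 0 0) (P.cons (P.lf 869508750 0 0) (P.cons (P.lf 0 41629830 0) (P.cons (P.lf 0 12412950 0) (P.cons (P.lf 1049171 0 0) (P.cons (P.lf 162840 0 0) P.nil)))))) 27209)
 (EL.cons 7 (TM.mk (P.cons (P.lf 0 2079676607 0) (P.cons (P.lf 133473065 0 0) (P.cons (P.lf 62522105 0 0) (P.cons (P.lf 0 4081356 0) (P.cons (P.lf 0 858201 0) (P.cons (P.lf 91532 0 0) P.nil)))))) 18219)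
 EL.nil)))
noncomputable def S256_314_660_808_7 : EL := (EL.cons 12 (TM.mk (P.cons (P.cons (P.lf 0 5378177568 0) (P.cons (P.lf 0 737422872 0) (P.cons (P.lf 317985064 0 0) (P.lf 35331672 0 0)))) (P.cons (P.cons (P.lf 0 79107440 0) (P.cons (P.lf 141982776 0 0) (P.cons (P.lf 0 61224568 0) (P.lf 0 6802728 0)))) (P.cons (P.cons (P.lf 864883630 0 0) (P.cons (P.lf 57395848 0 0) (P.cons (P.lf 0 24749736 0) (P.lf 0 2749968 0)))) (P.cons (P.cons (P.lf 55665972 0 0) (P.cons (P.lf 0 12683584 0) (P.cons (P.lf 5469304 0 0) P.nil))) (P.cons (P.cons (P.lf 0 49169542 0) (P.cons (P.lf 0 2081144 0) P.nil)) (P.cons (P.cons (P.lf 0 820534 0) P.nil) P.nil)))))) 5909672)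
 (EL.cons 3 (TM.mk (P.cons (P.cons (P.lf 0 690987511 0) (P.cons (P.lf 154157534 0 0) (P.cons (P.lf 0 66474468 0) (P.lf 0 7386050 0)))) (P.cons (P.cons (P.lf 2268667879 0 0) (P.cons (P.lf 119608630 0 0) (P.cons (P.lf 0 51576592 0) (P.lf 0 5730730 0)))) (P.cons (P.cons (P.lf 290683661 0 0) (P.cons (P.lf 0 47890332 0) (P.cons (P.lf 20650850 0 0) (P.lf 2294536 0 0)))) (P.cons (P.cons (P.lf 0 273587374 0) (P.cons (P.lf 0 9723240 0) (P.cons (P.lf 4192770 0 0) P.nil))) (P.cons (P.cons (P.lf 0 4910580 0) (P.cons (P.lf 4149632 0 0) P.nil)) (P.cons (P.cons (P.lf 15735477 0 0) P.nil) P.nil)))))) 14952661)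
 (EL.cons 7 (TM.mk (P.cons (P.cons (P.lf 1282313400 0 0) (P.cons (P.lf 214030368 0 0) (P.cons (P.lf 0 92292309 0) (P.lf 0 10254702 0)))) (P.cons (P.cons (P.lf 348249576 0 0) (P.cons (P.lf 18360398 0 0) (P.cons (P.lf 0 7917210 0) (P.lf 0 879689 0)))) (P.cons (P.cons (P.lf 224423157 0 0) (P.cons (P.lf 2128157 0 0) (P.cons (P.lf 0 917685 0) (P.lf 0 101965 0)))) (P.cons (P.cons (P.lf 0 5478775 0) (P.cons (P.lf 0 6247428 0) (P.cons (P.lf 2693961 0 0) P.nil))) (P.cons (P.cons (P.lf 0 30556023 0) (P.cons (P.lf 0 617855 0) P.nil)) (P.cons (P.cons (P.lf 961820 0 0) P.nil) P.nil)))))) 12646618)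
 (EL.cons 10 (TM.mk (P.cons (P.cons (P.lf 0 1193318205 0) (P.cons (P.lf 1111686303 0 0) (P.cons (P.lf 114095178 0 0) (P.cons (P.lf 0 23728623 0) (P.lf 0 1977384 0))))) (P.cons (P.cons (P.lf 153173658 0 0) (P.cons (P.lf 0 142695432 0) (P.cons (P.lf 0 14645193 0) (P.cons (P.lf 3045792 0 0) (P.lf 253815 0 0))))) (P.cons (P.cons (P.lf 66835029 0 0) (P.cons (P.lf 0 62263014 0) (P.cons (P.lf 0 6390210 0) (P.cons (P.lf 1328985 0 0) P.nil)))) (P.cons (P.cons (P.lf 0 9288678 0) (P.cons (P.lf 8653263 0 0) (P.cons (P.lf 888105 0 0) P.nil))) (P.cons (P.cons (P.lf 0 1762794 0) (P.cons (P.lf 1642206 0 0) P.nil)) (P.cons (P.cons (P.lf 309057 0 0) P.nil) P.nil)))))) 983838)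
 EL.nil))))
noncomputable def S256_314_660_808_8 : EL := (EL.cons 12 (TM.mk (P.cons (P.cons (P.lf 3367289196 0 0) (P.cons (P.lf 923404270 0 0) (P.cons (P.lf 0 334876564 0) (P.cons (P.lf 0 98838810 0) (P.cons (P.lf 5705018 0 0) (P.cons (P.lf 2615838 0 0) P.nil)))))) (P.cons (P.cons (P.lf 99058694 0 0) (P.cons (P.lf 0 164209152 0) (P.cons (P.lf 46431148 0 0) (P.cons (P.lf 28891506 0 0) (P.cons (P.lf 0 2196878 0) P.nil))))) (P.cons (P.cons (P.lf 0 1082282686 0) (P.cons (P.lf 0 222982354 0) (P.cons (P.lf 88644774 0 0) (P.cons (P.lf 17158444 0 0) P.nil)))) (P.cons (P.cons (P.lf 0 85635160 0) (P.cons (P.lf 33859010 0 0) (P.cons (P.lf 0 10525292 0) P.nil))) (P.cons (P.cons (P.lf 147626450 0 0) (P.cons (P.lf 24679864 0 0) P.nil)) (P.cons (P.cons (P.lf 13142646 0 0) P.nil) P.nil)))))) 56628700)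
 (EL.cons 3 (TM.mk (P.cons (P.cons (P.lf 513293431 0 0) (P.cons (P.lf 0 170916294 0) (P.cons (P.lf 40616007 0 0) (P.cons (P.lf 36722272 0 0) (P.cons (P.lf 0 2981571 0) (P.cons (P.lf 0 1367095 0) P.nil)))))) (P.cons (P.cons (P.lf 0 3179314196 0) (P.cons (P.lf 0 641281505 0) (P.cons (P.lf 257227782 0 0) (P.cons (P.lf 47370096 0 0) (P.cons (P.lf 0 1739285 0) P.nil))))) (P.cons (P.cons (P.lf 0 425509294 0) (P.cons (P.lf 149067218 0 0) (P.cons (P.lf 0 46483690 0) (P.cons (P.lf 0 22489625 0) P.nil)))) (P.cons (P.cons (P.lf 908972606 0 0) (P.cons (P.lf 147652805 0 0) (P.cons (P.lf 0 62132778 0) P.nil))) (P.cons (P.cons (P.lf 94762213 0 0) (P.cons (P.lf 0 32994577 0) P.nil)) (P.cons (P.cons (P.lf 0 115150884 0) P.nil) P.nil)))))) 150268316)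
 (EL.cons 7 (TM.mk (P.cons (P.cons (P.lf 0 790477005 0) (P.cons (P.lf 0 264614218 0) (P.cons (P.lf 92683491 0 0) (P.cons (P.lf 31152368 0 0) (P.cons (P.lf 0 1930436 0) (P.cons (P.lf 0 885130 0) P.nil)))))) (P.cons (P.cons (P.lf 0 488037418 0) (P.cons (P.lf 0 98439262 0) (P.cons (P.lf 39485485 0 0) (P.cons (P.lf 7271497 0 0) (P.cons (P.lf 0 266984 0) P.nil))))) (P.cons (P.cons (P.lf 0 317292213 0) (P.cons (P.lf 0 27942001 0) (P.cons (P.lf 13251013 0 0) (P.cons (P.lf 302038 0 0) P.nil)))) (P.cons (P.cons (P.lf 86437162 0 0) (P.cons (P.lf 36777942 0 0) (P.cons (P.lf 0 13791985 0) P.nil))) (P.cons (P.cons (P.lf 118721953 0 0) (P.cons (P.lf 12605752 0 0) P.nil)) (P.cons (P.cons (P.lf 0 2096833 0) P.nil) P.nil)))))) 90705641)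
 (EL.cons 10 (TM.mk (P.cons (P.cons (P.lf 1494278478 0 0) (P.cons (P.lf 0 1187172294 0) (P.cons (P.lf 0 422090382 0) (P.cons (P.lf 82612518 0 0) (P.cons (P.lf 24142452 0 0) (P.cons (P.lf 0 478698 0) P.nil)))))) (P.cons (P.cons (P.lf 0 169825452 0) (P.cons (P.lf 92460378 0 0) (P.cons (P.lf 105838566 0 0) (P.cons (P.lf 0 20352252 0) (P.cons (P.lf 0 7234110 0) P.nil))))) (P.cons (P.cons (P.lf 0 326812548 0) (P.cons (P.lf 282097590 0 0) (P.cons (P.lf 61717392 0 0) (P.cons (P.lf 0 12271254 0) P.nil)))) (P.cons (P.cons (P.lf 25778814 0 0) (P.cons (P.lf 0 14640150 0) (P.cons (P.lf 0 15241314 0) P.nil))) (P.cons (P.cons (P.lf 31483686 0 0) (P.cons (P.lf 0 28315332 0) P.nil)) (P.cons (P.cons (P.lf 0 2884356 0) P.nil) P.nil)))))) 35860884)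
 EL.nil))))
noncomputable def S256_314_660_808_9 : EL := (EL.cons 3 (TM.mk (P.cons (P.lf 897858742 0 0) (P.cons (P.lf 869508750 0 0) (P.cons (P.lf 0 41629830 0) (P.cons (P.lf 0 12412950 0) (P.cons (P.lf 1049171 0 0) (P.cons (P.lf 162840 0 0) P.nil)))))) 27209)
 (EL.cons 7 (TM.mk (P.cons (P.lf 0 2079676607 0) (P.cons (P.lf 133473065 0 0) (P.cons (P.lf 62522105 0 0) (P.cons (P.lf 0 4081356 0) (P.cons (P.lf 0 858201 0) (P.cons (P.lf 91532 0 0) P.nil)))))) 18219)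
 EL.nil))
noncomputable def S256_314_660_808_10 : EL := (EL.cons 3 (TM.mk (P.cons (P.cons (P.lf 0 562151398 0) (P.cons (P.lf 0 77078767 0) (P.cons (P.lf 33237234 0 0) (P.lf 3693025 0 0)))) (P.cons (P.cons (P.lf 0 552670070 0) (P.cons (P.lf 0 59804315 0) (P.cons (P.lf 25788296 0 0) (P.lf 2865365 0 0)))) (P.cons (P.cons (P.lf 108458489 0 0) (P.cons (P.lf 23945166 0 0) (P.cons (P.lf 0 10325425 0) (P.lf 0 1147268 0)))) (P.cons (P.cons (P.lf 101520719 0 0) (P.cons (P.lf 4861620 0 0) (P.cons (P.lf 0 2096385 0) P.nil))) (P.cons (P.cons (P.lf 0 4238784 0) (P.cons (P.lf 0 2074816 0) P.nil)) (P.cons (P.cons (P.lf 0 6694110 0) P.nil) P.nil)))))) 3611757)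
 (EL.cons 7 (TM.mk (P.cons (P.cons (P.lf 1302090249 0 0) (P.cons (P.lf 178534665 0 0) (P.cons (P.lf 0 76986162 0) (P.lf 0 8554017 0)))) (P.cons (P.cons (P.lf 0 64415385 0) (P.cons (P.lf 0 45833218 0) (P.cons (P.lf 19763799 0 0) (P.lf 2195977 0 0)))) (P.cons (P.cons (P.lf 0 249768135 0) (P.cons (P.lf 0 17057074 0) (P.cons (P.lf 7355202 0 0) (P.lf 817244 0 0)))) (P.cons (P.cons (P.lf 1941311 0 0) (P.cons (P.lf 5346408 0 0) (P.cons (P.lf 0 2305431 0) P.nil))) (P.cons (P.cons (P.lf 19639197 0 0) (P.cons (P.lf 730747 0 0) P.nil)) (P.cons (P.cons (P.lf 0 620527 0) P.nil) P.nil)))))) 2858490)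
 EL.nil))
noncomputable def S256_314_660_808_11 : EL := (EL.cons 3 (TM.mk (P.cons (P.cons (P.lf 351964267 0 0) (P.cons (P.lf 96518382 0 0) (P.cons (P.lf 0 35002809 0) (P.cons (P.lf 0 10331078 0) (P.cons (P.lf 596313 0 0) (P.cons (P.lf 273419 0 0) P.nil)))))) (P.cons (P.cons (P.lf 351205018 0 0) (P.cons (P.lf 76306921 0 0) (P.cons (P.lf 0 29044398 0) (P.cons (P.lf 0 6985002 0) (P.cons (P.lf 347857 0 0) P.nil))))) (P.cons (P.cons (P.lf 0 119417002 0) (P.cons (P.lf 0 44404192 0) (P.cons (P.lf 15588434 0 0) (P.cons (P.lf 5197003 0 0) P.nil)))) (P.cons (P.cons (P.lf 0 123850108 0) (P.cons (P.lf 0 19570657 0) (P.cons (P.lf 8131734 0 0) P.nil))) (P.cons (P.cons (P.lf 12275491 0 0) (P.cons (P.lf 7437725 0 0) P.nil)) (P.cons (P.cons (P.lf 18372000 0 0) P.nil) P.nil)))))) 22530202)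
 (EL.cons 7 (TM.mk (P.cons (P.cons (P.lf 0 815241663 0) (P.cons (P.lf 0 223561918 0) (P.cons (P.lf 81075699 0 0) (P.cons (P.lf 23929490 0 0) (P.cons (P.lf 0 1381220 0) (P.cons (P.lf 0 633310 0) P.nil)))))) (P.cons (P.cons (P.lf 28339256 0 0) (P.cons (P.lf 54104198 0 0) (P.cons (P.lf 0 16444685 0) (P.cons (P.lf 0 8530601 0) (P.cons (P.lf 620524 0 0) P.nil))))) (P.cons (P.cons (P.lf 288075495 0 0) (P.cons (P.lf 58154909 0 0) (P.cons (P.lf 0 23177399 0) (P.cons (P.lf 0 4424642 0) P.nil)))) (P.cons (P.cons (P.lf 3037054 0 0) (P.cons (P.lf 0 13296186 0) (P.cons (P.lf 4422689 0 0) P.nil))) (P.cons (P.cons (P.lf 0 45332819 0) (P.cons (P.lf 0 7086254 0) P.nil)) (P.cons (P.cons (P.lf 0 971137 0) P.nil) P.nil)))))) 19543639)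
 EL.nil))
noncomputable def S256_314_660_808_12 : EL := (EL.cons 4 (TM.mk (P.cons (P.lf 0 897858742 0) (P.cons (P.lf 0 869508750 0) (P.cons (P.lf 41629830 0 0) (P.cons (P.lf 12412950 0 0) (P.cons (P.lf 0 1049171 0) (P.cons (P.lf 0 162840 0) P.nil)))))) 27209)
 (EL.cons 8 (TM.mk (P.cons (P.lf 2079676607 0 0) (P.cons (P.lf 0 133473065 0) (P.cons (P.lf 0 62522105 0) (P.cons (P.lf 4081356 0 0) (P.cons (P.lf 858201 0 0) (P.cons (P.lf 0 91532 0) P.nil)))))) 18219)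
 EL.nil))
noncomputable def S256_314_660_808_13 : EL := (EL.cons 4 (TM.mk (P.cons (P.cons (P.lf 562151398 0 0) (P.cons (P.lf 77078767 0 0) (P.cons (P.lf 0 33237234 0) (P.lf 0 3693025 0)))) (P.cons (P.cons (P.lf 552670070 0 0) (P.cons (P.lf 59804315 0 0) (P.cons (P.lf 0 25788296 0) (P.lf 0 2865365 0)))) (P.cons (P.cons (P.lf 0 108458489 0) (P.cons (P.lf 0 23945166 0) (P.cons (P.lf 10325425 0 0) (P.lf 1147268 0 0)))) (P.cons (P.cons (P.lf 0 101520719 0) (P.cons (P.lf 0 4861620 0) (P.cons (P.lf 2096385 0 0) P.nil))) (P.cons (P.cons (P.lf 4238784 0 0) (P.cons (P.lf 2074816 0 0) P.nil)) (P.cons (P.cons (P.lf 6694110 0 0) P.nil) P.nil)))))) 3611757)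
 (EL.cons 8 (TM.mk (P.cons (P.cons (P.lf 0 1302090249 0) (P.cons (P.lf 0 178534665 0) (P.cons (P.lf 76986162 0 0) (P.lf 8554017 0 0)))) (P.cons (P.cons (P.lf 64415385 0 0) (P.cons (P.lf 45833218 0 0) (P.cons (P.lf 0 19763799 0) (P.lf 0 2195977 0)))) (P.cons (P.cons (P.lf 249768135 0 0) (P.cons (P.lf 17057074 0 0) (P.cons (P.lf 0 7355202 0) (P.lf 0 817244 0)))) (P.cons (P.cons (P.lf 0 1941311 0) (P.cons (P.lf 0 5346408 0) (P.cons (P.lf 2305431 0 0) P.nil))) (P.cons (P.cons (P.lf 0 19639197 0) (P.cons (P.lf 0 730747 0) P.nil)) (P.cons (P.cons (P.lf 620527 0 0) P.nil) P.nil)))))) 2858490)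
 EL.nil))
noncomputable def S256_314_660_808_14 : EL := (EL.cons 4 (TM.mk (P.cons (P.cons (P.lf 0 351964267 0) (P.cons (P.lf 0 96518382 0) (P.cons (P.lf 35002809 0 0) (P.cons (P.lf 10331078 0 0) (P.cons (P.lf 0 596313 0) (P.cons (P.lf 0 273419 0) P.nil)))))) (P.cons (P.cons (P.lf 0 351205018 0) (P.cons (P.lf 0 76306921 0) (P.cons (P.lf 29044398 0 0) (P.cons (P.lf 6985002 0 0) (P.cons (P.lf 0 347857 0) P.nil))))) (P.cons (P.cons (P.lf 119417002 0 0) (P.cons (P.lf 44404192 0 0) (P.cons (P.lf 0 15588434 0) (P.cons (P.lf 0 5197003 0) P.nil)))) (P.cons (P.cons (P.lf 123850108 0 0) (P.cons (P.lf 19570657 0 0) (P.cons (P.lf 0 8131734 0) P.nil))) (P.cons (P.cons (P.lf 0 12275491 0) (P.cons (P.lf 0 7437725 0) P.nil)) (P.cons (P.cons (P.lf 0 18372000 0) P.nil) P.nil)))))) 22530202)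
 (EL.cons 8 (TM.mk (P.cons (P.cons (P.lf 815241663 0 0) (P.cons (P.lf 223561918 0 0) (P.cons (P.lf 0 81075699 0) (P.cons (P.lf 0 23929490 0) (P.cons (P.lf 1381220 0 0) (P.cons (P.lf 633310 0 0) P.nil)))))) (P.cons (P.cons (P.lf 0 28339256 0) (P.cons (P.lf 0 54104198 0) (P.cons (P.lf 16444685 0 0) (P.cons (P.lf 8530601 0 0) (P.cons (P.lf 0 620524 0) P.nil))))) (P.cons (P.cons (P.lf 0 288075495 0) (P.cons (P.lf 0 58154909 0) (P.cons (P.lf 23177399 0 0) (P.cons (P.lf 4424642 0 0) P.nil)))) (P.cons (P.cons (P.lf 0 3037054 0) (P.cons (P.lf 13296186 0 0) (P.cons (P.lf 0 4422689 0) P.nil))) (P.cons (P.cons (P.lf 45332819 0 0) (P.cons (P.lf 7086254 0 0) P.nil)) (P.cons (P.cons (P.lf 971137 0 0) P.nil) P.nil)))))) 19543639)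
 EL.nil))
noncomputable def S256_314_660_808_15 : EL := (EL.cons 4 (TM.mk (P.cons (P.lf 0 200209597 0) (P.cons (P.lf 0 387775913 0) (P.cons (P.lf 0 169200214 0) (P.cons (P.lf 23515311 0 0) (P.cons (P.lf 4462718 0 0) (P.cons (P.lf 0 782419 0) P.nil)))))) 166134)
 (EL.cons 8 (TM.mk (P.cons (P.lf 463738000 0 0) (P.cons (P.lf 419332844 0 0) (P.cons (P.lf 0 64265877 0) (P.cons (P.lf 0 17622484 0) (P.cons (P.lf 2672482 0 0) (P.cons (P.lf 364787 0 0) P.nil)))))) 94488)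
 EL.nil))
noncomputable def S256_314_660_808_16 : EL := (EL.cons 4 (TM.mk (P.cons (P.cons (P.lf 125351683 0 0) (P.cons (P.lf 17187457 0 0) (P.cons (P.lf 0 7411425 0) (P.lf 0 823491 0)))) (P.cons (P.cons (P.lf 244631174 0 0) (P.cons (P.lf 29980264 0 0) (P.cons (P.lf 0 12927827 0) (P.lf 0 1436425 0)))) (P.cons (P.cons (P.lf 89349545 0 0) (P.cons (P.lf 6778095 0 0) (P.cons (P.lf 0 2922791 0) (P.lf 0 324754 0)))) (P.cons (P.cons (P.lf 0 53505695 0) (P.cons (P.lf 0 7110833 0) (P.cons (P.lf 3066270 0 0) P.nil))) (P.cons (P.cons (P.lf 0 21413635 0) (P.cons (P.lf 0 503900 0) P.nil)) (P.cons (P.cons (P.lf 3958739 0 0) P.nil) P.nil)))))) 5188463)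
 (EL.cons 8 (TM.mk (P.cons (P.cons (P.lf 0 290347415 0) (P.cons (P.lf 0 39810664 0) (P.cons (P.lf 17166807 0 0) (P.lf 1907422 0 0)))) (P.cons (P.cons (P.lf 0 266815957 0) (P.cons (P.lf 0 28333489 0) (P.cons (P.lf 12217720 0 0) (P.lf 1357524 0 0)))) (P.cons (P.cons (P.lf 83067029 0 0) (P.cons (P.lf 15546777 0 0) (P.cons (P.lf 0 6703945 0) (P.lf 0 744882 0)))) (P.cons (P.cons (P.lf 56851340 0 0) (P.cons (P.lf 2567735 0 0) (P.cons (P.lf 0 1107236 0) P.nil))) (P.cons (P.cons (P.lf 0 7918655 0) (P.cons (P.lf 0 1681640 0) P.nil)) (P.cons (P.cons (P.lf 0 4888400 0) P.nil) P.nil)))))) 3282112)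
 EL.nil))
noncomputable def S256_314_660_808_17 : EL := (EL.cons 4 (TM.mk (P.cons (P.cons (P.lf 0 78482973 0) (P.cons (P.lf 0 21522211 0) (P.cons (P.lf 7805123 0 0) (P.cons (P.lf 2303681 0 0) (P.cons (P.lf 0 132969 0) (P.cons (P.lf 0 60968 0) P.nil)))))) (P.cons (P.cons (P.lf 0 154318537 0) (P.cons (P.lf 0 37857992 0) (P.cons (P.lf 14035159 0 0) (P.cons (P.lf 3788497 0 0) (P.cons (P.lf 0 206338 0) P.nil))))) (P.cons (P.cons (P.lf 0 45573716 0) (P.cons (P.lf 0 5578695 0) (P.cons (P.lf 2434100 0 0) (P.cons (P.lf 242705 0 0) P.nil)))) (P.cons (P.cons (P.lf 58120377 0 0) (P.cons (P.lf 15039304 0 0) (P.cons (P.lf 0 5587694 0) P.nil))) (P.cons (P.cons (P.lf 23763875 0 0) (P.cons (P.lf 2318674 0 0) P.nil)) (P.cons (P.cons (P.lf 0 8501875 0) P.nil) P.nil)))))) 19709970)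
 (EL.cons 8 (TM.mk (P.cons (P.cons (P.lf 181787176 0 0) (P.cons (P.lf 49851095 0 0) (P.cons (P.lf 0 18078715 0) (P.cons (P.lf 0 5335932 0) (P.cons (P.lf 307992 0 0) (P.cons (P.lf 141219 0 0) P.nil)))))) (P.cons (P.cons (P.lf 169727978 0 0) (P.cons (P.lf 36212582 0 0) (P.cons (P.lf 0 13840949 0) (P.cons (P.lf 0 3265247 0) (P.cons (P.lf 159899 0 0) P.nil))))) (P.cons (P.cons (P.lf 0 78785097 0) (P.cons (P.lf 0 26962610 0) (P.cons (P.lf 9557603 0 0) (P.cons (P.lf 3076174 0 0) P.nil)))) (P.cons (P.cons (P.lf 0 65105856 0) (P.cons (P.lf 0 9723210 0) (P.cons (P.lf 4098762 0 0) P.nil))) (P.cons (P.cons (P.lf 12730895 0 0) (P.cons (P.lf 5277676 0 0) P.nil)) (P.cons (P.cons (P.lf 10950999 0 0) P.nil) P.nil)))))) 15999723)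
 EL.nil))
noncomputable def S256_314_660_808_18 : EL := (EL.cons 4 (TM.mk (P.cons (P.lf 0 44643862 0) (P.cons (P.lf 0 129702684 0) (P.cons (P.lf 0 119397478 0) (P.cons (P.lf 0 26667962 0) (P.cons (P.lf 8965736 0 0) (P.cons (P.lf 958581 0 0) P.nil)))))) 467642)
 (EL.cons 8 (TM.mk (P.cons (P.lf 103406910 0 0) (P.cons (P.lf 193647023 0 0) (P.cons (P.lf 71427862 0 0) (P.cons (P.lf 0 23572483 0) (P.cons (P.lf 0 3717003 0) (P.cons (P.lf 1166783 0 0) P.nil)))))) 289701)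
 EL.nil))
noncomputable def S256_314_660_808_19 : EL := (EL.cons 4 (TM.mk (P.cons (P.cons (P.lf 27951623 0 0) (P.cons (P.lf 3832555 0 0) (P.cons (P.lf 0 1652640 0) (P.lf 0 183626 0)))) (P.cons (P.cons (P.lf 81618284 0 0) (P.cons (P.lf 10396710 0 0) (P.cons (P.lf 0 4483178 0) (P.lf 0 498130 0)))) (P.cons (P.cons (P.lf 71454506 0 0) (P.cons (P.lf 7807801 0 0) (P.cons (P.lf 0 3366811 0) (P.lf 0 374089 0)))) (P.cons (P.cons (P.lf 4447925 0 0) (P.cons (P.lf 0 484865 0) (P.cons (P.lf 209079 0 0) P.nil))) (P.cons (P.cons (P.lf 0 17974469 0) (P.cons (P.lf 0 1805932 0) P.nil)) (P.cons (P.cons (P.lf 0 3394866 0) P.nil) P.nil)))))) 5234896)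
 (EL.cons 8 (TM.mk (P.cons (P.cons (P.lf 0 64743301 0) (P.cons (P.lf 0 8877206 0) (P.cons (P.lf 3827951 0 0) (P.lf 425327 0 0)))) (P.cons (P.cons (P.lf 0 122195148 0) (P.cons (P.lf 0 14914868 0) (P.cons (P.lf 6431459 0 0) (P.lf 714606 0 0)))) (P.cons (P.cons (P.lf 0 36092906 0) (P.cons (P.lf 0 2240164 0) (P.cons (P.lf 965984 0 0) (P.lf 107331 0 0)))) (P.cons (P.cons (P.lf 34268585 0 0) (P.cons (P.lf 4345478 0 0) (P.cons (P.lf 0 1873819 0) P.nil))) (P.cons (P.cons (P.lf 10399069 0 0) (P.cons (P.lf 95743 0 0) P.nil)) (P.cons (P.cons (P.lf 0 3725157 0) P.nil) P.nil)))))) 4013858)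
 EL.nil))
noncomputable def S256_314_660_808_20 : EL := (EL.cons 4 (TM.mk (P.cons (P.cons (P.lf 0 17500575 0) (P.cons (P.lf 0 4799143 0) (P.cons (P.lf 1740430 0 0) (P.cons (P.lf 513687 0 0) (P.cons (P.lf 0 29649 0) (P.cons (P.lf 0 13594 0) P.nil)))))) (P.cons (P.cons (P.lf 0 51358808 0) (P.cons (P.lf 0 13089398 0) (P.cons (P.lf 4815114 0 0) (P.cons (P.lf 1342248 0 0) (P.cons (P.lf 0 74724 0) P.nil))))) (P.cons (P.cons (P.lf 0 42675148 0) (P.cons (P.lf 0 9196691 0) (P.cons (P.lf 3492893 0 0) (P.cons (P.lf 848408 0 0) P.nil)))) (P.cons (P.cons (P.lf 4956027 0 0) (P.cons (P.lf 2606615 0 0) (P.cons (P.lf 0 889513 0) P.nil))) (P.cons (P.cons (P.lf 18776260 0 0) (P.cons (P.lf 3933468 0 0) P.nil)) (P.cons (P.cons (P.lf 2732100 0 0) P.nil) P.nil)))))) 14298135)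
 (EL.cons 8 (TM.mk (P.cons (P.cons (P.lf 40535927 0 0) (P.cons (P.lf 11116077 0 0) (P.cons (P.lf 0 4031293 0) (P.cons (P.lf 0 1189835 0) (P.cons (P.lf 68677 0 0) (P.cons (P.lf 31489 0 0) P.nil)))))) (P.cons (P.cons (P.lf 77102901 0 0) (P.cons (P.lf 18839971 0 0) (P.cons (P.lf 0 6990338 0) (P.cons (P.lf 0 1880370 0) (P.cons (P.lf 102164 0 0) P.nil))))) (P.cons (P.cons (P.lf 17204459 0 0) (P.cons (P.lf 1292240 0 0) (P.cons (P.lf 0 670759 0) (P.cons (P.lf 35997 0 0) P.nil)))) (P.cons (P.cons (P.lf 0 33846113 0) (P.cons (P.lf 0 8518650 0) (P.cons (P.lf 3176712 0 0) P.nil))) (P.cons (P.cons (P.lf 0 10881784 0) (P.cons (P.lf 0 742713 0) P.nil)) (P.cons (P.cons (P.lf 6158662 0 0) P.nil) P.nil)))))) 12894204)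
 EL.nil))
noncomputable def S256_314_660_808_21 : EL := (EL.cons 4 (TM.mk (P.cons (P.cons (P.lf 128836113 0 0) (P.cons (P.lf 0 231236301 0) (P.cons (P.lf 99711702 0 0) (P.lf 11079075 0 0)))) (P.cons (P.cons (P.lf 0 2821337949 0) (P.cons (P.lf 0 179412945 0) (P.cons (P.lf 77364888 0 0) (P.lf 8596095 0 0)))) (P.cons (P.cons (P.lf 0 182225172 0) (P.cons (P.lf 71835498 0 0) (P.cons (P.lf 0 30976275 0) (P.lf 0 3441804 0)))) (P.cons (P.cons (P.lf 375108093 0 0) (P.cons (P.lf 14584860 0 0) (P.cons (P.lf 0 6289155 0) P.nil))) (P.cons (P.cons (P.lf 671796 0 0) (P.cons (P.lf 0 6224448 0) P.nil)) (P.cons (P.cons (P.lf 0 22429587 0) P.nil) P.nil)))))) 11340885)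
 (EL.cons 8 (TM.mk (P.cons (P.cons (P.lf 19776849 0 0) (P.cons (P.lf 0 35495703 0) (P.cons (P.lf 15306147 0 0) (P.lf 1700685 0 0)))) (P.cons (P.cons (P.lf 0 412664961 0) (P.cons (P.lf 0 64193616 0) (P.cons (P.lf 27681009 0 0) (P.lf 3075666 0 0)))) (P.cons (P.cons (P.lf 0 474191292 0) (P.cons (P.lf 0 19185231 0) (P.cons (P.lf 8272887 0 0) (P.lf 919209 0 0)))) (P.cons (P.cons (P.lf 7420086 0 0) (P.cons (P.lf 11593836 0 0) (P.cons (P.lf 0 4999392 0) P.nil))) (P.cons (P.cons (P.lf 50195220 0 0) (P.cons (P.lf 1348602 0 0) P.nil)) (P.cons (P.cons (P.lf 0 1582347 0) P.nil) P.nil)))))) 9788109)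
 (EL.cons 11 (TM.mk (P.cons (P.cons (P.lf 1193318205 0 0) (P.cons (P.lf 0 1111686303 0) (P.cons (P.lf 0 114095178 0) (P.cons (P.lf 23728623 0 0) (P.lf 1977384 0 0))))) (P.cons (P.cons (P.lf 0 153173658 0) (P.cons (P.lf 142695432 0 0) (P.cons (P.lf 14645193 0 0) (P.cons (P.lf 0 3045792 0) (P.lf 0 253815 0))))) (P.cons (P.cons (P.lf 0 66835029 0) (P.cons (P.lf 62263014 0 0) (P.cons (P.lf 6390210 0 0) (P.cons (P.lf 0 1328985 0) P.nil)))) (P.cons (P.cons (P.lf 9288678 0 0) (P.cons (P.lf 0 8653263 0) (P.cons (P.lf 0 888105 0) P.nil))) (P.cons (P.cons (P.lf 1762794 0 0) (P.cons (P.lf 0 1642206 0) P.nil)) (P.cons (P.cons (P.lf 0 309057 0) P.nil) P.nil)))))) 983838)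
 EL.nil)))
noncomputable def S256_314_660_808_22 : EL := (EL.cons 4 (TM.mk (P.cons (P.cons (P.lf 0 80664582 0) (P.cons (P.lf 133717338 0 0) (P.cons (P.lf 0 37809408 0) (P.cons (P.lf 0 23526675 0) (P.cons (P.lf 1788942 0 0) (P.cons (P.lf 820257 0 0) P.nil)))))) (P.cons (P.cons (P.lf 1765259607 0 0) (P.cons (P.lf 358794213 0 0) (P.cons (P.lf 0 143136090 0) (P.cons (P.lf 0 27177549 0) (P.cons (P.lf 1043571 0 0) P.nil))))) (P.cons (P.cons (P.lf 153046146 0 0) (P.cons (P.lf 0 96735705 0) (P.cons (P.lf 31036062 0 0) (P.cons (P.lf 13843314 0 0) P.nil)))) (P.cons (P.cons (P.lf 0 516411357 0) (P.cons (P.lf 0 83611731 0) (P.cons (P.lf 35132256 0 0) P.nil))) (P.cons (P.cons (P.lf 0 41243361 0) (P.cons (P.lf 20216151 0 0) P.nil)) (P.cons (P.cons (P.lf 66761442 0 0) P.nil) P.nil)))))) 63869046)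
 (EL.cons 8 (TM.mk (P.cons (P.cons (P.lf 0 12382329 0) (P.cons (P.lf 20526150 0 0) (P.cons (P.lf 0 5803896 0) (P.cons (P.lf 0 3611439 0) (P.cons (P.lf 274608 0 0) (P.cons (P.lf 125910 0 0) P.nil)))))) (P.cons (P.cons (P.lf 258188337 0 0) (P.cons (P.lf 76271730 0 0) (P.cons (P.lf 0 27965085 0) (P.cons (P.lf 0 7901049 0) (P.cons (P.lf 443754 0 0) P.nil))))) (P.cons (P.cons (P.lf 302683854 0 0) (P.cons (P.lf 43048455 0 0) (P.cons (P.lf 0 18214206 0) (P.cons (P.lf 0 2363340 0) P.nil)))) (P.cons (P.cons (P.lf 0 41700054 0) (P.cons (P.lf 0 25037064 0) (P.cons (P.lf 9107337 0 0) P.nil))) (P.cons (P.cons (P.lf 0 82027386 0) (P.cons (P.lf 0 9846003 0) P.nil)) (P.cons (P.cons (P.lf 562848 0 0) P.nil) P.nil)))))) 35580990)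
 (EL.cons 11 (TM.mk (P.cons (P.cons (P.lf 0 747139239 0) (P.cons (P.lf 593586147 0 0) (P.cons (P.lf 211045191 0 0) (P.cons (P.lf 0 41306259 0) (P.cons (P.lf 0 12071226 0) (P.cons (P.lf 239349 0 0) P.nil)))))) (P.cons (P.cons (P.lf 84912726 0 0) (P.cons (P.lf 0 46230189 0) (P.cons (P.lf 0 52919283 0) (P.cons (P.lf 10176126 0 0) (P.cons (P.lf 3617055 0 0) P.nil))))) (P.cons (P.cons (P.lf 163406274 0 0) (P.cons (P.lf 0 141048795 0) (P.cons (P.lf 0 30858696 0) (P.cons (P.lf 6135627 0 0) P.nil)))) (P.cons (P.cons (P.lf 0 12889407 0) (P.cons (P.lf 7320075 0 0) (P.cons (P.lf 7620657 0 0) P.nil))) (P.cons (P.cons (P.lf 0 15741843 0) (P.cons (P.lf 14157666 0 0) P.nil)) (P.cons (P.cons (P.lf 1442178 0 0) P.nil) P.nil)))))) 17930442)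
 EL.nil)))
noncomputable def S256_314_660_808_23 : EL := (EL.cons 4 (TM.mk (P.cons (P.cons (P.lf 28728600 0 0) (P.cons (P.lf 0 51562371 0) (P.cons (P.lf 22234275 0 0) (P.lf 2470473 0 0)))) (P.cons (P.cons (P.lf 0 601296327 0) (P.cons (P.lf 0 89940792 0) (P.cons (P.lf 38783484 0 0) (P.lf 4309272 0 0)))) (P.cons (P.cons (P.lf 0 651218970 0) (P.cons (P.lf 0 20334288 0) (P.cons (P.lf 8768376 0 0) (P.lf 974262 0 0)))) (P.cons (P.cons (P.lf 73065429 0 0) (P.cons (P.lf 21332499 0 0) (P.cons (P.lf 0 9198813 0) P.nil))) (P.cons (P.cons (P.lf 91767621 0 0) (P.cons (P.lf 1511703 0 0) P.nil)) (P.cons (P.cons (P.lf 0 8902770 0) P.nil) P.nil)))))) 16804626)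
 (EL.cons 8 (TM.mk (P.cons (P.cons (P.lf 4409952 0 0) (P.cons (P.lf 0 7915029 0) (P.cons (P.lf 3413049 0 0) (P.lf 379227 0 0)))) (P.cons (P.cons (P.lf 0 87747648 0) (P.cons (P.lf 0 21979365 0) (P.cons (P.lf 9477750 0 0) (P.lf 1053081 0 0)))) (P.cons (P.cons (P.lf 0 195055179 0) (P.cons (P.lf 0 17773323 0) (P.cons (P.lf 7664055 0 0) (P.lf 851559 0 0)))) (P.cons (P.cons (P.lf 0 96539061 0) (P.cons (P.lf 0 784575 0) (P.cons (P.lf 338316 0 0) P.nil))) (P.cons (P.cons (P.lf 18975060 0 0) (P.cons (P.lf 3191346 0 0) P.nil)) (P.cons (P.cons (P.lf 11764947 0 0) P.nil) P.nil)))))) 7848909)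
 (EL.cons 11 (TM.mk (P.cons (P.cons (P.lf 266092812 0 0) (P.cons (P.lf 0 247890069 0) (P.cons (P.lf 0 25441584 0) (P.cons (P.lf 5291139 0 0) (P.lf 440928 0 0))))) (P.cons (P.cons (P.lf 223535376 0 0) (P.cons (P.lf 0 208243881 0) (P.cons (P.lf 0 21372594 0) (P.cons (P.lf 4444905 0 0) (P.lf 370407 0 0))))) (P.cons (P.cons (P.lf 0 60317883 0) (P.cons (P.lf 56191689 0 0) (P.cons (P.lf 5767095 0 0) (P.cons (P.lf 0 1199394 0) P.nil)))) (P.cons (P.cons (P.lf 0 14456541 0) (P.cons (P.lf 13467606 0 0) (P.cons (P.lf 1382214 0 0) P.nil))) (P.cons (P.cons (P.lf 3873057 0 0) (P.cons (P.lf 0 3608109 0) P.nil)) (P.cons (P.cons (P.lf 430101 0 0) P.nil) P.nil)))))) 2300838)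
 EL.nil)))
noncomputable def S256_314_660_808_24 : EL := (EL.cons 4 (TM.mk (P.cons (P.cons (P.lf 0 17987040 0) (P.cons (P.lf 29817045 0 0) (P.cons (P.lf 0 8430954 0) (P.cons (P.lf 0 5246109 0) (P.cons (P.lf 398907 0 0) (P.cons (P.lf 182904 0 0) P.nil)))))) (P.cons (P.cons (P.lf 376208424 0 0) (P.cons (P.lf 108881520 0 0) (P.cons (P.lf 0 40082037 0) (P.cons (P.lf 0 11140665 0) (P.cons (P.lf 619014 0 0) P.nil))))) (P.cons (P.cons (P.lf 416159766 0 0) (P.cons (P.lf 54526596 0 0) (P.cons (P.lf 0 23597994 0) (P.cons (P.lf 0 2538750 0) P.nil)))) (P.cons (P.cons (P.lf 0 100104921 0) (P.cons (P.lf 0 43655541 0) (P.cons (P.lf 16132491 0 0) P.nil))) (P.cons (P.cons (P.lf 0 127758309 0) (P.cons (P.lf 0 13618716 0) P.nil)) (P.cons (P.cons (P.lf 11304558 0 0) P.nil) P.nil)))))) 61549560)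
 (EL.cons 8 (TM.mk (P.cons (P.cons (P.lf 0 2761080 0) (P.cons (P.lf 4577034 0 0) (P.cons (P.lf 0 1294185 0) (P.cons (P.lf 0 805299 0) (P.cons (P.lf 61233 0 0) (P.cons (P.lf 28074 0 0) P.nil)))))) (P.cons (P.cons (P.lf 54898389 0 0) (P.cons (P.lf 21440016 0 0) (P.cons (P.lf 0 7489134 0) (P.cons (P.lf 0 2541690 0) (P.cons (P.lf 158250 0 0) P.nil))))) (P.cons (P.cons (P.lf 123376605 0 0) (P.cons (P.lf 25857456 0 0) (P.cons (P.lf 0 10040415 0) (P.cons (P.lf 0 2195841 0) P.nil)))) (P.cons (P.cons (P.lf 53433294 0 0) (P.cons (P.lf 2861343 0 0) (P.cons (P.lf 0 1595436 0) P.nil))) (P.cons (P.cons (P.lf 0 31224417 0) (P.cons (P.lf 0 8276994 0) P.nil)) (P.cons (P.cons (P.lf 0 18023085 0) P.nil) P.nil)))))) 22922301)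
 (EL.cons 11 (TM.mk (P.cons (P.cons (P.lf 0 166601313 0) (P.cons (P.lf 132361179 0 0) (P.cons (P.lf 47060043 0 0) (P.cons (P.lf 0 9210702 0) (P.cons (P.lf 0 2691708 0) (P.cons (P.lf 53370 0 0) P.nil)))))) (P.cons (P.cons (P.lf 0 142406538 0) (P.cons (P.lf 117873192 0 0) (P.cons (P.lf 33773877 0 0) (P.cons (P.lf 0 6650742 0) (P.cons (P.lf 0 1800165 0) P.nil))))) (P.cons (P.cons (P.lf 62498298 0 0) (P.cons (P.lf 0 47572041 0) (P.cons (P.lf 0 20490660 0) (P.cons (P.lf 3992700 0 0) P.nil)))) (P.cons (P.cons (P.lf 33837957 0 0) (P.cons (P.lf 0 30178419 0) (P.cons (P.lf 0 5067960 0) P.nil))) (P.cons (P.cons (P.lf 0 8439489 0) (P.cons (P.lf 6493161 0 0) P.nil)) (P.cons (P.cons (P.lf 0 3456360 0) P.nil) P.nil)))))) 17941467)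
 EL.nil)))
noncomputable def S256_314_660_808_25 : EL := (EL.cons 4 (TM.mk (P.cons (P.cons (P.lf 6406065 0 0) (P.cons (P.lf 0 11497668 0) (P.cons (P.lf 4957923 0 0) (P.lf 550878 0 0)))) (P.cons (P.cons (P.lf 0 127876647 0) (P.cons (P.lf 0 31190130 0) (P.cons (P.lf 13449537 0 0) (P.lf 1494390 0 0)))) (P.cons (P.cons (P.lf 0 275356329 0) (P.cons (P.lf 0 23423406 0) (P.cons (P.lf 10100436 0 0) (P.lf 1122270 0 0)))) (P.cons (P.cons (P.lf 0 118206663 0) (P.cons (P.lf 1454598 0 0) (P.cons (P.lf 0 627237 0) P.nil))) (P.cons (P.cons (P.lf 44834991 0 0) (P.cons (P.lf 5417796 0 0) P.nil)) (P.cons (P.cons (P.lf 18928194 0 0) P.nil) P.nil)))))) 15688125)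
 (EL.cons 8 (TM.mk (P.cons (P.cons (P.lf 983355 0 0) (P.cons (P.lf 0 1764936 0) (P.cons (P.lf 761061 0 0) (P.lf 84561 0 0)))) (P.cons (P.cons (P.lf 0 18614157 0) (P.cons (P.lf 0 6610293 0) (P.cons (P.lf 2850432 0 0) (P.lf 316713 0 0)))) (P.cons (P.cons (P.lf 0 62488746 0) (P.cons (P.lf 0 8627694 0) (P.cons (P.lf 3720357 0 0) (P.lf 413373 0 0)))) (P.cons (P.cons (P.lf 0 62754363 0) (P.cons (P.lf 0 3761364 0) (P.cons (P.lf 1621941 0 0) P.nil))) (P.cons (P.cons (P.lf 0 14327634 0) (P.cons (P.lf 791649 0 0) P.nil)) (P.cons (P.cons (P.lf 8297715 0 0) P.nil) P.nil)))))) 8050188)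
 (EL.cons 11 (TM.mk (P.cons (P.cons (P.lf 59334873 0 0) (P.cons (P.lf 0 55275921 0) (P.cons (P.lf 0 5673105 0) (P.cons (P.lf 1179846 0 0) (P.lf 98319 0 0))))) (P.cons (P.cons (P.lf 107306544 0 0) (P.cons (P.lf 0 99965973 0) (P.cons (P.lf 0 10259760 0) (P.cons (P.lf 2133744 0 0) (P.lf 177810 0 0))))) (P.cons (P.cons (P.lf 32070186 0 0) (P.cons (P.lf 0 29876343 0) (P.cons (P.lf 0 3066282 0) (P.cons (P.lf 637701 0 0) P.nil)))) (P.cons (P.cons (P.lf 0 19380348 0) (P.cons (P.lf 18054588 0 0) (P.cons (P.lf 1852986 0 0) P.nil))) (P.cons (P.cons (P.lf 0 2254338 0) (P.cons (P.lf 2100123 0 0) P.nil)) (P.cons (P.cons (P.lf 1336689 0 0) P.nil) P.nil)))))) 3481563)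
 EL.nil)))
noncomputable def S256_314_660_808_26 : EL := (EL.cons 4 (TM.mk (P.cons (P.cons (P.lf 0 4010850 0) (P.cons (P.lf 6648771 0 0) (P.cons (P.lf 0 1879980 0) (P.cons (P.lf 0 1169805 0) (P.cons (P.lf 88950 0 0) (P.cons (P.lf 40785 0 0) P.nil)))))) (P.cons (P.cons (P.lf 80004861 0 0) (P.cons (P.lf 30717849 0 0) (P.cons (P.lf 0 10758339 0) (P.cons (P.lf 0 3617079 0) (P.cons (P.lf 224172 0 0) P.nil))))) (P.cons (P.cons (P.lf 174223878 0 0) (P.cons (P.lf 35362773 0 0) (P.cons (P.lf 0 13830354 0) (P.cons (P.lf 0 2917635 0) P.nil)))) (P.cons (P.cons (P.lf 63711468 0 0) (P.cons (P.lf 822543 0 0) (P.cons (P.lf 0 1058154 0) P.nil))) (P.cons (P.cons (P.lf 0 55572489 0) (P.cons (P.lf 0 13355598 0) P.nil)) (P.cons (P.cons (P.lf 0 25218651 0) P.nil) P.nil)))))) 41258544)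
 (EL.cons 8 (TM.mk (P.cons (P.cons (P.lf 0 615681 0) (P.cons (P.lf 1020612 0 0) (P.cons (P.lf 0 288582 0) (P.cons (P.lf 0 179568 0) (P.cons (P.lf 13653 0 0) (P.cons (P.lf 6258 0 0) P.nil)))))) (P.cons (P.cons (P.lf 11645310 0 0) (P.cons (P.lf 5769201 0 0) (P.cons (P.lf 0 1949439 0) (P.cons (P.lf 0 740661 0) (P.cons (P.lf 48510 0 0) P.nil))))) (P.cons (P.cons (P.lf 39394779 0 0) (P.cons (P.lf 10348380 0 0) (P.cons (P.lf 0 3842727 0) (P.cons (P.lf 0 1030179 0) P.nil)))) (P.cons (P.cons (P.lf 37998321 0 0) (P.cons (P.lf 5986044 0 0) (P.cons (P.lf 0 2442516 0) P.nil))) (P.cons (P.cons (P.lf 3130509 0 0) (P.cons (P.lf 0 1559997 0) P.nil)) (P.cons (P.cons (P.lf 0 11680233 0) P.nil) P.nil)))))) 16600038)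
 (EL.cons 11 (TM.mk (P.cons (P.cons (P.lf 0 37149696 0) (P.cons (P.lf 29514639 0 0) (P.cons (P.lf 10493712 0 0) (P.cons (P.lf 0 2053854 0) (P.cons (P.lf 0 600210 0) (P.cons (P.lf 11901 0 0) P.nil)))))) (P.cons (P.cons (P.lf 0 67731303 0) (P.cons (P.lf 54866739 0 0) (P.cons (P.lf 17693463 0 0) (P.cons (P.lf 0 3472023 0) (P.cons (P.lf 0 982671 0) P.nil))))) (P.cons (P.cons (P.lf 0 15093261 0) (P.cons (P.lf 13477758 0 0) (P.cons (P.lf 2237622 0 0) (P.cons (P.lf 0 450648 0) P.nil)))) (P.cons (P.cons (P.lf 23027484 0 0) (P.cons (P.lf 0 18629007 0) (P.cons (P.lf 0 6049194 0) P.nil))) (P.cons (P.cons (P.lf 5174682 0 0) (P.cons (P.lf 0 4906038 0) P.nil)) (P.cons (P.cons (P.lf 0 3179541 0) P.nil) P.nil)))))) 14651682)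
 EL.nil)))
noncomputable def S256_314_660_808_27 : EL := (EL.cons 13 (TM.mk (P.lf 0 4294967296 0) 0)
 EL.nil)
noncomputable def S256_314_660_808_28 : EL := (EL.cons 13 (TM.mk (P.cons (P.cons (P.lf 2689088784 0 0) (P.cons (P.lf 368711436 0 0) (P.cons (P.lf 0 158992532 0) (P.lf 0 17665836 0)))) (P.cons (P.cons (P.lf 39553720 0 0) (P.cons (P.lf 0 70991388 0) (P.cons (P.lf 30612284 0 0) (P.lf 3401364 0 0)))) (P.cons (P.cons (P.lf 0 432441815 0) (P.cons (P.lf 0 28697924 0) (P.cons (P.lf 12374868 0 0) (P.lf 1374984 0 0)))) (P.cons (P.cons (P.lf 0 27832986 0) (P.cons (P.lf 6341792 0 0) (P.cons (P.lf 0 2734652 0) P.nil))) (P.cons (P.cons (P.lf 24584771 0 0) (P.cons (P.lf 1040572 0 0) P.nil)) (P.cons (P.cons (P.lf 410267 0 0) P.nil) P.nil)))))) 2954836)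
 EL.nil)
noncomputable def S256_314_660_808_29 : EL := (EL.cons 13 (TM.mk (P.cons (P.cons (P.lf 0 1683644598 0) (P.cons (P.lf 0 461702135 0) (P.cons (P.lf 167438282 0 0) (P.cons (P.lf 49419405 0 0) (P.cons (P.lf 0 2852509 0) (P.cons (P.lf 0 1307919 0) P.nil)))))) (P.cons (P.cons (P.lf 0 49529347 0) (P.cons (P.lf 82104576 0 0) (P.cons (P.lf 0 23215574 0) (P.cons (P.lf 0 14445753 0) (P.cons (P.lf 1098439 0 0) P.nil))))) (P.cons (P.cons (P.lf 541141343 0 0) (P.cons (P.lf 111491177 0 0) (P.cons (P.lf 0 44322387 0) (P.cons (P.lf 0 8579222 0) P.nil)))) (P.cons (P.cons (P.lf 42817580 0 0) (P.cons (P.lf 0 16929505 0) (P.cons (P.lf 5262646 0 0) P.nil))) (P.cons (P.cons (P.lf 0 73813225 0) (P.cons (P.lf 0 12339932 0) P.nil)) (P.cons (P.cons (P.lf 0 6571323 0) P.nil) P.nil)))))) 28314350)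
 EL.nil)
noncomputable def S256_314_660_808_30 : EL := (EL.cons 13 (TM.mk (P.cons (P.lf 0 957715992 0) (P.cons (P.lf 0 927476000 0) (P.cons (P.lf 44405152 0 0) (P.cons (P.lf 13240480 0 0) (P.cons (P.lf 0 1119116 0) (P.cons (P.lf 0 173696 0) P.nil)))))) 29016)
 EL.nil)
noncomputable def S256_314_660_808_31 : EL := (EL.cons 13 (TM.mk (P.cons (P.cons (P.lf 599628158 0 0) (P.cons (P.lf 82217352 0 0) (P.cons (P.lf 0 35453050 0) (P.lf 0 3939227 0)))) (P.cons (P.cons (P.lf 589514742 0 0) (P.cons (P.lf 63791270 0 0) (P.cons (P.lf 0 27507516 0) (P.lf 0 3056390 0)))) (P.cons (P.cons (P.lf 0 115689055 0) (P.cons (P.lf 0 25541511 0) (P.cons (P.lf 11013787 0 0) (P.lf 1223753 0 0)))) (P.cons (P.cons (P.lf 0 108288767 0) (P.cons (P.lf 0 5185728 0) (P.cons (P.lf 2236144 0 0) P.nil))) (P.cons (P.cons (P.lf 4521370 0 0) (P.cons (P.lf 2213138 0 0) P.nil)) (P.cons (P.cons (P.lf 7140384 0 0)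 P.nil) P.nil)))))) 3852521)
 EL.nil)
noncomputable def S256_314_660_808_32 : EL := (EL.cons 13 (TM.mk (P.cons (P.cons (P.lf 0 375428552 0) (P.cons (P.lf 0 102952941 0) (P.cons (P.lf 37336330 0 0) (P.cons (P.lf 11019817 0 0) (P.cons (P.lf 0 636068 0) (P.cons (P.lf 0 291647 0) P.nil)))))) (P.cons (P.cons (P.lf 0 374618686 0) (P.cons (P.lf 0 81394050 0) (P.cons (P.lf 30980692 0 0) (P.cons (P.lf 7450669 0 0) (P.cons (P.lf 0 371048 0) P.nil))))) (P.cons (P.cons (P.lf 127378136 0 0) (P.cons (P.lf 47364472 0 0) (P.cons (P.lf 0 16627663 0) (P.cons (P.lf 0 5543470 0) P.nil)))) (P.cons (P.cons (P.lf 132106782 0 0) (P.cons (P.lf 20875368 0 0) (P.cons (P.lf 0 8673850 0) P.nil))) (P.cons (P.cons (P.lf 0 13093858 0) (P.cons (P.lf 0 7933574 0) P.nil)) (P.cons (P.cons (P.lf 0 19596801 0) P.nil) P.nil)))))) 24032193)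
 EL.nil)
noncomputable def S256_314_660_808_33 : EL := (EL.cons 14 (TM.mk (P.lf 8589934592 0 0) 0)
 EL.nil)
noncomputable def S256_314_660_808_34 : EL := (EL.cons 14 (TM.mk (P.cons (P.cons (P.lf 0 5378177568 0) (P.cons (P.lf 0 737422872 0) (P.cons (P.lf 317985064 0 0) (P.lf 35331672 0 0)))) (P.cons (P.cons (P.lf 0 79107440 0) (P.cons (P.lf 141982776 0 0) (P.cons (P.lf 0 61224568 0) (P.lf 0 6802728 0)))) (P.cons (P.cons (P.lf 864883630 0 0) (P.cons (P.lf 57395848 0 0) (P.cons (P.lf 0 24749736 0) (P.lf 0 2749968 0)))) (P.cons (P.cons (P.lf 55665972 0 0) (P.cons (P.lf 0 12683584 0) (P.cons (P.lf 5469304 0 0) P.nil))) (P.cons (P.cons (P.lf 0 49169542 0) (P.cons (P.lf 0 2081144 0) P.nil)) (P.cons (P.cons (P.lf 0 820534 0) P.nil) P.nil)))))) 5909672)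
 EL.nil)
noncomputable def S256_314_660_808_35 : EL := (EL.cons 14 (TM.mk (P.cons (P.cons (P.lf 3367289196 0 0) (P.cons (P.lf 923404270 0 0) (P.cons (P.lf 0 334876564 0) (P.cons (P.lf 0 98838810 0) (P.cons (P.lf 5705018 0 0) (P.cons (P.lf 2615838 0 0) P.nil)))))) (P.cons (P.cons (P.lf 99058694 0 0) (P.cons (P.lf 0 164209152 0) (P.cons (P.lf 46431148 0 0) (P.cons (P.lf 28891506 0 0) (P.cons (P.lf 0 2196878 0) P.nil))))) (P.cons (P.cons (P.lf 0 1082282686 0) (P.cons (P.lf 0 222982354 0) (P.cons (P.lf 88644774 0 0) (P.cons (P.lf 17158444 0 0) P.nil)))) (P.cons (P.cons (P.lf 0 85635160 0) (P.cons (P.lf 33859010 0 0) (P.cons (P.lf 0 10525292 0) P.nil))) (P.cons (P.cons (P.lf 147626450 0 0) (P.cons (P.lf 24679864 0 0) P.nil)) (P.cons (P.cons (P.lf 13142646 0 0) P.nil) P.nil)))))) 56628700)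
 EL.nil)
noncomputable def S256_314_660_808_36 : EL := (EL.cons 14 (TM.mk (P.cons (P.lf 1915431984 0 0) (P.cons (P.lf 1854952000 0 0) (P.cons (P.lf 0 88810304 0) (P.cons (P.lf 0 26480960 0) (P.cons (P.lf 2238232 0 0) (P.cons (P.lf 347392 0 0) P.nil)))))) 58032)
 EL.nil)
noncomputable def S256_314_660_808_37 : EL := (EL.cons 14 (TM.mk (P.cons (P.cons (P.lf 0 1199256316 0) (P.cons (P.lf 0 164434704 0) (P.cons (P.lf 70906100 0 0) (P.lf 7878454 0 0)))) (P.cons (P.cons (P.lf 0 1179029484 0) (P.cons (P.lf 0 127582540 0) (P.cons (P.lf 55015032 0 0) (P.lf 6112780 0 0)))) (P.cons (P.cons (P.lf 231378110 0 0) (P.cons (P.lf 51083022 0 0) (P.cons (P.lf 0 22027574 0) (P.lf 0 2447506 0)))) (P.cons (P.cons (P.lf 216577534 0 0) (P.cons (P.lf 10371456 0 0) (P.cons (P.lf 0 4472288 0) P.nil))) (P.cons (P.cons (P.lf 0 9042740 0) (P.cons (P.lf 0 4426276 0) P.nil)) (P.cons (P.cons (P.lf 0 14280768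 0) P.nil) P.nil)))))) 7705042)
 EL.nil)
noncomputable def S256_314_660_808_38 : EL := (EL.cons 14 (TM.mk (P.cons (P.cons (P.lf 750857104 0 0) (P.cons (P.lf 205905882 0 0) (P.cons (P.lf 0 74672660 0) (P.cons (P.lf 0 22039634 0) (P.cons (P.lf 1272136 0 0) (P.cons (P.lf 583294 0 0) P.nil)))))) (P.cons (P.cons (P.lf 749237372 0 0) (P.cons (P.lf 162788100 0 0) (P.cons (P.lf 0 61961384 0) (P.cons (P.lf 0 14901338 0) (P.cons (P.lf 742096 0 0) P.nil))))) (P.cons (P.cons (P.lf 0 254756272 0) (P.cons (P.lf 0 94728944 0) (P.cons (P.lf 33255326 0 0) (P.cons (P.lf 11086940 0 0) P.nil)))) (P.cons (P.cons (P.lf 0 264213564 0) (P.cons (P.lf 0 41750736 0) (P.cons (P.lf 17347700 0 0) P.nil))) (P.cons (P.cons (P.lf 26187716 0 0) (P.cons (P.lf 15867148 0 0) P.nil)) (P.cons (P.cons (P.lf 39193602 0 0) P.nil) P.nil)))))) 48064386)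
 EL.nil)
noncomputable def S256_314_660_808_39 : EL := (EL.cons 14 (TM.mk (P.cons (P.lf 427113808 0 0) (P.cons (P.lf 827255282 0 0) (P.cons (P.lf 360960458 0 0) (P.cons (P.lf 0 50165998 0) (P.cons (P.lf 0 9520466 0) (P.cons (P.lf 1669162 0 0) P.nil)))))) 354406)
 EL.nil)
noncomputable def S256_314_660_808_40 : EL := (EL.cons 14 (TM.mk (P.cons (P.cons (P.lf 0 267416924 0) (P.cons (P.lf 0 36666576 0) (P.cons (P.lf 15811040 0 0) (P.lf 1756782 0 0)))) (P.cons (P.cons (P.lf 0 521879838 0) (P.cons (P.lf 0 63957898 0) (P.cons (P.lf 27579366 0 0) (P.lf 3064374 0 0)))) (P.cons (P.cons (P.lf 0 190612364 0) (P.cons (P.lf 0 14459938 0) (P.cons (P.lf 6235288 0 0) (P.lf 692810 0 0)))) (P.cons (P.cons (P.lf 114145484 0 0) (P.cons (P.lf 15169778 0 0) (P.cons (P.lf 0 6541378 0) P.nil))) (P.cons (P.cons (P.lf 45682422 0 0) (P.cons (P.lf 1074988 0 0) P.nil)) (P.cons (P.cons (P.lf 0 8445310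 0) P.nil) P.nil)))))) 11068682)
 EL.nil)
noncomputable def S256_314_660_808_41 : EL := (EL.cons 14 (TM.mk (P.cons (P.cons (P.lf 167430344 0 0) (P.cons (P.lf 45914052 0 0) (P.cons (P.lf 0 16650930 0) (P.cons (P.lf 0 4914520 0) (P.cons (P.lf 283668 0 0) (P.cons (P.lf 130066 0 0) P.nil)))))) (P.cons (P.cons (P.lf 329212880 0 0) (P.cons (P.lf 80763718 0 0) (P.cons (P.lf 0 29941674 0) (P.cons (P.lf 0 8082128 0) (P.cons (P.lf 440188 0 0) P.nil))))) (P.cons (P.cons (P.lf 97223928 0 0) (P.cons (P.lf 11901218 0 0) (P.cons (P.lf 0 5192748 0) (P.cons (P.lf 0 517772 0) P.nil)))) (P.cons (P.cons (P.lf 0 123990138 0) (P.cons (P.lf 0 32083850 0) (P.cons (P.lf 11920414 0 0) P.nil))) (P.cons (P.cons (P.lf 0 50696268 0) (P.cons (P.lf 0 4946506 0) P.nil)) (P.cons (P.cons (P.lf 18137334 0 0) P.nil) P.nil)))))) 42047890)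
 EL.nil)
noncomputable def S256_314_660_808_42 : EL := (EL.cons 14 (TM.mk (P.cons (P.lf 95240240 0 0) (P.cons (P.lf 276699060 0 0) (P.cons (P.lf 254714620 0 0) (P.cons (P.lf 56891654 0 0) (P.cons (P.lf 0 19126904 0) (P.cons (P.lf 0 2044974 0) P.nil)))))) 997622)
 EL.nil)
noncomputable def S256_314_660_808_43 : EL := (EL.cons 14 (TM.mk (P.cons (P.cons (P.lf 0 59630130 0) (P.cons (P.lf 0 8176118 0) (P.cons (P.lf 3525634 0 0) (P.lf 391736 0 0)))) (P.cons (P.cons (P.lf 0 174119006 0) (P.cons (P.lf 0 22179648 0) (P.cons (P.lf 9564114 0 0) (P.lf 1062678 0 0)))) (P.cons (P.cons (P.lf 0 152436280 0) (P.cons (P.lf 0 16656644 0) (P.cons (P.lf 7182532 0 0) (P.lf 798058 0 0)))) (P.cons (P.cons (P.lf 0 9488908 0) (P.cons (P.lf 1034380 0 0) (P.cons (P.lf 0 446036 0) P.nil))) (P.cons (P.cons (P.lf 38345534 0 0) (P.cons (P.lf 3852656 0 0) P.nil)) (P.cons (P.cons (P.lf 7242382 0 0) P.nil)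 P.nil)))))) 11167738)
 EL.nil)
noncomputable def S256_314_660_808_44 : EL := (EL.cons 14 (TM.mk (P.cons (P.cons (P.lf 37334560 0 0) (P.cons (P.lf 10238172 0 0) (P.cons (P.lf 0 3712918 0) (P.cons (P.lf 0 1095866 0) (P.cons (P.lf 63252 0 0) (P.cons (P.lf 29002 0 0) P.nil)))))) (P.cons (P.cons (P.lf 109565458 0 0) (P.cons (P.lf 27924050 0 0) (P.cons (P.lf 0 10272244 0) (P.cons (P.lf 0 2863464 0) (P.cons (P.lf 159412 0 0) P.nil))))) (P.cons (P.cons (P.lf 91040316 0 0) (P.cons (P.lf 19619608 0 0) (P.cons (P.lf 0 7451506 0) (P.cons (P.lf 0 1809938 0) P.nil)))) (P.cons (P.cons (P.lf 0 10572858 0) (P.cons (P.lf 0 5560780 0) (P.cons (P.lf 1897628 0 0) P.nil))) (P.cons (P.cons (P.lf 0 40056022 0) (P.cons (P.lf 0 8391400 0) P.nil)) (P.cons (P.cons (P.lf 0 5828480 0) P.nil) P.nil)))))) 30502642)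
 EL.nil)
noncomputable def S256_314_660_808_45 : EL := (EL.cons 14 (TM.mk (P.cons (P.cons (P.lf 0 2108267416 0) (P.cons (P.lf 0 867218268 0) (P.cons (P.lf 255046628 0 0) (P.cons (P.lf 138664504 0 0) (P.cons (P.lf 0 3685350 0) (P.cons (P.lf 0 7163786 0) P.nil)))))) (P.cons (P.cons (P.lf 0 93031310 0) (P.cons (P.lf 141461700 0 0) (P.cons (P.lf 0 16960114 0) (P.cons (P.lf 0 41619500 0) (P.cons (P.lf 0 92100 0) P.nil))))) (P.cons (P.cons (P.lf 1015745276 0 0) (P.cons (P.lf 351143436 0 0) (P.cons (P.lf 0 117519722 0) (P.cons (P.lf 0 45393318 0) P.nil)))) (P.cons (P.cons (P.lf 95378534 0 0) (P.cons (P.lf 0 44542798 0) (P.cons (P.lf 5627786 0 0) P.nil))) (P.cons (P.cons (P.lf 0 219243732 0) (P.cons (P.lf 0 66847284 0) P.nil)) (P.cons (P.cons (P.lf 0 26112682 0) P.nil) P.nil)))))) 171770998)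
 EL.nil)
noncomputable def S256_314_660_808_46 : EL := (EL.cons 15 (TM.mk (P.lf 4294967296 0 0) 0)
 EL.nil)
noncomputable def S256_314_660_808_47 : EL := (EL.cons 15 (TM.mk (P.cons (P.cons (P.lf 0 2689088784 0) (P.cons (P.lf 0 368711436 0) (P.cons (P.lf 158992532 0 0) (P.lf 17665836 0 0)))) (P.cons (P.cons (P.lf 0 39553720 0) (P.cons (P.lf 70991388 0 0) (P.cons (P.lf 0 30612284 0) (P.lf 0 3401364 0)))) (P.cons (P.cons (P.lf 432441815 0 0) (P.cons (P.lf 28697924 0 0) (P.cons (P.lf 0 12374868 0) (P.lf 0 1374984 0)))) (P.cons (P.cons (P.lf 27832986 0 0) (P.cons (P.lf 0 6341792 0) (P.cons (P.lf 2734652 0 0) P.nil))) (P.cons (P.cons (P.lf 0 24584771 0) (P.cons (P.lf 0 1040572 0) P.nil)) (P.cons (P.cons (P.lf 0 410267 0) P.nil) P.nil)))))) 2954836)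
 EL.nil)
noncomputable def S256_314_660_808_48 : EL := (EL.cons 15 (TM.mk (P.cons (P.cons (P.lf 1683644598 0 0) (P.cons (P.lf 461702135 0 0) (P.cons (P.lf 0 167438282 0) (P.cons (P.lf 0 49419405 0) (P.cons (P.lf 2852509 0 0) (P.cons (P.lf 1307919 0 0) P.nil)))))) (P.cons (P.cons (P.lf 49529347 0 0) (P.cons (P.lf 0 82104576 0) (P.cons (P.lf 23215574 0 0) (P.cons (P.lf 14445753 0 0) (P.cons (P.lf 0 1098439 0) P.nil))))) (P.cons (P.cons (P.lf 0 541141343 0) (P.cons (P.lf 0 111491177 0) (P.cons (P.lf 44322387 0 0) (P.cons (P.lf 8579222 0 0) P.nil)))) (P.cons (P.cons (P.lf 0 42817580 0) (P.cons (P.lf 16929505 0 0) (P.cons (P.lf 0 5262646 0) P.nil))) (P.cons (P.cons (P.lf 73813225 0 0) (P.cons (P.lf 12339932 0 0) P.nil)) (P.cons (P.cons (P.lf 6571323 0 0) P.nil) P.nil)))))) 28314350)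
 EL.nil)
noncomputable def S256_314_660_808 : SL := (SL.cons S256_314_660_808_0 (SL.cons S256_314_660_808_1 (SL.cons S256_314_660_808_2 (SL.cons S256_314_660_808_3 (SL.cons S256_314_660_808_4 (SL.cons S256_314_660_808_5 (SL.cons S256_314_660_808_6 (SL.cons S256_314_660_808_7 (SL.cons S256_314_660_808_8 (SL.cons S256_314_660_808_9 (SL.cons S256_314_660_808_10 (SL.cons S256_314_660_808_11 (SL.cons S256_314_660_808_12 (SL.cons S256_314_660_808_13 (SL.cons S256_314_660_808_14 (SL.cons S256_314_660_808_15 (SL.cons S256_314_660_808_16 (SL.cons S256_314_660_808_17 (SL.cons S256_314_660_808_18 (SL.cons S256_314_660_808_19 (SL.cons S256_314_660_808_20 (SL.cons S256_314_660_808_21 (SL.cons S256_314_660_808_22 (SL.cons S256_314_660_808_23 (SL.cons S256_314_660_808_24 (SL.cons S256_314_660_808_25 (SL.cons S256_314_660_808_26 (SL.cons S256_314_660_808_27 (SL.cons S256_314_660_808_28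 (SL.cons S256_314_660_808_29 (SL.cons S256_314_660_808_30 (SL.cons S256_314_660_808_31 (SL.cons S256_314_660_808_32 (SL.cons S256_314_660_808_33 (SL.cons S256_314_660_808_34 (SL.cons S256_314_660_808_35 (SL.cons S256_314_660_808_36 (SL.cons S256_314_660_808_37 (SL.cons S256_314_660_808_38 (SL.cons S256_314_660_808_39 (SL.cons S256_314_660_808_40 (SL.cons S256_314_660_808_41 (SL.cons S256_314_660_808_42 (SL.cons S256_314_660_808_43 (SL.cons S256_314_660_808_44 (SL.cons S256_314_660_808_45 (SL.cons S256_314_660_808_46 (SL.cons S256_314_660_808_47 (SL.cons S256_314_660_808_48 SL.nil)))))))))))))))))))))))))))))))))))))))))))))))))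
noncomputable def S256_314_734_771_0 : EL := (EL.cons 0 (TM.mk (P.cons (P.lf 8080323868 0 0) (P.cons (P.lf 0 727079837 0) (P.cons (P.lf 0 317250402 0) (P.cons (P.lf 44091209 0 0) (P.cons (P.lf 8367597 0 0) (P.cons (P.lf 0 1467036 0) P.nil)))))) 311496)
 (EL.cons 1 (TM.mk (P.cons (P.lf 869508750 0 0) (P.cons (P.lf 786249082 0 0) (P.cons (P.lf 0 120498519 0) (P.cons (P.lf 0 33042157 0) (P.cons (P.lf 5010903 0 0) (P.cons (P.lf 683975 0 0) P.nil)))))) 177172)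
 (EL.cons 5 (TM.mk (P.cons (P.lf 4428440364 0 0) (P.cons (P.lf 258517274 0 0) (P.cons (P.lf 112800140 0 0) (P.cons (P.lf 0 15676876 0) (P.cons (P.lf 0 2975142 0) (P.cons (P.lf 521612 0 0) P.nil)))))) 117185)
 (EL.cons 9 (TM.mk (P.lf 6442450944 0 0) 2)
 EL.nil))))
noncomputable def S256_314_734_771_1 : EL := (EL.cons 0 (TM.mk (P.cons (P.cons (P.lf 0 5245687582 0) (P.cons (P.lf 0 115729035 0) (P.cons (P.lf 17430215 0 0) (P.lf 446934 0 0)))) (P.cons (P.cons (P.lf 1589297126 0 0) (P.cons (P.lf 70681833 0 0) (P.cons (P.lf 0 10645543 0) (P.lf 0 272951 0)))) (P.cons (P.cons (P.lf 2263796377 0 0) (P.cons (P.lf 20807127 0 0) (P.cons (P.lf 0 3133803 0) (P.lf 0 80343 0)))) (P.cons (P.cons (P.lf 0 197155752 0) (P.cons (P.lf 0 12758723 0) (P.cons (P.lf 1921608 0 0) P.nil))) (P.cons (P.cons (P.lf 0 261911664 0) (P.cons (P.lf 0 1129743 0) P.nil)) (P.cons (P.cons (P.lf 24483190 0 0) P.nil)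 P.nil)))))) 25254812)
 (EL.cons 1 (TM.mk (P.cons (P.cons (P.lf 0 525986218 0) (P.cons (P.lf 0 34736877 0) (P.cons (P.lf 5231798 0 0) (P.lf 134145 0 0)))) (P.cons (P.cons (P.lf 0 1813091046 0) (P.cons (P.lf 0 21751741 0) (P.cons (P.lf 3276077 0 0) (P.lf 84001 0 0)))) (P.cons (P.cons (P.lf 356085750 0 0) (P.cons (P.lf 17357175 0 0) (P.cons (P.lf 0 2614194 0) (P.lf 0 67020 0)))) (P.cons (P.cons (P.lf 428428577 0 0) (P.cons (P.lf 2475842 0 0) (P.cons (P.lf 0 372887 0) P.nil))) (P.cons (P.cons (P.lf 0 46388429 0) (P.cons (P.lf 0 2108058 0) P.nil)) (P.cons (P.cons (P.lf 0 37367484 0) P.nil) P.nil)))))) 10433480)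
 (EL.cons 5 (TM.mk (P.cons (P.cons (P.lf 0 2845657740 0) (P.cons (P.lf 0 80360600 0) (P.cons (P.lf 12103292 0 0) (P.lf 310342 0 0)))) (P.cons (P.cons (P.lf 0 605496302 0) (P.cons (P.lf 0 1736134 0) (P.cons (P.lf 261480 0 0) (P.lf 6698 0 0)))) (P.cons (P.cons (P.lf 0 58909009 0) (P.cons (P.lf 2059296 0 0) (P.cons (P.lf 0 310160 0) (P.lf 0 7958 0)))) (P.cons (P.cons (P.lf 115019263 0 0) (P.cons (P.lf 2446494 0 0) (P.cons (P.lf 0 368468 0) P.nil))) (P.cons (P.cons (P.lf 50936775 0 0) (P.cons (P.lf 58764 0 0) P.nil)) (P.cons (P.cons (P.lf 0 9291850 0) P.nil) P.nil)))))) 11779281)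
 (EL.cons 9 (TM.mk (P.cons (P.cons (P.lf 0 4156580370 0) (P.cons (P.lf 0 107213556 0) (P.cons (P.lf 16147674 0 0) (P.lf 414042 0 0)))) (P.cons (P.cons (P.lf 0 35658426 0) (P.cons (P.lf 20642802 0 0) (P.cons (P.lf 0 3109056 0) (P.lf 0 79716 0)))) (P.cons (P.cons (P.lf 658232074 0 0) (P.cons (P.lf 8344752 0 0) (P.cons (P.lf 0 1256820 0) (P.lf 0 32220 0)))) (P.cons (P.cons (P.lf 39634803 0 0) (P.cons (P.lf 0 1844058 0) (P.cons (P.lf 277734 0 0) P.nil))) (P.cons (P.cons (P.lf 0 37224136 0) (P.cons (P.lf 0 302574 0) P.nil)) (P.cons (P.cons (P.lf 0 517696 0) P.nil) P.nil)))))) 2244643)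
 (EL.cons 2 (TM.mk (P.cons (P.cons (P.lf 0 189951179 0) (P.cons (P.lf 60841690 0 0) (P.cons (P.lf 1248505 0 0) (P.cons (P.lf 0 83964 0) (P.lf 0 1611 0))))) (P.cons (P.cons (P.lf 0 159571420 0) (P.cons (P.lf 51111000 0 0) (P.cons (P.lf 1048826 0 0) (P.cons (P.lf 0 70534 0) (P.lf 0 1355 0))))) (P.cons (P.cons (P.lf 43058106 0 0) (P.cons (P.lf 0 13791585 0) (P.cons (P.lf 0 283010 0) (P.cons (P.lf 19032 0 0) P.nil)))) (P.cons (P.cons (P.lf 10319844 0 0) (P.cons (P.lf 0 3305463 0) (P.cons (P.lf 0 67829 0) P.nil))) (P.cons (P.cons (P.lf 0 2764794 0) (P.cons (P.lf 885566 0 0) P.nil)) (P.cons (P.cons (P.lf 0 307029 0) P.nil) P.nil)))))) 406930)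
 (EL.cons 6 (TM.mk (P.cons (P.cons (P.lf 439976808 0 0) (P.cons (P.lf 0 140925330 0) (P.cons (P.lf 0 2891871 0) (P.cons (P.lf 194484 0 0) (P.lf 3738 0 0))))) (P.cons (P.cons (P.lf 0 84712764 0) (P.cons (P.lf 27133644 0 0) (P.cons (P.lf 556797 0 0) (P.cons (P.lf 0 37443 0) (P.lf 0 717 0))))) (P.cons (P.cons (P.lf 0 34244724 0) (P.cons (P.lf 10968642 0 0) (P.cons (P.lf 225081 0 0) (P.cons (P.lf 0 15135 0) P.nil)))) (P.cons (P.cons (P.lf 7567548 0 0) (P.cons (P.lf 0 2423898 0) (P.cons (P.lf 0 49737 0) P.nil))) (P.cons (P.cons (P.lf 1241697 0 0) (P.cons (P.lf 0 397716 0) P.nil)) (P.cons (P.cons (P.lf 0 349650 0) P.nil) P.nil)))))) 246942)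
 EL.nil))))))
noncomputable def S256_314_734_771_2 : EL := (EL.cons 0 (TM.mk (P.cons (P.cons (P.lf 3405332569 0 0) (P.cons (P.lf 150411079 0 0) (P.cons (P.lf 0 21039720 0) (P.cons (P.lf 0 1067062 0) (P.cons (P.lf 24153 0 0) (P.cons (P.lf 1883 0 0) P.nil)))))) (P.cons (P.cons (P.lf 0 1747768678 0) (P.cons (P.lf 0 128904799 0) (P.cons (P.lf 17383556 0 0) (P.cons (P.lf 1109603 0 0) (P.cons (P.lf 0 30382 0) P.nil))))) (P.cons (P.cons (P.lf 0 2808343329 0) (P.cons (P.lf 0 84820723 0) (P.cons (P.lf 12511362 0 0) (P.cons (P.lf 406970 0 0) P.nil)))) (P.cons (P.cons (P.lf 450922683 0 0) (P.cons (P.lf 45023671 0 0) (P.cons (P.lf 0 6187718 0) P.nil))) (P.cons (P.cons (P.lf 686656156 0 0) (P.cons (P.lf 15392063 0 0) P.nil)) (P.cons (P.cons (P.lf 0 53714978 0) P.nil) P.nil)))))) 132274361)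
 (EL.cons 1 (TM.mk (P.cons (P.cons (P.lf 316771843 0 0) (P.cons (P.lf 43658288 0 0) (P.cons (P.lf 0 5660110 0) (P.cons (P.lf 0 444321 0) (P.cons (P.lf 13693 0 0) (P.cons (P.lf 1062 0 0) P.nil)))))) (P.cons (P.cons (P.lf 2011886916 0 0) (P.cons (P.lf 71978562 0 0) (P.cons (P.lf 0 10464498 0) (P.cons (P.lf 0 391334 0) (P.cons (P.lf 5628 0 0) P.nil))))) (P.cons (P.cons (P.lf 0 387741598 0) (P.cons (P.lf 0 43953404 0) (P.cons (P.lf 5958601 0 0) (P.cons (P.lf 368925 0 0) P.nil)))) (P.cons (P.cons (P.lf 0 807602003 0) (P.cons (P.lf 0 21083243 0) (P.cons (P.lf 3174375 0 0) P.nil))) (P.cons (P.cons (P.lf 85546593 0 0) (P.cons (P.lf 10699058 0 0) P.nil)) (P.cons (P.cons (P.lf 140671725 0 0) P.nil) P.nil)))))) 55326091)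
 (EL.cons 5 (TM.mk (P.cons (P.cons (P.lf 1828552453 0 0) (P.cons (P.lf 103311981 0 0) (P.cons (P.lf 0 14111810 0) (P.cons (P.lf 0 835216 0) (P.cons (P.lf 21662 0 0) (P.cons (P.lf 1680 0 0) P.nil)))))) (P.cons (P.cons (P.lf 673576521 0 0) (P.cons (P.lf 16989393 0 0) (P.cons (P.lf 0 2615314 0) (P.cons (P.lf 0 48574 0) (P.cons (P.lf 0 860 0) P.nil))))) (P.cons (P.cons (P.lf 36132644 0 0) (P.cons (P.lf 0 7133403 0) (P.cons (P.lf 928329 0 0) (P.cons (P.lf 71553 0 0) P.nil)))) (P.cons (P.cons (P.lf 0 226548929 0) (P.cons (P.lf 0 10130764 0) (P.cons (P.lf 1444996 0 0) P.nil))) (P.cons (P.cons (P.lf 0 113984990 0) (P.cons (P.lf 0 1382555 0) P.nil)) (P.cons (P.cons (P.lf 29501679 0 0) P.nil) P.nil)))))) 60790941)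
 (EL.cons 9 (TM.mk (P.cons (P.cons (P.lf 2681768245 0 0) (P.cons (P.lf 138345411 0 0) (P.cons (P.lf 0 19052292 0) (P.cons (P.lf 0 1071718 0) (P.cons (P.lf 26692 0 0) (P.cons (P.lf 2074 0 0) P.nil)))))) (P.cons (P.cons (P.lf 46012647 0 0) (P.cons (P.lf 0 25450065 0) (P.cons (P.lf 3146023 0 0) (P.cons (P.lf 305239 0 0) (P.cons (P.lf 0 10278 0) P.nil))))) (P.cons (P.cons (P.lf 0 849167119 0) (P.cons (P.lf 0 32904595 0) (P.cons (P.lf 4744233 0 0) (P.cons (P.lf 190803 0 0) P.nil)))) (P.cons (P.cons (P.lf 0 58430173 0) (P.cons (P.lf 5186155 0 0) (P.cons (P.lf 0 666240 0) P.nil))) (P.cons (P.cons (P.lf 114846517 0 0) (P.cons (P.lf 3608973 0 0) P.nil)) (P.cons (P.cons (P.lf 9179145 0 0) P.nil) P.nil)))))) 13901371)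
 (EL.cons 2 (TM.mk (P.cons (P.cons (P.lf 245107755 0 0) (P.cons (P.lf 0 72186198 0) (P.cons (P.lf 0 4588267 0) (P.cons (P.lf 347366 0 0) (P.cons (P.lf 18956 0 0) (P.cons (P.lf 0 202 0) P.nil)))))) (P.cons (P.cons (P.lf 208009282 0 0) (P.cons (P.lf 0 62531915 0) (P.cons (P.lf 0 3295029 0) (P.cons (P.lf 246718 0 0) (P.cons (P.lf 12690 0 0) P.nil))))) (P.cons (P.cons (P.lf 0 92609589 0) (P.cons (P.lf 26715217 0 0) (P.cons (P.lf 1996858 0 0) (P.cons (P.lf 0 152381 0) P.nil)))) (P.cons (P.cons (P.lf 0 48737463 0) (P.cons (P.lf 15238507 0 0) (P.cons (P.lf 495601 0 0) P.nil))) (P.cons (P.cons (P.lf 12483607 0 0) (P.cons (P.lf 0 3619625 0) P.nil)) (P.cons (P.cons (P.lf 4939880 0 0) P.nil) P.nil)))))) 5188370)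
 (EL.cons 6 (TM.mk (P.cons (P.cons (P.lf 0 567733920 0) (P.cons (P.lf 167202198 0 0) (P.cons (P.lf 10627632 0 0) (P.cons (P.lf 0 804594 0) (P.cons (P.lf 0 43902 0) (P.cons (P.lf 474 0 0) P.nil)))))) (P.cons (P.cons (P.lf 104440542 0 0) (P.cons (P.lf 0 27813414 0) (P.cons (P.lf 0 3341976 0) (P.cons (P.lf 259356 0 0) (P.cons (P.lf 15930 0 0) P.nil))))) (P.cons (P.cons (P.lf 135031998 0 0) (P.cons (P.lf 0 41514282 0) (P.cons (P.lf 0 1705362 0) (P.cons (P.lf 125340 0 0) P.nil)))) (P.cons (P.cons (P.lf 0 21282666 0) (P.cons (P.lf 5874216 0 0) (P.cons (P.lf 583788 0 0) P.nil))) (P.cons (P.cons (P.lf 0 14810316 0) (P.cons (P.lf 4669392 0 0) P.nil)) (P.cons (P.cons (P.lf 2470668 0 0) P.nil) P.nil)))))) 3645792)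
 EL.nil))))))
noncomputable def S256_314_734_771_3 : EL := (EL.cons 0 (TM.mk (P.cons (P.lf 375392995 0 0) (P.cons (P.lf 727079837 0 0) (P.cons (P.lf 317250402 0 0) (P.cons (P.lf 0 44091209 0) (P.cons (P.lf 0 8367597 0) (P.cons (P.lf 1467036 0 0) P.nil)))))) 311496)
 (EL.cons 1 (TM.mk (P.cons (P.lf 0 869508750 0) (P.cons (P.lf 0 786249082 0) (P.cons (P.lf 120498519 0 0) (P.cons (P.lf 33042157 0 0) (P.cons (P.lf 0 5010903 0) (P.cons (P.lf 0 683975 0) P.nil)))))) 177172)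
 (EL.cons 5 (TM.mk (P.cons (P.lf 2014010580 0 0) (P.cons (P.lf 0 258517274 0) (P.cons (P.lf 0 112800140 0) (P.cons (P.lf 15676876 0 0) (P.cons (P.lf 2975142 0 0) (P.cons (P.lf 0 521612 0) P.nil)))))) 117178)
 EL.nil)))
noncomputable def S256_314_734_771_4 : EL := (EL.cons 0 (TM.mk (P.cons (P.cons (P.lf 0 242198374 0) (P.cons (P.lf 0 6247190 0) (P.cons (P.lf 940902 0 0) (P.lf 24124 0 0)))) (P.cons (P.cons (P.lf 0 471179636 0) (P.cons (P.lf 0 10897040 0) (P.cons (P.lf 1641227 0 0) (P.lf 42082 0 0)))) (P.cons (P.cons (P.lf 0 170355601 0) (P.cons (P.lf 0 2463660 0) (P.cons (P.lf 371056 0 0) (P.lf 9513 0 0)))) (P.cons (P.cons (P.lf 103287072 0 0) (P.cons (P.lf 2584599 0 0) (P.cons (P.lf 0 389271 0) P.nil))) (P.cons (P.cons (P.lf 40360600 0 0) (P.cons (P.lf 183153 0 0) P.nil)) (P.cons (P.cons (P.lf 0 7684470 0) P.nil) P.nil)))))) 4804739)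
 (EL.cons 1 (TM.mk (P.cons (P.cons (P.lf 560995035 0 0) (P.cons (P.lf 14470132 0 0) (P.cons (P.lf 0 2179378 0) (P.lf 0 55880 0)))) (P.cons (P.cons (P.lf 512089706 0 0) (P.cons (P.lf 10298480 0 0) (P.cons (P.lf 0 1551076 0) (P.lf 0 39770 0)))) (P.cons (P.cons (P.lf 0 162230791 0) (P.cons (P.lf 0 5650843 0) (P.cons (P.lf 851085 0 0) (P.lf 21819 0 0)))) (P.cons (P.cons (P.lf 0 107666531 0) (P.cons (P.lf 0 933303 0) (P.cons (P.lf 140565 0 0) P.nil))) (P.cons (P.cons (P.lf 15548407 0 0) (P.cons (P.lf 611231 0 0) P.nil)) (P.cons (P.cons (P.lf 9199076 0 0) P.nil) P.nil)))))) 2728314)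
 (EL.cons 5 (TM.mk (P.cons (P.cons (P.lf 0 1299411810 0) (P.cons (P.lf 0 33516628 0) (P.cons (P.lf 5048014 0 0) (P.lf 129434 0 0)))) (P.cons (P.cons (P.lf 155644394 0 0) (P.cons (P.lf 10755436 0 0) (P.cons (P.lf 0 1619898 0) (P.lf 0 41534 0)))) (P.cons (P.cons (P.lf 279981570 0 0) (P.cons (P.lf 3657552 0 0) (P.cons (P.lf 0 550870 0) (P.lf 0 14122 0)))) (P.cons (P.cons (P.lf 0 23512690 0) (P.cons (P.lf 0 1533654 0) (P.cons (P.lf 230984 0 0) P.nil))) (P.cons (P.cons (P.lf 0 26758478 0) (P.cons (P.lf 0 165978 0) P.nil)) (P.cons (P.cons (P.lf 2559690 0 0) P.nil) P.nil)))))) 2422730)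
 EL.nil)))
noncomputable def S256_314_734_771_5 : EL := (EL.cons 0 (TM.mk (P.cons (P.cons (P.lf 156263046 0 0) (P.cons (P.lf 8061201 0 0) (P.cons (P.lf 0 1110150 0) (P.cons (P.lf 0 62446 0) (P.cons (P.lf 1553 0 0) (P.cons (P.lf 119 0 0) P.nil)))))) (P.cons (P.cons (P.lf 305339141 0 0) (P.cons (P.lf 14130395 0 0) (P.cons (P.lf 0 1966881 0) (P.cons (P.lf 0 103164 0) (P.cons (P.lf 2413 0 0) P.nil))))) (P.cons (P.cons (P.lf 87773354 0 0) (P.cons (P.lf 2023103 0 0) (P.cons (P.lf 0 306711 0) (P.cons (P.lf 0 7208 0) P.nil)))) (P.cons (P.cons (P.lf 0 115327450 0) (P.cons (P.lf 0 5611417 0) (P.cons (P.lf 781913 0 0) P.nil))) (P.cons (P.cons (P.lf 0 45516549 0) (P.cons (P.lf 0 830267 0) P.nil)) (P.cons (P.cons (P.lf 16981335 0 0) P.nil) P.nil)))))) 15115915)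
 (EL.cons 1 (TM.mk (P.cons (P.cons (P.lf 0 361946248 0) (P.cons (P.lf 0 18671859 0) (P.cons (P.lf 2571401 0 0) (P.cons (P.lf 144643 0 0) (P.cons (P.lf 0 3601 0) (P.cons (P.lf 0 279 0) P.nil)))))) (P.cons (P.cons (P.lf 0 333498266 0) (P.cons (P.lf 0 13449056 0) (P.cons (P.lf 1900571 0 0) (P.cons (P.lf 89596 0 0) (P.cons (P.lf 0 1869 0) P.nil))))) (P.cons (P.cons (P.lf 159152152 0 0) (P.cons (P.lf 10134549 0 0) (P.cons (P.lf 0 1380603 0) (P.cons (P.lf 0 83047 0) P.nil)))) (P.cons (P.cons (P.lf 126134956 0 0) (P.cons (P.lf 3549320 0 0) (P.cons (P.lf 0 527947 0) P.nil))) (P.cons (P.cons (P.lf 0 26101940 0) (P.cons (P.lf 0 1973589 0) P.nil)) (P.cons (P.cons (P.lf 0 21023551 0) P.nil) P.nil)))))) 10798143)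
 (EL.cons 5 (TM.mk (P.cons (P.cons (P.lf 838362552 0 0) (P.cons (P.lf 43248930 0 0) (P.cons (P.lf 0 5956042 0) (P.cons (P.lf 0 335034 0) (P.cons (P.lf 8342 0 0) (P.cons (P.lf 646 0 0) P.nil)))))) (P.cons (P.cons (P.lf 0 93227478 0) (P.cons (P.lf 0 13507494 0) (P.cons (P.lf 1748010 0 0) (P.cons (P.lf 138426 0 0) (P.cons (P.lf 0 4282 0) P.nil))))) (P.cons (P.cons (P.lf 0 314264008 0) (P.cons (P.lf 0 11687524 0) (P.cons (P.lf 1690464 0 0) (P.cons (P.lf 66162 0 0) P.nil)))) (P.cons (P.cons (P.lf 21528592 0 0) (P.cons (P.lf 3723888 0 0) (P.cons (P.lf 0 500092 0) P.nil))) (P.cons (P.cons (P.lf 54465832 0 0) (P.cons (P.lf 1498196 0 0) P.nil)) (P.cons (P.cons (P.lf 0 2978094 0) P.nil) P.nil)))))) 9332870)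
 EL.nil)))
noncomputable def S256_314_734_771_6 : EL := (EL.cons 12 (TM.mk (P.lf 8589934592 0 0) 0)
 (EL.cons 3 (TM.mk (P.cons (P.lf 897858742 0 0) (P.cons (P.lf 869508750 0 0) (P.cons (P.lf 0 41629830 0) (P.cons (P.lf 0 12412950 0) (P.cons (P.lf 1049171 0 0) (P.cons (P.lf 162840 0 0) P.nil)))))) 27209)
 (EL.cons 7 (TM.mk (P.cons (P.lf 0 2079676607 0) (P.cons (P.lf 133473065 0 0) (P.cons (P.lf 62522105 0 0) (P.cons (P.lf 0 4081356 0) (P.cons (P.lf 0 858201 0) (P.cons (P.lf 91532 0 0) P.nil)))))) 18219)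
 EL.nil)))
noncomputable def S256_314_734_771_7 : EL := (EL.cons 12 (TM.mk (P.cons (P.cons (P.lf 0 5542107160 0) (P.cons (P.lf 0 142951408 0) (P.cons (P.lf 21530232 0 0) (P.lf 552056 0 0)))) (P.cons (P.cons (P.lf 0 47544568 0) (P.cons (P.lf 27523736 0 0) (P.cons (P.lf 0 4145408 0) (P.lf 0 106288 0)))) (P.cons (P.cons (P.lf 877642766 0 0) (P.cons (P.lf 11126336 0 0) (P.cons (P.lf 0 1675760 0) (P.lf 0 42960 0)))) (P.cons (P.cons (P.lf 52846404 0 0) (P.cons (P.lf 0 2458744 0) (P.cons (P.lf 370312 0 0) P.nil))) (P.cons (P.cons (P.lf 0 49632182 0) (P.cons (P.lf 0 403432 0) P.nil)) (P.cons (P.cons (P.lf 0 690262 0) P.nil) P.nil)))))) 2992832)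
 (EL.cons 3 (TM.mk (P.cons (P.cons (P.lf 0 656718189 0) (P.cons (P.lf 29883850 0 0) (P.cons (P.lf 0 4500872 0) (P.lf 0 115406 0)))) (P.cons (P.cons (P.lf 2295256954 0 0) (P.cons (P.lf 23186456 0 0) (P.cons (P.lf 0 3492162 0) (P.lf 0 89542 0)))) (P.cons (P.cons (P.lf 280037604 0 0) (P.cons (P.lf 0 9283666 0) (P.cons (P.lf 1398232 0 0) (P.lf 35848 0 0)))) (P.cons (P.cons (P.lf 0 275748856 0) (P.cons (P.lf 0 1884874 0) (P.cons (P.lf 283884 0 0) P.nil))) (P.cons (P.cons (P.lf 0 3988117 0) (P.cons (P.lf 804416 0 0) P.nil)) (P.cons (P.cons (P.lf 15809955 0 0) P.nil) P.nil)))))) 6140069)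
 (EL.cons 7 (TM.mk (P.cons (P.cons (P.lf 1329892494 0 0) (P.cons (P.lf 41490366 0 0) (P.cons (P.lf 0 6248959 0) (P.lf 0 160230 0)))) (P.cons (P.cons (P.lf 352331108 0 0) (P.cons (P.lf 3559209 0 0) (P.cons (P.lf 0 536060 0) (P.lf 0 13743 0)))) (P.cons (P.cons (P.lf 224896245 0 0) (P.cons (P.lf 412550 0 0) (P.cons (P.lf 0 62132 0) (P.lf 0 1591 0)))) (P.cons (P.cons (P.lf 0 6867583 0) (P.cons (P.lf 0 1211078 0) (P.cons (P.lf 182401 0 0) P.nil))) (P.cons (P.cons (P.lf 0 30693373 0) (P.cons (P.lf 0 119770 0) P.nil)) (P.cons (P.cons (P.lf 1069366 0 0) P.nil) P.nil)))))) 6054770)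
 (EL.cons 10 (TM.mk (P.cons (P.cons (P.lf 0 908644164 0) (P.cons (P.lf 291040296 0 0) (P.cons (P.lf 5972322 0 0) (P.cons (P.lf 0 401655 0) (P.lf 0 7722 0))))) (P.cons (P.cons (P.lf 116633055 0 0) (P.cons (P.lf 0 37357770 0) (P.cons (P.lf 0 766602 0) (P.cons (P.lf 51555 0 0) (P.lf 990 0 0))))) (P.cons (P.cons (P.lf 50891085 0 0) (P.cons (P.lf 0 16300503 0) (P.cons (P.lf 0 334494 0) (P.cons (P.lf 22494 0 0) P.nil)))) (P.cons (P.cons (P.lf 0 7072803 0) (P.cons (P.lf 2265429 0 0) (P.cons (P.lf 46488 0 0) P.nil))) (P.cons (P.cons (P.lf 0 1342269 0) (P.cons (P.lf 429930 0 0) P.nil)) (P.cons (P.cons (P.lf 235329 0 0) P.nil) P.nil)))))) 160356)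
 EL.nil))))
noncomputable def S256_314_734_771_8 : EL := (EL.cons 12 (TM.mk (P.cons (P.cons (P.lf 3575690994 0 0) (P.cons (P.lf 184460548 0 0) (P.cons (P.lf 0 25403056 0) (P.cons (P.lf 0 1428958 0) (P.cons (P.lf 35590 0 0) (P.cons (P.lf 2766 0 0) P.nil)))))) (P.cons (P.cons (P.lf 61350196 0 0) (P.cons (P.lf 0 33933420 0) (P.cons (P.lf 4194698 0 0) (P.cons (P.lf 406986 0 0) (P.cons (P.lf 0 13704 0) P.nil))))) (P.cons (P.cons (P.lf 0 1132222826 0) (P.cons (P.lf 0 43872794 0) (P.cons (P.lf 6325644 0 0) (P.cons (P.lf 254404 0 0) P.nil)))) (P.cons (P.cons (P.lf 0 77906898 0) (P.cons (P.lf 6914874 0 0) (P.cons (P.lf 0 888320 0) P.nil))) (P.cons (P.cons (P.lf 153128690 0 0) (P.cons (P.lf 4811964 0 0) P.nil)) (P.cons (P.cons (P.lf 12238860 0 0) P.nil) P.nil)))))) 18535132)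
 (EL.cons 3 (TM.mk (P.cons (P.cons (P.lf 473663643 0 0) (P.cons (P.lf 0 35984080 0) (P.cons (P.lf 4176341 0 0) (P.cons (P.lf 513472 0 0) (P.cons (P.lf 0 18600 0) (P.cons (P.lf 0 1446 0) P.nil)))))) (P.cons (P.cons (P.lf 0 3322825258 0) (P.cons (P.lf 0 125977561 0) (P.cons (P.lf 18248483 0 0) (P.cons (P.lf 704973 0 0) (P.cons (P.lf 0 10851 0) P.nil))))) (P.cons (P.cons (P.lf 0 391492117 0) (P.cons (P.lf 30430833 0 0) (P.cons (P.lf 0 3914505 0) (P.cons (P.lf 0 318947 0) P.nil)))) (P.cons (P.cons (P.lf 941871864 0 0) (P.cons (P.lf 28755336 0 0) (P.cons (P.lf 0 4273149 0) P.nil))) (P.cons (P.cons (P.lf 87297663 0 0) (P.cons (P.lf 0 6622516 0) P.nil)) (P.cons (P.cons (P.lf 0 118544783 0) P.nil) P.nil)))))) 40954710)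
 (EL.cons 7 (TM.mk (P.cons (P.cons (P.lf 0 850359505 0) (P.cons (P.lf 0 53142410 0) (P.cons (P.lf 7198911 0 0) (P.cons (P.lf 447707 0 0) (P.cons (P.lf 0 12042 0) (P.cons (P.lf 0 933 0) P.nil)))))) (P.cons (P.cons (P.lf 0 510066946 0) (P.cons (P.lf 0 19338051 0) (P.cons (P.lf 2801213 0 0) (P.cons (P.lf 108211 0 0) (P.cons (P.lf 0 1662 0) P.nil))))) (P.cons (P.cons (P.lf 0 323444326 0) (P.cons (P.lf 0 5313026 0) (P.cons (P.lf 845374 0 0) (P.cons (P.lf 6907 0 0) P.nil)))) (P.cons (P.cons (P.lf 94715080 0 0) (P.cons (P.lf 7307653 0 0) (P.cons (P.lf 0 1022938 0) P.nil))) (P.cons (P.cons (P.lf 121516015 0 0) (P.cons (P.lf 2429346 0 0) P.nil)) (P.cons (P.cons (P.lf 0 3380630 0) P.nil) P.nil)))))) 35602230)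
 (EL.cons 10 (TM.mk (P.cons (P.cons (P.lf 1172489328 0 0) (P.cons (P.lf 0 345307524 0) (P.cons (P.lf 0 21948288 0) (P.cons (P.lf 1661664 0 0) (P.cons (P.lf 90678 0 0) (P.cons (P.lf 0 984 0) P.nil)))))) (P.cons (P.cons (P.lf 0 140441532 0) (P.cons (P.lf 35278782 0 0) (P.cons (P.lf 5493252 0 0) (P.cons (P.lf 0 428988 0) (P.cons (P.lf 0 27090 0) P.nil))))) (P.cons (P.cons (P.lf 0 252633840 0) (P.cons (P.lf 77618760 0 0) (P.cons (P.lf 3214656 0 0) (P.cons (P.lf 0 236442 0) P.nil)))) (P.cons (P.cons (P.lf 21216042 0 0) (P.cons (P.lf 0 5411676 0) (P.cons (P.lf 0 791118 0) P.nil))) (P.cons (P.cons (P.lf 24144792 0 0) (P.cons (P.lf 0 7583850 0) P.nil)) (P.cons (P.cons (P.lf 0 2309664 0) P.nil) P.nil)))))) 4514994)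
 EL.nil))))
noncomputable def S256_314_734_771_9 : EL := (EL.cons 3 (TM.mk (P.cons (P.lf 897858742 0 0) (P.cons (P.lf 869508750 0 0) (P.cons (P.lf 0 41629830 0) (P.cons (P.lf 0 12412950 0) (P.cons (P.lf 1049171 0 0) (P.cons (P.lf 162840 0 0) P.nil)))))) 27209)
 (EL.cons 7 (TM.mk (P.cons (P.lf 0 2079676607 0) (P.cons (P.lf 133473065 0 0) (P.cons (P.lf 62522105 0 0) (P.cons (P.lf 0 4081356 0) (P.cons (P.lf 0 858201 0) (P.cons (P.lf 91532 0 0) P.nil)))))) 18219)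
 EL.nil))
noncomputable def S256_314_734_771_10 : EL := (EL.cons 3 (TM.mk (P.cons (P.cons (P.lf 0 579286059 0) (P.cons (P.lf 0 14941925 0) (P.cons (P.lf 2250436 0 0) (P.lf 57703 0 0)))) (P.cons (P.cons (P.lf 0 565964609 0) (P.cons (P.lf 0 11593228 0) (P.cons (P.lf 1746081 0 0) (P.lf 44771 0 0)))) (P.cons (P.cons (P.lf 113781516 0 0) (P.cons (P.lf 4641833 0 0) (P.cons (P.lf 0 699116 0) (P.lf 0 17924 0)))) (P.cons (P.cons (P.lf 102601460 0 0) (P.cons (P.lf 942437 0 0) (P.cons (P.lf 0 141942 0) P.nil))) (P.cons (P.cons (P.lf 0 4700017 0) (P.cons (P.lf 0 402208 0) P.nil)) (P.cons (P.cons (P.lf 0 6731349 0) P.nil) P.nil)))))) 1408609)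
 (EL.cons 7 (TM.mk (P.cons (P.cons (P.lf 1341778623 0 0) (P.cons (P.lf 34609425 0 0) (P.cons (P.lf 0 5212603 0) (P.lf 0 133656 0)))) (P.cons (P.cons (P.lf 0 74604142 0) (P.cons (P.lf 0 8884890 0) (P.cons (P.lf 1338172 0 0) (P.lf 34311 0 0)))) (P.cons (P.cons (P.lf 0 253559934 0) (P.cons (P.lf 0 3306559 0) (P.cons (P.lf 498007 0 0) (P.lf 12767 0 0)))) (P.cons (P.cons (P.lf 3129821 0 0) (P.cons (P.lf 1036414 0 0) (P.cons (P.lf 0 156095 0) P.nil))) (P.cons (P.cons (P.lf 19801643 0 0) (P.cons (P.lf 141656 0 0) P.nil)) (P.cons (P.cons (P.lf 0 690740 0) P.nil) P.nil)))))) 1412680)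
 EL.nil))
noncomputable def S256_314_734_771_11 : EL := (EL.cons 3 (TM.mk (P.cons (P.cons (P.lf 373747365 0 0) (P.cons (P.lf 19280648 0 0) (P.cons (P.lf 0 2655241 0) (P.cons (P.lf 0 149360 0) (P.cons (P.lf 3720 0 0) (P.cons (P.lf 288 0 0) P.nil)))))) (P.cons (P.cons (P.lf 368358848 0 0) (P.cons (P.lf 15124985 0 0) (P.cons (P.lf 0 2132953 0) (P.cons (P.lf 0 102105 0) (P.cons (P.lf 2169 0 0) P.nil))))) (P.cons (P.cons (P.lf 0 129463969 0) (P.cons (P.lf 0 8914623 0) (P.cons (P.lf 1208901 0 0) (P.cons (P.lf 74713 0 0) P.nil)))) (P.cons (P.cons (P.lf 0 128215866 0) (P.cons (P.lf 0 3820314 0) (P.cons (P.lf 563835 0 0) P.nil))) (P.cons (P.cons (P.lf 13954869 0 0) (P.cons (P.lf 1487108 0 0) P.nil)) (P.cons (P.cons (P.lf 18868549 0 0) P.nil) P.nil)))))) 7358084)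
 (EL.cons 7 (TM.mk (P.cons (P.cons (P.lf 0 865697035 0) (P.cons (P.lf 0 44659046 0) (P.cons (P.lf 6150237 0 0) (P.cons (P.lf 345959 0 0) (P.cons (P.lf 0 8616 0) (P.cons (P.lf 0 669 0) P.nil)))))) (P.cons (P.cons (P.lf 40706930 0 0) (P.cons (P.lf 11081697 0 0) (P.cons (P.lf 0 1410283 0) (P.cons (P.lf 0 120737 0) (P.cons (P.lf 3870 0 0) P.nil))))) (P.cons (P.cons (P.lf 301097246 0 0) (P.cons (P.lf 11437210 0 0) (P.cons (P.lf 0 1651196 0) (P.cons (P.lf 0 65669 0) P.nil)))) (P.cons (P.cons (P.lf 16528 0 0) (P.cons (P.lf 0 2690471 0) (P.cons (P.lf 355958 0 0) P.nil))) (P.cons (P.cons (P.lf 0 46911257 0) (P.cons (P.lf 0 1379196 0) P.nil)) (P.cons (P.cons (P.lf 0 580862 0) P.nil) P.nil)))))) 6879584)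
 EL.nil))
noncomputable def S256_314_734_771_12 : EL := (EL.cons 4 (TM.mk (P.cons (P.lf 0 897858742 0) (P.cons (P.lf 0 869508750 0) (P.cons (P.lf 41629830 0 0) (P.cons (P.lf 12412950 0 0) (P.cons (P.lf 0 1049171 0) (P.cons (P.lf 0 162840 0) P.nil)))))) 27209)
 (EL.cons 8 (TM.mk (P.cons (P.lf 2079676607 0 0) (P.cons (P.lf 0 133473065 0) (P.cons (P.lf 0 62522105 0) (P.cons (P.lf 4081356 0 0) (P.cons (P.lf 858201 0 0) (P.cons (P.lf 0 91532 0) P.nil)))))) 18219)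
 EL.nil))
noncomputable def S256_314_734_771_13 : EL := (EL.cons 4 (TM.mk (P.cons (P.cons (P.lf 579286059 0 0) (P.cons (P.lf 14941925 0 0) (P.cons (P.lf 0 2250436 0) (P.lf 0 57703 0)))) (P.cons (P.cons (P.lf 565964609 0 0) (P.cons (P.lf 11593228 0 0) (P.cons (P.lf 0 1746081 0) (P.lf 0 44771 0)))) (P.cons (P.cons (P.lf 0 113781516 0) (P.cons (P.lf 0 4641833 0) (P.cons (P.lf 699116 0 0) (P.lf 17924 0 0)))) (P.cons (P.cons (P.lf 0 102601460 0) (P.cons (P.lf 0 942437 0) (P.cons (P.lf 141942 0 0) P.nil))) (P.cons (P.cons (P.lf 4700017 0 0) (P.cons (P.lf 402208 0 0) P.nil)) (P.cons (P.cons (P.lf 6731349 0 0) P.nil) P.nil)))))) 1408609)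
 (EL.cons 8 (TM.mk (P.cons (P.cons (P.lf 0 1341778623 0) (P.cons (P.lf 0 34609425 0) (P.cons (P.lf 5212603 0 0) (P.lf 133656 0 0)))) (P.cons (P.cons (P.lf 74604142 0 0) (P.cons (P.lf 8884890 0 0) (P.cons (P.lf 0 1338172 0) (P.lf 0 34311 0)))) (P.cons (P.cons (P.lf 253559934 0 0) (P.cons (P.lf 3306559 0 0) (P.cons (P.lf 0 498007 0) (P.lf 0 12767 0)))) (P.cons (P.cons (P.lf 0 3129821 0) (P.cons (P.lf 0 1036414 0) (P.cons (P.lf 156095 0 0) P.nil))) (P.cons (P.cons (P.lf 0 19801643 0) (P.cons (P.lf 0 141656 0) P.nil)) (P.cons (P.cons (P.lf 690740 0 0) P.nil) P.nil)))))) 1412680)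
 EL.nil))
noncomputable def S256_314_734_771_14 : EL := (EL.cons 4 (TM.mk (P.cons (P.cons (P.lf 0 373747365 0) (P.cons (P.lf 0 19280648 0) (P.cons (P.lf 2655241 0 0) (P.cons (P.lf 149360 0 0) (P.cons (P.lf 0 3720 0) (P.cons (P.lf 0 288 0) P.nil)))))) (P.cons (P.cons (P.lf 0 368358848 0) (P.cons (P.lf 0 15124985 0) (P.cons (P.lf 2132953 0 0) (P.cons (P.lf 102105 0 0) (P.cons (P.lf 0 2169 0) P.nil))))) (P.cons (P.cons (P.lf 129463969 0 0) (P.cons (P.lf 8914623 0 0) (P.cons (P.lf 0 1208901 0) (P.cons (P.lf 0 74713 0) P.nil)))) (P.cons (P.cons (P.lf 128215866 0 0) (P.cons (P.lf 3820314 0 0) (P.cons (P.lf 0 563835 0) P.nil))) (P.cons (P.cons (P.lf 0 13954869 0) (P.cons (P.lf 0 1487108 0) P.nil)) (P.cons (P.cons (P.lf 0 18868549 0) P.nil) P.nil)))))) 7358084)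
 (EL.cons 8 (TM.mk (P.cons (P.cons (P.lf 865697035 0 0) (P.cons (P.lf 44659046 0 0) (P.cons (P.lf 0 6150237 0) (P.cons (P.lf 0 345959 0) (P.cons (P.lf 8616 0 0) (P.cons (P.lf 669 0 0) P.nil)))))) (P.cons (P.cons (P.lf 0 40706930 0) (P.cons (P.lf 0 11081697 0) (P.cons (P.lf 1410283 0 0) (P.cons (P.lf 120737 0 0) (P.cons (P.lf 0 3870 0) P.nil))))) (P.cons (P.cons (P.lf 0 301097246 0) (P.cons (P.lf 0 11437210 0) (P.cons (P.lf 1651196 0 0) (P.cons (P.lf 65669 0 0) P.nil)))) (P.cons (P.cons (P.lf 0 16528 0) (P.cons (P.lf 2690471 0 0) (P.cons (P.lf 0 355958 0) P.nil))) (P.cons (P.cons (P.lf 46911257 0 0) (P.cons (P.lf 1379196 0 0) P.nil)) (P.cons (P.cons (P.lf 580862 0 0) P.nil) P.nil)))))) 6879584)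
 EL.nil))
noncomputable def S256_314_734_771_15 : EL := (EL.cons 4 (TM.mk (P.cons (P.lf 0 200209597 0) (P.cons (P.lf 0 387775913 0) (P.cons (P.lf 0 169200214 0) (P.cons (P.lf 23515311 0 0) (P.cons (P.lf 4462718 0 0) (P.cons (P.lf 0 782419 0) P.nil)))))) 166134)
 (EL.cons 8 (TM.mk (P.cons (P.lf 463738000 0 0) (P.cons (P.lf 419332844 0 0) (P.cons (P.lf 0 64265877 0) (P.cons (P.lf 0 17622484 0) (P.cons (P.lf 2672482 0 0) (P.cons (P.lf 364787 0 0) P.nil)))))) 94488)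
 EL.nil))
noncomputable def S256_314_734_771_16 : EL := (EL.cons 4 (TM.mk (P.cons (P.cons (P.lf 129172466 0 0) (P.cons (P.lf 3331834 0 0) (P.cons (P.lf 0 501814 0) (P.lf 0 12866 0)))) (P.cons (P.cons (P.lf 251295806 0 0) (P.cons (P.lf 5811754 0 0) (P.cons (P.lf 0 875321 0) (P.lf 0 22443 0)))) (P.cons (P.cons (P.lf 90856320 0 0) (P.cons (P.lf 1313952 0 0) (P.cons (P.lf 0 197896 0) (P.lf 0 5073 0)))) (P.cons (P.cons (P.lf 0 55086438 0) (P.cons (P.lf 0 1378453 0) (P.cons (P.lf 207611 0 0) P.nil))) (P.cons (P.cons (P.lf 0 21525653 0) (P.cons (P.lf 0 97681 0) P.nil)) (P.cons (P.cons (P.lf 4098384 0 0) P.nil) P.nil)))))) 2562536)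
 (EL.cons 8 (TM.mk (P.cons (P.cons (P.lf 0 299197352 0) (P.cons (P.lf 0 7717404 0) (P.cons (P.lf 1162335 0 0) (P.lf 29803 0 0)))) (P.cons (P.cons (P.lf 0 273114510 0) (P.cons (P.lf 0 5492523 0) (P.cons (P.lf 827241 0 0) (P.lf 21211 0 0)))) (P.cons (P.cons (P.lf 86523089 0 0) (P.cons (P.lf 3013783 0 0) (P.cons (P.lf 0 453912 0) (P.lf 0 11637 0)))) (P.cons (P.cons (P.lf 57422150 0 0) (P.cons (P.lf 497762 0 0) (P.cons (P.lf 0 74968 0) P.nil))) (P.cons (P.cons (P.lf 0 8292484 0) (P.cons (P.lf 0 325990 0) P.nil)) (P.cons (P.cons (P.lf 0 4906174 0) P.nil) P.nil)))))) 1455091)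
 EL.nil))
noncomputable def S256_314_734_771_17 : EL := (EL.cons 4 (TM.mk (P.cons (P.cons (P.lf 0 83340291 0) (P.cons (P.lf 0 4299307 0) (P.cons (P.lf 592080 0 0) (P.cons (P.lf 33304 0 0) (P.cons (P.lf 0 828 0) (P.cons (P.lf 0 63 0) P.nil)))))) (P.cons (P.cons (P.lf 0 162847542 0) (P.cons (P.lf 0 7536210 0) (P.cons (P.lf 1049003 0 0) (P.cons (P.lf 55020 0 0) (P.cons (P.lf 0 1287 0) P.nil))))) (P.cons (P.cons (P.lf 0 46812455 0) (P.cons (P.lf 0 1078988 0) (P.cons (P.lf 163579 0 0) (P.cons (P.lf 3844 0 0) P.nil)))) (P.cons (P.cons (P.lf 61507973 0 0) (P.cons (P.lf 2992755 0 0) (P.cons (P.lf 0 417020 0) P.nil))) (P.cons (P.cons (P.lf 24275492 0 0) (P.cons (P.lf 442809 0 0) P.nil)) (P.cons (P.cons (P.lf 0 9056712 0) P.nil) P.nil)))))) 8061832)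
 (EL.cons 8 (TM.mk (P.cons (P.cons (P.lf 193037999 0 0) (P.cons (P.lf 9958325 0 0) (P.cons (P.lf 0 1371414 0) (P.cons (P.lf 0 77143 0) (P.cons (P.lf 1921 0 0) (P.cons (P.lf 149 0 0) P.nil)))))) (P.cons (P.cons (P.lf 177865742 0 0) (P.cons (P.lf 7172830 0 0) (P.cons (P.lf 0 1013638 0) (P.cons (P.lf 0 47785 0) (P.cons (P.lf 997 0 0) P.nil))))) (P.cons (P.cons (P.lf 0 84881148 0) (P.cons (P.lf 0 5405093 0) (P.cons (P.lf 736322 0 0) (P.cons (P.lf 44292 0 0) P.nil)))) (P.cons (P.cons (P.lf 0 67271977 0) (P.cons (P.lf 0 1892971 0) (P.cons (P.lf 281572 0 0) P.nil))) (P.cons (P.cons (P.lf 13921035 0 0) (P.cons (P.lf 1052581 0 0) P.nil)) (P.cons (P.cons (P.lf 11212561 0 0) P.nil) P.nil)))))) 5758998)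
 EL.nil))
noncomputable def S256_314_734_771_18 : EL := (EL.cons 4 (TM.mk (P.cons (P.lf 0 44643862 0) (P.cons (P.lf 0 129702684 0) (P.cons (P.lf 0 119397478 0) (P.cons (P.lf 0 26667962 0) (P.cons (P.lf 8965736 0 0) (P.cons (P.lf 958581 0 0) P.nil)))))) 467642)
 (EL.cons 8 (TM.mk (P.cons (P.lf 103406910 0 0) (P.cons (P.lf 193647023 0 0) (P.cons (P.lf 71427862 0 0) (P.cons (P.lf 0 23572483 0) (P.cons (P.lf 0 3717003 0) (P.cons (P.lf 1166783 0 0) P.nil)))))) 289701)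
 EL.nil))
noncomputable def S256_314_734_771_19 : EL := (EL.cons 4 (TM.mk (P.cons (P.cons (P.lf 28803602 0 0) (P.cons (P.lf 742950 0 0) (P.cons (P.lf 0 111897 0) (P.lf 0 2868 0)))) (P.cons (P.cons (P.lf 83929480 0 0) (P.cons (P.lf 2015430 0 0) (P.cons (P.lf 0 303548 0) (P.lf 0 7783 0)))) (P.cons (P.cons (P.lf 73190186 0 0) (P.cons (P.lf 1513562 0 0) (P.cons (P.lf 0 227960 0) (P.lf 0 5844 0)))) (P.cons (P.cons (P.lf 4340139 0 0) (P.cons (P.lf 0 93991 0) (P.cons (P.lf 14156 0 0) P.nil))) (P.cons (P.cons (P.lf 0 18375929 0) (P.cons (P.lf 0 350084 0) P.nil)) (P.cons (P.cons (P.lf 0 3374327 0) P.nil) P.nil)))))) 2897448)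
 (EL.cons 8 (TM.mk (P.cons (P.cons (P.lf 0 66716709 0) (P.cons (P.lf 0 1720870 0) (P.cons (P.lf 259183 0 0) (P.lf 6645 0 0)))) (P.cons (P.cons (P.lf 0 125510733 0) (P.cons (P.lf 0 2891287 0) (P.cons (P.lf 435463 0 0) (P.lf 11165 0 0)))) (P.cons (P.cons (P.lf 0 36590896 0) (P.cons (P.lf 0 434261 0) (P.cons (P.lf 65404 0 0) (P.lf 1676 0 0)))) (P.cons (P.cons (P.lf 35234588 0 0) (P.cons (P.lf 842382 0 0) (P.cons (P.lf 0 126872 0) P.nil))) (P.cons (P.cons (P.lf 10420353 0 0) (P.cons (P.lf 18559 0 0) P.nil)) (P.cons (P.cons (P.lf 0 3828402 0) P.nil) P.nil)))))) 2162405)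
 EL.nil))
noncomputable def S256_314_734_771_20 : EL := (EL.cons 4 (TM.mk (P.cons (P.cons (P.lf 0 18583686 0) (P.cons (P.lf 0 958683 0) (P.cons (P.lf 132025 0 0) (P.cons (P.lf 7425 0 0) (P.cons (P.lf 0 184 0) (P.cons (P.lf 0 14 0) P.nil)))))) (P.cons (P.cons (P.lf 0 54309567 0) (P.cons (P.lf 0 2608879 0) (P.cons (P.lf 361769 0 0) (P.cons (P.lf 19460 0 0) (P.cons (P.lf 0 465 0) P.nil))))) (P.cons (P.cons (P.lf 0 44742945 0) (P.cons (P.lf 0 1823554 0) (P.cons (P.lf 256881 0 0) (P.cons (P.lf 12393 0 0) P.nil)))) (P.cons (P.cons (P.lf 5547067 0 0) (P.cons (P.lf 525509 0 0) (P.cons (P.lf 0 70335 0) P.nil))) (P.cons (P.cons (P.lf 19659712 0 0) (P.cons (P.lf 778277 0 0) P.nil)) (P.cons (P.cons (P.lf 2685237 0 0) P.nil) P.nil)))))) 6585458)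
 (EL.cons 8 (TM.mk (P.cons (P.cons (P.lf 43044699 0 0) (P.cons (P.lf 2220563 0 0) (P.cons (P.lf 0 305805 0) (P.cons (P.lf 0 17201 0) (P.cons (P.lf 428 0 0) (P.cons (P.lf 32 0 0) P.nil)))))) (P.cons (P.cons (P.lf 81347063 0 0) (P.cons (P.lf 3749887 0 0) (P.cons (P.lf 0 522176 0) (P.cons (P.lf 0 27313 0) (P.cons (P.lf 637 0 0) P.nil))))) (P.cons (P.cons (P.lf 17486114 0 0) (P.cons (P.lf 240719 0 0) (P.cons (P.lf 0 40521 0) (P.cons (P.lf 355 0 0) P.nil)))) (P.cons (P.cons (P.lf 0 35764357 0) (P.cons (P.lf 0 1694165 0) (P.cons (P.lf 236499 0 0) P.nil))) (P.cons (P.cons (P.lf 0 11043292 0) (P.cons (P.lf 0 137701 0) P.nil)) (P.cons (P.cons (P.lf 6517755 0 0) P.nil) P.nil)))))) 5621077)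
 EL.nil))
noncomputable def S256_314_734_771_21 : EL := (EL.cons 4 (TM.mk (P.cons (P.cons (P.lf 77432130 0 0) (P.cons (P.lf 0 44825775 0) (P.cons (P.lf 6751308 0 0) (P.lf 173109 0 0)))) (P.cons (P.cons (P.lf 0 2861221563 0) (P.cons (P.lf 0 34779684 0) (P.cons (P.lf 5238243 0 0) (P.lf 134313 0 0)))) (P.cons (P.cons (P.lf 0 166256088 0) (P.cons (P.lf 13925499 0 0) (P.cons (P.lf 0 2097348 0) (P.lf 0 53772 0)))) (P.cons (P.cons (P.lf 378350316 0 0) (P.cons (P.lf 2827311 0 0) (P.cons (P.lf 0 425826 0) P.nil))) (P.cons (P.cons (P.lf 0 711900 0) (P.cons (P.lf 0 1206624 0) P.nil)) (P.cons (P.cons (P.lf 0 22541304 0) P.nil) P.nil)))))) 4731441)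
 (EL.cons 8 (TM.mk (P.cons (P.cons (P.lf 11886129 0 0) (P.cons (P.lf 0 6880941 0) (P.cons (P.lf 1036356 0 0) (P.lf 26574 0 0)))) (P.cons (P.cons (P.lf 0 426935250 0) (P.cons (P.lf 0 12444099 0) (P.cons (P.lf 1874232 0 0) (P.lf 48054 0 0)))) (P.cons (P.cons (P.lf 0 478456179 0) (P.cons (P.lf 0 3719109 0) (P.cons (P.lf 560139 0 0) (P.lf 14358 0 0)))) (P.cons (P.cons (P.lf 9997404 0 0) (P.cons (P.lf 2247492 0 0) (P.cons (P.lf 0 338496 0) P.nil))) (P.cons (P.cons (P.lf 50495016 0 0) (P.cons (P.lf 261426 0 0) P.nil)) (P.cons (P.cons (P.lf 0 1760106 0) P.nil) P.nil)))))) 4642071)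
 (EL.cons 11 (TM.mk (P.cons (P.cons (P.lf 908644164 0 0) (P.cons (P.lf 0 291040296 0) (P.cons (P.lf 0 5972322 0) (P.cons (P.lf 401655 0 0) (P.lf 7722 0 0))))) (P.cons (P.cons (P.lf 0 116633055 0) (P.cons (P.lf 37357770 0 0) (P.cons (P.lf 766602 0 0) (P.cons (P.lf 0 51555 0) (P.lf 0 990 0))))) (P.cons (P.cons (P.lf 0 50891085 0) (P.cons (P.lf 16300503 0 0) (P.cons (P.lf 334494 0 0) (P.cons (P.lf 0 22494 0) P.nil)))) (P.cons (P.cons (P.lf 7072803 0 0) (P.cons (P.lf 0 2265429 0) (P.cons (P.lf 0 46488 0) P.nil))) (P.cons (P.cons (P.lf 1342269 0 0) (P.cons (P.lf 0 429930 0) P.nil)) (P.cons (P.cons (P.lf 0 235329 0) P.nil) P.nil)))))) 160356)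
 EL.nil)))
noncomputable def S256_314_734_771_22 : EL := (EL.cons 4 (TM.mk (P.cons (P.cons (P.lf 0 49958139 0) (P.cons (P.lf 27632364 0 0) (P.cons (P.lf 0 3415791 0) (P.cons (P.lf 0 331416 0) (P.cons (P.lf 11160 0 0) (P.cons (P.lf 867 0 0) P.nil)))))) (P.cons (P.cons (P.lf 1845592053 0 0) (P.cons (P.lf 70551273 0 0) (P.cons (P.lf 0 10190718 0) (P.cons (P.lf 0 403539 0) (P.cons (P.lf 6510 0 0) P.nil))))) (P.cons (P.cons (P.lf 131014074 0 0) (P.cons (P.lf 0 19672728 0) (P.cons (P.lf 2561703 0 0) (P.cons (P.lf 196830 0 0) P.nil)))) (P.cons (P.cons (P.lf 0 535043865 0) (P.cons (P.lf 0 16287825 0) (P.cons (P.lf 2418492 0 0) P.nil))) (P.cons (P.cons (P.lf 0 36671397 0) (P.cons (P.lf 4054812 0 0) P.nil)) (P.cons (P.cons (P.lf 68706666 0 0) P.nil) P.nil)))))) 16798302)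
 (EL.cons 8 (TM.mk (P.cons (P.cons (P.lf 0 7668765 0) (P.cons (P.lf 4241682 0 0) (P.cons (P.lf 0 524337 0) (P.cons (P.lf 0 50874 0) (P.cons (P.lf 1713 0 0) (P.cons (P.lf 132 0 0) P.nil)))))) (P.cons (P.cons (P.lf 275386938 0 0) (P.cons (P.lf 15209874 0 0) (P.cons (P.lf 0 2105748 0) (P.cons (P.lf 0 114474 0) (P.cons (P.lf 2766 0 0) P.nil))))) (P.cons (P.cons (P.lf 312270786 0 0) (P.cons (P.lf 8375118 0 0) (P.cons (P.lf 0 1248285 0) (P.cons (P.lf 0 36288 0) P.nil)))) (P.cons (P.cons (P.lf 0 47349276 0) (P.cons (P.lf 0 4999062 0) (P.cons (P.lf 689448 0 0) P.nil))) (P.cons (P.cons (P.lf 0 84213636 0) (P.cons (P.lf 0 1904271 0) P.nil)) (P.cons (P.cons (P.lf 1399884 0 0) P.nil) P.nil)))))) 14361312)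
 (EL.cons 11 (TM.mk (P.cons (P.cons (P.lf 0 586244664 0) (P.cons (P.lf 172653762 0 0) (P.cons (P.lf 10974144 0 0) (P.cons (P.lf 0 830832 0) (P.cons (P.lf 0 45339 0) (P.cons (P.lf 492 0 0) P.nil)))))) (P.cons (P.cons (P.lf 70220766 0 0) (P.cons (P.lf 0 17639391 0) (P.cons (P.lf 0 2746626 0) (P.cons (P.lf 214494 0 0) (P.cons (P.lf 13545 0 0) P.nil))))) (P.cons (P.cons (P.lf 126316920 0 0) (P.cons (P.lf 0 38809380 0) (P.cons (P.lf 0 1607328 0) (P.cons (P.lf 118221 0 0) P.nil)))) (P.cons (P.cons (P.lf 0 10608021 0) (P.cons (P.lf 2705838 0 0) (P.cons (P.lf 395559 0 0) P.nil))) (P.cons (P.cons (P.lf 0 12072396 0) (P.cons (P.lf 3791925 0 0) P.nil)) (P.cons (P.cons (P.lf 1154832 0 0) P.nil) P.nil)))))) 2257497)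
 EL.nil)))
noncomputable def S256_314_734_771_23 : EL := (EL.cons 4 (TM.mk (P.cons (P.cons (P.lf 17266251 0 0) (P.cons (P.lf 0 9995502 0) (P.cons (P.lf 1505442 0 0) (P.lf 38598 0 0)))) (P.cons (P.cons (P.lf 0 621290226 0) (P.cons (P.lf 0 17435262 0) (P.cons (P.lf 2625963 0 0) (P.lf 67329 0 0)))) (P.cons (P.cons (P.lf 0 655739295 0) (P.cons (P.lf 0 3941856 0) (P.cons (P.lf 593691 0 0) (P.lf 15222 0 0)))) (P.cons (P.cons (P.lf 77807658 0 0) (P.cons (P.lf 4135359 0 0) (P.cons (P.lf 0 622833 0) P.nil))) (P.cons (P.cons (P.lf 92103672 0 0) (P.cons (P.lf 293046 0 0) P.nil)) (P.cons (P.cons (P.lf 0 9321705 0) P.nil) P.nil)))))) 9335469)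
 (EL.cons 8 (TM.mk (P.cons (P.cons (P.lf 2650434 0 0) (P.cons (P.lf 0 1534350 0) (P.cons (P.lf 231090 0 0) (P.lf 5925 0 0)))) (P.cons (P.cons (P.lf 0 92633676 0) (P.cons (P.lf 0 4260756 0) (P.cons (P.lf 641721 0 0) (P.lf 16452 0 0)))) (P.cons (P.cons (P.lf 0 199006203 0) (P.cons (P.lf 0 3445404 0) (P.cons (P.lf 518916 0 0) (P.lf 13302 0 0)))) (P.cons (P.cons (P.lf 0 96713472 0) (P.cons (P.lf 0 152091 0) (P.cons (P.lf 22905 0 0) P.nil))) (P.cons (P.cons (P.lf 19684500 0 0) (P.cons (P.lf 618648 0 0) P.nil)) (P.cons (P.cons (P.lf 11772513 0 0) P.nil) P.nil)))))) 3604050)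
 (EL.cons 11 (TM.mk (P.cons (P.cons (P.lf 202614591 0 0) (P.cons (P.lf 0 64897803 0) (P.cons (P.lf 0 1331739 0) (P.cons (P.lf 89562 0 0) (P.lf 1719 0 0))))) (P.cons (P.cons (P.lf 170209515 0 0) (P.cons (P.lf 0 54518400 0) (P.cons (P.lf 0 1118748 0) (P.cons (P.lf 75237 0 0) (P.lf 1446 0 0))))) (P.cons (P.cons (P.lf 0 45928647 0) (P.cons (P.lf 14711025 0 0) (P.cons (P.lf 301878 0 0) (P.cons (P.lf 0 20301 0) P.nil)))) (P.cons (P.cons (P.lf 0 11007834 0) (P.cons (P.lf 3525828 0 0) (P.cons (P.lf 72351 0 0) P.nil))) (P.cons (P.cons (P.lf 2949114 0 0) (P.cons (P.lf 0 944604 0) P.nil)) (P.cons (P.cons (P.lf 327498 0 0) P.nil) P.nil)))))) 434037)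
 EL.nil)))
noncomputable def S256_314_734_771_24 : EL := (EL.cons 4 (TM.mk (P.cons (P.cons (P.lf 0 11139945 0) (P.cons (P.lf 6161619 0 0) (P.cons (P.lf 0 761670 0) (P.cons (P.lf 0 73899 0) (P.cons (P.lf 2487 0 0) (P.cons (P.lf 192 0 0) P.nil)))))) (P.cons (P.cons (P.lf 400752303 0 0) (P.cons (P.lf 21698985 0 0) (P.cons (P.lf 0 3010005 0) (P.cons (P.lf 0 161550 0) (P.cons (P.lf 3861 0 0) P.nil))))) (P.cons (P.cons (P.lf 428276835 0 0) (P.cons (P.lf 10562757 0 0) (P.cons (P.lf 0 1594092 0) (P.cons (P.lf 0 39822 0) P.nil)))) (P.cons (P.cons (P.lf 0 109942623 0) (P.cons (P.lf 0 8694780 0) (P.cons (P.lf 1208364 0 0) P.nil))) (P.cons (P.cons (P.lf 0 130774281 0) (P.cons (P.lf 0 2620005 0) P.nil)) (P.cons (P.cons (P.lf 13008339 0 0) P.nil) P.nil)))))) 26376780)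
 (EL.cons 8 (TM.mk (P.cons (P.cons (P.lf 0 1710024 0) (P.cons (P.lf 945834 0 0) (P.cons (P.lf 0 116919 0) (P.cons (P.lf 0 11343 0) (P.cons (P.lf 381 0 0) (P.cons (P.lf 27 0 0) P.nil)))))) (P.cons (P.cons (P.lf 59751297 0 0) (P.cons (P.lf 4307550 0 0) (P.cons (P.lf 0 582780 0) (P.cons (P.lf 0 36510 0) (P.cons (P.lf 987 0 0) P.nil))))) (P.cons (P.cons (P.lf 129179571 0 0) (P.cons (P.lf 5108169 0 0) (P.cons (P.lf 0 727653 0) (P.cons (P.lf 0 32286 0) P.nil)))) (P.cons (P.cons (P.lf 54051501 0 0) (P.cons (P.lf 523515 0 0) (P.cons (P.lf 0 92436 0) P.nil))) (P.cons (P.cons (P.lf 0 33082749 0) (P.cons (P.lf 0 1636518 0) P.nil)) (P.cons (P.cons (P.lf 0 18275025 0) P.nil) P.nil)))))) 8721234)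
 (EL.cons 11 (TM.mk (P.cons (P.cons (P.lf 0 130724136 0) (P.cons (P.lf 38499306 0 0) (P.cons (P.lf 2447076 0 0) (P.cons (P.lf 0 185262 0) (P.cons (P.lf 0 10110 0) (P.cons (P.lf 108 0 0) P.nil)))))) (P.cons (P.cons (P.lf 0 110938284 0) (P.cons (P.lf 33350355 0 0) (P.cons (P.lf 1757349 0 0) (P.cons (P.lf 0 131583 0) (P.cons (P.lf 0 6768 0) P.nil))))) (P.cons (P.cons (P.lf 49391781 0 0) (P.cons (P.lf 0 14248116 0) (P.cons (P.lf 0 1064991 0) (P.cons (P.lf 81270 0 0) P.nil)))) (P.cons (P.cons (P.lf 25993314 0 0) (P.cons (P.lf 0 8127204 0) (P.cons (P.lf 0 264321 0) P.nil))) (P.cons (P.cons (P.lf 0 6657924 0) (P.cons (P.lf 1930467 0 0) P.nil)) (P.cons (P.cons (P.lf 0 2634603 0) P.nil) P.nil)))))) 2767119)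
 EL.nil)))
noncomputable def S256_314_734_771_25 : EL := (EL.cons 4 (TM.mk (P.cons (P.cons (P.lf 3850125 0 0) (P.cons (P.lf 0 2228853 0) (P.cons (P.lf 335691 0 0) (P.lf 8607 0 0)))) (P.cons (P.cons (P.lf 0 134810232 0) (P.cons (P.lf 0 6046290 0) (P.cons (P.lf 910644 0 0) (P.lf 23349 0 0)))) (P.cons (P.cons (P.lf 0 280563366 0) (P.cons (P.lf 0 4540689 0) (P.cons (P.lf 683883 0 0) (P.lf 17535 0 0)))) (P.cons (P.cons (P.lf 0 117883305 0) (P.cons (P.lf 281976 0 0) (P.cons (P.lf 0 42468 0) P.nil))) (P.cons (P.cons (P.lf 46039371 0 0) (P.cons (P.lf 1050252 0 0) P.nil)) (P.cons (P.cons (P.lf 18866580 0 0) P.nil) P.nil)))))) 8557119)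
 (EL.cons 8 (TM.mk (P.cons (P.cons (P.lf 591009 0 0) (P.cons (P.lf 0 342138 0) (P.cons (P.lf 51528 0 0) (P.lf 1320 0 0)))) (P.cons (P.cons (P.lf 0 20083629 0) (P.cons (P.lf 0 1281423 0) (P.cons (P.lf 192996 0 0) (P.lf 4947 0 0)))) (P.cons (P.cons (P.lf 0 64406688 0) (P.cons (P.lf 0 1672500 0) (P.cons (P.lf 251898 0 0) (P.lf 6456 0 0)))) (P.cons (P.cons (P.lf 0 63590517 0) (P.cons (P.lf 0 729150 0) (P.cons (P.lf 109818 0 0) P.nil))) (P.cons (P.cons (P.lf 0 14151651 0) (P.cons (P.lf 153462 0 0) P.nil)) (P.cons (P.cons (P.lf 8465238 0 0) P.nil) P.nil)))))) 4752975)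
 (EL.cons 11 (TM.mk (P.cons (P.cons (P.lf 45180141 0 0) (P.cons (P.lf 0 14471277 0) (P.cons (P.lf 0 296958 0) (P.cons (P.lf 19971 0 0) (P.lf 381 0 0))))) (P.cons (P.cons (P.lf 81707850 0 0) (P.cons (P.lf 0 26171163 0) (P.cons (P.lf 0 537048 0) (P.cons (P.lf 36117 0 0) (P.lf 693 0 0))))) (P.cons (P.cons (P.lf 24419628 0 0) (P.cons (P.lf 0 7821648 0) (P.cons (P.lf 0 160503 0) (P.cons (P.lf 10794 0 0) P.nil)))) (P.cons (P.cons (P.lf 0 14757036 0) (P.cons (P.lf 4726704 0 0) (P.cons (P.lf 96993 0 0) P.nil))) (P.cons (P.cons (P.lf 0 1716549 0) (P.cons (P.lf 549813 0 0) P.nil)) (P.cons (P.cons (P.lf 1017813 0 0) P.nil) P.nil)))))) 771702)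
 EL.nil)))
noncomputable def S256_314_734_771_26 : EL := (EL.cons 4 (TM.mk (P.cons (P.cons (P.lf 0 2484048 0) (P.cons (P.lf 1373952 0 0) (P.cons (P.lf 0 169842 0) (P.cons (P.lf 0 16476 0) (P.cons (P.lf 552 0 0) (P.cons (P.lf 42 0 0) P.nil)))))) (P.cons (P.cons (P.lf 86956389 0 0) (P.cons (P.lf 6169131 0 0) (P.cons (P.lf 0 835665 0) (P.cons (P.lf 0 51981 0) (P.cons (P.lf 1398 0 0) P.nil))))) (P.cons (P.cons (P.lf 182155143 0 0) (P.cons (P.lf 6977421 0 0) (P.cons (P.lf 0 997578 0) (P.cons (P.lf 0 43002 0) P.nil)))) (P.cons (P.cons (P.lf 63859554 0 0) (P.cons (P.lf 98823 0 0) (P.cons (P.lf 0 41319 0) P.nil))) (P.cons (P.cons (P.lf 0 58568565 0) (P.cons (P.lf 0 2636310 0) P.nil)) (P.cons (P.cons (P.lf 0 25418988 0) P.nil) P.nil)))))) 18839313)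
 (EL.cons 8 (TM.mk (P.cons (P.cons (P.lf 0 381309 0) (P.cons (P.lf 210906 0 0) (P.cons (P.lf 0 26070 0) (P.cons (P.lf 0 2529 0) (P.cons (P.lf 84 0 0) (P.cons (P.lf 6 0 0) P.nil)))))) (P.cons (P.cons (P.lf 12954408 0 0) (P.cons (P.lf 1164768 0 0) (P.cons (P.lf 0 155199 0) (P.cons (P.lf 0 10590 0) (P.cons (P.lf 300 0 0) P.nil))))) (P.cons (P.cons (P.lf 41725851 0 0) (P.cons (P.lf 2059461 0 0) (P.cons (P.lf 0 286893 0) (P.cons (P.lf 0 14964 0) P.nil)))) (P.cons (P.cons (P.lf 39335877 0 0) (P.cons (P.lf 1172367 0 0) (P.cons (P.lf 0 171357 0) P.nil))) (P.cons (P.cons (P.lf 2774946 0 0) (P.cons (P.lf 0 317715 0) P.nil)) (P.cons (P.cons (P.lf 0 12160680 0) P.nil) P.nil)))))) 8134068)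
 (EL.cons 11 (TM.mk (P.cons (P.cons (P.lf 0 29149602 0) (P.cons (P.lf 8584791 0 0) (P.cons (P.lf 545661 0 0) (P.cons (P.lf 0 41310 0) (P.cons (P.lf 0 2253 0) (P.cons (P.lf 24 0 0) P.nil)))))) (P.cons (P.cons (P.lf 0 52966845 0) (P.cons (P.lf 15750375 0 0) (P.cons (P.lf 920295 0 0) (P.cons (P.lf 0 69348 0) (P.cons (P.lf 0 3690 0) P.nil))))) (P.cons (P.cons (P.lf 0 11591349 0) (P.cons (P.lf 3626670 0 0) (P.cons (P.lf 116712 0 0) (P.cons (P.lf 0 8376 0) P.nil)))) (P.cons (P.cons (P.lf 18012006 0 0) (P.cons (P.lf 0 5352546 0) (P.cons (P.lf 0 314631 0) P.nil))) (P.cons (P.cons (P.lf 3925782 0 0) (P.cons (P.lf 0 1270032 0) P.nil)) (P.cons (P.cons (P.lf 0 2480421 0) P.nil) P.nil)))))) 2807232)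
 EL.nil)))
noncomputable def S256_314_734_771_27 : EL := (EL.cons 13 (TM.mk (P.lf 0 4294967296 0) 0)
 EL.nil)
noncomputable def S256_314_734_771_28 : EL := (EL.cons 13 (TM.mk (P.cons (P.cons (P.lf 2771053580 0 0) (P.cons (P.lf 71475704 0 0) (P.cons (P.lf 0 10765116 0) (P.lf 0 276028 0)))) (P.cons (P.cons (P.lf 23772284 0 0) (P.cons (P.lf 0 13761868 0) (P.cons (P.lf 2072704 0 0) (P.lf 53144 0 0)))) (P.cons (P.cons (P.lf 0 438821383 0) (P.cons (P.lf 0 5563168 0) (P.cons (P.lf 837880 0 0) (P.lf 21480 0 0)))) (P.cons (P.cons (P.lf 0 26423202 0) (P.cons (P.lf 1229372 0 0) (P.cons (P.lf 0 185156 0) P.nil))) (P.cons (P.cons (P.lf 24816091 0 0) (P.cons (P.lf 201716 0 0) P.nil)) (P.cons (P.cons (P.lf 345131 0 0) P.nil) P.nil)))))) 1496416)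
 EL.nil)
noncomputable def S256_314_734_771_29 : EL := (EL.cons 13 (TM.mk (P.cons (P.cons (P.lf 0 1787845497 0) (P.cons (P.lf 0 92230274 0) (P.cons (P.lf 12701528 0 0) (P.cons (P.lf 714479 0 0) (P.cons (P.lf 0 17795 0) (P.cons (P.lf 0 1383 0) P.nil)))))) (P.cons (P.cons (P.lf 0 30675098 0) (P.cons (P.lf 16966710 0 0) (P.cons (P.lf 0 2097349 0) (P.cons (P.lf 0 203493 0) (P.cons (P.lf 6852 0 0) P.nil))))) (P.cons (P.cons (P.lf 566111413 0 0) (P.cons (P.lf 21936397 0 0) (P.cons (P.lf 0 3162822 0) (P.cons (P.lf 0 127202 0) P.nil)))) (P.cons (P.cons (P.lf 38953449 0 0) (P.cons (P.lf 0 3457437 0) (P.cons (P.lf 444160 0 0) P.nil))) (P.cons (P.cons (P.lf 0 76564345 0) (P.cons (P.lf 0 2405982 0) P.nil)) (P.cons (P.cons (P.lf 0 6119430 0) P.nil) P.nil)))))) 9267566)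
 EL.nil)
noncomputable def S256_314_734_771_30 : EL := (EL.cons 13 (TM.mk (P.cons (P.lf 0 957715992 0) (P.cons (P.lf 0 927476000 0) (P.cons (P.lf 44405152 0 0) (P.cons (P.lf 13240480 0 0) (P.cons (P.lf 0 1119116 0) (P.cons (P.lf 0 173696 0) P.nil)))))) 29016)
 EL.nil)
noncomputable def S256_314_734_771_31 : EL := (EL.cons 13 (TM.mk (P.cons (P.cons (P.lf 617905130 0 0) (P.cons (P.lf 15938054 0 0) (P.cons (P.lf 0 2400466 0) (P.lf 0 61550 0)))) (P.cons (P.cons (P.lf 603695583 0 0) (P.cons (P.lf 12366110 0 0) (P.cons (P.lf 0 1862487 0) (P.lf 0 47756 0)))) (P.cons (P.cons (P.lf 0 121366951 0) (P.cons (P.lf 0 4951289 0) (P.cons (P.lf 745724 0 0) (P.lf 19119 0 0)))) (P.cons (P.cons (P.lf 0 109441558 0) (P.cons (P.lf 0 1005267 0) (P.cons (P.lf 151405 0 0) P.nil))) (P.cons (P.cons (P.lf 5013352 0 0) (P.cons (P.lf 429022 0 0) P.nil)) (P.cons (P.cons (P.lf 7180106 0 0) P.nil) P.nil))))))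 1502497)
 EL.nil)
noncomputable def S256_314_734_771_32 : EL := (EL.cons 13 (TM.mk (P.cons (P.cons (P.lf 0 398663856 0) (P.cons (P.lf 0 20566025 0) (P.cons (P.lf 2832258 0 0) (P.cons (P.lf 159318 0 0) (P.cons (P.lf 0 3968 0) (P.cons (P.lf 0 308 0) P.nil)))))) (P.cons (P.cons (P.lf 0 392916105 0) (P.cons (P.lf 0 16133318 0) (P.cons (P.lf 2275150 0 0) (P.cons (P.lf 108912 0 0) (P.cons (P.lf 0 2314 0) P.nil))))) (P.cons (P.cons (P.lf 138094901 0 0) (P.cons (P.lf 9508932 0 0) (P.cons (P.lf 0 1289495 0) (P.cons (P.lf 0 79694 0) P.nil)))) (P.cons (P.cons (P.lf 136763591 0 0) (P.cons (P.lf 4075002 0 0) (P.cons (P.lf 0 601425 0) P.nil))) (P.cons (P.cons (P.lf 0 14885194 0) (P.cons (P.lf 0 1586249 0) P.nil)) (P.cons (P.cons (P.lf 0 20126453 0) P.nil) P.nil)))))) 7848600)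
 EL.nil)
noncomputable def S256_314_734_771_33 : EL := (EL.cons 14 (TM.mk (P.lf 8589934592 0 0) 0)
 EL.nil)
noncomputable def S256_314_734_771_34 : EL := (EL.cons 14 (TM.mk (P.cons (P.cons (P.lf 0 5542107160 0) (P.cons (P.lf 0 142951408 0) (P.cons (P.lf 21530232 0 0) (P.lf 552056 0 0)))) (P.cons (P.cons (P.lf 0 47544568 0) (P.cons (P.lf 27523736 0 0) (P.cons (P.lf 0 4145408 0) (P.lf 0 106288 0)))) (P.cons (P.cons (P.lf 877642766 0 0) (P.cons (P.lf 11126336 0 0) (P.cons (P.lf 0 1675760 0) (P.lf 0 42960 0)))) (P.cons (P.cons (P.lf 52846404 0 0) (P.cons (P.lf 0 2458744 0) (P.cons (P.lf 370312 0 0) P.nil))) (P.cons (P.cons (P.lf 0 49632182 0) (P.cons (P.lf 0 403432 0) P.nil)) (P.cons (P.cons (P.lf 0 690262 0) P.nil) P.nil)))))) 2992832)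
 EL.nil)
noncomputable def S256_314_734_771_35 : EL := (EL.cons 14 (TM.mk (P.cons (P.cons (P.lf 3575690994 0 0) (P.cons (P.lf 184460548 0 0) (P.cons (P.lf 0 25403056 0) (P.cons (P.lf 0 1428958 0) (P.cons (P.lf 35590 0 0) (P.cons (P.lf 2766 0 0) P.nil)))))) (P.cons (P.cons (P.lf 61350196 0 0) (P.cons (P.lf 0 33933420 0) (P.cons (P.lf 4194698 0 0) (P.cons (P.lf 406986 0 0) (P.cons (P.lf 0 13704 0) P.nil))))) (P.cons (P.cons (P.lf 0 1132222826 0) (P.cons (P.lf 0 43872794 0) (P.cons (P.lf 6325644 0 0) (P.cons (P.lf 254404 0 0) P.nil)))) (P.cons (P.cons (P.lf 0 77906898 0) (P.cons (P.lf 6914874 0 0) (P.cons (P.lf 0 888320 0) P.nil))) (P.cons (P.cons (P.lf 153128690 0 0) (P.cons (P.lf 4811964 0 0) P.nil)) (P.cons (P.cons (P.lf 12238860 0 0) P.nil) P.nil)))))) 18535132)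
 EL.nil)
noncomputable def S256_314_734_771_36 : EL := (EL.cons 14 (TM.mk (P.cons (P.lf 1915431984 0 0) (P.cons (P.lf 1854952000 0 0) (P.cons (P.lf 0 88810304 0) (P.cons (P.lf 0 26480960 0) (P.cons (P.lf 2238232 0 0) (P.cons (P.lf 347392 0 0) P.nil)))))) 58032)
 EL.nil)
noncomputable def S256_314_734_771_37 : EL := (EL.cons 14 (TM.mk (P.cons (P.cons (P.lf 0 1235810260 0) (P.cons (P.lf 0 31876108 0) (P.cons (P.lf 4800932 0 0) (P.lf 123100 0 0)))) (P.cons (P.cons (P.lf 0 1207391166 0) (P.cons (P.lf 0 24732220 0) (P.cons (P.lf 3724974 0 0) (P.lf 95512 0 0)))) (P.cons (P.cons (P.lf 242733902 0 0) (P.cons (P.lf 9902578 0 0) (P.cons (P.lf 0 1491448 0) (P.lf 0 38238 0)))) (P.cons (P.cons (P.lf 218883116 0 0) (P.cons (P.lf 2010534 0 0) (P.cons (P.lf 0 302810 0) P.nil))) (P.cons (P.cons (P.lf 0 10026704 0) (P.cons (P.lf 0 858044 0) P.nil)) (P.cons (P.cons (P.lf 0 14360212 0) P.nil)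 P.nil)))))) 3004994)
 EL.nil)
noncomputable def S256_314_734_771_38 : EL := (EL.cons 14 (TM.mk (P.cons (P.cons (P.lf 797327712 0 0) (P.cons (P.lf 41132050 0 0) (P.cons (P.lf 0 5664516 0) (P.cons (P.lf 0 318636 0) (P.cons (P.lf 7936 0 0) (P.cons (P.lf 616 0 0) P.nil)))))) (P.cons (P.cons (P.lf 785832210 0 0) (P.cons (P.lf 32266636 0 0) (P.cons (P.lf 0 4550300 0) (P.cons (P.lf 0 217824 0) (P.cons (P.lf 4628 0 0) P.nil))))) (P.cons (P.cons (P.lf 0 276189802 0) (P.cons (P.lf 0 19017864 0) (P.cons (P.lf 2578990 0 0) (P.cons (P.lf 159388 0 0) P.nil)))) (P.cons (P.cons (P.lf 0 273527182 0) (P.cons (P.lf 0 8150004 0) (P.cons (P.lf 1202850 0 0) P.nil))) (P.cons (P.cons (P.lf 29770388 0 0) (P.cons (P.lf 3172498 0 0) P.nil)) (P.cons (P.cons (P.lf 40252906 0 0) P.nil) P.nil)))))) 15697200)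
 EL.nil)
noncomputable def S256_314_734_771_39 : EL := (EL.cons 14 (TM.mk (P.cons (P.lf 427113808 0 0) (P.cons (P.lf 827255282 0 0) (P.cons (P.lf 360960458 0 0) (P.cons (P.lf 0 50165998 0) (P.cons (P.lf 0 9520466 0) (P.cons (P.lf 1669162 0 0) P.nil)))))) 354406)
 EL.nil)
noncomputable def S256_314_734_771_40 : EL := (EL.cons 14 (TM.mk (P.cons (P.cons (P.lf 0 275567928 0) (P.cons (P.lf 0 7107914 0) (P.cons (P.lf 1070538 0 0) (P.lf 27448 0 0)))) (P.cons (P.cons (P.lf 0 536097720 0) (P.cons (P.lf 0 12398410 0) (P.cons (P.lf 1867352 0 0) (P.lf 47880 0 0)))) (P.cons (P.cons (P.lf 0 193826818 0) (P.cons (P.lf 0 2803098 0) (P.cons (P.lf 422180 0 0) (P.lf 10824 0 0)))) (P.cons (P.cons (P.lf 117517736 0 0) (P.cons (P.lf 2940700 0 0) (P.cons (P.lf 0 442904 0) P.nil))) (P.cons (P.cons (P.lf 45921394 0 0) (P.cons (P.lf 208388 0 0) P.nil)) (P.cons (P.cons (P.lf 0 8743220 0) P.nil) P.nil))))))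 5466704)
 EL.nil)
noncomputable def S256_314_734_771_41 : EL := (EL.cons 14 (TM.mk (P.cons (P.cons (P.lf 177792622 0 0) (P.cons (P.lf 9171856 0 0) (P.cons (P.lf 0 1263104 0) (P.cons (P.lf 0 71050 0) (P.cons (P.lf 1768 0 0) (P.cons (P.lf 136 0 0) P.nil)))))) (P.cons (P.cons (P.lf 347408090 0 0) (P.cons (P.lf 16077250 0 0) (P.cons (P.lf 0 2237874 0) (P.cons (P.lf 0 117378 0) (P.cons (P.lf 2746 0 0) P.nil))))) (P.cons (P.cons (P.lf 99866572 0 0) (P.cons (P.lf 2301842 0 0) (P.cons (P.lf 0 348970 0) (P.cons (P.lf 0 8202 0) P.nil)))) (P.cons (P.cons (P.lf 0 131217010 0) (P.cons (P.lf 0 6384546 0) (P.cons (P.lf 889644 0 0) P.nil))) (P.cons (P.cons (P.lf 0 51787718 0) (P.cons (P.lf 0 944660 0) P.nil)) (P.cons (P.cons (P.lf 19320986 0 0) P.nil) P.nil)))))) 17198528)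
 EL.nil)
noncomputable def S256_314_734_771_42 : EL := (EL.cons 14 (TM.mk (P.cons (P.lf 95240240 0 0) (P.cons (P.lf 276699060 0 0) (P.cons (P.lf 254714620 0 0) (P.cons (P.lf 56891654 0 0) (P.cons (P.lf 0 19126904 0) (P.cons (P.lf 0 2044974 0) P.nil)))))) 997622)
 EL.nil)
noncomputable def S256_314_734_771_43 : EL := (EL.cons 14 (TM.mk (P.cons (P.cons (P.lf 0 61447686 0) (P.cons (P.lf 0 1584962 0) (P.cons (P.lf 238714 0 0) (P.lf 6120 0 0)))) (P.cons (P.cons (P.lf 0 179049558 0) (P.cons (P.lf 0 4299584 0) (P.cons (P.lf 647570 0 0) (P.lf 16604 0 0)))) (P.cons (P.cons (P.lf 0 156139064 0) (P.cons (P.lf 0 3228934 0) (P.cons (P.lf 486316 0 0) (P.lf 12468 0 0)))) (P.cons (P.cons (P.lf 0 9258964 0) (P.cons (P.lf 200516 0 0) (P.cons (P.lf 0 30200 0) P.nil))) (P.cons (P.cons (P.lf 39201982 0 0) (P.cons (P.lf 746846 0 0) P.nil)) (P.cons (P.cons (P.lf 7198566 0 0) P.nil) P.nil))))))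 6181182)
 EL.nil)
noncomputable def S256_314_734_771_44 : EL := (EL.cons 14 (TM.mk (P.cons (P.cons (P.lf 39645198 0 0) (P.cons (P.lf 2045192 0 0) (P.cons (P.lf 0 281654 0) (P.cons (P.lf 0 15842 0) (P.cons (P.lf 394 0 0) (P.cons (P.lf 30 0 0) P.nil)))))) (P.cons (P.cons (P.lf 115860410 0 0) (P.cons (P.lf 5565610 0 0) (P.cons (P.lf 0 771774 0) (P.cons (P.lf 0 41516 0) (P.cons (P.lf 994 0 0) P.nil))))) (P.cons (P.cons (P.lf 95451616 0 0) (P.cons (P.lf 3890250 0 0) (P.cons (P.lf 0 548014 0) (P.cons (P.lf 0 26440 0) P.nil)))) (P.cons (P.cons (P.lf 0 11833744 0) (P.cons (P.lf 0 1121086 0) (P.cons (P.lf 150050 0 0) P.nil))) (P.cons (P.cons (P.lf 0 41940720 0) (P.cons (P.lf 0 1660326 0) P.nil)) (P.cons (P.cons (P.lf 0 5728506 0) P.nil) P.nil)))))) 14048932)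
 EL.nil)
noncomputable def S256_314_734_771_45 : EL := (EL.cons 14 (TM.mk (P.cons (P.cons (P.lf 0 2306986444 0) (P.cons (P.lf 0 178517096 0) (P.cons (P.lf 22282244 0 0) (P.cons (P.lf 2036836 0 0) (P.cons (P.lf 0 50998 0) (P.cons (P.lf 0 7590 0) P.nil)))))) (P.cons (P.cons (P.lf 0 59373448 0) (P.cons (P.lf 31308600 0 0) (P.cons (P.lf 0 2981818 0) (P.cons (P.lf 0 620246 0) (P.cons (P.lf 15602 0 0) P.nil))))) (P.cons (P.cons (P.lf 1095487118 0 0) (P.cons (P.lf 71010704 0 0) (P.cons (P.lf 0 9404600 0) (P.cons (P.lf 0 658102 0) P.nil)))) (P.cons (P.cons (P.lf 84797546 0 0) (P.cons (P.lf 0 9826106 0) (P.cons (P.lf 951316 0 0) P.nil))) (P.cons (P.cons (P.lf 0 234328436 0) (P.cons (P.lf 0 13349972 0) P.nil)) (P.cons (P.cons (P.lf 0 24311122 0) P.nil) P.nil)))))) 49100228)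
 EL.nil)
noncomputable def S256_314_734_771_46 : EL := (EL.cons 15 (TM.mk (P.lf 4294967296 0 0) 0)
 EL.nil)
noncomputable def S256_314_734_771_47 : EL := (EL.cons 15 (TM.mk (P.cons (P.cons (P.lf 0 2771053580 0) (P.cons (P.lf 0 71475704 0) (P.cons (P.lf 10765116 0 0) (P.lf 276028 0 0)))) (P.cons (P.cons (P.lf 0 23772284 0) (P.cons (P.lf 13761868 0 0) (P.cons (P.lf 0 2072704 0) (P.lf 0 53144 0)))) (P.cons (P.cons (P.lf 438821383 0 0) (P.cons (P.lf 5563168 0 0) (P.cons (P.lf 0 837880 0) (P.lf 0 21480 0)))) (P.cons (P.cons (P.lf 26423202 0 0) (P.cons (P.lf 0 1229372 0) (P.cons (P.lf 185156 0 0) P.nil))) (P.cons (P.cons (P.lf 0 24816091 0) (P.cons (P.lf 0 201716 0) P.nil)) (P.cons (P.cons (P.lf 0 345131 0) P.nil) P.nil)))))) 1496416)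
 EL.nil)
noncomputable def S256_314_734_771_48 : EL := (EL.cons 15 (TM.mk (P.cons (P.cons (P.lf 1787845497 0 0) (P.cons (P.lf 92230274 0 0) (P.cons (P.lf 0 12701528 0) (P.cons (P.lf 0 714479 0) (P.cons (P.lf 17795 0 0) (P.cons (P.lf 1383 0 0) P.nil)))))) (P.cons (P.cons (P.lf 30675098 0 0) (P.cons (P.lf 0 16966710 0) (P.cons (P.lf 2097349 0 0) (P.cons (P.lf 203493 0 0) (P.cons (P.lf 0 6852 0) P.nil))))) (P.cons (P.cons (P.lf 0 566111413 0) (P.cons (P.lf 0 21936397 0) (P.cons (P.lf 3162822 0 0) (P.cons (P.lf 127202 0 0) P.nil)))) (P.cons (P.cons (P.lf 0 38953449 0) (P.cons (P.lf 3457437 0 0) (P.cons (P.lf 0 444160 0) P.nil))) (P.cons (P.cons (P.lf 76564345 0 0) (P.cons (P.lf 2405982 0 0) P.nil)) (P.cons (P.cons (P.lf 6119430 0 0) P.nil) P.nil)))))) 9267566)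
 EL.nil)
noncomputable def S256_314_734_771 : SL := (SL.cons S256_314_734_771_0 (SL.cons S256_314_734_771_1 (SL.cons S256_314_734_771_2 (SL.cons S256_314_734_771_3 (SL.cons S256_314_734_771_4 (SL.cons S256_314_734_771_5 (SL.cons S256_314_734_771_6 (SL.cons S256_314_734_771_7 (SL.cons S256_314_734_771_8 (SL.cons S256_314_734_771_9 (SL.cons S256_314_734_771_10 (SL.cons S256_314_734_771_11 (SL.cons S256_314_734_771_12 (SL.cons S256_314_734_771_13 (SL.cons S256_314_734_771_14 (SL.cons S256_314_734_771_15 (SL.cons S256_314_734_771_16 (SL.cons S256_314_734_771_17 (SL.cons S256_314_734_771_18 (SL.cons S256_314_734_771_19 (SL.cons S256_314_734_771_20 (SL.cons S256_314_734_771_21 (SL.cons S256_314_734_771_22 (SL.cons S256_314_734_771_23 (SL.cons S256_314_734_771_24 (SL.cons S256_314_734_771_25 (SL.cons S256_314_734_771_26 (SL.cons S256_314_734_771_27 (SL.cons S256_314_734_771_28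 (SL.cons S256_314_734_771_29 (SL.cons S256_314_734_771_30 (SL.cons S256_314_734_771_31 (SL.cons S256_314_734_771_32 (SL.cons S256_314_734_771_33 (SL.cons S256_314_734_771_34 (SL.cons S256_314_734_771_35 (SL.cons S256_314_734_771_36 (SL.cons S256_314_734_771_37 (SL.cons S256_314_734_771_38 (SL.cons S256_314_734_771_39 (SL.cons S256_314_734_771_40 (SL.cons S256_314_734_771_41 (SL.cons S256_314_734_771_42 (SL.cons S256_314_734_771_43 (SL.cons S256_314_734_771_44 (SL.cons S256_314_734_771_45 (SL.cons S256_314_734_771_46 (SL.cons S256_314_734_771_47 (SL.cons S256_314_734_771_48 SL.nil)))))))))))))))))))))))))))))))))))))))))))))))))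
noncomputable def S270_285_216_364_0 : EL := (EL.cons 0 (TM.mk (P.cons (P.lf 8246418975 0 0) (P.cons (P.lf 0 143469418 0) (P.cons (P.lf 0 23266362 0) (P.cons (P.lf 596937 0 0) (P.cons (P.lf 45172 0 0) (P.cons (P.lf 0 1374 0) P.nil)))))) 130)
 (EL.cons 1 (TM.mk (P.cons (P.lf 658702106 0 0) (P.cons (P.lf 217659159 0 0) (P.cons (P.lf 0 6218872 0) (P.cons (P.lf 0 652477 0) (P.cons (P.lf 17842 0 0) (P.cons (P.lf 1025 0 0) P.nil)))))) 108)
 (EL.cons 5 (TM.mk (P.cons (P.lf 4369384324 0 0) (P.cons (P.lf 51011348 0 0) (P.cons (P.lf 8272484 0 0) (P.cons (P.lf 0 212242 0) (P.cons (P.lf 0 16058 0) (P.cons (P.lf 490 0 0) P.nil)))))) 145)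
 (EL.cons 9 (TM.mk (P.lf 6442450944 0 0) 2)
 EL.nil))))
noncomputable def S270_285_216_364_1 : EL := (EL.cons 0 (TM.mk (P.cons (P.cons (P.lf 2281030638 0 0) (P.cons (P.lf 0 683006647 0) (P.cons (P.lf 0 294520172 0) (P.lf 32724466 0 0)))) (P.cons (P.cons (P.lf 0 770896846 0) (P.cons (P.lf 76658388 0 0) (P.cons (P.lf 33055953 0 0) (P.lf 0 3672874 0)))) (P.cons (P.cons (P.lf 36133583 0 0) (P.cons (P.lf 10377590 0 0) (P.cons (P.lf 4474931 0 0) (P.lf 0 497211 0)))) (P.cons (P.cons (P.lf 12561485 0 0) (P.cons (P.lf 0 974107 0) (P.cons (P.lf 0 420033 0) P.nil))) (P.cons (P.cons (P.lf 0 603194 0) (P.cons (P.lf 0 55633 0) P.nil)) (P.cons (P.cons (P.lf 0 66069 0) P.nil) P.nil)))))) 108875)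
 (EL.cons 1 (TM.mk (P.cons (P.cons (P.lf 1605467854 0 0) (P.cons (P.lf 0 144453117 0) (P.cons (P.lf 0 62289811 0) (P.lf 6921086 0 0)))) (P.cons (P.cons (P.lf 0 36194356 0) (P.cons (P.lf 0 40142896 0) (P.cons (P.lf 0 17310072 0) (P.lf 1923340 0 0)))) (P.cons (P.cons (P.lf 0 56674668 0) (P.cons (P.lf 5041926 0 0) (P.cons (P.lf 2174130 0 0) (P.lf 0 241564 0)))) (P.cons (P.cons (P.lf 3154378 0 0) (P.cons (P.lf 406583 0 0) (P.cons (P.lf 175321 0 0) P.nil))) (P.cons (P.cons (P.lf 514156 0 0) (P.cons (P.lf 0 43129 0) P.nil)) (P.cons (P.cons (P.lf 0 27993 0) P.nil) P.nil)))))) 65079)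
 (EL.cons 5 (TM.mk (P.cons (P.cons (P.lf 1997700639 0 0) (P.cons (P.lf 0 411733300 0) (P.cons (P.lf 0 177544044 0) (P.lf 19727116 0 0)))) (P.cons (P.cons (P.lf 0 108420859 0) (P.cons (P.lf 0 3095720 0) (P.cons (P.lf 0 1334902 0) (P.lf 148318 0 0)))) (P.cons (P.cons (P.lf 0 9361844 0) (P.cons (P.lf 79676 0 0) (P.cons (P.lf 34362 0 0) (P.lf 0 3820 0)))) (P.cons (P.cons (P.lf 0 1248110 0) (P.cons (P.lf 197006 0 0) (P.cons (P.lf 84950 0 0) P.nil))) (P.cons (P.cons (P.lf 156438 0 0) (P.cons (P.lf 9198 0 0) P.nil)) (P.cons (P.cons (P.lf 14637 0 0) P.nil) P.nil)))))) 62862)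
 (EL.cons 9 (TM.mk (P.cons (P.cons (P.lf 2478294483 0 0) (P.cons (P.lf 0 577570674 0) (P.cons (P.lf 0 249054990 0) (P.lf 27672774 0 0)))) (P.cons (P.cons (P.lf 0 337515445 0) (P.cons (P.lf 21318168 0 0) (P.cons (P.lf 9192630 0 0) (P.lf 0 1021398 0)))) (P.cons (P.cons (P.lf 3075571 0 0) (P.cons (P.lf 3326010 0 0) (P.cons (P.lf 1434210 0 0) (P.lf 0 159354 0)))) (P.cons (P.cons (P.lf 2839573 0 0) (P.cons (P.lf 0 131766 0) (P.cons (P.lf 0 56814 0) P.nil))) (P.cons (P.cons (P.lf 0 51204 0) (P.cons (P.lf 0 9330 0) P.nil)) (P.cons (P.cons (P.lf 0 7803 0) P.nil) P.nil)))))) 13658)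
 (EL.cons 2 (TM.mk (P.cons (P.cons (P.lf 0 191732293 0) (P.cons (P.lf 0 178616368 0) (P.cons (P.lf 18331849 0 0) (P.cons (P.lf 3812512 0 0) (P.lf 0 317708 0))))) (P.cons (P.cons (P.lf 0 60996380 0) (P.cons (P.lf 0 56823769 0) (P.cons (P.lf 5831966 0 0) (P.cons (P.lf 1212885 0 0) (P.lf 0 101072 0))))) (P.cons (P.cons (P.lf 2986706 0 0) (P.cons (P.lf 2782392 0 0) (P.cons (P.lf 0 285561 0) (P.cons (P.lf 0 59388 0) P.nil)))) (P.cons (P.cons (P.lf 293923 0 0) (P.cons (P.lf 273816 0 0) (P.cons (P.lf 0 28102 0) P.nil))) (P.cons (P.cons (P.lf 0 13297 0) (P.cons (P.lf 0 12389 0) P.nil)) (P.cons (P.cons (P.lf 0 703 0) P.nil) P.nil)))))) 15571)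
 (EL.cons 6 (TM.mk (P.cons (P.cons (P.lf 603419688 0 0) (P.cons (P.lf 562141263 0 0) (P.cons (P.lf 0 57693978 0) (P.cons (P.lf 0 11998740 0) (P.lf 999894 0 0))))) (P.cons (P.cons (P.lf 0 22272258 0) (P.cons (P.lf 0 20748669 0) (P.cons (P.lf 2129487 0 0) (P.cons (P.lf 442872 0 0) (P.lf 0 36903 0))))) (P.cons (P.cons (P.lf 0 3474867 0) (P.cons (P.lf 0 3237159 0) (P.cons (P.lf 332235 0 0) (P.cons (P.lf 69096 0 0) P.nil)))) (P.cons (P.cons (P.lf 137667 0 0) (P.cons (P.lf 128247 0 0) (P.cons (P.lf 0 13161 0) P.nil))) (P.cons (P.cons (P.lf 9750 0 0) (P.cons (P.lf 9084 0 0) P.nil)) (P.cons (P.cons (P.lf 0 441 0) P.nil) P.nil)))))) 11475)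
 EL.nil))))))
noncomputable def S270_285_216_364_2 : EL := (EL.cons 0 (TM.mk (P.cons (P.cons (P.lf 534635904 0 0) (P.cons (P.lf 0 365683926 0) (P.cons (P.lf 0 101501512 0) (P.cons (P.lf 65976448 0 0) (P.cons (P.lf 5063352 0 0) (P.cons (P.lf 0 2321631 0) P.nil)))))) (P.cons (P.cons (P.lf 0 478489001 0) (P.cons (P.lf 175509290 0 0) (P.cons (P.lf 63462246 0 0) (P.cons (P.lf 0 18947279 0) (P.cons (P.lf 0 1101184 0) P.nil))))) (P.cons (P.cons (P.lf 82749211 0 0) (P.cons (P.lf 0 9527789 0) (P.cons (P.lf 0 5392173 0) (P.cons (P.lf 0 650582 0) P.nil)))) (P.cons (P.cons (P.lf 4189495 0 0) (P.cons (P.lf 0 3752707 0) (P.cons (P.lf 0 1356502 0) P.nil))) (P.cons (P.cons (P.lf 0 1900928 0) (P.cons (P.lf 327029 0 0) P.nil)) (P.cons (P.cons (P.lf 59703 0 0) P.nil) P.nil)))))) 2391506)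
 (EL.cons 1 (TM.mk (P.cons (P.cons (P.lf 1137714093 0 0) (P.cons (P.lf 0 353566500 0) (P.cons (P.lf 0 131855358 0) (P.cons (P.lf 34711716 0 0) (P.cons (P.lf 1857020 0 0) (P.cons (P.lf 0 851472 0) P.nil)))))) (P.cons (P.cons (P.lf 0 201724593 0) (P.cons (P.lf 8514209 0 0) (P.cons (P.lf 8554540 0 0) (P.cons (P.lf 3803378 0 0) (P.cons (P.lf 440053 0 0) P.nil))))) (P.cons (P.cons (P.lf 0 30634674 0) (P.cons (P.lf 16522765 0 0) (P.cons (P.lf 6038836 0 0) (P.cons (P.lf 0 1728184 0) P.nil)))) (P.cons (P.cons (P.lf 8723982 0 0) (P.cons (P.lf 0 1291971 0) (P.cons (P.lf 0 617528 0) P.nil))) (P.cons (P.cons (P.lf 0 84680 0) (P.cons (P.lf 0 200406 0) P.nil)) (P.cons (P.cons (P.lf 0 110151 0) P.nil) P.nil)))))) 1218262)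
 (EL.cons 5 (TM.mk (P.cons (P.cons (P.lf 890376349 0 0) (P.cons (P.lf 0 373589319 0) (P.cons (P.lf 0 122389385 0) (P.cons (P.lf 51280927 0 0) (P.cons (P.lf 3488170 0 0) (P.cons (P.lf 0 1599369 0) P.nil)))))) (P.cons (P.cons (P.lf 0 124165730 0) (P.cons (P.lf 24770963 0 0) (P.cons (P.lf 10694143 0 0) (P.cons (P.lf 0 1175958 0) (P.cons (P.lf 1130 0 0) P.nil))))) (P.cons (P.cons (P.lf 0 6700377 0) (P.cons (P.lf 3131260 0 0) (P.cons (P.lf 1210722 0 0) (P.cons (P.lf 0 270337 0) P.nil)))) (P.cons (P.cons (P.lf 621146 0 0) (P.cons (P.lf 270471 0 0) (P.cons (P.lf 75299 0 0) P.nil))) (P.cons (P.cons (P.lf 295701 0 0) (P.cons (P.lf 0 73456 0) P.nil)) (P.cons (P.cons (P.lf 0 18874 0) P.nil) P.nil)))))) 1420712)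
 (EL.cons 9 (TM.mk (P.cons (P.cons (P.lf 953355111 0 0) (P.cons (P.lf 0 444362005 0) (P.cons (P.lf 0 139834255 0) (P.cons (P.lf 65946373 0 0) (P.cons (P.lf 4666302 0 0) (P.cons (P.lf 0 2139571 0) P.nil)))))) (P.cons (P.cons (P.lf 0 259672188 0) (P.cons (P.lf 76918465 0 0) (P.cons (P.lf 29345725 0 0) (P.cons (P.lf 0 6981846 0) (P.cons (P.lf 0 344467 0) P.nil))))) (P.cons (P.cons (P.lf 20048428 0 0) (P.cons (P.lf 0 226230 0) (P.cons (P.lf 0 623370 0) (P.cons (P.lf 0 442633 0) P.nil)))) (P.cons (P.cons (P.lf 1862410 0 0) (P.cons (P.lf 0 938655 0) (P.cons (P.lf 0 359116 0) P.nil))) (P.cons (P.cons (P.lf 0 335452 0) (P.cons (P.lf 37776 0 0) P.nil)) (P.cons (P.cons (P.lf 2071 0 0) P.nil) P.nil)))))) 652904)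
 (EL.cons 2 (TM.mk (P.cons (P.cons (P.lf 0 147511895 0) (P.cons (P.lf 0 103043081 0) (P.cons (P.lf 60954187 0 0) (P.cons (P.lf 11809209 0 0) (P.cons (P.lf 0 3879832 0) (P.cons (P.lf 0 80319 0) P.nil)))))) (P.cons (P.cons (P.lf 0 26838967 0) (P.cons (P.lf 0 15335128 0) (P.cons (P.lf 15741506 0 0) (P.cons (P.lf 3029816 0 0) (P.cons (P.lf 0 1066831 0) P.nil))))) (P.cons (P.cons (P.lf 8505911 0 0) (P.cons (P.lf 6786877 0 0) (P.cons (P.lf 0 2362995 0) (P.cons (P.lf 0 462735 0) P.nil)))) (P.cons (P.cons (P.lf 0 314060 0) (P.cons (P.lf 0 380649 0) (P.cons (P.lf 0 89994 0) P.nil))) (P.cons (P.cons (P.lf 0 88897 0) (P.cons (P.lf 0 72348 0) P.nil)) (P.cons (P.cons (P.lf 5197 0 0) P.nil) P.nil)))))) 547373)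
 (EL.cons 6 (TM.mk (P.cons (P.cons (P.lf 464249298 0 0) (P.cons (P.lf 324297096 0 0) (P.cons (P.lf 0 191834958 0) (P.cons (P.lf 0 37165932 0) (P.cons (P.lf 12210606 0 0) (P.cons (P.lf 252780 0 0) P.nil)))))) (P.cons (P.cons (P.lf 0 80360928 0) (P.cons (P.lf 0 66876738 0) (P.cons (P.lf 18568020 0 0) (P.cons (P.lf 3660066 0 0) (P.cons (P.lf 0 977754 0) P.nil))))) (P.cons (P.cons (P.lf 236346 0 0) (P.cons (P.lf 1318878 0 0) (P.cons (P.lf 1474710 0 0) (P.cons (P.lf 278970 0 0) P.nil)))) (P.cons (P.cons (P.lf 980664 0 0) (P.cons (P.lf 818220 0 0) (P.cons (P.lf 0 223716 0) P.nil))) (P.cons (P.cons (P.lf 0 39456 0) (P.cons (P.lf 0 42024 0) P.nil)) (P.cons (P.cons (P.lf 0 5400 0) P.nil) P.nil)))))) 601902)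
 EL.nil))))))
noncomputable def S270_285_216_364_3 : EL := (EL.cons 0 (TM.mk (P.cons (P.lf 209297888 0 0) (P.cons (P.lf 143469418 0 0) (P.cons (P.lf 23266362 0 0) (P.cons (P.lf 0 596937 0) (P.cons (P.lf 0 45172 0) (P.cons (P.lf 1374 0 0) P.nil)))))) 130)
 (EL.cons 1 (TM.mk (P.cons (P.lf 0 658702106 0) (P.cons (P.lf 0 217659159 0) (P.cons (P.lf 6218872 0 0) (P.cons (P.lf 652477 0 0) (P.cons (P.lf 0 17842 0) (P.cons (P.lf 0 1025 0) P.nil)))))) 108)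
 (EL.cons 5 (TM.mk (P.cons (P.lf 2073066620 0 0) (P.cons (P.lf 0 51011348 0) (P.cons (P.lf 0 8272484 0) (P.cons (P.lf 212242 0 0) (P.cons (P.lf 16058 0 0) (P.cons (P.lf 0 490 0) P.nil)))))) 138)
 EL.nil)))
noncomputable def S270_285_216_364_4 : EL := (EL.cons 0 (TM.mk (P.cons (P.cons (P.lf 80513115 0 0) (P.cons (P.lf 0 18763715 0) (P.cons (P.lf 0 8091124 0) (P.lf 899013 0 0)))) (P.cons (P.cons (P.lf 44225124 0 0) (P.cons (P.lf 0 12169573 0) (P.cons (P.lf 0 5247657 0) (P.lf 583071 0 0)))) (P.cons (P.cons (P.lf 1533803 0 0) (P.cons (P.lf 0 1503050 0) (P.cons (P.lf 0 648131 0) (P.lf 72014 0 0)))) (P.cons (P.cons (P.lf 0 1287798 0) (P.cons (P.lf 200290 0 0) (P.cons (P.lf 86366 0 0) P.nil))) (P.cons (P.cons (P.lf 86574 0 0) (P.cons (P.lf 10847 0 0) P.nil)) (P.cons (P.cons (P.lf 11469 0 0) P.nil) P.nil)))))) 23243)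
 (EL.cons 1 (TM.mk (P.cons (P.cons (P.lf 0 253390798 0) (P.cons (P.lf 59053149 0 0) (P.cons (P.lf 25464382 0 0) (P.lf 0 2829373 0)))) (P.cons (P.cons (P.lf 0 49220608 0) (P.cons (P.lf 17333655 0 0) (P.cons (P.lf 7474468 0 0) (P.lf 0 830495 0)))) (P.cons (P.cons (P.lf 13480837 0 0) (P.cons (P.lf 0 1617826 0) (P.cons (P.lf 0 697623 0) (P.lf 77512 0 0)))) (P.cons (P.cons (P.lf 0 469042 0) (P.cons (P.lf 0 136813 0) (P.cons (P.lf 0 58995 0) P.nil))) (P.cons (P.cons (P.lf 0 128776 0) (P.cons (P.lf 12373 0 0) P.nil)) (P.cons (P.cons (P.lf 6118 0 0) P.nil) P.nil)))))) 18774)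
 (EL.cons 5 (TM.mk (P.cons (P.cons (P.lf 797471274 0 0) (P.cons (P.lf 0 185852012 0) (P.cons (P.lf 0 80141484 0) (P.lf 8904608 0 0)))) (P.cons (P.cons (P.lf 0 128229636 0) (P.cons (P.lf 11433014 0 0) (P.cons (P.lf 4930042 0 0) (P.lf 0 547780 0)))) (P.cons (P.cons (P.lf 479836 0 0) (P.cons (P.lf 1643086 0 0) (P.cons (P.lf 708516 0 0) (P.lf 0 78722 0)))) (P.cons (P.cons (P.lf 1404406 0 0) (P.cons (P.lf 0 115136 0) (P.cons (P.lf 0 49646 0) P.nil))) (P.cons (P.cons (P.lf 0 47850 0) (P.cons (P.lf 0 6966 0) P.nil)) (P.cons (P.cons (P.lf 0 6678 0) P.nil) P.nil)))))) 12676)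
 EL.nil)))
noncomputable def S270_285_216_364_5 : EL := (EL.cons 0 (TM.mk (P.cons (P.cons (P.lf 30971940 0 0) (P.cons (P.lf 0 14436124 0) (P.cons (P.lf 0 4542837 0) (P.cons (P.lf 2142420 0 0) (P.cons (P.lf 151595 0 0) (P.cons (P.lf 0 69507 0) P.nil)))))) (P.cons (P.cons (P.lf 12794581 0 0) (P.cons (P.lf 0 7396794 0) (P.cons (P.lf 0 2160659 0) (P.cons (P.lf 1241762 0 0) (P.cons (P.lf 92724 0 0) P.nil))))) (P.cons (P.cons (P.lf 0 1688458 0) (P.cons (P.lf 100801 0 0) (P.cons (P.lf 128258 0 0) (P.cons (P.lf 68298 0 0) P.nil)))) (P.cons (P.cons (P.lf 0 519147 0) (P.cons (P.lf 283424 0 0) (P.cons (P.lf 93387 0 0) P.nil))) (P.cons (P.cons (P.lf 120355 0 0) (P.cons (P.lf 0 24503 0) P.nil)) (P.cons (P.cons (P.lf 0 509 0) P.nil) P.nil)))))) 186532)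
 (EL.cons 1 (TM.mk (P.cons (P.cons (P.lf 0 97474860 0) (P.cons (P.lf 45433357 0 0) (P.cons (P.lf 14297216 0 0) (P.cons (P.lf 0 6742620 0) (P.cons (P.lf 0 477099 0) (P.cons (P.lf 218756 0 0) P.nil)))))) (P.cons (P.cons (P.lf 0 5659312 0) (P.cons (P.lf 7148381 0 0) (P.cons (P.lf 1723895 0 0) (P.cons (P.lf 0 1514154 0) (P.cons (P.lf 0 122431 0) P.nil))))) (P.cons (P.cons (P.lf 7643499 0 0) (P.cons (P.lf 0 3004511 0) (P.cons (P.lf 0 1062693 0) (P.cons (P.lf 344795 0 0) P.nil)))) (P.cons (P.cons (P.lf 0 1021863 0) (P.cons (P.lf 132858 0 0) (P.cons (P.lf 71941 0 0) P.nil))) (P.cons (P.cons (P.lf 0 38208 0) (P.cons (P.lf 36652 0 0) P.nil)) (P.cons (P.cons (P.lf 15515 0 0) P.nil) P.nil)))))) 237547)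
 (EL.cons 5 (TM.mk (P.cons (P.cons (P.lf 306772790 0 0) (P.cons (P.lf 0 142987822 0) (P.cons (P.lf 0 44996186 0) (P.cons (P.lf 21220374 0 0) (P.cons (P.lf 1501532 0 0) (P.cons (P.lf 0 688474 0) P.nil)))))) (P.cons (P.cons (P.lf 0 91106578 0) (P.cons (P.lf 28269458 0 0) (P.cons (P.lf 10550142 0 0) (P.cons (P.lf 0 2768796 0) (P.cons (P.lf 0 147790 0) P.nil))))) (P.cons (P.cons (P.lf 7283150 0 0) (P.cons (P.lf 0 111250 0) (P.cons (P.lf 0 253392 0) (P.cons (P.lf 0 171828 0) P.nil)))) (P.cons (P.cons (P.lf 805388 0 0) (P.cons (P.lf 0 413658 0) (P.cons (P.lf 0 152908 0) P.nil))) (P.cons (P.cons (P.lf 0 154610 0) (P.cons (P.lf 21304 0 0) P.nil)) (P.cons (P.cons (P.lf 870 0 0) P.nil) P.nil)))))) 269448)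
 EL.nil)))
noncomputable def S270_285_216_364_6 : EL := (EL.cons 12 (TM.mk (P.lf 8589934592 0 0) 0)
 (EL.cons 3 (TM.mk (P.cons (P.lf 670420608 0 0) (P.cons (P.lf 229779802 0 0) (P.cons (P.lf 0 2114062 0) (P.cons (P.lf 0 231480 0) (P.cons (P.lf 3656 0 0) (P.cons (P.lf 221 0 0) P.nil)))))) 44)
 (EL.cons 7 (TM.mk (P.cons (P.lf 0 2109947077 0) (P.cons (P.lf 25959428 0 0) (P.cons (P.lf 4369521 0 0) (P.cons (P.lf 0 54250 0) (P.cons (P.lf 0 4315 0) (P.cons (P.lf 84 0 0) P.nil)))))) 52)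
 EL.nil)))
noncomputable def S270_285_216_364_7 : EL := (EL.cons 12 (TM.mk (P.cons (P.cons (P.lf 3304392644 0 0) (P.cons (P.lf 0 770094232 0) (P.cons (P.lf 0 332073320 0) (P.lf 36897032 0 0)))) (P.cons (P.cons (P.lf 0 450020594 0) (P.cons (P.lf 28424224 0 0) (P.cons (P.lf 12256840 0 0) (P.lf 0 1361864 0)))) (P.cons (P.cons (P.lf 4100762 0 0) (P.cons (P.lf 4434680 0 0) (P.cons (P.lf 1912280 0 0) (P.lf 0 212472 0)))) (P.cons (P.cons (P.lf 3786098 0 0) (P.cons (P.lf 0 175688 0) (P.cons (P.lf 0 75752 0) P.nil))) (P.cons (P.cons (P.lf 0 68272 0) (P.cons (P.lf 0 12440 0) P.nil)) (P.cons (P.cons (P.lf 0 10404 0) P.nil) P.nil)))))) 18186)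
 (EL.cons 3 (TM.mk (P.cons (P.cons (P.lf 0 2596839871 0) (P.cons (P.lf 120207444 0 0) (P.cons (P.lf 51834804 0 0) (P.lf 0 5759420 0)))) (P.cons (P.cons (P.lf 123012511 0 0) (P.cons (P.lf 36763006 0 0) (P.cons (P.lf 15852624 0 0) (P.lf 0 1761402 0)))) (P.cons (P.cons (P.lf 62288556 0 0) (P.cons (P.lf 0 2591970 0) (P.cons (P.lf 0 1117684 0) (P.lf 124184 0 0)))) (P.cons (P.cons (P.lf 0 1808889 0) (P.cons (P.lf 0 237342 0) (P.cons (P.lf 0 102344 0) P.nil))) (P.cons (P.cons (P.lf 0 289219 0) (P.cons (P.lf 15710 0 0) P.nil)) (P.cons (P.cons (P.lf 9774 0 0) P.nil) P.nil)))))) 52742)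
 (EL.cons 7 (TM.mk (P.cons (P.cons (P.lf 0 1134173292 0) (P.cons (P.lf 209529080 0 0) (P.cons (P.lf 90351303 0 0) (P.lf 0 10039035 0)))) (P.cons (P.cons (P.lf 13897371 0 0) (P.cons (P.lf 4153308 0 0) (P.cons (P.lf 1790950 0 0) (P.lf 0 198992 0)))) (P.cons (P.cons (P.lf 9504147 0 0) (P.cons (P.lf 444470 0 0) (P.cons (P.lf 191660 0 0) (P.lf 0 21295 0)))) (P.cons (P.cons (P.lf 1476498 0 0) (P.cons (P.lf 0 91573 0) (P.cons (P.lf 0 39486 0) P.nil))) (P.cons (P.cons (P.lf 0 74124 0) (P.cons (P.lf 0 5423 0) P.nil)) (P.cons (P.cons (P.lf 0 7418 0) P.nil) P.nil)))))) 38115)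
 (EL.cons 10 (TM.mk (P.cons (P.cons (P.lf 0 1228309404 0) (P.cons (P.lf 0 1144283841 0) (P.cons (P.lf 117440745 0 0) (P.cons (P.lf 24424407 0 0) (P.lf 0 2035365 0))))) (P.cons (P.cons (P.lf 30224652 0 0) (P.cons (P.lf 28157058 0 0) (P.cons (P.lf 0 2889828 0) (P.cons (P.lf 0 601002 0) (P.lf 50082 0 0))))) (P.cons (P.cons (P.lf 4901514 0 0) (P.cons (P.lf 4566213 0 0) (P.cons (P.lf 0 468642 0) (P.cons (P.lf 0 97464 0) P.nil)))) (P.cons (P.cons (P.lf 0 125754 0) (P.cons (P.lf 0 117150 0) (P.cons (P.lf 12021 0 0) P.nil))) (P.cons (P.cons (P.lf 0 9513 0) (P.cons (P.lf 0 8862 0) P.nil)) (P.cons (P.cons (P.lf 288 0 0) P.nil) P.nil)))))) 12528)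
 EL.nil))))
noncomputable def S270_285_216_364_8 : EL := (EL.cons 12 (TM.mk (P.cons (P.cons (P.lf 1271140148 0 0) (P.cons (P.lf 0 592482674 0) (P.cons (P.lf 0 186445674 0) (P.cons (P.lf 87928498 0 0) (P.cons (P.lf 6221736 0 0) (P.cons (P.lf 0 2852762 0) P.nil)))))) (P.cons (P.cons (P.lf 0 346229584 0) (P.cons (P.lf 102557954 0 0) (P.cons (P.lf 39127634 0 0) (P.cons (P.lf 0 9309128 0) (P.cons (P.lf 0 459290 0) P.nil))))) (P.cons (P.cons (P.lf 26731238 0 0) (P.cons (P.lf 0 301640 0) (P.cons (P.lf 0 831160 0) (P.cons (P.lf 0 590178 0) P.nil)))) (P.cons (P.cons (P.lf 2483214 0 0) (P.cons (P.lf 0 1251540 0) (P.cons (P.lf 0 478822 0) P.nil))) (P.cons (P.cons (P.lf 0 447270 0) (P.cons (P.lf 50368 0 0) P.nil)) (P.cons (P.cons (P.lf 2762 0 0) P.nil) P.nil)))))) 870510)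
 (EL.cons 3 (TM.mk (P.cons (P.cons (P.lf 0 2097123733 0) (P.cons (P.lf 604342269 0 0) (P.cons (P.lf 233657476 0 0) (P.cons (P.lf 0 52190607 0) (P.cons (P.lf 0 2427946 0) (P.cons (P.lf 1113251 0 0) P.nil)))))) (P.cons (P.cons (P.lf 359753987 0 0) (P.cons (P.lf 0 15708849 0) (P.cons (P.lf 0 14018983 0) (P.cons (P.lf 0 5495743 0) (P.cons (P.lf 0 652920 0) P.nil))))) (P.cons (P.cons (P.lf 40042208 0 0) (P.cons (P.lf 0 21632703 0) (P.cons (P.lf 0 8288057 0) (P.cons (P.lf 1933557 0 0) P.nil)))) (P.cons (P.cons (P.lf 0 11049738 0) (P.cons (P.lf 1314869 0 0) (P.cons (P.lf 640035 0 0) P.nil))) (P.cons (P.cons (P.lf 141393 0 0) (P.cons (P.lf 204151 0 0) P.nil)) (P.cons (P.cons (P.lf 108534 0 0) P.nil) P.nil)))))) 1679873)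
 (EL.cons 7 (TM.mk (P.cons (P.cons (P.lf 0 560361574 0) (P.cons (P.lf 219031492 0 0) (P.cons (P.lf 73838156 0 0) (P.cons (P.lf 0 28269441 0) (P.cons (P.lf 0 1857400 0) (P.cons (P.lf 851642 0 0) P.nil)))))) (P.cons (P.cons (P.lf 40643295 0 0) (P.cons (P.lf 0 1774714 0) (P.cons (P.lf 0 1583802 0) (P.cons (P.lf 0 620879 0) (P.cons (P.lf 0 73762 0) P.nil))))) (P.cons (P.cons (P.lf 11738835 0 0) (P.cons (P.lf 0 2759008 0) (P.cons (P.lf 0 1217501 0) (P.cons (P.lf 108226 0 0) P.nil)))) (P.cons (P.cons (P.lf 0 133080 0) (P.cons (P.lf 0 431865 0) (P.cons (P.lf 0 151050 0) P.nil))) (P.cons (P.cons (P.lf 0 304887 0) (P.cons (P.lf 58427 0 0) P.nil)) (P.cons (P.cons (P.lf 15121 0 0) P.nil) P.nil)))))) 718139)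
 (EL.cons 10 (TM.mk (P.cons (P.cons (P.lf 0 945016866 0) (P.cons (P.lf 0 660132876 0) (P.cons (P.lf 390495522 0 0) (P.cons (P.lf 75654252 0 0) (P.cons (P.lf 0 24855684 0) (P.cons (P.lf 0 514566 0) P.nil)))))) (P.cons (P.cons (P.lf 151954272 0 0) (P.cons (P.lf 128011146 0 0) (P.cons (P.lf 0 32992296 0) (P.cons (P.lf 0 6519570 0) (P.cons (P.lf 1684500 0 0) P.nil))))) (P.cons (P.cons (P.lf 0 568614 0) (P.cons (P.lf 0 2476806 0) (P.cons (P.lf 0 2599128 0) (P.cons (P.lf 0 491406 0) P.nil)))) (P.cons (P.cons (P.lf 0 1664244 0) (P.cons (P.lf 0 1413954 0) (P.cons (P.lf 345054 0 0) P.nil))) (P.cons (P.cons (P.lf 56700 0 0) (P.cons (P.lf 61080 0 0) P.nil)) (P.cons (P.cons (P.lf 7914 0 0) P.nil) P.nil)))))) 1085910)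
 EL.nil))))
noncomputable def S270_285_216_364_9 : EL := (EL.cons 3 (TM.mk (P.cons (P.lf 670420608 0 0) (P.cons (P.lf 229779802 0 0) (P.cons (P.lf 0 2114062 0) (P.cons (P.lf 0 231480 0) (P.cons (P.lf 3656 0 0) (P.cons (P.lf 221 0 0) P.nil)))))) 44)
 (EL.cons 7 (TM.mk (P.cons (P.lf 0 2109947077 0) (P.cons (P.lf 25959428 0 0) (P.cons (P.lf 4369521 0 0) (P.cons (P.lf 0 54250 0) (P.cons (P.lf 0 4315 0) (P.cons (P.lf 84 0 0) P.nil)))))) 52)
 EL.nil))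
noncomputable def S270_285_216_364_10 : EL := (EL.cons 3 (TM.mk (P.cons (P.cons (P.lf 257898695 0 0) (P.cons (P.lf 0 60103722 0) (P.cons (P.lf 0 25917402 0) (P.lf 2879710 0 0)))) (P.cons (P.cons (P.lf 53269276 0 0) (P.cons (P.lf 0 18381503 0) (P.cons (P.lf 0 7926312 0) (P.lf 880701 0 0)))) (P.cons (P.cons (P.lf 0 12531189 0) (P.cons (P.lf 1295985 0 0) (P.cons (P.lf 558842 0 0) (P.lf 0 62092 0)))) (P.cons (P.cons (P.lf 426897 0 0) (P.cons (P.lf 118671 0 0) (P.cons (P.lf 51172 0 0) P.nil))) (P.cons (P.cons (P.lf 108473 0 0) (P.cons (P.lf 0 7855 0) P.nil)) (P.cons (P.cons (P.lf 0 3786 0) P.nil) P.nil)))))) 13105)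
 (EL.cons 7 (TM.mk (P.cons (P.cons (P.lf 0 811658520 0) (P.cons (P.lf 189158375 0 0) (P.cons (P.lf 81567225 0 0) (P.lf 0 9063024 0)))) (P.cons (P.cons (P.lf 120524757 0 0) (P.cons (P.lf 0 9309129 0) (P.cons (P.lf 0 4014200 0) (P.lf 446020 0 0)))) (P.cons (P.cons (P.lf 0 686391 0) (P.cons (P.lf 0 1395121 0) (P.cons (P.lf 0 601591 0) (P.lf 66842 0 0)))) (P.cons (P.cons (P.lf 0 1167372 0) (P.cons (P.lf 75878 0 0) (P.cons (P.lf 32718 0 0) P.nil))) (P.cons (P.cons (P.lf 31479 0 0) (P.cons (P.lf 4987 0 0) P.nil)) (P.cons (P.cons (P.lf 4507 0 0) P.nil) P.nil)))))) 8084)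
 EL.nil))
noncomputable def S270_285_216_364_11 : EL := (EL.cons 3 (TM.mk (P.cons (P.cons (P.lf 99208967 0 0) (P.cons (P.lf 0 46241631 0) (P.cons (P.lf 0 14551568 0) (P.cons (P.lf 6862575 0 0) (P.cons (P.lf 485588 0 0) (P.cons (P.lf 0 222649 0) P.nil)))))) (P.cons (P.cons (P.lf 6980597 0 0) (P.cons (P.lf 0 7844481 0) (P.cons (P.lf 0 1933597 0) (P.cons (P.lf 1625525 0 0) (P.cons (P.lf 130584 0 0) P.nil))))) (P.cons (P.cons (P.lf 0 7488142 0) (P.cons (P.lf 2865687 0 0) (P.cons (P.lf 1027675 0 0) (P.cons (P.lf 0 316719 0) P.nil)))) (P.cons (P.cons (P.lf 959820 0 0) (P.cons (P.lf 0 115021 0) (P.cons (P.lf 0 64209 0) P.nil))) (P.cons (P.cons (P.lf 34809 0 0) (P.cons (P.lf 0 32489 0) P.nil)) (P.cons (P.cons (P.lf 0 13194 0) P.nil) P.nil)))))) 220009)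
 (EL.cons 7 (TM.mk (P.cons (P.cons (P.lf 0 312230368 0) (P.cons (P.lf 145531618 0 0) (P.cons (P.lf 45796682 0 0) (P.cons (P.lf 0 21597891 0) (P.cons (P.lf 0 1528246 0) (P.cons (P.lf 700724 0 0) P.nil)))))) (P.cons (P.cons (P.lf 88885911 0 0) (P.cons (P.lf 0 26981854 0) (P.cons (P.lf 0 10174380 0) (P.cons (P.lf 2552329 0 0) (P.cons (P.lf 131618 0 0) P.nil))))) (P.cons (P.cons (P.lf 0 6965727 0) (P.cons (P.lf 82646 0 0) (P.cons (P.lf 227563 0 0) (P.cons (P.lf 161560 0 0) P.nil)))) (P.cons (P.cons (P.lf 0 713316 0) (P.cons (P.lf 362415 0 0) (P.cons (P.lf 136182 0 0) P.nil))) (P.cons (P.cons (P.lf 132513 0 0) (P.cons (P.lf 0 16657 0) P.nil)) (P.cons (P.cons (P.lf 0 749 0) P.nil) P.nil)))))) 242995)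
 EL.nil))
noncomputable def S270_285_216_364_12 : EL := (EL.cons 4 (TM.mk (P.cons (P.lf 0 670420608 0) (P.cons (P.lf 0 229779802 0) (P.cons (P.lf 2114062 0 0) (P.cons (P.lf 231480 0 0) (P.cons (P.lf 0 3656 0) (P.cons (P.lf 0 221 0) P.nil)))))) 44)
 (EL.cons 8 (TM.mk (P.cons (P.lf 2109947077 0 0) (P.cons (P.lf 0 25959428 0) (P.cons (P.lf 0 4369521 0) (P.cons (P.lf 54250 0 0) (P.cons (P.lf 4315 0 0) (P.cons (P.lf 0 84 0) P.nil)))))) 52)
 EL.nil))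
noncomputable def S270_285_216_364_13 : EL := (EL.cons 4 (TM.mk (P.cons (P.cons (P.lf 0 257898695 0) (P.cons (P.lf 60103722 0 0) (P.cons (P.lf 25917402 0 0) (P.lf 0 2879710 0)))) (P.cons (P.cons (P.lf 0 53269276 0) (P.cons (P.lf 18381503 0 0) (P.cons (P.lf 7926312 0 0) (P.lf 0 880701 0)))) (P.cons (P.cons (P.lf 12531189 0 0) (P.cons (P.lf 0 1295985 0) (P.cons (P.lf 0 558842 0) (P.lf 62092 0 0)))) (P.cons (P.cons (P.lf 0 426897 0) (P.cons (P.lf 0 118671 0) (P.cons (P.lf 0 51172 0) P.nil))) (P.cons (P.cons (P.lf 0 108473 0) (P.cons (P.lf 7855 0 0) P.nil)) (P.cons (P.cons (P.lf 3786 0 0) P.nil) P.nil)))))) 13105)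
 (EL.cons 8 (TM.mk (P.cons (P.cons (P.lf 811658520 0 0) (P.cons (P.lf 0 189158375 0) (P.cons (P.lf 0 81567225 0) (P.lf 9063024 0 0)))) (P.cons (P.cons (P.lf 0 120524757 0) (P.cons (P.lf 9309129 0 0) (P.cons (P.lf 4014200 0 0) (P.lf 0 446020 0)))) (P.cons (P.cons (P.lf 686391 0 0) (P.cons (P.lf 1395121 0 0) (P.cons (P.lf 601591 0 0) (P.lf 0 66842 0)))) (P.cons (P.cons (P.lf 1167372 0 0) (P.cons (P.lf 0 75878 0) (P.cons (P.lf 0 32718 0) P.nil))) (P.cons (P.cons (P.lf 0 31479 0) (P.cons (P.lf 0 4987 0) P.nil)) (P.cons (P.cons (P.lf 0 4507 0) P.nil) P.nil)))))) 8084)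
 EL.nil))
noncomputable def S270_285_216_364_14 : EL := (EL.cons 4 (TM.mk (P.cons (P.cons (P.lf 0 99208967 0) (P.cons (P.lf 46241631 0 0) (P.cons (P.lf 14551568 0 0) (P.cons (P.lf 0 6862575 0) (P.cons (P.lf 0 485588 0) (P.cons (P.lf 222649 0 0) P.nil)))))) (P.cons (P.cons (P.lf 0 6980597 0) (P.cons (P.lf 7844481 0 0) (P.cons (P.lf 1933597 0 0) (P.cons (P.lf 0 1625525 0) (P.cons (P.lf 0 130584 0) P.nil))))) (P.cons (P.cons (P.lf 7488142 0 0) (P.cons (P.lf 0 2865687 0) (P.cons (P.lf 0 1027675 0) (P.cons (P.lf 316719 0 0) P.nil)))) (P.cons (P.cons (P.lf 0 959820 0) (P.cons (P.lf 115021 0 0) (P.cons (P.lf 64209 0 0) P.nil))) (P.cons (P.cons (P.lf 0 34809 0) (P.cons (P.lf 32489 0 0) P.nil)) (P.cons (P.cons (P.lf 13194 0 0) P.nil) P.nil)))))) 220009)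
 (EL.cons 8 (TM.mk (P.cons (P.cons (P.lf 312230368 0 0) (P.cons (P.lf 0 145531618 0) (P.cons (P.lf 0 45796682 0) (P.cons (P.lf 21597891 0 0) (P.cons (P.lf 1528246 0 0) (P.cons (P.lf 0 700724 0) P.nil)))))) (P.cons (P.cons (P.lf 0 88885911 0) (P.cons (P.lf 26981854 0 0) (P.cons (P.lf 10174380 0 0) (P.cons (P.lf 0 2552329 0) (P.cons (P.lf 0 131618 0) P.nil))))) (P.cons (P.cons (P.lf 6965727 0 0) (P.cons (P.lf 0 82646 0) (P.cons (P.lf 0 227563 0) (P.cons (P.lf 0 161560 0) P.nil)))) (P.cons (P.cons (P.lf 713316 0 0) (P.cons (P.lf 0 362415 0) (P.cons (P.lf 0 136182 0) P.nil))) (P.cons (P.cons (P.lf 0 132513 0) (P.cons (P.lf 16657 0 0) P.nil)) (P.cons (P.cons (P.lf 749 0 0) P.nil) P.nil)))))) 242995)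
 EL.nil))
noncomputable def S270_285_216_364_15 : EL := (EL.cons 4 (TM.mk (P.cons (P.lf 0 111625540 0) (P.cons (P.lf 0 76517023 0) (P.cons (P.lf 0 12408726 0) (P.cons (P.lf 318366 0 0) (P.cons (P.lf 24091 0 0) (P.cons (P.lf 0 733 0) P.nil)))))) 72)
 (EL.cons 8 (TM.mk (P.cons (P.lf 351307790 0 0) (P.cons (P.lf 116084885 0 0) (P.cons (P.lf 0 3316732 0) (P.cons (P.lf 0 347988 0) (P.cons (P.lf 9516 0 0) (P.cons (P.lf 547 0 0) P.nil)))))) 54)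
 EL.nil))
noncomputable def S270_285_216_364_16 : EL := (EL.cons 4 (TM.mk (P.cons (P.cons (P.lf 0 42940328 0) (P.cons (P.lf 10007314 0 0) (P.cons (P.lf 4315266 0 0) (P.lf 0 479474 0)))) (P.cons (P.cons (P.lf 0 23586733 0) (P.cons (P.lf 6490439 0 0) (P.cons (P.lf 2798750 0 0) (P.lf 0 310971 0)))) (P.cons (P.cons (P.lf 0 818028 0) (P.cons (P.lf 801627 0 0) (P.cons (P.lf 345670 0 0) (P.lf 0 38407 0)))) (P.cons (P.cons (P.lf 686825 0 0) (P.cons (P.lf 0 106821 0) (P.cons (P.lf 0 46062 0) P.nil))) (P.cons (P.cons (P.lf 0 46172 0) (P.cons (P.lf 0 5785 0) P.nil)) (P.cons (P.cons (P.lf 0 6117 0) P.nil) P.nil)))))) 12405)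
 (EL.cons 8 (TM.mk (P.cons (P.cons (P.lf 135141759 0 0) (P.cons (P.lf 0 31495013 0) (P.cons (P.lf 0 13581004 0) (P.lf 1508999 0 0)))) (P.cons (P.cons (P.lf 26250991 0 0) (P.cons (P.lf 0 9244616 0) (P.cons (P.lf 0 3986383 0) (P.lf 442931 0 0)))) (P.cons (P.cons (P.lf 0 7189780 0) (P.cons (P.lf 862841 0 0) (P.cons (P.lf 372066 0 0) (P.lf 0 41340 0)))) (P.cons (P.cons (P.lf 250156 0 0) (P.cons (P.lf 72967 0 0) (P.cons (P.lf 31464 0 0) P.nil))) (P.cons (P.cons (P.lf 68681 0 0) (P.cons (P.lf 0 6599 0) P.nil)) (P.cons (P.cons (P.lf 0 3263 0) P.nil) P.nil)))))) 10003)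
 EL.nil))
noncomputable def S270_285_216_364_17 : EL := (EL.cons 4 (TM.mk (P.cons (P.cons (P.lf 0 16518368 0) (P.cons (P.lf 7699266 0 0) (P.cons (P.lf 2422846 0 0) (P.cons (P.lf 0 1142624 0) (P.cons (P.lf 0 80850 0) (P.cons (P.lf 37070 0 0) P.nil)))))) (P.cons (P.cons (P.lf 0 6823776 0) (P.cons (P.lf 3944956 0 0) (P.cons (P.lf 1152351 0 0) (P.cons (P.lf 0 662273 0) (P.cons (P.lf 0 49453 0) P.nil))))) (P.cons (P.cons (P.lf 900510 0 0) (P.cons (P.lf 0 53760 0) (P.cons (P.lf 0 68404 0) (P.cons (P.lf 0 36425 0) P.nil)))) (P.cons (P.cons (P.lf 276878 0 0) (P.cons (P.lf 0 151159 0) (P.cons (P.lf 0 49806 0) P.nil))) (P.cons (P.cons (P.lf 0 64189 0) (P.cons (P.lf 13068 0 0) P.nil)) (P.cons (P.cons (P.lf 271 0 0) P.nil) P.nil)))))) 99494)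
 (EL.cons 8 (TM.mk (P.cons (P.cons (P.lf 51986592 0 0) (P.cons (P.lf 0 24231124 0) (P.cons (P.lf 0 7625182 0) (P.cons (P.lf 3596064 0 0) (P.cons (P.lf 254453 0 0) (P.cons (P.lf 0 116670 0) P.nil)))))) (P.cons (P.cons (P.lf 3018300 0 0) (P.cons (P.lf 0 3812470 0) (P.cons (P.lf 0 919411 0) (P.cons (P.lf 807549 0 0) (P.cons (P.lf 65297 0 0) P.nil))))) (P.cons (P.cons (P.lf 0 4076533 0) (P.cons (P.lf 1602406 0 0) (P.cons (P.lf 566770 0 0) (P.cons (P.lf 0 183891 0) P.nil)))) (P.cons (P.cons (P.lf 544994 0 0) (P.cons (P.lf 0 70858 0) (P.cons (P.lf 0 38369 0) P.nil))) (P.cons (P.cons (P.lf 20378 0 0) (P.cons (P.lf 0 19548 0) P.nil)) (P.cons (P.cons (P.lf 0 8275 0) P.nil) P.nil)))))) 126680)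
 EL.nil))
noncomputable def S270_285_216_364_18 : EL := (EL.cons 4 (TM.mk (P.cons (P.lf 0 18585736 0) (P.cons (P.lf 0 19110212 0) (P.cons (P.lf 0 6374008 0) (P.cons (P.lf 0 608521 0) (P.cons (P.lf 32991 0 0) (P.cons (P.lf 1723 0 0) P.nil)))))) 120)
 (EL.cons 8 (TM.mk (P.cons (P.lf 58493013 0 0) (P.cons (P.lf 39376103 0 0) (P.cons (P.lf 5887863 0 0) (P.cons (P.lf 0 328358 0) (P.cons (P.lf 0 22887 0) (P.cons (P.lf 1131 0 0) P.nil)))))) 96)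
 EL.nil))
noncomputable def S270_285_216_364_19 : EL := (EL.cons 4 (TM.mk (P.cons (P.cons (P.lf 0 7149597 0) (P.cons (P.lf 1666225 0 0) (P.cons (P.lf 718494 0 0) (P.lf 0 79831 0)))) (P.cons (P.cons (P.lf 0 6377659 0) (P.cons (P.lf 1651744 0 0) (P.cons (P.lf 712250 0 0) (P.lf 0 79138 0)))) (P.cons (P.cons (P.lf 0 1459667 0) (P.cons (P.lf 498602 0 0) (P.cons (P.lf 215003 0 0) (P.lf 0 23888 0)))) (P.cons (P.cons (P.lf 82527 0 0) (P.cons (P.lf 23976 0 0) (P.cons (P.lf 10338 0 0) P.nil))) (P.cons (P.cons (P.lf 33252 0 0) (P.cons (P.lf 0 7844 0) P.nil)) (P.cons (P.cons (P.lf 0 3990 0) P.nil) P.nil)))))) 10031)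
 (EL.cons 8 (TM.mk (P.cons (P.cons (P.lf 22501205 0 0) (P.cons (P.lf 0 5243943 0) (P.cons (P.lf 0 2261247 0) (P.lf 251249 0 0)))) (P.cons (P.cons (P.lf 12082867 0 0) (P.cons (P.lf 0 3336543 0) (P.cons (P.lf 0 1438755 0) (P.lf 159861 0 0)))) (P.cons (P.cons (P.lf 229992 0 0) (P.cons (P.lf 0 367357 0) (P.cons (P.lf 0 158408 0) (P.lf 17600 0 0)))) (P.cons (P.cons (P.lf 0 390195 0) (P.cons (P.lf 68052 0 0) (P.cons (P.lf 29344 0 0) P.nil))) (P.cons (P.cons (P.lf 28099 0 0) (P.cons (P.lf 3114 0 0) P.nil)) (P.cons (P.cons (P.lf 3688 0 0) P.nil) P.nil)))))) 8304)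
 EL.nil))
noncomputable def S270_285_216_364_20 : EL := (EL.cons 4 (TM.mk (P.cons (P.cons (P.lf 0 2750320 0) (P.cons (P.lf 1281933 0 0) (P.cons (P.lf 403405 0 0) (P.cons (P.lf 0 190246 0) (P.cons (P.lf 0 13461 0) (P.cons (P.lf 6171 0 0) P.nil)))))) (P.cons (P.cons (P.lf 0 2078807 0) (P.cons (P.lf 1096207 0 0) (P.cons (P.lf 330130 0 0) (P.cons (P.lf 0 175473 0) (P.cons (P.lf 0 12847 0) P.nil))))) (P.cons (P.cons (P.lf 0 230799 0) (P.cons (P.lf 212130 0 0) (P.cons (P.lf 53098 0 0) (P.cons (P.lf 0 43258 0) P.nil)))) (P.cons (P.cons (P.lf 102021 0 0) (P.cons (P.lf 0 30750 0) (P.cons (P.lf 0 12940 0) P.nil))) (P.cons (P.cons (P.lf 5016 0 0) (P.cons (P.lf 0 6641 0) P.nil)) (P.cons (P.cons (P.lf 0 3821 0) P.nil) P.nil)))))) 44037)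
 (EL.cons 8 (TM.mk (P.cons (P.cons (P.lf 8655807 0 0) (P.cons (P.lf 0 4034500 0) (P.cons (P.lf 0 1269598 0) (P.cons (P.lf 598747 0 0) (P.cons (P.lf 42366 0 0) (P.cons (P.lf 0 19425 0) P.nil)))))) (P.cons (P.cons (P.lf 3469238 0 0) (P.cons (P.lf 0 2017563 0) (P.cons (P.lf 0 588224 0) (P.cons (P.lf 339671 0 0) (P.cons (P.lf 25392 0 0) P.nil))))) (P.cons (P.cons (P.lf 0 533796 0) (P.cons (P.lf 61959 0 0) (P.cons (P.lf 45903 0 0) (P.cons (P.lf 13577 0 0) P.nil)))) (P.cons (P.cons (P.lf 0 146464 0) (P.cons (P.lf 83040 0 0) (P.cons (P.lf 26876 0 0) P.nil))) (P.cons (P.cons (P.lf 36508 0 0) (P.cons (P.lf 0 7942 0) P.nil)) (P.cons (P.cons (P.lf 0 261 0) P.nil) P.nil)))))) 55478)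
 EL.nil))
noncomputable def S270_285_216_364_21 : EL := (EL.cons 4 (TM.mk (P.cons (P.cons (P.lf 2854738566 0 0) (P.cons (P.lf 0 180311166 0) (P.cons (P.lf 0 77752206 0) (P.lf 8639130 0 0)))) (P.cons (P.cons (P.lf 0 69743235 0) (P.cons (P.lf 0 55144509 0) (P.cons (P.lf 0 23778936 0) (P.lf 2642103 0 0)))) (P.cons (P.cons (P.lf 0 74819745 0) (P.cons (P.lf 3887955 0 0) (P.cons (P.lf 1676526 0 0) (P.lf 0 186276 0)))) (P.cons (P.cons (P.lf 2235786 0 0) (P.cons (P.lf 356013 0 0) (P.cons (P.lf 153516 0 0) P.nil))) (P.cons (P.cons (P.lf 397692 0 0) (P.cons (P.lf 0 23565 0) P.nil)) (P.cons (P.cons (P.lf 0 13560 0) P.nil) P.nil)))))) 39618)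
 (EL.cons 8 (TM.mk (P.cons (P.cons (P.lf 322514772 0 0) (P.cons (P.lf 0 20370705 0) (P.cons (P.lf 0 8784078 0) (P.lf 976011 0 0)))) (P.cons (P.cons (P.lf 106627386 0 0) (P.cons (P.lf 0 13462437 0) (P.cons (P.lf 0 5805150 0) (P.lf 645012 0 0)))) (P.cons (P.cons (P.lf 0 10190538 0) (P.cons (P.lf 0 1839591 0) (P.cons (P.lf 0 793251 0) (P.lf 88137 0 0)))) (P.cons (P.cons (P.lf 0 2643870 0) (P.cons (P.lf 167451 0 0) (P.cons (P.lf 72204 0 0) P.nil))) (P.cons (P.cons (P.lf 105603 0 0) (P.cons (P.lf 10410 0 0) P.nil)) (P.cons (P.cons (P.lf 11925 0 0) P.nil) P.nil)))))) 30012)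
 (EL.cons 11 (TM.mk (P.cons (P.cons (P.lf 1228309404 0 0) (P.cons (P.lf 1144283841 0 0) (P.cons (P.lf 0 117440745 0) (P.cons (P.lf 0 24424407 0) (P.lf 2035365 0 0))))) (P.cons (P.cons (P.lf 0 30224652 0) (P.cons (P.lf 0 28157058 0) (P.cons (P.lf 2889828 0 0) (P.cons (P.lf 601002 0 0) (P.lf 0 50082 0))))) (P.cons (P.cons (P.lf 0 4901514 0) (P.cons (P.lf 0 4566213 0) (P.cons (P.lf 468642 0 0) (P.cons (P.lf 97464 0 0) P.nil)))) (P.cons (P.cons (P.lf 125754 0 0) (P.cons (P.lf 117150 0 0) (P.cons (P.lf 0 12021 0) P.nil))) (P.cons (P.cons (P.lf 9513 0 0) (P.cons (P.lf 8862 0 0) P.nil)) (P.cons (P.cons (P.lf 0 288 0) P.nil) P.nil)))))) 12528)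
 EL.nil)))
noncomputable def S270_285_216_364_22 : EL := (EL.cons 4 (TM.mk (P.cons (P.cons (P.lf 1098166350 0 0) (P.cons (P.lf 0 325291950 0) (P.cons (P.lf 0 124104522 0) (P.cons (P.lf 29526591 0 0) (P.cons (P.lf 1456767 0 0) (P.cons (P.lf 0 667950 0) P.nil)))))) (P.cons (P.cons (P.lf 0 176386695 0) (P.cons (P.lf 3932184 0 0) (P.cons (P.lf 6042693 0 0) (P.cons (P.lf 3560634 0 0) (P.cons (P.lf 391752 0 0) P.nil))))) (P.cons (P.cons (P.lf 0 23765175 0) (P.cons (P.lf 12249195 0 0) (P.cons (P.lf 4657866 0 0) (P.cons (P.lf 0 1125138 0) P.nil)))) (P.cons (P.cons (P.lf 6004779 0 0) (P.cons (P.lf 0 714945 0) (P.cons (P.lf 0 352122 0) P.nil))) (P.cons (P.cons (P.lf 0 53292 0) (P.cons (P.lf 0 118320 0) P.nil)) (P.cons (P.cons (P.lf 0 60864 0) P.nil) P.nil)))))) 729921)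
 (EL.cons 8 (TM.mk (P.cons (P.cons (P.lf 124065603 0 0) (P.cons (P.lf 0 36749937 0) (P.cons (P.lf 0 14020737 0) (P.cons (P.lf 3335775 0 0) (P.cons (P.lf 164577 0 0) (P.cons (P.lf 0 75459 0) P.nil)))))) (P.cons (P.cons (P.lf 24121308 0 0) (P.cons (P.lf 0 12603570 0) (P.cons (P.lf 0 4295289 0) (P.cons (P.lf 1586604 0 0) (P.cons (P.lf 102690 0 0) P.nil))))) (P.cons (P.cons (P.lf 0 9352281 0) (P.cons (P.lf 1420827 0 0) (P.cons (P.lf 722532 0 0) (P.cons (P.lf 26667 0 0) P.nil)))) (P.cons (P.cons (P.lf 0 290118 0) (P.cons (P.lf 397140 0 0) (P.cons (P.lf 143616 0 0) P.nil))) (P.cons (P.cons (P.lf 218700 0 0) (P.cons (P.lf 0 37542 0) P.nil)) (P.cons (P.cons (P.lf 0 7935 0) P.nil) P.nil)))))) 237561)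
 (EL.cons 11 (TM.mk (P.cons (P.cons (P.lf 472508433 0 0) (P.cons (P.lf 330066438 0 0) (P.cons (P.lf 0 195247761 0) (P.cons (P.lf 0 37827126 0) (P.cons (P.lf 12427842 0 0) (P.cons (P.lf 257283 0 0) P.nil)))))) (P.cons (P.cons (P.lf 0 75977136 0) (P.cons (P.lf 0 64005573 0) (P.cons (P.lf 16496148 0 0) (P.cons (P.lf 3259785 0 0) (P.cons (P.lf 0 842250 0) P.nil))))) (P.cons (P.cons (P.lf 284307 0 0) (P.cons (P.lf 1238403 0 0) (P.cons (P.lf 1299564 0 0) (P.cons (P.lf 245703 0 0) P.nil)))) (P.cons (P.cons (P.lf 832122 0 0) (P.cons (P.lf 706977 0 0) (P.cons (P.lf 0 172527 0) P.nil))) (P.cons (P.cons (P.lf 0 28350 0) (P.cons (P.lf 0 30540 0) P.nil)) (P.cons (P.cons (P.lf 0 3957 0) P.nil) P.nil)))))) 542955)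
 EL.nil)))
noncomputable def S270_285_216_364_23 : EL := (EL.cons 4 (TM.mk (P.cons (P.cons (P.lf 475316136 0 0) (P.cons (P.lf 0 30021945 0) (P.cons (P.lf 0 12945801 0) (P.lf 1438419 0 0)))) (P.cons (P.cons (P.lf 151297440 0 0) (P.cons (P.lf 0 19471317 0) (P.cons (P.lf 0 8396250 0) (P.lf 932916 0 0)))) (P.cons (P.cons (P.lf 0 17936373 0) (P.cons (P.lf 0 2404881 0) (P.cons (P.lf 0 1037013 0) (P.lf 115224 0 0)))) (P.cons (P.cons (P.lf 0 4024932 0) (P.cons (P.lf 320466 0 0) (P.cons (P.lf 138186 0 0) P.nil))) (P.cons (P.cons (P.lf 239688 0 0) (P.cons (P.lf 17355 0 0) P.nil)) (P.cons (P.cons (P.lf 23658 0 0) P.nil) P.nil)))))) 36123)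
 (EL.cons 8 (TM.mk (P.cons (P.cons (P.lf 53698953 0 0) (P.cons (P.lf 0 3391737 0) (P.cons (P.lf 0 1462554 0) (P.lf 162504 0 0)))) (P.cons (P.cons (P.lf 36158307 0 0) (P.cons (P.lf 0 3403989 0) (P.cons (P.lf 0 1467837 0) (P.lf 163092 0 0)))) (P.cons (P.cons (P.lf 4218780 0 0) (P.cons (P.lf 0 1063851 0) (P.cons (P.lf 0 458742 0) (P.lf 50970 0 0)))) (P.cons (P.cons (P.lf 0 1096266 0) (P.cons (P.lf 0 68856 0) (P.cons (P.lf 0 29691 0) P.nil))) (P.cons (P.cons (P.lf 0 133779 0) (P.cons (P.lf 13008 0 0) P.nil)) (P.cons (P.cons (P.lf 10098 0 0) P.nil) P.nil)))))) 19014)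
 (EL.cons 11 (TM.mk (P.cons (P.cons (P.lf 204514446 0 0) (P.cons (P.lf 190524126 0 0) (P.cons (P.lf 0 19553973 0) (P.cons (P.lf 0 4066680 0) (P.lf 338889 0 0))))) (P.cons (P.cons (P.lf 65062806 0 0) (P.cons (P.lf 60612021 0 0) (P.cons (P.lf 0 6220764 0) (P.cons (P.lf 0 1293744 0) (P.lf 107811 0 0))))) (P.cons (P.cons (P.lf 0 3185820 0) (P.cons (P.lf 0 2967885 0) (P.cons (P.lf 304599 0 0) (P.cons (P.lf 63348 0 0) P.nil)))) (P.cons (P.cons (P.lf 0 313518 0) (P.cons (P.lf 0 292071 0) (P.cons (P.lf 29976 0 0) P.nil))) (P.cons (P.cons (P.lf 14184 0 0) (P.cons (P.lf 13215 0 0) P.nil)) (P.cons (P.cons (P.lf 750 0 0) P.nil) P.nil)))))) 16587)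
 EL.nil)))
noncomputable def S270_285_216_364_24 : EL := (EL.cons 4 (TM.mk (P.cons (P.cons (P.lf 182845530 0 0) (P.cons (P.lf 0 54161355 0) (P.cons (P.lf 0 20663496 0) (P.cons (P.lf 4916199 0 0) (P.cons (P.lf 242553 0 0) (P.cons (P.lf 0 111213 0) P.nil)))))) (P.cons (P.cons (P.lf 33299913 0 0) (P.cons (P.lf 0 17908536 0) (P.cons (P.lf 0 6076086 0) (P.cons (P.lf 2277825 0 0) (P.cons (P.lf 148359 0 0) P.nil))))) (P.cons (P.cons (P.lf 0 14599251 0) (P.cons (P.lf 2434683 0 0) (P.cons (P.lf 1185531 0 0) (P.cons (P.lf 354 0 0) P.nil)))) (P.cons (P.cons (P.lf 0 326916 0) (P.cons (P.lf 596613 0 0) (P.cons (P.lf 211140 0 0) P.nil))) (P.cons (P.cons (P.lf 357411 0 0) (P.cons (P.lf 0 67452 0) P.nil)) (P.cons (P.cons (P.lf 0 15060 0) P.nil) P.nil)))))) 359484)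
 (EL.cons 8 (TM.mk (P.cons (P.cons (P.lf 20657016 0 0) (P.cons (P.lf 0 6118890 0) (P.cons (P.lf 0 2334462 0) (P.cons (P.lf 555408 0 0) (P.cons (P.lf 27402 0 0) (P.cons (P.lf 0 12564 0) P.nil)))))) (P.cons (P.cons (P.lf 11096196 0 0) (P.cons (P.lf 0 4195689 0) (P.cons (P.lf 0 1515282 0) (P.cons (P.lf 454530 0 0) (P.cons (P.lf 26490 0 0) P.nil))))) (P.cons (P.cons (P.lf 0 245781 0) (P.cons (P.lf 0 463374 0) (P.cons (P.lf 0 117453 0) (P.cons (P.lf 93228 0 0) P.nil)))) (P.cons (P.cons (P.lf 0 601803 0) (P.cons (P.lf 155934 0 0) (P.cons (P.lf 68205 0 0) P.nil))) (P.cons (P.cons (P.lf 23493 0 0) (P.cons (P.lf 16356 0 0) P.nil)) (P.cons (P.cons (P.lf 11877 0 0) P.nil) P.nil)))))) 102018)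
 (EL.cons 11 (TM.mk (P.cons (P.cons (P.lf 78673011 0 0) (P.cons (P.lf 54956310 0 0) (P.cons (P.lf 0 32508900 0) (P.cons (P.lf 0 6298245 0) (P.cons (P.lf 2069244 0 0) (P.cons (P.lf 42837 0 0) P.nil)))))) (P.cons (P.cons (P.lf 14314116 0 0) (P.cons (P.lf 8178735 0 0) (P.cons (P.lf 0 8395470 0) (P.cons (P.lf 0 1615902 0) (P.cons (P.lf 568977 0 0) P.nil))))) (P.cons (P.cons (P.lf 0 4536486 0) (P.cons (P.lf 0 3619668 0) (P.cons (P.lf 1260264 0 0) (P.cons (P.lf 246792 0 0) P.nil)))) (P.cons (P.cons (P.lf 167499 0 0) (P.cons (P.lf 203013 0 0) (P.cons (P.lf 47997 0 0) P.nil))) (P.cons (P.cons (P.lf 47412 0 0) (P.cons (P.lf 38586 0 0) P.nil)) (P.cons (P.cons (P.lf 0 2772 0) P.nil) P.nil)))))) 291921)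
 EL.nil)))
noncomputable def S270_285_216_364_25 : EL := (EL.cons 4 (TM.mk (P.cons (P.cons (P.lf 79140495 0 0) (P.cons (P.lf 0 4998675 0) (P.cons (P.lf 0 2155485 0) (P.lf 239496 0 0)))) (P.cons (P.cons (P.lf 52315734 0 0) (P.cons (P.lf 0 4955232 0) (P.cons (P.lf 0 2136750 0) (P.lf 237414 0 0)))) (P.cons (P.cons (P.lf 5398026 0 0) (P.cons (P.lf 0 1495809 0) (P.cons (P.lf 0 645009 0) (P.lf 71667 0 0)))) (P.cons (P.cons (P.lf 0 1800480 0) (P.cons (P.lf 0 71931 0) (P.cons (P.lf 0 31017 0) P.nil))) (P.cons (P.cons (P.lf 0 188628 0) (P.cons (P.lf 23532 0 0) P.nil)) (P.cons (P.cons (P.lf 20922 0 0) P.nil) P.nil)))))) 31119)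
 (EL.cons 8 (TM.mk (P.cons (P.cons (P.lf 8940915 0 0) (P.cons (P.lf 0 564726 0) (P.cons (P.lf 0 243516 0) (P.lf 27057 0 0)))) (P.cons (P.cons (P.lf 9084792 0 0) (P.cons (P.lf 0 760320 0) (P.cons (P.lf 0 327858 0) (P.lf 36426 0 0)))) (P.cons (P.cons (P.lf 2737662 0 0) (P.cons (P.lf 0 369603 0) (P.cons (P.lf 0 159375 0) (P.lf 17706 0 0)))) (P.cons (P.cons (P.lf 36147 0 0) (P.cons (P.lf 0 70191 0) (P.cons (P.lf 0 30267 0) P.nil))) (P.cons (P.cons (P.lf 0 89079 0) (P.cons (P.lf 0 1011 0) P.nil)) (P.cons (P.cons (P.lf 0 5583 0) P.nil) P.nil)))))) 12213)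
 (EL.cons 11 (TM.mk (P.cons (P.cons (P.lf 34051809 0 0) (P.cons (P.lf 31722411 0 0) (P.cons (P.lf 0 3255750 0) (P.cons (P.lf 0 677103 0) (P.lf 56424 0 0))))) (P.cons (P.cons (P.lf 22503915 0 0) (P.cons (P.lf 20964480 0 0) (P.cons (P.lf 0 2151636 0) (P.cons (P.lf 0 447480 0) (P.lf 37290 0 0))))) (P.cons (P.cons (P.lf 3075081 0 0) (P.cons (P.lf 2864724 0 0) (P.cons (P.lf 0 294012 0) (P.cons (P.lf 0 61146 0) P.nil)))) (P.cons (P.cons (P.lf 0 279921 0) (P.cons (P.lf 0 260772 0) (P.cons (P.lf 26763 0 0) P.nil))) (P.cons (P.cons (P.lf 0 17409 0) (P.cons (P.lf 0 16218 0) P.nil)) (P.cons (P.cons (P.lf 1350 0 0) P.nil) P.nil)))))) 18573)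
 EL.nil)))
noncomputable def S270_285_216_364_26 : EL := (EL.cons 4 (TM.mk (P.cons (P.cons (P.lf 30443919 0 0) (P.cons (P.lf 0 9017904 0) (P.cons (P.lf 0 3440487 0) (P.cons (P.lf 818550 0 0) (P.cons (P.lf 40383 0 0) (P.cons (P.lf 0 18516 0) P.nil)))))) (P.cons (P.cons (P.lf 15978801 0 0) (P.cons (P.lf 0 6072579 0) (P.cons (P.lf 0 2190864 0) (P.cons (P.lf 659808 0 0) (P.cons (P.lf 38541 0 0) P.nil))))) (P.cons (P.cons (P.lf 0 626478 0) (P.cons (P.lf 0 588162 0) (P.cons (P.lf 0 138498 0) (P.cons (P.lf 127464 0 0) P.nil)))) (P.cons (P.cons (P.lf 0 915552 0) (P.cons (P.lf 250791 0 0) (P.cons (P.lf 107184 0 0) P.nil))) (P.cons (P.cons (P.lf 46767 0 0) (P.cons (P.lf 22515 0 0) P.nil)) (P.cons (P.cons (P.lf 18936 0 0) P.nil) P.nil)))))) 144888)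
 (EL.cons 8 (TM.mk (P.cons (P.cons (P.lf 3439407 0 0) (P.cons (P.lf 0 1018800 0) (P.cons (P.lf 0 388689 0) (P.cons (P.lf 92475 0 0) (P.cons (P.lf 4560 0 0) (P.cons (P.lf 0 2091 0) P.nil)))))) (P.cons (P.cons (P.lf 3026346 0 0) (P.cons (P.lf 0 1047768 0) (P.cons (P.lf 0 385515 0) (P.cons (P.lf 107373 0 0) (P.cons (P.lf 5973 0 0) P.nil))))) (P.cons (P.cons (P.lf 581451 0 0) (P.cons (P.lf 0 313371 0) (P.cons (P.lf 0 104802 0) (P.cons (P.lf 41169 0 0) P.nil)))) (P.cons (P.cons (P.lf 0 121239 0) (P.cons (P.lf 2073 0 0) (P.cons (P.lf 5583 0 0) P.nil))) (P.cons (P.cons (P.lf 0 30921 0) (P.cons (P.lf 12099 0 0) P.nil)) (P.cons (P.cons (P.lf 3657 0 0) P.nil) P.nil)))))) 38154)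
 (EL.cons 11 (TM.mk (P.cons (P.cons (P.lf 13099116 0 0) (P.cons (P.lf 9150267 0 0) (P.cons (P.lf 0 5412756 0) (P.cons (P.lf 0 1048662 0) (P.cons (P.lf 344529 0 0) (P.cons (P.lf 7131 0 0) P.nil)))))) (P.cons (P.cons (P.lf 6872898 0 0) (P.cons (P.lf 4497924 0 0) (P.cons (P.lf 0 3253017 0) (P.cons (P.lf 0 628467 0) (P.cons (P.lf 212817 0 0) P.nil))))) (P.cons (P.cons (P.lf 20220 0 0) (P.cons (P.lf 0 164799 0) (P.cons (P.lf 0 252195 0) (P.cons (P.lf 0 47814 0) P.nil)))) (P.cons (P.cons (P.lf 0 243030 0) (P.cons (P.lf 0 180213 0) (P.cons (P.lf 86184 0 0) P.nil))) (P.cons (P.cons (P.lf 19083 0 0) (P.cons (P.lf 19488 0 0) P.nil)) (P.cons (P.cons (P.lf 2433 0 0) P.nil) P.nil)))))) 131400)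
 EL.nil)))
noncomputable def S270_285_216_364_27 : EL := (EL.cons 13 (TM.mk (P.lf 0 4294967296 0) 0)
 EL.nil)
noncomputable def S270_285_216_364_28 : EL := (EL.cons 13 (TM.mk (P.cons (P.cons (P.lf 0 1652196322 0) (P.cons (P.lf 385047116 0 0) (P.cons (P.lf 166036660 0 0) (P.lf 0 18448516 0)))) (P.cons (P.cons (P.lf 225010297 0 0) (P.cons (P.lf 0 14212112 0) (P.cons (P.lf 0 6128420 0) (P.lf 680932 0 0)))) (P.cons (P.cons (P.lf 0 2050381 0) (P.cons (P.lf 0 2217340 0) (P.cons (P.lf 0 956140 0) (P.lf 106236 0 0)))) (P.cons (P.cons (P.lf 0 1893049 0) (P.cons (P.lf 87844 0 0) (P.cons (P.lf 37876 0 0) P.nil))) (P.cons (P.cons (P.lf 34136 0 0) (P.cons (P.lf 6220 0 0) P.nil)) (P.cons (P.cons (P.lf 5202 0 0) P.nil) P.nil)))))) 9093)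
 EL.nil)
noncomputable def S270_285_216_364_29 : EL := (EL.cons 13 (TM.mk (P.cons (P.cons (P.lf 0 635570074 0) (P.cons (P.lf 296241337 0 0) (P.cons (P.lf 93222837 0 0) (P.cons (P.lf 0 43964249 0) (P.cons (P.lf 0 3110868 0) (P.cons (P.lf 1426381 0 0) P.nil)))))) (P.cons (P.cons (P.lf 173114792 0 0) (P.cons (P.lf 0 51278977 0) (P.cons (P.lf 0 19563817 0) (P.cons (P.lf 4654564 0 0) (P.cons (P.lf 229645 0 0) P.nil))))) (P.cons (P.cons (P.lf 0 13365619 0) (P.cons (P.lf 150820 0 0) (P.cons (P.lf 415580 0 0) (P.cons (P.lf 295089 0 0) P.nil)))) (P.cons (P.cons (P.lf 0 1241607 0) (P.cons (P.lf 625770 0 0) (P.cons (P.lf 239411 0 0) P.nil))) (P.cons (P.cons (P.lf 223635 0 0) (P.cons (P.lf 0 25184 0) P.nil)) (P.cons (P.cons (P.lf 0 1381 0) P.nil) P.nil)))))) 435255)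
 EL.nil)
noncomputable def S270_285_216_364_30 : EL := (EL.cons 13 (TM.mk (P.cons (P.lf 0 715115316 0) (P.cons (P.lf 0 245098456 0) (P.cons (P.lf 2255000 0 0) (P.cons (P.lf 246912 0 0) (P.cons (P.lf 0 3900 0) (P.cons (P.lf 0 236 0) P.nil)))))) 40)
 EL.nil)
noncomputable def S270_285_216_364_31 : EL := (EL.cons 13 (TM.mk (P.cons (P.cons (P.lf 0 275091942 0) (P.cons (P.lf 64110637 0 0) (P.cons (P.lf 27645229 0 0) (P.lf 0 3071691 0)))) (P.cons (P.cons (P.lf 0 56820562 0) (P.cons (P.lf 19606937 0 0) (P.cons (P.lf 8454733 0 0) (P.lf 0 939415 0)))) (P.cons (P.cons (P.lf 13366602 0 0) (P.cons (P.lf 0 1382385 0) (P.cons (P.lf 0 596099 0) (P.lf 66232 0 0)))) (P.cons (P.cons (P.lf 0 455357 0) (P.cons (P.lf 0 126583 0) (P.cons (P.lf 0 54584 0) P.nil))) (P.cons (P.cons (P.lf 0 115705 0) (P.cons (P.lf 8379 0 0) P.nil)) (P.cons (P.cons (P.lf 4039 0 0) P.nil) P.nil)))))) 13959)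
 EL.nil)
noncomputable def S270_285_216_364_32 : EL := (EL.cons 13 (TM.mk (P.cons (P.cons (P.lf 0 105822899 0) (P.cons (P.lf 49324407 0 0) (P.cons (P.lf 15521673 0 0) (P.cons (P.lf 0 7320080 0) (P.cons (P.lf 0 517961 0) (P.cons (P.lf 237493 0 0) P.nil)))))) (P.cons (P.cons (P.lf 0 7445971 0) (P.cons (P.lf 8367447 0 0) (P.cons (P.lf 2062504 0 0) (P.cons (P.lf 0 1733894 0) (P.cons (P.lf 0 139290 0) P.nil))))) (P.cons (P.cons (P.lf 7987352 0 0) (P.cons (P.lf 0 3056733 0) (P.cons (P.lf 0 1096187 0) (P.cons (P.lf 337834 0 0) P.nil)))) (P.cons (P.cons (P.lf 0 1023809 0) (P.cons (P.lf 122690 0 0) (P.cons (P.lf 68490 0 0) P.nil))) (P.cons (P.cons (P.lf 0 37130 0) (P.cons (P.lf 34655 0 0) P.nil)) (P.cons (P.cons (P.lf 14074 0 0) P.nil) P.nil)))))) 234653)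
 EL.nil)
noncomputable def S270_285_216_364_33 : EL := (EL.cons 14 (TM.mk (P.lf 8589934592 0 0) 0)
 EL.nil)
noncomputable def S270_285_216_364_34 : EL := (EL.cons 14 (TM.mk (P.cons (P.cons (P.lf 3304392644 0 0) (P.cons (P.lf 0 770094232 0) (P.cons (P.lf 0 332073320 0) (P.lf 36897032 0 0)))) (P.cons (P.cons (P.lf 0 450020594 0) (P.cons (P.lf 28424224 0 0) (P.cons (P.lf 12256840 0 0) (P.lf 0 1361864 0)))) (P.cons (P.cons (P.lf 4100762 0 0) (P.cons (P.lf 4434680 0 0) (P.cons (P.lf 1912280 0 0) (P.lf 0 212472 0)))) (P.cons (P.cons (P.lf 3786098 0 0) (P.cons (P.lf 0 175688 0) (P.cons (P.lf 0 75752 0) P.nil))) (P.cons (P.cons (P.lf 0 68272 0) (P.cons (P.lf 0 12440 0) P.nil)) (P.cons (P.cons (P.lf 0 10404 0) P.nil) P.nil)))))) 18186)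
 EL.nil)
noncomputable def S270_285_216_364_35 : EL := (EL.cons 14 (TM.mk (P.cons (P.cons (P.lf 1271140148 0 0) (P.cons (P.lf 0 592482674 0) (P.cons (P.lf 0 186445674 0) (P.cons (P.lf 87928498 0 0) (P.cons (P.lf 6221736 0 0) (P.cons (P.lf 0 2852762 0) P.nil)))))) (P.cons (P.cons (P.lf 0 346229584 0) (P.cons (P.lf 102557954 0 0) (P.cons (P.lf 39127634 0 0) (P.cons (P.lf 0 9309128 0) (P.cons (P.lf 0 459290 0) P.nil))))) (P.cons (P.cons (P.lf 26731238 0 0) (P.cons (P.lf 0 301640 0) (P.cons (P.lf 0 831160 0) (P.cons (P.lf 0 590178 0) P.nil)))) (P.cons (P.cons (P.lf 2483214 0 0) (P.cons (P.lf 0 1251540 0) (P.cons (P.lf 0 478822 0) P.nil))) (P.cons (P.cons (P.lf 0 447270 0) (P.cons (P.lf 50368 0 0) P.nil)) (P.cons (P.cons (P.lf 2762 0 0) P.nil) P.nil)))))) 870510)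
 EL.nil)
noncomputable def S270_285_216_364_36 : EL := (EL.cons 14 (TM.mk (P.cons (P.lf 1430230632 0 0) (P.cons (P.lf 490196912 0 0) (P.cons (P.lf 0 4510000 0) (P.cons (P.lf 0 493824 0) (P.cons (P.lf 7800 0 0) (P.cons (P.lf 472 0 0) P.nil)))))) 80)
 EL.nil)
noncomputable def S270_285_216_364_37 : EL := (EL.cons 14 (TM.mk (P.cons (P.cons (P.lf 550183884 0 0) (P.cons (P.lf 0 128221274 0) (P.cons (P.lf 0 55290458 0) (P.lf 6143382 0 0)))) (P.cons (P.cons (P.lf 113641124 0 0) (P.cons (P.lf 0 39213874 0) (P.cons (P.lf 0 16909466 0) (P.lf 1878830 0 0)))) (P.cons (P.cons (P.lf 0 26733204 0) (P.cons (P.lf 2764770 0 0) (P.cons (P.lf 1192198 0 0) (P.lf 0 132464 0)))) (P.cons (P.cons (P.lf 910714 0 0) (P.cons (P.lf 253166 0 0) (P.cons (P.lf 109168 0 0) P.nil))) (P.cons (P.cons (P.lf 231410 0 0) (P.cons (P.lf 0 16758 0) P.nil)) (P.cons (P.cons (P.lf 0 8078 0) P.nil) P.nil)))))) 27918)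
 EL.nil)
noncomputable def S270_285_216_364_38 : EL := (EL.cons 14 (TM.mk (P.cons (P.cons (P.lf 211645798 0 0) (P.cons (P.lf 0 98648814 0) (P.cons (P.lf 0 31043346 0) (P.cons (P.lf 14640160 0 0) (P.cons (P.lf 1035922 0 0) (P.cons (P.lf 0 474986 0) P.nil)))))) (P.cons (P.cons (P.lf 14891942 0 0) (P.cons (P.lf 0 16734894 0) (P.cons (P.lf 0 4125008 0) (P.cons (P.lf 3467788 0 0) (P.cons (P.lf 278580 0 0) P.nil))))) (P.cons (P.cons (P.lf 0 15974704 0) (P.cons (P.lf 6113466 0 0) (P.cons (P.lf 2192374 0 0) (P.cons (P.lf 0 675668 0) P.nil)))) (P.cons (P.cons (P.lf 2047618 0 0) (P.cons (P.lf 0 245380 0) (P.cons (P.lf 0 136980 0) P.nil))) (P.cons (P.cons (P.lf 74260 0 0) (P.cons (P.lf 0 69310 0) P.nil)) (P.cons (P.cons (P.lf 0 28148 0) P.nil) P.nil)))))) 469306)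
 EL.nil)
noncomputable def S270_285_216_364_39 : EL := (EL.cons 14 (TM.mk (P.cons (P.lf 238134486 0 0) (P.cons (P.lf 163236316 0 0) (P.cons (P.lf 26471950 0 0) (P.cons (P.lf 0 679182 0) (P.cons (P.lf 0 51396 0) (P.cons (P.lf 1564 0 0) P.nil)))))) 140)
 EL.nil)
noncomputable def S270_285_216_364_40 : EL := (EL.cons 14 (TM.mk (P.cons (P.cons (P.lf 91606034 0 0) (P.cons (P.lf 0 21348938 0) (P.cons (P.lf 0 9205902 0) (P.lf 1022878 0 0)))) (P.cons (P.cons (P.lf 50318364 0 0) (P.cons (P.lf 0 13846270 0) (P.cons (P.lf 0 5970668 0) (P.lf 663406 0 0)))) (P.cons (P.cons (P.lf 1745128 0 0) (P.cons (P.lf 0 1710138 0) (P.cons (P.lf 0 737430 0) (P.lf 81936 0 0)))) (P.cons (P.cons (P.lf 0 1465228 0) (P.cons (P.lf 227886 0 0) (P.cons (P.lf 98266 0 0) P.nil))) (P.cons (P.cons (P.lf 98502 0 0) (P.cons (P.lf 12342 0 0) P.nil)) (P.cons (P.cons (P.lf 13050 0 0) P.nil) P.nil)))))) 26424)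
 EL.nil)
noncomputable def S270_285_216_364_41 : EL := (EL.cons 14 (TM.mk (P.cons (P.cons (P.lf 35239186 0 0) (P.cons (P.lf 0 16425102 0) (P.cons (P.lf 0 5168740 0) (P.cons (P.lf 2437598 0 0) (P.cons (P.lf 172482 0 0) (P.cons (P.lf 0 79084 0) P.nil)))))) (P.cons (P.cons (P.lf 14557390 0 0) (P.cons (P.lf 0 8415908 0) (P.cons (P.lf 0 2458350 0) (P.cons (P.lf 1412850 0 0) (P.cons (P.lf 105500 0 0) P.nil))))) (P.cons (P.cons (P.lf 0 1921090 0) (P.cons (P.lf 114690 0 0) (P.cons (P.lf 145930 0 0) (P.cons (P.lf 77708 0 0) P.nil)))) (P.cons (P.cons (P.lf 0 590674 0) (P.cons (P.lf 322474 0 0) (P.cons (P.lf 106254 0 0) P.nil))) (P.cons (P.cons (P.lf 136938 0 0) (P.cons (P.lf 0 27880 0) P.nil)) (P.cons (P.cons (P.lf 0 580 0) P.nil) P.nil)))))) 212208)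
 EL.nil)
noncomputable def S270_285_216_364_42 : EL := (EL.cons 14 (TM.mk (P.cons (P.lf 39649572 0 0) (P.cons (P.lf 40768454 0 0) (P.cons (P.lf 13597884 0 0) (P.cons (P.lf 1298180 0 0) (P.cons (P.lf 0 70382 0) (P.cons (P.lf 0 3676 0) P.nil)))))) 242)
 EL.nil)
noncomputable def S270_285_216_364_43 : EL := (EL.cons 14 (TM.mk (P.cons (P.cons (P.lf 15252474 0 0) (P.cons (P.lf 0 3554614 0) (P.cons (P.lf 0 1532788 0) (P.lf 170308 0 0)))) (P.cons (P.cons (P.lf 13605674 0 0) (P.cons (P.lf 0 3523722 0) (P.cons (P.lf 0 1519468 0) (P.lf 168828 0 0)))) (P.cons (P.cons (P.lf 3113958 0 0) (P.cons (P.lf 0 1063686 0) (P.cons (P.lf 0 458674 0) (P.lf 50962 0 0)))) (P.cons (P.cons (P.lf 0 176058 0) (P.cons (P.lf 0 51150 0) (P.cons (P.lf 0 22056 0) P.nil))) (P.cons (P.cons (P.lf 0 70938 0) (P.cons (P.lf 16734 0 0) P.nil)) (P.cons (P.cons (P.lf 8514 0 0) P.nil) P.nil)))))) 21360)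
 EL.nil)
noncomputable def S270_285_216_364_44 : EL := (EL.cons 14 (TM.mk (P.cons (P.cons (P.lf 5867350 0 0) (P.cons (P.lf 0 2734792 0) (P.cons (P.lf 0 860598 0) (P.cons (P.lf 405860 0 0) (P.cons (P.lf 28718 0 0) (P.cons (P.lf 0 13166 0) P.nil)))))) (P.cons (P.cons (P.lf 4434790 0 0) (P.cons (P.lf 0 2338576 0) (P.cons (P.lf 0 704278 0) (P.cons (P.lf 374344 0 0) (P.cons (P.lf 27408 0 0) P.nil))))) (P.cons (P.cons (P.lf 492372 0 0) (P.cons (P.lf 0 452546 0) (P.cons (P.lf 0 113276 0) (P.cons (P.lf 92284 0 0) P.nil)))) (P.cons (P.cons (P.lf 0 217646 0) (P.cons (P.lf 65600 0 0) (P.cons (P.lf 27606 0 0) P.nil))) (P.cons (P.cons (P.lf 0 10702 0) (P.cons (P.lf 14168 0 0) P.nil)) (P.cons (P.cons (P.lf 8152 0 0) P.nil) P.nil)))))) 93900)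
 EL.nil)
noncomputable def S270_285_216_364_45 : EL := (EL.cons 14 (TM.mk (P.cons (P.cons (P.lf 488984648 0 0) (P.cons (P.lf 0 341876070 0) (P.cons (P.lf 0 67746028 0) (P.cons (P.lf 78903976 0 0) (P.cons (P.lf 0 826710 0) (P.cons (P.lf 0 5855220 0) P.nil)))))) (P.cons (P.cons (P.lf 0 199782398 0) (P.cons (P.lf 105737910 0 0) (P.cons (P.lf 28862976 0 0) (P.cons (P.lf 0 18811188 0) (P.cons (P.lf 0 621294 0) P.nil))))) (P.cons (P.cons (P.lf 29028578 0 0) (P.cons (P.lf 0 8657730 0) (P.cons (P.lf 0 3642516 0) (P.cons (P.lf 574748 0 0) P.nil)))) (P.cons (P.cons (P.lf 0 50202 0) (P.cons (P.lf 0 1016736 0) (P.cons (P.lf 0 174022 0) P.nil))) (P.cons (P.cons (P.lf 0 452096 0) (P.cons (P.lf 202066 0 0) P.nil)) (P.cons (P.cons (P.lf 38674 0 0) P.nil) P.nil)))))) 3352154)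
 EL.nil)
noncomputable def S270_285_216_364_46 : EL := (EL.cons 15 (TM.mk (P.lf 4294967296 0 0) 0)
 EL.nil)
noncomputable def S270_285_216_364_47 : EL := (EL.cons 15 (TM.mk (P.cons (P.cons (P.lf 1652196322 0 0) (P.cons (P.lf 0 385047116 0) (P.cons (P.lf 0 166036660 0) (P.lf 18448516 0 0)))) (P.cons (P.cons (P.lf 0 225010297 0) (P.cons (P.lf 14212112 0 0) (P.cons (P.lf 6128420 0 0) (P.lf 0 680932 0)))) (P.cons (P.cons (P.lf 2050381 0 0) (P.cons (P.lf 2217340 0 0) (P.cons (P.lf 956140 0 0) (P.lf 0 106236 0)))) (P.cons (P.cons (P.lf 1893049 0 0) (P.cons (P.lf 0 87844 0) (P.cons (P.lf 0 37876 0) P.nil))) (P.cons (P.cons (P.lf 0 34136 0) (P.cons (P.lf 0 6220 0) P.nil)) (P.cons (P.cons (P.lf 0 5202 0) P.nil) P.nil)))))) 9093)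
 EL.nil)
noncomputable def S270_285_216_364_48 : EL := (EL.cons 15 (TM.mk (P.cons (P.cons (P.lf 635570074 0 0) (P.cons (P.lf 0 296241337 0) (P.cons (P.lf 0 93222837 0) (P.cons (P.lf 43964249 0 0) (P.cons (P.lf 3110868 0 0) (P.cons (P.lf 0 1426381 0) P.nil)))))) (P.cons (P.cons (P.lf 0 173114792 0) (P.cons (P.lf 51278977 0 0) (P.cons (P.lf 19563817 0 0) (P.cons (P.lf 0 4654564 0) (P.cons (P.lf 0 229645 0) P.nil))))) (P.cons (P.cons (P.lf 13365619 0 0) (P.cons (P.lf 0 150820 0) (P.cons (P.lf 0 415580 0) (P.cons (P.lf 0 295089 0) P.nil)))) (P.cons (P.cons (P.lf 1241607 0 0) (P.cons (P.lf 0 625770 0) (P.cons (P.lf 0 239411 0) P.nil))) (P.cons (P.cons (P.lf 0 223635 0) (P.cons (P.lf 25184 0 0) P.nil)) (P.cons (P.cons (P.lf 1381 0 0) P.nil) P.nil)))))) 435255)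
 EL.nil)
noncomputable def S270_285_216_364 : SL := (SL.cons S270_285_216_364_0 (SL.cons S270_285_216_364_1 (SL.cons S270_285_216_364_2 (SL.cons S270_285_216_364_3 (SL.cons S270_285_216_364_4 (SL.cons S270_285_216_364_5 (SL.cons S270_285_216_364_6 (SL.cons S270_285_216_364_7 (SL.cons S270_285_216_364_8 (SL.cons S270_285_216_364_9 (SL.cons S270_285_216_364_10 (SL.cons S270_285_216_364_11 (SL.cons S270_285_216_364_12 (SL.cons S270_285_216_364_13 (SL.cons S270_285_216_364_14 (SL.cons S270_285_216_364_15 (SL.cons S270_285_216_364_16 (SL.cons S270_285_216_364_17 (SL.cons S270_285_216_364_18 (SL.cons S270_285_216_364_19 (SL.cons S270_285_216_364_20 (SL.cons S270_285_216_364_21 (SL.cons S270_285_216_364_22 (SL.cons S270_285_216_364_23 (SL.cons S270_285_216_364_24 (SL.cons S270_285_216_364_25 (SL.cons S270_285_216_364_26 (SL.cons S270_285_216_364_27 (SL.cons S270_285_216_364_28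 (SL.cons S270_285_216_364_29 (SL.cons S270_285_216_364_30 (SL.cons S270_285_216_364_31 (SL.cons S270_285_216_364_32 (SL.cons S270_285_216_364_33 (SL.cons S270_285_216_364_34 (SL.cons S270_285_216_364_35 (SL.cons S270_285_216_364_36 (SL.cons S270_285_216_364_37 (SL.cons S270_285_216_364_38 (SL.cons S270_285_216_364_39 (SL.cons S270_285_216_364_40 (SL.cons S270_285_216_364_41 (SL.cons S270_285_216_364_42 (SL.cons S270_285_216_364_43 (SL.cons S270_285_216_364_44 (SL.cons S270_285_216_364_45 (SL.cons S270_285_216_364_46 (SL.cons S270_285_216_364_47 (SL.cons S270_285_216_364_48 SL.nil)))))))))))))))))))))))))))))))))))))))))))))))))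
noncomputable def S270_285_364_512_0 : EL := (EL.cons 0 (TM.mk (P.cons (P.lf 8246418975 0 0) (P.cons (P.lf 0 143469418 0) (P.cons (P.lf 0 23266362 0) (P.cons (P.lf 596937 0 0) (P.cons (P.lf 45172 0 0) (P.cons (P.lf 0 1374 0) P.nil)))))) 130)
 (EL.cons 1 (TM.mk (P.cons (P.lf 658702106 0 0) (P.cons (P.lf 217659159 0 0) (P.cons (P.lf 0 6218872 0) (P.cons (P.lf 0 652477 0) (P.cons (P.lf 17842 0 0) (P.cons (P.lf 1025 0 0) P.nil)))))) 108)
 (EL.cons 5 (TM.mk (P.cons (P.lf 4369384324 0 0) (P.cons (P.lf 51011348 0 0) (P.cons (P.lf 8272484 0 0) (P.cons (P.lf 0 212242 0) (P.cons (P.lf 0 16058 0) (P.cons (P.lf 490 0 0) P.nil)))))) 145)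
 (EL.cons 9 (TM.mk (P.lf 6442450944 0 0) 2)
 EL.nil))))
noncomputable def S270_285_364_512_1 : EL := (EL.cons 0 (TM.mk (P.cons (P.cons (P.lf 0 1267647 0) (P.cons (P.lf 0 1468393786 0) (P.cons (P.lf 0 98173390 0) (P.lf 32724466 0 0)))) (P.cons (P.cons (P.lf 0 514739277 0) (P.cons (P.lf 164807627 0 0) (P.cons (P.lf 11018641 0 0) (P.lf 0 3672874 0)))) (P.cons (P.cons (P.lf 70810804 0 0) (P.cons (P.lf 22310760 0 0) (P.cons (P.lf 1491637 0 0) (P.lf 0 497211 0)))) (P.cons (P.cons (P.lf 9306422 0 0) (P.cons (P.lf 0 2094244 0) (P.cons (P.lf 0 140007 0) P.nil))) (P.cons (P.cons (P.lf 0 789135 0) (P.cons (P.lf 0 119626 0) P.nil)) (P.cons (P.cons (P.lf 0 47489 0) P.nil) P.nil)))))) 87771)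
 (EL.cons 1 (TM.mk (P.cons (P.cons (P.lf 1122771072 0 0) (P.cons (P.lf 0 310559293 0) (P.cons (P.lf 0 20763267 0) (P.lf 6921086 0 0)))) (P.cons (P.cons (P.lf 0 170333704 0) (P.cons (P.lf 0 86303085 0) (P.cons (P.lf 0 5770024 0) (P.lf 1923340 0 0)))) (P.cons (P.cons (P.lf 0 39826807 0) (P.cons (P.lf 10839632 0 0) (P.cons (P.lf 724705 0 0) (P.lf 0 241564 0)))) (P.cons (P.cons (P.lf 4513014 0 0) (P.cons (P.lf 874121 0 0) (P.cons (P.lf 58439 0 0) P.nil))) (P.cons (P.cons (P.lf 370008 0 0) (P.cons (P.lf 0 92734 0) P.nil)) (P.cons (P.cons (P.lf 0 33748 0) P.nil) P.nil)))))) 54076)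
 (EL.cons 5 (TM.mk (P.cons (P.cons (P.lf 621874803 0 0) (P.cons (P.lf 0 885184074 0) (P.cons (P.lf 0 59181346 0) (P.lf 19727116 0 0)))) (P.cons (P.cons (P.lf 0 118765367 0) (P.cons (P.lf 0 6655480 0) (P.cons (P.lf 0 444966 0) (P.lf 148318 0 0)))) (P.cons (P.cons (P.lf 0 9095622 0) (P.cons (P.lf 171286 0 0) (P.cons (P.lf 11456 0 0) (P.lf 0 3820 0)))) (P.cons (P.cons (P.lf 0 589780 0) (P.cons (P.lf 423550 0 0) (P.cons (P.lf 28312 0 0) P.nil))) (P.cons (P.cons (P.lf 187194 0 0) (P.cons (P.lf 19784 0 0) P.nil)) (P.cons (P.cons (P.lf 9637 0 0) P.nil) P.nil)))))) 49004)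
 (EL.cons 9 (TM.mk (P.cons (P.cons (P.lf 548315367 0 0) (P.cons (P.lf 0 1241717328 0) (P.cons (P.lf 0 83018328 0) (P.lf 27672774 0 0)))) (P.cons (P.cons (P.lf 0 266279791 0) (P.cons (P.lf 45831864 0 0) (P.cons (P.lf 3064206 0 0) (P.lf 0 1021398 0)))) (P.cons (P.cons (P.lf 14189599 0 0) (P.cons (P.lf 7150584 0 0) (P.cons (P.lf 478068 0 0) (P.lf 0 159354 0)))) (P.cons (P.cons (P.lf 2399251 0 0) (P.cons (P.lf 0 283290 0) (P.cons (P.lf 0 18936 0) P.nil))) (P.cons (P.cons (P.lf 0 82398 0) (P.cons (P.lf 0 20064 0) P.nil)) (P.cons (P.cons (P.lf 0 6387 0) P.nil) P.nil)))))) 10532)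
 (EL.cons 2 (TM.mk (P.cons (P.cons (P.lf 0 450220868 0) (P.cons (P.lf 0 69705495 0) (P.cons (P.lf 33581908 0 0) (P.cons (P.lf 1270836 0 0) (P.lf 0 317708 0))))) (P.cons (P.cons (P.lf 0 143230140 0) (P.cons (P.lf 0 22175620 0) (P.cons (P.lf 10683514 0 0) (P.cons (P.lf 404294 0 0) (P.lf 0 101072 0))))) (P.cons (P.cons (P.lf 7013311 0 0) (P.cons (P.lf 1085835 0 0) (P.cons (P.lf 0 523119 0) (P.cons (P.lf 0 19794 0) P.nil)))) (P.cons (P.cons (P.lf 690181 0 0) (P.cons (P.lf 106855 0 0) (P.cons (P.lf 0 51480 0) P.nil))) (P.cons (P.cons (P.lf 0 31230 0) (P.cons (P.lf 0 4834 0) P.nil)) (P.cons (P.cons (P.lf 0 1650 0) P.nil) P.nil)))))) 11206)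
 (EL.cons 6 (TM.mk (P.cons (P.cons (P.lf 1416934674 0 0) (P.cons (P.lf 219377067 0 0) (P.cons (P.lf 0 105688953 0) (P.cons (P.lf 0 3999579 0) (P.lf 999894 0 0))))) (P.cons (P.cons (P.lf 0 52299147 0) (P.cons (P.lf 0 8097219 0) (P.cons (P.lf 3900984 0 0) (P.cons (P.lf 147624 0 0) (P.lf 0 36903 0))))) (P.cons (P.cons (P.lf 0 8159598 0) (P.cons (P.lf 0 1263309 0) (P.cons (P.lf 608622 0 0) (P.cons (P.lf 23031 0 0) P.nil)))) (P.cons (P.cons (P.lf 323265 0 0) (P.cons (P.lf 50049 0 0) (P.cons (P.lf 0 24111 0) P.nil))) (P.cons (P.cons (P.lf 22899 0 0) (P.cons (P.lf 3543 0 0) P.nil)) (P.cons (P.cons (P.lf 0 1041 0) P.nil) P.nil)))))) 10290)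
 EL.nil))))))
noncomputable def S270_285_364_512_2 : EL := (EL.cons 0 (TM.mk (P.cons (P.cons (P.lf 0 59950100 0) (P.cons (P.lf 21088632 0 0) (P.cons (P.lf 261102592 0 0) (P.cons (P.lf 34254922 0 0) (P.cons (P.lf 0 10414160 0) (P.cons (P.lf 0 773877 0) P.nil)))))) (P.cons (P.cons (P.lf 0 28456764 0) (P.cons (P.lf 201760039 0 0) (P.cons (P.lf 0 42989219 0) (P.cons (P.lf 0 12048427 0) (P.cons (P.lf 2264871 0 0) P.nil))))) (P.cons (P.cons (P.lf 36578058 0 0) (P.cons (P.lf 0 38927759 0) (P.cons (P.lf 0 8535885 0) (P.cons (P.lf 74164 0 0) P.nil)))) (P.cons (P.cons (P.lf 0 5428233 0) (P.cons (P.lf 0 4307816 0) (P.cons (P.lf 921584 0 0) P.nil))) (P.cons (P.cons (P.lf 0 707927 0) (P.cons (P.lf 832011 0 0) P.nil)) (P.cons (P.cons (P.lf 135483 0 0) P.nil) P.nil)))))) 1772142)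
 (EL.cons 1 (TM.mk (P.cons (P.cons (P.lf 186346099 0 0) (P.cons (P.lf 0 464058048 0) (P.cons (P.lf 64218582 0 0) (P.cons (P.lf 23077583 0 0) (P.cons (P.lf 0 3819473 0) (P.cons (P.lf 0 283820 0) P.nil)))))) (P.cons (P.cons (P.lf 0 118749339 0) (P.cons (P.lf 88465160 0 0) (P.cons (P.lf 28484625 0 0) (P.cons (P.lf 1046437 0 0) (P.cons (P.lf 0 905100 0) P.nil))))) (P.cons (P.cons (P.lf 12451177 0 0) (P.cons (P.lf 19919211 0 0) (P.cons (P.lf 0 3687614 0) (P.cons (P.lf 0 1115073 0) P.nil)))) (P.cons (P.cons (P.lf 3732095 0 0) (P.cons (P.lf 0 3645753 0) (P.cons (P.lf 0 523002 0) P.nil))) (P.cons (P.cons (P.lf 0 588517 0) (P.cons (P.lf 0 217439 0) P.nil)) (P.cons (P.cons (P.lf 0 38784 0) P.nil) P.nil)))))) 847571)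
 (EL.cons 5 (TM.mk (P.cons (P.cons (P.lf 74204833 0 0) (P.cons (P.lf 0 247044609 0) (P.cons (P.lf 162386935 0 0) (P.cons (P.lf 29427780 0 0) (P.cons (P.lf 0 7174360 0) (P.cons (P.lf 0 533116 0) P.nil)))))) (P.cons (P.cons (P.lf 0 41251518 0) (P.cons (P.lf 53436318 0 0) (P.cons (P.lf 3630945 0 0) (P.cons (P.lf 0 1183088 0) (P.cons (P.lf 0 2332 0) P.nil))))) (P.cons (P.cons (P.lf 2205211 0 0) (P.cons (P.lf 4727518 0 0) (P.cons (P.lf 0 328734 0) (P.cons (P.lf 0 191569 0) P.nil)))) (P.cons (P.cons (P.lf 1063515 0 0) (P.cons (P.lf 0 12269 0) (P.cons (P.lf 0 191826 0) P.nil))) (P.cons (P.cons (P.lf 46448 0 0) (P.cons (P.lf 0 162771 0) P.nil)) (P.cons (P.cons (P.lf 0 29694 0) P.nil) P.nil)))))) 1030724)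
 (EL.cons 9 (TM.mk (P.cons (P.cons (P.lf 46666981 0 0) (P.cons (P.lf 0 211364493 0) (P.cons (P.lf 225197131 0 0) (P.cons (P.lf 36712332 0 0) (P.cons (P.lf 0 9597508 0) (P.cons (P.lf 0 713190 0) P.nil)))))) (P.cons (P.cons (P.lf 0 45326010 0) (P.cons (P.lf 110446954 0 0) (P.cons (P.lf 0 10283031 0) (P.cons (P.lf 0 4823788 0) (P.cons (P.lf 708486 0 0) P.nil))))) (P.cons (P.cons (P.lf 13421239 0 0) (P.cons (P.lf 0 8041285 0) (P.cons (P.lf 0 2967976 0) (P.cons (P.lf 0 145767 0) P.nil)))) (P.cons (P.cons (P.lf 0 764571 0) (P.cons (P.lf 0 1362289 0) (P.cons (P.lf 119862 0 0) P.nil))) (P.cons (P.cons (P.lf 0 181104 0) (P.cons (P.lf 117400 0 0) P.nil)) (P.cons (P.cons (P.lf 16291 0 0) P.nil) P.nil)))))) 473612)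
 (EL.cons 2 (TM.mk (P.cons (P.cons (P.lf 0 76636366 0) (P.cons (P.lf 161685810 0 0) (P.cons (P.lf 44189572 0 0) (P.cons (P.lf 0 14800089 0) (P.cons (P.lf 0 2008265 0) (P.cons (P.lf 378208 0 0) P.nil)))))) (P.cons (P.cons (P.lf 12836548 0 0) (P.cons (P.lf 50793963 0 0) (P.cons (P.lf 9862093 0 0) (P.cons (P.lf 0 4259193 0) (P.cons (P.lf 0 540500 0) P.nil))))) (P.cons (P.cons (P.lf 11050554 0 0) (P.cons (P.lf 0 4029890 0) (P.cons (P.lf 0 2096893 0) (P.cons (P.lf 465525 0 0) P.nil)))) (P.cons (P.cons (P.lf 0 1428530 0) (P.cons (P.lf 0 665786 0) (P.cons (P.lf 7987 0 0) P.nil))) (P.cons (P.cons (P.lf 0 126635 0) (P.cons (P.lf 33215 0 0) P.nil)) (P.cons (P.cons (P.lf 15120 0 0) P.nil) P.nil)))))) 397343)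
 (EL.cons 6 (TM.mk (P.cons (P.cons (P.lf 241189896 0 0) (P.cons (P.lf 0 508857426 0) (P.cons (P.lf 0 139073382 0) (P.cons (P.lf 46578840 0 0) (P.cons (P.lf 6320418 0 0) (P.cons (P.lf 0 1190304 0) P.nil)))))) (P.cons (P.cons (P.lf 0 126031998 0) (P.cons (P.lf 20807604 0 0) (P.cons (P.lf 18339066 0 0) (P.cons (P.lf 0 3132954 0) (P.cons (P.lf 0 542940 0) P.nil))))) (P.cons (P.cons (P.lf 9175980 0 0) (P.cons (P.lf 6967272 0 0) (P.cons (P.lf 545142 0 0) (P.cons (P.lf 0 505812 0) P.nil)))) (P.cons (P.cons (P.lf 1554516 0 0) (P.cons (P.lf 0 240732 0) (P.cons (P.lf 0 222666 0) P.nil))) (P.cons (P.cons (P.lf 0 133962 0) (P.cons (P.lf 0 47304 0) P.nil)) (P.cons (P.cons (P.lf 0 8190 0) P.nil) P.nil)))))) 379218)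
 EL.nil))))))
noncomputable def S270_285_364_512_3 : EL := (EL.cons 0 (TM.mk (P.cons (P.lf 209297888 0 0) (P.cons (P.lf 143469418 0 0) (P.cons (P.lf 23266362 0 0) (P.cons (P.lf 0 596937 0) (P.cons (P.lf 0 45172 0) (P.cons (P.lf 1374 0 0) P.nil)))))) 130)
 (EL.cons 1 (TM.mk (P.cons (P.lf 0 658702106 0) (P.cons (P.lf 0 217659159 0) (P.cons (P.lf 6218872 0 0) (P.cons (P.lf 652477 0 0) (P.cons (P.lf 0 17842 0) (P.cons (P.lf 0 1025 0) P.nil)))))) 108)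
 (EL.cons 5 (TM.mk (P.cons (P.lf 2073066620 0 0) (P.cons (P.lf 0 51011348 0) (P.cons (P.lf 0 8272484 0) (P.cons (P.lf 212242 0 0) (P.cons (P.lf 16058 0 0) (P.cons (P.lf 0 490 0) P.nil)))))) 138)
 EL.nil)))
noncomputable def S270_285_364_512_4 : EL := (EL.cons 0 (TM.mk (P.cons (P.cons (P.lf 17813288 0 0) (P.cons (P.lf 0 40340053 0) (P.cons (P.lf 0 2697041 0) (P.lf 899013 0 0)))) (P.cons (P.cons (P.lf 3559930 0 0) (P.cons (P.lf 0 26163326 0) (P.cons (P.lf 0 1749218 0) (P.lf 583071 0 0)))) (P.cons (P.cons (P.lf 0 3488709 0) (P.cons (P.lf 0 3231404 0) (P.cons (P.lf 0 216043 0) (P.lf 72014 0 0)))) (P.cons (P.cons (P.lf 0 618512 0) (P.cons (P.lf 430606 0 0) (P.cons (P.lf 28787 0 0) P.nil))) (P.cons (P.cons (P.lf 122825 0 0) (P.cons (P.lf 23322 0 0) P.nil)) (P.cons (P.cons (P.lf 7291 0 0) P.nil) P.nil)))))) 18330)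
 (EL.cons 1 (TM.mk (P.cons (P.cons (P.lf 0 56061967 0) (P.cons (P.lf 126958173 0 0) (P.cons (P.lf 8488126 0 0) (P.lf 0 2829373 0)))) (P.cons (P.cons (P.lf 8700600 0 0) (P.cons (P.lf 37265568 0 0) (P.cons (P.lf 2491488 0 0) (P.lf 0 830495 0)))) (P.cons (P.cons (P.lf 8074785 0 0) (P.cons (P.lf 0 3478164 0) (P.cons (P.lf 0 232539 0) (P.lf 77512 0 0)))) (P.cons (P.cons (P.lf 0 926212 0) (P.cons (P.lf 0 294135 0) (P.cons (P.lf 0 19665 0) P.nil))) (P.cons (P.cons (P.lf 0 87423 0) (P.cons (P.lf 26604 0 0) P.nil)) (P.cons (P.cons (P.lf 7839 0 0) P.nil) P.nil)))))) 15889)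
 (EL.cons 5 (TM.mk (P.cons (P.cons (P.lf 176438172 0 0) (P.cons (P.lf 0 399562644 0) (P.cons (P.lf 0 26713826 0) (P.lf 8904608 0 0)))) (P.cons (P.cons (P.lf 0 90025682 0) (P.cons (P.lf 24579802 0 0) (P.cons (P.lf 1643346 0 0) (P.lf 0 547780 0)))) (P.cons (P.cons (P.lf 5970296 0 0) (P.cons (P.lf 3532472 0 0) (P.cons (P.lf 236170 0 0) (P.lf 0 78722 0)))) (P.cons (P.cons (P.lf 1019664 0 0) (P.cons (P.lf 0 247534 0) (P.cons (P.lf 0 16546 0) P.nil))) (P.cons (P.cons (P.lf 0 71136 0) (P.cons (P.lf 0 14978 0) P.nil)) (P.cons (P.cons (P.lf 0 4720 0) P.nil) P.nil)))))) 9882)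
 EL.nil)))
noncomputable def S270_285_364_512_5 : EL := (EL.cons 0 (TM.mk (P.cons (P.cons (P.lf 1516083 0 0) (P.cons (P.lf 0 6866662 0) (P.cons (P.lf 7316047 0 0) (P.cons (P.lf 1192684 0 0) (P.cons (P.lf 0 311795 0) (P.cons (P.lf 0 23167 0) P.nil)))))) (P.cons (P.cons (P.lf 0 433274 0) (P.cons (P.lf 0 1118831 0) (P.cons (P.lf 4680933 0 0) (P.cons (P.lf 660847 0 0) (P.cons (P.lf 0 190712 0) P.nil))))) (P.cons (P.cons (P.lf 0 404827 0) (P.cons (P.lf 1435020 0 0) (P.cons (P.lf 487861 0 0) (P.cons (P.lf 20424 0 0) P.nil)))) (P.cons (P.cons (P.lf 106027 0 0) (P.cons (P.lf 195122 0 0) (P.cons (P.lf 0 120202 0) P.nil))) (P.cons (P.cons (P.lf 29431 0 0) (P.cons (P.lf 0 64314 0) P.nil)) (P.cons (P.cons (P.lf 0 7180 0) P.nil) P.nil)))))) 153489)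
 (EL.cons 1 (TM.mk (P.cons (P.cons (P.lf 0 4771419 0) (P.cons (P.lf 21610755 0 0) (P.cons (P.lf 0 23025060 0) (P.cons (P.lf 0 3753615 0) (P.cons (P.lf 981286 0 0) (P.cons (P.lf 72918 0 0) P.nil)))))) (P.cons (P.cons (P.lf 3057660 0 0) (P.cons (P.lf 0 4151559 0) (P.cons (P.lf 0 6556938 0) (P.cons (P.lf 0 747127 0) (P.cons (P.lf 251814 0 0) P.nil))))) (P.cons (P.cons (P.lf 204150 0 0) (P.cons (P.lf 0 3113321 0) (P.cons (P.lf 868252 0 0) (P.cons (P.lf 213313 0 0) P.nil)))) (P.cons (P.cons (P.lf 0 414290 0) (P.cons (P.lf 496168 0 0) (P.cons (P.lf 100897 0 0) P.nil))) (P.cons (P.cons (P.lf 52582 0 0) (P.cons (P.lf 38028 0 0) P.nil)) (P.cons (P.cons (P.lf 5191 0 0) P.nil) P.nil)))))) 157169)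
 (EL.cons 5 (TM.mk (P.cons (P.cons (P.lf 15016608 0 0) (P.cons (P.lf 0 68013348 0) (P.cons (P.lf 72464448 0 0) (P.cons (P.lf 11813376 0 0) (P.cons (P.lf 0 3088308 0) (P.cons (P.lf 0 229490 0) P.nil)))))) (P.cons (P.cons (P.lf 0 14954616 0) (P.cons (P.lf 37213456 0 0) (P.cons (P.lf 0 5092008 0) (P.cons (P.lf 0 1842896 0) (P.cons (P.lf 303970 0 0) P.nil))))) (P.cons (P.cons (P.lf 4617684 0 0) (P.cons (P.lf 0 3190656 0) (P.cons (P.lf 0 1162786 0) (P.cons (P.lf 0 55850 0) P.nil)))) (P.cons (P.cons (P.lf 0 292554 0) (P.cons (P.lf 0 523472 0) (P.cons (P.lf 82692 0 0) P.nil))) (P.cons (P.cons (P.lf 0 70832 0) (P.cons (P.lf 62000 0 0) P.nil)) (P.cons (P.cons (P.lf 7982 0 0) P.nil) P.nil)))))) 202908)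
 EL.nil)))
noncomputable def S270_285_364_512_6 : EL := (EL.cons 12 (TM.mk (P.lf 8589934592 0 0) 0)
 (EL.cons 3 (TM.mk (P.cons (P.lf 670420608 0 0) (P.cons (P.lf 229779802 0 0) (P.cons (P.lf 0 2114062 0) (P.cons (P.lf 0 231480 0) (P.cons (P.lf 3656 0 0) (P.cons (P.lf 221 0 0) P.nil)))))) 44)
 (EL.cons 7 (TM.mk (P.cons (P.lf 0 2109947077 0) (P.cons (P.lf 25959428 0 0) (P.cons (P.lf 4369521 0 0) (P.cons (P.lf 0 54250 0) (P.cons (P.lf 0 4315 0) (P.cons (P.lf 84 0 0) P.nil)))))) 52)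
 EL.nil)))
noncomputable def S270_285_364_512_7 : EL := (EL.cons 12 (TM.mk (P.cons (P.cons (P.lf 731087156 0 0) (P.cons (P.lf 0 1655623104 0) (P.cons (P.lf 0 110691104 0) (P.lf 36897032 0 0)))) (P.cons (P.cons (P.lf 0 355039722 0) (P.cons (P.lf 61109152 0 0) (P.cons (P.lf 4085608 0 0) (P.lf 0 1361864 0)))) (P.cons (P.cons (P.lf 18919466 0 0) (P.cons (P.lf 9534112 0 0) (P.cons (P.lf 637424 0 0) (P.lf 0 212472 0)))) (P.cons (P.cons (P.lf 3199002 0 0) (P.cons (P.lf 0 377720 0) (P.cons (P.lf 0 25248 0) P.nil))) (P.cons (P.cons (P.lf 0 109864 0) (P.cons (P.lf 0 26752 0) P.nil)) (P.cons (P.cons (P.lf 0 8516 0) P.nil) P.nil)))))) 14018)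
 (EL.cons 3 (TM.mk (P.cons (P.cons (P.lf 0 2195161138 0) (P.cons (P.lf 258433594 0 0) (P.cons (P.lf 17278266 0 0) (P.lf 0 5759420 0)))) (P.cons (P.cons (P.lf 245857801 0 0) (P.cons (P.lf 79036668 0 0) (P.cons (P.lf 5284206 0 0) (P.lf 0 1761402 0)))) (P.cons (P.cons (P.lf 53627354 0 0) (P.cons (P.lf 0 5572474 0) (P.cons (P.lf 0 372560 0) (P.lf 124184 0 0)))) (P.cons (P.cons (P.lf 0 2601984 0) (P.cons (P.lf 0 510264 0) (P.cons (P.lf 0 34114 0) P.nil))) (P.cons (P.cons (P.lf 0 236713 0) (P.cons (P.lf 33778 0 0) P.nil)) (P.cons (P.cons (P.lf 12266 0 0) P.nil) P.nil)))))) 45078)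
 (EL.cons 7 (TM.mk (P.cons (P.cons (P.lf 0 434022204 0) (P.cons (P.lf 450465881 0 0) (P.cons (P.lf 30117101 0 0) (P.lf 0 10039035 0)))) (P.cons (P.cons (P.lf 27775849 0 0) (P.cons (P.lf 8929186 0 0) (P.cons (P.lf 596980 0 0) (P.lf 0 198992 0)))) (P.cons (P.cons (P.lf 10989372 0 0) (P.cons (P.lf 955569 0 0) (P.cons (P.lf 63885 0 0) (P.lf 0 21295 0)))) (P.cons (P.cons (P.lf 1170488 0 0) (P.cons (P.lf 0 196879 0) (P.cons (P.lf 0 13161 0) P.nil))) (P.cons (P.cons (P.lf 0 92254 0) (P.cons (P.lf 0 11661 0) P.nil)) (P.cons (P.cons (P.lf 0 5772 0) P.nil) P.nil)))))) 29536)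
 (EL.cons 10 (TM.mk (P.cons (P.cons (P.lf 0 2884284708 0) (P.cons (P.lf 0 446559702 0) (P.cons (P.lf 215138382 0 0) (P.cons (P.lf 8141469 0 0) (P.lf 0 2035365 0))))) (P.cons (P.cons (P.lf 70972755 0 0) (P.cons (P.lf 10988364 0 0) (P.cons (P.lf 0 5293845 0) (P.cons (P.lf 0 200334 0) (P.lf 50082 0 0))))) (P.cons (P.cons (P.lf 11509614 0 0) (P.cons (P.lf 1781976 0 0) (P.cons (P.lf 0 858498 0) (P.cons (P.lf 0 32487 0) P.nil)))) (P.cons (P.cons (P.lf 0 295293 0) (P.cons (P.lf 0 45717 0) (P.cons (P.lf 22026 0 0) P.nil))) (P.cons (P.cons (P.lf 0 22341 0) (P.cons (P.lf 0 3459 0) P.nil)) (P.cons (P.cons (P.lf 681 0 0) P.nil) P.nil)))))) 11415)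
 EL.nil))))
noncomputable def S270_285_364_512_8 : EL := (EL.cons 12 (TM.mk (P.cons (P.cons (P.lf 62222642 0 0) (P.cons (P.lf 0 281819324 0) (P.cons (P.lf 300262842 0 0) (P.cons (P.lf 48949776 0 0) (P.cons (P.lf 0 12796678 0) (P.cons (P.lf 0 950920 0) P.nil)))))) (P.cons (P.cons (P.lf 0 60434680 0) (P.cons (P.lf 147262606 0 0) (P.cons (P.lf 0 13710708 0) (P.cons (P.lf 0 6431718 0) (P.cons (P.lf 944648 0 0) P.nil))))) (P.cons (P.cons (P.lf 17894986 0 0) (P.cons (P.lf 0 10721714 0) (P.cons (P.lf 0 3957302 0) (P.cons (P.lf 0 194356 0) P.nil)))) (P.cons (P.cons (P.lf 0 1019428 0) (P.cons (P.lf 0 1816386 0) (P.cons (P.lf 159816 0 0) P.nil))) (P.cons (P.cons (P.lf 0 241472 0) (P.cons (P.lf 156534 0 0) P.nil)) (P.cons (P.cons (P.lf 21722 0 0) P.nil) P.nil)))))) 631454)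
 (EL.cons 3 (TM.mk (P.cons (P.cons (P.lf 0 378515520 0) (P.cons (P.lf 912175911 0 0) (P.cons (P.lf 0 63540202 0) (P.cons (P.lf 0 36979702 0) (P.cons (P.lf 4993725 0 0) (P.cons (P.lf 371080 0 0) P.nil)))))) (P.cons (P.cons (P.lf 226363181 0 0) (P.cons (P.lf 0 137870558 0) (P.cons (P.lf 0 42705228 0) (P.cons (P.lf 0 1405228 0) (P.cons (P.lf 1342910 0 0) P.nil))))) (P.cons (P.cons (P.lf 0 20629669 0) (P.cons (P.lf 0 31562514 0) (P.cons (P.lf 2697673 0 0) (P.cons (P.lf 1346278 0 0) P.nil)))) (P.cons (P.cons (P.lf 0 5840285 0) (P.cons (P.lf 3876495 0 0) (P.cons (P.lf 596832 0 0) P.nil))) (P.cons (P.cons (P.lf 699162 0 0) (P.cons (P.lf 278782 0 0) P.nil)) (P.cons (P.cons (P.lf 53217 0 0) P.nil) P.nil)))))) 1128430)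
 (EL.cons 7 (TM.mk (P.cons (P.cons (P.lf 0 58595280 0) (P.cons (P.lf 174761533 0 0) (P.cons (P.lf 0 83579620 0) (P.cons (P.lf 0 16632939 0) (P.cons (P.lf 3820248 0 0) (P.cons (P.lf 283878 0 0) P.nil)))))) (P.cons (P.cons (P.lf 25573434 0 0) (P.cons (P.lf 0 15575965 0) (P.cons (P.lf 0 4824630 0) (P.cons (P.lf 0 158749 0) (P.cons (P.lf 151712 0 0) P.nil))))) (P.cons (P.cons (P.lf 2209189 0 0) (P.cons (P.lf 0 6330847 0) (P.cons (P.lf 0 551701 0) (P.cons (P.lf 123912 0 0) P.nil)))) (P.cons (P.cons (P.lf 0 1183447 0) (P.cons (P.lf 0 423108 0) (P.cons (P.lf 134279 0 0) P.nil))) (P.cons (P.cons (P.lf 0 97947 0) (P.cons (P.lf 140679 0 0) P.nil)) (P.cons (P.cons (P.lf 26797 0 0) P.nil) P.nil)))))) 509536)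
 (EL.cons 10 (TM.mk (P.cons (P.cons (P.lf 0 490961478 0) (P.cons (P.lf 1035820302 0 0) (P.cons (P.lf 283095078 0 0) (P.cons (P.lf 0 94814994 0) (P.cons (P.lf 0 12865722 0) (P.cons (P.lf 2422968 0 0) P.nil)))))) (P.cons (P.cons (P.lf 250507818 0 0) (P.cons (P.lf 0 29611500 0) (P.cons (P.lf 0 33847638 0) (P.cons (P.lf 5210850 0 0) (P.cons (P.lf 946914 0 0) P.nil))))) (P.cons (P.cons (P.lf 0 16613100 0) (P.cons (P.lf 0 12401670 0) (P.cons (P.lf 0 939864 0) (P.cons (P.lf 897384 0 0) P.nil)))) (P.cons (P.cons (P.lf 0 2837346 0) (P.cons (P.lf 249498 0 0) (P.cons (P.lf 364326 0 0) P.nil))) (P.cons (P.cons (P.lf 197946 0 0) (P.cons (P.lf 72330 0 0) P.nil)) (P.cons (P.cons (P.lf 13134 0 0) P.nil) P.nil)))))) 648750)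
 EL.nil))))
noncomputable def S270_285_364_512_9 : EL := (EL.cons 3 (TM.mk (P.cons (P.lf 670420608 0 0) (P.cons (P.lf 229779802 0 0) (P.cons (P.lf 0 2114062 0) (P.cons (P.lf 0 231480 0) (P.cons (P.lf 3656 0 0) (P.cons (P.lf 221 0 0) P.nil)))))) 44)
 (EL.cons 7 (TM.mk (P.cons (P.lf 0 2109947077 0) (P.cons (P.lf 25959428 0 0) (P.cons (P.lf 4369521 0 0) (P.cons (P.lf 0 54250 0) (P.cons (P.lf 0 4315 0) (P.cons (P.lf 84 0 0) P.nil)))))) 52)
 EL.nil))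
noncomputable def S270_285_364_512_10 : EL := (EL.cons 3 (TM.mk (P.cons (P.cons (P.lf 57059327 0 0) (P.cons (P.lf 0 129216797 0) (P.cons (P.lf 0 8639133 0) (P.lf 2879710 0 0)))) (P.cons (P.cons (P.lf 0 8153366 0) (P.cons (P.lf 0 39518334 0) (P.cons (P.lf 0 2642103 0) (P.lf 880701 0 0)))) (P.cons (P.cons (P.lf 0 8200588 0) (P.cons (P.lf 2786237 0 0) (P.cons (P.lf 186280 0 0) (P.lf 0 62092 0)))) (P.cons (P.cons (P.lf 823443 0 0) (P.cons (P.lf 255132 0 0) (P.cons (P.lf 17057 0 0) P.nil))) (P.cons (P.cons (P.lf 82220 0 0) (P.cons (P.lf 0 16889 0) P.nil)) (P.cons (P.cons (P.lf 0 5032 0) P.nil) P.nil)))))) 11189)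
 (EL.cons 7 (TM.mk (P.cons (P.cons (P.lf 0 179577060 0) (P.cons (P.lf 406670981 0 0) (P.cons (P.lf 27189074 0 0) (P.lf 0 9063024 0)))) (P.cons (P.cons (P.lf 89417866 0 0) (P.cons (P.lf 0 20013668 0) (P.cons (P.lf 0 1338065 0) (P.lf 446020 0 0)))) (P.cons (P.cons (P.lf 0 5348259 0) (P.cons (P.lf 0 2999370 0) (P.cons (P.lf 0 200529 0) (P.lf 66842 0 0)))) (P.cons (P.cons (P.lf 0 913813 0) (P.cons (P.lf 163133 0 0) (P.cons (P.lf 10905 0 0) P.nil))) (P.cons (P.cons (P.lf 48152 0 0) (P.cons (P.lf 10725 0 0) P.nil)) (P.cons (P.cons (P.lf 3453 0 0) P.nil) P.nil)))))) 6261)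
 EL.nil))
noncomputable def S270_285_364_512_11 : EL := (EL.cons 3 (TM.mk (P.cons (P.cons (P.lf 4856304 0 0) (P.cons (P.lf 0 21995217 0) (P.cons (P.lf 23434682 0 0) (P.cons (P.lf 3820394 0 0) (P.cons (P.lf 0 998745 0) (P.cons (P.lf 0 74216 0) P.nil)))))) (P.cons (P.cons (P.lf 0 3052309 0) (P.cons (P.lf 3954802 0 0) (P.cons (P.lf 6961914 0 0) (P.cons (P.lf 807422 0 0) (P.cons (P.lf 0 268582 0) P.nil))))) (P.cons (P.cons (P.lf 0 235279 0) (P.cons (P.lf 3171816 0 0) (P.cons (P.lf 0 749513 0) (P.cons (P.lf 0 199262 0) P.nil)))) (P.cons (P.cons (P.lf 412321 0 0) (P.cons (P.lf 0 457215 0) (P.cons (P.lf 0 98100 0) P.nil))) (P.cons (P.cons (P.lf 0 48864 0) (P.cons (P.lf 0 37820 0) P.nil)) (P.cons (P.cons (P.lf 0 5019 0) P.nil) P.nil)))))) 141168)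
 (EL.cons 7 (TM.mk (P.cons (P.cons (P.lf 0 15283758 0) (P.cons (P.lf 69223327 0 0) (P.cons (P.lf 0 73753612 0) (P.cons (P.lf 0 12023541 0) (P.cons (P.lf 3143250 0 0) (P.cons (P.lf 233574 0 0) P.nil)))))) (P.cons (P.cons (P.lf 15032622 0 0) (P.cons (P.lf 0 37023817 0) (P.cons (P.lf 4275180 0 0) (P.cons (P.lf 1727753 0 0) (P.cons (P.lf 0 270706 0) P.nil))))) (P.cons (P.cons (P.lf 0 4546535 0) (P.cons (P.lf 2935259 0 0) (P.cons (P.lf 1083335 0 0) (P.cons (P.lf 53202 0 0) P.nil)))) (P.cons (P.cons (P.lf 273347 0 0) (P.cons (P.lf 490446 0 0) (P.cons (P.lf 0 60085 0) P.nil))) (P.cons (P.cons (P.lf 65685 0 0) (P.cons (P.lf 0 50181 0) P.nil)) (P.cons (P.cons (P.lf 0 6665 0) P.nil) P.nil)))))) 179718)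
 EL.nil))
noncomputable def S270_285_364_512_12 : EL := (EL.cons 4 (TM.mk (P.cons (P.lf 0 670420608 0) (P.cons (P.lf 0 229779802 0) (P.cons (P.lf 2114062 0 0) (P.cons (P.lf 231480 0 0) (P.cons (P.lf 0 3656 0) (P.cons (P.lf 0 221 0) P.nil)))))) 44)
 (EL.cons 8 (TM.mk (P.cons (P.lf 2109947077 0 0) (P.cons (P.lf 0 25959428 0) (P.cons (P.lf 0 4369521 0) (P.cons (P.lf 54250 0 0) (P.cons (P.lf 4315 0 0) (P.cons (P.lf 0 84 0) P.nil)))))) 52)
 EL.nil))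
noncomputable def S270_285_364_512_13 : EL := (EL.cons 4 (TM.mk (P.cons (P.cons (P.lf 0 57059327 0) (P.cons (P.lf 129216797 0 0) (P.cons (P.lf 8639133 0 0) (P.lf 0 2879710 0)))) (P.cons (P.cons (P.lf 8153366 0 0) (P.cons (P.lf 39518334 0 0) (P.cons (P.lf 2642103 0 0) (P.lf 0 880701 0)))) (P.cons (P.cons (P.lf 8200588 0 0) (P.cons (P.lf 0 2786237 0) (P.cons (P.lf 0 186280 0) (P.lf 62092 0 0)))) (P.cons (P.cons (P.lf 0 823443 0) (P.cons (P.lf 0 255132 0) (P.cons (P.lf 0 17057 0) P.nil))) (P.cons (P.cons (P.lf 0 82220 0) (P.cons (P.lf 16889 0 0) P.nil)) (P.cons (P.cons (P.lf 5032 0 0) P.nil) P.nil)))))) 11189)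
 (EL.cons 8 (TM.mk (P.cons (P.cons (P.lf 179577060 0 0) (P.cons (P.lf 0 406670981 0) (P.cons (P.lf 0 27189074 0) (P.lf 9063024 0 0)))) (P.cons (P.cons (P.lf 0 89417866 0) (P.cons (P.lf 20013668 0 0) (P.cons (P.lf 1338065 0 0) (P.lf 0 446020 0)))) (P.cons (P.cons (P.lf 5348259 0 0) (P.cons (P.lf 2999370 0 0) (P.cons (P.lf 200529 0 0) (P.lf 0 66842 0)))) (P.cons (P.cons (P.lf 913813 0 0) (P.cons (P.lf 0 163133 0) (P.cons (P.lf 0 10905 0) P.nil))) (P.cons (P.cons (P.lf 0 48152 0) (P.cons (P.lf 0 10725 0) P.nil)) (P.cons (P.cons (P.lf 0 3453 0) P.nil) P.nil)))))) 6261)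
 EL.nil))
noncomputable def S270_285_364_512_14 : EL := (EL.cons 4 (TM.mk (P.cons (P.cons (P.lf 0 4856304 0) (P.cons (P.lf 21995217 0 0) (P.cons (P.lf 0 23434682 0) (P.cons (P.lf 0 3820394 0) (P.cons (P.lf 998745 0 0) (P.cons (P.lf 74216 0 0) P.nil)))))) (P.cons (P.cons (P.lf 3052309 0 0) (P.cons (P.lf 0 3954802 0) (P.cons (P.lf 0 6961914 0) (P.cons (P.lf 0 807422 0) (P.cons (P.lf 268582 0 0) P.nil))))) (P.cons (P.cons (P.lf 235279 0 0) (P.cons (P.lf 0 3171816 0) (P.cons (P.lf 749513 0 0) (P.cons (P.lf 199262 0 0) P.nil)))) (P.cons (P.cons (P.lf 0 412321 0) (P.cons (P.lf 457215 0 0) (P.cons (P.lf 98100 0 0) P.nil))) (P.cons (P.cons (P.lf 48864 0 0) (P.cons (P.lf 37820 0 0) P.nil)) (P.cons (P.cons (P.lf 5019 0 0) P.nil) P.nil)))))) 141168)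
 (EL.cons 8 (TM.mk (P.cons (P.cons (P.lf 15283758 0 0) (P.cons (P.lf 0 69223327 0) (P.cons (P.lf 73753612 0 0) (P.cons (P.lf 12023541 0 0) (P.cons (P.lf 0 3143250 0) (P.cons (P.lf 0 233574 0) P.nil)))))) (P.cons (P.cons (P.lf 0 15032622 0) (P.cons (P.lf 37023817 0 0) (P.cons (P.lf 0 4275180 0) (P.cons (P.lf 0 1727753 0) (P.cons (P.lf 270706 0 0) P.nil))))) (P.cons (P.cons (P.lf 4546535 0 0) (P.cons (P.lf 0 2935259 0) (P.cons (P.lf 0 1083335 0) (P.cons (P.lf 0 53202 0) P.nil)))) (P.cons (P.cons (P.lf 0 273347 0) (P.cons (P.lf 0 490446 0) (P.cons (P.lf 60085 0 0) P.nil))) (P.cons (P.cons (P.lf 0 65685 0) (P.cons (P.lf 50181 0 0) P.nil)) (P.cons (P.cons (P.lf 6665 0 0) P.nil) P.nil)))))) 179718)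
 EL.nil))
noncomputable def S270_285_364_512_15 : EL := (EL.cons 4 (TM.mk (P.cons (P.lf 0 111625540 0) (P.cons (P.lf 0 76517023 0) (P.cons (P.lf 0 12408726 0) (P.cons (P.lf 318366 0 0) (P.cons (P.lf 24091 0 0) (P.cons (P.lf 0 733 0) P.nil)))))) 72)
 (EL.cons 8 (TM.mk (P.cons (P.lf 351307790 0 0) (P.cons (P.lf 116084885 0 0) (P.cons (P.lf 0 3316732 0) (P.cons (P.lf 0 347988 0) (P.cons (P.lf 9516 0 0) (P.cons (P.lf 547 0 0) P.nil)))))) 54)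
 EL.nil))
noncomputable def S270_285_364_512_16 : EL := (EL.cons 4 (TM.mk (P.cons (P.cons (P.lf 0 9500420 0) (P.cons (P.lf 21514695 0 0) (P.cons (P.lf 1438422 0 0) (P.lf 0 479474 0)))) (P.cons (P.cons (P.lf 0 1898629 0) (P.cons (P.lf 13953774 0 0) (P.cons (P.lf 932916 0 0) (P.lf 0 310971 0)))) (P.cons (P.cons (P.lf 1860645 0 0) (P.cons (P.lf 1723415 0 0) (P.cons (P.lf 115223 0 0) (P.lf 0 38407 0)))) (P.cons (P.cons (P.lf 329873 0 0) (P.cons (P.lf 0 229656 0) (P.cons (P.lf 0 15353 0) P.nil))) (P.cons (P.cons (P.lf 0 65506 0) (P.cons (P.lf 0 12438 0) P.nil)) (P.cons (P.cons (P.lf 0 3888 0) P.nil) P.nil)))))) 9784)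
 (EL.cons 8 (TM.mk (P.cons (P.cons (P.lf 29899716 0 0) (P.cons (P.lf 0 67711026 0) (P.cons (P.lf 0 4527001 0) (P.lf 1508999 0 0)))) (P.cons (P.cons (P.lf 0 4640320 0) (P.cons (P.lf 0 19874970 0) (P.cons (P.lf 0 1328794 0) (P.lf 442931 0 0)))) (P.cons (P.cons (P.lf 0 4306552 0) (P.cons (P.lf 1855021 0 0) (P.cons (P.lf 124021 0 0) (P.lf 0 41340 0)))) (P.cons (P.cons (P.lf 493980 0 0) (P.cons (P.lf 156872 0 0) (P.cons (P.lf 10488 0 0) P.nil))) (P.cons (P.cons (P.lf 46626 0 0) (P.cons (P.lf 0 14189 0) P.nil)) (P.cons (P.cons (P.lf 0 4181 0) P.nil) P.nil)))))) 8464)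
 EL.nil))
noncomputable def S270_285_364_512_17 : EL := (EL.cons 4 (TM.mk (P.cons (P.cons (P.lf 0 808577 0) (P.cons (P.lf 3662220 0 0) (P.cons (P.lf 0 3901891 0) (P.cons (P.lf 0 636098 0) (P.cons (P.lf 166290 0 0) (P.cons (P.lf 12356 0 0) P.nil)))))) (P.cons (P.cons (P.lf 231079 0 0) (P.cons (P.lf 596710 0 0) (P.cons (P.lf 0 2496497 0) (P.cons (P.lf 0 352452 0) (P.cons (P.lf 101713 0 0) P.nil))))) (P.cons (P.cons (P.lf 215908 0 0) (P.cons (P.lf 0 765344 0) (P.cons (P.lf 0 260192 0) (P.cons (P.lf 0 10892 0) P.nil)))) (P.cons (P.cons (P.lf 0 56548 0) (P.cons (P.lf 0 104065 0) (P.cons (P.lf 64108 0 0) P.nil))) (P.cons (P.cons (P.lf 0 15696 0) (P.cons (P.lf 34301 0 0) P.nil)) (P.cons (P.cons (P.lf 3829 0 0) P.nil) P.nil)))))) 81871)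
 (EL.cons 8 (TM.mk (P.cons (P.cons (P.lf 2544757 0 0) (P.cons (P.lf 0 11525736 0) (P.cons (P.lf 12280032 0 0) (P.cons (P.lf 2001928 0 0) (P.cons (P.lf 0 523353 0) (P.cons (P.lf 0 38890 0) P.nil)))))) (P.cons (P.cons (P.lf 0 1630752 0) (P.cons (P.lf 2214165 0 0) (P.cons (P.lf 3497034 0 0) (P.cons (P.lf 398468 0 0) (P.cons (P.lf 0 134301 0) P.nil))))) (P.cons (P.cons (P.lf 0 108880 0) (P.cons (P.lf 1660438 0 0) (P.cons (P.lf 0 463068 0) (P.cons (P.lf 0 113767 0) P.nil)))) (P.cons (P.cons (P.lf 220955 0 0) (P.cons (P.lf 0 264623 0) (P.cons (P.lf 0 53812 0) P.nil))) (P.cons (P.cons (P.lf 0 28044 0) (P.cons (P.lf 0 20282 0) P.nil)) (P.cons (P.cons (P.lf 0 2769 0) P.nil) P.nil)))))) 83812)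
 EL.nil))
noncomputable def S270_285_364_512_18 : EL := (EL.cons 4 (TM.mk (P.cons (P.lf 0 18585736 0) (P.cons (P.lf 0 19110212 0) (P.cons (P.lf 0 6374008 0) (P.cons (P.lf 0 608521 0) (P.cons (P.lf 32991 0 0) (P.cons (P.lf 1723 0 0) P.nil)))))) 120)
 (EL.cons 8 (TM.mk (P.cons (P.lf 58493013 0 0) (P.cons (P.lf 39376103 0 0) (P.cons (P.lf 5887863 0 0) (P.cons (P.lf 0 328358 0) (P.cons (P.lf 0 22887 0) (P.cons (P.lf 1131 0 0) P.nil)))))) 96)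
 EL.nil))
noncomputable def S270_285_364_512_19 : EL := (EL.cons 4 (TM.mk (P.cons (P.cons (P.lf 0 1581826 0) (P.cons (P.lf 3582212 0 0) (P.cons (P.lf 239497 0 0) (P.lf 0 79831 0)))) (P.cons (P.cons (P.lf 0 858278 0) (P.cons (P.lf 3551080 0 0) (P.cons (P.lf 237416 0 0) (P.lf 0 79138 0)))) (P.cons (P.cons (P.lf 206438 0 0) (P.cons (P.lf 1071945 0 0) (P.cons (P.lf 71667 0 0) (P.lf 0 23888 0)))) (P.cons (P.cons (P.lf 162646 0 0) (P.cons (P.lf 51547 0 0) (P.cons (P.lf 3446 0 0) P.nil))) (P.cons (P.cons (P.lf 7040 0 0) (P.cons (P.lf 0 16863 0) P.nil)) (P.cons (P.cons (P.lf 0 4667 0) P.nil) P.nil)))))) 8207)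
 (EL.cons 8 (TM.mk (P.cons (P.cons (P.lf 4978325 0 0) (P.cons (P.lf 0 11273937 0) (P.cons (P.lf 0 753749 0) (P.lf 251249 0 0)))) (P.cons (P.cons (P.lf 933652 0 0) (P.cons (P.lf 0 7173224 0) (P.cons (P.lf 0 479584 0) (P.lf 159861 0 0)))) (P.cons (P.cons (P.lf 0 997548 0) (P.cons (P.lf 0 789780 0) (P.cons (P.lf 0 52802 0) (P.lf 17600 0 0)))) (P.cons (P.cons (P.lf 0 162793 0) (P.cons (P.lf 146306 0 0) (P.cons (P.lf 9781 0 0) P.nil))) (P.cons (P.cons (P.lf 38507 0 0) (P.cons (P.lf 6696 0 0) P.nil)) (P.cons (P.cons (P.lf 1950 0 0) P.nil) P.nil)))))) 6602)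
 EL.nil))
noncomputable def S270_285_364_512_20 : EL := (EL.cons 4 (TM.mk (P.cons (P.cons (P.lf 0 134628 0) (P.cons (P.lf 609762 0 0) (P.cons (P.lf 0 649667 0) (P.cons (P.lf 0 105910 0) (P.cons (P.lf 27687 0 0) (P.cons (P.lf 2056 0 0) P.nil)))))) (P.cons (P.cons (P.lf 0 7666 0) (P.cons (P.lf 308341 0 0) (P.cons (P.lf 0 638335 0) (P.cons (P.lf 0 94982 0) (P.cons (P.lf 26424 0 0) P.nil))))) (P.cons (P.cons (P.lf 49560 0 0) (P.cons (P.lf 0 95300 0) (P.cons (P.lf 0 183739 0) (P.cons (P.lf 0 21592 0) P.nil)))) (P.cons (P.cons (P.lf 2830 0 0) (P.cons (P.lf 0 61526 0) (P.cons (P.lf 0 2639 0) P.nil))) (P.cons (P.cons (P.lf 0 5967 0) (P.cons (P.lf 143 0 0) P.nil)) (P.cons (P.cons (P.lf 0 240 0) P.nil) P.nil)))))) 38870)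
 (EL.cons 8 (TM.mk (P.cons (P.cons (P.lf 423703 0 0) (P.cons (P.lf 0 1919043 0) (P.cons (P.lf 2044634 0 0) (P.cons (P.lf 333322 0 0) (P.cons (P.lf 0 87138 0) (P.cons (P.lf 0 6474 0) P.nil)))))) (P.cons (P.cons (P.lf 0 126301 0) (P.cons (P.lf 0 289072 0) (P.cons (P.lf 1283036 0 0) (P.cons (P.lf 180587 0 0) (P.cons (P.lf 0 52226 0) P.nil))))) (P.cons (P.cons (P.lf 0 112525 0) (P.cons (P.lf 408869 0 0) (P.cons (P.lf 116014 0 0) (P.cons (P.lf 2745 0 0) P.nil)))) (P.cons (P.cons (P.lf 31285 0 0) (P.cons (P.lf 50195 0 0) (P.cons (P.lf 0 37927 0) P.nil))) (P.cons (P.cons (P.lf 8092 0 0) (P.cons (P.lf 0 19487 0) P.nil)) (P.cons (P.cons (P.lf 0 2172 0) P.nil) P.nil)))))) 46295)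
 EL.nil))
noncomputable def S270_285_364_512_21 : EL := (EL.cons 4 (TM.mk (P.cons (P.cons (P.lf 2252220465 0 0) (P.cons (P.lf 0 387650391 0) (P.cons (P.lf 0 25917399 0) (P.lf 8639130 0 0)))) (P.cons (P.cons (P.lf 0 254011167 0) (P.cons (P.lf 0 118555002 0) (P.cons (P.lf 0 7926309 0) (P.lf 2642103 0 0)))) (P.cons (P.cons (P.lf 0 61827942 0) (P.cons (P.lf 8358711 0 0) (P.cons (P.lf 558840 0 0) (P.lf 0 186276 0)))) (P.cons (P.cons (P.lf 3425427 0 0) (P.cons (P.lf 765396 0 0) (P.cons (P.lf 51171 0 0) P.nil))) (P.cons (P.cons (P.lf 318933 0 0) (P.cons (P.lf 0 50667 0) P.nil)) (P.cons (P.cons (P.lf 0 17298 0) P.nil) P.nil)))))) 33870)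
 (EL.cons 8 (TM.mk (P.cons (P.cons (P.lf 254445144 0 0) (P.cons (P.lf 0 43794900 0) (P.cons (P.lf 0 2928027 0) (P.lf 976011 0 0)))) (P.cons (P.cons (P.lf 61642017 0 0) (P.cons (P.lf 0 28942854 0) (P.cons (P.lf 0 1935045 0) (P.lf 645012 0 0)))) (P.cons (P.cons (P.lf 0 16337631 0) (P.cons (P.lf 0 3954939 0) (P.cons (P.lf 0 264414 0) (P.lf 88137 0 0)))) (P.cons (P.cons (P.lf 0 2084301 0) (P.cons (P.lf 360012 0 0) (P.cons (P.lf 24066 0 0) P.nil))) (P.cons (P.cons (P.lf 140406 0 0) (P.cons (P.lf 22386 0 0) P.nil)) (P.cons (P.cons (P.lf 9225 0 0) P.nil) P.nil)))))) 23256)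
 (EL.cons 11 (TM.mk (P.cons (P.cons (P.lf 2884284708 0 0) (P.cons (P.lf 446559702 0 0) (P.cons (P.lf 0 215138382 0) (P.cons (P.lf 0 8141469 0) (P.lf 2035365 0 0))))) (P.cons (P.cons (P.lf 0 70972755 0) (P.cons (P.lf 0 10988364 0) (P.cons (P.lf 5293845 0 0) (P.cons (P.lf 200334 0 0) (P.lf 0 50082 0))))) (P.cons (P.cons (P.lf 0 11509614 0) (P.cons (P.lf 0 1781976 0) (P.cons (P.lf 858498 0 0) (P.cons (P.lf 32487 0 0) P.nil)))) (P.cons (P.cons (P.lf 295293 0 0) (P.cons (P.lf 45717 0 0) (P.cons (P.lf 0 22026 0) P.nil))) (P.cons (P.cons (P.lf 22341 0 0) (P.cons (P.lf 3459 0 0) P.nil)) (P.cons (P.cons (P.lf 0 681 0) P.nil) P.nil)))))) 11415)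
 EL.nil)))
noncomputable def S270_285_364_512_22 : EL := (EL.cons 4 (TM.mk (P.cons (P.cons (P.lf 191685912 0 0) (P.cons (P.lf 0 467085564 0) (P.cons (P.lf 43487442 0 0) (P.cons (P.lf 20400048 0 0) (P.cons (P.lf 0 2996235 0) (P.cons (P.lf 0 222648 0) P.nil)))))) (P.cons (P.cons (P.lf 0 114707745 0) (P.cons (P.lf 70912680 0 0) (P.cons (P.lf 24833571 0 0) (P.cons (P.lf 1106325 0 0) (P.cons (P.lf 0 805746 0) P.nil))))) (P.cons (P.cons (P.lf 10197195 0 0) (P.cons (P.lf 17367165 0 0) (P.cons (P.lf 0 1723593 0) (P.cons (P.lf 0 772770 0) P.nil)))) (P.cons (P.cons (P.lf 3126303 0 0) (P.cons (P.lf 0 2166855 0) (P.cons (P.lf 0 347466 0) P.nil))) (P.cons (P.cons (P.lf 0 374013 0) (P.cons (P.lf 0 158301 0) P.nil)) (P.cons (P.cons (P.lf 0 29118 0) P.nil) P.nil)))))) 493620)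
 (EL.cons 8 (TM.mk (P.cons (P.cons (P.lf 21655761 0 0) (P.cons (P.lf 0 52769103 0) (P.cons (P.lf 4913004 0 0) (P.cons (P.lf 2304699 0 0) (P.cons (P.lf 0 338499 0) (P.cons (P.lf 0 25152 0) P.nil)))))) (P.cons (P.cons (P.lf 0 5270406 0) (P.cons (P.lf 0 10723926 0) (P.cons (P.lf 4549905 0 0) (P.cons (P.lf 943251 0 0) (P.cons (P.lf 0 211209 0) P.nil))))) (P.cons (P.cons (P.lf 0 3377862 0) (P.cons (P.lf 4633053 0 0) (P.cons (P.lf 817518 0 0) (P.cons (P.lf 0 35355 0) P.nil)))) (P.cons (P.cons (P.lf 728397 0 0) (P.cons (P.lf 456777 0 0) (P.cons (P.lf 0 97182 0) P.nil))) (P.cons (P.cons (P.lf 81816 0 0) (P.cons (P.lf 0 95430 0) P.nil)) (P.cons (P.cons (P.lf 0 16731 0) P.nil) P.nil)))))) 164898)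
 (EL.cons 11 (TM.mk (P.cons (P.cons (P.lf 245480739 0 0) (P.cons (P.lf 0 517910151 0) (P.cons (P.lf 0 141547539 0) (P.cons (P.lf 47407497 0 0) (P.cons (P.lf 6432861 0 0) (P.cons (P.lf 0 1211484 0) P.nil)))))) (P.cons (P.cons (P.lf 0 125253909 0) (P.cons (P.lf 14805750 0 0) (P.cons (P.lf 16923819 0 0) (P.cons (P.lf 0 2605425 0) (P.cons (P.lf 0 473457 0) P.nil))))) (P.cons (P.cons (P.lf 8306550 0 0) (P.cons (P.lf 6200835 0 0) (P.cons (P.lf 469932 0 0) (P.cons (P.lf 0 448692 0) P.nil)))) (P.cons (P.cons (P.lf 1418673 0 0) (P.cons (P.lf 0 124749 0) (P.cons (P.lf 0 182163 0) P.nil))) (P.cons (P.cons (P.lf 0 98973 0) (P.cons (P.lf 0 36165 0) P.nil)) (P.cons (P.cons (P.lf 0 6567 0) P.nil) P.nil)))))) 324375)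
 EL.nil)))
noncomputable def S270_285_364_512_23 : EL := (EL.cons 4 (TM.mk (P.cons (P.cons (P.lf 374996415 0 0) (P.cons (P.lf 0 64544082 0) (P.cons (P.lf 0 4315266 0) (P.lf 1438419 0 0)))) (P.cons (P.cons (P.lf 86233131 0 0) (P.cons (P.lf 0 41861322 0) (P.cons (P.lf 0 2798748 0) (P.lf 932916 0 0)))) (P.cons (P.cons (P.lf 0 25972398 0) (P.cons (P.lf 0 5170248 0) (P.cons (P.lf 0 345669 0) (P.lf 115224 0 0)))) (P.cons (P.cons (P.lf 0 2954076 0) (P.cons (P.lf 688971 0 0) (P.cons (P.lf 46062 0 0) P.nil))) (P.cons (P.cons (P.lf 297687 0 0) (P.cons (P.lf 37317 0 0) P.nil)) (P.cons (P.cons (P.lf 16968 0 0) P.nil) P.nil)))))) 29676)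
 (EL.cons 8 (TM.mk (P.cons (P.cons (P.lf 42365307 0 0) (P.cons (P.lf 0 7291884 0) (P.cons (P.lf 0 487518 0) (P.lf 162504 0 0)))) (P.cons (P.cons (P.lf 24783717 0 0) (P.cons (P.lf 0 7318224 0) (P.cons (P.lf 0 489276 0) (P.lf 163092 0 0)))) (P.cons (P.cons (P.lf 663867 0 0) (P.cons (P.lf 0 2287170 0) (P.cons (P.lf 0 152913 0) (P.lf 50970 0 0)))) (P.cons (P.cons (P.lf 0 1326357 0) (P.cons (P.lf 0 148038 0) (P.cons (P.lf 0 9897 0) P.nil))) (P.cons (P.cons (P.lf 0 90300 0) (P.cons (P.lf 27972 0 0) P.nil)) (P.cons (P.cons (P.lf 11649 0 0) P.nil) P.nil)))))) 14961)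
 (EL.cons 11 (TM.mk (P.cons (P.cons (P.lf 480235593 0 0) (P.cons (P.lf 74352528 0 0) (P.cons (P.lf 0 35820702 0) (P.cons (P.lf 0 1355559 0) (P.lf 338889 0 0))))) (P.cons (P.cons (P.lf 152778816 0 0) (P.cons (P.lf 23653995 0 0) (P.cons (P.lf 0 11395749 0) (P.cons (P.lf 0 431247 0) (P.lf 107811 0 0))))) (P.cons (P.cons (P.lf 0 7480866 0) (P.cons (P.lf 0 1158225 0) (P.cons (P.lf 557994 0 0) (P.cons (P.lf 21114 0 0) P.nil)))) (P.cons (P.cons (P.lf 0 736194 0) (P.cons (P.lf 0 113979 0) (P.cons (P.lf 54912 0 0) P.nil))) (P.cons (P.cons (P.lf 33312 0 0) (P.cons (P.lf 5157 0 0) P.nil)) (P.cons (P.cons (P.lf 1761 0 0) P.nil) P.nil)))))) 11931)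
 EL.nil)))
noncomputable def S270_285_364_512_24 : EL := (EL.cons 4 (TM.mk (P.cons (P.cons (P.lf 31915848 0 0) (P.cons (P.lf 0 77770098 0) (P.cons (P.lf 7240692 0 0) (P.cons (P.lf 3396621 0 0) (P.cons (P.lf 0 498873 0) (P.cons (P.lf 0 37071 0) P.nil)))))) (P.cons (P.cons (P.lf 0 8160093 0) (P.cons (P.lf 0 14847888 0) (P.cons (P.lf 6616482 0 0) (P.cons (P.lf 1348362 0 0) (P.cons (P.lf 0 305139 0) P.nil))))) (P.cons (P.cons (P.lf 0 4948761 0) (P.cons (P.lf 7183614 0 0) (P.cons (P.lf 1107348 0 0) (P.cons (P.lf 0 76242 0) P.nil)))) (P.cons (P.cons (P.lf 1151655 0 0) (P.cons (P.lf 619917 0 0) (P.cons (P.lf 0 171750 0) P.nil))) (P.cons (P.cons (P.lf 117546 0 0) (P.cons (P.lf 0 163629 0) P.nil)) (P.cons (P.cons (P.lf 0 28512 0) P.nil) P.nil)))))) 265884)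
 (EL.cons 8 (TM.mk (P.cons (P.cons (P.lf 3605700 0 0) (P.cons (P.lf 0 8786094 0) (P.cons (P.lf 818019 0 0) (P.cons (P.lf 383733 0 0) (P.cons (P.lf 0 56358 0) (P.cons (P.lf 0 4188 0) P.nil)))))) (P.cons (P.cons (P.lf 358290 0 0) (P.cons (P.lf 0 4796886 0) (P.cons (P.lf 1037928 0 0) (P.cons (P.lf 288573 0 0) (P.cons (P.lf 0 54483 0) P.nil))))) (P.cons (P.cons (P.lf 0 874548 0) (P.cons (P.lf 187134 0 0) (P.cons (P.lf 393183 0 0) (P.cons (P.lf 46731 0 0) P.nil)))) (P.cons (P.cons (P.lf 0 69960 0) (P.cons (P.lf 349110 0 0) (P.cons (P.lf 27798 0 0) P.nil))) (P.cons (P.cons (P.lf 57285 0 0) (P.cons (P.lf 8313 0 0) P.nil)) (P.cons (P.cons (P.lf 1689 0 0) P.nil) P.nil)))))) 77808)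
 (EL.cons 11 (TM.mk (P.cons (P.cons (P.lf 40872729 0 0) (P.cons (P.lf 0 86232432 0) (P.cons (P.lf 0 23567772 0) (P.cons (P.lf 7893381 0 0) (P.cons (P.lf 1071075 0 0) (P.cons (P.lf 0 201711 0) P.nil)))))) (P.cons (P.cons (P.lf 0 6846159 0) (P.cons (P.lf 0 27090114 0) (P.cons (P.lf 0 5259783 0) (P.cons (P.lf 2271570 0 0) (P.cons (P.lf 288267 0 0) P.nil))))) (P.cons (P.cons (P.lf 0 5893629 0) (P.cons (P.lf 2149275 0 0) (P.cons (P.lf 1118343 0 0) (P.cons (P.lf 0 248280 0) P.nil)))) (P.cons (P.cons (P.lf 761883 0 0) (P.cons (P.lf 355086 0 0) (P.cons (P.lf 0 4260 0) P.nil))) (P.cons (P.cons (P.lf 67539 0 0) (P.cons (P.lf 0 17715 0) P.nil)) (P.cons (P.cons (P.lf 0 8064 0) P.nil) P.nil)))))) 211905)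
 EL.nil)))
noncomputable def S270_285_364_512_25 : EL := (EL.cons 4 (TM.mk (P.cons (P.cons (P.lf 62437188 0 0) (P.cons (P.lf 0 10746639 0) (P.cons (P.lf 0 718494 0) (P.lf 239496 0 0)))) (P.cons (P.cons (P.lf 35757588 0 0) (P.cons (P.lf 0 10653240 0) (P.cons (P.lf 0 712248 0) (P.lf 237414 0 0)))) (P.cons (P.cons (P.lf 399705 0 0) (P.cons (P.lf 0 3215838 0) (P.cons (P.lf 0 215001 0) (P.lf 71667 0 0)))) (P.cons (P.cons (P.lf 0 2040840 0) (P.cons (P.lf 0 154644 0) (P.cons (P.lf 0 10338 0) P.nil))) (P.cons (P.cons (P.lf 0 109992 0) (P.cons (P.lf 50592 0 0) P.nil)) (P.cons (P.cons (P.lf 22953 0 0) P.nil) P.nil)))))) 25944)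
 (EL.cons 8 (TM.mk (P.cons (P.cons (P.lf 7053855 0 0) (P.cons (P.lf 0 1214103 0) (P.cons (P.lf 0 81171 0) (P.lf 27057 0 0)))) (P.cons (P.cons (P.lf 6544143 0 0) (P.cons (P.lf 0 1634610 0) (P.cons (P.lf 0 109284 0) (P.lf 36426 0 0)))) (P.cons (P.cons (P.lf 1502607 0 0) (P.cons (P.lf 0 794610 0) (P.cons (P.lf 0 53124 0) (P.lf 17706 0 0)))) (P.cons (P.cons (P.lf 0 198402 0) (P.cons (P.lf 0 150906 0) (P.cons (P.lf 0 10089 0) P.nil))) (P.cons (P.cons (P.lf 0 92460 0) (P.cons (P.lf 0 2175 0) P.nil)) (P.cons (P.cons (P.lf 0 2529 0) P.nil) P.nil)))))) 9954)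
 (EL.cons 11 (TM.mk (P.cons (P.cons (P.lf 79959588 0 0) (P.cons (P.lf 12379752 0 0) (P.cons (P.lf 0 5964174 0) (P.cons (P.lf 0 225699 0) (P.lf 56424 0 0))))) (P.cons (P.cons (P.lf 52843119 0 0) (P.cons (P.lf 8181441 0 0) (P.cons (P.lf 0 3941559 0) (P.cons (P.lf 0 149160 0) (P.lf 37290 0 0))))) (P.cons (P.cons (P.lf 7220829 0 0) (P.cons (P.lf 1117965 0 0) (P.cons (P.lf 0 538599 0) (P.cons (P.lf 0 20382 0) P.nil)))) (P.cons (P.cons (P.lf 0 657303 0) (P.cons (P.lf 0 101766 0) (P.cons (P.lf 49026 0 0) P.nil))) (P.cons (P.cons (P.lf 0 40884 0) (P.cons (P.lf 0 6327 0) P.nil)) (P.cons (P.cons (P.lf 3174 0 0) P.nil) P.nil)))))) 15999)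
 EL.nil)))
noncomputable def S270_285_364_512_26 : EL := (EL.cons 4 (TM.mk (P.cons (P.cons (P.lf 5314011 0 0) (P.cons (P.lf 0 12948780 0) (P.cons (P.lf 1205580 0 0) (P.cons (P.lf 565539 0 0) (P.cons (P.lf 0 83061 0) (P.cons (P.lf 0 6171 0) P.nil)))))) (P.cons (P.cons (P.lf 462660 0 0) (P.cons (P.lf 0 6910245 0) (P.cons (P.lf 1514847 0 0) (P.cons (P.lf 418335 0 0) (P.cons (P.lf 0 79275 0) P.nil))))) (P.cons (P.cons (P.lf 0 1306395 0) (P.cons (P.lf 389592 0 0) (P.cons (P.lf 558150 0 0) (P.cons (P.lf 62466 0 0) P.nil)))) (P.cons (P.cons (P.lf 0 88206 0) (P.cons (P.lf 525426 0 0) (P.cons (P.lf 30705 0 0) P.nil))) (P.cons (P.cons (P.lf 88386 0 0) (P.cons (P.lf 5142 0 0) P.nil)) (P.cons (P.cons (P.lf 1632 0 0) P.nil) P.nil)))))) 116112)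
 (EL.cons 8 (TM.mk (P.cons (P.cons (P.lf 600351 0 0) (P.cons (P.lf 0 1462890 0) (P.cons (P.lf 136200 0 0) (P.cons (P.lf 63891 0 0) (P.cons (P.lf 0 9384 0) (P.cons (P.lf 0 696 0) P.nil)))))) (P.cons (P.cons (P.lf 265419 0 0) (P.cons (P.lf 0 1300074 0) (P.cons (P.lf 219495 0 0) (P.cons (P.lf 69945 0 0) (P.cons (P.lf 0 12285 0) P.nil))))) (P.cons (P.cons (P.lf 0 127059 0) (P.cons (P.lf 0 237969 0) (P.cons (P.lf 124266 0 0) (P.cons (P.lf 24045 0 0) P.nil)))) (P.cons (P.cons (P.lf 0 61950 0) (P.cons (P.lf 71829 0 0) (P.cons (P.lf 26472 0 0) P.nil))) (P.cons (P.cons (P.lf 5985 0 0) (P.cons (P.lf 21474 0 0) P.nil)) (P.cons (P.cons (P.lf 3636 0 0) P.nil) P.nil)))))) 31305)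
 (EL.cons 11 (TM.mk (P.cons (P.cons (P.lf 6805338 0 0) (P.cons (P.lf 0 14357763 0) (P.cons (P.lf 0 3924051 0) (P.cons (P.lf 1314252 0 0) (P.cons (P.lf 178335 0 0) (P.cons (P.lf 0 33585 0) P.nil)))))) (P.cons (P.cons (P.lf 1192569 0 0) (P.cons (P.lf 0 9431502 0) (P.cons (P.lf 0 2220684 0) (P.cons (P.lf 828663 0 0) (P.cons (P.lf 109119 0 0) P.nil))))) (P.cons (P.cons (P.lf 0 1393437 0) (P.cons (P.lf 0 1142802 0) (P.cons (P.lf 0 101577 0) (P.cons (P.lf 84144 0 0) P.nil)))) (P.cons (P.cons (P.lf 0 208227 0) (P.cons (P.lf 200952 0 0) (P.cons (P.lf 67224 0 0) P.nil))) (P.cons (P.cons (P.lf 58248 0 0) (P.cons (P.lf 17664 0 0) P.nil)) (P.cons (P.cons (P.lf 2445 0 0) P.nil) P.nil)))))) 99315)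
 EL.nil)))
noncomputable def S270_285_364_512_27 : EL := (EL.cons 13 (TM.mk (P.lf 0 4294967296 0) 0)
 EL.nil)
noncomputable def S270_285_364_512_28 : EL := (EL.cons 13 (TM.mk (P.cons (P.cons (P.lf 0 365543578 0) (P.cons (P.lf 827811552 0 0) (P.cons (P.lf 55345552 0 0) (P.lf 0 18448516 0)))) (P.cons (P.cons (P.lf 177519861 0 0) (P.cons (P.lf 0 30554576 0) (P.cons (P.lf 0 2042804 0) (P.lf 680932 0 0)))) (P.cons (P.cons (P.lf 0 9459733 0) (P.cons (P.lf 0 4767056 0) (P.cons (P.lf 0 318712 0) (P.lf 106236 0 0)))) (P.cons (P.cons (P.lf 0 1599501 0) (P.cons (P.lf 188860 0 0) (P.cons (P.lf 12624 0 0) P.nil))) (P.cons (P.cons (P.lf 54932 0 0) (P.cons (P.lf 13376 0 0) P.nil)) (P.cons (P.cons (P.lf 4258 0 0) P.nil) P.nil)))))) 7009)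
 EL.nil)
noncomputable def S270_285_364_512_29 : EL := (EL.cons 13 (TM.mk (P.cons (P.cons (P.lf 0 31111321 0) (P.cons (P.lf 140909662 0 0) (P.cons (P.lf 0 150131421 0) (P.cons (P.lf 0 24474888 0) (P.cons (P.lf 6398339 0 0) (P.cons (P.lf 475460 0 0) P.nil)))))) (P.cons (P.cons (P.lf 30217340 0 0) (P.cons (P.lf 0 73631303 0) (P.cons (P.lf 6855354 0 0) (P.cons (P.lf 3215859 0 0) (P.cons (P.lf 0 472324 0) P.nil))))) (P.cons (P.cons (P.lf 0 8947493 0) (P.cons (P.lf 5360857 0 0) (P.cons (P.lf 1978651 0 0) (P.cons (P.lf 97178 0 0) P.nil)))) (P.cons (P.cons (P.lf 509714 0 0) (P.cons (P.lf 908193 0 0) (P.cons (P.lf 0 79908 0) P.nil))) (P.cons (P.cons (P.lf 120736 0 0) (P.cons (P.lf 0 78267 0) P.nil)) (P.cons (P.cons (P.lf 0 10861 0) P.nil) P.nil)))))) 315727)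
 EL.nil)
noncomputable def S270_285_364_512_30 : EL := (EL.cons 13 (TM.mk (P.cons (P.lf 0 715115316 0) (P.cons (P.lf 0 245098456 0) (P.cons (P.lf 2255000 0 0) (P.cons (P.lf 246912 0 0) (P.cons (P.lf 0 3900 0) (P.cons (P.lf 0 236 0) P.nil)))))) 40)
 EL.nil)
noncomputable def S270_285_364_512_31 : EL := (EL.cons 13 (TM.mk (P.cons (P.cons (P.lf 0 60863283 0) (P.cons (P.lf 137831251 0 0) (P.cons (P.lf 9215076 0 0) (P.lf 0 3071691 0)))) (P.cons (P.cons (P.lf 8696924 0 0) (P.cons (P.lf 42152890 0 0) (P.cons (P.lf 2818244 0 0) (P.lf 0 939415 0)))) (P.cons (P.cons (P.lf 8747294 0 0) (P.cons (P.lf 0 2971987 0) (P.cons (P.lf 0 198699 0) (P.lf 66232 0 0)))) (P.cons (P.cons (P.lf 0 878340 0) (P.cons (P.lf 0 272141 0) (P.cons (P.lf 0 18195 0) P.nil))) (P.cons (P.cons (P.lf 0 87702 0) (P.cons (P.lf 18015 0 0) P.nil)) (P.cons (P.cons (P.lf 5368 0 0) P.nil) P.nil)))))) 11915)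
 EL.nil)
noncomputable def S270_285_364_512_32 : EL := (EL.cons 13 (TM.mk (P.cons (P.cons (P.lf 0 5180058 0) (P.cons (P.lf 23461565 0 0) (P.cons (P.lf 0 24996995 0) (P.cons (P.lf 0 4075087 0) (P.cons (P.lf 1065328 0 0) (P.cons (P.lf 79164 0 0) P.nil)))))) (P.cons (P.cons (P.lf 3255797 0 0) (P.cons (P.lf 0 4218456 0) (P.cons (P.lf 0 7426042 0) (P.cons (P.lf 0 861251 0) (P.cons (P.lf 286488 0 0) P.nil))))) (P.cons (P.cons (P.lf 250965 0 0) (P.cons (P.lf 0 3383271 0) (P.cons (P.lf 799481 0 0) (P.cons (P.lf 212547 0 0) P.nil)))) (P.cons (P.cons (P.lf 0 439810 0) (P.cons (P.lf 487697 0 0) (P.cons (P.lf 104641 0 0) P.nil))) (P.cons (P.cons (P.lf 52122 0 0) (P.cons (P.lf 40342 0 0) P.nil)) (P.cons (P.cons (P.lf 5354 0 0) P.nil) P.nil)))))) 150556)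
 EL.nil)
noncomputable def S270_285_364_512_33 : EL := (EL.cons 14 (TM.mk (P.lf 8589934592 0 0) 0)
 EL.nil)
noncomputable def S270_285_364_512_34 : EL := (EL.cons 14 (TM.mk (P.cons (P.cons (P.lf 731087156 0 0) (P.cons (P.lf 0 1655623104 0) (P.cons (P.lf 0 110691104 0) (P.lf 36897032 0 0)))) (P.cons (P.cons (P.lf 0 355039722 0) (P.cons (P.lf 61109152 0 0) (P.cons (P.lf 4085608 0 0) (P.lf 0 1361864 0)))) (P.cons (P.cons (P.lf 18919466 0 0) (P.cons (P.lf 9534112 0 0) (P.cons (P.lf 637424 0 0) (P.lf 0 212472 0)))) (P.cons (P.cons (P.lf 3199002 0 0) (P.cons (P.lf 0 377720 0) (P.cons (P.lf 0 25248 0) P.nil))) (P.cons (P.cons (P.lf 0 109864 0) (P.cons (P.lf 0 26752 0) P.nil)) (P.cons (P.cons (P.lf 0 8516 0) P.nil) P.nil)))))) 14018)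
 EL.nil)
noncomputable def S270_285_364_512_35 : EL := (EL.cons 14 (TM.mk (P.cons (P.cons (P.lf 62222642 0 0) (P.cons (P.lf 0 281819324 0) (P.cons (P.lf 300262842 0 0) (P.cons (P.lf 48949776 0 0) (P.cons (P.lf 0 12796678 0) (P.cons (P.lf 0 950920 0) P.nil)))))) (P.cons (P.cons (P.lf 0 60434680 0) (P.cons (P.lf 147262606 0 0) (P.cons (P.lf 0 13710708 0) (P.cons (P.lf 0 6431718 0) (P.cons (P.lf 944648 0 0) P.nil))))) (P.cons (P.cons (P.lf 17894986 0 0) (P.cons (P.lf 0 10721714 0) (P.cons (P.lf 0 3957302 0) (P.cons (P.lf 0 194356 0) P.nil)))) (P.cons (P.cons (P.lf 0 1019428 0) (P.cons (P.lf 0 1816386 0) (P.cons (P.lf 159816 0 0) P.nil))) (P.cons (P.cons (P.lf 0 241472 0) (P.cons (P.lf 156534 0 0) P.nil)) (P.cons (P.cons (P.lf 21722 0 0) P.nil) P.nil)))))) 631454)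
 EL.nil)
noncomputable def S270_285_364_512_36 : EL := (EL.cons 14 (TM.mk (P.cons (P.lf 1430230632 0 0) (P.cons (P.lf 490196912 0 0) (P.cons (P.lf 0 4510000 0) (P.cons (P.lf 0 493824 0) (P.cons (P.lf 7800 0 0) (P.cons (P.lf 472 0 0) P.nil)))))) 80)
 EL.nil)
noncomputable def S270_285_364_512_37 : EL := (EL.cons 14 (TM.mk (P.cons (P.cons (P.lf 121726566 0 0) (P.cons (P.lf 0 275662502 0) (P.cons (P.lf 0 18430152 0) (P.lf 6143382 0 0)))) (P.cons (P.cons (P.lf 0 17393848 0) (P.cons (P.lf 0 84305780 0) (P.cons (P.lf 0 5636488 0) (P.lf 1878830 0 0)))) (P.cons (P.cons (P.lf 0 17494588 0) (P.cons (P.lf 5943974 0 0) (P.cons (P.lf 397398 0 0) (P.lf 0 132464 0)))) (P.cons (P.cons (P.lf 1756680 0 0) (P.cons (P.lf 544282 0 0) (P.cons (P.lf 36390 0 0) P.nil))) (P.cons (P.cons (P.lf 175404 0 0) (P.cons (P.lf 0 36030 0) P.nil)) (P.cons (P.cons (P.lf 0 10736 0) P.nil) P.nil)))))) 23830)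
 EL.nil)
noncomputable def S270_285_364_512_38 : EL := (EL.cons 14 (TM.mk (P.cons (P.cons (P.lf 10360116 0 0) (P.cons (P.lf 0 46923130 0) (P.cons (P.lf 49993990 0 0) (P.cons (P.lf 8150174 0 0) (P.cons (P.lf 0 2130656 0) (P.cons (P.lf 0 158328 0) P.nil)))))) (P.cons (P.cons (P.lf 0 6511594 0) (P.cons (P.lf 8436912 0 0) (P.cons (P.lf 14852084 0 0) (P.cons (P.lf 1722502 0 0) (P.cons (P.lf 0 572976 0) P.nil))))) (P.cons (P.cons (P.lf 0 501930 0) (P.cons (P.lf 6766542 0 0) (P.cons (P.lf 0 1598962 0) (P.cons (P.lf 0 425094 0) P.nil)))) (P.cons (P.cons (P.lf 879620 0 0) (P.cons (P.lf 0 975394 0) (P.cons (P.lf 0 209282 0) P.nil))) (P.cons (P.cons (P.lf 0 104244 0) (P.cons (P.lf 0 80684 0) P.nil)) (P.cons (P.cons (P.lf 0 10708 0) P.nil) P.nil)))))) 301112)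
 EL.nil)
noncomputable def S270_285_364_512_39 : EL := (EL.cons 14 (TM.mk (P.cons (P.lf 238134486 0 0) (P.cons (P.lf 163236316 0 0) (P.cons (P.lf 26471950 0 0) (P.cons (P.lf 0 679182 0) (P.cons (P.lf 0 51396 0) (P.cons (P.lf 1564 0 0) P.nil)))))) 140)
 EL.nil)
noncomputable def S270_285_364_512_40 : EL := (EL.cons 14 (TM.mk (P.cons (P.cons (P.lf 20267564 0 0) (P.cons (P.lf 0 45898016 0) (P.cons (P.lf 0 3068634 0) (P.lf 1022878 0 0)))) (P.cons (P.cons (P.lf 4050410 0 0) (P.cons (P.lf 0 29768052 0) (P.cons (P.lf 0 1990222 0) (P.lf 663406 0 0)))) (P.cons (P.cons (P.lf 0 3969376 0) (P.cons (P.lf 0 3676620 0) (P.cons (P.lf 0 245810 0) (P.lf 81936 0 0)))) (P.cons (P.cons (P.lf 0 703730 0) (P.cons (P.lf 489934 0 0) (P.cons (P.lf 32754 0 0) P.nil))) (P.cons (P.cons (P.lf 139748 0 0) (P.cons (P.lf 26536 0 0) P.nil)) (P.cons (P.cons (P.lf 8296 0 0) P.nil) P.nil)))))) 20834)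
 EL.nil)
noncomputable def S270_285_364_512_41 : EL := (EL.cons 14 (TM.mk (P.cons (P.cons (P.lf 1724966 0 0) (P.cons (P.lf 0 7812736 0) (P.cons (P.lf 8324036 0 0) (P.cons (P.lf 1357010 0 0) (P.cons (P.lf 0 354754 0) (P.cons (P.lf 0 26360 0) P.nil)))))) (P.cons (P.cons (P.lf 0 492970 0) (P.cons (P.lf 0 1272982 0) (P.cons (P.lf 5325862 0 0) (P.cons (P.lf 751898 0 0) (P.cons (P.lf 0 216988 0) P.nil))))) (P.cons (P.cons (P.lf 0 460604 0) (P.cons (P.lf 1632734 0 0) (P.cons (P.lf 555078 0 0) (P.cons (P.lf 23238 0 0) P.nil)))) (P.cons (P.cons (P.lf 120636 0 0) (P.cons (P.lf 222006 0 0) (P.cons (P.lf 0 136764 0) P.nil))) (P.cons (P.cons (P.lf 33486 0 0) (P.cons (P.lf 0 73176 0) P.nil)) (P.cons (P.cons (P.lf 0 8170 0) P.nil) P.nil)))))) 174612)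
 EL.nil)
noncomputable def S270_285_364_512_42 : EL := (EL.cons 14 (TM.mk (P.cons (P.lf 39649572 0 0) (P.cons (P.lf 40768454 0 0) (P.cons (P.lf 13597884 0 0) (P.cons (P.lf 1298180 0 0) (P.cons (P.lf 0 70382 0) (P.cons (P.lf 0 3676 0) P.nil)))))) 242)
 EL.nil)
noncomputable def S270_285_364_512_43 : EL := (EL.cons 14 (TM.mk (P.cons (P.cons (P.lf 3374564 0 0) (P.cons (P.lf 0 7642054 0) (P.cons (P.lf 0 510928 0) (P.lf 170308 0 0)))) (P.cons (P.cons (P.lf 1830994 0 0) (P.cons (P.lf 0 7575638 0) (P.cons (P.lf 0 506488 0) (P.lf 168828 0 0)))) (P.cons (P.cons (P.lf 0 440402 0) (P.cons (P.lf 0 2286818 0) (P.cons (P.lf 0 152890 0) (P.lf 50962 0 0)))) (P.cons (P.cons (P.lf 0 346980 0) (P.cons (P.lf 0 109968 0) (P.cons (P.lf 0 7352 0) P.nil))) (P.cons (P.cons (P.lf 0 15020 0) (P.cons (P.lf 35976 0 0) P.nil)) (P.cons (P.cons (P.lf 9958 0 0) P.nil) P.nil)))))) 17468)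
 EL.nil)
noncomputable def S270_285_364_512_44 : EL := (EL.cons 14 (TM.mk (P.cons (P.cons (P.lf 287208 0 0) (P.cons (P.lf 0 1300826 0) (P.cons (P.lf 1385958 0 0) (P.cons (P.lf 225942 0 0) (P.cons (P.lf 0 59066 0) (P.cons (P.lf 0 4388 0) P.nil)))))) (P.cons (P.cons (P.lf 16356 0 0) (P.cons (P.lf 0 657796 0) (P.cons (P.lf 1361782 0 0) (P.cons (P.lf 202630 0 0) (P.cons (P.lf 0 56372 0) P.nil))))) (P.cons (P.cons (P.lf 0 105728 0) (P.cons (P.lf 203308 0 0) (P.cons (P.lf 391978 0 0) (P.cons (P.lf 46064 0 0) P.nil)))) (P.cons (P.cons (P.lf 0 6038 0) (P.cons (P.lf 131256 0 0) (P.cons (P.lf 5630 0 0) P.nil))) (P.cons (P.cons (P.lf 12730 0 0) (P.cons (P.lf 0 306 0) P.nil)) (P.cons (P.cons (P.lf 512 0 0) P.nil) P.nil)))))) 82876)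
 EL.nil)
noncomputable def S270_285_364_512_45 : EL := (EL.cons 14 (TM.mk (P.cons (P.cons (P.lf 5295752 0 0) (P.cons (P.lf 0 35978356 0) (P.cons (P.lf 79071312 0 0) (P.cons (P.lf 0 49807692 0) (P.cons (P.lf 0 15603446 0) (P.cons (P.lf 3044466 0 0) P.nil)))))) (P.cons (P.cons (P.lf 0 7715370 0) (P.cons (P.lf 36272484 0 0) (P.cons (P.lf 0 43157286 0) (P.cons (P.lf 0 93056 0) (P.cons (P.lf 3193910 0 0) P.nil))))) (P.cons (P.cons (P.lf 4157974 0 0) (P.cons (P.lf 0 11429850 0) (P.cons (P.lf 3437834 0 0) (P.cons (P.lf 1627764 0 0) P.nil)))) (P.cons (P.cons (P.lf 0 936334 0) (P.cons (P.lf 761930 0 0) (P.cons (P.lf 725426 0 0) P.nil))) (P.cons (P.cons (P.lf 37694 0 0) (P.cons (P.lf 184844 0 0) P.nil)) (P.cons (P.cons (P.lf 16958 0 0) P.nil) P.nil)))))) 2235564)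
 EL.nil)
noncomputable def S270_285_364_512_46 : EL := (EL.cons 15 (TM.mk (P.lf 4294967296 0 0) 0)
 EL.nil)
noncomputable def S270_285_364_512_47 : EL := (EL.cons 15 (TM.mk (P.cons (P.cons (P.lf 365543578 0 0) (P.cons (P.lf 0 827811552 0) (P.cons (P.lf 0 55345552 0) (P.lf 18448516 0 0)))) (P.cons (P.cons (P.lf 0 177519861 0) (P.cons (P.lf 30554576 0 0) (P.cons (P.lf 2042804 0 0) (P.lf 0 680932 0)))) (P.cons (P.cons (P.lf 9459733 0 0) (P.cons (P.lf 4767056 0 0) (P.cons (P.lf 318712 0 0) (P.lf 0 106236 0)))) (P.cons (P.cons (P.lf 1599501 0 0) (P.cons (P.lf 0 188860 0) (P.cons (P.lf 0 12624 0) P.nil))) (P.cons (P.cons (P.lf 0 54932 0) (P.cons (P.lf 0 13376 0) P.nil)) (P.cons (P.cons (P.lf 0 4258 0) P.nil) P.nil)))))) 7009)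
 EL.nil)
noncomputable def S270_285_364_512_48 : EL := (EL.cons 15 (TM.mk (P.cons (P.cons (P.lf 31111321 0 0) (P.cons (P.lf 0 140909662 0) (P.cons (P.lf 150131421 0 0) (P.cons (P.lf 24474888 0 0) (P.cons (P.lf 0 6398339 0) (P.cons (P.lf 0 475460 0) P.nil)))))) (P.cons (P.cons (P.lf 0 30217340 0) (P.cons (P.lf 73631303 0 0) (P.cons (P.lf 0 6855354 0) (P.cons (P.lf 0 3215859 0) (P.cons (P.lf 472324 0 0) P.nil))))) (P.cons (P.cons (P.lf 8947493 0 0) (P.cons (P.lf 0 5360857 0) (P.cons (P.lf 0 1978651 0) (P.cons (P.lf 0 97178 0) P.nil)))) (P.cons (P.cons (P.lf 0 509714 0) (P.cons (P.lf 0 908193 0) (P.cons (P.lf 79908 0 0) P.nil))) (P.cons (P.cons (P.lf 0 120736 0) (P.cons (P.lf 78267 0 0) P.nil)) (P.cons (P.cons (P.lf 10861 0 0) P.nil) P.nil)))))) 315727)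
 EL.nil)
noncomputable def S270_285_364_512 : SL := (SL.cons S270_285_364_512_0 (SL.cons S270_285_364_512_1 (SL.cons S270_285_364_512_2 (SL.cons S270_285_364_512_3 (SL.cons S270_285_364_512_4 (SL.cons S270_285_364_512_5 (SL.cons S270_285_364_512_6 (SL.cons S270_285_364_512_7 (SL.cons S270_285_364_512_8 (SL.cons S270_285_364_512_9 (SL.cons S270_285_364_512_10 (SL.cons S270_285_364_512_11 (SL.cons S270_285_364_512_12 (SL.cons S270_285_364_512_13 (SL.cons S270_285_364_512_14 (SL.cons S270_285_364_512_15 (SL.cons S270_285_364_512_16 (SL.cons S270_285_364_512_17 (SL.cons S270_285_364_512_18 (SL.cons S270_285_364_512_19 (SL.cons S270_285_364_512_20 (SL.cons S270_285_364_512_21 (SL.cons S270_285_364_512_22 (SL.cons S270_285_364_512_23 (SL.cons S270_285_364_512_24 (SL.cons S270_285_364_512_25 (SL.cons S270_285_364_512_26 (SL.cons S270_285_364_512_27 (SL.cons S270_285_364_512_28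 (SL.cons S270_285_364_512_29 (SL.cons S270_285_364_512_30 (SL.cons S270_285_364_512_31 (SL.cons S270_285_364_512_32 (SL.cons S270_285_364_512_33 (SL.cons S270_285_364_512_34 (SL.cons S270_285_364_512_35 (SL.cons S270_285_364_512_36 (SL.cons S270_285_364_512_37 (SL.cons S270_285_364_512_38 (SL.cons S270_285_364_512_39 (SL.cons S270_285_364_512_40 (SL.cons S270_285_364_512_41 (SL.cons S270_285_364_512_42 (SL.cons S270_285_364_512_43 (SL.cons S270_285_364_512_44 (SL.cons S270_285_364_512_45 (SL.cons S270_285_364_512_46 (SL.cons S270_285_364_512_47 (SL.cons S270_285_364_512_48 SL.nil)))))))))))))))))))))))))))))))))))))))))))))))))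
noncomputable def S270_285_512_660_0 : EL := (EL.cons 0 (TM.mk (P.cons (P.lf 8246418975 0 0) (P.cons (P.lf 0 143469418 0) (P.cons (P.lf 0 23266362 0) (P.cons (P.lf 596937 0 0) (P.cons (P.lf 45172 0 0) (P.cons (P.lf 0 1374 0) P.nil)))))) 130)
 (EL.cons 1 (TM.mk (P.cons (P.lf 658702106 0 0) (P.cons (P.lf 217659159 0 0) (P.cons (P.lf 0 6218872 0) (P.cons (P.lf 0 652477 0) (P.cons (P.lf 17842 0 0) (P.cons (P.lf 1025 0 0) P.nil)))))) 108)
 (EL.cons 5 (TM.mk (P.cons (P.lf 4369384324 0 0) (P.cons (P.lf 51011348 0 0) (P.cons (P.lf 8272484 0 0) (P.cons (P.lf 0 212242 0) (P.cons (P.lf 0 16058 0) (P.cons (P.lf 490 0 0) P.nil)))))) 145)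
 (EL.cons 9 (TM.mk (P.lf 6442450944 0 0) 2)
 EL.nil))))
noncomputable def S270_285_512_660_1 : EL := (EL.cons 0 (TM.mk (P.cons (P.cons (P.lf 0 3068953067 0) (P.cons (P.lf 0 1468393786 0) (P.cons (P.lf 98173390 0 0) (P.lf 32724466 0 0)))) (P.cons (P.cons (P.lf 0 170432486 0) (P.cons (P.lf 164807627 0 0) (P.cons (P.lf 0 11018641 0) (P.lf 0 3672874 0)))) (P.cons (P.cons (P.lf 117421199 0 0) (P.cons (P.lf 22310760 0 0) (P.cons (P.lf 0 1491637 0) (P.lf 0 497211 0)))) (P.cons (P.cons (P.lf 4931241 0 0) (P.cons (P.lf 0 2094244 0) (P.cons (P.lf 140007 0 0) P.nil))) (P.cons (P.cons (P.lf 0 1039052 0) (P.cons (P.lf 0 119626 0) P.nil)) (P.cons (P.cons (P.lf 0 22509 0) P.nil) P.nil)))))) 88439)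
 (EL.cons 1 (TM.mk (P.cons (P.cons (P.lf 473968116 0 0) (P.cons (P.lf 0 310559293 0) (P.cons (P.lf 20763267 0 0) (P.lf 6921086 0 0)))) (P.cons (P.cons (P.lf 0 350633242 0) (P.cons (P.lf 0 86303085 0) (P.cons (P.lf 5770024 0 0) (P.lf 1923340 0 0)))) (P.cons (P.cons (P.lf 0 17181255 0) (P.cons (P.lf 10839632 0 0) (P.cons (P.lf 0 724705 0) (P.lf 0 241564 0)))) (P.cons (P.cons (P.lf 6339192 0 0) (P.cons (P.lf 874121 0 0) (P.cons (P.lf 0 58439 0) P.nil))) (P.cons (P.cons (P.lf 176260 0 0) (P.cons (P.lf 0 92734 0) P.nil)) (P.cons (P.cons (P.lf 0 41478 0) P.nil) P.nil)))))) 53631)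
 (EL.cons 5 (TM.mk (P.cons (P.cons (P.lf 0 1227401813 0) (P.cons (P.lf 0 885184074 0) (P.cons (P.lf 59181346 0 0) (P.lf 19727116 0 0)))) (P.cons (P.cons (P.lf 0 132669627 0) (P.cons (P.lf 0 6655480 0) (P.cons (P.lf 444966 0 0) (P.lf 148318 0 0)))) (P.cons (P.cons (P.lf 0 8737798 0) (P.cons (P.lf 171286 0 0) (P.cons (P.lf 0 11456 0) (P.lf 0 3820 0)))) (P.cons (P.cons (P.lf 295087 0 0) (P.cons (P.lf 423550 0 0) (P.cons (P.lf 0 28312 0) P.nil))) (P.cons (P.cons (P.lf 228534 0 0) (P.cons (P.lf 19784 0 0) P.nil)) (P.cons (P.cons (P.lf 2923 0 0) P.nil) P.nil)))))) 49216)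
 (EL.cons 9 (TM.mk (P.cons (P.cons (P.lf 0 2045810395 0) (P.cons (P.lf 0 1241717328 0) (P.cons (P.lf 83018328 0 0) (P.lf 27672774 0 0)))) (P.cons (P.cons (P.lf 0 170530447 0) (P.cons (P.lf 45831864 0 0) (P.cons (P.lf 0 3064206 0) (P.lf 0 1021398 0)))) (P.cons (P.cons (P.lf 29128195 0 0) (P.cons (P.lf 7150584 0 0) (P.cons (P.lf 0 478068 0) (P.lf 0 159354 0)))) (P.cons (P.cons (P.lf 1807423 0 0) (P.cons (P.lf 0 283290 0) (P.cons (P.lf 18936 0 0) P.nil))) (P.cons (P.cons (P.lf 0 124314 0) (P.cons (P.lf 0 20064 0) P.nil)) (P.cons (P.cons (P.lf 0 4479 0) P.nil) P.nil)))))) 10532)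
 (EL.cons 2 (TM.mk (P.cons (P.cons (P.lf 0 450220868 0) (P.cons (P.lf 69705495 0 0) (P.cons (P.lf 33581908 0 0) (P.cons (P.lf 0 1270836 0) (P.lf 0 317708 0))))) (P.cons (P.cons (P.lf 0 143230140 0) (P.cons (P.lf 22175620 0 0) (P.cons (P.lf 10683514 0 0) (P.cons (P.lf 0 404294 0) (P.lf 0 101072 0))))) (P.cons (P.cons (P.lf 7013311 0 0) (P.cons (P.lf 0 1085835 0) (P.cons (P.lf 0 523119 0) (P.cons (P.lf 19794 0 0) P.nil)))) (P.cons (P.cons (P.lf 690181 0 0) (P.cons (P.lf 0 106855 0) (P.cons (P.lf 0 51480 0) P.nil))) (P.cons (P.cons (P.lf 0 31230 0) (P.cons (P.lf 4834 0 0) P.nil)) (P.cons (P.cons (P.lf 0 1650 0) P.nil) P.nil)))))) 11206)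
 (EL.cons 6 (TM.mk (P.cons (P.cons (P.lf 1416934674 0 0) (P.cons (P.lf 0 219377067 0) (P.cons (P.lf 0 105688953 0) (P.cons (P.lf 3999579 0 0) (P.lf 999894 0 0))))) (P.cons (P.cons (P.lf 0 52299147 0) (P.cons (P.lf 8097219 0 0) (P.cons (P.lf 3900984 0 0) (P.cons (P.lf 0 147624 0) (P.lf 0 36903 0))))) (P.cons (P.cons (P.lf 0 8159598 0) (P.cons (P.lf 1263309 0 0) (P.cons (P.lf 608622 0 0) (P.cons (P.lf 0 23031 0) P.nil)))) (P.cons (P.cons (P.lf 323265 0 0) (P.cons (P.lf 0 50049 0) (P.cons (P.lf 0 24111 0) P.nil))) (P.cons (P.cons (P.lf 22899 0 0) (P.cons (P.lf 0 3543 0) P.nil)) (P.cons (P.cons (P.lf 0 1041 0) P.nil) P.nil)))))) 10290)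
 EL.nil))))))
noncomputable def S270_285_512_660_2 : EL := (EL.cons 0 (TM.mk (P.cons (P.cons (P.lf 1117541082 0 0) (P.cons (P.lf 1106159105 0 0) (P.cons (P.lf 185737442 0 0) (P.cons (P.lf 0 59376640 0) (P.cons (P.lf 0 10414160 0) (P.cons (P.lf 773877 0 0) P.nil)))))) (P.cons (P.cons (P.lf 146547677 0 0) (P.cons (P.lf 0 34223031 0) (P.cons (P.lf 0 54190352 0) (P.cons (P.lf 8314702 0 0) (P.cons (P.lf 2264871 0 0) P.nil))))) (P.cons (P.cons (P.lf 0 70643549 0) (P.cons (P.lf 0 63718711 0) (P.cons (P.lf 0 1673200 0) (P.cons (P.lf 2213384 0 0) P.nil)))) (P.cons (P.cons (P.lf 0 9148570 0) (P.cons (P.lf 746232 0 0) (P.cons (P.lf 1159710 0 0) P.nil))) (P.cons (P.cons (P.lf 1211282 0 0) (P.cons (P.lf 1005307 0 0) P.nil)) (P.cons (P.cons (P.lf 151151 0 0) P.nil) P.nil)))))) 1796642)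
 (EL.cons 1 (TM.mk (P.cons (P.cons (P.lf 0 367441495 0) (P.cons (P.lf 0 66099483 0) (P.cons (P.lf 99663678 0 0) (P.cons (P.lf 0 11262550 0) (P.cons (P.lf 0 3819473 0) (P.cons (P.lf 283820 0 0) P.nil)))))) (P.cons (P.cons (P.lf 164574568 0 0) (P.cons (P.lf 182769342 0 0) (P.cons (P.lf 10350524 0 0) (P.cons (P.lf 0 7091132 0) (P.cons (P.lf 0 905100 0) P.nil))))) (P.cons (P.cons (P.lf 32158108 0 0) (P.cons (P.lf 0 1053174 0) (P.cons (P.lf 0 4948954 0) (P.cons (P.lf 694625 0 0) P.nil)))) (P.cons (P.cons (P.lf 0 5103275 0) (P.cons (P.lf 0 4812618 0) (P.cons (P.lf 42486 0 0) P.nil))) (P.cons (P.cons (P.lf 0 743129 0) (P.cons (P.lf 69423 0 0) P.nil)) (P.cons (P.cons (P.lf 66627 0 0) P.nil) P.nil)))))) 901286)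
 (EL.cons 5 (TM.mk (P.cons (P.cons (P.lf 338922411 0 0) (P.cons (P.lf 500466716 0 0) (P.cons (P.lf 145443722 0 0) (P.cons (P.lf 0 35075525 0) (P.cons (P.lf 0 7174360 0) (P.cons (P.lf 533116 0 0) P.nil)))))) (P.cons (P.cons (P.lf 70639186 0 0) (P.cons (P.lf 53680010 0 0) (P.cons (P.lf 0 3530606 0) (P.cons (P.lf 0 1204096 0) (P.cons (P.lf 0 2332 0) P.nil))))) (P.cons (P.cons (P.lf 9267457 0 0) (P.cons (P.lf 2033384 0 0) (P.cons (P.lf 0 780739 0) (P.cons (P.lf 40908 0 0) P.nil)))) (P.cons (P.cons (P.lf 204219 0 0) (P.cons (P.lf 0 810356 0) (P.cons (P.lf 0 136828 0) P.nil))) (P.cons (P.cons (P.lf 0 300371 0) (P.cons (P.lf 0 169243 0) P.nil)) (P.cons (P.cons (P.lf 0 24533 0) P.nil) P.nil)))))) 1039790)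
 (EL.cons 9 (TM.mk (P.cons (P.cons (P.lf 649650297 0 0) (P.cons (P.lf 788618566 0 0) (P.cons (P.lf 186603268 0 0) (P.cons (P.lf 0 49576953 0) (P.cons (P.lf 0 9597508 0) (P.cons (P.lf 713190 0 0) P.nil)))))) (P.cons (P.cons (P.lf 108304420 0 0) (P.cons (P.lf 36628080 0 0) (P.cons (P.lf 0 20116128 0) (P.cons (P.lf 1546087 0 0) (P.cons (P.lf 708486 0 0) P.nil))))) (P.cons (P.cons (P.lf 0 13985499 0) (P.cons (P.lf 0 18196009 0) (P.cons (P.lf 0 1213815 0) (P.cons (P.lf 730486 0 0) P.nil)))) (P.cons (P.cons (P.lf 0 2689935 0) (P.cons (P.lf 0 480916 0) (P.cons (P.lf 243096 0 0) P.nil))) (P.cons (P.cons (P.lf 114964 0 0) (P.cons (P.lf 166035 0 0) P.nil)) (P.cons (P.cons (P.lf 25768 0 0) P.nil) P.nil)))))) 475666)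
 (EL.cons 2 (TM.mk (P.cons (P.cons (P.lf 285936682 0 0) (P.cons (P.lf 129280865 0 0) (P.cons (P.lf 0 59801253 0) (P.cons (P.lf 0 14209301 0) (P.cons (P.lf 2155961 0 0) (P.cons (P.lf 378208 0 0) P.nil)))))) (P.cons (P.cons (P.lf 114800428 0 0) (P.cons (P.lf 31032551 0 0) (P.cons (P.lf 0 19382518 0) (P.cons (P.lf 0 3898912 0) (P.cons (P.lf 630573 0 0) P.nil))))) (P.cons (P.cons (P.lf 0 942783 0) (P.cons (P.lf 0 5594827 0) (P.cons (P.lf 1342951 0 0) (P.cons (P.lf 494055 0 0) P.nil)))) (P.cons (P.cons (P.lf 0 2357403 0) (P.cons (P.lf 0 79627 0) (P.cons (P.lf 274398 0 0) P.nil))) (P.cons (P.cons (P.lf 0 16273 0) (P.cons (P.lf 55344 0 0) P.nil)) (P.cons (P.cons (P.lf 19029 0 0) P.nil) P.nil)))))) 394840)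
 (EL.cons 6 (TM.mk (P.cons (P.cons (P.lf 0 899899650 0) (P.cons (P.lf 0 406872618 0) (P.cons (P.lf 188206446 0 0) (P.cons (P.lf 44719506 0 0) (P.cons (P.lf 0 6785250 0) (P.cons (P.lf 0 1190304 0) P.nil)))))) (P.cons (P.cons (P.lf 0 41796624 0) (P.cons (P.lf 46791690 0 0) (P.cons (P.lf 0 5820756 0) (P.cons (P.lf 0 3606684 0) (P.cons (P.lf 424506 0 0) P.nil))))) (P.cons (P.cons (P.lf 20763630 0 0) (P.cons (P.lf 2331864 0 0) (P.cons (P.lf 0 2778336 0) (P.cons (P.lf 0 421302 0) P.nil)))) (P.cons (P.cons (P.lf 548772 0 0) (P.cons (P.lf 0 566376 0) (P.cons (P.lf 65784 0 0) P.nil))) (P.cons (P.cons (P.lf 0 189468 0) (P.cons (P.lf 2760 0 0) P.nil)) (P.cons (P.cons (P.lf 0 2154 0) P.nil) P.nil)))))) 388296)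
 EL.nil))))))
noncomputable def S270_285_512_660_3 : EL := (EL.cons 0 (TM.mk (P.cons (P.lf 209297888 0 0) (P.cons (P.lf 143469418 0 0) (P.cons (P.lf 23266362 0 0) (P.cons (P.lf 0 596937 0) (P.cons (P.lf 0 45172 0) (P.cons (P.lf 1374 0 0) P.nil)))))) 130)
 (EL.cons 1 (TM.mk (P.cons (P.lf 0 658702106 0) (P.cons (P.lf 0 217659159 0) (P.cons (P.lf 6218872 0 0) (P.cons (P.lf 652477 0 0) (P.cons (P.lf 0 17842 0) (P.cons (P.lf 0 1025 0) P.nil)))))) 108)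
 (EL.cons 5 (TM.mk (P.cons (P.lf 2073066620 0 0) (P.cons (P.lf 0 51011348 0) (P.cons (P.lf 0 8272484 0) (P.cons (P.lf 212242 0 0) (P.cons (P.lf 16058 0 0) (P.cons (P.lf 0 490 0) P.nil)))))) 138)
 EL.nil)))
noncomputable def S270_285_512_660_4 : EL := (EL.cons 0 (TM.mk (P.cons (P.cons (P.lf 0 66462871 0) (P.cons (P.lf 0 40340053 0) (P.cons (P.lf 2697041 0 0) (P.lf 899013 0 0)))) (P.cons (P.cons (P.lf 0 51099013 0) (P.cons (P.lf 0 26163326 0) (P.cons (P.lf 1749218 0 0) (P.lf 583071 0 0)))) (P.cons (P.cons (P.lf 0 10239581 0) (P.cons (P.lf 0 3231404 0) (P.cons (P.lf 216043 0 0) (P.lf 72014 0 0)))) (P.cons (P.cons (P.lf 281086 0 0) (P.cons (P.lf 430606 0 0) (P.cons (P.lf 0 28787 0) P.nil))) (P.cons (P.cons (P.lf 171550 0 0) (P.cons (P.lf 23322 0 0) P.nil)) (P.cons (P.cons (P.lf 1673 0 0) P.nil) P.nil)))))) 18491)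
 (EL.cons 1 (TM.mk (P.cons (P.cons (P.lf 209171885 0 0) (P.cons (P.lf 126958173 0 0) (P.cons (P.lf 0 8488126 0) (P.lf 0 2829373 0)))) (P.cons (P.cons (P.lf 86553725 0 0) (P.cons (P.lf 37265568 0 0) (P.cons (P.lf 0 2491488 0) (P.lf 0 830495 0)))) (P.cons (P.cons (P.lf 808398 0 0) (P.cons (P.lf 0 3478164 0) (P.cons (P.lf 232539 0 0) (P.lf 77512 0 0)))) (P.cons (P.cons (P.lf 0 1540706 0) (P.cons (P.lf 0 294135 0) (P.cons (P.lf 19665 0 0) P.nil))) (P.cons (P.cons (P.lf 0 31839 0) (P.cons (P.lf 26604 0 0) P.nil)) (P.cons (P.cons (P.lf 10149 0 0) P.nil) P.nil)))))) 15791)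
 (EL.cons 5 (TM.mk (P.cons (P.cons (P.lf 0 658305554 0) (P.cons (P.lf 0 399562644 0) (P.cons (P.lf 26713826 0 0) (P.lf 8904608 0 0)))) (P.cons (P.cons (P.lf 0 38674942 0) (P.cons (P.lf 24579802 0 0) (P.cons (P.lf 0 1643346 0) (P.lf 0 547780 0)))) (P.cons (P.cons (P.lf 13350138 0 0) (P.cons (P.lf 3532472 0 0) (P.cons (P.lf 0 236170 0) (P.lf 0 78722 0)))) (P.cons (P.cons (P.lf 502530 0 0) (P.cons (P.lf 0 247534 0) (P.cons (P.lf 16546 0 0) P.nil))) (P.cons (P.cons (P.lf 0 102432 0) (P.cons (P.lf 0 14978 0) P.nil)) (P.cons (P.cons (P.lf 0 2086 0) P.nil) P.nil)))))) 9956)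
 EL.nil)))
noncomputable def S270_285_512_660_5 : EL := (EL.cons 0 (TM.mk (P.cons (P.cons (P.lf 21105388 0 0) (P.cons (P.lf 25620092 0 0) (P.cons (P.lf 6062236 0 0) (P.cons (P.lf 0 1610620 0) (P.cons (P.lf 0 311795 0) (P.cons (P.lf 23167 0 0) P.nil)))))) (P.cons (P.cons (P.lf 17985830 0 0) (P.cons (P.lf 18751997 0 0) (P.cons (P.lf 3502019 0 0) (P.cons (P.lf 0 1053819 0) (P.cons (P.lf 0 190712 0) P.nil))))) (P.cons (P.cons (P.lf 4303676 0 0) (P.cons (P.lf 3072573 0 0) (P.cons (P.lf 186493 0 0) (P.cons (P.lf 0 120879 0) P.nil)))) (P.cons (P.cons (P.lf 0 67899 0) (P.cons (P.lf 0 361627 0) (P.cons (P.lf 0 109070 0) P.nil))) (P.cons (P.cons (P.lf 0 121264 0) (P.cons (P.lf 0 79952 0) P.nil)) (P.cons (P.cons (P.lf 0 5640 0) P.nil) P.nil)))))) 154145)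
 (EL.cons 1 (TM.mk (P.cons (P.cons (P.lf 0 66422859 0) (P.cons (P.lf 0 80631534 0) (P.cons (P.lf 0 19079068 0) (P.cons (P.lf 5068946 0 0) (P.cons (P.lf 981286 0 0) (P.cons (P.lf 0 72918 0) P.nil)))))) (P.cons (P.cons (P.lf 0 33022010 0) (P.cons (P.lf 0 30388595 0) (P.cons (P.lf 0 4247664 0) (P.cons (P.lf 1516884 0 0) (P.cons (P.lf 251814 0 0) P.nil))))) (P.cons (P.cons (P.lf 0 1602041 0) (P.cons (P.lf 1384196 0 0) (P.cons (P.lf 983857 0 0) (P.cons (P.lf 0 174778 0) P.nil)))) (P.cons (P.cons (P.lf 917870 0 0) (P.cons (P.lf 779150 0 0) (P.cons (P.lf 15633 0 0) P.nil))) (P.cons (P.cons (P.lf 74793 0 0) (P.cons (P.lf 0 16766 0) P.nil)) (P.cons (P.cons (P.lf 0 10933 0) P.nil) P.nil)))))) 184342)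
 (EL.cons 5 (TM.mk (P.cons (P.cons (P.lf 209045958 0 0) (P.cons (P.lf 253763486 0 0) (P.cons (P.lf 60045626 0 0) (P.cons (P.lf 0 15952984 0) (P.cons (P.lf 0 3088308 0) (P.cons (P.lf 229490 0 0) P.nil)))))) (P.cons (P.cons (P.lf 29706510 0 0) (P.cons (P.lf 5541982 0 0) (P.cons (P.lf 0 7950538 0) (P.cons (P.lf 890052 0 0) (P.cons (P.lf 303970 0 0) P.nil))))) (P.cons (P.cons (P.lf 0 6192028 0) (P.cons (P.lf 0 7157806 0) (P.cons (P.lf 0 470912 0) (P.cons (P.lf 286474 0 0) P.nil)))) (P.cons (P.cons (P.lf 0 872502 0) (P.cons (P.lf 0 31724 0) (P.cons (P.lf 119812 0 0) P.nil))) (P.cons (P.cons (P.lf 81436 0 0) (P.cons (P.lf 83770 0 0) P.nil)) (P.cons (P.cons (P.lf 10594 0 0) P.nil) P.nil)))))) 203260)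
 EL.nil)))
noncomputable def S270_285_512_660_6 : EL := (EL.cons 12 (TM.mk (P.lf 8589934592 0 0) 0)
 (EL.cons 3 (TM.mk (P.cons (P.lf 670420608 0 0) (P.cons (P.lf 229779802 0 0) (P.cons (P.lf 0 2114062 0) (P.cons (P.lf 0 231480 0) (P.cons (P.lf 3656 0 0) (P.cons (P.lf 221 0 0) P.nil)))))) 44)
 (EL.cons 7 (TM.mk (P.cons (P.lf 0 2109947077 0) (P.cons (P.lf 25959428 0 0) (P.cons (P.lf 4369521 0 0) (P.cons (P.lf 0 54250 0) (P.cons (P.lf 0 4315 0) (P.cons (P.lf 84 0 0) P.nil)))))) 52)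
 EL.nil)))
noncomputable def S270_285_512_660_7 : EL := (EL.cons 12 (TM.mk (P.cons (P.cons (P.lf 0 2727747194 0) (P.cons (P.lf 0 1655623104 0) (P.cons (P.lf 110691104 0 0) (P.lf 36897032 0 0)))) (P.cons (P.cons (P.lf 0 227373930 0) (P.cons (P.lf 61109152 0 0) (P.cons (P.lf 0 4085608 0) (P.lf 0 1361864 0)))) (P.cons (P.cons (P.lf 38837594 0 0) (P.cons (P.lf 9534112 0 0) (P.cons (P.lf 0 637424 0) (P.lf 0 212472 0)))) (P.cons (P.cons (P.lf 2409898 0 0) (P.cons (P.lf 0 377720 0) (P.cons (P.lf 25248 0 0) P.nil))) (P.cons (P.cons (P.lf 0 165752 0) (P.cons (P.lf 0 26752 0) P.nil)) (P.cons (P.cons (P.lf 0 5972 0) P.nil) P.nil)))))) 14018)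
 (EL.cons 3 (TM.mk (P.cons (P.cons (P.lf 0 1655256250 0) (P.cons (P.lf 258433594 0 0) (P.cons (P.lf 0 17278266 0) (P.lf 0 5759420 0)))) (P.cons (P.cons (P.lf 410976751 0 0) (P.cons (P.lf 79036668 0 0) (P.cons (P.lf 0 5284206 0) (P.lf 0 1761402 0)))) (P.cons (P.cons (P.lf 41985653 0 0) (P.cons (P.lf 0 5572474 0) (P.cons (P.lf 372560 0 0) (P.lf 124184 0 0)))) (P.cons (P.cons (P.lf 0 3668002 0) (P.cons (P.lf 0 510264 0) (P.cons (P.lf 34114 0 0) P.nil))) (P.cons (P.cons (P.lf 0 166140 0) (P.cons (P.lf 33778 0 0) P.nil)) (P.cons (P.cons (P.lf 15612 0 0) P.nil) P.nil)))))) 44834)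
 (EL.cons 7 (TM.mk (P.cons (P.cons (P.lf 507065692 0 0) (P.cons (P.lf 450465881 0 0) (P.cons (P.lf 0 30117101 0) (P.lf 0 10039035 0)))) (P.cons (P.cons (P.lf 46430199 0 0) (P.cons (P.lf 8929186 0 0) (P.cons (P.lf 0 596980 0) (P.lf 0 198992 0)))) (P.cons (P.cons (P.lf 12985698 0 0) (P.cons (P.lf 955569 0 0) (P.cons (P.lf 0 63885 0) (P.lf 0 21295 0)))) (P.cons (P.cons (P.lf 759186 0 0) (P.cons (P.lf 0 196879 0) (P.cons (P.lf 13161 0 0) P.nil))) (P.cons (P.cons (P.lf 0 116618 0) (P.cons (P.lf 0 11661 0) P.nil)) (P.cons (P.cons (P.lf 0 3558 0) P.nil) P.nil)))))) 29676)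
 (EL.cons 10 (TM.mk (P.cons (P.cons (P.lf 0 2884284708 0) (P.cons (P.lf 446559702 0 0) (P.cons (P.lf 215138382 0 0) (P.cons (P.lf 0 8141469 0) (P.lf 0 2035365 0))))) (P.cons (P.cons (P.lf 70972755 0 0) (P.cons (P.lf 0 10988364 0) (P.cons (P.lf 0 5293845 0) (P.cons (P.lf 200334 0 0) (P.lf 50082 0 0))))) (P.cons (P.cons (P.lf 11509614 0 0) (P.cons (P.lf 0 1781976 0) (P.cons (P.lf 0 858498 0) (P.cons (P.lf 32487 0 0) P.nil)))) (P.cons (P.cons (P.lf 0 295293 0) (P.cons (P.lf 45717 0 0) (P.cons (P.lf 22026 0 0) P.nil))) (P.cons (P.cons (P.lf 0 22341 0) (P.cons (P.lf 3459 0 0) P.nil)) (P.cons (P.cons (P.lf 681 0 0) P.nil) P.nil)))))) 11415)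
 EL.nil))))
noncomputable def S270_285_512_660_8 : EL := (EL.cons 12 (TM.mk (P.cons (P.cons (P.lf 866200396 0 0) (P.cons (P.lf 1051491422 0 0) (P.cons (P.lf 248804358 0 0) (P.cons (P.lf 0 66102604 0) (P.cons (P.lf 0 12796678 0) (P.cons (P.lf 950920 0 0) P.nil)))))) (P.cons (P.cons (P.lf 144405894 0 0) (P.cons (P.lf 48837440 0 0) (P.cons (P.lf 0 26821504 0) (P.cons (P.lf 2061450 0 0) (P.cons (P.lf 944648 0 0) P.nil))))) (P.cons (P.cons (P.lf 0 18647332 0) (P.cons (P.lf 0 24261346 0) (P.cons (P.lf 0 1618420 0) (P.cons (P.lf 973982 0 0) P.nil)))) (P.cons (P.cons (P.lf 0 3586580 0) (P.cons (P.lf 0 641222 0) (P.cons (P.lf 324128 0 0) P.nil))) (P.cons (P.cons (P.lf 153286 0 0) (P.cons (P.lf 221380 0 0) P.nil)) (P.cons (P.cons (P.lf 34358 0 0) P.nil) P.nil)))))) 634192)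
 (EL.cons 3 (TM.mk (P.cons (P.cons (P.lf 983653887 0 0) (P.cons (P.lf 391869855 0 0) (P.cons (P.lf 0 150725664 0) (P.cons (P.lf 7917882 0 0) (P.cons (P.lf 4993725 0 0) (P.cons (P.lf 0 371080 0) P.nil)))))) (P.cons (P.cons (P.lf 0 207825231 0) (P.cons (P.lf 0 277791073 0) (P.cons (P.lf 0 14915067 0) (P.cons (P.lf 10668612 0 0) (P.cons (P.lf 1342910 0 0) P.nil))))) (P.cons (P.cons (P.lf 0 65584249 0) (P.cons (P.lf 0 11473853 0) (P.cons (P.lf 5574982 0 0) (P.cons (P.lf 0 387172 0) P.nil)))) (P.cons (P.cons (P.lf 3732001 0 0) (P.cons (P.lf 5287348 0 0) (P.cons (P.lf 0 15836 0) P.nil))) (P.cons (P.cons (P.lf 1056743 0 0) (P.cons (P.lf 63535 0 0) P.nil)) (P.cons (P.cons (P.lf 0 32538 0) P.nil) P.nil)))))) 1197773)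
 (EL.cons 7 (TM.mk (P.cons (P.cons (P.lf 0 109274062 0) (P.cons (P.lf 0 223277860 0) (P.cons (P.lf 0 80335930 0) (P.cons (P.lf 17714173 0 0) (P.cons (P.lf 3820248 0 0) (P.cons (P.lf 0 283878 0) P.nil)))))) (P.cons (P.cons (P.lf 0 23479113 0) (P.cons (P.lf 0 31383512 0) (P.cons (P.lf 0 1685034 0) (P.cons (P.lf 1205281 0 0) (P.cons (P.lf 151712 0 0) P.nil))))) (P.cons (P.cons (P.lf 0 11577440 0) (P.cons (P.lf 0 6867508 0) (P.cons (P.lf 330705 0 0) (P.cons (P.lf 170220 0 0) P.nil)))) (P.cons (P.cons (P.lf 0 1357858 0) (P.cons (P.lf 256141 0 0) (P.cons (P.lf 145445 0 0) P.nil))) (P.cons (P.cons (P.lf 217103 0 0) (P.cons (P.lf 160925 0 0) P.nil)) (P.cons (P.cons (P.lf 29836 0 0) P.nil) P.nil)))))) 514443)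
 (EL.cons 10 (TM.mk (P.cons (P.cons (P.lf 1831818258 0 0) (P.cons (P.lf 828222000 0 0) (P.cons (P.lf 0 383109396 0) (P.cons (P.lf 0 91030158 0) (P.cons (P.lf 13811928 0 0) (P.cons (P.lf 2422968 0 0) P.nil)))))) (P.cons (P.cons (P.lf 107617908 0 0) (P.cons (P.lf 0 85058358 0) (P.cons (P.lf 7135092 0 0) (P.cons (P.lf 6221730 0 0) (P.cons (P.lf 0 694194 0) P.nil))))) (P.cons (P.cons (P.lf 0 37148442 0) (P.cons (P.lf 0 4078032 0) (P.cons (P.lf 4949928 0 0) (P.cons (P.lf 745632 0 0) P.nil)))) (P.cons (P.cons (P.lf 0 1398360 0) (P.cons (P.lf 905292 0 0) (P.cons (P.lf 0 48384 0) P.nil))) (P.cons (P.cons (P.lf 285030 0 0) (P.cons (P.lf 0 2442 0) P.nil)) (P.cons (P.cons (P.lf 5808 0 0) P.nil) P.nil)))))) 665136)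
 EL.nil))))
noncomputable def S270_285_512_660_9 : EL := (EL.cons 3 (TM.mk (P.cons (P.lf 670420608 0 0) (P.cons (P.lf 229779802 0 0) (P.cons (P.lf 0 2114062 0) (P.cons (P.lf 0 231480 0) (P.cons (P.lf 3656 0 0) (P.cons (P.lf 221 0 0) P.nil)))))) 44)
 (EL.cons 7 (TM.mk (P.cons (P.lf 0 2109947077 0) (P.cons (P.lf 25959428 0 0) (P.cons (P.lf 4369521 0 0) (P.cons (P.lf 0 54250 0) (P.cons (P.lf 0 4315 0) (P.cons (P.lf 84 0 0) P.nil)))))) 52)
 EL.nil))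
noncomputable def S270_285_512_660_10 : EL := (EL.cons 3 (TM.mk (P.cons (P.cons (P.lf 0 212893114 0) (P.cons (P.lf 0 129216797 0) (P.cons (P.lf 8639133 0 0) (P.lf 2879710 0 0)))) (P.cons (P.cons (P.lf 0 90712841 0) (P.cons (P.lf 0 39518334 0) (P.cons (P.lf 2642103 0 0) (P.lf 880701 0 0)))) (P.cons (P.cons (P.lf 0 2379736 0) (P.cons (P.lf 2786237 0 0) (P.cons (P.lf 0 186280 0) (P.lf 0 62092 0)))) (P.cons (P.cons (P.lf 1356452 0 0) (P.cons (P.lf 255132 0 0) (P.cons (P.lf 0 17057 0) P.nil))) (P.cons (P.cons (P.lf 46935 0 0) (P.cons (P.lf 0 16889 0) P.nil)) (P.cons (P.cons (P.lf 0 6705 0) P.nil) P.nil)))))) 11128)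
 (EL.cons 7 (TM.mk (P.cons (P.cons (P.lf 670017001 0 0) (P.cons (P.lf 406670981 0 0) (P.cons (P.lf 0 27189074 0) (P.lf 0 9063024 0)))) (P.cons (P.cons (P.lf 47606439 0 0) (P.cons (P.lf 0 20013668 0) (P.cons (P.lf 1338065 0 0) (P.lf 446020 0 0)))) (P.cons (P.cons (P.lf 0 11614374 0) (P.cons (P.lf 0 2999370 0) (P.cons (P.lf 200529 0 0) (P.lf 66842 0 0)))) (P.cons (P.cons (P.lf 0 573006 0) (P.cons (P.lf 163133 0 0) (P.cons (P.lf 0 10905 0) P.nil))) (P.cons (P.cons (P.lf 70558 0 0) (P.cons (P.lf 10725 0 0) P.nil)) (P.cons (P.cons (P.lf 2034 0 0) P.nil) P.nil)))))) 6296)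
 EL.nil))
noncomputable def S270_285_512_660_11 : EL := (EL.cons 3 (TM.mk (P.cons (P.cons (P.lf 67604541 0 0) (P.cons (P.lf 82065993 0 0) (P.cons (P.lf 19418490 0 0) (P.cons (P.lf 0 5159124 0) (P.cons (P.lf 0 998745 0) (P.cons (P.lf 74216 0 0) P.nil)))))) (P.cons (P.cons (P.lf 34441245 0 0) (P.cons (P.lf 31938905 0 0) (P.cons (P.lf 4562145 0 0) (P.cons (P.lf 0 1607346 0) (P.cons (P.lf 0 268582 0) P.nil))))) (P.cons (P.cons (P.lf 2194289 0 0) (P.cons (P.lf 0 845915 0) (P.cons (P.lf 0 905018 0) (P.cons (P.lf 147428 0 0) P.nil)))) (P.cons (P.cons (P.lf 0 837617 0) (P.cons (P.lf 0 739388 0) (P.cons (P.lf 0 18098 0) P.nil))) (P.cons (P.cons (P.lf 0 82909 0) (P.cons (P.lf 5227 0 0) P.nil)) (P.cons (P.cons (P.lf 8250 0 0) P.nil) P.nil)))))) 168109)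
 (EL.cons 7 (TM.mk (P.cons (P.cons (P.lf 0 212764948 0) (P.cons (P.lf 0 258278014 0) (P.cons (P.lf 0 61113856 0) (P.cons (P.lf 16236793 0 0) (P.cons (P.lf 3143250 0 0) (P.cons (P.lf 0 233574 0) P.nil)))))) (P.cons (P.cons (P.lf 0 32852721 0) (P.cons (P.lf 0 8818262 0) (P.cons (P.lf 7340076 0 0) (P.cons (P.lf 0 706121 0) (P.cons (P.lf 0 270706 0) P.nil))))) (P.cons (P.cons (P.lf 5457370 0 0) (P.cons (P.lf 6641780 0 0) (P.cons (P.lf 443037 0 0) (P.cons (P.lf 0 266634 0) P.nil)))) (P.cons (P.cons (P.lf 892604 0 0) (P.cons (P.lf 102385 0 0) (P.cons (P.lf 0 99721 0) P.nil))) (P.cons (P.cons (P.lf 0 59323 0) (P.cons (P.lf 0 69493 0) P.nil)) (P.cons (P.cons (P.lf 0 9746 0) P.nil) P.nil)))))) 180161)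
 EL.nil))
noncomputable def S270_285_512_660_12 : EL := (EL.cons 4 (TM.mk (P.cons (P.lf 0 670420608 0) (P.cons (P.lf 0 229779802 0) (P.cons (P.lf 2114062 0 0) (P.cons (P.lf 231480 0 0) (P.cons (P.lf 0 3656 0) (P.cons (P.lf 0 221 0) P.nil)))))) 44)
 (EL.cons 8 (TM.mk (P.cons (P.lf 2109947077 0 0) (P.cons (P.lf 0 25959428 0) (P.cons (P.lf 0 4369521 0) (P.cons (P.lf 54250 0 0) (P.cons (P.lf 4315 0 0) (P.cons (P.lf 0 84 0) P.nil)))))) 52)
 EL.nil))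
noncomputable def S270_285_512_660_13 : EL := (EL.cons 4 (TM.mk (P.cons (P.cons (P.lf 212893114 0 0) (P.cons (P.lf 129216797 0 0) (P.cons (P.lf 0 8639133 0) (P.lf 0 2879710 0)))) (P.cons (P.cons (P.lf 90712841 0 0) (P.cons (P.lf 39518334 0 0) (P.cons (P.lf 0 2642103 0) (P.lf 0 880701 0)))) (P.cons (P.cons (P.lf 2379736 0 0) (P.cons (P.lf 0 2786237 0) (P.cons (P.lf 186280 0 0) (P.lf 62092 0 0)))) (P.cons (P.cons (P.lf 0 1356452 0) (P.cons (P.lf 0 255132 0) (P.cons (P.lf 17057 0 0) P.nil))) (P.cons (P.cons (P.lf 0 46935 0) (P.cons (P.lf 16889 0 0) P.nil)) (P.cons (P.cons (P.lf 6705 0 0) P.nil) P.nil)))))) 11128)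
 (EL.cons 8 (TM.mk (P.cons (P.cons (P.lf 0 670017001 0) (P.cons (P.lf 0 406670981 0) (P.cons (P.lf 27189074 0 0) (P.lf 9063024 0 0)))) (P.cons (P.cons (P.lf 0 47606439 0) (P.cons (P.lf 20013668 0 0) (P.cons (P.lf 0 1338065 0) (P.lf 0 446020 0)))) (P.cons (P.cons (P.lf 11614374 0 0) (P.cons (P.lf 2999370 0 0) (P.cons (P.lf 0 200529 0) (P.lf 0 66842 0)))) (P.cons (P.cons (P.lf 573006 0 0) (P.cons (P.lf 0 163133 0) (P.cons (P.lf 10905 0 0) P.nil))) (P.cons (P.cons (P.lf 0 70558 0) (P.cons (P.lf 0 10725 0) P.nil)) (P.cons (P.cons (P.lf 0 2034 0) P.nil) P.nil)))))) 6296)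
 EL.nil))
noncomputable def S270_285_512_660_14 : EL := (EL.cons 4 (TM.mk (P.cons (P.cons (P.lf 0 67604541 0) (P.cons (P.lf 0 82065993 0) (P.cons (P.lf 0 19418490 0) (P.cons (P.lf 5159124 0 0) (P.cons (P.lf 998745 0 0) (P.cons (P.lf 0 74216 0) P.nil)))))) (P.cons (P.cons (P.lf 0 34441245 0) (P.cons (P.lf 0 31938905 0) (P.cons (P.lf 0 4562145 0) (P.cons (P.lf 1607346 0 0) (P.cons (P.lf 268582 0 0) P.nil))))) (P.cons (P.cons (P.lf 0 2194289 0) (P.cons (P.lf 845915 0 0) (P.cons (P.lf 905018 0 0) (P.cons (P.lf 0 147428 0) P.nil)))) (P.cons (P.cons (P.lf 837617 0 0) (P.cons (P.lf 739388 0 0) (P.cons (P.lf 18098 0 0) P.nil))) (P.cons (P.cons (P.lf 82909 0 0) (P.cons (P.lf 0 5227 0) P.nil)) (P.cons (P.cons (P.lf 0 8250 0) P.nil) P.nil)))))) 168109)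
 (EL.cons 8 (TM.mk (P.cons (P.cons (P.lf 212764948 0 0) (P.cons (P.lf 258278014 0 0) (P.cons (P.lf 61113856 0 0) (P.cons (P.lf 0 16236793 0) (P.cons (P.lf 0 3143250 0) (P.cons (P.lf 233574 0 0) P.nil)))))) (P.cons (P.cons (P.lf 32852721 0 0) (P.cons (P.lf 8818262 0 0) (P.cons (P.lf 0 7340076 0) (P.cons (P.lf 706121 0 0) (P.cons (P.lf 270706 0 0) P.nil))))) (P.cons (P.cons (P.lf 0 5457370 0) (P.cons (P.lf 0 6641780 0) (P.cons (P.lf 0 443037 0) (P.cons (P.lf 266634 0 0) P.nil)))) (P.cons (P.cons (P.lf 0 892604 0) (P.cons (P.lf 0 102385 0) (P.cons (P.lf 99721 0 0) P.nil))) (P.cons (P.cons (P.lf 59323 0 0) (P.cons (P.lf 69493 0 0) P.nil)) (P.cons (P.cons (P.lf 9746 0 0) P.nil) P.nil)))))) 180161)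
 EL.nil))
noncomputable def S270_285_512_660_15 : EL := (EL.cons 4 (TM.mk (P.cons (P.lf 0 111625540 0) (P.cons (P.lf 0 76517023 0) (P.cons (P.lf 0 12408726 0) (P.cons (P.lf 318366 0 0) (P.cons (P.lf 24091 0 0) (P.cons (P.lf 0 733 0) P.nil)))))) 72)
 (EL.cons 8 (TM.mk (P.cons (P.lf 351307790 0 0) (P.cons (P.lf 116084885 0 0) (P.cons (P.lf 0 3316732 0) (P.cons (P.lf 0 347988 0) (P.cons (P.lf 9516 0 0) (P.cons (P.lf 547 0 0) P.nil)))))) 54)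
 EL.nil))
noncomputable def S270_285_512_660_16 : EL := (EL.cons 4 (TM.mk (P.cons (P.cons (P.lf 35446864 0 0) (P.cons (P.lf 21514695 0 0) (P.cons (P.lf 0 1438422 0) (P.lf 0 479474 0)))) (P.cons (P.cons (P.lf 27252807 0 0) (P.cons (P.lf 13953774 0 0) (P.cons (P.lf 0 932916 0) (P.lf 0 310971 0)))) (P.cons (P.cons (P.lf 5461110 0 0) (P.cons (P.lf 1723415 0 0) (P.cons (P.lf 0 115223 0) (P.lf 0 38407 0)))) (P.cons (P.cons (P.lf 0 149912 0) (P.cons (P.lf 0 229656 0) (P.cons (P.lf 15353 0 0) P.nil))) (P.cons (P.cons (P.lf 0 91493 0) (P.cons (P.lf 0 12438 0) P.nil)) (P.cons (P.cons (P.lf 0 892 0) P.nil) P.nil)))))) 9871)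
 (EL.cons 8 (TM.mk (P.cons (P.cons (P.lf 0 111558339 0) (P.cons (P.lf 0 67711026 0) (P.cons (P.lf 4527001 0 0) (P.lf 1508999 0 0)))) (P.cons (P.cons (P.lf 0 46161987 0) (P.cons (P.lf 0 19874970 0) (P.cons (P.lf 1328794 0 0) (P.lf 442931 0 0)))) (P.cons (P.cons (P.lf 0 431146 0) (P.cons (P.lf 1855021 0 0) (P.cons (P.lf 0 124021 0) (P.lf 0 41340 0)))) (P.cons (P.cons (P.lf 821710 0 0) (P.cons (P.lf 156872 0 0) (P.cons (P.lf 0 10488 0) P.nil))) (P.cons (P.cons (P.lf 16981 0 0) (P.cons (P.lf 0 14189 0) P.nil)) (P.cons (P.cons (P.lf 0 5413 0) P.nil) P.nil)))))) 8412)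
 EL.nil))
noncomputable def S270_285_512_660_17 : EL := (EL.cons 4 (TM.mk (P.cons (P.cons (P.lf 0 11256207 0) (P.cons (P.lf 0 13664049 0) (P.cons (P.lf 0 3233192 0) (P.cons (P.lf 858997 0 0) (P.cons (P.lf 166290 0 0) (P.cons (P.lf 0 12356 0) P.nil)))))) (P.cons (P.cons (P.lf 0 9592442 0) (P.cons (P.lf 0 10001065 0) (P.cons (P.lf 0 1867743 0) (P.cons (P.lf 562036 0 0) (P.cons (P.lf 101713 0 0) P.nil))))) (P.cons (P.cons (P.lf 0 2295294 0) (P.cons (P.lf 0 1638705 0) (P.cons (P.lf 0 99463 0) (P.cons (P.lf 64469 0 0) P.nil)))) (P.cons (P.cons (P.lf 36212 0 0) (P.cons (P.lf 192868 0 0) (P.cons (P.lf 58170 0 0) P.nil))) (P.cons (P.cons (P.lf 64674 0 0) (P.cons (P.lf 42641 0 0) P.nil)) (P.cons (P.cons (P.lf 3008 0 0) P.nil) P.nil)))))) 82221)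
 (EL.cons 8 (TM.mk (P.cons (P.cons (P.lf 35425525 0 0) (P.cons (P.lf 43003485 0 0) (P.cons (P.lf 10175503 0 0) (P.cons (P.lf 0 2703438 0) (P.cons (P.lf 0 523353 0) (P.cons (P.lf 38890 0 0) P.nil)))))) (P.cons (P.cons (P.lf 17611739 0 0) (P.cons (P.lf 16207251 0 0) (P.cons (P.lf 2265421 0 0) (P.cons (P.lf 0 809005 0) (P.cons (P.lf 0 134301 0) P.nil))))) (P.cons (P.cons (P.lf 854422 0 0) (P.cons (P.lf 0 738238 0) (P.cons (P.lf 0 524724 0) (P.cons (P.lf 93215 0 0) P.nil)))) (P.cons (P.cons (P.lf 0 489531 0) (P.cons (P.lf 0 415547 0) (P.cons (P.lf 0 8338 0) P.nil))) (P.cons (P.cons (P.lf 0 39890 0) (P.cons (P.lf 8942 0 0) P.nil)) (P.cons (P.cons (P.lf 5831 0 0) P.nil) P.nil)))))) 98304)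
 EL.nil))
noncomputable def S270_285_512_660_18 : EL := (EL.cons 4 (TM.mk (P.cons (P.lf 0 18585736 0) (P.cons (P.lf 0 19110212 0) (P.cons (P.lf 0 6374008 0) (P.cons (P.lf 0 608521 0) (P.cons (P.lf 32991 0 0) (P.cons (P.lf 1723 0 0) P.nil)))))) 120)
 (EL.cons 8 (TM.mk (P.cons (P.lf 58493013 0 0) (P.cons (P.lf 39376103 0 0) (P.cons (P.lf 5887863 0 0) (P.cons (P.lf 0 328358 0) (P.cons (P.lf 0 22887 0) (P.cons (P.lf 1131 0 0) P.nil)))))) 96)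
 EL.nil))
noncomputable def S270_285_512_660_19 : EL := (EL.cons 4 (TM.mk (P.cons (P.cons (P.lf 5901929 0 0) (P.cons (P.lf 3582212 0 0) (P.cons (P.lf 0 239497 0) (P.lf 0 79831 0)))) (P.cons (P.cons (P.lf 6560438 0 0) (P.cons (P.lf 3551080 0 0) (P.cons (P.lf 0 237416 0) (P.lf 0 79138 0)))) (P.cons (P.cons (P.lf 2445887 0 0) (P.cons (P.lf 1071945 0 0) (P.cons (P.lf 0 71667 0) (P.lf 0 23888 0)))) (P.cons (P.cons (P.lf 270338 0 0) (P.cons (P.lf 51547 0 0) (P.cons (P.lf 0 3446 0) P.nil))) (P.cons (P.cons (P.lf 0 28189 0) (P.cons (P.lf 0 16863 0) P.nil)) (P.cons (P.cons (P.lf 0 5578 0) P.nil) P.nil)))))) 8266)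
 (EL.cons 8 (TM.mk (P.cons (P.cons (P.lf 0 18574547 0) (P.cons (P.lf 0 11273937 0) (P.cons (P.lf 753749 0 0) (P.lf 251249 0 0)))) (P.cons (P.cons (P.lf 0 14052242 0) (P.cons (P.lf 0 7173224 0) (P.cons (P.lf 479584 0 0) (P.lf 159861 0 0)))) (P.cons (P.cons (P.lf 0 2647514 0) (P.cons (P.lf 0 789780 0) (P.cons (P.lf 52802 0 0) (P.lf 17600 0 0)))) (P.cons (P.cons (P.lf 142860 0 0) (P.cons (P.lf 146306 0 0) (P.cons (P.lf 0 9781 0) P.nil))) (P.cons (P.cons (P.lf 52498 0 0) (P.cons (P.lf 6696 0 0) P.nil)) (P.cons (P.cons (P.lf 0 386 0) P.nil) P.nil)))))) 6657)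
 EL.nil))
noncomputable def S270_285_512_660_20 : EL := (EL.cons 4 (TM.mk (P.cons (P.cons (P.lf 0 1874166 0) (P.cons (P.lf 0 2275074 0) (P.cons (P.lf 0 538328 0) (P.cons (P.lf 143023 0 0) (P.cons (P.lf 27687 0 0) (P.cons (P.lf 0 2056 0) P.nil)))))) (P.cons (P.cons (P.lf 0 2239500 0) (P.cons (P.lf 0 2444942 0) (P.cons (P.lf 0 495487 0) (P.cons (P.lf 142599 0 0) (P.cons (P.lf 26424 0 0) P.nil))))) (P.cons (P.cons (P.lf 0 923664 0) (P.cons (P.lf 0 836396 0) (P.cons (P.lf 0 121448 0) (P.cons (P.lf 42356 0 0) P.nil)))) (P.cons (P.cons (P.lf 0 119270 0) (P.cons (P.lf 0 55365 0) (P.cons (P.lf 5175 0 0) P.nil))) (P.cons (P.cons (P.lf 14580 0 0) (P.cons (P.lf 19528 0 0) P.nil)) (P.cons (P.cons (P.lf 4294 0 0) P.nil) P.nil)))))) 38539)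
 (EL.cons 8 (TM.mk (P.cons (P.cons (P.lf 5898376 0 0) (P.cons (P.lf 7160112 0 0) (P.cons (P.lf 1694228 0 0) (P.cons (P.lf 0 450124 0) (P.cons (P.lf 0 87138 0) (P.cons (P.lf 6474 0 0) P.nil)))))) (P.cons (P.cons (P.lf 4953975 0 0) (P.cons (P.lf 5152575 0 0) (P.cons (P.lf 957873 0 0) (P.cons (P.lf 0 288975 0) (P.cons (P.lf 0 52226 0) P.nil))))) (P.cons (P.cons (P.lf 1128701 0 0) (P.cons (P.lf 779394 0 0) (P.cons (P.lf 36569 0 0) (P.cons (P.lf 0 29226 0) P.nil)))) (P.cons (P.cons (P.lf 0 44031 0) (P.cons (P.lf 0 122298 0) (P.cons (P.lf 0 33106 0) P.nil))) (P.cons (P.cons (P.lf 0 36006 0) (P.cons (P.lf 0 22729 0) P.nil)) (P.cons (P.cons (P.lf 0 1079 0) P.nil) P.nil)))))) 47122)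
 EL.nil))
noncomputable def S270_285_512_660_21 : EL := (EL.cons 4 (TM.mk (P.cons (P.cons (P.lf 1442363136 0 0) (P.cons (P.lf 0 387650391 0) (P.cons (P.lf 25917399 0 0) (P.lf 8639130 0 0)))) (P.cons (P.cons (P.lf 0 501689592 0) (P.cons (P.lf 0 118555002 0) (P.cons (P.lf 7926309 0 0) (P.lf 2642103 0 0)))) (P.cons (P.cons (P.lf 0 44365389 0) (P.cons (P.lf 8358711 0 0) (P.cons (P.lf 0 558840 0) (P.lf 0 186276 0)))) (P.cons (P.cons (P.lf 5024454 0 0) (P.cons (P.lf 765396 0 0) (P.cons (P.lf 0 51171 0) P.nil))) (P.cons (P.cons (P.lf 213075 0 0) (P.cons (P.lf 0 50667 0) P.nil)) (P.cons (P.cons (P.lf 0 22317 0) P.nil) P.nil)))))) 33687)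
 (EL.cons 8 (TM.mk (P.cons (P.cons (P.lf 162951309 0 0) (P.cons (P.lf 0 43794900 0) (P.cons (P.lf 2928027 0 0) (P.lf 976011 0 0)))) (P.cons (P.cons (P.lf 1176240 0 0) (P.cons (P.lf 0 28942854 0) (P.cons (P.lf 1935045 0 0) (P.lf 645012 0 0)))) (P.cons (P.cons (P.lf 0 24600072 0) (P.cons (P.lf 0 3954939 0) (P.cons (P.lf 264414 0 0) (P.lf 88137 0 0)))) (P.cons (P.cons (P.lf 0 1332192 0) (P.cons (P.lf 360012 0 0) (P.cons (P.lf 0 24066 0) P.nil))) (P.cons (P.cons (P.lf 187176 0 0) (P.cons (P.lf 22386 0 0) P.nil)) (P.cons (P.cons (P.lf 5592 0 0) P.nil) P.nil)))))) 23361)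
 (EL.cons 11 (TM.mk (P.cons (P.cons (P.lf 2884284708 0 0) (P.cons (P.lf 0 446559702 0) (P.cons (P.lf 0 215138382 0) (P.cons (P.lf 8141469 0 0) (P.lf 2035365 0 0))))) (P.cons (P.cons (P.lf 0 70972755 0) (P.cons (P.lf 10988364 0 0) (P.cons (P.lf 5293845 0 0) (P.cons (P.lf 0 200334 0) (P.lf 0 50082 0))))) (P.cons (P.cons (P.lf 0 11509614 0) (P.cons (P.lf 1781976 0 0) (P.cons (P.lf 858498 0 0) (P.cons (P.lf 0 32487 0) P.nil)))) (P.cons (P.cons (P.lf 295293 0 0) (P.cons (P.lf 0 45717 0) (P.cons (P.lf 0 22026 0) P.nil))) (P.cons (P.cons (P.lf 22341 0 0) (P.cons (P.lf 0 3459 0) P.nil)) (P.cons (P.cons (P.lf 0 681 0) P.nil) P.nil)))))) 11415)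
 EL.nil)))
noncomputable def S270_285_512_660_22 : EL := (EL.cons 4 (TM.mk (P.cons (P.cons (P.lf 0 458024673 0) (P.cons (P.lf 0 154901931 0) (P.cons (P.lf 85072077 0 0) (P.cons (P.lf 0 6538503 0) (P.cons (P.lf 0 2996235 0) (P.cons (P.lf 222648 0 0) P.nil)))))) (P.cons (P.cons (P.lf 121133238 0 0) (P.cons (P.lf 154864989 0 0) (P.cons (P.lf 9738606 0 0) (P.cons (P.lf 0 6137979 0) (P.cons (P.lf 0 805746 0) P.nil))))) (P.cons (P.cons (P.lf 33889269 0 0) (P.cons (P.lf 5313969 0 0) (P.cons (P.lf 0 3240000 0) (P.cons (P.lf 267300 0 0) P.nil)))) (P.cons (P.cons (P.lf 0 2284809 0) (P.cons (P.lf 0 3013368 0) (P.cons (P.lf 0 1131 0) P.nil))) (P.cons (P.cons (P.lf 0 569826 0) (P.cons (P.lf 0 29154 0) P.nil)) (P.cons (P.cons (P.lf 20394 0 0) P.nil) P.nil)))))) 514821)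
 (EL.cons 8 (TM.mk (P.cons (P.cons (P.lf 0 51745443 0) (P.cons (P.lf 0 17500077 0) (P.cons (P.lf 9611037 0 0) (P.cons (P.lf 0 738690 0) (P.cons (P.lf 0 338499 0) (P.cons (P.lf 25152 0 0) P.nil)))))) (P.cons (P.cons (P.lf 0 4686804 0) (P.cons (P.lf 11282625 0 0) (P.cons (P.lf 4512555 0 0) (P.cons (P.lf 0 955701 0) (P.cons (P.lf 0 211209 0) P.nil))))) (P.cons (P.cons (P.lf 8517405 0 0) (P.cons (P.lf 6754644 0 0) (P.cons (P.lf 56166 0 0) (P.cons (P.lf 0 218427 0) P.nil)))) (P.cons (P.cons (P.lf 1125231 0 0) (P.cons (P.lf 0 76878 0) (P.cons (P.lf 0 122583 0) P.nil))) (P.cons (P.cons (P.lf 0 138213 0) (P.cons (P.lf 0 115209 0) P.nil)) (P.cons (P.cons (P.lf 0 19791 0) P.nil) P.nil)))))) 167130)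
 (EL.cons 11 (TM.mk (P.cons (P.cons (P.lf 0 915909129 0) (P.cons (P.lf 0 414111000 0) (P.cons (P.lf 191554698 0 0) (P.cons (P.lf 45515079 0 0) (P.cons (P.lf 0 6905964 0) (P.cons (P.lf 0 1211484 0) P.nil)))))) (P.cons (P.cons (P.lf 0 53808954 0) (P.cons (P.lf 42529179 0 0) (P.cons (P.lf 0 3567546 0) (P.cons (P.lf 0 3110865 0) (P.cons (P.lf 347097 0 0) P.nil))))) (P.cons (P.cons (P.lf 18574221 0 0) (P.cons (P.lf 2039016 0 0) (P.cons (P.lf 0 2474964 0) (P.cons (P.lf 0 372816 0) P.nil)))) (P.cons (P.cons (P.lf 699180 0 0) (P.cons (P.lf 0 452646 0) (P.cons (P.lf 24192 0 0) P.nil))) (P.cons (P.cons (P.lf 0 142515 0) (P.cons (P.lf 1221 0 0) P.nil)) (P.cons (P.cons (P.lf 0 2904 0) P.nil) P.nil)))))) 332568)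
 EL.nil)))
noncomputable def S270_285_512_660_23 : EL := (EL.cons 4 (TM.mk (P.cons (P.cons (P.lf 240154557 0 0) (P.cons (P.lf 0 64544082 0) (P.cons (P.lf 4315266 0 0) (P.lf 1438419 0 0)))) (P.cons (P.cons (P.lf 0 1221180 0) (P.cons (P.lf 0 41861322 0) (P.cons (P.lf 2798748 0 0) (P.lf 932916 0 0)))) (P.cons (P.cons (P.lf 0 36773793 0) (P.cons (P.lf 0 5170248 0) (P.cons (P.lf 345669 0 0) (P.lf 115224 0 0)))) (P.cons (P.cons (P.lf 0 1514712 0) (P.cons (P.lf 688971 0 0) (P.cons (P.lf 0 46062 0) P.nil))) (P.cons (P.cons (P.lf 375648 0 0) (P.cons (P.lf 37317 0 0) P.nil)) (P.cons (P.cons (P.lf 7977 0 0) P.nil) P.nil)))))) 29946)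
 (EL.cons 8 (TM.mk (P.cons (P.cons (P.lf 27131514 0 0) (P.cons (P.lf 0 7291884 0) (P.cons (P.lf 487518 0 0) (P.lf 162504 0 0)))) (P.cons (P.cons (P.lf 9494892 0 0) (P.cons (P.lf 0 7318224 0) (P.cons (P.lf 489276 0 0) (P.lf 163092 0 0)))) (P.cons (P.cons (P.lf 0 4114359 0) (P.cons (P.lf 0 2287170 0) (P.cons (P.lf 152913 0 0) (P.lf 50970 0 0)))) (P.cons (P.cons (P.lf 0 1635633 0) (P.cons (P.lf 0 148038 0) (P.cons (P.lf 9897 0 0) P.nil))) (P.cons (P.cons (P.lf 0 31860 0) (P.cons (P.lf 27972 0 0) P.nil)) (P.cons (P.cons (P.lf 13734 0 0) P.nil) P.nil)))))) 14763)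
 (EL.cons 11 (TM.mk (P.cons (P.cons (P.lf 480235593 0 0) (P.cons (P.lf 0 74352528 0) (P.cons (P.lf 0 35820702 0) (P.cons (P.lf 1355559 0 0) (P.lf 338889 0 0))))) (P.cons (P.cons (P.lf 152778816 0 0) (P.cons (P.lf 0 23653995 0) (P.cons (P.lf 0 11395749 0) (P.cons (P.lf 431247 0 0) (P.lf 107811 0 0))))) (P.cons (P.cons (P.lf 0 7480866 0) (P.cons (P.lf 1158225 0 0) (P.cons (P.lf 557994 0 0) (P.cons (P.lf 0 21114 0) P.nil)))) (P.cons (P.cons (P.lf 0 736194 0) (P.cons (P.lf 113979 0 0) (P.cons (P.lf 54912 0 0) P.nil))) (P.cons (P.cons (P.lf 33312 0 0) (P.cons (P.lf 0 5157 0) P.nil)) (P.cons (P.cons (P.lf 1761 0 0) P.nil) P.nil)))))) 11931)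
 EL.nil)))
noncomputable def S270_285_512_660_24 : EL := (EL.cons 4 (TM.mk (P.cons (P.cons (P.lf 0 76261455 0) (P.cons (P.lf 0 25791288 0) (P.cons (P.lf 14164563 0 0) (P.cons (P.lf 0 1088664 0) (P.cons (P.lf 0 498873 0) (P.cons (P.lf 37071 0 0) P.nil)))))) (P.cons (P.cons (P.lf 0 5969055 0) (P.cons (P.lf 16945437 0 0) (P.cons (P.lf 6476244 0 0) (P.cons (P.lf 0 1395105 0) (P.cons (P.lf 0 305139 0) P.nil))))) (P.cons (P.cons (P.lf 12795708 0 0) (P.cons (P.lf 9803700 0 0) (P.cons (P.lf 0 28380 0) (P.cons (P.lf 0 302331 0) P.nil)))) (P.cons (P.cons (P.lf 1516248 0 0) (P.cons (P.lf 0 270882 0) (P.cons (P.lf 0 195087 0) P.nil))) (P.cons (P.cons (P.lf 0 250434 0) (P.cons (P.lf 0 188649 0) P.nil)) (P.cons (P.cons (P.lf 0 29784 0) P.nil) P.nil)))))) 271524)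
 (EL.cons 8 (TM.mk (P.cons (P.cons (P.lf 0 8615655 0) (P.cons (P.lf 0 2913774 0) (P.cons (P.lf 1600245 0 0) (P.cons (P.lf 0 122991 0) (P.cons (P.lf 0 56358 0) (P.cons (P.lf 4188 0 0) P.nil)))))) (P.cons (P.cons (P.lf 0 3733284 0) (P.cons (P.lf 879897 0 0) (P.cons (P.lf 1299810 0 0) (P.cons (P.lf 0 201279 0) (P.cons (P.lf 0 54483 0) P.nil))))) (P.cons (P.cons (P.lf 1177863 0 0) (P.cons (P.lf 1777698 0 0) (P.cons (P.lf 261819 0 0) (P.cons (P.lf 0 90519 0) P.nil)))) (P.cons (P.cons (P.lf 678843 0 0) (P.cons (P.lf 367743 0 0) (P.cons (P.lf 0 20124 0) P.nil))) (P.cons (P.cons (P.lf 36948 0 0) (P.cons (P.lf 0 27780 0) P.nil)) (P.cons (P.cons (P.lf 0 12270 0) P.nil) P.nil)))))) 80268)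
 (EL.cons 11 (TM.mk (P.cons (P.cons (P.lf 0 152499564 0) (P.cons (P.lf 0 68949795 0) (P.cons (P.lf 31894002 0 0) (P.cons (P.lf 7578294 0 0) (P.cons (P.lf 0 1149846 0) (P.cons (P.lf 0 201711 0) P.nil)))))) (P.cons (P.cons (P.lf 0 61226895 0) (P.cons (P.lf 0 16550694 0) (P.cons (P.lf 10337343 0 0) (P.cons (P.lf 2079420 0 0) (P.cons (P.lf 0 336306 0) P.nil))))) (P.cons (P.cons (P.lf 502818 0 0) (P.cons (P.lf 2983908 0 0) (P.cons (P.lf 0 716241 0) (P.cons (P.lf 0 263496 0) P.nil)))) (P.cons (P.cons (P.lf 1257282 0 0) (P.cons (P.lf 42468 0 0) (P.cons (P.lf 0 146346 0) P.nil))) (P.cons (P.cons (P.lf 8679 0 0) (P.cons (P.lf 0 29517 0) P.nil)) (P.cons (P.cons (P.lf 0 10149 0) P.nil) P.nil)))))) 210570)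
 EL.nil)))
noncomputable def S270_285_512_660_25 : EL := (EL.cons 4 (TM.mk (P.cons (P.cons (P.lf 39985914 0 0) (P.cons (P.lf 0 10746639 0) (P.cons (P.lf 718494 0 0) (P.lf 239496 0 0)))) (P.cons (P.cons (P.lf 13501434 0 0) (P.cons (P.lf 0 10653240 0) (P.cons (P.lf 712248 0 0) (P.lf 237414 0 0)))) (P.cons (P.cons (P.lf 0 6318642 0) (P.cons (P.lf 0 3215838 0) (P.cons (P.lf 215001 0 0) (P.lf 71667 0 0)))) (P.cons (P.cons (P.lf 0 2363913 0) (P.cons (P.lf 0 154644 0) (P.cons (P.lf 10338 0 0) P.nil))) (P.cons (P.cons (P.lf 0 4296 0) (P.cons (P.lf 50592 0 0) P.nil)) (P.cons (P.cons (P.lf 25686 0 0) P.nil) P.nil)))))) 25776)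
 (EL.cons 8 (TM.mk (P.cons (P.cons (P.lf 4517418 0 0) (P.cons (P.lf 0 1214103 0) (P.cons (P.lf 81171 0 0) (P.lf 27057 0 0)))) (P.cons (P.cons (P.lf 3129204 0 0) (P.cons (P.lf 0 1634610 0) (P.cons (P.lf 109284 0 0) (P.lf 36426 0 0)))) (P.cons (P.cons (P.lf 0 157449 0) (P.cons (P.lf 0 794610 0) (P.cons (P.lf 53124 0 0) (P.lf 17706 0 0)))) (P.cons (P.cons (P.lf 0 513669 0) (P.cons (P.lf 0 150906 0) (P.cons (P.lf 10089 0 0) P.nil))) (P.cons (P.cons (P.lf 0 97005 0) (P.cons (P.lf 0 2175 0) P.nil)) (P.cons (P.cons (P.lf 1572 0 0) P.nil) P.nil)))))) 10002)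
 (EL.cons 11 (TM.mk (P.cons (P.cons (P.lf 79959588 0 0) (P.cons (P.lf 0 12379752 0) (P.cons (P.lf 0 5964174 0) (P.cons (P.lf 225699 0 0) (P.lf 56424 0 0))))) (P.cons (P.cons (P.lf 52843119 0 0) (P.cons (P.lf 0 8181441 0) (P.cons (P.lf 0 3941559 0) (P.cons (P.lf 149160 0 0) (P.lf 37290 0 0))))) (P.cons (P.cons (P.lf 7220829 0 0) (P.cons (P.lf 0 1117965 0) (P.cons (P.lf 0 538599 0) (P.cons (P.lf 20382 0 0) P.nil)))) (P.cons (P.cons (P.lf 0 657303 0) (P.cons (P.lf 101766 0 0) (P.cons (P.lf 49026 0 0) P.nil))) (P.cons (P.cons (P.lf 0 40884 0) (P.cons (P.lf 6327 0 0) P.nil)) (P.cons (P.cons (P.lf 3174 0 0) P.nil) P.nil)))))) 15999)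
 EL.nil)))
noncomputable def S270_285_512_660_26 : EL := (EL.cons 4 (TM.mk (P.cons (P.cons (P.lf 0 12697590 0) (P.cons (P.lf 0 4294269 0) (P.cons (P.lf 2358408 0 0) (P.cons (P.lf 0 181263 0) (P.cons (P.lf 0 83061 0) (P.cons (P.lf 6171 0 0) P.nil)))))) (P.cons (P.cons (P.lf 0 5345820 0) (P.cons (P.lf 1349610 0 0) (P.cons (P.lf 1886619 0 0) (P.cons (P.lf 0 294411 0) (P.cons (P.lf 0 79275 0) P.nil))))) (P.cons (P.cons (P.lf 1829901 0 0) (P.cons (P.lf 2612880 0 0) (P.cons (P.lf 357411 0 0) (P.cons (P.lf 0 129381 0) P.nil)))) (P.cons (P.cons (P.lf 990177 0 0) (P.cons (P.lf 506943 0 0) (P.cons (P.lf 0 38313 0) P.nil))) (P.cons (P.cons (P.lf 38382 0 0) (P.cons (P.lf 0 53013 0) P.nil)) (P.cons (P.cons (P.lf 0 20790 0) P.nil) P.nil)))))) 122325)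
 (EL.cons 8 (TM.mk (P.cons (P.cons (P.lf 0 1434513 0) (P.cons (P.lf 0 485145 0) (P.cons (P.lf 266442 0 0) (P.cons (P.lf 0 20478 0) (P.cons (P.lf 0 9384 0) (P.cons (P.lf 696 0 0) P.nil)))))) (P.cons (P.cons (P.lf 0 1113258 0) (P.cons (P.lf 0 19773 0) (P.cons (P.lf 307737 0 0) (P.cons (P.lf 0 40530 0) (P.cons (P.lf 0 12285 0) P.nil))))) (P.cons (P.cons (P.lf 0 12405 0) (P.cons (P.lf 347730 0 0) (P.cons (P.lf 116928 0 0) (P.cons (P.lf 0 26493 0) P.nil)))) (P.cons (P.cons (P.lf 182700 0 0) (P.cons (P.lf 162381 0 0) (P.cons (P.lf 10815 0 0) P.nil))) (P.cons (P.cons (P.lf 44478 0 0) (P.cons (P.lf 15372 0 0) P.nil)) (P.cons (P.cons (P.lf 0 360 0) P.nil) P.nil)))))) 33483)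
 (EL.cons 11 (TM.mk (P.cons (P.cons (P.lf 0 25391292 0) (P.cons (P.lf 0 11480193 0) (P.cons (P.lf 5310375 0 0) (P.cons (P.lf 1261791 0 0) (P.cons (P.lf 0 191448 0) (P.cons (P.lf 0 33585 0) P.nil)))))) (P.cons (P.cons (P.lf 0 18896928 0) (P.cons (P.lf 0 6690420 0) (P.cons (P.lf 3541251 0 0) (P.cons (P.lf 778689 0 0) (P.cons (P.lf 0 121611 0) P.nil))))) (P.cons (P.cons (P.lf 0 3330213 0) (P.cons (P.lf 0 411462 0) (P.cons (P.lf 453912 0 0) (P.cons (P.lf 70812 0 0) P.nil)))) (P.cons (P.cons (P.lf 278943 0 0) (P.cons (P.lf 190005 0 0) (P.cons (P.lf 0 72498 0) P.nil))) (P.cons (P.cons (P.lf 76311 0 0) (P.cons (P.lf 0 3168 0) P.nil)) (P.cons (P.cons (P.lf 0 1947 0) P.nil) P.nil)))))) 103398)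
 EL.nil)))
noncomputable def S270_285_512_660_27 : EL := (EL.cons 13 (TM.mk (P.lf 0 4294967296 0) 0)
 EL.nil)
noncomputable def S270_285_512_660_28 : EL := (EL.cons 13 (TM.mk (P.cons (P.cons (P.lf 1363873597 0 0) (P.cons (P.lf 827811552 0 0) (P.cons (P.lf 0 55345552 0) (P.lf 0 18448516 0)))) (P.cons (P.cons (P.lf 113686965 0 0) (P.cons (P.lf 0 30554576 0) (P.cons (P.lf 2042804 0 0) (P.lf 680932 0 0)))) (P.cons (P.cons (P.lf 0 19418797 0) (P.cons (P.lf 0 4767056 0) (P.cons (P.lf 318712 0 0) (P.lf 106236 0 0)))) (P.cons (P.cons (P.lf 0 1204949 0) (P.cons (P.lf 188860 0 0) (P.cons (P.lf 0 12624 0) P.nil))) (P.cons (P.cons (P.lf 82876 0 0) (P.cons (P.lf 13376 0 0) P.nil)) (P.cons (P.cons (P.lf 2986 0 0) P.nil) P.nil)))))) 7009)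
 EL.nil)
noncomputable def S270_285_512_660_29 : EL := (EL.cons 13 (TM.mk (P.cons (P.cons (P.lf 0 433100198 0) (P.cons (P.lf 0 525745711 0) (P.cons (P.lf 0 124402179 0) (P.cons (P.lf 33051302 0 0) (P.cons (P.lf 6398339 0 0) (P.cons (P.lf 0 475460 0) P.nil)))))) (P.cons (P.cons (P.lf 0 72202947 0) (P.cons (P.lf 0 24418720 0) (P.cons (P.lf 13410752 0 0) (P.cons (P.lf 0 1030725 0) (P.cons (P.lf 0 472324 0) P.nil))))) (P.cons (P.cons (P.lf 9323666 0 0) (P.cons (P.lf 12130673 0 0) (P.cons (P.lf 809210 0 0) (P.cons (P.lf 0 486991 0) P.nil)))) (P.cons (P.cons (P.lf 1793290 0 0) (P.cons (P.lf 320611 0 0) (P.cons (P.lf 0 162064 0) P.nil))) (P.cons (P.cons (P.lf 0 76643 0) (P.cons (P.lf 0 110690 0) P.nil)) (P.cons (P.cons (P.lf 0 17179 0) P.nil) P.nil)))))) 317096)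
 EL.nil)
noncomputable def S270_285_512_660_30 : EL := (EL.cons 13 (TM.mk (P.cons (P.lf 0 715115316 0) (P.cons (P.lf 0 245098456 0) (P.cons (P.lf 2255000 0 0) (P.cons (P.lf 246912 0 0) (P.cons (P.lf 0 3900 0) (P.cons (P.lf 0 236 0) P.nil)))))) 40)
 EL.nil)
noncomputable def S270_285_512_660_31 : EL := (EL.cons 13 (TM.mk (P.cons (P.cons (P.lf 227085989 0 0) (P.cons (P.lf 137831251 0 0) (P.cons (P.lf 0 9215076 0) (P.lf 0 3071691 0)))) (P.cons (P.cons (P.lf 96760364 0 0) (P.cons (P.lf 42152890 0 0) (P.cons (P.lf 0 2818244 0) (P.lf 0 939415 0)))) (P.cons (P.cons (P.lf 2538386 0 0) (P.cons (P.lf 0 2971987 0) (P.cons (P.lf 198699 0 0) (P.lf 66232 0 0)))) (P.cons (P.cons (P.lf 0 1446883 0) (P.cons (P.lf 0 272141 0) (P.cons (P.lf 18195 0 0) P.nil))) (P.cons (P.cons (P.lf 0 50064 0) (P.cons (P.lf 18015 0 0) P.nil)) (P.cons (P.cons (P.lf 7153 0 0) P.nil) P.nil)))))) 11850)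
 EL.nil)
noncomputable def S270_285_512_660_32 : EL := (EL.cons 13 (TM.mk (P.cons (P.cons (P.lf 0 72111511 0) (P.cons (P.lf 0 87537060 0) (P.cons (P.lf 0 20713057 0) (P.cons (P.lf 5503066 0 0) (P.cons (P.lf 1065328 0 0) (P.cons (P.lf 0 79164 0) P.nil)))))) (P.cons (P.cons (P.lf 0 36737328 0) (P.cons (P.lf 0 34068166 0) (P.cons (P.lf 0 4866288 0) (P.cons (P.lf 1714503 0 0) (P.cons (P.lf 286488 0 0) P.nil))))) (P.cons (P.cons (P.lf 0 2340575 0) (P.cons (P.lf 902310 0 0) (P.cons (P.lf 965353 0 0) (P.cons (P.lf 0 157257 0) P.nil)))) (P.cons (P.cons (P.lf 893459 0 0) (P.cons (P.lf 788681 0 0) (P.cons (P.lf 19305 0 0) P.nil))) (P.cons (P.cons (P.lf 88437 0 0) (P.cons (P.lf 0 5576 0) P.nil)) (P.cons (P.cons (P.lf 0 8800 0) P.nil) P.nil)))))) 179293)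
 EL.nil)
noncomputable def S270_285_512_660_33 : EL := (EL.cons 14 (TM.mk (P.lf 8589934592 0 0) 0)
 EL.nil)
noncomputable def S270_285_512_660_34 : EL := (EL.cons 14 (TM.mk (P.cons (P.cons (P.lf 0 2727747194 0) (P.cons (P.lf 0 1655623104 0) (P.cons (P.lf 110691104 0 0) (P.lf 36897032 0 0)))) (P.cons (P.cons (P.lf 0 227373930 0) (P.cons (P.lf 61109152 0 0) (P.cons (P.lf 0 4085608 0) (P.lf 0 1361864 0)))) (P.cons (P.cons (P.lf 38837594 0 0) (P.cons (P.lf 9534112 0 0) (P.cons (P.lf 0 637424 0) (P.lf 0 212472 0)))) (P.cons (P.cons (P.lf 2409898 0 0) (P.cons (P.lf 0 377720 0) (P.cons (P.lf 25248 0 0) P.nil))) (P.cons (P.cons (P.lf 0 165752 0) (P.cons (P.lf 0 26752 0) P.nil)) (P.cons (P.cons (P.lf 0 5972 0) P.nil) P.nil)))))) 14018)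
 EL.nil)
noncomputable def S270_285_512_660_35 : EL := (EL.cons 14 (TM.mk (P.cons (P.cons (P.lf 866200396 0 0) (P.cons (P.lf 1051491422 0 0) (P.cons (P.lf 248804358 0 0) (P.cons (P.lf 0 66102604 0) (P.cons (P.lf 0 12796678 0) (P.cons (P.lf 950920 0 0) P.nil)))))) (P.cons (P.cons (P.lf 144405894 0 0) (P.cons (P.lf 48837440 0 0) (P.cons (P.lf 0 26821504 0) (P.cons (P.lf 2061450 0 0) (P.cons (P.lf 944648 0 0) P.nil))))) (P.cons (P.cons (P.lf 0 18647332 0) (P.cons (P.lf 0 24261346 0) (P.cons (P.lf 0 1618420 0) (P.cons (P.lf 973982 0 0) P.nil)))) (P.cons (P.cons (P.lf 0 3586580 0) (P.cons (P.lf 0 641222 0) (P.cons (P.lf 324128 0 0) P.nil))) (P.cons (P.cons (P.lf 153286 0 0) (P.cons (P.lf 221380 0 0) P.nil)) (P.cons (P.cons (P.lf 34358 0 0) P.nil) P.nil)))))) 634192)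
 EL.nil)
noncomputable def S270_285_512_660_36 : EL := (EL.cons 14 (TM.mk (P.cons (P.lf 1430230632 0 0) (P.cons (P.lf 490196912 0 0) (P.cons (P.lf 0 4510000 0) (P.cons (P.lf 0 493824 0) (P.cons (P.lf 7800 0 0) (P.cons (P.lf 472 0 0) P.nil)))))) 80)
 EL.nil)
noncomputable def S270_285_512_660_37 : EL := (EL.cons 14 (TM.mk (P.cons (P.cons (P.lf 0 454171978 0) (P.cons (P.lf 0 275662502 0) (P.cons (P.lf 18430152 0 0) (P.lf 6143382 0 0)))) (P.cons (P.cons (P.lf 0 193520728 0) (P.cons (P.lf 0 84305780 0) (P.cons (P.lf 5636488 0 0) (P.lf 1878830 0 0)))) (P.cons (P.cons (P.lf 0 5076772 0) (P.cons (P.lf 5943974 0 0) (P.cons (P.lf 0 397398 0) (P.lf 0 132464 0)))) (P.cons (P.cons (P.lf 2893766 0 0) (P.cons (P.lf 544282 0 0) (P.cons (P.lf 0 36390 0) P.nil))) (P.cons (P.cons (P.lf 100128 0 0) (P.cons (P.lf 0 36030 0) P.nil)) (P.cons (P.cons (P.lf 0 14306 0) P.nil) P.nil)))))) 23700)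
 EL.nil)
noncomputable def S270_285_512_660_38 : EL := (EL.cons 14 (TM.mk (P.cons (P.cons (P.lf 144223022 0 0) (P.cons (P.lf 175074120 0 0) (P.cons (P.lf 41426114 0 0) (P.cons (P.lf 0 11006132 0) (P.cons (P.lf 0 2130656 0) (P.cons (P.lf 158328 0 0) P.nil)))))) (P.cons (P.cons (P.lf 73474656 0 0) (P.cons (P.lf 68136332 0 0) (P.cons (P.lf 9732576 0 0) (P.cons (P.lf 0 3429006 0) (P.cons (P.lf 0 572976 0) P.nil))))) (P.cons (P.cons (P.lf 4681150 0 0) (P.cons (P.lf 0 1804620 0) (P.cons (P.lf 0 1930706 0) (P.cons (P.lf 314514 0 0) P.nil)))) (P.cons (P.cons (P.lf 0 1786918 0) (P.cons (P.lf 0 1577362 0) (P.cons (P.lf 0 38610 0) P.nil))) (P.cons (P.cons (P.lf 0 176874 0) (P.cons (P.lf 11152 0 0) P.nil)) (P.cons (P.cons (P.lf 17600 0 0) P.nil) P.nil)))))) 358586)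
 EL.nil)
noncomputable def S270_285_512_660_39 : EL := (EL.cons 14 (TM.mk (P.cons (P.lf 238134486 0 0) (P.cons (P.lf 163236316 0 0) (P.cons (P.lf 26471950 0 0) (P.cons (P.lf 0 679182 0) (P.cons (P.lf 0 51396 0) (P.cons (P.lf 1564 0 0) P.nil)))))) 140)
 EL.nil)
noncomputable def S270_285_512_660_40 : EL := (EL.cons 14 (TM.mk (P.cons (P.cons (P.lf 0 75619978 0) (P.cons (P.lf 0 45898016 0) (P.cons (P.lf 3068634 0 0) (P.lf 1022878 0 0)))) (P.cons (P.cons (P.lf 0 58139322 0) (P.cons (P.lf 0 29768052 0) (P.cons (P.lf 1990222 0 0) (P.lf 663406 0 0)))) (P.cons (P.cons (P.lf 0 11650368 0) (P.cons (P.lf 0 3676620 0) (P.cons (P.lf 245810 0 0) (P.lf 81936 0 0)))) (P.cons (P.cons (P.lf 319814 0 0) (P.cons (P.lf 489934 0 0) (P.cons (P.lf 0 32754 0) P.nil))) (P.cons (P.cons (P.lf 195186 0 0) (P.cons (P.lf 26536 0 0) P.nil)) (P.cons (P.cons (P.lf 1904 0 0) P.nil) P.nil)))))) 21018)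
 EL.nil)
noncomputable def S270_285_512_660_41 : EL := (EL.cons 14 (TM.mk (P.cons (P.cons (P.lf 24013242 0 0) (P.cons (P.lf 29149972 0 0) (P.cons (P.lf 6897478 0 0) (P.cons (P.lf 0 1832528 0) (P.cons (P.lf 0 354754 0) (P.cons (P.lf 26360 0 0) P.nil)))))) (P.cons (P.cons (P.lf 20463878 0 0) (P.cons (P.lf 21335606 0 0) (P.cons (P.lf 3984520 0 0) (P.cons (P.lf 0 1199012 0) (P.cons (P.lf 0 216988 0) P.nil))))) (P.cons (P.cons (P.lf 4896628 0 0) (P.cons (P.lf 3495906 0 0) (P.cons (P.lf 212188 0 0) (P.cons (P.lf 0 137534 0) P.nil)))) (P.cons (P.cons (P.lf 0 77254 0) (P.cons (P.lf 0 411452 0) (P.cons (P.lf 0 124098 0) P.nil))) (P.cons (P.cons (P.lf 0 137972 0) (P.cons (P.lf 0 90968 0) P.nil)) (P.cons (P.cons (P.lf 0 6418 0) P.nil) P.nil)))))) 175358)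
 EL.nil)
noncomputable def S270_285_512_660_42 : EL := (EL.cons 14 (TM.mk (P.cons (P.lf 39649572 0 0) (P.cons (P.lf 40768454 0 0) (P.cons (P.lf 13597884 0 0) (P.cons (P.lf 1298180 0 0) (P.cons (P.lf 0 70382 0) (P.cons (P.lf 0 3676 0) P.nil)))))) 242)
 EL.nil)
noncomputable def S270_285_512_660_43 : EL := (EL.cons 14 (TM.mk (P.cons (P.cons (P.lf 0 12590782 0) (P.cons (P.lf 0 7642054 0) (P.cons (P.lf 510928 0 0) (P.lf 170308 0 0)))) (P.cons (P.cons (P.lf 0 13995602 0) (P.cons (P.lf 0 7575638 0) (P.cons (P.lf 506488 0 0) (P.lf 168828 0 0)))) (P.cons (P.cons (P.lf 0 5217894 0) (P.cons (P.lf 0 2286818 0) (P.cons (P.lf 152890 0 0) (P.lf 50962 0 0)))) (P.cons (P.cons (P.lf 0 576722 0) (P.cons (P.lf 0 109968 0) (P.cons (P.lf 7352 0 0) P.nil))) (P.cons (P.cons (P.lf 60138 0 0) (P.cons (P.lf 35976 0 0) P.nil)) (P.cons (P.cons (P.lf 11900 0 0) P.nil) P.nil)))))) 17594)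
 EL.nil)
noncomputable def S270_285_512_660_44 : EL := (EL.cons 14 (TM.mk (P.cons (P.cons (P.lf 3998222 0 0) (P.cons (P.lf 4853492 0 0) (P.cons (P.lf 1148434 0 0) (P.cons (P.lf 0 305116 0) (P.cons (P.lf 0 59066 0) (P.cons (P.lf 4388 0 0) P.nil)))))) (P.cons (P.cons (P.lf 4777600 0 0) (P.cons (P.lf 5215878 0 0) (P.cons (P.lf 1057040 0 0) (P.cons (P.lf 0 304212 0) (P.cons (P.lf 0 56372 0) P.nil))))) (P.cons (P.cons (P.lf 1970484 0 0) (P.cons (P.lf 1784312 0 0) (P.cons (P.lf 259090 0 0) (P.cons (P.lf 0 90360 0) P.nil)))) (P.cons (P.cons (P.lf 254444 0 0) (P.cons (P.lf 118112 0 0) (P.cons (P.lf 0 11042 0) P.nil))) (P.cons (P.cons (P.lf 0 31106 0) (P.cons (P.lf 0 41660 0) P.nil)) (P.cons (P.cons (P.lf 0 9162 0) P.nil) P.nil)))))) 82170)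
 EL.nil)
noncomputable def S270_285_512_660_45 : EL := (EL.cons 14 (TM.mk (P.cons (P.cons (P.lf 0 275063292 0) (P.cons (P.lf 0 500854122 0) (P.cons (P.lf 0 270510580 0) (P.cons (P.lf 0 9693214 0) (P.cons (P.lf 24526896 0 0) (P.cons (P.lf 2381366 0 0) P.nil)))))) (P.cons (P.cons (P.lf 0 68784476 0) (P.cons (P.lf 0 65011774 0) (P.cons (P.lf 1447682 0 0) (P.cons (P.lf 8646842 0 0) (P.cons (P.lf 0 1249722 0) P.nil))))) (P.cons (P.cons (P.lf 6015436 0 0) (P.cons (P.lf 16748414 0 0) (P.cons (P.lf 8166184 0 0) (P.cons (P.lf 0 803754 0) P.nil)))) (P.cons (P.cons (P.lf 2528428 0 0) (P.cons (P.lf 2042426 0 0) (P.cons (P.lf 0 198110 0) P.nil))) (P.cons (P.cons (P.lf 0 14250 0) (P.cons (P.lf 0 254410 0) P.nil)) (P.cons (P.cons (P.lf 0 39804 0) P.nil) P.nil)))))) 2687852)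
 EL.nil)
noncomputable def S270_285_512_660_46 : EL := (EL.cons 15 (TM.mk (P.lf 4294967296 0 0) 0)
 EL.nil)
noncomputable def S270_285_512_660_47 : EL := (EL.cons 15 (TM.mk (P.cons (P.cons (P.lf 0 1363873597 0) (P.cons (P.lf 0 827811552 0) (P.cons (P.lf 55345552 0 0) (P.lf 18448516 0 0)))) (P.cons (P.cons (P.lf 0 113686965 0) (P.cons (P.lf 30554576 0 0) (P.cons (P.lf 0 2042804 0) (P.lf 0 680932 0)))) (P.cons (P.cons (P.lf 19418797 0 0) (P.cons (P.lf 4767056 0 0) (P.cons (P.lf 0 318712 0) (P.lf 0 106236 0)))) (P.cons (P.cons (P.lf 1204949 0 0) (P.cons (P.lf 0 188860 0) (P.cons (P.lf 12624 0 0) P.nil))) (P.cons (P.cons (P.lf 0 82876 0) (P.cons (P.lf 0 13376 0) P.nil)) (P.cons (P.cons (P.lf 0 2986 0) P.nil) P.nil)))))) 7009)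
 EL.nil)
noncomputable def S270_285_512_660_48 : EL := (EL.cons 15 (TM.mk (P.cons (P.cons (P.lf 433100198 0 0) (P.cons (P.lf 525745711 0 0) (P.cons (P.lf 124402179 0 0) (P.cons (P.lf 0 33051302 0) (P.cons (P.lf 0 6398339 0) (P.cons (P.lf 475460 0 0) P.nil)))))) (P.cons (P.cons (P.lf 72202947 0 0) (P.cons (P.lf 24418720 0 0) (P.cons (P.lf 0 13410752 0) (P.cons (P.lf 1030725 0 0) (P.cons (P.lf 472324 0 0) P.nil))))) (P.cons (P.cons (P.lf 0 9323666 0) (P.cons (P.lf 0 12130673 0) (P.cons (P.lf 0 809210 0) (P.cons (P.lf 486991 0 0) P.nil)))) (P.cons (P.cons (P.lf 0 1793290 0) (P.cons (P.lf 0 320611 0) (P.cons (P.lf 162064 0 0) P.nil))) (P.cons (P.cons (P.lf 76643 0 0) (P.cons (P.lf 110690 0 0) P.nil)) (P.cons (P.cons (P.lf 17179 0 0) P.nil) P.nil)))))) 317096)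
 EL.nil)
noncomputable def S270_285_512_660 : SL := (SL.cons S270_285_512_660_0 (SL.cons S270_285_512_660_1 (SL.cons S270_285_512_660_2 (SL.cons S270_285_512_660_3 (SL.cons S270_285_512_660_4 (SL.cons S270_285_512_660_5 (SL.cons S270_285_512_660_6 (SL.cons S270_285_512_660_7 (SL.cons S270_285_512_660_8 (SL.cons S270_285_512_660_9 (SL.cons S270_285_512_660_10 (SL.cons S270_285_512_660_11 (SL.cons S270_285_512_660_12 (SL.cons S270_285_512_660_13 (SL.cons S270_285_512_660_14 (SL.cons S270_285_512_660_15 (SL.cons S270_285_512_660_16 (SL.cons S270_285_512_660_17 (SL.cons S270_285_512_660_18 (SL.cons S270_285_512_660_19 (SL.cons S270_285_512_660_20 (SL.cons S270_285_512_660_21 (SL.cons S270_285_512_660_22 (SL.cons S270_285_512_660_23 (SL.cons S270_285_512_660_24 (SL.cons S270_285_512_660_25 (SL.cons S270_285_512_660_26 (SL.cons S270_285_512_660_27 (SL.cons S270_285_512_660_28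 (SL.cons S270_285_512_660_29 (SL.cons S270_285_512_660_30 (SL.cons S270_285_512_660_31 (SL.cons S270_285_512_660_32 (SL.cons S270_285_512_660_33 (SL.cons S270_285_512_660_34 (SL.cons S270_285_512_660_35 (SL.cons S270_285_512_660_36 (SL.cons S270_285_512_660_37 (SL.cons S270_285_512_660_38 (SL.cons S270_285_512_660_39 (SL.cons S270_285_512_660_40 (SL.cons S270_285_512_660_41 (SL.cons S270_285_512_660_42 (SL.cons S270_285_512_660_43 (SL.cons S270_285_512_660_44 (SL.cons S270_285_512_660_45 (SL.cons S270_285_512_660_46 (SL.cons S270_285_512_660_47 (SL.cons S270_285_512_660_48 SL.nil)))))))))))))))))))))))))))))))))))))))))))))))))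
theorem S256_314_512_660_ok : band (seq (shp 5 256 314 512 660) S256_314_512_660) (sok S256_314_512_660) = true := by decide +kernel

theorem S256_314_660_808_ok : band (seq (shp 5 256 314 660 808) S256_314_660_808) (sok S256_314_660_808) = true := by decide +kernel

theorem S256_314_734_771_ok : band (seq (shp 5 256 314 734 771) S256_314_734_771) (sok S256_314_734_771) = true := by decide +kernel

theorem S270_285_216_364_ok : band (seq (shp 5 270 285 216 364) S270_285_216_364) (sok S270_285_216_364) = true := by decide +kernel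

theorem S270_285_364_512_ok : band (seq (shp 5 270 285 364 512) S270_285_364_512) (sok S270_285_364_512) = true := by decide +kernel

theorem S270_285_512_660_ok : band (seq (shp 5 270 285 512 660) S270_285_512_660) (sok S270_285_512_660) = true := by decide +kernel

end Vale.Agent.P098.Ck
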