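import Vale.Agent.P098.CkDefs

namespace Vale.Agent.P098.Ck

noncomputable def S270_285_660_808_0 : EL := (EL.cons 0 (TM.mk (P.cons (P.lf 8246418975 0 0) (P.cons (P.lf 0 143469418 0) (P.cons (P.lf 0 23266362 0) (P.cons (P.lf 596937 0 0) (P.cons (P.lf 45172 0 0) (P.cons (P.lf 0 1374 0) P.nil)))))) 130)
 (EL.cons 1 (TM.mk (P.cons (P.lf 658702106 0 0) (P.cons (P.lf 217659159 0 0) (P.cons (P.lf 0 6218872 0) (P.cons (P.lf 0 652477 0) (P.cons (P.lf 17842 0 0) (P.cons (P.lf 1025 0 0) P.nil)))))) 108)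
 (EL.cons 5 (TM.mk (P.cons (P.lf 4369384324 0 0) (P.cons (P.lf 51011348 0 0) (P.cons (P.lf 8272484 0 0) (P.cons (P.lf 0 212242 0) (P.cons (P.lf 0 16058 0) (P.cons (P.lf 490 0 0) P.nil)))))) 145)
 (EL.cons 9 (TM.mk (P.lf 6442450944 0 0) 2)
 EL.nil))))
noncomputable def S270_285_660_808_1 : EL := (EL.cons 0 (TM.mk (P.cons (P.cons (P.lf 0 5351251349 0) (P.cons (P.lf 0 683006647 0) (P.cons (P.lf 294520172 0 0) (P.lf 32724466 0 0)))) (P.cons (P.cons (P.lf 85725081 0 0) (P.cons (P.lf 76658388 0 0) (P.cons (P.lf 0 33055953 0) (P.lf 0 3672874 0)))) (P.cons (P.cons (P.lf 152098423 0 0) (P.cons (P.lf 10377590 0 0) (P.cons (P.lf 0 4474931 0) (P.lf 0 497211 0)))) (P.cons (P.cons (P.lf 1676178 0 0) (P.cons (P.lf 0 974107 0) (P.cons (P.lf 420033 0 0) P.nil))) (P.cons (P.cons (P.lf 0 1224997 0) (P.cons (P.lf 0 55633 0) P.nil)) (P.cons (P.cons (P.lf 0 3934 0) P.nil) P.nil)))))) 110483)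
 (EL.cons 1 (TM.mk (P.cons (P.cons (P.lf 0 8728669 0) (P.cons (P.lf 0 144453117 0) (P.cons (P.lf 62289811 0 0) (P.lf 6921086 0 0)))) (P.cons (P.cons (P.lf 0 484772595 0) (P.cons (P.lf 0 40142896 0) (P.cons (P.lf 17310072 0 0) (P.lf 1923340 0 0)))) (P.cons (P.cons (P.lf 0 333397 0) (P.cons (P.lf 5041926 0 0) (P.cons (P.lf 0 2174130 0) (P.lf 0 241564 0)))) (P.cons (P.cons (P.lf 7697830 0 0) (P.cons (P.lf 406583 0 0) (P.cons (P.lf 0 175321 0) P.nil))) (P.cons (P.cons (P.lf 32122 0 0) (P.cons (P.lf 0 43129 0) P.nil)) (P.cons (P.cons (P.lf 0 47231 0) P.nil) P.nil)))))) 63921)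
 (EL.cons 5 (TM.mk (P.cons (P.cons (P.lf 0 2603227653 0) (P.cons (P.lf 0 411733300 0) (P.cons (P.lf 177544044 0 0) (P.lf 19727116 0 0)))) (P.cons (P.cons (P.lf 0 143014127 0) (P.cons (P.lf 0 3095720 0) (P.cons (P.lf 1334902 0 0) (P.lf 148318 0 0)))) (P.cons (P.cons (P.lf 0 8471574 0) (P.cons (P.lf 79676 0 0) (P.cons (P.lf 0 34362 0) (P.lf 0 3820 0)))) (P.cons (P.cons (P.lf 953409 0 0) (P.cons (P.lf 197006 0 0) (P.cons (P.lf 0 84950 0) P.nil))) (P.cons (P.cons (P.lf 259290 0 0) (P.cons (P.lf 9198 0 0) P.nil)) (P.cons (P.cons (P.lf 0 2077 0) P.nil) P.nil)))))) 63310)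
 (EL.cons 9 (TM.mk (P.cons (P.cons (P.lf 0 3975789511 0) (P.cons (P.lf 0 577570674 0) (P.cons (P.lf 249054990 0 0) (P.lf 27672774 0 0)))) (P.cons (P.cons (P.lf 0 99294793 0) (P.cons (P.lf 21318168 0 0) (P.cons (P.lf 0 9192630 0) (P.lf 0 1021398 0)))) (P.cons (P.cons (P.lf 40242223 0 0) (P.cons (P.lf 3326010 0 0) (P.cons (P.lf 0 1434210 0) (P.lf 0 159354 0)))) (P.cons (P.cons (P.lf 1367101 0 0) (P.cons (P.lf 0 131766 0) (P.cons (P.lf 56814 0 0) P.nil))) (P.cons (P.cons (P.lf 0 155508 0) (P.cons (P.lf 0 9330 0) P.nil)) (P.cons (P.cons (P.lf 0 3063 0) P.nil) P.nil)))))) 13658)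
 (EL.cons 2 (TM.mk (P.cons (P.cons (P.lf 0 191732293 0) (P.cons (P.lf 178616368 0 0) (P.cons (P.lf 18331849 0 0) (P.cons (P.lf 0 3812512 0) (P.lf 0 317708 0))))) (P.cons (P.cons (P.lf 0 60996380 0) (P.cons (P.lf 56823769 0 0) (P.cons (P.lf 5831966 0 0) (P.cons (P.lf 0 1212885 0) (P.lf 0 101072 0))))) (P.cons (P.cons (P.lf 2986706 0 0) (P.cons (P.lf 0 2782392 0) (P.cons (P.lf 0 285561 0) (P.cons (P.lf 59388 0 0) P.nil)))) (P.cons (P.cons (P.lf 293923 0 0) (P.cons (P.lf 0 273816 0) (P.cons (P.lf 0 28102 0) P.nil))) (P.cons (P.cons (P.lf 0 13297 0) (P.cons (P.lf 12389 0 0) P.nil)) (P.cons (P.cons (P.lf 0 703 0) P.nil) P.nil)))))) 15571)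
 (EL.cons 6 (TM.mk (P.cons (P.cons (P.lf 603419688 0 0) (P.cons (P.lf 0 562141263 0) (P.cons (P.lf 0 57693978 0) (P.cons (P.lf 11998740 0 0) (P.lf 999894 0 0))))) (P.cons (P.cons (P.lf 0 22272258 0) (P.cons (P.lf 20748669 0 0) (P.cons (P.lf 2129487 0 0) (P.cons (P.lf 0 442872 0) (P.lf 0 36903 0))))) (P.cons (P.cons (P.lf 0 3474867 0) (P.cons (P.lf 3237159 0 0) (P.cons (P.lf 332235 0 0) (P.cons (P.lf 0 69096 0) P.nil)))) (P.cons (P.cons (P.lf 137667 0 0) (P.cons (P.lf 0 128247 0) (P.cons (P.lf 0 13161 0) P.nil))) (P.cons (P.cons (P.lf 9750 0 0) (P.cons (P.lf 0 9084 0) P.nil)) (P.cons (P.cons (P.lf 0 441 0) P.nil) P.nil)))))) 11475)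
 EL.nil))))))
noncomputable def S270_285_660_808_2 : EL := (EL.cons 0 (TM.mk (P.cons (P.cons (P.lf 3464188185 0 0) (P.cons (P.lf 890010378 0 0) (P.cons (P.lf 0 327596977 0) (P.cons (P.lf 0 91098166 0) (P.cons (P.lf 5063352 0 0) (P.cons (P.lf 2321631 0 0) P.nil)))))) (P.cons (P.cons (P.lf 0 43084762 0) (P.cons (P.lf 0 97581354 0) (P.cons (P.lf 29858837 0 0) (P.cons (P.lf 15213554 0 0) (P.cons (P.lf 0 1101184 0) P.nil))))) (P.cons (P.cons (P.lf 0 184013989 0) (P.cons (P.lf 0 38217038 0) (P.cons (P.lf 15195916 0 0) (P.cons (P.lf 2938141 0 0) P.nil)))) (P.cons (P.cons (P.lf 0 5066541 0) (P.cons (P.lf 2096072 0 0) (P.cons (P.lf 0 642139 0) P.nil))) (P.cons (P.cons (P.lf 2874027 0 0) (P.cons (P.lf 527568 0 0) P.nil)) (P.cons (P.cons (P.lf 98707 0 0) P.nil) P.nil)))))) 2472717)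
 (EL.cons 1 (TM.mk (P.cons (P.cons (P.lf 0 240087908 0) (P.cons (P.lf 106969757 0 0) (P.cons (P.lf 0 25520063 0) (P.cons (P.lf 0 22896682 0) (P.cons (P.lf 1857020 0 0) (P.cons (P.lf 851472 0 0) P.nil)))))) (P.cons (P.cons (P.lf 503174293 0 0) (P.cons (P.lf 117647419 0 0) (P.cons (P.lf 0 45847775 0) (P.cons (P.lf 0 9848075 0) (P.cons (P.lf 440053 0 0) P.nil))))) (P.cons (P.cons (P.lf 18395401 0 0) (P.cons (P.lf 0 7747446 0) (P.cons (P.lf 2254815 0 0) (P.cons (P.lf 1307741 0 0) P.nil)))) (P.cons (P.cons (P.lf 0 13258120 0) (P.cons (P.lf 0 2642331 0) (P.cons (P.lf 1078976 0 0) P.nil))) (P.cons (P.cons (P.lf 0 469366 0) (P.cons (P.lf 131553 0 0) P.nil)) (P.cons (P.cons (P.lf 152130 0 0) P.nil) P.nil)))))) 1275143)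
 (EL.cons 5 (TM.mk (P.cons (P.cons (P.lf 1548983363 0 0) (P.cons (P.lf 491465724 0 0) (P.cons (P.lf 0 173219040 0) (P.cons (P.lf 0 56928662 0) (P.cons (P.lf 3488170 0 0) (P.cons (P.lf 1599369 0 0) P.nil)))))) (P.cons (P.cons (P.lf 154213954 0 0) (P.cons (P.lf 25052970 0 0) (P.cons (P.lf 0 10790493 0) (P.cons (P.lf 0 1211227 0) (P.cons (P.lf 1130 0 0) P.nil))))) (P.cons (P.cons (P.lf 10870242 0 0) (P.cons (P.lf 13486 0 0) (P.cons (P.lf 0 145307 0) (P.cons (P.lf 119677 0 0) P.nil)))) (P.cons (P.cons (P.lf 0 1516766 0) (P.cons (P.lf 0 653104 0) (P.cons (P.lf 240292 0 0) P.nil))) (P.cons (P.cons (P.lf 0 567203 0) (P.cons (P.lf 0 80960 0) P.nil)) (P.cons (P.cons (P.lf 0 6005 0) P.nil) P.nil)))))) 1461198)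
 (EL.cons 9 (TM.mk (P.cons (P.cons (P.lf 2453554147 0 0) (P.cons (P.lf 712865164 0 0) (P.cons (P.lf 0 255615846 0) (P.cons (P.lf 0 78810994 0) (P.cons (P.lf 4666302 0 0) (P.cons (P.lf 2139571 0 0) P.nil)))))) (P.cons (P.cons (P.lf 122554350 0 0) (P.cons (P.lf 0 8508186 0) (P.cons (P.lf 0 153559 0) (P.cons (P.lf 3704145 0 0) (P.cons (P.lf 0 344467 0) P.nil))))) (P.cons (P.cons (P.lf 0 48138474 0) (P.cons (P.lf 0 11977747 0) (P.cons (P.lf 4639119 0 0) (P.cons (P.lf 1027353 0 0) P.nil)))) (P.cons (P.cons (P.lf 0 2927814 0) (P.cons (P.lf 81307 0 0) (P.cons (P.lf 10582 0 0) P.nil))) (P.cons (P.cons (P.lf 401163 0 0) (P.cons (P.lf 94057 0 0) P.nil)) (P.cons (P.cons (P.lf 25653 0 0) P.nil) P.nil)))))) 663604)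
 (EL.cons 2 (TM.mk (P.cons (P.cons (P.lf 236645105 0 0) (P.cons (P.lf 0 186078909 0) (P.cons (P.lf 0 69476360 0) (P.cons (P.lf 13581585 0 0) (P.cons (P.lf 4027528 0 0) (P.cons (P.lf 0 80319 0) P.nil)))))) (P.cons (P.cons (P.lf 81194805 0 0) (P.cons (P.lf 0 65972621 0) (P.cons (P.lf 0 20938561 0) (P.cons (P.lf 4110654 0 0) (P.cons (P.lf 1156899 0 0) P.nil))))) (P.cons (P.cons (P.lf 0 4201391 0) (P.cons (P.lf 2776815 0 0) (P.cons (P.lf 1951430 0 0) (P.cons (P.lf 0 377145 0) P.nil)))) (P.cons (P.cons (P.lf 0 1298227 0) (P.cons (P.lf 1121343 0 0) (P.cons (P.lf 244147 0 0) P.nil))) (P.cons (P.cons (P.lf 28035 0 0) (P.cons (P.lf 0 15654 0) P.nil)) (P.cons (P.cons (P.lf 9343 0 0) P.nil) P.nil)))))) 556525)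
 (EL.cons 6 (TM.mk (P.cons (P.cons (P.lf 0 744769248 0) (P.cons (P.lf 585627372 0 0) (P.cons (P.lf 218655948 0 0) (P.cons (P.lf 0 42743952 0) (P.cons (P.lf 0 12675444 0) (P.cons (P.lf 252780 0 0) P.nil)))))) (P.cons (P.cons (P.lf 8888970 0 0) (P.cons (P.lf 0 294000 0) (P.cons (P.lf 0 11734458 0) (P.cons (P.lf 2238876 0 0) (P.cons (P.lf 859326 0 0) P.nil))))) (P.cons (P.cons (P.lf 12513810 0 0) (P.cons (P.lf 0 10559070 0) (P.cons (P.lf 0 2693772 0) (P.cons (P.lf 532500 0 0) P.nil)))) (P.cons (P.cons (P.lf 0 84948 0) (P.cons (P.lf 0 16218 0) (P.cons (P.lf 138072 0 0) P.nil))) (P.cons (P.cons (P.lf 0 98268 0) (P.cons (P.lf 86286 0 0) P.nil)) (P.cons (P.cons (P.lf 990 0 0) P.nil) P.nil)))))) 611490)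
 EL.nil))))))
noncomputable def S270_285_660_808_3 : EL := (EL.cons 0 (TM.mk (P.cons (P.lf 209297888 0 0) (P.cons (P.lf 143469418 0 0) (P.cons (P.lf 23266362 0 0) (P.cons (P.lf 0 596937 0) (P.cons (P.lf 0 45172 0) (P.cons (P.lf 1374 0 0) P.nil)))))) 130)
 (EL.cons 1 (TM.mk (P.cons (P.lf 0 658702106 0) (P.cons (P.lf 0 217659159 0) (P.cons (P.lf 6218872 0 0) (P.cons (P.lf 652477 0 0) (P.cons (P.lf 0 17842 0) (P.cons (P.lf 0 1025 0) P.nil)))))) 108)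
 (EL.cons 5 (TM.mk (P.cons (P.lf 2073066620 0 0) (P.cons (P.lf 0 51011348 0) (P.cons (P.lf 0 8272484 0) (P.cons (P.lf 212242 0 0) (P.cons (P.lf 16058 0 0) (P.cons (P.lf 0 490 0) P.nil)))))) 138)
 EL.nil)))
noncomputable def S270_285_660_808_4 : EL := (EL.cons 0 (TM.mk (P.cons (P.cons (P.lf 0 129162696 0) (P.cons (P.lf 0 18763715 0) (P.cons (P.lf 8091124 0 0) (P.lf 899013 0 0)))) (P.cons (P.cons (P.lf 0 91764205 0) (P.cons (P.lf 0 12169573 0) (P.cons (P.lf 5247657 0 0) (P.lf 583071 0 0)))) (P.cons (P.cons (P.lf 0 15262096 0) (P.cons (P.lf 0 1503050 0) (P.cons (P.lf 648131 0 0) (P.lf 72014 0 0)))) (P.cons (P.cons (P.lf 950371 0 0) (P.cons (P.lf 200290 0 0) (P.cons (P.lf 0 86366 0) P.nil))) (P.cons (P.cons (P.lf 207799 0 0) (P.cons (P.lf 10847 0 0) P.nil)) (P.cons (P.cons (P.lf 0 2504 0) P.nil) P.nil)))))) 23601)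
 (EL.cons 1 (TM.mk (P.cons (P.cons (P.lf 406500716 0 0) (P.cons (P.lf 59053149 0 0) (P.cons (P.lf 0 25464382 0) (P.lf 0 2829373 0)))) (P.cons (P.cons (P.lf 144474935 0 0) (P.cons (P.lf 17333655 0 0) (P.cons (P.lf 0 7474468 0) (P.lf 0 830495 0)))) (P.cons (P.cons (P.lf 0 4597650 0) (P.cons (P.lf 0 1617826 0) (P.cons (P.lf 697623 0 0) (P.lf 77512 0 0)))) (P.cons (P.cons (P.lf 0 1997876 0) (P.cons (P.lf 0 136813 0) (P.cons (P.lf 58995 0 0) P.nil))) (P.cons (P.cons (P.lf 9511 0 0) (P.cons (P.lf 12373 0 0) P.nil)) (P.cons (P.cons (P.lf 11868 0 0) P.nil) P.nil)))))) 18512)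
 (EL.cons 5 (TM.mk (P.cons (P.cons (P.lf 0 1279338652 0) (P.cons (P.lf 0 185852012 0) (P.cons (P.lf 80141484 0 0) (P.lf 8904608 0 0)))) (P.cons (P.cons (P.lf 0 470990 0) (P.cons (P.lf 11433014 0 0) (P.cons (P.lf 0 4930042 0) (P.lf 0 547780 0)))) (P.cons (P.cons (P.lf 18840596 0 0) (P.cons (P.lf 1643086 0 0) (P.cons (P.lf 0 708516 0) (P.lf 0 78722 0)))) (P.cons (P.cons (P.lf 117790 0 0) (P.cons (P.lf 0 115136 0) (P.cons (P.lf 49646 0 0) P.nil))) (P.cons (P.cons (P.lf 0 125718 0) (P.cons (P.lf 0 6966 0) P.nil)) (P.cons (P.cons (P.lf 0 128 0) P.nil) P.nil)))))) 12824)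
 EL.nil)))
noncomputable def S270_285_660_808_5 : EL := (EL.cons 0 (TM.mk (P.cons (P.cons (P.lf 79709368 0 0) (P.cons (P.lf 23159068 0 0) (P.cons (P.lf 0 8304270 0) (P.cons (P.lf 0 2560355 0) (P.cons (P.lf 151595 0 0) (P.cons (P.lf 69507 0 0) P.nil)))))) (P.cons (P.cons (P.lf 58620601 0 0) (P.cons (P.lf 15598659 0 0) (P.cons (P.lf 0 5697395 0) (P.cons (P.lf 0 1634733 0) (P.cons (P.lf 92724 0 0) P.nil))))) (P.cons (P.cons (P.lf 10026121 0 0) (P.cons (P.lf 1995853 0 0) (P.cons (P.lf 0 775840 0) (P.cons (P.lf 0 168753 0) P.nil)))) (P.cons (P.cons (P.lf 0 951874 0) (P.cons (P.lf 0 360873 0) (P.cons (P.lf 126783 0 0) P.nil))) (P.cons (P.cons (P.lf 0 254573 0) (P.cons (P.lf 0 42598 0) P.nil)) (P.cons (P.cons (P.lf 3316 0 0) P.nil) P.nil)))))) 195425)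
 (EL.cons 1 (TM.mk (P.cons (P.cons (P.lf 0 250861246 0) (P.cons (P.lf 0 72886201 0) (P.cons (P.lf 26135191 0 0) (P.cons (P.lf 8057951 0 0) (P.cons (P.lf 0 477099 0) (P.cons (P.lf 0 218756 0) P.nil)))))) (P.cons (P.cons (P.lf 0 95424138 0) (P.cons (P.lf 0 23214343 0) (P.cons (P.lf 8651718 0 0) (P.cons (P.lf 2283913 0 0) (P.cons (P.lf 0 122431 0) P.nil))))) (P.cons (P.cons (P.lf 3149760 0 0) (P.cons (P.lf 2200228 0 0) (P.cons (P.lf 0 715876 0) (P.cons (P.lf 0 306260 0) P.nil)))) (P.cons (P.cons (P.lf 2292508 0 0) (P.cons (P.lf 460340 0 0) (P.cons (P.lf 0 183851 0) P.nil))) (P.cons (P.cons (P.lf 17047 0 0) (P.cons (P.lf 0 26760 0) P.nil)) (P.cons (P.cons (P.lf 0 24607 0) P.nil) P.nil)))))) 252713)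
 (EL.cons 5 (TM.mk (P.cons (P.cons (P.lf 789510272 0 0) (P.cons (P.lf 229387384 0 0) (P.cons (P.lf 0 82252650 0) (P.cons (P.lf 0 25359980 0) (P.cons (P.lf 1501532 0 0) (P.cons (P.lf 688474 0 0) P.nil)))))) (P.cons (P.cons (P.lf 20008568 0 0) (P.cons (P.lf 0 8382252 0) (P.cons (P.lf 1974554 0 0) (P.cons (P.lf 1815952 0 0) (P.cons (P.lf 0 147790 0) P.nil))))) (P.cons (P.cons (P.lf 0 19611000 0) (P.cons (P.lf 0 4702218 0) (P.cons (P.lf 1822226 0 0) (P.cons (P.lf 402452 0 0) P.nil)))) (P.cons (P.cons (P.lf 0 637492 0) (P.cons (P.lf 155412 0 0) (P.cons (P.lf 0 41550 0) P.nil))) (P.cons (P.cons (P.lf 224234 0 0) (P.cons (P.lf 46498 0 0) P.nil)) (P.cons (P.cons (P.lf 7370 0 0) P.nil) P.nil)))))) 276734)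
 EL.nil)))
noncomputable def S270_285_660_808_6 : EL := (EL.cons 12 (TM.mk (P.lf 8589934592 0 0) 0)
 (EL.cons 3 (TM.mk (P.cons (P.lf 670420608 0 0) (P.cons (P.lf 229779802 0 0) (P.cons (P.lf 0 2114062 0) (P.cons (P.lf 0 231480 0) (P.cons (P.lf 3656 0 0) (P.cons (P.lf 221 0 0) P.nil)))))) 44)
 (EL.cons 7 (TM.mk (P.cons (P.lf 0 2109947077 0) (P.cons (P.lf 25959428 0 0) (P.cons (P.lf 4369521 0 0) (P.cons (P.lf 0 54250 0) (P.cons (P.lf 0 4315 0) (P.cons (P.lf 84 0 0) P.nil)))))) 52)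
 EL.nil)))
noncomputable def S270_285_660_808_7 : EL := (EL.cons 12 (TM.mk (P.cons (P.cons (P.lf 0 5301052682 0) (P.cons (P.lf 0 770094232 0) (P.cons (P.lf 332073320 0 0) (P.lf 36897032 0 0)))) (P.cons (P.cons (P.lf 0 132393058 0) (P.cons (P.lf 28424224 0 0) (P.cons (P.lf 0 12256840 0) (P.lf 0 1361864 0)))) (P.cons (P.cons (P.lf 53656298 0 0) (P.cons (P.lf 4434680 0 0) (P.cons (P.lf 0 1912280 0) (P.lf 0 212472 0)))) (P.cons (P.cons (P.lf 1822802 0 0) (P.cons (P.lf 0 175688 0) (P.cons (P.lf 75752 0 0) P.nil))) (P.cons (P.cons (P.lf 0 207344 0) (P.cons (P.lf 0 12440 0) P.nil)) (P.cons (P.cons (P.lf 0 4084 0) P.nil) P.nil)))))) 18186)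
 (EL.cons 3 (TM.mk (P.cons (P.cons (P.lf 0 1253577514 0) (P.cons (P.lf 120207444 0 0) (P.cons (P.lf 0 51834804 0) (P.lf 0 5759420 0)))) (P.cons (P.cons (P.lf 533822039 0 0) (P.cons (P.lf 36763006 0 0) (P.cons (P.lf 0 15852624 0) (P.lf 0 1761402 0)))) (P.cons (P.cons (P.lf 33324449 0 0) (P.cons (P.lf 0 2591970 0) (P.cons (P.lf 1117684 0 0) (P.lf 124184 0 0)))) (P.cons (P.cons (P.lf 0 4461096 0) (P.cons (P.lf 0 237342 0) (P.cons (P.lf 102344 0 0) P.nil))) (P.cons (P.cons (P.lf 0 113636 0) (P.cons (P.lf 15710 0 0) P.nil)) (P.cons (P.cons (P.lf 18104 0 0) P.nil) P.nil)))))) 52082)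
 (EL.cons 7 (TM.mk (P.cons (P.cons (P.lf 1207216782 0 0) (P.cons (P.lf 209529080 0 0) (P.cons (P.lf 0 90351303 0) (P.lf 0 10039035 0)))) (P.cons (P.cons (P.lf 60308672 0 0) (P.cons (P.lf 4153308 0 0) (P.cons (P.lf 0 1790950 0) (P.lf 0 198992 0)))) (P.cons (P.cons (P.lf 14470923 0 0) (P.cons (P.lf 444470 0 0) (P.cons (P.lf 0 191660 0) (P.lf 0 21295 0)))) (P.cons (P.cons (P.lf 453178 0 0) (P.cons (P.lf 0 91573 0) (P.cons (P.lf 39486 0 0) P.nil))) (P.cons (P.cons (P.lf 0 134748 0) (P.cons (P.lf 0 5423 0) P.nil)) (P.cons (P.cons (P.lf 0 1910 0) P.nil) P.nil)))))) 38391)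
 (EL.cons 10 (TM.mk (P.cons (P.cons (P.lf 0 1228309404 0) (P.cons (P.lf 1144283841 0 0) (P.cons (P.lf 117440745 0 0) (P.cons (P.lf 0 24424407 0) (P.lf 0 2035365 0))))) (P.cons (P.cons (P.lf 30224652 0 0) (P.cons (P.lf 0 28157058 0) (P.cons (P.lf 0 2889828 0) (P.cons (P.lf 601002 0 0) (P.lf 50082 0 0))))) (P.cons (P.cons (P.lf 4901514 0 0) (P.cons (P.lf 0 4566213 0) (P.cons (P.lf 0 468642 0) (P.cons (P.lf 97464 0 0) P.nil)))) (P.cons (P.cons (P.lf 0 125754 0) (P.cons (P.lf 117150 0 0) (P.cons (P.lf 12021 0 0) P.nil))) (P.cons (P.cons (P.lf 0 9513 0) (P.cons (P.lf 8862 0 0) P.nil)) (P.cons (P.cons (P.lf 288 0 0) P.nil) P.nil)))))) 12528)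
 EL.nil))))
noncomputable def S270_285_660_808_8 : EL := (EL.cons 12 (TM.mk (P.cons (P.cons (P.lf 3271405530 0 0) (P.cons (P.lf 950486886 0 0) (P.cons (P.lf 0 340821128 0) (P.cons (P.lf 0 105081326 0) (P.cons (P.lf 6221736 0 0) (P.cons (P.lf 2852762 0 0) P.nil)))))) (P.cons (P.cons (P.lf 163405800 0 0) (P.cons (P.lf 0 11344248 0) (P.cons (P.lf 0 204746 0) (P.cons (P.lf 4938860 0 0) (P.cons (P.lf 0 459290 0) P.nil))))) (P.cons (P.cons (P.lf 0 64184632 0) (P.cons (P.lf 0 15970330 0) (P.cons (P.lf 6185492 0 0) (P.cons (P.lf 1369804 0 0) P.nil)))) (P.cons (P.cons (P.lf 0 3903752 0) (P.cons (P.lf 108410 0 0) (P.cons (P.lf 14110 0 0) P.nil))) (P.cons (P.cons (P.lf 534884 0 0) (P.cons (P.lf 125410 0 0) P.nil)) (P.cons (P.cons (P.lf 34204 0 0) P.nil) P.nil)))))) 884776)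
 (EL.cons 3 (TM.mk (P.cons (P.cons (P.lf 1291900774 0 0) (P.cons (P.lf 2219769 0 0) (P.cons (P.lf 0 27898911 0) (P.cons (P.lf 23128792 0 0) (P.cons (P.lf 0 2427946 0) (P.cons (P.lf 0 1113251 0) P.nil)))))) (P.cons (P.cons (P.lf 0 720489896 0) (P.cons (P.lf 0 177631415 0) (P.cons (P.lf 69351510 0 0) (P.cons (P.lf 14759121 0 0) (P.cons (P.lf 0 652920 0) P.nil))))) (P.cons (P.cons (P.lf 0 71803026 0) (P.cons (P.lf 1614826 0 0) (P.cons (P.lf 343878 0 0) (P.cons (P.lf 0 974452 0) P.nil)))) (P.cons (P.cons (P.lf 12765768 0 0) (P.cons (P.lf 2947578 0 0) (P.cons (P.lf 0 1197969 0) P.nil))) (P.cons (P.cons (P.lf 1031050 0 0) (P.cons (P.lf 0 44929 0) P.nil)) (P.cons (P.cons (P.lf 0 104829 0) P.nil) P.nil)))))) 1757651)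
 (EL.cons 7 (TM.mk (P.cons (P.cons (P.lf 0 686448417 0) (P.cons (P.lf 0 241598313 0) (P.cons (P.lf 83569226 0 0) (P.cons (P.lf 29350669 0 0) (P.cons (P.lf 0 1857400 0) (P.cons (P.lf 0 851642 0) P.nil)))))) (P.cons (P.cons (P.lf 0 81397516 0) (P.cons (P.lf 0 20067946 0) (P.cons (P.lf 7834995 0 0) (P.cons (P.lf 1667412 0 0) (P.cons (P.lf 0 73762 0) P.nil))))) (P.cons (P.cons (P.lf 0 22561770 0) (P.cons (P.lf 0 3380050 0) (P.cons (P.lf 1429724 0 0) (P.cons (P.lf 185906 0 0) P.nil)))) (P.cons (P.cons (P.lf 0 566996 0) (P.cons (P.lf 354197 0 0) (P.cons (P.lf 0 117557 0) P.nil))) (P.cons (P.cons (P.lf 478945 0 0) (P.cons (P.lf 81858 0 0) P.nil)) (P.cons (P.cons (P.lf 22665 0 0) P.nil) P.nil)))))) 736544)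
 (EL.cons 10 (TM.mk (P.cons (P.cons (P.lf 1516037820 0 0) (P.cons (P.lf 0 1192091712 0) (P.cons (P.lf 0 445091802 0) (P.cons (P.lf 87008760 0 0) (P.cons (P.lf 25801890 0 0) (P.cons (P.lf 0 514566 0) P.nil)))))) (P.cons (P.cons (P.lf 558132 0 0) (P.cons (P.lf 0 14068266 0) (P.cons (P.lf 18410322 0 0) (P.cons (P.lf 0 3486924 0) (P.cons (P.lf 0 1431780 0) P.nil))))) (P.cons (P.cons (P.lf 0 22326420 0) (P.cons (P.lf 18852036 0 0) (P.cons (P.lf 4788162 0 0) (P.cons (P.lf 0 946662 0) P.nil)))) (P.cons (P.cons (P.lf 0 139584 0) (P.cons (P.lf 266478 0 0) (P.cons (P.lf 0 172584 0) P.nil))) (P.cons (P.cons (P.lf 148974 0 0) (P.cons (P.lf 0 130524 0) P.nil)) (P.cons (P.cons (P.lf 150 0 0) P.nil) P.nil)))))) 1105536)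
 EL.nil))))
noncomputable def S270_285_660_808_9 : EL := (EL.cons 3 (TM.mk (P.cons (P.lf 670420608 0 0) (P.cons (P.lf 229779802 0 0) (P.cons (P.lf 0 2114062 0) (P.cons (P.lf 0 231480 0) (P.cons (P.lf 3656 0 0) (P.cons (P.lf 221 0 0) P.nil)))))) 44)
 (EL.cons 7 (TM.mk (P.cons (P.lf 0 2109947077 0) (P.cons (P.lf 25959428 0 0) (P.cons (P.lf 4369521 0 0) (P.cons (P.lf 0 54250 0) (P.cons (P.lf 0 4315 0) (P.cons (P.lf 84 0 0) P.nil)))))) 52)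
 EL.nil))
noncomputable def S270_285_660_808_10 : EL := (EL.cons 3 (TM.mk (P.cons (P.cons (P.lf 0 413732482 0) (P.cons (P.lf 0 60103722 0) (P.cons (P.lf 25917402 0 0) (P.lf 2879710 0 0)))) (P.cons (P.cons (P.lf 0 152135485 0) (P.cons (P.lf 0 18381503 0) (P.cons (P.lf 7926312 0 0) (P.lf 880701 0 0)))) (P.cons (P.cons (P.lf 1950863 0 0) (P.cons (P.lf 1295985 0 0) (P.cons (P.lf 0 558842 0) (P.lf 0 62092 0)))) (P.cons (P.cons (P.lf 1752999 0 0) (P.cons (P.lf 118671 0 0) (P.cons (P.lf 0 51172 0) P.nil))) (P.cons (P.cons (P.lf 20683 0 0) (P.cons (P.lf 0 7855 0) P.nil)) (P.cons (P.cons (P.lf 0 7951 0) P.nil) P.nil)))))) 12940)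
 (EL.cons 7 (TM.mk (P.cons (P.cons (P.lf 1302098460 0 0) (P.cons (P.lf 189158375 0 0) (P.cons (P.lf 0 81567225 0) (P.lf 0 9063024 0)))) (P.cons (P.cons (P.lf 16499549 0 0) (P.cons (P.lf 0 9309129 0) (P.cons (P.lf 4014200 0 0) (P.lf 446020 0 0)))) (P.cons (P.cons (P.lf 0 16276242 0) (P.cons (P.lf 0 1395121 0) (P.cons (P.lf 601591 0 0) (P.lf 66842 0 0)))) (P.cons (P.cons (P.lf 0 319448 0) (P.cons (P.lf 75878 0 0) (P.cons (P.lf 0 32718 0) P.nil))) (P.cons (P.cons (P.lf 87231 0 0) (P.cons (P.lf 4987 0 0) P.nil)) (P.cons (P.cons (P.lf 979 0 0) P.nil) P.nil)))))) 8153)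
 EL.nil))
noncomputable def S270_285_660_808_11 : EL := (EL.cons 3 (TM.mk (P.cons (P.cons (P.lf 255324142 0 0) (P.cons (P.lf 74182869 0 0) (P.cons (P.lf 0 26600145 0) (P.cons (P.lf 0 8201306 0) (P.cons (P.lf 485588 0 0) (P.cons (P.lf 222649 0 0) P.nil)))))) (P.cons (P.cons (P.lf 100263106 0 0) (P.cons (P.lf 24540031 0 0) (P.cons (P.lf 0 9132906 0) (P.cons (P.lf 0 2425449 0) (P.cons (P.lf 130584 0 0) P.nil))))) (P.cons (P.cons (P.lf 0 1443468 0) (P.cons (P.lf 0 1783820 0) (P.cons (P.lf 561162 0 0) (P.cons (P.lf 264884 0 0) P.nil)))) (P.cons (P.cons (P.lf 0 2149980 0) (P.cons (P.lf 0 441564 0) (P.cons (P.lf 175797 0 0) P.nil))) (P.cons (P.cons (P.lf 0 49892 0) (P.cons (P.lf 17327 0 0) P.nil)) (P.cons (P.cons (P.lf 19821 0 0) P.nil) P.nil)))))) 232807)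
 (EL.cons 7 (TM.mk (P.cons (P.cons (P.lf 0 803555889 0) (P.cons (P.lf 0 233468253 0) (P.cons (P.lf 83715950 0 0) (P.cons (P.lf 25811143 0 0) (P.cons (P.lf 0 1528246 0) (P.cons (P.lf 0 700724 0) P.nil)))))) (P.cons (P.cons (P.lf 0 30250960 0) (P.cons (P.lf 5658932 0 0) (P.cons (P.lf 0 979695 0) (P.cons (P.lf 0 1530696 0) (P.cons (P.lf 131618 0 0) P.nil))))) (P.cons (P.cons (P.lf 17923602 0 0) (P.cons (P.lf 4372004 0 0) (P.cons (P.lf 0 1693330 0) (P.cons (P.lf 0 374992 0) P.nil)))) (P.cons (P.cons (P.lf 827368 0 0) (P.cons (P.lf 0 86665 0) (P.cons (P.lf 17275 0 0) P.nil))) (P.cons (P.cons (P.lf 0 178505 0) (P.cons (P.lf 0 39006 0) P.nil)) (P.cons (P.cons (P.lf 0 8415 0) P.nil) P.nil)))))) 248038)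
 EL.nil))
noncomputable def S270_285_660_808_12 : EL := (EL.cons 4 (TM.mk (P.cons (P.lf 0 670420608 0) (P.cons (P.lf 0 229779802 0) (P.cons (P.lf 2114062 0 0) (P.cons (P.lf 231480 0 0) (P.cons (P.lf 0 3656 0) (P.cons (P.lf 0 221 0) P.nil)))))) 44)
 (EL.cons 8 (TM.mk (P.cons (P.lf 2109947077 0 0) (P.cons (P.lf 0 25959428 0) (P.cons (P.lf 0 4369521 0) (P.cons (P.lf 54250 0 0) (P.cons (P.lf 4315 0 0) (P.cons (P.lf 0 84 0) P.nil)))))) 52)
 EL.nil))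
noncomputable def S270_285_660_808_13 : EL := (EL.cons 4 (TM.mk (P.cons (P.cons (P.lf 413732482 0 0) (P.cons (P.lf 60103722 0 0) (P.cons (P.lf 0 25917402 0) (P.lf 0 2879710 0)))) (P.cons (P.cons (P.lf 152135485 0 0) (P.cons (P.lf 18381503 0 0) (P.cons (P.lf 0 7926312 0) (P.lf 0 880701 0)))) (P.cons (P.cons (P.lf 0 1950863 0) (P.cons (P.lf 0 1295985 0) (P.cons (P.lf 558842 0 0) (P.lf 62092 0 0)))) (P.cons (P.cons (P.lf 0 1752999 0) (P.cons (P.lf 0 118671 0) (P.cons (P.lf 51172 0 0) P.nil))) (P.cons (P.cons (P.lf 0 20683 0) (P.cons (P.lf 7855 0 0) P.nil)) (P.cons (P.cons (P.lf 7951 0 0) P.nil) P.nil)))))) 12940)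
 (EL.cons 8 (TM.mk (P.cons (P.cons (P.lf 0 1302098460 0) (P.cons (P.lf 0 189158375 0) (P.cons (P.lf 81567225 0 0) (P.lf 9063024 0 0)))) (P.cons (P.cons (P.lf 0 16499549 0) (P.cons (P.lf 9309129 0 0) (P.cons (P.lf 0 4014200 0) (P.lf 0 446020 0)))) (P.cons (P.cons (P.lf 16276242 0 0) (P.cons (P.lf 1395121 0 0) (P.cons (P.lf 0 601591 0) (P.lf 0 66842 0)))) (P.cons (P.cons (P.lf 319448 0 0) (P.cons (P.lf 0 75878 0) (P.cons (P.lf 32718 0 0) P.nil))) (P.cons (P.cons (P.lf 0 87231 0) (P.cons (P.lf 0 4987 0) P.nil)) (P.cons (P.cons (P.lf 0 979 0) P.nil) P.nil)))))) 8153)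
 EL.nil))
noncomputable def S270_285_660_808_14 : EL := (EL.cons 4 (TM.mk (P.cons (P.cons (P.lf 0 255324142 0) (P.cons (P.lf 0 74182869 0) (P.cons (P.lf 26600145 0 0) (P.cons (P.lf 8201306 0 0) (P.cons (P.lf 0 485588 0) (P.cons (P.lf 0 222649 0) P.nil)))))) (P.cons (P.cons (P.lf 0 100263106 0) (P.cons (P.lf 0 24540031 0) (P.cons (P.lf 9132906 0 0) (P.cons (P.lf 2425449 0 0) (P.cons (P.lf 0 130584 0) P.nil))))) (P.cons (P.cons (P.lf 1443468 0 0) (P.cons (P.lf 1783820 0 0) (P.cons (P.lf 0 561162 0) (P.cons (P.lf 0 264884 0) P.nil)))) (P.cons (P.cons (P.lf 2149980 0 0) (P.cons (P.lf 441564 0 0) (P.cons (P.lf 0 175797 0) P.nil))) (P.cons (P.cons (P.lf 49892 0 0) (P.cons (P.lf 0 17327 0) P.nil)) (P.cons (P.cons (P.lf 0 19821 0) P.nil) P.nil)))))) 232807)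
 (EL.cons 8 (TM.mk (P.cons (P.cons (P.lf 803555889 0 0) (P.cons (P.lf 233468253 0 0) (P.cons (P.lf 0 83715950 0) (P.cons (P.lf 0 25811143 0) (P.cons (P.lf 1528246 0 0) (P.cons (P.lf 700724 0 0) P.nil)))))) (P.cons (P.cons (P.lf 30250960 0 0) (P.cons (P.lf 0 5658932 0) (P.cons (P.lf 979695 0 0) (P.cons (P.lf 1530696 0 0) (P.cons (P.lf 0 131618 0) P.nil))))) (P.cons (P.cons (P.lf 0 17923602 0) (P.cons (P.lf 0 4372004 0) (P.cons (P.lf 1693330 0 0) (P.cons (P.lf 374992 0 0) P.nil)))) (P.cons (P.cons (P.lf 0 827368 0) (P.cons (P.lf 86665 0 0) (P.cons (P.lf 0 17275 0) P.nil))) (P.cons (P.cons (P.lf 178505 0 0) (P.cons (P.lf 39006 0 0) P.nil)) (P.cons (P.cons (P.lf 8415 0 0) P.nil) P.nil)))))) 248038)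
 EL.nil))
noncomputable def S270_285_660_808_15 : EL := (EL.cons 4 (TM.mk (P.cons (P.lf 0 111625540 0) (P.cons (P.lf 0 76517023 0) (P.cons (P.lf 0 12408726 0) (P.cons (P.lf 318366 0 0) (P.cons (P.lf 24091 0 0) (P.cons (P.lf 0 733 0) P.nil)))))) 72)
 (EL.cons 8 (TM.mk (P.cons (P.lf 351307790 0 0) (P.cons (P.lf 116084885 0 0) (P.cons (P.lf 0 3316732 0) (P.cons (P.lf 0 347988 0) (P.cons (P.lf 9516 0 0) (P.cons (P.lf 547 0 0) P.nil)))))) 54)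
 EL.nil))
noncomputable def S270_285_660_808_16 : EL := (EL.cons 4 (TM.mk (P.cons (P.cons (P.lf 68886771 0 0) (P.cons (P.lf 10007314 0 0) (P.cons (P.lf 0 4315266 0) (P.lf 0 479474 0)))) (P.cons (P.cons (P.lf 48940909 0 0) (P.cons (P.lf 6490439 0 0) (P.cons (P.lf 0 2798750 0) (P.lf 0 310971 0)))) (P.cons (P.cons (P.lf 8139784 0 0) (P.cons (P.lf 801627 0 0) (P.cons (P.lf 0 345670 0) (P.lf 0 38407 0)))) (P.cons (P.cons (P.lf 0 506865 0) (P.cons (P.lf 0 106821 0) (P.cons (P.lf 46062 0 0) P.nil))) (P.cons (P.cons (P.lf 0 110826 0) (P.cons (P.lf 0 5785 0) P.nil)) (P.cons (P.cons (P.lf 1335 0 0) P.nil) P.nil)))))) 12596)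
 (EL.cons 8 (TM.mk (P.cons (P.cons (P.lf 0 216800382 0) (P.cons (P.lf 0 31495013 0) (P.cons (P.lf 13581004 0 0) (P.lf 1508999 0 0)))) (P.cons (P.cons (P.lf 0 77053299 0) (P.cons (P.lf 0 9244616 0) (P.cons (P.lf 3986383 0 0) (P.lf 442931 0 0)))) (P.cons (P.cons (P.lf 2452080 0 0) (P.cons (P.lf 862841 0 0) (P.cons (P.lf 0 372066 0) (P.lf 0 41340 0)))) (P.cons (P.cons (P.lf 1065534 0 0) (P.cons (P.lf 72967 0 0) (P.cons (P.lf 0 31464 0) P.nil))) (P.cons (P.cons (P.lf 0 5073 0) (P.cons (P.lf 0 6599 0) P.nil)) (P.cons (P.cons (P.lf 0 6330 0) P.nil) P.nil)))))) 9863)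
 EL.nil))
noncomputable def S270_285_660_808_17 : EL := (EL.cons 4 (TM.mk (P.cons (P.cons (P.lf 0 42511663 0) (P.cons (P.lf 0 12351503 0) (P.cons (P.lf 4428944 0 0) (P.cons (P.lf 1365523 0 0) (P.cons (P.lf 0 80850 0) (P.cons (P.lf 0 37070 0) P.nil)))))) (P.cons (P.cons (P.lf 0 31264320 0) (P.cons (P.lf 0 8319285 0) (P.cons (P.lf 3038610 0 0) (P.cons (P.lf 871858 0 0) (P.cons (P.lf 0 49453 0) P.nil))))) (P.cons (P.cons (P.lf 0 5347264 0) (P.cons (P.lf 0 1064455 0) (P.cons (P.lf 413781 0 0) (P.cons (P.lf 90001 0 0) P.nil)))) (P.cons (P.cons (P.lf 507666 0 0) (P.cons (P.lf 192465 0 0) (P.cons (P.lf 0 67618 0) P.nil))) (P.cons (P.cons (P.lf 135772 0 0) (P.cons (P.lf 22719 0 0) P.nil)) (P.cons (P.cons (P.lf 0 1769 0) P.nil) P.nil)))))) 104237)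
 (EL.cons 8 (TM.mk (P.cons (P.cons (P.lf 133792665 0 0) (P.cons (P.lf 38872641 0 0) (P.cons (P.lf 0 13938769 0) (P.cons (P.lf 0 4297574 0) (P.cons (P.lf 254453 0 0) (P.cons (P.lf 116670 0 0) P.nil)))))) (P.cons (P.cons (P.lf 50892874 0 0) (P.cons (P.lf 12380983 0 0) (P.cons (P.lf 0 4614250 0) (P.cons (P.lf 0 1218087 0) (P.cons (P.lf 65297 0 0) P.nil))))) (P.cons (P.cons (P.lf 0 1679872 0) (P.cons (P.lf 0 1173455 0) (P.cons (P.lf 381801 0 0) (P.cons (P.lf 163339 0 0) P.nil)))) (P.cons (P.cons (P.lf 0 1222671 0) (P.cons (P.lf 0 245515 0) (P.cons (P.lf 98054 0 0) P.nil))) (P.cons (P.cons (P.lf 0 9092 0) (P.cons (P.lf 14272 0 0) P.nil)) (P.cons (P.cons (P.lf 13124 0 0) P.nil) P.nil)))))) 134769)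
 EL.nil))
noncomputable def S270_285_660_808_18 : EL := (EL.cons 4 (TM.mk (P.cons (P.lf 0 18585736 0) (P.cons (P.lf 0 19110212 0) (P.cons (P.lf 0 6374008 0) (P.cons (P.lf 0 608521 0) (P.cons (P.lf 32991 0 0) (P.cons (P.lf 1723 0 0) P.nil)))))) 120)
 (EL.cons 8 (TM.mk (P.cons (P.lf 58493013 0 0) (P.cons (P.lf 39376103 0 0) (P.cons (P.lf 5887863 0 0) (P.cons (P.lf 0 328358 0) (P.cons (P.lf 0 22887 0) (P.cons (P.lf 1131 0 0) P.nil)))))) 96)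
 EL.nil))
noncomputable def S270_285_660_808_19 : EL := (EL.cons 4 (TM.mk (P.cons (P.cons (P.lf 11469699 0 0) (P.cons (P.lf 1666225 0 0) (P.cons (P.lf 0 718494 0) (P.lf 0 79831 0)))) (P.cons (P.cons (P.lf 12079819 0 0) (P.cons (P.lf 1651744 0 0) (P.cons (P.lf 0 712250 0) (P.lf 0 79138 0)))) (P.cons (P.cons (P.lf 4111995 0 0) (P.cons (P.lf 498602 0 0) (P.cons (P.lf 0 215003 0) (P.lf 0 23888 0)))) (P.cons (P.cons (P.lf 350458 0 0) (P.cons (P.lf 23976 0 0) (P.cons (P.lf 0 10338 0) P.nil))) (P.cons (P.cons (P.lf 0 54402 0) (P.cons (P.lf 0 7844 0) P.nil)) (P.cons (P.cons (P.lf 0 6255 0) P.nil) P.nil)))))) 10137)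
 (EL.cons 8 (TM.mk (P.cons (P.cons (P.lf 0 36097427 0) (P.cons (P.lf 0 5243943 0) (P.cons (P.lf 2261247 0 0) (P.lf 251249 0 0)))) (P.cons (P.cons (P.lf 0 25201456 0) (P.cons (P.lf 0 3336543 0) (P.cons (P.lf 1438755 0 0) (P.lf 159861 0 0)))) (P.cons (P.cons (P.lf 0 3875055 0) (P.cons (P.lf 0 367357 0) (P.cons (P.lf 158408 0 0) (P.lf 17600 0 0)))) (P.cons (P.cons (P.lf 370262 0 0) (P.cons (P.lf 68052 0 0) (P.cons (P.lf 0 29344 0) P.nil))) (P.cons (P.cons (P.lf 62906 0 0) (P.cons (P.lf 3114 0 0) P.nil)) (P.cons (P.cons (P.lf 0 2125 0) P.nil) P.nil)))))) 8448)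
 EL.nil))
noncomputable def S270_285_660_808_20 : EL := (EL.cons 4 (TM.mk (P.cons (P.cons (P.lf 0 7078223 0) (P.cons (P.lf 0 2056534 0) (P.cons (P.lf 737422 0 0) (P.cons (P.lf 227360 0 0) (P.cons (P.lf 0 13461 0) (P.cons (P.lf 0 6171 0) P.nil)))))) (P.cons (P.cons (P.lf 0 7631520 0) (P.cons (P.lf 0 2090023 0) (P.cons (P.lf 758674 0 0) (P.cons (P.lf 223090 0 0) (P.cons (P.lf 0 12847 0) P.nil))))) (P.cons (P.cons (P.lf 0 2652146 0) (P.cons (P.lf 0 645498 0) (P.cons (P.lf 239971 0 0) (P.cons (P.lf 64021 0 0) P.nil)))) (P.cons (P.cons (P.lf 0 201763 0) (P.cons (P.lf 0 23620 0) (P.cons (P.lf 10503 0 0) P.nil))) (P.cons (P.cons (P.lf 56143 0 0) (P.cons (P.lf 15791 0 0) P.nil)) (P.cons (P.cons (P.lf 7463 0 0) P.nil) P.nil)))))) 45456)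
 (EL.cons 8 (TM.mk (P.cons (P.cons (P.lf 22276580 0 0) (P.cons (P.lf 6472323 0 0) (P.cons (P.lf 0 2320815 0) (P.cons (P.lf 0 715549 0) (P.cons (P.lf 42366 0 0) (P.cons (P.lf 19425 0 0) P.nil)))))) (P.cons (P.cons (P.lf 16108772 0 0) (P.cons (P.lf 4279765 0 0) (P.cons (P.lf 0 1563711 0) (P.cons (P.lf 0 448059 0) (P.cons (P.lf 25392 0 0) P.nil))))) (P.cons (P.cons (P.lf 2554328 0 0) (P.cons (P.lf 490747 0 0) (P.cons (P.lf 0 192429 0) (P.cons (P.lf 0 40059 0) P.nil)))) (P.cons (P.cons (P.lf 0 333851 0) (P.cons (P.lf 0 116578 0) (P.cons (P.lf 41338 0 0) P.nil))) (P.cons (P.cons (P.lf 0 73209 0) (P.cons (P.lf 0 11694 0) P.nil)) (P.cons (P.cons (P.lf 2457 0 0) P.nil) P.nil)))))) 59418)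
 EL.nil))
noncomputable def S270_285_660_808_21 : EL := (EL.cons 4 (TM.mk (P.cons (P.cons (P.lf 839845032 0 0) (P.cons (P.lf 0 180311166 0) (P.cons (P.lf 77752206 0 0) (P.lf 8639130 0 0)))) (P.cons (P.cons (P.lf 0 685957524 0) (P.cons (P.lf 0 55144509 0) (P.cons (P.lf 23778936 0 0) (P.lf 2642103 0 0)))) (P.cons (P.cons (P.lf 0 31373586 0) (P.cons (P.lf 3887955 0 0) (P.cons (P.lf 0 1676526 0) (P.lf 0 186276 0)))) (P.cons (P.cons (P.lf 6214095 0 0) (P.cons (P.lf 356013 0 0) (P.cons (P.lf 0 153516 0) P.nil))) (P.cons (P.cons (P.lf 134319 0 0) (P.cons (P.lf 0 23565 0) P.nil)) (P.cons (P.cons (P.lf 0 26055 0) P.nil) P.nil)))))) 39123)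
 (EL.cons 8 (TM.mk (P.cons (P.cons (P.lf 94881678 0 0) (P.cons (P.lf 0 20370705 0) (P.cons (P.lf 8784078 0 0) (P.lf 976011 0 0)))) (P.cons (P.cons (P.lf 0 43809123 0) (P.cons (P.lf 0 13462437 0) (P.cons (P.lf 5805150 0 0) (P.lf 645012 0 0)))) (P.cons (P.cons (P.lf 0 30747165 0) (P.cons (P.lf 0 1839591 0) (P.cons (P.lf 793251 0 0) (P.lf 88137 0 0)))) (P.cons (P.cons (P.lf 0 772626 0) (P.cons (P.lf 167451 0 0) (P.cons (P.lf 0 72204 0) P.nil))) (P.cons (P.cons (P.lf 221979 0 0) (P.cons (P.lf 10410 0 0) P.nil)) (P.cons (P.cons (P.lf 2889 0 0) P.nil) P.nil)))))) 30219)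
 (EL.cons 11 (TM.mk (P.cons (P.cons (P.lf 1228309404 0 0) (P.cons (P.lf 0 1144283841 0) (P.cons (P.lf 0 117440745 0) (P.cons (P.lf 24424407 0 0) (P.lf 2035365 0 0))))) (P.cons (P.cons (P.lf 0 30224652 0) (P.cons (P.lf 28157058 0 0) (P.cons (P.lf 2889828 0 0) (P.cons (P.lf 0 601002 0) (P.lf 0 50082 0))))) (P.cons (P.cons (P.lf 0 4901514 0) (P.cons (P.lf 4566213 0 0) (P.cons (P.lf 468642 0 0) (P.cons (P.lf 0 97464 0) P.nil)))) (P.cons (P.cons (P.lf 125754 0 0) (P.cons (P.lf 0 117150 0) (P.cons (P.lf 0 12021 0) P.nil))) (P.cons (P.cons (P.lf 9513 0 0) (P.cons (P.lf 0 8862 0) P.nil)) (P.cons (P.cons (P.lf 0 288 0) P.nil) P.nil)))))) 12528)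
 EL.nil)))
noncomputable def S270_285_660_808_22 : EL := (EL.cons 4 (TM.mk (P.cons (P.cons (P.lf 0 518288316 0) (P.cons (P.lf 35981550 0 0) (P.cons (P.lf 649383 0 0) (P.cons (P.lf 0 15665049 0) (P.cons (P.lf 1456767 0 0) (P.cons (P.lf 667950 0 0) P.nil)))))) (P.cons (P.cons (P.lf 410376501 0 0) (P.cons (P.lf 101085723 0 0) (P.cons (P.lf 0 39242208 0) (P.cons (P.lf 0 8592285 0) (P.cons (P.lf 391752 0 0) P.nil))))) (P.cons (P.cons (P.lf 35179779 0 0) (P.cons (P.lf 0 1699323 0) (P.cons (P.lf 108642 0 0) (P.cons (P.lf 619668 0 0) P.nil)))) (P.cons (P.cons (P.lf 0 7457874 0) (P.cons (P.lf 0 1694571 0) (P.cons (P.lf 686883 0 0) P.nil))) (P.cons (P.cons (P.lf 0 540471 0) (P.cons (P.lf 31128 0 0) P.nil)) (P.cons (P.cons (P.lf 62325 0 0) P.nil) P.nil)))))) 762411)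
 (EL.cons 8 (TM.mk (P.cons (P.cons (P.lf 0 58553736 0) (P.cons (P.lf 4065030 0 0) (P.cons (P.lf 73362 0 0) (P.cons (P.lf 0 1769763 0) (P.cons (P.lf 164577 0 0) (P.cons (P.lf 75459 0 0) P.nil)))))) (P.cons (P.cons (P.lf 25573278 0 0) (P.cons (P.lf 12863439 0 0) (P.cons (P.lf 0 4407345 0) (P.cons (P.lf 0 1599054 0) (P.cons (P.lf 102690 0 0) P.nil))))) (P.cons (P.cons (P.lf 20242686 0 0) (P.cons (P.lf 3876027 0 0) (P.cons (P.lf 0 1561527 0) (P.cons (P.lf 0 280449 0) P.nil)))) (P.cons (P.cons (P.lf 697182 0 0) (P.cons (P.lf 0 220431 0) (P.cons (P.lf 67416 0 0) P.nil))) (P.cons (P.cons (P.lf 0 328725 0) (P.cons (P.lf 0 60432 0) P.nil)) (P.cons (P.cons (P.lf 0 15540 0) P.nil) P.nil)))))) 244242)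
 (EL.cons 11 (TM.mk (P.cons (P.cons (P.lf 0 758018910 0) (P.cons (P.lf 596045856 0 0) (P.cons (P.lf 222545901 0 0) (P.cons (P.lf 0 43504380 0) (P.cons (P.lf 0 12900945 0) (P.cons (P.lf 257283 0 0) P.nil)))))) (P.cons (P.cons (P.lf 0 279066 0) (P.cons (P.lf 7034133 0 0) (P.cons (P.lf 0 9205161 0) (P.cons (P.lf 1743462 0 0) (P.cons (P.lf 715890 0 0) P.nil))))) (P.cons (P.cons (P.lf 11163210 0 0) (P.cons (P.lf 0 9426018 0) (P.cons (P.lf 0 2394081 0) (P.cons (P.lf 473331 0 0) P.nil)))) (P.cons (P.cons (P.lf 69792 0 0) (P.cons (P.lf 0 133239 0) (P.cons (P.lf 86292 0 0) P.nil))) (P.cons (P.cons (P.lf 0 74487 0) (P.cons (P.lf 65262 0 0) P.nil)) (P.cons (P.cons (P.lf 0 75 0) P.nil) P.nil)))))) 552768)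
 EL.nil)))
noncomputable def S270_285_660_808_23 : EL := (EL.cons 4 (TM.mk (P.cons (P.cons (P.lf 139834833 0 0) (P.cons (P.lf 0 30021945 0) (P.cons (P.lf 12945801 0 0) (P.lf 1438419 0 0)))) (P.cons (P.cons (P.lf 0 66285489 0) (P.cons (P.lf 0 19471317 0) (P.cons (P.lf 8396250 0 0) (P.lf 932916 0 0)))) (P.cons (P.cons (P.lf 0 44809818 0) (P.cons (P.lf 0 2404881 0) (P.cons (P.lf 1037013 0 0) (P.lf 115224 0 0)))) (P.cons (P.cons (P.lf 0 443856 0) (P.cons (P.lf 320466 0 0) (P.cons (P.lf 0 138186 0) P.nil))) (P.cons (P.cons (P.lf 433650 0 0) (P.cons (P.lf 17355 0 0) P.nil)) (P.cons (P.cons (P.lf 1290 0 0) P.nil) P.nil)))))) 36789)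
 (EL.cons 8 (TM.mk (P.cons (P.cons (P.lf 15797871 0 0) (P.cons (P.lf 0 3391737 0) (P.cons (P.lf 1462554 0 0) (P.lf 162504 0 0)))) (P.cons (P.cons (P.lf 0 1879692 0) (P.cons (P.lf 0 3403989 0) (P.cons (P.lf 1467837 0 0) (P.lf 163092 0 0)))) (P.cons (P.cons (P.lf 0 7669272 0) (P.cons (P.lf 0 1063851 0) (P.cons (P.lf 458742 0 0) (P.lf 50970 0 0)))) (P.cons (P.cons (P.lf 0 1865727 0) (P.cons (P.lf 0 68856 0) (P.cons (P.lf 29691 0 0) P.nil))) (P.cons (P.cons (P.lf 11616 0 0) (P.cons (P.lf 13008 0 0) P.nil)) (P.cons (P.cons (P.lf 15285 0 0) P.nil) P.nil)))))) 18513)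
 (EL.cons 11 (TM.mk (P.cons (P.cons (P.lf 204514446 0 0) (P.cons (P.lf 0 190524126 0) (P.cons (P.lf 0 19553973 0) (P.cons (P.lf 4066680 0 0) (P.lf 338889 0 0))))) (P.cons (P.cons (P.lf 65062806 0 0) (P.cons (P.lf 0 60612021 0) (P.cons (P.lf 0 6220764 0) (P.cons (P.lf 1293744 0 0) (P.lf 107811 0 0))))) (P.cons (P.cons (P.lf 0 3185820 0) (P.cons (P.lf 2967885 0 0) (P.cons (P.lf 304599 0 0) (P.cons (P.lf 0 63348 0) P.nil)))) (P.cons (P.cons (P.lf 0 313518 0) (P.cons (P.lf 292071 0 0) (P.cons (P.lf 29976 0 0) P.nil))) (P.cons (P.cons (P.lf 14184 0 0) (P.cons (P.lf 0 13215 0) P.nil)) (P.cons (P.cons (P.lf 750 0 0) P.nil) P.nil)))))) 16587)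
 EL.nil)))
noncomputable def S270_285_660_808_24 : EL := (EL.cons 4 (TM.mk (P.cons (P.cons (P.lf 0 86295396 0) (P.cons (P.lf 5990955 0 0) (P.cons (P.lf 108120 0 0) (P.cons (P.lf 0 2608242 0) (P.cons (P.lf 242553 0 0) (P.cons (P.lf 111213 0 0) P.nil)))))) (P.cons (P.cons (P.lf 38751132 0 0) (P.cons (P.lf 18884187 0 0) (P.cons (P.lf 0 6496797 0) (P.cons (P.lf 0 2324568 0) (P.cons (P.lf 148359 0 0) P.nil))))) (P.cons (P.cons (P.lf 29548299 0 0) (P.cons (P.lf 5466771 0 0) (P.cons (P.lf 0 2221662 0) (P.cons (P.lf 0 378930 0) P.nil)))) (P.cons (P.cons (P.lf 580176 0 0) (P.cons (P.lf 0 434262 0) (P.cons (P.lf 141132 0 0) P.nil))) (P.cons (P.cons (P.lf 0 558114 0) (P.cons (P.lf 0 96405 0) P.nil)) (P.cons (P.cons (P.lf 0 18228 0) P.nil) P.nil)))))) 375024)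
 (EL.cons 8 (TM.mk (P.cons (P.cons (P.lf 0 9749241 0) (P.cons (P.lf 676830 0 0) (P.cons (P.lf 12213 0 0) (P.cons (P.lf 0 294666 0) (P.cons (P.lf 27402 0 0) (P.cons (P.lf 12564 0 0) P.nil)))))) (P.cons (P.cons (P.lf 916515 0 0) (P.cons (P.lf 2373747 0 0) (P.cons (P.lf 0 729639 0) (P.cons (P.lf 0 367236 0) (P.cons (P.lf 26490 0 0) P.nil))))) (P.cons (P.cons (P.lf 4860540 0 0) (P.cons (P.lf 1377297 0 0) (P.cons (P.lf 0 511545 0) (P.cons (P.lf 0 137016 0) P.nil)))) (P.cons (P.cons (P.lf 1261197 0 0) (P.cons (P.lf 177501 0 0) (P.cons (P.lf 0 75573 0) P.nil))) (P.cons (P.cons (P.lf 0 27096 0) (P.cons (P.lf 0 25410 0) P.nil)) (P.cons (P.cons (P.lf 0 22854 0) P.nil) P.nil)))))) 106662)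
 (EL.cons 11 (TM.mk (P.cons (P.cons (P.lf 0 126210723 0) (P.cons (P.lf 99242085 0 0) (P.cons (P.lf 37054059 0 0) (P.cons (P.lf 0 7243512 0) (P.cons (P.lf 0 2148015 0) (P.cons (P.lf 42837 0 0) P.nil)))))) (P.cons (P.cons (P.lf 0 43303896 0) (P.cons (P.lf 35185398 0 0) (P.cons (P.lf 11167233 0 0) (P.cons (P.lf 0 2192349 0) (P.cons (P.lf 0 617013 0) P.nil))))) (P.cons (P.cons (P.lf 2240742 0 0) (P.cons (P.lf 0 1480968 0) (P.cons (P.lf 0 1040763 0) (P.cons (P.lf 201144 0 0) P.nil)))) (P.cons (P.cons (P.lf 692388 0 0) (P.cons (P.lf 0 598050 0) (P.cons (P.lf 0 130212 0) P.nil))) (P.cons (P.cons (P.lf 0 14952 0) (P.cons (P.lf 8349 0 0) P.nil)) (P.cons (P.cons (P.lf 0 4983 0) P.nil) P.nil)))))) 296802)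
 EL.nil)))
noncomputable def S270_285_660_808_25 : EL := (EL.cons 4 (TM.mk (P.cons (P.cons (P.lf 23282604 0 0) (P.cons (P.lf 0 4998675 0) (P.cons (P.lf 2155485 0 0) (P.lf 239496 0 0)))) (P.cons (P.cons (P.lf 0 3056709 0) (P.cons (P.lf 0 4955232 0) (P.cons (P.lf 2136750 0 0) (P.lf 237414 0 0)))) (P.cons (P.cons (P.lf 0 11316963 0) (P.cons (P.lf 0 1495809 0) (P.cons (P.lf 645009 0 0) (P.lf 71667 0 0)))) (P.cons (P.cons (P.lf 0 2604273 0) (P.cons (P.lf 0 71931 0) (P.cons (P.lf 31017 0 0) P.nil))) (P.cons (P.cons (P.lf 74337 0 0) (P.cons (P.lf 23532 0 0) P.nil)) (P.cons (P.cons (P.lf 27717 0 0) P.nil) P.nil)))))) 30696)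
 (EL.cons 8 (TM.mk (P.cons (P.cons (P.lf 2630355 0 0) (P.cons (P.lf 0 564726 0) (P.cons (P.lf 243516 0 0) (P.lf 27057 0 0)))) (P.cons (P.cons (P.lf 588555 0 0) (P.cons (P.lf 0 760320 0) (P.cons (P.lf 327858 0 0) (P.lf 36426 0 0)))) (P.cons (P.cons (P.lf 0 1392501 0) (P.cons (P.lf 0 369603 0) (P.cons (P.lf 159375 0 0) (P.lf 17706 0 0)))) (P.cons (P.cons (P.lf 0 748224 0) (P.cons (P.lf 0 70191 0) (P.cons (P.lf 30267 0 0) P.nil))) (P.cons (P.cons (P.lf 0 100386 0) (P.cons (P.lf 0 1011 0) P.nil)) (P.cons (P.cons (P.lf 4626 0 0) P.nil) P.nil)))))) 12345)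
 (EL.cons 11 (TM.mk (P.cons (P.cons (P.lf 34051809 0 0) (P.cons (P.lf 0 31722411 0) (P.cons (P.lf 0 3255750 0) (P.cons (P.lf 677103 0 0) (P.lf 56424 0 0))))) (P.cons (P.cons (P.lf 22503915 0 0) (P.cons (P.lf 0 20964480 0) (P.cons (P.lf 0 2151636 0) (P.cons (P.lf 447480 0 0) (P.lf 37290 0 0))))) (P.cons (P.cons (P.lf 3075081 0 0) (P.cons (P.lf 0 2864724 0) (P.cons (P.lf 0 294012 0) (P.cons (P.lf 61146 0 0) P.nil)))) (P.cons (P.cons (P.lf 0 279921 0) (P.cons (P.lf 260772 0 0) (P.cons (P.lf 26763 0 0) P.nil))) (P.cons (P.cons (P.lf 0 17409 0) (P.cons (P.lf 16218 0 0) P.nil)) (P.cons (P.cons (P.lf 1350 0 0) P.nil) P.nil)))))) 18573)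
 EL.nil)))
noncomputable def S270_285_660_808_26 : EL := (EL.cons 4 (TM.mk (P.cons (P.cons (P.lf 0 14368248 0) (P.cons (P.lf 997497 0 0) (P.cons (P.lf 18000 0 0) (P.cons (P.lf 0 434274 0) (P.cons (P.lf 40383 0 0) (P.cons (P.lf 18516 0 0) P.nil)))))) (P.cons (P.cons (P.lf 1527522 0 0) (P.cons (P.lf 3486114 0 0) (P.cons (P.lf 0 1075551 0) (P.cons (P.lf 0 535884 0) (P.cons (P.lf 38541 0 0) P.nil))))) (P.cons (P.cons (P.lf 7176510 0 0) (P.cons (P.lf 1984728 0 0) (P.cons (P.lf 0 740712 0) (P.cons (P.lf 0 194376 0) P.nil)))) (P.cons (P.cons (P.lf 1767429 0 0) (P.cons (P.lf 229404 0 0) (P.cons (P.lf 0 99876 0) P.nil))) (P.cons (P.cons (P.lf 0 77637 0) (P.cons (P.lf 0 44784 0) P.nil)) (P.cons (P.cons (P.lf 0 36855 0) P.nil) P.nil)))))) 162609)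
 (EL.cons 8 (TM.mk (P.cons (P.cons (P.lf 0 1623255 0) (P.cons (P.lf 112692 0 0) (P.cons (P.lf 2031 0 0) (P.cons (P.lf 0 49062 0) (P.cons (P.lf 4560 0 0) (P.cons (P.lf 2091 0 0) P.nil)))))) (P.cons (P.cons (P.lf 0 403752 0) (P.cons (P.lf 433854 0 0) (P.cons (P.lf 0 120786 0) (P.cons (P.lf 0 77961 0) (P.cons (P.lf 5973 0 0) P.nil))))) (P.cons (P.cons (P.lf 866703 0 0) (P.cons (P.lf 364425 0 0) (P.cons (P.lf 0 126816 0) (P.cons (P.lf 0 43614 0) P.nil)))) (P.cons (P.cons (P.lf 487443 0 0) (P.cons (P.lf 106866 0 0) (P.cons (P.lf 0 41391 0) P.nil))) (P.cons (P.cons (P.lf 64845 0 0) (P.cons (P.lf 5037 0 0) P.nil)) (P.cons (P.cons (P.lf 0 6291 0) P.nil) P.nil)))))) 43749)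
 (EL.cons 11 (TM.mk (P.cons (P.cons (P.lf 0 21014181 0) (P.cons (P.lf 16523880 0 0) (P.cons (P.lf 6169527 0 0) (P.cons (P.lf 0 1206048 0) (P.cons (P.lf 0 357645 0) (P.cons (P.lf 7131 0 0) P.nil)))))) (P.cons (P.cons (P.lf 0 14412525 0) (P.cons (P.lf 11521785 0 0) (P.cons (P.lf 3973893 0 0) (P.cons (P.lf 0 778389 0) (P.cons (P.lf 0 225312 0) P.nil))))) (P.cons (P.cons (P.lf 0 2031846 0) (P.cons (P.lf 1709214 0 0) (P.cons (P.lf 444528 0 0) (P.cons (P.lf 0 87813 0) P.nil)))) (P.cons (P.cons (P.lf 273144 0 0) (P.cons (P.lf 0 208266 0) (P.cons (P.lf 0 89064 0) P.nil))) (P.cons (P.cons (P.lf 38220 0 0) (P.cons (P.lf 0 33891 0) P.nil)) (P.cons (P.cons (P.lf 0 2220 0) P.nil) P.nil)))))) 138738)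
 EL.nil)))
noncomputable def S270_285_660_808_27 : EL := (EL.cons 13 (TM.mk (P.lf 0 4294967296 0) 0)
 EL.nil)
noncomputable def S270_285_660_808_28 : EL := (EL.cons 13 (TM.mk (P.cons (P.cons (P.lf 2650526341 0 0) (P.cons (P.lf 385047116 0 0) (P.cons (P.lf 0 166036660 0) (P.lf 0 18448516 0)))) (P.cons (P.cons (P.lf 66196529 0 0) (P.cons (P.lf 0 14212112 0) (P.cons (P.lf 6128420 0 0) (P.lf 680932 0 0)))) (P.cons (P.cons (P.lf 0 26828149 0) (P.cons (P.lf 0 2217340 0) (P.cons (P.lf 956140 0 0) (P.lf 106236 0 0)))) (P.cons (P.cons (P.lf 0 911401 0) (P.cons (P.lf 87844 0 0) (P.cons (P.lf 0 37876 0) P.nil))) (P.cons (P.cons (P.lf 103672 0 0) (P.cons (P.lf 6220 0 0) P.nil)) (P.cons (P.cons (P.lf 2042 0 0) P.nil) P.nil)))))) 9093)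
 EL.nil)
noncomputable def S270_285_660_808_29 : EL := (EL.cons 13 (TM.mk (P.cons (P.cons (P.lf 0 1635702765 0) (P.cons (P.lf 0 475243443 0) (P.cons (P.lf 170410564 0 0) (P.cons (P.lf 52540663 0 0) (P.cons (P.lf 0 3110868 0) (P.cons (P.lf 0 1426381 0) P.nil)))))) (P.cons (P.cons (P.lf 0 81702900 0) (P.cons (P.lf 5672124 0 0) (P.cons (P.lf 102373 0 0) (P.cons (P.lf 0 2469430 0) (P.cons (P.lf 229645 0 0) P.nil))))) (P.cons (P.cons (P.lf 32092316 0 0) (P.cons (P.lf 7985165 0 0) (P.cons (P.lf 0 3092746 0) (P.cons (P.lf 0 684902 0) P.nil)))) (P.cons (P.cons (P.lf 1951876 0 0) (P.cons (P.lf 0 54205 0) (P.cons (P.lf 0 7055 0) P.nil))) (P.cons (P.cons (P.lf 0 267442 0) (P.cons (P.lf 0 62705 0) P.nil)) (P.cons (P.cons (P.lf 0 17102 0) P.nil) P.nil)))))) 442388)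
 EL.nil)
noncomputable def S270_285_660_808_30 : EL := (EL.cons 13 (TM.mk (P.cons (P.lf 0 715115316 0) (P.cons (P.lf 0 245098456 0) (P.cons (P.lf 2255000 0 0) (P.cons (P.lf 246912 0 0) (P.cons (P.lf 0 3900 0) (P.cons (P.lf 0 236 0) P.nil)))))) 40)
 EL.nil)
noncomputable def S270_285_660_808_31 : EL := (EL.cons 13 (TM.mk (P.cons (P.cons (P.lf 441314648 0 0) (P.cons (P.lf 64110637 0 0) (P.cons (P.lf 0 27645229 0) (P.lf 0 3071691 0)))) (P.cons (P.cons (P.lf 162277851 0 0) (P.cons (P.lf 19606937 0 0) (P.cons (P.lf 0 8454733 0) (P.lf 0 939415 0)))) (P.cons (P.cons (P.lf 0 2080921 0) (P.cons (P.lf 0 1382385 0) (P.cons (P.lf 596099 0 0) (P.lf 66232 0 0)))) (P.cons (P.cons (P.lf 0 1869866 0) (P.cons (P.lf 0 126583 0) (P.cons (P.lf 54584 0 0) P.nil))) (P.cons (P.cons (P.lf 0 22062 0) (P.cons (P.lf 8379 0 0) P.nil)) (P.cons (P.cons (P.lf 8482 0 0) P.nil) P.nil)))))) 13783)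
 EL.nil)
noncomputable def S270_285_660_808_32 : EL := (EL.cons 13 (TM.mk (P.cons (P.cons (P.lf 0 272345752 0) (P.cons (P.lf 0 79128394 0) (P.cons (P.lf 28373488 0 0) (P.cons (P.lf 8748060 0 0) (P.cons (P.lf 0 517961 0) (P.cons (P.lf 0 237493 0) P.nil)))))) (P.cons (P.cons (P.lf 0 106947314 0) (P.cons (P.lf 0 26176034 0) (P.cons (P.lf 9741767 0 0) (P.cons (P.lf 2587146 0 0) (P.cons (P.lf 0 139290 0) P.nil))))) (P.cons (P.cons (P.lf 1539700 0 0) (P.cons (P.lf 1902742 0 0) (P.cons (P.lf 0 598573 0) (P.cons (P.lf 0 282543 0) P.nil)))) (P.cons (P.cons (P.lf 2293313 0 0) (P.cons (P.lf 471002 0 0) (P.cons (P.lf 0 187517 0) P.nil))) (P.cons (P.cons (P.lf 53219 0 0) (P.cons (P.lf 0 18483 0) P.nil)) (P.cons (P.cons (P.lf 0 21143 0) P.nil) P.nil)))))) 248305)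
 EL.nil)
noncomputable def S270_285_660_808_33 : EL := (EL.cons 14 (TM.mk (P.lf 8589934592 0 0) 0)
 EL.nil)
noncomputable def S270_285_660_808_34 : EL := (EL.cons 14 (TM.mk (P.cons (P.cons (P.lf 0 5301052682 0) (P.cons (P.lf 0 770094232 0) (P.cons (P.lf 332073320 0 0) (P.lf 36897032 0 0)))) (P.cons (P.cons (P.lf 0 132393058 0) (P.cons (P.lf 28424224 0 0) (P.cons (P.lf 0 12256840 0) (P.lf 0 1361864 0)))) (P.cons (P.cons (P.lf 53656298 0 0) (P.cons (P.lf 4434680 0 0) (P.cons (P.lf 0 1912280 0) (P.lf 0 212472 0)))) (P.cons (P.cons (P.lf 1822802 0 0) (P.cons (P.lf 0 175688 0) (P.cons (P.lf 75752 0 0) P.nil))) (P.cons (P.cons (P.lf 0 207344 0) (P.cons (P.lf 0 12440 0) P.nil)) (P.cons (P.cons (P.lf 0 4084 0) P.nil) P.nil)))))) 18186)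
 EL.nil)
noncomputable def S270_285_660_808_35 : EL := (EL.cons 14 (TM.mk (P.cons (P.cons (P.lf 3271405530 0 0) (P.cons (P.lf 950486886 0 0) (P.cons (P.lf 0 340821128 0) (P.cons (P.lf 0 105081326 0) (P.cons (P.lf 6221736 0 0) (P.cons (P.lf 2852762 0 0) P.nil)))))) (P.cons (P.cons (P.lf 163405800 0 0) (P.cons (P.lf 0 11344248 0) (P.cons (P.lf 0 204746 0) (P.cons (P.lf 4938860 0 0) (P.cons (P.lf 0 459290 0) P.nil))))) (P.cons (P.cons (P.lf 0 64184632 0) (P.cons (P.lf 0 15970330 0) (P.cons (P.lf 6185492 0 0) (P.cons (P.lf 1369804 0 0) P.nil)))) (P.cons (P.cons (P.lf 0 3903752 0) (P.cons (P.lf 108410 0 0) (P.cons (P.lf 14110 0 0) P.nil))) (P.cons (P.cons (P.lf 534884 0 0) (P.cons (P.lf 125410 0 0) P.nil)) (P.cons (P.cons (P.lf 34204 0 0) P.nil) P.nil)))))) 884776)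
 EL.nil)
noncomputable def S270_285_660_808_36 : EL := (EL.cons 14 (TM.mk (P.cons (P.lf 1430230632 0 0) (P.cons (P.lf 490196912 0 0) (P.cons (P.lf 0 4510000 0) (P.cons (P.lf 0 493824 0) (P.cons (P.lf 7800 0 0) (P.cons (P.lf 472 0 0) P.nil)))))) 80)
 EL.nil)
noncomputable def S270_285_660_808_37 : EL := (EL.cons 14 (TM.mk (P.cons (P.cons (P.lf 0 882629296 0) (P.cons (P.lf 0 128221274 0) (P.cons (P.lf 55290458 0 0) (P.lf 6143382 0 0)))) (P.cons (P.cons (P.lf 0 324555702 0) (P.cons (P.lf 0 39213874 0) (P.cons (P.lf 16909466 0 0) (P.lf 1878830 0 0)))) (P.cons (P.cons (P.lf 4161842 0 0) (P.cons (P.lf 2764770 0 0) (P.cons (P.lf 0 1192198 0) (P.lf 0 132464 0)))) (P.cons (P.cons (P.lf 3739732 0 0) (P.cons (P.lf 253166 0 0) (P.cons (P.lf 0 109168 0) P.nil))) (P.cons (P.cons (P.lf 44124 0 0) (P.cons (P.lf 0 16758 0) P.nil)) (P.cons (P.cons (P.lf 0 16964 0) P.nil) P.nil)))))) 27566)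
 EL.nil)
noncomputable def S270_285_660_808_38 : EL := (EL.cons 14 (TM.mk (P.cons (P.cons (P.lf 544691504 0 0) (P.cons (P.lf 158256788 0 0) (P.cons (P.lf 0 56746976 0) (P.cons (P.lf 0 17496120 0) (P.cons (P.lf 1035922 0 0) (P.cons (P.lf 474986 0 0) P.nil)))))) (P.cons (P.cons (P.lf 213894628 0 0) (P.cons (P.lf 52352068 0 0) (P.cons (P.lf 0 19483534 0) (P.cons (P.lf 0 5174292 0) (P.cons (P.lf 278580 0 0) P.nil))))) (P.cons (P.cons (P.lf 0 3079400 0) (P.cons (P.lf 0 3805484 0) (P.cons (P.lf 1197146 0 0) (P.cons (P.lf 565086 0 0) P.nil)))) (P.cons (P.cons (P.lf 0 4586626 0) (P.cons (P.lf 0 942004 0) (P.cons (P.lf 375034 0 0) P.nil))) (P.cons (P.cons (P.lf 0 106438 0) (P.cons (P.lf 36966 0 0) P.nil)) (P.cons (P.cons (P.lf 42286 0 0) P.nil) P.nil)))))) 496610)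
 EL.nil)
noncomputable def S270_285_660_808_39 : EL := (EL.cons 14 (TM.mk (P.cons (P.lf 238134486 0 0) (P.cons (P.lf 163236316 0 0) (P.cons (P.lf 26471950 0 0) (P.cons (P.lf 0 679182 0) (P.cons (P.lf 0 51396 0) (P.cons (P.lf 1564 0 0) P.nil)))))) 140)
 EL.nil)
noncomputable def S270_285_660_808_40 : EL := (EL.cons 14 (TM.mk (P.cons (P.cons (P.lf 0 146958446 0) (P.cons (P.lf 0 21348938 0) (P.cons (P.lf 9205902 0 0) (P.lf 1022878 0 0)))) (P.cons (P.cons (P.lf 0 104407274 0) (P.cons (P.lf 0 13846270 0) (P.cons (P.lf 5970668 0 0) (P.lf 663406 0 0)))) (P.cons (P.cons (P.lf 0 17364874 0) (P.cons (P.lf 0 1710138 0) (P.cons (P.lf 737430 0 0) (P.lf 81936 0 0)))) (P.cons (P.cons (P.lf 1081312 0 0) (P.cons (P.lf 227886 0 0) (P.cons (P.lf 0 98266 0) P.nil))) (P.cons (P.cons (P.lf 236430 0 0) (P.cons (P.lf 12342 0 0) P.nil)) (P.cons (P.cons (P.lf 0 2850 0) P.nil) P.nil)))))) 26832)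
 EL.nil)
noncomputable def S270_285_660_808_41 : EL := (EL.cons 14 (TM.mk (P.cons (P.cons (P.lf 90691548 0 0) (P.cons (P.lf 26349874 0 0) (P.cons (P.lf 0 9448414 0) (P.cons (P.lf 0 2913116 0) (P.cons (P.lf 172482 0 0) (P.cons (P.lf 79084 0 0) P.nil)))))) (P.cons (P.cons (P.lf 66697218 0 0) (P.cons (P.lf 17747808 0 0) (P.cons (P.lf 0 6482370 0) (P.cons (P.lf 0 1859964 0) (P.cons (P.lf 105500 0 0) P.nil))))) (P.cons (P.cons (P.lf 11407498 0 0) (P.cons (P.lf 2270838 0 0) (P.cons (P.lf 0 882734 0) (P.cons (P.lf 0 192004 0) P.nil)))) (P.cons (P.cons (P.lf 0 1083022 0) (P.cons (P.lf 0 410594 0) (P.cons (P.lf 144252 0 0) P.nil))) (P.cons (P.cons (P.lf 0 289648 0) (P.cons (P.lf 0 48468 0) P.nil)) (P.cons (P.cons (P.lf 3774 0 0) P.nil) P.nil)))))) 222326)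
 EL.nil)
noncomputable def S270_285_660_808_42 : EL := (EL.cons 14 (TM.mk (P.cons (P.lf 39649572 0 0) (P.cons (P.lf 40768454 0 0) (P.cons (P.lf 13597884 0 0) (P.cons (P.lf 1298180 0 0) (P.cons (P.lf 0 70382 0) (P.cons (P.lf 0 3676 0) P.nil)))))) 242)
 EL.nil)
noncomputable def S270_285_660_808_43 : EL := (EL.cons 14 (TM.mk (P.cons (P.cons (P.lf 0 24468692 0) (P.cons (P.lf 0 3554614 0) (P.cons (P.lf 1532788 0 0) (P.lf 170308 0 0)))) (P.cons (P.cons (P.lf 0 25770282 0) (P.cons (P.lf 0 3523722 0) (P.cons (P.lf 1519468 0 0) (P.lf 168828 0 0)))) (P.cons (P.cons (P.lf 0 8772256 0) (P.cons (P.lf 0 1063686 0) (P.cons (P.lf 458674 0 0) (P.lf 50962 0 0)))) (P.cons (P.cons (P.lf 0 747644 0) (P.cons (P.lf 0 51150 0) (P.cons (P.lf 22056 0 0) P.nil))) (P.cons (P.cons (P.lf 116058 0 0) (P.cons (P.lf 16734 0 0) P.nil)) (P.cons (P.cons (P.lf 13344 0 0) P.nil) P.nil)))))) 21586)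
 EL.nil)
noncomputable def S270_285_660_808_44 : EL := (EL.cons 14 (TM.mk (P.cons (P.cons (P.lf 15100210 0 0) (P.cons (P.lf 4387274 0 0) (P.cons (P.lf 0 1573168 0) (P.cons (P.lf 0 485036 0) (P.cons (P.lf 28718 0 0) (P.cons (P.lf 13166 0 0) P.nil)))))) (P.cons (P.cons (P.lf 16280578 0 0) (P.cons (P.lf 4458716 0 0) (P.cons (P.lf 0 1618506 0) (P.cons (P.lf 0 475926 0) (P.cons (P.lf 27408 0 0) P.nil))))) (P.cons (P.cons (P.lf 5657912 0 0) (P.cons (P.lf 1377064 0 0) (P.cons (P.lf 0 511940 0) (P.cons (P.lf 0 136580 0) P.nil)))) (P.cons (P.cons (P.lf 430428 0 0) (P.cons (P.lf 50390 0 0) (P.cons (P.lf 0 22408 0) P.nil))) (P.cons (P.cons (P.lf 0 119772 0) (P.cons (P.lf 0 33688 0) P.nil)) (P.cons (P.cons (P.lf 0 15922 0) P.nil) P.nil)))))) 96926)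
 EL.nil)
noncomputable def S270_285_660_808_45 : EL := (EL.cons 14 (TM.mk (P.cons (P.cons (P.lf 0 2018862060 0) (P.cons (P.lf 0 879852052 0) (P.cons (P.lf 251584310 0 0) (P.cons (P.lf 146199310 0 0) (P.cons (P.lf 0 3511864 0) (P.cons (P.lf 0 7844524 0) P.nil)))))) (P.cons (P.cons (P.lf 0 151262400 0) (P.cons (P.lf 0 11472974 0) (P.cons (P.lf 11190576 0 0) (P.cons (P.lf 0 4149288 0) (P.cons (P.lf 0 323964 0) P.nil))))) (P.cons (P.cons (P.lf 57525912 0 0) (P.cons (P.lf 23951474 0 0) (P.cons (P.lf 0 7500764 0) (P.cons (P.lf 0 3504324 0) P.nil)))) (P.cons (P.cons (P.lf 5113248 0 0) (P.cons (P.lf 465112 0 0) (P.cons (P.lf 0 332362 0) P.nil))) (P.cons (P.cons (P.lf 0 715136 0) (P.cons (P.lf 0 306258 0) P.nil)) (P.cons (P.cons (P.lf 0 72856 0) P.nil) P.nil)))))) 3564414)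
 EL.nil)
noncomputable def S270_285_660_808_46 : EL := (EL.cons 15 (TM.mk (P.lf 4294967296 0 0) 0)
 EL.nil)
noncomputable def S270_285_660_808_47 : EL := (EL.cons 15 (TM.mk (P.cons (P.cons (P.lf 0 2650526341 0) (P.cons (P.lf 0 385047116 0) (P.cons (P.lf 166036660 0 0) (P.lf 18448516 0 0)))) (P.cons (P.cons (P.lf 0 66196529 0) (P.cons (P.lf 14212112 0 0) (P.cons (P.lf 0 6128420 0) (P.lf 0 680932 0)))) (P.cons (P.cons (P.lf 26828149 0 0) (P.cons (P.lf 2217340 0 0) (P.cons (P.lf 0 956140 0) (P.lf 0 106236 0)))) (P.cons (P.cons (P.lf 911401 0 0) (P.cons (P.lf 0 87844 0) (P.cons (P.lf 37876 0 0) P.nil))) (P.cons (P.cons (P.lf 0 103672 0) (P.cons (P.lf 0 6220 0) P.nil)) (P.cons (P.cons (P.lf 0 2042 0) P.nil) P.nil)))))) 9093)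
 EL.nil)
noncomputable def S270_285_660_808_48 : EL := (EL.cons 15 (TM.mk (P.cons (P.cons (P.lf 1635702765 0 0) (P.cons (P.lf 475243443 0 0) (P.cons (P.lf 0 170410564 0) (P.cons (P.lf 0 52540663 0) (P.cons (P.lf 3110868 0 0) (P.cons (P.lf 1426381 0 0) P.nil)))))) (P.cons (P.cons (P.lf 81702900 0 0) (P.cons (P.lf 0 5672124 0) (P.cons (P.lf 0 102373 0) (P.cons (P.lf 2469430 0 0) (P.cons (P.lf 0 229645 0) P.nil))))) (P.cons (P.cons (P.lf 0 32092316 0) (P.cons (P.lf 0 7985165 0) (P.cons (P.lf 3092746 0 0) (P.cons (P.lf 684902 0 0) P.nil)))) (P.cons (P.cons (P.lf 0 1951876 0) (P.cons (P.lf 54205 0 0) (P.cons (P.lf 7055 0 0) P.nil))) (P.cons (P.cons (P.lf 267442 0 0) (P.cons (P.lf 62705 0 0) P.nil)) (P.cons (P.cons (P.lf 17102 0 0) P.nil) P.nil)))))) 442388)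
 EL.nil)
noncomputable def S270_285_660_808 : SL := (SL.cons S270_285_660_808_0 (SL.cons S270_285_660_808_1 (SL.cons S270_285_660_808_2 (SL.cons S270_285_660_808_3 (SL.cons S270_285_660_808_4 (SL.cons S270_285_660_808_5 (SL.cons S270_285_660_808_6 (SL.cons S270_285_660_808_7 (SL.cons S270_285_660_808_8 (SL.cons S270_285_660_808_9 (SL.cons S270_285_660_808_10 (SL.cons S270_285_660_808_11 (SL.cons S270_285_660_808_12 (SL.cons S270_285_660_808_13 (SL.cons S270_285_660_808_14 (SL.cons S270_285_660_808_15 (SL.cons S270_285_660_808_16 (SL.cons S270_285_660_808_17 (SL.cons S270_285_660_808_18 (SL.cons S270_285_660_808_19 (SL.cons S270_285_660_808_20 (SL.cons S270_285_660_808_21 (SL.cons S270_285_660_808_22 (SL.cons S270_285_660_808_23 (SL.cons S270_285_660_808_24 (SL.cons S270_285_660_808_25 (SL.cons S270_285_660_808_26 (SL.cons S270_285_660_808_27 (SL.cons S270_285_660_808_28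 (SL.cons S270_285_660_808_29 (SL.cons S270_285_660_808_30 (SL.cons S270_285_660_808_31 (SL.cons S270_285_660_808_32 (SL.cons S270_285_660_808_33 (SL.cons S270_285_660_808_34 (SL.cons S270_285_660_808_35 (SL.cons S270_285_660_808_36 (SL.cons S270_285_660_808_37 (SL.cons S270_285_660_808_38 (SL.cons S270_285_660_808_39 (SL.cons S270_285_660_808_40 (SL.cons S270_285_660_808_41 (SL.cons S270_285_660_808_42 (SL.cons S270_285_660_808_43 (SL.cons S270_285_660_808_44 (SL.cons S270_285_660_808_45 (SL.cons S270_285_660_808_46 (SL.cons S270_285_660_808_47 (SL.cons S270_285_660_808_48 SL.nil)))))))))))))))))))))))))))))))))))))))))))))))))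
noncomputable def S285_314_216_290_0 : EL := (EL.cons 0 (TM.mk (P.cons (P.lf 7643457911 0 0) (P.cons (P.lf 0 503779721 0) (P.cons (P.lf 0 60126632 0) (P.cons (P.lf 7110123 0 0) (P.cons (P.lf 270363 0 0) (P.cons (P.lf 0 53070 0) P.nil)))))) 3984)
 (EL.cons 1 (TM.mk (P.cons (P.lf 1228710643 0 0) (P.cons (P.lf 321830180 0 0) (P.cons (P.lf 0 40457490 0) (P.cons (P.lf 0 2710608 0) (P.cons (P.lf 384633 0 0) (P.cons (P.lf 7027 0 0) P.nil)))))) 2881)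
 (EL.cons 5 (TM.mk (P.cons (P.lf 4583770480 0 0) (P.cons (P.lf 179121676 0 0) (P.cons (P.lf 21378358 0 0) (P.cons (P.lf 0 2528040 0) (P.cons (P.lf 0 96128 0) (P.cons (P.lf 18870 0 0) P.nil)))))) 1697)
 (EL.cons 9 (TM.mk (P.lf 6442450944 0 0) 2)
 EL.nil))))
noncomputable def S285_314_216_290_1 : EL := (EL.cons 0 (TM.mk (P.cons (P.cons (P.lf 744278499 0 0) (P.cons (P.lf 0 105579791 0) (P.cons (P.lf 0 49840131 0) (P.lf 2373343 0 0)))) (P.cons (P.cons (P.lf 0 689824038 0) (P.cons (P.lf 56124216 0 0) (P.cons (P.lf 26494057 0 0) (P.lf 0 1261616 0)))) (P.cons (P.cons (P.lf 386060567 0 0) (P.cons (P.lf 423944 0 0) (P.cons (P.lf 200127 0 0) (P.lf 0 9532 0)))) (P.cons (P.cons (P.lf 17102472 0 0) (P.cons (P.lf 0 2153444 0) (P.cons (P.lf 0 1016553 0) P.nil))) (P.cons (P.cons (P.lf 0 14281338 0) (P.cons (P.lf 108523 0 0) P.nil)) (P.cons (P.cons (P.lf 287303 0 0) P.nil) P.nil))))))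 589579)
 (EL.cons 1 (TM.mk (P.cons (P.cons (P.lf 1204021634 0 0) (P.cons (P.lf 0 56481640 0) (P.cons (P.lf 0 26662787 0) (P.lf 1269653 0 0)))) (P.cons (P.cons (P.lf 0 475632789 0) (P.cons (P.lf 0 2467926 0) (P.cons (P.lf 0 1165012 0) (P.lf 55474 0 0)))) (P.cons (P.cons (P.lf 0 50632392 0) (P.cons (P.lf 6162151 0 0) (P.cons (P.lf 2908905 0 0) (P.lf 0 138513 0)))) (P.cons (P.cons (P.lf 44313975 0 0) (P.cons (P.lf 0 276739 0) (P.cons (P.lf 0 130639 0) P.nil))) (P.cons (P.cons (P.lf 0 355262 0) (P.cons (P.lf 0 156986 0) P.nil)) (P.cons (P.cons (P.lf 0 1058405 0) P.nil) P.nil)))))) 305440)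
 (EL.cons 5 (TM.mk (P.cons (P.cons (P.lf 1741834537 0 0) (P.cons (P.lf 0 110517404 0) (P.cons (P.lf 0 52170978 0) (P.lf 2484334 0 0)))) (P.cons (P.cons (P.lf 0 342142103 0) (P.cons (P.lf 1447164 0 0) (P.cons (P.lf 683154 0 0) (P.lf 0 32540 0)))) (P.cons (P.cons (P.lf 0 39754175 0) (P.cons (P.lf 1888026 0 0) (P.cons (P.lf 891266 0 0) (P.lf 0 42438 0)))) (P.cons (P.cons (P.lf 8418960 0 0) (P.cons (P.lf 332236 0 0) (P.cons (P.lf 156836 0 0) P.nil))) (P.cons (P.cons (P.lf 3011011 0 0) (P.cons (P.lf 0 46120 0) P.nil)) (P.cons (P.cons (P.lf 0 189077 0) P.nil) P.nil)))))) 285024)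
 (EL.cons 9 (TM.mk (P.cons (P.cons (P.lf 1770411957 0 0) (P.cons (P.lf 0 130638426 0) (P.cons (P.lf 0 61669332 0) (P.lf 2936634 0 0)))) (P.cons (P.cons (P.lf 0 518305471 0) (P.cons (P.lf 18884502 0 0) (P.cons (P.lf 8914638 0 0) (P.lf 0 424506 0)))) (P.cons (P.cons (P.lf 86039818 0 0) (P.cons (P.lf 1798908 0 0) (P.cons (P.lf 849192 0 0) (P.lf 0 40434 0)))) (P.cons (P.cons (P.lf 12793962 0 0) (P.cons (P.lf 0 382434 0) (P.cons (P.lf 0 180534 0) P.nil))) (P.cons (P.cons (P.lf 0 1823644 0) (P.cons (P.lf 0 6648 0) P.nil)) (P.cons (P.cons (P.lf 0 76701 0) P.nil) P.nil)))))) 59990)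
 (EL.cons 2 (TM.mk (P.cons (P.cons (P.lf 0 173690381 0) (P.cons (P.lf 0 171266040 0) (P.cons (P.lf 5359078 0 0) (P.cons (P.lf 982029 0 0) (P.lf 0 35071 0))))) (P.cons (P.cons (P.lf 0 37124572 0) (P.cons (P.lf 0 36606394 0) (P.cons (P.lf 1145446 0 0) (P.cons (P.lf 209896 0 0) (P.lf 0 7495 0))))) (P.cons (P.cons (P.lf 9111715 0 0) (P.cons (P.lf 8984536 0 0) (P.cons (P.lf 0 281131 0) (P.cons (P.lf 0 51513 0) P.nil)))) (P.cons (P.cons (P.lf 361769 0 0) (P.cons (P.lf 356720 0 0) (P.cons (P.lf 0 11160 0) P.nil))) (P.cons (P.cons (P.lf 0 131397 0) (P.cons (P.lf 0 129563 0) P.nil)) (P.cons (P.cons (P.lf 419 0 0) P.nil) P.nil)))))) 27355)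
 (EL.cons 6 (TM.mk (P.cons (P.cons (P.lf 262742835 0 0) (P.cons (P.lf 259075515 0 0) (P.cons (P.lf 0 8106720 0) (P.cons (P.lf 0 1485522 0) (P.lf 53052 0 0))))) (P.cons (P.cons (P.lf 0 37980924 0) (P.cons (P.lf 0 37450794 0) (P.cons (P.lf 1171869 0 0) (P.cons (P.lf 214740 0 0) (P.lf 0 7668 0))))) (P.cons (P.cons (P.lf 0 3618003 0) (P.cons (P.lf 0 3567504 0) (P.cons (P.lf 111627 0 0) (P.cons (P.lf 20454 0 0) P.nil)))) (P.cons (P.cons (P.lf 769167 0 0) (P.cons (P.lf 758433 0 0) (P.cons (P.lf 0 23730 0) P.nil))) (P.cons (P.cons (P.lf 13380 0 0) (P.cons (P.lf 13194 0 0) P.nil)) (P.cons (P.cons (P.lf 0 7779 0) P.nil) P.nil)))))) 17778)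
 EL.nil))))))
noncomputable def S285_314_216_290_2 : EL := (EL.cons 0 (TM.mk (P.cons (P.cons (P.lf 0 168151690 0) (P.cons (P.lf 0 3027164 0) (P.cons (P.lf 0 290061 0) (P.cons (P.lf 1143364 0 0) (P.cons (P.lf 202600 0 0) (P.cons (P.lf 0 24176 0) P.nil)))))) (P.cons (P.cons (P.lf 0 122875962 0) (P.cons (P.lf 37306746 0 0) (P.cons (P.lf 15831756 0 0) (P.cons (P.lf 0 2518504 0) (P.cons (P.lf 0 316503 0) P.nil))))) (P.cons (P.cons (P.lf 219746204 0 0) (P.cons (P.lf 0 22545838 0) (P.cons (P.lf 0 10404422 0) (P.cons (P.lf 732054 0 0) P.nil)))) (P.cons (P.cons (P.lf 0 56342675 0) (P.cons (P.lf 1473134 0 0) (P.cons (P.lf 786746 0 0) P.nil))) (P.cons (P.cons (P.lf 0 590414 0) (P.cons (P.lf 1249606 0 0) P.nil)) (P.cons (P.cons (P.lf 3819901 0 0) P.nil) P.nil)))))) 2707600)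
 (EL.cons 1 (TM.mk (P.cons (P.cons (P.lf 568951265 0 0) (P.cons (P.lf 0 66178717 0) (P.cons (P.lf 0 29454993 0) (P.cons (P.lf 3173283 0 0) (P.cons (P.lf 317591 0 0) (P.cons (P.lf 0 37892 0) P.nil)))))) (P.cons (P.cons (P.lf 0 425116625 0) (P.cons (P.lf 31678054 0 0) (P.cons (P.lf 14736672 0 0) (P.cons (P.lf 0 917246 0) (P.cons (P.lf 0 38646 0) P.nil))))) (P.cons (P.cons (P.lf 81176532 0 0) (P.cons (P.lf 1249658 0 0) (P.cons (P.lf 352243 0 0) (P.cons (P.lf 0 252467 0) P.nil)))) (P.cons (P.cons (P.lf 19849820 0 0) (P.cons (P.lf 0 3394691 0) (P.cons (P.lf 0 1557610 0) P.nil))) (P.cons (P.cons (P.lf 0 10133804 0) (P.cons (P.lf 404692 0 0) P.nil)) (P.cons (P.cons (P.lf 692124 0 0) P.nil) P.nil)))))) 1487105)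
 (EL.cons 5 (TM.mk (P.cons (P.cons (P.lf 611172593 0 0) (P.cons (P.lf 0 80296955 0) (P.cons (P.lf 0 35307764 0) (P.cons (P.lf 4257170 0 0) (P.cons (P.lf 462006 0 0) (P.cons (P.lf 0 55122 0) P.nil)))))) (P.cons (P.cons (P.lf 0 279157706 0) (P.cons (P.lf 22321150 0 0) (P.cons (P.lf 10301609 0 0) (P.cons (P.lf 0 723960 0) (P.cons (P.lf 0 41866 0) P.nil))))) (P.cons (P.cons (P.lf 22719611 0 0) (P.cons (P.lf 1738455 0 0) (P.cons (P.lf 715873 0 0) (P.cons (P.lf 0 137987 0) P.nil)))) (P.cons (P.cons (P.lf 12312213 0 0) (P.cons (P.lf 0 1106421 0) (P.cons (P.lf 0 525238 0) P.nil))) (P.cons (P.cons (P.lf 0 1956777 0) (P.cons (P.lf 0 155414 0) P.nil)) (P.cons (P.cons (P.lf 0 686102 0) P.nil) P.nil)))))) 1420991)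
 (EL.cons 9 (TM.mk (P.cons (P.cons (P.lf 486516469 0 0) (P.cons (P.lf 0 71799951 0) (P.cons (P.lf 0 31244916 0) (P.cons (P.lf 4115028 0 0) (P.cons (P.lf 471222 0 0) (P.cons (P.lf 0 56220 0) P.nil)))))) (P.cons (P.cons (P.lf 0 284864940 0) (P.cons (P.lf 31399216 0 0) (P.cons (P.lf 14056479 0 0) (P.cons (P.lf 0 1428900 0) (P.cons (P.lf 0 136234 0) P.nil))))) (P.cons (P.cons (P.lf 88986693 0 0) (P.cons (P.lf 0 5539269 0) (P.cons (P.lf 0 2632474 0) (P.cons (P.lf 107902 0 0) P.nil)))) (P.cons (P.cons (P.lf 0 6812415 0) (P.cons (P.lf 0 514093 0) (P.cons (P.lf 0 216628 0) P.nil))) (P.cons (P.cons (P.lf 0 1911805 0) (P.cons (P.lf 254893 0 0) P.nil)) (P.cons (P.cons (P.lf 593004 0 0) P.nil) P.nil)))))) 447605)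
 (EL.cons 2 (TM.mk (P.cons (P.cons (P.lf 0 95461655 0) (P.cons (P.lf 0 87085119 0) (P.cons (P.lf 13216421 0 0) (P.cons (P.lf 3442876 0 0) (P.cons (P.lf 0 317835 0) (P.cons (P.lf 0 12487 0) P.nil)))))) (P.cons (P.cons (P.lf 7543366 0 0) (P.cons (P.lf 7925416 0 0) (P.cons (P.lf 477849 0 0) (P.cons (P.lf 158203 0 0) (P.cons (P.lf 0 19130 0) P.nil))))) (P.cons (P.cons (P.lf 6342018 0 0) (P.cons (P.lf 5569323 0 0) (P.cons (P.lf 0 1193270 0) (P.cons (P.lf 0 317829 0) P.nil)))) (P.cons (P.cons (P.lf 0 2948737 0) (P.cons (P.lf 0 2868941 0) (P.cons (P.lf 147313 0 0) P.nil))) (P.cons (P.cons (P.lf 63826 0 0) (P.cons (P.lf 80240 0 0) P.nil)) (P.cons (P.cons (P.lf 92373 0 0) P.nil) P.nil)))))) 293045)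
 (EL.cons 6 (TM.mk (P.cons (P.cons (P.lf 144405612 0 0) (P.cons (P.lf 131734356 0 0) (P.cons (P.lf 0 19992582 0) (P.cons (P.lf 0 5208066 0) (P.cons (P.lf 480786 0 0) (P.cons (P.lf 18894 0 0) P.nil)))))) (P.cons (P.cons (P.lf 0 63150786 0) (P.cons (P.lf 0 59188668 0) (P.cons (P.lf 6440400 0 0) (P.cons (P.lf 1626708 0 0) (P.cons (P.lf 0 143316 0) P.nil))))) (P.cons (P.cons (P.lf 11140698 0 0) (P.cons (P.lf 11055990 0 0) (P.cons (P.lf 0 240504 0) (P.cons (P.lf 0 33810 0) P.nil)))) (P.cons (P.cons (P.lf 1033956 0 0) (P.cons (P.lf 914718 0 0) (P.cons (P.lf 0 184716 0) P.nil))) (P.cons (P.cons (P.lf 0 512640 0) (P.cons (P.lf 0 499572 0) P.nil)) (P.cons (P.cons (P.lf 14988 0 0) P.nil) P.nil)))))) 272550)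
 EL.nil))))))
noncomputable def S285_314_216_290_3 : EL := (EL.cons 0 (TM.mk (P.cons (P.lf 812258952 0 0) (P.cons (P.lf 503779721 0 0) (P.cons (P.lf 60126632 0 0) (P.cons (P.lf 0 7110123 0) (P.cons (P.lf 0 270363 0) (P.cons (P.lf 53070 0 0) P.nil)))))) 3984)
 (EL.cons 1 (TM.mk (P.cons (P.lf 0 1228710643 0) (P.cons (P.lf 0 321830180 0) (P.cons (P.lf 40457490 0 0) (P.cons (P.lf 2710608 0 0) (P.cons (P.lf 0 384633 0) (P.cons (P.lf 0 7027 0) P.nil)))))) 2881)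
 (EL.cons 5 (TM.mk (P.cons (P.lf 1858680464 0 0) (P.cons (P.lf 0 179121676 0) (P.cons (P.lf 0 21378358 0) (P.cons (P.lf 2528040 0 0) (P.cons (P.lf 96128 0 0) (P.cons (P.lf 0 18870 0) P.nil)))))) 1690)
 EL.nil)))
noncomputable def S285_314_216_290_4 : EL := (EL.cons 0 (TM.mk (P.cons (P.cons (P.lf 223212091 0 0) (P.cons (P.lf 0 16470785 0) (P.cons (P.lf 0 7775217 0) (P.lf 370248 0 0)))) (P.cons (P.cons (P.lf 73093202 0 0) (P.cons (P.lf 0 7834577 0) (P.cons (P.lf 0 3698400 0) (P.lf 176113 0 0)))) (P.cons (P.cons (P.lf 0 13159007 0) (P.cons (P.lf 484280 0 0) (P.cons (P.lf 228608 0 0) (P.lf 0 10884 0)))) (P.cons (P.cons (P.lf 1549924 0 0) (P.cons (P.lf 412875 0 0) (P.cons (P.lf 194900 0 0) P.nil))) (P.cons (P.cons (P.lf 2071246 0 0) (P.cons (P.lf 0 29313 0) P.nil)) (P.cons (P.cons (P.lf 0 91490 0) P.nil) P.nil)))))) 122246)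
 (EL.cons 1 (TM.mk (P.cons (P.cons (P.lf 0 337654725 0) (P.cons (P.lf 24915489 0 0) (P.cons (P.lf 11761635 0 0) (P.lf 0 560075 0)))) (P.cons (P.cons (P.lf 10411479 0 0) (P.cons (P.lf 2924321 0 0) (P.cons (P.lf 1380457 0 0) (P.lf 0 65733 0)))) (P.cons (P.cons (P.lf 20600036 0 0) (P.cons (P.lf 0 2106843 0) (P.cons (P.lf 0 994558 0) (P.lf 47358 0 0)))) (P.cons (P.cons (P.lf 0 9248145 0) (P.cons (P.lf 46700 0 0) (P.cons (P.lf 22046 0 0) P.nil))) (P.cons (P.cons (P.lf 0 74765 0) (P.cons (P.lf 47413 0 0) P.nil)) (P.cons (P.cons (P.lf 251283 0 0) P.nil) P.nil)))))) 80910)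
 (EL.cons 5 (TM.mk (P.cons (P.cons (P.lf 510773018 0 0) (P.cons (P.lf 0 37689862 0) (P.cons (P.lf 0 17791920 0) (P.lf 847232 0 0)))) (P.cons (P.cons (P.lf 0 198757184 0) (P.cons (P.lf 9080460 0 0) (P.cons (P.lf 4286532 0 0) (P.lf 0 204118 0)))) (P.cons (P.cons (P.lf 33358696 0 0) (P.cons (P.lf 427446 0 0) (P.cons (P.lf 201778 0 0) (P.lf 0 9606 0)))) (P.cons (P.cons (P.lf 3713568 0 0) (P.cons (P.lf 0 274276 0) (P.cons (P.lf 0 129476 0) P.nil))) (P.cons (P.cons (P.lf 0 1344324 0) (P.cons (P.lf 8206 0 0) P.nil)) (P.cons (P.cons (P.lf 6962 0 0) P.nil) P.nil)))))) 58900)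
 EL.nil)))
noncomputable def S285_314_216_290_5 : EL := (EL.cons 0 (TM.mk (P.cons (P.cons (P.lf 61339598 0 0) (P.cons (P.lf 0 9052477 0) (P.cons (P.lf 0 3939333 0) (P.cons (P.lf 518818 0 0) (P.cons (P.lf 59410 0 0) (P.cons (P.lf 0 7087 0) P.nil)))))) (P.cons (P.cons (P.lf 2128542 0 0) (P.cons (P.lf 0 1655745 0) (P.cons (P.lf 0 671025 0) (P.cons (P.lf 141626 0 0) (P.cons (P.lf 19671 0 0) P.nil))))) (P.cons (P.cons (P.lf 0 6515585 0) (P.cons (P.lf 1086834 0 0) (P.cons (P.lf 475667 0 0) (P.cons (P.lf 0 59725 0) P.nil)))) (P.cons (P.cons (P.lf 2904031 0 0) (P.cons (P.lf 0 125683 0) (P.cons (P.lf 0 67492 0) P.nil))) (P.cons (P.cons (P.lf 350722 0 0) (P.cons (P.lf 0 91400 0) P.nil)) (P.cons (P.cons (P.lf 0 220556 0) P.nil) P.nil)))))) 336606)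
 (EL.cons 1 (TM.mk (P.cons (P.cons (P.lf 0 92788903 0) (P.cons (P.lf 13693756 0 0) (P.cons (P.lf 5959059 0 0) (P.cons (P.lf 0 784820 0) (P.cons (P.lf 0 89870 0) (P.cons (P.lf 10721 0 0) P.nil)))))) (P.cons (P.cons (P.lf 30025978 0 0) (P.cons (P.lf 0 2401749 0) (P.cons (P.lf 0 1120036 0) (P.cons (P.lf 66956 0 0) (P.cons (P.lf 2441 0 0) P.nil))))) (P.cons (P.cons (P.lf 313927 0 0) (P.cons (P.lf 0 962970 0) (P.cons (P.lf 0 396328 0) (P.cons (P.lf 76640 0 0) P.nil)))) (P.cons (P.cons (P.lf 0 4730229 0) (P.cons (P.lf 541732 0 0) (P.cons (P.lf 247944 0 0) P.nil))) (P.cons (P.cons (P.lf 1114852 0 0) (P.cons (P.lf 0 40218 0) P.nil)) (P.cons (P.cons (P.lf 0 6457 0) P.nil) P.nil)))))) 268325)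
 (EL.cons 5 (TM.mk (P.cons (P.cons (P.lf 140362520 0 0) (P.cons (P.lf 0 20714656 0) (P.cons (P.lf 0 9014320 0) (P.cons (P.lf 1187206 0 0) (P.cons (P.lf 135948 0 0) (P.cons (P.lf 0 16218 0) P.nil)))))) (P.cons (P.cons (P.lf 0 95711794 0) (P.cons (P.lf 11055114 0 0) (P.cons (P.lf 4924078 0 0) (P.cons (P.lf 0 526656 0) (P.cons (P.lf 0 52404 0) P.nil))))) (P.cons (P.cons (P.lf 31978882 0 0) (P.cons (P.lf 0 2232852 0) (P.cons (P.lf 0 1046616 0) (P.cons (P.lf 57202 0 0) P.nil)))) (P.cons (P.cons (P.lf 0 3303348 0) (P.cons (P.lf 0 126676 0) (P.cons (P.lf 0 48210 0) P.nil))) (P.cons (P.cons (P.lf 0 761968 0) (P.cons (P.lf 117460 0 0) P.nil)) (P.cons (P.cons (P.lf 276086 0 0) P.nil) P.nil)))))) 235014)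
 EL.nil)))
noncomputable def S285_314_216_290_6 : EL := (EL.cons 12 (TM.mk (P.lf 8589934592 0 0) 0)
 (EL.cons 3 (TM.mk (P.cons (P.lf 1320724353 0 0) (P.cons (P.lf 409570215 0 0) (P.cons (P.lf 0 14623338 0) (P.cons (P.lf 0 1245645 0) (P.cons (P.lf 85526 0 0) (P.cons (P.lf 2831 0 0) P.nil)))))) 532)
 (EL.cons 7 (TM.mk (P.cons (P.lf 0 1997870342 0) (P.cons (P.lf 96267727 0 0) (P.cons (P.lf 13808992 0 0) (P.cons (P.lf 0 693290 0) (P.cons (P.lf 0 37347 0) (P.cons (P.lf 3551 0 0) P.nil)))))) 296)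
 EL.nil)))
noncomputable def S285_314_216_290_7 : EL := (EL.cons 12 (TM.mk (P.cons (P.cons (P.lf 2360549276 0 0) (P.cons (P.lf 0 174184568 0) (P.cons (P.lf 0 82225776 0) (P.lf 3915512 0 0)))) (P.cons (P.cons (P.lf 0 691073962 0) (P.cons (P.lf 25179336 0 0) (P.cons (P.lf 11886184 0 0) (P.lf 0 566008 0)))) (P.cons (P.cons (P.lf 114719758 0 0) (P.cons (P.lf 2398544 0 0) (P.cons (P.lf 1132256 0 0) (P.lf 0 53912 0)))) (P.cons (P.cons (P.lf 17058616 0 0) (P.cons (P.lf 0 509912 0) (P.cons (P.lf 0 240712 0) P.nil))) (P.cons (P.cons (P.lf 0 2431526 0) (P.cons (P.lf 0 8864 0) P.nil)) (P.cons (P.cons (P.lf 0 102268 0) P.nil) P.nil)))))) 79962)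
 (EL.cons 3 (TM.mk (P.cons (P.cons (P.lf 0 1842185721 0) (P.cons (P.lf 53562642 0 0) (P.cons (P.lf 25284842 0 0) (P.lf 0 1204038 0)))) (P.cons (P.cons (P.lf 793453166 0 0) (P.cons (P.lf 8867550 0 0) (P.cons (P.lf 4186026 0 0) (P.lf 0 199332 0)))) (P.cons (P.cons (P.lf 134863963 0 0) (P.cons (P.lf 0 3731732 0) (P.cons (P.lf 0 1761604 0) (P.lf 83882 0 0)))) (P.cons (P.cons (P.lf 0 29229860 0) (P.cons (P.lf 0 36712 0) (P.cons (P.lf 0 17328 0) P.nil))) (P.cons (P.cons (P.lf 0 1168432 0) (P.cons (P.lf 70288 0 0) P.nil)) (P.cons (P.cons (P.lf 451789 0 0) P.nil) P.nil)))))) 219770)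
 (EL.cons 7 (TM.mk (P.cons (P.cons (P.lf 0 1067328456 0) (P.cons (P.lf 59396828 0 0) (P.cons (P.lf 28038941 0 0) (P.lf 0 1335189 0)))) (P.cons (P.cons (P.lf 186497779 0 0) (P.cons (P.lf 2084279 0 0) (P.cons (P.lf 983904 0 0) (P.lf 0 46851 0)))) (P.cons (P.cons (P.lf 65109848 0 0) (P.cons (P.lf 0 503735 0) (P.cons (P.lf 0 237796 0) (P.lf 11326 0 0)))) (P.cons (P.cons (P.lf 1516058 0 0) (P.cons (P.lf 0 209037 0) (P.cons (P.lf 0 98679 0) P.nil))) (P.cons (P.cons (P.lf 0 1828400 0) (P.cons (P.lf 9404 0 0) P.nil)) (P.cons (P.cons (P.lf 224 0 0) P.nil) P.nil)))))) 164661)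
 (EL.cons 10 (TM.mk (P.cons (P.cons (P.lf 0 564837402 0) (P.cons (P.lf 0 556953498 0) (P.cons (P.lf 17427612 0 0) (P.cons (P.lf 3193539 0 0) (P.lf 0 114054 0))))) (P.cons (P.cons (P.lf 54433575 0 0) (P.cons (P.lf 53673798 0 0) (P.cons (P.lf 0 1679505 0) (P.cons (P.lf 0 307761 0) (P.lf 10989 0 0))))) (P.cons (P.cons (P.lf 6496701 0 0) (P.cons (P.lf 6406023 0 0) (P.cons (P.lf 0 200448 0) (P.cons (P.lf 0 36729 0) P.nil)))) (P.cons (P.cons (P.lf 0 768249 0) (P.cons (P.lf 0 757527 0) (P.cons (P.lf 23703 0 0) P.nil))) (P.cons (P.cons (P.lf 0 29211 0) (P.cons (P.lf 0 28803 0) P.nil)) (P.cons (P.cons (P.lf 5733 0 0) P.nil) P.nil)))))) 13893)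
 EL.nil))))
noncomputable def S285_314_216_290_8 : EL := (EL.cons 12 (TM.mk (P.cons (P.cons (P.lf 648688626 0 0) (P.cons (P.lf 0 95733268 0) (P.cons (P.lf 0 41659888 0) (P.cons (P.lf 5486704 0 0) (P.cons (P.lf 628296 0 0) (P.cons (P.lf 0 74960 0) P.nil)))))) (P.cons (P.cons (P.lf 0 379819920 0) (P.cons (P.lf 41865622 0 0) (P.cons (P.lf 18741972 0 0) (P.cons (P.lf 0 1905200 0) (P.cons (P.lf 0 181646 0) P.nil))))) (P.cons (P.cons (P.lf 118648924 0 0) (P.cons (P.lf 0 7385692 0) (P.cons (P.lf 0 3509966 0) (P.cons (P.lf 143870 0 0) P.nil)))) (P.cons (P.cons (P.lf 0 9083220 0) (P.cons (P.lf 0 685458 0) (P.cons (P.lf 0 288838 0) P.nil))) (P.cons (P.cons (P.lf 0 2549074 0) (P.cons (P.lf 339858 0 0) P.nil)) (P.cons (P.cons (P.lf 790672 0 0) P.nil) P.nil)))))) 596778)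
 (EL.cons 3 (TM.mk (P.cons (P.cons (P.lf 0 1112217920 0) (P.cons (P.lf 118868469 0 0) (P.cons (P.lf 53397863 0 0) (P.cons (P.lf 0 5235654 0) (P.cons (P.lf 0 483011 0) (P.cons (P.lf 57626 0 0) P.nil)))))) (P.cons (P.cons (P.lf 759970587 0 0) (P.cons (P.lf 0 48595824 0) (P.cons (P.lf 0 22997220 0) (P.cons (P.lf 1038557 0 0) (P.cons (P.lf 0 10140 0) P.nil))))) (P.cons (P.cons (P.lf 0 101780443 0) (P.cons (P.lf 0 4917314 0) (P.cons (P.lf 0 2029719 0) (P.cons (P.lf 385788 0 0) P.nil)))) (P.cons (P.cons (P.lf 0 28701569 0) (P.cons (P.lf 4182685 0 0) (P.cons (P.lf 1947240 0 0) P.nil))) (P.cons (P.cons (P.lf 12823052 0 0) (P.cons (P.lf 0 214419 0) P.nil)) (P.cons (P.cons (P.lf 0 208826 0) P.nil) P.nil)))))) 1755879)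
 (EL.cons 7 (TM.mk (P.cons (P.cons (P.lf 0 435738710 0) (P.cons (P.lf 53665121 0 0) (P.cons (P.lf 23745852 0 0) (P.cons (P.lf 0 2705012 0) (P.cons (P.lf 0 282360 0) (P.cons (P.lf 33688 0 0) P.nil)))))) (P.cons (P.cons (P.lf 178627840 0 0) (P.cons (P.lf 0 11422238 0) (P.cons (P.lf 0 5405398 0) (P.cons (P.lf 244110 0 0) (P.cons (P.lf 0 2383 0) P.nil))))) (P.cons (P.cons (P.lf 8077708 0 0) (P.cons (P.lf 0 3202063 0) (P.cons (P.lf 0 1445445 0) (P.cons (P.lf 134409 0 0) P.nil)))) (P.cons (P.cons (P.lf 0 11680277 0) (P.cons (P.lf 657152 0 0) (P.cons (P.lf 320119 0 0) P.nil))) (P.cons (P.cons (P.lf 1125584 0 0) (P.cons (P.lf 201024 0 0) P.nil)) (P.cons (P.cons (P.lf 747964 0 0) P.nil) P.nil)))))) 813392)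
 (EL.cons 10 (TM.mk (P.cons (P.cons (P.lf 0 310439268 0) (P.cons (P.lf 0 283198944 0) (P.cons (P.lf 42979518 0 0) (P.cons (P.lf 11196168 0 0) (P.cons (P.lf 0 1033590 0) (P.cons (P.lf 0 40620 0) P.nil)))))) (P.cons (P.cons (P.lf 120801282 0 0) (P.cons (P.lf 113596200 0 0) (P.cons (P.lf 0 11774430 0) (P.cons (P.lf 0 2957568 0) (P.cons (P.lf 258306 0 0) P.nil))))) (P.cons (P.cons (P.lf 0 20274858 0) (P.cons (P.lf 0 20251656 0) (P.cons (P.lf 246756 0 0) (P.cons (P.lf 7560 0 0) P.nil)))) (P.cons (P.cons (P.lf 0 2257038 0) (P.cons (P.lf 0 2058834 0) (P.cons (P.lf 312702 0 0) P.nil))) (P.cons (P.cons (P.lf 817056 0 0) (P.cons (P.lf 800664 0 0) P.nil)) (P.cons (P.cons (P.lf 0 4230 0) P.nil) P.nil)))))) 410892)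
 EL.nil))))
noncomputable def S285_314_216_290_9 : EL := (EL.cons 3 (TM.mk (P.cons (P.lf 1320724353 0 0) (P.cons (P.lf 409570215 0 0) (P.cons (P.lf 0 14623338 0) (P.cons (P.lf 0 1245645 0) (P.cons (P.lf 85526 0 0) (P.cons (P.lf 2831 0 0) P.nil)))))) 532)
 (EL.cons 7 (TM.mk (P.cons (P.lf 0 1997870342 0) (P.cons (P.lf 96267727 0 0) (P.cons (P.lf 13808992 0 0) (P.cons (P.lf 0 693290 0) (P.cons (P.lf 0 37347 0) (P.cons (P.lf 3551 0 0) P.nil)))))) 296)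
 EL.nil))
noncomputable def S285_314_216_290_10 : EL := (EL.cons 3 (TM.mk (P.cons (P.cons (P.lf 362940471 0 0) (P.cons (P.lf 0 26781321 0) (P.cons (P.lf 0 12642421 0) (P.lf 602019 0 0)))) (P.cons (P.cons (P.lf 6297191 0 0) (P.cons (P.lf 0 4433775 0) (P.cons (P.lf 0 2093013 0) (P.lf 99666 0 0)))) (P.cons (P.cons (P.lf 0 19330676 0) (P.cons (P.lf 1865866 0 0) (P.cons (P.lf 880802 0 0) (P.lf 0 41941 0)))) (P.cons (P.cons (P.lf 8926834 0 0) (P.cons (P.lf 18356 0 0) (P.cons (P.lf 8664 0 0) P.nil))) (P.cons (P.cons (P.lf 367925 0 0) (P.cons (P.lf 0 35144 0) P.nil)) (P.cons (P.cons (P.lf 0 183437 0) P.nil) P.nil)))))) 53269)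
 (EL.cons 7 (TM.mk (P.cons (P.cons (P.lf 0 549022968 0) (P.cons (P.lf 40512320 0 0) (P.cons (P.lf 19124294 0 0) (P.lf 0 910680 0)))) (P.cons (P.cons (P.lf 187186627 0 0) (P.cons (P.lf 0 7808371 0) (P.cons (P.lf 0 3686028 0) (P.lf 175524 0 0)))) (P.cons (P.cons (P.lf 0 30631957 0) (P.cons (P.lf 0 555689 0) (P.cons (P.lf 0 262318 0) (P.lf 12490 0 0)))) (P.cons (P.cons (P.lf 0 3983344 0) (P.cons (P.lf 200013 0 0) (P.cons (P.lf 94419 0 0) P.nil))) (P.cons (P.cons (P.lf 986641 0 0) (P.cons (P.lf 0 1072 0) P.nil)) (P.cons (P.cons (P.lf 18680 0 0) P.nil) P.nil)))))) 37286)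
 EL.nil))
noncomputable def S285_314_216_290_11 : EL := (EL.cons 3 (TM.mk (P.cons (P.cons (P.lf 99737530 0 0) (P.cons (P.lf 0 14719233 0) (P.cons (P.lf 0 6405313 0) (P.cons (P.lf 843594 0 0) (P.cons (P.lf 96601 0 0) (P.cons (P.lf 0 11524 0) P.nil)))))) (P.cons (P.cons (P.lf 0 27468645 0) (P.cons (P.lf 1872360 0 0) (P.cons (P.lf 895272 0 0) (P.cons (P.lf 0 31321 0) (P.cons (P.lf 2028 0 0) P.nil))))) (P.cons (P.cons (P.lf 0 971647 0) (P.cons (P.lf 1023568 0 0) (P.cons (P.lf 424875 0 0) (P.cons (P.lf 0 78060 0) P.nil)))) (P.cons (P.cons (P.lf 4813171 0 0) (P.cons (P.lf 0 514931 0) (P.cons (P.lf 0 237630 0) P.nil))) (P.cons (P.cons (P.lf 0 965464 0) (P.cons (P.lf 25119 0 0) P.nil)) (P.cons (P.cons (P.lf 0 5282 0) P.nil) P.nil)))))) 237389)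
 (EL.cons 7 (TM.mk (P.cons (P.cons (P.lf 0 150873764 0) (P.cons (P.lf 22265903 0 0) (P.cons (P.lf 9689370 0 0) (P.cons (P.lf 0 1276112 0) (P.cons (P.lf 0 146130 0) (P.cons (P.lf 17434 0 0) P.nil)))))) (P.cons (P.cons (P.lf 95609428 0 0) (P.cons (P.lf 0 10810106 0) (P.cons (P.lf 0 4825942 0) (P.cons (P.lf 504606 0 0) (P.cons (P.lf 49289 0 0) P.nil))))) (P.cons (P.cons (P.lf 0 30809528 0) (P.cons (P.lf 2033075 0 0) (P.cons (P.lf 959427 0 0) (P.cons (P.lf 0 45993 0) P.nil)))) (P.cons (P.cons (P.lf 2779357 0 0) (P.cons (P.lf 151682 0 0) (P.cons (P.lf 61333 0 0) P.nil))) (P.cons (P.cons (P.lf 709646 0 0) (P.cons (P.lf 0 101562 0) P.nil)) (P.cons (P.cons (P.lf 0 234722 0) P.nil) P.nil)))))) 190390)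
 EL.nil))
noncomputable def S285_314_216_290_12 : EL := (EL.cons 4 (TM.mk (P.cons (P.lf 0 1320724353 0) (P.cons (P.lf 0 409570215 0) (P.cons (P.lf 14623338 0 0) (P.cons (P.lf 1245645 0 0) (P.cons (P.lf 0 85526 0) (P.cons (P.lf 0 2831 0) P.nil)))))) 532)
 (EL.cons 8 (TM.mk (P.cons (P.lf 1997870342 0 0) (P.cons (P.lf 0 96267727 0) (P.cons (P.lf 0 13808992 0) (P.cons (P.lf 693290 0 0) (P.cons (P.lf 37347 0 0) (P.cons (P.lf 0 3551 0) P.nil)))))) 296)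
 EL.nil))
noncomputable def S285_314_216_290_13 : EL := (EL.cons 4 (TM.mk (P.cons (P.cons (P.lf 0 362940471 0) (P.cons (P.lf 26781321 0 0) (P.cons (P.lf 12642421 0 0) (P.lf 0 602019 0)))) (P.cons (P.cons (P.lf 0 6297191 0) (P.cons (P.lf 4433775 0 0) (P.cons (P.lf 2093013 0 0) (P.lf 0 99666 0)))) (P.cons (P.cons (P.lf 19330676 0 0) (P.cons (P.lf 0 1865866 0) (P.cons (P.lf 0 880802 0) (P.lf 41941 0 0)))) (P.cons (P.cons (P.lf 0 8926834 0) (P.cons (P.lf 0 18356 0) (P.cons (P.lf 0 8664 0) P.nil))) (P.cons (P.cons (P.lf 0 367925 0) (P.cons (P.lf 35144 0 0) P.nil)) (P.cons (P.cons (P.lf 183437 0 0) P.nil) P.nil)))))) 53269)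
 (EL.cons 8 (TM.mk (P.cons (P.cons (P.lf 549022968 0 0) (P.cons (P.lf 0 40512320 0) (P.cons (P.lf 0 19124294 0) (P.lf 910680 0 0)))) (P.cons (P.cons (P.lf 0 187186627 0) (P.cons (P.lf 7808371 0 0) (P.cons (P.lf 3686028 0 0) (P.lf 0 175524 0)))) (P.cons (P.cons (P.lf 30631957 0 0) (P.cons (P.lf 555689 0 0) (P.cons (P.lf 262318 0 0) (P.lf 0 12490 0)))) (P.cons (P.cons (P.lf 3983344 0 0) (P.cons (P.lf 0 200013 0) (P.cons (P.lf 0 94419 0) P.nil))) (P.cons (P.cons (P.lf 0 986641 0) (P.cons (P.lf 1072 0 0) P.nil)) (P.cons (P.cons (P.lf 0 18680 0) P.nil) P.nil)))))) 37286)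
 EL.nil))
noncomputable def S285_314_216_290_14 : EL := (EL.cons 4 (TM.mk (P.cons (P.cons (P.lf 0 99737530 0) (P.cons (P.lf 14719233 0 0) (P.cons (P.lf 6405313 0 0) (P.cons (P.lf 0 843594 0) (P.cons (P.lf 0 96601 0) (P.cons (P.lf 11524 0 0) P.nil)))))) (P.cons (P.cons (P.lf 27468645 0 0) (P.cons (P.lf 0 1872360 0) (P.cons (P.lf 0 895272 0) (P.cons (P.lf 31321 0 0) (P.cons (P.lf 0 2028 0) P.nil))))) (P.cons (P.cons (P.lf 971647 0 0) (P.cons (P.lf 0 1023568 0) (P.cons (P.lf 0 424875 0) (P.cons (P.lf 78060 0 0) P.nil)))) (P.cons (P.cons (P.lf 0 4813171 0) (P.cons (P.lf 514931 0 0) (P.cons (P.lf 237630 0 0) P.nil))) (P.cons (P.cons (P.lf 965464 0 0) (P.cons (P.lf 0 25119 0) P.nil)) (P.cons (P.cons (P.lf 5282 0 0) P.nil) P.nil)))))) 237389)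
 (EL.cons 8 (TM.mk (P.cons (P.cons (P.lf 150873764 0 0) (P.cons (P.lf 0 22265903 0) (P.cons (P.lf 0 9689370 0) (P.cons (P.lf 1276112 0 0) (P.cons (P.lf 146130 0 0) (P.cons (P.lf 0 17434 0) P.nil)))))) (P.cons (P.cons (P.lf 0 95609428 0) (P.cons (P.lf 10810106 0 0) (P.cons (P.lf 4825942 0 0) (P.cons (P.lf 0 504606 0) (P.cons (P.lf 0 49289 0) P.nil))))) (P.cons (P.cons (P.lf 30809528 0 0) (P.cons (P.lf 0 2033075 0) (P.cons (P.lf 0 959427 0) (P.cons (P.lf 45993 0 0) P.nil)))) (P.cons (P.cons (P.lf 0 2779357 0) (P.cons (P.lf 0 151682 0) (P.cons (P.lf 0 61333 0) P.nil))) (P.cons (P.cons (P.lf 0 709646 0) (P.cons (P.lf 101562 0 0) P.nil)) (P.cons (P.cons (P.lf 234722 0 0) P.nil) P.nil)))))) 190390)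
 EL.nil))
noncomputable def S285_314_216_290_15 : EL := (EL.cons 4 (TM.mk (P.cons (P.lf 0 433204774 0) (P.cons (P.lf 0 268682518 0) (P.cons (P.lf 0 32067537 0) (P.cons (P.lf 3792065 0 0) (P.cons (P.lf 144194 0 0) (P.cons (P.lf 0 28304 0) P.nil)))))) 2128)
 (EL.cons 8 (TM.mk (P.cons (P.lf 655312343 0 0) (P.cons (P.lf 171642763 0 0) (P.cons (P.lf 0 21577328 0) (P.cons (P.lf 0 1445658 0) (P.cons (P.lf 205138 0 0) (P.cons (P.lf 3748 0 0) P.nil)))))) 1533)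
 EL.nil))
noncomputable def S285_314_216_290_16 : EL := (EL.cons 4 (TM.mk (P.cons (P.cons (P.lf 0 119046449 0) (P.cons (P.lf 8784419 0 0) (P.cons (P.lf 4146782 0 0) (P.lf 0 197465 0)))) (P.cons (P.cons (P.lf 0 38983041 0) (P.cons (P.lf 4178441 0 0) (P.cons (P.lf 1972480 0 0) (P.lf 0 93927 0)))) (P.cons (P.cons (P.lf 7018137 0 0) (P.cons (P.lf 0 258283 0) (P.cons (P.lf 0 121924 0) (P.lf 5805 0 0)))) (P.cons (P.cons (P.lf 0 826626 0) (P.cons (P.lf 0 220200 0) (P.cons (P.lf 0 103947 0) P.nil))) (P.cons (P.cons (P.lf 0 1104664 0) (P.cons (P.lf 15633 0 0) P.nil)) (P.cons (P.cons (P.lf 48795 0 0) P.nil) P.nil)))))) 65207)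
 (EL.cons 8 (TM.mk (P.cons (P.cons (P.lf 180082520 0 0) (P.cons (P.lf 0 13288261 0) (P.cons (P.lf 0 6272872 0) (P.lf 298707 0 0)))) (P.cons (P.cons (P.lf 0 5552789 0) (P.cons (P.lf 0 1559638 0) (P.cons (P.lf 0 736244 0) (P.lf 35058 0 0)))) (P.cons (P.cons (P.lf 0 10986686 0) (P.cons (P.lf 1123650 0 0) (P.cons (P.lf 530431 0 0) (P.lf 0 25258 0)))) (P.cons (P.cons (P.lf 4932344 0 0) (P.cons (P.lf 0 24907 0) (P.cons (P.lf 0 11758 0) P.nil))) (P.cons (P.cons (P.lf 39875 0 0) (P.cons (P.lf 0 25287 0) P.nil)) (P.cons (P.cons (P.lf 0 134018 0) P.nil) P.nil)))))) 43142)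
 EL.nil))
noncomputable def S285_314_216_290_17 : EL := (EL.cons 4 (TM.mk (P.cons (P.cons (P.lf 0 32714452 0) (P.cons (P.lf 4827988 0 0) (P.cons (P.lf 2100977 0 0) (P.cons (P.lf 0 276703 0) (P.cons (P.lf 0 31685 0) (P.cons (P.lf 3780 0 0) P.nil)))))) (P.cons (P.cons (P.lf 0 1135222 0) (P.cons (P.lf 883064 0 0) (P.cons (P.lf 357880 0 0) (P.cons (P.lf 0 75534 0) (P.cons (P.lf 0 10491 0) P.nil))))) (P.cons (P.cons (P.lf 3474978 0 0) (P.cons (P.lf 0 579645 0) (P.cons (P.lf 0 253689 0) (P.cons (P.lf 31853 0 0) P.nil)))) (P.cons (P.cons (P.lf 0 1548816 0) (P.cons (P.lf 67031 0 0) (P.cons (P.lf 35996 0 0) P.nil))) (P.cons (P.cons (P.lf 0 187051 0) (P.cons (P.lf 48747 0 0) P.nil)) (P.cons (P.cons (P.lf 117630 0 0) P.nil) P.nil)))))) 179533)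
 (EL.cons 8 (TM.mk (P.cons (P.cons (P.lf 49487415 0 0) (P.cons (P.lf 0 7303337 0) (P.cons (P.lf 0 3178165 0) (P.cons (P.lf 418571 0 0) (P.cons (P.lf 47931 0 0) (P.cons (P.lf 0 5718 0) P.nil)))))) (P.cons (P.cons (P.lf 0 16013855 0) (P.cons (P.lf 1280933 0 0) (P.cons (P.lf 597353 0 0) (P.cons (P.lf 0 35710 0) (P.cons (P.lf 0 1302 0) P.nil))))) (P.cons (P.cons (P.lf 0 167428 0) (P.cons (P.lf 513584 0 0) (P.cons (P.lf 211375 0 0) (P.cons (P.lf 0 40875 0) P.nil)))) (P.cons (P.cons (P.lf 2522789 0 0) (P.cons (P.lf 0 288924 0) (P.cons (P.lf 0 132237 0) P.nil))) (P.cons (P.cons (P.lf 0 594588 0) (P.cons (P.lf 21450 0 0) P.nil)) (P.cons (P.cons (P.lf 3444 0 0) P.nil) P.nil)))))) 143095)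
 EL.nil))
noncomputable def S285_314_216_290_18 : EL := (EL.cons 4 (TM.mk (P.cons (P.lf 0 142093522 0) (P.cons (P.lf 0 132193991 0) (P.cons (P.lf 0 36274848 0) (P.cons (P.lf 0 908220 0) (P.cons (P.lf 623396 0 0) (P.cons (P.lf 0 4479 0) P.nil)))))) 6741)
 (EL.cons 8 (TM.mk (P.cons (P.lf 214946014 0 0) (P.cons (P.lf 122956731 0 0) (P.cons (P.lf 8001726 0 0) (P.cons (P.lf 0 3495072 0) (P.cons (P.lf 0 40579 0) (P.cons (P.lf 38127 0 0) P.nil)))))) 3726)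
 EL.nil))
noncomputable def S285_314_216_290_19 : EL := (EL.cons 4 (TM.mk (P.cons (P.cons (P.lf 0 39047882 0) (P.cons (P.lf 2881336 0 0) (P.cons (P.lf 1360167 0 0) (P.lf 0 64769 0)))) (P.cons (P.cons (P.lf 0 24895800 0) (P.cons (P.lf 2264083 0 0) (P.cons (P.lf 1068785 0 0) (P.lf 0 50894 0)))) (P.cons (P.cons (P.lf 0 1230937 0) (P.cons (P.lf 308400 0 0) (P.cons (P.lf 145583 0 0) (P.lf 0 6931 0)))) (P.cons (P.cons (P.lf 621135 0 0) (P.cons (P.lf 0 116391 0) (P.cons (P.lf 0 54943 0) P.nil))) (P.cons (P.cons (P.lf 0 462375 0) (P.cons (P.lf 0 17437 0) P.nil)) (P.cons (P.cons (P.lf 0 96439 0) P.nil) P.nil)))))) 57122)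
 (EL.cons 8 (TM.mk (P.cons (P.cons (P.lf 59068046 0 0) (P.cons (P.lf 0 4358622 0) (P.cons (P.lf 0 2057536 0) (P.lf 97977 0 0)))) (P.cons (P.cons (P.lf 16496263 0 0) (P.cons (P.lf 0 1863223 0) (P.cons (P.lf 0 879555 0) (P.lf 41883 0 0)))) (P.cons (P.cons (P.lf 0 4822524 0) (P.cons (P.lf 258179 0 0) (P.cons (P.lf 121876 0 0) (P.lf 0 5803 0)))) (P.cons (P.cons (P.lf 464749 0 0) (P.cons (P.lf 115900 0 0) (P.cons (P.lf 54711 0 0) P.nil))) (P.cons (P.cons (P.lf 560230 0 0) (P.cons (P.lf 0 14708 0) P.nil)) (P.cons (P.cons (P.lf 0 54408 0) P.nil) P.nil)))))) 45321)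
 EL.nil))
noncomputable def S285_314_216_290_20 : EL := (EL.cons 4 (TM.mk (P.cons (P.cons (P.lf 0 10730518 0) (P.cons (P.lf 1583606 0 0) (P.cons (P.lf 689131 0 0) (P.cons (P.lf 0 90759 0) (P.cons (P.lf 0 10393 0) (P.cons (P.lf 1239 0 0) P.nil)))))) (P.cons (P.cons (P.lf 0 3700003 0) (P.cons (P.lf 780742 0 0) (P.cons (P.lf 331093 0 0) (P.cons (P.lf 0 52920 0) (P.cons (P.lf 0 6663 0) P.nil))))) (P.cons (P.cons (P.lf 1143150 0 0) (P.cons (P.lf 0 117837 0) (P.cons (P.lf 0 54438 0) (P.cons (P.lf 3769 0 0) P.nil)))) (P.cons (P.cons (P.lf 0 140309 0) (P.cons (P.lf 0 41673 0) (P.cons (P.lf 0 15946 0) P.nil))) (P.cons (P.cons (P.lf 0 231860 0) (P.cons (P.lf 24741 0 0) P.nil)) (P.cons (P.cons (P.lf 24059 0 0) P.nil) P.nil)))))) 121965)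
 (EL.cons 8 (TM.mk (P.cons (P.cons (P.lf 16232141 0 0) (P.cons (P.lf 0 2395534 0) (P.cons (P.lf 0 1042455 0) (P.cons (P.lf 137293 0 0) (P.cons (P.lf 15721 0 0) (P.cons (P.lf 0 1875 0) P.nil)))))) (P.cons (P.cons (P.lf 0 218877 0) (P.cons (P.lf 0 322726 0) (P.cons (P.lf 0 127340 0) (P.cons (P.lf 30862 0 0) (P.cons (P.lf 4448 0 0) P.nil))))) (P.cons (P.cons (P.lf 0 1863538 0) (P.cons (P.lf 325276 0 0) (P.cons (P.lf 141636 0 0) (P.cons (P.lf 0 18559 0) P.nil)))) (P.cons (P.cons (P.lf 853306 0 0) (P.cons (P.lf 0 44920 0) (P.cons (P.lf 0 23060 0) P.nil))) (P.cons (P.cons (P.lf 68197 0 0) (P.cons (P.lf 0 24769 0) P.nil)) (P.cons (P.cons (P.lf 0 68765 0) P.nil) P.nil)))))) 103669)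
 EL.nil))
noncomputable def S285_314_216_290_21 : EL := (EL.cons 4 (TM.mk (P.cons (P.cons (P.lf 2205126192 0 0) (P.cons (P.lf 0 80343963 0) (P.cons (P.lf 0 37927263 0) (P.lf 1806057 0 0)))) (P.cons (P.cons (P.lf 0 787155975 0) (P.cons (P.lf 0 13301325 0) (P.cons (P.lf 0 6279039 0) (P.lf 298998 0 0)))) (P.cons (P.cons (P.lf 0 154194639 0) (P.cons (P.lf 5597598 0 0) (P.cons (P.lf 2642406 0 0) (P.lf 0 125823 0)))) (P.cons (P.cons (P.lf 38156694 0 0) (P.cons (P.lf 55068 0 0) (P.cons (P.lf 25992 0 0) P.nil))) (P.cons (P.cons (P.lf 1536357 0 0) (P.cons (P.lf 0 105432 0) P.nil)) (P.cons (P.cons (P.lf 0 635226 0) P.nil) P.nil)))))) 166482)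
 (EL.cons 8 (TM.mk (P.cons (P.cons (P.lf 518305488 0 0) (P.cons (P.lf 0 18884508 0) (P.cons (P.lf 0 8914647 0) (P.lf 424509 0 0)))) (P.cons (P.cons (P.lf 688848 0 0) (P.cons (P.lf 0 9892650 0) (P.cons (P.lf 0 4669932 0) (P.lf 222375 0 0)))) (P.cons (P.cons (P.lf 0 95741805 0) (P.cons (P.lf 0 51954 0) (P.cons (P.lf 0 24522 0) (P.lf 1164 0 0)))) (P.cons (P.cons (P.lf 0 5499402 0) (P.cons (P.lf 409050 0 0) (P.cons (P.lf 193098 0 0) P.nil))) (P.cons (P.cons (P.lf 2815041 0 0) (P.cons (P.lf 0 10476 0) P.nil)) (P.cons (P.cons (P.lf 18456 0 0) P.nil) P.nil)))))) 127356)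
 (EL.cons 11 (TM.mk (P.cons (P.cons (P.lf 564837402 0 0) (P.cons (P.lf 556953498 0 0) (P.cons (P.lf 0 17427612 0) (P.cons (P.lf 0 3193539 0) (P.lf 114054 0 0))))) (P.cons (P.cons (P.lf 0 54433575 0) (P.cons (P.lf 0 53673798 0) (P.cons (P.lf 1679505 0 0) (P.cons (P.lf 307761 0 0) (P.lf 0 10989 0))))) (P.cons (P.cons (P.lf 0 6496701 0) (P.cons (P.lf 0 6406023 0) (P.cons (P.lf 200448 0 0) (P.cons (P.lf 36729 0 0) P.nil)))) (P.cons (P.cons (P.lf 768249 0 0) (P.cons (P.lf 757527 0 0) (P.cons (P.lf 0 23703 0) P.nil))) (P.cons (P.cons (P.lf 29211 0 0) (P.cons (P.lf 28803 0 0) P.nil)) (P.cons (P.cons (P.lf 0 5733 0) P.nil) P.nil)))))) 13893)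
 EL.nil)))
noncomputable def S285_314_216_290_22 : EL := (EL.cons 4 (TM.mk (P.cons (P.cons (P.lf 605977725 0 0) (P.cons (P.lf 0 66793851 0) (P.cons (P.lf 0 29901588 0) (P.cons (P.lf 3039624 0 0) (P.cons (P.lf 289806 0 0) (P.cons (P.lf 0 34575 0) P.nil)))))) (P.cons (P.cons (P.lf 0 393719616 0) (P.cons (P.lf 25234092 0 0) (P.cons (P.lf 11946246 0 0) (P.cons (P.lf 0 534939 0) (P.cons (P.lf 6084 0 0) P.nil))))) (P.cons (P.cons (P.lf 50404398 0 0) (P.cons (P.lf 2970441 0 0) (P.cons (P.lf 1227297 0 0) (P.cons (P.lf 0 231924 0) P.nil)))) (P.cons (P.cons (P.lf 16757370 0 0) (P.cons (P.lf 0 2348808 0) (P.cons (P.lf 0 1092435 0) P.nil))) (P.cons (P.cons (P.lf 0 6894258 0) (P.cons (P.lf 119769 0 0) P.nil)) (P.cons (P.cons (P.lf 101772 0 0) P.nil) P.nil)))))) 759234)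
 (EL.cons 8 (TM.mk (P.cons (P.cons (P.lf 142432473 0 0) (P.cons (P.lf 0 15699609 0) (P.cons (P.lf 0 7028241 0) (P.cons (P.lf 714450 0 0) (P.cons (P.lf 68115 0 0) (P.cons (P.lf 0 8127 0) P.nil)))))) (P.cons (P.cons (P.lf 0 41509206 0) (P.cons (P.lf 306066 0 0) (P.cons (P.lf 289728 0 0) (P.cons (P.lf 130248 0 0) (P.cons (P.lf 25836 0 0) P.nil))))) (P.cons (P.cons (P.lf 0 19443618 0) (P.cons (P.lf 2617569 0 0) (P.cons (P.lf 1202436 0 0) (P.cons (P.lf 0 90201 0) P.nil)))) (P.cons (P.cons (P.lf 7229817 0 0) (P.cons (P.lf 0 252735 0) (P.cons (P.lf 0 129393 0) P.nil))) (P.cons (P.cons (P.lf 0 207969 0) (P.cons (P.lf 0 151293 0) P.nil)) (P.cons (P.cons (P.lf 0 491343 0) P.nil) P.nil)))))) 311490)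
 (EL.cons 11 (TM.mk (P.cons (P.cons (P.lf 155219634 0 0) (P.cons (P.lf 141599472 0 0) (P.cons (P.lf 0 21489759 0) (P.cons (P.lf 0 5598084 0) (P.cons (P.lf 516795 0 0) (P.cons (P.lf 20310 0 0) P.nil)))))) (P.cons (P.cons (P.lf 0 60400641 0) (P.cons (P.lf 0 56798100 0) (P.cons (P.lf 5887215 0 0) (P.cons (P.lf 1478784 0 0) (P.cons (P.lf 0 129153 0) P.nil))))) (P.cons (P.cons (P.lf 10137429 0 0) (P.cons (P.lf 10125828 0 0) (P.cons (P.lf 0 123378 0) (P.cons (P.lf 0 3780 0) P.nil)))) (P.cons (P.cons (P.lf 1128519 0 0) (P.cons (P.lf 1029417 0 0) (P.cons (P.lf 0 156351 0) P.nil))) (P.cons (P.cons (P.lf 0 408528 0) (P.cons (P.lf 0 400332 0) P.nil)) (P.cons (P.cons (P.lf 2115 0 0) P.nil) P.nil)))))) 205446)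
 EL.nil)))
noncomputable def S285_314_216_290_23 : EL := (EL.cons 4 (TM.mk (P.cons (P.cons (P.lf 723293388 0 0) (P.cons (P.lf 0 26353257 0) (P.cons (P.lf 0 12440346 0) (P.lf 592395 0 0)))) (P.cons (P.cons (P.lf 0 33890718 0) (P.cons (P.lf 0 12535323 0) (P.cons (P.lf 0 5917437 0) (P.lf 281781 0 0)))) (P.cons (P.cons (P.lf 0 138652959 0) (P.cons (P.lf 774849 0 0) (P.cons (P.lf 365775 0 0) (P.lf 0 17415 0)))) (P.cons (P.cons (P.lf 0 992172 0) (P.cons (P.lf 660600 0 0) (P.cons (P.lf 311841 0 0) P.nil))) (P.cons (P.cons (P.lf 5235498 0 0) (P.cons (P.lf 0 46899 0) P.nil)) (P.cons (P.cons (P.lf 0 158124 0) P.nil) P.nil)))))) 207264)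
 (EL.cons 8 (TM.mk (P.cons (P.cons (P.lf 170007018 0 0) (P.cons (P.lf 0 6194220 0) (P.cons (P.lf 0 2924052 0) (P.lf 139239 0 0)))) (P.cons (P.cons (P.lf 52946871 0 0) (P.cons (P.lf 0 5165733 0) (P.cons (P.lf 0 2438541 0) (P.lf 116118 0 0)))) (P.cons (P.cons (P.lf 0 33216117 0) (P.cons (P.lf 0 954714 0) (P.cons (P.lf 0 450681 0) (P.lf 21459 0 0)))) (P.cons (P.cons (P.lf 0 11705328 0) (P.cons (P.lf 170655 0 0) (P.cons (P.lf 80559 0 0) P.nil))) (P.cons (P.cons (P.lf 722466 0 0) (P.cons (P.lf 41019 0 0) P.nil)) (P.cons (P.cons (P.lf 342363 0 0) P.nil) P.nil)))))) 98772)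
 (EL.cons 11 (TM.mk (P.cons (P.cons (P.lf 185269740 0 0) (P.cons (P.lf 182683776 0 0) (P.cons (P.lf 0 5716350 0) (P.cons (P.lf 0 1047498 0) (P.lf 37410 0 0))))) (P.cons (P.cons (P.lf 39599544 0 0) (P.cons (P.lf 39046821 0 0) (P.cons (P.lf 0 1221810 0) (P.cons (P.lf 0 223890 0) (P.lf 7995 0 0))))) (P.cons (P.cons (P.lf 0 9719163 0) (P.cons (P.lf 0 9583506 0) (P.cons (P.lf 299874 0 0) (P.cons (P.lf 54948 0 0) P.nil)))) (P.cons (P.cons (P.lf 0 385887 0) (P.cons (P.lf 0 380502 0) (P.cons (P.lf 11904 0 0) P.nil))) (P.cons (P.cons (P.lf 140157 0 0) (P.cons (P.lf 138201 0 0) P.nil)) (P.cons (P.cons (P.lf 0 447 0) P.nil) P.nil)))))) 29157)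
 EL.nil)))
noncomputable def S285_314_216_290_24 : EL := (EL.cons 4 (TM.mk (P.cons (P.cons (P.lf 198763989 0 0) (P.cons (P.lf 0 21908745 0) (P.cons (P.lf 0 9807882 0) (P.cons (P.lf 997011 0 0) (P.cons (P.lf 95058 0 0) (P.cons (P.lf 0 11340 0) P.nil)))))) (P.cons (P.cons (P.lf 0 67503417 0) (P.cons (P.lf 1482792 0 0) (P.cons (P.lf 876906 0 0) (P.cons (P.lf 133719 0 0) (P.cons (P.lf 31473 0 0) P.nil))))) (P.cons (P.cons (P.lf 0 25716156 0) (P.cons (P.lf 3783657 0 0) (P.cons (P.lf 1726302 0 0) (P.cons (P.lf 0 141522 0) P.nil)))) (P.cons (P.cons (P.lf 11865960 0 0) (P.cons (P.lf 0 539253 0) (P.cons (P.lf 0 267621 0) P.nil))) (P.cons (P.cons (P.lf 0 605214 0) (P.cons (P.lf 0 219642 0) P.nil)) (P.cons (P.cons (P.lf 0 752274 0) P.nil) P.nil)))))) 475611)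
 (EL.cons 8 (TM.mk (P.cons (P.cons (P.lf 46718625 0 0) (P.cons (P.lf 0 5149557 0) (P.cons (P.lf 0 2305299 0) (P.cons (P.lf 234342 0 0) (P.cons (P.lf 22341 0 0) (P.cons (P.lf 0 2664 0) P.nil)))))) (P.cons (P.cons (P.lf 872679 0 0) (P.cons (P.lf 0 1496538 0) (P.cons (P.lf 0 619863 0) (P.cons (P.lf 115392 0 0) (P.cons (P.lf 15402 0 0) P.nil))))) (P.cons (P.cons (P.lf 0 11117118 0) (P.cons (P.lf 946725 0 0) (P.cons (P.lf 449400 0 0) (P.cons (P.lf 0 18933 0) P.nil)))) (P.cons (P.cons (P.lf 500343 0 0) (P.cons (P.lf 187098 0 0) (P.cons (P.lf 80988 0 0) P.nil))) (P.cons (P.cons (P.lf 753666 0 0) (P.cons (P.lf 0 85266 0) P.nil)) (P.cons (P.cons (P.lf 0 203340 0) P.nil) P.nil)))))) 159984)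
 (EL.cons 11 (TM.mk (P.cons (P.cons (P.lf 50912883 0 0) (P.cons (P.lf 46445397 0 0) (P.cons (P.lf 0 7048758 0) (P.cons (P.lf 0 1836201 0) (P.cons (P.lf 169512 0 0) (P.cons (P.lf 6660 0 0) P.nil)))))) (P.cons (P.cons (P.lf 0 4023129 0) (P.cons (P.lf 0 4226889 0) (P.cons (P.lf 0 254853 0) (P.cons (P.lf 0 84375 0) (P.cons (P.lf 10203 0 0) P.nil))))) (P.cons (P.cons (P.lf 0 3382410 0) (P.cons (P.lf 0 2970306 0) (P.cons (P.lf 636411 0 0) (P.cons (P.lf 169509 0 0) P.nil)))) (P.cons (P.cons (P.lf 1572660 0 0) (P.cons (P.lf 1530102 0 0) (P.cons (P.lf 0 78567 0) P.nil))) (P.cons (P.cons (P.lf 0 34041 0) (P.cons (P.lf 0 42795 0) P.nil)) (P.cons (P.cons (P.lf 0 49266 0) P.nil) P.nil)))))) 156279)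
 EL.nil)))
noncomputable def S285_314_216_290_25 : EL := (EL.cons 4 (TM.mk (P.cons (P.cons (P.lf 237244167 0 0) (P.cons (P.lf 0 8644011 0) (P.cons (P.lf 0 4080501 0) (P.lf 194307 0 0)))) (P.cons (P.cons (P.lf 62455515 0 0) (P.cons (P.lf 0 6792249 0) (P.cons (P.lf 0 3206355 0) (P.lf 152682 0 0)))) (P.cons (P.cons (P.lf 0 51553035 0) (P.cons (P.lf 0 925203 0) (P.cons (P.lf 0 436752 0) (P.lf 20796 0 0)))) (P.cons (P.cons (P.lf 0 14529594 0) (P.cons (P.lf 349173 0 0) (P.cons (P.lf 164829 0 0) P.nil))) (P.cons (P.cons (P.lf 2145750 0 0) (P.cons (P.lf 52314 0 0) P.nil)) (P.cons (P.cons (P.lf 526962 0 0) P.nil) P.nil)))))) 206364)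
 (EL.cons 8 (TM.mk (P.cons (P.cons (P.lf 55763226 0 0) (P.cons (P.lf 0 2031738 0) (P.cons (P.lf 0 959103 0) (P.lf 45669 0 0)))) (P.cons (P.cons (P.lf 34659612 0 0) (P.cons (P.lf 0 2324451 0) (P.cons (P.lf 0 1097283 0) (P.lf 52251 0 0)))) (P.cons (P.cons (P.lf 0 6126846 0) (P.cons (P.lf 0 816102 0) (P.cons (P.lf 0 385248 0) (P.lf 18342 0 0)))) (P.cons (P.cons (P.lf 0 7462965 0) (P.cons (P.lf 0 20457 0) (P.cons (P.lf 0 9657 0) P.nil))) (P.cons (P.cons (P.lf 0 845802 0) (P.cons (P.lf 35745 0 0) P.nil)) (P.cons (P.cons (P.lf 239814 0 0) P.nil) P.nil)))))) 87225)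
 (EL.cons 11 (TM.mk (P.cons (P.cons (P.lf 60769482 0 0) (P.cons (P.lf 59921271 0 0) (P.cons (P.lf 0 1874994 0) (P.cons (P.lf 0 343584 0) (P.lf 12270 0 0))))) (P.cons (P.cons (P.lf 31834107 0 0) (P.cons (P.lf 31389771 0 0) (P.cons (P.lf 0 982215 0) (P.cons (P.lf 0 179985 0) (P.lf 6426 0 0))))) (P.cons (P.cons (P.lf 167187 0 0) (P.cons (P.lf 164853 0 0) (P.cons (P.lf 0 5157 0) (P.cons (P.lf 0 945 0) P.nil)))) (P.cons (P.cons (P.lf 0 1316316 0) (P.cons (P.lf 0 1297941 0) (P.cons (P.lf 40611 0 0) P.nil))) (P.cons (P.cons (P.lf 33702 0 0) (P.cons (P.lf 33231 0 0) P.nil)) (P.cons (P.cons (P.lf 19488 0 0) P.nil) P.nil)))))) 43386)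
 EL.nil)))
noncomputable def S285_314_216_290_26 : EL := (EL.cons 4 (TM.mk (P.cons (P.cons (P.lf 65195670 0 0) (P.cons (P.lf 0 7186188 0) (P.cons (P.lf 0 3217038 0) (P.cons (P.lf 327024 0 0) (P.cons (P.lf 31179 0 0) (P.cons (P.lf 0 3717 0) P.nil)))))) (P.cons (P.cons (P.lf 0 1923639 0) (P.cons (P.lf 0 1742145 0) (P.cons (P.lf 0 710004 0) (P.cons (P.lf 145275 0 0) (P.cons (P.lf 19992 0 0) P.nil))))) (P.cons (P.cons (P.lf 0 16023201 0) (P.cons (P.lf 1471452 0 0) (P.cons (P.lf 691053 0 0) (P.cons (P.lf 0 36438 0) P.nil)))) (P.cons (P.cons (P.lf 1459971 0 0) (P.cons (P.lf 209379 0 0) (P.cons (P.lf 87663 0 0) P.nil))) (P.cons (P.cons (P.lf 1126965 0 0) (P.cons (P.lf 0 141561 0) P.nil)) (P.cons (P.cons (P.lf 0 344742 0) P.nil) P.nil)))))) 288759)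
 (EL.cons 8 (TM.mk (P.cons (P.cons (P.lf 15323961 0 0) (P.cons (P.lf 0 1689081 0) (P.cons (P.lf 0 756150 0) (P.cons (P.lf 76866 0 0) (P.cons (P.lf 7326 0 0) (P.cons (P.lf 0 873 0) P.nil)))))) (P.cons (P.cons (P.lf 5038362 0 0) (P.cons (P.lf 0 1014672 0) (P.cons (P.lf 0 437808 0) (P.cons (P.lf 61686 0 0) (P.cons (P.lf 7323 0 0) P.nil))))) (P.cons (P.cons (P.lf 0 3727377 0) (P.cons (P.lf 177006 0 0) (P.cons (P.lf 92724 0 0) (P.cons (P.lf 4674 0 0) P.nil)))) (P.cons (P.cons (P.lf 0 984315 0) (P.cons (P.lf 164694 0 0) (P.cons (P.lf 75240 0 0) P.nil))) (P.cons (P.cons (P.lf 339195 0 0) (P.cons (P.lf 0 12021 0) P.nil)) (P.cons (P.cons (P.lf 11637 0 0) P.nil) P.nil)))))) 100836)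
 (EL.cons 11 (TM.mk (P.cons (P.cons (P.lf 16699701 0 0) (P.cons (P.lf 15234342 0 0) (P.cons (P.lf 0 2312028 0) (P.cons (P.lf 0 602283 0) (P.cons (P.lf 55599 0 0) (P.cons (P.lf 2184 0 0) P.nil)))))) (P.cons (P.cons (P.lf 3859140 0 0) (P.cons (P.lf 3337881 0 0) (P.cons (P.lf 0 800577 0) (P.cons (P.lf 0 214449 0) (P.cons (P.lf 20589 0 0) P.nil))))) (P.cons (P.cons (P.lf 0 1703574 0) (P.cons (P.lf 0 1572903 0) (P.cons (P.lf 208422 0 0) (P.cons (P.lf 53685 0 0) P.nil)))) (P.cons (P.cons (P.lf 170649 0 0) (P.cons (P.lf 200730 0 0) (P.cons (P.lf 42069 0 0) P.nil))) (P.cons (P.cons (P.lf 163410 0 0) (P.cons (P.lf 154680 0 0) P.nil)) (P.cons (P.cons (P.lf 0 24336 0) P.nil) P.nil)))))) 104496)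
 EL.nil)))
noncomputable def S285_314_216_290_27 : EL := (EL.cons 13 (TM.mk (P.lf 0 4294967296 0) 0)
 EL.nil)
noncomputable def S285_314_216_290_28 : EL := (EL.cons 13 (TM.mk (P.cons (P.cons (P.lf 0 1180274638 0) (P.cons (P.lf 87092284 0 0) (P.cons (P.lf 41112888 0 0) (P.lf 0 1957756 0)))) (P.cons (P.cons (P.lf 345536981 0 0) (P.cons (P.lf 0 12589668 0) (P.cons (P.lf 0 5943092 0) (P.lf 283004 0 0)))) (P.cons (P.cons (P.lf 0 57359879 0) (P.cons (P.lf 0 1199272 0) (P.cons (P.lf 0 566128 0) (P.lf 26956 0 0)))) (P.cons (P.cons (P.lf 0 8529308 0) (P.cons (P.lf 254956 0 0) (P.cons (P.lf 120356 0 0) P.nil))) (P.cons (P.cons (P.lf 1215763 0 0) (P.cons (P.lf 4432 0 0) P.nil)) (P.cons (P.cons (P.lf 51134 0 0) P.nil) P.nil)))))) 39981)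
 EL.nil)
noncomputable def S285_314_216_290_29 : EL := (EL.cons 13 (TM.mk (P.cons (P.cons (P.lf 0 324344313 0) (P.cons (P.lf 47866634 0 0) (P.cons (P.lf 20829944 0 0) (P.cons (P.lf 0 2743352 0) (P.cons (P.lf 0 314148 0) (P.cons (P.lf 37480 0 0) P.nil)))))) (P.cons (P.cons (P.lf 189909960 0 0) (P.cons (P.lf 0 20932811 0) (P.cons (P.lf 0 9370986 0) (P.cons (P.lf 952600 0 0) (P.cons (P.lf 90823 0 0) P.nil))))) (P.cons (P.cons (P.lf 0 59324462 0) (P.cons (P.lf 3692846 0 0) (P.cons (P.lf 1754983 0 0) (P.cons (P.lf 0 71935 0) P.nil)))) (P.cons (P.cons (P.lf 4541610 0 0) (P.cons (P.lf 342729 0 0) (P.cons (P.lf 144419 0 0) P.nil))) (P.cons (P.cons (P.lf 1274537 0 0) (P.cons (P.lf 0 169929 0) P.nil)) (P.cons (P.cons (P.lf 0 395336 0) P.nil) P.nil)))))) 298389)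
 EL.nil)
noncomputable def S285_314_216_290_30 : EL := (EL.cons 13 (TM.mk (P.cons (P.lf 0 1408772644 0) (P.cons (P.lf 0 436874896 0) (P.cons (P.lf 15598228 0 0) (P.cons (P.lf 1328688 0 0) (P.cons (P.lf 0 91228 0) (P.cons (P.lf 0 3020 0) P.nil)))))) 560)
 EL.nil)
noncomputable def S285_314_216_290_31 : EL := (EL.cons 13 (TM.mk (P.cons (P.cons (P.lf 0 387136503 0) (P.cons (P.lf 28566743 0 0) (P.cons (P.lf 13485250 0 0) (P.lf 0 642154 0)))) (P.cons (P.cons (P.lf 0 6717004 0) (P.cons (P.lf 4729361 0 0) (P.cons (P.lf 2232548 0 0) (P.lf 0 106311 0)))) (P.cons (P.cons (P.lf 20619388 0 0) (P.cons (P.lf 0 1990258 0) (P.cons (P.lf 0 939523 0) (P.lf 44738 0 0)))) (P.cons (P.cons (P.lf 0 9521957 0) (P.cons (P.lf 0 19580 0) (P.cons (P.lf 0 9242 0) P.nil))) (P.cons (P.cons (P.lf 0 392454 0) (P.cons (P.lf 37487 0 0) P.nil)) (P.cons (P.cons (P.lf 195667 0 0) P.nil) P.nil)))))) 56801)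
 EL.nil)
noncomputable def S285_314_216_290_32 : EL := (EL.cons 13 (TM.mk (P.cons (P.cons (P.lf 0 106386699 0) (P.cons (P.lf 15700516 0 0) (P.cons (P.lf 6832334 0 0) (P.cons (P.lf 0 899834 0) (P.cons (P.lf 0 103042 0) (P.cons (P.lf 12293 0 0) P.nil)))))) (P.cons (P.cons (P.lf 29299889 0 0) (P.cons (P.lf 0 1997184 0) (P.cons (P.lf 0 954957 0) (P.cons (P.lf 33410 0 0) (P.cons (P.lf 0 2164 0) P.nil))))) (P.cons (P.cons (P.lf 1036424 0 0) (P.cons (P.lf 0 1091806 0) (P.cons (P.lf 0 453201 0) (P.cons (P.lf 83264 0 0) P.nil)))) (P.cons (P.cons (P.lf 0 5134050 0) (P.cons (P.lf 549260 0 0) (P.cons (P.lf 253472 0 0) P.nil))) (P.cons (P.cons (P.lf 1029829 0 0) (P.cons (P.lf 0 26794 0) P.nil)) (P.cons (P.cons (P.lf 5635 0 0) P.nil) P.nil)))))) 253192)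
 EL.nil)
noncomputable def S285_314_216_290_33 : EL := (EL.cons 14 (TM.mk (P.lf 8589934592 0 0) 0)
 EL.nil)
noncomputable def S285_314_216_290_34 : EL := (EL.cons 14 (TM.mk (P.cons (P.cons (P.lf 2360549276 0 0) (P.cons (P.lf 0 174184568 0) (P.cons (P.lf 0 82225776 0) (P.lf 3915512 0 0)))) (P.cons (P.cons (P.lf 0 691073962 0) (P.cons (P.lf 25179336 0 0) (P.cons (P.lf 11886184 0 0) (P.lf 0 566008 0)))) (P.cons (P.cons (P.lf 114719758 0 0) (P.cons (P.lf 2398544 0 0) (P.cons (P.lf 1132256 0 0) (P.lf 0 53912 0)))) (P.cons (P.cons (P.lf 17058616 0 0) (P.cons (P.lf 0 509912 0) (P.cons (P.lf 0 240712 0) P.nil))) (P.cons (P.cons (P.lf 0 2431526 0) (P.cons (P.lf 0 8864 0) P.nil)) (P.cons (P.cons (P.lf 0 102268 0) P.nil) P.nil)))))) 79962)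
 EL.nil)
noncomputable def S285_314_216_290_35 : EL := (EL.cons 14 (TM.mk (P.cons (P.cons (P.lf 648688626 0 0) (P.cons (P.lf 0 95733268 0) (P.cons (P.lf 0 41659888 0) (P.cons (P.lf 5486704 0 0) (P.cons (P.lf 628296 0 0) (P.cons (P.lf 0 74960 0) P.nil)))))) (P.cons (P.cons (P.lf 0 379819920 0) (P.cons (P.lf 41865622 0 0) (P.cons (P.lf 18741972 0 0) (P.cons (P.lf 0 1905200 0) (P.cons (P.lf 0 181646 0) P.nil))))) (P.cons (P.cons (P.lf 118648924 0 0) (P.cons (P.lf 0 7385692 0) (P.cons (P.lf 0 3509966 0) (P.cons (P.lf 143870 0 0) P.nil)))) (P.cons (P.cons (P.lf 0 9083220 0) (P.cons (P.lf 0 685458 0) (P.cons (P.lf 0 288838 0) P.nil))) (P.cons (P.cons (P.lf 0 2549074 0) (P.cons (P.lf 339858 0 0) P.nil)) (P.cons (P.cons (P.lf 790672 0 0) P.nil) P.nil)))))) 596778)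
 EL.nil)
noncomputable def S285_314_216_290_36 : EL := (EL.cons 14 (TM.mk (P.cons (P.lf 2817545288 0 0) (P.cons (P.lf 873749792 0 0) (P.cons (P.lf 0 31196456 0) (P.cons (P.lf 0 2657376 0) (P.cons (P.lf 182456 0 0) (P.cons (P.lf 6040 0 0) P.nil)))))) 1120)
 EL.nil)
noncomputable def S285_314_216_290_37 : EL := (EL.cons 14 (TM.mk (P.cons (P.cons (P.lf 774273006 0 0) (P.cons (P.lf 0 57133486 0) (P.cons (P.lf 0 26970500 0) (P.lf 1284308 0 0)))) (P.cons (P.cons (P.lf 13434008 0 0) (P.cons (P.lf 0 9458722 0) (P.cons (P.lf 0 4465096 0) (P.lf 212622 0 0)))) (P.cons (P.cons (P.lf 0 41238776 0) (P.cons (P.lf 3980516 0 0) (P.cons (P.lf 1879046 0 0) (P.lf 0 89476 0)))) (P.cons (P.cons (P.lf 19043914 0 0) (P.cons (P.lf 39160 0 0) (P.cons (P.lf 18484 0 0) P.nil))) (P.cons (P.cons (P.lf 784908 0 0) (P.cons (P.lf 0 74974 0) P.nil)) (P.cons (P.cons (P.lf 0 391334 0) P.nil) P.nil))))))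 113602)
 EL.nil)
noncomputable def S285_314_216_290_38 : EL := (EL.cons 14 (TM.mk (P.cons (P.cons (P.lf 212773398 0 0) (P.cons (P.lf 0 31401032 0) (P.cons (P.lf 0 13664668 0) (P.cons (P.lf 1799668 0 0) (P.cons (P.lf 206084 0 0) (P.cons (P.lf 0 24586 0) P.nil)))))) (P.cons (P.cons (P.lf 0 58599778 0) (P.cons (P.lf 3994368 0 0) (P.cons (P.lf 1909914 0 0) (P.cons (P.lf 0 66820 0) (P.cons (P.lf 4328 0 0) P.nil))))) (P.cons (P.cons (P.lf 0 2072848 0) (P.cons (P.lf 2183612 0 0) (P.cons (P.lf 906402 0 0) (P.cons (P.lf 0 166528 0) P.nil)))) (P.cons (P.cons (P.lf 10268100 0 0) (P.cons (P.lf 0 1098520 0) (P.cons (P.lf 0 506944 0) P.nil))) (P.cons (P.cons (P.lf 0 2059658 0) (P.cons (P.lf 53588 0 0) P.nil)) (P.cons (P.cons (P.lf 0 11270 0) P.nil) P.nil)))))) 506384)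
 EL.nil)
noncomputable def S285_314_216_290_39 : EL := (EL.cons 14 (TM.mk (P.cons (P.lf 924170186 0 0) (P.cons (P.lf 573189372 0 0) (P.cons (P.lf 68410746 0 0) (P.cons (P.lf 0 8089740 0) (P.cons (P.lf 0 307614 0) (P.cons (P.lf 60382 0 0) P.nil)))))) 4526)
 EL.nil)
noncomputable def S285_314_216_290_40 : EL := (EL.cons 14 (TM.mk (P.cons (P.cons (P.lf 253965758 0 0) (P.cons (P.lf 0 18740094 0) (P.cons (P.lf 0 8846470 0) (P.lf 421260 0 0)))) (P.cons (P.cons (P.lf 83163822 0 0) (P.cons (P.lf 0 8914008 0) (P.cons (P.lf 0 4207958 0) (P.lf 200378 0 0)))) (P.cons (P.cons (P.lf 0 14972026 0) (P.cons (P.lf 551004 0 0) (P.cons (P.lf 260106 0 0) (P.lf 0 12384 0)))) (P.cons (P.cons (P.lf 1763470 0 0) (P.cons (P.lf 469760 0 0) (P.cons (P.lf 221754 0 0) P.nil))) (P.cons (P.cons (P.lf 2356618 0 0) (P.cons (P.lf 0 33352 0) P.nil)) (P.cons (P.cons (P.lf 0 104096 0) P.nil) P.nil))))))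 139068)
 EL.nil)
noncomputable def S285_314_216_290_41 : EL := (EL.cons 14 (TM.mk (P.cons (P.cons (P.lf 69790832 0 0) (P.cons (P.lf 0 10299708 0) (P.cons (P.lf 0 4482086 0) (P.cons (P.lf 590300 0 0) (P.cons (P.lf 67596 0 0) (P.cons (P.lf 0 8064 0) P.nil)))))) (P.cons (P.cons (P.lf 2421808 0 0) (P.cons (P.lf 0 1883870 0) (P.cons (P.lf 0 763478 0) (P.cons (P.lf 161140 0 0) (P.cons (P.lf 22382 0 0) P.nil))))) (P.cons (P.cons (P.lf 0 7413288 0) (P.cons (P.lf 1236576 0 0) (P.cons (P.lf 541204 0 0) (P.cons (P.lf 0 67954 0) P.nil)))) (P.cons (P.cons (P.lf 3304142 0 0) (P.cons (P.lf 0 143000 0) (P.cons (P.lf 0 76792 0) P.nil))) (P.cons (P.cons (P.lf 399044 0 0) (P.cons (P.lf 0 103994 0) P.nil)) (P.cons (P.cons (P.lf 0 250944 0) P.nil) P.nil)))))) 382958)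
 EL.nil)
noncomputable def S285_314_216_290_42 : EL := (EL.cons 14 (TM.mk (P.cons (P.lf 303132848 0 0) (P.cons (P.lf 282013848 0 0) (P.cons (P.lf 77386344 0 0) (P.cons (P.lf 1937536 0 0) (P.cons (P.lf 0 1329912 0) (P.cons (P.lf 9556 0 0) P.nil)))))) 14366)
 EL.nil)
noncomputable def S285_314_216_290_43 : EL := (EL.cons 14 (TM.mk (P.cons (P.cons (P.lf 83302150 0 0) (P.cons (P.lf 0 6146852 0) (P.cons (P.lf 0 2901690 0) (P.lf 138174 0 0)))) (P.cons (P.cons (P.lf 53111040 0 0) (P.cons (P.lf 0 4830044 0) (P.cons (P.lf 0 2280076 0) (P.lf 108574 0 0)))) (P.cons (P.cons (P.lf 2626000 0 0) (P.cons (P.lf 0 657922 0) (P.cons (P.lf 0 310578 0) (P.lf 14788 0 0)))) (P.cons (P.cons (P.lf 0 1325090 0) (P.cons (P.lf 248302 0 0) (P.cons (P.lf 117212 0 0) P.nil))) (P.cons (P.cons (P.lf 986402 0 0) (P.cons (P.lf 37200 0 0) P.nil)) (P.cons (P.cons (P.lf 205738 0 0) P.nil) P.nil)))))) 121820)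
 EL.nil)
noncomputable def S285_314_216_290_44 : EL := (EL.cons 14 (TM.mk (P.cons (P.cons (P.lf 22891772 0 0) (P.cons (P.lf 0 3378360 0) (P.cons (P.lf 0 1470148 0) (P.cons (P.lf 193620 0 0) (P.cons (P.lf 22172 0 0) (P.cons (P.lf 0 2644 0) P.nil)))))) (P.cons (P.cons (P.lf 7893340 0 0) (P.cons (P.lf 0 1665584 0) (P.cons (P.lf 0 706332 0) (P.cons (P.lf 112898 0 0) (P.cons (P.lf 14216 0 0) P.nil))))) (P.cons (P.cons (P.lf 0 2438720 0) (P.cons (P.lf 251386 0 0) (P.cons (P.lf 116136 0 0) (P.cons (P.lf 0 8042 0) P.nil)))) (P.cons (P.cons (P.lf 299326 0 0) (P.cons (P.lf 88904 0 0) (P.cons (P.lf 34020 0 0) P.nil))) (P.cons (P.cons (P.lf 494636 0 0) (P.cons (P.lf 0 52782 0) P.nil)) (P.cons (P.cons (P.lf 0 51326 0) P.nil) P.nil)))))) 260146)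
 EL.nil)
noncomputable def S285_314_216_290_45 : EL := (EL.cons 14 (TM.mk (P.cons (P.cons (P.lf 178262296 0 0) (P.cons (P.lf 0 39461842 0) (P.cons (P.lf 0 15716520 0) (P.cons (P.lf 3564616 0 0) (P.cons (P.lf 416544 0 0) (P.cons (P.lf 0 104848 0) P.nil)))))) (P.cons (P.cons (P.lf 0 156564108 0) (P.cons (P.lf 28810108 0 0) (P.cons (P.lf 11905792 0 0) (P.cons (P.lf 0 2216228 0) (P.cons (P.lf 0 257406 0) P.nil))))) (P.cons (P.cons (P.lf 71825656 0 0) (P.cons (P.lf 0 10014458 0) (P.cons (P.lf 0 4358806 0) (P.cons (P.lf 571616 0 0) P.nil)))) (P.cons (P.cons (P.lf 0 15825928 0) (P.cons (P.lf 1162244 0 0) (P.cons (P.lf 563084 0 0) P.nil))) (P.cons (P.cons (P.lf 676934 0 0) (P.cons (P.lf 240214 0 0) P.nil)) (P.cons (P.cons (P.lf 636462 0 0) P.nil) P.nil)))))) 1109748)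
 EL.nil)
noncomputable def S285_314_216_290_46 : EL := (EL.cons 15 (TM.mk (P.lf 4294967296 0 0) 0)
 EL.nil)
noncomputable def S285_314_216_290_47 : EL := (EL.cons 15 (TM.mk (P.cons (P.cons (P.lf 1180274638 0 0) (P.cons (P.lf 0 87092284 0) (P.cons (P.lf 0 41112888 0) (P.lf 1957756 0 0)))) (P.cons (P.cons (P.lf 0 345536981 0) (P.cons (P.lf 12589668 0 0) (P.cons (P.lf 5943092 0 0) (P.lf 0 283004 0)))) (P.cons (P.cons (P.lf 57359879 0 0) (P.cons (P.lf 1199272 0 0) (P.cons (P.lf 566128 0 0) (P.lf 0 26956 0)))) (P.cons (P.cons (P.lf 8529308 0 0) (P.cons (P.lf 0 254956 0) (P.cons (P.lf 0 120356 0) P.nil))) (P.cons (P.cons (P.lf 0 1215763 0) (P.cons (P.lf 0 4432 0) P.nil)) (P.cons (P.cons (P.lf 0 51134 0) P.nil) P.nil)))))) 39981)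
 EL.nil)
noncomputable def S285_314_216_290_48 : EL := (EL.cons 15 (TM.mk (P.cons (P.cons (P.lf 324344313 0 0) (P.cons (P.lf 0 47866634 0) (P.cons (P.lf 0 20829944 0) (P.cons (P.lf 2743352 0 0) (P.cons (P.lf 314148 0 0) (P.cons (P.lf 0 37480 0) P.nil)))))) (P.cons (P.cons (P.lf 0 189909960 0) (P.cons (P.lf 20932811 0 0) (P.cons (P.lf 9370986 0 0) (P.cons (P.lf 0 952600 0) (P.cons (P.lf 0 90823 0) P.nil))))) (P.cons (P.cons (P.lf 59324462 0 0) (P.cons (P.lf 0 3692846 0) (P.cons (P.lf 0 1754983 0) (P.cons (P.lf 71935 0 0) P.nil)))) (P.cons (P.cons (P.lf 0 4541610 0) (P.cons (P.lf 0 342729 0) (P.cons (P.lf 0 144419 0) P.nil))) (P.cons (P.cons (P.lf 0 1274537 0) (P.cons (P.lf 169929 0 0) P.nil)) (P.cons (P.cons (P.lf 395336 0 0) P.nil) P.nil)))))) 298389)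
 EL.nil)
noncomputable def S285_314_216_290 : SL := (SL.cons S285_314_216_290_0 (SL.cons S285_314_216_290_1 (SL.cons S285_314_216_290_2 (SL.cons S285_314_216_290_3 (SL.cons S285_314_216_290_4 (SL.cons S285_314_216_290_5 (SL.cons S285_314_216_290_6 (SL.cons S285_314_216_290_7 (SL.cons S285_314_216_290_8 (SL.cons S285_314_216_290_9 (SL.cons S285_314_216_290_10 (SL.cons S285_314_216_290_11 (SL.cons S285_314_216_290_12 (SL.cons S285_314_216_290_13 (SL.cons S285_314_216_290_14 (SL.cons S285_314_216_290_15 (SL.cons S285_314_216_290_16 (SL.cons S285_314_216_290_17 (SL.cons S285_314_216_290_18 (SL.cons S285_314_216_290_19 (SL.cons S285_314_216_290_20 (SL.cons S285_314_216_290_21 (SL.cons S285_314_216_290_22 (SL.cons S285_314_216_290_23 (SL.cons S285_314_216_290_24 (SL.cons S285_314_216_290_25 (SL.cons S285_314_216_290_26 (SL.cons S285_314_216_290_27 (SL.cons S285_314_216_290_28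 (SL.cons S285_314_216_290_29 (SL.cons S285_314_216_290_30 (SL.cons S285_314_216_290_31 (SL.cons S285_314_216_290_32 (SL.cons S285_314_216_290_33 (SL.cons S285_314_216_290_34 (SL.cons S285_314_216_290_35 (SL.cons S285_314_216_290_36 (SL.cons S285_314_216_290_37 (SL.cons S285_314_216_290_38 (SL.cons S285_314_216_290_39 (SL.cons S285_314_216_290_40 (SL.cons S285_314_216_290_41 (SL.cons S285_314_216_290_42 (SL.cons S285_314_216_290_43 (SL.cons S285_314_216_290_44 (SL.cons S285_314_216_290_45 (SL.cons S285_314_216_290_46 (SL.cons S285_314_216_290_47 (SL.cons S285_314_216_290_48 SL.nil)))))))))))))))))))))))))))))))))))))))))))))))))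
noncomputable def S285_314_216_364_0 : EL := (EL.cons 0 (TM.mk (P.cons (P.lf 7643457911 0 0) (P.cons (P.lf 0 503779721 0) (P.cons (P.lf 0 60126632 0) (P.cons (P.lf 7110123 0 0) (P.cons (P.lf 270363 0 0) (P.cons (P.lf 0 53070 0) P.nil)))))) 3984)
 (EL.cons 1 (TM.mk (P.cons (P.lf 1228710643 0 0) (P.cons (P.lf 321830180 0 0) (P.cons (P.lf 0 40457490 0) (P.cons (P.lf 0 2710608 0) (P.cons (P.lf 384633 0 0) (P.cons (P.lf 7027 0 0) P.nil)))))) 2881)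
 (EL.cons 5 (TM.mk (P.cons (P.lf 4583770480 0 0) (P.cons (P.lf 179121676 0 0) (P.cons (P.lf 21378358 0 0) (P.cons (P.lf 0 2528040 0) (P.cons (P.lf 0 96128 0) (P.cons (P.lf 18870 0 0) P.nil)))))) 1697)
 (EL.cons 9 (TM.mk (P.lf 6442450944 0 0) 2)
 EL.nil))))
noncomputable def S285_314_216_364_1 : EL := (EL.cons 0 (TM.mk (P.cons (P.cons (P.lf 591231918 0 0) (P.cons (P.lf 0 396280047 0) (P.cons (P.lf 0 170880427 0) (P.lf 18986718 0 0)))) (P.cons (P.cons (P.lf 0 608467369 0) (P.cons (P.lf 210654983 0 0) (P.cons (P.lf 90836798 0 0) (P.lf 0 10092970 0)))) (P.cons (P.cons (P.lf 386675106 0 0) (P.cons (P.lf 1591210 0 0) (P.cons (P.lf 686149 0 0) (P.lf 0 76236 0)))) (P.cons (P.cons (P.lf 13980863 0 0) (P.cons (P.lf 0 8082697 0) (P.cons (P.lf 0 3485349 0) P.nil))) (P.cons (P.cons (P.lf 0 14124015 0) (P.cons (P.lf 407331 0 0) P.nil)) (P.cons (P.cons (P.lf 337895 0 0) P.nil) P.nil))))))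 1571812)
 (EL.cons 1 (TM.mk (P.cons (P.cons (P.lf 1122146851 0 0) (P.cons (P.lf 0 211996516 0) (P.cons (P.lf 0 91415288 0) (P.lf 10157251 0 0)))) (P.cons (P.cons (P.lf 0 479210255 0) (P.cons (P.lf 0 9263037 0) (P.cons (P.lf 0 3994322 0) (P.lf 443816 0 0)))) (P.cons (P.cons (P.lf 0 41699832 0) (P.cons (P.lf 23128857 0 0) (P.cons (P.lf 9973423 0 0) (P.lf 0 1108148 0)))) (P.cons (P.cons (P.lf 43912812 0 0) (P.cons (P.lf 0 1038720 0) (P.cons (P.lf 0 447905 0) P.nil))) (P.cons (P.cons (P.lf 0 582838 0) (P.cons (P.lf 0 589254 0) P.nil)) (P.cons (P.cons (P.lf 0 1040955 0) P.nil) P.nil)))))) 858874)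
 (EL.cons 5 (TM.mk (P.cons (P.cons (P.lf 1581630479 0 0) (P.cons (P.lf 0 414812732 0) (P.cons (P.lf 0 178871932 0) (P.lf 19874660 0 0)))) (P.cons (P.cons (P.lf 0 340044327 0) (P.cons (P.lf 5431732 0 0) (P.cons (P.lf 2342228 0 0) (P.lf 0 260254 0)))) (P.cons (P.cons (P.lf 0 37017329 0) (P.cons (P.lf 7086466 0 0) (P.cons (P.lf 3055762 0 0) (P.lf 0 339528 0)))) (P.cons (P.cons (P.lf 8900570 0 0) (P.cons (P.lf 1247018 0 0) (P.cons (P.lf 537728 0 0) P.nil))) (P.cons (P.cons (P.lf 2944145 0 0) (P.cons (P.lf 0 173128 0) P.nil)) (P.cons (P.cons (P.lf 0 200705 0) P.nil) P.nil)))))) 822610)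
 (EL.cons 9 (TM.mk (P.cons (P.cons (P.lf 1581040827 0 0) (P.cons (P.lf 0 490334382 0) (P.cons (P.lf 0 211437714 0) (P.lf 23493078 0 0)))) (P.cons (P.cons (P.lf 0 490930831 0) (P.cons (P.lf 70880538 0 0) (P.cons (P.lf 30564486 0 0) (P.lf 0 3396048 0)))) (P.cons (P.cons (P.lf 88647484 0 0) (P.cons (P.lf 6751968 0 0) (P.cons (P.lf 2911524 0 0) (P.lf 0 323496 0)))) (P.cons (P.cons (P.lf 12239586 0 0) (P.cons (P.lf 0 1435428 0) (P.cons (P.lf 0 618972 0) P.nil))) (P.cons (P.cons (P.lf 0 1833286 0) (P.cons (P.lf 0 24972 0) P.nil)) (P.cons (P.cons (P.lf 0 71091 0) P.nil) P.nil)))))) 179270)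
 (EL.cons 2 (TM.mk (P.cons (P.cons (P.lf 0 338650385 0) (P.cons (P.lf 0 315484163 0) (P.cons (P.lf 32378937 0 0) (P.cons (P.lf 6733915 0 0) (P.lf 0 561158 0))))) (P.cons (P.cons (P.lf 0 72383115 0) (P.cons (P.lf 0 67431566 0) (P.cons (P.lf 6920670 0 0) (P.cons (P.lf 1439305 0 0) (P.lf 0 119941 0))))) (P.cons (P.cons (P.lf 17765443 0 0) (P.cons (P.lf 16550153 0 0) (P.cons (P.lf 0 1698581 0) (P.cons (P.lf 0 353255 0) P.nil)))) (P.cons (P.cons (P.lf 705358 0 0) (P.cons (P.lf 657106 0 0) (P.cons (P.lf 0 67438 0) P.nil))) (P.cons (P.cons (P.lf 0 256190 0) (P.cons (P.lf 0 238663 0) P.nil)) (P.cons (P.cons (P.lf 818 0 0) P.nil) P.nil)))))) 137136)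
 (EL.cons 6 (TM.mk (P.cons (P.cons (P.lf 512279160 0 0) (P.cons (P.lf 477235428 0 0) (P.cons (P.lf 0 48979878 0) (P.cons (P.lf 0 10186449 0) (P.lf 848868 0 0))))) (P.cons (P.cons (P.lf 0 74052777 0) (P.cons (P.lf 0 68987013 0) (P.cons (P.lf 7080309 0 0) (P.cons (P.lf 1472505 0 0) (P.lf 0 122706 0))))) (P.cons (P.cons (P.lf 0 7054152 0) (P.cons (P.lf 0 6571593 0) (P.cons (P.lf 674457 0 0) (P.cons (P.lf 140268 0 0) P.nil)))) (P.cons (P.cons (P.lf 1499673 0 0) (P.cons (P.lf 1397085 0 0) (P.cons (P.lf 0 143385 0) P.nil))) (P.cons (P.cons (P.lf 26088 0 0) (P.cons (P.lf 24303 0 0) P.nil)) (P.cons (P.cons (P.lf 0 15168 0) P.nil) P.nil)))))) 85959)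
 EL.nil))))))
noncomputable def S285_314_216_364_2 : EL := (EL.cons 0 (TM.mk (P.cons (P.cons (P.lf 0 170146541 0) (P.cons (P.lf 1031594 0 0) (P.cons (P.lf 16490106 0 0) (P.cons (P.lf 13788382 0 0) (P.cons (P.lf 1445978 0 0) (P.cons (P.lf 0 663006 0) P.nil)))))) (P.cons (P.cons (P.lf 0 72535632 0) (P.cons (P.lf 120664155 0 0) (P.cons (P.lf 26965102 0 0) (P.cons (P.lf 0 27399333 0) (P.cons (P.lf 0 2258964 0) P.nil))))) (P.cons (P.cons (P.lf 187565497 0 0) (P.cons (P.lf 0 82026642 0) (P.cons (P.lf 0 32009596 0) (P.cons (P.lf 6828866 0 0) P.nil)))) (P.cons (P.cons (P.lf 0 54015310 0) (P.cons (P.lf 6523138 0 0) (P.cons (P.lf 4099567 0 0) P.nil))) (P.cons (P.cons (P.lf 1181320 0 0) (P.cons (P.lf 4484779 0 0) P.nil)) (P.cons (P.cons (P.lf 3549064 0 0) P.nil) P.nil)))))) 12818341)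
 (EL.cons 1 (TM.mk (P.cons (P.cons (P.lf 476771433 0 0) (P.cons (P.lf 0 228965045 0) (P.cons (P.lf 0 73579808 0) (P.cons (P.lf 32662328 0 0) (P.cons (P.lf 2266703 0 0) (P.cons (P.lf 0 1039314 0) P.nil)))))) (P.cons (P.cons (P.lf 0 379653295 0) (P.cons (P.lf 116534901 0 0) (P.cons (P.lf 47189857 0 0) (P.cons (P.lf 0 8223582 0) (P.cons (P.lf 0 275879 0) P.nil))))) (P.cons (P.cons (P.lf 82488612 0 0) (P.cons (P.lf 2104219 0 0) (P.cons (P.lf 0 2440867 0) (P.cons (P.lf 0 2988405 0) P.nil)))) (P.cons (P.cons (P.lf 15023244 0 0) (P.cons (P.lf 0 12253076 0) (P.cons (P.lf 0 4651236 0) P.nil))) (P.cons (P.cons (P.lf 0 9532482 0) (P.cons (P.lf 1594959 0 0) P.nil)) (P.cons (P.cons (P.lf 843100 0 0) P.nil) P.nil)))))) 6840635)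
 (EL.cons 5 (TM.mk (P.cons (P.cons (P.lf 500233241 0 0) (P.cons (P.lf 0 273121322 0) (P.cons (P.lf 0 81182767 0) (P.cons (P.lf 44642117 0 0) (P.cons (P.lf 3297443 0 0) (P.cons (P.lf 0 1511924 0) P.nil)))))) (P.cons (P.cons (P.lf 0 247295857 0) (P.cons (P.lf 81218683 0 0) (P.cons (P.lf 31706975 0 0) (P.cons (P.lf 0 6750692 0) (P.cons (P.lf 0 298791 0) P.nil))))) (P.cons (P.cons (P.lf 25019489 0 0) (P.cons (P.lf 5384911 0 0) (P.cons (P.lf 845924 0 0) (P.cons (P.lf 0 1531020 0) P.nil)))) (P.cons (P.cons (P.lf 10702161 0 0) (P.cons (P.lf 0 4184868 0) (P.cons (P.lf 0 1846038 0) P.nil))) (P.cons (P.cons (P.lf 0 2171485 0) (P.cons (P.lf 0 528449 0) P.nil)) (P.cons (P.cons (P.lf 0 603032 0) P.nil) P.nil)))))) 7211137)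
 (EL.cons 9 (TM.mk (P.cons (P.cons (P.lf 388002969 0 0) (P.cons (P.lf 0 240665760 0) (P.cons (P.lf 0 66458481 0) (P.cons (P.lf 43715875 0 0) (P.cons (P.lf 3363157 0 0) (P.cons (P.lf 0 1542058 0) P.nil)))))) (P.cons (P.cons (P.lf 0 240958509 0) (P.cons (P.lf 109518967 0 0) (P.cons (P.lf 36436389 0 0) (P.cons (P.lf 0 14552350 0) (P.cons (P.lf 0 972325 0) P.nil))))) (P.cons (P.cons (P.lf 80920083 0 0) (P.cons (P.lf 0 20982453 0) (P.cons (P.lf 0 9295818 0) (P.cons (P.lf 791484 0 0) P.nil)))) (P.cons (P.cons (P.lf 0 7502889 0) (P.cons (P.lf 0 1646058 0) (P.cons (P.lf 0 342726 0) P.nil))) (P.cons (P.cons (P.lf 0 1545405 0) (P.cons (P.lf 940707 0 0) P.nil)) (P.cons (P.cons (P.lf 581340 0 0) P.nil) P.nil)))))) 2793227)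
 (EL.cons 2 (TM.mk (P.cons (P.cons (P.lf 0 166216269 0) (P.cons (P.lf 0 103296526 0) (P.cons (P.lf 86143803 0 0) (P.cons (P.lf 16614607 0 0) (P.cons (P.lf 0 5726671 0) (P.cons (P.lf 0 120436 0) P.nil)))))) (P.cons (P.cons (P.lf 16084946 0 0) (P.cons (P.lf 18551025 0 0) (P.cons (P.lf 3322406 0 0) (P.cons (P.lf 600963 0 0) (P.cons (P.lf 0 350488 0) P.nil))))) (P.cons (P.cons (P.lf 10431585 0 0) (P.cons (P.lf 4711156 0 0) (P.cons (P.lf 0 7820701 0) (P.cons (P.lf 0 1500131 0) P.nil)))) (P.cons (P.cons (P.lf 0 5640063 0) (P.cons (P.lf 0 4971510 0) (P.cons (P.lf 924558 0 0) P.nil))) (P.cons (P.cons (P.lf 173356 0 0) (P.cons (P.lf 288135 0 0) P.nil)) (P.cons (P.cons (P.lf 175027 0 0) P.nil) P.nil)))))) 2149677)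
 (EL.cons 6 (TM.mk (P.cons (P.cons (P.lf 251436684 0 0) (P.cons (P.lf 156257490 0 0) (P.cons (P.lf 0 130310424 0) (P.cons (P.lf 0 25133046 0) (P.cons (P.lf 8662782 0 0) (P.cons (P.lf 182190 0 0) P.nil)))))) (P.cons (P.cons (P.lf 0 114420456 0) (P.cons (P.lf 0 84048636 0) (P.cons (P.lf 41663796 0 0) (P.cons (P.lf 8095968 0 0) (P.cons (P.lf 0 2573646 0) P.nil))))) (P.cons (P.cons (P.lf 21921516 0 0) (P.cons (P.lf 20940006 0 0) (P.cons (P.lf 0 1389894 0) (P.cons (P.lf 0 302130 0) P.nil)))) (P.cons (P.cons (P.lf 1719726 0 0) (P.cons (P.lf 835086 0 0) (P.cons (P.lf 0 1209696 0) P.nil))) (P.cons (P.cons (P.lf 0 982806 0) (P.cons (P.lf 0 872304 0) P.nil)) (P.cons (P.cons (P.lf 33882 0 0) P.nil) P.nil)))))) 2200560)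
 EL.nil))))))
noncomputable def S285_314_216_364_3 : EL := (EL.cons 0 (TM.mk (P.cons (P.lf 812258952 0 0) (P.cons (P.lf 503779721 0 0) (P.cons (P.lf 60126632 0 0) (P.cons (P.lf 0 7110123 0) (P.cons (P.lf 0 270363 0) (P.cons (P.lf 53070 0 0) P.nil)))))) 3984)
 (EL.cons 1 (TM.mk (P.cons (P.lf 0 1228710643 0) (P.cons (P.lf 0 321830180 0) (P.cons (P.lf 40457490 0 0) (P.cons (P.lf 2710608 0 0) (P.cons (P.lf 0 384633 0) (P.cons (P.lf 0 7027 0) P.nil)))))) 2881)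
 (EL.cons 5 (TM.mk (P.cons (P.lf 1858680464 0 0) (P.cons (P.lf 0 179121676 0) (P.cons (P.lf 0 21378358 0) (P.cons (P.lf 2528040 0 0) (P.cons (P.lf 96128 0 0) (P.cons (P.lf 0 18870 0) P.nil)))))) 1690)
 EL.nil)))
noncomputable def S285_314_216_364_4 : EL := (EL.cons 0 (TM.mk (P.cons (P.cons (P.lf 199336334 0 0) (P.cons (P.lf 0 61820957 0) (P.cons (P.lf 0 26657892 0) (P.lf 2961987 0 0)))) (P.cons (P.cons (P.lf 61736340 0 0) (P.cons (P.lf 0 29406069 0) (P.cons (P.lf 0 12680228 0) (P.lf 1408914 0 0)))) (P.cons (P.cons (P.lf 0 12457001 0) (P.cons (P.lf 1817687 0 0) (P.cons (P.lf 783806 0 0) (P.lf 0 87087 0)))) (P.cons (P.cons (P.lf 2148421 0 0) (P.cons (P.lf 1549675 0 0) (P.cons (P.lf 668237 0 0) P.nil))) (P.cons (P.cons (P.lf 2028752 0 0) (P.cons (P.lf 0 110026 0) P.nil)) (P.cons (P.cons (P.lf 0 102297 0) P.nil) P.nil)))))) 343929)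
 (EL.cons 1 (TM.mk (P.cons (P.cons (P.lf 0 301537676 0) (P.cons (P.lf 93517059 0 0) (P.cons (P.lf 40325610 0 0) (P.lf 0 4480621 0)))) (P.cons (P.cons (P.lf 14650522 0 0) (P.cons (P.lf 10976058 0 0) (P.cons (P.lf 4732998 0 0) (P.lf 0 525888 0)))) (P.cons (P.cons (P.lf 17545991 0 0) (P.cons (P.lf 0 7907767 0) (P.cons (P.lf 0 3409918 0) (P.lf 378877 0 0)))) (P.cons (P.cons (P.lf 0 9180448 0) (P.cons (P.lf 175286 0 0) (P.cons (P.lf 75585 0 0) P.nil))) (P.cons (P.cons (P.lf 0 6033 0) (P.cons (P.lf 177965 0 0) P.nil)) (P.cons (P.cons (P.lf 246883 0 0) P.nil) P.nil)))))) 233696)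
 (EL.cons 5 (TM.mk (P.cons (P.cons (P.lf 456138466 0 0) (P.cons (P.lf 0 141464008 0) (P.cons (P.lf 0 61000874 0) (P.lf 6777874 0 0)))) (P.cons (P.cons (P.lf 0 185594308 0) (P.cons (P.lf 34082336 0 0) (P.cons (P.lf 14696686 0 0) (P.lf 0 1632962 0)))) (P.cons (P.cons (P.lf 33978316 0 0) (P.cons (P.lf 1604366 0 0) (P.cons (P.lf 691820 0 0) (P.lf 0 76866 0)))) (P.cons (P.cons (P.lf 3315976 0 0) (P.cons (P.lf 0 1029470 0) (P.cons (P.lf 0 443918 0) P.nil))) (P.cons (P.cons (P.lf 0 1332430 0) (P.cons (P.lf 30796 0 0) P.nil)) (P.cons (P.cons (P.lf 12674 0 0) P.nil) P.nil)))))) 169658)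
 EL.nil)))
noncomputable def S285_314_216_364_5 : EL := (EL.cons 0 (TM.mk (P.cons (P.cons (P.lf 48919095 0 0) (P.cons (P.lf 0 30342941 0) (P.cons (P.lf 0 8379029 0) (P.cons (P.lf 5511661 0 0) (P.cons (P.lf 424023 0 0) (P.cons (P.lf 0 194421 0) P.nil)))))) (P.cons (P.cons (P.lf 0 39220 0) (P.cons (P.lf 0 5011254 0) (P.cons (P.lf 0 602977 0) (P.cons (P.lf 1583697 0 0) (P.cons (P.lf 140398 0 0) P.nil))))) (P.cons (P.cons (P.lf 0 5018684 0) (P.cons (P.lf 3672486 0 0) (P.cons (P.lf 1056953 0 0) (P.cons (P.lf 0 630163 0) P.nil)))) (P.cons (P.cons (P.lf 2704689 0 0) (P.cons (P.lf 0 560561 0) (P.cons (P.lf 0 356711 0) P.nil))) (P.cons (P.cons (P.lf 223317 0 0) (P.cons (P.lf 0 316708 0) P.nil)) (P.cons (P.cons (P.lf 0 193572 0) P.nil) P.nil)))))) 1520315)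
 (EL.cons 1 (TM.mk (P.cons (P.cons (P.lf 0 74000310 0) (P.cons (P.lf 45900011 0 0) (P.cons (P.lf 12675026 0 0) (P.cons (P.lf 0 8337534 0) (P.cons (P.lf 0 641422 0) (P.cons (P.lf 294101 0 0) P.nil)))))) (P.cons (P.cons (P.lf 26573304 0 0) (P.cons (P.lf 0 8865198 0) (P.cons (P.lf 0 3629274 0) (P.cons (P.lf 591626 0 0) (P.cons (P.lf 17437 0 0) P.nil))))) (P.cons (P.cons (P.lf 0 959574 0) (P.cons (P.lf 0 2980522 0) (P.cons (P.lf 0 464604 0) (P.cons (P.lf 850531 0 0) P.nil)))) (P.cons (P.cons (P.lf 0 3961301 0) (P.cons (P.lf 1948608 0 0) (P.cons (P.lf 730586 0 0) P.nil))) (P.cons (P.cons (P.lf 1053161 0 0) (P.cons (P.lf 0 168502 0) P.nil)) (P.cons (P.cons (P.lf 0 32780 0) P.nil) P.nil)))))) 1320710)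
 (EL.cons 5 (TM.mk (P.cons (P.cons (P.lf 111940864 0 0) (P.cons (P.lf 0 69433318 0) (P.cons (P.lf 0 19173614 0) (P.cons (P.lf 12612254 0 0) (P.cons (P.lf 970286 0 0) (P.cons (P.lf 0 444890 0) P.nil)))))) (P.cons (P.cons (P.lf 0 80305556 0) (P.cons (P.lf 38288100 0 0) (P.cons (P.lf 12359854 0 0) (P.cons (P.lf 0 5413874 0) (P.cons (P.lf 0 374026 0) P.nil))))) (P.cons (P.cons (P.lf 28757782 0 0) (P.cons (P.lf 0 8299924 0) (P.cons (P.lf 0 3474410 0) (P.cons (P.lf 487884 0 0) P.nil)))) (P.cons (P.cons (P.lf 0 3462630 0) (P.cons (P.lf 0 349374 0) (P.cons (P.lf 12588 0 0) P.nil))) (P.cons (P.cons (P.lf 0 594536 0) (P.cons (P.lf 426176 0 0) P.nil)) (P.cons (P.cons (P.lf 262604 0 0) P.nil) P.nil)))))) 1247678)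
 EL.nil)))
noncomputable def S285_314_216_364_6 : EL := (EL.cons 12 (TM.mk (P.lf 8589934592 0 0) 0)
 (EL.cons 3 (TM.mk (P.cons (P.lf 1320724353 0 0) (P.cons (P.lf 409570215 0 0) (P.cons (P.lf 0 14623338 0) (P.cons (P.lf 0 1245645 0) (P.cons (P.lf 85526 0 0) (P.cons (P.lf 2831 0 0) P.nil)))))) 532)
 (EL.cons 7 (TM.mk (P.cons (P.lf 0 1997870342 0) (P.cons (P.lf 96267727 0 0) (P.cons (P.lf 13808992 0 0) (P.cons (P.lf 0 693290 0) (P.cons (P.lf 0 37347 0) (P.cons (P.lf 3551 0 0) P.nil)))))) 296)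
 EL.nil)))
noncomputable def S285_314_216_364_7 : EL := (EL.cons 12 (TM.mk (P.cons (P.cons (P.lf 2108054436 0 0) (P.cons (P.lf 0 653779176 0) (P.cons (P.lf 0 281916952 0) (P.lf 31324104 0 0)))) (P.cons (P.cons (P.lf 0 654574442 0) (P.cons (P.lf 94507384 0 0) (P.cons (P.lf 40752648 0 0) (P.lf 0 4528064 0)))) (P.cons (P.cons (P.lf 118196646 0 0) (P.cons (P.lf 9002624 0 0) (P.cons (P.lf 3882032 0 0) (P.lf 0 431328 0)))) (P.cons (P.cons (P.lf 16319448 0 0) (P.cons (P.lf 0 1913904 0) (P.cons (P.lf 0 825296 0) P.nil))) (P.cons (P.cons (P.lf 0 2444382 0) (P.cons (P.lf 0 33296 0) P.nil)) (P.cons (P.cons (P.lf 0 94788 0) P.nil) P.nil)))))) 239002)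
 (EL.cons 3 (TM.mk (P.cons (P.cons (P.lf 0 1764542269 0) (P.cons (P.lf 201040430 0 0) (P.cons (P.lf 86690900 0 0) (P.lf 0 9632320 0)))) (P.cons (P.cons (P.lf 806307414 0 0) (P.cons (P.lf 33283202 0 0) (P.cons (P.lf 14352090 0 0) (P.lf 0 1594678 0)))) (P.cons (P.cons (P.lf 129454503 0 0) (P.cons (P.lf 0 14006584 0) (P.cons (P.lf 0 6039796 0) (P.lf 671084 0 0)))) (P.cons (P.cons (P.lf 0 29283079 0) (P.cons (P.lf 0 137794 0) (P.cons (P.lf 0 59418 0) P.nil))) (P.cons (P.cons (P.lf 0 1066537 0) (P.cons (P.lf 263828 0 0) P.nil)) (P.cons (P.cons (P.lf 448644 0 0) P.nil) P.nil)))))) 654006)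
 (EL.cons 7 (TM.mk (P.cons (P.cons (P.lf 0 981227877 0) (P.cons (P.lf 222938285 0 0) (P.cons (P.lf 96133506 0 0) (P.lf 0 10681502 0)))) (P.cons (P.cons (P.lf 189519112 0 0) (P.cons (P.lf 7823072 0 0) (P.cons (P.lf 3373395 0 0) (P.lf 0 374819 0)))) (P.cons (P.cons (P.lf 64379645 0 0) (P.cons (P.lf 0 1890702 0) (P.cons (P.lf 0 815293 0) (P.lf 90590 0 0)))) (P.cons (P.cons (P.lf 1213042 0 0) (P.cons (P.lf 0 784597 0) (P.cons (P.lf 0 338327 0) P.nil))) (P.cons (P.cons (P.lf 0 1814769 0) (P.cons (P.lf 35292 0 0) P.nil)) (P.cons (P.cons (P.lf 5389 0 0) P.nil) P.nil)))))) 499272)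
 (EL.cons 10 (TM.mk (P.cons (P.cons (P.lf 0 1101283803 0) (P.cons (P.lf 0 1025947743 0) (P.cons (P.lf 105295614 0 0) (P.cons (P.lf 21898557 0 0) (P.lf 0 1824879 0))))) (P.cons (P.cons (P.lf 106131099 0 0) (P.cons (P.lf 98870937 0 0) (P.cons (P.lf 0 10147374 0) (P.cons (P.lf 0 2110371 0) (P.lf 175863 0 0))))) (P.cons (P.cons (P.lf 12666855 0 0) (P.cons (P.lf 11800347 0 0) (P.cons (P.lf 0 1211097 0) (P.cons (P.lf 0 251874 0) P.nil)))) (P.cons (P.cons (P.lf 0 1497882 0) (P.cons (P.lf 0 1395417 0) (P.cons (P.lf 143214 0 0) P.nil))) (P.cons (P.cons (P.lf 0 56955 0) (P.cons (P.lf 0 53058 0) P.nil)) (P.cons (P.cons (P.lf 11178 0 0) P.nil) P.nil)))))) 73815)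
 EL.nil))))
noncomputable def S285_314_216_364_8 : EL := (EL.cons 12 (TM.mk (P.cons (P.cons (P.lf 517337292 0 0) (P.cons (P.lf 0 320887680 0) (P.cons (P.lf 0 88611308 0) (P.cons (P.lf 58287834 0 0) (P.cons (P.lf 4484210 0 0) (P.cons (P.lf 0 2056078 0) P.nil)))))) (P.cons (P.cons (P.lf 0 321278012 0) (P.cons (P.lf 146025290 0 0) (P.cons (P.lf 48581852 0 0) (P.cons (P.lf 0 19403134 0) (P.cons (P.lf 0 1296434 0) P.nil))))) (P.cons (P.cons (P.lf 107893444 0 0) (P.cons (P.lf 0 27976604 0) (P.cons (P.lf 0 12394424 0) (P.cons (P.lf 1055312 0 0) P.nil)))) (P.cons (P.cons (P.lf 0 10003852 0) (P.cons (P.lf 0 2194744 0) (P.cons (P.lf 0 456968 0) P.nil))) (P.cons (P.cons (P.lf 0 2060540 0) (P.cons (P.lf 1254276 0 0) P.nil)) (P.cons (P.cons (P.lf 775120 0 0) P.nil) P.nil)))))) 3724274)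
 (EL.cons 3 (TM.mk (P.cons (P.cons (P.lf 0 945613981 0) (P.cons (P.lf 416610210 0 0) (P.cons (P.lf 141394096 0 0) (P.cons (P.lf 0 52950958 0) (P.cons (P.lf 0 3447290 0) (P.cons (P.lf 1580636 0 0) P.nil)))))) (P.cons (P.cons (P.lf 689407127 0 0) (P.cons (P.lf 0 183018610 0) (P.cons (P.lf 0 79722970 0) (P.cons (P.lf 8076078 0 0) (P.cons (P.lf 0 72385 0) P.nil))))) (P.cons (P.cons (P.lf 0 108295881 0) (P.cons (P.lf 0 15283972 0) (P.cons (P.lf 0 2483310 0) (P.cons (P.lf 4274520 0 0) P.nil)))) (P.cons (P.cons (P.lf 0 22695663 0) (P.cons (P.lf 15402718 0 0) (P.cons (P.lf 6258010 0 0) P.nil))) (P.cons (P.cons (P.lf 12495654 0 0) (P.cons (P.lf 0 890656 0) P.nil)) (P.cons (P.cons (P.lf 0 370463 0) P.nil) P.nil)))))) 8555009)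
 (EL.cons 7 (TM.mk (P.cons (P.cons (P.lf 0 361282225 0) (P.cons (P.lf 184151901 0 0) (P.cons (P.lf 57045850 0 0) (P.cons (P.lf 0 28109094 0) (P.cons (P.lf 0 2015273 0) (P.cons (P.lf 924032 0 0) P.nil)))))) (P.cons (P.cons (P.lf 162042194 0 0) (P.cons (P.lf 0 43017743 0) (P.cons (P.lf 0 18738541 0) (P.cons (P.lf 1898251 0 0) (P.cons (P.lf 0 17014 0) P.nil))))) (P.cons (P.cons (P.lf 3575003 0 0) (P.cons (P.lf 0 11298963 0) (P.cons (P.lf 0 3940655 0) (P.cons (P.lf 1344776 0 0) P.nil)))) (P.cons (P.cons (P.lf 0 10706857 0) (P.cons (P.lf 2574334 0 0) (P.cons (P.lf 1249640 0 0) P.nil))) (P.cons (P.cons (P.lf 1410404 0 0) (P.cons (P.lf 720430 0 0) P.nil)) (P.cons (P.cons (P.lf 697575 0 0) P.nil) P.nil)))))) 3892763)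
 (EL.cons 10 (TM.mk (P.cons (P.cons (P.lf 0 540531750 0) (P.cons (P.lf 0 335918100 0) (P.cons (P.lf 280137804 0 0) (P.cons (P.lf 54030348 0 0) (P.cons (P.lf 0 18623022 0) (P.cons (P.lf 0 391668 0) P.nil)))))) (P.cons (P.cons (P.lf 219932376 0 0) (P.cons (P.lf 164499210 0 0) (P.cons (P.lf 0 76069218 0) (P.cons (P.lf 0 14801040 0) (P.cons (P.lf 4635408 0 0) P.nil))))) (P.cons (P.cons (P.lf 0 40264878 0) (P.cons (P.lf 0 39411660 0) (P.cons (P.lf 1258830 0 0) (P.cons (P.lf 309774 0 0) P.nil)))) (P.cons (P.cons (P.lf 0 3929484 0) (P.cons (P.lf 0 2440740 0) (P.cons (P.lf 2038242 0 0) P.nil))) (P.cons (P.cons (P.lf 1578948 0 0) (P.cons (P.lf 1434444 0 0) P.nil)) (P.cons (P.cons (P.lf 0 15018 0) P.nil) P.nil)))))) 3680214)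
 EL.nil))))
noncomputable def S285_314_216_364_9 : EL := (EL.cons 3 (TM.mk (P.cons (P.lf 1320724353 0 0) (P.cons (P.lf 409570215 0 0) (P.cons (P.lf 0 14623338 0) (P.cons (P.lf 0 1245645 0) (P.cons (P.lf 85526 0 0) (P.cons (P.lf 2831 0 0) P.nil)))))) 532)
 (EL.cons 7 (TM.mk (P.cons (P.lf 0 1997870342 0) (P.cons (P.lf 96267727 0 0) (P.cons (P.lf 13808992 0 0) (P.cons (P.lf 0 693290 0) (P.cons (P.lf 0 37347 0) (P.cons (P.lf 3551 0 0) P.nil)))))) 296)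
 EL.nil))
noncomputable def S285_314_216_364_10 : EL := (EL.cons 3 (TM.mk (P.cons (P.cons (P.lf 324118745 0 0) (P.cons (P.lf 0 100520215 0) (P.cons (P.lf 0 43345450 0) (P.lf 4816160 0 0)))) (P.cons (P.cons (P.lf 0 129930 0) (P.cons (P.lf 0 16641601 0) (P.cons (P.lf 0 7176045 0) (P.lf 797339 0 0)))) (P.cons (P.cons (P.lf 0 16625946 0) (P.cons (P.lf 7003292 0 0) (P.cons (P.lf 3019898 0 0) (P.lf 0 335542 0)))) (P.cons (P.cons (P.lf 8953442 0 0) (P.cons (P.lf 68897 0 0) (P.cons (P.lf 29709 0 0) P.nil))) (P.cons (P.cons (P.lf 316979 0 0) (P.cons (P.lf 0 131914 0) P.nil)) (P.cons (P.cons (P.lf 0 181866 0) P.nil) P.nil)))))) 161828)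
 (EL.cons 7 (TM.mk (P.cons (P.cons (P.lf 0 490297032 0) (P.cons (P.lf 152057738 0 0) (P.cons (P.lf 65569011 0 0) (P.lf 0 7285445 0)))) (P.cons (P.cons (P.lf 175867750 0 0) (P.cons (P.lf 0 29307712 0) (P.cons (P.lf 0 12637815 0) (P.lf 1404199 0 0)))) (P.cons (P.cons (P.lf 0 31437475 0) (P.cons (P.lf 0 2085708 0) (P.cons (P.lf 0 899380 0) (P.lf 99929 0 0)))) (P.cons (P.cons (P.lf 0 3693407 0) (P.cons (P.lf 750728 0 0) (P.cons (P.lf 323722 0 0) P.nil))) (P.cons (P.cons (P.lf 985089 0 0) (P.cons (P.lf 0 4017 0) P.nil)) (P.cons (P.cons (P.lf 15064 0 0) P.nil) P.nil)))))) 109529)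
 EL.nil))
noncomputable def S285_314_216_364_11 : EL := (EL.cons 3 (TM.mk (P.cons (P.cons (P.lf 79541927 0 0) (P.cons (P.lf 0 49337298 0) (P.cons (P.lf 0 13624214 0) (P.cons (P.lf 8961902 0 0) (P.cons (P.lf 689458 0 0) (P.cons (P.lf 0 316126 0) P.nil)))))) (P.cons (P.cons (P.lf 0 24730543 0) (P.cons (P.lf 7151756 0 0) (P.cons (P.lf 3244574 0 0) (P.cons (P.lf 0 204102 0) (P.cons (P.lf 14477 0 0) P.nil))))) (P.cons (P.cons (P.lf 389571 0 0) (P.cons (P.lf 3207320 0 0) (P.cons (P.lf 561570 0 0) (P.cons (P.lf 0 862116 0) P.nil)))) (P.cons (P.cons (P.lf 4078185 0 0) (P.cons (P.lf 0 1873436 0) (P.cons (P.lf 0 731084 0) P.nil))) (P.cons (P.cons (P.lf 0 925734 0) (P.cons (P.lf 111458 0 0) P.nil)) (P.cons (P.cons (P.lf 19285 0 0) P.nil) P.nil)))))) 1200313)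
 (EL.cons 7 (TM.mk (P.cons (P.cons (P.lf 0 120323713 0) (P.cons (P.lf 74632929 0 0) (P.cons (P.lf 20609458 0 0) (P.cons (P.lf 0 13556742 0) (P.cons (P.lf 0 1042949 0) (P.cons (P.lf 478208 0 0) P.nil)))))) (P.cons (P.cons (P.lf 80521532 0 0) (P.cons (P.lf 0 37559159 0) (P.cons (P.lf 0 12292369 0) (P.cons (P.lf 5166067 0 0) (P.cons (P.lf 351782 0 0) P.nil))))) (P.cons (P.cons (P.lf 0 27863065 0) (P.cons (P.lf 7627533 0 0) (P.cons (P.lf 3284737 0 0) (P.cons (P.lf 0 369196 0) P.nil)))) (P.cons (P.cons (P.lf 2977655 0 0) (P.cons (P.lf 457570 0 0) (P.cons (P.lf 52628 0 0) P.nil))) (P.cons (P.cons (P.lf 564260 0 0) (P.cons (P.lf 0 371684 0) P.nil)) (P.cons (P.cons (P.lf 0 226551 0) P.nil) P.nil)))))) 1086169)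
 EL.nil))
noncomputable def S285_314_216_364_12 : EL := (EL.cons 4 (TM.mk (P.cons (P.lf 0 1320724353 0) (P.cons (P.lf 0 409570215 0) (P.cons (P.lf 14623338 0 0) (P.cons (P.lf 1245645 0 0) (P.cons (P.lf 0 85526 0) (P.cons (P.lf 0 2831 0) P.nil)))))) 532)
 (EL.cons 8 (TM.mk (P.cons (P.lf 1997870342 0 0) (P.cons (P.lf 0 96267727 0) (P.cons (P.lf 0 13808992 0) (P.cons (P.lf 693290 0 0) (P.cons (P.lf 37347 0 0) (P.cons (P.lf 0 3551 0) P.nil)))))) 296)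
 EL.nil))
noncomputable def S285_314_216_364_13 : EL := (EL.cons 4 (TM.mk (P.cons (P.cons (P.lf 0 324118745 0) (P.cons (P.lf 100520215 0 0) (P.cons (P.lf 43345450 0 0) (P.lf 0 4816160 0)))) (P.cons (P.cons (P.lf 129930 0 0) (P.cons (P.lf 16641601 0 0) (P.cons (P.lf 7176045 0 0) (P.lf 0 797339 0)))) (P.cons (P.cons (P.lf 16625946 0 0) (P.cons (P.lf 0 7003292 0) (P.cons (P.lf 0 3019898 0) (P.lf 335542 0 0)))) (P.cons (P.cons (P.lf 0 8953442 0) (P.cons (P.lf 0 68897 0) (P.cons (P.lf 0 29709 0) P.nil))) (P.cons (P.cons (P.lf 0 316979 0) (P.cons (P.lf 131914 0 0) P.nil)) (P.cons (P.cons (P.lf 181866 0 0) P.nil) P.nil)))))) 161828)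
 (EL.cons 8 (TM.mk (P.cons (P.cons (P.lf 490297032 0 0) (P.cons (P.lf 0 152057738 0) (P.cons (P.lf 0 65569011 0) (P.lf 7285445 0 0)))) (P.cons (P.cons (P.lf 0 175867750 0) (P.cons (P.lf 29307712 0 0) (P.cons (P.lf 12637815 0 0) (P.lf 0 1404199 0)))) (P.cons (P.cons (P.lf 31437475 0 0) (P.cons (P.lf 2085708 0 0) (P.cons (P.lf 899380 0 0) (P.lf 0 99929 0)))) (P.cons (P.cons (P.lf 3693407 0 0) (P.cons (P.lf 0 750728 0) (P.cons (P.lf 0 323722 0) P.nil))) (P.cons (P.cons (P.lf 0 985089 0) (P.cons (P.lf 4017 0 0) P.nil)) (P.cons (P.cons (P.lf 0 15064 0) P.nil) P.nil)))))) 109529)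
 EL.nil))
noncomputable def S285_314_216_364_14 : EL := (EL.cons 4 (TM.mk (P.cons (P.cons (P.lf 0 79541927 0) (P.cons (P.lf 49337298 0 0) (P.cons (P.lf 13624214 0 0) (P.cons (P.lf 0 8961902 0) (P.cons (P.lf 0 689458 0) (P.cons (P.lf 316126 0 0) P.nil)))))) (P.cons (P.cons (P.lf 24730543 0 0) (P.cons (P.lf 0 7151756 0) (P.cons (P.lf 0 3244574 0) (P.cons (P.lf 204102 0 0) (P.cons (P.lf 0 14477 0) P.nil))))) (P.cons (P.cons (P.lf 0 389571 0) (P.cons (P.lf 0 3207320 0) (P.cons (P.lf 0 561570 0) (P.cons (P.lf 862116 0 0) P.nil)))) (P.cons (P.cons (P.lf 0 4078185 0) (P.cons (P.lf 1873436 0 0) (P.cons (P.lf 731084 0 0) P.nil))) (P.cons (P.cons (P.lf 925734 0 0) (P.cons (P.lf 0 111458 0) P.nil)) (P.cons (P.cons (P.lf 0 19285 0) P.nil) P.nil)))))) 1200313)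
 (EL.cons 8 (TM.mk (P.cons (P.cons (P.lf 120323713 0 0) (P.cons (P.lf 0 74632929 0) (P.cons (P.lf 0 20609458 0) (P.cons (P.lf 13556742 0 0) (P.cons (P.lf 1042949 0 0) (P.cons (P.lf 0 478208 0) P.nil)))))) (P.cons (P.cons (P.lf 0 80521532 0) (P.cons (P.lf 37559159 0 0) (P.cons (P.lf 12292369 0 0) (P.cons (P.lf 0 5166067 0) (P.cons (P.lf 0 351782 0) P.nil))))) (P.cons (P.cons (P.lf 27863065 0 0) (P.cons (P.lf 0 7627533 0) (P.cons (P.lf 0 3284737 0) (P.cons (P.lf 369196 0 0) P.nil)))) (P.cons (P.cons (P.lf 0 2977655 0) (P.cons (P.lf 0 457570 0) (P.cons (P.lf 0 52628 0) P.nil))) (P.cons (P.cons (P.lf 0 564260 0) (P.cons (P.lf 371684 0 0) P.nil)) (P.cons (P.cons (P.lf 226551 0 0) P.nil) P.nil)))))) 1086169)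
 EL.nil))
noncomputable def S285_314_216_364_15 : EL := (EL.cons 4 (TM.mk (P.cons (P.lf 0 433204774 0) (P.cons (P.lf 0 268682518 0) (P.cons (P.lf 0 32067537 0) (P.cons (P.lf 3792065 0 0) (P.cons (P.lf 144194 0 0) (P.cons (P.lf 0 28304 0) P.nil)))))) 2128)
 (EL.cons 8 (TM.mk (P.cons (P.lf 655312343 0 0) (P.cons (P.lf 171642763 0 0) (P.cons (P.lf 0 21577328 0) (P.cons (P.lf 0 1445658 0) (P.cons (P.lf 205138 0 0) (P.cons (P.lf 3748 0 0) P.nil)))))) 1533)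
 EL.nil))
noncomputable def S285_314_216_364_16 : EL := (EL.cons 4 (TM.mk (P.cons (P.cons (P.lf 0 106312711 0) (P.cons (P.lf 32971177 0 0) (P.cons (P.lf 14217542 0 0) (P.lf 0 1579726 0)))) (P.cons (P.cons (P.lf 0 32926048 0) (P.cons (P.lf 15683236 0 0) (P.cons (P.lf 6762788 0 0) (P.lf 0 751421 0)))) (P.cons (P.cons (P.lf 6643734 0 0) (P.cons (P.lf 0 969433 0) (P.cons (P.lf 0 418030 0) (P.lf 46446 0 0)))) (P.cons (P.cons (P.lf 0 1145824 0) (P.cons (P.lf 0 826493 0) (P.cons (P.lf 0 356393 0) P.nil))) (P.cons (P.cons (P.lf 0 1082001 0) (P.cons (P.lf 58680 0 0) P.nil)) (P.cons (P.cons (P.lf 54558 0 0) P.nil) P.nil)))))) 183438)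
 (EL.cons 8 (TM.mk (P.cons (P.cons (P.lf 160820094 0 0) (P.cons (P.lf 0 49875765 0) (P.cons (P.lf 0 21506992 0) (P.lf 2389665 0 0)))) (P.cons (P.cons (P.lf 0 7813612 0) (P.cons (P.lf 0 5853898 0) (P.cons (P.lf 0 2524266 0) (P.lf 280474 0 0)))) (P.cons (P.cons (P.lf 0 9357862 0) (P.cons (P.lf 4217476 0 0) (P.cons (P.lf 1818623 0 0) (P.lf 0 202068 0)))) (P.cons (P.cons (P.lf 4896239 0 0) (P.cons (P.lf 0 93486 0) (P.cons (P.lf 0 40312 0) P.nil))) (P.cons (P.cons (P.lf 3218 0 0) (P.cons (P.lf 0 94915 0) P.nil)) (P.cons (P.cons (P.lf 0 131671 0) P.nil) P.nil)))))) 124628)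
 EL.nil))
noncomputable def S285_314_216_364_17 : EL := (EL.cons 4 (TM.mk (P.cons (P.cons (P.lf 0 26090184 0) (P.cons (P.lf 16182901 0 0) (P.cons (P.lf 4468815 0 0) (P.cons (P.lf 0 2939552 0) (P.cons (P.lf 0 226145 0) (P.cons (P.lf 103691 0 0) P.nil)))))) (P.cons (P.cons (P.lf 20917 0 0) (P.cons (P.lf 2672669 0 0) (P.cons (P.lf 321587 0 0) (P.cons (P.lf 0 844638 0) (P.cons (P.lf 0 74879 0) P.nil))))) (P.cons (P.cons (P.lf 2676631 0 0) (P.cons (P.lf 0 1958659 0) (P.cons (P.lf 0 563708 0) (P.cons (P.lf 336087 0 0) P.nil)))) (P.cons (P.cons (P.lf 0 1442501 0) (P.cons (P.lf 298965 0 0) (P.cons (P.lf 190245 0 0) P.nil))) (P.cons (P.cons (P.lf 0 119102 0) (P.cons (P.lf 168911 0 0) P.nil)) (P.cons (P.cons (P.lf 103238 0 0) P.nil) P.nil)))))) 810845)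
 (EL.cons 8 (TM.mk (P.cons (P.cons (P.lf 39466832 0 0) (P.cons (P.lf 0 24480006 0) (P.cons (P.lf 0 6760014 0) (P.cons (P.lf 4446685 0 0) (P.cons (P.lf 342092 0 0) (P.cons (P.lf 0 156854 0) P.nil)))))) (P.cons (P.cons (P.lf 0 14172429 0) (P.cons (P.lf 4728106 0 0) (P.cons (P.lf 1935613 0 0) (P.cons (P.lf 0 315534 0) (P.cons (P.lf 0 9300 0) P.nil))))) (P.cons (P.cons (P.lf 511773 0 0) (P.cons (P.lf 1589612 0 0) (P.cons (P.lf 247789 0 0) (P.cons (P.lf 0 453617 0) P.nil)))) (P.cons (P.cons (P.lf 2112694 0 0) (P.cons (P.lf 0 1039258 0) (P.cons (P.lf 0 389646 0) P.nil))) (P.cons (P.cons (P.lf 0 561686 0) (P.cons (P.lf 89868 0 0) P.nil)) (P.cons (P.cons (P.lf 17483 0 0) P.nil) P.nil)))))) 704367)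
 EL.nil))
noncomputable def S285_314_216_364_18 : EL := (EL.cons 4 (TM.mk (P.cons (P.lf 0 142093522 0) (P.cons (P.lf 0 132193991 0) (P.cons (P.lf 0 36274848 0) (P.cons (P.lf 0 908220 0) (P.cons (P.lf 623396 0 0) (P.cons (P.lf 0 4479 0) P.nil)))))) 6741)
 (EL.cons 8 (TM.mk (P.cons (P.lf 214946014 0 0) (P.cons (P.lf 122956731 0 0) (P.cons (P.lf 8001726 0 0) (P.cons (P.lf 0 3495072 0) (P.cons (P.lf 0 40579 0) (P.cons (P.lf 38127 0 0) P.nil)))))) 3726)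
 EL.nil))
noncomputable def S285_314_216_364_19 : EL := (EL.cons 4 (TM.mk (P.cons (P.cons (P.lf 0 34871147 0) (P.cons (P.lf 10814725 0 0) (P.cons (P.lf 4663431 0 0) (P.lf 0 518158 0)))) (P.cons (P.cons (P.lf 0 21613824 0) (P.cons (P.lf 8497944 0 0) (P.cons (P.lf 3664409 0 0) (P.lf 0 407156 0)))) (P.cons (P.cons (P.lf 0 783885 0) (P.cons (P.lf 1157542 0 0) (P.cons (P.lf 499144 0 0) (P.lf 0 55460 0)))) (P.cons (P.cons (P.lf 452416 0 0) (P.cons (P.lf 0 436860 0) (P.cons (P.lf 0 188378 0) P.nil))) (P.cons (P.cons (P.lf 0 487653 0) (P.cons (P.lf 0 65451 0) P.nil)) (P.cons (P.cons (P.lf 0 90830 0) P.nil) P.nil)))))) 149735)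
 (EL.cons 8 (TM.mk (P.cons (P.cons (P.lf 52749865 0 0) (P.cons (P.lf 0 16359522 0) (P.cons (P.lf 0 7054410 0) (P.lf 783823 0 0)))) (P.cons (P.cons (P.lf 13795368 0 0) (P.cons (P.lf 0 6993366 0) (P.cons (P.lf 0 3015618 0) (P.lf 335068 0 0)))) (P.cons (P.cons (P.lf 0 4448271 0) (P.cons (P.lf 969044 0 0) (P.cons (P.lf 417862 0 0) (P.lf 0 46428 0)))) (P.cons (P.cons (P.lf 632757 0 0) (P.cons (P.lf 435017 0 0) (P.cons (P.lf 187584 0 0) P.nil))) (P.cons (P.cons (P.lf 538908 0 0) (P.cons (P.lf 0 55207 0) P.nil)) (P.cons (P.cons (P.lf 0 57801 0) P.nil) P.nil)))))) 123747)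
 EL.nil))
noncomputable def S285_314_216_364_20 : EL := (EL.cons 4 (TM.mk (P.cons (P.cons (P.lf 0 8557722 0) (P.cons (P.lf 5308080 0 0) (P.cons (P.lf 1465795 0 0) (P.cons (P.lf 0 964188 0) (P.cons (P.lf 0 74176 0) (P.cons (P.lf 34010 0 0) P.nil)))))) (P.cons (P.cons (P.lf 0 2646975 0) (P.cons (P.lf 2522740 0 0) (P.cons (P.lf 560040 0 0) (P.cons (P.lf 0 576050 0) (P.cons (P.lf 0 47563 0) P.nil))))) (P.cons (P.cons (P.lf 974830 0 0) (P.cons (P.lf 0 429364 0) (P.cons (P.lf 0 168417 0) (P.cons (P.lf 34998 0 0) P.nil)))) (P.cons (P.cons (P.lf 0 192891 0) (P.cons (P.lf 0 115880 0) (P.cons (P.lf 2511 0 0) P.nil))) (P.cons (P.cons (P.lf 0 196076 0) (P.cons (P.lf 92444 0 0) P.nil)) (P.cons (P.cons (P.lf 26140 0 0) P.nil) P.nil)))))) 502841)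
 (EL.cons 8 (TM.mk (P.cons (P.cons (P.lf 12945335 0 0) (P.cons (P.lf 0 8029575 0) (P.cons (P.lf 0 2217321 0) (P.cons (P.lf 1458536 0 0) (P.cons (P.lf 112208 0 0) (P.cons (P.lf 0 51449 0) P.nil)))))) (P.cons (P.cons (P.lf 0 634151 0) (P.cons (P.lf 0 939209 0) (P.cons (P.lf 0 52722 0) (P.cons (P.lf 348810 0 0) (P.cons (P.lf 31746 0 0) P.nil))))) (P.cons (P.cons (P.lf 0 1417057 0) (P.cons (P.lf 1091239 0 0) (P.cons (P.lf 302713 0 0) (P.cons (P.lf 0 197033 0) P.nil)))) (P.cons (P.cons (P.lf 784292 0 0) (P.cons (P.lf 0 188788 0) (P.cons (P.lf 0 107539 0) P.nil))) (P.cons (P.cons (P.lf 34026 0 0) (P.cons (P.lf 0 83989 0) P.nil)) (P.cons (P.cons (P.lf 0 59503 0) P.nil) P.nil)))))) 460282)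
 EL.nil))
noncomputable def S285_314_216_364_21 : EL := (EL.cons 4 (TM.mk (P.cons (P.cons (P.lf 2088661014 0 0) (P.cons (P.lf 0 301560645 0) (P.cons (P.lf 0 130036350 0) (P.lf 14448480 0 0)))) (P.cons (P.cons (P.lf 0 806437344 0) (P.cons (P.lf 0 49924803 0) (P.cons (P.lf 0 21528135 0) (P.lf 2392017 0 0)))) (P.cons (P.cons (P.lf 0 146080449 0) (P.cons (P.lf 21009876 0 0) (P.cons (P.lf 9059694 0 0) (P.lf 0 1006626 0)))) (P.cons (P.cons (P.lf 38236521 0 0) (P.cons (P.lf 206691 0 0) (P.cons (P.lf 89127 0 0) P.nil))) (P.cons (P.cons (P.lf 1383516 0 0) (P.cons (P.lf 0 395742 0) P.nil)) (P.cons (P.cons (P.lf 0 630510 0) P.nil) P.nil)))))) 492159)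
 (EL.cons 8 (TM.mk (P.cons (P.cons (P.lf 490930845 0 0) (P.cons (P.lf 0 70880547 0) (P.cons (P.lf 0 30564495 0) (P.lf 3396057 0 0)))) (P.cons (P.cons (P.lf 0 13651362 0) (P.cons (P.lf 0 37130784 0) (P.cons (P.lf 0 16011210 0) (P.lf 1779018 0 0)))) (P.cons (P.cons (P.lf 0 95817120 0) (P.cons (P.lf 0 195006 0) (P.cons (P.lf 0 84087 0) (P.lf 9339 0 0)))) (P.cons (P.cons (P.lf 0 4906449 0) (P.cons (P.lf 1535325 0 0) (P.cons (P.lf 662049 0 0) P.nil))) (P.cons (P.cons (P.lf 2799858 0 0) (P.cons (P.lf 0 39309 0) P.nil)) (P.cons (P.cons (P.lf 9675 0 0) P.nil) P.nil)))))) 389724)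
 (EL.cons 11 (TM.mk (P.cons (P.cons (P.lf 1101283803 0 0) (P.cons (P.lf 1025947743 0 0) (P.cons (P.lf 0 105295614 0) (P.cons (P.lf 0 21898557 0) (P.lf 1824879 0 0))))) (P.cons (P.cons (P.lf 0 106131099 0) (P.cons (P.lf 0 98870937 0) (P.cons (P.lf 10147374 0 0) (P.cons (P.lf 2110371 0 0) (P.lf 0 175863 0))))) (P.cons (P.cons (P.lf 0 12666855 0) (P.cons (P.lf 0 11800347 0) (P.cons (P.lf 1211097 0 0) (P.cons (P.lf 251874 0 0) P.nil)))) (P.cons (P.cons (P.lf 1497882 0 0) (P.cons (P.lf 1395417 0 0) (P.cons (P.lf 0 143214 0) P.nil))) (P.cons (P.cons (P.lf 56955 0 0) (P.cons (P.lf 53058 0 0) P.nil)) (P.cons (P.cons (P.lf 0 11178 0) P.nil) P.nil)))))) 73815)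
 EL.nil)))
noncomputable def S285_314_216_364_22 : EL := (EL.cons 4 (TM.mk (P.cons (P.cons (P.lf 512577954 0 0) (P.cons (P.lf 0 232973754 0) (P.cons (P.lf 0 77509155 0) (P.cons (P.lf 30956430 0 0) (P.cons (P.lf 2068374 0 0) (P.cons (P.lf 0 948381 0) P.nil)))))) (P.cons (P.cons (P.lf 0 357068835 0) (P.cons (P.lf 95085183 0 0) (P.cons (P.lf 41483772 0 0) (P.cons (P.lf 0 4140090 0) (P.cons (P.lf 43431 0 0) P.nil))))) (P.cons (P.cons (P.lf 54342726 0 0) (P.cons (P.lf 9245646 0 0) (P.cons (P.lf 1522440 0 0) (P.cons (P.lf 0 2568318 0) P.nil)))) (P.cons (P.cons (P.lf 13386924 0 0) (P.cons (P.lf 0 8638077 0) (P.cons (P.lf 0 3494547 0) P.nil))) (P.cons (P.cons (P.lf 0 6710694 0) (P.cons (P.lf 501057 0 0) P.nil)) (P.cons (P.cons (P.lf 194874 0 0) P.nil) P.nil)))))) 3677337)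
 (EL.cons 8 (TM.mk (P.cons (P.cons (P.lf 120479256 0 0) (P.cons (P.lf 0 54759486 0) (P.cons (P.lf 0 18218196 0) (P.cons (P.lf 7276176 0 0) (P.cons (P.lf 486162 0 0) (P.cons (P.lf 0 222912 0) P.nil)))))) (P.cons (P.cons (P.lf 0 40760331 0) (P.cons (P.lf 2729292 0 0) (P.cons (P.lf 3223086 0 0) (P.cons (P.lf 1633908 0 0) (P.cons (P.lf 184398 0 0) P.nil))))) (P.cons (P.cons (P.lf 0 15719034 0) (P.cons (P.lf 9463248 0 0) (P.cons (P.lf 3612696 0 0) (P.cons (P.lf 0 856986 0) P.nil)))) (P.cons (P.cons (P.lf 6842256 0 0) (P.cons (P.lf 0 1058382 0) (P.cons (P.lf 0 598506 0) P.nil))) (P.cons (P.cons (P.lf 0 423072 0) (P.cons (P.lf 0 546057 0) P.nil)) (P.cons (P.cons (P.lf 0 462063 0) P.nil) P.nil)))))) 1403286)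
 (EL.cons 11 (TM.mk (P.cons (P.cons (P.lf 270265875 0 0) (P.cons (P.lf 167959050 0 0) (P.cons (P.lf 0 140068902 0) (P.cons (P.lf 0 27015174 0) (P.cons (P.lf 9311511 0 0) (P.cons (P.lf 195834 0 0) P.nil)))))) (P.cons (P.cons (P.lf 0 109966188 0) (P.cons (P.lf 0 82249605 0) (P.cons (P.lf 38034609 0 0) (P.cons (P.lf 7400520 0 0) (P.cons (P.lf 0 2317704 0) P.nil))))) (P.cons (P.cons (P.lf 20132439 0 0) (P.cons (P.lf 19705830 0 0) (P.cons (P.lf 0 629415 0) (P.cons (P.lf 0 154887 0) P.nil)))) (P.cons (P.cons (P.lf 1964742 0 0) (P.cons (P.lf 1220370 0 0) (P.cons (P.lf 0 1019121 0) P.nil))) (P.cons (P.cons (P.lf 0 789474 0) (P.cons (P.lf 0 717222 0) P.nil)) (P.cons (P.cons (P.lf 7509 0 0) P.nil) P.nil)))))) 1840107)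
 EL.nil)))
noncomputable def S285_314_216_364_23 : EL := (EL.cons 4 (TM.mk (P.cons (P.cons (P.lf 685092177 0 0) (P.cons (P.lf 0 98913531 0) (P.cons (P.lf 0 42652629 0) (P.lf 4739178 0 0)))) (P.cons (P.cons (P.lf 0 52061700 0) (P.cons (P.lf 0 47049711 0) (P.cons (P.lf 0 20288364 0) (P.lf 2254263 0 0)))) (P.cons (P.cons (P.lf 0 137529750 0) (P.cons (P.lf 2908299 0 0) (P.cons (P.lf 1254090 0 0) (P.lf 0 139341 0)))) (P.cons (P.cons (P.lf 0 34575 0) (P.cons (P.lf 2479479 0 0) (P.cons (P.lf 1069179 0 0) P.nil))) (P.cons (P.cons (P.lf 5167506 0 0) (P.cons (P.lf 0 176043 0) P.nil)) (P.cons (P.cons (P.lf 0 175416 0) P.nil) P.nil)))))) 529395)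
 (EL.cons 8 (TM.mk (P.cons (P.cons (P.lf 161027988 0 0) (P.cons (P.lf 0 23249205 0) (P.cons (P.lf 0 10025319 0) (P.lf 1113924 0 0)))) (P.cons (P.cons (P.lf 45458715 0 0) (P.cons (P.lf 0 19388916 0) (P.cons (P.lf 0 8360718 0) (P.lf 928965 0 0)))) (P.cons (P.cons (P.lf 0 34600059 0) (P.cons (P.lf 0 3583404 0) (P.cons (P.lf 0 1545204 0) (P.lf 171687 0 0)))) (P.cons (P.cons (P.lf 0 11457948 0) (P.cons (P.lf 640536 0 0) (P.cons (P.lf 276204 0 0) P.nil))) (P.cons (P.cons (P.lf 781929 0 0) (P.cons (P.lf 153963 0 0) P.nil)) (P.cons (P.cons (P.lf 335484 0 0) P.nil) P.nil)))))) 281634)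
 (EL.cons 11 (TM.mk (P.cons (P.cons (P.lf 361227078 0 0) (P.cons (P.lf 336516441 0 0) (P.cons (P.lf 0 34537533 0) (P.cons (P.lf 0 7182843 0) (P.lf 598569 0 0))))) (P.cons (P.cons (P.lf 77208657 0 0) (P.cons (P.lf 71927004 0 0) (P.cons (P.lf 0 7382049 0) (P.cons (P.lf 0 1535259 0) (P.lf 127938 0 0))))) (P.cons (P.cons (P.lf 0 18949806 0) (P.cons (P.lf 0 17653497 0) (P.cons (P.lf 1811820 0 0) (P.cons (P.lf 376806 0 0) P.nil)))) (P.cons (P.cons (P.lf 0 752382 0) (P.cons (P.lf 0 700914 0) (P.cons (P.lf 71934 0 0) P.nil))) (P.cons (P.cons (P.lf 273270 0 0) (P.cons (P.lf 254574 0 0) P.nil)) (P.cons (P.cons (P.lf 0 873 0) P.nil) P.nil)))))) 146256)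
 EL.nil)))
noncomputable def S285_314_216_364_24 : EL := (EL.cons 4 (TM.mk (P.cons (P.cons (P.lf 168128358 0 0) (P.cons (P.lf 0 76416657 0) (P.cons (P.lf 0 25423422 0) (P.cons (P.lf 10153878 0 0) (P.cons (P.lf 678438 0 0) (P.cons (P.lf 0 311073 0) P.nil)))))) (P.cons (P.cons (P.lf 0 64982184 0) (P.cons (P.lf 7490865 0 0) (P.cons (P.lf 5722836 0 0) (P.cons (P.lf 1790847 0 0) (P.cons (P.lf 224637 0 0) P.nil))))) (P.cons (P.cons (P.lf 0 20357121 0) (P.cons (P.lf 13550583 0 0) (P.cons (P.lf 5000502 0 0) (P.cons (P.lf 0 1375968 0) P.nil)))) (P.cons (P.cons (P.lf 11056821 0 0) (P.cons (P.lf 0 2166141 0) (P.cons (P.lf 0 1118049 0) P.nil))) (P.cons (P.cons (P.lf 0 915462 0) (P.cons (P.lf 0 782238 0) P.nil)) (P.cons (P.cons (P.lf 0 691329 0) P.nil) P.nil)))))) 2035185)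
 (EL.cons 8 (TM.mk (P.cons (P.cons (P.lf 39517851 0 0) (P.cons (P.lf 0 17961408 0) (P.cons (P.lf 0 5975667 0) (P.cons (P.lf 2386626 0 0) (P.cons (P.lf 159462 0 0) (P.cons (P.lf 0 73116 0) P.nil)))))) (P.cons (P.cons (P.lf 0 1114716 0) (P.cons (P.lf 0 4674795 0) (P.cons (P.lf 0 795924 0) (P.cons (P.lf 1276047 0 0) (P.cons (P.lf 109935 0 0) P.nil))))) (P.cons (P.cons (P.lf 0 9739533 0) (P.cons (P.lf 3580485 0 0) (P.cons (P.lf 1578993 0 0) (P.cons (P.lf 0 141321 0) P.nil)))) (P.cons (P.cons (P.lf 756150 0 0) (P.cons (P.lf 622452 0 0) (P.cons (P.lf 165090 0 0) P.nil))) (P.cons (P.cons (P.lf 629463 0 0) (P.cons (P.lf 0 323142 0) P.nil)) (P.cons (P.cons (P.lf 0 215358 0) P.nil) P.nil)))))) 701157)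
 (EL.cons 11 (TM.mk (P.cons (P.cons (P.lf 88648677 0 0) (P.cons (P.lf 55091481 0 0) (P.cons (P.lf 0 45943362 0) (P.cons (P.lf 0 8861124 0) (P.cons (P.lf 3054225 0 0) (P.cons (P.lf 64233 0 0) P.nil)))))) (P.cons (P.cons (P.lf 0 8578638 0) (P.cons (P.lf 0 9893880 0) (P.cons (P.lf 0 1771950 0) (P.cons (P.lf 0 320514 0) (P.cons (P.lf 186927 0 0) P.nil))))) (P.cons (P.cons (P.lf 0 5563512 0) (P.cons (P.lf 0 2512617 0) (P.cons (P.lf 4171041 0 0) (P.cons (P.lf 800070 0 0) P.nil)))) (P.cons (P.cons (P.lf 3008034 0 0) (P.cons (P.lf 2651472 0 0) (P.cons (P.lf 0 493098 0) P.nil))) (P.cons (P.cons (P.lf 0 92457 0) (P.cons (P.lf 0 153672 0) P.nil)) (P.cons (P.cons (P.lf 0 93348 0) P.nil) P.nil)))))) 1146483)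
 EL.nil)))
noncomputable def S285_314_216_364_25 : EL := (EL.cons 4 (TM.mk (P.cons (P.cons (P.lf 224713962 0 0) (P.cons (P.lf 0 32444175 0) (P.cons (P.lf 0 13990293 0) (P.lf 1554474 0 0)))) (P.cons (P.cons (P.lf 52609590 0 0) (P.cons (P.lf 0 25493832 0) (P.cons (P.lf 0 10993227 0) (P.lf 1221468 0 0)))) (P.cons (P.cons (P.lf 0 52894191 0) (P.cons (P.lf 0 3472626 0) (P.cons (P.lf 0 1497435 0) (P.lf 166380 0 0)))) (P.cons (P.cons (P.lf 0 14023437 0) (P.cons (P.lf 1310580 0 0) (P.cons (P.lf 565137 0 0) P.nil))) (P.cons (P.cons (P.lf 2221584 0 0) (P.cons (P.lf 196353 0 0) P.nil)) (P.cons (P.cons (P.lf 510135 0 0) P.nil) P.nil)))))) 484974)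
 (EL.cons 8 (TM.mk (P.cons (P.cons (P.lf 52818054 0 0) (P.cons (P.lf 0 7625865 0) (P.cons (P.lf 0 3288357 0) (P.lf 365373 0 0)))) (P.cons (P.cons (P.lf 31290126 0 0) (P.cons (P.lf 0 8724528 0) (P.cons (P.lf 0 3762114 0) (P.lf 418011 0 0)))) (P.cons (P.cons (P.lf 0 7309857 0) (P.cons (P.lf 0 3063138 0) (P.cons (P.lf 0 1320858 0) (P.lf 146760 0 0)))) (P.cons (P.cons (P.lf 0 7492623 0) (P.cons (P.lf 0 76788 0) (P.cons (P.lf 0 33111 0) P.nil))) (P.cons (P.cons (P.lf 0 793983 0) (P.cons (P.lf 134172 0 0) P.nil)) (P.cons (P.cons (P.lf 242970 0 0) P.nil) P.nil)))))) 213597)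
 (EL.cons 11 (TM.mk (P.cons (P.cons (P.lf 118484445 0 0) (P.cons (P.lf 110379222 0 0) (P.cons (P.lf 0 11328498 0) (P.cons (P.lf 0 2356011 0) (P.lf 196332 0 0))))) (P.cons (P.cons (P.lf 62068104 0 0) (P.cons (P.lf 57822183 0 0) (P.cons (P.lf 0 5934435 0) (P.cons (P.lf 0 1234197 0) (P.lf 102849 0 0))))) (P.cons (P.cons (P.lf 325974 0 0) (P.cons (P.lf 303675 0 0) (P.cons (P.lf 0 31167 0) (P.cons (P.lf 0 6480 0) P.nil)))) (P.cons (P.cons (P.lf 0 2566470 0) (P.cons (P.lf 0 2390904 0) (P.cons (P.lf 245382 0 0) P.nil))) (P.cons (P.cons (P.lf 65709 0 0) (P.cons (P.lf 61215 0 0) P.nil)) (P.cons (P.cons (P.lf 37998 0 0) P.nil) P.nil)))))) 183921)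
 EL.nil)))
noncomputable def S285_314_216_364_26 : EL := (EL.cons 4 (TM.mk (P.cons (P.cons (P.lf 55147014 0 0) (P.cons (P.lf 0 25065078 0) (P.cons (P.lf 0 8339019 0) (P.cons (P.lf 3330525 0 0) (P.cons (P.lf 222531 0 0) (P.cons (P.lf 0 102033 0) P.nil)))))) (P.cons (P.cons (P.lf 0 4212852 0) (P.cons (P.lf 0 5315892 0) (P.cons (P.lf 0 708894 0) (P.cons (P.lf 1620237 0 0) (P.cons (P.lf 142689 0 0) P.nil))))) (P.cons (P.cons (P.lf 0 13897695 0) (P.cons (P.lf 5484144 0 0) (P.cons (P.lf 2314638 0 0) (P.cons (P.lf 0 306039 0) P.nil)))) (P.cons (P.cons (P.lf 1740000 0 0) (P.cons (P.lf 664263 0 0) (P.cons (P.lf 128994 0 0) P.nil))) (P.cons (P.cons (P.lf 922002 0 0) (P.cons (P.lf 0 530064 0) P.nil)) (P.cons (P.cons (P.lf 0 354996 0) P.nil) P.nil)))))) 1183431)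
 (EL.cons 8 (TM.mk (P.cons (P.cons (P.lf 12962070 0 0) (P.cons (P.lf 0 5891439 0) (P.cons (P.lf 0 1960050 0) (P.cons (P.lf 782826 0 0) (P.cons (P.lf 52305 0 0) (P.cons (P.lf 0 23982 0) P.nil)))))) (P.cons (P.cons (P.lf 3654036 0 0) (P.cons (P.lf 0 3360354 0) (P.cons (P.lf 0 868899 0) (P.cons (P.lf 661311 0 0) (P.cons (P.lf 52278 0 0) P.nil))))) (P.cons (P.cons (P.lf 0 3451524 0) (P.cons (P.lf 764139 0 0) (P.cons (P.lf 458658 0 0) (P.cons (P.lf 74772 0 0) P.nil)))) (P.cons (P.cons (P.lf 0 750837 0) (P.cons (P.lf 590901 0 0) (P.cons (P.lf 219501 0 0) P.nil))) (P.cons (P.cons (P.lf 319935 0 0) (P.cons (P.lf 0 54615 0) P.nil)) (P.cons (P.cons (P.lf 0 6339 0) P.nil) P.nil)))))) 397782)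
 (EL.cons 11 (TM.mk (P.cons (P.cons (P.lf 29077248 0 0) (P.cons (P.lf 18070305 0 0) (P.cons (P.lf 0 15069672 0) (P.cons (P.lf 0 2906496 0) (P.cons (P.lf 1001802 0 0) (P.cons (P.lf 21069 0 0) P.nil)))))) (P.cons (P.cons (P.lf 6203313 0 0) (P.cons (P.lf 2358540 0 0) (P.cons (P.lf 0 5254467 0) (P.cons (P.lf 0 1006464 0) (P.cons (P.lf 371982 0 0) P.nil))))) (P.cons (P.cons (P.lf 0 3019410 0) (P.cons (P.lf 0 2030613 0) (P.cons (P.lf 1354737 0 0) (P.cons (P.lf 262005 0 0) P.nil)))) (P.cons (P.cons (P.lf 424473 0 0) (P.cons (P.lf 633006 0 0) (P.cons (P.lf 283176 0 0) P.nil))) (P.cons (P.cons (P.lf 300384 0 0) (P.cons (P.lf 232650 0 0) P.nil)) (P.cons (P.cons (P.lf 0 49347 0) P.nil) P.nil)))))) 716337)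
 EL.nil)))
noncomputable def S285_314_216_364_27 : EL := (EL.cons 13 (TM.mk (P.lf 0 4294967296 0) 0)
 EL.nil)
noncomputable def S285_314_216_364_28 : EL := (EL.cons 13 (TM.mk (P.cons (P.cons (P.lf 0 1054027218 0) (P.cons (P.lf 326889588 0 0) (P.cons (P.lf 140958476 0 0) (P.lf 0 15662052 0)))) (P.cons (P.cons (P.lf 327287221 0 0) (P.cons (P.lf 0 47253692 0) (P.cons (P.lf 0 20376324 0) (P.lf 2264032 0 0)))) (P.cons (P.cons (P.lf 0 59098323 0) (P.cons (P.lf 0 4501312 0) (P.cons (P.lf 0 1941016 0) (P.lf 215664 0 0)))) (P.cons (P.cons (P.lf 0 8159724 0) (P.cons (P.lf 956952 0 0) (P.cons (P.lf 412648 0 0) P.nil))) (P.cons (P.cons (P.lf 1222191 0 0) (P.cons (P.lf 16648 0 0) P.nil)) (P.cons (P.cons (P.lf 47394 0 0) P.nil) P.nil)))))) 119501)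
 EL.nil)
noncomputable def S285_314_216_364_29 : EL := (EL.cons 13 (TM.mk (P.cons (P.cons (P.lf 0 258668646 0) (P.cons (P.lf 160443840 0 0) (P.cons (P.lf 44305654 0 0) (P.cons (P.lf 0 29143917 0) (P.cons (P.lf 0 2242105 0) (P.cons (P.lf 1028039 0 0) P.nil)))))) (P.cons (P.cons (P.lf 160639006 0 0) (P.cons (P.lf 0 73012645 0) (P.cons (P.lf 0 24290926 0) (P.cons (P.lf 9701567 0 0) (P.cons (P.lf 648217 0 0) P.nil))))) (P.cons (P.cons (P.lf 0 53946722 0) (P.cons (P.lf 13988302 0 0) (P.cons (P.lf 6197212 0 0) (P.cons (P.lf 0 527656 0) P.nil)))) (P.cons (P.cons (P.lf 5001926 0 0) (P.cons (P.lf 1097372 0 0) (P.cons (P.lf 228484 0 0) P.nil))) (P.cons (P.cons (P.lf 1030270 0 0) (P.cons (P.lf 0 627138 0) P.nil)) (P.cons (P.cons (P.lf 0 387560 0) P.nil) P.nil)))))) 1862137)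
 EL.nil)
noncomputable def S285_314_216_364_30 : EL := (EL.cons 13 (TM.mk (P.cons (P.lf 0 1408772644 0) (P.cons (P.lf 0 436874896 0) (P.cons (P.lf 15598228 0 0) (P.cons (P.lf 1328688 0 0) (P.cons (P.lf 0 91228 0) (P.cons (P.lf 0 3020 0) P.nil)))))) 560)
 EL.nil)
noncomputable def S285_314_216_364_31 : EL := (EL.cons 13 (TM.mk (P.cons (P.cons (P.lf 0 345726662 0) (P.cons (P.lf 107221563 0 0) (P.cons (P.lf 46235147 0 0) (P.lf 0 5137238 0)))) (P.cons (P.cons (P.lf 138593 0 0) (P.cons (P.lf 17751042 0 0) (P.cons (P.lf 7654449 0 0) (P.lf 0 850495 0)))) (P.cons (P.cons (P.lf 17734343 0 0) (P.cons (P.lf 0 7470179 0) (P.cons (P.lf 0 3221225 0) (P.lf 357912 0 0)))) (P.cons (P.cons (P.lf 0 9550339 0) (P.cons (P.lf 0 73491 0) (P.cons (P.lf 0 31690 0) P.nil))) (P.cons (P.cons (P.lf 0 338111 0) (P.cons (P.lf 140709 0 0) P.nil)) (P.cons (P.cons (P.lf 193991 0 0) P.nil) P.nil))))))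 172597)
 EL.nil)
noncomputable def S285_314_216_364_32 : EL := (EL.cons 13 (TM.mk (P.cons (P.cons (P.lf 0 84844723 0) (P.cons (P.lf 52626452 0 0) (P.cons (P.lf 14532495 0 0) (P.cons (P.lf 0 9559363 0) (P.cons (P.lf 0 735422 0) (P.cons (P.lf 337202 0 0) P.nil)))))) (P.cons (P.cons (P.lf 26379246 0 0) (P.cons (P.lf 0 7628540 0) (P.cons (P.lf 0 3460879 0) (P.cons (P.lf 217709 0 0) (P.cons (P.lf 0 15443 0) P.nil))))) (P.cons (P.cons (P.lf 0 415543 0) (P.cons (P.lf 0 3421142 0) (P.cons (P.lf 0 599008 0) (P.cons (P.lf 919591 0 0) P.nil)))) (P.cons (P.cons (P.lf 0 4350064 0) (P.cons (P.lf 1998332 0 0) (P.cons (P.lf 779823 0 0) P.nil))) (P.cons (P.cons (P.lf 987450 0 0) (P.cons (P.lf 0 118889 0) P.nil)) (P.cons (P.cons (P.lf 0 20571 0) P.nil) P.nil)))))) 1280311)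
 EL.nil)
noncomputable def S285_314_216_364_33 : EL := (EL.cons 14 (TM.mk (P.lf 8589934592 0 0) 0)
 EL.nil)
noncomputable def S285_314_216_364_34 : EL := (EL.cons 14 (TM.mk (P.cons (P.cons (P.lf 2108054436 0 0) (P.cons (P.lf 0 653779176 0) (P.cons (P.lf 0 281916952 0) (P.lf 31324104 0 0)))) (P.cons (P.cons (P.lf 0 654574442 0) (P.cons (P.lf 94507384 0 0) (P.cons (P.lf 40752648 0 0) (P.lf 0 4528064 0)))) (P.cons (P.cons (P.lf 118196646 0 0) (P.cons (P.lf 9002624 0 0) (P.cons (P.lf 3882032 0 0) (P.lf 0 431328 0)))) (P.cons (P.cons (P.lf 16319448 0 0) (P.cons (P.lf 0 1913904 0) (P.cons (P.lf 0 825296 0) P.nil))) (P.cons (P.cons (P.lf 0 2444382 0) (P.cons (P.lf 0 33296 0) P.nil)) (P.cons (P.cons (P.lf 0 94788 0) P.nil) P.nil)))))) 239002)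
 EL.nil)
noncomputable def S285_314_216_364_35 : EL := (EL.cons 14 (TM.mk (P.cons (P.cons (P.lf 517337292 0 0) (P.cons (P.lf 0 320887680 0) (P.cons (P.lf 0 88611308 0) (P.cons (P.lf 58287834 0 0) (P.cons (P.lf 4484210 0 0) (P.cons (P.lf 0 2056078 0) P.nil)))))) (P.cons (P.cons (P.lf 0 321278012 0) (P.cons (P.lf 146025290 0 0) (P.cons (P.lf 48581852 0 0) (P.cons (P.lf 0 19403134 0) (P.cons (P.lf 0 1296434 0) P.nil))))) (P.cons (P.cons (P.lf 107893444 0 0) (P.cons (P.lf 0 27976604 0) (P.cons (P.lf 0 12394424 0) (P.cons (P.lf 1055312 0 0) P.nil)))) (P.cons (P.cons (P.lf 0 10003852 0) (P.cons (P.lf 0 2194744 0) (P.cons (P.lf 0 456968 0) P.nil))) (P.cons (P.cons (P.lf 0 2060540 0) (P.cons (P.lf 1254276 0 0) P.nil)) (P.cons (P.cons (P.lf 775120 0 0) P.nil) P.nil)))))) 3724274)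
 EL.nil)
noncomputable def S285_314_216_364_36 : EL := (EL.cons 14 (TM.mk (P.cons (P.lf 2817545288 0 0) (P.cons (P.lf 873749792 0 0) (P.cons (P.lf 0 31196456 0) (P.cons (P.lf 0 2657376 0) (P.cons (P.lf 182456 0 0) (P.cons (P.lf 6040 0 0) P.nil)))))) 1120)
 EL.nil)
noncomputable def S285_314_216_364_37 : EL := (EL.cons 14 (TM.mk (P.cons (P.cons (P.lf 691453324 0 0) (P.cons (P.lf 0 214443126 0) (P.cons (P.lf 0 92470294 0) (P.lf 10274476 0 0)))) (P.cons (P.cons (P.lf 0 277186 0) (P.cons (P.lf 0 35502084 0) (P.cons (P.lf 0 15308898 0) (P.lf 1700990 0 0)))) (P.cons (P.cons (P.lf 0 35468686 0) (P.cons (P.lf 14940358 0 0) (P.cons (P.lf 6442450 0 0) (P.lf 0 715824 0)))) (P.cons (P.cons (P.lf 19100678 0 0) (P.cons (P.lf 146982 0 0) (P.cons (P.lf 63380 0 0) P.nil))) (P.cons (P.cons (P.lf 676222 0 0) (P.cons (P.lf 0 281418 0) P.nil)) (P.cons (P.cons (P.lf 0 387982 0) P.nil) P.nil))))))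 345194)
 EL.nil)
noncomputable def S285_314_216_364_38 : EL := (EL.cons 14 (TM.mk (P.cons (P.cons (P.lf 169689446 0 0) (P.cons (P.lf 0 105252904 0) (P.cons (P.lf 0 29064990 0) (P.cons (P.lf 19118726 0 0) (P.cons (P.lf 1470844 0 0) (P.cons (P.lf 0 674404 0) P.nil)))))) (P.cons (P.cons (P.lf 0 52758492 0) (P.cons (P.lf 15257080 0 0) (P.cons (P.lf 6921758 0 0) (P.cons (P.lf 0 435418 0) (P.cons (P.lf 30886 0 0) P.nil))))) (P.cons (P.cons (P.lf 831086 0 0) (P.cons (P.lf 6842284 0 0) (P.cons (P.lf 1198016 0 0) (P.cons (P.lf 0 1839182 0) P.nil)))) (P.cons (P.cons (P.lf 8700128 0 0) (P.cons (P.lf 0 3996664 0) (P.cons (P.lf 0 1559646 0) P.nil))) (P.cons (P.cons (P.lf 0 1974900 0) (P.cons (P.lf 237778 0 0) P.nil)) (P.cons (P.cons (P.lf 41142 0 0) P.nil) P.nil)))))) 2560622)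
 EL.nil)
noncomputable def S285_314_216_364_39 : EL := (EL.cons 14 (TM.mk (P.cons (P.lf 924170186 0 0) (P.cons (P.lf 573189372 0 0) (P.cons (P.lf 68410746 0 0) (P.cons (P.lf 0 8089740 0) (P.cons (P.lf 0 307614 0) (P.cons (P.lf 60382 0 0) P.nil)))))) 4526)
 EL.nil)
noncomputable def S285_314_216_364_40 : EL := (EL.cons 14 (TM.mk (P.cons (P.cons (P.lf 226800452 0 0) (P.cons (P.lf 0 70338512 0) (P.cons (P.lf 0 30330758 0) (P.lf 3370084 0 0)))) (P.cons (P.cons (P.lf 70242236 0 0) (P.cons (P.lf 0 33457572 0) (P.cons (P.lf 0 14427282 0) (P.lf 1603032 0 0)))) (P.cons (P.cons (P.lf 0 14173300 0) (P.cons (P.lf 2068124 0 0) (P.cons (P.lf 891798 0 0) (P.lf 0 99086 0)))) (P.cons (P.cons (P.lf 2444426 0 0) (P.cons (P.lf 1763186 0 0) (P.cons (P.lf 760306 0 0) P.nil))) (P.cons (P.cons (P.lf 2308270 0 0) (P.cons (P.lf 0 125186 0) P.nil)) (P.cons (P.cons (P.lf 0 116392 0) P.nil) P.nil))))))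 391294)
 EL.nil)
noncomputable def S285_314_216_364_41 : EL := (EL.cons 14 (TM.mk (P.cons (P.cons (P.lf 55659060 0 0) (P.cons (P.lf 0 34523524 0) (P.cons (P.lf 0 9533474 0) (P.cons (P.lf 6271046 0 0) (P.cons (P.lf 482444 0 0) (P.cons (P.lf 0 221208 0) P.nil)))))) (P.cons (P.cons (P.lf 0 44624 0) (P.cons (P.lf 0 5701694 0) (P.cons (P.lf 0 686054 0) (P.cons (P.lf 1801896 0 0) (P.cons (P.lf 159742 0 0) P.nil))))) (P.cons (P.cons (P.lf 0 5710148 0) (P.cons (P.lf 4178474 0 0) (P.cons (P.lf 1202578 0 0) (P.cons (P.lf 0 716986 0) P.nil)))) (P.cons (P.cons (P.lf 3077336 0 0) (P.cons (P.lf 0 637794 0) (P.cons (P.lf 0 405858 0) P.nil))) (P.cons (P.cons (P.lf 254086 0 0) (P.cons (P.lf 0 360344 0) P.nil)) (P.cons (P.cons (P.lf 0 220242 0) P.nil) P.nil)))))) 1729756)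
 EL.nil)
noncomputable def S285_314_216_364_42 : EL := (EL.cons 14 (TM.mk (P.cons (P.lf 303132848 0 0) (P.cons (P.lf 282013848 0 0) (P.cons (P.lf 77386344 0 0) (P.cons (P.lf 1937536 0 0) (P.cons (P.lf 0 1329912 0) (P.cons (P.lf 9556 0 0) P.nil)))))) 14366)
 EL.nil)
noncomputable def S285_314_216_364_43 : EL := (EL.cons 14 (TM.mk (P.cons (P.cons (P.lf 74391782 0 0) (P.cons (P.lf 0 23071414 0) (P.cons (P.lf 0 9948654 0) (P.lf 1105404 0 0)))) (P.cons (P.cons (P.lf 46109492 0 0) (P.cons (P.lf 0 18128948 0) (P.cons (P.lf 0 7817406 0) (P.lf 868600 0 0)))) (P.cons (P.cons (P.lf 1672288 0 0) (P.cons (P.lf 0 2469424 0) (P.cons (P.lf 0 1064842 0) (P.lf 118316 0 0)))) (P.cons (P.cons (P.lf 0 965156 0) (P.cons (P.lf 931968 0 0) (P.cons (P.lf 401874 0 0) P.nil))) (P.cons (P.cons (P.lf 1040328 0 0) (P.cons (P.lf 139630 0 0) P.nil)) (P.cons (P.cons (P.lf 193772 0 0) P.nil) P.nil))))))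 319396)
 EL.nil)
noncomputable def S285_314_216_364_44 : EL := (EL.cons 14 (TM.mk (P.cons (P.cons (P.lf 18256474 0 0) (P.cons (P.lf 0 11323904 0) (P.cons (P.lf 0 3127030 0) (P.cons (P.lf 2056936 0 0) (P.cons (P.lf 158244 0 0) (P.cons (P.lf 0 72556 0) P.nil)))))) (P.cons (P.cons (P.lf 5646882 0 0) (P.cons (P.lf 0 5381846 0) (P.cons (P.lf 0 1194754 0) (P.cons (P.lf 1228908 0 0) (P.cons (P.lf 101468 0 0) P.nil))))) (P.cons (P.cons (P.lf 0 2079638 0) (P.cons (P.lf 915978 0 0) (P.cons (P.lf 359290 0 0) (P.cons (P.lf 0 74664 0) P.nil)))) (P.cons (P.cons (P.lf 411502 0 0) (P.cons (P.lf 247212 0 0) (P.cons (P.lf 0 5358 0) P.nil))) (P.cons (P.cons (P.lf 418296 0 0) (P.cons (P.lf 0 197214 0) P.nil)) (P.cons (P.cons (P.lf 0 55766 0) P.nil) P.nil)))))) 1072682)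
 EL.nil)
noncomputable def S285_314_216_364_45 : EL := (EL.cons 14 (TM.mk (P.cons (P.cons (P.lf 126959658 0 0) (P.cons (P.lf 0 118123488 0) (P.cons (P.lf 0 14302078 0) (P.cons (P.lf 33466488 0 0) (P.cons (P.lf 0 1597788 0) (P.cons (P.lf 0 3081978 0) P.nil)))))) (P.cons (P.cons (P.lf 0 118267176 0) (P.cons (P.lf 90432726 0 0) (P.cons (P.lf 17028990 0 0) (P.cons (P.lf 0 21634986 0) (P.cons (P.lf 145018 0 0) P.nil))))) (P.cons (P.cons (P.lf 58078806 0 0) (P.cons (P.lf 0 33612910 0) (P.cons (P.lf 0 9394898 0) (P.cons (P.lf 5927320 0 0) P.nil)))) (P.cons (P.cons (P.lf 0 14114690 0) (P.cons (P.lf 4489402 0 0) (P.cons (P.lf 2061546 0 0) P.nil))) (P.cons (P.cons (P.lf 983654 0 0) (P.cons (P.lf 688256 0 0) P.nil)) (P.cons (P.cons (P.lf 500282 0 0) P.nil) P.nil)))))) 8737476)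
 EL.nil)
noncomputable def S285_314_216_364_46 : EL := (EL.cons 15 (TM.mk (P.lf 4294967296 0 0) 0)
 EL.nil)
noncomputable def S285_314_216_364_47 : EL := (EL.cons 15 (TM.mk (P.cons (P.cons (P.lf 1054027218 0 0) (P.cons (P.lf 0 326889588 0) (P.cons (P.lf 0 140958476 0) (P.lf 15662052 0 0)))) (P.cons (P.cons (P.lf 0 327287221 0) (P.cons (P.lf 47253692 0 0) (P.cons (P.lf 20376324 0 0) (P.lf 0 2264032 0)))) (P.cons (P.cons (P.lf 59098323 0 0) (P.cons (P.lf 4501312 0 0) (P.cons (P.lf 1941016 0 0) (P.lf 0 215664 0)))) (P.cons (P.cons (P.lf 8159724 0 0) (P.cons (P.lf 0 956952 0) (P.cons (P.lf 0 412648 0) P.nil))) (P.cons (P.cons (P.lf 0 1222191 0) (P.cons (P.lf 0 16648 0) P.nil)) (P.cons (P.cons (P.lf 0 47394 0) P.nil) P.nil)))))) 119501)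
 EL.nil)
noncomputable def S285_314_216_364_48 : EL := (EL.cons 15 (TM.mk (P.cons (P.cons (P.lf 258668646 0 0) (P.cons (P.lf 0 160443840 0) (P.cons (P.lf 0 44305654 0) (P.cons (P.lf 29143917 0 0) (P.cons (P.lf 2242105 0 0) (P.cons (P.lf 0 1028039 0) P.nil)))))) (P.cons (P.cons (P.lf 0 160639006 0) (P.cons (P.lf 73012645 0 0) (P.cons (P.lf 24290926 0 0) (P.cons (P.lf 0 9701567 0) (P.cons (P.lf 0 648217 0) P.nil))))) (P.cons (P.cons (P.lf 53946722 0 0) (P.cons (P.lf 0 13988302 0) (P.cons (P.lf 0 6197212 0) (P.cons (P.lf 527656 0 0) P.nil)))) (P.cons (P.cons (P.lf 0 5001926 0) (P.cons (P.lf 0 1097372 0) (P.cons (P.lf 0 228484 0) P.nil))) (P.cons (P.cons (P.lf 0 1030270 0) (P.cons (P.lf 627138 0 0) P.nil)) (P.cons (P.cons (P.lf 387560 0 0) P.nil) P.nil)))))) 1862137)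
 EL.nil)
noncomputable def S285_314_216_364 : SL := (SL.cons S285_314_216_364_0 (SL.cons S285_314_216_364_1 (SL.cons S285_314_216_364_2 (SL.cons S285_314_216_364_3 (SL.cons S285_314_216_364_4 (SL.cons S285_314_216_364_5 (SL.cons S285_314_216_364_6 (SL.cons S285_314_216_364_7 (SL.cons S285_314_216_364_8 (SL.cons S285_314_216_364_9 (SL.cons S285_314_216_364_10 (SL.cons S285_314_216_364_11 (SL.cons S285_314_216_364_12 (SL.cons S285_314_216_364_13 (SL.cons S285_314_216_364_14 (SL.cons S285_314_216_364_15 (SL.cons S285_314_216_364_16 (SL.cons S285_314_216_364_17 (SL.cons S285_314_216_364_18 (SL.cons S285_314_216_364_19 (SL.cons S285_314_216_364_20 (SL.cons S285_314_216_364_21 (SL.cons S285_314_216_364_22 (SL.cons S285_314_216_364_23 (SL.cons S285_314_216_364_24 (SL.cons S285_314_216_364_25 (SL.cons S285_314_216_364_26 (SL.cons S285_314_216_364_27 (SL.cons S285_314_216_364_28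 (SL.cons S285_314_216_364_29 (SL.cons S285_314_216_364_30 (SL.cons S285_314_216_364_31 (SL.cons S285_314_216_364_32 (SL.cons S285_314_216_364_33 (SL.cons S285_314_216_364_34 (SL.cons S285_314_216_364_35 (SL.cons S285_314_216_364_36 (SL.cons S285_314_216_364_37 (SL.cons S285_314_216_364_38 (SL.cons S285_314_216_364_39 (SL.cons S285_314_216_364_40 (SL.cons S285_314_216_364_41 (SL.cons S285_314_216_364_42 (SL.cons S285_314_216_364_43 (SL.cons S285_314_216_364_44 (SL.cons S285_314_216_364_45 (SL.cons S285_314_216_364_46 (SL.cons S285_314_216_364_47 (SL.cons S285_314_216_364_48 SL.nil)))))))))))))))))))))))))))))))))))))))))))))))))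
noncomputable def S285_314_290_364_0 : EL := (EL.cons 0 (TM.mk (P.cons (P.lf 7643457911 0 0) (P.cons (P.lf 0 503779721 0) (P.cons (P.lf 0 60126632 0) (P.cons (P.lf 7110123 0 0) (P.cons (P.lf 270363 0 0) (P.cons (P.lf 0 53070 0) P.nil)))))) 3984)
 (EL.cons 1 (TM.mk (P.cons (P.lf 1228710643 0 0) (P.cons (P.lf 321830180 0 0) (P.cons (P.lf 0 40457490 0) (P.cons (P.lf 0 2710608 0) (P.cons (P.lf 384633 0 0) (P.cons (P.lf 7027 0 0) P.nil)))))) 2881)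
 (EL.cons 5 (TM.mk (P.cons (P.lf 4583770480 0 0) (P.cons (P.lf 179121676 0 0) (P.cons (P.lf 21378358 0 0) (P.cons (P.lf 0 2528040 0) (P.cons (P.lf 0 96128 0) (P.cons (P.lf 18870 0 0) P.nil)))))) 1697)
 (EL.cons 9 (TM.mk (P.lf 6442450944 0 0) 2)
 EL.nil))))
noncomputable def S285_314_290_364_1 : EL := (EL.cons 0 (TM.mk (P.cons (P.cons (P.lf 352745124 0 0) (P.cons (P.lf 0 276460225 0) (P.cons (P.lf 0 35600093 0) (P.lf 2373343 0 0)))) (P.cons (P.cons (P.lf 0 481692294 0) (P.cons (P.lf 146961022 0 0) (P.cons (P.lf 18924325 0 0) (P.lf 0 1261616 0)))) (P.cons (P.cons (P.lf 387632720 0 0) (P.cons (P.lf 1110088 0 0) (P.cons (P.lf 142947 0 0) (P.lf 0 9532 0)))) (P.cons (P.cons (P.lf 9116587 0 0) (P.cons (P.lf 0 5638793 0) (P.cons (P.lf 0 726101 0) P.nil))) (P.cons (P.cons (P.lf 0 13878878 0) (P.cons (P.lf 284167 0 0) P.nil)) (P.cons (P.cons (P.lf 416727 0 0) P.nil) P.nil))))))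 610972)
 (EL.cons 1 (TM.mk (P.cons (P.cons (P.lf 994564420 0 0) (P.cons (P.lf 0 147896933 0) (P.cons (P.lf 0 19044844 0) (P.lf 1269653 0 0)))) (P.cons (P.cons (P.lf 0 484784877 0) (P.cons (P.lf 0 6462254 0) (P.cons (P.lf 0 832153 0) (P.lf 55474 0 0)))) (P.cons (P.cons (P.lf 0 27780561 0) (P.cons (P.lf 16135580 0 0) (P.cons (P.lf 2077790 0 0) (P.lf 0 138513 0)))) (P.cons (P.cons (P.lf 43287690 0 0) (P.cons (P.lf 0 724644 0) (P.cons (P.lf 0 93309 0) P.nil))) (P.cons (P.cons (P.lf 0 937460 0) (P.cons (P.lf 0 411081 0) P.nil)) (P.cons (P.cons (P.lf 0 1013767 0) P.nil) P.nil)))))) 299291)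
 (EL.cons 5 (TM.mk (P.cons (P.cons (P.lf 1331990465 0 0) (P.cons (P.lf 0 289389334 0) (P.cons (P.lf 0 37264982 0) (P.lf 2484334 0 0)))) (P.cons (P.cons (P.lf 0 336775443 0) (P.cons (P.lf 3789384 0 0) (P.cons (P.lf 487968 0 0) (P.lf 0 32540 0)))) (P.cons (P.cons (P.lf 0 32752589 0) (P.cons (P.lf 4943794 0 0) (P.cons (P.lf 636618 0 0) (P.lf 0 42438 0)))) (P.cons (P.cons (P.lf 9651046 0 0) (P.cons (P.lf 869966 0 0) (P.cons (P.lf 112022 0 0) P.nil))) (P.cons (P.cons (P.lf 2839949 0 0) (P.cons (P.lf 0 120780 0) P.nil)) (P.cons (P.cons (P.lf 0 218835 0) P.nil) P.nil)))))) 287732)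
 (EL.cons 9 (TM.mk (P.cons (P.cons (P.lf 1285950837 0 0) (P.cons (P.lf 0 342076146 0) (P.cons (P.lf 0 44049522 0) (P.lf 2936634 0 0)))) (P.cons (P.cons (P.lf 0 448273945 0) (P.cons (P.lf 49448988 0 0) (P.cons (P.lf 6367596 0 0) (P.lf 0 424506 0)))) (P.cons (P.cons (P.lf 92710918 0 0) (P.cons (P.lf 4710432 0 0) (P.cons (P.lf 606564 0 0) (P.lf 0 40434 0)))) (P.cons (P.cons (P.lf 11375724 0 0) (P.cons (P.lf 0 1001406 0) (P.cons (P.lf 0 128946 0) P.nil))) (P.cons (P.cons (P.lf 0 1848316 0) (P.cons (P.lf 0 17418 0) P.nil)) (P.cons (P.cons (P.lf 0 62355 0) P.nil) P.nil)))))) 60476)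
 (EL.cons 2 (TM.mk (P.cons (P.cons (P.lf 0 487491066 0) (P.cons (P.lf 0 139167683 0) (P.cons (P.lf 10409518 0 0) (P.cons (P.lf 701448 0 0) (P.lf 0 35071 0))))) (P.cons (P.cons (P.lf 0 104196315 0) (P.cons (P.lf 0 29745691 0) (P.cons (P.lf 2224929 0 0) (P.cons (P.lf 149925 0 0) (P.lf 0 7495 0))))) (P.cons (P.cons (P.lf 25573559 0 0) (P.cons (P.lf 7300670 0 0) (P.cons (P.lf 0 546075 0) (P.cons (P.lf 0 36795 0) P.nil)))) (P.cons (P.cons (P.lf 1015371 0 0) (P.cons (P.lf 289864 0 0) (P.cons (P.lf 0 21681 0) P.nil))) (P.cons (P.cons (P.lf 0 368789 0) (P.cons (P.lf 0 105280 0) P.nil)) (P.cons (P.cons (P.lf 1178 0 0) P.nil) P.nil)))))) 29625)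
 (EL.cons 6 (TM.mk (P.cons (P.cons (P.lf 737431656 0 0) (P.cons (P.lf 210520071 0 0) (P.cons (P.lf 0 15746562 0) (P.cons (P.lf 0 1061085 0) (P.lf 53052 0 0))))) (P.cons (P.cons (P.lf 0 106599813 0) (P.cons (P.lf 0 30431835 0) (P.cons (P.lf 2276250 0 0) (P.cons (P.lf 153384 0 0) (P.lf 0 7668 0))))) (P.cons (P.cons (P.lf 0 10154532 0) (P.cons (P.lf 0 2898888 0) (P.cons (P.lf 216831 0 0) (P.cons (P.lf 14610 0 0) P.nil)))) (P.cons (P.cons (P.lf 2158800 0 0) (P.cons (P.lf 616287 0 0) (P.cons (P.lf 0 46095 0) P.nil))) (P.cons (P.cons (P.lf 37557 0 0) (P.cons (P.lf 10722 0 0) P.nil)) (P.cons (P.cons (P.lf 0 21837 0) P.nil) P.nil)))))) 18396)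
 EL.nil))))))
noncomputable def S285_314_290_364_2 : EL := (EL.cons 0 (TM.mk (P.cons (P.cons (P.lf 0 163714431 0) (P.cons (P.lf 14192849 0 0) (P.cons (P.lf 9636853 0 0) (P.cons (P.lf 1889368 0 0) (P.cons (P.lf 0 4592 0) (P.cons (P.lf 0 17267 0) P.nil)))))) (P.cons (P.cons (P.lf 0 8996909 0) (P.cons (P.lf 63131582 0 0) (P.cons (P.lf 0 4070394 0) (P.cons (P.lf 0 3683955 0) (P.cons (P.lf 7158 0 0) P.nil))))) (P.cons (P.cons (P.lf 139418081 0 0) (P.cons (P.lf 0 54402544 0) (P.cons (P.lf 0 5369566 0) (P.cons (P.lf 888334 0 0) P.nil)))) (P.cons (P.cons (P.lf 0 49623559 0) (P.cons (P.lf 5631247 0 0) (P.cons (P.lf 1351382 0 0) P.nil))) (P.cons (P.cons (P.lf 3783977 0 0) (P.cons (P.lf 2905376 0 0) P.nil)) (P.cons (P.cons (P.lf 3113729 0 0) P.nil) P.nil)))))) 2974827)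
 (EL.cons 1 (TM.mk (P.cons (P.cons (P.lf 348086841 0 0) (P.cons (P.lf 0 138614353 0) (P.cons (P.lf 0 5607810 0) (P.cons (P.lf 4342719 0 0) (P.cons (P.lf 0 7191 0) (P.cons (P.lf 0 27065 0) P.nil)))))) (P.cons (P.cons (P.lf 0 310629717 0) (P.cons (P.lf 78728667 0 0) (P.cons (P.lf 8648039 0 0) (P.cons (P.lf 0 1059576 0) (P.cons (P.lf 874 0 0) P.nil))))) (P.cons (P.cons (P.lf 82542297 0 0) (P.cons (P.lf 0 1343518 0) (P.cons (P.lf 0 1802577 0) (P.cons (P.lf 0 408149 0) P.nil)))) (P.cons (P.cons (P.lf 7878215 0 0) (P.cons (P.lf 0 8017165 0) (P.cons (P.lf 0 724576 0) P.nil))) (P.cons (P.cons (P.lf 0 8536983 0) (P.cons (P.lf 1195312 0 0) P.nil)) (P.cons (P.cons (P.lf 1061558 0 0) P.nil) P.nil)))))) 1564338)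
 (EL.cons 5 (TM.mk (P.cons (P.cons (P.lf 349117305 0 0) (P.cons (P.lf 0 159815246 0) (P.cons (P.lf 0 2771128 0) (P.cons (P.lf 5958393 0 0) (P.cons (P.lf 0 10461 0) (P.cons (P.lf 0 39372 0) P.nil)))))) (P.cons (P.cons (P.lf 0 199618113 0) (P.cons (P.lf 53877319 0 0) (P.cons (P.lf 5324225 0 0) (P.cons (P.lf 0 878111 0) (P.cons (P.lf 964 0 0) P.nil))))) (P.cons (P.cons (P.lf 27725585 0 0) (P.cons (P.lf 2517233 0 0) (P.cons (P.lf 0 394287 0) (P.cons (P.lf 0 206616 0) P.nil)))) (P.cons (P.cons (P.lf 8168619 0 0) (P.cons (P.lf 0 2954361 0) (P.cons (P.lf 0 400614 0) P.nil))) (P.cons (P.cons (P.lf 0 2463749 0) (P.cons (P.lf 0 308938 0) P.nil)) (P.cons (P.cons (P.lf 0 472741 0) P.nil) P.nil)))))) 1536971)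
 (EL.cons 9 (TM.mk (P.cons (P.cons (P.lf 256683297 0 0) (P.cons (P.lf 0 136560792 0) (P.cons (P.lf 578203 0 0) (P.cons (P.lf 5850151 0 0) (P.cons (P.lf 0 10669 0) (P.cons (P.lf 0 40156 0) P.nil)))))) (P.cons (P.cons (P.lf 0 178956195 0) (P.cons (P.lf 67344801 0 0) (P.cons (P.lf 3420855 0 0) (P.cons (P.lf 0 1930543 0) (P.cons (P.lf 3084 0 0) P.nil))))) (P.cons (P.cons (P.lf 68202753 0 0) (P.cons (P.lf 0 14846368 0) (P.cons (P.lf 0 2032459 0) (P.cons (P.lf 96373 0 0) P.nil)))) (P.cons (P.cons (P.lf 0 8360565 0) (P.cons (P.lf 0 840121 0) (P.cons (P.lf 70471 0 0) P.nil))) (P.cons (P.cons (P.lf 0 986775 0) (P.cons (P.lf 638886 0 0) P.nil)) (P.cons (P.cons (P.lf 559731 0 0) P.nil) P.nil)))))) 478211)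
 (EL.cons 2 (TM.mk (P.cons (P.cons (P.lf 0 194612124 0) (P.cons (P.lf 0 3788533 0) (P.cons (P.lf 25600758 0 0) (P.cons (P.lf 633256 0 0) (P.cons (P.lf 0 357710 0) (P.cons (P.lf 3616 0 0) P.nil)))))) (P.cons (P.cons (P.lf 26244106 0 0) (P.cons (P.lf 11073695 0 0) (P.cons (P.lf 923270 0 0) (P.cons (P.lf 0 13320 0) (P.cons (P.lf 0 21886 0) P.nil))))) (P.cons (P.cons (P.lf 10678882 0 0) (P.cons (P.lf 0 1979566 0) (P.cons (P.lf 0 2310930 0) (P.cons (P.lf 0 49674 0) P.nil)))) (P.cons (P.cons (P.lf 0 7873998 0) (P.cons (P.lf 0 1963912 0) (P.cons (P.lf 285750 0 0) P.nil))) (P.cons (P.cons (P.lf 359263 0 0) (P.cons (P.lf 229736 0 0) P.nil)) (P.cons (P.cons (P.lf 240547 0 0) P.nil) P.nil)))))) 351404)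
 (EL.cons 6 (TM.mk (P.cons (P.cons (P.lf 294391326 0 0) (P.cons (P.lf 5730948 0 0) (P.cons (P.lf 0 38726472 0) (P.cons (P.lf 0 957930 0) (P.cons (P.lf 541110 0 0) (P.cons (P.lf 0 5478 0) P.nil)))))) (P.cons (P.cons (P.lf 0 145178754 0) (P.cons (P.lf 0 18804642 0) (P.cons (P.lf 12478872 0 0) (P.cons (P.lf 363372 0 0) (P.cons (P.lf 0 160758 0) P.nil))))) (P.cons (P.cons (P.lf 32005098 0 0) (P.cons (P.lf 9657030 0 0) (P.cons (P.lf 0 467874 0) (P.cons (P.lf 0 42498 0) P.nil)))) (P.cons (P.cons (P.lf 1811100 0 0) (P.cons (P.lf 0 253236 0) (P.cons (P.lf 0 357750 0) P.nil))) (P.cons (P.cons (P.lf 0 1377276 0) (P.cons (P.lf 0 349722 0) P.nil)) (P.cons (P.cons (P.lf 59214 0 0) P.nil) P.nil)))))) 300804)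
 EL.nil))))))
noncomputable def S285_314_290_364_3 : EL := (EL.cons 0 (TM.mk (P.cons (P.lf 812258952 0 0) (P.cons (P.lf 503779721 0 0) (P.cons (P.lf 60126632 0 0) (P.cons (P.lf 0 7110123 0) (P.cons (P.lf 0 270363 0) (P.cons (P.lf 53070 0 0) P.nil)))))) 3984)
 (EL.cons 1 (TM.mk (P.cons (P.lf 0 1228710643 0) (P.cons (P.lf 0 321830180 0) (P.cons (P.lf 40457490 0 0) (P.cons (P.lf 2710608 0 0) (P.cons (P.lf 0 384633 0) (P.cons (P.lf 0 7027 0) P.nil)))))) 2881)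
 (EL.cons 5 (TM.mk (P.cons (P.lf 1858680464 0 0) (P.cons (P.lf 0 179121676 0) (P.cons (P.lf 0 21378358 0) (P.cons (P.lf 2528040 0 0) (P.cons (P.lf 96128 0 0) (P.cons (P.lf 0 18870 0) P.nil)))))) 1690)
 EL.nil)))
noncomputable def S285_314_290_364_4 : EL := (EL.cons 0 (TM.mk (P.cons (P.cons (P.lf 162131630 0 0) (P.cons (P.lf 0 43128680 0) (P.cons (P.lf 0 5553727 0) (P.lf 370248 0 0)))) (P.cons (P.cons (P.lf 44039360 0 0) (P.cons (P.lf 0 20514807 0) (P.cons (P.lf 0 2641714 0) (P.lf 176113 0 0)))) (P.cons (P.cons (P.lf 0 11363090 0) (P.cons (P.lf 1268087 0 0) (P.cons (P.lf 163291 0 0) (P.lf 0 10884 0)))) (P.cons (P.cons (P.lf 3081037 0 0) (P.cons (P.lf 1081112 0 0) (P.cons (P.lf 139215 0 0) P.nil))) (P.cons (P.cons (P.lf 1962536 0 0) (P.cons (P.lf 0 76758 0) P.nil)) (P.cons (P.cons (P.lf 0 119139 0) P.nil) P.nil)))))) 122397)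
 (EL.cons 1 (TM.mk (P.cons (P.cons (P.lf 0 245257818 0) (P.cons (P.lf 65241101 0 0) (P.cons (P.lf 8401166 0 0) (P.lf 0 560075 0)))) (P.cons (P.cons (P.lf 21256066 0 0) (P.cons (P.lf 7657321 0 0) (P.cons (P.lf 986041 0 0) (P.lf 0 65733 0)))) (P.cons (P.cons (P.lf 12786986 0 0) (P.cons (P.lf 0 5516761 0) (P.cons (P.lf 0 710398 0) (P.lf 47358 0 0)))) (P.cons (P.cons (P.lf 0 9074956 0) (P.cons (P.lf 122285 0 0) (P.cons (P.lf 15746 0 0) P.nil))) (P.cons (P.cons (P.lf 101068 0 0) (P.cons (P.lf 124155 0 0) P.nil)) (P.cons (P.cons (P.lf 240028 0 0) P.nil) P.nil)))))) 79594)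
 (EL.cons 5 (TM.mk (P.cons (P.cons (P.lf 371003476 0 0) (P.cons (P.lf 0 98690738 0) (P.cons (P.lf 0 12708514 0) (P.lf 847232 0 0)))) (P.cons (P.cons (P.lf 0 165083086 0) (P.cons (P.lf 23777148 0 0) (P.cons (P.lf 3061806 0 0) (P.lf 0 204118 0)))) (P.cons (P.cons (P.lf 34943848 0 0) (P.cons (P.lf 1119266 0 0) (P.cons (P.lf 144126 0 0) (P.lf 0 9606 0)))) (P.cons (P.cons (P.lf 2696426 0 0) (P.cons (P.lf 0 718196 0) (P.cons (P.lf 0 92480 0) P.nil))) (P.cons (P.cons (P.lf 0 1313896 0) (P.cons (P.lf 21486 0 0) P.nil)) (P.cons (P.cons (P.lf 21576 0 0) P.nil) P.nil)))))) 58872)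
 EL.nil)))
noncomputable def S285_314_290_364_5 : EL := (EL.cons 0 (TM.mk (P.cons (P.cons (P.lf 32362419 0 0) (P.cons (P.lf 0 17217472 0) (P.cons (P.lf 72898 0 0) (P.cons (P.lf 737581 0 0) (P.cons (P.lf 0 1344 0) (P.cons (P.lf 0 5062 0) P.nil)))))) (P.cons (P.cons (P.lf 0 2490811 0) (P.cons (P.lf 0 2187852 0) (P.cons (P.lf 476511 0 0) (P.cons (P.lf 214061 0 0) (P.cons (P.lf 0 444 0) P.nil))))) (P.cons (P.cons (P.lf 0 2999278 0) (P.cons (P.lf 2119830 0 0) (P.cons (P.lf 16644 0 0) (P.cons (P.lf 0 84211 0) P.nil)))) (P.cons (P.cons (P.lf 2325687 0 0) (P.cons (P.lf 0 487625 0) (P.cons (P.lf 0 118757 0) P.nil))) (P.cons (P.cons (P.lf 45075 0 0) (P.cons (P.lf 0 192295 0) P.nil)) (P.cons (P.cons (P.lf 0 150266 0) P.nil) P.nil)))))) 335883)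
 (EL.cons 1 (TM.mk (P.cons (P.cons (P.lf 0 48954892 0) (P.cons (P.lf 26045008 0 0) (P.cons (P.lf 0 110274 0) (P.cons (P.lf 0 1115745 0) (P.cons (P.lf 2034 0 0) (P.cons (P.lf 7657 0 0) P.nil)))))) (P.cons (P.cons (P.lf 21308186 0 0) (P.cons (P.lf 0 6022224 0) (P.cons (P.lf 0 681311 0) (P.cons (P.lf 75952 0 0) (P.cons (P.lf 0 54 0) P.nil))))) (P.cons (P.cons (P.lf 0 2456079 0) (P.cons (P.lf 0 1390246 0) (P.cons (P.lf 220374 0 0) (P.cons (P.lf 114795 0 0) P.nil)))) (P.cons (P.cons (P.lf 0 2828323 0) (P.cons (P.lf 1267329 0 0) (P.cons (P.lf 109815 0 0) P.nil))) (P.cons (P.cons (P.lf 943528 0 0) (P.cons (P.lf 0 136623 0) P.nil)) (P.cons (P.cons (P.lf 0 70860 0) P.nil) P.nil)))))) 280208)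
 (EL.cons 5 (TM.mk (P.cons (P.cons (P.lf 74054460 0 0) (P.cons (P.lf 0 39398494 0) (P.cons (P.lf 166812 0 0) (P.cons (P.lf 1687798 0 0) (P.cons (P.lf 0 3076 0) (P.cons (P.lf 0 11584 0) P.nil)))))) (P.cons (P.cons (P.lf 0 58766442 0) (P.cons (P.lf 23226170 0 0) (P.cons (P.lf 970858 0 0) (P.cons (P.lf 0 719624 0) (P.cons (P.lf 1184 0 0) P.nil))))) (P.cons (P.cons (P.lf 23800660 0 0) (P.cons (P.lf 0 5702506 0) (P.cons (P.lf 0 683404 0) (P.cons (P.lf 62066 0 0) P.nil)))) (P.cons (P.cons (P.lf 0 3613764 0) (P.cons (P.lf 0 106660 0) (P.cons (P.lf 65714 0 0) P.nil))) (P.cons (P.cons (P.lf 0 344950 0) (P.cons (P.lf 281332 0 0) P.nil)) (P.cons (P.cons (P.lf 240004 0 0) P.nil) P.nil)))))) 242244)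
 EL.nil)))
noncomputable def S285_314_290_364_6 : EL := (EL.cons 12 (TM.mk (P.lf 8589934592 0 0) 0)
 (EL.cons 3 (TM.mk (P.cons (P.lf 1320724353 0 0) (P.cons (P.lf 409570215 0 0) (P.cons (P.lf 0 14623338 0) (P.cons (P.lf 0 1245645 0) (P.cons (P.lf 85526 0 0) (P.cons (P.lf 2831 0 0) P.nil)))))) 532)
 (EL.cons 7 (TM.mk (P.cons (P.lf 0 1997870342 0) (P.cons (P.lf 96267727 0 0) (P.cons (P.lf 13808992 0 0) (P.cons (P.lf 0 693290 0) (P.cons (P.lf 0 37347 0) (P.cons (P.lf 3551 0 0) P.nil)))))) 296)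
 EL.nil)))
noncomputable def S285_314_290_364_7 : EL := (EL.cons 12 (TM.mk (P.cons (P.cons (P.lf 1714601116 0 0) (P.cons (P.lf 0 456101528 0) (P.cons (P.lf 0 58732696 0) (P.lf 3915512 0 0)))) (P.cons (P.cons (P.lf 0 597698594 0) (P.cons (P.lf 65931984 0 0) (P.cons (P.lf 8490128 0 0) (P.lf 0 566008 0)))) (P.cons (P.cons (P.lf 123614558 0 0) (P.cons (P.lf 6280576 0 0) (P.cons (P.lf 808752 0 0) (P.lf 0 53912 0)))) (P.cons (P.cons (P.lf 15167632 0 0) (P.cons (P.lf 0 1335208 0) (P.cons (P.lf 0 171928 0) P.nil))) (P.cons (P.cons (P.lf 0 2464422 0) (P.cons (P.lf 0 23224 0) P.nil)) (P.cons (P.cons (P.lf 0 83140 0) P.nil) P.nil)))))) 80610)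
 (EL.cons 3 (TM.mk (P.cons (P.cons (P.lf 0 1643553367 0) (P.cons (P.lf 140253544 0 0) (P.cons (P.lf 18060600 0 0) (P.lf 0 1204038 0)))) (P.cons (P.cons (P.lf 826337701 0 0) (P.cons (P.lf 23219644 0 0) (P.cons (P.lf 2990020 0 0) (P.lf 0 199332 0)))) (P.cons (P.cons (P.lf 121025145 0 0) (P.cons (P.lf 0 9771532 0) (P.cons (P.lf 0 1258288 0) (P.lf 83882 0 0)))) (P.cons (P.cons (P.lf 0 29366004 0) (P.cons (P.lf 0 96132 0) (P.cons (P.lf 0 12380 0) P.nil))) (P.cons (P.cons (P.lf 0 907762 0) (P.cons (P.lf 184054 0 0) P.nil)) (P.cons (P.cons (P.lf 443750 0 0) P.nil) P.nil)))))) 210043)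
 (EL.cons 7 (TM.mk (P.cons (P.cons (P.lf 0 847060548 0) (P.cons (P.lf 155530330 0 0) (P.cons (P.lf 20027815 0 0) (P.lf 0 1335189 0)))) (P.cons (P.cons (P.lf 194227147 0 0) (P.cons (P.lf 5457676 0 0) (P.cons (P.lf 702788 0 0) (P.lf 0 46851 0)))) (P.cons (P.cons (P.lf 63241795 0 0) (P.cons (P.lf 0 1319026 0) (P.cons (P.lf 0 169855 0) (P.lf 11326 0 0)))) (P.cons (P.cons (P.lf 740857 0 0) (P.cons (P.lf 0 547364 0) (P.cons (P.lf 0 70482 0) P.nil))) (P.cons (P.cons (P.lf 0 1793529 0) (P.cons (P.lf 24622 0 0) P.nil)) (P.cons (P.cons (P.lf 13436 0 0) P.nil) P.nil)))))) 166242)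
 (EL.cons 10 (TM.mk (P.cons (P.cons (P.lf 0 1585310508 0) (P.cons (P.lf 0 452570325 0) (P.cons (P.lf 33851532 0 0) (P.cons (P.lf 2281098 0 0) (P.lf 0 114054 0))))) (P.cons (P.cons (P.lf 152776917 0 0) (P.cons (P.lf 43614357 0 0) (P.cons (P.lf 0 3262281 0) (P.cons (P.lf 0 219828 0) (P.lf 10989 0 0))))) (P.cons (P.cons (P.lf 18234081 0 0) (P.cons (P.lf 5205417 0 0) (P.cons (P.lf 0 389355 0) (P.cons (P.lf 0 26235 0) P.nil)))) (P.cons (P.cons (P.lf 0 2156220 0) (P.cons (P.lf 0 615552 0) (P.cons (P.lf 46041 0 0) P.nil))) (P.cons (P.cons (P.lf 0 81987 0) (P.cons (P.lf 0 23406 0) P.nil)) (P.cons (P.cons (P.lf 16092 0 0) P.nil) P.nil)))))) 13401)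
 EL.nil))))
noncomputable def S285_314_290_364_8 : EL := (EL.cons 12 (TM.mk (P.cons (P.cons (P.lf 342244396 0 0) (P.cons (P.lf 0 182081056 0) (P.cons (P.lf 770938 0 0) (P.cons (P.lf 7800202 0 0) (P.cons (P.lf 0 14226 0) (P.cons (P.lf 0 53542 0) P.nil)))))) (P.cons (P.cons (P.lf 0 238608260 0) (P.cons (P.lf 89793068 0 0) (P.cons (P.lf 4561140 0 0) (P.cons (P.lf 0 2574058 0) (P.cons (P.lf 4112 0 0) P.nil))))) (P.cons (P.cons (P.lf 90937004 0 0) (P.cons (P.lf 0 19795158 0) (P.cons (P.lf 0 2709946 0) (P.cons (P.lf 128498 0 0) P.nil)))) (P.cons (P.cons (P.lf 0 11147420 0) (P.cons (P.lf 0 1120162 0) (P.cons (P.lf 93962 0 0) P.nil))) (P.cons (P.cons (P.lf 0 1315700 0) (P.cons (P.lf 851848 0 0) P.nil)) (P.cons (P.cons (P.lf 746308 0 0) P.nil) P.nil)))))) 637586)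
 (EL.cons 3 (TM.mk (P.cons (P.cons (P.lf 0 708746652 0) (P.cons (P.lf 258522460 0 0) (P.cons (P.lf 14672540 0 0) (P.cons (P.lf 0 7014184 0) (P.cons (P.lf 10935 0 0) (P.cons (P.lf 41160 0 0) P.nil)))))) (P.cons (P.cons (P.lf 578973068 0 0) (P.cons (P.lf 0 128355340 0) (P.cons (P.lf 0 16919409 0) (P.cons (P.lf 1001207 0 0) (P.cons (P.lf 225 0 0) P.nil))))) (P.cons (P.cons (P.lf 0 116006406 0) (P.cons (P.lf 0 7213790 0) (P.cons (P.lf 1070100 0 0) (P.cons (P.lf 576754 0 0) P.nil)))) (P.cons (P.cons (P.lf 0 13565100 0) (P.cons (P.lf 10423235 0 0) (P.cons (P.lf 1155402 0 0) P.nil))) (P.cons (P.cons (P.lf 11919382 0 0) (P.cons (P.lf 0 714712 0) P.nil)) (P.cons (P.cons (P.lf 0 612188 0) P.nil) P.nil)))))) 1853307)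
 (EL.cons 7 (TM.mk (P.cons (P.cons (P.lf 0 258556330 0) (P.cons (P.lf 109693711 0 0) (P.cons (P.lf 3241552 0 0) (P.cons (P.lf 0 3744734 0) (P.cons (P.lf 6392 0 0) (P.cons (P.lf 24062 0 0) P.nil)))))) (P.cons (P.cons (P.lf 136085143 0 0) (P.cons (P.lf 0 30169371 0) (P.cons (P.lf 0 3976836 0) (P.cons (P.lf 235336 0 0) (P.cons (P.lf 49 0 0) P.nil))))) (P.cons (P.cons (P.lf 0 2887470 0) (P.cons (P.lf 0 7100344 0) (P.cons (P.lf 0 460916 0) (P.cons (P.lf 177720 0 0) P.nil)))) (P.cons (P.cons (P.lf 0 9107041 0) (P.cons (P.lf 1913142 0 0) (P.cons (P.lf 314278 0 0) P.nil))) (P.cons (P.cons (P.lf 1827985 0 0) (P.cons (P.lf 465536 0 0) P.nil)) (P.cons (P.cons (P.lf 616970 0 0) P.nil) P.nil)))))) 873220)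
 (EL.cons 10 (TM.mk (P.cons (P.cons (P.lf 0 632874468 0) (P.cons (P.lf 0 12320238 0) (P.cons (P.lf 83253120 0 0) (P.cons (P.lf 2059338 0 0) (P.cons (P.lf 0 1163268 0) (P.cons (P.lf 11778 0 0) P.nil)))))) (P.cons (P.cons (P.lf 281606178 0 0) (P.cons (P.lf 39832062 0 0) (P.cons (P.lf 0 22815174 0) (P.cons (P.lf 0 681948 0) (P.cons (P.lf 289548 0 0) P.nil))))) (P.cons (P.cons (P.lf 0 59608794 0) (P.cons (P.lf 0 18926262 0) (P.cons (P.lf 481914 0 0) (P.cons (P.lf 72738 0 0) P.nil)))) (P.cons (P.cons (P.lf 0 4599684 0) (P.cons (P.lf 0 87966 0) (P.cons (P.lf 605724 0 0) P.nil))) (P.cons (P.cons (P.lf 2241300 0 0) (P.cons (P.lf 603186 0 0) P.nil)) (P.cons (P.cons (P.lf 0 36804 0) P.nil) P.nil)))))) 474126)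
 EL.nil))))
noncomputable def S285_314_290_364_9 : EL := (EL.cons 3 (TM.mk (P.cons (P.lf 1320724353 0 0) (P.cons (P.lf 409570215 0 0) (P.cons (P.lf 0 14623338 0) (P.cons (P.lf 0 1245645 0) (P.cons (P.lf 85526 0 0) (P.cons (P.lf 2831 0 0) P.nil)))))) 532)
 (EL.cons 7 (TM.mk (P.cons (P.lf 0 1997870342 0) (P.cons (P.lf 96267727 0 0) (P.cons (P.lf 13808992 0 0) (P.cons (P.lf 0 693290 0) (P.cons (P.lf 0 37347 0) (P.cons (P.lf 3551 0 0) P.nil)))))) 296)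
 EL.nil))
noncomputable def S285_314_290_364_10 : EL := (EL.cons 3 (TM.mk (P.cons (P.cons (P.lf 263624294 0 0) (P.cons (P.lf 0 70126772 0) (P.cons (P.lf 0 9030300 0) (P.lf 602019 0 0)))) (P.cons (P.cons (P.lf 0 10145075 0) (P.cons (P.lf 0 11609822 0) (P.cons (P.lf 0 1495010 0) (P.lf 99666 0 0)))) (P.cons (P.cons (P.lf 0 12411267 0) (P.cons (P.lf 4885766 0 0) (P.cons (P.lf 629144 0 0) (P.lf 0 41941 0)))) (P.cons (P.cons (P.lf 8994906 0 0) (P.cons (P.lf 48066 0 0) (P.cons (P.lf 6190 0 0) P.nil))) (P.cons (P.cons (P.lf 237590 0 0) (P.cons (P.lf 0 92027 0) P.nil)) (P.cons (P.cons (P.lf 0 179419 0) P.nil) P.nil)))))) 50838)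
 (EL.cons 7 (TM.mk (P.cons (P.cons (P.lf 0 398786589 0) (P.cons (P.lf 106081333 0 0) (P.cons (P.lf 13660210 0 0) (P.lf 0 910680 0)))) (P.cons (P.cons (P.lf 158229964 0 0) (P.cons (P.lf 0 20446187 0) (P.cons (P.lf 0 2632876 0) (P.lf 175524 0 0)))) (P.cons (P.cons (P.lf 0 32692685 0) (P.cons (P.lf 0 1455070 0) (P.cons (P.lf 0 187369 0) (P.lf 12490 0 0)))) (P.cons (P.cons (P.lf 0 3241607 0) (P.cons (P.lf 523735 0 0) (P.cons (P.lf 67440 0 0) P.nil))) (P.cons (P.cons (P.lf 982671 0 0) (P.cons (P.lf 0 2804 0) P.nil)) (P.cons (P.cons (P.lf 9431 0 0) P.nil) P.nil)))))) 37469)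
 EL.nil))
noncomputable def S285_314_290_364_11 : EL := (EL.cons 3 (TM.mk (P.cons (P.cons (P.lf 52620948 0 0) (P.cons (P.lf 0 27995426 0) (P.cons (P.lf 118532 0 0) (P.cons (P.lf 1199300 0 0) (P.cons (P.lf 0 2187 0) (P.cons (P.lf 0 8232 0) P.nil)))))) (P.cons (P.cons (P.lf 0 20368330 0) (P.cons (P.lf 5124242 0 0) (P.cons (P.lf 738045 0 0) (P.cons (P.lf 0 23851 0) (P.cons (P.lf 0 45 0) P.nil))))) (P.cons (P.cons (P.lf 2022264 0 0) (P.cons (P.lf 1547770 0 0) (P.cons (P.lf 0 200496 0) (P.cons (P.lf 0 116252 0) P.nil)))) (P.cons (P.cons (P.lf 2978526 0 0) (P.cons (P.lf 0 1242523 0) (P.cons (P.lf 0 122640 0) P.nil))) (P.cons (P.cons (P.lf 0 850604 0) (P.cons (P.lf 96428 0 0) P.nil)) (P.cons (P.cons (P.lf 55540 0 0) P.nil) P.nil)))))) 245861)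
 (EL.cons 7 (TM.mk (P.cons (P.cons (P.lf 0 79600132 0) (P.cons (P.lf 42348907 0 0) (P.cons (P.lf 0 179306 0) (P.cons (P.lf 0 1814192 0) (P.cons (P.lf 3308 0 0) (P.cons (P.lf 12452 0 0) P.nil)))))) (P.cons (P.cons (P.lf 59331703 0 0) (P.cons (P.lf 0 22924905 0) (P.cons (P.lf 0 1052202 0) (P.cons (P.lf 686098 0 0) (P.cons (P.lf 0 1115 0) P.nil))))) (P.cons (P.cons (P.lf 0 23274282 0) (P.cons (P.lf 5317616 0 0) (P.cons (P.lf 682642 0 0) (P.cons (P.lf 0 46194 0) P.nil)))) (P.cons (P.cons (P.lf 3200627 0 0) (P.cons (P.lf 197730 0 0) (P.cons (P.lf 0 44954 0) P.nil))) (P.cons (P.cons (P.lf 345037 0 0) (P.cons (P.lf 0 248956 0) P.nil)) (P.cons (P.cons (P.lf 0 212404 0) P.nil) P.nil)))))) 198636)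
 EL.nil))
noncomputable def S285_314_290_364_12 : EL := (EL.cons 4 (TM.mk (P.cons (P.lf 0 1320724353 0) (P.cons (P.lf 0 409570215 0) (P.cons (P.lf 14623338 0 0) (P.cons (P.lf 1245645 0 0) (P.cons (P.lf 0 85526 0) (P.cons (P.lf 0 2831 0) P.nil)))))) 532)
 (EL.cons 8 (TM.mk (P.cons (P.lf 1997870342 0 0) (P.cons (P.lf 0 96267727 0) (P.cons (P.lf 0 13808992 0) (P.cons (P.lf 693290 0 0) (P.cons (P.lf 37347 0 0) (P.cons (P.lf 0 3551 0) P.nil)))))) 296)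
 EL.nil))
noncomputable def S285_314_290_364_13 : EL := (EL.cons 4 (TM.mk (P.cons (P.cons (P.lf 0 263624294 0) (P.cons (P.lf 70126772 0 0) (P.cons (P.lf 9030300 0 0) (P.lf 0 602019 0)))) (P.cons (P.cons (P.lf 10145075 0 0) (P.cons (P.lf 11609822 0 0) (P.cons (P.lf 1495010 0 0) (P.lf 0 99666 0)))) (P.cons (P.cons (P.lf 12411267 0 0) (P.cons (P.lf 0 4885766 0) (P.cons (P.lf 0 629144 0) (P.lf 41941 0 0)))) (P.cons (P.cons (P.lf 0 8994906 0) (P.cons (P.lf 0 48066 0) (P.cons (P.lf 0 6190 0) P.nil))) (P.cons (P.cons (P.lf 0 237590 0) (P.cons (P.lf 92027 0 0) P.nil)) (P.cons (P.cons (P.lf 179419 0 0) P.nil) P.nil)))))) 50838)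
 (EL.cons 8 (TM.mk (P.cons (P.cons (P.lf 398786589 0 0) (P.cons (P.lf 0 106081333 0) (P.cons (P.lf 0 13660210 0) (P.lf 910680 0 0)))) (P.cons (P.cons (P.lf 0 158229964 0) (P.cons (P.lf 20446187 0 0) (P.cons (P.lf 2632876 0 0) (P.lf 0 175524 0)))) (P.cons (P.cons (P.lf 32692685 0 0) (P.cons (P.lf 1455070 0 0) (P.cons (P.lf 187369 0 0) (P.lf 0 12490 0)))) (P.cons (P.cons (P.lf 3241607 0 0) (P.cons (P.lf 0 523735 0) (P.cons (P.lf 0 67440 0) P.nil))) (P.cons (P.cons (P.lf 0 982671 0) (P.cons (P.lf 2804 0 0) P.nil)) (P.cons (P.cons (P.lf 0 9431 0) P.nil) P.nil)))))) 37469)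
 EL.nil))
noncomputable def S285_314_290_364_14 : EL := (EL.cons 4 (TM.mk (P.cons (P.cons (P.lf 0 52620948 0) (P.cons (P.lf 27995426 0 0) (P.cons (P.lf 0 118532 0) (P.cons (P.lf 0 1199300 0) (P.cons (P.lf 2187 0 0) (P.cons (P.lf 8232 0 0) P.nil)))))) (P.cons (P.cons (P.lf 20368330 0 0) (P.cons (P.lf 0 5124242 0) (P.cons (P.lf 0 738045 0) (P.cons (P.lf 23851 0 0) (P.cons (P.lf 45 0 0) P.nil))))) (P.cons (P.cons (P.lf 0 2022264 0) (P.cons (P.lf 0 1547770 0) (P.cons (P.lf 200496 0 0) (P.cons (P.lf 116252 0 0) P.nil)))) (P.cons (P.cons (P.lf 0 2978526 0) (P.cons (P.lf 1242523 0 0) (P.cons (P.lf 122640 0 0) P.nil))) (P.cons (P.cons (P.lf 850604 0 0) (P.cons (P.lf 0 96428 0) P.nil)) (P.cons (P.cons (P.lf 0 55540 0) P.nil) P.nil)))))) 245861)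
 (EL.cons 8 (TM.mk (P.cons (P.cons (P.lf 79600132 0 0) (P.cons (P.lf 0 42348907 0) (P.cons (P.lf 179306 0 0) (P.cons (P.lf 1814192 0 0) (P.cons (P.lf 0 3308 0) (P.cons (P.lf 0 12452 0) P.nil)))))) (P.cons (P.cons (P.lf 0 59331703 0) (P.cons (P.lf 22924905 0 0) (P.cons (P.lf 1052202 0 0) (P.cons (P.lf 0 686098 0) (P.cons (P.lf 1115 0 0) P.nil))))) (P.cons (P.cons (P.lf 23274282 0 0) (P.cons (P.lf 0 5317616 0) (P.cons (P.lf 0 682642 0) (P.cons (P.lf 46194 0 0) P.nil)))) (P.cons (P.cons (P.lf 0 3200627 0) (P.cons (P.lf 0 197730 0) (P.cons (P.lf 44954 0 0) P.nil))) (P.cons (P.cons (P.lf 0 345037 0) (P.cons (P.lf 248956 0 0) P.nil)) (P.cons (P.cons (P.lf 212404 0 0) P.nil) P.nil)))))) 198636)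
 EL.nil))
noncomputable def S285_314_290_364_15 : EL := (EL.cons 4 (TM.mk (P.cons (P.lf 0 433204774 0) (P.cons (P.lf 0 268682518 0) (P.cons (P.lf 0 32067537 0) (P.cons (P.lf 3792065 0 0) (P.cons (P.lf 144194 0 0) (P.cons (P.lf 0 28304 0) P.nil)))))) 2128)
 (EL.cons 8 (TM.mk (P.cons (P.lf 655312343 0 0) (P.cons (P.lf 171642763 0 0) (P.cons (P.lf 0 21577328 0) (P.cons (P.lf 0 1445658 0) (P.cons (P.lf 205138 0 0) (P.cons (P.lf 3748 0 0) P.nil)))))) 1533)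
 EL.nil))
noncomputable def S285_314_290_364_16 : EL := (EL.cons 4 (TM.mk (P.cons (P.cons (P.lf 0 86470202 0) (P.cons (P.lf 23001962 0 0) (P.cons (P.lf 2961988 0 0) (P.lf 0 197465 0)))) (P.cons (P.cons (P.lf 0 23487659 0) (P.cons (P.lf 10941230 0 0) (P.cons (P.lf 1408914 0 0) (P.lf 0 93927 0)))) (P.cons (P.cons (P.lf 6060315 0 0) (P.cons (P.lf 0 676313 0) (P.cons (P.lf 0 87089 0) (P.lf 5805 0 0)))) (P.cons (P.cons (P.lf 0 1643220 0) (P.cons (P.lf 0 576593 0) (P.cons (P.lf 0 74248 0) P.nil))) (P.cons (P.cons (P.lf 0 1046685 0) (P.cons (P.lf 40937 0 0) P.nil)) (P.cons (P.cons (P.lf 63540 0 0) P.nil) P.nil)))))) 65287)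
 (EL.cons 8 (TM.mk (P.cons (P.cons (P.lf 130804170 0 0) (P.cons (P.lf 0 34795254 0) (P.cons (P.lf 0 4480622 0) (P.lf 298707 0 0)))) (P.cons (P.cons (P.lf 0 11336569 0) (P.cons (P.lf 0 4083905 0) (P.cons (P.lf 0 525889 0) (P.lf 35058 0 0)))) (P.cons (P.cons (P.lf 0 6819726 0) (P.cons (P.lf 2942273 0 0) (P.cons (P.lf 378879 0 0) (P.lf 0 25258 0)))) (P.cons (P.cons (P.lf 4839977 0 0) (P.cons (P.lf 0 65219 0) (P.cons (P.lf 0 8398 0) P.nil))) (P.cons (P.cons (P.lf 0 53903 0) (P.cons (P.lf 0 66216 0) P.nil)) (P.cons (P.cons (P.lf 0 128015 0) P.nil) P.nil)))))) 42440)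
 EL.nil))
noncomputable def S285_314_290_364_17 : EL := (EL.cons 4 (TM.mk (P.cons (P.cons (P.lf 0 17259957 0) (P.cons (P.lf 9182652 0 0) (P.cons (P.lf 0 38879 0) (P.cons (P.lf 0 393376 0) (P.cons (P.lf 717 0 0) (P.cons (P.lf 2700 0 0) P.nil)))))) (P.cons (P.cons (P.lf 1328432 0 0) (P.cons (P.lf 1166854 0 0) (P.cons (P.lf 0 254139 0) (P.cons (P.lf 0 114165 0) (P.cons (P.lf 237 0 0) P.nil))))) (P.cons (P.cons (P.lf 1599615 0 0) (P.cons (P.lf 0 1130576 0) (P.cons (P.lf 0 8877 0) (P.cons (P.lf 44912 0 0) P.nil)))) (P.cons (P.cons (P.lf 0 1240366 0) (P.cons (P.lf 260067 0 0) (P.cons (P.lf 63337 0 0) P.nil))) (P.cons (P.cons (P.lf 0 24040 0) (P.cons (P.lf 102557 0 0) P.nil)) (P.cons (P.cons (P.lf 80142 0 0) P.nil) P.nil)))))) 179148)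
 (EL.cons 8 (TM.mk (P.cons (P.cons (P.lf 26109276 0 0) (P.cons (P.lf 0 13890671 0) (P.cons (P.lf 58813 0 0) (P.cons (P.lf 595064 0 0) (P.cons (P.lf 0 1085 0) (P.cons (P.lf 0 4084 0) P.nil)))))) (P.cons (P.cons (P.lf 0 11364366 0) (P.cons (P.lf 3211853 0 0) (P.cons (P.lf 363366 0 0) (P.cons (P.lf 0 40508 0) (P.cons (P.lf 29 0 0) P.nil))))) (P.cons (P.cons (P.lf 1309909 0 0) (P.cons (P.lf 741465 0 0) (P.cons (P.lf 0 117533 0) (P.cons (P.lf 0 61224 0) P.nil)))) (P.cons (P.cons (P.lf 1508439 0 0) (P.cons (P.lf 0 675909 0) (P.cons (P.lf 0 58568 0) P.nil))) (P.cons (P.cons (P.lf 0 503215 0) (P.cons (P.lf 72866 0 0) P.nil)) (P.cons (P.cons (P.lf 37792 0 0) P.nil) P.nil)))))) 149433)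
 EL.nil))
noncomputable def S285_314_290_364_18 : EL := (EL.cons 4 (TM.mk (P.cons (P.lf 0 142093522 0) (P.cons (P.lf 0 132193991 0) (P.cons (P.lf 0 36274848 0) (P.cons (P.lf 0 908220 0) (P.cons (P.lf 623396 0 0) (P.cons (P.lf 0 4479 0) P.nil)))))) 6741)
 (EL.cons 8 (TM.mk (P.cons (P.lf 214946014 0 0) (P.cons (P.lf 122956731 0 0) (P.cons (P.lf 8001726 0 0) (P.cons (P.lf 0 3495072 0) (P.cons (P.lf 0 40579 0) (P.cons (P.lf 38127 0 0) P.nil)))))) 3726)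
 EL.nil))
noncomputable def S285_314_290_364_19 : EL := (EL.cons 4 (TM.mk (P.cons (P.cons (P.lf 0 28362696 0) (P.cons (P.lf 7544768 0 0) (P.cons (P.lf 971548 0 0) (P.lf 0 64769 0)))) (P.cons (P.cons (P.lf 0 16499643 0) (P.cons (P.lf 5928493 0 0) (P.cons (P.lf 763418 0 0) (P.lf 0 50894 0)))) (P.cons (P.cons (P.lf 0 87259 0) (P.cons (P.lf 807546 0 0) (P.cons (P.lf 103988 0 0) (P.lf 0 6931 0)))) (P.cons (P.cons (P.lf 189508 0 0) (P.cons (P.lf 0 304770 0) (P.cons (P.lf 0 39245 0) P.nil))) (P.cons (P.cons (P.lf 0 527043 0) (P.cons (P.lf 0 45661 0) P.nil)) (P.cons (P.cons (P.lf 0 82091 0) P.nil) P.nil)))))) 59463)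
 (EL.cons 8 (TM.mk (P.cons (P.cons (P.lf 42904479 0 0) (P.cons (P.lf 0 11413032 0) (P.cons (P.lf 0 1469668 0) (P.lf 97977 0 0)))) (P.cons (P.cons (P.lf 9586663 0 0) (P.cons (P.lf 0 4878842 0) (P.cons (P.lf 0 628253 0) (P.lf 41883 0 0)))) (P.cons (P.cons (P.lf 0 3865086 0) (P.cons (P.lf 676042 0 0) (P.cons (P.lf 87054 0 0) (P.lf 0 5803 0)))) (P.cons (P.cons (P.lf 894556 0 0) (P.cons (P.lf 303485 0 0) (P.cons (P.lf 39079 0 0) P.nil))) (P.cons (P.cons (P.lf 505684 0 0) (P.cons (P.lf 0 38514 0) P.nil)) (P.cons (P.cons (P.lf 0 63089 0) P.nil) P.nil)))))) 46766)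
 EL.nil))
noncomputable def S285_314_290_364_20 : EL := (EL.cons 4 (TM.mk (P.cons (P.cons (P.lf 0 5661359 0) (P.cons (P.lf 3011959 0 0) (P.cons (P.lf 0 12751 0) (P.cons (P.lf 0 129029 0) (P.cons (P.lf 235 0 0) (P.cons (P.lf 885 0 0) P.nil)))))) (P.cons (P.cons (P.lf 0 1319911 0) (P.cons (P.lf 1316774 0 0) (P.cons (P.lf 0 87313 0) (P.cons (P.lf 0 77460 0) (P.cons (P.lf 150 0 0) P.nil))))) (P.cons (P.cons (P.lf 722490 0 0) (P.cons (P.lf 0 285494 0) (P.cons (P.lf 0 28620 0) (P.cons (P.lf 4546 0 0) P.nil)))) (P.cons (P.cons (P.lf 0 243622 0) (P.cons (P.lf 0 36774 0) (P.cons (P.lf 20806 0 0) P.nil))) (P.cons (P.cons (P.lf 0 140640 0) (P.cons (P.lf 64033 0 0) P.nil)) (P.cons (P.cons (P.lf 27867 0 0) P.nil) P.nil)))))) 116437)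
 (EL.cons 8 (TM.mk (P.cons (P.cons (P.lf 8563984 0 0) (P.cons (P.lf 0 4556215 0) (P.cons (P.lf 19290 0 0) (P.cons (P.lf 195184 0 0) (P.cons (P.lf 0 355 0) (P.cons (P.lf 0 1339 0) P.nil)))))) (P.cons (P.cons (P.lf 0 1071794 0) (P.cons (P.lf 0 359423 0) (P.cons (P.lf 125168 0 0) (P.cons (P.lf 47241 0 0) (P.cons (P.lf 0 100 0) P.nil))))) (P.cons (P.cons (P.lf 0 821123 0) (P.cons (P.lf 620354 0 0) (P.cons (P.lf 0 1804 0) (P.cons (P.lf 0 26363 0) P.nil)))) (P.cons (P.cons (P.lf 661212 0 0) (P.cons (P.lf 0 153648 0) (P.cons (P.lf 0 32503 0) P.nil))) (P.cons (P.cons (P.lf 0 12309 0) (P.cons (P.lf 0 48832 0) P.nil)) (P.cons (P.cons (P.lf 0 44896 0) P.nil) P.nil)))))) 103981)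
 EL.nil))
noncomputable def S285_314_290_364_21 : EL := (EL.cons 4 (TM.mk (P.cons (P.cons (P.lf 1907177661 0 0) (P.cons (P.lf 0 210380316 0) (P.cons (P.lf 0 27090900 0) (P.lf 1806057 0 0)))) (P.cons (P.cons (P.lf 0 836482776 0) (P.cons (P.lf 0 34829466 0) (P.cons (P.lf 0 4485030 0) (P.lf 298998 0 0)))) (P.cons (P.cons (P.lf 0 133436412 0) (P.cons (P.lf 14657298 0 0) (P.cons (P.lf 1887432 0 0) (P.lf 0 125823 0)))) (P.cons (P.cons (P.lf 38360910 0 0) (P.cons (P.lf 144198 0 0) (P.cons (P.lf 18570 0 0) P.nil))) (P.cons (P.cons (P.lf 1145352 0 0) (P.cons (P.lf 0 276081 0) P.nil)) (P.cons (P.cons (P.lf 0 623169 0) P.nil) P.nil)))))) 159186)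
 (EL.cons 8 (TM.mk (P.cons (P.cons (P.lf 448273959 0 0) (P.cons (P.lf 0 49448997 0) (P.cons (P.lf 0 6367605 0) (P.lf 424509 0 0)))) (P.cons (P.cons (P.lf 0 35997183 0) (P.cons (P.lf 0 25903863 0) (P.cons (P.lf 0 3335664 0) (P.lf 222375 0 0)))) (P.cons (P.cons (P.lf 0 95934480 0) (P.cons (P.lf 0 136044 0) (P.cons (P.lf 0 17514 0) (P.lf 1164 0 0)))) (P.cons (P.cons (P.lf 0 3982464 0) (P.cons (P.lf 1071099 0 0) (P.cons (P.lf 137922 0 0) P.nil))) (P.cons (P.cons (P.lf 2776200 0 0) (P.cons (P.lf 0 27426 0) P.nil)) (P.cons (P.cons (P.lf 0 4005 0) P.nil) P.nil)))))) 128754)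
 (EL.cons 11 (TM.mk (P.cons (P.cons (P.lf 1585310508 0 0) (P.cons (P.lf 452570325 0 0) (P.cons (P.lf 0 33851532 0) (P.cons (P.lf 0 2281098 0) (P.lf 114054 0 0))))) (P.cons (P.cons (P.lf 0 152776917 0) (P.cons (P.lf 0 43614357 0) (P.cons (P.lf 3262281 0 0) (P.cons (P.lf 219828 0 0) (P.lf 0 10989 0))))) (P.cons (P.cons (P.lf 0 18234081 0) (P.cons (P.lf 0 5205417 0) (P.cons (P.lf 389355 0 0) (P.cons (P.lf 26235 0 0) P.nil)))) (P.cons (P.cons (P.lf 2156220 0 0) (P.cons (P.lf 615552 0 0) (P.cons (P.lf 0 46041 0) P.nil))) (P.cons (P.cons (P.lf 81987 0 0) (P.cons (P.lf 23406 0 0) P.nil)) (P.cons (P.cons (P.lf 0 16092 0) P.nil) P.nil)))))) 13401)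
 EL.nil)))
noncomputable def S285_314_290_364_22 : EL := (EL.cons 4 (TM.mk (P.cons (P.cons (P.lf 380683800 0 0) (P.cons (P.lf 0 143258943 0) (P.cons (P.lf 0 7277004 0) (P.cons (P.lf 4106742 0 0) (P.cons (P.lf 0 6561 0) (P.cons (P.lf 0 24696 0) P.nil)))))) (P.cons (P.cons (P.lf 0 299670699 0) (P.cons (P.lf 66739791 0 0) (P.cons (P.lf 8828727 0 0) (P.cons (P.lf 0 512529 0) (P.cons (P.lf 0 135 0) P.nil))))) (P.cons (P.cons (P.lf 59014335 0 0) (P.cons (P.lf 4380780 0 0) (P.cons (P.lf 0 635298 0) (P.cons (P.lf 0 346503 0) P.nil)))) (P.cons (P.cons (P.lf 8271813 0 0) (P.cons (P.lf 0 5832879 0) (P.cons (P.lf 0 639021 0) P.nil))) (P.cons (P.cons (P.lf 0 6384993 0) (P.cons (P.lf 405570 0 0) P.nil)) (P.cons (P.cons (P.lf 333864 0 0) P.nil) P.nil)))))) 803712)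
 (EL.cons 8 (TM.mk (P.cons (P.cons (P.lf 89478099 0 0) (P.cons (P.lf 0 33672402 0) (P.cons (P.lf 0 1710429 0) (P.cons (P.lf 965271 0 0) (P.cons (P.lf 0 1542 0) (P.cons (P.lf 0 5805 0) P.nil)))))) (P.cons (P.cons (P.lf 0 38376720 0) (P.cons (P.lf 3622233 0 0) (P.cons (P.lf 1462317 0 0) (P.cons (P.lf 225381 0 0) (P.cons (P.lf 0 582 0) P.nil))))) (P.cons (P.cons (P.lf 0 10193406 0) (P.cons (P.lf 6208980 0 0) (P.cons (P.lf 571779 0 0) (P.cons (P.lf 0 111957 0) P.nil)))) (P.cons (P.cons (P.lf 6153834 0 0) (P.cons (P.lf 0 857706 0) (P.cons (P.lf 0 179616 0) P.nil))) (P.cons (P.cons (P.lf 0 741474 0) (P.cons (P.lf 0 357246 0) P.nil)) (P.cons (P.cons (P.lf 0 414687 0) P.nil) P.nil)))))) 337281)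
 (EL.cons 11 (TM.mk (P.cons (P.cons (P.lf 316437234 0 0) (P.cons (P.lf 6160119 0 0) (P.cons (P.lf 0 41626560 0) (P.cons (P.lf 0 1029669 0) (P.cons (P.lf 581634 0 0) (P.cons (P.lf 0 5889 0) P.nil)))))) (P.cons (P.cons (P.lf 0 140803089 0) (P.cons (P.lf 0 19916031 0) (P.cons (P.lf 11407587 0 0) (P.cons (P.lf 340974 0 0) (P.cons (P.lf 0 144774 0) P.nil))))) (P.cons (P.cons (P.lf 29804397 0 0) (P.cons (P.lf 9463131 0 0) (P.cons (P.lf 0 240957 0) (P.cons (P.lf 0 36369 0) P.nil)))) (P.cons (P.cons (P.lf 2299842 0 0) (P.cons (P.lf 43983 0 0) (P.cons (P.lf 0 302862 0) P.nil))) (P.cons (P.cons (P.lf 0 1120650 0) (P.cons (P.lf 0 301593 0) P.nil)) (P.cons (P.cons (P.lf 18402 0 0) P.nil) P.nil)))))) 237063)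
 EL.nil)))
noncomputable def S285_314_290_364_23 : EL := (EL.cons 4 (TM.mk (P.cons (P.cons (P.lf 625564650 0 0) (P.cons (P.lf 0 69005886 0) (P.cons (P.lf 0 8885961 0) (P.lf 592395 0 0)))) (P.cons (P.cons (P.lf 0 80376864 0) (P.cons (P.lf 0 32823690 0) (P.cons (P.lf 0 4226742 0) (P.lf 281781 0 0)))) (P.cons (P.cons (P.lf 0 135779493 0) (P.cons (P.lf 2028942 0 0) (P.cons (P.lf 261267 0 0) (P.lf 0 17415 0)))) (P.cons (P.cons (P.lf 1457607 0 0) (P.cons (P.lf 1729779 0 0) (P.cons (P.lf 222744 0 0) P.nil))) (P.cons (P.cons (P.lf 5061561 0 0) (P.cons (P.lf 0 122811 0) P.nil)) (P.cons (P.cons (P.lf 0 202362 0) P.nil) P.nil)))))) 218253)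
 (EL.cons 8 (TM.mk (P.cons (P.cons (P.lf 147036297 0 0) (P.cons (P.lf 0 16219539 0) (P.cons (P.lf 0 2088609 0) (P.lf 139239 0 0)))) (P.cons (P.cons (P.lf 33790197 0 0) (P.cons (P.lf 0 13526454 0) (P.cons (P.lf 0 1741815 0) (P.lf 116118 0 0)))) (P.cons (P.cons (P.lf 0 36756603 0) (P.cons (P.lf 0 2499921 0) (P.cons (P.lf 0 321915 0) (P.lf 21459 0 0)))) (P.cons (P.cons (P.lf 0 11072463 0) (P.cons (P.lf 446859 0 0) (P.cons (P.lf 57540 0 0) P.nil))) (P.cons (P.cons (P.lf 874587 0 0) (P.cons (P.lf 107409 0 0) P.nil)) (P.cons (P.cons (P.lf 324765 0 0) P.nil) P.nil)))))) 95685)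
 (EL.cons 11 (TM.mk (P.cons (P.cons (P.lf 519990471 0 0) (P.cons (P.lf 148445529 0 0) (P.cons (P.lf 0 11103486 0) (P.cons (P.lf 0 748212 0) (P.lf 37410 0 0))))) (P.cons (P.cons (P.lf 111142737 0 0) (P.cons (P.lf 31728738 0 0) (P.cons (P.lf 0 2373258 0) (P.cons (P.lf 0 159921 0) (P.lf 7995 0 0))))) (P.cons (P.cons (P.lf 0 27278463 0) (P.cons (P.lf 0 7787382 0) (P.cons (P.lf 582480 0 0) (P.cons (P.lf 39249 0 0) P.nil)))) (P.cons (P.cons (P.lf 0 1083063 0) (P.cons (P.lf 0 309189 0) (P.cons (P.lf 23127 0 0) P.nil))) (P.cons (P.cons (P.lf 393375 0 0) (P.cons (P.lf 112299 0 0) P.nil)) (P.cons (P.cons (P.lf 0 1257 0) P.nil) P.nil)))))) 31578)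
 EL.nil)))
noncomputable def S285_314_290_364_24 : EL := (EL.cons 4 (TM.mk (P.cons (P.cons (P.lf 124866357 0 0) (P.cons (P.lf 0 46989711 0) (P.cons (P.lf 0 2386896 0) (P.cons (P.lf 1347033 0 0) (P.cons (P.lf 0 2151 0) (P.cons (P.lf 0 8100 0) P.nil)))))) (P.cons (P.cons (P.lf 0 59571276 0) (P.cons (P.lf 7319019 0 0) (P.cons (P.lf 2155668 0 0) (P.cons (P.lf 249615 0 0) (P.cons (P.lf 0 711 0) P.nil))))) (P.cons (P.cons (P.lf 0 12507384 0) (P.cons (P.lf 8745828 0 0) (P.cons (P.lf 716085 0 0) (P.cons (P.lf 0 180702 0) P.nil)))) (P.cons (P.cons (P.lf 9686568 0 0) (P.cons (P.lf 0 1665675 0) (P.cons (P.lf 0 304035 0) P.nil))) (P.cons (P.cons (P.lf 0 1366452 0) (P.cons (P.lf 0 499878 0) P.nil)) (P.cons (P.cons (P.lf 0 594351 0) P.nil) P.nil)))))) 536352)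
 (EL.cons 8 (TM.mk (P.cons (P.cons (P.lf 29349303 0 0) (P.cons (P.lf 0 11044731 0) (P.cons (P.lf 0 561030 0) (P.cons (P.lf 316614 0 0) (P.cons (P.lf 0 504 0) (P.cons (P.lf 0 1902 0) P.nil)))))) (P.cons (P.cons (P.lf 0 3486252 0) (P.cons (P.lf 0 2236971 0) (P.cons (P.lf 305664 0 0) (P.cons (P.lf 172110 0 0) (P.cons (P.lf 0 348 0) P.nil))))) (P.cons (P.cons (P.lf 0 7572051 0) (P.cons (P.lf 2527314 0 0) (P.cons (P.lf 342501 0 0) (P.cons (P.lf 0 17301 0) P.nil)))) (P.cons (P.cons (P.lf 1093332 0 0) (P.cons (P.lf 347490 0 0) (P.cons (P.lf 0 5535 0) P.nil))) (P.cons (P.cons (P.lf 433539 0 0) (P.cons (P.lf 0 228807 0) P.nil)) (P.cons (P.cons (P.lf 0 231387 0) P.nil) P.nil)))))) 160965)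
 (EL.cons 11 (TM.mk (P.cons (P.cons (P.lf 103793133 0 0) (P.cons (P.lf 2020551 0 0) (P.cons (P.lf 0 13653738 0) (P.cons (P.lf 0 337737 0) (P.cons (P.lf 190779 0 0) (P.cons (P.lf 0 1929 0) P.nil)))))) (P.cons (P.cons (P.lf 0 13996857 0) (P.cons (P.lf 0 5905971 0) (P.cons (P.lf 0 492411 0) (P.cons (P.lf 7104 0 0) (P.cons (P.lf 11673 0 0) P.nil))))) (P.cons (P.cons (P.lf 0 5695404 0) (P.cons (P.lf 1055769 0 0) (P.cons (P.lf 1232496 0 0) (P.cons (P.lf 26493 0 0) P.nil)))) (P.cons (P.cons (P.lf 4199466 0 0) (P.cons (P.lf 1047420 0 0) (P.cons (P.lf 0 152400 0) P.nil))) (P.cons (P.cons (P.lf 0 191607 0) (P.cons (P.lf 0 122526 0) P.nil)) (P.cons (P.cons (P.lf 0 128292 0) P.nil) P.nil)))))) 187404)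
 EL.nil)))
noncomputable def S285_314_290_364_25 : EL := (EL.cons 4 (TM.mk (P.cons (P.cons (P.lf 205188609 0 0) (P.cons (P.lf 0 22634304 0) (P.cons (P.lf 0 2914644 0) (P.lf 194307 0 0)))) (P.cons (P.cons (P.lf 37267050 0 0) (P.cons (P.lf 0 17785479 0) (P.cons (P.lf 0 2290254 0) (P.lf 152682 0 0)))) (P.cons (P.cons (P.lf 0 54984066 0) (P.cons (P.lf 0 2422638 0) (P.cons (P.lf 0 311964 0) (P.lf 20796 0 0)))) (P.cons (P.cons (P.lf 0 13234710 0) (P.cons (P.lf 914310 0 0) (P.cons (P.lf 117735 0 0) P.nil))) (P.cons (P.cons (P.lf 2339754 0 0) (P.cons (P.lf 136986 0 0) P.nil)) (P.cons (P.cons (P.lf 483918 0 0) P.nil) P.nil)))))) 215130)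
 (EL.cons 8 (TM.mk (P.cons (P.cons (P.lf 48228705 0 0) (P.cons (P.lf 0 5320095 0) (P.cons (P.lf 0 685074 0) (P.lf 45669 0 0)))) (P.cons (P.cons (P.lf 26039586 0 0) (P.cons (P.lf 0 6086565 0) (P.cons (P.lf 0 783771 0) (P.lf 52251 0 0)))) (P.cons (P.cons (P.lf 0 9153297 0) (P.cons (P.lf 0 2136963 0) (P.cons (P.lf 0 275178 0) (P.lf 18342 0 0)))) (P.cons (P.cons (P.lf 0 7538835 0) (P.cons (P.lf 0 53571 0) (P.cons (P.lf 0 6897 0) P.nil))) (P.cons (P.cons (P.lf 0 713235 0) (P.cons (P.lf 93603 0 0) P.nil)) (P.cons (P.cons (P.lf 247890 0 0) P.nil) P.nil)))))) 87336)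
 (EL.cons 11 (TM.mk (P.cons (P.cons (P.lf 170559702 0 0) (P.cons (P.lf 48690939 0 0) (P.cons (P.lf 0 3642003 0) (P.cons (P.lf 0 245415 0) (P.lf 12270 0 0))))) (P.cons (P.cons (P.lf 89347740 0 0) (P.cons (P.lf 25506759 0 0) (P.cons (P.lf 0 1907862 0) (P.cons (P.lf 0 128562 0) (P.lf 6426 0 0))))) (P.cons (P.cons (P.lf 469242 0 0) (P.cons (P.lf 133956 0 0) (P.cons (P.lf 0 10020 0) (P.cons (P.lf 0 675 0) P.nil)))) (P.cons (P.cons (P.lf 0 3694461 0) (P.cons (P.lf 0 1054683 0) (P.cons (P.lf 78888 0 0) P.nil))) (P.cons (P.cons (P.lf 94590 0 0) (P.cons (P.lf 27003 0 0) P.nil)) (P.cons (P.cons (P.lf 54696 0 0) P.nil) P.nil)))))) 46797)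
 EL.nil)))
noncomputable def S285_314_290_364_26 : EL := (EL.cons 4 (TM.mk (P.cons (P.cons (P.lf 40956843 0 0) (P.cons (P.lf 0 15412881 0) (P.cons (P.lf 0 782913 0) (P.cons (P.lf 441834 0 0) (P.cons (P.lf 0 705 0) (P.cons (P.lf 0 2655 0) P.nil)))))) (P.cons (P.cons (P.lf 0 6838563 0) (P.cons (P.lf 0 2379012 0) (P.cons (P.lf 464280 0 0) (P.cons (P.lf 218892 0 0) (P.cons (P.lf 0 450 0) P.nil))))) (P.cons (P.cons (P.lf 0 10615434 0) (P.cons (P.lf 3783807 0 0) (P.cons (P.lf 462816 0 0) (P.cons (P.lf 0 38772 0) P.nil)))) (P.cons (P.cons (P.lf 2082741 0 0) (P.cons (P.lf 331209 0 0) (P.cons (P.lf 0 33975 0) P.nil))) (P.cons (P.cons (P.lf 603597 0 0) (P.cons (P.lf 0 368415 0) P.nil)) (P.cons (P.cons (P.lf 0 366429 0) P.nil) P.nil)))))) 331119)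
 (EL.cons 8 (TM.mk (P.cons (P.cons (P.lf 9626730 0 0) (P.cons (P.lf 0 3622731 0) (P.cons (P.lf 0 184020 0) (P.cons (P.lf 103851 0 0) (P.cons (P.lf 0 165 0) (P.cons (P.lf 0 624 0) P.nil)))))) (P.cons (P.cons (P.lf 1841838 0 0) (P.cons (P.lf 0 1857183 0) (P.cons (P.lf 43191 0 0) (P.cons (P.lf 88659 0 0) (P.cons (P.lf 0 165 0) P.nil))))) (P.cons (P.cons (P.lf 0 2944875 0) (P.cons (P.lf 641544 0 0) (P.cons (P.lf 145470 0 0) (P.cons (P.lf 10680 0 0) P.nil)))) (P.cons (P.cons (P.lf 0 408012 0) (P.cons (P.lf 382593 0 0) (P.cons (P.lf 32085 0 0) P.nil))) (P.cons (P.cons (P.lf 282615 0 0) (P.cons (P.lf 0 48423 0) P.nil)) (P.cons (P.cons (P.lf 0 33477 0) P.nil) P.nil)))))) 124218)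
 (EL.cons 11 (TM.mk (P.cons (P.cons (P.lf 34044711 0 0) (P.cons (P.lf 662751 0 0) (P.cons (P.lf 0 4478499 0) (P.cons (P.lf 0 110778 0) (P.cons (P.lf 62574 0 0) (P.cons (P.lf 0 633 0) P.nil)))))) (P.cons (P.cons (P.lf 5966568 0 0) (P.cons (P.lf 0 1731663 0) (P.cons (P.lf 0 1550343 0) (P.cons (P.lf 0 32022 0) (P.cons (P.lf 23235 0 0) P.nil))))) (P.cons (P.cons (P.lf 0 3668802 0) (P.cons (P.lf 0 261780 0) (P.cons (P.lf 403764 0 0) (P.cons (P.lf 10638 0 0) P.nil)))) (P.cons (P.cons (P.lf 816846 0 0) (P.cons (P.lf 471774 0 0) (P.cons (P.lf 81390 0 0) P.nil))) (P.cons (P.cons (P.lf 391530 0 0) (P.cons (P.lf 64386 0 0) P.nil)) (P.cons (P.cons (P.lf 0 75282 0) P.nil) P.nil)))))) 143196)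
 EL.nil)))
noncomputable def S285_314_290_364_27 : EL := (EL.cons 13 (TM.mk (P.lf 0 4294967296 0) 0)
 EL.nil)
noncomputable def S285_314_290_364_28 : EL := (EL.cons 13 (TM.mk (P.cons (P.cons (P.lf 0 857300558 0) (P.cons (P.lf 228050764 0 0) (P.cons (P.lf 29366348 0 0) (P.lf 0 1957756 0)))) (P.cons (P.cons (P.lf 298849297 0 0) (P.cons (P.lf 0 32965992 0) (P.cons (P.lf 0 4245064 0) (P.lf 283004 0 0)))) (P.cons (P.cons (P.lf 0 61807279 0) (P.cons (P.lf 0 3140288 0) (P.cons (P.lf 0 404376 0) (P.lf 26956 0 0)))) (P.cons (P.cons (P.lf 0 7583816 0) (P.cons (P.lf 667604 0 0) (P.cons (P.lf 85964 0 0) P.nil))) (P.cons (P.cons (P.lf 1232211 0 0) (P.cons (P.lf 11612 0 0) P.nil)) (P.cons (P.cons (P.lf 41570 0 0) P.nil) P.nil)))))) 40305)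
 EL.nil)
noncomputable def S285_314_290_364_29 : EL := (EL.cons 13 (TM.mk (P.cons (P.cons (P.lf 0 171122198 0) (P.cons (P.lf 91040528 0 0) (P.cons (P.lf 0 385469 0) (P.cons (P.lf 0 3900101 0) (P.cons (P.lf 7113 0 0) (P.cons (P.lf 26771 0 0) P.nil)))))) (P.cons (P.cons (P.lf 119304130 0 0) (P.cons (P.lf 0 44896534 0) (P.cons (P.lf 0 2280570 0) (P.cons (P.lf 1287029 0 0) (P.cons (P.lf 0 2056 0) P.nil))))) (P.cons (P.cons (P.lf 0 45468502 0) (P.cons (P.lf 9897579 0 0) (P.cons (P.lf 1354973 0 0) (P.cons (P.lf 0 64249 0) P.nil)))) (P.cons (P.cons (P.lf 5573710 0 0) (P.cons (P.lf 560081 0 0) (P.cons (P.lf 0 46981 0) P.nil))) (P.cons (P.cons (P.lf 657850 0 0) (P.cons (P.lf 0 425924 0) P.nil)) (P.cons (P.cons (P.lf 0 373154 0) P.nil) P.nil)))))) 318793)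
 EL.nil)
noncomputable def S285_314_290_364_30 : EL := (EL.cons 13 (TM.mk (P.cons (P.lf 0 1408772644 0) (P.cons (P.lf 0 436874896 0) (P.cons (P.lf 15598228 0 0) (P.cons (P.lf 1328688 0 0) (P.cons (P.lf 0 91228 0) (P.cons (P.lf 0 3020 0) P.nil)))))) 560)
 EL.nil)
noncomputable def S285_314_290_364_31 : EL := (EL.cons 13 (TM.mk (P.cons (P.cons (P.lf 0 281199247 0) (P.cons (P.lf 74801891 0 0) (P.cons (P.lf 9632321 0 0) (P.lf 0 642154 0)))) (P.cons (P.cons (P.lf 10821414 0 0) (P.cons (P.lf 12383811 0 0) (P.cons (P.lf 1594678 0 0) (P.lf 0 106311 0)))) (P.cons (P.cons (P.lf 13238685 0 0) (P.cons (P.lf 0 5211484 0) (P.cons (P.lf 0 671087 0) (P.lf 44738 0 0)))) (P.cons (P.cons (P.lf 0 9594567 0) (P.cons (P.lf 0 51271 0) (P.cons (P.lf 0 6603 0) P.nil))) (P.cons (P.cons (P.lf 0 253430 0) (P.cons (P.lf 98163 0 0) P.nil)) (P.cons (P.cons (P.lf 191381 0 0) P.nil) P.nil)))))) 54207)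
 EL.nil)
noncomputable def S285_314_290_364_32 : EL := (EL.cons 13 (TM.mk (P.cons (P.cons (P.lf 0 56129012 0) (P.cons (P.lf 29861788 0 0) (P.cons (P.lf 0 126435 0) (P.cons (P.lf 0 1279254 0) (P.cons (P.lf 2333 0 0) (P.cons (P.lf 8781 0 0) P.nil)))))) (P.cons (P.cons (P.lf 21726219 0 0) (P.cons (P.lf 0 5465859 0) (P.cons (P.lf 0 787248 0) (P.cons (P.lf 25442 0 0) (P.cons (P.lf 49 0 0) P.nil))))) (P.cons (P.cons (P.lf 0 2157082 0) (P.cons (P.lf 0 1650955 0) (P.cons (P.lf 213863 0 0) (P.cons (P.lf 124003 0 0) P.nil)))) (P.cons (P.cons (P.lf 0 3177095 0) (P.cons (P.lf 1325358 0 0) (P.cons (P.lf 130816 0 0) P.nil))) (P.cons (P.cons (P.lf 907311 0 0) (P.cons (P.lf 0 102857 0) P.nil)) (P.cons (P.cons (P.lf 0 59243 0) P.nil) P.nil)))))) 262229)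
 EL.nil)
noncomputable def S285_314_290_364_33 : EL := (EL.cons 14 (TM.mk (P.lf 8589934592 0 0) 0)
 EL.nil)
noncomputable def S285_314_290_364_34 : EL := (EL.cons 14 (TM.mk (P.cons (P.cons (P.lf 1714601116 0 0) (P.cons (P.lf 0 456101528 0) (P.cons (P.lf 0 58732696 0) (P.lf 3915512 0 0)))) (P.cons (P.cons (P.lf 0 597698594 0) (P.cons (P.lf 65931984 0 0) (P.cons (P.lf 8490128 0 0) (P.lf 0 566008 0)))) (P.cons (P.cons (P.lf 123614558 0 0) (P.cons (P.lf 6280576 0 0) (P.cons (P.lf 808752 0 0) (P.lf 0 53912 0)))) (P.cons (P.cons (P.lf 15167632 0 0) (P.cons (P.lf 0 1335208 0) (P.cons (P.lf 0 171928 0) P.nil))) (P.cons (P.cons (P.lf 0 2464422 0) (P.cons (P.lf 0 23224 0) P.nil)) (P.cons (P.cons (P.lf 0 83140 0) P.nil) P.nil)))))) 80610)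
 EL.nil)
noncomputable def S285_314_290_364_35 : EL := (EL.cons 14 (TM.mk (P.cons (P.cons (P.lf 342244396 0 0) (P.cons (P.lf 0 182081056 0) (P.cons (P.lf 770938 0 0) (P.cons (P.lf 7800202 0 0) (P.cons (P.lf 0 14226 0) (P.cons (P.lf 0 53542 0) P.nil)))))) (P.cons (P.cons (P.lf 0 238608260 0) (P.cons (P.lf 89793068 0 0) (P.cons (P.lf 4561140 0 0) (P.cons (P.lf 0 2574058 0) (P.cons (P.lf 4112 0 0) P.nil))))) (P.cons (P.cons (P.lf 90937004 0 0) (P.cons (P.lf 0 19795158 0) (P.cons (P.lf 0 2709946 0) (P.cons (P.lf 128498 0 0) P.nil)))) (P.cons (P.cons (P.lf 0 11147420 0) (P.cons (P.lf 0 1120162 0) (P.cons (P.lf 93962 0 0) P.nil))) (P.cons (P.cons (P.lf 0 1315700 0) (P.cons (P.lf 851848 0 0) P.nil)) (P.cons (P.cons (P.lf 746308 0 0) P.nil) P.nil)))))) 637586)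
 EL.nil)
noncomputable def S285_314_290_364_36 : EL := (EL.cons 14 (TM.mk (P.cons (P.lf 2817545288 0 0) (P.cons (P.lf 873749792 0 0) (P.cons (P.lf 0 31196456 0) (P.cons (P.lf 0 2657376 0) (P.cons (P.lf 182456 0 0) (P.cons (P.lf 6040 0 0) P.nil)))))) 1120)
 EL.nil)
noncomputable def S285_314_290_364_37 : EL := (EL.cons 14 (TM.mk (P.cons (P.cons (P.lf 562398494 0 0) (P.cons (P.lf 0 149603782 0) (P.cons (P.lf 0 19264642 0) (P.lf 1284308 0 0)))) (P.cons (P.cons (P.lf 0 21642828 0) (P.cons (P.lf 0 24767622 0) (P.cons (P.lf 0 3189356 0) (P.lf 212622 0 0)))) (P.cons (P.cons (P.lf 0 26477370 0) (P.cons (P.lf 10422968 0 0) (P.cons (P.lf 1342174 0 0) (P.lf 0 89476 0)))) (P.cons (P.cons (P.lf 19189134 0 0) (P.cons (P.lf 102542 0 0) (P.cons (P.lf 13206 0 0) P.nil))) (P.cons (P.cons (P.lf 506860 0 0) (P.cons (P.lf 0 196326 0) P.nil)) (P.cons (P.cons (P.lf 0 382762 0) P.nil) P.nil))))))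 108414)
 EL.nil)
noncomputable def S285_314_290_364_38 : EL := (EL.cons 14 (TM.mk (P.cons (P.cons (P.lf 112258024 0 0) (P.cons (P.lf 0 59723576 0) (P.cons (P.lf 252870 0 0) (P.cons (P.lf 2558508 0 0) (P.cons (P.lf 0 4666 0) (P.cons (P.lf 0 17562 0) P.nil)))))) (P.cons (P.cons (P.lf 0 43452438 0) (P.cons (P.lf 10931718 0 0) (P.cons (P.lf 1574496 0 0) (P.cons (P.lf 0 50884 0) (P.cons (P.lf 0 98 0) P.nil))))) (P.cons (P.cons (P.lf 4314164 0 0) (P.cons (P.lf 3301910 0 0) (P.cons (P.lf 0 427726 0) (P.cons (P.lf 0 248006 0) P.nil)))) (P.cons (P.cons (P.lf 6354190 0 0) (P.cons (P.lf 0 2650716 0) (P.cons (P.lf 0 261632 0) P.nil))) (P.cons (P.cons (P.lf 0 1814622 0) (P.cons (P.lf 205714 0 0) P.nil)) (P.cons (P.cons (P.lf 118486 0 0) P.nil) P.nil)))))) 524458)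
 EL.nil)
noncomputable def S285_314_290_364_39 : EL := (EL.cons 14 (TM.mk (P.cons (P.lf 924170186 0 0) (P.cons (P.lf 573189372 0 0) (P.cons (P.lf 68410746 0 0) (P.cons (P.lf 0 8089740 0) (P.cons (P.lf 0 307614 0) (P.cons (P.lf 60382 0 0) P.nil)))))) 4526)
 EL.nil)
noncomputable def S285_314_290_364_40 : EL := (EL.cons 14 (TM.mk (P.cons (P.cons (P.lf 184469766 0 0) (P.cons (P.lf 0 49070854 0) (P.cons (P.lf 0 6318908 0) (P.lf 421260 0 0)))) (P.cons (P.cons (P.lf 50107006 0 0) (P.cons (P.lf 0 23341292 0) (P.cons (P.lf 0 3005684 0) (P.lf 200378 0 0)))) (P.cons (P.cons (P.lf 0 12928672 0) (P.cons (P.lf 1442802 0 0) (P.cons (P.lf 185790 0 0) (P.lf 0 12384 0)))) (P.cons (P.cons (P.lf 3505536 0 0) (P.cons (P.lf 1230066 0 0) (P.cons (P.lf 158396 0 0) P.nil))) (P.cons (P.cons (P.lf 2232930 0 0) (P.cons (P.lf 0 87334 0) P.nil)) (P.cons (P.cons (P.lf 0 135554 0) P.nil) P.nil))))))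 139240)
 EL.nil)
noncomputable def S285_314_290_364_41 : EL := (EL.cons 14 (TM.mk (P.cons (P.cons (P.lf 36821242 0 0) (P.cons (P.lf 0 19589658 0) (P.cons (P.lf 82942 0 0) (P.cons (P.lf 839204 0 0) (P.cons (P.lf 0 1530 0) (P.cons (P.lf 0 5760 0) P.nil)))))) (P.cons (P.cons (P.lf 0 2833990 0) (P.cons (P.lf 0 2489290 0) (P.cons (P.lf 542164 0 0) (P.cons (P.lf 243554 0 0) (P.cons (P.lf 0 506 0) P.nil))))) (P.cons (P.cons (P.lf 0 3412512 0) (P.cons (P.lf 2411896 0 0) (P.cons (P.lf 18938 0 0) (P.cons (P.lf 0 95814 0) P.nil)))) (P.cons (P.cons (P.lf 2646116 0 0) (P.cons (P.lf 0 554810 0) (P.cons (P.lf 0 135120 0) P.nil))) (P.cons (P.cons (P.lf 51286 0 0) (P.cons (P.lf 0 218790 0) P.nil)) (P.cons (P.cons (P.lf 0 170970 0) P.nil) P.nil)))))) 382136)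
 EL.nil)
noncomputable def S285_314_290_364_42 : EL := (EL.cons 14 (TM.mk (P.cons (P.lf 303132848 0 0) (P.cons (P.lf 282013848 0 0) (P.cons (P.lf 77386344 0 0) (P.cons (P.lf 1937536 0 0) (P.cons (P.lf 0 1329912 0) (P.cons (P.lf 9556 0 0) P.nil)))))) 14366)
 EL.nil)
noncomputable def S285_314_290_364_43 : EL := (EL.cons 14 (TM.mk (P.cons (P.cons (P.lf 60507086 0 0) (P.cons (P.lf 0 16095506 0) (P.cons (P.lf 0 2072636 0) (P.lf 138174 0 0)))) (P.cons (P.cons (P.lf 35199240 0 0) (P.cons (P.lf 0 12647452 0) (P.cons (P.lf 0 1628626 0) (P.lf 108574 0 0)))) (P.cons (P.cons (P.lf 186154 0 0) (P.cons (P.lf 0 1722766 0) (P.cons (P.lf 0 221842 0) (P.lf 14788 0 0)))) (P.cons (P.cons (P.lf 0 404284 0) (P.cons (P.lf 650176 0 0) (P.cons (P.lf 83724 0 0) P.nil))) (P.cons (P.cons (P.lf 1124360 0 0) (P.cons (P.lf 97412 0 0) P.nil)) (P.cons (P.cons (P.lf 175128 0 0) P.nil) P.nil)))))) 126814)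
 EL.nil)
noncomputable def S285_314_290_364_44 : EL := (EL.cons 14 (TM.mk (P.cons (P.cons (P.lf 12077566 0 0) (P.cons (P.lf 0 6425514 0) (P.cons (P.lf 27204 0 0) (P.cons (P.lf 275262 0 0) (P.cons (P.lf 0 502 0) (P.cons (P.lf 0 1888 0) P.nil)))))) (P.cons (P.cons (P.lf 2815812 0 0) (P.cons (P.lf 0 2809118 0) (P.cons (P.lf 186268 0 0) (P.cons (P.lf 165248 0 0) (P.cons (P.lf 0 320 0) P.nil))))) (P.cons (P.cons (P.lf 0 1541314 0) (P.cons (P.lf 609054 0 0) (P.cons (P.lf 61058 0 0) (P.cons (P.lf 0 9700 0) P.nil)))) (P.cons (P.cons (P.lf 519728 0 0) (P.cons (P.lf 78452 0 0) (P.cons (P.lf 0 44388 0) P.nil))) (P.cons (P.cons (P.lf 300032 0 0) (P.cons (P.lf 0 136604 0) P.nil)) (P.cons (P.cons (P.lf 0 59450 0) P.nil) P.nil)))))) 248352)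
 EL.nil)
noncomputable def S285_314_290_364_45 : EL := (EL.cons 14 (TM.mk (P.cons (P.cons (P.lf 68313980 0 0) (P.cons (P.lf 0 54516662 0) (P.cons (P.lf 7481822 0 0) (P.cons (P.lf 2916992 0 0) (P.cons (P.lf 0 505276 0) (P.cons (P.lf 0 62912 0) P.nil)))))) (P.cons (P.cons (P.lf 0 71441402 0) (P.cons (P.lf 45888978 0 0) (P.cons (P.lf 0 3338810 0) (P.cons (P.lf 0 2218040 0) (P.cons (P.lf 220858 0 0) P.nil))))) (P.cons (P.cons (P.lf 39679334 0 0) (P.cons (P.lf 0 19229108 0) (P.cons (P.lf 0 65436 0) (P.cons (P.lf 758446 0 0) P.nil)))) (P.cons (P.cons (P.lf 0 11382008 0) (P.cons (P.lf 3186676 0 0) (P.cons (P.lf 412594 0 0) P.nil))) (P.cons (P.cons (P.lf 1302160 0 0) (P.cons (P.lf 260852 0 0) P.nil)) (P.cons (P.cons (P.lf 305812 0 0) P.nil) P.nil)))))) 1119588)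
 EL.nil)
noncomputable def S285_314_290_364_46 : EL := (EL.cons 15 (TM.mk (P.lf 4294967296 0 0) 0)
 EL.nil)
noncomputable def S285_314_290_364_47 : EL := (EL.cons 15 (TM.mk (P.cons (P.cons (P.lf 857300558 0 0) (P.cons (P.lf 0 228050764 0) (P.cons (P.lf 0 29366348 0) (P.lf 1957756 0 0)))) (P.cons (P.cons (P.lf 0 298849297 0) (P.cons (P.lf 32965992 0 0) (P.cons (P.lf 4245064 0 0) (P.lf 0 283004 0)))) (P.cons (P.cons (P.lf 61807279 0 0) (P.cons (P.lf 3140288 0 0) (P.cons (P.lf 404376 0 0) (P.lf 0 26956 0)))) (P.cons (P.cons (P.lf 7583816 0 0) (P.cons (P.lf 0 667604 0) (P.cons (P.lf 0 85964 0) P.nil))) (P.cons (P.cons (P.lf 0 1232211 0) (P.cons (P.lf 0 11612 0) P.nil)) (P.cons (P.cons (P.lf 0 41570 0) P.nil) P.nil)))))) 40305)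
 EL.nil)
noncomputable def S285_314_290_364_48 : EL := (EL.cons 15 (TM.mk (P.cons (P.cons (P.lf 171122198 0 0) (P.cons (P.lf 0 91040528 0) (P.cons (P.lf 385469 0 0) (P.cons (P.lf 3900101 0 0) (P.cons (P.lf 0 7113 0) (P.cons (P.lf 0 26771 0) P.nil)))))) (P.cons (P.cons (P.lf 0 119304130 0) (P.cons (P.lf 44896534 0 0) (P.cons (P.lf 2280570 0 0) (P.cons (P.lf 0 1287029 0) (P.cons (P.lf 2056 0 0) P.nil))))) (P.cons (P.cons (P.lf 45468502 0 0) (P.cons (P.lf 0 9897579 0) (P.cons (P.lf 0 1354973 0) (P.cons (P.lf 64249 0 0) P.nil)))) (P.cons (P.cons (P.lf 0 5573710 0) (P.cons (P.lf 0 560081 0) (P.cons (P.lf 46981 0 0) P.nil))) (P.cons (P.cons (P.lf 0 657850 0) (P.cons (P.lf 425924 0 0) P.nil)) (P.cons (P.cons (P.lf 373154 0 0) P.nil) P.nil)))))) 318793)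
 EL.nil)
noncomputable def S285_314_290_364 : SL := (SL.cons S285_314_290_364_0 (SL.cons S285_314_290_364_1 (SL.cons S285_314_290_364_2 (SL.cons S285_314_290_364_3 (SL.cons S285_314_290_364_4 (SL.cons S285_314_290_364_5 (SL.cons S285_314_290_364_6 (SL.cons S285_314_290_364_7 (SL.cons S285_314_290_364_8 (SL.cons S285_314_290_364_9 (SL.cons S285_314_290_364_10 (SL.cons S285_314_290_364_11 (SL.cons S285_314_290_364_12 (SL.cons S285_314_290_364_13 (SL.cons S285_314_290_364_14 (SL.cons S285_314_290_364_15 (SL.cons S285_314_290_364_16 (SL.cons S285_314_290_364_17 (SL.cons S285_314_290_364_18 (SL.cons S285_314_290_364_19 (SL.cons S285_314_290_364_20 (SL.cons S285_314_290_364_21 (SL.cons S285_314_290_364_22 (SL.cons S285_314_290_364_23 (SL.cons S285_314_290_364_24 (SL.cons S285_314_290_364_25 (SL.cons S285_314_290_364_26 (SL.cons S285_314_290_364_27 (SL.cons S285_314_290_364_28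 (SL.cons S285_314_290_364_29 (SL.cons S285_314_290_364_30 (SL.cons S285_314_290_364_31 (SL.cons S285_314_290_364_32 (SL.cons S285_314_290_364_33 (SL.cons S285_314_290_364_34 (SL.cons S285_314_290_364_35 (SL.cons S285_314_290_364_36 (SL.cons S285_314_290_364_37 (SL.cons S285_314_290_364_38 (SL.cons S285_314_290_364_39 (SL.cons S285_314_290_364_40 (SL.cons S285_314_290_364_41 (SL.cons S285_314_290_364_42 (SL.cons S285_314_290_364_43 (SL.cons S285_314_290_364_44 (SL.cons S285_314_290_364_45 (SL.cons S285_314_290_364_46 (SL.cons S285_314_290_364_47 (SL.cons S285_314_290_364_48 SL.nil)))))))))))))))))))))))))))))))))))))))))))))))))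
noncomputable def S285_314_364_438_0 : EL := (EL.cons 0 (TM.mk (P.cons (P.lf 7643457911 0 0) (P.cons (P.lf 0 503779721 0) (P.cons (P.lf 0 60126632 0) (P.cons (P.lf 7110123 0 0) (P.cons (P.lf 270363 0 0) (P.cons (P.lf 0 53070 0) P.nil)))))) 3984)
 (EL.cons 1 (TM.mk (P.cons (P.lf 1228710643 0 0) (P.cons (P.lf 321830180 0 0) (P.cons (P.lf 0 40457490 0) (P.cons (P.lf 0 2710608 0) (P.cons (P.lf 384633 0 0) (P.cons (P.lf 7027 0 0) P.nil)))))) 2881)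
 (EL.cons 5 (TM.mk (P.cons (P.lf 4583770480 0 0) (P.cons (P.lf 179121676 0 0) (P.cons (P.lf 21378358 0 0) (P.cons (P.lf 0 2528040 0) (P.cons (P.lf 0 96128 0) (P.cons (P.lf 18870 0 0) P.nil)))))) 1697)
 (EL.cons 9 (TM.mk (P.lf 6442450944 0 0) 2)
 EL.nil))))
noncomputable def S285_314_364_438_1 : EL := (EL.cons 0 (TM.mk (P.cons (P.cons (P.lf 0 323588952 0) (P.cons (P.lf 0 390380509 0) (P.cons (P.lf 0 21360056 0) (P.lf 2373343 0 0)))) (P.cons (P.cons (P.lf 0 122165862 0) (P.cons (P.lf 207518900 0 0) (P.cons (P.lf 11354595 0 0) (P.lf 0 1261616 0)))) (P.cons (P.cons (P.lf 390348436 0 0) (P.cons (P.lf 1567512 0 0) (P.cons (P.lf 85767 0 0) (P.lf 0 9532 0)))) (P.cons (P.cons (P.lf 0 4678234 0) (P.cons (P.lf 0 7962365 0) (P.cons (P.lf 0 435657 0) P.nil))) (P.cons (P.cons (P.lf 0 13183674 0) (P.cons (P.lf 401273 0 0) P.nil)) (P.cons (P.cons (P.lf 640298 0 0) P.nil) P.nil))))))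 595033)
 (EL.cons 1 (TM.mk (P.cons (P.cons (P.lf 632748389 0 0) (P.cons (P.lf 0 208840461 0) (P.cons (P.lf 0 11426906 0) (P.lf 1269653 0 0)))) (P.cons (P.cons (P.lf 0 500594171 0) (P.cons (P.lf 0 9125139 0) (P.cons (P.lf 0 499289 0) (P.lf 55474 0 0)))) (P.cons (P.cons (P.lf 11693644 0 0) (P.cons (P.lf 22784528 0 0) (P.cons (P.lf 1246672 0 0) (P.lf 0 138513 0)))) (P.cons (P.cons (P.lf 41514891 0 0) (P.cons (P.lf 0 1023256 0) (P.cons (P.lf 0 55978 0) P.nil))) (P.cons (P.cons (P.lf 0 1943158 0) (P.cons (P.lf 0 580476 0) P.nil)) (P.cons (P.cons (P.lf 0 936664 0) P.nil) P.nil)))))) 280579)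
 (EL.cons 5 (TM.mk (P.cons (P.cons (P.lf 624026511 0 0) (P.cons (P.lf 0 408637286 0) (P.cons (P.lf 0 22358992 0) (P.lf 2484334 0 0)))) (P.cons (P.cons (P.lf 0 327505073 0) (P.cons (P.lf 5350868 0 0) (P.cons (P.lf 292784 0 0) (P.lf 0 32540 0)))) (P.cons (P.cons (P.lf 0 20658053 0) (P.cons (P.lf 6980976 0 0) (P.cons (P.lf 381968 0 0) (P.lf 0 42438 0)))) (P.cons (P.cons (P.lf 11779354 0 0) (P.cons (P.lf 1228450 0 0) (P.cons (P.lf 67210 0 0) P.nil))) (P.cons (P.cons (P.lf 2544459 0 0) (P.cons (P.lf 0 170546 0) P.nil)) (P.cons (P.cons (P.lf 0 270237 0) P.nil) P.nil)))))) 277096)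
 (EL.cons 9 (TM.mk (P.cons (P.cons (P.lf 449093523 0 0) (P.cons (P.lf 0 483034626 0) (P.cons (P.lf 0 26429712 0) (P.lf 2936634 0 0)))) (P.cons (P.cons (P.lf 0 327301597 0) (P.cons (P.lf 69825318 0 0) (P.cons (P.lf 3820560 0 0) (P.lf 0 424506 0)))) (P.cons (P.cons (P.lf 104234554 0 0) (P.cons (P.lf 6651444 0 0) (P.cons (P.lf 363936 0 0) (P.lf 0 40434 0)))) (P.cons (P.cons (P.lf 8925858 0 0) (P.cons (P.lf 0 1414056 0) (P.cons (P.lf 0 77364 0) P.nil))) (P.cons (P.cons (P.lf 0 1890940 0) (P.cons (P.lf 0 24594 0) P.nil)) (P.cons (P.cons (P.lf 0 37569 0) P.nil) P.nil)))))) 57626)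
 (EL.cons 2 (TM.mk (P.cons (P.cons (P.lf 0 719137918 0) (P.cons (P.lf 0 90234525 0) (P.cons (P.lf 13776477 0 0) (P.cons (P.lf 420868 0 0) (P.lf 0 35071 0))))) (P.cons (P.cons (P.lf 0 153708499 0) (P.cons (P.lf 0 19286721 0) (P.cons (P.lf 2944583 0 0) (P.cons (P.lf 89955 0 0) (P.lf 0 7495 0))))) (P.cons (P.cons (P.lf 37725645 0 0) (P.cons (P.lf 4733659 0 0) (P.cons (P.lf 0 722705 0) (P.cons (P.lf 0 22078 0) P.nil)))) (P.cons (P.cons (P.lf 1497855 0 0) (P.cons (P.lf 187945 0 0) (P.cons (P.lf 0 28693 0) P.nil))) (P.cons (P.cons (P.lf 0 544030 0) (P.cons (P.lf 0 68262 0) P.nil)) (P.cons (P.cons (P.lf 1740 0 0) P.nil) P.nil)))))) 28708)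
 (EL.cons 6 (TM.mk (P.cons (P.cons (P.lf 1087845708 0 0) (P.cons (P.lf 136498494 0 0) (P.cons (P.lf 0 20839788 0) (P.cons (P.lf 0 636651 0) (P.lf 53052 0 0))))) (P.cons (P.cons (P.lf 0 157254096 0) (P.cons (P.lf 0 19731609 0) (P.cons (P.lf 3012504 0 0) (P.cons (P.lf 92031 0 0) (P.lf 0 7668 0))))) (P.cons (P.cons (P.lf 0 14979780 0) (P.cons (P.lf 0 1879602 0) (P.cons (P.lf 286965 0 0) (P.cons (P.lf 8766 0 0) P.nil)))) (P.cons (P.cons (P.lf 3184623 0 0) (P.cons (P.lf 399591 0 0) (P.cons (P.lf 0 61005 0) P.nil))) (P.cons (P.cons (P.lf 55404 0 0) (P.cons (P.lf 6951 0 0) P.nil)) (P.cons (P.cons (P.lf 0 32214 0) P.nil) P.nil)))))) 17097)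
 EL.nil))))))
noncomputable def S285_314_364_438_2 : EL := (EL.cons 0 (TM.mk (P.cons (P.cons (P.lf 0 82255441 0) (P.cons (P.lf 73995089 0 0) (P.cons (P.lf 19619806 0 0) (P.cons (P.lf 1254126 0 0) (P.cons (P.lf 0 142723 0) (P.cons (P.lf 0 10361 0) P.nil)))))) (P.cons (P.cons (P.lf 72433206 0 0) (P.cons (P.lf 4856994 0 0) (P.cons (P.lf 0 24060089 0) (P.cons (P.lf 0 2691545 0) (P.cons (P.lf 222947 0 0) P.nil))))) (P.cons (P.cons (P.lf 16118058 0 0) (P.cons (P.lf 0 65517649 0) (P.cons (P.lf 0 322982 0) (P.cons (P.lf 755266 0 0) P.nil)))) (P.cons (P.cons (P.lf 0 32099186 0) (P.cons (P.lf 12278442 0 0) (P.cons (P.lf 1920519 0 0) P.nil))) (P.cons (P.cons (P.lf 10116834 0 0) (P.cons (P.lf 3208050 0 0) P.nil)) (P.cons (P.cons (P.lf 1791051 0 0) P.nil) P.nil)))))) 3001269)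
 (EL.cons 1 (TM.mk (P.cons (P.cons (P.lf 82245218 0 0) (P.cons (P.lf 0 111155088 0) (P.cons (P.lf 18327208 0 0) (P.cons (P.lf 3346914 0 0) (P.cons (P.lf 0 223714 0) (P.cons (P.lf 0 16238 0) P.nil)))))) (P.cons (P.cons (P.lf 0 126944482 0) (P.cons (P.lf 100876276 0 0) (P.cons (P.lf 2548712 0 0) (P.cons (P.lf 0 938378 0) (P.cons (P.lf 27219 0 0) P.nil))))) (P.cons (P.cons (P.lf 69502624 0 0) (P.cons (P.lf 0 13155884 0) (P.cons (P.lf 0 3969109 0) (P.cons (P.lf 0 275587 0) P.nil)))) (P.cons (P.cons (P.lf 0 9892905 0) (P.cons (P.lf 0 9194209 0) (P.cons (P.lf 110671 0 0) P.nil))) (P.cons (P.cons (P.lf 0 5326183 0) (P.cons (P.lf 2018676 0 0) P.nil)) (P.cons (P.cons (P.lf 1569695 0 0) P.nil) P.nil)))))) 1477802)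
 (EL.cons 5 (TM.mk (P.cons (P.cons (P.lf 64726086 0 0) (P.cons (P.lf 0 102631683 0) (P.cons (P.lf 29893277 0 0) (P.cons (P.lf 4509754 0 0) (P.cons (P.lf 0 325438 0) (P.cons (P.lf 0 23624 0) P.nil)))))) (P.cons (P.cons (P.lf 0 77469609 0) (P.cons (P.lf 64929976 0 0) (P.cons (P.lf 335248 0 0) (P.cons (P.lf 0 746847 0) (P.cons (P.lf 29494 0 0) P.nil))))) (P.cons (P.cons (P.lf 29584092 0 0) (P.cons (P.lf 0 1409048 0) (P.cons (P.lf 0 1509566 0) (P.cons (P.lf 0 148186 0) P.nil)))) (P.cons (P.cons (P.lf 820192 0 0) (P.cons (P.lf 0 4311260 0) (P.cons (P.lf 0 276149 0) P.nil))) (P.cons (P.cons (P.lf 0 3012425 0) (P.cons (P.lf 0 197112 0) P.nil)) (P.cons (P.cons (P.lf 0 97661 0) P.nil) P.nil)))))) 1501439)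
 (EL.cons 9 (TM.mk (P.cons (P.cons (P.lf 31305630 0 0) (P.cons (P.lf 0 67343227 0) (P.cons (P.lf 32531659 0 0) (P.cons (P.lf 4372648 0 0) (P.cons (P.lf 0 331932 0) (P.cons (P.lf 0 24094 0) P.nil)))))) (P.cons (P.cons (P.lf 0 45631399 0) (P.cons (P.lf 58814914 0 0) (P.cons (P.lf 0 7252447 0) (P.cons (P.lf 0 1503381 0) (P.cons (P.lf 95964 0 0) P.nil))))) (P.cons (P.cons (P.lf 31160262 0 0) (P.cons (P.lf 0 21797826 0) (P.cons (P.lf 0 1433308 0) (P.cons (P.lf 106189 0 0) P.nil)))) (P.cons (P.cons (P.lf 0 9346626 0) (P.cons (P.lf 48006 0 0) (P.cons (P.lf 358851 0 0) P.nil))) (P.cons (P.cons (P.lf 515878 0 0) (P.cons (P.lf 832518 0 0) P.nil)) (P.cons (P.cons (P.lf 475725 0 0) P.nil) P.nil)))))) 447781)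
 (EL.cons 2 (TM.mk (P.cons (P.cons (P.lf 0 100260033 0) (P.cons (P.lf 95257153 0 0) (P.cons (P.lf 21352100 0 0) (P.cons (P.lf 0 1922394 0) (P.cons (P.lf 0 263295 0) (P.cons (P.lf 14360 0 0) P.nil)))))) (P.cons (P.cons (P.lf 51640436 0 0) (P.cons (P.lf 13940296 0 0) (P.cons (P.lf 355078 0 0) (P.cons (P.lf 0 167276 0) (P.cons (P.lf 0 15356 0) P.nil))))) (P.cons (P.cons (P.lf 0 2392762 0) (P.cons (P.lf 0 10774147 0) (P.cons (P.lf 0 1841473 0) (P.cons (P.lf 193809 0 0) P.nil)))) (P.cons (P.cons (P.lf 0 10590885 0) (P.cons (P.lf 0 737443 0) (P.cons (P.lf 309459 0 0) P.nil))) (P.cons (P.cons (P.lf 988942 0 0) (P.cons (P.lf 388996 0 0) P.nil)) (P.cons (P.cons (P.lf 307141 0 0) P.nil) P.nil)))))) 330597)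
 (EL.cons 6 (TM.mk (P.cons (P.cons (P.lf 151664160 0 0) (P.cons (P.lf 0 144096258 0) (P.cons (P.lf 0 32299494 0) (P.cons (P.lf 2908026 0 0) (P.cons (P.lf 398286 0 0) (P.cons (P.lf 0 21726 0) P.nil)))))) (P.cons (P.cons (P.lf 0 132457488 0) (P.cons (P.lf 30541422 0 0) (P.cons (P.lf 11035626 0 0) (P.cons (P.lf 0 788880 0) (P.cons (P.lf 0 119466 0) P.nil))))) (P.cons (P.cons (P.lf 49091034 0 0) (P.cons (P.lf 7243548 0 0) (P.cons (P.lf 0 745140 0) (P.cons (P.lf 0 48636 0) P.nil)))) (P.cons (P.cons (P.lf 0 108108 0) (P.cons (P.lf 0 1618074 0) (P.cons (P.lf 0 287040 0) P.nil))) (P.cons (P.cons (P.lf 0 1874916 0) (P.cons (P.lf 0 144738 0) P.nil)) (P.cons (P.cons (P.lf 131040 0 0) P.nil) P.nil)))))) 296766)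
 EL.nil))))))
noncomputable def S285_314_364_438_3 : EL := (EL.cons 0 (TM.mk (P.cons (P.lf 812258952 0 0) (P.cons (P.lf 503779721 0 0) (P.cons (P.lf 60126632 0 0) (P.cons (P.lf 0 7110123 0) (P.cons (P.lf 0 270363 0) (P.cons (P.lf 53070 0 0) P.nil)))))) 3984)
 (EL.cons 1 (TM.mk (P.cons (P.lf 0 1228710643 0) (P.cons (P.lf 0 321830180 0) (P.cons (P.lf 40457490 0 0) (P.cons (P.lf 2710608 0 0) (P.cons (P.lf 0 384633 0) (P.cons (P.lf 0 7027 0) P.nil)))))) 2881)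
 (EL.cons 5 (TM.mk (P.cons (P.lf 1858680464 0 0) (P.cons (P.lf 0 179121676 0) (P.cons (P.lf 0 21378358 0) (P.cons (P.lf 2528040 0 0) (P.cons (P.lf 96128 0 0) (P.cons (P.lf 0 18870 0) P.nil)))))) 1690)
 EL.nil)))
noncomputable def S285_314_364_438_4 : EL := (EL.cons 0 (TM.mk (P.cons (P.cons (P.lf 56621343 0 0) (P.cons (P.lf 0 60900609 0) (P.cons (P.lf 0 3332235 0) (P.lf 370248 0 0)))) (P.cons (P.cons (P.lf 0 6148193 0) (P.cons (P.lf 0 28968292 0) (P.cons (P.lf 0 1585028 0) (P.lf 176113 0 0)))) (P.cons (P.cons (P.lf 0 8260827 0) (P.cons (P.lf 1790627 0 0) (P.cons (P.lf 97975 0 0) (P.lf 0 10884 0)))) (P.cons (P.cons (P.lf 5725880 0 0) (P.cons (P.lf 1526603 0 0) (P.cons (P.lf 83529 0 0) P.nil))) (P.cons (P.cons (P.lf 1774749 0 0) (P.cons (P.lf 0 108388 0) P.nil)) (P.cons (P.cons (P.lf 0 166899 0) P.nil) P.nil)))))) 114739)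
 (EL.cons 1 (TM.mk (P.cons (P.cons (P.lf 0 85651561 0) (P.cons (P.lf 92124841 0 0) (P.cons (P.lf 5040699 0 0) (P.lf 0 560075 0)))) (P.cons (P.cons (P.lf 39988989 0 0) (P.cons (P.lf 10812656 0 0) (P.cons (P.lf 591624 0 0) (P.lf 0 65733 0)))) (P.cons (P.cons (P.lf 0 709260 0) (P.cons (P.lf 0 7790041 0) (P.cons (P.lf 0 426238 0) (P.lf 47358 0 0)))) (P.cons (P.cons (P.lf 0 8775789 0) (P.cons (P.lf 172678 0 0) (P.cons (P.lf 9446 0 0) P.nil))) (P.cons (P.cons (P.lf 404806 0 0) (P.cons (P.lf 175314 0 0) P.nil)) (P.cons (P.cons (P.lf 220584 0 0) P.nil) P.nil)))))) 73151)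
 (EL.cons 5 (TM.mk (P.cons (P.cons (P.lf 129565806 0 0) (P.cons (P.lf 0 139357990 0) (P.cons (P.lf 0 7625108 0) (P.lf 847232 0 0)))) (P.cons (P.cons (P.lf 0 106914506 0) (P.cons (P.lf 33574942 0 0) (P.cons (P.lf 1837084 0 0) (P.lf 0 204118 0)))) (P.cons (P.cons (P.lf 37682032 0 0) (P.cons (P.lf 1580478 0 0) (P.cons (P.lf 86476 0 0) (P.lf 0 9606 0)))) (P.cons (P.cons (P.lf 939416 0 0) (P.cons (P.lf 0 1014142 0) (P.cons (P.lf 0 55486 0) P.nil))) (P.cons (P.cons (P.lf 0 1261334 0) (P.cons (P.lf 30338 0 0) P.nil)) (P.cons (P.cons (P.lf 46818 0 0) P.nil) P.nil)))))) 55892)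
 EL.nil)))
noncomputable def S285_314_364_438_5 : EL := (EL.cons 0 (TM.mk (P.cons (P.cons (P.lf 3946986 0 0) (P.cons (P.lf 0 8490578 0) (P.cons (P.lf 4101563 0 0) (P.cons (P.lf 551299 0 0) (P.cons (P.lf 0 41848 0) (P.cons (P.lf 0 3037 0) P.nil)))))) (P.cons (P.cons (P.lf 0 3305165 0) (P.cons (P.lf 2149303 0 0) (P.cons (P.lf 1629492 0 0) (P.cons (P.lf 152381 0 0) (P.cons (P.lf 0 13856 0) P.nil))))) (P.cons (P.cons (P.lf 652596 0 0) (P.cons (P.lf 1222384 0 0) (P.cons (P.lf 0 444215 0) (P.cons (P.lf 0 63360 0) P.nil)))) (P.cons (P.cons (P.lf 797797 0 0) (P.cons (P.lf 0 1075234 0) (P.cons (P.lf 0 170425 0) P.nil))) (P.cons (P.cons (P.lf 0 325972 0) (P.cons (P.lf 0 156802 0) P.nil)) (P.cons (P.cons (P.lf 0 19128 0) P.nil) P.nil)))))) 360944)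
 (EL.cons 1 (TM.mk (P.cons (P.cons (P.lf 0 5970639 0) (P.cons (P.lf 12843766 0 0) (P.cons (P.lf 0 6204468 0) (P.cons (P.lf 0 833955 0) (P.cons (P.lf 63305 0 0) (P.cons (P.lf 4593 0 0) P.nil)))))) (P.cons (P.cons (P.lf 7139004 0 0) (P.cons (P.lf 0 7853131 0) (P.cons (P.lf 0 241912 0) (P.cons (P.lf 68291 0 0) (P.cons (P.lf 0 1719 0) P.nil))))) (P.cons (P.cons (P.lf 0 3466822 0) (P.cons (P.lf 796321 0 0) (P.cons (P.lf 839947 0 0) (P.cons (P.lf 82306 0 0) P.nil)))) (P.cons (P.cons (P.lf 0 47386 0) (P.cons (P.lf 1420758 0 0) (P.cons (P.lf 0 28696 0) P.nil))) (P.cons (P.cons (P.lf 543131 0 0) (P.cons (P.lf 0 269295 0) P.nil)) (P.cons (P.cons (P.lf 0 159393 0) P.nil) P.nil)))))) 306462)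
 (EL.cons 5 (TM.mk (P.cons (P.cons (P.lf 9031836 0 0) (P.cons (P.lf 0 19428868 0) (P.cons (P.lf 9385550 0 0) (P.cons (P.lf 1261530 0 0) (P.cons (P.lf 0 95762 0) (P.cons (P.lf 0 6950 0) P.nil)))))) (P.cons (P.cons (P.lf 0 14035294 0) (P.cons (P.lf 18840774 0 0) (P.cons (P.lf 0 2996856 0) (P.cons (P.lf 0 555306 0) (P.cons (P.lf 36914 0 0) P.nil))))) (P.cons (P.cons (P.lf 10154718 0 0) (P.cons (P.lf 0 7700566 0) (P.cons (P.lf 0 319826 0) (P.cons (P.lf 57924 0 0) P.nil)))) (P.cons (P.cons (P.lf 0 3399202 0) (P.cons (P.lf 398306 0 0) (P.cons (P.lf 180212 0 0) P.nil))) (P.cons (P.cons (P.lf 287860 0 0) (P.cons (P.lf 333258 0 0) P.nil)) (P.cons (P.cons (P.lf 165374 0 0) P.nil) P.nil)))))) 242758)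
 EL.nil)))
noncomputable def S285_314_364_438_6 : EL := (EL.cons 12 (TM.mk (P.lf 8589934592 0 0) 0)
 (EL.cons 3 (TM.mk (P.cons (P.lf 1320724353 0 0) (P.cons (P.lf 409570215 0 0) (P.cons (P.lf 0 14623338 0) (P.cons (P.lf 0 1245645 0) (P.cons (P.lf 85526 0 0) (P.cons (P.lf 2831 0 0) P.nil)))))) 532)
 (EL.cons 7 (TM.mk (P.cons (P.lf 0 1997870342 0) (P.cons (P.lf 96267727 0 0) (P.cons (P.lf 13808992 0 0) (P.cons (P.lf 0 693290 0) (P.cons (P.lf 0 37347 0) (P.cons (P.lf 3551 0 0) P.nil)))))) 296)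
 EL.nil)))
noncomputable def S285_314_364_438_7 : EL := (EL.cons 12 (TM.mk (P.cons (P.cons (P.lf 598791364 0 0) (P.cons (P.lf 0 644046168 0) (P.cons (P.lf 0 35239616 0) (P.lf 3915512 0 0)))) (P.cons (P.cons (P.lf 0 436402130 0) (P.cons (P.lf 93100424 0 0) (P.cons (P.lf 5094080 0 0) (P.lf 0 566008 0)))) (P.cons (P.cons (P.lf 138979406 0 0) (P.cons (P.lf 8868592 0 0) (P.cons (P.lf 485248 0 0) (P.lf 0 53912 0)))) (P.cons (P.cons (P.lf 11901144 0 0) (P.cons (P.lf 0 1885408 0) (P.cons (P.lf 0 103152 0) P.nil))) (P.cons (P.cons (P.lf 0 2521254 0) (P.cons (P.lf 0 32792 0) P.nil)) (P.cons (P.cons (P.lf 0 50092 0) P.nil) P.nil)))))) 76810)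
 (EL.cons 3 (TM.mk (P.cons (P.cons (P.lf 0 1300436175 0) (P.cons (P.lf 198047480 0 0) (P.cons (P.lf 10836360 0 0) (P.lf 0 1204038 0)))) (P.cons (P.cons (P.lf 883142389 0 0) (P.cons (P.lf 32787706 0 0) (P.cons (P.lf 1794010 0 0) (P.lf 0 199332 0)))) (P.cons (P.cons (P.lf 97119999 0 0) (P.cons (P.lf 0 13798062 0) (P.cons (P.lf 0 754972 0) (P.lf 83882 0 0)))) (P.cons (P.cons (P.lf 0 29601178 0) (P.cons (P.lf 0 135744 0) (P.cons (P.lf 0 7428 0) P.nil))) (P.cons (P.cons (P.lf 0 457477 0) (P.cons (P.lf 259896 0 0) P.nil)) (P.cons (P.cons (P.lf 429864 0 0) P.nil) P.nil)))))) 188803)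
 (EL.cons 7 (TM.mk (P.cons (P.cons (P.lf 0 466570137 0) (P.cons (P.lf 219619332 0 0) (P.cons (P.lf 12016691 0 0) (P.lf 0 1335189 0)))) (P.cons (P.cons (P.lf 207578848 0 0) (P.cons (P.lf 7706608 0 0) (P.cons (P.lf 421673 0 0) (P.lf 0 46851 0)))) (P.cons (P.cons (P.lf 60014918 0 0) (P.cons (P.lf 0 1862559 0) (P.cons (P.lf 0 101912 0) (P.lf 11326 0 0)))) (P.cons (P.cons (P.lf 0 598226 0) (P.cons (P.lf 0 772915 0) (P.cons (P.lf 0 42287 0) P.nil))) (P.cons (P.cons (P.lf 0 1733296 0) (P.cons (P.lf 34768 0 0) P.nil)) (P.cons (P.cons (P.lf 36256 0 0) P.nil) P.nil)))))) 158208)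
 (EL.cons 10 (TM.mk (P.cons (P.cons (P.lf 0 2338621107 0) (P.cons (P.lf 0 293440752 0) (P.cons (P.lf 44800812 0 0) (P.cons (P.lf 1368657 0 0) (P.lf 0 114054 0))))) (P.cons (P.cons (P.lf 225373719 0 0) (P.cons (P.lf 28278984 0 0) (P.cons (P.lf 0 4317468 0) (P.cons (P.lf 0 131898 0) (P.lf 10989 0 0))))) (P.cons (P.cons (P.lf 26898585 0 0) (P.cons (P.lf 3375126 0 0) (P.cons (P.lf 0 515292 0) (P.cons (P.lf 0 15741 0) P.nil)))) (P.cons (P.cons (P.lf 0 3180819 0) (P.cons (P.lf 0 399114 0) (P.cons (P.lf 60933 0 0) P.nil))) (P.cons (P.cons (P.lf 0 120948 0) (P.cons (P.lf 0 15174 0) P.nil)) (P.cons (P.cons (P.lf 23742 0 0) P.nil) P.nil)))))) 11715)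
 EL.nil))))
noncomputable def S285_314_364_438_8 : EL := (EL.cons 12 (TM.mk (P.cons (P.cons (P.lf 41740840 0 0) (P.cons (P.lf 0 89790970 0) (P.cons (P.lf 43375546 0 0) (P.cons (P.lf 5830198 0 0) (P.cons (P.lf 0 442576 0) (P.cons (P.lf 0 32126 0) P.nil)))))) (P.cons (P.cons (P.lf 0 60841866 0) (P.cons (P.lf 78419886 0 0) (P.cons (P.lf 0 9669930 0) (P.cons (P.lf 0 2004508 0) (P.cons (P.lf 127952 0 0) P.nil))))) (P.cons (P.cons (P.lf 41547016 0 0) (P.cons (P.lf 0 29063768 0) (P.cons (P.lf 0 1911078 0) (P.cons (P.lf 141586 0 0) P.nil)))) (P.cons (P.cons (P.lf 0 12462168 0) (P.cons (P.lf 64008 0 0) (P.cons (P.lf 478468 0 0) P.nil))) (P.cons (P.cons (P.lf 687838 0 0) (P.cons (P.lf 1110024 0 0) P.nil)) (P.cons (P.cons (P.lf 634300 0 0) P.nil) P.nil)))))) 597012)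
 (EL.cons 3 (TM.mk (P.cons (P.cons (P.lf 0 187720640 0) (P.cons (P.lf 236421962 0 0) (P.cons (P.lf 0 24186374 0) (P.cons (P.lf 0 5499719 0) (P.cons (P.lf 340236 0 0) (P.cons (P.lf 24696 0 0) P.nil)))))) (P.cons (P.cons (P.lf 262623862 0 0) (P.cons (P.lf 0 183947532 0) (P.cons (P.lf 0 10844408 0) (P.cons (P.lf 1033012 0 0) (P.cons (P.lf 7140 0 0) P.nil))))) (P.cons (P.cons (P.lf 0 121690289 0) (P.cons (P.lf 3624876 0 0) (P.cons (P.lf 4184268 0 0) (P.cons (P.lf 414144 0 0) P.nil)))) (P.cons (P.cons (P.lf 10816401 0 0) (P.cons (P.lf 13427707 0 0) (P.cons (P.lf 362230 0 0) P.nil))) (P.cons (P.cons (P.lf 9847066 0 0) (P.cons (P.lf 0 1383065 0) P.nil)) (P.cons (P.cons (P.lf 0 1230503 0) P.nil) P.nil)))))) 1707948)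
 (EL.cons 7 (TM.mk (P.cons (P.cons (P.lf 0 55339596 0) (P.cons (P.lf 79698743 0 0) (P.cons (P.lf 0 17340848 0) (P.cons (P.lf 0 2859381 0) (P.cons (P.lf 198899 0 0) (P.cons (P.lf 14437 0 0) P.nil)))))) (P.cons (P.cons (P.lf 61728613 0 0) (P.cons (P.lf 0 43236083 0) (P.cons (P.lf 0 2548928 0) (P.cons (P.lf 242809 0 0) (P.cons (P.lf 1677 0 0) P.nil))))) (P.cons (P.cons (P.lf 0 17544239 0) (P.cons (P.lf 0 6893630 0) (P.cons (P.lf 526856 0 0) (P.cons (P.lf 140842 0 0) P.nil)))) (P.cons (P.cons (P.lf 0 4020180 0) (P.cons (P.lf 3170780 0 0) (P.cons (P.lf 308928 0 0) P.nil))) (P.cons (P.cons (P.lf 2838338 0 0) (P.cons (P.lf 508968 0 0) P.nil)) (P.cons (P.cons (P.lf 374623 0 0) P.nil) P.nil)))))) 852711)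
 (EL.cons 10 (TM.mk (P.cons (P.cons (P.lf 0 326043486 0) (P.cons (P.lf 309774222 0 0) (P.cons (P.lf 69436578 0 0) (P.cons (P.lf 0 6251598 0) (P.cons (P.lf 0 856236 0) (P.cons (P.lf 46710 0 0) P.nil)))))) (P.cons (P.cons (P.lf 269043042 0 0) (P.cons (P.lf 0 50730606 0) (P.cons (P.lf 0 20378280 0) (P.cons (P.lf 1394688 0 0) (P.cons (P.lf 215574 0 0) P.nil))))) (P.cons (P.cons (P.lf 0 94824258 0) (P.cons (P.lf 0 15875334 0) (P.cons (P.lf 1099890 0 0) (P.cons (P.lf 128556 0 0) P.nil)))) (P.cons (P.cons (P.lf 0 2363976 0) (P.cons (P.lf 2255400 0 0) (P.cons (P.lf 505134 0 0) P.nil))) (P.cons (P.cons (P.lf 3174060 0 0) (P.cons (P.lf 321918 0 0) P.nil)) (P.cons (P.cons (P.lf 0 117816 0) P.nil) P.nil)))))) 452508)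
 EL.nil))))
noncomputable def S285_314_364_438_9 : EL := (EL.cons 3 (TM.mk (P.cons (P.lf 1320724353 0 0) (P.cons (P.lf 409570215 0 0) (P.cons (P.lf 0 14623338 0) (P.cons (P.lf 0 1245645 0) (P.cons (P.lf 85526 0 0) (P.cons (P.lf 2831 0 0) P.nil)))))) 532)
 (EL.cons 7 (TM.mk (P.cons (P.lf 0 1997870342 0) (P.cons (P.lf 96267727 0 0) (P.cons (P.lf 13808992 0 0) (P.cons (P.lf 0 693290 0) (P.cons (P.lf 0 37347 0) (P.cons (P.lf 3551 0 0) P.nil)))))) 296)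
 EL.nil))
noncomputable def S285_314_364_438_10 : EL := (EL.cons 3 (TM.mk (P.cons (P.cons (P.lf 92065698 0 0) (P.cons (P.lf 0 99023740 0) (P.cons (P.lf 0 5418180 0) (P.lf 602019 0 0)))) (P.cons (P.cons (P.lf 0 38547419 0) (P.cons (P.lf 0 16393853 0) (P.cons (P.lf 0 897005 0) (P.lf 99666 0 0)))) (P.cons (P.cons (P.lf 0 458694 0) (P.cons (P.lf 6899031 0 0) (P.cons (P.lf 377486 0 0) (P.lf 0 41941 0)))) (P.cons (P.cons (P.lf 9112493 0 0) (P.cons (P.lf 67872 0 0) (P.cons (P.lf 3714 0 0) P.nil))) (P.cons (P.cons (P.lf 12449 0 0) (P.cons (P.lf 0 129948 0) P.nil)) (P.cons (P.cons (P.lf 0 172476 0) P.nil) P.nil)))))) 45528)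
 (EL.cons 7 (TM.mk (P.cons (P.cons (P.lf 0 139268523 0) (P.cons (P.lf 149794008 0 0) (P.cons (P.lf 8196125 0 0) (P.lf 0 910680 0)))) (P.cons (P.cons (P.lf 108210271 0 0) (P.cons (P.lf 0 28871399 0) (P.cons (P.lf 0 1579726 0) (P.lf 175524 0 0)))) (P.cons (P.cons (P.lf 0 36252379 0) (P.cons (P.lf 0 2054655 0) (P.cons (P.lf 0 112421 0) (P.lf 12490 0 0)))) (P.cons (P.cons (P.lf 0 1960331 0) (P.cons (P.lf 739550 0 0) (P.cons (P.lf 40462 0 0) P.nil))) (P.cons (P.cons (P.lf 975815 0 0) (P.cons (P.lf 0 3959 0) P.nil)) (P.cons (P.cons (P.lf 0 6545 0) P.nil) P.nil)))))) 35543)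
 EL.nil))
noncomputable def S285_314_364_438_11 : EL := (EL.cons 3 (TM.mk (P.cons (P.cons (P.lf 6417760 0 0) (P.cons (P.lf 0 13805590 0) (P.cons (P.lf 6669100 0 0) (P.cons (P.lf 896407 0 0) (P.cons (P.lf 0 68046 0) (P.cons (P.lf 0 4938 0) P.nil)))))) (P.cons (P.cons (P.lf 0 7364378 0) (P.cons (P.lf 7776000 0 0) (P.cons (P.lf 581380 0 0) (P.cons (P.lf 0 30212 0) (P.cons (P.lf 0 1428 0) P.nil))))) (P.cons (P.cons (P.lf 3415945 0 0) (P.cons (P.lf 0 576690 0) (P.cons (P.lf 0 828738 0) (P.cons (P.lf 0 83730 0) P.nil)))) (P.cons (P.cons (P.lf 162405 0 0) (P.cons (P.lf 0 1496405 0) (P.cons (P.lf 0 7382 0) P.nil))) (P.cons (P.cons (P.lf 0 549932 0) (P.cons (P.lf 210931 0 0) P.nil)) (P.cons (P.cons (P.lf 144919 0 0) P.nil) P.nil)))))) 266570)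
 (EL.cons 7 (TM.mk (P.cons (P.cons (P.lf 0 9708198 0) (P.cons (P.lf 20883827 0 0) (P.cons (P.lf 0 10088402 0) (P.cons (P.lf 0 1356003 0) (P.cons (P.lf 102935 0 0) (P.cons (P.lf 7471 0 0) P.nil)))))) (P.cons (P.cons (P.lf 14618557 0 0) (P.cons (P.lf 0 19245401 0) (P.cons (P.lf 2735170 0 0) (P.cons (P.lf 531553 0 0) (P.cons (P.lf 0 34719 0) P.nil))))) (P.cons (P.cons (P.lf 0 10277873 0) (P.cons (P.lf 7494238 0 0) (P.cons (P.lf 405842 0 0) (P.cons (P.lf 0 46022 0) P.nil)))) (P.cons (P.cons (P.lf 3262926 0 0) (P.cons (P.lf 0 207292 0) (P.cons (P.lf 0 151746 0) P.nil))) (P.cons (P.cons (P.lf 0 228124 0) (P.cons (P.lf 0 310116 0) P.nil)) (P.cons (P.cons (P.lf 0 162923 0) P.nil) P.nil)))))) 193523)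
 EL.nil))
noncomputable def S285_314_364_438_12 : EL := (EL.cons 4 (TM.mk (P.cons (P.lf 0 1320724353 0) (P.cons (P.lf 0 409570215 0) (P.cons (P.lf 14623338 0 0) (P.cons (P.lf 1245645 0 0) (P.cons (P.lf 0 85526 0) (P.cons (P.lf 0 2831 0) P.nil)))))) 532)
 (EL.cons 8 (TM.mk (P.cons (P.lf 1997870342 0 0) (P.cons (P.lf 0 96267727 0) (P.cons (P.lf 0 13808992 0) (P.cons (P.lf 693290 0 0) (P.cons (P.lf 37347 0 0) (P.cons (P.lf 0 3551 0) P.nil)))))) 296)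
 EL.nil))
noncomputable def S285_314_364_438_13 : EL := (EL.cons 4 (TM.mk (P.cons (P.cons (P.lf 0 92065698 0) (P.cons (P.lf 99023740 0 0) (P.cons (P.lf 5418180 0 0) (P.lf 0 602019 0)))) (P.cons (P.cons (P.lf 38547419 0 0) (P.cons (P.lf 16393853 0 0) (P.cons (P.lf 897005 0 0) (P.lf 0 99666 0)))) (P.cons (P.cons (P.lf 458694 0 0) (P.cons (P.lf 0 6899031 0) (P.cons (P.lf 0 377486 0) (P.lf 41941 0 0)))) (P.cons (P.cons (P.lf 0 9112493 0) (P.cons (P.lf 0 67872 0) (P.cons (P.lf 0 3714 0) P.nil))) (P.cons (P.cons (P.lf 0 12449 0) (P.cons (P.lf 129948 0 0) P.nil)) (P.cons (P.cons (P.lf 172476 0 0) P.nil) P.nil)))))) 45528)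
 (EL.cons 8 (TM.mk (P.cons (P.cons (P.lf 139268523 0 0) (P.cons (P.lf 0 149794008 0) (P.cons (P.lf 0 8196125 0) (P.lf 910680 0 0)))) (P.cons (P.cons (P.lf 0 108210271 0) (P.cons (P.lf 28871399 0 0) (P.cons (P.lf 1579726 0 0) (P.lf 0 175524 0)))) (P.cons (P.cons (P.lf 36252379 0 0) (P.cons (P.lf 2054655 0 0) (P.cons (P.lf 112421 0 0) (P.lf 0 12490 0)))) (P.cons (P.cons (P.lf 1960331 0 0) (P.cons (P.lf 0 739550 0) (P.cons (P.lf 0 40462 0) P.nil))) (P.cons (P.cons (P.lf 0 975815 0) (P.cons (P.lf 3959 0 0) P.nil)) (P.cons (P.cons (P.lf 6545 0 0) P.nil) P.nil)))))) 35543)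
 EL.nil))
noncomputable def S285_314_364_438_14 : EL := (EL.cons 4 (TM.mk (P.cons (P.cons (P.lf 0 6417760 0) (P.cons (P.lf 13805590 0 0) (P.cons (P.lf 0 6669100 0) (P.cons (P.lf 0 896407 0) (P.cons (P.lf 68046 0 0) (P.cons (P.lf 4938 0 0) P.nil)))))) (P.cons (P.cons (P.lf 7364378 0 0) (P.cons (P.lf 0 7776000 0) (P.cons (P.lf 0 581380 0) (P.cons (P.lf 30212 0 0) (P.cons (P.lf 1428 0 0) P.nil))))) (P.cons (P.cons (P.lf 0 3415945 0) (P.cons (P.lf 576690 0 0) (P.cons (P.lf 828738 0 0) (P.cons (P.lf 83730 0 0) P.nil)))) (P.cons (P.cons (P.lf 0 162405 0) (P.cons (P.lf 1496405 0 0) (P.cons (P.lf 7382 0 0) P.nil))) (P.cons (P.cons (P.lf 549932 0 0) (P.cons (P.lf 0 210931 0) P.nil)) (P.cons (P.cons (P.lf 0 144919 0) P.nil) P.nil)))))) 266570)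
 (EL.cons 8 (TM.mk (P.cons (P.cons (P.lf 9708198 0 0) (P.cons (P.lf 0 20883827 0) (P.cons (P.lf 10088402 0 0) (P.cons (P.lf 1356003 0 0) (P.cons (P.lf 0 102935 0) (P.cons (P.lf 0 7471 0) P.nil)))))) (P.cons (P.cons (P.lf 0 14618557 0) (P.cons (P.lf 19245401 0 0) (P.cons (P.lf 0 2735170 0) (P.cons (P.lf 0 531553 0) (P.cons (P.lf 34719 0 0) P.nil))))) (P.cons (P.cons (P.lf 10277873 0 0) (P.cons (P.lf 0 7494238 0) (P.cons (P.lf 0 405842 0) (P.cons (P.lf 46022 0 0) P.nil)))) (P.cons (P.cons (P.lf 0 3262926 0) (P.cons (P.lf 207292 0 0) (P.cons (P.lf 151746 0 0) P.nil))) (P.cons (P.cons (P.lf 228124 0 0) (P.cons (P.lf 310116 0 0) P.nil)) (P.cons (P.cons (P.lf 162923 0 0) P.nil) P.nil)))))) 193523)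
 EL.nil))
noncomputable def S285_314_364_438_15 : EL := (EL.cons 4 (TM.mk (P.cons (P.lf 0 433204774 0) (P.cons (P.lf 0 268682518 0) (P.cons (P.lf 0 32067537 0) (P.cons (P.lf 3792065 0 0) (P.cons (P.lf 144194 0 0) (P.cons (P.lf 0 28304 0) P.nil)))))) 2128)
 (EL.cons 8 (TM.mk (P.cons (P.lf 655312343 0 0) (P.cons (P.lf 171642763 0 0) (P.cons (P.lf 0 21577328 0) (P.cons (P.lf 0 1445658 0) (P.cons (P.lf 205138 0 0) (P.cons (P.lf 3748 0 0) P.nil)))))) 1533)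
 EL.nil))
noncomputable def S285_314_364_438_16 : EL := (EL.cons 4 (TM.mk (P.cons (P.cons (P.lf 0 30198049 0) (P.cons (P.lf 32480325 0 0) (P.cons (P.lf 1777192 0 0) (P.lf 0 197465 0)))) (P.cons (P.cons (P.lf 3279036 0 0) (P.cons (P.lf 15449756 0 0) (P.cons (P.lf 845348 0 0) (P.lf 0 93927 0)))) (P.cons (P.cons (P.lf 4405774 0 0) (P.cons (P.lf 0 955001 0) (P.cons (P.lf 0 52253 0) (P.lf 5805 0 0)))) (P.cons (P.cons (P.lf 0 3053803 0) (P.cons (P.lf 0 814188 0) (P.cons (P.lf 0 44549 0) P.nil))) (P.cons (P.cons (P.lf 0 946532 0) (P.cons (P.lf 57807 0 0) P.nil)) (P.cons (P.cons (P.lf 89012 0 0) P.nil) P.nil)))))) 61203)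
 (EL.cons 8 (TM.mk (P.cons (P.cons (P.lf 45680833 0 0) (P.cons (P.lf 0 49133249 0) (P.cons (P.lf 0 2688373 0) (P.lf 298707 0 0)))) (P.cons (P.cons (P.lf 0 21327461 0) (P.cons (P.lf 0 5766750 0) (P.cons (P.lf 0 315533 0) (P.lf 35058 0 0)))) (P.cons (P.cons (P.lf 378272 0 0) (P.cons (P.lf 4154689 0 0) (P.cons (P.lf 227327 0 0) (P.lf 0 25258 0)))) (P.cons (P.cons (P.lf 4680421 0 0) (P.cons (P.lf 0 92095 0) (P.cons (P.lf 0 5038 0) P.nil))) (P.cons (P.cons (P.lf 0 215897 0) (P.cons (P.lf 0 93501 0) P.nil)) (P.cons (P.cons (P.lf 0 117645 0) P.nil) P.nil)))))) 39004)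
 EL.nil))
noncomputable def S285_314_364_438_17 : EL := (EL.cons 4 (TM.mk (P.cons (P.cons (P.lf 0 2105059 0) (P.cons (P.lf 4528308 0 0) (P.cons (P.lf 0 2187500 0) (P.cons (P.lf 0 294026 0) (P.cons (P.lf 22319 0 0) (P.cons (P.lf 1620 0 0) P.nil)))))) (P.cons (P.cons (P.lf 1762755 0 0) (P.cons (P.lf 0 1146295 0) (P.cons (P.lf 0 869062 0) (P.cons (P.lf 0 81270 0) (P.cons (P.lf 7390 0 0) P.nil))))) (P.cons (P.cons (P.lf 0 348051 0) (P.cons (P.lf 0 651938 0) (P.cons (P.lf 236914 0 0) (P.cons (P.lf 33792 0 0) P.nil)))) (P.cons (P.cons (P.lf 0 425491 0) (P.cons (P.lf 573458 0 0) (P.cons (P.lf 90893 0 0) P.nil))) (P.cons (P.cons (P.lf 173851 0 0) (P.cons (P.lf 83627 0 0) P.nil)) (P.cons (P.cons (P.lf 10201 0 0) P.nil) P.nil)))))) 192514)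
 (EL.cons 8 (TM.mk (P.cons (P.cons (P.lf 3184341 0 0) (P.cons (P.lf 0 6850009 0) (P.cons (P.lf 3309050 0 0) (P.cons (P.lf 444776 0 0) (P.cons (P.lf 0 33763 0) (P.cons (P.lf 0 2450 0) P.nil)))))) (P.cons (P.cons (P.lf 0 3807469 0) (P.cons (P.lf 4188337 0 0) (P.cons (P.lf 129020 0 0) (P.cons (P.lf 0 36422 0) (P.cons (P.lf 917 0 0) P.nil))))) (P.cons (P.cons (P.lf 1848972 0 0) (P.cons (P.lf 0 424705 0) (P.cons (P.lf 0 447972 0) (P.cons (P.lf 0 43897 0) P.nil)))) (P.cons (P.cons (P.lf 25273 0 0) (P.cons (P.lf 0 757738 0) (P.cons (P.lf 15305 0 0) P.nil))) (P.cons (P.cons (P.lf 0 289670 0) (P.cons (P.lf 143624 0 0) P.nil)) (P.cons (P.cons (P.lf 85010 0 0) P.nil) P.nil)))))) 163435)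
 EL.nil))
noncomputable def S285_314_364_438_18 : EL := (EL.cons 4 (TM.mk (P.cons (P.lf 0 142093522 0) (P.cons (P.lf 0 132193991 0) (P.cons (P.lf 0 36274848 0) (P.cons (P.lf 0 908220 0) (P.cons (P.lf 623396 0 0) (P.cons (P.lf 0 4479 0) P.nil)))))) 6741)
 (EL.cons 8 (TM.mk (P.cons (P.lf 214946014 0 0) (P.cons (P.lf 122956731 0 0) (P.cons (P.lf 8001726 0 0) (P.cons (P.lf 0 3495072 0) (P.cons (P.lf 0 40579 0) (P.cons (P.lf 38127 0 0) P.nil)))))) 3726)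
 EL.nil))
noncomputable def S285_314_364_438_19 : EL := (EL.cons 4 (TM.mk (P.cons (P.cons (P.lf 0 9905124 0) (P.cons (P.lf 10653722 0 0) (P.cons (P.lf 582928 0 0) (P.lf 0 64769 0)))) (P.cons (P.cons (P.lf 0 1996139 0) (P.cons (P.lf 8371433 0 0) (P.cons (P.lf 458050 0 0) (P.lf 0 50894 0)))) (P.cons (P.cons (P.lf 1888325 0 0) (P.cons (P.lf 1140310 0 0) (P.cons (P.lf 62392 0 0) (P.lf 0 6931 0)))) (P.cons (P.cons (P.lf 0 556083 0) (P.cons (P.lf 0 430356 0) (P.cons (P.lf 0 23547 0) P.nil))) (P.cons (P.cons (P.lf 0 638750 0) (P.cons (P.lf 0 64477 0) P.nil)) (P.cons (P.cons (P.lf 0 57305 0) P.nil) P.nil)))))) 58582)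
 (EL.cons 8 (TM.mk (P.cons (P.cons (P.lf 14983561 0 0) (P.cons (P.lf 0 16115972 0) (P.cons (P.lf 0 881801 0) (P.lf 97977 0 0)))) (P.cons (P.cons (P.lf 0 2348966 0) (P.cons (P.lf 0 6889254 0) (P.cons (P.lf 0 376952 0) (P.lf 41883 0 0)))) (P.cons (P.cons (P.lf 0 2211209 0) (P.cons (P.lf 954618 0 0) (P.cons (P.lf 52232 0 0) (P.lf 0 5803 0)))) (P.cons (P.cons (P.lf 1637005 0 0) (P.cons (P.lf 428541 0 0) (P.cons (P.lf 23448 0 0) P.nil))) (P.cons (P.cons (P.lf 411461 0 0) (P.cons (P.lf 0 54385 0) P.nil)) (P.cons (P.cons (P.lf 0 78084 0) P.nil) P.nil)))))) 45553)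
 EL.nil))
noncomputable def S285_314_364_438_20 : EL := (EL.cons 4 (TM.mk (P.cons (P.cons (P.lf 0 690470 0) (P.cons (P.lf 1485309 0 0) (P.cons (P.lf 0 717511 0) (P.cons (P.lf 0 96441 0) (P.cons (P.lf 7320 0 0) (P.cons (P.lf 530 0 0) P.nil)))))) (P.cons (P.cons (P.lf 364070 0 0) (P.cons (P.lf 84617 0 0) (P.cons (P.lf 0 507564 0) (P.cons (P.lf 0 56564 0) (P.cons (P.lf 4694 0 0) P.nil))))) (P.cons (P.cons (P.lf 72785 0 0) (P.cons (P.lf 0 346883 0) (P.cons (P.lf 0 2745 0) (P.cons (P.lf 3885 0 0) P.nil)))) (P.cons (P.cons (P.lf 0 180717 0) (P.cons (P.lf 124545 0 0) (P.cons (P.lf 57744 0 0) P.nil))) (P.cons (P.cons (P.lf 14417 0 0) (P.cons (P.lf 88579 0 0) P.nil)) (P.cons (P.cons (P.lf 22718 0 0) P.nil) P.nil)))))) 116734)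
 (EL.cons 8 (TM.mk (P.cons (P.cons (P.lf 1044481 0 0) (P.cons (P.lf 0 2246840 0) (P.cons (P.lf 1085386 0 0) (P.cons (P.lf 145888 0 0) (P.cons (P.lf 0 11074 0) (P.cons (P.lf 0 803 0) P.nil)))))) (P.cons (P.cons (P.lf 0 924966 0) (P.cons (P.lf 677029 0 0) (P.cons (P.lf 378908 0 0) (P.cons (P.lf 33294 0 0) (P.cons (P.lf 0 3133 0) P.nil))))) (P.cons (P.cons (P.lf 207620 0 0) (P.cons (P.lf 311600 0 0) (P.cons (P.lf 0 145831 0) (P.cons (P.lf 0 19718 0) P.nil)))) (P.cons (P.cons (P.lf 209205 0 0) (P.cons (P.lf 0 304834 0) (P.cons (P.lf 0 42038 0) P.nil))) (P.cons (P.cons (P.lf 0 97911 0) (P.cons (P.lf 0 29864 0) P.nil)) (P.cons (P.cons (P.lf 0 2322 0) P.nil) P.nil)))))) 111472)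
 EL.nil))
noncomputable def S285_314_364_438_21 : EL := (EL.cons 4 (TM.mk (P.cons (P.cons (P.lf 1392501873 0 0) (P.cons (P.lf 0 297071220 0) (P.cons (P.lf 0 16254540 0) (P.lf 1806057 0 0)))) (P.cons (P.cons (P.lf 0 921689808 0) (P.cons (P.lf 0 49181559 0) (P.cons (P.lf 0 2691015 0) (P.lf 298998 0 0)))) (P.cons (P.cons (P.lf 0 97578693 0) (P.cons (P.lf 20697093 0 0) (P.cons (P.lf 1132458 0 0) (P.lf 0 125823 0)))) (P.cons (P.cons (P.lf 38713671 0 0) (P.cons (P.lf 203616 0 0) (P.cons (P.lf 11142 0 0) P.nil))) (P.cons (P.cons (P.lf 469926 0 0) (P.cons (P.lf 0 389844 0) P.nil)) (P.cons (P.cons (P.lf 0 602340 0) P.nil) P.nil)))))) 143256)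
 (EL.cons 8 (TM.mk (P.cons (P.cons (P.lf 327301614 0 0) (P.cons (P.lf 0 69825324 0) (P.cons (P.lf 0 3820566 0) (P.lf 424509 0 0)))) (P.cons (P.cons (P.lf 0 99368577 0) (P.cons (P.lf 0 36578007 0) (P.cons (P.lf 0 2001399 0) (P.lf 222375 0 0)))) (P.cons (P.cons (P.lf 0 96267297 0) (P.cons (P.lf 0 192096 0) (P.cons (P.lf 0 10509 0) (P.lf 1164 0 0)))) (P.cons (P.cons (P.lf 0 1362105 0) (P.cons (P.lf 1512465 0 0) (P.cons (P.lf 82749 0 0) P.nil))) (P.cons (P.cons (P.lf 2709111 0 0) (P.cons (P.lf 0 38727 0) P.nil)) (P.cons (P.cons (P.lf 0 42801 0) P.nil) P.nil)))))) 122646)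
 (EL.cons 11 (TM.mk (P.cons (P.cons (P.lf 2338621107 0 0) (P.cons (P.lf 293440752 0 0) (P.cons (P.lf 0 44800812 0) (P.cons (P.lf 0 1368657 0) (P.lf 114054 0 0))))) (P.cons (P.cons (P.lf 0 225373719 0) (P.cons (P.lf 0 28278984 0) (P.cons (P.lf 4317468 0 0) (P.cons (P.lf 131898 0 0) (P.lf 0 10989 0))))) (P.cons (P.cons (P.lf 0 26898585 0) (P.cons (P.lf 0 3375126 0) (P.cons (P.lf 515292 0 0) (P.cons (P.lf 15741 0 0) P.nil)))) (P.cons (P.cons (P.lf 3180819 0 0) (P.cons (P.lf 399114 0 0) (P.cons (P.lf 0 60933 0) P.nil))) (P.cons (P.cons (P.lf 120948 0 0) (P.cons (P.lf 15174 0 0) P.nil)) (P.cons (P.cons (P.lf 0 23742 0) P.nil) P.nil)))))) 11715)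
 EL.nil)))
noncomputable def S285_314_364_438_22 : EL := (EL.cons 4 (TM.mk (P.cons (P.cons (P.lf 97069200 0 0) (P.cons (P.lf 0 125113776 0) (P.cons (P.lf 15427737 0 0) (P.cons (P.lf 3198063 0 0) (P.cons (P.lf 0 204141 0) (P.cons (P.lf 0 14817 0) P.nil)))))) (P.cons (P.cons (P.lf 0 134994120 0) (P.cons (P.lf 95861766 0 0) (P.cons (P.lf 5712894 0 0) (P.cons (P.lf 0 531612 0) (P.cons (P.lf 0 4284 0) P.nil))))) (P.cons (P.cons (P.lf 62553117 0 0) (P.cons (P.lf 0 2100783 0) (P.cons (P.lf 0 2506503 0) (P.cons (P.lf 0 248937 0) P.nil)))) (P.cons (P.cons (P.lf 0 5326998 0) (P.cons (P.lf 0 7462056 0) (P.cons (P.lf 0 184806 0) P.nil))) (P.cons (P.cons (P.lf 0 5198499 0) (P.cons (P.lf 796998 0 0) P.nil)) (P.cons (P.cons (P.lf 687711 0 0) P.nil) P.nil)))))) 720678)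
 (EL.cons 8 (TM.mk (P.cons (P.cons (P.lf 22815699 0 0) (P.cons (P.lf 0 29407458 0) (P.cons (P.lf 3626223 0 0) (P.cons (P.lf 751689 0 0) (P.cons (P.lf 0 47982 0) (P.cons (P.lf 0 3483 0) P.nil)))))) (P.cons (P.cons (P.lf 0 23555028 0) (P.cons (P.lf 11995341 0 0) (P.cons (P.lf 2642049 0 0) (P.cons (P.lf 144372 0 0) (P.cons (P.lf 0 18198 0) P.nil))))) (P.cons (P.cons (P.lf 3633183 0 0) (P.cons (P.lf 7193934 0 0) (P.cons (P.lf 0 60507 0) (P.cons (P.lf 0 93432 0) P.nil)))) (P.cons (P.cons (P.lf 3641553 0 0) (P.cons (P.lf 0 1689036 0) (P.cons (P.lf 0 230337 0) P.nil))) (P.cons (P.cons (P.lf 0 1533231 0) (P.cons (P.lf 0 409542 0) P.nil)) (P.cons (P.cons (P.lf 0 268773 0) P.nil) P.nil)))))) 329583)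
 (EL.cons 11 (TM.mk (P.cons (P.cons (P.lf 163021743 0 0) (P.cons (P.lf 0 154887111 0) (P.cons (P.lf 0 34718289 0) (P.cons (P.lf 3125799 0 0) (P.cons (P.lf 428118 0 0) (P.cons (P.lf 0 23355 0) P.nil)))))) (P.cons (P.cons (P.lf 0 134521521 0) (P.cons (P.lf 25365303 0 0) (P.cons (P.lf 10189140 0 0) (P.cons (P.lf 0 697344 0) (P.cons (P.lf 0 107787 0) P.nil))))) (P.cons (P.cons (P.lf 47412129 0 0) (P.cons (P.lf 7937667 0 0) (P.cons (P.lf 0 549945 0) (P.cons (P.lf 0 64278 0) P.nil)))) (P.cons (P.cons (P.lf 1181988 0 0) (P.cons (P.lf 0 1127700 0) (P.cons (P.lf 0 252567 0) P.nil))) (P.cons (P.cons (P.lf 0 1587030 0) (P.cons (P.lf 0 160959 0) P.nil)) (P.cons (P.cons (P.lf 58908 0 0) P.nil) P.nil)))))) 226254)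
 EL.nil)))
noncomputable def S285_314_364_438_23 : EL := (EL.cons 4 (TM.mk (P.cons (P.cons (P.lf 456748191 0 0) (P.cons (P.lf 0 97440975 0) (P.cons (P.lf 0 5331576 0) (P.lf 592395 0 0)))) (P.cons (P.cons (P.lf 0 160676955 0) (P.cons (P.lf 0 46349268 0) (P.cons (P.lf 0 2536044 0) (P.lf 281781 0 0)))) (P.cons (P.cons (P.lf 0 130815870 0) (P.cons (P.lf 2865003 0 0) (P.cons (P.lf 156759 0 0) (P.lf 0 17415 0)))) (P.cons (P.cons (P.lf 5689356 0 0) (P.cons (P.lf 2442567 0 0) (P.cons (P.lf 133647 0 0) P.nil))) (P.cons (P.cons (P.lf 4761102 0 0) (P.cons (P.lf 0 173421 0) P.nil)) (P.cons (P.cons (P.lf 0 278778 0) P.nil) P.nil)))))) 215832)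
 (EL.cons 8 (TM.mk (P.cons (P.cons (P.lf 107356710 0 0) (P.cons (P.lf 0 22903086 0) (P.cons (P.lf 0 1253166 0) (P.lf 139239 0 0)))) (P.cons (P.cons (P.lf 698985 0 0) (P.cons (P.lf 0 19100268 0) (P.cons (P.lf 0 1045089 0) (P.lf 116118 0 0)))) (P.cons (P.cons (P.lf 0 42872430 0) (P.cons (P.lf 0 3530055 0) (P.cons (P.lf 0 193149 0) (P.lf 21459 0 0)))) (P.cons (P.cons (P.lf 0 9979254 0) (P.cons (P.lf 630999 0 0) (P.cons (P.lf 34521 0 0) P.nil))) (P.cons (P.cons (P.lf 1137363 0 0) (P.cons (P.lf 151671 0 0) P.nil)) (P.cons (P.cons (P.lf 294372 0 0) P.nil) P.nil)))))) 92904)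
 (EL.cons 11 (TM.mk (P.cons (P.cons (P.lf 767080446 0 0) (P.cons (P.lf 96250161 0 0) (P.cons (P.lf 0 14694909 0) (P.cons (P.lf 0 448926 0) (P.lf 37410 0 0))))) (P.cons (P.cons (P.lf 163955733 0 0) (P.cons (P.lf 20572503 0 0) (P.cons (P.lf 0 3140889 0) (P.cons (P.lf 0 95952 0) (P.lf 7995 0 0))))) (P.cons (P.cons (P.lf 0 40240689 0) (P.cons (P.lf 0 5049237 0) (P.cons (P.lf 770886 0 0) (P.cons (P.lf 23550 0 0) P.nil)))) (P.cons (P.cons (P.lf 0 1597713 0) (P.cons (P.lf 0 200475 0) (P.cons (P.lf 30606 0 0) P.nil))) (P.cons (P.cons (P.lf 580299 0 0) (P.cons (P.lf 72813 0 0) P.nil)) (P.cons (P.cons (P.lf 0 1857 0) P.nil) P.nil)))))) 30600)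
 EL.nil)))
noncomputable def S285_314_364_438_24 : EL := (EL.cons 4 (TM.mk (P.cons (P.cons (P.lf 31839225 0 0) (P.cons (P.lf 0 41037999 0) (P.cons (P.lf 5060382 0 0) (P.cons (P.lf 1048980 0 0) (P.cons (P.lf 0 66957 0) (P.cons (P.lf 0 4860 0) P.nil)))))) (P.cons (P.cons (P.lf 0 34405134 0) (P.cons (P.lf 18716874 0 0) (P.cons (P.lf 3443136 0 0) (P.cons (P.lf 150927 0 0) (P.cons (P.lf 0 22170 0) P.nil))))) (P.cons (P.cons (P.lf 6433917 0 0) (P.cons (P.lf 9516165 0 0) (P.cons (P.lf 0 297072 0) (P.cons (P.lf 0 147342 0) P.nil)))) (P.cons (P.cons (P.lf 5075718 0 0) (P.cons (P.lf 0 2970720 0) (P.cons (P.lf 0 341094 0) P.nil))) (P.cons (P.cons (P.lf 0 2430339 0) (P.cons (P.lf 0 522285 0) P.nil)) (P.cons (P.cons (P.lf 0 306009 0) P.nil) P.nil)))))) 547371)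
 (EL.cons 8 (TM.mk (P.cons (P.cons (P.lf 7483674 0 0) (P.cons (P.lf 0 9645804 0) (P.cons (P.lf 1189419 0 0) (P.cons (P.lf 246558 0 0) (P.cons (P.lf 0 15738 0) (P.cons (P.lf 0 1140 0) P.nil)))))) (P.cons (P.cons (P.lf 0 5405412 0) (P.cons (P.lf 943272 0 0) (P.cons (P.lf 1235457 0 0) (P.cons (P.lf 123813 0 0) (P.cons (P.lf 0 10848 0) P.nil))))) (P.cons (P.cons (P.lf 0 1287123 0) (P.cons (P.lf 3686589 0 0) (P.cons (P.lf 235725 0 0) (P.cons (P.lf 0 18690 0) P.nil)))) (P.cons (P.cons (P.lf 1642494 0 0) (P.cons (P.lf 143271 0 0) (P.cons (P.lf 0 92424 0) P.nil))) (P.cons (P.cons (P.lf 0 137919 0) (P.cons (P.lf 0 336597 0) P.nil)) (P.cons (P.cons (P.lf 0 258948 0) P.nil) P.nil)))))) 131454)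
 (EL.cons 11 (TM.mk (P.cons (P.cons (P.lf 53472018 0 0) (P.cons (P.lf 0 50803815 0) (P.cons (P.lf 0 11387787 0) (P.cons (P.lf 1025277 0 0) (P.cons (P.lf 140424 0 0) (P.cons (P.lf 0 7659 0) P.nil)))))) (P.cons (P.cons (P.lf 0 27541566 0) (P.cons (P.lf 0 7434825 0) (P.cons (P.lf 0 189375 0) (P.cons (P.lf 89214 0 0) (P.cons (P.lf 8190 0 0) P.nil))))) (P.cons (P.cons (P.lf 1276140 0 0) (P.cons (P.lf 5746212 0 0) (P.cons (P.lf 982119 0 0) (P.cons (P.lf 0 103365 0) P.nil)))) (P.cons (P.cons (P.lf 5648472 0 0) (P.cons (P.lf 393303 0 0) (P.cons (P.lf 0 165045 0) P.nil))) (P.cons (P.cons (P.lf 0 527436 0) (P.cons (P.lf 0 207465 0) P.nil)) (P.cons (P.cons (P.lf 0 163809 0) P.nil) P.nil)))))) 176307)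
 EL.nil)))
noncomputable def S285_314_364_438_25 : EL := (EL.cons 4 (TM.mk (P.cons (P.cons (P.lf 149815890 0 0) (P.cons (P.lf 0 31961169 0) (P.cons (P.lf 0 1748784 0) (P.lf 194307 0 0)))) (P.cons (P.cons (P.lf 0 6243465 0) (P.cons (P.lf 0 25114299 0) (P.cons (P.lf 0 1374153 0) (P.lf 152682 0 0)))) (P.cons (P.cons (P.lf 0 60910827 0) (P.cons (P.lf 0 3420930 0) (P.cons (P.lf 0 187179 0) (P.lf 20796 0 0)))) (P.cons (P.cons (P.lf 0 10997931 0) (P.cons (P.lf 1291068 0 0) (P.cons (P.lf 70641 0 0) P.nil))) (P.cons (P.cons (P.lf 2674875 0 0) (P.cons (P.lf 193431 0 0) P.nil)) (P.cons (P.cons (P.lf 409560 0 0) P.nil) P.nil)))))) 210570)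
 (EL.cons 8 (TM.mk (P.cons (P.cons (P.lf 35213583 0 0) (P.cons (P.lf 0 7512336 0) (P.cons (P.lf 0 411045 0) (P.lf 45669 0 0)))) (P.cons (P.cons (P.lf 11149365 0 0) (P.cons (P.lf 0 8594643 0) (P.cons (P.lf 0 470262 0) (P.lf 52251 0 0)))) (P.cons (P.cons (P.lf 0 14381184 0) (P.cons (P.lf 0 3017538 0) (P.cons (P.lf 0 165105 0) (P.lf 18342 0 0)))) (P.cons (P.cons (P.lf 0 7669890 0) (P.cons (P.lf 0 75645 0) (P.cons (P.lf 0 4137 0) P.nil))) (P.cons (P.cons (P.lf 0 484239 0) (P.cons (P.lf 132174 0 0) P.nil)) (P.cons (P.cons (P.lf 261840 0 0) P.nil) P.nil)))))) 86214)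
 (EL.cons 11 (TM.mk (P.cons (P.cons (P.lf 251606559 0 0) (P.cons (P.lf 31570575 0 0) (P.cons (P.lf 0 4820010 0) (P.cons (P.lf 0 147249 0) (P.lf 12270 0 0))))) (P.cons (P.cons (P.lf 131804157 0 0) (P.cons (P.lf 16538253 0 0) (P.cons (P.lf 0 2524962 0) (P.cons (P.lf 0 77136 0) (P.lf 6426 0 0))))) (P.cons (P.cons (P.lf 692217 0 0) (P.cons (P.lf 86856 0 0) (P.cons (P.lf 0 13260 0) (P.cons (P.lf 0 405 0) P.nil)))) (P.cons (P.cons (P.lf 0 5450004 0) (P.cons (P.lf 0 683844 0) (P.cons (P.lf 104403 0 0) P.nil))) (P.cons (P.cons (P.lf 139542 0 0) (P.cons (P.lf 17508 0 0) P.nil)) (P.cons (P.cons (P.lf 80688 0 0) P.nil) P.nil)))))) 44802)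
 EL.nil)))
noncomputable def S285_314_364_438_26 : EL := (EL.cons 4 (TM.mk (P.cons (P.cons (P.lf 10443438 0 0) (P.cons (P.lf 0 13460685 0) (P.cons (P.lf 1659831 0 0) (P.cons (P.lf 344070 0 0) (P.cons (P.lf 0 21963 0) (P.cons (P.lf 0 1593 0) P.nil)))))) (P.cons (P.cons (P.lf 0 8046450 0) (P.cons (P.lf 1964937 0 0) (P.cons (P.lf 1644099 0 0) (P.cons (P.lf 156204 0 0) (P.cons (P.lf 0 14082 0) P.nil))))) (P.cons (P.cons (P.lf 0 1504887 0) (P.cons (P.lf 5174232 0 0) (P.cons (P.lf 234408 0 0) (P.cons (P.lf 0 36786 0) P.nil)))) (P.cons (P.cons (P.lf 2434407 0 0) (P.cons (P.lf 0 61728 0) (P.cons (P.lf 0 156168 0) P.nil))) (P.cons (P.cons (P.lf 0 292920 0) (P.cons (P.lf 0 514710 0) P.nil)) (P.cons (P.cons (P.lf 0 368712 0) P.nil) P.nil)))))) 338202)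
 (EL.cons 8 (TM.mk (P.cons (P.cons (P.lf 2454684 0 0) (P.cons (P.lf 0 3163875 0) (P.cons (P.lf 390135 0 0) (P.cons (P.lf 80871 0 0) (P.cons (P.lf 0 5160 0) (P.cons (P.lf 0 372 0) P.nil)))))) (P.cons (P.cons (P.lf 0 1011780 0) (P.cons (P.lf 0 671751 0) (P.cons (P.lf 526221 0 0) (P.cons (P.lf 65691 0 0) (P.cons (P.lf 0 5157 0) P.nil))))) (P.cons (P.cons (P.lf 0 999189 0) (P.cons (P.lf 1340199 0 0) (P.cons (P.lf 198666 0 0) (P.cons (P.lf 5568 0 0) P.nil)))) (P.cons (P.cons (P.lf 425139 0 0) (P.cons (P.lf 421542 0 0) (P.cons (P.lf 0 11190 0) P.nil))) (P.cons (P.cons (P.lf 128337 0 0) (P.cons (P.lf 0 109716 0) P.nil)) (P.cons (P.cons (P.lf 0 104640 0) P.nil) P.nil)))))) 133977)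
 (EL.cons 11 (TM.mk (P.cons (P.cons (P.lf 17539110 0 0) (P.cons (P.lf 0 16663926 0) (P.cons (P.lf 0 3735255 0) (P.cons (P.lf 336297 0 0) (P.cons (P.lf 46059 0 0) (P.cons (P.lf 0 2511 0) P.nil)))))) (P.cons (P.cons (P.lf 0 3594723 0) (P.cons (P.lf 0 7606317 0) (P.cons (P.lf 0 1220457 0) (P.cons (P.lf 133551 0 0) (P.cons (P.lf 16968 0 0) P.nil))))) (P.cons (P.cons (P.lf 0 2577084 0) (P.cons (P.lf 1313040 0 0) (P.cons (P.lf 344235 0 0) (P.cons (P.lf 0 28551 0) P.nil)))) (P.cons (P.cons (P.lf 2066016 0 0) (P.cons (P.lf 756216 0 0) (P.cons (P.lf 49971 0 0) P.nil))) (P.cons (P.cons (P.lf 406569 0 0) (P.cons (P.lf 0 47691 0) P.nil)) (P.cons (P.cons (P.lf 0 128835 0) P.nil) P.nil)))))) 156081)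
 EL.nil)))
noncomputable def S285_314_364_438_27 : EL := (EL.cons 13 (TM.mk (P.lf 0 4294967296 0) 0)
 EL.nil)
noncomputable def S285_314_364_438_28 : EL := (EL.cons 13 (TM.mk (P.cons (P.cons (P.lf 0 299395682 0) (P.cons (P.lf 322023084 0 0) (P.cons (P.lf 17619808 0 0) (P.lf 0 1957756 0)))) (P.cons (P.cons (P.lf 218201065 0 0) (P.cons (P.lf 0 46550212 0) (P.cons (P.lf 0 2547040 0) (P.lf 283004 0 0)))) (P.cons (P.cons (P.lf 0 69489703 0) (P.cons (P.lf 0 4434296 0) (P.cons (P.lf 0 242624 0) (P.lf 26956 0 0)))) (P.cons (P.cons (P.lf 0 5950572 0) (P.cons (P.lf 942704 0 0) (P.cons (P.lf 51576 0 0) P.nil))) (P.cons (P.cons (P.lf 1260627 0 0) (P.cons (P.lf 16396 0 0) P.nil)) (P.cons (P.cons (P.lf 25046 0 0) P.nil) P.nil)))))) 38405)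
 EL.nil)
noncomputable def S285_314_364_438_29 : EL := (EL.cons 13 (TM.mk (P.cons (P.cons (P.lf 0 20870420 0) (P.cons (P.lf 44895485 0 0) (P.cons (P.lf 0 21687773 0) (P.cons (P.lf 0 2915099 0) (P.cons (P.lf 221288 0 0) (P.cons (P.lf 16063 0 0) P.nil)))))) (P.cons (P.cons (P.lf 30420933 0 0) (P.cons (P.lf 0 39209943 0) (P.cons (P.lf 4834965 0 0) (P.cons (P.lf 1002254 0 0) (P.cons (P.lf 0 63976 0) P.nil))))) (P.cons (P.cons (P.lf 0 20773508 0) (P.cons (P.lf 14531884 0 0) (P.cons (P.lf 955539 0 0) (P.cons (P.lf 0 70793 0) P.nil)))) (P.cons (P.cons (P.lf 6231084 0 0) (P.cons (P.lf 0 32004 0) (P.cons (P.lf 0 239234 0) P.nil))) (P.cons (P.cons (P.lf 0 343919 0) (P.cons (P.lf 0 555012 0) P.nil)) (P.cons (P.cons (P.lf 0 317150 0) P.nil) P.nil)))))) 298506)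
 EL.nil)
noncomputable def S285_314_364_438_30 : EL := (EL.cons 13 (TM.mk (P.cons (P.lf 0 1408772644 0) (P.cons (P.lf 0 436874896 0) (P.cons (P.lf 15598228 0 0) (P.cons (P.lf 1328688 0 0) (P.cons (P.lf 0 91228 0) (P.cons (P.lf 0 3020 0) P.nil)))))) 560)
 EL.nil)
noncomputable def S285_314_364_438_31 : EL := (EL.cons 13 (TM.mk (P.cons (P.cons (P.lf 0 98203412 0) (P.cons (P.lf 105625323 0 0) (P.cons (P.lf 5779392 0 0) (P.lf 0 642154 0)))) (P.cons (P.cons (P.lf 41117247 0 0) (P.cons (P.lf 17486777 0 0) (P.cons (P.lf 956806 0 0) (P.lf 0 106311 0)))) (P.cons (P.cons (P.lf 489274 0 0) (P.cons (P.lf 0 7358967 0) (P.cons (P.lf 0 402652 0) (P.lf 44738 0 0)))) (P.cons (P.cons (P.lf 0 9719993 0) (P.cons (P.lf 0 72397 0) (P.cons (P.lf 0 3962 0) P.nil))) (P.cons (P.cons (P.lf 0 13279 0) (P.cons (P.lf 138612 0 0) P.nil)) (P.cons (P.cons (P.lf 183975 0 0) P.nil) P.nil)))))) 48543)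
 EL.nil)
noncomputable def S285_314_364_438_32 : EL := (EL.cons 13 (TM.mk (P.cons (P.cons (P.lf 0 6845611 0) (P.cons (P.lf 14725963 0 0) (P.cons (P.lf 0 7113707 0) (P.cons (P.lf 0 956168 0) (P.cons (P.lf 72583 0 0) (P.cons (P.lf 5268 0 0) P.nil)))))) (P.cons (P.cons (P.lf 7855337 0 0) (P.cons (P.lf 0 8294401 0) (P.cons (P.lf 0 620139 0) (P.cons (P.lf 32227 0 0) (P.cons (P.lf 1524 0 0) P.nil))))) (P.cons (P.cons (P.lf 0 3643675 0) (P.cons (P.lf 615136 0 0) (P.cons (P.lf 883988 0 0) (P.cons (P.lf 89313 0 0) P.nil)))) (P.cons (P.cons (P.lf 0 173232 0) (P.cons (P.lf 1596166 0 0) (P.cons (P.lf 7875 0 0) P.nil))) (P.cons (P.cons (P.lf 586595 0 0) (P.cons (P.lf 0 224994 0) P.nil)) (P.cons (P.cons (P.lf 0 154581 0) P.nil) P.nil)))))) 284318)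
 EL.nil)
noncomputable def S285_314_364_438_33 : EL := (EL.cons 14 (TM.mk (P.lf 8589934592 0 0) 0)
 EL.nil)
noncomputable def S285_314_364_438_34 : EL := (EL.cons 14 (TM.mk (P.cons (P.cons (P.lf 598791364 0 0) (P.cons (P.lf 0 644046168 0) (P.cons (P.lf 0 35239616 0) (P.lf 3915512 0 0)))) (P.cons (P.cons (P.lf 0 436402130 0) (P.cons (P.lf 93100424 0 0) (P.cons (P.lf 5094080 0 0) (P.lf 0 566008 0)))) (P.cons (P.cons (P.lf 138979406 0 0) (P.cons (P.lf 8868592 0 0) (P.cons (P.lf 485248 0 0) (P.lf 0 53912 0)))) (P.cons (P.cons (P.lf 11901144 0 0) (P.cons (P.lf 0 1885408 0) (P.cons (P.lf 0 103152 0) P.nil))) (P.cons (P.cons (P.lf 0 2521254 0) (P.cons (P.lf 0 32792 0) P.nil)) (P.cons (P.cons (P.lf 0 50092 0) P.nil) P.nil)))))) 76810)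
 EL.nil)
noncomputable def S285_314_364_438_35 : EL := (EL.cons 14 (TM.mk (P.cons (P.cons (P.lf 41740840 0 0) (P.cons (P.lf 0 89790970 0) (P.cons (P.lf 43375546 0 0) (P.cons (P.lf 5830198 0 0) (P.cons (P.lf 0 442576 0) (P.cons (P.lf 0 32126 0) P.nil)))))) (P.cons (P.cons (P.lf 0 60841866 0) (P.cons (P.lf 78419886 0 0) (P.cons (P.lf 0 9669930 0) (P.cons (P.lf 0 2004508 0) (P.cons (P.lf 127952 0 0) P.nil))))) (P.cons (P.cons (P.lf 41547016 0 0) (P.cons (P.lf 0 29063768 0) (P.cons (P.lf 0 1911078 0) (P.cons (P.lf 141586 0 0) P.nil)))) (P.cons (P.cons (P.lf 0 12462168 0) (P.cons (P.lf 64008 0 0) (P.cons (P.lf 478468 0 0) P.nil))) (P.cons (P.cons (P.lf 687838 0 0) (P.cons (P.lf 1110024 0 0) P.nil)) (P.cons (P.cons (P.lf 634300 0 0) P.nil) P.nil)))))) 597012)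
 EL.nil)
noncomputable def S285_314_364_438_36 : EL := (EL.cons 14 (TM.mk (P.cons (P.lf 2817545288 0 0) (P.cons (P.lf 873749792 0 0) (P.cons (P.lf 0 31196456 0) (P.cons (P.lf 0 2657376 0) (P.cons (P.lf 182456 0 0) (P.cons (P.lf 6040 0 0) P.nil)))))) 1120)
 EL.nil)
noncomputable def S285_314_364_438_37 : EL := (EL.cons 14 (TM.mk (P.cons (P.cons (P.lf 196406824 0 0) (P.cons (P.lf 0 211250646 0) (P.cons (P.lf 0 11558784 0) (P.lf 1284308 0 0)))) (P.cons (P.cons (P.lf 0 82234494 0) (P.cons (P.lf 0 34973554 0) (P.cons (P.lf 0 1913612 0) (P.lf 212622 0 0)))) (P.cons (P.cons (P.lf 0 978548 0) (P.cons (P.lf 14717934 0 0) (P.cons (P.lf 805304 0 0) (P.lf 0 89476 0)))) (P.cons (P.cons (P.lf 19439986 0 0) (P.cons (P.lf 144794 0 0) (P.cons (P.lf 7924 0 0) P.nil))) (P.cons (P.cons (P.lf 26558 0 0) (P.cons (P.lf 0 277224 0) P.nil)) (P.cons (P.cons (P.lf 0 367950 0) P.nil) P.nil))))))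 97086)
 EL.nil)
noncomputable def S285_314_364_438_38 : EL := (EL.cons 14 (TM.mk (P.cons (P.cons (P.lf 13691222 0 0) (P.cons (P.lf 0 29451926 0) (P.cons (P.lf 14227414 0 0) (P.cons (P.lf 1912336 0 0) (P.cons (P.lf 0 145166 0) (P.cons (P.lf 0 10536 0) P.nil)))))) (P.cons (P.cons (P.lf 0 15710674 0) (P.cons (P.lf 16588802 0 0) (P.cons (P.lf 1240278 0 0) (P.cons (P.lf 0 64454 0) (P.cons (P.lf 0 3048 0) P.nil))))) (P.cons (P.cons (P.lf 7287350 0 0) (P.cons (P.lf 0 1230272 0) (P.cons (P.lf 0 1767976 0) (P.cons (P.lf 0 178626 0) P.nil)))) (P.cons (P.cons (P.lf 346464 0 0) (P.cons (P.lf 0 3192332 0) (P.cons (P.lf 0 15750 0) P.nil))) (P.cons (P.cons (P.lf 0 1173190 0) (P.cons (P.lf 449988 0 0) P.nil)) (P.cons (P.cons (P.lf 309162 0 0) P.nil) P.nil)))))) 568636)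
 EL.nil)
noncomputable def S285_314_364_438_39 : EL := (EL.cons 14 (TM.mk (P.cons (P.lf 924170186 0 0) (P.cons (P.lf 573189372 0 0) (P.cons (P.lf 68410746 0 0) (P.cons (P.lf 0 8089740 0) (P.cons (P.lf 0 307614 0) (P.cons (P.lf 60382 0 0) P.nil)))))) 4526)
 EL.nil)
noncomputable def S285_314_364_438_40 : EL := (EL.cons 14 (TM.mk (P.cons (P.cons (P.lf 64422506 0 0) (P.cons (P.lf 0 69291360 0) (P.cons (P.lf 0 3791344 0) (P.lf 421260 0 0)))) (P.cons (P.cons (P.lf 0 6995278 0) (P.cons (P.lf 0 32959480 0) (P.cons (P.lf 0 1803410 0) (P.lf 200378 0 0)))) (P.cons (P.cons (P.lf 0 9398986 0) (P.cons (P.lf 2037336 0 0) (P.cons (P.lf 111474 0 0) (P.lf 0 12384 0)))) (P.cons (P.cons (P.lf 6514780 0 0) (P.cons (P.lf 1736936 0 0) (P.cons (P.lf 95038 0 0) P.nil))) (P.cons (P.cons (P.lf 2019270 0 0) (P.cons (P.lf 0 123322 0) P.nil)) (P.cons (P.cons (P.lf 0 189894 0) P.nil) P.nil))))))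 130526)
 EL.nil)
noncomputable def S285_314_364_438_41 : EL := (EL.cons 14 (TM.mk (P.cons (P.cons (P.lf 4490794 0 0) (P.cons (P.lf 0 9660392 0) (P.cons (P.lf 4666668 0 0) (P.cons (P.lf 627256 0 0) (P.cons (P.lf 0 47614 0) (P.cons (P.lf 0 3456 0) P.nil)))))) (P.cons (P.cons (P.lf 0 3760544 0) (P.cons (P.lf 2445430 0 0) (P.cons (P.lf 1854000 0 0) (P.cons (P.lf 173376 0 0) (P.cons (P.lf 0 15766 0) P.nil))))) (P.cons (P.cons (P.lf 742510 0 0) (P.cons (P.lf 1390802 0 0) (P.cons (P.lf 0 505418 0) (P.cons (P.lf 0 72090 0) P.nil)))) (P.cons (P.cons (P.lf 907716 0 0) (P.cons (P.lf 0 1223378 0) (P.cons (P.lf 0 193906 0) P.nil))) (P.cons (P.cons (P.lf 0 370884 0) (P.cons (P.lf 0 178406 0) P.nil)) (P.cons (P.cons (P.lf 0 21764 0) P.nil) P.nil)))))) 410650)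
 EL.nil)
noncomputable def S285_314_364_438_42 : EL := (EL.cons 14 (TM.mk (P.cons (P.lf 303132848 0 0) (P.cons (P.lf 282013848 0 0) (P.cons (P.lf 77386344 0 0) (P.cons (P.lf 1937536 0 0) (P.cons (P.lf 0 1329912 0) (P.cons (P.lf 9556 0 0) P.nil)))))) 14366)
 EL.nil)
noncomputable def S285_314_364_438_43 : EL := (EL.cons 14 (TM.mk (P.cons (P.cons (P.lf 21130932 0 0) (P.cons (P.lf 0 22727942 0) (P.cons (P.lf 0 1243580 0) (P.lf 138174 0 0)))) (P.cons (P.cons (P.lf 4258430 0 0) (P.cons (P.lf 0 17859058 0) (P.cons (P.lf 0 977174 0) (P.lf 108574 0 0)))) (P.cons (P.cons (P.lf 0 4028428 0) (P.cons (P.lf 0 2432662 0) (P.cons (P.lf 0 133104 0) (P.lf 14788 0 0)))) (P.cons (P.cons (P.lf 1186312 0 0) (P.cons (P.lf 918094 0 0) (P.cons (P.lf 50234 0 0) P.nil))) (P.cons (P.cons (P.lf 1362668 0 0) (P.cons (P.lf 137552 0 0) P.nil)) (P.cons (P.cons (P.lf 122252 0 0) P.nil) P.nil)))))) 124936)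
 EL.nil)
noncomputable def S285_314_364_438_44 : EL := (EL.cons 14 (TM.mk (P.cons (P.cons (P.lf 1473004 0 0) (P.cons (P.lf 0 3168660 0) (P.cons (P.lf 1530692 0 0) (P.cons (P.lf 205742 0 0) (P.cons (P.lf 0 15618 0) (P.cons (P.lf 0 1132 0) P.nil)))))) (P.cons (P.cons (P.lf 0 776684 0) (P.cons (P.lf 0 180518 0) (P.cons (P.lf 1082804 0 0) (P.cons (P.lf 120670 0 0) (P.cons (P.lf 0 10014 0) P.nil))))) (P.cons (P.cons (P.lf 0 155276 0) (P.cons (P.lf 740018 0 0) (P.cons (P.lf 5856 0 0) (P.cons (P.lf 0 8288 0) P.nil)))) (P.cons (P.cons (P.lf 385530 0 0) (P.cons (P.lf 0 265696 0) (P.cons (P.lf 0 123188 0) P.nil))) (P.cons (P.cons (P.lf 0 30758 0) (P.cons (P.lf 0 188970 0) P.nil)) (P.cons (P.cons (P.lf 0 48466 0) P.nil) P.nil)))))) 248986)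
 EL.nil)
noncomputable def S285_314_364_438_45 : EL := (EL.cons 14 (TM.mk (P.cons (P.cons (P.lf 2909690 0 0) (P.cons (P.lf 0 9388788 0) (P.cons (P.lf 9584648 0 0) (P.cons (P.lf 0 2458358 0) (P.cons (P.lf 0 686854 0) (P.cons (P.lf 26796 0 0) P.nil)))))) (P.cons (P.cons (P.lf 0 6361790 0) (P.cons (P.lf 15042394 0 0) (P.cons (P.lf 0 9456228 0) (P.cons (P.lf 353766 0 0) (P.cons (P.lf 351940 0 0) P.nil))))) (P.cons (P.cons (P.lf 6662522 0 0) (P.cons (P.lf 0 11194176 0) (P.cons (P.lf 3792016 0 0) (P.cons (P.lf 472648 0 0) P.nil)))) (P.cons (P.cons (P.lf 0 3906018 0) (P.cons (P.lf 3938088 0 0) (P.cons (P.lf 0 113216 0) P.nil))) (P.cons (P.cons (P.lf 1256730 0 0) (P.cons (P.lf 0 391652 0) P.nil)) (P.cons (P.cons (P.lf 0 117180 0) P.nil) P.nil)))))) 1076284)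
 EL.nil)
noncomputable def S285_314_364_438_46 : EL := (EL.cons 15 (TM.mk (P.lf 4294967296 0 0) 0)
 EL.nil)
noncomputable def S285_314_364_438_47 : EL := (EL.cons 15 (TM.mk (P.cons (P.cons (P.lf 299395682 0 0) (P.cons (P.lf 0 322023084 0) (P.cons (P.lf 0 17619808 0) (P.lf 1957756 0 0)))) (P.cons (P.cons (P.lf 0 218201065 0) (P.cons (P.lf 46550212 0 0) (P.cons (P.lf 2547040 0 0) (P.lf 0 283004 0)))) (P.cons (P.cons (P.lf 69489703 0 0) (P.cons (P.lf 4434296 0 0) (P.cons (P.lf 242624 0 0) (P.lf 0 26956 0)))) (P.cons (P.cons (P.lf 5950572 0 0) (P.cons (P.lf 0 942704 0) (P.cons (P.lf 0 51576 0) P.nil))) (P.cons (P.cons (P.lf 0 1260627 0) (P.cons (P.lf 0 16396 0) P.nil)) (P.cons (P.cons (P.lf 0 25046 0) P.nil) P.nil)))))) 38405)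
 EL.nil)
noncomputable def S285_314_364_438_48 : EL := (EL.cons 15 (TM.mk (P.cons (P.cons (P.lf 20870420 0 0) (P.cons (P.lf 0 44895485 0) (P.cons (P.lf 21687773 0 0) (P.cons (P.lf 2915099 0 0) (P.cons (P.lf 0 221288 0) (P.cons (P.lf 0 16063 0) P.nil)))))) (P.cons (P.cons (P.lf 0 30420933 0) (P.cons (P.lf 39209943 0 0) (P.cons (P.lf 0 4834965 0) (P.cons (P.lf 0 1002254 0) (P.cons (P.lf 63976 0 0) P.nil))))) (P.cons (P.cons (P.lf 20773508 0 0) (P.cons (P.lf 0 14531884 0) (P.cons (P.lf 0 955539 0) (P.cons (P.lf 70793 0 0) P.nil)))) (P.cons (P.cons (P.lf 0 6231084 0) (P.cons (P.lf 32004 0 0) (P.cons (P.lf 239234 0 0) P.nil))) (P.cons (P.cons (P.lf 343919 0 0) (P.cons (P.lf 555012 0 0) P.nil)) (P.cons (P.cons (P.lf 317150 0 0) P.nil) P.nil)))))) 298506)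
 EL.nil)
noncomputable def S285_314_364_438 : SL := (SL.cons S285_314_364_438_0 (SL.cons S285_314_364_438_1 (SL.cons S285_314_364_438_2 (SL.cons S285_314_364_438_3 (SL.cons S285_314_364_438_4 (SL.cons S285_314_364_438_5 (SL.cons S285_314_364_438_6 (SL.cons S285_314_364_438_7 (SL.cons S285_314_364_438_8 (SL.cons S285_314_364_438_9 (SL.cons S285_314_364_438_10 (SL.cons S285_314_364_438_11 (SL.cons S285_314_364_438_12 (SL.cons S285_314_364_438_13 (SL.cons S285_314_364_438_14 (SL.cons S285_314_364_438_15 (SL.cons S285_314_364_438_16 (SL.cons S285_314_364_438_17 (SL.cons S285_314_364_438_18 (SL.cons S285_314_364_438_19 (SL.cons S285_314_364_438_20 (SL.cons S285_314_364_438_21 (SL.cons S285_314_364_438_22 (SL.cons S285_314_364_438_23 (SL.cons S285_314_364_438_24 (SL.cons S285_314_364_438_25 (SL.cons S285_314_364_438_26 (SL.cons S285_314_364_438_27 (SL.cons S285_314_364_438_28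 (SL.cons S285_314_364_438_29 (SL.cons S285_314_364_438_30 (SL.cons S285_314_364_438_31 (SL.cons S285_314_364_438_32 (SL.cons S285_314_364_438_33 (SL.cons S285_314_364_438_34 (SL.cons S285_314_364_438_35 (SL.cons S285_314_364_438_36 (SL.cons S285_314_364_438_37 (SL.cons S285_314_364_438_38 (SL.cons S285_314_364_438_39 (SL.cons S285_314_364_438_40 (SL.cons S285_314_364_438_41 (SL.cons S285_314_364_438_42 (SL.cons S285_314_364_438_43 (SL.cons S285_314_364_438_44 (SL.cons S285_314_364_438_45 (SL.cons S285_314_364_438_46 (SL.cons S285_314_364_438_47 (SL.cons S285_314_364_438_48 SL.nil)))))))))))))))))))))))))))))))))))))))))))))))))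
noncomputable def S285_314_364_512_0 : EL := (EL.cons 0 (TM.mk (P.cons (P.lf 7643457911 0 0) (P.cons (P.lf 0 503779721 0) (P.cons (P.lf 0 60126632 0) (P.cons (P.lf 7110123 0 0) (P.cons (P.lf 270363 0 0) (P.cons (P.lf 0 53070 0) P.nil)))))) 3984)
 (EL.cons 1 (TM.mk (P.cons (P.lf 1228710643 0 0) (P.cons (P.lf 321830180 0 0) (P.cons (P.lf 0 40457490 0) (P.cons (P.lf 0 2710608 0) (P.cons (P.lf 384633 0 0) (P.cons (P.lf 7027 0 0) P.nil)))))) 2881)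
 (EL.cons 5 (TM.mk (P.cons (P.lf 4583770480 0 0) (P.cons (P.lf 179121676 0 0) (P.cons (P.lf 21378358 0 0) (P.cons (P.lf 0 2528040 0) (P.cons (P.lf 0 96128 0) (P.cons (P.lf 18870 0 0) P.nil)))))) 1697)
 (EL.cons 9 (TM.mk (P.lf 6442450944 0 0) 2)
 EL.nil))))
noncomputable def S285_314_364_512_1 : EL := (EL.cons 0 (TM.mk (P.cons (P.cons (P.lf 0 732956174 0) (P.cons (P.lf 0 851961194 0) (P.cons (P.lf 0 56960143 0) (P.lf 18986718 0 0)))) (P.cons (P.cons (P.lf 95446022 0 0) (P.cons (P.lf 452886472 0 0) (P.cons (P.lf 30278921 0 0) (P.lf 0 10092970 0)))) (P.cons (P.cons (P.lf 391992192 0 0) (P.cons (P.lf 3420928 0 0) (P.cons (P.lf 228723 0 0) (P.lf 0 76236 0)))) (P.cons (P.cons (P.lf 0 13027871 0) (P.cons (P.lf 0 17376975 0) (P.cons (P.lf 0 1161775 0) P.nil))) (P.cons (P.cons (P.lf 0 12762887 0) (P.cons (P.lf 875727 0 0) P.nil)) (P.cons (P.cons (P.lf 775629 0 0) P.nil) P.nil))))))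 1393462)
 (EL.cons 1 (TM.mk (P.cons (P.cons (P.lf 413750671 0 0) (P.cons (P.lf 0 455770639 0) (P.cons (P.lf 0 30471752 0) (P.lf 10157251 0 0)))) (P.cons (P.cons (P.lf 0 510163129 0) (P.cons (P.lf 0 19914581 0) (P.cons (P.lf 0 1331442 0) (P.lf 443816 0 0)))) (P.cons (P.cons (P.lf 35586339 0 0) (P.cons (P.lf 49724666 0 0) (P.cons (P.lf 3324465 0 0) (P.lf 0 1108148 0)))) (P.cons (P.cons (P.lf 40441859 0 0) (P.cons (P.lf 0 2233147 0) (P.cons (P.lf 0 149301 0) P.nil))) (P.cons (P.cons (P.lf 0 2551880 0) (P.cons (P.lf 0 1266845 0) P.nil)) (P.cons (P.cons (P.lf 0 889993 0) P.nil) P.nil)))))) 682819)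
 (EL.cons 5 (TM.mk (P.cons (P.cons (P.lf 195514560 0 0) (P.cons (P.lf 0 891804552 0) (P.cons (P.lf 0 59623980 0) (P.lf 19874660 0 0)))) (P.cons (P.cons (P.lf 0 321893955 0) (P.cons (P.lf 11677656 0 0) (P.cons (P.lf 780744 0 0) (P.lf 0 260254 0)))) (P.cons (P.cons (P.lf 0 13337557 0) (P.cons (P.lf 15235180 0 0) (P.cons (P.lf 1018582 0 0) (P.lf 0 339528 0)))) (P.cons (P.cons (P.lf 13067560 0 0) (P.cons (P.lf 2680970 0 0) (P.cons (P.lf 179236 0 0) P.nil))) (P.cons (P.cons (P.lf 2365603 0 0) (P.cons (P.lf 0 372214 0) P.nil)) (P.cons (P.cons (P.lf 0 301345 0) P.nil) P.nil)))))) 695876)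
 (EL.cons 9 (TM.mk (P.cons (P.cons (P.lf 0 57434185 0) (P.cons (P.lf 0 1054168308 0) (P.cons (P.lf 0 70479234 0) (P.lf 23493078 0 0)))) (P.cons (P.cons (P.lf 0 254080225 0) (P.cons (P.lf 152385840 0 0) (P.cons (P.lf 10188156 0 0) (P.lf 0 3396048 0)))) (P.cons (P.cons (P.lf 111209506 0 0) (P.cons (P.lf 14516034 0 0) (P.cons (P.lf 970506 0 0) (P.lf 0 323496 0)))) (P.cons (P.cons (P.lf 7443018 0 0) (P.cons (P.lf 0 3086028 0) (P.cons (P.lf 0 206322 0) P.nil))) (P.cons (P.cons (P.lf 0 1916740 0) (P.cons (P.lf 0 53688 0) P.nil)) (P.cons (P.cons (P.lf 0 22563 0) P.nil) P.nil)))))) 153092)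
 (EL.cons 2 (TM.mk (P.cons (P.cons (P.lf 0 795210173 0) (P.cons (P.lf 0 123118503 0) (P.cons (P.lf 59314609 0 0) (P.cons (P.lf 2244636 0 0) (P.lf 0 561158 0))))) (P.cons (P.cons (P.lf 0 169968180 0) (P.cons (P.lf 0 26315341 0) (P.cons (P.lf 12677900 0 0) (P.cons (P.lf 479767 0 0) (P.lf 0 119941 0))))) (P.cons (P.cons (P.lf 41716364 0 0) (P.cons (P.lf 6458737 0 0) (P.cons (P.lf 0 3111615 0) (P.cons (P.lf 0 117750 0) P.nil)))) (P.cons (P.cons (P.lf 1656303 0 0) (P.cons (P.lf 256438 0 0) (P.cons (P.lf 0 123541 0) P.nil))) (P.cons (P.cons (P.lf 0 601579 0) (P.cons (P.lf 0 93138 0) P.nil)) (P.cons (P.cons (P.lf 1923 0 0) P.nil) P.nil)))))) 114956)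
 (EL.cons 6 (TM.mk (P.cons (P.cons (P.lf 1202920818 0 0) (P.cons (P.lf 186242349 0 0) (P.cons (P.lf 0 89725689 0) (P.cons (P.lf 0 3395481 0) (P.lf 848868 0 0))))) (P.cons (P.cons (P.lf 0 173888838 0) (P.cons (P.lf 0 26922357 0) (P.cons (P.lf 12970341 0 0) (P.cons (P.lf 490833 0 0) (P.lf 0 122706 0))))) (P.cons (P.cons (P.lf 0 16564380 0) (P.cons (P.lf 0 2564580 0) (P.cons (P.lf 1235532 0 0) (P.cons (P.lf 46755 0 0) P.nil)))) (P.cons (P.cons (P.lf 3521499 0 0) (P.cons (P.lf 545214 0 0) (P.cons (P.lf 0 262665 0) P.nil))) (P.cons (P.cons (P.lf 61266 0 0) (P.cons (P.lf 9483 0 0) P.nil)) (P.cons (P.cons (P.lf 0 35622 0) P.nil) P.nil)))))) 68205)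
 EL.nil))))))
noncomputable def S285_314_364_512_2 : EL := (EL.cons 0 (TM.mk (P.cons (P.cons (P.lf 12461071 0 0) (P.cons (P.lf 232755718 0 0) (P.cons (P.lf 89723675 0 0) (P.cons (P.lf 4729456 0 0) (P.cons (P.lf 0 2974046 0) (P.cons (P.lf 0 221008 0) P.nil)))))) (P.cons (P.cons (P.lf 50776778 0 0) (P.cons (P.lf 0 100741064 0) (P.cons (P.lf 0 122594754 0) (P.cons (P.lf 0 13247076 0) (P.cons (P.lf 4646168 0 0) P.nil))))) (P.cons (P.cons (P.lf 0 48999260 0) (P.cons (P.lf 0 128055037 0) (P.cons (P.lf 6974260 0 0) (P.cons (P.lf 4931170 0 0) P.nil)))) (P.cons (P.cons (P.lf 0 17850430 0) (P.cons (P.lf 32511698 0 0) (P.cons (P.lf 8120972 0 0) P.nil))) (P.cons (P.cons (P.lf 13197044 0 0) (P.cons (P.lf 5819619 0 0) P.nil)) (P.cons (P.cons (P.lf 927174 0 0) P.nil) P.nil)))))) 11163059)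
 (EL.cons 1 (TM.mk (P.cons (P.cons (P.lf 0 7474795 0) (P.cons (P.lf 0 130861157 0) (P.cons (P.lf 107507182 0 0) (P.cons (P.lf 18461594 0 0) (P.cons (P.lf 0 4662082 0) (P.cons (P.lf 0 346431 0) P.nil)))))) (P.cons (P.cons (P.lf 0 24428779 0) (P.cons (P.lf 206553371 0 0) (P.cons (P.lf 0 339832 0) (P.cons (P.lf 0 6495223 0) (P.cons (P.lf 567413 0 0) P.nil))))) (P.cons (P.cons (P.lf 52133849 0 0) (P.cons (P.lf 0 43583387 0) (P.cons (P.lf 0 18389588 0) (P.cons (P.lf 0 1098044 0) P.nil)))) (P.cons (P.cons (P.lf 0 18859407 0) (P.cons (P.lf 0 17256231 0) (P.cons (P.lf 1769379 0 0) P.nil))) (P.cons (P.cons (P.lf 0 3104332 0) (P.cons (P.lf 4842526 0 0) P.nil)) (P.cons (P.cons (P.lf 1797250 0 0) P.nil) P.nil)))))) 5514627)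
 (EL.cons 5 (TM.mk (P.cons (P.cons (P.lf 0 3850302 0) (P.cons (P.lf 0 61455752 0) (P.cons (P.lf 165013289 0 0) (P.cons (P.lf 23983808 0 0) (P.cons (P.lf 0 6782099 0) (P.cons (P.lf 0 503974 0) P.nil)))))) (P.cons (P.cons (P.lf 0 12919700 0) (P.cons (P.lf 126975852 0 0) (P.cons (P.lf 0 6834797 0) (P.cons (P.lf 0 4878839 0) (P.cons (P.lf 614540 0 0) P.nil))))) (P.cons (P.cons (P.lf 26531320 0 0) (P.cons (P.lf 0 9631639 0) (P.cons (P.lf 0 7466590 0) (P.cons (P.lf 0 697630 0) P.nil)))) (P.cons (P.cons (P.lf 0 3745033 0) (P.cons (P.lf 0 9593117 0) (P.cons (P.lf 0 833110 0) P.nil))) (P.cons (P.cons (P.lf 0 3143252 0) (P.cons (P.lf 0 114313 0) P.nil)) (P.cons (P.cons (P.lf 133376 0 0) P.nil) P.nil)))))) 5703150)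
 (EL.cons 9 (TM.mk (P.cons (P.cons (P.lf 512022 0 0) (P.cons (P.lf 18795733 0 0) (P.cons (P.lf 173748571 0 0) (P.cons (P.lf 22645936 0 0) (P.cons (P.lf 0 6917241 0) (P.cons (P.lf 0 514018 0) P.nil)))))) (P.cons (P.cons (P.lf 4530229 0 0) (P.cons (P.lf 80432482 0 0) (P.cons (P.lf 0 44491791 0) (P.cons (P.lf 0 8460799 0) (P.cons (P.lf 1999848 0 0) P.nil))))) (P.cons (P.cons (P.lf 8037670 0 0) (P.cons (P.lf 0 48672619 0) (P.cons (P.lf 0 4400166 0) (P.cons (P.lf 931470 0 0) P.nil)))) (P.cons (P.cons (P.lf 0 8904567 0) (P.cons (P.lf 1735228 0 0) (P.cons (P.lf 1812643 0 0) P.nil))) (P.cons (P.cons (P.lf 1366789 0 0) (P.cons (P.lf 1724896 0 0) P.nil)) (P.cons (P.cons (P.lf 408550 0 0) P.nil) P.nil)))))) 2032934)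
 (EL.cons 2 (TM.mk (P.cons (P.cons (P.lf 14178526 0 0) (P.cons (P.lf 262433216 0 0) (P.cons (P.lf 56632708 0 0) (P.cons (P.lf 0 22556981 0) (P.cons (P.lf 0 2920275 0) (P.cons (P.lf 567123 0 0) P.nil)))))) (P.cons (P.cons (P.lf 65754213 0 0) (P.cons (P.lf 28184821 0 0) (P.cons (P.lf 0 913325 0) (P.cons (P.lf 0 1743423 0) (P.cons (P.lf 0 156324 0) P.nil))))) (P.cons (P.cons (P.lf 0 14791050 0) (P.cons (P.lf 0 27566150 0) (P.cons (P.lf 0 4500016 0) (P.cons (P.lf 2228748 0 0) P.nil)))) (P.cons (P.cons (P.lf 0 11025388 0) (P.cons (P.lf 0 279680 0) (P.cons (P.lf 1138792 0 0) P.nil))) (P.cons (P.cons (P.lf 1400737 0 0) (P.cons (P.lf 856170 0 0) P.nil)) (P.cons (P.cons (P.lf 307693 0 0) P.nil) P.nil)))))) 1670821)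
 (EL.cons 6 (TM.mk (P.cons (P.cons (P.lf 0 21447972 0) (P.cons (P.lf 0 396984840 0) (P.cons (P.lf 0 85668762 0) (P.cons (P.lf 34122132 0 0) (P.cons (P.lf 4417530 0 0) (P.cons (P.lf 0 857892 0) P.nil)))))) (P.cons (P.cons (P.lf 0 91782216 0) (P.cons (P.lf 99602454 0 0) (P.cons (P.lf 32076318 0 0) (P.cons (P.lf 0 9588504 0) (P.cons (P.lf 0 1346298 0) P.nil))))) (P.cons (P.cons (P.lf 55540758 0 0) (P.cons (P.lf 11214594 0 0) (P.cons (P.lf 0 3562962 0) (P.cons (P.lf 0 383070 0) P.nil)))) (P.cons (P.cons (P.lf 0 1980084 0) (P.cons (P.lf 0 4178646 0) (P.cons (P.lf 0 710676 0) P.nil))) (P.cons (P.cons (P.lf 0 1968288 0) (P.cons (P.lf 0 86298 0) P.nil)) (P.cons (P.cons (P.lf 174144 0 0) P.nil) P.nil)))))) 1736592)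
 EL.nil))))))
noncomputable def S285_314_364_512_3 : EL := (EL.cons 0 (TM.mk (P.cons (P.lf 812258952 0 0) (P.cons (P.lf 503779721 0 0) (P.cons (P.lf 60126632 0 0) (P.cons (P.lf 0 7110123 0) (P.cons (P.lf 0 270363 0) (P.cons (P.lf 53070 0 0) P.nil)))))) 3984)
 (EL.cons 1 (TM.mk (P.cons (P.lf 0 1228710643 0) (P.cons (P.lf 0 321830180 0) (P.cons (P.lf 40457490 0 0) (P.cons (P.lf 2710608 0 0) (P.cons (P.lf 0 384633 0) (P.cons (P.lf 0 7027 0) P.nil)))))) 2881)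
 (EL.cons 5 (TM.mk (P.cons (P.lf 1858680464 0 0) (P.cons (P.lf 0 179121676 0) (P.cons (P.lf 0 21378358 0) (P.cons (P.lf 2528040 0 0) (P.cons (P.lf 96128 0 0) (P.cons (P.lf 0 18870 0) P.nil)))))) 1690)
 EL.nil)))
noncomputable def S285_314_364_512_4 : EL := (EL.cons 0 (TM.mk (P.cons (P.cons (P.lf 0 7241254 0) (P.cons (P.lf 0 132908677 0) (P.cons (P.lf 0 8885963 0) (P.lf 2961987 0 0)))) (P.cons (P.cons (P.lf 0 36525401 0) (P.cons (P.lf 0 63220014 0) (P.cons (P.lf 0 4226742 0) (P.lf 1408914 0 0)))) (P.cons (P.cons (P.lf 0 6383109 0) (P.cons (P.lf 3907842 0 0) (P.cons (P.lf 261267 0 0) (P.lf 0 87087 0)))) (P.cons (P.cons (P.lf 7326733 0 0) (P.cons (P.lf 3331641 0 0) (P.cons (P.lf 222744 0 0) P.nil))) (P.cons (P.cons (P.lf 1661087 0 0) (P.cons (P.lf 0 236548 0) P.nil)) (P.cons (P.cons (P.lf 0 195808 0) P.nil) P.nil)))))) 277765)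
 (EL.cons 1 (TM.mk (P.cons (P.cons (P.lf 10953903 0 0) (P.cons (P.lf 201052025 0 0) (P.cons (P.lf 13441867 0 0) (P.lf 0 4480621 0)))) (P.cons (P.cons (P.lf 51327534 0 0) (P.cons (P.lf 23597396 0 0) (P.cons (P.lf 1577666 0 0) (P.lf 0 525888 0)))) (P.cons (P.cons (P.lf 0 8878181 0) (P.cons (P.lf 0 17000885 0) (P.cons (P.lf 0 1136636 0) (P.lf 378877 0 0)))) (P.cons (P.cons (P.lf 0 8594711 0) (P.cons (P.lf 376850 0 0) (P.cons (P.lf 25194 0 0) P.nil))) (P.cons (P.cons (P.lf 588652 0 0) (P.cons (P.lf 382610 0 0) P.nil)) (P.cons (P.cons (P.lf 208815 0 0) P.nil) P.nil)))))) 186964)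
 (EL.cons 5 (TM.mk (P.cons (P.cons (P.lf 0 16570058 0) (P.cons (P.lf 0 304133016 0) (P.cons (P.lf 0 20333622 0) (P.lf 6777874 0 0)))) (P.cons (P.cons (P.lf 0 71706598 0) (P.cons (P.lf 73273506 0 0) (P.cons (P.lf 4898892 0 0) (P.lf 0 1632962 0)))) (P.cons (P.cons (P.lf 39339384 0 0) (P.cons (P.lf 3449222 0 0) (P.cons (P.lf 230606 0 0) (P.lf 0 76866 0)))) (P.cons (P.cons (P.lf 0 124054 0) (P.cons (P.lf 0 2213258 0) (P.cons (P.lf 0 147970 0) P.nil))) (P.cons (P.cons (P.lf 0 1229520 0) (P.cons (P.lf 66208 0 0) P.nil)) (P.cons (P.cons (P.lf 62098 0 0) P.nil) P.nil)))))) 139374)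
 EL.nil)))
noncomputable def S285_314_364_512_5 : EL := (EL.cons 0 (TM.mk (P.cons (P.cons (P.lf 64553 0 0) (P.cons (P.lf 2369749 0 0) (P.cons (P.lf 21906077 0 0) (P.cons (P.lf 2855179 0 0) (P.cons (P.lf 0 872119 0) (P.cons (P.lf 0 64807 0) P.nil)))))) (P.cons (P.cons (P.lf 611205 0 0) (P.cons (P.lf 11610629 0 0) (P.cons (P.lf 7977111 0 0) (P.cons (P.lf 704111 0 0) (P.cons (P.lf 0 288766 0) P.nil))))) (P.cons (P.cons (P.lf 1372410 0 0) (P.cons (P.lf 328383 0 0) (P.cons (P.lf 0 2412314 0) (P.cons (P.lf 0 332817 0) P.nil)))) (P.cons (P.cons (P.lf 0 452443 0) (P.cons (P.lf 0 2857347 0) (P.cons (P.lf 0 722533 0) P.nil))) (P.cons (P.cons (P.lf 0 453991 0) (P.cons (P.lf 0 190648 0) P.nil)) (P.cons (P.cons (P.lf 66225 0 0) P.nil) P.nil)))))) 1489622)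
 (EL.cons 1 (TM.mk (P.cons (P.cons (P.lf 0 97651 0) (P.cons (P.lf 0 3584739 0) (P.cons (P.lf 0 33137499 0) (P.cons (P.lf 0 4319053 0) (P.cons (P.lf 1319261 0 0) (P.cons (P.lf 98032 0 0) P.nil)))))) (P.cons (P.cons (P.lf 0 889586 0) (P.cons (P.lf 0 16279095 0) (P.cons (P.lf 0 194023 0) (P.cons (P.lf 482381 0 0) (P.cons (P.lf 0 35865 0) P.nil))))) (P.cons (P.cons (P.lf 0 1756040 0) (P.cons (P.lf 5382948 0 0) (P.cons (P.lf 4152885 0 0) (P.cons (P.lf 387215 0 0) P.nil)))) (P.cons (P.cons (P.lf 1325431 0 0) (P.cons (P.lf 2613485 0 0) (P.cons (P.lf 0 332195 0) P.nil))) (P.cons (P.cons (P.lf 236499 0 0) (P.cons (P.lf 0 688591 0) P.nil)) (P.cons (P.cons (P.lf 0 199003 0) P.nil) P.nil)))))) 1246345)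
 (EL.cons 5 (TM.mk (P.cons (P.cons (P.lf 147720 0 0) (P.cons (P.lf 5422666 0 0) (P.cons (P.lf 50127362 0 0) (P.cons (P.lf 6533468 0 0) (P.cons (P.lf 0 1995658 0) (P.cons (P.lf 0 148296 0) P.nil)))))) (P.cons (P.cons (P.lf 1292758 0 0) (P.cons (P.lf 22682602 0 0) (P.cons (P.lf 0 17666902 0) (P.cons (P.lf 0 3070616 0) (P.cons (P.lf 769288 0 0) P.nil))))) (P.cons (P.cons (P.lf 2191254 0 0) (P.cons (P.lf 0 16340964 0) (P.cons (P.lf 0 609008 0) (P.cons (P.lf 428824 0 0) P.nil)))) (P.cons (P.cons (P.lf 0 2807318 0) (P.cons (P.lf 1594354 0 0) (P.cons (P.lf 861114 0 0) P.nil))) (P.cons (P.cons (P.lf 617014 0 0) (P.cons (P.lf 642750 0 0) P.nil)) (P.cons (P.cons (P.lf 112634 0 0) P.nil) P.nil)))))) 1055068)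
 EL.nil)))
noncomputable def S285_314_364_512_6 : EL := (EL.cons 12 (TM.mk (P.lf 8589934592 0 0) 0)
 (EL.cons 3 (TM.mk (P.cons (P.lf 1320724353 0 0) (P.cons (P.lf 409570215 0 0) (P.cons (P.lf 0 14623338 0) (P.cons (P.lf 0 1245645 0) (P.cons (P.lf 85526 0 0) (P.cons (P.lf 2831 0 0) P.nil)))))) 532)
 (EL.cons 7 (TM.mk (P.cons (P.lf 0 1997870342 0) (P.cons (P.lf 96267727 0 0) (P.cons (P.lf 13808992 0 0) (P.cons (P.lf 0 693290 0) (P.cons (P.lf 0 37347 0) (P.cons (P.lf 3551 0 0) P.nil)))))) 296)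
 EL.nil)))
noncomputable def S285_314_364_512_7 : EL := (EL.cons 12 (TM.mk (P.cons (P.cons (P.lf 0 76578914 0) (P.cons (P.lf 0 1405557744 0) (P.cons (P.lf 0 93972312 0) (P.lf 31324104 0 0)))) (P.cons (P.cons (P.lf 0 338773634 0) (P.cons (P.lf 203181120 0 0) (P.cons (P.lf 13584208 0 0) (P.lf 0 4528064 0)))) (P.cons (P.cons (P.lf 148279342 0 0) (P.cons (P.lf 19354712 0 0) (P.cons (P.lf 1294008 0 0) (P.lf 0 431328 0)))) (P.cons (P.cons (P.lf 9924024 0 0) (P.cons (P.lf 0 4114704 0) (P.cons (P.lf 0 275096 0) P.nil))) (P.cons (P.cons (P.lf 0 2555654 0) (P.cons (P.lf 0 71584 0) P.nil)) (P.cons (P.cons (P.lf 0 30084 0) P.nil) P.nil)))))) 204098)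
 (EL.cons 3 (TM.mk (P.cons (P.cons (P.lf 0 1092756370 0) (P.cons (P.lf 432216176 0 0) (P.cons (P.lf 28896962 0 0) (P.lf 0 9632320 0)))) (P.cons (P.cons (P.lf 917524773 0 0) (P.cons (P.lf 71555452 0 0) (P.cons (P.lf 4784032 0 0) (P.lf 0 1594678 0)))) (P.cons (P.cons (P.lf 82650846 0 0) (P.cons (P.lf 0 30112712 0) (P.cons (P.lf 0 2013262 0) (P.lf 671084 0 0)))) (P.cons (P.cons (P.lf 0 29743522 0) (P.cons (P.lf 0 296244 0) (P.cons (P.lf 0 19804 0) P.nil))) (P.cons (P.cons (P.lf 0 184935 0) (P.cons (P.lf 567206 0 0) P.nil)) (P.cons (P.cons (P.lf 421460 0 0) P.nil) P.nil)))))) 493042)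
 (EL.cons 7 (TM.mk (P.cons (P.cons (P.lf 0 236269304 0) (P.cons (P.lf 479294290 0 0) (P.cons (P.lf 32044506 0 0) (P.lf 0 10681502 0)))) (P.cons (P.cons (P.lf 215660278 0 0) (P.cons (P.lf 16818801 0 0) (P.cons (P.lf 1124463 0 0) (P.lf 0 374819 0)))) (P.cons (P.cons (P.lf 58061776 0 0) (P.cons (P.lf 0 4064818 0) (P.cons (P.lf 0 271764 0) (P.lf 90590 0 0)))) (P.cons (P.cons (P.lf 0 1408737 0) (P.cons (P.lf 0 1686806 0) (P.cons (P.lf 0 112774 0) P.nil))) (P.cons (P.cons (P.lf 0 1696835 0) (P.cons (P.lf 75876 0 0) P.nil)) (P.cons (P.cons (P.lf 50069 0 0) P.nil) P.nil)))))) 420583)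
 (EL.cons 10 (TM.mk (P.cons (P.cons (P.lf 0 2586006444 0) (P.cons (P.lf 0 400378737 0) (P.cons (P.lf 192889848 0 0) (P.cons (P.lf 7299519 0 0) (P.lf 0 1824879 0))))) (P.cons (P.cons (P.lf 249214329 0 0) (P.cons (P.lf 38584635 0 0) (P.cons (P.lf 0 18588861 0) (P.cons (P.lf 0 703455 0) (P.lf 175863 0 0))))) (P.cons (P.cons (P.lf 29743989 0 0) (P.cons (P.lf 4605114 0 0) (P.cons (P.lf 0 2218599 0) (P.cons (P.lf 0 83958 0) P.nil)))) (P.cons (P.cons (P.lf 0 3517293 0) (P.cons (P.lf 0 544563 0) (P.cons (P.lf 262353 0 0) P.nil))) (P.cons (P.cons (P.lf 0 133743 0) (P.cons (P.lf 0 20706 0) P.nil)) (P.cons (P.cons (P.lf 26253 0 0) P.nil) P.nil)))))) 52971)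
 EL.nil))))
noncomputable def S285_314_364_512_8 : EL := (EL.cons 12 (TM.mk (P.cons (P.cons (P.lf 682696 0 0) (P.cons (P.lf 25060978 0 0) (P.cons (P.lf 231664762 0 0) (P.cons (P.lf 30194582 0 0) (P.cons (P.lf 0 9222988 0) (P.cons (P.lf 0 685358 0) P.nil)))))) (P.cons (P.cons (P.lf 6040306 0 0) (P.cons (P.lf 107243310 0 0) (P.cons (P.lf 0 59322388 0) (P.cons (P.lf 0 11281066 0) (P.cons (P.lf 2666464 0 0) P.nil))))) (P.cons (P.cons (P.lf 10716894 0 0) (P.cons (P.lf 0 64896826 0) (P.cons (P.lf 0 5866888 0) (P.cons (P.lf 1241960 0 0) P.nil)))) (P.cons (P.cons (P.lf 0 11872756 0) (P.cons (P.lf 2313638 0 0) (P.cons (P.lf 2416858 0 0) P.nil))) (P.cons (P.cons (P.lf 1822386 0 0) (P.cons (P.lf 2299862 0 0) P.nil)) (P.cons (P.cons (P.lf 544734 0 0) P.nil) P.nil)))))) 2710550)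
 (EL.cons 3 (TM.mk (P.cons (P.cons (P.lf 19378784 0 0) (P.cons (P.lf 346052502 0 0) (P.cons (P.lf 0 153670897 0) (P.cons (P.lf 0 31353913 0) (P.cons (P.lf 7090291 0 0) (P.cons (P.lf 526875 0 0) P.nil)))))) (P.cons (P.cons (P.lf 68872556 0 0) (P.cons (P.lf 0 405012663 0) (P.cons (P.lf 0 30791018 0) (P.cons (P.lf 8529603 0 0) (P.cons (P.lf 148891 0 0) P.nil))))) (P.cons (P.cons (P.lf 0 113506034 0) (P.cons (P.lf 26154709 0 0) (P.cons (P.lf 20732860 0 0) (P.cons (P.lf 1955595 0 0) P.nil)))) (P.cons (P.cons (P.lf 24487605 0 0) (P.cons (P.lf 27599629 0 0) (P.cons (P.lf 71237 0 0) P.nil))) (P.cons (P.cons (P.lf 8278096 0 0) (P.cons (P.lf 0 3512200 0) P.nil)) (P.cons (P.cons (P.lf 0 1556487 0) P.nil) P.nil)))))) 6681463)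
 (EL.cons 7 (TM.mk (P.cons (P.cons (P.lf 4371445 0 0) (P.cons (P.lf 74603734 0 0) (P.cons (P.lf 0 98373014 0) (P.cons (P.lf 0 15483541 0) (P.cons (P.lf 4144955 0 0) (P.cons (P.lf 308010 0 0) P.nil)))))) (P.cons (P.cons (P.lf 16188199 0 0) (P.cons (P.lf 0 95196491 0) (P.cons (P.lf 0 7237296 0) (P.cons (P.lf 2004848 0 0) (P.cons (P.lf 34991 0 0) P.nil))))) (P.cons (P.cons (P.lf 0 23779026 0) (P.cons (P.lf 0 10906677 0) (P.cons (P.lf 3576623 0 0) (P.cons (P.lf 818819 0 0) P.nil)))) (P.cons (P.cons (P.lf 0 546249 0) (P.cons (P.lf 7539776 0 0) (P.cons (P.lf 1149148 0 0) P.nil))) (P.cons (P.cons (P.lf 3324964 0 0) (P.cons (P.lf 914734 0 0) P.nil)) (P.cons (P.cons (P.lf 218049 0 0) P.nil) P.nil)))))) 3066349)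
 (EL.cons 10 (TM.mk (P.cons (P.cons (P.lf 46108278 0 0) (P.cons (P.lf 853427208 0 0) (P.cons (P.lf 184168374 0 0) (P.cons (P.lf 0 73354836 0) (P.cons (P.lf 0 9496686 0) (P.cons (P.lf 1844274 0 0) P.nil)))))) (P.cons (P.cons (P.lf 199532652 0 0) (P.cons (P.lf 0 173000112 0) (P.cons (P.lf 0 60082620 0) (P.cons (P.lf 17078490 0 0) (P.cons (P.lf 2436636 0 0) P.nil))))) (P.cons (P.cons (P.lf 0 109466802 0) (P.cons (P.lf 0 26546106 0) (P.cons (P.lf 6037422 0 0) (P.cons (P.lf 1139436 0 0) P.nil)))) (P.cons (P.cons (P.lf 345198 0 0) (P.cons (P.lf 6212118 0 0) (P.cons (P.lf 1339518 0 0) P.nil))) (P.cons (P.cons (P.lf 3421296 0 0) (P.cons (P.lf 345462 0 0) P.nil)) (P.cons (P.cons (P.lf 0 172800 0) P.nil) P.nil)))))) 2796108)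
 EL.nil))))
noncomputable def S285_314_364_512_9 : EL := (EL.cons 3 (TM.mk (P.cons (P.lf 1320724353 0 0) (P.cons (P.lf 409570215 0 0) (P.cons (P.lf 0 14623338 0) (P.cons (P.lf 0 1245645 0) (P.cons (P.lf 85526 0 0) (P.cons (P.lf 2831 0 0) P.nil)))))) 532)
 (EL.cons 7 (TM.mk (P.cons (P.lf 0 1997870342 0) (P.cons (P.lf 96267727 0 0) (P.cons (P.lf 13808992 0 0) (P.cons (P.lf 0 693290 0) (P.cons (P.lf 0 37347 0) (P.cons (P.lf 3551 0 0) P.nil)))))) 296)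
 EL.nil))
noncomputable def S285_314_364_512_10 : EL := (EL.cons 3 (TM.mk (P.cons (P.cons (P.lf 0 11774203 0) (P.cons (P.lf 0 216108088 0) (P.cons (P.lf 0 14448481 0) (P.lf 4816160 0 0)))) (P.cons (P.cons (P.lf 0 55738611 0) (P.cons (P.lf 0 35777726 0) (P.cons (P.lf 0 2392016 0) (P.lf 797339 0 0)))) (P.cons (P.cons (P.lf 6775881 0 0) (P.cons (P.lf 15056356 0 0) (P.cons (P.lf 1006631 0 0) (P.lf 0 335542 0)))) (P.cons (P.cons (P.lf 9183665 0 0) (P.cons (P.lf 148122 0 0) (P.cons (P.lf 9902 0 0) P.nil))) (P.cons (P.cons (P.lf 0 123822 0) (P.cons (P.lf 0 283603 0) P.nil)) (P.cons (P.cons (P.lf 0 168274 0) P.nil) P.nil)))))) 121587)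
 (EL.cons 7 (TM.mk (P.cons (P.cons (P.lf 17810932 0 0) (P.cons (P.lf 326908441 0 0) (P.cons (P.lf 21856335 0 0) (P.lf 0 7285445 0)))) (P.cons (P.cons (P.lf 77934670 0 0) (P.cons (P.lf 0 63008556 0) (P.cons (P.lf 0 4212603 0) (P.lf 1404199 0 0)))) (P.cons (P.cons (P.lf 0 38406968 0) (P.cons (P.lf 0 4484056 0) (P.cons (P.lf 0 299793 0) (P.lf 99929 0 0)))) (P.cons (P.cons (P.lf 0 1184808 0) (P.cons (P.lf 1613989 0 0) (P.cons (P.lf 107906 0 0) P.nil))) (P.cons (P.cons (P.lf 971665 0 0) (P.cons (P.lf 0 8637 0) P.nil)) (P.cons (P.cons (P.lf 0 16216 0) P.nil) P.nil)))))) 90960)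
 EL.nil))
noncomputable def S285_314_364_512_11 : EL := (EL.cons 3 (TM.mk (P.cons (P.cons (P.lf 104966 0 0) (P.cons (P.lf 3853188 0 0) (P.cons (P.lf 35619047 0 0) (P.cons (P.lf 4642493 0 0) (P.cons (P.lf 0 1418057 0) (P.cons (P.lf 0 105375 0) P.nil)))))) (P.cons (P.cons (P.lf 961262 0 0) (P.cons (P.lf 17683845 0 0) (P.cons (P.lf 1924864 0 0) (P.cons (P.lf 0 294807 0) (P.cons (P.lf 0 29777 0) P.nil))))) (P.cons (P.cons (P.lf 1934590 0 0) (P.cons (P.lf 0 4907327 0) (P.cons (P.lf 0 4124936 0) (P.cons (P.lf 0 398331 0) P.nil)))) (P.cons (P.cons (P.lf 0 1324863 0) (P.cons (P.lf 0 2924771 0) (P.cons (P.lf 159257 0 0) P.nil))) (P.cons (P.cons (P.lf 0 305012 0) (P.cons (P.lf 559100 0 0) P.nil)) (P.cons (P.cons (P.lf 189363 0 0) P.nil) P.nil)))))) 1125417)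
 (EL.cons 7 (TM.mk (P.cons (P.cons (P.lf 0 158783 0) (P.cons (P.lf 0 5828750 0) (P.cons (P.lf 0 53881220 0) (P.cons (P.lf 0 7022737 0) (P.cons (P.lf 2145107 0 0) (P.cons (P.lf 159402 0 0) P.nil)))))) (P.cons (P.cons (P.lf 0 1397219 0) (P.cons (P.lf 0 24662081 0) (P.cons (P.lf 16393638 0 0) (P.cons (P.lf 2962172 0 0) (P.cons (P.lf 0 723535 0) P.nil))))) (P.cons (P.cons (P.lf 0 2423772 0) (P.cons (P.lf 16336047 0 0) (P.cons (P.lf 1072127 0 0) (P.cons (P.lf 0 366745 0) P.nil)))) (P.cons (P.cons (P.lf 2891157 0 0) (P.cons (P.lf 0 1095034 0) (P.cons (P.lf 0 741932 0) P.nil))) (P.cons (P.cons (P.lf 0 540176 0) (P.cons (P.lf 0 622070 0) P.nil)) (P.cons (P.cons (P.lf 0 126249 0) P.nil) P.nil)))))) 860109)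
 EL.nil))
noncomputable def S285_314_364_512_12 : EL := (EL.cons 4 (TM.mk (P.cons (P.lf 0 1320724353 0) (P.cons (P.lf 0 409570215 0) (P.cons (P.lf 14623338 0 0) (P.cons (P.lf 1245645 0 0) (P.cons (P.lf 0 85526 0) (P.cons (P.lf 0 2831 0) P.nil)))))) 532)
 (EL.cons 8 (TM.mk (P.cons (P.lf 1997870342 0 0) (P.cons (P.lf 0 96267727 0) (P.cons (P.lf 0 13808992 0) (P.cons (P.lf 693290 0 0) (P.cons (P.lf 37347 0 0) (P.cons (P.lf 0 3551 0) P.nil)))))) 296)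
 EL.nil))
noncomputable def S285_314_364_512_13 : EL := (EL.cons 4 (TM.mk (P.cons (P.cons (P.lf 11774203 0 0) (P.cons (P.lf 216108088 0 0) (P.cons (P.lf 14448481 0 0) (P.lf 0 4816160 0)))) (P.cons (P.cons (P.lf 55738611 0 0) (P.cons (P.lf 35777726 0 0) (P.cons (P.lf 2392016 0 0) (P.lf 0 797339 0)))) (P.cons (P.cons (P.lf 0 6775881 0) (P.cons (P.lf 0 15056356 0) (P.cons (P.lf 0 1006631 0) (P.lf 335542 0 0)))) (P.cons (P.cons (P.lf 0 9183665 0) (P.cons (P.lf 0 148122 0) (P.cons (P.lf 0 9902 0) P.nil))) (P.cons (P.cons (P.lf 123822 0 0) (P.cons (P.lf 283603 0 0) P.nil)) (P.cons (P.cons (P.lf 168274 0 0) P.nil) P.nil)))))) 121587)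
 (EL.cons 8 (TM.mk (P.cons (P.cons (P.lf 0 17810932 0) (P.cons (P.lf 0 326908441 0) (P.cons (P.lf 0 21856335 0) (P.lf 7285445 0 0)))) (P.cons (P.cons (P.lf 0 77934670 0) (P.cons (P.lf 63008556 0 0) (P.cons (P.lf 4212603 0 0) (P.lf 0 1404199 0)))) (P.cons (P.cons (P.lf 38406968 0 0) (P.cons (P.lf 4484056 0 0) (P.cons (P.lf 299793 0 0) (P.lf 0 99929 0)))) (P.cons (P.cons (P.lf 1184808 0 0) (P.cons (P.lf 0 1613989 0) (P.cons (P.lf 0 107906 0) P.nil))) (P.cons (P.cons (P.lf 0 971665 0) (P.cons (P.lf 8637 0 0) P.nil)) (P.cons (P.cons (P.lf 16216 0 0) P.nil) P.nil)))))) 90960)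
 EL.nil))
noncomputable def S285_314_364_512_14 : EL := (EL.cons 4 (TM.mk (P.cons (P.cons (P.lf 0 104966 0) (P.cons (P.lf 0 3853188 0) (P.cons (P.lf 0 35619047 0) (P.cons (P.lf 0 4642493 0) (P.cons (P.lf 1418057 0 0) (P.cons (P.lf 105375 0 0) P.nil)))))) (P.cons (P.cons (P.lf 0 961262 0) (P.cons (P.lf 0 17683845 0) (P.cons (P.lf 0 1924864 0) (P.cons (P.lf 294807 0 0) (P.cons (P.lf 29777 0 0) P.nil))))) (P.cons (P.cons (P.lf 0 1934590 0) (P.cons (P.lf 4907327 0 0) (P.cons (P.lf 4124936 0 0) (P.cons (P.lf 398331 0 0) P.nil)))) (P.cons (P.cons (P.lf 1324863 0 0) (P.cons (P.lf 2924771 0 0) (P.cons (P.lf 0 159257 0) P.nil))) (P.cons (P.cons (P.lf 305012 0 0) (P.cons (P.lf 0 559100 0) P.nil)) (P.cons (P.cons (P.lf 0 189363 0) P.nil) P.nil)))))) 1125417)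
 (EL.cons 8 (TM.mk (P.cons (P.cons (P.lf 158783 0 0) (P.cons (P.lf 5828750 0 0) (P.cons (P.lf 53881220 0 0) (P.cons (P.lf 7022737 0 0) (P.cons (P.lf 0 2145107 0) (P.cons (P.lf 0 159402 0) P.nil)))))) (P.cons (P.cons (P.lf 1397219 0 0) (P.cons (P.lf 24662081 0 0) (P.cons (P.lf 0 16393638 0) (P.cons (P.lf 0 2962172 0) (P.cons (P.lf 723535 0 0) P.nil))))) (P.cons (P.cons (P.lf 2423772 0 0) (P.cons (P.lf 0 16336047 0) (P.cons (P.lf 0 1072127 0) (P.cons (P.lf 366745 0 0) P.nil)))) (P.cons (P.cons (P.lf 0 2891157 0) (P.cons (P.lf 1095034 0 0) (P.cons (P.lf 741932 0 0) P.nil))) (P.cons (P.cons (P.lf 540176 0 0) (P.cons (P.lf 622070 0 0) P.nil)) (P.cons (P.cons (P.lf 126249 0 0) P.nil) P.nil)))))) 860109)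
 EL.nil))
noncomputable def S285_314_364_512_15 : EL := (EL.cons 4 (TM.mk (P.cons (P.lf 0 433204774 0) (P.cons (P.lf 0 268682518 0) (P.cons (P.lf 0 32067537 0) (P.cons (P.lf 3792065 0 0) (P.cons (P.lf 144194 0 0) (P.cons (P.lf 0 28304 0) P.nil)))))) 2128)
 (EL.cons 8 (TM.mk (P.cons (P.lf 655312343 0 0) (P.cons (P.lf 171642763 0 0) (P.cons (P.lf 0 21577328 0) (P.cons (P.lf 0 1445658 0) (P.cons (P.lf 205138 0 0) (P.cons (P.lf 3748 0 0) P.nil)))))) 1533)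
 EL.nil))
noncomputable def S285_314_364_512_16 : EL := (EL.cons 4 (TM.mk (P.cons (P.cons (P.lf 3862002 0 0) (P.cons (P.lf 70884628 0 0) (P.cons (P.lf 4739180 0 0) (P.lf 0 1579726 0)))) (P.cons (P.cons (P.lf 19480214 0 0) (P.cons (P.lf 33717341 0 0) (P.cons (P.lf 2254262 0 0) (P.lf 0 751421 0)))) (P.cons (P.cons (P.lf 3404325 0 0) (P.cons (P.lf 0 2084182 0) (P.cons (P.lf 0 139342 0) (P.lf 46446 0 0)))) (P.cons (P.cons (P.lf 0 3907590 0) (P.cons (P.lf 0 1776875 0) (P.cons (P.lf 0 118797 0) P.nil))) (P.cons (P.cons (P.lf 0 885913 0) (P.cons (P.lf 126159 0 0) P.nil)) (P.cons (P.cons (P.lf 104430 0 0) P.nil) P.nil)))))) 148150)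
 (EL.cons 8 (TM.mk (P.cons (P.cons (P.lf 0 5842082 0) (P.cons (P.lf 0 107227747 0) (P.cons (P.lf 0 7168996 0) (P.lf 2389665 0 0)))) (P.cons (P.cons (P.lf 0 27374685 0) (P.cons (P.lf 0 12585278 0) (P.cons (P.lf 0 841422 0) (P.lf 280474 0 0)))) (P.cons (P.cons (P.lf 4735030 0 0) (P.cons (P.lf 9067139 0 0) (P.cons (P.lf 606206 0 0) (P.lf 0 202068 0)))) (P.cons (P.cons (P.lf 4583846 0 0) (P.cons (P.lf 0 200987 0) (P.cons (P.lf 0 13437 0) P.nil))) (P.cons (P.cons (P.lf 0 313948 0) (P.cons (P.lf 0 204059 0) P.nil)) (P.cons (P.cons (P.lf 0 111368 0) P.nil) P.nil)))))) 99704)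
 EL.nil))
noncomputable def S285_314_364_512_17 : EL := (EL.cons 4 (TM.mk (P.cons (P.cons (P.lf 0 34428 0) (P.cons (P.lf 0 1263866 0) (P.cons (P.lf 0 11683241 0) (P.cons (P.lf 0 1522762 0) (P.cons (P.lf 465130 0 0) (P.cons (P.lf 34563 0 0) P.nil)))))) (P.cons (P.cons (P.lf 0 325976 0) (P.cons (P.lf 0 6192335 0) (P.cons (P.lf 0 4254459 0) (P.cons (P.lf 0 375525 0) (P.cons (P.lf 154008 0 0) P.nil))))) (P.cons (P.cons (P.lf 0 731952 0) (P.cons (P.lf 0 175138 0) (P.cons (P.lf 1286567 0 0) (P.cons (P.lf 177502 0 0) P.nil)))) (P.cons (P.cons (P.lf 241303 0 0) (P.cons (P.lf 1523918 0 0) (P.cons (P.lf 385350 0 0) P.nil))) (P.cons (P.cons (P.lf 242129 0 0) (P.cons (P.lf 101679 0 0) P.nil)) (P.cons (P.cons (P.lf 0 35320 0) P.nil) P.nil)))))) 794475)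
 (EL.cons 8 (TM.mk (P.cons (P.cons (P.lf 52081 0 0) (P.cons (P.lf 1911861 0 0) (P.cons (P.lf 17673333 0 0) (P.cons (P.lf 2303495 0 0) (P.cons (P.lf 0 703606 0) (P.cons (P.lf 0 52284 0) P.nil)))))) (P.cons (P.cons (P.lf 474446 0 0) (P.cons (P.lf 8682184 0 0) (P.cons (P.lf 103479 0 0) (P.cons (P.lf 0 257270 0) (P.cons (P.lf 19128 0 0) P.nil))))) (P.cons (P.cons (P.lf 936555 0 0) (P.cons (P.lf 0 2870906 0) (P.cons (P.lf 0 2214872 0) (P.cons (P.lf 0 206515 0) P.nil)))) (P.cons (P.cons (P.lf 0 706897 0) (P.cons (P.lf 0 1393859 0) (P.cons (P.lf 177171 0 0) P.nil))) (P.cons (P.cons (P.lf 0 126133 0) (P.cons (P.lf 367249 0 0) P.nil)) (P.cons (P.cons (P.lf 106135 0 0) P.nil) P.nil)))))) 664706)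
 EL.nil))
noncomputable def S285_314_364_512_18 : EL := (EL.cons 4 (TM.mk (P.cons (P.lf 0 142093522 0) (P.cons (P.lf 0 132193991 0) (P.cons (P.lf 0 36274848 0) (P.cons (P.lf 0 908220 0) (P.cons (P.lf 623396 0 0) (P.cons (P.lf 0 4479 0) P.nil)))))) 6741)
 (EL.cons 8 (TM.mk (P.cons (P.lf 214946014 0 0) (P.cons (P.lf 122956731 0 0) (P.cons (P.lf 8001726 0 0) (P.cons (P.lf 0 3495072 0) (P.cons (P.lf 0 40579 0) (P.cons (P.lf 38127 0 0) P.nil)))))) 3726)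
 EL.nil))
noncomputable def S285_314_364_512_19 : EL := (EL.cons 4 (TM.mk (P.cons (P.cons (P.lf 1266757 0 0) (P.cons (P.lf 23250543 0 0) (P.cons (P.lf 1554476 0 0) (P.lf 0 518158 0)))) (P.cons (P.cons (P.lf 6782450 0 0) (P.cons (P.lf 18269703 0 0) (P.cons (P.lf 1221469 0 0) (P.lf 0 407156 0)))) (P.cons (P.cons (P.lf 3084096 0 0) (P.cons (P.lf 2488597 0 0) (P.cons (P.lf 166381 0 0) (P.lf 0 55460 0)))) (P.cons (P.cons (P.lf 0 1007371 0) (P.cons (P.lf 0 939205 0) (P.cons (P.lf 0 62792 0) P.nil))) (P.cons (P.cons (P.lf 0 706364 0) (P.cons (P.lf 0 140714 0) P.nil)) (P.cons (P.cons (P.lf 0 42303 0) P.nil) P.nil)))))) 127013)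
 (EL.cons 8 (TM.mk (P.cons (P.cons (P.lf 0 1916234 0) (P.cons (P.lf 0 35171284 0) (P.cons (P.lf 0 2351469 0) (P.lf 783823 0 0)))) (P.cons (P.cons (P.lf 0 9573289 0) (P.cons (P.lf 0 15035016 0) (P.cons (P.lf 0 1005206 0) (P.lf 335068 0 0)))) (P.cons (P.cons (P.lf 0 1210161 0) (P.cons (P.lf 2083347 0 0) (P.cons (P.lf 139287 0 0) (P.lf 0 46428 0)))) (P.cons (P.cons (P.lf 2086388 0 0) (P.cons (P.lf 935243 0 0) (P.cons (P.lf 62527 0 0) P.nil))) (P.cons (P.cons (P.lf 354430 0 0) (P.cons (P.lf 0 118690 0) P.nil)) (P.cons (P.cons (P.lf 0 87161 0) P.nil) P.nil)))))) 103630)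
 EL.nil))
noncomputable def S285_314_364_512_20 : EL := (EL.cons 4 (TM.mk (P.cons (P.cons (P.lf 0 11292 0) (P.cons (P.lf 0 414555 0) (P.cons (P.lf 0 3832166 0) (P.cons (P.lf 0 499473 0) (P.cons (P.lf 152565 0 0) (P.cons (P.lf 11336 0 0) P.nil)))))) (P.cons (P.cons (P.lf 0 110423 0) (P.cons (P.lf 0 2159677 0) (P.cons (P.lf 0 2583879 0) (P.cons (P.lf 0 278066 0) (P.cons (P.lf 97827 0 0) P.nil))))) (P.cons (P.cons (P.lf 0 273116 0) (P.cons (P.lf 0 682726 0) (P.cons (P.lf 31677 0 0) (P.cons (P.lf 25554 0 0) P.nil)))) (P.cons (P.cons (P.lf 5890 0 0) (P.cons (P.lf 504918 0 0) (P.cons (P.lf 276329 0 0) P.nil))) (P.cons (P.cons (P.lf 106722 0 0) (P.cons (P.lf 190886 0 0) P.nil)) (P.cons (P.cons (P.lf 12386 0 0) P.nil) P.nil)))))) 483627)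
 (EL.cons 8 (TM.mk (P.cons (P.cons (P.lf 17082 0 0) (P.cons (P.lf 627100 0 0) (P.cons (P.lf 5796949 0 0) (P.cons (P.lf 755558 0 0) (P.cons (P.lf 0 230786 0) (P.cons (P.lf 0 17149 0) P.nil)))))) (P.cons (P.cons (P.lf 160918 0 0) (P.cons (P.lf 3042274 0 0) (P.cons (P.lf 1831635 0 0) (P.cons (P.lf 149920 0 0) (P.cons (P.lf 0 65295 0) P.nil))))) (P.cons (P.cons (P.lf 355265 0 0) (P.cons (P.lf 0 65483 0) (P.cons (P.lf 0 780149 0) (P.cons (P.lf 0 102273 0) P.nil)))) (P.cons (P.cons (P.lf 0 138340 0) (P.cons (P.lf 0 781338 0) (P.cons (P.lf 0 173021 0) P.nil))) (P.cons (P.cons (P.lf 0 116823 0) (P.cons (P.lf 0 13539 0) P.nil)) (P.cons (P.cons (P.lf 24270 0 0) P.nil) P.nil)))))) 455908)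
 EL.nil))
noncomputable def S285_314_364_512_21 : EL := (EL.cons 4 (TM.mk (P.cons (P.cons (P.lf 1080982167 0 0) (P.cons (P.lf 0 648324264 0) (P.cons (P.lf 0 43345443 0) (P.lf 14448480 0 0)))) (P.cons (P.cons (P.lf 0 973263384 0) (P.cons (P.lf 0 107333178 0) (P.cons (P.lf 0 7176048 0) (P.lf 2392017 0 0)))) (P.cons (P.cons (P.lf 0 75874965 0) (P.cons (P.lf 45169068 0 0) (P.cons (P.lf 3019893 0 0) (P.lf 0 1006626 0)))) (P.cons (P.cons (P.lf 38927187 0 0) (P.cons (P.lf 444366 0 0) (P.cons (P.lf 29706 0 0) P.nil))) (P.cons (P.cons (P.lf 61113 0 0) (P.cons (P.lf 0 850809 0) P.nil)) (P.cons (P.cons (P.lf 0 589734 0) P.nil) P.nil)))))) 371436)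
 (EL.cons 8 (TM.mk (P.cons (P.cons (P.lf 254080236 0 0) (P.cons (P.lf 0 152385849 0) (P.cons (P.lf 0 10188171 0) (P.lf 3396057 0 0)))) (P.cons (P.cons (P.lf 0 137725608 0) (P.cons (P.lf 0 79827357 0) (P.cons (P.lf 0 5337066 0) (P.lf 1779018 0 0)))) (P.cons (P.cons (P.lf 0 96468744 0) (P.cons (P.lf 0 419238 0) (P.cons (P.lf 0 28029 0) (P.lf 9339 0 0)))) (P.cons (P.cons (P.lf 223929 0 0) (P.cons (P.lf 3300795 0 0) (P.cons (P.lf 220680 0 0) P.nil))) (P.cons (P.cons (P.lf 2668500 0 0) (P.cons (P.lf 0 84513 0) P.nil)) (P.cons (P.cons (P.lf 0 66285 0) P.nil) P.nil)))))) 329604)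
 (EL.cons 11 (TM.mk (P.cons (P.cons (P.lf 2586006444 0 0) (P.cons (P.lf 400378737 0 0) (P.cons (P.lf 0 192889848 0) (P.cons (P.lf 0 7299519 0) (P.lf 1824879 0 0))))) (P.cons (P.cons (P.lf 0 249214329 0) (P.cons (P.lf 0 38584635 0) (P.cons (P.lf 18588861 0 0) (P.cons (P.lf 703455 0 0) (P.lf 0 175863 0))))) (P.cons (P.cons (P.lf 0 29743989 0) (P.cons (P.lf 0 4605114 0) (P.cons (P.lf 2218599 0 0) (P.cons (P.lf 83958 0 0) P.nil)))) (P.cons (P.cons (P.lf 3517293 0 0) (P.cons (P.lf 544563 0 0) (P.cons (P.lf 0 262353 0) P.nil))) (P.cons (P.cons (P.lf 133743 0 0) (P.cons (P.lf 20706 0 0) P.nil)) (P.cons (P.cons (P.lf 0 26253 0) P.nil) P.nil)))))) 52971)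
 EL.nil)))
noncomputable def S285_314_364_512_22 : EL := (EL.cons 4 (TM.mk (P.cons (P.cons (P.lf 0 9636909 0) (P.cons (P.lf 0 171099657 0) (P.cons (P.lf 94644972 0 0) (P.cons (P.lf 17998203 0 0) (P.cons (P.lf 0 4254174 0) (P.cons (P.lf 0 316125 0) P.nil)))))) (P.cons (P.cons (P.lf 0 33955647 0) (P.cons (P.lf 211348254 0 0) (P.cons (P.lf 16357941 0 0) (P.cons (P.lf 0 4412205 0) (P.cons (P.lf 0 89334 0) P.nil))))) (P.cons (P.cons (P.lf 57720312 0 0) (P.cons (P.lf 0 15531018 0) (P.cons (P.lf 0 12428898 0) (P.cons (P.lf 0 1176963 0) P.nil)))) (P.cons (P.cons (P.lf 0 12906234 0) (P.cons (P.lf 0 15262200 0) (P.cons (P.lf 44010 0 0) P.nil))) (P.cons (P.cons (P.lf 0 4291554 0) (P.cons (P.lf 2035650 0 0) P.nil)) (P.cons (P.cons (P.lf 872925 0 0) P.nil) P.nil)))))) 2778012)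
 (EL.cons 8 (TM.mk (P.cons (P.cons (P.lf 0 2265114 0) (P.cons (P.lf 0 40216242 0) (P.cons (P.lf 22245897 0 0) (P.cons (P.lf 4230402 0 0) (P.cons (P.lf 0 999924 0) (P.cons (P.lf 0 74304 0) P.nil)))))) (P.cons (P.cons (P.lf 0 8792709 0) (P.cons (P.lf 35267205 0 0) (P.cons (P.lf 11815467 0 0) (P.cons (P.lf 478662 0 0) (P.cons (P.lf 0 379263 0) P.nil))))) (P.cons (P.cons (P.lf 10677627 0 0) (P.cons (P.lf 13621362 0 0) (P.cons (P.lf 0 1252248 0) (P.cons (P.lf 0 592782 0) P.nil)))) (P.cons (P.cons (P.lf 1718703 0 0) (P.cons (P.lf 0 4317405 0) (P.cons (P.lf 0 945540 0) P.nil))) (P.cons (P.cons (P.lf 0 1932570 0) (P.cons (P.lf 0 768402 0) P.nil)) (P.cons (P.cons (P.lf 0 172149 0) P.nil) P.nil)))))) 1103109)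
 (EL.cons 11 (TM.mk (P.cons (P.cons (P.lf 0 23054139 0) (P.cons (P.lf 0 426713604 0) (P.cons (P.lf 0 92084187 0) (P.cons (P.lf 36677418 0 0) (P.cons (P.lf 4748343 0 0) (P.cons (P.lf 0 922137 0) P.nil)))))) (P.cons (P.cons (P.lf 0 99766326 0) (P.cons (P.lf 86500056 0 0) (P.cons (P.lf 30041310 0 0) (P.cons (P.lf 0 8539245 0) (P.cons (P.lf 0 1218318 0) P.nil))))) (P.cons (P.cons (P.lf 54733401 0 0) (P.cons (P.lf 13273053 0 0) (P.cons (P.lf 0 3018711 0) (P.cons (P.lf 0 569718 0) P.nil)))) (P.cons (P.cons (P.lf 0 172599 0) (P.cons (P.lf 0 3106059 0) (P.cons (P.lf 0 669759 0) P.nil))) (P.cons (P.cons (P.lf 0 1710648 0) (P.cons (P.lf 0 172731 0) P.nil)) (P.cons (P.cons (P.lf 86400 0 0) P.nil) P.nil)))))) 1398054)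
 EL.nil)))
noncomputable def S285_314_364_512_23 : EL := (EL.cons 4 (TM.mk (P.cons (P.cons (P.lf 354568032 0 0) (P.cons (P.lf 0 212653884 0) (P.cons (P.lf 0 14217540 0) (P.lf 4739178 0 0)))) (P.cons (P.cons (P.lf 0 209280489 0) (P.cons (P.lf 0 101152023 0) (P.cons (P.lf 0 6762786 0) (P.lf 2254263 0 0)))) (P.cons (P.cons (P.lf 0 127811523 0) (P.cons (P.lf 6252546 0 0) (P.cons (P.lf 418026 0 0) (P.lf 0 139341 0)))) (P.cons (P.cons (P.lf 8250720 0 0) (P.cons (P.lf 5330625 0 0) (P.cons (P.lf 356391 0 0) P.nil))) (P.cons (P.cons (P.lf 4579242 0 0) (P.cons (P.lf 0 378477 0) P.nil)) (P.cons (P.cons (P.lf 0 325032 0) P.nil) P.nil)))))) 487887)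
 (EL.cons 8 (TM.mk (P.cons (P.cons (P.lf 83339697 0 0) (P.cons (P.lf 0 49983387 0) (P.cons (P.lf 0 3341775 0) (P.lf 1113924 0 0)))) (P.cons (P.cons (P.lf 0 19330248 0) (P.cons (P.lf 0 41684169 0) (P.cons (P.lf 0 2786904 0) (P.lf 928965 0 0)))) (P.cons (P.cons (P.lf 0 46574181 0) (P.cons (P.lf 0 7703952 0) (P.cons (P.lf 0 515067 0) (P.lf 171687 0 0)))) (P.cons (P.cons (P.lf 0 9317562 0) (P.cons (P.lf 1377087 0 0) (P.cons (P.lf 92067 0 0) P.nil))) (P.cons (P.cons (P.lf 1296411 0 0) (P.cons (P.lf 331008 0 0) P.nil)) (P.cons (P.cons (P.lf 275973 0 0) P.nil) P.nil)))))) 221565)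
 (EL.cons 11 (TM.mk (P.cons (P.cons (P.lf 848224185 0 0) (P.cons (P.lf 131326404 0 0) (P.cons (P.lf 0 63268917 0) (P.cons (P.lf 0 2394279 0) (P.lf 598569 0 0))))) (P.cons (P.cons (P.lf 181299393 0 0) (P.cons (P.lf 28069698 0 0) (P.cons (P.lf 0 13523094 0) (P.cons (P.lf 0 511752 0) (P.lf 127938 0 0))))) (P.cons (P.cons (P.lf 0 44497455 0) (P.cons (P.lf 0 6889320 0) (P.cons (P.lf 3319056 0 0) (P.cons (P.lf 125601 0 0) P.nil)))) (P.cons (P.cons (P.lf 0 1766724 0) (P.cons (P.lf 0 273534 0) (P.cons (P.lf 131778 0 0) P.nil))) (P.cons (P.cons (P.lf 641685 0 0) (P.cons (P.lf 99348 0 0) P.nil)) (P.cons (P.cons (P.lf 0 2052 0) P.nil) P.nil)))))) 122598)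
 EL.nil)))
noncomputable def S285_314_364_512_24 : EL := (EL.cons 4 (TM.mk (P.cons (P.cons (P.lf 0 3160959 0) (P.cons (P.lf 0 56121618 0) (P.cons (P.lf 31044066 0 0) (P.cons (P.lf 5903508 0 0) (P.cons (P.lf 0 1395390 0) (P.cons (P.lf 0 103689 0) P.nil)))))) (P.cons (P.cons (P.lf 0 12117882 0) (P.cons (P.lf 51919485 0 0) (P.cons (P.lf 14992578 0 0) (P.cons (P.lf 383511 0 0) (P.cons (P.lf 0 462027 0) P.nil))))) (P.cons (P.cons (P.lf 15513678 0 0) (P.cons (P.lf 17025024 0 0) (P.cons (P.lf 0 2756577 0) (P.cons (P.lf 0 900213 0) P.nil)))) (P.cons (P.cons (P.lf 1764168 0 0) (P.cons (P.lf 0 7300497 0) (P.cons (P.lf 0 1338492 0) P.nil))) (P.cons (P.cons (P.lf 0 2919771 0) (P.cons (P.lf 0 897345 0) P.nil)) (P.cons (P.cons (P.lf 0 121914 0) P.nil) P.nil)))))) 1868064)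
 (EL.cons 8 (TM.mk (P.cons (P.cons (P.lf 0 742968 0) (P.cons (P.lf 0 13191144 0) (P.cons (P.lf 7296774 0 0) (P.cons (P.lf 1387593 0 0) (P.cons (P.lf 0 327981 0) (P.cons (P.lf 0 24372 0) P.nil)))))) (P.cons (P.cons (P.lf 0 3114459 0) (P.cons (P.lf 7477125 0 0) (P.cons (P.lf 6138342 0 0) (P.cons (P.lf 587310 0 0) (P.cons (P.lf 0 226110 0) P.nil))))) (P.cons (P.cons (P.lf 2616168 0 0) (P.cons (P.lf 8201241 0 0) (P.cons (P.lf 710307 0 0) (P.cons (P.lf 0 161109 0) P.nil)))) (P.cons (P.cons (P.lf 1682481 0 0) (P.cons (P.lf 0 146235 0) (P.cons (P.lf 0 487311 0) P.nil))) (P.cons (P.cons (P.lf 0 495177 0) (P.cons (P.lf 0 752430 0) P.nil)) (P.cons (P.cons (P.lf 0 262776 0) P.nil) P.nil)))))) 534516)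
 (EL.cons 11 (TM.mk (P.cons (P.cons (P.lf 0 7561881 0) (P.cons (P.lf 0 139964382 0) (P.cons (P.lf 0 30204111 0) (P.cons (P.lf 12030390 0 0) (P.cons (P.lf 1557480 0 0) (P.cons (P.lf 0 302466 0) P.nil)))))) (P.cons (P.cons (P.lf 0 35068914 0) (P.cons (P.lf 0 15031905 0) (P.cons (P.lf 487107 0 0) (P.cons (P.lf 929826 0 0) (P.cons (P.lf 83373 0 0) P.nil))))) (P.cons (P.cons (P.lf 7888560 0 0) (P.cons (P.lf 14701947 0 0) (P.cons (P.lf 2400009 0 0) (P.cons (P.lf 0 1188666 0) P.nil)))) (P.cons (P.cons (P.lf 5880207 0 0) (P.cons (P.lf 149163 0 0) (P.cons (P.lf 0 607356 0) P.nil))) (P.cons (P.cons (P.lf 0 747060 0) (P.cons (P.lf 0 456624 0) P.nil)) (P.cons (P.cons (P.lf 0 164103 0) P.nil) P.nil)))))) 891093)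
 EL.nil)))
noncomputable def S285_314_364_512_25 : EL := (EL.cons 4 (TM.mk (P.cons (P.cons (P.lf 116300244 0 0) (P.cons (P.lf 0 69751629 0) (P.cons (P.lf 0 4663428 0) (P.lf 1554474 0 0)))) (P.cons (P.cons (P.lf 0 32579235 0) (P.cons (P.lf 0 54809112 0) (P.cons (P.lf 0 3664407 0) (P.lf 1221468 0 0)))) (P.cons (P.cons (P.lf 0 64498140 0) (P.cons (P.lf 0 7465791 0) (P.cons (P.lf 0 499146 0) (P.lf 166380 0 0)))) (P.cons (P.cons (P.lf 0 9644067 0) (P.cons (P.lf 2817615 0 0) (P.cons (P.lf 188376 0 0) P.nil))) (P.cons (P.cons (P.lf 2877714 0 0) (P.cons (P.lf 422142 0 0) P.nil)) (P.cons (P.cons (P.lf 364557 0 0) P.nil) P.nil)))))) 435324)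
 (EL.cons 8 (TM.mk (P.cons (P.cons (P.lf 27335874 0 0) (P.cons (P.lf 0 16394823 0) (P.cons (P.lf 0 1096119 0) (P.lf 365373 0 0)))) (P.cons (P.cons (P.lf 2136708 0 0) (P.cons (P.lf 0 18756837 0) (P.cons (P.lf 0 1254036 0) (P.lf 418011 0 0)))) (P.cons (P.cons (P.lf 0 17545485 0) (P.cons (P.lf 0 6585435 0) (P.cons (P.lf 0 440286 0) (P.lf 146760 0 0)))) (P.cons (P.cons (P.lf 0 7749216 0) (P.cons (P.lf 0 165087 0) (P.cons (P.lf 0 11037 0) P.nil))) (P.cons (P.cons (P.lf 0 345636 0) (P.cons (P.lf 288459 0 0) P.nil)) (P.cons (P.cons (P.lf 270285 0 0) P.nil) P.nil)))))) 178521)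
 (EL.cons 11 (TM.mk (P.cons (P.cons (P.lf 278222148 0 0) (P.cons (P.lf 43075773 0 0) (P.cons (P.lf 0 20752548 0) (P.cons (P.lf 0 785337 0) (P.lf 196332 0 0))))) (P.cons (P.cons (P.lf 145746738 0 0) (P.cons (P.lf 22565253 0 0) (P.cons (P.lf 0 10871226 0) (P.cons (P.lf 0 411399 0) (P.lf 102849 0 0))))) (P.cons (P.cons (P.lf 765444 0 0) (P.cons (P.lf 118509 0 0) (P.cons (P.lf 0 57093 0) (P.cons (P.lf 0 2160 0) P.nil)))) (P.cons (P.cons (P.lf 0 6026520 0) (P.cons (P.lf 0 933054 0) (P.cons (P.lf 449517 0 0) P.nil))) (P.cons (P.cons (P.lf 154302 0 0) (P.cons (P.lf 23889 0 0) P.nil)) (P.cons (P.cons (P.lf 89226 0 0) P.nil) P.nil)))))) 152496)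
 EL.nil)))
noncomputable def S285_314_364_512_26 : EL := (EL.cons 4 (TM.mk (P.cons (P.cons (P.lf 0 1036809 0) (P.cons (P.lf 0 18408195 0) (P.cons (P.lf 10182621 0 0) (P.cons (P.lf 1936383 0 0) (P.cons (P.lf 0 457695 0) (P.cons (P.lf 0 34011 0) P.nil)))))) (P.cons (P.cons (P.lf 0 4296255 0) (P.cons (P.lf 11321301 0 0) (P.cons (P.lf 8075382 0 0) (P.cons (P.lf 726285 0 0) (P.cons (P.lf 0 293484 0) P.nil))))) (P.cons (P.cons (P.lf 3867444 0 0) (P.cons (P.lf 11069256 0 0) (P.cons (P.lf 508095 0 0) (P.cons (P.lf 0 277704 0) P.nil)))) (P.cons (P.cons (P.lf 2201661 0 0) (P.cons (P.lf 0 834051 0) (P.cons (P.lf 0 783477 0) P.nil))) (P.cons (P.cons (P.lf 0 830913 0) (P.cons (P.lf 0 1116009 0) P.nil)) (P.cons (P.cons (P.lf 0 348447 0) P.nil) P.nil)))))) 1040739)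
 (EL.cons 8 (TM.mk (P.cons (P.cons (P.lf 0 243696 0) (P.cons (P.lf 0 4326765 0) (P.cons (P.lf 2393382 0 0) (P.cons (P.lf 455136 0 0) (P.cons (P.lf 0 107577 0) (P.cons (P.lf 0 7992 0) P.nil)))))) (P.cons (P.cons (P.lf 0 1097130 0) (P.cons (P.lf 1110762 0 0) (P.cons (P.lf 2755620 0 0) (P.cons (P.lf 333783 0 0) (P.cons (P.lf 0 107526 0) P.nil))))) (P.cons (P.cons (P.lf 544020 0 0) (P.cons (P.lf 3498513 0 0) (P.cons (P.lf 830862 0 0) (P.cons (P.lf 1854 0 0) P.nil)))) (P.cons (P.cons (P.lf 829515 0 0) (P.cons (P.lf 763170 0 0) (P.cons (P.lf 0 112140 0) P.nil))) (P.cons (P.cons (P.lf 162 0 0) (P.cons (P.lf 0 294054 0) P.nil)) (P.cons (P.cons (P.lf 0 143544 0) P.nil) P.nil)))))) 404634)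
 (EL.cons 11 (TM.mk (P.cons (P.cons (P.lf 0 2480337 0) (P.cons (P.lf 0 45909078 0) (P.cons (P.lf 0 9907113 0) (P.cons (P.lf 3946032 0 0) (P.cons (P.lf 510861 0 0) (P.cons (P.lf 0 99210 0) P.nil)))))) (P.cons (P.cons (P.lf 0 12271971 0) (P.cons (P.lf 0 19167423 0) (P.cons (P.lf 0 2912523 0) (P.cons (P.lf 1528692 0 0) (P.cons (P.lf 185769 0 0) P.nil))))) (P.cons (P.cons (P.lf 0 952179 0) (P.cons (P.lf 3801621 0 0) (P.cons (P.lf 946455 0 0) (P.cons (P.lf 0 339000 0) P.nil)))) (P.cons (P.cons (P.lf 2860848 0 0) (P.cons (P.lf 1642266 0 0) (P.cons (P.lf 52479 0 0) P.nil))) (P.cons (P.cons (P.lf 335118 0 0) (P.cons (P.lf 0 186318 0) P.nil)) (P.cons (P.cons (P.lf 0 154362 0) P.nil) P.nil)))))) 664179)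
 EL.nil)))
noncomputable def S285_314_364_512_27 : EL := (EL.cons 13 (TM.mk (P.lf 0 4294967296 0) 0)
 EL.nil)
noncomputable def S285_314_364_512_28 : EL := (EL.cons 13 (TM.mk (P.cons (P.cons (P.lf 38289457 0 0) (P.cons (P.lf 702778872 0 0) (P.cons (P.lf 46986156 0 0) (P.lf 0 15662052 0)))) (P.cons (P.cons (P.lf 169386817 0 0) (P.cons (P.lf 0 101590560 0) (P.cons (P.lf 0 6792104 0) (P.lf 2264032 0 0)))) (P.cons (P.cons (P.lf 0 74139671 0) (P.cons (P.lf 0 9677356 0) (P.cons (P.lf 0 647004 0) (P.lf 215664 0 0)))) (P.cons (P.cons (P.lf 0 4962012 0) (P.cons (P.lf 2057352 0 0) (P.cons (P.lf 137548 0 0) P.nil))) (P.cons (P.cons (P.lf 1277827 0 0) (P.cons (P.lf 35792 0 0) P.nil)) (P.cons (P.cons (P.lf 15042 0 0) P.nil) P.nil)))))) 102049)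
 EL.nil)
noncomputable def S285_314_364_512_29 : EL := (EL.cons 13 (TM.mk (P.cons (P.cons (P.lf 0 341348 0) (P.cons (P.lf 0 12530489 0) (P.cons (P.lf 0 115832381 0) (P.cons (P.lf 0 15097291 0) (P.cons (P.lf 4611494 0 0) (P.cons (P.lf 342679 0 0) P.nil)))))) (P.cons (P.cons (P.lf 0 3020153 0) (P.cons (P.lf 0 53621655 0) (P.cons (P.lf 29661194 0 0) (P.cons (P.lf 5640533 0 0) (P.cons (P.lf 0 1333232 0) P.nil))))) (P.cons (P.cons (P.lf 0 5358447 0) (P.cons (P.lf 32448413 0 0) (P.cons (P.lf 2933444 0 0) (P.cons (P.lf 0 620980 0) P.nil)))) (P.cons (P.cons (P.lf 5936378 0 0) (P.cons (P.lf 0 1156819 0) (P.cons (P.lf 0 1208429 0) P.nil))) (P.cons (P.cons (P.lf 0 911193 0) (P.cons (P.lf 0 1149931 0) P.nil)) (P.cons (P.cons (P.lf 0 272367 0) P.nil) P.nil)))))) 1355275)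
 EL.nil)
noncomputable def S285_314_364_512_30 : EL := (EL.cons 13 (TM.mk (P.cons (P.lf 0 1408772644 0) (P.cons (P.lf 0 436874896 0) (P.cons (P.lf 15598228 0 0) (P.cons (P.lf 1328688 0 0) (P.cons (P.lf 0 91228 0) (P.cons (P.lf 0 3020 0) P.nil)))))) 560)
 EL.nil)
noncomputable def S285_314_364_512_31 : EL := (EL.cons 13 (TM.mk (P.cons (P.cons (P.lf 12559150 0 0) (P.cons (P.lf 230515294 0 0) (P.cons (P.lf 15411714 0 0) (P.lf 0 5137238 0)))) (P.cons (P.cons (P.lf 59454519 0 0) (P.cons (P.lf 38162908 0 0) (P.cons (P.lf 2551484 0 0) (P.lf 0 850495 0)))) (P.cons (P.cons (P.lf 0 7227607 0) (P.cons (P.lf 0 16060114 0) (P.cons (P.lf 0 1073740 0) (P.lf 357912 0 0)))) (P.cons (P.cons (P.lf 0 9795910 0) (P.cons (P.lf 0 157997 0) (P.cons (P.lf 0 10563 0) P.nil))) (P.cons (P.cons (P.lf 132077 0 0) (P.cons (P.lf 302510 0 0) P.nil)) (P.cons (P.cons (P.lf 179493 0 0) P.nil) P.nil))))))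 129673)
 EL.nil)
noncomputable def S285_314_364_512_32 : EL := (EL.cons 13 (TM.mk (P.cons (P.cons (P.lf 0 111964 0) (P.cons (P.lf 0 4110068 0) (P.cons (P.lf 0 37993651 0) (P.cons (P.lf 0 4951993 0) (P.cons (P.lf 1512595 0 0) (P.cons (P.lf 112400 0 0) P.nil)))))) (P.cons (P.cons (P.lf 0 1025347 0) (P.cons (P.lf 0 18862769 0) (P.cons (P.lf 0 2053189 0) (P.cons (P.lf 314461 0 0) (P.cons (P.lf 31763 0 0) P.nil))))) (P.cons (P.cons (P.lf 0 2063563 0) (P.cons (P.lf 5234483 0 0) (P.cons (P.lf 4399932 0 0) (P.cons (P.lf 424887 0 0) P.nil)))) (P.cons (P.cons (P.lf 1413188 0 0) (P.cons (P.lf 3119756 0 0) (P.cons (P.lf 0 169875 0) P.nil))) (P.cons (P.cons (P.lf 325347 0 0) (P.cons (P.lf 0 596374 0) P.nil)) (P.cons (P.cons (P.lf 0 201988 0) P.nil) P.nil)))))) 1200422)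
 EL.nil)
noncomputable def S285_314_364_512_33 : EL := (EL.cons 14 (TM.mk (P.lf 8589934592 0 0) 0)
 EL.nil)
noncomputable def S285_314_364_512_34 : EL := (EL.cons 14 (TM.mk (P.cons (P.cons (P.lf 0 76578914 0) (P.cons (P.lf 0 1405557744 0) (P.cons (P.lf 0 93972312 0) (P.lf 31324104 0 0)))) (P.cons (P.cons (P.lf 0 338773634 0) (P.cons (P.lf 203181120 0 0) (P.cons (P.lf 13584208 0 0) (P.lf 0 4528064 0)))) (P.cons (P.cons (P.lf 148279342 0 0) (P.cons (P.lf 19354712 0 0) (P.cons (P.lf 1294008 0 0) (P.lf 0 431328 0)))) (P.cons (P.cons (P.lf 9924024 0 0) (P.cons (P.lf 0 4114704 0) (P.cons (P.lf 0 275096 0) P.nil))) (P.cons (P.cons (P.lf 0 2555654 0) (P.cons (P.lf 0 71584 0) P.nil)) (P.cons (P.cons (P.lf 0 30084 0) P.nil) P.nil)))))) 204098)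
 EL.nil)
noncomputable def S285_314_364_512_35 : EL := (EL.cons 14 (TM.mk (P.cons (P.cons (P.lf 682696 0 0) (P.cons (P.lf 25060978 0 0) (P.cons (P.lf 231664762 0 0) (P.cons (P.lf 30194582 0 0) (P.cons (P.lf 0 9222988 0) (P.cons (P.lf 0 685358 0) P.nil)))))) (P.cons (P.cons (P.lf 6040306 0 0) (P.cons (P.lf 107243310 0 0) (P.cons (P.lf 0 59322388 0) (P.cons (P.lf 0 11281066 0) (P.cons (P.lf 2666464 0 0) P.nil))))) (P.cons (P.cons (P.lf 10716894 0 0) (P.cons (P.lf 0 64896826 0) (P.cons (P.lf 0 5866888 0) (P.cons (P.lf 1241960 0 0) P.nil)))) (P.cons (P.cons (P.lf 0 11872756 0) (P.cons (P.lf 2313638 0 0) (P.cons (P.lf 2416858 0 0) P.nil))) (P.cons (P.cons (P.lf 1822386 0 0) (P.cons (P.lf 2299862 0 0) P.nil)) (P.cons (P.cons (P.lf 544734 0 0) P.nil) P.nil)))))) 2710550)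
 EL.nil)
noncomputable def S285_314_364_512_36 : EL := (EL.cons 14 (TM.mk (P.cons (P.lf 2817545288 0 0) (P.cons (P.lf 873749792 0 0) (P.cons (P.lf 0 31196456 0) (P.cons (P.lf 0 2657376 0) (P.cons (P.lf 182456 0 0) (P.cons (P.lf 6040 0 0) P.nil)))))) 1120)
 EL.nil)
noncomputable def S285_314_364_512_37 : EL := (EL.cons 14 (TM.mk (P.cons (P.cons (P.lf 0 25118300 0) (P.cons (P.lf 0 461030588 0) (P.cons (P.lf 0 30823428 0) (P.lf 10274476 0 0)))) (P.cons (P.cons (P.lf 0 118909038 0) (P.cons (P.lf 0 76325816 0) (P.cons (P.lf 0 5102968 0) (P.lf 1700990 0 0)))) (P.cons (P.cons (P.lf 14455214 0 0) (P.cons (P.lf 32120228 0 0) (P.cons (P.lf 2147480 0 0) (P.lf 0 715824 0)))) (P.cons (P.cons (P.lf 19591820 0 0) (P.cons (P.lf 315994 0 0) (P.cons (P.lf 21126 0 0) P.nil))) (P.cons (P.cons (P.lf 0 264154 0) (P.cons (P.lf 0 605020 0) P.nil)) (P.cons (P.cons (P.lf 0 358986 0) P.nil) P.nil))))))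 259346)
 EL.nil)
noncomputable def S285_314_364_512_38 : EL := (EL.cons 14 (TM.mk (P.cons (P.cons (P.lf 223928 0 0) (P.cons (P.lf 8220136 0 0) (P.cons (P.lf 75987302 0 0) (P.cons (P.lf 9903986 0 0) (P.cons (P.lf 0 3025190 0) (P.cons (P.lf 0 224800 0) P.nil)))))) (P.cons (P.cons (P.lf 2050694 0 0) (P.cons (P.lf 37725538 0 0) (P.cons (P.lf 4106378 0 0) (P.cons (P.lf 0 628922 0) (P.cons (P.lf 0 63526 0) P.nil))))) (P.cons (P.cons (P.lf 4127126 0 0) (P.cons (P.lf 0 10468966 0) (P.cons (P.lf 0 8799864 0) (P.cons (P.lf 0 849774 0) P.nil)))) (P.cons (P.cons (P.lf 0 2826376 0) (P.cons (P.lf 0 6239512 0) (P.cons (P.lf 339750 0 0) P.nil))) (P.cons (P.cons (P.lf 0 650694 0) (P.cons (P.lf 1192748 0 0) P.nil)) (P.cons (P.cons (P.lf 403976 0 0) P.nil) P.nil)))))) 2400844)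
 EL.nil)
noncomputable def S285_314_364_512_39 : EL := (EL.cons 14 (TM.mk (P.cons (P.lf 924170186 0 0) (P.cons (P.lf 573189372 0 0) (P.cons (P.lf 68410746 0 0) (P.cons (P.lf 0 8089740 0) (P.cons (P.lf 0 307614 0) (P.cons (P.lf 60382 0 0) P.nil)))))) 4526)
 EL.nil)
noncomputable def S285_314_364_512_40 : EL := (EL.cons 14 (TM.mk (P.cons (P.cons (P.lf 0 8238938 0) (P.cons (P.lf 0 151220540 0) (P.cons (P.lf 0 10110252 0) (P.lf 3370084 0 0)))) (P.cons (P.cons (P.lf 0 41557790 0) (P.cons (P.lf 0 71930328 0) (P.cons (P.lf 0 4809094 0) (P.lf 1603032 0 0)))) (P.cons (P.cons (P.lf 0 7262560 0) (P.cons (P.lf 4446256 0 0) (P.cons (P.lf 297264 0 0) (P.lf 0 99086 0)))) (P.cons (P.cons (P.lf 8336194 0 0) (P.cons (P.lf 3790668 0 0) (P.cons (P.lf 253434 0 0) P.nil))) (P.cons (P.cons (P.lf 1889948 0 0) (P.cons (P.lf 0 269140 0) P.nil)) (P.cons (P.cons (P.lf 0 222786 0) P.nil) P.nil))))))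 316014)
 EL.nil)
noncomputable def S285_314_364_512_41 : EL := (EL.cons 14 (TM.mk (P.cons (P.cons (P.lf 73448 0 0) (P.cons (P.lf 2696248 0 0) (P.cons (P.lf 24924248 0 0) (P.cons (P.lf 3248560 0 0) (P.cons (P.lf 0 992278 0) (P.cons (P.lf 0 73736 0) P.nil)))))) (P.cons (P.cons (P.lf 695416 0 0) (P.cons (P.lf 13210316 0 0) (P.cons (P.lf 9076180 0 0) (P.cons (P.lf 801122 0 0) (P.cons (P.lf 0 328552 0) P.nil))))) (P.cons (P.cons (P.lf 1561498 0 0) (P.cons (P.lf 373628 0 0) (P.cons (P.lf 0 2744678 0) (P.cons (P.lf 0 378672 0) P.nil)))) (P.cons (P.cons (P.lf 0 514780 0) (P.cons (P.lf 0 3251026 0) (P.cons (P.lf 0 822082 0) P.nil))) (P.cons (P.cons (P.lf 0 516542 0) (P.cons (P.lf 0 216916 0) P.nil)) (P.cons (P.cons (P.lf 75350 0 0) P.nil) P.nil)))))) 1694834)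
 EL.nil)
noncomputable def S285_314_364_512_42 : EL := (EL.cons 14 (TM.mk (P.cons (P.lf 303132848 0 0) (P.cons (P.lf 282013848 0 0) (P.cons (P.lf 77386344 0 0) (P.cons (P.lf 1937536 0 0) (P.cons (P.lf 0 1329912 0) (P.cons (P.lf 9556 0 0) P.nil)))))) 14366)
 EL.nil)
noncomputable def S285_314_364_512_43 : EL := (EL.cons 14 (TM.mk (P.cons (P.cons (P.lf 0 2702416 0) (P.cons (P.lf 0 49601160 0) (P.cons (P.lf 0 3316216 0) (P.lf 1105404 0 0)))) (P.cons (P.cons (P.lf 0 14469228 0) (P.cons (P.lf 0 38975368 0) (P.cons (P.lf 0 2605802 0) (P.lf 868600 0 0)))) (P.cons (P.cons (P.lf 0 6579406 0) (P.cons (P.lf 0 5309008 0) (P.cons (P.lf 0 354948 0) (P.lf 118316 0 0)))) (P.cons (P.cons (P.lf 2149060 0 0) (P.cons (P.lf 2003638 0 0) (P.cons (P.lf 133958 0 0) P.nil))) (P.cons (P.cons (P.lf 1506910 0 0) (P.cons (P.lf 300190 0 0) P.nil)) (P.cons (P.cons (P.lf 90248 0 0) P.nil) P.nil))))))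 270922)
 EL.nil)
noncomputable def S285_314_364_512_44 : EL := (EL.cons 14 (TM.mk (P.cons (P.cons (P.lf 24090 0 0) (P.cons (P.lf 884384 0 0) (P.cons (P.lf 8175288 0 0) (P.cons (P.lf 1065544 0 0) (P.cons (P.lf 0 325472 0) (P.cons (P.lf 0 24184 0) P.nil)))))) (P.cons (P.cons (P.lf 235570 0 0) (P.cons (P.lf 4607312 0 0) (P.cons (P.lf 5512276 0 0) (P.cons (P.lf 593208 0 0) (P.cons (P.lf 0 208698 0) P.nil))))) (P.cons (P.cons (P.lf 582648 0 0) (P.cons (P.lf 1456484 0 0) (P.cons (P.lf 0 67578 0) (P.cons (P.lf 0 54516 0) P.nil)))) (P.cons (P.cons (P.lf 0 12566 0) (P.cons (P.lf 0 1077160 0) (P.cons (P.lf 0 589502 0) P.nil))) (P.cons (P.cons (P.lf 0 227674 0) (P.cons (P.lf 0 407224 0) P.nil)) (P.cons (P.cons (P.lf 0 26424 0) P.nil) P.nil)))))) 1031692)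
 EL.nil)
noncomputable def S285_314_364_512_45 : EL := (EL.cons 14 (TM.mk (P.cons (P.cons (P.lf 0 6086 0) (P.cons (P.lf 0 335126 0) (P.cons (P.lf 0 6173438 0) (P.cons (P.lf 0 38447804 0) (P.cons (P.lf 0 7301452 0) (P.cons (P.lf 2029720 0 0) P.nil)))))) (P.cons (P.cons (P.lf 0 80772 0) (P.cons (P.lf 0 2916652 0) (P.cons (P.lf 0 25627920 0) (P.cons (P.lf 12984308 0 0) (P.cons (P.lf 4293272 0 0) P.nil))))) (P.cons (P.cons (P.lf 0 321976 0) (P.cons (P.lf 0 4827530 0) (P.cons (P.lf 19495396 0 0) (P.cons (P.lf 1953042 0 0) P.nil)))) (P.cons (P.cons (P.lf 0 211756 0) (P.cons (P.lf 6628484 0 0) (P.cons (P.lf 0 2082794 0) P.nil))) (P.cons (P.cons (P.lf 643766 0 0) (P.cons (P.lf 0 1673330 0) P.nil)) (P.cons (P.cons (P.lf 0 271092 0) P.nil) P.nil)))))) 7500068)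
 EL.nil)
noncomputable def S285_314_364_512_46 : EL := (EL.cons 15 (TM.mk (P.lf 4294967296 0 0) 0)
 EL.nil)
noncomputable def S285_314_364_512_47 : EL := (EL.cons 15 (TM.mk (P.cons (P.cons (P.lf 0 38289457 0) (P.cons (P.lf 0 702778872 0) (P.cons (P.lf 0 46986156 0) (P.lf 15662052 0 0)))) (P.cons (P.cons (P.lf 0 169386817 0) (P.cons (P.lf 101590560 0 0) (P.cons (P.lf 6792104 0 0) (P.lf 0 2264032 0)))) (P.cons (P.cons (P.lf 74139671 0 0) (P.cons (P.lf 9677356 0 0) (P.cons (P.lf 647004 0 0) (P.lf 0 215664 0)))) (P.cons (P.cons (P.lf 4962012 0 0) (P.cons (P.lf 0 2057352 0) (P.cons (P.lf 0 137548 0) P.nil))) (P.cons (P.cons (P.lf 0 1277827 0) (P.cons (P.lf 0 35792 0) P.nil)) (P.cons (P.cons (P.lf 0 15042 0) P.nil) P.nil)))))) 102049)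
 EL.nil)
noncomputable def S285_314_364_512_48 : EL := (EL.cons 15 (TM.mk (P.cons (P.cons (P.lf 341348 0 0) (P.cons (P.lf 12530489 0 0) (P.cons (P.lf 115832381 0 0) (P.cons (P.lf 15097291 0 0) (P.cons (P.lf 0 4611494 0) (P.cons (P.lf 0 342679 0) P.nil)))))) (P.cons (P.cons (P.lf 3020153 0 0) (P.cons (P.lf 53621655 0 0) (P.cons (P.lf 0 29661194 0) (P.cons (P.lf 0 5640533 0) (P.cons (P.lf 1333232 0 0) P.nil))))) (P.cons (P.cons (P.lf 5358447 0 0) (P.cons (P.lf 0 32448413 0) (P.cons (P.lf 0 2933444 0) (P.cons (P.lf 620980 0 0) P.nil)))) (P.cons (P.cons (P.lf 0 5936378 0) (P.cons (P.lf 1156819 0 0) (P.cons (P.lf 1208429 0 0) P.nil))) (P.cons (P.cons (P.lf 911193 0 0) (P.cons (P.lf 1149931 0 0) P.nil)) (P.cons (P.cons (P.lf 272367 0 0) P.nil) P.nil)))))) 1355275)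
 EL.nil)
noncomputable def S285_314_364_512 : SL := (SL.cons S285_314_364_512_0 (SL.cons S285_314_364_512_1 (SL.cons S285_314_364_512_2 (SL.cons S285_314_364_512_3 (SL.cons S285_314_364_512_4 (SL.cons S285_314_364_512_5 (SL.cons S285_314_364_512_6 (SL.cons S285_314_364_512_7 (SL.cons S285_314_364_512_8 (SL.cons S285_314_364_512_9 (SL.cons S285_314_364_512_10 (SL.cons S285_314_364_512_11 (SL.cons S285_314_364_512_12 (SL.cons S285_314_364_512_13 (SL.cons S285_314_364_512_14 (SL.cons S285_314_364_512_15 (SL.cons S285_314_364_512_16 (SL.cons S285_314_364_512_17 (SL.cons S285_314_364_512_18 (SL.cons S285_314_364_512_19 (SL.cons S285_314_364_512_20 (SL.cons S285_314_364_512_21 (SL.cons S285_314_364_512_22 (SL.cons S285_314_364_512_23 (SL.cons S285_314_364_512_24 (SL.cons S285_314_364_512_25 (SL.cons S285_314_364_512_26 (SL.cons S285_314_364_512_27 (SL.cons S285_314_364_512_28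 (SL.cons S285_314_364_512_29 (SL.cons S285_314_364_512_30 (SL.cons S285_314_364_512_31 (SL.cons S285_314_364_512_32 (SL.cons S285_314_364_512_33 (SL.cons S285_314_364_512_34 (SL.cons S285_314_364_512_35 (SL.cons S285_314_364_512_36 (SL.cons S285_314_364_512_37 (SL.cons S285_314_364_512_38 (SL.cons S285_314_364_512_39 (SL.cons S285_314_364_512_40 (SL.cons S285_314_364_512_41 (SL.cons S285_314_364_512_42 (SL.cons S285_314_364_512_43 (SL.cons S285_314_364_512_44 (SL.cons S285_314_364_512_45 (SL.cons S285_314_364_512_46 (SL.cons S285_314_364_512_47 (SL.cons S285_314_364_512_48 SL.nil)))))))))))))))))))))))))))))))))))))))))))))))))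
theorem S270_285_660_808_ok : band (seq (shp 5 270 285 660 808) S270_285_660_808) (sok S270_285_660_808) = true := by decide +kernel

theorem S285_314_216_290_ok : band (seq (shp 5 285 314 216 290) S285_314_216_290) (sok S285_314_216_290) = true := by decide +kernel

theorem S285_314_216_364_ok : band (seq (shp 5 285 314 216 364) S285_314_216_364) (sok S285_314_216_364) = true := by decide +kernel

theorem S285_314_290_364_ok : band (seq (shp 5 285 314 290 364) S285_314_290_364) (sok S285_314_290_364) = true := by decide +kernel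

theorem S285_314_364_438_ok : band (seq (shp 5 285 314 364 438) S285_314_364_438) (sok S285_314_364_438) = true := by decide +kernel

theorem S285_314_364_512_ok : band (seq (shp 5 285 314 364 512) S285_314_364_512) (sok S285_314_364_512) = true := by decide +kernel

end Vale.Agent.P098.Ck
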