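import Vale.Agent.P098.CkDefs

namespace Vale.Agent.P098.Ck

noncomputable def S285_314_438_512_0 : EL := (EL.cons 0 (TM.mk (P.cons (P.lf 7643457911 0 0) (P.cons (P.lf 0 503779721 0) (P.cons (P.lf 0 60126632 0) (P.cons (P.lf 7110123 0 0) (P.cons (P.lf 270363 0 0) (P.cons (P.lf 0 53070 0) P.nil)))))) 3984)
 (EL.cons 1 (TM.mk (P.cons (P.lf 1228710643 0 0) (P.cons (P.lf 321830180 0 0) (P.cons (P.lf 0 40457490 0) (P.cons (P.lf 0 2710608 0) (P.cons (P.lf 384633 0 0) (P.cons (P.lf 7027 0 0) P.nil)))))) 2881)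
 (EL.cons 5 (TM.mk (P.cons (P.lf 4583770480 0 0) (P.cons (P.lf 179121676 0 0) (P.cons (P.lf 21378358 0 0) (P.cons (P.lf 0 2528040 0) (P.cons (P.lf 0 96128 0) (P.cons (P.lf 18870 0 0) P.nil)))))) 1697)
 (EL.cons 9 (TM.mk (P.lf 6442450944 0 0) 2)
 EL.nil))))
noncomputable def S285_314_438_512_1 : EL := (EL.cons 0 (TM.mk (P.cons (P.cons (P.lf 0 1170803464 0) (P.cons (P.lf 0 447340653 0) (P.cons (P.lf 0 7120019 0) (P.lf 2373343 0 0)))) (P.cons (P.cons (P.lf 328197376 0 0) (P.cons (P.lf 237797835 0 0) (P.cons (P.lf 3784858 0 0) (P.lf 0 1261616 0)))) (P.cons (P.cons (P.lf 393750308 0 0) (P.cons (P.lf 1796235 0 0) (P.cons (P.lf 28589 0 0) (P.lf 0 9532 0)))) (P.cons (P.cons (P.lf 0 21958411 0) (P.cons (P.lf 0 9124156 0) (P.cons (P.lf 0 145214 0) P.nil))) (P.cons (P.cons (P.lf 0 12312818 0) (P.cons (P.lf 459818 0 0) P.nil)) (P.cons (P.cons (P.lf 920361 0 0) P.nil) P.nil))))))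 552759)
 (EL.cons 1 (TM.mk (P.cons (P.cons (P.lf 179517067 0 0) (P.cons (P.lf 0 239312226 0) (P.cons (P.lf 0 3808968 0) (P.lf 1269653 0 0)))) (P.cons (P.cons (P.lf 0 520397804 0) (P.cons (P.lf 0 10456578 0) (P.cons (P.lf 0 166428 0) (P.lf 55474 0 0)))) (P.cons (P.cons (P.lf 61141281 0 0) (P.cons (P.lf 26109004 0 0) (P.cons (P.lf 415548 0 0) (P.lf 0 138513 0)))) (P.cons (P.cons (P.lf 39294177 0 0) (P.cons (P.lf 0 1172560 0) (P.cons (P.lf 0 18661 0) P.nil))) (P.cons (P.cons (P.lf 0 3202944 0) (P.cons (P.lf 0 665180 0) P.nil)) (P.cons (P.cons (P.lf 0 840077 0) P.nil) P.nil)))))) 255758)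
 (EL.cons 5 (TM.mk (P.cons (P.cons (P.lf 0 262809379 0) (P.cons (P.lf 0 468261268 0) (P.cons (P.lf 0 7452996 0) (P.lf 2484334 0 0)))) (P.cons (P.cons (P.lf 0 315892481 0) (P.cons (P.lf 6131608 0 0) (P.cons (P.lf 97596 0 0) (P.lf 0 32540 0)))) (P.cons (P.cons (P.lf 0 5507761 0) (P.cons (P.lf 7999560 0 0) (P.cons (P.lf 127322 0 0) (P.lf 0 42438 0)))) (P.cons (P.cons (P.lf 14445392 0 0) (P.cons (P.lf 1407698 0 0) (P.cons (P.lf 22400 0 0) P.nil))) (P.cons (P.cons (P.lf 2174315 0 0) (P.cons (P.lf 0 195438 0) P.nil)) (P.cons (P.cons (P.lf 0 334625 0) P.nil) P.nil)))))) 255080)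
 (EL.cons 9 (TM.mk (P.cons (P.cons (P.lf 0 599201515 0) (P.cons (P.lf 0 553513866 0) (P.cons (P.lf 0 8809902 0) (P.lf 2936634 0 0)))) (P.cons (P.cons (P.lf 0 175764769 0) (P.cons (P.lf 80013480 0 0) (P.cons (P.lf 1273518 0 0) (P.lf 0 424506 0)))) (P.cons (P.cons (P.lf 118669720 0 0) (P.cons (P.lf 7621956 0 0) (P.cons (P.lf 121308 0 0) (P.lf 0 40434 0)))) (P.cons (P.cons (P.lf 5857014 0 0) (P.cons (P.lf 0 1620384 0) (P.cons (P.lf 0 25788 0) P.nil))) (P.cons (P.cons (P.lf 0 1944328 0) (P.cons (P.lf 0 28188 0) P.nil)) (P.cons (P.cons (P.lf 0 6519 0) P.nil) P.nil)))))) 51848)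
 (EL.cons 2 (TM.mk (P.cons (P.cons (P.lf 0 841695263 0) (P.cons (P.lf 0 31200494 0) (P.cons (P.lf 15459955 0 0) (P.cons (P.lf 140287 0 0) (P.lf 0 35071 0))))) (P.cons (P.cons (P.lf 0 179903902 0) (P.cons (P.lf 0 6668791 0) (P.cons (P.lf 3304409 0 0) (P.cons (P.lf 29984 0 0) (P.lf 0 7495 0))))) (P.cons (P.cons (P.lf 44154950 0 0) (P.cons (P.lf 1636762 0 0) (P.cons (P.lf 0 811020 0) (P.cons (P.lf 0 7357 0) P.nil)))) (P.cons (P.cons (P.lf 1753126 0 0) (P.cons (P.lf 64985 0 0) (P.cons (P.lf 0 32200 0) P.nil))) (P.cons (P.cons (P.lf 0 636747 0) (P.cons (P.lf 0 23602 0) P.nil)) (P.cons (P.cons (P.lf 2036 0 0) P.nil) P.nil)))))) 24849)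
 (EL.cons 6 (TM.mk (P.cons (P.cons (P.lf 1273239189 0 0) (P.cons (P.lf 47197239 0 0) (P.cons (P.lf 0 23386401 0) (P.cons (P.lf 0 212217 0) (P.lf 53052 0 0))))) (P.cons (P.cons (P.lf 0 184053747 0) (P.cons (P.lf 0 6822618 0) (P.cons (P.lf 3380631 0 0) (P.cons (P.lf 30675 0 0) (P.lf 0 7668 0))))) (P.cons (P.cons (P.lf 0 17532675 0) (P.cons (P.lf 0 649911 0) (P.cons (P.lf 322032 0 0) (P.cons (P.lf 2922 0 0) P.nil)))) (P.cons (P.cons (P.lf 3727353 0 0) (P.cons (P.lf 138165 0 0) (P.cons (P.lf 0 68460 0) P.nil))) (P.cons (P.cons (P.lf 64845 0 0) (P.cons (P.lf 2403 0 0) P.nil)) (P.cons (P.cons (P.lf 0 37704 0) P.nil) P.nil)))))) 14091)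
 EL.nil))))))
noncomputable def S285_314_438_512_2 : EL := (EL.cons 0 (TM.mk (P.cons (P.cons (P.lf 151668827 0 0) (P.cons (P.lf 162238648 0 0) (P.cons (P.lf 23028770 0 0) (P.cons (P.lf 0 209872 0) (P.cons (P.lf 0 211777 0) (P.cons (P.lf 0 3453 0) P.nil)))))) (P.cons (P.cons (P.lf 0 31598039 0) (P.cons (P.lf 0 115425461 0) (P.cons (P.lf 0 33779612 0) (P.cons (P.lf 0 404439 0) (P.cons (P.lf 330835 0 0) P.nil))))) (P.cons (P.cons (P.lf 0 110707081 0) (P.cons (P.lf 0 58853445 0) (P.cons (P.lf 3346469 0 0) (P.cons (P.lf 448579 0 0) P.nil)))) (P.cons (P.cons (P.lf 429080 0 0) (P.cons (P.lf 20280726 0 0) (P.cons (P.lf 1962458 0 0) P.nil))) (P.cons (P.cons (P.lf 15863162 0 0) (P.cons (P.lf 2392109 0 0) P.nil)) (P.cons (P.cons (P.lf 0 49613 0) P.nil) P.nil)))))) 3055535)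
 (EL.cons 1 (TM.mk (P.cons (P.cons (P.lf 0 44022183 0) (P.cons (P.lf 0 5968116 0) (P.cons (P.lf 31956885 0 0) (P.cons (P.lf 1051948 0 0) (P.cons (P.lf 0 331982 0) (P.cons (P.lf 0 5411 0) P.nil)))))) (P.cons (P.cons (P.lf 77987709 0 0) (P.cons (P.lf 100818846 0 0) (P.cons (P.lf 0 2296361 0) (P.cons (P.lf 0 659062 0) (P.cons (P.lf 40399 0 0) P.nil))))) (P.cons (P.cons (P.lf 25647604 0 0) (P.cons (P.lf 0 31236615 0) (P.cons (P.lf 0 4763817 0) (P.cons (P.lf 29907 0 0) P.nil)))) (P.cons (P.cons (P.lf 0 26955837 0) (P.cons (P.lf 0 7483162 0) (P.cons (P.lf 686790 0 0) P.nil))) (P.cons (P.cons (P.lf 0 495515 0) (P.cons (P.lf 2788079 0 0) P.nil)) (P.cons (P.cons (P.lf 1973839 0 0) P.nil) P.nil)))))) 1426771)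
 (EL.cons 5 (TM.mk (P.cons (P.cons (P.lf 9234798 0 0) (P.cons (P.lf 59006313 0 0) (P.cons (P.lf 47566146 0 0) (P.cons (P.lf 1171194 0 0) (P.cons (P.lf 0 482938 0) (P.cons (P.lf 0 7875 0) P.nil)))))) (P.cons (P.cons (P.lf 48289382 0 0) (P.cons (P.lf 58401017 0 0) (P.cons (P.lf 0 3295337 0) (P.cons (P.lf 0 444319 0) (P.cons (P.lf 43767 0 0) P.nil))))) (P.cons (P.cons (P.lf 19779327 0 0) (P.cons (P.lf 0 8739485 0) (P.cons (P.lf 0 2020102 0) (P.cons (P.lf 0 13503 0) P.nil)))) (P.cons (P.cons (P.lf 0 8725845 0) (P.cons (P.lf 0 5140554 0) (P.cons (P.lf 0 134682 0) P.nil))) (P.cons (P.cons (P.lf 0 3115183 0) (P.cons (P.lf 117387 0 0) P.nil)) (P.cons (P.cons (P.lf 383796 0 0) P.nil) P.nil)))))) 1423218)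
 (EL.cons 9 (TM.mk (P.cons (P.cons (P.lf 55730724 0 0) (P.cons (P.lf 102962785 0 0) (P.cons (P.lf 49194850 0 0) (P.cons (P.lf 967570 0 0) (P.cons (P.lf 0 492564 0) (P.cons (P.lf 0 8031 0) P.nil)))))) (P.cons (P.cons (P.lf 32695170 0 0) (P.cons (P.lf 15318405 0 0) (P.cons (P.lf 0 13505167 0) (P.cons (P.lf 0 518935 0) (P.cons (P.lf 142405 0 0) P.nil))))) (P.cons (P.cons (P.lf 0 17279277 0) (P.cons (P.lf 0 26175123 0) (P.cons (P.lf 0 732570 0) (P.cons (P.lf 128812 0 0) P.nil)))) (P.cons (P.cons (P.lf 0 7564663 0) (P.cons (P.lf 1826790 0 0) (P.cons (P.lf 496836 0 0) P.nil))) (P.cons (P.cons (P.lf 2227983 0 0) (P.cons (P.lf 854035 0 0) P.nil)) (P.cons (P.cons (P.lf 323076 0 0) P.nil) P.nil)))))) 393698)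
 (EL.cons 2 (TM.mk (P.cons (P.cons (P.lf 156569315 0 0) (P.cons (P.lf 150435101 0 0) (P.cons (P.lf 4787471 0 0) (P.cons (P.lf 0 3364627 0) (P.cons (P.lf 0 88306 0) (P.cons (P.lf 19732 0 0) P.nil)))))) (P.cons (P.cons (P.lf 79391851 0 0) (P.cons (P.lf 12949177 0 0) (P.cons (P.lf 0 928057 0) (P.cons (P.lf 0 244203 0) (P.cons (P.lf 0 3251 0) P.nil))))) (P.cons (P.cons (P.lf 0 29405171 0) (P.cons (P.lf 0 15137606 0) (P.cons (P.lf 0 204204 0) (P.cons (P.lf 329158 0 0) P.nil)))) (P.cons (P.cons (P.lf 0 10893470 0) (P.cons (P.lf 389446 0 0) (P.cons (P.lf 242116 0 0) P.nil))) (P.cons (P.cons (P.lf 1830386 0 0) (P.cons (P.lf 423151 0 0) P.nil)) (P.cons (P.cons (P.lf 289524 0 0) P.nil) P.nil)))))) 287285)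
 (EL.cons 6 (TM.mk (P.cons (P.cons (P.lf 0 236843664 0) (P.cons (P.lf 0 227564382 0) (P.cons (P.lf 0 7242048 0) (P.cons (P.lf 5089704 0 0) (P.cons (P.lf 133578 0 0) (P.cons (P.lf 0 29850 0) P.nil)))))) (P.cons (P.cons (P.lf 0 35236680 0) (P.cons (P.lf 61946952 0 0) (P.cons (P.lf 3998676 0 0) (P.cons (P.lf 0 1454202 0) (P.cons (P.lf 0 42936 0) P.nil))))) (P.cons (P.cons (P.lf 60210222 0 0) (P.cons (P.lf 3685506 0 0) (P.cons (P.lf 0 1028898 0) (P.cons (P.lf 0 43584 0) P.nil)))) (P.cons (P.cons (P.lf 0 4202136 0) (P.cons (P.lf 0 2307732 0) (P.cons (P.lf 0 36834 0) P.nil))) (P.cons (P.cons (P.lf 0 1964526 0) (P.cons (P.lf 48576 0 0) P.nil)) (P.cons (P.cons (P.lf 217428 0 0) P.nil) P.nil)))))) 244512)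
 EL.nil))))))
noncomputable def S285_314_438_512_3 : EL := (EL.cons 0 (TM.mk (P.cons (P.lf 812258952 0 0) (P.cons (P.lf 503779721 0 0) (P.cons (P.lf 60126632 0 0) (P.cons (P.lf 0 7110123 0) (P.cons (P.lf 0 270363 0) (P.cons (P.lf 53070 0 0) P.nil)))))) 3984)
 (EL.cons 1 (TM.mk (P.cons (P.lf 0 1228710643 0) (P.cons (P.lf 0 321830180 0) (P.cons (P.lf 40457490 0 0) (P.cons (P.lf 2710608 0 0) (P.cons (P.lf 0 384633 0) (P.cons (P.lf 0 7027 0) P.nil)))))) 2881)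
 (EL.cons 5 (TM.mk (P.cons (P.lf 1858680464 0 0) (P.cons (P.lf 0 179121676 0) (P.cons (P.lf 0 21378358 0) (P.cons (P.lf 2528040 0 0) (P.cons (P.lf 96128 0 0) (P.cons (P.lf 0 18870 0) P.nil)))))) 1690)
 EL.nil)))
noncomputable def S285_314_438_512_4 : EL := (EL.cons 0 (TM.mk (P.cons (P.cons (P.lf 0 75546836 0) (P.cons (P.lf 0 69786574 0) (P.cons (P.lf 0 1110744 0) (P.lf 370248 0 0)))) (P.cons (P.cons (P.lf 0 69015981 0) (P.cons (P.lf 0 33195035 0) (P.cons (P.lf 0 528342 0) (P.lf 176113 0 0)))) (P.cons (P.cons (P.lf 0 4374755 0) (P.cons (P.lf 2051896 0 0) (P.cons (P.lf 32656 0 0) (P.lf 0 10884 0)))) (P.cons (P.cons (P.lf 9038960 0 0) (P.cons (P.lf 1749350 0 0) (P.cons (P.lf 27841 0 0) P.nil))) (P.cons (P.cons (P.lf 1539516 0 0) (P.cons (P.lf 0 124203 0) P.nil)) (P.cons (P.cons (P.lf 0 226726 0) P.nil) P.nil)))))) 101035)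
 (EL.cons 1 (TM.mk (P.cons (P.cons (P.lf 114280306 0 0) (P.cons (P.lf 105566713 0 0) (P.cons (P.lf 1680232 0 0) (P.lf 0 560075 0)))) (P.cons (P.cons (P.lf 63454914 0 0) (P.cons (P.lf 12390322 0 0) (P.cons (P.lf 197206 0 0) (P.lf 0 65733 0)))) (P.cons (P.cons (P.lf 0 17615426 0) (P.cons (P.lf 0 8926680 0) (P.cons (P.lf 0 142078 0) (P.lf 47358 0 0)))) (P.cons (P.cons (P.lf 0 8401036 0) (P.cons (P.lf 197872 0 0) (P.cons (P.lf 3148 0 0) P.nil))) (P.cons (P.cons (P.lf 785285 0 0) (P.cons (P.lf 200896 0 0) P.nil)) (P.cons (P.cons (P.lf 196228 0 0) P.nil) P.nil)))))) 66686)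
 (EL.cons 5 (TM.mk (P.cons (P.cons (P.lf 0 172872738 0) (P.cons (P.lf 0 159691616 0) (P.cons (P.lf 0 2541702 0) (P.lf 847232 0 0)))) (P.cons (P.cons (P.lf 0 34049240 0) (P.cons (P.lf 38473838 0 0) (P.cons (P.lf 612360 0 0) (P.lf 0 204118 0)))) (P.cons (P.cons (P.lf 41112042 0 0) (P.cons (P.lf 1811088 0 0) (P.cons (P.lf 28822 0 0) (P.lf 0 9606 0)))) (P.cons (P.cons (P.lf 0 1261514 0) (P.cons (P.lf 0 1162118 0) (P.cons (P.lf 0 18494 0) P.nil))) (P.cons (P.cons (P.lf 0 1195492 0) (P.cons (P.lf 34764 0 0) P.nil)) (P.cons (P.cons (P.lf 78440 0 0) P.nil) P.nil)))))) 51246)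
 EL.nil)))
noncomputable def S285_314_438_512_5 : EL := (EL.cons 0 (TM.mk (P.cons (P.cons (P.lf 7026482 0 0) (P.cons (P.lf 12981462 0 0) (P.cons (P.lf 6202444 0 0) (P.cons (P.lf 121990 0 0) (P.cons (P.lf 0 62101 0) (P.cons (P.lf 0 1012 0) P.nil)))))) (P.cons (P.cons (P.lf 8480149 0 0) (P.cons (P.lf 9982701 0 0) (P.cons (P.lf 2144163 0 0) (P.cons (P.lf 10233 0 0) (P.cons (P.lf 0 20561 0) P.nil))))) (P.cons (P.cons (P.lf 898231 0 0) (P.cons (P.lf 0 1141345 0) (P.cons (P.lf 0 689292 0) (P.cons (P.lf 0 15307 0) P.nil)))) (P.cons (P.cons (P.lf 0 2061298 0) (P.cons (P.lf 0 1787160 0) (P.cons (P.lf 0 174977 0) P.nil))) (P.cons (P.cons (P.lf 0 510317 0) (P.cons (P.lf 0 14990 0) P.nil)) (P.cons (P.cons (P.lf 162509 0 0) P.nil) P.nil)))))) 379690)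
 (EL.cons 1 (TM.mk (P.cons (P.cons (P.lf 0 10629016 0) (P.cons (P.lf 0 19637163 0) (P.cons (P.lf 0 9382488 0) (P.cons (P.lf 0 184533 0) (P.cons (P.lf 93941 0 0) (P.cons (P.lf 1530 0 0) P.nil)))))) (P.cons (P.cons (P.lf 0 9019661 0) (P.cons (P.lf 0 8065006 0) (P.cons (P.lf 118209 0 0) (P.cons (P.lf 50636 0 0) (P.cons (P.lf 0 2553 0) P.nil))))) (P.cons (P.cons (P.lf 2012223 0 0) (P.cons (P.lf 4873507 0 0) (P.cons (P.lf 1123295 0 0) (P.cons (P.lf 7430 0 0) P.nil)))) (P.cons (P.cons (P.lf 2534686 0 0) (P.cons (P.lf 1098676 0 0) (P.cons (P.lf 0 122272 0) P.nil))) (P.cons (P.cons (P.lf 0 145113 0) (P.cons (P.lf 0 418215 0) P.nil)) (P.cons (P.cons (P.lf 0 229700 0) P.nil) P.nil)))))) 311960)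
 (EL.cons 5 (TM.mk (P.cons (P.cons (P.lf 16078602 0 0) (P.cons (P.lf 29705296 0 0) (P.cons (P.lf 14192968 0 0) (P.cons (P.lf 279148 0 0) (P.cons (P.lf 0 142106 0) (P.cons (P.lf 0 2316 0) P.nil)))))) (P.cons (P.cons (P.lf 7883224 0 0) (P.cons (P.lf 1556728 0 0) (P.cons (P.lf 0 5264090 0) (P.cons (P.lf 0 176616 0) (P.cons (P.lf 54778 0 0) P.nil))))) (P.cons (P.cons (P.lf 0 6079128 0) (P.cons (P.lf 0 8319226 0) (P.cons (P.lf 892 0 0) (P.cons (P.lf 48380 0 0) P.nil)))) (P.cons (P.cons (P.lf 0 1788646 0) (P.cons (P.lf 1244364 0 0) (P.cons (P.lf 227826 0 0) P.nil))) (P.cons (P.cons (P.lf 924106 0 0) (P.cons (P.lf 290008 0 0) P.nil)) (P.cons (P.cons (P.lf 49908 0 0) P.nil) P.nil)))))) 234484)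
 EL.nil)))
noncomputable def S285_314_438_512_6 : EL := (EL.cons 12 (TM.mk (P.lf 8589934592 0 0) 0)
 (EL.cons 3 (TM.mk (P.cons (P.lf 1320724353 0 0) (P.cons (P.lf 409570215 0 0) (P.cons (P.lf 0 14623338 0) (P.cons (P.lf 0 1245645 0) (P.cons (P.lf 85526 0 0) (P.cons (P.lf 2831 0 0) P.nil)))))) 532)
 (EL.cons 7 (TM.mk (P.cons (P.lf 0 1997870342 0) (P.cons (P.lf 96267727 0 0) (P.cons (P.lf 13808992 0 0) (P.cons (P.lf 0 693290 0) (P.cons (P.lf 0 37347 0) (P.cons (P.lf 3551 0 0) P.nil)))))) 296)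
 EL.nil)))
noncomputable def S285_314_438_512_7 : EL := (EL.cons 12 (TM.mk (P.cons (P.cons (P.lf 0 798935354 0) (P.cons (P.lf 0 738018488 0) (P.cons (P.lf 0 11746536 0) (P.lf 3915512 0 0)))) (P.cons (P.cons (P.lf 0 234353026 0) (P.cons (P.lf 106684640 0 0) (P.cons (P.lf 1698024 0 0) (P.lf 0 566008 0)))) (P.cons (P.cons (P.lf 158226294 0 0) (P.cons (P.lf 10162608 0 0) (P.cons (P.lf 161744 0 0) (P.lf 0 53912 0)))) (P.cons (P.cons (P.lf 7809352 0 0) (P.cons (P.lf 0 2160512 0) (P.cons (P.lf 0 34384 0) P.nil))) (P.cons (P.cons (P.lf 0 2592438 0) (P.cons (P.lf 0 37584 0) P.nil)) (P.cons (P.cons (P.lf 0 8692 0) P.nil) P.nil)))))) 69106)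
 (EL.cons 3 (TM.mk (P.cons (P.cons (P.lf 0 870628082 0) (P.cons (P.lf 226944448 0 0) (P.cons (P.lf 3612118 0 0) (P.lf 0 1204038 0)))) (P.cons (P.cons (P.lf 954299173 0 0) (P.cons (P.lf 37571736 0 0) (P.cons (P.lf 598002 0 0) (P.lf 0 199332 0)))) (P.cons (P.cons (P.lf 67175054 0 0) (P.cons (P.lf 0 15811328 0) (P.cons (P.lf 0 251654 0) (P.lf 83882 0 0)))) (P.cons (P.cons (P.lf 0 29895770 0) (P.cons (P.lf 0 155550 0) (P.cons (P.lf 0 2474 0) P.nil))) (P.cons (P.cons (P.lf 106564 0 0) (P.cons (P.lf 297822 0 0) P.nil)) (P.cons (P.cons (P.lf 412472 0 0) P.nil) P.nil)))))) 158246)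
 (EL.cons 7 (TM.mk (P.cons (P.cons (P.lf 10053779 0 0) (P.cons (P.lf 251663835 0 0) (P.cons (P.lf 4005565 0 0) (P.lf 0 1335189 0)))) (P.cons (P.cons (P.lf 224303945 0 0) (P.cons (P.lf 8831074 0 0) (P.cons (P.lf 140557 0 0) (P.lf 0 46851 0)))) (P.cons (P.cons (P.lf 55972754 0 0) (P.cons (P.lf 0 2134322 0) (P.cons (P.lf 0 33974 0) (P.lf 11326 0 0)))) (P.cons (P.cons (P.lf 0 2275637 0) (P.cons (P.lf 0 885692 0) (P.cons (P.lf 0 14095 0) P.nil))) (P.cons (P.cons (P.lf 0 1657838 0) (P.cons (P.lf 39840 0 0) P.nil)) (P.cons (P.cons (P.lf 64842 0 0) P.nil) P.nil)))))) 141879)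
 (EL.cons 10 (TM.mk (P.cons (P.cons (P.lf 0 2737174968 0) (P.cons (P.lf 0 101463342 0) (P.cons (P.lf 50275452 0 0) (P.cons (P.lf 456219 0 0) (P.lf 0 114054 0))))) (P.cons (P.cons (P.lf 263782491 0 0) (P.cons (P.lf 9778056 0 0) (P.cons (P.lf 0 4845060 0) (P.cons (P.lf 0 43965 0) (P.lf 10989 0 0))))) (P.cons (P.cons (P.lf 31482714 0 0) (P.cons (P.lf 1167021 0 0) (P.cons (P.lf 0 578262 0) (P.cons (P.lf 0 5247 0) P.nil)))) (P.cons (P.cons (P.lf 0 3722901 0) (P.cons (P.lf 0 138000 0) (P.cons (P.lf 68379 0 0) P.nil))) (P.cons (P.cons (P.lf 0 141561 0) (P.cons (P.lf 0 5247 0) P.nil)) (P.cons (P.cons (P.lf 27786 0 0) P.nil) P.nil)))))) 9000)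
 EL.nil))))
noncomputable def S285_314_438_512_8 : EL := (EL.cons 12 (TM.mk (P.cons (P.cons (P.lf 74307632 0 0) (P.cons (P.lf 137283714 0 0) (P.cons (P.lf 65593134 0 0) (P.cons (P.lf 1290094 0 0) (P.cons (P.lf 0 656752 0) (P.cons (P.lf 0 10708 0) P.nil)))))) (P.cons (P.cons (P.lf 43593560 0 0) (P.cons (P.lf 20424540 0 0) (P.cons (P.lf 0 18006890 0) (P.cons (P.lf 0 691914 0) (P.cons (P.lf 189874 0 0) P.nil))))) (P.cons (P.cons (P.lf 0 23039036 0) (P.cons (P.lf 0 34900164 0) (P.cons (P.lf 0 976760 0) (P.cons (P.lf 171750 0 0) P.nil)))) (P.cons (P.cons (P.lf 0 10086218 0) (P.cons (P.lf 2435720 0 0) (P.cons (P.lf 662448 0 0) P.nil))) (P.cons (P.cons (P.lf 2970644 0 0) (P.cons (P.lf 1138714 0 0) P.nil)) (P.cons (P.cons (P.lf 430768 0 0) P.nil) P.nil)))))) 524902)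
 (EL.cons 3 (TM.mk (P.cons (P.cons (P.lf 150526311 0 0) (P.cons (P.lf 86279744 0 0) (P.cons (P.lf 0 47372515 0) (P.cons (P.lf 0 2009454 0) (P.cons (P.lf 504885 0 0) (P.cons (P.lf 8230 0 0) P.nil)))))) (P.cons (P.cons (P.lf 0 140255703 0) (P.cons (P.lf 0 214664460 0) (P.cons (P.lf 0 4440288 0) (P.cons (P.lf 1106302 0 0) (P.cons (P.lf 10601 0 0) P.nil))))) (P.cons (P.cons (P.lf 0 95050211 0) (P.cons (P.lf 23978856 0 0) (P.cons (P.lf 5615604 0 0) (P.cons (P.lf 39389 0 0) P.nil)))) (P.cons (P.cons (P.lf 38203298 0 0) (P.cons (P.lf 13534351 0 0) (P.cons (P.lf 0 273677 0) P.nil))) (P.cons (P.cons (P.lf 6337345 0 0) (P.cons (P.lf 0 2121484 0) P.nil)) (P.cons (P.cons (P.lf 0 1864853 0) P.nil) P.nil)))))) 1429577)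
 (EL.cons 7 (TM.mk (P.cons (P.cons (P.lf 15412499 0 0) (P.cons (P.lf 0 16611417 0) (P.cons (P.lf 0 28760995 0) (P.cons (P.lf 0 818987 0) (P.cons (P.lf 295153 0 0) (P.cons (P.lf 4812 0 0) P.nil)))))) (P.cons (P.cons (P.lf 0 32966500 0) (P.cons (P.lf 0 50455959 0) (P.cons (P.lf 0 1043666 0) (P.cons (P.lf 260027 0 0) (P.cons (P.lf 2491 0 0) P.nil))))) (P.cons (P.cons (P.lf 0 28247021 0) (P.cons (P.lf 0 3402939 0) (P.cons (P.lf 1132951 0 0) (P.cons (P.lf 55840 0 0) P.nil)))) (P.cons (P.cons (P.lf 3499033 0 0) (P.cons (P.lf 4307059 0 0) (P.cons (P.lf 246394 0 0) P.nil))) (P.cons (P.cons (P.lf 3741193 0 0) (P.cons (P.lf 370204 0 0) P.nil)) (P.cons (P.cons (P.lf 42334 0 0) P.nil) P.nil)))))) 832777)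
 (EL.cons 10 (TM.mk (P.cons (P.cons (P.lf 509160066 0 0) (P.cons (P.lf 489211728 0 0) (P.cons (P.lf 15568758 0 0) (P.cons (P.lf 0 10941708 0) (P.cons (P.lf 0 287172 0) (P.cons (P.lf 64182 0 0) P.nil)))))) (P.cons (P.cons (P.lf 100284828 0 0) (P.cons (P.lf 0 109599126 0) (P.cons (P.lf 0 7846062 0) (P.cons (P.lf 2598978 0 0) (P.cons (P.lf 78474 0 0) P.nil))))) (P.cons (P.cons (P.lf 0 121086816 0) (P.cons (P.lf 0 9822696 0) (P.cons (P.lf 1941450 0 0) (P.cons (P.lf 143304 0 0) P.nil)))) (P.cons (P.cons (P.lf 3715518 0 0) (P.cons (P.lf 3560502 0 0) (P.cons (P.lf 113106 0 0) P.nil))) (P.cons (P.cons (P.lf 3521070 0 0) (P.cons (P.lf 28122 0 0) P.nil)) (P.cons (P.cons (P.lf 0 231030 0) P.nil) P.nil)))))) 363816)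
 EL.nil))))
noncomputable def S285_314_438_512_9 : EL := (EL.cons 3 (TM.mk (P.cons (P.lf 1320724353 0 0) (P.cons (P.lf 409570215 0 0) (P.cons (P.lf 0 14623338 0) (P.cons (P.lf 0 1245645 0) (P.cons (P.lf 85526 0 0) (P.cons (P.lf 2831 0 0) P.nil)))))) 532)
 (EL.cons 7 (TM.mk (P.cons (P.lf 0 1997870342 0) (P.cons (P.lf 96267727 0 0) (P.cons (P.lf 13808992 0 0) (P.cons (P.lf 0 693290 0) (P.cons (P.lf 0 37347 0) (P.cons (P.lf 3551 0 0) P.nil)))))) 296)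
 EL.nil))
noncomputable def S285_314_438_512_10 : EL := (EL.cons 3 (TM.mk (P.cons (P.cons (P.lf 0 122838347 0) (P.cons (P.lf 0 113472224 0) (P.cons (P.lf 0 1806059 0) (P.lf 602019 0 0)))) (P.cons (P.cons (P.lf 0 74125811 0) (P.cons (P.lf 0 18785868 0) (P.cons (P.lf 0 299001 0) (P.lf 99666 0 0)))) (P.cons (P.cons (P.lf 14513777 0 0) (P.cons (P.lf 7905664 0 0) (P.cons (P.lf 125827 0 0) (P.lf 0 41941 0)))) (P.cons (P.cons (P.lf 9259789 0 0) (P.cons (P.lf 77775 0 0) (P.cons (P.lf 1237 0 0) P.nil))) (P.cons (P.cons (P.lf 0 269573 0) (P.cons (P.lf 0 148911 0) P.nil)) (P.cons (P.cons (P.lf 0 163780 0) P.nil) P.nil)))))) 37888)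
 (EL.cons 7 (TM.mk (P.cons (P.cons (P.lf 185818556 0 0) (P.cons (P.lf 171650346 0 0) (P.cons (P.lf 2732041 0 0) (P.lf 0 910680 0)))) (P.cons (P.cons (P.lf 45552764 0 0) (P.cons (P.lf 0 33084005 0) (P.cons (P.lf 0 526574 0) (P.lf 175524 0 0)))) (P.cons (P.cons (P.lf 0 40711456 0) (P.cons (P.lf 0 2354450 0) (P.cons (P.lf 0 37472 0) (P.lf 12490 0 0)))) (P.cons (P.cons (P.lf 0 355331 0) (P.cons (P.lf 847459 0 0) (P.cons (P.lf 13487 0 0) P.nil))) (P.cons (P.cons (P.lf 967225 0 0) (P.cons (P.lf 0 4536 0) P.nil)) (P.cons (P.cons (P.lf 0 26559 0) P.nil) P.nil)))))) 31805)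
 EL.nil))
noncomputable def S285_314_438_512_11 : EL := (EL.cons 3 (TM.mk (P.cons (P.cons (P.lf 11424987 0 0) (P.cons (P.lf 21107720 0 0) (P.cons (P.lf 10085111 0 0) (P.cons (P.lf 198354 0 0) (P.cons (P.lf 0 100977 0) (P.cons (P.lf 0 1646 0) P.nil)))))) (P.cons (P.cons (P.lf 10245627 0 0) (P.cons (P.lf 9686046 0 0) (P.cons (P.lf 358890 0 0) (P.cons (P.lf 0 44870 0) (P.cons (P.lf 0 2119 0) P.nil))))) (P.cons (P.cons (P.lf 0 1590257 0) (P.cons (P.lf 0 4625850 0) (P.cons (P.lf 0 1120416 0) (P.cons (P.lf 0 8779 0) P.nil)))) (P.cons (P.cons (P.lf 0 2734276 0) (P.cons (P.lf 0 1344227 0) (P.cons (P.lf 76423 0 0) P.nil))) (P.cons (P.cons (P.lf 9469 0 0) (P.cons (P.lf 349034 0 0) P.nil)) (P.cons (P.cons (P.lf 228841 0 0) P.nil) P.nil)))))) 261313)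
 (EL.cons 7 (TM.mk (P.cons (P.cons (P.lf 0 17282671 0) (P.cons (P.lf 0 31929819 0) (P.cons (P.lf 0 15255829 0) (P.cons (P.lf 0 300053 0) (P.cons (P.lf 152749 0 0) (P.cons (P.lf 2490 0 0) P.nil)))))) (P.cons (P.cons (P.lf 0 9306340 0) (P.cons (P.lf 0 3211851 0) (P.cons (P.lf 4923196 0 0) (P.cons (P.lf 175385 0 0) (P.cons (P.lf 0 51521 0) P.nil))))) (P.cons (P.cons (P.lf 5966491 0 0) (P.cons (P.lf 8566767 0 0) (P.cons (P.lf 130819 0 0) (P.cons (P.lf 0 45626 0) P.nil)))) (P.cons (P.cons (P.lf 2151763 0 0) (P.cons (P.lf 0 935879 0) (P.cons (P.lf 0 199262 0) P.nil))) (P.cons (P.cons (P.lf 0 844835 0) (P.cons (P.lf 0 295898 0) P.nil)) (P.cons (P.cons (P.lf 0 81410 0) P.nil) P.nil)))))) 181665)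
 EL.nil))
noncomputable def S285_314_438_512_12 : EL := (EL.cons 4 (TM.mk (P.cons (P.lf 0 1320724353 0) (P.cons (P.lf 0 409570215 0) (P.cons (P.lf 14623338 0 0) (P.cons (P.lf 1245645 0 0) (P.cons (P.lf 0 85526 0) (P.cons (P.lf 0 2831 0) P.nil)))))) 532)
 (EL.cons 8 (TM.mk (P.cons (P.lf 1997870342 0 0) (P.cons (P.lf 0 96267727 0) (P.cons (P.lf 0 13808992 0) (P.cons (P.lf 693290 0 0) (P.cons (P.lf 37347 0 0) (P.cons (P.lf 0 3551 0) P.nil)))))) 296)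
 EL.nil))
noncomputable def S285_314_438_512_13 : EL := (EL.cons 4 (TM.mk (P.cons (P.cons (P.lf 122838347 0 0) (P.cons (P.lf 113472224 0 0) (P.cons (P.lf 1806059 0 0) (P.lf 0 602019 0)))) (P.cons (P.cons (P.lf 74125811 0 0) (P.cons (P.lf 18785868 0 0) (P.cons (P.lf 299001 0 0) (P.lf 0 99666 0)))) (P.cons (P.cons (P.lf 0 14513777 0) (P.cons (P.lf 0 7905664 0) (P.cons (P.lf 0 125827 0) (P.lf 41941 0 0)))) (P.cons (P.cons (P.lf 0 9259789 0) (P.cons (P.lf 0 77775 0) (P.cons (P.lf 0 1237 0) P.nil))) (P.cons (P.cons (P.lf 269573 0 0) (P.cons (P.lf 148911 0 0) P.nil)) (P.cons (P.cons (P.lf 163780 0 0) P.nil) P.nil)))))) 37888)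
 (EL.cons 8 (TM.mk (P.cons (P.cons (P.lf 0 185818556 0) (P.cons (P.lf 0 171650346 0) (P.cons (P.lf 0 2732041 0) (P.lf 910680 0 0)))) (P.cons (P.cons (P.lf 0 45552764 0) (P.cons (P.lf 33084005 0 0) (P.cons (P.lf 526574 0 0) (P.lf 0 175524 0)))) (P.cons (P.cons (P.lf 40711456 0 0) (P.cons (P.lf 2354450 0 0) (P.cons (P.lf 37472 0 0) (P.lf 0 12490 0)))) (P.cons (P.cons (P.lf 355331 0 0) (P.cons (P.lf 0 847459 0) (P.cons (P.lf 0 13487 0) P.nil))) (P.cons (P.cons (P.lf 0 967225 0) (P.cons (P.lf 4536 0 0) P.nil)) (P.cons (P.cons (P.lf 26559 0 0) P.nil) P.nil)))))) 31805)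
 EL.nil))
noncomputable def S285_314_438_512_14 : EL := (EL.cons 4 (TM.mk (P.cons (P.cons (P.lf 0 11424987 0) (P.cons (P.lf 0 21107720 0) (P.cons (P.lf 0 10085111 0) (P.cons (P.lf 0 198354 0) (P.cons (P.lf 100977 0 0) (P.cons (P.lf 1646 0 0) P.nil)))))) (P.cons (P.cons (P.lf 0 10245627 0) (P.cons (P.lf 0 9686046 0) (P.cons (P.lf 0 358890 0) (P.cons (P.lf 44870 0 0) (P.cons (P.lf 2119 0 0) P.nil))))) (P.cons (P.cons (P.lf 1590257 0 0) (P.cons (P.lf 4625850 0 0) (P.cons (P.lf 1120416 0 0) (P.cons (P.lf 8779 0 0) P.nil)))) (P.cons (P.cons (P.lf 2734276 0 0) (P.cons (P.lf 1344227 0 0) (P.cons (P.lf 0 76423 0) P.nil))) (P.cons (P.cons (P.lf 0 9469 0) (P.cons (P.lf 0 349034 0) P.nil)) (P.cons (P.cons (P.lf 0 228841 0) P.nil) P.nil)))))) 261313)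
 (EL.cons 8 (TM.mk (P.cons (P.cons (P.lf 17282671 0 0) (P.cons (P.lf 31929819 0 0) (P.cons (P.lf 15255829 0 0) (P.cons (P.lf 300053 0 0) (P.cons (P.lf 0 152749 0) (P.cons (P.lf 0 2490 0) P.nil)))))) (P.cons (P.cons (P.lf 9306340 0 0) (P.cons (P.lf 3211851 0 0) (P.cons (P.lf 0 4923196 0) (P.cons (P.lf 0 175385 0) (P.cons (P.lf 51521 0 0) P.nil))))) (P.cons (P.cons (P.lf 0 5966491 0) (P.cons (P.lf 0 8566767 0) (P.cons (P.lf 0 130819 0) (P.cons (P.lf 45626 0 0) P.nil)))) (P.cons (P.cons (P.lf 0 2151763 0) (P.cons (P.lf 935879 0 0) (P.cons (P.lf 199262 0 0) P.nil))) (P.cons (P.cons (P.lf 844835 0 0) (P.cons (P.lf 295898 0 0) P.nil)) (P.cons (P.cons (P.lf 81410 0 0) P.nil) P.nil)))))) 181665)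
 EL.nil))
noncomputable def S285_314_438_512_15 : EL := (EL.cons 4 (TM.mk (P.cons (P.lf 0 433204774 0) (P.cons (P.lf 0 268682518 0) (P.cons (P.lf 0 32067537 0) (P.cons (P.lf 3792065 0 0) (P.cons (P.lf 144194 0 0) (P.cons (P.lf 0 28304 0) P.nil)))))) 2128)
 (EL.cons 8 (TM.mk (P.cons (P.lf 655312343 0 0) (P.cons (P.lf 171642763 0 0) (P.cons (P.lf 0 21577328 0) (P.cons (P.lf 0 1445658 0) (P.cons (P.lf 205138 0 0) (P.cons (P.lf 3748 0 0) P.nil)))))) 1533)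
 EL.nil))
noncomputable def S285_314_438_512_16 : EL := (EL.cons 4 (TM.mk (P.cons (P.cons (P.lf 40291646 0 0) (P.cons (P.lf 37219506 0 0) (P.cons (P.lf 592396 0 0) (P.lf 0 197465 0)))) (P.cons (P.cons (P.lf 36808523 0 0) (P.cons (P.lf 17704019 0 0) (P.cons (P.lf 281782 0 0) (P.lf 0 93927 0)))) (P.cons (P.cons (P.lf 2333203 0 0) (P.cons (P.lf 0 1094344 0) (P.cons (P.lf 0 17416 0) (P.lf 5805 0 0)))) (P.cons (P.cons (P.lf 0 4820778 0) (P.cons (P.lf 0 932986 0) (P.cons (P.lf 0 14849 0) P.nil))) (P.cons (P.cons (P.lf 0 821075 0) (P.cons (P.lf 66241 0 0) P.nil)) (P.cons (P.cons (P.lf 120920 0 0) P.nil) P.nil)))))) 53894)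
 (EL.cons 8 (TM.mk (P.cons (P.cons (P.lf 0 60949497 0) (P.cons (P.lf 0 56302247 0) (P.cons (P.lf 0 896124 0) (P.lf 298707 0 0)))) (P.cons (P.cons (P.lf 0 33842621 0) (P.cons (P.lf 0 6608172 0) (P.cons (P.lf 0 105177 0) (P.lf 35058 0 0)))) (P.cons (P.cons (P.lf 9394894 0 0) (P.cons (P.lf 4760896 0 0) (P.cons (P.lf 75775 0 0) (P.lf 0 25258 0)))) (P.cons (P.cons (P.lf 4480553 0 0) (P.cons (P.lf 0 105532 0) (P.cons (P.lf 0 1679 0) P.nil))) (P.cons (P.cons (P.lf 0 418819 0) (P.cons (P.lf 0 107145 0) P.nil)) (P.cons (P.cons (P.lf 0 104655 0) P.nil) P.nil)))))) 35556)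
 EL.nil))
noncomputable def S285_314_438_512_17 : EL := (EL.cons 4 (TM.mk (P.cons (P.cons (P.lf 0 3747457 0) (P.cons (P.lf 0 6923446 0) (P.cons (P.lf 0 3307970 0) (P.cons (P.lf 0 65061 0) (P.cons (P.lf 33120 0 0) (P.cons (P.lf 540 0 0) P.nil)))))) (P.cons (P.cons (P.lf 0 4522746 0) (P.cons (P.lf 0 5324107 0) (P.cons (P.lf 0 1143554 0) (P.cons (P.lf 0 5458 0) (P.cons (P.lf 10965 0 0) P.nil))))) (P.cons (P.cons (P.lf 0 479056 0) (P.cons (P.lf 608717 0 0) (P.cons (P.lf 367622 0 0) (P.cons (P.lf 8163 0 0) P.nil)))) (P.cons (P.cons (P.lf 1099359 0 0) (P.cons (P.lf 953152 0 0) (P.cons (P.lf 93321 0 0) P.nil))) (P.cons (P.cons (P.lf 272169 0 0) (P.cons (P.lf 7995 0 0) P.nil)) (P.cons (P.cons (P.lf 0 86671 0) P.nil) P.nil)))))) 202511)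
 (EL.cons 8 (TM.mk (P.cons (P.cons (P.lf 5668809 0 0) (P.cons (P.lf 10473154 0 0) (P.cons (P.lf 5003994 0 0) (P.cons (P.lf 98418 0 0) (P.cons (P.lf 0 50102 0) (P.cons (P.lf 0 816 0) P.nil)))))) (P.cons (P.cons (P.lf 4810486 0 0) (P.cons (P.lf 4301337 0 0) (P.cons (P.lf 0 63045 0) (P.cons (P.lf 0 27006 0) (P.cons (P.lf 1362 0 0) P.nil))))) (P.cons (P.cons (P.lf 0 1073186 0) (P.cons (P.lf 0 2599204 0) (P.cons (P.lf 0 599091 0) (P.cons (P.lf 0 3963 0) P.nil)))) (P.cons (P.cons (P.lf 0 1351833 0) (P.cons (P.lf 0 585961 0) (P.cons (P.lf 65212 0 0) P.nil))) (P.cons (P.cons (P.lf 77394 0 0) (P.cons (P.lf 223048 0 0) P.nil)) (P.cons (P.cons (P.lf 122507 0 0) P.nil) P.nil)))))) 166367)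
 EL.nil))
noncomputable def S285_314_438_512_18 : EL := (EL.cons 4 (TM.mk (P.cons (P.lf 0 142093522 0) (P.cons (P.lf 0 132193991 0) (P.cons (P.lf 0 36274848 0) (P.cons (P.lf 0 908220 0) (P.cons (P.lf 623396 0 0) (P.cons (P.lf 0 4479 0) P.nil)))))) 6741)
 (EL.cons 8 (TM.mk (P.cons (P.lf 214946014 0 0) (P.cons (P.lf 122956731 0 0) (P.cons (P.lf 8001726 0 0) (P.cons (P.lf 0 3495072 0) (P.cons (P.lf 0 40579 0) (P.cons (P.lf 38127 0 0) P.nil)))))) 3726)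
 EL.nil))
noncomputable def S285_314_438_512_19 : EL := (EL.cons 4 (TM.mk (P.cons (P.cons (P.lf 13215878 0 0) (P.cons (P.lf 12208200 0 0) (P.cons (P.lf 194309 0 0) (P.lf 0 64769 0)))) (P.cons (P.cons (P.lf 16171775 0 0) (P.cons (P.lf 9592903 0 0) (P.cons (P.lf 152683 0 0) (P.lf 0 50894 0)))) (P.cons (P.cons (P.lf 4363058 0 0) (P.cons (P.lf 1306691 0 0) (P.cons (P.lf 20797 0 0) (P.lf 0 6931 0)))) (P.cons (P.cons (P.lf 0 1490056 0) (P.cons (P.lf 0 493149 0) (P.cons (P.lf 0 7848 0) P.nil))) (P.cons (P.cons (P.lf 0 778680 0) (P.cons (P.lf 0 73885 0) P.nil)) (P.cons (P.cons (P.lf 0 26258 0) P.nil) P.nil)))))) 55910)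
 (EL.cons 8 (TM.mk (P.cons (P.cons (P.lf 0 19991766 0) (P.cons (P.lf 0 18467443 0) (P.cons (P.lf 0 293933 0) (P.lf 97977 0 0)))) (P.cons (P.cons (P.lf 0 17300216 0) (P.cons (P.lf 0 7894460 0) (P.cons (P.lf 0 125650 0) (P.lf 41883 0 0)))) (P.cons (P.cons (P.lf 0 139469 0) (P.cons (P.lf 1093906 0 0) (P.cons (P.lf 17410 0 0) (P.lf 0 5803 0)))) (P.cons (P.cons (P.lf 2567037 0 0) (P.cons (P.lf 491069 0 0) (P.cons (P.lf 7815 0 0) P.nil))) (P.cons (P.cons (P.lf 293431 0 0) (P.cons (P.lf 0 62320 0) P.nil)) (P.cons (P.cons (P.lf 0 96868 0) P.nil) P.nil)))))) 42141)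
 EL.nil))
noncomputable def S285_314_438_512_20 : EL := (EL.cons 4 (TM.mk (P.cons (P.cons (P.lf 0 1229186 0) (P.cons (P.lf 0 2270927 0) (P.cons (P.lf 0 1085032 0) (P.cons (P.lf 0 21340 0) (P.cons (P.lf 10863 0 0) (P.cons (P.lf 176 0 0) P.nil)))))) (P.cons (P.cons (P.lf 0 1864668 0) (P.cons (P.lf 0 2450574 0) (P.cons (P.lf 0 711570 0) (P.cons (P.lf 0 8407 0) (P.cons (P.lf 6965 0 0) P.nil))))) (P.cons (P.cons (P.lf 0 603567 0) (P.cons (P.lf 0 316749 0) (P.cons (P.lf 16275 0 0) (P.cons (P.lf 2358 0 0) P.nil)))) (P.cons (P.cons (P.lf 329451 0 0) (P.cons (P.lf 396033 0 0) (P.cons (P.lf 73180 0 0) P.nil))) (P.cons (P.cons (P.lf 204156 0 0) (P.cons (P.lf 98864 0 0) P.nil)) (P.cons (P.cons (P.lf 0 4687 0) P.nil) P.nil)))))) 124594)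
 (EL.cons 8 (TM.mk (P.cons (P.cons (P.lf 1859400 0 0) (P.cons (P.lf 3435251 0 0) (P.cons (P.lf 1641337 0 0) (P.cons (P.lf 32282 0 0) (P.cons (P.lf 0 16433 0) (P.cons (P.lf 0 267 0) P.nil)))))) (P.cons (P.cons (P.lf 2154484 0 0) (P.cons (P.lf 2476168 0 0) (P.cons (P.lf 488316 0 0) (P.cons (P.lf 1152 0 0) (P.cons (P.lf 0 4649 0) P.nil))))) (P.cons (P.cons (P.lf 116713 0 0) (P.cons (P.lf 0 453066 0) (P.cons (P.lf 0 221090 0) (P.cons (P.lf 0 4404 0) P.nil)))) (P.cons (P.cons (P.lf 0 571795 0) (P.cons (P.lf 0 475445 0) (P.cons (P.lf 0 40866 0) P.nil))) (P.cons (P.cons (P.lf 0 109589 0) (P.cons (P.lf 21889 0 0) P.nil)) (P.cons (P.cons (P.lf 53403 0 0) P.nil) P.nil)))))) 118309)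
 EL.nil))
noncomputable def S285_314_438_512_21 : EL := (EL.cons 4 (TM.mk (P.cons (P.cons (P.lf 747789735 0 0) (P.cons (P.lf 0 340416672 0) (P.cons (P.lf 0 5418177 0) (P.lf 1806057 0 0)))) (P.cons (P.cons (P.lf 0 1028424984 0) (P.cons (P.lf 0 56357604 0) (P.cons (P.lf 0 897003 0) (P.lf 298998 0 0)))) (P.cons (P.cons (P.lf 0 52661277 0) (P.cons (P.lf 23716992 0 0) (P.cons (P.lf 377481 0 0) (P.lf 0 125823 0)))) (P.cons (P.cons (P.lf 39155559 0 0) (P.cons (P.lf 233325 0 0) (P.cons (P.lf 3711 0 0) P.nil))) (P.cons (P.cons (P.lf 0 376137 0) (P.cons (P.lf 0 446733 0) P.nil)) (P.cons (P.cons (P.lf 0 576252 0) P.nil) P.nil)))))) 120339)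
 (EL.cons 8 (TM.mk (P.cons (P.cons (P.lf 175764777 0 0) (P.cons (P.lf 0 80013489 0) (P.cons (P.lf 0 1273524 0) (P.lf 424509 0 0)))) (P.cons (P.cons (P.lf 0 178751181 0) (P.cons (P.lf 0 41915079 0) (P.cons (P.lf 0 667131 0) (P.lf 222375 0 0)))) (P.cons (P.cons (P.lf 0 96684210 0) (P.cons (P.lf 0 220128 0) (P.cons (P.lf 0 3498 0) (P.lf 1164 0 0)))) (P.cons (P.cons (P.lf 1920306 0 0) (P.cons (P.lf 1733151 0 0) (P.cons (P.lf 27582 0 0) P.nil))) (P.cons (P.cons (P.lf 2625063 0 0) (P.cons (P.lf 0 44376 0) P.nil)) (P.cons (P.cons (P.lf 0 91401 0) P.nil) P.nil)))))) 110055)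
 (EL.cons 11 (TM.mk (P.cons (P.cons (P.lf 2737174968 0 0) (P.cons (P.lf 101463342 0 0) (P.cons (P.lf 0 50275452 0) (P.cons (P.lf 0 456219 0) (P.lf 114054 0 0))))) (P.cons (P.cons (P.lf 0 263782491 0) (P.cons (P.lf 0 9778056 0) (P.cons (P.lf 4845060 0 0) (P.cons (P.lf 43965 0 0) (P.lf 0 10989 0))))) (P.cons (P.cons (P.lf 0 31482714 0) (P.cons (P.lf 0 1167021 0) (P.cons (P.lf 578262 0 0) (P.cons (P.lf 5247 0 0) P.nil)))) (P.cons (P.cons (P.lf 3722901 0 0) (P.cons (P.lf 138000 0 0) (P.cons (P.lf 0 68379 0) P.nil))) (P.cons (P.cons (P.lf 141561 0 0) (P.cons (P.lf 5247 0 0) P.nil)) (P.cons (P.cons (P.lf 0 27786 0) P.nil) P.nil)))))) 9000)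
 EL.nil)))
noncomputable def S285_314_438_512_22 : EL := (EL.cons 4 (TM.mk (P.cons (P.cons (P.lf 0 69550662 0) (P.cons (P.lf 0 32586012 0) (P.cons (P.lf 28728813 0 0) (P.cons (P.lf 1103904 0 0) (P.cons (P.lf 0 302931 0) (P.cons (P.lf 0 4938 0) P.nil)))))) (P.cons (P.cons (P.lf 75250665 0 0) (P.cons (P.lf 112175253 0 0) (P.cons (P.lf 2399589 0 0) (P.cons (P.lf 0 575586 0) (P.cons (P.lf 0 6360 0) P.nil))))) (P.cons (P.cons (P.lf 46729977 0 0) (P.cons (P.lf 0 14302353 0) (P.cons (P.lf 0 3368010 0) (P.cons (P.lf 0 24084 0) P.nil)))) (P.cons (P.cons (P.lf 0 20468787 0) (P.cons (P.lf 0 7439289 0) (P.cons (P.lf 175050 0 0) P.nil))) (P.cons (P.cons (P.lf 0 3163938 0) (P.cons (P.lf 1235259 0 0) P.nil)) (P.cons (P.cons (P.lf 1046847 0 0) P.nil) P.nil)))))) 584121)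
 (EL.cons 8 (TM.mk (P.cons (P.cons (P.lf 0 16347585 0) (P.cons (P.lf 0 7659201 0) (P.cons (P.lf 6752583 0 0) (P.cons (P.lf 259467 0 0) (P.cons (P.lf 0 71202 0) (P.cons (P.lf 0 1161 0) P.nil)))))) (P.cons (P.cons (P.lf 11830080 0 0) (P.cons (P.lf 23622054 0 0) (P.cons (P.lf 2983431 0 0) (P.cons (P.lf 0 42321 0) (P.cons (P.lf 0 27006 0) P.nil))))) (P.cons (P.cons (P.lf 17106756 0 0) (P.cons (P.lf 5984853 0 0) (P.cons (P.lf 0 501066 0) (P.cons (P.lf 0 50733 0) P.nil)))) (P.cons (P.cons (P.lf 0 673635 0) (P.cons (P.lf 0 2621469 0) (P.cons (P.lf 0 222828 0) P.nil))) (P.cons (P.cons (P.lf 0 2293014 0) (P.cons (P.lf 0 333051 0) P.nil)) (P.cons (P.cons (P.lf 0 61872 0) P.nil) P.nil)))))) 325545)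
 (EL.cons 11 (TM.mk (P.cons (P.cons (P.lf 0 254580033 0) (P.cons (P.lf 0 244605864 0) (P.cons (P.lf 0 7784379 0) (P.cons (P.lf 5470854 0 0) (P.cons (P.lf 143586 0 0) (P.cons (P.lf 0 32091 0) P.nil)))))) (P.cons (P.cons (P.lf 0 50142414 0) (P.cons (P.lf 54799563 0 0) (P.cons (P.lf 3923031 0 0) (P.cons (P.lf 0 1299489 0) (P.cons (P.lf 0 39237 0) P.nil))))) (P.cons (P.cons (P.lf 60543408 0 0) (P.cons (P.lf 4911348 0 0) (P.cons (P.lf 0 970725 0) (P.cons (P.lf 0 71652 0) P.nil)))) (P.cons (P.cons (P.lf 0 1857759 0) (P.cons (P.lf 0 1780251 0) (P.cons (P.lf 0 56553 0) P.nil))) (P.cons (P.cons (P.lf 0 1760535 0) (P.cons (P.lf 0 14061 0) P.nil)) (P.cons (P.cons (P.lf 115515 0 0) P.nil) P.nil)))))) 181908)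
 EL.nil)))
noncomputable def S285_314_438_512_23 : EL := (EL.cons 4 (TM.mk (P.cons (P.cons (P.lf 245279100 0 0) (P.cons (P.lf 0 111658518 0) (P.cons (P.lf 0 1777191 0) (P.lf 592395 0 0)))) (P.cons (P.cons (P.lf 0 261265416 0) (P.cons (P.lf 0 53112057 0) (P.cons (P.lf 0 845346 0) (P.lf 281781 0 0)))) (P.cons (P.cons (P.lf 0 124598157 0) (P.cons (P.lf 3283032 0 0) (P.cons (P.lf 52251 0 0) (P.lf 0 17415 0)))) (P.cons (P.cons (P.lf 10990284 0 0) (P.cons (P.lf 2798961 0 0) (P.cons (P.lf 44547 0 0) P.nil))) (P.cons (P.cons (P.lf 4384731 0 0) (P.cons (P.lf 0 198726 0) P.nil)) (P.cons (P.cons (P.lf 0 374502 0) P.nil) P.nil)))))) 204639)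
 (EL.cons 8 (TM.mk (P.cons (P.cons (P.lf 57651801 0 0) (P.cons (P.lf 0 26244858 0) (P.cons (P.lf 0 417720 0) (P.lf 139239 0 0)))) (P.cons (P.cons (P.lf 0 40752942 0) (P.cons (P.lf 0 21887175 0) (P.cons (P.lf 0 348360 0) (P.lf 116118 0 0)))) (P.cons (P.cons (P.lf 0 50533467 0) (P.cons (P.lf 0 4045125 0) (P.cons (P.lf 0 64380 0) (P.lf 21459 0 0)))) (P.cons (P.cons (P.lf 0 8609835 0) (P.cons (P.lf 723069 0 0) (P.cons (P.lf 11508 0 0) P.nil))) (P.cons (P.cons (P.lf 1466526 0 0) (P.cons (P.lf 173802 0 0) P.nil)) (P.cons (P.cons (P.lf 256296 0 0) P.nil) P.nil)))))) 87738)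
 (EL.cons 11 (TM.mk (P.cons (P.cons (P.lf 897808281 0 0) (P.cons (P.lf 33280527 0 0) (P.cons (P.lf 0 16490619 0) (P.cons (P.lf 0 149640 0) (P.lf 37410 0 0))))) (P.cons (P.cons (P.lf 191897496 0 0) (P.cons (P.lf 7113378 0 0) (P.cons (P.lf 0 3524703 0) (P.cons (P.lf 0 31983 0) (P.lf 7995 0 0))))) (P.cons (P.cons (P.lf 0 47098614 0) (P.cons (P.lf 0 1745880 0) (P.cons (P.lf 865089 0 0) (P.cons (P.lf 7848 0 0) P.nil)))) (P.cons (P.cons (P.lf 0 1870002 0) (P.cons (P.lf 0 69318 0) (P.cons (P.lf 34347 0 0) P.nil))) (P.cons (P.cons (P.lf 679197 0 0) (P.cons (P.lf 25176 0 0) P.nil)) (P.cons (P.cons (P.lf 0 2172 0) P.nil) P.nil)))))) 26484)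
 EL.nil)))
noncomputable def S285_314_438_512_24 : EL := (EL.cons 4 (TM.mk (P.cons (P.cons (P.lf 0 22812996 0) (P.cons (P.lf 0 10688388 0) (P.cons (P.lf 9423207 0 0) (P.cons (P.lf 362085 0 0) (P.cons (P.lf 0 99363 0) (P.cons (P.lf 0 1620 0) P.nil)))))) (P.cons (P.cons (P.lf 17608080 0 0) (P.cons (P.lf 33479511 0 0) (P.cons (P.lf 3709311 0 0) (P.cons (P.lf 0 76506 0) (P.cons (P.lf 0 32898 0) P.nil))))) (P.cons (P.cons (P.lf 23234613 0 0) (P.cons (P.lf 6837318 0 0) (P.cons (P.lf 0 964980 0) (P.cons (P.lf 0 70455 0) P.nil)))) (P.cons (P.cons (P.lf 0 2212374 0) (P.cons (P.lf 0 4292241 0) (P.cons (P.lf 0 302769 0) P.nil))) (P.cons (P.cons (P.lf 0 3314298 0) (P.cons (P.lf 0 334986 0) P.nil)) (P.cons (P.cons (P.lf 82971 0 0) P.nil) P.nil)))))) 575772)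
 (EL.cons 8 (TM.mk (P.cons (P.cons (P.lf 0 5362095 0) (P.cons (P.lf 0 2512260 0) (P.cons (P.lf 2214882 0 0) (P.cons (P.lf 85107 0 0) (P.cons (P.lf 0 23352 0) (P.cons (P.lf 0 378 0) P.nil)))))) (P.cons (P.cons (P.lf 2217489 0 0) (P.cons (P.lf 6969084 0 0) (P.cons (P.lf 1665441 0 0) (P.cons (P.lf 12510 0 0) (P.cons (P.lf 0 16098 0) P.nil))))) (P.cons (P.cons (P.lf 6873810 0 0) (P.cons (P.lf 4393665 0 0) (P.cons (P.lf 114591 0 0) (P.cons (P.lf 0 21888 0) P.nil)))) (P.cons (P.cons (P.lf 1481199 0 0) (P.cons (P.lf 0 334509 0) (P.cons (P.lf 0 136980 0) P.nil))) (P.cons (P.cons (P.lf 0 886776 0) (P.cons (P.lf 0 405099 0) P.nil)) (P.cons (P.cons (P.lf 0 256140 0) P.nil) P.nil)))))) 157353)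
 (EL.cons 11 (TM.mk (P.cons (P.cons (P.lf 0 83503635 0) (P.cons (P.lf 0 80232054 0) (P.cons (P.lf 0 2553318 0) (P.cons (P.lf 1794468 0 0) (P.cons (P.lf 47097 0 0) (P.cons (P.lf 0 10524 0) P.nil)))))) (P.cons (P.cons (P.lf 0 42342321 0) (P.cons (P.lf 0 6906228 0) (P.cons (P.lf 494964 0 0) (P.cons (P.lf 130242 0 0) (P.cons (P.lf 1734 0 0) P.nil))))) (P.cons (P.cons (P.lf 15682758 0 0) (P.cons (P.lf 8073390 0 0) (P.cons (P.lf 108909 0 0) (P.cons (P.lf 0 175551 0) P.nil)))) (P.cons (P.cons (P.lf 5809851 0 0) (P.cons (P.lf 0 207705 0) (P.cons (P.lf 0 129129 0) P.nil))) (P.cons (P.cons (P.lf 0 976206 0) (P.cons (P.lf 0 225681 0) P.nil)) (P.cons (P.cons (P.lf 0 154413 0) P.nil) P.nil)))))) 153207)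
 EL.nil)))
noncomputable def S285_314_438_512_25 : EL := (EL.cons 4 (TM.mk (P.cons (P.cons (P.lf 80452878 0 0) (P.cons (P.lf 0 36624600 0) (P.cons (P.lf 0 582927 0) (P.lf 194307 0 0)))) (P.cons (P.cons (P.lf 0 60747210 0) (P.cons (P.lf 0 28778709 0) (P.cons (P.lf 0 458049 0) (P.lf 152682 0 0)))) (P.cons (P.cons (P.lf 0 68335023 0) (P.cons (P.lf 0 3920076 0) (P.cons (P.lf 0 62391 0) (P.lf 20796 0 0)))) (P.cons (P.cons (P.lf 0 8196012 0) (P.cons (P.lf 1479447 0 0) (P.cons (P.lf 23544 0 0) P.nil))) (P.cons (P.cons (P.lf 3094668 0 0) (P.cons (P.lf 221655 0 0) P.nil)) (P.cons (P.cons (P.lf 316419 0 0) P.nil) P.nil)))))) 201138)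
 (EL.cons 8 (TM.mk (P.cons (P.cons (P.lf 18910104 0 0) (P.cons (P.lf 0 8608455 0) (P.cons (P.lf 0 137013 0) (P.lf 45669 0 0)))) (P.cons (P.cons (P.lf 0 7502967 0) (P.cons (P.lf 0 9848682 0) (P.cons (P.lf 0 156753 0) (P.lf 52251 0 0)))) (P.cons (P.cons (P.lf 0 20929929 0) (P.cons (P.lf 0 3457824 0) (P.cons (P.lf 0 55035 0) (P.lf 18342 0 0)))) (P.cons (P.cons (P.lf 0 7834059 0) (P.cons (P.lf 0 86682 0) (P.cons (P.lf 0 1377 0) P.nil))) (P.cons (P.cons (P.lf 0 197388 0) (P.cons (P.lf 151461 0 0) P.nil)) (P.cons (P.cons (P.lf 279315 0 0) P.nil) P.nil)))))) 84996)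
 (EL.cons 11 (TM.mk (P.cons (P.cons (P.lf 294486000 0 0) (P.cons (P.lf 10916193 0 0) (P.cons (P.lf 0 5409012 0) (P.cons (P.lf 0 49083 0) (P.lf 12270 0 0))))) (P.cons (P.cons (P.lf 154266561 0 0) (P.cons (P.lf 5718450 0 0) (P.cons (P.lf 0 2833512 0) (P.cons (P.lf 0 25710 0) (P.lf 6426 0 0))))) (P.cons (P.cons (P.lf 810189 0 0) (P.cons (P.lf 30030 0 0) (P.cons (P.lf 0 14880 0) (P.cons (P.lf 0 135 0) P.nil)))) (P.cons (P.cons (P.lf 0 6378807 0) (P.cons (P.lf 0 236454 0) (P.cons (P.lf 117162 0 0) P.nil))) (P.cons (P.cons (P.lf 163323 0 0) (P.cons (P.lf 6051 0 0) P.nil)) (P.cons (P.cons (P.lf 94440 0 0) P.nil) P.nil)))))) 37917)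
 EL.nil)))
noncomputable def S285_314_438_512_26 : EL := (EL.cons 4 (TM.mk (P.cons (P.cons (P.lf 0 7482786 0) (P.cons (P.lf 0 3505848 0) (P.cons (P.lf 3090861 0 0) (P.cons (P.lf 118764 0 0) (P.cons (P.lf 0 32589 0) (P.cons (P.lf 0 531 0) P.nil)))))) (P.cons (P.cons (P.lf 3455055 0 0) (P.cons (P.lf 9894261 0 0) (P.cons (P.lf 2175183 0 0) (P.cons (P.lf 11733 0 0) (P.cons (P.lf 0 20898 0) P.nil))))) (P.cons (P.cons (P.lf 9494985 0 0) (P.cons (P.lf 5686959 0 0) (P.cons (P.lf 26559 0 0) (P.cons (P.lf 0 32205 0) P.nil)))) (P.cons (P.cons (P.lf 1580811 0 0) (P.cons (P.lf 0 830682 0) (P.cons (P.lf 0 213852 0) P.nil))) (P.cons (P.cons (P.lf 0 1402458 0) (P.cons (P.lf 0 581889 0) P.nil)) (P.cons (P.cons (P.lf 0 308700 0) P.nil) P.nil)))))) 341397)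
 (EL.cons 8 (TM.mk (P.cons (P.cons (P.lf 0 1758795 0) (P.cons (P.lf 0 824034 0) (P.cons (P.lf 726492 0 0) (P.cons (P.lf 27915 0 0) (P.cons (P.lf 0 7659 0) (P.cons (P.lf 0 123 0) P.nil)))))) (P.cons (P.cons (P.lf 181926 0 0) (P.cons (P.lf 2030355 0 0) (P.cons (P.lf 771567 0 0) (P.cons (P.lf 12759 0 0) (P.cons (P.lf 0 7656 0) P.nil))))) (P.cons (P.cons (P.lf 2499678 0 0) (P.cons (P.lf 2159148 0 0) (P.cons (P.lf 198945 0 0) (P.cons (P.lf 0 6216 0) P.nil)))) (P.cons (P.cons (P.lf 1178634 0 0) (P.cons (P.lf 312660 0 0) (P.cons (P.lf 0 40005 0) P.nil))) (P.cons (P.cons (P.lf 0 165966 0) (P.cons (P.lf 0 185064 0) P.nil)) (P.cons (P.cons (P.lf 0 181677 0) P.nil) P.nil)))))) 141291)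
 (EL.cons 11 (TM.mk (P.cons (P.cons (P.lf 0 27389646 0) (P.cons (P.lf 0 26316549 0) (P.cons (P.lf 0 837501 0) (P.cons (P.lf 588594 0 0) (P.cons (P.lf 15447 0 0) (P.cons (P.lf 0 3450 0) P.nil)))))) (P.cons (P.cons (P.lf 0 22382322 0) (P.cons (P.lf 0 10426314 0) (P.cons (P.lf 0 97365 0) (P.cons (P.lf 225249 0 0) (P.cons (P.lf 5358 0 0) P.nil))))) (P.cons (P.cons (P.lf 1140321 0 0) (P.cons (P.lf 2237010 0 0) (P.cons (P.lf 95340 0 0) (P.cons (P.lf 0 50850 0) P.nil)))) (P.cons (P.cons (P.lf 3680487 0 0) (P.cons (P.lf 802980 0 0) (P.cons (P.lf 0 32283 0) P.nil))) (P.cons (P.cons (P.lf 225132 0 0) (P.cons (P.lf 0 124038 0) P.nil)) (P.cons (P.cons (P.lf 0 176853 0) P.nil) P.nil)))))) 141039)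
 EL.nil)))
noncomputable def S285_314_438_512_27 : EL := (EL.cons 13 (TM.mk (P.lf 0 4294967296 0) 0)
 EL.nil)
noncomputable def S285_314_438_512_28 : EL := (EL.cons 13 (TM.mk (P.cons (P.cons (P.lf 399467677 0 0) (P.cons (P.lf 369009244 0 0) (P.cons (P.lf 5873268 0 0) (P.lf 0 1957756 0)))) (P.cons (P.cons (P.lf 117176513 0 0) (P.cons (P.lf 0 53342320 0) (P.cons (P.lf 0 849012 0) (P.lf 283004 0 0)))) (P.cons (P.cons (P.lf 0 79113147 0) (P.cons (P.lf 0 5081304 0) (P.cons (P.lf 0 80872 0) (P.lf 26956 0 0)))) (P.cons (P.cons (P.lf 0 3904676 0) (P.cons (P.lf 1080256 0 0) (P.cons (P.lf 17192 0 0) P.nil))) (P.cons (P.cons (P.lf 1296219 0 0) (P.cons (P.lf 18792 0 0) P.nil)) (P.cons (P.cons (P.lf 4346 0 0) P.nil) P.nil)))))) 34553)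
 EL.nil)
noncomputable def S285_314_438_512_29 : EL := (EL.cons 13 (TM.mk (P.cons (P.cons (P.lf 0 37153816 0) (P.cons (P.lf 0 68641857 0) (P.cons (P.lf 0 32796567 0) (P.cons (P.lf 0 645047 0) (P.cons (P.lf 328376 0 0) (P.cons (P.lf 5354 0 0) P.nil)))))) (P.cons (P.cons (P.lf 0 21796780 0) (P.cons (P.lf 0 10212270 0) (P.cons (P.lf 9003445 0 0) (P.cons (P.lf 345957 0 0) (P.cons (P.lf 0 94937 0) P.nil))))) (P.cons (P.cons (P.lf 11519518 0 0) (P.cons (P.lf 17450082 0 0) (P.cons (P.lf 488380 0 0) (P.cons (P.lf 0 85875 0) P.nil)))) (P.cons (P.cons (P.lf 5043109 0 0) (P.cons (P.lf 0 1217860 0) (P.cons (P.lf 0 331224 0) P.nil))) (P.cons (P.cons (P.lf 0 1485322 0) (P.cons (P.lf 0 569357 0) P.nil)) (P.cons (P.cons (P.lf 0 215384 0) P.nil) P.nil)))))) 262451)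
 EL.nil)
noncomputable def S285_314_438_512_30 : EL := (EL.cons 13 (TM.mk (P.cons (P.lf 0 1408772644 0) (P.cons (P.lf 0 436874896 0) (P.cons (P.lf 15598228 0 0) (P.cons (P.lf 1328688 0 0) (P.cons (P.lf 0 91228 0) (P.cons (P.lf 0 3020 0) P.nil)))))) 560)
 EL.nil)
noncomputable def S285_314_438_512_31 : EL := (EL.cons 13 (TM.mk (P.cons (P.cons (P.lf 131027571 0 0) (P.cons (P.lf 121037039 0 0) (P.cons (P.lf 1926463 0 0) (P.lf 0 642154 0)))) (P.cons (P.cons (P.lf 79067532 0 0) (P.cons (P.lf 20038260 0 0) (P.cons (P.lf 318935 0 0) (P.lf 0 106311 0)))) (P.cons (P.cons (P.lf 0 15481363 0) (P.cons (P.lf 0 8432709 0) (P.cons (P.lf 0 134216 0) (P.lf 44738 0 0)))) (P.cons (P.cons (P.lf 0 9877109 0) (P.cons (P.lf 0 82960 0) (P.cons (P.lf 0 1320 0) P.nil))) (P.cons (P.cons (P.lf 287545 0 0) (P.cons (P.lf 158839 0 0) P.nil)) (P.cons (P.cons (P.lf 174699 0 0) P.nil) P.nil)))))) 40394)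
 EL.nil)
noncomputable def S285_314_438_512_32 : EL := (EL.cons 13 (TM.mk (P.cons (P.cons (P.lf 0 12186653 0) (P.cons (P.lf 0 22514902 0) (P.cons (P.lf 0 10757452 0) (P.cons (P.lf 0 211578 0) (P.cons (P.lf 107709 0 0) (P.cons (P.lf 1756 0 0) P.nil)))))) (P.cons (P.cons (P.lf 0 10928669 0) (P.cons (P.lf 0 10331783 0) (P.cons (P.lf 0 382817 0) (P.cons (P.lf 47862 0 0) (P.cons (P.lf 2261 0 0) P.nil))))) (P.cons (P.cons (P.lf 1696275 0 0) (P.cons (P.lf 4934241 0 0) (P.cons (P.lf 1195111 0 0) (P.cons (P.lf 9365 0 0) P.nil)))) (P.cons (P.cons (P.lf 2916562 0 0) (P.cons (P.lf 1433843 0 0) (P.cons (P.lf 0 81518 0) P.nil))) (P.cons (P.cons (P.lf 0 10101 0) (P.cons (P.lf 0 372303 0) P.nil)) (P.cons (P.cons (P.lf 0 244098 0) P.nil) P.nil)))))) 278711)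
 EL.nil)
noncomputable def S285_314_438_512_33 : EL := (EL.cons 14 (TM.mk (P.lf 8589934592 0 0) 0)
 EL.nil)
noncomputable def S285_314_438_512_34 : EL := (EL.cons 14 (TM.mk (P.cons (P.cons (P.lf 0 798935354 0) (P.cons (P.lf 0 738018488 0) (P.cons (P.lf 0 11746536 0) (P.lf 3915512 0 0)))) (P.cons (P.cons (P.lf 0 234353026 0) (P.cons (P.lf 106684640 0 0) (P.cons (P.lf 1698024 0 0) (P.lf 0 566008 0)))) (P.cons (P.cons (P.lf 158226294 0 0) (P.cons (P.lf 10162608 0 0) (P.cons (P.lf 161744 0 0) (P.lf 0 53912 0)))) (P.cons (P.cons (P.lf 7809352 0 0) (P.cons (P.lf 0 2160512 0) (P.cons (P.lf 0 34384 0) P.nil))) (P.cons (P.cons (P.lf 0 2592438 0) (P.cons (P.lf 0 37584 0) P.nil)) (P.cons (P.cons (P.lf 0 8692 0) P.nil) P.nil)))))) 69106)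
 EL.nil)
noncomputable def S285_314_438_512_35 : EL := (EL.cons 14 (TM.mk (P.cons (P.cons (P.lf 74307632 0 0) (P.cons (P.lf 137283714 0 0) (P.cons (P.lf 65593134 0 0) (P.cons (P.lf 1290094 0 0) (P.cons (P.lf 0 656752 0) (P.cons (P.lf 0 10708 0) P.nil)))))) (P.cons (P.cons (P.lf 43593560 0 0) (P.cons (P.lf 20424540 0 0) (P.cons (P.lf 0 18006890 0) (P.cons (P.lf 0 691914 0) (P.cons (P.lf 189874 0 0) P.nil))))) (P.cons (P.cons (P.lf 0 23039036 0) (P.cons (P.lf 0 34900164 0) (P.cons (P.lf 0 976760 0) (P.cons (P.lf 171750 0 0) P.nil)))) (P.cons (P.cons (P.lf 0 10086218 0) (P.cons (P.lf 2435720 0 0) (P.cons (P.lf 662448 0 0) P.nil))) (P.cons (P.cons (P.lf 2970644 0 0) (P.cons (P.lf 1138714 0 0) P.nil)) (P.cons (P.cons (P.lf 430768 0 0) P.nil) P.nil)))))) 524902)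
 EL.nil)
noncomputable def S285_314_438_512_36 : EL := (EL.cons 14 (TM.mk (P.cons (P.lf 2817545288 0 0) (P.cons (P.lf 873749792 0 0) (P.cons (P.lf 0 31196456 0) (P.cons (P.lf 0 2657376 0) (P.cons (P.lf 182456 0 0) (P.cons (P.lf 6040 0 0) P.nil)))))) 1120)
 EL.nil)
noncomputable def S285_314_438_512_37 : EL := (EL.cons 14 (TM.mk (P.cons (P.cons (P.lf 0 262055142 0) (P.cons (P.lf 0 242074078 0) (P.cons (P.lf 0 3852926 0) (P.lf 1284308 0 0)))) (P.cons (P.cons (P.lf 0 158135064 0) (P.cons (P.lf 0 40076520 0) (P.cons (P.lf 0 637870 0) (P.lf 212622 0 0)))) (P.cons (P.cons (P.lf 30962726 0 0) (P.cons (P.lf 16865418 0 0) (P.cons (P.lf 268432 0 0) (P.lf 0 89476 0)))) (P.cons (P.cons (P.lf 19754218 0 0) (P.cons (P.lf 165920 0 0) (P.cons (P.lf 2640 0 0) P.nil))) (P.cons (P.cons (P.lf 0 575090 0) (P.cons (P.lf 0 317678 0) P.nil)) (P.cons (P.cons (P.lf 0 349398 0) P.nil) P.nil))))))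 80788)
 EL.nil)
noncomputable def S285_314_438_512_38 : EL := (EL.cons 14 (TM.mk (P.cons (P.cons (P.lf 24373306 0 0) (P.cons (P.lf 45029804 0 0) (P.cons (P.lf 21514904 0 0) (P.cons (P.lf 423156 0 0) (P.cons (P.lf 0 215418 0) (P.cons (P.lf 0 3512 0) P.nil)))))) (P.cons (P.cons (P.lf 21857338 0 0) (P.cons (P.lf 20663566 0 0) (P.cons (P.lf 765634 0 0) (P.cons (P.lf 0 95724 0) (P.cons (P.lf 0 4522 0) P.nil))))) (P.cons (P.cons (P.lf 0 3392550 0) (P.cons (P.lf 0 9868482 0) (P.cons (P.lf 0 2390222 0) (P.cons (P.lf 0 18730 0) P.nil)))) (P.cons (P.cons (P.lf 0 5833124 0) (P.cons (P.lf 0 2867686 0) (P.cons (P.lf 163036 0 0) P.nil))) (P.cons (P.cons (P.lf 20202 0 0) (P.cons (P.lf 744606 0 0) P.nil)) (P.cons (P.cons (P.lf 488196 0 0) P.nil) P.nil)))))) 557422)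
 EL.nil)
noncomputable def S285_314_438_512_39 : EL := (EL.cons 14 (TM.mk (P.cons (P.lf 924170186 0 0) (P.cons (P.lf 573189372 0 0) (P.cons (P.lf 68410746 0 0) (P.cons (P.lf 0 8089740 0) (P.cons (P.lf 0 307614 0) (P.cons (P.lf 60382 0 0) P.nil)))))) 4526)
 EL.nil)
noncomputable def S285_314_438_512_40 : EL := (EL.cons 14 (TM.mk (P.cons (P.cons (P.lf 0 85955512 0) (P.cons (P.lf 0 79401614 0) (P.cons (P.lf 0 1263780 0) (P.lf 421260 0 0)))) (P.cons (P.cons (P.lf 0 78524850 0) (P.cons (P.lf 0 37768574 0) (P.cons (P.lf 0 601136 0) (P.lf 200378 0 0)))) (P.cons (P.cons (P.lf 0 4977500 0) (P.cons (P.lf 2334602 0 0) (P.cons (P.lf 37156 0 0) (P.lf 0 12384 0)))) (P.cons (P.cons (P.lf 10284328 0 0) (P.cons (P.lf 1990372 0 0) (P.cons (P.lf 31678 0 0) P.nil))) (P.cons (P.cons (P.lf 1751628 0 0) (P.cons (P.lf 0 141316 0) P.nil)) (P.cons (P.cons (P.lf 0 257964 0) P.nil) P.nil)))))) 114934)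
 EL.nil)
noncomputable def S285_314_438_512_41 : EL := (EL.cons 14 (TM.mk (P.cons (P.cons (P.lf 7994576 0 0) (P.cons (P.lf 14770020 0 0) (P.cons (P.lf 7057004 0 0) (P.cons (P.lf 138798 0 0) (P.cons (P.lf 0 70658 0) (P.cons (P.lf 0 1152 0) P.nil)))))) (P.cons (P.cons (P.lf 9648526 0 0) (P.cons (P.lf 11358096 0 0) (P.cons (P.lf 2439582 0 0) (P.cons (P.lf 11644 0 0) (P.cons (P.lf 0 23394 0) P.nil))))) (P.cons (P.cons (P.lf 1021988 0 0) (P.cons (P.lf 0 1298598 0) (P.cons (P.lf 0 784262 0) (P.cons (P.lf 0 17416 0) P.nil)))) (P.cons (P.cons (P.lf 0 2345300 0) (P.cons (P.lf 0 2033392 0) (P.cons (P.lf 0 199086 0) P.nil))) (P.cons (P.cons (P.lf 0 580628 0) (P.cons (P.lf 0 17056 0) P.nil)) (P.cons (P.cons (P.lf 184900 0 0) P.nil) P.nil)))))) 431978)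
 EL.nil)
noncomputable def S285_314_438_512_42 : EL := (EL.cons 14 (TM.mk (P.cons (P.lf 303132848 0 0) (P.cons (P.lf 282013848 0 0) (P.cons (P.lf 77386344 0 0) (P.cons (P.lf 1937536 0 0) (P.cons (P.lf 0 1329912 0) (P.cons (P.lf 9556 0 0) P.nil)))))) 14366)
 EL.nil)
noncomputable def S285_314_438_512_43 : EL := (EL.cons 14 (TM.mk (P.cons (P.cons (P.lf 0 28193874 0) (P.cons (P.lf 0 26044160 0) (P.cons (P.lf 0 414526 0) (P.lf 138174 0 0)))) (P.cons (P.cons (P.lf 0 34499788 0) (P.cons (P.lf 0 20464860 0) (P.cons (P.lf 0 325724 0) (P.lf 108574 0 0)))) (P.cons (P.cons (P.lf 0 9307858 0) (P.cons (P.lf 0 2787608 0) (P.cons (P.lf 0 44368 0) (P.lf 14788 0 0)))) (P.cons (P.cons (P.lf 3178788 0 0) (P.cons (P.lf 1052052 0 0) (P.cons (P.lf 16744 0 0) P.nil))) (P.cons (P.cons (P.lf 1661186 0 0) (P.cons (P.lf 157622 0 0) P.nil)) (P.cons (P.cons (P.lf 56018 0 0) P.nil) P.nil)))))) 119236)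
 EL.nil)
noncomputable def S285_314_438_512_44 : EL := (EL.cons 14 (TM.mk (P.cons (P.cons (P.lf 2622264 0 0) (P.cons (P.lf 4844646 0 0) (P.cons (P.lf 2314736 0 0) (P.cons (P.lf 45526 0 0) (P.cons (P.lf 0 23176 0) (P.cons (P.lf 0 376 0) P.nil)))))) (P.cons (P.cons (P.lf 3977960 0 0) (P.cons (P.lf 5227892 0 0) (P.cons (P.lf 1518018 0 0) (P.cons (P.lf 17936 0 0) (P.cons (P.lf 0 14860 0) P.nil))))) (P.cons (P.cons (P.lf 1287610 0 0) (P.cons (P.lf 675732 0 0) (P.cons (P.lf 0 34722 0) (P.cons (P.lf 0 5032 0) P.nil)))) (P.cons (P.cons (P.lf 0 702830 0) (P.cons (P.lf 0 844872 0) (P.cons (P.lf 0 156118 0) P.nil))) (P.cons (P.cons (P.lf 0 435534 0) (P.cons (P.lf 0 210910 0) P.nil)) (P.cons (P.cons (P.lf 10000 0 0) P.nil) P.nil)))))) 265754)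
 EL.nil)
noncomputable def S285_314_438_512_45 : EL := (EL.cons 14 (TM.mk (P.cons (P.cons (P.lf 0 6911226 0) (P.cons (P.lf 0 19152790 0) (P.cons (P.lf 0 17997278 0) (P.cons (P.lf 0 5909392 0) (P.cons (P.lf 0 76876 0) (P.cons (P.lf 85556 0 0) P.nil)))))) (P.cons (P.cons (P.lf 0 6081844 0) (P.cons (P.lf 0 8467596 0) (P.cons (P.lf 0 209446 0) (P.cons (P.lf 2405080 0 0) (P.cons (P.lf 113580 0 0) P.nil))))) (P.cons (P.cons (P.lf 2322234 0 0) (P.cons (P.lf 7826306 0 0) (P.cons (P.lf 5246450 0 0) (P.cons (P.lf 5054 0 0) P.nil)))) (P.cons (P.cons (P.lf 2437206 0 0) (P.cons (P.lf 1839962 0 0) (P.cons (P.lf 0 950340 0) P.nil))) (P.cons (P.cons (P.lf 0 408290 0) (P.cons (P.lf 0 1257126 0) P.nil)) (P.cons (P.cons (P.lf 0 341074 0) P.nil) P.nil)))))) 1085988)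
 EL.nil)
noncomputable def S285_314_438_512_46 : EL := (EL.cons 15 (TM.mk (P.lf 4294967296 0 0) 0)
 EL.nil)
noncomputable def S285_314_438_512_47 : EL := (EL.cons 15 (TM.mk (P.cons (P.cons (P.lf 0 399467677 0) (P.cons (P.lf 0 369009244 0) (P.cons (P.lf 0 5873268 0) (P.lf 1957756 0 0)))) (P.cons (P.cons (P.lf 0 117176513 0) (P.cons (P.lf 53342320 0 0) (P.cons (P.lf 849012 0 0) (P.lf 0 283004 0)))) (P.cons (P.cons (P.lf 79113147 0 0) (P.cons (P.lf 5081304 0 0) (P.cons (P.lf 80872 0 0) (P.lf 0 26956 0)))) (P.cons (P.cons (P.lf 3904676 0 0) (P.cons (P.lf 0 1080256 0) (P.cons (P.lf 0 17192 0) P.nil))) (P.cons (P.cons (P.lf 0 1296219 0) (P.cons (P.lf 0 18792 0) P.nil)) (P.cons (P.cons (P.lf 0 4346 0) P.nil) P.nil)))))) 34553)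
 EL.nil)
noncomputable def S285_314_438_512_48 : EL := (EL.cons 15 (TM.mk (P.cons (P.cons (P.lf 37153816 0 0) (P.cons (P.lf 68641857 0 0) (P.cons (P.lf 32796567 0 0) (P.cons (P.lf 645047 0 0) (P.cons (P.lf 0 328376 0) (P.cons (P.lf 0 5354 0) P.nil)))))) (P.cons (P.cons (P.lf 21796780 0 0) (P.cons (P.lf 10212270 0 0) (P.cons (P.lf 0 9003445 0) (P.cons (P.lf 0 345957 0) (P.cons (P.lf 94937 0 0) P.nil))))) (P.cons (P.cons (P.lf 0 11519518 0) (P.cons (P.lf 0 17450082 0) (P.cons (P.lf 0 488380 0) (P.cons (P.lf 85875 0 0) P.nil)))) (P.cons (P.cons (P.lf 0 5043109 0) (P.cons (P.lf 1217860 0 0) (P.cons (P.lf 331224 0 0) P.nil))) (P.cons (P.cons (P.lf 1485322 0 0) (P.cons (P.lf 569357 0 0) P.nil)) (P.cons (P.cons (P.lf 215384 0 0) P.nil) P.nil)))))) 262451)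
 EL.nil)
noncomputable def S285_314_438_512 : SL := (SL.cons S285_314_438_512_0 (SL.cons S285_314_438_512_1 (SL.cons S285_314_438_512_2 (SL.cons S285_314_438_512_3 (SL.cons S285_314_438_512_4 (SL.cons S285_314_438_512_5 (SL.cons S285_314_438_512_6 (SL.cons S285_314_438_512_7 (SL.cons S285_314_438_512_8 (SL.cons S285_314_438_512_9 (SL.cons S285_314_438_512_10 (SL.cons S285_314_438_512_11 (SL.cons S285_314_438_512_12 (SL.cons S285_314_438_512_13 (SL.cons S285_314_438_512_14 (SL.cons S285_314_438_512_15 (SL.cons S285_314_438_512_16 (SL.cons S285_314_438_512_17 (SL.cons S285_314_438_512_18 (SL.cons S285_314_438_512_19 (SL.cons S285_314_438_512_20 (SL.cons S285_314_438_512_21 (SL.cons S285_314_438_512_22 (SL.cons S285_314_438_512_23 (SL.cons S285_314_438_512_24 (SL.cons S285_314_438_512_25 (SL.cons S285_314_438_512_26 (SL.cons S285_314_438_512_27 (SL.cons S285_314_438_512_28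 (SL.cons S285_314_438_512_29 (SL.cons S285_314_438_512_30 (SL.cons S285_314_438_512_31 (SL.cons S285_314_438_512_32 (SL.cons S285_314_438_512_33 (SL.cons S285_314_438_512_34 (SL.cons S285_314_438_512_35 (SL.cons S285_314_438_512_36 (SL.cons S285_314_438_512_37 (SL.cons S285_314_438_512_38 (SL.cons S285_314_438_512_39 (SL.cons S285_314_438_512_40 (SL.cons S285_314_438_512_41 (SL.cons S285_314_438_512_42 (SL.cons S285_314_438_512_43 (SL.cons S285_314_438_512_44 (SL.cons S285_314_438_512_45 (SL.cons S285_314_438_512_46 (SL.cons S285_314_438_512_47 (SL.cons S285_314_438_512_48 SL.nil)))))))))))))))))))))))))))))))))))))))))))))))))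
noncomputable def S285_314_512_586_0 : EL := (EL.cons 0 (TM.mk (P.cons (P.lf 7643457911 0 0) (P.cons (P.lf 0 503779721 0) (P.cons (P.lf 0 60126632 0) (P.cons (P.lf 7110123 0 0) (P.cons (P.lf 270363 0 0) (P.cons (P.lf 0 53070 0) P.nil)))))) 3984)
 (EL.cons 1 (TM.mk (P.cons (P.lf 1228710643 0 0) (P.cons (P.lf 321830180 0 0) (P.cons (P.lf 0 40457490 0) (P.cons (P.lf 0 2710608 0) (P.cons (P.lf 384633 0 0) (P.cons (P.lf 7027 0 0) P.nil)))))) 2881)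
 (EL.cons 5 (TM.mk (P.cons (P.lf 4583770480 0 0) (P.cons (P.lf 179121676 0 0) (P.cons (P.lf 21378358 0 0) (P.cons (P.lf 0 2528040 0) (P.cons (P.lf 0 96128 0) (P.cons (P.lf 18870 0 0) P.nil)))))) 1697)
 (EL.cons 9 (TM.mk (P.lf 6442450944 0 0) 2)
 EL.nil))))
noncomputable def S285_314_512_586_1 : EL := (EL.cons 0 (TM.mk (P.cons (P.cons (P.lf 0 2074978107 0) (P.cons (P.lf 0 447340653 0) (P.cons (P.lf 7120019 0 0) (P.lf 2373343 0 0)))) (P.cons (P.cons (P.lf 808839542 0 0) (P.cons (P.lf 237797835 0 0) (P.cons (P.lf 0 3784858 0) (P.lf 0 1261616 0)))) (P.cons (P.cons (P.lf 397380887 0 0) (P.cons (P.lf 1796235 0 0) (P.cons (P.lf 0 28589 0) (P.lf 0 9532 0)))) (P.cons (P.cons (P.lf 0 40400363 0) (P.cons (P.lf 0 9124156 0) (P.cons (P.lf 145214 0 0) P.nil))) (P.cons (P.cons (P.lf 0 11383415 0) (P.cons (P.lf 459818 0 0) P.nil)) (P.cons (P.cons (P.lf 1219235 0 0) P.nil) P.nil))))))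 553373)
 (EL.cons 1 (TM.mk (P.cons (P.cons (P.lf 0 304186021 0) (P.cons (P.lf 0 239312226 0) (P.cons (P.lf 3808968 0 0) (P.lf 1269653 0 0)))) (P.cons (P.cons (P.lf 0 541532876 0) (P.cons (P.lf 0 10456578 0) (P.cons (P.lf 166428 0 0) (P.lf 55474 0 0)))) (P.cons (P.cons (P.lf 113913380 0 0) (P.cons (P.lf 26109004 0 0) (P.cons (P.lf 0 415548 0) (P.lf 0 138513 0)))) (P.cons (P.cons (P.lf 36924163 0 0) (P.cons (P.lf 0 1172560 0) (P.cons (P.lf 18661 0 0) P.nil))) (P.cons (P.cons (P.lf 0 4547435 0) (P.cons (P.lf 0 665180 0) P.nil)) (P.cons (P.cons (P.lf 0 737011 0) P.nil) P.nil)))))) 268405)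
 (EL.cons 5 (TM.mk (P.cons (P.cons (P.lf 0 1209269245 0) (P.cons (P.lf 0 468261268 0) (P.cons (P.lf 7452996 0 0) (P.lf 2484334 0 0)))) (P.cons (P.cons (P.lf 0 303499139 0) (P.cons (P.lf 6131608 0 0) (P.cons (P.lf 0 97596 0) (P.lf 0 32540 0)))) (P.cons (P.cons (P.lf 10661130 0 0) (P.cons (P.lf 7999560 0 0) (P.cons (P.lf 0 127322 0) (P.lf 0 42438 0)))) (P.cons (P.cons (P.lf 17290666 0 0) (P.cons (P.lf 1407698 0 0) (P.cons (P.lf 0 22400 0) P.nil))) (P.cons (P.cons (P.lf 1779285 0 0) (P.cons (P.lf 0 195438 0) P.nil)) (P.cons (P.cons (P.lf 0 403348 0) P.nil) P.nil)))))) 260566)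
 (EL.cons 9 (TM.mk (P.cons (P.cons (P.lf 0 1717975783 0) (P.cons (P.lf 0 553513866 0) (P.cons (P.lf 8809902 0 0) (P.lf 2936634 0 0)))) (P.cons (P.cons (P.lf 0 14039785 0) (P.cons (P.lf 80013480 0 0) (P.cons (P.lf 0 1273518 0) (P.lf 0 424506 0)))) (P.cons (P.cons (P.lf 134075380 0 0) (P.cons (P.lf 7621956 0 0) (P.cons (P.lf 0 121308 0) (P.lf 0 40434 0)))) (P.cons (P.cons (P.lf 2581854 0 0) (P.cons (P.lf 0 1620384 0) (P.cons (P.lf 25788 0 0) P.nil))) (P.cons (P.cons (P.lf 0 2001304 0) (P.cons (P.lf 0 28188 0) P.nil)) (P.cons (P.cons (P.lf 26599 0 0) P.nil) P.nil)))))) 51848)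
 (EL.cons 2 (TM.mk (P.cons (P.cons (P.lf 0 841695263 0) (P.cons (P.lf 31200494 0 0) (P.cons (P.lf 15459955 0 0) (P.cons (P.lf 0 140287 0) (P.lf 0 35071 0))))) (P.cons (P.cons (P.lf 0 179903902 0) (P.cons (P.lf 6668791 0 0) (P.cons (P.lf 3304409 0 0) (P.cons (P.lf 0 29984 0) (P.lf 0 7495 0))))) (P.cons (P.cons (P.lf 44154950 0 0) (P.cons (P.lf 0 1636762 0) (P.cons (P.lf 0 811020 0) (P.cons (P.lf 7357 0 0) P.nil)))) (P.cons (P.cons (P.lf 1753126 0 0) (P.cons (P.lf 0 64985 0) (P.cons (P.lf 0 32200 0) P.nil))) (P.cons (P.cons (P.lf 0 636747 0) (P.cons (P.lf 23602 0 0) P.nil)) (P.cons (P.cons (P.lf 2036 0 0) P.nil) P.nil)))))) 24849)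
 (EL.cons 6 (TM.mk (P.cons (P.cons (P.lf 1273239189 0 0) (P.cons (P.lf 0 47197239 0) (P.cons (P.lf 0 23386401 0) (P.cons (P.lf 212217 0 0) (P.lf 53052 0 0))))) (P.cons (P.cons (P.lf 0 184053747 0) (P.cons (P.lf 6822618 0 0) (P.cons (P.lf 3380631 0 0) (P.cons (P.lf 0 30675 0) (P.lf 0 7668 0))))) (P.cons (P.cons (P.lf 0 17532675 0) (P.cons (P.lf 649911 0 0) (P.cons (P.lf 322032 0 0) (P.cons (P.lf 0 2922 0) P.nil)))) (P.cons (P.cons (P.lf 3727353 0 0) (P.cons (P.lf 0 138165 0) (P.cons (P.lf 0 68460 0) P.nil))) (P.cons (P.cons (P.lf 64845 0 0) (P.cons (P.lf 0 2403 0) P.nil)) (P.cons (P.cons (P.lf 0 37704 0) P.nil) P.nil)))))) 14091)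
 EL.nil))))))
noncomputable def S285_314_512_586_2 : EL := (EL.cons 0 (TM.mk (P.cons (P.cons (P.lf 563120075 0 0) (P.cons (P.lf 244892580 0 0) (P.cons (P.lf 16548747 0 0) (P.cons (P.lf 0 1950138 0) (P.cons (P.lf 0 211777 0) (P.cons (P.lf 3453 0 0) P.nil)))))) (P.cons (P.cons (P.lf 0 395394306 0) (P.cons (P.lf 0 244551114 0) (P.cons (P.lf 0 28050113 0) (P.cons (P.lf 2314248 0 0) (P.cons (P.lf 330835 0 0) P.nil))))) (P.cons (P.cons (P.lf 0 212164635 0) (P.cons (P.lf 0 41538842 0) (P.cons (P.lf 4944338 0 0) (P.cons (P.lf 84044 0 0) P.nil)))) (P.cons (P.cons (P.lf 48119590 0 0) (P.cons (P.lf 26909032 0 0) (P.cons (P.lf 1211383 0 0) P.nil))) (P.cons (P.cons (P.lf 19313261 0 0) (P.cons (P.lf 1021752 0 0) P.nil)) (P.cons (P.cons (P.lf 0 2239548 0) P.nil) P.nil)))))) 3265328)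
 (EL.cons 1 (TM.mk (P.cons (P.cons (P.lf 74857648 0 0) (P.cons (P.lf 123599770 0 0) (P.cons (P.lf 30084618 0 0) (P.cons (P.lf 0 1676041 0) (P.cons (P.lf 0 331982 0) (P.cons (P.lf 5411 0 0) P.nil)))))) (P.cons (P.cons (P.lf 265827970 0 0) (P.cons (P.lf 85049182 0 0) (P.cons (P.lf 0 5254682 0) (P.cons (P.lf 0 327037 0) (P.cons (P.lf 40399 0 0) P.nil))))) (P.cons (P.cons (P.lf 0 54919276 0) (P.cons (P.lf 0 48484341 0) (P.cons (P.lf 0 3494967 0) (P.cons (P.lf 393040 0 0) P.nil)))) (P.cons (P.cons (P.lf 0 38788604 0) (P.cons (P.lf 0 4225369 0) (P.cons (P.lf 873141 0 0) P.nil))) (P.cons (P.cons (P.lf 5651985 0 0) (P.cons (P.lf 3294859 0 0) P.nil)) (P.cons (P.cons (P.lf 2120064 0 0) P.nil) P.nil)))))) 1551943)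
 (EL.cons 5 (TM.mk (P.cons (P.cons (P.lf 318986643 0 0) (P.cons (P.lf 247493289 0 0) (P.cons (P.lf 42687802 0 0) (P.cons (P.lf 0 2797318 0) (P.cons (P.lf 0 482938 0) (P.cons (P.lf 7875 0 0) P.nil)))))) (P.cons (P.cons (P.lf 149070852 0 0) (P.cons (P.lf 41322276 0 0) (P.cons (P.lf 0 4882566 0) (P.cons (P.lf 0 84729 0) (P.cons (P.lf 43767 0 0) P.nil))))) (P.cons (P.cons (P.lf 0 5569610 0) (P.cons (P.lf 0 16343338 0) (P.cons (P.lf 0 1620871 0) (P.cons (P.lf 146581 0 0) P.nil)))) (P.cons (P.cons (P.lf 0 19332042 0) (P.cons (P.lf 0 5354267 0) (P.cons (P.lf 32363 0 0) P.nil))) (P.cons (P.cons (P.lf 0 2507705 0) (P.cons (P.lf 483731 0 0) P.nil)) (P.cons (P.cons (P.lf 911864 0 0) P.nil) P.nil)))))) 1531509)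
 (EL.cons 9 (TM.mk (P.cons (P.cons (P.lf 458123905 0 0) (P.cons (P.lf 295205481 0 0) (P.cons (P.lf 42857478 0 0) (P.cons (P.lf 0 3080028 0) (P.cons (P.lf 0 492564 0) (P.cons (P.lf 8031 0 0) P.nil)))))) (P.cons (P.cons (P.lf 7487836 0 0) (P.cons (P.lf 0 40261075 0) (P.cons (P.lf 0 13108174 0) (P.cons (P.lf 651267 0 0) (P.cons (P.lf 142405 0 0) P.nil))))) (P.cons (P.cons (P.lf 0 71475808 0) (P.cons (P.lf 0 27452374 0) (P.cons (P.lf 120976 0 0) (P.cons (P.lf 155701 0 0) P.nil)))) (P.cons (P.cons (P.lf 0 1961350 0) (P.cons (P.lf 3717688 0 0) (P.cons (P.lf 408589 0 0) P.nil))) (P.cons (P.cons (P.lf 3846376 0 0) (P.cons (P.lf 747363 0 0) P.nil)) (P.cons (P.cons (P.lf 101998 0 0) P.nil) P.nil)))))) 413081)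
 (EL.cons 2 (TM.mk (P.cons (P.cons (P.lf 448901229 0 0) (P.cons (P.lf 127991131 0 0) (P.cons (P.lf 0 15908535 0) (P.cons (P.lf 0 3263715 0) (P.cons (P.lf 113535 0 0) (P.cons (P.lf 19732 0 0) P.nil)))))) (P.cons (P.cons (P.lf 99616674 0 0) (P.cons (P.lf 6313578 0 0) (P.cons (P.lf 0 2359901 0) (P.cons (P.lf 0 214368 0) (P.cons (P.lf 10710 0 0) P.nil))))) (P.cons (P.cons (P.lf 0 57798478 0) (P.cons (P.lf 0 11905081 0) (P.cons (P.lf 1805928 0 0) (P.cons (P.lf 314623 0 0) P.nil)))) (P.cons (P.cons (P.lf 0 9290120 0) (P.cons (P.lf 1137628 0 0) (P.cons (P.lf 128604 0 0) P.nil))) (P.cons (P.cons (P.lf 2548530 0 0) (P.cons (P.lf 260831 0 0) P.nil)) (P.cons (P.cons (P.lf 214863 0 0) P.nil) P.nil)))))) 313717)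
 (EL.cons 6 (TM.mk (P.cons (P.cons (P.lf 0 679056498 0) (P.cons (P.lf 0 193613214 0) (P.cons (P.lf 24064968 0 0) (P.cons (P.lf 4937046 0 0) (P.cons (P.lf 0 171744 0) (P.cons (P.lf 0 29850 0) P.nil)))))) (P.cons (P.cons (P.lf 92611914 0 0) (P.cons (P.lf 59820132 0 0) (P.cons (P.lf 0 5052522 0) (P.cons (P.lf 0 1444638 0) (P.cons (P.lf 45330 0 0) P.nil))))) (P.cons (P.cons (P.lf 63148266 0 0) (P.cons (P.lf 0 887220 0) (P.cons (P.lf 0 1236894 0) (P.cons (P.lf 0 23022 0) P.nil)))) (P.cons (P.cons (P.lf 0 8551740 0) (P.cons (P.lf 0 1834962 0) (P.cons (P.lf 271092 0 0) P.nil))) (P.cons (P.cons (P.lf 0 1719150 0) (P.cons (P.lf 185124 0 0) P.nil)) (P.cons (P.cons (P.lf 285774 0 0) P.nil) P.nil)))))) 256092)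
 EL.nil))))))
noncomputable def S285_314_512_586_3 : EL := (EL.cons 0 (TM.mk (P.cons (P.lf 812258952 0 0) (P.cons (P.lf 503779721 0 0) (P.cons (P.lf 60126632 0 0) (P.cons (P.lf 0 7110123 0) (P.cons (P.lf 0 270363 0) (P.cons (P.lf 53070 0 0) P.nil)))))) 3984)
 (EL.cons 1 (TM.mk (P.cons (P.lf 0 1228710643 0) (P.cons (P.lf 0 321830180 0) (P.cons (P.lf 40457490 0 0) (P.cons (P.lf 2710608 0 0) (P.cons (P.lf 0 384633 0) (P.cons (P.lf 0 7027 0) P.nil)))))) 2881)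
 (EL.cons 5 (TM.mk (P.cons (P.lf 1858680464 0 0) (P.cons (P.lf 0 179121676 0) (P.cons (P.lf 0 21378358 0) (P.cons (P.lf 2528040 0 0) (P.cons (P.lf 96128 0 0) (P.cons (P.lf 0 18870 0) P.nil)))))) 1690)
 EL.nil)))
noncomputable def S285_314_512_586_4 : EL := (EL.cons 0 (TM.mk (P.cons (P.cons (P.lf 0 216600982 0) (P.cons (P.lf 0 69786574 0) (P.cons (P.lf 1110744 0 0) (P.lf 370248 0 0)))) (P.cons (P.cons (P.lf 0 136110512 0) (P.cons (P.lf 0 33195035 0) (P.cons (P.lf 528342 0 0) (P.lf 176113 0 0)))) (P.cons (P.cons (P.lf 0 227416 0) (P.cons (P.lf 2051896 0 0) (P.cons (P.lf 0 32656 0) (P.lf 0 10884 0)))) (P.cons (P.cons (P.lf 12574785 0 0) (P.cons (P.lf 1749350 0 0) (P.cons (P.lf 0 27841 0) P.nil))) (P.cons (P.cons (P.lf 1288469 0 0) (P.cons (P.lf 0 124203 0) P.nil)) (P.cons (P.cons (P.lf 0 290578 0) P.nil) P.nil)))))) 99674)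
 (EL.cons 1 (TM.mk (P.cons (P.cons (P.lf 327654046 0 0) (P.cons (P.lf 105566713 0 0) (P.cons (P.lf 0 1680232 0) (P.lf 0 560075 0)))) (P.cons (P.cons (P.lf 88498505 0 0) (P.cons (P.lf 12390322 0 0) (P.cons (P.lf 0 197206 0) (P.lf 0 65733 0)))) (P.cons (P.cons (P.lf 0 35658230 0) (P.cons (P.lf 0 8926680 0) (P.cons (P.lf 142078 0 0) (P.lf 47358 0 0)))) (P.cons (P.cons (P.lf 0 8001088 0) (P.cons (P.lf 197872 0 0) (P.cons (P.lf 0 3148 0) P.nil))) (P.cons (P.cons (P.lf 1191345 0 0) (P.cons (P.lf 200896 0 0) P.nil)) (P.cons (P.cons (P.lf 170236 0 0) P.nil) P.nil)))))) 69697)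
 (EL.cons 5 (TM.mk (P.cons (P.cons (P.lf 0 495644910 0) (P.cons (P.lf 0 159691616 0) (P.cons (P.lf 2541702 0 0) (P.lf 847232 0 0)))) (P.cons (P.cons (P.lf 43714918 0 0) (P.cons (P.lf 38473838 0 0) (P.cons (P.lf 0 612360 0) (P.lf 0 204118 0)))) (P.cons (P.cons (P.lf 44772652 0 0) (P.cons (P.lf 1811088 0 0) (P.cons (P.lf 0 28822 0) (P.lf 0 9606 0)))) (P.cons (P.cons (P.lf 0 3610414 0) (P.cons (P.lf 0 1162118 0) (P.cons (P.lf 18494 0 0) P.nil))) (P.cons (P.cons (P.lf 0 1125224 0) (P.cons (P.lf 34764 0 0) P.nil)) (P.cons (P.cons (P.lf 112182 0 0) P.nil) P.nil)))))) 52874)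
 EL.nil)))
noncomputable def S285_314_512_586_5 : EL := (EL.cons 0 (TM.mk (P.cons (P.cons (P.lf 57759887 0 0) (P.cons (P.lf 37219264 0 0) (P.cons (P.lf 5403434 0 0) (P.cons (P.lf 0 388327 0) (P.cons (P.lf 0 62101 0) (P.cons (P.lf 1012 0 0) P.nil)))))) (P.cons (P.cons (P.lf 36767930 0 0) (P.cons (P.lf 18008070 0 0) (P.cons (P.lf 1698653 0 0) (P.cons (P.lf 0 158735 0) (P.cons (P.lf 0 20561 0) P.nil))))) (P.cons (P.cons (P.lf 0 4150469 0) (P.cons (P.lf 0 3854344 0) (P.cons (P.lf 0 609781 0) (P.cons (P.lf 41811 0 0) P.nil)))) (P.cons (P.cons (P.lf 0 6272191 0) (P.cons (P.lf 0 2379517 0) (P.cons (P.lf 0 108660 0) P.nil))) (P.cons (P.cons (P.lf 0 362986 0) (P.cons (P.lf 160773 0 0) P.nil)) (P.cons (P.cons (P.lf 377671 0 0) P.nil) P.nil)))))) 383536)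
 (EL.cons 1 (TM.mk (P.cons (P.cons (P.lf 0 87373845 0) (P.cons (P.lf 0 56301881 0) (P.cons (P.lf 0 8173818 0) (P.cons (P.lf 587424 0 0) (P.cons (P.lf 93941 0 0) (P.cons (P.lf 0 1530 0) P.nil)))))) (P.cons (P.cons (P.lf 0 24313490 0) (P.cons (P.lf 0 7068243 0) (P.cons (P.lf 359073 0 0) (P.cons (P.lf 29649 0 0) (P.cons (P.lf 0 2553 0) P.nil))))) (P.cons (P.cons (P.lf 16134823 0 0) (P.cons (P.lf 9100809 0 0) (P.cons (P.lf 900877 0 0) (P.cons (P.lf 0 81570 0) P.nil)))) (P.cons (P.cons (P.lf 4184390 0 0) (P.cons (P.lf 533703 0 0) (P.cons (P.lf 0 148254 0) P.nil))) (P.cons (P.cons (P.lf 0 1108661 0) (P.cons (P.lf 0 535211 0) P.nil)) (P.cons (P.cons (P.lf 0 254932 0) P.nil) P.nil)))))) 318353)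
 (EL.cons 5 (TM.mk (P.cons (P.cons (P.lf 132171118 0 0) (P.cons (P.lf 85168308 0 0) (P.cons (P.lf 12364604 0 0) (P.cons (P.lf 0 888602 0) (P.cons (P.lf 0 142106 0) (P.cons (P.lf 2316 0 0) P.nil)))))) (P.cons (P.cons (P.lf 0 10577096 0) (P.cons (P.lf 0 19823228 0) (P.cons (P.lf 0 4973356 0) (P.cons (P.lf 273528 0 0) (P.cons (P.lf 54778 0 0) P.nil))))) (P.cons (P.cons (P.lf 0 22349546 0) (P.cons (P.lf 0 7780356 0) (P.cons (P.lf 257136 0 0) (P.cons (P.lf 37032 0 0) P.nil)))) (P.cons (P.cons (P.lf 1576328 0 0) (P.cons (P.lf 2085280 0 0) (P.cons (P.lf 174830 0 0) P.nil))) (P.cons (P.cons (P.lf 1411186 0 0) (P.cons (P.lf 191956 0 0) P.nil)) (P.cons (P.cons (P.lf 0 100282 0) P.nil) P.nil)))))) 242488)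
 EL.nil)))
noncomputable def S285_314_512_586_6 : EL := (EL.cons 12 (TM.mk (P.lf 8589934592 0 0) 0)
 (EL.cons 3 (TM.mk (P.cons (P.lf 1320724353 0 0) (P.cons (P.lf 409570215 0 0) (P.cons (P.lf 0 14623338 0) (P.cons (P.lf 0 1245645 0) (P.cons (P.lf 85526 0 0) (P.cons (P.lf 2831 0 0) P.nil)))))) 532)
 (EL.cons 7 (TM.mk (P.cons (P.lf 0 1997870342 0) (P.cons (P.lf 96267727 0 0) (P.cons (P.lf 13808992 0 0) (P.cons (P.lf 0 693290 0) (P.cons (P.lf 0 37347 0) (P.cons (P.lf 3551 0 0) P.nil)))))) 296)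
 EL.nil)))
noncomputable def S285_314_512_586_7 : EL := (EL.cons 12 (TM.mk (P.cons (P.cons (P.lf 0 2290634378 0) (P.cons (P.lf 0 738018488 0) (P.cons (P.lf 11746536 0 0) (P.lf 3915512 0 0)))) (P.cons (P.cons (P.lf 0 18719714 0) (P.cons (P.lf 106684640 0 0) (P.cons (P.lf 0 1698024 0) (P.lf 0 566008 0)))) (P.cons (P.cons (P.lf 178767174 0 0) (P.cons (P.lf 10162608 0 0) (P.cons (P.lf 0 161744 0) (P.lf 0 53912 0)))) (P.cons (P.cons (P.lf 3442472 0 0) (P.cons (P.lf 0 2160512 0) (P.cons (P.lf 34384 0 0) P.nil))) (P.cons (P.cons (P.lf 0 2668406 0) (P.cons (P.lf 0 37584 0) P.nil)) (P.cons (P.cons (P.lf 35466 0 0) P.nil) P.nil)))))) 69106)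
 (EL.cons 3 (TM.mk (P.cons (P.cons (P.lf 0 411923020 0) (P.cons (P.lf 226944448 0 0) (P.cons (P.lf 0 3612118 0) (P.lf 0 1204038 0)))) (P.cons (P.cons (P.lf 1030239989 0 0) (P.cons (P.lf 37571736 0 0) (P.cons (P.lf 0 598002 0) (P.lf 0 199332 0)))) (P.cons (P.cons (P.lf 35216850 0 0) (P.cons (P.lf 0 15811328 0) (P.cons (P.lf 251654 0 0) (P.lf 83882 0 0)))) (P.cons (P.cons (P.lf 0 30210170 0) (P.cons (P.lf 0 155550 0) (P.cons (P.lf 2474 0 0) P.nil))) (P.cons (P.cons (P.lf 708535 0 0) (P.cons (P.lf 297822 0 0) P.nil)) (P.cons (P.cons (P.lf 393917 0 0) P.nil) P.nil)))))) 162282)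
 (EL.cons 7 (TM.mk (P.cons (P.cons (P.lf 518722199 0 0) (P.cons (P.lf 251663835 0 0) (P.cons (P.lf 0 4005565 0) (P.lf 0 1335189 0)))) (P.cons (P.cons (P.lf 242153503 0 0) (P.cons (P.lf 8831074 0 0) (P.cons (P.lf 0 140557 0) (P.lf 0 46851 0)))) (P.cons (P.cons (P.lf 51658816 0 0) (P.cons (P.lf 0 2134322 0) (P.cons (P.lf 33974 0 0) (P.lf 11326 0 0)))) (P.cons (P.cons (P.lf 0 4065821 0) (P.cons (P.lf 0 885692 0) (P.cons (P.lf 14095 0 0) P.nil))) (P.cons (P.cons (P.lf 0 1577312 0) (P.cons (P.lf 39840 0 0) P.nil)) (P.cons (P.cons (P.lf 95346 0 0) P.nil) P.nil)))))) 142495)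
 (EL.cons 10 (TM.mk (P.cons (P.cons (P.lf 0 2737174968 0) (P.cons (P.lf 101463342 0 0) (P.cons (P.lf 50275452 0 0) (P.cons (P.lf 0 456219 0) (P.lf 0 114054 0))))) (P.cons (P.cons (P.lf 263782491 0 0) (P.cons (P.lf 0 9778056 0) (P.cons (P.lf 0 4845060 0) (P.cons (P.lf 43965 0 0) (P.lf 10989 0 0))))) (P.cons (P.cons (P.lf 31482714 0 0) (P.cons (P.lf 0 1167021 0) (P.cons (P.lf 0 578262 0) (P.cons (P.lf 5247 0 0) P.nil)))) (P.cons (P.cons (P.lf 0 3722901 0) (P.cons (P.lf 138000 0 0) (P.cons (P.lf 68379 0 0) P.nil))) (P.cons (P.cons (P.lf 0 141561 0) (P.cons (P.lf 5247 0 0) P.nil)) (P.cons (P.cons (P.lf 27786 0 0) P.nil) P.nil)))))) 9000)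
 EL.nil))))
noncomputable def S285_314_512_586_8 : EL := (EL.cons 12 (TM.mk (P.cons (P.cons (P.lf 610831874 0 0) (P.cons (P.lf 393607308 0 0) (P.cons (P.lf 57143304 0 0) (P.cons (P.lf 0 4106704 0) (P.cons (P.lf 0 656752 0) (P.cons (P.lf 10708 0 0) P.nil)))))) (P.cons (P.cons (P.lf 9983782 0 0) (P.cons (P.lf 0 53681434 0) (P.cons (P.lf 0 17477566 0) (P.cons (P.lf 868356 0 0) (P.cons (P.lf 189874 0 0) P.nil))))) (P.cons (P.cons (P.lf 0 95301078 0) (P.cons (P.lf 0 36603166 0) (P.cons (P.lf 161302 0 0) (P.cons (P.lf 207602 0 0) P.nil)))) (P.cons (P.cons (P.lf 0 2615134 0) (P.cons (P.lf 4956918 0 0) (P.cons (P.lf 544786 0 0) P.nil))) (P.cons (P.cons (P.lf 5128502 0 0) (P.cons (P.lf 996484 0 0) P.nil)) (P.cons (P.cons (P.lf 135998 0 0) P.nil) P.nil)))))) 550746)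
 (EL.cons 3 (TM.mk (P.cons (P.cons (P.lf 125773892 0 0) (P.cons (P.lf 0 110772279 0) (P.cons (P.lf 0 46982686 0) (P.cons (P.lf 2139397 0 0) (P.cons (P.lf 504885 0 0) (P.cons (P.lf 0 8230 0) P.nil)))))) (P.cons (P.cons (P.lf 0 578322036 0) (P.cons (P.lf 0 218802405 0) (P.cons (P.lf 2458896 0 0) (P.cons (P.lf 1193421 0 0) (P.cons (P.lf 10601 0 0) P.nil))))) (P.cons (P.cons (P.lf 0 25201150 0) (P.cons (P.lf 45136822 0 0) (P.cons (P.lf 4515541 0 0) (P.cons (P.lf 0 406077 0) P.nil)))) (P.cons (P.cons (P.lf 63561106 0 0) (P.cons (P.lf 11557210 0 0) (P.cons (P.lf 0 673038 0) P.nil))) (P.cons (P.cons (P.lf 1470565 0 0) (P.cons (P.lf 0 2694190 0) P.nil)) (P.cons (P.cons (P.lf 0 2369856 0) P.nil) P.nil)))))) 1347289)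
 (EL.cons 7 (TM.mk (P.cons (P.cons (P.lf 0 134581112 0) (P.cons (P.lf 0 131807337 0) (P.cons (P.lf 0 26398715 0) (P.cons (P.lf 1606418 0 0) (P.cons (P.lf 295153 0 0) (P.cons (P.lf 0 4812 0) P.nil)))))) (P.cons (P.cons (P.lf 0 135932119 0) (P.cons (P.lf 0 51428568 0) (P.cons (P.lf 577957 0 0) (P.cons (P.lf 280504 0 0) (P.cons (P.lf 2491 0 0) P.nil))))) (P.cons (P.cons (P.lf 0 30275348 0) (P.cons (P.lf 1395912 0 0) (P.cons (P.lf 1164897 0 0) (P.cons (P.lf 0 45196 0) P.nil)))) (P.cons (P.cons (P.lf 12931114 0 0) (P.cons (P.lf 5025983 0 0) (P.cons (P.lf 97848 0 0) P.nil))) (P.cons (P.cons (P.lf 4259702 0 0) (P.cons (P.lf 142855 0 0) P.nil)) (P.cons (P.cons (P.lf 0 347499 0) P.nil) P.nil)))))) 913757)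
 (EL.cons 10 (TM.mk (P.cons (P.cons (P.lf 1459817184 0 0) (P.cons (P.lf 416224428 0 0) (P.cons (P.lf 0 51734226 0) (P.cons (P.lf 0 10613532 0) (P.cons (P.lf 369222 0 0) (P.cons (P.lf 64182 0 0) P.nil)))))) (P.cons (P.cons (P.lf 0 128753040 0) (P.cons (P.lf 0 108543852 0) (P.cons (P.lf 8368956 0 0) (P.cons (P.lf 2594232 0 0) (P.cons (P.lf 0 79662 0) P.nil))))) (P.cons (P.cons (P.lf 0 131868372 0) (P.cons (P.lf 0 445992 0) (P.cons (P.lf 2704734 0 0) (P.cons (P.lf 101142 0 0) P.nil)))) (P.cons (P.cons (P.lf 10633710 0 0) (P.cons (P.lf 3028596 0 0) (P.cons (P.lf 0 376662 0) P.nil))) (P.cons (P.cons (P.lf 3314106 0 0) (P.cons (P.lf 0 225240 0) P.nil)) (P.cons (P.cons (P.lf 0 330408 0) P.nil) P.nil)))))) 359262)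
 EL.nil))))
noncomputable def S285_314_512_586_9 : EL := (EL.cons 3 (TM.mk (P.cons (P.lf 1320724353 0 0) (P.cons (P.lf 409570215 0 0) (P.cons (P.lf 0 14623338 0) (P.cons (P.lf 0 1245645 0) (P.cons (P.lf 85526 0 0) (P.cons (P.lf 2831 0 0) P.nil)))))) 532)
 (EL.cons 7 (TM.mk (P.cons (P.lf 0 1997870342 0) (P.cons (P.lf 96267727 0 0) (P.cons (P.lf 13808992 0 0) (P.cons (P.lf 0 693290 0) (P.cons (P.lf 0 37347 0) (P.cons (P.lf 3551 0 0) P.nil)))))) 296)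
 EL.nil))
noncomputable def S285_314_512_586_10 : EL := (EL.cons 3 (TM.mk (P.cons (P.cons (P.lf 0 352190878 0) (P.cons (P.lf 0 113472224 0) (P.cons (P.lf 1806059 0 0) (P.lf 602019 0 0)))) (P.cons (P.cons (P.lf 0 112096219 0) (P.cons (P.lf 0 18785868 0) (P.cons (P.lf 299001 0 0) (P.lf 99666 0 0)))) (P.cons (P.cons (P.lf 30492879 0 0) (P.cons (P.lf 7905664 0 0) (P.cons (P.lf 0 125827 0) (P.lf 0 41941 0)))) (P.cons (P.cons (P.lf 9416989 0 0) (P.cons (P.lf 77775 0 0) (P.cons (P.lf 0 1237 0) P.nil))) (P.cons (P.cons (P.lf 0 570557 0) (P.cons (P.lf 0 148911 0) P.nil)) (P.cons (P.cons (P.lf 0 154501 0) P.nil) P.nil)))))) 38897)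
 (EL.cons 7 (TM.mk (P.cons (P.cons (P.lf 532761971 0 0) (P.cons (P.lf 171650346 0 0) (P.cons (P.lf 0 2732041 0) (P.lf 0 910680 0)))) (P.cons (P.cons (P.lf 0 21317345 0) (P.cons (P.lf 0 33084005 0) (P.cons (P.lf 526574 0 0) (P.lf 175524 0 0)))) (P.cons (P.cons (P.lf 0 45470321 0) (P.cons (P.lf 0 2354450 0) (P.cons (P.lf 37472 0 0) (P.lf 12490 0 0)))) (P.cons (P.cons (P.lf 1357573 0 0) (P.cons (P.lf 847459 0 0) (P.cons (P.lf 0 13487 0) P.nil))) (P.cons (P.cons (P.lf 958057 0 0) (P.cons (P.lf 0 4536 0) P.nil)) (P.cons (P.cons (P.lf 0 47913 0) P.nil) P.nil)))))) 31959)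
 EL.nil))
noncomputable def S285_314_512_586_11 : EL := (EL.cons 3 (TM.mk (P.cons (P.cons (P.lf 93916958 0 0) (P.cons (P.lf 60518127 0 0) (P.cons (P.lf 8785928 0 0) (P.cons (P.lf 0 631415 0) (P.cons (P.lf 0 100977 0) (P.cons (P.lf 1646 0 0) P.nil)))))) (P.cons (P.cons (P.lf 30659646 0 0) (P.cons (P.lf 10513635 0 0) (P.cons (P.lf 37386 0 0) (P.cons (P.lf 0 62295 0) (P.cons (P.lf 0 2119 0) P.nil))))) (P.cons (P.cons (P.lf 0 15216622 0) (P.cons (P.lf 0 8857442 0) (P.cons (P.lf 0 905813 0) (P.cons (P.lf 80313 0 0) P.nil)))) (P.cons (P.cons (P.lf 0 5051636 0) (P.cons (P.lf 0 948800 0) (P.cons (P.lf 112920 0 0) P.nil))) (P.cons (P.cons (P.lf 830701 0 0) (P.cons (P.lf 463574 0 0) P.nil)) (P.cons (P.cons (P.lf 284010 0 0) P.nil) P.nil)))))) 248955)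
 (EL.cons 7 (TM.mk (P.cons (P.cons (P.lf 0 142068938 0) (P.cons (P.lf 0 91546257 0) (P.cons (P.lf 0 13290545 0) (P.cons (P.lf 955148 0 0) (P.cons (P.lf 152749 0 0) (P.cons (P.lf 0 2490 0) P.nil)))))) (P.cons (P.cons (P.lf 4523561 0 0) (P.cons (P.lf 16896546 0 0) (P.cons (P.lf 4705387 0 0) (P.cons (P.lf 0 247988 0) (P.cons (P.lf 0 51521 0) P.nil))))) (P.cons (P.cons (P.lf 23259232 0 0) (P.cons (P.lf 8544408 0 0) (P.cons (P.lf 0 141525 0) (P.cons (P.lf 0 45154 0) P.nil)))) (P.cons (P.cons (P.lf 0 493058 0) (P.cons (P.lf 0 1681171 0) (P.cons (P.lf 0 157608 0) P.nil))) (P.cons (P.cons (P.lf 0 1378774 0) (P.cons (P.lf 0 232433 0) P.nil)) (P.cons (P.cons (P.lf 29541 0 0) P.nil) P.nil)))))) 188443)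
 EL.nil))
noncomputable def S285_314_512_586_12 : EL := (EL.cons 4 (TM.mk (P.cons (P.lf 0 1320724353 0) (P.cons (P.lf 0 409570215 0) (P.cons (P.lf 14623338 0 0) (P.cons (P.lf 1245645 0 0) (P.cons (P.lf 0 85526 0) (P.cons (P.lf 0 2831 0) P.nil)))))) 532)
 (EL.cons 8 (TM.mk (P.cons (P.lf 1997870342 0 0) (P.cons (P.lf 0 96267727 0) (P.cons (P.lf 0 13808992 0) (P.cons (P.lf 693290 0 0) (P.cons (P.lf 37347 0 0) (P.cons (P.lf 0 3551 0) P.nil)))))) 296)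
 EL.nil))
noncomputable def S285_314_512_586_13 : EL := (EL.cons 4 (TM.mk (P.cons (P.cons (P.lf 352190878 0 0) (P.cons (P.lf 113472224 0 0) (P.cons (P.lf 0 1806059 0) (P.lf 0 602019 0)))) (P.cons (P.cons (P.lf 112096219 0 0) (P.cons (P.lf 18785868 0 0) (P.cons (P.lf 0 299001 0) (P.lf 0 99666 0)))) (P.cons (P.cons (P.lf 0 30492879 0) (P.cons (P.lf 0 7905664 0) (P.cons (P.lf 125827 0 0) (P.lf 41941 0 0)))) (P.cons (P.cons (P.lf 0 9416989 0) (P.cons (P.lf 0 77775 0) (P.cons (P.lf 1237 0 0) P.nil))) (P.cons (P.cons (P.lf 570557 0 0) (P.cons (P.lf 148911 0 0) P.nil)) (P.cons (P.cons (P.lf 154501 0 0) P.nil) P.nil)))))) 38897)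
 (EL.cons 8 (TM.mk (P.cons (P.cons (P.lf 0 532761971 0) (P.cons (P.lf 0 171650346 0) (P.cons (P.lf 2732041 0 0) (P.lf 910680 0 0)))) (P.cons (P.cons (P.lf 21317345 0 0) (P.cons (P.lf 33084005 0 0) (P.cons (P.lf 0 526574 0) (P.lf 0 175524 0)))) (P.cons (P.cons (P.lf 45470321 0 0) (P.cons (P.lf 2354450 0 0) (P.cons (P.lf 0 37472 0) (P.lf 0 12490 0)))) (P.cons (P.cons (P.lf 0 1357573 0) (P.cons (P.lf 0 847459 0) (P.cons (P.lf 13487 0 0) P.nil))) (P.cons (P.cons (P.lf 0 958057 0) (P.cons (P.lf 4536 0 0) P.nil)) (P.cons (P.cons (P.lf 47913 0 0) P.nil) P.nil)))))) 31959)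
 EL.nil))
noncomputable def S285_314_512_586_14 : EL := (EL.cons 4 (TM.mk (P.cons (P.cons (P.lf 0 93916958 0) (P.cons (P.lf 0 60518127 0) (P.cons (P.lf 0 8785928 0) (P.cons (P.lf 631415 0 0) (P.cons (P.lf 100977 0 0) (P.cons (P.lf 0 1646 0) P.nil)))))) (P.cons (P.cons (P.lf 0 30659646 0) (P.cons (P.lf 0 10513635 0) (P.cons (P.lf 0 37386 0) (P.cons (P.lf 62295 0 0) (P.cons (P.lf 2119 0 0) P.nil))))) (P.cons (P.cons (P.lf 15216622 0 0) (P.cons (P.lf 8857442 0 0) (P.cons (P.lf 905813 0 0) (P.cons (P.lf 0 80313 0) P.nil)))) (P.cons (P.cons (P.lf 5051636 0 0) (P.cons (P.lf 948800 0 0) (P.cons (P.lf 0 112920 0) P.nil))) (P.cons (P.cons (P.lf 0 830701 0) (P.cons (P.lf 0 463574 0) P.nil)) (P.cons (P.cons (P.lf 0 284010 0) P.nil) P.nil)))))) 248955)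
 (EL.cons 8 (TM.mk (P.cons (P.cons (P.lf 142068938 0 0) (P.cons (P.lf 91546257 0 0) (P.cons (P.lf 13290545 0 0) (P.cons (P.lf 0 955148 0) (P.cons (P.lf 0 152749 0) (P.cons (P.lf 2490 0 0) P.nil)))))) (P.cons (P.cons (P.lf 0 4523561 0) (P.cons (P.lf 0 16896546 0) (P.cons (P.lf 0 4705387 0) (P.cons (P.lf 247988 0 0) (P.cons (P.lf 51521 0 0) P.nil))))) (P.cons (P.cons (P.lf 0 23259232 0) (P.cons (P.lf 0 8544408 0) (P.cons (P.lf 141525 0 0) (P.cons (P.lf 45154 0 0) P.nil)))) (P.cons (P.cons (P.lf 493058 0 0) (P.cons (P.lf 1681171 0 0) (P.cons (P.lf 157608 0 0) P.nil))) (P.cons (P.cons (P.lf 1378774 0 0) (P.cons (P.lf 232433 0 0) P.nil)) (P.cons (P.cons (P.lf 0 29541 0) P.nil) P.nil)))))) 188443)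
 EL.nil))
noncomputable def S285_314_512_586_15 : EL := (EL.cons 4 (TM.mk (P.cons (P.lf 0 433204774 0) (P.cons (P.lf 0 268682518 0) (P.cons (P.lf 0 32067537 0) (P.cons (P.lf 3792065 0 0) (P.cons (P.lf 144194 0 0) (P.cons (P.lf 0 28304 0) P.nil)))))) 2128)
 (EL.cons 8 (TM.mk (P.cons (P.lf 655312343 0 0) (P.cons (P.lf 171642763 0 0) (P.cons (P.lf 0 21577328 0) (P.cons (P.lf 0 1445658 0) (P.cons (P.lf 205138 0 0) (P.cons (P.lf 3748 0 0) P.nil)))))) 1533)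
 EL.nil))
noncomputable def S285_314_512_586_16 : EL := (EL.cons 4 (TM.mk (P.cons (P.cons (P.lf 115520523 0 0) (P.cons (P.lf 37219506 0 0) (P.cons (P.lf 0 592396 0) (P.lf 0 197465 0)))) (P.cons (P.cons (P.lf 72592273 0 0) (P.cons (P.lf 17704019 0 0) (P.cons (P.lf 0 281782 0) (P.lf 0 93927 0)))) (P.cons (P.cons (P.lf 121289 0 0) (P.cons (P.lf 0 1094344 0) (P.cons (P.lf 17416 0 0) (P.lf 5805 0 0)))) (P.cons (P.cons (P.lf 0 6706552 0) (P.cons (P.lf 0 932986 0) (P.cons (P.lf 14849 0 0) P.nil))) (P.cons (P.cons (P.lf 0 687183 0) (P.cons (P.lf 66241 0 0) P.nil)) (P.cons (P.cons (P.lf 154975 0 0) P.nil) P.nil)))))) 53168)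
 (EL.cons 8 (TM.mk (P.cons (P.cons (P.lf 0 174748825 0) (P.cons (P.lf 0 56302247 0) (P.cons (P.lf 896124 0 0) (P.lf 298707 0 0)))) (P.cons (P.cons (P.lf 0 47199203 0) (P.cons (P.lf 0 6608172 0) (P.cons (P.lf 105177 0 0) (P.lf 35058 0 0)))) (P.cons (P.cons (P.lf 19017723 0 0) (P.cons (P.lf 4760896 0 0) (P.cons (P.lf 0 75775 0) (P.lf 0 25258 0)))) (P.cons (P.cons (P.lf 4267247 0 0) (P.cons (P.lf 0 105532 0) (P.cons (P.lf 1679 0 0) P.nil))) (P.cons (P.cons (P.lf 0 635384 0) (P.cons (P.lf 0 107145 0) P.nil)) (P.cons (P.cons (P.lf 0 90793 0) P.nil) P.nil)))))) 37162)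
 EL.nil))
noncomputable def S285_314_512_586_17 : EL := (EL.cons 4 (TM.mk (P.cons (P.cons (P.lf 0 30805273 0) (P.cons (P.lf 0 19850274 0) (P.cons (P.lf 0 2881831 0) (P.cons (P.lf 207107 0 0) (P.cons (P.lf 33120 0 0) (P.cons (P.lf 0 540 0) P.nil)))))) (P.cons (P.cons (P.lf 0 19609562 0) (P.cons (P.lf 0 9604304 0) (P.cons (P.lf 0 905948 0) (P.cons (P.lf 84659 0 0) (P.cons (P.lf 10965 0 0) P.nil))))) (P.cons (P.cons (P.lf 2213583 0 0) (P.cons (P.lf 2055650 0 0) (P.cons (P.lf 325216 0 0) (P.cons (P.lf 0 22299 0) P.nil)))) (P.cons (P.cons (P.lf 3345168 0 0) (P.cons (P.lf 1269075 0 0) (P.cons (P.lf 57952 0 0) P.nil))) (P.cons (P.cons (P.lf 193592 0 0) (P.cons (P.lf 0 85745 0) P.nil)) (P.cons (P.cons (P.lf 0 201424 0) P.nil) P.nil)))))) 204562)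
 (EL.cons 8 (TM.mk (P.cons (P.cons (P.lf 46599384 0 0) (P.cons (P.lf 30027670 0 0) (P.cons (P.lf 4359370 0 0) (P.cons (P.lf 0 313293 0) (P.cons (P.lf 0 50102 0) (P.cons (P.lf 816 0 0) P.nil)))))) (P.cons (P.cons (P.lf 12967195 0 0) (P.cons (P.lf 3769730 0 0) (P.cons (P.lf 0 191506 0) (P.cons (P.lf 0 15813 0) (P.cons (P.lf 1362 0 0) P.nil))))) (P.cons (P.cons (P.lf 0 8605239 0) (P.cons (P.lf 0 4853765 0) (P.cons (P.lf 0 480468 0) (P.cons (P.lf 43504 0 0) P.nil)))) (P.cons (P.cons (P.lf 0 2231675 0) (P.cons (P.lf 0 284642 0) (P.cons (P.lf 79069 0 0) P.nil))) (P.cons (P.cons (P.lf 591286 0 0) (P.cons (P.lf 285446 0 0) P.nil)) (P.cons (P.cons (P.lf 135964 0 0) P.nil) P.nil)))))) 169777)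
 EL.nil))
noncomputable def S285_314_512_586_18 : EL := (EL.cons 4 (TM.mk (P.cons (P.lf 0 142093522 0) (P.cons (P.lf 0 132193991 0) (P.cons (P.lf 0 36274848 0) (P.cons (P.lf 0 908220 0) (P.cons (P.lf 623396 0 0) (P.cons (P.lf 0 4479 0) P.nil)))))) 6741)
 (EL.cons 8 (TM.mk (P.cons (P.lf 214946014 0 0) (P.cons (P.lf 122956731 0 0) (P.cons (P.lf 8001726 0 0) (P.cons (P.lf 0 3495072 0) (P.cons (P.lf 0 40579 0) (P.cons (P.lf 38127 0 0) P.nil)))))) 3726)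
 EL.nil))
noncomputable def S285_314_512_586_19 : EL := (EL.cons 4 (TM.mk (P.cons (P.cons (P.lf 37891360 0 0) (P.cons (P.lf 12208200 0 0) (P.cons (P.lf 0 194309 0) (P.lf 0 64769 0)))) (P.cons (P.cons (P.lf 35561160 0 0) (P.cons (P.lf 9592903 0 0) (P.cons (P.lf 0 152683 0) (P.lf 0 50894 0)))) (P.cons (P.cons (P.lf 7004173 0 0) (P.cons (P.lf 1306691 0 0) (P.cons (P.lf 0 20797 0) (P.lf 0 6931 0)))) (P.cons (P.cons (P.lf 0 2486821 0) (P.cons (P.lf 0 493149 0) (P.cons (P.lf 7848 0 0) P.nil))) (P.cons (P.cons (P.lf 0 928020 0) (P.cons (P.lf 0 73885 0) P.nil)) (P.cons (P.cons (P.lf 6875 0 0) P.nil) P.nil)))))) 58396)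
 (EL.cons 8 (TM.mk (P.cons (P.cons (P.lf 0 57318565 0) (P.cons (P.lf 0 18467443 0) (P.cons (P.lf 293933 0 0) (P.lf 97977 0 0)))) (P.cons (P.cons (P.lf 0 33256672 0) (P.cons (P.lf 0 7894460 0) (P.cons (P.lf 125650 0 0) (P.lf 41883 0 0)))) (P.cons (P.cons (P.lf 2071558 0 0) (P.cons (P.lf 1093906 0 0) (P.cons (P.lf 0 17410 0) (P.lf 0 5803 0)))) (P.cons (P.cons (P.lf 3559598 0 0) (P.cons (P.lf 491069 0 0) (P.cons (P.lf 0 7815 0) P.nil))) (P.cons (P.cons (P.lf 167467 0 0) (P.cons (P.lf 0 62320 0) P.nil)) (P.cons (P.cons (P.lf 0 116916 0) P.nil) P.nil)))))) 42575)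
 EL.nil))
noncomputable def S285_314_512_586_20 : EL := (EL.cons 4 (TM.mk (P.cons (P.cons (P.lf 0 10104297 0) (P.cons (P.lf 0 6510997 0) (P.cons (P.lf 0 945255 0) (P.cons (P.lf 67932 0 0) (P.cons (P.lf 10863 0 0) (P.cons (P.lf 0 176 0) P.nil)))))) (P.cons (P.cons (P.lf 0 9565489 0) (P.cons (P.lf 0 5169390 0) (P.cons (P.lf 0 590289 0) (P.cons (P.lf 48835 0 0) (P.cons (P.lf 6965 0 0) P.nil))))) (P.cons (P.cons (P.lf 0 1156697 0) (P.cons (P.lf 0 230572 0) (P.cons (P.lf 24987 0 0) (P.cons (P.lf 544 0 0) P.nil)))) (P.cons (P.cons (P.lf 1403141 0 0) (P.cons (P.lf 666381 0 0) (P.cons (P.lf 56270 0 0) P.nil))) (P.cons (P.cons (P.lf 401135 0 0) (P.cons (P.lf 96045 0 0) P.nil)) (P.cons (P.cons (P.lf 0 59647 0) P.nil) P.nil)))))) 140308)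
 (EL.cons 8 (TM.mk (P.cons (P.cons (P.lf 15284851 0 0) (P.cons (P.lf 9849239 0 0) (P.cons (P.lf 1429897 0 0) (P.cons (P.lf 0 102762 0) (P.cons (P.lf 0 16433 0) (P.cons (P.lf 267 0 0) P.nil)))))) (P.cons (P.cons (P.lf 8993300 0 0) (P.cons (P.lf 4290842 0 0) (P.cons (P.lf 380610 0 0) (P.cons (P.lf 0 37054 0) (P.cons (P.lf 0 4649 0) P.nil))))) (P.cons (P.cons (P.lf 0 1672807 0) (P.cons (P.lf 0 1317665 0) (P.cons (P.lf 0 192907 0) (P.cons (P.lf 13798 0 0) P.nil)))) (P.cons (P.cons (P.lf 0 1668817 0) (P.cons (P.lf 0 610058 0) (P.cons (P.lf 0 23590 0) P.nil))) (P.cons (P.cons (P.lf 0 4825 0) (P.cons (P.lf 81774 0 0) P.nil)) (P.cons (P.cons (P.lf 115816 0 0) P.nil) P.nil)))))) 125829)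
 EL.nil))
noncomputable def S285_314_512_586_21 : EL := (EL.cons 4 (TM.mk (P.cons (P.cons (P.lf 59732142 0 0) (P.cons (P.lf 0 340416672 0) (P.cons (P.lf 5418177 0 0) (P.lf 1806057 0 0)))) (P.cons (P.cons (P.lf 0 1142336208 0) (P.cons (P.lf 0 56357604 0) (P.cons (P.lf 897003 0 0) (P.lf 298998 0 0)))) (P.cons (P.cons (P.lf 0 4723971 0) (P.cons (P.lf 23716992 0 0) (P.cons (P.lf 0 377481 0) (P.lf 0 125823 0)))) (P.cons (P.cons (P.lf 39627159 0 0) (P.cons (P.lf 233325 0 0) (P.cons (P.lf 0 3711 0) P.nil))) (P.cons (P.cons (P.lf 0 1279092 0) (P.cons (P.lf 0 446733 0) P.nil)) (P.cons (P.cons (P.lf 0 548418 0) P.nil) P.nil)))))) 123366)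
 (EL.cons 8 (TM.mk (P.cons (P.cons (P.lf 14039772 0 0) (P.cons (P.lf 0 80013489 0) (P.cons (P.lf 1273524 0 0) (P.lf 424509 0 0)))) (P.cons (P.cons (P.lf 0 263470848 0) (P.cons (P.lf 0 41915079 0) (P.cons (P.lf 667131 0 0) (P.lf 222375 0 0)))) (P.cons (P.cons (P.lf 0 97129137 0) (P.cons (P.lf 0 220128 0) (P.cons (P.lf 3498 0 0) (P.lf 1164 0 0)))) (P.cons (P.cons (P.lf 5423394 0 0) (P.cons (P.lf 1733151 0 0) (P.cons (P.lf 0 27582 0) P.nil))) (P.cons (P.cons (P.lf 2535369 0 0) (P.cons (P.lf 0 44376 0) P.nil)) (P.cons (P.cons (P.lf 0 143259 0) P.nil) P.nil)))))) 110517)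
 (EL.cons 11 (TM.mk (P.cons (P.cons (P.lf 2737174968 0 0) (P.cons (P.lf 0 101463342 0) (P.cons (P.lf 0 50275452 0) (P.cons (P.lf 456219 0 0) (P.lf 114054 0 0))))) (P.cons (P.cons (P.lf 0 263782491 0) (P.cons (P.lf 9778056 0 0) (P.cons (P.lf 4845060 0 0) (P.cons (P.lf 0 43965 0) (P.lf 0 10989 0))))) (P.cons (P.cons (P.lf 0 31482714 0) (P.cons (P.lf 1167021 0 0) (P.cons (P.lf 578262 0 0) (P.cons (P.lf 0 5247 0) P.nil)))) (P.cons (P.cons (P.lf 3722901 0 0) (P.cons (P.lf 0 138000 0) (P.cons (P.lf 0 68379 0) P.nil))) (P.cons (P.cons (P.lf 141561 0 0) (P.cons (P.lf 0 5247 0) P.nil)) (P.cons (P.cons (P.lf 0 27786 0) P.nil) P.nil)))))) 9000)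
 EL.nil)))
noncomputable def S285_314_512_586_22 : EL := (EL.cons 4 (TM.mk (P.cons (P.cons (P.lf 0 15928467 0) (P.cons (P.lf 85645203 0 0) (P.cons (P.lf 27884307 0 0) (P.cons (P.lf 0 1385406 0) (P.cons (P.lf 0 302931 0) (P.cons (P.lf 4938 0 0) P.nil)))))) (P.cons (P.cons (P.lf 304490841 0 0) (P.cons (P.lf 114658020 0 0) (P.cons (P.lf 0 1210755 0) (P.cons (P.lf 0 627858 0) (P.cons (P.lf 0 6360 0) P.nil))))) (P.cons (P.cons (P.lf 4992264 0 0) (P.cons (P.lf 0 26997132 0) (P.cons (P.lf 0 2710677 0) (P.cons (P.lf 243195 0 0) P.nil)))) (P.cons (P.cons (P.lf 0 34306371 0) (P.cons (P.lf 0 6253005 0) (P.cons (P.lf 392979 0 0) P.nil))) (P.cons (P.cons (P.lf 0 319932 0) (P.cons (P.lf 1578882 0 0) P.nil)) (P.cons (P.cons (P.lf 1326933 0 0) P.nil) P.nil)))))) 549156)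
 (EL.cons 8 (TM.mk (P.cons (P.cons (P.lf 0 3743913 0) (P.cons (P.lf 20130540 0 0) (P.cons (P.lf 6554085 0 0) (P.cons (P.lf 0 325635 0) (P.cons (P.lf 0 71202 0) (P.cons (P.lf 1161 0 0) P.nil)))))) (P.cons (P.cons (P.lf 70227840 0 0) (P.cons (P.lf 34162557 0 0) (P.cons (P.lf 2063715 0 0) (P.cons (P.lf 0 264246 0) (P.cons (P.lf 0 27006 0) P.nil))))) (P.cons (P.cons (P.lf 26767290 0 0) (P.cons (P.lf 3574248 0 0) (P.cons (P.lf 0 653211 0) (P.cons (P.lf 21 0 0) P.nil)))) (P.cons (P.cons (P.lf 0 6712086 0) (P.cons (P.lf 0 3353577 0) (P.cons (P.lf 0 127728 0) P.nil))) (P.cons (P.cons (P.lf 0 2819238 0) (P.cons (P.lf 0 187644 0) P.nil)) (P.cons (P.cons (P.lf 188520 0 0) P.nil) P.nil)))))) 362646)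
 (EL.cons 11 (TM.mk (P.cons (P.cons (P.lf 0 729908592 0) (P.cons (P.lf 0 208112214 0) (P.cons (P.lf 25867113 0 0) (P.cons (P.lf 5306766 0 0) (P.cons (P.lf 0 184611 0) (P.cons (P.lf 0 32091 0) P.nil)))))) (P.cons (P.cons (P.lf 64376520 0 0) (P.cons (P.lf 54271926 0 0) (P.cons (P.lf 0 4184478 0) (P.cons (P.lf 0 1297116 0) (P.cons (P.lf 39831 0 0) P.nil))))) (P.cons (P.cons (P.lf 65934186 0 0) (P.cons (P.lf 222996 0 0) (P.cons (P.lf 0 1352367 0) (P.cons (P.lf 0 50571 0) P.nil)))) (P.cons (P.cons (P.lf 0 5316855 0) (P.cons (P.lf 0 1514298 0) (P.cons (P.lf 188331 0 0) P.nil))) (P.cons (P.cons (P.lf 0 1657053 0) (P.cons (P.lf 112620 0 0) P.nil)) (P.cons (P.cons (P.lf 165204 0 0) P.nil) P.nil)))))) 179631)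
 EL.nil)))
noncomputable def S285_314_512_586_23 : EL := (EL.cons 4 (TM.mk (P.cons (P.cons (P.lf 19592466 0 0) (P.cons (P.lf 0 111658518 0) (P.cons (P.lf 1777191 0 0) (P.lf 592395 0 0)))) (P.cons (P.cons (P.lf 0 368616666 0) (P.cons (P.lf 0 53112057 0) (P.cons (P.lf 845346 0 0) (P.lf 281781 0 0)))) (P.cons (P.cons (P.lf 0 117962418 0) (P.cons (P.lf 3283032 0 0) (P.cons (P.lf 0 52251 0) (P.lf 0 17415 0)))) (P.cons (P.cons (P.lf 16647606 0 0) (P.cons (P.lf 2798961 0 0) (P.cons (P.lf 0 44547 0) P.nil))) (P.cons (P.cons (P.lf 3983058 0 0) (P.cons (P.lf 0 198726 0) P.nil)) (P.cons (P.cons (P.lf 0 476664 0) P.nil) P.nil)))))) 205692)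
 (EL.cons 8 (TM.mk (P.cons (P.cons (P.lf 4605120 0 0) (P.cons (P.lf 0 26244858 0) (P.cons (P.lf 417720 0 0) (P.lf 139239 0 0)))) (P.cons (P.cons (P.lf 0 84991776 0) (P.cons (P.lf 0 21887175 0) (P.cons (P.lf 348360 0 0) (P.lf 116118 0 0)))) (P.cons (P.cons (P.lf 0 58709565 0) (P.cons (P.lf 0 4045125 0) (P.cons (P.lf 64380 0 0) (P.lf 21459 0 0)))) (P.cons (P.cons (P.lf 0 7148349 0) (P.cons (P.lf 723069 0 0) (P.cons (P.lf 0 11508 0) P.nil))) (P.cons (P.cons (P.lf 1817823 0 0) (P.cons (P.lf 173802 0 0) P.nil)) (P.cons (P.cons (P.lf 215667 0 0) P.nil) P.nil)))))) 94281)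
 (EL.cons 11 (TM.mk (P.cons (P.cons (P.lf 897808281 0 0) (P.cons (P.lf 0 33280527 0) (P.cons (P.lf 0 16490619 0) (P.cons (P.lf 149640 0 0) (P.lf 37410 0 0))))) (P.cons (P.cons (P.lf 191897496 0 0) (P.cons (P.lf 0 7113378 0) (P.cons (P.lf 0 3524703 0) (P.cons (P.lf 31983 0 0) (P.lf 7995 0 0))))) (P.cons (P.cons (P.lf 0 47098614 0) (P.cons (P.lf 1745880 0 0) (P.cons (P.lf 865089 0 0) (P.cons (P.lf 0 7848 0) P.nil)))) (P.cons (P.cons (P.lf 0 1870002 0) (P.cons (P.lf 69318 0 0) (P.cons (P.lf 34347 0 0) P.nil))) (P.cons (P.cons (P.lf 679197 0 0) (P.cons (P.lf 0 25176 0) P.nil)) (P.cons (P.cons (P.lf 0 2172 0) P.nil) P.nil)))))) 26484)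
 EL.nil)))
noncomputable def S285_314_512_586_24 : EL := (EL.cons 4 (TM.mk (P.cons (P.cons (P.lf 0 5224623 0) (P.cons (P.lf 28092093 0 0) (P.cons (P.lf 9146202 0 0) (P.cons (P.lf 0 454419 0) (P.cons (P.lf 0 99363 0) (P.cons (P.lf 1620 0 0) P.nil)))))) (P.cons (P.cons (P.lf 98254443 0 0) (P.cons (P.lf 46320102 0 0) (P.cons (P.lf 2439195 0 0) (P.cons (P.lf 0 346860 0) (P.cons (P.lf 0 32898 0) P.nil))))) (P.cons (P.cons (P.lf 32667495 0 0) (P.cons (P.lf 2496519 0 0) (P.cons (P.lf 0 1113540 0) (P.cons (P.lf 20934 0 0) P.nil)))) (P.cons (P.cons (P.lf 0 11845779 0) (P.cons (P.lf 0 5240013 0) (P.cons (P.lf 0 151053 0) P.nil))) (P.cons (P.cons (P.lf 0 3707175 0) (P.cons (P.lf 0 53763 0) P.nil)) (P.cons (P.cons (P.lf 532200 0 0) P.nil) P.nil)))))) 623907)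
 (EL.cons 8 (TM.mk (P.cons (P.cons (P.lf 0 1228023 0) (P.cons (P.lf 6602925 0 0) (P.cons (P.lf 2149776 0 0) (P.cons (P.lf 0 106809 0) (P.cons (P.lf 0 23352 0) (P.cons (P.lf 378 0 0) P.nil)))))) (P.cons (P.cons (P.lf 22654290 0 0) (P.cons (P.lf 13253139 0 0) (P.cons (P.lf 1343577 0 0) (P.cons (P.lf 0 119796 0) (P.cons (P.lf 0 16098 0) P.nil))))) (P.cons (P.cons (P.lf 15936840 0 0) (P.cons (P.lf 4574205 0 0) (P.cons (P.lf 0 28140 0) (P.cons (P.lf 0 25689 0) P.nil)))) (P.cons (P.cons (P.lf 267219 0 0) (P.cons (P.lf 0 866721 0) (P.cons (P.lf 0 117861 0) P.nil))) (P.cons (P.cons (P.lf 0 1726482 0) (P.cons (P.lf 0 425787 0) P.nil)) (P.cons (P.cons (P.lf 0 207345 0) P.nil) P.nil)))))) 222033)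
 (EL.cons 11 (TM.mk (P.cons (P.cons (P.lf 0 239413989 0) (P.cons (P.lf 0 68261937 0) (P.cons (P.lf 8484552 0 0) (P.cons (P.lf 1740648 0 0) (P.cons (P.lf 0 60552 0) (P.cons (P.lf 0 10524 0) P.nil)))))) (P.cons (P.cons (P.lf 0 53128893 0) (P.cons (P.lf 0 3367242 0) (P.cons (P.lf 1258614 0 0) (P.cons (P.lf 114330 0 0) (P.cons (P.lf 0 5712 0) P.nil))))) (P.cons (P.cons (P.lf 30825855 0 0) (P.cons (P.lf 6349377 0 0) (P.cons (P.lf 0 963162 0) (P.cons (P.lf 0 167799 0) P.nil)))) (P.cons (P.cons (P.lf 4954731 0 0) (P.cons (P.lf 0 606735 0) (P.cons (P.lf 0 68589 0) P.nil))) (P.cons (P.cons (P.lf 0 1359216 0) (P.cons (P.lf 0 139110 0) P.nil)) (P.cons (P.cons (P.lf 0 114594 0) P.nil) P.nil)))))) 167304)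
 EL.nil)))
noncomputable def S285_314_512_586_25 : EL := (EL.cons 4 (TM.mk (P.cons (P.cons (P.lf 6426435 0 0) (P.cons (P.lf 0 36624600 0) (P.cons (P.lf 582927 0 0) (P.lf 194307 0 0)))) (P.cons (P.cons (P.lf 0 118915368 0) (P.cons (P.lf 0 28778709 0) (P.cons (P.lf 458049 0 0) (P.lf 152682 0 0)))) (P.cons (P.cons (P.lf 0 76258368 0) (P.cons (P.lf 0 3920076 0) (P.cons (P.lf 62391 0 0) (P.lf 20796 0 0)))) (P.cons (P.cons (P.lf 0 5205717 0) (P.cons (P.lf 1479447 0 0) (P.cons (P.lf 0 23544 0) P.nil))) (P.cons (P.cons (P.lf 3542682 0 0) (P.cons (P.lf 221655 0 0) P.nil)) (P.cons (P.cons (P.lf 217014 0 0) P.nil) P.nil)))))) 206550)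
 (EL.cons 8 (TM.mk (P.cons (P.cons (P.lf 1510503 0 0) (P.cons (P.lf 0 8608455 0) (P.cons (P.lf 137013 0 0) (P.lf 45669 0 0)))) (P.cons (P.cons (P.lf 0 27409341 0) (P.cons (P.lf 0 9848682 0) (P.cons (P.lf 156753 0 0) (P.lf 52251 0 0)))) (P.cons (P.cons (P.lf 0 27918963 0) (P.cons (P.lf 0 3457824 0) (P.cons (P.lf 55035 0 0) (P.lf 18342 0 0)))) (P.cons (P.cons (P.lf 0 8009265 0) (P.cons (P.lf 0 86682 0) (P.cons (P.lf 1377 0 0) P.nil))) (P.cons (P.cons (P.lf 108750 0 0) (P.cons (P.lf 151461 0 0) P.nil)) (P.cons (P.cons (P.lf 297966 0 0) P.nil) P.nil)))))) 92229)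
 (EL.cons 11 (TM.mk (P.cons (P.cons (P.lf 294486000 0 0) (P.cons (P.lf 0 10916193 0) (P.cons (P.lf 0 5409012 0) (P.cons (P.lf 49083 0 0) (P.lf 12270 0 0))))) (P.cons (P.cons (P.lf 154266561 0 0) (P.cons (P.lf 0 5718450 0) (P.cons (P.lf 0 2833512 0) (P.cons (P.lf 25710 0 0) (P.lf 6426 0 0))))) (P.cons (P.cons (P.lf 810189 0 0) (P.cons (P.lf 0 30030 0) (P.cons (P.lf 0 14880 0) (P.cons (P.lf 135 0 0) P.nil)))) (P.cons (P.cons (P.lf 0 6378807 0) (P.cons (P.lf 236454 0 0) (P.cons (P.lf 117162 0 0) P.nil))) (P.cons (P.cons (P.lf 163323 0 0) (P.cons (P.lf 0 6051 0) P.nil)) (P.cons (P.cons (P.lf 94440 0 0) P.nil) P.nil)))))) 37917)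
 EL.nil)))
noncomputable def S285_314_512_586_26 : EL := (EL.cons 4 (TM.mk (P.cons (P.cons (P.lf 0 1713705 0) (P.cons (P.lf 9214359 0 0) (P.cons (P.lf 3000003 0 0) (P.cons (P.lf 0 149052 0) (P.cons (P.lf 0 32589 0) (P.cons (P.lf 531 0 0) P.nil)))))) (P.cons (P.cons (P.lf 31696554 0 0) (P.cons (P.lf 18050712 0 0) (P.cons (P.lf 1730400 0 0) (P.cons (P.lf 0 159993 0) (P.cons (P.lf 0 20898 0) P.nil))))) (P.cons (P.cons (P.lf 20728323 0 0) (P.cons (P.lf 5428428 0 0) (P.cons (P.lf 0 150354 0) (P.cons (P.lf 0 26763 0) P.nil)))) (P.cons (P.cons (P.lf 0 917829 0) (P.cons (P.lf 0 1641723 0) (P.cons (P.lf 0 174501 0) P.nil))) (P.cons (P.cons (P.lf 0 2570046 0) (P.cons (P.lf 0 573435 0) P.nil)) (P.cons (P.cons (P.lf 0 167520 0) P.nil) P.nil)))))) 374118)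
 (EL.cons 8 (TM.mk (P.cons (P.cons (P.lf 0 402798 0) (P.cons (P.lf 2165796 0 0) (P.cons (P.lf 705138 0 0) (P.cons (P.lf 0 35034 0) (P.cons (P.lf 0 7659 0) (P.cons (P.lf 123 0 0) P.nil)))))) (P.cons (P.cons (P.lf 7305816 0 0) (P.cons (P.lf 5018736 0 0) (P.cons (P.lf 659370 0 0) (P.cons (P.lf 0 50157 0) (P.cons (P.lf 0 7656 0) P.nil))))) (P.cons (P.cons (P.lf 7536174 0 0) (P.cons (P.lf 2824464 0 0) (P.cons (P.lf 119625 0 0) (P.cons (P.lf 0 20223 0) P.nil)))) (P.cons (P.cons (P.lf 1626813 0 0) (P.cons (P.lf 130812 0 0) (P.cons (P.lf 0 47064 0) P.nil))) (P.cons (P.cons (P.lf 0 604026 0) (P.cons (P.lf 0 248394 0) P.nil)) (P.cons (P.cons (P.lf 0 249042 0) P.nil) P.nil)))))) 159759)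
 (EL.cons 11 (TM.mk (P.cons (P.cons (P.lf 0 78529089 0) (P.cons (P.lf 0 22390284 0) (P.cons (P.lf 2782977 0 0) (P.cons (P.lf 570942 0 0) (P.cons (P.lf 0 19860 0) (P.cons (P.lf 0 3450 0) P.nil)))))) (P.cons (P.cons (P.lf 0 41779245 0) (P.cons (P.lf 0 8047932 0) (P.cons (P.lf 1275861 0 0) (P.cons (P.lf 214554 0 0) (P.cons (P.lf 0 8031 0) P.nil))))) (P.cons (P.cons (P.lf 5576382 0 0) (P.cons (P.lf 1988031 0 0) (P.cons (P.lf 0 218712 0) (P.cons (P.lf 0 49731 0) P.nil)))) (P.cons (P.cons (P.lf 5027733 0 0) (P.cons (P.lf 480177 0 0) (P.cons (P.lf 0 127662 0) P.nil))) (P.cons (P.cons (P.lf 0 42447 0) (P.cons (P.lf 0 130809 0) P.nil)) (P.cons (P.cons (P.lf 0 204672 0) P.nil) P.nil)))))) 146976)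
 EL.nil)))
noncomputable def S285_314_512_586_27 : EL := (EL.cons 13 (TM.mk (P.lf 0 4294967296 0) 0)
 EL.nil)
noncomputable def S285_314_512_586_28 : EL := (EL.cons 13 (TM.mk (P.cons (P.cons (P.lf 1145317189 0 0) (P.cons (P.lf 369009244 0 0) (P.cons (P.lf 0 5873268 0) (P.lf 0 1957756 0)))) (P.cons (P.cons (P.lf 9359857 0 0) (P.cons (P.lf 0 53342320 0) (P.cons (P.lf 849012 0 0) (P.lf 283004 0 0)))) (P.cons (P.cons (P.lf 0 89383587 0) (P.cons (P.lf 0 5081304 0) (P.cons (P.lf 80872 0 0) (P.lf 26956 0 0)))) (P.cons (P.cons (P.lf 0 1721236 0) (P.cons (P.lf 1080256 0 0) (P.cons (P.lf 0 17192 0) P.nil))) (P.cons (P.cons (P.lf 1334203 0 0) (P.cons (P.lf 18792 0 0) P.nil)) (P.cons (P.cons (P.lf 0 17733 0) P.nil) P.nil)))))) 34553)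
 EL.nil)
noncomputable def S285_314_512_586_29 : EL := (EL.cons 13 (TM.mk (P.cons (P.cons (P.lf 0 305415937 0) (P.cons (P.lf 0 196803654 0) (P.cons (P.lf 0 28571652 0) (P.cons (P.lf 2053352 0 0) (P.cons (P.lf 328376 0 0) (P.cons (P.lf 0 5354 0) P.nil)))))) (P.cons (P.cons (P.lf 0 4991891 0) (P.cons (P.lf 26840717 0 0) (P.cons (P.lf 8738783 0 0) (P.cons (P.lf 0 434178 0) (P.cons (P.lf 0 94937 0) P.nil))))) (P.cons (P.cons (P.lf 47650539 0 0) (P.cons (P.lf 18301583 0 0) (P.cons (P.lf 0 80651 0) (P.cons (P.lf 0 103801 0) P.nil)))) (P.cons (P.cons (P.lf 1307567 0 0) (P.cons (P.lf 0 2478459 0) (P.cons (P.lf 0 272393 0) P.nil))) (P.cons (P.cons (P.lf 0 2564251 0) (P.cons (P.lf 0 498242 0) P.nil)) (P.cons (P.cons (P.lf 0 67999 0) P.nil) P.nil)))))) 275373)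
 EL.nil)
noncomputable def S285_314_512_586_30 : EL := (EL.cons 13 (TM.mk (P.cons (P.lf 0 1408772644 0) (P.cons (P.lf 0 436874896 0) (P.cons (P.lf 15598228 0 0) (P.cons (P.lf 1328688 0 0) (P.cons (P.lf 0 91228 0) (P.cons (P.lf 0 3020 0) P.nil)))))) 560)
 EL.nil)
noncomputable def S285_314_512_586_31 : EL := (EL.cons 13 (TM.mk (P.cons (P.cons (P.lf 375670270 0 0) (P.cons (P.lf 121037039 0 0) (P.cons (P.lf 0 1926463 0) (P.lf 0 642154 0)))) (P.cons (P.cons (P.lf 119569301 0 0) (P.cons (P.lf 20038260 0 0) (P.cons (P.lf 0 318935 0) (P.lf 0 106311 0)))) (P.cons (P.cons (P.lf 0 32525738 0) (P.cons (P.lf 0 8432709 0) (P.cons (P.lf 134216 0 0) (P.lf 44738 0 0)))) (P.cons (P.cons (P.lf 0 10044789 0) (P.cons (P.lf 0 82960 0) (P.cons (P.lf 1320 0 0) P.nil))) (P.cons (P.cons (P.lf 608595 0 0) (P.cons (P.lf 158839 0 0) P.nil)) (P.cons (P.cons (P.lf 164802 0 0) P.nil) P.nil)))))) 41470)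
 EL.nil)
noncomputable def S285_314_512_586_32 : EL := (EL.cons 13 (TM.mk (P.cons (P.cons (P.lf 0 100178089 0) (P.cons (P.lf 0 64552669 0) (P.cons (P.lf 0 9371657 0) (P.cons (P.lf 673510 0 0) (P.cons (P.lf 107709 0 0) (P.cons (P.lf 0 1756 0) P.nil)))))) (P.cons (P.cons (P.lf 0 32703623 0) (P.cons (P.lf 0 11214545 0) (P.cons (P.lf 0 39879 0) (P.cons (P.lf 66449 0 0) (P.cons (P.lf 2261 0 0) P.nil))))) (P.cons (P.cons (P.lf 16231064 0 0) (P.cons (P.lf 9447939 0 0) (P.cons (P.lf 966201 0 0) (P.cons (P.lf 0 85668 0) P.nil)))) (P.cons (P.cons (P.lf 5388412 0 0) (P.cons (P.lf 1012054 0 0) (P.cons (P.lf 0 120448 0) P.nil))) (P.cons (P.cons (P.lf 0 886082 0) (P.cons (P.lf 0 494479 0) P.nil)) (P.cons (P.cons (P.lf 0 302944 0) P.nil) P.nil)))))) 265529)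
 EL.nil)
noncomputable def S285_314_512_586_33 : EL := (EL.cons 14 (TM.mk (P.lf 8589934592 0 0) 0)
 EL.nil)
noncomputable def S285_314_512_586_34 : EL := (EL.cons 14 (TM.mk (P.cons (P.cons (P.lf 0 2290634378 0) (P.cons (P.lf 0 738018488 0) (P.cons (P.lf 11746536 0 0) (P.lf 3915512 0 0)))) (P.cons (P.cons (P.lf 0 18719714 0) (P.cons (P.lf 106684640 0 0) (P.cons (P.lf 0 1698024 0) (P.lf 0 566008 0)))) (P.cons (P.cons (P.lf 178767174 0 0) (P.cons (P.lf 10162608 0 0) (P.cons (P.lf 0 161744 0) (P.lf 0 53912 0)))) (P.cons (P.cons (P.lf 3442472 0 0) (P.cons (P.lf 0 2160512 0) (P.cons (P.lf 34384 0 0) P.nil))) (P.cons (P.cons (P.lf 0 2668406 0) (P.cons (P.lf 0 37584 0) P.nil)) (P.cons (P.cons (P.lf 35466 0 0) P.nil) P.nil)))))) 69106)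
 EL.nil)
noncomputable def S285_314_512_586_35 : EL := (EL.cons 14 (TM.mk (P.cons (P.cons (P.lf 610831874 0 0) (P.cons (P.lf 393607308 0 0) (P.cons (P.lf 57143304 0 0) (P.cons (P.lf 0 4106704 0) (P.cons (P.lf 0 656752 0) (P.cons (P.lf 10708 0 0) P.nil)))))) (P.cons (P.cons (P.lf 9983782 0 0) (P.cons (P.lf 0 53681434 0) (P.cons (P.lf 0 17477566 0) (P.cons (P.lf 868356 0 0) (P.cons (P.lf 189874 0 0) P.nil))))) (P.cons (P.cons (P.lf 0 95301078 0) (P.cons (P.lf 0 36603166 0) (P.cons (P.lf 161302 0 0) (P.cons (P.lf 207602 0 0) P.nil)))) (P.cons (P.cons (P.lf 0 2615134 0) (P.cons (P.lf 4956918 0 0) (P.cons (P.lf 544786 0 0) P.nil))) (P.cons (P.cons (P.lf 5128502 0 0) (P.cons (P.lf 996484 0 0) P.nil)) (P.cons (P.cons (P.lf 135998 0 0) P.nil) P.nil)))))) 550746)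
 EL.nil)
noncomputable def S285_314_512_586_36 : EL := (EL.cons 14 (TM.mk (P.cons (P.lf 2817545288 0 0) (P.cons (P.lf 873749792 0 0) (P.cons (P.lf 0 31196456 0) (P.cons (P.lf 0 2657376 0) (P.cons (P.lf 182456 0 0) (P.cons (P.lf 6040 0 0) P.nil)))))) 1120)
 EL.nil)
noncomputable def S285_314_512_586_37 : EL := (EL.cons 14 (TM.mk (P.cons (P.cons (P.lf 0 751340540 0) (P.cons (P.lf 0 242074078 0) (P.cons (P.lf 3852926 0 0) (P.lf 1284308 0 0)))) (P.cons (P.cons (P.lf 0 239138602 0) (P.cons (P.lf 0 40076520 0) (P.cons (P.lf 637870 0 0) (P.lf 212622 0 0)))) (P.cons (P.cons (P.lf 65051476 0 0) (P.cons (P.lf 16865418 0 0) (P.cons (P.lf 0 268432 0) (P.lf 0 89476 0)))) (P.cons (P.cons (P.lf 20089578 0 0) (P.cons (P.lf 165920 0 0) (P.cons (P.lf 0 2640 0) P.nil))) (P.cons (P.cons (P.lf 0 1217190 0) (P.cons (P.lf 0 317678 0) P.nil)) (P.cons (P.cons (P.lf 0 329604 0) P.nil) P.nil))))))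 82940)
 EL.nil)
noncomputable def S285_314_512_586_38 : EL := (EL.cons 14 (TM.mk (P.cons (P.cons (P.lf 200356178 0 0) (P.cons (P.lf 129105338 0 0) (P.cons (P.lf 18743314 0 0) (P.cons (P.lf 0 1347020 0) (P.cons (P.lf 0 215418 0) (P.cons (P.lf 3512 0 0) P.nil)))))) (P.cons (P.cons (P.lf 65407246 0 0) (P.cons (P.lf 22429090 0 0) (P.cons (P.lf 79758 0 0) (P.cons (P.lf 0 132898 0) (P.cons (P.lf 0 4522 0) P.nil))))) (P.cons (P.cons (P.lf 0 32462128 0) (P.cons (P.lf 0 18895878 0) (P.cons (P.lf 0 1932402 0) (P.cons (P.lf 171336 0 0) P.nil)))) (P.cons (P.cons (P.lf 0 10776824 0) (P.cons (P.lf 0 2024108 0) (P.cons (P.lf 240896 0 0) P.nil))) (P.cons (P.cons (P.lf 1772164 0 0) (P.cons (P.lf 988958 0 0) P.nil)) (P.cons (P.cons (P.lf 605888 0 0) P.nil) P.nil)))))) 531058)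
 EL.nil)
noncomputable def S285_314_512_586_39 : EL := (EL.cons 14 (TM.mk (P.cons (P.lf 924170186 0 0) (P.cons (P.lf 573189372 0 0) (P.cons (P.lf 68410746 0 0) (P.cons (P.lf 0 8089740 0) (P.cons (P.lf 0 307614 0) (P.cons (P.lf 60382 0 0) P.nil)))))) 4526)
 EL.nil)
noncomputable def S285_314_512_586_40 : EL := (EL.cons 14 (TM.mk (P.cons (P.cons (P.lf 0 246443784 0) (P.cons (P.lf 0 79401614 0) (P.cons (P.lf 1263780 0 0) (P.lf 421260 0 0)))) (P.cons (P.cons (P.lf 0 154863516 0) (P.cons (P.lf 0 37768574 0) (P.cons (P.lf 601136 0 0) (P.lf 200378 0 0)))) (P.cons (P.cons (P.lf 0 258750 0) (P.cons (P.lf 2334602 0 0) (P.cons (P.lf 0 37156 0) (P.lf 0 12384 0)))) (P.cons (P.cons (P.lf 14307312 0 0) (P.cons (P.lf 1990372 0 0) (P.cons (P.lf 0 31678 0) P.nil))) (P.cons (P.cons (P.lf 1465992 0 0) (P.cons (P.lf 0 141316 0) P.nil)) (P.cons (P.cons (P.lf 0 330614 0) P.nil) P.nil))))))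 113386)
 EL.nil)
noncomputable def S285_314_512_586_41 : EL := (EL.cons 14 (TM.mk (P.cons (P.cons (P.lf 65717916 0 0) (P.cons (P.lf 42347252 0 0) (P.cons (P.lf 6147908 0 0) (P.cons (P.lf 0 441830 0) (P.cons (P.lf 0 70658 0) (P.cons (P.lf 1152 0 0) P.nil)))))) (P.cons (P.cons (P.lf 41833734 0 0) (P.cons (P.lf 20489182 0 0) (P.cons (P.lf 1932690 0 0) (P.cons (P.lf 0 180606 0) (P.cons (P.lf 0 23394 0) P.nil))))) (P.cons (P.cons (P.lf 0 4722312 0) (P.cons (P.lf 0 4385388 0) (P.cons (P.lf 0 693796 0) (P.cons (P.lf 47572 0 0) P.nil)))) (P.cons (P.cons (P.lf 0 7136360 0) (P.cons (P.lf 0 2707362 0) (P.cons (P.lf 0 123632 0) P.nil))) (P.cons (P.cons (P.lf 0 412998 0) (P.cons (P.lf 182924 0 0) P.nil)) (P.cons (P.cons (P.lf 429706 0 0) P.nil) P.nil)))))) 436354)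
 EL.nil)
noncomputable def S285_314_512_586_42 : EL := (EL.cons 14 (TM.mk (P.cons (P.lf 303132848 0 0) (P.cons (P.lf 282013848 0 0) (P.cons (P.lf 77386344 0 0) (P.cons (P.lf 1937536 0 0) (P.cons (P.lf 0 1329912 0) (P.cons (P.lf 9556 0 0) P.nil)))))) 14366)
 EL.nil)
noncomputable def S285_314_512_586_43 : EL := (EL.cons 14 (TM.mk (P.cons (P.cons (P.lf 0 80834902 0) (P.cons (P.lf 0 26044160 0) (P.cons (P.lf 414526 0 0) (P.lf 138174 0 0)))) (P.cons (P.cons (P.lf 0 75863810 0) (P.cons (P.lf 0 20464860 0) (P.cons (P.lf 325724 0 0) (P.lf 108574 0 0)))) (P.cons (P.cons (P.lf 0 14942236 0) (P.cons (P.lf 0 2787608 0) (P.cons (P.lf 44368 0 0) (P.lf 14788 0 0)))) (P.cons (P.cons (P.lf 5305220 0 0) (P.cons (P.lf 1052052 0 0) (P.cons (P.lf 0 16744 0) P.nil))) (P.cons (P.cons (P.lf 1979776 0 0) (P.cons (P.lf 157622 0 0) P.nil)) (P.cons (P.cons (P.lf 0 14668 0) P.nil) P.nil)))))) 124538)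
 EL.nil)
noncomputable def S285_314_512_586_44 : EL := (EL.cons 14 (TM.mk (P.cons (P.cons (P.lf 21555834 0 0) (P.cons (P.lf 13890128 0 0) (P.cons (P.lf 2016546 0 0) (P.cons (P.lf 0 144922 0) (P.cons (P.lf 0 23176 0) (P.cons (P.lf 376 0 0) P.nil)))))) (P.cons (P.cons (P.lf 20406378 0 0) (P.cons (P.lf 11028034 0 0) (P.cons (P.lf 1259284 0 0) (P.cons (P.lf 0 104182 0) (P.cons (P.lf 0 14860 0) P.nil))))) (P.cons (P.cons (P.lf 2467622 0 0) (P.cons (P.lf 491888 0 0) (P.cons (P.lf 0 53306 0) (P.cons (P.lf 0 1162 0) P.nil)))) (P.cons (P.cons (P.lf 0 2993368 0) (P.cons (P.lf 0 1421614 0) (P.cons (P.lf 0 120044 0) P.nil))) (P.cons (P.cons (P.lf 0 855756 0) (P.cons (P.lf 0 204898 0) P.nil)) (P.cons (P.cons (P.lf 127248 0 0) P.nil) P.nil)))))) 299278)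
 EL.nil)
noncomputable def S285_314_512_586_45 : EL := (EL.cons 14 (TM.mk (P.cons (P.cons (P.lf 0 162887442 0) (P.cons (P.lf 0 157441902 0) (P.cons (P.lf 0 48220242 0) (P.cons (P.lf 0 2997766 0) (P.cons (P.lf 785524 0 0) (P.cons (P.lf 74002 0 0) P.nil)))))) (P.cons (P.cons (P.lf 0 3993486 0) (P.cons (P.lf 20185774 0 0) (P.cons (P.lf 13929654 0 0) (P.cons (P.lf 1801794 0 0) (P.cons (P.lf 0 260412 0) P.nil))))) (P.cons (P.cons (P.lf 38103866 0 0) (P.cons (P.lf 27103832 0 0) (P.cons (P.lf 3984282 0 0) (P.cons (P.lf 0 400824 0) P.nil)))) (P.cons (P.cons (P.lf 1357620 0 0) (P.cons (P.lf 0 3302256 0) (P.cons (P.lf 0 1511926 0) P.nil))) (P.cons (P.cons (P.lf 0 3530974 0) (P.cons (P.lf 0 1773106 0) P.nil)) (P.cons (P.cons (P.lf 0 140638 0) P.nil) P.nil)))))) 1251194)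
 EL.nil)
noncomputable def S285_314_512_586_46 : EL := (EL.cons 15 (TM.mk (P.lf 4294967296 0 0) 0)
 EL.nil)
noncomputable def S285_314_512_586_47 : EL := (EL.cons 15 (TM.mk (P.cons (P.cons (P.lf 0 1145317189 0) (P.cons (P.lf 0 369009244 0) (P.cons (P.lf 5873268 0 0) (P.lf 1957756 0 0)))) (P.cons (P.cons (P.lf 0 9359857 0) (P.cons (P.lf 53342320 0 0) (P.cons (P.lf 0 849012 0) (P.lf 0 283004 0)))) (P.cons (P.cons (P.lf 89383587 0 0) (P.cons (P.lf 5081304 0 0) (P.cons (P.lf 0 80872 0) (P.lf 0 26956 0)))) (P.cons (P.cons (P.lf 1721236 0 0) (P.cons (P.lf 0 1080256 0) (P.cons (P.lf 17192 0 0) P.nil))) (P.cons (P.cons (P.lf 0 1334203 0) (P.cons (P.lf 0 18792 0) P.nil)) (P.cons (P.cons (P.lf 17733 0 0) P.nil) P.nil)))))) 34553)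
 EL.nil)
noncomputable def S285_314_512_586_48 : EL := (EL.cons 15 (TM.mk (P.cons (P.cons (P.lf 305415937 0 0) (P.cons (P.lf 196803654 0 0) (P.cons (P.lf 28571652 0 0) (P.cons (P.lf 0 2053352 0) (P.cons (P.lf 0 328376 0) (P.cons (P.lf 5354 0 0) P.nil)))))) (P.cons (P.cons (P.lf 4991891 0 0) (P.cons (P.lf 0 26840717 0) (P.cons (P.lf 0 8738783 0) (P.cons (P.lf 434178 0 0) (P.cons (P.lf 94937 0 0) P.nil))))) (P.cons (P.cons (P.lf 0 47650539 0) (P.cons (P.lf 0 18301583 0) (P.cons (P.lf 80651 0 0) (P.cons (P.lf 103801 0 0) P.nil)))) (P.cons (P.cons (P.lf 0 1307567 0) (P.cons (P.lf 2478459 0 0) (P.cons (P.lf 272393 0 0) P.nil))) (P.cons (P.cons (P.lf 2564251 0 0) (P.cons (P.lf 498242 0 0) P.nil)) (P.cons (P.cons (P.lf 67999 0 0) P.nil) P.nil)))))) 275373)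
 EL.nil)
noncomputable def S285_314_512_586 : SL := (SL.cons S285_314_512_586_0 (SL.cons S285_314_512_586_1 (SL.cons S285_314_512_586_2 (SL.cons S285_314_512_586_3 (SL.cons S285_314_512_586_4 (SL.cons S285_314_512_586_5 (SL.cons S285_314_512_586_6 (SL.cons S285_314_512_586_7 (SL.cons S285_314_512_586_8 (SL.cons S285_314_512_586_9 (SL.cons S285_314_512_586_10 (SL.cons S285_314_512_586_11 (SL.cons S285_314_512_586_12 (SL.cons S285_314_512_586_13 (SL.cons S285_314_512_586_14 (SL.cons S285_314_512_586_15 (SL.cons S285_314_512_586_16 (SL.cons S285_314_512_586_17 (SL.cons S285_314_512_586_18 (SL.cons S285_314_512_586_19 (SL.cons S285_314_512_586_20 (SL.cons S285_314_512_586_21 (SL.cons S285_314_512_586_22 (SL.cons S285_314_512_586_23 (SL.cons S285_314_512_586_24 (SL.cons S285_314_512_586_25 (SL.cons S285_314_512_586_26 (SL.cons S285_314_512_586_27 (SL.cons S285_314_512_586_28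 (SL.cons S285_314_512_586_29 (SL.cons S285_314_512_586_30 (SL.cons S285_314_512_586_31 (SL.cons S285_314_512_586_32 (SL.cons S285_314_512_586_33 (SL.cons S285_314_512_586_34 (SL.cons S285_314_512_586_35 (SL.cons S285_314_512_586_36 (SL.cons S285_314_512_586_37 (SL.cons S285_314_512_586_38 (SL.cons S285_314_512_586_39 (SL.cons S285_314_512_586_40 (SL.cons S285_314_512_586_41 (SL.cons S285_314_512_586_42 (SL.cons S285_314_512_586_43 (SL.cons S285_314_512_586_44 (SL.cons S285_314_512_586_45 (SL.cons S285_314_512_586_46 (SL.cons S285_314_512_586_47 (SL.cons S285_314_512_586_48 SL.nil)))))))))))))))))))))))))))))))))))))))))))))))))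
noncomputable def S285_314_512_660_0 : EL := (EL.cons 0 (TM.mk (P.cons (P.lf 7643457911 0 0) (P.cons (P.lf 0 503779721 0) (P.cons (P.lf 0 60126632 0) (P.cons (P.lf 7110123 0 0) (P.cons (P.lf 270363 0 0) (P.cons (P.lf 0 53070 0) P.nil)))))) 3984)
 (EL.cons 1 (TM.mk (P.cons (P.lf 1228710643 0 0) (P.cons (P.lf 321830180 0 0) (P.cons (P.lf 0 40457490 0) (P.cons (P.lf 0 2710608 0) (P.cons (P.lf 384633 0 0) (P.cons (P.lf 7027 0 0) P.nil)))))) 2881)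
 (EL.cons 5 (TM.mk (P.cons (P.lf 4583770480 0 0) (P.cons (P.lf 179121676 0 0) (P.cons (P.lf 21378358 0 0) (P.cons (P.lf 0 2528040 0) (P.cons (P.lf 0 96128 0) (P.cons (P.lf 18870 0 0) P.nil)))))) 1697)
 (EL.cons 9 (TM.mk (P.lf 6442450944 0 0) 2)
 EL.nil))))
noncomputable def S285_314_512_660_1 : EL := (EL.cons 0 (TM.mk (P.cons (P.cons (P.lf 0 2512825409 0) (P.cons (P.lf 0 851961194 0) (P.cons (P.lf 56960143 0 0) (P.lf 18986718 0 0)))) (P.cons (P.cons (P.lf 1041590894 0 0) (P.cons (P.lf 452886472 0 0) (P.cons (P.lf 0 30278921 0) (P.lf 0 10092970 0)))) (P.cons (P.cons (P.lf 399139005 0 0) (P.cons (P.lf 3420928 0 0) (P.cons (P.lf 0 228723 0) (P.lf 0 76236 0)))) (P.cons (P.cons (P.lf 0 49330898 0) (P.cons (P.lf 0 17376975 0) (P.cons (P.lf 1161775 0 0) P.nil))) (P.cons (P.cons (P.lf 0 10933342 0) (P.cons (P.lf 875727 0 0) P.nil)) (P.cons (P.cons (P.lf 1363973 0 0) P.nil) P.nil))))))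 1391863)
 (EL.cons 1 (TM.mk (P.cons (P.cons (P.lf 0 538419622 0) (P.cons (P.lf 0 455770639 0) (P.cons (P.lf 30471752 0 0) (P.lf 10157251 0 0)))) (P.cons (P.cons (P.lf 0 551767556 0) (P.cons (P.lf 0 19914581 0) (P.cons (P.lf 1331442 0 0) (P.lf 443816 0 0)))) (P.cons (P.cons (P.lf 139468322 0 0) (P.cons (P.lf 49724666 0 0) (P.cons (P.lf 0 3324465 0) (P.lf 0 1108148 0)))) (P.cons (P.cons (P.lf 35776480 0 0) (P.cons (P.lf 0 2233147 0) (P.cons (P.lf 149301 0 0) P.nil))) (P.cons (P.cons (P.lf 0 5198503 0) (P.cons (P.lf 0 1266845 0) P.nil)) (P.cons (P.cons (P.lf 0 687095 0) P.nil) P.nil)))))) 704404)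
 (EL.cons 5 (TM.mk (P.cons (P.cons (P.lf 0 1667593173 0) (P.cons (P.lf 0 891804552 0) (P.cons (P.lf 59623980 0 0) (P.lf 19874660 0 0)))) (P.cons (P.cons (P.lf 0 297497661 0) (P.cons (P.lf 11677656 0 0) (P.cons (P.lf 0 780744 0) (P.lf 0 260254 0)))) (P.cons (P.cons (P.lf 18490922 0 0) (P.cons (P.lf 15235180 0 0) (P.cons (P.lf 0 1018582 0) (P.lf 0 339528 0)))) (P.cons (P.cons (P.lf 18668504 0 0) (P.cons (P.lf 2680970 0 0) (P.cons (P.lf 0 179236 0) P.nil))) (P.cons (P.cons (P.lf 1587983 0 0) (P.cons (P.lf 0 372214 0) P.nil)) (P.cons (P.cons (P.lf 0 436628 0) P.nil) P.nil)))))) 705400)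
 (EL.cons 9 (TM.mk (P.cons (P.cons (P.lf 0 2259743113 0) (P.cons (P.lf 0 1054168308 0) (P.cons (P.lf 70479234 0 0) (P.lf 23493078 0 0)))) (P.cons (P.cons (P.lf 64275669 0 0) (P.cons (P.lf 152385840 0 0) (P.cons (P.lf 0 10188156 0) (P.lf 0 3396048 0)))) (P.cons (P.cons (P.lf 141535594 0 0) (P.cons (P.lf 14516034 0 0) (P.cons (P.lf 0 970506 0) (P.lf 0 323496 0)))) (P.cons (P.cons (P.lf 995850 0 0) (P.cons (P.lf 0 3086028 0) (P.cons (P.lf 206322 0 0) P.nil))) (P.cons (P.cons (P.lf 0 2028892 0) (P.cons (P.lf 0 53688 0) P.nil)) (P.cons (P.cons (P.lf 42643 0 0) P.nil) P.nil)))))) 153092)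
 (EL.cons 2 (TM.mk (P.cons (P.cons (P.lf 0 795210173 0) (P.cons (P.lf 123118503 0 0) (P.cons (P.lf 59314609 0 0) (P.cons (P.lf 0 2244636 0) (P.lf 0 561158 0))))) (P.cons (P.cons (P.lf 0 169968180 0) (P.cons (P.lf 26315341 0 0) (P.cons (P.lf 12677900 0 0) (P.cons (P.lf 0 479767 0) (P.lf 0 119941 0))))) (P.cons (P.cons (P.lf 41716364 0 0) (P.cons (P.lf 0 6458737 0) (P.cons (P.lf 0 3111615 0) (P.cons (P.lf 117750 0 0) P.nil)))) (P.cons (P.cons (P.lf 1656303 0 0) (P.cons (P.lf 0 256438 0) (P.cons (P.lf 0 123541 0) P.nil))) (P.cons (P.cons (P.lf 0 601579 0) (P.cons (P.lf 93138 0 0) P.nil)) (P.cons (P.cons (P.lf 1923 0 0) P.nil) P.nil)))))) 114956)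
 (EL.cons 6 (TM.mk (P.cons (P.cons (P.lf 1202920818 0 0) (P.cons (P.lf 0 186242349 0) (P.cons (P.lf 0 89725689 0) (P.cons (P.lf 3395481 0 0) (P.lf 848868 0 0))))) (P.cons (P.cons (P.lf 0 173888838 0) (P.cons (P.lf 26922357 0 0) (P.cons (P.lf 12970341 0 0) (P.cons (P.lf 0 490833 0) (P.lf 0 122706 0))))) (P.cons (P.cons (P.lf 0 16564380 0) (P.cons (P.lf 2564580 0 0) (P.cons (P.lf 1235532 0 0) (P.cons (P.lf 0 46755 0) P.nil)))) (P.cons (P.cons (P.lf 3521499 0 0) (P.cons (P.lf 0 545214 0) (P.cons (P.lf 0 262665 0) P.nil))) (P.cons (P.cons (P.lf 61266 0 0) (P.cons (P.lf 0 9483 0) P.nil)) (P.cons (P.cons (P.lf 0 35622 0) P.nil) P.nil)))))) 68205)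
 EL.nil))))))
noncomputable def S285_314_512_660_2 : EL := (EL.cons 0 (TM.mk (P.cons (P.cons (P.lf 822403527 0 0) (P.cons (P.lf 542626562 0 0) (P.cons (P.lf 37883432 0 0) (P.cons (P.lf 0 22009537 0) (P.cons (P.lf 0 2974046 0) (P.cons (P.lf 221008 0 0) P.nil)))))) (P.cons (P.cons (P.lf 0 665356720 0) (P.cons (P.lf 0 584835093 0) (P.cons (P.lf 0 76758732 0) (P.cons (P.lf 28525741 0 0) (P.cons (P.lf 4646168 0 0) P.nil))))) (P.cons (P.cons (P.lf 0 248718628 0) (P.cons (P.lf 0 63142312 0) (P.cons (P.lf 19757273 0 0) (P.cons (P.lf 0 670170 0) P.nil)))) (P.cons (P.cons (P.lf 76028401 0 0) (P.cons (P.lf 57361321 0 0) (P.cons (P.lf 2112271 0 0) P.nil))) (P.cons (P.cons (P.lf 19988578 0 0) (P.cons (P.lf 682125 0 0) P.nil)) (P.cons (P.cons (P.lf 0 3383701 0) P.nil) P.nil)))))) 12180353)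
 (EL.cons 1 (TM.mk (P.cons (P.cons (P.lf 226540333 0 0) (P.cons (P.lf 354890873 0 0) (P.cons (P.lf 92529089 0 0) (P.cons (P.lf 0 23454302 0) (P.cons (P.lf 0 4662082 0) (P.cons (P.lf 346431 0 0) P.nil)))))) (P.cons (P.cons (P.lf 345335065 0 0) (P.cons (P.lf 147432684 0 0) (P.cons (P.lf 0 24006500 0) (P.cons (P.lf 0 1393662 0) (P.cons (P.lf 567413 0 0) P.nil))))) (P.cons (P.cons (P.lf 0 106462187 0) (P.cons (P.lf 0 108245359 0) (P.cons (P.lf 0 8238683 0) (P.cons (P.lf 4481674 0 0) P.nil)))) (P.cons (P.cons (P.lf 0 42152252 0) (P.cons (P.lf 0 5042691 0) (P.cons (P.lf 3260228 0 0) P.nil))) (P.cons (P.cons (P.lf 8997027 0 0) (P.cons (P.lf 6742462 0 0) P.nil)) (P.cons (P.cons (P.lf 2085082 0 0) P.nil) P.nil)))))) 6237756)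
 (EL.cons 5 (TM.mk (P.cons (P.cons (P.lf 605896655 0 0) (P.cons (P.lf 645184873 0 0) (P.cons (P.lf 125986521 0 0) (P.cons (P.lf 0 36992731 0) (P.cons (P.lf 0 6782099 0) (P.cons (P.lf 503974 0 0) P.nil)))))) (P.cons (P.cons (P.lf 185468763 0 0) (P.cons (P.lf 62947388 0 0) (P.cons (P.lf 0 19532622 0) (P.cons (P.lf 646236 0 0) (P.cons (P.lf 614540 0 0) P.nil))))) (P.cons (P.cons (P.lf 0 23368121 0) (P.cons (P.lf 0 38138623 0) (P.cons (P.lf 0 4272786 0) (P.cons (P.lf 1762229 0 0) P.nil)))) (P.cons (P.cons (P.lf 0 24623340 0) (P.cons (P.lf 0 10394307 0) (P.cons (P.lf 503196 0 0) P.nil))) (P.cons (P.cons (P.lf 0 1947422 0) (P.cons (P.lf 1259103 0 0) P.nil)) (P.cons (P.cons (P.lf 1172885 0 0) P.nil) P.nil)))))) 6135366)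
 (EL.cons 9 (TM.mk (P.cons (P.cons (P.lf 792623643 0 0) (P.cons (P.lf 739516557 0 0) (P.cons (P.lf 123049581 0 0) (P.cons (P.lf 0 39545599 0) (P.cons (P.lf 0 6917241 0) (P.cons (P.lf 514018 0 0) P.nil)))))) (P.cons (P.cons (P.lf 0 45090447 0) (P.cons (P.lf 0 127935852 0) (P.cons (P.lf 0 41315830 0) (P.cons (P.lf 9519450 0 0) (P.cons (P.lf 1999848 0 0) P.nil))))) (P.cons (P.cons (P.lf 0 98648295 0) (P.cons (P.lf 0 53461063 0) (P.cons (P.lf 2428249 0 0) (P.cons (P.lf 1344663 0 0) P.nil)))) (P.cons (P.cons (P.lf 2125566 0 0) (P.cons (P.lf 8824245 0 0) (P.cons (P.lf 1106664 0 0) P.nil))) (P.cons (P.cons (P.lf 4552597 0 0) (P.cons (P.lf 1324975 0 0) P.nil)) (P.cons (P.cons (P.lf 0 26643 0) P.nil) P.nil)))))) 2087398)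
 (EL.cons 2 (TM.mk (P.cons (P.cons (P.lf 557853125 0 0) (P.cons (P.lf 173868350 0 0) (P.cons (P.lf 0 99300470 0) (P.cons (P.lf 0 20942308 0) (P.cons (P.lf 3323947 0 0) (P.cons (P.lf 567123 0 0) P.nil)))))) (P.cons (P.cons (P.lf 103368037 0 0) (P.cons (P.lf 2000446 0 0) (P.cons (P.lf 0 11701473 0) (P.cons (P.lf 0 1266041 0) (P.cons (P.lf 275670 0 0) P.nil))))) (P.cons (P.cons (P.lf 0 67596513 0) (P.cons (P.lf 0 14810490 0) (P.cons (P.lf 10645290 0 0) (P.cons (P.lf 1996194 0 0) P.nil)))) (P.cons (P.cons (P.lf 0 8043502 0) (P.cons (P.lf 2672656 0 0) (P.cons (P.lf 283545 0 0) P.nil))) (P.cons (P.cons (P.lf 2736337 0 0) (P.cons (P.lf 215645 0 0) P.nil)) (P.cons (P.cons (P.lf 168840 0 0) P.nil) P.nil)))))) 1874260)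
 (EL.cons 6 (TM.mk (P.cons (P.cons (P.lf 0 843868908 0) (P.cons (P.lf 0 263012052 0) (P.cons (P.lf 150212622 0 0) (P.cons (P.lf 31679598 0 0) (P.cons (P.lf 0 5028156 0) (P.cons (P.lf 0 857892 0) P.nil)))))) (P.cons (P.cons (P.lf 145988736 0 0) (P.cons (P.lf 91209924 0 0) (P.cons (P.lf 0 36119574 0) (P.cons (P.lf 0 9435498 0) (P.cons (P.lf 1384548 0 0) P.nil))))) (P.cons (P.cons (P.lf 61004898 0 0) (P.cons (P.lf 0 6829596 0) (P.cons (P.lf 0 5130150 0) (P.cons (P.lf 0 54102 0) P.nil)))) (P.cons (P.cons (P.lf 0 10069428 0) (P.cons (P.lf 0 2313078 0) (P.cons (P.lf 1609446 0 0) P.nil))) (P.cons (P.cons (P.lf 0 1511940 0) (P.cons (P.lf 452520 0 0) P.nil)) (P.cons (P.cons (P.lf 301266 0 0) P.nil) P.nil)))))) 1770450)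
 EL.nil))))))
noncomputable def S285_314_512_660_3 : EL := (EL.cons 0 (TM.mk (P.cons (P.lf 812258952 0 0) (P.cons (P.lf 503779721 0 0) (P.cons (P.lf 60126632 0 0) (P.cons (P.lf 0 7110123 0) (P.cons (P.lf 0 270363 0) (P.cons (P.lf 53070 0 0) P.nil)))))) 3984)
 (EL.cons 1 (TM.mk (P.cons (P.lf 0 1228710643 0) (P.cons (P.lf 0 321830180 0) (P.cons (P.lf 40457490 0 0) (P.cons (P.lf 2710608 0 0) (P.cons (P.lf 0 384633 0) (P.cons (P.lf 0 7027 0) P.nil)))))) 2881)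
 (EL.cons 5 (TM.mk (P.cons (P.lf 1858680464 0 0) (P.cons (P.lf 0 179121676 0) (P.cons (P.lf 0 21378358 0) (P.cons (P.lf 2528040 0 0) (P.cons (P.lf 96128 0 0) (P.cons (P.lf 0 18870 0) P.nil)))))) 1690)
 EL.nil)))
noncomputable def S285_314_512_660_4 : EL := (EL.cons 0 (TM.mk (P.cons (P.cons (P.lf 0 284906564 0) (P.cons (P.lf 0 132908677 0) (P.cons (P.lf 8885963 0 0) (P.lf 2961987 0 0)))) (P.cons (P.cons (P.lf 0 168601092 0) (P.cons (P.lf 0 63220014 0) (P.cons (P.lf 4226742 0 0) (P.lf 1408914 0 0)))) (P.cons (P.cons (P.lf 1780934 0 0) (P.cons (P.lf 3907842 0 0) (P.cons (P.lf 0 261267 0) (P.lf 0 87087 0)))) (P.cons (P.cons (P.lf 14287013 0 0) (P.cons (P.lf 3331641 0 0) (P.cons (P.lf 0 222744 0) P.nil))) (P.cons (P.cons (P.lf 1166900 0 0) (P.cons (P.lf 0 236548 0) P.nil)) (P.cons (P.cons (P.lf 0 321496 0) P.nil) P.nil)))))) 274501)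
 (EL.cons 1 (TM.mk (P.cons (P.cons (P.lf 430980450 0 0) (P.cons (P.lf 201052025 0 0) (P.cons (P.lf 0 13441867 0) (P.lf 0 4480621 0)))) (P.cons (P.cons (P.lf 100625885 0 0) (P.cons (P.lf 23597396 0 0) (P.cons (P.lf 0 1577666 0) (P.lf 0 525888 0)))) (P.cons (P.cons (P.lf 0 44395475 0) (P.cons (P.lf 0 17000885 0) (P.cons (P.lf 1136636 0 0) (P.lf 378877 0 0)))) (P.cons (P.cons (P.lf 0 7807413 0) (P.cons (P.lf 376850 0 0) (P.cons (P.lf 0 25194 0) P.nil))) (P.cons (P.cons (P.lf 1387980 0 0) (P.cons (P.lf 382610 0 0) P.nil)) (P.cons (P.cons (P.lf 157650 0 0) P.nil) P.nil)))))) 191694)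
 (EL.cons 5 (TM.mk (P.cons (P.cons (P.lf 0 651947590 0) (P.cons (P.lf 0 304133016 0) (P.cons (P.lf 20333622 0 0) (P.lf 6777874 0 0)))) (P.cons (P.cons (P.lf 81372276 0 0) (P.cons (P.lf 73273506 0 0) (P.cons (P.lf 0 4898892 0) (P.lf 0 1632962 0)))) (P.cons (P.cons (P.lf 46545308 0 0) (P.cons (P.lf 3449222 0 0) (P.cons (P.lf 0 230606 0) (P.lf 0 76866 0)))) (P.cons (P.cons (P.lf 0 4747874 0) (P.cons (P.lf 0 2213258 0) (P.cons (P.lf 147970 0 0) P.nil))) (P.cons (P.cons (P.lf 0 1091194 0) (P.cons (P.lf 66208 0 0) P.nil)) (P.cons (P.cons (P.lf 128524 0 0) P.nil) P.nil)))))) 142040)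
 EL.nil)))
noncomputable def S285_314_512_660_5 : EL := (EL.cons 0 (TM.mk (P.cons (P.cons (P.lf 99933340 0 0) (P.cons (P.lf 93237642 0 0) (P.cons (P.lf 15513989 0 0) (P.cons (P.lf 0 4985875 0) (P.cons (P.lf 0 872119 0) (P.cons (P.lf 64807 0 0) P.nil)))))) (P.cons (P.cons (P.lf 56295747 0 0) (P.cons (P.lf 41697857 0 0) (P.cons (P.lf 4413028 0 0) (P.cons (P.lf 0 1892137 0) (P.cons (P.lf 0 288766 0) P.nil))))) (P.cons (P.cons (P.lf 0 8565966 0) (P.cons (P.lf 0 9842693 0) (P.cons (P.lf 0 1776209 0) (P.cons (P.lf 544849 0 0) P.nil)))) (P.cons (P.cons (P.lf 0 8741592 0) (P.cons (P.lf 0 5078102 0) (P.cons (P.lf 0 191988 0) P.nil))) (P.cons (P.cons (P.lf 0 163970 0) (P.cons (P.lf 468293 0 0) P.nil)) (P.cons (P.cons (P.lf 489770 0 0) P.nil) P.nil)))))) 1529413)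
 (EL.cons 1 (TM.mk (P.cons (P.cons (P.lf 0 151169968 0) (P.cons (P.lf 0 141041330 0) (P.cons (P.lf 0 23468137 0) (P.cons (P.lf 7542174 0 0) (P.cons (P.lf 1319261 0 0) (P.cons (P.lf 0 98032 0) P.nil)))))) (P.cons (P.cons (P.lf 0 30995516 0) (P.cons (P.lf 0 12542212 0) (P.cons (P.lf 1732899 0 0) (P.cons (P.lf 159924 0 0) (P.cons (P.lf 0 35865 0) P.nil))))) (P.cons (P.cons (P.lf 26044316 0 0) (P.cons (P.lf 21231170 0 0) (P.cons (P.lf 2373526 0 0) (P.cons (P.lf 0 980334 0) P.nil)))) (P.cons (P.cons (P.lf 4572877 0 0) (P.cons (P.lf 495388 0 0) (P.cons (P.lf 0 540048 0) P.nil))) (P.cons (P.cons (P.lf 0 1660245 0) (P.cons (P.lf 0 1127216 0) P.nil)) (P.cons (P.cons (P.lf 0 248670 0) P.nil) P.nil)))))) 1285651)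
 (EL.cons 5 (TM.mk (P.cons (P.cons (P.lf 228676024 0 0) (P.cons (P.lf 213354356 0 0) (P.cons (P.lf 35500440 0 0) (P.cons (P.lf 0 11409108 0) (P.cons (P.lf 0 1995658 0) (P.cons (P.lf 148296 0 0) P.nil)))))) (P.cons (P.cons (P.lf 0 35046414 0) (P.cons (P.lf 0 57471188 0) (P.cons (P.lf 0 15341020 0) (P.cons (P.lf 3845910 0 0) (P.cons (P.lf 769288 0 0) P.nil))))) (P.cons (P.cons (P.lf 0 29837086 0) (P.cons (P.lf 0 14320728 0) (P.cons (P.lf 1440956 0 0) (P.cons (P.lf 254494 0 0) P.nil)))) (P.cons (P.cons (P.lf 3816642 0 0) (P.cons (P.lf 4746960 0 0) (P.cons (P.lf 437148 0 0) P.nil))) (P.cons (P.cons (P.lf 1575832 0 0) (P.cons (P.lf 275152 0 0) P.nil)) (P.cons (P.cons (P.lf 0 183020 0) P.nil) P.nil)))))) 1078328)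
 EL.nil)))
noncomputable def S285_314_512_660_6 : EL := (EL.cons 12 (TM.mk (P.lf 8589934592 0 0) 0)
 (EL.cons 3 (TM.mk (P.cons (P.lf 1320724353 0 0) (P.cons (P.lf 409570215 0 0) (P.cons (P.lf 0 14623338 0) (P.cons (P.lf 0 1245645 0) (P.cons (P.lf 85526 0 0) (P.cons (P.lf 2831 0 0) P.nil)))))) 532)
 (EL.cons 7 (TM.mk (P.cons (P.lf 0 1997870342 0) (P.cons (P.lf 96267727 0 0) (P.cons (P.lf 13808992 0 0) (P.cons (P.lf 0 693290 0) (P.cons (P.lf 0 37347 0) (P.cons (P.lf 3551 0 0) P.nil)))))) 296)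
 EL.nil)))
noncomputable def S285_314_512_660_7 : EL := (EL.cons 12 (TM.mk (P.cons (P.cons (P.lf 0 3012990818 0) (P.cons (P.lf 0 1405557744 0) (P.cons (P.lf 93972312 0 0) (P.lf 31324104 0 0)))) (P.cons (P.cons (P.lf 85700892 0 0) (P.cons (P.lf 203181120 0 0) (P.cons (P.lf 0 13584208 0) (P.lf 0 4528064 0)))) (P.cons (P.cons (P.lf 188714126 0 0) (P.cons (P.lf 19354712 0 0) (P.cons (P.lf 0 1294008 0) (P.lf 0 431328 0)))) (P.cons (P.cons (P.lf 1327800 0 0) (P.cons (P.lf 0 4114704 0) (P.cons (P.lf 275096 0 0) P.nil))) (P.cons (P.cons (P.lf 0 2705190 0) (P.cons (P.lf 0 71584 0) P.nil)) (P.cons (P.cons (P.lf 56858 0 0) P.nil) P.nil)))))) 204098)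
 (EL.cons 3 (TM.mk (P.cons (P.cons (P.lf 0 189794735 0) (P.cons (P.lf 432216176 0 0) (P.cons (P.lf 0 28896962 0) (P.lf 0 9632320 0)))) (P.cons (P.cons (P.lf 1067014389 0 0) (P.cons (P.lf 71555452 0 0) (P.cons (P.lf 0 4784032 0) (P.lf 0 1594678 0)))) (P.cons (P.cons (P.lf 19741063 0 0) (P.cons (P.lf 0 30112712 0) (P.cons (P.lf 2013262 0 0) (P.lf 671084 0 0)))) (P.cons (P.cons (P.lf 0 30362418 0) (P.cons (P.lf 0 296244 0) (P.cons (P.lf 19804 0 0) P.nil))) (P.cons (P.cons (P.lf 1000038 0 0) (P.cons (P.lf 567206 0 0) P.nil)) (P.cons (P.cons (P.lf 384926 0 0) P.nil) P.nil)))))) 496114)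
 (EL.cons 7 (TM.mk (P.cons (P.cons (P.lf 765045277 0 0) (P.cons (P.lf 479294290 0 0) (P.cons (P.lf 0 32044506 0) (P.lf 0 10681502 0)))) (P.cons (P.cons (P.lf 250797168 0 0) (P.cons (P.lf 16818801 0 0) (P.cons (P.lf 0 1124463 0) (P.lf 0 374819 0)))) (P.cons (P.cons (P.lf 49569794 0 0) (P.cons (P.lf 0 4064818 0) (P.cons (P.lf 271764 0 0) (P.lf 90590 0 0)))) (P.cons (P.cons (P.lf 0 4932723 0) (P.cons (P.lf 0 1686806 0) (P.cons (P.lf 112774 0 0) P.nil))) (P.cons (P.cons (P.lf 0 1538313 0) (P.cons (P.lf 75876 0 0) P.nil)) (P.cons (P.cons (P.lf 110119 0 0) P.nil) P.nil)))))) 420763)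
 (EL.cons 10 (TM.mk (P.cons (P.cons (P.lf 0 2586006444 0) (P.cons (P.lf 400378737 0 0) (P.cons (P.lf 192889848 0 0) (P.cons (P.lf 0 7299519 0) (P.lf 0 1824879 0))))) (P.cons (P.cons (P.lf 249214329 0 0) (P.cons (P.lf 0 38584635 0) (P.cons (P.lf 0 18588861 0) (P.cons (P.lf 703455 0 0) (P.lf 175863 0 0))))) (P.cons (P.cons (P.lf 29743989 0 0) (P.cons (P.lf 0 4605114 0) (P.cons (P.lf 0 2218599 0) (P.cons (P.lf 83958 0 0) P.nil)))) (P.cons (P.cons (P.lf 0 3517293 0) (P.cons (P.lf 544563 0 0) (P.cons (P.lf 262353 0 0) P.nil))) (P.cons (P.cons (P.lf 0 133743 0) (P.cons (P.lf 20706 0 0) P.nil)) (P.cons (P.cons (P.lf 26253 0 0) P.nil) P.nil)))))) 52971)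
 EL.nil))))
noncomputable def S285_314_512_660_8 : EL := (EL.cons 12 (TM.mk (P.cons (P.cons (P.lf 1056831524 0 0) (P.cons (P.lf 986022076 0 0) (P.cons (P.lf 164066108 0 0) (P.cons (P.lf 0 52727466 0) (P.cons (P.lf 0 9222988 0) (P.cons (P.lf 685358 0 0) P.nil)))))) (P.cons (P.cons (P.lf 0 60120596 0) (P.cons (P.lf 0 170581136 0) (P.cons (P.lf 0 55087774 0) (P.cons (P.lf 12692600 0 0) (P.cons (P.lf 2666464 0 0) P.nil))))) (P.cons (P.cons (P.lf 0 131531060 0) (P.cons (P.lf 0 71281418 0) (P.cons (P.lf 3237666 0 0) (P.cons (P.lf 1792884 0 0) P.nil)))) (P.cons (P.cons (P.lf 2834088 0 0) (P.cons (P.lf 11765660 0 0) (P.cons (P.lf 1475552 0 0) P.nil))) (P.cons (P.cons (P.lf 6070130 0 0) (P.cons (P.lf 1766634 0 0) P.nil)) (P.cons (P.cons (P.lf 0 35524 0) P.nil) P.nil)))))) 2783168)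
 (EL.cons 3 (TM.mk (P.cons (P.cons (P.lf 0 29346384 0) (P.cons (P.lf 0 392698585 0) (P.cons (P.lf 0 150552254 0) (P.cons (P.lf 32393463 0 0) (P.cons (P.lf 7090291 0 0) (P.cons (P.lf 0 526875 0) P.nil)))))) (P.cons (P.cons (P.lf 0 793461717 0) (P.cons (P.lf 0 420525893 0) (P.cons (P.lf 24402558 0 0) (P.cons (P.lf 9868252 0 0) (P.cons (P.lf 148891 0 0) P.nil))))) (P.cons (P.cons (P.lf 23991948 0 0) (P.cons (P.lf 105476243 0 0) (P.cons (P.lf 11932331 0 0) (P.cons (P.lf 0 4889106 0) P.nil)))) (P.cons (P.cons (P.lf 74404498 0 0) (P.cons (P.lf 20187304 0 0) (P.cons (P.lf 0 3123684 0) P.nil))) (P.cons (P.cons (P.lf 0 1302166 0) (P.cons (P.lf 0 5659269 0) P.nil)) (P.cons (P.cons (P.lf 0 2550581 0) P.nil) P.nil)))))) 6660633)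
 (EL.cons 7 (TM.mk (P.cons (P.cons (P.lf 0 290891205 0) (P.cons (P.lf 0 357267553 0) (P.cons (P.lf 0 79474761 0) (P.cons (P.lf 21782959 0 0) (P.cons (P.lf 4144955 0 0) (P.cons (P.lf 0 308010 0) P.nil)))))) (P.cons (P.cons (P.lf 0 186499777 0) (P.cons (P.lf 0 98842807 0) (P.cons (P.lf 5735717 0 0) (P.cons (P.lf 2319482 0 0) (P.cons (P.lf 34991 0 0) P.nil))))) (P.cons (P.cons (P.lf 0 27771805 0) (P.cons (P.lf 7084284 0 0) (P.cons (P.lf 3832182 0 0) (P.cons (P.lf 0 733628 0) P.nil)))) (P.cons (P.cons (P.lf 18020820 0 0) (P.cons (P.lf 10235028 0 0) (P.cons (P.lf 0 39228 0) P.nil))) (P.cons (P.cons (P.lf 4345646 0 0) (P.cons (P.lf 62398 0 0) P.nil)) (P.cons (P.cons (P.lf 0 549354 0) P.nil) P.nil)))))) 3514234)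
 (EL.cons 10 (TM.mk (P.cons (P.cons (P.lf 1814126424 0 0) (P.cons (P.lf 565416162 0 0) (P.cons (P.lf 0 322923012 0) (P.cons (P.lf 0 68103948 0) (P.cons (P.lf 10809402 0 0) (P.cons (P.lf 1844274 0 0) P.nil)))))) (P.cons (P.cons (P.lf 0 226428624 0) (P.cons (P.lf 0 168835938 0) (P.cons (P.lf 62088786 0 0) (P.cons (P.lf 17002578 0 0) (P.cons (P.lf 0 2455614 0) P.nil))))) (P.cons (P.cons (P.lf 0 129518196 0) (P.cons (P.lf 10454766 0 0) (P.cons (P.lf 11788428 0 0) (P.cons (P.lf 464856 0 0) P.nil)))) (P.cons (P.cons (P.lf 13211556 0 0) (P.cons (P.lf 4113192 0 0) (P.cons (P.lf 0 2350710 0) P.nil))) (P.cons (P.cons (P.lf 3036384 0 0) (P.cons (P.lf 0 654348 0) P.nil)) (P.cons (P.cons (P.lf 0 357636 0) P.nil) P.nil)))))) 2788842)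
 EL.nil))))
noncomputable def S285_314_512_660_9 : EL := (EL.cons 3 (TM.mk (P.cons (P.lf 1320724353 0 0) (P.cons (P.lf 409570215 0 0) (P.cons (P.lf 0 14623338 0) (P.cons (P.lf 0 1245645 0) (P.cons (P.lf 85526 0 0) (P.cons (P.lf 2831 0 0) P.nil)))))) 532)
 (EL.cons 7 (TM.mk (P.cons (P.lf 0 1997870342 0) (P.cons (P.lf 96267727 0 0) (P.cons (P.lf 13808992 0 0) (P.cons (P.lf 0 693290 0) (P.cons (P.lf 0 37347 0) (P.cons (P.lf 3551 0 0) P.nil)))))) 296)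
 EL.nil))
noncomputable def S285_314_512_660_10 : EL := (EL.cons 3 (TM.mk (P.cons (P.cons (P.lf 0 463255022 0) (P.cons (P.lf 0 216108088 0) (P.cons (P.lf 14448481 0 0) (P.lf 4816160 0 0)))) (P.cons (P.cons (P.lf 0 130483419 0) (P.cons (P.lf 0 35777726 0) (P.cons (P.lf 2392016 0 0) (P.lf 797339 0 0)))) (P.cons (P.cons (P.lf 38230774 0 0) (P.cons (P.lf 15056356 0 0) (P.cons (P.lf 0 1006631 0) (P.lf 0 335542 0)))) (P.cons (P.cons (P.lf 9493113 0 0) (P.cons (P.lf 148122 0 0) (P.cons (P.lf 0 9902 0) P.nil))) (P.cons (P.cons (P.lf 0 716310 0) (P.cons (P.lf 0 283603 0) P.nil)) (P.cons (P.cons (P.lf 0 150007 0) P.nil) P.nil)))))) 122355)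
 (EL.cons 7 (TM.mk (P.cons (P.cons (P.lf 700769596 0 0) (P.cons (P.lf 326908441 0 0) (P.cons (P.lf 0 21856335 0) (P.lf 0 7285445 0)))) (P.cons (P.cons (P.lf 0 53699250 0) (P.cons (P.lf 0 63008556 0) (P.cons (P.lf 4212603 0 0) (P.lf 1404199 0 0)))) (P.cons (P.cons (P.lf 0 47774809 0) (P.cons (P.lf 0 4484056 0) (P.cons (P.lf 299793 0 0) (P.lf 99929 0 0)))) (P.cons (P.cons (P.lf 2187051 0 0) (P.cons (P.lf 1613989 0 0) (P.cons (P.lf 0 107906 0) P.nil))) (P.cons (P.cons (P.lf 953616 0 0) (P.cons (P.lf 0 8637 0) P.nil)) (P.cons (P.cons (P.lf 0 58256 0) P.nil) P.nil)))))) 91005)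
 EL.nil))
noncomputable def S285_314_512_660_11 : EL := (EL.cons 3 (TM.mk (P.cons (P.cons (P.lf 162490542 0 0) (P.cons (P.lf 151603409 0 0) (P.cons (P.lf 25225582 0 0) (P.cons (P.lf 0 8106981 0) (P.cons (P.lf 0 1418057 0) (P.cons (P.lf 105375 0 0) P.nil)))))) (P.cons (P.cons (P.lf 41146293 0 0) (P.cons (P.lf 20786491 0 0) (P.cons (P.lf 0 647172 0) (P.cons (P.lf 0 562538 0) (P.cons (P.lf 0 29777 0) P.nil))))) (P.cons (P.cons (P.lf 0 24888930 0) (P.cons (P.lf 0 20771635 0) (P.cons (P.lf 0 2408101 0) (P.cons (P.lf 970608 0 0) P.nil)))) (P.cons (P.cons (P.lf 0 5886590 0) (P.cons (P.lf 0 1442306 0) (P.cons (P.lf 451230 0 0) P.nil))) (P.cons (P.cons (P.lf 1311584 0 0) (P.cons (P.lf 988515 0 0) P.nil)) (P.cons (P.cons (P.lf 297961 0 0) P.nil) P.nil)))))) 1096487)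
 (EL.cons 7 (TM.mk (P.cons (P.cons (P.lf 0 245800749 0) (P.cons (P.lf 0 229331695 0) (P.cons (P.lf 0 38158941 0) (P.cons (P.lf 12263497 0 0) (P.cons (P.lf 2145107 0 0) (P.cons (P.lf 0 159402 0) P.nil)))))) (P.cons (P.cons (P.lf 25826963 0 0) (P.cons (P.lf 50724611 0 0) (P.cons (P.lf 14651159 0 0) (P.cons (P.lf 0 3542998 0) (P.cons (P.lf 0 723535 0) P.nil))))) (P.cons (P.cons (P.lf 31617017 0 0) (P.cons (P.lf 16252224 0 0) (P.cons (P.lf 0 1106646 0) (P.cons (P.lf 0 359510 0) P.nil)))) (P.cons (P.cons (P.lf 0 2315178 0) (P.cons (P.lf 0 3889146 0) (P.cons (P.lf 0 408702 0) P.nil))) (P.cons (P.cons (P.lf 0 1591234 0) (P.cons (P.lf 0 384140 0) P.nil)) (P.cons (P.cons (P.lf 92160 0 0) P.nil) P.nil)))))) 882972)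
 EL.nil))
noncomputable def S285_314_512_660_12 : EL := (EL.cons 4 (TM.mk (P.cons (P.lf 0 1320724353 0) (P.cons (P.lf 0 409570215 0) (P.cons (P.lf 14623338 0 0) (P.cons (P.lf 1245645 0 0) (P.cons (P.lf 0 85526 0) (P.cons (P.lf 0 2831 0) P.nil)))))) 532)
 (EL.cons 8 (TM.mk (P.cons (P.lf 1997870342 0 0) (P.cons (P.lf 0 96267727 0) (P.cons (P.lf 0 13808992 0) (P.cons (P.lf 693290 0 0) (P.cons (P.lf 37347 0 0) (P.cons (P.lf 0 3551 0) P.nil)))))) 296)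
 EL.nil))
noncomputable def S285_314_512_660_13 : EL := (EL.cons 4 (TM.mk (P.cons (P.cons (P.lf 463255022 0 0) (P.cons (P.lf 216108088 0 0) (P.cons (P.lf 0 14448481 0) (P.lf 0 4816160 0)))) (P.cons (P.cons (P.lf 130483419 0 0) (P.cons (P.lf 35777726 0 0) (P.cons (P.lf 0 2392016 0) (P.lf 0 797339 0)))) (P.cons (P.cons (P.lf 0 38230774 0) (P.cons (P.lf 0 15056356 0) (P.cons (P.lf 1006631 0 0) (P.lf 335542 0 0)))) (P.cons (P.cons (P.lf 0 9493113 0) (P.cons (P.lf 0 148122 0) (P.cons (P.lf 9902 0 0) P.nil))) (P.cons (P.cons (P.lf 716310 0 0) (P.cons (P.lf 283603 0 0) P.nil)) (P.cons (P.cons (P.lf 150007 0 0) P.nil) P.nil)))))) 122355)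
 (EL.cons 8 (TM.mk (P.cons (P.cons (P.lf 0 700769596 0) (P.cons (P.lf 0 326908441 0) (P.cons (P.lf 21856335 0 0) (P.lf 7285445 0 0)))) (P.cons (P.cons (P.lf 53699250 0 0) (P.cons (P.lf 63008556 0 0) (P.cons (P.lf 0 4212603 0) (P.lf 0 1404199 0)))) (P.cons (P.cons (P.lf 47774809 0 0) (P.cons (P.lf 4484056 0 0) (P.cons (P.lf 0 299793 0) (P.lf 0 99929 0)))) (P.cons (P.cons (P.lf 0 2187051 0) (P.cons (P.lf 0 1613989 0) (P.cons (P.lf 107906 0 0) P.nil))) (P.cons (P.cons (P.lf 0 953616 0) (P.cons (P.lf 8637 0 0) P.nil)) (P.cons (P.cons (P.lf 58256 0 0) P.nil) P.nil)))))) 91005)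
 EL.nil))
noncomputable def S285_314_512_660_14 : EL := (EL.cons 4 (TM.mk (P.cons (P.cons (P.lf 0 162490542 0) (P.cons (P.lf 0 151603409 0) (P.cons (P.lf 0 25225582 0) (P.cons (P.lf 8106981 0 0) (P.cons (P.lf 1418057 0 0) (P.cons (P.lf 0 105375 0) P.nil)))))) (P.cons (P.cons (P.lf 0 41146293 0) (P.cons (P.lf 0 20786491 0) (P.cons (P.lf 647172 0 0) (P.cons (P.lf 562538 0 0) (P.cons (P.lf 29777 0 0) P.nil))))) (P.cons (P.cons (P.lf 24888930 0 0) (P.cons (P.lf 20771635 0 0) (P.cons (P.lf 2408101 0 0) (P.cons (P.lf 0 970608 0) P.nil)))) (P.cons (P.cons (P.lf 5886590 0 0) (P.cons (P.lf 1442306 0 0) (P.cons (P.lf 0 451230 0) P.nil))) (P.cons (P.cons (P.lf 0 1311584 0) (P.cons (P.lf 0 988515 0) P.nil)) (P.cons (P.cons (P.lf 0 297961 0) P.nil) P.nil)))))) 1096487)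
 (EL.cons 8 (TM.mk (P.cons (P.cons (P.lf 245800749 0 0) (P.cons (P.lf 229331695 0 0) (P.cons (P.lf 38158941 0 0) (P.cons (P.lf 0 12263497 0) (P.cons (P.lf 0 2145107 0) (P.cons (P.lf 159402 0 0) P.nil)))))) (P.cons (P.cons (P.lf 0 25826963 0) (P.cons (P.lf 0 50724611 0) (P.cons (P.lf 0 14651159 0) (P.cons (P.lf 3542998 0 0) (P.cons (P.lf 723535 0 0) P.nil))))) (P.cons (P.cons (P.lf 0 31617017 0) (P.cons (P.lf 0 16252224 0) (P.cons (P.lf 1106646 0 0) (P.cons (P.lf 359510 0 0) P.nil)))) (P.cons (P.cons (P.lf 2315178 0 0) (P.cons (P.lf 3889146 0 0) (P.cons (P.lf 408702 0 0) P.nil))) (P.cons (P.cons (P.lf 1591234 0 0) (P.cons (P.lf 384140 0 0) P.nil)) (P.cons (P.cons (P.lf 0 92160 0) P.nil) P.nil)))))) 882972)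
 EL.nil))
noncomputable def S285_314_512_660_15 : EL := (EL.cons 4 (TM.mk (P.cons (P.lf 0 433204774 0) (P.cons (P.lf 0 268682518 0) (P.cons (P.lf 0 32067537 0) (P.cons (P.lf 3792065 0 0) (P.cons (P.lf 144194 0 0) (P.cons (P.lf 0 28304 0) P.nil)))))) 2128)
 (EL.cons 8 (TM.mk (P.cons (P.lf 655312343 0 0) (P.cons (P.lf 171642763 0 0) (P.cons (P.lf 0 21577328 0) (P.cons (P.lf 0 1445658 0) (P.cons (P.lf 205138 0 0) (P.cons (P.lf 3748 0 0) P.nil)))))) 1533)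
 EL.nil))
noncomputable def S285_314_512_660_16 : EL := (EL.cons 4 (TM.mk (P.cons (P.cons (P.lf 151950167 0 0) (P.cons (P.lf 70884628 0 0) (P.cons (P.lf 0 4739180 0) (P.lf 0 1579726 0)))) (P.cons (P.cons (P.lf 89920582 0 0) (P.cons (P.lf 33717341 0 0) (P.cons (P.lf 0 2254262 0) (P.lf 0 751421 0)))) (P.cons (P.cons (P.lf 0 949831 0) (P.cons (P.lf 0 2084182 0) (P.cons (P.lf 139342 0 0) (P.lf 46446 0 0)))) (P.cons (P.cons (P.lf 0 7619740 0) (P.cons (P.lf 0 1776875 0) (P.cons (P.lf 118797 0 0) P.nil))) (P.cons (P.cons (P.lf 0 622347 0) (P.cons (P.lf 126159 0 0) P.nil)) (P.cons (P.cons (P.lf 171465 0 0) P.nil) P.nil)))))) 146409)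
 (EL.cons 8 (TM.mk (P.cons (P.cons (P.lf 0 229856240 0) (P.cons (P.lf 0 107227747 0) (P.cons (P.lf 7168996 0 0) (P.lf 2389665 0 0)))) (P.cons (P.cons (P.lf 0 53667139 0) (P.cons (P.lf 0 12585278 0) (P.cons (P.lf 841422 0 0) (P.lf 280474 0 0)))) (P.cons (P.cons (P.lf 23677587 0 0) (P.cons (P.lf 9067139 0 0) (P.cons (P.lf 0 606206 0) (P.lf 0 202068 0)))) (P.cons (P.cons (P.lf 4163954 0 0) (P.cons (P.lf 0 200987 0) (P.cons (P.lf 13437 0 0) P.nil))) (P.cons (P.cons (P.lf 0 740256 0) (P.cons (P.lf 0 204059 0) P.nil)) (P.cons (P.cons (P.lf 0 84080 0) P.nil) P.nil)))))) 102227)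
 EL.nil))
noncomputable def S285_314_512_660_17 : EL := (EL.cons 4 (TM.mk (P.cons (P.cons (P.lf 0 53297781 0) (P.cons (P.lf 0 49726742 0) (P.cons (P.lf 0 8274127 0) (P.cons (P.lf 2659133 0 0) (P.cons (P.lf 465130 0 0) (P.cons (P.lf 0 34563 0) P.nil)))))) (P.cons (P.cons (P.lf 0 30024398 0) (P.cons (P.lf 0 22238857 0) (P.cons (P.lf 0 2353615 0) (P.cons (P.lf 1009140 0 0) (P.cons (P.lf 154008 0 0) P.nil))))) (P.cons (P.cons (P.lf 4568515 0 0) (P.cons (P.lf 5249436 0 0) (P.cons (P.lf 947311 0 0) (P.cons (P.lf 0 290586 0) P.nil)))) (P.cons (P.cons (P.lf 4662182 0 0) (P.cons (P.lf 2708321 0 0) (P.cons (P.lf 102393 0 0) P.nil))) (P.cons (P.cons (P.lf 87450 0 0) (P.cons (P.lf 0 249756 0) P.nil)) (P.cons (P.cons (P.lf 0 261210 0) P.nil) P.nil)))))) 815697)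
 (EL.cons 8 (TM.mk (P.cons (P.cons (P.lf 80623983 0 0) (P.cons (P.lf 75222043 0 0) (P.cons (P.lf 12516340 0 0) (P.cons (P.lf 0 4022493 0) (P.cons (P.lf 0 703606 0) (P.cons (P.lf 52284 0 0) P.nil)))))) (P.cons (P.cons (P.lf 16530942 0 0) (P.cons (P.lf 6689180 0 0) (P.cons (P.lf 0 924213 0) (P.cons (P.lf 0 85293 0) (P.cons (P.lf 19128 0 0) P.nil))))) (P.cons (P.cons (P.lf 0 13890302 0) (P.cons (P.lf 0 11323291 0) (P.cons (P.lf 0 1265881 0) (P.cons (P.lf 522845 0 0) P.nil)))) (P.cons (P.cons (P.lf 0 2438868 0) (P.cons (P.lf 0 264207 0) (P.cons (P.lf 288026 0 0) P.nil))) (P.cons (P.cons (P.lf 885464 0 0) (P.cons (P.lf 601182 0 0) P.nil)) (P.cons (P.cons (P.lf 132624 0 0) P.nil) P.nil)))))) 685669)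
 EL.nil))
noncomputable def S285_314_512_660_18 : EL := (EL.cons 4 (TM.mk (P.cons (P.lf 0 142093522 0) (P.cons (P.lf 0 132193991 0) (P.cons (P.lf 0 36274848 0) (P.cons (P.lf 0 908220 0) (P.cons (P.lf 623396 0 0) (P.cons (P.lf 0 4479 0) P.nil)))))) 6741)
 (EL.cons 8 (TM.mk (P.cons (P.lf 214946014 0 0) (P.cons (P.lf 122956731 0 0) (P.cons (P.lf 8001726 0 0) (P.cons (P.lf 0 3495072 0) (P.cons (P.lf 0 40579 0) (P.cons (P.lf 38127 0 0) P.nil)))))) 3726)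
 EL.nil))
noncomputable def S285_314_512_660_19 : EL := (EL.cons 4 (TM.mk (P.cons (P.cons (P.lf 49840481 0 0) (P.cons (P.lf 23250543 0 0) (P.cons (P.lf 0 1554476 0) (P.lf 0 518158 0)))) (P.cons (P.cons (P.lf 44950485 0 0) (P.cons (P.lf 18269703 0 0) (P.cons (P.lf 0 1221469 0) (P.lf 0 407156 0)))) (P.cons (P.cons (P.lf 8283135 0 0) (P.cons (P.lf 2488597 0 0) (P.cons (P.lf 0 166381 0) (P.lf 0 55460 0)))) (P.cons (P.cons (P.lf 0 2969506 0) (P.cons (P.lf 0 939205 0) (P.cons (P.lf 62792 0 0) P.nil))) (P.cons (P.cons (P.lf 0 1000336 0) (P.cons (P.lf 0 140714 0) P.nil)) (P.cons (P.cons (P.lf 22920 0 0) P.nil) P.nil)))))) 131616)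
 (EL.cons 8 (TM.mk (P.cons (P.cons (P.lf 0 75394097 0) (P.cons (P.lf 0 35171284 0) (P.cons (P.lf 2351469 0 0) (P.lf 783823 0 0)))) (P.cons (P.cons (P.lf 0 40983599 0) (P.cons (P.lf 0 15035016 0) (P.cons (P.lf 1005206 0 0) (P.lf 335068 0 0)))) (P.cons (P.cons (P.lf 3142249 0 0) (P.cons (P.lf 2083347 0 0) (P.cons (P.lf 0 139287 0) (P.lf 0 46428 0)))) (P.cons (P.cons (P.lf 4040246 0 0) (P.cons (P.lf 935243 0 0) (P.cons (P.lf 0 62527 0) P.nil))) (P.cons (P.cons (P.lf 106469 0 0) (P.cons (P.lf 0 118690 0) P.nil)) (P.cons (P.cons (P.lf 0 126624 0) P.nil) P.nil)))))) 104342)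
 EL.nil))
noncomputable def S285_314_512_660_20 : EL := (EL.cons 4 (TM.mk (P.cons (P.cons (P.lf 0 17481961 0) (P.cons (P.lf 0 16310641 0) (P.cons (P.lf 0 2713958 0) (P.cons (P.lf 872209 0 0) (P.cons (P.lf 152565 0 0) (P.cons (P.lf 0 11336 0) P.nil)))))) (P.cons (P.cons (P.lf 0 15269502 0) (P.cons (P.lf 0 12352563 0) (P.cons (P.lf 0 1613625 0) (P.cons (P.lf 601485 0 0) (P.cons (P.lf 97827 0 0) P.nil))))) (P.cons (P.cons (P.lf 0 1361955 0) (P.cons (P.lf 0 359650 0) (P.cons (P.lf 101368 0 0) (P.cons (P.lf 0 2323 0) P.nil)))) (P.cons (P.cons (P.lf 2119450 0 0) (P.cons (P.lf 1518454 0 0) (P.cons (P.lf 141051 0 0) P.nil))) (P.cons (P.cons (P.lf 494475 0 0) (P.cons (P.lf 180321 0 0) P.nil)) (P.cons (P.cons (P.lf 0 95803 0) P.nil) P.nil)))))) 526433)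
 (EL.cons 8 (TM.mk (P.cons (P.cons (P.lf 26445104 0 0) (P.cons (P.lf 24673239 0 0) (P.cons (P.lf 4105427 0 0) (P.cons (P.lf 0 1319399 0) (P.cons (P.lf 0 230786 0) (P.cons (P.lf 17149 0 0) P.nil)))))) (P.cons (P.cons (P.lf 13623137 0 0) (P.cons (P.lf 9845513 0 0) (P.cons (P.lf 969987 0 0) (P.cons (P.lf 0 437136 0) (P.cons (P.lf 0 65295 0) P.nil))))) (P.cons (P.cons (P.lf 0 3167408 0) (P.cons (P.lf 0 3306879 0) (P.cons (P.lf 0 554681 0) (P.cons (P.lf 177428 0 0) P.nil)))) (P.cons (P.cons (P.lf 0 2297831 0) (P.cons (P.lf 0 1286006 0) (P.cons (P.lf 0 34803 0) P.nil))) (P.cons (P.cons (P.lf 89405 0 0) (P.cons (P.lf 210968 0 0) P.nil)) (P.cons (P.cons (P.lf 147131 0 0) P.nil) P.nil)))))) 479261)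
 EL.nil))
noncomputable def S285_314_512_660_21 : EL := (EL.cons 4 (TM.mk (P.cons (P.cons (P.lf 0 273460287 0) (P.cons (P.lf 0 648324264 0) (P.cons (P.lf 43345443 0 0) (P.lf 14448480 0 0)))) (P.cons (P.cons (P.lf 0 1197497808 0) (P.cons (P.lf 0 107333178 0) (P.cons (P.lf 7176048 0 0) (P.lf 2392017 0 0)))) (P.cons (P.cons (P.lf 18489711 0 0) (P.cons (P.lf 45169068 0 0) (P.cons (P.lf 0 3019893 0) (P.lf 0 1006626 0)))) (P.cons (P.cons (P.lf 39855531 0 0) (P.cons (P.lf 444366 0 0) (P.cons (P.lf 0 29706 0) P.nil))) (P.cons (P.cons (P.lf 0 1716348 0) (P.cons (P.lf 0 850809 0) P.nil)) (P.cons (P.cons (P.lf 0 534933 0) P.nil) P.nil)))))) 373740)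
 (EL.cons 8 (TM.mk (P.cons (P.cons (P.lf 0 64275681 0) (P.cons (P.lf 0 152385849 0) (P.cons (P.lf 10188171 0 0) (P.lf 3396057 0 0)))) (P.cons (P.cons (P.lf 0 304496418 0) (P.cons (P.lf 0 79827357 0) (P.cons (P.lf 5337066 0 0) (P.lf 1779018 0 0)))) (P.cons (P.cons (P.lf 0 97344603 0) (P.cons (P.lf 0 419238 0) (P.cons (P.lf 28029 0 0) (P.lf 9339 0 0)))) (P.cons (P.cons (P.lf 7119774 0 0) (P.cons (P.lf 3300795 0 0) (P.cons (P.lf 0 220680 0) P.nil))) (P.cons (P.cons (P.lf 2491929 0 0) (P.cons (P.lf 0 84513 0) P.nil)) (P.cons (P.cons (P.lf 0 168375 0) P.nil) P.nil)))))) 329739)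
 (EL.cons 11 (TM.mk (P.cons (P.cons (P.lf 2586006444 0 0) (P.cons (P.lf 0 400378737 0) (P.cons (P.lf 0 192889848 0) (P.cons (P.lf 7299519 0 0) (P.lf 1824879 0 0))))) (P.cons (P.cons (P.lf 0 249214329 0) (P.cons (P.lf 38584635 0 0) (P.cons (P.lf 18588861 0 0) (P.cons (P.lf 0 703455 0) (P.lf 0 175863 0))))) (P.cons (P.cons (P.lf 0 29743989 0) (P.cons (P.lf 4605114 0 0) (P.cons (P.lf 2218599 0 0) (P.cons (P.lf 0 83958 0) P.nil)))) (P.cons (P.cons (P.lf 3517293 0 0) (P.cons (P.lf 0 544563 0) (P.cons (P.lf 0 262353 0) P.nil))) (P.cons (P.cons (P.lf 133743 0 0) (P.cons (P.lf 0 20706 0) P.nil)) (P.cons (P.cons (P.lf 0 26253 0) P.nil) P.nil)))))) 52971)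
 EL.nil)))
noncomputable def S285_314_512_660_22 : EL := (EL.cons 4 (TM.mk (P.cons (P.cons (P.lf 95918463 0 0) (P.cons (P.lf 272150997 0 0) (P.cons (P.lf 87888918 0 0) (P.cons (P.lf 0 20250222 0) (P.cons (P.lf 0 4254174 0) (P.cons (P.lf 316125 0 0) P.nil)))))) (P.cons (P.cons (P.lf 417304005 0 0) (P.cons (P.lf 220656192 0 0) (P.cons (P.lf 0 12524865 0) (P.cons (P.lf 0 5215395 0) (P.cons (P.lf 0 89334 0) P.nil))))) (P.cons (P.cons (P.lf 0 24440439 0) (P.cons (P.lf 0 63123939 0) (P.cons (P.lf 0 7170216 0) (P.cons (P.lf 2929857 0 0) P.nil)))) (P.cons (P.cons (P.lf 0 40145544 0) (P.cons (P.lf 0 10814805 0) (P.cons (P.lf 1787457 0 0) P.nil))) (P.cons (P.cons (P.lf 1306875 0 0) (P.cons (P.lf 3323892 0 0) P.nil)) (P.cons (P.cons (P.lf 1424271 0 0) P.nil) P.nil)))))) 2782062)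
 (EL.cons 8 (TM.mk (P.cons (P.cons (P.lf 22545228 0 0) (P.cons (P.lf 63967929 0 0) (P.cons (P.lf 20657910 0 0) (P.cons (P.lf 0 4759731 0) (P.cons (P.lf 0 999924 0) (P.cons (P.lf 74304 0 0) P.nil)))))) (P.cons (P.cons (P.lf 106163370 0 0) (P.cons (P.lf 74783709 0 0) (P.cons (P.lf 4457721 0 0) (P.cons (P.lf 0 2931240 0) (P.cons (P.lf 0 379263 0) P.nil))))) (P.cons (P.cons (P.lf 29694411 0 0) (P.cons (P.lf 4583970 0 0) (P.cons (P.lf 0 2469414 0) (P.cons (P.lf 187059 0 0) P.nil)))) (P.cons (P.cons (P.lf 0 10167999 0) (P.cons (P.lf 0 7062087 0) (P.cons (P.lf 0 184737 0) P.nil))) (P.cons (P.cons (P.lf 0 2968440 0) (P.cons (P.lf 0 223269 0) P.nil)) (P.cons (P.cons (P.lf 320757 0 0) P.nil) P.nil)))))) 1315620)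
 (EL.cons 11 (TM.mk (P.cons (P.cons (P.lf 0 907063212 0) (P.cons (P.lf 0 282708081 0) (P.cons (P.lf 161461506 0 0) (P.cons (P.lf 34051974 0 0) (P.cons (P.lf 0 5404701 0) (P.cons (P.lf 0 922137 0) P.nil)))))) (P.cons (P.cons (P.lf 113214312 0 0) (P.cons (P.lf 84417969 0 0) (P.cons (P.lf 0 31044393 0) (P.cons (P.lf 0 8501289 0) (P.cons (P.lf 1227807 0 0) P.nil))))) (P.cons (P.cons (P.lf 64759098 0 0) (P.cons (P.lf 0 5227383 0) (P.cons (P.lf 0 5894214 0) (P.cons (P.lf 0 232428 0) P.nil)))) (P.cons (P.cons (P.lf 0 6605778 0) (P.cons (P.lf 0 2056596 0) (P.cons (P.lf 1175355 0 0) P.nil))) (P.cons (P.cons (P.lf 0 1518192 0) (P.cons (P.lf 327174 0 0) P.nil)) (P.cons (P.cons (P.lf 178818 0 0) P.nil) P.nil)))))) 1394421)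
 EL.nil)))
noncomputable def S285_314_512_660_23 : EL := (EL.cons 4 (TM.mk (P.cons (P.cons (P.lf 0 89696460 0) (P.cons (P.lf 0 212653884 0) (P.cons (P.lf 14217540 0 0) (P.lf 4739178 0 0)))) (P.cons (P.cons (P.lf 0 420601593 0) (P.cons (P.lf 0 101152023 0) (P.cons (P.lf 6762786 0 0) (P.lf 2254263 0 0)))) (P.cons (P.cons (P.lf 0 114749052 0) (P.cons (P.lf 6252546 0 0) (P.cons (P.lf 0 418026 0) (P.lf 0 139341 0)))) (P.cons (P.cons (P.lf 19387167 0 0) (P.cons (P.lf 5330625 0 0) (P.cons (P.lf 0 356391 0) P.nil))) (P.cons (P.cons (P.lf 3788544 0 0) (P.cons (P.lf 0 378477 0) P.nil)) (P.cons (P.cons (P.lf 0 526137 0) P.nil) P.nil)))))) 488775)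
 (EL.cons 8 (TM.mk (P.cons (P.cons (P.lf 0 21082773 0) (P.cons (P.lf 0 49983387 0) (P.cons (P.lf 3341775 0 0) (P.lf 1113924 0 0)))) (P.cons (P.cons (P.lf 0 106414464 0) (P.cons (P.lf 0 41684169 0) (P.cons (P.lf 2786904 0 0) (P.lf 928965 0 0)))) (P.cons (P.cons (P.lf 0 62668851 0) (P.cons (P.lf 0 7703952 0) (P.cons (P.lf 515067 0 0) (P.lf 171687 0 0)))) (P.cons (P.cons (P.lf 0 6440622 0) (P.cons (P.lf 1377087 0 0) (P.cons (P.lf 0 92067 0) P.nil))) (P.cons (P.cons (P.lf 1987938 0 0) (P.cons (P.lf 331008 0 0) P.nil)) (P.cons (P.cons (P.lf 195990 0 0) P.nil) P.nil)))))) 234129)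
 (EL.cons 11 (TM.mk (P.cons (P.cons (P.lf 848224185 0 0) (P.cons (P.lf 0 131326404 0) (P.cons (P.lf 0 63268917 0) (P.cons (P.lf 2394279 0 0) (P.lf 598569 0 0))))) (P.cons (P.cons (P.lf 181299393 0 0) (P.cons (P.lf 0 28069698 0) (P.cons (P.lf 0 13523094 0) (P.cons (P.lf 511752 0 0) (P.lf 127938 0 0))))) (P.cons (P.cons (P.lf 0 44497455 0) (P.cons (P.lf 6889320 0 0) (P.cons (P.lf 3319056 0 0) (P.cons (P.lf 0 125601 0) P.nil)))) (P.cons (P.cons (P.lf 0 1766724 0) (P.cons (P.lf 273534 0 0) (P.cons (P.lf 131778 0 0) P.nil))) (P.cons (P.cons (P.lf 641685 0 0) (P.cons (P.lf 0 99348 0) P.nil)) (P.cons (P.cons (P.lf 0 2052 0) P.nil) P.nil)))))) 122598)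
 EL.nil)))
noncomputable def S285_314_512_660_24 : EL := (EL.cons 4 (TM.mk (P.cons (P.cons (P.lf 31461777 0 0) (P.cons (P.lf 89267007 0 0) (P.cons (P.lf 28828041 0 0) (P.cons (P.lf 0 6642183 0) (P.cons (P.lf 0 1395390 0) (P.cons (P.lf 103689 0 0) P.nil)))))) (P.cons (P.cons (P.lf 146634603 0 0) (P.cons (P.lf 100059048 0 0) (P.cons (P.lf 4831647 0 0) (P.cons (P.lf 0 3770487 0) (P.cons (P.lf 0 462027 0) P.nil))))) (P.cons (P.cons (P.lf 34082322 0 0) (P.cons (P.lf 751296 0 0) (P.cons (P.lf 0 3945063 0) (P.cons (P.lf 504051 0 0) P.nil)))) (P.cons (P.cons (P.lf 0 17199201 0) (P.cons (P.lf 0 10853706 0) (P.cons (P.lf 0 124743 0) P.nil))) (P.cons (P.cons (P.lf 0 3693153 0) (P.cons (P.lf 156963 0 0) P.nil)) (P.cons (P.cons (P.lf 762390 0 0) P.nil) P.nil)))))) 2109669)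
 (EL.cons 8 (TM.mk (P.cons (P.cons (P.lf 7394955 0 0) (P.cons (P.lf 20981829 0 0) (P.cons (P.lf 6775905 0 0) (P.cons (P.lf 0 1561215 0) (P.cons (P.lf 0 327981 0) (P.cons (P.lf 24372 0 0) P.nil)))))) (P.cons (P.cons (P.lf 37115415 0 0) (P.cons (P.lf 31036143 0 0) (P.cons (P.lf 3563433 0 0) (P.cons (P.lf 0 1445613 0) (P.cons (P.lf 0 226110 0) P.nil))))) (P.cons (P.cons (P.lf 20456760 0 0) (P.cons (P.lf 8878089 0 0) (P.cons (P.lf 0 431574 0) (P.cons (P.lf 0 219516 0) P.nil)))) (P.cons (P.cons (P.lf 0 707238 0) (P.cons (P.lf 0 2141514 0) (P.cons (P.lf 0 334356 0) P.nil))) (P.cons (P.cons (P.lf 0 2148138 0) (P.cons (P.lf 0 829998 0) P.nil)) (P.cons (P.cons (P.lf 0 166719 0) P.nil) P.nil)))))) 779673)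
 (EL.cons 11 (TM.mk (P.cons (P.cons (P.lf 0 297521667 0) (P.cons (P.lf 0 92729787 0) (P.cons (P.lf 52960251 0 0) (P.cons (P.lf 11169231 0 0) (P.cons (P.lf 0 1772772 0) (P.cons (P.lf 0 302466 0) P.nil)))))) (P.cons (P.cons (P.lf 0 55129620 0) (P.cons (P.lf 0 1066905 0) (P.cons (P.lf 6240786 0 0) (P.cons (P.lf 675222 0 0) (P.cons (P.lf 0 147024 0) P.nil))))) (P.cons (P.cons (P.lf 36051474 0 0) (P.cons (P.lf 7898928 0 0) (P.cons (P.lf 0 5677488 0) (P.cons (P.lf 0 1064637 0) P.nil)))) (P.cons (P.cons (P.lf 4289868 0 0) (P.cons (P.lf 0 1425417 0) (P.cons (P.lf 0 151224 0) P.nil))) (P.cons (P.cons (P.lf 0 1459380 0) (P.cons (P.lf 0 115011 0) P.nil)) (P.cons (P.cons (P.lf 0 90048 0) P.nil) P.nil)))))) 999594)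
 EL.nil)))
noncomputable def S285_314_512_660_25 : EL := (EL.cons 4 (TM.mk (P.cons (P.cons (P.lf 0 29420925 0) (P.cons (P.lf 0 69751629 0) (P.cons (P.lf 4663428 0 0) (P.lf 1554474 0 0)))) (P.cons (P.cons (P.lf 0 147083343 0) (P.cons (P.lf 0 54809112 0) (P.cons (P.lf 3664407 0 0) (P.lf 1221468 0 0)))) (P.cons (P.cons (P.lf 0 80095254 0) (P.cons (P.lf 0 7465791 0) (P.cons (P.lf 499146 0 0) (P.lf 166380 0 0)))) (P.cons (P.cons (P.lf 0 3757662 0) (P.cons (P.lf 2817615 0 0) (P.cons (P.lf 0 188376 0) P.nil))) (P.cons (P.cons (P.lf 3759636 0 0) (P.cons (P.lf 422142 0 0) P.nil)) (P.cons (P.cons (P.lf 168879 0 0) P.nil) P.nil)))))) 446106)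
 (EL.cons 8 (TM.mk (P.cons (P.cons (P.lf 0 6915264 0) (P.cons (P.lf 0 16394823 0) (P.cons (P.lf 1096119 0 0) (P.lf 365373 0 0)))) (P.cons (P.cons (P.lf 0 37049016 0) (P.cons (P.lf 0 18756837 0) (P.cons (P.lf 1254036 0 0) (P.lf 418011 0 0)))) (P.cons (P.cons (P.lf 0 31303407 0) (P.cons (P.lf 0 6585435 0) (P.cons (P.lf 440286 0 0) (P.lf 146760 0 0)))) (P.cons (P.cons (P.lf 0 8094108 0) (P.cons (P.lf 0 165087 0) (P.cons (P.lf 11037 0 0) P.nil))) (P.cons (P.cons (P.lf 256998 0 0) (P.cons (P.lf 288459 0 0) P.nil)) (P.cons (P.cons (P.lf 306996 0 0) P.nil) P.nil)))))) 192684)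
 (EL.cons 11 (TM.mk (P.cons (P.cons (P.lf 278222148 0 0) (P.cons (P.lf 0 43075773 0) (P.cons (P.lf 0 20752548 0) (P.cons (P.lf 785337 0 0) (P.lf 196332 0 0))))) (P.cons (P.cons (P.lf 145746738 0 0) (P.cons (P.lf 0 22565253 0) (P.cons (P.lf 0 10871226 0) (P.cons (P.lf 411399 0 0) (P.lf 102849 0 0))))) (P.cons (P.cons (P.lf 765444 0 0) (P.cons (P.lf 0 118509 0) (P.cons (P.lf 0 57093 0) (P.cons (P.lf 2160 0 0) P.nil)))) (P.cons (P.cons (P.lf 0 6026520 0) (P.cons (P.lf 933054 0 0) (P.cons (P.lf 449517 0 0) P.nil))) (P.cons (P.cons (P.lf 154302 0 0) (P.cons (P.lf 0 23889 0) P.nil)) (P.cons (P.cons (P.lf 89226 0 0) P.nil) P.nil)))))) 152496)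
 EL.nil)))
noncomputable def S285_314_512_660_26 : EL := (EL.cons 4 (TM.mk (P.cons (P.cons (P.lf 10319634 0 0) (P.cons (P.lf 29280063 0 0) (P.cons (P.lf 9455754 0 0) (P.cons (P.lf 0 2178672 0) (P.cons (P.lf 0 457695 0) (P.cons (P.lf 34011 0 0) P.nil)))))) (P.cons (P.cons (P.lf 51297171 0 0) (P.cons (P.lf 41899959 0 0) (P.cons (P.lf 4517133 0 0) (P.cons (P.lf 0 1912368 0) (P.cons (P.lf 0 293484 0) P.nil))))) (P.cons (P.cons (P.lf 25980282 0 0) (P.cons (P.lf 10100025 0 0) (P.cons (P.lf 0 907233 0) (P.cons (P.lf 0 194070 0) P.nil)))) (P.cons (P.cons (P.lf 0 2716923 0) (P.cons (P.lf 0 3874659 0) (P.cons (P.lf 0 468666 0) P.nil))) (P.cons (P.cons (P.lf 0 3129312 0) (P.cons (P.lf 0 1084314 0) P.nil)) (P.cons (P.cons (P.lf 0 70533 0) P.nil) P.nil)))))) 1187103)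
 (EL.cons 8 (TM.mk (P.cons (P.cons (P.lf 2425584 0 0) (P.cons (P.lf 6882153 0 0) (P.cons (P.lf 2222532 0 0) (P.cons (P.lf 0 512085 0) (P.cons (P.lf 0 107577 0) (P.cons (P.lf 7992 0 0) P.nil)))))) (P.cons (P.cons (P.lf 12926256 0 0) (P.cons (P.lf 12314250 0 0) (P.cons (P.lf 1858056 0 0) (P.cons (P.lf 0 632970 0) (P.cons (P.lf 0 107526 0) P.nil))))) (P.cons (P.cons (P.lf 10458372 0 0) (P.cons (P.lf 5992791 0 0) (P.cons (P.lf 196296 0 0) (P.cons (P.lf 0 213375 0) P.nil)))) (P.cons (P.cons (P.lf 1711758 0 0) (P.cons (P.lf 81423 0 0) (P.cons (P.lf 0 168606 0) P.nil))) (P.cons (P.cons (P.lf 0 862158 0) (P.cons (P.lf 0 531471 0) P.nil)) (P.cons (P.cons (P.lf 0 276153 0) P.nil) P.nil)))))) 487095)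
 (EL.cons 11 (TM.mk (P.cons (P.cons (P.lf 0 97588725 0) (P.cons (P.lf 0 30415872 0) (P.cons (P.lf 17371248 0 0) (P.cons (P.lf 3663567 0 0) (P.cons (P.lf 0 581478 0) (P.cons (P.lf 0 99210 0) P.nil)))))) (P.cons (P.cons (P.lf 0 48346083 0) (P.cons (P.lf 0 9782226 0) (P.cons (P.lf 7434015 0 0) (P.cons (P.lf 1357587 0 0) (P.cons (P.lf 0 228546 0) P.nil))))) (P.cons (P.cons (P.lf 7297935 0 0) (P.cons (P.lf 2819136 0 0) (P.cons (P.lf 0 1419783 0) (P.cons (P.lf 0 321087 0) P.nil)))) (P.cons (P.cons (P.lf 5366436 0 0) (P.cons (P.lf 368478 0 0) (P.cons (P.lf 0 666153 0) P.nil))) (P.cons (P.cons (P.lf 0 162522 0) (P.cons (P.lf 0 213039 0) P.nil)) (P.cons (P.cons (P.lf 0 206094 0) P.nil) P.nil)))))) 704835)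
 EL.nil)))
noncomputable def S285_314_512_660_27 : EL := (EL.cons 13 (TM.mk (P.lf 0 4294967296 0) 0)
 EL.nil)
noncomputable def S285_314_512_660_28 : EL := (EL.cons 13 (TM.mk (P.cons (P.cons (P.lf 1506495409 0 0) (P.cons (P.lf 702778872 0 0) (P.cons (P.lf 0 46986156 0) (P.lf 0 15662052 0)))) (P.cons (P.cons (P.lf 0 42850446 0) (P.cons (P.lf 0 101590560 0) (P.cons (P.lf 6792104 0 0) (P.lf 2264032 0 0)))) (P.cons (P.cons (P.lf 0 94357063 0) (P.cons (P.lf 0 9677356 0) (P.cons (P.lf 647004 0 0) (P.lf 215664 0 0)))) (P.cons (P.cons (P.lf 0 663900 0) (P.cons (P.lf 2057352 0 0) (P.cons (P.lf 0 137548 0) P.nil))) (P.cons (P.cons (P.lf 1352595 0 0) (P.cons (P.lf 35792 0 0) P.nil)) (P.cons (P.cons (P.lf 0 28429 0) P.nil) P.nil)))))) 102049)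
 EL.nil)
noncomputable def S285_314_512_660_29 : EL := (EL.cons 13 (TM.mk (P.cons (P.cons (P.lf 0 528415762 0) (P.cons (P.lf 0 493011038 0) (P.cons (P.lf 0 82033054 0) (P.cons (P.lf 26363733 0 0) (P.cons (P.lf 4611494 0 0) (P.cons (P.lf 0 342679 0) P.nil)))))) (P.cons (P.cons (P.lf 30060298 0 0) (P.cons (P.lf 85290568 0 0) (P.cons (P.lf 27543887 0 0) (P.cons (P.lf 0 6346300 0) (P.cons (P.lf 0 1333232 0) P.nil))))) (P.cons (P.cons (P.lf 65765530 0 0) (P.cons (P.lf 35640709 0 0) (P.cons (P.lf 0 1618833 0) (P.cons (P.lf 0 896442 0) P.nil)))) (P.cons (P.cons (P.lf 0 1417044 0) (P.cons (P.lf 0 5882830 0) (P.cons (P.lf 0 737776 0) P.nil))) (P.cons (P.cons (P.lf 0 3035065 0) (P.cons (P.lf 0 883317 0) P.nil)) (P.cons (P.cons (P.lf 17762 0 0) P.nil) P.nil)))))) 1391584)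
 EL.nil)
noncomputable def S285_314_512_660_30 : EL := (EL.cons 13 (TM.mk (P.cons (P.lf 0 1408772644 0) (P.cons (P.lf 0 436874896 0) (P.cons (P.lf 15598228 0 0) (P.cons (P.lf 1328688 0 0) (P.cons (P.lf 0 91228 0) (P.cons (P.lf 0 3020 0) P.nil)))))) 560)
 EL.nil)
noncomputable def S285_314_512_660_31 : EL := (EL.cons 13 (TM.mk (P.cons (P.cons (P.lf 494138691 0 0) (P.cons (P.lf 230515294 0 0) (P.cons (P.lf 0 15411714 0) (P.lf 0 5137238 0)))) (P.cons (P.cons (P.lf 139182314 0 0) (P.cons (P.lf 38162908 0 0) (P.cons (P.lf 0 2551484 0) (P.lf 0 850495 0)))) (P.cons (P.cons (P.lf 0 40779493 0) (P.cons (P.lf 0 16060114 0) (P.cons (P.lf 1073740 0 0) (P.lf 357912 0 0)))) (P.cons (P.cons (P.lf 0 10125988 0) (P.cons (P.lf 0 157997 0) (P.cons (P.lf 10563 0 0) P.nil))) (P.cons (P.cons (P.lf 764064 0 0) (P.cons (P.lf 302510 0 0) P.nil)) (P.cons (P.cons (P.lf 160008 0 0) P.nil) P.nil))))))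 130492)
 EL.nil)
noncomputable def S285_314_512_660_32 : EL := (EL.cons 13 (TM.mk (P.cons (P.cons (P.lf 0 173323245 0) (P.cons (P.lf 0 161710303 0) (P.cons (P.lf 0 26907288 0) (P.cons (P.lf 8647447 0 0) (P.cons (P.lf 1512595 0 0) (P.cons (P.lf 0 112400 0) P.nil)))))) (P.cons (P.cons (P.lf 0 43889380 0) (P.cons (P.lf 0 22172258 0) (P.cons (P.lf 690317 0 0) (P.cons (P.lf 600041 0 0) (P.cons (P.lf 31763 0 0) P.nil))))) (P.cons (P.cons (P.lf 26548192 0 0) (P.cons (P.lf 22156411 0 0) (P.cons (P.lf 2568642 0 0) (P.cons (P.lf 0 1035316 0) P.nil)))) (P.cons (P.cons (P.lf 6279030 0 0) (P.cons (P.lf 1538460 0 0) (P.cons (P.lf 0 481313 0) P.nil))) (P.cons (P.cons (P.lf 0 1399023 0) (P.cons (P.lf 0 1054416 0) P.nil)) (P.cons (P.cons (P.lf 0 317826 0) P.nil) P.nil)))))) 1169563)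
 EL.nil)
noncomputable def S285_314_512_660_33 : EL := (EL.cons 14 (TM.mk (P.lf 8589934592 0 0) 0)
 EL.nil)
noncomputable def S285_314_512_660_34 : EL := (EL.cons 14 (TM.mk (P.cons (P.cons (P.lf 0 3012990818 0) (P.cons (P.lf 0 1405557744 0) (P.cons (P.lf 93972312 0 0) (P.lf 31324104 0 0)))) (P.cons (P.cons (P.lf 85700892 0 0) (P.cons (P.lf 203181120 0 0) (P.cons (P.lf 0 13584208 0) (P.lf 0 4528064 0)))) (P.cons (P.cons (P.lf 188714126 0 0) (P.cons (P.lf 19354712 0 0) (P.cons (P.lf 0 1294008 0) (P.lf 0 431328 0)))) (P.cons (P.cons (P.lf 1327800 0 0) (P.cons (P.lf 0 4114704 0) (P.cons (P.lf 275096 0 0) P.nil))) (P.cons (P.cons (P.lf 0 2705190 0) (P.cons (P.lf 0 71584 0) P.nil)) (P.cons (P.cons (P.lf 56858 0 0) P.nil) P.nil)))))) 204098)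
 EL.nil)
noncomputable def S285_314_512_660_35 : EL := (EL.cons 14 (TM.mk (P.cons (P.cons (P.lf 1056831524 0 0) (P.cons (P.lf 986022076 0 0) (P.cons (P.lf 164066108 0 0) (P.cons (P.lf 0 52727466 0) (P.cons (P.lf 0 9222988 0) (P.cons (P.lf 685358 0 0) P.nil)))))) (P.cons (P.cons (P.lf 0 60120596 0) (P.cons (P.lf 0 170581136 0) (P.cons (P.lf 0 55087774 0) (P.cons (P.lf 12692600 0 0) (P.cons (P.lf 2666464 0 0) P.nil))))) (P.cons (P.cons (P.lf 0 131531060 0) (P.cons (P.lf 0 71281418 0) (P.cons (P.lf 3237666 0 0) (P.cons (P.lf 1792884 0 0) P.nil)))) (P.cons (P.cons (P.lf 2834088 0 0) (P.cons (P.lf 11765660 0 0) (P.cons (P.lf 1475552 0 0) P.nil))) (P.cons (P.cons (P.lf 6070130 0 0) (P.cons (P.lf 1766634 0 0) P.nil)) (P.cons (P.cons (P.lf 0 35524 0) P.nil) P.nil)))))) 2783168)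
 EL.nil)
noncomputable def S285_314_512_660_36 : EL := (EL.cons 14 (TM.mk (P.cons (P.lf 2817545288 0 0) (P.cons (P.lf 873749792 0 0) (P.cons (P.lf 0 31196456 0) (P.cons (P.lf 0 2657376 0) (P.cons (P.lf 182456 0 0) (P.cons (P.lf 6040 0 0) P.nil)))))) 1120)
 EL.nil)
noncomputable def S285_314_512_660_37 : EL := (EL.cons 14 (TM.mk (P.cons (P.cons (P.lf 0 988277382 0) (P.cons (P.lf 0 461030588 0) (P.cons (P.lf 30823428 0 0) (P.lf 10274476 0 0)))) (P.cons (P.cons (P.lf 0 278364628 0) (P.cons (P.lf 0 76325816 0) (P.cons (P.lf 5102968 0 0) (P.lf 1700990 0 0)))) (P.cons (P.cons (P.lf 81558986 0 0) (P.cons (P.lf 32120228 0 0) (P.cons (P.lf 0 2147480 0) (P.lf 0 715824 0)))) (P.cons (P.cons (P.lf 20251976 0 0) (P.cons (P.lf 315994 0 0) (P.cons (P.lf 0 21126 0) P.nil))) (P.cons (P.cons (P.lf 0 1528128 0) (P.cons (P.lf 0 605020 0) P.nil)) (P.cons (P.cons (P.lf 0 320016 0) P.nil) P.nil))))))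 260984)
 EL.nil)
noncomputable def S285_314_512_660_38 : EL := (EL.cons 14 (TM.mk (P.cons (P.cons (P.lf 346646490 0 0) (P.cons (P.lf 323420606 0 0) (P.cons (P.lf 53814576 0 0) (P.cons (P.lf 0 17294894 0) (P.cons (P.lf 0 3025190 0) (P.cons (P.lf 224800 0 0) P.nil)))))) (P.cons (P.cons (P.lf 87778760 0 0) (P.cons (P.lf 44344516 0 0) (P.cons (P.lf 0 1380634 0) (P.cons (P.lf 0 1200082 0) (P.cons (P.lf 0 63526 0) P.nil))))) (P.cons (P.cons (P.lf 0 53096384 0) (P.cons (P.lf 0 44312822 0) (P.cons (P.lf 0 5137284 0) (P.cons (P.lf 2070632 0 0) P.nil)))) (P.cons (P.cons (P.lf 0 12558060 0) (P.cons (P.lf 0 3076920 0) (P.cons (P.lf 962626 0 0) P.nil))) (P.cons (P.cons (P.lf 2798046 0 0) (P.cons (P.lf 2108832 0 0) P.nil)) (P.cons (P.cons (P.lf 635652 0 0) P.nil) P.nil)))))) 2339126)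
 EL.nil)
noncomputable def S285_314_512_660_39 : EL := (EL.cons 14 (TM.mk (P.cons (P.lf 924170186 0 0) (P.cons (P.lf 573189372 0 0) (P.cons (P.lf 68410746 0 0) (P.cons (P.lf 0 8089740 0) (P.cons (P.lf 0 307614 0) (P.cons (P.lf 60382 0 0) P.nil)))))) 4526)
 EL.nil)
noncomputable def S285_314_512_660_40 : EL := (EL.cons 14 (TM.mk (P.cons (P.cons (P.lf 0 324160358 0) (P.cons (P.lf 0 151220540 0) (P.cons (P.lf 10110252 0 0) (P.lf 3370084 0 0)))) (P.cons (P.cons (P.lf 0 191830576 0) (P.cons (P.lf 0 71930328 0) (P.cons (P.lf 4809094 0 0) (P.lf 1603032 0 0)))) (P.cons (P.cons (P.lf 2026308 0 0) (P.cons (P.lf 4446256 0 0) (P.cons (P.lf 0 297264 0) (P.lf 0 99086 0)))) (P.cons (P.cons (P.lf 16255446 0 0) (P.cons (P.lf 3790668 0 0) (P.cons (P.lf 0 253434 0) P.nil))) (P.cons (P.cons (P.lf 1327674 0 0) (P.cons (P.lf 0 269140 0) P.nil)) (P.cons (P.cons (P.lf 0 365792 0) P.nil) P.nil))))))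 312300)
 EL.nil)
noncomputable def S285_314_512_660_41 : EL := (EL.cons 14 (TM.mk (P.cons (P.cons (P.lf 113701934 0 0) (P.cons (P.lf 106083718 0 0) (P.cons (P.lf 17651472 0 0) (P.cons (P.lf 0 5672818 0) (P.cons (P.lf 0 992278 0) (P.cons (P.lf 73736 0 0) P.nil)))))) (P.cons (P.cons (P.lf 64052050 0 0) (P.cons (P.lf 47442896 0 0) (P.cons (P.lf 5021046 0 0) (P.cons (P.lf 0 2152832 0) (P.cons (P.lf 0 328552 0) P.nil))))) (P.cons (P.cons (P.lf 0 9746166 0) (P.cons (P.lf 0 11198798 0) (P.cons (P.lf 0 2020932 0) (P.cons (P.lf 619918 0 0) P.nil)))) (P.cons (P.cons (P.lf 0 9945990 0) (P.cons (P.lf 0 5777752 0) (P.cons (P.lf 0 218440 0) P.nil))) (P.cons (P.cons (P.lf 0 186562 0) (P.cons (P.lf 532814 0 0) P.nil)) (P.cons (P.cons (P.lf 557250 0 0) P.nil) P.nil)))))) 1740108)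
 EL.nil)
noncomputable def S285_314_512_660_42 : EL := (EL.cons 14 (TM.mk (P.cons (P.lf 303132848 0 0) (P.cons (P.lf 282013848 0 0) (P.cons (P.lf 77386344 0 0) (P.cons (P.lf 1937536 0 0) (P.cons (P.lf 0 1329912 0) (P.cons (P.lf 9556 0 0) P.nil)))))) 14366)
 EL.nil)
noncomputable def S285_314_512_660_43 : EL := (EL.cons 14 (TM.mk (P.cons (P.cons (P.lf 0 106326360 0) (P.cons (P.lf 0 49601160 0) (P.cons (P.lf 3316216 0 0) (P.lf 1105404 0 0)))) (P.cons (P.cons (P.lf 0 95894370 0) (P.cons (P.lf 0 38975368 0) (P.cons (P.lf 2605802 0 0) (P.lf 868600 0 0)))) (P.cons (P.cons (P.lf 0 17670688 0) (P.cons (P.lf 0 5309008 0) (P.cons (P.lf 354948 0 0) (P.lf 118316 0 0)))) (P.cons (P.cons (P.lf 6334948 0 0) (P.cons (P.lf 2003638 0 0) (P.cons (P.lf 0 133958 0) P.nil))) (P.cons (P.cons (P.lf 2134052 0 0) (P.cons (P.lf 300190 0 0) P.nil)) (P.cons (P.cons (P.lf 0 48898 0) P.nil) P.nil))))))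 280742)
 EL.nil)
noncomputable def S285_314_512_660_44 : EL := (EL.cons 14 (TM.mk (P.cons (P.cons (P.lf 37294852 0 0) (P.cons (P.lf 34796036 0 0) (P.cons (P.lf 5789778 0 0) (P.cons (P.lf 0 1860714 0) (P.cons (P.lf 0 325472 0) (P.cons (P.lf 24184 0 0) P.nil)))))) (P.cons (P.cons (P.lf 32574938 0 0) (P.cons (P.lf 26352136 0 0) (P.cons (P.lf 3442400 0 0) (P.cons (P.lf 0 1283168 0) (P.cons (P.lf 0 208698 0) P.nil))))) (P.cons (P.cons (P.lf 2905504 0 0) (P.cons (P.lf 767254 0 0) (P.cons (P.lf 0 216252 0) (P.cons (P.lf 4956 0 0) P.nil)))) (P.cons (P.cons (P.lf 0 4521494 0) (P.cons (P.lf 0 3239370 0) (P.cons (P.lf 0 300910 0) P.nil))) (P.cons (P.cons (P.lf 0 1054882 0) (P.cons (P.lf 0 384686 0) P.nil)) (P.cons (P.cons (P.lf 204380 0 0) P.nil) P.nil)))))) 1123012)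
 EL.nil)
noncomputable def S285_314_512_660_45 : EL := (EL.cons 14 (TM.mk (P.cons (P.cons (P.lf 0 370692424 0) (P.cons (P.lf 0 518783134 0) (P.cons (P.lf 0 207327274 0) (P.cons (P.lf 6289460 0 0) (P.cons (P.lf 17253240 0 0) (P.cons (P.lf 1290202 0 0) P.nil)))))) (P.cons (P.cons (P.lf 31631696 0 0) (P.cons (P.lf 104505282 0 0) (P.cons (P.lf 69865070 0 0) (P.cons (P.lf 3714794 0 0) (P.cons (P.lf 0 6355270 0) P.nil))))) (P.cons (P.cons (P.lf 68753552 0 0) (P.cons (P.lf 67444214 0 0) (P.cons (P.lf 10266642 0 0) (P.cons (P.lf 0 4283332 0) P.nil)))) (P.cons (P.cons (P.lf 0 3463792 0) (P.cons (P.lf 0 12649782 0) (P.cons (P.lf 0 5856136 0) P.nil))) (P.cons (P.cons (P.lf 0 5332622 0) (P.cons (P.lf 0 3607746 0) P.nil)) (P.cons (P.cons (P.lf 140880 0 0) P.nil) P.nil)))))) 9060172)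
 EL.nil)
noncomputable def S285_314_512_660_46 : EL := (EL.cons 15 (TM.mk (P.lf 4294967296 0 0) 0)
 EL.nil)
noncomputable def S285_314_512_660_47 : EL := (EL.cons 15 (TM.mk (P.cons (P.cons (P.lf 0 1506495409 0) (P.cons (P.lf 0 702778872 0) (P.cons (P.lf 46986156 0 0) (P.lf 15662052 0 0)))) (P.cons (P.cons (P.lf 42850446 0 0) (P.cons (P.lf 101590560 0 0) (P.cons (P.lf 0 6792104 0) (P.lf 0 2264032 0)))) (P.cons (P.cons (P.lf 94357063 0 0) (P.cons (P.lf 9677356 0 0) (P.cons (P.lf 0 647004 0) (P.lf 0 215664 0)))) (P.cons (P.cons (P.lf 663900 0 0) (P.cons (P.lf 0 2057352 0) (P.cons (P.lf 137548 0 0) P.nil))) (P.cons (P.cons (P.lf 0 1352595 0) (P.cons (P.lf 0 35792 0) P.nil)) (P.cons (P.cons (P.lf 28429 0 0) P.nil) P.nil)))))) 102049)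
 EL.nil)
noncomputable def S285_314_512_660_48 : EL := (EL.cons 15 (TM.mk (P.cons (P.cons (P.lf 528415762 0 0) (P.cons (P.lf 493011038 0 0) (P.cons (P.lf 82033054 0 0) (P.cons (P.lf 0 26363733 0) (P.cons (P.lf 0 4611494 0) (P.cons (P.lf 342679 0 0) P.nil)))))) (P.cons (P.cons (P.lf 0 30060298 0) (P.cons (P.lf 0 85290568 0) (P.cons (P.lf 0 27543887 0) (P.cons (P.lf 6346300 0 0) (P.cons (P.lf 1333232 0 0) P.nil))))) (P.cons (P.cons (P.lf 0 65765530 0) (P.cons (P.lf 0 35640709 0) (P.cons (P.lf 1618833 0 0) (P.cons (P.lf 896442 0 0) P.nil)))) (P.cons (P.cons (P.lf 1417044 0 0) (P.cons (P.lf 5882830 0 0) (P.cons (P.lf 737776 0 0) P.nil))) (P.cons (P.cons (P.lf 3035065 0 0) (P.cons (P.lf 883317 0 0) P.nil)) (P.cons (P.cons (P.lf 0 17762 0) P.nil) P.nil)))))) 1391584)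
 EL.nil)
noncomputable def S285_314_512_660 : SL := (SL.cons S285_314_512_660_0 (SL.cons S285_314_512_660_1 (SL.cons S285_314_512_660_2 (SL.cons S285_314_512_660_3 (SL.cons S285_314_512_660_4 (SL.cons S285_314_512_660_5 (SL.cons S285_314_512_660_6 (SL.cons S285_314_512_660_7 (SL.cons S285_314_512_660_8 (SL.cons S285_314_512_660_9 (SL.cons S285_314_512_660_10 (SL.cons S285_314_512_660_11 (SL.cons S285_314_512_660_12 (SL.cons S285_314_512_660_13 (SL.cons S285_314_512_660_14 (SL.cons S285_314_512_660_15 (SL.cons S285_314_512_660_16 (SL.cons S285_314_512_660_17 (SL.cons S285_314_512_660_18 (SL.cons S285_314_512_660_19 (SL.cons S285_314_512_660_20 (SL.cons S285_314_512_660_21 (SL.cons S285_314_512_660_22 (SL.cons S285_314_512_660_23 (SL.cons S285_314_512_660_24 (SL.cons S285_314_512_660_25 (SL.cons S285_314_512_660_26 (SL.cons S285_314_512_660_27 (SL.cons S285_314_512_660_28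 (SL.cons S285_314_512_660_29 (SL.cons S285_314_512_660_30 (SL.cons S285_314_512_660_31 (SL.cons S285_314_512_660_32 (SL.cons S285_314_512_660_33 (SL.cons S285_314_512_660_34 (SL.cons S285_314_512_660_35 (SL.cons S285_314_512_660_36 (SL.cons S285_314_512_660_37 (SL.cons S285_314_512_660_38 (SL.cons S285_314_512_660_39 (SL.cons S285_314_512_660_40 (SL.cons S285_314_512_660_41 (SL.cons S285_314_512_660_42 (SL.cons S285_314_512_660_43 (SL.cons S285_314_512_660_44 (SL.cons S285_314_512_660_45 (SL.cons S285_314_512_660_46 (SL.cons S285_314_512_660_47 (SL.cons S285_314_512_660_48 SL.nil)))))))))))))))))))))))))))))))))))))))))))))))))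
noncomputable def S285_314_586_660_0 : EL := (EL.cons 0 (TM.mk (P.cons (P.lf 7643457911 0 0) (P.cons (P.lf 0 503779721 0) (P.cons (P.lf 0 60126632 0) (P.cons (P.lf 7110123 0 0) (P.cons (P.lf 270363 0 0) (P.cons (P.lf 0 53070 0) P.nil)))))) 3984)
 (EL.cons 1 (TM.mk (P.cons (P.lf 1228710643 0 0) (P.cons (P.lf 321830180 0 0) (P.cons (P.lf 0 40457490 0) (P.cons (P.lf 0 2710608 0) (P.cons (P.lf 384633 0 0) (P.cons (P.lf 7027 0 0) P.nil)))))) 2881)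
 (EL.cons 5 (TM.mk (P.cons (P.lf 4583770480 0 0) (P.cons (P.lf 179121676 0 0) (P.cons (P.lf 21378358 0 0) (P.cons (P.lf 0 2528040 0) (P.cons (P.lf 0 96128 0) (P.cons (P.lf 18870 0 0) P.nil)))))) 1697)
 (EL.cons 9 (TM.mk (P.lf 6442450944 0 0) 2)
 EL.nil))))
noncomputable def S285_314_586_660_1 : EL := (EL.cons 0 (TM.mk (P.cons (P.cons (P.lf 0 2922192624 0) (P.cons (P.lf 0 390380509 0) (P.cons (P.lf 21360056 0 0) (P.lf 2373343 0 0)))) (P.cons (P.cons (P.lf 1259202773 0 0) (P.cons (P.lf 207518900 0 0) (P.cons (P.lf 0 11354595 0) (P.lf 0 1261616 0)))) (P.cons (P.cons (P.lf 400782761 0 0) (P.cons (P.lf 1567512 0 0) (P.cons (P.lf 0 85767 0) (P.lf 0 9532 0)))) (P.cons (P.cons (P.lf 0 57680540 0) (P.cons (P.lf 0 7962365 0) (P.cons (P.lf 435657 0 0) P.nil))) (P.cons (P.cons (P.lf 0 10512553 0) (P.cons (P.lf 401273 0 0) P.nil)) (P.cons (P.cons (P.lf 1499298 0 0) P.nil) P.nil))))))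 587689)
 (EL.cons 1 (TM.mk (P.cons (P.cons (P.lf 0 757417352 0) (P.cons (P.lf 0 208840461 0) (P.cons (P.lf 11426906 0 0) (P.lf 1269653 0 0)))) (P.cons (P.cons (P.lf 0 561336509 0) (P.cons (P.lf 0 9125139 0) (P.cons (P.lf 499289 0 0) (P.lf 55474 0 0)))) (P.cons (P.cons (P.lf 163361020 0 0) (P.cons (P.lf 22784528 0 0) (P.cons (P.lf 0 1246672 0) (P.lf 0 138513 0)))) (P.cons (P.cons (P.lf 34703449 0 0) (P.cons (P.lf 0 1023256 0) (P.cons (P.lf 55978 0 0) P.nil))) (P.cons (P.cons (P.lf 0 5807228 0) (P.cons (P.lf 0 580476 0) P.nil)) (P.cons (P.cons (P.lf 0 640422 0) P.nil) P.nil)))))) 307636)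
 (EL.cons 5 (TM.mk (P.cons (P.cons (P.lf 0 2096105121 0) (P.cons (P.lf 0 408637286 0) (P.cons (P.lf 22358992 0 0) (P.lf 2484334 0 0)))) (P.cons (P.cons (P.lf 0 291886557 0) (P.cons (P.lf 5350868 0 0) (P.cons (P.lf 0 292784 0) (P.lf 0 32540 0)))) (P.cons (P.cons (P.lf 25811424 0 0) (P.cons (P.lf 6980976 0 0) (P.cons (P.lf 0 381968 0) (P.lf 0 42438 0)))) (P.cons (P.cons (P.lf 19956712 0 0) (P.cons (P.lf 1228450 0 0) (P.cons (P.lf 0 67210 0) P.nil))) (P.cons (P.cons (P.lf 1409133 0 0) (P.cons (P.lf 0 170546 0) P.nil)) (P.cons (P.cons (P.lf 0 467742 0) P.nil) P.nil)))))) 289750)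
 (EL.cons 9 (TM.mk (P.cons (P.cons (P.lf 0 2766270823 0) (P.cons (P.lf 0 483034626 0) (P.cons (P.lf 26429712 0 0) (P.lf 2936634 0 0)))) (P.cons (P.cons (P.lf 137497041 0 0) (P.cons (P.lf 69825318 0 0) (P.cons (P.lf 0 3820560 0) (P.lf 0 424506 0)))) (P.cons (P.cons (P.lf 148510546 0 0) (P.cons (P.lf 6651444 0 0) (P.cons (P.lf 0 363936 0) (P.lf 0 40434 0)))) (P.cons (P.cons (P.lf 0 486990 0) (P.cons (P.lf 0 1414056 0) (P.cons (P.lf 77364 0 0) P.nil))) (P.cons (P.cons (P.lf 0 2054692 0) (P.cons (P.lf 0 24594 0) P.nil)) (P.cons (P.cons (P.lf 57649 0 0) P.nil) P.nil)))))) 57626)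
 (EL.cons 2 (TM.mk (P.cons (P.cons (P.lf 0 719137918 0) (P.cons (P.lf 90234525 0 0) (P.cons (P.lf 13776477 0 0) (P.cons (P.lf 0 420868 0) (P.lf 0 35071 0))))) (P.cons (P.cons (P.lf 0 153708499 0) (P.cons (P.lf 19286721 0 0) (P.cons (P.lf 2944583 0 0) (P.cons (P.lf 0 89955 0) (P.lf 0 7495 0))))) (P.cons (P.cons (P.lf 37725645 0 0) (P.cons (P.lf 0 4733659 0) (P.cons (P.lf 0 722705 0) (P.cons (P.lf 22078 0 0) P.nil)))) (P.cons (P.cons (P.lf 1497855 0 0) (P.cons (P.lf 0 187945 0) (P.cons (P.lf 0 28693 0) P.nil))) (P.cons (P.cons (P.lf 0 544030 0) (P.cons (P.lf 68262 0 0) P.nil)) (P.cons (P.cons (P.lf 1740 0 0) P.nil) P.nil)))))) 28708)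
 (EL.cons 6 (TM.mk (P.cons (P.cons (P.lf 1087845708 0 0) (P.cons (P.lf 0 136498494 0) (P.cons (P.lf 0 20839788 0) (P.cons (P.lf 636651 0 0) (P.lf 53052 0 0))))) (P.cons (P.cons (P.lf 0 157254096 0) (P.cons (P.lf 19731609 0 0) (P.cons (P.lf 3012504 0 0) (P.cons (P.lf 0 92031 0) (P.lf 0 7668 0))))) (P.cons (P.cons (P.lf 0 14979780 0) (P.cons (P.lf 1879602 0 0) (P.cons (P.lf 286965 0 0) (P.cons (P.lf 0 8766 0) P.nil)))) (P.cons (P.cons (P.lf 3184623 0 0) (P.cons (P.lf 0 399591 0) (P.cons (P.lf 0 61005 0) P.nil))) (P.cons (P.cons (P.lf 55404 0 0) (P.cons (P.lf 0 6951 0) P.nil)) (P.cons (P.cons (P.lf 0 32214 0) P.nil) P.nil)))))) 17097)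
 EL.nil))))))
noncomputable def S285_314_586_660_2 : EL := (EL.cons 0 (TM.mk (P.cons (P.cons (P.lf 1100258077 0 0) (P.cons (P.lf 281295888 0 0) (P.cons (P.lf 179714 0 0) (P.cons (P.lf 0 3414138 0) (P.cons (P.lf 0 142723 0) (P.cons (P.lf 10361 0 0) P.nil)))))) (P.cons (P.cons (P.lf 0 973119538 0) (P.cons (P.lf 0 318997543 0) (P.cons (P.lf 0 6871594 0) (P.cons (P.lf 4601378 0 0) (P.cons (P.lf 222947 0 0) P.nil))))) (P.cons (P.cons (P.lf 0 275471609 0) (P.cons (P.lf 0 22091632 0) (P.cons (P.lf 4470634 0 0) (P.cons (P.lf 0 222644 0) P.nil)))) (P.cons (P.cons (P.lf 104963630 0 0) (P.cons (P.lf 28902608 0 0) (P.cons (P.lf 0 332717 0) P.nil))) (P.cons (P.cons (P.lf 20032457 0 0) (P.cons (P.lf 0 228872 0) P.nil)) (P.cons (P.cons (P.lf 0 4502828 0) P.nil) P.nil)))))) 3739549)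
 (EL.cons 1 (TM.mk (P.cons (P.cons (P.lf 423906599 0 0) (P.cons (P.lf 213808626 0 0) (P.cons (P.lf 12710414 0 0) (P.cons (P.lf 0 3971002 0) (P.cons (P.lf 0 223714 0) (P.cons (P.lf 16238 0 0) P.nil)))))) (P.cons (P.cons (P.lf 412909601 0 0) (P.cons (P.lf 61325073 0 0) (P.cons (P.lf 0 6326283 0) (P.cons (P.lf 0 47722 0) (P.cons (P.lf 27219 0 0) P.nil))))) (P.cons (P.cons (P.lf 0 162047109 0) (P.cons (P.lf 0 56414156 0) (P.cons (P.lf 0 162525 0) (P.cons (P.lf 698529 0 0) P.nil)))) (P.cons (P.cons (P.lf 0 43900374 0) (P.cons (P.lf 0 1023464 0) (P.cons (P.lf 669731 0 0) P.nil))) (P.cons (P.cons (P.lf 12341764 0 0) (P.cons (P.lf 3289715 0 0) P.nil)) (P.cons (P.cons (P.lf 1989943 0 0) P.nil) P.nil)))))) 1892014)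
 (EL.cons 5 (TM.mk (P.cons (P.cons (P.lf 954954820 0 0) (P.cons (P.lf 370104509 0 0) (P.cons (P.lf 15258231 0 0) (P.cons (P.lf 0 6135864 0) (P.cons (P.lf 0 325438 0) (P.cons (P.lf 23624 0 0) P.nil)))))) (P.cons (P.cons (P.lf 212176948 0 0) (P.cons (P.lf 22095504 0 0) (P.cons (P.lf 0 4426411 0) (P.cons (P.lf 217774 0 0) (P.cons (P.lf 29494 0 0) P.nil))))) (P.cons (P.cons (P.lf 0 43268934 0) (P.cons (P.lf 0 20479957 0) (P.cons (P.lf 0 311903 0) (P.cons (P.lf 281263 0 0) P.nil)))) (P.cons (P.cons (P.lf 0 29662073 0) (P.cons (P.lf 0 4847245 0) (P.cons (P.lf 224951 0 0) P.nil))) (P.cons (P.cons (P.lf 0 1266530 0) (P.cons (P.lf 721678 0 0) P.nil)) (P.cons (P.cons (P.lf 1420045 0 0) P.nil) P.nil)))))) 1798025)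
 (EL.cons 9 (TM.mk (P.cons (P.cons (P.lf 1187786190 0 0) (P.cons (P.lf 414812499 0 0) (P.cons (P.lf 13519539 0 0) (P.cons (P.lf 0 6485106 0) (P.cons (P.lf 0 331932 0) (P.cons (P.lf 24094 0 0) P.nil)))))) (P.cons (P.cons (P.lf 0 118077438 0) (P.cons (P.lf 0 80581620 0) (P.cons (P.lf 0 6061461 0) (P.cons (P.lf 1635712 0 0) (P.cons (P.lf 95964 0 0) P.nil))))) (P.cons (P.cons (P.lf 0 124600924 0) (P.cons (P.lf 0 25001247 0) (P.cons (P.lf 1127343 0 0) (P.cons (P.lf 178323 0 0) P.nil)))) (P.cons (P.cons (P.lf 6757336 0 0) (P.cons (P.lf 4790488 0 0) (P.cons (P.lf 94113 0 0) P.nil))) (P.cons (P.cons (P.lf 5167153 0 0) (P.cons (P.lf 564970 0 0) P.nil)) (P.cons (P.cons (P.lf 0 159663 0) P.nil) P.nil)))))) 494831)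
 (EL.cons 2 (TM.mk (P.cons (P.cons (P.lf 617569385 0 0) (P.cons (P.lf 30347257 0 0) (P.cons (P.lf 0 31262158 0) (P.cons (P.lf 0 1619645 0) (P.cons (P.lf 288523 0 0) (P.cons (P.lf 14360 0 0) P.nil)))))) (P.cons (P.cons (P.lf 101303060 0 0) (P.cons (P.lf 0 5250431 0) (P.cons (P.lf 0 3285005 0) (P.cons (P.lf 0 77771 0) (P.cons (P.lf 22815 0 0) P.nil))))) (P.cons (P.cons (P.lf 0 72113355 0) (P.cons (P.lf 0 1425420 0) (P.cons (P.lf 3268783 0 0) (P.cons (P.lf 150210 0 0) P.nil)))) (P.cons (P.cons (P.lf 0 6653812 0) (P.cons (P.lf 1426348 0 0) (P.cons (P.lf 20891 0 0) P.nil))) (P.cons (P.cons (P.lf 2752368 0 0) (P.cons (P.lf 0 80443 0) P.nil)) (P.cons (P.cons (P.lf 123806 0 0) P.nil) P.nil)))))) 410393)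
 (EL.cons 6 (TM.mk (P.cons (P.cons (P.lf 0 934202172 0) (P.cons (P.lf 0 45906540 0) (P.cons (P.lf 47290524 0 0) (P.cons (P.lf 2450052 0 0) (P.cons (P.lf 0 436452 0) (P.cons (P.lf 0 21726 0) P.nil)))))) (P.cons (P.cons (P.lf 181478442 0 0) (P.cons (P.lf 24390474 0 0) (P.cons (P.lf 0 11974716 0) (P.cons (P.lf 0 760188 0) (P.cons (P.lf 121860 0 0) P.nil))))) (P.cons (P.cons (P.lf 56305500 0 0) (P.cons (P.lf 0 5981178 0) (P.cons (P.lf 0 1273926 0) (P.cons (P.lf 13044 0 0) P.nil)))) (P.cons (P.cons (P.lf 0 10788708 0) (P.cons (P.lf 0 250788 0) (P.cons (P.lf 495792 0 0) P.nil))) (P.cons (P.cons (P.lf 0 1272384 0) (P.cons (P.lf 250164 0 0) P.nil)) (P.cons (P.cons (P.lf 298890 0 0) P.nil) P.nil)))))) 306666)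
 EL.nil))))))
noncomputable def S285_314_586_660_3 : EL := (EL.cons 0 (TM.mk (P.cons (P.lf 812258952 0 0) (P.cons (P.lf 503779721 0 0) (P.cons (P.lf 60126632 0 0) (P.cons (P.lf 0 7110123 0) (P.cons (P.lf 0 270363 0) (P.cons (P.lf 53070 0 0) P.nil)))))) 3984)
 (EL.cons 1 (TM.mk (P.cons (P.lf 0 1228710643 0) (P.cons (P.lf 0 321830180 0) (P.cons (P.lf 40457490 0 0) (P.cons (P.lf 2710608 0 0) (P.cons (P.lf 0 384633 0) (P.cons (P.lf 0 7027 0) P.nil)))))) 2881)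
 (EL.cons 5 (TM.mk (P.cons (P.lf 1858680464 0 0) (P.cons (P.lf 0 179121676 0) (P.cons (P.lf 0 21378358 0) (P.cons (P.lf 2528040 0 0) (P.cons (P.lf 96128 0 0) (P.cons (P.lf 0 18870 0) P.nil)))))) 1690)
 EL.nil)))
noncomputable def S285_314_586_660_4 : EL := (EL.cons 0 (TM.mk (P.cons (P.cons (P.lf 0 348769165 0) (P.cons (P.lf 0 60900609 0) (P.cons (P.lf 3332235 0 0) (P.lf 370248 0 0)))) (P.cons (P.cons (P.lf 0 198978300 0) (P.cons (P.lf 0 28968292 0) (P.cons (P.lf 1585028 0 0) (P.lf 176113 0 0)))) (P.cons (P.cons (P.lf 3658652 0 0) (P.cons (P.lf 1790627 0 0) (P.cons (P.lf 0 97975 0) (P.lf 0 10884 0)))) (P.cons (P.cons (P.lf 15887865 0 0) (P.cons (P.lf 1526603 0 0) (P.cons (P.lf 0 83529 0) P.nil))) (P.cons (P.cons (P.lf 1053237 0 0) (P.cons (P.lf 0 108388 0) P.nil)) (P.cons (P.cons (P.lf 0 350405 0) P.nil) P.nil)))))) 110494)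
 (EL.cons 1 (TM.mk (P.cons (P.cons (P.lf 527585919 0 0) (P.cons (P.lf 92124841 0 0) (P.cons (P.lf 0 5040699 0) (P.lf 0 560075 0)))) (P.cons (P.cons (P.lf 111964430 0 0) (P.cons (P.lf 10812656 0 0) (P.cons (P.lf 0 591624 0) (P.lf 0 65733 0)))) (P.cons (P.cons (P.lf 0 52564398 0) (P.cons (P.lf 0 7790041 0) (P.cons (P.lf 426238 0 0) (P.lf 47358 0 0)))) (P.cons (P.cons (P.lf 0 7626335 0) (P.cons (P.lf 172678 0 0) (P.cons (P.lf 0 9446 0) P.nil))) (P.cons (P.cons (P.lf 1571825 0 0) (P.cons (P.lf 175314 0 0) P.nil)) (P.cons (P.cons (P.lf 145880 0 0) P.nil) P.nil)))))) 79417)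
 (EL.cons 5 (TM.mk (P.cons (P.cons (P.lf 0 798083458 0) (P.cons (P.lf 0 139357990 0) (P.cons (P.lf 7625108 0 0) (P.lf 847232 0 0)))) (P.cons (P.cons (P.lf 116580186 0 0) (P.cons (P.lf 33574942 0 0) (P.cons (P.lf 0 1837084 0) (P.lf 0 204118 0)))) (P.cons (P.cons (P.lf 48202660 0 0) (P.cons (P.lf 1580478 0 0) (P.cons (P.lf 0 86476 0) (P.lf 0 9606 0)))) (P.cons (P.cons (P.lf 0 5811346 0) (P.cons (P.lf 0 1014142 0) (P.cons (P.lf 55486 0 0) P.nil))) (P.cons (P.cons (P.lf 0 1059380 0) (P.cons (P.lf 30338 0 0) P.nil)) (P.cons (P.cons (P.lf 143804 0 0) P.nil) P.nil)))))) 59570)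
 EL.nil)))
noncomputable def S285_314_586_660_5 : EL := (EL.cons 0 (TM.mk (P.cons (P.cons (P.lf 149755111 0 0) (P.cons (P.lf 52299219 0 0) (P.cons (P.lf 1704531 0 0) (P.cons (P.lf 0 817635 0) (P.cons (P.lf 0 41848 0) (P.cons (P.lf 3037 0 0) P.nil)))))) (P.cons (P.cons (P.lf 77994094 0 0) (P.cons (P.lf 22277387 0 0) (P.cons (P.lf 292960 0 0) (P.cons (P.lf 0 300884 0) (P.cons (P.lf 0 13856 0) P.nil))))) (P.cons (P.cons (P.lf 0 13857403 0) (P.cons (P.lf 0 5581974 0) (P.cons (P.lf 0 205676 0) (P.cons (P.lf 89864 0 0) P.nil)))) (P.cons (P.cons (P.lf 0 11304332 0) (P.cons (P.lf 0 2560899 0) (P.cons (P.lf 28527 0 0) P.nil))) (P.cons (P.cons (P.lf 97454 0 0) (P.cons (P.lf 284022 0 0) P.nil)) (P.cons (P.cons (P.lf 599243 0 0) P.nil) P.nil)))))) 410001)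
 (EL.cons 1 (TM.mk (P.cons (P.cons (P.lf 0 226535760 0) (P.cons (P.lf 0 79113450 0) (P.cons (P.lf 0 2578458 0) (P.cons (P.lf 1236845 0 0) (P.cons (P.lf 63305 0 0) (P.cons (P.lf 0 4593 0) P.nil)))))) (P.cons (P.cons (P.lf 0 36815559 0) (P.cons (P.lf 0 5353192 0) (P.cons (P.lf 480682 0 0) (P.cons (P.lf 11994 0 0) (P.cons (P.lf 0 1719 0) P.nil))))) (P.cons (P.cons (P.lf 37121619 0 0) (P.cons (P.lf 11398636 0 0) (P.cons (P.lf 172689 0 0) (P.cons (P.lf 0 156446 0) P.nil)))) (P.cons (P.cons (P.lf 4693869 0 0) (P.cons (P.lf 3770 0 0) (P.cons (P.lf 0 106640 0) P.nil))) (P.cons (P.cons (P.lf 0 2226110 0) (P.cons (P.lf 0 562730 0) P.nil)) (P.cons (P.cons (P.lf 0 231907 0) P.nil) P.nil)))))) 329050)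
 (EL.cons 5 (TM.mk (P.cons (P.cons (P.lf 342682466 0 0) (P.cons (P.lf 119675554 0 0) (P.cons (P.lf 3900456 0 0) (P.cons (P.lf 0 1870986 0) (P.cons (P.lf 0 95762 0) (P.cons (P.lf 6950 0 0) P.nil)))))) (P.cons (P.cons (P.lf 0 67090378 0) (P.cons (P.lf 0 34781388 0) (P.cons (P.lf 0 2124650 0) (P.cons (P.lf 652218 0 0) (P.cons (P.lf 36914 0 0) P.nil))))) (P.cons (P.cons (P.lf 0 36606562 0) (P.cons (P.lf 0 6349046 0) (P.cons (P.lf 448910 0 0) (P.cons (P.lf 27488 0 0) P.nil)))) (P.cons (P.cons (P.lf 6271762 0 0) (P.cons (P.lf 2507370 0 0) (P.cons (P.lf 21226 0 0) P.nil))) (P.cons (P.cons (P.lf 1687732 0 0) (P.cons (P.lf 87336 0 0) P.nil)) (P.cons (P.cons (P.lf 0 266284 0) P.nil) P.nil)))))) 276114)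
 EL.nil)))
noncomputable def S285_314_586_660_6 : EL := (EL.cons 12 (TM.mk (P.lf 8589934592 0 0) 0)
 (EL.cons 3 (TM.mk (P.cons (P.lf 1320724353 0 0) (P.cons (P.lf 409570215 0 0) (P.cons (P.lf 0 14623338 0) (P.cons (P.lf 0 1245645 0) (P.cons (P.lf 85526 0 0) (P.cons (P.lf 2831 0 0) P.nil)))))) 532)
 (EL.cons 7 (TM.mk (P.cons (P.lf 0 1997870342 0) (P.cons (P.lf 96267727 0 0) (P.cons (P.lf 13808992 0 0) (P.cons (P.lf 0 693290 0) (P.cons (P.lf 0 37347 0) (P.cons (P.lf 3551 0 0) P.nil)))))) 296)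
 EL.nil)))
noncomputable def S285_314_586_660_7 : EL := (EL.cons 12 (TM.mk (P.cons (P.cons (P.lf 0 3688361098 0) (P.cons (P.lf 0 644046168 0) (P.cons (P.lf 35239616 0 0) (P.lf 3915512 0 0)))) (P.cons (P.cons (P.lf 183329388 0 0) (P.cons (P.lf 93100424 0 0) (P.cons (P.lf 0 5094080 0) (P.lf 0 566008 0)))) (P.cons (P.cons (P.lf 198014062 0 0) (P.cons (P.lf 8868592 0 0) (P.cons (P.lf 0 485248 0) (P.lf 0 53912 0)))) (P.cons (P.cons (P.lf 0 649320 0) (P.cons (P.lf 0 1885408 0) (P.cons (P.lf 103152 0 0) P.nil))) (P.cons (P.cons (P.lf 0 2739590 0) (P.cons (P.lf 0 32792 0) P.nil)) (P.cons (P.cons (P.lf 76866 0 0) P.nil) P.nil)))))) 76810)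
 (EL.cons 3 (TM.mk (P.cons (P.cons (P.lf 17885073 0 0) (P.cons (P.lf 198047480 0 0) (P.cons (P.lf 0 10836360 0) (P.lf 0 1204038 0)))) (P.cons (P.cons (P.lf 1101396773 0 0) (P.cons (P.lf 32787706 0 0) (P.cons (P.lf 0 1794010 0) (P.lf 0 199332 0)))) (P.cons (P.cons (P.lf 5271907 0 0) (P.cons (P.lf 0 13798062 0) (P.cons (P.lf 754972 0 0) (P.lf 83882 0 0)))) (P.cons (P.cons (P.lf 0 30504762 0) (P.cons (P.lf 0 135744 0) (P.cons (P.lf 7428 0 0) P.nil))) (P.cons (P.cons (P.lf 1272582 0 0) (P.cons (P.lf 259896 0 0) P.nil)) (P.cons (P.cons (P.lf 376520 0 0) P.nil) P.nil)))))) 191546)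
 (EL.cons 7 (TM.mk (P.cons (P.cons (P.lf 995346108 0 0) (P.cons (P.lf 219619332 0 0) (P.cons (P.lf 0 12016691 0) (P.lf 0 1335189 0)))) (P.cons (P.cons (P.lf 258878600 0 0) (P.cons (P.lf 7706608 0 0) (P.cons (P.lf 0 421673 0) (P.lf 0 46851 0)))) (P.cons (P.cons (P.lf 47616652 0 0) (P.cons (P.lf 0 1862559 0) (P.cons (P.lf 101912 0 0) (P.lf 11326 0 0)))) (P.cons (P.cons (P.lf 0 5743234 0) (P.cons (P.lf 0 772915 0) (P.cons (P.lf 42287 0 0) P.nil))) (P.cons (P.cons (P.lf 0 1501854 0) (P.cons (P.lf 34768 0 0) P.nil)) (P.cons (P.cons (P.lf 123932 0 0) P.nil) P.nil)))))) 158324)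
 (EL.cons 10 (TM.mk (P.cons (P.cons (P.lf 0 2338621107 0) (P.cons (P.lf 293440752 0 0) (P.cons (P.lf 44800812 0 0) (P.cons (P.lf 0 1368657 0) (P.lf 0 114054 0))))) (P.cons (P.cons (P.lf 225373719 0 0) (P.cons (P.lf 0 28278984 0) (P.cons (P.lf 0 4317468 0) (P.cons (P.lf 131898 0 0) (P.lf 10989 0 0))))) (P.cons (P.cons (P.lf 26898585 0 0) (P.cons (P.lf 0 3375126 0) (P.cons (P.lf 0 515292 0) (P.cons (P.lf 15741 0 0) P.nil)))) (P.cons (P.cons (P.lf 0 3180819 0) (P.cons (P.lf 399114 0 0) (P.cons (P.lf 60933 0 0) P.nil))) (P.cons (P.cons (P.lf 0 120948 0) (P.cons (P.lf 15174 0 0) P.nil)) (P.cons (P.cons (P.lf 23742 0 0) P.nil) P.nil)))))) 11715)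
 EL.nil))))
noncomputable def S285_314_586_660_8 : EL := (EL.cons 12 (TM.mk (P.cons (P.cons (P.lf 1583714920 0 0) (P.cons (P.lf 553083332 0 0) (P.cons (P.lf 18026052 0 0) (P.cons (P.lf 0 8646808 0) (P.cons (P.lf 0 442576 0) (P.cons (P.lf 32126 0 0) P.nil)))))) (P.cons (P.cons (P.lf 0 157436584 0) (P.cons (P.lf 0 107442160 0) (P.cons (P.lf 0 8081948 0) (P.cons (P.lf 2180950 0 0) (P.cons (P.lf 127952 0 0) P.nil))))) (P.cons (P.cons (P.lf 0 166134566 0) (P.cons (P.lf 0 33334996 0) (P.cons (P.lf 1503124 0 0) (P.cons (P.lf 237764 0 0) P.nil)))) (P.cons (P.cons (P.lf 9009782 0 0) (P.cons (P.lf 6387318 0 0) (P.cons (P.lf 125484 0 0) P.nil))) (P.cons (P.cons (P.lf 6889538 0 0) (P.cons (P.lf 753294 0 0) P.nil)) (P.cons (P.cons (P.lf 0 212884 0) P.nil) P.nil)))))) 659746)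
 (EL.cons 3 (TM.mk (P.cons (P.cons (P.lf 0 258859255 0) (P.cons (P.lf 0 257795848 0) (P.cons (P.lf 0 23016882 0) (P.cons (P.lf 5629662 0 0) (P.cons (P.lf 340236 0 0) (P.cons (P.lf 0 24696 0) P.nil)))))) (P.cons (P.cons (P.lf 0 996381555 0) (P.cons (P.lf 0 194325747 0) (P.cons (P.lf 9853174 0 0) (P.cons (P.lf 1266716 0 0) (P.cons (P.lf 7140 0 0) P.nil))))) (P.cons (P.cons (P.lf 79056348 0 0) (P.cons (P.lf 56690261 0 0) (P.cons (P.lf 884064 0 0) (P.cons (P.lf 0 780831 0) P.nil)))) (P.cons (P.cons (P.lf 83694912 0 0) (P.cons (P.lf 8468926 0 0) (P.cons (P.lf 0 835856 0) P.nil))) (P.cons (P.cons (P.lf 0 4140092 0) (P.cons (P.lf 0 2819423 0) P.nil)) (P.cons (P.cons (P.lf 0 2681890 0) P.nil) P.nil)))))) 1667869)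
 (EL.cons 7 (TM.mk (P.cons (P.cons (P.lf 0 486422171 0) (P.cons (P.lf 0 209219251 0) (P.cons (P.lf 0 10254000 0) (P.cons (P.lf 3646812 0 0) (P.cons (P.lf 198899 0 0) (P.cons (P.lf 0 14437 0) P.nil)))))) (P.cons (P.cons (P.lf 0 234195218 0) (P.cons (P.lf 0 45675433 0) (P.cons (P.lf 2315944 0 0) (P.cons (P.lf 297734 0 0) (P.cons (P.lf 1677 0 0) P.nil))))) (P.cons (P.cons (P.lf 0 23373680 0) (P.cons (P.lf 5142164 0 0) (P.cons (P.lf 622693 0 0) (P.cons (P.lf 0 130192 0) P.nil)))) (P.cons (P.cons (P.lf 23087680 0 0) (P.cons (P.lf 4973875 0 0) (P.cons (P.lf 0 136707 0) P.nil))) (P.cons (P.cons (P.lf 4328533 0 0) (P.cons (P.lf 0 61235 0) P.nil)) (P.cons (P.cons (P.lf 0 745784 0) P.nil) P.nil)))))) 1079378)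
 (EL.cons 10 (TM.mk (P.cons (P.cons (P.lf 2008322418 0 0) (P.cons (P.lf 98688642 0 0) (P.cons (P.lf 0 101663886 0) (P.cons (P.lf 0 5267058 0) (P.cons (P.lf 938280 0 0) (P.cons (P.lf 46710 0 0) P.nil)))))) (P.cons (P.cons (P.lf 0 293366058 0) (P.cons (P.lf 0 47678658 0) (P.cons (P.lf 20844234 0 0) (P.cons (P.lf 1380450 0 0) (P.cons (P.lf 0 216762 0) P.nil))))) (P.cons (P.cons (P.lf 0 121298694 0) (P.cons (P.lf 11242896 0 0) (P.cons (P.lf 3040356 0 0) (P.cons (P.lf 2070 0 0) P.nil)))) (P.cons (P.cons (P.lf 14623854 0 0) (P.cons (P.lf 717084 0 0) (P.cons (P.lf 0 739992 0) P.nil))) (P.cons (P.cons (P.lf 2665860 0 0) (P.cons (P.lf 0 410844 0) P.nil)) (P.cons (P.cons (P.lf 0 361872 0) P.nil) P.nil)))))) 446232)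
 EL.nil))))
noncomputable def S285_314_586_660_9 : EL := (EL.cons 3 (TM.mk (P.cons (P.lf 1320724353 0 0) (P.cons (P.lf 409570215 0 0) (P.cons (P.lf 0 14623338 0) (P.cons (P.lf 0 1245645 0) (P.cons (P.lf 85526 0 0) (P.cons (P.lf 2831 0 0) P.nil)))))) 532)
 (EL.cons 7 (TM.mk (P.cons (P.lf 0 1997870342 0) (P.cons (P.lf 96267727 0 0) (P.cons (P.lf 13808992 0 0) (P.cons (P.lf 0 693290 0) (P.cons (P.lf 0 37347 0) (P.cons (P.lf 3551 0 0) P.nil)))))) 296)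
 EL.nil))
noncomputable def S285_314_586_660_10 : EL := (EL.cons 3 (TM.mk (P.cons (P.cons (P.lf 0 567094926 0) (P.cons (P.lf 0 99023740 0) (P.cons (P.lf 5418180 0 0) (P.lf 602019 0 0)))) (P.cons (P.cons (P.lf 0 147674611 0) (P.cons (P.lf 0 16393853 0) (P.cons (P.lf 897005 0 0) (P.lf 99666 0 0)))) (P.cons (P.cons (P.lf 45465352 0 0) (P.cons (P.lf 6899031 0 0) (P.cons (P.lf 0 377486 0) (P.lf 0 41941 0)))) (P.cons (P.cons (P.lf 9564285 0 0) (P.cons (P.lf 67872 0 0) (P.cons (P.lf 0 3714 0) P.nil))) (P.cons (P.cons (P.lf 0 852582 0) (P.cons (P.lf 0 129948 0) P.nil)) (P.cons (P.cons (P.lf 0 145804 0) P.nil) P.nil)))))) 46213)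
 (EL.cons 7 (TM.mk (P.cons (P.cons (P.lf 857849052 0 0) (P.cons (P.lf 149794008 0 0) (P.cons (P.lf 0 8196125 0) (P.lf 0 910680 0)))) (P.cons (P.cons (P.lf 0 83974852 0) (P.cons (P.lf 0 28871399 0) (P.cons (P.lf 1579726 0 0) (P.lf 175524 0 0)))) (P.cons (P.cons (P.lf 0 49929398 0) (P.cons (P.lf 0 2054655 0) (P.cons (P.lf 112421 0 0) (P.lf 12490 0 0)))) (P.cons (P.cons (P.lf 2962574 0 0) (P.cons (P.lf 739550 0 0) (P.cons (P.lf 0 40462 0) P.nil))) (P.cons (P.cons (P.lf 949467 0 0) (P.cons (P.lf 0 3959 0) P.nil)) (P.cons (P.cons (P.lf 0 67927 0) P.nil) P.nil)))))) 35572)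
 EL.nil))
noncomputable def S285_314_586_660_11 : EL := (EL.cons 3 (TM.mk (P.cons (P.cons (P.lf 243500207 0 0) (P.cons (P.lf 85037972 0 0) (P.cons (P.lf 2771550 0 0) (P.cons (P.lf 0 1329468 0) (P.cons (P.lf 0 68046 0) (P.cons (P.lf 4938 0 0) P.nil)))))) (P.cons (P.cons (P.lf 51305643 0 0) (P.cons (P.lf 9851643 0 0) (P.cons (P.lf 0 383132 0) (P.cons (P.lf 0 76954 0) (P.cons (P.lf 0 1428 0) P.nil))))) (P.cons (P.cons (P.lf 0 35746314 0) (P.cons (P.lf 0 11189767 0) (P.cons (P.lf 0 184926 0) (P.cons (P.lf 155265 0 0) P.nil)))) (P.cons (P.cons (P.lf 0 6497700 0) (P.cons (P.lf 0 504650 0) (P.cons (P.lf 102106 0 0) P.nil))) (P.cons (P.cons (P.lf 1810294 0 0) (P.cons (P.lf 498205 0 0) P.nil)) (P.cons (P.cons (P.lf 303470 0 0) P.nil) P.nil)))))) 252849)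
 (EL.cons 7 (TM.mk (P.cons (P.cons (P.lf 0 368344721 0) (P.cons (P.lf 0 128637625 0) (P.cons (P.lf 0 4192548 0) (P.cons (P.lf 2011098 0 0) (P.cons (P.lf 102935 0 0) (P.cons (P.lf 0 7471 0) P.nil)))))) (P.cons (P.cons (P.lf 54365782 0 0) (P.cons (P.lf 31187615 0 0) (P.cons (P.lf 2081740 0 0) (P.cons (P.lf 0 604156 0) (P.cons (P.lf 0 34719 0) P.nil))))) (P.cons (P.cons (P.lf 39421576 0 0) (P.cons (P.lf 7438160 0 0) (P.cons (P.lf 0 411197 0) (P.cons (P.lf 0 44758 0) P.nil)))) (P.cons (P.cons (P.lf 0 4338308 0) (P.cons (P.lf 0 2076527 0) (P.cons (P.lf 0 26787 0) P.nil))) (P.cons (P.cons (P.lf 0 1762667 0) (P.cons (P.lf 0 150941 0) P.nil)) (P.cons (P.cons (P.lf 155956 0 0) P.nil) P.nil)))))) 217480)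
 EL.nil))
noncomputable def S285_314_586_660_12 : EL := (EL.cons 4 (TM.mk (P.cons (P.lf 0 1320724353 0) (P.cons (P.lf 0 409570215 0) (P.cons (P.lf 14623338 0 0) (P.cons (P.lf 1245645 0 0) (P.cons (P.lf 0 85526 0) (P.cons (P.lf 0 2831 0) P.nil)))))) 532)
 (EL.cons 8 (TM.mk (P.cons (P.lf 1997870342 0 0) (P.cons (P.lf 0 96267727 0) (P.cons (P.lf 0 13808992 0) (P.cons (P.lf 693290 0 0) (P.cons (P.lf 37347 0 0) (P.cons (P.lf 0 3551 0) P.nil)))))) 296)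
 EL.nil))
noncomputable def S285_314_586_660_13 : EL := (EL.cons 4 (TM.mk (P.cons (P.cons (P.lf 567094926 0 0) (P.cons (P.lf 99023740 0 0) (P.cons (P.lf 0 5418180 0) (P.lf 0 602019 0)))) (P.cons (P.cons (P.lf 147674611 0 0) (P.cons (P.lf 16393853 0 0) (P.cons (P.lf 0 897005 0) (P.lf 0 99666 0)))) (P.cons (P.cons (P.lf 0 45465352 0) (P.cons (P.lf 0 6899031 0) (P.cons (P.lf 377486 0 0) (P.lf 41941 0 0)))) (P.cons (P.cons (P.lf 0 9564285 0) (P.cons (P.lf 0 67872 0) (P.cons (P.lf 3714 0 0) P.nil))) (P.cons (P.cons (P.lf 852582 0 0) (P.cons (P.lf 129948 0 0) P.nil)) (P.cons (P.cons (P.lf 145804 0 0) P.nil) P.nil)))))) 46213)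
 (EL.cons 8 (TM.mk (P.cons (P.cons (P.lf 0 857849052 0) (P.cons (P.lf 0 149794008 0) (P.cons (P.lf 8196125 0 0) (P.lf 910680 0 0)))) (P.cons (P.cons (P.lf 83974852 0 0) (P.cons (P.lf 28871399 0 0) (P.cons (P.lf 0 1579726 0) (P.lf 0 175524 0)))) (P.cons (P.cons (P.lf 49929398 0 0) (P.cons (P.lf 2054655 0 0) (P.cons (P.lf 0 112421 0) (P.lf 0 12490 0)))) (P.cons (P.cons (P.lf 0 2962574 0) (P.cons (P.lf 0 739550 0) (P.cons (P.lf 40462 0 0) P.nil))) (P.cons (P.cons (P.lf 0 949467 0) (P.cons (P.lf 3959 0 0) P.nil)) (P.cons (P.cons (P.lf 67927 0 0) P.nil) P.nil)))))) 35572)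
 EL.nil))
noncomputable def S285_314_586_660_14 : EL := (EL.cons 4 (TM.mk (P.cons (P.cons (P.lf 0 243500207 0) (P.cons (P.lf 0 85037972 0) (P.cons (P.lf 0 2771550 0) (P.cons (P.lf 1329468 0 0) (P.cons (P.lf 68046 0 0) (P.cons (P.lf 0 4938 0) P.nil)))))) (P.cons (P.cons (P.lf 0 51305643 0) (P.cons (P.lf 0 9851643 0) (P.cons (P.lf 383132 0 0) (P.cons (P.lf 76954 0 0) (P.cons (P.lf 1428 0 0) P.nil))))) (P.cons (P.cons (P.lf 35746314 0 0) (P.cons (P.lf 11189767 0 0) (P.cons (P.lf 184926 0 0) (P.cons (P.lf 0 155265 0) P.nil)))) (P.cons (P.cons (P.lf 6497700 0 0) (P.cons (P.lf 504650 0 0) (P.cons (P.lf 0 102106 0) P.nil))) (P.cons (P.cons (P.lf 0 1810294 0) (P.cons (P.lf 0 498205 0) P.nil)) (P.cons (P.cons (P.lf 0 303470 0) P.nil) P.nil)))))) 252849)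
 (EL.cons 8 (TM.mk (P.cons (P.cons (P.lf 368344721 0 0) (P.cons (P.lf 128637625 0 0) (P.cons (P.lf 4192548 0 0) (P.cons (P.lf 0 2011098 0) (P.cons (P.lf 0 102935 0) (P.cons (P.lf 7471 0 0) P.nil)))))) (P.cons (P.cons (P.lf 0 54365782 0) (P.cons (P.lf 0 31187615 0) (P.cons (P.lf 0 2081740 0) (P.cons (P.lf 604156 0 0) (P.cons (P.lf 34719 0 0) P.nil))))) (P.cons (P.cons (P.lf 0 39421576 0) (P.cons (P.lf 0 7438160 0) (P.cons (P.lf 411197 0 0) (P.cons (P.lf 44758 0 0) P.nil)))) (P.cons (P.cons (P.lf 4338308 0 0) (P.cons (P.lf 2076527 0 0) (P.cons (P.lf 26787 0 0) P.nil))) (P.cons (P.cons (P.lf 1762667 0 0) (P.cons (P.lf 150941 0 0) P.nil)) (P.cons (P.cons (P.lf 0 155956 0) P.nil) P.nil)))))) 217480)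
 EL.nil))
noncomputable def S285_314_586_660_15 : EL := (EL.cons 4 (TM.mk (P.cons (P.lf 0 433204774 0) (P.cons (P.lf 0 268682518 0) (P.cons (P.lf 0 32067537 0) (P.cons (P.lf 3792065 0 0) (P.cons (P.lf 144194 0 0) (P.cons (P.lf 0 28304 0) P.nil)))))) 2128)
 (EL.cons 8 (TM.mk (P.cons (P.lf 655312343 0 0) (P.cons (P.lf 171642763 0 0) (P.cons (P.lf 0 21577328 0) (P.cons (P.lf 0 1445658 0) (P.cons (P.lf 205138 0 0) (P.cons (P.lf 3748 0 0) P.nil)))))) 1533)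
 EL.nil))
noncomputable def S285_314_586_660_16 : EL := (EL.cons 4 (TM.mk (P.cons (P.cons (P.lf 186010221 0 0) (P.cons (P.lf 32480325 0 0) (P.cons (P.lf 0 1777192 0) (P.lf 0 197465 0)))) (P.cons (P.cons (P.lf 106121760 0 0) (P.cons (P.lf 15449756 0 0) (P.cons (P.lf 0 845348 0) (P.lf 0 93927 0)))) (P.cons (P.cons (P.lf 0 1951281 0) (P.cons (P.lf 0 955001 0) (P.cons (P.lf 52253 0 0) (P.lf 5805 0 0)))) (P.cons (P.cons (P.lf 0 8473528 0) (P.cons (P.lf 0 814188 0) (P.cons (P.lf 44549 0 0) P.nil))) (P.cons (P.cons (P.lf 0 561726 0) (P.cons (P.lf 57807 0 0) P.nil)) (P.cons (P.cons (P.lf 186883 0 0) P.nil) P.nil)))))) 58939)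
 (EL.cons 8 (TM.mk (P.cons (P.cons (P.lf 0 281379157 0) (P.cons (P.lf 0 49133249 0) (P.cons (P.lf 2688373 0 0) (P.lf 298707 0 0)))) (P.cons (P.cons (P.lf 0 59714363 0) (P.cons (P.lf 0 5766750 0) (P.cons (P.lf 315533 0 0) (P.lf 35058 0 0)))) (P.cons (P.cons (P.lf 28034346 0 0) (P.cons (P.lf 4154689 0 0) (P.cons (P.lf 0 227327 0) (P.lf 0 25258 0)))) (P.cons (P.cons (P.lf 4067379 0 0) (P.cons (P.lf 0 92095 0) (P.cons (P.lf 5038 0 0) P.nil))) (P.cons (P.cons (P.lf 0 838307 0) (P.cons (P.lf 0 93501 0) P.nil)) (P.cons (P.cons (P.lf 0 77803 0) P.nil) P.nil)))))) 42346)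
 EL.nil))
noncomputable def S285_314_586_660_17 : EL := (EL.cons 4 (TM.mk (P.cons (P.cons (P.lf 0 79869392 0) (P.cons (P.lf 0 27892917 0) (P.cons (P.lf 0 909083 0) (P.cons (P.lf 436072 0 0) (P.cons (P.lf 22319 0 0) (P.cons (P.lf 0 1620 0) P.nil)))))) (P.cons (P.cons (P.lf 0 41596850 0) (P.cons (P.lf 0 11881273 0) (P.cons (P.lf 0 156245 0) (P.cons (P.lf 160471 0 0) (P.cons (P.lf 7390 0 0) P.nil))))) (P.cons (P.cons (P.lf 7390615 0 0) (P.cons (P.lf 2977052 0 0) (P.cons (P.lf 109694 0 0) (P.cons (P.lf 0 47927 0) P.nil)))) (P.cons (P.cons (P.lf 6028977 0 0) (P.cons (P.lf 1365812 0 0) (P.cons (P.lf 0 15214 0) P.nil))) (P.cons (P.cons (P.lf 0 51975 0) (P.cons (P.lf 0 151478 0) P.nil)) (P.cons (P.cons (P.lf 0 319596 0) P.nil) P.nil)))))) 218677)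
 (EL.cons 8 (TM.mk (P.cons (P.cons (P.lf 120819072 0 0) (P.cons (P.lf 42193840 0 0) (P.cons (P.lf 1375178 0 0) (P.cons (P.lf 0 659651 0) (P.cons (P.lf 0 33763 0) (P.cons (P.lf 2450 0 0) P.nil)))))) (P.cons (P.cons (P.lf 19634965 0 0) (P.cons (P.lf 2855036 0 0) (P.cons (P.lf 0 256364 0) (P.cons (P.lf 0 6397 0) (P.cons (P.lf 917 0 0) P.nil))))) (P.cons (P.cons (P.lf 0 19798197 0) (P.cons (P.lf 0 6079273 0) (P.cons (P.lf 0 92101 0) (P.cons (P.lf 83438 0 0) P.nil)))) (P.cons (P.cons (P.lf 0 2503397 0) (P.cons (P.lf 0 2011 0) (P.cons (P.lf 56875 0 0) P.nil))) (P.cons (P.cons (P.lf 1187259 0 0) (P.cons (P.lf 300123 0 0) P.nil)) (P.cons (P.cons (P.lf 123684 0 0) P.nil) P.nil)))))) 175482)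
 EL.nil))
noncomputable def S285_314_586_660_18 : EL := (EL.cons 4 (TM.mk (P.cons (P.lf 0 142093522 0) (P.cons (P.lf 0 132193991 0) (P.cons (P.lf 0 36274848 0) (P.cons (P.lf 0 908220 0) (P.cons (P.lf 623396 0 0) (P.cons (P.lf 0 4479 0) P.nil)))))) 6741)
 (EL.cons 8 (TM.mk (P.cons (P.lf 214946014 0 0) (P.cons (P.lf 122956731 0 0) (P.cons (P.lf 8001726 0 0) (P.cons (P.lf 0 3495072 0) (P.cons (P.lf 0 40579 0) (P.cons (P.lf 38127 0 0) P.nil)))))) 3726)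
 EL.nil))
noncomputable def S285_314_586_660_19 : EL := (EL.cons 4 (TM.mk (P.cons (P.cons (P.lf 61012364 0 0) (P.cons (P.lf 10653722 0 0) (P.cons (P.lf 0 582928 0) (P.lf 0 64769 0)))) (P.cons (P.cons (P.lf 53729076 0 0) (P.cons (P.lf 8371433 0 0) (P.cons (P.lf 0 458050 0) (P.lf 0 50894 0)))) (P.cons (P.cons (P.lf 9478905 0 0) (P.cons (P.lf 1140310 0 0) (P.cons (P.lf 0 62392 0) (P.lf 0 6931 0)))) (P.cons (P.cons (P.lf 0 3420795 0) (P.cons (P.lf 0 430356 0) (P.cons (P.lf 23547 0 0) P.nil))) (P.cons (P.cons (P.lf 0 1067950 0) (P.cons (P.lf 0 64477 0) P.nil)) (P.cons (P.cons (P.lf 37922 0 0) P.nil) P.nil)))))) 64505)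
 (EL.cons 8 (TM.mk (P.cons (P.cons (P.lf 0 92293894 0) (P.cons (P.lf 0 16115972 0) (P.cons (P.lf 881801 0 0) (P.lf 97977 0 0)))) (P.cons (P.cons (P.lf 0 48207922 0) (P.cons (P.lf 0 6889254 0) (P.cons (P.lf 376952 0 0) (P.lf 41883 0 0)))) (P.cons (P.cons (P.lf 4143298 0 0) (P.cons (P.lf 954618 0 0) (P.cons (P.lf 0 52232 0) (P.lf 0 5803 0)))) (P.cons (P.cons (P.lf 4489630 0 0) (P.cons (P.lf 428541 0 0) (P.cons (P.lf 0 23448 0) P.nil))) (P.cons (P.cons (P.lf 49438 0 0) (P.cons (P.lf 0 54385 0) P.nil)) (P.cons (P.cons (P.lf 0 135701 0) P.nil) P.nil)))))) 46744)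
 EL.nil))
noncomputable def S285_314_586_660_20 : EL := (EL.cons 4 (TM.mk (P.cons (P.cons (P.lf 0 26197594 0) (P.cons (P.lf 0 9149028 0) (P.cons (P.lf 0 298184 0) (P.cons (P.lf 143033 0 0) (P.cons (P.lf 7320 0 0) (P.cons (P.lf 0 530 0) P.nil)))))) (P.cons (P.cons (P.lf 0 21768136 0) (P.cons (P.lf 0 6734329 0) (P.cons (P.lf 0 143719 0) (P.cons (P.lf 96991 0 0) (P.cons (P.lf 4694 0 0) P.nil))))) (P.cons (P.cons (P.lf 0 1516914 0) (P.cons (P.lf 0 130747 0) (P.cons (P.lf 23388 0 0) (P.cons (P.lf 0 980 0) P.nil)))) (P.cons (P.cons (P.lf 2905072 0 0) (P.cons (P.lf 802591 0 0) (P.cons (P.lf 7015 0 0) P.nil))) (P.cons (P.cons (P.lf 580536 0 0) (P.cons (P.lf 81512 0 0) P.nil)) (P.cons (P.cons (P.lf 0 135238 0) P.nil) P.nil)))))) 164436)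
 (EL.cons 8 (TM.mk (P.cons (P.cons (P.lf 39629313 0 0) (P.cons (P.lf 13839809 0 0) (P.cons (P.lf 451065 0 0) (P.cons (P.lf 0 216368 0) (P.cons (P.lf 0 11074 0) (P.cons (P.lf 803 0 0) P.nil)))))) (P.cons (P.cons (P.lf 18729833 0 0) (P.cons (P.lf 5228334 0 0) (P.cons (P.lf 55790 0 0) (P.cons (P.lf 0 69196 0) (P.cons (P.lf 0 3133 0) P.nil))))) (P.cons (P.cons (P.lf 0 4935473 0) (P.cons (P.lf 0 1856863 0) (P.cons (P.lf 0 61280 0) (P.cons (P.lf 29112 0 0) P.nil)))) (P.cons (P.cons (P.lf 0 2943643 0) (P.cons (P.lf 0 642451 0) (P.cons (P.lf 9792 0 0) P.nil))) (P.cons (P.cons (P.lf 203181 0 0) (P.cons (P.lf 120328 0 0) P.nil)) (P.cons (P.cons (P.lf 177052 0 0) P.nil) P.nil)))))) 137688)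
 EL.nil))
noncomputable def S285_314_586_660_21 : EL := (EL.cons 4 (TM.mk (P.cons (P.cons (P.lf 0 584979999 0) (P.cons (P.lf 0 297071220 0) (P.cons (P.lf 16254540 0 0) (P.lf 1806057 0 0)))) (P.cons (P.cons (P.lf 0 1249071384 0) (P.cons (P.lf 0 49181559 0) (P.cons (P.lf 2691015 0 0) (P.lf 298998 0 0)))) (P.cons (P.cons (P.lf 40193445 0 0) (P.cons (P.lf 20697093 0 0) (P.cons (P.lf 0 1132458 0) (P.lf 0 125823 0)))) (P.cons (P.cons (P.lf 40069047 0 0) (P.cons (P.lf 203616 0 0) (P.cons (P.lf 0 11142 0) P.nil))) (P.cons (P.cons (P.lf 0 2125164 0) (P.cons (P.lf 0 389844 0) P.nil)) (P.cons (P.cons (P.lf 0 522324 0) P.nil) P.nil)))))) 145314)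
 (EL.cons 8 (TM.mk (P.cons (P.cons (P.lf 0 137497056 0) (P.cons (P.lf 0 69825324 0) (P.cons (P.lf 3820566 0 0) (P.lf 424509 0 0)))) (P.cons (P.cons (P.lf 0 342853452 0) (P.cons (P.lf 0 36578007 0) (P.cons (P.lf 2001399 0 0) (P.lf 222375 0 0)))) (P.cons (P.cons (P.lf 0 97546050 0) (P.cons (P.lf 0 192096 0) (P.cons (P.lf 10509 0 0) (P.lf 1164 0 0)))) (P.cons (P.cons (P.lf 8705808 0 0) (P.cons (P.lf 1512465 0 0) (P.cons (P.lf 0 82749 0) P.nil))) (P.cons (P.cons (P.lf 2451321 0 0) (P.cons (P.lf 0 38727 0) P.nil)) (P.cons (P.cons (P.lf 0 191859 0) P.nil) P.nil)))))) 122733)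
 (EL.cons 11 (TM.mk (P.cons (P.cons (P.lf 2338621107 0 0) (P.cons (P.lf 0 293440752 0) (P.cons (P.lf 0 44800812 0) (P.cons (P.lf 1368657 0 0) (P.lf 114054 0 0))))) (P.cons (P.cons (P.lf 0 225373719 0) (P.cons (P.lf 28278984 0 0) (P.cons (P.lf 4317468 0 0) (P.cons (P.lf 0 131898 0) (P.lf 0 10989 0))))) (P.cons (P.cons (P.lf 0 26898585 0) (P.cons (P.lf 3375126 0 0) (P.cons (P.lf 515292 0 0) (P.cons (P.lf 0 15741 0) P.nil)))) (P.cons (P.cons (P.lf 3180819 0 0) (P.cons (P.lf 0 399114 0) (P.cons (P.lf 0 60933 0) P.nil))) (P.cons (P.cons (P.lf 120948 0 0) (P.cons (P.lf 0 15174 0) P.nil)) (P.cons (P.cons (P.lf 0 23742 0) P.nil) P.nil)))))) 11715)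
 EL.nil)))
noncomputable def S285_314_586_660_22 : EL := (EL.cons 4 (TM.mk (P.cons (P.cons (P.lf 251179731 0 0) (P.cons (P.lf 171416910 0 0) (P.cons (P.lf 12894216 0 0) (P.cons (P.lf 0 3479565 0) (P.cons (P.lf 0 204141 0) (P.cons (P.lf 14817 0 0) P.nil)))))) (P.cons (P.cons (P.lf 523843599 0 0) (P.cons (P.lf 102088695 0 0) (P.cons (P.lf 0 5118153 0) (P.cons (P.lf 0 671835 0) (P.cons (P.lf 0 4284 0) P.nil))))) (P.cons (P.cons (P.lf 0 57401331 0) (P.cons (P.lf 0 33940014 0) (P.cons (P.lf 0 534495 0) (P.cons (P.lf 468048 0 0) P.nil)))) (P.cons (P.cons (P.lf 0 45096306 0) (P.cons (P.lf 0 4486788 0) (P.cons (P.lf 468981 0 0) P.nil))) (P.cons (P.cons (P.lf 2975193 0 0) (P.cons (P.lf 1658814 0 0) P.nil)) (P.cons (P.cons (P.lf 1492680 0 0) P.nil) P.nil)))))) 707499)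
 (EL.cons 8 (TM.mk (P.cons (P.cons (P.lf 59038725 0 0) (P.cons (P.lf 40290813 0 0) (P.cons (P.lf 3030726 0 0) (P.cons (P.lf 0 817857 0) (P.cons (P.lf 0 47982 0) (P.cons (P.lf 3483 0 0) P.nil)))))) (P.cons (P.cons (P.lf 144280500 0 0) (P.cons (P.lf 38431524 0 0) (P.cons (P.lf 0 117102 0) (P.cons (P.lf 0 450945 0) (P.cons (P.lf 0 18198 0) P.nil))))) (P.cons (P.cons (P.lf 31397628 0 0) (P.cons (P.lf 1147998 0 0) (P.cons (P.lf 0 516945 0) (P.cons (P.lf 42717 0 0) P.nil)))) (P.cons (P.cons (P.lf 0 13712994 0) (P.cons (P.lf 0 3525201 0) (P.cons (P.lf 54960 0 0) P.nil))) (P.cons (P.cons (P.lf 0 3045600 0) (P.cons (P.lf 0 44853 0) P.nil)) (P.cons (P.cons (P.lf 450870 0 0) P.nil) P.nil)))))) 430938)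
 (EL.cons 11 (TM.mk (P.cons (P.cons (P.lf 0 1004161209 0) (P.cons (P.lf 0 49344321 0) (P.cons (P.lf 50831943 0 0) (P.cons (P.lf 2633529 0 0) (P.cons (P.lf 0 469140 0) (P.cons (P.lf 0 23355 0) P.nil)))))) (P.cons (P.cons (P.lf 146683029 0 0) (P.cons (P.lf 23839329 0 0) (P.cons (P.lf 0 10422117 0) (P.cons (P.lf 0 690225 0) (P.cons (P.lf 108381 0 0) P.nil))))) (P.cons (P.cons (P.lf 60649347 0 0) (P.cons (P.lf 0 5621448 0) (P.cons (P.lf 0 1520178 0) (P.cons (P.lf 0 1035 0) P.nil)))) (P.cons (P.cons (P.lf 0 7311927 0) (P.cons (P.lf 0 358542 0) (P.cons (P.lf 369996 0 0) P.nil))) (P.cons (P.cons (P.lf 0 1332930 0) (P.cons (P.lf 205422 0 0) P.nil)) (P.cons (P.cons (P.lf 180936 0 0) P.nil) P.nil)))))) 223116)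
 EL.nil)))
noncomputable def S285_314_586_660_23 : EL := (EL.cons 4 (TM.mk (P.cons (P.cons (P.lf 0 191876622 0) (P.cons (P.lf 0 97440975 0) (P.cons (P.lf 5331576 0 0) (P.lf 592395 0 0)))) (P.cons (P.cons (P.lf 0 469205124 0) (P.cons (P.lf 0 46349268 0) (P.cons (P.lf 2536044 0 0) (P.lf 281781 0 0)))) (P.cons (P.cons (P.lf 0 111744705 0) (P.cons (P.lf 2865003 0 0) (P.cons (P.lf 0 156759 0) (P.lf 0 17415 0)))) (P.cons (P.cons (P.lf 21948534 0 0) (P.cons (P.lf 2442567 0 0) (P.cons (P.lf 0 133647 0) P.nil))) (P.cons (P.cons (P.lf 3606684 0 0) (P.cons (P.lf 0 173421 0) P.nil)) (P.cons (P.cons (P.lf 0 572388 0) P.nil) P.nil)))))) 214179)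
 (EL.cons 8 (TM.mk (P.cons (P.cons (P.lf 0 45099780 0) (P.cons (P.lf 0 22903086 0) (P.cons (P.lf 1253166 0 0) (P.lf 139239 0 0)))) (P.cons (P.cons (P.lf 0 126443703 0) (P.cons (P.lf 0 19100268 0) (P.cons (P.lf 1045089 0 0) (P.lf 116118 0 0)))) (P.cons (P.cons (P.lf 0 66370599 0) (P.cons (P.lf 0 3530055 0) (P.cons (P.lf 193149 0 0) (P.lf 21459 0 0)))) (P.cons (P.cons (P.lf 0 5778930 0) (P.cons (P.lf 630999 0 0) (P.cons (P.lf 0 34521 0) P.nil))) (P.cons (P.cons (P.lf 2146989 0 0) (P.cons (P.lf 151671 0 0) P.nil)) (P.cons (P.cons (P.lf 177591 0 0) P.nil) P.nil)))))) 110313)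
 (EL.cons 11 (TM.mk (P.cons (P.cons (P.lf 767080446 0 0) (P.cons (P.lf 0 96250161 0) (P.cons (P.lf 0 14694909 0) (P.cons (P.lf 448926 0 0) (P.lf 37410 0 0))))) (P.cons (P.cons (P.lf 163955733 0 0) (P.cons (P.lf 0 20572503 0) (P.cons (P.lf 0 3140889 0) (P.cons (P.lf 95952 0 0) (P.lf 7995 0 0))))) (P.cons (P.cons (P.lf 0 40240689 0) (P.cons (P.lf 5049237 0 0) (P.cons (P.lf 770886 0 0) (P.cons (P.lf 0 23550 0) P.nil)))) (P.cons (P.cons (P.lf 0 1597713 0) (P.cons (P.lf 200475 0 0) (P.cons (P.lf 30606 0 0) P.nil))) (P.cons (P.cons (P.lf 580299 0 0) (P.cons (P.lf 0 72813 0) P.nil)) (P.cons (P.cons (P.lf 0 1857 0) P.nil) P.nil)))))) 30600)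
 EL.nil)))
noncomputable def S285_314_586_660_24 : EL := (EL.cons 4 (TM.mk (P.cons (P.cons (P.lf 82388316 0 0) (P.cons (P.lf 56225679 0 0) (P.cons (P.lf 4229373 0 0) (P.cons (P.lf 0 1141314 0) (P.cons (P.lf 0 66957 0) (P.cons (P.lf 4860 0 0) P.nil)))))) (P.cons (P.cons (P.lf 197373015 0 0) (P.cons (P.lf 50921808 0 0) (P.cons (P.lf 0 367209 0) (P.cons (P.lf 0 574299 0) (P.cons (P.lf 0 22170 0) P.nil))))) (P.cons (P.cons (P.lf 33544080 0 0) (P.cons (P.lf 0 1370808 0) (P.cons (P.lf 0 742752 0) (P.cons (P.lf 97821 0 0) P.nil)))) (P.cons (P.cons (P.lf 0 22610745 0) (P.cons (P.lf 0 5347785 0) (P.cons (P.lf 114057 0 0) P.nil))) (P.cons (P.cons (P.lf 0 3559473 0) (P.cons (P.lf 183033 0 0) P.nil)) (P.cons (P.cons (P.lf 985074 0 0) P.nil) P.nil)))))) 714696)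
 (EL.cons 8 (TM.mk (P.cons (P.cons (P.lf 19365021 0 0) (P.cons (P.lf 13215606 0 0) (P.cons (P.lf 994095 0 0) (P.cons (P.lf 0 268260 0) (P.cons (P.lf 0 15738 0) (P.cons (P.lf 1140 0 0) P.nil)))))) (P.cons (P.cons (P.lf 53330082 0 0) (P.cons (P.lf 16704042 0 0) (P.cons (P.lf 269868 0 0) (P.cons (P.lf 0 231102 0) (P.cons (P.lf 0 10848 0) P.nil))))) (P.cons (P.cons (P.lf 24760083 0 0) (P.cons (P.lf 4139397 0 0) (P.cons (P.lf 0 192477 0) (P.cons (P.lf 0 28884 0) P.nil)))) (P.cons (P.cons (P.lf 0 1846491 0) (P.cons (P.lf 0 1191549 0) (P.cons (P.lf 0 35067 0) P.nil))) (P.cons (P.cons (P.lf 0 2551236 0) (P.cons (P.lf 0 388491 0) P.nil)) (P.cons (P.cons (P.lf 0 118707 0) P.nil) P.nil)))))) 299475)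
 (EL.cons 11 (TM.mk (P.cons (P.cons (P.lf 0 329370339 0) (P.cons (P.lf 0 16185204 0) (P.cons (P.lf 16673151 0 0) (P.cons (P.lf 863811 0 0) (P.cons (P.lf 0 153879 0) (P.cons (P.lf 0 7659 0) P.nil)))))) (P.cons (P.cons (P.lf 0 54028299 0) (P.cons (P.lf 2800230 0 0) (P.cons (P.lf 1752003 0 0) (P.cons (P.lf 41478 0 0) (P.cons (P.lf 0 12168 0) P.nil))))) (P.cons (P.cons (P.lf 38460456 0 0) (P.cons (P.lf 760224 0 0) (P.cons (P.lf 0 1743351 0) (P.cons (P.lf 0 80112 0) P.nil)))) (P.cons (P.cons (P.lf 3548700 0 0) (P.cons (P.lf 0 760719 0) (P.cons (P.lf 0 11142 0) P.nil))) (P.cons (P.cons (P.lf 0 1467930 0) (P.cons (P.lf 42903 0 0) P.nil)) (P.cons (P.cons (P.lf 0 66030 0) P.nil) P.nil)))))) 218865)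
 EL.nil)))
noncomputable def S285_314_586_660_25 : EL := (EL.cons 4 (TM.mk (P.cons (P.cons (P.lf 0 62936574 0) (P.cons (P.lf 0 31961169 0) (P.cons (P.lf 1748784 0 0) (P.lf 194307 0 0)))) (P.cons (P.cons (P.lf 0 173419113 0) (P.cons (P.lf 0 25114299 0) (P.cons (P.lf 1374153 0 0) (P.lf 152682 0 0)))) (P.cons (P.cons (P.lf 0 83682564 0) (P.cons (P.lf 0 3420930 0) (P.cons (P.lf 187179 0 0) (P.lf 20796 0 0)))) (P.cons (P.cons (P.lf 0 2403801 0) (P.cons (P.lf 1291068 0 0) (P.cons (P.lf 0 70641 0) P.nil))) (P.cons (P.cons (P.lf 3962475 0 0) (P.cons (P.lf 193431 0 0) P.nil)) (P.cons (P.cons (P.lf 123873 0 0) P.nil) P.nil)))))) 220599)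
 (EL.cons 8 (TM.mk (P.cons (P.cons (P.lf 0 14792973 0) (P.cons (P.lf 0 7512336 0) (P.cons (P.lf 411045 0 0) (P.lf 45669 0 0)))) (P.cons (P.cons (P.lf 0 46061676 0) (P.cons (P.lf 0 8594643 0) (P.cons (P.lf 470262 0 0) (P.lf 52251 0 0)))) (P.cons (P.cons (P.lf 0 34467708 0) (P.cons (P.lf 0 3017538 0) (P.cons (P.lf 165105 0 0) (P.lf 18342 0 0)))) (P.cons (P.cons (P.lf 0 8173431 0) (P.cons (P.lf 0 75645 0) (P.cons (P.lf 4137 0 0) P.nil))) (P.cons (P.cons (P.lf 395601 0 0) (P.cons (P.lf 132174 0 0) P.nil)) (P.cons (P.cons (P.lf 315441 0 0) P.nil) P.nil)))))) 104235)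
 (EL.cons 11 (TM.mk (P.cons (P.cons (P.lf 251606559 0 0) (P.cons (P.lf 0 31570575 0) (P.cons (P.lf 0 4820010 0) (P.cons (P.lf 147249 0 0) (P.lf 12270 0 0))))) (P.cons (P.cons (P.lf 131804157 0 0) (P.cons (P.lf 0 16538253 0) (P.cons (P.lf 0 2524962 0) (P.cons (P.lf 77136 0 0) (P.lf 6426 0 0))))) (P.cons (P.cons (P.lf 692217 0 0) (P.cons (P.lf 0 86856 0) (P.cons (P.lf 0 13260 0) (P.cons (P.lf 405 0 0) P.nil)))) (P.cons (P.cons (P.lf 0 5450004 0) (P.cons (P.lf 683844 0 0) (P.cons (P.lf 104403 0 0) P.nil))) (P.cons (P.cons (P.lf 139542 0 0) (P.cons (P.lf 0 17508 0) P.nil)) (P.cons (P.cons (P.lf 80688 0 0) P.nil) P.nil)))))) 44802)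
 EL.nil)))
noncomputable def S285_314_586_660_26 : EL := (EL.cons 4 (TM.mk (P.cons (P.cons (P.lf 27023814 0 0) (P.cons (P.lf 18442326 0 0) (P.cons (P.lf 1387257 0 0) (P.cons (P.lf 0 374355 0) (P.cons (P.lf 0 21963 0) (P.cons (P.lf 1593 0 0) P.nil)))))) (P.cons (P.cons (P.lf 73119786 0 0) (P.cons (P.lf 22421784 0 0) (P.cons (P.lf 309753 0 0) (P.cons (P.lf 0 304464 0) (P.cons (P.lf 0 14082 0) P.nil))))) (P.cons (P.cons (P.lf 30779787 0 0) (P.cons (P.lf 4525827 0 0) (P.cons (P.lf 0 296337 0) (P.cons (P.lf 0 22185 0) P.nil)))) (P.cons (P.cons (P.lf 0 4746711 0) (P.cons (P.lf 0 2095866 0) (P.cons (P.lf 0 38112 0) P.nil))) (P.cons (P.cons (P.lf 0 3648573 0) (P.cons (P.lf 0 493509 0) P.nil)) (P.cons (P.cons (P.lf 37038 0 0) P.nil) P.nil)))))) 480510)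
 (EL.cons 8 (TM.mk (P.cons (P.cons (P.lf 6351831 0 0) (P.cons (P.lf 4334790 0 0) (P.cons (P.lf 326067 0 0) (P.cons (P.lf 0 87990 0) (P.cons (P.lf 0 5160 0) (P.cons (P.lf 372 0 0) P.nil)))))) (P.cons (P.cons (P.lf 19462326 0 0) (P.cons (P.lf 6823278 0 0) (P.cons (P.lf 189633 0 0) (P.cons (P.lf 0 103089 0) (P.cons (P.lf 0 5157 0) P.nil))))) (P.cons (P.cons (P.lf 13475733 0 0) (P.cons (P.lf 3008847 0 0) (P.cons (P.lf 0 39291 0) (P.cons (P.lf 0 32007 0) P.nil)))) (P.cons (P.cons (P.lf 1713210 0 0) (P.cons (P.lf 0 34536 0) (P.cons (P.lf 0 32367 0) P.nil))) (P.cons (P.cons (P.lf 0 1130649 0) (P.cons (P.lf 0 268548 0) P.nil)) (P.cons (P.cons (P.lf 0 298248 0) P.nil) P.nil)))))) 194352)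
 (EL.cons 11 (TM.mk (P.cons (P.cons (P.lf 0 108035262 0) (P.cons (P.lf 0 5308833 0) (P.cons (P.lf 5468883 0 0) (P.cons (P.lf 283332 0 0) (P.cons (P.lf 0 50472 0) (P.cons (P.lf 0 2511 0) P.nil)))))) (P.cons (P.cons (P.lf 0 51224421 0) (P.cons (P.lf 0 727833 0) (P.cons (P.lf 2270622 0 0) (P.cons (P.lf 101469 0 0) (P.cons (P.lf 0 19644 0) P.nil))))) (P.cons (P.cons (P.lf 8315784 0 0) (P.cons (P.lf 592971 0 0) (P.cons (P.lf 0 454170 0) (P.cons (P.lf 0 25194 0) P.nil)))) (P.cons (P.cons (P.lf 5374218 0 0) (P.cons (P.lf 0 177354 0) (P.cons (P.lf 0 192504 0) P.nil))) (P.cons (P.cons (P.lf 0 250482 0) (P.cons (P.lf 0 67275 0) P.nil)) (P.cons (P.cons (P.lf 0 197136 0) P.nil) P.nil)))))) 180432)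
 EL.nil)))
noncomputable def S285_314_586_660_27 : EL := (EL.cons 13 (TM.mk (P.lf 0 4294967296 0) 0)
 EL.nil)
noncomputable def S285_314_586_660_28 : EL := (EL.cons 13 (TM.mk (P.cons (P.cons (P.lf 1844180549 0 0) (P.cons (P.lf 322023084 0 0) (P.cons (P.lf 0 17619808 0) (P.lf 0 1957756 0)))) (P.cons (P.cons (P.lf 0 91664694 0) (P.cons (P.lf 0 46550212 0) (P.cons (P.lf 2547040 0 0) (P.lf 283004 0 0)))) (P.cons (P.cons (P.lf 0 99007031 0) (P.cons (P.lf 0 4434296 0) (P.cons (P.lf 242624 0 0) (P.lf 26956 0 0)))) (P.cons (P.cons (P.lf 324660 0 0) (P.cons (P.lf 942704 0 0) (P.cons (P.lf 0 51576 0) P.nil))) (P.cons (P.cons (P.lf 1369795 0 0) (P.cons (P.lf 16396 0 0) P.nil)) (P.cons (P.cons (P.lf 0 38433 0) P.nil) P.nil)))))) 38405)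
 EL.nil)
noncomputable def S285_314_586_660_29 : EL := (EL.cons 13 (TM.mk (P.cons (P.cons (P.lf 0 791857460 0) (P.cons (P.lf 0 276541666 0) (P.cons (P.lf 0 9013026 0) (P.cons (P.lf 4323404 0 0) (P.cons (P.lf 221288 0 0) (P.cons (P.lf 0 16063 0) P.nil)))))) (P.cons (P.cons (P.lf 78718292 0 0) (P.cons (P.lf 53721080 0 0) (P.cons (P.lf 4040974 0 0) (P.cons (P.lf 0 1090475 0) (P.cons (P.lf 0 63976 0) P.nil))))) (P.cons (P.cons (P.lf 83067283 0 0) (P.cons (P.lf 16667498 0 0) (P.cons (P.lf 0 751562 0) (P.cons (P.lf 0 118882 0) P.nil)))) (P.cons (P.cons (P.lf 0 4504891 0) (P.cons (P.lf 0 3193659 0) (P.cons (P.lf 0 62742 0) P.nil))) (P.cons (P.cons (P.lf 0 3444769 0) (P.cons (P.lf 0 376647 0) P.nil)) (P.cons (P.cons (P.lf 106442 0 0) P.nil) P.nil)))))) 329873)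
 EL.nil)
noncomputable def S285_314_586_660_30 : EL := (EL.cons 13 (TM.mk (P.cons (P.lf 0 1408772644 0) (P.cons (P.lf 0 436874896 0) (P.cons (P.lf 15598228 0 0) (P.cons (P.lf 1328688 0 0) (P.cons (P.lf 0 91228 0) (P.cons (P.lf 0 3020 0) P.nil)))))) 560)
 EL.nil)
noncomputable def S285_314_586_660_31 : EL := (EL.cons 13 (TM.mk (P.cons (P.cons (P.lf 604901255 0 0) (P.cons (P.lf 105625323 0 0) (P.cons (P.lf 0 5779392 0) (P.lf 0 642154 0)))) (P.cons (P.cons (P.lf 157519586 0 0) (P.cons (P.lf 17486777 0 0) (P.cons (P.lf 0 956806 0) (P.lf 0 106311 0)))) (P.cons (P.cons (P.lf 0 48496376 0) (P.cons (P.lf 0 7358967 0) (P.cons (P.lf 402652 0 0) (P.lf 44738 0 0)))) (P.cons (P.cons (P.lf 0 10201904 0) (P.cons (P.lf 0 72397 0) (P.cons (P.lf 3962 0 0) P.nil))) (P.cons (P.cons (P.lf 909421 0 0) (P.cons (P.lf 138612 0 0) P.nil)) (P.cons (P.cons (P.lf 155525 0 0) P.nil) P.nil)))))) 49274)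
 EL.nil)
noncomputable def S285_314_586_660_32 : EL := (EL.cons 13 (TM.mk (P.cons (P.cons (P.lf 0 259733555 0) (P.cons (P.lf 0 90707171 0) (P.cons (P.lf 0 2956321 0) (P.cons (P.lf 1418100 0 0) (P.cons (P.lf 72583 0 0) (P.cons (P.lf 0 5268 0) P.nil)))))) (P.cons (P.cons (P.lf 0 54726020 0) (P.cons (P.lf 0 10508420 0) (P.cons (P.lf 408675 0 0) (P.cons (P.lf 82085 0 0) (P.cons (P.lf 1524 0 0) P.nil))))) (P.cons (P.cons (P.lf 38129402 0 0) (P.cons (P.lf 11935752 0 0) (P.cons (P.lf 197255 0 0) (P.cons (P.lf 0 165616 0) P.nil)))) (P.cons (P.cons (P.lf 6930881 0 0) (P.cons (P.lf 538294 0 0) (P.cons (P.lf 0 108914 0) P.nil))) (P.cons (P.cons (P.lf 0 1930981 0) (P.cons (P.lf 0 531419 0) P.nil)) (P.cons (P.cons (P.lf 0 323702 0) P.nil) P.nil)))))) 269683)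
 EL.nil)
noncomputable def S285_314_586_660_33 : EL := (EL.cons 14 (TM.mk (P.lf 8589934592 0 0) 0)
 EL.nil)
noncomputable def S285_314_586_660_34 : EL := (EL.cons 14 (TM.mk (P.cons (P.cons (P.lf 0 3688361098 0) (P.cons (P.lf 0 644046168 0) (P.cons (P.lf 35239616 0 0) (P.lf 3915512 0 0)))) (P.cons (P.cons (P.lf 183329388 0 0) (P.cons (P.lf 93100424 0 0) (P.cons (P.lf 0 5094080 0) (P.lf 0 566008 0)))) (P.cons (P.cons (P.lf 198014062 0 0) (P.cons (P.lf 8868592 0 0) (P.cons (P.lf 0 485248 0) (P.lf 0 53912 0)))) (P.cons (P.cons (P.lf 0 649320 0) (P.cons (P.lf 0 1885408 0) (P.cons (P.lf 103152 0 0) P.nil))) (P.cons (P.cons (P.lf 0 2739590 0) (P.cons (P.lf 0 32792 0) P.nil)) (P.cons (P.cons (P.lf 76866 0 0) P.nil) P.nil)))))) 76810)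
 EL.nil)
noncomputable def S285_314_586_660_35 : EL := (EL.cons 14 (TM.mk (P.cons (P.cons (P.lf 1583714920 0 0) (P.cons (P.lf 553083332 0 0) (P.cons (P.lf 18026052 0 0) (P.cons (P.lf 0 8646808 0) (P.cons (P.lf 0 442576 0) (P.cons (P.lf 32126 0 0) P.nil)))))) (P.cons (P.cons (P.lf 0 157436584 0) (P.cons (P.lf 0 107442160 0) (P.cons (P.lf 0 8081948 0) (P.cons (P.lf 2180950 0 0) (P.cons (P.lf 127952 0 0) P.nil))))) (P.cons (P.cons (P.lf 0 166134566 0) (P.cons (P.lf 0 33334996 0) (P.cons (P.lf 1503124 0 0) (P.cons (P.lf 237764 0 0) P.nil)))) (P.cons (P.cons (P.lf 9009782 0 0) (P.cons (P.lf 6387318 0 0) (P.cons (P.lf 125484 0 0) P.nil))) (P.cons (P.cons (P.lf 6889538 0 0) (P.cons (P.lf 753294 0 0) P.nil)) (P.cons (P.cons (P.lf 0 212884 0) P.nil) P.nil)))))) 659746)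
 EL.nil)
noncomputable def S285_314_586_660_36 : EL := (EL.cons 14 (TM.mk (P.cons (P.lf 2817545288 0 0) (P.cons (P.lf 873749792 0 0) (P.cons (P.lf 0 31196456 0) (P.cons (P.lf 0 2657376 0) (P.cons (P.lf 182456 0 0) (P.cons (P.lf 6040 0 0) P.nil)))))) 1120)
 EL.nil)
noncomputable def S285_314_586_660_37 : EL := (EL.cons 14 (TM.mk (P.cons (P.cons (P.lf 0 1209802510 0) (P.cons (P.lf 0 211250646 0) (P.cons (P.lf 11558784 0 0) (P.lf 1284308 0 0)))) (P.cons (P.cons (P.lf 0 315039172 0) (P.cons (P.lf 0 34973554 0) (P.cons (P.lf 1913612 0 0) (P.lf 212622 0 0)))) (P.cons (P.cons (P.lf 96992752 0 0) (P.cons (P.lf 14717934 0 0) (P.cons (P.lf 0 805304 0) (P.lf 0 89476 0)))) (P.cons (P.cons (P.lf 20403808 0 0) (P.cons (P.lf 144794 0 0) (P.cons (P.lf 0 7924 0) P.nil))) (P.cons (P.cons (P.lf 0 1818842 0) (P.cons (P.lf 0 277224 0) P.nil)) (P.cons (P.cons (P.lf 0 311050 0) P.nil) P.nil))))))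 98548)
 EL.nil)
noncomputable def S285_314_586_660_38 : EL := (EL.cons 14 (TM.mk (P.cons (P.cons (P.lf 519467110 0 0) (P.cons (P.lf 181414342 0 0) (P.cons (P.lf 5912642 0 0) (P.cons (P.lf 0 2836200 0) (P.cons (P.lf 0 145166 0) (P.cons (P.lf 10536 0 0) P.nil)))))) (P.cons (P.cons (P.lf 109452040 0 0) (P.cons (P.lf 21016840 0 0) (P.cons (P.lf 0 817350 0) (P.cons (P.lf 0 164170 0) (P.cons (P.lf 0 3048 0) P.nil))))) (P.cons (P.cons (P.lf 0 76258804 0) (P.cons (P.lf 0 23871504 0) (P.cons (P.lf 0 394510 0) (P.cons (P.lf 331232 0 0) P.nil)))) (P.cons (P.cons (P.lf 0 13861762 0) (P.cons (P.lf 0 1076588 0) (P.cons (P.lf 217828 0 0) P.nil))) (P.cons (P.cons (P.lf 3861962 0 0) (P.cons (P.lf 1062838 0 0) P.nil)) (P.cons (P.cons (P.lf 647404 0 0) P.nil) P.nil)))))) 539366)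
 EL.nil)
noncomputable def S285_314_586_660_39 : EL := (EL.cons 14 (TM.mk (P.cons (P.lf 924170186 0 0) (P.cons (P.lf 573189372 0 0) (P.cons (P.lf 68410746 0 0) (P.cons (P.lf 0 8089740 0) (P.cons (P.lf 0 307614 0) (P.cons (P.lf 60382 0 0) P.nil)))))) 4526)
 EL.nil)
noncomputable def S285_314_586_660_40 : EL := (EL.cons 14 (TM.mk (P.cons (P.cons (P.lf 0 396821806 0) (P.cons (P.lf 0 69291360 0) (P.cons (P.lf 3791344 0 0) (P.lf 421260 0 0)))) (P.cons (P.cons (P.lf 0 226393088 0) (P.cons (P.lf 0 32959480 0) (P.cons (P.lf 1803410 0 0) (P.lf 200378 0 0)))) (P.cons (P.cons (P.lf 4162734 0 0) (P.cons (P.lf 2037336 0 0) (P.cons (P.lf 0 111474 0) (P.lf 0 12384 0)))) (P.cons (P.cons (P.lf 18076860 0 0) (P.cons (P.lf 1736936 0 0) (P.cons (P.lf 0 95038 0) P.nil))) (P.cons (P.cons (P.lf 1198350 0 0) (P.cons (P.lf 0 123322 0) P.nil)) (P.cons (P.cons (P.lf 0 398684 0) P.nil) P.nil))))))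 125696)
 EL.nil)
noncomputable def S285_314_586_660_41 : EL := (EL.cons 14 (TM.mk (P.cons (P.cons (P.lf 170388038 0 0) (P.cons (P.lf 59504890 0 0) (P.cons (P.lf 1939378 0 0) (P.cons (P.lf 0 930288 0) (P.cons (P.lf 0 47614 0) (P.cons (P.lf 3456 0 0) P.nil)))))) (P.cons (P.cons (P.lf 88739948 0 0) (P.cons (P.lf 25346716 0 0) (P.cons (P.lf 333324 0 0) (P.cons (P.lf 0 342340 0) (P.cons (P.lf 0 15766 0) P.nil))))) (P.cons (P.cons (P.lf 0 15766646 0) (P.cons (P.lf 0 6351046 0) (P.cons (P.lf 0 234014 0) (P.cons (P.lf 102246 0 0) P.nil)))) (P.cons (P.cons (P.lf 0 12861818 0) (P.cons (P.lf 0 2913734 0) (P.cons (P.lf 32458 0 0) P.nil))) (P.cons (P.cons (P.lf 110882 0 0) (P.cons (P.lf 323154 0 0) P.nil)) (P.cons (P.cons (P.lf 681806 0 0) P.nil) P.nil)))))) 466466)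
 EL.nil)
noncomputable def S285_314_586_660_42 : EL := (EL.cons 14 (TM.mk (P.cons (P.lf 303132848 0 0) (P.cons (P.lf 282013848 0 0) (P.cons (P.lf 77386344 0 0) (P.cons (P.lf 1937536 0 0) (P.cons (P.lf 0 1329912 0) (P.cons (P.lf 9556 0 0) P.nil)))))) 14366)
 EL.nil)
noncomputable def S285_314_586_660_43 : EL := (EL.cons 14 (TM.mk (P.cons (P.cons (P.lf 0 130159710 0) (P.cons (P.lf 0 22727942 0) (P.cons (P.lf 1243580 0 0) (P.lf 138174 0 0)))) (P.cons (P.cons (P.lf 0 114622030 0) (P.cons (P.lf 0 17859058 0) (P.cons (P.lf 977174 0 0) (P.lf 108574 0 0)))) (P.cons (P.cons (P.lf 0 20221664 0) (P.cons (P.lf 0 2432662 0) (P.cons (P.lf 133104 0 0) (P.lf 14788 0 0)))) (P.cons (P.cons (P.lf 7297696 0 0) (P.cons (P.lf 918094 0 0) (P.cons (P.lf 0 50234 0) P.nil))) (P.cons (P.cons (P.lf 2278294 0 0) (P.cons (P.lf 137552 0 0) P.nil)) (P.cons (P.cons (P.lf 0 80902 0) P.nil) P.nil))))))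 137572)
 EL.nil)
noncomputable def S285_314_586_660_44 : EL := (EL.cons 14 (TM.mk (P.cons (P.cons (P.lf 55888202 0 0) (P.cons (P.lf 19517928 0 0) (P.cons (P.lf 636126 0 0) (P.cons (P.lf 0 305138 0) (P.cons (P.lf 0 15618 0) (P.cons (P.lf 1132 0 0) P.nil)))))) (P.cons (P.cons (P.lf 46438692 0 0) (P.cons (P.lf 14366570 0 0) (P.cons (P.lf 306602 0 0) (P.cons (P.lf 0 206916 0) (P.cons (P.lf 0 10014 0) P.nil))))) (P.cons (P.cons (P.lf 3236084 0 0) (P.cons (P.lf 278928 0 0) (P.cons (P.lf 0 49896 0) (P.cons (P.lf 2092 0 0) P.nil)))) (P.cons (P.cons (P.lf 0 6197488 0) (P.cons (P.lf 0 1712196 0) (P.cons (P.lf 0 14966 0) P.nil))) (P.cons (P.cons (P.lf 0 1238478 0) (P.cons (P.lf 0 173894 0) P.nil)) (P.cons (P.cons (P.lf 288508 0 0) P.nil) P.nil)))))) 350750)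
 EL.nil)
noncomputable def S285_314_586_660_45 : EL := (EL.cons 14 (TM.mk (P.cons (P.cons (P.lf 0 680018274 0) (P.cons (P.lf 0 356225828 0) (P.cons (P.lf 0 42711416 0) (P.cons (P.lf 5352128 0 0) (P.cons (P.lf 1164404 0 0) (P.cons (P.lf 0 7866 0) P.nil)))))) (P.cons (P.cons (P.lf 101400592 0 0) (P.cons (P.lf 86906700 0 0) (P.cons (P.lf 16320062 0 0) (P.cons (P.lf 0 1264558 0) (P.cons (P.lf 0 450886 0) P.nil))))) (P.cons (P.cons (P.lf 104482674 0 0) (P.cons (P.lf 37154964 0 0) (P.cons (P.lf 825862 0 0) (P.cons (P.lf 0 616128 0) P.nil)))) (P.cons (P.cons (P.lf 0 11163258 0) (P.cons (P.lf 0 8958892 0) (P.cons (P.lf 0 1118590 0) P.nil))) (P.cons (P.cons (P.lf 0 7088858 0) (P.cons (P.lf 0 1685756 0) P.nil)) (P.cons (P.cons (P.lf 523080 0 0) P.nil) P.nil)))))) 1704820)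
 EL.nil)
noncomputable def S285_314_586_660_46 : EL := (EL.cons 15 (TM.mk (P.lf 4294967296 0 0) 0)
 EL.nil)
noncomputable def S285_314_586_660_47 : EL := (EL.cons 15 (TM.mk (P.cons (P.cons (P.lf 0 1844180549 0) (P.cons (P.lf 0 322023084 0) (P.cons (P.lf 17619808 0 0) (P.lf 1957756 0 0)))) (P.cons (P.cons (P.lf 91664694 0 0) (P.cons (P.lf 46550212 0 0) (P.cons (P.lf 0 2547040 0) (P.lf 0 283004 0)))) (P.cons (P.cons (P.lf 99007031 0 0) (P.cons (P.lf 4434296 0 0) (P.cons (P.lf 0 242624 0) (P.lf 0 26956 0)))) (P.cons (P.cons (P.lf 0 324660 0) (P.cons (P.lf 0 942704 0) (P.cons (P.lf 51576 0 0) P.nil))) (P.cons (P.cons (P.lf 0 1369795 0) (P.cons (P.lf 0 16396 0) P.nil)) (P.cons (P.cons (P.lf 38433 0 0) P.nil) P.nil)))))) 38405)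
 EL.nil)
noncomputable def S285_314_586_660_48 : EL := (EL.cons 15 (TM.mk (P.cons (P.cons (P.lf 791857460 0 0) (P.cons (P.lf 276541666 0 0) (P.cons (P.lf 9013026 0 0) (P.cons (P.lf 0 4323404 0) (P.cons (P.lf 0 221288 0) (P.cons (P.lf 16063 0 0) P.nil)))))) (P.cons (P.cons (P.lf 0 78718292 0) (P.cons (P.lf 0 53721080 0) (P.cons (P.lf 0 4040974 0) (P.cons (P.lf 1090475 0 0) (P.cons (P.lf 63976 0 0) P.nil))))) (P.cons (P.cons (P.lf 0 83067283 0) (P.cons (P.lf 0 16667498 0) (P.cons (P.lf 751562 0 0) (P.cons (P.lf 118882 0 0) P.nil)))) (P.cons (P.cons (P.lf 4504891 0 0) (P.cons (P.lf 3193659 0 0) (P.cons (P.lf 62742 0 0) P.nil))) (P.cons (P.cons (P.lf 3444769 0 0) (P.cons (P.lf 376647 0 0) P.nil)) (P.cons (P.cons (P.lf 0 106442 0) P.nil) P.nil)))))) 329873)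
 EL.nil)
noncomputable def S285_314_586_660 : SL := (SL.cons S285_314_586_660_0 (SL.cons S285_314_586_660_1 (SL.cons S285_314_586_660_2 (SL.cons S285_314_586_660_3 (SL.cons S285_314_586_660_4 (SL.cons S285_314_586_660_5 (SL.cons S285_314_586_660_6 (SL.cons S285_314_586_660_7 (SL.cons S285_314_586_660_8 (SL.cons S285_314_586_660_9 (SL.cons S285_314_586_660_10 (SL.cons S285_314_586_660_11 (SL.cons S285_314_586_660_12 (SL.cons S285_314_586_660_13 (SL.cons S285_314_586_660_14 (SL.cons S285_314_586_660_15 (SL.cons S285_314_586_660_16 (SL.cons S285_314_586_660_17 (SL.cons S285_314_586_660_18 (SL.cons S285_314_586_660_19 (SL.cons S285_314_586_660_20 (SL.cons S285_314_586_660_21 (SL.cons S285_314_586_660_22 (SL.cons S285_314_586_660_23 (SL.cons S285_314_586_660_24 (SL.cons S285_314_586_660_25 (SL.cons S285_314_586_660_26 (SL.cons S285_314_586_660_27 (SL.cons S285_314_586_660_28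 (SL.cons S285_314_586_660_29 (SL.cons S285_314_586_660_30 (SL.cons S285_314_586_660_31 (SL.cons S285_314_586_660_32 (SL.cons S285_314_586_660_33 (SL.cons S285_314_586_660_34 (SL.cons S285_314_586_660_35 (SL.cons S285_314_586_660_36 (SL.cons S285_314_586_660_37 (SL.cons S285_314_586_660_38 (SL.cons S285_314_586_660_39 (SL.cons S285_314_586_660_40 (SL.cons S285_314_586_660_41 (SL.cons S285_314_586_660_42 (SL.cons S285_314_586_660_43 (SL.cons S285_314_586_660_44 (SL.cons S285_314_586_660_45 (SL.cons S285_314_586_660_46 (SL.cons S285_314_586_660_47 (SL.cons S285_314_586_660_48 SL.nil)))))))))))))))))))))))))))))))))))))))))))))))))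
noncomputable def S285_314_660_734_0 : EL := (EL.cons 0 (TM.mk (P.cons (P.lf 7643457911 0 0) (P.cons (P.lf 0 503779721 0) (P.cons (P.lf 0 60126632 0) (P.cons (P.lf 7110123 0 0) (P.cons (P.lf 270363 0 0) (P.cons (P.lf 0 53070 0) P.nil)))))) 3984)
 (EL.cons 1 (TM.mk (P.cons (P.lf 1228710643 0 0) (P.cons (P.lf 321830180 0 0) (P.cons (P.lf 0 40457490 0) (P.cons (P.lf 0 2710608 0) (P.cons (P.lf 384633 0 0) (P.cons (P.lf 7027 0 0) P.nil)))))) 2881)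
 (EL.cons 5 (TM.mk (P.cons (P.lf 4583770480 0 0) (P.cons (P.lf 179121676 0 0) (P.cons (P.lf 21378358 0 0) (P.cons (P.lf 0 2528040 0) (P.cons (P.lf 0 96128 0) (P.cons (P.lf 18870 0 0) P.nil)))))) 1697)
 (EL.cons 9 (TM.mk (P.lf 6442450944 0 0) 2)
 EL.nil))))
noncomputable def S285_314_660_734_1 : EL := (EL.cons 0 (TM.mk (P.cons (P.cons (P.lf 0 3598526708 0) (P.cons (P.lf 0 276460225 0) (P.cons (P.lf 35600093 0 0) (P.lf 2373343 0 0)))) (P.cons (P.cons (P.lf 1618729207 0 0) (P.cons (P.lf 146961022 0 0) (P.cons (P.lf 0 18924325 0) (P.lf 0 1261616 0)))) (P.cons (P.cons (P.lf 403498477 0 0) (P.cons (P.lf 1110088 0 0) (P.cons (P.lf 0 142947 0) (P.lf 0 9532 0)))) (P.cons (P.cons (P.lf 0 71475362 0) (P.cons (P.lf 0 5638793 0) (P.cons (P.lf 726101 0 0) P.nil))) (P.cons (P.cons (P.lf 0 9817349 0) (P.cons (P.lf 284167 0 0) P.nil)) (P.cons (P.cons (P.lf 1722875 0 0) P.nil) P.nil))))))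 599434)
 (EL.cons 1 (TM.mk (P.cons (P.cons (P.lf 0 1119233383 0) (P.cons (P.lf 0 147896933 0) (P.cons (P.lf 19044844 0 0) (P.lf 1269653 0 0)))) (P.cons (P.cons (P.lf 0 577145806 0) (P.cons (P.lf 0 6462254 0) (P.cons (P.lf 832153 0 0) (P.lf 55474 0 0)))) (P.cons (P.cons (P.lf 202835226 0 0) (P.cons (P.lf 16135580 0 0) (P.cons (P.lf 0 2077790 0) (P.lf 0 138513 0)))) (P.cons (P.cons (P.lf 32930646 0 0) (P.cons (P.lf 0 724644 0) (P.cons (P.lf 93309 0 0) P.nil))) (P.cons (P.cons (P.lf 0 6812927 0) (P.cons (P.lf 0 411081 0) P.nil)) (P.cons (P.cons (P.lf 0 563316 0) P.nil) P.nil)))))) 334022)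
 (EL.cons 5 (TM.mk (P.cons (P.cons (P.lf 0 2804069069 0) (P.cons (P.lf 0 289389334 0) (P.cons (P.lf 37264982 0 0) (P.lf 2484334 0 0)))) (P.cons (P.cons (P.lf 0 282616181 0) (P.cons (P.lf 3789384 0 0) (P.cons (P.lf 0 487968 0) (P.lf 0 32540 0)))) (P.cons (P.cons (P.lf 37905958 0 0) (P.cons (P.lf 4943794 0 0) (P.cons (P.lf 0 636618 0) (P.lf 0 42438 0)))) (P.cons (P.cons (P.lf 22085020 0 0) (P.cons (P.lf 869966 0 0) (P.cons (P.lf 0 112022 0) P.nil))) (P.cons (P.cons (P.lf 1113645 0 0) (P.cons (P.lf 0 120780 0) P.nil)) (P.cons (P.cons (P.lf 0 519146 0) P.nil) P.nil)))))) 305778)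
 (EL.cons 9 (TM.mk (P.cons (P.cons (P.lf 0 3603128137 0) (P.cons (P.lf 0 342076146 0) (P.cons (P.lf 44049522 0 0) (P.lf 2936634 0 0)))) (P.cons (P.cons (P.lf 258469389 0 0) (P.cons (P.lf 49448988 0 0) (P.cons (P.lf 0 6367596 0) (P.lf 0 424506 0)))) (P.cons (P.cons (P.lf 160034182 0 0) (P.cons (P.lf 4710432 0 0) (P.cons (P.lf 0 606564 0) (P.lf 0 40434 0)))) (P.cons (P.cons (P.lf 0 2936856 0) (P.cons (P.lf 0 1001406 0) (P.cons (P.lf 128946 0 0) P.nil))) (P.cons (P.cons (P.lf 0 2097316 0) (P.cons (P.lf 0 17418 0) P.nil)) (P.cons (P.cons (P.lf 82435 0 0) P.nil) P.nil)))))) 60476)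
 (EL.cons 2 (TM.mk (P.cons (P.cons (P.lf 0 487491066 0) (P.cons (P.lf 139167683 0 0) (P.cons (P.lf 10409518 0 0) (P.cons (P.lf 0 701448 0) (P.lf 0 35071 0))))) (P.cons (P.cons (P.lf 0 104196315 0) (P.cons (P.lf 29745691 0 0) (P.cons (P.lf 2224929 0 0) (P.cons (P.lf 0 149925 0) (P.lf 0 7495 0))))) (P.cons (P.cons (P.lf 25573559 0 0) (P.cons (P.lf 0 7300670 0) (P.cons (P.lf 0 546075 0) (P.cons (P.lf 36795 0 0) P.nil)))) (P.cons (P.cons (P.lf 1015371 0 0) (P.cons (P.lf 0 289864 0) (P.cons (P.lf 0 21681 0) P.nil))) (P.cons (P.cons (P.lf 0 368789 0) (P.cons (P.lf 105280 0 0) P.nil)) (P.cons (P.cons (P.lf 1178 0 0) P.nil) P.nil)))))) 29625)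
 (EL.cons 6 (TM.mk (P.cons (P.cons (P.lf 737431656 0 0) (P.cons (P.lf 0 210520071 0) (P.cons (P.lf 0 15746562 0) (P.cons (P.lf 1061085 0 0) (P.lf 53052 0 0))))) (P.cons (P.cons (P.lf 0 106599813 0) (P.cons (P.lf 30431835 0 0) (P.cons (P.lf 2276250 0 0) (P.cons (P.lf 0 153384 0) (P.lf 0 7668 0))))) (P.cons (P.cons (P.lf 0 10154532 0) (P.cons (P.lf 2898888 0 0) (P.cons (P.lf 216831 0 0) (P.cons (P.lf 0 14610 0) P.nil)))) (P.cons (P.cons (P.lf 2158800 0 0) (P.cons (P.lf 0 616287 0) (P.cons (P.lf 0 46095 0) P.nil))) (P.cons (P.cons (P.lf 37557 0 0) (P.cons (P.lf 0 10722 0) P.nil)) (P.cons (P.cons (P.lf 0 21837 0) P.nil) P.nil)))))) 18396)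
 EL.nil))))))
noncomputable def S285_314_660_734_2 : EL := (EL.cons 0 (TM.mk (P.cons (P.cons (P.lf 1634340573 0 0) (P.cons (P.lf 237417619 0 0) (P.cons (P.lf 0 22763309 0) (P.cons (P.lf 0 4049379 0) (P.cons (P.lf 0 4592 0) (P.cons (P.lf 17267 0 0) P.nil)))))) (P.cons (P.cons (P.lf 0 1598798085 0) (P.cons (P.lf 0 285600068 0) (P.cons (P.lf 24577097 0 0) (P.cons (P.lf 5593789 0 0) (P.cons (P.lf 7158 0 0) P.nil))))) (P.cons (P.cons (P.lf 0 303954631 0) (P.cons (P.lf 0 7640727 0) (P.cons (P.lf 2619801 0 0) (P.cons (P.lf 0 355712 0) P.nil)))) (P.cons (P.cons (P.lf 158785469 0 0) (P.cons (P.lf 23532402 0 0) (P.cons (P.lf 0 2404031 0) P.nil))) (P.cons (P.cons (P.lf 18861035 0 0) (P.cons (P.lf 0 795565 0) P.nil)) (P.cons (P.cons (P.lf 0 6456364 0) P.nil) P.nil)))))) 4002827)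
 (EL.cons 1 (TM.mk (P.cons (P.cons (P.lf 867595446 0 0) (P.cons (P.lf 211311688 0 0) (P.cons (P.lf 0 14969123 0) (P.cons (P.lf 0 4966807 0) (P.cons (P.lf 0 7191 0) (P.cons (P.lf 27065 0 0) P.nil)))))) (P.cons (P.cons (P.lf 510238151 0 0) (P.cons (P.lf 36139306 0 0) (P.cons (P.lf 0 6143636 0) (P.cons (P.lf 73480 0 0) (P.cons (P.lf 874 0 0) P.nil))))) (P.cons (P.cons (P.lf 0 269537537 0) (P.cons (P.lf 0 47924702 0) (P.cons (P.lf 4541719 0 0) (P.cons (P.lf 831092 0 0) P.nil)))) (P.cons (P.cons (P.lf 0 43831361 0) (P.cons (P.lf 781209 0 0) (P.cons (P.lf 207203 0 0) P.nil))) (P.cons (P.cons (P.lf 18327788 0 0) (P.cons (P.lf 2563983 0 0) P.nil)) (P.cons (P.cons (P.lf 1700551 0 0) P.nil) P.nil)))))) 2160980)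
 (EL.cons 5 (TM.mk (P.cons (P.cons (P.lf 1702742606 0 0) (P.cons (P.lf 349234529 0 0) (P.cons (P.lf 0 27162867 0) (P.cons (P.lf 0 7584505 0) (P.cons (P.lf 0 10461 0) (P.cons (P.lf 39372 0 0) P.nil)))))) (P.cons (P.cons (P.lf 240800067 0 0) (P.cons (P.lf 7752493 0 0) (P.cons (P.lf 0 2611905 0) (P.cons (P.lf 349039 0 0) (P.cons (P.lf 964 0 0) P.nil))))) (P.cons (P.cons (P.lf 0 83050124 0) (P.cons (P.lf 0 18018611 0) (P.cons (P.lf 1601858 0 0) (P.cons (P.lf 339705 0 0) P.nil)))) (P.cons (P.cons (P.lf 0 38180804 0) (P.cons (P.lf 0 3531527 0) (P.cons (P.lf 434558 0 0) P.nil))) (P.cons (P.cons (P.lf 190951 0 0) (P.cons (P.lf 680432 0 0) P.nil)) (P.cons (P.cons (P.lf 1834993 0 0) P.nil) P.nil)))))) 2006452)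
 (EL.cons 9 (TM.mk (P.cons (P.cons (P.lf 2015154246 0 0) (P.cons (P.lf 382632075 0 0) (P.cons (P.lf 0 31108665 0) (P.cons (P.lf 0 7962609 0) (P.cons (P.lf 0 10669 0) (P.cons (P.lf 40156 0 0) P.nil)))))) (P.cons (P.cons (P.lf 0 289113051 0) (P.cons (P.lf 0 82759575 0) (P.cons (P.lf 5405829 0 0) (P.cons (P.lf 2062875 0 0) (P.cons (P.lf 3084 0 0) P.nil))))) (P.cons (P.cons (P.lf 0 168637822 0) (P.cons (P.lf 0 18295867 0) (P.cons (P.lf 2235298 0 0) (P.cons (P.lf 188139 0 0) P.nil)))) (P.cons (P.cons (P.lf 16126099 0 0) (P.cons (P.lf 4266652 0 0) (P.cons (P.lf 0 370759 0) P.nil))) (P.cons (P.cons (P.lf 6085659 0 0) (P.cons (P.lf 350790 0 0) P.nil)) (P.cons (P.cons (P.lf 0 406402 0) P.nil) P.nil)))))) 551294)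
 (EL.cons 2 (TM.mk (P.cons (P.cons (P.lf 545287123 0 0) (P.cons (P.lf 0 103898323 0) (P.cons (P.lf 0 33088809 0) (P.cons (P.lf 1137841 0 0) (P.cons (P.lf 382938 0 0) (P.cons (P.lf 3616 0 0) P.nil)))))) (P.cons (P.cons (P.lf 77433620 0 0) (P.cons (P.lf 0 18523951 0) (P.cons (P.lf 0 3137130 0) (P.cons (P.lf 135855 0 0) (P.cons (P.lf 29345 0 0) P.nil))))) (P.cons (P.cons (P.lf 0 61185285 0) (P.cons (P.lf 12438866 0 0) (P.cons (P.lf 3389405 0 0) (P.cons (P.lf 0 122343 0) P.nil)))) (P.cons (P.cons (P.lf 0 3815876 0) (P.cons (P.lf 1373281 0 0) (P.cons (P.lf 0 36135 0) P.nil))) (P.cons (P.cons (P.lf 2176908 0 0) (P.cons (P.lf 0 494280 0) P.nil)) (P.cons (P.cons (P.lf 51581 0 0) P.nil) P.nil)))))) 433034)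
 (EL.cons 6 (TM.mk (P.cons (P.cons (P.lf 0 824860212 0) (P.cons (P.lf 157167828 0 0) (P.cons (P.lf 50053704 0 0) (P.cons (P.lf 0 1721220 0) (P.cons (P.lf 0 579276 0) (P.cons (P.lf 0 5478 0) P.nil)))))) (P.cons (P.cons (P.lf 178409208 0 0) (P.cons (P.lf 0 28291188 0) (P.cons (P.lf 0 13188444 0) (P.cons (P.lf 411186 0 0) (P.cons (P.lf 163146 0 0) P.nil))))) (P.cons (P.cons (P.lf 39441372 0 0) (P.cons (P.lf 0 10739322 0) (P.cons (P.lf 0 1057728 0) (P.cons (P.lf 60300 0 0) P.nil)))) (P.cons (P.cons (P.lf 0 9197868 0) (P.cons (P.lf 1855512 0 0) (P.cons (P.lf 515478 0 0) P.nil))) (P.cons (P.cons (P.lf 0 756222 0) (P.cons (P.lf 259332 0 0) P.nil)) (P.cons (P.cons (P.lf 232224 0 0) P.nil) P.nil)))))) 333474)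
 EL.nil))))))
noncomputable def S285_314_660_734_3 : EL := (EL.cons 0 (TM.mk (P.cons (P.lf 812258952 0 0) (P.cons (P.lf 503779721 0 0) (P.cons (P.lf 60126632 0 0) (P.cons (P.lf 0 7110123 0) (P.cons (P.lf 0 270363 0) (P.cons (P.lf 53070 0 0) P.nil)))))) 3984)
 (EL.cons 1 (TM.mk (P.cons (P.lf 0 1228710643 0) (P.cons (P.lf 0 321830180 0) (P.cons (P.lf 40457490 0 0) (P.cons (P.lf 2710608 0 0) (P.cons (P.lf 0 384633 0) (P.cons (P.lf 0 7027 0) P.nil)))))) 2881)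
 (EL.cons 5 (TM.mk (P.cons (P.lf 1858680464 0 0) (P.cons (P.lf 0 179121676 0) (P.cons (P.lf 0 21378358 0) (P.cons (P.lf 2528040 0 0) (P.cons (P.lf 96128 0 0) (P.cons (P.lf 0 18870 0) P.nil)))))) 1690)
 EL.nil)))
noncomputable def S285_314_660_734_4 : EL := (EL.cons 0 (TM.mk (P.cons (P.cons (P.lf 0 454279450 0) (P.cons (P.lf 0 43128680 0) (P.cons (P.lf 5553727 0 0) (P.lf 370248 0 0)))) (P.cons (P.cons (P.lf 0 249165856 0) (P.cons (P.lf 0 20514807 0) (P.cons (P.lf 2641714 0 0) (P.lf 176113 0 0)))) (P.cons (P.cons (P.lf 6760916 0 0) (P.cons (P.lf 1268087 0 0) (P.cons (P.lf 0 163291 0) (P.lf 0 10884 0)))) (P.cons (P.cons (P.lf 18532708 0 0) (P.cons (P.lf 1081112 0 0) (P.cons (P.lf 0 139215 0) P.nil))) (P.cons (P.cons (P.lf 865450 0 0) (P.cons (P.lf 0 76758 0) P.nil)) (P.cons (P.cons (P.lf 0 398165 0) P.nil) P.nil)))))) 120219)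
 (EL.cons 1 (TM.mk (P.cons (P.cons (P.lf 687192176 0 0) (P.cons (P.lf 65241101 0 0) (P.cons (P.lf 0 8401166 0) (P.lf 0 560075 0)))) (P.cons (P.cons (P.lf 130697353 0 0) (P.cons (P.lf 7657321 0 0) (P.cons (P.lf 0 986041 0) (P.lf 0 65733 0)))) (P.cons (P.cons (P.lf 0 66060645 0) (P.cons (P.lf 0 5516761 0) (P.cons (P.lf 710398 0 0) (P.lf 47358 0 0)))) (P.cons (P.cons (P.lf 0 7327168 0) (P.cons (P.lf 122285 0 0) (P.cons (P.lf 0 15746 0) P.nil))) (P.cons (P.cons (P.lf 1875564 0 0) (P.cons (P.lf 124155 0 0) P.nil)) (P.cons (P.cons (P.lf 126436 0 0) P.nil) P.nil)))))) 85843)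
 (EL.cons 5 (TM.mk (P.cons (P.cons (P.lf 0 1039521128 0) (P.cons (P.lf 0 98690738 0) (P.cons (P.lf 12708514 0 0) (P.lf 847232 0 0)))) (P.cons (P.cons (P.lf 174748766 0 0) (P.cons (P.lf 23777148 0 0) (P.cons (P.lf 0 3061806 0) (P.lf 0 204118 0)))) (P.cons (P.cons (P.lf 50940846 0 0) (P.cons (P.lf 1119266 0 0) (P.cons (P.lf 0 144126 0) (P.lf 0 9606 0)))) (P.cons (P.cons (P.lf 0 7568356 0) (P.cons (P.lf 0 718196 0) (P.cons (P.lf 92480 0 0) P.nil))) (P.cons (P.cons (P.lf 0 1006820 0) (P.cons (P.lf 21486 0 0) P.nil)) (P.cons (P.cons (P.lf 169048 0 0) P.nil) P.nil)))))) 63604)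
 EL.nil)))
noncomputable def S285_314_660_734_5 : EL := (EL.cons 0 (TM.mk (P.cons (P.cons (P.lf 254068999 0 0) (P.cons (P.lf 48241938 0 0) (P.cons (P.lf 0 3922154 0) (P.cons (P.lf 0 1003918 0) (P.cons (P.lf 0 1344 0) (P.cons (P.lf 5062 0 0) P.nil)))))) (P.cons (P.cons (P.lf 121127686 0 0) (P.cons (P.lf 19486383 0 0) (P.cons (P.lf 0 1751037 0) (P.cons (P.lf 0 362564 0) (P.cons (P.lf 0 444 0) P.nil))))) (P.cons (P.cons (P.lf 0 25062268 0) (P.cons (P.lf 0 5207210 0) (P.cons (P.lf 414209 0 0) (P.cons (P.lf 110715 0 0) P.nil)))) (P.cons (P.cons (P.lf 0 16076044 0) (P.cons (P.lf 0 2087414 0) (P.cons (P.lf 212832 0 0) P.nil))) (P.cons (P.cons (P.lf 688916 0 0) (P.cons (P.lf 282390 0 0) P.nil)) (P.cons (P.cons (P.lf 789990 0 0) P.nil) P.nil)))))) 469482)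
 (EL.cons 1 (TM.mk (P.cons (P.cons (P.lf 0 384332218 0) (P.cons (P.lf 0 72975967 0) (P.cons (P.lf 5933073 0 0) (P.cons (P.lf 1518635 0 0) (P.cons (P.lf 2034 0 0) (P.cons (P.lf 0 7657 0) P.nil)))))) (P.cons (P.cons (P.lf 0 45526333 0) (P.cons (P.lf 0 3330249 0) (P.cons (P.lf 523014 0 0) (P.cons (P.lf 4335 0 0) (P.cons (P.lf 0 54 0) P.nil))))) (P.cons (P.cons (P.lf 59260128 0 0) (P.cons (P.lf 10026491 0 0) (P.cons (P.lf 0 891720 0) (P.cons (P.lf 0 188934 0) P.nil)))) (P.cons (P.cons (P.lf 4380930 0 0) (P.cons (P.lf 0 258504 0) (P.cons (P.lf 0 20092 0) P.nil))) (P.cons (P.cons (P.lf 0 3267204 0) (P.cons (P.lf 0 452600 0) P.nil)) (P.cons (P.cons (P.lf 0 181117 0) P.nil) P.nil)))))) 368712)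
 (EL.cons 5 (TM.mk (P.cons (P.cons (P.lf 581382436 0 0) (P.cons (P.lf 110391334 0 0) (P.cons (P.lf 0 8975010 0) (P.cons (P.lf 0 2297252 0) (P.cons (P.lf 0 3076 0) (P.cons (P.lf 11584 0 0) P.nil)))))) (P.cons (P.cons (P.lf 0 139438638 0) (P.cons (P.lf 0 34515016 0) (P.cons (P.lf 2424534 0 0) (P.cons (P.lf 816536 0 0) (P.cons (P.lf 1184 0 0) P.nil))))) (P.cons (P.cons (P.lf 0 47301578 0) (P.cons (P.lf 0 4247168 0) (P.cons (P.lf 597824 0 0) (P.cons (P.lf 23346 0 0) P.nil)))) (P.cons (P.cons (P.lf 11091292 0 0) (P.cons (P.lf 2164408 0 0) (P.cons (P.lf 0 199258 0) P.nil))) (P.cons (P.cons (P.lf 1783604 0 0) (P.cons (P.lf 16522 0 0) P.nil)) (P.cons (P.cons (P.lf 0 416352 0) P.nil) P.nil)))))) 313850)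
 EL.nil)))
noncomputable def S285_314_660_734_6 : EL := (EL.cons 12 (TM.mk (P.lf 8589934592 0 0) 0)
 (EL.cons 3 (TM.mk (P.cons (P.lf 1320724353 0 0) (P.cons (P.lf 409570215 0 0) (P.cons (P.lf 0 14623338 0) (P.cons (P.lf 0 1245645 0) (P.cons (P.lf 85526 0 0) (P.cons (P.lf 2831 0 0) P.nil)))))) 532)
 (EL.cons 7 (TM.mk (P.cons (P.lf 0 1997870342 0) (P.cons (P.lf 96267727 0 0) (P.cons (P.lf 13808992 0 0) (P.cons (P.lf 0 693290 0) (P.cons (P.lf 0 37347 0) (P.cons (P.lf 3551 0 0) P.nil)))))) 296)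
 EL.nil)))
noncomputable def S285_314_660_734_7 : EL := (EL.cons 12 (TM.mk (P.cons (P.cons (P.lf 0 4804170850 0) (P.cons (P.lf 0 456101528 0) (P.cons (P.lf 58732696 0 0) (P.lf 3915512 0 0)))) (P.cons (P.cons (P.lf 344625852 0 0) (P.cons (P.lf 65931984 0 0) (P.cons (P.lf 0 8490128 0) (P.lf 0 566008 0)))) (P.cons (P.cons (P.lf 213378910 0 0) (P.cons (P.lf 6280576 0 0) (P.cons (P.lf 0 808752 0) (P.lf 0 53912 0)))) (P.cons (P.cons (P.lf 0 3915808 0) (P.cons (P.lf 0 1335208 0) (P.cons (P.lf 171928 0 0) P.nil))) (P.cons (P.cons (P.lf 0 2796422 0) (P.cons (P.lf 0 23224 0) P.nil)) (P.cons (P.cons (P.lf 109914 0 0) P.nil) P.nil)))))) 80610)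
 (EL.cons 3 (TM.mk (P.cons (P.cons (P.lf 361002263 0 0) (P.cons (P.lf 140253544 0 0) (P.cons (P.lf 0 18060600 0) (P.lf 0 1204038 0)))) (P.cons (P.cons (P.lf 1158201461 0 0) (P.cons (P.lf 23219644 0 0) (P.cons (P.lf 0 2990020 0) (P.lf 0 199332 0)))) (P.cons (P.cons (P.lf 0 18633239 0) (P.cons (P.lf 0 9771532 0) (P.cons (P.lf 1258288 0 0) (P.lf 83882 0 0)))) (P.cons (P.cons (P.lf 0 30739937 0) (P.cons (P.lf 0 96132 0) (P.cons (P.lf 12380 0 0) P.nil))) (P.cons (P.cons (P.lf 1722867 0 0) (P.cons (P.lf 184054 0 0) P.nil)) (P.cons (P.cons (P.lf 362636 0 0) P.nil) P.nil)))))) 214902)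
 (EL.cons 7 (TM.mk (P.cons (P.cons (P.lf 1375836519 0 0) (P.cons (P.lf 155530330 0 0) (P.cons (P.lf 0 20027815 0) (P.lf 0 1335189 0)))) (P.cons (P.cons (P.lf 272230299 0 0) (P.cons (P.lf 5457676 0 0) (P.cons (P.lf 0 702788 0) (P.lf 0 46851 0)))) (P.cons (P.cons (P.lf 44389775 0 0) (P.cons (P.lf 0 1319026 0) (P.cons (P.lf 169855 0 0) (P.lf 11326 0 0)))) (P.cons (P.cons (P.lf 0 7082317 0) (P.cons (P.lf 0 547364 0) (P.cons (P.lf 70482 0 0) P.nil))) (P.cons (P.cons (P.lf 0 1441619 0) (P.cons (P.lf 24622 0 0) P.nil)) (P.cons (P.cons (P.lf 146754 0 0) P.nil) P.nil)))))) 167718)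
 (EL.cons 10 (TM.mk (P.cons (P.cons (P.lf 0 1585310508 0) (P.cons (P.lf 452570325 0 0) (P.cons (P.lf 33851532 0 0) (P.cons (P.lf 0 2281098 0) (P.lf 0 114054 0))))) (P.cons (P.cons (P.lf 152776917 0 0) (P.cons (P.lf 0 43614357 0) (P.cons (P.lf 0 3262281 0) (P.cons (P.lf 219828 0 0) (P.lf 10989 0 0))))) (P.cons (P.cons (P.lf 18234081 0 0) (P.cons (P.lf 0 5205417 0) (P.cons (P.lf 0 389355 0) (P.cons (P.lf 26235 0 0) P.nil)))) (P.cons (P.cons (P.lf 0 2156220 0) (P.cons (P.lf 615552 0 0) (P.cons (P.lf 46041 0 0) P.nil))) (P.cons (P.cons (P.lf 0 81987 0) (P.cons (P.lf 23406 0 0) P.nil)) (P.cons (P.cons (P.lf 16092 0 0) P.nil) P.nil)))))) 13401)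
 EL.nil))))
noncomputable def S285_314_660_734_8 : EL := (EL.cons 12 (TM.mk (P.cons (P.cons (P.lf 2686872328 0 0) (P.cons (P.lf 510176100 0 0) (P.cons (P.lf 0 41478220 0) (P.cons (P.lf 0 10616812 0) (P.cons (P.lf 0 14226 0) (P.cons (P.lf 53542 0 0) P.nil)))))) (P.cons (P.cons (P.lf 0 385484068 0) (P.cons (P.lf 0 110346100 0) (P.cons (P.lf 7207772 0 0) (P.cons (P.lf 2750500 0 0) (P.cons (P.lf 4112 0 0) P.nil))))) (P.cons (P.cons (P.lf 0 224850430 0) (P.cons (P.lf 0 24394490 0) (P.cons (P.lf 2980398 0 0) (P.cons (P.lf 250852 0 0) P.nil)))) (P.cons (P.cons (P.lf 21501466 0 0) (P.cons (P.lf 5688870 0 0) (P.cons (P.lf 0 494346 0) P.nil))) (P.cons (P.cons (P.lf 8114212 0 0) (P.cons (P.lf 467720 0 0) P.nil)) (P.cons (P.cons (P.lf 0 541870 0) P.nil) P.nil)))))) 735030)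
 (EL.cons 3 (TM.mk (P.cons (P.cons (P.lf 0 816915507 0) (P.cons (P.lf 0 273659044 0) (P.cons (P.lf 16621693 0 0) (P.cons (P.lf 7144121 0 0) (P.cons (P.lf 10935 0 0) (P.cons (P.lf 0 41160 0) P.nil)))))) (P.cons (P.cons (P.lf 0 1335390685 0) (P.cons (P.lf 0 139530764 0) (P.cons (P.lf 17576575 0 0) (P.cons (P.lf 1298515 0 0) (P.cons (P.lf 225 0 0) P.nil))))) (P.cons (P.cons (P.lf 189236210 0 0) (P.cons (P.lf 49927850 0 0) (P.cons (P.lf 0 4430229 0) (P.cons (P.lf 0 943442 0) P.nil)))) (P.cons (P.cons (P.lf 97249337 0 0) (P.cons (P.lf 5083550 0 0) (P.cons (P.lf 0 841417 0) P.nil))) (P.cons (P.cons (P.lf 0 9348612 0) (P.cons (P.lf 0 2261411 0) P.nil)) (P.cons (P.cons (P.lf 0 2819075 0) P.nil) P.nil)))))) 1982632)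
 (EL.cons 7 (TM.mk (P.cons (P.cons (P.lf 0 914033131 0) (P.cons (P.lf 0 201417728 0) (P.cons (P.lf 15052955 0 0) (P.cons (P.lf 4532165 0 0) (P.cons (P.lf 6392 0 0) (P.cons (P.lf 0 24062 0) P.nil)))))) (P.cons (P.cons (P.lf 0 313877862 0) (P.cons (P.lf 0 32796103 0) (P.cons (P.lf 4131293 0 0) (P.cons (P.lf 305207 0 0) (P.cons (P.lf 49 0 0) P.nil))))) (P.cons (P.cons (P.lf 0 11751339 0) (P.cons (P.lf 5859973 0 0) (P.cons (P.lf 0 301198 0) (P.cons (P.lf 0 167076 0) P.nil)))) (P.cons (P.cons (P.lf 32111460 0 0) (P.cons (P.lf 3854750 0 0) (P.cons (P.lf 0 428450 0) P.nil))) (P.cons (P.cons (P.lf 4093884 0 0) (P.cons (P.lf 0 148458 0) P.nil)) (P.cons (P.cons (P.lf 0 1086655 0) P.nil) P.nil)))))) 1181583)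
 (EL.cons 10 (TM.mk (P.cons (P.cons (P.lf 1773262050 0 0) (P.cons (P.lf 0 337875126 0) (P.cons (P.lf 0 107604102 0) (P.cons (P.lf 3700242 0 0) (P.cons (P.lf 1245312 0 0) (P.cons (P.lf 11778 0 0) P.nil)))))) (P.cons (P.cons (P.lf 0 298094328 0) (P.cons (P.lf 44539056 0 0) (P.cons (P.lf 23167248 0 0) (P.cons (P.lf 0 705672 0) (P.cons (P.lf 0 290730 0) P.nil))))) (P.cons (P.cons (P.lf 0 86897190 0) (P.cons (P.lf 22897884 0 0) (P.cons (P.lf 2646456 0 0) (P.cons (P.lf 0 138060 0) P.nil)))) (P.cons (P.cons (P.lf 12910440 0 0) (P.cons (P.lf 0 2460504 0) (P.cons (P.lf 0 783180 0) P.nil))) (P.cons (P.cons (P.lf 1717476 0 0) (P.cons (P.lf 0 526950 0) P.nil)) (P.cons (P.cons (P.lf 0 288366 0) P.nil) P.nil)))))) 483372)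
 EL.nil))))
noncomputable def S285_314_660_734_9 : EL := (EL.cons 3 (TM.mk (P.cons (P.lf 1320724353 0 0) (P.cons (P.lf 409570215 0 0) (P.cons (P.lf 0 14623338 0) (P.cons (P.lf 0 1245645 0) (P.cons (P.lf 85526 0 0) (P.cons (P.lf 2831 0 0) P.nil)))))) 532)
 (EL.cons 7 (TM.mk (P.cons (P.lf 0 1997870342 0) (P.cons (P.lf 96267727 0 0) (P.cons (P.lf 13808992 0 0) (P.cons (P.lf 0 693290 0) (P.cons (P.lf 0 37347 0) (P.cons (P.lf 3551 0 0) P.nil)))))) 296)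
 EL.nil))
noncomputable def S285_314_660_734_10 : EL := (EL.cons 3 (TM.mk (P.cons (P.cons (P.lf 0 738653521 0) (P.cons (P.lf 0 70126772 0) (P.cons (P.lf 9030300 0 0) (P.lf 602019 0 0)))) (P.cons (P.cons (P.lf 0 176076955 0) (P.cons (P.lf 0 11609822 0) (P.cons (P.lf 1495010 0 0) (P.lf 99666 0 0)))) (P.cons (P.cons (P.lf 57417925 0 0) (P.cons (P.lf 4885766 0 0) (P.cons (P.lf 0 629144 0) (P.lf 0 41941 0)))) (P.cons (P.cons (P.lf 9681871 0 0) (P.cons (P.lf 48066 0 0) (P.cons (P.lf 0 6190 0) P.nil))) (P.cons (P.cons (P.lf 0 1077723 0) (P.cons (P.lf 0 92027 0) P.nil)) (P.cons (P.cons (P.lf 0 138862 0) P.nil) P.nil)))))) 52052)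
 (EL.cons 7 (TM.mk (P.cons (P.cons (P.lf 1117367118 0 0) (P.cons (P.lf 106081333 0 0) (P.cons (P.lf 0 13660210 0) (P.lf 0 910680 0)))) (P.cons (P.cons (P.lf 0 133994544 0) (P.cons (P.lf 0 20446187 0) (P.cons (P.lf 2632876 0 0) (P.lf 175524 0 0)))) (P.cons (P.cons (P.lf 0 53489092 0) (P.cons (P.lf 0 1455070 0) (P.cons (P.lf 187369 0 0) (P.lf 12490 0 0)))) (P.cons (P.cons (P.lf 4243850 0 0) (P.cons (P.lf 523735 0 0) (P.cons (P.lf 0 67440 0) P.nil))) (P.cons (P.cons (P.lf 942610 0 0) (P.cons (P.lf 0 2804 0) P.nil)) (P.cons (P.cons (P.lf 0 83904 0) P.nil) P.nil)))))) 37838)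
 EL.nil))
noncomputable def S285_314_660_734_11 : EL := (EL.cons 3 (TM.mk (P.cons (P.cons (P.lf 413113473 0 0) (P.cons (P.lf 78440876 0 0) (P.cons (P.lf 0 6377381 0) (P.cons (P.lf 0 1632361 0) (P.cons (P.lf 0 2187 0) (P.cons (P.lf 8232 0 0) P.nil)))))) (P.cons (P.cons (P.lf 68841581 0 0) (P.cons (P.lf 7359328 0 0) (P.cons (P.lf 0 869477 0) (P.cons (P.lf 0 83315 0) (P.cons (P.lf 0 45 0) P.nil))))) (P.cons (P.cons (P.lf 0 57525382 0) (P.cons (P.lf 0 9880558 0) (P.cons (P.lf 872523 0 0) (P.cons (P.lf 187786 0 0) P.nil)))) (P.cons (P.cons (P.lf 0 7148407 0) (P.cons (P.lf 0 174586 0) (P.cons (P.lf 59843 0 0) P.nil))) (P.cons (P.cons (P.lf 2738208 0 0) (P.cons (P.lf 405769 0 0) P.nil)) (P.cons (P.cons (P.lf 296623 0 0) P.nil) P.nil)))))) 289878)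
 (EL.cons 7 (TM.mk (P.cons (P.cons (P.lf 0 624920071 0) (P.cons (P.lf 0 118658144 0) (P.cons (P.lf 9647117 0 0) (P.cons (P.lf 2469287 0 0) (P.cons (P.lf 3308 0 0) (P.cons (P.lf 0 12452 0) P.nil)))))) (P.cons (P.cons (P.lf 119768814 0 0) (P.cons (P.lf 31382159 0 0) (P.cons (P.lf 0 2141251 0) (P.cons (P.lf 0 758701 0) (P.cons (P.lf 0 1115 0) P.nil))))) (P.cons (P.cons (P.lf 52295547 0 0) (P.cons (P.lf 5257231 0 0) (P.cons (P.lf 0 679090 0) (P.cons (P.lf 0 44586 0) P.nil)))) (P.cons (P.cons (P.lf 0 8357328 0) (P.cons (P.lf 0 1815088 0) (P.cons (P.lf 163312 0 0) P.nil))) (P.cons (P.cons (P.lf 0 1988292 0) (P.cons (P.lf 0 77556 0) P.nil)) (P.cons (P.cons (P.lf 272465 0 0) P.nil) P.nil)))))) 244685)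
 EL.nil))
noncomputable def S285_314_660_734_12 : EL := (EL.cons 4 (TM.mk (P.cons (P.lf 0 1320724353 0) (P.cons (P.lf 0 409570215 0) (P.cons (P.lf 14623338 0 0) (P.cons (P.lf 1245645 0 0) (P.cons (P.lf 0 85526 0) (P.cons (P.lf 0 2831 0) P.nil)))))) 532)
 (EL.cons 8 (TM.mk (P.cons (P.lf 1997870342 0 0) (P.cons (P.lf 0 96267727 0) (P.cons (P.lf 0 13808992 0) (P.cons (P.lf 693290 0 0) (P.cons (P.lf 37347 0 0) (P.cons (P.lf 0 3551 0) P.nil)))))) 296)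
 EL.nil))
noncomputable def S285_314_660_734_13 : EL := (EL.cons 4 (TM.mk (P.cons (P.cons (P.lf 738653521 0 0) (P.cons (P.lf 70126772 0 0) (P.cons (P.lf 0 9030300 0) (P.lf 0 602019 0)))) (P.cons (P.cons (P.lf 176076955 0 0) (P.cons (P.lf 11609822 0 0) (P.cons (P.lf 0 1495010 0) (P.lf 0 99666 0)))) (P.cons (P.cons (P.lf 0 57417925 0) (P.cons (P.lf 0 4885766 0) (P.cons (P.lf 629144 0 0) (P.lf 41941 0 0)))) (P.cons (P.cons (P.lf 0 9681871 0) (P.cons (P.lf 0 48066 0) (P.cons (P.lf 6190 0 0) P.nil))) (P.cons (P.cons (P.lf 1077723 0 0) (P.cons (P.lf 92027 0 0) P.nil)) (P.cons (P.cons (P.lf 138862 0 0) P.nil) P.nil)))))) 52052)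
 (EL.cons 8 (TM.mk (P.cons (P.cons (P.lf 0 1117367118 0) (P.cons (P.lf 0 106081333 0) (P.cons (P.lf 13660210 0 0) (P.lf 910680 0 0)))) (P.cons (P.cons (P.lf 133994544 0 0) (P.cons (P.lf 20446187 0 0) (P.cons (P.lf 0 2632876 0) (P.lf 0 175524 0)))) (P.cons (P.cons (P.lf 53489092 0 0) (P.cons (P.lf 1455070 0 0) (P.cons (P.lf 0 187369 0) (P.lf 0 12490 0)))) (P.cons (P.cons (P.lf 0 4243850 0) (P.cons (P.lf 0 523735 0) (P.cons (P.lf 67440 0 0) P.nil))) (P.cons (P.cons (P.lf 0 942610 0) (P.cons (P.lf 2804 0 0) P.nil)) (P.cons (P.cons (P.lf 83904 0 0) P.nil) P.nil)))))) 37838)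
 EL.nil))
noncomputable def S285_314_660_734_14 : EL := (EL.cons 4 (TM.mk (P.cons (P.cons (P.lf 0 413113473 0) (P.cons (P.lf 0 78440876 0) (P.cons (P.lf 6377381 0 0) (P.cons (P.lf 1632361 0 0) (P.cons (P.lf 2187 0 0) (P.cons (P.lf 0 8232 0) P.nil)))))) (P.cons (P.cons (P.lf 0 68841581 0) (P.cons (P.lf 0 7359328 0) (P.cons (P.lf 869477 0 0) (P.cons (P.lf 83315 0 0) (P.cons (P.lf 45 0 0) P.nil))))) (P.cons (P.cons (P.lf 57525382 0 0) (P.cons (P.lf 9880558 0 0) (P.cons (P.lf 0 872523 0) (P.cons (P.lf 0 187786 0) P.nil)))) (P.cons (P.cons (P.lf 7148407 0 0) (P.cons (P.lf 174586 0 0) (P.cons (P.lf 0 59843 0) P.nil))) (P.cons (P.cons (P.lf 0 2738208 0) (P.cons (P.lf 0 405769 0) P.nil)) (P.cons (P.cons (P.lf 0 296623 0) P.nil) P.nil)))))) 289878)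
 (EL.cons 8 (TM.mk (P.cons (P.cons (P.lf 624920071 0 0) (P.cons (P.lf 118658144 0 0) (P.cons (P.lf 0 9647117 0) (P.cons (P.lf 0 2469287 0) (P.cons (P.lf 0 3308 0) (P.cons (P.lf 12452 0 0) P.nil)))))) (P.cons (P.cons (P.lf 0 119768814 0) (P.cons (P.lf 0 31382159 0) (P.cons (P.lf 2141251 0 0) (P.cons (P.lf 758701 0 0) (P.cons (P.lf 1115 0 0) P.nil))))) (P.cons (P.cons (P.lf 0 52295547 0) (P.cons (P.lf 0 5257231 0) (P.cons (P.lf 679090 0 0) (P.cons (P.lf 44586 0 0) P.nil)))) (P.cons (P.cons (P.lf 8357328 0 0) (P.cons (P.lf 1815088 0 0) (P.cons (P.lf 0 163312 0) P.nil))) (P.cons (P.cons (P.lf 1988292 0 0) (P.cons (P.lf 77556 0 0) P.nil)) (P.cons (P.cons (P.lf 0 272465 0) P.nil) P.nil)))))) 244685)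
 EL.nil))
noncomputable def S285_314_660_734_15 : EL := (EL.cons 4 (TM.mk (P.cons (P.lf 0 433204774 0) (P.cons (P.lf 0 268682518 0) (P.cons (P.lf 0 32067537 0) (P.cons (P.lf 3792065 0 0) (P.cons (P.lf 144194 0 0) (P.cons (P.lf 0 28304 0) P.nil)))))) 2128)
 (EL.cons 8 (TM.mk (P.cons (P.lf 655312343 0 0) (P.cons (P.lf 171642763 0 0) (P.cons (P.lf 0 21577328 0) (P.cons (P.lf 0 1445658 0) (P.cons (P.lf 205138 0 0) (P.cons (P.lf 3748 0 0) P.nil)))))) 1533)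
 EL.nil))
noncomputable def S285_314_660_734_16 : EL := (EL.cons 4 (TM.mk (P.cons (P.cons (P.lf 242282373 0 0) (P.cons (P.lf 23001962 0 0) (P.cons (P.lf 0 2961988 0) (P.lf 0 197465 0)))) (P.cons (P.cons (P.lf 132888456 0 0) (P.cons (P.lf 10941230 0 0) (P.cons (P.lf 0 1408914 0) (P.lf 0 93927 0)))) (P.cons (P.cons (P.lf 0 3605821 0) (P.cons (P.lf 0 676313 0) (P.cons (P.lf 87089 0 0) (P.lf 5805 0 0)))) (P.cons (P.cons (P.lf 0 9884111 0) (P.cons (P.lf 0 576593 0) (P.cons (P.lf 74248 0 0) P.nil))) (P.cons (P.cons (P.lf 0 461573 0) (P.cons (P.lf 40937 0 0) P.nil)) (P.cons (P.cons (P.lf 212355 0 0) P.nil) P.nil)))))) 64126)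
 (EL.cons 8 (TM.mk (P.cons (P.cons (P.lf 0 366502494 0) (P.cons (P.lf 0 34795254 0) (P.cons (P.lf 4480622 0 0) (P.lf 298707 0 0)))) (P.cons (P.cons (P.lf 0 69705255 0) (P.cons (P.lf 0 4083905 0) (P.cons (P.lf 525889 0 0) (P.lf 35058 0 0)))) (P.cons (P.cons (P.lf 35232344 0 0) (P.cons (P.lf 2942273 0 0) (P.cons (P.lf 0 378879 0) (P.lf 0 25258 0)))) (P.cons (P.cons (P.lf 3907823 0 0) (P.cons (P.lf 0 65219 0) (P.cons (P.lf 8398 0 0) P.nil))) (P.cons (P.cons (P.lf 0 1000301 0) (P.cons (P.lf 0 66216 0) P.nil)) (P.cons (P.cons (P.lf 0 67433 0) P.nil) P.nil)))))) 45773)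
 EL.nil))
noncomputable def S285_314_660_734_17 : EL := (EL.cons 4 (TM.mk (P.cons (P.cons (P.lf 0 135503466 0) (P.cons (P.lf 0 25729034 0) (P.cons (P.lf 2091815 0 0) (P.cons (P.lf 535423 0 0) (P.cons (P.lf 717 0 0) (P.cons (P.lf 0 2700 0) P.nil)))))) (P.cons (P.cons (P.lf 0 64601432 0) (P.cons (P.lf 0 10392737 0) (P.cons (P.lf 933886 0 0) (P.cons (P.lf 193367 0 0) (P.cons (P.lf 237 0 0) P.nil))))) (P.cons (P.cons (P.lf 13366543 0 0) (P.cons (P.lf 2777178 0 0) (P.cons (P.lf 0 220911 0) (P.cons (P.lf 0 59048 0) P.nil)))) (P.cons (P.cons (P.lf 8573890 0 0) (P.cons (P.lf 1113287 0 0) (P.cons (P.lf 0 113510 0) P.nil))) (P.cons (P.cons (P.lf 0 367422 0) (P.cons (P.lf 0 150608 0) P.nil)) (P.cons (P.cons (P.lf 0 421328 0) P.nil) P.nil)))))) 250401)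
 (EL.cons 8 (TM.mk (P.cons (P.cons (P.lf 204977183 0 0) (P.cons (P.lf 38920516 0 0) (P.cons (P.lf 0 3164306 0) (P.cons (P.lf 0 809939 0) (P.cons (P.lf 0 1085 0) (P.cons (P.lf 4084 0 0) P.nil)))))) (P.cons (P.cons (P.lf 24280711 0 0) (P.cons (P.lf 1776133 0 0) (P.cons (P.lf 0 278941 0) (P.cons (P.lf 0 2312 0) (P.cons (P.lf 29 0 0) P.nil))))) (P.cons (P.cons (P.lf 0 31605402 0) (P.cons (P.lf 0 5347462 0) (P.cons (P.lf 475584 0 0) (P.cons (P.lf 100765 0 0) P.nil)))) (P.cons (P.cons (P.lf 0 2336496 0) (P.cons (P.lf 137869 0 0) (P.cons (P.lf 10716 0 0) P.nil))) (P.cons (P.cons (P.lf 1742509 0 0) (P.cons (P.lf 241387 0 0) P.nil)) (P.cons (P.cons (P.lf 96596 0 0) P.nil) P.nil)))))) 196635)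
 EL.nil))
noncomputable def S285_314_660_734_18 : EL := (EL.cons 4 (TM.mk (P.cons (P.lf 0 142093522 0) (P.cons (P.lf 0 132193991 0) (P.cons (P.lf 0 36274848 0) (P.cons (P.lf 0 908220 0) (P.cons (P.lf 623396 0 0) (P.cons (P.lf 0 4479 0) P.nil)))))) 6741)
 (EL.cons 8 (TM.mk (P.cons (P.lf 214946014 0 0) (P.cons (P.lf 122956731 0 0) (P.cons (P.lf 8001726 0 0) (P.cons (P.lf 0 3495072 0) (P.cons (P.lf 0 40579 0) (P.cons (P.lf 38127 0 0) P.nil)))))) 3726)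
 EL.nil))
noncomputable def S285_314_660_734_19 : EL := (EL.cons 4 (TM.mk (P.cons (P.cons (P.lf 79469936 0 0) (P.cons (P.lf 7544768 0 0) (P.cons (P.lf 0 971548 0) (P.lf 0 64769 0)))) (P.cons (P.cons (P.lf 68232582 0 0) (P.cons (P.lf 5928493 0 0) (P.cons (P.lf 0 763418 0) (P.lf 0 50894 0)))) (P.cons (P.cons (P.lf 11454492 0 0) (P.cons (P.lf 807546 0 0) (P.cons (P.lf 0 103988 0) (P.lf 0 6931 0)))) (P.cons (P.cons (P.lf 0 4166387 0) (P.cons (P.lf 0 304770 0) (P.cons (P.lf 39245 0 0) P.nil))) (P.cons (P.cons (P.lf 0 1179657 0) (P.cons (P.lf 0 45661 0) P.nil)) (P.cons (P.cons (P.lf 62707 0 0) P.nil) P.nil)))))) 68157)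
 (EL.cons 8 (TM.mk (P.cons (P.cons (P.lf 0 120214812 0) (P.cons (P.lf 0 11413032 0) (P.cons (P.lf 1469668 0 0) (P.lf 97977 0 0)))) (P.cons (P.cons (P.lf 0 60143553 0) (P.cons (P.lf 0 4878842 0) (P.cons (P.lf 628253 0 0) (P.lf 41883 0 0)))) (P.cons (P.cons (P.lf 5797174 0 0) (P.cons (P.lf 676042 0 0) (P.cons (P.lf 0 87054 0) (P.lf 0 5803 0)))) (P.cons (P.cons (P.lf 5232078 0 0) (P.cons (P.lf 303485 0 0) (P.cons (P.lf 0 39079 0) P.nil))) (P.cons (P.cons (P.lf 0 44785 0) (P.cons (P.lf 0 38514 0) P.nil)) (P.cons (P.cons (P.lf 0 150696 0) P.nil) P.nil)))))) 49734)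
 EL.nil))
noncomputable def S285_314_660_734_20 : EL := (EL.cons 4 (TM.mk (P.cons (P.cons (P.lf 0 44445873 0) (P.cons (P.lf 0 8439262 0) (P.cons (P.lf 686126 0 0) (P.cons (P.lf 175620 0 0) (P.cons (P.lf 235 0 0) (P.cons (P.lf 0 885 0) P.nil)))))) (P.cons (P.cons (P.lf 0 34972743 0) (P.cons (P.lf 0 6025976 0) (P.cons (P.lf 519094 0 0) (P.cons (P.lf 117887 0 0) (P.cons (P.lf 150 0 0) P.nil))))) (P.cons (P.cons (P.lf 0 1694706 0) (P.cons (P.lf 0 52755 0) (P.cons (P.lf 14935 0 0) (P.cons (P.lf 0 1643 0) P.nil)))) (P.cons (P.cons (P.lf 4448433 0 0) (P.cons (P.lf 693356 0 0) (P.cons (P.lf 0 63741 0) P.nil))) (P.cons (P.cons (P.lf 720164 0 0) (P.cons (P.lf 56422 0 0) P.nil)) (P.cons (P.cons (P.lf 0 212311 0) P.nil) P.nil)))))) 191230)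
 (EL.cons 8 (TM.mk (P.cons (P.cons (P.lf 67233631 0 0) (P.cons (P.lf 12766141 0 0) (P.cons (P.lf 0 1037909 0) (P.cons (P.lf 0 265664 0) (P.cons (P.lf 0 355 0) (P.cons (P.lf 1339 0 0) P.nil)))))) (P.cons (P.cons (P.lf 28814046 0 0) (P.cons (P.lf 4541493 0 0) (P.cons (P.lf 0 413360 0) (P.cons (P.lf 0 83143 0) (P.cons (P.lf 0 100 0) P.nil))))) (P.cons (P.cons (P.lf 0 8641386 0) (P.cons (P.lf 0 1714681 0) (P.cons (P.lf 139112 0 0) (P.cons (P.lf 35757 0 0) P.nil)))) (P.cons (P.cons (P.lf 0 4132810 0) (P.cons (P.lf 0 517201 0) (P.cons (P.lf 53882 0 0) P.nil))) (P.cons (P.cons (P.lf 445514 0 0) (P.cons (P.lf 112897 0 0) P.nil)) (P.cons (P.cons (P.lf 227851 0 0) P.nil) P.nil)))))) 161260)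
 EL.nil))
noncomputable def S285_314_660_734_21 : EL := (EL.cons 4 (TM.mk (P.cons (P.cons (P.lf 0 1099655784 0) (P.cons (P.lf 0 210380316 0) (P.cons (P.lf 27090900 0 0) (P.lf 1806057 0 0)))) (P.cons (P.cons (P.lf 0 1334278416 0) (P.cons (P.lf 0 34829466 0) (P.cons (P.lf 4485030 0 0) (P.lf 298998 0 0)))) (P.cons (P.cons (P.lf 76051164 0 0) (P.cons (P.lf 14657298 0 0) (P.cons (P.lf 0 1887432 0) (P.lf 0 125823 0)))) (P.cons (P.cons (P.lf 40421808 0 0) (P.cons (P.lf 144198 0 0) (P.cons (P.lf 0 18570 0) P.nil))) (P.cons (P.cons (P.lf 0 2800590 0) (P.cons (P.lf 0 276081 0) P.nil)) (P.cons (P.cons (P.lf 0 501498 0) P.nil) P.nil)))))) 162831)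
 (EL.cons 8 (TM.mk (P.cons (P.cons (P.lf 0 258469401 0) (P.cons (P.lf 0 49448997 0) (P.cons (P.lf 6367605 0 0) (P.lf 424509 0 0)))) (P.cons (P.cons (P.lf 0 406224843 0) (P.cons (P.lf 0 25903863 0) (P.cons (P.lf 3335664 0 0) (P.lf 222375 0 0)))) (P.cons (P.cons (P.lf 0 97878867 0) (P.cons (P.lf 0 136044 0) (P.cons (P.lf 17514 0 0) (P.lf 1164 0 0)))) (P.cons (P.cons (P.lf 11326167 0 0) (P.cons (P.lf 1071099 0 0) (P.cons (P.lf 0 137922 0) P.nil))) (P.cons (P.cons (P.lf 2384229 0 0) (P.cons (P.lf 0 27426 0) P.nil)) (P.cons (P.cons (P.lf 0 230658 0) P.nil) P.nil)))))) 129861)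
 (EL.cons 11 (TM.mk (P.cons (P.cons (P.lf 1585310508 0 0) (P.cons (P.lf 0 452570325 0) (P.cons (P.lf 0 33851532 0) (P.cons (P.lf 2281098 0 0) (P.lf 114054 0 0))))) (P.cons (P.cons (P.lf 0 152776917 0) (P.cons (P.lf 43614357 0 0) (P.cons (P.lf 3262281 0 0) (P.cons (P.lf 0 219828 0) (P.lf 0 10989 0))))) (P.cons (P.cons (P.lf 0 18234081 0) (P.cons (P.lf 5205417 0 0) (P.cons (P.lf 389355 0 0) (P.cons (P.lf 0 26235 0) P.nil)))) (P.cons (P.cons (P.lf 2156220 0 0) (P.cons (P.lf 0 615552 0) (P.cons (P.lf 0 46041 0) P.nil))) (P.cons (P.cons (P.lf 81987 0 0) (P.cons (P.lf 0 23406 0) P.nil)) (P.cons (P.cons (P.lf 0 16092 0) P.nil) P.nil)))))) 13401)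
 EL.nil)))
noncomputable def S285_314_660_734_22 : EL := (EL.cons 4 (TM.mk (P.cons (P.cons (P.lf 615014490 0 0) (P.cons (P.lf 176049960 0 0) (P.cons (P.lf 0 11499537 0) (P.cons (P.lf 0 4388241 0) (P.cons (P.lf 0 6561 0) (P.cons (P.lf 24696 0 0) P.nil)))))) (P.cons (P.cons (P.lf 702116133 0 0) (P.cons (P.lf 73445046 0 0) (P.cons (P.lf 0 9223026 0) (P.cons (P.lf 0 690915 0) (P.cons (P.lf 0 135 0) P.nil))))) (P.cons (P.cons (P.lf 0 123380796 0) (P.cons (P.lf 0 29904204 0) (P.cons (P.lf 2651376 0 0) (P.cons (P.lf 565614 0 0) P.nil)))) (P.cons (P.cons (P.lf 0 52198872 0) (P.cons (P.lf 0 2629068 0) (P.cons (P.lf 450630 0 0) P.nil))) (P.cons (P.cons (P.lf 6043410 0 0) (P.cons (P.lf 1333590 0 0) P.nil)) (P.cons (P.cons (P.lf 1557849 0 0) P.nil) P.nil)))))) 846366)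
 (EL.cons 8 (TM.mk (P.cons (P.cons (P.lf 144556530 0 0) (P.cons (P.lf 41379792 0 0) (P.cons (P.lf 0 2702919 0) (P.cons (P.lf 0 1031439 0) (P.cons (P.lf 0 1542 0) (P.cons (P.lf 5805 0 0) P.nil)))))) (P.cons (P.cons (P.lf 216823338 0 0) (P.cons (P.lf 32089131 0 0) (P.cons (P.lf 0 3136272 0) (P.cons (P.lf 0 531954 0) (P.cons (P.lf 0 582 0) P.nil))))) (P.cons (P.cons (P.lf 32023443 0 0) (P.cons (P.lf 0 301371 0) (P.cons (P.lf 0 188946 0) (P.cons (P.lf 61245 0 0) P.nil)))) (P.cons (P.cons (P.lf 0 20234394 0) (P.cons (P.lf 0 2834919 0) (P.cons (P.lf 295881 0 0) P.nil))) (P.cons (P.cons (P.lf 0 3041088 0) (P.cons (P.lf 35451 0 0) P.nil)) (P.cons (P.cons (P.lf 679560 0 0) P.nil) P.nil)))))) 468438)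
 (EL.cons 11 (TM.mk (P.cons (P.cons (P.lf 0 886631025 0) (P.cons (P.lf 168937563 0 0) (P.cons (P.lf 53802051 0 0) (P.cons (P.lf 0 1850121 0) (P.cons (P.lf 0 622656 0) (P.cons (P.lf 0 5889 0) P.nil)))))) (P.cons (P.cons (P.lf 149047164 0 0) (P.cons (P.lf 0 22269528 0) (P.cons (P.lf 0 11583624 0) (P.cons (P.lf 352836 0 0) (P.cons (P.lf 145365 0 0) P.nil))))) (P.cons (P.cons (P.lf 43448595 0 0) (P.cons (P.lf 0 11448942 0) (P.cons (P.lf 0 1323228 0) (P.cons (P.lf 69030 0 0) P.nil)))) (P.cons (P.cons (P.lf 0 6455220 0) (P.cons (P.lf 1230252 0 0) (P.cons (P.lf 391590 0 0) P.nil))) (P.cons (P.cons (P.lf 0 858738 0) (P.cons (P.lf 263475 0 0) P.nil)) (P.cons (P.cons (P.lf 144183 0 0) P.nil) P.nil)))))) 241686)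
 EL.nil)))
noncomputable def S285_314_660_734_23 : EL := (EL.cons 4 (TM.mk (P.cons (P.cons (P.lf 0 360693078 0) (P.cons (P.lf 0 69005886 0) (P.cons (P.lf 8885961 0 0) (P.lf 592395 0 0)))) (P.cons (P.cons (P.lf 0 549505215 0) (P.cons (P.lf 0 32823690 0) (P.cons (P.lf 4226742 0 0) (P.lf 281781 0 0)))) (P.cons (P.cons (P.lf 0 106781082 0) (P.cons (P.lf 2028942 0 0) (P.cons (P.lf 0 261267 0) (P.lf 0 17415 0)))) (P.cons (P.cons (P.lf 26180283 0 0) (P.cons (P.lf 1729779 0 0) (P.cons (P.lf 0 222744 0) P.nil))) (P.cons (P.cons (P.lf 3306225 0 0) (P.cons (P.lf 0 122811 0) P.nil)) (P.cons (P.cons (P.lf 0 648807 0) P.nil) P.nil)))))) 213261)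
 (EL.cons 8 (TM.mk (P.cons (P.cons (P.lf 0 84779367 0) (P.cons (P.lf 0 16219539 0) (P.cons (P.lf 2088609 0 0) (P.lf 139239 0 0)))) (P.cons (P.cons (P.lf 0 159534912 0) (P.cons (P.lf 0 13526454 0) (P.cons (P.lf 1741815 0 0) (P.lf 116118 0 0)))) (P.cons (P.cons (P.lf 0 72486426 0) (P.cons (P.lf 0 2499921 0) (P.cons (P.lf 321915 0 0) (P.lf 21459 0 0)))) (P.cons (P.cons (P.lf 0 4685718 0) (P.cons (P.lf 446859 0 0) (P.cons (P.lf 0 57540 0) P.nil))) (P.cons (P.cons (P.lf 2409762 0 0) (P.cons (P.lf 107409 0 0) P.nil)) (P.cons (P.cons (P.lf 147195 0 0) P.nil) P.nil)))))) 121323)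
 (EL.cons 11 (TM.mk (P.cons (P.cons (P.lf 519990471 0 0) (P.cons (P.lf 0 148445529 0) (P.cons (P.lf 0 11103486 0) (P.cons (P.lf 748212 0 0) (P.lf 37410 0 0))))) (P.cons (P.cons (P.lf 111142737 0 0) (P.cons (P.lf 0 31728738 0) (P.cons (P.lf 0 2373258 0) (P.cons (P.lf 159921 0 0) (P.lf 7995 0 0))))) (P.cons (P.cons (P.lf 0 27278463 0) (P.cons (P.lf 7787382 0 0) (P.cons (P.lf 582480 0 0) (P.cons (P.lf 0 39249 0) P.nil)))) (P.cons (P.cons (P.lf 0 1083063 0) (P.cons (P.lf 309189 0 0) (P.cons (P.lf 23127 0 0) P.nil))) (P.cons (P.cons (P.lf 393375 0 0) (P.cons (P.lf 0 112299 0) P.nil)) (P.cons (P.cons (P.lf 0 1257 0) P.nil) P.nil)))))) 31578)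
 EL.nil)))
noncomputable def S285_314_660_734_24 : EL := (EL.cons 4 (TM.mk (P.cons (P.cons (P.lf 201728100 0 0) (P.cons (P.lf 57745344 0 0) (P.cons (P.lf 0 3771909 0) (P.cons (P.lf 0 1439367 0) (P.cons (P.lf 0 2151 0) (P.cons (P.lf 8100 0 0) P.nil)))))) (P.cons (P.cons (P.lf 292855872 0 0) (P.cons (P.lf 41997798 0 0) (P.cons (P.lf 0 4194909 0) (P.cons (P.lf 0 672987 0) (P.cons (P.lf 0 711 0) P.nil))))) (P.cons (P.cons (P.lf 28714602 0 0) (P.cons (P.lf 0 2977437 0) (P.cons (P.lf 0 26715 0) (P.cons (P.lf 131181 0 0) P.nil)))) (P.cons (P.cons (P.lf 0 32411712 0) (P.cons (P.lf 0 4225335 0) (P.cons (P.lf 454554 0 0) P.nil))) (P.cons (P.cons (P.lf 0 3083340 0) (P.cons (P.lf 259623 0 0) P.nil)) (P.cons (P.cons (P.lf 1368792 0 0) P.nil) P.nil)))))) 749280)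
 (EL.cons 8 (TM.mk (P.cons (P.cons (P.lf 47415327 0 0) (P.cons (P.lf 13572795 0 0) (P.cons (P.lf 0 886572 0) (P.cons (P.lf 0 338316 0) (P.cons (P.lf 0 504 0) (P.cons (P.lf 1902 0 0) P.nil)))))) (P.cons (P.cons (P.lf 85823217 0 0) (P.cons (P.lf 14734473 0 0) (P.cons (P.lf 0 1303647 0) (P.cons (P.lf 0 279399 0) (P.cons (P.lf 0 348 0) P.nil))))) (P.cons (P.cons (P.lf 32033676 0 0) (P.cons (P.lf 3014904 0 0) (P.cons (P.lf 0 371172 0) (P.cons (P.lf 0 30273 0) P.nil)))) (P.cons (P.cons (P.lf 0 4211802 0) (P.cons (P.lf 0 1089864 0) (P.cons (P.lf 90057 0 0) P.nil))) (P.cons (P.cons (P.lf 0 3235998 0) (P.cons (P.lf 0 284685 0) P.nil)) (P.cons (P.cons (P.lf 0 18144 0) P.nil) P.nil)))))) 340449)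
 (EL.cons 11 (TM.mk (P.cons (P.cons (P.lf 0 290819799 0) (P.cons (P.lf 55412439 0 0) (P.cons (P.lf 17647365 0 0) (P.cons (P.lf 0 606849 0) (P.cons (P.lf 0 204234 0) (P.cons (P.lf 0 1929 0) P.nil)))))) (P.cons (P.cons (P.lf 0 41297931 0) (P.cons (P.lf 9879441 0 0) (P.cons (P.lf 1673136 0 0) (P.cons (P.lf 0 72456 0) (P.cons (P.lf 0 15651 0) P.nil))))) (P.cons (P.cons (P.lf 32632152 0 0) (P.cons (P.lf 0 6634062 0) (P.cons (P.lf 0 1807683 0) (P.cons (P.lf 65250 0 0) P.nil)))) (P.cons (P.cons (P.lf 2035134 0 0) (P.cons (P.lf 0 732417 0) (P.cons (P.lf 19272 0 0) P.nil))) (P.cons (P.cons (P.lf 0 1161018 0) (P.cons (P.lf 263616 0 0) P.nil)) (P.cons (P.cons (P.lf 0 27510 0) P.nil) P.nil)))))) 230940)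
 EL.nil)))
noncomputable def S285_314_660_734_25 : EL := (EL.cons 4 (TM.mk (P.cons (P.cons (P.lf 0 118309293 0) (P.cons (P.lf 0 22634304 0) (P.cons (P.lf 2914644 0 0) (P.lf 194307 0 0)))) (P.cons (P.cons (P.lf 0 216929628 0) (P.cons (P.lf 0 17785479 0) (P.cons (P.lf 2290254 0 0) (P.lf 152682 0 0)))) (P.cons (P.cons (P.lf 0 89609325 0) (P.cons (P.lf 0 2422638 0) (P.cons (P.lf 311964 0 0) (P.lf 20796 0 0)))) (P.cons (P.cons (P.lf 0 167019 0) (P.cons (P.lf 914310 0 0) (P.cons (P.lf 0 117735 0) P.nil))) (P.cons (P.cons (P.lf 4297596 0 0) (P.cons (P.lf 136986 0 0) P.nil)) (P.cons (P.cons (P.lf 49518 0 0) P.nil) P.nil)))))) 224283)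
 (EL.cons 8 (TM.mk (P.cons (P.cons (P.lf 0 27808092 0) (P.cons (P.lf 0 5320095 0) (P.cons (P.lf 685074 0 0) (P.lf 45669 0 0)))) (P.cons (P.cons (P.lf 0 60951894 0) (P.cons (P.lf 0 6086565 0) (P.cons (P.lf 783771 0 0) (P.lf 52251 0 0)))) (P.cons (P.cons (P.lf 0 39695595 0) (P.cons (P.lf 0 2136963 0) (P.cons (P.lf 275178 0 0) (P.lf 18342 0 0)))) (P.cons (P.cons (P.lf 0 8304486 0) (P.cons (P.lf 0 53571 0) (P.cons (P.lf 6897 0 0) P.nil))) (P.cons (P.cons (P.lf 624597 0 0) (P.cons (P.lf 93603 0 0) P.nil)) (P.cons (P.cons (P.lf 329391 0 0) P.nil) P.nil)))))) 111201)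
 (EL.cons 11 (TM.mk (P.cons (P.cons (P.lf 170559702 0 0) (P.cons (P.lf 0 48690939 0) (P.cons (P.lf 0 3642003 0) (P.cons (P.lf 245415 0 0) (P.lf 12270 0 0))))) (P.cons (P.cons (P.lf 89347740 0 0) (P.cons (P.lf 0 25506759 0) (P.cons (P.lf 0 1907862 0) (P.cons (P.lf 128562 0 0) (P.lf 6426 0 0))))) (P.cons (P.cons (P.lf 469242 0 0) (P.cons (P.lf 0 133956 0) (P.cons (P.lf 0 10020 0) (P.cons (P.lf 675 0 0) P.nil)))) (P.cons (P.cons (P.lf 0 3694461 0) (P.cons (P.lf 1054683 0 0) (P.cons (P.lf 78888 0 0) P.nil))) (P.cons (P.cons (P.lf 94590 0 0) (P.cons (P.lf 0 27003 0) P.nil)) (P.cons (P.cons (P.lf 54696 0 0) P.nil) P.nil)))))) 46797)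
 EL.nil)))
noncomputable def S285_314_660_734_26 : EL := (EL.cons 4 (TM.mk (P.cons (P.cons (P.lf 66167913 0 0) (P.cons (P.lf 18940785 0 0) (P.cons (P.lf 0 1237206 0) (P.cons (P.lf 0 472119 0) (P.cons (P.lf 0 705 0) (P.cons (P.lf 2655 0 0) P.nil)))))) (P.cons (P.cons (P.lf 116577669 0 0) (P.cons (P.lf 19649238 0 0) (P.cons (P.lf 0 1759623 0) (P.cons (P.lf 0 367152 0) (P.cons (P.lf 0 450 0) P.nil))))) (P.cons (P.cons (P.lf 38474592 0 0) (P.cons (P.lf 3085593 0 0) (P.cons (P.lf 0 421761 0) (P.cons (P.lf 0 20196 0) P.nil)))) (P.cons (P.cons (P.lf 0 8836413 0) (P.cons (P.lf 0 1859181 0) (P.cons (P.lf 162780 0 0) P.nil))) (P.cons (P.cons (P.lf 0 4498797 0) (P.cons (P.lf 0 345585 0) P.nil)) (P.cons (P.cons (P.lf 250530 0 0) P.nil) P.nil)))))) 535623)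
 (EL.cons 8 (TM.mk (P.cons (P.cons (P.lf 15552483 0 0) (P.cons (P.lf 4451949 0 0) (P.cons (P.lf 0 290799 0) (P.cons (P.lf 0 110970 0) (P.cons (P.lf 0 165 0) (P.cons (P.lf 624 0 0) P.nil)))))) (P.cons (P.cons (P.lf 32973468 0 0) (P.cons (P.lf 6213582 0 0) (P.cons (P.lf 0 517782 0) (P.cons (P.lf 0 126057 0) (P.cons (P.lf 0 165 0) P.nil))))) (P.cons (P.cons (P.lf 19064772 0 0) (P.cons (P.lf 2438370 0 0) (P.cons (P.lf 0 251130 0) (P.cons (P.lf 0 37119 0) P.nil)))) (P.cons (P.cons (P.lf 1550544 0 0) (P.cons (P.lf 0 108522 0) (P.cons (P.lf 0 3204 0) P.nil))) (P.cons (P.cons (P.lf 0 1631721 0) (P.cons (P.lf 0 219456 0) P.nil)) (P.cons (P.cons (P.lf 0 327867 0) P.nil) P.nil)))))) 214554)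
 (EL.cons 11 (TM.mk (P.cons (P.cons (P.lf 0 95390475 0) (P.cons (P.lf 18175581 0 0) (P.cons (P.lf 5788431 0 0) (P.cons (P.lf 0 199050 0) (P.cons (P.lf 0 66990 0) (P.cons (P.lf 0 633 0) P.nil)))))) (P.cons (P.cons (P.lf 0 43127514 0) (P.cons (P.lf 8876943 0 0) (P.cons (P.lf 2343849 0 0) (P.cons (P.lf 0 85494 0) (P.cons (P.lf 0 25908 0) P.nil))))) (P.cons (P.cons (P.lf 7558968 0 0) (P.cons (P.lf 0 1372335 0) (P.cons (P.lf 0 486831 0) (P.cons (P.lf 16236 0 0) P.nil)))) (P.cons (P.cons (P.lf 4226760 0 0) (P.cons (P.lf 0 968061 0) (P.cons (P.lf 0 189087 0) P.nil))) (P.cons (P.cons (P.lf 0 285723 0) (P.cons (P.lf 34182 0 0) P.nil)) (P.cons (P.cons (P.lf 0 145686 0) P.nil) P.nil)))))) 185835)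
 EL.nil)))
noncomputable def S285_314_660_734_27 : EL := (EL.cons 13 (TM.mk (P.lf 0 4294967296 0) 0)
 EL.nil)
noncomputable def S285_314_660_734_28 : EL := (EL.cons 13 (TM.mk (P.cons (P.cons (P.lf 2402085425 0 0) (P.cons (P.lf 228050764 0 0) (P.cons (P.lf 0 29366348 0) (P.lf 0 1957756 0)))) (P.cons (P.cons (P.lf 0 172312926 0) (P.cons (P.lf 0 32965992 0) (P.cons (P.lf 4245064 0 0) (P.lf 283004 0 0)))) (P.cons (P.cons (P.lf 0 106689455 0) (P.cons (P.lf 0 3140288 0) (P.cons (P.lf 404376 0 0) (P.lf 26956 0 0)))) (P.cons (P.cons (P.lf 1957904 0 0) (P.cons (P.lf 667604 0 0) (P.cons (P.lf 0 85964 0) P.nil))) (P.cons (P.cons (P.lf 1398211 0 0) (P.cons (P.lf 11612 0 0) P.nil)) (P.cons (P.cons (P.lf 0 54957 0) P.nil) P.nil)))))) 40305)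
 EL.nil)
noncomputable def S285_314_660_734_29 : EL := (EL.cons 13 (TM.mk (P.cons (P.cons (P.lf 0 1343436164 0) (P.cons (P.lf 0 255088050 0) (P.cons (P.lf 20739110 0 0) (P.cons (P.lf 5308406 0 0) (P.cons (P.lf 7113 0 0) (P.cons (P.lf 0 26771 0) P.nil)))))) (P.cons (P.cons (P.lf 192742034 0 0) (P.cons (P.lf 55173050 0 0) (P.cons (P.lf 0 3603886 0) (P.cons (P.lf 0 1375250 0) (P.cons (P.lf 0 2056 0) P.nil))))) (P.cons (P.cons (P.lf 112425215 0 0) (P.cons (P.lf 12197245 0 0) (P.cons (P.lf 0 1490199 0) (P.cons (P.lf 0 125426 0) P.nil)))) (P.cons (P.cons (P.lf 0 10750733 0) (P.cons (P.lf 0 2844435 0) (P.cons (P.lf 247173 0 0) P.nil))) (P.cons (P.cons (P.lf 0 4057106 0) (P.cons (P.lf 0 233860 0) P.nil)) (P.cons (P.cons (P.lf 270935 0 0) P.nil) P.nil)))))) 367515)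
 EL.nil)
noncomputable def S285_314_660_734_30 : EL := (EL.cons 13 (TM.mk (P.cons (P.lf 0 1408772644 0) (P.cons (P.lf 0 436874896 0) (P.cons (P.lf 15598228 0 0) (P.cons (P.lf 1328688 0 0) (P.cons (P.lf 0 91228 0) (P.cons (P.lf 0 3020 0) P.nil)))))) 560)
 EL.nil)
noncomputable def S285_314_660_734_31 : EL := (EL.cons 13 (TM.mk (P.cons (P.cons (P.lf 787897090 0 0) (P.cons (P.lf 74801891 0 0) (P.cons (P.lf 0 9632321 0) (P.lf 0 642154 0)))) (P.cons (P.cons (P.lf 187815419 0 0) (P.cons (P.lf 12383811 0 0) (P.cons (P.lf 0 1594678 0) (P.lf 0 106311 0)))) (P.cons (P.cons (P.lf 0 61245787 0) (P.cons (P.lf 0 5211484 0) (P.cons (P.lf 671087 0 0) (P.lf 44738 0 0)))) (P.cons (P.cons (P.lf 0 10327330 0) (P.cons (P.lf 0 51271 0) (P.cons (P.lf 6603 0 0) P.nil))) (P.cons (P.cons (P.lf 1149572 0 0) (P.cons (P.lf 98163 0 0) P.nil)) (P.cons (P.cons (P.lf 148120 0 0) P.nil) P.nil)))))) 55502)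
 EL.nil)
noncomputable def S285_314_660_734_32 : EL := (EL.cons 13 (TM.mk (P.cons (P.cons (P.lf 0 440654372 0) (P.cons (P.lf 0 83670268 0) (P.cons (P.lf 6802540 0 0) (P.cons (P.lf 1741186 0 0) (P.cons (P.lf 2333 0 0) (P.cons (P.lf 0 8781 0) P.nil)))))) (P.cons (P.cons (P.lf 0 73431020 0) (P.cons (P.lf 0 7849950 0) (P.cons (P.lf 927443 0 0) (P.cons (P.lf 88870 0 0) (P.cons (P.lf 49 0 0) P.nil))))) (P.cons (P.cons (P.lf 61360408 0 0) (P.cons (P.lf 10539262 0 0) (P.cons (P.lf 0 930692 0) (P.cons (P.lf 0 200306 0) P.nil)))) (P.cons (P.cons (P.lf 7624968 0 0) (P.cons (P.lf 186226 0 0) (P.cons (P.lf 0 63833 0) P.nil))) (P.cons (P.cons (P.lf 0 2920756 0) (P.cons (P.lf 0 432821 0) P.nil)) (P.cons (P.cons (P.lf 0 316398 0) P.nil) P.nil)))))) 309180)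
 EL.nil)
noncomputable def S285_314_660_734_33 : EL := (EL.cons 14 (TM.mk (P.lf 8589934592 0 0) 0)
 EL.nil)
noncomputable def S285_314_660_734_34 : EL := (EL.cons 14 (TM.mk (P.cons (P.cons (P.lf 0 4804170850 0) (P.cons (P.lf 0 456101528 0) (P.cons (P.lf 58732696 0 0) (P.lf 3915512 0 0)))) (P.cons (P.cons (P.lf 344625852 0 0) (P.cons (P.lf 65931984 0 0) (P.cons (P.lf 0 8490128 0) (P.lf 0 566008 0)))) (P.cons (P.cons (P.lf 213378910 0 0) (P.cons (P.lf 6280576 0 0) (P.cons (P.lf 0 808752 0) (P.lf 0 53912 0)))) (P.cons (P.cons (P.lf 0 3915808 0) (P.cons (P.lf 0 1335208 0) (P.cons (P.lf 171928 0 0) P.nil))) (P.cons (P.cons (P.lf 0 2796422 0) (P.cons (P.lf 0 23224 0) P.nil)) (P.cons (P.cons (P.lf 109914 0 0) P.nil) P.nil)))))) 80610)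
 EL.nil)
noncomputable def S285_314_660_734_35 : EL := (EL.cons 14 (TM.mk (P.cons (P.cons (P.lf 2686872328 0 0) (P.cons (P.lf 510176100 0 0) (P.cons (P.lf 0 41478220 0) (P.cons (P.lf 0 10616812 0) (P.cons (P.lf 0 14226 0) (P.cons (P.lf 53542 0 0) P.nil)))))) (P.cons (P.cons (P.lf 0 385484068 0) (P.cons (P.lf 0 110346100 0) (P.cons (P.lf 7207772 0 0) (P.cons (P.lf 2750500 0 0) (P.cons (P.lf 4112 0 0) P.nil))))) (P.cons (P.cons (P.lf 0 224850430 0) (P.cons (P.lf 0 24394490 0) (P.cons (P.lf 2980398 0 0) (P.cons (P.lf 250852 0 0) P.nil)))) (P.cons (P.cons (P.lf 21501466 0 0) (P.cons (P.lf 5688870 0 0) (P.cons (P.lf 0 494346 0) P.nil))) (P.cons (P.cons (P.lf 8114212 0 0) (P.cons (P.lf 467720 0 0) P.nil)) (P.cons (P.cons (P.lf 0 541870 0) P.nil) P.nil)))))) 735030)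
 EL.nil)
noncomputable def S285_314_660_734_36 : EL := (EL.cons 14 (TM.mk (P.cons (P.lf 2817545288 0 0) (P.cons (P.lf 873749792 0 0) (P.cons (P.lf 0 31196456 0) (P.cons (P.lf 0 2657376 0) (P.cons (P.lf 182456 0 0) (P.cons (P.lf 6040 0 0) P.nil)))))) 1120)
 EL.nil)
noncomputable def S285_314_660_734_37 : EL := (EL.cons 14 (TM.mk (P.cons (P.cons (P.lf 0 1575794180 0) (P.cons (P.lf 0 149603782 0) (P.cons (P.lf 19264642 0 0) (P.lf 1284308 0 0)))) (P.cons (P.cons (P.lf 0 375630838 0) (P.cons (P.lf 0 24767622 0) (P.cons (P.lf 3189356 0 0) (P.lf 212622 0 0)))) (P.cons (P.cons (P.lf 122491574 0 0) (P.cons (P.lf 10422968 0 0) (P.cons (P.lf 0 1342174 0) (P.lf 0 89476 0)))) (P.cons (P.cons (P.lf 20654660 0 0) (P.cons (P.lf 102542 0 0) (P.cons (P.lf 0 13206 0) P.nil))) (P.cons (P.cons (P.lf 0 2299144 0) (P.cons (P.lf 0 196326 0) P.nil)) (P.cons (P.cons (P.lf 0 296240 0) P.nil) P.nil))))))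 111004)
 EL.nil)
noncomputable def S285_314_660_734_38 : EL := (EL.cons 14 (TM.mk (P.cons (P.cons (P.lf 881308744 0 0) (P.cons (P.lf 167340536 0 0) (P.cons (P.lf 0 13605080 0) (P.cons (P.lf 0 3482372 0) (P.cons (P.lf 0 4666 0) (P.cons (P.lf 17562 0 0) P.nil)))))) (P.cons (P.cons (P.lf 146862040 0 0) (P.cons (P.lf 15699900 0 0) (P.cons (P.lf 0 1854886 0) (P.cons (P.lf 0 177740 0) (P.cons (P.lf 0 98 0) P.nil))))) (P.cons (P.cons (P.lf 0 122720816 0) (P.cons (P.lf 0 21078524 0) (P.cons (P.lf 1861384 0 0) (P.cons (P.lf 400612 0 0) P.nil)))) (P.cons (P.cons (P.lf 0 15249936 0) (P.cons (P.lf 0 372452 0) (P.cons (P.lf 127666 0 0) P.nil))) (P.cons (P.cons (P.lf 5841512 0 0) (P.cons (P.lf 865642 0 0) P.nil)) (P.cons (P.cons (P.lf 632796 0 0) P.nil) P.nil)))))) 618360)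
 EL.nil)
noncomputable def S285_314_660_734_39 : EL := (EL.cons 14 (TM.mk (P.cons (P.lf 924170186 0 0) (P.cons (P.lf 573189372 0 0) (P.cons (P.lf 68410746 0 0) (P.cons (P.lf 0 8089740 0) (P.cons (P.lf 0 307614 0) (P.cons (P.lf 60382 0 0) P.nil)))))) 4526)
 EL.nil)
noncomputable def S285_314_660_734_40 : EL := (EL.cons 14 (TM.mk (P.cons (P.cons (P.lf 0 516869064 0) (P.cons (P.lf 0 49070854 0) (P.cons (P.lf 6318908 0 0) (P.lf 421260 0 0)))) (P.cons (P.cons (P.lf 0 283495374 0) (P.cons (P.lf 0 23341292 0) (P.cons (P.lf 3005684 0 0) (P.lf 200378 0 0)))) (P.cons (P.cons (P.lf 7692420 0 0) (P.cons (P.lf 1442802 0 0) (P.cons (P.lf 0 185790 0) (P.lf 0 12384 0)))) (P.cons (P.cons (P.lf 21086104 0 0) (P.cons (P.lf 1230066 0 0) (P.cons (P.lf 0 158396 0) P.nil))) (P.cons (P.cons (P.lf 984690 0 0) (P.cons (P.lf 0 87334 0) P.nil)) (P.cons (P.cons (P.lf 0 453024 0) P.nil) P.nil))))))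 136762)
 EL.nil)
noncomputable def S285_314_660_734_41 : EL := (EL.cons 14 (TM.mk (P.cons (P.cons (P.lf 289074062 0 0) (P.cons (P.lf 54888606 0 0) (P.cons (P.lf 0 4462540 0) (P.cons (P.lf 0 1142236 0) (P.cons (P.lf 0 1530 0) (P.cons (P.lf 5760 0 0) P.nil)))))) (P.cons (P.cons (P.lf 137816390 0 0) (P.cons (P.lf 22171174 0 0) (P.cons (P.lf 0 1992292 0) (P.cons (P.lf 0 412518 0) (P.cons (P.lf 0 506 0) P.nil))))) (P.cons (P.cons (P.lf 0 28515292 0) (P.cons (P.lf 0 5924648 0) (P.cons (P.lf 471278 0 0) (P.cons (P.lf 125970 0 0) P.nil)))) (P.cons (P.cons (P.lf 0 18290966 0) (P.cons (P.lf 0 2375014 0) (P.cons (P.lf 242156 0 0) P.nil))) (P.cons (P.cons (P.lf 783834 0 0) (P.cons (P.lf 321298 0 0) P.nil)) (P.cons (P.cons (P.lf 898834 0 0) P.nil) P.nil)))))) 534142)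
 EL.nil)
noncomputable def S285_314_660_734_42 : EL := (EL.cons 14 (TM.mk (P.cons (P.lf 303132848 0 0) (P.cons (P.lf 282013848 0 0) (P.cons (P.lf 77386344 0 0) (P.cons (P.lf 1937536 0 0) (P.cons (P.lf 0 1329912 0) (P.cons (P.lf 9556 0 0) P.nil)))))) 14366)
 EL.nil)
noncomputable def S285_314_660_734_43 : EL := (EL.cons 14 (TM.mk (P.cons (P.cons (P.lf 0 169535864 0) (P.cons (P.lf 0 16095506 0) (P.cons (P.lf 2072636 0 0) (P.lf 138174 0 0)))) (P.cons (P.cons (P.lf 0 145562842 0) (P.cons (P.lf 0 12647452 0) (P.cons (P.lf 1628626 0 0) (P.lf 108574 0 0)))) (P.cons (P.cons (P.lf 0 24436250 0) (P.cons (P.lf 0 1722766 0) (P.cons (P.lf 221842 0 0) (P.lf 14788 0 0)))) (P.cons (P.cons (P.lf 8888294 0 0) (P.cons (P.lf 650176 0 0) (P.cons (P.lf 0 83724 0) P.nil))) (P.cons (P.cons (P.lf 2516602 0 0) (P.cons (P.lf 97412 0 0) P.nil)) (P.cons (P.cons (P.lf 0 133776 0) P.nil) P.nil))))))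 145362)
 EL.nil)
noncomputable def S285_314_660_734_44 : EL := (EL.cons 14 (TM.mk (P.cons (P.cons (P.lf 94817864 0 0) (P.cons (P.lf 18003760 0 0) (P.cons (P.lf 0 1463736 0) (P.cons (P.lf 0 374658 0) (P.cons (P.lf 0 502 0) (P.cons (P.lf 1888 0 0) P.nil)))))) (P.cons (P.cons (P.lf 74608520 0 0) (P.cons (P.lf 12855416 0 0) (P.cons (P.lf 0 1107402 0) (P.cons (P.lf 0 251494 0) (P.cons (P.lf 0 320 0) P.nil))))) (P.cons (P.cons (P.lf 3615374 0 0) (P.cons (P.lf 112546 0 0) (P.cons (P.lf 0 31862 0) (P.cons (P.lf 3506 0 0) P.nil)))) (P.cons (P.cons (P.lf 0 9489992 0) (P.cons (P.lf 0 1479160 0) (P.cons (P.lf 135982 0 0) P.nil))) (P.cons (P.cons (P.lf 0 1536350 0) (P.cons (P.lf 0 120368 0) P.nil)) (P.cons (P.cons (P.lf 452932 0 0) P.nil) P.nil)))))) 407912)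
 EL.nil)
noncomputable def S285_314_660_734_45 : EL := (EL.cons 14 (TM.mk (P.cons (P.cons (P.lf 0 1502711524 0) (P.cons (P.lf 0 427996240 0) (P.cons (P.lf 14480158 0 0) (P.cons (P.lf 12853154 0 0) (P.cons (P.lf 520628 0 0) (P.cons (P.lf 0 120686 0) P.nil)))))) (P.cons (P.cons (P.lf 323389770 0 0) (P.cons (P.lf 123273590 0 0) (P.cons (P.lf 0 1211684 0) (P.cons (P.lf 0 4276802 0) (P.cons (P.lf 0 224040 0) P.nil))))) (P.cons (P.cons (P.lf 177032080 0 0) (P.cons (P.lf 32834010 0 0) (P.cons (P.lf 0 2996062 0) (P.cons (P.lf 0 626648 0) P.nil)))) (P.cons (P.cons (P.lf 0 31846742 0) (P.cons (P.lf 0 10700994 0) (P.cons (P.lf 404042 0 0) P.nil))) (P.cons (P.cons (P.lf 0 9959864 0) (P.cons (P.lf 0 1132660 0) P.nil)) (P.cons (P.cons (P.lf 1425078 0 0) P.nil) P.nil)))))) 2135128)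
 EL.nil)
noncomputable def S285_314_660_734_46 : EL := (EL.cons 15 (TM.mk (P.lf 4294967296 0 0) 0)
 EL.nil)
noncomputable def S285_314_660_734_47 : EL := (EL.cons 15 (TM.mk (P.cons (P.cons (P.lf 0 2402085425 0) (P.cons (P.lf 0 228050764 0) (P.cons (P.lf 29366348 0 0) (P.lf 1957756 0 0)))) (P.cons (P.cons (P.lf 172312926 0 0) (P.cons (P.lf 32965992 0 0) (P.cons (P.lf 0 4245064 0) (P.lf 0 283004 0)))) (P.cons (P.cons (P.lf 106689455 0 0) (P.cons (P.lf 3140288 0 0) (P.cons (P.lf 0 404376 0) (P.lf 0 26956 0)))) (P.cons (P.cons (P.lf 0 1957904 0) (P.cons (P.lf 0 667604 0) (P.cons (P.lf 85964 0 0) P.nil))) (P.cons (P.cons (P.lf 0 1398211 0) (P.cons (P.lf 0 11612 0) P.nil)) (P.cons (P.cons (P.lf 54957 0 0) P.nil) P.nil)))))) 40305)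
 EL.nil)
noncomputable def S285_314_660_734_48 : EL := (EL.cons 15 (TM.mk (P.cons (P.cons (P.lf 1343436164 0 0) (P.cons (P.lf 255088050 0 0) (P.cons (P.lf 0 20739110 0) (P.cons (P.lf 0 5308406 0) (P.cons (P.lf 0 7113 0) (P.cons (P.lf 26771 0 0) P.nil)))))) (P.cons (P.cons (P.lf 0 192742034 0) (P.cons (P.lf 0 55173050 0) (P.cons (P.lf 3603886 0 0) (P.cons (P.lf 1375250 0 0) (P.cons (P.lf 2056 0 0) P.nil))))) (P.cons (P.cons (P.lf 0 112425215 0) (P.cons (P.lf 0 12197245 0) (P.cons (P.lf 1490199 0 0) (P.cons (P.lf 125426 0 0) P.nil)))) (P.cons (P.cons (P.lf 10750733 0 0) (P.cons (P.lf 2844435 0 0) (P.cons (P.lf 0 247173 0) P.nil))) (P.cons (P.cons (P.lf 4057106 0 0) (P.cons (P.lf 233860 0 0) P.nil)) (P.cons (P.cons (P.lf 0 270935 0) P.nil) P.nil)))))) 367515)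
 EL.nil)
noncomputable def S285_314_660_734 : SL := (SL.cons S285_314_660_734_0 (SL.cons S285_314_660_734_1 (SL.cons S285_314_660_734_2 (SL.cons S285_314_660_734_3 (SL.cons S285_314_660_734_4 (SL.cons S285_314_660_734_5 (SL.cons S285_314_660_734_6 (SL.cons S285_314_660_734_7 (SL.cons S285_314_660_734_8 (SL.cons S285_314_660_734_9 (SL.cons S285_314_660_734_10 (SL.cons S285_314_660_734_11 (SL.cons S285_314_660_734_12 (SL.cons S285_314_660_734_13 (SL.cons S285_314_660_734_14 (SL.cons S285_314_660_734_15 (SL.cons S285_314_660_734_16 (SL.cons S285_314_660_734_17 (SL.cons S285_314_660_734_18 (SL.cons S285_314_660_734_19 (SL.cons S285_314_660_734_20 (SL.cons S285_314_660_734_21 (SL.cons S285_314_660_734_22 (SL.cons S285_314_660_734_23 (SL.cons S285_314_660_734_24 (SL.cons S285_314_660_734_25 (SL.cons S285_314_660_734_26 (SL.cons S285_314_660_734_27 (SL.cons S285_314_660_734_28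 (SL.cons S285_314_660_734_29 (SL.cons S285_314_660_734_30 (SL.cons S285_314_660_734_31 (SL.cons S285_314_660_734_32 (SL.cons S285_314_660_734_33 (SL.cons S285_314_660_734_34 (SL.cons S285_314_660_734_35 (SL.cons S285_314_660_734_36 (SL.cons S285_314_660_734_37 (SL.cons S285_314_660_734_38 (SL.cons S285_314_660_734_39 (SL.cons S285_314_660_734_40 (SL.cons S285_314_660_734_41 (SL.cons S285_314_660_734_42 (SL.cons S285_314_660_734_43 (SL.cons S285_314_660_734_44 (SL.cons S285_314_660_734_45 (SL.cons S285_314_660_734_46 (SL.cons S285_314_660_734_47 (SL.cons S285_314_660_734_48 SL.nil)))))))))))))))))))))))))))))))))))))))))))))))))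
noncomputable def S285_314_660_808_0 : EL := (EL.cons 0 (TM.mk (P.cons (P.lf 7643457911 0 0) (P.cons (P.lf 0 503779721 0) (P.cons (P.lf 0 60126632 0) (P.cons (P.lf 7110123 0 0) (P.cons (P.lf 270363 0 0) (P.cons (P.lf 0 53070 0) P.nil)))))) 3984)
 (EL.cons 1 (TM.mk (P.cons (P.lf 1228710643 0 0) (P.cons (P.lf 321830180 0 0) (P.cons (P.lf 0 40457490 0) (P.cons (P.lf 0 2710608 0) (P.cons (P.lf 384633 0 0) (P.cons (P.lf 7027 0 0) P.nil)))))) 2881)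
 (EL.cons 5 (TM.mk (P.cons (P.lf 4583770480 0 0) (P.cons (P.lf 179121676 0 0) (P.cons (P.lf 21378358 0 0) (P.cons (P.lf 0 2528040 0) (P.cons (P.lf 0 96128 0) (P.cons (P.lf 18870 0 0) P.nil)))))) 1697)
 (EL.cons 9 (TM.mk (P.lf 6442450944 0 0) 2)
 EL.nil))))
noncomputable def S285_314_660_808_1 : EL := (EL.cons 0 (TM.mk (P.cons (P.cons (P.lf 0 3837013495 0) (P.cons (P.lf 0 396280047 0) (P.cons (P.lf 170880427 0 0) (P.lf 18986718 0 0)))) (P.cons (P.cons (P.lf 1745504287 0 0) (P.cons (P.lf 210654983 0 0) (P.cons (P.lf 0 90836798 0) (P.lf 0 10092970 0)))) (P.cons (P.cons (P.lf 404456091 0 0) (P.cons (P.lf 1591210 0 0) (P.cons (P.lf 0 686149 0) (P.lf 0 76236 0)))) (P.cons (P.cons (P.lf 0 76339644 0) (P.cons (P.lf 0 8082697 0) (P.cons (P.lf 3485349 0 0) P.nil))) (P.cons (P.cons (P.lf 0 9572213 0) (P.cons (P.lf 407331 0 0) P.nil)) (P.cons (P.cons (P.lf 1801706 0 0) P.nil) P.nil))))))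 1558797)
 (EL.cons 1 (TM.mk (P.cons (P.cons (P.lf 0 1246815810 0) (P.cons (P.lf 0 211996516 0) (P.cons (P.lf 91415288 0 0) (P.lf 10157251 0 0)))) (P.cons (P.cons (P.lf 0 582720430 0) (P.cons (P.lf 0 9263037 0) (P.cons (P.lf 3994322 0 0) (P.lf 443816 0 0)))) (P.cons (P.cons (P.lf 216754502 0 0) (P.cons (P.lf 23128857 0 0) (P.cons (P.lf 0 9973423 0) (P.lf 0 1108148 0)))) (P.cons (P.cons (P.lf 32305530 0 0) (P.cons (P.lf 0 1038720 0) (P.cons (P.lf 447905 0 0) P.nil))) (P.cons (P.cons (P.lf 0 7167553 0) (P.cons (P.lf 0 589254 0) P.nil)) (P.cons (P.cons (P.lf 0 536133 0) P.nil) P.nil)))))) 894402)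
 (EL.cons 5 (TM.mk (P.cons (P.cons (P.lf 0 3053709089 0) (P.cons (P.lf 0 414812732 0) (P.cons (P.lf 178871932 0 0) (P.lf 19874660 0 0)))) (P.cons (P.cons (P.lf 0 279347295 0) (P.cons (P.lf 5431732 0 0) (P.cons (P.lf 0 2342228 0) (P.lf 0 260254 0)))) (P.cons (P.cons (P.lf 42170692 0 0) (P.cons (P.lf 7086466 0 0) (P.cons (P.lf 0 3055762 0) (P.lf 0 339528 0)))) (P.cons (P.cons (P.lf 22835498 0 0) (P.cons (P.lf 1247018 0 0) (P.cons (P.lf 0 537728 0) P.nil))) (P.cons (P.cons (P.lf 1009449 0 0) (P.cons (P.lf 0 173128 0) P.nil)) (P.cons (P.cons (P.lf 0 537276 0) P.nil) P.nil)))))) 841316)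
 (EL.cons 9 (TM.mk (P.cons (P.cons (P.lf 0 3898218127 0) (P.cons (P.lf 0 490334382 0) (P.cons (P.lf 211437714 0 0) (P.lf 23493078 0 0)))) (P.cons (P.cons (P.lf 301126275 0 0) (P.cons (P.lf 70880538 0 0) (P.cons (P.lf 0 30564486 0) (P.lf 0 3396048 0)))) (P.cons (P.cons (P.lf 164097616 0 0) (P.cons (P.lf 6751968 0 0) (P.cons (P.lf 0 2911524 0) (P.lf 0 323496 0)))) (P.cons (P.cons (P.lf 0 3800718 0) (P.cons (P.lf 0 1435428 0) (P.cons (P.lf 618972 0 0) P.nil))) (P.cons (P.cons (P.lf 0 2112346 0) (P.cons (P.lf 0 24972 0) P.nil)) (P.cons (P.cons (P.lf 91171 0 0) P.nil) P.nil)))))) 179270)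
 (EL.cons 2 (TM.mk (P.cons (P.cons (P.lf 0 338650385 0) (P.cons (P.lf 315484163 0 0) (P.cons (P.lf 32378937 0 0) (P.cons (P.lf 0 6733915 0) (P.lf 0 561158 0))))) (P.cons (P.cons (P.lf 0 72383115 0) (P.cons (P.lf 67431566 0 0) (P.cons (P.lf 6920670 0 0) (P.cons (P.lf 0 1439305 0) (P.lf 0 119941 0))))) (P.cons (P.cons (P.lf 17765443 0 0) (P.cons (P.lf 0 16550153 0) (P.cons (P.lf 0 1698581 0) (P.cons (P.lf 353255 0 0) P.nil)))) (P.cons (P.cons (P.lf 705358 0 0) (P.cons (P.lf 0 657106 0) (P.cons (P.lf 0 67438 0) P.nil))) (P.cons (P.cons (P.lf 0 256190 0) (P.cons (P.lf 238663 0 0) P.nil)) (P.cons (P.cons (P.lf 818 0 0) P.nil) P.nil)))))) 137136)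
 (EL.cons 6 (TM.mk (P.cons (P.cons (P.lf 512279160 0 0) (P.cons (P.lf 0 477235428 0) (P.cons (P.lf 0 48979878 0) (P.cons (P.lf 10186449 0 0) (P.lf 848868 0 0))))) (P.cons (P.cons (P.lf 0 74052777 0) (P.cons (P.lf 68987013 0 0) (P.cons (P.lf 7080309 0 0) (P.cons (P.lf 0 1472505 0) (P.lf 0 122706 0))))) (P.cons (P.cons (P.lf 0 7054152 0) (P.cons (P.lf 6571593 0 0) (P.cons (P.lf 674457 0 0) (P.cons (P.lf 0 140268 0) P.nil)))) (P.cons (P.cons (P.lf 1499673 0 0) (P.cons (P.lf 0 1397085 0) (P.cons (P.lf 0 143385 0) P.nil))) (P.cons (P.cons (P.lf 26088 0 0) (P.cons (P.lf 0 24303 0) P.nil)) (P.cons (P.cons (P.lf 0 15168 0) P.nil) P.nil)))))) 85959)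
 EL.nil))))))
noncomputable def S285_314_660_808_2 : EL := (EL.cons 0 (TM.mk (P.cons (P.cons (P.lf 1844958762 0 0) (P.cons (P.lf 359628638 0 0) (P.cons (P.lf 0 139030649 0) (P.cons (P.lf 0 31068476 0) (P.cons (P.lf 1445978 0 0) (P.cons (P.lf 663006 0 0) P.nil)))))) (P.cons (P.cons (P.lf 0 1854247966 0) (P.cons (P.lf 0 439552091 0) (P.cons (P.lf 164473169 0 0) (P.cons (P.lf 42677999 0 0) (P.cons (P.lf 0 2258964 0) P.nil))))) (P.cons (P.cons (P.lf 0 309328505 0) (P.cons (P.lf 0 6906625 0) (P.cons (P.lf 6339436 0 0) (P.cons (P.lf 0 2567866 0) P.nil)))) (P.cons (P.cons (P.lf 179551608 0 0) (P.cons (P.lf 35280269 0 0) (P.cons (P.lf 0 13926513 0) P.nil))) (P.cons (P.cons (P.lf 18078390 0 0) (P.cons (P.lf 0 1460561 0) P.nil)) (P.cons (P.cons (P.lf 0 7176282 0) P.nil) P.nil)))))) 15390254)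
 (EL.cons 1 (TM.mk (P.cons (P.cons (P.lf 1058991971 0 0) (P.cons (P.lf 333169917 0 0) (P.cons (P.lf 0 118514123 0) (P.cons (P.lf 0 37655028 0) (P.cons (P.lf 2266703 0 0) (P.cons (P.lf 1039314 0 0) P.nil)))))) (P.cons (P.cons (P.lf 540304775 0 0) (P.cons (P.lf 48117670 0 0) (P.cons (P.lf 0 23810181 0) (P.cons (P.lf 334697 0 0) (P.cons (P.lf 0 275879 0) P.nil))))) (P.cons (P.cons (P.lf 0 312092181 0) (P.cons (P.lf 0 72725633 0) (P.cons (P.lf 28011870 0 0) (P.cons (P.lf 6372028 0 0) P.nil)))) (P.cons (P.cons (P.lf 0 42928408 0) (P.cons (P.lf 1880991 0 0) (P.cons (P.lf 0 178680 0) P.nil))) (P.cons (P.cons (P.lf 20575237 0 0) (P.cons (P.lf 3793655 0 0) P.nil)) (P.cons (P.cons (P.lf 1559237 0 0) P.nil) P.nil)))))) 8404039)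
 (EL.cons 5 (TM.mk (P.cons (P.cons (P.lf 2017259988 0 0) (P.cons (P.lf 544636272 0 0) (P.cons (P.lf 0 198263069 0) (P.cons (P.lf 0 57651040 0) (P.cons (P.lf 3297443 0 0) (P.cons (P.lf 1511924 0 0) P.nil)))))) (P.cons (P.cons (P.lf 246286944 0 0) (P.cons (P.lf 7121935 0 0) (P.cons (P.lf 0 6386481 0) (P.cons (P.lf 2518089 0 0) (P.cons (P.lf 0 298791 0) P.nil))))) (P.cons (P.cons (P.lf 0 99128398 0) (P.cons (P.lf 0 27604689 0) (P.cons (P.lf 10427346 0 0) (P.cons (P.lf 2595631 0 0) P.nil)))) (P.cons (P.cons (P.lf 0 41242276 0) (P.cons (P.lf 0 5112046 0) (P.cons (P.lf 2162883 0 0) P.nil))) (P.cons (P.cons (P.lf 803686 0 0) (P.cons (P.lf 1060930 0 0) P.nil)) (P.cons (P.cons (P.lf 1983283 0 0) P.nil) P.nil)))))) 8369166)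
 (EL.cons 9 (TM.mk (P.cons (P.cons (P.lf 2358745870 0 0) (P.cons (P.lf 593386086 0 0) (P.cons (P.lf 0 218555463 0) (P.cons (P.lf 0 60615540 0) (P.cons (P.lf 3363157 0 0) (P.cons (P.lf 1542058 0 0) P.nil)))))) (P.cons (P.cons (P.lf 0 364412833 0) (P.cons (P.lf 0 131614618 0) (P.cons (P.lf 45964282 0 0) (P.cons (P.lf 15611001 0 0) (P.cons (P.lf 0 972325 0) P.nil))))) (P.cons (P.cons (P.lf 0 184510456 0) (P.cons (P.lf 0 26523865 0) (P.cons (P.lf 11189440 0 0) (P.cons (P.lf 1484649 0 0) P.nil)))) (P.cons (P.cons (P.lf 19939656 0 0) (P.cons (P.lf 6557676 0 0) (P.cons (P.lf 0 2460670 0) P.nil))) (P.cons (P.cons (P.lf 6380770 0 0) (P.cons (P.lf 477904 0 0) P.nil)) (P.cons (P.cons (P.lf 0 501417 0) P.nil) P.nil)))))) 2948054)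
 (EL.cons 2 (TM.mk (P.cons (P.cons (P.lf 409823240 0 0) (P.cons (P.lf 0 330238963 0) (P.cons (P.lf 0 109435477 0) (P.cons (P.lf 21458626 0 0) (P.cons (P.lf 6130338 0 0) (P.cons (P.lf 0 120436 0) P.nil)))))) (P.cons (P.cons (P.lf 55937913 0 0) (P.cons (P.lf 0 48544931 0) (P.cons (P.lf 0 10208632 0) (P.cons (P.lf 2033105 0 0) (P.cons (P.lf 469833 0 0) P.nil))))) (P.cons (P.cons (P.lf 0 45517381 0) (P.cons (P.lf 37396822 0 0) (P.cons (P.lf 11175311 0 0) (P.cons (P.lf 0 2197800 0) P.nil)))) (P.cons (P.cons (P.lf 0 2480664 0) (P.cons (P.lf 2593698 0 0) (P.cons (P.lf 0 148123 0) P.nil))) (P.cons (P.cons (P.lf 1588466 0 0) (P.cons (P.lf 0 1353166 0) P.nil)) (P.cons (P.cons (P.lf 27905 0 0) P.nil) P.nil)))))) 2476827)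
 (EL.cons 6 (TM.mk (P.cons (P.cons (P.lf 0 619942914 0) (P.cons (P.lf 499555128 0 0) (P.cons (P.lf 165543930 0 0) (P.cons (P.lf 0 32460636 0) (P.cons (P.lf 0 9273414 0) (P.cons (P.lf 182190 0 0) P.nil)))))) (P.cons (P.cons (P.lf 137504994 0 0) (P.cons (P.lf 0 105554022 0) (P.cons (P.lf 0 43870950 0) (P.cons (P.lf 8554992 0 0) (P.cons (P.lf 2611896 0 0) P.nil))))) (P.cons (P.cons (P.lf 27710934 0 0) (P.cons (P.lf 0 25297206 0) (P.cons (P.lf 0 3355536 0) (P.cons (P.lf 684780 0 0) P.nil)))) (P.cons (P.cons (P.lf 0 6851166 0) (P.cons (P.lf 5615490 0 0) (P.cons (P.lf 1700322 0 0) P.nil))) (P.cons (P.cons (P.lf 0 499290 0) (P.cons (P.lf 508404 0 0) P.nil)) (P.cons (P.cons (P.lf 168570 0 0) P.nil) P.nil)))))) 2341116)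
 EL.nil))))))
noncomputable def S285_314_660_808_3 : EL := (EL.cons 0 (TM.mk (P.cons (P.lf 812258952 0 0) (P.cons (P.lf 503779721 0 0) (P.cons (P.lf 60126632 0 0) (P.cons (P.lf 0 7110123 0) (P.cons (P.lf 0 270363 0) (P.cons (P.lf 53070 0 0) P.nil)))))) 3984)
 (EL.cons 1 (TM.mk (P.cons (P.lf 0 1228710643 0) (P.cons (P.lf 0 321830180 0) (P.cons (P.lf 40457490 0 0) (P.cons (P.lf 2710608 0 0) (P.cons (P.lf 0 384633 0) (P.cons (P.lf 0 7027 0) P.nil)))))) 2881)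
 (EL.cons 5 (TM.mk (P.cons (P.lf 1858680464 0 0) (P.cons (P.lf 0 179121676 0) (P.cons (P.lf 0 21378358 0) (P.cons (P.lf 2528040 0 0) (P.cons (P.lf 96128 0 0) (P.cons (P.lf 0 18870 0) P.nil)))))) 1690)
 EL.nil)))
noncomputable def S285_314_660_808_4 : EL := (EL.cons 0 (TM.mk (P.cons (P.cons (P.lf 0 491484157 0) (P.cons (P.lf 0 61820957 0) (P.cons (P.lf 26657892 0 0) (P.lf 2961987 0 0)))) (P.cons (P.cons (P.lf 0 266862835 0) (P.cons (P.lf 0 29406069 0) (P.cons (P.lf 12680228 0 0) (P.lf 1408914 0 0)))) (P.cons (P.cons (P.lf 7854827 0 0) (P.cons (P.lf 1817687 0 0) (P.cons (P.lf 0 783806 0) (P.lf 0 87087 0)))) (P.cons (P.cons (P.lf 19465324 0 0) (P.cons (P.lf 1549675 0 0) (P.cons (P.lf 0 668237 0) P.nil))) (P.cons (P.cons (P.lf 799233 0 0) (P.cons (P.lf 0 110026 0) P.nil)) (P.cons (P.cons (P.lf 0 415007 0) P.nil) P.nil)))))) 342479)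
 (EL.cons 1 (TM.mk (P.cons (P.cons (P.lf 743472031 0 0) (P.cons (P.lf 93517059 0 0) (P.cons (P.lf 0 40325610 0) (P.lf 0 4480621 0)))) (P.cons (P.cons (P.lf 137302897 0 0) (P.cons (P.lf 10976058 0 0) (P.cons (P.lf 0 4732998 0) (P.lf 0 525888 0)))) (P.cons (P.cons (P.lf 0 70819651 0) (P.cons (P.lf 0 7907767 0) (P.cons (P.lf 3409918 0 0) (P.lf 378877 0 0)))) (P.cons (P.cons (P.lf 0 7221678 0) (P.cons (P.lf 175286 0 0) (P.cons (P.lf 0 75585 0) P.nil))) (P.cons (P.cons (P.lf 1982668 0 0) (P.cons (P.lf 177965 0 0) P.nil)) (P.cons (P.cons (P.lf 119581 0 0) P.nil) P.nil)))))) 239942)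
 (EL.cons 5 (TM.mk (P.cons (P.cons (P.lf 0 1124656118 0) (P.cons (P.lf 0 141464008 0) (P.cons (P.lf 61000874 0 0) (P.lf 6777874 0 0)))) (P.cons (P.cons (P.lf 195259986 0 0) (P.cons (P.lf 34082336 0 0) (P.cons (P.lf 0 14696686 0) (P.lf 0 1632962 0)))) (P.cons (P.cons (P.lf 51906378 0 0) (P.cons (P.lf 1604366 0 0) (P.cons (P.lf 0 691820 0) (P.lf 0 76866 0)))) (P.cons (P.cons (P.lf 0 8187908 0) (P.cons (P.lf 0 1029470 0) (P.cons (P.lf 443918 0 0) P.nil))) (P.cons (P.cons (P.lf 0 988286 0) (P.cons (P.lf 30796 0 0) P.nil)) (P.cons (P.cons (P.lf 177950 0 0) P.nil) P.nil)))))) 174522)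
 EL.nil)))
noncomputable def S285_314_660_808_5 : EL := (EL.cons 0 (TM.mk (P.cons (P.cons (P.lf 297388752 0 0) (P.cons (P.lf 74813632 0 0) (P.cons (P.lf 0 27555292 0) (P.cons (P.lf 0 7642357 0) (P.cons (P.lf 424023 0 0) (P.cons (P.lf 194421 0 0) P.nil)))))) (P.cons (P.cons (P.lf 138501752 0 0) (P.cons (P.lf 29807091 0 0) (P.cons (P.lf 0 11295221 0) (P.cons (P.lf 0 2771724 0) (P.cons (P.lf 140398 0 0) P.nil))))) (P.cons (P.cons (P.lf 0 29744985 0) (P.cons (P.lf 0 8097960 0) (P.cons (P.lf 2965266 0 0) (P.cons (P.lf 842196 0 0) P.nil)))) (P.cons (P.cons (P.lf 0 17918390 0) (P.cons (P.lf 0 3130523 0) (P.cons (P.lf 1234924 0 0) P.nil))) (P.cons (P.cons (P.lf 944878 0 0) (P.cons (P.lf 445851 0 0) P.nil)) (P.cons (P.cons (P.lf 860187 0 0) P.nil) P.nil)))))) 1958731)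
 (EL.cons 1 (TM.mk (P.cons (P.cons (P.lf 0 449862354 0) (P.cons (P.lf 0 113171182 0) (P.cons (P.lf 41683113 0 0) (P.cons (P.lf 11560653 0 0) (P.cons (P.lf 0 641422 0) (P.cons (P.lf 0 294101 0) P.nil)))))) (P.cons (P.cons (P.lf 0 48329071 0) (P.cons (P.lf 0 4540702 0) (P.cons (P.lf 2151498 0 0) (P.cons (P.lf 50679 0 0) (P.cons (P.lf 17437 0 0) P.nil))))) (P.cons (P.cons (P.lf 68206640 0 0) (P.cons (P.lf 15359776 0 0) (P.cons (P.lf 0 5802678 0) (P.cons (P.lf 0 1443648 0) P.nil)))) (P.cons (P.cons (P.lf 4118210 0 0) (P.cons (P.lf 0 502550 0) (P.cons (P.lf 107028 0 0) P.nil))) (P.cons (P.cons (P.lf 0 3665865 0) (P.cons (P.lf 0 676098 0) P.nil)) (P.cons (P.cons (P.lf 0 156346 0) P.nil) P.nil)))))) 1641980)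
 (EL.cons 5 (TM.mk (P.cons (P.cons (P.lf 680510398 0 0) (P.cons (P.lf 171194958 0 0) (P.cons (P.lf 0 63054382 0) (P.cons (P.lf 0 17487896 0) (P.cons (P.lf 970286 0 0) (P.cons (P.lf 444890 0 0) P.nil)))))) (P.cons (P.cons (P.lf 0 170716010 0) (P.cons (P.lf 0 54469614 0) (P.cons (P.lf 19337504 0 0) (P.cons (P.lf 6189168 0 0) (P.cons (P.lf 0 374026 0) P.nil))))) (P.cons (P.cons (P.lf 0 50927490 0) (P.cons (P.lf 0 5962012 0) (P.cons (P.lf 2675494 0 0) (P.cons (P.lf 195434 0 0) P.nil)))) (P.cons (P.cons (P.lf 13017532 0 0) (P.cons (P.lf 3298966 0 0) (P.cons (P.lf 0 1259306 0) P.nil))) (P.cons (P.cons (P.lf 1790964 0 0) (P.cons (P.lf 774 0 0) P.nil)) (P.cons (P.cons (P.lf 0 472984 0) P.nil) P.nil)))))) 1449904)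
 EL.nil)))
noncomputable def S285_314_660_808_6 : EL := (EL.cons 12 (TM.mk (P.lf 8589934592 0 0) 0)
 (EL.cons 3 (TM.mk (P.cons (P.lf 1320724353 0 0) (P.cons (P.lf 409570215 0 0) (P.cons (P.lf 0 14623338 0) (P.cons (P.lf 0 1245645 0) (P.cons (P.lf 85526 0 0) (P.cons (P.lf 2831 0 0) P.nil)))))) 532)
 (EL.cons 7 (TM.mk (P.cons (P.lf 0 1997870342 0) (P.cons (P.lf 96267727 0 0) (P.cons (P.lf 13808992 0 0) (P.cons (P.lf 0 693290 0) (P.cons (P.lf 0 37347 0) (P.cons (P.lf 3551 0 0) P.nil)))))) 296)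
 EL.nil)))
noncomputable def S285_314_660_808_7 : EL := (EL.cons 12 (TM.mk (P.cons (P.cons (P.lf 0 5197624170 0) (P.cons (P.lf 0 653779176 0) (P.cons (P.lf 281916952 0 0) (P.lf 31324104 0 0)))) (P.cons (P.cons (P.lf 401501700 0 0) (P.cons (P.lf 94507384 0 0) (P.cons (P.lf 0 40752648 0) (P.lf 0 4528064 0)))) (P.cons (P.cons (P.lf 218796822 0 0) (P.cons (P.lf 9002624 0 0) (P.cons (P.lf 0 3882032 0) (P.lf 0 431328 0)))) (P.cons (P.cons (P.lf 0 5067624 0) (P.cons (P.lf 0 1913904 0) (P.cons (P.lf 825296 0 0) P.nil))) (P.cons (P.cons (P.lf 0 2816462 0) (P.cons (P.lf 0 33296 0) P.nil)) (P.cons (P.cons (P.lf 121562 0 0) P.nil) P.nil)))))) 239002)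
 (EL.cons 3 (TM.mk (P.cons (P.cons (P.lf 481991167 0 0) (P.cons (P.lf 201040430 0 0) (P.cons (P.lf 0 86690900 0) (P.lf 0 9632320 0)))) (P.cons (P.cons (P.lf 1178231754 0 0) (P.cons (P.lf 33283202 0 0) (P.cons (P.lf 0 14352090 0) (P.lf 0 1594678 0)))) (P.cons (P.cons (P.lf 0 27062597 0) (P.cons (P.lf 0 14006584 0) (P.cons (P.lf 6039796 0 0) (P.lf 671084 0 0)))) (P.cons (P.cons (P.lf 0 30822864 0) (P.cons (P.lf 0 137794 0) (P.cons (P.lf 59418 0 0) P.nil))) (P.cons (P.cons (P.lf 1881642 0 0) (P.cons (P.lf 263828 0 0) P.nil)) (P.cons (P.cons (P.lf 357742 0 0) P.nil) P.nil)))))) 659610)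
 (EL.cons 7 (TM.mk (P.cons (P.cons (P.lf 1510003850 0 0) (P.cons (P.lf 222938285 0 0) (P.cons (P.lf 0 96133506 0) (P.lf 0 10681502 0)))) (P.cons (P.cons (P.lf 276938334 0 0) (P.cons (P.lf 7823072 0 0) (P.cons (P.lf 0 3373395 0) (P.lf 0 374819 0)))) (P.cons (P.cons (P.lf 43251925 0 0) (P.cons (P.lf 0 1890702 0) (P.cons (P.lf 815293 0 0) (P.lf 90590 0 0)))) (P.cons (P.cons (P.lf 0 7554500 0) (P.cons (P.lf 0 784597 0) (P.cons (P.lf 338327 0 0) P.nil))) (P.cons (P.cons (P.lf 0 1420381 0) (P.cons (P.lf 35292 0 0) P.nil)) (P.cons (P.cons (P.lf 154801 0 0) P.nil) P.nil)))))) 501228)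
 (EL.cons 10 (TM.mk (P.cons (P.cons (P.lf 0 1101283803 0) (P.cons (P.lf 1025947743 0 0) (P.cons (P.lf 105295614 0 0) (P.cons (P.lf 0 21898557 0) (P.lf 0 1824879 0))))) (P.cons (P.cons (P.lf 106131099 0 0) (P.cons (P.lf 0 98870937 0) (P.cons (P.lf 0 10147374 0) (P.cons (P.lf 2110371 0 0) (P.lf 175863 0 0))))) (P.cons (P.cons (P.lf 12666855 0 0) (P.cons (P.lf 0 11800347 0) (P.cons (P.lf 0 1211097 0) (P.cons (P.lf 251874 0 0) P.nil)))) (P.cons (P.cons (P.lf 0 1497882 0) (P.cons (P.lf 1395417 0 0) (P.cons (P.lf 143214 0 0) P.nil))) (P.cons (P.cons (P.lf 0 56955 0) (P.cons (P.lf 53058 0 0) P.nil)) (P.cons (P.cons (P.lf 11178 0 0) P.nil) P.nil)))))) 73815)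
 EL.nil))))
noncomputable def S285_314_660_808_8 : EL := (EL.cons 12 (TM.mk (P.cons (P.cons (P.lf 3144994494 0 0) (P.cons (P.lf 791181448 0 0) (P.cons (P.lf 0 291407284 0) (P.cons (P.lf 0 80820720 0) (P.cons (P.lf 4484210 0 0) (P.cons (P.lf 2056078 0 0) P.nil)))))) (P.cons (P.cons (P.lf 0 485883778 0) (P.cons (P.lf 0 175486158 0) (P.cons (P.lf 61285710 0 0) (P.cons (P.lf 20814668 0 0) (P.cons (P.lf 0 1296434 0) P.nil))))) (P.cons (P.cons (P.lf 0 246013942 0) (P.cons (P.lf 0 35365154 0) (P.cons (P.lf 14919254 0 0) (P.cons (P.lf 1979532 0 0) P.nil)))) (P.cons (P.cons (P.lf 26586208 0 0) (P.cons (P.lf 8743568 0 0) (P.cons (P.lf 0 3280894 0) P.nil))) (P.cons (P.cons (P.lf 8507694 0 0) (P.cons (P.lf 637206 0 0) P.nil)) (P.cons (P.cons (P.lf 0 668556 0) P.nil) P.nil)))))) 3930710)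
 (EL.cons 3 (TM.mk (P.cons (P.cons (P.lf 0 1066840334 0) (P.cons (P.lf 0 438307105 0) (P.cons (P.lf 150750040 0 0) (P.cons (P.lf 53990508 0 0) (P.cons (P.lf 0 3447290 0) (P.cons (P.lf 0 1580636 0) P.nil)))))) (P.cons (P.cons (P.lf 0 1456047020 0) (P.cons (P.lf 0 200971240 0) (P.cons (P.lf 85857780 0 0) (P.cons (P.lf 10321777 0 0) (P.cons (P.lf 0 72385 0) P.nil))))) (P.cons (P.cons (P.lf 233793775 0 0) (P.cons (P.lf 76510613 0 0) (P.cons (P.lf 0 28884926 0) (P.cons (P.lf 0 7208031 0) P.nil)))) (P.cons (P.cons (P.lf 101495625 0 0) (P.cons (P.lf 6824826 0 0) (P.cons (P.lf 0 3326755 0) P.nil))) (P.cons (P.cons (P.lf 0 11339678 0) (P.cons (P.lf 0 3375345 0) P.nil)) (P.cons (P.cons (P.lf 0 2843754 0) P.nil) P.nil)))))) 9361010)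
 (EL.cons 7 (TM.mk (P.cons (P.cons (P.lf 0 1095884220 0) (P.cons (P.lf 0 315629764 0) (P.cons (P.lf 113740588 0 0) (P.cons (P.lf 34408512 0 0) (P.cons (P.lf 0 2015273 0) (P.cons (P.lf 0 924032 0) P.nil)))))) (P.cons (P.cons (P.lf 0 342237620 0) (P.cons (P.lf 0 47237424 0) (P.cons (P.lf 20180501 0 0) (P.cons (P.lf 2426080 0 0) (P.cons (P.lf 0 17014 0) P.nil))))) (P.cons (P.cons (P.lf 0 6358864 0) (P.cons (P.lf 9521011 0 0) (P.cons (P.lf 0 3173991 0) (P.cons (P.lf 0 1259591 0) P.nil)))) (P.cons (P.cons (P.lf 35487285 0 0) (P.cons (P.lf 5693407 0 0) (P.cons (P.lf 0 2315498 0) P.nil))) (P.cons (P.cons (P.lf 3949830 0 0) (P.cons (P.lf 0 265926 0) P.nil)) (P.cons (P.cons (P.lf 0 1211706 0) P.nil) P.nil)))))) 4695611)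
 (EL.cons 10 (TM.mk (P.cons (P.cons (P.lf 1332736410 0 0) (P.cons (P.lf 0 1073930028 0) (P.cons (P.lf 0 355881840 0) (P.cons (P.lf 69783000 0 0) (P.cons (P.lf 19935738 0 0) (P.cons (P.lf 0 391668 0) P.nil)))))) (P.cons (P.cons (P.lf 0 231386364 0) (P.cons (P.lf 175169664 0 0) (P.cons (P.lf 77164356 0 0) (P.cons (P.lf 0 15028794 0) (P.cons (P.lf 0 4654386 0) P.nil))))) (P.cons (P.cons (P.lf 0 61509924 0) (P.cons (P.lf 55400982 0 0) (P.cons (P.lf 8472024 0 0) (P.cons (P.lf 0 1713966 0) P.nil)))) (P.cons (P.cons (P.lf 9702804 0 0) (P.cons (P.lf 0 7819116 0) (P.cons (P.lf 0 2590236 0) P.nil))) (P.cons (P.cons (P.lf 1171134 0 0) (P.cons (P.lf 0 1127514 0) P.nil)) (P.cons (P.cons (P.lf 0 210864 0) P.nil) P.nil)))))) 3756852)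
 EL.nil))))
noncomputable def S285_314_660_808_9 : EL := (EL.cons 3 (TM.mk (P.cons (P.lf 1320724353 0 0) (P.cons (P.lf 409570215 0 0) (P.cons (P.lf 0 14623338 0) (P.cons (P.lf 0 1245645 0) (P.cons (P.lf 85526 0 0) (P.cons (P.lf 2831 0 0) P.nil)))))) 532)
 (EL.cons 7 (TM.mk (P.cons (P.lf 0 1997870342 0) (P.cons (P.lf 96267727 0 0) (P.cons (P.lf 13808992 0 0) (P.cons (P.lf 0 693290 0) (P.cons (P.lf 0 37347 0) (P.cons (P.lf 3551 0 0) P.nil)))))) 296)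
 EL.nil))
noncomputable def S285_314_660_808_10 : EL := (EL.cons 3 (TM.mk (P.cons (P.cons (P.lf 0 799147973 0) (P.cons (P.lf 0 100520215 0) (P.cons (P.lf 43345450 0 0) (P.lf 4816160 0 0)))) (P.cons (P.cons (P.lf 0 186092100 0) (P.cons (P.lf 0 16641601 0) (P.cons (P.lf 7176045 0 0) (P.lf 797339 0 0)))) (P.cons (P.cons (P.lf 61632604 0 0) (P.cons (P.lf 7003292 0 0) (P.cons (P.lf 0 3019898 0) (P.lf 0 335542 0)))) (P.cons (P.cons (P.lf 9723336 0 0) (P.cons (P.lf 68897 0 0) (P.cons (P.lf 0 29709 0) P.nil))) (P.cons (P.cons (P.lf 0 1157112 0) (P.cons (P.lf 0 131914 0) P.nil)) (P.cons (P.cons (P.lf 0 136415 0) P.nil) P.nil)))))) 163229)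
 (EL.cons 7 (TM.mk (P.cons (P.cons (P.lf 1208877560 0 0) (P.cons (P.lf 152057738 0 0) (P.cons (P.lf 0 65569011 0) (P.lf 0 7285445 0)))) (P.cons (P.cons (P.lf 0 151632330 0) (P.cons (P.lf 0 29307712 0) (P.cons (P.lf 12637815 0 0) (P.lf 1404199 0 0)))) (P.cons (P.cons (P.lf 0 54744302 0) (P.cons (P.lf 0 2085708 0) (P.cons (P.lf 899380 0 0) (P.lf 99929 0 0)))) (P.cons (P.cons (P.lf 4695649 0 0) (P.cons (P.lf 750728 0 0) (P.cons (P.lf 0 323722 0) P.nil))) (P.cons (P.cons (P.lf 940193 0 0) (P.cons (P.lf 0 4017 0) P.nil)) (P.cons (P.cons (P.lf 0 89537 0) P.nil) P.nil)))))) 110018)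
 EL.nil))
noncomputable def S285_314_660_808_11 : EL := (EL.cons 3 (TM.mk (P.cons (P.cons (P.lf 483550924 0 0) (P.cons (P.lf 121646165 0 0) (P.cons (P.lf 0 44804612 0) (P.cons (P.lf 0 12426390 0) (P.cons (P.lf 689458 0 0) (P.cons (P.lf 316126 0 0) P.nil)))))) (P.cons (P.cons (P.lf 75248248 0 0) (P.cons (P.lf 10742282 0 0) (P.cons (P.lf 0 4471536 0) (P.cons (P.lf 0 653243 0) (P.cons (P.lf 14477 0 0) P.nil))))) (P.cons (P.cons (P.lf 0 66346307 0) (P.cons (P.lf 0 15151597 0) (P.cons (P.lf 5712076 0 0) (P.cons (P.lf 1434393 0 0) P.nil)))) (P.cons (P.cons (P.lf 0 7271211 0) (P.cons (P.lf 0 157860 0) (P.cons (P.lf 144833 0 0) P.nil))) (P.cons (P.cons (P.lf 3096298 0 0) (P.cons (P.lf 608397 0 0) P.nil)) (P.cons (P.cons (P.lf 289470 0 0) P.nil) P.nil)))))) 1437004)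
 (EL.cons 7 (TM.mk (P.cons (P.cons (P.lf 0 731471370 0) (P.cons (P.lf 0 184015132 0) (P.cons (P.lf 67776298 0 0) (P.cons (P.lf 18797502 0 0) (P.cons (P.lf 0 1042949 0) (P.cons (P.lf 0 478208 0) P.nil)))))) (P.cons (P.cons (P.lf 148254244 0 0) (P.cons (P.lf 49681848 0 0) (P.cons (P.lf 0 17519809 0) (P.cons (P.lf 0 5746892 0) (P.cons (P.lf 351782 0 0) P.nil))))) (P.cons (P.cons (P.lf 56829098 0 0) (P.cons (P.lf 7530529 0 0) (P.cons (P.lf 0 3251589 0) (P.cons (P.lf 0 357059 0) P.nil)))) (P.cons (P.cons (P.lf 0 9975507 0) (P.cons (P.lf 0 2775905 0) (P.cons (P.lf 1052320 0 0) P.nil))) (P.cons (P.cons (P.lf 0 2050734 0) (P.cons (P.lf 0 96342 0) P.nil)) (P.cons (P.cons (P.lf 316848 0 0) P.nil) P.nil)))))) 1211743)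
 EL.nil))
noncomputable def S285_314_660_808_12 : EL := (EL.cons 4 (TM.mk (P.cons (P.lf 0 1320724353 0) (P.cons (P.lf 0 409570215 0) (P.cons (P.lf 14623338 0 0) (P.cons (P.lf 1245645 0 0) (P.cons (P.lf 0 85526 0) (P.cons (P.lf 0 2831 0) P.nil)))))) 532)
 (EL.cons 8 (TM.mk (P.cons (P.lf 1997870342 0 0) (P.cons (P.lf 0 96267727 0) (P.cons (P.lf 0 13808992 0) (P.cons (P.lf 693290 0 0) (P.cons (P.lf 37347 0 0) (P.cons (P.lf 0 3551 0) P.nil)))))) 296)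
 EL.nil))
noncomputable def S285_314_660_808_13 : EL := (EL.cons 4 (TM.mk (P.cons (P.cons (P.lf 799147973 0 0) (P.cons (P.lf 100520215 0 0) (P.cons (P.lf 0 43345450 0) (P.lf 0 4816160 0)))) (P.cons (P.cons (P.lf 186092100 0 0) (P.cons (P.lf 16641601 0 0) (P.cons (P.lf 0 7176045 0) (P.lf 0 797339 0)))) (P.cons (P.cons (P.lf 0 61632604 0) (P.cons (P.lf 0 7003292 0) (P.cons (P.lf 3019898 0 0) (P.lf 335542 0 0)))) (P.cons (P.cons (P.lf 0 9723336 0) (P.cons (P.lf 0 68897 0) (P.cons (P.lf 29709 0 0) P.nil))) (P.cons (P.cons (P.lf 1157112 0 0) (P.cons (P.lf 131914 0 0) P.nil)) (P.cons (P.cons (P.lf 136415 0 0) P.nil) P.nil)))))) 163229)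
 (EL.cons 8 (TM.mk (P.cons (P.cons (P.lf 0 1208877560 0) (P.cons (P.lf 0 152057738 0) (P.cons (P.lf 65569011 0 0) (P.lf 7285445 0 0)))) (P.cons (P.cons (P.lf 151632330 0 0) (P.cons (P.lf 29307712 0 0) (P.cons (P.lf 0 12637815 0) (P.lf 0 1404199 0)))) (P.cons (P.cons (P.lf 54744302 0 0) (P.cons (P.lf 2085708 0 0) (P.cons (P.lf 0 899380 0) (P.lf 0 99929 0)))) (P.cons (P.cons (P.lf 0 4695649 0) (P.cons (P.lf 0 750728 0) (P.cons (P.lf 323722 0 0) P.nil))) (P.cons (P.cons (P.lf 0 940193 0) (P.cons (P.lf 4017 0 0) P.nil)) (P.cons (P.cons (P.lf 89537 0 0) P.nil) P.nil)))))) 110018)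
 EL.nil))
noncomputable def S285_314_660_808_14 : EL := (EL.cons 4 (TM.mk (P.cons (P.cons (P.lf 0 483550924 0) (P.cons (P.lf 0 121646165 0) (P.cons (P.lf 44804612 0 0) (P.cons (P.lf 12426390 0 0) (P.cons (P.lf 0 689458 0) (P.cons (P.lf 0 316126 0) P.nil)))))) (P.cons (P.cons (P.lf 0 75248248 0) (P.cons (P.lf 0 10742282 0) (P.cons (P.lf 4471536 0 0) (P.cons (P.lf 653243 0 0) (P.cons (P.lf 0 14477 0) P.nil))))) (P.cons (P.cons (P.lf 66346307 0 0) (P.cons (P.lf 15151597 0 0) (P.cons (P.lf 0 5712076 0) (P.cons (P.lf 0 1434393 0) P.nil)))) (P.cons (P.cons (P.lf 7271211 0 0) (P.cons (P.lf 157860 0 0) (P.cons (P.lf 0 144833 0) P.nil))) (P.cons (P.cons (P.lf 0 3096298 0) (P.cons (P.lf 0 608397 0) P.nil)) (P.cons (P.cons (P.lf 0 289470 0) P.nil) P.nil)))))) 1437004)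
 (EL.cons 8 (TM.mk (P.cons (P.cons (P.lf 731471370 0 0) (P.cons (P.lf 184015132 0 0) (P.cons (P.lf 0 67776298 0) (P.cons (P.lf 0 18797502 0) (P.cons (P.lf 1042949 0 0) (P.cons (P.lf 478208 0 0) P.nil)))))) (P.cons (P.cons (P.lf 0 148254244 0) (P.cons (P.lf 0 49681848 0) (P.cons (P.lf 17519809 0 0) (P.cons (P.lf 5746892 0 0) (P.cons (P.lf 0 351782 0) P.nil))))) (P.cons (P.cons (P.lf 0 56829098 0) (P.cons (P.lf 0 7530529 0) (P.cons (P.lf 3251589 0 0) (P.cons (P.lf 357059 0 0) P.nil)))) (P.cons (P.cons (P.lf 9975507 0 0) (P.cons (P.lf 2775905 0 0) (P.cons (P.lf 0 1052320 0) P.nil))) (P.cons (P.cons (P.lf 2050734 0 0) (P.cons (P.lf 96342 0 0) P.nil)) (P.cons (P.cons (P.lf 0 316848 0) P.nil) P.nil)))))) 1211743)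
 EL.nil))
noncomputable def S285_314_660_808_15 : EL := (EL.cons 4 (TM.mk (P.cons (P.lf 0 433204774 0) (P.cons (P.lf 0 268682518 0) (P.cons (P.lf 0 32067537 0) (P.cons (P.lf 3792065 0 0) (P.cons (P.lf 144194 0 0) (P.cons (P.lf 0 28304 0) P.nil)))))) 2128)
 (EL.cons 8 (TM.mk (P.cons (P.lf 655312343 0 0) (P.cons (P.lf 171642763 0 0) (P.cons (P.lf 0 21577328 0) (P.cons (P.lf 0 1445658 0) (P.cons (P.lf 205138 0 0) (P.cons (P.lf 3748 0 0) P.nil)))))) 1533)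
 EL.nil))
noncomputable def S285_314_660_808_16 : EL := (EL.cons 4 (TM.mk (P.cons (P.cons (P.lf 262124883 0 0) (P.cons (P.lf 32971177 0 0) (P.cons (P.lf 0 14217542 0) (P.lf 0 1579726 0)))) (P.cons (P.cons (P.lf 142326845 0 0) (P.cons (P.lf 15683236 0 0) (P.cons (P.lf 0 6762788 0) (P.lf 0 751421 0)))) (P.cons (P.cons (P.lf 0 4189241 0) (P.cons (P.lf 0 969433 0) (P.cons (P.lf 418030 0 0) (P.lf 46446 0 0)))) (P.cons (P.cons (P.lf 0 10381506 0) (P.cons (P.lf 0 826493 0) (P.cons (P.lf 356393 0 0) P.nil))) (P.cons (P.cons (P.lf 0 426257 0) (P.cons (P.lf 58680 0 0) P.nil)) (P.cons (P.cons (P.lf 221337 0 0) P.nil) P.nil)))))) 182664)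
 (EL.cons 8 (TM.mk (P.cons (P.cons (P.lf 0 396518417 0) (P.cons (P.lf 0 49875765 0) (P.cons (P.lf 21506992 0 0) (P.lf 2389665 0 0)))) (P.cons (P.cons (P.lf 0 73228212 0) (P.cons (P.lf 0 5853898 0) (P.cons (P.lf 2524266 0 0) (P.lf 280474 0 0)))) (P.cons (P.cons (P.lf 37770481 0 0) (P.cons (P.lf 4217476 0 0) (P.cons (P.lf 0 1818623 0) (P.lf 0 202068 0)))) (P.cons (P.cons (P.lf 3851562 0 0) (P.cons (P.lf 0 93486 0) (P.cons (P.lf 40312 0 0) P.nil))) (P.cons (P.cons (P.lf 0 1057423 0) (P.cons (P.lf 0 94915 0) P.nil)) (P.cons (P.cons (P.lf 0 63777 0) P.nil) P.nil)))))) 127959)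
 EL.nil))
noncomputable def S285_314_660_808_17 : EL := (EL.cons 4 (TM.mk (P.cons (P.cons (P.lf 0 158607334 0) (P.cons (P.lf 0 39900603 0) (P.cons (P.lf 14696156 0 0) (P.cons (P.lf 4075923 0 0) (P.cons (P.lf 0 226145 0) (P.cons (P.lf 0 103691 0) P.nil)))))) (P.cons (P.cons (P.lf 0 73867601 0) (P.cons (P.lf 0 15897115 0) (P.cons (P.lf 6024118 0 0) (P.cons (P.lf 1478252 0 0) (P.cons (P.lf 0 74879 0) P.nil))))) (P.cons (P.cons (P.lf 15863992 0 0) (P.cons (P.lf 4318912 0 0) (P.cons (P.lf 0 1581475 0) (P.cons (P.lf 0 449171 0) P.nil)))) (P.cons (P.cons (P.lf 9556474 0 0) (P.cons (P.lf 1669612 0 0) (P.cons (P.lf 0 658626 0) P.nil))) (P.cons (P.cons (P.lf 0 503935 0) (P.cons (P.lf 0 237787 0) P.nil)) (P.cons (P.cons (P.lf 0 458766 0) P.nil) P.nil)))))) 1044667)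
 (EL.cons 8 (TM.mk (P.cons (P.cons (P.lf 239926589 0 0) (P.cons (P.lf 60357964 0 0) (P.cons (P.lf 0 22230994 0) (P.cons (P.lf 0 6165682 0) (P.cons (P.lf 342092 0 0) (P.cons (P.lf 156854 0 0) P.nil)))))) (P.cons (P.cons (P.lf 25775505 0 0) (P.cons (P.lf 2421708 0 0) (P.cons (P.lf 0 1147466 0) (P.cons (P.lf 0 27029 0) (P.cons (P.lf 0 9300 0) P.nil))))) (P.cons (P.cons (P.lf 0 36376875 0) (P.cons (P.lf 0 8191881 0) (P.cons (P.lf 3094762 0 0) (P.cons (P.lf 769946 0 0) P.nil)))) (P.cons (P.cons (P.lf 0 2196379 0) (P.cons (P.lf 268027 0 0) (P.cons (P.lf 0 57082 0) P.nil))) (P.cons (P.cons (P.lf 1955128 0 0) (P.cons (P.lf 360586 0 0) P.nil)) (P.cons (P.cons (P.lf 83385 0 0) P.nil) P.nil)))))) 875711)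
 EL.nil))
noncomputable def S285_314_660_808_18 : EL := (EL.cons 4 (TM.mk (P.cons (P.lf 0 142093522 0) (P.cons (P.lf 0 132193991 0) (P.cons (P.lf 0 36274848 0) (P.cons (P.lf 0 908220 0) (P.cons (P.lf 623396 0 0) (P.cons (P.lf 0 4479 0) P.nil)))))) 6741)
 (EL.cons 8 (TM.mk (P.cons (P.lf 214946014 0 0) (P.cons (P.lf 122956731 0 0) (P.cons (P.lf 8001726 0 0) (P.cons (P.lf 0 3495072 0) (P.cons (P.lf 0 40579 0) (P.cons (P.lf 38127 0 0) P.nil)))))) 3726)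
 EL.nil))
noncomputable def S285_314_660_808_19 : EL := (EL.cons 4 (TM.mk (P.cons (P.cons (P.lf 85978387 0 0) (P.cons (P.lf 10814725 0 0) (P.cons (P.lf 0 4663431 0) (P.lf 0 518158 0)))) (P.cons (P.cons (P.lf 73346761 0 0) (P.cons (P.lf 8497944 0 0) (P.cons (P.lf 0 3664409 0) (P.lf 0 407156 0)))) (P.cons (P.cons (P.lf 12151117 0 0) (P.cons (P.lf 1157542 0 0) (P.cons (P.lf 0 499144 0) (P.lf 0 55460 0)))) (P.cons (P.cons (P.lf 0 4429297 0) (P.cons (P.lf 0 436860 0) (P.cons (P.lf 188378 0 0) P.nil))) (P.cons (P.cons (P.lf 0 1219047 0) (P.cons (P.lf 0 65451 0) P.nil)) (P.cons (P.cons (P.lf 71447 0 0) P.nil) P.nil)))))) 159407)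
 (EL.cons 8 (TM.mk (P.cons (P.cons (P.lf 0 130060198 0) (P.cons (P.lf 0 16359522 0) (P.cons (P.lf 7054410 0 0) (P.lf 783823 0 0)))) (P.cons (P.cons (P.lf 0 64352258 0) (P.cons (P.lf 0 6993366 0) (P.cons (P.lf 3015618 0 0) (P.lf 335068 0 0)))) (P.cons (P.cons (P.lf 6380360 0 0) (P.cons (P.lf 969044 0 0) (P.cons (P.lf 0 417862 0) (P.lf 0 46428 0)))) (P.cons (P.cons (P.lf 5493878 0 0) (P.cons (P.lf 435017 0 0) (P.cons (P.lf 0 187584 0) P.nil))) (P.cons (P.cons (P.lf 0 78009 0) (P.cons (P.lf 0 55207 0) P.nil)) (P.cons (P.cons (P.lf 0 155984 0) P.nil) P.nil)))))) 127338)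
 EL.nil))
noncomputable def S285_314_660_808_20 : EL := (EL.cons 4 (TM.mk (P.cons (P.cons (P.lf 0 52024067 0) (P.cons (P.lf 0 13087614 0) (P.cons (P.lf 4820418 0 0) (P.cons (P.lf 1336924 0 0) (P.cons (P.lf 0 74176 0) (P.cons (P.lf 0 34010 0) P.nil)))))) (P.cons (P.cons (P.lf 0 40362173 0) (P.cons (P.lf 0 9272943 0) (P.cons (P.lf 3470805 0 0) (P.cons (P.lf 899469 0 0) (P.cons (P.lf 0 47563 0) P.nil))))) (P.cons (P.cons (P.lf 0 1734156 0) (P.cons (P.lf 0 55484 0) (P.cons (P.lf 40654 0 0) (P.cons (P.lf 0 11768 0) P.nil)))) (P.cons (P.cons (P.lf 5065561 0 0) (P.cons (P.lf 1057030 0 0) (P.cons (P.lf 0 403321 0) P.nil))) (P.cons (P.cons (P.lf 768638 0 0) (P.cons (P.lf 80218 0 0) P.nil)) (P.cons (P.cons (P.lf 0 243031 0) P.nil) P.nil)))))) 685634)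
 (EL.cons 8 (TM.mk (P.cons (P.cons (P.lf 78697226 0 0) (P.cons (P.lf 19797740 0 0) (P.cons (P.lf 0 7291886 0) (P.cons (P.lf 0 2022377 0) (P.cons (P.lf 112208 0 0) (P.cons (P.lf 51449 0 0) P.nil)))))) (P.cons (P.cons (P.lf 32859325 0 0) (P.cons (P.lf 6933816 0 0) (P.cons (P.lf 0 2637664 0) (P.cons (P.lf 0 636025 0) (P.cons (P.lf 31746 0 0) P.nil))))) (P.cons (P.cons (P.lf 0 10181336 0) (P.cons (P.lf 0 2659855 0) (P.cons (P.lf 979118 0 0) (P.cons (P.lf 272189 0 0) P.nil)))) (P.cons (P.cons (P.lf 0 4588435 0) (P.cons (P.lf 0 772813 0) (P.cons (P.lf 307113 0 0) P.nil))) (P.cons (P.cons (P.lf 547115 0 0) (P.cons (P.lf 175821 0 0) P.nil)) (P.cons (P.cons (P.lf 246168 0 0) P.nil) P.nil)))))) 626357)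
 EL.nil))
noncomputable def S285_314_660_808_21 : EL := (EL.cons 4 (TM.mk (P.cons (P.cons (P.lf 0 1281139140 0) (P.cons (P.lf 0 301560645 0) (P.cons (P.lf 130036350 0 0) (P.lf 14448480 0 0)))) (P.cons (P.cons (P.lf 0 1364323854 0) (P.cons (P.lf 0 49924803 0) (P.cons (P.lf 21528135 0 0) (P.lf 2392017 0 0)))) (P.cons (P.cons (P.lf 88695201 0 0) (P.cons (P.lf 21009876 0 0) (P.cons (P.lf 0 9059694 0) (P.lf 0 1006626 0)))) (P.cons (P.cons (P.lf 40546200 0 0) (P.cons (P.lf 206691 0 0) (P.cons (P.lf 0 89127 0) P.nil))) (P.cons (P.cons (P.lf 0 3038754 0) (P.cons (P.lf 0 395742 0) P.nil)) (P.cons (P.cons (P.lf 0 494157 0) P.nil) P.nil)))))) 496362)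
 (EL.cons 8 (TM.mk (P.cons (P.cons (P.lf 0 301126290 0) (P.cons (P.lf 0 70880547 0) (P.cons (P.lf 30564495 0 0) (P.lf 3396057 0 0)))) (P.cons (P.cons (P.lf 0 428570664 0) (P.cons (P.lf 0 37130784 0) (P.cons (P.lf 16011210 0 0) (P.lf 1779018 0 0)))) (P.cons (P.cons (P.lf 0 97996227 0) (P.cons (P.lf 0 195006 0) (P.cons (P.lf 84087 0 0) (P.lf 9339 0 0)))) (P.cons (P.cons (P.lf 12250149 0 0) (P.cons (P.lf 1535325 0 0) (P.cons (P.lf 0 662049 0) P.nil))) (P.cons (P.cons (P.lf 2360574 0 0) (P.cons (P.lf 0 39309 0) P.nil)) (P.cons (P.cons (P.lf 0 244338 0) P.nil) P.nil)))))) 391191)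
 (EL.cons 11 (TM.mk (P.cons (P.cons (P.lf 1101283803 0 0) (P.cons (P.lf 0 1025947743 0) (P.cons (P.lf 0 105295614 0) (P.cons (P.lf 21898557 0 0) (P.lf 1824879 0 0))))) (P.cons (P.cons (P.lf 0 106131099 0) (P.cons (P.lf 98870937 0 0) (P.cons (P.lf 10147374 0 0) (P.cons (P.lf 0 2110371 0) (P.lf 0 175863 0))))) (P.cons (P.cons (P.lf 0 12666855 0) (P.cons (P.lf 11800347 0 0) (P.cons (P.lf 1211097 0 0) (P.cons (P.lf 0 251874 0) P.nil)))) (P.cons (P.cons (P.lf 1497882 0 0) (P.cons (P.lf 0 1395417 0) (P.cons (P.lf 0 143214 0) P.nil))) (P.cons (P.cons (P.lf 56955 0 0) (P.cons (P.lf 0 53058 0) P.nil)) (P.cons (P.cons (P.lf 0 11178 0) P.nil) P.nil)))))) 73815)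
 EL.nil)))
noncomputable def S285_314_660_808_22 : EL := (EL.cons 4 (TM.mk (P.cons (P.cons (P.lf 775195629 0 0) (P.cons (P.lf 279976635 0 0) (P.cons (P.lf 0 97777326 0) (P.cons (P.lf 0 33208449 0) (P.cons (P.lf 2068374 0 0) (P.cons (P.lf 948381 0 0) P.nil)))))) (P.cons (P.cons (P.lf 765647634 0 0) (P.cons (P.lf 105856761 0 0) (P.cons (P.lf 0 45164658 0) (P.cons (P.lf 0 5487510 0) (P.cons (P.lf 43431 0 0) P.nil))))) (P.cons (P.cons (P.lf 0 150070041 0) (P.cons (P.lf 0 45831105 0) (P.cons (P.lf 17298501 0 0) (P.cons (P.lf 4321212 0 0) P.nil)))) (P.cons (P.cons (P.lf 0 54383418 0) (P.cons (P.lf 0 3491343 0) (P.cons (P.lf 1735794 0 0) P.nil))) (P.cons (P.cons (P.lf 7217988 0 0) (P.cons (P.lf 1991871 0 0) P.nil)) (P.cons (P.cons (P.lf 1566612 0 0) P.nil) P.nil)))))) 3961992)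
 (EL.cons 8 (TM.mk (P.cons (P.cons (P.lf 182206425 0 0) (P.cons (P.lf 65807316 0 0) (P.cons (P.lf 0 22982145 0) (P.cons (P.lf 0 7805505 0) (P.cons (P.lf 486162 0 0) (P.cons (P.lf 222912 0 0) P.nil)))))) (P.cons (P.cons (P.lf 245245932 0 0) (P.cons (P.lf 48459636 0 0) (P.cons (P.lf 0 18850155 0) (P.cons (P.lf 0 4086486 0) (P.cons (P.lf 184398 0 0) P.nil))))) (P.cons (P.cons (P.lf 31593981 0 0) (P.cons (P.lf 0 995241 0) (P.cons (P.lf 0 38799 0) (P.cons (P.lf 451266 0 0) P.nil)))) (P.cons (P.cons (P.lf 0 22731396 0) (P.cons (P.lf 0 4234656 0) (P.cons (P.lf 1683909 0 0) P.nil))) (P.cons (P.cons (P.lf 0 3000282 0) (P.cons (P.lf 84792 0 0) P.nil)) (P.cons (P.cons (P.lf 764277 0 0) P.nil) P.nil)))))) 1741923)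
 (EL.cons 11 (TM.mk (P.cons (P.cons (P.lf 0 666368205 0) (P.cons (P.lf 536965014 0 0) (P.cons (P.lf 177940920 0 0) (P.cons (P.lf 0 34891500 0) (P.cons (P.lf 0 9967869 0) (P.cons (P.lf 195834 0 0) P.nil)))))) (P.cons (P.cons (P.lf 115693182 0 0) (P.cons (P.lf 0 87584832 0) (P.cons (P.lf 0 38582178 0) (P.cons (P.lf 7514397 0 0) (P.cons (P.lf 2327193 0 0) P.nil))))) (P.cons (P.cons (P.lf 30754962 0 0) (P.cons (P.lf 0 27700491 0) (P.cons (P.lf 0 4236012 0) (P.cons (P.lf 856983 0 0) P.nil)))) (P.cons (P.cons (P.lf 0 4851402 0) (P.cons (P.lf 3909558 0 0) (P.cons (P.lf 1295118 0 0) P.nil))) (P.cons (P.cons (P.lf 0 585567 0) (P.cons (P.lf 563757 0 0) P.nil)) (P.cons (P.cons (P.lf 105432 0 0) P.nil) P.nil)))))) 1878426)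
 EL.nil)))
noncomputable def S285_314_660_808_23 : EL := (EL.cons 4 (TM.mk (P.cons (P.cons (P.lf 0 420220608 0) (P.cons (P.lf 0 98913531 0) (P.cons (P.lf 42652629 0 0) (P.lf 4739178 0 0)))) (P.cons (P.cons (P.lf 0 577820382 0) (P.cons (P.lf 0 47049711 0) (P.cons (P.lf 20288364 0 0) (P.lf 2254263 0 0)))) (P.cons (P.cons (P.lf 0 105030825 0) (P.cons (P.lf 2908299 0 0) (P.cons (P.lf 0 1254090 0) (P.lf 0 139341 0)))) (P.cons (P.cons (P.lf 27672468 0 0) (P.cons (P.lf 2479479 0 0) (P.cons (P.lf 0 1069179 0) P.nil))) (P.cons (P.cons (P.lf 3200280 0 0) (P.cons (P.lf 0 176043 0) P.nil)) (P.cons (P.cons (P.lf 0 675753 0) P.nil) P.nil)))))) 523227)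
 (EL.cons 8 (TM.mk (P.cons (P.cons (P.lf 0 98771061 0) (P.cons (P.lf 0 23249205 0) (P.cons (P.lf 10025319 0 0) (P.lf 1113924 0 0)))) (P.cons (P.cons (P.lf 0 171203430 0) (P.cons (P.lf 0 19388916 0) (P.cons (P.lf 8360718 0 0) (P.lf 928965 0 0)))) (P.cons (P.cons (P.lf 0 74642973 0) (P.cons (P.lf 0 3583404 0) (P.cons (P.lf 1545204 0 0) (P.lf 171687 0 0)))) (P.cons (P.cons (P.lf 0 4300233 0) (P.cons (P.lf 640536 0 0) (P.cons (P.lf 0 276204 0) P.nil))) (P.cons (P.cons (P.lf 2502423 0 0) (P.cons (P.lf 153963 0 0) P.nil)) (P.cons (P.cons (P.lf 136479 0 0) P.nil) P.nil)))))) 308133)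
 (EL.cons 11 (TM.mk (P.cons (P.cons (P.lf 361227078 0 0) (P.cons (P.lf 0 336516441 0) (P.cons (P.lf 0 34537533 0) (P.cons (P.lf 7182843 0 0) (P.lf 598569 0 0))))) (P.cons (P.cons (P.lf 77208657 0 0) (P.cons (P.lf 0 71927004 0) (P.cons (P.lf 0 7382049 0) (P.cons (P.lf 1535259 0 0) (P.lf 127938 0 0))))) (P.cons (P.cons (P.lf 0 18949806 0) (P.cons (P.lf 17653497 0 0) (P.cons (P.lf 1811820 0 0) (P.cons (P.lf 0 376806 0) P.nil)))) (P.cons (P.cons (P.lf 0 752382 0) (P.cons (P.lf 700914 0 0) (P.cons (P.lf 71934 0 0) P.nil))) (P.cons (P.cons (P.lf 273270 0 0) (P.cons (P.lf 0 254574 0) P.nil)) (P.cons (P.cons (P.lf 0 873 0) P.nil) P.nil)))))) 146256)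
 EL.nil)))
noncomputable def S285_314_660_808_24 : EL := (EL.cons 4 (TM.mk (P.cons (P.cons (P.lf 254268384 0 0) (P.cons (P.lf 91833858 0 0) (P.cons (P.lf 0 32071494 0) (P.cons (P.lf 0 10892550 0) (P.cons (P.lf 678438 0 0) (P.cons (P.lf 311073 0 0) P.nil)))))) (P.cons (P.cons (P.lf 329987832 0 0) (P.cons (P.lf 63200217 0 0) (P.cons (P.lf 0 24759954 0) (P.cons (P.lf 0 5177823 0) (P.cons (P.lf 224637 0 0) P.nil))))) (P.cons (P.cons (P.lf 25840938 0 0) (P.cons (P.lf 0 5282130 0) (P.cons (P.lf 1435050 0 0) (P.cons (P.lf 979806 0 0) P.nil)))) (P.cons (P.cons (P.lf 0 36123312 0) (P.cons (P.lf 0 6278079 0) (P.cons (P.lf 2523189 0 0) P.nil))) (P.cons (P.cons (P.lf 0 2839602 0) (P.cons (P.lf 437856 0 0) P.nil)) (P.cons (P.cons (P.lf 1508796 0 0) P.nil) P.nil)))))) 2549928)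
 (EL.cons 8 (TM.mk (P.cons (P.cons (P.lf 59764698 0 0) (P.cons (P.lf 21585156 0 0) (P.cons (P.lf 0 7538268 0) (P.cons (P.lf 0 2560248 0) (P.cons (P.lf 159462 0 0) (P.cons (P.lf 73116 0 0) P.nil)))))) (P.cons (P.cons (P.lf 98975646 0 0) (P.cons (P.lf 22588803 0 0) (P.cons (P.lf 0 8520648 0) (P.cons (P.lf 0 2134347 0) (P.cons (P.lf 109935 0 0) P.nil))))) (P.cons (P.cons (P.lf 34647162 0 0) (P.cons (P.lf 4363770 0 0) (P.cons (P.lf 0 1846656 0) (P.cons (P.lf 0 239301 0) P.nil)))) (P.cons (P.cons (P.lf 0 5189388 0) (P.cons (P.lf 0 1686573 0) (P.cons (P.lf 623952 0 0) P.nil))) (P.cons (P.cons (P.lf 0 3483036 0) (P.cons (P.lf 0 412905 0) P.nil)) (P.cons (P.cons (P.lf 23622 0 0) P.nil) P.nil)))))) 1073862)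
 (EL.cons 11 (TM.mk (P.cons (P.cons (P.lf 0 218572395 0) (P.cons (P.lf 176127447 0 0) (P.cons (P.lf 58365588 0 0) (P.cons (P.lf 0 11444601 0) (P.cons (P.lf 0 3269514 0) (P.cons (P.lf 64233 0 0) P.nil)))))) (P.cons (P.cons (P.lf 0 29833554 0) (P.cons (P.lf 25890630 0 0) (P.cons (P.lf 5444604 0 0) (P.cons (P.lf 0 1084323 0) (P.cons (P.lf 0 250578 0) P.nil))))) (P.cons (P.cons (P.lf 24275937 0 0) (P.cons (P.lf 0 19944972 0) (P.cons (P.lf 0 5960166 0) (P.cons (P.lf 1172160 0 0) P.nil)))) (P.cons (P.cons (P.lf 1323021 0 0) (P.cons (P.lf 0 1383306 0) (P.cons (P.lf 78999 0 0) P.nil))) (P.cons (P.cons (P.lf 0 847182 0) (P.cons (P.lf 721689 0 0) P.nil)) (P.cons (P.cons (P.lf 0 14883 0) P.nil) P.nil)))))) 1320963)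
 EL.nil)))
noncomputable def S285_314_660_808_25 : EL := (EL.cons 4 (TM.mk (P.cons (P.cons (P.lf 0 137834646 0) (P.cons (P.lf 0 32444175 0) (P.cons (P.lf 13990293 0 0) (P.lf 1554474 0 0)))) (P.cons (P.cons (P.lf 0 232272171 0) (P.cons (P.lf 0 25493832 0) (P.cons (P.lf 10993227 0 0) (P.lf 1221468 0 0)))) (P.cons (P.cons (P.lf 0 91699203 0) (P.cons (P.lf 0 3472626 0) (P.cons (P.lf 1497435 0 0) (P.lf 166380 0 0)))) (P.cons (P.cons (P.lf 621705 0 0) (P.cons (P.lf 1310580 0 0) (P.cons (P.lf 0 565137 0) P.nil))) (P.cons (P.cons (P.lf 4415766 0 0) (P.cons (P.lf 196353 0 0) P.nil)) (P.cons (P.cons (P.lf 23298 0 0) P.nil) P.nil)))))) 493815)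
 (EL.cons 8 (TM.mk (P.cons (P.cons (P.lf 0 32397444 0) (P.cons (P.lf 0 7625865 0) (P.cons (P.lf 3288357 0 0) (P.lf 365373 0 0)))) (P.cons (P.cons (P.lf 0 66202437 0) (P.cons (P.lf 0 8724528 0) (P.cons (P.lf 3762114 0 0) (P.lf 418011 0 0)))) (P.cons (P.cons (P.lf 0 41539035 0) (P.cons (P.lf 0 3063138 0) (P.cons (P.lf 1320858 0 0) (P.lf 146760 0 0)))) (P.cons (P.cons (P.lf 0 8350701 0) (P.cons (P.lf 0 76788 0) (P.cons (P.lf 33111 0 0) P.nil))) (P.cons (P.cons (P.lf 705345 0 0) (P.cons (P.lf 134172 0 0) P.nil)) (P.cons (P.cons (P.lf 334308 0 0) P.nil) P.nil)))))) 238056)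
 (EL.cons 11 (TM.mk (P.cons (P.cons (P.lf 118484445 0 0) (P.cons (P.lf 0 110379222 0) (P.cons (P.lf 0 11328498 0) (P.cons (P.lf 2356011 0 0) (P.lf 196332 0 0))))) (P.cons (P.cons (P.lf 62068104 0 0) (P.cons (P.lf 0 57822183 0) (P.cons (P.lf 0 5934435 0) (P.cons (P.lf 1234197 0 0) (P.lf 102849 0 0))))) (P.cons (P.cons (P.lf 325974 0 0) (P.cons (P.lf 0 303675 0) (P.cons (P.lf 0 31167 0) (P.cons (P.lf 6480 0 0) P.nil)))) (P.cons (P.cons (P.lf 0 2566470 0) (P.cons (P.lf 2390904 0 0) (P.cons (P.lf 245382 0 0) P.nil))) (P.cons (P.cons (P.lf 65709 0 0) (P.cons (P.lf 0 61215 0) P.nil)) (P.cons (P.cons (P.lf 37998 0 0) P.nil) P.nil)))))) 183921)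
 EL.nil)))
noncomputable def S285_314_660_808_26 : EL := (EL.cons 4 (TM.mk (P.cons (P.cons (P.lf 83401413 0 0) (P.cons (P.lf 30122004 0 0) (P.cons (P.lf 0 10519623 0) (P.cons (P.lf 0 3572814 0) (P.cons (P.lf 222531 0 0) (P.cons (P.lf 102033 0 0) P.nil)))))) (P.cons (P.cons (P.lf 134101440 0 0) (P.cons (P.lf 30071157 0 0) (P.cons (P.lf 0 11383641 0) (P.cons (P.lf 0 2806320 0) (P.cons (P.lf 142689 0 0) P.nil))))) (P.cons (P.cons (P.lf 41118186 0 0) (P.cons (P.lf 4362504 0 0) (P.cons (P.lf 0 1931346 0) (P.cons (P.lf 0 165735 0) P.nil)))) (P.cons (P.cons (P.lf 0 10497249 0) (P.cons (P.lf 0 2854467 0) (P.cons (P.lf 1073433 0 0) P.nil))) (P.cons (P.cons (P.lf 0 4796322 0) (P.cons (P.lf 0 493389 0) P.nil)) (P.cons (P.cons (P.lf 336438 0 0) P.nil) P.nil)))))) 1576146)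
 (EL.cons 8 (TM.mk (P.cons (P.cons (P.lf 19603146 0 0) (P.cons (P.lf 7080048 0 0) (P.cons (P.lf 0 2472591 0) (P.cons (P.lf 0 839775 0) (P.cons (P.lf 52305 0 0) (P.cons (P.lf 23982 0 0) P.nil)))))) (P.cons (P.cons (P.lf 38543688 0 0) (P.cons (P.lf 9604845 0 0) (P.cons (P.lf 0 3561594 0) (P.cons (P.lf 0 960501 0) (P.cons (P.lf 52278 0 0) P.nil))))) (P.cons (P.cons (P.lf 21214998 0 0) (P.cons (P.lf 3650631 0 0) (P.cons (P.lf 0 1445037 0) (P.cons (P.lf 0 286296 0) P.nil)))) (P.cons (P.cons (P.lf 1444143 0 0) (P.cons (P.lf 0 198045 0) (P.cons (P.lf 50097 0 0) P.nil))) (P.cons (P.cons (P.lf 0 1825488 0) (P.cons (P.lf 0 329367 0) P.nil)) (P.cons (P.cons (P.lf 0 336264 0) P.nil) P.nil)))))) 622950)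
 (EL.cons 11 (TM.mk (P.cons (P.cons (P.lf 0 71692935 0) (P.cons (P.lf 57770760 0 0) (P.cons (P.lf 19144230 0 0) (P.cons (P.lf 0 3753891 0) (P.cons (P.lf 0 1072419 0) (P.cons (P.lf 21069 0 0) P.nil)))))) (P.cons (P.cons (P.lf 0 32018283 0) (P.cons (P.lf 26407575 0 0) (P.cons (P.lf 7722681 0 0) (P.cons (P.lf 0 1519782 0) (P.cons (P.lf 0 414759 0) P.nil))))) (P.cons (P.cons (P.lf 5721831 0 0) (P.cons (P.lf 0 4548168 0) (P.cons (P.lf 0 1613121 0) (P.cons (P.lf 315744 0 0) P.nil)))) (P.cons (P.cons (P.lf 3079218 0 0) (P.cons (P.lf 0 2631006 0) (P.cons (P.lf 0 618171 0) P.nil))) (P.cons (P.cons (P.lf 0 226881 0) (P.cons (P.lf 164178 0 0) P.nil)) (P.cons (P.cons (P.lf 0 104157 0) P.nil) P.nil)))))) 868455)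
 EL.nil)))
noncomputable def S285_314_660_808_27 : EL := (EL.cons 13 (TM.mk (P.lf 0 4294967296 0) 0)
 EL.nil)
noncomputable def S285_314_660_808_28 : EL := (EL.cons 13 (TM.mk (P.cons (P.cons (P.lf 2598812085 0 0) (P.cons (P.lf 326889588 0 0) (P.cons (P.lf 0 140958476 0) (P.lf 0 15662052 0)))) (P.cons (P.cons (P.lf 0 200750850 0) (P.cons (P.lf 0 47253692 0) (P.cons (P.lf 20376324 0 0) (P.lf 2264032 0 0)))) (P.cons (P.cons (P.lf 0 109398411 0) (P.cons (P.lf 0 4501312 0) (P.cons (P.lf 1941016 0 0) (P.lf 215664 0 0)))) (P.cons (P.cons (P.lf 2533812 0 0) (P.cons (P.lf 956952 0 0) (P.cons (P.lf 0 412648 0) P.nil))) (P.cons (P.cons (P.lf 1408231 0 0) (P.cons (P.lf 16648 0 0) P.nil)) (P.cons (P.cons (P.lf 0 60781 0) P.nil) P.nil)))))) 119501)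
 EL.nil)
noncomputable def S285_314_660_808_29 : EL := (EL.cons 13 (TM.mk (P.cons (P.cons (P.lf 0 1572497247 0) (P.cons (P.lf 0 395590724 0) (P.cons (P.lf 145703642 0 0) (P.cons (P.lf 40410360 0 0) (P.cons (P.lf 0 2242105 0) (P.cons (P.lf 0 1028039 0) P.nil)))))) (P.cons (P.cons (P.lf 242941889 0 0) (P.cons (P.lf 87743079 0 0) (P.cons (P.lf 0 30642855 0) (P.cons (P.lf 0 10407334 0) (P.cons (P.lf 648217 0 0) P.nil))))) (P.cons (P.cons (P.lf 123006971 0 0) (P.cons (P.lf 17682577 0 0) (P.cons (P.lf 0 7459627 0) (P.cons (P.lf 0 989766 0) P.nil)))) (P.cons (P.cons (P.lf 0 13293104 0) (P.cons (P.lf 0 4371784 0) (P.cons (P.lf 1640447 0 0) P.nil))) (P.cons (P.cons (P.lf 0 4253847 0) (P.cons (P.lf 0 318603 0) P.nil)) (P.cons (P.cons (P.lf 334278 0 0) P.nil) P.nil)))))) 1965355)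
 EL.nil)
noncomputable def S285_314_660_808_30 : EL := (EL.cons 13 (TM.mk (P.cons (P.lf 0 1408772644 0) (P.cons (P.lf 0 436874896 0) (P.cons (P.lf 15598228 0 0) (P.cons (P.lf 1328688 0 0) (P.cons (P.lf 0 91228 0) (P.cons (P.lf 0 3020 0) P.nil)))))) 560)
 EL.nil)
noncomputable def S285_314_660_808_31 : EL := (EL.cons 13 (TM.mk (P.cons (P.cons (P.lf 852424505 0 0) (P.cons (P.lf 107221563 0 0) (P.cons (P.lf 0 46235147 0) (P.lf 0 5137238 0)))) (P.cons (P.cons (P.lf 198498241 0 0) (P.cons (P.lf 17751042 0 0) (P.cons (P.lf 0 7654449 0) (P.lf 0 850495 0)))) (P.cons (P.cons (P.lf 0 65741445 0) (P.cons (P.lf 0 7470179 0) (P.cons (P.lf 3221225 0 0) (P.lf 357912 0 0)))) (P.cons (P.cons (P.lf 0 10371559 0) (P.cons (P.lf 0 73491 0) (P.cons (P.lf 31690 0 0) P.nil))) (P.cons (P.cons (P.lf 1234253 0 0) (P.cons (P.lf 140709 0 0) P.nil)) (P.cons (P.cons (P.lf 145510 0 0) P.nil) P.nil))))))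 174091)
 EL.nil)
noncomputable def S285_314_660_808_32 : EL := (EL.cons 13 (TM.mk (P.cons (P.cons (P.lf 0 515787653 0) (P.cons (P.lf 0 129755910 0) (P.cons (P.lf 47791587 0 0) (P.cons (P.lf 13254817 0 0) (P.cons (P.lf 0 735422 0) (P.cons (P.lf 0 337202 0) P.nil)))))) (P.cons (P.cons (P.lf 0 80264798 0) (P.cons (P.lf 0 11458435 0) (P.cons (P.lf 4769639 0 0) (P.cons (P.lf 696793 0 0) (P.cons (P.lf 0 15443 0) P.nil))))) (P.cons (P.cons (P.lf 70769395 0 0) (P.cons (P.lf 16161704 0 0) (P.cons (P.lf 0 6092882 0) (P.cons (P.lf 0 1530020 0) P.nil)))) (P.cons (P.cons (P.lf 7755959 0 0) (P.cons (P.lf 168384 0 0) (P.cons (P.lf 0 154489 0) P.nil))) (P.cons (P.cons (P.lf 0 3302718 0) (P.cons (P.lf 0 648957 0) P.nil)) (P.cons (P.cons (P.lf 0 308768 0) P.nil) P.nil)))))) 1532781)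
 EL.nil)
noncomputable def S285_314_660_808_33 : EL := (EL.cons 14 (TM.mk (P.lf 8589934592 0 0) 0)
 EL.nil)
noncomputable def S285_314_660_808_34 : EL := (EL.cons 14 (TM.mk (P.cons (P.cons (P.lf 0 5197624170 0) (P.cons (P.lf 0 653779176 0) (P.cons (P.lf 281916952 0 0) (P.lf 31324104 0 0)))) (P.cons (P.cons (P.lf 401501700 0 0) (P.cons (P.lf 94507384 0 0) (P.cons (P.lf 0 40752648 0) (P.lf 0 4528064 0)))) (P.cons (P.cons (P.lf 218796822 0 0) (P.cons (P.lf 9002624 0 0) (P.cons (P.lf 0 3882032 0) (P.lf 0 431328 0)))) (P.cons (P.cons (P.lf 0 5067624 0) (P.cons (P.lf 0 1913904 0) (P.cons (P.lf 825296 0 0) P.nil))) (P.cons (P.cons (P.lf 0 2816462 0) (P.cons (P.lf 0 33296 0) P.nil)) (P.cons (P.cons (P.lf 121562 0 0) P.nil) P.nil)))))) 239002)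
 EL.nil)
noncomputable def S285_314_660_808_35 : EL := (EL.cons 14 (TM.mk (P.cons (P.cons (P.lf 3144994494 0 0) (P.cons (P.lf 791181448 0 0) (P.cons (P.lf 0 291407284 0) (P.cons (P.lf 0 80820720 0) (P.cons (P.lf 4484210 0 0) (P.cons (P.lf 2056078 0 0) P.nil)))))) (P.cons (P.cons (P.lf 0 485883778 0) (P.cons (P.lf 0 175486158 0) (P.cons (P.lf 61285710 0 0) (P.cons (P.lf 20814668 0 0) (P.cons (P.lf 0 1296434 0) P.nil))))) (P.cons (P.cons (P.lf 0 246013942 0) (P.cons (P.lf 0 35365154 0) (P.cons (P.lf 14919254 0 0) (P.cons (P.lf 1979532 0 0) P.nil)))) (P.cons (P.cons (P.lf 26586208 0 0) (P.cons (P.lf 8743568 0 0) (P.cons (P.lf 0 3280894 0) P.nil))) (P.cons (P.cons (P.lf 8507694 0 0) (P.cons (P.lf 637206 0 0) P.nil)) (P.cons (P.cons (P.lf 0 668556 0) P.nil) P.nil)))))) 3930710)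
 EL.nil)
noncomputable def S285_314_660_808_36 : EL := (EL.cons 14 (TM.mk (P.cons (P.lf 2817545288 0 0) (P.cons (P.lf 873749792 0 0) (P.cons (P.lf 0 31196456 0) (P.cons (P.lf 0 2657376 0) (P.cons (P.lf 182456 0 0) (P.cons (P.lf 6040 0 0) P.nil)))))) 1120)
 EL.nil)
noncomputable def S285_314_660_808_37 : EL := (EL.cons 14 (TM.mk (P.cons (P.cons (P.lf 0 1704849010 0) (P.cons (P.lf 0 214443126 0) (P.cons (P.lf 92470294 0 0) (P.lf 10274476 0 0)))) (P.cons (P.cons (P.lf 0 396996482 0) (P.cons (P.lf 0 35502084 0) (P.cons (P.lf 15308898 0 0) (P.lf 1700990 0 0)))) (P.cons (P.cons (P.lf 131482890 0 0) (P.cons (P.lf 14940358 0 0) (P.cons (P.lf 0 6442450 0) (P.lf 0 715824 0)))) (P.cons (P.cons (P.lf 20743118 0 0) (P.cons (P.lf 146982 0 0) (P.cons (P.lf 0 63380 0) P.nil))) (P.cons (P.cons (P.lf 0 2468506 0) (P.cons (P.lf 0 281418 0) P.nil)) (P.cons (P.cons (P.lf 0 291020 0) P.nil)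 P.nil)))))) 348182)
 EL.nil)
noncomputable def S285_314_660_808_38 : EL := (EL.cons 14 (TM.mk (P.cons (P.cons (P.lf 1031575306 0 0) (P.cons (P.lf 259511820 0 0) (P.cons (P.lf 0 95583174 0) (P.cons (P.lf 0 26509634 0) (P.cons (P.lf 1470844 0 0) (P.cons (P.lf 674404 0 0) P.nil)))))) (P.cons (P.cons (P.lf 160529596 0 0) (P.cons (P.lf 22916870 0 0) (P.cons (P.lf 0 9539278 0) (P.cons (P.lf 0 1393586 0) (P.cons (P.lf 30886 0 0) P.nil))))) (P.cons (P.cons (P.lf 0 141538790 0) (P.cons (P.lf 0 32323408 0) (P.cons (P.lf 12185764 0 0) (P.cons (P.lf 3060040 0 0) P.nil)))) (P.cons (P.cons (P.lf 0 15511918 0) (P.cons (P.lf 0 336768 0) (P.cons (P.lf 308978 0 0) P.nil))) (P.cons (P.cons (P.lf 6605436 0 0) (P.cons (P.lf 1297914 0 0) P.nil)) (P.cons (P.cons (P.lf 617536 0 0) P.nil) P.nil)))))) 3065562)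
 EL.nil)
noncomputable def S285_314_660_808_39 : EL := (EL.cons 14 (TM.mk (P.cons (P.lf 924170186 0 0) (P.cons (P.lf 573189372 0 0) (P.cons (P.lf 68410746 0 0) (P.cons (P.lf 0 8089740 0) (P.cons (P.lf 0 307614 0) (P.cons (P.lf 60382 0 0) P.nil)))))) 4526)
 EL.nil)
noncomputable def S285_314_660_808_40 : EL := (EL.cons 14 (TM.mk (P.cons (P.cons (P.lf 0 559199752 0) (P.cons (P.lf 0 70338512 0) (P.cons (P.lf 30330758 0 0) (P.lf 3370084 0 0)))) (P.cons (P.cons (P.lf 0 303630604 0) (P.cons (P.lf 0 33457572 0) (P.cons (P.lf 14427282 0 0) (P.lf 1603032 0 0)))) (P.cons (P.cons (P.lf 8937048 0 0) (P.cons (P.lf 2068124 0 0) (P.cons (P.lf 0 891798 0) (P.lf 0 99086 0)))) (P.cons (P.cons (P.lf 22147214 0 0) (P.cons (P.lf 1763186 0 0) (P.cons (P.lf 0 760306 0) P.nil))) (P.cons (P.cons (P.lf 909350 0 0) (P.cons (P.lf 0 125186 0) P.nil)) (P.cons (P.cons (P.lf 0 472186 0) P.nil) P.nil))))))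 389644)
 EL.nil)
noncomputable def S285_314_660_808_41 : EL := (EL.cons 14 (TM.mk (P.cons (P.cons (P.lf 338362314 0 0) (P.cons (P.lf 85121288 0 0) (P.cons (P.lf 0 31351800 0) (P.cons (P.lf 0 8695304 0) (P.cons (P.lf 482444 0 0) (P.cons (P.lf 221208 0 0) P.nil)))))) (P.cons (P.cons (P.lf 157584216 0 0) (P.cons (P.lf 33913846 0 0) (P.cons (P.lf 0 12851452 0) (P.cons (P.lf 0 3153606 0) (P.cons (P.lf 159742 0 0) P.nil))))) (P.cons (P.cons (P.lf 0 33843184 0) (P.cons (P.lf 0 9213680 0) (P.cons (P.lf 3373814 0 0) (P.cons (P.lf 958232 0 0) P.nil)))) (P.cons (P.cons (P.lf 0 20387146 0) (P.cons (P.lf 0 3561840 0) (P.cons (P.lf 1405070 0 0) P.nil))) (P.cons (P.cons (P.lf 1075062 0 0) (P.cons (P.lf 507280 0 0) P.nil)) (P.cons (P.cons (P.lf 978702 0 0) P.nil) P.nil)))))) 2228576)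
 EL.nil)
noncomputable def S285_314_660_808_42 : EL := (EL.cons 14 (TM.mk (P.cons (P.lf 303132848 0 0) (P.cons (P.lf 282013848 0 0) (P.cons (P.lf 77386344 0 0) (P.cons (P.lf 1937536 0 0) (P.cons (P.lf 0 1329912 0) (P.cons (P.lf 9556 0 0) P.nil)))))) 14366)
 EL.nil)
noncomputable def S285_314_660_808_43 : EL := (EL.cons 14 (TM.mk (P.cons (P.cons (P.lf 0 183420560 0) (P.cons (P.lf 0 23071414 0) (P.cons (P.lf 9948654 0 0) (P.lf 1105404 0 0)))) (P.cons (P.cons (P.lf 0 156473092 0) (P.cons (P.lf 0 18128948 0) (P.cons (P.lf 7817406 0 0) (P.lf 868600 0 0)))) (P.cons (P.cons (P.lf 0 25922384 0) (P.cons (P.lf 0 2469424 0) (P.cons (P.lf 1064842 0 0) (P.lf 118316 0 0)))) (P.cons (P.cons (P.lf 9449168 0 0) (P.cons (P.lf 931968 0 0) (P.cons (P.lf 0 401874 0) P.nil))) (P.cons (P.cons (P.lf 2600634 0 0) (P.cons (P.lf 139630 0 0) P.nil)) (P.cons (P.cons (P.lf 0 152422 0) P.nil) P.nil))))))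 340028)
 EL.nil)
noncomputable def S285_314_660_808_44 : EL := (EL.cons 14 (TM.mk (P.cons (P.cons (P.lf 110984678 0 0) (P.cons (P.lf 27920244 0 0) (P.cons (P.lf 0 10283560 0) (P.cons (P.lf 0 2852106 0) (P.cons (P.lf 158244 0 0) (P.cons (P.lf 72556 0 0) P.nil)))))) (P.cons (P.cons (P.lf 86105970 0 0) (P.cons (P.lf 19782280 0 0) (P.cons (P.lf 0 7404384 0) (P.cons (P.lf 0 1918868 0) (P.cons (P.lf 101468 0 0) P.nil))))) (P.cons (P.cons (P.lf 3699534 0 0) (P.cons (P.lf 118366 0 0) (P.cons (P.lf 0 86730 0) (P.cons (P.lf 25106 0 0) P.nil)))) (P.cons (P.cons (P.lf 0 10806532 0) (P.cons (P.lf 0 2254998 0) (P.cons (P.lf 860420 0 0) P.nil))) (P.cons (P.cons (P.lf 0 1639762 0) (P.cons (P.lf 0 171132 0) P.nil)) (P.cons (P.cons (P.lf 518468 0 0) P.nil) P.nil)))))) 1462640)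
 EL.nil)
noncomputable def S285_314_660_808_45 : EL := (EL.cons 14 (TM.mk (P.cons (P.cons (P.lf 0 1902982986 0) (P.cons (P.lf 0 718095772 0) (P.cons (P.lf 219325866 0 0) (P.cons (P.lf 108516930 0 0) (P.cons (P.lf 0 3240762 0) (P.cons (P.lf 0 5300530 0) P.nil)))))) (P.cons (P.cons (P.lf 441000086 0 0) (P.cons (P.lf 214746418 0 0) (P.cons (P.lf 0 59509724 0) (P.cons (P.lf 0 37185360 0) (P.cons (P.lf 857524 0 0) P.nil))))) (P.cons (P.cons (P.lf 206255312 0 0) (P.cons (P.lf 50023332 0 0) (P.cons (P.lf 0 19185452 0) (P.cons (P.lf 0 4534714 0) P.nil)))) (P.cons (P.cons (P.lf 0 41817268 0) (P.cons (P.lf 0 17820306 0) (P.cons (P.lf 5562172 0 0) P.nil))) (P.cons (P.cons (P.lf 0 10916024 0) (P.cons (P.lf 0 1550340 0) P.nil)) (P.cons (P.cons (P.lf 1828328 0 0) P.nil) P.nil)))))) 13818052)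
 EL.nil)
noncomputable def S285_314_660_808_46 : EL := (EL.cons 15 (TM.mk (P.lf 4294967296 0 0) 0)
 EL.nil)
noncomputable def S285_314_660_808_47 : EL := (EL.cons 15 (TM.mk (P.cons (P.cons (P.lf 0 2598812085 0) (P.cons (P.lf 0 326889588 0) (P.cons (P.lf 140958476 0 0) (P.lf 15662052 0 0)))) (P.cons (P.cons (P.lf 200750850 0 0) (P.cons (P.lf 47253692 0 0) (P.cons (P.lf 0 20376324 0) (P.lf 0 2264032 0)))) (P.cons (P.cons (P.lf 109398411 0 0) (P.cons (P.lf 4501312 0 0) (P.cons (P.lf 0 1941016 0) (P.lf 0 215664 0)))) (P.cons (P.cons (P.lf 0 2533812 0) (P.cons (P.lf 0 956952 0) (P.cons (P.lf 412648 0 0) P.nil))) (P.cons (P.cons (P.lf 0 1408231 0) (P.cons (P.lf 0 16648 0) P.nil)) (P.cons (P.cons (P.lf 60781 0 0) P.nil) P.nil)))))) 119501)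
 EL.nil)
noncomputable def S285_314_660_808_48 : EL := (EL.cons 15 (TM.mk (P.cons (P.cons (P.lf 1572497247 0 0) (P.cons (P.lf 395590724 0 0) (P.cons (P.lf 0 145703642 0) (P.cons (P.lf 0 40410360 0) (P.cons (P.lf 2242105 0 0) (P.cons (P.lf 1028039 0 0) P.nil)))))) (P.cons (P.cons (P.lf 0 242941889 0) (P.cons (P.lf 0 87743079 0) (P.cons (P.lf 30642855 0 0) (P.cons (P.lf 10407334 0 0) (P.cons (P.lf 0 648217 0) P.nil))))) (P.cons (P.cons (P.lf 0 123006971 0) (P.cons (P.lf 0 17682577 0) (P.cons (P.lf 7459627 0 0) (P.cons (P.lf 989766 0 0) P.nil)))) (P.cons (P.cons (P.lf 13293104 0 0) (P.cons (P.lf 4371784 0 0) (P.cons (P.lf 0 1640447 0) P.nil))) (P.cons (P.cons (P.lf 4253847 0 0) (P.cons (P.lf 318603 0 0) P.nil)) (P.cons (P.cons (P.lf 0 334278 0) P.nil) P.nil)))))) 1965355)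
 EL.nil)
noncomputable def S285_314_660_808 : SL := (SL.cons S285_314_660_808_0 (SL.cons S285_314_660_808_1 (SL.cons S285_314_660_808_2 (SL.cons S285_314_660_808_3 (SL.cons S285_314_660_808_4 (SL.cons S285_314_660_808_5 (SL.cons S285_314_660_808_6 (SL.cons S285_314_660_808_7 (SL.cons S285_314_660_808_8 (SL.cons S285_314_660_808_9 (SL.cons S285_314_660_808_10 (SL.cons S285_314_660_808_11 (SL.cons S285_314_660_808_12 (SL.cons S285_314_660_808_13 (SL.cons S285_314_660_808_14 (SL.cons S285_314_660_808_15 (SL.cons S285_314_660_808_16 (SL.cons S285_314_660_808_17 (SL.cons S285_314_660_808_18 (SL.cons S285_314_660_808_19 (SL.cons S285_314_660_808_20 (SL.cons S285_314_660_808_21 (SL.cons S285_314_660_808_22 (SL.cons S285_314_660_808_23 (SL.cons S285_314_660_808_24 (SL.cons S285_314_660_808_25 (SL.cons S285_314_660_808_26 (SL.cons S285_314_660_808_27 (SL.cons S285_314_660_808_28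 (SL.cons S285_314_660_808_29 (SL.cons S285_314_660_808_30 (SL.cons S285_314_660_808_31 (SL.cons S285_314_660_808_32 (SL.cons S285_314_660_808_33 (SL.cons S285_314_660_808_34 (SL.cons S285_314_660_808_35 (SL.cons S285_314_660_808_36 (SL.cons S285_314_660_808_37 (SL.cons S285_314_660_808_38 (SL.cons S285_314_660_808_39 (SL.cons S285_314_660_808_40 (SL.cons S285_314_660_808_41 (SL.cons S285_314_660_808_42 (SL.cons S285_314_660_808_43 (SL.cons S285_314_660_808_44 (SL.cons S285_314_660_808_45 (SL.cons S285_314_660_808_46 (SL.cons S285_314_660_808_47 (SL.cons S285_314_660_808_48 SL.nil)))))))))))))))))))))))))))))))))))))))))))))))))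
theorem S285_314_438_512_ok : band (seq (shp 5 285 314 438 512) S285_314_438_512) (sok S285_314_438_512) = true := by decide +kernel

theorem S285_314_512_586_ok : band (seq (shp 5 285 314 512 586) S285_314_512_586) (sok S285_314_512_586) = true := by decide +kernel

theorem S285_314_512_660_ok : band (seq (shp 5 285 314 512 660) S285_314_512_660) (sok S285_314_512_660) = true := by decide +kernel

theorem S285_314_586_660_ok : band (seq (shp 5 285 314 586 660) S285_314_586_660) (sok S285_314_586_660) = true := by decide +kernel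

theorem S285_314_660_734_ok : band (seq (shp 5 285 314 660 734) S285_314_660_734) (sok S285_314_660_734) = true := by decide +kernel

theorem S285_314_660_808_ok : band (seq (shp 5 285 314 660 808) S285_314_660_808) (sok S285_314_660_808) = true := by decide +kernel

end Vale.Agent.P098.Ck
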