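import Vale.Agent.P098.CkDefs

namespace Vale.Agent.P098.Ck

noncomputable def S314_343_586_660_0 : EL := (EL.cons 0 (TM.mk (P.cons (P.lf 6454925654 0 0) (P.cons (P.lf 0 654467131 0) (P.cons (P.lf 0 15080835 0) (P.cons (P.lf 7271133 0 0) (P.cons (P.lf 0 199596 0) (P.cons (P.lf 0 35412 0) P.nil)))))) 3454)
 (EL.cons 1 (TM.mk (P.cons (P.lf 1695086628 0 0) (P.cons (P.lf 139901857 0 0) (P.cons (P.lf 0 47471786 0) (P.cons (P.lf 293435 0 0) (P.cons (P.lf 328029 0 0) (P.cons (P.lf 0 15684 0) P.nil)))))) 1940)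
 (EL.cons 5 (TM.mk (P.cons (P.lf 5006359730 0 0) (P.cons (P.lf 232699422 0 0) (P.cons (P.lf 5362070 0 0) (P.cons (P.lf 0 2585292 0) (P.cons (P.lf 70970 0 0) (P.cons (P.lf 12590 0 0) P.nil)))))) 1169)
 (EL.cons 9 (TM.mk (P.lf 6442450944 0 0) 2)
 EL.nil))))
noncomputable def S314_343_586_660_1 : EL := (EL.cons 0 (TM.mk (P.cons (P.cons (P.lf 622386679 0 0) (P.cons (P.lf 0 23044207 0) (P.cons (P.lf 1260893 0 0) (P.lf 140100 0 0)))) (P.cons (P.cons (P.lf 1966360289 0 0) (P.cons (P.lf 138904310 0 0) (P.cons (P.lf 0 7600284 0) (P.lf 0 844472 0)))) (P.cons (P.cons (P.lf 0 64389556 0) (P.cons (P.lf 0 29426157 0) (P.cons (P.lf 1610072 0 0) (P.lf 178887 0 0)))) (P.cons (P.cons (P.lf 0 75437299 0) (P.cons (P.lf 0 1740491 0) (P.cons (P.lf 95231 0 0) P.nil))) (P.cons (P.cons (P.lf 5397497 0 0) (P.cons (P.lf 875384 0 0) P.nil)) (P.cons (P.cons (P.lf 1146211 0 0) P.nil) P.nil)))))) 461797)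
 (EL.cons 1 (TM.mk (P.cons (P.cons (P.lf 0 1054820610 0) (P.cons (P.lf 0 151650614 0) (P.cons (P.lf 8297703 0 0) (P.lf 921961 0 0)))) (P.cons (P.cons (P.lf 294287127 0 0) (P.cons (P.lf 55714784 0 0) (P.cons (P.lf 0 3048481 0) (P.lf 0 338712 0)))) (P.cons (P.cons (P.lf 209366684 0 0) (P.cons (P.lf 7415840 0 0) (P.cons (P.lf 0 405764 0) (P.lf 0 45083 0)))) (P.cons (P.cons (P.lf 0 18656115 0) (P.cons (P.lf 0 3227619 0) (P.cons (P.lf 176595 0 0) P.nil))) (P.cons (P.cons (P.lf 0 5409072 0) (P.cons (P.lf 49314 0 0) P.nil)) (P.cons (P.cons (P.lf 589137 0 0) P.nil) P.nil)))))) 267747)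
 (EL.cons 5 (TM.mk (P.cons (P.cons (P.lf 0 2410064671 0) (P.cons (P.lf 0 363600068 0) (P.cons (P.lf 19894730 0 0) (P.lf 2210522 0 0)))) (P.cons (P.cons (P.lf 56965226 0 0) (P.cons (P.lf 40978086 0 0) (P.cons (P.lf 0 2242162 0) (P.lf 0 249136 0)))) (P.cons (P.cons (P.lf 140778012 0 0) (P.cons (P.lf 8884272 0 0) (P.cons (P.lf 0 486106 0) (P.lf 0 54006 0)))) (P.cons (P.cons (P.lf 12470358 0 0) (P.cons (P.lf 0 652696 0) (P.cons (P.lf 35716 0 0) P.nil))) (P.cons (P.cons (P.lf 0 2857021 0) (P.cons (P.lf 0 217128 0) P.nil)) (P.cons (P.cons (P.lf 0 232671 0) P.nil) P.nil)))))) 216680)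
 (EL.cons 9 (TM.mk (P.cons (P.cons (P.lf 0 1931269077 0) (P.cons (P.lf 0 328053138 0) (P.cons (P.lf 17949744 0 0) (P.lf 1994412 0 0)))) (P.cons (P.cons (P.lf 667160770 0 0) (P.cons (P.lf 79734948 0 0) (P.cons (P.lf 0 4362774 0) (P.lf 0 484752 0)))) (P.cons (P.cons (P.lf 104015242 0 0) (P.cons (P.lf 0 1392672 0) (P.cons (P.lf 76200 0 0) (P.lf 8466 0 0)))) (P.cons (P.cons (P.lf 0 12663336 0) (P.cons (P.lf 0 1121940 0) (P.cons (P.lf 61386 0 0) P.nil))) (P.cons (P.cons (P.lf 0 827563 0) (P.cons (P.lf 83040 0 0) P.nil)) (P.cons (P.cons (P.lf 154281 0 0) P.nil) P.nil)))))) 39116)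
 (EL.cons 2 (TM.mk (P.cons (P.cons (P.lf 0 872053467 0) (P.cons (P.lf 109421752 0 0) (P.cons (P.lf 16705870 0 0) (P.cons (P.lf 0 510359 0) (P.lf 0 42527 0))))) (P.cons (P.cons (P.lf 0 1321529 0) (P.cons (P.lf 165819 0 0) (P.cons (P.lf 25315 0 0) (P.cons (P.lf 0 773 0) (P.lf 0 64 0))))) (P.cons (P.cons (P.lf 34743611 0 0) (P.cons (P.lf 0 4359487 0) (P.cons (P.lf 0 665578 0) (P.cons (P.lf 20331 0 0) P.nil)))) (P.cons (P.cons (P.lf 0 2180196 0) (P.cons (P.lf 273560 0 0) (P.cons (P.lf 41762 0 0) P.nil))) (P.cons (P.cons (P.lf 0 318048 0) (P.cons (P.lf 39906 0 0) P.nil)) (P.cons (P.cons (P.lf 35800 0 0) P.nil) P.nil)))))) 21626)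
 (EL.cons 6 (TM.mk (P.cons (P.cons (P.lf 738810807 0 0) (P.cons (P.lf 0 92703000 0) (P.cons (P.lf 0 14153349 0) (P.cons (P.lf 432381 0 0) (P.lf 36030 0 0))))) (P.cons (P.cons (P.lf 0 179571651 0) (P.cons (P.lf 22531926 0 0) (P.cons (P.lf 3440040 0 0) (P.cons (P.lf 0 105090 0) (P.lf 0 8754 0))))) (P.cons (P.cons (P.lf 3136443 0 0) (P.cons (P.lf 0 393546 0) (P.cons (P.lf 0 60084 0) (P.cons (P.lf 1833 0 0) P.nil)))) (P.cons (P.cons (P.lf 2526732 0 0) (P.cons (P.lf 0 317043 0) (P.cons (P.lf 0 48402 0) P.nil))) (P.cons (P.cons (P.lf 0 187020 0) (P.cons (P.lf 23463 0 0) P.nil)) (P.cons (P.cons (P.lf 0 13170 0) P.nil) P.nil)))))) 12303)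
 EL.nil))))))
noncomputable def S314_343_586_660_2 : EL := (EL.cons 0 (TM.mk (P.cons (P.cons (P.lf 0 953210926 0) (P.cons (P.lf 0 246631902 0) (P.cons (P.lf 0 895434 0) (P.cons (P.lf 3074139 0 0) (P.cons (P.lf 131878 0 0) (P.cons (P.lf 0 9564 0) P.nil)))))) (P.cons (P.cons (P.lf 0 590436158 0) (P.cons (P.lf 0 136948983 0) (P.cons (P.lf 2609707 0 0) (P.cons (P.lf 1367022 0 0) (P.cons (P.lf 44762 0 0) P.nil))))) (P.cons (P.cons (P.lf 419943211 0 0) (P.cons (P.lf 82561514 0 0) (P.cons (P.lf 10957 0 0) (P.cons (P.lf 0 997475 0) P.nil)))) (P.cons (P.cons (P.lf 62842259 0 0) (P.cons (P.lf 483339 0 0) (P.cons (P.lf 0 632744 0) P.nil))) (P.cons (P.cons (P.lf 0 24936432 0) (P.cons (P.lf 0 4292091 0) P.nil)) (P.cons (P.cons (P.lf 0 1547381 0) P.nil) P.nil)))))) 2918431)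
 (EL.cons 1 (TM.mk (P.cons (P.cons (P.lf 480085824 0 0) (P.cons (P.lf 146595876 0 0) (P.cons (P.lf 3027934 0 0) (P.cons (P.lf 0 2100348 0) (P.cons (P.lf 0 101267 0) (P.cons (P.lf 7346 0 0) P.nil)))))) (P.cons (P.cons (P.lf 0 302235534 0) (P.cons (P.lf 0 94709058 0) (P.cons (P.lf 0 2471967 0) (P.cons (P.lf 1413376 0 0) (P.cons (P.lf 70143 0 0) P.nil))))) (P.cons (P.cons (P.lf 0 87452483 0) (P.cons (P.lf 0 9200096 0) (P.cons (P.lf 1195276 0 0) (P.cons (P.lf 0 19787 0) P.nil)))) (P.cons (P.cons (P.lf 57411690 0 0) (P.cons (P.lf 11062397 0 0) (P.cons (P.lf 0 170380 0) P.nil))) (P.cons (P.cons (P.lf 4776993 0 0) (P.cons (P.lf 0 670646 0) P.nil)) (P.cons (P.cons (P.lf 0 2602222 0) P.nil) P.nil)))))) 1485910)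
 (EL.cons 5 (TM.mk (P.cons (P.cons (P.lf 995052792 0 0) (P.cons (P.lf 310598254 0 0) (P.cons (P.lf 7053726 0 0) (P.cons (P.lf 0 4519956 0) (P.cons (P.lf 0 220400 0) (P.cons (P.lf 15993 0 0) P.nil)))))) (P.cons (P.cons (P.lf 0 243392320 0) (P.cons (P.lf 0 82489314 0) (P.cons (P.lf 0 2953124 0) (P.cons (P.lf 1318576 0 0) (P.cons (P.lf 68422 0 0) P.nil))))) (P.cons (P.cons (P.lf 0 141688807 0) (P.cons (P.lf 0 21698210 0) (P.cons (P.lf 856302 0 0) (P.cons (P.lf 168118 0 0) P.nil)))) (P.cons (P.cons (P.lf 10676053 0 0) (P.cons (P.lf 4643166 0 0) (P.cons (P.lf 51935 0 0) P.nil))) (P.cons (P.cons (P.lf 8359410 0 0) (P.cons (P.lf 895597 0 0) P.nil)) (P.cons (P.cons (P.lf 0 212356 0) P.nil) P.nil)))))) 1441815)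
 (EL.cons 9 (TM.mk (P.cons (P.cons (P.lf 578941194 0 0) (P.cons (P.lf 196682562 0 0) (P.cons (P.lf 5942968 0 0) (P.cons (P.lf 0 3023760 0) (P.cons (P.lf 0 153102 0) (P.cons (P.lf 11113 0 0) P.nil)))))) (P.cons (P.cons (P.lf 0 399992790 0) (P.cons (P.lf 0 115749060 0) (P.cons (P.lf 0 1786972 0) (P.cons (P.lf 1592320 0 0) (P.cons (P.lf 74424 0 0) P.nil))))) (P.cons (P.cons (P.lf 6727353 0 0) (P.cons (P.lf 6756163 0 0) (P.cons (P.lf 759000 0 0) (P.cons (P.lf 0 164586 0) P.nil)))) (P.cons (P.cons (P.lf 29135245 0 0) (P.cons (P.lf 4248546 0 0) (P.cons (P.lf 0 152674 0) P.nil))) (P.cons (P.cons (P.lf 0 447235 0) (P.cons (P.lf 0 556300 0) P.nil)) (P.cons (P.cons (P.lf 0 672804 0) P.nil) P.nil)))))) 393403)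
 (EL.cons 2 (TM.mk (P.cons (P.cons (P.lf 522835143 0 0) (P.cons (P.lf 23207630 0 0) (P.cons (P.lf 0 26018921 0) (P.cons (P.lf 0 1325553 0) (P.cons (P.lf 238308 0 0) (P.cons (P.lf 11829 0 0) P.nil)))))) (P.cons (P.cons (P.lf 0 179822131 0) (P.cons (P.lf 1112011 0 0) (P.cons (P.lf 7310193 0 0) (P.cons (P.lf 288838 0 0) (P.cons (P.lf 0 60170 0) P.nil))))) (P.cons (P.cons (P.lf 0 49263170 0) (P.cons (P.lf 2987325 0 0) (P.cons (P.lf 1519261 0 0) (P.cons (P.lf 29840 0 0) P.nil)))) (P.cons (P.cons (P.lf 11888566 0 0) (P.cons (P.lf 0 105378 0) (P.cons (P.lf 0 477551 0) P.nil))) (P.cons (P.cons (P.lf 1090260 0 0) (P.cons (P.lf 0 195418 0) P.nil)) (P.cons (P.cons (P.lf 0 335745 0) P.nil) P.nil)))))) 280478)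
 (EL.cons 6 (TM.mk (P.cons (P.cons (P.lf 0 442950198 0) (P.cons (P.lf 0 19661694 0) (P.cons (P.lf 22043442 0 0) (P.cons (P.lf 1123014 0 0) (P.cons (P.lf 0 201900 0) (P.cons (P.lf 0 10020 0) P.nil)))))) (P.cons (P.cons (P.lf 260679288 0 0) (P.cons (P.lf 3866556 0 0) (P.cons (P.lf 0 11584428 0) (P.cons (P.lf 0 519366 0) (P.cons (P.lf 100350 0 0) P.nil))))) (P.cons (P.cons (P.lf 0 15215604 0) (P.cons (P.lf 0 3174576 0) (P.cons (P.lf 1207536 0 0) (P.cons (P.lf 84486 0 0) P.nil)))) (P.cons (P.cons (P.lf 0 9568182 0) (P.cons (P.lf 841194 0 0) (P.cons (P.lf 248052 0 0) P.nil))) (P.cons (P.cons (P.lf 1252848 0 0) (P.cons (P.lf 4620 0 0) P.nil)) (P.cons (P.cons (P.lf 119934 0 0) P.nil) P.nil)))))) 219504)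
 EL.nil))))))
noncomputable def S314_343_586_660_3 : EL := (EL.cons 0 (TM.mk (P.cons (P.lf 2000791209 0 0) (P.cons (P.lf 654467131 0 0) (P.cons (P.lf 15080835 0 0) (P.cons (P.lf 0 7271133 0) (P.cons (P.lf 199596 0 0) (P.cons (P.lf 35412 0 0) P.nil)))))) 3454)
 (EL.cons 1 (TM.mk (P.cons (P.lf 0 1695086628 0) (P.cons (P.lf 0 139901857 0) (P.cons (P.lf 47471786 0 0) (P.cons (P.lf 0 293435 0) (P.cons (P.lf 0 328029 0) (P.cons (P.lf 15684 0 0) P.nil)))))) 1940)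
 (EL.cons 5 (TM.mk (P.cons (P.lf 1436091214 0 0) (P.cons (P.lf 0 232699422 0) (P.cons (P.lf 0 5362070 0) (P.cons (P.lf 2585292 0 0) (P.cons (P.lf 0 70970 0) (P.cons (P.lf 0 12590 0) P.nil)))))) 1162)
 EL.nil)))
noncomputable def S314_343_586_660_4 : EL := (EL.cons 0 (TM.mk (P.cons (P.cons (P.lf 0 599782011 0) (P.cons (P.lf 0 101881385 0) (P.cons (P.lf 5574536 0 0) (P.lf 619391 0 0)))) (P.cons (P.cons (P.lf 11004704 0 0) (P.cons (P.lf 0 8563046 0) (P.cons (P.lf 468534 0 0) (P.lf 52057 0 0)))) (P.cons (P.cons (P.lf 95557176 0 0) (P.cons (P.lf 6899568 0 0) (P.cons (P.lf 0 377516 0) (P.lf 0 41944 0)))) (P.cons (P.cons (P.lf 10375200 0 0) (P.cons (P.lf 66986 0 0) (P.cons (P.lf 0 3665 0) P.nil))) (P.cons (P.cons (P.lf 0 2112762 0) (P.cons (P.lf 0 191598 0) P.nil)) (P.cons (P.cons (P.lf 0 173137 0) P.nil) P.nil)))))) 95684)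
 (EL.cons 1 (TM.mk (P.cons (P.cons (P.lf 508140210 0 0) (P.cons (P.lf 86314740 0 0) (P.cons (P.lf 0 4722793 0) (P.lf 0 524752 0)))) (P.cons (P.cons (P.lf 0 133599335 0) (P.cons (P.lf 0 13855346 0) (P.cons (P.lf 758107 0 0) (P.lf 84232 0 0)))) (P.cons (P.cons (P.lf 0 56086211 0) (P.cons (P.lf 0 3782353 0) (P.cons (P.lf 206953 0 0) (P.lf 22993 0 0)))) (P.cons (P.cons (P.lf 6077118 0 0) (P.cons (P.lf 927913 0 0) (P.cons (P.lf 0 50769 0) P.nil))) (P.cons (P.cons (P.lf 1327125 0 0) (P.cons (P.lf 5323 0 0) P.nil)) (P.cons (P.cons (P.lf 0 159341 0) P.nil) P.nil)))))) 64633)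
 (EL.cons 5 (TM.mk (P.cons (P.cons (P.lf 0 430500530 0) (P.cons (P.lf 0 73126552 0) (P.cons (P.lf 4001188 0 0) (P.lf 444574 0 0)))) (P.cons (P.cons (P.lf 218474138 0 0) (P.cons (P.lf 29622954 0 0) (P.cons (P.lf 0 1620848 0) (P.lf 0 180092 0)))) (P.cons (P.cons (P.lf 695860 0 0) (P.cons (P.lf 0 2917404 0) (P.cons (P.lf 159628 0 0) (P.lf 17736 0 0)))) (P.cons (P.cons (P.lf 0 7910070 0) (P.cons (P.lf 0 397796 0) (P.cons (P.lf 21764 0 0) P.nil))) (P.cons (P.cons (P.lf 475350 0 0) (P.cons (P.lf 95802 0 0) P.nil)) (P.cons (P.cons (P.lf 112986 0 0) P.nil) P.nil)))))) 44676)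
 EL.nil)))
noncomputable def S314_343_586_660_5 : EL := (EL.cons 0 (TM.mk (P.cons (P.cons (P.lf 179798101 0 0) (P.cons (P.lf 61082456 0 0) (P.cons (P.lf 1845669 0 0) (P.cons (P.lf 0 939069 0) (P.cons (P.lf 0 47547 0) (P.cons (P.lf 3450 0 0) P.nil)))))) (P.cons (P.cons (P.lf 0 65410519 0) (P.cons (P.lf 0 15967125 0) (P.cons (P.lf 48756 0 0) (P.cons (P.lf 187342 0 0) (P.cons (P.lf 7558 0 0) P.nil))))) (P.cons (P.cons (P.lf 0 37189446 0) (P.cons (P.lf 0 9199937 0) (P.cons (P.lf 68095 0 0) (P.cons (P.lf 103565 0 0) P.nil)))) (P.cons (P.cons (P.lf 8142022 0 0) (P.cons (P.lf 1512845 0 0) (P.cons (P.lf 18798 0 0) P.nil))) (P.cons (P.cons (P.lf 3305984 0 0) (P.cons (P.lf 411373 0 0) P.nil)) (P.cons (P.cons (P.lf 0 202981 0) P.nil) P.nil)))))) 416426)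
 (EL.cons 1 (TM.mk (P.cons (P.cons (P.lf 0 152326417 0) (P.cons (P.lf 0 51749555 0) (P.cons (P.lf 0 1563665 0) (P.cons (P.lf 795586 0 0) (P.cons (P.lf 40282 0 0) (P.cons (P.lf 0 2923 0) P.nil)))))) (P.cons (P.cons (P.lf 92670860 0 0) (P.cons (P.lf 26183889 0 0) (P.cons (P.lf 341116 0 0) (P.cons (P.lf 0 353295 0) (P.cons (P.lf 0 16256 0) P.nil))))) (P.cons (P.cons (P.lf 11182025 0 0) (P.cons (P.lf 2185207 0 0) (P.cons (P.lf 0 117105 0) (P.cons (P.lf 0 13552 0) P.nil)))) (P.cons (P.cons (P.lf 0 10785675 0) (P.cons (P.lf 0 2126422 0) (P.cons (P.lf 10248 0 0) P.nil))) (P.cons (P.cons (P.lf 0 476703 0) (P.cons (P.lf 99150 0 0) P.nil)) (P.cons (P.cons (P.lf 422889 0 0) P.nil) P.nil)))))) 294965)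
 (EL.cons 5 (TM.mk (P.cons (P.cons (P.lf 129052182 0 0) (P.cons (P.lf 43842644 0 0) (P.cons (P.lf 1324750 0 0) (P.cons (P.lf 0 674028 0) (P.cons (P.lf 0 34126 0) (P.cons (P.lf 2476 0 0) P.nil)))))) (P.cons (P.cons (P.lf 0 110073854 0) (P.cons (P.lf 0 32905818 0) (P.cons (P.lf 0 612992 0) (P.cons (P.lf 464160 0 0) (P.cons (P.lf 22118 0 0) P.nil))))) (P.cons (P.cons (P.lf 15465364 0 0) (P.cons (P.lf 5523142 0 0) (P.cons (P.lf 228786 0 0) (P.cons (P.lf 0 91684 0) P.nil)))) (P.cons (P.cons (P.lf 6816804 0 0) (P.cons (P.lf 878280 0 0) (P.cons (P.lf 0 57574 0) P.nil))) (P.cons (P.cons (P.lf 0 1324538 0) (P.cons (P.lf 0 331698 0) P.nil)) (P.cons (P.cons (P.lf 0 152096 0) P.nil) P.nil)))))) 217232)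
 EL.nil)))
noncomputable def S314_343_586_660_6 : EL := (EL.cons 12 (TM.mk (P.lf 8589934592 0 0) 0)
 (EL.cons 3 (TM.mk (P.cons (P.lf 2072840178 0 0) (P.cons (P.lf 339017325 0 0) (P.cons (P.lf 0 19911543 0) (P.cons (P.lf 0 509910 0) (P.cons (P.lf 91155 0 0) (P.cons (P.lf 0 1462 0) P.nil)))))) 487)
 (EL.cons 7 (TM.mk (P.cons (P.lf 0 1756127103 0) (P.cons (P.lf 142278485 0 0) (P.cons (P.lf 9042093 0 0) (P.cons (P.lf 0 848140 0) (P.cons (P.lf 0 2043 0) (P.cons (P.lf 3166 0 0) P.nil)))))) 195)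
 EL.nil)))
noncomputable def S314_343_586_660_7 : EL := (EL.cons 12 (TM.mk (P.cons (P.cons (P.lf 0 2575025436 0) (P.cons (P.lf 0 437404184 0) (P.cons (P.lf 23932992 0 0) (P.lf 2659216 0 0)))) (P.cons (P.cons (P.lf 889547694 0 0) (P.cons (P.lf 106313264 0 0) (P.cons (P.lf 0 5817032 0) (P.lf 0 646336 0)))) (P.cons (P.cons (P.lf 138686990 0 0) (P.cons (P.lf 0 1856896 0) (P.cons (P.lf 101600 0 0) (P.lf 11288 0 0)))) (P.cons (P.cons (P.lf 0 16884448 0) (P.cons (P.lf 0 1495920 0) (P.cons (P.lf 81848 0 0) P.nil))) (P.cons (P.cons (P.lf 0 1103418 0) (P.cons (P.lf 110720 0 0) P.nil)) (P.cons (P.cons (P.lf 205708 0 0) P.nil) P.nil)))))) 52130)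
 (EL.cons 3 (TM.mk (P.cons (P.cons (P.lf 2028107444 0 0) (P.cons (P.lf 211100316 0 0) (P.cons (P.lf 0 11550556 0) (P.lf 0 1283392 0)))) (P.cons (P.cons (P.lf 821089349 0 0) (P.cons (P.lf 0 16783084 0) (P.cons (P.lf 918300 0 0) (P.lf 102030 0 0)))) (P.cons (P.cons (P.lf 0 124956966 0) (P.cons (P.lf 0 9523326 0) (P.cons (P.lf 521076 0 0) (P.lf 57896 0 0)))) (P.cons (P.cons (P.lf 0 10613849 0) (P.cons (P.lf 1309472 0 0) (P.cons (P.lf 0 71646 0) P.nil))) (P.cons (P.cons (P.lf 2987854 0 0) (P.cons (P.lf 77938 0 0) P.nil)) (P.cons (P.cons (P.lf 0 37087 0) P.nil) P.nil)))))) 186276)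
 (EL.cons 7 (TM.mk (P.cons (P.cons (P.lf 1638373102 0 0) (P.cons (P.lf 222314552 0 0) (P.cons (P.lf 0 12164161 0) (P.lf 0 1351574 0)))) (P.cons (P.cons (P.lf 344594036 0 0) (P.cons (P.lf 0 7043515 0) (P.cons (P.lf 385394 0 0) (P.lf 42823 0 0)))) (P.cons (P.cons (P.lf 0 10303074 0) (P.cons (P.lf 0 4858057 0) (P.cons (P.lf 265810 0 0) (P.lf 29533 0 0)))) (P.cons (P.cons (P.lf 0 11240832 0) (P.cons (P.lf 0 138154 0) (P.cons (P.lf 7559 0 0) P.nil))) (P.cons (P.cons (P.lf 187066 0 0) (P.cons (P.lf 99696 0 0) P.nil)) (P.cons (P.cons (P.lf 161664 0 0) P.nil) P.nil)))))) 117090)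
 (EL.cons 10 (TM.mk (P.cons (P.cons (P.lf 0 1806912642 0) (P.cons (P.lf 226724115 0 0) (P.cons (P.lf 34614906 0 0) (P.cons (P.lf 0 1057479 0) (P.lf 0 88122 0))))) (P.cons (P.cons (P.lf 292786086 0 0) (P.cons (P.lf 0 36737616 0) (P.cons (P.lf 0 5608884 0) (P.cons (P.lf 171348 0 0) (P.lf 14277 0 0))))) (P.cons (P.cons (P.lf 6746640 0 0) (P.cons (P.lf 0 846540 0) (P.cons (P.lf 0 129243 0) (P.cons (P.lf 3948 0 0) P.nil)))) (P.cons (P.cons (P.lf 0 3252855 0) (P.cons (P.lf 408153 0 0) (P.cons (P.lf 62313 0 0) P.nil))) (P.cons (P.cons (P.lf 89295 0 0) (P.cons (P.lf 0 11202 0) P.nil)) (P.cons (P.cons (P.lf 15840 0 0) P.nil) P.nil)))))) 8241)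
 EL.nil))))
noncomputable def S314_343_586_660_8 : EL := (EL.cons 12 (TM.mk (P.cons (P.cons (P.lf 771921592 0 0) (P.cons (P.lf 262243416 0 0) (P.cons (P.lf 7923958 0 0) (P.cons (P.lf 0 4031680 0) (P.cons (P.lf 0 204136 0) (P.cons (P.lf 14818 0 0) P.nil)))))) (P.cons (P.cons (P.lf 0 533323720 0) (P.cons (P.lf 0 154332080 0) (P.cons (P.lf 0 2382630 0) (P.cons (P.lf 2123094 0 0) (P.cons (P.lf 99232 0 0) P.nil))))) (P.cons (P.cons (P.lf 8969804 0 0) (P.cons (P.lf 9008218 0 0) (P.cons (P.lf 1012000 0 0) (P.cons (P.lf 0 219448 0) P.nil)))) (P.cons (P.cons (P.lf 38846994 0 0) (P.cons (P.lf 5664728 0 0) (P.cons (P.lf 0 203566 0) P.nil))) (P.cons (P.cons (P.lf 0 596314 0) (P.cons (P.lf 0 741734 0) P.nil)) (P.cons (P.cons (P.lf 0 897072 0) P.nil) P.nil)))))) 524508)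
 (EL.cons 3 (TM.mk (P.cons (P.cons (P.lf 0 1402214007 0) (P.cons (P.lf 0 396390843 0) (P.cons (P.lf 0 5184452 0) (P.cons (P.lf 5350677 0 0) (P.cons (P.lf 246300 0 0) (P.cons (P.lf 0 17875 0) P.nil)))))) (P.cons (P.cons (P.lf 26000746 0 0) (P.cons (P.lf 47257123 0 0) (P.cons (P.lf 6082493 0 0) (P.cons (P.lf 0 1235876 0) (P.cons (P.lf 0 79446 0) P.nil))))) (P.cons (P.cons (P.lf 331138538 0 0) (P.cons (P.lf 45748630 0 0) (P.cons (P.lf 0 1924217 0) (P.cons (P.lf 0 341485 0) P.nil)))) (P.cons (P.cons (P.lf 0 11894948 0) (P.cons (P.lf 0 9267481 0) (P.cons (P.lf 0 37116 0) P.nil))) (P.cons (P.cons (P.lf 0 13181806 0) (P.cons (P.lf 0 853611 0) P.nil)) (P.cons (P.cons (P.lf 1012135 0 0) P.nil) P.nil)))))) 1617573)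
 (EL.cons 7 (TM.mk (P.cons (P.cons (P.lf 0 824466388 0) (P.cons (P.lf 0 246528184 0) (P.cons (P.lf 0 4598254 0) (P.cons (P.lf 3478103 0 0) (P.cons (P.lf 165771 0 0) (P.cons (P.lf 0 12029 0) P.nil)))))) (P.cons (P.cons (P.lf 10911974 0 0) (P.cons (P.lf 19832839 0 0) (P.cons (P.lf 2552692 0 0) (P.cons (P.lf 0 518673 0) (P.cons (P.lf 0 33340 0) P.nil))))) (P.cons (P.cons (P.lf 140306293 0 0) (P.cons (P.lf 21625002 0 0) (P.cons (P.lf 0 495392 0) (P.cons (P.lf 0 206737 0) P.nil)))) (P.cons (P.cons (P.lf 17722738 0 0) (P.cons (P.lf 0 657383 0) (P.cons (P.lf 0 134176 0) P.nil))) (P.cons (P.cons (P.lf 0 5375829 0) (P.cons (P.lf 0 915427 0) P.nil)) (P.cons (P.cons (P.lf 0 604642 0) P.nil) P.nil)))))) 844757)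
 (EL.cons 10 (TM.mk (P.cons (P.cons (P.lf 1083325128 0 0) (P.cons (P.lf 48086694 0 0) (P.cons (P.lf 0 53911740 0) (P.cons (P.lf 0 2746572 0) (P.cons (P.lf 493788 0 0) (P.cons (P.lf 24510 0 0) P.nil)))))) (P.cons (P.cons (P.lf 0 549775218 0) (P.cons (P.lf 0 5560560 0) (P.cons (P.lf 23964258 0 0) (P.cons (P.lf 1047696 0 0) (P.cons (P.lf 0 205434 0) P.nil))))) (P.cons (P.cons (P.lf 0 1751082 0) (P.cons (P.lf 7561164 0 0) (P.cons (P.lf 0 1289322 0) (P.cons (P.lf 0 135894 0) P.nil)))) (P.cons (P.cons (P.lf 19905150 0 0) (P.cons (P.lf 0 1496586 0) (P.cons (P.lf 0 561696 0) P.nil))) (P.cons (P.cons (P.lf 0 1196184 0) (P.cons (P.lf 0 90990 0) P.nil)) (P.cons (P.cons (P.lf 0 284322 0) P.nil) P.nil)))))) 335640)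
 EL.nil))))
noncomputable def S314_343_586_660_9 : EL := (EL.cons 3 (TM.mk (P.cons (P.lf 2072840178 0 0) (P.cons (P.lf 339017325 0 0) (P.cons (P.lf 0 19911543 0) (P.cons (P.lf 0 509910 0) (P.cons (P.lf 91155 0 0) (P.cons (P.lf 0 1462 0) P.nil)))))) 487)
 (EL.cons 7 (TM.mk (P.cons (P.lf 0 1756127103 0) (P.cons (P.lf 142278485 0 0) (P.cons (P.lf 9042093 0 0) (P.cons (P.lf 0 848140 0) (P.cons (P.lf 0 2043 0) (P.cons (P.lf 3166 0 0) P.nil)))))) 195)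
 EL.nil))
noncomputable def S314_343_586_660_10 : EL := (EL.cons 3 (TM.mk (P.cons (P.cons (P.lf 0 621380305 0) (P.cons (P.lf 0 105550158 0) (P.cons (P.lf 5775278 0 0) (P.lf 641696 0 0)))) (P.cons (P.cons (P.lf 113029028 0 0) (P.cons (P.lf 8391542 0 0) (P.cons (P.lf 0 459150 0) (P.lf 0 51015 0)))) (P.cons (P.cons (P.lf 74543148 0 0) (P.cons (P.lf 4761663 0 0) (P.cons (P.lf 0 260538 0) (P.lf 0 28948 0)))) (P.cons (P.cons (P.lf 0 509981 0) (P.cons (P.lf 0 654736 0) (P.cons (P.lf 35823 0 0) P.nil))) (P.cons (P.cons (P.lf 0 1334249 0) (P.cons (P.lf 0 38969 0) P.nil)) (P.cons (P.cons (P.lf 46874 0 0) P.nil) P.nil)))))) 45203)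
 (EL.cons 7 (TM.mk (P.cons (P.cons (P.lf 526438462 0 0) (P.cons (P.lf 89422955 0 0) (P.cons (P.lf 0 4892863 0) (P.lf 0 543650 0)))) (P.cons (P.cons (P.lf 0 224510386 0) (P.cons (P.lf 0 28979593 0) (P.cons (P.lf 1585646 0 0) (P.lf 176182 0 0)))) (P.cons (P.cons (P.lf 0 16329822 0) (P.cons (P.lf 1680104 0 0) (P.cons (P.lf 0 91928 0) (P.lf 0 10214 0)))) (P.cons (P.cons (P.lf 6939606 0 0) (P.cons (P.lf 430166 0 0) (P.cons (P.lf 0 23536 0) P.nil))) (P.cons (P.cons (P.lf 4687 0 0) (P.cons (P.lf 0 59760 0) P.nil)) (P.cons (P.cons (P.lf 0 92958 0) P.nil) P.nil)))))) 26162)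
 EL.nil))
noncomputable def S314_343_586_660_11 : EL := (EL.cons 3 (TM.mk (P.cons (P.cons (P.lf 186272673 0 0) (P.cons (P.lf 63282051 0 0) (P.cons (P.lf 1912132 0 0) (P.cons (P.lf 0 972885 0) (P.cons (P.lf 0 49260 0) (P.cons (P.lf 3575 0 0) P.nil)))))) (P.cons (P.cons (P.lf 0 98231252 0) (P.cons (P.lf 0 26892017 0) (P.cons (P.lf 0 262219 0) (P.cons (P.lf 353206 0 0) (P.cons (P.lf 15888 0 0) P.nil))))) (P.cons (P.cons (P.lf 0 20673400 0) (P.cons (P.lf 0 4525100 0) (P.cons (P.lf 131803 0 0) (P.cons (P.lf 40181 0 0) P.nil)))) (P.cons (P.cons (P.lf 10918618 0 0) (P.cons (P.lf 2064659 0 0) (P.cons (P.lf 0 4128 0) P.nil))) (P.cons (P.cons (P.lf 1408328 0 0) (P.cons (P.lf 35643 0 0) P.nil)) (P.cons (P.cons (P.lf 0 336377 0) P.nil) P.nil)))))) 268451)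
 (EL.cons 7 (TM.mk (P.cons (P.cons (P.lf 0 157811728 0) (P.cons (P.lf 0 53613070 0) (P.cons (P.lf 0 1619974 0) (P.cons (P.lf 824237 0 0) (P.cons (P.lf 41733 0 0) (P.cons (P.lf 0 3029 0) P.nil)))))) (P.cons (P.cons (P.lf 121818398 0 0) (P.cons (P.lf 35895307 0 0) (P.cons (P.lf 618352 0 0) (P.cons (P.lf 0 500823 0) (P.cons (P.lf 0 23668 0) P.nil))))) (P.cons (P.cons (P.lf 0 9854885 0) (P.cons (P.lf 0 4121856 0) (P.cons (P.lf 0 238016 0) (P.cons (P.lf 75785 0 0) P.nil)))) (P.cons (P.cons (P.lf 0 8430926 0) (P.cons (P.lf 0 1197239 0) (P.cons (P.lf 55088 0 0) P.nil))) (P.cons (P.cons (P.lf 827265 0 0) (P.cons (P.lf 270125 0 0) P.nil)) (P.cons (P.cons (P.lf 213938 0 0) P.nil) P.nil)))))) 171979)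
 EL.nil))
noncomputable def S314_343_586_660_12 : EL := (EL.cons 4 (TM.mk (P.cons (P.lf 0 2072840178 0) (P.cons (P.lf 0 339017325 0) (P.cons (P.lf 19911543 0 0) (P.cons (P.lf 509910 0 0) (P.cons (P.lf 0 91155 0) (P.cons (P.lf 1462 0 0) P.nil)))))) 487)
 (EL.cons 8 (TM.mk (P.cons (P.lf 1756127103 0 0) (P.cons (P.lf 0 142278485 0) (P.cons (P.lf 0 9042093 0) (P.cons (P.lf 848140 0 0) (P.cons (P.lf 2043 0 0) (P.cons (P.lf 0 3166 0) P.nil)))))) 195)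
 EL.nil))
noncomputable def S314_343_586_660_13 : EL := (EL.cons 4 (TM.mk (P.cons (P.cons (P.lf 621380305 0 0) (P.cons (P.lf 105550158 0 0) (P.cons (P.lf 0 5775278 0) (P.lf 0 641696 0)))) (P.cons (P.cons (P.lf 0 113029028 0) (P.cons (P.lf 0 8391542 0) (P.cons (P.lf 459150 0 0) (P.lf 51015 0 0)))) (P.cons (P.cons (P.lf 0 74543148 0) (P.cons (P.lf 0 4761663 0) (P.cons (P.lf 260538 0 0) (P.lf 28948 0 0)))) (P.cons (P.cons (P.lf 509981 0 0) (P.cons (P.lf 654736 0 0) (P.cons (P.lf 0 35823 0) P.nil))) (P.cons (P.cons (P.lf 1334249 0 0) (P.cons (P.lf 38969 0 0) P.nil)) (P.cons (P.cons (P.lf 0 46874 0) P.nil) P.nil)))))) 45203)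
 (EL.cons 8 (TM.mk (P.cons (P.cons (P.lf 0 526438462 0) (P.cons (P.lf 0 89422955 0) (P.cons (P.lf 4892863 0 0) (P.lf 543650 0 0)))) (P.cons (P.cons (P.lf 224510386 0 0) (P.cons (P.lf 28979593 0 0) (P.cons (P.lf 0 1585646 0) (P.lf 0 176182 0)))) (P.cons (P.cons (P.lf 16329822 0 0) (P.cons (P.lf 0 1680104 0) (P.cons (P.lf 91928 0 0) (P.lf 10214 0 0)))) (P.cons (P.cons (P.lf 0 6939606 0) (P.cons (P.lf 0 430166 0) (P.cons (P.lf 23536 0 0) P.nil))) (P.cons (P.cons (P.lf 0 4687 0) (P.cons (P.lf 59760 0 0) P.nil)) (P.cons (P.cons (P.lf 92958 0 0) P.nil) P.nil)))))) 26162)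
 EL.nil))
noncomputable def S314_343_586_660_14 : EL := (EL.cons 4 (TM.mk (P.cons (P.cons (P.lf 0 186272673 0) (P.cons (P.lf 0 63282051 0) (P.cons (P.lf 0 1912132 0) (P.cons (P.lf 972885 0 0) (P.cons (P.lf 49260 0 0) (P.cons (P.lf 0 3575 0) P.nil)))))) (P.cons (P.cons (P.lf 98231252 0 0) (P.cons (P.lf 26892017 0 0) (P.cons (P.lf 262219 0 0) (P.cons (P.lf 0 353206 0) (P.cons (P.lf 0 15888 0) P.nil))))) (P.cons (P.cons (P.lf 20673400 0 0) (P.cons (P.lf 4525100 0 0) (P.cons (P.lf 0 131803 0) (P.cons (P.lf 0 40181 0) P.nil)))) (P.cons (P.cons (P.lf 0 10918618 0) (P.cons (P.lf 0 2064659 0) (P.cons (P.lf 4128 0 0) P.nil))) (P.cons (P.cons (P.lf 0 1408328 0) (P.cons (P.lf 0 35643 0) P.nil)) (P.cons (P.cons (P.lf 336377 0 0) P.nil) P.nil)))))) 268451)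
 (EL.cons 8 (TM.mk (P.cons (P.cons (P.lf 157811728 0 0) (P.cons (P.lf 53613070 0 0) (P.cons (P.lf 1619974 0 0) (P.cons (P.lf 0 824237 0) (P.cons (P.lf 0 41733 0) (P.cons (P.lf 3029 0 0) P.nil)))))) (P.cons (P.cons (P.lf 0 121818398 0) (P.cons (P.lf 0 35895307 0) (P.cons (P.lf 0 618352 0) (P.cons (P.lf 500823 0 0) (P.cons (P.lf 23668 0 0) P.nil))))) (P.cons (P.cons (P.lf 9854885 0 0) (P.cons (P.lf 4121856 0 0) (P.cons (P.lf 238016 0 0) (P.cons (P.lf 0 75785 0) P.nil)))) (P.cons (P.cons (P.lf 8430926 0 0) (P.cons (P.lf 1197239 0 0) (P.cons (P.lf 0 55088 0) P.nil))) (P.cons (P.cons (P.lf 0 827265 0) (P.cons (P.lf 0 270125 0) P.nil)) (P.cons (P.cons (P.lf 0 213938 0) P.nil) P.nil)))))) 171979)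
 EL.nil))
noncomputable def S314_343_586_660_15 : EL := (EL.cons 4 (TM.mk (P.cons (P.lf 0 1067088645 0) (P.cons (P.lf 0 349049136 0) (P.cons (P.lf 0 8043112 0) (P.cons (P.lf 3877937 0 0) (P.cons (P.lf 0 106451 0) (P.cons (P.lf 0 18886 0) P.nil)))))) 1845)
 (EL.cons 8 (TM.mk (P.cons (P.lf 904046202 0 0) (P.cons (P.lf 74614324 0 0) (P.cons (P.lf 0 25318286 0) (P.cons (P.lf 156499 0 0) (P.cons (P.lf 174949 0 0) (P.cons (P.lf 0 8365 0) P.nil)))))) 1031)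
 EL.nil))
noncomputable def S314_343_586_660_16 : EL := (EL.cons 4 (TM.mk (P.cons (P.cons (P.lf 319883739 0 0) (P.cons (P.lf 54336738 0 0) (P.cons (P.lf 0 2973086 0) (P.lf 0 330342 0)))) (P.cons (P.cons (P.lf 0 5869175 0) (P.cons (P.lf 4566958 0 0) (P.cons (P.lf 0 249885 0) (P.lf 0 27764 0)))) (P.cons (P.cons (P.lf 0 50963827 0) (P.cons (P.lf 0 3679770 0) (P.cons (P.lf 201342 0 0) (P.lf 22370 0 0)))) (P.cons (P.cons (P.lf 0 5533440 0) (P.cons (P.lf 0 35726 0) (P.cons (P.lf 1954 0 0) P.nil))) (P.cons (P.cons (P.lf 1126806 0 0) (P.cons (P.lf 102185 0 0) P.nil)) (P.cons (P.cons (P.lf 92340 0 0) P.nil) P.nil)))))) 51040)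
 (EL.cons 8 (TM.mk (P.cons (P.cons (P.lf 0 271008112 0) (P.cons (P.lf 0 46034528 0) (P.cons (P.lf 2518823 0 0) (P.lf 279868 0 0)))) (P.cons (P.cons (P.lf 71252979 0 0) (P.cons (P.lf 7389518 0 0) (P.cons (P.lf 0 404324 0) (P.lf 0 44924 0)))) (P.cons (P.cons (P.lf 29912646 0 0) (P.cons (P.lf 2017255 0 0) (P.cons (P.lf 0 110375 0) (P.lf 0 12263 0)))) (P.cons (P.cons (P.lf 0 3241130 0) (P.cons (P.lf 0 494887 0) (P.cons (P.lf 27077 0 0) P.nil))) (P.cons (P.cons (P.lf 0 707800 0) (P.cons (P.lf 0 2839 0) P.nil)) (P.cons (P.cons (P.lf 84982 0 0) P.nil) P.nil)))))) 34461)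
 EL.nil))
noncomputable def S314_343_586_660_17 : EL := (EL.cons 4 (TM.mk (P.cons (P.cons (P.lf 0 95892320 0) (P.cons (P.lf 0 32577310 0) (P.cons (P.lf 0 984357 0) (P.cons (P.lf 500836 0 0) (P.cons (P.lf 25358 0 0) (P.cons (P.lf 0 1840 0) P.nil)))))) (P.cons (P.cons (P.lf 34885610 0 0) (P.cons (P.lf 8515800 0 0) (P.cons (P.lf 0 26003 0) (P.cons (P.lf 0 99915 0) (P.cons (P.lf 0 4031 0) P.nil))))) (P.cons (P.cons (P.lf 19834371 0 0) (P.cons (P.lf 4906633 0 0) (P.cons (P.lf 0 36317 0) (P.cons (P.lf 0 55234 0) P.nil)))) (P.cons (P.cons (P.lf 0 4342411 0) (P.cons (P.lf 0 806850 0) (P.cons (P.lf 0 10025 0) P.nil))) (P.cons (P.cons (P.lf 0 1763191 0) (P.cons (P.lf 0 219399 0) P.nil)) (P.cons (P.cons (P.lf 108256 0 0) P.nil) P.nil)))))) 222104)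
 (EL.cons 8 (TM.mk (P.cons (P.cons (P.lf 81240756 0 0) (P.cons (P.lf 27599763 0 0) (P.cons (P.lf 833955 0 0) (P.cons (P.lf 0 424313 0) (P.cons (P.lf 0 21484 0) (P.cons (P.lf 1559 0 0) P.nil)))))) (P.cons (P.cons (P.lf 0 49424459 0) (P.cons (P.lf 0 13964741 0) (P.cons (P.lf 0 181929 0) (P.cons (P.lf 188424 0 0) (P.cons (P.lf 8670 0 0) P.nil))))) (P.cons (P.cons (P.lf 0 5963747 0) (P.cons (P.lf 0 1165444 0) (P.cons (P.lf 62456 0 0) (P.cons (P.lf 7228 0 0) P.nil)))) (P.cons (P.cons (P.lf 5752360 0 0) (P.cons (P.lf 1134092 0 0) (P.cons (P.lf 0 5466 0) P.nil))) (P.cons (P.cons (P.lf 254242 0 0) (P.cons (P.lf 0 52880 0) P.nil)) (P.cons (P.cons (P.lf 0 225541 0) P.nil) P.nil)))))) 157303)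
 EL.nil))
noncomputable def S314_343_586_660_18 : EL := (EL.cons 4 (TM.mk (P.cons (P.lf 0 549332354 0) (P.cons (P.lf 0 269533349 0) (P.cons (P.lf 0 28252205 0) (P.cons (P.lf 3180359 0 0) (P.cons (P.lf 331524 0 0) (P.cons (P.lf 0 44357 0) P.nil)))))) 4415)
 (EL.cons 8 (TM.mk (P.cons (P.lf 465398850 0 0) (P.cons (P.lf 114528063 0 0) (P.cons (P.lf 0 11222106 0) (P.cons (P.lf 0 2534590 0) (P.cons (P.lf 239457 0 0) (P.cons (P.lf 14216 0 0) P.nil)))))) 3029)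
 EL.nil))
noncomputable def S314_343_586_660_19 : EL := (EL.cons 4 (TM.mk (P.cons (P.cons (P.lf 164674685 0 0) (P.cons (P.lf 27972304 0 0) (P.cons (P.lf 0 1530531 0) (P.lf 0 170057 0)))) (P.cons (P.cons (P.lf 23911462 0 0) (P.cons (P.lf 6925977 0 0) (P.cons (P.lf 0 378960 0) (P.lf 0 42105 0)))) (P.cons (P.cons (P.lf 0 28311958 0) (P.cons (P.lf 0 1778509 0) (P.cons (P.lf 97312 0 0) (P.lf 10812 0 0)))) (P.cons (P.cons (P.lf 0 7151018 0) (P.cons (P.lf 0 357677 0) (P.cons (P.lf 19570 0 0) P.nil))) (P.cons (P.cons (P.lf 374187 0 0) (P.cons (P.lf 68445 0 0) P.nil)) (P.cons (P.cons (P.lf 175976 0 0) P.nil) P.nil)))))) 64006)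
 (EL.cons 8 (TM.mk (P.cons (P.cons (P.lf 0 139513737 0) (P.cons (P.lf 0 23698364 0) (P.cons (P.lf 1296678 0 0) (P.lf 144075 0 0)))) (P.cons (P.cons (P.lf 13862945 0 0) (P.cons (P.lf 0 71826 0) (P.cons (P.lf 3929 0 0) (P.lf 436 0 0)))) (P.cons (P.cons (P.lf 22738258 0 0) (P.cons (P.lf 1888285 0 0) (P.cons (P.lf 0 103319 0) (P.lf 0 11479 0)))) (P.cons (P.cons (P.lf 531969 0 0) (P.cons (P.lf 0 115633 0) (P.cons (P.lf 6327 0 0) P.nil))) (P.cons (P.cons (P.lf 0 800341 0) (P.cons (P.lf 0 55082 0) P.nil)) (P.cons (P.cons (P.lf 0 1893 0) P.nil) P.nil)))))) 38111)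
 EL.nil))
noncomputable def S314_343_586_660_20 : EL := (EL.cons 4 (TM.mk (P.cons (P.cons (P.lf 0 49364927 0) (P.cons (P.lf 0 16770650 0) (P.cons (P.lf 0 506742 0) (P.cons (P.lf 257828 0 0) (P.cons (P.lf 13053 0 0) (P.cons (P.lf 0 946 0) P.nil)))))) (P.cons (P.cons (P.lf 9885215 0 0) (P.cons (P.lf 1641019 0 0) (P.cons (P.lf 0 96265 0) (P.cons (P.lf 0 9267 0) (P.cons (P.lf 59 0 0) P.nil))))) (P.cons (P.cons (P.lf 13622063 0 0) (P.cons (P.lf 3404004 0 0) (P.cons (P.lf 0 16018 0) (P.cons (P.lf 0 39323 0) P.nil)))) (P.cons (P.cons (P.lf 0 725850 0) (P.cons (P.lf 0 40230 0) (P.cons (P.lf 0 7965 0) P.nil))) (P.cons (P.cons (P.lf 0 1377967 0) (P.cons (P.lf 0 206958 0) P.nil)) (P.cons (P.cons (P.lf 0 72935 0) P.nil) P.nil)))))) 198861)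
 (EL.cons 8 (TM.mk (P.cons (P.cons (P.lf 41822369 0 0) (P.cons (P.lf 14208231 0 0) (P.cons (P.lf 429316 0 0) (P.cons (P.lf 0 218434 0) (P.cons (P.lf 0 11059 0) (P.cons (P.lf 802 0 0) P.nil)))))) (P.cons (P.cons (P.lf 0 18603349 0) (P.cons (P.lf 0 4865198 0) (P.cons (P.lf 0 23441 0) (P.cons (P.lf 61274 0 0) (P.cons (P.lf 2654 0 0) P.nil))))) (P.cons (P.cons (P.lf 0 7633187 0) (P.cons (P.lf 0 1912222 0) (P.cons (P.lf 12710 0 0) (P.cons (P.lf 21684 0 0) P.nil)))) (P.cons (P.cons (P.lf 2693285 0 0) (P.cons (P.lf 551261 0 0) (P.cons (P.lf 3238 0 0) P.nil))) (P.cons (P.cons (P.lf 652797 0 0) (P.cons (P.lf 76419 0 0) P.nil)) (P.cons (P.cons (P.lf 0 123540 0) P.nil) P.nil)))))) 129231)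
 EL.nil))
noncomputable def S314_343_586_660_21 : EL := (EL.cons 4 (TM.mk (P.cons (P.cons (P.lf 0 2649487749 0) (P.cons (P.lf 0 316650474 0) (P.cons (P.lf 17325834 0 0) (P.lf 1925088 0 0)))) (P.cons (P.cons (P.lf 0 708060321 0) (P.cons (P.lf 25174626 0 0) (P.cons (P.lf 0 1377450 0) (P.lf 0 153045 0)))) (P.cons (P.cons (P.lf 199500114 0 0) (P.cons (P.lf 14284989 0 0) (P.cons (P.lf 0 781614 0) (P.lf 0 86844 0)))) (P.cons (P.cons (P.lf 10103868 0 0) (P.cons (P.lf 0 1964208 0) (P.cons (P.lf 107469 0 0) P.nil))) (P.cons (P.cons (P.lf 0 4322103 0) (P.cons (P.lf 0 116907 0) P.nil)) (P.cons (P.cons (P.lf 83961 0 0) P.nil) P.nil)))))) 141054)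
 (EL.cons 8 (TM.mk (P.cons (P.cons (P.lf 0 1111934640 0) (P.cons (P.lf 0 132891597 0) (P.cons (P.lf 7271298 0 0) (P.lf 807924 0 0)))) (P.cons (P.cons (P.lf 0 569104422 0) (P.cons (P.lf 0 21936078 0) (P.cons (P.lf 1200252 0 0) (P.lf 133359 0 0)))) (P.cons (P.cons (P.lf 0 6026748 0) (P.cons (P.lf 6538161 0 0) (P.cons (P.lf 0 357738 0) (P.lf 0 39747 0)))) (P.cons (P.cons (P.lf 18180438 0 0) (P.cons (P.lf 568320 0 0) (P.cons (P.lf 0 31095 0) P.nil))) (P.cons (P.cons (P.lf 0 182379 0) (P.cons (P.lf 0 159456 0) P.nil)) (P.cons (P.cons (P.lf 0 254622 0) P.nil) P.nil)))))) 90909)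
 (EL.cons 11 (TM.mk (P.cons (P.cons (P.lf 1806912642 0 0) (P.cons (P.lf 0 226724115 0) (P.cons (P.lf 0 34614906 0) (P.cons (P.lf 1057479 0 0) (P.lf 88122 0 0))))) (P.cons (P.cons (P.lf 0 292786086 0) (P.cons (P.lf 36737616 0 0) (P.cons (P.lf 5608884 0 0) (P.cons (P.lf 0 171348 0) (P.lf 0 14277 0))))) (P.cons (P.cons (P.lf 0 6746640 0) (P.cons (P.lf 846540 0 0) (P.cons (P.lf 129243 0 0) (P.cons (P.lf 0 3948 0) P.nil)))) (P.cons (P.cons (P.lf 3252855 0 0) (P.cons (P.lf 0 408153 0) (P.cons (P.lf 0 62313 0) P.nil))) (P.cons (P.cons (P.lf 0 89295 0) (P.cons (P.lf 11202 0 0) P.nil)) (P.cons (P.cons (P.lf 0 15840 0) P.nil) P.nil)))))) 8241)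
 EL.nil)))
noncomputable def S314_343_586_660_22 : EL := (EL.cons 4 (TM.mk (P.cons (P.cons (P.lf 794243340 0 0) (P.cons (P.lf 229836447 0 0) (P.cons (P.lf 3548292 0 0) (P.cons (P.lf 0 3161781 0) (P.cons (P.lf 0 147780 0) (P.cons (P.lf 10725 0 0) P.nil)))))) (P.cons (P.cons (P.lf 0 62115999 0) (P.cons (P.lf 0 37074570 0) (P.cons (P.lf 0 3172356 0) (P.cons (P.lf 794541 0 0) (P.cons (P.lf 47667 0 0) P.nil))))) (P.cons (P.cons (P.lf 0 175905969 0) (P.cons (P.lf 0 25136865 0) (P.cons (P.lf 1028010 0 0) (P.cons (P.lf 190833 0 0) P.nil)))) (P.cons (P.cons (P.lf 11406783 0 0) (P.cons (P.lf 5666070 0 0) (P.cons (P.lf 16494 0 0) P.nil))) (P.cons (P.cons (P.lf 7295067 0 0) (P.cons (P.lf 444627 0 0) P.nil)) (P.cons (P.cons (P.lf 0 674256 0) P.nil) P.nil)))))) 674550)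
 (EL.cons 8 (TM.mk (P.cons (P.cons (P.lf 333327330 0 0) (P.cons (P.lf 96457557 0 0) (P.cons (P.lf 1489140 0 0) (P.cons (P.lf 0 1326933 0) (P.cons (P.lf 0 62019 0) (P.cons (P.lf 4500 0 0) P.nil)))))) (P.cons (P.cons (P.lf 55453212 0 0) (P.cons (P.lf 8031234 0 0) (P.cons (P.lf 0 967170 0) (P.cons (P.lf 8925 0 0) (P.cons (P.lf 4836 0 0) P.nil))))) (P.cons (P.cons (P.lf 0 75080589 0) (P.cons (P.lf 0 12873429 0) (P.cons (P.lf 128688 0 0) (P.cons (P.lf 141261 0 0) P.nil)))) (P.cons (P.cons (P.lf 0 13076832 0) (P.cons (P.lf 0 269928 0) (P.cons (P.lf 94632 0 0) P.nil))) (P.cons (P.cons (P.lf 3101547 0 0) (P.cons (P.lf 592776 0 0) P.nil)) (P.cons (P.cons (P.lf 409290 0 0) P.nil) P.nil)))))) 336378)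
 (EL.cons 11 (TM.mk (P.cons (P.cons (P.lf 0 541662564 0) (P.cons (P.lf 0 24043347 0) (P.cons (P.lf 26955870 0 0) (P.cons (P.lf 1373286 0 0) (P.cons (P.lf 0 246894 0) (P.cons (P.lf 0 12255 0) P.nil)))))) (P.cons (P.cons (P.lf 274887609 0 0) (P.cons (P.lf 2780280 0 0) (P.cons (P.lf 0 11982129 0) (P.cons (P.lf 0 523848 0) (P.cons (P.lf 102717 0 0) P.nil))))) (P.cons (P.cons (P.lf 875541 0 0) (P.cons (P.lf 0 3780582 0) (P.cons (P.lf 644661 0 0) (P.cons (P.lf 67947 0 0) P.nil)))) (P.cons (P.cons (P.lf 0 9952575 0) (P.cons (P.lf 748293 0 0) (P.cons (P.lf 280848 0 0) P.nil))) (P.cons (P.cons (P.lf 598092 0 0) (P.cons (P.lf 45495 0 0) P.nil)) (P.cons (P.cons (P.lf 142161 0 0) P.nil) P.nil)))))) 167820)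
 EL.nil)))
noncomputable def S314_343_586_660_23 : EL := (EL.cons 4 (TM.mk (P.cons (P.cons (P.lf 0 1363944177 0) (P.cons (P.lf 0 163010214 0) (P.cons (P.lf 8919258 0 0) (P.lf 991026 0 0)))) (P.cons (P.cons (P.lf 0 587582124 0) (P.cons (P.lf 0 13700877 0) (P.cons (P.lf 749658 0 0) (P.lf 83295 0 0)))) (P.cons (P.cons (P.lf 56187939 0 0) (P.cons (P.lf 11039310 0 0) (P.cons (P.lf 0 604023 0) (P.lf 0 67110 0)))) (P.cons (P.cons (P.lf 25835451 0 0) (P.cons (P.lf 107178 0 0) (P.cons (P.lf 0 5865 0) P.nil))) (P.cons (P.cons (P.lf 0 2331153 0) (P.cons (P.lf 0 306558 0) P.nil)) (P.cons (P.cons (P.lf 0 410976 0) P.nil) P.nil)))))) 167892)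
 (EL.cons 8 (TM.mk (P.cons (P.cons (P.lf 0 572418867 0) (P.cons (P.lf 0 68411985 0) (P.cons (P.lf 3743229 0 0) (P.lf 415914 0 0)))) (P.cons (P.cons (P.lf 0 386592651 0) (P.cons (P.lf 0 22481514 0) (P.cons (P.lf 1230096 0 0) (P.lf 136674 0 0)))) (P.cons (P.cons (P.lf 0 45520167 0) (P.cons (P.lf 2176047 0 0) (P.cons (P.lf 0 119061 0) (P.lf 0 13227 0)))) (P.cons (P.cons (P.lf 11806860 0 0) (P.cons (P.lf 968358 0 0) (P.cons (P.lf 0 52983 0) P.nil))) (P.cons (P.cons (P.lf 1513527 0 0) (P.cons (P.lf 0 66798 0) P.nil)) (P.cons (P.cons (P.lf 0 248052 0) P.nil) P.nil)))))) 109887)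
 (EL.cons 11 (TM.mk (P.cons (P.cons (P.lf 930190365 0 0) (P.cons (P.lf 0 116716536 0) (P.cons (P.lf 0 17819595 0) (P.cons (P.lf 544383 0 0) (P.lf 45363 0 0))))) (P.cons (P.cons (P.lf 1409631 0 0) (P.cons (P.lf 0 176874 0) (P.cons (P.lf 0 27003 0) (P.cons (P.lf 825 0 0) (P.lf 69 0 0))))) (P.cons (P.cons (P.lf 0 37059852 0) (P.cons (P.lf 4650120 0 0) (P.cons (P.lf 709950 0 0) (P.cons (P.lf 0 21687 0) P.nil)))) (P.cons (P.cons (P.lf 2325543 0 0) (P.cons (P.lf 0 291798 0) (P.cons (P.lf 0 44547 0) P.nil))) (P.cons (P.cons (P.lf 339252 0 0) (P.cons (P.lf 0 42567 0) P.nil)) (P.cons (P.cons (P.lf 0 38187 0) P.nil) P.nil)))))) 23046)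
 EL.nil)))
noncomputable def S314_343_586_660_24 : EL := (EL.cons 4 (TM.mk (P.cons (P.cons (P.lf 408872838 0 0) (P.cons (P.lf 118318749 0 0) (P.cons (P.lf 1826643 0 0) (P.cons (P.lf 0 1627668 0) (P.cons (P.lf 0 76074 0) (P.cons (P.lf 5520 0 0) P.nil)))))) (P.cons (P.cons (P.lf 34894971 0 0) (P.cons (P.lf 265458 0 0) (P.cons (P.lf 0 1334364 0) (P.cons (P.lf 142815 0 0) (P.cons (P.lf 12096 0 0) P.nil))))) (P.cons (P.cons (P.lf 0 99713097 0) (P.cons (P.lf 0 17198430 0) (P.cons (P.lf 244569 0 0) (P.cons (P.lf 180771 0 0) P.nil)))) (P.cons (P.cons (P.lf 0 8731806 0) (P.cons (P.lf 954675 0 0) (P.cons (P.lf 110283 0 0) P.nil))) (P.cons (P.cons (P.lf 5611587 0 0) (P.cons (P.lf 840153 0 0) P.nil)) (P.cons (P.cons (P.lf 231282 0 0) P.nil) P.nil)))))) 529518)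
 (EL.cons 8 (TM.mk (P.cons (P.cons (P.lf 171595386 0 0) (P.cons (P.lf 49655907 0 0) (P.cons (P.lf 766602 0 0) (P.cons (P.lf 0 683100 0) (P.cons (P.lf 0 31926 0) (P.cons (P.lf 2316 0 0) P.nil)))))) (P.cons (P.cons (P.lf 56611842 0 0) (P.cons (P.lf 12255771 0 0) (P.cons (P.lf 0 372513 0) (P.cons (P.lf 0 107127 0) (P.cons (P.lf 0 2730 0) P.nil))))) (P.cons (P.cons (P.lf 0 35630544 0) (P.cons (P.lf 0 6427977 0) (P.cons (P.lf 0 22545 0) (P.cons (P.lf 80034 0 0) P.nil)))) (P.cons (P.cons (P.lf 0 13369800 0) (P.cons (P.lf 0 1274775 0) (P.cons (P.lf 64146 0 0) P.nil))) (P.cons (P.cons (P.lf 867450 0 0) (P.cons (P.lf 347259 0 0) P.nil)) (P.cons (P.cons (P.lf 547146 0 0) P.nil) P.nil)))))) 216726)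
 (EL.cons 11 (TM.mk (P.cons (P.cons (P.lf 0 278845410 0) (P.cons (P.lf 0 12377403 0) (P.cons (P.lf 13876758 0 0) (P.cons (P.lf 706962 0 0) (P.cons (P.lf 0 127098 0) (P.cons (P.lf 0 6309 0) P.nil)))))) (P.cons (P.cons (P.lf 95905137 0 0) (P.cons (P.lf 0 593073 0) (P.cons (P.lf 0 3898770 0) (P.cons (P.lf 0 154047 0) (P.cons (P.lf 32091 0 0) P.nil))))) (P.cons (P.cons (P.lf 26273691 0 0) (P.cons (P.lf 0 1593240 0) (P.cons (P.lf 0 810273 0) (P.cons (P.lf 0 15915 0) P.nil)))) (P.cons (P.cons (P.lf 0 6340569 0) (P.cons (P.lf 56202 0 0) (P.cons (P.lf 254694 0 0) P.nil))) (P.cons (P.cons (P.lf 0 581472 0) (P.cons (P.lf 104223 0 0) P.nil)) (P.cons (P.cons (P.lf 179064 0 0) P.nil) P.nil)))))) 149577)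
 EL.nil)))
noncomputable def S314_343_586_660_25 : EL := (EL.cons 4 (TM.mk (P.cons (P.cons (P.lf 0 702152223 0) (P.cons (P.lf 0 83916912 0) (P.cons (P.lf 4591593 0 0) (P.lf 510174 0 0)))) (P.cons (P.cons (P.lf 0 417323046 0) (P.cons (P.lf 0 20777934 0) (P.cons (P.lf 1136883 0 0) (P.lf 126321 0 0)))) (P.cons (P.cons (P.lf 0 13801869 0) (P.cons (P.lf 5335527 0 0) (P.cons (P.lf 0 291936 0) (P.lf 0 32436 0)))) (P.cons (P.cons (P.lf 21109134 0 0) (P.cons (P.lf 1073034 0 0) (P.cons (P.lf 0 58713 0) P.nil))) (P.cons (P.cons (P.lf 740847 0 0) (P.cons (P.lf 0 205335 0) P.nil)) (P.cons (P.cons (P.lf 0 555522 0) P.nil) P.nil)))))) 148803)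
 (EL.cons 8 (TM.mk (P.cons (P.cons (P.lf 0 294678615 0) (P.cons (P.lf 0 35218176 0) (P.cons (P.lf 1926996 0 0) (P.lf 214110 0 0)))) (P.cons (P.cons (P.lf 0 247211427 0) (P.cons (P.lf 0 17333385 0) (P.cons (P.lf 948411 0 0) (P.lf 105378 0 0)))) (P.cons (P.cons (P.lf 0 53152416 0) (P.cons (P.lf 0 434325 0) (P.cons (P.lf 23763 0 0) (P.lf 2640 0 0)))) (P.cons (P.cons (P.lf 4229730 0 0) (P.cons (P.lf 801555 0 0) (P.cons (P.lf 0 43857 0) P.nil))) (P.cons (P.cons (P.lf 2034345 0 0) (P.cons (P.lf 37680 0 0) P.nil)) (P.cons (P.cons (P.lf 0 61428 0) P.nil) P.nil)))))) 111321)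
 (EL.cons 11 (TM.mk (P.cons (P.cons (P.lf 478857744 0 0) (P.cons (P.lf 0 60085137 0) (P.cons (P.lf 0 9173445 0) (P.cons (P.lf 280245 0 0) (P.lf 23352 0 0))))) (P.cons (P.cons (P.lf 79043850 0 0) (P.cons (P.lf 0 9918102 0) (P.cons (P.lf 0 1514235 0) (P.cons (P.lf 46260 0 0) (P.lf 3855 0 0))))) (P.cons (P.cons (P.lf 0 23559429 0) (P.cons (P.lf 2956140 0 0) (P.cons (P.lf 451323 0 0) (P.cons (P.lf 0 13785 0) P.nil)))) (P.cons (P.cons (P.lf 0 2047872 0) (P.cons (P.lf 256959 0 0) (P.cons (P.lf 39231 0 0) P.nil))) (P.cons (P.cons (P.lf 574590 0 0) (P.cons (P.lf 0 72096 0) P.nil)) (P.cons (P.cons (P.lf 1791 0 0) P.nil) P.nil)))))) 31959)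
 EL.nil)))
noncomputable def S314_343_586_660_26 : EL := (EL.cons 4 (TM.mk (P.cons (P.cons (P.lf 210485865 0 0) (P.cons (P.lf 60909951 0 0) (P.cons (P.lf 940347 0 0) (P.cons (P.lf 0 837915 0) (P.cons (P.lf 0 39162 0) (P.cons (P.lf 2841 0 0) P.nil)))))) (P.cons (P.cons (P.lf 52389171 0 0) (P.cons (P.lf 10098603 0 0) (P.cons (P.lf 0 533127 0) (P.cons (P.lf 0 63519 0) (P.cons (P.lf 0 177 0) P.nil))))) (P.cons (P.cons (P.lf 0 50415744 0) (P.cons (P.lf 0 9416418 0) (P.cons (P.lf 4521 0 0) (P.cons (P.lf 113133 0 0) P.nil)))) (P.cons (P.cons (P.lf 0 13114860 0) (P.cons (P.lf 0 972867 0) (P.cons (P.lf 83730 0 0) P.nil))) (P.cons (P.cons (P.lf 2651565 0 0) (P.cons (P.lf 600579 0 0) P.nil)) (P.cons (P.cons (P.lf 647982 0 0) P.nil) P.nil)))))) 434955)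
 (EL.cons 8 (TM.mk (P.cons (P.cons (P.lf 88336518 0 0) (P.cons (P.lf 25562634 0 0) (P.cons (P.lf 394644 0 0) (P.cons (P.lf 0 351654 0) (P.cons (P.lf 0 16434 0) (P.cons (P.lf 1191 0 0) P.nil)))))) (P.cons (P.cons (P.lf 43591137 0 0) (P.cons (P.lf 10490034 0 0) (P.cons (P.lf 0 127224 0) (P.cons (P.lf 0 112662 0) (P.cons (P.lf 0 4092 0) P.nil))))) (P.cons (P.cons (P.lf 0 14424510 0) (P.cons (P.lf 0 2522760 0) (P.cons (P.lf 0 46761 0) (P.cons (P.lf 35559 0 0) P.nil)))) (P.cons (P.cons (P.lf 0 10184337 0) (P.cons (P.lf 0 1264350 0) (P.cons (P.lf 32868 0 0) P.nil))) (P.cons (P.cons (P.lf 0 506208 0) (P.cons (P.lf 102795 0 0) P.nil)) (P.cons (P.cons (P.lf 426549 0 0) P.nil) P.nil)))))) 199191)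
 (EL.cons 11 (TM.mk (P.cons (P.cons (P.lf 0 143548341 0) (P.cons (P.lf 0 6371829 0) (P.cons (P.lf 7143690 0 0) (P.cons (P.lf 363939 0 0) (P.cons (P.lf 0 65430 0) (P.cons (P.lf 0 3246 0) P.nil)))))) (P.cons (P.cons (P.lf 25893894 0 0) (P.cons (P.lf 0 1347438 0) (P.cons (P.lf 0 838704 0) (P.cons (P.lf 0 19779 0) (P.cons (P.lf 5817 0 0) P.nil))))) (P.cons (P.cons (P.lf 22979307 0 0) (P.cons (P.lf 0 808920 0) (P.cons (P.lf 0 814008 0) (P.cons (P.lf 0 24660 0) P.nil)))) (P.cons (P.cons (P.lf 0 1490907 0) (P.cons (P.lf 0 100710 0) (P.cons (P.lf 80415 0 0) P.nil))) (P.cons (P.cons (P.lf 0 981570 0) (P.cons (P.lf 66060 0 0) P.nil)) (P.cons (P.cons (P.lf 73524 0 0) P.nil) P.nil)))))) 140430)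
 EL.nil)))
noncomputable def S314_343_586_660_27 : EL := (EL.cons 13 (TM.mk (P.lf 0 4294967296 0) 0)
 EL.nil)
noncomputable def S314_343_586_660_28 : EL := (EL.cons 13 (TM.mk (P.cons (P.cons (P.lf 1287512718 0 0) (P.cons (P.lf 218702092 0 0) (P.cons (P.lf 0 11966496 0) (P.lf 0 1329608 0)))) (P.cons (P.cons (P.lf 0 444773847 0) (P.cons (P.lf 0 53156632 0) (P.cons (P.lf 2908516 0 0) (P.lf 323168 0 0)))) (P.cons (P.cons (P.lf 0 69343495 0) (P.cons (P.lf 928448 0 0) (P.cons (P.lf 0 50800 0) (P.lf 0 5644 0)))) (P.cons (P.cons (P.lf 8442224 0 0) (P.cons (P.lf 747960 0 0) (P.cons (P.lf 0 40924 0) P.nil))) (P.cons (P.cons (P.lf 551709 0 0) (P.cons (P.lf 0 55360 0) P.nil)) (P.cons (P.cons (P.lf 0 102854 0) P.nil) P.nil)))))) 26065)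
 EL.nil)
noncomputable def S314_343_586_660_29 : EL := (EL.cons 13 (TM.mk (P.cons (P.cons (P.lf 0 385960796 0) (P.cons (P.lf 0 131121708 0) (P.cons (P.lf 0 3961979 0) (P.cons (P.lf 2015840 0 0) (P.cons (P.lf 102068 0 0) (P.cons (P.lf 0 7409 0) P.nil)))))) (P.cons (P.cons (P.lf 266661860 0 0) (P.cons (P.lf 77166040 0 0) (P.cons (P.lf 1191315 0 0) (P.cons (P.lf 0 1061547 0) (P.cons (P.lf 0 49616 0) P.nil))))) (P.cons (P.cons (P.lf 0 4484902 0) (P.cons (P.lf 0 4504109 0) (P.cons (P.lf 0 506000 0) (P.cons (P.lf 109724 0 0) P.nil)))) (P.cons (P.cons (P.lf 0 19423497 0) (P.cons (P.lf 0 2832364 0) (P.cons (P.lf 101783 0 0) P.nil))) (P.cons (P.cons (P.lf 298157 0 0) (P.cons (P.lf 370867 0 0) P.nil)) (P.cons (P.cons (P.lf 448536 0 0) P.nil) P.nil)))))) 262254)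
 EL.nil)
noncomputable def S314_343_586_660_30 : EL := (EL.cons 13 (TM.mk (P.cons (P.lf 0 2211029524 0) (P.cons (P.lf 0 361618480 0) (P.cons (P.lf 21238980 0 0) (P.cons (P.lf 543904 0 0) (P.cons (P.lf 0 97232 0) (P.cons (P.lf 1560 0 0) P.nil)))))) 512)
 EL.nil)
noncomputable def S314_343_586_660_31 : EL := (EL.cons 13 (TM.mk (P.cons (P.cons (P.lf 662805659 0 0) (P.cons (P.lf 112586836 0 0) (P.cons (P.lf 0 6160297 0) (P.lf 0 684476 0)))) (P.cons (P.cons (P.lf 0 120564297 0) (P.cons (P.lf 0 8950979 0) (P.cons (P.lf 489761 0 0) (P.lf 54417 0 0)))) (P.cons (P.cons (P.lf 0 79512692 0) (P.cons (P.lf 0 5079108 0) (P.cons (P.lf 277908 0 0) (P.lf 30878 0 0)))) (P.cons (P.cons (P.lf 543980 0 0) (P.cons (P.lf 698386 0 0) (P.cons (P.lf 0 38212 0) P.nil))) (P.cons (P.cons (P.lf 1423199 0 0) (P.cons (P.lf 41567 0 0) P.nil)) (P.cons (P.cons (P.lf 0 49999 0) P.nil) P.nil)))))) 48197)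
 EL.nil)
noncomputable def S314_343_586_660_32 : EL := (EL.cons 13 (TM.mk (P.cons (P.cons (P.lf 0 198690852 0) (P.cons (P.lf 0 67500855 0) (P.cons (P.lf 0 2039608 0) (P.cons (P.lf 1037745 0 0) (P.cons (P.lf 52544 0 0) (P.cons (P.lf 0 3814 0) P.nil)))))) (P.cons (P.cons (P.lf 104780003 0 0) (P.cons (P.lf 28684819 0 0) (P.cons (P.lf 279701 0 0) (P.cons (P.lf 0 376754 0) (P.cons (P.lf 0 16948 0) P.nil))))) (P.cons (P.cons (P.lf 22051627 0 0) (P.cons (P.lf 4826774 0 0) (P.cons (P.lf 0 140590 0) (P.cons (P.lf 0 42860 0) P.nil)))) (P.cons (P.cons (P.lf 0 11646526 0) (P.cons (P.lf 0 2202303 0) (P.cons (P.lf 4404 0 0) P.nil))) (P.cons (P.cons (P.lf 0 1502217 0) (P.cons (P.lf 0 38020 0) P.nil)) (P.cons (P.cons (P.lf 358803 0 0) P.nil) P.nil)))))) 286325)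
 EL.nil)
noncomputable def S314_343_586_660_33 : EL := (EL.cons 14 (TM.mk (P.lf 8589934592 0 0) 0)
 EL.nil)
noncomputable def S314_343_586_660_34 : EL := (EL.cons 14 (TM.mk (P.cons (P.cons (P.lf 0 2575025436 0) (P.cons (P.lf 0 437404184 0) (P.cons (P.lf 23932992 0 0) (P.lf 2659216 0 0)))) (P.cons (P.cons (P.lf 889547694 0 0) (P.cons (P.lf 106313264 0 0) (P.cons (P.lf 0 5817032 0) (P.lf 0 646336 0)))) (P.cons (P.cons (P.lf 138686990 0 0) (P.cons (P.lf 0 1856896 0) (P.cons (P.lf 101600 0 0) (P.lf 11288 0 0)))) (P.cons (P.cons (P.lf 0 16884448 0) (P.cons (P.lf 0 1495920 0) (P.cons (P.lf 81848 0 0) P.nil))) (P.cons (P.cons (P.lf 0 1103418 0) (P.cons (P.lf 110720 0 0) P.nil)) (P.cons (P.cons (P.lf 205708 0 0) P.nil) P.nil)))))) 52130)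
 EL.nil)
noncomputable def S314_343_586_660_35 : EL := (EL.cons 14 (TM.mk (P.cons (P.cons (P.lf 771921592 0 0) (P.cons (P.lf 262243416 0 0) (P.cons (P.lf 7923958 0 0) (P.cons (P.lf 0 4031680 0) (P.cons (P.lf 0 204136 0) (P.cons (P.lf 14818 0 0) P.nil)))))) (P.cons (P.cons (P.lf 0 533323720 0) (P.cons (P.lf 0 154332080 0) (P.cons (P.lf 0 2382630 0) (P.cons (P.lf 2123094 0 0) (P.cons (P.lf 99232 0 0) P.nil))))) (P.cons (P.cons (P.lf 8969804 0 0) (P.cons (P.lf 9008218 0 0) (P.cons (P.lf 1012000 0 0) (P.cons (P.lf 0 219448 0) P.nil)))) (P.cons (P.cons (P.lf 38846994 0 0) (P.cons (P.lf 5664728 0 0) (P.cons (P.lf 0 203566 0) P.nil))) (P.cons (P.cons (P.lf 0 596314 0) (P.cons (P.lf 0 741734 0) P.nil)) (P.cons (P.cons (P.lf 0 897072 0) P.nil) P.nil)))))) 524508)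
 EL.nil)
noncomputable def S314_343_586_660_36 : EL := (EL.cons 14 (TM.mk (P.cons (P.lf 4422059048 0 0) (P.cons (P.lf 723236960 0 0) (P.cons (P.lf 0 42477960 0) (P.cons (P.lf 0 1087808 0) (P.cons (P.lf 194464 0 0) (P.cons (P.lf 0 3120 0) P.nil)))))) 1024)
 EL.nil)
noncomputable def S314_343_586_660_37 : EL := (EL.cons 14 (TM.mk (P.cons (P.cons (P.lf 0 1325611318 0) (P.cons (P.lf 0 225173672 0) (P.cons (P.lf 12320594 0 0) (P.lf 1368952 0 0)))) (P.cons (P.cons (P.lf 241128594 0 0) (P.cons (P.lf 17901958 0 0) (P.cons (P.lf 0 979522 0) (P.lf 0 108834 0)))) (P.cons (P.cons (P.lf 159025384 0 0) (P.cons (P.lf 10158216 0 0) (P.cons (P.lf 0 555816 0) (P.lf 0 61756 0)))) (P.cons (P.cons (P.lf 0 1087960 0) (P.cons (P.lf 0 1396772 0) (P.cons (P.lf 76424 0 0) P.nil))) (P.cons (P.cons (P.lf 0 2846398 0) (P.cons (P.lf 0 83134 0) P.nil)) (P.cons (P.cons (P.lf 99998 0 0) P.nil) P.nil))))))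 96394)
 EL.nil)
noncomputable def S314_343_586_660_38 : EL := (EL.cons 14 (TM.mk (P.cons (P.cons (P.lf 397381704 0 0) (P.cons (P.lf 135001710 0 0) (P.cons (P.lf 4079216 0 0) (P.cons (P.lf 0 2075490 0) (P.cons (P.lf 0 105088 0) (P.cons (P.lf 7628 0 0) P.nil)))))) (P.cons (P.cons (P.lf 0 209560006 0) (P.cons (P.lf 0 57369638 0) (P.cons (P.lf 0 559402 0) (P.cons (P.lf 753508 0 0) (P.cons (P.lf 33896 0 0) P.nil))))) (P.cons (P.cons (P.lf 0 44103254 0) (P.cons (P.lf 0 9653548 0) (P.cons (P.lf 281180 0 0) (P.cons (P.lf 85720 0 0) P.nil)))) (P.cons (P.cons (P.lf 23293052 0 0) (P.cons (P.lf 4404606 0 0) (P.cons (P.lf 0 8808 0) P.nil))) (P.cons (P.cons (P.lf 3004434 0 0) (P.cons (P.lf 76040 0 0) P.nil)) (P.cons (P.cons (P.lf 0 717606 0) P.nil) P.nil)))))) 572650)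
 EL.nil)
noncomputable def S314_343_586_660_39 : EL := (EL.cons 14 (TM.mk (P.cons (P.lf 2276455776 0 0) (P.cons (P.lf 744638158 0 0) (P.cons (P.lf 17158640 0 0) (P.cons (P.lf 0 8272934 0) (P.cons (P.lf 227096 0 0) (P.cons (P.lf 40292 0 0) P.nil)))))) 3922)
 EL.nil)
noncomputable def S314_343_586_660_40 : EL := (EL.cons 14 (TM.mk (P.cons (P.cons (P.lf 0 682418644 0) (P.cons (P.lf 0 115918376 0) (P.cons (P.lf 6342584 0 0) (P.lf 704730 0 0)))) (P.cons (P.cons (P.lf 12520908 0 0) (P.cons (P.lf 0 9742844 0) (P.cons (P.lf 533088 0 0) (P.lf 59230 0 0)))) (P.cons (P.cons (P.lf 108722832 0 0) (P.cons (P.lf 7850176 0 0) (P.cons (P.lf 0 429530 0) (P.lf 0 47724 0)))) (P.cons (P.cons (P.lf 11804672 0 0) (P.cons (P.lf 76216 0 0) (P.cons (P.lf 0 4170 0) P.nil))) (P.cons (P.cons (P.lf 0 2403854 0) (P.cons (P.lf 0 217996 0) P.nil)) (P.cons (P.cons (P.lf 0 196992 0) P.nil) P.nil)))))) 108846)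
 EL.nil)
noncomputable def S314_343_586_660_41 : EL := (EL.cons 14 (TM.mk (P.cons (P.cons (P.lf 204570284 0 0) (P.cons (P.lf 69498262 0 0) (P.cons (P.lf 2099962 0 0) (P.cons (P.lf 0 1068452 0) (P.cons (P.lf 0 54098 0) (P.cons (P.lf 3926 0 0) P.nil)))))) (P.cons (P.cons (P.lf 0 74422636 0) (P.cons (P.lf 0 18167040 0) (P.cons (P.lf 55474 0 0) (P.cons (P.lf 213154 0 0) (P.cons (P.lf 8600 0 0) P.nil))))) (P.cons (P.cons (P.lf 0 42313326 0) (P.cons (P.lf 0 10467484 0) (P.cons (P.lf 77478 0 0) (P.cons (P.lf 117834 0 0) P.nil)))) (P.cons (P.cons (P.lf 9263812 0 0) (P.cons (P.lf 1721282 0 0) (P.cons (P.lf 21388 0 0) P.nil))) (P.cons (P.cons (P.lf 3761476 0 0) (P.cons (P.lf 468052 0 0) P.nil)) (P.cons (P.cons (P.lf 0 230948 0) P.nil) P.nil)))))) 473776)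
 EL.nil)
noncomputable def S314_343_586_660_42 : EL := (EL.cons 14 (TM.mk (P.cons (P.lf 1171909022 0 0) (P.cons (P.lf 575004478 0 0) (P.cons (P.lf 60271372 0 0) (P.cons (P.lf 0 6784766 0) (P.cons (P.lf 0 707252 0) (P.cons (P.lf 94630 0 0) P.nil)))))) 9404)
 EL.nil)
noncomputable def S314_343_586_660_43 : EL := (EL.cons 14 (TM.mk (P.cons (P.cons (P.lf 0 351305996 0) (P.cons (P.lf 0 59674250 0) (P.cons (P.lf 3265134 0 0) (P.lf 362790 0 0)))) (P.cons (P.cons (P.lf 0 51011120 0) (P.cons (P.lf 0 14775418 0) (P.cons (P.lf 808450 0 0) (P.lf 89826 0 0)))) (P.cons (P.cons (P.lf 60398844 0 0) (P.cons (P.lf 3794154 0 0) (P.cons (P.lf 0 207600 0) (P.lf 0 23066 0)))) (P.cons (P.cons (P.lf 15255506 0 0) (P.cons (P.lf 763046 0 0) (P.cons (P.lf 0 41750 0) P.nil))) (P.cons (P.cons (P.lf 0 798266 0) (P.cons (P.lf 0 146016 0) P.nil)) (P.cons (P.cons (P.lf 0 375416 0) P.nil) P.nil)))))) 136506)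
 EL.nil)
noncomputable def S314_343_586_660_44 : EL := (EL.cons 14 (TM.mk (P.cons (P.cons (P.lf 105311846 0 0) (P.cons (P.lf 35777388 0 0) (P.cons (P.lf 1081050 0 0) (P.cons (P.lf 0 550034 0) (P.cons (P.lf 0 27848 0) (P.cons (P.lf 2020 0 0) P.nil)))))) (P.cons (P.cons (P.lf 0 21088460 0) (P.cons (P.lf 0 3500842 0) (P.cons (P.lf 205366 0 0) (P.cons (P.lf 19770 0 0) (P.cons (P.lf 0 126 0) P.nil))))) (P.cons (P.cons (P.lf 0 29060402 0) (P.cons (P.lf 0 7261876 0) (P.cons (P.lf 34172 0 0) (P.cons (P.lf 83890 0 0) P.nil)))) (P.cons (P.cons (P.lf 1548482 0 0) (P.cons (P.lf 85826 0 0) (P.cons (P.lf 16992 0 0) P.nil))) (P.cons (P.cons (P.lf 2939664 0 0) (P.cons (P.lf 441512 0 0) P.nil)) (P.cons (P.cons (P.lf 155596 0 0) P.nil) P.nil)))))) 424190)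
 EL.nil)
noncomputable def S314_343_586_660_45 : EL := (EL.cons 14 (TM.mk (P.cons (P.cons (P.lf 0 231400798 0) (P.cons (P.lf 0 117920012 0) (P.cons (P.lf 0 13578260 0) (P.cons (P.lf 1774714 0 0) (P.cons (P.lf 369750 0 0) (P.cons (P.lf 0 2826 0) P.nil)))))) (P.cons (P.cons (P.lf 239813608 0 0) (P.cons (P.lf 110132454 0 0) (P.cons (P.lf 10630488 0 0) (P.cons (P.lf 0 1665326 0) (P.cons (P.lf 0 288406 0) P.nil))))) (P.cons (P.cons (P.lf 0 45455394 0) (P.cons (P.lf 0 21672874 0) (P.cons (P.lf 0 2452370 0) (P.cons (P.lf 314452 0 0) P.nil)))) (P.cons (P.cons (P.lf 0 20844332 0) (P.cons (P.lf 0 5658704 0) (P.cons (P.lf 25718 0 0) P.nil))) (P.cons (P.cons (P.lf 5295604 0 0) (P.cons (P.lf 1836124 0 0) P.nil)) (P.cons (P.cons (P.lf 903722 0 0) P.nil) P.nil)))))) 1323352)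
 EL.nil)
noncomputable def S314_343_586_660_46 : EL := (EL.cons 15 (TM.mk (P.lf 4294967296 0 0) 0)
 EL.nil)
noncomputable def S314_343_586_660_47 : EL := (EL.cons 15 (TM.mk (P.cons (P.cons (P.lf 0 1287512718 0) (P.cons (P.lf 0 218702092 0) (P.cons (P.lf 11966496 0 0) (P.lf 1329608 0 0)))) (P.cons (P.cons (P.lf 444773847 0 0) (P.cons (P.lf 53156632 0 0) (P.cons (P.lf 0 2908516 0) (P.lf 0 323168 0)))) (P.cons (P.cons (P.lf 69343495 0 0) (P.cons (P.lf 0 928448 0) (P.cons (P.lf 50800 0 0) (P.lf 5644 0 0)))) (P.cons (P.cons (P.lf 0 8442224 0) (P.cons (P.lf 0 747960 0) (P.cons (P.lf 40924 0 0) P.nil))) (P.cons (P.cons (P.lf 0 551709 0) (P.cons (P.lf 55360 0 0) P.nil)) (P.cons (P.cons (P.lf 102854 0 0) P.nil) P.nil)))))) 26065)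
 EL.nil)
noncomputable def S314_343_586_660_48 : EL := (EL.cons 15 (TM.mk (P.cons (P.cons (P.lf 385960796 0 0) (P.cons (P.lf 131121708 0 0) (P.cons (P.lf 3961979 0 0) (P.cons (P.lf 0 2015840 0) (P.cons (P.lf 0 102068 0) (P.cons (P.lf 7409 0 0) P.nil)))))) (P.cons (P.cons (P.lf 0 266661860 0) (P.cons (P.lf 0 77166040 0) (P.cons (P.lf 0 1191315 0) (P.cons (P.lf 1061547 0 0) (P.cons (P.lf 49616 0 0) P.nil))))) (P.cons (P.cons (P.lf 4484902 0 0) (P.cons (P.lf 4504109 0 0) (P.cons (P.lf 506000 0 0) (P.cons (P.lf 0 109724 0) P.nil)))) (P.cons (P.cons (P.lf 19423497 0 0) (P.cons (P.lf 2832364 0 0) (P.cons (P.lf 0 101783 0) P.nil))) (P.cons (P.cons (P.lf 0 298157 0) (P.cons (P.lf 0 370867 0) P.nil)) (P.cons (P.cons (P.lf 0 448536 0) P.nil) P.nil)))))) 262254)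
 EL.nil)
noncomputable def S314_343_586_660 : SL := (SL.cons S314_343_586_660_0 (SL.cons S314_343_586_660_1 (SL.cons S314_343_586_660_2 (SL.cons S314_343_586_660_3 (SL.cons S314_343_586_660_4 (SL.cons S314_343_586_660_5 (SL.cons S314_343_586_660_6 (SL.cons S314_343_586_660_7 (SL.cons S314_343_586_660_8 (SL.cons S314_343_586_660_9 (SL.cons S314_343_586_660_10 (SL.cons S314_343_586_660_11 (SL.cons S314_343_586_660_12 (SL.cons S314_343_586_660_13 (SL.cons S314_343_586_660_14 (SL.cons S314_343_586_660_15 (SL.cons S314_343_586_660_16 (SL.cons S314_343_586_660_17 (SL.cons S314_343_586_660_18 (SL.cons S314_343_586_660_19 (SL.cons S314_343_586_660_20 (SL.cons S314_343_586_660_21 (SL.cons S314_343_586_660_22 (SL.cons S314_343_586_660_23 (SL.cons S314_343_586_660_24 (SL.cons S314_343_586_660_25 (SL.cons S314_343_586_660_26 (SL.cons S314_343_586_660_27 (SL.cons S314_343_586_660_28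 (SL.cons S314_343_586_660_29 (SL.cons S314_343_586_660_30 (SL.cons S314_343_586_660_31 (SL.cons S314_343_586_660_32 (SL.cons S314_343_586_660_33 (SL.cons S314_343_586_660_34 (SL.cons S314_343_586_660_35 (SL.cons S314_343_586_660_36 (SL.cons S314_343_586_660_37 (SL.cons S314_343_586_660_38 (SL.cons S314_343_586_660_39 (SL.cons S314_343_586_660_40 (SL.cons S314_343_586_660_41 (SL.cons S314_343_586_660_42 (SL.cons S314_343_586_660_43 (SL.cons S314_343_586_660_44 (SL.cons S314_343_586_660_45 (SL.cons S314_343_586_660_46 (SL.cons S314_343_586_660_47 (SL.cons S314_343_586_660_48 SL.nil)))))))))))))))))))))))))))))))))))))))))))))))))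
noncomputable def S314_343_660_734_0 : EL := (EL.cons 0 (TM.mk (P.cons (P.lf 6454925654 0 0) (P.cons (P.lf 0 654467131 0) (P.cons (P.lf 0 15080835 0) (P.cons (P.lf 7271133 0 0) (P.cons (P.lf 0 199596 0) (P.cons (P.lf 0 35412 0) P.nil)))))) 3454)
 (EL.cons 1 (TM.mk (P.cons (P.lf 1695086628 0 0) (P.cons (P.lf 139901857 0 0) (P.cons (P.lf 0 47471786 0) (P.cons (P.lf 293435 0 0) (P.cons (P.lf 328029 0 0) (P.cons (P.lf 0 15684 0) P.nil)))))) 1940)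
 (EL.cons 5 (TM.mk (P.cons (P.lf 5006359730 0 0) (P.cons (P.lf 232699422 0 0) (P.cons (P.lf 5362070 0 0) (P.cons (P.lf 0 2585292 0) (P.cons (P.lf 70970 0 0) (P.cons (P.lf 12590 0 0) P.nil)))))) 1169)
 (EL.cons 9 (TM.mk (P.lf 6442450944 0 0) 2)
 EL.nil))))
noncomputable def S314_343_660_734_1 : EL := (EL.cons 0 (TM.mk (P.cons (P.cons (P.lf 582462617 0 0) (P.cons (P.lf 0 16319476 0) (P.cons (P.lf 2101483 0 0) (P.lf 140100 0 0)))) (P.cons (P.cons (P.lf 2207011951 0 0) (P.cons (P.lf 98369449 0 0) (P.cons (P.lf 0 12667140 0) (P.lf 0 844472 0)))) (P.cons (P.cons (P.lf 0 115370375 0) (P.cons (P.lf 0 20839056 0) (P.cons (P.lf 2683458 0 0) (P.lf 178887 0 0)))) (P.cons (P.cons (P.lf 0 78452711 0) (P.cons (P.lf 0 1232587 0) (P.cons (P.lf 158718 0 0) P.nil))) (P.cons (P.cons (P.lf 6914107 0 0) (P.cons (P.lf 619928 0 0) P.nil)) (P.cons (P.cons (P.lf 1091145 0 0) P.nil) P.nil)))))) 495330)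
 (EL.cons 1 (TM.mk (P.cons (P.cons (P.lf 0 1317555261 0) (P.cons (P.lf 0 107396146 0) (P.cons (P.lf 13829514 0 0) (P.lf 921961 0 0)))) (P.cons (P.cons (P.lf 390812990 0 0) (P.cons (P.lf 39456176 0 0) (P.cons (P.lf 0 5080810 0) (P.lf 0 338712 0)))) (P.cons (P.cons (P.lf 222214623 0 0) (P.cons (P.lf 5251761 0 0) (P.cons (P.lf 0 676273 0) (P.lf 0 45083 0)))) (P.cons (P.cons (P.lf 0 24247978 0) (P.cons (P.lf 0 2285738 0) (P.cons (P.lf 294326 0 0) P.nil))) (P.cons (P.cons (P.lf 0 5323638 0) (P.cons (P.lf 34926 0 0) P.nil)) (P.cons (P.cons (P.lf 689053 0 0) P.nil) P.nil)))))) 278205)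
 (EL.cons 5 (TM.mk (P.cons (P.cons (P.lf 0 3040001653 0) (P.cons (P.lf 0 257494812 0) (P.cons (P.lf 33157892 0 0) (P.lf 2210522 0 0)))) (P.cons (P.cons (P.lf 127959736 0 0) (P.cons (P.lf 29019924 0 0) (P.cons (P.lf 0 3736934 0) (P.lf 0 249136 0)))) (P.cons (P.cons (P.lf 156170016 0 0) (P.cons (P.lf 6291676 0 0) (P.cons (P.lf 0 810180 0) (P.lf 0 54006 0)))) (P.cons (P.cons (P.lf 11339570 0 0) (P.cons (P.lf 0 462228 0) (P.cons (P.lf 59522 0 0) P.nil))) (P.cons (P.cons (P.lf 0 3233201 0) (P.cons (P.lf 0 153772 0) P.nil)) (P.cons (P.cons (P.lf 0 201611 0) P.nil) P.nil)))))) 225628)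
 (EL.cons 9 (TM.mk (P.cons (P.cons (P.lf 0 2499621027 0) (P.cons (P.lf 0 232321134 0) (P.cons (P.lf 29916246 0 0) (P.lf 1994412 0 0)))) (P.cons (P.cons (P.lf 805301548 0 0) (P.cons (P.lf 56466810 0 0) (P.cons (P.lf 0 7271292 0) (P.lf 0 484752 0)))) (P.cons (P.cons (P.lf 101602438 0 0) (P.cons (P.lf 0 986262 0) (P.cons (P.lf 127002 0 0) (P.lf 8466 0 0)))) (P.cons (P.cons (P.lf 0 14607102 0) (P.cons (P.lf 0 794538 0) (P.cons (P.lf 102306 0 0) P.nil))) (P.cons (P.cons (P.lf 0 683695 0) (P.cons (P.lf 58806 0 0) P.nil)) (P.cons (P.cons (P.lf 164415 0 0) P.nil) P.nil)))))) 42032)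
 (EL.cons 2 (TM.mk (P.cons (P.cons (P.lf 0 591149851 0) (P.cons (P.lf 168759922 0 0) (P.cons (P.lf 12622969 0 0) (P.cons (P.lf 0 850601 0) (P.lf 0 42527 0))))) (P.cons (P.cons (P.lf 0 895840 0) (P.cons (P.lf 255743 0 0) (P.cons (P.lf 19127 0 0) (P.cons (P.lf 0 1288 0) (P.lf 0 64 0))))) (P.cons (P.cons (P.lf 23552088 0 0) (P.cons (P.lf 0 6723587 0) (P.cons (P.lf 0 502911 0) (P.cons (P.lf 33887 0 0) P.nil)))) (P.cons (P.cons (P.lf 0 1477915 0) (P.cons (P.lf 421911 0 0) (P.cons (P.lf 31556 0 0) P.nil))) (P.cons (P.cons (P.lf 0 215600 0) (P.cons (P.lf 61548 0 0) P.nil)) (P.cons (P.cons (P.lf 24266 0 0) P.nil) P.nil)))))) 22799)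
 (EL.cons 6 (TM.mk (P.cons (P.cons (P.lf 500826975 0 0) (P.cons (P.lf 0 142974783 0) (P.cons (P.lf 0 10694283 0) (P.cons (P.lf 720636 0 0) (P.lf 36030 0 0))))) (P.cons (P.cons (P.lf 0 121728495 0) (P.cons (P.lf 34750731 0 0) (P.cons (P.lf 2599296 0 0) (P.cons (P.lf 0 175152 0) (P.lf 0 8754 0))))) (P.cons (P.cons (P.lf 2126142 0 0) (P.cons (P.lf 0 606966 0) (P.cons (P.lf 0 45399 0) (P.cons (P.lf 3057 0 0) P.nil)))) (P.cons (P.cons (P.lf 1712826 0 0) (P.cons (P.lf 0 488973 0) (P.cons (P.lf 0 36573 0) P.nil))) (P.cons (P.cons (P.lf 0 126777 0) (P.cons (P.lf 36192 0 0) P.nil)) (P.cons (P.cons (P.lf 0 8925 0) P.nil) P.nil)))))) 12957)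
 EL.nil))))))
noncomputable def S314_343_660_734_2 : EL := (EL.cons 0 (TM.mk (P.cons (P.cons (P.lf 0 1423693456 0) (P.cons (P.lf 0 209971355 0) (P.cons (P.lf 19821278 0 0) (P.cons (P.lf 3661206 0 0) (P.cons (P.lf 4238 0 0) (P.cons (P.lf 0 15945 0) P.nil)))))) (P.cons (P.cons (P.lf 0 842358578 0) (P.cons (P.lf 0 108968321 0) (P.cons (P.lf 11582742 0 0) (P.cons (P.lf 1566256 0 0) (P.cons (P.lf 1444 0 0) P.nil))))) (P.cons (P.cons (P.lf 576573221 0 0) (P.cons (P.lf 69580495 0 0) (P.cons (P.lf 0 6688862 0) (P.cons (P.lf 0 1182216 0) P.nil)))) (P.cons (P.cons (P.lf 61859758 0 0) (P.cons (P.lf 0 1145484 0) (P.cons (P.lf 0 156583 0) P.nil))) (P.cons (P.cons (P.lf 0 32708856 0) (P.cons (P.lf 0 3314550 0) P.nil)) (P.cons (P.cons (P.lf 0 854502 0) P.nil) P.nil)))))) 3196200)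
 (EL.cons 1 (TM.mk (P.cons (P.cons (P.lf 767227528 0 0) (P.cons (P.lf 130929218 0 0) (P.cons (P.lf 0 11318556 0) (P.cons (P.lf 0 2551113 0) (P.cons (P.lf 0 3252 0) (P.cons (P.lf 12247 0 0) P.nil)))))) (P.cons (P.cons (P.lf 0 489293070 0) (P.cons (P.lf 0 85853107 0) (P.cons (P.lf 7216715 0 0) (P.cons (P.lf 1725630 0 0) (P.cons (P.lf 2244 0 0) P.nil))))) (P.cons (P.cons (P.lf 0 101314894 0) (P.cons (P.lf 0 4817533 0) (P.cons (P.lf 967356 0 0) (P.cons (P.lf 0 48011 0) P.nil)))) (P.cons (P.cons (P.lf 77882693 0 0) (P.cons (P.lf 8901369 0 0) (P.cons (P.lf 0 928107 0) P.nil))) (P.cons (P.cons (P.lf 3327317 0 0) (P.cons (P.lf 0 710200 0) P.nil)) (P.cons (P.cons (P.lf 0 3251655 0) P.nil) P.nil)))))) 1630453)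
 (EL.cons 5 (TM.mk (P.cons (P.cons (P.lf 1605346837 0 0) (P.cons (P.lf 278971095 0 0) (P.cons (P.lf 0 23862627 0) (P.cons (P.lf 0 5501048 0) (P.cons (P.lf 0 7076 0) (P.cons (P.lf 26658 0 0) P.nil)))))) (P.cons (P.cons (P.lf 0 408716456 0) (P.cons (P.lf 0 76739326 0) (P.cons (P.lf 6137150 0 0) (P.cons (P.lf 1623188 0 0) (P.cons (P.lf 2185 0 0) P.nil))))) (P.cons (P.cons (P.lf 0 180274287 0) (P.cons (P.lf 0 16178323 0) (P.cons (P.lf 1917319 0 0) (P.cons (P.lf 181618 0 0) P.nil)))) (P.cons (P.cons (P.lf 19638824 0 0) (P.cons (P.lf 4039080 0 0) (P.cons (P.lf 0 366648 0) P.nil))) (P.cons (P.cons (P.lf 9908417 0 0) (P.cons (P.lf 632095 0 0) P.nil)) (P.cons (P.cons (P.lf 0 556661 0) P.nil) P.nil)))))) 1527912)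
 (EL.cons 9 (TM.mk (P.cons (P.cons (P.lf 969833581 0 0) (P.cons (P.lf 180277597 0 0) (P.cons (P.lf 0 14836813 0) (P.cons (P.lf 0 3705250 0) (P.cons (P.lf 0 4920 0) (P.cons (P.lf 18522 0 0) P.nil)))))) (P.cons (P.cons (P.lf 0 624901516 0) (P.cons (P.lf 0 101897304 0) (P.cons (P.lf 9048928 0 0) (P.cons (P.lf 1923598 0 0) (P.cons (P.lf 2391 0 0) P.nil))))) (P.cons (P.cons (P.lf 21820173 0 0) (P.cons (P.lf 7554172 0 0) (P.cons (P.lf 0 406707 0) (P.cons (P.lf 0 210631 0) P.nil)))) (P.cons (P.cons (P.lf 36735342 0 0) (P.cons (P.lf 3204528 0 0) (P.cons (P.lf 0 372628 0) P.nil))) (P.cons (P.cons (P.lf 0 1518867 0) (P.cons (P.lf 0 482121 0) P.nil)) (P.cons (P.cons (P.lf 0 759235 0) P.nil) P.nil)))))) 413584)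
 (EL.cons 2 (TM.mk (P.cons (P.cons (P.lf 458723120 0 0) (P.cons (P.lf 0 88320189 0) (P.cons (P.lf 0 27456665 0) (P.cons (P.lf 950962 0 0) (P.cons (P.lf 316068 0 0) (P.cons (P.lf 2981 0 0) P.nil)))))) (P.cons (P.cons (P.lf 0 147091415 0) (P.cons (P.lf 31693258 0 0) (P.cons (P.lf 7406814 0 0) (P.cons (P.lf 0 281913 0) (P.cons (P.lf 0 78952 0) P.nil))))) (P.cons (P.cons (P.lf 0 37145795 0) (P.cons (P.lf 9070953 0 0) (P.cons (P.lf 1428361 0 0) (P.cons (P.lf 0 63905 0) P.nil)))) (P.cons (P.cons (P.lf 9687223 0 0) (P.cons (P.lf 0 2099947 0) (P.cons (P.lf 0 482546 0) P.nil))) (P.cons (P.cons (P.lf 670224 0 0) (P.cons (P.lf 0 219470 0) P.nil)) (P.cons (P.cons (P.lf 0 256128 0) P.nil) P.nil)))))) 307040)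
 (EL.cons 6 (TM.mk (P.cons (P.cons (P.lf 0 388633968 0) (P.cons (P.lf 74825580 0 0) (P.cons (P.lf 23261508 0 0) (P.cons (P.lf 0 805662 0) (P.cons (P.lf 0 267774 0) (P.cons (P.lf 0 2526 0) P.nil)))))) (P.cons (P.cons (P.lf 219665418 0 0) (P.cons (P.lf 0 45150912 0) (P.cons (P.lf 0 11964186 0) (P.cons (P.lf 435876 0 0) (P.cons (P.lf 132378 0 0) P.nil))))) (P.cons (P.cons (P.lf 0 16284930 0) (P.cons (P.lf 2208444 0 0) (P.cons (P.lf 1358718 0 0) (P.cons (P.lf 0 40080 0) P.nil)))) (P.cons (P.cons (P.lf 0 6908166 0) (P.cons (P.lf 1799598 0 0) (P.cons (P.lf 218976 0 0) P.nil))) (P.cons (P.cons (P.lf 1039338 0 0) (P.cons (P.lf 0 219018 0) P.nil)) (P.cons (P.cons (P.lf 71010 0 0) P.nil) P.nil)))))) 227856)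
 EL.nil))))))
noncomputable def S314_343_660_734_3 : EL := (EL.cons 0 (TM.mk (P.cons (P.lf 2000791209 0 0) (P.cons (P.lf 654467131 0 0) (P.cons (P.lf 15080835 0 0) (P.cons (P.lf 0 7271133 0) (P.cons (P.lf 199596 0 0) (P.cons (P.lf 35412 0 0) P.nil)))))) 3454)
 (EL.cons 1 (TM.mk (P.cons (P.lf 0 1695086628 0) (P.cons (P.lf 0 139901857 0) (P.cons (P.lf 47471786 0 0) (P.cons (P.lf 0 293435 0) (P.cons (P.lf 0 328029 0) (P.cons (P.lf 15684 0 0) P.nil)))))) 1940)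
 (EL.cons 5 (TM.mk (P.cons (P.lf 1436091214 0 0) (P.cons (P.lf 0 232699422 0) (P.cons (P.lf 0 5362070 0) (P.cons (P.lf 2585292 0 0) (P.cons (P.lf 0 70970 0) (P.cons (P.lf 0 12590 0) P.nil)))))) 1162)
 EL.nil)))
noncomputable def S314_343_660_734_4 : EL := (EL.cons 0 (TM.mk (P.cons (P.cons (P.lf 0 776291479 0) (P.cons (P.lf 0 72150503 0) (P.cons (P.lf 9290898 0 0) (P.lf 619391 0 0)))) (P.cons (P.cons (P.lf 0 3830769 0) (P.cons (P.lf 0 6064189 0) (P.cons (P.lf 780892 0 0) (P.lf 52057 0 0)))) (P.cons (P.cons (P.lf 107510679 0 0) (P.cons (P.lf 4886147 0 0) (P.cons (P.lf 0 629193 0) (P.lf 0 41944 0)))) (P.cons (P.cons (P.lf 10491254 0 0) (P.cons (P.lf 47438 0 0) (P.cons (P.lf 0 6110 0) P.nil))) (P.cons (P.cons (P.lf 0 2444707 0) (P.cons (P.lf 0 135687 0) P.nil)) (P.cons (P.cons (P.lf 0 156048 0) P.nil) P.nil)))))) 103475)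
 (EL.cons 1 (TM.mk (P.cons (P.cons (P.lf 657680471 0 0) (P.cons (P.lf 61126494 0 0) (P.cons (P.lf 0 7871325 0) (P.lf 0 524752 0)))) (P.cons (P.cons (P.lf 0 157603723 0) (P.cons (P.lf 0 9812100 0) (P.cons (P.lf 1263513 0 0) (P.lf 84232 0 0)))) (P.cons (P.cons (P.lf 0 62639139 0) (P.cons (P.lf 0 2678593 0) (P.cons (P.lf 344923 0 0) (P.lf 22993 0 0)))) (P.cons (P.cons (P.lf 7684732 0 0) (P.cons (P.lf 657131 0 0) (P.cons (P.lf 0 84616 0) P.nil))) (P.cons (P.cons (P.lf 1336350 0 0) (P.cons (P.lf 3768 0 0) P.nil)) (P.cons (P.cons (P.lf 0 187762 0) P.nil) P.nil)))))) 68503)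
 (EL.cons 5 (TM.mk (P.cons (P.cons (P.lf 0 557192258 0) (P.cons (P.lf 0 51786864 0) (P.cons (P.lf 6668650 0 0) (P.lf 444574 0 0)))) (P.cons (P.cons (P.lf 269795898 0 0) (P.cons (P.lf 20978424 0 0) (P.cons (P.lf 0 2701414 0) (P.lf 0 180092 0)))) (P.cons (P.cons (P.lf 0 4358540 0) (P.cons (P.lf 0 2066050 0) (P.cons (P.lf 266046 0 0) (P.lf 17736 0 0)))) (P.cons (P.cons (P.lf 0 8599256 0) (P.cons (P.lf 0 281712 0) (P.cons (P.lf 36274 0 0) P.nil))) (P.cons (P.cons (P.lf 641332 0 0) (P.cons (P.lf 67846 0 0) P.nil)) (P.cons (P.cons (P.lf 110288 0 0) P.nil) P.nil)))))) 46712)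
 EL.nil)))
noncomputable def S314_343_660_734_5 : EL := (EL.cons 0 (TM.mk (P.cons (P.cons (P.lf 301195075 0 0) (P.cons (P.lf 55987671 0 0) (P.cons (P.lf 0 4607775 0) (P.cons (P.lf 0 1150715 0) (P.cons (P.lf 0 1527 0) (P.cons (P.lf 5751 0 0) P.nil)))))) (P.cons (P.cons (P.lf 0 95549544 0) (P.cons (P.lf 0 13331798 0) (P.cons (P.lf 1303045 0 0) (P.cons (P.lf 220995 0 0) (P.cons (P.lf 242 0 0) P.nil))))) (P.cons (P.cons (P.lf 0 54434870 0) (P.cons (P.lf 0 7583352 0) (P.cons (P.lf 758209 0 0) (P.cons (P.lf 121322 0 0) P.nil)))) (P.cons (P.cons (P.lf 11067915 0 0) (P.cons (P.lf 1320619 0 0) (P.cons (P.lf 0 119112 0) P.nil))) (P.cons (P.cons (P.lf 4046521 0 0) (P.cons (P.lf 314080 0 0) P.nil)) (P.cons (P.cons (P.lf 0 342750 0) P.nil) P.nil)))))) 467659)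
 (EL.cons 1 (TM.mk (P.cons (P.cons (P.lf 0 255174924 0) (P.cons (P.lf 0 47433211 0) (P.cons (P.lf 3903744 0 0) (P.cons (P.lf 974895 0 0) (P.cons (P.lf 1293 0 0) (P.cons (P.lf 0 4871 0) P.nil)))))) (P.cons (P.cons (P.lf 143358588 0 0) (P.cons (P.lf 22895568 0 0) (P.cons (P.lf 0 2058690 0) (P.cons (P.lf 0 425658 0) (P.cons (P.lf 0 521 0) P.nil))))) (P.cons (P.cons (P.lf 14975283 0 0) (P.cons (P.lf 1553559 0 0) (P.cons (P.lf 0 198819 0) (P.cons (P.lf 0 13653 0) P.nil)))) (P.cons (P.cons (P.lf 0 14788166 0) (P.cons (P.lf 0 1766242 0) (P.cons (P.lf 174226 0 0) P.nil))) (P.cons (P.cons (P.lf 0 258232 0) (P.cons (P.lf 108388 0 0) P.nil)) (P.cons (P.cons (P.lf 536619 0 0) P.nil) P.nil)))))) 331983)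
 (EL.cons 5 (TM.mk (P.cons (P.cons (P.lf 216186276 0 0) (P.cons (P.lf 40185802 0 0) (P.cons (P.lf 0 3307282 0) (P.cons (P.lf 0 825938 0) (P.cons (P.lf 0 1096 0) (P.cons (P.lf 4128 0 0) P.nil)))))) (P.cons (P.cons (P.lf 0 174327332 0) (P.cons (P.lf 0 29225570 0) (P.cons (P.lf 2553002 0 0) (P.cons (P.lf 562622 0 0) (P.cons (P.lf 710 0 0) P.nil))))) (P.cons (P.cons (P.lf 26628012 0 0) (P.cons (P.lf 5214360 0 0) (P.cons (P.lf 0 405154 0) (P.cons (P.lf 0 113346 0) P.nil)))) (P.cons (P.cons (P.lf 8309854 0 0) (P.cons (P.lf 598620 0 0) (P.cons (P.lf 0 81856 0) P.nil))) (P.cons (P.cons (P.lf 0 1945052 0) (P.cons (P.lf 0 272380 0) P.nil)) (P.cons (P.cons (P.lf 0 131210 0) P.nil) P.nil)))))) 233216)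
 EL.nil)))
noncomputable def S314_343_660_734_6 : EL := (EL.cons 12 (TM.mk (P.lf 8589934592 0 0) 0)
 (EL.cons 3 (TM.mk (P.cons (P.lf 2072840178 0 0) (P.cons (P.lf 339017325 0 0) (P.cons (P.lf 0 19911543 0) (P.cons (P.lf 0 509910 0) (P.cons (P.lf 91155 0 0) (P.cons (P.lf 0 1462 0) P.nil)))))) 487)
 (EL.cons 7 (TM.mk (P.cons (P.lf 0 1756127103 0) (P.cons (P.lf 142278485 0 0) (P.cons (P.lf 9042093 0 0) (P.cons (P.lf 0 848140 0) (P.cons (P.lf 0 2043 0) (P.cons (P.lf 3166 0 0) P.nil)))))) 195)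
 EL.nil)))
noncomputable def S314_343_660_734_7 : EL := (EL.cons 12 (TM.mk (P.cons (P.cons (P.lf 0 3332828036 0) (P.cons (P.lf 0 309761512 0) (P.cons (P.lf 39888328 0 0) (P.lf 2659216 0 0)))) (P.cons (P.cons (P.lf 1073735398 0 0) (P.cons (P.lf 75289080 0 0) (P.cons (P.lf 0 9695056 0) (P.lf 0 646336 0)))) (P.cons (P.cons (P.lf 135469918 0 0) (P.cons (P.lf 0 1315016 0) (P.cons (P.lf 169336 0 0) (P.lf 11288 0 0)))) (P.cons (P.cons (P.lf 0 19476136 0) (P.cons (P.lf 0 1059384 0) (P.cons (P.lf 136408 0 0) P.nil))) (P.cons (P.cons (P.lf 0 911594 0) (P.cons (P.lf 78408 0 0) P.nil)) (P.cons (P.cons (P.lf 219220 0 0) P.nil) P.nil)))))) 56018)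
 (EL.cons 3 (TM.mk (P.cons (P.cons (P.lf 2393838676 0 0) (P.cons (P.lf 149497320 0 0) (P.cons (P.lf 0 19250932 0) (P.lf 0 1283392 0)))) (P.cons (P.cons (P.lf 792012651 0 0) (P.cons (P.lf 0 11885470 0) (P.cons (P.lf 1530504 0 0) (P.lf 102030 0 0)))) (P.cons (P.cons (P.lf 0 141456130 0) (P.cons (P.lf 0 6744244 0) (P.cons (P.lf 868462 0 0) (P.lf 57896 0 0)))) (P.cons (P.cons (P.lf 0 8345183 0) (P.cons (P.lf 927344 0 0) (P.cons (P.lf 0 119408 0) P.nil))) (P.cons (P.cons (P.lf 3122884 0 0) (P.cons (P.lf 55194 0 0) P.nil)) (P.cons (P.cons (P.lf 0 75316 0) P.nil) P.nil)))))) 192404)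
 (EL.cons 7 (TM.mk (P.cons (P.cons (P.lf 2023532974 0 0) (P.cons (P.lf 157439034 0 0) (P.cons (P.lf 0 20273603 0) (P.lf 0 1351574 0)))) (P.cons (P.cons (P.lf 332391154 0 0) (P.cons (P.lf 0 4988086 0) (P.cons (P.lf 642323 0 0) (P.lf 42823 0 0)))) (P.cons (P.cons (P.lf 0 18719663 0) (P.cons (P.lf 0 3440385 0) (P.cons (P.lf 443021 0 0) (P.lf 29533 0 0)))) (P.cons (P.cons (P.lf 0 11480185 0) (P.cons (P.lf 0 97838 0) (P.cons (P.lf 12596 0 0) P.nil))) (P.cons (P.cons (P.lf 359787 0 0) (P.cons (P.lf 70605 0 0) P.nil)) (P.cons (P.cons (P.lf 160209 0 0) P.nil) P.nil)))))) 123269)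
 (EL.cons 10 (TM.mk (P.cons (P.cons (P.lf 0 1224874602 0) (P.cons (P.lf 349674018 0 0) (P.cons (P.lf 26155053 0 0) (P.cons (P.lf 0 1762467 0) (P.lf 0 88122 0))))) (P.cons (P.cons (P.lf 198474588 0 0) (P.cons (P.lf 0 56660007 0) (P.cons (P.lf 0 4238076 0) (P.cons (P.lf 285582 0 0) (P.lf 14277 0 0))))) (P.cons (P.cons (P.lf 4573428 0 0) (P.cons (P.lf 0 1305609 0) (P.cons (P.lf 0 97656 0) (P.cons (P.lf 6579 0 0) P.nil)))) (P.cons (P.cons (P.lf 0 2205051 0) (P.cons (P.lf 629493 0 0) (P.cons (P.lf 47085 0 0) P.nil))) (P.cons (P.cons (P.lf 60531 0 0) (P.cons (P.lf 0 17280 0) P.nil)) (P.cons (P.cons (P.lf 10737 0 0) P.nil) P.nil)))))) 9759)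
 EL.nil))))
noncomputable def S314_343_660_734_8 : EL := (EL.cons 12 (TM.mk (P.cons (P.cons (P.lf 1293111442 0 0) (P.cons (P.lf 240370130 0 0) (P.cons (P.lf 0 19782418 0) (P.cons (P.lf 0 4940334 0) (P.cons (P.lf 0 6560 0) (P.cons (P.lf 24696 0 0) P.nil)))))) (P.cons (P.cons (P.lf 0 833202022 0) (P.cons (P.lf 0 135863072 0) (P.cons (P.lf 12065238 0 0) (P.cons (P.lf 2564798 0 0) (P.cons (P.lf 3188 0 0) P.nil))))) (P.cons (P.cons (P.lf 29093564 0 0) (P.cons (P.lf 10072230 0 0) (P.cons (P.lf 0 542276 0) (P.cons (P.lf 0 280842 0) P.nil)))) (P.cons (P.cons (P.lf 48980456 0 0) (P.cons (P.lf 4272704 0 0) (P.cons (P.lf 0 496838 0) P.nil))) (P.cons (P.cons (P.lf 0 2025156 0) (P.cons (P.lf 0 642828 0) P.nil)) (P.cons (P.cons (P.lf 0 1012314 0) P.nil) P.nil)))))) 551416)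
 (EL.cons 3 (TM.mk (P.cons (P.cons (P.lf 0 2169622880 0) (P.cons (P.lf 0 346659768 0) (P.cons (P.lf 31162200 0 0) (P.cons (P.lf 6447011 0 0) (P.cons (P.lf 7916 0 0) (P.cons (P.lf 0 29796 0) P.nil)))))) (P.cons (P.cons (P.lf 133891841 0 0) (P.cons (P.lf 54737099 0 0) (P.cons (P.lf 0 2701263 0) (P.cons (P.lf 0 1589506 0) (P.cons (P.lf 0 2550 0) P.nil))))) (P.cons (P.cons (P.lf 412135811 0 0) (P.cons (P.lf 33819008 0 0) (P.cons (P.lf 0 4064546 0) (P.cons (P.lf 0 365105 0) P.nil)))) (P.cons (P.cons (P.lf 0 29584313 0) (P.cons (P.lf 0 7898437 0) (P.cons (P.lf 744148 0 0) P.nil))) (P.cons (P.cons (P.lf 0 14511069 0) (P.cons (P.lf 0 482187 0) P.nil)) (P.cons (P.cons (P.lf 1620009 0 0) P.nil) P.nil)))))) 1673796)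
 (EL.cons 7 (TM.mk (P.cons (P.cons (P.lf 0 1305866376 0) (P.cons (P.lf 0 218970141 0) (P.cons (P.lf 19125871 0 0) (P.cons (P.lf 4216000 0 0) (P.cons (P.lf 5325 0 0) (P.cons (P.lf 0 20054 0) P.nil)))))) (P.cons (P.cons (P.lf 56191612 0 0) (P.cons (P.lf 22972023 0 0) (P.cons (P.lf 0 1133668 0) (P.cons (P.lf 0 667088 0) (P.cons (P.lf 0 1066 0) P.nil))))) (P.cons (P.cons (P.lf 179836187 0 0) (P.cons (P.lf 17002266 0 0) (P.cons (P.lf 0 1844434 0) (P.cons (P.lf 0 234800 0) P.nil)))) (P.cons (P.cons (P.lf 16073108 0 0) (P.cons (P.lf 0 883065 0) (P.cons (P.lf 28381 0 0) P.nil))) (P.cons (P.cons (P.lf 0 7014314 0) (P.cons (P.lf 0 691214 0) P.nil)) (P.cons (P.cons (P.lf 0 501630 0) P.nil) P.nil)))))) 932119)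
 (EL.cons 10 (TM.mk (P.cons (P.cons (P.lf 950483700 0 0) (P.cons (P.lf 0 183001242 0) (P.cons (P.lf 0 56890776 0) (P.cons (P.lf 1970412 0 0) (P.cons (P.lf 654900 0 0) (P.cons (P.lf 6180 0 0) P.nil)))))) (P.cons (P.cons (P.lf 0 460230018 0) (P.cons (P.lf 95599320 0 0) (P.cons (P.lf 24651678 0 0) (P.cons (P.lf 0 906396 0) (P.cons (P.lf 0 270702 0) P.nil))))) (P.cons (P.cons (P.lf 7434996 0 0) (P.cons (P.lf 1401834 0 0) (P.cons (P.lf 0 1618722 0) (P.cons (P.lf 34746 0 0) P.nil)))) (P.cons (P.cons (P.lf 14668998 0 0) (P.cons (P.lf 0 3707106 0) (P.cons (P.lf 0 512298 0) P.nil))) (P.cons (P.cons (P.lf 0 1094010 0) (P.cons (P.lf 196578 0 0) P.nil)) (P.cons (P.cons (P.lf 0 188130 0) P.nil) P.nil)))))) 353994)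
 EL.nil))))
noncomputable def S314_343_660_734_9 : EL := (EL.cons 3 (TM.mk (P.cons (P.lf 2072840178 0 0) (P.cons (P.lf 339017325 0 0) (P.cons (P.lf 0 19911543 0) (P.cons (P.lf 0 509910 0) (P.cons (P.lf 91155 0 0) (P.cons (P.lf 0 1462 0) P.nil)))))) 487)
 (EL.cons 7 (TM.mk (P.cons (P.lf 0 1756127103 0) (P.cons (P.lf 142278485 0 0) (P.cons (P.lf 9042093 0 0) (P.cons (P.lf 0 848140 0) (P.cons (P.lf 0 2043 0) (P.cons (P.lf 3166 0 0) P.nil)))))) 195)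
 EL.nil))
noncomputable def S314_343_660_734_10 : EL := (EL.cons 3 (TM.mk (P.cons (P.cons (P.lf 0 804245921 0) (P.cons (P.lf 0 74748660 0) (P.cons (P.lf 9625466 0 0) (P.lf 641696 0 0)))) (P.cons (P.cons (P.lf 127567377 0 0) (P.cons (P.lf 5942735 0 0) (P.cons (P.lf 0 765252 0) (P.lf 0 51015 0)))) (P.cons (P.cons (P.lf 82792730 0 0) (P.cons (P.lf 3372122 0 0) (P.cons (P.lf 0 434231 0) (P.lf 0 28948 0)))) (P.cons (P.cons (P.lf 0 1644314 0) (P.cons (P.lf 0 463672 0) (P.cons (P.lf 59704 0 0) P.nil))) (P.cons (P.cons (P.lf 0 1401764 0) (P.cons (P.lf 0 27597 0) P.nil)) (P.cons (P.cons (P.lf 65987 0 0) P.nil) P.nil)))))) 46735)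
 (EL.cons 7 (TM.mk (P.cons (P.cons (P.lf 681363703 0 0) (P.cons (P.lf 63327675 0 0) (P.cons (P.lf 0 8154773 0) (P.lf 0 543650 0)))) (P.cons (P.cons (P.lf 0 274717523 0) (P.cons (P.lf 0 20522809 0) (P.cons (P.lf 2642744 0 0) (P.lf 176182 0 0)))) (P.cons (P.cons (P.lf 0 13419041 0) (P.cons (P.lf 1189818 0 0) (P.cons (P.lf 0 153214 0) (P.lf 0 10214 0)))) (P.cons (P.cons (P.lf 7684871 0 0) (P.cons (P.lf 304636 0 0) (P.cons (P.lf 0 39226 0) P.nil))) (P.cons (P.cons (P.lf 0 98847 0) (P.cons (P.lf 0 42321 0) P.nil)) (P.cons (P.cons (P.lf 0 95277 0) P.nil) P.nil)))))) 27631)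
 EL.nil))
noncomputable def S314_343_660_734_11 : EL := (EL.cons 3 (TM.mk (P.cons (P.cons (P.lf 312041182 0 0) (P.cons (P.lf 58003800 0 0) (P.cons (P.lf 0 4773702 0) (P.cons (P.lf 0 1192153 0) (P.cons (P.lf 0 1582 0) (P.cons (P.lf 5958 0 0) P.nil)))))) (P.cons (P.cons (P.lf 0 150025291 0) (P.cons (P.lf 0 23298523 0) (P.cons (P.lf 2130717 0 0) (P.cons (P.lf 423932 0 0) (P.cons (P.lf 510 0 0) P.nil))))) (P.cons (P.cons (P.lf 0 28860691 0) (P.cons (P.lf 0 3488728 0) (P.cons (P.lf 391174 0 0) (P.cons (P.lf 44905 0 0) P.nil)))) (P.cons (P.cons (P.lf 14822329 0 0) (P.cons (P.lf 1729229 0 0) (P.cons (P.lf 0 168086 0) P.nil))) (P.cons (P.cons (P.lf 1440153 0 0) (P.cons (P.lf 777 0 0) P.nil)) (P.cons (P.cons (P.lf 0 448533 0) P.nil) P.nil)))))) 289310)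
 (EL.cons 7 (TM.mk (P.cons (P.cons (P.lf 0 264363834 0) (P.cons (P.lf 0 49141293 0) (P.cons (P.lf 4044319 0 0) (P.cons (P.lf 1010002 0 0) (P.cons (P.lf 1341 0 0) (P.cons (P.lf 0 5048 0) P.nil)))))) (P.cons (P.cons (P.lf 191758222 0 0) (P.cons (P.lf 31757205 0 0) (P.cons (P.lf 0 2794282 0) (P.cons (P.lf 0 606176 0) (P.cons (P.lf 0 760 0) P.nil))))) (P.cons (P.cons (P.lf 0 18387367 0) (P.cons (P.lf 0 4056498 0) (P.cons (P.lf 289880 0 0) (P.cons (P.lf 94696 0 0) P.nil)))) (P.cons (P.cons (P.lf 0 10536418 0) (P.cons (P.lf 0 873429 0) (P.cons (P.lf 107245 0 0) P.nil))) (P.cons (P.cons (P.lf 1337890 0 0) (P.cons (P.lf 226150 0 0) P.nil)) (P.cons (P.cons (P.lf 222774 0 0) P.nil) P.nil)))))) 185079)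
 EL.nil))
noncomputable def S314_343_660_734_12 : EL := (EL.cons 4 (TM.mk (P.cons (P.lf 0 2072840178 0) (P.cons (P.lf 0 339017325 0) (P.cons (P.lf 19911543 0 0) (P.cons (P.lf 509910 0 0) (P.cons (P.lf 0 91155 0) (P.cons (P.lf 1462 0 0) P.nil)))))) 487)
 (EL.cons 8 (TM.mk (P.cons (P.lf 1756127103 0 0) (P.cons (P.lf 0 142278485 0) (P.cons (P.lf 0 9042093 0) (P.cons (P.lf 848140 0 0) (P.cons (P.lf 2043 0 0) (P.cons (P.lf 0 3166 0) P.nil)))))) 195)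
 EL.nil))
noncomputable def S314_343_660_734_13 : EL := (EL.cons 4 (TM.mk (P.cons (P.cons (P.lf 804245921 0 0) (P.cons (P.lf 74748660 0 0) (P.cons (P.lf 0 9625466 0) (P.lf 0 641696 0)))) (P.cons (P.cons (P.lf 0 127567377 0) (P.cons (P.lf 0 5942735 0) (P.cons (P.lf 765252 0 0) (P.lf 51015 0 0)))) (P.cons (P.cons (P.lf 0 82792730 0) (P.cons (P.lf 0 3372122 0) (P.cons (P.lf 434231 0 0) (P.lf 28948 0 0)))) (P.cons (P.cons (P.lf 1644314 0 0) (P.cons (P.lf 463672 0 0) (P.cons (P.lf 0 59704 0) P.nil))) (P.cons (P.cons (P.lf 1401764 0 0) (P.cons (P.lf 27597 0 0) P.nil)) (P.cons (P.cons (P.lf 0 65987 0) P.nil) P.nil)))))) 46735)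
 (EL.cons 8 (TM.mk (P.cons (P.cons (P.lf 0 681363703 0) (P.cons (P.lf 0 63327675 0) (P.cons (P.lf 8154773 0 0) (P.lf 543650 0 0)))) (P.cons (P.cons (P.lf 274717523 0 0) (P.cons (P.lf 20522809 0 0) (P.cons (P.lf 0 2642744 0) (P.lf 0 176182 0)))) (P.cons (P.cons (P.lf 13419041 0 0) (P.cons (P.lf 0 1189818 0) (P.cons (P.lf 153214 0 0) (P.lf 10214 0 0)))) (P.cons (P.cons (P.lf 0 7684871 0) (P.cons (P.lf 0 304636 0) (P.cons (P.lf 39226 0 0) P.nil))) (P.cons (P.cons (P.lf 98847 0 0) (P.cons (P.lf 42321 0 0) P.nil)) (P.cons (P.cons (P.lf 95277 0 0) P.nil) P.nil)))))) 27631)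
 EL.nil))
noncomputable def S314_343_660_734_14 : EL := (EL.cons 4 (TM.mk (P.cons (P.cons (P.lf 0 312041182 0) (P.cons (P.lf 0 58003800 0) (P.cons (P.lf 4773702 0 0) (P.cons (P.lf 1192153 0 0) (P.cons (P.lf 1582 0 0) (P.cons (P.lf 0 5958 0) P.nil)))))) (P.cons (P.cons (P.lf 150025291 0 0) (P.cons (P.lf 23298523 0 0) (P.cons (P.lf 0 2130717 0) (P.cons (P.lf 0 423932 0) (P.cons (P.lf 0 510 0) P.nil))))) (P.cons (P.cons (P.lf 28860691 0 0) (P.cons (P.lf 3488728 0 0) (P.cons (P.lf 0 391174 0) (P.cons (P.lf 0 44905 0) P.nil)))) (P.cons (P.cons (P.lf 0 14822329 0) (P.cons (P.lf 0 1729229 0) (P.cons (P.lf 168086 0 0) P.nil))) (P.cons (P.cons (P.lf 0 1440153 0) (P.cons (P.lf 0 777 0) P.nil)) (P.cons (P.cons (P.lf 448533 0 0) P.nil) P.nil)))))) 289310)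
 (EL.cons 8 (TM.mk (P.cons (P.cons (P.lf 264363834 0 0) (P.cons (P.lf 49141293 0 0) (P.cons (P.lf 0 4044319 0) (P.cons (P.lf 0 1010002 0) (P.cons (P.lf 0 1341 0) (P.cons (P.lf 5048 0 0) P.nil)))))) (P.cons (P.cons (P.lf 0 191758222 0) (P.cons (P.lf 0 31757205 0) (P.cons (P.lf 2794282 0 0) (P.cons (P.lf 606176 0 0) (P.cons (P.lf 760 0 0) P.nil))))) (P.cons (P.cons (P.lf 18387367 0 0) (P.cons (P.lf 4056498 0 0) (P.cons (P.lf 0 289880 0) (P.cons (P.lf 0 94696 0) P.nil)))) (P.cons (P.cons (P.lf 10536418 0 0) (P.cons (P.lf 873429 0 0) (P.cons (P.lf 0 107245 0) P.nil))) (P.cons (P.cons (P.lf 0 1337890 0) (P.cons (P.lf 0 226150 0) P.nil)) (P.cons (P.cons (P.lf 0 222774 0) P.nil) P.nil)))))) 185079)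
 EL.nil))
noncomputable def S314_343_660_734_15 : EL := (EL.cons 4 (TM.mk (P.cons (P.lf 0 1067088645 0) (P.cons (P.lf 0 349049136 0) (P.cons (P.lf 0 8043112 0) (P.cons (P.lf 3877937 0 0) (P.cons (P.lf 0 106451 0) (P.cons (P.lf 0 18886 0) P.nil)))))) 1845)
 (EL.cons 8 (TM.mk (P.cons (P.lf 904046202 0 0) (P.cons (P.lf 74614324 0 0) (P.cons (P.lf 0 25318286 0) (P.cons (P.lf 156499 0 0) (P.cons (P.lf 174949 0 0) (P.cons (P.lf 0 8365 0) P.nil)))))) 1031)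
 EL.nil))
noncomputable def S314_343_660_734_16 : EL := (EL.cons 4 (TM.mk (P.cons (P.cons (P.lf 414022122 0 0) (P.cons (P.lf 38480268 0 0) (P.cons (P.lf 0 4955145 0) (P.lf 0 330342 0)))) (P.cons (P.cons (P.lf 2043076 0 0) (P.cons (P.lf 3234234 0 0) (P.cons (P.lf 0 416475 0) (P.lf 0 27764 0)))) (P.cons (P.cons (P.lf 0 57339029 0) (P.cons (P.lf 0 2605945 0) (P.cons (P.lf 335569 0 0) (P.lf 22370 0 0)))) (P.cons (P.cons (P.lf 0 5595335 0) (P.cons (P.lf 0 25300 0) (P.cons (P.lf 3258 0 0) P.nil))) (P.cons (P.cons (P.lf 1303844 0 0) (P.cons (P.lf 72366 0 0) P.nil)) (P.cons (P.cons (P.lf 83225 0 0) P.nil) P.nil)))))) 55195)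
 (EL.cons 8 (TM.mk (P.cons (P.cons (P.lf 0 350762918 0) (P.cons (P.lf 0 32600797 0) (P.cons (P.lf 4198040 0 0) (P.lf 279868 0 0)))) (P.cons (P.cons (P.lf 84055319 0 0) (P.cons (P.lf 5233120 0 0) (P.cons (P.lf 0 673874 0) (P.lf 0 44924 0)))) (P.cons (P.cons (P.lf 33407541 0 0) (P.cons (P.lf 1428583 0 0) (P.cons (P.lf 0 183959 0) (P.lf 0 12263 0)))) (P.cons (P.cons (P.lf 0 4098524 0) (P.cons (P.lf 0 350470 0) (P.cons (P.lf 45129 0 0) P.nil))) (P.cons (P.cons (P.lf 0 712720 0) (P.cons (P.lf 0 2010 0) P.nil)) (P.cons (P.cons (P.lf 100140 0 0) P.nil) P.nil)))))) 36525)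
 EL.nil))
noncomputable def S314_343_660_734_17 : EL := (EL.cons 4 (TM.mk (P.cons (P.cons (P.lf 0 160637373 0) (P.cons (P.lf 0 29860091 0) (P.cons (P.lf 2457480 0 0) (P.cons (P.lf 613714 0 0) (P.cons (P.lf 814 0 0) (P.cons (P.lf 0 3067 0) P.nil)))))) (P.cons (P.cons (P.lf 50959756 0 0) (P.cons (P.lf 7110292 0 0) (P.cons (P.lf 0 694957 0) (P.cons (P.lf 0 117864 0) (P.cons (P.lf 0 129 0) P.nil))))) (P.cons (P.cons (P.lf 29031930 0 0) (P.cons (P.lf 4044454 0 0) (P.cons (P.lf 0 404378 0) (P.cons (P.lf 0 64705 0) P.nil)))) (P.cons (P.cons (P.lf 0 5902888 0) (P.cons (P.lf 0 704330 0) (P.cons (P.lf 63526 0 0) P.nil))) (P.cons (P.cons (P.lf 0 2158144 0) (P.cons (P.lf 0 167509 0) P.nil)) (P.cons (P.cons (P.lf 182800 0 0) P.nil) P.nil)))))) 249428)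
 (EL.cons 8 (TM.mk (P.cons (P.cons (P.lf 136093293 0 0) (P.cons (P.lf 25297713 0 0) (P.cons (P.lf 0 2081997 0) (P.cons (P.lf 0 519944 0) (P.cons (P.lf 0 690 0) (P.cons (P.lf 2598 0 0) P.nil)))))) (P.cons (P.cons (P.lf 0 76457914 0) (P.cons (P.lf 0 12210970 0) (P.cons (P.lf 1097968 0 0) (P.cons (P.lf 227018 0 0) (P.cons (P.lf 278 0 0) P.nil))))) (P.cons (P.cons (P.lf 0 7986818 0) (P.cons (P.lf 0 828565 0) (P.cons (P.lf 106037 0 0) (P.cons (P.lf 7282 0 0) P.nil)))) (P.cons (P.cons (P.lf 7887022 0 0) (P.cons (P.lf 941996 0 0) (P.cons (P.lf 0 92921 0) P.nil))) (P.cons (P.cons (P.lf 137724 0 0) (P.cons (P.lf 0 57807 0) P.nil)) (P.cons (P.cons (P.lf 0 286197 0) P.nil) P.nil)))))) 177046)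
 EL.nil))
noncomputable def S314_343_660_734_18 : EL := (EL.cons 4 (TM.mk (P.cons (P.lf 0 549332354 0) (P.cons (P.lf 0 269533349 0) (P.cons (P.lf 0 28252205 0) (P.cons (P.lf 3180359 0 0) (P.cons (P.lf 331524 0 0) (P.cons (P.lf 0 44357 0) P.nil)))))) 4415)
 (EL.cons 8 (TM.mk (P.cons (P.lf 465398850 0 0) (P.cons (P.lf 114528063 0 0) (P.cons (P.lf 0 11222106 0) (P.cons (P.lf 0 2534590 0) (P.cons (P.lf 239457 0 0) (P.cons (P.lf 14216 0 0) P.nil)))))) 3029)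
 EL.nil))
noncomputable def S314_343_660_734_19 : EL := (EL.cons 4 (TM.mk (P.cons (P.cons (P.lf 213136695 0 0) (P.cons (P.lf 19809465 0 0) (P.cons (P.lf 0 2550885 0) (P.lf 0 170057 0)))) (P.cons (P.cons (P.lf 35910716 0 0) (P.cons (P.lf 4904848 0 0) (P.cons (P.lf 0 631602 0) (P.lf 0 42105 0)))) (P.cons (P.cons (P.lf 0 31393226 0) (P.cons (P.lf 0 1259507 0) (P.cons (P.lf 162187 0 0) (P.lf 10812 0 0)))) (P.cons (P.cons (P.lf 0 7770695 0) (P.cons (P.lf 0 253300 0) (P.cons (P.lf 32618 0 0) P.nil))) (P.cons (P.cons (P.lf 492769 0 0) (P.cons (P.lf 48471 0 0) P.nil)) (P.cons (P.cons (P.lf 187448 0 0) P.nil) P.nil)))))) 65927)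
 (EL.cons 8 (TM.mk (P.cons (P.cons (P.lf 0 180571146 0) (P.cons (P.lf 0 16782741 0) (P.cons (P.lf 2161131 0 0) (P.lf 144075 0 0)))) (P.cons (P.cons (P.lf 13738507 0 0) (P.cons (P.lf 0 50865 0) (P.cons (P.lf 6550 0 0) (P.lf 436 0 0)))) (P.cons (P.cons (P.lf 26009712 0 0) (P.cons (P.lf 1337248 0 0) (P.cons (P.lf 0 172198 0) (P.lf 0 11479 0)))) (P.cons (P.cons (P.lf 331634 0 0) (P.cons (P.lf 0 81889 0) (P.cons (P.lf 10544 0 0) P.nil))) (P.cons (P.cons (P.lf 0 895772 0) (P.cons (P.lf 0 39008 0) P.nil)) (P.cons (P.cons (P.lf 9610 0 0) P.nil) P.nil)))))) 39215)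
 EL.nil))
noncomputable def S314_343_660_734_20 : EL := (EL.cons 4 (TM.mk (P.cons (P.cons (P.lf 0 82695385 0) (P.cons (P.lf 0 15371837 0) (P.cons (P.lf 1265099 0 0) (P.cons (P.lf 315937 0 0) (P.cons (P.lf 419 0 0) (P.cons (P.lf 0 1578 0) P.nil)))))) (P.cons (P.cons (P.lf 12708847 0 0) (P.cons (P.lf 1146249 0 0) (P.cons (P.lf 0 150851 0) (P.cons (P.lf 0 9003 0) (P.cons (P.lf 1 0 0) P.nil))))) (P.cons (P.cons (P.lf 20030471 0 0) (P.cons (P.lf 2828384 0 0) (P.cons (P.lf 0 278836 0) (P.cons (P.lf 0 46268 0) P.nil)))) (P.cons (P.cons (P.lf 0 826068 0) (P.cons (P.lf 0 53439 0) (P.cons (P.lf 1781 0 0) P.nil))) (P.cons (P.cons (P.lf 0 1761657 0) (P.cons (P.lf 0 167111 0) P.nil)) (P.cons (P.cons (P.lf 0 60875 0) P.nil) P.nil)))))) 222294)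
 (EL.cons 8 (TM.mk (P.cons (P.cons (P.lf 70060204 0 0) (P.cons (P.lf 13023146 0 0) (P.cons (P.lf 0 1071802 0) (P.cons (P.lf 0 267664 0) (P.cons (P.lf 0 355 0) (P.cons (P.lf 1337 0 0) P.nil)))))) (P.cons (P.cons (P.lf 0 27901692 0) (P.cons (P.lf 0 4156188 0) (P.cons (P.lf 389933 0 0) (P.cons (P.lf 73090 0 0) (P.cons (P.lf 85 0 0) P.nil))))) (P.cons (P.cons (P.lf 0 11222010 0) (P.cons (P.lf 0 1579754 0) (P.cons (P.lf 157327 0 0) (P.cons (P.lf 25433 0 0) P.nil)))) (P.cons (P.cons (P.lf 3748602 0 0) (P.cons (P.lf 472354 0 0) (P.cons (P.lf 0 44073 0) P.nil))) (P.cons (P.cons (P.lf 787213 0 0) (P.cons (P.lf 55769 0 0) P.nil)) (P.cons (P.cons (P.lf 0 175507 0) P.nil) P.nil)))))) 147263)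
 EL.nil))
noncomputable def S314_343_660_734_21 : EL := (EL.cons 4 (TM.mk (P.cons (P.cons (P.lf 0 3198084597 0) (P.cons (P.lf 0 224245980 0) (P.cons (P.lf 28876398 0 0) (P.lf 1925088 0 0)))) (P.cons (P.cons (P.lf 0 664445274 0) (P.cons (P.lf 17828205 0 0) (P.cons (P.lf 0 2295756 0) (P.lf 0 153045 0)))) (P.cons (P.cons (P.lf 224248860 0 0) (P.cons (P.lf 10116366 0 0) (P.cons (P.lf 0 1302693 0) (P.lf 0 86844 0)))) (P.cons (P.cons (P.lf 6700869 0 0) (P.cons (P.lf 0 1391016 0) (P.cons (P.lf 179112 0 0) P.nil))) (P.cons (P.cons (P.lf 0 4524648 0) (P.cons (P.lf 0 82791 0) P.nil)) (P.cons (P.cons (P.lf 141303 0 0) P.nil) P.nil)))))) 145650)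
 (EL.cons 8 (TM.mk (P.cons (P.cons (P.lf 0 1342169271 0) (P.cons (P.lf 0 94111359 0) (P.cons (P.lf 12118830 0 0) (P.lf 807924 0 0)))) (P.cons (P.cons (P.lf 0 607108677 0) (P.cons (P.lf 0 15534723 0) (P.cons (P.lf 2000421 0 0) (P.lf 133359 0 0)))) (P.cons (P.cons (P.lf 5300622 0 0) (P.cons (P.lf 4630203 0 0) (P.cons (P.lf 0 596235 0) (P.lf 0 39747 0)))) (P.cons (P.cons (P.lf 19165056 0 0) (P.cons (P.lf 402474 0 0) (P.cons (P.lf 0 51822 0) P.nil))) (P.cons (P.cons (P.lf 0 458634 0) (P.cons (P.lf 0 112926 0) P.nil)) (P.cons (P.cons (P.lf 0 255486 0) P.nil) P.nil)))))) 95619)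
 (EL.cons 11 (TM.mk (P.cons (P.cons (P.lf 1224874602 0 0) (P.cons (P.lf 0 349674018 0) (P.cons (P.lf 0 26155053 0) (P.cons (P.lf 1762467 0 0) (P.lf 88122 0 0))))) (P.cons (P.cons (P.lf 0 198474588 0) (P.cons (P.lf 56660007 0 0) (P.cons (P.lf 4238076 0 0) (P.cons (P.lf 0 285582 0) (P.lf 0 14277 0))))) (P.cons (P.cons (P.lf 0 4573428 0) (P.cons (P.lf 1305609 0 0) (P.cons (P.lf 97656 0 0) (P.cons (P.lf 0 6579 0) P.nil)))) (P.cons (P.cons (P.lf 2205051 0 0) (P.cons (P.lf 0 629493 0) (P.cons (P.lf 0 47085 0) P.nil))) (P.cons (P.cons (P.lf 0 60531 0) (P.cons (P.lf 17280 0 0) P.nil)) (P.cons (P.cons (P.lf 0 10737 0) P.nil) P.nil)))))) 9759)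
 EL.nil)))
noncomputable def S314_343_660_734_22 : EL := (EL.cons 4 (TM.mk (P.cons (P.cons (P.lf 1240832031 0 0) (P.cons (P.lf 202331784 0 0) (P.cons (P.lf 0 17967951 0) (P.cons (P.lf 0 3819582 0) (P.cons (P.lf 0 4749 0) (P.cons (P.lf 17877 0 0) P.nil)))))) (P.cons (P.cons (P.lf 0 141958566 0) (P.cons (P.lf 0 39017811 0) (P.cons (P.lf 2415990 0 0) (P.cons (P.lf 1006719 0 0) (P.cons (P.lf 1530 0 0) P.nil))))) (P.cons (P.cons (P.lf 0 220498251 0) (P.cons (P.lf 0 18653868 0) (P.cons (P.lf 2227860 0 0) (P.cons (P.lf 205005 0 0) P.nil)))) (P.cons (P.cons (P.lf 22203321 0 0) (P.cons (P.lf 4813833 0 0) (P.cons (P.lf 0 456117 0) P.nil))) (P.cons (P.cons (P.lf 7975611 0 0) (P.cons (P.lf 241482 0 0) P.nil)) (P.cons (P.cons (P.lf 0 1034271 0) P.nil) P.nil)))))) 692232)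
 (EL.cons 8 (TM.mk (P.cons (P.cons (P.lf 520751271 0 0) (P.cons (P.lf 84914424 0 0) (P.cons (P.lf 0 7540776 0) (P.cons (P.lf 0 1602999 0) (P.cons (P.lf 0 1992 0) (P.cons (P.lf 7503 0 0) P.nil)))))) (P.cons (P.cons (P.lf 67783305 0 0) (P.cons (P.lf 4392591 0 0) (P.cons (P.lf 0 830307 0) (P.cons (P.lf 30456 0 0) (P.cons (P.lf 153 0 0) P.nil))))) (P.cons (P.cons (P.lf 0 99111777 0) (P.cons (P.lf 0 10529382 0) (P.cons (P.lf 1067157 0 0) (P.cons (P.lf 164748 0 0) P.nil)))) (P.cons (P.cons (P.lf 0 13304763 0) (P.cons (P.lf 4818 0 0) (P.cons (P.lf 39432 0 0) P.nil))) (P.cons (P.cons (P.lf 4176102 0 0) (P.cons (P.lf 458682 0 0) P.nil)) (P.cons (P.cons (P.lf 362202 0 0) P.nil) P.nil)))))) 373509)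
 (EL.cons 11 (TM.mk (P.cons (P.cons (P.lf 0 475241850 0) (P.cons (P.lf 91500621 0 0) (P.cons (P.lf 28445388 0 0) (P.cons (P.lf 0 985206 0) (P.cons (P.lf 0 327450 0) (P.cons (P.lf 0 3090 0) P.nil)))))) (P.cons (P.cons (P.lf 230115009 0 0) (P.cons (P.lf 0 47799660 0) (P.cons (P.lf 0 12325839 0) (P.cons (P.lf 453198 0 0) (P.cons (P.lf 135351 0 0) P.nil))))) (P.cons (P.cons (P.lf 0 3717498 0) (P.cons (P.lf 0 700917 0) (P.cons (P.lf 809361 0 0) (P.cons (P.lf 0 17373 0) P.nil)))) (P.cons (P.cons (P.lf 0 7334499 0) (P.cons (P.lf 1853553 0 0) (P.cons (P.lf 256149 0 0) P.nil))) (P.cons (P.cons (P.lf 547005 0 0) (P.cons (P.lf 0 98289 0) P.nil)) (P.cons (P.cons (P.lf 94065 0 0) P.nil) P.nil)))))) 176997)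
 EL.nil)))
noncomputable def S314_343_660_734_23 : EL := (EL.cons 4 (TM.mk (P.cons (P.cons (P.lf 0 1646359326 0) (P.cons (P.lf 0 115440804 0) (P.cons (P.lf 14865435 0 0) (P.lf 991026 0 0)))) (P.cons (P.cons (P.lf 0 611318880 0) (P.cons (P.lf 0 9702705 0) (P.cons (P.lf 1249428 0 0) (P.lf 83295 0 0)))) (P.cons (P.cons (P.lf 75313545 0 0) (P.cons (P.lf 7817835 0 0) (P.cons (P.lf 0 1006707 0) (P.lf 0 67110 0)))) (P.cons (P.cons (P.lf 26021139 0 0) (P.cons (P.lf 75903 0 0) (P.cons (P.lf 0 9777 0) P.nil))) (P.cons (P.cons (P.lf 0 2862267 0) (P.cons (P.lf 0 217098 0) P.nil)) (P.cons (P.cons (P.lf 0 383628 0) P.nil) P.nil)))))) 179580)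
 (EL.cons 8 (TM.mk (P.cons (P.cons (P.lf 0 690942603 0) (P.cons (P.lf 0 48448095 0) (P.cons (P.lf 6238716 0 0) (P.lf 415914 0 0)))) (P.cons (P.cons (P.lf 0 425541870 0) (P.cons (P.lf 0 15920991 0) (P.cons (P.lf 2050161 0 0) (P.lf 136674 0 0)))) (P.cons (P.cons (P.lf 0 41750160 0) (P.cons (P.lf 1541034 0 0) (P.cons (P.lf 0 198438 0) (P.lf 0 13227 0)))) (P.cons (P.cons (P.lf 13484544 0 0) (P.cons (P.lf 685773 0 0) (P.cons (P.lf 0 88305 0) P.nil))) (P.cons (P.cons (P.lf 1397799 0 0) (P.cons (P.lf 0 47307 0) P.nil)) (P.cons (P.cons (P.lf 0 278838 0) P.nil) P.nil)))))) 112239)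
 (EL.cons 11 (TM.mk (P.cons (P.cons (P.lf 630559842 0 0) (P.cons (P.lf 0 180010584 0) (P.cons (P.lf 0 13464501 0) (P.cons (P.lf 907308 0 0) (P.lf 45363 0 0))))) (P.cons (P.cons (P.lf 955563 0 0) (P.cons (P.lf 0 272793 0) (P.cons (P.lf 0 20403 0) (P.cons (P.lf 1374 0 0) (P.lf 69 0 0))))) (P.cons (P.cons (P.lf 0 25122228 0) (P.cons (P.lf 7171827 0 0) (P.cons (P.lf 536439 0 0) (P.cons (P.lf 0 36147 0) P.nil)))) (P.cons (P.cons (P.lf 1576443 0 0) (P.cons (P.lf 0 450039 0) (P.cons (P.lf 0 33660 0) P.nil))) (P.cons (P.cons (P.lf 229974 0 0) (P.cons (P.lf 0 65652 0) P.nil)) (P.cons (P.cons (P.lf 0 25884 0) P.nil) P.nil)))))) 24297)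
 EL.nil)))
noncomputable def S314_343_660_734_24 : EL := (EL.cons 4 (TM.mk (P.cons (P.cons (P.lf 638774655 0 0) (P.cons (P.lf 104159475 0 0) (P.cons (P.lf 0 9249819 0) (P.cons (P.lf 0 1966302 0) (P.cons (P.lf 0 2445 0) (P.cons (P.lf 9201 0 0) P.nil)))))) (P.cons (P.cons (P.lf 31393302 0 0) (P.cons (P.lf 0 3050691 0) (P.cons (P.lf 0 269085 0) (P.cons (P.lf 196659 0 0) (P.cons (P.lf 387 0 0) P.nil))))) (P.cons (P.cons (P.lf 0 131599833 0) (P.cons (P.lf 0 13888611 0) (P.cons (P.lf 1439160 0 0) (P.cons (P.lf 209184 0 0) P.nil)))) (P.cons (P.cons (P.lf 0 6590010 0) (P.cons (P.lf 1074882 0 0) (P.cons (P.lf 0 56901 0) P.nil))) (P.cons (P.cons (P.lf 7111686 0 0) (P.cons (P.lf 631383 0 0) P.nil)) (P.cons (P.cons (P.lf 53535 0 0) P.nil) P.nil)))))) 582864)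
 (EL.cons 8 (TM.mk (P.cons (P.cons (P.lf 268080372 0 0) (P.cons (P.lf 43713555 0 0) (P.cons (P.lf 0 3881955 0) (P.cons (P.lf 0 825216 0) (P.cons (P.lf 0 1026 0) (P.cons (P.lf 3861 0 0) P.nil)))))) (P.cons (P.cons (P.lf 78739638 0 0) (P.cons (P.lf 9410727 0 0) (P.cons (P.lf 0 1062339 0) (P.cons (P.lf 0 119286 0) (P.cons (P.lf 0 87 0) P.nil))))) (P.cons (P.cons (P.lf 0 47890374 0) (P.cons (P.lf 0 5470548 0) (P.cons (P.lf 516747 0 0) (P.cons (P.lf 95301 0 0) P.nil)))) (P.cons (P.cons (P.lf 0 15595173 0) (P.cons (P.lf 0 916524 0) (P.cons (P.lf 115209 0 0) P.nil))) (P.cons (P.cons (P.lf 1522953 0 0) (P.cons (P.lf 289965 0 0) P.nil)) (P.cons (P.cons (P.lf 617760 0 0) P.nil) P.nil)))))) 240348)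
 (EL.cons 11 (TM.mk (P.cons (P.cons (P.lf 0 244652331 0) (P.cons (P.lf 47104101 0 0) (P.cons (P.lf 14643555 0 0) (P.cons (P.lf 0 507180 0) (P.cons (P.lf 0 168570 0) (P.cons (P.lf 0 1590 0) P.nil)))))) (P.cons (P.cons (P.lf 78448755 0 0) (P.cons (P.lf 0 16903071 0) (P.cons (P.lf 0 3950301 0) (P.cons (P.lf 150354 0 0) (P.cons (P.lf 42108 0 0) P.nil))))) (P.cons (P.cons (P.lf 19811091 0 0) (P.cons (P.lf 0 4837842 0) (P.cons (P.lf 0 761793 0) (P.cons (P.lf 34083 0 0) P.nil)))) (P.cons (P.cons (P.lf 0 5166519 0) (P.cons (P.lf 1119972 0 0) (P.cons (P.lf 257358 0 0) P.nil))) (P.cons (P.cons (P.lf 0 357453 0) (P.cons (P.lf 117051 0 0) P.nil)) (P.cons (P.cons (P.lf 136602 0 0) P.nil) P.nil)))))) 163743)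
 EL.nil)))
noncomputable def S314_343_660_734_25 : EL := (EL.cons 4 (TM.mk (P.cons (P.cons (P.lf 0 847538250 0) (P.cons (P.lf 0 59428398 0) (P.cons (P.lf 7652658 0 0) (P.lf 510174 0 0)))) (P.cons (P.cons (P.lf 0 453320808 0) (P.cons (P.lf 0 14714544 0) (P.cons (P.lf 1894806 0 0) (P.lf 126321 0 0)))) (P.cons (P.cons (P.lf 0 4558062 0) (P.cons (P.lf 3778521 0 0) (P.cons (P.lf 0 486561 0) (P.lf 0 32436 0)))) (P.cons (P.cons (P.lf 22968165 0 0) (P.cons (P.lf 759903 0 0) (P.cons (P.lf 0 97854 0) P.nil))) (P.cons (P.cons (P.lf 385101 0 0) (P.cons (P.lf 0 145413 0) P.nil)) (P.cons (P.cons (P.lf 0 589935 0) P.nil) P.nil)))))) 153240)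
 (EL.cons 8 (TM.mk (P.cons (P.cons (P.lf 0 355694091 0) (P.cons (P.lf 0 24940857 0) (P.cons (P.lf 3211662 0 0) (P.lf 214110 0 0)))) (P.cons (P.cons (P.lf 0 277241517 0) (P.cons (P.lf 0 12275181 0) (P.cons (P.lf 1580688 0 0) (P.lf 105378 0 0)))) (P.cons (P.cons (P.lf 0 53904885 0) (P.cons (P.lf 0 307581 0) (P.cons (P.lf 39606 0 0) (P.lf 2640 0 0)))) (P.cons (P.cons (P.lf 5618430 0 0) (P.cons (P.lf 567648 0 0) (P.cons (P.lf 0 73095 0) P.nil))) (P.cons (P.cons (P.lf 2099628 0 0) (P.cons (P.lf 26682 0 0) P.nil)) (P.cons (P.cons (P.lf 0 96633 0) P.nil) P.nil)))))) 111708)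
 (EL.cons 11 (TM.mk (P.cons (P.cons (P.lf 324609324 0 0) (P.cons (P.lf 0 92668626 0) (P.cons (P.lf 0 6931461 0) (P.cons (P.lf 467079 0 0) (P.lf 23352 0 0))))) (P.cons (P.cons (P.lf 53582448 0 0) (P.cons (P.lf 0 15296577 0) (P.cons (P.lf 0 1144158 0) (P.cons (P.lf 77100 0 0) (P.lf 3855 0 0))))) (P.cons (P.cons (P.lf 0 15970524 0) (P.cons (P.lf 4559223 0 0) (P.cons (P.lf 341022 0 0) (P.cons (P.lf 0 22977 0) P.nil)))) (P.cons (P.cons (P.lf 0 1388217 0) (P.cons (P.lf 396303 0 0) (P.cons (P.lf 29640 0 0) P.nil))) (P.cons (P.cons (P.lf 389505 0 0) (P.cons (P.lf 0 111195 0) P.nil)) (P.cons (P.cons (P.lf 1212 0 0) P.nil) P.nil)))))) 31206)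
 EL.nil)))
noncomputable def S314_343_660_734_26 : EL := (EL.cons 4 (TM.mk (P.cons (P.cons (P.lf 328838271 0 0) (P.cons (P.lf 53620821 0 0) (P.cons (P.lf 0 4761762 0) (P.cons (P.lf 0 1012242 0) (P.cons (P.lf 0 1257 0) (P.cons (P.lf 4737 0 0) P.nil)))))) (P.cons (P.cons (P.lf 69943311 0 0) (P.cons (P.lf 7199313 0 0) (P.cons (P.lf 0 917319 0) (P.cons (P.lf 0 64311 0) (P.cons (P.lf 0 3 0) P.nil))))) (P.cons (P.cons (P.lf 0 68262600 0) (P.cons (P.lf 0 7921725 0) (P.cons (P.lf 763959 0 0) (P.cons (P.lf 133968 0 0) P.nil)))) (P.cons (P.cons (P.lf 0 14708802 0) (P.cons (P.lf 0 614121 0) (P.cons (P.lf 94377 0 0) P.nil))) (P.cons (P.cons (P.lf 3767469 0 0) (P.cons (P.lf 486957 0 0) P.nil)) (P.cons (P.cons (P.lf 676065 0 0) P.nil) P.nil)))))) 456006)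
 (EL.cons 8 (TM.mk (P.cons (P.cons (P.lf 138006549 0 0) (P.cons (P.lf 22503537 0 0) (P.cons (P.lf 0 1998414 0) (P.cons (P.lf 0 424818 0) (P.cons (P.lf 0 528 0) (P.cons (P.lf 1986 0 0) P.nil)))))) (P.cons (P.cons (P.lf 63106062 0 0) (P.cons (P.lf 8525100 0 0) (P.cons (P.lf 0 873732 0) (P.cons (P.lf 0 130887 0) (P.cons (P.lf 0 129 0) P.nil))))) (P.cons (P.cons (P.lf 0 19349874 0) (P.cons (P.lf 0 2240034 0) (P.cons (P.lf 195771 0 0) (P.cons (P.lf 43098 0 0) P.nil)))) (P.cons (P.cons (P.lf 0 12483819 0) (P.cons (P.lf 0 984492 0) (P.cons (P.lf 108561 0 0) P.nil))) (P.cons (P.cons (P.lf 0 296118 0) (P.cons (P.lf 98955 0 0) P.nil)) (P.cons (P.cons (P.lf 531114 0 0) P.nil) P.nil)))))) 203427)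
 (EL.cons 11 (TM.mk (P.cons (P.cons (P.lf 0 125945901 0) (P.cons (P.lf 24248976 0 0) (P.cons (P.lf 7538436 0 0) (P.cons (P.lf 0 261093 0) (P.cons (P.lf 0 86778 0) (P.cons (P.lf 0 819 0) P.nil)))))) (P.cons (P.cons (P.lf 19786347 0 0) (P.cons (P.lf 0 4735653 0) (P.cons (P.lf 0 800670 0) (P.cons (P.lf 34698 0 0) (P.cons (P.lf 7482 0 0) P.nil))))) (P.cons (P.cons (P.lf 18013545 0 0) (P.cons (P.lf 0 4146600 0) (P.cons (P.lf 0 797178 0) (P.cons (P.lf 32712 0 0) P.nil)))) (P.cons (P.cons (P.lf 0 1348641 0) (P.cons (P.lf 246852 0 0) (P.cons (P.lf 86025 0 0) P.nil))) (P.cons (P.cons (P.lf 0 732453 0) (P.cons (P.lf 181683 0 0) P.nil)) (P.cons (P.cons (P.lf 65130 0 0) P.nil) P.nil)))))) 142698)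
 EL.nil)))
noncomputable def S314_343_660_734_27 : EL := (EL.cons 13 (TM.mk (P.lf 0 4294967296 0) 0)
 EL.nil)
noncomputable def S314_343_660_734_28 : EL := (EL.cons 13 (TM.mk (P.cons (P.cons (P.lf 1666414018 0 0) (P.cons (P.lf 154880756 0 0) (P.cons (P.lf 0 19944164 0) (P.lf 0 1329608 0)))) (P.cons (P.cons (P.lf 0 536867699 0) (P.cons (P.lf 0 37644540 0) (P.cons (P.lf 4847528 0 0) (P.lf 323168 0 0)))) (P.cons (P.cons (P.lf 0 67734959 0) (P.cons (P.lf 657508 0 0) (P.cons (P.lf 0 84668 0) (P.lf 0 5644 0)))) (P.cons (P.cons (P.lf 9738068 0 0) (P.cons (P.lf 529692 0 0) (P.cons (P.lf 0 68204 0) P.nil))) (P.cons (P.cons (P.lf 455797 0 0) (P.cons (P.lf 0 39204 0) P.nil)) (P.cons (P.cons (P.lf 0 109610 0) P.nil) P.nil)))))) 28009)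
 EL.nil)
noncomputable def S314_343_660_734_29 : EL := (EL.cons 13 (TM.mk (P.cons (P.cons (P.lf 0 646555721 0) (P.cons (P.lf 0 120185065 0) (P.cons (P.lf 9891209 0 0) (P.cons (P.lf 2470167 0 0) (P.cons (P.lf 3280 0 0) (P.cons (P.lf 0 12348 0) P.nil)))))) (P.cons (P.cons (P.lf 416601011 0 0) (P.cons (P.lf 67931536 0 0) (P.cons (P.lf 0 6032619 0) (P.cons (P.lf 0 1282399 0) (P.cons (P.lf 0 1594 0) P.nil))))) (P.cons (P.cons (P.lf 0 14546782 0) (P.cons (P.lf 0 5036115 0) (P.cons (P.lf 271138 0 0) (P.cons (P.lf 140421 0 0) P.nil)))) (P.cons (P.cons (P.lf 0 24490228 0) (P.cons (P.lf 0 2136352 0) (P.cons (P.lf 248419 0 0) P.nil))) (P.cons (P.cons (P.lf 1012578 0 0) (P.cons (P.lf 321414 0 0) P.nil)) (P.cons (P.cons (P.lf 506157 0 0) P.nil) P.nil)))))) 275708)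
 EL.nil)
noncomputable def S314_343_660_734_30 : EL := (EL.cons 13 (TM.mk (P.cons (P.lf 0 2211029524 0) (P.cons (P.lf 0 361618480 0) (P.cons (P.lf 21238980 0 0) (P.cons (P.lf 543904 0 0) (P.cons (P.lf 0 97232 0) (P.cons (P.lf 1560 0 0) P.nil)))))) 512)
 EL.nil)
noncomputable def S314_343_660_734_31 : EL := (EL.cons 13 (TM.mk (P.cons (P.cons (P.lf 857862316 0 0) (P.cons (P.lf 79731904 0 0) (P.cons (P.lf 0 10267164 0) (P.lf 0 684476 0)))) (P.cons (P.cons (P.lf 0 136071869 0) (P.cons (P.lf 0 6338918 0) (P.cons (P.lf 816269 0 0) (P.lf 54417 0 0)))) (P.cons (P.cons (P.lf 0 88312246 0) (P.cons (P.lf 0 3596931 0) (P.cons (P.lf 463180 0 0) (P.lf 30878 0 0)))) (P.cons (P.cons (P.lf 1753935 0 0) (P.cons (P.lf 494584 0 0) (P.cons (P.lf 0 63685 0) P.nil))) (P.cons (P.cons (P.lf 1495215 0 0) (P.cons (P.lf 29437 0 0) P.nil)) (P.cons (P.cons (P.lf 0 70387 0) P.nil) P.nil)))))) 49831)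
 EL.nil)
noncomputable def S314_343_660_734_32 : EL := (EL.cons 13 (TM.mk (P.cons (P.cons (P.lf 0 332843928 0) (P.cons (P.lf 0 61870721 0) (P.cons (P.lf 5091949 0 0) (P.cons (P.lf 1271630 0 0) (P.cons (P.lf 1688 0 0) (P.cons (P.lf 0 6356 0) P.nil)))))) (P.cons (P.cons (P.lf 160026978 0 0) (P.cons (P.lf 24851758 0 0) (P.cons (P.lf 0 2272765 0) (P.cons (P.lf 0 452195 0) (P.cons (P.lf 0 544 0) P.nil))))) (P.cons (P.cons (P.lf 30784738 0 0) (P.cons (P.lf 3721310 0 0) (P.cons (P.lf 0 417253 0) (P.cons (P.lf 0 47899 0) P.nil)))) (P.cons (P.cons (P.lf 0 15810485 0) (P.cons (P.lf 0 1844511 0) (P.cons (P.lf 179292 0 0) P.nil))) (P.cons (P.cons (P.lf 0 1536164 0) (P.cons (P.lf 0 829 0) P.nil)) (P.cons (P.cons (P.lf 478436 0 0) P.nil) P.nil)))))) 308574)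
 EL.nil)
noncomputable def S314_343_660_734_33 : EL := (EL.cons 14 (TM.mk (P.lf 8589934592 0 0) 0)
 EL.nil)
noncomputable def S314_343_660_734_34 : EL := (EL.cons 14 (TM.mk (P.cons (P.cons (P.lf 0 3332828036 0) (P.cons (P.lf 0 309761512 0) (P.cons (P.lf 39888328 0 0) (P.lf 2659216 0 0)))) (P.cons (P.cons (P.lf 1073735398 0 0) (P.cons (P.lf 75289080 0 0) (P.cons (P.lf 0 9695056 0) (P.lf 0 646336 0)))) (P.cons (P.cons (P.lf 135469918 0 0) (P.cons (P.lf 0 1315016 0) (P.cons (P.lf 169336 0 0) (P.lf 11288 0 0)))) (P.cons (P.cons (P.lf 0 19476136 0) (P.cons (P.lf 0 1059384 0) (P.cons (P.lf 136408 0 0) P.nil))) (P.cons (P.cons (P.lf 0 911594 0) (P.cons (P.lf 78408 0 0) P.nil)) (P.cons (P.cons (P.lf 219220 0 0) P.nil) P.nil)))))) 56018)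
 EL.nil)
noncomputable def S314_343_660_734_35 : EL := (EL.cons 14 (TM.mk (P.cons (P.cons (P.lf 1293111442 0 0) (P.cons (P.lf 240370130 0 0) (P.cons (P.lf 0 19782418 0) (P.cons (P.lf 0 4940334 0) (P.cons (P.lf 0 6560 0) (P.cons (P.lf 24696 0 0) P.nil)))))) (P.cons (P.cons (P.lf 0 833202022 0) (P.cons (P.lf 0 135863072 0) (P.cons (P.lf 12065238 0 0) (P.cons (P.lf 2564798 0 0) (P.cons (P.lf 3188 0 0) P.nil))))) (P.cons (P.cons (P.lf 29093564 0 0) (P.cons (P.lf 10072230 0 0) (P.cons (P.lf 0 542276 0) (P.cons (P.lf 0 280842 0) P.nil)))) (P.cons (P.cons (P.lf 48980456 0 0) (P.cons (P.lf 4272704 0 0) (P.cons (P.lf 0 496838 0) P.nil))) (P.cons (P.cons (P.lf 0 2025156 0) (P.cons (P.lf 0 642828 0) P.nil)) (P.cons (P.cons (P.lf 0 1012314 0) P.nil) P.nil)))))) 551416)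
 EL.nil)
noncomputable def S314_343_660_734_36 : EL := (EL.cons 14 (TM.mk (P.cons (P.lf 4422059048 0 0) (P.cons (P.lf 723236960 0 0) (P.cons (P.lf 0 42477960 0) (P.cons (P.lf 0 1087808 0) (P.cons (P.lf 194464 0 0) (P.cons (P.lf 0 3120 0) P.nil)))))) 1024)
 EL.nil)
noncomputable def S314_343_660_734_37 : EL := (EL.cons 14 (TM.mk (P.cons (P.cons (P.lf 0 1715724632 0) (P.cons (P.lf 0 159463808 0) (P.cons (P.lf 20534328 0 0) (P.lf 1368952 0 0)))) (P.cons (P.cons (P.lf 272143738 0 0) (P.cons (P.lf 12677836 0 0) (P.cons (P.lf 0 1632538 0) (P.lf 0 108834 0)))) (P.cons (P.cons (P.lf 176624492 0 0) (P.cons (P.lf 7193862 0 0) (P.cons (P.lf 0 926360 0) (P.lf 0 61756 0)))) (P.cons (P.cons (P.lf 0 3507870 0) (P.cons (P.lf 0 989168 0) (P.cons (P.lf 127370 0 0) P.nil))) (P.cons (P.cons (P.lf 0 2990430 0) (P.cons (P.lf 0 58874 0) P.nil)) (P.cons (P.cons (P.lf 140774 0 0) P.nil) P.nil))))))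 99662)
 EL.nil)
noncomputable def S314_343_660_734_38 : EL := (EL.cons 14 (TM.mk (P.cons (P.cons (P.lf 665687856 0 0) (P.cons (P.lf 123741442 0 0) (P.cons (P.lf 0 10183898 0) (P.cons (P.lf 0 2543260 0) (P.cons (P.lf 0 3376 0) (P.cons (P.lf 12712 0 0) P.nil)))))) (P.cons (P.cons (P.lf 0 320053956 0) (P.cons (P.lf 0 49703516 0) (P.cons (P.lf 4545530 0 0) (P.cons (P.lf 904390 0 0) (P.cons (P.lf 1088 0 0) P.nil))))) (P.cons (P.cons (P.lf 0 61569476 0) (P.cons (P.lf 0 7442620 0) (P.cons (P.lf 834506 0 0) (P.cons (P.lf 95798 0 0) P.nil)))) (P.cons (P.cons (P.lf 31620970 0 0) (P.cons (P.lf 3689022 0 0) (P.cons (P.lf 0 358584 0) P.nil))) (P.cons (P.cons (P.lf 3072328 0 0) (P.cons (P.lf 1658 0 0) P.nil)) (P.cons (P.cons (P.lf 0 956872 0) P.nil) P.nil)))))) 617148)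
 EL.nil)
noncomputable def S314_343_660_734_39 : EL := (EL.cons 14 (TM.mk (P.cons (P.lf 2276455776 0 0) (P.cons (P.lf 744638158 0 0) (P.cons (P.lf 17158640 0 0) (P.cons (P.lf 0 8272934 0) (P.cons (P.lf 227096 0 0) (P.cons (P.lf 40292 0 0) P.nil)))))) 3922)
 EL.nil)
noncomputable def S314_343_660_734_40 : EL := (EL.cons 14 (TM.mk (P.cons (P.cons (P.lf 0 883247194 0) (P.cons (P.lf 0 82091240 0) (P.cons (P.lf 10570978 0 0) (P.lf 704730 0 0)))) (P.cons (P.cons (P.lf 0 4358564 0) (P.cons (P.lf 0 6899700 0) (P.cons (P.lf 888482 0 0) (P.lf 59230 0 0)))) (P.cons (P.cons (P.lf 122323262 0 0) (P.cons (P.lf 5559350 0 0) (P.cons (P.lf 0 715882 0) (P.lf 0 47724 0)))) (P.cons (P.cons (P.lf 11936716 0 0) (P.cons (P.lf 53974 0 0) (P.cons (P.lf 0 6952 0) P.nil))) (P.cons (P.cons (P.lf 0 2781534 0) (P.cons (P.lf 0 154382 0) P.nil)) (P.cons (P.cons (P.lf 0 177548 0) P.nil) P.nil)))))) 117710)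
 EL.nil)
noncomputable def S314_343_660_734_41 : EL := (EL.cons 14 (TM.mk (P.cons (P.cons (P.lf 342693064 0 0) (P.cons (P.lf 63701528 0 0) (P.cons (P.lf 0 5242624 0) (P.cons (P.lf 0 1309258 0) (P.cons (P.lf 0 1738 0) (P.cons (P.lf 6544 0 0) P.nil)))))) (P.cons (P.cons (P.lf 0 108714148 0) (P.cons (P.lf 0 15168624 0) (P.cons (P.lf 1482576 0 0) (P.cons (P.lf 251444 0 0) (P.cons (P.lf 276 0 0) P.nil))))) (P.cons (P.cons (P.lf 0 61934786 0) (P.cons (P.lf 0 8628170 0) (P.cons (P.lf 862674 0 0) (P.cons (P.lf 138038 0 0) P.nil)))) (P.cons (P.cons (P.lf 12592828 0 0) (P.cons (P.lf 1502572 0 0) (P.cons (P.lf 0 135524 0) P.nil))) (P.cons (P.cons (P.lf 4604042 0 0) (P.cons (P.lf 357354 0 0) P.nil)) (P.cons (P.cons (P.lf 0 389974 0) P.nil) P.nil)))))) 532068)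
 EL.nil)
noncomputable def S314_343_660_734_42 : EL := (EL.cons 14 (TM.mk (P.cons (P.lf 1171909022 0 0) (P.cons (P.lf 575004478 0 0) (P.cons (P.lf 60271372 0 0) (P.cons (P.lf 0 6784766 0) (P.cons (P.lf 0 707252 0) (P.cons (P.lf 94630 0 0) P.nil)))))) 9404)
 EL.nil)
noncomputable def S314_343_660_734_43 : EL := (EL.cons 14 (TM.mk (P.cons (P.cons (P.lf 0 454691616 0) (P.cons (P.lf 0 42260194 0) (P.cons (P.lf 5441890 0 0) (P.lf 362790 0 0)))) (P.cons (P.cons (P.lf 0 76609528 0) (P.cons (P.lf 0 10463676 0) (P.cons (P.lf 1347418 0 0) (P.lf 89826 0 0)))) (P.cons (P.cons (P.lf 66972216 0 0) (P.cons (P.lf 2686950 0 0) (P.cons (P.lf 0 346000 0) (P.lf 0 23066 0)))) (P.cons (P.cons (P.lf 16577484 0 0) (P.cons (P.lf 540374 0 0) (P.cons (P.lf 0 69586 0) P.nil))) (P.cons (P.cons (P.lf 0 1051242 0) (P.cons (P.lf 0 103406 0) P.nil)) (P.cons (P.cons (P.lf 0 399890 0) P.nil) P.nil)))))) 140604)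
 EL.nil)
noncomputable def S314_343_660_734_44 : EL := (EL.cons 14 (TM.mk (P.cons (P.cons (P.lf 176416822 0 0) (P.cons (P.lf 32793254 0 0) (P.cons (P.lf 0 2698878 0) (P.cons (P.lf 0 674000 0) (P.cons (P.lf 0 894 0) (P.cons (P.lf 3368 0 0) P.nil)))))) (P.cons (P.cons (P.lf 0 27112208 0) (P.cons (P.lf 0 2445332 0) (P.cons (P.lf 321816 0 0) (P.cons (P.lf 19208 0 0) (P.cons (P.lf 0 4 0) P.nil))))) (P.cons (P.cons (P.lf 0 42731672 0) (P.cons (P.lf 0 6033886 0) (P.cons (P.lf 594852 0 0) (P.cons (P.lf 98706 0 0) P.nil)))) (P.cons (P.cons (P.lf 1762280 0 0) (P.cons (P.lf 114004 0 0) (P.cons (P.lf 0 3800 0) P.nil))) (P.cons (P.cons (P.lf 3758202 0 0) (P.cons (P.lf 356504 0 0) P.nil)) (P.cons (P.cons (P.lf 129868 0 0) P.nil) P.nil)))))) 474182)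
 EL.nil)
noncomputable def S314_343_660_734_45 : EL := (EL.cons 14 (TM.mk (P.cons (P.cons (P.lf 0 501717214 0) (P.cons (P.lf 0 139892620 0) (P.cons (P.lf 5012148 0 0) (P.cons (P.lf 4146682 0 0) (P.cons (P.lf 163248 0 0) (P.cons (P.lf 0 38410 0) P.nil)))))) (P.cons (P.cons (P.lf 484913888 0 0) (P.cons (P.lf 124139858 0 0) (P.cons (P.lf 0 5476394 0) (P.cons (P.lf 0 3478558 0) (P.cons (P.lf 0 119638 0) P.nil))))) (P.cons (P.cons (P.lf 0 95044338 0) (P.cons (P.lf 0 25649860 0) (P.cons (P.lf 916720 0 0) (P.cons (P.lf 758232 0 0) P.nil)))) (P.cons (P.cons (P.lf 0 31439502 0) (P.cons (P.lf 0 4629624 0) (P.cons (P.lf 484192 0 0) P.nil))) (P.cons (P.cons (P.lf 9118998 0 0) (P.cons (P.lf 1837320 0 0) P.nil)) (P.cons (P.cons (P.lf 967544 0 0) P.nil) P.nil)))))) 1578724)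
 EL.nil)
noncomputable def S314_343_660_734_46 : EL := (EL.cons 15 (TM.mk (P.lf 4294967296 0 0) 0)
 EL.nil)
noncomputable def S314_343_660_734_47 : EL := (EL.cons 15 (TM.mk (P.cons (P.cons (P.lf 0 1666414018 0) (P.cons (P.lf 0 154880756 0) (P.cons (P.lf 19944164 0 0) (P.lf 1329608 0 0)))) (P.cons (P.cons (P.lf 536867699 0 0) (P.cons (P.lf 37644540 0 0) (P.cons (P.lf 0 4847528 0) (P.lf 0 323168 0)))) (P.cons (P.cons (P.lf 67734959 0 0) (P.cons (P.lf 0 657508 0) (P.cons (P.lf 84668 0 0) (P.lf 5644 0 0)))) (P.cons (P.cons (P.lf 0 9738068 0) (P.cons (P.lf 0 529692 0) (P.cons (P.lf 68204 0 0) P.nil))) (P.cons (P.cons (P.lf 0 455797 0) (P.cons (P.lf 39204 0 0) P.nil)) (P.cons (P.cons (P.lf 109610 0 0) P.nil) P.nil)))))) 28009)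
 EL.nil)
noncomputable def S314_343_660_734_48 : EL := (EL.cons 15 (TM.mk (P.cons (P.cons (P.lf 646555721 0 0) (P.cons (P.lf 120185065 0 0) (P.cons (P.lf 0 9891209 0) (P.cons (P.lf 0 2470167 0) (P.cons (P.lf 0 3280 0) (P.cons (P.lf 12348 0 0) P.nil)))))) (P.cons (P.cons (P.lf 0 416601011 0) (P.cons (P.lf 0 67931536 0) (P.cons (P.lf 6032619 0 0) (P.cons (P.lf 1282399 0 0) (P.cons (P.lf 1594 0 0) P.nil))))) (P.cons (P.cons (P.lf 14546782 0 0) (P.cons (P.lf 5036115 0 0) (P.cons (P.lf 0 271138 0) (P.cons (P.lf 0 140421 0) P.nil)))) (P.cons (P.cons (P.lf 24490228 0 0) (P.cons (P.lf 2136352 0 0) (P.cons (P.lf 0 248419 0) P.nil))) (P.cons (P.cons (P.lf 0 1012578 0) (P.cons (P.lf 0 321414 0) P.nil)) (P.cons (P.cons (P.lf 0 506157 0) P.nil) P.nil)))))) 275708)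
 EL.nil)
noncomputable def S314_343_660_734 : SL := (SL.cons S314_343_660_734_0 (SL.cons S314_343_660_734_1 (SL.cons S314_343_660_734_2 (SL.cons S314_343_660_734_3 (SL.cons S314_343_660_734_4 (SL.cons S314_343_660_734_5 (SL.cons S314_343_660_734_6 (SL.cons S314_343_660_734_7 (SL.cons S314_343_660_734_8 (SL.cons S314_343_660_734_9 (SL.cons S314_343_660_734_10 (SL.cons S314_343_660_734_11 (SL.cons S314_343_660_734_12 (SL.cons S314_343_660_734_13 (SL.cons S314_343_660_734_14 (SL.cons S314_343_660_734_15 (SL.cons S314_343_660_734_16 (SL.cons S314_343_660_734_17 (SL.cons S314_343_660_734_18 (SL.cons S314_343_660_734_19 (SL.cons S314_343_660_734_20 (SL.cons S314_343_660_734_21 (SL.cons S314_343_660_734_22 (SL.cons S314_343_660_734_23 (SL.cons S314_343_660_734_24 (SL.cons S314_343_660_734_25 (SL.cons S314_343_660_734_26 (SL.cons S314_343_660_734_27 (SL.cons S314_343_660_734_28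 (SL.cons S314_343_660_734_29 (SL.cons S314_343_660_734_30 (SL.cons S314_343_660_734_31 (SL.cons S314_343_660_734_32 (SL.cons S314_343_660_734_33 (SL.cons S314_343_660_734_34 (SL.cons S314_343_660_734_35 (SL.cons S314_343_660_734_36 (SL.cons S314_343_660_734_37 (SL.cons S314_343_660_734_38 (SL.cons S314_343_660_734_39 (SL.cons S314_343_660_734_40 (SL.cons S314_343_660_734_41 (SL.cons S314_343_660_734_42 (SL.cons S314_343_660_734_43 (SL.cons S314_343_660_734_44 (SL.cons S314_343_660_734_45 (SL.cons S314_343_660_734_46 (SL.cons S314_343_660_734_47 (SL.cons S314_343_660_734_48 SL.nil)))))))))))))))))))))))))))))))))))))))))))))))))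
noncomputable def S314_343_660_808_0 : EL := (EL.cons 0 (TM.mk (P.cons (P.lf 6454925654 0 0) (P.cons (P.lf 0 654467131 0) (P.cons (P.lf 0 15080835 0) (P.cons (P.lf 7271133 0 0) (P.cons (P.lf 0 199596 0) (P.cons (P.lf 0 35412 0) P.nil)))))) 3454)
 (EL.cons 1 (TM.mk (P.cons (P.lf 1695086628 0 0) (P.cons (P.lf 139901857 0 0) (P.cons (P.lf 0 47471786 0) (P.cons (P.lf 293435 0 0) (P.cons (P.lf 328029 0 0) (P.cons (P.lf 0 15684 0) P.nil)))))) 1940)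
 (EL.cons 5 (TM.mk (P.cons (P.lf 5006359730 0 0) (P.cons (P.lf 232699422 0 0) (P.cons (P.lf 5362070 0 0) (P.cons (P.lf 0 2585292 0) (P.cons (P.lf 70970 0 0) (P.cons (P.lf 12590 0 0) P.nil)))))) 1169)
 (EL.cons 9 (TM.mk (P.lf 6442450944 0 0) 2)
 EL.nil))))
noncomputable def S314_343_660_808_1 : EL := (EL.cons 0 (TM.mk (P.cons (P.cons (P.lf 568384717 0 0) (P.cons (P.lf 0 23392452 0) (P.cons (P.lf 10087093 0 0) (P.lf 1120792 0 0)))) (P.cons (P.cons (P.lf 2291869785 0 0) (P.cons (P.lf 141003468 0 0) (P.cons (P.lf 0 60802287 0) (P.lf 0 6755803 0)))) (P.cons (P.cons (P.lf 0 133347067 0) (P.cons (P.lf 0 29870851 0) (P.cons (P.lf 12880643 0 0) (P.lf 1431177 0 0)))) (P.cons (P.cons (P.lf 0 79515991 0) (P.cons (P.lf 0 1766795 0) (P.cons (P.lf 761861 0 0) P.nil))) (P.cons (P.cons (P.lf 7448894 0 0) (P.cons (P.lf 888606 0 0) P.nil)) (P.cons (P.cons (P.lf 1071724 0 0) P.nil) P.nil))))))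 1352539)
 (EL.cons 1 (TM.mk (P.cons (P.cons (P.lf 0 1410199921 0) (P.cons (P.lf 0 153942398 0) (P.cons (P.lf 66381697 0 0) (P.lf 7375736 0 0)))) (P.cons (P.cons (P.lf 424849635 0 0) (P.cons (P.lf 56556766 0 0) (P.cons (P.lf 0 24387910 0) (P.lf 0 2709761 0)))) (P.cons (P.cons (P.lf 226745028 0 0) (P.cons (P.lf 7527905 0 0) (P.cons (P.lf 0 3246122 0) (P.lf 0 360675 0)))) (P.cons (P.cons (P.lf 0 26219762 0) (P.cons (P.lf 0 3276390 0) (P.cons (P.lf 1412810 0 0) P.nil))) (P.cons (P.cons (P.lf 0 5293506 0) (P.cons (P.lf 50061 0 0) P.nil)) (P.cons (P.cons (P.lf 724278 0 0) P.nil) P.nil)))))) 746028)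
 (EL.cons 5 (TM.mk (P.cons (P.cons (P.lf 0 3262128053 0) (P.cons (P.lf 0 369094900 0) (P.cons (P.lf 159157882 0 0) (P.lf 17684204 0 0)))) (P.cons (P.cons (P.lf 152993596 0 0) (P.cons (P.lf 41597360 0 0) (P.cons (P.lf 0 17937252 0) (P.lf 0 1993036 0)))) (P.cons (P.cons (P.lf 161597494 0 0) (P.cons (P.lf 9018528 0 0) (P.cons (P.lf 0 3888894 0) (P.lf 0 432092 0)))) (P.cons (P.cons (P.lf 10940834 0 0) (P.cons (P.lf 0 662554 0) (P.cons (P.lf 285704 0 0) P.nil))) (P.cons (P.cons (P.lf 0 3365855 0) (P.cons (P.lf 0 220412 0) P.nil)) (P.cons (P.cons (P.lf 0 190655 0) P.nil) P.nil)))))) 627680)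
 (EL.cons 9 (TM.mk (P.cons (P.cons (P.lf 0 2700031497 0) (P.cons (P.lf 0 333010770 0) (P.cons (P.lf 143598000 0 0) (P.lf 15955326 0 0)))) (P.cons (P.cons (P.lf 854012314 0 0) (P.cons (P.lf 80939928 0 0) (P.cons (P.lf 0 34902210 0) (P.lf 0 3878022 0)))) (P.cons (P.cons (P.lf 100751644 0 0) (P.cons (P.lf 0 1413720 0) (P.cons (P.lf 609606 0 0) (P.lf 67734 0 0)))) (P.cons (P.cons (P.lf 0 15292506 0) (P.cons (P.lf 0 1138890 0) (P.cons (P.lf 491100 0 0) P.nil))) (P.cons (P.cons (P.lf 0 632959 0) (P.cons (P.lf 84294 0 0) P.nil)) (P.cons (P.cons (P.lf 167985 0 0) P.nil) P.nil)))))) 134576)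
 (EL.cons 2 (TM.mk (P.cons (P.cons (P.lf 0 410660091 0) (P.cons (P.lf 382567865 0 0) (P.cons (P.lf 39263906 0 0) (P.cons (P.lf 0 8165798 0) (P.lf 0 680481 0))))) (P.cons (P.cons (P.lf 0 622321 0) (P.cons (P.lf 579751 0 0) (P.cons (P.lf 59501 0 0) (P.cons (P.lf 0 12375 0) (P.lf 0 1032 0))))) (P.cons (P.cons (P.lf 16361167 0 0) (P.cons (P.lf 0 15241941 0) (P.cons (P.lf 0 1564318 0) (P.cons (P.lf 325333 0 0) P.nil)))) (P.cons (P.cons (P.lf 0 1026677 0) (P.cons (P.lf 956446 0 0) (P.cons (P.lf 98161 0 0) P.nil))) (P.cons (P.cons (P.lf 0 149774 0) (P.cons (P.lf 139528 0 0) P.nil)) (P.cons (P.cons (P.lf 16858 0 0) P.nil) P.nil)))))) 108690)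
 (EL.cons 6 (TM.mk (P.cons (P.cons (P.lf 347914578 0 0) (P.cons (P.lf 0 324114615 0) (P.cons (P.lf 0 33264702 0) (P.cons (P.lf 6918132 0 0) (P.lf 576510 0 0))))) (P.cons (P.cons (P.lf 0 84562371 0) (P.cons (P.lf 78777672 0 0) (P.cons (P.lf 8085150 0 0) (P.cons (P.lf 0 1681485 0) (P.lf 0 140121 0))))) (P.cons (P.cons (P.lf 1476987 0 0) (P.cons (P.lf 0 1375950 0) (P.cons (P.lf 0 141216 0) (P.cons (P.lf 29367 0 0) P.nil)))) (P.cons (P.cons (P.lf 1189866 0 0) (P.cons (P.lf 0 1108470 0) (P.cons (P.lf 0 113763 0) P.nil))) (P.cons (P.cons (P.lf 0 88068 0) (P.cons (P.lf 82044 0 0) P.nil)) (P.cons (P.cons (P.lf 0 6201 0) P.nil) P.nil)))))) 62133)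
 EL.nil))))))
noncomputable def S314_343_660_808_2 : EL := (EL.cons 0 (TM.mk (P.cons (P.cons (P.lf 0 1610194569 0) (P.cons (P.lf 0 318822282 0) (P.cons (P.lf 122651393 0 0) (P.cons (P.lf 28063833 0 0) (P.cons (P.lf 0 1336308 0) (P.cons (P.lf 0 612716 0) P.nil)))))) (P.cons (P.cons (P.lf 0 938182059 0) (P.cons (P.lf 0 162252994 0) (P.cons (P.lf 64933011 0 0) (P.cons (P.lf 12113912 0 0) (P.cons (P.lf 0 453510 0) P.nil))))) (P.cons (P.cons (P.lf 638286483 0 0) (P.cons (P.lf 105353653 0 0) (P.cons (P.lf 0 40763399 0) (P.cons (P.lf 0 9072045 0) P.nil)))) (P.cons (P.cons (P.lf 60645324 0 0) (P.cons (P.lf 0 2393936 0) (P.cons (P.lf 407512 0 0) P.nil))) (P.cons (P.cons (P.lf 0 35609956 0) (P.cons (P.lf 0 4890086 0) P.nil)) (P.cons (P.cons (P.lf 0 563526 0) P.nil) P.nil)))))) 11746077)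
 (EL.cons 1 (TM.mk (P.cons (P.cons (P.lf 884296472 0 0) (P.cons (P.lf 201378829 0 0) (P.cons (P.lf 0 75451266 0) (P.cons (P.lf 0 19467674 0) (P.cons (P.lf 1026042 0 0) (P.cons (P.lf 470456 0 0) P.nil)))))) (P.cons (P.cons (P.lf 0 566210330 0) (P.cons (P.lf 0 132555660 0) (P.cons (P.lf 49272334 0 0) (P.cons (P.lf 13153103 0 0) (P.cons (P.lf 0 710769 0) P.nil))))) (P.cons (P.cons (P.lf 0 105212488 0) (P.cons (P.lf 0 6047337 0) (P.cons (P.lf 3320652 0 0) (P.cons (P.lf 0 325134 0) P.nil)))) (P.cons (P.cons (P.lf 85723724 0 0) (P.cons (P.lf 13298680 0 0) (P.cons (P.lf 0 5286390 0) P.nil))) (P.cons (P.cons (P.lf 2678863 0 0) (P.cons (P.lf 0 1136932 0) P.nil)) (P.cons (P.cons (P.lf 0 3485541 0) P.nil) P.nil)))))) 6233481)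
 (EL.cons 5 (TM.mk (P.cons (P.cons (P.lf 1854974735 0 0) (P.cons (P.lf 429705980 0 0) (P.cons (P.lf 0 160513294 0) (P.cons (P.lf 0 41959719 0) (P.cons (P.lf 2233194 0 0) (P.cons (P.lf 1023947 0 0) P.nil)))))) (P.cons (P.cons (P.lf 0 477701800 0) (P.cons (P.lf 0 119259397 0) (P.cons (P.lf 43732006 0 0) (P.cons (P.lf 12349462 0 0) (P.cons (P.lf 0 693356 0) P.nil))))) (P.cons (P.cons (P.lf 0 194353939 0) (P.cons (P.lf 0 23600586 0) (P.cons (P.lf 9835820 0 0) (P.cons (P.lf 1424840 0 0) P.nil)))) (P.cons (P.cons (P.lf 23237328 0 0) (P.cons (P.lf 6169167 0 0) (P.cons (P.lf 0 2344901 0) P.nil))) (P.cons (P.cons (P.lf 10453379 0 0) (P.cons (P.lf 904961 0 0) P.nil)) (P.cons (P.cons (P.lf 0 691501 0) P.nil) P.nil)))))) 6166811)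
 (EL.cons 9 (TM.mk (P.cons (P.cons (P.lf 1131583327 0 0) (P.cons (P.lf 279129658 0 0) (P.cons (P.lf 0 103150504 0) (P.cons (P.lf 0 28218937 0) (P.cons (P.lf 1551240 0 0) (P.cons (P.lf 711267 0 0) P.nil)))))) (P.cons (P.cons (P.lf 0 715833202 0) (P.cons (P.lf 0 156131775 0) (P.cons (P.lf 58958200 0 0) (P.cons (P.lf 14697030 0 0) (P.cons (P.lf 0 754072 0) P.nil))))) (P.cons (P.cons (P.lf 28757968 0 0) (P.cons (P.lf 12228078 0 0) (P.cons (P.lf 0 4109838 0) (P.cons (P.lf 0 1588908 0) P.nil)))) (P.cons (P.cons (P.lf 39529486 0 0) (P.cons (P.lf 4692345 0 0) (P.cons (P.lf 0 1941175 0) P.nil))) (P.cons (P.cons (P.lf 0 1948180 0) (P.cons (P.lf 0 735634 0) P.nil)) (P.cons (P.cons (P.lf 0 786925 0) P.nil) P.nil)))))) 2056661)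
 (EL.cons 2 (TM.mk (P.cons (P.cons (P.lf 344215327 0 0) (P.cons (P.lf 0 278214316 0) (P.cons (P.lf 0 90767615 0) (P.cons (P.lf 17805763 0 0) (P.cons (P.lf 5059822 0 0) (P.cons (P.lf 0 99185 0) P.nil)))))) (P.cons (P.cons (P.lf 0 108352698 0) (P.cons (P.lf 90686216 0 0) (P.cons (P.lf 24334441 0 0) (P.cons (P.lf 0 4802101 0) (P.cons (P.lf 0 1263920 0) P.nil))))) (P.cons (P.cons (P.lf 0 26723311 0) (P.cons (P.lf 23368410 0 0) (P.cons (P.lf 4635826 0 0) (P.cons (P.lf 0 925588 0) P.nil)))) (P.cons (P.cons (P.lf 7128348 0 0) (P.cons (P.lf 0 5978002 0) (P.cons (P.lf 0 1584697 0) P.nil))) (P.cons (P.cons (P.lf 448728 0 0) (P.cons (P.lf 0 446051 0) P.nil)) (P.cons (P.cons (P.lf 0 184916 0) P.nil) P.nil)))))) 1814602)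
 (EL.cons 6 (TM.mk (P.cons (P.cons (P.lf 0 291622032 0) (P.cons (P.lf 235705434 0 0) (P.cons (P.lf 76899066 0 0) (P.cons (P.lf 0 15085182 0) (P.cons (P.lf 0 4286718 0) (P.cons (P.lf 84030 0 0) P.nil)))))) (P.cons (P.cons (P.lf 163119408 0 0) (P.cons (P.lf 0 134476674 0) (P.cons (P.lf 0 39423570 0) (P.cons (P.lf 7757772 0 0) (P.cons (P.lf 2119206 0 0) P.nil))))) (P.cons (P.cons (P.lf 0 12775338 0) (P.cons (P.lf 9471222 0 0) (P.cons (P.lf 4533336 0 0) (P.cons (P.lf 0 881478 0) P.nil)))) (P.cons (P.cons (P.lf 0 4902354 0) (P.cons (P.lf 4395204 0 0) (P.cons (P.lf 702834 0 0) P.nil))) (P.cons (P.cons (P.lf 768558 0 0) (P.cons (P.lf 0 638628 0) P.nil)) (P.cons (P.cons (P.lf 46806 0 0) P.nil) P.nil)))))) 1578864)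
 EL.nil))))))
noncomputable def S314_343_660_808_3 : EL := (EL.cons 0 (TM.mk (P.cons (P.lf 2000791209 0 0) (P.cons (P.lf 654467131 0 0) (P.cons (P.lf 15080835 0 0) (P.cons (P.lf 0 7271133 0) (P.cons (P.lf 199596 0 0) (P.cons (P.lf 35412 0 0) P.nil)))))) 3454)
 (EL.cons 1 (TM.mk (P.cons (P.lf 0 1695086628 0) (P.cons (P.lf 0 139901857 0) (P.cons (P.lf 47471786 0 0) (P.cons (P.lf 0 293435 0) (P.cons (P.lf 0 328029 0) (P.cons (P.lf 15684 0 0) P.nil)))))) 1940)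
 (EL.cons 5 (TM.mk (P.cons (P.lf 1436091214 0 0) (P.cons (P.lf 0 232699422 0) (P.cons (P.lf 0 5362070 0) (P.cons (P.lf 2585292 0 0) (P.cons (P.lf 0 70970 0) (P.cons (P.lf 0 12590 0) P.nil)))))) 1162)
 EL.nil)))
noncomputable def S314_343_660_808_4 : EL := (EL.cons 0 (TM.mk (P.cons (P.cons (P.lf 0 838531689 0) (P.cons (P.lf 0 103421046 0) (P.cons (P.lf 44596321 0 0) (P.lf 4955143 0 0)))) (P.cons (P.cons (P.lf 0 9062006 0) (P.cons (P.lf 0 8692453 0) (P.cons (P.lf 3748283 0 0) (P.lf 416475 0 0)))) (P.cons (P.cons (P.lf 111725687 0 0) (P.cons (P.lf 7003836 0 0) (P.cons (P.lf 0 3020134 0) (P.lf 0 335569 0)))) (P.cons (P.cons (P.lf 10532176 0 0) (P.cons (P.lf 68000 0 0) (P.cons (P.lf 0 29323 0) P.nil))) (P.cons (P.cons (P.lf 0 2561756 0) (P.cons (P.lf 0 194494 0) P.nil)) (P.cons (P.cons (P.lf 0 150020 0) P.nil) P.nil)))))) 262572)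
 (EL.cons 1 (TM.mk (P.cons (P.cons (P.lf 710410886 0 0) (P.cons (P.lf 87619153 0 0) (P.cons (P.lf 0 37782365 0) (P.lf 0 4198036 0)))) (P.cons (P.cons (P.lf 0 166068075 0) (P.cons (P.lf 0 14064733 0) (P.cons (P.lf 6064871 0 0) (P.lf 673873 0 0)))) (P.cons (P.cons (P.lf 0 64949814 0) (P.cons (P.lf 0 3839512 0) (P.cons (P.lf 1655641 0 0) (P.lf 183958 0 0)))) (P.cons (P.cons (P.lf 8251603 0 0) (P.cons (P.lf 941934 0 0) (P.cons (P.lf 0 406171 0) P.nil))) (P.cons (P.cons (P.lf 1339601 0 0) (P.cons (P.lf 5403 0 0) P.nil)) (P.cons (P.cons (P.lf 0 197782 0) P.nil) P.nil)))))) 186277)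
 (EL.cons 5 (TM.mk (P.cons (P.cons (P.lf 0 601865896 0) (P.cons (P.lf 0 74231660 0) (P.cons (P.lf 32009528 0 0) (P.lf 3556612 0 0)))) (P.cons (P.cons (P.lf 287892816 0 0) (P.cons (P.lf 30070624 0 0) (P.cons (P.lf 0 12966792 0) (P.lf 0 1440752 0)))) (P.cons (P.cons (P.lf 0 6140808 0) (P.cons (P.lf 0 2961492 0) (P.cons (P.lf 1277028 0 0) (P.lf 141890 0 0)))) (P.cons (P.cons (P.lf 0 8842274 0) (P.cons (P.lf 0 403808 0) (P.cons (P.lf 174124 0 0) P.nil))) (P.cons (P.cons (P.lf 699862 0 0) (P.cons (P.lf 97250 0 0) P.nil)) (P.cons (P.cons (P.lf 109334 0 0) P.nil) P.nil)))))) 124098)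
 EL.nil)))
noncomputable def S314_343_660_808_5 : EL := (EL.cons 0 (TM.mk (P.cons (P.cons (P.lf 351428670 0 0) (P.cons (P.lf 86687530 0 0) (P.cons (P.lf 0 32034798 0) (P.cons (P.lf 0 8763776 0) (P.cons (P.lf 481758 0 0) (P.cons (P.lf 220891 0 0) P.nil)))))) (P.cons (P.cons (P.lf 0 107358004 0) (P.cons (P.lf 0 20133003 0) (P.cons (P.lf 7831557 0 0) (P.cons (P.lf 1697695 0 0) (P.cons (P.lf 0 76601 0) P.nil))))) (P.cons (P.cons (P.lf 0 61139058 0) (P.cons (P.lf 0 11409908 0) (P.cons (P.lf 4471539 0 0) (P.cons (P.lf 933507 0 0) P.nil)))) (P.cons (P.cons (P.lf 12245050 0 0) (P.cons (P.lf 2018965 0 0) (P.cons (P.lf 0 765931 0) P.nil))) (P.cons (P.cons (P.lf 4320919 0 0) (P.cons (P.lf 461703 0 0) P.nil)) (P.cons (P.cons (P.lf 0 398179 0) P.nil) P.nil)))))) 1813797)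
 (EL.cons 1 (TM.mk (P.cons (P.cons (P.lf 0 297733235 0) (P.cons (P.lf 0 73442381 0) (P.cons (P.lf 27140141 0 0) (P.cons (P.lf 7424741 0 0) (P.cons (P.lf 0 408148 0) (P.cons (P.lf 0 187141 0) P.nil)))))) (P.cons (P.cons (P.lf 163771316 0 0) (P.cons (P.lf 35018677 0 0) (P.cons (P.lf 0 13272635 0) (P.cons (P.lf 0 3254173 0) (P.cons (P.lf 164718 0 0) P.nil))))) (P.cons (P.cons (P.lf 16316371 0 0) (P.cons (P.lf 2229935 0 0) (P.cons (P.lf 0 959038 0) (P.cons (P.lf 0 109027 0) P.nil)))) (P.cons (P.cons (P.lf 0 16351404 0) (P.cons (P.lf 0 2663336 0) (P.cons (P.lf 1039130 0 0) P.nil))) (P.cons (P.cons (P.lf 0 158923 0) (P.cons (P.lf 174658 0 0) P.nil)) (P.cons (P.cons (P.lf 578523 0 0) P.nil) P.nil)))))) 1328986)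
 (EL.cons 5 (TM.mk (P.cons (P.cons (P.lf 252242024 0 0) (P.cons (P.lf 62220986 0 0) (P.cons (P.lf 0 22993350 0) (P.cons (P.lf 0 6290302 0) (P.cons (P.lf 345786 0 0) (P.cons (P.lf 158548 0 0) P.nil)))))) (P.cons (P.cons (P.lf 0 200439330 0) (P.cons (P.lf 0 44885522 0) (P.cons (P.lf 16868178 0 0) (P.cons (P.lf 4295384 0 0) (P.cons (P.lf 0 224120 0) P.nil))))) (P.cons (P.cons (P.lf 31324320 0 0) (P.cons (P.lf 8132880 0 0) (P.cons (P.lf 0 2959826 0) (P.cons (P.lf 0 861548 0) P.nil)))) (P.cons (P.cons (P.lf 8822698 0 0) (P.cons (P.lf 846258 0 0) (P.cons (P.lf 0 374726 0) P.nil))) (P.cons (P.cons (P.lf 0 2185720 0) (P.cons (P.lf 0 409372 0) P.nil)) (P.cons (P.cons (P.lf 0 120732 0) P.nil) P.nil)))))) 956538)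
 EL.nil)))
noncomputable def S314_343_660_808_6 : EL := (EL.cons 12 (TM.mk (P.lf 8589934592 0 0) 0)
 (EL.cons 3 (TM.mk (P.cons (P.lf 2072840178 0 0) (P.cons (P.lf 339017325 0 0) (P.cons (P.lf 0 19911543 0) (P.cons (P.lf 0 509910 0) (P.cons (P.lf 91155 0 0) (P.cons (P.lf 0 1462 0) P.nil)))))) 487)
 (EL.cons 7 (TM.mk (P.cons (P.lf 0 1756127103 0) (P.cons (P.lf 142278485 0 0) (P.cons (P.lf 9042093 0 0) (P.cons (P.lf 0 848140 0) (P.cons (P.lf 0 2043 0) (P.cons (P.lf 3166 0 0) P.nil)))))) 195)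
 EL.nil)))
noncomputable def S314_343_660_808_7 : EL := (EL.cons 12 (TM.mk (P.cons (P.cons (P.lf 0 3600041996 0) (P.cons (P.lf 0 444014360 0) (P.cons (P.lf 191464000 0 0) (P.lf 21273768 0 0)))) (P.cons (P.cons (P.lf 1138683086 0 0) (P.cons (P.lf 107919904 0 0) (P.cons (P.lf 0 46536280 0) (P.lf 0 5170696 0)))) (P.cons (P.cons (P.lf 134335526 0 0) (P.cons (P.lf 0 1884960 0) (P.cons (P.lf 812808 0 0) (P.lf 90312 0 0)))) (P.cons (P.cons (P.lf 0 20390008 0) (P.cons (P.lf 0 1518520 0) (P.cons (P.lf 654800 0 0) P.nil))) (P.cons (P.cons (P.lf 0 843946 0) (P.cons (P.lf 112392 0 0) P.nil)) (P.cons (P.cons (P.lf 223980 0 0) P.nil) P.nil)))))) 179410)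
 (EL.cons 3 (TM.mk (P.cons (P.cons (P.lf 2522801669 0 0) (P.cons (P.lf 214290526 0 0) (P.cons (P.lf 0 92404490 0) (P.lf 0 10267160 0)))) (P.cons (P.cons (P.lf 781759716 0 0) (P.cons (P.lf 0 17036718 0) (P.cons (P.lf 7346424 0 0) (P.lf 816268 0 0)))) (P.cons (P.cons (P.lf 0 147274011 0) (P.cons (P.lf 0 9667244 0) (P.cons (P.lf 4168628 0 0) (P.lf 463178 0 0)))) (P.cons (P.cons (P.lf 0 7545215 0) (P.cons (P.lf 1329258 0 0) (P.cons (P.lf 0 573188 0) P.nil))) (P.cons (P.cons (P.lf 3170494 0 0) (P.cons (P.lf 79114 0 0) P.nil)) (P.cons (P.cons (P.lf 0 88794 0) P.nil) P.nil)))))) 515941)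
 (EL.cons 7 (TM.mk (P.cons (P.cons (P.lf 2159346837 0 0) (P.cons (P.lf 225674233 0 0) (P.cons (P.lf 0 97313276 0) (P.lf 0 10812588 0)))) (P.cons (P.cons (P.lf 328088212 0 0) (P.cons (P.lf 0 7149957 0) (P.cons (P.lf 3083144 0 0) (P.lf 342573 0 0)))) (P.cons (P.cons (P.lf 0 21687491 0) (P.cons (P.lf 0 4931474 0) (P.cons (P.lf 2126504 0 0) (P.lf 236277 0 0)))) (P.cons (P.cons (P.lf 0 11564585 0) (P.cons (P.lf 0 140240 0) (P.cons (P.lf 60472 0 0) P.nil))) (P.cons (P.cons (P.lf 420698 0 0) (P.cons (P.lf 101202 0 0) P.nil)) (P.cons (P.cons (P.lf 159693 0 0) P.nil) P.nil)))))) 368363)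
 (EL.cons 10 (TM.mk (P.cons (P.cons (P.lf 0 850896120 0) (P.cons (P.lf 792688452 0 0) (P.cons (P.lf 81355620 0 0) (P.cons (P.lf 0 16919706 0) (P.lf 0 1409973 0))))) (P.cons (P.cons (P.lf 137876364 0 0) (P.cons (P.lf 0 128444586 0) (P.cons (P.lf 0 13182591 0) (P.cons (P.lf 2741610 0 0) (P.lf 228465 0 0))))) (P.cons (P.cons (P.lf 3177069 0 0) (P.cons (P.lf 0 2959734 0) (P.cons (P.lf 0 303765 0) (P.cons (P.lf 63174 0 0) P.nil)))) (P.cons (P.cons (P.lf 0 1531806 0) (P.cons (P.lf 1427019 0 0) (P.cons (P.lf 146457 0 0) P.nil))) (P.cons (P.cons (P.lf 42048 0 0) (P.cons (P.lf 0 39171 0) P.nil)) (P.cons (P.cons (P.lf 7458 0 0) P.nil) P.nil)))))) 52527)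
 EL.nil))))
noncomputable def S314_343_660_808_8 : EL := (EL.cons 12 (TM.mk (P.cons (P.cons (P.lf 1508777770 0 0) (P.cons (P.lf 372172878 0 0) (P.cons (P.lf 0 137534006 0) (P.cons (P.lf 0 37625250 0) (P.cons (P.lf 2068320 0 0) (P.cons (P.lf 948356 0 0) P.nil)))))) (P.cons (P.cons (P.lf 0 954444270 0) (P.cons (P.lf 0 208175700 0) (P.cons (P.lf 78610934 0 0) (P.cons (P.lf 19596040 0 0) (P.cons (P.lf 0 1005430 0) P.nil))))) (P.cons (P.cons (P.lf 38343958 0 0) (P.cons (P.lf 16304104 0 0) (P.cons (P.lf 0 5479784 0) (P.cons (P.lf 0 2118544 0) P.nil)))) (P.cons (P.cons (P.lf 52705982 0 0) (P.cons (P.lf 6256460 0 0) (P.cons (P.lf 0 2588234 0) P.nil))) (P.cons (P.cons (P.lf 0 2597574 0) (P.cons (P.lf 0 980846 0) P.nil)) (P.cons (P.cons (P.lf 0 1049234 0) P.nil) P.nil)))))) 2742186)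
 (EL.cons 3 (TM.mk (P.cons (P.cons (P.lf 0 2478696295 0) (P.cons (P.lf 0 530235121 0) (P.cons (P.lf 200951625 0 0) (P.cons (P.lf 49286778 0 0) (P.cons (P.lf 0 2495536 0) (P.cons (P.lf 0 1144241 0) P.nil)))))) (P.cons (P.cons (P.lf 184345541 0 0) (P.cons (P.lf 89211579 0 0) (P.cons (P.lf 0 29536849 0) (P.cons (P.lf 0 11977652 0) (P.cons (P.lf 804956 0 0) P.nil))))) (P.cons (P.cons (P.lf 441525653 0 0) (P.cons (P.lf 49194475 0 0) (P.cons (P.lf 0 20616630 0) (P.cons (P.lf 0 2871533 0) P.nil)))) (P.cons (P.cons (P.lf 0 36600951 0) (P.cons (P.lf 0 11996627 0) (P.cons (P.lf 4612303 0 0) P.nil))) (P.cons (P.cons (P.lf 0 14908411 0) (P.cons (P.lf 0 629334 0) P.nil)) (P.cons (P.cons (P.lf 1846655 0 0) P.nil) P.nil)))))) 6804205)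
 (EL.cons 7 (TM.mk (P.cons (P.cons (P.lf 0 1501510040 0) (P.cons (P.lf 0 336306701 0) (P.cons (P.lf 126381140 0 0) (P.cons (P.lf 32187163 0 0) (P.cons (P.lf 0 1679631 0) (P.cons (P.lf 0 770133 0) P.nil)))))) (P.cons (P.cons (P.lf 77365982 0 0) (P.cons (P.lf 37440241 0 0) (P.cons (P.lf 0 12396009 0) (P.cons (P.lf 0 5026774 0) (P.cons (P.lf 337818 0 0) P.nil))))) (P.cons (P.cons (P.lf 194759803 0 0) (P.cons (P.lf 25224281 0 0) (P.cons (P.lf 0 10168210 0) (P.cons (P.lf 0 1819818 0) P.nil)))) (P.cons (P.cons (P.lf 15247834 0 0) (P.cons (P.lf 0 1476820 0) (P.cons (P.lf 461497 0 0) P.nil))) (P.cons (P.cons (P.lf 0 7617120 0) (P.cons (P.lf 0 1012480 0) P.nil)) (P.cons (P.cons (P.lf 0 456886 0) P.nil) P.nil)))))) 3785100)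
 (EL.cons 10 (TM.mk (P.cons (P.cons (P.lf 713221206 0 0) (P.cons (P.lf 0 576465762 0) (P.cons (P.lf 0 188072370 0) (P.cons (P.lf 36893904 0 0) (P.cons (P.lf 10484058 0 0) (P.cons (P.lf 0 205524 0) P.nil)))))) (P.cons (P.cons (P.lf 0 341157828 0) (P.cons (P.lf 282185874 0 0) (P.cons (P.lf 81181092 0 0) (P.cons (P.lf 0 15984138 0) (P.cons (P.lf 0 4333560 0) P.nil))))) (P.cons (P.cons (P.lf 7276962 0 0) (P.cons (P.lf 0 3269742 0) (P.cons (P.lf 0 5478408 0) (P.cons (P.lf 1050792 0 0) P.nil)))) (P.cons (P.cons (P.lf 10478238 0 0) (P.cons (P.lf 0 9282930 0) (P.cons (P.lf 0 1653966 0) P.nil))) (P.cons (P.cons (P.lf 0 829344 0) (P.cons (P.lf 657366 0 0) P.nil)) (P.cons (P.cons (P.lf 0 129558 0) P.nil) P.nil)))))) 2632722)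
 EL.nil))))
noncomputable def S314_343_660_808_9 : EL := (EL.cons 3 (TM.mk (P.cons (P.lf 2072840178 0 0) (P.cons (P.lf 339017325 0 0) (P.cons (P.lf 0 19911543 0) (P.cons (P.lf 0 509910 0) (P.cons (P.lf 91155 0 0) (P.cons (P.lf 0 1462 0) P.nil)))))) 487)
 (EL.cons 7 (TM.mk (P.cons (P.lf 0 1756127103 0) (P.cons (P.lf 142278485 0 0) (P.cons (P.lf 9042093 0 0) (P.cons (P.lf 0 848140 0) (P.cons (P.lf 0 2043 0) (P.cons (P.lf 3166 0 0) P.nil)))))) 195)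
 EL.nil))
noncomputable def S314_343_660_808_10 : EL := (EL.cons 3 (TM.mk (P.cons (P.cons (P.lf 0 868727416 0) (P.cons (P.lf 0 107145263 0) (P.cons (P.lf 46202245 0 0) (P.lf 5133580 0 0)))) (P.cons (P.cons (P.lf 132693843 0 0) (P.cons (P.lf 8518359 0 0) (P.cons (P.lf 0 3673212 0) (P.lf 0 408134 0)))) (P.cons (P.cons (P.lf 85701672 0 0) (P.cons (P.lf 4833622 0 0) (P.cons (P.lf 0 2084314 0) (P.lf 0 231589 0)))) (P.cons (P.cons (P.lf 0 2044298 0) (P.cons (P.lf 0 664629 0) (P.cons (P.lf 286594 0 0) P.nil))) (P.cons (P.cons (P.lf 0 1425569 0) (P.cons (P.lf 0 39557 0) P.nil)) (P.cons (P.cons (P.lf 72726 0 0) P.nil) P.nil)))))) 127620)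
 (EL.cons 7 (TM.mk (P.cons (P.cons (P.lf 735992952 0 0) (P.cons (P.lf 90774340 0 0) (P.cons (P.lf 0 39142919 0) (P.lf 0 4349211 0)))) (P.cons (P.cons (P.lf 0 292421405 0) (P.cons (P.lf 0 29417541 0) (P.cons (P.lf 12685175 0 0) (P.lf 1409463 0 0)))) (P.cons (P.cons (P.lf 0 12392651 0) (P.cons (P.lf 1705495 0 0) (P.cons (P.lf 0 735427 0) (P.lf 0 81714 0)))) (P.cons (P.cons (P.lf 7947664 0 0) (P.cons (P.lf 436666 0 0) (P.cons (P.lf 0 188294 0) P.nil))) (P.cons (P.cons (P.lf 0 135358 0) (P.cons (P.lf 0 60663 0) P.nil)) (P.cons (P.cons (P.lf 0 96093 0) P.nil) P.nil)))))) 78574)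
 EL.nil))
noncomputable def S314_343_660_808_11 : EL := (EL.cons 3 (TM.mk (P.cons (P.cons (P.lf 364083701 0 0) (P.cons (P.lf 89809169 0 0) (P.cons (P.lf 0 33188379 0) (P.cons (P.lf 0 9079362 0) (P.cons (P.lf 499106 0 0) (P.cons (P.lf 228847 0 0) P.nil)))))) (P.cons (P.cons (P.lf 0 170770639 0) (P.cons (P.lf 0 35546475 0) (P.cons (P.lf 13541603 0 0) (P.cons (P.lf 3243778 0 0) (P.cons (P.lf 0 160990 0) P.nil))))) (P.cons (P.cons (P.lf 0 31913437 0) (P.cons (P.lf 0 5144381 0) (P.cons (P.lf 2098998 0 0) (P.cons (P.lf 349381 0 0) P.nil)))) (P.cons (P.cons (P.lf 16354659 0 0) (P.cons (P.lf 2613679 0 0) (P.cons (P.lf 0 1014893 0) P.nil))) (P.cons (P.cons (P.lf 1437101 0 0) (P.cons (P.lf 0 11250 0) P.nil)) (P.cons (P.cons (P.lf 0 490543 0) P.nil) P.nil)))))) 1243803)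
 (EL.cons 7 (TM.mk (P.cons (P.cons (P.lf 0 308454680 0) (P.cons (P.lf 0 76087061 0) (P.cons (P.lf 28117466 0 0) (P.cons (P.lf 7692109 0 0) (P.cons (P.lf 0 422847 0) (P.cons (P.lf 0 193881 0) P.nil)))))) (P.cons (P.cons (P.lf 220117166 0 0) (P.cons (P.lf 48723907 0 0) (P.cons (P.lf 0 18349257 0) (P.cons (P.lf 0 4629418 0) (P.cons (P.lf 239808 0 0) P.nil))))) (P.cons (P.cons (P.lf 0 22059683 0) (P.cons (P.lf 0 6389545 0) (P.cons (P.lf 2277578 0 0) (P.cons (P.lf 718086 0 0) P.nil)))) (P.cons (P.cons (P.lf 0 11293766 0) (P.cons (P.lf 0 1264900 0) (P.cons (P.lf 534703 0 0) P.nil))) (P.cons (P.cons (P.lf 1538280 0 0) (P.cons (P.lf 341780 0 0) P.nil)) (P.cons (P.cons (P.lf 223958 0 0) P.nil) P.nil)))))) 823844)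
 EL.nil))
noncomputable def S314_343_660_808_12 : EL := (EL.cons 4 (TM.mk (P.cons (P.lf 0 2072840178 0) (P.cons (P.lf 0 339017325 0) (P.cons (P.lf 19911543 0 0) (P.cons (P.lf 509910 0 0) (P.cons (P.lf 0 91155 0) (P.cons (P.lf 1462 0 0) P.nil)))))) 487)
 (EL.cons 8 (TM.mk (P.cons (P.lf 1756127103 0 0) (P.cons (P.lf 0 142278485 0) (P.cons (P.lf 0 9042093 0) (P.cons (P.lf 848140 0 0) (P.cons (P.lf 2043 0 0) (P.cons (P.lf 0 3166 0) P.nil)))))) 195)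
 EL.nil))
noncomputable def S314_343_660_808_13 : EL := (EL.cons 4 (TM.mk (P.cons (P.cons (P.lf 868727416 0 0) (P.cons (P.lf 107145263 0 0) (P.cons (P.lf 0 46202245 0) (P.lf 0 5133580 0)))) (P.cons (P.cons (P.lf 0 132693843 0) (P.cons (P.lf 0 8518359 0) (P.cons (P.lf 3673212 0 0) (P.lf 408134 0 0)))) (P.cons (P.cons (P.lf 0 85701672 0) (P.cons (P.lf 0 4833622 0) (P.cons (P.lf 2084314 0 0) (P.lf 231589 0 0)))) (P.cons (P.cons (P.lf 2044298 0 0) (P.cons (P.lf 664629 0 0) (P.cons (P.lf 0 286594 0) P.nil))) (P.cons (P.cons (P.lf 1425569 0 0) (P.cons (P.lf 39557 0 0) P.nil)) (P.cons (P.cons (P.lf 0 72726 0) P.nil) P.nil)))))) 127620)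
 (EL.cons 8 (TM.mk (P.cons (P.cons (P.lf 0 735992952 0) (P.cons (P.lf 0 90774340 0) (P.cons (P.lf 39142919 0 0) (P.lf 4349211 0 0)))) (P.cons (P.cons (P.lf 292421405 0 0) (P.cons (P.lf 29417541 0 0) (P.cons (P.lf 0 12685175 0) (P.lf 0 1409463 0)))) (P.cons (P.cons (P.lf 12392651 0 0) (P.cons (P.lf 0 1705495 0) (P.cons (P.lf 735427 0 0) (P.lf 81714 0 0)))) (P.cons (P.cons (P.lf 0 7947664 0) (P.cons (P.lf 0 436666 0) (P.cons (P.lf 188294 0 0) P.nil))) (P.cons (P.cons (P.lf 135358 0 0) (P.cons (P.lf 60663 0 0) P.nil)) (P.cons (P.cons (P.lf 96093 0 0) P.nil) P.nil)))))) 78574)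
 EL.nil))
noncomputable def S314_343_660_808_14 : EL := (EL.cons 4 (TM.mk (P.cons (P.cons (P.lf 0 364083701 0) (P.cons (P.lf 0 89809169 0) (P.cons (P.lf 33188379 0 0) (P.cons (P.lf 9079362 0 0) (P.cons (P.lf 0 499106 0) (P.cons (P.lf 0 228847 0) P.nil)))))) (P.cons (P.cons (P.lf 170770639 0 0) (P.cons (P.lf 35546475 0 0) (P.cons (P.lf 0 13541603 0) (P.cons (P.lf 0 3243778 0) (P.cons (P.lf 160990 0 0) P.nil))))) (P.cons (P.cons (P.lf 31913437 0 0) (P.cons (P.lf 5144381 0 0) (P.cons (P.lf 0 2098998 0) (P.cons (P.lf 0 349381 0) P.nil)))) (P.cons (P.cons (P.lf 0 16354659 0) (P.cons (P.lf 0 2613679 0) (P.cons (P.lf 1014893 0 0) P.nil))) (P.cons (P.cons (P.lf 0 1437101 0) (P.cons (P.lf 11250 0 0) P.nil)) (P.cons (P.cons (P.lf 490543 0 0) P.nil) P.nil)))))) 1243803)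
 (EL.cons 8 (TM.mk (P.cons (P.cons (P.lf 308454680 0 0) (P.cons (P.lf 76087061 0 0) (P.cons (P.lf 0 28117466 0) (P.cons (P.lf 0 7692109 0) (P.cons (P.lf 422847 0 0) (P.cons (P.lf 193881 0 0) P.nil)))))) (P.cons (P.cons (P.lf 0 220117166 0) (P.cons (P.lf 0 48723907 0) (P.cons (P.lf 18349257 0 0) (P.cons (P.lf 4629418 0 0) (P.cons (P.lf 0 239808 0) P.nil))))) (P.cons (P.cons (P.lf 22059683 0 0) (P.cons (P.lf 6389545 0 0) (P.cons (P.lf 0 2277578 0) (P.cons (P.lf 0 718086 0) P.nil)))) (P.cons (P.cons (P.lf 11293766 0 0) (P.cons (P.lf 1264900 0 0) (P.cons (P.lf 0 534703 0) P.nil))) (P.cons (P.cons (P.lf 0 1538280 0) (P.cons (P.lf 0 341780 0) P.nil)) (P.cons (P.cons (P.lf 0 223958 0) P.nil) P.nil)))))) 823844)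
 EL.nil))
noncomputable def S314_343_660_808_15 : EL := (EL.cons 4 (TM.mk (P.cons (P.lf 0 1067088645 0) (P.cons (P.lf 0 349049136 0) (P.cons (P.lf 0 8043112 0) (P.cons (P.lf 3877937 0 0) (P.cons (P.lf 0 106451 0) (P.cons (P.lf 0 18886 0) P.nil)))))) 1845)
 (EL.cons 8 (TM.mk (P.cons (P.lf 904046202 0 0) (P.cons (P.lf 74614324 0 0) (P.cons (P.lf 0 25318286 0) (P.cons (P.lf 156499 0 0) (P.cons (P.lf 174949 0 0) (P.cons (P.lf 0 8365 0) P.nil)))))) 1031)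
 EL.nil))
noncomputable def S314_343_660_808_16 : EL := (EL.cons 4 (TM.mk (P.cons (P.cons (P.lf 447216900 0 0) (P.cons (P.lf 55157891 0 0) (P.cons (P.lf 0 23784705 0) (P.lf 0 2642743 0)))) (P.cons (P.cons (P.lf 4833070 0 0) (P.cons (P.lf 4635975 0 0) (P.cons (P.lf 0 1999084 0) (P.lf 0 222120 0)))) (P.cons (P.cons (P.lf 0 59587033 0) (P.cons (P.lf 0 3735379 0) (P.cons (P.lf 1610738 0 0) (P.lf 178970 0 0)))) (P.cons (P.cons (P.lf 0 5617160 0) (P.cons (P.lf 0 36267 0) (P.cons (P.lf 15639 0 0) P.nil))) (P.cons (P.cons (P.lf 1366270 0 0) (P.cons (P.lf 103730 0 0) P.nil)) (P.cons (P.cons (P.lf 80010 0 0) P.nil) P.nil)))))) 140047)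
 (EL.cons 8 (TM.mk (P.cons (P.cons (P.lf 0 378885806 0) (P.cons (P.lf 0 46730215 0) (P.cons (P.lf 20150595 0 0) (P.lf 2238953 0 0)))) (P.cons (P.cons (P.lf 88569640 0 0) (P.cons (P.lf 7501191 0 0) (P.cons (P.lf 0 3234598 0) (P.lf 0 359399 0)))) (P.cons (P.cons (P.lf 34639901 0 0) (P.cons (P.lf 2047740 0 0) (P.cons (P.lf 0 883009 0) (P.lf 0 98111 0)))) (P.cons (P.cons (P.lf 0 4400855 0) (P.cons (P.lf 0 502365 0) (P.cons (P.lf 216625 0 0) P.nil))) (P.cons (P.cons (P.lf 0 714454 0) (P.cons (P.lf 0 2882 0) P.nil)) (P.cons (P.cons (P.lf 105484 0 0) P.nil) P.nil)))))) 99338)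
 EL.nil))
noncomputable def S314_343_660_808_17 : EL := (EL.cons 4 (TM.mk (P.cons (P.cons (P.lf 0 187428624 0) (P.cons (P.lf 0 46233349 0) (P.cons (P.lf 17085225 0 0) (P.cons (P.lf 4674014 0 0) (P.cons (P.lf 0 256937 0) (P.cons (P.lf 0 117809 0) P.nil)))))) (P.cons (P.cons (P.lf 57257602 0 0) (P.cons (P.lf 10737601 0 0) (P.cons (P.lf 0 4176830 0) (P.cons (P.lf 0 905437 0) (P.cons (P.lf 40854 0 0) P.nil))))) (P.cons (P.cons (P.lf 32607497 0 0) (P.cons (P.lf 6085284 0 0) (P.cons (P.lf 0 2384820 0) (P.cons (P.lf 0 497870 0) P.nil)))) (P.cons (P.cons (P.lf 0 6530693 0) (P.cons (P.lf 0 1076781 0) (P.cons (P.lf 408496 0 0) P.nil))) (P.cons (P.cons (P.lf 0 2304490 0) (P.cons (P.lf 0 246241 0) P.nil)) (P.cons (P.cons (P.lf 212362 0 0) P.nil) P.nil)))))) 967369)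
 (EL.cons 8 (TM.mk (P.cons (P.cons (P.lf 158791059 0 0) (P.cons (P.lf 39169270 0 0) (P.cons (P.lf 0 14474742 0) (P.cons (P.lf 0 3959862 0) (P.cons (P.lf 217679 0 0) (P.cons (P.lf 99809 0 0) P.nil)))))) (P.cons (P.cons (P.lf 0 87344702 0) (P.cons (P.lf 0 18676628 0) (P.cons (P.lf 7078739 0 0) (P.cons (P.lf 1735559 0 0) (P.cons (P.lf 0 87850 0) P.nil))))) (P.cons (P.cons (P.lf 0 8702065 0) (P.cons (P.lf 0 1189299 0) (P.cons (P.lf 511487 0 0) (P.cons (P.lf 58148 0 0) P.nil)))) (P.cons (P.cons (P.lf 8720749 0 0) (P.cons (P.lf 1420446 0 0) (P.cons (P.lf 0 554203 0) P.nil))) (P.cons (P.cons (P.lf 84759 0 0) (P.cons (P.lf 0 93151 0) P.nil)) (P.cons (P.cons (P.lf 0 308546 0) P.nil) P.nil)))))) 708781)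
 EL.nil))
noncomputable def S314_343_660_808_18 : EL := (EL.cons 4 (TM.mk (P.cons (P.lf 0 549332354 0) (P.cons (P.lf 0 269533349 0) (P.cons (P.lf 0 28252205 0) (P.cons (P.lf 3180359 0 0) (P.cons (P.lf 331524 0 0) (P.cons (P.lf 0 44357 0) P.nil)))))) 4415)
 (EL.cons 8 (TM.mk (P.cons (P.lf 465398850 0 0) (P.cons (P.lf 114528063 0 0) (P.cons (P.lf 0 11222106 0) (P.cons (P.lf 0 2534590 0) (P.cons (P.lf 239457 0 0) (P.cons (P.lf 14216 0 0) P.nil)))))) 3029)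
 EL.nil))
noncomputable def S314_343_660_808_19 : EL := (EL.cons 4 (TM.mk (P.cons (P.cons (P.lf 230225215 0 0) (P.cons (P.lf 28395030 0 0) (P.cons (P.lf 0 12244257 0) (P.lf 0 1360471 0)))) (P.cons (P.cons (P.lf 40141855 0 0) (P.cons (P.lf 7030644 0 0) (P.cons (P.lf 0 3031693 0) (P.lf 0 336854 0)))) (P.cons (P.cons (P.lf 0 32479733 0) (P.cons (P.lf 0 1805386 0) (P.cons (P.lf 778503 0 0) (P.lf 86500 0 0)))) (P.cons (P.cons (P.lf 0 7989204 0) (P.cons (P.lf 0 363083 0) (P.cons (P.lf 156566 0 0) P.nil))) (P.cons (P.cons (P.lf 534583 0 0) (P.cons (P.lf 69479 0 0) P.nil)) (P.cons (P.cons (P.lf 191493 0 0) P.nil) P.nil)))))) 154028)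
 (EL.cons 8 (TM.mk (P.cons (P.cons (P.lf 0 195048680 0) (P.cons (P.lf 0 24056501 0) (P.cons (P.lf 10373434 0 0) (P.lf 1152603 0 0)))) (P.cons (P.cons (P.lf 13694628 0 0) (P.cons (P.lf 0 72911 0) (P.cons (P.lf 31440 0 0) (P.lf 3493 0 0)))) (P.cons (P.cons (P.lf 27163282 0 0) (P.cons (P.lf 1916821 0 0) (P.cons (P.lf 0 826555 0) (P.lf 0 91839 0)))) (P.cons (P.cons (P.lf 260992 0 0) (P.cons (P.lf 0 117380 0) (P.cons (P.lf 50615 0 0) P.nil))) (P.cons (P.cons (P.lf 0 929422 0) (P.cons (P.lf 0 55915 0) P.nil)) (P.cons (P.cons (P.lf 13668 0 0) P.nil) P.nil)))))) 91789)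
 EL.nil))
noncomputable def S314_343_660_808_20 : EL := (EL.cons 4 (TM.mk (P.cons (P.cons (P.lf 0 96487397 0) (P.cons (P.lf 0 23800716 0) (P.cons (P.lf 8795396 0 0) (P.cons (P.lf 2406160 0 0) (P.cons (P.lf 0 132270 0) (P.cons (P.lf 0 60647 0) P.nil)))))) (P.cons (P.cons (P.lf 13695237 0 0) (P.cons (P.lf 1635011 0 0) (P.cons (P.lf 0 711707 0) (P.cons (P.lf 0 72582 0) (P.cons (P.lf 0 600 0) P.nil))))) (P.cons (P.cons (P.lf 22533894 0 0) (P.cons (P.lf 4265366 0 0) (P.cons (P.lf 0 1663854 0) (P.cons (P.lf 0 355649 0) P.nil)))) (P.cons (P.cons (P.lf 0 875962 0) (P.cons (P.lf 0 89209 0) (P.cons (P.lf 27990 0 0) P.nil))) (P.cons (P.cons (P.lf 0 1908939 0) (P.cons (P.lf 0 249923 0) P.nil)) (P.cons (P.cons (P.lf 0 55174 0) P.nil) P.nil)))))) 811900)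
 (EL.cons 8 (TM.mk (P.cons (P.cons (P.lf 81744911 0 0) (P.cons (P.lf 20164161 0 0) (P.cons (P.lf 0 7451531 0) (P.cons (P.lf 0 2038519 0) (P.cons (P.lf 112060 0 0) (P.cons (P.lf 51381 0 0) P.nil)))))) (P.cons (P.cons (P.lf 0 31595103 0) (P.cons (P.lf 0 6316752 0) (P.cons (P.lf 2425388 0 0) (P.cons (P.lf 560053 0 0) (P.cons (P.lf 0 26897 0) P.nil))))) (P.cons (P.cons (P.lf 0 12619081 0) (P.cons (P.lf 0 2378436 0) (P.cons (P.lf 930890 0 0) (P.cons (P.lf 195642 0 0) P.nil)))) (P.cons (P.cons (P.lf 4168542 0 0) (P.cons (P.lf 718502 0 0) (P.cons (P.lf 0 275408 0) P.nil))) (P.cons (P.cons (P.lf 835572 0 0) (P.cons (P.lf 80774 0 0) P.nil)) (P.cons (P.cons (P.lf 0 195759 0) P.nil) P.nil)))))) 537815)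
 EL.nil))
noncomputable def S314_343_660_808_21 : EL := (EL.cons 4 (TM.mk (P.cons (P.cons (P.lf 0 3391529085 0) (P.cons (P.lf 0 321435789 0) (P.cons (P.lf 138606735 0 0) (P.lf 15400740 0 0)))) (P.cons (P.cons (P.lf 0 649065873 0) (P.cons (P.lf 25555077 0 0) (P.cons (P.lf 0 11019636 0) (P.lf 0 1224402 0)))) (P.cons (P.cons (P.lf 232975683 0 0) (P.cons (P.lf 14500866 0 0) (P.cons (P.lf 0 6252942 0) (P.lf 0 694767 0)))) (P.cons (P.cons (P.lf 5500917 0 0) (P.cons (P.lf 0 1993887 0) (P.cons (P.lf 859782 0 0) P.nil))) (P.cons (P.cons (P.lf 0 4596063 0) (P.cons (P.lf 0 118671 0) P.nil)) (P.cons (P.cons (P.lf 161520 0 0) P.nil) P.nil)))))) 388302)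
 (EL.cons 8 (TM.mk (P.cons (P.cons (P.lf 0 1423353885 0) (P.cons (P.lf 0 134899893 0) (P.cons (P.lf 58170357 0 0) (P.lf 6463377 0 0)))) (P.cons (P.cons (P.lf 0 620509617 0) (P.cons (P.lf 0 22267584 0) (P.cons (P.lf 9602031 0 0) (P.lf 1066890 0 0)))) (P.cons (P.cons (P.lf 9294840 0 0) (P.cons (P.lf 6636969 0 0) (P.cons (P.lf 0 2861931 0) (P.lf 0 317991 0)))) (P.cons (P.cons (P.lf 19512249 0 0) (P.cons (P.lf 576906 0 0) (P.cons (P.lf 0 248766 0) P.nil))) (P.cons (P.cons (P.lf 0 556056 0) (P.cons (P.lf 0 161865 0) P.nil)) (P.cons (P.cons (P.lf 0 255786 0) P.nil) P.nil)))))) 289770)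
 (EL.cons 11 (TM.mk (P.cons (P.cons (P.lf 850896120 0 0) (P.cons (P.lf 0 792688452 0) (P.cons (P.lf 0 81355620 0) (P.cons (P.lf 16919706 0 0) (P.lf 1409973 0 0))))) (P.cons (P.cons (P.lf 0 137876364 0) (P.cons (P.lf 128444586 0 0) (P.cons (P.lf 13182591 0 0) (P.cons (P.lf 0 2741610 0) (P.lf 0 228465 0))))) (P.cons (P.cons (P.lf 0 3177069 0) (P.cons (P.lf 2959734 0 0) (P.cons (P.lf 303765 0 0) (P.cons (P.lf 0 63174 0) P.nil)))) (P.cons (P.cons (P.lf 1531806 0 0) (P.cons (P.lf 0 1427019 0) (P.cons (P.lf 0 146457 0) P.nil))) (P.cons (P.cons (P.lf 0 42048 0) (P.cons (P.lf 39171 0 0) P.nil)) (P.cons (P.cons (P.lf 0 7458 0) P.nil) P.nil)))))) 52527)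
 EL.nil)))
noncomputable def S314_343_660_808_22 : EL := (EL.cons 4 (TM.mk (P.cons (P.cons (P.lf 1421389998 0 0) (P.cons (P.lf 310022145 0 0) (P.cons (P.lf 0 117070002 0) (P.cons (P.lf 0 29183070 0) (P.cons (P.lf 1497321 0 0) (P.cons (P.lf 686544 0 0) P.nil)))))) (P.cons (P.cons (P.lf 0 177558090 0) (P.cons (P.lf 0 62379027 0) (P.cons (P.lf 21539226 0 0) (P.cons (P.lf 7610715 0 0) (P.cons (P.lf 0 482973 0) P.nil))))) (P.cons (P.cons (P.lf 0 236719545 0) (P.cons (P.lf 0 27169428 0) (P.cons (P.lf 11357814 0 0) (P.cons (P.lf 1610457 0 0) P.nil)))) (P.cons (P.cons (P.lf 26477805 0 0) (P.cons (P.lf 7305153 0 0) (P.cons (P.lf 0 2813598 0) P.nil))) (P.cons (P.cons (P.lf 8172756 0 0) (P.cons (P.lf 309042 0 0) P.nil)) (P.cons (P.cons (P.lf 0 1168599 0) P.nil) P.nil)))))) 2780190)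
 (EL.cons 8 (TM.mk (P.cons (P.cons (P.lf 596527680 0 0) (P.cons (P.lf 130109820 0 0) (P.cons (P.lf 0 49131837 0) (P.cons (P.lf 0 12247527 0) (P.cons (P.lf 628392 0 0) (P.cons (P.lf 288126 0 0) P.nil)))))) (P.cons (P.cons (P.lf 71375592 0 0) (P.cons (P.lf 5641833 0 0) (P.cons (P.lf 0 2976624 0) (P.cons (P.lf 198678 0 0) (P.cons (P.lf 0 49005 0) P.nil))))) (P.cons (P.cons (P.lf 0 108409743 0) (P.cons (P.lf 0 15806913 0) (P.cons (P.lf 6222894 0 0) (P.cons (P.lf 1268952 0 0) P.nil)))) (P.cons (P.cons (P.lf 0 13270800 0) (P.cons (P.lf 105960 0 0) (P.cons (P.lf 36603 0 0) P.nil))) (P.cons (P.cons (P.lf 4577700 0 0) (P.cons (P.lf 677130 0 0) P.nil)) (P.cons (P.cons (P.lf 340422 0 0) P.nil) P.nil)))))) 1480617)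
 (EL.cons 11 (TM.mk (P.cons (P.cons (P.lf 0 356610603 0) (P.cons (P.lf 288232881 0 0) (P.cons (P.lf 94036185 0 0) (P.cons (P.lf 0 18446952 0) (P.cons (P.lf 0 5242029 0) (P.cons (P.lf 102762 0 0) P.nil)))))) (P.cons (P.cons (P.lf 170578914 0 0) (P.cons (P.lf 0 141092937 0) (P.cons (P.lf 0 40590546 0) (P.cons (P.lf 7992069 0 0) (P.cons (P.lf 2166780 0 0) P.nil))))) (P.cons (P.cons (P.lf 0 3638481 0) (P.cons (P.lf 1634871 0 0) (P.cons (P.lf 2739204 0 0) (P.cons (P.lf 0 525396 0) P.nil)))) (P.cons (P.cons (P.lf 0 5239119 0) (P.cons (P.lf 4641465 0 0) (P.cons (P.lf 826983 0 0) P.nil))) (P.cons (P.cons (P.lf 414672 0 0) (P.cons (P.lf 0 328683 0) P.nil)) (P.cons (P.cons (P.lf 64779 0 0) P.nil) P.nil)))))) 1316361)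
 EL.nil)))
noncomputable def S314_343_660_808_23 : EL := (EL.cons 4 (TM.mk (P.cons (P.cons (P.lf 0 1745943663 0) (P.cons (P.lf 0 165473673 0) (P.cons (P.lf 71354112 0 0) (P.lf 7928229 0 0)))) (P.cons (P.cons (P.lf 0 619688862 0) (P.cons (P.lf 0 13907925 0) (P.cons (P.lf 5997255 0 0) (P.lf 666360 0 0)))) (P.cons (P.cons (P.lf 82057554 0 0) (P.cons (P.lf 11206137 0 0) (P.cons (P.lf 0 4832214 0) (P.lf 0 536910 0)))) (P.cons (P.cons (P.lf 26086614 0 0) (P.cons (P.lf 108801 0 0) (P.cons (P.lf 0 46917 0) P.nil))) (P.cons (P.cons (P.lf 0 3049545 0) (P.cons (P.lf 0 311187 0) P.nil)) (P.cons (P.cons (P.lf 0 373986 0) P.nil) P.nil)))))) 487125)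
 (EL.cons 8 (TM.mk (P.cons (P.cons (P.lf 0 732736071 0) (P.cons (P.lf 0 69445848 0) (P.cons (P.lf 29945832 0 0) (P.lf 3327315 0 0)))) (P.cons (P.cons (P.lf 0 439276020 0) (P.cons (P.lf 0 22821261 0) (P.cons (P.lf 9840783 0 0) (P.lf 1093419 0 0)))) (P.cons (P.cons (P.lf 0 40420794 0) (P.cons (P.lf 2208933 0 0) (P.cons (P.lf 0 952515 0) (P.lf 0 105834 0)))) (P.cons (P.cons (P.lf 14076126 0 0) (P.cons (P.lf 982992 0 0) (P.cons (P.lf 0 423873 0) P.nil))) (P.cons (P.cons (P.lf 1356987 0 0) (P.cons (P.lf 0 67806 0) P.nil)) (P.cons (P.cons (P.lf 0 289692 0) P.nil) P.nil)))))) 297720)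
 (EL.cons 11 (TM.mk (P.cons (P.cons (P.lf 438037431 0 0) (P.cons (P.lf 0 408072390 0) (P.cons (P.lf 0 41881500 0) (P.cons (P.lf 8710185 0 0) (P.lf 725847 0 0))))) (P.cons (P.cons (P.lf 663810 0 0) (P.cons (P.lf 0 618402 0) (P.cons (P.lf 0 63468 0) (P.cons (P.lf 13200 0 0) (P.lf 1101 0 0))))) (P.cons (P.cons (P.lf 0 17451912 0) (P.cons (P.lf 16258071 0 0) (P.cons (P.lf 1668606 0 0) (P.cons (P.lf 0 347022 0) P.nil)))) (P.cons (P.cons (P.lf 1095123 0 0) (P.cons (P.lf 0 1020210 0) (P.cons (P.lf 0 104706 0) P.nil))) (P.cons (P.cons (P.lf 159759 0 0) (P.cons (P.lf 0 148830 0) P.nil)) (P.cons (P.cons (P.lf 0 17982 0) P.nil) P.nil)))))) 115914)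
 EL.nil)))
noncomputable def S314_343_660_808_24 : EL := (EL.cons 4 (TM.mk (P.cons (P.cons (P.lf 731725071 0 0) (P.cons (P.lf 159597981 0 0) (P.cons (P.lf 0 60267102 0) (P.cons (P.lf 0 15023310 0) (P.cons (P.lf 770814 0 0) (P.cons (P.lf 353430 0 0) P.nil)))))) (P.cons (P.cons (P.lf 28269063 0 0) (P.cons (P.lf 0 6009855 0) (P.cons (P.lf 1231485 0 0) (P.cons (P.lf 1460865 0 0) (P.cons (P.lf 0 122562 0) P.nil))))) (P.cons (P.cons (P.lf 0 143840691 0) (P.cons (P.lf 0 20771838 0) (P.cons (P.lf 8239386 0 0) (P.cons (P.lf 1614159 0 0) P.nil)))) (P.cons (P.cons (P.lf 0 5602113 0) (P.cons (P.lf 1742313 0 0) (P.cons (P.lf 0 583833 0) P.nil))) (P.cons (P.cons (P.lf 7661880 0 0) (P.cons (P.lf 923430 0 0) P.nil)) (P.cons (P.cons (P.lf 0 18969 0) P.nil) P.nil)))))) 1928784)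
 (EL.cons 8 (TM.mk (P.cons (P.cons (P.lf 307089720 0 0) (P.cons (P.lf 66979938 0 0) (P.cons (P.lf 0 25292844 0) (P.cons (P.lf 0 6304971 0) (P.cons (P.lf 323493 0 0) (P.cons (P.lf 148326 0 0) P.nil)))))) (P.cons (P.cons (P.lf 86968992 0 0) (P.cons (P.lf 13859097 0 0) (P.cons (P.lf 0 5669049 0) (P.cons (P.lf 0 928911 0) (P.cons (P.lf 27678 0 0) P.nil))))) (P.cons (P.cons (P.lf 0 52749189 0) (P.cons (P.lf 0 8305710 0) (P.cons (P.lf 3195858 0 0) (P.cons (P.lf 730542 0 0) P.nil)))) (P.cons (P.cons (P.lf 0 16387902 0) (P.cons (P.lf 0 1320702 0) (P.cons (P.lf 563727 0 0) P.nil))) (P.cons (P.cons (P.lf 1779792 0 0) (P.cons (P.lf 437901 0 0) P.nil)) (P.cons (P.cons (P.lf 641424 0 0) P.nil) P.nil)))))) 919305)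
 (EL.cons 11 (TM.mk (P.cons (P.cons (P.lf 0 183581508 0) (P.cons (P.lf 148380969 0 0) (P.cons (P.lf 48409395 0 0) (P.cons (P.lf 0 9496407 0) (P.cons (P.lf 0 2698572 0) (P.cons (P.lf 52899 0 0) P.nil)))))) (P.cons (P.cons (P.lf 57788106 0 0) (P.cons (P.lf 0 48365982 0) (P.cons (P.lf 0 12978369 0) (P.cons (P.lf 2561121 0 0) (P.cons (P.lf 674091 0 0) P.nil))))) (P.cons (P.cons (P.lf 14252433 0 0) (P.cons (P.lf 0 12463152 0) (P.cons (P.lf 0 2472441 0) (P.cons (P.lf 493647 0 0) P.nil)))) (P.cons (P.cons (P.lf 0 3801786 0) (P.cons (P.lf 3188268 0 0) (P.cons (P.lf 845172 0 0) P.nil))) (P.cons (P.cons (P.lf 0 239322 0) (P.cons (P.lf 237894 0 0) P.nil)) (P.cons (P.cons (P.lf 98622 0 0) P.nil) P.nil)))))) 967776)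
 EL.nil)))
noncomputable def S314_343_660_808_25 : EL := (EL.cons 4 (TM.mk (P.cons (P.cons (P.lf 0 898803813 0) (P.cons (P.lf 0 85185090 0) (P.cons (P.lf 36732771 0 0) (P.lf 4081416 0 0)))) (P.cons (P.cons (P.lf 0 466014225 0) (P.cons (P.lf 0 21091935 0) (P.cons (P.lf 9095079 0 0) (P.lf 1010562 0 0)))) (P.cons (P.cons (P.lf 0 1298541 0) (P.cons (P.lf 5416158 0 0) (P.cons (P.lf 0 2335509 0) (P.lf 0 259497 0)))) (P.cons (P.cons (P.lf 23623692 0 0) (P.cons (P.lf 1089252 0 0) (P.cons (P.lf 0 469698 0) P.nil))) (P.cons (P.cons (P.lf 259662 0 0) (P.cons (P.lf 0 208437 0) P.nil)) (P.cons (P.cons (P.lf 0 602070 0) P.nil) P.nil)))))) 409677)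
 (EL.cons 8 (TM.mk (P.cons (P.cons (P.lf 0 377209176 0) (P.cons (P.lf 0 35750403 0) (P.cons (P.lf 15415977 0 0) (P.lf 1712886 0 0)))) (P.cons (P.cons (P.lf 0 287830632 0) (P.cons (P.lf 0 17595333 0) (P.cons (P.lf 7587306 0 0) (P.lf 843033 0 0)))) (P.cons (P.cons (P.lf 0 54170220 0) (P.cons (P.lf 0 440889 0) (P.cons (P.lf 190116 0 0) (P.lf 21123 0 0)))) (P.cons (P.cons (P.lf 6108111 0 0) (P.cons (P.lf 813669 0 0) (P.cons (P.lf 0 350862 0) P.nil))) (P.cons (P.cons (P.lf 2122647 0 0) (P.cons (P.lf 38250 0 0) P.nil)) (P.cons (P.cons (P.lf 0 109044 0) P.nil) P.nil)))))) 255624)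
 (EL.cons 11 (TM.mk (P.cons (P.cons (P.lf 225499665 0 0) (P.cons (P.lf 0 210073800 0) (P.cons (P.lf 0 21560403 0) (P.cons (P.lf 4483962 0 0) (P.lf 373662 0 0))))) (P.cons (P.cons (P.lf 37222665 0 0) (P.cons (P.lf 0 34676358 0) (P.cons (P.lf 0 3558921 0) (P.cons (P.lf 740157 0 0) (P.lf 61680 0 0))))) (P.cons (P.cons (P.lf 0 11094405 0) (P.cons (P.lf 10335465 0 0) (P.cons (P.lf 1060755 0 0) (P.cons (P.lf 0 220605 0) P.nil)))) (P.cons (P.cons (P.lf 0 964365 0) (P.cons (P.lf 898395 0 0) (P.cons (P.lf 92205 0 0) P.nil))) (P.cons (P.cons (P.lf 270582 0 0) (P.cons (P.lf 0 252072 0) P.nil)) (P.cons (P.cons (P.lf 843 0 0) P.nil) P.nil)))))) 126204)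
 EL.nil)))
noncomputable def S314_343_660_808_26 : EL := (EL.cons 4 (TM.mk (P.cons (P.cons (P.lf 376688718 0 0) (P.cons (P.lf 82160310 0 0) (P.cons (P.lf 0 31025229 0) (P.cons (P.lf 0 7733931 0) (P.cons (P.lf 396810 0 0) (P.cons (P.lf 181944 0 0) P.nil)))))) (P.cons (P.cons (P.lf 76161006 0 0) (P.cons (P.lf 10343643 0 0) (P.cons (P.lf 0 4440276 0) (P.cons (P.lf 0 512850 0) (P.cons (P.lf 1803 0 0) P.nil))))) (P.cons (P.cons (P.lf 0 75286833 0) (P.cons (P.lf 0 11988477 0) (P.cons (P.lf 4643310 0 0) (P.cons (P.lf 1028250 0 0) P.nil)))) (P.cons (P.cons (P.lf 0 15227187 0) (P.cons (P.lf 0 842457 0) (P.cons (P.lf 394707 0 0) P.nil))) (P.cons (P.cons (P.lf 4196916 0 0) (P.cons (P.lf 729165 0 0) P.nil)) (P.cons (P.cons (P.lf 681624 0 0) P.nil) P.nil)))))) 1321920)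
 (EL.cons 8 (TM.mk (P.cons (P.cons (P.lf 158088384 0 0) (P.cons (P.lf 34480965 0 0) (P.cons (P.lf 0 13020639 0) (P.cons (P.lf 0 3245769 0) (P.cons (P.lf 166533 0 0) (P.cons (P.lf 76356 0 0) P.nil)))))) (P.cons (P.cons (P.lf 70626921 0 0) (P.cons (P.lf 12774033 0 0) (P.cons (P.lf 0 5047953 0) (P.cons (P.lf 0 1009050 0) (P.cons (P.lf 41484 0 0) P.nil))))) (P.cons (P.cons (P.lf 0 21351195 0) (P.cons (P.lf 0 3440085 0) (P.cons (P.lf 1292976 0 0) (P.cons (P.lf 329049 0 0) P.nil)))) (P.cons (P.cons (P.lf 0 13346637 0) (P.cons (P.lf 0 1456215 0) (P.cons (P.lf 590517 0 0) P.nil))) (P.cons (P.cons (P.lf 0 206775 0) (P.cons (P.lf 155064 0 0) P.nil)) (P.cons (P.cons (P.lf 569628 0 0) P.nil) P.nil)))))) 634125)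
 (EL.cons 11 (TM.mk (P.cons (P.cons (P.lf 0 94506918 0) (P.cons (P.lf 76385844 0 0) (P.cons (P.lf 24920934 0 0) (P.cons (P.lf 0 4888707 0) (P.cons (P.lf 0 1389213 0) (P.cons (P.lf 27231 0 0) P.nil)))))) (P.cons (P.cons (P.lf 14292249 0 0) (P.cons (P.lf 0 12405522 0) (P.cons (P.lf 0 2605332 0) (P.cons (P.lf 518895 0 0) (P.cons (P.lf 119808 0 0) P.nil))))) (P.cons (P.cons (P.lf 13110432 0 0) (P.cons (P.lf 0 11221944 0) (P.cons (P.lf 0 2604915 0) (P.cons (P.lf 516723 0 0) P.nil)))) (P.cons (P.cons (P.lf 0 1019664 0) (P.cons (P.lf 812343 0 0) (P.cons (P.lf 284970 0 0) P.nil))) (P.cons (P.cons (P.lf 0 525249 0) (P.cons (P.lf 462021 0 0) P.nil)) (P.cons (P.cons (P.lf 48990 0 0) P.nil) P.nil)))))) 684042)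
 EL.nil)))
noncomputable def S314_343_660_808_27 : EL := (EL.cons 13 (TM.mk (P.lf 0 4294967296 0) 0)
 EL.nil)
noncomputable def S314_343_660_808_28 : EL := (EL.cons 13 (TM.mk (P.cons (P.cons (P.lf 1800020998 0 0) (P.cons (P.lf 222007180 0 0) (P.cons (P.lf 0 95732000 0) (P.lf 0 10636884 0)))) (P.cons (P.cons (P.lf 0 569341543 0) (P.cons (P.lf 0 53959952 0) (P.cons (P.lf 23268140 0 0) (P.lf 2585348 0 0)))) (P.cons (P.cons (P.lf 0 67167763 0) (P.cons (P.lf 942480 0 0) (P.cons (P.lf 0 406404 0) (P.lf 0 45156 0)))) (P.cons (P.cons (P.lf 10195004 0 0) (P.cons (P.lf 759260 0 0) (P.cons (P.lf 0 327400 0) P.nil))) (P.cons (P.cons (P.lf 421973 0 0) (P.cons (P.lf 0 56196 0) P.nil)) (P.cons (P.cons (P.lf 0 111990 0) P.nil) P.nil)))))) 89705)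
 EL.nil)
noncomputable def S314_343_660_808_29 : EL := (EL.cons 13 (TM.mk (P.cons (P.cons (P.lf 0 754388885 0) (P.cons (P.lf 0 186086439 0) (P.cons (P.lf 68767003 0 0) (P.cons (P.lf 18812625 0 0) (P.cons (P.lf 0 1034160 0) (P.cons (P.lf 0 474178 0) P.nil)))))) (P.cons (P.cons (P.lf 477222135 0 0) (P.cons (P.lf 104087850 0 0) (P.cons (P.lf 0 39305467 0) (P.cons (P.lf 0 9798020 0) (P.cons (P.lf 502715 0 0) P.nil))))) (P.cons (P.cons (P.lf 0 19171979 0) (P.cons (P.lf 0 8152052 0) (P.cons (P.lf 2739892 0 0) (P.cons (P.lf 1059272 0 0) P.nil)))) (P.cons (P.cons (P.lf 0 26352991 0) (P.cons (P.lf 0 3128230 0) (P.cons (P.lf 1294117 0 0) P.nil))) (P.cons (P.cons (P.lf 1298787 0 0) (P.cons (P.lf 490423 0 0) P.nil)) (P.cons (P.cons (P.lf 524617 0 0) P.nil) P.nil)))))) 1371093)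
 EL.nil)
noncomputable def S314_343_660_808_30 : EL := (EL.cons 13 (TM.mk (P.cons (P.lf 0 2211029524 0) (P.cons (P.lf 0 361618480 0) (P.cons (P.lf 21238980 0 0) (P.cons (P.lf 543904 0 0) (P.cons (P.lf 0 97232 0) (P.cons (P.lf 1560 0 0) P.nil)))))) 512)
 EL.nil)
noncomputable def S314_343_660_808_31 : EL := (EL.cons 13 (TM.mk (P.cons (P.cons (P.lf 926642578 0 0) (P.cons (P.lf 114288281 0 0) (P.cons (P.lf 0 49282395 0) (P.lf 0 5475819 0)))) (P.cons (P.cons (P.lf 0 141540100 0) (P.cons (P.lf 0 9086250 0) (P.cons (P.lf 3918093 0 0) (P.lf 435343 0 0)))) (P.cons (P.cons (P.lf 0 91415117 0) (P.cons (P.lf 0 5155864 0) (P.cons (P.lf 2223269 0 0) (P.lf 247029 0 0)))) (P.cons (P.cons (P.lf 2180585 0 0) (P.cons (P.lf 708938 0 0) (P.cons (P.lf 0 305701 0) P.nil))) (P.cons (P.cons (P.lf 1520607 0 0) (P.cons (P.lf 42195 0 0) P.nil)) (P.cons (P.cons (P.lf 0 77575 0) P.nil) P.nil)))))) 136108)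
 EL.nil)
noncomputable def S314_343_660_808_32 : EL := (EL.cons 13 (TM.mk (P.cons (P.cons (P.lf 0 388355948 0) (P.cons (P.lf 0 95796447 0) (P.cons (P.lf 35400938 0 0) (P.cons (P.lf 9684653 0 0) (P.cons (P.lf 0 532380 0) (P.cons (P.lf 0 244104 0) P.nil)))))) (P.cons (P.cons (P.lf 182155349 0 0) (P.cons (P.lf 37916240 0 0) (P.cons (P.lf 0 14444377 0) (P.cons (P.lf 0 3460030 0) (P.cons (P.lf 171723 0 0) P.nil))))) (P.cons (P.cons (P.lf 34041000 0 0) (P.cons (P.lf 5487340 0 0) (P.cons (P.lf 0 2238932 0) (P.cons (P.lf 0 372674 0) P.nil)))) (P.cons (P.cons (P.lf 0 17444970 0) (P.cons (P.lf 0 2787925 0) (P.cons (P.lf 1082553 0 0) P.nil))) (P.cons (P.cons (P.lf 0 1532908 0) (P.cons (P.lf 12001 0 0) P.nil)) (P.cons (P.cons (P.lf 523246 0 0) P.nil) P.nil)))))) 1326700)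
 EL.nil)
noncomputable def S314_343_660_808_33 : EL := (EL.cons 14 (TM.mk (P.lf 8589934592 0 0) 0)
 EL.nil)
noncomputable def S314_343_660_808_34 : EL := (EL.cons 14 (TM.mk (P.cons (P.cons (P.lf 0 3600041996 0) (P.cons (P.lf 0 444014360 0) (P.cons (P.lf 191464000 0 0) (P.lf 21273768 0 0)))) (P.cons (P.cons (P.lf 1138683086 0 0) (P.cons (P.lf 107919904 0 0) (P.cons (P.lf 0 46536280 0) (P.lf 0 5170696 0)))) (P.cons (P.cons (P.lf 134335526 0 0) (P.cons (P.lf 0 1884960 0) (P.cons (P.lf 812808 0 0) (P.lf 90312 0 0)))) (P.cons (P.cons (P.lf 0 20390008 0) (P.cons (P.lf 0 1518520 0) (P.cons (P.lf 654800 0 0) P.nil))) (P.cons (P.cons (P.lf 0 843946 0) (P.cons (P.lf 112392 0 0) P.nil)) (P.cons (P.cons (P.lf 223980 0 0) P.nil) P.nil)))))) 179410)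
 EL.nil)
noncomputable def S314_343_660_808_35 : EL := (EL.cons 14 (TM.mk (P.cons (P.cons (P.lf 1508777770 0 0) (P.cons (P.lf 372172878 0 0) (P.cons (P.lf 0 137534006 0) (P.cons (P.lf 0 37625250 0) (P.cons (P.lf 2068320 0 0) (P.cons (P.lf 948356 0 0) P.nil)))))) (P.cons (P.cons (P.lf 0 954444270 0) (P.cons (P.lf 0 208175700 0) (P.cons (P.lf 78610934 0 0) (P.cons (P.lf 19596040 0 0) (P.cons (P.lf 0 1005430 0) P.nil))))) (P.cons (P.cons (P.lf 38343958 0 0) (P.cons (P.lf 16304104 0 0) (P.cons (P.lf 0 5479784 0) (P.cons (P.lf 0 2118544 0) P.nil)))) (P.cons (P.cons (P.lf 52705982 0 0) (P.cons (P.lf 6256460 0 0) (P.cons (P.lf 0 2588234 0) P.nil))) (P.cons (P.cons (P.lf 0 2597574 0) (P.cons (P.lf 0 980846 0) P.nil)) (P.cons (P.cons (P.lf 0 1049234 0) P.nil) P.nil)))))) 2742186)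
 EL.nil)
noncomputable def S314_343_660_808_36 : EL := (EL.cons 14 (TM.mk (P.cons (P.lf 4422059048 0 0) (P.cons (P.lf 723236960 0 0) (P.cons (P.lf 0 42477960 0) (P.cons (P.lf 0 1087808 0) (P.cons (P.lf 194464 0 0) (P.cons (P.lf 0 3120 0) P.nil)))))) 1024)
 EL.nil)
noncomputable def S314_343_660_808_37 : EL := (EL.cons 14 (TM.mk (P.cons (P.cons (P.lf 0 1853285156 0) (P.cons (P.lf 0 228576562 0) (P.cons (P.lf 98564790 0 0) (P.lf 10951638 0 0)))) (P.cons (P.cons (P.lf 283080200 0 0) (P.cons (P.lf 18172500 0 0) (P.cons (P.lf 0 7836186 0) (P.lf 0 870686 0)))) (P.cons (P.cons (P.lf 182830234 0 0) (P.cons (P.lf 10311728 0 0) (P.cons (P.lf 0 4446538 0) (P.lf 0 494058 0)))) (P.cons (P.cons (P.lf 0 4361170 0) (P.cons (P.lf 0 1417876 0) (P.cons (P.lf 611402 0 0) P.nil))) (P.cons (P.cons (P.lf 0 3041214 0) (P.cons (P.lf 0 84390 0) P.nil)) (P.cons (P.cons (P.lf 155150 0 0) P.nil) P.nil))))))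 272216)
 EL.nil)
noncomputable def S314_343_660_808_38 : EL := (EL.cons 14 (TM.mk (P.cons (P.cons (P.lf 776711896 0 0) (P.cons (P.lf 191592894 0 0) (P.cons (P.lf 0 70801876 0) (P.cons (P.lf 0 19369306 0) (P.cons (P.lf 1064760 0 0) (P.cons (P.lf 488208 0 0) P.nil)))))) (P.cons (P.cons (P.lf 0 364310698 0) (P.cons (P.lf 0 75832480 0) (P.cons (P.lf 28888754 0 0) (P.cons (P.lf 6920060 0 0) (P.cons (P.lf 0 343446 0) P.nil))))) (P.cons (P.cons (P.lf 0 68082000 0) (P.cons (P.lf 0 10974680 0) (P.cons (P.lf 4477864 0 0) (P.cons (P.lf 745348 0 0) P.nil)))) (P.cons (P.cons (P.lf 34889940 0 0) (P.cons (P.lf 5575850 0 0) (P.cons (P.lf 0 2165106 0) P.nil))) (P.cons (P.cons (P.lf 3065816 0 0) (P.cons (P.lf 0 24002 0) P.nil)) (P.cons (P.cons (P.lf 0 1046492 0) P.nil) P.nil)))))) 2653400)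
 EL.nil)
noncomputable def S314_343_660_808_39 : EL := (EL.cons 14 (TM.mk (P.cons (P.lf 2276455776 0 0) (P.cons (P.lf 744638158 0 0) (P.cons (P.lf 17158640 0 0) (P.cons (P.lf 0 8272934 0) (P.cons (P.lf 227096 0 0) (P.cons (P.lf 40292 0 0) P.nil)))))) 3922)
 EL.nil)
noncomputable def S314_343_660_808_40 : EL := (EL.cons 14 (TM.mk (P.cons (P.cons (P.lf 0 954062722 0) (P.cons (P.lf 0 117670168 0) (P.cons (P.lf 50740704 0 0) (P.lf 5637852 0 0)))) (P.cons (P.cons (P.lf 0 10310550 0) (P.cons (P.lf 0 9890080 0) (P.cons (P.lf 4264714 0 0) (P.lf 473856 0 0)))) (P.cons (P.cons (P.lf 127119004 0 0) (P.cons (P.lf 7968810 0 0) (P.cons (P.lf 0 3436242 0) (P.lf 0 381804 0)))) (P.cons (P.cons (P.lf 11983276 0 0) (P.cons (P.lf 77370 0 0) (P.cons (P.lf 0 33364 0) P.nil))) (P.cons (P.cons (P.lf 0 2914710 0) (P.cons (P.lf 0 221292 0) P.nil)) (P.cons (P.cons (P.lf 0 170690 0) P.nil) P.nil))))))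 298728)
 EL.nil)
noncomputable def S314_343_660_808_41 : EL := (EL.cons 14 (TM.mk (P.cons (P.cons (P.lf 399847732 0 0) (P.cons (P.lf 98631146 0 0) (P.cons (P.lf 0 36448482 0) (P.cons (P.lf 0 9971230 0) (P.cons (P.lf 548134 0 0) (P.cons (P.lf 251326 0 0) P.nil)))))) (P.cons (P.cons (P.lf 0 122149552 0) (P.cons (P.lf 0 22906884 0) (P.cons (P.lf 8910572 0 0) (P.cons (P.lf 1931600 0 0) (P.cons (P.lf 0 87156 0) P.nil))))) (P.cons (P.cons (P.lf 0 69562662 0) (P.cons (P.lf 0 12981940 0) (P.cons (P.lf 5087618 0 0) (P.cons (P.lf 1062124 0 0) P.nil)))) (P.cons (P.cons (P.lf 13932146 0 0) (P.cons (P.lf 2297134 0 0) (P.cons (P.lf 0 871460 0) P.nil))) (P.cons (P.cons (P.lf 4916246 0 0) (P.cons (P.lf 525316 0 0) P.nil)) (P.cons (P.cons (P.lf 0 453040 0) P.nil) P.nil)))))) 2063674)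
 EL.nil)
noncomputable def S314_343_660_808_42 : EL := (EL.cons 14 (TM.mk (P.cons (P.lf 1171909022 0 0) (P.cons (P.lf 575004478 0 0) (P.cons (P.lf 60271372 0 0) (P.cons (P.lf 0 6784766 0) (P.cons (P.lf 0 707252 0) (P.cons (P.lf 94630 0 0) P.nil)))))) 9404)
 EL.nil)
noncomputable def S314_343_660_808_43 : EL := (EL.cons 14 (TM.mk (P.cons (P.cons (P.lf 0 491147126 0) (P.cons (P.lf 0 60576064 0) (P.cons (P.lf 26121082 0 0) (P.lf 2902340 0 0)))) (P.cons (P.cons (P.lf 0 85635958 0) (P.cons (P.lf 0 14998708 0) (P.cons (P.lf 6467612 0 0) (P.lf 718622 0 0)))) (P.cons (P.cons (P.lf 69290098 0 0) (P.cons (P.lf 3851492 0 0) (P.cons (P.lf 0 1660808 0) (P.lf 0 184534 0)))) (P.cons (P.cons (P.lf 17043636 0 0) (P.cons (P.lf 774578 0 0) (P.cons (P.lf 0 334008 0) P.nil))) (P.cons (P.cons (P.lf 0 1140444 0) (P.cons (P.lf 0 148222 0) P.nil)) (P.cons (P.cons (P.lf 0 408520 0) P.nil) P.nil))))))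 328554)
 EL.nil)
noncomputable def S314_343_660_808_44 : EL := (EL.cons 14 (TM.mk (P.cons (P.cons (P.lf 205839782 0 0) (P.cons (P.lf 50774862 0 0) (P.cons (P.lf 0 18763512 0) (P.cons (P.lf 0 5133142 0) (P.cons (P.lf 282176 0 0) (P.cons (P.lf 129382 0 0) P.nil)))))) (P.cons (P.cons (P.lf 0 29216506 0) (P.cons (P.lf 0 3488024 0) (P.cons (P.lf 1518310 0 0) (P.cons (P.lf 154842 0 0) (P.cons (P.lf 1282 0 0) P.nil))))) (P.cons (P.cons (P.lf 0 48072308 0) (P.cons (P.lf 0 9099448 0) (P.cons (P.lf 3549556 0 0) (P.cons (P.lf 758718 0 0) P.nil)))) (P.cons (P.cons (P.lf 1868720 0 0) (P.cons (P.lf 190314 0 0) (P.cons (P.lf 0 59714 0) P.nil))) (P.cons (P.cons (P.lf 4072404 0 0) (P.cons (P.lf 533170 0 0) P.nil)) (P.cons (P.cons (P.lf 117706 0 0) P.nil) P.nil)))))) 1732008)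
 EL.nil)
noncomputable def S314_343_660_808_45 : EL := (EL.cons 14 (TM.mk (P.cons (P.cons (P.lf 0 632328834 0) (P.cons (P.lf 0 233966506 0) (P.cons (P.lf 72032530 0 0) (P.cons (P.lf 34910002 0 0) (P.cons (P.lf 0 1065802 0) (P.cons (P.lf 0 1683624 0) P.nil)))))) (P.cons (P.cons (P.lf 600011458 0 0) (P.cons (P.lf 204872612 0 0) (P.cons (P.lf 0 65188746 0) (P.cons (P.lf 0 28919962 0) (P.cons (P.lf 967612 0 0) P.nil))))) (P.cons (P.cons (P.lf 0 118995894 0) (P.cons (P.lf 0 42912824 0) (P.cons (P.lf 13194712 0 0) (P.cons (P.lf 6409960 0 0) P.nil)))) (P.cons (P.cons (P.lf 0 35513878 0) (P.cons (P.lf 0 6899756 0) (P.cons (P.lf 2767248 0 0) P.nil))) (P.cons (P.cons (P.lf 10792344 0 0) (P.cons (P.lf 2929482 0 0) P.nil)) (P.cons (P.cons (P.lf 961748 0 0) P.nil) P.nil)))))) 9006800)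
 EL.nil)
noncomputable def S314_343_660_808_46 : EL := (EL.cons 15 (TM.mk (P.lf 4294967296 0 0) 0)
 EL.nil)
noncomputable def S314_343_660_808_47 : EL := (EL.cons 15 (TM.mk (P.cons (P.cons (P.lf 0 1800020998 0) (P.cons (P.lf 0 222007180 0) (P.cons (P.lf 95732000 0 0) (P.lf 10636884 0 0)))) (P.cons (P.cons (P.lf 569341543 0 0) (P.cons (P.lf 53959952 0 0) (P.cons (P.lf 0 23268140 0) (P.lf 0 2585348 0)))) (P.cons (P.cons (P.lf 67167763 0 0) (P.cons (P.lf 0 942480 0) (P.cons (P.lf 406404 0 0) (P.lf 45156 0 0)))) (P.cons (P.cons (P.lf 0 10195004 0) (P.cons (P.lf 0 759260 0) (P.cons (P.lf 327400 0 0) P.nil))) (P.cons (P.cons (P.lf 0 421973 0) (P.cons (P.lf 56196 0 0) P.nil)) (P.cons (P.cons (P.lf 111990 0 0) P.nil) P.nil)))))) 89705)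
 EL.nil)
noncomputable def S314_343_660_808_48 : EL := (EL.cons 15 (TM.mk (P.cons (P.cons (P.lf 754388885 0 0) (P.cons (P.lf 186086439 0 0) (P.cons (P.lf 0 68767003 0) (P.cons (P.lf 0 18812625 0) (P.cons (P.lf 1034160 0 0) (P.cons (P.lf 474178 0 0) P.nil)))))) (P.cons (P.cons (P.lf 0 477222135 0) (P.cons (P.lf 0 104087850 0) (P.cons (P.lf 39305467 0 0) (P.cons (P.lf 9798020 0 0) (P.cons (P.lf 0 502715 0) P.nil))))) (P.cons (P.cons (P.lf 19171979 0 0) (P.cons (P.lf 8152052 0 0) (P.cons (P.lf 0 2739892 0) (P.cons (P.lf 0 1059272 0) P.nil)))) (P.cons (P.cons (P.lf 26352991 0 0) (P.cons (P.lf 3128230 0 0) (P.cons (P.lf 0 1294117 0) P.nil))) (P.cons (P.cons (P.lf 0 1298787 0) (P.cons (P.lf 0 490423 0) P.nil)) (P.cons (P.cons (P.lf 0 524617 0) P.nil) P.nil)))))) 1371093)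
 EL.nil)
noncomputable def S314_343_660_808 : SL := (SL.cons S314_343_660_808_0 (SL.cons S314_343_660_808_1 (SL.cons S314_343_660_808_2 (SL.cons S314_343_660_808_3 (SL.cons S314_343_660_808_4 (SL.cons S314_343_660_808_5 (SL.cons S314_343_660_808_6 (SL.cons S314_343_660_808_7 (SL.cons S314_343_660_808_8 (SL.cons S314_343_660_808_9 (SL.cons S314_343_660_808_10 (SL.cons S314_343_660_808_11 (SL.cons S314_343_660_808_12 (SL.cons S314_343_660_808_13 (SL.cons S314_343_660_808_14 (SL.cons S314_343_660_808_15 (SL.cons S314_343_660_808_16 (SL.cons S314_343_660_808_17 (SL.cons S314_343_660_808_18 (SL.cons S314_343_660_808_19 (SL.cons S314_343_660_808_20 (SL.cons S314_343_660_808_21 (SL.cons S314_343_660_808_22 (SL.cons S314_343_660_808_23 (SL.cons S314_343_660_808_24 (SL.cons S314_343_660_808_25 (SL.cons S314_343_660_808_26 (SL.cons S314_343_660_808_27 (SL.cons S314_343_660_808_28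 (SL.cons S314_343_660_808_29 (SL.cons S314_343_660_808_30 (SL.cons S314_343_660_808_31 (SL.cons S314_343_660_808_32 (SL.cons S314_343_660_808_33 (SL.cons S314_343_660_808_34 (SL.cons S314_343_660_808_35 (SL.cons S314_343_660_808_36 (SL.cons S314_343_660_808_37 (SL.cons S314_343_660_808_38 (SL.cons S314_343_660_808_39 (SL.cons S314_343_660_808_40 (SL.cons S314_343_660_808_41 (SL.cons S314_343_660_808_42 (SL.cons S314_343_660_808_43 (SL.cons S314_343_660_808_44 (SL.cons S314_343_660_808_45 (SL.cons S314_343_660_808_46 (SL.cons S314_343_660_808_47 (SL.cons S314_343_660_808_48 SL.nil)))))))))))))))))))))))))))))))))))))))))))))))))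
noncomputable def S314_343_734_808_0 : EL := (EL.cons 0 (TM.mk (P.cons (P.lf 6454925654 0 0) (P.cons (P.lf 0 654467131 0) (P.cons (P.lf 0 15080835 0) (P.cons (P.lf 7271133 0 0) (P.cons (P.lf 0 199596 0) (P.cons (P.lf 0 35412 0) P.nil)))))) 3454)
 (EL.cons 1 (TM.mk (P.cons (P.lf 1695086628 0 0) (P.cons (P.lf 139901857 0 0) (P.cons (P.lf 0 47471786 0) (P.cons (P.lf 293435 0 0) (P.cons (P.lf 328029 0 0) (P.cons (P.lf 0 15684 0) P.nil)))))) 1940)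
 (EL.cons 5 (TM.mk (P.cons (P.lf 5006359730 0 0) (P.cons (P.lf 232699422 0 0) (P.cons (P.lf 5362070 0 0) (P.cons (P.lf 0 2585292 0) (P.cons (P.lf 70970 0 0) (P.cons (P.lf 12590 0 0) P.nil)))))) 1169)
 (EL.cons 9 (TM.mk (P.lf 6442450944 0 0) 2)
 EL.nil))))
noncomputable def S314_343_734_808_1 : EL := (EL.cons 0 (TM.mk (P.cons (P.cons (P.lf 559350366 0 0) (P.cons (P.lf 0 6232390 0) (P.cons (P.lf 2942069 0 0) (P.lf 140100 0 0)))) (P.cons (P.cons (P.lf 2346326470 0 0) (P.cons (P.lf 37567161 0 0) (P.cons (P.lf 0 17734000 0) (P.lf 0 844472 0)))) (P.cons (P.cons (P.lf 0 144883438 0) (P.cons (P.lf 0 7958399 0) (P.cons (P.lf 3756847 0 0) (P.lf 178887 0 0)))) (P.cons (P.cons (P.lf 0 80198344 0) (P.cons (P.lf 0 470719 0) (P.cons (P.lf 222206 0 0) P.nil))) (P.cons (P.cons (P.lf 7792082 0 0) (P.cons (P.lf 236747 0 0) P.nil)) (P.cons (P.cons (P.lf 1059267 0 0) P.nil) P.nil)))))) 501363)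
 (EL.cons 1 (TM.mk (P.cons (P.cons (P.lf 0 1469653731 0) (P.cons (P.lf 0 41014436 0) (P.cons (P.lf 19361326 0 0) (P.lf 921961 0 0)))) (P.cons (P.cons (P.lf 446692321 0 0) (P.cons (P.lf 15068250 0 0) (P.cons (P.lf 0 7113129 0) (P.lf 0 338712 0)))) (P.cons (P.cons (P.lf 229652370 0 0) (P.cons (P.lf 2005642 0 0) (P.cons (P.lf 0 946784 0) (P.lf 0 45083 0)))) (P.cons (P.cons (P.lf 0 27485132 0) (P.cons (P.lf 0 872915 0) (P.cons (P.lf 412060 0 0) P.nil))) (P.cons (P.cons (P.lf 0 5274174 0) (P.cons (P.lf 13339 0 0) P.nil)) (P.cons (P.cons (P.lf 746890 0 0) P.nil) P.nil)))))) 272992)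
 (EL.cons 5 (TM.mk (P.cons (P.cons (P.lf 0 3404675505 0) (P.cons (P.lf 0 98336928 0) (P.cons (P.lf 46421048 0 0) (P.lf 2210522 0 0)))) (P.cons (P.cons (P.lf 169058832 0 0) (P.cons (P.lf 11082674 0 0) (P.cons (P.lf 0 5231702 0) (P.lf 0 249136 0)))) (P.cons (P.cons (P.lf 165080526 0 0) (P.cons (P.lf 2402780 0 0) (P.cons (P.lf 0 1134256 0) (P.lf 0 54006 0)))) (P.cons (P.cons (P.lf 10684954 0 0) (P.cons (P.lf 0 176528 0) (P.cons (P.lf 83334 0 0) P.nil))) (P.cons (P.cons (P.lf 0 3450975 0) (P.cons (P.lf 0 58718 0) P.nil)) (P.cons (P.cons (P.lf 0 183625 0) P.nil) P.nil)))))) 222142)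
 (EL.cons 9 (TM.mk (P.cons (P.cons (P.lf 0 2828642967 0) (P.cons (P.lf 0 88723128 0) (P.cons (P.lf 41882748 0 0) (P.lf 1994412 0 0)))) (P.cons (P.cons (P.lf 885271972 0 0) (P.cons (P.lf 21564594 0 0) (P.cons (P.lf 0 10179804 0) (P.lf 0 484752 0)))) (P.cons (P.cons (P.lf 100205656 0 0) (P.cons (P.lf 0 376650 0) (P.cons (P.lf 177804 0 0) (P.lf 8466 0 0)))) (P.cons (P.cons (P.lf 0 15732354 0) (P.cons (P.lf 0 303432 0) (P.cons (P.lf 143232 0 0) P.nil))) (P.cons (P.cons (P.lf 0 600403 0) (P.cons (P.lf 22458 0 0) P.nil)) (P.cons (P.cons (P.lf 170283 0 0) P.nil) P.nil)))))) 42788)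
 (EL.cons 2 (TM.mk (P.cons (P.cons (P.lf 0 210623436 0) (P.cons (P.lf 207683589 0 0) (P.cons (P.lf 6498618 0 0) (P.cons (P.lf 0 1190843 0) (P.lf 0 42527 0))))) (P.cons (P.cons (P.lf 0 319182 0) (P.cons (P.lf 314727 0 0) (P.cons (P.lf 9846 0 0) (P.cons (P.lf 0 1805 0) (P.lf 0 64 0))))) (P.cons (P.cons (P.lf 8391476 0 0) (P.cons (P.lf 0 8274352 0) (P.cons (P.lf 0 258910 0) (P.cons (P.lf 47441 0 0) P.nil)))) (P.cons (P.cons (P.lf 0 526573 0) (P.cons (P.lf 519221 0 0) (P.cons (P.lf 16245 0 0) P.nil))) (P.cons (P.cons (P.lf 0 76815 0) (P.cons (P.lf 75743 0 0) P.nil)) (P.cons (P.cons (P.lf 8645 0 0) P.nil) P.nil)))))) 21570)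
 (EL.cons 6 (TM.mk (P.cons (P.cons (P.lf 178441893 0 0) (P.cons (P.lf 0 175951230 0) (P.cons (P.lf 0 5505681 0) (P.cons (P.lf 1008891 0 0) (P.lf 36030 0 0))))) (P.cons (P.cons (P.lf 0 43371189 0) (P.cons (P.lf 42765822 0 0) (P.cons (P.lf 1338183 0 0) (P.cons (P.lf 0 245214 0) (P.lf 0 8754 0))))) (P.cons (P.cons (P.lf 757533 0 0) (P.cons (P.lf 0 746958 0) (P.cons (P.lf 0 23373 0) (P.cons (P.lf 4284 0 0) P.nil)))) (P.cons (P.cons (P.lf 610269 0 0) (P.cons (P.lf 0 601752 0) (P.cons (P.lf 0 18828 0) P.nil))) (P.cons (P.cons (P.lf 0 45168 0) (P.cons (P.lf 44538 0 0) P.nil)) (P.cons (P.cons (P.lf 0 3180 0) P.nil) P.nil)))))) 12279)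
 EL.nil))))))
noncomputable def S314_343_734_808_2 : EL := (EL.cons 0 (TM.mk (P.cons (P.cons (P.lf 0 1735538090 0) (P.cons (P.lf 0 87994490 0) (P.cons (P.lf 40486218 0 0) (P.cons (P.lf 2971784 0 0) (P.cons (P.lf 0 187230 0) (P.cons (P.lf 0 22337 0) P.nil)))))) (P.cons (P.cons (P.lf 0 1001596093 0) (P.cons (P.lf 0 44264236 0) (P.cons (P.lf 20538229 0 0) (P.cons (P.lf 1332276 0 0) (P.cons (P.lf 0 63546 0) P.nil))))) (P.cons (P.cons (P.lf 679670928 0 0) (P.cons (P.lf 29029362 0 0) (P.cons (P.lf 0 13372393 0) (P.cons (P.lf 0 965267 0) P.nil)))) (P.cons (P.cons (P.lf 59627579 0 0) (P.cons (P.lf 0 766378 0) (P.cons (P.lf 317413 0 0) P.nil))) (P.cons (P.cons (P.lf 0 37515774 0) (P.cons (P.lf 0 1326608 0) P.nil)) (P.cons (P.cons (P.lf 0 363967 0) P.nil) P.nil)))))) 3121237)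
 (EL.cons 1 (TM.mk (P.cons (P.cons (P.lf 963768847 0 0) (P.cons (P.lf 55995858 0 0) (P.cons (P.lf 0 25625280 0) (P.cons (P.lf 0 2021753 0) (P.cons (P.lf 143761 0 0) (P.cons (P.lf 17151 0 0) P.nil)))))) (P.cons (P.cons (P.lf 0 618580825 0) (P.cons (P.lf 0 36939544 0) (P.cons (P.lf 16877851 0 0) (P.cons (P.lf 1358932 0 0) (P.cons (P.lf 0 99579 0) P.nil))))) (P.cons (P.cons (P.lf 0 107441679 0) (P.cons (P.lf 0 1464456 0) (P.cons (P.lf 741923 0 0) (P.cons (P.lf 0 14863 0) P.nil)))) (P.cons (P.cons (P.lf 90926632 0 0) (P.cons (P.lf 3635350 0 0) (P.cons (P.lf 0 1684280 0) P.nil))) (P.cons (P.cons (P.lf 2225034 0 0) (P.cons (P.lf 0 323240 0) P.nil)) (P.cons (P.cons (P.lf 0 3636990 0) P.nil) P.nil)))))) 1599191)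
 (EL.cons 5 (TM.mk (P.cons (P.cons (P.lf 2024626897 0 0) (P.cons (P.lf 119585063 0 0) (P.cons (P.lf 0 54692446 0) (P.cons (P.lf 0 4348885 0) (P.cons (P.lf 312888 0 0) (P.cons (P.lf 37324 0 0) P.nil)))))) (P.cons (P.cons (P.lf 0 524908362 0) (P.cons (P.lf 0 33357310 0) (P.cons (P.lf 15200544 0 0) (P.cons (P.lf 1265463 0 0) (P.cons (P.lf 0 97137 0) P.nil))))) (P.cons (P.cons (P.lf 0 203519540 0) (P.cons (P.lf 0 6358002 0) (P.cons (P.lf 2977154 0 0) (P.cons (P.lf 165771 0 0) P.nil)))) (P.cons (P.cons (P.lf 25666936 0 0) (P.cons (P.lf 1708515 0 0) (P.cons (P.lf 0 784134 0) P.nil))) (P.cons (P.cons (P.lf 10802747 0 0) (P.cons (P.lf 240914 0 0) P.nil)) (P.cons (P.cons (P.lf 0 781731 0) P.nil) P.nil)))))) 1448639)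
 (EL.cons 9 (TM.mk (P.cons (P.cons (P.lf 1241952961 0 0) (P.cons (P.lf 77910115 0 0) (P.cons (P.lf 0 35556480 0) (P.cons (P.lf 0 2904933 0) (P.cons (P.lf 217348 0 0) (P.cons (P.lf 25930 0 0) P.nil)))))) (P.cons (P.cons (P.lf 0 777380646 0) (P.cons (P.lf 0 43319734 0) (P.cons (P.lf 19855602 0 0) (P.cons (P.lf 1534557 0 0) (P.cons (P.lf 0 105655 0) P.nil))))) (P.cons (P.cons (P.lf 33654025 0 0) (P.cons (P.lf 3497233 0 0) (P.cons (P.lf 0 1568352 0) (P.cons (P.lf 0 156556 0) P.nil)))) (P.cons (P.cons (P.lf 41353972 0 0) (P.cons (P.lf 1267089 0 0) (P.cons (P.lf 0 592300 0) P.nil))) (P.cons (P.cons (P.lf 0 2237811 0) (P.cons (P.lf 0 203611 0) P.nil)) (P.cons (P.cons (P.lf 0 803935 0) P.nil) P.nil)))))) 395855)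
 (EL.cons 2 (TM.mk (P.cons (P.cons (P.lf 184953988 0 0) (P.cons (P.lf 0 176571168 0) (P.cons (P.lf 0 14165443 0) (P.cons (P.lf 3436633 0 0) (P.cons (P.lf 283224 0 0) (P.cons (P.lf 0 10288 0) P.nil)))))) (P.cons (P.cons (P.lf 0 57604213 0) (P.cons (P.lf 55398948 0 0) (P.cons (P.lf 3820471 0 0) (P.cons (P.lf 0 903189 0) (P.cons (P.lf 0 71015 0) P.nil))))) (P.cons (P.cons (P.lf 0 14008556 0) (P.cons (P.lf 13604388 0 0) (P.cons (P.lf 736436 0 0) (P.cons (P.lf 0 165189 0) P.nil)))) (P.cons (P.cons (P.lf 3787329 0 0) (P.cons (P.lf 0 3643908 0) (P.cons (P.lf 0 248895 0) P.nil))) (P.cons (P.cons (P.lf 224595 0 0) (P.cons (P.lf 0 225292 0) P.nil)) (P.cons (P.cons (P.lf 0 97138 0) P.nil) P.nil)))))) 276361)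
 (EL.cons 6 (TM.mk (P.cons (P.cons (P.lf 0 156694524 0) (P.cons (P.lf 149592534 0 0) (P.cons (P.lf 12001080 0 0) (P.cons (P.lf 0 2911542 0) (P.cons (P.lf 0 239952 0) (P.cons (P.lf 8712 0 0) P.nil)))))) (P.cons (P.cons (P.lf 87125604 0 0) (P.cons (P.lf 0 83520348 0) (P.cons (P.lf 0 6171840 0) (P.cons (P.lf 1477266 0 0) (P.cons (P.lf 118854 0 0) P.nil))))) (P.cons (P.cons (P.lf 0 7033716 0) (P.cons (P.lf 6603462 0 0) (P.cons (P.lf 701220 0 0) (P.cons (P.lf 0 176628 0) P.nil)))) (P.cons (P.cons (P.lf 0 2548398 0) (P.cons (P.lf 2489346 0 0) (P.cons (P.lf 112854 0 0) P.nil))) (P.cons (P.cons (P.lf 409506 0 0) (P.cons (P.lf 0 393222 0) P.nil)) (P.cons (P.cons (P.lf 23178 0 0) P.nil) P.nil)))))) 209070)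
 EL.nil))))))
noncomputable def S314_343_734_808_3 : EL := (EL.cons 0 (TM.mk (P.cons (P.lf 2000791209 0 0) (P.cons (P.lf 654467131 0 0) (P.cons (P.lf 15080835 0 0) (P.cons (P.lf 0 7271133 0) (P.cons (P.lf 199596 0 0) (P.cons (P.lf 35412 0 0) P.nil)))))) 3454)
 (EL.cons 1 (TM.mk (P.cons (P.lf 0 1695086628 0) (P.cons (P.lf 0 139901857 0) (P.cons (P.lf 47471786 0 0) (P.cons (P.lf 0 293435 0) (P.cons (P.lf 0 328029 0) (P.cons (P.lf 15684 0 0) P.nil)))))) 1940)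
 (EL.cons 5 (TM.mk (P.cons (P.lf 1436091214 0 0) (P.cons (P.lf 0 232699422 0) (P.cons (P.lf 0 5362070 0) (P.cons (P.lf 2585292 0 0) (P.cons (P.lf 0 70970 0) (P.cons (P.lf 0 12590 0) P.nil)))))) 1162)
 EL.nil)))
noncomputable def S314_343_734_808_4 : EL := (EL.cons 0 (TM.mk (P.cons (P.cons (P.lf 0 878473740 0) (P.cons (P.lf 0 27554178 0) (P.cons (P.lf 13007258 0 0) (P.lf 619391 0 0)))) (P.cons (P.cons (P.lf 0 12419103 0) (P.cons (P.lf 0 2315907 0) (P.cons (P.lf 1093250 0 0) (P.lf 52057 0 0)))) (P.cons (P.cons (P.lf 114430626 0 0) (P.cons (P.lf 1866012 0 0) (P.cons (P.lf 0 880871 0) (P.lf 0 41944 0)))) (P.cons (P.cons (P.lf 10558439 0 0) (P.cons (P.lf 18116 0 0) (P.cons (P.lf 0 8553 0) P.nil))) (P.cons (P.cons (P.lf 0 2636871 0) (P.cons (P.lf 0 51818 0) P.nil)) (P.cons (P.cons (P.lf 0 146151 0) P.nil) P.nil)))))) 105934)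
 (EL.cons 1 (TM.mk (P.cons (P.cons (P.lf 744250115 0 0) (P.cons (P.lf 23344125 0 0) (P.cons (P.lf 0 11019855 0) (P.lf 0 524752 0)))) (P.cons (P.cons (P.lf 0 171499989 0) (P.cons (P.lf 0 3747225 0) (P.cons (P.lf 1768918 0 0) (P.lf 84232 0 0)))) (P.cons (P.cons (P.lf 0 66432665 0) (P.cons (P.lf 0 1022951 0) (P.cons (P.lf 482895 0 0) (P.lf 22993 0 0)))) (P.cons (P.cons (P.lf 8615386 0 0) (P.cons (P.lf 250955 0 0) (P.cons (P.lf 0 118464 0) P.nil))) (P.cons (P.cons (P.lf 1341690 0 0) (P.cons (P.lf 1440 0 0) P.nil)) (P.cons (P.cons (P.lf 0 204215 0) P.nil) P.nil)))))) 68214)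
 (EL.cons 5 (TM.mk (P.cons (P.cons (P.lf 0 630534768 0) (P.cons (P.lf 0 19777332 0) (P.cons (P.lf 9336112 0 0) (P.lf 444574 0 0)))) (P.cons (P.cons (P.lf 299506336 0 0) (P.cons (P.lf 8011630 0 0) (P.cons (P.lf 0 3781978 0) (P.lf 0 180092 0)))) (P.cons (P.cons (P.lf 0 7284560 0) (P.cons (P.lf 0 789020 0) (P.cons (P.lf 372466 0 0) (P.lf 17736 0 0)))) (P.cons (P.cons (P.lf 0 8998228 0) (P.cons (P.lf 0 107584 0) (P.cons (P.lf 50784 0 0) P.nil))) (P.cons (P.cons (P.lf 737420 0 0) (P.cons (P.lf 25910 0 0) P.nil)) (P.cons (P.cons (P.lf 108724 0 0) P.nil) P.nil)))))) 46088)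
 EL.nil)))
noncomputable def S314_343_734_808_5 : EL := (EL.cons 0 (TM.mk (P.cons (P.cons (P.lf 385705469 0 0) (P.cons (P.lf 24196050 0 0) (P.cons (P.lf 0 11042550 0) (P.cons (P.lf 0 902165 0) (P.cons (P.lf 67500 0 0) (P.cons (P.lf 8052 0 0) P.nil)))))) (P.cons (P.cons (P.lf 0 115260321 0) (P.cons (P.lf 0 5538905 0) (P.cons (P.lf 2554363 0 0) (P.cons (P.lf 181474 0 0) (P.cons (P.lf 0 10731 0) P.nil))))) (P.cons (P.cons (P.lf 0 65612561 0) (P.cons (P.lf 0 3132216 0) (P.cons (P.lf 1446758 0 0) (P.cons (P.lf 100469 0 0) P.nil)))) (P.cons (P.cons (P.lf 13040402 0 0) (P.cons (P.lf 559446 0 0) (P.cons (P.lf 0 256659 0) P.nil))) (P.cons (P.cons (P.lf 4500659 0 0) (P.cons (P.lf 124976 0 0) P.nil)) (P.cons (P.cons (P.lf 0 435440 0) P.nil) P.nil)))))) 475737)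
 (EL.cons 1 (TM.mk (P.cons (P.cons (P.lf 0 326772817 0) (P.cons (P.lf 0 20499091 0) (P.cons (P.lf 9355338 0 0) (P.cons (P.lf 764321 0 0) (P.cons (P.lf 0 57185 0) (P.cons (P.lf 0 6821 0) P.nil)))))) (P.cons (P.cons (P.lf 177568445 0 0) (P.cons (P.lf 9706076 0 0) (P.cons (P.lf 0 4452116 0) (P.cons (P.lf 0 340676 0) (P.cons (P.lf 23077 0 0) P.nil))))) (P.cons (P.cons (P.lf 17177970 0 0) (P.cons (P.lf 594637 0 0) (P.cons (P.lf 0 280524 0) (P.cons (P.lf 0 13535 0) P.nil)))) (P.cons (P.cons (P.lf 0 17396313 0) (P.cons (P.lf 0 732084 0) (P.cons (P.lf 337824 0 0) P.nil))) (P.cons (P.cons (P.lf 0 89077 0) (P.cons (P.lf 49831 0 0) P.nil)) (P.cons (P.cons (P.lf 605911 0 0) P.nil) P.nil)))))) 343698)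
 (EL.cons 5 (TM.mk (P.cons (P.cons (P.lf 276844596 0 0) (P.cons (P.lf 17366996 0 0) (P.cons (P.lf 0 7925918 0) (P.cons (P.lf 0 647540 0) (P.cons (P.lf 48448 0 0) (P.cons (P.lf 5778 0 0) P.nil)))))) (P.cons (P.cons (P.lf 0 218145432 0) (P.cons (P.lf 0 12470520 0) (P.cons (P.lf 5710314 0 0) (P.cons (P.lf 446994 0 0) (P.cons (P.lf 0 31402 0) P.nil))))) (P.cons (P.cons (P.lf 34546918 0 0) (P.cons (P.lf 2279420 0 0) (P.cons (P.lf 0 1037186 0) (P.cons (P.lf 0 87908 0) P.nil)))) (P.cons (P.cons (P.lf 9148068 0 0) (P.cons (P.lf 223446 0 0) (P.cons (P.lf 0 106174 0) P.nil))) (P.cons (P.cons (P.lf 0 2346170 0) (P.cons (P.lf 0 112306 0) P.nil)) (P.cons (P.cons (P.lf 0 113152 0) P.nil) P.nil)))))) 227796)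
 EL.nil)))
noncomputable def S314_343_734_808_6 : EL := (EL.cons 12 (TM.mk (P.lf 8589934592 0 0) 0)
 (EL.cons 3 (TM.mk (P.cons (P.lf 2072840178 0 0) (P.cons (P.lf 339017325 0 0) (P.cons (P.lf 0 19911543 0) (P.cons (P.lf 0 509910 0) (P.cons (P.lf 91155 0 0) (P.cons (P.lf 0 1462 0) P.nil)))))) 487)
 (EL.cons 7 (TM.mk (P.cons (P.lf 0 1756127103 0) (P.cons (P.lf 142278485 0 0) (P.cons (P.lf 9042093 0 0) (P.cons (P.lf 0 848140 0) (P.cons (P.lf 0 2043 0) (P.cons (P.lf 3166 0 0) P.nil)))))) 195)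
 EL.nil)))
noncomputable def S314_343_734_808_7 : EL := (EL.cons 12 (TM.mk (P.cons (P.cons (P.lf 0 3771523956 0) (P.cons (P.lf 0 118297504 0) (P.cons (P.lf 55843664 0 0) (P.lf 2659216 0 0)))) (P.cons (P.cons (P.lf 1180362630 0 0) (P.cons (P.lf 28752792 0 0) (P.cons (P.lf 0 13573072 0) (P.lf 0 646336 0)))) (P.cons (P.cons (P.lf 133607542 0 0) (P.cons (P.lf 0 502200 0) (P.cons (P.lf 237072 0 0) (P.lf 11288 0 0)))) (P.cons (P.cons (P.lf 0 20976472 0) (P.cons (P.lf 0 404576 0) (P.cons (P.lf 190976 0 0) P.nil))) (P.cons (P.cons (P.lf 0 800538 0) (P.cons (P.lf 29944 0 0) P.nil)) (P.cons (P.cons (P.lf 227044 0 0) P.nil) P.nil)))))) 57026)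
 (EL.cons 3 (TM.mk (P.cons (P.cons (P.lf 2605562414 0 0) (P.cons (P.lf 57092824 0 0) (P.cons (P.lf 0 26951308 0) (P.lf 0 1283392 0)))) (P.cons (P.cons (P.lf 775179996 0 0) (P.cons (P.lf 0 4539040 0) (P.cons (P.lf 2142700 0 0) (P.lf 102030 0 0)))) (P.cons (P.cons (P.lf 0 151007584 0) (P.cons (P.lf 0 2575618 0) (P.cons (P.lf 1215846 0 0) (P.lf 57896 0 0)))) (P.cons (P.cons (P.lf 0 7031843 0) (P.cons (P.lf 354150 0 0) (P.cons (P.lf 0 167176 0) P.nil))) (P.cons (P.cons (P.lf 3201048 0 0) (P.cons (P.lf 21078 0 0) P.nil)) (P.cons (P.cons (P.lf 0 97445 0) P.nil) P.nil)))))) 189104)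
 (EL.cons 7 (TM.mk (P.cons (P.cons (P.lf 2246504060 0 0) (P.cons (P.lf 60125761 0 0) (P.cons (P.lf 0 28383040 0) (P.lf 0 1351574 0)))) (P.cons (P.cons (P.lf 325326841 0 0) (P.cons (P.lf 0 1904946 0) (P.cons (P.lf 899253 0 0) (P.lf 42823 0 0)))) (P.cons (P.cons (P.lf 0 23592067 0) (P.cons (P.lf 0 1313877 0) (P.cons (P.lf 620229 0 0) (P.lf 29533 0 0)))) (P.cons (P.cons (P.lf 0 11618748 0) (P.cons (P.lf 0 37363 0) (P.cons (P.lf 17635 0 0) P.nil))) (P.cons (P.cons (P.lf 459781 0 0) (P.cons (P.lf 26963 0 0) P.nil)) (P.cons (P.cons (P.lf 159365 0 0) P.nil) P.nil)))))) 123084)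
 (EL.cons 10 (TM.mk (P.cons (P.cons (P.lf 0 436416075 0) (P.cons (P.lf 430324653 0 0) (P.cons (P.lf 13465272 0 0) (P.cons (P.lf 0 2467455 0) (P.lf 0 88122 0))))) (P.cons (P.cons (P.lf 70715400 0 0) (P.cons (P.lf 0 69728367 0) (P.cons (P.lf 0 2181867 0) (P.cons (P.lf 399816 0 0) (P.lf 14277 0 0))))) (P.cons (P.cons (P.lf 1629486 0 0) (P.cons (P.lf 0 1606743 0) (P.cons (P.lf 0 50274 0) (P.cons (P.lf 9210 0 0) P.nil)))) (P.cons (P.cons (P.lf 0 785646 0) (P.cons (P.lf 774681 0 0) (P.cons (P.lf 24240 0 0) P.nil))) (P.cons (P.cons (P.lf 21567 0 0) (P.cons (P.lf 0 21264 0) P.nil)) (P.cons (P.cons (P.lf 3825 0 0) P.nil) P.nil)))))) 10452)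
 EL.nil))))
noncomputable def S314_343_734_808_8 : EL := (EL.cons 12 (TM.mk (P.cons (P.cons (P.lf 1655937282 0 0) (P.cons (P.lf 103880154 0 0) (P.cons (P.lf 0 47408640 0) (P.cons (P.lf 0 3873244 0) (P.cons (P.lf 289798 0 0) (P.cons (P.lf 34574 0 0) P.nil)))))) (P.cons (P.cons (P.lf 0 1036507528 0) (P.cons (P.lf 0 57759646 0) (P.cons (P.lf 26474136 0 0) (P.cons (P.lf 2046076 0 0) (P.cons (P.lf 0 140874 0) P.nil))))) (P.cons (P.cons (P.lf 44872034 0 0) (P.cons (P.lf 4662978 0 0) (P.cons (P.lf 0 2091136 0) (P.cons (P.lf 0 208742 0) P.nil)))) (P.cons (P.cons (P.lf 55138630 0 0) (P.cons (P.lf 1689452 0 0) (P.cons (P.lf 0 789734 0) P.nil))) (P.cons (P.cons (P.lf 0 2983748 0) (P.cons (P.lf 0 271482 0) P.nil)) (P.cons (P.cons (P.lf 0 1071914 0) P.nil) P.nil)))))) 527778)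
 (EL.cons 3 (TM.mk (P.cons (P.cons (P.lf 0 2687607829 0) (P.cons (P.lf 0 146967812 0) (P.cons (P.lf 67412147 0 0) (P.cons (P.lf 5159511 0 0) (P.cons (P.lf 0 349656 0) (P.cons (P.lf 0 41716 0) P.nil)))))) (P.cons (P.cons (P.lf 220132077 0 0) (P.cons (P.lf 25606560 0 0) (P.cons (P.lf 0 11453817 0) (P.cons (P.lf 0 1174216 0) (P.cons (P.lf 112780 0 0) P.nil))))) (P.cons (P.cons (P.lf 460613952 0 0) (P.cons (P.lf 13229524 0 0) (P.cons (P.lf 0 6202788 0) (P.cons (P.lf 0 337364 0) P.nil)))) (P.cons (P.cons (P.lf 0 41317793 0) (P.cons (P.lf 0 3311629 0) (P.cons (P.lf 1523475 0 0) P.nil))) (P.cons (P.cons (P.lf 0 15143807 0) (P.cons (P.lf 0 157097 0) P.nil)) (P.cons (P.cons (P.lf 1995498 0 0) P.nil) P.nil)))))) 1526229)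
 (EL.cons 7 (TM.mk (P.cons (P.cons (P.lf 0 1634174418 0) (P.cons (P.lf 0 93436841 0) (P.cons (P.lf 42784909 0 0) (P.cons (P.lf 3349442 0 0) (P.cons (P.lf 0 235334 0) (P.cons (P.lf 0 28074 0) P.nil)))))) (P.cons (P.cons (P.lf 92384844 0 0) (P.cons (P.lf 10746549 0 0) (P.cons (P.lf 0 4806937 0) (P.cons (P.lf 0 492798 0) (P.cons (P.lf 47328 0 0) P.nil))))) (P.cons (P.cons (P.lf 204607346 0 0) (P.cons (P.lf 6866293 0 0) (P.cons (P.lf 0 3190991 0) (P.cons (P.lf 0 201844 0) P.nil)))) (P.cons (P.cons (P.lf 14651326 0 0) (P.cons (P.lf 0 429543 0) (P.cons (P.lf 190325 0 0) P.nil))) (P.cons (P.cons (P.lf 0 8010837 0) (P.cons (P.lf 0 273459 0) P.nil)) (P.cons (P.cons (P.lf 0 425864 0) P.nil) P.nil)))))) 910589)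
 (EL.cons 10 (TM.mk (P.cons (P.cons (P.lf 383228454 0 0) (P.cons (P.lf 0 365859084 0) (P.cons (P.lf 0 29351094 0) (P.cons (P.lf 7120782 0 0) (P.cons (P.lf 586854 0 0) (P.cons (P.lf 0 21312 0) P.nil)))))) (P.cons (P.cons (P.lf 0 182034924 0) (P.cons (P.lf 174624774 0 0) (P.cons (P.lf 12716532 0 0) (P.cons (P.lf 0 3036048 0) (P.cons (P.lf 0 243138 0) P.nil))))) (P.cons (P.cons (P.lf 4427430 0 0) (P.cons (P.lf 0 3886080 0) (P.cons (P.lf 0 835842 0) (P.cons (P.lf 222672 0 0) P.nil)))) (P.cons (P.cons (P.lf 5468970 0 0) (P.cons (P.lf 0 5327244 0) (P.cons (P.lf 0 264078 0) P.nil))) (P.cons (P.cons (P.lf 0 448188 0) (P.cons (P.lf 426186 0 0) P.nil)) (P.cons (P.cons (P.lf 0 66078 0) P.nil) P.nil)))))) 303384)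
 EL.nil))))
noncomputable def S314_343_734_808_9 : EL := (EL.cons 3 (TM.mk (P.cons (P.lf 2072840178 0 0) (P.cons (P.lf 339017325 0 0) (P.cons (P.lf 0 19911543 0) (P.cons (P.lf 0 509910 0) (P.cons (P.lf 91155 0 0) (P.cons (P.lf 0 1462 0) P.nil)))))) 487)
 (EL.cons 7 (TM.mk (P.cons (P.lf 0 1756127103 0) (P.cons (P.lf 142278485 0 0) (P.cons (P.lf 9042093 0 0) (P.cons (P.lf 0 848140 0) (P.cons (P.lf 0 2043 0) (P.cons (P.lf 3166 0 0) P.nil)))))) 195)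
 EL.nil))
noncomputable def S314_343_734_808_10 : EL := (EL.cons 3 (TM.mk (P.cons (P.cons (P.lf 0 910107790 0) (P.cons (P.lf 0 28546412 0) (P.cons (P.lf 13475654 0 0) (P.lf 641696 0 0)))) (P.cons (P.cons (P.lf 135983703 0 0) (P.cons (P.lf 2269520 0 0) (P.cons (P.lf 0 1071350 0) (P.lf 0 51015 0)))) (P.cons (P.cons (P.lf 87568457 0 0) (P.cons (P.lf 1287809 0 0) (P.cons (P.lf 0 607923 0) (P.lf 0 28948 0)))) (P.cons (P.cons (P.lf 0 2300984 0) (P.cons (P.lf 0 177075 0) (P.cons (P.lf 83588 0 0) P.nil))) (P.cons (P.cons (P.lf 0 1440846 0) (P.cons (P.lf 0 10539 0) P.nil)) (P.cons (P.cons (P.lf 77053 0 0) P.nil) P.nil)))))) 45910)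
 (EL.cons 7 (TM.mk (P.cons (P.cons (P.lf 771050741 0 0) (P.cons (P.lf 24184753 0 0) (P.cons (P.lf 0 11416684 0) (P.lf 0 543650 0)))) (P.cons (P.cons (P.lf 0 303782699 0) (P.cons (P.lf 0 7837632 0) (P.cons (P.lf 3699840 0 0) (P.lf 176182 0 0)))) (P.cons (P.cons (P.lf 0 11733976 0) (P.cons (P.lf 454389 0 0) (P.cons (P.lf 0 214500 0) (P.lf 0 10214 0)))) (P.cons (P.cons (P.lf 8116308 0 0) (P.cons (P.lf 116339 0 0) (P.cons (P.lf 0 54917 0) P.nil))) (P.cons (P.cons (P.lf 0 158786 0) (P.cons (P.lf 0 16162 0) P.nil)) (P.cons (P.cons (P.lf 0 96619 0) P.nil) P.nil)))))) 27707)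
 EL.nil))
noncomputable def S314_343_734_808_11 : EL := (EL.cons 3 (TM.mk (P.cons (P.cons (P.lf 399594815 0 0) (P.cons (P.lf 25067356 0 0) (P.cons (P.lf 0 11440195 0) (P.cons (P.lf 0 934653 0) (P.cons (P.lf 69930 0 0) (P.cons (P.lf 8342 0 0) P.nil)))))) (P.cons (P.cons (P.lf 0 184765437 0) (P.cons (P.lf 0 9838182 0) (P.cons (P.lf 4517415 0 0) (P.cons (P.lf 340874 0 0) (P.cons (P.lf 0 22556 0) P.nil))))) (P.cons (P.cons (P.lf 0 33918036 0) (P.cons (P.lf 0 1395158 0) (P.cons (P.lf 650130 0 0) (P.cons (P.lf 39358 0 0) P.nil)))) (P.cons (P.cons (P.lf 17380813 0 0) (P.cons (P.lf 719435 0 0) (P.cons (P.lf 0 331653 0) P.nil))) (P.cons (P.cons (P.lf 1431223 0 0) (P.cons (P.lf 0 5111 0) P.nil)) (P.cons (P.cons (P.lf 0 518178 0) P.nil) P.nil)))))) 284891)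
 (EL.cons 7 (TM.mk (P.cons (P.cons (P.lf 0 338539986 0) (P.cons (P.lf 0 21237269 0) (P.cons (P.lf 9692227 0 0) (P.cons (P.lf 791846 0 0) (P.cons (P.lf 0 59246 0) (P.cons (P.lf 0 7068 0) P.nil)))))) (P.cons (P.cons (P.lf 239331648 0 0) (P.cons (P.lf 13528995 0 0) (P.cons (P.lf 0 6197623 0) (P.cons (P.lf 0 482454 0) (P.cons (P.lf 33600 0 0) P.nil))))) (P.cons (P.cons (P.lf 0 24598624 0) (P.cons (P.lf 0 1800647 0) (P.cons (P.lf 816109 0 0) (P.cons (P.lf 72488 0 0) P.nil)))) (P.cons (P.cons (P.lf 0 11783882 0) (P.cons (P.lf 0 339213 0) (P.cons (P.lf 159365 0 0) P.nil))) (P.cons (P.cons (P.lf 1672461 0 0) (P.cons (P.lf 94071 0 0) P.nil)) (P.cons (P.cons (P.lf 224188 0 0) P.nil) P.nil)))))) 181885)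
 EL.nil))
noncomputable def S314_343_734_808_12 : EL := (EL.cons 4 (TM.mk (P.cons (P.lf 0 2072840178 0) (P.cons (P.lf 0 339017325 0) (P.cons (P.lf 19911543 0 0) (P.cons (P.lf 509910 0 0) (P.cons (P.lf 0 91155 0) (P.cons (P.lf 1462 0 0) P.nil)))))) 487)
 (EL.cons 8 (TM.mk (P.cons (P.lf 1756127103 0 0) (P.cons (P.lf 0 142278485 0) (P.cons (P.lf 0 9042093 0) (P.cons (P.lf 848140 0 0) (P.cons (P.lf 2043 0 0) (P.cons (P.lf 0 3166 0) P.nil)))))) 195)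
 EL.nil))
noncomputable def S314_343_734_808_13 : EL := (EL.cons 4 (TM.mk (P.cons (P.cons (P.lf 910107790 0 0) (P.cons (P.lf 28546412 0 0) (P.cons (P.lf 0 13475654 0) (P.lf 0 641696 0)))) (P.cons (P.cons (P.lf 0 135983703 0) (P.cons (P.lf 0 2269520 0) (P.cons (P.lf 1071350 0 0) (P.lf 51015 0 0)))) (P.cons (P.cons (P.lf 0 87568457 0) (P.cons (P.lf 0 1287809 0) (P.cons (P.lf 607923 0 0) (P.lf 28948 0 0)))) (P.cons (P.cons (P.lf 2300984 0 0) (P.cons (P.lf 177075 0 0) (P.cons (P.lf 0 83588 0) P.nil))) (P.cons (P.cons (P.lf 1440846 0 0) (P.cons (P.lf 10539 0 0) P.nil)) (P.cons (P.cons (P.lf 0 77053 0) P.nil) P.nil)))))) 45910)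
 (EL.cons 8 (TM.mk (P.cons (P.cons (P.lf 0 771050741 0) (P.cons (P.lf 0 24184753 0) (P.cons (P.lf 11416684 0 0) (P.lf 543650 0 0)))) (P.cons (P.cons (P.lf 303782699 0 0) (P.cons (P.lf 7837632 0 0) (P.cons (P.lf 0 3699840 0) (P.lf 0 176182 0)))) (P.cons (P.cons (P.lf 11733976 0 0) (P.cons (P.lf 0 454389 0) (P.cons (P.lf 214500 0 0) (P.lf 10214 0 0)))) (P.cons (P.cons (P.lf 0 8116308 0) (P.cons (P.lf 0 116339 0) (P.cons (P.lf 54917 0 0) P.nil))) (P.cons (P.cons (P.lf 158786 0 0) (P.cons (P.lf 16162 0 0) P.nil)) (P.cons (P.cons (P.lf 96619 0 0) P.nil) P.nil)))))) 27707)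
 EL.nil))
noncomputable def S314_343_734_808_14 : EL := (EL.cons 4 (TM.mk (P.cons (P.cons (P.lf 0 399594815 0) (P.cons (P.lf 0 25067356 0) (P.cons (P.lf 11440195 0 0) (P.cons (P.lf 934653 0 0) (P.cons (P.lf 0 69930 0) (P.cons (P.lf 0 8342 0) P.nil)))))) (P.cons (P.cons (P.lf 184765437 0 0) (P.cons (P.lf 9838182 0 0) (P.cons (P.lf 0 4517415 0) (P.cons (P.lf 0 340874 0) (P.cons (P.lf 22556 0 0) P.nil))))) (P.cons (P.cons (P.lf 33918036 0 0) (P.cons (P.lf 1395158 0 0) (P.cons (P.lf 0 650130 0) (P.cons (P.lf 0 39358 0) P.nil)))) (P.cons (P.cons (P.lf 0 17380813 0) (P.cons (P.lf 0 719435 0) (P.cons (P.lf 331653 0 0) P.nil))) (P.cons (P.cons (P.lf 0 1431223 0) (P.cons (P.lf 5111 0 0) P.nil)) (P.cons (P.cons (P.lf 518178 0 0) P.nil) P.nil)))))) 284891)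
 (EL.cons 8 (TM.mk (P.cons (P.cons (P.lf 338539986 0 0) (P.cons (P.lf 21237269 0 0) (P.cons (P.lf 0 9692227 0) (P.cons (P.lf 0 791846 0) (P.cons (P.lf 59246 0 0) (P.cons (P.lf 7068 0 0) P.nil)))))) (P.cons (P.cons (P.lf 0 239331648 0) (P.cons (P.lf 0 13528995 0) (P.cons (P.lf 6197623 0 0) (P.cons (P.lf 482454 0 0) (P.cons (P.lf 0 33600 0) P.nil))))) (P.cons (P.cons (P.lf 24598624 0 0) (P.cons (P.lf 1800647 0 0) (P.cons (P.lf 0 816109 0) (P.cons (P.lf 0 72488 0) P.nil)))) (P.cons (P.cons (P.lf 11783882 0 0) (P.cons (P.lf 339213 0 0) (P.cons (P.lf 0 159365 0) P.nil))) (P.cons (P.cons (P.lf 0 1672461 0) (P.cons (P.lf 0 94071 0) P.nil)) (P.cons (P.cons (P.lf 0 224188 0) P.nil) P.nil)))))) 181885)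
 EL.nil))
noncomputable def S314_343_734_808_15 : EL := (EL.cons 4 (TM.mk (P.cons (P.lf 0 1067088645 0) (P.cons (P.lf 0 349049136 0) (P.cons (P.lf 0 8043112 0) (P.cons (P.lf 3877937 0 0) (P.cons (P.lf 0 106451 0) (P.cons (P.lf 0 18886 0) P.nil)))))) 1845)
 (EL.cons 8 (TM.mk (P.cons (P.lf 904046202 0 0) (P.cons (P.lf 74614324 0 0) (P.cons (P.lf 0 25318286 0) (P.cons (P.lf 156499 0 0) (P.cons (P.lf 174949 0 0) (P.cons (P.lf 0 8365 0) P.nil)))))) 1031)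
 EL.nil))
noncomputable def S314_343_734_808_16 : EL := (EL.cons 4 (TM.mk (P.cons (P.cons (P.lf 468519328 0 0) (P.cons (P.lf 14695561 0 0) (P.cons (P.lf 0 6937204 0) (P.lf 0 330342 0)))) (P.cons (P.cons (P.lf 6623521 0 0) (P.cons (P.lf 1235150 0 0) (P.cons (P.lf 0 583066 0) (P.lf 0 27764 0)))) (P.cons (P.cons (P.lf 0 61029667 0) (P.cons (P.lf 0 995206 0) (P.cons (P.lf 469798 0 0) (P.lf 22370 0 0)))) (P.cons (P.cons (P.lf 0 5631167 0) (P.cons (P.lf 0 9661 0) (P.cons (P.lf 4561 0 0) P.nil))) (P.cons (P.cons (P.lf 1406331 0 0) (P.cons (P.lf 27636 0 0) P.nil)) (P.cons (P.cons (P.lf 77947 0 0) P.nil) P.nil)))))) 56507)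
 (EL.cons 8 (TM.mk (P.cons (P.cons (P.lf 0 396933395 0) (P.cons (P.lf 0 12450200 0) (P.cons (P.lf 5877256 0 0) (P.lf 279868 0 0)))) (P.cons (P.cons (P.lf 91466661 0 0) (P.cons (P.lf 1998520 0 0) (P.cons (P.lf 0 943423 0) (P.lf 0 44924 0)))) (P.cons (P.cons (P.lf 35430755 0 0) (P.cons (P.lf 545574 0 0) (P.cons (P.lf 0 257544 0) (P.lf 0 12263 0)))) (P.cons (P.cons (P.lf 0 4594873 0) (P.cons (P.lf 0 133843 0) (P.cons (P.lf 63181 0 0) P.nil))) (P.cons (P.cons (P.lf 0 715568 0) (P.cons (P.lf 0 768 0) P.nil)) (P.cons (P.cons (P.lf 108915 0 0) P.nil) P.nil)))))) 36371)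
 EL.nil))
noncomputable def S314_343_734_808_17 : EL := (EL.cons 4 (TM.mk (P.cons (P.cons (P.lf 0 205709583 0) (P.cons (P.lf 0 12904560 0) (P.cons (P.lf 5889360 0 0) (P.cons (P.lf 481155 0 0) (P.cons (P.lf 0 36000 0) (P.cons (P.lf 0 4294 0) P.nil)))))) (P.cons (P.cons (P.lf 61472171 0 0) (P.cons (P.lf 2954083 0 0) (P.cons (P.lf 0 1362327 0) (P.cons (P.lf 0 96786 0) (P.cons (P.lf 5723 0 0) P.nil))))) (P.cons (P.cons (P.lf 34993365 0 0) (P.cons (P.lf 1670515 0 0) (P.cons (P.lf 0 771604 0) (P.cons (P.lf 0 53583 0) P.nil)))) (P.cons (P.cons (P.lf 0 6954881 0) (P.cons (P.lf 0 298371 0) (P.cons (P.lf 136885 0 0) P.nil))) (P.cons (P.cons (P.lf 0 2400351 0) (P.cons (P.lf 0 66654 0) P.nil)) (P.cons (P.cons (P.lf 232234 0 0) P.nil) P.nil)))))) 253736)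
 (EL.cons 8 (TM.mk (P.cons (P.cons (P.lf 174278836 0 0) (P.cons (P.lf 10932849 0 0) (P.cons (P.lf 0 4989514 0) (P.cons (P.lf 0 407638 0) (P.cons (P.lf 30499 0 0) (P.cons (P.lf 3638 0 0) P.nil)))))) (P.cons (P.cons (P.lf 0 94703171 0) (P.cons (P.lf 0 5176574 0) (P.cons (P.lf 2374462 0 0) (P.cons (P.lf 181694 0 0) (P.cons (P.lf 0 12308 0) P.nil))))) (P.cons (P.cons (P.lf 0 9161584 0) (P.cons (P.lf 0 317140 0) (P.cons (P.lf 149613 0 0) (P.cons (P.lf 7219 0 0) P.nil)))) (P.cons (P.cons (P.lf 9278034 0 0) (P.cons (P.lf 390445 0 0) (P.cons (P.lf 0 180173 0) P.nil))) (P.cons (P.cons (P.lf 47508 0 0) (P.cons (P.lf 0 26577 0) P.nil)) (P.cons (P.cons (P.lf 0 323153 0) P.nil) P.nil)))))) 183294)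
 EL.nil))
noncomputable def S314_343_734_808_18 : EL := (EL.cons 4 (TM.mk (P.cons (P.lf 0 549332354 0) (P.cons (P.lf 0 269533349 0) (P.cons (P.lf 0 28252205 0) (P.cons (P.lf 3180359 0 0) (P.cons (P.lf 331524 0 0) (P.cons (P.lf 0 44357 0) P.nil)))))) 4415)
 (EL.cons 8 (TM.mk (P.cons (P.lf 465398850 0 0) (P.cons (P.lf 114528063 0 0) (P.cons (P.lf 0 11222106 0) (P.cons (P.lf 0 2534590 0) (P.cons (P.lf 239457 0 0) (P.cons (P.lf 14216 0 0) P.nil)))))) 3029)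
 EL.nil))
noncomputable def S314_343_734_808_19 : EL := (EL.cons 4 (TM.mk (P.cons (P.cons (P.lf 241191607 0 0) (P.cons (P.lf 7565207 0 0) (P.cons (P.lf 0 3571241 0) (P.lf 0 170057 0)))) (P.cons (P.cons (P.lf 42857147 0 0) (P.cons (P.lf 1873155 0 0) (P.cons (P.lf 0 884244 0) (P.lf 0 42105 0)))) (P.cons (P.cons (P.lf 0 33176988 0) (P.cons (P.lf 0 481004 0) (P.cons (P.lf 227062 0 0) (P.lf 10812 0 0)))) (P.cons (P.cons (P.lf 0 8129430 0) (P.cons (P.lf 0 96735 0) (P.cons (P.lf 45664 0 0) P.nil))) (P.cons (P.cons (P.lf 561417 0 0) (P.cons (P.lf 18510 0 0) P.nil)) (P.cons (P.cons (P.lf 194088 0 0) P.nil) P.nil)))))) 64129)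
 (EL.cons 8 (TM.mk (P.cons (P.cons (P.lf 0 204339496 0) (P.cons (P.lf 0 6409305 0) (P.cons (P.lf 3025584 0 0) (P.lf 144075 0 0)))) (P.cons (P.cons (P.lf 13666469 0 0) (P.cons (P.lf 0 19425 0) (P.cons (P.lf 9170 0 0) (P.lf 436 0 0)))) (P.cons (P.cons (P.lf 27903574 0 0) (P.cons (P.lf 510693 0 0) (P.cons (P.lf 0 241078 0) (P.lf 0 11479 0)))) (P.cons (P.cons (P.lf 215659 0 0) (P.cons (P.lf 0 31273 0) (P.cons (P.lf 14762 0 0) P.nil))) (P.cons (P.cons (P.lf 0 951017 0) (P.cons (P.lf 0 14897 0) P.nil)) (P.cons (P.cons (P.lf 16271 0 0) P.nil) P.nil)))))) 38233)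
 EL.nil))
noncomputable def S314_343_734_808_20 : EL := (EL.cons 4 (TM.mk (P.cons (P.cons (P.lf 0 105898352 0) (P.cons (P.lf 0 6643208 0) (P.cons (P.lf 3031815 0 0) (P.cons (P.lf 247695 0 0) (P.cons (P.lf 0 18532 0) (P.cons (P.lf 0 2210 0) P.nil)))))) (P.cons (P.cons (P.lf 14325696 0 0) (P.cons (P.lf 434237 0 0) (P.cons (P.lf 0 205459 0) (P.cons (P.lf 0 9314 0) (P.cons (P.lf 0 83 0) P.nil))))) (P.cons (P.cons (P.lf 24207378 0 0) (P.cons (P.lf 1172509 0 0) (P.cons (P.lf 0 541043 0) (P.cons (P.lf 0 38113 0) P.nil)))) (P.cons (P.cons (P.lf 0 911979 0) (P.cons (P.lf 0 25923 0) (P.cons (P.lf 11492 0 0) P.nil))) (P.cons (P.cons (P.lf 0 2006748 0) (P.cons (P.lf 0 68361 0) P.nil)) (P.cons (P.cons (P.lf 0 51118 0) P.nil) P.nil)))))) 225656)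
 (EL.cons 8 (TM.mk (P.cons (P.cons (P.lf 89717948 0 0) (P.cons (P.lf 5628180 0 0) (P.cons (P.lf 0 2568578 0) (P.cons (P.lf 0 209850 0) (P.cons (P.lf 15700 0 0) (P.cons (P.lf 1873 0 0) P.nil)))))) (P.cons (P.cons (P.lf 0 34079202 0) (P.cons (P.lf 0 1744376 0) (P.cons (P.lf 802265 0 0) (P.cons (P.lf 59214 0 0) (P.cons (P.lf 0 3768 0) P.nil))))) (P.cons (P.cons (P.lf 0 13551780 0) (P.cons (P.lf 0 653172 0) (P.cons (P.lf 301613 0 0) (P.cons (P.lf 21030 0 0) P.nil)))) (P.cons (P.cons (P.lf 4451167 0 0) (P.cons (P.lf 198511 0 0) (P.cons (P.lf 0 91265 0) P.nil))) (P.cons (P.cons (P.lf 866872 0 0) (P.cons (P.lf 21663 0 0) P.nil)) (P.cons (P.cons (P.lf 0 209285 0) P.nil) P.nil)))))) 150343)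
 EL.nil))
noncomputable def S314_343_734_808_21 : EL := (EL.cons 4 (TM.mk (P.cons (P.cons (P.lf 0 3515670204 0) (P.cons (P.lf 0 85639236 0) (P.cons (P.lf 40426962 0 0) (P.lf 1925088 0 0)))) (P.cons (P.cons (P.lf 0 639196293 0) (P.cons (P.lf 6808560 0 0) (P.cons (P.lf 0 3214050 0) (P.lf 0 153045 0)))) (P.cons (P.cons (P.lf 238576041 0 0) (P.cons (P.lf 3863427 0 0) (P.cons (P.lf 0 1823769 0) (P.lf 0 86844 0)))) (P.cons (P.cons (P.lf 4730859 0 0) (P.cons (P.lf 0 531225 0) (P.cons (P.lf 250764 0 0) P.nil))) (P.cons (P.cons (P.lf 0 4641894 0) (P.cons (P.lf 0 31617 0) P.nil)) (P.cons (P.cons (P.lf 174498 0 0) P.nil) P.nil)))))) 143175)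
 (EL.cons 8 (TM.mk (P.cons (P.cons (P.lf 0 1475453319 0) (P.cons (P.lf 0 35941008 0) (P.cons (P.lf 16966356 0 0) (P.lf 807924 0 0)))) (P.cons (P.cons (P.lf 0 629109540 0) (P.cons (P.lf 0 5932686 0) (P.cons (P.lf 2800587 0 0) (P.lf 133359 0 0)))) (P.cons (P.cons (P.lf 11858091 0 0) (P.cons (P.lf 1768266 0 0) (P.cons (P.lf 0 834729 0) (P.lf 0 39747 0)))) (P.cons (P.cons (P.lf 19735056 0 0) (P.cons (P.lf 153702 0 0) (P.cons (P.lf 0 72552 0) P.nil))) (P.cons (P.cons (P.lf 0 618567 0) (P.cons (P.lf 0 43125 0) P.nil)) (P.cons (P.cons (P.lf 0 255984 0) P.nil) P.nil)))))) 95358)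
 (EL.cons 11 (TM.mk (P.cons (P.cons (P.lf 436416075 0 0) (P.cons (P.lf 0 430324653 0) (P.cons (P.lf 0 13465272 0) (P.cons (P.lf 2467455 0 0) (P.lf 88122 0 0))))) (P.cons (P.cons (P.lf 0 70715400 0) (P.cons (P.lf 69728367 0 0) (P.cons (P.lf 2181867 0 0) (P.cons (P.lf 0 399816 0) (P.lf 0 14277 0))))) (P.cons (P.cons (P.lf 0 1629486 0) (P.cons (P.lf 1606743 0 0) (P.cons (P.lf 50274 0 0) (P.cons (P.lf 0 9210 0) P.nil)))) (P.cons (P.cons (P.lf 785646 0 0) (P.cons (P.lf 0 774681 0) (P.cons (P.lf 0 24240 0) P.nil))) (P.cons (P.cons (P.lf 0 21567 0) (P.cons (P.lf 21264 0 0) P.nil)) (P.cons (P.cons (P.lf 0 3825 0) P.nil) P.nil)))))) 10452)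
 EL.nil)))
noncomputable def S314_343_734_808_22 : EL := (EL.cons 4 (TM.mk (P.cons (P.cons (P.lf 1543601322 0 0) (P.cons (P.lf 86017584 0 0) (P.cons (P.lf 0 39426171 0) (P.cons (P.lf 0 3047082 0) (P.cons (P.lf 209793 0 0) (P.cons (P.lf 25029 0 0) P.nil)))))) (P.cons (P.cons (P.lf 0 202448757 0) (P.cons (P.lf 0 17722371 0) (P.cons (P.lf 7985616 0 0) (P.cons (P.lf 757545 0 0) (P.cons (P.lf 0 67668 0) P.nil))))) (P.cons (P.cons (P.lf 0 247265994 0) (P.cons (P.lf 0 7312341 0) (P.cons (P.lf 3426459 0 0) (P.cons (P.lf 188361 0 0) P.nil)))) (P.cons (P.cons (P.lf 29349303 0 0) (P.cons (P.lf 2015532 0 0) (P.cons (P.lf 0 927564 0) P.nil))) (P.cons (P.cons (P.lf 8287515 0 0) (P.cons (P.lf 75993 0 0) P.nil)) (P.cons (P.cons (P.lf 0 1256838 0) P.nil) P.nil)))))) 620658)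
 (EL.cons 8 (TM.mk (P.cons (P.cons (P.lf 647817216 0 0) (P.cons (P.lf 36099786 0 0) (P.cons (P.lf 0 16546341 0) (P.cons (P.lf 0 1278798 0) (P.cons (P.lf 88044 0 0) (P.cons (P.lf 10503 0 0) P.nil)))))) (P.cons (P.cons (P.lf 73473402 0 0) (P.cons (P.lf 1391223 0 0) (P.cons (P.lf 0 695343 0) (P.cons (P.lf 5172 0 0) (P.cons (P.lf 0 6864 0) P.nil))))) (P.cons (P.cons (P.lf 0 114602985 0) (P.cons (P.lf 0 4333470 0) (P.cons (P.lf 2003550 0 0) (P.cons (P.lf 137166 0 0) P.nil)))) (P.cons (P.cons (P.lf 0 13217604 0) (P.cons (P.lf 45165 0 0) (P.cons (P.lf 0 15480 0) P.nil))) (P.cons (P.cons (P.lf 4841649 0 0) (P.cons (P.lf 183765 0 0) P.nil)) (P.cons (P.cons (P.lf 325026 0 0) P.nil) P.nil)))))) 364341)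
 (EL.cons 11 (TM.mk (P.cons (P.cons (P.lf 0 191614227 0) (P.cons (P.lf 182929542 0 0) (P.cons (P.lf 14675547 0 0) (P.cons (P.lf 0 3560391 0) (P.cons (P.lf 0 293427 0) (P.cons (P.lf 10656 0 0) P.nil)))))) (P.cons (P.cons (P.lf 91017462 0 0) (P.cons (P.lf 0 87312387 0) (P.cons (P.lf 0 6358266 0) (P.cons (P.lf 1518024 0 0) (P.cons (P.lf 121569 0 0) P.nil))))) (P.cons (P.cons (P.lf 0 2213715 0) (P.cons (P.lf 1943040 0 0) (P.cons (P.lf 417921 0 0) (P.cons (P.lf 0 111336 0) P.nil)))) (P.cons (P.cons (P.lf 0 2734485 0) (P.cons (P.lf 2663622 0 0) (P.cons (P.lf 132039 0 0) P.nil))) (P.cons (P.cons (P.lf 224094 0 0) (P.cons (P.lf 0 213093 0) P.nil)) (P.cons (P.cons (P.lf 33039 0 0) P.nil) P.nil)))))) 151692)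
 EL.nil)))
noncomputable def S314_343_734_808_23 : EL := (EL.cons 4 (TM.mk (P.cons (P.cons (P.lf 0 1809850944 0) (P.cons (P.lf 0 44086686 0) (P.cons (P.lf 20811615 0 0) (P.lf 991026 0 0)))) (P.cons (P.cons (P.lf 0 625060215 0) (P.cons (P.lf 0 3705453 0) (P.cons (P.lf 1749204 0 0) (P.lf 83295 0 0)))) (P.cons (P.cons (P.lf 86385459 0 0) (P.cons (P.lf 2985618 0 0) (P.cons (P.lf 0 1409391 0) (P.lf 0 67110 0)))) (P.cons (P.cons (P.lf 26128635 0 0) (P.cons (P.lf 28986 0 0) (P.cons (P.lf 0 13686 0) P.nil))) (P.cons (P.cons (P.lf 0 3169728 0) (P.cons (P.lf 0 82908 0) P.nil)) (P.cons (P.cons (P.lf 0 367797 0) P.nil) P.nil)))))) 180957)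
 (EL.cons 8 (TM.mk (P.cons (P.cons (P.lf 0 759556620 0) (P.cons (P.lf 0 18502266 0) (P.cons (P.lf 8734200 0 0) (P.lf 415914 0 0)))) (P.cons (P.cons (P.lf 0 448089780 0) (P.cons (P.lf 0 6080202 0) (P.cons (P.lf 2870226 0 0) (P.lf 136674 0 0)))) (P.cons (P.cons (P.lf 0 39567687 0) (P.cons (P.lf 588516 0 0) (P.cons (P.lf 0 277815 0) (P.lf 0 13227 0)))) (P.cons (P.cons (P.lf 14455764 0 0) (P.cons (P.lf 261894 0 0) (P.cons (P.lf 0 123627 0) P.nil))) (P.cons (P.cons (P.lf 1330800 0 0) (P.cons (P.lf 0 18066 0) P.nil)) (P.cons (P.cons (P.lf 0 296658 0) P.nil) P.nil)))))) 108324)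
 (EL.cons 11 (TM.mk (P.cons (P.cons (P.lf 224664999 0 0) (P.cons (P.lf 0 221529162 0) (P.cons (P.lf 0 6931860 0) (P.cons (P.lf 1270233 0 0) (P.lf 45363 0 0))))) (P.cons (P.cons (P.lf 340461 0 0) (P.cons (P.lf 0 335709 0) (P.cons (P.lf 0 10503 0) (P.cons (P.lf 1926 0 0) (P.lf 69 0 0))))) (P.cons (P.cons (P.lf 0 8950908 0) (P.cons (P.lf 8825976 0 0) (P.cons (P.lf 276171 0 0) (P.cons (P.lf 0 50604 0) P.nil)))) (P.cons (P.cons (P.lf 561678 0 0) (P.cons (P.lf 0 553836 0) (P.cons (P.lf 0 17328 0) P.nil))) (P.cons (P.cons (P.lf 81936 0 0) (P.cons (P.lf 0 80793 0) P.nil)) (P.cons (P.cons (P.lf 0 9222 0) P.nil) P.nil)))))) 22986)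
 EL.nil)))
noncomputable def S314_343_734_808_24 : EL := (EL.cons 4 (TM.mk (P.cons (P.cons (P.lf 794638902 0 0) (P.cons (P.lf 44281458 0 0) (P.cons (P.lf 0 20296413 0) (P.cons (P.lf 0 1568625 0) (P.cons (P.lf 108000 0 0) (P.cons (P.lf 12885 0 0) P.nil)))))) (P.cons (P.cons (P.lf 25745151 0 0) (P.cons (P.lf 0 1881069 0) (P.cons (P.lf 791436 0 0) (P.cons (P.lf 133428 0 0) (P.cons (P.lf 0 17172 0) P.nil))))) (P.cons (P.cons (P.lf 0 151969989 0) (P.cons (P.lf 0 5681874 0) (P.cons (P.lf 2631246 0 0) (P.cons (P.lf 175818 0 0) P.nil)))) (P.cons (P.cons (P.lf 0 4904238 0) (P.cons (P.lf 498663 0 0) (P.cons (P.lf 0 223506 0) P.nil))) (P.cons (P.cons (P.lf 8020797 0 0) (P.cons (P.lf 249171 0 0) P.nil)) (P.cons (P.cons (P.lf 0 68202 0) P.nil) P.nil)))))) 566925)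
 (EL.cons 8 (TM.mk (P.cons (P.cons (P.lf 333493341 0 0) (P.cons (P.lf 18584004 0 0) (P.cons (P.lf 0 8517981 0) (P.cons (P.lf 0 658320 0) (P.cons (P.lf 45324 0 0) (P.cons (P.lf 5406 0 0) P.nil)))))) (P.cons (P.cons (P.lf 92367300 0 0) (P.cons (P.lf 3755649 0 0) (P.cons (P.lf 0 1751091 0) (P.cons (P.lf 0 105006 0) (P.cons (P.lf 3876 0 0) P.nil))))) (P.cons (P.cons (P.lf 0 56014446 0) (P.cons (P.lf 0 2292231 0) (P.cons (P.lf 1054695 0 0) (P.cons (P.lf 77370 0 0) P.nil)))) (P.cons (P.cons (P.lf 0 16898829 0) (P.cons (P.lf 0 353058 0) (P.cons (P.lf 166254 0 0) P.nil))) (P.cons (P.cons (P.lf 1951671 0 0) (P.cons (P.lf 120474 0 0) P.nil)) (P.cons (P.cons (P.lf 656271 0 0) P.nil) P.nil)))))) 232377)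
 (EL.cons 11 (TM.mk (P.cons (P.cons (P.lf 0 98642127 0) (P.cons (P.lf 94171290 0 0) (P.cons (P.lf 7554903 0 0) (P.cons (P.lf 0 1832871 0) (P.cons (P.lf 0 151053 0) (P.cons (P.lf 5487 0 0) P.nil)))))) (P.cons (P.cons (P.lf 30722247 0 0) (P.cons (P.lf 0 29546106 0) (P.cons (P.lf 0 2037585 0) (P.cons (P.lf 481701 0 0) (P.cons (P.lf 37875 0 0) P.nil))))) (P.cons (P.cons (P.lf 7471230 0 0) (P.cons (P.lf 0 7255674 0) (P.cons (P.lf 0 392766 0) (P.cons (P.lf 88101 0 0) P.nil)))) (P.cons (P.cons (P.lf 0 2019909 0) (P.cons (P.lf 1943418 0 0) (P.cons (P.lf 132744 0 0) P.nil))) (P.cons (P.cons (P.lf 0 119784 0) (P.cons (P.lf 120156 0 0) P.nil)) (P.cons (P.cons (P.lf 51807 0 0) P.nil) P.nil)))))) 147381)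
 EL.nil)))
noncomputable def S314_343_734_808_25 : EL := (EL.cons 4 (TM.mk (P.cons (P.cons (P.lf 0 931702989 0) (P.cons (P.lf 0 22695624 0) (P.cons (P.lf 10713723 0 0) (P.lf 510174 0 0)))) (P.cons (P.cons (P.lf 0 474160101 0) (P.cons (P.lf 0 5619465 0) (P.cons (P.lf 2652732 0 0) (P.lf 126321 0 0)))) (P.cons (P.cons (P.lf 793221 0 0) (P.cons (P.lf 1443012 0 0) (P.cons (P.lf 0 681186 0) (P.lf 0 32436 0)))) (P.cons (P.cons (P.lf 24044370 0 0) (P.cons (P.lf 290205 0 0) (P.cons (P.lf 0 136995 0) P.nil))) (P.cons (P.cons (P.lf 179160 0 0) (P.cons (P.lf 0 55533 0) P.nil)) (P.cons (P.cons (P.lf 0 609858 0) P.nil) P.nil)))))) 149016)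
 (EL.cons 8 (TM.mk (P.cons (P.cons (P.lf 0 391016274 0) (P.cons (P.lf 0 9524880 0) (P.cons (P.lf 4496325 0 0) (P.lf 214110 0 0)))) (P.cons (P.cons (P.lf 0 294626094 0) (P.cons (P.lf 0 4687875 0) (P.cons (P.lf 2212962 0 0) (P.lf 105378 0 0)))) (P.cons (P.cons (P.lf 0 54340497 0) (P.cons (P.lf 0 117465 0) (P.cons (P.lf 55449 0 0) (P.lf 2640 0 0)))) (P.cons (P.cons (P.lf 6422355 0 0) (P.cons (P.lf 216783 0 0) (P.cons (P.lf 0 102333 0) P.nil))) (P.cons (P.cons (P.lf 2137422 0 0) (P.cons (P.lf 10188 0 0) P.nil)) (P.cons (P.cons (P.lf 0 117012 0) P.nil) P.nil)))))) 106155)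
 (EL.cons 11 (TM.mk (P.cons (P.cons (P.lf 115656513 0 0) (P.cons (P.lf 0 114042198 0) (P.cons (P.lf 0 3568488 0) (P.cons (P.lf 653910 0 0) (P.lf 23352 0 0))))) (P.cons (P.cons (P.lf 19091130 0 0) (P.cons (P.lf 0 18824661 0) (P.cons (P.lf 0 589041 0) (P.cons (P.lf 107940 0 0) (P.lf 3855 0 0))))) (P.cons (P.cons (P.lf 0 5690208 0) (P.cons (P.lf 5610786 0 0) (P.cons (P.lf 175566 0 0) (P.cons (P.lf 0 32169 0) P.nil)))) (P.cons (P.cons (P.lf 0 494613 0) (P.cons (P.lf 487710 0 0) (P.cons (P.lf 15258 0 0) P.nil))) (P.cons (P.cons (P.lf 138777 0 0) (P.cons (P.lf 0 136842 0) P.nil)) (P.cons (P.cons (P.lf 432 0 0) P.nil) P.nil)))))) 26754)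
 EL.nil)))
noncomputable def S314_343_734_808_26 : EL := (EL.cons 4 (TM.mk (P.cons (P.cons (P.lf 409076472 0 0) (P.cons (P.lf 22795890 0 0) (P.cons (P.lf 0 10448499 0) (P.cons (P.lf 0 807519 0) (P.cons (P.lf 55596 0 0) (P.cons (P.lf 6633 0 0) P.nil)))))) (P.cons (P.cons (P.lf 80158791 0 0) (P.cons (P.lf 2759946 0 0) (P.cons (P.lf 0 1301442 0) (P.cons (P.lf 0 63381 0) (P.cons (P.lf 252 0 0) P.nil))))) (P.cons (P.cons (P.lf 0 79995378 0) (P.cons (P.lf 0 3302355 0) (P.cons (P.lf 1521558 0 0) (P.cons (P.lf 109500 0 0) P.nil)))) (P.cons (P.cons (P.lf 0 15547866 0) (P.cons (P.lf 0 217983 0) (P.cons (P.lf 105135 0 0) P.nil))) (P.cons (P.cons (P.lf 4482387 0 0) (P.cons (P.lf 199596 0 0) P.nil)) (P.cons (P.cons (P.lf 683994 0 0) P.nil) P.nil)))))) 439293)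
 (EL.cons 8 (TM.mk (P.cons (P.cons (P.lf 171680847 0 0) (P.cons (P.lf 9566958 0 0) (P.cons (P.lf 0 4385016 0) (P.cons (P.lf 0 338898 0) (P.cons (P.lf 23331 0 0) (P.cons (P.lf 2781 0 0) P.nil)))))) (P.cons (P.cons (P.lf 75629022 0 0) (P.cons (P.lf 3498087 0 0) (P.cons (P.lf 0 1618632 0) (P.cons (P.lf 0 109482 0) (P.cons (P.lf 5811 0 0) P.nil))))) (P.cons (P.cons (P.lf 0 22708188 0) (P.cons (P.lf 0 955719 0) (P.cons (P.lf 437640 0 0) (P.cons (P.lf 34245 0 0) P.nil)))) (P.cons (P.cons (P.lf 0 13914621 0) (P.cons (P.lf 0 395673 0) (P.cons (P.lf 184125 0 0) P.nil))) (P.cons (P.cons (P.lf 0 145248 0) (P.cons (P.lf 43572 0 0) P.nil)) (P.cons (P.cons (P.lf 594798 0 0) P.nil) P.nil)))))) 188046)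
 (EL.cons 11 (TM.mk (P.cons (P.cons (P.lf 0 50780514 0) (P.cons (P.lf 48478950 0 0) (P.cons (P.lf 3889230 0 0) (P.cons (P.lf 0 943554 0) (P.cons (P.lf 0 77760 0) (P.cons (P.lf 2823 0 0) P.nil)))))) (P.cons (P.cons (P.lf 7510413 0 0) (P.cons (P.lf 0 7281366 0) (P.cons (P.lf 0 412848 0) (P.cons (P.lf 93657 0 0) (P.cons (P.lf 6780 0 0) P.nil))))) (P.cons (P.cons (P.lf 6920634 0 0) (P.cons (P.lf 0 6688533 0) (P.cons (P.lf 0 411108 0) (P.cons (P.lf 94974 0 0) P.nil)))) (P.cons (P.cons (P.lf 0 550224 0) (P.cons (P.lf 523746 0 0) (P.cons (P.lf 44385 0 0) P.nil))) (P.cons (P.cons (P.lf 0 274800 0) (P.cons (P.lf 267237 0 0) P.nil)) (P.cons (P.cons (P.lf 26358 0 0) P.nil) P.nil)))))) 120279)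
 EL.nil)))
noncomputable def S314_343_734_808_27 : EL := (EL.cons 13 (TM.mk (P.lf 0 4294967296 0) 0)
 EL.nil)
noncomputable def S314_343_734_808_28 : EL := (EL.cons 13 (TM.mk (P.cons (P.cons (P.lf 1885761978 0 0) (P.cons (P.lf 59148752 0 0) (P.cons (P.lf 0 27921832 0) (P.lf 0 1329608 0)))) (P.cons (P.cons (P.lf 0 590181315 0) (P.cons (P.lf 0 14376396 0) (P.cons (P.lf 6786536 0 0) (P.lf 323168 0 0)))) (P.cons (P.cons (P.lf 0 66803771 0) (P.cons (P.lf 251100 0 0) (P.cons (P.lf 0 118536 0) (P.lf 0 5644 0)))) (P.cons (P.cons (P.lf 10488236 0 0) (P.cons (P.lf 202288 0 0) (P.cons (P.lf 0 95488 0) P.nil))) (P.cons (P.cons (P.lf 400269 0 0) (P.cons (P.lf 0 14972 0) P.nil)) (P.cons (P.cons (P.lf 0 113522 0) P.nil) P.nil)))))) 28513)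
 EL.nil)
noncomputable def S314_343_734_808_29 : EL := (EL.cons 13 (TM.mk (P.cons (P.cons (P.lf 0 827968641 0) (P.cons (P.lf 0 51940077 0) (P.cons (P.lf 23704320 0 0) (P.cons (P.lf 1936622 0 0) (P.cons (P.lf 0 144899 0) (P.cons (P.lf 0 17287 0) P.nil)))))) (P.cons (P.cons (P.lf 518253764 0 0) (P.cons (P.lf 28879823 0 0) (P.cons (P.lf 0 13237068 0) (P.cons (P.lf 0 1023038 0) (P.cons (P.lf 70437 0 0) P.nil))))) (P.cons (P.cons (P.lf 0 22436017 0) (P.cons (P.lf 0 2331489 0) (P.cons (P.lf 1045568 0 0) (P.cons (P.lf 104371 0 0) P.nil)))) (P.cons (P.cons (P.lf 0 27569315 0) (P.cons (P.lf 0 844726 0) (P.cons (P.lf 394867 0 0) P.nil))) (P.cons (P.cons (P.lf 1491874 0 0) (P.cons (P.lf 135741 0 0) P.nil)) (P.cons (P.cons (P.lf 535957 0 0) P.nil) P.nil)))))) 263889)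
 EL.nil)
noncomputable def S314_343_734_808_30 : EL := (EL.cons 13 (TM.mk (P.cons (P.lf 0 2211029524 0) (P.cons (P.lf 0 361618480 0) (P.cons (P.lf 21238980 0 0) (P.cons (P.lf 543904 0 0) (P.cons (P.lf 0 97232 0) (P.cons (P.lf 1560 0 0) P.nil)))))) 512)
 EL.nil)
noncomputable def S314_343_734_808_31 : EL := (EL.cons 13 (TM.mk (P.cons (P.cons (P.lf 970781643 0 0) (P.cons (P.lf 30449507 0 0) (P.cons (P.lf 0 14374031 0) (P.lf 0 684476 0)))) (P.cons (P.cons (P.lf 0 145049284 0) (P.cons (P.lf 0 2420822 0) (P.cons (P.lf 1142774 0 0) (P.lf 54417 0 0)))) (P.cons (P.cons (P.lf 0 93406355 0) (P.cons (P.lf 0 1373663 0) (P.cons (P.lf 648452 0 0) (P.lf 30878 0 0)))) (P.cons (P.cons (P.lf 2454383 0 0) (P.cons (P.lf 188880 0 0) (P.cons (P.lf 0 89161 0) P.nil))) (P.cons (P.cons (P.lf 1536903 0 0) (P.cons (P.lf 11242 0 0) P.nil)) (P.cons (P.cons (P.lf 0 82190 0) P.nil) P.nil)))))) 48951)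
 EL.nil)
noncomputable def S314_343_734_808_32 : EL := (EL.cons 13 (TM.mk (P.cons (P.cons (P.lf 0 426234470 0) (P.cons (P.lf 0 26738514 0) (P.cons (P.lf 12202875 0 0) (P.cons (P.lf 996964 0 0) (P.cons (P.lf 0 74593 0) (P.cons (P.lf 0 8899 0) P.nil)))))) (P.cons (P.cons (P.lf 197083133 0 0) (P.cons (P.lf 10494061 0 0) (P.cons (P.lf 0 4818576 0) (P.cons (P.lf 0 363599 0) (P.cons (P.lf 24060 0 0) P.nil))))) (P.cons (P.cons (P.lf 36179239 0 0) (P.cons (P.lf 1488169 0 0) (P.cons (P.lf 0 693472 0) (P.cons (P.lf 0 41982 0) P.nil)))) (P.cons (P.cons (P.lf 0 18539534 0) (P.cons (P.lf 0 767398 0) (P.cons (P.lf 353764 0 0) P.nil))) (P.cons (P.cons (P.lf 0 1526638 0) (P.cons (P.lf 5452 0 0) P.nil)) (P.cons (P.cons (P.lf 552724 0 0) P.nil) P.nil)))))) 303861)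
 EL.nil)
noncomputable def S314_343_734_808_33 : EL := (EL.cons 14 (TM.mk (P.lf 8589934592 0 0) 0)
 EL.nil)
noncomputable def S314_343_734_808_34 : EL := (EL.cons 14 (TM.mk (P.cons (P.cons (P.lf 0 3771523956 0) (P.cons (P.lf 0 118297504 0) (P.cons (P.lf 55843664 0 0) (P.lf 2659216 0 0)))) (P.cons (P.cons (P.lf 1180362630 0 0) (P.cons (P.lf 28752792 0 0) (P.cons (P.lf 0 13573072 0) (P.lf 0 646336 0)))) (P.cons (P.cons (P.lf 133607542 0 0) (P.cons (P.lf 0 502200 0) (P.cons (P.lf 237072 0 0) (P.lf 11288 0 0)))) (P.cons (P.cons (P.lf 0 20976472 0) (P.cons (P.lf 0 404576 0) (P.cons (P.lf 190976 0 0) P.nil))) (P.cons (P.cons (P.lf 0 800538 0) (P.cons (P.lf 29944 0 0) P.nil)) (P.cons (P.cons (P.lf 227044 0 0) P.nil) P.nil)))))) 57026)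
 EL.nil)
noncomputable def S314_343_734_808_35 : EL := (EL.cons 14 (TM.mk (P.cons (P.cons (P.lf 1655937282 0 0) (P.cons (P.lf 103880154 0 0) (P.cons (P.lf 0 47408640 0) (P.cons (P.lf 0 3873244 0) (P.cons (P.lf 289798 0 0) (P.cons (P.lf 34574 0 0) P.nil)))))) (P.cons (P.cons (P.lf 0 1036507528 0) (P.cons (P.lf 0 57759646 0) (P.cons (P.lf 26474136 0 0) (P.cons (P.lf 2046076 0 0) (P.cons (P.lf 0 140874 0) P.nil))))) (P.cons (P.cons (P.lf 44872034 0 0) (P.cons (P.lf 4662978 0 0) (P.cons (P.lf 0 2091136 0) (P.cons (P.lf 0 208742 0) P.nil)))) (P.cons (P.cons (P.lf 55138630 0 0) (P.cons (P.lf 1689452 0 0) (P.cons (P.lf 0 789734 0) P.nil))) (P.cons (P.cons (P.lf 0 2983748 0) (P.cons (P.lf 0 271482 0) P.nil)) (P.cons (P.cons (P.lf 0 1071914 0) P.nil) P.nil)))))) 527778)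
 EL.nil)
noncomputable def S314_343_734_808_36 : EL := (EL.cons 14 (TM.mk (P.cons (P.lf 4422059048 0 0) (P.cons (P.lf 723236960 0 0) (P.cons (P.lf 0 42477960 0) (P.cons (P.lf 0 1087808 0) (P.cons (P.lf 194464 0 0) (P.cons (P.lf 0 3120 0) P.nil)))))) 1024)
 EL.nil)
noncomputable def S314_343_734_808_37 : EL := (EL.cons 14 (TM.mk (P.cons (P.cons (P.lf 0 1941563286 0) (P.cons (P.lf 0 60899014 0) (P.cons (P.lf 28748062 0 0) (P.lf 1368952 0 0)))) (P.cons (P.cons (P.lf 290098568 0 0) (P.cons (P.lf 4841644 0 0) (P.cons (P.lf 0 2285548 0) (P.lf 0 108834 0)))) (P.cons (P.cons (P.lf 186812710 0 0) (P.cons (P.lf 2747326 0 0) (P.cons (P.lf 0 1296904 0) (P.lf 0 61756 0)))) (P.cons (P.cons (P.lf 0 4908766 0) (P.cons (P.lf 0 377760 0) (P.cons (P.lf 178322 0 0) P.nil))) (P.cons (P.cons (P.lf 0 3073806 0) (P.cons (P.lf 0 22484 0) P.nil)) (P.cons (P.cons (P.lf 164380 0 0) P.nil) P.nil))))))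 97902)
 EL.nil)
noncomputable def S314_343_734_808_38 : EL := (EL.cons 14 (TM.mk (P.cons (P.cons (P.lf 852468940 0 0) (P.cons (P.lf 53477028 0 0) (P.cons (P.lf 0 24405750 0) (P.cons (P.lf 0 1993928 0) (P.cons (P.lf 149186 0 0) (P.cons (P.lf 17798 0 0) P.nil)))))) (P.cons (P.cons (P.lf 0 394166266 0) (P.cons (P.lf 0 20988122 0) (P.cons (P.lf 9637152 0 0) (P.cons (P.lf 727198 0 0) (P.cons (P.lf 0 48120 0) P.nil))))) (P.cons (P.cons (P.lf 0 72358478 0) (P.cons (P.lf 0 2976338 0) (P.cons (P.lf 1386944 0 0) (P.cons (P.lf 83964 0 0) P.nil)))) (P.cons (P.cons (P.lf 37079068 0 0) (P.cons (P.lf 1534796 0 0) (P.cons (P.lf 0 707528 0) P.nil))) (P.cons (P.cons (P.lf 3053276 0 0) (P.cons (P.lf 0 10904 0) P.nil)) (P.cons (P.cons (P.lf 0 1105448 0) P.nil) P.nil)))))) 607722)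
 EL.nil)
noncomputable def S314_343_734_808_39 : EL := (EL.cons 14 (TM.mk (P.cons (P.lf 2276455776 0 0) (P.cons (P.lf 744638158 0 0) (P.cons (P.lf 17158640 0 0) (P.cons (P.lf 0 8272934 0) (P.cons (P.lf 227096 0 0) (P.cons (P.lf 40292 0 0) P.nil)))))) 3922)
 EL.nil)
noncomputable def S314_343_734_808_40 : EL := (EL.cons 14 (TM.mk (P.cons (P.cons (P.lf 0 999507900 0) (P.cons (P.lf 0 31350532 0) (P.cons (P.lf 14799370 0 0) (P.lf 704730 0 0)))) (P.cons (P.cons (P.lf 0 14130180 0) (P.cons (P.lf 0 2634988 0) (P.cons (P.lf 1243876 0 0) (P.lf 59230 0 0)))) (P.cons (P.cons (P.lf 130196624 0 0) (P.cons (P.lf 2123108 0 0) (P.cons (P.lf 0 1002236 0) (P.lf 0 47724 0)))) (P.cons (P.cons (P.lf 12013158 0 0) (P.cons (P.lf 20612 0 0) (P.cons (P.lf 0 9732 0) P.nil))) (P.cons (P.cons (P.lf 0 3000174 0) (P.cons (P.lf 0 58958 0) P.nil)) (P.cons (P.cons (P.lf 0 166288 0) P.nil) P.nil)))))) 120508)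
 EL.nil)
noncomputable def S314_343_734_808_41 : EL := (EL.cons 14 (TM.mk (P.cons (P.cons (P.lf 438847112 0 0) (P.cons (P.lf 27529728 0 0) (P.cons (P.lf 0 12563968 0) (P.cons (P.lf 0 1026464 0) (P.cons (P.lf 76800 0 0) (P.cons (P.lf 9162 0 0) P.nil)))))) (P.cons (P.cons (P.lf 0 131140632 0) (P.cons (P.lf 0 6302044 0) (P.cons (P.lf 2906298 0 0) (P.cons (P.lf 206478 0 0) (P.cons (P.lf 0 12210 0) P.nil))))) (P.cons (P.cons (P.lf 0 74652514 0) (P.cons (P.lf 0 3563766 0) (P.cons (P.lf 1646090 0 0) (P.cons (P.lf 114312 0 0) P.nil)))) (P.cons (P.cons (P.lf 14837080 0 0) (P.cons (P.lf 636526 0 0) (P.cons (P.lf 0 292022 0) P.nil))) (P.cons (P.cons (P.lf 5120750 0 0) (P.cons (P.lf 142196 0 0) P.nil)) (P.cons (P.cons (P.lf 0 495434 0) P.nil) P.nil)))))) 541258)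
 EL.nil)
noncomputable def S314_343_734_808_42 : EL := (EL.cons 14 (TM.mk (P.cons (P.lf 1171909022 0 0) (P.cons (P.lf 575004478 0 0) (P.cons (P.lf 60271372 0 0) (P.cons (P.lf 0 6784766 0) (P.cons (P.lf 0 707252 0) (P.cons (P.lf 94630 0 0) P.nil)))))) 9404)
 EL.nil)
noncomputable def S314_343_734_808_43 : EL := (EL.cons 14 (TM.mk (P.cons (P.cons (P.lf 0 514542096 0) (P.cons (P.lf 0 16139110 0) (P.cons (P.lf 7618648 0 0) (P.lf 362790 0 0)))) (P.cons (P.cons (P.lf 0 91428582 0) (P.cons (P.lf 0 3996064 0) (P.cons (P.lf 1886388 0 0) (P.lf 89826 0 0)))) (P.cons (P.cons (P.lf 70777576 0 0) (P.cons (P.lf 1026142 0 0) (P.cons (P.lf 0 484400 0) (P.lf 0 23066 0)))) (P.cons (P.cons (P.lf 17342786 0 0) (P.cons (P.lf 206368 0 0) (P.cons (P.lf 0 97418 0) P.nil))) (P.cons (P.cons (P.lf 0 1197690 0) (P.cons (P.lf 0 39490 0) P.nil)) (P.cons (P.cons (P.lf 0 414056 0) P.nil) P.nil)))))) 136770)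
 EL.nil)
noncomputable def S314_343_734_808_44 : EL := (EL.cons 14 (TM.mk (P.cons (P.cons (P.lf 225916486 0 0) (P.cons (P.lf 14172178 0 0) (P.cons (P.lf 0 6467872 0) (P.cons (P.lf 0 528418 0) (P.cons (P.lf 39536 0 0) (P.cons (P.lf 4716 0 0) P.nil)))))) (P.cons (P.cons (P.lf 0 30561486 0) (P.cons (P.lf 0 926374 0) (P.cons (P.lf 438314 0 0) (P.cons (P.lf 19870 0 0) (P.cons (P.lf 178 0 0) P.nil))))) (P.cons (P.cons (P.lf 0 51642408 0) (P.cons (P.lf 0 2501354 0) (P.cons (P.lf 1154226 0 0) (P.cons (P.lf 81308 0 0) P.nil)))) (P.cons (P.cons (P.lf 1945556 0 0) (P.cons (P.lf 55304 0 0) (P.cons (P.lf 0 24518 0) P.nil))) (P.cons (P.cons (P.lf 4281064 0 0) (P.cons (P.lf 145838 0 0) P.nil)) (P.cons (P.cons (P.lf 109052 0 0) P.nil) P.nil)))))) 481354)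
 EL.nil)
noncomputable def S314_343_734_808_45 : EL := (EL.cons 14 (TM.mk (P.cons (P.cons (P.lf 0 727061080 0) (P.cons (P.lf 0 68414924 0) (P.cons (P.lf 30150132 0 0) (P.cons (P.lf 3541458 0 0) (P.cons (P.lf 0 349946 0) (P.cons (P.lf 0 59026 0) P.nil)))))) (P.cons (P.cons (P.lf 682638428 0 0) (P.cons (P.lf 59451816 0 0) (P.cons (P.lf 0 26350152 0) (P.cons (P.lf 0 2938984 0) (P.cons (P.lf 281854 0 0) P.nil))))) (P.cons (P.cons (P.lf 0 136374144 0) (P.cons (P.lf 0 12552718 0) (P.cons (P.lf 5530210 0 0) (P.cons (P.lf 651254 0 0) P.nil)))) (P.cons (P.cons (P.lf 0 38208944 0) (P.cons (P.lf 0 1879636 0) (P.cons (P.lf 873534 0 0) P.nil))) (P.cons (P.cons (P.lf 11961526 0 0) (P.cons (P.lf 832866 0 0) P.nil)) (P.cons (P.cons (P.lf 949046 0 0) P.nil) P.nil)))))) 1605796)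
 EL.nil)
noncomputable def S314_343_734_808_46 : EL := (EL.cons 15 (TM.mk (P.lf 4294967296 0 0) 0)
 EL.nil)
noncomputable def S314_343_734_808_47 : EL := (EL.cons 15 (TM.mk (P.cons (P.cons (P.lf 0 1885761978 0) (P.cons (P.lf 0 59148752 0) (P.cons (P.lf 27921832 0 0) (P.lf 1329608 0 0)))) (P.cons (P.cons (P.lf 590181315 0 0) (P.cons (P.lf 14376396 0 0) (P.cons (P.lf 0 6786536 0) (P.lf 0 323168 0)))) (P.cons (P.cons (P.lf 66803771 0 0) (P.cons (P.lf 0 251100 0) (P.cons (P.lf 118536 0 0) (P.lf 5644 0 0)))) (P.cons (P.cons (P.lf 0 10488236 0) (P.cons (P.lf 0 202288 0) (P.cons (P.lf 95488 0 0) P.nil))) (P.cons (P.cons (P.lf 0 400269 0) (P.cons (P.lf 14972 0 0) P.nil)) (P.cons (P.cons (P.lf 113522 0 0) P.nil) P.nil)))))) 28513)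
 EL.nil)
noncomputable def S314_343_734_808_48 : EL := (EL.cons 15 (TM.mk (P.cons (P.cons (P.lf 827968641 0 0) (P.cons (P.lf 51940077 0 0) (P.cons (P.lf 0 23704320 0) (P.cons (P.lf 0 1936622 0) (P.cons (P.lf 144899 0 0) (P.cons (P.lf 17287 0 0) P.nil)))))) (P.cons (P.cons (P.lf 0 518253764 0) (P.cons (P.lf 0 28879823 0) (P.cons (P.lf 13237068 0 0) (P.cons (P.lf 1023038 0 0) (P.cons (P.lf 0 70437 0) P.nil))))) (P.cons (P.cons (P.lf 22436017 0 0) (P.cons (P.lf 2331489 0 0) (P.cons (P.lf 0 1045568 0) (P.cons (P.lf 0 104371 0) P.nil)))) (P.cons (P.cons (P.lf 27569315 0 0) (P.cons (P.lf 844726 0 0) (P.cons (P.lf 0 394867 0) P.nil))) (P.cons (P.cons (P.lf 0 1491874 0) (P.cons (P.lf 0 135741 0) P.nil)) (P.cons (P.cons (P.lf 0 535957 0) P.nil) P.nil)))))) 263889)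
 EL.nil)
noncomputable def S314_343_734_808 : SL := (SL.cons S314_343_734_808_0 (SL.cons S314_343_734_808_1 (SL.cons S314_343_734_808_2 (SL.cons S314_343_734_808_3 (SL.cons S314_343_734_808_4 (SL.cons S314_343_734_808_5 (SL.cons S314_343_734_808_6 (SL.cons S314_343_734_808_7 (SL.cons S314_343_734_808_8 (SL.cons S314_343_734_808_9 (SL.cons S314_343_734_808_10 (SL.cons S314_343_734_808_11 (SL.cons S314_343_734_808_12 (SL.cons S314_343_734_808_13 (SL.cons S314_343_734_808_14 (SL.cons S314_343_734_808_15 (SL.cons S314_343_734_808_16 (SL.cons S314_343_734_808_17 (SL.cons S314_343_734_808_18 (SL.cons S314_343_734_808_19 (SL.cons S314_343_734_808_20 (SL.cons S314_343_734_808_21 (SL.cons S314_343_734_808_22 (SL.cons S314_343_734_808_23 (SL.cons S314_343_734_808_24 (SL.cons S314_343_734_808_25 (SL.cons S314_343_734_808_26 (SL.cons S314_343_734_808_27 (SL.cons S314_343_734_808_28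 (SL.cons S314_343_734_808_29 (SL.cons S314_343_734_808_30 (SL.cons S314_343_734_808_31 (SL.cons S314_343_734_808_32 (SL.cons S314_343_734_808_33 (SL.cons S314_343_734_808_34 (SL.cons S314_343_734_808_35 (SL.cons S314_343_734_808_36 (SL.cons S314_343_734_808_37 (SL.cons S314_343_734_808_38 (SL.cons S314_343_734_808_39 (SL.cons S314_343_734_808_40 (SL.cons S314_343_734_808_41 (SL.cons S314_343_734_808_42 (SL.cons S314_343_734_808_43 (SL.cons S314_343_734_808_44 (SL.cons S314_343_734_808_45 (SL.cons S314_343_734_808_46 (SL.cons S314_343_734_808_47 (SL.cons S314_343_734_808_48 SL.nil)))))))))))))))))))))))))))))))))))))))))))))))))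
noncomputable def S314_372_216_364_0 : EL := (EL.cons 0 (TM.mk (P.cons (P.lf 5792416443 0 0) (P.cons (P.lf 0 1327550055 0) (P.cons (P.lf 20882153 0 0) (P.cons (P.lf 49374168 0 0) (P.cons (P.lf 0 5384801 0) (P.cons (P.lf 0 616050 0) P.nil)))))) 235193)
 (EL.cons 1 (TM.mk (P.cons (P.lf 1788121471 0 0) (P.cons (P.lf 94132764 0 0) (P.cons (P.lf 0 179177853 0) (P.cons (P.lf 11443897 0 0) (P.cons (P.lf 3792305 0 0) (P.cons (P.lf 0 635690 0) P.nil)))))) 110845)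
 (EL.cons 5 (TM.mk (P.cons (P.lf 5241918562 0 0) (P.cons (P.lf 472017796 0 0) (P.cons (P.lf 0 7424770 0) (P.cons (P.lf 0 17555260 0) (P.cons (P.lf 1914598 0 0) (P.cons (P.lf 219040 0 0) P.nil)))))) 72457)
 (EL.cons 9 (TM.mk (P.lf 6442450944 0 0) 2)
 EL.nil))))
noncomputable def S314_372_216_364_1 : EL := (EL.cons 0 (TM.mk (P.cons (P.cons (P.lf 1685571663 0 0) (P.cons (P.lf 86820204 0 0) (P.cons (P.lf 37437842 0 0) (P.lf 0 4159756 0)))) (P.cons (P.cons (P.lf 1869334877 0 0) (P.cons (P.lf 158597043 0 0) (P.cons (P.lf 68388835 0 0) (P.lf 0 7598765 0)))) (P.cons (P.cons (P.lf 78434862 0 0) (P.cons (P.lf 0 121193638 0) (P.cons (P.lf 0 52260061 0) (P.lf 5806659 0 0)))) (P.cons (P.cons (P.lf 0 453850787 0) (P.cons (P.lf 10327520 0 0) (P.cons (P.lf 4453344 0 0) P.nil))) (P.cons (P.cons (P.lf 57041615 0 0) (P.cons (P.lf 9699323 0 0) P.nil)) (P.cons (P.cons (P.lf 29332081 0 0) P.nil)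 P.nil)))))) 30944779)
 (EL.cons 1 (TM.mk (P.cons (P.cons (P.lf 250208005 0 0) (P.cons (P.lf 0 93030122 0) (P.cons (P.lf 0 40115629 0) (P.lf 4457287 0 0)))) (P.cons (P.cons (P.lf 173446467 0 0) (P.cons (P.lf 124496797 0 0) (P.cons (P.lf 53684418 0 0) (P.lf 0 5964923 0)))) (P.cons (P.cons (P.lf 562490080 0 0) (P.cons (P.lf 0 5945848 0) (P.cons (P.lf 0 2563919 0) (P.lf 284876 0 0)))) (P.cons (P.cons (P.lf 0 85743932 0) (P.cons (P.lf 0 20698968 0) (P.cons (P.lf 0 8925629 0) P.nil))) (P.cons (P.cons (P.lf 0 69856795 0) (P.cons (P.lf 4289004 0 0) P.nil)) (P.cons (P.cons (P.lf 15102208 0 0) P.nil) P.nil)))))) 16565991)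
 (EL.cons 5 (TM.mk (P.cons (P.cons (P.lf 628394492 0 0) (P.cons (P.lf 0 319341452 0) (P.cons (P.lf 0 137703636 0) (P.lf 15300398 0 0)))) (P.cons (P.cons (P.lf 0 281140378 0) (P.cons (P.lf 113739382 0 0) (P.cons (P.lf 49045706 0 0) (P.lf 0 5449520 0)))) (P.cons (P.cons (P.lf 427788333 0 0) (P.cons (P.lf 23692352 0 0) (P.cons (P.lf 10216404 0 0) (P.lf 0 1135150 0)))) (P.cons (P.cons (P.lf 91323914 0 0) (P.cons (P.lf 0 10569180 0) (P.cons (P.lf 0 4557550 0) P.nil))) (P.cons (P.cons (P.lf 0 38112198 0) (P.cons (P.lf 0 1628668 0) P.nil)) (P.cons (P.cons (P.lf 0 5797841 0) P.nil) P.nil)))))) 13290834)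
 (EL.cons 9 (TM.mk (P.cons (P.cons (P.lf 1083272512 0 0) (P.cons (P.lf 0 254534154 0) (P.cons (P.lf 0 109757994 0) (P.lf 12195330 0 0)))) (P.cons (P.cons (P.lf 338392956 0 0) (P.cons (P.lf 150114210 0 0) (P.cons (P.lf 64730940 0 0) (P.lf 0 7192320 0)))) (P.cons (P.cons (P.lf 402067303 0 0) (P.cons (P.lf 0 17116512 0) (P.cons (P.lf 0 7380834 0) (P.lf 820086 0 0)))) (P.cons (P.cons (P.lf 0 61804632 0) (P.cons (P.lf 0 6085734 0) (P.cons (P.lf 0 2624238 0) P.nil))) (P.cons (P.cons (P.lf 0 15732996 0) (P.cons (P.lf 1605858 0 0) P.nil)) (P.cons (P.cons (P.lf 4086466 0 0) P.nil) P.nil)))))) 2640982)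
 (EL.cons 2 (TM.mk (P.cons (P.cons (P.lf 0 396080575 0) (P.cons (P.lf 0 368985698 0) (P.cons (P.lf 37869935 0 0) (P.cons (P.lf 7875891 0 0) (P.lf 0 656322 0))))) (P.cons (P.cons (P.lf 57013214 0 0) (P.cons (P.lf 53113083 0 0) (P.cons (P.lf 0 5451128 0) (P.cons (P.lf 0 1133682 0) (P.lf 94471 0 0))))) (P.cons (P.cons (P.lf 50216852 0 0) (P.cons (P.lf 46781642 0 0) (P.cons (P.lf 0 4801317 0) (P.cons (P.lf 0 998541 0) P.nil)))) (P.cons (P.cons (P.lf 0 11630927 0) (P.cons (P.lf 0 10835285 0) (P.cons (P.lf 1112051 0 0) P.nil))) (P.cons (P.cons (P.lf 0 1024650 0) (P.cons (P.lf 0 954556 0) P.nil)) (P.cons (P.cons (P.lf 532029 0 0) P.nil) P.nil)))))) 1390234)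
 (EL.cons 6 (TM.mk (P.cons (P.cons (P.lf 265925757 0 0) (P.cons (P.lf 247734444 0 0) (P.cons (P.lf 0 25425612 0) (P.cons (P.lf 0 5287818 0) (P.lf 440649 0 0))))) (P.cons (P.cons (P.lf 0 156832533 0) (P.cons (P.lf 0 146104011 0) (P.cons (P.lf 14995023 0 0) (P.cons (P.lf 3118545 0 0) (P.lf 0 259878 0))))) (P.cons (P.cons (P.lf 17882559 0 0) (P.cons (P.lf 16659258 0 0) (P.cons (P.lf 0 1709781 0) (P.cons (P.lf 0 355584 0) P.nil)))) (P.cons (P.cons (P.lf 6358104 0 0) (P.cons (P.lf 5923161 0 0) (P.cons (P.lf 0 607908 0) P.nil))) (P.cons (P.cons (P.lf 0 1677732 0) (P.cons (P.lf 0 1562961 0) P.nil)) (P.cons (P.cons (P.lf 0 21735 0) P.nil) P.nil)))))) 759483)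
 EL.nil))))))
noncomputable def S314_372_216_364_2 : EL := (EL.cons 0 (TM.mk (P.cons (P.cons (P.lf 403074861 0 0) (P.cons (P.lf 0 27032114 0) (P.cons (P.lf 0 27558585 0) (P.cons (P.lf 0 12419089 0) (P.cons (P.lf 0 1433061 0) (P.cons (P.lf 657082 0 0) P.nil)))))) (P.cons (P.cons (P.lf 740930668 0 0) (P.cons (P.lf 0 45690978 0) (P.cons (P.lf 0 15451382 0) (P.cons (P.lf 5855382 0 0) (P.cons (P.lf 383095 0 0) P.nil))))) (P.cons (P.cons (P.lf 318451522 0 0) (P.cons (P.lf 83432459 0 0) (P.cons (P.lf 45645249 0 0) (P.cons (P.lf 4340664 0 0) P.nil)))) (P.cons (P.cons (P.lf 67070984 0 0) (P.cons (P.lf 13586691 0 0) (P.cons (P.lf 0 366238 0) P.nil))) (P.cons (P.cons (P.lf 0 71565013 0) (P.cons (P.lf 0 35638950 0) P.nil)) (P.cons (P.cons (P.lf 0 40489649 0) P.nil) P.nil)))))) 139221384)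
 (EL.cons 1 (TM.mk (P.cons (P.cons (P.lf 33587251 0 0) (P.cons (P.lf 0 27298246 0) (P.cons (P.lf 0 7211449 0) (P.cons (P.lf 5240448 0 0) (P.cons (P.lf 410922 0 0) (P.cons (P.lf 0 188413 0) P.nil)))))) (P.cons (P.cons (P.lf 50366628 0 0) (P.cons (P.lf 24709818 0 0) (P.cons (P.lf 0 372343 0) (P.cons (P.lf 0 10694270 0) (P.cons (P.lf 0 993781 0) P.nil))))) (P.cons (P.cons (P.lf 199553506 0 0) (P.cons (P.lf 0 34915097 0) (P.cons (P.lf 0 9183081 0) (P.cons (P.lf 6737602 0 0) P.nil)))) (P.cons (P.cons (P.lf 41755450 0 0) (P.cons (P.lf 36974173 0 0) (P.cons (P.lf 16485689 0 0) P.nil))) (P.cons (P.cons (P.lf 33097315 0 0) (P.cons (P.lf 0 4887215 0) P.nil)) (P.cons (P.cons (P.lf 0 21984337 0) P.nil) P.nil)))))) 70459465)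
 (EL.cons 5 (TM.mk (P.cons (P.cons (P.lf 63118865 0 0) (P.cons (P.lf 0 87399428 0) (P.cons (P.lf 0 20636365 0) (P.cons (P.lf 18892901 0 0) (P.cons (P.lf 1536620 0 0) (P.cons (P.lf 0 704558 0) P.nil)))))) (P.cons (P.cons (P.lf 0 134469965 0) (P.cons (P.lf 43154577 0 0) (P.cons (P.lf 3653983 0 0) (P.cons (P.lf 0 14964947 0) (P.cons (P.lf 0 1347695 0) P.nil))))) (P.cons (P.cons (P.lf 60157270 0 0) (P.cons (P.lf 0 54322770 0) (P.cons (P.lf 0 21365191 0) (P.cons (P.lf 4378796 0 0) P.nil)))) (P.cons (P.cons (P.lf 466129 0 0) (P.cons (P.lf 17581919 0 0) (P.cons (P.lf 9435829 0 0) P.nil))) (P.cons (P.cons (P.lf 40529004 0 0) (P.cons (P.lf 8282521 0 0) P.nil)) (P.cons (P.cons (P.lf 5337742 0 0) P.nil) P.nil)))))) 62585966)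
 (EL.cons 9 (TM.mk (P.cons (P.cons (P.lf 182147965 0 0) (P.cons (P.lf 0 85597812 0) (P.cons (P.lf 0 26854375 0) (P.cons (P.lf 12774027 0 0) (P.cons (P.lf 906262 0 0) (P.cons (P.lf 0 415534 0) P.nil)))))) (P.cons (P.cons (P.lf 113798859 0 0) (P.cons (P.lf 23743147 0 0) (P.cons (P.lf 0 1623381 0) (P.cons (P.lf 0 11367381 0) (P.cons (P.lf 0 1068957 0) P.nil))))) (P.cons (P.cons (P.lf 152986296 0 0) (P.cons (P.lf 0 21756972 0) (P.cons (P.lf 0 4531563 0) (P.cons (P.lf 5225424 0 0) P.nil)))) (P.cons (P.cons (P.lf 21453165 0 0) (P.cons (P.lf 19775947 0 0) (P.cons (P.lf 8210835 0 0) P.nil))) (P.cons (P.cons (P.lf 13309122 0 0) (P.cons (P.lf 0 3872733 0) P.nil)) (P.cons (P.cons (P.lf 0 7992858 0) P.nil) P.nil)))))) 19415302)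
 (EL.cons 2 (TM.mk (P.cons (P.cons (P.lf 0 133198745 0) (P.cons (P.lf 0 92789538 0) (P.cons (P.lf 55387591 0 0) (P.cons (P.lf 10729248 0 0) (P.cons (P.lf 0 3530356 0) (P.cons (P.lf 0 73119 0) P.nil)))))) (P.cons (P.cons (P.lf 0 22435565 0) (P.cons (P.lf 0 43863845 0) (P.cons (P.lf 0 29149014 0) (P.cons (P.lf 0 5482681 0) (P.cons (P.lf 2391120 0 0) P.nil))))) (P.cons (P.cons (P.lf 0 26561205 0) (P.cons (P.lf 0 23950698 0) (P.cons (P.lf 3620970 0 0) (P.cons (P.lf 733033 0 0) P.nil)))) (P.cons (P.cons (P.lf 16079692 0 0) (P.cons (P.lf 18684309 0 0) (P.cons (P.lf 3511215 0 0) P.nil))) (P.cons (P.cons (P.lf 5542177 0 0) (P.cons (P.lf 4129993 0 0) P.nil)) (P.cons (P.cons (P.lf 0 3124895 0) P.nil) P.nil)))))) 15167350)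
 (EL.cons 6 (TM.mk (P.cons (P.cons (P.lf 89428716 0 0) (P.cons (P.lf 62298252 0 0) (P.cons (P.lf 0 37186842 0) (P.cons (P.lf 0 7203540 0) (P.cons (P.lf 2370258 0 0) (P.cons (P.lf 49092 0 0) P.nil)))))) (P.cons (P.cons (P.lf 0 24805764 0) (P.cons (P.lf 1676250 0 0) (P.cons (P.lf 36148974 0 0) (P.cons (P.lf 6892500 0 0) (P.cons (P.lf 0 2662080 0) P.nil))))) (P.cons (P.cons (P.lf 22730700 0 0) (P.cons (P.lf 11041020 0 0) (P.cons (P.lf 0 15984960 0) (P.cons (P.lf 0 3068664 0) P.nil)))) (P.cons (P.cons (P.lf 0 20661012 0) (P.cons (P.lf 0 18585738 0) (P.cons (P.lf 2877480 0 0) P.nil))) (P.cons (P.cons (P.lf 4046052 0 0) (P.cons (P.lf 4531986 0 0) P.nil)) (P.cons (P.cons (P.lf 1370292 0 0) P.nil) P.nil)))))) 11571186)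
 EL.nil))))))
noncomputable def S314_372_216_364_3 : EL := (EL.cons 0 (TM.mk (P.cons (P.lf 2663300420 0 0) (P.cons (P.lf 1327550055 0 0) (P.cons (P.lf 0 20882153 0) (P.cons (P.lf 0 49374168 0) (P.cons (P.lf 5384801 0 0) (P.cons (P.lf 616050 0 0) P.nil)))))) 235193)
 (EL.cons 1 (TM.mk (P.cons (P.lf 0 1788121471 0) (P.cons (P.lf 0 94132764 0) (P.cons (P.lf 179177853 0 0) (P.cons (P.lf 0 11443897 0) (P.cons (P.lf 0 3792305 0) (P.cons (P.lf 635690 0 0) P.nil)))))) 110845)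
 (EL.cons 5 (TM.mk (P.cons (P.lf 1200532382 0 0) (P.cons (P.lf 0 472017796 0) (P.cons (P.lf 7424770 0 0) (P.cons (P.lf 17555260 0 0) (P.cons (P.lf 0 1914598 0) (P.cons (P.lf 0 219040 0) P.nil)))))) 72450)
 EL.nil)))
noncomputable def S314_372_216_364_4 : EL := (EL.cons 0 (TM.mk (P.cons (P.cons (P.lf 447823376 0 0) (P.cons (P.lf 0 105224071 0) (P.cons (P.lf 0 45373804 0) (P.lf 5041531 0 0)))) (P.cons (P.cons (P.lf 363113448 0 0) (P.cons (P.lf 9606965 0 0) (P.cons (P.lf 4142631 0 0) (P.lf 0 460290 0)))) (P.cons (P.cons (P.lf 232433052 0 0) (P.cons (P.lf 24682055 0 0) (P.cons (P.lf 10643180 0 0) (P.lf 0 1182575 0)))) (P.cons (P.cons (P.lf 47902283 0 0) (P.cons (P.lf 0 4578762 0) (P.cons (P.lf 0 1974413 0) P.nil))) (P.cons (P.cons (P.lf 0 22230843 0) (P.cons (P.lf 0 1897908 0) P.nil)) (P.cons (P.cons (P.lf 0 4047285 0) P.nil) P.nil)))))) 6194544)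
 (EL.cons 1 (TM.mk (P.cons (P.cons (P.lf 0 300665516 0) (P.cons (P.lf 70646713 0 0) (P.cons (P.lf 30463657 0 0) (P.lf 0 3384849 0)))) (P.cons (P.cons (P.lf 0 109750023 0) (P.cons (P.lf 0 37945563 0) (P.cons (P.lf 0 16362553 0) (P.lf 1818058 0 0)))) (P.cons (P.cons (P.lf 0 86411304 0) (P.cons (P.lf 0 4521748 0) (P.cons (P.lf 0 1949827 0) (P.lf 216646 0 0)))) (P.cons (P.cons (P.lf 18766483 0 0) (P.cons (P.lf 6566328 0 0) (P.cons (P.lf 2831475 0 0) P.nil))) (P.cons (P.cons (P.lf 15213348 0 0) (P.cons (P.lf 0 949655 0) P.nil)) (P.cons (P.cons (P.lf 0 3429750 0) P.nil) P.nil)))))) 3935687)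
 (EL.cons 5 (TM.mk (P.cons (P.cons (P.lf 201864746 0 0) (P.cons (P.lf 0 47431714 0) (P.cons (P.lf 0 20453088 0) (P.lf 2272564 0 0)))) (P.cons (P.cons (P.lf 0 16309352 0) (P.cons (P.lf 46622258 0 0) (P.cons (P.lf 20104042 0 0) (P.lf 0 2233780 0)))) (P.cons (P.cons (P.lf 51379570 0 0) (P.cons (P.lf 0 14481344 0) (P.cons (P.lf 0 6244518 0) (P.lf 693832 0 0)))) (P.cons (P.cons (P.lf 0 37633466 0) (P.cons (P.lf 0 400572 0) (P.cons (P.lf 0 172730 0) P.nil))) (P.cons (P.cons (P.lf 2659968 0 0) (P.cons (P.lf 1210096 0 0) P.nil)) (P.cons (P.cons (P.lf 2801188 0 0) P.nil) P.nil)))))) 2687888)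
 EL.nil)))
noncomputable def S314_372_216_364_5 : EL := (EL.cons 0 (TM.mk (P.cons (P.cons (P.lf 75299719 0 0) (P.cons (P.lf 0 35386017 0) (P.cons (P.lf 0 11101561 0) (P.cons (P.lf 5280764 0 0) (P.cons (P.lf 374646 0 0) (P.cons (P.lf 0 171780 0) P.nil)))))) (P.cons (P.cons (P.lf 84578227 0 0) (P.cons (P.lf 0 7823146 0) (P.cons (P.lf 0 6204793 0) (P.cons (P.lf 0 2067006 0) (P.cons (P.lf 0 255157 0) P.nil))))) (P.cons (P.cons (P.lf 86103643 0 0) (P.cons (P.lf 0 3824268 0) (P.cons (P.lf 0 2120814 0) (P.cons (P.lf 0 223616 0) P.nil)))) (P.cons (P.cons (P.lf 38628685 0 0) (P.cons (P.lf 4271095 0 0) (P.cons (P.lf 2671630 0 0) P.nil))) (P.cons (P.cons (P.lf 8706897 0 0) (P.cons (P.lf 2291116 0 0) P.nil)) (P.cons (P.cons (P.lf 0 1691191 0) P.nil) P.nil)))))) 19414981)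
 (EL.cons 1 (TM.mk (P.cons (P.cons (P.lf 0 50555709 0) (P.cons (P.lf 23757926 0 0) (P.cons (P.lf 7453511 0 0) (P.cons (P.lf 0 3545467 0) (P.cons (P.lf 0 251535 0) (P.cons (P.lf 115331 0 0) P.nil)))))) (P.cons (P.cons (P.lf 0 34246635 0) (P.cons (P.lf 0 5339281 0) (P.cons (P.lf 842951 0 0) (P.cons (P.lf 2968404 0 0) (P.cons (P.lf 283449 0 0) P.nil))))) (P.cons (P.cons (P.lf 0 39058642 0) (P.cons (P.lf 3311141 0 0) (P.cons (P.lf 534592 0 0) (P.cons (P.lf 0 928965 0) P.nil)))) (P.cons (P.cons (P.lf 0 5348295 0) (P.cons (P.lf 0 4358578 0) (P.cons (P.lf 0 2210175 0) P.nil))) (P.cons (P.cons (P.lf 0 61944 0) (P.cons (P.lf 189039 0 0) P.nil)) (P.cons (P.cons (P.lf 2299865 0 0) P.nil) P.nil)))))) 13094628)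
 (EL.cons 5 (TM.mk (P.cons (P.cons (P.lf 33942752 0 0) (P.cons (P.lf 0 15950908 0) (P.cons (P.lf 0 5004234 0) (P.cons (P.lf 2380402 0 0) (P.cons (P.lf 168878 0 0) (P.cons (P.lf 0 77432 0) P.nil)))))) (P.cons (P.cons (P.lf 7860692 0 0) (P.cons (P.lf 10695946 0 0) (P.cons (P.lf 1665020 0 0) (P.cons (P.lf 0 3054190 0) (P.cons (P.lf 0 265594 0) P.nil))))) (P.cons (P.cons (P.lf 20380802 0 0) (P.cons (P.lf 0 5892582 0) (P.cons (P.lf 0 756452 0) (P.cons (P.lf 1821316 0 0) P.nil)))) (P.cons (P.cons (P.lf 0 6583588 0) (P.cons (P.lf 5073368 0 0) (P.cons (P.lf 1787030 0 0) P.nil))) (P.cons (P.cons (P.lf 1340586 0 0) (P.cons (P.lf 0 2105530 0) P.nil)) (P.cons (P.cons (P.lf 0 2062972 0) P.nil) P.nil)))))) 8653768)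
 EL.nil)))
noncomputable def S314_372_216_364_6 : EL := (EL.cons 12 (TM.mk (P.lf 8589934592 0 0) 0)
 (EL.cons 3 (TM.mk (P.cons (P.lf 2391525476 0 0) (P.cons (P.lf 596040491 0 0) (P.cons (P.lf 0 83651283 0) (P.cons (P.lf 0 1319475 0) (P.cons (P.lf 1283523 0 0) (P.cons (P.lf 0 89452 0) P.nil)))))) 26268)
 (EL.cons 7 (TM.mk (P.cons (P.lf 0 1605653656 0) (P.cons (P.lf 315650420 0 0) (P.cons (P.lf 26061229 0 0) (P.cons (P.lf 0 6616358 0) (P.cons (P.lf 191151 0 0) (P.cons (P.lf 76666 0 0) P.nil)))))) 11720)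
 EL.nil)))
noncomputable def S314_372_216_364_7 : EL := (EL.cons 12 (TM.mk (P.cons (P.cons (P.lf 1444363350 0 0) (P.cons (P.lf 0 339378872 0) (P.cons (P.lf 0 146343992 0) (P.lf 16260440 0 0)))) (P.cons (P.cons (P.lf 451190608 0 0) (P.cons (P.lf 200152280 0 0) (P.cons (P.lf 86307920 0 0) (P.lf 0 9589760 0)))) (P.cons (P.cons (P.lf 536089738 0 0) (P.cons (P.lf 0 22822016 0) (P.cons (P.lf 0 9841112 0) (P.lf 1093448 0 0)))) (P.cons (P.cons (P.lf 0 82406176 0) (P.cons (P.lf 0 8114312 0) (P.cons (P.lf 0 3498984 0) P.nil))) (P.cons (P.cons (P.lf 0 20977328 0) (P.cons (P.lf 2141144 0 0) P.nil)) (P.cons (P.cons (P.lf 5448622 0 0) P.nil) P.nil)))))) 3521284)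
 (EL.cons 3 (TM.mk (P.cons (P.cons (P.lf 1041110572 0 0) (P.cons (P.lf 188973084 0 0) (P.cons (P.lf 81487320 0 0) (P.lf 0 9054144 0)))) (P.cons (P.cons (P.lf 1672404267 0 0) (P.cons (P.lf 0 64351064 0) (P.cons (P.lf 0 27748904 0) (P.lf 3083206 0 0)))) (P.cons (P.cons (P.lf 0 366400548 0) (P.cons (P.lf 0 21678604 0) (P.cons (P.lf 0 9348058 0) (P.lf 1038674 0 0)))) (P.cons (P.cons (P.lf 0 98278500 0) (P.cons (P.lf 11479392 0 0) (P.cons (P.lf 4950044 0 0) P.nil))) (P.cons (P.cons (P.lf 41880495 0 0) (P.cons (P.lf 0 347738 0) P.nil)) (P.cons (P.cons (P.lf 0 682110 0) P.nil) P.nil)))))) 12125403)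
 (EL.cons 7 (TM.mk (P.cons (P.cons (P.lf 68408672 0 0) (P.cons (P.lf 213551829 0 0) (P.cons (P.lf 92085961 0 0) (P.lf 0 10231774 0)))) (P.cons (P.cons (P.lf 885669876 0 0) (P.cons (P.lf 0 34078965 0) (P.cons (P.lf 0 14695237 0) (P.lf 1632807 0 0)))) (P.cons (P.cons (P.lf 3385416 0 0) (P.cons (P.lf 0 19077021 0) (P.cons (P.lf 0 8226227 0) (P.lf 914022 0 0)))) (P.cons (P.cons (P.lf 0 89377252 0) (P.cons (P.lf 1884487 0 0) (P.cons (P.lf 812611 0 0) P.nil))) (P.cons (P.cons (P.lf 1659095 0 0) (P.cons (P.lf 1315813 0 0) P.nil)) (P.cons (P.cons (P.lf 4697116 0 0) P.nil) P.nil)))))) 7573831)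
 (EL.cons 10 (TM.mk (P.cons (P.cons (P.lf 0 711325530 0) (P.cons (P.lf 0 662665536 0) (P.cons (P.lf 68011041 0 0) (P.cons (P.lf 14144403 0 0) (P.lf 0 1178700 0))))) (P.cons (P.cons (P.lf 279674511 0 0) (P.cons (P.lf 260542680 0 0) (P.cons (P.lf 0 26740155 0) (P.cons (P.lf 0 5561208 0) (P.lf 463434 0 0))))) (P.cons (P.cons (P.lf 0 4399236 0) (P.cons (P.lf 0 4098297 0) (P.cons (P.lf 420618 0 0) (P.cons (P.lf 87474 0 0) P.nil)))) (P.cons (P.cons (P.lf 0 10401639 0) (P.cons (P.lf 0 9690087 0) (P.cons (P.lf 994518 0 0) P.nil))) (P.cons (P.cons (P.lf 1134414 0 0) (P.cons (P.lf 1056810 0 0) P.nil)) (P.cons (P.cons (P.lf 129783 0 0) P.nil) P.nil)))))) 588420)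
 EL.nil))))
noncomputable def S314_372_216_364_8 : EL := (EL.cons 12 (TM.mk (P.cons (P.cons (P.lf 242863954 0 0) (P.cons (P.lf 0 114130416 0) (P.cons (P.lf 0 35805834 0) (P.cons (P.lf 17032036 0 0) (P.cons (P.lf 1208350 0 0) (P.cons (P.lf 0 554046 0) P.nil)))))) (P.cons (P.cons (P.lf 151731812 0 0) (P.cons (P.lf 31657530 0 0) (P.cons (P.lf 0 2164508 0) (P.cons (P.lf 0 15156508 0) (P.cons (P.lf 0 1425276 0) P.nil))))) (P.cons (P.cons (P.lf 203981728 0 0) (P.cons (P.lf 0 29009296 0) (P.cons (P.lf 0 6042084 0) (P.cons (P.lf 6967232 0 0) P.nil)))) (P.cons (P.cons (P.lf 28604220 0 0) (P.cons (P.lf 26367930 0 0) (P.cons (P.lf 10947780 0 0) P.nil))) (P.cons (P.cons (P.lf 17745496 0 0) (P.cons (P.lf 0 5163644 0) P.nil)) (P.cons (P.cons (P.lf 0 10657144 0) P.nil) P.nil)))))) 25887040)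
 (EL.cons 3 (TM.mk (P.cons (P.cons (P.lf 282501399 0 0) (P.cons (P.lf 13058950 0 0) (P.cons (P.lf 0 13034127 0) (P.cons (P.lf 0 16723055 0) (P.cons (P.lf 0 1682086 0) (P.cons (P.lf 771261 0 0) P.nil)))))) (P.cons (P.cons (P.lf 612690370 0 0) (P.cons (P.lf 0 86315711 0) (P.cons (P.lf 0 19856146 0) (P.cons (P.lf 19110827 0 0) (P.cons (P.lf 1564831 0 0) P.nil))))) (P.cons (P.cons (P.lf 117465690 0 0) (P.cons (P.lf 115661908 0 0) (P.cons (P.lf 47012208 0 0) (P.cons (P.lf 0 8010325 0) P.nil)))) (P.cons (P.cons (P.lf 96627142 0 0) (P.cons (P.lf 0 35274932 0) (P.cons (P.lf 0 17626463 0) P.nil))) (P.cons (P.cons (P.lf 0 84098322 0) (P.cons (P.lf 0 10540685 0) P.nil)) (P.cons (P.cons (P.lf 0 5888784 0) P.nil) P.nil)))))) 80934892)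
 (EL.cons 7 (TM.mk (P.cons (P.cons (P.lf 68402074 0 0) (P.cons (P.lf 45076710 0 0) (P.cons (P.lf 5069544 0 0) (P.cons (P.lf 0 14551057 0) (P.cons (P.lf 0 1294822 0) (P.cons (P.lf 593691 0 0) P.nil)))))) (P.cons (P.cons (P.lf 324467840 0 0) (P.cons (P.lf 0 45710975 0) (P.cons (P.lf 0 10515393 0) (P.cons (P.lf 10120691 0 0) (P.cons (P.lf 828697 0 0) P.nil))))) (P.cons (P.cons (P.lf 134533993 0 0) (P.cons (P.lf 51062729 0 0) (P.cons (P.lf 22552698 0 0) (P.cons (P.lf 0 1986109 0) P.nil)))) (P.cons (P.cons (P.lf 77111768 0 0) (P.cons (P.lf 0 1525780 0) (P.cons (P.lf 0 2176517 0) P.nil))) (P.cons (P.cons (P.lf 0 23977322 0) (P.cons (P.lf 0 9902416 0) P.nil)) (P.cons (P.cons (P.lf 0 16285296 0) P.nil) P.nil)))))) 38432777)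
 (EL.cons 10 (TM.mk (P.cons (P.cons (P.lf 0 239213118 0) (P.cons (P.lf 0 166641768 0) (P.cons (P.lf 99471198 0 0) (P.cons (P.lf 19268784 0 0) (P.cons (P.lf 0 6340212 0) (P.cons (P.lf 0 131322 0) P.nil)))))) (P.cons (P.cons (P.lf 19326852 0 0) (P.cons (P.lf 0 37243404 0) (P.cons (P.lf 0 77140272 0) (P.cons (P.lf 0 14648778 0) (P.cons (P.lf 5874414 0 0) P.nil))))) (P.cons (P.cons (P.lf 0 60885654 0) (P.cons (P.lf 0 39559980 0) (P.cons (P.lf 29207964 0 0) (P.cons (P.lf 5641374 0 0) P.nil)))) (P.cons (P.cons (P.lf 44596290 0 0) (P.cons (P.lf 42020256 0 0) (P.cons (P.lf 0 3617022 0) P.nil))) (P.cons (P.cons (P.lf 0 3152106 0) (P.cons (P.lf 0 4370466 0) P.nil)) (P.cons (P.cons (P.lf 0 3319458 0) P.nil) P.nil)))))) 19052022)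
 EL.nil))))
noncomputable def S314_372_216_364_9 : EL := (EL.cons 3 (TM.mk (P.cons (P.lf 2391525476 0 0) (P.cons (P.lf 596040491 0 0) (P.cons (P.lf 0 83651283 0) (P.cons (P.lf 0 1319475 0) (P.cons (P.lf 1283523 0 0) (P.cons (P.lf 0 89452 0) P.nil)))))) 26268)
 (EL.cons 7 (TM.mk (P.cons (P.lf 0 1605653656 0) (P.cons (P.lf 315650420 0 0) (P.cons (P.lf 26061229 0 0) (P.cons (P.lf 0 6616358 0) (P.cons (P.lf 191151 0 0) (P.cons (P.lf 76666 0 0) P.nil)))))) 11720)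
 EL.nil))
noncomputable def S314_372_216_364_10 : EL := (EL.cons 3 (TM.mk (P.cons (P.cons (P.lf 402125500 0 0) (P.cons (P.lf 0 94486542 0) (P.cons (P.lf 0 40743660 0) (P.lf 4527072 0 0)))) (P.cons (P.cons (P.lf 225837909 0 0) (P.cons (P.lf 32175532 0 0) (P.cons (P.lf 13874452 0 0) (P.lf 0 1541603 0)))) (P.cons (P.cons (P.lf 166494549 0 0) (P.cons (P.lf 10839302 0 0) (P.cons (P.lf 4674029 0 0) (P.lf 0 519337 0)))) (P.cons (P.cons (P.lf 9639915 0 0) (P.cons (P.lf 0 5739696 0) (P.cons (P.lf 0 2475022 0) P.nil))) (P.cons (P.cons (P.lf 0 16632405 0) (P.cons (P.lf 173869 0 0) P.nil)) (P.cons (P.cons (P.lf 833895 0 0) P.nil) P.nil)))))) 2940413)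
 (EL.cons 7 (TM.mk (P.cons (P.cons (P.lf 0 269984278 0) (P.cons (P.lf 63437610 0 0) (P.cons (P.lf 27355012 0 0) (P.lf 0 3039445 0)))) (P.cons (P.cons (P.lf 0 31262397 0) (P.cons (P.lf 0 49884003 0) (P.cons (P.lf 0 21510544 0) (P.lf 2390058 0 0)))) (P.cons (P.cons (P.lf 0 79245546 0) (P.cons (P.lf 10591206 0 0) (P.cons (P.lf 4567048 0 0) (P.lf 0 507447 0)))) (P.cons (P.cons (P.lf 35359394 0 0) (P.cons (P.lf 1546771 0 0) (P.cons (P.lf 666985 0 0) P.nil))) (P.cons (P.cons (P.lf 2204066 0 0) (P.cons (P.lf 0 929360 0) P.nil)) (P.cons (P.cons (P.lf 0 2429318 0) P.nil) P.nil)))))) 1687335)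
 EL.nil))
noncomputable def S314_372_216_364_11 : EL := (EL.cons 3 (TM.mk (P.cons (P.cons (P.lf 67615803 0 0) (P.cons (P.lf 0 31775072 0) (P.cons (P.lf 0 9968709 0) (P.cons (P.lf 4741891 0 0) (P.cons (P.lf 336416 0 0) (P.cons (P.lf 0 154251 0) P.nil)))))) (P.cons (P.cons (P.lf 59095588 0 0) (P.cons (P.lf 894469 0 0) (P.cons (P.lf 0 3087124 0) (P.cons (P.lf 0 3037903 0) (P.cons (P.lf 0 312965 0) P.nil))))) (P.cons (P.cons (P.lf 64953918 0 0) (P.cons (P.lf 0 4768388 0) (P.cons (P.lf 0 1483680 0) (P.cons (P.lf 722201 0 0) P.nil)))) (P.cons (P.cons (P.lf 20602726 0 0) (P.cons (P.lf 5037436 0 0) (P.cons (P.lf 2655301 0 0) P.nil))) (P.cons (P.cons (P.lf 4951872 0 0) (P.cons (P.lf 652597 0 0) P.nil)) (P.cons (P.cons (P.lf 0 2025474 0) P.nil) P.nil)))))) 12842820)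
 (EL.cons 7 (TM.mk (P.cons (P.cons (P.lf 0 45396782 0) (P.cons (P.lf 21333564 0 0) (P.cons (P.lf 6692922 0 0) (P.cons (P.lf 0 3183673 0) (P.cons (P.lf 0 225868 0) (P.cons (P.lf 103563 0 0) P.nil)))))) (P.cons (P.cons (P.lf 0 19437706 0) (P.cons (P.lf 0 10111409 0) (P.cons (P.lf 0 911145 0) (P.cons (P.lf 3458963 0 0) (P.cons (P.lf 310819 0 0) P.nil))))) (P.cons (P.cons (P.lf 0 31816361 0) (P.cons (P.lf 6239537 0 0) (P.cons (P.lf 941232 0 0) (P.cons (P.lf 0 1807609 0) P.nil)))) (P.cons (P.cons (P.lf 2422124 0 0) (P.cons (P.lf 0 5810800 0) (P.cons (P.lf 0 2247401 0) P.nil))) (P.cons (P.cons (P.lf 0 1758530 0) (P.cons (P.lf 1819196 0 0) P.nil)) (P.cons (P.cons (P.lf 2579358 0 0) P.nil) P.nil)))))) 7667695)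
 EL.nil))
noncomputable def S314_372_216_364_12 : EL := (EL.cons 4 (TM.mk (P.cons (P.lf 0 2391525476 0) (P.cons (P.lf 0 596040491 0) (P.cons (P.lf 83651283 0 0) (P.cons (P.lf 1319475 0 0) (P.cons (P.lf 0 1283523 0) (P.cons (P.lf 89452 0 0) P.nil)))))) 26268)
 (EL.cons 8 (TM.mk (P.cons (P.lf 1605653656 0 0) (P.cons (P.lf 0 315650420 0) (P.cons (P.lf 0 26061229 0) (P.cons (P.lf 6616358 0 0) (P.cons (P.lf 0 191151 0) (P.cons (P.lf 0 76666 0) P.nil)))))) 11720)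
 EL.nil))
noncomputable def S314_372_216_364_13 : EL := (EL.cons 4 (TM.mk (P.cons (P.cons (P.lf 0 402125500 0) (P.cons (P.lf 94486542 0 0) (P.cons (P.lf 40743660 0 0) (P.lf 0 4527072 0)))) (P.cons (P.cons (P.lf 0 225837909 0) (P.cons (P.lf 0 32175532 0) (P.cons (P.lf 0 13874452 0) (P.lf 1541603 0 0)))) (P.cons (P.cons (P.lf 0 166494549 0) (P.cons (P.lf 0 10839302 0) (P.cons (P.lf 0 4674029 0) (P.lf 519337 0 0)))) (P.cons (P.cons (P.lf 0 9639915 0) (P.cons (P.lf 5739696 0 0) (P.cons (P.lf 2475022 0 0) P.nil))) (P.cons (P.cons (P.lf 16632405 0 0) (P.cons (P.lf 0 173869 0) P.nil)) (P.cons (P.cons (P.lf 0 833895 0) P.nil) P.nil)))))) 2940413)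
 (EL.cons 8 (TM.mk (P.cons (P.cons (P.lf 269984278 0 0) (P.cons (P.lf 0 63437610 0) (P.cons (P.lf 0 27355012 0) (P.lf 3039445 0 0)))) (P.cons (P.cons (P.lf 31262397 0 0) (P.cons (P.lf 49884003 0 0) (P.cons (P.lf 21510544 0 0) (P.lf 0 2390058 0)))) (P.cons (P.cons (P.lf 79245546 0 0) (P.cons (P.lf 0 10591206 0) (P.cons (P.lf 0 4567048 0) (P.lf 507447 0 0)))) (P.cons (P.cons (P.lf 0 35359394 0) (P.cons (P.lf 0 1546771 0) (P.cons (P.lf 0 666985 0) P.nil))) (P.cons (P.cons (P.lf 0 2204066 0) (P.cons (P.lf 929360 0 0) P.nil)) (P.cons (P.cons (P.lf 2429318 0 0) P.nil) P.nil)))))) 1687335)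
 EL.nil))
noncomputable def S314_372_216_364_14 : EL := (EL.cons 4 (TM.mk (P.cons (P.cons (P.lf 0 67615803 0) (P.cons (P.lf 31775072 0 0) (P.cons (P.lf 9968709 0 0) (P.cons (P.lf 0 4741891 0) (P.cons (P.lf 0 336416 0) (P.cons (P.lf 154251 0 0) P.nil)))))) (P.cons (P.cons (P.lf 0 59095588 0) (P.cons (P.lf 0 894469 0) (P.cons (P.lf 3087124 0 0) (P.cons (P.lf 3037903 0 0) (P.cons (P.lf 312965 0 0) P.nil))))) (P.cons (P.cons (P.lf 0 64953918 0) (P.cons (P.lf 4768388 0 0) (P.cons (P.lf 1483680 0 0) (P.cons (P.lf 0 722201 0) P.nil)))) (P.cons (P.cons (P.lf 0 20602726 0) (P.cons (P.lf 0 5037436 0) (P.cons (P.lf 0 2655301 0) P.nil))) (P.cons (P.cons (P.lf 0 4951872 0) (P.cons (P.lf 0 652597 0) P.nil)) (P.cons (P.cons (P.lf 2025474 0 0) P.nil) P.nil)))))) 12842820)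
 (EL.cons 8 (TM.mk (P.cons (P.cons (P.lf 45396782 0 0) (P.cons (P.lf 0 21333564 0) (P.cons (P.lf 0 6692922 0) (P.cons (P.lf 3183673 0 0) (P.cons (P.lf 225868 0 0) (P.cons (P.lf 0 103563 0) P.nil)))))) (P.cons (P.cons (P.lf 19437706 0 0) (P.cons (P.lf 10111409 0 0) (P.cons (P.lf 911145 0 0) (P.cons (P.lf 0 3458963 0) (P.cons (P.lf 0 310819 0) P.nil))))) (P.cons (P.cons (P.lf 31816361 0 0) (P.cons (P.lf 0 6239537 0) (P.cons (P.lf 0 941232 0) (P.cons (P.lf 1807609 0 0) P.nil)))) (P.cons (P.cons (P.lf 0 2422124 0) (P.cons (P.lf 5810800 0 0) (P.cons (P.lf 2247401 0 0) P.nil))) (P.cons (P.cons (P.lf 1758530 0 0) (P.cons (P.lf 0 1819196 0) P.nil)) (P.cons (P.cons (P.lf 0 2579358 0) P.nil) P.nil)))))) 7667695)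
 EL.nil))
noncomputable def S314_372_216_364_15 : EL := (EL.cons 4 (TM.mk (P.cons (P.lf 0 1420426890 0) (P.cons (P.lf 0 708026696 0) (P.cons (P.lf 11137148 0 0) (P.cons (P.lf 26332890 0 0) (P.cons (P.lf 0 2871894 0) (P.cons (P.lf 0 328560 0) P.nil)))))) 125439)
 (EL.cons 8 (TM.mk (P.cons (P.lf 953664785 0 0) (P.cons (P.lf 50204141 0 0) (P.cons (P.lf 0 95561522 0) (P.cons (P.lf 6103412 0 0) (P.cons (P.lf 2022563 0 0) (P.cons (P.lf 0 339035 0) P.nil)))))) 59114)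
 EL.nil))
noncomputable def S314_372_216_364_16 : EL := (EL.cons 4 (TM.mk (P.cons (P.cons (P.lf 0 238839134 0) (P.cons (P.lf 56119504 0 0) (P.cons (P.lf 24199362 0 0) (P.lf 0 2688816 0)))) (P.cons (P.cons (P.lf 0 193660505 0) (P.cons (P.lf 0 5123715 0) (P.cons (P.lf 0 2209403 0) (P.lf 245488 0 0)))) (P.cons (P.cons (P.lf 0 123964294 0) (P.cons (P.lf 0 13163762 0) (P.cons (P.lf 0 5676362 0) (P.lf 630706 0 0)))) (P.cons (P.cons (P.lf 0 25547884 0) (P.cons (P.lf 2442006 0 0) (P.cons (P.lf 1053020 0 0) P.nil))) (P.cons (P.cons (P.lf 11856450 0 0) (P.cons (P.lf 1012217 0 0) P.nil)) (P.cons (P.cons (P.lf 2158552 0 0) P.nil) P.nil)))))) 3303766)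
 (EL.cons 8 (TM.mk (P.cons (P.cons (P.lf 160354942 0 0) (P.cons (P.lf 0 37678247 0) (P.cons (P.lf 0 16247284 0) (P.lf 1805253 0 0)))) (P.cons (P.cons (P.lf 58533346 0 0) (P.cons (P.lf 20237634 0 0) (P.cons (P.lf 8726695 0 0) (P.lf 0 969631 0)))) (P.cons (P.cons (P.lf 46086029 0 0) (P.cons (P.lf 2411599 0 0) (P.cons (P.lf 1039908 0 0) (P.lf 0 115545 0)))) (P.cons (P.cons (P.lf 0 10008791 0) (P.cons (P.lf 0 3502042 0) (P.cons (P.lf 0 1510120 0) P.nil))) (P.cons (P.cons (P.lf 0 8113786 0) (P.cons (P.lf 506483 0 0) P.nil)) (P.cons (P.cons (P.lf 1829200 0 0) P.nil) P.nil)))))) 2099023)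
 EL.nil))
noncomputable def S314_372_216_364_17 : EL := (EL.cons 4 (TM.mk (P.cons (P.cons (P.lf 0 40159850 0) (P.cons (P.lf 18872542 0 0) (P.cons (P.lf 5920832 0 0) (P.cons (P.lf 0 2816407 0) (P.cons (P.lf 0 199811 0) (P.cons (P.lf 91616 0 0) P.nil)))))) (P.cons (P.cons (P.lf 0 45108388 0) (P.cons (P.lf 4172344 0 0) (P.cons (P.lf 3309223 0 0) (P.cons (P.lf 1102403 0 0) (P.cons (P.lf 136083 0 0) P.nil))))) (P.cons (P.cons (P.lf 0 45921943 0) (P.cons (P.lf 2039610 0 0) (P.cons (P.lf 1131101 0 0) (P.cons (P.lf 119262 0 0) P.nil)))) (P.cons (P.cons (P.lf 0 20601965 0) (P.cons (P.lf 0 2277917 0) (P.cons (P.lf 0 1424869 0) P.nil))) (P.cons (P.cons (P.lf 0 4643678 0) (P.cons (P.lf 0 1221929 0) P.nil)) (P.cons (P.cons (P.lf 901968 0 0) P.nil) P.nil)))))) 10354667)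
 (EL.cons 8 (TM.mk (P.cons (P.cons (P.lf 26963045 0 0) (P.cons (P.lf 0 12670894 0) (P.cons (P.lf 0 3975206 0) (P.cons (P.lf 1890916 0 0) (P.cons (P.lf 134152 0 0) (P.cons (P.lf 0 61510 0) P.nil)))))) (P.cons (P.cons (P.lf 18264872 0 0) (P.cons (P.lf 2847617 0 0) (P.cons (P.lf 0 449574 0) (P.cons (P.lf 0 1583149 0) (P.cons (P.lf 0 151173 0) P.nil))))) (P.cons (P.cons (P.lf 20831276 0 0) (P.cons (P.lf 0 1765942 0) (P.cons (P.lf 0 285116 0) (P.cons (P.lf 495448 0 0) P.nil)))) (P.cons (P.cons (P.lf 2852424 0 0) (P.cons (P.lf 2324575 0 0) (P.cons (P.lf 1178760 0 0) P.nil))) (P.cons (P.cons (P.lf 33037 0 0) (P.cons (P.lf 0 100821 0) P.nil)) (P.cons (P.cons (P.lf 0 1226595 0) P.nil) P.nil)))))) 6983790)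
 EL.nil))
noncomputable def S314_372_216_364_18 : EL := (EL.cons 4 (TM.mk (P.cons (P.lf 0 843650871 0) (P.cons (P.lf 0 630789950 0) (P.cons (P.lf 0 68683740 0) (P.cons (P.lf 32463552 0 0) (P.cons (P.lf 1740131 0 0) (P.cons (P.lf 0 1365121 0) P.nil)))))) 264319)
 (EL.cons 8 (TM.mk (P.cons (P.lf 566421357 0 0) (P.cons (P.lf 170987672 0 0) (P.cons (P.lf 0 69138754 0) (P.cons (P.lf 0 11876237 0) (P.cons (P.lf 4377599 0 0) (P.cons (P.lf 0 2637 0) P.nil)))))) 178385)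
 EL.nil))
noncomputable def S314_372_216_364_19 : EL := (EL.cons 4 (TM.mk (P.cons (P.cons (P.lf 0 141856539 0) (P.cons (P.lf 33331717 0 0) (P.cons (P.lf 14373012 0 0) (P.lf 0 1597000 0)))) (P.cons (P.cons (P.lf 0 150378005 0) (P.cons (P.lf 5264083 0 0) (P.cons (P.lf 2269931 0 0) (P.lf 0 252214 0)))) (P.cons (P.cons (P.lf 0 97332912 0) (P.cons (P.lf 0 9742846 0) (P.cons (P.lf 0 4201225 0) (P.lf 466802 0 0)))) (P.cons (P.cons (P.lf 0 29422606 0) (P.cons (P.lf 0 410143 0) (P.cons (P.lf 0 176857 0) P.nil))) (P.cons (P.cons (P.lf 5822920 0 0) (P.cons (P.lf 1255729 0 0) P.nil)) (P.cons (P.cons (P.lf 3552098 0 0) P.nil) P.nil)))))) 3687946)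
 (EL.cons 8 (TM.mk (P.cons (P.cons (P.lf 95241499 0 0) (P.cons (P.lf 0 22378685 0) (P.cons (P.lf 0 9649940 0) (P.lf 1072215 0 0)))) (P.cons (P.cons (P.lf 58502461 0 0) (P.cons (P.lf 6442531 0 0) (P.cons (P.lf 2778091 0 0) (P.lf 0 308676 0)))) (P.cons (P.cons (P.lf 32705630 0 0) (P.cons (P.lf 5210857 0 0) (P.cons (P.lf 2246980 0 0) (P.lf 0 249664 0)))) (P.cons (P.cons (P.lf 0 391183 0) (P.cons (P.lf 0 2131114 0) (P.cons (P.lf 0 918960 0) P.nil))) (P.cons (P.cons (P.lf 0 7226204 0) (P.cons (P.lf 0 286322 0) P.nil)) (P.cons (P.cons (P.lf 93296 0 0) P.nil) P.nil)))))) 2280780)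
 EL.nil))
noncomputable def S314_372_216_364_20 : EL := (EL.cons 4 (TM.mk (P.cons (P.cons (P.lf 0 23852612 0) (P.cons (P.lf 11209191 0 0) (P.cons (P.lf 3516630 0 0) (P.cons (P.lf 0 1672782 0) (P.cons (P.lf 0 118676 0) (P.cons (P.lf 54414 0 0) P.nil)))))) (P.cons (P.cons (P.lf 0 32736548 0) (P.cons (P.lf 5271799 0 0) (P.cons (P.lf 2841936 0 0) (P.cons (P.lf 237855 0 0) (P.cons (P.lf 51247 0 0) P.nil))))) (P.cons (P.cons (P.lf 0 33117954 0) (P.cons (P.lf 1436956 0 0) (P.cons (P.lf 1038661 0 0) (P.cons (P.lf 292531 0 0) P.nil)))) (P.cons (P.cons (P.lf 0 18083825 0) (P.cons (P.lf 0 1143895 0) (P.cons (P.lf 0 749543 0) P.nil))) (P.cons (P.cons (P.lf 0 4851737 0) (P.cons (P.lf 0 1100674 0) P.nil)) (P.cons (P.cons (P.lf 277889 0 0) P.nil) P.nil)))))) 9109891)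
 (EL.cons 8 (TM.mk (P.cons (P.cons (P.lf 16014479 0 0) (P.cons (P.lf 0 7525773 0) (P.cons (P.lf 0 2361041 0) (P.cons (P.lf 1123094 0 0) (P.cons (P.lf 79678 0 0) (P.cons (P.lf 0 36533 0) P.nil)))))) (P.cons (P.cons (P.lf 14839563 0 0) (P.cons (P.lf 0 184330 0) (P.cons (P.lf 0 855463 0) (P.cons (P.lf 0 660389 0) (P.cons (P.lf 0 69929 0) P.nil))))) (P.cons (P.cons (P.lf 14516124 0 0) (P.cons (P.lf 0 364100 0) (P.cons (P.lf 0 153306 0) (P.cons (P.lf 20633 0 0) P.nil)))) (P.cons (P.cons (P.lf 4389502 0 0) (P.cons (P.lf 1064245 0 0) (P.cons (P.lf 668552 0 0) P.nil))) (P.cons (P.cons (P.lf 11701 0 0) (P.cons (P.lf 315935 0 0) P.nil)) (P.cons (P.cons (P.lf 0 784498 0) P.nil) P.nil)))))) 5494137)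
 EL.nil))
noncomputable def S314_372_216_364_21 : EL := (EL.cons 4 (TM.mk (P.cons (P.cons (P.lf 0 638985072 0) (P.cons (P.lf 0 283459626 0) (P.cons (P.lf 0 122230980 0) (P.lf 13581216 0 0)))) (P.cons (P.cons (P.lf 0 1446566358 0) (P.cons (P.lf 96526596 0 0) (P.cons (P.lf 41623356 0 0) (P.lf 0 4624809 0)))) (P.cons (P.cons (P.lf 532895097 0 0) (P.cons (P.lf 32517906 0 0) (P.cons (P.lf 14022087 0 0) (P.lf 0 1558011 0)))) (P.cons (P.cons (P.lf 107918415 0 0) (P.cons (P.lf 0 17219088 0) (P.cons (P.lf 0 7425066 0) P.nil))) (P.cons (P.cons (P.lf 0 58512900 0) (P.cons (P.lf 521607 0 0) P.nil)) (P.cons (P.cons (P.lf 1516005 0 0) P.nil) P.nil)))))) 9184971)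
 (EL.cons 8 (TM.mk (P.cons (P.cons (P.lf 0 338392950 0) (P.cons (P.lf 0 150114219 0) (P.cons (P.lf 0 64730949 0) (P.lf 7192329 0 0)))) (P.cons (P.cons (P.lf 0 916932273 0) (P.cons (P.lf 0 15805038 0) (P.cons (P.lf 0 6815307 0) (P.lf 757251 0 0)))) (P.cons (P.cons (P.lf 0 82630962 0) (P.cons (P.lf 29668227 0 0) (P.cons (P.lf 12793275 0 0) (P.lf 0 1421469 0)))) (P.cons (P.cons (P.lf 124736646 0 0) (P.cons (P.lf 0 337716 0) (P.cons (P.lf 0 145626 0) P.nil))) (P.cons (P.cons (P.lf 544971 0 0) (P.cons (P.lf 0 2245173 0) P.nil)) (P.cons (P.cons (P.lf 0 7126434 0) P.nil) P.nil)))))) 5886477)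
 (EL.cons 11 (TM.mk (P.cons (P.cons (P.lf 711325530 0 0) (P.cons (P.lf 662665536 0 0) (P.cons (P.lf 0 68011041 0) (P.cons (P.lf 0 14144403 0) (P.lf 1178700 0 0))))) (P.cons (P.cons (P.lf 0 279674511 0) (P.cons (P.lf 0 260542680 0) (P.cons (P.lf 26740155 0 0) (P.cons (P.lf 5561208 0 0) (P.lf 0 463434 0))))) (P.cons (P.cons (P.lf 4399236 0 0) (P.cons (P.lf 4098297 0 0) (P.cons (P.lf 0 420618 0) (P.cons (P.lf 0 87474 0) P.nil)))) (P.cons (P.cons (P.lf 10401639 0 0) (P.cons (P.lf 9690087 0 0) (P.cons (P.lf 0 994518 0) P.nil))) (P.cons (P.cons (P.lf 0 1134414 0) (P.cons (P.lf 0 1056810 0) P.nil)) (P.cons (P.cons (P.lf 0 129783 0) P.nil) P.nil)))))) 588420)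
 EL.nil)))
noncomputable def S314_372_216_364_22 : EL := (EL.cons 4 (TM.mk (P.cons (P.cons (P.lf 0 107442798 0) (P.cons (P.lf 0 22417011 0) (P.cons (P.lf 1532709 0 0) (P.cons (P.lf 10732473 0 0) (P.cons (P.lf 1009251 0 0) (P.cons (P.lf 0 462756 0) P.nil)))))) (P.cons (P.cons (P.lf 0 276797391 0) (P.cons (P.lf 43605090 0 0) (P.cons (P.lf 8384511 0 0) (P.cons (P.lf 0 11074365 0) (P.cons (P.lf 0 938898 0) P.nil))))) (P.cons (P.cons (P.lf 0 26255886 0) (P.cons (P.lf 0 60215148 0) (P.cons (P.lf 0 24247944 0) (P.cons (P.lf 4366263 0 0) P.nil)))) (P.cons (P.cons (P.lf 0 38012208 0) (P.cons (P.lf 20156184 0 0) (P.cons (P.lf 10140882 0 0) P.nil))) (P.cons (P.cons (P.lf 44525097 0 0) (P.cons (P.lf 5596641 0 0) P.nil)) (P.cons (P.cons (P.lf 1931655 0 0) P.nil) P.nil)))))) 34046025)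
 (EL.cons 8 (TM.mk (P.cons (P.cons (P.lf 0 56899428 0) (P.cons (P.lf 0 11871573 0) (P.cons (P.lf 811689 0 0) (P.cons (P.lf 5683692 0 0) (P.cons (P.lf 534477 0 0) (P.cons (P.lf 0 245064 0) P.nil)))))) (P.cons (P.cons (P.lf 0 171952773 0) (P.cons (P.lf 17799783 0 0) (P.cons (P.lf 4802124 0 0) (P.cons (P.lf 0 3330864 0) (P.cons (P.lf 0 258939 0) P.nil))))) (P.cons (P.cons (P.lf 0 83175177 0) (P.cons (P.lf 0 22411596 0) (P.cons (P.lf 0 10805733 0) (P.cons (P.lf 89250 0 0) P.nil)))) (P.cons (P.cons (P.lf 0 37344822 0) (P.cons (P.lf 0 2142510 0) (P.cons (P.lf 0 35442 0) P.nil))) (P.cons (P.cons (P.lf 11109396 0 0) (P.cons (P.lf 5860806 0 0) P.nil)) (P.cons (P.cons (P.lf 9432327 0 0) P.nil) P.nil)))))) 15382530)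
 (EL.cons 11 (TM.mk (P.cons (P.cons (P.lf 119606559 0 0) (P.cons (P.lf 83320884 0 0) (P.cons (P.lf 0 49735599 0) (P.cons (P.lf 0 9634392 0) (P.cons (P.lf 3170106 0 0) (P.cons (P.lf 65661 0 0) P.nil)))))) (P.cons (P.cons (P.lf 0 9663426 0) (P.cons (P.lf 18621702 0 0) (P.cons (P.lf 38570136 0 0) (P.cons (P.lf 7324389 0 0) (P.cons (P.lf 0 2937207 0) P.nil))))) (P.cons (P.cons (P.lf 30442827 0 0) (P.cons (P.lf 19779990 0 0) (P.cons (P.lf 0 14603982 0) (P.cons (P.lf 0 2820687 0) P.nil)))) (P.cons (P.cons (P.lf 0 22298145 0) (P.cons (P.lf 0 21010128 0) (P.cons (P.lf 1808511 0 0) P.nil))) (P.cons (P.cons (P.lf 1576053 0 0) (P.cons (P.lf 2185233 0 0) P.nil)) (P.cons (P.cons (P.lf 1659729 0 0) P.nil) P.nil)))))) 9526011)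
 EL.nil)))
noncomputable def S314_372_216_364_23 : EL := (EL.cons 4 (TM.mk (P.cons (P.cons (P.lf 0 379519929 0) (P.cons (P.lf 0 168358512 0) (P.cons (P.lf 0 72598083 0) (P.lf 8066451 0 0)))) (P.cons (P.cons (P.lf 0 953764038 0) (P.cons (P.lf 15371142 0 0) (P.cons (P.lf 6628209 0 0) (P.lf 0 736461 0)))) (P.cons (P.cons (P.lf 115650891 0 0) (P.cons (P.lf 39491286 0 0) (P.cons (P.lf 17029086 0 0) (P.lf 0 1892118 0)))) (P.cons (P.cons (P.lf 173242626 0 0) (P.cons (P.lf 0 7326018 0) (P.cons (P.lf 0 3159063 0) P.nil))) (P.cons (P.cons (P.lf 0 29578842 0) (P.cons (P.lf 0 3036654 0) P.nil)) (P.cons (P.cons (P.lf 0 10624698 0) P.nil) P.nil)))))) 11351451)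
 (EL.cons 8 (TM.mk (P.cons (P.cons (P.lf 0 200985708 0) (P.cons (P.lf 0 89159103 0) (P.cons (P.lf 0 38446413 0) (P.lf 4271823 0 0)))) (P.cons (P.cons (P.lf 0 594696102 0) (P.cons (P.lf 0 31608417 0) (P.cons (P.lf 0 13629903 0) (P.lf 1514430 0 0)))) (P.cons (P.cons (P.lf 0 177779745 0) (P.cons (P.lf 18400233 0 0) (P.cons (P.lf 7934388 0 0) (P.lf 0 881595 0)))) (P.cons (P.cons (P.lf 81014763 0 0) (P.cons (P.lf 4568691 0 0) (P.cons (P.lf 1970073 0 0) P.nil))) (P.cons (P.cons (P.lf 20697495 0 0) (P.cons (P.lf 0 2042523 0) P.nil)) (P.cons (P.cons (P.lf 0 7001112 0) P.nil) P.nil)))))) 6860667)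
 (EL.cons 11 (TM.mk (P.cons (P.cons (P.lf 422485947 0 0) (P.cons (P.lf 393584745 0 0) (P.cons (P.lf 0 40394598 0) (P.cons (P.lf 0 8400951 0) (P.lf 700077 0 0))))) (P.cons (P.cons (P.lf 0 60814095 0) (P.cons (P.lf 0 56653956 0) (P.cons (P.lf 5814537 0 0) (P.cons (P.lf 1209261 0 0) (P.lf 0 100770 0))))) (P.cons (P.cons (P.lf 0 53564643 0) (P.cons (P.lf 0 49900419 0) (P.cons (P.lf 5121405 0 0) (P.cons (P.lf 1065111 0 0) P.nil)))) (P.cons (P.cons (P.lf 12406323 0 0) (P.cons (P.lf 11557638 0 0) (P.cons (P.lf 0 1186188 0) P.nil))) (P.cons (P.cons (P.lf 1092960 0 0) (P.cons (P.lf 1018194 0 0) P.nil)) (P.cons (P.cons (P.lf 0 567498 0) P.nil) P.nil)))))) 1482894)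
 EL.nil)))
noncomputable def S314_372_216_364_24 : EL := (EL.cons 4 (TM.mk (P.cons (P.cons (P.lf 0 63814767 0) (P.cons (P.lf 0 13314399 0) (P.cons (P.lf 910341 0 0) (P.cons (P.lf 6374463 0 0) (P.cons (P.lf 599436 0 0) (P.cons (P.lf 0 274851 0) P.nil)))))) (P.cons (P.cons (P.lf 0 180306105 0) (P.cons (P.lf 22580535 0 0) (P.cons (P.lf 5206797 0 0) (P.cons (P.lf 0 4988817 0) (P.cons (P.lf 0 408252 0) P.nil))))) (P.cons (P.cons (P.lf 0 54336174 0) (P.cons (P.lf 0 28843791 0) (P.cons (P.lf 0 13192563 0) (P.cons (P.lf 731019 0 0) P.nil)))) (P.cons (P.cons (P.lf 0 20677971 0) (P.cons (P.lf 2159505 0 0) (P.cons (P.lf 2259021 0 0) P.nil))) (P.cons (P.cons (P.lf 21420357 0 0) (P.cons (P.lf 7537299 0 0) P.nil)) (P.cons (P.cons (P.lf 8450724 0 0) P.nil) P.nil)))))) 25153026)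
 (EL.cons 8 (TM.mk (P.cons (P.cons (P.lf 0 33794946 0) (P.cons (P.lf 0 7051023 0) (P.cons (P.lf 482094 0 0) (P.cons (P.lf 3375780 0 0) (P.cons (P.lf 317448 0 0) (P.cons (P.lf 0 145554 0) P.nil)))))) (P.cons (P.cons (P.lf 0 110552658 0) (P.cons (P.lf 8814705 0 0) (P.cons (P.lf 2972334 0 0) (P.cons (P.lf 0 1136991 0) (P.cons (P.lf 0 74676 0) P.nil))))) (P.cons (P.cons (P.lf 0 73672995 0) (P.cons (P.lf 0 10429680 0) (P.cons (P.lf 0 5723988 0) (P.cons (P.lf 0 558129 0) P.nil)))) (P.cons (P.cons (P.lf 0 30901959 0) (P.cons (P.lf 0 4955976 0) (P.cons (P.lf 0 1720635 0) P.nil))) (P.cons (P.cons (P.lf 2836422 0 0) (P.cons (P.lf 3619809 0 0) P.nil)) (P.cons (P.cons (P.lf 7996302 0 0) P.nil) P.nil)))))) 11001687)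
 (EL.cons 11 (TM.mk (P.cons (P.cons (P.lf 71039331 0 0) (P.cons (P.lf 49487754 0 0) (P.cons (P.lf 0 29540049 0) (P.cons (P.lf 0 5722266 0) (P.cons (P.lf 1882857 0 0) (P.cons (P.lf 38997 0 0) P.nil)))))) (P.cons (P.cons (P.lf 11965635 0 0) (P.cons (P.lf 23394051 0 0) (P.cons (P.lf 15546141 0 0) (P.cons (P.lf 2924097 0 0) (P.cons (P.lf 0 1275264 0) P.nil))))) (P.cons (P.cons (P.lf 14165976 0 0) (P.cons (P.lf 12773706 0 0) (P.cons (P.lf 0 1931184 0) (P.cons (P.lf 0 390951 0) P.nil)))) (P.cons (P.cons (P.lf 0 8575836 0) (P.cons (P.lf 0 9964965 0) (P.cons (P.lf 0 1872648 0) P.nil))) (P.cons (P.cons (P.lf 0 2955828 0) (P.cons (P.lf 0 2202663 0) P.nil)) (P.cons (P.cons (P.lf 1666611 0 0) P.nil) P.nil)))))) 8089242)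
 EL.nil)))
noncomputable def S314_372_216_364_25 : EL := (EL.cons 4 (TM.mk (P.cons (P.cons (P.lf 0 225412740 0) (P.cons (P.lf 0 99995154 0) (P.cons (P.lf 0 43119033 0) (P.lf 4791000 0 0)))) (P.cons (P.cons (P.lf 0 622659981 0) (P.cons (P.lf 0 15792252 0) (P.cons (P.lf 0 6809796 0) (P.lf 756645 0 0)))) (P.cons (P.cons (P.lf 0 64609596 0) (P.cons (P.lf 29228538 0 0) (P.cons (P.lf 12603675 0 0) (P.lf 0 1400406 0)))) (P.cons (P.cons (P.lf 139954467 0 0) (P.cons (P.lf 1230429 0 0) (P.cons (P.lf 530574 0 0) P.nil))) (P.cons (P.cons (P.lf 5865609 0 0) (P.cons (P.lf 0 3767190 0) P.nil)) (P.cons (P.cons (P.lf 0 14621571 0) P.nil) P.nil)))))) 10231008)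
 (EL.cons 8 (TM.mk (P.cons (P.cons (P.lf 0 119373807 0) (P.cons (P.lf 0 52955316 0) (P.cons (P.lf 0 22834929 0) (P.lf 2537214 0 0)))) (P.cons (P.cons (P.lf 0 382966422 0) (P.cons (P.lf 0 31971627 0) (P.cons (P.lf 0 13786524 0) (P.lf 1531833 0 0)))) (P.cons (P.cons (P.lf 0 189447162 0) (P.cons (P.lf 8102010 0 0) (P.cons (P.lf 3493677 0 0) (P.lf 0 388185 0)))) (P.cons (P.cons (P.lf 34222311 0 0) (P.cons (P.lf 6123174 0 0) (P.cons (P.lf 2640381 0 0) P.nil))) (P.cons (P.cons (P.lf 28109769 0 0) (P.cons (P.lf 0 937170 0) P.nil)) (P.cons (P.cons (P.lf 0 2904369 0) P.nil) P.nil)))))) 6857982)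
 (EL.cons 11 (TM.mk (P.cons (P.cons (P.lf 250932054 0 0) (P.cons (P.lf 233766423 0 0) (P.cons (P.lf 0 23992038 0) (P.cons (P.lf 0 4989675 0) (P.lf 415806 0 0))))) (P.cons (P.cons (P.lf 26419824 0 0) (P.cons (P.lf 24612510 0 0) (P.cons (P.lf 0 2526042 0) (P.cons (P.lf 0 525345 0) (P.lf 43776 0 0))))) (P.cons (P.cons (P.lf 0 49593636 0) (P.cons (P.lf 0 46201059 0) (P.cons (P.lf 4741731 0 0) (P.cons (P.lf 986148 0 0) P.nil)))) (P.cons (P.cons (P.lf 564519 0 0) (P.cons (P.lf 525903 0 0) (P.cons (P.lf 0 53973 0) P.nil))) (P.cons (P.cons (P.lf 3753051 0 0) (P.cons (P.lf 3496314 0 0) P.nil)) (P.cons (P.cons (P.lf 0 444231 0) P.nil) P.nil)))))) 1818744)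
 EL.nil)))
noncomputable def S314_372_216_364_26 : EL := (EL.cons 4 (TM.mk (P.cons (P.cons (P.lf 0 37902255 0) (P.cons (P.lf 0 7907976 0) (P.cons (P.lf 540687 0 0) (P.cons (P.lf 3786060 0 0) (P.cons (P.lf 356028 0 0) (P.cons (P.lf 0 163245 0) P.nil)))))) (P.cons (P.cons (P.lf 0 116537715 0) (P.cons (P.lf 11440614 0 0) (P.cons (P.lf 3227289 0 0) (P.cons (P.lf 0 2019465 0) (P.cons (P.lf 0 153744 0) P.nil))))) (P.cons (P.cons (P.lf 0 57637170 0) (P.cons (P.lf 0 13512369 0) (P.cons (P.lf 0 7083774 0) (P.cons (P.lf 0 436731 0) P.nil)))) (P.cons (P.cons (P.lf 0 16558026 0) (P.cons (P.lf 0 3451821 0) (P.cons (P.lf 0 719613 0) P.nil))) (P.cons (P.cons (P.lf 10829097 0 0) (P.cons (P.lf 5383971 0 0) P.nil)) (P.cons (P.cons (P.lf 8581389 0 0) P.nil) P.nil)))))) 21033933)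
 (EL.cons 8 (TM.mk (P.cons (P.cons (P.lf 0 20072229 0) (P.cons (P.lf 0 4187898 0) (P.cons (P.lf 286335 0 0) (P.cons (P.lf 2005017 0 0) (P.cons (P.lf 188544 0 0) (P.cons (P.lf 0 86451 0) P.nil)))))) (P.cons (P.cons (P.lf 0 70664448 0) (P.cons (P.lf 4191669 0 0) (P.cons (P.lf 1836756 0 0) (P.cons (P.lf 0 175593 0) (P.cons (P.lf 2637 0 0) P.nil))))) (P.cons (P.cons (P.lf 0 59420295 0) (P.cons (P.lf 0 4743312 0) (P.cons (P.lf 0 2969739 0) (P.cons (P.lf 0 569934 0) P.nil)))) (P.cons (P.cons (P.lf 0 26951841 0) (P.cons (P.lf 0 4668264 0) (P.cons (P.lf 0 1931178 0) P.nil))) (P.cons (P.cons (P.lf 0 1333680 0) (P.cons (P.lf 1627872 0 0) P.nil)) (P.cons (P.cons (P.lf 5800851 0 0) P.nil) P.nil)))))) 9742359)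
 (EL.cons 11 (TM.mk (P.cons (P.cons (P.lf 42193227 0 0) (P.cons (P.lf 29392845 0 0) (P.cons (P.lf 0 17545068 0) (P.cons (P.lf 0 3398694 0) (P.cons (P.lf 1118307 0 0) (P.cons (P.lf 23163 0 0) P.nil)))))) (P.cons (P.cons (P.lf 17622720 0 0) (P.cons (P.lf 21220290 0 0) (P.cons (P.lf 4860738 0 0) (P.cons (P.lf 889686 0 0) (P.cons (P.lf 0 478716 0) P.nil))))) (P.cons (P.cons (P.lf 8709174 0 0) (P.cons (P.lf 10021710 0 0) (P.cons (P.lf 1767951 0 0) (P.cons (P.lf 319524 0 0) P.nil)))) (P.cons (P.cons (P.lf 0 3268449 0) (P.cons (P.lf 0 4529967 0) (P.cons (P.lf 0 1711404 0) P.nil))) (P.cons (P.cons (P.lf 0 3300630 0) (P.cons (P.lf 0 3040614 0) P.nil)) (P.cons (P.cons (P.lf 728082 0 0) P.nil) P.nil)))))) 7262685)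
 EL.nil)))
noncomputable def S314_372_216_364_27 : EL := (EL.cons 13 (TM.mk (P.lf 0 4294967296 0) 0)
 EL.nil)
noncomputable def S314_372_216_364_28 : EL := (EL.cons 13 (TM.mk (P.cons (P.cons (P.lf 0 722181675 0) (P.cons (P.lf 169689436 0 0) (P.cons (P.lf 73171996 0 0) (P.lf 0 8130220 0)))) (P.cons (P.cons (P.lf 0 225595304 0) (P.cons (P.lf 0 100076140 0) (P.cons (P.lf 0 43153960 0) (P.lf 4794880 0 0)))) (P.cons (P.cons (P.lf 0 268044869 0) (P.cons (P.lf 11411008 0 0) (P.cons (P.lf 4920556 0 0) (P.lf 0 546724 0)))) (P.cons (P.cons (P.lf 41203088 0 0) (P.cons (P.lf 4057156 0 0) (P.cons (P.lf 1749492 0 0) P.nil))) (P.cons (P.cons (P.lf 10488664 0 0) (P.cons (P.lf 0 1070572 0) P.nil)) (P.cons (P.cons (P.lf 0 2724311 0) P.nil) P.nil)))))) 1760642)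
 EL.nil)
noncomputable def S314_372_216_364_29 : EL := (EL.cons 13 (TM.mk (P.cons (P.cons (P.lf 0 121431977 0) (P.cons (P.lf 57065208 0 0) (P.cons (P.lf 17902917 0 0) (P.cons (P.lf 0 8516018 0) (P.cons (P.lf 0 604175 0) (P.cons (P.lf 277023 0 0) P.nil)))))) (P.cons (P.cons (P.lf 0 75865906 0) (P.cons (P.lf 0 15828765 0) (P.cons (P.lf 1082254 0 0) (P.cons (P.lf 7578254 0 0) (P.cons (P.lf 712638 0 0) P.nil))))) (P.cons (P.cons (P.lf 0 101990864 0) (P.cons (P.lf 14504648 0 0) (P.cons (P.lf 3021042 0 0) (P.cons (P.lf 0 3483616 0) P.nil)))) (P.cons (P.cons (P.lf 0 14302110 0) (P.cons (P.lf 0 13183965 0) (P.cons (P.lf 0 5473890 0) P.nil))) (P.cons (P.cons (P.lf 0 8872748 0) (P.cons (P.lf 2581822 0 0) P.nil)) (P.cons (P.cons (P.lf 5328572 0 0) P.nil) P.nil)))))) 12943520)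
 EL.nil)
noncomputable def S314_372_216_364_30 : EL := (EL.cons 13 (TM.mk (P.cons (P.lf 0 2550960508 0) (P.cons (P.lf 0 635776524 0) (P.cons (P.lf 89228036 0 0) (P.cons (P.lf 1407440 0 0) (P.cons (P.lf 0 1369092 0) (P.cons (P.lf 95416 0 0) P.nil)))))) 28012)
 EL.nil)
noncomputable def S314_372_216_364_31 : EL := (EL.cons 13 (TM.mk (P.cons (P.cons (P.lf 0 428933867 0) (P.cons (P.lf 100785645 0 0) (P.cons (P.lf 43459905 0 0) (P.lf 0 4828877 0)))) (P.cons (P.cons (P.lf 0 240893770 0) (P.cons (P.lf 0 34320568 0) (P.cons (P.lf 0 14799416 0) (P.lf 1644377 0 0)))) (P.cons (P.cons (P.lf 0 177594186 0) (P.cons (P.lf 0 11561923 0) (P.cons (P.lf 0 4985631 0) (P.lf 553960 0 0)))) (P.cons (P.cons (P.lf 0 10282576 0) (P.cons (P.lf 6122343 0 0) (P.cons (P.lf 2640024 0 0) P.nil))) (P.cons (P.cons (P.lf 17741233 0 0) (P.cons (P.lf 0 185461 0) P.nil)) (P.cons (P.cons (P.lf 0 889489 0) P.nil)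 P.nil)))))) 3136421)
 EL.nil)
noncomputable def S314_372_216_364_32 : EL := (EL.cons 13 (TM.mk (P.cons (P.cons (P.lf 0 72123524 0) (P.cons (P.lf 33893411 0 0) (P.cons (P.lf 10633290 0 0) (P.cons (P.lf 0 5058018 0) (P.cons (P.lf 0 358844 0) (P.cons (P.lf 164535 0 0) P.nil)))))) (P.cons (P.cons (P.lf 0 63035294 0) (P.cons (P.lf 0 954101 0) (P.cons (P.lf 3292933 0 0) (P.cons (P.lf 3240430 0 0) (P.cons (P.lf 333830 0 0) P.nil))))) (P.cons (P.cons (P.lf 0 69284180 0) (P.cons (P.lf 5086281 0 0) (P.cons (P.lf 1582593 0 0) (P.cons (P.lf 0 770348 0) P.nil)))) (P.cons (P.cons (P.lf 0 21976242 0) (P.cons (P.lf 0 5373266 0) (P.cons (P.lf 0 2832322 0) P.nil))) (P.cons (P.cons (P.lf 0 5281997 0) (P.cons (P.lf 0 696104 0) P.nil)) (P.cons (P.cons (P.lf 2160506 0 0) P.nil) P.nil)))))) 13698985)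
 EL.nil)
noncomputable def S314_372_216_364_33 : EL := (EL.cons 14 (TM.mk (P.lf 8589934592 0 0) 0)
 EL.nil)
noncomputable def S314_372_216_364_34 : EL := (EL.cons 14 (TM.mk (P.cons (P.cons (P.lf 1444363350 0 0) (P.cons (P.lf 0 339378872 0) (P.cons (P.lf 0 146343992 0) (P.lf 16260440 0 0)))) (P.cons (P.cons (P.lf 451190608 0 0) (P.cons (P.lf 200152280 0 0) (P.cons (P.lf 86307920 0 0) (P.lf 0 9589760 0)))) (P.cons (P.cons (P.lf 536089738 0 0) (P.cons (P.lf 0 22822016 0) (P.cons (P.lf 0 9841112 0) (P.lf 1093448 0 0)))) (P.cons (P.cons (P.lf 0 82406176 0) (P.cons (P.lf 0 8114312 0) (P.cons (P.lf 0 3498984 0) P.nil))) (P.cons (P.cons (P.lf 0 20977328 0) (P.cons (P.lf 2141144 0 0) P.nil)) (P.cons (P.cons (P.lf 5448622 0 0) P.nil) P.nil)))))) 3521284)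
 EL.nil)
noncomputable def S314_372_216_364_35 : EL := (EL.cons 14 (TM.mk (P.cons (P.cons (P.lf 242863954 0 0) (P.cons (P.lf 0 114130416 0) (P.cons (P.lf 0 35805834 0) (P.cons (P.lf 17032036 0 0) (P.cons (P.lf 1208350 0 0) (P.cons (P.lf 0 554046 0) P.nil)))))) (P.cons (P.cons (P.lf 151731812 0 0) (P.cons (P.lf 31657530 0 0) (P.cons (P.lf 0 2164508 0) (P.cons (P.lf 0 15156508 0) (P.cons (P.lf 0 1425276 0) P.nil))))) (P.cons (P.cons (P.lf 203981728 0 0) (P.cons (P.lf 0 29009296 0) (P.cons (P.lf 0 6042084 0) (P.cons (P.lf 6967232 0 0) P.nil)))) (P.cons (P.cons (P.lf 28604220 0 0) (P.cons (P.lf 26367930 0 0) (P.cons (P.lf 10947780 0 0) P.nil))) (P.cons (P.cons (P.lf 17745496 0 0) (P.cons (P.lf 0 5163644 0) P.nil)) (P.cons (P.cons (P.lf 0 10657144 0) P.nil) P.nil)))))) 25887040)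
 EL.nil)
noncomputable def S314_372_216_364_36 : EL := (EL.cons 14 (TM.mk (P.cons (P.lf 5101921016 0 0) (P.cons (P.lf 1271553048 0 0) (P.cons (P.lf 0 178456072 0) (P.cons (P.lf 0 2814880 0) (P.cons (P.lf 2738184 0 0) (P.cons (P.lf 0 190832 0) P.nil)))))) 56024)
 EL.nil)
noncomputable def S314_372_216_364_37 : EL := (EL.cons 14 (TM.mk (P.cons (P.cons (P.lf 857867734 0 0) (P.cons (P.lf 0 201571290 0) (P.cons (P.lf 0 86919810 0) (P.lf 9657754 0 0)))) (P.cons (P.cons (P.lf 481787540 0 0) (P.cons (P.lf 68641136 0 0) (P.cons (P.lf 29598832 0 0) (P.lf 0 3288754 0)))) (P.cons (P.cons (P.lf 355188372 0 0) (P.cons (P.lf 23123846 0 0) (P.cons (P.lf 9971262 0 0) (P.lf 0 1107920 0)))) (P.cons (P.cons (P.lf 20565152 0 0) (P.cons (P.lf 0 12244686 0) (P.cons (P.lf 0 5280048 0) P.nil))) (P.cons (P.cons (P.lf 0 35482466 0) (P.cons (P.lf 370922 0 0) P.nil)) (P.cons (P.cons (P.lf 1778978 0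 0) P.nil) P.nil)))))) 6272842)
 EL.nil)
noncomputable def S314_372_216_364_38 : EL := (EL.cons 14 (TM.mk (P.cons (P.cons (P.lf 144247048 0 0) (P.cons (P.lf 0 67786822 0) (P.cons (P.lf 0 21266580 0) (P.cons (P.lf 10116036 0 0) (P.cons (P.lf 717688 0 0) (P.cons (P.lf 0 329070 0) P.nil)))))) (P.cons (P.cons (P.lf 126070588 0 0) (P.cons (P.lf 1908202 0 0) (P.cons (P.lf 0 6585866 0) (P.cons (P.lf 0 6480860 0) (P.cons (P.lf 0 667660 0) P.nil))))) (P.cons (P.cons (P.lf 138568360 0 0) (P.cons (P.lf 0 10172562 0) (P.cons (P.lf 0 3165186 0) (P.cons (P.lf 1540696 0 0) P.nil)))) (P.cons (P.cons (P.lf 43952484 0 0) (P.cons (P.lf 10746532 0 0) (P.cons (P.lf 5664644 0 0) P.nil))) (P.cons (P.cons (P.lf 10563994 0 0) (P.cons (P.lf 1392208 0 0) P.nil)) (P.cons (P.cons (P.lf 0 4321012 0) P.nil) P.nil)))))) 27397970)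
 EL.nil)
noncomputable def S314_372_216_364_39 : EL := (EL.cons 14 (TM.mk (P.cons (P.lf 3030244034 0 0) (P.cons (P.lf 1510456952 0 0) (P.cons (P.lf 0 23759250 0) (P.cons (P.lf 0 56176832 0) (P.cons (P.lf 6126708 0 0) (P.cons (P.lf 700928 0 0) P.nil)))))) 267590)
 EL.nil)
noncomputable def S314_372_216_364_40 : EL := (EL.cons 14 (TM.mk (P.cons (P.cons (P.lf 509523486 0 0) (P.cons (P.lf 0 119721610 0) (P.cons (P.lf 0 51625306 0) (P.lf 5736142 0 0)))) (P.cons (P.cons (P.lf 413142412 0 0) (P.cons (P.lf 10930592 0 0) (P.cons (P.lf 4713394 0 0) (P.lf 0 523708 0)))) (P.cons (P.cons (P.lf 264457162 0 0) (P.cons (P.lf 28082694 0 0) (P.cons (P.lf 12109574 0 0) (P.lf 0 1345508 0)))) (P.cons (P.cons (P.lf 54502154 0 0) (P.cons (P.lf 0 5209614 0) (P.cons (P.lf 0 2246444 0) P.nil))) (P.cons (P.cons (P.lf 0 25293760 0) (P.cons (P.lf 0 2159398 0) P.nil)) (P.cons (P.cons (P.lf 0 4604912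 0) P.nil) P.nil)))))) 7047994)
 EL.nil)
noncomputable def S314_372_216_364_41 : EL := (EL.cons 14 (TM.mk (P.cons (P.cons (P.lf 85674348 0 0) (P.cons (P.lf 0 40261424 0) (P.cons (P.lf 0 12631110 0) (P.cons (P.lf 6008336 0 0) (P.cons (P.lf 426264 0 0) (P.cons (P.lf 0 195448 0) P.nil)))))) (P.cons (P.cons (P.lf 96231228 0 0) (P.cons (P.lf 0 8901002 0) (P.cons (P.lf 0 7059676 0) (P.cons (P.lf 0 2351794 0) (P.cons (P.lf 0 290312 0) P.nil))))) (P.cons (P.cons (P.lf 97966812 0 0) (P.cons (P.lf 0 4351168 0) (P.cons (P.lf 0 2413016 0) (P.cons (P.lf 0 254426 0) P.nil)))) (P.cons (P.cons (P.lf 43950860 0 0) (P.cons (P.lf 4859558 0 0) (P.cons (P.lf 3039722 0 0) P.nil))) (P.cons (P.cons (P.lf 9906514 0 0) (P.cons (P.lf 2606782 0 0) P.nil)) (P.cons (P.cons (P.lf 0 1924200 0) P.nil) P.nil)))))) 22089910)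
 EL.nil)
noncomputable def S314_372_216_364_42 : EL := (EL.cons 14 (TM.mk (P.cons (P.lf 1799788526 0 0) (P.cons (P.lf 1345685228 0 0) (P.cons (P.lf 146525314 0 0) (P.cons (P.lf 0 69255578 0) (P.cons (P.lf 0 3712280 0) (P.cons (P.lf 2912260 0 0) P.nil)))))) 563866)
 EL.nil)
noncomputable def S314_372_216_364_43 : EL := (EL.cons 14 (TM.mk (P.cons (P.cons (P.lf 302627284 0 0) (P.cons (P.lf 0 71107664 0) (P.cons (P.lf 0 30662426 0) (P.lf 3406934 0 0)))) (P.cons (P.cons (P.lf 320806412 0 0) (P.cons (P.lf 0 11230044 0) (P.cons (P.lf 0 4842520 0) (P.lf 538058 0 0)))) (P.cons (P.cons (P.lf 207643546 0 0) (P.cons (P.lf 20784740 0 0) (P.cons (P.lf 8962614 0 0) (P.lf 0 995846 0)))) (P.cons (P.cons (P.lf 62768228 0 0) (P.cons (P.lf 874972 0 0) (P.cons (P.lf 377296 0 0) P.nil))) (P.cons (P.cons (P.lf 0 12422230 0) (P.cons (P.lf 0 2678890 0) P.nil)) (P.cons (P.cons (P.lf 0 7577810 0)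 P.nil) P.nil)))))) 7867578)
 EL.nil)
noncomputable def S314_372_216_364_44 : EL := (EL.cons 14 (TM.mk (P.cons (P.cons (P.lf 50885574 0 0) (P.cons (P.lf 0 23912942 0) (P.cons (P.lf 0 7502144 0) (P.cons (P.lf 3568602 0 0) (P.cons (P.lf 253176 0 0) (P.cons (P.lf 0 116084 0) P.nil)))))) (P.cons (P.cons (P.lf 69837970 0 0) (P.cons (P.lf 0 11246506 0) (P.cons (P.lf 0 6062798 0) (P.cons (P.lf 0 507424 0) (P.cons (P.lf 0 109328 0) P.nil))))) (P.cons (P.cons (P.lf 70651636 0 0) (P.cons (P.lf 0 3065508 0) (P.cons (P.lf 0 2215812 0) (P.cons (P.lf 0 624068 0) P.nil)))) (P.cons (P.cons (P.lf 38578828 0 0) (P.cons (P.lf 2440310 0 0) (P.cons (P.lf 1599026 0 0) P.nil))) (P.cons (P.cons (P.lf 10350374 0 0) (P.cons (P.lf 2348106 0 0) P.nil)) (P.cons (P.cons (P.lf 0 592830 0) P.nil) P.nil)))))) 19434388)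
 EL.nil)
noncomputable def S314_372_216_364_45 : EL := (EL.cons 14 (TM.mk (P.cons (P.cons (P.lf 40836608 0 0) (P.cons (P.lf 0 28785862 0) (P.cons (P.lf 0 5649036 0) (P.cons (P.lf 6682654 0 0) (P.cons (P.lf 0 75768 0) (P.cons (P.lf 0 498848 0) P.nil)))))) (P.cons (P.cons (P.lf 38269650 0 0) (P.cons (P.lf 0 1007502 0) (P.cons (P.lf 0 6299570 0) (P.cons (P.lf 0 4072658 0) (P.cons (P.lf 683946 0 0) P.nil))))) (P.cons (P.cons (P.lf 57425416 0 0) (P.cons (P.lf 0 15506612 0) (P.cons (P.lf 0 3406130 0) (P.cons (P.lf 2912484 0 0) P.nil)))) (P.cons (P.cons (P.lf 22663490 0 0) (P.cons (P.lf 8970814 0 0) (P.cons (P.lf 1327308 0 0) P.nil))) (P.cons (P.cons (P.lf 15167884 0 0) (P.cons (P.lf 0 1978028 0) P.nil)) (P.cons (P.cons (P.lf 0 1248060 0) P.nil) P.nil)))))) 32291384)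
 EL.nil)
noncomputable def S314_372_216_364_46 : EL := (EL.cons 15 (TM.mk (P.lf 4294967296 0 0) 0)
 EL.nil)
noncomputable def S314_372_216_364_47 : EL := (EL.cons 15 (TM.mk (P.cons (P.cons (P.lf 722181675 0 0) (P.cons (P.lf 0 169689436 0) (P.cons (P.lf 0 73171996 0) (P.lf 8130220 0 0)))) (P.cons (P.cons (P.lf 225595304 0 0) (P.cons (P.lf 100076140 0 0) (P.cons (P.lf 43153960 0 0) (P.lf 0 4794880 0)))) (P.cons (P.cons (P.lf 268044869 0 0) (P.cons (P.lf 0 11411008 0) (P.cons (P.lf 0 4920556 0) (P.lf 546724 0 0)))) (P.cons (P.cons (P.lf 0 41203088 0) (P.cons (P.lf 0 4057156 0) (P.cons (P.lf 0 1749492 0) P.nil))) (P.cons (P.cons (P.lf 0 10488664 0) (P.cons (P.lf 1070572 0 0) P.nil)) (P.cons (P.cons (P.lf 2724311 0 0) P.nil) P.nil)))))) 1760642)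
 EL.nil)
noncomputable def S314_372_216_364_48 : EL := (EL.cons 15 (TM.mk (P.cons (P.cons (P.lf 121431977 0 0) (P.cons (P.lf 0 57065208 0) (P.cons (P.lf 0 17902917 0) (P.cons (P.lf 8516018 0 0) (P.cons (P.lf 604175 0 0) (P.cons (P.lf 0 277023 0) P.nil)))))) (P.cons (P.cons (P.lf 75865906 0 0) (P.cons (P.lf 15828765 0 0) (P.cons (P.lf 0 1082254 0) (P.cons (P.lf 0 7578254 0) (P.cons (P.lf 0 712638 0) P.nil))))) (P.cons (P.cons (P.lf 101990864 0 0) (P.cons (P.lf 0 14504648 0) (P.cons (P.lf 0 3021042 0) (P.cons (P.lf 3483616 0 0) P.nil)))) (P.cons (P.cons (P.lf 14302110 0 0) (P.cons (P.lf 13183965 0 0) (P.cons (P.lf 5473890 0 0) P.nil))) (P.cons (P.cons (P.lf 8872748 0 0) (P.cons (P.lf 0 2581822 0) P.nil)) (P.cons (P.cons (P.lf 0 5328572 0) P.nil) P.nil)))))) 12943520)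
 EL.nil)
noncomputable def S314_372_216_364 : SL := (SL.cons S314_372_216_364_0 (SL.cons S314_372_216_364_1 (SL.cons S314_372_216_364_2 (SL.cons S314_372_216_364_3 (SL.cons S314_372_216_364_4 (SL.cons S314_372_216_364_5 (SL.cons S314_372_216_364_6 (SL.cons S314_372_216_364_7 (SL.cons S314_372_216_364_8 (SL.cons S314_372_216_364_9 (SL.cons S314_372_216_364_10 (SL.cons S314_372_216_364_11 (SL.cons S314_372_216_364_12 (SL.cons S314_372_216_364_13 (SL.cons S314_372_216_364_14 (SL.cons S314_372_216_364_15 (SL.cons S314_372_216_364_16 (SL.cons S314_372_216_364_17 (SL.cons S314_372_216_364_18 (SL.cons S314_372_216_364_19 (SL.cons S314_372_216_364_20 (SL.cons S314_372_216_364_21 (SL.cons S314_372_216_364_22 (SL.cons S314_372_216_364_23 (SL.cons S314_372_216_364_24 (SL.cons S314_372_216_364_25 (SL.cons S314_372_216_364_26 (SL.cons S314_372_216_364_27 (SL.cons S314_372_216_364_28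 (SL.cons S314_372_216_364_29 (SL.cons S314_372_216_364_30 (SL.cons S314_372_216_364_31 (SL.cons S314_372_216_364_32 (SL.cons S314_372_216_364_33 (SL.cons S314_372_216_364_34 (SL.cons S314_372_216_364_35 (SL.cons S314_372_216_364_36 (SL.cons S314_372_216_364_37 (SL.cons S314_372_216_364_38 (SL.cons S314_372_216_364_39 (SL.cons S314_372_216_364_40 (SL.cons S314_372_216_364_41 (SL.cons S314_372_216_364_42 (SL.cons S314_372_216_364_43 (SL.cons S314_372_216_364_44 (SL.cons S314_372_216_364_45 (SL.cons S314_372_216_364_46 (SL.cons S314_372_216_364_47 (SL.cons S314_372_216_364_48 SL.nil)))))))))))))))))))))))))))))))))))))))))))))))))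
noncomputable def S314_372_364_512_0 : EL := (EL.cons 0 (TM.mk (P.cons (P.lf 5792416443 0 0) (P.cons (P.lf 0 1327550055 0) (P.cons (P.lf 20882153 0 0) (P.cons (P.lf 49374168 0 0) (P.cons (P.lf 0 5384801 0) (P.cons (P.lf 0 616050 0) P.nil)))))) 235193)
 (EL.cons 1 (TM.mk (P.cons (P.lf 1788121471 0 0) (P.cons (P.lf 94132764 0 0) (P.cons (P.lf 0 179177853 0) (P.cons (P.lf 11443897 0 0) (P.cons (P.lf 3792305 0 0) (P.cons (P.lf 0 635690 0) P.nil)))))) 110845)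
 (EL.cons 5 (TM.mk (P.cons (P.lf 5241918562 0 0) (P.cons (P.lf 472017796 0 0) (P.cons (P.lf 0 7424770 0) (P.cons (P.lf 0 17555260 0) (P.cons (P.lf 1914598 0 0) (P.cons (P.lf 219040 0 0) P.nil)))))) 72457)
 (EL.cons 9 (TM.mk (P.lf 6442450944 0 0) 2)
 EL.nil))))
noncomputable def S314_372_364_512_1 : EL := (EL.cons 0 (TM.mk (P.cons (P.cons (P.lf 1975685405 0 0) (P.cons (P.lf 186654476 0 0) (P.cons (P.lf 12479278 0 0) (P.lf 0 4159756 0)))) (P.cons (P.cons (P.lf 2399294200 0 0) (P.cons (P.lf 340967257 0 0) (P.cons (P.lf 22796280 0 0) (P.lf 0 7598765 0)))) (P.cons (P.cons (P.lf 0 326539316 0) (P.cons (P.lf 0 260553827 0) (P.cons (P.lf 0 17420013 0) (P.lf 5806659 0 0)))) (P.cons (P.cons (P.lf 0 419340855 0) (P.cons (P.lf 22203121 0 0) (P.cons (P.lf 1484441 0 0) P.nil))) (P.cons (P.cons (P.lf 89452370 0 0) (P.cons (P.lf 20852551 0 0) P.nil)) (P.cons (P.cons (P.lf 21516626 0 0)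 P.nil) P.nil)))))) 29176144)
 (EL.cons 1 (TM.mk (P.cons (P.cons (P.lf 0 60656457 0) (P.cons (P.lf 0 200005155 0) (P.cons (P.lf 0 13371871 0) (P.lf 4457287 0 0)))) (P.cons (P.cons (P.lf 589458309 0 0) (P.cons (P.lf 267655279 0 0) (P.cons (P.lf 17894799 0 0) (P.lf 0 5964923 0)))) (P.cons (P.cons (P.lf 542621744 0 0) (P.cons (P.lf 0 12782960 0) (P.cons (P.lf 0 854638 0) (P.lf 284876 0 0)))) (P.cons (P.cons (P.lf 0 154910538 0) (P.cons (P.lf 0 44500667 0) (P.cons (P.lf 0 2975205 0) P.nil))) (P.cons (P.cons (P.lf 0 55524861 0) (P.cons (P.lf 9220929 0 0) P.nil)) (P.cons (P.cons (P.lf 18014906 0 0) P.nil) P.nil)))))) 15766937)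
 (EL.cons 5 (TM.mk (P.cons (P.cons (P.lf 0 438699729 0) (P.cons (P.lf 0 686551146 0) (P.cons (P.lf 0 45901210 0) (P.lf 15300398 0 0)))) (P.cons (P.cons (P.lf 98925044 0 0) (P.cons (P.lf 244527938 0 0) (P.cons (P.lf 16348572 0 0) (P.lf 0 5449520 0)))) (P.cons (P.cons (P.lf 506957447 0 0) (P.cons (P.lf 50936118 0 0) (P.cons (P.lf 3405464 0 0) (P.lf 0 1135150 0)))) (P.cons (P.cons (P.lf 56006494 0 0) (P.cons (P.lf 0 22722650 0) (P.cons (P.lf 0 1519182 0) P.nil))) (P.cons (P.cons (P.lf 0 43554478 0) (P.cons (P.lf 0 3501472 0) P.nil)) (P.cons (P.cons (P.lf 0 2940229 0) P.nil) P.nil)))))) 12625268)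
 (EL.cons 9 (TM.mk (P.cons (P.cons (P.lf 232734868 0 0) (P.cons (P.lf 0 547222152 0) (P.cons (P.lf 0 36585996 0) (P.lf 12195330 0 0)))) (P.cons (P.cons (P.lf 840006546 0 0) (P.cons (P.lf 322730064 0 0) (P.cons (P.lf 21576978 0 0) (P.lf 0 7192320 0)))) (P.cons (P.cons (P.lf 344871673 0 0) (P.cons (P.lf 0 36798738 0) (P.cons (P.lf 0 2460276 0) (P.lf 820086 0 0)))) (P.cons (P.cons (P.lf 0 82140414 0) (P.cons (P.lf 0 13083708 0) (P.cons (P.lf 0 874746 0) P.nil))) (P.cons (P.cons (P.lf 0 10366932 0) (P.cons (P.lf 3452436 0 0) P.nil)) (P.cons (P.cons (P.lf 4155988 0 0) P.nil) P.nil)))))) 2216086)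
 (EL.cons 2 (TM.mk (P.cons (P.cons (P.lf 0 930066274 0) (P.cons (P.lf 0 143997612 0) (P.cons (P.lf 69373507 0 0) (P.cons (P.lf 2625294 0 0) (P.lf 0 656322 0))))) (P.cons (P.cons (P.lf 133876977 0 0) (P.cons (P.lf 20727517 0 0) (P.cons (P.lf 0 9985862 0) (P.cons (P.lf 0 377893 0) (P.lf 94471 0 0))))) (P.cons (P.cons (P.lf 117917924 0 0) (P.cons (P.lf 18256654 0 0) (P.cons (P.lf 0 8795480 0) (P.cons (P.lf 0 332845 0) P.nil)))) (P.cons (P.cons (P.lf 0 27311450 0) (P.cons (P.lf 0 4228495 0) (P.cons (P.lf 2037155 0 0) P.nil))) (P.cons (P.cons (P.lf 0 2406057 0) (P.cons (P.lf 0 372518 0) P.nil)) (P.cons (P.cons (P.lf 1249295 0 0) P.nil) P.nil)))))) 1205931)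
 (EL.cons 6 (TM.mk (P.cons (P.cons (P.lf 624440061 0 0) (P.cons (P.lf 96679002 0 0) (P.cons (P.lf 0 46576893 0) (P.cons (P.lf 0 1762605 0) (P.lf 440649 0 0))))) (P.cons (P.cons (P.lf 0 368270142 0) (P.cons (P.lf 0 57017466 0) (P.cons (P.lf 27469215 0 0) (P.cons (P.lf 1039515 0 0) (P.lf 0 259878 0))))) (P.cons (P.cons (P.lf 41991369 0 0) (P.cons (P.lf 6501315 0 0) (P.cons (P.lf 0 3132129 0) (P.cons (P.lf 0 118527 0) P.nil)))) (P.cons (P.cons (P.lf 14929938 0 0) (P.cons (P.lf 2311527 0 0) (P.cons (P.lf 0 1113621 0) P.nil))) (P.cons (P.cons (P.lf 0 3939606 0) (P.cons (P.lf 0 609948 0) P.nil)) (P.cons (P.cons (P.lf 0 51039 0) P.nil) P.nil)))))) 717678)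
 EL.nil))))))
noncomputable def S314_372_364_512_2 : EL := (EL.cons 0 (TM.mk (P.cons (P.cons (P.lf 135184804 0 0) (P.cons (P.lf 0 286595999 0) (P.cons (P.lf 0 92661227 0) (P.cons (P.lf 0 3441034 0) (P.cons (P.lf 2947486 0 0) (P.cons (P.lf 219026 0 0) P.nil)))))) (P.cons (P.cons (P.lf 635719414 0 0) (P.cons (P.lf 0 37151542 0) (P.cons (P.lf 17164858 0 0) (P.cons (P.lf 3455289 0 0) (P.cons (P.lf 0 787936 0) P.nil))))) (P.cons (P.cons (P.lf 705199890 0 0) (P.cons (P.lf 318284085 0 0) (P.cons (P.lf 65966887 0 0) (P.cons (P.lf 0 1117878 0) P.nil)))) (P.cons (P.cons (P.lf 42963839 0 0) (P.cons (P.lf 0 60230251 0) (P.cons (P.lf 0 32799042 0) P.nil))) (P.cons (P.cons (P.lf 0 185640761 0) (P.cons (P.lf 0 70168888 0) P.nil)) (P.cons (P.cons (P.lf 0 8807897 0) P.nil) P.nil)))))) 157074359)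
 (EL.cons 1 (TM.mk (P.cons (P.cons (P.lf 0 6716005 0) (P.cons (P.lf 6827488 0 0) (P.cons (P.lf 21532407 0 0) (P.cons (P.lf 2666017 0 0) (P.cons (P.lf 0 845175 0) (P.cons (P.lf 0 62807 0) P.nil)))))) (P.cons (P.cons (P.lf 9803314 0 0) (P.cons (P.lf 0 105319127 0) (P.cons (P.lf 0 58011126 0) (P.cons (P.lf 0 4468303 0) (P.cons (P.lf 2043973 0 0) P.nil))))) (P.cons (P.cons (P.lf 148457239 0 0) (P.cons (P.lf 9314828 0 0) (P.cons (P.lf 27766698 0 0) (P.cons (P.lf 3421966 0 0) P.nil)))) (P.cons (P.cons (P.lf 171358488 0 0) (P.cons (P.lf 87278337 0 0) (P.cons (P.lf 8340456 0 0) P.nil))) (P.cons (P.cons (P.lf 2278497 0 0) (P.cons (P.lf 0 29149648 0) P.nil)) (P.cons (P.cons (P.lf 0 40350397 0) P.nil) P.nil)))))) 78818946)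
 (EL.cons 5 (TM.mk (P.cons (P.cons (P.lf 0 38537087 0) (P.cons (P.lf 57092164 0 0) (P.cons (P.lf 82628964 0 0) (P.cons (P.lf 9266002 0 0) (P.cons (P.lf 0 3160499 0) (P.cons (P.lf 0 234849 0) P.nil)))))) (P.cons (P.cons (P.lf 0 157250639 0) (P.cons (P.lf 0 122091325 0) (P.cons (P.lf 0 77284429 0) (P.cons (P.lf 0 6521718 0) (P.cons (P.lf 2771894 0 0) P.nil))))) (P.cons (P.cons (P.lf 0 98369716 0) (P.cons (P.lf 0 87199016 0) (P.cons (P.lf 3688738 0 0) (P.cons (P.lf 3216084 0 0) P.nil)))) (P.cons (P.cons (P.lf 79922064 0 0) (P.cons (P.lf 64442011 0 0) (P.cons (P.lf 12879168 0 0) P.nil))) (P.cons (P.cons (P.lf 61803658 0 0) (P.cons (P.lf 9568931 0 0) P.nil)) (P.cons (P.cons (P.lf 0 9558551 0) P.nil) P.nil)))))) 73077910)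
 (EL.cons 9 (TM.mk (P.cons (P.cons (P.lf 8407594 0 0) (P.cons (P.lf 0 39537025 0) (P.cons (P.lf 43837726 0 0) (P.cons (P.lf 7096350 0 0) (P.cons (P.lf 0 1863975 0) (P.cons (P.lf 0 138511 0) P.nil)))))) (P.cons (P.cons (P.lf 60690819 0 0) (P.cons (P.lf 0 119383027 0) (P.cons (P.lf 0 62807089 0) (P.cons (P.lf 0 4670442 0) (P.cons (P.lf 2198598 0 0) P.nil))))) (P.cons (P.cons (P.lf 134442361 0 0) (P.cons (P.lf 22913514 0 0) (P.cons (P.lf 23950254 0 0) (P.cons (P.lf 2487024 0 0) P.nil)))) (P.cons (P.cons (P.lf 83998318 0 0) (P.cons (P.lf 37964835 0 0) (P.cons (P.lf 1074088 0 0) P.nil))) (P.cons (P.cons (P.lf 0 3707593 0) (P.cons (P.lf 0 13570582 0) P.nil)) (P.cons (P.cons (P.lf 0 11197275 0) P.nil) P.nil)))))) 20920262)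
 (EL.cons 2 (TM.mk (P.cons (P.cons (P.lf 0 67197667 0) (P.cons (P.lf 147595876 0 0) (P.cons (P.lf 40038086 0 0) (P.cons (P.lf 0 13481167 0) (P.cons (P.lf 0 1826499 0) (P.cons (P.lf 344317 0 0) P.nil)))))) (P.cons (P.cons (P.lf 0 232862900 0) (P.cons (P.lf 0 151978095 0) (P.cons (P.lf 0 8329376 0) (P.cons (P.lf 10687657 0 0) (P.cons (P.lf 1140991 0 0) P.nil))))) (P.cons (P.cons (P.lf 0 56143957 0) (P.cons (P.lf 0 4686536 0) (P.cons (P.lf 5075820 0 0) (P.cons (P.lf 0 188133 0) P.nil)))) (P.cons (P.cons (P.lf 66826091 0 0) (P.cons (P.lf 29048338 0 0) (P.cons (P.lf 0 838636 0) P.nil))) (P.cons (P.cons (P.lf 4908071 0 0) (P.cons (P.lf 0 4455326 0) P.nil)) (P.cons (P.cons (P.lf 0 8098891 0) P.nil) P.nil)))))) 15116197)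
 (EL.cons 6 (TM.mk (P.cons (P.cons (P.lf 45116046 0 0) (P.cons (P.lf 0 99094848 0) (P.cons (P.lf 0 26881296 0) (P.cons (P.lf 9051162 0 0) (P.cons (P.lf 1226298 0 0) (P.cons (P.lf 0 231168 0) P.nil)))))) (P.cons (P.cons (P.lf 136229028 0 0) (P.cons (P.lf 146215218 0 0) (P.cons (P.lf 17576430 0 0) (P.cons (P.lf 0 11210778 0) (P.cons (P.lf 0 1312758 0) P.nil))))) (P.cons (P.cons (P.lf 0 26146812 0) (P.cons (P.lf 0 55211646 0) (P.cons (P.lf 0 9391770 0) (P.cons (P.lf 4500690 0 0) P.nil)))) (P.cons (P.cons (P.lf 0 43322004 0) (P.cons (P.lf 0 3365820 0) (P.cons (P.lf 3972132 0 0) P.nil))) (P.cons (P.cons (P.lf 15485508 0 0) (P.cons (P.lf 6247980 0 0) P.nil)) (P.cons (P.cons (P.lf 1487484 0 0) P.nil) P.nil)))))) 12097212)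
 EL.nil))))))
noncomputable def S314_372_364_512_3 : EL := (EL.cons 0 (TM.mk (P.cons (P.lf 2663300420 0 0) (P.cons (P.lf 1327550055 0 0) (P.cons (P.lf 0 20882153 0) (P.cons (P.lf 0 49374168 0) (P.cons (P.lf 5384801 0 0) (P.cons (P.lf 616050 0 0) P.nil)))))) 235193)
 (EL.cons 1 (TM.mk (P.cons (P.lf 0 1788121471 0) (P.cons (P.lf 0 94132764 0) (P.cons (P.lf 179177853 0 0) (P.cons (P.lf 0 11443897 0) (P.cons (P.lf 0 3792305 0) (P.cons (P.lf 635690 0 0) P.nil)))))) 110845)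
 (EL.cons 5 (TM.mk (P.cons (P.lf 1200532382 0 0) (P.cons (P.lf 0 472017796 0) (P.cons (P.lf 7424770 0 0) (P.cons (P.lf 17555260 0 0) (P.cons (P.lf 0 1914598 0) (P.cons (P.lf 0 219040 0) P.nil)))))) 72450)
 EL.nil)))
noncomputable def S314_372_364_512_4 : EL := (EL.cons 0 (TM.mk (P.cons (P.cons (P.lf 96212276 0 0) (P.cons (P.lf 0 226220888 0) (P.cons (P.lf 0 15124600 0) (P.lf 5041531 0 0)))) (P.cons (P.cons (P.lf 395215577 0 0) (P.cons (P.lf 20653989 0 0) (P.cons (P.lf 1380875 0 0) (P.lf 0 460290 0)))) (P.cons (P.cons (P.lf 314909281 0 0) (P.cons (P.lf 53063871 0 0) (P.cons (P.lf 3547726 0 0) (P.lf 0 1182575 0)))) (P.cons (P.cons (P.lf 32602122 0 0) (P.cons (P.lf 0 9843873 0) (P.cons (P.lf 0 658137 0) P.nil))) (P.cons (P.cons (P.lf 0 28572792 0) (P.cons (P.lf 0 4080306 0) P.nil)) (P.cons (P.cons (P.lf 0 2070609 0) P.nil) P.nil)))))) 6011284)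
 (EL.cons 1 (TM.mk (P.cons (P.cons (P.lf 0 64596255 0) (P.cons (P.lf 151883139 0 0) (P.cons (P.lf 10154551 0 0) (P.lf 0 3384849 0)))) (P.cons (P.cons (P.lf 0 236546887 0) (P.cons (P.lf 0 81579048 0) (P.cons (P.lf 0 5454183 0) (P.lf 1818058 0 0)))) (P.cons (P.cons (P.lf 0 101520935 0) (P.cons (P.lf 0 9721291 0) (P.cons (P.lf 0 649942 0) (P.lf 216646 0 0)))) (P.cons (P.cons (P.lf 40708185 0 0) (P.cons (P.lf 14116933 0 0) (P.cons (P.lf 943824 0 0) P.nil))) (P.cons (P.cons (P.lf 12040021 0 0) (P.cons (P.lf 0 2041666 0) P.nil)) (P.cons (P.cons (P.lf 0 4370630 0) P.nil) P.nil)))))) 3724115)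
 (EL.cons 5 (TM.mk (P.cons (P.cons (P.lf 43369478 0 0) (P.cons (P.lf 0 101973288 0) (P.cons (P.lf 0 6817694 0) (P.lf 2272564 0 0)))) (P.cons (P.cons (P.lf 139481086 0 0) (P.cons (P.lf 100233046 0 0) (P.cons (P.lf 6701346 0 0) (P.lf 0 2233780 0)))) (P.cons (P.cons (P.lf 2989478 0 0) (P.cons (P.lf 0 31133400 0) (P.cons (P.lf 0 2081504 0) (P.lf 693832 0 0)))) (P.cons (P.cons (P.lf 0 38972002 0) (P.cons (P.lf 0 861190 0) (P.cons (P.lf 0 57576 0) P.nil))) (P.cons (P.cons (P.lf 6703570 0 0) (P.cons (P.lf 2601586 0 0) P.nil)) (P.cons (P.cons (P.lf 2121546 0 0) P.nil) P.nil)))))) 2614516)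
 EL.nil)))
noncomputable def S314_372_364_512_5 : EL := (EL.cons 0 (TM.mk (P.cons (P.cons (P.lf 3475687 0 0) (P.cons (P.lf 0 16344551 0) (P.cons (P.lf 18122456 0 0) (P.cons (P.lf 2933620 0 0) (P.cons (P.lf 0 770563 0) (P.cons (P.lf 0 57258 0) P.nil)))))) (P.cons (P.cons (P.lf 26821993 0 0) (P.cons (P.lf 0 57499892 0) (P.cons (P.lf 0 16931035 0) (P.cons (P.lf 0 468458 0) (P.cons (P.lf 524800 0 0) P.nil))))) (P.cons (P.cons (P.lf 68057161 0 0) (P.cons (P.lf 0 14999842 0) (P.cons (P.lf 0 3183300 0) (P.cons (P.lf 42725 0 0) P.nil)))) (P.cons (P.cons (P.lf 62167216 0 0) (P.cons (P.lf 21106202 0 0) (P.cons (P.lf 5246896 0 0) P.nil))) (P.cons (P.cons (P.lf 14882349 0 0) (P.cons (P.lf 3020702 0 0) P.nil)) (P.cons (P.cons (P.lf 0 6644019 0) P.nil) P.nil)))))) 22575629)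
 (EL.cons 1 (TM.mk (P.cons (P.cons (P.lf 0 2333551 0) (P.cons (P.lf 10973617 0 0) (P.cons (P.lf 0 12167291 0) (P.cons (P.lf 0 1969612 0) (P.cons (P.lf 517350 0 0) (P.cons (P.lf 38443 0 0) P.nil)))))) (P.cons (P.cons (P.lf 0 16967761 0) (P.cons (P.lf 33712801 0 0) (P.cons (P.lf 16791766 0 0) (P.cons (P.lf 1192606 0 0) (P.cons (P.lf 0 582991 0) P.nil))))) (P.cons (P.cons (P.lf 0 37967818 0) (P.cons (P.lf 0 5714975 0) (P.cons (P.lf 0 4510550 0) (P.cons (P.lf 0 424674 0) P.nil)))) (P.cons (P.cons (P.lf 0 23605361 0) (P.cons (P.lf 0 14122106 0) (P.cons (P.lf 0 2472725 0) P.nil))) (P.cons (P.cons (P.lf 3428090 0 0) (P.cons (P.lf 4084445 0 0) P.nil)) (P.cons (P.cons (P.lf 5224466 0 0) P.nil) P.nil)))))) 15625788)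
 (EL.cons 5 (TM.mk (P.cons (P.cons (P.lf 1566730 0 0) (P.cons (P.lf 0 7367610 0) (P.cons (P.lf 8169034 0 0) (P.cons (P.lf 1322384 0 0) (P.cons (P.lf 0 347344 0) (P.cons (P.lf 0 25810 0) P.nil)))))) (P.cons (P.cons (P.lf 10693562 0 0) (P.cons (P.lf 0 19349934 0) (P.cons (P.lf 0 14915772 0) (P.cons (P.lf 0 1390248 0) (P.cons (P.lf 546268 0 0) P.nil))))) (P.cons (P.cons (P.lf 20616018 0 0) (P.cons (P.lf 12971114 0 0) (P.cons (P.lf 9115256 0 0) (P.cons (P.lf 813816 0 0) P.nil)))) (P.cons (P.cons (P.lf 5895538 0 0) (P.cons (P.lf 5150516 0 0) (P.cons (P.lf 0 1507532 0) P.nil))) (P.cons (P.cons (P.lf 0 6527364 0) (P.cons (P.lf 0 5597554 0) P.nil)) (P.cons (P.cons (P.lf 0 1370104 0) P.nil) P.nil)))))) 10031372)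
 EL.nil)))
noncomputable def S314_372_364_512_6 : EL := (EL.cons 12 (TM.mk (P.lf 8589934592 0 0) 0)
 (EL.cons 3 (TM.mk (P.cons (P.lf 2391525476 0 0) (P.cons (P.lf 596040491 0 0) (P.cons (P.lf 0 83651283 0) (P.cons (P.lf 0 1319475 0) (P.cons (P.lf 1283523 0 0) (P.cons (P.lf 0 89452 0) P.nil)))))) 26268)
 (EL.cons 7 (TM.mk (P.cons (P.lf 0 1605653656 0) (P.cons (P.lf 315650420 0 0) (P.cons (P.lf 26061229 0 0) (P.cons (P.lf 0 6616358 0) (P.cons (P.lf 191151 0 0) (P.cons (P.lf 76666 0 0) P.nil)))))) 11720)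
 EL.nil)))
noncomputable def S314_372_364_512_7 : EL := (EL.cons 12 (TM.mk (P.cons (P.cons (P.lf 310313158 0 0) (P.cons (P.lf 0 729629536 0) (P.cons (P.lf 0 48781328 0) (P.lf 16260440 0 0)))) (P.cons (P.cons (P.lf 1120008728 0 0) (P.cons (P.lf 430306752 0 0) (P.cons (P.lf 28769304 0 0) (P.lf 0 9589760 0)))) (P.cons (P.cons (P.lf 459828898 0 0) (P.cons (P.lf 0 49064984 0) (P.cons (P.lf 0 3280368 0) (P.lf 1093448 0 0)))) (P.cons (P.cons (P.lf 0 109520552 0) (P.cons (P.lf 0 17444944 0) (P.cons (P.lf 0 1166328 0) P.nil))) (P.cons (P.cons (P.lf 0 13822576 0) (P.cons (P.lf 4603248 0 0) P.nil)) (P.cons (P.cons (P.lf 5541318 0 0) P.nil) P.nil)))))) 2954756)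
 (EL.cons 3 (TM.mk (P.cons (P.cons (P.lf 1672572872 0 0) (P.cons (P.lf 406272620 0 0) (P.cons (P.lf 27162438 0 0) (P.lf 0 9054144 0)))) (P.cons (P.cons (P.lf 1457372189 0 0) (P.cons (P.lf 0 138348156 0) (P.cons (P.lf 0 9249632 0) (P.lf 3083206 0 0)))) (P.cons (P.cons (P.lf 0 438840608 0) (P.cons (P.lf 0 46606764 0) (P.cons (P.lf 0 3116018 0) (P.lf 1038674 0 0)))) (P.cons (P.cons (P.lf 0 59919557 0) (P.cons (P.lf 24679518 0 0) (P.cons (P.lf 1650012 0 0) P.nil))) (P.cons (P.cons (P.lf 40718497 0 0) (P.cons (P.lf 0 747608 0) P.nil)) (P.cons (P.cons (P.lf 0 2501652 0) P.nil) P.nil)))))) 11283308)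
 (EL.cons 7 (TM.mk (P.cons (P.cons (P.lf 782001974 0 0) (P.cons (P.lf 459114383 0 0) (P.cons (P.lf 30695323 0 0) (P.lf 0 10231774 0)))) (P.cons (P.cons (P.lf 771793441 0 0) (P.cons (P.lf 0 73266256 0) (P.cons (P.lf 0 4898415 0) (P.lf 1632807 0 0)))) (P.cons (P.cons (P.lf 0 60361341 0) (P.cons (P.lf 0 41013628 0) (P.cons (P.lf 0 2742074 0) (P.lf 914022 0 0)))) (P.cons (P.cons (P.lf 0 83080158 0) (P.cons (P.lf 4051450 0 0) (P.cons (P.lf 270871 0 0) P.nil))) (P.cons (P.cons (P.lf 6055943 0 0) (P.cons (P.lf 2828862 0 0) P.nil)) (P.cons (P.cons (P.lf 4035921 0 0) P.nil) P.nil)))))) 6904913)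
 (EL.cons 10 (TM.mk (P.cons (P.cons (P.lf 0 1670316408 0) (P.cons (P.lf 0 258606924 0) (P.cons (P.lf 124588659 0 0) (P.cons (P.lf 4714800 0 0) (P.lf 0 1178700 0))))) (P.cons (P.cons (P.lf 656724534 0 0) (P.cons (P.lf 101677449 0 0) (P.cons (P.lf 0 48984987 0) (P.cons (P.lf 0 1853736 0) (P.lf 463434 0 0))))) (P.cons (P.cons (P.lf 0 10330179 0) (P.cons (P.lf 0 1599369 0) (P.cons (P.lf 770526 0 0) (P.cons (P.lf 29157 0 0) P.nil)))) (P.cons (P.cons (P.lf 0 24424860 0) (P.cons (P.lf 0 3781581 0) (P.cons (P.lf 1821846 0 0) P.nil))) (P.cons (P.cons (P.lf 2663805 0 0) (P.cons (P.lf 412422 0 0) P.nil)) (P.cons (P.cons (P.lf 304752 0 0) P.nil) P.nil)))))) 496941)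
 EL.nil))))
noncomputable def S314_372_364_512_8 : EL := (EL.cons 12 (TM.mk (P.cons (P.cons (P.lf 11210126 0 0) (P.cons (P.lf 0 52716034 0) (P.cons (P.lf 58450302 0 0) (P.cons (P.lf 9461800 0 0) (P.cons (P.lf 0 2485300 0) (P.cons (P.lf 0 184682 0) P.nil)))))) (P.cons (P.cons (P.lf 80921092 0 0) (P.cons (P.lf 0 159177370 0) (P.cons (P.lf 0 83742786 0) (P.cons (P.lf 0 6227256 0) (P.cons (P.lf 2931464 0 0) P.nil))))) (P.cons (P.cons (P.lf 179256482 0 0) (P.cons (P.lf 30551352 0 0) (P.cons (P.lf 31933672 0 0) (P.cons (P.lf 3316032 0 0) P.nil)))) (P.cons (P.cons (P.lf 111997758 0 0) (P.cons (P.lf 50619780 0 0) (P.cons (P.lf 1432118 0 0) P.nil))) (P.cons (P.cons (P.lf 0 4943458 0) (P.cons (P.lf 0 18094110 0) P.nil)) (P.cons (P.cons (P.lf 0 14929700 0) P.nil) P.nil)))))) 27893654)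
 (EL.cons 3 (TM.mk (P.cons (P.cons (P.lf 117723065 0 0) (P.cons (P.lf 0 240106821 0) (P.cons (P.lf 0 102325030 0) (P.cons (P.lf 0 6184899 0) (P.cons (P.lf 3459666 0 0) (P.cons (P.lf 257085 0 0) P.nil)))))) (P.cons (P.cons (P.lf 518149392 0 0) (P.cons (P.lf 63917609 0 0) (P.cons (P.lf 84531486 0 0) (P.cons (P.lf 9307277 0 0) (P.cons (P.lf 0 3218490 0) P.nil))))) (P.cons (P.cons (P.lf 471992747 0 0) (P.cons (P.lf 207532775 0 0) (P.cons (P.lf 644490 0 0) (P.cons (P.lf 0 6394194 0) P.nil)))) (P.cons (P.cons (P.lf 0 48217180 0) (P.cons (P.lf 0 110543518 0) (P.cons (P.lf 0 18555334 0) P.nil))) (P.cons (P.cons (P.lf 0 106850797 0) (P.cons (P.lf 0 6615746 0) P.nil)) (P.cons (P.cons (P.lf 18286181 0 0) P.nil) P.nil)))))) 85231484)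
 (EL.cons 7 (TM.mk (P.cons (P.cons (P.lf 58595390 0 0) (P.cons (P.lf 0 109529204 0) (P.cons (P.lf 0 73732775 0) (P.cons (P.lf 0 6439067 0) (P.cons (P.lf 2663156 0 0) (P.cons (P.lf 197895 0 0) P.nil)))))) (P.cons (P.cons (P.lf 274400944 0 0) (P.cons (P.lf 33849411 0 0) (P.cons (P.lf 44766083 0 0) (P.cons (P.lf 4928937 0 0) (P.cons (P.lf 0 1704445 0) P.nil))))) (P.cons (P.cons (P.lf 311123678 0 0) (P.cons (P.lf 117450289 0 0) (P.cons (P.lf 10320047 0 0) (P.cons (P.lf 0 2287523 0) P.nil)))) (P.cons (P.cons (P.lf 55056943 0 0) (P.cons (P.lf 0 25099148 0) (P.cons (P.lf 0 8697024 0) P.nil))) (P.cons (P.cons (P.lf 0 55408492 0) (P.cons (P.lf 0 19155432 0) P.nil)) (P.cons (P.cons (P.lf 0 9772346 0) P.nil) P.nil)))))) 43483263)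
 (EL.cons 10 (TM.mk (P.cons (P.cons (P.lf 0 120681048 0) (P.cons (P.lf 265069080 0 0) (P.cons (P.lf 71904852 0 0) (P.cons (P.lf 0 24210984 0) (P.cons (P.lf 0 3280230 0) (P.cons (P.lf 618366 0 0) P.nil)))))) (P.cons (P.cons (P.lf 0 388123716 0) (P.cons (P.lf 0 339002394 0) (P.cons (P.lf 0 32879694 0) (P.cons (P.lf 25228194 0 0) (P.cons (P.lf 2866650 0 0) P.nil))))) (P.cons (P.cons (P.lf 0 8318604 0) (P.cons (P.lf 85344684 0 0) (P.cons (P.lf 19825440 0 0) (P.cons (P.lf 0 7472358 0) P.nil)))) (P.cons (P.cons (P.lf 108444510 0 0) (P.cons (P.lf 19186308 0 0) (P.cons (P.lf 0 7557624 0) P.nil))) (P.cons (P.cons (P.lf 0 18653532 0) (P.cons (P.lf 0 10127280 0) P.nil)) (P.cons (P.cons (P.lf 0 5903466 0) P.nil) P.nil)))))) 17995164)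
 EL.nil))))
noncomputable def S314_372_364_512_9 : EL := (EL.cons 3 (TM.mk (P.cons (P.lf 2391525476 0 0) (P.cons (P.lf 596040491 0 0) (P.cons (P.lf 0 83651283 0) (P.cons (P.lf 0 1319475 0) (P.cons (P.lf 1283523 0 0) (P.cons (P.lf 0 89452 0) P.nil)))))) 26268)
 (EL.cons 7 (TM.mk (P.cons (P.lf 0 1605653656 0) (P.cons (P.lf 315650420 0 0) (P.cons (P.lf 26061229 0 0) (P.cons (P.lf 0 6616358 0) (P.cons (P.lf 191151 0 0) (P.cons (P.lf 76666 0 0) P.nil)))))) 11720)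
 EL.nil))
noncomputable def S314_372_364_512_10 : EL := (EL.cons 3 (TM.mk (P.cons (P.cons (P.lf 86394350 0 0) (P.cons (P.lf 0 203136310 0) (P.cons (P.lf 0 13581219 0) (P.lf 4527072 0 0)))) (P.cons (P.cons (P.lf 333353948 0 0) (P.cons (P.lf 69174078 0 0) (P.cons (P.lf 4624816 0 0) (P.lf 0 1541603 0)))) (P.cons (P.cons (P.lf 202714579 0 0) (P.cons (P.lf 23303382 0 0) (P.cons (P.lf 1558009 0 0) (P.lf 0 519337 0)))) (P.cons (P.cons (P.lf 0 9539555 0) (P.cons (P.lf 0 12339759 0) (P.cons (P.lf 0 825006 0) P.nil))) (P.cons (P.cons (P.lf 0 16051406 0) (P.cons (P.lf 373804 0 0) P.nil)) (P.cons (P.cons (P.lf 1743666 0 0) P.nil) P.nil)))))) 2729890)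
 (EL.cons 7 (TM.mk (P.cons (P.cons (P.lf 0 58004569 0) (P.cons (P.lf 136384313 0 0) (P.cons (P.lf 9118336 0 0) (P.lf 0 3039445 0)))) (P.cons (P.cons (P.lf 0 197952104 0) (P.cons (P.lf 0 107245459 0) (P.cons (P.lf 0 7170180 0) (P.lf 2390058 0 0)))) (P.cons (P.cons (P.lf 0 43854534 0) (P.cons (P.lf 22770002 0 0) (P.cons (P.lf 1522348 0 0) (P.lf 0 507447 0)))) (P.cons (P.cons (P.lf 40528005 0 0) (P.cons (P.lf 3325399 0 0) (P.cons (P.lf 222328 0 0) P.nil))) (P.cons (P.cons (P.lf 0 901438 0) (P.cons (P.lf 0 1998030 0) P.nil)) (P.cons (P.cons (P.lf 0 2202495 0) P.nil) P.nil)))))) 1558465)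
 EL.nil))
noncomputable def S314_372_364_512_11 : EL := (EL.cons 3 (TM.mk (P.cons (P.cons (P.lf 3121013 0 0) (P.cons (P.lf 0 14676681 0) (P.cons (P.lf 16273160 0 0) (P.cons (P.lf 2634261 0 0) (P.cons (P.lf 0 691932 0) (P.cons (P.lf 0 51417 0) P.nil)))))) (P.cons (P.cons (P.lf 23307108 0 0) (P.cons (P.lf 0 47974477 0) (P.cons (P.lf 0 19259082 0) (P.cons (P.lf 0 1077193 0) (P.cons (P.lf 643698 0 0) P.nil))))) (P.cons (P.cons (P.lf 55412639 0 0) (P.cons (P.lf 0 2025865 0) (P.cons (P.lf 2510688 0 0) (P.cons (P.lf 398976 0 0) P.nil)))) (P.cons (P.cons (P.lf 42829856 0 0) (P.cons (P.lf 17771180 0 0) (P.cons (P.lf 3421070 0 0) P.nil))) (P.cons (P.cons (P.lf 4638611 0 0) (P.cons (P.lf 0 1806110 0) P.nil)) (P.cons (P.cons (P.lf 0 5605825 0) P.nil) P.nil)))))) 14338618)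
 (EL.cons 7 (TM.mk (P.cons (P.cons (P.lf 0 2095426 0) (P.cons (P.lf 9853822 0 0) (P.cons (P.lf 0 10925687 0) (P.cons (P.lf 0 1768625 0) (P.cons (P.lf 464558 0 0) (P.cons (P.lf 34521 0 0) P.nil)))))) (P.cons (P.cons (P.lf 0 14714054 0) (P.cons (P.lf 27816729 0 0) (P.cons (P.lf 17801273 0 0) (P.cons (P.lf 1511703 0 0) (P.cons (P.lf 0 639283 0) P.nil))))) (P.cons (P.cons (P.lf 0 30499522 0) (P.cons (P.lf 0 11719895 0) (P.cons (P.lf 0 8869051 0) (P.cons (P.lf 0 819965 0) P.nil)))) (P.cons (P.cons (P.lf 0 14110991 0) (P.cons (P.lf 0 8781656 0) (P.cons (P.lf 606666 0 0) P.nil))) (P.cons (P.cons (P.lf 5521346 0 0) (P.cons (P.lf 5456424 0 0) P.nil)) (P.cons (P.cons (P.lf 2812666 0 0) P.nil) P.nil)))))) 8578061)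
 EL.nil))
noncomputable def S314_372_364_512_12 : EL := (EL.cons 4 (TM.mk (P.cons (P.lf 0 2391525476 0) (P.cons (P.lf 0 596040491 0) (P.cons (P.lf 83651283 0 0) (P.cons (P.lf 1319475 0 0) (P.cons (P.lf 0 1283523 0) (P.cons (P.lf 89452 0 0) P.nil)))))) 26268)
 (EL.cons 8 (TM.mk (P.cons (P.lf 1605653656 0 0) (P.cons (P.lf 0 315650420 0) (P.cons (P.lf 0 26061229 0) (P.cons (P.lf 6616358 0 0) (P.cons (P.lf 0 191151 0) (P.cons (P.lf 0 76666 0) P.nil)))))) 11720)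
 EL.nil))
noncomputable def S314_372_364_512_13 : EL := (EL.cons 4 (TM.mk (P.cons (P.cons (P.lf 0 86394350 0) (P.cons (P.lf 203136310 0 0) (P.cons (P.lf 13581219 0 0) (P.lf 0 4527072 0)))) (P.cons (P.cons (P.lf 0 333353948 0) (P.cons (P.lf 0 69174078 0) (P.cons (P.lf 0 4624816 0) (P.lf 1541603 0 0)))) (P.cons (P.cons (P.lf 0 202714579 0) (P.cons (P.lf 0 23303382 0) (P.cons (P.lf 0 1558009 0) (P.lf 519337 0 0)))) (P.cons (P.cons (P.lf 9539555 0 0) (P.cons (P.lf 12339759 0 0) (P.cons (P.lf 825006 0 0) P.nil))) (P.cons (P.cons (P.lf 16051406 0 0) (P.cons (P.lf 0 373804 0) P.nil)) (P.cons (P.cons (P.lf 0 1743666 0) P.nil) P.nil)))))) 2729890)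
 (EL.cons 8 (TM.mk (P.cons (P.cons (P.lf 58004569 0 0) (P.cons (P.lf 0 136384313 0) (P.cons (P.lf 0 9118336 0) (P.lf 3039445 0 0)))) (P.cons (P.cons (P.lf 197952104 0 0) (P.cons (P.lf 107245459 0 0) (P.cons (P.lf 7170180 0 0) (P.lf 0 2390058 0)))) (P.cons (P.cons (P.lf 43854534 0 0) (P.cons (P.lf 0 22770002 0) (P.cons (P.lf 0 1522348 0) (P.lf 507447 0 0)))) (P.cons (P.cons (P.lf 0 40528005 0) (P.cons (P.lf 0 3325399 0) (P.cons (P.lf 0 222328 0) P.nil))) (P.cons (P.cons (P.lf 901438 0 0) (P.cons (P.lf 1998030 0 0) P.nil)) (P.cons (P.cons (P.lf 2202495 0 0) P.nil) P.nil)))))) 1558465)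
 EL.nil))
noncomputable def S314_372_364_512_14 : EL := (EL.cons 4 (TM.mk (P.cons (P.cons (P.lf 0 3121013 0) (P.cons (P.lf 14676681 0 0) (P.cons (P.lf 0 16273160 0) (P.cons (P.lf 0 2634261 0) (P.cons (P.lf 691932 0 0) (P.cons (P.lf 51417 0 0) P.nil)))))) (P.cons (P.cons (P.lf 0 23307108 0) (P.cons (P.lf 47974477 0 0) (P.cons (P.lf 19259082 0 0) (P.cons (P.lf 1077193 0 0) (P.cons (P.lf 0 643698 0) P.nil))))) (P.cons (P.cons (P.lf 0 55412639 0) (P.cons (P.lf 2025865 0 0) (P.cons (P.lf 0 2510688 0) (P.cons (P.lf 0 398976 0) P.nil)))) (P.cons (P.cons (P.lf 0 42829856 0) (P.cons (P.lf 0 17771180 0) (P.cons (P.lf 0 3421070 0) P.nil))) (P.cons (P.cons (P.lf 0 4638611 0) (P.cons (P.lf 1806110 0 0) P.nil)) (P.cons (P.cons (P.lf 5605825 0 0) P.nil) P.nil)))))) 14338618)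
 (EL.cons 8 (TM.mk (P.cons (P.cons (P.lf 2095426 0 0) (P.cons (P.lf 0 9853822 0) (P.cons (P.lf 10925687 0 0) (P.cons (P.lf 1768625 0 0) (P.cons (P.lf 0 464558 0) (P.cons (P.lf 0 34521 0) P.nil)))))) (P.cons (P.cons (P.lf 14714054 0 0) (P.cons (P.lf 0 27816729 0) (P.cons (P.lf 0 17801273 0) (P.cons (P.lf 0 1511703 0) (P.cons (P.lf 639283 0 0) P.nil))))) (P.cons (P.cons (P.lf 30499522 0 0) (P.cons (P.lf 11719895 0 0) (P.cons (P.lf 8869051 0 0) (P.cons (P.lf 819965 0 0) P.nil)))) (P.cons (P.cons (P.lf 14110991 0 0) (P.cons (P.lf 8781656 0 0) (P.cons (P.lf 0 606666 0) P.nil))) (P.cons (P.cons (P.lf 0 5521346 0) (P.cons (P.lf 0 5456424 0) P.nil)) (P.cons (P.cons (P.lf 0 2812666 0) P.nil) P.nil)))))) 8578061)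
 EL.nil))
noncomputable def S314_372_364_512_15 : EL := (EL.cons 4 (TM.mk (P.cons (P.lf 0 1420426890 0) (P.cons (P.lf 0 708026696 0) (P.cons (P.lf 11137148 0 0) (P.cons (P.lf 26332890 0 0) (P.cons (P.lf 0 2871894 0) (P.cons (P.lf 0 328560 0) P.nil)))))) 125439)
 (EL.cons 8 (TM.mk (P.cons (P.lf 953664785 0 0) (P.cons (P.lf 50204141 0 0) (P.cons (P.lf 0 95561522 0) (P.cons (P.lf 6103412 0 0) (P.cons (P.lf 2022563 0 0) (P.cons (P.lf 0 339035 0) P.nil)))))) 59114)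
 EL.nil))
noncomputable def S314_372_364_512_16 : EL := (EL.cons 4 (TM.mk (P.cons (P.cons (P.lf 0 51313214 0) (P.cons (P.lf 120651140 0 0) (P.cons (P.lf 8066453 0 0) (P.lf 0 2688816 0)))) (P.cons (P.cons (P.lf 0 210781641 0) (P.cons (P.lf 0 11015460 0) (P.cons (P.lf 0 736467 0) (P.lf 245488 0 0)))) (P.cons (P.cons (P.lf 0 167951616 0) (P.cons (P.lf 0 28300731 0) (P.cons (P.lf 0 1892120 0) (P.lf 630706 0 0)))) (P.cons (P.cons (P.lf 0 17387798 0) (P.cons (P.lf 5250065 0 0) (P.cons (P.lf 351006 0 0) P.nil))) (P.cons (P.cons (P.lf 15238822 0 0) (P.cons (P.lf 2176163 0 0) P.nil)) (P.cons (P.cons (P.lf 1104325 0 0) P.nil) P.nil)))))) 3206027)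
 (EL.cons 8 (TM.mk (P.cons (P.cons (P.lf 34451336 0 0) (P.cons (P.lf 0 81004341 0) (P.cons (P.lf 0 5415761 0) (P.lf 1805253 0 0)))) (P.cons (P.cons (P.lf 126158340 0 0) (P.cons (P.lf 43508826 0 0) (P.cons (P.lf 2908898 0 0) (P.lf 0 969631 0)))) (P.cons (P.cons (P.lf 54144499 0 0) (P.cons (P.lf 5184689 0 0) (P.cons (P.lf 346636 0 0) (P.lf 0 115545 0)))) (P.cons (P.cons (P.lf 0 21711032 0) (P.cons (P.lf 0 7529031 0) (P.cons (P.lf 0 503373 0) P.nil))) (P.cons (P.cons (P.lf 0 6421345 0) (P.cons (P.lf 1088889 0 0) P.nil)) (P.cons (P.cons (P.lf 2331003 0 0) P.nil) P.nil)))))) 1986185)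
 EL.nil))
noncomputable def S314_372_364_512_17 : EL := (EL.cons 4 (TM.mk (P.cons (P.cons (P.lf 0 1853700 0) (P.cons (P.lf 8717094 0 0) (P.cons (P.lf 0 9665310 0) (P.cons (P.lf 0 1564597 0) (P.cons (P.lf 410967 0 0) (P.cons (P.lf 30538 0 0) P.nil)))))) (P.cons (P.cons (P.lf 0 14305063 0) (P.cons (P.lf 30666609 0 0) (P.cons (P.lf 9029885 0 0) (P.cons (P.lf 249844 0 0) (P.cons (P.lf 0 279893 0) P.nil))))) (P.cons (P.cons (P.lf 0 36297152 0) (P.cons (P.lf 7999916 0 0) (P.cons (P.lf 1697760 0 0) (P.cons (P.lf 0 22786 0) P.nil)))) (P.cons (P.cons (P.lf 0 33155849 0) (P.cons (P.lf 0 11256641 0) (P.cons (P.lf 0 2798344 0) P.nil))) (P.cons (P.cons (P.lf 0 7937252 0) (P.cons (P.lf 0 1611041 0) P.nil)) (P.cons (P.cons (P.lf 3543477 0 0) P.nil) P.nil)))))) 12040345)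
 (EL.cons 8 (TM.mk (P.cons (P.cons (P.lf 1244561 0 0) (P.cons (P.lf 0 5852596 0) (P.cons (P.lf 6489222 0 0) (P.cons (P.lf 1050460 0 0) (P.cons (P.lf 0 275920 0) (P.cons (P.lf 0 20503 0) P.nil)))))) (P.cons (P.cons (P.lf 9049473 0 0) (P.cons (P.lf 0 17980161 0) (P.cons (P.lf 0 8955609 0) (P.cons (P.lf 0 636057 0) (P.cons (P.lf 310929 0 0) P.nil))))) (P.cons (P.cons (P.lf 20249503 0 0) (P.cons (P.lf 3047987 0 0) (P.cons (P.lf 2405627 0 0) (P.cons (P.lf 226493 0 0) P.nil)))) (P.cons (P.cons (P.lf 12589526 0 0) (P.cons (P.lf 7531790 0 0) (P.cons (P.lf 1318787 0 0) P.nil))) (P.cons (P.cons (P.lf 0 1828315 0) (P.cons (P.lf 0 2178371 0) P.nil)) (P.cons (P.cons (P.lf 0 2786382 0) P.nil) P.nil)))))) 8333742)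
 EL.nil))
noncomputable def S314_372_364_512_18 : EL := (EL.cons 4 (TM.mk (P.cons (P.lf 0 843650871 0) (P.cons (P.lf 0 630789950 0) (P.cons (P.lf 0 68683740 0) (P.cons (P.lf 32463552 0 0) (P.cons (P.lf 1740131 0 0) (P.cons (P.lf 0 1365121 0) P.nil)))))) 264319)
 (EL.cons 8 (TM.mk (P.cons (P.lf 566421357 0 0) (P.cons (P.lf 170987672 0 0) (P.cons (P.lf 0 69138754 0) (P.cons (P.lf 0 11876237 0) (P.cons (P.lf 4377599 0 0) (P.cons (P.lf 0 2637 0) P.nil)))))) 178385)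
 EL.nil))
noncomputable def S314_372_364_512_19 : EL := (EL.cons 4 (TM.mk (P.cons (P.cons (P.lf 0 30477060 0) (P.cons (P.lf 71659753 0 0) (P.cons (P.lf 4791003 0 0) (P.lf 0 1597000 0)))) (P.cons (P.cons (P.lf 0 132787828 0) (P.cons (P.lf 11317234 0 0) (P.cons (P.lf 756644 0 0) (P.lf 0 252214 0)))) (P.cons (P.cons (P.lf 0 129889087 0) (P.cons (P.lf 0 20946116 0) (P.cons (P.lf 0 1400408 0) (P.lf 466802 0 0)))) (P.cons (P.cons (P.lf 0 30793116 0) (P.cons (P.lf 0 881764 0) (P.cons (P.lf 0 58952 0) P.nil))) (P.cons (P.cons (P.lf 10019001 0 0) (P.cons (P.lf 2699689 0 0) P.nil)) (P.cons (P.cons (P.lf 3261900 0 0) P.nil) P.nil)))))) 3720129)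
 (EL.cons 8 (TM.mk (P.cons (P.cons (P.lf 20462088 0 0) (P.cons (P.lf 0 48111862 0) (P.cons (P.lf 0 3216646 0) (P.lf 1072215 0 0)))) (P.cons (P.cons (P.lf 80030479 0 0) (P.cons (P.lf 13850777 0 0) (P.cons (P.lf 926030 0 0) (P.lf 0 308676 0)))) (P.cons (P.cons (P.lf 50117951 0 0) (P.cons (P.lf 11202806 0 0) (P.cons (P.lf 748993 0 0) (P.lf 0 249664 0)))) (P.cons (P.cons (P.lf 0 7512405 0) (P.cons (P.lf 0 4581678 0) (P.cons (P.lf 0 306320 0) P.nil))) (P.cons (P.cons (P.lf 0 8182963 0) (P.cons (P.lf 0 615563 0) P.nil)) (P.cons (P.cons (P.lf 906694 0 0) P.nil) P.nil)))))) 2214773)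
 EL.nil))
noncomputable def S314_372_364_512_20 : EL := (EL.cons 4 (TM.mk (P.cons (P.cons (P.lf 0 1100989 0) (P.cons (P.lf 5177445 0 0) (P.cons (P.lf 0 5740631 0) (P.cons (P.lf 0 929280 0) (P.cons (P.lf 244090 0 0) (P.cons (P.lf 18137 0 0) P.nil)))))) (P.cons (P.cons (P.lf 0 8770774 0) (P.cons (P.lf 19504557 0 0) (P.cons (P.lf 3932487 0 0) (P.cons (P.lf 0 83210 0) (P.cons (P.lf 0 105405 0) P.nil))))) (P.cons (P.cons (P.lf 0 23637437 0) (P.cons (P.lf 9109911 0 0) (P.cons (P.lf 2545845 0 0) (P.cons (P.lf 55953 0 0) P.nil)))) (P.cons (P.cons (P.lf 0 24767852 0) (P.cons (P.lf 0 6141531 0) (P.cons (P.lf 0 1595165 0) P.nil))) (P.cons (P.cons (P.lf 0 8864097 0) (P.cons (P.lf 0 2796634 0) P.nil)) (P.cons (P.cons (P.lf 1625870 0 0) P.nil) P.nil)))))) 10962819)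
 (EL.cons 8 (TM.mk (P.cons (P.cons (P.lf 739196 0 0) (P.cons (P.lf 0 3476101 0) (P.cons (P.lf 3854220 0 0) (P.cons (P.lf 623912 0 0) (P.cons (P.lf 0 163880 0) (P.cons (P.lf 0 12177 0) P.nil)))))) (P.cons (P.cons (P.lf 5559090 0 0) (P.cons (P.lf 0 11545518 0) (P.cons (P.lf 0 4358522 0) (P.cons (P.lf 0 222283 0) (P.cons (P.lf 143829 0 0) P.nil))))) (P.cons (P.cons (P.lf 13340748 0 0) (P.cons (P.lf 0 729657 0) (P.cons (P.lf 0 31694 0) (P.cons (P.lf 18546 0 0) P.nil)))) (P.cons (P.cons (P.lf 10286533 0 0) (P.cons (P.lf 5300089 0 0) (P.cons (P.lf 1323310 0 0) P.nil))) (P.cons (P.cons (P.lf 354440 0 0) (P.cons (P.lf 0 238204 0) P.nil)) (P.cons (P.cons (P.lf 0 2190917 0) P.nil) P.nil)))))) 6831999)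
 EL.nil))
noncomputable def S314_372_364_512_21 : EL := (EL.cons 4 (TM.mk (P.cons (P.cons (P.lf 0 1586178522 0) (P.cons (P.lf 0 609408930 0) (P.cons (P.lf 0 40743657 0) (P.lf 13581216 0 0)))) (P.cons (P.cons (P.lf 0 1124018241 0) (P.cons (P.lf 207522234 0 0) (P.cons (P.lf 13874448 0 0) (P.lf 0 4624809 0)))) (P.cons (P.cons (P.lf 641555187 0 0) (P.cons (P.lf 69910146 0 0) (P.cons (P.lf 4674027 0 0) (P.lf 0 1558011 0)))) (P.cons (P.cons (P.lf 50380002 0 0) (P.cons (P.lf 0 37019277 0) (P.cons (P.lf 0 2475018 0) P.nil))) (P.cons (P.cons (P.lf 0 56769903 0) (P.cons (P.lf 1121412 0 0) P.nil)) (P.cons (P.cons (P.lf 4245318 0 0) P.nil) P.nil)))))) 8553399)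
 (EL.cons 8 (TM.mk (P.cons (P.cons (P.lf 0 840006543 0) (P.cons (P.lf 0 322730070 0) (P.cons (P.lf 0 21576987 0) (P.lf 7192329 0 0)))) (P.cons (P.cons (P.lf 0 969745545 0) (P.cons (P.lf 0 33979203 0) (P.cons (P.lf 0 2271765 0) (P.lf 757251 0 0)))) (P.cons (P.cons (P.lf 16506807 0 0) (P.cons (P.lf 63783630 0 0) (P.cons (P.lf 4264422 0 0) (P.lf 0 1421469 0)))) (P.cons (P.cons (P.lf 123608163 0 0) (P.cons (P.lf 0 726051 0) (P.cons (P.lf 0 48543 0) P.nil))) (P.cons (P.cons (P.lf 0 6957381 0) (P.cons (P.lf 0 4826892 0) P.nil)) (P.cons (P.cons (P.lf 0 6238416 0) P.nil) P.nil)))))) 5346429)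
 (EL.cons 11 (TM.mk (P.cons (P.cons (P.lf 1670316408 0 0) (P.cons (P.lf 258606924 0 0) (P.cons (P.lf 0 124588659 0) (P.cons (P.lf 0 4714800 0) (P.lf 1178700 0 0))))) (P.cons (P.cons (P.lf 0 656724534 0) (P.cons (P.lf 0 101677449 0) (P.cons (P.lf 48984987 0 0) (P.cons (P.lf 1853736 0 0) (P.lf 0 463434 0))))) (P.cons (P.cons (P.lf 10330179 0 0) (P.cons (P.lf 1599369 0 0) (P.cons (P.lf 0 770526 0) (P.cons (P.lf 0 29157 0) P.nil)))) (P.cons (P.cons (P.lf 24424860 0 0) (P.cons (P.lf 3781581 0 0) (P.cons (P.lf 0 1821846 0) P.nil))) (P.cons (P.cons (P.lf 0 2663805 0) (P.cons (P.lf 0 412422 0) P.nil)) (P.cons (P.cons (P.lf 0 304752 0) P.nil) P.nil)))))) 496941)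
 EL.nil)))
noncomputable def S314_372_364_512_22 : EL := (EL.cons 4 (TM.mk (P.cons (P.cons (P.lf 0 57301026 0) (P.cons (P.lf 112715070 0 0) (P.cons (P.lf 59299095 0 0) (P.cons (P.lf 4409580 0 0) (P.cons (P.lf 0 2075799 0) (P.cons (P.lf 0 154251 0) P.nil)))))) (P.cons (P.cons (P.lf 0 247421142 0) (P.cons (P.lf 0 55946043 0) (P.cons (P.lf 0 51895284 0) (P.cons (P.lf 0 5192235 0) (P.cons (P.lf 1931094 0 0) P.nil))))) (P.cons (P.cons (P.lf 0 208290054 0) (P.cons (P.lf 0 104779320 0) (P.cons (P.lf 933099 0 0) (P.cons (P.lf 3396585 0 0) P.nil)))) (P.cons (P.cons (P.lf 45523518 0 0) (P.cons (P.lf 64157349 0 0) (P.cons (P.lf 10988202 0 0) P.nil))) (P.cons (P.cons (P.lf 55744704 0 0) (P.cons (P.lf 2404818 0 0) P.nil)) (P.cons (P.cons (P.lf 0 11946003 0) P.nil) P.nil)))))) 35446422)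
 (EL.cons 8 (TM.mk (P.cons (P.cons (P.lf 0 30345408 0) (P.cons (P.lf 59691513 0 0) (P.cons (P.lf 31403544 0 0) (P.cons (P.lf 2335221 0 0) (P.cons (P.lf 0 1099299 0) (P.cons (P.lf 0 81687 0) P.nil)))))) (P.cons (P.cons (P.lf 0 144557499 0) (P.cons (P.lf 0 3016341 0) (P.cons (P.lf 0 13482405 0) (P.cons (P.lf 0 1708617 0) (P.cons (P.lf 532581 0 0) P.nil))))) (P.cons (P.cons (P.lf 0 170811600 0) (P.cons (P.lf 0 64585092 0) (P.cons (P.lf 0 9594549 0) (P.cons (P.lf 733779 0 0) P.nil)))) (P.cons (P.cons (P.lf 0 34583967 0) (P.cons (P.lf 8158746 0 0) (P.cons (P.lf 4651845 0 0) P.nil))) (P.cons (P.cons (P.lf 30464919 0 0) (P.cons (P.lf 12305928 0 0) P.nil)) (P.cons (P.cons (P.lf 6292506 0 0) P.nil) P.nil)))))) 17452590)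
 (EL.cons 11 (TM.mk (P.cons (P.cons (P.lf 60340524 0 0) (P.cons (P.lf 0 132534540 0) (P.cons (P.lf 0 35952426 0) (P.cons (P.lf 12105492 0 0) (P.cons (P.lf 1640115 0 0) (P.cons (P.lf 0 309183 0) P.nil)))))) (P.cons (P.cons (P.lf 194061858 0 0) (P.cons (P.lf 169501197 0 0) (P.cons (P.lf 16439847 0 0) (P.cons (P.lf 0 12614097 0) (P.cons (P.lf 0 1433325 0) P.nil))))) (P.cons (P.cons (P.lf 4159302 0 0) (P.cons (P.lf 0 42672342 0) (P.cons (P.lf 0 9912720 0) (P.cons (P.lf 3736179 0 0) P.nil)))) (P.cons (P.cons (P.lf 0 54222255 0) (P.cons (P.lf 0 9593154 0) (P.cons (P.lf 3778812 0 0) P.nil))) (P.cons (P.cons (P.lf 9326766 0 0) (P.cons (P.lf 5063640 0 0) P.nil)) (P.cons (P.cons (P.lf 2951733 0 0) P.nil) P.nil)))))) 8997582)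
 EL.nil)))
noncomputable def S314_372_364_512_23 : EL := (EL.cons 4 (TM.mk (P.cons (P.cons (P.lf 0 942097689 0) (P.cons (P.lf 0 361953420 0) (P.cons (P.lf 0 24199359 0) (P.lf 8066451 0 0)))) (P.cons (P.cons (P.lf 0 902400633 0) (P.cons (P.lf 33046380 0 0) (P.cons (P.lf 2209401 0 0) (P.lf 0 736461 0)))) (P.cons (P.cons (P.lf 247612857 0 0) (P.cons (P.lf 84902193 0 0) (P.cons (P.lf 5676360 0 0) (P.lf 0 1892118 0)))) (P.cons (P.cons (P.lf 148762368 0 0) (P.cons (P.lf 0 15750195 0) (P.cons (P.lf 0 1053018 0) P.nil))) (P.cons (P.cons (P.lf 0 39725961 0) (P.cons (P.lf 0 6528492 0) P.nil)) (P.cons (P.cons (P.lf 0 7462017 0) P.nil) P.nil)))))) 10803345)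
 (EL.cons 8 (TM.mk (P.cons (P.cons (P.lf 0 498914976 0) (P.cons (P.lf 0 191682870 0) (P.cons (P.lf 0 12815472 0) (P.lf 4271823 0 0)))) (P.cons (P.cons (P.lf 0 700317096 0) (P.cons (P.lf 0 67954836 0) (P.cons (P.lf 0 4543299 0) (P.lf 1514430 0 0)))) (P.cons (P.cons (P.lf 0 116294505 0) (P.cons (P.lf 39558603 0 0) (P.cons (P.lf 2644794 0 0) (P.lf 0 881595 0)))) (P.cons (P.cons (P.lf 96281274 0 0) (P.cons (P.lf 9822222 0 0) (P.cons (P.lf 656688 0 0) P.nil))) (P.cons (P.cons (P.lf 13872306 0 0) (P.cons (P.lf 0 4391214 0) P.nil)) (P.cons (P.cons (P.lf 0 7598976 0) P.nil) P.nil)))))) 6679203)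
 (EL.cons 11 (TM.mk (P.cons (P.cons (P.lf 992070693 0 0) (P.cons (P.lf 153597453 0 0) (P.cons (P.lf 0 73998408 0) (P.cons (P.lf 0 2800314 0) (P.lf 700077 0 0))))) (P.cons (P.cons (P.lf 0 142802109 0) (P.cons (P.lf 0 22109352 0) (P.cons (P.lf 10651587 0 0) (P.cons (P.lf 403086 0 0) (P.lf 0 100770 0))))) (P.cons (P.cons (P.lf 0 125779119 0) (P.cons (P.lf 0 19473765 0) (P.cons (P.lf 9381846 0 0) (P.cons (P.lf 355035 0 0) P.nil)))) (P.cons (P.cons (P.lf 29132214 0 0) (P.cons (P.lf 4510395 0 0) (P.cons (P.lf 0 2172966 0) P.nil))) (P.cons (P.cons (P.lf 2566461 0 0) (P.cons (P.lf 397353 0 0) P.nil)) (P.cons (P.cons (P.lf 0 1332582 0) P.nil) P.nil)))))) 1286304)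
 EL.nil)))
noncomputable def S314_372_364_512_24 : EL := (EL.cons 4 (TM.mk (P.cons (P.cons (P.lf 0 34033473 0) (P.cons (P.lf 66946188 0 0) (P.cons (P.lf 35220210 0 0) (P.cons (P.lf 2619033 0 0) (P.cons (P.lf 0 1232904 0) (P.cons (P.lf 0 91617 0) P.nil)))))) (P.cons (P.cons (P.lf 0 155435922 0) (P.cons (P.lf 0 16543677 0) (P.cons (P.lf 0 22044834 0) (P.cons (P.lf 0 2431143 0) (P.cons (P.lf 839679 0 0) P.nil))))) (P.cons (P.cons (P.lf 0 159147054 0) (P.cons (P.lf 0 72856068 0) (P.cons (P.lf 0 8359701 0) (P.cons (P.lf 1157166 0 0) P.nil)))) (P.cons (P.cons (P.lf 1364463 0 0) (P.cons (P.lf 23720772 0 0) (P.cons (P.lf 7723170 0 0) P.nil))) (P.cons (P.cons (P.lf 44237919 0 0) (P.cons (P.lf 13156479 0 0) P.nil)) (P.cons (P.cons (P.lf 201465 0 0) P.nil) P.nil)))))) 28544244)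
 (EL.cons 8 (TM.mk (P.cons (P.cons (P.lf 0 18023406 0) (P.cons (P.lf 35453283 0 0) (P.cons (P.lf 18651876 0 0) (P.cons (P.lf 1386984 0 0) (P.cons (P.lf 0 652920 0) (P.cons (P.lf 0 48516 0) P.nil)))))) (P.cons (P.cons (P.lf 0 90350715 0) (P.cons (P.lf 7044498 0 0) (P.cons (P.lf 0 3359151 0) (P.cons (P.lf 0 669138 0) (P.cons (P.lf 153594 0 0) P.nil))))) (P.cons (P.cons (P.lf 0 122220312 0) (P.cons (P.lf 0 40046379 0) (P.cons (P.lf 0 8346789 0) (P.cons (P.lf 134385 0 0) P.nil)))) (P.cons (P.cons (P.lf 0 42812679 0) (P.cons (P.lf 0 4671492 0) (P.cons (P.lf 1612467 0 0) P.nil))) (P.cons (P.cons (P.lf 16561296 0 0) (P.cons (P.lf 9878502 0 0) P.nil)) (P.cons (P.cons (P.lf 8976102 0 0) P.nil) P.nil)))))) 12397869)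
 (EL.cons 11 (TM.mk (P.cons (P.cons (P.lf 35838756 0 0) (P.cons (P.lf 0 78717801 0) (P.cons (P.lf 0 21353646 0) (P.cons (P.lf 7189956 0 0) (P.cons (P.lf 974133 0 0) (P.cons (P.lf 0 183636 0) P.nil)))))) (P.cons (P.cons (P.lf 124193547 0 0) (P.cons (P.lf 81054984 0 0) (P.cons (P.lf 4442334 0 0) (P.cons (P.lf 0 5700084 0) (P.cons (P.lf 0 608529 0) P.nil))))) (P.cons (P.cons (P.lf 29943444 0 0) (P.cons (P.lf 2499486 0 0) (P.cons (P.lf 0 2707104 0) (P.cons (P.lf 100338 0 0) P.nil)))) (P.cons (P.cons (P.lf 0 35640582 0) (P.cons (P.lf 0 15492447 0) (P.cons (P.lf 447273 0 0) P.nil))) (P.cons (P.cons (P.lf 0 2617638 0) (P.cons (P.lf 2376174 0 0) P.nil)) (P.cons (P.cons (P.lf 4319409 0 0) P.nil) P.nil)))))) 8061960)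
 EL.nil)))
noncomputable def S314_372_364_512_25 : EL := (EL.cons 4 (TM.mk (P.cons (P.cons (P.lf 0 559551174 0) (P.cons (P.lf 0 214979259 0) (P.cons (P.lf 0 14373009 0) (P.lf 4791000 0 0)))) (P.cons (P.cons (P.lf 0 675430512 0) (P.cons (P.lf 0 33951705 0) (P.cons (P.lf 0 2269932 0) (P.lf 756645 0 0)))) (P.cons (P.cons (P.lf 33058926 0 0) (P.cons (P.lf 62838348 0 0) (P.cons (P.lf 4201221 0 0) (P.lf 0 1400406 0)))) (P.cons (P.cons (P.lf 144065997 0 0) (P.cons (P.lf 2645295 0 0) (P.cons (P.lf 176859 0 0) P.nil))) (P.cons (P.cons (P.lf 0 6722631 0) (P.cons (P.lf 0 8099070 0) P.nil)) (P.cons (P.cons (P.lf 0 13750977 0) P.nil) P.nil)))))) 9468777)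
 (EL.cons 8 (TM.mk (P.cons (P.cons (P.lf 0 296326449 0) (P.cons (P.lf 0 113848464 0) (P.cons (P.lf 0 7611645 0) (P.lf 2537214 0 0)))) (P.cons (P.cons (P.lf 0 489801093 0) (P.cons (P.lf 0 68735697 0) (P.cons (P.lf 0 4595505 0) (P.lf 1531833 0 0)))) (P.cons (P.cons (P.lf 0 162373914 0) (P.cons (P.lf 17418486 0 0) (P.cons (P.lf 1164558 0 0) (P.lf 0 388185 0)))) (P.cons (P.cons (P.lf 54683193 0 0) (P.cons (P.lf 13164195 0 0) (P.cons (P.lf 880125 0 0) P.nil))) (P.cons (P.cons (P.lf 24978165 0 0) (P.cons (P.lf 0 2014824 0) P.nil)) (P.cons (P.cons (P.lf 0 4634145 0) P.nil) P.nil)))))) 7021758)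
 (EL.cons 11 (TM.mk (P.cons (P.cons (P.lf 589232229 0 0) (P.cons (P.lf 91227945 0 0) (P.cons (P.lf 0 43950744 0) (P.cons (P.lf 0 1663224 0) (P.lf 415806 0 0))))) (P.cons (P.cons (P.lf 62038356 0 0) (P.cons (P.lf 9605094 0 0) (P.cons (P.lf 0 4627431 0) (P.cons (P.lf 0 175113 0) (P.lf 43776 0 0))))) (P.cons (P.cons (P.lf 0 116454510 0) (P.cons (P.lf 0 18030081 0) (P.cons (P.lf 8686323 0 0) (P.cons (P.lf 328716 0 0) P.nil)))) (P.cons (P.cons (P.lf 1325595 0 0) (P.cons (P.lf 205233 0 0) (P.cons (P.lf 0 98874 0) P.nil))) (P.cons (P.cons (P.lf 8812815 0 0) (P.cons (P.lf 1364445 0 0) P.nil)) (P.cons (P.cons (P.lf 0 1043133 0) P.nil) P.nil)))))) 1873311)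
 EL.nil)))
noncomputable def S314_372_364_512_26 : EL := (EL.cons 4 (TM.mk (P.cons (P.cons (P.lf 0 20213901 0) (P.cons (P.lf 39762138 0 0) (P.cons (P.lf 20918754 0 0) (P.cons (P.lf 1555554 0 0) (P.cons (P.lf 0 732273 0) (P.cons (P.lf 0 54414 0) P.nil)))))) (P.cons (P.cons (P.lf 0 97357803 0) (P.cons (P.lf 83946 0 0) (P.cons (P.lf 0 7879761 0) (P.cons (P.lf 0 1056264 0) (P.cons (P.lf 316215 0 0) P.nil))))) (P.cons (P.cons (P.lf 0 116825946 0) (P.cons (P.lf 0 47112003 0) (P.cons (P.lf 0 8960133 0) (P.cons (P.lf 273000 0 0) P.nil)))) (P.cons (P.cons (P.lf 0 19507509 0) (P.cons (P.lf 3625758 0 0) (P.cons (P.lf 3796080 0 0) P.nil))) (P.cons (P.cons (P.lf 29823096 0 0) (P.cons (P.lf 12865875 0 0) P.nil)) (P.cons (P.cons (P.lf 6643134 0 0) P.nil) P.nil)))))) 23625345)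
 (EL.cons 8 (TM.mk (P.cons (P.cons (P.lf 0 10704852 0) (P.cons (P.lf 21057186 0 0) (P.cons (P.lf 11078127 0 0) (P.cons (P.lf 823788 0 0) (P.cons (P.lf 0 387795 0) (P.cons (P.lf 0 28815 0) P.nil)))))) (P.cons (P.cons (P.lf 0 56331036 0) (P.cons (P.lf 9432108 0 0) (P.cons (P.lf 765861 0 0) (P.cons (P.lf 0 192117 0) (P.cons (P.lf 0 5421 0) P.nil))))) (P.cons (P.cons (P.lf 0 85591770 0) (P.cons (P.lf 0 23478975 0) (P.cons (P.lf 0 5842248 0) (P.cons (P.lf 0 48048 0) P.nil)))) (P.cons (P.cons (P.lf 0 41637354 0) (P.cons (P.lf 0 8860557 0) (P.cons (P.lf 0 214173 0) P.nil))) (P.cons (P.cons (P.lf 6061950 0 0) (P.cons (P.lf 6016698 0 0) P.nil)) (P.cons (P.cons (P.lf 8683905 0 0) P.nil) P.nil)))))) 11039682)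
 (EL.cons 11 (TM.mk (P.cons (P.cons (P.lf 21286134 0 0) (P.cons (P.lf 0 46753788 0) (P.cons (P.lf 0 12682821 0) (P.cons (P.lf 4270413 0 0) (P.cons (P.lf 578577 0 0) (P.cons (P.lf 0 109068 0) P.nil)))))) (P.cons (P.cons (P.lf 79068885 0 0) (P.cons (P.lf 36489480 0 0) (P.cons (P.lf 0 522453 0) (P.cons (P.lf 0 2321199 0) (P.cons (P.lf 0 217230 0) P.nil))))) (P.cons (P.cons (P.lf 35424267 0 0) (P.cons (P.lf 15118341 0 0) (P.cons (P.lf 0 506646 0) (P.cons (P.lf 0 933549 0) P.nil)))) (P.cons (P.cons (P.lf 0 19327821 0) (P.cons (P.lf 0 10489740 0) (P.cons (P.lf 0 220362 0) P.nil))) (P.cons (P.cons (P.lf 0 7481886 0) (P.cons (P.lf 0 985590 0) P.nil)) (P.cons (P.cons (P.lf 2947407 0 0) P.nil) P.nil)))))) 7572096)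
 EL.nil)))
noncomputable def S314_372_364_512_27 : EL := (EL.cons 13 (TM.mk (P.lf 0 4294967296 0) 0)
 EL.nil)
noncomputable def S314_372_364_512_28 : EL := (EL.cons 13 (TM.mk (P.cons (P.cons (P.lf 0 155156579 0) (P.cons (P.lf 364814768 0 0) (P.cons (P.lf 24390664 0 0) (P.lf 0 8130220 0)))) (P.cons (P.cons (P.lf 0 560004364 0) (P.cons (P.lf 0 215153376 0) (P.cons (P.lf 0 14384652 0) (P.lf 4794880 0 0)))) (P.cons (P.cons (P.lf 0 229914449 0) (P.cons (P.lf 24532492 0 0) (P.cons (P.lf 1640184 0 0) (P.lf 0 546724 0)))) (P.cons (P.cons (P.lf 54760276 0 0) (P.cons (P.lf 8722472 0 0) (P.cons (P.lf 583164 0 0) P.nil))) (P.cons (P.cons (P.lf 6911288 0 0) (P.cons (P.lf 0 2301624 0) P.nil)) (P.cons (P.cons (P.lf 0 2770659 0) P.nil) P.nil)))))) 1477378)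
 EL.nil)
noncomputable def S314_372_364_512_29 : EL := (EL.cons 13 (TM.mk (P.cons (P.cons (P.lf 0 5605063 0) (P.cons (P.lf 26358017 0 0) (P.cons (P.lf 0 29225151 0) (P.cons (P.lf 0 4730900 0) (P.cons (P.lf 1242650 0 0) (P.cons (P.lf 92341 0 0) P.nil)))))) (P.cons (P.cons (P.lf 0 40460546 0) (P.cons (P.lf 79588685 0 0) (P.cons (P.lf 41871393 0 0) (P.cons (P.lf 3113628 0 0) (P.cons (P.lf 0 1465732 0) P.nil))))) (P.cons (P.cons (P.lf 0 89628241 0) (P.cons (P.lf 0 15275676 0) (P.cons (P.lf 0 15966836 0) (P.cons (P.lf 0 1658016 0) P.nil)))) (P.cons (P.cons (P.lf 0 55998879 0) (P.cons (P.lf 0 25309890 0) (P.cons (P.lf 0 716059 0) P.nil))) (P.cons (P.cons (P.lf 2471729 0 0) (P.cons (P.lf 9047055 0 0) P.nil)) (P.cons (P.cons (P.lf 7464850 0 0) P.nil) P.nil)))))) 13946827)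
 EL.nil)
noncomputable def S314_372_364_512_30 : EL := (EL.cons 13 (TM.mk (P.cons (P.lf 0 2550960508 0) (P.cons (P.lf 0 635776524 0) (P.cons (P.lf 89228036 0 0) (P.cons (P.lf 1407440 0 0) (P.cons (P.lf 0 1369092 0) (P.cons (P.lf 95416 0 0) P.nil)))))) 28012)
 EL.nil)
noncomputable def S314_372_364_512_31 : EL := (EL.cons 13 (TM.mk (P.cons (P.cons (P.lf 0 92153974 0) (P.cons (P.lf 216678731 0 0) (P.cons (P.lf 14486634 0 0) (P.lf 0 4828877 0)))) (P.cons (P.cons (P.lf 0 355577545 0) (P.cons (P.lf 0 73785684 0) (P.cons (P.lf 0 4933138 0) (P.lf 1644377 0 0)))) (P.cons (P.cons (P.lf 0 216228885 0) (P.cons (P.lf 0 24856941 0) (P.cons (P.lf 0 1661877 0) (P.lf 553960 0 0)))) (P.cons (P.cons (P.lf 10175526 0 0) (P.cons (P.lf 13162410 0 0) (P.cons (P.lf 880007 0 0) P.nil))) (P.cons (P.cons (P.lf 17121500 0 0) (P.cons (P.lf 0 398725 0) P.nil)) (P.cons (P.cons (P.lf 0 1859911 0) P.nil)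 P.nil)))))) 2911863)
 EL.nil)
noncomputable def S314_372_364_512_32 : EL := (EL.cons 13 (TM.mk (P.cons (P.cons (P.lf 0 3329081 0) (P.cons (P.lf 15655127 0 0) (P.cons (P.lf 0 17358038 0) (P.cons (P.lf 0 2809879 0) (P.cons (P.lf 738061 0 0) (P.cons (P.lf 54845 0 0) P.nil)))))) (P.cons (P.cons (P.lf 0 24860916 0) (P.cons (P.lf 51172776 0 0) (P.cons (P.lf 20543021 0 0) (P.cons (P.lf 1149006 0 0) (P.cons (P.lf 0 686612 0) P.nil))))) (P.cons (P.cons (P.lf 0 59106815 0) (P.cons (P.lf 2160923 0 0) (P.cons (P.lf 0 2678068 0) (P.cons (P.lf 0 425575 0) P.nil)))) (P.cons (P.cons (P.lf 0 45685180 0) (P.cons (P.lf 0 18955926 0) (P.cons (P.lf 0 3649142 0) P.nil))) (P.cons (P.cons (P.lf 0 4947852 0) (P.cons (P.lf 1926518 0 0) P.nil)) (P.cons (P.cons (P.lf 5979547 0 0) P.nil) P.nil)))))) 15294503)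
 EL.nil)
noncomputable def S314_372_364_512_33 : EL := (EL.cons 14 (TM.mk (P.lf 8589934592 0 0) 0)
 EL.nil)
noncomputable def S314_372_364_512_34 : EL := (EL.cons 14 (TM.mk (P.cons (P.cons (P.lf 310313158 0 0) (P.cons (P.lf 0 729629536 0) (P.cons (P.lf 0 48781328 0) (P.lf 16260440 0 0)))) (P.cons (P.cons (P.lf 1120008728 0 0) (P.cons (P.lf 430306752 0 0) (P.cons (P.lf 28769304 0 0) (P.lf 0 9589760 0)))) (P.cons (P.cons (P.lf 459828898 0 0) (P.cons (P.lf 0 49064984 0) (P.cons (P.lf 0 3280368 0) (P.lf 1093448 0 0)))) (P.cons (P.cons (P.lf 0 109520552 0) (P.cons (P.lf 0 17444944 0) (P.cons (P.lf 0 1166328 0) P.nil))) (P.cons (P.cons (P.lf 0 13822576 0) (P.cons (P.lf 4603248 0 0) P.nil)) (P.cons (P.cons (P.lf 5541318 0 0) P.nil) P.nil)))))) 2954756)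
 EL.nil)
noncomputable def S314_372_364_512_35 : EL := (EL.cons 14 (TM.mk (P.cons (P.cons (P.lf 11210126 0 0) (P.cons (P.lf 0 52716034 0) (P.cons (P.lf 58450302 0 0) (P.cons (P.lf 9461800 0 0) (P.cons (P.lf 0 2485300 0) (P.cons (P.lf 0 184682 0) P.nil)))))) (P.cons (P.cons (P.lf 80921092 0 0) (P.cons (P.lf 0 159177370 0) (P.cons (P.lf 0 83742786 0) (P.cons (P.lf 0 6227256 0) (P.cons (P.lf 2931464 0 0) P.nil))))) (P.cons (P.cons (P.lf 179256482 0 0) (P.cons (P.lf 30551352 0 0) (P.cons (P.lf 31933672 0 0) (P.cons (P.lf 3316032 0 0) P.nil)))) (P.cons (P.cons (P.lf 111997758 0 0) (P.cons (P.lf 50619780 0 0) (P.cons (P.lf 1432118 0 0) P.nil))) (P.cons (P.cons (P.lf 0 4943458 0) (P.cons (P.lf 0 18094110 0) P.nil)) (P.cons (P.cons (P.lf 0 14929700 0) P.nil) P.nil)))))) 27893654)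
 EL.nil)
noncomputable def S314_372_364_512_36 : EL := (EL.cons 14 (TM.mk (P.cons (P.lf 5101921016 0 0) (P.cons (P.lf 1271553048 0 0) (P.cons (P.lf 0 178456072 0) (P.cons (P.lf 0 2814880 0) (P.cons (P.lf 2738184 0 0) (P.cons (P.lf 0 190832 0) P.nil)))))) 56024)
 EL.nil)
noncomputable def S314_372_364_512_37 : EL := (EL.cons 14 (TM.mk (P.cons (P.cons (P.lf 184307948 0 0) (P.cons (P.lf 0 433357462 0) (P.cons (P.lf 0 28973268 0) (P.lf 9657754 0 0)))) (P.cons (P.cons (P.lf 711155090 0 0) (P.cons (P.lf 147571368 0 0) (P.cons (P.lf 9866276 0 0) (P.lf 0 3288754 0)))) (P.cons (P.cons (P.lf 432457770 0 0) (P.cons (P.lf 49713882 0 0) (P.cons (P.lf 3323754 0 0) (P.lf 0 1107920 0)))) (P.cons (P.cons (P.lf 0 20351052 0) (P.cons (P.lf 0 26324820 0) (P.cons (P.lf 0 1760014 0) P.nil))) (P.cons (P.cons (P.lf 0 34243000 0) (P.cons (P.lf 797450 0 0) P.nil)) (P.cons (P.cons (P.lf 3719822 0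 0) P.nil) P.nil)))))) 5823726)
 EL.nil)
noncomputable def S314_372_364_512_38 : EL := (EL.cons 14 (TM.mk (P.cons (P.cons (P.lf 6658162 0 0) (P.cons (P.lf 0 31310254 0) (P.cons (P.lf 34716076 0 0) (P.cons (P.lf 5619758 0 0) (P.cons (P.lf 0 1476122 0) (P.cons (P.lf 0 109690 0) P.nil)))))) (P.cons (P.cons (P.lf 49721832 0 0) (P.cons (P.lf 0 102345552 0) (P.cons (P.lf 0 41086042 0) (P.cons (P.lf 0 2298012 0) (P.cons (P.lf 1373224 0 0) P.nil))))) (P.cons (P.cons (P.lf 118213630 0 0) (P.cons (P.lf 0 4321846 0) (P.cons (P.lf 5356136 0 0) (P.cons (P.lf 851150 0 0) P.nil)))) (P.cons (P.cons (P.lf 91370360 0 0) (P.cons (P.lf 37911852 0 0) (P.cons (P.lf 7298284 0 0) P.nil))) (P.cons (P.cons (P.lf 9895704 0 0) (P.cons (P.lf 0 3853036 0) P.nil)) (P.cons (P.cons (P.lf 0 11959094 0) P.nil) P.nil)))))) 30589006)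
 EL.nil)
noncomputable def S314_372_364_512_39 : EL := (EL.cons 14 (TM.mk (P.cons (P.lf 3030244034 0 0) (P.cons (P.lf 1510456952 0 0) (P.cons (P.lf 0 23759250 0) (P.cons (P.lf 0 56176832 0) (P.cons (P.lf 6126708 0 0) (P.cons (P.lf 700928 0 0) P.nil)))))) 267590)
 EL.nil)
noncomputable def S314_372_364_512_40 : EL := (EL.cons 14 (TM.mk (P.cons (P.cons (P.lf 109468190 0 0) (P.cons (P.lf 0 257389100 0) (P.cons (P.lf 0 17208434 0) (P.lf 5736142 0 0)))) (P.cons (P.cons (P.lf 449667502 0 0) (P.cons (P.lf 23499650 0 0) (P.cons (P.lf 1571130 0 0) (P.lf 0 523708 0)))) (P.cons (P.cons (P.lf 358296782 0 0) (P.cons (P.lf 60374894 0 0) (P.cons (P.lf 4036524 0 0) (P.lf 0 1345508 0)))) (P.cons (P.cons (P.lf 37093970 0 0) (P.cons (P.lf 0 11200140 0) (P.cons (P.lf 0 748814 0) P.nil))) (P.cons (P.cons (P.lf 0 32509488 0) (P.cons (P.lf 0 4642482 0) P.nil)) (P.cons (P.cons (P.lf 0 2355894 0)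 P.nil) P.nil)))))) 6839484)
 EL.nil)
noncomputable def S314_372_364_512_41 : EL := (EL.cons 14 (TM.mk (P.cons (P.cons (P.lf 3954560 0 0) (P.cons (P.lf 0 18596468 0) (P.cons (P.lf 20619328 0 0) (P.cons (P.lf 3337808 0 0) (P.cons (P.lf 0 876730 0) (P.cons (P.lf 0 65148 0) P.nil)))))) (P.cons (P.cons (P.lf 30517468 0 0) (P.cons (P.lf 0 65422100 0) (P.cons (P.lf 0 19263756 0) (P.cons (P.lf 0 533002 0) (P.cons (P.lf 597106 0 0) P.nil))))) (P.cons (P.cons (P.lf 77433926 0 0) (P.cons (P.lf 0 17066488 0) (P.cons (P.lf 0 3621888 0) (P.cons (P.lf 48612 0 0) P.nil)))) (P.cons (P.cons (P.lf 70732478 0 0) (P.cons (P.lf 24014168 0 0) (P.cons (P.lf 5969802 0 0) P.nil))) (P.cons (P.cons (P.lf 16932806 0 0) (P.cons (P.lf 3436888 0 0) P.nil)) (P.cons (P.cons (P.lf 0 7559418 0) P.nil) P.nil)))))) 25686024)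
 EL.nil)
noncomputable def S314_372_364_512_42 : EL := (EL.cons 14 (TM.mk (P.cons (P.lf 1799788526 0 0) (P.cons (P.lf 1345685228 0 0) (P.cons (P.lf 146525314 0 0) (P.cons (P.lf 0 69255578 0) (P.cons (P.lf 0 3712280 0) (P.cons (P.lf 2912260 0 0) P.nil)))))) 563866)
 EL.nil)
noncomputable def S314_372_364_512_43 : EL := (EL.cons 14 (TM.mk (P.cons (P.cons (P.lf 65017730 0 0) (P.cons (P.lf 0 152874140 0) (P.cons (P.lf 0 10220808 0) (P.lf 3406934 0 0)))) (P.cons (P.cons (P.lf 283280700 0 0) (P.cons (P.lf 0 24143434 0) (P.cons (P.lf 0 1614174 0) (P.lf 538058 0 0)))) (P.cons (P.cons (P.lf 277096720 0 0) (P.cons (P.lf 44685048 0 0) (P.cons (P.lf 2987538 0 0) (P.lf 0 995846 0)))) (P.cons (P.cons (P.lf 65691982 0 0) (P.cons (P.lf 1881098 0 0) (P.cons (P.lf 125766 0 0) P.nil))) (P.cons (P.cons (P.lf 0 21373870 0) (P.cons (P.lf 0 5759338 0) P.nil)) (P.cons (P.cons (P.lf 0 6958720 0)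 P.nil) P.nil)))))) 7936236)
 EL.nil)
noncomputable def S314_372_364_512_44 : EL := (EL.cons 14 (TM.mk (P.cons (P.cons (P.lf 2348778 0 0) (P.cons (P.lf 0 11045218 0) (P.cons (P.lf 12246680 0 0) (P.cons (P.lf 1982464 0 0) (P.cons (P.lf 0 520726 0) (P.cons (P.lf 0 38694 0) P.nil)))))) (P.cons (P.cons (P.lf 18710986 0 0) (P.cons (P.lf 0 41609722 0) (P.cons (P.lf 0 8389306 0) (P.cons (P.lf 177516 0 0) (P.cons (P.lf 224864 0 0) P.nil))))) (P.cons (P.cons (P.lf 50426534 0 0) (P.cons (P.lf 0 19434478 0) (P.cons (P.lf 0 5431138 0) (P.cons (P.lf 0 119368 0) P.nil)))) (P.cons (P.cons (P.lf 52838086 0 0) (P.cons (P.lf 13101934 0 0) (P.cons (P.lf 3403020 0 0) P.nil))) (P.cons (P.cons (P.lf 18910074 0 0) (P.cons (P.lf 5966154 0 0) P.nil)) (P.cons (P.cons (P.lf 0 3468524 0) P.nil) P.nil)))))) 23387302)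
 EL.nil)
noncomputable def S314_372_364_512_45 : EL := (EL.cons 14 (TM.mk (P.cons (P.cons (P.lf 404968 0 0) (P.cons (P.lf 0 2856566 0) (P.cons (P.lf 6525570 0 0) (P.cons (P.lf 0 4302372 0) (P.cons (P.lf 0 1325190 0) (P.cons (P.lf 261340 0 0) P.nil)))))) (P.cons (P.cons (P.lf 4384936 0 0) (P.cons (P.lf 0 18935636 0) (P.cons (P.lf 15053650 0 0) (P.cons (P.lf 11917932 0 0) (P.cons (P.lf 1213638 0 0) P.nil))))) (P.cons (P.cons (P.lf 17626758 0 0) (P.cons (P.lf 0 33709204 0) (P.cons (P.lf 0 17655422 0) (P.cons (P.lf 0 7863070 0) P.nil)))) (P.cons (P.cons (P.lf 31607378 0 0) (P.cons (P.lf 0 3055046 0) (P.cons (P.lf 0 2833650 0) P.nil))) (P.cons (P.cons (P.lf 22970404 0 0) (P.cons (P.lf 14544350 0 0) P.nil)) (P.cons (P.cons (P.lf 2402988 0 0) P.nil) P.nil)))))) 49119160)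
 EL.nil)
noncomputable def S314_372_364_512_46 : EL := (EL.cons 15 (TM.mk (P.lf 4294967296 0 0) 0)
 EL.nil)
noncomputable def S314_372_364_512_47 : EL := (EL.cons 15 (TM.mk (P.cons (P.cons (P.lf 155156579 0 0) (P.cons (P.lf 0 364814768 0) (P.cons (P.lf 0 24390664 0) (P.lf 8130220 0 0)))) (P.cons (P.cons (P.lf 560004364 0 0) (P.cons (P.lf 215153376 0 0) (P.cons (P.lf 14384652 0 0) (P.lf 0 4794880 0)))) (P.cons (P.cons (P.lf 229914449 0 0) (P.cons (P.lf 0 24532492 0) (P.cons (P.lf 0 1640184 0) (P.lf 546724 0 0)))) (P.cons (P.cons (P.lf 0 54760276 0) (P.cons (P.lf 0 8722472 0) (P.cons (P.lf 0 583164 0) P.nil))) (P.cons (P.cons (P.lf 0 6911288 0) (P.cons (P.lf 2301624 0 0) P.nil)) (P.cons (P.cons (P.lf 2770659 0 0) P.nil) P.nil)))))) 1477378)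
 EL.nil)
noncomputable def S314_372_364_512_48 : EL := (EL.cons 15 (TM.mk (P.cons (P.cons (P.lf 5605063 0 0) (P.cons (P.lf 0 26358017 0) (P.cons (P.lf 29225151 0 0) (P.cons (P.lf 4730900 0 0) (P.cons (P.lf 0 1242650 0) (P.cons (P.lf 0 92341 0) P.nil)))))) (P.cons (P.cons (P.lf 40460546 0 0) (P.cons (P.lf 0 79588685 0) (P.cons (P.lf 0 41871393 0) (P.cons (P.lf 0 3113628 0) (P.cons (P.lf 1465732 0 0) P.nil))))) (P.cons (P.cons (P.lf 89628241 0 0) (P.cons (P.lf 15275676 0 0) (P.cons (P.lf 15966836 0 0) (P.cons (P.lf 1658016 0 0) P.nil)))) (P.cons (P.cons (P.lf 55998879 0 0) (P.cons (P.lf 25309890 0 0) (P.cons (P.lf 716059 0 0) P.nil))) (P.cons (P.cons (P.lf 0 2471729 0) (P.cons (P.lf 0 9047055 0) P.nil)) (P.cons (P.cons (P.lf 0 7464850 0) P.nil) P.nil)))))) 13946827)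
 EL.nil)
noncomputable def S314_372_364_512 : SL := (SL.cons S314_372_364_512_0 (SL.cons S314_372_364_512_1 (SL.cons S314_372_364_512_2 (SL.cons S314_372_364_512_3 (SL.cons S314_372_364_512_4 (SL.cons S314_372_364_512_5 (SL.cons S314_372_364_512_6 (SL.cons S314_372_364_512_7 (SL.cons S314_372_364_512_8 (SL.cons S314_372_364_512_9 (SL.cons S314_372_364_512_10 (SL.cons S314_372_364_512_11 (SL.cons S314_372_364_512_12 (SL.cons S314_372_364_512_13 (SL.cons S314_372_364_512_14 (SL.cons S314_372_364_512_15 (SL.cons S314_372_364_512_16 (SL.cons S314_372_364_512_17 (SL.cons S314_372_364_512_18 (SL.cons S314_372_364_512_19 (SL.cons S314_372_364_512_20 (SL.cons S314_372_364_512_21 (SL.cons S314_372_364_512_22 (SL.cons S314_372_364_512_23 (SL.cons S314_372_364_512_24 (SL.cons S314_372_364_512_25 (SL.cons S314_372_364_512_26 (SL.cons S314_372_364_512_27 (SL.cons S314_372_364_512_28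 (SL.cons S314_372_364_512_29 (SL.cons S314_372_364_512_30 (SL.cons S314_372_364_512_31 (SL.cons S314_372_364_512_32 (SL.cons S314_372_364_512_33 (SL.cons S314_372_364_512_34 (SL.cons S314_372_364_512_35 (SL.cons S314_372_364_512_36 (SL.cons S314_372_364_512_37 (SL.cons S314_372_364_512_38 (SL.cons S314_372_364_512_39 (SL.cons S314_372_364_512_40 (SL.cons S314_372_364_512_41 (SL.cons S314_372_364_512_42 (SL.cons S314_372_364_512_43 (SL.cons S314_372_364_512_44 (SL.cons S314_372_364_512_45 (SL.cons S314_372_364_512_46 (SL.cons S314_372_364_512_47 (SL.cons S314_372_364_512_48 SL.nil)))))))))))))))))))))))))))))))))))))))))))))))))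
theorem S314_343_586_660_ok : band (seq (shp 5 314 343 586 660) S314_343_586_660) (sok S314_343_586_660) = true := by decide +kernel

theorem S314_343_660_734_ok : band (seq (shp 5 314 343 660 734) S314_343_660_734) (sok S314_343_660_734) = true := by decide +kernel

theorem S314_343_660_808_ok : band (seq (shp 5 314 343 660 808) S314_343_660_808) (sok S314_343_660_808) = true := by decide +kernel

theorem S314_343_734_808_ok : band (seq (shp 5 314 343 734 808) S314_343_734_808) (sok S314_343_734_808) = true := by decide +kernel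

theorem S314_372_216_364_ok : band (seq (shp 5 314 372 216 364) S314_372_216_364) (sok S314_372_216_364) = true := by decide +kernel

theorem S314_372_364_512_ok : band (seq (shp 5 314 372 364 512) S314_372_364_512) (sok S314_372_364_512) = true := by decide +kernel

end Vale.Agent.P098.Ck
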