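import Vale.Agent.P098.CkDefs

namespace Vale.Agent.P098.Ck

noncomputable def S314_372_512_660_0 : EL := (EL.cons 0 (TM.mk (P.cons (P.lf 5792416443 0 0) (P.cons (P.lf 0 1327550055 0) (P.cons (P.lf 20882153 0 0) (P.cons (P.lf 49374168 0 0) (P.cons (P.lf 0 5384801 0) (P.cons (P.lf 0 616050 0) P.nil)))))) 235193)
 (EL.cons 1 (TM.mk (P.cons (P.lf 1788121471 0 0) (P.cons (P.lf 94132764 0 0) (P.cons (P.lf 0 179177853 0) (P.cons (P.lf 11443897 0 0) (P.cons (P.lf 3792305 0 0) (P.cons (P.lf 0 635690 0) P.nil)))))) 110845)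
 (EL.cons 5 (TM.mk (P.cons (P.lf 5241918562 0 0) (P.cons (P.lf 472017796 0 0) (P.cons (P.lf 0 7424770 0) (P.cons (P.lf 0 17555260 0) (P.cons (P.lf 1914598 0 0) (P.cons (P.lf 219040 0 0) P.nil)))))) 72457)
 (EL.cons 9 (TM.mk (P.lf 6442450944 0 0) 2)
 EL.nil))))
noncomputable def S314_372_512_660_1 : EL := (EL.cons 0 (TM.mk (P.cons (P.cons (P.lf 2365633420 0 0) (P.cons (P.lf 186654476 0 0) (P.cons (P.lf 0 12479278 0) (P.lf 0 4159756 0)))) (P.cons (P.cons (P.lf 3111623737 0 0) (P.cons (P.lf 340967257 0 0) (P.cons (P.lf 0 22796280 0) (P.lf 0 7598765 0)))) (P.cons (P.cons (P.lf 0 870873683 0) (P.cons (P.lf 0 260553827 0) (P.cons (P.lf 17420013 0 0) (P.lf 5806659 0 0)))) (P.cons (P.cons (P.lf 0 372955341 0) (P.cons (P.lf 22203121 0 0) (P.cons (P.lf 0 1484441 0) P.nil))) (P.cons (P.cons (P.lf 133016340 0 0) (P.cons (P.lf 20852551 0 0) P.nil)) (P.cons (P.cons (P.lf 11011720 0 0)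 P.nil) P.nil)))))) 30184431)
 (EL.cons 1 (TM.mk (P.cons (P.cons (P.lf 0 478495938 0) (P.cons (P.lf 0 200005155 0) (P.cons (P.lf 13371871 0 0) (P.lf 4457287 0 0)))) (P.cons (P.cons (P.lf 1148628617 0 0) (P.cons (P.lf 267655279 0 0) (P.cons (P.lf 0 17894799 0) (P.lf 0 5964923 0)))) (P.cons (P.cons (P.lf 515916307 0 0) (P.cons (P.lf 0 12782960 0) (P.cons (P.lf 854638 0 0) (P.lf 284876 0 0)))) (P.cons (P.cons (P.lf 0 247878830 0) (P.cons (P.lf 0 44500667 0) (P.cons (P.lf 2975205 0 0) P.nil))) (P.cons (P.cons (P.lf 0 36261007 0) (P.cons (P.lf 9220929 0 0) P.nil)) (P.cons (P.cons (P.lf 21929904 0 0) P.nil) P.nil)))))) 16192177)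
 (EL.cons 5 (TM.mk (P.cons (P.cons (P.lf 0 1873003648 0) (P.cons (P.lf 0 686551146 0) (P.cons (P.lf 45901210 0 0) (P.lf 15300398 0 0)))) (P.cons (P.cons (P.lf 609779018 0 0) (P.cons (P.lf 244527938 0 0) (P.cons (P.lf 0 16348572 0) (P.lf 0 5449520 0)))) (P.cons (P.cons (P.lf 613370313 0 0) (P.cons (P.lf 50936118 0 0) (P.cons (P.lf 0 3405464 0) (P.lf 0 1135150 0)))) (P.cons (P.cons (P.lf 8535616 0 0) (P.cons (P.lf 0 22722650 0) (P.cons (P.lf 1519182 0 0) P.nil))) (P.cons (P.cons (P.lf 0 50869568 0) (P.cons (P.lf 0 3501472 0) P.nil)) (P.cons (P.cons (P.lf 900752 0 0) P.nil) P.nil)))))) 12663740)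
 (EL.cons 9 (TM.mk (P.cons (P.cons (P.lf 0 910490766 0) (P.cons (P.lf 0 547222152 0) (P.cons (P.lf 36585996 0 0) (P.lf 12195330 0 0)))) (P.cons (P.cons (P.lf 1514235978 0 0) (P.cons (P.lf 322730064 0 0) (P.cons (P.lf 0 21576978 0) (P.lf 0 7192320 0)))) (P.cons (P.cons (P.lf 267993829 0 0) (P.cons (P.lf 0 36798738 0) (P.cons (P.lf 2460276 0 0) (P.lf 820086 0 0)))) (P.cons (P.cons (P.lf 0 109474158 0) (P.cons (P.lf 0 13083708 0) (P.cons (P.lf 874746 0 0) P.nil))) (P.cons (P.cons (P.lf 0 3154296 0) (P.cons (P.lf 3452436 0 0) P.nil)) (P.cons (P.cons (P.lf 4249420 0 0) P.nil) P.nil)))))) 2216086)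
 (EL.cons 2 (TM.mk (P.cons (P.cons (P.lf 0 930066274 0) (P.cons (P.lf 143997612 0 0) (P.cons (P.lf 69373507 0 0) (P.cons (P.lf 0 2625294 0) (P.lf 0 656322 0))))) (P.cons (P.cons (P.lf 133876977 0 0) (P.cons (P.lf 0 20727517 0) (P.cons (P.lf 0 9985862 0) (P.cons (P.lf 377893 0 0) (P.lf 94471 0 0))))) (P.cons (P.cons (P.lf 117917924 0 0) (P.cons (P.lf 0 18256654 0) (P.cons (P.lf 0 8795480 0) (P.cons (P.lf 332845 0 0) P.nil)))) (P.cons (P.cons (P.lf 0 27311450 0) (P.cons (P.lf 4228495 0 0) (P.cons (P.lf 2037155 0 0) P.nil))) (P.cons (P.cons (P.lf 0 2406057 0) (P.cons (P.lf 372518 0 0) P.nil)) (P.cons (P.cons (P.lf 1249295 0 0) P.nil) P.nil)))))) 1205931)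
 (EL.cons 6 (TM.mk (P.cons (P.cons (P.lf 624440061 0 0) (P.cons (P.lf 0 96679002 0) (P.cons (P.lf 0 46576893 0) (P.cons (P.lf 1762605 0 0) (P.lf 440649 0 0))))) (P.cons (P.cons (P.lf 0 368270142 0) (P.cons (P.lf 57017466 0 0) (P.cons (P.lf 27469215 0 0) (P.cons (P.lf 0 1039515 0) (P.lf 0 259878 0))))) (P.cons (P.cons (P.lf 41991369 0 0) (P.cons (P.lf 0 6501315 0) (P.cons (P.lf 0 3132129 0) (P.cons (P.lf 118527 0 0) P.nil)))) (P.cons (P.cons (P.lf 14929938 0 0) (P.cons (P.lf 0 2311527 0) (P.cons (P.lf 0 1113621 0) P.nil))) (P.cons (P.cons (P.lf 0 3939606 0) (P.cons (P.lf 609948 0 0) P.nil)) (P.cons (P.cons (P.lf 0 51039 0) P.nil) P.nil)))))) 717678)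
 EL.nil))))))
noncomputable def S314_372_512_660_2 : EL := (EL.cons 0 (TM.mk (P.cons (P.cons (P.lf 0 784348056 0) (P.cons (P.lf 0 593700470 0) (P.cons (P.lf 0 33806657 0) (P.cons (P.lf 23059225 0 0) (P.cons (P.lf 2947486 0 0) (P.cons (P.lf 0 219026 0) P.nil)))))) (P.cons (P.cons (P.lf 643861814 0 0) (P.cons (P.lf 44946495 0 0) (P.cons (P.lf 16643712 0 0) (P.cons (P.lf 0 3628999 0) (P.cons (P.lf 0 787936 0) P.nil))))) (P.cons (P.cons (P.lf 1565179087 0 0) (P.cons (P.lf 504999856 0 0) (P.cons (P.lf 10924050 0 0) (P.cons (P.lf 0 17229722 0) P.nil)))) (P.cons (P.cons (P.lf 0 208442675 0) (P.cons (P.lf 0 180448764 0) (P.cons (P.lf 0 16707816 0) P.nil))) (P.cons (P.cons (P.lf 0 323175969 0) (P.cons (P.lf 0 61497694 0) P.nil)) (P.cons (P.cons (P.lf 57535416 0 0) P.nil) P.nil)))))) 189516403)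
 (EL.cons 1 (TM.mk (P.cons (P.cons (P.lf 99533959 0 0) (P.cons (P.lf 94888798 0 0) (P.cons (P.lf 14731888 0 0) (P.cons (P.lf 0 4932856 0) (P.cons (P.lf 0 845175 0) (P.cons (P.lf 62807 0 0) P.nil)))))) (P.cons (P.cons (P.lf 0 432681961 0) (P.cons (P.lf 0 318285332 0) (P.cons (P.lf 0 29689922 0) (P.cons (P.lf 13908694 0 0) (P.cons (P.lf 2043973 0 0) P.nil))))) (P.cons (P.cons (P.lf 286387552 0 0) (P.cons (P.lf 122730010 0 0) (P.cons (P.lf 18938491 0 0) (P.cons (P.lf 0 6364692 0) P.nil)))) (P.cons (P.cons (P.lf 364629626 0 0) (P.cons (P.lf 97745925 0 0) (P.cons (P.lf 0 4029829 0) P.nil))) (P.cons (P.cons (P.lf 0 84794187 0) (P.cons (P.lf 0 54207633 0) P.nil)) (P.cons (P.cons (P.lf 0 55176134 0) P.nil) P.nil)))))) 98556356)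
 (EL.cons 5 (TM.mk (P.cons (P.cons (P.lf 424712917 0 0) (P.cons (P.lf 386391012 0 0) (P.cons (P.lf 52978712 0 0) (P.cons (P.lf 0 19149428 0) (P.cons (P.lf 0 3160499 0) (P.cons (P.lf 234849 0 0) P.nil)))))) (P.cons (P.cons (P.lf 0 714000015 0) (P.cons (P.lf 0 410901601 0) (P.cons (P.lf 0 41649755 0) (P.cons (P.lf 18399933 0 0) (P.cons (P.lf 2771894 0 0) P.nil))))) (P.cons (P.cons (P.lf 0 238996663 0) (P.cons (P.lf 0 47427360 0) (P.cons (P.lf 12689526 0 0) (P.cons (P.lf 0 215837 0) P.nil)))) (P.cons (P.cons (P.lf 251957868 0 0) (P.cons (P.lf 100253035 0 0) (P.cons (P.lf 1868049 0 0) P.nil))) (P.cons (P.cons (P.lf 70228642 0 0) (P.cons (P.lf 0 1503459 0) P.nil)) (P.cons (P.cons (P.lf 0 33820995 0) P.nil) P.nil)))))) 84572532)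
 (EL.cons 9 (TM.mk (P.cons (P.cons (P.lf 128676715 0 0) (P.cons (P.lf 154674274 0 0) (P.cons (P.lf 36139918 0 0) (P.cons (P.lf 0 9662286 0) (P.cons (P.lf 0 1863975 0) (P.cons (P.lf 138511 0 0) P.nil)))))) (P.cons (P.cons (P.lf 0 428004151 0) (P.cons (P.lf 0 348459373 0) (P.cons (P.lf 0 31528239 0) (P.cons (P.lf 15096723 0 0) (P.cons (P.lf 2198598 0 0) P.nil))))) (P.cons (P.cons (P.lf 280157163 0 0) (P.cons (P.lf 116583649 0 0) (P.cons (P.lf 14623800 0 0) (P.cons (P.lf 0 5595837 0) P.nil)))) (P.cons (P.cons (P.lf 156921988 0 0) (P.cons (P.lf 31847187 0 0) (P.cons (P.lf 0 3593380 0) P.nil))) (P.cons (P.cons (P.lf 0 39422077 0) (P.cons (P.lf 0 20619967 0) P.nil)) (P.cons (P.cons (P.lf 0 11791725 0) P.nil) P.nil)))))) 22707820)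
 (EL.cons 2 (TM.mk (P.cons (P.cons (P.lf 262886518 0 0) (P.cons (P.lf 117298327 0 0) (P.cons (P.lf 0 54634488 0) (P.cons (P.lf 0 12928798 0) (P.cons (P.lf 1964587 0 0) (P.cons (P.lf 344317 0 0) P.nil)))))) (P.cons (P.cons (P.lf 0 475047016 0) (P.cons (P.lf 0 42375858 0) (P.cons (P.lf 61132275 0 0) (P.cons (P.lf 8689438 0 0) (P.cons (P.lf 0 1640542 0) P.nil))))) (P.cons (P.cons (P.lf 0 47774941 0) (P.cons (P.lf 11402713 0 0) (P.cons (P.lf 2675475 0 0) (P.cons (P.lf 0 481466 0) P.nil)))) (P.cons (P.cons (P.lf 105897217 0 0) (P.cons (P.lf 2306430 0 0) (P.cons (P.lf 0 12044761 0) P.nil))) (P.cons (P.cons (P.lf 0 5987278 0) (P.cons (P.lf 0 4288241 0) P.nil)) (P.cons (P.cons (P.lf 0 9121871 0) P.nil) P.nil)))))) 17331108)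
 (EL.cons 6 (TM.mk (P.cons (P.cons (P.lf 0 176500188 0) (P.cons (P.lf 0 78753282 0) (P.cons (P.lf 36681216 0 0) (P.cons (P.lf 8680302 0 0) (P.cons (P.lf 0 1319010 0) (P.cons (P.lf 0 231168 0) P.nil)))))) (P.cons (P.cons (P.lf 397630086 0 0) (P.cons (P.lf 63560424 0 0) (P.cons (P.lf 0 57396900 0) (P.cons (P.lf 0 9703854 0) (P.cons (P.lf 1689486 0 0) P.nil))))) (P.cons (P.cons (P.lf 0 133034634 0) (P.cons (P.lf 0 30566358 0) (P.cons (P.lf 21265086 0 0) (P.cons (P.lf 4051368 0 0) P.nil)))) (P.cons (P.cons (P.lf 0 36341106 0) (P.cons (P.lf 8968026 0 0) (P.cons (P.lf 1969920 0 0) P.nil))) (P.cons (P.cons (P.lf 23529630 0 0) (P.cons (P.lf 207456 0 0) P.nil)) (P.cons (P.cons (P.lf 0 838104 0) P.nil) P.nil)))))) 11954526)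
 EL.nil))))))
noncomputable def S314_372_512_660_3 : EL := (EL.cons 0 (TM.mk (P.cons (P.lf 2663300420 0 0) (P.cons (P.lf 1327550055 0 0) (P.cons (P.lf 0 20882153 0) (P.cons (P.lf 0 49374168 0) (P.cons (P.lf 5384801 0 0) (P.cons (P.lf 616050 0 0) P.nil)))))) 235193)
 (EL.cons 1 (TM.mk (P.cons (P.lf 0 1788121471 0) (P.cons (P.lf 0 94132764 0) (P.cons (P.lf 179177853 0 0) (P.cons (P.lf 0 11443897 0) (P.cons (P.lf 0 3792305 0) (P.cons (P.lf 635690 0 0) P.nil)))))) 110845)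
 (EL.cons 5 (TM.mk (P.cons (P.lf 1200532382 0 0) (P.cons (P.lf 0 472017796 0) (P.cons (P.lf 7424770 0 0) (P.cons (P.lf 17555260 0 0) (P.cons (P.lf 0 1914598 0) (P.cons (P.lf 0 219040 0) P.nil)))))) 72450)
 EL.nil)))
noncomputable def S314_372_512_660_4 : EL := (EL.cons 0 (TM.mk (P.cons (P.cons (P.lf 0 376395637 0) (P.cons (P.lf 0 226220888 0) (P.cons (P.lf 15124600 0 0) (P.lf 5041531 0 0)))) (P.cons (P.cons (P.lf 438364726 0 0) (P.cons (P.lf 20653989 0 0) (P.cons (P.lf 0 1380875 0) (P.lf 0 460290 0)))) (P.cons (P.cons (P.lf 425767329 0 0) (P.cons (P.lf 53063871 0 0) (P.cons (P.lf 0 3547726 0) (P.lf 0 1182575 0)))) (P.cons (P.cons (P.lf 12036856 0 0) (P.cons (P.lf 0 9843873 0) (P.cons (P.lf 658137 0 0) P.nil))) (P.cons (P.cons (P.lf 0 37097138 0) (P.cons (P.lf 0 4080306 0) P.nil)) (P.cons (P.cons (P.lf 586272 0 0) P.nil) P.nil)))))) 6221362)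
 (EL.cons 1 (TM.mk (P.cons (P.cons (P.lf 252709426 0 0) (P.cons (P.lf 151883139 0 0) (P.cons (P.lf 0 10154551 0) (P.lf 0 3384849 0)))) (P.cons (P.cons (P.lf 0 406977230 0) (P.cons (P.lf 0 81579048 0) (P.cons (P.lf 5454183 0 0) (P.lf 1818058 0 0)))) (P.cons (P.cons (P.lf 0 121830110 0) (P.cons (P.lf 0 9721291 0) (P.cons (P.lf 649942 0 0) (P.lf 216646 0 0)))) (P.cons (P.cons (P.lf 70200487 0 0) (P.cons (P.lf 14116933 0 0) (P.cons (P.lf 0 943824 0) P.nil))) (P.cons (P.cons (P.lf 7774683 0 0) (P.cons (P.lf 0 2041666 0) P.nil)) (P.cons (P.cons (P.lf 0 5635282 0) P.nil) P.nil)))))) 3936926)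
 (EL.cons 5 (TM.mk (P.cons (P.cons (P.lf 0 169667360 0) (P.cons (P.lf 0 101973288 0) (P.cons (P.lf 6817694 0 0) (P.lf 2272564 0 0)))) (P.cons (P.cons (P.lf 348882310 0 0) (P.cons (P.lf 100233046 0 0) (P.cons (P.lf 0 6701346 0) (P.lf 0 2233780 0)))) (P.cons (P.cons (P.lf 0 62052662 0) (P.cons (P.lf 0 31133400 0) (P.cons (P.lf 2081504 0 0) (P.lf 693832 0 0)))) (P.cons (P.cons (P.lf 0 40771156 0) (P.cons (P.lf 0 861190 0) (P.cons (P.lf 57576 0 0) P.nil))) (P.cons (P.cons (P.lf 12138662 0 0) (P.cons (P.lf 2601586 0 0) P.nil)) (P.cons (P.cons (P.lf 1208018 0 0) P.nil) P.nil)))))) 2660464)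
 EL.nil)))
noncomputable def S314_372_512_660_5 : EL := (EL.cons 0 (TM.mk (P.cons (P.cons (P.lf 53194777 0 0) (P.cons (P.lf 63942133 0 0) (P.cons (P.lf 14940191 0 0) (P.cons (P.lf 0 3994375 0) (P.cons (P.lf 0 770563 0) (P.cons (P.lf 57258 0 0) P.nil)))))) (P.cons (P.cons (P.lf 0 150420835 0) (P.cons (P.lf 0 112180000 0) (P.cons (P.lf 0 5586633 0) (P.cons (P.lf 4249924 0 0) (P.cons (P.lf 524800 0 0) P.nil))))) (P.cons (P.cons (P.lf 27203730 0 0) (P.cons (P.lf 0 24110374 0) (P.cons (P.lf 0 568481 0) (P.cons (P.lf 828880 0 0) P.nil)))) (P.cons (P.cons (P.lf 123002472 0 0) (P.cons (P.lf 37133216 0 0) (P.cons (P.lf 1353144 0 0) P.nil))) (P.cons (P.cons (P.lf 18518405 0 0) (P.cons (P.lf 460202 0 0) P.nil)) (P.cons (P.cons (P.lf 0 15999271 0) P.nil) P.nil)))))) 28574712)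
 (EL.cons 1 (TM.mk (P.cons (P.cons (P.lf 0 35714604 0) (P.cons (P.lf 0 42930303 0) (P.cons (P.lf 0 10030740 0) (P.cons (P.lf 2681795 0 0) (P.cons (P.lf 517350 0 0) (P.cons (P.lf 0 38443 0) P.nil)))))) (P.cons (P.cons (P.lf 116913690 0 0) (P.cons (P.lf 94455941 0 0) (P.cons (P.lf 8222703 0 0) (P.cons (P.lf 0 4048959 0) (P.cons (P.lf 0 582991 0) P.nil))))) (P.cons (P.cons (P.lf 0 67925981 0) (P.cons (P.lf 0 22964872 0) (P.cons (P.lf 0 2593081 0) (P.cons (P.lf 1063828 0 0) P.nil)))) (P.cons (P.cons (P.lf 0 59779882 0) (P.cons (P.lf 0 20508849 0) (P.cons (P.lf 0 157380 0) P.nil))) (P.cons (P.cons (P.lf 17125155 0 0) (P.cons (P.lf 9028164 0 0) P.nil)) (P.cons (P.cons (P.lf 7980148 0 0) P.nil) P.nil)))))) 19508911)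
 (EL.cons 5 (TM.mk (P.cons (P.cons (P.lf 23978538 0 0) (P.cons (P.lf 28823110 0 0) (P.cons (P.lf 6734570 0 0) (P.cons (P.lf 0 1800538 0) (P.cons (P.lf 0 347344 0) (P.cons (P.lf 25810 0 0) P.nil)))))) (P.cons (P.cons (P.lf 0 89185084 0) (P.cons (P.lf 0 76266900 0) (P.cons (P.lf 0 8523052 0) (P.cons (P.lf 3521154 0 0) (P.cons (P.lf 546268 0 0) P.nil))))) (P.cons (P.cons (P.lf 83713282 0 0) (P.cons (P.lf 47433794 0 0) (P.cons (P.lf 5076726 0 0) (P.cons (P.lf 0 2159992 0) P.nil)))) (P.cons (P.cons (P.lf 8573116 0 0) (P.cons (P.lf 0 2587192 0) (P.cons (P.lf 0 1678910 0) P.nil))) (P.cons (P.cons (P.lf 0 19725012 0) (P.cons (P.lf 0 7036948 0) P.nil)) (P.cons (P.cons (P.lf 1758054 0 0) P.nil) P.nil)))))) 12181292)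
 EL.nil)))
noncomputable def S314_372_512_660_6 : EL := (EL.cons 12 (TM.mk (P.lf 8589934592 0 0) 0)
 (EL.cons 3 (TM.mk (P.cons (P.lf 2391525476 0 0) (P.cons (P.lf 596040491 0 0) (P.cons (P.lf 0 83651283 0) (P.cons (P.lf 0 1319475 0) (P.cons (P.lf 1283523 0 0) (P.cons (P.lf 0 89452 0) P.nil)))))) 26268)
 (EL.cons 7 (TM.mk (P.cons (P.lf 0 1605653656 0) (P.cons (P.lf 315650420 0 0) (P.cons (P.lf 26061229 0 0) (P.cons (P.lf 0 6616358 0) (P.cons (P.lf 191151 0 0) (P.cons (P.lf 76666 0 0) P.nil)))))) 11720)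
 EL.nil)))
noncomputable def S314_372_512_660_7 : EL := (EL.cons 12 (TM.mk (P.cons (P.cons (P.lf 0 1213987688 0) (P.cons (P.lf 0 729629536 0) (P.cons (P.lf 48781328 0 0) (P.lf 16260440 0 0)))) (P.cons (P.cons (P.lf 2018981304 0 0) (P.cons (P.lf 430306752 0 0) (P.cons (P.lf 0 28769304 0) (P.lf 0 9589760 0)))) (P.cons (P.cons (P.lf 357325106 0 0) (P.cons (P.lf 0 49064984 0) (P.cons (P.lf 3280368 0 0) (P.lf 1093448 0 0)))) (P.cons (P.cons (P.lf 0 145965544 0) (P.cons (P.lf 0 17444944 0) (P.cons (P.lf 1166328 0 0) P.nil))) (P.cons (P.cons (P.lf 0 4205728 0) (P.cons (P.lf 4603248 0 0) P.nil)) (P.cons (P.cons (P.lf 5665894 0 0) P.nil) P.nil)))))) 2954756)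
 (EL.cons 3 (TM.mk (P.cons (P.cons (P.lf 2521334703 0 0) (P.cons (P.lf 406272620 0 0) (P.cons (P.lf 0 27162438 0) (P.lf 0 9054144 0)))) (P.cons (P.cons (P.lf 1168343029 0 0) (P.cons (P.lf 0 138348156 0) (P.cons (P.lf 9249632 0 0) (P.lf 3083206 0 0)))) (P.cons (P.cons (P.lf 0 536208836 0) (P.cons (P.lf 0 46606764 0) (P.cons (P.lf 3116018 0 0) (P.lf 1038674 0 0)))) (P.cons (P.cons (P.lf 0 8360500 0) (P.cons (P.lf 24679518 0 0) (P.cons (P.lf 0 1650012 0) P.nil))) (P.cons (P.cons (P.lf 39156629 0 0) (P.cons (P.lf 0 747608 0) P.nil)) (P.cons (P.cons (P.lf 0 4947326 0) P.nil) P.nil)))))) 10974955)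
 (EL.cons 7 (TM.mk (P.cons (P.cons (P.lf 1741157836 0 0) (P.cons (P.lf 459114383 0 0) (P.cons (P.lf 0 30695323 0) (P.lf 0 10231774 0)))) (P.cons (P.cons (P.lf 618729715 0 0) (P.cons (P.lf 0 73266256 0) (P.cons (P.lf 4898415 0 0) (P.lf 1632807 0 0)))) (P.cons (P.cons (P.lf 0 146044695 0) (P.cons (P.lf 0 41013628 0) (P.cons (P.lf 2742074 0 0) (P.lf 914022 0 0)))) (P.cons (P.cons (P.lf 0 74616102 0) (P.cons (P.lf 4051450 0 0) (P.cons (P.lf 0 270871 0) P.nil))) (P.cons (P.cons (P.lf 11965841 0 0) (P.cons (P.lf 2828862 0 0) P.nil)) (P.cons (P.cons (P.lf 3147187 0 0) P.nil) P.nil)))))) 6923165)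
 (EL.cons 10 (TM.mk (P.cons (P.cons (P.lf 0 1670316408 0) (P.cons (P.lf 258606924 0 0) (P.cons (P.lf 124588659 0 0) (P.cons (P.lf 0 4714800 0) (P.lf 0 1178700 0))))) (P.cons (P.cons (P.lf 656724534 0 0) (P.cons (P.lf 0 101677449 0) (P.cons (P.lf 0 48984987 0) (P.cons (P.lf 1853736 0 0) (P.lf 463434 0 0))))) (P.cons (P.cons (P.lf 0 10330179 0) (P.cons (P.lf 1599369 0 0) (P.cons (P.lf 770526 0 0) (P.cons (P.lf 0 29157 0) P.nil)))) (P.cons (P.cons (P.lf 0 24424860 0) (P.cons (P.lf 3781581 0 0) (P.cons (P.lf 1821846 0 0) P.nil))) (P.cons (P.cons (P.lf 2663805 0 0) (P.cons (P.lf 0 412422 0) P.nil)) (P.cons (P.cons (P.lf 304752 0 0) P.nil) P.nil)))))) 496941)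
 EL.nil))))
noncomputable def S314_372_512_660_8 : EL := (EL.cons 12 (TM.mk (P.cons (P.cons (P.lf 171568954 0 0) (P.cons (P.lf 206232366 0 0) (P.cons (P.lf 48186558 0 0) (P.cons (P.lf 0 12883048 0) (P.cons (P.lf 0 2485300 0) (P.cons (P.lf 184682 0 0) P.nil)))))) (P.cons (P.cons (P.lf 0 570672202 0) (P.cons (P.lf 0 464612498 0) (P.cons (P.lf 0 42037652 0) (P.cons (P.lf 20128964 0 0) (P.cons (P.lf 2931464 0 0) P.nil))))) (P.cons (P.cons (P.lf 373542884 0 0) (P.cons (P.lf 155444866 0 0) (P.cons (P.lf 19498400 0 0) (P.cons (P.lf 0 7461116 0) P.nil)))) (P.cons (P.cons (P.lf 209229318 0 0) (P.cons (P.lf 42462916 0 0) (P.cons (P.lf 0 4791174 0) P.nil))) (P.cons (P.cons (P.lf 0 52562770 0) (P.cons (P.lf 0 27493290 0) P.nil)) (P.cons (P.cons (P.lf 0 15722300 0) P.nil) P.nil)))))) 30277064)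
 (EL.cons 3 (TM.mk (P.cons (P.cons (P.lf 0 760430711 0) (P.cons (P.lf 0 600576213 0) (P.cons (P.lf 0 46118922 0) (P.cons (P.lf 24920267 0 0) (P.cons (P.lf 3459666 0 0) (P.cons (P.lf 0 257085 0) P.nil)))))) (P.cons (P.cons (P.lf 1001970629 0 0) (P.cons (P.lf 399259019 0 0) (P.cons (P.lf 53564580 0 0) (P.cons (P.lf 0 19629568 0) (P.cons (P.lf 0 3218490 0) P.nil))))) (P.cons (P.cons (P.lf 847812980 0 0) (P.cons (P.lf 152251237 0 0) (P.cons (P.lf 0 23409831 0) (P.cons (P.lf 0 1623911 0) P.nil)))) (P.cons (P.cons (P.lf 0 327886844 0) (P.cons (P.lf 0 157192658 0) (P.cons (P.lf 0 655122 0) P.nil))) (P.cons (P.cons (P.lf 0 98143468 0) (P.cons (P.lf 14951538 0 0) P.nil)) (P.cons (P.cons (P.lf 49721301 0 0) P.nil) P.nil)))))) 92340824)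
 (EL.cons 7 (TM.mk (P.cons (P.cons (P.lf 0 460074285 0) (P.cons (P.lf 0 387008886 0) (P.cons (P.lf 0 40535396 0) (P.cons (P.lf 17504859 0 0) (P.cons (P.lf 2663156 0 0) (P.cons (P.lf 0 197895 0) P.nil)))))) (P.cons (P.cons (P.lf 530622431 0 0) (P.cons (P.lf 211439127 0 0) (P.cons (P.lf 28366660 0 0) (P.cons (P.lf 0 10395411 0) (P.cons (P.lf 0 1704445 0) P.nil))))) (P.cons (P.cons (P.lf 567264077 0 0) (P.cons (P.lf 127760616 0 0) (P.cons (P.lf 0 6074175 0) (P.cons (P.lf 0 3177211 0) P.nil)))) (P.cons (P.cons (P.lf 0 28013167 0) (P.cons (P.lf 0 54426368 0) (P.cons (P.lf 0 3380135 0) P.nil))) (P.cons (P.cons (P.lf 0 92431119 0) (P.cons (P.lf 0 16287430 0) P.nil)) (P.cons (P.cons (P.lf 3838731 0 0) P.nil) P.nil)))))) 54267142)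
 (EL.cons 10 (TM.mk (P.cons (P.cons (P.lf 472120836 0 0) (P.cons (P.lf 210657378 0 0) (P.cons (P.lf 0 98118696 0) (P.cons (P.lf 0 23218974 0) (P.cons (P.lf 3528228 0 0) (P.cons (P.lf 618366 0 0) P.nil)))))) (P.cons (P.cons (P.lf 0 970809042 0) (P.cons (P.lf 0 128605476 0) (P.cons (P.lf 134242290 0 0) (P.cons (P.lf 21392334 0 0) (P.cons (P.lf 0 3825618 0) P.nil))))) (P.cons (P.cons (P.lf 172669362 0 0) (P.cons (P.lf 59899062 0 0) (P.cons (P.lf 0 32084334 0) (P.cons (P.lf 0 7008444 0) P.nil)))) (P.cons (P.cons (P.lf 113450886 0 0) (P.cons (P.lf 0 15168672 0) (P.cons (P.lf 0 8993520 0) P.nil))) (P.cons (P.cons (P.lf 0 33777354 0) (P.cons (P.lf 0 2009664 0) P.nil)) (P.cons (P.cons (P.lf 0 3361464 0) P.nil) P.nil)))))) 18599886)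
 EL.nil))))
noncomputable def S314_372_512_660_9 : EL := (EL.cons 3 (TM.mk (P.cons (P.lf 2391525476 0 0) (P.cons (P.lf 596040491 0 0) (P.cons (P.lf 0 83651283 0) (P.cons (P.lf 0 1319475 0) (P.cons (P.lf 1283523 0 0) (P.cons (P.lf 0 89452 0) P.nil)))))) 26268)
 (EL.cons 7 (TM.mk (P.cons (P.lf 0 1605653656 0) (P.cons (P.lf 315650420 0 0) (P.cons (P.lf 26061229 0 0) (P.cons (P.lf 0 6616358 0) (P.cons (P.lf 191151 0 0) (P.cons (P.lf 76666 0 0) P.nil)))))) 11720)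
 EL.nil))
noncomputable def S314_372_512_660_10 : EL := (EL.cons 3 (TM.mk (P.cons (P.cons (P.lf 0 337986564 0) (P.cons (P.lf 0 203136310 0) (P.cons (P.lf 13581219 0 0) (P.lf 4527072 0 0)))) (P.cons (P.cons (P.lf 477868528 0 0) (P.cons (P.lf 69174078 0 0) (P.cons (P.lf 0 4624816 0) (P.lf 0 1541603 0)))) (P.cons (P.cons (P.lf 251398693 0 0) (P.cons (P.lf 23303382 0 0) (P.cons (P.lf 0 1558009 0) (P.lf 0 519337 0)))) (P.cons (P.cons (P.lf 0 35319085 0) (P.cons (P.lf 0 12339759 0) (P.cons (P.lf 825006 0 0) P.nil))) (P.cons (P.cons (P.lf 0 15270472 0) (P.cons (P.lf 373804 0 0) P.nil)) (P.cons (P.cons (P.lf 2966503 0 0) P.nil) P.nil)))))) 2652801)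
 (EL.cons 7 (TM.mk (P.cons (P.cons (P.lf 226921840 0 0) (P.cons (P.lf 136384313 0 0) (P.cons (P.lf 0 9118336 0) (P.lf 0 3039445 0)))) (P.cons (P.cons (P.lf 0 422003264 0) (P.cons (P.lf 0 107245459 0) (P.cons (P.lf 7170180 0 0) (P.lf 2390058 0 0)))) (P.cons (P.cons (P.lf 3715269 0 0) (P.cons (P.lf 22770002 0 0) (P.cons (P.lf 0 1522348 0) (P.lf 0 507447 0)))) (P.cons (P.cons (P.lf 47475243 0 0) (P.cons (P.lf 3325399 0 0) (P.cons (P.lf 0 222328 0) P.nil))) (P.cons (P.cons (P.lf 0 5075611 0) (P.cons (P.lf 0 1998030 0) P.nil)) (P.cons (P.cons (P.lf 0 1897613 0) P.nil) P.nil)))))) 1563028)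
 EL.nil))
noncomputable def S314_372_512_660_11 : EL := (EL.cons 3 (TM.mk (P.cons (P.cons (P.lf 47766547 0 0) (P.cons (P.lf 57417195 0 0) (P.cons (P.lf 13415628 0 0) (P.cons (P.lf 0 3586771 0) (P.cons (P.lf 0 691932 0) (P.cons (P.lf 51417 0 0) P.nil)))))) (P.cons (P.cons (P.lf 0 146976097 0) (P.cons (P.lf 0 115042759 0) (P.cons (P.lf 0 8360130 0) (P.cons (P.lf 4710176 0 0) (P.cons (P.lf 643698 0 0) P.nil))))) (P.cons (P.cons (P.lf 62729420 0 0) (P.cons (P.lf 9030439 0 0) (P.cons (P.lf 2042379 0 0) (P.cons (P.lf 0 555077 0) P.nil)))) (P.cons (P.cons (P.lf 89702080 0 0) (P.cons (P.lf 27101008 0 0) (P.cons (P.lf 421020 0 0) P.nil))) (P.cons (P.cons (P.lf 0 3640330 0) (P.cons (P.lf 0 6119568 0) P.nil)) (P.cons (P.cons (P.lf 0 10206459 0) P.nil) P.nil)))))) 17155948)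
 (EL.cons 7 (TM.mk (P.cons (P.cons (P.lf 0 32070129 0) (P.cons (P.lf 0 38549508 0) (P.cons (P.lf 0 9007160 0) (P.cons (P.lf 2408133 0 0) (P.cons (P.lf 464558 0 0) (P.cons (P.lf 0 34521 0) P.nil)))))) (P.cons (P.cons (P.lf 112976147 0 0) (P.cons (P.lf 94424943 0 0) (P.cons (P.lf 9628480 0 0) (P.cons (P.lf 0 4235967 0) (P.cons (P.lf 0 639283 0) P.nil))))) (P.cons (P.cons (P.lf 0 90273343 0) (P.cons (P.lf 0 45503382 0) (P.cons (P.lf 0 5043237 0) (P.cons (P.lf 2095235 0 0) P.nil)))) (P.cons (P.cons (P.lf 0 27246823 0) (P.cons (P.lf 0 3793670 0) (P.cons (P.lf 1447423 0 0) P.nil))) (P.cons (P.cons (P.lf 19090305 0 0) (P.cons (P.lf 7533548 0 0) P.nil)) (P.cons (P.cons (P.lf 1343253 0 0) P.nil) P.nil)))))) 10165842)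
 EL.nil))
noncomputable def S314_372_512_660_12 : EL := (EL.cons 4 (TM.mk (P.cons (P.lf 0 2391525476 0) (P.cons (P.lf 0 596040491 0) (P.cons (P.lf 83651283 0 0) (P.cons (P.lf 1319475 0 0) (P.cons (P.lf 0 1283523 0) (P.cons (P.lf 89452 0 0) P.nil)))))) 26268)
 (EL.cons 8 (TM.mk (P.cons (P.lf 1605653656 0 0) (P.cons (P.lf 0 315650420 0) (P.cons (P.lf 0 26061229 0) (P.cons (P.lf 6616358 0 0) (P.cons (P.lf 0 191151 0) (P.cons (P.lf 0 76666 0) P.nil)))))) 11720)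
 EL.nil))
noncomputable def S314_372_512_660_13 : EL := (EL.cons 4 (TM.mk (P.cons (P.cons (P.lf 337986564 0 0) (P.cons (P.lf 203136310 0 0) (P.cons (P.lf 0 13581219 0) (P.lf 0 4527072 0)))) (P.cons (P.cons (P.lf 0 477868528 0) (P.cons (P.lf 0 69174078 0) (P.cons (P.lf 4624816 0 0) (P.lf 1541603 0 0)))) (P.cons (P.cons (P.lf 0 251398693 0) (P.cons (P.lf 0 23303382 0) (P.cons (P.lf 1558009 0 0) (P.lf 519337 0 0)))) (P.cons (P.cons (P.lf 35319085 0 0) (P.cons (P.lf 12339759 0 0) (P.cons (P.lf 0 825006 0) P.nil))) (P.cons (P.cons (P.lf 15270472 0 0) (P.cons (P.lf 0 373804 0) P.nil)) (P.cons (P.cons (P.lf 0 2966503 0) P.nil) P.nil)))))) 2652801)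
 (EL.cons 8 (TM.mk (P.cons (P.cons (P.lf 0 226921840 0) (P.cons (P.lf 0 136384313 0) (P.cons (P.lf 9118336 0 0) (P.lf 3039445 0 0)))) (P.cons (P.cons (P.lf 422003264 0 0) (P.cons (P.lf 107245459 0 0) (P.cons (P.lf 0 7170180 0) (P.lf 0 2390058 0)))) (P.cons (P.cons (P.lf 0 3715269 0) (P.cons (P.lf 0 22770002 0) (P.cons (P.lf 1522348 0 0) (P.lf 507447 0 0)))) (P.cons (P.cons (P.lf 0 47475243 0) (P.cons (P.lf 0 3325399 0) (P.cons (P.lf 222328 0 0) P.nil))) (P.cons (P.cons (P.lf 5075611 0 0) (P.cons (P.lf 1998030 0 0) P.nil)) (P.cons (P.cons (P.lf 1897613 0 0) P.nil) P.nil)))))) 1563028)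
 EL.nil))
noncomputable def S314_372_512_660_14 : EL := (EL.cons 4 (TM.mk (P.cons (P.cons (P.lf 0 47766547 0) (P.cons (P.lf 0 57417195 0) (P.cons (P.lf 0 13415628 0) (P.cons (P.lf 3586771 0 0) (P.cons (P.lf 691932 0 0) (P.cons (P.lf 0 51417 0) P.nil)))))) (P.cons (P.cons (P.lf 146976097 0 0) (P.cons (P.lf 115042759 0 0) (P.cons (P.lf 8360130 0 0) (P.cons (P.lf 0 4710176 0) (P.cons (P.lf 0 643698 0) P.nil))))) (P.cons (P.cons (P.lf 0 62729420 0) (P.cons (P.lf 0 9030439 0) (P.cons (P.lf 0 2042379 0) (P.cons (P.lf 555077 0 0) P.nil)))) (P.cons (P.cons (P.lf 0 89702080 0) (P.cons (P.lf 0 27101008 0) (P.cons (P.lf 0 421020 0) P.nil))) (P.cons (P.cons (P.lf 3640330 0 0) (P.cons (P.lf 6119568 0 0) P.nil)) (P.cons (P.cons (P.lf 10206459 0 0) P.nil) P.nil)))))) 17155948)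
 (EL.cons 8 (TM.mk (P.cons (P.cons (P.lf 32070129 0 0) (P.cons (P.lf 38549508 0 0) (P.cons (P.lf 9007160 0 0) (P.cons (P.lf 0 2408133 0) (P.cons (P.lf 0 464558 0) (P.cons (P.lf 34521 0 0) P.nil)))))) (P.cons (P.cons (P.lf 0 112976147 0) (P.cons (P.lf 0 94424943 0) (P.cons (P.lf 0 9628480 0) (P.cons (P.lf 4235967 0 0) (P.cons (P.lf 639283 0 0) P.nil))))) (P.cons (P.cons (P.lf 90273343 0 0) (P.cons (P.lf 45503382 0 0) (P.cons (P.lf 5043237 0 0) (P.cons (P.lf 0 2095235 0) P.nil)))) (P.cons (P.cons (P.lf 27246823 0 0) (P.cons (P.lf 3793670 0 0) (P.cons (P.lf 0 1447423 0) P.nil))) (P.cons (P.cons (P.lf 0 19090305 0) (P.cons (P.lf 0 7533548 0) P.nil)) (P.cons (P.cons (P.lf 0 1343253 0) P.nil) P.nil)))))) 10165842)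
 EL.nil))
noncomputable def S314_372_512_660_15 : EL := (EL.cons 4 (TM.mk (P.cons (P.lf 0 1420426890 0) (P.cons (P.lf 0 708026696 0) (P.cons (P.lf 11137148 0 0) (P.cons (P.lf 26332890 0 0) (P.cons (P.lf 0 2871894 0) (P.cons (P.lf 0 328560 0) P.nil)))))) 125439)
 (EL.cons 8 (TM.mk (P.cons (P.lf 953664785 0 0) (P.cons (P.lf 50204141 0 0) (P.cons (P.lf 0 95561522 0) (P.cons (P.lf 6103412 0 0) (P.cons (P.lf 2022563 0 0) (P.cons (P.lf 0 339035 0) P.nil)))))) 59114)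
 EL.nil))
noncomputable def S314_372_512_660_16 : EL := (EL.cons 4 (TM.mk (P.cons (P.cons (P.lf 200744340 0 0) (P.cons (P.lf 120651140 0 0) (P.cons (P.lf 0 8066453 0) (P.lf 0 2688816 0)))) (P.cons (P.cons (P.lf 0 233794520 0) (P.cons (P.lf 0 11015460 0) (P.cons (P.lf 736467 0 0) (P.lf 245488 0 0)))) (P.cons (P.cons (P.lf 0 227075909 0) (P.cons (P.lf 0 28300731 0) (P.cons (P.lf 1892120 0 0) (P.lf 630706 0 0)))) (P.cons (P.cons (P.lf 0 6419656 0) (P.cons (P.lf 5250065 0 0) (P.cons (P.lf 0 351006 0) P.nil))) (P.cons (P.cons (P.lf 19785140 0 0) (P.cons (P.lf 2176163 0 0) P.nil)) (P.cons (P.cons (P.lf 0 312678 0) P.nil) P.nil)))))) 3318068)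
 (EL.cons 8 (TM.mk (P.cons (P.cons (P.lf 0 134778361 0) (P.cons (P.lf 0 81004341 0) (P.cons (P.lf 5415761 0 0) (P.lf 1805253 0 0)))) (P.cons (P.cons (P.lf 217054523 0 0) (P.cons (P.lf 43508826 0 0) (P.cons (P.lf 0 2908898 0) (P.lf 0 969631 0)))) (P.cons (P.cons (P.lf 64976059 0 0) (P.cons (P.lf 5184689 0 0) (P.cons (P.lf 0 346636 0) (P.lf 0 115545 0)))) (P.cons (P.cons (P.lf 0 37440260 0) (P.cons (P.lf 0 7529031 0) (P.cons (P.lf 503373 0 0) P.nil))) (P.cons (P.cons (P.lf 0 4146498 0) (P.cons (P.lf 1088889 0 0) P.nil)) (P.cons (P.cons (P.lf 3005484 0 0) P.nil) P.nil)))))) 2099684)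
 EL.nil))
noncomputable def S314_372_512_660_17 : EL := (EL.cons 4 (TM.mk (P.cons (P.cons (P.lf 0 28370548 0) (P.cons (P.lf 0 34102470 0) (P.cons (P.lf 0 7968102 0) (P.cons (P.lf 2130333 0 0) (P.cons (P.lf 410967 0 0) (P.cons (P.lf 0 30538 0) P.nil)))))) (P.cons (P.cons (P.lf 80224445 0 0) (P.cons (P.lf 59829333 0 0) (P.cons (P.lf 2979538 0 0) (P.cons (P.lf 0 2266626 0) (P.cons (P.lf 0 279893 0) P.nil))))) (P.cons (P.cons (P.lf 0 14508656 0) (P.cons (P.lf 12858866 0 0) (P.cons (P.lf 303190 0 0) (P.cons (P.lf 0 442069 0) P.nil)))) (P.cons (P.cons (P.lf 0 65601318 0) (P.cons (P.lf 0 19804381 0) (P.cons (P.lf 0 721677 0) P.nil))) (P.cons (P.cons (P.lf 0 9876482 0) (P.cons (P.lf 0 245441 0) P.nil)) (P.cons (P.cons (P.lf 8532945 0 0) P.nil) P.nil)))))) 15239857)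
 (EL.cons 8 (TM.mk (P.cons (P.cons (P.lf 19047789 0 0) (P.cons (P.lf 22896162 0 0) (P.cons (P.lf 5349728 0 0) (P.cons (P.lf 0 1430291 0) (P.cons (P.lf 0 275920 0) (P.cons (P.lf 20503 0 0) P.nil)))))) (P.cons (P.cons (P.lf 0 62353968 0) (P.cons (P.lf 0 50376502 0) (P.cons (P.lf 0 4385442 0) (P.cons (P.lf 2159445 0 0) (P.cons (P.lf 310929 0 0) P.nil))))) (P.cons (P.cons (P.lf 36227190 0 0) (P.cons (P.lf 12247932 0 0) (P.cons (P.lf 1382977 0 0) (P.cons (P.lf 0 567375 0) P.nil)))) (P.cons (P.cons (P.lf 31882604 0 0) (P.cons (P.lf 10938053 0 0) (P.cons (P.lf 83936 0 0) P.nil))) (P.cons (P.cons (P.lf 0 9133416 0) (P.cons (P.lf 0 4815021 0) P.nil)) (P.cons (P.cons (P.lf 0 4256079 0) P.nil) P.nil)))))) 10404741)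
 EL.nil))
noncomputable def S314_372_512_660_18 : EL := (EL.cons 4 (TM.mk (P.cons (P.lf 0 843650871 0) (P.cons (P.lf 0 630789950 0) (P.cons (P.lf 0 68683740 0) (P.cons (P.lf 32463552 0 0) (P.cons (P.lf 1740131 0 0) (P.cons (P.lf 0 1365121 0) P.nil)))))) 264319)
 (EL.cons 8 (TM.mk (P.cons (P.lf 566421357 0 0) (P.cons (P.lf 170987672 0 0) (P.cons (P.lf 0 69138754 0) (P.cons (P.lf 0 11876237 0) (P.cons (P.lf 4377599 0 0) (P.cons (P.lf 0 2637 0) P.nil)))))) 178385)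
 EL.nil))
noncomputable def S314_372_512_660_19 : EL := (EL.cons 4 (TM.mk (P.cons (P.cons (P.lf 119230450 0 0) (P.cons (P.lf 71659753 0 0) (P.cons (P.lf 0 4791003 0) (P.lf 0 1597000 0)))) (P.cons (P.cons (P.lf 0 109144498 0) (P.cons (P.lf 11317234 0 0) (P.cons (P.lf 0 756644 0) (P.lf 0 252214 0)))) (P.cons (P.cons (P.lf 0 173648532 0) (P.cons (P.lf 0 20946116 0) (P.cons (P.lf 1400408 0 0) (P.lf 466802 0 0)))) (P.cons (P.cons (P.lf 0 32635250 0) (P.cons (P.lf 0 881764 0) (P.cons (P.lf 58952 0 0) P.nil))) (P.cons (P.cons (P.lf 15659041 0 0) (P.cons (P.lf 2699689 0 0) P.nil)) (P.cons (P.cons (P.lf 2871840 0 0) P.nil) P.nil)))))) 3923936)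
 (EL.cons 8 (TM.mk (P.cons (P.cons (P.lf 0 80050499 0) (P.cons (P.lf 0 48111862 0) (P.cons (P.lf 3216646 0 0) (P.lf 1072215 0 0)))) (P.cons (P.cons (P.lf 108966743 0 0) (P.cons (P.lf 13850777 0 0) (P.cons (P.lf 0 926030 0) (P.lf 0 308676 0)))) (P.cons (P.cons (P.lf 73522222 0 0) (P.cons (P.lf 11202806 0 0) (P.cons (P.lf 0 748993 0) (P.lf 0 249664 0)))) (P.cons (P.cons (P.lf 0 17084188 0) (P.cons (P.lf 0 4581678 0) (P.cons (P.lf 306320 0 0) P.nil))) (P.cons (P.cons (P.lf 0 9468964 0) (P.cons (P.lf 0 615563 0) P.nil)) (P.cons (P.cons (P.lf 1999997 0 0) P.nil) P.nil)))))) 2224085)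
 EL.nil))
noncomputable def S314_372_512_660_20 : EL := (EL.cons 4 (TM.mk (P.cons (P.cons (P.lf 0 16850453 0) (P.cons (P.lf 0 20254881 0) (P.cons (P.lf 0 4732589 0) (P.cons (P.lf 1265294 0 0) (P.cons (P.lf 244090 0 0) (P.cons (P.lf 0 18137 0) P.nil)))))) (P.cons (P.cons (P.lf 43449006 0 0) (P.cons (P.lf 30487010 0 0) (P.cons (P.lf 590167 0 0) (P.cons (P.lf 0 1030894 0) (P.cons (P.lf 0 105405 0) P.nil))))) (P.cons (P.cons (P.lf 3847585 0 0) (P.cons (P.lf 17202329 0 0) (P.cons (P.lf 786670 0 0) (P.cons (P.lf 0 642345 0) P.nil)))) (P.cons (P.cons (P.lf 0 42768421 0) (P.cons (P.lf 0 11090954 0) (P.cons (P.lf 0 443041 0) P.nil))) (P.cons (P.cons (P.lf 0 15310819 0) (P.cons (P.lf 0 3375005 0) P.nil)) (P.cons (P.cons (P.lf 4999900 0 0) P.nil) P.nil)))))) 14499564)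
 (EL.cons 8 (TM.mk (P.cons (P.cons (P.lf 11313278 0 0) (P.cons (P.lf 13598987 0 0) (P.cons (P.lf 3177427 0 0) (P.cons (P.lf 0 849509 0) (P.cons (P.lf 0 163880 0) (P.cons (P.lf 12177 0 0) P.nil)))))) (P.cons (P.cons (P.lf 0 34215015 0) (P.cons (P.lf 0 26531430 0) (P.cons (P.lf 0 1812786 0) (P.cons (P.lf 1070861 0 0) (P.cons (P.lf 143829 0 0) P.nil))))) (P.cons (P.cons (P.lf 11890974 0 0) (P.cons (P.lf 0 658254 0) (P.cons (P.lf 61098 0 0) (P.cons (P.lf 12384 0 0) P.nil)))) (P.cons (P.cons (P.lf 25588222 0 0) (P.cons (P.lf 9348676 0 0) (P.cons (P.lf 343927 0 0) P.nil))) (P.cons (P.cons (P.lf 0 1431306 0) (P.cons (P.lf 0 1471345 0) P.nil)) (P.cons (P.cons (P.lf 0 4574399 0) P.nil) P.nil)))))) 8703022)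
 EL.nil))
noncomputable def S314_372_512_660_21 : EL := (EL.cons 4 (TM.mk (P.cons (P.cons (P.lf 0 2859321267 0) (P.cons (P.lf 0 609408930 0) (P.cons (P.lf 40743657 0 0) (P.lf 13581216 0 0)))) (P.cons (P.cons (P.lf 0 690474501 0) (P.cons (P.lf 207522234 0 0) (P.cons (P.lf 0 13874448 0) (P.lf 0 4624809 0)))) (P.cons (P.cons (P.lf 787607529 0 0) (P.cons (P.lf 69910146 0 0) (P.cons (P.lf 0 4674027 0) (P.lf 0 1558011 0)))) (P.cons (P.cons (P.lf 0 26958585 0) (P.cons (P.lf 0 37019277 0) (P.cons (P.lf 2475018 0 0) P.nil))) (P.cons (P.cons (P.lf 0 54427101 0) (P.cons (P.lf 1121412 0 0) P.nil)) (P.cons (P.cons (P.lf 7913829 0 0) P.nil) P.nil)))))) 8322135)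
 (EL.cons 8 (TM.mk (P.cons (P.cons (P.lf 0 1514235996 0) (P.cons (P.lf 0 322730070 0) (P.cons (P.lf 21576987 0 0) (P.lf 7192329 0 0)))) (P.cons (P.cons (P.lf 0 1040732979 0) (P.cons (P.lf 0 33979203 0) (P.cons (P.lf 2271765 0 0) (P.lf 757251 0 0)))) (P.cons (P.cons (P.lf 149759964 0 0) (P.cons (P.lf 63783630 0 0) (P.cons (P.lf 0 4264422 0) (P.lf 0 1421469 0)))) (P.cons (P.cons (P.lf 122091345 0 0) (P.cons (P.lf 0 726051 0) (P.cons (P.lf 48543 0 0) P.nil))) (P.cons (P.cons (P.lf 0 17041452 0) (P.cons (P.lf 0 4826892 0) P.nil)) (P.cons (P.cons (P.lf 0 5044800 0) P.nil) P.nil)))))) 5360118)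
 (EL.cons 11 (TM.mk (P.cons (P.cons (P.lf 1670316408 0 0) (P.cons (P.lf 0 258606924 0) (P.cons (P.lf 0 124588659 0) (P.cons (P.lf 4714800 0 0) (P.lf 1178700 0 0))))) (P.cons (P.cons (P.lf 0 656724534 0) (P.cons (P.lf 101677449 0 0) (P.cons (P.lf 48984987 0 0) (P.cons (P.lf 0 1853736 0) (P.lf 0 463434 0))))) (P.cons (P.cons (P.lf 10330179 0 0) (P.cons (P.lf 0 1599369 0) (P.cons (P.lf 0 770526 0) (P.cons (P.lf 29157 0 0) P.nil)))) (P.cons (P.cons (P.lf 24424860 0 0) (P.cons (P.lf 0 3781581 0) (P.cons (P.lf 0 1821846 0) P.nil))) (P.cons (P.cons (P.lf 0 2663805 0) (P.cons (P.lf 412422 0 0) P.nil)) (P.cons (P.cons (P.lf 0 304752 0) P.nil) P.nil)))))) 496941)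
 EL.nil)))
noncomputable def S314_372_512_660_22 : EL := (EL.cons 4 (TM.mk (P.cons (P.cons (P.lf 404098629 0 0) (P.cons (P.lf 328996704 0 0) (P.cons (P.lf 29767275 0 0) (P.cons (P.lf 0 14253519 0) (P.cons (P.lf 0 2075799 0) (P.cons (P.lf 154251 0 0) P.nil)))))) (P.cons (P.cons (P.lf 0 574473363 0) (P.cons (P.lf 0 257150889 0) (P.cons (P.lf 0 30962355 0) (P.cons (P.lf 12169872 0 0) (P.cons (P.lf 1931094 0 0) P.nil))))) (P.cons (P.cons (P.lf 0 392541780 0) (P.cons (P.lf 0 71610399 0) (P.cons (P.lf 12726105 0 0) (P.cons (P.lf 534417 0 0) P.nil)))) (P.cons (P.cons (P.lf 208794462 0 0) (P.cons (P.lf 92146833 0 0) (P.cons (P.lf 538071 0 0) P.nil))) (P.cons (P.cons (P.lf 47251569 0 0) (P.cons (P.lf 0 10535553 0) P.nil)) (P.cons (P.cons (P.lf 0 29963880 0) P.nil) P.nil)))))) 37592427)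
 (EL.cons 8 (TM.mk (P.cons (P.cons (P.lf 214002078 0 0) (P.cons (P.lf 174229689 0 0) (P.cons (P.lf 15764118 0 0) (P.cons (P.lf 0 7548363 0) (P.cons (P.lf 0 1099299 0) (P.cons (P.lf 81687 0 0) P.nil)))))) (P.cons (P.cons (P.lf 0 208823142 0) (P.cons (P.lf 0 58507092 0) (P.cons (P.lf 0 9369090 0) (P.cons (P.lf 3079722 0 0) (P.cons (P.lf 532581 0 0) P.nil))))) (P.cons (P.cons (P.lf 0 328768710 0) (P.cons (P.lf 0 86631999 0) (P.cons (P.lf 515469 0 0) (P.cons (P.lf 2636223 0 0) P.nil)))) (P.cons (P.cons (P.lf 383172 0 0) (P.cons (P.lf 25316349 0 0) (P.cons (P.lf 2413779 0 0) P.nil))) (P.cons (P.cons (P.lf 55760712 0 0) (P.cons (P.lf 11910489 0 0) P.nil)) (P.cons (P.cons (P.lf 0 1247739 0) P.nil) P.nil)))))) 22050639)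
 (EL.cons 11 (TM.mk (P.cons (P.cons (P.lf 0 236060418 0) (P.cons (P.lf 0 105328689 0) (P.cons (P.lf 49059348 0 0) (P.cons (P.lf 11609487 0 0) (P.cons (P.lf 0 1764114 0) (P.cons (P.lf 0 309183 0) P.nil)))))) (P.cons (P.cons (P.lf 485404521 0 0) (P.cons (P.lf 64302738 0 0) (P.cons (P.lf 0 67121145 0) (P.cons (P.lf 0 10696167 0) (P.cons (P.lf 1912809 0 0) P.nil))))) (P.cons (P.cons (P.lf 0 86334681 0) (P.cons (P.lf 0 29949531 0) (P.cons (P.lf 16042167 0 0) (P.cons (P.lf 3504222 0 0) P.nil)))) (P.cons (P.cons (P.lf 0 56725443 0) (P.cons (P.lf 7584336 0 0) (P.cons (P.lf 4496760 0 0) P.nil))) (P.cons (P.cons (P.lf 16888677 0 0) (P.cons (P.lf 1004832 0 0) P.nil)) (P.cons (P.cons (P.lf 1680732 0 0) P.nil) P.nil)))))) 9299943)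
 EL.nil)))
noncomputable def S314_372_512_660_23 : EL := (EL.cons 4 (TM.mk (P.cons (P.cons (P.lf 0 1698270354 0) (P.cons (P.lf 0 361953420 0) (P.cons (P.lf 24199359 0 0) (P.lf 8066451 0 0)))) (P.cons (P.cons (P.lf 0 833361996 0) (P.cons (P.lf 33046380 0 0) (P.cons (P.lf 0 2209401 0) (P.lf 0 736461 0)))) (P.cons (P.cons (P.lf 424985736 0 0) (P.cons (P.lf 84902193 0 0) (P.cons (P.lf 0 5676360 0) (P.lf 0 1892118 0)))) (P.cons (P.cons (P.lf 115857948 0 0) (P.cons (P.lf 0 15750195 0) (P.cons (P.lf 1053018 0 0) P.nil))) (P.cons (P.cons (P.lf 0 53364915 0) (P.cons (P.lf 0 6528492 0) P.nil)) (P.cons (P.cons (P.lf 0 3211002 0) P.nil) P.nil)))))) 11229057)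
 (EL.cons 8 (TM.mk (P.cons (P.cons (P.lf 0 899368017 0) (P.cons (P.lf 0 191682870 0) (P.cons (P.lf 12815472 0 0) (P.lf 4271823 0 0)))) (P.cons (P.cons (P.lf 0 842284509 0) (P.cons (P.lf 0 67954836 0) (P.cons (P.lf 4543299 0 0) (P.lf 1514430 0 0)))) (P.cons (P.cons (P.lf 0 33650904 0) (P.cons (P.lf 39558603 0 0) (P.cons (P.lf 0 2644794 0) (P.lf 0 881595 0)))) (P.cons (P.cons (P.lf 116801313 0 0) (P.cons (P.lf 9822222 0 0) (P.cons (P.lf 0 656688 0) P.nil))) (P.cons (P.cons (P.lf 4698426 0 0) (P.cons (P.lf 0 4391214 0) P.nil)) (P.cons (P.cons (P.lf 0 8402568 0) P.nil) P.nil)))))) 6755385)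
 (EL.cons 11 (TM.mk (P.cons (P.cons (P.lf 992070693 0 0) (P.cons (P.lf 0 153597453 0) (P.cons (P.lf 0 73998408 0) (P.cons (P.lf 2800314 0 0) (P.lf 700077 0 0))))) (P.cons (P.cons (P.lf 0 142802109 0) (P.cons (P.lf 22109352 0 0) (P.cons (P.lf 10651587 0 0) (P.cons (P.lf 0 403086 0) (P.lf 0 100770 0))))) (P.cons (P.cons (P.lf 0 125779119 0) (P.cons (P.lf 19473765 0 0) (P.cons (P.lf 9381846 0 0) (P.cons (P.lf 0 355035 0) P.nil)))) (P.cons (P.cons (P.lf 29132214 0 0) (P.cons (P.lf 0 4510395 0) (P.cons (P.lf 0 2172966 0) P.nil))) (P.cons (P.cons (P.lf 2566461 0 0) (P.cons (P.lf 0 397353 0) P.nil)) (P.cons (P.cons (P.lf 0 1332582 0) P.nil) P.nil)))))) 1286304)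
 EL.nil)))
noncomputable def S314_372_512_660_24 : EL := (EL.cons 4 (TM.mk (P.cons (P.cons (P.lf 240011058 0 0) (P.cons (P.lf 195404886 0 0) (P.cons (P.lf 17680029 0 0) (P.cons (P.lf 0 8465760 0) (P.cons (P.lf 0 1232904 0) (P.cons (P.lf 91617 0 0) P.nil)))))) (P.cons (P.cons (P.lf 0 281385714 0) (P.cons (P.lf 0 104031846 0) (P.cons (P.lf 0 13983438 0) (P.cons (P.lf 5118273 0 0) (P.cons (P.lf 839679 0 0) P.nil))))) (P.cons (P.cons (P.lf 0 326580411 0) (P.cons (P.lf 0 87432918 0) (P.cons (P.lf 2356845 0 0) (P.cons (P.lf 2415015 0 0) P.nil)))) (P.cons (P.cons (P.lf 77706750 0 0) (P.cons (P.lf 49363995 0 0) (P.cons (P.lf 2836896 0 0) P.nil))) (P.cons (P.cons (P.lf 67444290 0 0) (P.cons (P.lf 9059676 0 0) P.nil)) (P.cons (P.cons (P.lf 0 15203409 0) P.nil) P.nil)))))) 34970055)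
 (EL.cons 8 (TM.mk (P.cons (P.cons (P.lf 127104774 0 0) (P.cons (P.lf 103482291 0 0) (P.cons (P.lf 9362967 0 0) (P.cons (P.lf 0 4483287 0) (P.cons (P.lf 0 652920 0) (P.cons (P.lf 48516 0 0) P.nil)))))) (P.cons (P.cons (P.lf 0 92350431 0) (P.cons (P.lf 0 8958888 0) (P.cons (P.lf 0 3231159 0) (P.cons (P.lf 711804 0 0) (P.cons (P.lf 153594 0 0) P.nil))))) (P.cons (P.cons (P.lf 0 230627094 0) (P.cons (P.lf 0 63734691 0) (P.cons (P.lf 0 1408230 0) (P.cons (P.lf 2178465 0 0) P.nil)))) (P.cons (P.cons (P.lf 0 44171298 0) (P.cons (P.lf 3370845 0 0) (P.cons (P.lf 1699425 0 0) P.nil))) (P.cons (P.cons (P.lf 40142160 0 0) (P.cons (P.lf 12696165 0 0) P.nil)) (P.cons (P.cons (P.lf 7541532 0 0) P.nil) P.nil)))))) 18145911)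
 (EL.cons 11 (TM.mk (P.cons (P.cons (P.lf 0 140206143 0) (P.cons (P.lf 0 62559108 0) (P.cons (P.lf 29138394 0 0) (P.cons (P.lf 6895359 0 0) (P.cons (P.lf 0 1047780 0) (P.cons (P.lf 0 183636 0) P.nil)))))) (P.cons (P.cons (P.lf 253358409 0 0) (P.cons (P.lf 22600458 0 0) (P.cons (P.lf 0 32603880 0) (P.cons (P.lf 0 4634367 0) (P.cons (P.lf 874956 0 0) P.nil))))) (P.cons (P.cons (P.lf 25479969 0 0) (P.cons (P.lf 0 6081447 0) (P.cons (P.lf 0 1426920 0) (P.cons (P.lf 256782 0 0) P.nil)))) (P.cons (P.cons (P.lf 0 56478516 0) (P.cons (P.lf 0 1230096 0) (P.cons (P.lf 6423873 0 0) P.nil))) (P.cons (P.cons (P.lf 3193215 0 0) (P.cons (P.lf 2287062 0 0) P.nil)) (P.cons (P.cons (P.lf 4864998 0 0) P.nil) P.nil)))))) 9243246)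
 EL.nil)))
noncomputable def S314_372_512_660_25 : EL := (EL.cons 4 (TM.mk (P.cons (P.cons (P.lf 0 1008673710 0) (P.cons (P.lf 0 214979259 0) (P.cons (P.lf 14373009 0 0) (P.lf 4791000 0 0)))) (P.cons (P.cons (P.lf 0 746360505 0) (P.cons (P.lf 0 33951705 0) (P.cons (P.lf 2269932 0 0) (P.lf 756645 0 0)))) (P.cons (P.cons (P.lf 164337261 0 0) (P.cons (P.lf 62838348 0 0) (P.cons (P.lf 0 4201221 0) (P.lf 0 1400406 0)))) (P.cons (P.cons (P.lf 149592399 0 0) (P.cons (P.lf 2645295 0 0) (P.cons (P.lf 0 176859 0) P.nil))) (P.cons (P.cons (P.lf 0 23642751 0) (P.cons (P.lf 0 8099070 0) P.nil)) (P.cons (P.cons (P.lf 0 12580800 0) P.nil) P.nil)))))) 9941589)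
 (EL.cons 8 (TM.mk (P.cons (P.cons (P.lf 0 534172236 0) (P.cons (P.lf 0 113848464 0) (P.cons (P.lf 7611645 0 0) (P.lf 2537214 0 0)))) (P.cons (P.cons (P.lf 0 633399837 0) (P.cons (P.lf 0 68735697 0) (P.cons (P.lf 4595505 0 0) (P.lf 1531833 0 0)))) (P.cons (P.cons (P.lf 0 125984196 0) (P.cons (P.lf 17418486 0 0) (P.cons (P.lf 0 1164558 0) (P.lf 0 388185 0)))) (P.cons (P.cons (P.lf 82185090 0 0) (P.cons (P.lf 13164195 0 0) (P.cons (P.lf 0 880125 0) P.nil))) (P.cons (P.cons (P.lf 20768907 0 0) (P.cons (P.lf 0 2014824 0) P.nil)) (P.cons (P.cons (P.lf 0 6959169 0) P.nil) P.nil)))))) 7037223)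
 (EL.cons 11 (TM.mk (P.cons (P.cons (P.lf 589232229 0 0) (P.cons (P.lf 0 91227945 0) (P.cons (P.lf 0 43950744 0) (P.cons (P.lf 1663224 0 0) (P.lf 415806 0 0))))) (P.cons (P.cons (P.lf 62038356 0 0) (P.cons (P.lf 0 9605094 0) (P.cons (P.lf 0 4627431 0) (P.cons (P.lf 175113 0 0) (P.lf 43776 0 0))))) (P.cons (P.cons (P.lf 0 116454510 0) (P.cons (P.lf 18030081 0 0) (P.cons (P.lf 8686323 0 0) (P.cons (P.lf 0 328716 0) P.nil)))) (P.cons (P.cons (P.lf 1325595 0 0) (P.cons (P.lf 0 205233 0) (P.cons (P.lf 0 98874 0) P.nil))) (P.cons (P.cons (P.lf 8812815 0 0) (P.cons (P.lf 0 1364445 0) P.nil)) (P.cons (P.cons (P.lf 0 1043133 0) P.nil) P.nil)))))) 1873311)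
 EL.nil)))
noncomputable def S314_372_512_660_26 : EL := (EL.cons 4 (TM.mk (P.cons (P.cons (P.lf 142552593 0 0) (P.cons (P.lf 116059125 0 0) (P.cons (P.lf 10500906 0 0) (P.cons (P.lf 0 5028168 0) (P.cons (P.lf 0 732273 0) (P.cons (P.lf 54414 0 0) P.nil)))))) (P.cons (P.cons (P.lf 0 131598312 0) (P.cons (P.lf 0 32863413 0) (P.cons (P.lf 0 5688204 0) (P.cons (P.lf 1786782 0 0) (P.cons (P.lf 316215 0 0) P.nil))))) (P.cons (P.cons (P.lf 0 240609021 0) (P.cons (P.lf 0 71389257 0) (P.cons (P.lf 0 1037415 0) (P.cons (P.lf 2367903 0 0) P.nil)))) (P.cons (P.cons (P.lf 3577302 0 0) (P.cons (P.lf 18474024 0 0) (P.cons (P.lf 2318544 0 0) P.nil))) (P.cons (P.cons (P.lf 58514208 0 0) (P.cons (P.lf 14600985 0 0) P.nil)) (P.cons (P.cons (P.lf 0 648648 0) P.nil) P.nil)))))) 27462906)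
 (EL.cons 8 (TM.mk (P.cons (P.cons (P.lf 75492834 0 0) (P.cons (P.lf 61462455 0 0) (P.cons (P.lf 5561058 0 0) (P.cons (P.lf 0 2662812 0) (P.cons (P.lf 0 387795 0) (P.cons (P.lf 28815 0 0) P.nil)))))) (P.cons (P.cons (P.lf 0 36035682 0) (P.cons (P.lf 9997242 0 0) (P.cons (P.lf 0 533136 0) (P.cons (P.lf 0 240882 0) (P.cons (P.lf 0 5421 0) P.nil))))) (P.cons (P.cons (P.lf 0 153290142 0) (P.cons (P.lf 0 41330712 0) (P.cons (P.lf 0 1509225 0) (P.cons (P.lf 1492389 0 0) P.nil)))) (P.cons (P.cons (P.lf 0 58497573 0) (P.cons (P.lf 0 7280238 0) (P.cons (P.lf 864960 0 0) P.nil))) (P.cons (P.cons (P.lf 22165566 0 0) (P.cons (P.lf 9399774 0 0) P.nil)) (P.cons (P.cons (P.lf 11382375 0 0) P.nil) P.nil)))))) 13635369)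
 (EL.cons 11 (TM.mk (P.cons (P.cons (P.lf 0 83274285 0) (P.cons (P.lf 0 37156467 0) (P.cons (P.lf 17306511 0 0) (P.cons (P.lf 4095441 0 0) (P.cons (P.lf 0 622320 0) (P.cons (P.lf 0 109068 0) P.nil)))))) (P.cons (P.cons (P.lf 129725673 0 0) (P.cons (P.lf 4162839 0 0) (P.cons (P.lf 0 15051501 0) (P.cons (P.lf 0 1731837 0) (P.cons (P.lf 364572 0 0) P.nil))))) (P.cons (P.cons (P.lf 55550607 0 0) (P.cons (P.lf 1033146 0 0) (P.cons (P.lf 0 6279153 0) (P.cons (P.lf 0 676755 0) P.nil)))) (P.cons (P.cons (P.lf 0 34990776 0) (P.cons (P.lf 0 2079855 0) (P.cons (P.lf 4271979 0 0) P.nil))) (P.cons (P.cons (P.lf 0 7120893 0) (P.cons (P.lf 1275285 0 0) P.nil)) (P.cons (P.cons (P.lf 4611081 0 0) P.nil) P.nil)))))) 7767288)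
 EL.nil)))
noncomputable def S314_372_512_660_27 : EL := (EL.cons 13 (TM.mk (P.lf 0 4294967296 0) 0)
 EL.nil)
noncomputable def S314_372_512_660_28 : EL := (EL.cons 13 (TM.mk (P.cons (P.cons (P.lf 606993844 0 0) (P.cons (P.lf 364814768 0 0) (P.cons (P.lf 0 24390664 0) (P.lf 0 8130220 0)))) (P.cons (P.cons (P.lf 0 1009490652 0) (P.cons (P.lf 0 215153376 0) (P.cons (P.lf 14384652 0 0) (P.lf 4794880 0 0)))) (P.cons (P.cons (P.lf 0 178662553 0) (P.cons (P.lf 24532492 0 0) (P.cons (P.lf 0 1640184 0) (P.lf 0 546724 0)))) (P.cons (P.cons (P.lf 72982772 0 0) (P.cons (P.lf 8722472 0 0) (P.cons (P.lf 0 583164 0) P.nil))) (P.cons (P.cons (P.lf 2102864 0 0) (P.cons (P.lf 0 2301624 0) P.nil)) (P.cons (P.cons (P.lf 0 2832947 0) P.nil) P.nil)))))) 1477378)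
 EL.nil)
noncomputable def S314_372_512_660_29 : EL := (EL.cons 13 (TM.mk (P.cons (P.cons (P.lf 0 85784477 0) (P.cons (P.lf 0 103116183 0) (P.cons (P.lf 0 24093279 0) (P.cons (P.lf 6441524 0 0) (P.cons (P.lf 1242650 0 0) (P.cons (P.lf 0 92341 0) P.nil)))))) (P.cons (P.cons (P.lf 285336101 0 0) (P.cons (P.lf 232306249 0 0) (P.cons (P.lf 21018826 0 0) (P.cons (P.lf 0 10064482 0) (P.cons (P.lf 0 1465732 0) P.nil))))) (P.cons (P.cons (P.lf 0 186771442 0) (P.cons (P.lf 0 77722433 0) (P.cons (P.lf 0 9749200 0) (P.cons (P.lf 3730558 0 0) P.nil)))) (P.cons (P.cons (P.lf 0 104614659 0) (P.cons (P.lf 0 21231458 0) (P.cons (P.lf 2395587 0 0) P.nil))) (P.cons (P.cons (P.lf 26281385 0 0) (P.cons (P.lf 13746645 0 0) P.nil)) (P.cons (P.cons (P.lf 7861150 0 0) P.nil) P.nil)))))) 15138532)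
 EL.nil)
noncomputable def S314_372_512_660_30 : EL := (EL.cons 13 (TM.mk (P.cons (P.lf 0 2550960508 0) (P.cons (P.lf 0 635776524 0) (P.cons (P.lf 89228036 0 0) (P.cons (P.lf 1407440 0 0) (P.cons (P.lf 0 1369092 0) (P.cons (P.lf 95416 0 0) P.nil)))))) 28012)
 EL.nil)
noncomputable def S314_372_512_660_31 : EL := (EL.cons 13 (TM.mk (P.cons (P.cons (P.lf 360519002 0 0) (P.cons (P.lf 216678731 0 0) (P.cons (P.lf 0 14486634 0) (P.lf 0 4828877 0)))) (P.cons (P.cons (P.lf 0 509726430 0) (P.cons (P.lf 0 73785684 0) (P.cons (P.lf 4933138 0 0) (P.lf 1644377 0 0)))) (P.cons (P.cons (P.lf 0 268158606 0) (P.cons (P.lf 0 24856941 0) (P.cons (P.lf 1661877 0 0) (P.lf 553960 0 0)))) (P.cons (P.cons (P.lf 37673691 0 0) (P.cons (P.lf 13162410 0 0) (P.cons (P.lf 0 880007 0) P.nil))) (P.cons (P.cons (P.lf 16288504 0 0) (P.cons (P.lf 0 398725 0) P.nil)) (P.cons (P.cons (P.lf 0 3164270 0) P.nil)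 P.nil)))))) 2829635)
 EL.nil)
noncomputable def S314_372_512_660_32 : EL := (EL.cons 13 (TM.mk (P.cons (P.cons (P.lf 0 50950984 0) (P.cons (P.lf 0 61245008 0) (P.cons (P.lf 0 14310004 0) (P.cons (P.lf 3825890 0 0) (P.cons (P.lf 738061 0 0) (P.cons (P.lf 0 54845 0) P.nil)))))) (P.cons (P.cons (P.lf 156774504 0 0) (P.cons (P.lf 122712277 0 0) (P.cons (P.lf 8917472 0 0) (P.cons (P.lf 0 5024188 0) (P.cons (P.lf 0 686612 0) P.nil))))) (P.cons (P.cons (P.lf 0 66911382 0) (P.cons (P.lf 0 9632469 0) (P.cons (P.lf 0 2178538 0) (P.cons (P.lf 592083 0 0) P.nil)))) (P.cons (P.cons (P.lf 0 95682219 0) (P.cons (P.lf 0 28907742 0) (P.cons (P.lf 0 449089 0) P.nil))) (P.cons (P.cons (P.lf 3883019 0 0) (P.cons (P.lf 6527540 0 0) P.nil)) (P.cons (P.cons (P.lf 10886890 0 0) P.nil) P.nil)))))) 18299655)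
 EL.nil)
noncomputable def S314_372_512_660_33 : EL := (EL.cons 14 (TM.mk (P.lf 8589934592 0 0) 0)
 EL.nil)
noncomputable def S314_372_512_660_34 : EL := (EL.cons 14 (TM.mk (P.cons (P.cons (P.lf 0 1213987688 0) (P.cons (P.lf 0 729629536 0) (P.cons (P.lf 48781328 0 0) (P.lf 16260440 0 0)))) (P.cons (P.cons (P.lf 2018981304 0 0) (P.cons (P.lf 430306752 0 0) (P.cons (P.lf 0 28769304 0) (P.lf 0 9589760 0)))) (P.cons (P.cons (P.lf 357325106 0 0) (P.cons (P.lf 0 49064984 0) (P.cons (P.lf 3280368 0 0) (P.lf 1093448 0 0)))) (P.cons (P.cons (P.lf 0 145965544 0) (P.cons (P.lf 0 17444944 0) (P.cons (P.lf 1166328 0 0) P.nil))) (P.cons (P.cons (P.lf 0 4205728 0) (P.cons (P.lf 4603248 0 0) P.nil)) (P.cons (P.cons (P.lf 5665894 0 0) P.nil) P.nil)))))) 2954756)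
 EL.nil)
noncomputable def S314_372_512_660_35 : EL := (EL.cons 14 (TM.mk (P.cons (P.cons (P.lf 171568954 0 0) (P.cons (P.lf 206232366 0 0) (P.cons (P.lf 48186558 0 0) (P.cons (P.lf 0 12883048 0) (P.cons (P.lf 0 2485300 0) (P.cons (P.lf 184682 0 0) P.nil)))))) (P.cons (P.cons (P.lf 0 570672202 0) (P.cons (P.lf 0 464612498 0) (P.cons (P.lf 0 42037652 0) (P.cons (P.lf 20128964 0 0) (P.cons (P.lf 2931464 0 0) P.nil))))) (P.cons (P.cons (P.lf 373542884 0 0) (P.cons (P.lf 155444866 0 0) (P.cons (P.lf 19498400 0 0) (P.cons (P.lf 0 7461116 0) P.nil)))) (P.cons (P.cons (P.lf 209229318 0 0) (P.cons (P.lf 42462916 0 0) (P.cons (P.lf 0 4791174 0) P.nil))) (P.cons (P.cons (P.lf 0 52562770 0) (P.cons (P.lf 0 27493290 0) P.nil)) (P.cons (P.cons (P.lf 0 15722300 0) P.nil) P.nil)))))) 30277064)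
 EL.nil)
noncomputable def S314_372_512_660_36 : EL := (EL.cons 14 (TM.mk (P.cons (P.lf 5101921016 0 0) (P.cons (P.lf 1271553048 0 0) (P.cons (P.lf 0 178456072 0) (P.cons (P.lf 0 2814880 0) (P.cons (P.lf 2738184 0 0) (P.cons (P.lf 0 190832 0) P.nil)))))) 56024)
 EL.nil)
noncomputable def S314_372_512_660_37 : EL := (EL.cons 14 (TM.mk (P.cons (P.cons (P.lf 0 721038004 0) (P.cons (P.lf 0 433357462 0) (P.cons (P.lf 28973268 0 0) (P.lf 9657754 0 0)))) (P.cons (P.cons (P.lf 1019452860 0 0) (P.cons (P.lf 147571368 0 0) (P.cons (P.lf 0 9866276 0) (P.lf 0 3288754 0)))) (P.cons (P.cons (P.lf 536317212 0 0) (P.cons (P.lf 49713882 0 0) (P.cons (P.lf 0 3323754 0) (P.lf 0 1107920 0)))) (P.cons (P.cons (P.lf 0 75347382 0) (P.cons (P.lf 0 26324820 0) (P.cons (P.lf 1760014 0 0) P.nil))) (P.cons (P.cons (P.lf 0 32577008 0) (P.cons (P.lf 797450 0 0) P.nil)) (P.cons (P.cons (P.lf 6328540 0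 0) P.nil) P.nil)))))) 5659270)
 EL.nil)
noncomputable def S314_372_512_660_38 : EL := (EL.cons 14 (TM.mk (P.cons (P.cons (P.lf 101901968 0 0) (P.cons (P.lf 122490016 0 0) (P.cons (P.lf 28620008 0 0) (P.cons (P.lf 0 7651780 0) (P.cons (P.lf 0 1476122 0) (P.cons (P.lf 109690 0 0) P.nil)))))) (P.cons (P.cons (P.lf 0 313549008 0) (P.cons (P.lf 0 245424554 0) (P.cons (P.lf 0 17834944 0) (P.cons (P.lf 10048376 0 0) (P.cons (P.lf 1373224 0 0) P.nil))))) (P.cons (P.cons (P.lf 133822764 0 0) (P.cons (P.lf 19264938 0 0) (P.cons (P.lf 4357076 0 0) (P.cons (P.lf 0 1184166 0) P.nil)))) (P.cons (P.cons (P.lf 191364438 0 0) (P.cons (P.lf 57815484 0 0) (P.cons (P.lf 898178 0 0) P.nil))) (P.cons (P.cons (P.lf 0 7766038 0) (P.cons (P.lf 0 13055080 0) P.nil)) (P.cons (P.cons (P.lf 0 21773780 0) P.nil) P.nil)))))) 36599310)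
 EL.nil)
noncomputable def S314_372_512_660_39 : EL := (EL.cons 14 (TM.mk (P.cons (P.lf 3030244034 0 0) (P.cons (P.lf 1510456952 0 0) (P.cons (P.lf 0 23759250 0) (P.cons (P.lf 0 56176832 0) (P.cons (P.lf 6126708 0 0) (P.cons (P.lf 700928 0 0) P.nil)))))) 267590)
 EL.nil)
noncomputable def S314_372_512_660_40 : EL := (EL.cons 14 (TM.mk (P.cons (P.cons (P.lf 0 428254592 0) (P.cons (P.lf 0 257389100 0) (P.cons (P.lf 17208434 0 0) (P.lf 5736142 0 0)))) (P.cons (P.cons (P.lf 498761644 0 0) (P.cons (P.lf 23499650 0 0) (P.cons (P.lf 0 1571130 0) (P.lf 0 523708 0)))) (P.cons (P.cons (P.lf 484428606 0 0) (P.cons (P.lf 60374894 0 0) (P.cons (P.lf 0 4036524 0) (P.lf 0 1345508 0)))) (P.cons (P.cons (P.lf 13695268 0 0) (P.cons (P.lf 0 11200140 0) (P.cons (P.lf 748814 0 0) P.nil))) (P.cons (P.cons (P.lf 0 42208300 0) (P.cons (P.lf 0 4642482 0) P.nil)) (P.cons (P.cons (P.lf 667048 0 0)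 P.nil) P.nil)))))) 7078506)
 EL.nil)
noncomputable def S314_372_512_660_41 : EL := (EL.cons 14 (TM.mk (P.cons (P.cons (P.lf 60523836 0 0) (P.cons (P.lf 72751938 0 0) (P.cons (P.lf 16998618 0 0) (P.cons (P.lf 0 4544712 0) (P.cons (P.lf 0 876730 0) (P.cons (P.lf 65148 0 0) P.nil)))))) (P.cons (P.cons (P.lf 0 171145484 0) (P.cons (P.lf 0 127635912 0) (P.cons (P.lf 0 6356348 0) (P.cons (P.lf 4835470 0 0) (P.cons (P.lf 597106 0 0) P.nil))))) (P.cons (P.cons (P.lf 30951800 0 0) (P.cons (P.lf 0 27432248 0) (P.cons (P.lf 0 646806 0) (P.cons (P.lf 943082 0 0) P.nil)))) (P.cons (P.cons (P.lf 139949480 0 0) (P.cons (P.lf 42249348 0 0) (P.cons (P.lf 1539578 0 0) P.nil))) (P.cons (P.cons (P.lf 21069830 0 0) (P.cons (P.lf 523608 0 0) P.nil)) (P.cons (P.cons (P.lf 0 18203616 0) P.nil) P.nil)))))) 32511648)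
 EL.nil)
noncomputable def S314_372_512_660_42 : EL := (EL.cons 14 (TM.mk (P.cons (P.lf 1799788526 0 0) (P.cons (P.lf 1345685228 0 0) (P.cons (P.lf 146525314 0 0) (P.cons (P.lf 0 69255578 0) (P.cons (P.lf 0 3712280 0) (P.cons (P.lf 2912260 0 0) P.nil)))))) 563866)
 EL.nil)
noncomputable def S314_372_512_660_43 : EL := (EL.cons 14 (TM.mk (P.cons (P.cons (P.lf 0 254358294 0) (P.cons (P.lf 0 152874140 0) (P.cons (P.lf 10220808 0 0) (P.lf 3406934 0 0)))) (P.cons (P.cons (P.lf 232841596 0 0) (P.cons (P.lf 0 24143434 0) (P.cons (P.lf 1614174 0 0) (P.lf 538058 0 0)))) (P.cons (P.cons (P.lf 370450202 0 0) (P.cons (P.lf 44685048 0 0) (P.cons (P.lf 0 2987538 0) (P.lf 0 995846 0)))) (P.cons (P.cons (P.lf 69621868 0 0) (P.cons (P.lf 1881098 0 0) (P.cons (P.lf 0 125766 0) P.nil))) (P.cons (P.cons (P.lf 0 33405956 0) (P.cons (P.lf 0 5759338 0) P.nil)) (P.cons (P.cons (P.lf 0 6126594 0)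 P.nil) P.nil)))))) 8371024)
 EL.nil)
noncomputable def S314_372_512_660_44 : EL := (EL.cons 14 (TM.mk (P.cons (P.cons (P.lf 35947634 0 0) (P.cons (P.lf 43210414 0 0) (P.cons (P.lf 10096190 0 0) (P.cons (P.lf 0 2699294 0) (P.cons (P.lf 0 520726 0) (P.cons (P.lf 38694 0 0) P.nil)))))) (P.cons (P.cons (P.lf 0 92691214 0) (P.cons (P.lf 0 65038956 0) (P.cons (P.lf 0 1259024 0) (P.cons (P.lf 2199242 0 0) (P.cons (P.lf 224864 0 0) P.nil))))) (P.cons (P.cons (P.lf 0 8208182 0) (P.cons (P.lf 0 36698302 0) (P.cons (P.lf 0 1678230 0) (P.cons (P.lf 1370338 0 0) P.nil)))) (P.cons (P.cons (P.lf 91239300 0 0) (P.cons (P.lf 23660702 0 0) (P.cons (P.lf 945156 0 0) P.nil))) (P.cons (P.cons (P.lf 32663082 0 0) (P.cons (P.lf 7200012 0 0) P.nil)) (P.cons (P.cons (P.lf 0 10666454 0) P.nil) P.nil)))))) 30932358)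
 EL.nil)
noncomputable def S314_372_512_660_45 : EL := (EL.cons 14 (TM.mk (P.cons (P.cons (P.lf 0 24247284 0) (P.cons (P.lf 0 43719230 0) (P.cons (P.lf 0 23353116 0) (P.cons (P.lf 0 776302 0) (P.cons (P.lf 2109562 0 0) (P.cons (P.lf 203054 0 0) P.nil)))))) (P.cons (P.cons (P.lf 120976884 0 0) (P.cons (P.lf 171202666 0 0) (P.cons (P.lf 63246704 0 0) (P.cons (P.lf 0 4489242 0) (P.cons (P.lf 0 4863406 0) P.nil))))) (P.cons (P.cons (P.lf 0 179785660 0) (P.cons (P.lf 0 183888494 0) (P.cons (P.lf 0 44189516 0) (P.cons (P.lf 5096008 0 0) P.nil)))) (P.cons (P.cons (P.lf 31573652 0 0) (P.cons (P.lf 11554852 0 0) (P.cons (P.lf 8850116 0 0) P.nil))) (P.cons (P.cons (P.lf 81757756 0 0) (P.cons (P.lf 42189394 0 0) P.nil)) (P.cons (P.cons (P.lf 0 7383744 0) P.nil) P.nil)))))) 83138156)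
 EL.nil)
noncomputable def S314_372_512_660_46 : EL := (EL.cons 15 (TM.mk (P.lf 4294967296 0 0) 0)
 EL.nil)
noncomputable def S314_372_512_660_47 : EL := (EL.cons 15 (TM.mk (P.cons (P.cons (P.lf 0 606993844 0) (P.cons (P.lf 0 364814768 0) (P.cons (P.lf 24390664 0 0) (P.lf 8130220 0 0)))) (P.cons (P.cons (P.lf 1009490652 0 0) (P.cons (P.lf 215153376 0 0) (P.cons (P.lf 0 14384652 0) (P.lf 0 4794880 0)))) (P.cons (P.cons (P.lf 178662553 0 0) (P.cons (P.lf 0 24532492 0) (P.cons (P.lf 1640184 0 0) (P.lf 546724 0 0)))) (P.cons (P.cons (P.lf 0 72982772 0) (P.cons (P.lf 0 8722472 0) (P.cons (P.lf 583164 0 0) P.nil))) (P.cons (P.cons (P.lf 0 2102864 0) (P.cons (P.lf 2301624 0 0) P.nil)) (P.cons (P.cons (P.lf 2832947 0 0) P.nil) P.nil)))))) 1477378)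
 EL.nil)
noncomputable def S314_372_512_660_48 : EL := (EL.cons 15 (TM.mk (P.cons (P.cons (P.lf 85784477 0 0) (P.cons (P.lf 103116183 0 0) (P.cons (P.lf 24093279 0 0) (P.cons (P.lf 0 6441524 0) (P.cons (P.lf 0 1242650 0) (P.cons (P.lf 92341 0 0) P.nil)))))) (P.cons (P.cons (P.lf 0 285336101 0) (P.cons (P.lf 0 232306249 0) (P.cons (P.lf 0 21018826 0) (P.cons (P.lf 10064482 0 0) (P.cons (P.lf 1465732 0 0) P.nil))))) (P.cons (P.cons (P.lf 186771442 0 0) (P.cons (P.lf 77722433 0 0) (P.cons (P.lf 9749200 0 0) (P.cons (P.lf 0 3730558 0) P.nil)))) (P.cons (P.cons (P.lf 104614659 0 0) (P.cons (P.lf 21231458 0 0) (P.cons (P.lf 0 2395587 0) P.nil))) (P.cons (P.cons (P.lf 0 26281385 0) (P.cons (P.lf 0 13746645 0) P.nil)) (P.cons (P.cons (P.lf 0 7861150 0) P.nil) P.nil)))))) 15138532)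
 EL.nil)
noncomputable def S314_372_512_660 : SL := (SL.cons S314_372_512_660_0 (SL.cons S314_372_512_660_1 (SL.cons S314_372_512_660_2 (SL.cons S314_372_512_660_3 (SL.cons S314_372_512_660_4 (SL.cons S314_372_512_660_5 (SL.cons S314_372_512_660_6 (SL.cons S314_372_512_660_7 (SL.cons S314_372_512_660_8 (SL.cons S314_372_512_660_9 (SL.cons S314_372_512_660_10 (SL.cons S314_372_512_660_11 (SL.cons S314_372_512_660_12 (SL.cons S314_372_512_660_13 (SL.cons S314_372_512_660_14 (SL.cons S314_372_512_660_15 (SL.cons S314_372_512_660_16 (SL.cons S314_372_512_660_17 (SL.cons S314_372_512_660_18 (SL.cons S314_372_512_660_19 (SL.cons S314_372_512_660_20 (SL.cons S314_372_512_660_21 (SL.cons S314_372_512_660_22 (SL.cons S314_372_512_660_23 (SL.cons S314_372_512_660_24 (SL.cons S314_372_512_660_25 (SL.cons S314_372_512_660_26 (SL.cons S314_372_512_660_27 (SL.cons S314_372_512_660_28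 (SL.cons S314_372_512_660_29 (SL.cons S314_372_512_660_30 (SL.cons S314_372_512_660_31 (SL.cons S314_372_512_660_32 (SL.cons S314_372_512_660_33 (SL.cons S314_372_512_660_34 (SL.cons S314_372_512_660_35 (SL.cons S314_372_512_660_36 (SL.cons S314_372_512_660_37 (SL.cons S314_372_512_660_38 (SL.cons S314_372_512_660_39 (SL.cons S314_372_512_660_40 (SL.cons S314_372_512_660_41 (SL.cons S314_372_512_660_42 (SL.cons S314_372_512_660_43 (SL.cons S314_372_512_660_44 (SL.cons S314_372_512_660_45 (SL.cons S314_372_512_660_46 (SL.cons S314_372_512_660_47 (SL.cons S314_372_512_660_48 SL.nil)))))))))))))))))))))))))))))))))))))))))))))))))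
noncomputable def S314_372_660_734_0 : EL := (EL.cons 0 (TM.mk (P.cons (P.lf 5792416443 0 0) (P.cons (P.lf 0 1327550055 0) (P.cons (P.lf 20882153 0 0) (P.cons (P.lf 49374168 0 0) (P.cons (P.lf 0 5384801 0) (P.cons (P.lf 0 616050 0) P.nil)))))) 235193)
 (EL.cons 1 (TM.mk (P.cons (P.lf 1788121471 0 0) (P.cons (P.lf 94132764 0 0) (P.cons (P.lf 0 179177853 0) (P.cons (P.lf 11443897 0 0) (P.cons (P.lf 3792305 0 0) (P.cons (P.lf 0 635690 0) P.nil)))))) 110845)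
 (EL.cons 5 (TM.mk (P.cons (P.lf 5241918562 0 0) (P.cons (P.lf 472017796 0 0) (P.cons (P.lf 0 7424770 0) (P.cons (P.lf 0 17555260 0) (P.cons (P.lf 1914598 0 0) (P.cons (P.lf 219040 0 0) P.nil)))))) 72457)
 (EL.cons 9 (TM.mk (P.lf 6442450944 0 0) 2)
 EL.nil))))
noncomputable def S314_372_660_734_1 : EL := (EL.cons 0 (TM.mk (P.cons (P.cons (P.lf 2603497560 0 0) (P.cons (P.lf 60569112 0 0) (P.cons (P.lf 0 7799543 0) (P.lf 0 519958 0)))) (P.cons (P.cons (P.lf 3546137177 0 0) (P.cons (P.lf 110643405 0 0) (P.cons (P.lf 0 14247675 0) (P.lf 0 949844 0)))) (P.cons (P.cons (P.lf 0 1202911853 0) (P.cons (P.lf 0 84549349 0) (P.cons (P.lf 10887504 0 0) (P.lf 725829 0 0)))) (P.cons (P.cons (P.lf 0 344660658 0) (P.cons (P.lf 7204880 0 0) (P.cons (P.lf 0 927766 0) P.nil))) (P.cons (P.cons (P.lf 159589901 0 0) (P.cons (P.lf 6766618 0 0) P.nil)) (P.cons (P.cons (P.lf 4603834 0 0) P.nil) P.nil))))))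 21501824)
 (EL.cons 1 (TM.mk (P.cons (P.cons (P.lf 0 733373588 0) (P.cons (P.lf 0 64901392 0) (P.cons (P.lf 8357416 0 0) (P.lf 557155 0 0)))) (P.cons (P.cons (P.lf 1489716559 0 0) (P.cons (P.lf 86853759 0 0) (P.cons (P.lf 0 11184250 0) (P.lf 0 745611 0)))) (P.cons (P.cons (P.lf 499626271 0 0) (P.cons (P.lf 0 4148056 0) (P.cons (P.lf 534145 0 0) (P.lf 35608 0 0)))) (P.cons (P.cons (P.lf 0 304588511 0) (P.cons (P.lf 0 14440399 0) (P.cons (P.lf 1859495 0 0) P.nil))) (P.cons (P.cons (P.lf 0 24510264 0) (P.cons (P.lf 2992171 0 0) P.nil)) (P.cons (P.cons (P.lf 24318022 0 0) P.nil) P.nil)))))) 11198428)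
 (EL.cons 5 (TM.mk (P.cons (P.cons (P.lf 0 2747913784 0) (P.cons (P.lf 0 222784894 0) (P.cons (P.lf 28688254 0 0) (P.lf 1912548 0 0)))) (P.cons (P.cons (P.lf 921394506 0 0) (P.cons (P.lf 79348970 0 0) (P.cons (P.lf 0 10217856 0) (P.lf 0 681186 0)))) (P.cons (P.cons (P.lf 678281037 0 0) (P.cons (P.lf 16528696 0 0) (P.cons (P.lf 0 2128416 0) (P.lf 0 141892 0)))) (P.cons (P.cons (P.lf 0 20421118 0) (P.cons (P.lf 0 7373468 0) (P.cons (P.lf 949486 0 0) P.nil))) (P.cons (P.cons (P.lf 0 55331697 0) (P.cons (P.lf 0 1136218 0) P.nil)) (P.cons (P.cons (P.lf 3243712 0 0) P.nil) P.nil)))))) 8369596)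
 (EL.cons 9 (TM.mk (P.cons (P.cons (P.lf 0 1607846250 0) (P.cons (P.lf 0 177572826 0) (P.cons (P.lf 22866246 0 0) (P.lf 1524414 0 0)))) (P.cons (P.cons (P.lf 1925508762 0 0) (P.cons (P.lf 104725452 0 0) (P.cons (P.lf 0 13485612 0) (P.lf 0 899040 0)))) (P.cons (P.cons (P.lf 221099155 0 0) (P.cons (P.lf 0 11941140 0) (P.cons (P.lf 1537668 0 0) (P.lf 102510 0 0)))) (P.cons (P.cons (P.lf 0 126147456 0) (P.cons (P.lf 0 4245642 0) (P.cons (P.lf 546714 0 0) P.nil))) (P.cons (P.cons (P.lf 1245334 0 0) (P.cons (P.lf 1120308 0 0) P.nil)) (P.cons (P.cons (P.lf 4306420 0 0) P.nil) P.nil)))))) 1517248)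
 (EL.cons 2 (TM.mk (P.cons (P.cons (P.lf 0 570162476 0) (P.cons (P.lf 162768501 0 0) (P.cons (P.lf 12174820 0 0) (P.cons (P.lf 0 820403 0) (P.lf 0 41017 0))))) (P.cons (P.cons (P.lf 82071168 0 0) (P.cons (P.lf 0 23429463 0) (P.cons (P.lf 0 1752485 0) (P.cons (P.lf 118088 0 0) (P.lf 5900 0 0))))) (P.cons (P.cons (P.lf 72287727 0 0) (P.cons (P.lf 0 20636510 0) (P.cons (P.lf 0 1543578 0) (P.cons (P.lf 104014 0 0) P.nil)))) (P.cons (P.cons (P.lf 0 16742851 0) (P.cons (P.lf 4779705 0 0) (P.cons (P.lf 357513 0 0) P.nil))) (P.cons (P.cons (P.lf 0 1474995 0) (P.cons (P.lf 421076 0 0) P.nil)) (P.cons (P.cons (P.lf 765860 0 0) P.nil) P.nil)))))) 526346)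
 (EL.cons 6 (TM.mk (P.cons (P.cons (P.lf 382803141 0 0) (P.cons (P.lf 0 109281645 0) (P.cons (P.lf 0 8174088 0) (P.cons (P.lf 550812 0 0) (P.lf 27540 0 0))))) (P.cons (P.cons (P.lf 0 225762207 0) (P.cons (P.lf 64450008 0 0) (P.cons (P.lf 4820754 0 0) (P.cons (P.lf 0 324846 0) (P.lf 0 16239 0))))) (P.cons (P.cons (P.lf 25742145 0 0) (P.cons (P.lf 0 7348800 0) (P.cons (P.lf 0 549675 0) (P.cons (P.lf 37038 0 0) P.nil)))) (P.cons (P.cons (P.lf 9152562 0 0) (P.cons (P.lf 0 2612850 0) (P.cons (P.lf 0 195435 0) P.nil))) (P.cons (P.cons (P.lf 0 2415114 0) (P.cons (P.lf 689460 0 0) P.nil)) (P.cons (P.cons (P.lf 0 31287 0) P.nil) P.nil)))))) 293541)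
 EL.nil))))))
noncomputable def S314_372_660_734_2 : EL := (EL.cons 0 (TM.mk (P.cons (P.cons (P.lf 0 1660296235 0) (P.cons (P.lf 0 253443445 0) (P.cons (P.lf 24896668 0 0) (P.cons (P.lf 4168978 0 0) (P.cons (P.lf 4535 0 0) (P.cons (P.lf 0 17100 0) P.nil)))))) (P.cons (P.cons (P.lf 733048798 0 0) (P.cons (P.lf 30835601 0 0) (P.cons (P.lf 0 1901726 0) (P.cons (P.lf 0 797564 0) (P.cons (P.lf 0 1207 0) P.nil))))) (P.cons (P.cons (P.lf 2281299477 0 0) (P.cons (P.lf 200830391 0 0) (P.cons (P.lf 0 21155618 0) (P.cons (P.lf 0 2935936 0) P.nil)))) (P.cons (P.cons (P.lf 0 485124061 0) (P.cons (P.lf 0 82351491 0) (P.cons (P.lf 7574778 0 0) P.nil))) (P.cons (P.cons (P.lf 0 398175642 0) (P.cons (P.lf 0 18239535 0) P.nil)) (P.cons (P.cons (P.lf 111383527 0 0) P.nil) P.nil)))))) 118390722)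
 (EL.cons 1 (TM.mk (P.cons (P.cons (P.lf 254682951 0 0) (P.cons (P.lf 48222195 0 0) (P.cons (P.lf 0 3990341 0) (P.cons (P.lf 0 985529 0) (P.cons (P.lf 0 1300 0) (P.cons (P.lf 4903 0 0) P.nil)))))) (P.cons (P.cons (P.lf 0 921064500 0) (P.cons (P.lf 0 145437821 0) (P.cons (P.lf 13361102 0 0) (P.cons (P.lf 2630788 0 0) (P.cons (P.lf 3153 0 0) P.nil))))) (P.cons (P.cons (P.lf 486870454 0 0) (P.cons (P.lf 62275189 0 0) (P.cons (P.lf 0 5160999 0) (P.cons (P.lf 0 1270721 0) P.nil)))) (P.cons (P.cons (P.lf 493261123 0 0) (P.cons (P.lf 33790369 0 0) (P.cons (P.lf 0 4087428 0) P.nil))) (P.cons (P.cons (P.lf 0 163613316 0) (P.cons (P.lf 0 22550282 0) P.nil)) (P.cons (P.cons (P.lf 0 58667010 0) P.nil) P.nil)))))) 65749515)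
 (EL.cons 5 (TM.mk (P.cons (P.cons (P.lf 1045101501 0 0) (P.cons (P.lf 190564984 0 0) (P.cons (P.lf 0 16240415 0) (P.cons (P.lf 0 3773246 0) (P.cons (P.lf 0 4872 0) (P.cons (P.lf 18347 0 0) P.nil)))))) (P.cons (P.cons (P.lf 0 1349887035 0) (P.cons (P.lf 0 190504301 0) (P.cons (P.lf 17252975 0 0) (P.cons (P.lf 3509939 0 0) (P.cons (P.lf 4266 0 0) P.nil))))) (P.cons (P.cons (P.lf 0 283977862 0) (P.cons (P.lf 0 7517677 0) (P.cons (P.lf 1970365 0 0) (P.cons (P.lf 0 193602 0) P.nil)))) (P.cons (P.cons (P.lf 393634606 0 0) (P.cons (P.lf 39620421 0 0) (P.cons (P.lf 0 4199462 0) P.nil))) (P.cons (P.cons (P.lf 64009188 0 0) (P.cons (P.lf 0 2679549 0) P.nil)) (P.cons (P.cons (P.lf 0 51008489 0) P.nil) P.nil)))))) 49502848)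
 (EL.cons 9 (TM.mk (P.cons (P.cons (P.lf 401271127 0 0) (P.cons (P.lf 88633908 0 0) (P.cons (P.lf 0 6519057 0) (P.cons (P.lf 0 2021418 0) (P.cons (P.lf 0 2874 0) (P.cons (P.lf 10821 0 0) P.nil)))))) (P.cons (P.cons (P.lf 0 961100695 0) (P.cons (P.lf 0 158418111 0) (P.cons (P.lf 14626591 0 0) (P.cons (P.lf 2846787 0 0) (P.cons (P.lf 3390 0 0) P.nil))))) (P.cons (P.cons (P.lf 465133086 0 0) (P.cons (P.lf 56372362 0 0) (P.cons (P.lf 0 4898494 0) (P.cons (P.lf 0 1091902 0) P.nil)))) (P.cons (P.cons (P.lf 195128866 0 0) (P.cons (P.lf 9123433 0 0) (P.cons (P.lf 0 1329010 0) P.nil))) (P.cons (P.cons (P.lf 0 68439145 0) (P.cons (P.lf 0 8086507 0) P.nil)) (P.cons (P.cons (P.lf 0 10063639 0) P.nil) P.nil)))))) 11808232)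
 (EL.cons 2 (TM.mk (P.cons (P.cons (P.lf 284591565 0 0) (P.cons (P.lf 0 49813762 0) (P.cons (P.lf 0 19097071 0) (P.cons (P.lf 623953 0 0) (P.cons (P.lf 229151 0 0) (P.cons (P.lf 2193 0 0) P.nil)))))) (P.cons (P.cons (P.lf 0 381783476 0) (P.cons (P.lf 85929721 0 0) (P.cons (P.lf 17705227 0 0) (P.cons (P.lf 0 706696 0) (P.cons (P.lf 0 180573 0) P.nil))))) (P.cons (P.cons (P.lf 0 26158128 0) (P.cons (P.lf 8264452 0 0) (P.cons (P.lf 228442 0 0) (P.cons (P.lf 0 32197 0) P.nil)))) (P.cons (P.cons (P.lf 79529045 0 0) (P.cons (P.lf 0 18983385 0) (P.cons (P.lf 0 3239353 0) P.nil))) (P.cons (P.cons (P.lf 0 7744657 0) (P.cons (P.lf 1173465 0 0) P.nil)) (P.cons (P.cons (P.lf 0 5974554 0) P.nil) P.nil)))))) 7477306)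
 (EL.cons 6 (TM.mk (P.cons (P.cons (P.lf 0 191072802 0) (P.cons (P.lf 33444612 0 0) (P.cons (P.lf 12821640 0 0) (P.cons (P.lf 0 418920 0) (P.cons (P.lf 0 153846 0) (P.cons (P.lf 0 1470 0) P.nil)))))) (P.cons (P.cons (P.lf 341510310 0 0) (P.cons (P.lf 0 72602802 0) (P.cons (P.lf 0 17603274 0) (P.cons (P.lf 661230 0 0) (P.cons (P.lf 189822 0 0) P.nil))))) (P.cons (P.cons (P.lf 0 121524888 0) (P.cons (P.lf 24514722 0 0) (P.cons (P.lf 6811122 0 0) (P.cons (P.lf 0 244302 0) P.nil)))) (P.cons (P.cons (P.lf 0 19667874 0) (P.cons (P.lf 6279456 0 0) (P.cons (P.lf 144606 0 0) P.nil))) (P.cons (P.cons (P.lf 17432520 0 0) (P.cons (P.lf 0 4210626 0) P.nil)) (P.cons (P.cons (P.lf 0 1383426 0) P.nil) P.nil)))))) 4420674)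
 EL.nil))))))
noncomputable def S314_372_660_734_3 : EL := (EL.cons 0 (TM.mk (P.cons (P.lf 2663300420 0 0) (P.cons (P.lf 1327550055 0 0) (P.cons (P.lf 0 20882153 0) (P.cons (P.lf 0 49374168 0) (P.cons (P.lf 5384801 0 0) (P.cons (P.lf 616050 0 0) P.nil)))))) 235193)
 (EL.cons 1 (TM.mk (P.cons (P.lf 0 1788121471 0) (P.cons (P.lf 0 94132764 0) (P.cons (P.lf 179177853 0 0) (P.cons (P.lf 0 11443897 0) (P.cons (P.lf 0 3792305 0) (P.cons (P.lf 635690 0 0) P.nil)))))) 110845)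
 (EL.cons 5 (TM.mk (P.cons (P.lf 1200532382 0 0) (P.cons (P.lf 0 472017796 0) (P.cons (P.lf 7424770 0 0) (P.cons (P.lf 17555260 0 0) (P.cons (P.lf 0 1914598 0) (P.cons (P.lf 0 219040 0) P.nil)))))) 72450)
 EL.nil)))
noncomputable def S314_372_660_734_4 : EL := (EL.cons 0 (TM.mk (P.cons (P.cons (P.lf 0 664681441 0) (P.cons (P.lf 0 73408362 0) (P.cons (P.lf 9452874 0 0) (P.lf 630189 0 0)))) (P.cons (P.cons (P.lf 464685247 0 0) (P.cons (P.lf 6702187 0 0) (P.cons (P.lf 0 863047 0) (P.lf 0 57536 0)))) (P.cons (P.cons (P.lf 493389557 0 0) (P.cons (P.lf 17219151 0 0) (P.cons (P.lf 0 2217331 0) (P.lf 0 147821 0)))) (P.cons (P.cons (P.lf 0 507737 0) (P.cons (P.lf 0 3194321 0) (P.cons (P.lf 411333 0 0) P.nil))) (P.cons (P.cons (P.lf 0 42296900 0) (P.cons (P.lf 0 1324052 0) P.nil)) (P.cons (P.cons (P.lf 2206945 0 0) P.nil) P.nil)))))) 4371842)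
 (EL.cons 1 (TM.mk (P.cons (P.cons (P.lf 446262519 0 0) (P.cons (P.lf 49285865 0 0) (P.cons (P.lf 0 6346593 0) (P.lf 0 423105 0)))) (P.cons (P.cons (P.lf 0 510937929 0) (P.cons (P.lf 0 26472285 0) (P.cons (P.lf 3408864 0 0) (P.lf 227255 0 0)))) (P.cons (P.cons (P.lf 0 134218490 0) (P.cons (P.lf 0 3154545 0) (P.cons (P.lf 406215 0 0) (P.lf 27080 0 0)))) (P.cons (P.cons (P.lf 88190482 0 0) (P.cons (P.lf 4580923 0 0) (P.cons (P.lf 0 589888 0) P.nil))) (P.cons (P.cons (P.lf 5172873 0 0) (P.cons (P.lf 0 662516 0) P.nil)) (P.cons (P.cons (P.lf 0 6406708 0) P.nil) P.nil)))))) 2801467)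
 (EL.cons 5 (TM.mk (P.cons (P.cons (P.lf 0 299617568 0) (P.cons (P.lf 0 33090188 0) (P.cons (P.lf 4261058 0 0) (P.lf 284070 0 0)))) (P.cons (P.cons (P.lf 476614830 0 0) (P.cons (P.lf 32525482 0 0) (P.cons (P.lf 0 4188342 0) (P.lf 0 279222 0)))) (P.cons (P.cons (P.lf 0 101727680 0) (P.cons (P.lf 0 10102744 0) (P.cons (P.lf 1300938 0 0) (P.lf 86728 0 0)))) (P.cons (P.cons (P.lf 0 41868620 0) (P.cons (P.lf 0 279454 0) (P.cons (P.lf 35984 0 0) P.nil))) (P.cons (P.cons (P.lf 15454010 0 0) (P.cons (P.lf 844210 0 0) P.nil)) (P.cons (P.cons (P.lf 650778 0 0) P.nil) P.nil)))))) 1757406)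
 EL.nil)))
noncomputable def S314_372_660_734_5 : EL := (EL.cons 0 (TM.mk (P.cons (P.cons (P.lf 165884934 0 0) (P.cons (P.lf 36641135 0 0) (P.cons (P.lf 0 2694969 0) (P.cons (P.lf 0 835650 0) (P.cons (P.lf 0 1186 0) (P.cons (P.lf 4471 0 0) P.nil)))))) (P.cons (P.cons (P.lf 0 314630625 0) (P.cons (P.lf 0 47225670 0) (P.cons (P.lf 4703276 0 0) (P.cons (P.lf 760317 0 0) (P.cons (P.lf 808 0 0) P.nil))))) (P.cons (P.cons (P.lf 0 7062458 0) (P.cons (P.lf 0 9627127 0) (P.cons (P.lf 1010097 0 0) (P.cons (P.lf 141778 0 0) P.nil)))) (P.cons (P.cons (P.lf 176552630 0 0) (P.cons (P.lf 15222072 0 0) (P.cons (P.lf 0 1556256 0) P.nil))) (P.cons (P.cons (P.lf 18109669 0 0) (P.cons (P.lf 0 357489 0) P.nil)) (P.cons (P.cons (P.lf 0 23225211 0) P.nil) P.nil)))))) 16032029)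
 (EL.cons 1 (TM.mk (P.cons (P.cons (P.lf 0 111373996 0) (P.cons (P.lf 0 24600603 0) (P.cons (P.lf 1809382 0 0) (P.cons (P.lf 561048 0 0) (P.cons (P.lf 796 0 0) (P.cons (P.lf 0 3001 0) P.nil)))))) (P.cons (P.cons (P.lf 260893260 0 0) (P.cons (P.lf 42674358 0 0) (P.cons (P.lf 0 3964400 0) (P.cons (P.lf 0 760597 0) (P.cons (P.lf 0 898 0) P.nil))))) (P.cons (P.cons (P.lf 0 103895938 0) (P.cons (P.lf 0 10866525 0) (P.cons (P.lf 964567 0 0) (P.cons (P.lf 205245 0 0) P.nil)))) (P.cons (P.cons (P.lf 0 88397791 0) (P.cons (P.lf 0 7919287 0) (P.cons (P.lf 858819 0 0) P.nil))) (P.cons (P.cons (P.lf 30551730 0 0) (P.cons (P.lf 3908188 0 0) P.nil)) (P.cons (P.cons (P.lf 8999227 0 0) P.nil) P.nil)))))) 12017573)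
 (EL.cons 5 (TM.mk (P.cons (P.cons (P.lf 74775730 0 0) (P.cons (P.lf 16516676 0 0) (P.cons (P.lf 0 1214806 0) (P.cons (P.lf 0 376684 0) (P.cons (P.lf 0 534 0) (P.cons (P.lf 2014 0 0) P.nil)))))) (P.cons (P.cons (P.lf 0 208498228 0) (P.cons (P.lf 0 36014686 0) (P.cons (P.lf 3203252 0 0) (P.cons (P.lf 678592 0 0) (P.cons (P.lf 840 0 0) P.nil))))) (P.cons (P.cons (P.lf 157555456 0 0) (P.cons (P.lf 22213764 0 0) (P.cons (P.lf 0 1991976 0) (P.cons (P.lf 0 414376 0) P.nil)))) (P.cons (P.cons (P.lf 2268684 0 0) (P.cons (P.lf 0 2371148 0) (P.cons (P.lf 110332 0 0) P.nil))) (P.cons (P.cons (P.lf 0 29252042 0) (P.cons (P.lf 0 2568394 0) P.nil)) (P.cons (P.cons (P.lf 4903306 0 0) P.nil) P.nil)))))) 6333240)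
 EL.nil)))
noncomputable def S314_372_660_734_6 : EL := (EL.cons 12 (TM.mk (P.lf 8589934592 0 0) 0)
 (EL.cons 3 (TM.mk (P.cons (P.lf 2391525476 0 0) (P.cons (P.lf 596040491 0 0) (P.cons (P.lf 0 83651283 0) (P.cons (P.lf 0 1319475 0) (P.cons (P.lf 1283523 0 0) (P.cons (P.lf 0 89452 0) P.nil)))))) 26268)
 (EL.cons 7 (TM.mk (P.cons (P.lf 0 1605653656 0) (P.cons (P.lf 315650420 0 0) (P.cons (P.lf 26061229 0 0) (P.cons (P.lf 0 6616358 0) (P.cons (P.lf 191151 0 0) (P.cons (P.lf 76666 0 0) P.nil)))))) 11720)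
 EL.nil)))
noncomputable def S314_372_660_734_7 : EL := (EL.cons 12 (TM.mk (P.cons (P.cons (P.lf 0 2143795000 0) (P.cons (P.lf 0 236763768 0) (P.cons (P.lf 30488328 0 0) (P.lf 2032552 0 0)))) (P.cons (P.cons (P.lf 2567345016 0 0) (P.cons (P.lf 139633936 0 0) (P.cons (P.lf 0 17980816 0) (P.lf 0 1198720 0)))) (P.cons (P.cons (P.lf 294798874 0 0) (P.cons (P.lf 0 15921520 0) (P.cons (P.lf 2050224 0 0) (P.lf 136680 0 0)))) (P.cons (P.cons (P.lf 0 168196608 0) (P.cons (P.lf 0 5660856 0) (P.cons (P.lf 728952 0 0) P.nil))) (P.cons (P.cons (P.lf 1660446 0 0) (P.cons (P.lf 1493744 0 0) P.nil)) (P.cons (P.cons (P.lf 5741894 0 0) P.nil) P.nil)))))) 2022972)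
 (EL.cons 3 (TM.mk (P.cons (P.cons (P.lf 3039070395 0 0) (P.cons (P.lf 131834898 0 0) (P.cons (P.lf 0 16976520 0) (P.lf 0 1131764 0)))) (P.cons (P.cons (P.lf 992038315 0 0) (P.cons (P.lf 0 44893780 0) (P.cons (P.lf 5781020 0 0) (P.lf 385400 0 0)))) (P.cons (P.cons (P.lf 0 595602412 0) (P.cons (P.lf 0 15123828 0) (P.cons (P.lf 1947514 0 0) (P.lf 129834 0 0)))) (P.cons (P.cons (P.lf 23089982 0 0) (P.cons (P.lf 8008466 0 0) (P.cons (P.lf 0 1031254 0) P.nil))) (P.cons (P.cons (P.lf 38203907 0 0) (P.cons (P.lf 0 242596 0) P.nil)) (P.cons (P.cons (P.lf 0 6439166 0) P.nil) P.nil)))))) 6997756)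
 (EL.cons 7 (TM.mk (P.cons (P.cons (P.lf 2326232705 0 0) (P.cons (P.lf 148981980 0 0) (P.cons (P.lf 0 19184575 0) (P.lf 0 1278973 0)))) (P.cons (P.cons (P.lf 525362470 0 0) (P.cons (P.lf 0 23774798 0) (P.cons (P.lf 3061508 0 0) (P.lf 204101 0 0)))) (P.cons (P.cons (P.lf 0 198310633 0) (P.cons (P.lf 0 13308865 0) (P.cons (P.lf 1713794 0 0) (P.lf 114251 0 0)))) (P.cons (P.cons (P.lf 0 69453120 0) (P.cons (P.lf 1314691 0 0) (P.cons (P.lf 0 169296 0) P.nil))) (P.cons (P.cons (P.lf 15570816 0 0) (P.cons (P.lf 917961 0 0) P.nil)) (P.cons (P.cons (P.lf 2605072 0 0) P.nil) P.nil)))))) 4500135)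
 (EL.cons 10 (TM.mk (P.cons (P.cons (P.lf 0 1023961158 0) (P.cons (P.lf 292317771 0 0) (P.cons (P.lf 21864897 0 0) (P.cons (P.lf 0 1473375 0) (P.lf 0 73668 0))))) (P.cons (P.cons (P.lf 402594627 0 0) (P.cons (P.lf 0 114931668 0) (P.cons (P.lf 0 8596704 0) (P.cons (P.lf 579291 0 0) (P.lf 28962 0 0))))) (P.cons (P.cons (P.lf 0 6332751 0) (P.cons (P.lf 1807857 0 0) (P.cons (P.lf 135222 0 0) (P.cons (P.lf 0 9111 0) P.nil)))) (P.cons (P.cons (P.lf 0 14973276 0) (P.cons (P.lf 4274532 0 0) (P.cons (P.lf 319728 0 0) P.nil))) (P.cons (P.cons (P.lf 1633002 0 0) (P.cons (P.lf 0 466185 0) P.nil)) (P.cons (P.cons (P.lf 186822 0 0) P.nil) P.nil)))))) 198975)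
 EL.nil))))
noncomputable def S314_372_660_734_8 : EL := (EL.cons 12 (TM.mk (P.cons (P.cons (P.lf 535028170 0 0) (P.cons (P.lf 118178544 0 0) (P.cons (P.lf 0 8692076 0) (P.cons (P.lf 0 2695224 0) (P.cons (P.lf 0 3832 0) (P.cons (P.lf 14428 0 0) P.nil)))))) (P.cons (P.cons (P.lf 0 1281467594 0) (P.cons (P.lf 0 211224148 0) (P.cons (P.lf 19502122 0 0) (P.cons (P.lf 3795716 0 0) (P.cons (P.lf 4520 0 0) P.nil))))) (P.cons (P.cons (P.lf 620177448 0 0) (P.cons (P.lf 75163150 0 0) (P.cons (P.lf 0 6531326 0) (P.cons (P.lf 0 1455870 0) P.nil)))) (P.cons (P.cons (P.lf 260171822 0 0) (P.cons (P.lf 12164578 0 0) (P.cons (P.lf 0 1772014 0) P.nil))) (P.cons (P.cons (P.lf 0 91252194 0) (P.cons (P.lf 0 10782010 0) P.nil)) (P.cons (P.cons (P.lf 0 13418186 0) P.nil) P.nil)))))) 15744280)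
 (EL.cons 3 (TM.mk (P.cons (P.cons (P.lf 0 1665882454 0) (P.cons (P.lf 0 266237704 0) (P.cons (P.lf 25199322 0 0) (P.cons (P.lf 4625185 0 0) (P.cons (P.lf 5337 0 0) (P.cons (P.lf 0 20080 0) P.nil)))))) (P.cons (P.cons (P.lf 1641106187 0 0) (P.cons (P.lf 195936700 0 0) (P.cons (P.lf 0 16779851 0) (P.cons (P.lf 0 3858582 0) (P.cons (P.lf 0 4961 0) P.nil))))) (P.cons (P.cons (P.lf 1020348797 0 0) (P.cons (P.lf 38462843 0 0) (P.cons (P.lf 0 6346089 0) (P.cons (P.lf 28603 0 0) P.nil)))) (P.cons (P.cons (P.lf 0 546337347 0) (P.cons (P.lf 0 60242554 0) (P.cons (P.lf 6581865 0 0) P.nil))) (P.cons (P.cons (P.lf 0 70707298 0) (P.cons (P.lf 9120789 0 0) P.nil)) (P.cons (P.cons (P.lf 68300082 0 0) P.nil) P.nil)))))) 50675858)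
 (EL.cons 7 (TM.mk (P.cons (P.cons (P.lf 0 1061109609 0) (P.cons (P.lf 0 180508365 0) (P.cons (P.lf 16251336 0 0) (P.cons (P.lf 3350582 0 0) (P.cons (P.lf 4106 0 0) (P.cons (P.lf 0 15458 0) P.nil)))))) (P.cons (P.cons (P.lf 869095088 0 0) (P.cons (P.lf 103763930 0 0) (P.cons (P.lf 0 8886256 0) (P.cons (P.lf 0 2043423 0) (P.cons (P.lf 0 2623 0) P.nil))))) (P.cons (P.cons (P.lf 734083835 0 0) (P.cons (P.lf 43498974 0 0) (P.cons (P.lf 0 5341575 0) (P.cons (P.lf 0 440343 0) P.nil)))) (P.cons (P.cons (P.lf 0 108770368 0) (P.cons (P.lf 0 23466330 0) (P.cons (P.lf 2282684 0 0) P.nil))) (P.cons (P.cons (P.lf 0 112072388 0) (P.cons (P.lf 0 4717554 0) P.nil)) (P.cons (P.cons (P.lf 14876373 0 0) P.nil) P.nil)))))) 31651713)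
 (EL.cons 10 (TM.mk (P.cons (P.cons (P.lf 511101168 0 0) (P.cons (P.lf 0 89461092 0) (P.cons (P.lf 0 34296642 0) (P.cons (P.lf 1120572 0 0) (P.cons (P.lf 411534 0 0) (P.cons (P.lf 3948 0 0) P.nil)))))) (P.cons (P.cons (P.lf 0 813031080 0) (P.cons (P.lf 176618562 0 0) (P.cons (P.lf 40344780 0 0) (P.cons (P.lf 0 1548444 0) (P.cons (P.lf 0 426864 0) P.nil))))) (P.cons (P.cons (P.lf 173531664 0 0) (P.cons (P.lf 0 32305650 0) (P.cons (P.lf 0 10844502 0) (P.cons (P.lf 367278 0 0) P.nil)))) (P.cons (P.cons (P.lf 71421384 0 0) (P.cons (P.lf 0 19912482 0) (P.cons (P.lf 0 1722552 0) P.nil))) (P.cons (P.cons (P.lf 0 26362146 0) (P.cons (P.lf 6085704 0 0) P.nil)) (P.cons (P.cons (P.lf 0 1110126 0) P.nil) P.nil)))))) 6374442)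
 EL.nil))))
noncomputable def S314_372_660_734_9 : EL := (EL.cons 3 (TM.mk (P.cons (P.lf 2391525476 0 0) (P.cons (P.lf 596040491 0 0) (P.cons (P.lf 0 83651283 0) (P.cons (P.lf 0 1319475 0) (P.cons (P.lf 1283523 0 0) (P.cons (P.lf 0 89452 0) P.nil)))))) 26268)
 (EL.cons 7 (TM.mk (P.cons (P.lf 0 1605653656 0) (P.cons (P.lf 315650420 0 0) (P.cons (P.lf 26061229 0 0) (P.cons (P.lf 0 6616358 0) (P.cons (P.lf 191151 0 0) (P.cons (P.lf 76666 0 0) P.nil)))))) 11720)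
 EL.nil))
noncomputable def S314_372_660_734_10 : EL := (EL.cons 3 (TM.mk (P.cons (P.cons (P.lf 0 596854410 0) (P.cons (P.lf 0 65917449 0) (P.cons (P.lf 8488260 0 0) (P.lf 565882 0 0)))) (P.cons (P.cons (P.lf 566020885 0 0) (P.cons (P.lf 22446890 0 0) (P.cons (P.lf 0 2890510 0) (P.lf 0 192700 0)))) (P.cons (P.cons (P.lf 281095481 0 0) (P.cons (P.lf 7561914 0 0) (P.cons (P.lf 0 973757 0) (P.lf 0 64917 0)))) (P.cons (P.cons (P.lf 0 51044326 0) (P.cons (P.lf 0 4004233 0) (P.cons (P.lf 515627 0 0) P.nil))) (P.cons (P.cons (P.lf 0 14794111 0) (P.cons (P.lf 121298 0 0) P.nil)) (P.cons (P.cons (P.lf 3712423 0 0) P.nil) P.nil)))))) 1658502)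
 (EL.cons 7 (TM.mk (P.cons (P.cons (P.lf 400723922 0 0) (P.cons (P.lf 44256519 0 0) (P.cons (P.lf 0 5698960 0) (P.lf 0 379930 0)))) (P.cons (P.cons (P.lf 0 558672089 0) (P.cons (P.lf 0 34801001 0) (P.cons (P.lf 4481363 0 0) (P.lf 298757 0 0)))) (P.cons (P.cons (P.lf 32732345 0 0) (P.cons (P.lf 7388834 0 0) (P.cons (P.lf 0 951466 0) (P.lf 0 63430 0)))) (P.cons (P.cons (P.lf 51712986 0 0) (P.cons (P.lf 1079086 0 0) (P.cons (P.lf 0 138954 0) P.nil))) (P.cons (P.cons (P.lf 0 7621812 0) (P.cons (P.lf 0 648357 0) P.nil)) (P.cons (P.cons (P.lf 0 1711640 0) P.nil) P.nil)))))) 1040369)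
 EL.nil))
noncomputable def S314_372_660_734_11 : EL := (EL.cons 3 (TM.mk (P.cons (P.cons (P.lf 148957304 0 0) (P.cons (P.lf 32902112 0 0) (P.cons (P.lf 0 2419962 0) (P.cons (P.lf 0 750377 0) (P.cons (P.lf 0 1065 0) (P.cons (P.lf 4016 0 0) P.nil)))))) (P.cons (P.cons (P.lf 0 319648993 0) (P.cons (P.lf 0 50606756 0) (P.cons (P.lf 4826461 0 0) (P.cons (P.lf 869748 0 0) (P.cons (P.lf 991 0 0) P.nil))))) (P.cons (P.cons (P.lf 78534683 0 0) (P.cons (P.lf 5118857 0 0) (P.cons (P.lf 0 380523 0) (P.cons (P.lf 0 115703 0) P.nil)))) (P.cons (P.cons (P.lf 127864635 0 0) (P.cons (P.lf 10640990 0 0) (P.cons (P.lf 0 1135125 0) P.nil))) (P.cons (P.cons (P.lf 0 13115356 0) (P.cons (P.lf 0 2839599 0) P.nil)) (P.cons (P.cons (P.lf 0 12893532 0) P.nil) P.nil)))))) 9228862)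
 (EL.cons 7 (TM.mk (P.cons (P.cons (P.lf 0 100008903 0) (P.cons (P.lf 0 22090251 0) (P.cons (P.lf 1624746 0 0) (P.cons (P.lf 503798 0 0) (P.cons (P.lf 716 0 0) (P.cons (P.lf 0 2696 0) P.nil)))))) (P.cons (P.cons (P.lf 259195802 0 0) (P.cons (P.lf 43825238 0 0) (P.cons (P.lf 0 3964792 0) (P.cons (P.lf 0 808545 0) (P.cons (P.lf 0 985 0) P.nil))))) (P.cons (P.cons (P.lf 0 161391505 0) (P.cons (P.lf 0 21452910 0) (P.cons (P.lf 1911117 0 0) (P.cons (P.lf 403437 0 0) P.nil)))) (P.cons (P.cons (P.lf 0 30142618 0) (P.cons (P.lf 0 243714 0) (P.cons (P.lf 157088 0 0) P.nil))) (P.cons (P.cons (P.lf 29498044 0 0) (P.cons (P.lf 2855772 0 0) P.nil)) (P.cons (P.cons (P.lf 0 557127 0) P.nil) P.nil)))))) 5461739)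
 EL.nil))
noncomputable def S314_372_660_734_12 : EL := (EL.cons 4 (TM.mk (P.cons (P.lf 0 2391525476 0) (P.cons (P.lf 0 596040491 0) (P.cons (P.lf 83651283 0 0) (P.cons (P.lf 1319475 0 0) (P.cons (P.lf 0 1283523 0) (P.cons (P.lf 89452 0 0) P.nil)))))) 26268)
 (EL.cons 8 (TM.mk (P.cons (P.lf 1605653656 0 0) (P.cons (P.lf 0 315650420 0) (P.cons (P.lf 0 26061229 0) (P.cons (P.lf 6616358 0 0) (P.cons (P.lf 0 191151 0) (P.cons (P.lf 0 76666 0) P.nil)))))) 11720)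
 EL.nil))
noncomputable def S314_372_660_734_13 : EL := (EL.cons 4 (TM.mk (P.cons (P.cons (P.lf 596854410 0 0) (P.cons (P.lf 65917449 0 0) (P.cons (P.lf 0 8488260 0) (P.lf 0 565882 0)))) (P.cons (P.cons (P.lf 0 566020885 0) (P.cons (P.lf 0 22446890 0) (P.cons (P.lf 2890510 0 0) (P.lf 192700 0 0)))) (P.cons (P.cons (P.lf 0 281095481 0) (P.cons (P.lf 0 7561914 0) (P.cons (P.lf 973757 0 0) (P.lf 64917 0 0)))) (P.cons (P.cons (P.lf 51044326 0 0) (P.cons (P.lf 4004233 0 0) (P.cons (P.lf 0 515627 0) P.nil))) (P.cons (P.cons (P.lf 14794111 0 0) (P.cons (P.lf 0 121298 0) P.nil)) (P.cons (P.cons (P.lf 0 3712423 0) P.nil) P.nil)))))) 1658502)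
 (EL.cons 8 (TM.mk (P.cons (P.cons (P.lf 0 400723922 0) (P.cons (P.lf 0 44256519 0) (P.cons (P.lf 5698960 0 0) (P.lf 379930 0 0)))) (P.cons (P.cons (P.lf 558672089 0 0) (P.cons (P.lf 34801001 0 0) (P.cons (P.lf 0 4481363 0) (P.lf 0 298757 0)))) (P.cons (P.cons (P.lf 0 32732345 0) (P.cons (P.lf 0 7388834 0) (P.cons (P.lf 951466 0 0) (P.lf 63430 0 0)))) (P.cons (P.cons (P.lf 0 51712986 0) (P.cons (P.lf 0 1079086 0) (P.cons (P.lf 138954 0 0) P.nil))) (P.cons (P.cons (P.lf 7621812 0 0) (P.cons (P.lf 648357 0 0) P.nil)) (P.cons (P.cons (P.lf 1711640 0 0) P.nil) P.nil)))))) 1040369)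
 EL.nil))
noncomputable def S314_372_660_734_14 : EL := (EL.cons 4 (TM.mk (P.cons (P.cons (P.lf 0 148957304 0) (P.cons (P.lf 0 32902112 0) (P.cons (P.lf 2419962 0 0) (P.cons (P.lf 750377 0 0) (P.cons (P.lf 1065 0 0) (P.cons (P.lf 0 4016 0) P.nil)))))) (P.cons (P.cons (P.lf 319648993 0 0) (P.cons (P.lf 50606756 0 0) (P.cons (P.lf 0 4826461 0) (P.cons (P.lf 0 869748 0) (P.cons (P.lf 0 991 0) P.nil))))) (P.cons (P.cons (P.lf 0 78534683 0) (P.cons (P.lf 0 5118857 0) (P.cons (P.lf 380523 0 0) (P.cons (P.lf 115703 0 0) P.nil)))) (P.cons (P.cons (P.lf 0 127864635 0) (P.cons (P.lf 0 10640990 0) (P.cons (P.lf 1135125 0 0) P.nil))) (P.cons (P.cons (P.lf 13115356 0 0) (P.cons (P.lf 2839599 0 0) P.nil)) (P.cons (P.cons (P.lf 12893532 0 0) P.nil) P.nil)))))) 9228862)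
 (EL.cons 8 (TM.mk (P.cons (P.cons (P.lf 100008903 0 0) (P.cons (P.lf 22090251 0 0) (P.cons (P.lf 0 1624746 0) (P.cons (P.lf 0 503798 0) (P.cons (P.lf 0 716 0) (P.cons (P.lf 2696 0 0) P.nil)))))) (P.cons (P.cons (P.lf 0 259195802 0) (P.cons (P.lf 0 43825238 0) (P.cons (P.lf 3964792 0 0) (P.cons (P.lf 808545 0 0) (P.cons (P.lf 985 0 0) P.nil))))) (P.cons (P.cons (P.lf 161391505 0 0) (P.cons (P.lf 21452910 0 0) (P.cons (P.lf 0 1911117 0) (P.cons (P.lf 0 403437 0) P.nil)))) (P.cons (P.cons (P.lf 30142618 0 0) (P.cons (P.lf 243714 0 0) (P.cons (P.lf 0 157088 0) P.nil))) (P.cons (P.cons (P.lf 0 29498044 0) (P.cons (P.lf 0 2855772 0) P.nil)) (P.cons (P.cons (P.lf 557127 0 0) P.nil) P.nil)))))) 5461739)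
 EL.nil))
noncomputable def S314_372_660_734_15 : EL := (EL.cons 4 (TM.mk (P.cons (P.lf 0 1420426890 0) (P.cons (P.lf 0 708026696 0) (P.cons (P.lf 11137148 0 0) (P.cons (P.lf 26332890 0 0) (P.cons (P.lf 0 2871894 0) (P.cons (P.lf 0 328560 0) P.nil)))))) 125439)
 (EL.cons 8 (TM.mk (P.cons (P.lf 953664785 0 0) (P.cons (P.lf 50204141 0 0) (P.cons (P.lf 0 95561522 0) (P.cons (P.lf 6103412 0 0) (P.cons (P.lf 2022563 0 0) (P.cons (P.lf 0 339035 0) P.nil)))))) 59114)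
 EL.nil))
noncomputable def S314_372_660_734_16 : EL := (EL.cons 4 (TM.mk (P.cons (P.cons (P.lf 354496769 0 0) (P.cons (P.lf 39151126 0 0) (P.cons (P.lf 0 5041532 0) (P.lf 0 336101 0)))) (P.cons (P.cons (P.lf 0 247832131 0) (P.cons (P.lf 0 3574500 0) (P.cons (P.lf 460291 0 0) (P.lf 30686 0 0)))) (P.cons (P.cons (P.lf 0 263141097 0) (P.cons (P.lf 0 9183547 0) (P.cons (P.lf 1182576 0 0) (P.lf 78838 0 0)))) (P.cons (P.cons (P.lf 270793 0 0) (P.cons (P.lf 1703638 0 0) (P.cons (P.lf 0 219377 0) P.nil))) (P.cons (P.cons (P.lf 22558347 0 0) (P.cons (P.lf 706161 0 0) P.nil)) (P.cons (P.cons (P.lf 0 1177037 0) P.nil) P.nil)))))) 2331658)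
 (EL.cons 8 (TM.mk (P.cons (P.cons (P.lf 0 238006677 0) (P.cons (P.lf 0 26285795 0) (P.cons (P.lf 3384850 0 0) (P.lf 225656 0 0)))) (P.cons (P.cons (P.lf 272500229 0 0) (P.cons (P.lf 14118552 0 0) (P.cons (P.lf 0 1818061 0) (P.lf 0 121203 0)))) (P.cons (P.cons (P.lf 71583195 0 0) (P.cons (P.lf 1682424 0 0) (P.cons (P.lf 0 216648 0) (P.lf 0 14443 0)))) (P.cons (P.cons (P.lf 0 47034924 0) (P.cons (P.lf 0 2443159 0) (P.cons (P.lf 314607 0 0) P.nil))) (P.cons (P.cons (P.lf 0 2758866 0) (P.cons (P.lf 353342 0 0) P.nil)) (P.cons (P.cons (P.lf 3416911 0 0) P.nil) P.nil)))))) 1494106)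
 EL.nil))
noncomputable def S314_372_660_734_17 : EL := (EL.cons 4 (TM.mk (P.cons (P.cons (P.lf 0 88471965 0) (P.cons (P.lf 0 19541939 0) (P.cons (P.lf 1437316 0 0) (P.cons (P.lf 445680 0 0) (P.cons (P.lf 632 0 0) (P.cons (P.lf 0 2385 0) P.nil)))))) (P.cons (P.cons (P.lf 167803000 0 0) (P.cons (P.lf 25187024 0 0) (P.cons (P.lf 0 2508414 0) (P.cons (P.lf 0 405502 0) (P.cons (P.lf 0 431 0) P.nil))))) (P.cons (P.cons (P.lf 3766644 0 0) (P.cons (P.lf 5134468 0 0) (P.cons (P.lf 0 538718 0) (P.cons (P.lf 0 75615 0) P.nil)))) (P.cons (P.cons (P.lf 0 94161403 0) (P.cons (P.lf 0 8118438 0) (P.cons (P.lf 830003 0 0) P.nil))) (P.cons (P.cons (P.lf 0 9658490 0) (P.cons (P.lf 190661 0 0) P.nil)) (P.cons (P.cons (P.lf 12386779 0 0) P.nil) P.nil)))))) 8550426)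
 (EL.cons 8 (TM.mk (P.cons (P.cons (P.lf 59399465 0 0) (P.cons (P.lf 13120322 0 0) (P.cons (P.lf 0 965004 0) (P.cons (P.lf 0 299226 0) (P.cons (P.lf 0 425 0) (P.cons (P.lf 1601 0 0) P.nil)))))) (P.cons (P.cons (P.lf 0 139143072 0) (P.cons (P.lf 0 22759658 0) (P.cons (P.lf 2114347 0 0) (P.cons (P.lf 405652 0 0) (P.cons (P.lf 479 0 0) P.nil))))) (P.cons (P.cons (P.lf 55411167 0 0) (P.cons (P.lf 5795480 0 0) (P.cons (P.lf 0 514436 0) (P.cons (P.lf 0 109464 0) P.nil)))) (P.cons (P.cons (P.lf 47145489 0 0) (P.cons (P.lf 4223620 0 0) (P.cons (P.lf 0 458037 0) P.nil))) (P.cons (P.cons (P.lf 0 16294256 0) (P.cons (P.lf 0 2084367 0) P.nil)) (P.cons (P.cons (P.lf 0 4799588 0) P.nil) P.nil)))))) 6409361)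
 EL.nil))
noncomputable def S314_372_660_734_18 : EL := (EL.cons 4 (TM.mk (P.cons (P.lf 0 843650871 0) (P.cons (P.lf 0 630789950 0) (P.cons (P.lf 0 68683740 0) (P.cons (P.lf 32463552 0 0) (P.cons (P.lf 1740131 0 0) (P.cons (P.lf 0 1365121 0) P.nil)))))) 264319)
 (EL.cons 8 (TM.mk (P.cons (P.lf 566421357 0 0) (P.cons (P.lf 170987672 0 0) (P.cons (P.lf 0 69138754 0) (P.cons (P.lf 0 11876237 0) (P.cons (P.lf 4377599 0 0) (P.cons (P.lf 0 2637 0) P.nil)))))) 178385)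
 EL.nil))
noncomputable def S314_372_660_734_19 : EL := (EL.cons 4 (TM.mk (P.cons (P.cons (P.lf 210550440 0 0) (P.cons (P.lf 23253489 0 0) (P.cons (P.lf 0 2994376 0) (P.lf 0 199624 0)))) (P.cons (P.cons (P.lf 0 94722317 0) (P.cons (P.lf 3672427 0 0) (P.cons (P.lf 0 472902 0) (P.lf 0 31526 0)))) (P.cons (P.cons (P.lf 0 200341327 0) (P.cons (P.lf 0 6796984 0) (P.cons (P.lf 875255 0 0) (P.lf 58350 0 0)))) (P.cons (P.cons (P.lf 0 33758930 0) (P.cons (P.lf 0 286131 0) (P.cons (P.lf 36845 0 0) P.nil))) (P.cons (P.cons (P.lf 19099406 0 0) (P.cons (P.lf 876045 0 0) P.nil)) (P.cons (P.cons (P.lf 2633908 0 0) P.nil) P.nil)))))) 2825769)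
 (EL.cons 8 (TM.mk (P.cons (P.cons (P.lf 0 141362109 0) (P.cons (P.lf 0 15612232 0) (P.cons (P.lf 2010403 0 0) (P.lf 134026 0 0)))) (P.cons (P.cons (P.lf 126617556 0 0) (P.cons (P.lf 4494557 0 0) (P.cons (P.lf 0 578768 0) (P.lf 0 38584 0)))) (P.cons (P.cons (P.lf 87798577 0 0) (P.cons (P.lf 3635294 0 0) (P.cons (P.lf 0 468121 0) (P.lf 0 31207 0)))) (P.cons (P.cons (P.lf 0 22922874 0) (P.cons (P.lf 0 1486747 0) (P.cons (P.lf 191449 0 0) P.nil))) (P.cons (P.cons (P.lf 0 10253411 0) (P.cons (P.lf 0 199749 0) P.nil)) (P.cons (P.cons (P.lf 2666901 0 0) P.nil) P.nil)))))) 1572800)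
 EL.nil))
noncomputable def S314_372_660_734_20 : EL := (EL.cons 4 (TM.mk (P.cons (P.cons (P.lf 0 52547196 0) (P.cons (P.lf 0 11606774 0) (P.cons (P.lf 853681 0 0) (P.cons (P.lf 264707 0 0) (P.cons (P.lf 375 0 0) (P.cons (P.lf 0 1416 0) P.nil)))))) (P.cons (P.cons (P.lf 86568861 0 0) (P.cons (P.lf 12066866 0 0) (P.cons (P.lf 0 1277087 0) (P.cons (P.lf 0 174871 0) (P.cons (P.lf 0 162 0) P.nil))))) (P.cons (P.cons (P.lf 28914759 0 0) (P.cons (P.lf 7183950 0 0) (P.cons (P.lf 0 721143 0) (P.cons (P.lf 0 114195 0) P.nil)))) (P.cons (P.cons (P.lf 0 58825940 0) (P.cons (P.lf 0 4578690 0) (P.cons (P.lf 464869 0 0) P.nil))) (P.cons (P.cons (P.lf 0 19836571 0) (P.cons (P.lf 0 1209667 0) P.nil)) (P.cons (P.cons (P.lf 7937722 0 0) P.nil) P.nil)))))) 8730536)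
 (EL.cons 8 (TM.mk (P.cons (P.cons (P.lf 35279823 0 0) (P.cons (P.lf 7792707 0 0) (P.cons (P.lf 0 573156 0) (P.cons (P.lf 0 177723 0) (P.cons (P.lf 0 252 0) (P.cons (P.lf 951 0 0) P.nil)))))) (P.cons (P.cons (P.lf 0 73850083 0) (P.cons (P.lf 0 11575733 0) (P.cons (P.lf 1112951 0 0) (P.cons (P.lf 196639 0 0) (P.cons (P.lf 221 0 0) P.nil))))) (P.cons (P.cons (P.lf 11079875 0 0) (P.cons (P.lf 0 199469 0) (P.cons (P.lf 27485 0 0) (P.cons (P.lf 1249 0 0) P.nil)))) (P.cons (P.cons (P.lf 39075329 0 0) (P.cons (P.lf 3835012 0 0) (P.cons (P.lf 0 391807 0) P.nil))) (P.cons (P.cons (P.lf 0 3785612 0) (P.cons (P.lf 0 721538 0) P.nil)) (P.cons (P.cons (P.lf 0 6305966 0) P.nil) P.nil)))))) 5652333)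
 EL.nil))
noncomputable def S314_372_660_734_21 : EL := (EL.cons 4 (TM.mk (P.cons (P.cons (P.lf 0 3635924805 0) (P.cons (P.lf 0 197752347 0) (P.cons (P.lf 25464780 0 0) (P.lf 1697646 0 0)))) (P.cons (P.cons (P.lf 0 426017430 0) (P.cons (P.lf 67340670 0 0) (P.cons (P.lf 0 8671530 0) (P.lf 0 578100 0)))) (P.cons (P.cons (P.lf 876697893 0 0) (P.cons (P.lf 22685742 0 0) (P.cons (P.lf 0 2921271 0) (P.lf 0 194751 0)))) (P.cons (P.cons (P.lf 0 74134308 0) (P.cons (P.lf 0 12012699 0) (P.cons (P.lf 1546881 0 0) P.nil))) (P.cons (P.cons (P.lf 0 52998018 0) (P.cons (P.lf 363894 0 0) P.nil)) (P.cons (P.cons (P.lf 10151589 0 0) P.nil) P.nil)))))) 5339235)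
 (EL.cons 8 (TM.mk (P.cons (P.cons (P.lf 0 1925508783 0) (P.cons (P.lf 0 104725461 0) (P.cons (P.lf 13485615 0 0) (P.lf 899043 0 0)))) (P.cons (P.cons (P.lf 0 1084034559 0) (P.cons (P.lf 0 11026203 0) (P.cons (P.lf 1419855 0 0) (P.lf 94656 0 0)))) (P.cons (P.cons (P.lf 231042978 0 0) (P.cons (P.lf 20697699 0 0) (P.cons (P.lf 0 2665260 0) (P.lf 0 177681 0)))) (P.cons (P.cons (P.lf 121166106 0 0) (P.cons (P.lf 0 235605 0) (P.cons (P.lf 30342 0 0) P.nil))) (P.cons (P.cons (P.lf 0 23192628 0) (P.cons (P.lf 0 1566318 0) P.nil)) (P.cons (P.cons (P.lf 0 4316712 0) P.nil) P.nil)))))) 3459747)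
 (EL.cons 11 (TM.mk (P.cons (P.cons (P.lf 1023961158 0 0) (P.cons (P.lf 0 292317771 0) (P.cons (P.lf 0 21864897 0) (P.cons (P.lf 1473375 0 0) (P.lf 73668 0 0))))) (P.cons (P.cons (P.lf 0 402594627 0) (P.cons (P.lf 114931668 0 0) (P.cons (P.lf 8596704 0 0) (P.cons (P.lf 0 579291 0) (P.lf 0 28962 0))))) (P.cons (P.cons (P.lf 6332751 0 0) (P.cons (P.lf 0 1807857 0) (P.cons (P.lf 0 135222 0) (P.cons (P.lf 9111 0 0) P.nil)))) (P.cons (P.cons (P.lf 14973276 0 0) (P.cons (P.lf 0 4274532 0) (P.cons (P.lf 0 319728 0) P.nil))) (P.cons (P.cons (P.lf 0 1633002 0) (P.cons (P.lf 466185 0 0) P.nil)) (P.cons (P.cons (P.lf 0 186822 0) P.nil) P.nil)))))) 198975)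
 EL.nil)))
noncomputable def S314_372_660_734_22 : EL := (EL.cons 4 (TM.mk (P.cons (P.cons (P.lf 907419879 0 0) (P.cons (P.lf 149569908 0 0) (P.cons (P.lf 0 13809642 0) (P.cons (P.lf 0 2687781 0) (P.cons (P.lf 0 3201 0) (P.cons (P.lf 12048 0 0) P.nil)))))) (P.cons (P.cons (P.lf 0 980377590 0) (P.cons (P.lf 0 123271728 0) (P.cons (P.lf 10803156 0 0) (P.cons (P.lf 2364165 0 0) (P.cons (P.lf 2976 0 0) P.nil))))) (P.cons (P.cons (P.lf 0 470907057 0) (P.cons (P.lf 0 16671993 0) (P.cons (P.lf 2982783 0 0) (P.cons (P.lf 0 72153 0) P.nil)))) (P.cons (P.cons (P.lf 337100991 0 0) (P.cons (P.lf 35441772 0 0) (P.cons (P.lf 0 3858495 0) P.nil))) (P.cons (P.cons (P.lf 28795971 0 0) (P.cons (P.lf 0 5980194 0) P.nil)) (P.cons (P.cons (P.lf 0 40596807 0) P.nil) P.nil)))))) 20723487)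
 (EL.cons 8 (TM.mk (P.cons (P.cons (P.lf 480550353 0 0) (P.cons (P.lf 79209057 0 0) (P.cons (P.lf 0 7313295 0) (P.cons (P.lf 0 1423392 0) (P.cons (P.lf 0 1695 0) (P.cons (P.lf 6381 0 0) P.nil)))))) (P.cons (P.cons (P.lf 0 304949643 0) (P.cons (P.lf 0 29969346 0) (P.cons (P.lf 2460732 0 0) (P.cons (P.lf 617439 0 0) (P.cons (P.lf 819 0 0) P.nil))))) (P.cons (P.cons (P.lf 0 447737670 0) (P.cons (P.lf 0 32475942 0) (P.cons (P.lf 3626346 0 0) (P.cons (P.lf 421890 0 0) P.nil)))) (P.cons (P.cons (P.lf 39313875 0 0) (P.cons (P.lf 11611308 0 0) (P.cons (P.lf 0 1062798 0) P.nil))) (P.cons (P.cons (P.lf 70785216 0 0) (P.cons (P.lf 3786663 0 0) P.nil)) (P.cons (P.cons (P.lf 0 7716750 0) P.nil) P.nil)))))) 13094976)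
 (EL.cons 11 (TM.mk (P.cons (P.cons (P.lf 0 255550584 0) (P.cons (P.lf 44730546 0 0) (P.cons (P.lf 17148321 0 0) (P.cons (P.lf 0 560286 0) (P.cons (P.lf 0 205767 0) (P.cons (P.lf 0 1974 0) P.nil)))))) (P.cons (P.cons (P.lf 406515540 0 0) (P.cons (P.lf 0 88309281 0) (P.cons (P.lf 0 20172390 0) (P.cons (P.lf 774222 0 0) (P.cons (P.lf 213432 0 0) P.nil))))) (P.cons (P.cons (P.lf 0 86765832 0) (P.cons (P.lf 16152825 0 0) (P.cons (P.lf 5422251 0 0) (P.cons (P.lf 0 183639 0) P.nil)))) (P.cons (P.cons (P.lf 0 35710692 0) (P.cons (P.lf 9956241 0 0) (P.cons (P.lf 861276 0 0) P.nil))) (P.cons (P.cons (P.lf 13181073 0 0) (P.cons (P.lf 0 3042852 0) P.nil)) (P.cons (P.cons (P.lf 555063 0 0) P.nil) P.nil)))))) 3187221)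
 EL.nil)))
noncomputable def S314_372_660_734_23 : EL := (EL.cons 4 (TM.mk (P.cons (P.cons (P.lf 0 2159527638 0) (P.cons (P.lf 0 117453378 0) (P.cons (P.lf 15124596 0 0) (P.lf 1008300 0 0)))) (P.cons (P.cons (P.lf 0 791249160 0) (P.cons (P.lf 10723500 0 0) (P.cons (P.lf 0 1380876 0) (P.lf 0 92058 0)))) (P.cons (P.cons (P.lf 533181300 0 0) (P.cons (P.lf 27550641 0 0) (P.cons (P.lf 0 3547725 0) (P.lf 0 236514 0)))) (P.cons (P.cons (P.lf 95786592 0 0) (P.cons (P.lf 0 5110914 0) (P.cons (P.lf 658131 0 0) P.nil))) (P.cons (P.cons (P.lf 0 61684533 0) (P.cons (P.lf 0 2118486 0) P.nil)) (P.cons (P.cons (P.lf 0 617922 0) P.nil) P.nil)))))) 8073930)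
 (EL.cons 8 (TM.mk (P.cons (P.cons (P.lf 0 1143640107 0) (P.cons (P.lf 0 62200824 0) (P.cons (P.lf 8009670 0 0) (P.lf 533979 0 0)))) (P.cons (P.cons (P.lf 0 928883121 0) (P.cons (P.lf 0 22051248 0) (P.cons (P.lf 2839563 0 0) (P.lf 189303 0 0)))) (P.cons (P.cons (P.lf 16760814 0 0) (P.cons (P.lf 12836712 0 0) (P.cons (P.lf 0 1652994 0) (P.lf 0 110196 0)))) (P.cons (P.cons (P.lf 129318321 0 0) (P.cons (P.lf 3187296 0 0) (P.cons (P.lf 0 410427 0) P.nil))) (P.cons (P.cons (P.lf 0 897540 0) (P.cons (P.lf 0 1424940 0) P.nil)) (P.cons (P.cons (P.lf 0 8892756 0) P.nil) P.nil)))))) 4468221)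
 (EL.cons 11 (TM.mk (P.cons (P.cons (P.lf 608173308 0 0) (P.cons (P.lf 0 173619735 0) (P.cons (P.lf 0 12986475 0) (P.cons (P.lf 875097 0 0) (P.lf 43752 0 0))))) (P.cons (P.cons (P.lf 0 87542580 0) (P.cons (P.lf 24991428 0 0) (P.cons (P.lf 1869318 0 0) (P.cons (P.lf 0 125961 0) (P.lf 0 6294 0))))) (P.cons (P.cons (P.lf 0 77106909 0) (P.cons (P.lf 22012278 0 0) (P.cons (P.lf 1646484 0 0) (P.cons (P.lf 0 110949 0) P.nil)))) (P.cons (P.cons (P.lf 17859042 0 0) (P.cons (P.lf 0 5098353 0) (P.cons (P.lf 0 381348 0) P.nil))) (P.cons (P.cons (P.lf 1573329 0 0) (P.cons (P.lf 0 449148 0) P.nil)) (P.cons (P.cons (P.lf 0 816918 0) P.nil) P.nil)))))) 561414)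
 EL.nil)))
noncomputable def S314_372_660_734_24 : EL := (EL.cons 4 (TM.mk (P.cons (P.cons (P.lf 538954575 0 0) (P.cons (P.lf 88835817 0 0) (P.cons (P.lf 0 8202123 0) (P.cons (P.lf 0 1596384 0) (P.cons (P.lf 0 1899 0) (P.cons (P.lf 7155 0 0) P.nil)))))) (P.cons (P.cons (P.lf 0 447963423 0) (P.cons (P.lf 0 51075654 0) (P.cons (P.lf 4372227 0 0) (P.cons (P.lf 1006308 0 0) (P.cons (P.lf 1293 0 0) P.nil))))) (P.cons (P.cons (P.lf 0 443666625 0) (P.cons (P.lf 0 31257210 0) (P.cons (P.lf 3657666 0 0) (P.cons (P.lf 362943 0 0) P.nil)))) (P.cons (P.cons (P.lf 150580818 0 0) (P.cons (P.lf 21094380 0 0) (P.cons (P.lf 0 2070093 0) P.nil))) (P.cons (P.cons (P.lf 77397225 0 0) (P.cons (P.lf 2128929 0 0) P.nil)) (P.cons (P.cons (P.lf 0 27031158 0) P.nil) P.nil)))))) 23162778)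
 (EL.cons 8 (TM.mk (P.cons (P.cons (P.lf 285418929 0 0) (P.cons (P.lf 47045568 0 0) (P.cons (P.lf 0 4343670 0) (P.cons (P.lf 0 845412 0) (P.cons (P.lf 0 1005 0) (P.cons (P.lf 3789 0 0) P.nil)))))) (P.cons (P.cons (P.lf 0 109987302 0) (P.cons (P.lf 0 6074868 0) (P.cons (P.lf 378957 0 0) (P.cons (P.lf 156021 0 0) (P.cons (P.lf 234 0 0) P.nil))))) (P.cons (P.cons (P.lf 0 321054714 0) (P.cons (P.lf 0 25370697 0) (P.cons (P.lf 2670030 0 0) (P.cons (P.lf 371547 0 0) P.nil)))) (P.cons (P.cons (P.lf 0 36749811 0) (P.cons (P.lf 2685741 0 0) (P.cons (P.lf 0 143163 0) P.nil))) (P.cons (P.cons (P.lf 57416733 0 0) (P.cons (P.lf 4677615 0 0) P.nil)) (P.cons (P.cons (P.lf 5117001 0 0) P.nil) P.nil)))))) 12956562)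
 (EL.cons 11 (TM.mk (P.cons (P.cons (P.lf 0 151782168 0) (P.cons (P.lf 26567340 0 0) (P.cons (P.lf 10185105 0 0) (P.cons (P.lf 0 332775 0) (P.cons (P.lf 0 122214 0) (P.cons (P.lf 0 1170 0) P.nil)))))) (P.cons (P.cons (P.lf 203617854 0 0) (P.cons (P.lf 0 45829185 0) (P.cons (P.lf 0 9442788 0) (P.cons (P.lf 376905 0 0) (P.cons (P.lf 96306 0 0) P.nil))))) (P.cons (P.cons (P.lf 13951002 0 0) (P.cons (P.lf 0 4407708 0) (P.cons (P.lf 0 121836 0) (P.cons (P.lf 17172 0 0) P.nil)))) (P.cons (P.cons (P.lf 0 42415491 0) (P.cons (P.lf 10124472 0 0) (P.cons (P.lf 1727655 0 0) P.nil))) (P.cons (P.cons (P.lf 4130484 0 0) (P.cons (P.lf 0 625848 0) P.nil)) (P.cons (P.cons (P.lf 3186429 0 0) P.nil) P.nil)))))) 3987885)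
 EL.nil)))
noncomputable def S314_372_660_734_25 : EL := (EL.cons 4 (TM.mk (P.cons (P.cons (P.lf 0 1282633683 0) (P.cons (P.lf 0 69760467 0) (P.cons (P.lf 8983128 0 0) (P.lf 598872 0 0)))) (P.cons (P.cons (P.lf 0 789627045 0) (P.cons (P.lf 0 11017281 0) (P.cons (P.lf 1418706 0 0) (P.lf 94578 0 0)))) (P.cons (P.cons (P.lf 244415646 0 0) (P.cons (P.lf 20390952 0 0) (P.cons (P.lf 0 2625765 0) (P.lf 0 175050 0)))) (P.cons (P.cons (P.lf 152963442 0 0) (P.cons (P.lf 858393 0 0) (P.cons (P.lf 0 110538 0) P.nil))) (P.cons (P.cons (P.lf 0 33963846 0) (P.cons (P.lf 0 2628135 0) P.nil)) (P.cons (P.cons (P.lf 0 11867001 0) P.nil) P.nil)))))) 7624056)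
 (EL.cons 8 (TM.mk (P.cons (P.cons (P.lf 0 679255638 0) (P.cons (P.lf 0 36943668 0) (P.cons (P.lf 4757277 0 0) (P.lf 317151 0 0)))) (P.cons (P.cons (P.lf 0 720993543 0) (P.cons (P.lf 0 22304637 0) (P.cons (P.lf 2872191 0 0) (P.lf 191478 0 0)))) (P.cons (P.cons (P.lf 0 103786851 0) (P.cons (P.lf 5652273 0 0) (P.cons (P.lf 0 727845 0) (P.lf 0 48522 0)))) (P.cons (P.cons (P.lf 98960958 0 0) (P.cons (P.lf 4271760 0 0) (P.cons (P.lf 0 550077 0) P.nil))) (P.cons (P.cons (P.lf 18201309 0 0) (P.cons (P.lf 0 653805 0) P.nil)) (P.cons (P.cons (P.lf 0 8377413 0) P.nil) P.nil)))))) 4729182)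
 (EL.cons 11 (TM.mk (P.cons (P.cons (P.lf 361219536 0 0) (P.cons (P.lf 0 103120014 0) (P.cons (P.lf 0 7713210 0) (P.cons (P.lf 519756 0 0) (P.lf 25986 0 0))))) (P.cons (P.cons (P.lf 38031636 0 0) (P.cons (P.lf 0 10857171 0) (P.cons (P.lf 0 812097 0) (P.cons (P.lf 54723 0 0) (P.lf 2736 0 0))))) (P.cons (P.cons (P.lf 0 71390604 0) (P.cons (P.lf 20380404 0 0) (P.cons (P.lf 1524420 0 0) (P.cons (P.lf 0 102723 0) P.nil)))) (P.cons (P.cons (P.lf 812634 0 0) (P.cons (P.lf 0 231987 0) (P.cons (P.lf 0 17349 0) P.nil))) (P.cons (P.cons (P.lf 5402559 0 0) (P.cons (P.lf 0 1542306 0) P.nil)) (P.cons (P.cons (P.lf 0 639474 0) P.nil) P.nil)))))) 789333)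
 EL.nil)))
noncomputable def S314_372_660_734_26 : EL := (EL.cons 4 (TM.mk (P.cons (P.cons (P.lf 320107635 0 0) (P.cons (P.lf 52763301 0 0) (P.cons (P.lf 0 4871583 0) (P.cons (P.lf 0 948159 0) (P.cons (P.lf 0 1128 0) (P.cons (P.lf 4251 0 0) P.nil)))))) (P.cons (P.cons (P.lf 0 186283686 0) (P.cons (P.lf 0 17185752 0) (P.cons (P.lf 1382700 0 0) (P.cons (P.lf 361377 0 0) (P.cons (P.lf 486 0 0) P.nil))))) (P.cons (P.cons (P.lf 0 341020179 0) (P.cons (P.lf 0 27971169 0) (P.cons (P.lf 2990052 0 0) (P.cons (P.lf 397695 0 0) P.nil)))) (P.cons (P.cons (P.lf 32890878 0 0) (P.cons (P.lf 8933868 0 0) (P.cons (P.lf 0 776220 0) P.nil))) (P.cons (P.cons (P.lf 77795442 0 0) (P.cons (P.lf 5081448 0 0) P.nil)) (P.cons (P.cons (P.lf 0 7735656 0) P.nil) P.nil)))))) 19492572)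
 (EL.cons 8 (TM.mk (P.cons (P.cons (P.lf 169522224 0 0) (P.cons (P.lf 27942327 0 0) (P.cons (P.lf 0 2579886 0) (P.cons (P.lf 0 502125 0) (P.cons (P.lf 0 597 0) (P.cons (P.lf 2250 0 0) P.nil)))))) (P.cons (P.cons (P.lf 0 23075985 0) (P.cons (P.lf 3355953 0 0) (P.cons (P.lf 0 417906 0) (P.cons (P.lf 0 32475 0) (P.cons (P.lf 0 6 0) P.nil))))) (P.cons (P.cons (P.lf 0 212898621 0) (P.cons (P.lf 0 16945341 0) (P.cons (P.lf 1732176 0 0) (P.cons (P.lf 261336 0 0) P.nil)))) (P.cons (P.cons (P.lf 0 67160961 0) (P.cons (P.lf 0 2049615 0) (P.cons (P.lf 303759 0 0) P.nil))) (P.cons (P.cons (P.lf 35459127 0 0) (P.cons (P.lf 3719859 0 0) P.nil)) (P.cons (P.cons (P.lf 12365784 0 0) P.nil) P.nil)))))) 9546186)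
 (EL.cons 11 (TM.mk (P.cons (P.cons (P.lf 0 90149769 0) (P.cons (P.lf 15779451 0 0) (P.cons (P.lf 6049359 0 0) (P.cons (P.lf 0 197649 0) (P.cons (P.lf 0 72588 0) (P.cons (P.lf 0 696 0) P.nil)))))) (P.cons (P.cons (P.lf 98469099 0 0) (P.cons (P.lf 0 23287149 0) (P.cons (P.lf 0 4100781 0) (P.cons (P.lf 174597 0 0) (P.cons (P.lf 39108 0 0) P.nil))))) (P.cons (P.cons (P.lf 41580555 0 0) (P.cons (P.lf 0 9953874 0) (P.cons (P.lf 0 1681758 0) (P.cons (P.lf 72906 0 0) P.nil)))) (P.cons (P.cons (P.lf 0 27307617 0) (P.cons (P.lf 6304275 0 0) (P.cons (P.lf 1200927 0 0) P.nil))) (P.cons (P.cons (P.lf 0 4230363 0) (P.cons (P.lf 1242045 0 0) P.nil)) (P.cons (P.cons (P.lf 3448872 0 0) P.nil) P.nil)))))) 3422505)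
 EL.nil)))
noncomputable def S314_372_660_734_27 : EL := (EL.cons 13 (TM.mk (P.lf 0 4294967296 0) 0)
 EL.nil)
noncomputable def S314_372_660_734_28 : EL := (EL.cons 13 (TM.mk (P.cons (P.cons (P.lf 1071897500 0 0) (P.cons (P.lf 118381884 0 0) (P.cons (P.lf 0 15244164 0) (P.lf 0 1016276 0)))) (P.cons (P.cons (P.lf 0 1283672508 0) (P.cons (P.lf 0 69816968 0) (P.cons (P.lf 8990408 0 0) (P.lf 599360 0 0)))) (P.cons (P.cons (P.lf 0 147399437 0) (P.cons (P.lf 7960760 0 0) (P.cons (P.lf 0 1025112 0) (P.lf 0 68340 0)))) (P.cons (P.cons (P.lf 84098304 0 0) (P.cons (P.lf 2830428 0 0) (P.cons (P.lf 0 364476 0) P.nil))) (P.cons (P.cons (P.lf 0 830223 0) (P.cons (P.lf 0 746872 0) P.nil)) (P.cons (P.cons (P.lf 0 2870947 0) P.nil) P.nil)))))) 1011486)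
 EL.nil)
noncomputable def S314_372_660_734_29 : EL := (EL.cons 13 (TM.mk (P.cons (P.cons (P.lf 0 267514085 0) (P.cons (P.lf 0 59089272 0) (P.cons (P.lf 4346038 0 0) (P.cons (P.lf 1347612 0 0) (P.cons (P.lf 1916 0 0) (P.cons (P.lf 0 7214 0) P.nil)))))) (P.cons (P.cons (P.lf 640733797 0 0) (P.cons (P.lf 105612074 0 0) (P.cons (P.lf 0 9751061 0) (P.cons (P.lf 0 1897858 0) (P.cons (P.lf 0 2260 0) P.nil))))) (P.cons (P.cons (P.lf 0 310088724 0) (P.cons (P.lf 0 37581575 0) (P.cons (P.lf 3265663 0 0) (P.cons (P.lf 727935 0 0) P.nil)))) (P.cons (P.cons (P.lf 0 130085911 0) (P.cons (P.lf 0 6082289 0) (P.cons (P.lf 886007 0 0) P.nil))) (P.cons (P.cons (P.lf 45626097 0 0) (P.cons (P.lf 5391005 0 0) P.nil)) (P.cons (P.cons (P.lf 6709093 0 0) P.nil) P.nil)))))) 7872140)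
 EL.nil)
noncomputable def S314_372_660_734_30 : EL := (EL.cons 13 (TM.mk (P.cons (P.lf 0 2550960508 0) (P.cons (P.lf 0 635776524 0) (P.cons (P.lf 89228036 0 0) (P.cons (P.lf 1407440 0 0) (P.cons (P.lf 0 1369092 0) (P.cons (P.lf 95416 0 0) P.nil)))))) 28012)
 EL.nil)
noncomputable def S314_372_660_734_31 : EL := (EL.cons 13 (TM.mk (P.cons (P.cons (P.lf 636644705 0 0) (P.cons (P.lf 70311946 0 0) (P.cons (P.lf 0 9054145 0) (P.lf 0 603608 0)))) (P.cons (P.cons (P.lf 0 603755611 0) (P.cons (P.lf 0 23943350 0) (P.cons (P.lf 3083211 0 0) (P.lf 205547 0 0)))) (P.cons (P.cons (P.lf 0 299835180 0) (P.cons (P.lf 0 8066042 0) (P.cons (P.lf 1038675 0 0) (P.lf 69245 0 0)))) (P.cons (P.cons (P.lf 54447282 0 0) (P.cons (P.lf 4271182 0 0) (P.cons (P.lf 0 550003 0) P.nil))) (P.cons (P.cons (P.lf 15780386 0 0) (P.cons (P.lf 0 129385 0) P.nil)) (P.cons (P.cons (P.lf 0 3959918 0) P.nil) P.nil))))))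 1769049)
 EL.nil)
noncomputable def S314_372_660_734_32 : EL := (EL.cons 13 (TM.mk (P.cons (P.cons (P.lf 0 158887791 0) (P.cons (P.lf 0 35095587 0) (P.cons (P.lf 2581293 0 0) (P.cons (P.lf 800403 0 0) (P.cons (P.lf 1137 0 0) (P.cons (P.lf 0 4284 0) P.nil)))))) (P.cons (P.cons (P.lf 340958926 0 0) (P.cons (P.lf 53980540 0 0) (P.cons (P.lf 0 5148226 0) (P.cons (P.lf 0 927732 0) (P.cons (P.lf 0 1058 0) P.nil))))) (P.cons (P.cons (P.lf 0 83770329 0) (P.cons (P.lf 0 5460115 0) (P.cons (P.lf 405892 0 0) (P.cons (P.lf 123417 0 0) P.nil)))) (P.cons (P.cons (P.lf 0 136388945 0) (P.cons (P.lf 0 11350390 0) (P.cons (P.lf 1210801 0 0) P.nil))) (P.cons (P.cons (P.lf 13989714 0 0) (P.cons (P.lf 3028906 0 0) P.nil)) (P.cons (P.cons (P.lf 13753101 0 0) P.nil) P.nil)))))) 9844096)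
 EL.nil)
noncomputable def S314_372_660_734_33 : EL := (EL.cons 14 (TM.mk (P.lf 8589934592 0 0) 0)
 EL.nil)
noncomputable def S314_372_660_734_34 : EL := (EL.cons 14 (TM.mk (P.cons (P.cons (P.lf 0 2143795000 0) (P.cons (P.lf 0 236763768 0) (P.cons (P.lf 30488328 0 0) (P.lf 2032552 0 0)))) (P.cons (P.cons (P.lf 2567345016 0 0) (P.cons (P.lf 139633936 0 0) (P.cons (P.lf 0 17980816 0) (P.lf 0 1198720 0)))) (P.cons (P.cons (P.lf 294798874 0 0) (P.cons (P.lf 0 15921520 0) (P.cons (P.lf 2050224 0 0) (P.lf 136680 0 0)))) (P.cons (P.cons (P.lf 0 168196608 0) (P.cons (P.lf 0 5660856 0) (P.cons (P.lf 728952 0 0) P.nil))) (P.cons (P.cons (P.lf 1660446 0 0) (P.cons (P.lf 1493744 0 0) P.nil)) (P.cons (P.cons (P.lf 5741894 0 0) P.nil) P.nil)))))) 2022972)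
 EL.nil)
noncomputable def S314_372_660_734_35 : EL := (EL.cons 14 (TM.mk (P.cons (P.cons (P.lf 535028170 0 0) (P.cons (P.lf 118178544 0 0) (P.cons (P.lf 0 8692076 0) (P.cons (P.lf 0 2695224 0) (P.cons (P.lf 0 3832 0) (P.cons (P.lf 14428 0 0) P.nil)))))) (P.cons (P.cons (P.lf 0 1281467594 0) (P.cons (P.lf 0 211224148 0) (P.cons (P.lf 19502122 0 0) (P.cons (P.lf 3795716 0 0) (P.cons (P.lf 4520 0 0) P.nil))))) (P.cons (P.cons (P.lf 620177448 0 0) (P.cons (P.lf 75163150 0 0) (P.cons (P.lf 0 6531326 0) (P.cons (P.lf 0 1455870 0) P.nil)))) (P.cons (P.cons (P.lf 260171822 0 0) (P.cons (P.lf 12164578 0 0) (P.cons (P.lf 0 1772014 0) P.nil))) (P.cons (P.cons (P.lf 0 91252194 0) (P.cons (P.lf 0 10782010 0) P.nil)) (P.cons (P.cons (P.lf 0 13418186 0) P.nil) P.nil)))))) 15744280)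
 EL.nil)
noncomputable def S314_372_660_734_36 : EL := (EL.cons 14 (TM.mk (P.cons (P.lf 5101921016 0 0) (P.cons (P.lf 1271553048 0 0) (P.cons (P.lf 0 178456072 0) (P.cons (P.lf 0 2814880 0) (P.cons (P.lf 2738184 0 0) (P.cons (P.lf 0 190832 0) P.nil)))))) 56024)
 EL.nil)
noncomputable def S314_372_660_734_37 : EL := (EL.cons 14 (TM.mk (P.cons (P.cons (P.lf 0 1273289410 0) (P.cons (P.lf 0 140623892 0) (P.cons (P.lf 18108290 0 0) (P.lf 1207216 0 0)))) (P.cons (P.cons (P.lf 1207511222 0 0) (P.cons (P.lf 47886700 0 0) (P.cons (P.lf 0 6166422 0) (P.lf 0 411094 0)))) (P.cons (P.cons (P.lf 599670360 0 0) (P.cons (P.lf 16132084 0 0) (P.cons (P.lf 0 2077350 0) (P.lf 0 138490 0)))) (P.cons (P.cons (P.lf 0 108894564 0) (P.cons (P.lf 0 8542364 0) (P.cons (P.lf 1100006 0 0) P.nil))) (P.cons (P.cons (P.lf 0 31560772 0) (P.cons (P.lf 258770 0 0) P.nil)) (P.cons (P.cons (P.lf 7919836 0 0)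 P.nil) P.nil)))))) 3538098)
 EL.nil)
noncomputable def S314_372_660_734_38 : EL := (EL.cons 14 (TM.mk (P.cons (P.cons (P.lf 317775582 0 0) (P.cons (P.lf 70191174 0 0) (P.cons (P.lf 0 5162586 0) (P.cons (P.lf 0 1600806 0) (P.cons (P.lf 0 2274 0) (P.cons (P.lf 8568 0 0) P.nil)))))) (P.cons (P.cons (P.lf 0 681917852 0) (P.cons (P.lf 0 107961080 0) (P.cons (P.lf 10296452 0 0) (P.cons (P.lf 1855464 0 0) (P.cons (P.lf 2116 0 0) P.nil))))) (P.cons (P.cons (P.lf 167540658 0 0) (P.cons (P.lf 10920230 0 0) (P.cons (P.lf 0 811784 0) (P.cons (P.lf 0 246834 0) P.nil)))) (P.cons (P.cons (P.lf 272777890 0 0) (P.cons (P.lf 22700780 0 0) (P.cons (P.lf 0 2421602 0) P.nil))) (P.cons (P.cons (P.lf 0 27979428 0) (P.cons (P.lf 0 6057812 0) P.nil)) (P.cons (P.cons (P.lf 0 27506202 0) P.nil) P.nil)))))) 19688192)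
 EL.nil)
noncomputable def S314_372_660_734_39 : EL := (EL.cons 14 (TM.mk (P.cons (P.lf 3030244034 0 0) (P.cons (P.lf 1510456952 0 0) (P.cons (P.lf 0 23759250 0) (P.cons (P.lf 0 56176832 0) (P.cons (P.lf 6126708 0 0) (P.cons (P.lf 700928 0 0) P.nil)))))) 267590)
 EL.nil)
noncomputable def S314_372_660_734_40 : EL := (EL.cons 14 (TM.mk (P.cons (P.cons (P.lf 0 756259774 0) (P.cons (P.lf 0 83522404 0) (P.cons (P.lf 10755270 0 0) (P.lf 717016 0 0)))) (P.cons (P.cons (P.lf 528708548 0 0) (P.cons (P.lf 7625600 0 0) (P.cons (P.lf 0 981956 0) (P.lf 0 65464 0)))) (P.cons (P.cons (P.lf 561367674 0 0) (P.cons (P.lf 19591568 0 0) (P.cons (P.lf 0 2522830 0) (P.lf 0 168188 0)))) (P.cons (P.cons (P.lf 0 577692 0) (P.cons (P.lf 0 3634428 0) (P.cons (P.lf 468006 0 0) P.nil))) (P.cons (P.cons (P.lf 0 48124474 0) (P.cons (P.lf 0 1506478 0) P.nil)) (P.cons (P.cons (P.lf 2511014 0 0) P.nil)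 P.nil)))))) 4974164)
 EL.nil)
noncomputable def S314_372_660_734_41 : EL := (EL.cons 14 (TM.mk (P.cons (P.cons (P.lf 188740192 0 0) (P.cons (P.lf 41689470 0 0) (P.cons (P.lf 0 3066276 0) (P.cons (P.lf 0 950784 0) (P.cons (P.lf 0 1350 0) (P.cons (P.lf 5088 0 0) P.nil)))))) (P.cons (P.cons (P.lf 0 357979734 0) (P.cons (P.lf 0 53732318 0) (P.cons (P.lf 5351284 0 0) (P.cons (P.lf 865072 0 0) (P.cons (P.lf 920 0 0) P.nil))))) (P.cons (P.cons (P.lf 0 8035508 0) (P.cons (P.lf 0 10953532 0) (P.cons (P.lf 1149266 0 0) (P.cons (P.lf 161312 0 0) P.nil)))) (P.cons (P.cons (P.lf 200877660 0 0) (P.cons (P.lf 17319336 0 0) (P.cons (P.lf 0 1770674 0) P.nil))) (P.cons (P.cons (P.lf 20604780 0 0) (P.cons (P.lf 0 406744 0) P.nil)) (P.cons (P.cons (P.lf 0 26425130 0) P.nil) P.nil)))))) 18240862)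
 EL.nil)
noncomputable def S314_372_660_734_42 : EL := (EL.cons 14 (TM.mk (P.cons (P.lf 1799788526 0 0) (P.cons (P.lf 1345685228 0 0) (P.cons (P.lf 146525314 0 0) (P.cons (P.lf 0 69255578 0) (P.cons (P.lf 0 3712280 0) (P.cons (P.lf 2912260 0 0) P.nil)))))) 563866)
 EL.nil)
noncomputable def S314_372_660_734_43 : EL := (EL.cons 14 (TM.mk (P.cons (P.cons (P.lf 0 449174274 0) (P.cons (P.lf 0 49607444 0) (P.cons (P.lf 6388004 0 0) (P.lf 425866 0 0)))) (P.cons (P.cons (P.lf 202074278 0 0) (P.cons (P.lf 0 7834512 0) (P.cons (P.lf 1008858 0 0) (P.lf 67256 0 0)))) (P.cons (P.cons (P.lf 427394832 0 0) (P.cons (P.lf 14500234 0 0) (P.cons (P.lf 0 1867212 0) (P.lf 0 124480 0)))) (P.cons (P.cons (P.lf 72019052 0 0) (P.cons (P.lf 610414 0 0) (P.cons (P.lf 0 78604 0) P.nil))) (P.cons (P.cons (P.lf 0 40745400 0) (P.cons (P.lf 0 1868896 0) P.nil)) (P.cons (P.cons (P.lf 0 5619004 0) P.nil)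 P.nil)))))) 6028268)
 EL.nil)
noncomputable def S314_372_660_734_44 : EL := (EL.cons 14 (TM.mk (P.cons (P.cons (P.lf 112100686 0 0) (P.cons (P.lf 24761118 0 0) (P.cons (P.lf 0 1821188 0) (P.cons (P.lf 0 564710 0) (P.cons (P.lf 0 802 0) (P.cons (P.lf 3022 0 0) P.nil)))))) (P.cons (P.cons (P.lf 0 184680238 0) (P.cons (P.lf 0 25742648 0) (P.cons (P.lf 2724454 0 0) (P.cons (P.lf 373060 0 0) (P.cons (P.lf 346 0 0) P.nil))))) (P.cons (P.cons (P.lf 0 61684820 0) (P.cons (P.lf 0 15325760 0) (P.cons (P.lf 1538440 0 0) (P.cons (P.lf 243616 0 0) P.nil)))) (P.cons (P.cons (P.lf 125495340 0 0) (P.cons (P.lf 9767874 0 0) (P.cons (P.lf 0 991722 0) P.nil))) (P.cons (P.cons (P.lf 42318020 0 0) (P.cons (P.lf 2580624 0 0) P.nil)) (P.cons (P.cons (P.lf 0 16933808 0) P.nil) P.nil)))))) 18625098)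
 EL.nil)
noncomputable def S314_372_660_734_45 : EL := (EL.cons 14 (TM.mk (P.cons (P.cons (P.lf 0 133527292 0) (P.cons (P.lf 0 44240832 0) (P.cons (P.lf 810918 0 0) (P.cons (P.lf 1458278 0 0) (P.cons (P.lf 72356 0 0) (P.cons (P.lf 0 15118 0) P.nil)))))) (P.cons (P.cons (P.lf 479724924 0 0) (P.cons (P.lf 132054504 0 0) (P.cons (P.lf 0 5390284 0) (P.cons (P.lf 0 3806632 0) (P.cons (P.lf 0 129764 0) P.nil))))) (P.cons (P.cons (P.lf 0 519419210 0) (P.cons (P.lf 0 116749564 0) (P.cons (P.lf 6447484 0 0) (P.cons (P.lf 2989666 0 0) P.nil)))) (P.cons (P.cons (P.lf 65971316 0 0) (P.cons (P.lf 14798512 0 0) (P.cons (P.lf 0 105392 0) P.nil))) (P.cons (P.cons (P.lf 147012914 0 0) (P.cons (P.lf 19597328 0 0) P.nil)) (P.cons (P.cons (P.lf 0 27029208 0) P.nil) P.nil)))))) 43787850)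
 EL.nil)
noncomputable def S314_372_660_734_46 : EL := (EL.cons 15 (TM.mk (P.lf 4294967296 0 0) 0)
 EL.nil)
noncomputable def S314_372_660_734_47 : EL := (EL.cons 15 (TM.mk (P.cons (P.cons (P.lf 0 1071897500 0) (P.cons (P.lf 0 118381884 0) (P.cons (P.lf 15244164 0 0) (P.lf 1016276 0 0)))) (P.cons (P.cons (P.lf 1283672508 0 0) (P.cons (P.lf 69816968 0 0) (P.cons (P.lf 0 8990408 0) (P.lf 0 599360 0)))) (P.cons (P.cons (P.lf 147399437 0 0) (P.cons (P.lf 0 7960760 0) (P.cons (P.lf 1025112 0 0) (P.lf 68340 0 0)))) (P.cons (P.cons (P.lf 0 84098304 0) (P.cons (P.lf 0 2830428 0) (P.cons (P.lf 364476 0 0) P.nil))) (P.cons (P.cons (P.lf 830223 0 0) (P.cons (P.lf 746872 0 0) P.nil)) (P.cons (P.cons (P.lf 2870947 0 0) P.nil) P.nil)))))) 1011486)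
 EL.nil)
noncomputable def S314_372_660_734_48 : EL := (EL.cons 15 (TM.mk (P.cons (P.cons (P.lf 267514085 0 0) (P.cons (P.lf 59089272 0 0) (P.cons (P.lf 0 4346038 0) (P.cons (P.lf 0 1347612 0) (P.cons (P.lf 0 1916 0) (P.cons (P.lf 7214 0 0) P.nil)))))) (P.cons (P.cons (P.lf 0 640733797 0) (P.cons (P.lf 0 105612074 0) (P.cons (P.lf 9751061 0 0) (P.cons (P.lf 1897858 0 0) (P.cons (P.lf 2260 0 0) P.nil))))) (P.cons (P.cons (P.lf 310088724 0 0) (P.cons (P.lf 37581575 0 0) (P.cons (P.lf 0 3265663 0) (P.cons (P.lf 0 727935 0) P.nil)))) (P.cons (P.cons (P.lf 130085911 0 0) (P.cons (P.lf 6082289 0 0) (P.cons (P.lf 0 886007 0) P.nil))) (P.cons (P.cons (P.lf 0 45626097 0) (P.cons (P.lf 0 5391005 0) P.nil)) (P.cons (P.cons (P.lf 0 6709093 0) P.nil) P.nil)))))) 7872140)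
 EL.nil)
noncomputable def S314_372_660_734 : SL := (SL.cons S314_372_660_734_0 (SL.cons S314_372_660_734_1 (SL.cons S314_372_660_734_2 (SL.cons S314_372_660_734_3 (SL.cons S314_372_660_734_4 (SL.cons S314_372_660_734_5 (SL.cons S314_372_660_734_6 (SL.cons S314_372_660_734_7 (SL.cons S314_372_660_734_8 (SL.cons S314_372_660_734_9 (SL.cons S314_372_660_734_10 (SL.cons S314_372_660_734_11 (SL.cons S314_372_660_734_12 (SL.cons S314_372_660_734_13 (SL.cons S314_372_660_734_14 (SL.cons S314_372_660_734_15 (SL.cons S314_372_660_734_16 (SL.cons S314_372_660_734_17 (SL.cons S314_372_660_734_18 (SL.cons S314_372_660_734_19 (SL.cons S314_372_660_734_20 (SL.cons S314_372_660_734_21 (SL.cons S314_372_660_734_22 (SL.cons S314_372_660_734_23 (SL.cons S314_372_660_734_24 (SL.cons S314_372_660_734_25 (SL.cons S314_372_660_734_26 (SL.cons S314_372_660_734_27 (SL.cons S314_372_660_734_28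 (SL.cons S314_372_660_734_29 (SL.cons S314_372_660_734_30 (SL.cons S314_372_660_734_31 (SL.cons S314_372_660_734_32 (SL.cons S314_372_660_734_33 (SL.cons S314_372_660_734_34 (SL.cons S314_372_660_734_35 (SL.cons S314_372_660_734_36 (SL.cons S314_372_660_734_37 (SL.cons S314_372_660_734_38 (SL.cons S314_372_660_734_39 (SL.cons S314_372_660_734_40 (SL.cons S314_372_660_734_41 (SL.cons S314_372_660_734_42 (SL.cons S314_372_660_734_43 (SL.cons S314_372_660_734_44 (SL.cons S314_372_660_734_45 (SL.cons S314_372_660_734_46 (SL.cons S314_372_660_734_47 (SL.cons S314_372_660_734_48 SL.nil)))))))))))))))))))))))))))))))))))))))))))))))))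
noncomputable def S314_372_660_808_0 : EL := (EL.cons 0 (TM.mk (P.cons (P.lf 5792416443 0 0) (P.cons (P.lf 0 1327550055 0) (P.cons (P.lf 20882153 0 0) (P.cons (P.lf 49374168 0 0) (P.cons (P.lf 0 5384801 0) (P.cons (P.lf 0 616050 0) P.nil)))))) 235193)
 (EL.cons 1 (TM.mk (P.cons (P.lf 1788121471 0 0) (P.cons (P.lf 94132764 0 0) (P.cons (P.lf 0 179177853 0) (P.cons (P.lf 11443897 0 0) (P.cons (P.lf 3792305 0 0) (P.cons (P.lf 0 635690 0) P.nil)))))) 110845)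
 (EL.cons 5 (TM.mk (P.cons (P.lf 5241918562 0 0) (P.cons (P.lf 472017796 0 0) (P.cons (P.lf 0 7424770 0) (P.cons (P.lf 0 17555260 0) (P.cons (P.lf 1914598 0 0) (P.cons (P.lf 219040 0 0) P.nil)))))) 72457)
 (EL.cons 9 (TM.mk (P.lf 6442450944 0 0) 2)
 EL.nil))))
noncomputable def S314_372_660_808_1 : EL := (EL.cons 0 (TM.mk (P.cons (P.cons (P.lf 2655747164 0 0) (P.cons (P.lf 86820204 0 0) (P.cons (P.lf 0 37437842 0) (P.lf 0 4159756 0)))) (P.cons (P.cons (P.lf 3641583056 0 0) (P.cons (P.lf 158597043 0 0) (P.cons (P.lf 0 68388835 0) (P.lf 0 7598765 0)))) (P.cons (P.cons (P.lf 0 1275847864 0) (P.cons (P.lf 0 121193638 0) (P.cons (P.lf 52260061 0 0) (P.lf 5806659 0 0)))) (P.cons (P.cons (P.lf 0 338445406 0) (P.cons (P.lf 10327520 0 0) (P.cons (P.lf 0 4453344 0) P.nil))) (P.cons (P.cons (P.lf 165427090 0 0) (P.cons (P.lf 9699323 0 0) P.nil)) (P.cons (P.cons (P.lf 3196272 0 0) P.nil)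 P.nil)))))) 33750213)
 (EL.cons 1 (TM.mk (P.cons (P.cons (P.lf 0 789360399 0) (P.cons (P.lf 0 93030122 0) (P.cons (P.lf 40115629 0 0) (P.lf 4457287 0 0)))) (P.cons (P.cons (P.lf 1564640456 0 0) (P.cons (P.lf 124496797 0 0) (P.cons (P.lf 0 53684418 0) (P.lf 0 5964923 0)))) (P.cons (P.cons (P.lf 496047973 0 0) (P.cons (P.lf 0 5945848 0) (P.cons (P.lf 2563919 0 0) (P.lf 284876 0 0)))) (P.cons (P.cons (P.lf 0 317045447 0) (P.cons (P.lf 0 20698968 0) (P.cons (P.lf 8925629 0 0) P.nil))) (P.cons (P.cons (P.lf 0 21929071 0) (P.cons (P.lf 4289004 0 0) P.nil)) (P.cons (P.cons (P.lf 24842600 0 0) P.nil) P.nil)))))) 17710440)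
 (EL.cons 5 (TM.mk (P.cons (P.cons (P.lf 0 2940097866 0) (P.cons (P.lf 0 319341452 0) (P.cons (P.lf 137703636 0 0) (P.lf 15300398 0 0)))) (P.cons (P.cons (P.lf 989844440 0 0) (P.cons (P.lf 113739382 0 0) (P.cons (P.lf 0 49045706 0) (P.lf 0 5449520 0)))) (P.cons (P.cons (P.lf 692539427 0 0) (P.cons (P.lf 23692352 0 0) (P.cons (P.lf 0 10216404 0) (P.lf 0 1135150 0)))) (P.cons (P.cons (P.lf 0 26781804 0) (P.cons (P.lf 0 10569180 0) (P.cons (P.lf 4557550 0 0) P.nil))) (P.cons (P.cons (P.lf 0 56311855 0) (P.cons (P.lf 0 1628668 0) P.nil)) (P.cons (P.cons (P.lf 3758364 0 0) P.nil) P.nil)))))) 13362780)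
 (EL.cons 9 (TM.mk (P.cons (P.cons (P.lf 0 1761028410 0) (P.cons (P.lf 0 254534154 0) (P.cons (P.lf 109757994 0 0) (P.lf 12195330 0 0)))) (P.cons (P.cons (P.lf 2015849568 0 0) (P.cons (P.lf 150114210 0 0) (P.cons (P.lf 0 64730940 0) (P.lf 0 7192320 0)))) (P.cons (P.cons (P.lf 210798199 0 0) (P.cons (P.lf 0 17116512 0) (P.cons (P.lf 7380834 0 0) (P.lf 820086 0 0)))) (P.cons (P.cons (P.lf 0 129809940 0) (P.cons (P.lf 0 6085734 0) (P.cons (P.lf 2624238 0 0) P.nil))) (P.cons (P.cons (P.lf 2211766 0 0) (P.cons (P.lf 1605858 0 0) P.nil)) (P.cons (P.cons (P.lf 4318942 0 0) P.nil) P.nil)))))) 2640982)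
 (EL.cons 2 (TM.mk (P.cons (P.cons (P.lf 0 396080575 0) (P.cons (P.lf 368985698 0 0) (P.cons (P.lf 37869935 0 0) (P.cons (P.lf 0 7875891 0) (P.lf 0 656322 0))))) (P.cons (P.cons (P.lf 57013214 0 0) (P.cons (P.lf 0 53113083 0) (P.cons (P.lf 0 5451128 0) (P.cons (P.lf 1133682 0 0) (P.lf 94471 0 0))))) (P.cons (P.cons (P.lf 50216852 0 0) (P.cons (P.lf 0 46781642 0) (P.cons (P.lf 0 4801317 0) (P.cons (P.lf 998541 0 0) P.nil)))) (P.cons (P.cons (P.lf 0 11630927 0) (P.cons (P.lf 10835285 0 0) (P.cons (P.lf 1112051 0 0) P.nil))) (P.cons (P.cons (P.lf 0 1024650 0) (P.cons (P.lf 954556 0 0) P.nil)) (P.cons (P.cons (P.lf 532029 0 0) P.nil) P.nil)))))) 1390234)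
 (EL.cons 6 (TM.mk (P.cons (P.cons (P.lf 265925757 0 0) (P.cons (P.lf 0 247734444 0) (P.cons (P.lf 0 25425612 0) (P.cons (P.lf 5287818 0 0) (P.lf 440649 0 0))))) (P.cons (P.cons (P.lf 0 156832533 0) (P.cons (P.lf 146104011 0 0) (P.cons (P.lf 14995023 0 0) (P.cons (P.lf 0 3118545 0) (P.lf 0 259878 0))))) (P.cons (P.cons (P.lf 17882559 0 0) (P.cons (P.lf 0 16659258 0) (P.cons (P.lf 0 1709781 0) (P.cons (P.lf 355584 0 0) P.nil)))) (P.cons (P.cons (P.lf 6358104 0 0) (P.cons (P.lf 0 5923161 0) (P.cons (P.lf 0 607908 0) P.nil))) (P.cons (P.cons (P.lf 0 1677732 0) (P.cons (P.lf 1562961 0 0) P.nil)) (P.cons (P.cons (P.lf 0 21735 0) P.nil) P.nil)))))) 759483)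
 EL.nil))))))
noncomputable def S314_372_660_808_2 : EL := (EL.cons 0 (TM.mk (P.cons (P.cons (P.lf 0 1884687146 0) (P.cons (P.lf 0 382427773 0) (P.cons (P.lf 149005122 0 0) (P.cons (P.lf 32037280 0 0) (P.cons (P.lf 0 1433061 0) (P.cons (P.lf 0 657082 0) P.nil)))))) (P.cons (P.cons (P.lf 761188631 0 0) (P.cons (P.lf 49316697 0 0) (P.cons (P.lf 0 17014835 0) (P.cons (P.lf 0 6029092 0) (P.cons (P.lf 383095 0 0) P.nil))))) (P.cons (P.cons (P.lf 2458046300 0 0) (P.cons (P.lf 299508678 0 0) (P.cons (P.lf 0 119483273 0) (P.cons (P.lf 0 22688267 0) P.nil)))) (P.cons (P.cons (P.lf 0 558418678 0) (P.cons (P.lf 0 125535776 0) (P.cons (P.lf 47907462 0 0) P.nil))) (P.cons (P.cons (P.lf 0 413747255 0) (P.cons (P.lf 0 25604251 0) P.nil)) (P.cons (P.cons (P.lf 124569970 0 0) P.nil) P.nil)))))) 212897593)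
 (EL.cons 1 (TM.mk (P.cons (P.cons (P.lf 297933040 0 0) (P.cons (P.lf 74610419 0 0) (P.cons (P.lf 0 27612988 0) (P.cons (P.lf 0 7507287 0) (P.cons (P.lf 410922 0 0) (P.cons (P.lf 188413 0 0) P.nil)))))) (P.cons (P.cons (P.lf 0 1050519532 0) (P.cons (P.lf 0 221744615 0) (P.cons (P.lf 84591267 0 0) (P.cons (P.lf 20134667 0 0) (P.cons (P.lf 0 993781 0) P.nil))))) (P.cons (P.cons (P.lf 542718775 0 0) (P.cons (P.lf 96334246 0 0) (P.cons (P.lf 0 35667709 0) (P.cons (P.lf 0 9680329 0) P.nil)))) (P.cons (P.cons (P.lf 522606503 0 0) (P.cons (P.lf 49087750 0 0) (P.cons (P.lf 0 20625168 0) P.nil))) (P.cons (P.cons (P.lf 0 183536141 0) (P.cons (P.lf 0 33885473 0) P.nil)) (P.cons (P.cons (P.lf 0 58870191 0) P.nil) P.nil)))))) 116639081)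
 (EL.cons 5 (TM.mk (P.cons (P.cons (P.lf 1215666903 0 0) (P.cons (P.lf 293680592 0 0) (P.cons (P.lf 0 109587107 0) (P.cons (P.lf 0 28776327 0) (P.cons (P.lf 1536620 0 0) (P.cons (P.lf 704558 0 0) P.nil)))))) (P.cons (P.cons (P.lf 0 1519640777 0) (P.cons (P.lf 0 291070165 0) (P.cons (P.lf 110557990 0 0) (P.cons (P.lf 26843162 0 0) (P.cons (P.lf 0 1347695 0) P.nil))))) (P.cons (P.cons (P.lf 0 289717072 0) (P.cons (P.lf 0 8297151 0) (P.cons (P.lf 5637210 0 0) (P.cons (P.lf 0 1378537 0) P.nil)))) (P.cons (P.cons (P.lf 428484541 0 0) (P.cons (P.lf 59024098 0 0) (P.cons (P.lf 0 23597540 0) P.nil))) (P.cons (P.cons (P.lf 61490034 0 0) (P.cons (P.lf 0 4530967 0) P.nil)) (P.cons (P.cons (P.lf 0 55026292 0) P.nil) P.nil)))))) 94436787)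
 (EL.cons 9 (TM.mk (P.cons (P.cons (P.lf 481372863 0 0) (P.cons (P.lf 139152592 0 0) (P.cons (P.lf 0 49947799 0) (P.cons (P.lf 0 15339963 0) (P.cons (P.lf 906262 0 0) (P.cons (P.lf 415534 0 0) P.nil)))))) (P.cons (P.cons (P.lf 0 1102055223 0) (P.cons (P.lf 0 241354713 0) (P.cons (P.lf 92213176 0 0) (P.cons (P.lf 21793662 0 0) (P.cons (P.lf 0 1068957 0) P.nil))))) (P.cons (P.cons (P.lf 515519058 0 0) (P.cons (P.lf 86642487 0 0) (P.cons (P.lf 0 32510928 0) (P.cons (P.lf 0 8334237 0) P.nil)))) (P.cons (P.cons (P.lf 202884415 0 0) (P.cons (P.lf 12696318 0 0) (P.cons (P.lf 0 5791570 0) P.nil))) (P.cons (P.cons (P.lf 0 75547134 0) (P.cons (P.lf 0 12030607 0) P.nil)) (P.cons (P.cons (P.lf 0 9471826 0) P.nil) P.nil)))))) 25396337)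
 (EL.cons 2 (TM.mk (P.cons (P.cons (P.lf 216535336 0 0) (P.cons (P.lf 0 170425282 0) (P.cons (P.lf 0 63355545 0) (P.cons (P.lf 12386362 0 0) (P.cons (P.lf 3668450 0 0) (P.cons (P.lf 0 73119 0) P.nil)))))) (P.cons (P.cons (P.lf 0 279036894 0) (P.cons (P.lf 236985637 0 0) (P.cons (P.lf 57973308 0 0) (P.cons (P.lf 0 11477334 0) (P.cons (P.lf 0 2890676 0) P.nil))))) (P.cons (P.cons (P.lf 0 17693983 0) (P.cons (P.lf 17277097 0 0) (P.cons (P.lf 610335 0 0) (P.cons (P.lf 0 146958 0) P.nil)))) (P.cons (P.cons (P.lf 57476722 0 0) (P.cons (P.lf 0 49840301 0) (P.cons (P.lf 0 10544068 0) P.nil))) (P.cons (P.cons (P.lf 0 6001768 0) (P.cons (P.lf 4558145 0 0) P.nil)) (P.cons (P.cons (P.lf 0 4208776 0) P.nil) P.nil)))))) 20009390)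
 (EL.cons 6 (TM.mk (P.cons (P.cons (P.lf 0 145380324 0) (P.cons (P.lf 114422352 0 0) (P.cons (P.lf 42536472 0 0) (P.cons (P.lf 0 8316114 0) (P.cons (P.lf 0 2462970 0) (P.cons (P.lf 49092 0 0) P.nil)))))) (P.cons (P.cons (P.lf 252156474 0 0) (P.cons (P.lf 0 210121956 0) (P.cons (P.lf 0 57886368 0) (P.cons (P.lf 11413272 0 0) (P.cons (P.lf 3038814 0 0) P.nil))))) (P.cons (P.cons (P.lf 0 90520146 0) (P.cons (P.lf 74193168 0 0) (P.cons (P.lf 22466424 0 0) (P.cons (P.lf 0 4416624 0) P.nil)))) (P.cons (P.cons (P.lf 0 13264536 0) (P.cons (P.lf 13019046 0 0) (P.cons (P.lf 366192 0 0) P.nil))) (P.cons (P.cons (P.lf 12569034 0 0) (P.cons (P.lf 0 10946508 0) P.nil)) (P.cons (P.cons (P.lf 0 1093740 0) P.nil) P.nil)))))) 13487490)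
 EL.nil))))))
noncomputable def S314_372_660_808_3 : EL := (EL.cons 0 (TM.mk (P.cons (P.lf 2663300420 0 0) (P.cons (P.lf 1327550055 0 0) (P.cons (P.lf 0 20882153 0) (P.cons (P.lf 0 49374168 0) (P.cons (P.lf 5384801 0 0) (P.cons (P.lf 616050 0 0) P.nil)))))) 235193)
 (EL.cons 1 (TM.mk (P.cons (P.lf 0 1788121471 0) (P.cons (P.lf 0 94132764 0) (P.cons (P.lf 179177853 0 0) (P.cons (P.lf 0 11443897 0) (P.cons (P.lf 0 3792305 0) (P.cons (P.lf 635690 0 0) P.nil)))))) 110845)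
 (EL.cons 5 (TM.mk (P.cons (P.lf 1200532382 0 0) (P.cons (P.lf 0 472017796 0) (P.cons (P.lf 7424770 0 0) (P.cons (P.lf 17555260 0 0) (P.cons (P.lf 0 1914598 0) (P.cons (P.lf 0 219040 0) P.nil)))))) 72450)
 EL.nil)))
noncomputable def S314_372_660_808_4 : EL := (EL.cons 0 (TM.mk (P.cons (P.cons (P.lf 0 728006739 0) (P.cons (P.lf 0 105224071 0) (P.cons (P.lf 45373804 0 0) (P.lf 5041531 0 0)))) (P.cons (P.cons (P.lf 470466854 0 0) (P.cons (P.lf 9606965 0 0) (P.cons (P.lf 0 4142631 0) (P.lf 0 460290 0)))) (P.cons (P.cons (P.lf 508243559 0 0) (P.cons (P.lf 24682055 0 0) (P.cons (P.lf 0 10643180 0) (P.lf 0 1182575 0)))) (P.cons (P.cons (P.lf 0 3263303 0) (P.cons (P.lf 0 4578762 0) (P.cons (P.lf 1974413 0 0) P.nil))) (P.cons (P.cons (P.lf 0 43439088 0) (P.cons (P.lf 0 1897908 0) P.nil)) (P.cons (P.cons (P.lf 2562946 0 0) P.nil) P.nil)))))) 6732924)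
 (EL.cons 1 (TM.mk (P.cons (P.cons (P.lf 488778686 0 0) (P.cons (P.lf 70646713 0 0) (P.cons (P.lf 0 30463657 0) (P.lf 0 3384849 0)))) (P.cons (P.cons (P.lf 0 533774094 0) (P.cons (P.lf 0 37945563 0) (P.cons (P.lf 16362553 0 0) (P.lf 1818058 0 0)))) (P.cons (P.cons (P.lf 0 136939741 0) (P.cons (P.lf 0 4521748 0) (P.cons (P.lf 1949827 0 0) (P.lf 216646 0 0)))) (P.cons (P.cons (P.lf 92142191 0 0) (P.cons (P.lf 6566328 0 0) (P.cons (P.lf 0 2831475 0) P.nil))) (P.cons (P.cons (P.lf 4601355 0 0) (P.cons (P.lf 0 949655 0) P.nil)) (P.cons (P.cons (P.lf 0 6576161 0) P.nil) P.nil)))))) 4451424)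
 (EL.cons 5 (TM.mk (P.cons (P.cons (P.lf 0 328162626 0) (P.cons (P.lf 0 47431714 0) (P.cons (P.lf 20453088 0 0) (P.lf 2272564 0 0)))) (P.cons (P.cons (P.lf 504672748 0 0) (P.cons (P.lf 46622258 0 0) (P.cons (P.lf 0 20104042 0) (P.lf 0 2233780 0)))) (P.cons (P.cons (P.lf 0 110442754 0) (P.cons (P.lf 0 14481344 0) (P.cons (P.lf 6244518 0 0) (P.lf 693832 0 0)))) (P.cons (P.cons (P.lf 0 42109692 0) (P.cons (P.lf 0 400572 0) (P.cons (P.lf 172730 0 0) P.nil))) (P.cons (P.cons (P.lf 16182264 0 0) (P.cons (P.lf 1210096 0 0) P.nil)) (P.cons (P.cons (P.lf 528376 0 0) P.nil) P.nil)))))) 2759882)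
 EL.nil)))
noncomputable def S314_372_660_808_5 : EL := (EL.cons 0 (TM.mk (P.cons (P.cons (P.lf 198998883 0 0) (P.cons (P.lf 57525491 0 0) (P.cons (P.lf 0 20648351 0) (P.cons (P.lf 0 6341519 0) (P.cons (P.lf 374646 0 0) (P.cons (P.lf 171780 0 0) P.nil)))))) (P.cons (P.cons (P.lf 0 356395039 0) (P.cons (P.lf 0 71101522 0) (P.cons (P.lf 27828413 0 0) (P.cons (P.lf 5848472 0 0) (P.cons (P.lf 0 255157 0) P.nil))))) (P.cons (P.cons (P.lf 0 15538099 0) (P.cons (P.lf 0 14367403 0) (P.cons (P.lf 5723637 0 0) (P.cons (P.lf 1095224 0 0) P.nil)))) (P.cons (P.cons (P.lf 189984434 0 0) (P.cons (P.lf 22818304 0 0) (P.cons (P.lf 0 9009622 0) P.nil))) (P.cons (P.cons (P.lf 17753259 0 0) (P.cons (P.lf 0 672011 0) P.nil)) (P.cons (P.cons (P.lf 0 24966694 0) P.nil) P.nil)))))) 30215171)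
 (EL.cons 1 (TM.mk (P.cons (P.cons (P.lf 0 133606471 0) (P.cons (P.lf 0 38622215 0) (P.cons (P.lf 13863159 0 0) (P.cons (P.lf 4257650 0 0) (P.cons (P.lf 0 251535 0) (P.cons (P.lf 0 115331 0) P.nil)))))) (P.cons (P.cons (P.lf 298845215 0 0) (P.cons (P.lf 64955514 0 0) (P.cons (P.lf 0 24864236 0) (P.cons (P.lf 0 5824756 0) (P.cons (P.lf 283449 0 0) P.nil))))) (P.cons (P.cons (P.lf 0 113593387 0) (P.cons (P.lf 0 16651245 0) (P.cons (P.lf 6286995 0 0) (P.cons (P.lf 1568120 0 0) P.nil)))) (P.cons (P.cons (P.lf 0 95349097 0) (P.cons (P.lf 0 11749614 0) (P.cons (P.lf 4735856 0 0) P.nil))) (P.cons (P.cons (P.lf 34015822 0 0) (P.cons (P.lf 5910140 0 0) P.nil)) (P.cons (P.cons (P.lf 9155896 0 0) P.nil) P.nil)))))) 22084722)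
 (EL.cons 5 (TM.mk (P.cons (P.cons (P.lf 89702460 0 0) (P.cons (P.lf 25930688 0 0) (P.cons (P.lf 0 9307628 0) (P.cons (P.lf 0 2858556 0) (P.cons (P.lf 168878 0 0) (P.cons (P.lf 77432 0 0) P.nil)))))) (P.cons (P.cons (P.lf 0 240633502 0) (P.cons (P.lf 0 55171028 0) (P.cons (P.lf 20843178 0 0) (P.cons (P.lf 5185096 0 0) (P.cons (P.lf 0 265594 0) P.nil))))) (P.cons (P.cons (P.lf 177364342 0 0) (P.cons (P.lf 33989238 0 0) (P.cons (P.lf 0 12872046 0) (P.cons (P.lf 0 3167492 0) P.nil)))) (P.cons (P.cons (P.lf 78114 0 0) (P.cons (P.lf 0 3881068 0) (P.cons (P.lf 1272898 0 0) P.nil))) (P.cons (P.cons (P.lf 0 31494648 0) (P.cons (P.lf 0 3771264 0) P.nil)) (P.cons (P.cons (P.lf 5719770 0 0) P.nil) P.nil)))))) 12539002)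
 EL.nil)))
noncomputable def S314_372_660_808_6 : EL := (EL.cons 12 (TM.mk (P.lf 8589934592 0 0) 0)
 (EL.cons 3 (TM.mk (P.cons (P.lf 2391525476 0 0) (P.cons (P.lf 596040491 0 0) (P.cons (P.lf 0 83651283 0) (P.cons (P.lf 0 1319475 0) (P.cons (P.lf 1283523 0 0) (P.cons (P.lf 0 89452 0) P.nil)))))) 26268)
 (EL.cons 7 (TM.mk (P.cons (P.lf 0 1605653656 0) (P.cons (P.lf 315650420 0 0) (P.cons (P.lf 26061229 0 0) (P.cons (P.lf 0 6616358 0) (P.cons (P.lf 191151 0 0) (P.cons (P.lf 76666 0 0) P.nil)))))) 11720)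
 EL.nil)))
noncomputable def S314_372_660_808_7 : EL := (EL.cons 12 (TM.mk (P.cons (P.cons (P.lf 0 2348037880 0) (P.cons (P.lf 0 339378872 0) (P.cons (P.lf 146343992 0 0) (P.lf 16260440 0 0)))) (P.cons (P.cons (P.lf 2687799424 0 0) (P.cons (P.lf 200152280 0 0) (P.cons (P.lf 0 86307920 0) (P.lf 0 9589760 0)))) (P.cons (P.cons (P.lf 281064266 0 0) (P.cons (P.lf 0 22822016 0) (P.cons (P.lf 9841112 0 0) (P.lf 1093448 0 0)))) (P.cons (P.cons (P.lf 0 173079920 0) (P.cons (P.lf 0 8114312 0) (P.cons (P.lf 3498984 0 0) P.nil))) (P.cons (P.cons (P.lf 2949022 0 0) (P.cons (P.lf 2141144 0 0) P.nil)) (P.cons (P.cons (P.lf 5758590 0 0) P.nil) P.nil)))))) 3521284)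
 (EL.cons 3 (TM.mk (P.cons (P.cons (P.lf 3152797003 0 0) (P.cons (P.lf 188973084 0 0) (P.cons (P.lf 0 81487320 0) (P.lf 0 9054144 0)))) (P.cons (P.cons (P.lf 953310951 0 0) (P.cons (P.lf 0 64351064 0) (P.cons (P.lf 27748904 0 0) (P.lf 3083206 0 0)))) (P.cons (P.cons (P.lf 0 608648896 0) (P.cons (P.lf 0 21678604 0) (P.cons (P.lf 9348058 0 0) (P.lf 1038674 0 0)))) (P.cons (P.cons (P.lf 29998444 0 0) (P.cons (P.lf 11479392 0 0) (P.cons (P.lf 0 4950044 0) P.nil))) (P.cons (P.cons (P.lf 37994629 0 0) (P.cons (P.lf 0 347738 0) P.nil)) (P.cons (P.cons (P.lf 0 6766866 0) P.nil) P.nil)))))) 11579008)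
 (EL.cons 7 (TM.mk (P.cons (P.cons (P.lf 2454751138 0 0) (P.cons (P.lf 213551829 0 0) (P.cons (P.lf 0 92085961 0) (P.lf 0 10231774 0)))) (P.cons (P.cons (P.lf 504853278 0 0) (P.cons (P.lf 0 34078965 0) (P.cons (P.lf 14695237 0 0) (P.lf 1632807 0 0)))) (P.cons (P.cons (P.lf 0 209791452 0) (P.cons (P.lf 0 19077021 0) (P.cons (P.lf 8226227 0 0) (P.lf 914022 0 0)))) (P.cons (P.cons (P.lf 0 68319010 0) (P.cons (P.lf 1884487 0 0) (P.cons (P.lf 0 812611 0) P.nil))) (P.cons (P.cons (P.lf 16362692 0 0) (P.cons (P.lf 1315813 0 0) P.nil)) (P.cons (P.cons (P.lf 2485992 0 0) P.nil) P.nil)))))) 7702427)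
 (EL.cons 10 (TM.mk (P.cons (P.cons (P.lf 0 711325530 0) (P.cons (P.lf 662665536 0 0) (P.cons (P.lf 68011041 0 0) (P.cons (P.lf 0 14144403 0) (P.lf 0 1178700 0))))) (P.cons (P.cons (P.lf 279674511 0 0) (P.cons (P.lf 0 260542680 0) (P.cons (P.lf 0 26740155 0) (P.cons (P.lf 5561208 0 0) (P.lf 463434 0 0))))) (P.cons (P.cons (P.lf 0 4399236 0) (P.cons (P.lf 4098297 0 0) (P.cons (P.lf 420618 0 0) (P.cons (P.lf 0 87474 0) P.nil)))) (P.cons (P.cons (P.lf 0 10401639 0) (P.cons (P.lf 9690087 0 0) (P.cons (P.lf 994518 0 0) P.nil))) (P.cons (P.cons (P.lf 1134414 0 0) (P.cons (P.lf 0 1056810 0) P.nil)) (P.cons (P.cons (P.lf 129783 0 0) P.nil) P.nil)))))) 588420)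
 EL.nil))))
noncomputable def S314_372_660_808_8 : EL := (EL.cons 12 (TM.mk (P.cons (P.cons (P.lf 641830484 0 0) (P.cons (P.lf 185536790 0 0) (P.cons (P.lf 0 66597066 0) (P.cons (P.lf 0 20453284 0) (P.cons (P.lf 1208350 0 0) (P.cons (P.lf 554046 0 0) P.nil)))))) (P.cons (P.cons (P.lf 0 1469406964 0) (P.cons (P.lf 0 321806284 0) (P.cons (P.lf 122950902 0 0) (P.cons (P.lf 29058216 0 0) (P.cons (P.lf 0 1425276 0) P.nil))))) (P.cons (P.cons (P.lf 687358744 0 0) (P.cons (P.lf 115523316 0 0) (P.cons (P.lf 0 43347904 0) (P.cons (P.lf 0 11112316 0) P.nil)))) (P.cons (P.cons (P.lf 270512554 0 0) (P.cons (P.lf 16928424 0 0) (P.cons (P.lf 0 7722094 0) P.nil))) (P.cons (P.cons (P.lf 0 100729512 0) (P.cons (P.lf 0 16040810 0) P.nil)) (P.cons (P.cons (P.lf 0 12629102 0) P.nil) P.nil)))))) 33861754)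
 (EL.cons 3 (TM.mk (P.cons (P.cons (P.lf 0 1902311050 0) (P.cons (P.lf 0 404093091 0) (P.cons (P.lf 155584194 0 0) (P.cons (P.lf 35458422 0 0) (P.cons (P.lf 0 1682086 0) (P.cons (P.lf 0 771261 0) P.nil)))))) (P.cons (P.cons (P.lf 1816418802 0 0) (P.cons (P.lf 301757045 0 0) (P.cons (P.lf 0 112756877 0) (P.cons (P.lf 0 29433118 0) (P.cons (P.lf 1564831 0 0) P.nil))))) (P.cons (P.cons (P.lf 1052491800 0 0) (P.cons (P.lf 51687531 0 0) (P.cons (P.lf 0 25150751 0) (P.cons (P.lf 0 7793 0) P.nil)))) (P.cons (P.cons (P.lf 0 599180103 0) (P.cons (P.lf 0 89259485 0) (P.cons (P.lf 36074182 0 0) P.nil))) (P.cons (P.cons (P.lf 0 62434819 0) (P.cons (P.lf 14417974 0 0) P.nil)) (P.cons (P.cons (P.lf 72320593 0 0) P.nil) P.nil)))))) 101578519)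
 (EL.cons 7 (TM.mk (P.cons (P.cons (P.lf 0 1222027910 0) (P.cons (P.lf 0 276035751 0) (P.cons (P.lf 104661680 0 0) (P.cons (P.lf 25616850 0 0) (P.cons (P.lf 0 1294822 0) (P.cons (P.lf 0 593691 0) P.nil)))))) (P.cons (P.cons (P.lf 961936939 0 0) (P.cons (P.lf 159804141 0 0) (P.cons (P.lf 0 59713663 0) (P.cons (P.lf 0 15587159 0) (P.cons (P.lf 828697 0 0) P.nil))))) (P.cons (P.cons (P.lf 771801336 0 0) (P.cons (P.lf 62994326 0 0) (P.cons (P.lf 0 26629984 0) (P.cons (P.lf 0 3478625 0) P.nil)))) (P.cons (P.cons (P.lf 0 129563465 0) (P.cons (P.lf 0 35464605 0) (P.cons (P.lf 13774160 0 0) P.nil))) (P.cons (P.cons (P.lf 0 116088173 0) (P.cons (P.lf 0 6583426 0) P.nil)) (P.cons (P.cons (P.lf 17578547 0 0) P.nil) P.nil)))))) 58970935)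
 (EL.cons 10 (TM.mk (P.cons (P.cons (P.lf 388878228 0 0) (P.cons (P.lf 0 306068664 0) (P.cons (P.lf 0 113780934 0) (P.cons (P.lf 22244808 0 0) (P.cons (P.lf 6588216 0 0) (P.cons (P.lf 0 131322 0) P.nil)))))) (P.cons (P.cons (P.lf 0 598045692 0) (P.cons (P.lf 501886722 0 0) (P.cons (P.lf 132472566 0 0) (P.cons (P.lf 0 26156358 0) (P.cons (P.lf 0 6833382 0) P.nil))))) (P.cons (P.cons (P.lf 130876518 0 0) (P.cons (P.lf 0 104762946 0) (P.cons (P.lf 0 35899908 0) (P.cons (P.lf 7033110 0 0) P.nil)))) (P.cons (P.cons (P.lf 49900692 0 0) (P.cons (P.lf 0 46012422 0) (P.cons (P.lf 0 5417988 0) P.nil))) (P.cons (P.cons (P.lf 0 19176252 0) (P.cons (P.lf 16430466 0 0) P.nil)) (P.cons (P.cons (P.lf 0 626130 0) P.nil) P.nil)))))) 19637010)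
 EL.nil))))
noncomputable def S314_372_660_808_9 : EL := (EL.cons 3 (TM.mk (P.cons (P.lf 2391525476 0 0) (P.cons (P.lf 596040491 0 0) (P.cons (P.lf 0 83651283 0) (P.cons (P.lf 0 1319475 0) (P.cons (P.lf 1283523 0 0) (P.cons (P.lf 0 89452 0) P.nil)))))) 26268)
 (EL.cons 7 (TM.mk (P.cons (P.lf 0 1605653656 0) (P.cons (P.lf 315650420 0 0) (P.cons (P.lf 26061229 0 0) (P.cons (P.lf 0 6616358 0) (P.cons (P.lf 191151 0 0) (P.cons (P.lf 76666 0 0) P.nil)))))) 11720)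
 EL.nil))
noncomputable def S314_372_660_808_10 : EL := (EL.cons 3 (TM.mk (P.cons (P.cons (P.lf 0 653717714 0) (P.cons (P.lf 0 94486542 0) (P.cons (P.lf 40743660 0 0) (P.lf 4527072 0 0)))) (P.cons (P.cons (P.lf 585384567 0 0) (P.cons (P.lf 32175532 0 0) (P.cons (P.lf 0 13874452 0) (P.lf 0 1541603 0)))) (P.cons (P.cons (P.lf 287618723 0 0) (P.cons (P.lf 10839302 0 0) (P.cons (P.lf 0 4674029 0) (P.lf 0 519337 0)))) (P.cons (P.cons (P.lf 0 54498557 0) (P.cons (P.lf 0 5739696 0) (P.cons (P.lf 2475022 0 0) P.nil))) (P.cons (P.cons (P.lf 0 14689472 0) (P.cons (P.lf 173869 0 0) P.nil)) (P.cons (P.cons (P.lf 3876273 0 0) P.nil) P.nil)))))) 2803815)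
 (EL.cons 7 (TM.mk (P.cons (P.cons (P.lf 438901549 0 0) (P.cons (P.lf 63437610 0 0) (P.cons (P.lf 0 27355012 0) (P.lf 0 3039445 0)))) (P.cons (P.cons (P.lf 0 588692970 0) (P.cons (P.lf 0 49884003 0) (P.cons (P.lf 21510544 0 0) (P.lf 2390058 0 0)))) (P.cons (P.cons (P.lf 39106281 0 0) (P.cons (P.lf 10591206 0 0) (P.cons (P.lf 0 4567048 0) (P.lf 0 507447 0)))) (P.cons (P.cons (P.lf 52643855 0 0) (P.cons (P.lf 1546771 0 0) (P.cons (P.lf 0 666985 0) P.nil))) (P.cons (P.cons (P.lf 0 8181115 0) (P.cons (P.lf 0 929360 0) P.nil)) (P.cons (P.cons (P.lf 0 1670790 0) P.nil) P.nil)))))) 1719484)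
 EL.nil))
noncomputable def S314_372_660_808_11 : EL := (EL.cons 3 (TM.mk (P.cons (P.cons (P.lf 178692158 0 0) (P.cons (P.lf 51655335 0 0) (P.cons (P.lf 0 18541302 0) (P.cons (P.lf 0 5694402 0) (P.cons (P.lf 336416 0 0) (P.cons (P.lf 154251 0 0) P.nil)))))) (P.cons (P.cons (P.lf 0 364562406 0) (P.cons (P.lf 0 76720081 0) (P.cons (P.lf 29609731 0 0) (P.cons (P.lf 6670886 0 0) (P.cons (P.lf 0 312965 0) P.nil))))) (P.cons (P.cons (P.lf 83157786 0 0) (P.cons (P.lf 8026485 0 0) (P.cons (P.lf 0 2888609 0) (P.cons (P.lf 0 878303 0) P.nil)))) (P.cons (P.cons (P.lf 137218995 0 0) (P.cons (P.lf 15834349 0 0) (P.cons (P.lf 0 6344846 0) P.nil))) (P.cons (P.cons (P.lf 0 15645817 0) (P.cons (P.lf 0 4339136 0) P.nil)) (P.cons (P.cons (P.lf 0 13471673 0) P.nil) P.nil)))))) 18338973)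
 (EL.cons 7 (TM.mk (P.cons (P.cons (P.lf 0 119972678 0) (P.cons (P.lf 0 34681035 0) (P.cons (P.lf 12448502 0 0) (P.cons (P.lf 3823182 0 0) (P.cons (P.lf 0 225868 0) (P.cons (P.lf 0 103563 0) P.nil)))))) (P.cons (P.cons (P.lf 298250551 0 0) (P.cons (P.lf 66970731 0 0) (P.cons (P.lf 0 25429525 0) (P.cons (P.lf 0 6183227 0) (P.cons (P.lf 310819 0 0) P.nil))))) (P.cons (P.cons (P.lf 0 180531306 0) (P.cons (P.lf 0 32856292 0) (P.cons (P.lf 12418676 0 0) (P.cons (P.lf 3082879 0 0) P.nil)))) (P.cons (P.cons (P.lf 0 30259313 0) (P.cons (P.lf 0 38469 0) (P.cons (P.lf 274868 0 0) P.nil))) (P.cons (P.cons (P.lf 32000515 0 0) (P.cons (P.lf 4222940 0 0) P.nil)) (P.cons (P.cons (P.lf 0 1076485 0) P.nil) P.nil)))))) 10923777)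
 EL.nil))
noncomputable def S314_372_660_808_12 : EL := (EL.cons 4 (TM.mk (P.cons (P.lf 0 2391525476 0) (P.cons (P.lf 0 596040491 0) (P.cons (P.lf 83651283 0 0) (P.cons (P.lf 1319475 0 0) (P.cons (P.lf 0 1283523 0) (P.cons (P.lf 89452 0 0) P.nil)))))) 26268)
 (EL.cons 8 (TM.mk (P.cons (P.lf 1605653656 0 0) (P.cons (P.lf 0 315650420 0) (P.cons (P.lf 0 26061229 0) (P.cons (P.lf 6616358 0 0) (P.cons (P.lf 0 191151 0) (P.cons (P.lf 0 76666 0) P.nil)))))) 11720)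
 EL.nil))
noncomputable def S314_372_660_808_13 : EL := (EL.cons 4 (TM.mk (P.cons (P.cons (P.lf 653717714 0 0) (P.cons (P.lf 94486542 0 0) (P.cons (P.lf 0 40743660 0) (P.lf 0 4527072 0)))) (P.cons (P.cons (P.lf 0 585384567 0) (P.cons (P.lf 0 32175532 0) (P.cons (P.lf 13874452 0 0) (P.lf 1541603 0 0)))) (P.cons (P.cons (P.lf 0 287618723 0) (P.cons (P.lf 0 10839302 0) (P.cons (P.lf 4674029 0 0) (P.lf 519337 0 0)))) (P.cons (P.cons (P.lf 54498557 0 0) (P.cons (P.lf 5739696 0 0) (P.cons (P.lf 0 2475022 0) P.nil))) (P.cons (P.cons (P.lf 14689472 0 0) (P.cons (P.lf 0 173869 0) P.nil)) (P.cons (P.cons (P.lf 0 3876273 0) P.nil) P.nil)))))) 2803815)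
 (EL.cons 8 (TM.mk (P.cons (P.cons (P.lf 0 438901549 0) (P.cons (P.lf 0 63437610 0) (P.cons (P.lf 27355012 0 0) (P.lf 3039445 0 0)))) (P.cons (P.cons (P.lf 588692970 0 0) (P.cons (P.lf 49884003 0 0) (P.cons (P.lf 0 21510544 0) (P.lf 0 2390058 0)))) (P.cons (P.cons (P.lf 0 39106281 0) (P.cons (P.lf 0 10591206 0) (P.cons (P.lf 4567048 0 0) (P.lf 507447 0 0)))) (P.cons (P.cons (P.lf 0 52643855 0) (P.cons (P.lf 0 1546771 0) (P.cons (P.lf 666985 0 0) P.nil))) (P.cons (P.cons (P.lf 8181115 0 0) (P.cons (P.lf 929360 0 0) P.nil)) (P.cons (P.cons (P.lf 1670790 0 0) P.nil) P.nil)))))) 1719484)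
 EL.nil))
noncomputable def S314_372_660_808_14 : EL := (EL.cons 4 (TM.mk (P.cons (P.cons (P.lf 0 178692158 0) (P.cons (P.lf 0 51655335 0) (P.cons (P.lf 18541302 0 0) (P.cons (P.lf 5694402 0 0) (P.cons (P.lf 0 336416 0) (P.cons (P.lf 0 154251 0) P.nil)))))) (P.cons (P.cons (P.lf 364562406 0 0) (P.cons (P.lf 76720081 0 0) (P.cons (P.lf 0 29609731 0) (P.cons (P.lf 0 6670886 0) (P.cons (P.lf 312965 0 0) P.nil))))) (P.cons (P.cons (P.lf 0 83157786 0) (P.cons (P.lf 0 8026485 0) (P.cons (P.lf 2888609 0 0) (P.cons (P.lf 878303 0 0) P.nil)))) (P.cons (P.cons (P.lf 0 137218995 0) (P.cons (P.lf 0 15834349 0) (P.cons (P.lf 6344846 0 0) P.nil))) (P.cons (P.cons (P.lf 15645817 0 0) (P.cons (P.lf 4339136 0 0) P.nil)) (P.cons (P.cons (P.lf 13471673 0 0) P.nil) P.nil)))))) 18338973)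
 (EL.cons 8 (TM.mk (P.cons (P.cons (P.lf 119972678 0 0) (P.cons (P.lf 34681035 0 0) (P.cons (P.lf 0 12448502 0) (P.cons (P.lf 0 3823182 0) (P.cons (P.lf 225868 0 0) (P.cons (P.lf 103563 0 0) P.nil)))))) (P.cons (P.cons (P.lf 0 298250551 0) (P.cons (P.lf 0 66970731 0) (P.cons (P.lf 25429525 0 0) (P.cons (P.lf 6183227 0 0) (P.cons (P.lf 0 310819 0) P.nil))))) (P.cons (P.cons (P.lf 180531306 0 0) (P.cons (P.lf 32856292 0 0) (P.cons (P.lf 0 12418676 0) (P.cons (P.lf 0 3082879 0) P.nil)))) (P.cons (P.cons (P.lf 30259313 0 0) (P.cons (P.lf 38469 0 0) (P.cons (P.lf 0 274868 0) P.nil))) (P.cons (P.cons (P.lf 0 32000515 0) (P.cons (P.lf 0 4222940 0) P.nil)) (P.cons (P.cons (P.lf 1076485 0 0) P.nil) P.nil)))))) 10923777)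
 EL.nil))
noncomputable def S314_372_660_808_15 : EL := (EL.cons 4 (TM.mk (P.cons (P.lf 0 1420426890 0) (P.cons (P.lf 0 708026696 0) (P.cons (P.lf 11137148 0 0) (P.cons (P.lf 26332890 0 0) (P.cons (P.lf 0 2871894 0) (P.cons (P.lf 0 328560 0) P.nil)))))) 125439)
 (EL.cons 8 (TM.mk (P.cons (P.lf 953664785 0 0) (P.cons (P.lf 50204141 0 0) (P.cons (P.lf 0 95561522 0) (P.cons (P.lf 6103412 0 0) (P.cons (P.lf 2022563 0 0) (P.cons (P.lf 0 339035 0) P.nil)))))) 59114)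
 EL.nil))
noncomputable def S314_372_660_808_16 : EL := (EL.cons 4 (TM.mk (P.cons (P.cons (P.lf 388270260 0 0) (P.cons (P.lf 56119504 0 0) (P.cons (P.lf 0 24199362 0) (P.lf 0 2688816 0)))) (P.cons (P.cons (P.lf 0 250915655 0) (P.cons (P.lf 0 5123715 0) (P.cons (P.lf 2209403 0 0) (P.lf 245488 0 0)))) (P.cons (P.cons (P.lf 0 271063231 0) (P.cons (P.lf 0 13163762 0) (P.cons (P.lf 5676362 0 0) (P.lf 630706 0 0)))) (P.cons (P.cons (P.lf 1740428 0 0) (P.cons (P.lf 2442006 0 0) (P.cons (P.lf 0 1053020 0) P.nil))) (P.cons (P.cons (P.lf 23167514 0 0) (P.cons (P.lf 1012217 0 0) P.nil)) (P.cons (P.cons (P.lf 0 1366905 0) P.nil) P.nil)))))) 3590901)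
 (EL.cons 8 (TM.mk (P.cons (P.cons (P.lf 0 260681966 0) (P.cons (P.lf 0 37678247 0) (P.cons (P.lf 16247284 0 0) (P.lf 1805253 0 0)))) (P.cons (P.cons (P.lf 284679517 0 0) (P.cons (P.lf 20237634 0 0) (P.cons (P.lf 0 8726695 0) (P.lf 0 969631 0)))) (P.cons (P.cons (P.lf 73034529 0 0) (P.cons (P.lf 2411599 0 0) (P.cons (P.lf 0 1039908 0) (P.lf 0 115545 0)))) (P.cons (P.cons (P.lf 0 49142502 0) (P.cons (P.lf 0 3502042 0) (P.cons (P.lf 1510120 0 0) P.nil))) (P.cons (P.cons (P.lf 0 2454056 0) (P.cons (P.lf 506483 0 0) P.nil)) (P.cons (P.cons (P.lf 3507286 0 0) P.nil) P.nil)))))) 2374083)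
 EL.nil))
noncomputable def S314_372_660_808_17 : EL := (EL.cons 4 (TM.mk (P.cons (P.cons (P.lf 0 106132738 0) (P.cons (P.lf 0 30680262 0) (P.cons (P.lf 11012454 0 0) (P.cons (P.lf 3382143 0 0) (P.cons (P.lf 0 199811 0) (P.cons (P.lf 0 91616 0) P.nil)))))) (P.cons (P.cons (P.lf 190077354 0 0) (P.cons (P.lf 37920811 0 0) (P.cons (P.lf 0 14841820 0) (P.cons (P.lf 0 3119185 0) (P.cons (P.lf 136083 0 0) P.nil))))) (P.cons (P.cons (P.lf 8286986 0 0) (P.cons (P.lf 7662615 0 0) (P.cons (P.lf 0 3052606 0) (P.cons (P.lf 0 584119 0) P.nil)))) (P.cons (P.cons (P.lf 0 101325031 0) (P.cons (P.lf 0 12169762 0) (P.cons (P.lf 4805131 0 0) P.nil))) (P.cons (P.cons (P.lf 0 9468405 0) (P.cons (P.lf 358406 0 0) P.nil)) (P.cons (P.cons (P.lf 13315570 0 0) P.nil) P.nil)))))) 16114768)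
 (EL.cons 8 (TM.mk (P.cons (P.cons (P.lf 71256785 0 0) (P.cons (P.lf 20598515 0 0) (P.cons (P.lf 0 7393685 0) (P.cons (P.lf 0 2270747 0) (P.cons (P.lf 134152 0 0) (P.cons (P.lf 61510 0 0) P.nil)))))) (P.cons (P.cons (P.lf 0 159384115 0) (P.cons (P.lf 0 34642941 0) (P.cons (P.lf 13260926 0 0) (P.cons (P.lf 3106537 0 0) (P.cons (P.lf 0 151173 0) P.nil))))) (P.cons (P.cons (P.lf 60583140 0 0) (P.cons (P.lf 8880664 0 0) (P.cons (P.lf 0 3353064 0) (P.cons (P.lf 0 836331 0) P.nil)))) (P.cons (P.cons (P.lf 50852852 0 0) (P.cons (P.lf 6266461 0 0) (P.cons (P.lf 0 2525790 0) P.nil))) (P.cons (P.cons (P.lf 0 18141772 0) (P.cons (P.lf 0 3152075 0) P.nil)) (P.cons (P.cons (P.lf 0 4883145 0) P.nil) P.nil)))))) 11778507)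
 EL.nil))
noncomputable def S314_372_660_808_18 : EL := (EL.cons 4 (TM.mk (P.cons (P.lf 0 843650871 0) (P.cons (P.lf 0 630789950 0) (P.cons (P.lf 0 68683740 0) (P.cons (P.lf 32463552 0 0) (P.cons (P.lf 1740131 0 0) (P.cons (P.lf 0 1365121 0) P.nil)))))) 264319)
 (EL.cons 8 (TM.mk (P.cons (P.lf 566421357 0 0) (P.cons (P.lf 170987672 0 0) (P.cons (P.lf 0 69138754 0) (P.cons (P.lf 0 11876237 0) (P.cons (P.lf 4377599 0 0) (P.cons (P.lf 0 2637 0) P.nil)))))) 178385)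
 EL.nil))
noncomputable def S314_372_660_808_19 : EL := (EL.cons 4 (TM.mk (P.cons (P.cons (P.lf 230609927 0 0) (P.cons (P.lf 33331717 0 0) (P.cons (P.lf 0 14373012 0) (P.lf 0 1597000 0)))) (P.cons (P.cons (P.lf 0 91554320 0) (P.cons (P.lf 5264083 0 0) (P.cons (P.lf 0 2269931 0) (P.lf 0 252214 0)))) (P.cons (P.cons (P.lf 0 206204707 0) (P.cons (P.lf 0 9742846 0) (P.cons (P.lf 4201225 0 0) (P.lf 466802 0 0)))) (P.cons (P.cons (P.lf 0 34005760 0) (P.cons (P.lf 0 410143 0) (P.cons (P.lf 176857 0 0) P.nil))) (P.cons (P.cons (P.lf 19855122 0 0) (P.cons (P.lf 1255729 0 0) P.nil)) (P.cons (P.cons (P.lf 2581643 0 0) P.nil) P.nil)))))) 4225402)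
 (EL.cons 8 (TM.mk (P.cons (P.cons (P.lf 0 154829910 0) (P.cons (P.lf 0 22378685 0) (P.cons (P.lf 9649940 0 0) (P.lf 1072215 0 0)))) (P.cons (P.cons (P.lf 130494761 0 0) (P.cons (P.lf 6442531 0 0) (P.cons (P.lf 0 2778091 0) (P.lf 0 308676 0)))) (P.cons (P.cons (P.lf 90934544 0 0) (P.cons (P.lf 5210857 0 0) (P.cons (P.lf 0 2246980 0) (P.lf 0 249664 0)))) (P.cons (P.cons (P.lf 0 24205409 0) (P.cons (P.lf 0 2131114 0) (P.cons (P.lf 918960 0 0) P.nil))) (P.cons (P.cons (P.lf 0 10425724 0) (P.cons (P.lf 0 286322 0) P.nil)) (P.cons (P.cons (P.lf 2813395 0 0) P.nil) P.nil)))))) 2415313)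
 EL.nil))
noncomputable def S314_372_660_808_20 : EL := (EL.cons 4 (TM.mk (P.cons (P.cons (P.lf 0 63036666 0) (P.cons (P.lf 0 18222288 0) (P.cons (P.lf 6540756 0 0) (P.cons (P.lf 2008796 0 0) (P.cons (P.lf 0 118676 0) (P.cons (P.lf 0 54414 0) P.nil)))))) (P.cons (P.cons (P.lf 97184237 0 0) (P.cons (P.lf 17981208 0 0) (P.cons (P.lf 0 7185022 0) (P.cons (P.lf 0 1351961 0) (P.cons (P.lf 51247 0 0) P.nil))))) (P.cons (P.cons (P.lf 35263716 0 0) (P.cons (P.lf 10801881 0 0) (P.cons (P.lf 0 4238863 0) (P.cons (P.lf 0 878924 0) P.nil)))) (P.cons (P.cons (P.lf 0 62868542 0) (P.cons (P.lf 0 6871598 0) (P.cons (P.lf 2706826 0 0) P.nil))) (P.cons (P.cons (P.lf 0 20890930 0) (P.cons (P.lf 0 1769992 0) P.nil)) (P.cons (P.cons (P.lf 8672343 0 0) P.nil) P.nil)))))) 15751702)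
 (EL.cons 8 (TM.mk (P.cons (P.cons (P.lf 42322382 0 0) (P.cons (P.lf 12234319 0 0) (P.cons (P.lf 0 4391418 0) (P.cons (P.lf 0 1348692 0) (P.cons (P.lf 79678 0 0) (P.cons (P.lf 36533 0 0) P.nil)))))) (P.cons (P.cons (P.lf 0 84116866 0) (P.cons (P.lf 0 17526727 0) (P.cons (P.lf 6781744 0 0) (P.cons (P.lf 1508967 0 0) (P.cons (P.lf 0 69929 0) P.nil))))) (P.cons (P.cons (P.lf 10909144 0 0) (P.cons (P.lf 0 281470 0) (P.cons (P.lf 125070 0 0) (P.cons (P.lf 10297 0 0) P.nil)))) (P.cons (P.cons (P.lf 42459507 0 0) (P.cons (P.lf 5749460 0 0) (P.cons (P.lf 0 2269594 0) P.nil))) (P.cons (P.cons (P.lf 0 4431170 0) (P.cons (P.lf 0 1111113 0) P.nil)) (P.cons (P.cons (P.lf 0 6714509 0) P.nil) P.nil)))))) 9947664)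
 EL.nil))
noncomputable def S314_372_660_808_21 : EL := (EL.cons 4 (TM.mk (P.cons (P.cons (P.lf 0 3806514717 0) (P.cons (P.lf 0 283459626 0) (P.cons (P.lf 122230980 0 0) (P.lf 13581216 0 0)))) (P.cons (P.cons (P.lf 0 367926384 0) (P.cons (P.lf 96526596 0 0) (P.cons (P.lf 0 41623356 0) (P.lf 0 4624809 0)))) (P.cons (P.cons (P.lf 896267619 0 0) (P.cons (P.lf 32517906 0 0) (P.cons (P.lf 0 14022087 0) (P.lf 0 1558011 0)))) (P.cons (P.cons (P.lf 0 84497001 0) (P.cons (P.lf 0 17219088 0) (P.cons (P.lf 7425066 0 0) P.nil))) (P.cons (P.cons (P.lf 0 52684101 0) (P.cons (P.lf 521607 0 0) P.nil)) (P.cons (P.cons (P.lf 10643139 0 0) P.nil) P.nil)))))) 8775174)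
 (EL.cons 8 (TM.mk (P.cons (P.cons (P.lf 0 2015849589 0) (P.cons (P.lf 0 150114219 0) (P.cons (P.lf 64730949 0 0) (P.lf 7192329 0 0)))) (P.cons (P.cons (P.lf 0 1093546248 0) (P.cons (P.lf 0 15805038 0) (P.cons (P.lf 6815307 0 0) (P.lf 757251 0 0)))) (P.cons (P.cons (P.lf 248897733 0 0) (P.cons (P.lf 29668227 0 0) (P.cons (P.lf 0 12793275 0) (P.lf 0 1421469 0)))) (P.cons (P.cons (P.lf 120962865 0 0) (P.cons (P.lf 0 337716 0) (P.cons (P.lf 145626 0 0) P.nil))) (P.cons (P.cons (P.lf 0 24543807 0) (P.cons (P.lf 0 2245173 0) P.nil)) (P.cons (P.cons (P.lf 0 4156782 0) P.nil) P.nil)))))) 5982924)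
 (EL.cons 11 (TM.mk (P.cons (P.cons (P.lf 711325530 0 0) (P.cons (P.lf 0 662665536 0) (P.cons (P.lf 0 68011041 0) (P.cons (P.lf 14144403 0 0) (P.lf 1178700 0 0))))) (P.cons (P.cons (P.lf 0 279674511 0) (P.cons (P.lf 260542680 0 0) (P.cons (P.lf 26740155 0 0) (P.cons (P.lf 0 5561208 0) (P.lf 0 463434 0))))) (P.cons (P.cons (P.lf 4399236 0 0) (P.cons (P.lf 0 4098297 0) (P.cons (P.lf 0 420618 0) (P.cons (P.lf 87474 0 0) P.nil)))) (P.cons (P.cons (P.lf 10401639 0 0) (P.cons (P.lf 0 9690087 0) (P.cons (P.lf 0 994518 0) P.nil))) (P.cons (P.cons (P.lf 0 1134414 0) (P.cons (P.lf 1056810 0 0) P.nil)) (P.cons (P.cons (P.lf 0 129783 0) P.nil) P.nil)))))) 588420)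
 EL.nil)))
noncomputable def S314_372_660_808_22 : EL := (EL.cons 4 (TM.mk (P.cons (P.cons (P.lf 1040501604 0 0) (P.cons (P.lf 227874213 0 0) (P.cons (P.lf 0 87062748 0) (P.cons (P.lf 0 20576412 0) (P.cons (P.lf 1009251 0 0) (P.cons (P.lf 462756 0 0) P.nil)))))) (P.cons (P.cons (P.lf 0 1090490604 0) (P.cons (P.lf 0 189238563 0) (P.cons (P.lf 71183304 0 0) (P.cons (P.lf 18052002 0 0) (P.cons (P.lf 0 938898 0) P.nil))))) (P.cons (P.cons (P.lf 0 484667007 0) (P.cons (P.lf 0 21830523 0) (P.cons (P.lf 11131071 0 0) (P.cons (P.lf 0 435255 0) P.nil)))) (P.cons (P.cons (P.lf 368199549 0 0) (P.cons (P.lf 52546917 0 0) (P.cons (P.lf 0 21209514 0) P.nil))) (P.cons (P.cons (P.lf 23394501 0 0) (P.cons (P.lf 0 9378555 0) P.nil)) (P.cons (P.cons (P.lf 0 42896133 0) P.nil) P.nil)))))) 41619762)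
 (EL.cons 8 (TM.mk (P.cons (P.cons (P.lf 551027616 0 0) (P.cons (P.lf 120677358 0 0) (P.cons (P.lf 0 46106589 0) (P.cons (P.lf 0 10896834 0) (P.cons (P.lf 534477 0 0) (P.cons (P.lf 245064 0 0) P.nil)))))) (P.cons (P.cons (P.lf 0 331843194 0) (P.cons (P.lf 0 46416705 0) (P.cons (P.lf 17142069 0 0) (P.cons (P.lf 4701966 0 0) (P.cons (P.lf 0 258939 0) P.nil))))) (P.cons (P.cons (P.lf 0 476166321 0) (P.cons (P.lf 0 47925309 0) (P.cons (P.lf 19524330 0 0) (P.cons (P.lf 3280752 0 0) P.nil)))) (P.cons (P.cons (P.lf 49652076 0 0) (P.cons (P.lf 17713068 0 0) (P.cons (P.lf 0 6749646 0) P.nil))) (P.cons (P.cons (P.lf 74044344 0 0) (P.cons (P.lf 5403183 0 0) P.nil)) (P.cons (P.cons (P.lf 0 9327516 0) P.nil) P.nil)))))) 24023568)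
 (EL.cons 11 (TM.mk (P.cons (P.cons (P.lf 0 194439114 0) (P.cons (P.lf 153034332 0 0) (P.cons (P.lf 56890467 0 0) (P.cons (P.lf 0 11122404 0) (P.cons (P.lf 0 3294108 0) (P.cons (P.lf 65661 0 0) P.nil)))))) (P.cons (P.cons (P.lf 299022846 0 0) (P.cons (P.lf 0 250943361 0) (P.cons (P.lf 0 66236283 0) (P.cons (P.lf 13078179 0 0) (P.cons (P.lf 3416691 0 0) P.nil))))) (P.cons (P.cons (P.lf 0 65438259 0) (P.cons (P.lf 52381473 0 0) (P.cons (P.lf 17949954 0 0) (P.cons (P.lf 0 3516555 0) P.nil)))) (P.cons (P.cons (P.lf 0 24950346 0) (P.cons (P.lf 23006211 0 0) (P.cons (P.lf 2708994 0 0) P.nil))) (P.cons (P.cons (P.lf 9588126 0 0) (P.cons (P.lf 0 8215233 0) P.nil)) (P.cons (P.cons (P.lf 313065 0 0) P.nil) P.nil)))))) 9818505)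
 EL.nil)))
noncomputable def S314_372_660_808_23 : EL := (EL.cons 4 (TM.mk (P.cons (P.cons (P.lf 0 2260848114 0) (P.cons (P.lf 0 168358512 0) (P.cons (P.lf 72598083 0 0) (P.lf 8066451 0 0)))) (P.cons (P.cons (P.lf 0 781998588 0) (P.cons (P.lf 15371142 0 0) (P.cons (P.lf 0 6628209 0) (P.lf 0 736461 0)))) (P.cons (P.cons (P.lf 556947702 0 0) (P.cons (P.lf 39491286 0 0) (P.cons (P.lf 0 17029086 0) (P.lf 0 1892118 0)))) (P.cons (P.cons (P.lf 91377687 0 0) (P.cons (P.lf 0 7326018 0) (P.cons (P.lf 3159063 0 0) P.nil))) (P.cons (P.cons (P.lf 0 63512031 0) (P.cons (P.lf 0 3036654 0) P.nil)) (P.cons (P.cons (P.lf 0 48324 0) P.nil) P.nil)))))) 12560547)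
 (EL.cons 8 (TM.mk (P.cons (P.cons (P.lf 0 1197297285 0) (P.cons (P.lf 0 89159103 0) (P.cons (P.lf 38446413 0 0) (P.lf 4271823 0 0)))) (P.cons (P.cons (P.lf 0 947905503 0) (P.cons (P.lf 0 31608417 0) (P.cons (P.lf 13629903 0 0) (P.lf 1514430 0 0)))) (P.cons (P.cons (P.lf 27834333 0 0) (P.cons (P.lf 18400233 0 0) (P.cons (P.lf 0 7934388 0) (P.lf 0 881595 0)))) (P.cons (P.cons (P.lf 132067827 0 0) (P.cons (P.lf 4568691 0 0) (P.cons (P.lf 0 1970073 0) P.nil))) (P.cons (P.cons (P.lf 0 2126760 0) (P.cons (P.lf 0 2042523 0) P.nil)) (P.cons (P.cons (P.lf 0 9000432 0) P.nil) P.nil)))))) 7017030)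
 (EL.cons 11 (TM.mk (P.cons (P.cons (P.lf 422485947 0 0) (P.cons (P.lf 0 393584745 0) (P.cons (P.lf 0 40394598 0) (P.cons (P.lf 8400951 0 0) (P.lf 700077 0 0))))) (P.cons (P.cons (P.lf 0 60814095 0) (P.cons (P.lf 56653956 0 0) (P.cons (P.lf 5814537 0 0) (P.cons (P.lf 0 1209261 0) (P.lf 0 100770 0))))) (P.cons (P.cons (P.lf 0 53564643 0) (P.cons (P.lf 49900419 0 0) (P.cons (P.lf 5121405 0 0) (P.cons (P.lf 0 1065111 0) P.nil)))) (P.cons (P.cons (P.lf 12406323 0 0) (P.cons (P.lf 0 11557638 0) (P.cons (P.lf 0 1186188 0) P.nil))) (P.cons (P.cons (P.lf 1092960 0 0) (P.cons (P.lf 0 1018194 0) P.nil)) (P.cons (P.cons (P.lf 0 567498 0) P.nil) P.nil)))))) 1482894)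
 EL.nil)))
noncomputable def S314_372_660_808_24 : EL := (EL.cons 4 (TM.mk (P.cons (P.cons (P.lf 617997372 0 0) (P.cons (P.lf 135344016 0 0) (P.cons (P.lf 0 51710202 0) (P.cons (P.lf 0 12221190 0) (P.cons (P.lf 599436 0 0) (P.cons (P.lf 274851 0 0) P.nil)))))) (P.cons (P.cons (P.lf 0 493664286 0) (P.cons (P.lf 0 78664863 0) (P.cons (P.lf 29390991 0 0) (P.cons (P.lf 7675947 0 0) (P.cons (P.lf 0 408252 0) P.nil))))) (P.cons (P.cons (P.lf 0 470903850 0) (P.cons (P.lf 0 45712803 0) (P.cons (P.lf 18957078 0 0) (P.cons (P.lf 2841162 0 0) P.nil)))) (P.cons (P.cons (P.lf 169258677 0 0) (P.cons (P.lf 31835037 0 0) (P.cons (P.lf 0 12399807 0) P.nil))) (P.cons (P.cons (P.lf 79156902 0 0) (P.cons (P.lf 2796291 0 0) P.nil)) (P.cons (P.cons (P.lf 0 29876013 0) P.nil) P.nil)))))) 39826602)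
 (EL.cons 8 (TM.mk (P.cons (P.cons (P.lf 327278322 0 0) (P.cons (P.lf 71675325 0 0) (P.cons (P.lf 0 27384630 0) (P.cons (P.lf 0 6472083 0) (P.cons (P.lf 317448 0 0) (P.cons (P.lf 145554 0 0) P.nil)))))) (P.cons (P.cons (P.lf 0 115527879 0) (P.cons (P.lf 0 9705162 0) (P.cons (P.lf 3356313 0 0) (P.cons (P.lf 1179654 0 0) (P.cons (P.lf 0 74676 0) P.nil))))) (P.cons (P.cons (P.lf 0 343384851 0) (P.cons (P.lf 0 37842903 0) (P.cons (P.lf 15091692 0 0) (P.cons (P.lf 2870982 0 0) P.nil)))) (P.cons (P.cons (P.lf 0 34282146 0) (P.cons (P.lf 4350993 0 0) (P.cons (P.lf 0 1459761 0) P.nil))) (P.cons (P.cons (P.lf 61504698 0 0) (P.cons (P.lf 6880539 0 0) P.nil)) (P.cons (P.cons (P.lf 4427145 0 0) P.nil) P.nil)))))) 21929193)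
 (EL.cons 11 (TM.mk (P.cons (P.cons (P.lf 0 115485513 0) (P.cons (P.lf 90893484 0 0) (P.cons (P.lf 33789624 0 0) (P.cons (P.lf 0 6606060 0) (P.cons (P.lf 0 1956507 0) (P.cons (P.lf 38997 0 0) P.nil)))))) (P.cons (P.cons (P.lf 148819677 0 0) (P.cons (P.lf 0 126392340 0) (P.cons (P.lf 0 30919098 0) (P.cons (P.lf 6121245 0 0) (P.cons (P.lf 1541694 0 0) P.nil))))) (P.cons (P.cons (P.lf 9436791 0 0) (P.cons (P.lf 0 9214452 0) (P.cons (P.lf 0 325512 0) (P.cons (P.lf 78378 0 0) P.nil)))) (P.cons (P.cons (P.lf 0 30654252 0) (P.cons (P.lf 26581494 0 0) (P.cons (P.lf 5623503 0 0) P.nil))) (P.cons (P.cons (P.lf 3200943 0 0) (P.cons (P.lf 0 2431011 0) P.nil)) (P.cons (P.cons (P.lf 2244681 0 0) P.nil) P.nil)))))) 10671663)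
 EL.nil)))
noncomputable def S314_372_660_808_25 : EL := (EL.cons 4 (TM.mk (P.cons (P.cons (P.lf 0 1342812144 0) (P.cons (P.lf 0 99995154 0) (P.cons (P.lf 43119033 0 0) (P.lf 4791000 0 0)))) (P.cons (P.cons (P.lf 0 799131036 0) (P.cons (P.lf 0 15792252 0) (P.cons (P.lf 6809796 0 0) (P.lf 756645 0 0)))) (P.cons (P.cons (P.lf 262005786 0 0) (P.cons (P.lf 29228538 0 0) (P.cons (P.lf 0 12603675 0) (P.lf 0 1400406 0)))) (P.cons (P.cons (P.lf 153703929 0 0) (P.cons (P.lf 1230429 0 0) (P.cons (P.lf 0 530574 0) P.nil))) (P.cons (P.cons (P.lf 0 36230994 0) (P.cons (P.lf 0 3767190 0) P.nil)) (P.cons (P.cons (P.lf 0 11710206 0) P.nil) P.nil)))))) 11753253)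
 (EL.cons 8 (TM.mk (P.cons (P.cons (P.lf 0 711124878 0) (P.cons (P.lf 0 52955316 0) (P.cons (P.lf 22834929 0 0) (P.lf 2537214 0 0)))) (P.cons (P.cons (P.lf 0 740234508 0) (P.cons (P.lf 0 31971627 0) (P.cons (P.lf 13786524 0 0) (P.lf 1531833 0 0)))) (P.cons (P.cons (P.lf 0 98910948 0) (P.cons (P.lf 8102010 0 0) (P.cons (P.lf 0 3493677 0) (P.lf 0 388185 0)))) (P.cons (P.cons (P.lf 102645972 0 0) (P.cons (P.lf 6123174 0 0) (P.cons (P.lf 0 2640381 0) P.nil))) (P.cons (P.cons (P.lf 17637303 0 0) (P.cons (P.lf 0 937170 0) P.nil)) (P.cons (P.cons (P.lf 0 8688948 0) P.nil) P.nil)))))) 6782529)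
 (EL.cons 11 (TM.mk (P.cons (P.cons (P.lf 250932054 0 0) (P.cons (P.lf 0 233766423 0) (P.cons (P.lf 0 23992038 0) (P.cons (P.lf 4989675 0 0) (P.lf 415806 0 0))))) (P.cons (P.cons (P.lf 26419824 0 0) (P.cons (P.lf 0 24612510 0) (P.cons (P.lf 0 2526042 0) (P.cons (P.lf 525345 0 0) (P.lf 43776 0 0))))) (P.cons (P.cons (P.lf 0 49593636 0) (P.cons (P.lf 46201059 0 0) (P.cons (P.lf 4741731 0 0) (P.cons (P.lf 0 986148 0) P.nil)))) (P.cons (P.cons (P.lf 564519 0 0) (P.cons (P.lf 0 525903 0) (P.cons (P.lf 0 53973 0) P.nil))) (P.cons (P.cons (P.lf 3753051 0 0) (P.cons (P.lf 0 3496314 0) P.nil)) (P.cons (P.cons (P.lf 0 444231 0) P.nil) P.nil)))))) 1818744)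
 EL.nil)))
noncomputable def S314_372_660_808_26 : EL := (EL.cons 4 (TM.mk (P.cons (P.cons (P.lf 367054458 0 0) (P.cons (P.lf 80386464 0 0) (P.cons (P.lf 0 30712848 0) (P.cons (P.lf 0 7258674 0) (P.cons (P.lf 356028 0 0) (P.cons (P.lf 163245 0 0) P.nil)))))) (P.cons (P.cons (P.lf 0 201726768 0) (P.cons (P.lf 0 26687610 0) (P.cons (P.lf 9801966 0 0) (P.cons (P.lf 2749983 0 0) (P.cons (P.lf 0 153744 0) P.nil))))) (P.cons (P.cons (P.lf 0 365604642 0) (P.cons (P.lf 0 41607141 0) (P.cons (P.lf 16684377 0 0) (P.cons (P.lf 3077637 0 0) P.nil)))) (P.cons (P.cons (P.lf 40876095 0 0) (P.cons (P.lf 13731282 0 0) (P.cons (P.lf 0 5152233 0) P.nil))) (P.cons (P.cons (P.lf 82211463 0 0) (P.cons (P.lf 7391925 0 0) P.nil)) (P.cons (P.cons (P.lf 0 9560286 0) P.nil) P.nil)))))) 31543272)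
 (EL.cons 8 (TM.mk (P.cons (P.cons (P.lf 194384268 0 0) (P.cons (P.lf 42570969 0 0) (P.cons (P.lf 0 16264875 0) (P.cons (P.lf 0 3844041 0) (P.cons (P.lf 188544 0 0) (P.cons (P.lf 86451 0 0) P.nil)))))) (P.cons (P.cons (P.lf 0 20170392 0) (P.cons (P.lf 4845672 0 0) (P.cons (P.lf 0 2060244 0) (P.cons (P.lf 0 257403 0) (P.cons (P.lf 2637 0 0) P.nil))))) (P.cons (P.cons (P.lf 0 227851212 0) (P.cons (P.lf 0 25402173 0) (P.cons (P.lf 10029330 0 0) (P.cons (P.lf 2014275 0 0) P.nil)))) (P.cons (P.cons (P.lf 0 68899413 0) (P.cons (P.lf 0 2839443 0) (P.cons (P.lf 1306230 0 0) P.nil))) (P.cons (P.cons (P.lf 38731491 0 0) (P.cons (P.lf 5542923 0 0) P.nil)) (P.cons (P.cons (P.lf 12514539 0 0) P.nil) P.nil)))))) 16095810)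
 (EL.cons 11 (TM.mk (P.cons (P.cons (P.lf 0 68591670 0) (P.cons (P.lf 53985435 0 0) (P.cons (P.lf 20069070 0 0) (P.cons (P.lf 0 3923613 0) (P.cons (P.lf 0 1162050 0) (P.cons (P.lf 23163 0 0) P.nil)))))) (P.cons (P.cons (P.lf 71295102 0 0) (P.cons (P.lf 0 61614885 0) (P.cons (P.lf 0 13362324 0) (P.cons (P.lf 2657778 0 0) (P.cons (P.lf 626058 0 0) P.nil))))) (P.cons (P.cons (P.lf 30033633 0 0) (P.cons (P.lf 0 26070801 0) (P.cons (P.lf 0 5472216 0) (P.cons (P.lf 1089909 0 0) P.nil)))) (P.cons (P.cons (P.lf 0 19863816 0) (P.cons (P.lf 17019876 0 0) (P.cons (P.lf 3923118 0 0) P.nil))) (P.cons (P.cons (P.lf 0 2918148 0) (P.cons (P.lf 2752755 0 0) P.nil)) (P.cons (P.cons (P.lf 2490795 0 0) P.nil) P.nil)))))) 8688702)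
 EL.nil)))
noncomputable def S314_372_660_808_27 : EL := (EL.cons 13 (TM.mk (P.lf 0 4294967296 0) 0)
 EL.nil)
noncomputable def S314_372_660_808_28 : EL := (EL.cons 13 (TM.mk (P.cons (P.cons (P.lf 1174018940 0 0) (P.cons (P.lf 169689436 0 0) (P.cons (P.lf 0 73171996 0) (P.lf 0 8130220 0)))) (P.cons (P.cons (P.lf 0 1343899712 0) (P.cons (P.lf 0 100076140 0) (P.cons (P.lf 43153960 0 0) (P.lf 4794880 0 0)))) (P.cons (P.cons (P.lf 0 140532133 0) (P.cons (P.lf 11411008 0 0) (P.cons (P.lf 0 4920556 0) (P.lf 0 546724 0)))) (P.cons (P.cons (P.lf 86539960 0 0) (P.cons (P.lf 4057156 0 0) (P.cons (P.lf 0 1749492 0) P.nil))) (P.cons (P.cons (P.lf 0 1474511 0) (P.cons (P.lf 0 1070572 0) P.nil)) (P.cons (P.cons (P.lf 0 2879295 0) P.nil) P.nil)))))) 1760642)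
 EL.nil)
noncomputable def S314_372_660_808_29 : EL := (EL.cons 13 (TM.mk (P.cons (P.cons (P.lf 0 320915242 0) (P.cons (P.lf 0 92768395 0) (P.cons (P.lf 33298533 0 0) (P.cons (P.lf 10226642 0 0) (P.cons (P.lf 0 604175 0) (P.cons (P.lf 0 277023 0) P.nil)))))) (P.cons (P.cons (P.lf 734703482 0 0) (P.cons (P.lf 160903142 0 0) (P.cons (P.lf 0 61475451 0) (P.cons (P.lf 0 14529108 0) (P.cons (P.lf 712638 0 0) P.nil))))) (P.cons (P.cons (P.lf 0 343679372 0) (P.cons (P.lf 0 57761658 0) (P.cons (P.lf 21673952 0 0) (P.cons (P.lf 5556158 0 0) P.nil)))) (P.cons (P.cons (P.lf 0 135256277 0) (P.cons (P.lf 0 8464212 0) (P.cons (P.lf 3861047 0 0) P.nil))) (P.cons (P.cons (P.lf 50364756 0 0) (P.cons (P.lf 8020405 0 0) P.nil)) (P.cons (P.cons (P.lf 6314551 0 0) P.nil) P.nil)))))) 16930877)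
 EL.nil)
noncomputable def S314_372_660_808_30 : EL := (EL.cons 13 (TM.mk (P.cons (P.lf 0 2550960508 0) (P.cons (P.lf 0 635776524 0) (P.cons (P.lf 89228036 0 0) (P.cons (P.lf 1407440 0 0) (P.cons (P.lf 0 1369092 0) (P.cons (P.lf 95416 0 0) P.nil)))))) 28012)
 EL.nil)
noncomputable def S314_372_660_808_31 : EL := (EL.cons 13 (TM.mk (P.cons (P.cons (P.lf 697298895 0 0) (P.cons (P.lf 100785645 0 0) (P.cons (P.lf 0 43459905 0) (P.lf 0 4828877 0)))) (P.cons (P.cons (P.lf 0 624410205 0) (P.cons (P.lf 0 34320568 0) (P.cons (P.lf 14799416 0 0) (P.lf 1644377 0 0)))) (P.cons (P.cons (P.lf 0 306793305 0) (P.cons (P.lf 0 11561923 0) (P.cons (P.lf 4985631 0 0) (P.lf 553960 0 0)))) (P.cons (P.cons (P.lf 58131795 0 0) (P.cons (P.lf 6122343 0 0) (P.cons (P.lf 0 2640024 0) P.nil))) (P.cons (P.cons (P.lf 15668771 0 0) (P.cons (P.lf 0 185461 0) P.nil)) (P.cons (P.cons (P.lf 0 4134692 0) P.nil)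 P.nil)))))) 2990716)
 EL.nil)
noncomputable def S314_372_660_808_32 : EL := (EL.cons 13 (TM.mk (P.cons (P.cons (P.lf 0 190604969 0) (P.cons (P.lf 0 55099025 0) (P.cons (P.lf 19777389 0 0) (P.cons (P.lf 6074029 0 0) (P.cons (P.lf 0 358844 0) (P.cons (P.lf 0 164535 0) P.nil)))))) (P.cons (P.cons (P.lf 388866567 0 0) (P.cons (P.lf 81834754 0 0) (P.cons (P.lf 0 31583714 0) (P.cons (P.lf 0 7115612 0) (P.cons (P.lf 333830 0 0) P.nil))))) (P.cons (P.cons (P.lf 0 88701639 0) (P.cons (P.lf 0 8561584 0) (P.cons (P.lf 3081183 0 0) (P.cons (P.lf 936857 0 0) P.nil)))) (P.cons (P.cons (P.lf 0 146366929 0) (P.cons (P.lf 0 16889973 0) (P.cons (P.lf 6767836 0 0) P.nil))) (P.cons (P.cons (P.lf 16688872 0 0) (P.cons (P.lf 4628412 0 0) P.nil)) (P.cons (P.cons (P.lf 14369785 0 0) P.nil) P.nil)))))) 19561548)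
 EL.nil)
noncomputable def S314_372_660_808_33 : EL := (EL.cons 14 (TM.mk (P.lf 8589934592 0 0) 0)
 EL.nil)
noncomputable def S314_372_660_808_34 : EL := (EL.cons 14 (TM.mk (P.cons (P.cons (P.lf 0 2348037880 0) (P.cons (P.lf 0 339378872 0) (P.cons (P.lf 146343992 0 0) (P.lf 16260440 0 0)))) (P.cons (P.cons (P.lf 2687799424 0 0) (P.cons (P.lf 200152280 0 0) (P.cons (P.lf 0 86307920 0) (P.lf 0 9589760 0)))) (P.cons (P.cons (P.lf 281064266 0 0) (P.cons (P.lf 0 22822016 0) (P.cons (P.lf 9841112 0 0) (P.lf 1093448 0 0)))) (P.cons (P.cons (P.lf 0 173079920 0) (P.cons (P.lf 0 8114312 0) (P.cons (P.lf 3498984 0 0) P.nil))) (P.cons (P.cons (P.lf 2949022 0 0) (P.cons (P.lf 2141144 0 0) P.nil)) (P.cons (P.cons (P.lf 5758590 0 0) P.nil) P.nil)))))) 3521284)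
 EL.nil)
noncomputable def S314_372_660_808_35 : EL := (EL.cons 14 (TM.mk (P.cons (P.cons (P.lf 641830484 0 0) (P.cons (P.lf 185536790 0 0) (P.cons (P.lf 0 66597066 0) (P.cons (P.lf 0 20453284 0) (P.cons (P.lf 1208350 0 0) (P.cons (P.lf 554046 0 0) P.nil)))))) (P.cons (P.cons (P.lf 0 1469406964 0) (P.cons (P.lf 0 321806284 0) (P.cons (P.lf 122950902 0 0) (P.cons (P.lf 29058216 0 0) (P.cons (P.lf 0 1425276 0) P.nil))))) (P.cons (P.cons (P.lf 687358744 0 0) (P.cons (P.lf 115523316 0 0) (P.cons (P.lf 0 43347904 0) (P.cons (P.lf 0 11112316 0) P.nil)))) (P.cons (P.cons (P.lf 270512554 0 0) (P.cons (P.lf 16928424 0 0) (P.cons (P.lf 0 7722094 0) P.nil))) (P.cons (P.cons (P.lf 0 100729512 0) (P.cons (P.lf 0 16040810 0) P.nil)) (P.cons (P.cons (P.lf 0 12629102 0) P.nil) P.nil)))))) 33861754)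
 EL.nil)
noncomputable def S314_372_660_808_36 : EL := (EL.cons 14 (TM.mk (P.cons (P.lf 5101921016 0 0) (P.cons (P.lf 1271553048 0 0) (P.cons (P.lf 0 178456072 0) (P.cons (P.lf 0 2814880 0) (P.cons (P.lf 2738184 0 0) (P.cons (P.lf 0 190832 0) P.nil)))))) 56024)
 EL.nil)
noncomputable def S314_372_660_808_37 : EL := (EL.cons 14 (TM.mk (P.cons (P.cons (P.lf 0 1394597790 0) (P.cons (P.lf 0 201571290 0) (P.cons (P.lf 86919810 0 0) (P.lf 9657754 0 0)))) (P.cons (P.cons (P.lf 1248820410 0 0) (P.cons (P.lf 68641136 0 0) (P.cons (P.lf 0 29598832 0) (P.lf 0 3288754 0)))) (P.cons (P.cons (P.lf 613586610 0 0) (P.cons (P.lf 23123846 0 0) (P.cons (P.lf 0 9971262 0) (P.lf 0 1107920 0)))) (P.cons (P.cons (P.lf 0 116263590 0) (P.cons (P.lf 0 12244686 0) (P.cons (P.lf 5280048 0 0) P.nil))) (P.cons (P.cons (P.lf 0 31337542 0) (P.cons (P.lf 370922 0 0) P.nil)) (P.cons (P.cons (P.lf 8269384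 0 0) P.nil) P.nil)))))) 5981432)
 EL.nil)
noncomputable def S314_372_660_808_38 : EL := (EL.cons 14 (TM.mk (P.cons (P.cons (P.lf 381209938 0 0) (P.cons (P.lf 110198050 0 0) (P.cons (P.lf 0 39554778 0) (P.cons (P.lf 0 12148058 0) (P.cons (P.lf 717688 0 0) (P.cons (P.lf 329070 0 0) P.nil)))))) (P.cons (P.cons (P.lf 0 777733134 0) (P.cons (P.lf 0 163669508 0) (P.cons (P.lf 63167428 0 0) (P.cons (P.lf 14231224 0 0) (P.cons (P.lf 0 667660 0) P.nil))))) (P.cons (P.cons (P.lf 177403278 0 0) (P.cons (P.lf 17123168 0 0) (P.cons (P.lf 0 6162366 0) (P.cons (P.lf 0 1873714 0) P.nil)))) (P.cons (P.cons (P.lf 292733858 0 0) (P.cons (P.lf 33779946 0 0) (P.cons (P.lf 0 13535672 0) P.nil))) (P.cons (P.cons (P.lf 0 33377744 0) (P.cons (P.lf 0 9256824 0) P.nil)) (P.cons (P.cons (P.lf 0 28739570 0) P.nil) P.nil)))))) 39123096)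
 EL.nil)
noncomputable def S314_372_660_808_39 : EL := (EL.cons 14 (TM.mk (P.cons (P.lf 3030244034 0 0) (P.cons (P.lf 1510456952 0 0) (P.cons (P.lf 0 23759250 0) (P.cons (P.lf 0 56176832 0) (P.cons (P.lf 6126708 0 0) (P.cons (P.lf 700928 0 0) P.nil)))))) 267590)
 EL.nil)
noncomputable def S314_372_660_808_40 : EL := (EL.cons 14 (TM.mk (P.cons (P.cons (P.lf 0 828309890 0) (P.cons (P.lf 0 119721610 0) (P.cons (P.lf 51625306 0 0) (P.lf 5736142 0 0)))) (P.cons (P.cons (P.lf 535286732 0 0) (P.cons (P.lf 10930592 0 0) (P.cons (P.lf 0 4713394 0) (P.lf 0 523708 0)))) (P.cons (P.cons (P.lf 578268228 0 0) (P.cons (P.lf 28082694 0 0) (P.cons (P.lf 0 12109574 0) (P.lf 0 1345508 0)))) (P.cons (P.cons (P.lf 0 3712914 0) (P.cons (P.lf 0 5209614 0) (P.cons (P.lf 2246444 0 0) P.nil))) (P.cons (P.cons (P.lf 0 49424030 0) (P.cons (P.lf 0 2159398 0) P.nil)) (P.cons (P.cons (P.lf 2916064 0 0)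 P.nil) P.nil)))))) 7660550)
 EL.nil)
noncomputable def S314_372_660_808_41 : EL := (EL.cons 14 (TM.mk (P.cons (P.cons (P.lf 226416508 0 0) (P.cons (P.lf 65451226 0 0) (P.cons (P.lf 0 23493236 0) (P.cons (P.lf 0 7215240 0) (P.cons (P.lf 426264 0 0) (P.cons (P.lf 195448 0 0) P.nil)))))) (P.cons (P.cons (P.lf 0 405498356 0) (P.cons (P.lf 0 80897732 0) (P.cons (P.lf 31662550 0 0) (P.cons (P.lf 6654262 0 0) (P.cons (P.lf 0 290312 0) P.nil))))) (P.cons (P.cons (P.lf 0 17678904 0) (P.cons (P.lf 0 16346912 0) (P.cons (P.lf 6512228 0 0) (P.cons (P.lf 1246122 0 0) P.nil)))) (P.cons (P.cons (P.lf 216160068 0 0) (P.cons (P.lf 25962160 0 0) (P.cons (P.lf 0 10250948 0) P.nil))) (P.cons (P.cons (P.lf 20199264 0 0) (P.cons (P.lf 0 764600 0) P.nil)) (P.cons (P.cons (P.lf 0 28406550 0) P.nil) P.nil)))))) 34378126)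
 EL.nil)
noncomputable def S314_372_660_808_42 : EL := (EL.cons 14 (TM.mk (P.cons (P.lf 1799788526 0 0) (P.cons (P.lf 1345685228 0 0) (P.cons (P.lf 146525314 0 0) (P.cons (P.lf 0 69255578 0) (P.cons (P.lf 0 3712280 0) (P.cons (P.lf 2912260 0 0) P.nil)))))) 563866)
 EL.nil)
noncomputable def S314_372_660_808_43 : EL := (EL.cons 14 (TM.mk (P.cons (P.cons (P.lf 0 491967846 0) (P.cons (P.lf 0 71107664 0) (P.cons (P.lf 30662426 0 0) (P.lf 3406934 0 0)))) (P.cons (P.cons (P.lf 195315884 0 0) (P.cons (P.lf 0 11230044 0) (P.cons (P.lf 4842520 0 0) (P.lf 538058 0 0)))) (P.cons (P.cons (P.lf 439903376 0 0) (P.cons (P.lf 20784740 0 0) (P.cons (P.lf 0 8962614 0) (P.lf 0 995846 0)))) (P.cons (P.cons (P.lf 72545622 0 0) (P.cons (P.lf 874972 0 0) (P.cons (P.lf 0 377296 0) P.nil))) (P.cons (P.cons (P.lf 0 42357594 0) (P.cons (P.lf 0 2678890 0) P.nil)) (P.cons (P.cons (P.lf 0 5507506 0)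 P.nil) P.nil)))))) 9014152)
 EL.nil)
noncomputable def S314_372_660_808_44 : EL := (EL.cons 14 (TM.mk (P.cons (P.cons (P.lf 134478222 0 0) (P.cons (P.lf 38874216 0 0) (P.cons (P.lf 0 13953614 0) (P.cons (P.lf 0 4285432 0) (P.cons (P.lf 253176 0 0) (P.cons (P.lf 116084 0 0) P.nil)))))) (P.cons (P.cons (P.lf 0 207326374 0) (P.cons (P.lf 0 38359912 0) (P.cons (P.lf 15328048 0 0) (P.cons (P.lf 2884184 0 0) (P.cons (P.lf 0 109328 0) P.nil))))) (P.cons (P.cons (P.lf 0 75229262 0) (P.cons (P.lf 0 23044014 0) (P.cons (P.lf 9042908 0 0) (P.cons (P.lf 1875038 0 0) P.nil)))) (P.cons (P.cons (P.lf 134119558 0 0) (P.cons (P.lf 14659410 0 0) (P.cons (P.lf 0 5774564 0) P.nil))) (P.cons (P.cons (P.lf 44567318 0 0) (P.cons (P.lf 3775984 0 0) P.nil)) (P.cons (P.cons (P.lf 0 18501000 0) P.nil) P.nil)))))) 33603584)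
 EL.nil)
noncomputable def S314_372_660_808_45 : EL := (EL.cons 14 (TM.mk (P.cons (P.cons (P.lf 0 175442812 0) (P.cons (P.lf 0 76074050 0) (P.cons (P.lf 21808454 0 0) (P.cons (P.lf 12597926 0 0) (P.cons (P.lf 0 305590 0) (P.cons (P.lf 0 673708 0) P.nil)))))) (P.cons (P.cons (P.lf 602488268 0 0) (P.cons (P.lf 219029436 0 0) (P.cons (P.lf 0 68891908 0) (P.cons (P.lf 0 31597042 0) (P.cons (P.lf 1090566 0 0) P.nil))))) (P.cons (P.cons (P.lf 0 626665998 0) (P.cons (P.lf 0 189301110 0) (P.cons (P.lf 62795550 0 0) (P.cons (P.lf 24652404 0 0) P.nil)))) (P.cons (P.cons (P.lf 80119696 0 0) (P.cons (P.lf 25878074 0 0) (P.cons (P.lf 0 7104892 0) P.nil))) (P.cons (P.cons (P.lf 164495988 0 0) (P.cons (P.lf 30014106 0 0) P.nil)) (P.cons (P.cons (P.lf 0 33138898 0) P.nil) P.nil)))))) 100154960)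
 EL.nil)
noncomputable def S314_372_660_808_46 : EL := (EL.cons 15 (TM.mk (P.lf 4294967296 0 0) 0)
 EL.nil)
noncomputable def S314_372_660_808_47 : EL := (EL.cons 15 (TM.mk (P.cons (P.cons (P.lf 0 1174018940 0) (P.cons (P.lf 0 169689436 0) (P.cons (P.lf 73171996 0 0) (P.lf 8130220 0 0)))) (P.cons (P.cons (P.lf 1343899712 0 0) (P.cons (P.lf 100076140 0 0) (P.cons (P.lf 0 43153960 0) (P.lf 0 4794880 0)))) (P.cons (P.cons (P.lf 140532133 0 0) (P.cons (P.lf 0 11411008 0) (P.cons (P.lf 4920556 0 0) (P.lf 546724 0 0)))) (P.cons (P.cons (P.lf 0 86539960 0) (P.cons (P.lf 0 4057156 0) (P.cons (P.lf 1749492 0 0) P.nil))) (P.cons (P.cons (P.lf 1474511 0 0) (P.cons (P.lf 1070572 0 0) P.nil)) (P.cons (P.cons (P.lf 2879295 0 0) P.nil) P.nil)))))) 1760642)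
 EL.nil)
noncomputable def S314_372_660_808_48 : EL := (EL.cons 15 (TM.mk (P.cons (P.cons (P.lf 320915242 0 0) (P.cons (P.lf 92768395 0 0) (P.cons (P.lf 0 33298533 0) (P.cons (P.lf 0 10226642 0) (P.cons (P.lf 604175 0 0) (P.cons (P.lf 277023 0 0) P.nil)))))) (P.cons (P.cons (P.lf 0 734703482 0) (P.cons (P.lf 0 160903142 0) (P.cons (P.lf 61475451 0 0) (P.cons (P.lf 14529108 0 0) (P.cons (P.lf 0 712638 0) P.nil))))) (P.cons (P.cons (P.lf 343679372 0 0) (P.cons (P.lf 57761658 0 0) (P.cons (P.lf 0 21673952 0) (P.cons (P.lf 0 5556158 0) P.nil)))) (P.cons (P.cons (P.lf 135256277 0 0) (P.cons (P.lf 8464212 0 0) (P.cons (P.lf 0 3861047 0) P.nil))) (P.cons (P.cons (P.lf 0 50364756 0) (P.cons (P.lf 0 8020405 0) P.nil)) (P.cons (P.cons (P.lf 0 6314551 0) P.nil) P.nil)))))) 16930877)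
 EL.nil)
noncomputable def S314_372_660_808 : SL := (SL.cons S314_372_660_808_0 (SL.cons S314_372_660_808_1 (SL.cons S314_372_660_808_2 (SL.cons S314_372_660_808_3 (SL.cons S314_372_660_808_4 (SL.cons S314_372_660_808_5 (SL.cons S314_372_660_808_6 (SL.cons S314_372_660_808_7 (SL.cons S314_372_660_808_8 (SL.cons S314_372_660_808_9 (SL.cons S314_372_660_808_10 (SL.cons S314_372_660_808_11 (SL.cons S314_372_660_808_12 (SL.cons S314_372_660_808_13 (SL.cons S314_372_660_808_14 (SL.cons S314_372_660_808_15 (SL.cons S314_372_660_808_16 (SL.cons S314_372_660_808_17 (SL.cons S314_372_660_808_18 (SL.cons S314_372_660_808_19 (SL.cons S314_372_660_808_20 (SL.cons S314_372_660_808_21 (SL.cons S314_372_660_808_22 (SL.cons S314_372_660_808_23 (SL.cons S314_372_660_808_24 (SL.cons S314_372_660_808_25 (SL.cons S314_372_660_808_26 (SL.cons S314_372_660_808_27 (SL.cons S314_372_660_808_28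 (SL.cons S314_372_660_808_29 (SL.cons S314_372_660_808_30 (SL.cons S314_372_660_808_31 (SL.cons S314_372_660_808_32 (SL.cons S314_372_660_808_33 (SL.cons S314_372_660_808_34 (SL.cons S314_372_660_808_35 (SL.cons S314_372_660_808_36 (SL.cons S314_372_660_808_37 (SL.cons S314_372_660_808_38 (SL.cons S314_372_660_808_39 (SL.cons S314_372_660_808_40 (SL.cons S314_372_660_808_41 (SL.cons S314_372_660_808_42 (SL.cons S314_372_660_808_43 (SL.cons S314_372_660_808_44 (SL.cons S314_372_660_808_45 (SL.cons S314_372_660_808_46 (SL.cons S314_372_660_808_47 (SL.cons S314_372_660_808_48 SL.nil)))))))))))))))))))))))))))))))))))))))))))))))))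
noncomputable def S314_372_734_808_0 : EL := (EL.cons 0 (TM.mk (P.cons (P.lf 5792416443 0 0) (P.cons (P.lf 0 1327550055 0) (P.cons (P.lf 20882153 0 0) (P.cons (P.lf 49374168 0 0) (P.cons (P.lf 0 5384801 0) (P.cons (P.lf 0 616050 0) P.nil)))))) 235193)
 (EL.cons 1 (TM.mk (P.cons (P.lf 1788121471 0 0) (P.cons (P.lf 94132764 0 0) (P.cons (P.lf 0 179177853 0) (P.cons (P.lf 11443897 0 0) (P.cons (P.lf 3792305 0 0) (P.cons (P.lf 0 635690 0) P.nil)))))) 110845)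
 (EL.cons 5 (TM.mk (P.cons (P.lf 5241918562 0 0) (P.cons (P.lf 472017796 0 0) (P.cons (P.lf 0 7424770 0) (P.cons (P.lf 0 17555260 0) (P.cons (P.lf 1914598 0 0) (P.cons (P.lf 219040 0 0) P.nil)))))) 72457)
 (EL.cons 9 (TM.mk (P.lf 6442450944 0 0) 2)
 EL.nil))))
noncomputable def S314_372_734_808_1 : EL := (EL.cons 0 (TM.mk (P.cons (P.cons (P.lf 2689277835 0 0) (P.cons (P.lf 23131257 0 0) (P.cons (P.lf 0 10919364 0) (P.lf 0 519958 0)))) (P.cons (P.cons (P.lf 3702834525 0 0) (P.cons (P.lf 42254575 0 0) (P.cons (P.lf 0 19946746 0) (P.lf 0 949844 0)))) (P.cons (P.cons (P.lf 0 1322653839 0) (P.cons (P.lf 0 32289275 0) (P.cons (P.lf 15242509 0 0) (P.lf 725829 0 0)))) (P.cons (P.cons (P.lf 0 334456827 0) (P.cons (P.lf 2751520 0 0) (P.cons (P.lf 0 1298886 0) P.nil))) (P.cons (P.cons (P.lf 169173048 0 0) (P.cons (P.lf 2584163 0 0) P.nil)) (P.cons (P.cons (P.lf 2292985 0 0) P.nil)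 P.nil)))))) 21234358)
 (EL.cons 1 (TM.mk (P.cons (P.cons (P.lf 0 825289392 0) (P.cons (P.lf 0 24785754 0) (P.cons (P.lf 11700392 0 0) (P.lf 557155 0 0)))) (P.cons (P.cons (P.lf 1612722135 0 0) (P.cons (P.lf 33169325 0 0) (P.cons (P.lf 0 15657946 0) (P.lf 0 745611 0)))) (P.cons (P.cons (P.lf 493751639 0 0) (P.cons (P.lf 0 1584131 0) (P.cons (P.lf 747806 0 0) (P.lf 35608 0 0)))) (P.cons (P.cons (P.lf 0 325039562 0) (P.cons (P.lf 0 5514759 0) (P.cons (P.lf 2603304 0 0) P.nil))) (P.cons (P.cons (P.lf 0 20272624 0) (P.cons (P.lf 1142701 0 0) P.nil)) (P.cons (P.cons (P.lf 25179240 0 0) P.nil) P.nil)))))) 10974180)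
 (EL.cons 5 (TM.mk (P.cons (P.cons (P.lf 0 3063430134 0) (P.cons (P.lf 0 85081254 0) (P.cons (P.lf 40163554 0 0) (P.lf 1912548 0 0)))) (P.cons (P.cons (P.lf 1033771514 0 0) (P.cons (P.lf 30303268 0 0) (P.cons (P.lf 0 14304992 0) (P.lf 0 681186 0)))) (P.cons (P.cons (P.lf 701689605 0 0) (P.cons (P.lf 6312282 0 0) (P.cons (P.lf 0 2979778 0) (P.lf 0 141892 0)))) (P.cons (P.cons (P.lf 0 30863706 0) (P.cons (P.lf 0 2815914 0) (P.cons (P.lf 1329284 0 0) P.nil))) (P.cons (P.cons (P.lf 0 56940863 0) (P.cons (P.lf 0 433918 0) P.nil)) (P.cons (P.cons (P.lf 4088640 0 0) P.nil) P.nil)))))) 8054620)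
 (EL.cons 9 (TM.mk (P.cons (P.cons (P.lf 0 1859331576 0) (P.cons (P.lf 0 67814826 0) (P.cons (P.lf 32012748 0 0) (P.lf 1524414 0 0)))) (P.cons (P.cons (P.lf 2073824898 0 0) (P.cons (P.lf 39994506 0 0) (P.cons (P.lf 0 18879852 0) (P.lf 0 899040 0)))) (P.cons (P.cons (P.lf 204187663 0 0) (P.cons (P.lf 0 4560300 0) (P.cons (P.lf 2152740 0 0) (P.lf 102510 0 0)))) (P.cons (P.cons (P.lf 0 132160302 0) (P.cons (P.lf 0 1621404 0) (P.cons (P.lf 765402 0 0) P.nil))) (P.cons (P.cons (P.lf 2831962 0 0) (P.cons (P.lf 427842 0 0) P.nil)) (P.cons (P.cons (P.lf 4326976 0 0) P.nil) P.nil)))))) 1525096)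
 (EL.cons 2 (TM.mk (P.cons (P.cons (P.lf 0 203145747 0) (P.cons (P.lf 200310274 0 0) (P.cons (P.lf 6267900 0 0) (P.cons (P.lf 0 1148565 0) (P.lf 0 41017 0))))) (P.cons (P.cons (P.lf 29241506 0 0) (P.cons (P.lf 0 28833356 0) (P.cons (P.lf 0 902221 0) (P.cons (P.lf 165327 0 0) (P.lf 5900 0 0))))) (P.cons (P.cons (P.lf 25755719 0 0) (P.cons (P.lf 0 25396225 0) (P.cons (P.lf 0 794671 0) (P.cons (P.lf 145620 0 0) P.nil)))) (P.cons (P.cons (P.lf 0 5965385 0) (P.cons (P.lf 5882121 0 0) (P.cons (P.lf 184055 0 0) P.nil))) (P.cons (P.cons (P.lf 0 525532 0) (P.cons (P.lf 518197 0 0) P.nil)) (P.cons (P.cons (P.lf 272871 0 0) P.nil) P.nil)))))) 465073)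
 (EL.cons 6 (TM.mk (P.cons (P.cons (P.lf 136390650 0 0) (P.cons (P.lf 0 134486931 0) (P.cons (P.lf 0 4208223 0) (P.cons (P.lf 771138 0 0) (P.lf 27540 0 0))))) (P.cons (P.cons (P.lf 0 80437830 0) (P.cons (P.lf 79315092 0 0) (P.cons (P.lf 2481843 0 0) (P.cons (P.lf 0 454785 0) (P.lf 0 16239 0))))) (P.cons (P.cons (P.lf 9171783 0 0) (P.cons (P.lf 0 9043764 0) (P.cons (P.lf 0 282987 0) (P.cons (P.lf 51855 0 0) P.nil)))) (P.cons (P.cons (P.lf 3261006 0 0) (P.cons (P.lf 0 3215490 0) (P.cons (P.lf 0 100614 0) P.nil))) (P.cons (P.cons (P.lf 0 860490 0) (P.cons (P.lf 848481 0 0) P.nil)) (P.cons (P.cons (P.lf 0 11148 0) P.nil) P.nil)))))) 240351)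
 EL.nil))))))
noncomputable def S314_372_734_808_2 : EL := (EL.cons 0 (TM.mk (P.cons (P.cons (P.lf 0 2034755759 0) (P.cons (P.lf 0 105161676 0) (P.cons (P.lf 48513961 0 0) (P.cons (P.lf 3429634 0 0) (P.cons (P.lf 0 200786 0) (P.cons (P.lf 0 23953 0) P.nil)))))) (P.cons (P.cons (P.lf 780869225 0 0) (P.cons (P.lf 14014131 0 0) (P.cons (P.lf 0 6313770 0) (P.cons (P.lf 0 599912 0) (P.cons (P.lf 53674 0 0) P.nil))))) (P.cons (P.cons (P.lf 2575161082 0 0) (P.cons (P.lf 81786912 0 0) (P.cons (P.lf 0 37922138 0) (P.cons (P.lf 0 2486420 0) P.nil)))) (P.cons (P.cons (P.lf 0 607830127 0) (P.cons (P.lf 0 34727185 0) (P.cons (P.lf 15951475 0 0) P.nil))) (P.cons (P.cons (P.lf 0 423568852 0) (P.cons (P.lf 0 6729276 0) P.nil)) (P.cons (P.cons (P.lf 133289949 0 0) P.nil) P.nil)))))) 113255806)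
 (EL.cons 1 (TM.mk (P.cons (P.cons (P.lf 327428332 0 0) (P.cons (P.lf 20816631 0 0) (P.cons (P.lf 0 9503044 0) (P.cons (P.lf 0 773526 0) (P.cons (P.lf 57572 0 0) (P.cons (P.lf 6870 0 0) P.nil)))))) (P.cons (P.cons (P.lf 0 1137803943 0) (P.cons (P.lf 0 61348173 0) (P.cons (P.lf 28177317 0 0) (P.cons (P.lf 2118077 0 0) (P.cons (P.lf 0 139242 0) P.nil))))) (P.cons (P.cons (P.lf 580799796 0 0) (P.cons (P.lf 26874607 0 0) (P.cons (P.lf 0 12269588 0) (P.cons (P.lf 0 997677 0) P.nil)))) (P.cons (P.cons (P.lf 541645440 0 0) (P.cons (P.lf 13189859 0 0) (P.cons (P.lf 0 6187943 0) P.nil))) (P.cons (P.cons (P.lf 0 196816527 0) (P.cons (P.lf 0 9295017 0) P.nil)) (P.cons (P.cons (P.lf 0 58893633 0) P.nil) P.nil)))))) 64481759)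
 (EL.cons 5 (TM.mk (P.cons (P.cons (P.lf 1331632048 0 0) (P.cons (P.lf 81753529 0 0) (P.cons (P.lf 0 37382307 0) (P.cons (P.lf 0 2980457 0) (P.cons (P.lf 215289 0 0) (P.cons (P.lf 25682 0 0) P.nil)))))) (P.cons (P.cons (P.lf 0 1634285044 0) (P.cons (P.lf 0 80626587 0) (P.cons (P.lf 36999136 0 0) (P.cons (P.lf 2814631 0 0) (P.cons (P.lf 0 188823 0) P.nil))))) (P.cons (P.cons (P.lf 0 292614332 0) (P.cons (P.lf 0 1786767 0) (P.cons (P.lf 989642 0 0) (P.cons (P.lf 0 97862 0) P.nil)))) (P.cons (P.cons (P.lf 451556718 0 0) (P.cons (P.lf 16107217 0 0) (P.cons (P.lf 0 7471962 0) P.nil))) (P.cons (P.cons (P.lf 59654626 0 0) (P.cons (P.lf 0 1325168 0) P.nil)) (P.cons (P.cons (P.lf 0 57650657 0) P.nil) P.nil)))))) 47759360)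
 (EL.cons 9 (TM.mk (P.cons (P.cons (P.lf 536614704 0 0) (P.cons (P.lf 39143563 0 0) (P.cons (P.lf 0 17764321 0) (P.cons (P.lf 0 1553857 0) (P.cons (P.lf 126979 0 0) (P.cons (P.lf 15148 0 0) P.nil)))))) (P.cons (P.cons (P.lf 0 1197037632 0) (P.cons (P.lf 0 66744511 0) (P.cons (P.lf 30665508 0 0) (P.cons (P.lf 2295289 0 0) (P.cons (P.lf 0 149775 0) P.nil))))) (P.cons (P.cons (P.lf 549704544 0 0) (P.cons (P.lf 24082065 0 0) (P.cons (P.lf 0 11023915 0) (P.cons (P.lf 0 866394 0) P.nil)))) (P.cons (P.cons (P.lf 207740590 0 0) (P.cons (P.lf 3317455 0 0) (P.cons (P.lf 0 1588528 0) P.nil))) (P.cons (P.cons (P.lf 0 80247900 0) (P.cons (P.lf 0 3280396 0) P.nil)) (P.cons (P.cons (P.lf 0 9051769 0) P.nil) P.nil)))))) 11469146)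
 (EL.cons 2 (TM.mk (P.cons (P.cons (P.lf 117258260 0 0) (P.cons (P.lf 0 111344866 0) (P.cons (P.lf 0 9853813 0) (P.cons (P.lf 2425567 0 0) (P.cons (P.lf 204941 0 0) (P.cons (P.lf 0 7582 0) P.nil)))))) (P.cons (P.cons (P.lf 0 147663787 0) (P.cons (P.lf 142464875 0 0) (P.cons (P.lf 9131355 0 0) (P.cons (P.lf 0 2128106 0) (P.cons (P.lf 0 162810 0) P.nil))))) (P.cons (P.cons (P.lf 0 8917880 0) (P.cons (P.lf 8901838 0 0) (P.cons (P.lf 117045 0 0) (P.cons (P.lf 0 5731 0) P.nil)))) (P.cons (P.cons (P.lf 30213045 0 0) (P.cons (P.lf 0 29285116 0) (P.cons (P.lf 0 1670321 0) P.nil))) (P.cons (P.cons (P.lf 0 3282873 0) (P.cons (P.lf 3095887 0 0) P.nil)) (P.cons (P.cons (P.lf 0 2177853 0) P.nil) P.nil)))))) 5895224)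
 (EL.cons 6 (TM.mk (P.cons (P.cons (P.lf 0 78726384 0) (P.cons (P.lf 74756172 0 0) (P.cons (P.lf 6615780 0 0) (P.cons (P.lf 0 1628508 0) (P.cons (P.lf 0 137592 0) (P.cons (P.lf 5088 0 0) P.nil)))))) (P.cons (P.cons (P.lf 134238018 0 0) (P.cons (P.lf 0 128977512 0) (P.cons (P.lf 0 9080154 0) (P.cons (P.lf 2154810 0 0) (P.cons (P.lf 170652 0 0) P.nil))))) (P.cons (P.cons (P.lf 0 48434382 0) (P.cons (P.lf 46373454 0 0) (P.cons (P.lf 3513708 0 0) (P.cons (P.lf 0 844608 0) P.nil)))) (P.cons (P.cons (P.lf 0 6672132 0) (P.cons (P.lf 6669456 0 0) (P.cons (P.lf 73980 0 0) P.nil))) (P.cons (P.cons (P.lf 6597612 0 0) (P.cons (P.lf 0 6401298 0) P.nil)) (P.cons (P.cons (P.lf 0 604644 0) P.nil) P.nil)))))) 3704946)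
 EL.nil))))))
noncomputable def S314_372_734_808_3 : EL := (EL.cons 0 (TM.mk (P.cons (P.lf 2663300420 0 0) (P.cons (P.lf 1327550055 0 0) (P.cons (P.lf 0 20882153 0) (P.cons (P.lf 0 49374168 0) (P.cons (P.lf 5384801 0 0) (P.cons (P.lf 616050 0 0) P.nil)))))) 235193)
 (EL.cons 1 (TM.mk (P.cons (P.lf 0 1788121471 0) (P.cons (P.lf 0 94132764 0) (P.cons (P.lf 179177853 0 0) (P.cons (P.lf 0 11443897 0) (P.cons (P.lf 0 3792305 0) (P.cons (P.lf 635690 0 0) P.nil)))))) 110845)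
 (EL.cons 5 (TM.mk (P.cons (P.lf 1200532382 0 0) (P.cons (P.lf 0 472017796 0) (P.cons (P.lf 7424770 0 0) (P.cons (P.lf 17555260 0 0) (P.cons (P.lf 0 1914598 0) (P.cons (P.lf 0 219040 0) P.nil)))))) 72450)
 EL.nil)))
noncomputable def S314_372_734_808_4 : EL := (EL.cons 0 (TM.mk (P.cons (P.cons (P.lf 0 768645133 0) (P.cons (P.lf 0 28034555 0) (P.cons (P.lf 13234025 0 0) (P.lf 630189 0 0)))) (P.cons (P.cons (P.lf 474177142 0 0) (P.cons (P.lf 2559554 0 0) (P.cons (P.lf 0 1208264 0) (P.lf 0 57536 0)))) (P.cons (P.cons (P.lf 517775971 0 0) (P.cons (P.lf 6575971 0 0) (P.cons (P.lf 0 3104259 0) (P.lf 0 147821 0)))) (P.cons (P.cons (P.lf 0 5031659 0) (P.cons (P.lf 0 1219904 0) (P.cons (P.lf 575869 0 0) P.nil))) (P.cons (P.cons (P.lf 0 44172075 0) (P.cons (P.lf 0 505654 0) P.nil)) (P.cons (P.cons (P.lf 2791406 0 0) P.nil) P.nil)))))) 4251863)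
 (EL.cons 1 (TM.mk (P.cons (P.cons (P.lf 516063022 0 0) (P.cons (P.lf 18822206 0 0) (P.cons (P.lf 0 8885233 0) (P.lf 0 423105 0)))) (P.cons (P.cons (P.lf 0 548428980 0) (P.cons (P.lf 0 10109728 0) (P.cons (P.lf 4772409 0 0) (P.lf 227255 0 0)))) (P.cons (P.cons (P.lf 0 138686077 0) (P.cons (P.lf 0 1204717 0) (P.cons (P.lf 568700 0 0) (P.lf 27080 0 0)))) (P.cons (P.cons (P.lf 94678162 0 0) (P.cons (P.lf 1749446 0 0) (P.cons (P.lf 0 825845 0) P.nil))) (P.cons (P.cons (P.lf 4234590 0 0) (P.cons (P.lf 0 253012 0) P.nil)) (P.cons (P.cons (P.lf 0 6684905 0) P.nil) P.nil)))))) 2782232)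
 (EL.cons 5 (TM.mk (P.cons (P.cons (P.lf 0 346481142 0) (P.cons (P.lf 0 12637098 0) (P.cons (P.lf 5965484 0 0) (P.lf 284070 0 0)))) (P.cons (P.cons (P.lf 522678646 0 0) (P.cons (P.lf 12421436 0 0) (P.cons (P.lf 0 5863678 0) (P.lf 0 279222 0)))) (P.cons (P.cons (P.lf 0 116035568 0) (P.cons (P.lf 0 3858222 0) (P.cons (P.lf 1821316 0 0) (P.lf 86728 0 0)))) (P.cons (P.cons (P.lf 0 42264396 0) (P.cons (P.lf 0 106722 0) (P.cons (P.lf 50380 0 0) P.nil))) (P.cons (P.cons (P.lf 16649614 0 0) (P.cons (P.lf 322402 0 0) P.nil)) (P.cons (P.cons (P.lf 449824 0 0) P.nil) P.nil)))))) 1676124)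
 EL.nil)))
noncomputable def S314_372_734_808_5 : EL := (EL.cons 0 (TM.mk (P.cons (P.cons (P.lf 221835784 0 0) (P.cons (P.lf 16181894 0 0) (P.cons (P.lf 0 7343745 0) (P.cons (P.lf 0 642360 0) (P.cons (P.lf 52491 0 0) (P.cons (P.lf 6261 0 0) P.nil)))))) (P.cons (P.cons (P.lf 0 384277345 0) (P.cons (P.lf 0 19526053 0) (P.cons (P.lf 9016511 0 0) (P.cons (P.lf 628676 0 0) (P.cons (P.lf 0 35750 0) P.nil))))) (P.cons (P.cons (P.lf 0 21157273 0) (P.cons (P.lf 0 3924950 0) (P.cons (P.lf 1819330 0 0) (P.cons (P.lf 119844 0 0) P.nil)))) (P.cons (P.cons (P.lf 198920833 0 0) (P.cons (P.lf 6250201 0 0) (P.cons (P.lf 0 2891568 0) P.nil))) (P.cons (P.cons (P.lf 17473946 0 0) (P.cons (P.lf 0 206325 0) P.nil)) (P.cons (P.cons (P.lf 0 26113536 0) P.nil) P.nil)))))) 14727321)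
 (EL.cons 1 (TM.mk (P.cons (P.cons (P.lf 0 148939010 0) (P.cons (P.lf 0 10864411 0) (P.cons (P.lf 4930539 0 0) (P.cons (P.lf 431276 0 0) (P.cons (P.lf 0 35242 0) (P.cons (P.lf 0 4203 0) P.nil)))))) (P.cons (P.cons (P.lf 324400710 0 0) (P.cons (P.lf 17953198 0 0) (P.cons (P.lf 0 8251741 0) (P.cons (P.lf 0 614358 0) (P.cons (P.lf 39714 0 0) P.nil))))) (P.cons (P.cons (P.lf 0 120157462 0) (P.cons (P.lf 0 4620159 0) (P.cons (P.lf 2117593 0 0) (P.cons (P.lf 163715 0 0) P.nil)))) (P.cons (P.cons (P.lf 0 99936223 0) (P.cons (P.lf 0 3198474 0) (P.cons (P.lf 1486400 0 0) P.nil))) (P.cons (P.cons (P.lf 36336549 0 0) (P.cons (P.lf 1627301 0 0) P.nil)) (P.cons (P.cons (P.lf 9243690 0 0) P.nil) P.nil)))))) 11537122)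
 (EL.cons 5 (TM.mk (P.cons (P.cons (P.lf 99996620 0 0) (P.cons (P.lf 7294290 0 0) (P.cons (P.lf 0 3310330 0) (P.cons (P.lf 0 289556 0) (P.cons (P.lf 23662 0 0) (P.cons (P.lf 2822 0 0) P.nil)))))) (P.cons (P.cons (P.lf 0 262380596 0) (P.cons (P.lf 0 15305572 0) (P.cons (P.lf 7015964 0 0) (P.cons (P.lf 541566 0 0) (P.cons (P.lf 0 37212 0) P.nil))))) (P.cons (P.cons (P.lf 190757432 0 0) (P.cons (P.lf 9422892 0 0) (P.cons (P.lf 0 4321510 0) (P.cons (P.lf 0 331408 0) P.nil)))) (P.cons (P.cons (P.lf 0 1480544 0) (P.cons (P.lf 0 1116474 0) (P.cons (P.lf 498602 0 0) P.nil))) (P.cons (P.cons (P.lf 0 32962258 0) (P.cons (P.lf 0 1020104 0) P.nil)) (P.cons (P.cons (P.lf 6267556 0 0) P.nil) P.nil)))))) 5920254)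
 EL.nil)))
noncomputable def S314_372_734_808_6 : EL := (EL.cons 12 (TM.mk (P.lf 8589934592 0 0) 0)
 (EL.cons 3 (TM.mk (P.cons (P.lf 2391525476 0 0) (P.cons (P.lf 596040491 0 0) (P.cons (P.lf 0 83651283 0) (P.cons (P.lf 0 1319475 0) (P.cons (P.lf 1283523 0 0) (P.cons (P.lf 0 89452 0) P.nil)))))) 26268)
 (EL.cons 7 (TM.mk (P.cons (P.lf 0 1605653656 0) (P.cons (P.lf 315650420 0 0) (P.cons (P.lf 26061229 0 0) (P.cons (P.lf 0 6616358 0) (P.cons (P.lf 191151 0 0) (P.cons (P.lf 76666 0 0) P.nil)))))) 11720)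
 EL.nil)))
noncomputable def S314_372_734_808_7 : EL := (EL.cons 12 (TM.mk (P.cons (P.cons (P.lf 0 2479108768 0) (P.cons (P.lf 0 90419768 0) (P.cons (P.lf 42683664 0 0) (P.lf 2032552 0 0)))) (P.cons (P.cons (P.lf 2765099864 0 0) (P.cons (P.lf 53326008 0 0) (P.cons (P.lf 0 25173136 0) (P.lf 0 1198720 0)))) (P.cons (P.cons (P.lf 272250218 0 0) (P.cons (P.lf 0 6080400 0) (P.cons (P.lf 2870320 0 0) (P.lf 136680 0 0)))) (P.cons (P.cons (P.lf 0 176213736 0) (P.cons (P.lf 0 2161872 0) (P.cons (P.lf 1020536 0 0) P.nil))) (P.cons (P.cons (P.lf 3775950 0 0) (P.cons (P.lf 570456 0 0) P.nil)) (P.cons (P.cons (P.lf 5769302 0 0) P.nil) P.nil)))))) 2033436)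
 (EL.cons 3 (TM.mk (P.cons (P.cons (P.lf 3225779949 0 0) (P.cons (P.lf 50347570 0 0) (P.cons (P.lf 0 23767134 0) (P.lf 0 1131764 0)))) (P.cons (P.cons (P.lf 928458045 0 0) (P.cons (P.lf 0 17144870 0) (P.cons (P.lf 8093426 0 0) (P.lf 385400 0 0)))) (P.cons (P.cons (P.lf 0 617021350 0) (P.cons (P.lf 0 5775772 0) (P.cons (P.lf 2726518 0 0) (P.lf 129834 0 0)))) (P.cons (P.cons (P.lf 34431882 0 0) (P.cons (P.lf 3058418 0 0) (P.cons (P.lf 0 1443760 0) P.nil))) (P.cons (P.cons (P.lf 37860329 0 0) (P.cons (P.lf 0 92644 0) P.nil)) (P.cons (P.cons (P.lf 0 6977164 0) P.nil) P.nil)))))) 6748731)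
 (EL.cons 7 (TM.mk (P.cons (P.cons (P.lf 2537226588 0 0) (P.cons (P.lf 56896021 0 0) (P.cons (P.lf 0 26858403 0) (P.lf 0 1278973 0)))) (P.cons (P.cons (P.lf 491691706 0 0) (P.cons (P.lf 0 9079567 0) (P.cons (P.lf 4286113 0 0) (P.lf 204101 0 0)))) (P.cons (P.cons (P.lf 0 217159152 0) (P.cons (P.lf 0 5082634 0) (P.cons (P.lf 2399313 0 0) (P.lf 114251 0 0)))) (P.cons (P.cons (P.lf 0 67591209 0) (P.cons (P.lf 502080 0 0) (P.cons (P.lf 0 237011 0) P.nil))) (P.cons (P.cons (P.lf 16870870 0 0) (P.cons (P.lf 350567 0 0) P.nil)) (P.cons (P.cons (P.lf 2409572 0 0) P.nil) P.nil)))))) 4418656)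
 (EL.cons 10 (TM.mk (P.cons (P.cons (P.lf 0 364831719 0) (P.cons (P.lf 359739462 0 0) (P.cons (P.lf 11256594 0 0) (P.cons (P.lf 0 2062725 0) (P.lf 0 73668 0))))) (P.cons (P.cons (P.lf 143442249 0 0) (P.cons (P.lf 0 141440106 0) (P.cons (P.lf 0 4425795 0) (P.cons (P.lf 811008 0 0) (P.lf 28962 0 0))))) (P.cons (P.cons (P.lf 0 2256324 0) (P.cons (P.lf 2224830 0 0) (P.cons (P.lf 69615 0 0) (P.cons (P.lf 0 12756 0) P.nil)))) (P.cons (P.cons (P.lf 0 5334894 0) (P.cons (P.lf 5260431 0 0) (P.cons (P.lf 164604 0 0) P.nil))) (P.cons (P.cons (P.lf 581829 0 0) (P.cons (P.lf 0 573708 0) P.nil)) (P.cons (P.cons (P.lf 66564 0 0) P.nil) P.nil)))))) 165774)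
 EL.nil))))
noncomputable def S314_372_734_808_8 : EL := (EL.cons 12 (TM.mk (P.cons (P.cons (P.lf 715486272 0 0) (P.cons (P.lf 52191418 0 0) (P.cons (P.lf 0 23685762 0) (P.cons (P.lf 0 2071810 0) (P.cons (P.lf 169306 0 0) (P.cons (P.lf 20198 0 0) P.nil)))))) (P.cons (P.cons (P.lf 0 1596050176 0) (P.cons (P.lf 0 88992682 0) (P.cons (P.lf 40887344 0 0) (P.cons (P.lf 3060386 0 0) (P.cons (P.lf 0 199700 0) P.nil))))) (P.cons (P.cons (P.lf 732939392 0 0) (P.cons (P.lf 32109420 0 0) (P.cons (P.lf 0 14698554 0) (P.cons (P.lf 0 1155192 0) P.nil)))) (P.cons (P.cons (P.lf 276987454 0 0) (P.cons (P.lf 4423274 0 0) (P.cons (P.lf 0 2118038 0) P.nil))) (P.cons (P.cons (P.lf 0 106997200 0) (P.cons (P.lf 0 4373862 0) P.nil)) (P.cons (P.cons (P.lf 0 12069026 0) P.nil) P.nil)))))) 15292166)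
 (EL.cons 3 (TM.mk (P.cons (P.cons (P.lf 0 2061159156 0) (P.cons (P.lf 0 111502576 0) (P.cons (P.lf 51311109 0 0) (P.cons (P.lf 3757366 0 0) (P.cons (P.lf 0 235681 0) (P.cons (P.lf 0 28115 0) P.nil)))))) (P.cons (P.cons (P.lf 1935549811 0 0) (P.cons (P.lf 83969693 0 0) (P.cons (P.lf 0 38406263 0) (P.cons (P.lf 0 3051251 0) (P.cons (P.lf 219250 0 0) P.nil))))) (P.cons (P.cons (P.lf 1072026985 0 0) (P.cons (P.lf 13181886 0 0) (P.cons (P.lf 0 6425847 0) (P.cons (P.lf 0 104475 0) P.nil)))) (P.cons (P.cons (P.lf 0 634013140 0) (P.cons (P.lf 0 24278246 0) (P.cons (P.lf 11289356 0 0) P.nil))) (P.cons (P.cons (P.lf 0 56699899 0) (P.cons (P.lf 4071152 0 0) P.nil)) (P.cons (P.cons (P.lf 74889228 0 0) P.nil) P.nil)))))) 48380802)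
 (EL.cons 7 (TM.mk (P.cons (P.cons (P.lf 0 1330778254 0) (P.cons (P.lf 0 76500276 0) (P.cons (P.lf 35092914 0 0) (P.cons (P.lf 2682556 0 0) (P.cons (P.lf 0 181419 0) (P.cons (P.lf 0 21643 0) P.nil)))))) (P.cons (P.cons (P.lf 1025026196 0 0) (P.cons (P.lf 44468579 0 0) (P.cons (P.lf 0 20339142 0) (P.cons (P.lf 0 1615879 0) (P.cons (P.lf 116107 0 0) P.nil))))) (P.cons (P.cons (P.lf 796209895 0 0) (P.cons (P.lf 16893265 0 0) (P.cons (P.lf 0 7936758 0) (P.cons (P.lf 0 415518 0) P.nil)))) (P.cons (P.cons (P.lf 0 143486691 0) (P.cons (P.lf 0 9761242 0) (P.cons (P.lf 4500104 0 0) P.nil))) (P.cons (P.cons (P.lf 0 118608598 0) (P.cons (P.lf 0 1723437 0) P.nil)) (P.cons (P.cons (P.lf 19365311 0 0) P.nil) P.nil)))))) 29623767)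
 (EL.cons 10 (TM.mk (P.cons (P.cons (P.lf 210585420 0 0) (P.cons (P.lf 0 199965492 0) (P.cons (P.lf 0 17696580 0) (P.cons (P.lf 4356108 0 0) (P.cons (P.lf 368058 0 0) (P.cons (P.lf 0 13620 0) P.nil)))))) (P.cons (P.cons (P.lf 0 317675310 0) (P.cons (P.lf 305691708 0 0) (P.cons (P.lf 20809626 0 0) (P.cons (P.lf 0 4907562 0) (P.cons (P.lf 0 384126 0) P.nil))))) (P.cons (P.cons (P.lf 70524468 0 0) (P.cons (P.lf 0 67195134 0) (P.cons (P.lf 0 5595168 0) (P.cons (P.lf 1365186 0 0) P.nil)))) (P.cons (P.cons (P.lf 25687590 0 0) (P.cons (P.lf 0 25264182 0) (P.cons (P.lf 0 887148 0) P.nil))) (P.cons (P.cons (P.lf 0 10119354 0) (P.cons (P.lf 9782160 0 0) P.nil)) (P.cons (P.cons (P.lf 0 273396 0) P.nil) P.nil)))))) 4598154)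
 EL.nil))))
noncomputable def S314_372_734_808_9 : EL := (EL.cons 3 (TM.mk (P.cons (P.lf 2391525476 0 0) (P.cons (P.lf 596040491 0 0) (P.cons (P.lf 0 83651283 0) (P.cons (P.lf 0 1319475 0) (P.cons (P.lf 1283523 0 0) (P.cons (P.lf 0 89452 0) P.nil)))))) 26268)
 (EL.cons 7 (TM.mk (P.cons (P.lf 0 1605653656 0) (P.cons (P.lf 315650420 0 0) (P.cons (P.lf 26061229 0 0) (P.cons (P.lf 0 6616358 0) (P.cons (P.lf 191151 0 0) (P.cons (P.lf 76666 0 0) P.nil)))))) 11720)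
 EL.nil))
noncomputable def S314_372_734_808_10 : EL := (EL.cons 3 (TM.mk (P.cons (P.cons (P.lf 0 690209187 0) (P.cons (P.lf 0 25173785 0) (P.cons (P.lf 11883567 0 0) (P.lf 565882 0 0)))) (P.cons (P.cons (P.lf 597811020 0 0) (P.cons (P.lf 8572435 0 0) (P.cons (P.lf 0 4046713 0) (P.lf 0 192700 0)))) (P.cons (P.cons (P.lf 291804950 0 0) (P.cons (P.lf 2887886 0 0) (P.cons (P.lf 0 1363259 0) (P.lf 0 64917 0)))) (P.cons (P.cons (P.lf 0 56715276 0) (P.cons (P.lf 0 1529209 0) (P.cons (P.lf 721880 0 0) P.nil))) (P.cons (P.cons (P.lf 0 14622322 0) (P.cons (P.lf 46322 0 0) P.nil)) (P.cons (P.cons (P.lf 3981422 0 0) P.nil) P.nil)))))) 1596245)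
 (EL.cons 7 (TM.mk (P.cons (P.cons (P.lf 463401672 0 0) (P.cons (P.lf 16901506 0 0) (P.cons (P.lf 0 7978545 0) (P.lf 0 379930 0)))) (P.cons (P.cons (P.lf 0 607958579 0) (P.cons (P.lf 0 13290454 0) (P.cons (P.lf 6273907 0 0) (P.lf 298757 0 0)))) (P.cons (P.cons (P.lf 43196691 0 0) (P.cons (P.lf 2821784 0 0) (P.cons (P.lf 0 1332054 0) (P.lf 0 63430 0)))) (P.cons (P.cons (P.lf 53241231 0 0) (P.cons (P.lf 412101 0 0) (P.cons (P.lf 0 194537 0) P.nil))) (P.cons (P.cons (P.lf 0 8540042 0) (P.cons (P.lf 0 247606 0) P.nil)) (P.cons (P.cons (P.lf 0 1644574 0) P.nil) P.nil)))))) 1018215)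
 EL.nil))
noncomputable def S314_372_734_808_11 : EL := (EL.cons 3 (TM.mk (P.cons (P.cons (P.lf 199198680 0 0) (P.cons (P.lf 14530622 0 0) (P.cons (P.lf 0 6594357 0) (P.cons (P.lf 0 576812 0) (P.cons (P.lf 47135 0 0) (P.cons (P.lf 5623 0 0) P.nil)))))) (P.cons (P.cons (P.lf 0 394710323 0) (P.cons (P.lf 0 21154999 0) (P.cons (P.lf 9739939 0 0) (P.cons (P.lf 708283 0 0) (P.cons (P.lf 0 43850 0) P.nil))))) (P.cons (P.cons (P.lf 86343073 0 0) (P.cons (P.lf 2256288 0 0) (P.cons (P.lf 0 1024467 0) (P.cons (P.lf 0 89085 0) P.nil)))) (P.cons (P.cons (P.lf 143406410 0 0) (P.cons (P.lf 4318120 0 0) (P.cons (P.lf 0 2004124 0) P.nil))) (P.cons (P.cons (P.lf 0 17354941 0) (P.cons (P.lf 0 1202026 0) P.nil)) (P.cons (P.cons (P.lf 0 13840392 0) P.nil) P.nil)))))) 8630306)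
 (EL.cons 7 (TM.mk (P.cons (P.cons (P.lf 0 133740616 0) (P.cons (P.lf 0 9755760 0) (P.cons (P.lf 4427406 0 0) (P.cons (P.lf 387268 0 0) (P.cons (P.lf 0 31647 0) (P.cons (P.lf 0 3775 0) P.nil)))))) (P.cons (P.cons (P.lf 324629636 0 0) (P.cons (P.lf 18552605 0 0) (P.cons (P.lf 0 8513142 0) (P.cons (P.lf 0 648187 0) (P.cons (P.lf 43549 0 0) P.nil))))) (P.cons (P.cons (P.lf 0 193481597 0) (P.cons (P.lf 0 9113807 0) (P.cons (P.lf 4178100 0 0) (P.cons (P.lf 322104 0 0) P.nil)))) (P.cons (P.cons (P.lf 0 30235647 0) (P.cons (P.lf 42902 0 0) (P.cons (P.lf 0 1918 0) P.nil))) (P.cons (P.cons (P.lf 33647492 0 0) (P.cons (P.lf 1147239 0 0) P.nil)) (P.cons (P.cons (P.lf 0 1429117 0) P.nil) P.nil)))))) 5112503)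
 EL.nil))
noncomputable def S314_372_734_808_12 : EL := (EL.cons 4 (TM.mk (P.cons (P.lf 0 2391525476 0) (P.cons (P.lf 0 596040491 0) (P.cons (P.lf 83651283 0 0) (P.cons (P.lf 1319475 0 0) (P.cons (P.lf 0 1283523 0) (P.cons (P.lf 89452 0 0) P.nil)))))) 26268)
 (EL.cons 8 (TM.mk (P.cons (P.lf 1605653656 0 0) (P.cons (P.lf 0 315650420 0) (P.cons (P.lf 0 26061229 0) (P.cons (P.lf 6616358 0 0) (P.cons (P.lf 0 191151 0) (P.cons (P.lf 0 76666 0) P.nil)))))) 11720)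
 EL.nil))
noncomputable def S314_372_734_808_13 : EL := (EL.cons 4 (TM.mk (P.cons (P.cons (P.lf 690209187 0 0) (P.cons (P.lf 25173785 0 0) (P.cons (P.lf 0 11883567 0) (P.lf 0 565882 0)))) (P.cons (P.cons (P.lf 0 597811020 0) (P.cons (P.lf 0 8572435 0) (P.cons (P.lf 4046713 0 0) (P.lf 192700 0 0)))) (P.cons (P.cons (P.lf 0 291804950 0) (P.cons (P.lf 0 2887886 0) (P.cons (P.lf 1363259 0 0) (P.lf 64917 0 0)))) (P.cons (P.cons (P.lf 56715276 0 0) (P.cons (P.lf 1529209 0 0) (P.cons (P.lf 0 721880 0) P.nil))) (P.cons (P.cons (P.lf 14622322 0 0) (P.cons (P.lf 0 46322 0) P.nil)) (P.cons (P.cons (P.lf 0 3981422 0) P.nil) P.nil)))))) 1596245)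
 (EL.cons 8 (TM.mk (P.cons (P.cons (P.lf 0 463401672 0) (P.cons (P.lf 0 16901506 0) (P.cons (P.lf 7978545 0 0) (P.lf 379930 0 0)))) (P.cons (P.cons (P.lf 607958579 0 0) (P.cons (P.lf 13290454 0 0) (P.cons (P.lf 0 6273907 0) (P.lf 0 298757 0)))) (P.cons (P.cons (P.lf 0 43196691 0) (P.cons (P.lf 0 2821784 0) (P.cons (P.lf 1332054 0 0) (P.lf 63430 0 0)))) (P.cons (P.cons (P.lf 0 53241231 0) (P.cons (P.lf 0 412101 0) (P.cons (P.lf 194537 0 0) P.nil))) (P.cons (P.cons (P.lf 8540042 0 0) (P.cons (P.lf 247606 0 0) P.nil)) (P.cons (P.cons (P.lf 1644574 0 0) P.nil) P.nil)))))) 1018215)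
 EL.nil))
noncomputable def S314_372_734_808_14 : EL := (EL.cons 4 (TM.mk (P.cons (P.cons (P.lf 0 199198680 0) (P.cons (P.lf 0 14530622 0) (P.cons (P.lf 6594357 0 0) (P.cons (P.lf 576812 0 0) (P.cons (P.lf 0 47135 0) (P.cons (P.lf 0 5623 0) P.nil)))))) (P.cons (P.cons (P.lf 394710323 0 0) (P.cons (P.lf 21154999 0 0) (P.cons (P.lf 0 9739939 0) (P.cons (P.lf 0 708283 0) (P.cons (P.lf 43850 0 0) P.nil))))) (P.cons (P.cons (P.lf 0 86343073 0) (P.cons (P.lf 0 2256288 0) (P.cons (P.lf 1024467 0 0) (P.cons (P.lf 89085 0 0) P.nil)))) (P.cons (P.cons (P.lf 0 143406410 0) (P.cons (P.lf 0 4318120 0) (P.cons (P.lf 2004124 0 0) P.nil))) (P.cons (P.cons (P.lf 17354941 0 0) (P.cons (P.lf 1202026 0 0) P.nil)) (P.cons (P.cons (P.lf 13840392 0 0) P.nil) P.nil)))))) 8630306)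
 (EL.cons 8 (TM.mk (P.cons (P.cons (P.lf 133740616 0 0) (P.cons (P.lf 9755760 0 0) (P.cons (P.lf 0 4427406 0) (P.cons (P.lf 0 387268 0) (P.cons (P.lf 31647 0 0) (P.cons (P.lf 3775 0 0) P.nil)))))) (P.cons (P.cons (P.lf 0 324629636 0) (P.cons (P.lf 0 18552605 0) (P.cons (P.lf 8513142 0 0) (P.cons (P.lf 648187 0 0) (P.cons (P.lf 0 43549 0) P.nil))))) (P.cons (P.cons (P.lf 193481597 0 0) (P.cons (P.lf 9113807 0 0) (P.cons (P.lf 0 4178100 0) (P.cons (P.lf 0 322104 0) P.nil)))) (P.cons (P.cons (P.lf 30235647 0 0) (P.cons (P.lf 0 42902 0) (P.cons (P.lf 1918 0 0) P.nil))) (P.cons (P.cons (P.lf 0 33647492 0) (P.cons (P.lf 0 1147239 0) P.nil)) (P.cons (P.cons (P.lf 1429117 0 0) P.nil) P.nil)))))) 5112503)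
 EL.nil))
noncomputable def S314_372_734_808_15 : EL := (EL.cons 4 (TM.mk (P.cons (P.lf 0 1420426890 0) (P.cons (P.lf 0 708026696 0) (P.cons (P.lf 11137148 0 0) (P.cons (P.lf 26332890 0 0) (P.cons (P.lf 0 2871894 0) (P.cons (P.lf 0 328560 0) P.nil)))))) 125439)
 (EL.cons 8 (TM.mk (P.cons (P.lf 953664785 0 0) (P.cons (P.lf 50204141 0 0) (P.cons (P.lf 0 95561522 0) (P.cons (P.lf 6103412 0 0) (P.cons (P.lf 2022563 0 0) (P.cons (P.lf 0 339035 0) P.nil)))))) 59114)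
 EL.nil))
noncomputable def S314_372_734_808_16 : EL := (EL.cons 4 (TM.mk (P.cons (P.cons (P.lf 409944071 0 0) (P.cons (P.lf 14951762 0 0) (P.cons (P.lf 0 7058146 0) (P.lf 0 336101 0)))) (P.cons (P.cons (P.lf 0 252894476 0) (P.cons (P.lf 0 1365095 0) (P.cons (P.lf 644407 0 0) (P.lf 30686 0 0)))) (P.cons (P.cons (P.lf 0 276147184 0) (P.cons (P.lf 0 3507184 0) (P.cons (P.lf 1655605 0 0) (P.lf 78838 0 0)))) (P.cons (P.cons (P.lf 2683551 0 0) (P.cons (P.lf 650615 0 0) (P.cons (P.lf 0 307130 0) P.nil))) (P.cons (P.cons (P.lf 23558440 0 0) (P.cons (P.lf 269682 0 0) P.nil)) (P.cons (P.cons (P.lf 0 1488750 0) P.nil) P.nil)))))) 2267669)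
 (EL.cons 8 (TM.mk (P.cons (P.cons (P.lf 0 275233612 0) (P.cons (P.lf 0 10038510 0) (P.cons (P.lf 4738791 0 0) (P.lf 225656 0 0)))) (P.cons (P.cons (P.lf 292495456 0 0) (P.cons (P.lf 5391855 0 0) (P.cons (P.lf 0 2545285 0) (P.lf 0 121203 0)))) (P.cons (P.cons (P.lf 73965908 0 0) (P.cons (P.lf 642516 0 0) (P.cons (P.lf 0 303307 0) (P.lf 0 14443 0)))) (P.cons (P.cons (P.lf 0 50495020 0) (P.cons (P.lf 0 933038 0) (P.cons (P.lf 440451 0 0) P.nil))) (P.cons (P.cons (P.lf 0 2258448 0) (P.cons (P.lf 134940 0 0) P.nil)) (P.cons (P.cons (P.lf 3565283 0 0) P.nil) P.nil)))))) 1483847)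
 EL.nil))
noncomputable def S314_372_734_808_17 : EL := (EL.cons 4 (TM.mk (P.cons (P.cons (P.lf 0 118312418 0) (P.cons (P.lf 0 8630343 0) (P.cons (P.lf 3916664 0 0) (P.cons (P.lf 342592 0 0) (P.cons (P.lf 0 27995 0) (P.cons (P.lf 0 3339 0) P.nil)))))) (P.cons (P.cons (P.lf 204947917 0 0) (P.cons (P.lf 10413895 0 0) (P.cons (P.lf 0 4808805 0) (P.cons (P.lf 0 335294 0) (P.cons (P.lf 19066 0 0) P.nil))))) (P.cons (P.cons (P.lf 11283879 0 0) (P.cons (P.lf 2093307 0 0) (P.cons (P.lf 0 970309 0) (P.cons (P.lf 0 63916 0) P.nil)))) (P.cons (P.cons (P.lf 0 106091111 0) (P.cons (P.lf 0 3333440 0) (P.cons (P.lf 1542169 0 0) P.nil))) (P.cons (P.cons (P.lf 0 9319438 0) (P.cons (P.lf 110040 0 0) P.nil)) (P.cons (P.cons (P.lf 13927219 0 0) P.nil) P.nil)))))) 7854581)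
 (EL.cons 8 (TM.mk (P.cons (P.cons (P.lf 79434139 0 0) (P.cons (P.lf 5794353 0 0) (P.cons (P.lf 0 2629621 0) (P.cons (P.lf 0 230014 0) (P.cons (P.lf 18796 0 0) (P.cons (P.lf 2242 0 0) P.nil)))))) (P.cons (P.cons (P.lf 0 173013712 0) (P.cons (P.lf 0 9575039 0) (P.cons (P.lf 4400929 0 0) (P.cons (P.lf 327658 0 0) (P.cons (P.lf 0 21181 0) P.nil))))) (P.cons (P.cons (P.lf 64083980 0 0) (P.cons (P.lf 2464085 0 0) (P.cons (P.lf 0 1129383 0) (P.cons (P.lf 0 87315 0) P.nil)))) (P.cons (P.cons (P.lf 53299319 0 0) (P.cons (P.lf 1705853 0 0) (P.cons (P.lf 0 792747 0) P.nil))) (P.cons (P.cons (P.lf 0 19379493 0) (P.cons (P.lf 0 867894 0) P.nil)) (P.cons (P.cons (P.lf 0 4929968 0) P.nil) P.nil)))))) 6153120)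
 EL.nil))
noncomputable def S314_372_734_808_18 : EL := (EL.cons 4 (TM.mk (P.cons (P.lf 0 843650871 0) (P.cons (P.lf 0 630789950 0) (P.cons (P.lf 0 68683740 0) (P.cons (P.lf 32463552 0 0) (P.cons (P.lf 1740131 0 0) (P.cons (P.lf 0 1365121 0) P.nil)))))) 264319)
 (EL.cons 8 (TM.mk (P.cons (P.lf 566421357 0 0) (P.cons (P.lf 170987672 0 0) (P.cons (P.lf 0 69138754 0) (P.cons (P.lf 0 11876237 0) (P.cons (P.lf 4377599 0 0) (P.cons (P.lf 0 2637 0) P.nil)))))) 178385)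
 EL.nil))
noncomputable def S314_372_734_808_19 : EL := (EL.cons 4 (TM.mk (P.cons (P.cons (P.lf 243482910 0 0) (P.cons (P.lf 8880476 0 0) (P.cons (P.lf 0 4192127 0) (P.lf 0 199624 0)))) (P.cons (P.cons (P.lf 0 89521288 0) (P.cons (P.lf 1402495 0 0) (P.cons (P.lf 0 662063 0) (P.lf 0 31526 0)))) (P.cons (P.cons (P.lf 0 209967474 0) (P.cons (P.lf 0 2595759 0) (P.cons (P.lf 1225356 0 0) (P.lf 58350 0 0)))) (P.cons (P.cons (P.lf 0 34164160 0) (P.cons (P.lf 0 109273 0) (P.cons (P.lf 51583 0 0) P.nil))) (P.cons (P.cons (P.lf 20340095 0 0) (P.cons (P.lf 334560 0 0) P.nil)) (P.cons (P.cons (P.lf 2548103 0 0) P.nil) P.nil)))))) 2773656)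
 (EL.cons 8 (TM.mk (P.cons (P.cons (P.lf 0 163472741 0) (P.cons (P.lf 0 5962290 0) (P.cons (P.lf 2814565 0 0) (P.lf 134026 0 0)))) (P.cons (P.cons (P.lf 132982919 0 0) (P.cons (P.lf 1716465 0 0) (P.cons (P.lf 0 810276 0) (P.lf 0 38584 0)))) (P.cons (P.cons (P.lf 92947019 0 0) (P.cons (P.lf 1388314 0 0) (P.cons (P.lf 0 655369 0) (P.lf 0 31207 0)))) (P.cons (P.cons (P.lf 0 25028463 0) (P.cons (P.lf 0 567786 0) (P.cons (P.lf 268029 0 0) P.nil))) (P.cons (P.cons (P.lf 0 10536304 0) (P.cons (P.lf 0 76284 0) P.nil)) (P.cons (P.cons (P.lf 2907405 0 0) P.nil) P.nil)))))) 1537334)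
 EL.nil))
noncomputable def S314_372_734_808_20 : EL := (EL.cons 4 (TM.mk (P.cons (P.cons (P.lf 0 70270687 0) (P.cons (P.lf 0 5125921 0) (P.cons (P.lf 2326270 0 0) (P.cons (P.lf 203479 0 0) (P.cons (P.lf 0 16627 0) (P.cons (P.lf 0 1982 0) P.nil)))))) (P.cons (P.cons (P.lf 104213549 0 0) (P.cons (P.lf 4907712 0 0) (P.cons (P.lf 0 2276373 0) (P.cons (P.lf 0 148431 0) (P.cons (P.lf 7180 0 0) P.nil))))) (P.cons (P.cons (P.lf 39497993 0 0) (P.cons (P.lf 2964149 0 0) (P.cons (P.lf 0 1369515 0) (P.cons (P.lf 0 94712 0) P.nil)))) (P.cons (P.cons (P.lf 0 65560636 0) (P.cons (P.lf 0 1883520 0) (P.cons (P.lf 870945 0 0) P.nil))) (P.cons (P.cons (P.lf 0 21578983 0) (P.cons (P.lf 0 477737 0) P.nil)) (P.cons (P.cons (P.lf 9160724 0 0) P.nil) P.nil)))))) 8226337)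
 (EL.cons 8 (TM.mk (P.cons (P.cons (P.lf 47179253 0 0) (P.cons (P.lf 3441508 0 0) (P.cons (P.lf 0 1561841 0) (P.cons (P.lf 0 136615 0) (P.cons (P.lf 11163 0 0) (P.cons (P.lf 1331 0 0) P.nil)))))) (P.cons (P.cons (P.lf 0 91001574 0) (P.cons (P.lf 0 4829287 0) (P.cons (P.lf 2224637 0 0) (P.cons (P.lf 160561 0 0) (P.cons (P.lf 0 9797 0) P.nil))))) (P.cons (P.cons (P.lf 10800989 0 0) (P.cons (P.lf 0 74230 0) (P.cons (P.lf 35304 0 0) (P.cons (P.lf 1420 0 0) P.nil)))) (P.cons (P.cons (P.lf 44711265 0 0) (P.cons (P.lf 1574954 0 0) (P.cons (P.lf 0 728593 0) P.nil))) (P.cons (P.cons (P.lf 0 4869815 0) (P.cons (P.lf 0 309170 0) P.nil)) (P.cons (P.cons (P.lf 0 6982036 0) P.nil) P.nil)))))) 5483895)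
 EL.nil))
noncomputable def S314_372_734_808_21 : EL := (EL.cons 4 (TM.mk (P.cons (P.cons (P.lf 0 3915989136 0) (P.cons (P.lf 0 75521355 0) (P.cons (P.lf 35650701 0 0) (P.lf 1697646 0 0)))) (P.cons (P.cons (P.lf 0 330647025 0) (P.cons (P.lf 25717305 0 0) (P.cons (P.lf 0 12140139 0) (P.lf 0 578100 0)))) (P.cons (P.cons (P.lf 908826300 0 0) (P.cons (P.lf 8663658 0 0) (P.cons (P.lf 0 4089777 0) (P.lf 0 194751 0)))) (P.cons (P.cons (P.lf 0 91147158 0) (P.cons (P.lf 0 4587627 0) (P.cons (P.lf 2165640 0 0) P.nil))) (P.cons (P.cons (P.lf 0 52482651 0) (P.cons (P.lf 138966 0 0) P.nil)) (P.cons (P.cons (P.lf 10958586 0 0) P.nil) P.nil)))))) 5152467)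
 (EL.cons 8 (TM.mk (P.cons (P.cons (P.lf 0 2073824916 0) (P.cons (P.lf 0 39994515 0) (P.cons (P.lf 18879858 0 0) (P.lf 899043 0 0)))) (P.cons (P.cons (P.lf 0 1099650285 0) (P.cons (P.lf 0 4210887 0) (P.cons (P.lf 1987794 0 0) (P.lf 94656 0 0)))) (P.cons (P.cons (P.lf 260355843 0 0) (P.cons (P.lf 7904418 0 0) (P.cons (P.lf 0 3731367 0) (P.lf 0 177681 0)))) (P.cons (P.cons (P.lf 120832440 0 0) (P.cons (P.lf 0 89979 0) (P.cons (P.lf 42474 0 0) P.nil))) (P.cons (P.cons (P.lf 0 25410912 0) (P.cons (P.lf 0 598173 0) P.nil)) (P.cons (P.cons (P.lf 0 4054146 0) P.nil) P.nil)))))) 3400422)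
 (EL.cons 11 (TM.mk (P.cons (P.cons (P.lf 364831719 0 0) (P.cons (P.lf 0 359739462 0) (P.cons (P.lf 0 11256594 0) (P.cons (P.lf 2062725 0 0) (P.lf 73668 0 0))))) (P.cons (P.cons (P.lf 0 143442249 0) (P.cons (P.lf 141440106 0 0) (P.cons (P.lf 4425795 0 0) (P.cons (P.lf 0 811008 0) (P.lf 0 28962 0))))) (P.cons (P.cons (P.lf 2256324 0 0) (P.cons (P.lf 0 2224830 0) (P.cons (P.lf 0 69615 0) (P.cons (P.lf 12756 0 0) P.nil)))) (P.cons (P.cons (P.lf 5334894 0 0) (P.cons (P.lf 0 5260431 0) (P.cons (P.lf 0 164604 0) P.nil))) (P.cons (P.cons (P.lf 0 581829 0) (P.cons (P.lf 573708 0 0) P.nil)) (P.cons (P.cons (P.lf 0 66564 0) P.nil) P.nil)))))) 165774)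
 EL.nil)))
noncomputable def S314_372_734_808_22 : EL := (EL.cons 4 (TM.mk (P.cons (P.cons (P.lf 1130178918 0 0) (P.cons (P.lf 63016599 0 0) (P.cons (P.lf 0 28952733 0) (P.cons (P.lf 0 2167089 0) (P.cons (P.lf 141408 0 0) (P.cons (P.lf 16869 0 0) P.nil)))))) (P.cons (P.cons (P.lf 0 1165130067 0) (P.cons (P.lf 0 52562346 0) (P.cons (P.lf 24073101 0 0) (P.cons (P.lf 1879767 0 0) (P.cons (P.lf 0 131550 0) P.nil))))) (P.cons (P.cons (P.lf 0 492841956 0) (P.cons (P.lf 0 5462799 0) (P.cons (P.lf 2700690 0 0) (P.cons (P.lf 7695 0 0) P.nil)))) (P.cons (P.cons (P.lf 388709775 0 0) (P.cons (P.lf 14298183 0 0) (P.cons (P.lf 0 6646740 0) P.nil))) (P.cons (P.cons (P.lf 19672479 0 0) (P.cons (P.lf 0 2636589 0) P.nil)) (P.cons (P.cons (P.lf 0 44364810 0) P.nil) P.nil)))))) 19875237)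
 (EL.cons 8 (TM.mk (P.cons (P.cons (P.lf 598518819 0 0) (P.cons (P.lf 33372258 0 0) (P.cons (P.lf 0 15332754 0) (P.cons (P.lf 0 1147644 0) (P.cons (P.lf 74886 0 0) (P.cons (P.lf 8934 0 0) P.nil)))))) (P.cons (P.cons (P.lf 0 350198280 0) (P.cons (P.lf 0 12957987 0) (P.cons (P.lf 5913000 0 0) (P.cons (P.lf 483846 0 0) (P.cons (P.lf 0 36279 0) P.nil))))) (P.cons (P.cons (P.lf 0 494845746 0) (P.cons (P.lf 0 13003536 0) (P.cons (P.lf 6057429 0 0) (P.cons (P.lf 368811 0 0) P.nil)))) (P.cons (P.cons (P.lf 56625522 0 0) (P.cons (P.lf 4902072 0 0) (P.cons (P.lf 0 2251011 0) P.nil))) (P.cons (P.cons (P.lf 76128045 0 0) (P.cons (P.lf 1435338 0 0) P.nil)) (P.cons (P.cons (P.lf 0 10397214 0) P.nil) P.nil)))))) 12255621)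
 (EL.cons 11 (TM.mk (P.cons (P.cons (P.lf 0 105292710 0) (P.cons (P.lf 99982746 0 0) (P.cons (P.lf 8848290 0 0) (P.cons (P.lf 0 2178054 0) (P.cons (P.lf 0 184029 0) (P.cons (P.lf 6810 0 0) P.nil)))))) (P.cons (P.cons (P.lf 158837655 0 0) (P.cons (P.lf 0 152845854 0) (P.cons (P.lf 0 10404813 0) (P.cons (P.lf 2453781 0 0) (P.cons (P.lf 192063 0 0) P.nil))))) (P.cons (P.cons (P.lf 0 35262234 0) (P.cons (P.lf 33597567 0 0) (P.cons (P.lf 2797584 0 0) (P.cons (P.lf 0 682593 0) P.nil)))) (P.cons (P.cons (P.lf 0 12843795 0) (P.cons (P.lf 12632091 0 0) (P.cons (P.lf 443574 0 0) P.nil))) (P.cons (P.cons (P.lf 5059677 0 0) (P.cons (P.lf 0 4891080 0) P.nil)) (P.cons (P.cons (P.lf 136698 0 0) P.nil) P.nil)))))) 2299077)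
 EL.nil)))
noncomputable def S314_372_734_808_23 : EL := (EL.cons 4 (TM.mk (P.cons (P.cons (P.lf 0 2325869544 0) (P.cons (P.lf 0 44855286 0) (P.cons (P.lf 21174438 0 0) (P.lf 1008300 0 0)))) (P.cons (P.cons (P.lf 0 776062128 0) (P.cons (P.lf 4095285 0 0) (P.cons (P.lf 0 1933224 0) (P.lf 0 92058 0)))) (P.cons (P.cons (P.lf 572199561 0 0) (P.cons (P.lf 10521552 0 0) (P.cons (P.lf 0 4966815 0) (P.lf 0 236514 0)))) (P.cons (P.cons (P.lf 88548315 0 0) (P.cons (P.lf 0 1951845 0) (P.cons (P.lf 921390 0 0) P.nil))) (P.cons (P.cons (P.lf 0 64684812 0) (P.cons (P.lf 0 809049 0) P.nil)) (P.cons (P.cons (P.lf 317208 0 0) P.nil) P.nil)))))) 7989777)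
 (EL.cons 8 (TM.mk (P.cons (P.cons (P.lf 0 1231731255 0) (P.cons (P.lf 0 23754411 0) (P.cons (P.lf 11213535 0 0) (P.lf 533979 0 0)))) (P.cons (P.cons (P.lf 0 960112932 0) (P.cons (P.lf 0 8421339 0) (P.cons (P.lf 3975384 0 0) (P.lf 189303 0 0)))) (P.cons (P.cons (P.lf 34940652 0 0) (P.cons (P.lf 4902318 0 0) (P.cons (P.lf 0 2314194 0) (P.lf 0 110196 0)))) (P.cons (P.cons (P.lf 133832295 0 0) (P.cons (P.lf 1217220 0 0) (P.cons (P.lf 0 574602 0) P.nil))) (P.cons (P.cons (P.lf 0 2915598 0) (P.cons (P.lf 0 544182 0) P.nil)) (P.cons (P.cons (P.lf 0 9069531 0) P.nil) P.nil)))))) 4284501)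
 (EL.cons 11 (TM.mk (P.cons (P.cons (P.lf 216688797 0 0) (P.cons (P.lf 0 213664293 0) (P.cons (P.lf 0 6685761 0) (P.cons (P.lf 1225137 0 0) (P.lf 43752 0 0))))) (P.cons (P.cons (P.lf 0 31190940 0) (P.cons (P.lf 30755580 0 0) (P.cons (P.lf 962370 0 0) (P.cons (P.lf 0 176349 0) (P.lf 0 6294 0))))) (P.cons (P.cons (P.lf 0 27472767 0) (P.cons (P.lf 27089307 0 0) (P.cons (P.lf 847650 0 0) (P.cons (P.lf 0 155328 0) P.nil)))) (P.cons (P.cons (P.lf 6363078 0 0) (P.cons (P.lf 0 6274263 0) (P.cons (P.lf 0 196326 0) P.nil))) (P.cons (P.cons (P.lf 560568 0 0) (P.cons (P.lf 0 552744 0) P.nil)) (P.cons (P.cons (P.lf 0 291063 0) P.nil) P.nil)))))) 496056)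
 EL.nil)))
noncomputable def S314_372_734_808_24 : EL := (EL.cons 4 (TM.mk (P.cons (P.cons (P.lf 671260473 0 0) (P.cons (P.lf 37428189 0 0) (P.cons (P.lf 0 17196237 0) (P.cons (P.lf 0 1287123 0) (P.cons (P.lf 83988 0 0) (P.cons (P.lf 10020 0 0) P.nil)))))) (P.cons (P.cons (P.lf 0 524721006 0) (P.cons (P.lf 0 21890733 0) (P.cons (P.lf 10012197 0 0) (P.cons (P.lf 795681 0 0) (P.cons (P.lf 0 57201 0) P.nil))))) (P.cons (P.cons (P.lf 0 488671092 0) (P.cons (P.lf 0 12334467 0) (P.cons (P.lf 5769045 0 0) (P.cons (P.lf 327849 0 0) P.nil)))) (P.cons (P.cons (P.lf 181751685 0 0) (P.cons (P.lf 8754972 0 0) (P.cons (P.lf 0 4038627 0) P.nil))) (P.cons (P.cons (P.lf 80205210 0 0) (P.cons (P.lf 701355 0 0) P.nil)) (P.cons (P.cons (P.lf 0 31748496 0) P.nil) P.nil)))))) 22260069)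
 (EL.cons 8 (TM.mk (P.cons (P.cons (P.lf 355485330 0 0) (P.cons (P.lf 19821177 0 0) (P.cons (P.lf 0 9106764 0) (P.cons (P.lf 0 681633 0) (P.cons (P.lf 44478 0 0) (P.cons (P.lf 5304 0 0) P.nil)))))) (P.cons (P.cons (P.lf 0 119399691 0) (P.cons (P.lf 0 2756250 0) (P.cons (P.lf 1242297 0 0) (P.cons (P.lf 117492 0 0) (P.cons (P.lf 0 10461 0) P.nil))))) (P.cons (P.cons (P.lf 0 358183041 0) (P.cons (P.lf 0 10334799 0) (P.cons (P.lf 4791588 0 0) (P.cons (P.lf 314517 0 0) P.nil)))) (P.cons (P.cons (P.lf 0 32539641 0) (P.cons (P.lf 1244919 0 0) (P.cons (P.lf 0 558117 0) P.nil))) (P.cons (P.cons (P.lf 64183779 0 0) (P.cons (P.lf 1863186 0 0) P.nil)) (P.cons (P.cons (P.lf 3954594 0 0) P.nil) P.nil)))))) 12825636)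
 (EL.cons 11 (TM.mk (P.cons (P.cons (P.lf 0 62537739 0) (P.cons (P.lf 59383929 0 0) (P.cons (P.lf 5255367 0 0) (P.cons (P.lf 0 1293636 0) (P.cons (P.lf 0 109302 0) (P.cons (P.lf 4044 0 0) P.nil)))))) (P.cons (P.cons (P.lf 78754020 0 0) (P.cons (P.lf 0 75981267 0) (P.cons (P.lf 0 4870056 0) (P.cons (P.lf 1134990 0 0) (P.cons (P.lf 86832 0 0) P.nil))))) (P.cons (P.cons (P.lf 4756203 0 0) (P.cons (P.lf 0 4747647 0) (P.cons (P.lf 0 62424 0) (P.cons (P.lf 3057 0 0) P.nil)))) (P.cons (P.cons (P.lf 0 16113624 0) (P.cons (P.lf 15618729 0 0) (P.cons (P.lf 890838 0 0) P.nil))) (P.cons (P.cons (P.lf 1750866 0 0) (P.cons (P.lf 0 1651140 0) P.nil)) (P.cons (P.cons (P.lf 1161522 0 0) P.nil) P.nil)))))) 3144108)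
 EL.nil)))
noncomputable def S314_372_734_808_25 : EL := (EL.cons 4 (TM.mk (P.cons (P.cons (P.lf 0 1381431090 0) (P.cons (P.lf 0 26641428 0) (P.cons (P.lf 12576384 0 0) (P.lf 598872 0 0)))) (P.cons (P.cons (P.lf 0 805230132 0) (P.cons (P.lf 0 4207485 0) (P.cons (P.lf 1986192 0 0) (P.lf 94578 0 0)))) (P.cons (P.cons (P.lf 273294087 0 0) (P.cons (P.lf 7787277 0 0) (P.cons (P.lf 0 3676071 0) (P.lf 0 175050 0)))) (P.cons (P.cons (P.lf 154179132 0 0) (P.cons (P.lf 327822 0 0) (P.cons (P.lf 0 154752 0) P.nil))) (P.cons (P.cons (P.lf 0 37685913 0) (P.cons (P.lf 0 1003680 0) P.nil)) (P.cons (P.cons (P.lf 0 11609586 0) P.nil) P.nil)))))) 7710486)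
 (EL.cons 8 (TM.mk (P.cons (P.cons (P.lf 0 731576649 0) (P.cons (P.lf 0 14108736 0) (P.cons (P.lf 6660186 0 0) (P.lf 317151 0 0)))) (P.cons (P.cons (P.lf 0 752582211 0) (P.cons (P.lf 0 8518110 0) (P.cons (P.lf 4021068 0 0) (P.lf 191478 0 0)))) (P.cons (P.cons (P.lf 0 95781888 0) (P.cons (P.lf 2158593 0 0) (P.cons (P.lf 0 1018986 0) (P.lf 0 48522 0)))) (P.cons (P.cons (P.lf 105010794 0 0) (P.cons (P.lf 1631376 0 0) (P.cons (P.lf 0 770109 0) P.nil))) (P.cons (P.cons (P.lf 17275359 0 0) (P.cons (P.lf 0 249687 0) P.nil)) (P.cons (P.cons (P.lf 0 8888871 0) P.nil) P.nil)))))) 4432014)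
 (EL.cons 11 (TM.mk (P.cons (P.cons (P.lf 128700528 0 0) (P.cons (P.lf 0 126904149 0) (P.cons (P.lf 0 3970953 0) (P.cons (P.lf 727659 0 0) (P.lf 25986 0 0))))) (P.cons (P.cons (P.lf 13550460 0 0) (P.cons (P.lf 0 13361328 0) (P.cons (P.lf 0 418089 0) (P.cons (P.lf 76611 0 0) (P.lf 2736 0 0))))) (P.cons (P.cons (P.lf 0 25436079 0) (P.cons (P.lf 25081047 0 0) (P.cons (P.lf 784809 0 0) (P.cons (P.lf 0 143811 0) P.nil)))) (P.cons (P.cons (P.lf 289536 0 0) (P.cons (P.lf 0 285495 0) (P.cons (P.lf 0 8931 0) P.nil))) (P.cons (P.cons (P.lf 1924902 0 0) (P.cons (P.lf 0 1898034 0) P.nil)) (P.cons (P.cons (P.lf 0 227841 0) P.nil) P.nil)))))) 615240)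
 EL.nil)))
noncomputable def S314_372_734_808_26 : EL := (EL.cons 4 (TM.mk (P.cons (P.cons (P.lf 398689638 0 0) (P.cons (P.lf 22230165 0 0) (P.cons (P.lf 0 10213563 0) (P.cons (P.lf 0 764475 0) (P.cons (P.lf 49884 0 0) (P.cons (P.lf 5949 0 0) P.nil)))))) (P.cons (P.cons (P.lf 0 212288208 0) (P.cons (P.lf 0 7461390 0) (P.cons (P.lf 3401130 0 0) (P.cons (P.lf 282057 0 0) (P.cons (P.lf 0 21540 0) P.nil))))) (P.cons (P.cons (P.lf 0 381861162 0) (P.cons (P.lf 0 11343975 0) (P.cons (P.lf 5265816 0 0) (P.cons (P.lf 339246 0 0) P.nil)))) (P.cons (P.cons (P.lf 46293909 0 0) (P.cons (P.lf 3816606 0 0) (P.cons (P.lf 0 1747095 0) P.nil))) (P.cons (P.cons (P.lf 85079685 0 0) (P.cons (P.lf 1987899 0 0) P.nil)) (P.cons (P.cons (P.lf 0 10782054 0) P.nil) P.nil)))))) 19199895)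
 (EL.cons 8 (TM.mk (P.cons (P.cons (P.lf 211137588 0 0) (P.cons (P.lf 11772624 0 0) (P.cons (P.lf 0 5408886 0) (P.cons (P.lf 0 404850 0) (P.cons (P.lf 26415 0 0) (P.cons (P.lf 3150 0 0) P.nil)))))) (P.cons (P.cons (P.lf 0 18294588 0) (P.cons (P.lf 1297041 0 0) (P.cons (P.lf 0 610203 0) (P.cons (P.lf 0 31116 0) (P.cons (P.lf 369 0 0) P.nil))))) (P.cons (P.cons (P.lf 0 237799614 0) (P.cons (P.lf 0 6958056 0) (P.cons (P.lf 3219012 0 0) (P.cons (P.lf 218358 0 0) P.nil)))) (P.cons (P.cons (P.lf 0 69983823 0) (P.cons (P.lf 0 739665 0) (P.cons (P.lf 354975 0 0) P.nil))) (P.cons (P.cons (P.lf 40898343 0 0) (P.cons (P.lf 1512834 0 0) P.nil)) (P.cons (P.cons (P.lf 12597240 0 0) P.nil) P.nil)))))) 9679194)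
 (EL.cons 11 (TM.mk (P.cons (P.cons (P.lf 0 37143774 0) (P.cons (P.lf 35270595 0 0) (P.cons (P.lf 3121383 0 0) (P.cons (P.lf 0 768345 0) (P.cons (P.lf 0 64917 0) (P.cons (P.lf 2400 0 0) P.nil)))))) (P.cons (P.cons (P.lf 37517949 0 0) (P.cons (P.lf 0 36337947 0) (P.cons (P.lf 0 2114586 0) (P.cons (P.lf 482622 0 0) (P.cons (P.lf 35391 0 0) P.nil))))) (P.cons (P.cons (P.lf 15781950 0 0) (P.cons (P.lf 0 15300903 0) (P.cons (P.lf 0 867162 0) (P.cons (P.lf 196701 0 0) P.nil)))) (P.cons (P.cons (P.lf 0 10482126 0) (P.cons (P.lf 10132881 0 0) (P.cons (P.lf 619317 0 0) P.nil))) (P.cons (P.cons (P.lf 0 1489908 0) (P.cons (P.lf 1473789 0 0) P.nil)) (P.cons (P.cons (P.lf 1308750 0 0) P.nil) P.nil)))))) 2762760)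
 EL.nil)))
noncomputable def S314_372_734_808_27 : EL := (EL.cons 13 (TM.mk (P.lf 0 4294967296 0) 0)
 EL.nil)
noncomputable def S314_372_734_808_28 : EL := (EL.cons 13 (TM.mk (P.cons (P.cons (P.lf 1239554384 0 0) (P.cons (P.lf 45209884 0 0) (P.cons (P.lf 0 21341832 0) (P.lf 0 1016276 0)))) (P.cons (P.cons (P.lf 0 1382549932 0) (P.cons (P.lf 0 26663004 0) (P.cons (P.lf 12586568 0 0) (P.lf 599360 0 0)))) (P.cons (P.cons (P.lf 0 136125109 0) (P.cons (P.lf 3040200 0 0) (P.cons (P.lf 0 1435160 0) (P.lf 0 68340 0)))) (P.cons (P.cons (P.lf 88106868 0 0) (P.cons (P.lf 1080936 0 0) (P.cons (P.lf 0 510268 0) P.nil))) (P.cons (P.cons (P.lf 0 1887975 0) (P.cons (P.lf 0 285228 0) P.nil)) (P.cons (P.cons (P.lf 0 2884651 0) P.nil) P.nil)))))) 1016718)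
 EL.nil)
noncomputable def S314_372_734_808_29 : EL := (EL.cons 13 (TM.mk (P.cons (P.cons (P.lf 0 357743136 0) (P.cons (P.lf 0 26095709 0) (P.cons (P.lf 11842881 0 0) (P.cons (P.lf 1035905 0 0) (P.cons (P.lf 0 84653 0) (P.cons (P.lf 0 10099 0) P.nil)))))) (P.cons (P.cons (P.lf 798025088 0 0) (P.cons (P.lf 44496341 0 0) (P.cons (P.lf 0 20443672 0) (P.cons (P.lf 0 1530193 0) (P.cons (P.lf 99850 0 0) P.nil))))) (P.cons (P.cons (P.lf 0 366469696 0) (P.cons (P.lf 0 16054710 0) (P.cons (P.lf 7349277 0 0) (P.cons (P.lf 577596 0 0) P.nil)))) (P.cons (P.cons (P.lf 0 138493727 0) (P.cons (P.lf 0 2211637 0) (P.cons (P.lf 1059019 0 0) P.nil))) (P.cons (P.cons (P.lf 53498600 0 0) (P.cons (P.lf 2186931 0 0) P.nil)) (P.cons (P.cons (P.lf 6034513 0 0) P.nil) P.nil)))))) 7646083)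
 EL.nil)
noncomputable def S314_372_734_808_30 : EL := (EL.cons 13 (TM.mk (P.cons (P.lf 0 2550960508 0) (P.cons (P.lf 0 635776524 0) (P.cons (P.lf 89228036 0 0) (P.cons (P.lf 1407440 0 0) (P.cons (P.lf 0 1369092 0) (P.cons (P.lf 95416 0 0) P.nil)))))) 28012)
 EL.nil)
noncomputable def S314_372_734_808_31 : EL := (EL.cons 13 (TM.mk (P.cons (P.cons (P.lf 736223133 0 0) (P.cons (P.lf 26852038 0 0) (P.cons (P.lf 0 12675805 0) (P.lf 0 603608 0)))) (P.cons (P.cons (P.lf 0 637665088 0) (P.cons (P.lf 0 9143931 0) (P.cons (P.lf 4316494 0 0) (P.lf 205547 0 0)))) (P.cons (P.cons (P.lf 0 311258614 0) (P.cons (P.lf 0 3080412 0) (P.cons (P.lf 1454143 0 0) (P.lf 69245 0 0)))) (P.cons (P.cons (P.lf 60496295 0 0) (P.cons (P.lf 1631157 0 0) (P.cons (P.lf 0 770006 0) P.nil))) (P.cons (P.cons (P.lf 15597144 0 0) (P.cons (P.lf 0 49411 0) P.nil)) (P.cons (P.cons (P.lf 0 4246851 0) P.nil) P.nil))))))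 1702642)
 EL.nil)
noncomputable def S314_372_734_808_32 : EL := (EL.cons 13 (TM.mk (P.cons (P.cons (P.lf 0 212478593 0) (P.cons (P.lf 0 15499331 0) (P.cons (P.lf 7033981 0 0) (P.cons (P.lf 615267 0 0) (P.cons (P.lf 0 50278 0) (P.cons (P.lf 0 5998 0) P.nil)))))) (P.cons (P.cons (P.lf 421024345 0 0) (P.cons (P.lf 22565333 0 0) (P.cons (P.lf 0 10389269 0) (P.cons (P.lf 0 755502 0) (P.cons (P.lf 46774 0 0) P.nil))))) (P.cons (P.cons (P.lf 0 92099278 0) (P.cons (P.lf 0 2406708 0) (P.cons (P.lf 1092765 0 0) (P.cons (P.lf 95025 0 0) P.nil)))) (P.cons (P.cons (P.lf 0 152966838 0) (P.cons (P.lf 0 4605995 0) (P.cons (P.lf 2137733 0 0) P.nil))) (P.cons (P.cons (P.lf 18511938 0 0) (P.cons (P.lf 1282162 0 0) P.nil)) (P.cons (P.cons (P.lf 14763085 0 0) P.nil) P.nil)))))) 9205637)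
 EL.nil)
noncomputable def S314_372_734_808_33 : EL := (EL.cons 14 (TM.mk (P.lf 8589934592 0 0) 0)
 EL.nil)
noncomputable def S314_372_734_808_34 : EL := (EL.cons 14 (TM.mk (P.cons (P.cons (P.lf 0 2479108768 0) (P.cons (P.lf 0 90419768 0) (P.cons (P.lf 42683664 0 0) (P.lf 2032552 0 0)))) (P.cons (P.cons (P.lf 2765099864 0 0) (P.cons (P.lf 53326008 0 0) (P.cons (P.lf 0 25173136 0) (P.lf 0 1198720 0)))) (P.cons (P.cons (P.lf 272250218 0 0) (P.cons (P.lf 0 6080400 0) (P.cons (P.lf 2870320 0 0) (P.lf 136680 0 0)))) (P.cons (P.cons (P.lf 0 176213736 0) (P.cons (P.lf 0 2161872 0) (P.cons (P.lf 1020536 0 0) P.nil))) (P.cons (P.cons (P.lf 3775950 0 0) (P.cons (P.lf 570456 0 0) P.nil)) (P.cons (P.cons (P.lf 5769302 0 0) P.nil) P.nil)))))) 2033436)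
 EL.nil)
noncomputable def S314_372_734_808_35 : EL := (EL.cons 14 (TM.mk (P.cons (P.cons (P.lf 715486272 0 0) (P.cons (P.lf 52191418 0 0) (P.cons (P.lf 0 23685762 0) (P.cons (P.lf 0 2071810 0) (P.cons (P.lf 169306 0 0) (P.cons (P.lf 20198 0 0) P.nil)))))) (P.cons (P.cons (P.lf 0 1596050176 0) (P.cons (P.lf 0 88992682 0) (P.cons (P.lf 40887344 0 0) (P.cons (P.lf 3060386 0 0) (P.cons (P.lf 0 199700 0) P.nil))))) (P.cons (P.cons (P.lf 732939392 0 0) (P.cons (P.lf 32109420 0 0) (P.cons (P.lf 0 14698554 0) (P.cons (P.lf 0 1155192 0) P.nil)))) (P.cons (P.cons (P.lf 276987454 0 0) (P.cons (P.lf 4423274 0 0) (P.cons (P.lf 0 2118038 0) P.nil))) (P.cons (P.cons (P.lf 0 106997200 0) (P.cons (P.lf 0 4373862 0) P.nil)) (P.cons (P.cons (P.lf 0 12069026 0) P.nil) P.nil)))))) 15292166)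
 EL.nil)
noncomputable def S314_372_734_808_36 : EL := (EL.cons 14 (TM.mk (P.cons (P.lf 5101921016 0 0) (P.cons (P.lf 1271553048 0 0) (P.cons (P.lf 0 178456072 0) (P.cons (P.lf 0 2814880 0) (P.cons (P.lf 2738184 0 0) (P.cons (P.lf 0 190832 0) P.nil)))))) 56024)
 EL.nil)
noncomputable def S314_372_734_808_37 : EL := (EL.cons 14 (TM.mk (P.cons (P.cons (P.lf 0 1472446266 0) (P.cons (P.lf 0 53704076 0) (P.cons (P.lf 25351610 0 0) (P.lf 1207216 0 0)))) (P.cons (P.cons (P.lf 1275330176 0 0) (P.cons (P.lf 18287862 0 0) (P.cons (P.lf 0 8632988 0) (P.lf 0 411094 0)))) (P.cons (P.cons (P.lf 622517228 0 0) (P.cons (P.lf 6160824 0 0) (P.cons (P.lf 0 2908286 0) (P.lf 0 138490 0)))) (P.cons (P.cons (P.lf 0 120992590 0) (P.cons (P.lf 0 3262314 0) (P.cons (P.lf 1540012 0 0) P.nil))) (P.cons (P.cons (P.lf 0 31194288 0) (P.cons (P.lf 98822 0 0) P.nil)) (P.cons (P.cons (P.lf 8493702 0 0) P.nil)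 P.nil)))))) 3405284)
 EL.nil)
noncomputable def S314_372_734_808_38 : EL := (EL.cons 14 (TM.mk (P.cons (P.cons (P.lf 424957186 0 0) (P.cons (P.lf 30998662 0 0) (P.cons (P.lf 0 14067962 0) (P.cons (P.lf 0 1230534 0) (P.cons (P.lf 100556 0 0) (P.cons (P.lf 11996 0 0) P.nil)))))) (P.cons (P.cons (P.lf 0 842048690 0) (P.cons (P.lf 0 45130666 0) (P.cons (P.lf 20778538 0 0) (P.cons (P.lf 1511004 0 0) (P.cons (P.lf 0 93548 0) P.nil))))) (P.cons (P.cons (P.lf 184198556 0 0) (P.cons (P.lf 4813416 0 0) (P.cons (P.lf 0 2185530 0) (P.cons (P.lf 0 190050 0) P.nil)))) (P.cons (P.cons (P.lf 305933676 0 0) (P.cons (P.lf 9211990 0 0) (P.cons (P.lf 0 4275466 0) P.nil))) (P.cons (P.cons (P.lf 0 37023876 0) (P.cons (P.lf 0 2564324 0) P.nil)) (P.cons (P.cons (P.lf 0 29526170 0) P.nil) P.nil)))))) 18411274)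
 EL.nil)
noncomputable def S314_372_734_808_39 : EL := (EL.cons 14 (TM.mk (P.cons (P.lf 3030244034 0 0) (P.cons (P.lf 1510456952 0 0) (P.cons (P.lf 0 23759250 0) (P.cons (P.lf 0 56176832 0) (P.cons (P.lf 6126708 0 0) (P.cons (P.lf 700928 0 0) P.nil)))))) 267590)
 EL.nil)
noncomputable def S314_372_734_808_40 : EL := (EL.cons 14 (TM.mk (P.cons (P.cons (P.lf 0 874547352 0) (P.cons (P.lf 0 31897094 0) (P.cons (P.lf 15057380 0 0) (P.lf 717016 0 0)))) (P.cons (P.cons (P.lf 539508216 0 0) (P.cons (P.lf 2912204 0 0) (P.cons (P.lf 0 1374736 0) (P.lf 0 65464 0)))) (P.cons (P.cons (P.lf 589113994 0 0) (P.cons (P.lf 7481994 0 0) (P.cons (P.lf 0 3531958 0) (P.lf 0 168188 0)))) (P.cons (P.cons (P.lf 0 5724910 0) (P.cons (P.lf 0 1387980 0) (P.cons (P.lf 655212 0 0) P.nil))) (P.cons (P.cons (P.lf 0 50258006 0) (P.cons (P.lf 0 575322 0) P.nil)) (P.cons (P.cons (P.lf 3176000 0 0) P.nil)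 P.nil)))))) 4837654)
 EL.nil)
noncomputable def S314_372_734_808_41 : EL := (EL.cons 14 (TM.mk (P.cons (P.cons (P.lf 252399826 0 0) (P.cons (P.lf 18411400 0 0) (P.cons (P.lf 0 8355550 0) (P.cons (P.lf 0 730864 0) (P.cons (P.lf 59724 0 0) (P.cons (P.lf 7124 0 0) P.nil)))))) (P.cons (P.cons (P.lf 0 437222224 0) (P.cons (P.lf 0 22216310 0) (P.cons (P.lf 10258786 0 0) (P.cons (P.lf 715294 0 0) (P.cons (P.lf 0 40676 0) P.nil))))) (P.cons (P.cons (P.lf 0 24072276 0) (P.cons (P.lf 0 4465722 0) (P.cons (P.lf 2069994 0 0) (P.cons (P.lf 136356 0 0) P.nil)))) (P.cons (P.cons (P.lf 226327704 0 0) (P.cons (P.lf 7111340 0 0) (P.cons (P.lf 0 3289962 0) P.nil))) (P.cons (P.cons (P.lf 19881468 0 0) (P.cons (P.lf 0 234752 0) P.nil)) (P.cons (P.cons (P.lf 0 29711402 0) P.nil) P.nil)))))) 16756394)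
 EL.nil)
noncomputable def S314_372_734_808_42 : EL := (EL.cons 14 (TM.mk (P.cons (P.lf 1799788526 0 0) (P.cons (P.lf 1345685228 0 0) (P.cons (P.lf 146525314 0 0) (P.cons (P.lf 0 69255578 0) (P.cons (P.lf 0 3712280 0) (P.cons (P.lf 2912260 0 0) P.nil)))))) 563866)
 EL.nil)
noncomputable def S314_372_734_808_43 : EL := (EL.cons 14 (TM.mk (P.cons (P.cons (P.lf 0 519430208 0) (P.cons (P.lf 0 18945016 0) (P.cons (P.lf 8943206 0 0) (P.lf 425866 0 0)))) (P.cons (P.cons (P.lf 190978748 0 0) (P.cons (P.lf 0 2991990 0) (P.cons (P.lf 1412402 0 0) (P.lf 67256 0 0)))) (P.cons (P.cons (P.lf 447930612 0 0) (P.cons (P.lf 5537620 0 0) (P.cons (P.lf 0 2614094 0) (P.lf 0 124480 0)))) (P.cons (P.cons (P.lf 72883542 0 0) (P.cons (P.lf 233116 0 0) (P.cons (P.lf 0 110044 0) P.nil))) (P.cons (P.cons (P.lf 0 43392204 0) (P.cons (P.lf 0 713728 0) P.nil)) (P.cons (P.cons (P.lf 0 5435954 0) P.nil)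 P.nil)))))) 5917094)
 EL.nil)
noncomputable def S314_372_734_808_44 : EL := (EL.cons 14 (TM.mk (P.cons (P.cons (P.lf 149910800 0 0) (P.cons (P.lf 10935300 0 0) (P.cons (P.lf 0 4962710 0) (P.cons (P.lf 0 434090 0) (P.cons (P.lf 35472 0 0) (P.cons (P.lf 4230 0 0) P.nil)))))) (P.cons (P.cons (P.lf 0 222322238 0) (P.cons (P.lf 0 10469786 0) (P.cons (P.lf 4856264 0 0) (P.cons (P.lf 316654 0 0) (P.cons (P.lf 0 15318 0) P.nil))))) (P.cons (P.cons (P.lf 0 84262386 0) (P.cons (P.lf 0 6323518 0) (P.cons (P.lf 2921632 0 0) (P.cons (P.lf 202054 0 0) P.nil)))) (P.cons (P.cons (P.lf 139862692 0 0) (P.cons (P.lf 4018178 0 0) (P.cons (P.lf 0 1858016 0) P.nil))) (P.cons (P.cons (P.lf 46035164 0 0) (P.cons (P.lf 1019174 0 0) P.nil)) (P.cons (P.cons (P.lf 0 19542878 0) P.nil) P.nil)))))) 17549472)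
 EL.nil)
noncomputable def S314_372_734_808_45 : EL := (EL.cons 14 (TM.mk (P.cons (P.cons (P.lf 0 206493806 0) (P.cons (P.lf 0 22594152 0) (P.cons (P.lf 9841752 0 0) (P.cons (P.lf 1275898 0 0) (P.cons (P.lf 0 132400 0) (P.cons (P.lf 0 23510 0) P.nil)))))) (P.cons (P.cons (P.lf 690945072 0 0) (P.cons (P.lf 63726390 0 0) (P.cons (P.lf 0 28191612 0) (P.cons (P.lf 0 3200252 0) (P.cons (P.lf 311300 0 0) P.nil))))) (P.cons (P.cons (P.lf 0 702622730 0) (P.cons (P.lf 0 54389344 0) (P.cons (P.lf 24283998 0 0) (P.cons (P.lf 2523512 0 0) P.nil)))) (P.cons (P.cons (P.lf 90730034 0 0) (P.cons (P.lf 7752360 0 0) (P.cons (P.lf 0 3355638 0) P.nil))) (P.cons (P.cons (P.lf 176328022 0 0) (P.cons (P.lf 8328586 0 0) P.nil)) (P.cons (P.cons (P.lf 0 37436880 0) P.nil) P.nil)))))) 40876404)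
 EL.nil)
noncomputable def S314_372_734_808_46 : EL := (EL.cons 15 (TM.mk (P.lf 4294967296 0 0) 0)
 EL.nil)
noncomputable def S314_372_734_808_47 : EL := (EL.cons 15 (TM.mk (P.cons (P.cons (P.lf 0 1239554384 0) (P.cons (P.lf 0 45209884 0) (P.cons (P.lf 21341832 0 0) (P.lf 1016276 0 0)))) (P.cons (P.cons (P.lf 1382549932 0 0) (P.cons (P.lf 26663004 0 0) (P.cons (P.lf 0 12586568 0) (P.lf 0 599360 0)))) (P.cons (P.cons (P.lf 136125109 0 0) (P.cons (P.lf 0 3040200 0) (P.cons (P.lf 1435160 0 0) (P.lf 68340 0 0)))) (P.cons (P.cons (P.lf 0 88106868 0) (P.cons (P.lf 0 1080936 0) (P.cons (P.lf 510268 0 0) P.nil))) (P.cons (P.cons (P.lf 1887975 0 0) (P.cons (P.lf 285228 0 0) P.nil)) (P.cons (P.cons (P.lf 2884651 0 0) P.nil) P.nil)))))) 1016718)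
 EL.nil)
noncomputable def S314_372_734_808_48 : EL := (EL.cons 15 (TM.mk (P.cons (P.cons (P.lf 357743136 0 0) (P.cons (P.lf 26095709 0 0) (P.cons (P.lf 0 11842881 0) (P.cons (P.lf 0 1035905 0) (P.cons (P.lf 84653 0 0) (P.cons (P.lf 10099 0 0) P.nil)))))) (P.cons (P.cons (P.lf 0 798025088 0) (P.cons (P.lf 0 44496341 0) (P.cons (P.lf 20443672 0 0) (P.cons (P.lf 1530193 0 0) (P.cons (P.lf 0 99850 0) P.nil))))) (P.cons (P.cons (P.lf 366469696 0 0) (P.cons (P.lf 16054710 0 0) (P.cons (P.lf 0 7349277 0) (P.cons (P.lf 0 577596 0) P.nil)))) (P.cons (P.cons (P.lf 138493727 0 0) (P.cons (P.lf 2211637 0 0) (P.cons (P.lf 0 1059019 0) P.nil))) (P.cons (P.cons (P.lf 0 53498600 0) (P.cons (P.lf 0 2186931 0) P.nil)) (P.cons (P.cons (P.lf 0 6034513 0) P.nil) P.nil)))))) 7646083)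
 EL.nil)
noncomputable def S314_372_734_808 : SL := (SL.cons S314_372_734_808_0 (SL.cons S314_372_734_808_1 (SL.cons S314_372_734_808_2 (SL.cons S314_372_734_808_3 (SL.cons S314_372_734_808_4 (SL.cons S314_372_734_808_5 (SL.cons S314_372_734_808_6 (SL.cons S314_372_734_808_7 (SL.cons S314_372_734_808_8 (SL.cons S314_372_734_808_9 (SL.cons S314_372_734_808_10 (SL.cons S314_372_734_808_11 (SL.cons S314_372_734_808_12 (SL.cons S314_372_734_808_13 (SL.cons S314_372_734_808_14 (SL.cons S314_372_734_808_15 (SL.cons S314_372_734_808_16 (SL.cons S314_372_734_808_17 (SL.cons S314_372_734_808_18 (SL.cons S314_372_734_808_19 (SL.cons S314_372_734_808_20 (SL.cons S314_372_734_808_21 (SL.cons S314_372_734_808_22 (SL.cons S314_372_734_808_23 (SL.cons S314_372_734_808_24 (SL.cons S314_372_734_808_25 (SL.cons S314_372_734_808_26 (SL.cons S314_372_734_808_27 (SL.cons S314_372_734_808_28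 (SL.cons S314_372_734_808_29 (SL.cons S314_372_734_808_30 (SL.cons S314_372_734_808_31 (SL.cons S314_372_734_808_32 (SL.cons S314_372_734_808_33 (SL.cons S314_372_734_808_34 (SL.cons S314_372_734_808_35 (SL.cons S314_372_734_808_36 (SL.cons S314_372_734_808_37 (SL.cons S314_372_734_808_38 (SL.cons S314_372_734_808_39 (SL.cons S314_372_734_808_40 (SL.cons S314_372_734_808_41 (SL.cons S314_372_734_808_42 (SL.cons S314_372_734_808_43 (SL.cons S314_372_734_808_44 (SL.cons S314_372_734_808_45 (SL.cons S314_372_734_808_46 (SL.cons S314_372_734_808_47 (SL.cons S314_372_734_808_48 SL.nil)))))))))))))))))))))))))))))))))))))))))))))))))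
noncomputable def S328_343_660_808_0 : EL := (EL.cons 0 (TM.mk (P.cons (P.lf 6136267662 0 0) (P.cons (P.lf 0 343470635 0) (P.cons (P.lf 0 1302127 0) (P.cons (P.lf 942252 0 0) (P.cons (P.lf 0 19743 0) (P.cons (P.lf 0 1030 0) P.nil)))))) 189)
 (EL.cons 1 (TM.mk (P.cons (P.lf 1751612281 0 0) (P.cons (P.lf 48835545 0 0) (P.cons (P.lf 0 12469066 0) (P.cons (P.lf 122883 0 0) (P.cons (P.lf 20520 0 0) (P.cons (P.lf 0 675 0) P.nil)))))) 140)
 (EL.cons 5 (TM.mk (P.cons (P.lf 5119660350 0 0) (P.cons (P.lf 122122890 0 0) (P.cons (P.lf 462974 0 0) (P.cons (P.lf 0 335020 0) (P.cons (P.lf 7020 0 0) (P.cons (P.lf 362 0 0) P.nil)))))) 113)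
 (EL.cons 9 (TM.mk (P.lf 6442450944 0 0) 2)
 EL.nil))))
noncomputable def S328_343_660_808_1 : EL := (EL.cons 0 (TM.mk (P.cons (P.cons (P.lf 1635211590 0 0) (P.cons (P.lf 37565113 0 0) (P.cons (P.lf 0 16198499 0) (P.lf 0 1799823 0)))) (P.cons (P.cons (P.lf 1091970715 0 0) (P.cons (P.lf 57577724 0 0) (P.cons (P.lf 0 24828162 0) (P.lf 0 2758682 0)))) (P.cons (P.cons (P.lf 0 63412067 0) (P.cons (P.lf 0 8355602 0) (P.cons (P.lf 3603023 0 0) (P.lf 400329 0 0)))) (P.cons (P.cons (P.lf 0 8718757 0) (P.cons (P.lf 0 20460 0) (P.cons (P.lf 8829 0 0) P.nil))) (P.cons (P.cons (P.lf 676961 0 0) (P.cons (P.lf 55678 0 0) P.nil)) (P.cons (P.cons (P.lf 21898 0 0) P.nil) P.nil)))))) 96717)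
 (EL.cons 1 (TM.mk (P.cons (P.cons (P.lf 0 1155473826 0) (P.cons (P.lf 0 125249139 0) (P.cons (P.lf 54008838 0 0) (P.lf 6000973 0 0)))) (P.cons (P.cons (P.lf 322378095 0 0) (P.cons (P.lf 31847617 0 0) (P.cons (P.lf 0 13733043 0) (P.lf 0 1525887 0)))) (P.cons (P.cons (P.lf 48749476 0 0) (P.cons (P.lf 779876 0 0) (P.cons (P.lf 0 336292 0) (P.lf 0 37371 0)))) (P.cons (P.cons (P.lf 0 4798227 0) (P.cons (P.lf 0 422544 0) (P.cons (P.lf 182198 0 0) P.nil))) (P.cons (P.cons (P.lf 0 245633 0) (P.cons (P.lf 12525 0 0) P.nil)) (P.cons (P.cons (P.lf 29636 0 0) P.nil) P.nil)))))) 53477)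
 (EL.cons 5 (TM.mk (P.cons (P.cons (P.lf 0 3149563989 0) (P.cons (P.lf 0 346997598 0) (P.cons (P.lf 149629278 0 0) (P.lf 16625476 0 0)))) (P.cons (P.cons (P.lf 162988118 0 0) (P.cons (P.lf 25731632 0 0) (P.cons (P.lf 0 11095774 0) (P.lf 0 1232870 0)))) (P.cons (P.cons (P.lf 46168194 0 0) (P.cons (P.lf 2079630 0 0) (P.cons (P.lf 0 896754 0) (P.lf 0 99636 0)))) (P.cons (P.cons (P.lf 570191 0 0) (P.cons (P.lf 0 143972 0) (P.cons (P.lf 62080 0 0) P.nil))) (P.cons (P.cons (P.lf 0 260151 0) (P.cons (P.lf 0 12060 0) P.nil)) (P.cons (P.cons (P.lf 0 1231 0) P.nil) P.nil)))))) 46716)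
 (EL.cons 9 (TM.mk (P.cons (P.cons (P.lf 0 2266019479 0) (P.cons (P.lf 0 294389214 0) (P.cons (P.lf 126943950 0 0) (P.lf 14104878 0 0)))) (P.cons (P.cons (P.lf 486392082 0 0) (P.cons (P.lf 40767972 0 0) (P.cons (P.lf 0 17579604 0) (P.lf 0 1953288 0)))) (P.cons (P.cons (P.lf 20842662 0 0) (P.cons (P.lf 0 786390 0) (P.cons (P.lf 339096 0 0) (P.lf 37674 0 0)))) (P.cons (P.cons (P.lf 0 2232171 0) (P.cons (P.lf 0 133446 0) (P.cons (P.lf 57540 0 0) P.nil))) (P.cons (P.cons (P.lf 0 17169 0) (P.cons (P.lf 6822 0 0) P.nil)) (P.cons (P.cons (P.lf 5769 0 0) P.nil) P.nil)))))) 11218)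
 (EL.cons 2 (TM.mk (P.cons (P.cons (P.lf 0 407270655 0) (P.cons (P.lf 379410291 0 0) (P.cons (P.lf 38939835 0 0) (P.cons (P.lf 0 8098402 0) (P.lf 0 674865 0))))) (P.cons (P.cons (P.lf 7445207 0 0) (P.cons (P.lf 0 6935897 0) (P.cons (P.lf 0 711846 0) (P.cons (P.lf 148044 0 0) (P.lf 12335 0 0))))) (P.cons (P.cons (P.lf 3928542 0 0) (P.cons (P.lf 0 3659802 0) (P.cons (P.lf 0 375612 0) (P.cons (P.lf 78114 0 0) P.nil)))) (P.cons (P.cons (P.lf 0 176568 0) (P.cons (P.lf 164491 0 0) (P.cons (P.lf 16880 0 0) P.nil))) (P.cons (P.cons (P.lf 0 7745 0) (P.cons (P.lf 7216 0 0) P.nil)) (P.cons (P.cons (P.lf 638 0 0) P.nil) P.nil)))))) 13498)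
 (EL.cons 6 (TM.mk (P.cons (P.cons (P.lf 307564521 0 0) (P.cons (P.lf 0 286524804 0) (P.cons (P.lf 0 29406765 0) (P.cons (P.lf 6115788 0 0) (P.lf 509646 0 0))))) (P.cons (P.cons (P.lf 0 42592533 0) (P.cons (P.lf 39678882 0 0) (P.cons (P.lf 4072344 0 0) (P.cons (P.lf 0 846933 0) (P.lf 0 70575 0))))) (P.cons (P.cons (P.lf 821586 0 0) (P.cons (P.lf 0 765384 0) (P.cons (P.lf 0 78552 0) (P.cons (P.lf 16335 0 0) P.nil)))) (P.cons (P.cons (P.lf 139422 0 0) (P.cons (P.lf 0 129885 0) (P.cons (P.lf 0 13329 0) P.nil))) (P.cons (P.cons (P.lf 0 7131 0) (P.cons (P.lf 6642 0 0) P.nil)) (P.cons (P.cons (P.lf 0 123 0) P.nil) P.nil)))))) 7359)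
 EL.nil))))))
noncomputable def S328_343_660_808_2 : EL := (EL.cons 0 (TM.mk (P.cons (P.cons (P.lf 0 1909467204 0) (P.cons (P.lf 0 373118709 0) (P.cons (P.lf 144647046 0 0) (P.cons (P.lf 31887858 0 0) (P.cons (P.lf 0 1464054 0) (P.cons (P.lf 0 671287 0) P.nil)))))) (P.cons (P.cons (P.lf 0 152861755 0) (P.cons (P.lf 0 33236416 0) (P.cons (P.lf 13811215 0 0) (P.cons (P.lf 2041513 0 0) (P.cons (P.lf 0 46925 0) P.nil))))) (P.cons (P.cons (P.lf 180980008 0 0) (P.cons (P.lf 25598176 0 0) (P.cons (P.lf 0 10065143 0) (P.cons (P.lf 0 2065662 0) P.nil)))) (P.cons (P.cons (P.lf 0 1012107 0) (P.cons (P.lf 0 1451613 0) (P.cons (P.lf 519181 0 0) P.nil))) (P.cons (P.cons (P.lf 0 2414665 0) (P.cons (P.lf 0 244983 0) P.nil)) (P.cons (P.cons (P.lf 74604 0 0) P.nil) P.nil)))))) 1678958)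
 (EL.cons 1 (TM.mk (P.cons (P.cons (P.lf 596133385 0 0) (P.cons (P.lf 137402091 0 0) (P.cons (P.lf 0 51460218 0) (P.cons (P.lf 0 13300759 0) (P.cons (P.lf 701944 0 0) (P.cons (P.lf 321849 0 0) P.nil)))))) (P.cons (P.cons (P.lf 0 314266867 0) (P.cons (P.lf 0 67088481 0) (P.cons (P.lf 25344595 0 0) (P.cons (P.lf 6305881 0 0) (P.cons (P.lf 0 323043 0) P.nil))))) (P.cons (P.cons (P.lf 5046453 0 0) (P.cons (P.lf 3005688 0 0) (P.cons (P.lf 0 969112 0) (P.cons (P.lf 0 425986 0) P.nil)))) (P.cons (P.cons (P.lf 11495714 0 0) (P.cons (P.lf 1430178 0 0) (P.cons (P.lf 0 581379 0) P.nil))) (P.cons (P.cons (P.lf 0 372577 0) (P.cons (P.lf 0 132847 0) P.nil)) (P.cons (P.cons (P.lf 0 108976 0) P.nil) P.nil)))))) 820152)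
 (EL.cons 5 (TM.mk (P.cons (P.cons (P.lf 1582225446 0 0) (P.cons (P.lf 367369281 0 0) (P.cons (P.lf 0 137391637 0) (P.cons (P.lf 0 35731490 0) (P.cons (P.lf 1894471 0 0) (P.cons (P.lf 868648 0 0) P.nil)))))) (P.cons (P.cons (P.lf 0 333430290 0) (P.cons (P.lf 0 71063762 0) (P.cons (P.lf 26606048 0 0) (P.cons (P.lf 6886798 0 0) (P.cons (P.lf 0 363845 0) P.nil))))) (P.cons (P.cons (P.lf 0 39347625 0) (P.cons (P.lf 0 3656822 0) (P.cons (P.lf 1604707 0 0) (P.cons (P.lf 151182 0 0) P.nil)))) (P.cons (P.cons (P.lf 5706273 0 0) (P.cons (P.lf 1018103 0 0) (P.cons (P.lf 0 398503 0) P.nil))) (P.cons (P.cons (P.lf 566664 0 0) (P.cons (P.lf 22812 0 0) P.nil)) (P.cons (P.cons (P.lf 0 50439 0) P.nil) P.nil)))))) 941888)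
 (EL.cons 9 (TM.mk (P.cons (P.cons (P.lf 797032732 0 0) (P.cons (P.lf 207092517 0 0) (P.cons (P.lf 0 75848449 0) (P.cons (P.lf 0 21523750 0) (P.cons (P.lf 1212289 0 0) (P.cons (P.lf 555852 0 0) P.nil)))))) (P.cons (P.cons (P.lf 0 342159820 0) (P.cons (P.lf 0 73130428 0) (P.cons (P.lf 27808858 0 0) (P.cons (P.lf 6717064 0 0) (P.cons (P.lf 0 335763 0) P.nil))))) (P.cons (P.cons (P.lf 22059538 0 0) (P.cons (P.lf 4804177 0 0) (P.cons (P.lf 0 1741762 0) (P.cons (P.lf 0 514644 0) P.nil)))) (P.cons (P.cons (P.lf 4717411 0 0) (P.cons (P.lf 442917 0 0) (P.cons (P.lf 0 188745 0) P.nil))) (P.cons (P.cons (P.lf 0 257539 0) (P.cons (P.lf 0 56718 0) P.nil)) (P.cons (P.cons (P.lf 0 21093 0) P.nil) P.nil)))))) 402296)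
 (EL.cons 2 (TM.mk (P.cons (P.cons (P.lf 286500661 0 0) (P.cons (P.lf 0 229681226 0) (P.cons (P.lf 0 78117243 0) (P.cons (P.lf 15306907 0 0) (P.cons (P.lf 4410759 0 0) (P.cons (P.lf 0 86962 0) P.nil)))))) (P.cons (P.cons (P.lf 0 66733672 0) (P.cons (P.lf 56333733 0 0) (P.cons (P.lf 14332280 0 0) (P.cons (P.lf 0 2833464 0) (P.cons (P.lf 0 727605 0) P.nil))))) (P.cons (P.cons (P.lf 0 4274606 0) (P.cons (P.lf 3816810 0 0) (P.cons (P.lf 634078 0 0) (P.cons (P.lf 0 127693 0) P.nil)))) (P.cons (P.cons (P.lf 1047796 0 0) (P.cons (P.lf 0 895207 0) (P.cons (P.lf 0 210442 0) P.nil))) (P.cons (P.cons (P.lf 1215 0 0) (P.cons (P.lf 0 4792 0) P.nil)) (P.cons (P.cons (P.lf 0 6249 0) P.nil) P.nil)))))) 361304)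
 (EL.cons 6 (TM.mk (P.cons (P.cons (P.lf 0 216360882 0) (P.cons (P.lf 173451720 0 0) (P.cons (P.lf 58992942 0 0) (P.cons (P.lf 0 11559540 0) (P.cons (P.lf 0 3330936 0) (P.cons (P.lf 65670 0 0) P.nil)))))) (P.cons (P.cons (P.lf 76403358 0 0) (P.cons (P.lf 0 63391698 0) (P.cons (P.lf 0 17914614 0) (P.cons (P.lf 3529272 0 0) (P.cons (P.lf 949860 0 0) P.nil))))) (P.cons (P.cons (P.lf 0 5019186 0) (P.cons (P.lf 3986616 0 0) (P.cons (P.lf 1419168 0 0) (P.cons (P.lf 0 277752 0) P.nil)))) (P.cons (P.cons (P.lf 0 462738 0) (P.cons (P.lf 426396 0 0) (P.cons (P.lf 50628 0 0) P.nil))) (P.cons (P.cons (P.lf 59256 0 0) (P.cons (P.lf 0 50574 0) P.nil)) (P.cons (P.cons (P.lf 120 0 0) P.nil) P.nil)))))) 340308)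
 EL.nil))))))
noncomputable def S328_343_660_808_3 : EL := (EL.cons 0 (TM.mk (P.cons (P.lf 2319449201 0 0) (P.cons (P.lf 343470635 0 0) (P.cons (P.lf 1302127 0 0) (P.cons (P.lf 0 942252 0) (P.cons (P.lf 19743 0 0) (P.cons (P.lf 1030 0 0) P.nil)))))) 189)
 (EL.cons 1 (TM.mk (P.cons (P.lf 0 1751612281 0) (P.cons (P.lf 0 48835545 0) (P.cons (P.lf 12469066 0 0) (P.cons (P.lf 0 122883 0) (P.cons (P.lf 0 20520 0) (P.cons (P.lf 675 0 0) P.nil)))))) 140)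
 (EL.cons 5 (TM.mk (P.cons (P.lf 1322790594 0 0) (P.cons (P.lf 0 122122890 0) (P.cons (P.lf 0 462974 0) (P.cons (P.lf 335020 0 0) (P.cons (P.lf 0 7020 0) (P.cons (P.lf 0 362 0) P.nil)))))) 106)
 EL.nil)))
noncomputable def S328_343_660_808_4 : EL := (EL.cons 0 (TM.mk (P.cons (P.cons (P.lf 0 815825701 0) (P.cons (P.lf 0 105987740 0) (P.cons (P.lf 45703109 0 0) (P.lf 5078119 0 0)))) (P.cons (P.cons (P.lf 54303955 0 0) (P.cons (P.lf 0 1017439 0) (P.cons (P.lf 438732 0 0) (P.lf 48747 0 0)))) (P.cons (P.cons (P.lf 32977239 0 0) (P.cons (P.lf 1830867 0 0) (P.cons (P.lf 0 789491 0) (P.lf 0 87721 0)))) (P.cons (P.cons (P.lf 737288 0 0) (P.cons (P.lf 0 38671 0) (P.cons (P.lf 16674 0 0) P.nil))) (P.cons (P.cons (P.lf 0 199056 0) (P.cons (P.lf 0 11680 0) P.nil)) (P.cons (P.cons (P.lf 0 1209 0) P.nil) P.nil)))))) 17342)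
 (EL.cons 1 (TM.mk (P.cons (P.cons (P.lf 616098993 0 0) (P.cons (P.lf 80040307 0 0) (P.cons (P.lf 0 34514281 0) (P.lf 0 3834916 0)))) (P.cons (P.cons (P.lf 0 115066151 0) (P.cons (P.lf 0 8852688 0) (P.cons (P.lf 3817378 0 0) (P.lf 424151 0 0)))) (P.cons (P.cons (P.lf 0 13739589 0) (P.cons (P.lf 0 665000 0) (P.cons (P.lf 286755 0 0) (P.lf 31861 0 0)))) (P.cons (P.cons (P.lf 1433514 0 0) (P.cons (P.lf 126761 0 0) (P.cons (P.lf 0 54660 0) P.nil))) (P.cons (P.cons (P.lf 59866 0 0) (P.cons (P.lf 0 2205 0) P.nil)) (P.cons (P.cons (P.lf 0 7942 0) P.nil) P.nil)))))) 13125)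
 (EL.cons 5 (TM.mk (P.cons (P.cons (P.lf 0 465268462 0) (P.cons (P.lf 0 60445206 0) (P.cons (P.lf 26064654 0 0) (P.lf 2896070 0 0)))) (P.cons (P.cons (P.lf 142822618 0 0) (P.cons (P.lf 13951078 0 0) (P.cons (P.lf 0 6015860 0) (P.lf 0 668428 0)))) (P.cons (P.cons (P.lf 0 4777686 0) (P.cons (P.lf 0 913104 0) (P.cons (P.lf 393738 0 0) (P.lf 43746 0 0)))) (P.cons (P.cons (P.lf 0 1006202 0) (P.cons (P.lf 0 30730 0) (P.cons (P.lf 13250 0 0) P.nil))) (P.cons (P.cons (P.lf 65052 0 0) (P.cons (P.lf 6426 0 0) P.nil)) (P.cons (P.cons (P.lf 2350 0 0) P.nil) P.nil)))))) 8684)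
 EL.nil)))
noncomputable def S328_343_660_808_5 : EL := (EL.cons 0 (TM.mk (P.cons (P.cons (P.lf 286952426 0 0) (P.cons (P.lf 74558668 0 0) (P.cons (P.lf 0 27307406 0) (P.cons (P.lf 0 7749107 0) (P.cons (P.lf 436454 0 0) (P.cons (P.lf 200119 0 0) P.nil)))))) (P.cons (P.cons (P.lf 0 80693664 0) (P.cons (P.lf 0 15287987 0) (P.cons (P.lf 5968149 0 0) (P.cons (P.lf 1270807 0 0) (P.cons (P.lf 0 56251 0) P.nil))))) (P.cons (P.cons (P.lf 0 10138691 0) (P.cons (P.lf 0 2127364 0) (P.cons (P.lf 840181 0 0) (P.cons (P.lf 168475 0 0) P.nil)))) (P.cons (P.cons (P.lf 2688735 0 0) (P.cons (P.lf 370518 0 0) (P.cons (P.lf 0 144098 0) P.nil))) (P.cons (P.cons (P.lf 215725 0 0) (P.cons (P.lf 15493 0 0) P.nil)) (P.cons (P.cons (P.lf 0 24517 0) P.nil) P.nil)))))) 269378)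
 (EL.cons 1 (TM.mk (P.cons (P.cons (P.lf 0 216702048 0) (P.cons (P.lf 0 56305556 0) (P.cons (P.lf 20622131 0 0) (P.cons (P.lf 5852004 0 0) (P.cons (P.lf 0 329604 0) (P.cons (P.lf 0 151126 0) P.nil)))))) (P.cons (P.cons (P.lf 86986740 0 0) (P.cons (P.lf 18313321 0 0) (P.cons (P.lf 0 6985886 0) (P.cons (P.lf 0 1663119 0) (P.cons (P.lf 82098 0 0) P.nil))))) (P.cons (P.cons (P.lf 0 1861393 0) (P.cons (P.lf 0 351020 0) (P.cons (P.lf 115959 0 0) (P.cons (P.lf 47349 0 0) P.nil)))) (P.cons (P.cons (P.lf 0 2127251 0) (P.cons (P.lf 0 302328 0) (P.cons (P.lf 119788 0 0) P.nil))) (P.cons (P.cons (P.lf 80943 0 0) (P.cons (P.lf 22096 0 0) P.nil)) (P.cons (P.cons (P.lf 17568 0 0) P.nil) P.nil)))))) 188467)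
 (EL.cons 5 (TM.mk (P.cons (P.cons (P.lf 163650046 0 0) (P.cons (P.lf 42521088 0 0) (P.cons (P.lf 0 15573516 0) (P.cons (P.lf 0 4419344 0) (P.cons (P.lf 248910 0 0) (P.cons (P.lf 114128 0 0) P.nil)))))) (P.cons (P.cons (P.lf 0 85362190 0) (P.cons (P.lf 0 18941078 0) (P.cons (P.lf 7147610 0 0) (P.cons (P.lf 1787178 0 0) (P.cons (P.lf 0 91918 0) P.nil))))) (P.cons (P.cons (P.lf 10958048 0 0) (P.cons (P.lf 2357788 0 0) (P.cons (P.lf 0 879318 0) (P.cons (P.lf 0 231450 0) P.nil)))) (P.cons (P.cons (P.lf 616474 0 0) (P.cons (P.lf 15898 0 0) (P.cons (P.lf 0 11678 0) P.nil))) (P.cons (P.cons (P.lf 0 162548 0) (P.cons (P.lf 0 24414 0) P.nil)) (P.cons (P.cons (P.lf 1686 0 0) P.nil) P.nil)))))) 135420)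
 EL.nil)))
noncomputable def S328_343_660_808_6 : EL := (EL.cons 12 (TM.mk (P.lf 8589934592 0 0) 0)
 (EL.cons 3 (TM.mk (P.cons (P.lf 2231810752 0 0) (P.cons (P.lf 165246442 0 0) (P.cons (P.lf 0 5491076 0) (P.cons (P.lf 0 46758 0) (P.cons (P.lf 6206 0 0) (P.cons (P.lf 0 78 0) P.nil)))))) 63)
 (EL.cons 7 (TM.mk (P.cons (P.lf 0 1685429077 0) (P.cons (P.lf 77801230 0 0) (P.cons (P.lf 2090644 0 0) (P.cons (P.lf 0 116927 0) (P.cons (P.lf 372 0 0) (P.cons (P.lf 104 0 0) P.nil)))))) 48)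
 EL.nil)))
noncomputable def S328_343_660_808_7 : EL := (EL.cons 12 (TM.mk (P.cons (P.cons (P.lf 0 3021359306 0) (P.cons (P.lf 0 392518952 0) (P.cons (P.lf 169258600 0 0) (P.lf 18806504 0 0)))) (P.cons (P.cons (P.lf 648522776 0 0) (P.cons (P.lf 54357296 0 0) (P.cons (P.lf 0 23439472 0) (P.lf 0 2604384 0)))) (P.cons (P.cons (P.lf 27790216 0 0) (P.cons (P.lf 0 1048520 0) (P.cons (P.lf 452128 0 0) (P.lf 50232 0 0)))) (P.cons (P.cons (P.lf 0 2976228 0) (P.cons (P.lf 0 177928 0) (P.cons (P.lf 76720 0 0) P.nil))) (P.cons (P.cons (P.lf 0 22892 0) (P.cons (P.lf 9096 0 0) P.nil)) (P.cons (P.cons (P.lf 7692 0 0) P.nil) P.nil)))))) 14932)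
 (EL.cons 3 (TM.mk (P.cons (P.cons (P.lf 2865200444 0 0) (P.cons (P.lf 203966164 0 0) (P.cons (P.lf 0 87952510 0) (P.lf 0 9772496 0)))) (P.cons (P.cons (P.lf 328803665 0 0) (P.cons (P.lf 0 13143948 0) (P.cons (P.lf 5667814 0 0) (P.lf 629756 0 0)))) (P.cons (P.cons (P.lf 0 41171668 0) (P.cons (P.lf 0 2048350 0) (P.cons (P.lf 883272 0 0) (P.lf 98142 0 0)))) (P.cons (P.cons (P.lf 0 234027 0) (P.cons (P.lf 198020 0 0) (P.cons (P.lf 0 85384 0) P.nil))) (P.cons (P.cons (P.lf 204948 0 0) (P.cons (P.lf 1936 0 0) P.nil)) (P.cons (P.cons (P.lf 0 5966 0) P.nil) P.nil)))))) 39078)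
 (EL.cons 7 (TM.mk (P.cons (P.cons (P.lf 2311405612 0 0) (P.cons (P.lf 221062900 0 0) (P.cons (P.lf 0 95324818 0) (P.lf 0 10591648 0)))) (P.cons (P.cons (P.lf 154807140 0 0) (P.cons (P.lf 0 6188430 0) (P.cons (P.lf 2668523 0 0) (P.lf 296503 0 0)))) (P.cons (P.cons (P.lf 0 10080315 0) (P.cons (P.lf 0 1336330 0) (P.cons (P.lf 576238 0 0) (P.lf 64022 0 0)))) (P.cons (P.cons (P.lf 0 1440174 0) (P.cons (P.lf 7024 0 0) (P.cons (P.lf 0 3030 0) P.nil))) (P.cons (P.cons (P.lf 54613 0 0) (P.cons (P.lf 6827 0 0) P.nil)) (P.cons (P.cons (P.lf 4541 0 0) P.nil) P.nil)))))) 29906)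
 (EL.cons 10 (TM.mk (P.cons (P.cons (P.lf 0 783764550 0) (P.cons (P.lf 730149183 0 0) (P.cons (P.lf 74937057 0 0) (P.cons (P.lf 0 15584823 0) (P.lf 0 1298733 0))))) (P.cons (P.cons (P.lf 72358839 0 0) (P.cons (P.lf 0 67408950 0) (P.cons (P.lf 0 6918351 0) (P.cons (P.lf 1438824 0 0) (P.lf 119901 0 0))))) (P.cons (P.cons (P.lf 274314 0 0) (P.cons (P.lf 0 255549 0) (P.cons (P.lf 0 26226 0) (P.cons (P.lf 5454 0 0) P.nil)))) (P.cons (P.cons (P.lf 0 198501 0) (P.cons (P.lf 184923 0 0) (P.cons (P.lf 18978 0 0) P.nil))) (P.cons (P.cons (P.lf 4158 0 0) (P.cons (P.lf 0 3873 0) P.nil)) (P.cons (P.cons (P.lf 213 0 0) P.nil) P.nil)))))) 5676)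
 EL.nil))))
noncomputable def S328_343_660_808_8 : EL := (EL.cons 12 (TM.mk (P.cons (P.cons (P.lf 1062710310 0 0) (P.cons (P.lf 276123356 0 0) (P.cons (P.lf 0 101131266 0) (P.cons (P.lf 0 28698334 0) (P.cons (P.lf 1616386 0 0) (P.cons (P.lf 741136 0 0) P.nil)))))) (P.cons (P.cons (P.lf 0 456213094 0) (P.cons (P.lf 0 97507238 0) (P.cons (P.lf 37078478 0 0) (P.cons (P.lf 8956086 0 0) (P.cons (P.lf 0 447684 0) P.nil))))) (P.cons (P.cons (P.lf 29412718 0 0) (P.cons (P.lf 6405570 0 0) (P.cons (P.lf 0 2322350 0) (P.cons (P.lf 0 686192 0) P.nil)))) (P.cons (P.cons (P.lf 6289882 0 0) (P.cons (P.lf 590556 0 0) (P.cons (P.lf 0 251660 0) P.nil))) (P.cons (P.cons (P.lf 0 343386 0) (P.cons (P.lf 0 75624 0) P.nil)) (P.cons (P.cons (P.lf 0 28124 0) P.nil) P.nil)))))) 536366)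
 (EL.cons 3 (TM.mk (P.cons (P.cons (P.lf 0 2291678487 0) (P.cons (P.lf 0 477076524 0) (P.cons (P.lf 182420078 0 0) (P.cons (P.lf 42952897 0 0) (P.cons (P.lf 0 2099820 0) (P.cons (P.lf 0 962801 0) P.nil)))))) (P.cons (P.cons (P.lf 299420166 0 0) (P.cons (P.lf 66279159 0 0) (P.cons (P.lf 0 23852014 0) (P.cons (P.lf 0 7253370 0) (P.cons (P.lf 426106 0 0) P.nil))))) (P.cons (P.cons (P.lf 98963568 0 0) (P.cons (P.lf 8388582 0 0) (P.cons (P.lf 0 3653434 0) (P.cons (P.lf 0 370714 0) P.nil)))) (P.cons (P.cons (P.lf 0 8395975 0) (P.cons (P.lf 0 1711115 0) (P.cons (P.lf 676266 0 0) P.nil))) (P.cons (P.cons (P.lf 0 705258 0) (P.cons (P.lf 15762 0 0) P.nil)) (P.cons (P.cons (P.lf 83969 0 0) P.nil) P.nil)))))) 1035119)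
 (EL.cons 7 (TM.mk (P.cons (P.cons (P.lf 0 1417478875 0) (P.cons (P.lf 0 312572293 0) (P.cons (P.lf 118100928 0 0) (P.cons (P.lf 29364535 0 0) (P.cons (P.lf 0 1503512 0) (P.cons (P.lf 0 689384 0) P.nil)))))) (P.cons (P.cons (P.lf 140972828 0 0) (P.cons (P.lf 31205516 0 0) (P.cons (P.lf 0 11229993 0) (P.cons (P.lf 0 3415031 0) (P.cons (P.lf 200615 0 0) P.nil))))) (P.cons (P.cons (P.lf 55066607 0 0) (P.cons (P.lf 5824991 0 0) (P.cons (P.lf 0 2395039 0) (P.cons (P.lf 0 379782 0) P.nil)))) (P.cons (P.cons (P.lf 0 15776 0) (P.cons (P.lf 0 444110 0) (P.cons (P.lf 164354 0 0) P.nil))) (P.cons (P.cons (P.lf 0 578455 0) (P.cons (P.lf 0 54639 0) P.nil)) (P.cons (P.cons (P.lf 2505 0 0) P.nil) P.nil)))))) 550981)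
 (EL.cons 10 (TM.mk (P.cons (P.cons (P.lf 551350950 0 0) (P.cons (P.lf 0 442005828 0) (P.cons (P.lf 0 150331308 0) (P.cons (P.lf 29457102 0 0) (P.cons (P.lf 8488206 0 0) (P.cons (P.lf 0 167352 0) P.nil)))))) (P.cons (P.cons (P.lf 0 169247202 0) (P.cons (P.lf 141137160 0 0) (P.cons (P.lf 38712240 0 0) (P.cons (P.lf 0 7633854 0) (P.cons (P.lf 0 2028702 0) P.nil))))) (P.cons (P.cons (P.lf 5661642 0 0) (P.cons (P.lf 0 4192296 0) (P.cons (P.lf 0 2015934 0) (P.cons (P.lf 391950 0 0) P.nil)))) (P.cons (P.cons (P.lf 1192362 0 0) (P.cons (P.lf 0 1074378 0) (P.cons (P.lf 0 163626 0) P.nil))) (P.cons (P.cons (P.lf 0 77082 0) (P.cons (P.lf 64194 0 0) P.nil)) (P.cons (P.cons (P.lf 0 2784 0) P.nil) P.nil)))))) 670668)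
 EL.nil))))
noncomputable def S328_343_660_808_9 : EL := (EL.cons 3 (TM.mk (P.cons (P.lf 2231810752 0 0) (P.cons (P.lf 165246442 0 0) (P.cons (P.lf 0 5491076 0) (P.cons (P.lf 0 46758 0) (P.cons (P.lf 6206 0 0) (P.cons (P.lf 0 78 0) P.nil)))))) 63)
 (EL.cons 7 (TM.mk (P.cons (P.lf 0 1685429077 0) (P.cons (P.lf 77801230 0 0) (P.cons (P.lf 2090644 0 0) (P.cons (P.lf 0 116927 0) (P.cons (P.lf 372 0 0) (P.cons (P.lf 104 0 0) P.nil)))))) 48)
 EL.nil))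
noncomputable def S328_343_660_808_10 : EL := (EL.cons 3 (TM.mk (P.cons (P.cons (P.lf 0 785000410 0) (P.cons (P.lf 0 101983082 0) (P.cons (P.lf 43976255 0 0) (P.lf 4886248 0 0)))) (P.cons (P.cons (P.lf 110374673 0 0) (P.cons (P.lf 6571974 0 0) (P.cons (P.lf 0 2833907 0) (P.lf 0 314878 0)))) (P.cons (P.cons (P.lf 21627533 0 0) (P.cons (P.lf 1024175 0 0) (P.cons (P.lf 0 441636 0) (P.lf 0 49071 0)))) (P.cons (P.cons (P.lf 0 636786 0) (P.cons (P.lf 0 99010 0) (P.cons (P.lf 42692 0 0) P.nil))) (P.cons (P.cons (P.lf 0 86679 0) (P.cons (P.lf 0 968 0) P.nil)) (P.cons (P.cons (P.lf 3805 0 0) P.nil) P.nil)))))) 9680)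
 (EL.cons 7 (TM.mk (P.cons (P.cons (P.lf 592820209 0 0) (P.cons (P.lf 77016052 0 0) (P.cons (P.lf 0 33210190 0) (P.lf 0 3690019 0)))) (P.cons (P.cons (P.lf 0 154611726 0) (P.cons (P.lf 0 14220576 0) (P.cons (P.lf 6132071 0 0) (P.lf 681340 0 0)))) (P.cons (P.cons (P.lf 0 314223 0) (P.cons (P.lf 602525 0 0) (P.cons (P.lf 0 259814 0) (P.lf 0 28867 0)))) (P.cons (P.cons (P.lf 1034634 0 0) (P.cons (P.lf 43987 0 0) (P.cons (P.lf 0 18966 0) P.nil))) (P.cons (P.cons (P.lf 0 24659 0) (P.cons (P.lf 0 4408 0) P.nil)) (P.cons (P.cons (P.lf 0 2827 0) P.nil) P.nil)))))) 5947)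
 EL.nil))
noncomputable def S328_343_660_808_11 : EL := (EL.cons 3 (TM.mk (P.cons (P.cons (P.lf 276110169 0 0) (P.cons (P.lf 71741532 0 0) (P.cons (P.lf 0 26275618 0) (P.cons (P.lf 0 7456313 0) (P.cons (P.lf 419964 0 0) (P.cons (P.lf 192559 0 0) P.nil)))))) (P.cons (P.cons (P.lf 0 98088312 0) (P.cons (P.lf 0 20022189 0) (P.cons (P.lf 7688132 0 0) (P.cons (P.lf 1774866 0 0) (P.cons (P.lf 0 85220 0) P.nil))))) (P.cons (P.cons (P.lf 0 1813680 0) (P.cons (P.lf 0 388002 0) (P.cons (P.lf 174548 0 0) (P.cons (P.lf 12350 0 0) P.nil)))) (P.cons (P.cons (P.lf 2485883 0 0) (P.cons (P.lf 337489 0 0) (P.cons (P.lf 0 133212 0) P.nil))) (P.cons (P.cons (P.lf 16230 0 0) (P.cons (P.lf 0 11652 0) P.nil)) (P.cons (P.cons (P.lf 0 18433 0) P.nil) P.nil)))))) 204007)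
 (EL.cons 7 (TM.mk (P.cons (P.cons (P.lf 0 208514143 0) (P.cons (P.lf 0 54178099 0) (P.cons (P.lf 19842942 0 0) (P.cons (P.lf 5630893 0 0) (P.cons (P.lf 0 317150 0) (P.cons (P.lf 0 145418 0) P.nil)))))) (P.cons (P.cons (P.lf 99138704 0 0) (P.cons (P.lf 21632792 0 0) (P.cons (P.lf 0 8191131 0) (P.cons (P.lf 0 2017199 0) (P.cons (P.lf 102479 0 0) P.nil))))) (P.cons (P.cons (P.lf 0 9644455 0) (P.cons (P.lf 0 2072779 0) (P.cons (P.lf 766883 0 0) (P.cons (P.lf 208770 0 0) P.nil)))) (P.cons (P.cons (P.lf 0 1093238 0) (P.cons (P.lf 0 85346 0) (P.cons (P.lf 38744 0 0) P.nil))) (P.cons (P.cons (P.lf 137759 0 0) (P.cons (P.lf 23085 0 0) P.nil)) (P.cons (P.cons (P.lf 3531 0 0) P.nil) P.nil)))))) 135693)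
 EL.nil))
noncomputable def S328_343_660_808_12 : EL := (EL.cons 4 (TM.mk (P.cons (P.lf 0 2231810752 0) (P.cons (P.lf 0 165246442 0) (P.cons (P.lf 5491076 0 0) (P.cons (P.lf 46758 0 0) (P.cons (P.lf 0 6206 0) (P.cons (P.lf 78 0 0) P.nil)))))) 63)
 (EL.cons 8 (TM.mk (P.cons (P.lf 1685429077 0 0) (P.cons (P.lf 0 77801230 0) (P.cons (P.lf 0 2090644 0) (P.cons (P.lf 116927 0 0) (P.cons (P.lf 0 372 0) (P.cons (P.lf 0 104 0) P.nil)))))) 48)
 EL.nil))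
noncomputable def S328_343_660_808_13 : EL := (EL.cons 4 (TM.mk (P.cons (P.cons (P.lf 785000410 0 0) (P.cons (P.lf 101983082 0 0) (P.cons (P.lf 0 43976255 0) (P.lf 0 4886248 0)))) (P.cons (P.cons (P.lf 0 110374673 0) (P.cons (P.lf 0 6571974 0) (P.cons (P.lf 2833907 0 0) (P.lf 314878 0 0)))) (P.cons (P.cons (P.lf 0 21627533 0) (P.cons (P.lf 0 1024175 0) (P.cons (P.lf 441636 0 0) (P.lf 49071 0 0)))) (P.cons (P.cons (P.lf 636786 0 0) (P.cons (P.lf 99010 0 0) (P.cons (P.lf 0 42692 0) P.nil))) (P.cons (P.cons (P.lf 86679 0 0) (P.cons (P.lf 968 0 0) P.nil)) (P.cons (P.cons (P.lf 0 3805 0) P.nil) P.nil)))))) 9680)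
 (EL.cons 8 (TM.mk (P.cons (P.cons (P.lf 0 592820209 0) (P.cons (P.lf 0 77016052 0) (P.cons (P.lf 33210190 0 0) (P.lf 3690019 0 0)))) (P.cons (P.cons (P.lf 154611726 0 0) (P.cons (P.lf 14220576 0 0) (P.cons (P.lf 0 6132071 0) (P.lf 0 681340 0)))) (P.cons (P.cons (P.lf 314223 0 0) (P.cons (P.lf 0 602525 0) (P.cons (P.lf 259814 0 0) (P.lf 28867 0 0)))) (P.cons (P.cons (P.lf 0 1034634 0) (P.cons (P.lf 0 43987 0) (P.cons (P.lf 18966 0 0) P.nil))) (P.cons (P.cons (P.lf 24659 0 0) (P.cons (P.lf 4408 0 0) P.nil)) (P.cons (P.cons (P.lf 2827 0 0) P.nil) P.nil)))))) 5947)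
 EL.nil))
noncomputable def S328_343_660_808_14 : EL := (EL.cons 4 (TM.mk (P.cons (P.cons (P.lf 0 276110169 0) (P.cons (P.lf 0 71741532 0) (P.cons (P.lf 26275618 0 0) (P.cons (P.lf 7456313 0 0) (P.cons (P.lf 0 419964 0) (P.cons (P.lf 0 192559 0) P.nil)))))) (P.cons (P.cons (P.lf 98088312 0 0) (P.cons (P.lf 20022189 0 0) (P.cons (P.lf 0 7688132 0) (P.cons (P.lf 0 1774866 0) (P.cons (P.lf 85220 0 0) P.nil))))) (P.cons (P.cons (P.lf 1813680 0 0) (P.cons (P.lf 388002 0 0) (P.cons (P.lf 0 174548 0) (P.cons (P.lf 0 12350 0) P.nil)))) (P.cons (P.cons (P.lf 0 2485883 0) (P.cons (P.lf 0 337489 0) (P.cons (P.lf 133212 0 0) P.nil))) (P.cons (P.cons (P.lf 0 16230 0) (P.cons (P.lf 11652 0 0) P.nil)) (P.cons (P.cons (P.lf 18433 0 0) P.nil) P.nil)))))) 204007)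
 (EL.cons 8 (TM.mk (P.cons (P.cons (P.lf 208514143 0 0) (P.cons (P.lf 54178099 0 0) (P.cons (P.lf 0 19842942 0) (P.cons (P.lf 0 5630893 0) (P.cons (P.lf 317150 0 0) (P.cons (P.lf 145418 0 0) P.nil)))))) (P.cons (P.cons (P.lf 0 99138704 0) (P.cons (P.lf 0 21632792 0) (P.cons (P.lf 8191131 0 0) (P.cons (P.lf 2017199 0 0) (P.cons (P.lf 0 102479 0) P.nil))))) (P.cons (P.cons (P.lf 9644455 0 0) (P.cons (P.lf 2072779 0 0) (P.cons (P.lf 0 766883 0) (P.cons (P.lf 0 208770 0) P.nil)))) (P.cons (P.cons (P.lf 1093238 0 0) (P.cons (P.lf 85346 0 0) (P.cons (P.lf 0 38744 0) P.nil))) (P.cons (P.cons (P.lf 0 137759 0) (P.cons (P.lf 0 23085 0) P.nil)) (P.cons (P.cons (P.lf 0 3531 0) P.nil) P.nil)))))) 135693)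
 EL.nil))
noncomputable def S328_343_660_808_15 : EL := (EL.cons 4 (TM.mk (P.cons (P.lf 0 1237039574 0) (P.cons (P.lf 0 183184338 0) (P.cons (P.lf 0 694468 0) (P.cons (P.lf 502534 0 0) (P.cons (P.lf 0 10530 0) (P.cons (P.lf 0 549 0) P.nil)))))) 104)
 (EL.cons 8 (TM.mk (P.cons (P.lf 934193217 0 0) (P.cons (P.lf 26045624 0 0) (P.cons (P.lf 0 6650169 0) (P.cons (P.lf 65538 0 0) (P.cons (P.lf 10944 0 0) (P.cons (P.lf 0 360 0) P.nil)))))) 71)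
 EL.nil))
noncomputable def S328_343_660_808_16 : EL := (EL.cons 4 (TM.mk (P.cons (P.cons (P.lf 435107040 0 0) (P.cons (P.lf 56526795 0 0) (P.cons (P.lf 0 24374991 0) (P.lf 0 2708330 0)))) (P.cons (P.cons (P.lf 0 28962109 0) (P.cons (P.lf 542634 0 0) (P.cons (P.lf 0 233990 0) (P.lf 0 25998 0)))) (P.cons (P.cons (P.lf 0 17587860 0) (P.cons (P.lf 0 976462 0) (P.cons (P.lf 421062 0 0) (P.lf 46785 0 0)))) (P.cons (P.cons (P.lf 0 393220 0) (P.cons (P.lf 20625 0 0) (P.cons (P.lf 0 8893 0) P.nil))) (P.cons (P.cons (P.lf 106163 0 0) (P.cons (P.lf 6229 0 0) P.nil)) (P.cons (P.cons (P.lf 645 0 0) P.nil) P.nil)))))) 9258)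
 (EL.cons 8 (TM.mk (P.cons (P.cons (P.lf 0 328586130 0) (P.cons (P.lf 0 42688164 0) (P.cons (P.lf 18407617 0 0) (P.lf 2045289 0 0)))) (P.cons (P.cons (P.lf 61368614 0 0) (P.cons (P.lf 4721434 0 0) (P.cons (P.lf 0 2035935 0) (P.lf 0 226214 0)))) (P.cons (P.cons (P.lf 7327781 0 0) (P.cons (P.lf 354667 0 0) (P.cons (P.lf 0 152936 0) (P.lf 0 16993 0)))) (P.cons (P.cons (P.lf 0 764541 0) (P.cons (P.lf 0 67606 0) (P.cons (P.lf 29152 0 0) P.nil))) (P.cons (P.cons (P.lf 0 31929 0) (P.cons (P.lf 1176 0 0) P.nil)) (P.cons (P.cons (P.lf 4236 0 0) P.nil) P.nil)))))) 6990)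
 EL.nil))
noncomputable def S328_343_660_808_17 : EL := (EL.cons 4 (TM.mk (P.cons (P.cons (P.lf 0 153041294 0) (P.cons (P.lf 0 39764623 0) (P.cons (P.lf 14563950 0 0) (P.cons (P.lf 4132857 0 0) (P.cons (P.lf 0 232775 0) (P.cons (P.lf 0 106730 0) P.nil)))))) (P.cons (P.cons (P.lf 43036620 0 0) (P.cons (P.lf 8153593 0 0) (P.cons (P.lf 0 3183013 0) (P.cons (P.lf 0 677763 0) (P.cons (P.lf 30000 0 0) P.nil))))) (P.cons (P.cons (P.lf 5407302 0 0) (P.cons (P.lf 1134594 0 0) (P.cons (P.lf 0 448096 0) (P.cons (P.lf 0 89853 0) P.nil)))) (P.cons (P.cons (P.lf 0 1433992 0) (P.cons (P.lf 0 197610 0) (P.cons (P.lf 76852 0 0) P.nil))) (P.cons (P.cons (P.lf 0 115053 0) (P.cons (P.lf 0 8263 0) P.nil)) (P.cons (P.cons (P.lf 13076 0 0) P.nil) P.nil)))))) 143678)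
 (EL.cons 8 (TM.mk (P.cons (P.cons (P.lf 115574426 0 0) (P.cons (P.lf 30029630 0 0) (P.cons (P.lf 0 10998470 0) (P.cons (P.lf 0 3121069 0) (P.cons (P.lf 175789 0 0) (P.cons (P.lf 80601 0 0) P.nil)))))) (P.cons (P.cons (P.lf 0 46392928 0) (P.cons (P.lf 0 9767105 0) (P.cons (P.lf 3725806 0 0) (P.cons (P.lf 886997 0 0) (P.cons (P.lf 0 43786 0) P.nil))))) (P.cons (P.cons (P.lf 992743 0 0) (P.cons (P.lf 187211 0 0) (P.cons (P.lf 0 61845 0) (P.cons (P.lf 0 25253 0) P.nil)))) (P.cons (P.cons (P.lf 1134534 0 0) (P.cons (P.lf 161242 0 0) (P.cons (P.lf 0 63887 0) P.nil))) (P.cons (P.cons (P.lf 0 43170 0) (P.cons (P.lf 0 11785 0) P.nil)) (P.cons (P.cons (P.lf 0 9370 0) P.nil) P.nil)))))) 100504)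
 EL.nil))
noncomputable def S328_343_660_808_18 : EL := (EL.cons 4 (TM.mk (P.cons (P.lf 0 685661589 0) (P.cons (P.lf 0 152302077 0) (P.cons (P.lf 0 6215721 0) (P.cons (P.lf 514219 0 0) (P.cons (P.lf 15954 0 0) (P.cons (P.lf 0 1671 0) P.nil)))))) 140)
 (EL.cons 8 (TM.mk (P.cons (P.lf 517801063 0 0) (P.cons (P.lf 52775196 0 0) (P.cons (P.lf 0 3891115 0) (P.cons (P.lf 0 282959 0) (P.cons (P.lf 18962 0 0) (P.cons (P.lf 258 0 0) P.nil)))))) 102)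
 EL.nil))
noncomputable def S328_343_660_808_19 : EL := (EL.cons 4 (TM.mk (P.cons (P.cons (P.lf 241169475 0 0) (P.cons (P.lf 31331457 0 0) (P.cons (P.lf 0 13510477 0) (P.lf 0 1501163 0)))) (P.cons (P.cons (P.lf 1803522 0 0) (P.cons (P.lf 2620594 0 0) (P.cons (P.lf 0 1130030 0) (P.lf 0 125558 0)))) (P.cons (P.cons (P.lf 0 11530485 0) (P.cons (P.lf 0 596047 0) (P.cons (P.lf 257022 0 0) (P.lf 28558 0 0)))) (P.cons (P.cons (P.lf 0 905303 0) (P.cons (P.lf 0 30037 0) (P.cons (P.lf 12952 0 0) P.nil))) (P.cons (P.cons (P.lf 67697 0 0) (P.cons (P.lf 5712 0 0) P.nil)) (P.cons (P.cons (P.lf 5400 0 0) P.nil) P.nil)))))) 10375)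
 (EL.cons 8 (TM.mk (P.cons (P.cons (P.lf 0 182127470 0) (P.cons (P.lf 0 23661033 0) (P.cons (P.lf 10202904 0 0) (P.lf 1133655 0 0)))) (P.cons (P.cons (P.lf 20530185 0 0) (P.cons (P.lf 865082 0 0) (P.cons (P.lf 0 373033 0) (P.lf 0 41448 0)))) (P.cons (P.cons (P.lf 7028246 0 0) (P.cons (P.lf 448563 0 0) (P.cons (P.lf 0 193425 0) (P.lf 0 21491 0)))) (P.cons (P.cons (P.lf 0 202913 0) (P.cons (P.lf 0 28860 0) (P.cons (P.lf 12444 0 0) P.nil))) (P.cons (P.cons (P.lf 0 60286 0) (P.cons (P.lf 0 2726 0) P.nil)) (P.cons (P.cons (P.lf 2096 0 0) P.nil) P.nil)))))) 5767)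
 EL.nil))
noncomputable def S328_343_660_808_20 : EL := (EL.cons 4 (TM.mk (P.cons (P.cons (P.lf 0 84827145 0) (P.cons (P.lf 0 22040583 0) (P.cons (P.lf 8072450 0 0) (P.cons (P.lf 2290743 0 0) (P.cons (P.lf 0 129021 0) (P.cons (P.lf 0 59158 0) P.nil)))))) (P.cons (P.cons (P.lf 17573451 0 0) (P.cons (P.lf 2887425 0 0) (P.cons (P.lf 0 1166572 0) (P.cons (P.lf 0 206057 0) (P.cons (P.lf 7075 0 0) P.nil))))) (P.cons (P.cons (P.lf 4972041 0 0) (P.cons (P.lf 1017724 0 0) (P.cons (P.lf 0 398859 0) (P.cons (P.lf 0 83254 0) P.nil)))) (P.cons (P.cons (P.lf 0 629828 0) (P.cons (P.lf 0 73624 0) (P.cons (P.lf 28379 0 0) P.nil))) (P.cons (P.cons (P.lf 0 130731 0) (P.cons (P.lf 0 14393 0) P.nil)) (P.cons (P.cons (P.lf 4487 0 0) P.nil) P.nil)))))) 110450)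
 (EL.cons 8 (TM.mk (P.cons (P.cons (P.lf 64060153 0 0) (P.cons (P.lf 16644709 0 0) (P.cons (P.lf 0 6096190 0) (P.cons (P.lf 0 1729934 0) (P.cons (P.lf 97435 0 0) (P.cons (P.lf 44675 0 0) P.nil)))))) (P.cons (P.cons (P.lf 0 20971390 0) (P.cons (P.lf 0 4181275 0) (P.cons (P.lf 1613755 0 0) (P.cons (P.lf 363554 0 0) (P.cons (P.lf 0 17055 0) P.nil))))) (P.cons (P.cons (P.lf 0 1511294 0) (P.cons (P.lf 0 338021 0) (P.cons (P.lf 133623 0 0) (P.cons (P.lf 26661 0 0) P.nil)))) (P.cons (P.cons (P.lf 731511 0 0) (P.cons (P.lf 110026 0 0) (P.cons (P.lf 0 42902 0) P.nil))) (P.cons (P.cons (P.lf 21995 0 0) (P.cons (P.lf 0 10 0) P.nil)) (P.cons (P.cons (P.lf 0 8598 0) P.nil) P.nil)))))) 70675)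
 EL.nil))
noncomputable def S328_343_660_808_21 : EL := (EL.cons 4 (TM.mk (P.cons (P.cons (P.lf 0 3650200854 0) (P.cons (P.lf 0 305949246 0) (P.cons (P.lf 131928765 0 0) (P.lf 14658744 0 0)))) (P.cons (P.cons (P.lf 0 218428992 0) (P.cons (P.lf 19715922 0 0) (P.cons (P.lf 0 8501721 0) (P.lf 0 944634 0)))) (P.cons (P.cons (P.lf 62799201 0 0) (P.cons (P.lf 3072525 0 0) (P.cons (P.lf 0 1324908 0) (P.lf 0 147213 0)))) (P.cons (P.cons (P.lf 0 402759 0) (P.cons (P.lf 0 297030 0) (P.cons (P.lf 128076 0 0) P.nil))) (P.cons (P.cons (P.lf 0 291627 0) (P.cons (P.lf 0 2904 0) P.nil)) (P.cons (P.cons (P.lf 9771 0 0) P.nil) P.nil)))))) 29379)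
 (EL.cons 8 (TM.mk (P.cons (P.cons (P.lf 0 1718585403 0) (P.cons (P.lf 0 144046848 0) (P.cons (P.lf 62114628 0 0) (P.lf 6901629 0 0)))) (P.cons (P.cons (P.lf 0 309418866 0) (P.cons (P.lf 0 8032146 0) (P.cons (P.lf 3463548 0 0) (P.lf 384837 0 0)))) (P.cons (P.cons (P.lf 9766092 0 0) (P.cons (P.lf 1938855 0 0) (P.cons (P.lf 0 836052 0) (P.lf 0 92889 0)))) (P.cons (P.cons (P.lf 2474808 0 0) (P.cons (P.lf 36963 0 0) (P.cons (P.lf 0 15936 0) P.nil))) (P.cons (P.cons (P.lf 0 79272 0) (P.cons (P.lf 0 11235 0) P.nil)) (P.cons (P.cons (P.lf 0 7368 0) P.nil) P.nil)))))) 23940)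
 (EL.cons 11 (TM.mk (P.cons (P.cons (P.lf 783764550 0 0) (P.cons (P.lf 0 730149183 0) (P.cons (P.lf 0 74937057 0) (P.cons (P.lf 15584823 0 0) (P.lf 1298733 0 0))))) (P.cons (P.cons (P.lf 0 72358839 0) (P.cons (P.lf 67408950 0 0) (P.cons (P.lf 6918351 0 0) (P.cons (P.lf 0 1438824 0) (P.lf 0 119901 0))))) (P.cons (P.cons (P.lf 0 274314 0) (P.cons (P.lf 255549 0 0) (P.cons (P.lf 26226 0 0) (P.cons (P.lf 0 5454 0) P.nil)))) (P.cons (P.cons (P.lf 198501 0 0) (P.cons (P.lf 0 184923 0) (P.cons (P.lf 0 18978 0) P.nil))) (P.cons (P.cons (P.lf 0 4158 0) (P.cons (P.lf 3873 0 0) P.nil)) (P.cons (P.cons (P.lf 0 213 0) P.nil) P.nil)))))) 5676)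
 EL.nil)))
noncomputable def S328_343_660_808_22 : EL := (EL.cons 4 (TM.mk (P.cons (P.cons (P.lf 1283894328 0 0) (P.cons (P.lf 274409028 0 0) (P.cons (P.lf 0 104347848 0) (P.cons (P.lf 0 25204605 0) (P.cons (P.lf 1259892 0 0) (P.cons (P.lf 577680 0 0) P.nil)))))) (P.cons (P.cons (P.lf 0 198754239 0) (P.cons (P.lf 0 43150674 0) (P.cons (P.lf 15770073 0 0) (P.cons (P.lf 4514118 0 0) (P.cons (P.lf 0 255663 0) P.nil))))) (P.cons (P.cons (P.lf 0 50388624 0) (P.cons (P.lf 0 4388292 0) (P.cons (P.lf 1913991 0 0) (P.cons (P.lf 191532 0 0) P.nil)))) (P.cons (P.cons (P.lf 5440929 0 0) (P.cons (P.lf 1024302 0 0) (P.cons (P.lf 0 404739 0) P.nil))) (P.cons (P.cons (P.lf 360744 0 0) (P.cons (P.lf 0 13707 0) P.nil)) (P.cons (P.cons (P.lf 0 51201 0) P.nil) P.nil)))))) 415545)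
 (EL.cons 8 (TM.mk (P.cons (P.cons (P.lf 604482366 0 0) (P.cons (P.lf 129197097 0 0) (P.cons (P.lf 0 49128993 0) (P.cons (P.lf 0 11866821 0) (P.cons (P.lf 593181 0 0) (P.cons (P.lf 271983 0 0) P.nil)))))) (P.cons (P.cons (P.lf 0 20917062 0) (P.cons (P.lf 0 4786362 0) (P.cons (P.lf 1519431 0 0) (P.cons (P.lf 698916 0 0) (P.cons (P.lf 0 49068 0) P.nil))))) (P.cons (P.cons (P.lf 0 32355531 0) (P.cons (P.lf 0 3948885 0) (P.cons (P.lf 1580961 0 0) (P.cons (P.lf 294276 0 0) P.nil)))) (P.cons (P.cons (P.lf 0 538731 0) (P.cons (P.lf 179382 0 0) (P.cons (P.lf 0 62805 0) P.nil))) (P.cons (P.cons (P.lf 358107 0 0) (P.cons (P.lf 38862 0 0) P.nil)) (P.cons (P.cons (P.lf 513 0 0) P.nil) P.nil)))))) 207633)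
 (EL.cons 11 (TM.mk (P.cons (P.cons (P.lf 0 275675475 0) (P.cons (P.lf 221002914 0 0) (P.cons (P.lf 75165654 0 0) (P.cons (P.lf 0 14728551 0) (P.cons (P.lf 0 4244103 0) (P.cons (P.lf 83676 0 0) P.nil)))))) (P.cons (P.cons (P.lf 84623601 0 0) (P.cons (P.lf 0 70568580 0) (P.cons (P.lf 0 19356120 0) (P.cons (P.lf 3816927 0 0) (P.cons (P.lf 1014351 0 0) P.nil))))) (P.cons (P.cons (P.lf 0 2830821 0) (P.cons (P.lf 2096148 0 0) (P.cons (P.lf 1007967 0 0) (P.cons (P.lf 0 195975 0) P.nil)))) (P.cons (P.cons (P.lf 0 596181 0) (P.cons (P.lf 537189 0 0) (P.cons (P.lf 81813 0 0) P.nil))) (P.cons (P.cons (P.lf 38541 0 0) (P.cons (P.lf 0 32097 0) P.nil)) (P.cons (P.cons (P.lf 1392 0 0) P.nil) P.nil)))))) 335334)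
 EL.nil)))
noncomputable def S328_343_660_808_23 : EL := (EL.cons 4 (TM.mk (P.cons (P.cons (P.lf 0 2023219443 0) (P.cons (P.lf 0 169580382 0) (P.cons (P.lf 73124973 0 0) (P.lf 8124990 0 0)))) (P.cons (P.cons (P.lf 0 270872034 0) (P.cons (P.lf 0 1627905 0) (P.cons (P.lf 701973 0 0) (P.lf 77997 0 0)))) (P.cons (P.cons (P.lf 30821772 0 0) (P.cons (P.lf 2929386 0 0) (P.cons (P.lf 0 1263183 0) (P.lf 0 140352 0)))) (P.cons (P.cons (P.lf 2694264 0 0) (P.cons (P.lf 0 61875 0) (P.cons (P.lf 26676 0 0) P.nil))) (P.cons (P.cons (P.lf 0 266901 0) (P.cons (P.lf 0 18690 0) P.nil)) (P.cons (P.cons (P.lf 0 6996 0) P.nil) P.nil)))))) 34494)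
 (EL.cons 8 (TM.mk (P.cons (P.cons (P.lf 0 952570980 0) (P.cons (P.lf 0 79841736 0) (P.cons (P.lf 34428657 0 0) (P.lf 3825408 0 0)))) (P.cons (P.cons (P.lf 0 242033220 0) (P.cons (P.lf 0 10363623 0) (P.cons (P.lf 4468908 0 0) (P.lf 496542 0 0)))) (P.cons (P.cons (P.lf 0 4941576 0) (P.cons (P.lf 941466 0 0) (P.cons (P.lf 0 405966 0) (P.lf 0 45102 0)))) (P.cons (P.cons (P.lf 2214438 0 0) (P.cons (P.lf 112683 0 0) (P.cons (P.lf 0 48588 0) P.nil))) (P.cons (P.cons (P.lf 45252 0 0) (P.cons (P.lf 0 7482 0) P.nil)) (P.cons (P.cons (P.lf 0 11268 0) P.nil) P.nil)))))) 21945)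
 (EL.cons 11 (TM.mk (P.cons (P.cons (P.lf 434422032 0 0) (P.cons (P.lf 0 404704311 0) (P.cons (P.lf 0 41535825 0) (P.cons (P.lf 8638296 0 0) (P.lf 719856 0 0))))) (P.cons (P.cons (P.lf 0 7941555 0) (P.cons (P.lf 7398291 0 0) (P.cons (P.lf 759303 0 0) (P.cons (P.lf 0 157914 0) (P.lf 0 13158 0))))) (P.cons (P.cons (P.lf 0 4190445 0) (P.cons (P.lf 3903789 0 0) (P.cons (P.lf 400653 0 0) (P.cons (P.lf 0 83322 0) P.nil)))) (P.cons (P.cons (P.lf 188340 0 0) (P.cons (P.lf 0 175458 0) (P.cons (P.lf 0 18006 0) P.nil))) (P.cons (P.cons (P.lf 8262 0 0) (P.cons (P.lf 0 7698 0) P.nil)) (P.cons (P.cons (P.lf 0 681 0) P.nil) P.nil)))))) 14376)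
 EL.nil)))
noncomputable def S328_343_660_808_24 : EL := (EL.cons 4 (TM.mk (P.cons (P.cons (P.lf 711632064 0 0) (P.cons (P.lf 152098392 0 0) (P.cons (P.lf 0 57837528 0) (P.cons (P.lf 0 13970313 0) (P.cons (P.lf 698328 0 0) (P.cons (P.lf 320193 0 0) P.nil)))))) (P.cons (P.cons (P.lf 0 57474492 0) (P.cons (P.lf 0 12655809 0) (P.cons (P.lf 4458603 0 0) (P.cons (P.lf 1467687 0 0) (P.cons (P.lf 0 90003 0) P.nil))))) (P.cons (P.cons (P.lf 0 37836846 0) (P.cons (P.lf 0 4577421 0) (P.cons (P.lf 1850373 0 0) (P.cons (P.lf 325791 0 0) P.nil)))) (P.cons (P.cons (P.lf 1203993 0 0) (P.cons (P.lf 443313 0 0) (P.cons (P.lf 0 166083 0) P.nil))) (P.cons (P.cons (P.lf 496245 0 0) (P.cons (P.lf 41346 0 0) P.nil)) (P.cons (P.cons (P.lf 0 20739 0) P.nil) P.nil)))))) 235092)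
 (EL.cons 8 (TM.mk (P.cons (P.cons (P.lf 335050185 0 0) (P.cons (P.lf 71610873 0 0) (P.cons (P.lf 0 27231030 0) (P.cons (P.lf 0 6577494 0) (P.cons (P.lf 328785 0 0) (P.cons (P.lf 150753 0 0) P.nil)))))) (P.cons (P.cons (P.lf 13213761 0 0) (P.cons (P.lf 2649204 0 0) (P.cons (P.lf 0 1174038 0) (P.cons (P.lf 0 99612 0) (P.cons (P.lf 0 2853 0) P.nil))))) (P.cons (P.cons (P.lf 0 19616670 0) (P.cons (P.lf 0 2561391 0) (P.cons (P.lf 1005642 0 0) (P.cons (P.lf 207975 0 0) P.nil)))) (P.cons (P.cons (P.lf 0 1604952 0) (P.cons (P.lf 0 57603 0) (P.cons (P.lf 28566 0 0) P.nil))) (P.cons (P.cons (P.lf 221679 0 0) (P.cons (P.lf 34539 0 0) P.nil)) (P.cons (P.cons (P.lf 16047 0 0) P.nil) P.nil)))))) 118422)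
 (EL.cons 11 (TM.mk (P.cons (P.cons (P.lf 0 152800353 0) (P.cons (P.lf 122496654 0 0) (P.cons (P.lf 41662530 0 0) (P.cons (P.lf 0 8163684 0) (P.cons (P.lf 0 2352405 0) (P.cons (P.lf 46380 0 0) P.nil)))))) (P.cons (P.cons (P.lf 35591292 0 0) (P.cons (P.lf 0 30044658 0) (P.cons (P.lf 0 7643883 0) (P.cons (P.lf 1511181 0 0) (P.cons (P.lf 388056 0 0) P.nil))))) (P.cons (P.cons (P.lf 2279790 0 0) (P.cons (P.lf 0 2035632 0) (P.cons (P.lf 0 338175 0) (P.cons (P.lf 68103 0 0) P.nil)))) (P.cons (P.cons (P.lf 0 558825 0) (P.cons (P.lf 477444 0 0) (P.cons (P.lf 112236 0 0) P.nil))) (P.cons (P.cons (P.lf 0 648 0) (P.cons (P.lf 2556 0 0) P.nil)) (P.cons (P.cons (P.lf 3333 0 0) P.nil) P.nil)))))) 192684)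
 EL.nil)))
noncomputable def S328_343_660_808_25 : EL := (EL.cons 4 (TM.mk (P.cons (P.cons (P.lf 0 1121422377 0) (P.cons (P.lf 0 93994368 0) (P.cons (P.lf 40531431 0 0) (P.lf 4503489 0 0)))) (P.cons (P.cons (P.lf 0 233169627 0) (P.cons (P.lf 0 7861785 0) (P.cons (P.lf 3390093 0 0) (P.lf 376677 0 0)))) (P.cons (P.cons (P.lf 8726460 0 0) (P.cons (P.lf 1788141 0 0) (P.cons (P.lf 0 771066 0) (P.lf 0 85674 0)))) (P.cons (P.cons (P.lf 3151161 0 0) (P.cons (P.lf 90111 0 0) (P.cons (P.lf 0 38859 0) P.nil))) (P.cons (P.cons (P.lf 0 79368 0) (P.cons (P.lf 0 17136 0) P.nil)) (P.cons (P.cons (P.lf 0 19239 0) P.nil) P.nil)))))) 28638)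
 (EL.cons 8 (TM.mk (P.cons (P.cons (P.lf 0 527987418 0) (P.cons (P.lf 0 44254374 0) (P.cons (P.lf 19082985 0 0) (P.lf 2120331 0 0)))) (P.cons (P.cons (P.lf 0 173246193 0) (P.cons (P.lf 0 9020964 0) (P.cons (P.lf 3889941 0 0) (P.lf 432213 0 0)))) (P.cons (P.cons (P.lf 0 11372850 0) (P.cons (P.lf 205395 0 0) (P.cons (P.lf 0 88566 0) (P.lf 0 9837 0)))) (P.cons (P.cons (P.lf 1365738 0 0) (P.cons (P.lf 116154 0 0) (P.cons (P.lf 0 50085 0) P.nil))) (P.cons (P.cons (P.lf 124041 0 0) (P.cons (P.lf 0 807 0) P.nil)) (P.cons (P.cons (P.lf 0 7704 0) P.nil) P.nil)))))) 16965)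
 (EL.cons 11 (TM.mk (P.cons (P.cons (P.lf 240789792 0 0) (P.cons (P.lf 0 224317965 0) (P.cons (P.lf 0 23022318 0) (P.cons (P.lf 4788000 0 0) (P.lf 398997 0 0))))) (P.cons (P.cons (P.lf 13426602 0 0) (P.cons (P.lf 0 12508122 0) (P.cons (P.lf 0 1283739 0) (P.cons (P.lf 266982 0 0) (P.lf 22248 0 0))))) (P.cons (P.cons (P.lf 0 3241011 0) (P.cons (P.lf 3019302 0 0) (P.cons (P.lf 309876 0 0) (P.cons (P.lf 0 64443 0) P.nil)))) (P.cons (P.cons (P.lf 0 61794 0) (P.cons (P.lf 57564 0 0) (P.cons (P.lf 5907 0 0) P.nil))) (P.cons (P.cons (P.lf 18786 0 0) (P.cons (P.lf 0 17499 0) P.nil)) (P.cons (P.cons (P.lf 0 267 0) P.nil) P.nil)))))) 13221)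
 EL.nil)))
noncomputable def S328_343_660_808_26 : EL := (EL.cons 4 (TM.mk (P.cons (P.cons (P.lf 394440711 0 0) (P.cons (P.lf 84304518 0 0) (P.cons (P.lf 0 32057964 0) (P.cons (P.lf 0 7743411 0) (P.cons (P.lf 387066 0 0) (P.cons (P.lf 177474 0 0) P.nil)))))) (P.cons (P.cons (P.lf 0 2651790 0) (P.cons (P.lf 0 772788 0) (P.cons (P.lf 97680 0 0) (P.cons (P.lf 240171 0 0) (P.cons (P.lf 0 21225 0) P.nil))))) (P.cons (P.cons (P.lf 0 24301251 0) (P.cons (P.lf 0 3263961 0) (P.cons (P.lf 1287471 0 0) (P.cons (P.lf 259863 0 0) P.nil)))) (P.cons (P.cons (P.lf 0 815337 0) (P.cons (P.lf 73353 0 0) (P.cons (P.lf 0 21525 0) P.nil))) (P.cons (P.cons (P.lf 377832 0 0) (P.cons (P.lf 47733 0 0) P.nil)) (P.cons (P.cons (P.lf 7563 0 0) P.nil) P.nil)))))) 132315)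
 (EL.cons 8 (TM.mk (P.cons (P.cons (P.lf 185710341 0 0) (P.cons (P.lf 39692202 0 0) (P.cons (P.lf 0 15093510 0) (P.cons (P.lf 0 3645747 0) (P.cons (P.lf 182238 0 0) (P.cons (P.lf 83559 0 0) P.nil)))))) (P.cons (P.cons (P.lf 21074331 0 0) (P.cons (P.lf 4407255 0 0) (P.cons (P.lf 0 1768284 0) (P.cons (P.lf 0 325149 0) (P.cons (P.lf 11910 0 0) P.nil))))) (P.cons (P.cons (P.lf 0 10787685 0) (P.cons (P.lf 0 1408653 0) (P.cons (P.lf 546357 0 0) (P.cons (P.lf 120156 0 0) P.nil)))) (P.cons (P.cons (P.lf 0 1716552 0) (P.cons (P.lf 0 141492 0) (P.cons (P.lf 59022 0 0) P.nil))) (P.cons (P.cons (P.lf 84120 0 0) (P.cons (P.lf 20352 0 0) P.nil)) (P.cons (P.cons (P.lf 20421 0 0) P.nil) P.nil)))))) 66450)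
 (EL.cons 11 (TM.mk (P.cons (P.cons (P.lf 0 84693597 0) (P.cons (P.lf 67896978 0 0) (P.cons (P.lf 23092548 0 0) (P.cons (P.lf 0 4524936 0) (P.cons (P.lf 0 1303881 0) (P.cons (P.lf 25707 0 0) P.nil)))))) (P.cons (P.cons (P.lf 13456569 0 0) (P.cons (P.lf 0 11625849 0) (P.cons (P.lf 0 2527017 0) (P.cons (P.lf 502578 0 0) (P.cons (P.lf 118548 0 0) P.nil))))) (P.cons (P.cons (P.lf 2932656 0 0) (P.cons (P.lf 0 2528367 0) (P.cons (P.lf 0 557958 0) (P.cons (P.lf 110898 0 0) P.nil)))) (P.cons (P.cons (P.lf 0 262944 0) (P.cons (P.lf 220644 0 0) (P.cons (P.lf 58272 0 0) P.nil))) (P.cons (P.cons (P.lf 0 27051 0) (P.cons (P.lf 24324 0 0) P.nil)) (P.cons (P.cons (P.lf 2613 0 0) P.nil) P.nil)))))) 107814)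
 EL.nil)))
noncomputable def S328_343_660_808_27 : EL := (EL.cons 13 (TM.mk (P.lf 0 4294967296 0) 0)
 EL.nil)
noncomputable def S328_343_660_808_28 : EL := (EL.cons 13 (TM.mk (P.cons (P.cons (P.lf 1510679653 0 0) (P.cons (P.lf 196259476 0 0) (P.cons (P.lf 0 84629300 0) (P.lf 0 9403252 0)))) (P.cons (P.cons (P.lf 0 324261388 0) (P.cons (P.lf 0 27178648 0) (P.cons (P.lf 11719736 0 0) (P.lf 1302192 0 0)))) (P.cons (P.cons (P.lf 0 13895108 0) (P.cons (P.lf 524260 0 0) (P.cons (P.lf 0 226064 0) (P.lf 0 25116 0)))) (P.cons (P.cons (P.lf 1488114 0 0) (P.cons (P.lf 88964 0 0) (P.cons (P.lf 0 38360 0) P.nil))) (P.cons (P.cons (P.lf 11446 0 0) (P.cons (P.lf 0 4548 0) P.nil)) (P.cons (P.cons (P.lf 0 3846 0) P.nil) P.nil)))))) 7466)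
 EL.nil)
noncomputable def S328_343_660_808_29 : EL := (EL.cons 13 (TM.mk (P.cons (P.cons (P.lf 0 531355155 0) (P.cons (P.lf 0 138061678 0) (P.cons (P.lf 50565633 0 0) (P.cons (P.lf 14349167 0 0) (P.cons (P.lf 0 808193 0) (P.cons (P.lf 0 370568 0) P.nil)))))) (P.cons (P.cons (P.lf 228106547 0 0) (P.cons (P.lf 48753619 0 0) (P.cons (P.lf 0 18539239 0) (P.cons (P.lf 0 4478043 0) (P.cons (P.lf 223842 0 0) P.nil))))) (P.cons (P.cons (P.lf 0 14706359 0) (P.cons (P.lf 0 3202785 0) (P.cons (P.lf 1161175 0 0) (P.cons (P.lf 343096 0 0) P.nil)))) (P.cons (P.cons (P.lf 0 3144941 0) (P.cons (P.lf 0 295278 0) (P.cons (P.lf 125830 0 0) P.nil))) (P.cons (P.cons (P.lf 171693 0 0) (P.cons (P.lf 37812 0 0) P.nil)) (P.cons (P.cons (P.lf 14062 0 0) P.nil) P.nil)))))) 268183)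
 EL.nil)
noncomputable def S328_343_660_808_30 : EL := (EL.cons 13 (TM.mk (P.cons (P.lf 0 2380598136 0) (P.cons (P.lf 0 176262872 0) (P.cons (P.lf 5857148 0 0) (P.cons (P.lf 49876 0 0) (P.cons (P.lf 0 6620 0) (P.cons (P.lf 84 0 0) P.nil)))))) 60)
 EL.nil)
noncomputable def S328_343_660_808_31 : EL := (EL.cons 13 (TM.mk (P.cons (P.cons (P.lf 837333771 0 0) (P.cons (P.lf 108781955 0 0) (P.cons (P.lf 0 46908006 0) (P.lf 0 5211998 0)))) (P.cons (P.cons (P.lf 0 117732985 0) (P.cons (P.lf 0 7010106 0) (P.cons (P.lf 3022835 0 0) (P.lf 335870 0 0)))) (P.cons (P.cons (P.lf 0 23069369 0) (P.cons (P.lf 0 1092454 0) (P.cons (P.lf 471079 0 0) (P.lf 52343 0 0)))) (P.cons (P.cons (P.lf 679239 0 0) (P.cons (P.lf 105611 0 0) (P.cons (P.lf 0 45539 0) P.nil))) (P.cons (P.cons (P.lf 92458 0 0) (P.cons (P.lf 1033 0 0) P.nil)) (P.cons (P.cons (P.lf 0 4059 0) P.nil) P.nil)))))) 10306)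
 EL.nil)
noncomputable def S328_343_660_808_32 : EL := (EL.cons 13 (TM.mk (P.cons (P.cons (P.lf 0 294517514 0) (P.cons (P.lf 0 76524301 0) (P.cons (P.lf 28027326 0 0) (P.cons (P.lf 7953401 0 0) (P.cons (P.lf 0 447962 0) (P.cons (P.lf 0 205397 0) P.nil)))))) (P.cons (P.cons (P.lf 104627533 0 0) (P.cons (P.lf 21357002 0 0) (P.cons (P.lf 0 8200675 0) (P.cons (P.lf 0 1893191 0) (P.cons (P.lf 90902 0 0) P.nil))))) (P.cons (P.cons (P.lf 1934592 0 0) (P.cons (P.lf 413869 0 0) (P.cons (P.lf 0 186185 0) (P.cons (P.lf 0 13174 0) P.nil)))) (P.cons (P.cons (P.lf 0 2651609 0) (P.cons (P.lf 0 359989 0) (P.cons (P.lf 142093 0 0) P.nil))) (P.cons (P.cons (P.lf 0 17313 0) (P.cons (P.lf 12429 0 0) P.nil)) (P.cons (P.cons (P.lf 19662 0 0) P.nil) P.nil)))))) 217585)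
 EL.nil)
noncomputable def S328_343_660_808_33 : EL := (EL.cons 14 (TM.mk (P.lf 8589934592 0 0) 0)
 EL.nil)
noncomputable def S328_343_660_808_34 : EL := (EL.cons 14 (TM.mk (P.cons (P.cons (P.lf 0 3021359306 0) (P.cons (P.lf 0 392518952 0) (P.cons (P.lf 169258600 0 0) (P.lf 18806504 0 0)))) (P.cons (P.cons (P.lf 648522776 0 0) (P.cons (P.lf 54357296 0 0) (P.cons (P.lf 0 23439472 0) (P.lf 0 2604384 0)))) (P.cons (P.cons (P.lf 27790216 0 0) (P.cons (P.lf 0 1048520 0) (P.cons (P.lf 452128 0 0) (P.lf 50232 0 0)))) (P.cons (P.cons (P.lf 0 2976228 0) (P.cons (P.lf 0 177928 0) (P.cons (P.lf 76720 0 0) P.nil))) (P.cons (P.cons (P.lf 0 22892 0) (P.cons (P.lf 9096 0 0) P.nil)) (P.cons (P.cons (P.lf 7692 0 0) P.nil) P.nil)))))) 14932)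
 EL.nil)
noncomputable def S328_343_660_808_35 : EL := (EL.cons 14 (TM.mk (P.cons (P.cons (P.lf 1062710310 0 0) (P.cons (P.lf 276123356 0 0) (P.cons (P.lf 0 101131266 0) (P.cons (P.lf 0 28698334 0) (P.cons (P.lf 1616386 0 0) (P.cons (P.lf 741136 0 0) P.nil)))))) (P.cons (P.cons (P.lf 0 456213094 0) (P.cons (P.lf 0 97507238 0) (P.cons (P.lf 37078478 0 0) (P.cons (P.lf 8956086 0 0) (P.cons (P.lf 0 447684 0) P.nil))))) (P.cons (P.cons (P.lf 29412718 0 0) (P.cons (P.lf 6405570 0 0) (P.cons (P.lf 0 2322350 0) (P.cons (P.lf 0 686192 0) P.nil)))) (P.cons (P.cons (P.lf 6289882 0 0) (P.cons (P.lf 590556 0 0) (P.cons (P.lf 0 251660 0) P.nil))) (P.cons (P.cons (P.lf 0 343386 0) (P.cons (P.lf 0 75624 0) P.nil)) (P.cons (P.cons (P.lf 0 28124 0) P.nil) P.nil)))))) 536366)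
 EL.nil)
noncomputable def S328_343_660_808_36 : EL := (EL.cons 14 (TM.mk (P.cons (P.lf 4761196272 0 0) (P.cons (P.lf 352525744 0 0) (P.cons (P.lf 0 11714296 0) (P.cons (P.lf 0 99752 0) (P.cons (P.lf 13240 0 0) (P.cons (P.lf 0 168 0) P.nil)))))) 120)
 EL.nil)
noncomputable def S328_343_660_808_37 : EL := (EL.cons 14 (TM.mk (P.cons (P.cons (P.lf 0 1674667542 0) (P.cons (P.lf 0 217563910 0) (P.cons (P.lf 93816012 0 0) (P.lf 10423996 0 0)))) (P.cons (P.cons (P.lf 235465970 0 0) (P.cons (P.lf 14020212 0 0) (P.cons (P.lf 0 6045670 0) (P.lf 0 671740 0)))) (P.cons (P.cons (P.lf 46138738 0 0) (P.cons (P.lf 2184908 0 0) (P.cons (P.lf 0 942158 0) (P.lf 0 104686 0)))) (P.cons (P.cons (P.lf 0 1358478 0) (P.cons (P.lf 0 211222 0) (P.cons (P.lf 91078 0 0) P.nil))) (P.cons (P.cons (P.lf 0 184916 0) (P.cons (P.lf 0 2066 0) P.nil)) (P.cons (P.cons (P.lf 8118 0 0) P.nil) P.nil)))))) 20612)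
 EL.nil)
noncomputable def S328_343_660_808_38 : EL := (EL.cons 14 (TM.mk (P.cons (P.cons (P.lf 589035028 0 0) (P.cons (P.lf 153048602 0 0) (P.cons (P.lf 0 56054652 0) (P.cons (P.lf 0 15906802 0) (P.cons (P.lf 895924 0 0) (P.cons (P.lf 410794 0 0) P.nil)))))) (P.cons (P.cons (P.lf 0 209255066 0) (P.cons (P.lf 0 42714004 0) (P.cons (P.lf 16401350 0 0) (P.cons (P.lf 3786382 0 0) (P.cons (P.lf 0 181804 0) P.nil))))) (P.cons (P.cons (P.lf 0 3869184 0) (P.cons (P.lf 0 827738 0) (P.cons (P.lf 372370 0 0) (P.cons (P.lf 26348 0 0) P.nil)))) (P.cons (P.cons (P.lf 5303218 0 0) (P.cons (P.lf 719978 0 0) (P.cons (P.lf 0 284186 0) P.nil))) (P.cons (P.cons (P.lf 34626 0 0) (P.cons (P.lf 0 24858 0) P.nil)) (P.cons (P.cons (P.lf 0 39324 0) P.nil) P.nil)))))) 435170)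
 EL.nil)
noncomputable def S328_343_660_808_39 : EL := (EL.cons 14 (TM.mk (P.cons (P.lf 2639017758 0 0) (P.cons (P.lf 390793256 0 0) (P.cons (P.lf 1481532 0 0) (P.cons (P.lf 0 1072074 0) (P.cons (P.lf 22464 0 0) (P.cons (P.lf 1172 0 0) P.nil)))))) 208)
 EL.nil)
noncomputable def S328_343_660_808_40 : EL := (EL.cons 14 (TM.mk (P.cons (P.cons (P.lf 0 928228354 0) (P.cons (P.lf 0 120590496 0) (P.cons (P.lf 51999982 0 0) (P.lf 5777772 0 0)))) (P.cons (P.cons (P.lf 61785834 0 0) (P.cons (P.lf 0 1157620 0) (P.cons (P.lf 499180 0 0) (P.lf 55464 0 0)))) (P.cons (P.cons (P.lf 37520770 0 0) (P.cons (P.lf 2083120 0 0) (P.cons (P.lf 0 898266 0) (P.lf 0 99808 0)))) (P.cons (P.cons (P.lf 838870 0 0) (P.cons (P.lf 0 44000 0) (P.cons (P.lf 18972 0 0) P.nil))) (P.cons (P.cons (P.lf 0 226482 0) (P.cons (P.lf 0 13290 0) P.nil)) (P.cons (P.cons (P.lf 0 1376 0) P.nil) P.nil)))))) 19710)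
 EL.nil)
noncomputable def S328_343_660_808_41 : EL := (EL.cons 14 (TM.mk (P.cons (P.cons (P.lf 326488094 0 0) (P.cons (P.lf 84831196 0 0) (P.cons (P.lf 0 31069760 0) (P.cons (P.lf 0 8816762 0) (P.cons (P.lf 496588 0 0) (P.cons (P.lf 227692 0 0) P.nil)))))) (P.cons (P.cons (P.lf 0 91811458 0) (P.cons (P.lf 0 17394332 0) (P.cons (P.lf 6790428 0 0) (P.cons (P.lf 1445896 0 0) (P.cons (P.lf 0 64002 0) P.nil))))) (P.cons (P.cons (P.lf 0 11535578 0) (P.cons (P.lf 0 2420468 0) (P.cons (P.lf 955940 0 0) (P.cons (P.lf 191688 0 0) P.nil)))) (P.cons (P.cons (P.lf 3059184 0 0) (P.cons (P.lf 421568 0 0) (P.cons (P.lf 0 163952 0) P.nil))) (P.cons (P.cons (P.lf 245448 0 0) (P.cons (P.lf 17628 0 0) P.nil)) (P.cons (P.cons (P.lf 0 27896 0) P.nil) P.nil)))))) 306468)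
 EL.nil)
noncomputable def S328_343_660_808_42 : EL := (EL.cons 14 (TM.mk (P.cons (P.lf 1462744724 0 0) (P.cons (P.lf 324911098 0 0) (P.cons (P.lf 13260206 0 0) (P.cons (P.lf 0 1097002 0) (P.cons (P.lf 0 34036 0) (P.cons (P.lf 3566 0 0) P.nil)))))) 284)
 EL.nil)
noncomputable def S328_343_660_808_43 : EL := (EL.cons 14 (TM.mk (P.cons (P.cons (P.lf 0 514494880 0) (P.cons (P.lf 0 66840442 0) (P.cons (P.lf 28822352 0 0) (P.lf 3202482 0 0)))) (P.cons (P.cons (P.lf 0 3847514 0) (P.cons (P.lf 0 5590602 0) (P.cons (P.lf 2410732 0 0) (P.lf 267858 0 0)))) (P.cons (P.cons (P.lf 24598370 0 0) (P.cons (P.lf 1271568 0 0) (P.cons (P.lf 0 548314 0) (P.lf 0 60924 0)))) (P.cons (P.cons (P.lf 1931314 0 0) (P.cons (P.lf 64080 0 0) (P.cons (P.lf 0 27632 0) P.nil))) (P.cons (P.cons (P.lf 0 144422 0) (P.cons (P.lf 0 12186 0) P.nil)) (P.cons (P.cons (P.lf 0 11522 0) P.nil) P.nil)))))) 22094)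
 EL.nil)
noncomputable def S328_343_660_808_44 : EL := (EL.cons 14 (TM.mk (P.cons (P.cons (P.lf 180964578 0 0) (P.cons (P.lf 47019912 0 0) (P.cons (P.lf 0 17221228 0) (P.cons (P.lf 0 4886920 0) (P.cons (P.lf 275246 0 0) (P.cons (P.lf 126204 0 0) P.nil)))))) (P.cons (P.cons (P.lf 0 37490030 0) (P.cons (P.lf 0 6159842 0) (P.cons (P.lf 2488688 0 0) (P.cons (P.lf 439590 0 0) (P.cons (P.lf 0 15094 0) P.nil))))) (P.cons (P.cons (P.lf 0 10607022 0) (P.cons (P.lf 0 2171146 0) (P.cons (P.lf 850900 0 0) (P.cons (P.lf 177610 0 0) P.nil)))) (P.cons (P.cons (P.lf 1343634 0 0) (P.cons (P.lf 157066 0 0) (P.cons (P.lf 0 60542 0) P.nil))) (P.cons (P.cons (P.lf 278894 0 0) (P.cons (P.lf 30706 0 0) P.nil)) (P.cons (P.cons (P.lf 0 9574 0) P.nil) P.nil)))))) 235580)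
 EL.nil)
noncomputable def S328_343_660_808_45 : EL := (EL.cons 14 (TM.mk (P.cons (P.cons (P.lf 0 373789770 0) (P.cons (P.lf 0 145682344 0) (P.cons (P.lf 43893592 0 0) (P.cons (P.lf 22482828 0 0) (P.cons (P.lf 0 645344 0) (P.cons (P.lf 0 1121436 0) P.nil)))))) (P.cons (P.cons (P.lf 240697468 0 0) (P.cons (P.lf 82714834 0 0) (P.cons (P.lf 0 26363172 0) (P.cons (P.lf 0 11646876 0) (P.cons (P.lf 398010 0 0) P.nil))))) (P.cons (P.cons (P.lf 0 41350492 0) (P.cons (P.lf 0 13081996 0) (P.cons (P.lf 4225946 0 0) (P.cons (P.lf 1793524 0 0) P.nil)))) (P.cons (P.cons (P.lf 0 1835904 0) (P.cons (P.lf 0 202854 0) (P.cons (P.lf 117068 0 0) P.nil))) (P.cons (P.cons (P.lf 846044 0 0) (P.cons (P.lf 187434 0 0) P.nil)) (P.cons (P.cons (P.lf 0 3706 0) P.nil) P.nil)))))) 1665692)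
 EL.nil)
noncomputable def S328_343_660_808_46 : EL := (EL.cons 15 (TM.mk (P.lf 4294967296 0 0) 0)
 EL.nil)
noncomputable def S328_343_660_808_47 : EL := (EL.cons 15 (TM.mk (P.cons (P.cons (P.lf 0 1510679653 0) (P.cons (P.lf 0 196259476 0) (P.cons (P.lf 84629300 0 0) (P.lf 9403252 0 0)))) (P.cons (P.cons (P.lf 324261388 0 0) (P.cons (P.lf 27178648 0 0) (P.cons (P.lf 0 11719736 0) (P.lf 0 1302192 0)))) (P.cons (P.cons (P.lf 13895108 0 0) (P.cons (P.lf 0 524260 0) (P.cons (P.lf 226064 0 0) (P.lf 25116 0 0)))) (P.cons (P.cons (P.lf 0 1488114 0) (P.cons (P.lf 0 88964 0) (P.cons (P.lf 38360 0 0) P.nil))) (P.cons (P.cons (P.lf 0 11446 0) (P.cons (P.lf 4548 0 0) P.nil)) (P.cons (P.cons (P.lf 3846 0 0) P.nil) P.nil)))))) 7466)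
 EL.nil)
noncomputable def S328_343_660_808_48 : EL := (EL.cons 15 (TM.mk (P.cons (P.cons (P.lf 531355155 0 0) (P.cons (P.lf 138061678 0 0) (P.cons (P.lf 0 50565633 0) (P.cons (P.lf 0 14349167 0) (P.cons (P.lf 808193 0 0) (P.cons (P.lf 370568 0 0) P.nil)))))) (P.cons (P.cons (P.lf 0 228106547 0) (P.cons (P.lf 0 48753619 0) (P.cons (P.lf 18539239 0 0) (P.cons (P.lf 4478043 0 0) (P.cons (P.lf 0 223842 0) P.nil))))) (P.cons (P.cons (P.lf 14706359 0 0) (P.cons (P.lf 3202785 0 0) (P.cons (P.lf 0 1161175 0) (P.cons (P.lf 0 343096 0) P.nil)))) (P.cons (P.cons (P.lf 3144941 0 0) (P.cons (P.lf 295278 0 0) (P.cons (P.lf 0 125830 0) P.nil))) (P.cons (P.cons (P.lf 0 171693 0) (P.cons (P.lf 0 37812 0) P.nil)) (P.cons (P.cons (P.lf 0 14062 0) P.nil) P.nil)))))) 268183)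
 EL.nil)
noncomputable def S328_343_660_808 : SL := (SL.cons S328_343_660_808_0 (SL.cons S328_343_660_808_1 (SL.cons S328_343_660_808_2 (SL.cons S328_343_660_808_3 (SL.cons S328_343_660_808_4 (SL.cons S328_343_660_808_5 (SL.cons S328_343_660_808_6 (SL.cons S328_343_660_808_7 (SL.cons S328_343_660_808_8 (SL.cons S328_343_660_808_9 (SL.cons S328_343_660_808_10 (SL.cons S328_343_660_808_11 (SL.cons S328_343_660_808_12 (SL.cons S328_343_660_808_13 (SL.cons S328_343_660_808_14 (SL.cons S328_343_660_808_15 (SL.cons S328_343_660_808_16 (SL.cons S328_343_660_808_17 (SL.cons S328_343_660_808_18 (SL.cons S328_343_660_808_19 (SL.cons S328_343_660_808_20 (SL.cons S328_343_660_808_21 (SL.cons S328_343_660_808_22 (SL.cons S328_343_660_808_23 (SL.cons S328_343_660_808_24 (SL.cons S328_343_660_808_25 (SL.cons S328_343_660_808_26 (SL.cons S328_343_660_808_27 (SL.cons S328_343_660_808_28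 (SL.cons S328_343_660_808_29 (SL.cons S328_343_660_808_30 (SL.cons S328_343_660_808_31 (SL.cons S328_343_660_808_32 (SL.cons S328_343_660_808_33 (SL.cons S328_343_660_808_34 (SL.cons S328_343_660_808_35 (SL.cons S328_343_660_808_36 (SL.cons S328_343_660_808_37 (SL.cons S328_343_660_808_38 (SL.cons S328_343_660_808_39 (SL.cons S328_343_660_808_40 (SL.cons S328_343_660_808_41 (SL.cons S328_343_660_808_42 (SL.cons S328_343_660_808_43 (SL.cons S328_343_660_808_44 (SL.cons S328_343_660_808_45 (SL.cons S328_343_660_808_46 (SL.cons S328_343_660_808_47 (SL.cons S328_343_660_808_48 SL.nil)))))))))))))))))))))))))))))))))))))))))))))))))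
noncomputable def S343_357_364_512_0 : EL := (EL.cons 0 (TM.mk (P.cons (P.lf 5473865639 0 0) (P.cons (P.lf 0 316002046 0) (P.cons (P.lf 3185599 0 0) (P.cons (P.lf 616884 0 0) (P.cons (P.lf 0 20293 0) (P.cons (P.lf 0 307 0) P.nil)))))) 186)
 (EL.cons 1 (TM.mk (P.cons (P.lf 1800576853 0 0) (P.cons (P.lf 2374179 0 0) (P.cons (P.lf 0 9884782 0) (P.cons (P.lf 207181 0 0) (P.cons (P.lf 10235 0 0) (P.cons (P.lf 0 526 0) P.nil)))))) 130)
 (EL.cons 5 (TM.mk (P.cons (P.lf 5355181070 0 0) (P.cons (P.lf 112356282 0 0) (P.cons (P.lf 0 1132662 0) (P.cons (P.lf 0 219336 0) (P.cons (P.lf 7216 0 0) (P.cons (P.lf 108 0 0) P.nil)))))) 99)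
 (EL.cons 9 (TM.mk (P.lf 6442450944 0 0) 2)
 EL.nil))))
noncomputable def S343_357_364_512_1 : EL := (EL.cons 0 (TM.mk (P.cons (P.cons (P.lf 2530222134 0 0) (P.cons (P.lf 254154873 0 0) (P.cons (P.lf 16992191 0 0) (P.lf 0 5664057 0)))) (P.cons (P.cons (P.lf 524689947 0 0) (P.cons (P.lf 53139572 0 0) (P.cons (P.lf 3552790 0 0) (P.lf 0 1184272 0)))) (P.cons (P.cons (P.lf 0 34743125 0) (P.cons (P.lf 0 13861544 0) (P.cons (P.lf 0 926746 0) (P.lf 308914 0 0)))) (P.cons (P.cons (P.lf 0 4537779 0) (P.cons (P.lf 553014 0 0) (P.cons (P.lf 36965 0 0) P.nil))) (P.cons (P.cons (P.lf 368416 0 0) (P.cons (P.lf 49407 0 0) P.nil)) (P.cons (P.cons (P.lf 8360 0 0) P.nil) P.nil)))))) 54409)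
 (EL.cons 1 (TM.mk (P.cons (P.cons (P.lf 110889758 0 0) (P.cons (P.lf 0 136736652 0) (P.cons (P.lf 0 9141886 0) (P.lf 3047295 0 0)))) (P.cons (P.cons (P.lf 198298867 0 0) (P.cons (P.lf 61371304 0 0) (P.cons (P.lf 4103134 0 0) (P.lf 0 1367707 0)))) (P.cons (P.cons (P.lf 24099045 0 0) (P.cons (P.lf 0 2421429 0) (P.cons (P.lf 0 161886 0) (P.lf 53963 0 0)))) (P.cons (P.cons (P.lf 0 2781366 0) (P.cons (P.lf 0 488292 0) (P.cons (P.lf 0 32638 0) P.nil))) (P.cons (P.cons (P.lf 0 112385 0) (P.cons (P.lf 36714 0 0) P.nil)) (P.cons (P.cons (P.lf 15347 0 0) P.nil) P.nil)))))) 29180)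
 (EL.cons 5 (TM.mk (P.cons (P.cons (P.lf 0 384645988 0) (P.cons (P.lf 0 624889368 0) (P.cons (P.lf 0 41778646 0) (P.lf 13926210 0 0)))) (P.cons (P.cons (P.lf 84715841 0 0) (P.cons (P.lf 63960758 0 0) (P.cons (P.lf 4276268 0 0) (P.lf 0 1425422 0)))) (P.cons (P.cons (P.lf 30996960 0 0) (P.cons (P.lf 1952774 0 0) (P.cons (P.lf 130556 0 0) (P.lf 0 43514 0)))) (P.cons (P.cons (P.lf 182564 0 0) (P.cons (P.lf 0 352080 0) (P.cons (P.lf 0 23536 0) P.nil))) (P.cons (P.cons (P.lf 0 152143 0) (P.cons (P.lf 0 4414 0) P.nil)) (P.cons (P.cons (P.lf 636 0 0) P.nil) P.nil)))))) 26252)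
 (EL.cons 9 (TM.mk (P.cons (P.cons (P.lf 454401654 0 0) (P.cons (P.lf 0 471638100 0) (P.cons (P.lf 0 31532622 0) (P.lf 10510872 0 0)))) (P.cons (P.cons (P.lf 239357877 0 0) (P.cons (P.lf 73107198 0 0) (P.cons (P.lf 4887774 0 0) (P.lf 0 1629258 0)))) (P.cons (P.cons (P.lf 16450452 0 0) (P.cons (P.lf 0 2625678 0) (P.cons (P.lf 0 175542 0) (P.lf 58512 0 0)))) (P.cons (P.cons (P.lf 0 1262527 0) (P.cons (P.lf 0 137160 0) (P.cons (P.lf 0 9168 0) P.nil))) (P.cons (P.cons (P.lf 0 18661 0) (P.cons (P.lf 11598 0 0) P.nil)) (P.cons (P.cons (P.lf 3172 0 0) P.nil) P.nil)))))) 6388)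
 (EL.cons 2 (TM.mk (P.cons (P.cons (P.lf 0 891272033 0) (P.cons (P.lf 0 137991290 0) (P.cons (P.lf 66479850 0 0) (P.cons (P.lf 2515792 0 0) (P.lf 0 628945 0))))) (P.cons (P.cons (P.lf 44875926 0 0) (P.cons (P.lf 6947918 0 0) (P.cons (P.lf 0 3347285 0) (P.cons (P.lf 0 126669 0) (P.lf 31665 0 0))))) (P.cons (P.cons (P.lf 5679081 0 0) (P.cons (P.lf 879266 0 0) (P.cons (P.lf 0 423601 0) (P.cons (P.lf 0 16031 0) P.nil)))) (P.cons (P.cons (P.lf 0 406819 0) (P.cons (P.lf 0 62985 0) (P.cons (P.lf 30341 0 0) P.nil))) (P.cons (P.cons (P.lf 0 3276 0) (P.cons (P.lf 0 506 0) P.nil)) (P.cons (P.cons (P.lf 922 0 0) P.nil) P.nil)))))) 8728)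
 (EL.cons 6 (TM.mk (P.cons (P.cons (P.lf 538190430 0 0) (P.cons (P.lf 83325393 0 0) (P.cons (P.lf 0 40143546 0) (P.cons (P.lf 0 1519149 0) (P.lf 379785 0 0))))) (P.cons (P.cons (P.lf 0 83423274 0) (P.cons (P.lf 0 12916017 0) (P.cons (P.lf 6222528 0 0) (P.cons (P.lf 235476 0 0) (P.lf 0 58869 0))))) (P.cons (P.cons (P.lf 2996184 0 0) (P.cons (P.lf 463881 0 0) (P.cons (P.lf 0 223482 0) (P.cons (P.lf 0 8454 0) P.nil)))) (P.cons (P.cons (P.lf 156519 0 0) (P.cons (P.lf 24231 0 0) (P.cons (P.lf 0 11673 0) P.nil))) (P.cons (P.cons (P.lf 0 13236 0) (P.cons (P.lf 0 2049 0) P.nil)) (P.cons (P.cons (P.lf 90 0 0) P.nil) P.nil)))))) 4818)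
 EL.nil))))))
noncomputable def S343_357_364_512_2 : EL := (EL.cons 0 (TM.mk (P.cons (P.cons (P.lf 329693867 0 0) (P.cons (P.lf 0 278083098 0) (P.cons (P.lf 0 85140842 0) (P.cons (P.lf 0 2701270 0) (P.cons (P.lf 2668720 0 0) (P.cons (P.lf 198303 0 0) P.nil)))))) (P.cons (P.cons (P.lf 234910603 0 0) (P.cons (P.lf 24734246 0 0) (P.cons (P.lf 10429685 0 0) (P.cons (P.lf 622262 0 0) (P.cons (P.lf 0 351932 0) P.nil))))) (P.cons (P.cons (P.lf 39121094 0 0) (P.cons (P.lf 14789089 0 0) (P.cons (P.lf 2443552 0 0) (P.cons (P.lf 0 135059 0) P.nil)))) (P.cons (P.cons (P.lf 0 1890933 0) (P.cons (P.lf 0 1583067 0) (P.cons (P.lf 0 460427 0) P.nil))) (P.cons (P.cons (P.lf 0 594138 0) (P.cons (P.lf 0 128470 0) P.nil)) (P.cons (P.cons (P.lf 20568 0 0) P.nil) P.nil)))))) 742804)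
 (EL.cons 1 (TM.mk (P.cons (P.cons (P.lf 6685097 0 0) (P.cons (P.lf 0 16930078 0) (P.cons (P.lf 9238492 0 0) (P.cons (P.lf 1763980 0 0) (P.cons (P.lf 0 415873 0) (P.cons (P.lf 0 30901 0) P.nil)))))) (P.cons (P.cons (P.lf 26764164 0 0) (P.cons (P.lf 0 21083433 0) (P.cons (P.lf 0 10519702 0) (P.cons (P.lf 0 748299 0) (P.cons (P.lf 365326 0 0) P.nil))))) (P.cons (P.cons (P.lf 15603429 0 0) (P.cons (P.lf 3567480 0 0) (P.cons (P.lf 1814956 0 0) (P.cons (P.lf 131290 0 0) P.nil)))) (P.cons (P.cons (P.lf 2122367 0 0) (P.cons (P.lf 773153 0 0) (P.cons (P.lf 17085 0 0) P.nil))) (P.cons (P.cons (P.lf 0 146920 0) (P.cons (P.lf 0 122850 0) P.nil)) (P.cons (P.cons (P.lf 0 27591 0) P.nil) P.nil)))))) 341479)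
 (EL.cons 5 (TM.mk (P.cons (P.cons (P.lf 0 80901089 0) (P.cons (P.lf 23471560 0 0) (P.cons (P.lf 64362372 0 0) (P.cons (P.lf 7873310 0 0) (P.cons (P.lf 0 2518116 0) (P.cons (P.lf 0 187109 0) P.nil)))))) (P.cons (P.cons (P.lf 0 45256785 0) (P.cons (P.lf 0 36825018 0) (P.cons (P.lf 0 17713642 0) (P.cons (P.lf 0 1218689 0) (P.cons (P.lf 611612 0 0) P.nil))))) (P.cons (P.cons (P.lf 0 1201089 0) (P.cons (P.lf 0 2251209 0) (P.cons (P.lf 708153 0 0) (P.cons (P.lf 164981 0 0) P.nil)))) (P.cons (P.cons (P.lf 1855844 0 0) (P.cons (P.lf 952450 0 0) (P.cons (P.lf 144972 0 0) P.nil))) (P.cons (P.cons (P.lf 149549 0 0) (P.cons (P.lf 0 8598 0) P.nil)) (P.cons (P.cons (P.lf 0 15678 0) P.nil) P.nil)))))) 373472)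
 (EL.cons 9 (TM.mk (P.cons (P.cons (P.lf 32050047 0 0) (P.cons (P.lf 0 66531552 0) (P.cons (P.lf 30079474 0 0) (P.cons (P.lf 6099586 0 0) (P.cons (P.lf 0 1384620 0) (P.cons (P.lf 0 102891 0) P.nil)))))) (P.cons (P.cons (P.lf 33764979 0 0) (P.cons (P.lf 0 24732904 0) (P.cons (P.lf 0 12357628 0) (P.cons (P.lf 0 880099 0) (P.cons (P.lf 429250 0 0) P.nil))))) (P.cons (P.cons (P.lf 11213499 0 0) (P.cons (P.lf 2653341 0 0) (P.cons (P.lf 1391437 0 0) (P.cons (P.lf 103201 0 0) P.nil)))) (P.cons (P.cons (P.lf 1044276 0 0) (P.cons (P.lf 343750 0 0) (P.cons (P.lf 0 16525 0) P.nil))) (P.cons (P.cons (P.lf 0 54441 0) (P.cons (P.lf 0 47886 0) P.nil)) (P.cons (P.cons (P.lf 0 7386 0) P.nil) P.nil)))))) 168260)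
 (EL.cons 2 (TM.mk (P.cons (P.cons (P.lf 0 125727142 0) (P.cons (P.lf 111030530 0 0) (P.cons (P.lf 38306739 0 0) (P.cons (P.lf 0 10936231 0) (P.cons (P.lf 0 1558108 0) (P.cons (P.lf 284383 0 0) P.nil)))))) (P.cons (P.cons (P.lf 0 59896856 0) (P.cons (P.lf 0 36071904 0) (P.cons (P.lf 0 1473035 0) (P.cons (P.lf 2487785 0 0) (P.cons (P.lf 259481 0 0) P.nil))))) (P.cons (P.cons (P.lf 0 415935 0) (P.cons (P.lf 849065 0 0) (P.cons (P.lf 233521 0 0) (P.cons (P.lf 0 77861 0) P.nil)))) (P.cons (P.cons (P.lf 943104 0 0) (P.cons (P.lf 335840 0 0) (P.cons (P.lf 0 28265 0) P.nil))) (P.cons (P.cons (P.lf 0 14113 0) (P.cons (P.lf 0 20683 0) P.nil)) (P.cons (P.cons (P.lf 0 5551 0) P.nil) P.nil)))))) 176725)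
 (EL.cons 6 (TM.mk (P.cons (P.cons (P.lf 75919746 0 0) (P.cons (P.lf 0 67045260 0) (P.cons (P.lf 0 23131344 0) (P.cons (P.lf 6603786 0 0) (P.cons (P.lf 940854 0 0) (P.cons (P.lf 0 171720 0) P.nil)))))) (P.cons (P.cons (P.lf 28222932 0 0) (P.cons (P.lf 28798578 0 0) (P.cons (P.lf 3310332 0 0) (P.cons (P.lf 0 2193366 0) (P.cons (P.lf 0 255150 0) P.nil))))) (P.cons (P.cons (P.lf 0 3027750 0) (P.cons (P.lf 0 3239472 0) (P.cons (P.lf 0 388374 0) (P.cons (P.lf 248274 0 0) P.nil)))) (P.cons (P.cons (P.lf 0 392250 0) (P.cons (P.lf 29430 0 0) (P.cons (P.lf 49242 0 0) P.nil))) (P.cons (P.cons (P.lf 54642 0 0) (P.cons (P.lf 16992 0 0) P.nil)) (P.cons (P.cons (P.lf 0 330 0) P.nil) P.nil)))))) 155646)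
 EL.nil))))))
noncomputable def S343_357_364_512_3 : EL := (EL.cons 0 (TM.mk (P.cons (P.lf 2981851224 0 0) (P.cons (P.lf 316002046 0 0) (P.cons (P.lf 0 3185599 0) (P.cons (P.lf 0 616884 0) (P.cons (P.lf 20293 0 0) (P.cons (P.lf 307 0 0) P.nil)))))) 186)
 (EL.cons 1 (TM.mk (P.cons (P.lf 0 1800576853 0) (P.cons (P.lf 0 2374179 0) (P.cons (P.lf 9884782 0 0) (P.cons (P.lf 0 207181 0) (P.cons (P.lf 0 10235 0) (P.cons (P.lf 526 0 0) P.nil)))))) 130)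
 (EL.cons 5 (TM.mk (P.cons (P.lf 1087269874 0 0) (P.cons (P.lf 0 112356282 0) (P.cons (P.lf 1132662 0 0) (P.cons (P.lf 219336 0 0) (P.cons (P.lf 0 7216 0) (P.cons (P.lf 0 108 0) P.nil)))))) 92)
 EL.nil)))
noncomputable def S343_357_364_512_4 : EL := (EL.cons 0 (TM.mk (P.cons (P.cons (P.lf 210317182 0 0) (P.cons (P.lf 0 218294970 0) (P.cons (P.lf 0 14594691 0) (P.lf 4864895 0 0)))) (P.cons (P.cons (P.lf 133073799 0 0) (P.cons (P.lf 10703408 0 0) (P.cons (P.lf 715603 0 0) (P.lf 0 238533 0)))) (P.cons (P.cons (P.lf 19129805 0 0) (P.cons (P.lf 2603837 0 0) (P.cons (P.lf 174088 0 0) (P.lf 0 58028 0)))) (P.cons (P.cons (P.lf 60674 0 0) (P.cons (P.lf 0 183260 0) (P.cons (P.lf 0 12250 0) P.nil))) (P.cons (P.cons (P.lf 0 100184 0) (P.cons (P.lf 0 8546 0) P.nil)) (P.cons (P.cons (P.lf 376 0 0) P.nil) P.nil)))))) 10938)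
 (EL.cons 1 (TM.mk (P.cons (P.cons (P.lf 0 126999041 0) (P.cons (P.lf 131816392 0 0) (P.cons (P.lf 8812935 0 0) (P.lf 0 2937643 0)))) (P.cons (P.cons (P.lf 0 67064705 0) (P.cons (P.lf 0 20258651 0) (P.cons (P.lf 0 1354443 0) (P.lf 451481 0 0)))) (P.cons (P.cons (P.lf 0 3988685 0) (P.cons (P.lf 0 16743 0) (P.cons (P.lf 0 1119 0) (P.lf 373 0 0)))) (P.cons (P.cons (P.lf 699435 0 0) (P.cons (P.lf 166636 0 0) (P.cons (P.lf 11139 0 0) P.nil))) (P.cons (P.cons (P.lf 22500 0 0) (P.cons (P.lf 0 8820 0) P.nil)) (P.cons (P.cons (P.lf 0 3688 0) P.nil) P.nil)))))) 6641)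
 (EL.cons 5 (TM.mk (P.cons (P.cons (P.lf 76687774 0 0) (P.cons (P.lf 0 79596708 0) (P.cons (P.lf 0 5321648 0) (P.lf 1773882 0 0)))) (P.cons (P.cons (P.lf 32470828 0 0) (P.cons (P.lf 20563408 0 0) (P.cons (P.lf 1374820 0 0) (P.lf 0 458272 0)))) (P.cons (P.cons (P.lf 0 1318224 0) (P.cons (P.lf 0 1801034 0) (P.cons (P.lf 0 120410 0) (P.lf 40136 0 0)))) (P.cons (P.cons (P.lf 0 442414 0) (P.cons (P.lf 19440 0 0) (P.cons (P.lf 1300 0 0) P.nil))) (P.cons (P.cons (P.lf 29400 0 0) (P.cons (P.lf 6904 0 0) P.nil)) (P.cons (P.cons (P.lf 922 0 0) P.nil) P.nil)))))) 4744)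
 EL.nil)))
noncomputable def S343_357_364_512_5 : EL := (EL.cons 0 (TM.mk (P.cons (P.cons (P.lf 14834177 0 0) (P.cons (P.lf 0 30793744 0) (P.cons (P.lf 13922110 0 0) (P.cons (P.lf 2823157 0 0) (P.cons (P.lf 0 640863 0) (P.cons (P.lf 0 47620 0) P.nil)))))) (P.cons (P.cons (P.lf 17199979 0 0) (P.cons (P.lf 0 14710851 0) (P.cons (P.lf 0 4244259 0) (P.cons (P.lf 0 108163 0) (P.cons (P.lf 130760 0 0) P.nil))))) (P.cons (P.cons (P.lf 6830425 0 0) (P.cons (P.lf 47831 0 0) (P.cons (P.lf 23002 0 0) (P.cons (P.lf 1580 0 0) P.nil)))) (P.cons (P.cons (P.lf 1013593 0 0) (P.cons (P.lf 307849 0 0) (P.cons (P.lf 63831 0 0) P.nil))) (P.cons (P.cons (P.lf 17346 0 0) (P.cons (P.lf 0 4456 0) P.nil)) (P.cons (P.cons (P.lf 0 7570 0) P.nil) P.nil)))))) 126204)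
 (EL.cons 1 (TM.mk (P.cons (P.cons (P.lf 0 8957548 0) (P.cons (P.lf 18594656 0 0) (P.cons (P.lf 0 8406800 0) (P.cons (P.lf 0 1704750 0) (P.cons (P.lf 386981 0 0) (P.cons (P.lf 28755 0 0) P.nil)))))) (P.cons (P.cons (P.lf 0 9448659 0) (P.cons (P.lf 6937025 0 0) (P.cons (P.lf 3442702 0 0) (P.cons (P.lf 243727 0 0) (P.cons (P.lf 0 119458 0) P.nil))))) (P.cons (P.cons (P.lf 0 3097286 0) (P.cons (P.lf 0 834536 0) (P.cons (P.lf 0 338180 0) (P.cons (P.lf 0 19158 0) P.nil)))) (P.cons (P.cons (P.lf 0 245216 0) (P.cons (P.lf 0 132858 0) (P.cons (P.lf 0 15821 0) P.nil))) (P.cons (P.cons (P.lf 30898 0 0) (P.cons (P.lf 18226 0 0) P.nil)) (P.cons (P.cons (P.lf 3273 0 0) P.nil) P.nil)))))) 76475)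
 (EL.cons 5 (TM.mk (P.cons (P.cons (P.lf 5408972 0 0) (P.cons (P.lf 0 11228296 0) (P.cons (P.lf 5076406 0 0) (P.cons (P.lf 1029404 0 0) (P.cons (P.lf 0 233676 0) (P.cons (P.lf 0 17362 0) P.nil)))))) (P.cons (P.cons (P.lf 5139444 0 0) (P.cons (P.lf 0 3013774 0) (P.cons (P.lf 0 2610138 0) (P.cons (P.lf 0 254906 0) (P.cons (P.lf 96590 0 0) P.nil))))) (P.cons (P.cons (P.lf 1309236 0 0) (P.cons (P.lf 867438 0 0) (P.cons (P.lf 455632 0 0) (P.cons (P.lf 33836 0 0) P.nil)))) (P.cons (P.cons (P.lf 0 12296 0) (P.cons (P.lf 5124 0 0) (P.cons (P.lf 0 28202 0) P.nil))) (P.cons (P.cons (P.lf 0 24314 0) (P.cons (P.lf 0 14376 0) P.nil)) (P.cons (P.cons (P.lf 228 0 0) P.nil) P.nil)))))) 47928)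
 EL.nil)))
noncomputable def S343_357_364_512_6 : EL := (EL.cons 12 (TM.mk (P.lf 8589934592 0 0) 0)
 (EL.cons 3 (TM.mk (P.cons (P.lf 2530509187 0 0) (P.cons (P.lf 134085510 0 0) (P.cons (P.lf 0 4904141 0) (P.cons (P.lf 0 1897 0) (P.cons (P.lf 3960 0 0) (P.cons (P.lf 0 82 0) P.nil)))))) 63)
 (EL.cons 7 (TM.mk (P.cons (P.lf 0 1528036085 0) (P.cons (P.lf 78952088 0 0) (P.cons (P.lf 1243772 0 0) (P.cons (P.lf 0 89863 0) (P.cons (P.lf 935 0 0) (P.cons (P.lf 52 0 0) P.nil)))))) 47)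
 EL.nil)))
noncomputable def S343_357_364_512_7 : EL := (EL.cons 12 (TM.mk (P.cons (P.cons (P.lf 605868872 0 0) (P.cons (P.lf 0 628850800 0) (P.cons (P.lf 0 42043496 0) (P.lf 14014496 0 0)))) (P.cons (P.cons (P.lf 319143836 0 0) (P.cons (P.lf 97476264 0 0) (P.cons (P.lf 6517032 0 0) (P.lf 0 2172344 0)))) (P.cons (P.cons (P.lf 21933936 0 0) (P.cons (P.lf 0 3500904 0) (P.cons (P.lf 0 234056 0) (P.lf 78016 0 0)))) (P.cons (P.cons (P.lf 0 1683370 0) (P.cons (P.lf 0 182880 0) (P.cons (P.lf 0 12224 0) P.nil))) (P.cons (P.cons (P.lf 0 24882 0) (P.cons (P.lf 15464 0 0) P.nil)) (P.cons (P.cons (P.lf 4230 0 0) P.nil) P.nil)))))) 8492)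
 (EL.cons 3 (TM.mk (P.cons (P.cons (P.lf 1998076988 0 0) (P.cons (P.lf 370506364 0 0) (P.cons (P.lf 24771188 0 0) (P.lf 0 8257060 0)))) (P.cons (P.cons (P.lf 298655330 0 0) (P.cons (P.lf 0 37798842 0) (P.cons (P.lf 0 2527140 0) (P.lf 842378 0 0)))) (P.cons (P.cons (P.lf 0 27291620 0) (P.cons (P.lf 0 1698510 0) (P.cons (P.lf 0 113560 0) (P.lf 37854 0 0)))) (P.cons (P.cons (P.lf 0 315291 0) (P.cons (P.lf 328066 0 0) (P.cons (P.lf 21930 0 0) P.nil))) (P.cons (P.cons (P.lf 124310 0 0) (P.cons (P.lf 0 6776 0) P.nil)) (P.cons (P.cons (P.lf 0 3419 0) P.nil) P.nil)))))) 24589)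
 (EL.cons 7 (TM.mk (P.cons (P.cons (P.lf 963635371 0 0) (P.cons (P.lf 439106028 0 0) (P.cons (P.lf 29357608 0 0) (P.lf 0 9785868 0)))) (P.cons (P.cons (P.lf 175853913 0 0) (P.cons (P.lf 0 22256678 0) (P.cons (P.lf 0 1488032 0) (P.lf 496011 0 0)))) (P.cons (P.cons (P.lf 0 6867698 0) (P.cons (P.lf 0 2164767 0) (P.cons (P.lf 0 144730 0) (P.lf 48243 0 0)))) (P.cons (P.cons (P.lf 0 1055769 0) (P.cons (P.lf 91621 0 0) (P.cons (P.lf 6125 0 0) P.nil))) (P.cons (P.cons (P.lf 35064 0 0) (P.cons (P.lf 7654 0 0) P.nil)) (P.cons (P.cons (P.lf 2473 0 0) P.nil) P.nil)))))) 17197)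
 (EL.cons 10 (TM.mk (P.cons (P.cons (P.lf 0 1512732798 0) (P.cons (P.lf 0 234209025 0) (P.cons (P.lf 112834521 0 0) (P.cons (P.lf 4269990 0 0) (P.lf 0 1067496 0))))) (P.cons (P.cons (P.lf 156322764 0 0) (P.cons (P.lf 24202689 0 0) (P.cons (P.lf 0 11660091 0) (P.cons (P.lf 0 441252 0) (P.lf 110313 0 0))))) (P.cons (P.cons (P.lf 0 1575885 0) (P.cons (P.lf 0 243984 0) (P.cons (P.lf 117543 0 0) (P.cons (P.lf 4446 0 0) P.nil)))) (P.cons (P.cons (P.lf 0 305163 0) (P.cons (P.lf 0 47247 0) (P.cons (P.lf 22761 0 0) P.nil))) (P.cons (P.cons (P.lf 10038 0 0) (P.cons (P.lf 1554 0 0) P.nil)) (P.cons (P.cons (P.lf 150 0 0) P.nil) P.nil)))))) 3270)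
 EL.nil))))
noncomputable def S343_357_364_512_8 : EL := (EL.cons 12 (TM.mk (P.cons (P.cons (P.lf 42733396 0 0) (P.cons (P.lf 0 88708736 0) (P.cons (P.lf 40105966 0 0) (P.cons (P.lf 8132782 0 0) (P.cons (P.lf 0 1846160 0) (P.cons (P.lf 0 137188 0) P.nil)))))) (P.cons (P.cons (P.lf 45019972 0 0) (P.cons (P.lf 0 32977206 0) (P.cons (P.lf 0 16476838 0) (P.cons (P.lf 0 1173466 0) (P.cons (P.lf 572334 0 0) P.nil))))) (P.cons (P.cons (P.lf 14951332 0 0) (P.cons (P.lf 3537788 0 0) (P.cons (P.lf 1855250 0 0) (P.cons (P.lf 137602 0 0) P.nil)))) (P.cons (P.cons (P.lf 1392368 0 0) (P.cons (P.lf 458334 0 0) (P.cons (P.lf 0 22034 0) P.nil))) (P.cons (P.cons (P.lf 0 72588 0) (P.cons (P.lf 0 63848 0) P.nil)) (P.cons (P.cons (P.lf 0 9848 0) P.nil) P.nil)))))) 224318)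
 (EL.cons 3 (TM.mk (P.cons (P.cons (P.lf 269269570 0 0) (P.cons (P.lf 0 214151781 0) (P.cons (P.lf 0 82127639 0) (P.cons (P.lf 0 4294668 0) (P.cons (P.lf 2719301 0 0) (P.cons (P.lf 202071 0 0) P.nil)))))) (P.cons (P.cons (P.lf 176670312 0 0) (P.cons (P.lf 34917830 0 0) (P.cons (P.lf 19763469 0 0) (P.cons (P.lf 1552339 0 0) (P.cons (P.lf 0 698931 0) P.nil))))) (P.cons (P.cons (P.lf 23463235 0 0) (P.cons (P.lf 7411126 0 0) (P.cons (P.lf 0 643481 0) (P.cons (P.lf 0 317459 0) P.nil)))) (P.cons (P.cons (P.lf 0 1948194 0) (P.cons (P.lf 0 1529020 0) (P.cons (P.lf 0 191658 0) P.nil))) (P.cons (P.cons (P.lf 0 265719 0) (P.cons (P.lf 32487 0 0) P.nil)) (P.cons (P.cons (P.lf 22891 0 0) P.nil) P.nil)))))) 448991)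
 (EL.cons 7 (TM.mk (P.cons (P.cons (P.lf 143536775 0 0) (P.cons (P.lf 0 94929072 0) (P.cons (P.lf 0 62449420 0) (P.cons (P.lf 0 5386206 0) (P.cons (P.lf 2249817 0 0) (P.cons (P.lf 167179 0 0) P.nil)))))) (P.cons (P.cons (P.lf 104026824 0 0) (P.cons (P.lf 20560279 0 0) (P.cons (P.lf 11637103 0 0) (P.cons (P.lf 914046 0 0) (P.cons (P.lf 0 411543 0) P.nil))))) (P.cons (P.cons (P.lf 19259142 0 0) (P.cons (P.lf 5439695 0 0) (P.cons (P.lf 230055 0 0) (P.cons (P.lf 0 139097 0) P.nil)))) (P.cons (P.cons (P.lf 0 34675 0) (P.cons (P.lf 0 566491 0) (P.cons (P.lf 0 122672 0) P.nil))) (P.cons (P.cons (P.lf 0 210492 0) (P.cons (P.lf 0 40919 0) P.nil)) (P.cons (P.cons (P.lf 0 947 0) P.nil) P.nil)))))) 220249)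
 (EL.cons 10 (TM.mk (P.cons (P.cons (P.lf 0 213393408 0) (P.cons (P.lf 188449224 0 0) (P.cons (P.lf 65017032 0 0) (P.cons (P.lf 0 18561780 0) (P.cons (P.lf 0 2644542 0) (P.cons (P.lf 482676 0 0) P.nil)))))) (P.cons (P.cons (P.lf 0 90354180 0) (P.cons (P.lf 0 71209374 0) (P.cons (P.lf 0 5945244 0) (P.cons (P.lf 5205996 0 0) (P.cons (P.lf 580536 0 0) P.nil))))) (P.cons (P.cons (P.lf 3668124 0 0) (P.cons (P.lf 5579520 0 0) (P.cons (P.lf 837378 0 0) (P.cons (P.lf 0 443976 0) P.nil)))) (P.cons (P.cons (P.lf 1231074 0 0) (P.cons (P.lf 136506 0 0) (P.cons (P.lf 0 103818 0) P.nil))) (P.cons (P.cons (P.lf 0 81810 0) (P.cons (P.lf 0 31878 0) P.nil)) (P.cons (P.cons (P.lf 0 2568 0) P.nil) P.nil)))))) 323886)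
 EL.nil))))
noncomputable def S343_357_364_512_9 : EL := (EL.cons 3 (TM.mk (P.cons (P.lf 2530509187 0 0) (P.cons (P.lf 134085510 0 0) (P.cons (P.lf 0 4904141 0) (P.cons (P.lf 0 1897 0) (P.cons (P.lf 3960 0 0) (P.cons (P.lf 0 82 0) P.nil)))))) 63)
 (EL.cons 7 (TM.mk (P.cons (P.lf 0 1528036085 0) (P.cons (P.lf 78952088 0 0) (P.cons (P.lf 1243772 0 0) (P.cons (P.lf 0 89863 0) (P.cons (P.lf 935 0 0) (P.cons (P.lf 52 0 0) P.nil)))))) 47)
 EL.nil))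
noncomputable def S343_357_364_512_10 : EL := (EL.cons 3 (TM.mk (P.cons (P.cons (P.lf 178482935 0 0) (P.cons (P.lf 0 185253182 0) (P.cons (P.lf 0 12385594 0) (P.lf 4128530 0 0)))) (P.cons (P.cons (P.lf 103473971 0 0) (P.cons (P.lf 18899421 0 0) (P.cons (P.lf 1263570 0 0) (P.lf 0 421189 0)))) (P.cons (P.cons (P.lf 11097328 0 0) (P.cons (P.lf 849255 0 0) (P.cons (P.lf 56780 0 0) (P.lf 0 18927 0)))) (P.cons (P.cons (P.lf 0 335862 0) (P.cons (P.lf 0 164033 0) (P.cons (P.lf 0 10965 0) P.nil))) (P.cons (P.cons (P.lf 0 45919 0) (P.cons (P.lf 3388 0 0) P.nil)) (P.cons (P.cons (P.lf 1954 0 0) P.nil) P.nil)))))) 6063)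
 (EL.cons 7 (TM.mk (P.cons (P.cons (P.lf 0 107776082 0) (P.cons (P.lf 111864264 0 0) (P.cons (P.lf 7478983 0 0) (P.lf 0 2492994 0)))) (P.cons (P.cons (P.lf 0 51202797 0) (P.cons (P.lf 0 23119655 0) (P.cons (P.lf 0 1545725 0) (P.lf 515241 0 0)))) (P.cons (P.cons (P.lf 0 880706 0) (P.cons (P.lf 1427637 0 0) (P.cons (P.lf 95447 0 0) (P.lf 0 31815 0)))) (P.cons (P.cons (P.lf 540921 0 0) (P.cons (P.lf 21046 0 0) (P.cons (P.lf 1406 0 0) P.nil))) (P.cons (P.cons (P.lf 0 11142 0) (P.cons (P.lf 0 6026 0) P.nil)) (P.cons (P.cons (P.lf 0 1415 0) P.nil) P.nil)))))) 3348)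
 EL.nil))
noncomputable def S343_357_364_512_11 : EL := (EL.cons 3 (TM.mk (P.cons (P.cons (P.lf 12588832 0 0) (P.cons (P.lf 0 26132709 0) (P.cons (P.lf 11814817 0 0) (P.cons (P.lf 2395836 0 0) (P.cons (P.lf 0 543859 0) (P.cons (P.lf 0 40413 0) P.nil)))))) (P.cons (P.cons (P.lf 13929486 0 0) (P.cons (P.lf 0 11099464 0) (P.cons (P.lf 0 4227873 0) (P.cons (P.lf 0 218741 0) (P.cons (P.lf 139785 0 0) P.nil))))) (P.cons (P.cons (P.lf 5082859 0 0) (P.cons (P.lf 578080 0 0) (P.cons (P.lf 266443 0 0) (P.cons (P.lf 17575 0 0) P.nil)))) (P.cons (P.cons (P.lf 617850 0 0) (P.cons (P.lf 209090 0 0) (P.cons (P.lf 31866 0 0) P.nil))) (P.cons (P.cons (P.lf 0 8175 0) (P.cons (P.lf 0 13707 0) P.nil)) (P.cons (P.cons (P.lf 0 4811 0) P.nil) P.nil)))))) 88165)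
 (EL.cons 7 (TM.mk (P.cons (P.cons (P.lf 0 7601707 0) (P.cons (P.lf 15780114 0 0) (P.cons (P.lf 0 7134322 0) (P.cons (P.lf 0 1446714 0) (P.cons (P.lf 328407 0 0) (P.cons (P.lf 24403 0 0) P.nil)))))) (P.cons (P.cons (P.lf 0 7615686 0) (P.cons (P.lf 5050867 0 0) (P.cons (P.lf 3299635 0 0) (P.cons (P.lf 283494 0 0) (P.cons (P.lf 0 118779 0) P.nil))))) (P.cons (P.cons (P.lf 0 2239668 0) (P.cons (P.lf 0 945271 0) (P.cons (P.lf 0 475659 0) (P.cons (P.lf 0 34085 0) P.nil)))) (P.cons (P.cons (P.lf 0 104191 0) (P.cons (P.lf 0 52861 0) (P.cons (P.lf 18166 0 0) P.nil))) (P.cons (P.cons (P.lf 27408 0 0) (P.cons (P.lf 16417 0 0) P.nil)) (P.cons (P.cons (P.lf 1135 0 0) P.nil) P.nil)))))) 51999)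
 EL.nil))
noncomputable def S343_357_364_512_12 : EL := (EL.cons 4 (TM.mk (P.cons (P.lf 0 2530509187 0) (P.cons (P.lf 0 134085510 0) (P.cons (P.lf 4904141 0 0) (P.cons (P.lf 1897 0 0) (P.cons (P.lf 0 3960 0) (P.cons (P.lf 82 0 0) P.nil)))))) 63)
 (EL.cons 8 (TM.mk (P.cons (P.lf 1528036085 0 0) (P.cons (P.lf 0 78952088 0) (P.cons (P.lf 0 1243772 0) (P.cons (P.lf 89863 0 0) (P.cons (P.lf 0 935 0) (P.cons (P.lf 0 52 0) P.nil)))))) 47)
 EL.nil))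
noncomputable def S343_357_364_512_13 : EL := (EL.cons 4 (TM.mk (P.cons (P.cons (P.lf 0 178482935 0) (P.cons (P.lf 185253182 0 0) (P.cons (P.lf 12385594 0 0) (P.lf 0 4128530 0)))) (P.cons (P.cons (P.lf 0 103473971 0) (P.cons (P.lf 0 18899421 0) (P.cons (P.lf 0 1263570 0) (P.lf 421189 0 0)))) (P.cons (P.cons (P.lf 0 11097328 0) (P.cons (P.lf 0 849255 0) (P.cons (P.lf 0 56780 0) (P.lf 18927 0 0)))) (P.cons (P.cons (P.lf 335862 0 0) (P.cons (P.lf 164033 0 0) (P.cons (P.lf 10965 0 0) P.nil))) (P.cons (P.cons (P.lf 45919 0 0) (P.cons (P.lf 0 3388 0) P.nil)) (P.cons (P.cons (P.lf 0 1954 0) P.nil) P.nil)))))) 6063)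
 (EL.cons 8 (TM.mk (P.cons (P.cons (P.lf 107776082 0 0) (P.cons (P.lf 0 111864264 0) (P.cons (P.lf 0 7478983 0) (P.lf 2492994 0 0)))) (P.cons (P.cons (P.lf 51202797 0 0) (P.cons (P.lf 23119655 0 0) (P.cons (P.lf 1545725 0 0) (P.lf 0 515241 0)))) (P.cons (P.cons (P.lf 880706 0 0) (P.cons (P.lf 0 1427637 0) (P.cons (P.lf 0 95447 0) (P.lf 31815 0 0)))) (P.cons (P.cons (P.lf 0 540921 0) (P.cons (P.lf 0 21046 0) (P.cons (P.lf 0 1406 0) P.nil))) (P.cons (P.cons (P.lf 11142 0 0) (P.cons (P.lf 6026 0 0) P.nil)) (P.cons (P.cons (P.lf 1415 0 0) P.nil) P.nil)))))) 3348)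
 EL.nil))
noncomputable def S343_357_364_512_14 : EL := (EL.cons 4 (TM.mk (P.cons (P.cons (P.lf 0 12588832 0) (P.cons (P.lf 26132709 0 0) (P.cons (P.lf 0 11814817 0) (P.cons (P.lf 0 2395836 0) (P.cons (P.lf 543859 0 0) (P.cons (P.lf 40413 0 0) P.nil)))))) (P.cons (P.cons (P.lf 0 13929486 0) (P.cons (P.lf 11099464 0 0) (P.cons (P.lf 4227873 0 0) (P.cons (P.lf 218741 0 0) (P.cons (P.lf 0 139785 0) P.nil))))) (P.cons (P.cons (P.lf 0 5082859 0) (P.cons (P.lf 0 578080 0) (P.cons (P.lf 0 266443 0) (P.cons (P.lf 0 17575 0) P.nil)))) (P.cons (P.cons (P.lf 0 617850 0) (P.cons (P.lf 0 209090 0) (P.cons (P.lf 0 31866 0) P.nil))) (P.cons (P.cons (P.lf 8175 0 0) (P.cons (P.lf 13707 0 0) P.nil)) (P.cons (P.cons (P.lf 4811 0 0) P.nil) P.nil)))))) 88165)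
 (EL.cons 8 (TM.mk (P.cons (P.cons (P.lf 7601707 0 0) (P.cons (P.lf 0 15780114 0) (P.cons (P.lf 7134322 0 0) (P.cons (P.lf 1446714 0 0) (P.cons (P.lf 0 328407 0) (P.cons (P.lf 0 24403 0) P.nil)))))) (P.cons (P.cons (P.lf 7615686 0 0) (P.cons (P.lf 0 5050867 0) (P.cons (P.lf 0 3299635 0) (P.cons (P.lf 0 283494 0) (P.cons (P.lf 118779 0 0) P.nil))))) (P.cons (P.cons (P.lf 2239668 0 0) (P.cons (P.lf 945271 0 0) (P.cons (P.lf 475659 0 0) (P.cons (P.lf 34085 0 0) P.nil)))) (P.cons (P.cons (P.lf 104191 0 0) (P.cons (P.lf 52861 0 0) (P.cons (P.lf 0 18166 0) P.nil))) (P.cons (P.cons (P.lf 0 27408 0) (P.cons (P.lf 0 16417 0) P.nil)) (P.cons (P.cons (P.lf 0 1135 0) P.nil) P.nil)))))) 51999)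
 EL.nil))
noncomputable def S343_357_364_512_15 : EL := (EL.cons 4 (TM.mk (P.cons (P.lf 0 1590320653 0) (P.cons (P.lf 0 168534424 0) (P.cons (P.lf 1698986 0 0) (P.cons (P.lf 329005 0 0) (P.cons (P.lf 0 10823 0) (P.cons (P.lf 0 164 0) P.nil)))))) 102)
 (EL.cons 8 (TM.mk (P.cons (P.lf 960307655 0 0) (P.cons (P.lf 1266229 0 0) (P.cons (P.lf 0 5271884 0) (P.cons (P.lf 110497 0 0) (P.cons (P.lf 5459 0 0) (P.cons (P.lf 0 281 0) P.nil)))))) 66)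
 EL.nil))
noncomputable def S343_357_364_512_16 : EL := (EL.cons 4 (TM.mk (P.cons (P.cons (P.lf 0 112169163 0) (P.cons (P.lf 116423984 0 0) (P.cons (P.lf 7783835 0 0) (P.lf 0 2594610 0)))) (P.cons (P.cons (P.lf 0 70972693 0) (P.cons (P.lf 0 5708484 0) (P.cons (P.lf 0 381655 0) (P.lf 127217 0 0)))) (P.cons (P.cons (P.lf 0 10202563 0) (P.cons (P.lf 0 1388713 0) (P.cons (P.lf 0 92847 0) (P.lf 30948 0 0)))) (P.cons (P.cons (P.lf 0 32359 0) (P.cons (P.lf 97739 0 0) (P.cons (P.lf 6533 0 0) P.nil))) (P.cons (P.cons (P.lf 53431 0 0) (P.cons (P.lf 4558 0 0) P.nil)) (P.cons (P.cons (P.lf 0 200 0) P.nil) P.nil)))))) 5842)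
 (EL.cons 8 (TM.mk (P.cons (P.cons (P.lf 67732822 0 0) (P.cons (P.lf 0 70302076 0) (P.cons (P.lf 0 4700232 0) (P.lf 1566743 0 0)))) (P.cons (P.cons (P.lf 35767843 0 0) (P.cons (P.lf 10804614 0 0) (P.cons (P.lf 722370 0 0) (P.lf 0 240790 0)))) (P.cons (P.cons (P.lf 2127299 0 0) (P.cons (P.lf 8930 0 0) (P.cons (P.lf 597 0 0) (P.lf 0 199 0)))) (P.cons (P.cons (P.lf 0 373032 0) (P.cons (P.lf 0 88873 0) (P.cons (P.lf 0 5941 0) P.nil))) (P.cons (P.cons (P.lf 0 12000 0) (P.cons (P.lf 4704 0 0) P.nil)) (P.cons (P.cons (P.lf 1967 0 0) P.nil) P.nil)))))) 3532)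
 EL.nil))
noncomputable def S343_357_364_512_17 : EL := (EL.cons 4 (TM.mk (P.cons (P.cons (P.lf 0 7911561 0) (P.cons (P.lf 16423330 0 0) (P.cons (P.lf 0 7425125 0) (P.cons (P.lf 0 1505684 0) (P.cons (P.lf 341793 0 0) (P.cons (P.lf 25397 0 0) P.nil)))))) (P.cons (P.cons (P.lf 0 9173322 0) (P.cons (P.lf 7845787 0 0) (P.cons (P.lf 2263605 0 0) (P.cons (P.lf 57687 0 0) (P.cons (P.lf 0 69738 0) P.nil))))) (P.cons (P.cons (P.lf 0 3642893 0) (P.cons (P.lf 0 25510 0) (P.cons (P.lf 0 12268 0) (P.cons (P.lf 0 842 0) P.nil)))) (P.cons (P.cons (P.lf 0 540583 0) (P.cons (P.lf 0 164186 0) (P.cons (P.lf 0 34043 0) P.nil))) (P.cons (P.cons (P.lf 0 9251 0) (P.cons (P.lf 2376 0 0) P.nil)) (P.cons (P.cons (P.lf 4037 0 0) P.nil) P.nil)))))) 67319)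
 (EL.cons 8 (TM.mk (P.cons (P.cons (P.lf 4777359 0 0) (P.cons (P.lf 0 9917150 0) (P.cons (P.lf 4483627 0 0) (P.cons (P.lf 909200 0 0) (P.cons (P.lf 0 206390 0) (P.cons (P.lf 0 15336 0) P.nil)))))) (P.cons (P.cons (P.lf 5039285 0 0) (P.cons (P.lf 0 3699747 0) (P.cons (P.lf 0 1836108 0) (P.cons (P.lf 0 129988 0) (P.cons (P.lf 63711 0 0) P.nil))))) (P.cons (P.cons (P.lf 1651886 0 0) (P.cons (P.lf 445086 0 0) (P.cons (P.lf 180363 0 0) (P.cons (P.lf 10218 0 0) P.nil)))) (P.cons (P.cons (P.lf 130782 0 0) (P.cons (P.lf 70858 0 0) (P.cons (P.lf 8438 0 0) P.nil))) (P.cons (P.cons (P.lf 0 16479 0) (P.cons (P.lf 0 9721 0) P.nil)) (P.cons (P.cons (P.lf 0 1746 0) P.nil) P.nil)))))) 40775)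
 EL.nil))
noncomputable def S343_357_364_512_18 : EL := (EL.cons 4 (TM.mk (P.cons (P.lf 0 999450937 0) (P.cons (P.lf 0 158875401 0) (P.cons (P.lf 0 2607595 0) (P.cons (P.lf 469360 0 0) (P.cons (P.lf 600 0 0) (P.cons (P.lf 0 997 0) P.nil)))))) 126)
 (EL.cons 8 (TM.mk (P.cons (P.lf 603513753 0 0) (P.cons (P.lf 32774494 0 0) (P.cons (P.lf 0 4440608 0) (P.cons (P.lf 0 108108 0) (P.cons (P.lf 14475 0 0) (P.cons (P.lf 0 145 0) P.nil)))))) 82)
 EL.nil))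
noncomputable def S343_357_364_512_19 : EL := (EL.cons 4 (TM.mk (P.cons (P.cons (P.lf 0 70493692 0) (P.cons (P.lf 73167672 0 0) (P.cons (P.lf 4891819 0 0) (P.lf 0 1630605 0)))) (P.cons (P.cons (P.lf 0 48338699 0) (P.cons (P.lf 289428 0 0) (P.cons (P.lf 19350 0 0) (P.lf 0 6450 0)))) (P.cons (P.cons (P.lf 0 8638698 0) (P.cons (P.lf 0 1204643 0) (P.cons (P.lf 0 80539 0) (P.lf 26846 0 0)))) (P.cons (P.cons (P.lf 0 273592 0) (P.cons (P.lf 22078 0 0) (P.cons (P.lf 1475 0 0) P.nil))) (P.cons (P.cons (P.lf 44851 0 0) (P.cons (P.lf 7927 0 0) P.nil)) (P.cons (P.cons (P.lf 1629 0 0) P.nil) P.nil)))))) 5768)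
 (EL.cons 8 (TM.mk (P.cons (P.cons (P.lf 42567285 0 0) (P.cons (P.lf 0 44181955 0) (P.cons (P.lf 0 2953902 0) (P.lf 984633 0 0)))) (P.cons (P.cons (P.lf 24734150 0 0) (P.cons (P.lf 4449160 0 0) (P.cons (P.lf 297460 0 0) (P.lf 0 99153 0)))) (P.cons (P.cons (P.lf 2445511 0 0) (P.cons (P.lf 451036 0 0) (P.cons (P.lf 30155 0 0) (P.lf 0 10051 0)))) (P.cons (P.cons (P.lf 0 207190 0) (P.cons (P.lf 0 68682 0) (P.cons (P.lf 0 4591 0) P.nil))) (P.cons (P.cons (P.lf 0 22505 0) (P.cons (P.lf 0 87 0) P.nil)) (P.cons (P.cons (P.lf 1323 0 0) P.nil) P.nil)))))) 3421)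
 EL.nil))
noncomputable def S343_357_364_512_20 : EL := (EL.cons 4 (TM.mk (P.cons (P.cons (P.lf 0 4972090 0) (P.cons (P.lf 10321385 0 0) (P.cons (P.lf 0 4666384 0) (P.cons (P.lf 0 946260 0) (P.cons (P.lf 214802 0 0) (P.cons (P.lf 15961 0 0) P.nil)))))) (P.cons (P.cons (P.lf 0 6028513 0) (P.cons (P.lf 5477658 0 0) (P.cons (P.lf 1175321 0 0) (P.cons (P.lf 0 13885 0) (P.cons (P.lf 0 32445 0) P.nil))))) (P.cons (P.cons (P.lf 0 2585248 0) (P.cons (P.lf 225232 0 0) (P.cons (P.lf 76711 0 0) (P.cons (P.lf 3224 0 0) P.nil)))) (P.cons (P.cons (P.lf 0 449867 0) (P.cons (P.lf 0 113596 0) (P.cons (P.lf 0 24556 0) P.nil))) (P.cons (P.cons (P.lf 0 19381 0) (P.cons (P.lf 0 3930 0) P.nil)) (P.cons (P.cons (P.lf 2880 0 0) P.nil) P.nil)))))) 51741)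
 (EL.cons 8 (TM.mk (P.cons (P.cons (P.lf 3002373 0 0) (P.cons (P.lf 0 6232520 0) (P.cons (P.lf 2817774 0 0) (P.cons (P.lf 571394 0 0) (P.cons (P.lf 0 129707 0) (P.cons (P.lf 0 9638 0) P.nil)))))) (P.cons (P.cons (P.lf 3326071 0 0) (P.cons (P.lf 0 2655384 0) (P.cons (P.lf 0 1004611 0) (P.cons (P.lf 0 51415 0) (P.cons (P.lf 33167 0 0) P.nil))))) (P.cons (P.cons (P.lf 1200134 0 0) (P.cons (P.lf 168593 0 0) (P.cons (P.lf 46746 0 0) (P.cons (P.lf 985 0 0) P.nil)))) (P.cons (P.cons (P.lf 131060 0 0) (P.cons (P.lf 63864 0 0) (P.cons (P.lf 13543 0 0) P.nil))) (P.cons (P.cons (P.lf 0 8011 0) (P.cons (P.lf 0 4300 0) P.nil)) (P.cons (P.cons (P.lf 0 1801 0) P.nil) P.nil)))))) 29920)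
 EL.nil))
noncomputable def S343_357_364_512_21 : EL := (EL.cons 4 (TM.mk (P.cons (P.cons (P.lf 0 1819594053 0) (P.cons (P.lf 0 555759546 0) (P.cons (P.lf 0 37156782 0) (P.lf 12385590 0 0)))) (P.cons (P.cons (P.lf 0 195181359 0) (P.cons (P.lf 56698263 0 0) (P.cons (P.lf 3790710 0 0) (P.lf 0 1263567 0)))) (P.cons (P.cons (P.lf 38388948 0 0) (P.cons (P.lf 2547765 0 0) (P.cons (P.lf 170340 0 0) (P.lf 0 56781 0)))) (P.cons (P.cons (P.lf 0 20571 0) (P.cons (P.lf 0 492099 0) (P.cons (P.lf 0 32895 0) P.nil))) (P.cons (P.cons (P.lf 0 170229 0) (P.cons (P.lf 10164 0 0) P.nil)) (P.cons (P.cons (P.lf 5373 0 0) P.nil) P.nil)))))) 18507)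
 (EL.cons 8 (TM.mk (P.cons (P.cons (P.lf 0 1071411453 0) (P.cons (P.lf 0 327241764 0) (P.cons (P.lf 0 21878625 0) (P.lf 7292874 0 0)))) (P.cons (P.cons (P.lf 0 227056710 0) (P.cons (P.lf 0 862977 0) (P.cons (P.lf 0 57693 0) (P.lf 19230 0 0)))) (P.cons (P.cons (P.lf 5986992 0 0) (P.cons (P.lf 3592404 0 0) (P.cons (P.lf 240177 0 0) (P.lf 0 80058 0)))) (P.cons (P.cons (P.lf 1596690 0 0) (P.cons (P.lf 0 70575 0) (P.cons (P.lf 0 4719 0) P.nil))) (P.cons (P.cons (P.lf 0 46206 0) (P.cons (P.lf 0 13680 0) P.nil)) (P.cons (P.cons (P.lf 0 3888 0) P.nil) P.nil)))))) 13830)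
 (EL.cons 11 (TM.mk (P.cons (P.cons (P.lf 1512732798 0 0) (P.cons (P.lf 234209025 0 0) (P.cons (P.lf 0 112834521 0) (P.cons (P.lf 0 4269990 0) (P.lf 1067496 0 0))))) (P.cons (P.cons (P.lf 0 156322764 0) (P.cons (P.lf 0 24202689 0) (P.cons (P.lf 11660091 0 0) (P.cons (P.lf 441252 0 0) (P.lf 0 110313 0))))) (P.cons (P.cons (P.lf 1575885 0 0) (P.cons (P.lf 243984 0 0) (P.cons (P.lf 0 117543 0) (P.cons (P.lf 0 4446 0) P.nil)))) (P.cons (P.cons (P.lf 305163 0 0) (P.cons (P.lf 47247 0 0) (P.cons (P.lf 0 22761 0) P.nil))) (P.cons (P.cons (P.lf 0 10038 0) (P.cons (P.lf 0 1554 0) P.nil)) (P.cons (P.cons (P.lf 0 150 0) P.nil) P.nil)))))) 3270)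
 EL.nil)))
noncomputable def S343_357_364_512_22 : EL := (EL.cons 4 (TM.mk (P.cons (P.cons (P.lf 0 128340369 0) (P.cons (P.lf 94009536 0 0) (P.cons (P.lf 46971228 0 0) (P.cons (P.lf 3345252 0 0) (P.cons (P.lf 0 1631580 0) (P.cons (P.lf 0 121242 0) P.nil)))))) (P.cons (P.cons (P.lf 0 81370413 0) (P.cons (P.lf 0 23008647 0) (P.cons (P.lf 0 11995671 0) (P.cons (P.lf 0 885540 0) (P.cons (P.lf 419358 0 0) P.nil))))) (P.cons (P.cons (P.lf 0 9190188 0) (P.cons (P.lf 0 3416523 0) (P.cons (P.lf 454962 0 0) (P.cons (P.lf 167517 0 0) P.nil)))) (P.cons (P.cons (P.lf 1283022 0 0) (P.cons (P.lf 869055 0 0) (P.cons (P.lf 111762 0 0) P.nil))) (P.cons (P.cons (P.lf 128772 0 0) (P.cons (P.lf 0 23097 0) P.nil)) (P.cons (P.cons (P.lf 0 13851 0) P.nil) P.nil)))))) 180402)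
 (EL.cons 8 (TM.mk (P.cons (P.cons (P.lf 0 75569241 0) (P.cons (P.lf 55354593 0 0) (P.cons (P.lf 27657549 0 0) (P.cons (P.lf 1969746 0 0) (P.cons (P.lf 0 960705 0) (P.cons (P.lf 0 71388 0) P.nil)))))) (P.cons (P.cons (P.lf 0 55821255 0) (P.cons (P.lf 0 7754706 0) (P.cons (P.lf 0 4168734 0) (P.cons (P.lf 0 315276 0) (P.cons (P.lf 146382 0 0) P.nil))))) (P.cons (P.cons (P.lf 0 10749405 0) (P.cons (P.lf 0 3192483 0) (P.cons (P.lf 0 352857 0) (P.cons (P.lf 52506 0 0) P.nil)))) (P.cons (P.cons (P.lf 0 34758 0) (P.cons (P.lf 256815 0 0) (P.cons (P.lf 70419 0 0) P.nil))) (P.cons (P.cons (P.lf 118950 0 0) (P.cons (P.lf 28668 0 0) P.nil)) (P.cons (P.cons (P.lf 1041 0 0) P.nil) P.nil)))))) 84114)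
 (EL.cons 11 (TM.mk (P.cons (P.cons (P.lf 106696704 0 0) (P.cons (P.lf 0 94224612 0) (P.cons (P.lf 0 32508516 0) (P.cons (P.lf 9280890 0 0) (P.cons (P.lf 1322271 0 0) (P.cons (P.lf 0 241338 0) P.nil)))))) (P.cons (P.cons (P.lf 45177090 0 0) (P.cons (P.lf 35604687 0 0) (P.cons (P.lf 2972622 0 0) (P.cons (P.lf 0 2602998 0) (P.cons (P.lf 0 290268 0) P.nil))))) (P.cons (P.cons (P.lf 0 1834062 0) (P.cons (P.lf 0 2789760 0) (P.cons (P.lf 0 418689 0) (P.cons (P.lf 221988 0 0) P.nil)))) (P.cons (P.cons (P.lf 0 615537 0) (P.cons (P.lf 0 68253 0) (P.cons (P.lf 51909 0 0) P.nil))) (P.cons (P.cons (P.lf 40905 0 0) (P.cons (P.lf 15939 0 0) P.nil)) (P.cons (P.cons (P.lf 1284 0 0) P.nil) P.nil)))))) 161943)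
 EL.nil)))
noncomputable def S343_357_364_512_23 : EL := (EL.cons 4 (TM.mk (P.cons (P.cons (P.lf 0 1143539811 0) (P.cons (P.lf 0 349271952 0) (P.cons (P.lf 0 23351502 0) (P.lf 7783830 0 0)))) (P.cons (P.cons (P.lf 0 183256818 0) (P.cons (P.lf 17125449 0 0) (P.cons (P.lf 1144965 0 0) (P.lf 0 381651 0)))) (P.cons (P.cons (P.lf 19842420 0 0) (P.cons (P.lf 4166136 0 0) (P.cons (P.lf 278538 0 0) (P.lf 0 92847 0)))) (P.cons (P.cons (P.lf 1504020 0 0) (P.cons (P.lf 0 293214 0) (P.cons (P.lf 0 19599 0) P.nil))) (P.cons (P.cons (P.lf 0 156120 0) (P.cons (P.lf 0 13674 0) P.nil)) (P.cons (P.cons (P.lf 0 2439 0) P.nil) P.nil)))))) 18726)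
 (EL.cons 8 (TM.mk (P.cons (P.cons (P.lf 0 673337907 0) (P.cons (P.lf 0 205657950 0) (P.cons (P.lf 0 13749813 0) (P.lf 4583268 0 0)))) (P.cons (P.cons (P.lf 0 178374309 0) (P.cons (P.lf 0 11439657 0) (P.cons (P.lf 0 764826 0) (P.lf 254940 0 0)))) (P.cons (P.cons (P.lf 0 2493588 0) (P.cons (P.lf 2627505 0 0) (P.cons (P.lf 175665 0 0) (P.lf 0 58554 0)))) (P.cons (P.cons (P.lf 1479873 0 0) (P.cons (P.lf 76479 0 0) (P.cons (P.lf 5112 0 0) P.nil))) (P.cons (P.cons (P.lf 15891 0 0) (P.cons (P.lf 0 15642 0) P.nil)) (P.cons (P.cons (P.lf 0 6129 0) P.nil) P.nil)))))) 13299)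
 (EL.cons 11 (TM.mk (P.cons (P.cons (P.lf 950690169 0 0) (P.cons (P.lf 147190710 0 0) (P.cons (P.lf 0 70911840 0) (P.cons (P.lf 0 2683512 0) (P.lf 670875 0 0))))) (P.cons (P.cons (P.lf 0 47867655 0) (P.cons (P.lf 0 7411113 0) (P.cons (P.lf 3570438 0 0) (P.cons (P.lf 135114 0 0) (P.lf 0 33777 0))))) (P.cons (P.cons (P.lf 0 6057687 0) (P.cons (P.lf 0 937884 0) (P.cons (P.lf 451842 0 0) (P.cons (P.lf 17100 0 0) P.nil)))) (P.cons (P.cons (P.lf 433941 0 0) (P.cons (P.lf 67185 0 0) (P.cons (P.lf 0 32364 0) P.nil))) (P.cons (P.cons (P.lf 3495 0 0) (P.cons (P.lf 540 0 0) P.nil)) (P.cons (P.cons (P.lf 0 984 0) P.nil) P.nil)))))) 9288)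
 EL.nil)))
noncomputable def S343_357_364_512_24 : EL := (EL.cons 4 (TM.mk (P.cons (P.cons (P.lf 0 80656629 0) (P.cons (P.lf 59081115 0 0) (P.cons (P.lf 29519478 0 0) (P.cons (P.lf 2102352 0 0) (P.cons (P.lf 0 1025379 0) (P.cons (P.lf 0 76194 0) P.nil)))))) (P.cons (P.cons (P.lf 0 55411746 0) (P.cons (P.lf 0 11329422 0) (P.cons (P.lf 0 5974617 0) (P.cons (P.lf 0 445128 0) (P.cons (P.lf 209217 0 0) P.nil))))) (P.cons (P.cons (P.lf 0 8329014 0) (P.cons (P.lf 0 3027843 0) (P.cons (P.lf 0 170745 0) (P.cons (P.lf 71715 0 0) P.nil)))) (P.cons (P.cons (P.lf 599454 0 0) (P.cons (P.lf 460371 0 0) (P.cons (P.lf 99975 0 0) P.nil))) (P.cons (P.cons (P.lf 134757 0 0) (P.cons (P.lf 18687 0 0) P.nil)) (P.cons (P.cons (P.lf 0 6051 0) P.nil) P.nil)))))) 105543)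
 (EL.cons 8 (TM.mk (P.cons (P.cons (P.lf 0 47492151 0) (P.cons (P.lf 34788078 0 0) (P.cons (P.lf 17381628 0 0) (P.cons (P.lf 1237905 0 0) (P.cons (P.lf 0 603762 0) (P.cons (P.lf 0 44865 0) P.nil)))))) (P.cons (P.cons (P.lf 0 37597851 0) (P.cons (P.lf 0 3030177 0) (P.cons (P.lf 0 1698867 0) (P.cons (P.lf 0 132543 0) (P.cons (P.lf 60003 0 0) P.nil))))) (P.cons (P.cons (P.lf 0 8522391 0) (P.cons (P.lf 0 2331999 0) (P.cons (P.lf 0 394260 0) (P.cons (P.lf 20097 0 0) P.nil)))) (P.cons (P.cons (P.lf 0 311781 0) (P.cons (P.lf 64503 0 0) (P.cons (P.lf 37569 0 0) P.nil))) (P.cons (P.cons (P.lf 86640 0 0) (P.cons (P.lf 30516 0 0) P.nil)) (P.cons (P.cons (P.lf 4608 0 0) P.nil) P.nil)))))) 50331)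
 (EL.cons 11 (TM.mk (P.cons (P.cons (P.lf 67054476 0 0) (P.cons (P.lf 0 59216283 0) (P.cons (P.lf 0 20430261 0) (P.cons (P.lf 5832657 0 0) (P.cons (P.lf 830991 0 0) (P.cons (P.lf 0 151671 0) P.nil)))))) (P.cons (P.cons (P.lf 31944990 0 0) (P.cons (P.lf 19238349 0 0) (P.cons (P.lf 785619 0 0) (P.cons (P.lf 0 1326819 0) (P.cons (P.lf 0 138390 0) P.nil))))) (P.cons (P.cons (P.lf 221832 0 0) (P.cons (P.lf 0 452835 0) (P.cons (P.lf 0 124545 0) (P.cons (P.lf 41526 0 0) P.nil)))) (P.cons (P.cons (P.lf 0 502989 0) (P.cons (P.lf 0 179115 0) (P.cons (P.lf 15075 0 0) P.nil))) (P.cons (P.cons (P.lf 7527 0 0) (P.cons (P.lf 11031 0 0) P.nil)) (P.cons (P.cons (P.lf 2961 0 0) P.nil) P.nil)))))) 94242)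
 EL.nil)))
noncomputable def S343_357_364_512_25 : EL := (EL.cons 4 (TM.mk (P.cons (P.cons (P.lf 0 718667607 0) (P.cons (P.lf 0 219503016 0) (P.cons (P.lf 0 14675457 0) (P.lf 4891815 0 0)))) (P.cons (P.cons (P.lf 0 153249795 0) (P.cons (P.lf 0 868287 0) (P.cons (P.lf 0 58053 0) (P.lf 19350 0 0)))) (P.cons (P.cons (P.lf 7760379 0 0) (P.cons (P.lf 3613929 0 0) (P.cons (P.lf 241617 0 0) (P.lf 0 80538 0)))) (P.cons (P.cons (P.lf 1829715 0 0) (P.cons (P.lf 0 66231 0) (P.cons (P.lf 0 4425 0) P.nil))) (P.cons (P.cons (P.lf 0 73233 0) (P.cons (P.lf 0 23784 0) P.nil)) (P.cons (P.cons (P.lf 0 8727 0) P.nil) P.nil)))))) 15708)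
 (EL.cons 8 (TM.mk (P.cons (P.cons (P.lf 0 423165102 0) (P.cons (P.lf 0 129247539 0) (P.cons (P.lf 0 8641188 0) (P.lf 2880396 0 0)))) (P.cons (P.cons (P.lf 0 134523381 0) (P.cons (P.lf 0 14037864 0) (P.cons (P.lf 0 938535 0) (P.lf 312843 0 0)))) (P.cons (P.cons (P.lf 0 6686973 0) (P.cons (P.lf 1520814 0 0) (P.cons (P.lf 101676 0 0) (P.lf 0 33891 0)))) (P.cons (P.cons (P.lf 1064571 0 0) (P.cons (P.lf 149592 0 0) (P.cons (P.lf 9999 0 0) P.nil))) (P.cons (P.cons (P.lf 61725 0 0) (P.cons (P.lf 0 10680 0) P.nil)) (P.cons (P.cons (P.lf 0 5286 0) P.nil) P.nil)))))) 11829)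
 (EL.cons 11 (TM.mk (P.cons (P.cons (P.lf 597469560 0 0) (P.cons (P.lf 92503290 0 0) (P.cons (P.lf 0 44565168 0) (P.cons (P.lf 0 1686474 0) (P.lf 421617 0 0))))) (P.cons (P.cons (P.lf 1575606 0 0) (P.cons (P.lf 243942 0 0) (P.cons (P.lf 0 117522 0) (P.cons (P.lf 0 4446 0) (P.lf 1110 0 0))))) (P.cons (P.cons (P.lf 0 6558924 0) (P.cons (P.lf 0 1015485 0) (P.cons (P.lf 489228 0 0) (P.cons (P.lf 18513 0 0) P.nil)))) (P.cons (P.cons (P.lf 128841 0 0) (P.cons (P.lf 19947 0 0) (P.cons (P.lf 0 9609 0) P.nil))) (P.cons (P.cons (P.lf 24981 0 0) (P.cons (P.lf 3867 0 0) P.nil)) (P.cons (P.cons (P.lf 0 1095 0) P.nil) P.nil)))))) 10077)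
 EL.nil)))
noncomputable def S343_357_364_512_26 : EL := (EL.cons 4 (TM.mk (P.cons (P.cons (P.lf 0 50689365 0) (P.cons (P.lf 37130043 0 0) (P.cons (P.lf 18551775 0 0) (P.cons (P.lf 1321242 0 0) (P.cons (P.lf 0 644409 0) (P.cons (P.lf 0 47886 0) P.nil)))))) (P.cons (P.cons (P.lf 0 37509903 0) (P.cons (P.lf 0 5152644 0) (P.cons (P.lf 0 2771787 0) (P.cons (P.lf 0 209733 0) (P.cons (P.lf 97338 0 0) P.nil))))) (P.cons (P.cons (P.lf 0 6981444 0) (P.cons (P.lf 0 2352108 0) (P.cons (P.lf 0 342216 0) (P.cons (P.lf 27684 0 0) P.nil)))) (P.cons (P.cons (P.lf 166899 0 0) (P.cons (P.lf 202266 0 0) (P.cons (P.lf 64407 0 0) P.nil))) (P.cons (P.cons (P.lf 114741 0 0) (P.cons (P.lf 30825 0 0) P.nil)) (P.cons (P.cons (P.lf 0 93 0) P.nil) P.nil)))))) 69846)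
 (EL.cons 8 (TM.mk (P.cons (P.cons (P.lf 0 29846856 0) (P.cons (P.lf 21862872 0 0) (P.cons (P.lf 10923636 0 0) (P.cons (P.lf 777972 0 0) (P.cons (P.lf 0 379440 0) (P.cons (P.lf 0 28194 0) P.nil)))))) (P.cons (P.cons (P.lf 0 25210209 0) (P.cons (P.lf 0 745881 0) (P.cons (P.lf 0 488850 0) (P.cons (P.lf 0 42075 0) (P.cons (P.lf 17604 0 0) P.nil))))) (P.cons (P.cons (P.lf 0 6550155 0) (P.cons (P.lf 0 1608843 0) (P.cons (P.lf 0 325521 0) (P.cons (P.lf 6708 0 0) P.nil)))) (P.cons (P.cons (P.lf 0 433926 0) (P.cons (P.lf 0 33441 0) (P.cons (P.lf 12540 0 0) P.nil))) (P.cons (P.cons (P.lf 54417 0 0) (P.cons (P.lf 24201 0 0) P.nil)) (P.cons (P.cons (P.lf 6129 0 0) P.nil) P.nil)))))) 35502)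
 (EL.cons 11 (TM.mk (P.cons (P.cons (P.lf 42140973 0 0) (P.cons (P.lf 0 37214991 0) (P.cons (P.lf 0 12839574 0) (P.cons (P.lf 3665583 0 0) (P.cons (P.lf 522243 0 0) (P.cons (P.lf 0 95319 0) P.nil)))))) (P.cons (P.cons (P.lf 22309056 0 0) (P.cons (P.lf 10118577 0 0) (P.cons (P.lf 0 186606 0) (P.cons (P.lf 0 639618 0) (P.cons (P.lf 0 59298 0) P.nil))))) (P.cons (P.cons (P.lf 1121526 0 0) (P.cons (P.lf 428181 0 0) (P.cons (P.lf 0 27225 0) (P.cons (P.lf 0 25188 0) P.nil)))) (P.cons (P.cons (P.lf 0 347658 0) (P.cons (P.lf 0 151047 0) (P.cons (P.lf 4377 0 0) P.nil))) (P.cons (P.cons (P.lf 0 12237 0) (P.cons (P.lf 1452 0 0) P.nil)) (P.cons (P.cons (P.lf 2754 0 0) P.nil) P.nil)))))) 60714)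
 EL.nil)))
noncomputable def S343_357_364_512_27 : EL := (EL.cons 13 (TM.mk (P.lf 0 4294967296 0) 0)
 EL.nil)
noncomputable def S343_357_364_512_28 : EL := (EL.cons 13 (TM.mk (P.cons (P.cons (P.lf 0 302934436 0) (P.cons (P.lf 314425400 0 0) (P.cons (P.lf 21021748 0 0) (P.lf 0 7007248 0)))) (P.cons (P.cons (P.lf 0 159571918 0) (P.cons (P.lf 0 48738132 0) (P.cons (P.lf 0 3258516 0) (P.lf 1086172 0 0)))) (P.cons (P.cons (P.lf 0 10966968 0) (P.cons (P.lf 1750452 0 0) (P.cons (P.lf 117028 0 0) (P.lf 0 39008 0)))) (P.cons (P.cons (P.lf 841685 0 0) (P.cons (P.lf 91440 0 0) (P.cons (P.lf 6112 0 0) P.nil))) (P.cons (P.cons (P.lf 12441 0 0) (P.cons (P.lf 0 7732 0) P.nil)) (P.cons (P.cons (P.lf 0 2115 0) P.nil) P.nil)))))) 4246)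
 EL.nil)
noncomputable def S343_357_364_512_29 : EL := (EL.cons 13 (TM.mk (P.cons (P.cons (P.lf 0 21366698 0) (P.cons (P.lf 44354368 0 0) (P.cons (P.lf 0 20052983 0) (P.cons (P.lf 0 4066391 0) (P.cons (P.lf 923080 0 0) (P.cons (P.lf 68594 0 0) P.nil)))))) (P.cons (P.cons (P.lf 0 22509986 0) (P.cons (P.lf 16488603 0 0) (P.cons (P.lf 8238419 0 0) (P.cons (P.lf 586733 0 0) (P.cons (P.lf 0 286167 0) P.nil))))) (P.cons (P.cons (P.lf 0 7475666 0) (P.cons (P.lf 0 1768894 0) (P.cons (P.lf 0 927625 0) (P.cons (P.lf 0 68801 0) P.nil)))) (P.cons (P.cons (P.lf 0 696184 0) (P.cons (P.lf 0 229167 0) (P.cons (P.lf 11017 0 0) P.nil))) (P.cons (P.cons (P.lf 36294 0 0) (P.cons (P.lf 31924 0 0) P.nil)) (P.cons (P.cons (P.lf 4924 0 0) P.nil) P.nil)))))) 112159)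
 EL.nil)
noncomputable def S343_357_364_512_30 : EL := (EL.cons 13 (TM.mk (P.cons (P.lf 0 2699209800 0) (P.cons (P.lf 0 143024544 0) (P.cons (P.lf 5231084 0 0) (P.cons (P.lf 2024 0 0) (P.cons (P.lf 0 4224 0) (P.cons (P.lf 88 0 0) P.nil)))))) 60)
 EL.nil)
noncomputable def S343_357_364_512_31 : EL := (EL.cons 13 (TM.mk (P.cons (P.cons (P.lf 0 190381798 0) (P.cons (P.lf 197603395 0 0) (P.cons (P.lf 13211301 0 0) (P.lf 0 4403766 0)))) (P.cons (P.cons (P.lf 0 110372236 0) (P.cons (P.lf 0 20159383 0) (P.cons (P.lf 0 1347808 0) (P.lf 449269 0 0)))) (P.cons (P.cons (P.lf 0 11837150 0) (P.cons (P.lf 0 905873 0) (P.cons (P.lf 0 60566 0) (P.lf 20189 0 0)))) (P.cons (P.cons (P.lf 358253 0 0) (P.cons (P.lf 174969 0 0) (P.cons (P.lf 11697 0 0) P.nil))) (P.cons (P.cons (P.lf 48981 0 0) (P.cons (P.lf 0 3614 0) P.nil)) (P.cons (P.cons (P.lf 0 2085 0) P.nil) P.nil)))))) 6447)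
 EL.nil)
noncomputable def S343_357_364_512_32 : EL := (EL.cons 13 (TM.mk (P.cons (P.cons (P.lf 0 13428088 0) (P.cons (P.lf 27874890 0 0) (P.cons (P.lf 0 12602472 0) (P.cons (P.lf 0 2555559 0) (P.cons (P.lf 580117 0 0) (P.cons (P.lf 43108 0 0) P.nil)))))) (P.cons (P.cons (P.lf 0 14858119 0) (P.cons (P.lf 11839429 0 0) (P.cons (P.lf 4509732 0 0) (P.cons (P.lf 233324 0 0) (P.cons (P.lf 0 149105 0) P.nil))))) (P.cons (P.cons (P.lf 0 5421717 0) (P.cons (P.lf 0 616619 0) (P.cons (P.lf 0 284206 0) (P.cons (P.lf 0 18747 0) P.nil)))) (P.cons (P.cons (P.lf 0 659040 0) (P.cons (P.lf 0 223030 0) (P.cons (P.lf 0 33991 0) P.nil))) (P.cons (P.cons (P.lf 8720 0 0) (P.cons (P.lf 14621 0 0) P.nil)) (P.cons (P.cons (P.lf 5132 0 0) P.nil) P.nil)))))) 94020)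
 EL.nil)
noncomputable def S343_357_364_512_33 : EL := (EL.cons 14 (TM.mk (P.lf 8589934592 0 0) 0)
 EL.nil)
noncomputable def S343_357_364_512_34 : EL := (EL.cons 14 (TM.mk (P.cons (P.cons (P.lf 605868872 0 0) (P.cons (P.lf 0 628850800 0) (P.cons (P.lf 0 42043496 0) (P.lf 14014496 0 0)))) (P.cons (P.cons (P.lf 319143836 0 0) (P.cons (P.lf 97476264 0 0) (P.cons (P.lf 6517032 0 0) (P.lf 0 2172344 0)))) (P.cons (P.cons (P.lf 21933936 0 0) (P.cons (P.lf 0 3500904 0) (P.cons (P.lf 0 234056 0) (P.lf 78016 0 0)))) (P.cons (P.cons (P.lf 0 1683370 0) (P.cons (P.lf 0 182880 0) (P.cons (P.lf 0 12224 0) P.nil))) (P.cons (P.cons (P.lf 0 24882 0) (P.cons (P.lf 15464 0 0) P.nil)) (P.cons (P.cons (P.lf 4230 0 0) P.nil) P.nil)))))) 8492)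
 EL.nil)
noncomputable def S343_357_364_512_35 : EL := (EL.cons 14 (TM.mk (P.cons (P.cons (P.lf 42733396 0 0) (P.cons (P.lf 0 88708736 0) (P.cons (P.lf 40105966 0 0) (P.cons (P.lf 8132782 0 0) (P.cons (P.lf 0 1846160 0) (P.cons (P.lf 0 137188 0) P.nil)))))) (P.cons (P.cons (P.lf 45019972 0 0) (P.cons (P.lf 0 32977206 0) (P.cons (P.lf 0 16476838 0) (P.cons (P.lf 0 1173466 0) (P.cons (P.lf 572334 0 0) P.nil))))) (P.cons (P.cons (P.lf 14951332 0 0) (P.cons (P.lf 3537788 0 0) (P.cons (P.lf 1855250 0 0) (P.cons (P.lf 137602 0 0) P.nil)))) (P.cons (P.cons (P.lf 1392368 0 0) (P.cons (P.lf 458334 0 0) (P.cons (P.lf 0 22034 0) P.nil))) (P.cons (P.cons (P.lf 0 72588 0) (P.cons (P.lf 0 63848 0) P.nil)) (P.cons (P.cons (P.lf 0 9848 0) P.nil) P.nil)))))) 224318)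
 EL.nil)
noncomputable def S343_357_364_512_36 : EL := (EL.cons 14 (TM.mk (P.cons (P.lf 5398419600 0 0) (P.cons (P.lf 286049088 0 0) (P.cons (P.lf 0 10462168 0) (P.cons (P.lf 0 4048 0) (P.cons (P.lf 8448 0 0) (P.cons (P.lf 0 176 0) P.nil)))))) 120)
 EL.nil)
noncomputable def S343_357_364_512_37 : EL := (EL.cons 14 (TM.mk (P.cons (P.cons (P.lf 380763596 0 0) (P.cons (P.lf 0 395206790 0) (P.cons (P.lf 0 26422602 0) (P.lf 8807532 0 0)))) (P.cons (P.cons (P.lf 220744472 0 0) (P.cons (P.lf 40318766 0 0) (P.cons (P.lf 2695616 0 0) (P.lf 0 898538 0)))) (P.cons (P.cons (P.lf 23674300 0 0) (P.cons (P.lf 1811746 0 0) (P.cons (P.lf 121132 0 0) (P.lf 0 40378 0)))) (P.cons (P.cons (P.lf 0 716506 0) (P.cons (P.lf 0 349938 0) (P.cons (P.lf 0 23394 0) P.nil))) (P.cons (P.cons (P.lf 0 97962 0) (P.cons (P.lf 7228 0 0) P.nil)) (P.cons (P.cons (P.lf 4170 0 0) P.nil) P.nil)))))) 12894)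
 EL.nil)
noncomputable def S343_357_364_512_38 : EL := (EL.cons 14 (TM.mk (P.cons (P.cons (P.lf 26856176 0 0) (P.cons (P.lf 0 55749780 0) (P.cons (P.lf 25204944 0 0) (P.cons (P.lf 5111118 0 0) (P.cons (P.lf 0 1160234 0) (P.cons (P.lf 0 86216 0) P.nil)))))) (P.cons (P.cons (P.lf 29716238 0 0) (P.cons (P.lf 0 23678858 0) (P.cons (P.lf 0 9019464 0) (P.cons (P.lf 0 466648 0) (P.cons (P.lf 298210 0 0) P.nil))))) (P.cons (P.cons (P.lf 10843434 0 0) (P.cons (P.lf 1233238 0 0) (P.cons (P.lf 568412 0 0) (P.cons (P.lf 37494 0 0) P.nil)))) (P.cons (P.cons (P.lf 1318080 0 0) (P.cons (P.lf 446060 0 0) (P.cons (P.lf 67982 0 0) P.nil))) (P.cons (P.cons (P.lf 0 17440 0) (P.cons (P.lf 0 29242 0) P.nil)) (P.cons (P.cons (P.lf 0 10264 0) P.nil) P.nil)))))) 188040)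
 EL.nil)
noncomputable def S343_357_364_512_39 : EL := (EL.cons 14 (TM.mk (P.cons (P.lf 3392684060 0 0) (P.cons (P.lf 359540106 0 0) (P.cons (P.lf 0 3624504 0) (P.cons (P.lf 0 701878 0) (P.cons (P.lf 23090 0 0) (P.cons (P.lf 350 0 0) P.nil)))))) 204)
 EL.nil)
noncomputable def S343_357_364_512_40 : EL := (EL.cons 14 (TM.mk (P.cons (P.cons (P.lf 239294216 0 0) (P.cons (P.lf 0 248371166 0) (P.cons (P.lf 0 16605516 0) (P.lf 5535170 0 0)))) (P.cons (P.cons (P.lf 151408412 0 0) (P.cons (P.lf 12178100 0 0) (P.cons (P.lf 814198 0 0) (P.lf 0 271398 0)))) (P.cons (P.cons (P.lf 21765468 0 0) (P.cons (P.lf 2962588 0 0) (P.cons (P.lf 198074 0 0) (P.lf 0 66024 0)))) (P.cons (P.cons (P.lf 69034 0 0) (P.cons (P.lf 0 208510 0) (P.cons (P.lf 0 13938 0) P.nil))) (P.cons (P.cons (P.lf 0 113988 0) (P.cons (P.lf 0 9724 0) P.nil)) (P.cons (P.cons (P.lf 428 0 0) P.nil) P.nil)))))) 12424)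
 EL.nil)
noncomputable def S343_357_364_512_41 : EL := (EL.cons 14 (TM.mk (P.cons (P.cons (P.lf 16877998 0 0) (P.cons (P.lf 0 35036438 0) (P.cons (P.lf 15840268 0 0) (P.cons (P.lf 3212126 0 0) (P.cons (P.lf 0 729160 0) (P.cons (P.lf 0 54182 0) P.nil)))))) (P.cons (P.cons (P.lf 19569754 0 0) (P.cons (P.lf 0 16737680 0) (P.cons (P.lf 0 4829024 0) (P.cons (P.lf 0 123066 0) (P.cons (P.lf 148776 0 0) P.nil))))) (P.cons (P.cons (P.lf 7771506 0 0) (P.cons (P.lf 54422 0 0) (P.cons (P.lf 26172 0 0) (P.cons (P.lf 1798 0 0) P.nil)))) (P.cons (P.cons (P.lf 1153244 0 0) (P.cons (P.lf 350264 0 0) (P.cons (P.lf 72626 0 0) P.nil))) (P.cons (P.cons (P.lf 19736 0 0) (P.cons (P.lf 0 5070 0) P.nil)) (P.cons (P.cons (P.lf 0 8614 0) P.nil) P.nil)))))) 143568)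
 EL.nil)
noncomputable def S343_357_364_512_42 : EL := (EL.cons 14 (TM.mk (P.cons (P.lf 2132162000 0 0) (P.cons (P.lf 338934190 0 0) (P.cons (P.lf 5562870 0 0) (P.cons (P.lf 0 1001302 0) (P.cons (P.lf 0 1280 0) (P.cons (P.lf 2128 0 0) P.nil)))))) 254)
 EL.nil)
noncomputable def S343_357_364_512_43 : EL := (EL.cons 14 (TM.mk (P.cons (P.cons (P.lf 150386544 0 0) (P.cons (P.lf 0 156091034 0) (P.cons (P.lf 0 10435882 0) (P.lf 3478626 0 0)))) (P.cons (P.cons (P.lf 103122558 0 0) (P.cons (P.lf 0 617448 0) (P.cons (P.lf 0 41282 0) (P.lf 13760 0 0)))) (P.cons (P.cons (P.lf 18429224 0 0) (P.cons (P.lf 2569906 0 0) (P.cons (P.lf 171818 0 0) (P.lf 0 57272 0)))) (P.cons (P.cons (P.lf 583664 0 0) (P.cons (P.lf 0 47100 0) (P.cons (P.lf 0 3148 0) P.nil))) (P.cons (P.cons (P.lf 0 95684 0) (P.cons (P.lf 0 16912 0) P.nil)) (P.cons (P.cons (P.lf 0 3476 0) P.nil) P.nil)))))) 12266)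
 EL.nil)
noncomputable def S343_357_364_512_44 : EL := (EL.cons 14 (TM.mk (P.cons (P.cons (P.lf 10607126 0 0) (P.cons (P.lf 0 22018956 0) (P.cons (P.lf 9954954 0 0) (P.cons (P.lf 2018688 0 0) (P.cons (P.lf 0 458246 0) (P.cons (P.lf 0 34052 0) P.nil)))))) (P.cons (P.cons (P.lf 12860828 0 0) (P.cons (P.lf 0 11685672 0) (P.cons (P.lf 0 2507352 0) (P.cons (P.lf 29622 0 0) (P.cons (P.lf 69218 0 0) P.nil))))) (P.cons (P.cons (P.lf 5515196 0 0) (P.cons (P.lf 0 480496 0) (P.cons (P.lf 0 163652 0) (P.cons (P.lf 0 6878 0) P.nil)))) (P.cons (P.cons (P.lf 959718 0 0) (P.cons (P.lf 242340 0 0) (P.cons (P.lf 52388 0 0) P.nil))) (P.cons (P.cons (P.lf 41348 0 0) (P.cons (P.lf 8384 0 0) P.nil)) (P.cons (P.cons (P.lf 0 6144 0) P.nil) P.nil)))))) 110334)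
 EL.nil)
noncomputable def S343_357_364_512_45 : EL := (EL.cons 14 (TM.mk (P.cons (P.cons (P.lf 3014088 0 0) (P.cons (P.lf 0 9385262 0) (P.cons (P.lf 9113788 0 0) (P.cons (P.lf 0 1858542 0) (P.cons (P.lf 0 1066624 0) (P.cons (P.lf 151104 0 0) P.nil)))))) (P.cons (P.cons (P.lf 4763050 0 0) (P.cons (P.lf 0 8432666 0) (P.cons (P.lf 1547532 0 0) (P.cons (P.lf 2037486 0 0) (P.cons (P.lf 229678 0 0) P.nil))))) (P.cons (P.cons (P.lf 2836308 0 0) (P.cons (P.lf 0 1803290 0) (P.cons (P.lf 0 1016148 0) (P.cons (P.lf 0 378786 0) P.nil)))) (P.cons (P.cons (P.lf 760278 0 0) (P.cons (P.lf 145418 0 0) (P.cons (P.lf 42602 0 0) P.nil))) (P.cons (P.cons (P.lf 75842 0 0) (P.cons (P.lf 42416 0 0) P.nil)) (P.cons (P.cons (P.lf 0 2874 0) P.nil) P.nil)))))) 417708)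
 EL.nil)
noncomputable def S343_357_364_512_46 : EL := (EL.cons 15 (TM.mk (P.lf 4294967296 0 0) 0)
 EL.nil)
noncomputable def S343_357_364_512_47 : EL := (EL.cons 15 (TM.mk (P.cons (P.cons (P.lf 302934436 0 0) (P.cons (P.lf 0 314425400 0) (P.cons (P.lf 0 21021748 0) (P.lf 7007248 0 0)))) (P.cons (P.cons (P.lf 159571918 0 0) (P.cons (P.lf 48738132 0 0) (P.cons (P.lf 3258516 0 0) (P.lf 0 1086172 0)))) (P.cons (P.cons (P.lf 10966968 0 0) (P.cons (P.lf 0 1750452 0) (P.cons (P.lf 0 117028 0) (P.lf 39008 0 0)))) (P.cons (P.cons (P.lf 0 841685 0) (P.cons (P.lf 0 91440 0) (P.cons (P.lf 0 6112 0) P.nil))) (P.cons (P.cons (P.lf 0 12441 0) (P.cons (P.lf 7732 0 0) P.nil)) (P.cons (P.cons (P.lf 2115 0 0) P.nil) P.nil)))))) 4246)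
 EL.nil)
noncomputable def S343_357_364_512_48 : EL := (EL.cons 15 (TM.mk (P.cons (P.cons (P.lf 21366698 0 0) (P.cons (P.lf 0 44354368 0) (P.cons (P.lf 20052983 0 0) (P.cons (P.lf 4066391 0 0) (P.cons (P.lf 0 923080 0) (P.cons (P.lf 0 68594 0) P.nil)))))) (P.cons (P.cons (P.lf 22509986 0 0) (P.cons (P.lf 0 16488603 0) (P.cons (P.lf 0 8238419 0) (P.cons (P.lf 0 586733 0) (P.cons (P.lf 286167 0 0) P.nil))))) (P.cons (P.cons (P.lf 7475666 0 0) (P.cons (P.lf 1768894 0 0) (P.cons (P.lf 927625 0 0) (P.cons (P.lf 68801 0 0) P.nil)))) (P.cons (P.cons (P.lf 696184 0 0) (P.cons (P.lf 229167 0 0) (P.cons (P.lf 0 11017 0) P.nil))) (P.cons (P.cons (P.lf 0 36294 0) (P.cons (P.lf 0 31924 0) P.nil)) (P.cons (P.cons (P.lf 0 4924 0) P.nil) P.nil)))))) 112159)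
 EL.nil)
noncomputable def S343_357_364_512 : SL := (SL.cons S343_357_364_512_0 (SL.cons S343_357_364_512_1 (SL.cons S343_357_364_512_2 (SL.cons S343_357_364_512_3 (SL.cons S343_357_364_512_4 (SL.cons S343_357_364_512_5 (SL.cons S343_357_364_512_6 (SL.cons S343_357_364_512_7 (SL.cons S343_357_364_512_8 (SL.cons S343_357_364_512_9 (SL.cons S343_357_364_512_10 (SL.cons S343_357_364_512_11 (SL.cons S343_357_364_512_12 (SL.cons S343_357_364_512_13 (SL.cons S343_357_364_512_14 (SL.cons S343_357_364_512_15 (SL.cons S343_357_364_512_16 (SL.cons S343_357_364_512_17 (SL.cons S343_357_364_512_18 (SL.cons S343_357_364_512_19 (SL.cons S343_357_364_512_20 (SL.cons S343_357_364_512_21 (SL.cons S343_357_364_512_22 (SL.cons S343_357_364_512_23 (SL.cons S343_357_364_512_24 (SL.cons S343_357_364_512_25 (SL.cons S343_357_364_512_26 (SL.cons S343_357_364_512_27 (SL.cons S343_357_364_512_28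 (SL.cons S343_357_364_512_29 (SL.cons S343_357_364_512_30 (SL.cons S343_357_364_512_31 (SL.cons S343_357_364_512_32 (SL.cons S343_357_364_512_33 (SL.cons S343_357_364_512_34 (SL.cons S343_357_364_512_35 (SL.cons S343_357_364_512_36 (SL.cons S343_357_364_512_37 (SL.cons S343_357_364_512_38 (SL.cons S343_357_364_512_39 (SL.cons S343_357_364_512_40 (SL.cons S343_357_364_512_41 (SL.cons S343_357_364_512_42 (SL.cons S343_357_364_512_43 (SL.cons S343_357_364_512_44 (SL.cons S343_357_364_512_45 (SL.cons S343_357_364_512_46 (SL.cons S343_357_364_512_47 (SL.cons S343_357_364_512_48 SL.nil)))))))))))))))))))))))))))))))))))))))))))))))))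
theorem S314_372_512_660_ok : band (seq (shp 5 314 372 512 660) S314_372_512_660) (sok S314_372_512_660) = true := by decide +kernel

theorem S314_372_660_734_ok : band (seq (shp 5 314 372 660 734) S314_372_660_734) (sok S314_372_660_734) = true := by decide +kernel

theorem S314_372_660_808_ok : band (seq (shp 5 314 372 660 808) S314_372_660_808) (sok S314_372_660_808) = true := by decide +kernel

theorem S314_372_734_808_ok : band (seq (shp 5 314 372 734 808) S314_372_734_808) (sok S314_372_734_808) = true := by decide +kernel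

theorem S328_343_660_808_ok : band (seq (shp 5 328 343 660 808) S328_343_660_808) (sok S328_343_660_808) = true := by decide +kernel

theorem S343_357_364_512_ok : band (seq (shp 5 343 357 364 512) S343_357_364_512) (sok S343_357_364_512) = true := by decide +kernel

end Vale.Agent.P098.Ck
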