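import Vale.Agent.P098.CkDefs

namespace Vale.Agent.P098.Ck

noncomputable def S343_372_438_512_0 : EL := (EL.cons 0 (TM.mk (P.cons (P.lf 5139680571 0 0) (P.cons (P.lf 0 636245268 0) (P.cons (P.lf 21563379 0 0) (P.cons (P.lf 4685115 0 0) (P.cons (P.lf 0 394321 0) (P.cons (P.lf 0 4352 0) P.nil)))))) 3197)
 (EL.cons 1 (TM.mk (P.cons (P.lf 1792040857 0 0) (P.cons (P.lf 0 37383279 0) (P.cons (P.lf 0 39281548 0) (P.cons (P.lf 2177913 0 0) (P.cons (P.lf 137038 0 0) (P.cons (P.lf 0 19477 0) P.nil)))))) 1484)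
 (EL.cons 5 (TM.mk (P.cons (P.lf 5474002426 0 0) (P.cons (P.lf 226220540 0 0) (P.cons (P.lf 0 7666984 0) (P.cons (P.lf 0 1665814 0) (P.cons (P.lf 140204 0 0) (P.cons (P.lf 1546 0 0) P.nil)))))) 969)
 (EL.cons 9 (TM.mk (P.lf 6442450944 0 0) 2)
 EL.nil))))
noncomputable def S343_372_438_512_1 : EL := (EL.cons 0 (TM.mk (P.cons (P.cons (P.lf 3199500219 0 0) (P.cons (P.lf 155377529 0 0) (P.cons (P.lf 2473029 0 0) (P.lf 0 824334 0)))) (P.cons (P.cons (P.lf 931317967 0 0) (P.cons (P.lf 27795345 0 0) (P.cons (P.lf 442407 0 0) (P.lf 0 147477 0)))) (P.cons (P.cons (P.lf 0 226468111 0) (P.cons (P.lf 0 26577584 0) (P.cons (P.lf 0 423013 0) (P.lf 140997 0 0)))) (P.cons (P.cons (P.lf 0 22491712 0) (P.cons (P.lf 3339466 0 0) (P.cons (P.lf 53139 0 0) P.nil))) (P.cons (P.cons (P.lf 7409516 0 0) (P.cons (P.lf 258006 0 0) P.nil)) (P.cons (P.cons (P.lf 0 99146 0) P.nil) P.nil)))))) 341530)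
 (EL.cons 1 (TM.mk (P.cons (P.cons (P.lf 309278519 0 0) (P.cons (P.lf 0 39019577 0) (P.cons (P.lf 0 621040 0) (P.lf 207007 0 0)))) (P.cons (P.cons (P.lf 555168581 0 0) (P.cons (P.lf 59477655 0 0) (P.cons (P.lf 946652 0 0) (P.lf 0 315542 0)))) (P.cons (P.cons (P.lf 54292398 0 0) (P.cons (P.lf 0 8409894 0) (P.cons (P.lf 0 133845 0) (P.lf 44610 0 0)))) (P.cons (P.cons (P.lf 0 28955184 0) (P.cons (P.lf 0 1525197 0) (P.cons (P.lf 0 24266 0) P.nil))) (P.cons (P.cons (P.lf 0 242193 0) (P.cons (P.lf 366420 0 0) P.nil)) (P.cons (P.cons (P.lf 535712 0 0) P.nil) P.nil)))))) 167881)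
 (EL.cons 5 (TM.mk (P.cons (P.cons (P.lf 0 543271935 0) (P.cons (P.lf 0 291181164 0) (P.cons (P.lf 0 4634532 0) (P.lf 1544844 0 0)))) (P.cons (P.cons (P.lf 384080971 0 0) (P.cons (P.lf 72785818 0 0) (P.cons (P.lf 1158480 0 0) (P.lf 0 386154 0)))) (P.cons (P.cons (P.lf 132876842 0 0) (P.cons (P.lf 1820378 0 0) (P.cons (P.lf 28972 0 0) (P.lf 0 9650 0)))) (P.cons (P.cons (P.lf 0 5632936 0) (P.cons (P.lf 0 1656818 0) (P.cons (P.lf 0 26360 0) P.nil))) (P.cons (P.cons (P.lf 0 2573463 0) (P.cons (P.lf 27700 0 0) P.nil)) (P.cons (P.cons (P.lf 150978 0 0) P.nil) P.nil)))))) 125563)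
 (EL.cons 9 (TM.mk (P.cons (P.cons (P.lf 524407180 0 0) (P.cons (P.lf 0 208178658 0) (P.cons (P.lf 0 3313434 0) (P.lf 1104474 0 0)))) (P.cons (P.cons (P.lf 631073155 0 0) (P.cons (P.lf 72942888 0 0) (P.cons (P.lf 1160976 0 0) (P.lf 0 386988 0)))) (P.cons (P.cons (P.lf 46195450 0 0) (P.cons (P.lf 0 6731844 0) (P.cons (P.lf 0 107142 0) (P.lf 35712 0 0)))) (P.cons (P.cons (P.lf 0 12026454 0) (P.cons (P.lf 0 414222 0) (P.cons (P.lf 0 6588 0) P.nil))) (P.cons (P.cons (P.lf 53841 0 0) (P.cons (P.lf 105378 0 0) P.nil)) (P.cons (P.cons (P.lf 102106 0 0) P.nil) P.nil)))))) 25241)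
 (EL.cons 2 (TM.mk (P.cons (P.cons (P.lf 0 886112926 0) (P.cons (P.lf 0 32846996 0) (P.cons (P.lf 16275802 0 0) (P.cons (P.lf 147690 0 0) (P.lf 0 36922 0))))) (P.cons (P.cons (P.lf 121978816 0 0) (P.cons (P.lf 4521585 0 0) (P.cons (P.lf 0 2240460 0) (P.cons (P.lf 0 20328 0) (P.lf 5082 0 0))))) (P.cons (P.cons (P.lf 19800869 0 0) (P.cons (P.lf 733992 0 0) (P.cons (P.lf 0 363692 0) (P.cons (P.lf 0 3299 0) P.nil)))) (P.cons (P.cons (P.lf 0 3864285 0) (P.cons (P.lf 0 143240 0) (P.cons (P.lf 70976 0 0) P.nil))) (P.cons (P.cons (P.lf 25498 0 0) (P.cons (P.lf 942 0 0) P.nil)) (P.cons (P.cons (P.lf 31491 0 0) P.nil) P.nil)))))) 13855)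
 (EL.cons 6 (TM.mk (P.cons (P.cons (P.lf 478870080 0 0) (P.cons (P.lf 17751060 0 0) (P.cons (P.lf 0 8795712 0) (P.cons (P.lf 0 79815 0) (P.lf 19953 0 0))))) (P.cons (P.cons (P.lf 0 167789373 0) (P.cons (P.lf 0 6219720 0) (P.cons (P.lf 3081894 0 0) (P.cons (P.lf 27963 0 0) (P.lf 0 6990 0))))) (P.cons (P.cons (P.lf 15485163 0 0) (P.cons (P.lf 574011 0 0) (P.cons (P.lf 0 284424 0) (P.cons (P.lf 0 2580 0) P.nil)))) (P.cons (P.cons (P.lf 952842 0 0) (P.cons (P.lf 35319 0 0) (P.cons (P.lf 0 17499 0) P.nil))) (P.cons (P.cons (P.lf 0 242409 0) (P.cons (P.lf 0 8985 0) P.nil)) (P.cons (P.cons (P.lf 8148 0 0) P.nil) P.nil)))))) 8271)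
 EL.nil))))))
noncomputable def S343_372_438_512_2 : EL := (EL.cons 0 (TM.mk (P.cons (P.cons (P.lf 486816121 0 0) (P.cons (P.lf 0 154441917 0) (P.cons (P.lf 0 17866435 0) (P.cons (P.lf 328884 0 0) (P.cons (P.lf 159582 0 0) (P.cons (P.lf 2592 0 0) P.nil)))))) (P.cons (P.cons (P.lf 700686759 0 0) (P.cons (P.lf 66944200 0 0) (P.cons (P.lf 7212767 0 0) (P.cons (P.lf 0 159469 0) (P.cons (P.lf 0 63663 0) P.nil))))) (P.cons (P.cons (P.lf 146157705 0 0) (P.cons (P.lf 21499530 0 0) (P.cons (P.lf 870510 0 0) (P.cons (P.lf 0 97238 0) P.nil)))) (P.cons (P.cons (P.lf 0 45803890 0) (P.cons (P.lf 0 10096100 0) (P.cons (P.lf 0 820735 0) P.nil))) (P.cons (P.cons (P.lf 0 7866822 0) (P.cons (P.lf 59988 0 0) P.nil)) (P.cons (P.cons (P.lf 1924372 0 0) P.nil) P.nil)))))) 1653085)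
 (EL.cons 1 (TM.mk (P.cons (P.cons (P.lf 38476124 0 0) (P.cons (P.lf 0 16912929 0) (P.cons (P.lf 381336 0 0) (P.cons (P.lf 110440 0 0) (P.cons (P.lf 0 6735 0) (P.cons (P.lf 0 103 0) P.nil)))))) (P.cons (P.cons (P.lf 122641247 0 0) (P.cons (P.lf 0 18992214 0) (P.cons (P.lf 0 3679421 0) (P.cons (P.lf 0 6745 0) (P.cons (P.lf 34971 0 0) P.nil))))) (P.cons (P.cons (P.lf 103606962 0 0) (P.cons (P.lf 14925889 0 0) (P.cons (P.lf 1872366 0 0) (P.cons (P.lf 0 27147 0) P.nil)))) (P.cons (P.cons (P.lf 11771116 0 0) (P.cons (P.lf 776347 0 0) (P.cons (P.lf 0 187534 0) P.nil))) (P.cons (P.cons (P.lf 0 6011920 0) (P.cons (P.lf 0 1200563 0) P.nil)) (P.cons (P.cons (P.lf 0 512628 0) P.nil) P.nil)))))) 836153)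
 (EL.cons 5 (TM.mk (P.cons (P.cons (P.lf 0 124712634 0) (P.cons (P.lf 16502934 0 0) (P.cons (P.lf 13365088 0 0) (P.cons (P.lf 329542 0 0) (P.cons (P.lf 0 135701 0) (P.cons (P.lf 0 2201 0) P.nil)))))) (P.cons (P.cons (P.lf 0 132697702 0) (P.cons (P.lf 0 56566532 0) (P.cons (P.lf 0 8428662 0) (P.cons (P.lf 60449 0 0) (P.cons (P.lf 77969 0 0) P.nil))))) (P.cons (P.cons (P.lf 26615383 0 0) (P.cons (P.lf 3925816 0 0) (P.cons (P.lf 1303694 0 0) (P.cons (P.lf 18678 0 0) P.nil)))) (P.cons (P.cons (P.lf 24323777 0 0) (P.cons (P.lf 4085011 0 0) (P.cons (P.lf 157264 0 0) P.nil))) (P.cons (P.cons (P.lf 512164 0 0) (P.cons (P.lf 0 515849 0) P.nil)) (P.cons (P.cons (P.lf 0 848889 0) P.nil) P.nil)))))) 693082)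
 (EL.cons 9 (TM.mk (P.cons (P.cons (P.lf 42686065 0 0) (P.cons (P.lf 0 33890946 0) (P.cons (P.lf 6187578 0 0) (P.cons (P.lf 393942 0 0) (P.cons (P.lf 0 69673 0) (P.cons (P.lf 0 1135 0) P.nil)))))) (P.cons (P.cons (P.lf 102737077 0 0) (P.cons (P.lf 0 28909552 0) (P.cons (P.lf 0 5174224 0) (P.cons (P.lf 3315 0 0) (P.cons (P.lf 48825 0 0) P.nil))))) (P.cons (P.cons (P.lf 69337551 0 0) (P.cons (P.lf 10208898 0 0) (P.cons (P.lf 1423422 0 0) (P.cons (P.lf 0 14023 0) P.nil)))) (P.cons (P.cons (P.lf 7092315 0 0) (P.cons (P.lf 437029 0 0) (P.cons (P.lf 0 118711 0) P.nil))) (P.cons (P.cons (P.lf 0 2016103 0) (P.cons (P.lf 0 436347 0) P.nil)) (P.cons (P.cons (P.lf 0 145299 0) P.nil) P.nil)))))) 199760)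
 (EL.cons 2 (TM.mk (P.cons (P.cons (P.lf 0 144256893 0) (P.cons (P.lf 51919554 0 0) (P.cons (P.lf 5683944 0 0) (P.cons (P.lf 0 1297850 0) (P.cons (P.lf 0 43560 0) (P.cons (P.lf 7813 0 0) P.nil)))))) (P.cons (P.cons (P.lf 0 153741335 0) (P.cons (P.lf 0 33647664 0) (P.cons (P.lf 1343008 0 0) (P.cons (P.lf 670764 0 0) (P.cons (P.lf 11913 0 0) P.nil))))) (P.cons (P.cons (P.lf 14412802 0 0) (P.cons (P.lf 3868565 0 0) (P.cons (P.lf 0 88059 0) (P.cons (P.lf 0 79363 0) P.nil)))) (P.cons (P.cons (P.lf 8307703 0 0) (P.cons (P.lf 865102 0 0) (P.cons (P.lf 0 123069 0) P.nil))) (P.cons (P.cons (P.lf 0 939155 0) (P.cons (P.lf 0 210015 0) P.nil)) (P.cons (P.cons (P.lf 0 145265 0) P.nil) P.nil)))))) 161948)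
 (EL.cons 6 (TM.mk (P.cons (P.cons (P.lf 77958804 0 0) (P.cons (P.lf 0 28058184 0) (P.cons (P.lf 0 3071694 0) (P.cons (P.lf 701376 0 0) (P.cons (P.lf 23538 0 0) (P.cons (P.lf 0 4218 0) P.nil)))))) (P.cons (P.cons (P.lf 66500184 0 0) (P.cons (P.lf 24152568 0 0) (P.cons (P.lf 0 72336 0) (P.cons (P.lf 0 511692 0) (P.cons (P.lf 0 11448 0) P.nil))))) (P.cons (P.cons (P.lf 0 23483364 0) (P.cons (P.lf 0 6671514 0) (P.cons (P.lf 123966 0 0) (P.cons (P.lf 137814 0 0) P.nil)))) (P.cons (P.cons (P.lf 0 1005288 0) (P.cons (P.lf 540882 0 0) (P.cons (P.lf 49092 0 0) P.nil))) (P.cons (P.cons (P.lf 1003722 0 0) (P.cons (P.lf 79326 0 0) P.nil)) (P.cons (P.cons (P.lf 0 77934 0) P.nil) P.nil)))))) 104838)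
 EL.nil))))))
noncomputable def S343_372_438_512_3 : EL := (EL.cons 0 (TM.mk (P.cons (P.lf 3316036292 0 0) (P.cons (P.lf 636245268 0 0) (P.cons (P.lf 0 21563379 0) (P.cons (P.lf 0 4685115 0) (P.cons (P.lf 394321 0 0) (P.cons (P.lf 4352 0 0) P.nil)))))) 3197)
 (EL.cons 1 (TM.mk (P.cons (P.lf 0 1792040857 0) (P.cons (P.lf 37383279 0 0) (P.cons (P.lf 39281548 0 0) (P.cons (P.lf 0 2177913 0) (P.cons (P.lf 0 137038 0) (P.cons (P.lf 19477 0 0) P.nil)))))) 1484)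
 (EL.cons 5 (TM.mk (P.cons (P.lf 968448518 0 0) (P.cons (P.lf 0 226220540 0) (P.cons (P.lf 7666984 0 0) (P.cons (P.lf 1665814 0 0) (P.cons (P.lf 0 140204 0) (P.cons (P.lf 0 1546 0) P.nil)))))) 962)
 EL.nil)))
noncomputable def S343_372_438_512_4 : EL := (EL.cons 0 (TM.mk (P.cons (P.cons (P.lf 269921067 0 0) (P.cons (P.lf 0 107153005 0) (P.cons (P.lf 0 1705478 0) (P.lf 568490 0 0)))) (P.cons (P.cons (P.lf 376613354 0 0) (P.cons (P.lf 16985550 0 0) (P.cons (P.lf 270344 0 0) (P.lf 0 90112 0)))) (P.cons (P.cons (P.lf 84346020 0 0) (P.cons (P.lf 4435511 0 0) (P.cons (P.lf 70597 0 0) (P.lf 0 23531 0)))) (P.cons (P.cons (P.lf 0 4121644 0) (P.cons (P.lf 0 970783 0) (P.cons (P.lf 0 15447 0) P.nil))) (P.cons (P.cons (P.lf 0 1741452 0) (P.cons (P.lf 0 29923 0) P.nil)) (P.cons (P.cons (P.lf 103510 0 0) P.nil) P.nil)))))) 70792)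
 (EL.cons 1 (TM.mk (P.cons (P.cons (P.lf 0 145869808 0) (P.cons (P.lf 57907256 0 0) (P.cons (P.lf 921667 0 0) (P.lf 0 307220 0)))) (P.cons (P.cons (P.lf 0 172497210 0) (P.cons (P.lf 0 21497878 0) (P.cons (P.lf 0 342163 0) (P.lf 114052 0 0)))) (P.cons (P.cons (P.lf 0 5990424 0) (P.cons (P.lf 1026472 0 0) (P.cons (P.lf 16335 0 0) (P.lf 0 5445 0)))) (P.cons (P.cons (P.lf 7283911 0 0) (P.cons (P.lf 591288 0 0) (P.cons (P.lf 9408 0 0) P.nil))) (P.cons (P.cons (P.lf 0 27586 0) (P.cons (P.lf 0 92990 0) P.nil)) (P.cons (P.cons (P.lf 0 128872 0) P.nil) P.nil)))))) 40177)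
 (EL.cons 5 (TM.mk (P.cons (P.cons (P.lf 78830456 0 0) (P.cons (P.lf 0 31294038 0) (P.cons (P.lf 0 498084 0) (P.lf 166026 0 0)))) (P.cons (P.cons (P.lf 76450746 0 0) (P.cons (P.lf 18274988 0 0) (P.cons (P.lf 290868 0 0) (P.lf 0 96954 0)))) (P.cons (P.cons (P.lf 0 14591212 0) (P.cons (P.lf 0 3821018 0) (P.cons (P.lf 0 60814 0) (P.lf 20270 0 0)))) (P.cons (P.cons (P.lf 0 2543342 0) (P.cons (P.lf 207092 0 0) (P.cons (P.lf 3296 0 0) P.nil))) (P.cons (P.cons (P.lf 637128 0 0) (P.cons (P.lf 45764 0 0) P.nil)) (P.cons (P.cons (P.lf 0 2768 0) P.nil) P.nil)))))) 25442)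
 EL.nil)))
noncomputable def S343_372_438_512_5 : EL := (EL.cons 0 (TM.mk (P.cons (P.cons (P.lf 21971225 0 0) (P.cons (P.lf 0 17444230 0) (P.cons (P.lf 3184848 0 0) (P.cons (P.lf 202767 0 0) (P.cons (P.lf 0 35861 0) (P.cons (P.lf 0 583 0) P.nil)))))) (P.cons (P.cons (P.lf 57096077 0 0) (P.cons (P.lf 0 18227235 0) (P.cons (P.lf 0 2052184 0) (P.cons (P.lf 40610 0 0) (P.cons (P.lf 18249 0 0) P.nil))))) (P.cons (P.cons (P.lf 45692448 0 0) (P.cons (P.lf 2513067 0 0) (P.cons (P.lf 200949 0 0) (P.cons (P.lf 0 8208 0) P.nil)))) (P.cons (P.cons (P.lf 10123275 0 0) (P.cons (P.lf 1354566 0 0) (P.cons (P.lf 92290 0 0) P.nil))) (P.cons (P.cons (P.lf 0 641475 0) (P.cons (P.lf 0 196655 0) P.nil)) (P.cons (P.cons (P.lf 0 341739 0) P.nil) P.nil)))))) 243159)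
 (EL.cons 1 (TM.mk (P.cons (P.cons (P.lf 0 11873611 0) (P.cons (P.lf 9427149 0 0) (P.cons (P.lf 0 1721143 0) (P.cons (P.lf 0 109578 0) (P.cons (P.lf 19380 0 0) (P.cons (P.lf 315 0 0) P.nil)))))) (P.cons (P.cons (P.lf 0 28329791 0) (P.cons (P.lf 7844861 0 0) (P.cons (P.lf 1475171 0 0) (P.cons (P.lf 1363 0 0) (P.cons (P.lf 0 13983 0) P.nil))))) (P.cons (P.cons (P.lf 0 18430608 0) (P.cons (P.lf 0 3214115 0) (P.cons (P.lf 0 388235 0) (P.cons (P.lf 6320 0 0) P.nil)))) (P.cons (P.cons (P.lf 0 958477 0) (P.cons (P.lf 0 227137 0) (P.cons (P.lf 7638 0 0) P.nil))) (P.cons (P.cons (P.lf 989086 0 0) (P.cons (P.lf 196650 0 0) P.nil)) (P.cons (P.cons (P.lf 46464 0 0) P.nil) P.nil)))))) 146300)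
 (EL.cons 5 (TM.mk (P.cons (P.cons (P.lf 6416696 0 0) (P.cons (P.lf 0 5094588 0) (P.cons (P.lf 930134 0 0) (P.cons (P.lf 59216 0 0) (P.cons (P.lf 0 10472 0) (P.cons (P.lf 0 170 0) P.nil)))))) (P.cons (P.cons (P.lf 13944864 0 0) (P.cons (P.lf 0 3155720 0) (P.cons (P.lf 0 995074 0) (P.cons (P.lf 0 13334 0) (P.cons (P.lf 9784 0 0) P.nil))))) (P.cons (P.cons (P.lf 6866312 0 0) (P.cons (P.lf 2509430 0 0) (P.cons (P.lf 403024 0 0) (P.cons (P.lf 0 1754 0) P.nil)))) (P.cons (P.cons (P.lf 0 1235282 0) (P.cons (P.lf 0 335946 0) (P.cons (P.lf 0 72384 0) P.nil))) (P.cons (P.cons (P.lf 0 443952 0) (P.cons (P.lf 0 75526 0) P.nil)) (P.cons (P.cons (P.lf 73074 0 0) P.nil) P.nil)))))) 80462)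
 EL.nil)))
noncomputable def S343_372_438_512_6 : EL := (EL.cons 12 (TM.mk (P.lf 8589934592 0 0) 0)
 (EL.cons 3 (TM.mk (P.cons (P.lf 2668545243 0 0) (P.cons (P.lf 256005836 0 0) (P.cons (P.lf 0 20956361 0) (P.cons (P.lf 125291 0 0) (P.cons (P.lf 64357 0 0) (P.cons (P.lf 0 3438 0) P.nil)))))) 378)
 (EL.cons 7 (TM.mk (P.cons (P.lf 0 1442125985 0) (P.cons (P.lf 168433589 0 0) (P.cons (P.lf 4127638 0 0) (P.cons (P.lf 0 758202 0) (P.cons (P.lf 21743 0 0) (P.cons (P.lf 1521 0 0) P.nil)))))) 224)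
 EL.nil)))
noncomputable def S343_372_438_512_7 : EL := (EL.cons 12 (TM.mk (P.cons (P.cons (P.lf 699209574 0 0) (P.cons (P.lf 0 277571544 0) (P.cons (P.lf 0 4417912 0) (P.lf 1472632 0 0)))) (P.cons (P.cons (P.lf 841430874 0 0) (P.cons (P.lf 97257184 0 0) (P.cons (P.lf 1547968 0 0) (P.lf 0 515984 0)))) (P.cons (P.cons (P.lf 61593934 0 0) (P.cons (P.lf 0 8975792 0) (P.cons (P.lf 0 142856 0) (P.lf 47616 0 0)))) (P.cons (P.cons (P.lf 0 16035272 0) (P.cons (P.lf 0 552296 0) (P.cons (P.lf 0 8784 0) P.nil))) (P.cons (P.cons (P.lf 71788 0 0) (P.cons (P.lf 140504 0 0) P.nil)) (P.cons (P.cons (P.lf 136142 0 0) P.nil) P.nil)))))) 33630)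
 (EL.cons 3 (TM.mk (P.cons (P.cons (P.lf 2455306700 0 0) (P.cons (P.lf 172460502 0 0) (P.cons (P.lf 2744932 0 0) (P.lf 0 914972 0)))) (P.cons (P.cons (P.lf 453518261 0 0) (P.cons (P.lf 0 43882814 0) (P.cons (P.lf 0 698446 0) (P.lf 232810 0 0)))) (P.cons (P.cons (P.lf 0 119513589 0) (P.cons (P.lf 0 1574630 0) (P.cons (P.lf 0 25064 0) (P.lf 8354 0 0)))) (P.cons (P.cons (P.lf 2880654 0 0) (P.cons (P.lf 1360804 0 0) (P.cons (P.lf 21654 0 0) P.nil))) (P.cons (P.cons (P.lf 1807619 0 0) (P.cons (P.lf 0 96848 0) P.nil)) (P.cons (P.cons (P.lf 0 173989 0) P.nil) P.nil)))))) 116638)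
 (EL.cons 7 (TM.mk (P.cons (P.cons (P.lf 1355116843 0 0) (P.cons (P.lf 216800337 0 0) (P.cons (P.lf 3450667 0 0) (P.lf 0 1150224 0)))) (P.cons (P.cons (P.lf 298382682 0 0) (P.cons (P.lf 0 28871766 0) (P.cons (P.lf 0 459534 0) (P.lf 153179 0 0)))) (P.cons (P.cons (P.lf 0 46893959 0) (P.cons (P.lf 0 4106936 0) (P.cons (P.lf 0 65366 0) (P.lf 21786 0 0)))) (P.cons (P.cons (P.lf 0 7281447 0) (P.cons (P.lf 557310 0 0) (P.cons (P.lf 8871 0 0) P.nil))) (P.cons (P.cons (P.lf 893739 0 0) (P.cons (P.lf 51159 0 0) P.nil)) (P.cons (P.cons (P.lf 49588 0 0) P.nil) P.nil)))))) 74395)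
 (EL.cons 10 (TM.mk (P.cons (P.cons (P.lf 0 1426180074 0) (P.cons (P.lf 0 52866549 0) (P.cons (P.lf 26195565 0 0) (P.cons (P.lf 237708 0 0) (P.lf 0 59427 0))))) (P.cons (P.cons (P.lf 333142359 0 0) (P.cons (P.lf 12349131 0 0) (P.cons (P.lf 0 6119037 0) (P.cons (P.lf 0 55524 0) (P.lf 13881 0 0))))) (P.cons (P.cons (P.lf 0 11290737 0) (P.cons (P.lf 0 418530 0) (P.cons (P.lf 207384 0 0) (P.cons (P.lf 1881 0 0) P.nil)))) (P.cons (P.cons (P.lf 0 2453151 0) (P.cons (P.lf 0 90933 0) (P.cons (P.lf 45057 0 0) P.nil))) (P.cons (P.cons (P.lf 206469 0 0) (P.cons (P.lf 7653 0 0) P.nil)) (P.cons (P.cons (P.lf 2274 0 0) P.nil) P.nil)))))) 6543)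
 EL.nil))))
noncomputable def S343_372_438_512_8 : EL := (EL.cons 12 (TM.mk (P.cons (P.cons (P.lf 56914754 0 0) (P.cons (P.lf 0 45187928 0) (P.cons (P.lf 8250104 0 0) (P.cons (P.lf 525256 0 0) (P.cons (P.lf 0 92898 0) (P.cons (P.lf 0 1514 0) P.nil)))))) (P.cons (P.cons (P.lf 136982770 0 0) (P.cons (P.lf 0 38546070 0) (P.cons (P.lf 0 6898966 0) (P.cons (P.lf 4420 0 0) (P.cons (P.lf 65100 0 0) P.nil))))) (P.cons (P.cons (P.lf 92450068 0 0) (P.cons (P.lf 13611864 0 0) (P.cons (P.lf 1897896 0 0) (P.cons (P.lf 0 18698 0) P.nil)))) (P.cons (P.cons (P.lf 9456420 0 0) (P.cons (P.lf 582706 0 0) (P.cons (P.lf 0 158282 0) P.nil))) (P.cons (P.cons (P.lf 0 2688138 0) (P.cons (P.lf 0 581796 0) P.nil)) (P.cons (P.cons (P.lf 0 193732 0) P.nil) P.nil)))))) 266318)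
 (EL.cons 3 (TM.mk (P.cons (P.cons (P.lf 382036469 0 0) (P.cons (P.lf 0 116565311 0) (P.cons (P.lf 0 15787325 0) (P.cons (P.lf 174929 0 0) (P.cons (P.lf 144301 0 0) (P.cons (P.lf 2351 0 0) P.nil)))))) (P.cons (P.cons (P.lf 510601686 0 0) (P.cons (P.lf 66253800 0 0) (P.cons (P.lf 9481134 0 0) (P.cons (P.lf 0 83258 0) (P.cons (P.lf 0 87276 0) P.nil))))) (P.cons (P.cons (P.lf 71939962 0 0) (P.cons (P.lf 3291971 0 0) (P.cons (P.lf 0 1513041 0) (P.cons (P.lf 0 67294 0) P.nil)))) (P.cons (P.cons (P.lf 0 30967715 0) (P.cons (P.lf 0 6196230 0) (P.cons (P.lf 0 166206 0) P.nil))) (P.cons (P.cons (P.lf 0 1731093 0) (P.cons (P.lf 812624 0 0) P.nil)) (P.cons (P.cons (P.lf 1059749 0 0) P.nil) P.nil)))))) 768532)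
 (EL.cons 7 (TM.mk (P.cons (P.cons (P.lf 230164683 0 0) (P.cons (P.lf 0 59869218 0) (P.cons (P.lf 0 13458261 0) (P.cons (P.lf 0 80454 0) (P.cons (P.lf 129524 0 0) (P.cons (P.lf 2108 0 0) P.nil)))))) (P.cons (P.cons (P.lf 335939508 0 0) (P.cons (P.lf 43590274 0 0) (P.cons (P.lf 6237906 0 0) (P.cons (P.lf 0 54775 0) (P.cons (P.lf 0 57420 0) P.nil))))) (P.cons (P.cons (P.lf 83063562 0 0) (P.cons (P.lf 6802358 0 0) (P.cons (P.lf 0 331981 0) (P.cons (P.lf 0 50102 0) P.nil)))) (P.cons (P.cons (P.lf 0 11438661 0) (P.cons (P.lf 0 3481013 0) (P.cons (P.lf 0 209242 0) P.nil))) (P.cons (P.cons (P.lf 0 3714082 0) (P.cons (P.lf 0 67581 0) P.nil)) (P.cons (P.cons (P.lf 325204 0 0) P.nil) P.nil)))))) 487640)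
 (EL.cons 10 (TM.mk (P.cons (P.cons (P.lf 0 232178424 0) (P.cons (P.lf 83563428 0 0) (P.cons (P.lf 9148188 0 0) (P.cons (P.lf 0 2088864 0) (P.cons (P.lf 0 70104 0) (P.cons (P.lf 12576 0 0) P.nil)))))) (P.cons (P.cons (P.lf 0 225169494 0) (P.cons (P.lf 0 62171838 0) (P.cons (P.lf 1283910 0 0) (P.cons (P.lf 1279974 0 0) (P.cons (P.lf 25908 0 0) P.nil))))) (P.cons (P.cons (P.lf 42975324 0 0) (P.cons (P.lf 12847038 0 0) (P.cons (P.lf 0 193062 0) (P.cons (P.lf 0 266934 0) P.nil)))) (P.cons (P.cons (P.lf 7490880 0 0) (P.cons (P.lf 0 332274 0) (P.cons (P.lf 0 169908 0) P.nil))) (P.cons (P.cons (P.lf 0 1876530 0) (P.cons (P.lf 0 204348 0) P.nil)) (P.cons (P.cons (P.lf 8154 0 0) P.nil) P.nil)))))) 179682)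
 EL.nil))))
noncomputable def S343_372_438_512_9 : EL := (EL.cons 3 (TM.mk (P.cons (P.lf 2668545243 0 0) (P.cons (P.lf 256005836 0 0) (P.cons (P.lf 0 20956361 0) (P.cons (P.lf 125291 0 0) (P.cons (P.lf 64357 0 0) (P.cons (P.lf 0 3438 0) P.nil)))))) 378)
 (EL.cons 7 (TM.mk (P.cons (P.lf 0 1442125985 0) (P.cons (P.lf 168433589 0 0) (P.cons (P.lf 4127638 0 0) (P.cons (P.lf 0 758202 0) (P.cons (P.lf 21743 0 0) (P.cons (P.lf 1521 0 0) P.nil)))))) 224)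
 EL.nil))
noncomputable def S343_372_438_512_10 : EL := (EL.cons 3 (TM.mk (P.cons (P.cons (P.lf 217216133 0 0) (P.cons (P.lf 0 86230251 0) (P.cons (P.lf 0 1372466 0) (P.lf 457486 0 0)))) (P.cons (P.cons (P.lf 282237083 0 0) (P.cons (P.lf 21941407 0 0) (P.cons (P.lf 349223 0 0) (P.lf 0 116405 0)))) (P.cons (P.cons (P.lf 42506088 0 0) (P.cons (P.lf 787315 0 0) (P.cons (P.lf 12532 0 0) (P.lf 0 4177 0)))) (P.cons (P.cons (P.lf 0 5188416 0) (P.cons (P.lf 0 680402 0) (P.cons (P.lf 0 10827 0) P.nil))) (P.cons (P.cons (P.lf 0 588352 0) (P.cons (P.lf 48424 0 0) P.nil)) (P.cons (P.cons (P.lf 90476 0 0) P.nil) P.nil)))))) 27927)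
 (EL.cons 7 (TM.mk (P.cons (P.cons (P.lf 0 117387191 0) (P.cons (P.lf 46600254 0 0) (P.cons (P.lf 741703 0 0) (P.lf 0 247233 0)))) (P.cons (P.cons (P.lf 0 127553817 0) (P.cons (P.lf 0 21770769 0) (P.cons (P.lf 0 346509 0) (P.lf 115502 0 0)))) (P.cons (P.cons (P.lf 6494239 0 0) (P.cons (P.lf 3280570 0 0) (P.cons (P.lf 52213 0 0) (P.lf 0 17403 0)))) (P.cons (P.cons (P.lf 4242447 0 0) (P.cons (P.lf 0 12042 0) (P.cons (P.lf 0 192 0) P.nil))) (P.cons (P.cons (P.lf 0 369378 0) (P.cons (P.lf 0 48018 0) P.nil)) (P.cons (P.cons (P.lf 0 32336 0) P.nil) P.nil)))))) 17040)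
 EL.nil))
noncomputable def S343_372_438_512_11 : EL := (EL.cons 3 (TM.mk (P.cons (P.cons (P.lf 17681111 0 0) (P.cons (P.lf 0 14038061 0) (P.cons (P.lf 2562973 0 0) (P.cons (P.lf 163175 0 0) (P.cons (P.lf 0 28859 0) (P.cons (P.lf 0 469 0) P.nil)))))) (P.cons (P.cons (P.lf 44251236 0 0) (P.cons (P.lf 0 13321440 0) (P.cons (P.lf 0 1897350 0) (P.cons (P.lf 17026 0 0) (P.cons (P.lf 17454 0 0) P.nil))))) (P.cons (P.cons (P.lf 32664142 0 0) (P.cons (P.lf 3190109 0 0) (P.cons (P.lf 363861 0 0) (P.cons (P.lf 0 6958 0) P.nil)))) (P.cons (P.cons (P.lf 5359657 0 0) (P.cons (P.lf 680076 0 0) (P.cons (P.lf 24342 0 0) P.nil))) (P.cons (P.cons (P.lf 0 776385 0) (P.cons (P.lf 0 197482 0) P.nil)) (P.cons (P.cons (P.lf 0 161017 0) P.nil) P.nil)))))) 139092)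
 (EL.cons 7 (TM.mk (P.cons (P.cons (P.lf 0 9555165 0) (P.cons (P.lf 7586400 0 0) (P.cons (P.lf 0 1385073 0) (P.cons (P.lf 0 88182 0) (P.cons (P.lf 15596 0 0) (P.cons (P.lf 254 0 0) P.nil)))))) (P.cons (P.cons (P.lf 0 21881430 0) (P.cons (P.lf 5585272 0 0) (P.cons (P.lf 1320006 0 0) (P.cons (P.lf 9557 0 0) (P.cons (P.lf 0 12750 0) P.nil))))) (P.cons (P.cons (P.lf 0 12807690 0) (P.cons (P.lf 0 3062770 0) (P.cons (P.lf 0 449941 0) (P.cons (P.lf 3478 0 0) P.nil)))) (P.cons (P.cons (P.lf 285987 0 0) (P.cons (P.lf 154543 0 0) (P.cons (P.lf 59744 0 0) P.nil))) (P.cons (P.cons (P.lf 669200 0 0) (P.cons (P.lf 118929 0 0) P.nil)) (P.cons (P.cons (P.lf 0 23444 0) P.nil) P.nil)))))) 76876)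
 EL.nil))
noncomputable def S343_372_438_512_12 : EL := (EL.cons 4 (TM.mk (P.cons (P.lf 0 2668545243 0) (P.cons (P.lf 0 256005836 0) (P.cons (P.lf 20956361 0 0) (P.cons (P.lf 0 125291 0) (P.cons (P.lf 0 64357 0) (P.cons (P.lf 3438 0 0) P.nil)))))) 378)
 (EL.cons 8 (TM.mk (P.cons (P.lf 1442125985 0 0) (P.cons (P.lf 0 168433589 0) (P.cons (P.lf 0 4127638 0) (P.cons (P.lf 758202 0 0) (P.cons (P.lf 0 21743 0) (P.cons (P.lf 0 1521 0) P.nil)))))) 224)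
 EL.nil))
noncomputable def S343_372_438_512_13 : EL := (EL.cons 4 (TM.mk (P.cons (P.cons (P.lf 0 217216133 0) (P.cons (P.lf 86230251 0 0) (P.cons (P.lf 1372466 0 0) (P.lf 0 457486 0)))) (P.cons (P.cons (P.lf 0 282237083 0) (P.cons (P.lf 0 21941407 0) (P.cons (P.lf 0 349223 0) (P.lf 116405 0 0)))) (P.cons (P.cons (P.lf 0 42506088 0) (P.cons (P.lf 0 787315 0) (P.cons (P.lf 0 12532 0) (P.lf 4177 0 0)))) (P.cons (P.cons (P.lf 5188416 0 0) (P.cons (P.lf 680402 0 0) (P.cons (P.lf 10827 0 0) P.nil))) (P.cons (P.cons (P.lf 588352 0 0) (P.cons (P.lf 0 48424 0) P.nil)) (P.cons (P.cons (P.lf 0 90476 0) P.nil) P.nil)))))) 27927)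
 (EL.cons 8 (TM.mk (P.cons (P.cons (P.lf 117387191 0 0) (P.cons (P.lf 0 46600254 0) (P.cons (P.lf 0 741703 0) (P.lf 247233 0 0)))) (P.cons (P.cons (P.lf 127553817 0 0) (P.cons (P.lf 21770769 0 0) (P.cons (P.lf 346509 0 0) (P.lf 0 115502 0)))) (P.cons (P.cons (P.lf 0 6494239 0) (P.cons (P.lf 0 3280570 0) (P.cons (P.lf 0 52213 0) (P.lf 17403 0 0)))) (P.cons (P.cons (P.lf 0 4242447 0) (P.cons (P.lf 12042 0 0) (P.cons (P.lf 192 0 0) P.nil))) (P.cons (P.cons (P.lf 369378 0 0) (P.cons (P.lf 48018 0 0) P.nil)) (P.cons (P.cons (P.lf 32336 0 0) P.nil) P.nil)))))) 17040)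
 EL.nil))
noncomputable def S343_372_438_512_14 : EL := (EL.cons 4 (TM.mk (P.cons (P.cons (P.lf 0 17681111 0) (P.cons (P.lf 14038061 0 0) (P.cons (P.lf 0 2562973 0) (P.cons (P.lf 0 163175 0) (P.cons (P.lf 28859 0 0) (P.cons (P.lf 469 0 0) P.nil)))))) (P.cons (P.cons (P.lf 0 44251236 0) (P.cons (P.lf 13321440 0 0) (P.cons (P.lf 1897350 0 0) (P.cons (P.lf 0 17026 0) (P.cons (P.lf 0 17454 0) P.nil))))) (P.cons (P.cons (P.lf 0 32664142 0) (P.cons (P.lf 0 3190109 0) (P.cons (P.lf 0 363861 0) (P.cons (P.lf 6958 0 0) P.nil)))) (P.cons (P.cons (P.lf 0 5359657 0) (P.cons (P.lf 0 680076 0) (P.cons (P.lf 0 24342 0) P.nil))) (P.cons (P.cons (P.lf 776385 0 0) (P.cons (P.lf 197482 0 0) P.nil)) (P.cons (P.cons (P.lf 161017 0 0) P.nil) P.nil)))))) 139092)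
 (EL.cons 8 (TM.mk (P.cons (P.cons (P.lf 9555165 0 0) (P.cons (P.lf 0 7586400 0) (P.cons (P.lf 1385073 0 0) (P.cons (P.lf 88182 0 0) (P.cons (P.lf 0 15596 0) (P.cons (P.lf 0 254 0) P.nil)))))) (P.cons (P.cons (P.lf 21881430 0 0) (P.cons (P.lf 0 5585272 0) (P.cons (P.lf 0 1320006 0) (P.cons (P.lf 0 9557 0) (P.cons (P.lf 12750 0 0) P.nil))))) (P.cons (P.cons (P.lf 12807690 0 0) (P.cons (P.lf 3062770 0 0) (P.cons (P.lf 449941 0 0) (P.cons (P.lf 0 3478 0) P.nil)))) (P.cons (P.cons (P.lf 0 285987 0) (P.cons (P.lf 0 154543 0) (P.cons (P.lf 0 59744 0) P.nil))) (P.cons (P.cons (P.lf 0 669200 0) (P.cons (P.lf 0 118929 0) P.nil)) (P.cons (P.cons (P.lf 23444 0 0) P.nil) P.nil)))))) 76876)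
 EL.nil))
noncomputable def S343_372_438_512_15 : EL := (EL.cons 4 (TM.mk (P.cons (P.lf 0 1768552689 0) (P.cons (P.lf 0 339330810 0) (P.cons (P.lf 11500469 0 0) (P.cons (P.lf 2498728 0 0) (P.cons (P.lf 0 210304 0) (P.cons (P.lf 0 2321 0) P.nil)))))) 1708)
 (EL.cons 8 (TM.mk (P.cons (P.lf 955755124 0 0) (P.cons (P.lf 0 19937749 0) (P.cons (P.lf 0 20950159 0) (P.cons (P.lf 1161554 0 0) (P.cons (P.lf 73087 0 0) (P.cons (P.lf 0 10388 0) P.nil)))))) 788)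
 EL.nil))
noncomputable def S343_372_438_512_16 : EL := (EL.cons 4 (TM.mk (P.cons (P.cons (P.lf 0 143957902 0) (P.cons (P.lf 57148269 0 0) (P.cons (P.lf 909588 0 0) (P.lf 0 303195 0)))) (P.cons (P.cons (P.lf 0 200860455 0) (P.cons (P.lf 0 9058960 0) (P.cons (P.lf 0 144183 0) (P.lf 48060 0 0)))) (P.cons (P.cons (P.lf 0 44984544 0) (P.cons (P.lf 0 2365605 0) (P.cons (P.lf 0 37651 0) (P.lf 12550 0 0)))) (P.cons (P.cons (P.lf 2198210 0 0) (P.cons (P.lf 517751 0 0) (P.cons (P.lf 8238 0 0) P.nil))) (P.cons (P.cons (P.lf 928774 0 0) (P.cons (P.lf 15959 0 0) P.nil)) (P.cons (P.cons (P.lf 0 55205 0) P.nil) P.nil)))))) 37764)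
 (EL.cons 8 (TM.mk (P.cons (P.cons (P.lf 77797231 0 0) (P.cons (P.lf 0 30883870 0) (P.cons (P.lf 0 491556 0) (P.lf 163851 0 0)))) (P.cons (P.cons (P.lf 91998512 0 0) (P.cons (P.lf 11465535 0 0) (P.cons (P.lf 182487 0 0) (P.lf 0 60828 0)))) (P.cons (P.cons (P.lf 3194893 0 0) (P.cons (P.lf 0 547452 0) (P.cons (P.lf 0 8712 0) (P.lf 2904 0 0)))) (P.cons (P.cons (P.lf 0 3884753 0) (P.cons (P.lf 0 315354 0) (P.cons (P.lf 0 5018 0) P.nil))) (P.cons (P.cons (P.lf 14713 0 0) (P.cons (P.lf 49595 0 0) P.nil)) (P.cons (P.cons (P.lf 68732 0 0) P.nil) P.nil)))))) 21418)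
 EL.nil))
noncomputable def S343_372_438_512_17 : EL := (EL.cons 4 (TM.mk (P.cons (P.cons (P.lf 0 11717986 0) (P.cons (P.lf 9303589 0 0) (P.cons (P.lf 0 1698585 0) (P.cons (P.lf 0 108142 0) (P.cons (P.lf 19125 0 0) (P.cons (P.lf 311 0 0) P.nil)))))) (P.cons (P.cons (P.lf 0 30451241 0) (P.cons (P.lf 9721192 0 0) (P.cons (P.lf 1094498 0 0) (P.cons (P.lf 0 21659 0) (P.cons (P.lf 0 9733 0) P.nil))))) (P.cons (P.cons (P.lf 0 24369305 0) (P.cons (P.lf 0 1340302 0) (P.cons (P.lf 0 107173 0) (P.cons (P.lf 4378 0 0) P.nil)))) (P.cons (P.cons (P.lf 0 5399080 0) (P.cons (P.lf 0 722435 0) (P.cons (P.lf 0 49221 0) P.nil))) (P.cons (P.cons (P.lf 342120 0 0) (P.cons (P.lf 104882 0 0) P.nil)) (P.cons (P.cons (P.lf 182261 0 0) P.nil) P.nil)))))) 129695)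
 (EL.cons 8 (TM.mk (P.cons (P.cons (P.lf 6332593 0 0) (P.cons (P.lf 0 5027813 0) (P.cons (P.lf 917943 0 0) (P.cons (P.lf 58442 0 0) (P.cons (P.lf 0 10336 0) (P.cons (P.lf 0 168 0) P.nil)))))) (P.cons (P.cons (P.lf 15109222 0 0) (P.cons (P.lf 0 4183926 0) (P.cons (P.lf 0 786758 0) (P.cons (P.lf 0 727 0) (P.cons (P.lf 7458 0 0) P.nil))))) (P.cons (P.cons (P.lf 9829658 0 0) (P.cons (P.lf 1714195 0 0) (P.cons (P.lf 207059 0 0) (P.cons (P.lf 0 3371 0) P.nil)))) (P.cons (P.cons (P.lf 511188 0 0) (P.cons (P.lf 121140 0 0) (P.cons (P.lf 0 4074 0) P.nil))) (P.cons (P.cons (P.lf 0 527513 0) (P.cons (P.lf 0 104880 0) P.nil)) (P.cons (P.cons (P.lf 0 24781 0) P.nil) P.nil)))))) 78015)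
 EL.nil))
noncomputable def S343_372_438_512_18 : EL := (EL.cons 4 (TM.mk (P.cons (P.lf 0 1172091282 0) (P.cons (P.lf 0 337332345 0) (P.cons (P.lf 0 4748184 0) (P.cons (P.lf 4098243 0 0) (P.cons (P.lf 0 79189 0) (P.cons (P.lf 0 31469 0) P.nil)))))) 3321)
 (EL.cons 8 (TM.mk (P.cons (P.lf 633417514 0 0) (P.cons (P.lf 47553107 0 0) (P.cons (P.lf 0 20126446 0) (P.cons (P.lf 0 428689 0) (P.cons (P.lf 245981 0 0) (P.cons (P.lf 0 10070 0) P.nil)))))) 1843)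
 EL.nil))
noncomputable def S343_372_438_512_19 : EL := (EL.cons 4 (TM.mk (P.cons (P.cons (P.lf 0 95406715 0) (P.cons (P.lf 37874465 0 0) (P.cons (P.lf 602820 0 0) (P.lf 0 200939 0)))) (P.cons (P.cons (P.lf 0 142271140 0) (P.cons (P.lf 0 2370266 0) (P.cons (P.lf 0 37724 0) (P.lf 12573 0 0)))) (P.cons (P.cons (P.lf 0 41834490 0) (P.cons (P.lf 0 2441180 0) (P.cons (P.lf 0 38854 0) (P.lf 12951 0 0)))) (P.cons (P.cons (P.lf 0 362349 0) (P.cons (P.lf 241656 0 0) (P.cons (P.lf 3844 0 0) P.nil))) (P.cons (P.cons (P.lf 980872 0 0) (P.cons (P.lf 56438 0 0) P.nil)) (P.cons (P.cons (P.lf 6535 0 0) P.nil) P.nil)))))) 41458)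
 (EL.cons 8 (TM.mk (P.cons (P.cons (P.lf 51559366 0 0) (P.cons (P.lf 0 20467987 0) (P.cons (P.lf 0 325774 0) (P.lf 108591 0 0)))) (P.cons (P.cons (P.lf 65917456 0 0) (P.cons (P.lf 5635085 0 0) (P.cons (P.lf 89689 0 0) (P.lf 0 29895 0)))) (P.cons (P.cons (P.lf 7561725 0 0) (P.cons (P.lf 526894 0 0) (P.cons (P.lf 8386 0 0) (P.lf 0 2795 0)))) (P.cons (P.cons (P.lf 0 2847844 0) (P.cons (P.lf 0 304438 0) (P.cons (P.lf 0 4844 0) P.nil))) (P.cons (P.cons (P.lf 0 249762 0) (P.cons (P.lf 15531 0 0) P.nil)) (P.cons (P.cons (P.lf 68208 0 0) P.nil) P.nil)))))) 22402)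
 EL.nil))
noncomputable def S343_372_438_512_20 : EL := (EL.cons 4 (TM.mk (P.cons (P.cons (P.lf 0 7765982 0) (P.cons (P.lf 6165864 0 0) (P.cons (P.lf 0 1125720 0) (P.cons (P.lf 0 71670 0) (P.cons (P.lf 12675 0 0) (P.cons (P.lf 206 0 0) P.nil)))))) (P.cons (P.cons (P.lf 0 20926293 0) (P.cons (P.lf 7034146 0 0) (P.cons (P.lf 617371 0 0) (P.cons (P.lf 0 21229 0) (P.cons (P.lf 0 5234 0) P.nil))))) (P.cons (P.cons (P.lf 0 18025617 0) (P.cons (P.lf 0 318622 0) (P.cons (P.lf 7399 0 0) (P.cons (P.lf 2086 0 0) P.nil)))) (P.cons (P.cons (P.lf 0 4969461 0) (P.cons (P.lf 0 614308 0) (P.cons (P.lf 0 45183 0) P.nil))) (P.cons (P.cons (P.lf 9161 0 0) (P.cons (P.lf 31004 0 0) P.nil)) (P.cons (P.cons (P.lf 169408 0 0) P.nil) P.nil)))))) 111254)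
 (EL.cons 8 (TM.mk (P.cons (P.cons (P.lf 4196865 0 0) (P.cons (P.lf 0 3332135 0) (P.cons (P.lf 608358 0 0) (P.cons (P.lf 38731 0 0) (P.cons (P.lf 0 6850 0) (P.cons (P.lf 0 111 0) P.nil)))))) (P.cons (P.cons (P.lf 10416116 0 0) (P.cons (P.lf 0 3092524 0) (P.cons (P.lf 0 463054 0) (P.cons (P.lf 3233 0 0) (P.cons (P.lf 4286 0 0) P.nil))))) (P.cons (P.cons (P.lf 7442193 0 0) (P.cons (P.lf 896220 0 0) (P.cons (P.lf 82427 0 0) (P.cons (P.lf 0 2584 0) P.nil)))) (P.cons (P.cons (P.lf 885312 0 0) (P.cons (P.lf 210891 0 0) (P.cons (P.lf 14587 0 0) P.nil))) (P.cons (P.cons (P.lf 0 367691 0) (P.cons (P.lf 0 70938 0) P.nil)) (P.cons (P.cons (P.lf 0 52081 0) P.nil) P.nil)))))) 70395)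
 EL.nil))
noncomputable def S343_372_438_512_21 : EL := (EL.cons 4 (TM.mk (P.cons (P.cons (P.lf 0 2238090567 0) (P.cons (P.lf 0 258690753 0) (P.cons (P.lf 0 4117398 0) (P.lf 1372458 0 0)))) (P.cons (P.cons (P.lf 0 171281178 0) (P.cons (P.lf 65824221 0 0) (P.cons (P.lf 1047669 0 0) (P.lf 0 349215 0)))) (P.cons (P.cons (P.lf 162019677 0 0) (P.cons (P.lf 2361945 0 0) (P.cons (P.lf 37596 0 0) (P.lf 0 12531 0)))) (P.cons (P.cons (P.lf 0 8069070 0) (P.cons (P.lf 0 2041206 0) (P.cons (P.lf 0 32481 0) P.nil))) (P.cons (P.cons (P.lf 0 2395971 0) (P.cons (P.lf 145272 0 0) P.nil)) (P.cons (P.cons (P.lf 264465 0 0) P.nil) P.nil)))))) 88692)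
 (EL.cons 8 (TM.mk (P.cons (P.cons (P.lf 0 1472504034 0) (P.cons (P.lf 0 170200083 0) (P.cons (P.lf 0 2708964 0) (P.lf 902991 0 0)))) (P.cons (P.cons (P.lf 0 425936499 0) (P.cons (P.lf 7100997 0 0) (P.cons (P.lf 113025 0 0) (P.lf 0 37677 0)))) (P.cons (P.cons (P.lf 53388198 0 0) (P.cons (P.lf 7387506 0 0) (P.cons (P.lf 117579 0 0) (P.lf 0 39189 0)))) (P.cons (P.cons (P.lf 11523894 0 0) (P.cons (P.lf 0 569352 0) (P.cons (P.lf 0 9063 0) P.nil))) (P.cons (P.cons (P.lf 0 1263117 0) (P.cons (P.lf 0 99177 0) P.nil)) (P.cons (P.cons (P.lf 0 81924 0) P.nil) P.nil)))))) 57336)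
 (EL.cons 11 (TM.mk (P.cons (P.cons (P.lf 1426180074 0 0) (P.cons (P.lf 52866549 0 0) (P.cons (P.lf 0 26195565 0) (P.cons (P.lf 0 237708 0) (P.lf 59427 0 0))))) (P.cons (P.cons (P.lf 0 333142359 0) (P.cons (P.lf 0 12349131 0) (P.cons (P.lf 6119037 0 0) (P.cons (P.lf 55524 0 0) (P.lf 0 13881 0))))) (P.cons (P.cons (P.lf 11290737 0 0) (P.cons (P.lf 418530 0 0) (P.cons (P.lf 0 207384 0) (P.cons (P.lf 0 1881 0) P.nil)))) (P.cons (P.cons (P.lf 2453151 0 0) (P.cons (P.lf 90933 0 0) (P.cons (P.lf 0 45057 0) P.nil))) (P.cons (P.cons (P.lf 0 206469 0) (P.cons (P.lf 0 7653 0) P.nil)) (P.cons (P.cons (P.lf 0 2274 0) P.nil) P.nil)))))) 6543)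
 EL.nil)))
noncomputable def S343_372_438_512_22 : EL := (EL.cons 4 (TM.mk (P.cons (P.cons (P.lf 0 182177679 0) (P.cons (P.lf 51263625 0 0) (P.cons (P.lf 9175149 0 0) (P.cons (P.lf 0 5877 0) (P.cons (P.lf 0 86580 0) (P.cons (P.lf 0 1410 0) P.nil)))))) (P.cons (P.cons (P.lf 0 233175225 0) (P.cons (P.lf 0 39787620 0) (P.cons (P.lf 0 5689242 0) (P.cons (P.lf 50142 0 0) (P.cons (P.lf 52365 0 0) P.nil))))) (P.cons (P.cons (P.lf 0 19637910 0) (P.cons (P.lf 0 50931 0) (P.cons (P.lf 938451 0 0) (P.cons (P.lf 30168 0 0) P.nil)))) (P.cons (P.cons (P.lf 18163686 0 0) (P.cons (P.lf 3438153 0 0) (P.cons (P.lf 95274 0 0) P.nil))) (P.cons (P.cons (P.lf 477354 0 0) (P.cons (P.lf 0 505053 0) P.nil)) (P.cons (P.cons (P.lf 0 610383 0) P.nil) P.nil)))))) 314709)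
 (EL.cons 8 (TM.mk (P.cons (P.cons (P.lf 0 119859924 0) (P.cons (P.lf 33727809 0 0) (P.cons (P.lf 6036594 0 0) (P.cons (P.lf 0 3864 0) (P.cons (P.lf 0 56964 0) (P.cons (P.lf 0 927 0) P.nil)))))) (P.cons (P.cons (P.lf 0 178910469 0) (P.cons (P.lf 0 19002501 0) (P.cons (P.lf 0 2458950 0) (P.cons (P.lf 32166 0 0) (P.cons (P.lf 22335 0 0) P.nil))))) (P.cons (P.cons (P.lf 0 47935626 0) (P.cons (P.lf 0 4932564 0) (P.cons (P.lf 0 58980 0) (P.cons (P.lf 26790 0 0) P.nil)))) (P.cons (P.cons (P.lf 5862324 0 0) (P.cons (P.lf 1817778 0 0) (P.cons (P.lf 134493 0 0) P.nil))) (P.cons (P.cons (P.lf 2191641 0 0) (P.cons (P.lf 93255 0 0) P.nil)) (P.cons (P.cons (P.lf 0 174324 0) P.nil) P.nil)))))) 205371)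
 (EL.cons 11 (TM.mk (P.cons (P.cons (P.lf 116089212 0 0) (P.cons (P.lf 0 41781714 0) (P.cons (P.lf 0 4574094 0) (P.cons (P.lf 1044432 0 0) (P.cons (P.lf 35052 0 0) (P.cons (P.lf 0 6288 0) P.nil)))))) (P.cons (P.cons (P.lf 112584747 0 0) (P.cons (P.lf 31085919 0 0) (P.cons (P.lf 0 641955 0) (P.cons (P.lf 0 639987 0) (P.cons (P.lf 0 12954 0) P.nil))))) (P.cons (P.cons (P.lf 0 21487662 0) (P.cons (P.lf 0 6423519 0) (P.cons (P.lf 96531 0 0) (P.cons (P.lf 133467 0 0) P.nil)))) (P.cons (P.cons (P.lf 0 3745440 0) (P.cons (P.lf 166137 0 0) (P.cons (P.lf 84954 0 0) P.nil))) (P.cons (P.cons (P.lf 938265 0 0) (P.cons (P.lf 102174 0 0) P.nil)) (P.cons (P.cons (P.lf 0 4077 0) P.nil) P.nil)))))) 89841)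
 EL.nil)))
noncomputable def S343_372_438_512_23 : EL := (EL.cons 4 (TM.mk (P.cons (P.cons (P.lf 0 1483272993 0) (P.cons (P.lf 0 171444807 0) (P.cons (P.lf 0 2728764 0) (P.lf 909582 0 0)))) (P.cons (P.cons (P.lf 0 255812163 0) (P.cons (P.lf 27176877 0 0) (P.cons (P.lf 432549 0 0) (P.lf 0 144177 0)))) (P.cons (P.cons (P.lf 108135264 0 0) (P.cons (P.lf 7096815 0 0) (P.cons (P.lf 112956 0 0) (P.lf 0 37650 0)))) (P.cons (P.cons (P.lf 5775273 0 0) (P.cons (P.lf 0 1553253 0) (P.cons (P.lf 0 24714 0) P.nil))) (P.cons (P.cons (P.lf 0 2985279 0) (P.cons (P.lf 0 47880 0) P.nil)) (P.cons (P.cons (P.lf 69147 0 0) P.nil) P.nil)))))) 126738)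
 (EL.cons 8 (TM.mk (P.cons (P.cons (P.lf 0 975887883 0) (P.cons (P.lf 0 112798467 0) (P.cons (P.lf 0 1795338 0) (P.lf 598446 0 0)))) (P.cons (P.cons (P.lf 0 375906735 0) (P.cons (P.lf 0 6115158 0) (P.cons (P.lf 0 97326 0) (P.lf 32439 0 0)))) (P.cons (P.cons (P.lf 15965331 0 0) (P.cons (P.lf 6233295 0 0) (P.cons (P.lf 99207 0 0) (P.lf 0 33066 0)))) (P.cons (P.cons (P.lf 13202754 0 0) (P.cons (P.lf 50109 0 0) (P.cons (P.lf 795 0 0) P.nil))) (P.cons (P.cons (P.lf 0 419082 0) (P.cons (P.lf 0 142875 0) P.nil)) (P.cons (P.cons (P.lf 0 198468 0) P.nil) P.nil)))))) 70956)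
 (EL.cons 11 (TM.mk (P.cons (P.cons (P.lf 945187122 0 0) (P.cons (P.lf 35036796 0 0) (P.cons (P.lf 0 17360856 0) (P.cons (P.lf 0 157536 0) (P.lf 39384 0 0))))) (P.cons (P.cons (P.lf 0 130110738 0) (P.cons (P.lf 0 4823025 0) (P.cons (P.lf 2389824 0 0) (P.cons (P.lf 21684 0 0) (P.lf 0 5421 0))))) (P.cons (P.cons (P.lf 0 21120927 0) (P.cons (P.lf 0 782925 0) (P.cons (P.lf 387939 0 0) (P.cons (P.lf 3519 0 0) P.nil)))) (P.cons (P.cons (P.lf 4121904 0 0) (P.cons (P.lf 152790 0 0) (P.cons (P.lf 0 75708 0) P.nil))) (P.cons (P.cons (P.lf 0 27198 0) (P.cons (P.lf 0 1005 0) P.nil)) (P.cons (P.cons (P.lf 0 33591 0) P.nil) P.nil)))))) 14757)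
 EL.nil)))
noncomputable def S343_372_438_512_24 : EL := (EL.cons 4 (TM.mk (P.cons (P.cons (P.lf 0 120736503 0) (P.cons (P.lf 33974475 0 0) (P.cons (P.lf 6080742 0 0) (P.cons (P.lf 0 3894 0) (P.cons (P.lf 0 57378 0) (P.cons (P.lf 0 933 0) P.nil)))))) (P.cons (P.cons (P.lf 0 166117446 0) (P.cons (P.lf 0 23109534 0) (P.cons (P.lf 0 3187134 0) (P.cons (P.lf 32856 0 0) (P.cons (P.lf 29199 0 0) P.nil))))) (P.cons (P.cons (P.lf 0 26891898 0) (P.cons (P.lf 0 2830245 0) (P.cons (P.lf 212475 0 0) (P.cons (P.lf 23211 0 0) P.nil)))) (P.cons (P.cons (P.lf 11997141 0 0) (P.cons (P.lf 2484036 0 0) (P.cons (P.lf 152703 0 0) P.nil))) (P.cons (P.cons (P.lf 1563243 0 0) (P.cons (P.lf 0 116277 0) P.nil)) (P.cons (P.cons (P.lf 0 472890 0) P.nil) P.nil)))))) 306072)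
 (EL.cons 8 (TM.mk (P.cons (P.cons (P.lf 0 79436010 0) (P.cons (P.lf 22352781 0 0) (P.cons (P.lf 4000695 0 0) (P.cons (P.lf 0 2562 0) (P.cons (P.lf 0 37752 0) (P.cons (P.lf 0 615 0) P.nil)))))) (P.cons (P.cons (P.lf 0 126191853 0) (P.cons (P.lf 0 10449318 0) (P.cons (P.lf 0 1245840 0) (P.cons (P.lf 21072 0 0) (P.cons (P.lf 11181 0 0) P.nil))))) (P.cons (P.cons (P.lf 0 42520134 0) (P.cons (P.lf 0 4652721 0) (P.cons (P.lf 0 226845 0) (P.cons (P.lf 19818 0 0) P.nil)))) (P.cons (P.cons (P.lf 1764885 0 0) (P.cons (P.lf 991053 0 0) (P.cons (P.lf 98370 0 0) P.nil))) (P.cons (P.cons (P.lf 2067216 0 0) (P.cons (P.lf 202998 0 0) P.nil)) (P.cons (P.cons (P.lf 0 10947 0) P.nil) P.nil)))))) 174594)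
 (EL.cons 11 (TM.mk (P.cons (P.cons (P.lf 76937010 0 0) (P.cons (P.lf 0 27690429 0) (P.cons (P.lf 0 3031437 0) (P.cons (P.lf 692187 0 0) (P.cons (P.lf 23232 0 0) (P.cons (P.lf 0 4167 0) P.nil)))))) (P.cons (P.cons (P.lf 81995379 0 0) (P.cons (P.lf 17945421 0 0) (P.cons (P.lf 0 716271 0) (P.cons (P.lf 0 357741 0) (P.cons (P.lf 0 6354 0) P.nil))))) (P.cons (P.cons (P.lf 0 7686828 0) (P.cons (P.lf 0 2063235 0) (P.cons (P.lf 46965 0 0) (P.cons (P.lf 42327 0 0) P.nil)))) (P.cons (P.cons (P.lf 0 4430775 0) (P.cons (P.lf 0 461388 0) (P.cons (P.lf 65637 0 0) P.nil))) (P.cons (P.cons (P.lf 500883 0 0) (P.cons (P.lf 112008 0 0) P.nil)) (P.cons (P.cons (P.lf 77475 0 0) P.nil) P.nil)))))) 86361)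
 EL.nil)))
noncomputable def S343_372_438_512_25 : EL := (EL.cons 4 (TM.mk (P.cons (P.cons (P.lf 0 983024907 0) (P.cons (P.lf 0 113623395 0) (P.cons (P.lf 0 1808463 0) (P.lf 602817 0 0)))) (P.cons (P.cons (P.lf 0 263843157 0) (P.cons (P.lf 7110798 0 0) (P.cons (P.lf 113172 0 0) (P.lf 0 37719 0)))) (P.cons (P.cons (P.lf 63120930 0 0) (P.cons (P.lf 7323540 0 0) (P.cons (P.lf 116562 0 0) (P.lf 0 38853 0)))) (P.cons (P.cons (P.lf 11987955 0 0) (P.cons (P.lf 0 724968 0) (P.cons (P.lf 0 11535 0) P.nil))) (P.cons (P.cons (P.lf 0 2205738 0) (P.cons (P.lf 0 169317 0) P.nil)) (P.cons (P.cons (P.lf 0 173490 0) P.nil) P.nil)))))) 126138)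
 (EL.cons 8 (TM.mk (P.cons (P.cons (P.lf 0 646760307 0) (P.cons (P.lf 0 74756097 0) (P.cons (P.lf 0 1189842 0) (P.lf 396615 0 0)))) (P.cons (P.cons (P.lf 0 311175267 0) (P.cons (P.lf 0 11224458 0) (P.cons (P.lf 0 178650 0) (P.lf 59547 0 0)))) (P.cons (P.cons (P.lf 0 8240103 0) (P.cons (P.lf 4329324 0 0) (P.cons (P.lf 68904 0 0) (P.lf 0 22965 0)))) (P.cons (P.cons (P.lf 11691135 0 0) (P.cons (P.lf 457836 0 0) (P.cons (P.lf 7284 0 0) P.nil))) (P.cons (P.cons (P.lf 451296 0 0) (P.cons (P.lf 0 125937 0) P.nil)) (P.cons (P.cons (P.lf 0 231570 0) P.nil) P.nil)))))) 75438)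
 (EL.cons 11 (TM.mk (P.cons (P.cons (P.lf 626413674 0 0) (P.cons (P.lf 23220300 0 0) (P.cons (P.lf 0 11505741 0) (P.cons (P.lf 0 104406 0) (P.lf 26100 0 0))))) (P.cons (P.cons (P.lf 0 26134890 0) (P.cons (P.lf 0 968784 0) (P.cons (P.lf 480033 0 0) (P.cons (P.lf 4353 0 0) (P.lf 0 1086 0))))) (P.cons (P.cons (P.lf 0 27189387 0) (P.cons (P.lf 0 1007874 0) (P.cons (P.lf 499404 0 0) (P.cons (P.lf 4530 0 0) P.nil)))) (P.cons (P.cons (P.lf 2095470 0 0) (P.cons (P.lf 77673 0 0) (P.cons (P.lf 0 38487 0) P.nil))) (P.cons (P.cons (P.lf 365025 0 0) (P.cons (P.lf 13530 0 0) P.nil)) (P.cons (P.cons (P.lf 0 48987 0) P.nil) P.nil)))))) 21768)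
 EL.nil)))
noncomputable def S343_372_438_512_26 : EL := (EL.cons 4 (TM.mk (P.cons (P.cons (P.lf 0 80016954 0) (P.cons (P.lf 22516254 0 0) (P.cons (P.lf 4029954 0 0) (P.cons (P.lf 0 2580 0) (P.cons (P.lf 0 38028 0) (P.cons (P.lf 0 618 0) P.nil)))))) (P.cons (P.cons (P.lf 0 117769134 0) (P.cons (P.lf 0 13155534 0) (P.cons (P.lf 0 1725630 0) (P.cons (P.lf 21528 0 0) (P.cons (P.lf 15702 0 0) P.nil))))) (P.cons (P.cons (P.lf 0 27755667 0) (P.cons (P.lf 0 3521838 0) (P.cons (P.lf 0 93465 0) (P.cons (P.lf 17493 0 0) P.nil)))) (P.cons (P.cons (P.lf 7102023 0 0) (P.cons (P.lf 1587657 0 0) (P.cons (P.lf 131487 0 0) P.nil))) (P.cons (P.cons (P.lf 1931661 0 0) (P.cons (P.lf 95424 0 0) P.nil)) (P.cons (P.cons (P.lf 0 279840 0) P.nil) P.nil)))))) 272076)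
 (EL.cons 8 (TM.mk (P.cons (P.cons (P.lf 0 52645452 0) (P.cons (P.lf 14814090 0 0) (P.cons (P.lf 2651421 0 0) (P.cons (P.lf 0 1698 0) (P.cons (P.lf 0 25020 0) (P.cons (P.lf 0 405 0) P.nil)))))) (P.cons (P.cons (P.lf 0 88682958 0) (P.cons (P.lf 0 5504001 0) (P.cons (P.lf 0 571305 0) (P.cons (P.lf 13803 0 0) (P.cons (P.lf 5007 0 0) P.nil))))) (P.cons (P.cons (P.lf 0 35789625 0) (P.cons (P.lf 0 3864249 0) (P.cons (P.lf 0 250371 0) (P.cons (P.lf 14487 0 0) P.nil)))) (P.cons (P.cons (P.lf 0 879453 0) (P.cons (P.lf 416070 0 0) (P.cons (P.lf 57378 0 0) P.nil))) (P.cons (P.cons (P.lf 1698339 0 0) (P.cons (P.lf 221793 0 0) P.nil)) (P.cons (P.cons (P.lf 111717 0 0) P.nil) P.nil)))))) 147411)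
 (EL.cons 11 (TM.mk (P.cons (P.cons (P.lf 50989263 0 0) (P.cons (P.lf 0 18351564 0) (P.cons (P.lf 0 2009055 0) (P.cons (P.lf 458739 0 0) (P.cons (P.lf 15396 0 0) (P.cons (P.lf 0 2760 0) P.nil)))))) (P.cons (P.cons (P.lf 59233284 0 0) (P.cons (P.lf 10132605 0 0) (P.cons (P.lf 0 667437 0) (P.cons (P.lf 0 193080 0) (P.cons (P.lf 0 2733 0) P.nil))))) (P.cons (P.cons (P.lf 0 281550 0) (P.cons (P.lf 0 82305 0) (P.cons (P.lf 1362 0 0) (P.cons (P.lf 1704 0 0) P.nil)))) (P.cons (P.cons (P.lf 0 3849537 0) (P.cons (P.lf 0 531219 0) (P.cons (P.lf 50121 0 0) P.nil))) (P.cons (P.cons (P.lf 94035 0 0) (P.cons (P.lf 55752 0 0) P.nil)) (P.cons (P.cons (P.lf 107259 0 0) P.nil) P.nil)))))) 77586)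
 EL.nil)))
noncomputable def S343_372_438_512_27 : EL := (EL.cons 13 (TM.mk (P.lf 0 4294967296 0) 0)
 EL.nil)
noncomputable def S343_372_438_512_28 : EL := (EL.cons 13 (TM.mk (P.cons (P.cons (P.lf 0 349604787 0) (P.cons (P.lf 138785772 0 0) (P.cons (P.lf 2208956 0 0) (P.lf 0 736316 0)))) (P.cons (P.cons (P.lf 0 420715437 0) (P.cons (P.lf 0 48628592 0) (P.cons (P.lf 0 773984 0) (P.lf 257992 0 0)))) (P.cons (P.cons (P.lf 0 30796967 0) (P.cons (P.lf 4487896 0 0) (P.cons (P.lf 71428 0 0) (P.lf 0 23808 0)))) (P.cons (P.cons (P.lf 8017636 0 0) (P.cons (P.lf 276148 0 0) (P.cons (P.lf 4392 0 0) P.nil))) (P.cons (P.cons (P.lf 0 35894 0) (P.cons (P.lf 0 70252 0) P.nil)) (P.cons (P.cons (P.lf 0 68071 0) P.nil) P.nil)))))) 16815)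
 EL.nil)
noncomputable def S343_372_438_512_29 : EL := (EL.cons 13 (TM.mk (P.cons (P.cons (P.lf 0 28457377 0) (P.cons (P.lf 22593964 0 0) (P.cons (P.lf 0 4125052 0) (P.cons (P.lf 0 262628 0) (P.cons (P.lf 46449 0 0) (P.cons (P.lf 757 0 0) P.nil)))))) (P.cons (P.cons (P.lf 0 68491385 0) (P.cons (P.lf 19273035 0 0) (P.cons (P.lf 3449483 0 0) (P.cons (P.lf 0 2210 0) (P.cons (P.lf 0 32550 0) P.nil))))) (P.cons (P.cons (P.lf 0 46225034 0) (P.cons (P.lf 0 6805932 0) (P.cons (P.lf 0 948948 0) (P.cons (P.lf 9349 0 0) P.nil)))) (P.cons (P.cons (P.lf 0 4728210 0) (P.cons (P.lf 0 291353 0) (P.cons (P.lf 79141 0 0) P.nil))) (P.cons (P.cons (P.lf 1344069 0 0) (P.cons (P.lf 290898 0 0) P.nil)) (P.cons (P.cons (P.lf 96866 0 0) P.nil) P.nil)))))) 133159)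
 EL.nil)
noncomputable def S343_372_438_512_30 : EL := (EL.cons 13 (TM.mk (P.cons (P.lf 0 2846448260 0) (P.cons (P.lf 0 273072892 0) (P.cons (P.lf 22353452 0 0) (P.cons (P.lf 0 133644 0) (P.cons (P.lf 0 68648 0) (P.cons (P.lf 3668 0 0) P.nil)))))) 396)
 EL.nil)
noncomputable def S343_372_438_512_31 : EL := (EL.cons 13 (TM.mk (P.cons (P.cons (P.lf 0 231697209 0) (P.cons (P.lf 91978935 0 0) (P.cons (P.lf 1463964 0 0) (P.lf 0 487986 0)))) (P.cons (P.cons (P.lf 0 301052889 0) (P.cons (P.lf 0 23404168 0) (P.cons (P.lf 0 372505 0) (P.lf 124166 0 0)))) (P.cons (P.cons (P.lf 0 45339828 0) (P.cons (P.lf 0 839803 0) (P.cons (P.lf 0 13368 0) (P.lf 4456 0 0)))) (P.cons (P.cons (P.lf 5534311 0 0) (P.cons (P.lf 725763 0 0) (P.cons (P.lf 11549 0 0) P.nil))) (P.cons (P.cons (P.lf 627576 0 0) (P.cons (P.lf 0 51653 0) P.nil)) (P.cons (P.cons (P.lf 0 96508 0) P.nil) P.nil)))))) 29769)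
 EL.nil)
noncomputable def S343_372_438_512_32 : EL := (EL.cons 13 (TM.mk (P.cons (P.cons (P.lf 0 18859852 0) (P.cons (P.lf 14973932 0 0) (P.cons (P.lf 0 2733838 0) (P.cons (P.lf 0 174054 0) (P.cons (P.lf 30783 0 0) (P.cons (P.lf 501 0 0) P.nil)))))) (P.cons (P.cons (P.lf 0 47201319 0) (P.cons (P.lf 14209536 0 0) (P.cons (P.lf 2023841 0 0) (P.cons (P.lf 0 18162 0) (P.cons (P.lf 0 18618 0) P.nil))))) (P.cons (P.cons (P.lf 0 34841752 0) (P.cons (P.lf 0 3402783 0) (P.cons (P.lf 0 388119 0) (P.cons (P.lf 7422 0 0) P.nil)))) (P.cons (P.cons (P.lf 0 5716968 0) (P.cons (P.lf 0 725415 0) (P.cons (P.lf 0 25965 0) P.nil))) (P.cons (P.cons (P.lf 828145 0 0) (P.cons (P.lf 210648 0 0) P.nil)) (P.cons (P.cons (P.lf 171752 0 0) P.nil) P.nil)))))) 148342)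
 EL.nil)
noncomputable def S343_372_438_512_33 : EL := (EL.cons 14 (TM.mk (P.lf 8589934592 0 0) 0)
 EL.nil)
noncomputable def S343_372_438_512_34 : EL := (EL.cons 14 (TM.mk (P.cons (P.cons (P.lf 699209574 0 0) (P.cons (P.lf 0 277571544 0) (P.cons (P.lf 0 4417912 0) (P.lf 1472632 0 0)))) (P.cons (P.cons (P.lf 841430874 0 0) (P.cons (P.lf 97257184 0 0) (P.cons (P.lf 1547968 0 0) (P.lf 0 515984 0)))) (P.cons (P.cons (P.lf 61593934 0 0) (P.cons (P.lf 0 8975792 0) (P.cons (P.lf 0 142856 0) (P.lf 47616 0 0)))) (P.cons (P.cons (P.lf 0 16035272 0) (P.cons (P.lf 0 552296 0) (P.cons (P.lf 0 8784 0) P.nil))) (P.cons (P.cons (P.lf 71788 0 0) (P.cons (P.lf 140504 0 0) P.nil)) (P.cons (P.cons (P.lf 136142 0 0) P.nil) P.nil)))))) 33630)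
 EL.nil)
noncomputable def S343_372_438_512_35 : EL := (EL.cons 14 (TM.mk (P.cons (P.cons (P.lf 56914754 0 0) (P.cons (P.lf 0 45187928 0) (P.cons (P.lf 8250104 0 0) (P.cons (P.lf 525256 0 0) (P.cons (P.lf 0 92898 0) (P.cons (P.lf 0 1514 0) P.nil)))))) (P.cons (P.cons (P.lf 136982770 0 0) (P.cons (P.lf 0 38546070 0) (P.cons (P.lf 0 6898966 0) (P.cons (P.lf 4420 0 0) (P.cons (P.lf 65100 0 0) P.nil))))) (P.cons (P.cons (P.lf 92450068 0 0) (P.cons (P.lf 13611864 0 0) (P.cons (P.lf 1897896 0 0) (P.cons (P.lf 0 18698 0) P.nil)))) (P.cons (P.cons (P.lf 9456420 0 0) (P.cons (P.lf 582706 0 0) (P.cons (P.lf 0 158282 0) P.nil))) (P.cons (P.cons (P.lf 0 2688138 0) (P.cons (P.lf 0 581796 0) P.nil)) (P.cons (P.cons (P.lf 0 193732 0) P.nil) P.nil)))))) 266318)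
 EL.nil)
noncomputable def S343_372_438_512_36 : EL := (EL.cons 14 (TM.mk (P.cons (P.lf 5692896520 0 0) (P.cons (P.lf 546145784 0 0) (P.cons (P.lf 0 44706904 0) (P.cons (P.lf 267288 0 0) (P.cons (P.lf 137296 0 0) (P.cons (P.lf 0 7336 0) P.nil)))))) 792)
 EL.nil)
noncomputable def S343_372_438_512_37 : EL := (EL.cons 14 (TM.mk (P.cons (P.cons (P.lf 463394418 0 0) (P.cons (P.lf 0 183957870 0) (P.cons (P.lf 0 2927928 0) (P.lf 975972 0 0)))) (P.cons (P.cons (P.lf 602105778 0 0) (P.cons (P.lf 46808336 0 0) (P.cons (P.lf 745010 0 0) (P.lf 0 248332 0)))) (P.cons (P.cons (P.lf 90679656 0 0) (P.cons (P.lf 1679606 0 0) (P.cons (P.lf 26736 0 0) (P.lf 0 8912 0)))) (P.cons (P.cons (P.lf 0 11068622 0) (P.cons (P.lf 0 1451526 0) (P.cons (P.lf 0 23098 0) P.nil))) (P.cons (P.cons (P.lf 0 1255152 0) (P.cons (P.lf 103306 0 0) P.nil)) (P.cons (P.cons (P.lf 193016 0 0) P.nil) P.nil))))))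 59538)
 EL.nil)
noncomputable def S343_372_438_512_38 : EL := (EL.cons 14 (TM.mk (P.cons (P.cons (P.lf 37719704 0 0) (P.cons (P.lf 0 29947864 0) (P.cons (P.lf 5467676 0 0) (P.cons (P.lf 348108 0 0) (P.cons (P.lf 0 61566 0) (P.cons (P.lf 0 1002 0) P.nil)))))) (P.cons (P.cons (P.lf 94402638 0 0) (P.cons (P.lf 0 28419072 0) (P.cons (P.lf 0 4047682 0) (P.cons (P.lf 36324 0 0) (P.cons (P.lf 37236 0 0) P.nil))))) (P.cons (P.cons (P.lf 69683504 0 0) (P.cons (P.lf 6805566 0 0) (P.cons (P.lf 776238 0 0) (P.cons (P.lf 0 14844 0) P.nil)))) (P.cons (P.cons (P.lf 11433936 0 0) (P.cons (P.lf 1450830 0 0) (P.cons (P.lf 51930 0 0) P.nil))) (P.cons (P.cons (P.lf 0 1656290 0) (P.cons (P.lf 0 421296 0) P.nil)) (P.cons (P.cons (P.lf 0 343504 0) P.nil) P.nil)))))) 296684)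
 EL.nil)
noncomputable def S343_372_438_512_39 : EL := (EL.cons 14 (TM.mk (P.cons (P.lf 3772912404 0 0) (P.cons (P.lf 723905728 0 0) (P.cons (P.lf 0 24534334 0) (P.cons (P.lf 0 5330620 0) (P.cons (P.lf 448650 0 0) (P.cons (P.lf 4952 0 0) P.nil)))))) 3630)
 EL.nil)
noncomputable def S343_372_438_512_40 : EL := (EL.cons 14 (TM.mk (P.cons (P.cons (P.lf 307110192 0 0) (P.cons (P.lf 0 121916308 0) (P.cons (P.lf 0 1940456 0) (P.lf 646816 0 0)))) (P.cons (P.cons (P.lf 428502306 0 0) (P.cons (P.lf 19325782 0 0) (P.cons (P.lf 307592 0 0) (P.lf 0 102528 0)))) (P.cons (P.cons (P.lf 95967028 0 0) (P.cons (P.lf 5046626 0 0) (P.cons (P.lf 80324 0 0) (P.lf 0 26774 0)))) (P.cons (P.cons (P.lf 0 4689516 0) (P.cons (P.lf 0 1104536 0) (P.cons (P.lf 0 17576 0) P.nil))) (P.cons (P.cons (P.lf 0 1981386 0) (P.cons (P.lf 0 34046 0) P.nil)) (P.cons (P.cons (P.lf 117772 0 0) P.nil) P.nil))))))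 80524)
 EL.nil)
noncomputable def S343_372_438_512_41 : EL := (EL.cons 14 (TM.mk (P.cons (P.cons (P.lf 24998372 0 0) (P.cons (P.lf 0 19847658 0) (P.cons (P.lf 3623650 0 0) (P.cons (P.lf 230704 0 0) (P.cons (P.lf 0 40802 0) (P.cons (P.lf 0 664 0) P.nil)))))) (P.cons (P.cons (P.lf 64962648 0 0) (P.cons (P.lf 0 20738544 0) (P.cons (P.lf 0 2334930 0) (P.cons (P.lf 46206 0 0) (P.cons (P.lf 20764 0 0) P.nil))))) (P.cons (P.cons (P.lf 51987852 0 0) (P.cons (P.lf 2859312 0 0) (P.cons (P.lf 228636 0 0) (P.cons (P.lf 0 9340 0) P.nil)))) (P.cons (P.cons (P.lf 11518038 0 0) (P.cons (P.lf 1541196 0 0) (P.cons (P.lf 105006 0 0) P.nil))) (P.cons (P.cons (P.lf 0 729856 0) (P.cons (P.lf 0 223750 0) P.nil)) (P.cons (P.cons (P.lf 0 388824 0) P.nil) P.nil)))))) 276636)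
 EL.nil)
noncomputable def S343_372_438_512_42 : EL := (EL.cons 14 (TM.mk (P.cons (P.lf 2500461402 0 0) (P.cons (P.lf 719642336 0 0) (P.cons (P.lf 10129460 0 0) (P.cons (P.lf 0 8742920 0) (P.cons (P.lf 168938 0 0) (P.cons (P.lf 67134 0 0) P.nil)))))) 7070)
 EL.nil)
noncomputable def S343_372_438_512_43 : EL := (EL.cons 14 (TM.mk (P.cons (P.cons (P.lf 203534326 0 0) (P.cons (P.lf 0 80798860 0) (P.cons (P.lf 0 1286018 0) (P.lf 428670 0 0)))) (P.cons (P.cons (P.lf 303511766 0 0) (P.cons (P.lf 5056568 0 0) (P.cons (P.lf 80478 0 0) (P.lf 0 26824 0)))) (P.cons (P.cons (P.lf 89246912 0 0) (P.cons (P.lf 5207852 0 0) (P.cons (P.lf 82890 0 0) (P.lf 0 27630 0)))) (P.cons (P.cons (P.lf 773012 0 0) (P.cons (P.lf 0 515534 0) (P.cons (P.lf 0 8202 0) P.nil))) (P.cons (P.cons (P.lf 0 2092528 0) (P.cons (P.lf 0 120402 0) P.nil)) (P.cons (P.cons (P.lf 0 13942 0) P.nil) P.nil)))))) 88404)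
 EL.nil)
noncomputable def S343_372_438_512_44 : EL := (EL.cons 14 (TM.mk (P.cons (P.cons (P.lf 16567430 0 0) (P.cons (P.lf 0 13153844 0) (P.cons (P.lf 2401538 0 0) (P.cons (P.lf 152896 0 0) (P.cons (P.lf 0 27040 0) (P.cons (P.lf 0 440 0) P.nil)))))) (P.cons (P.cons (P.lf 44642760 0 0) (P.cons (P.lf 0 15006180 0) (P.cons (P.lf 0 1317060 0) (P.cons (P.lf 45290 0 0) (P.cons (P.lf 11166 0 0) P.nil))))) (P.cons (P.cons (P.lf 38454650 0 0) (P.cons (P.lf 679728 0 0) (P.cons (P.lf 0 15786 0) (P.cons (P.lf 0 4452 0) P.nil)))) (P.cons (P.cons (P.lf 10601518 0 0) (P.cons (P.lf 1310524 0 0) (P.cons (P.lf 96392 0 0) P.nil))) (P.cons (P.cons (P.lf 0 19544 0) (P.cons (P.lf 0 66142 0) P.nil)) (P.cons (P.cons (P.lf 0 361404 0) P.nil) P.nil)))))) 237296)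
 EL.nil)
noncomputable def S343_372_438_512_45 : EL := (EL.cons 14 (TM.mk (P.cons (P.cons (P.lf 4632786 0 0) (P.cons (P.lf 0 5517358 0) (P.cons (P.lf 2102458 0 0) (P.cons (P.lf 0 190836 0) (P.cons (P.lf 0 36524 0) (P.cons (P.lf 4022 0 0) P.nil)))))) (P.cons (P.cons (P.lf 16725330 0 0) (P.cons (P.lf 0 11346004 0) (P.cons (P.lf 920312 0 0) (P.cons (P.lf 399896 0 0) (P.cons (P.lf 3144 0 0) P.nil))))) (P.cons (P.cons (P.lf 21351630 0 0) (P.cons (P.lf 0 4487742 0) (P.cons (P.lf 0 1315014 0) (P.cons (P.lf 0 150640 0) P.nil)))) (P.cons (P.cons (P.lf 10701714 0 0) (P.cons (P.lf 1783122 0 0) (P.cons (P.lf 296086 0 0) P.nil))) (P.cons (P.cons (P.lf 1115170 0 0) (P.cons (P.lf 268354 0 0) P.nil)) (P.cons (P.cons (P.lf 0 381814 0) P.nil) P.nil)))))) 476438)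
 EL.nil)
noncomputable def S343_372_438_512_46 : EL := (EL.cons 15 (TM.mk (P.lf 4294967296 0 0) 0)
 EL.nil)
noncomputable def S343_372_438_512_47 : EL := (EL.cons 15 (TM.mk (P.cons (P.cons (P.lf 349604787 0 0) (P.cons (P.lf 0 138785772 0) (P.cons (P.lf 0 2208956 0) (P.lf 736316 0 0)))) (P.cons (P.cons (P.lf 420715437 0 0) (P.cons (P.lf 48628592 0 0) (P.cons (P.lf 773984 0 0) (P.lf 0 257992 0)))) (P.cons (P.cons (P.lf 30796967 0 0) (P.cons (P.lf 0 4487896 0) (P.cons (P.lf 0 71428 0) (P.lf 23808 0 0)))) (P.cons (P.cons (P.lf 0 8017636 0) (P.cons (P.lf 0 276148 0) (P.cons (P.lf 0 4392 0) P.nil))) (P.cons (P.cons (P.lf 35894 0 0) (P.cons (P.lf 70252 0 0) P.nil)) (P.cons (P.cons (P.lf 68071 0 0) P.nil) P.nil)))))) 16815)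
 EL.nil)
noncomputable def S343_372_438_512_48 : EL := (EL.cons 15 (TM.mk (P.cons (P.cons (P.lf 28457377 0 0) (P.cons (P.lf 0 22593964 0) (P.cons (P.lf 4125052 0 0) (P.cons (P.lf 262628 0 0) (P.cons (P.lf 0 46449 0) (P.cons (P.lf 0 757 0) P.nil)))))) (P.cons (P.cons (P.lf 68491385 0 0) (P.cons (P.lf 0 19273035 0) (P.cons (P.lf 0 3449483 0) (P.cons (P.lf 2210 0 0) (P.cons (P.lf 32550 0 0) P.nil))))) (P.cons (P.cons (P.lf 46225034 0 0) (P.cons (P.lf 6805932 0 0) (P.cons (P.lf 948948 0 0) (P.cons (P.lf 0 9349 0) P.nil)))) (P.cons (P.cons (P.lf 4728210 0 0) (P.cons (P.lf 291353 0 0) (P.cons (P.lf 0 79141 0) P.nil))) (P.cons (P.cons (P.lf 0 1344069 0) (P.cons (P.lf 0 290898 0) P.nil)) (P.cons (P.cons (P.lf 0 96866 0) P.nil) P.nil)))))) 133159)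
 EL.nil)
noncomputable def S343_372_438_512 : SL := (SL.cons S343_372_438_512_0 (SL.cons S343_372_438_512_1 (SL.cons S343_372_438_512_2 (SL.cons S343_372_438_512_3 (SL.cons S343_372_438_512_4 (SL.cons S343_372_438_512_5 (SL.cons S343_372_438_512_6 (SL.cons S343_372_438_512_7 (SL.cons S343_372_438_512_8 (SL.cons S343_372_438_512_9 (SL.cons S343_372_438_512_10 (SL.cons S343_372_438_512_11 (SL.cons S343_372_438_512_12 (SL.cons S343_372_438_512_13 (SL.cons S343_372_438_512_14 (SL.cons S343_372_438_512_15 (SL.cons S343_372_438_512_16 (SL.cons S343_372_438_512_17 (SL.cons S343_372_438_512_18 (SL.cons S343_372_438_512_19 (SL.cons S343_372_438_512_20 (SL.cons S343_372_438_512_21 (SL.cons S343_372_438_512_22 (SL.cons S343_372_438_512_23 (SL.cons S343_372_438_512_24 (SL.cons S343_372_438_512_25 (SL.cons S343_372_438_512_26 (SL.cons S343_372_438_512_27 (SL.cons S343_372_438_512_28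 (SL.cons S343_372_438_512_29 (SL.cons S343_372_438_512_30 (SL.cons S343_372_438_512_31 (SL.cons S343_372_438_512_32 (SL.cons S343_372_438_512_33 (SL.cons S343_372_438_512_34 (SL.cons S343_372_438_512_35 (SL.cons S343_372_438_512_36 (SL.cons S343_372_438_512_37 (SL.cons S343_372_438_512_38 (SL.cons S343_372_438_512_39 (SL.cons S343_372_438_512_40 (SL.cons S343_372_438_512_41 (SL.cons S343_372_438_512_42 (SL.cons S343_372_438_512_43 (SL.cons S343_372_438_512_44 (SL.cons S343_372_438_512_45 (SL.cons S343_372_438_512_46 (SL.cons S343_372_438_512_47 (SL.cons S343_372_438_512_48 SL.nil)))))))))))))))))))))))))))))))))))))))))))))))))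
noncomputable def S343_372_512_660_0 : EL := (EL.cons 0 (TM.mk (P.cons (P.lf 5139680571 0 0) (P.cons (P.lf 0 636245268 0) (P.cons (P.lf 21563379 0 0) (P.cons (P.lf 4685115 0 0) (P.cons (P.lf 0 394321 0) (P.cons (P.lf 0 4352 0) P.nil)))))) 3197)
 (EL.cons 1 (TM.mk (P.cons (P.lf 1792040857 0 0) (P.cons (P.lf 0 37383279 0) (P.cons (P.lf 0 39281548 0) (P.cons (P.lf 2177913 0 0) (P.cons (P.lf 137038 0 0) (P.cons (P.lf 0 19477 0) P.nil)))))) 1484)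
 (EL.cons 5 (TM.mk (P.cons (P.lf 5474002426 0 0) (P.cons (P.lf 226220540 0 0) (P.cons (P.lf 0 7666984 0) (P.cons (P.lf 0 1665814 0) (P.cons (P.lf 140204 0 0) (P.cons (P.lf 1546 0 0) P.nil)))))) 969)
 (EL.cons 9 (TM.mk (P.lf 6442450944 0 0) 2)
 EL.nil))))
noncomputable def S343_372_512_660_1 : EL := (EL.cons 0 (TM.mk (P.cons (P.cons (P.lf 3665632822 0 0) (P.cons (P.lf 295916833 0 0) (P.cons (P.lf 0 19784298 0) (P.lf 0 6594759 0)))) (P.cons (P.cons (P.lf 1014703979 0 0) (P.cons (P.lf 52936286 0 0) (P.cons (P.lf 0 3539203 0) (P.lf 0 1179744 0)))) (P.cons (P.cons (P.lf 0 306200877 0) (P.cons (P.lf 0 50617067 0) (P.cons (P.lf 3384135 0 0) (P.lf 1128038 0 0)))) (P.cons (P.cons (P.lf 0 12473278 0) (P.cons (P.lf 6360037 0 0) (P.cons (P.lf 0 425208 0) P.nil))) (P.cons (P.cons (P.lf 8183529 0 0) (P.cons (P.lf 491371 0 0) P.nil)) (P.cons (P.cons (P.lf 0 343381 0) P.nil) P.nil))))))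 865342)
 (EL.cons 1 (TM.mk (P.cons (P.cons (P.lf 192219781 0 0) (P.cons (P.lf 0 74312870 0) (P.cons (P.lf 4968374 0 0) (P.lf 1656125 0 0)))) (P.cons (P.cons (P.lf 733601562 0 0) (P.cons (P.lf 113275325 0 0) (P.cons (P.lf 0 7573314 0) (P.lf 0 2524428 0)))) (P.cons (P.cons (P.lf 29062696 0 0) (P.cons (P.lf 0 16016673 0) (P.cons (P.lf 1070829 0 0) (P.lf 356940 0 0)))) (P.cons (P.cons (P.lf 0 33530791 0) (P.cons (P.lf 0 2904748 0) (P.cons (P.lf 194195 0 0) P.nil))) (P.cons (P.cons (P.lf 857101 0 0) (P.cons (P.lf 697863 0 0) P.nil)) (P.cons (P.cons (P.lf 525193 0 0) P.nil) P.nil)))))) 439723)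
 (EL.cons 5 (TM.mk (P.cons (P.cons (P.lf 0 1416815430 0) (P.cons (P.lf 0 554555128 0) (P.cons (P.lf 37076260 0 0) (P.lf 12358750 0 0)))) (P.cons (P.cons (P.lf 602438441 0 0) (P.cons (P.lf 138620752 0 0) (P.cons (P.lf 0 9267858 0) (P.lf 0 3089284 0)))) (P.cons (P.cons (P.lf 138337984 0 0) (P.cons (P.lf 3466916 0 0) (P.cons (P.lf 0 231788 0) (P.lf 0 77264 0)))) (P.cons (P.cons (P.lf 0 10603418 0) (P.cons (P.lf 0 3155434 0) (P.cons (P.lf 210958 0 0) P.nil))) (P.cons (P.cons (P.lf 0 2490371 0) (P.cons (P.lf 52760 0 0) P.nil)) (P.cons (P.cons (P.lf 225774 0 0) P.nil) P.nil)))))) 349767)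
 (EL.cons 9 (TM.mk (P.cons (P.cons (P.lf 0 100128798 0) (P.cons (P.lf 0 396476688 0) (P.cons (P.lf 26507502 0 0) (P.lf 8835834 0 0)))) (P.cons (P.cons (P.lf 849901819 0 0) (P.cons (P.lf 138919884 0 0) (P.cons (P.lf 0 9287856 0) (P.lf 0 3095946 0)))) (P.cons (P.cons (P.lf 25999912 0 0) (P.cons (P.lf 0 12820818 0) (P.cons (P.lf 857166 0 0) (P.lf 285720 0 0)))) (P.cons (P.cons (P.lf 0 13269132 0) (P.cons (P.lf 0 788898 0) (P.cons (P.lf 52740 0 0) P.nil))) (P.cons (P.cons (P.lf 369987 0 0) (P.cons (P.lf 200700 0 0) P.nil)) (P.cons (P.cons (P.lf 91486 0 0) P.nil) P.nil)))))) 79025)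
 (EL.cons 2 (TM.mk (P.cons (P.cons (P.lf 0 837174740 0) (P.cons (P.lf 129615671 0 0) (P.cons (P.lf 62444742 0 0) (P.cons (P.lf 0 2363090 0) (P.lf 0 590771 0))))) (P.cons (P.cons (P.lf 115242179 0 0) (P.cons (P.lf 0 17842381 0) (P.cons (P.lf 0 8595894 0) (P.cons (P.lf 325293 0 0) (P.lf 81320 0 0))))) (P.cons (P.cons (P.lf 18707307 0 0) (P.cons (P.lf 0 2896360 0) (P.cons (P.lf 0 1395374 0) (P.cons (P.lf 52804 0 0) P.nil)))) (P.cons (P.cons (P.lf 0 3650866 0) (P.cons (P.lf 565245 0 0) (P.cons (P.lf 272314 0 0) P.nil))) (P.cons (P.cons (P.lf 24089 0 0) (P.cons (P.lf 0 3729 0) P.nil)) (P.cons (P.cons (P.lf 29753 0 0) P.nil) P.nil)))))) 72594)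
 (EL.cons 6 (TM.mk (P.cons (P.cons (P.lf 452423076 0 0) (P.cons (P.lf 0 70046451 0) (P.cons (P.lf 0 33746172 0) (P.cons (P.lf 1277052 0 0) (P.lf 319260 0 0))))) (P.cons (P.cons (P.lf 0 158522715 0) (P.cons (P.lf 24543294 0 0) (P.cons (P.lf 11824185 0 0) (P.cons (P.lf 0 447459 0) (P.lf 0 111864 0))))) (P.cons (P.cons (P.lf 14629950 0 0) (P.cons (P.lf 0 2265081 0) (P.cons (P.lf 0 1091244 0) (P.cons (P.lf 41295 0 0) P.nil)))) (P.cons (P.cons (P.lf 900219 0 0) (P.cons (P.lf 0 139374 0) (P.cons (P.lf 0 67146 0) P.nil))) (P.cons (P.cons (P.lf 0 229023 0) (P.cons (P.lf 35457 0 0) P.nil)) (P.cons (P.cons (P.lf 7698 0 0) P.nil) P.nil)))))) 41499)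
 EL.nil))))))
noncomputable def S343_372_512_660_2 : EL := (EL.cons 0 (TM.mk (P.cons (P.cons (P.lf 0 115184295 0) (P.cons (P.lf 0 470205743 0) (P.cons (P.lf 0 24451011 0) (P.cons (P.lf 17952008 0 0) (P.cons (P.lf 2241197 0 0) (P.cons (P.lf 0 166542 0) P.nil)))))) (P.cons (P.cons (P.lf 956844862 0 0) (P.cons (P.lf 197740381 0 0) (P.cons (P.lf 9076503 0 0) (P.cons (P.lf 0 7388243 0) (P.cons (P.lf 0 894134 0) P.nil))))) (P.cons (P.cons (P.lf 215411042 0 0) (P.cons (P.lf 46982842 0 0) (P.cons (P.lf 0 1224931 0) (P.cons (P.lf 0 1303296 0) P.nil)))) (P.cons (P.cons (P.lf 0 82032720 0) (P.cons (P.lf 0 26770498 0) (P.cons (P.lf 0 604285 0) P.nil))) (P.cons (P.cons (P.lf 0 6692244 0) (P.cons (P.lf 1377061 0 0) P.nil)) (P.cons (P.cons (P.lf 3117555 0 0) P.nil) P.nil)))))) 6146459)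
 (EL.cons 1 (TM.mk (P.cons (P.cons (P.lf 0 6407845 0) (P.cons (P.lf 0 24777050 0) (P.cons (P.lf 4016102 0 0) (P.cons (P.lf 236668 0 0) (P.cons (P.lf 0 94620 0) (P.cons (P.lf 7028 0 0) P.nil)))))) (P.cons (P.cons (P.lf 35270376 0 0) (P.cons (P.lf 0 74761296 0) (P.cons (P.lf 0 7250946 0) (P.cons (P.lf 3304040 0 0) (P.cons (P.lf 491217 0 0) P.nil))))) (P.cons (P.cons (P.lf 163097955 0 0) (P.cons (P.lf 47107400 0 0) (P.cons (P.lf 2780173 0 0) (P.cons (P.lf 0 1842708 0) P.nil)))) (P.cons (P.cons (P.lf 12301108 0 0) (P.cons (P.lf 0 805638 0) (P.cons (P.lf 0 671168 0) P.nil))) (P.cons (P.cons (P.lf 0 9961139 0) (P.cons (P.lf 0 2727707 0) P.nil)) (P.cons (P.cons (P.lf 0 99886 0) P.nil) P.nil)))))) 3085640)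
 (EL.cons 5 (TM.mk (P.cons (P.cons (P.lf 42718109 0 0) (P.cons (P.lf 181151580 0 0) (P.cons (P.lf 35412834 0 0) (P.cons (P.lf 0 10391834 0) (P.cons (P.lf 0 1905805 0) (P.cons (P.lf 141617 0 0) P.nil)))))) (P.cons (P.cons (P.lf 0 370152374 0) (P.cons (P.lf 0 193757483 0) (P.cons (P.lf 0 14352066 0) (P.cons (P.lf 7969312 0 0) (P.cons (P.lf 1095020 0 0) P.nil))))) (P.cons (P.cons (P.lf 49563772 0 0) (P.cons (P.lf 21660149 0 0) (P.cons (P.lf 3053907 0 0) (P.cons (P.lf 0 1084703 0) P.nil)))) (P.cons (P.cons (P.lf 37409217 0 0) (P.cons (P.lf 8834207 0 0) (P.cons (P.lf 0 255997 0) P.nil))) (P.cons (P.cons (P.lf 0 1482442 0) (P.cons (P.lf 0 1550037 0) P.nil)) (P.cons (P.cons (P.lf 0 1122423 0) P.nil) P.nil)))))) 2811531)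
 (EL.cons 9 (TM.mk (P.cons (P.cons (P.lf 1556205 0 0) (P.cons (P.lf 12324108 0 0) (P.cons (P.lf 23575722 0 0) (P.cons (P.lf 0 3537264 0) (P.cons (P.lf 0 978471 0) (P.cons (P.lf 72709 0 0) P.nil)))))) (P.cons (P.cons (P.lf 0 26418406 0) (P.cons (P.lf 0 108926289 0) (P.cons (P.lf 0 9816058 0) (P.cons (P.lf 4713864 0 0) (P.cons (P.lf 685684 0 0) P.nil))))) (P.cons (P.cons (P.lf 111312670 0 0) (P.cons (P.lf 33851599 0 0) (P.cons (P.lf 2310337 0 0) (P.cons (P.lf 0 1365967 0) P.nil)))) (P.cons (P.cons (P.lf 7272385 0 0) (P.cons (P.lf 0 603694 0) (P.cons (P.lf 0 415455 0) P.nil))) (P.cons (P.cons (P.lf 0 3407556 0) (P.cons (P.lf 0 935655 0) P.nil)) (P.cons (P.cons (P.lf 0 12325 0) P.nil) P.nil)))))) 1011655)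
 (EL.cons 2 (TM.mk (P.cons (P.cons (P.lf 26022796 0 0) (P.cons (P.lf 99012628 0 0) (P.cons (P.lf 0 24783581 0) (P.cons (P.lf 0 8842168 0) (P.cons (P.lf 1178611 0 0) (P.cons (P.lf 224550 0 0) P.nil)))))) (P.cons (P.cons (P.lf 0 224465934 0) (P.cons (P.lf 0 15535676 0) (P.cons (P.lf 27891005 0 0) (P.cons (P.lf 3717596 0 0) (P.cons (P.lf 0 724646 0) P.nil))))) (P.cons (P.cons (P.lf 23067281 0 0) (P.cons (P.lf 2428081 0 0) (P.cons (P.lf 0 3050561 0) (P.cons (P.lf 0 453988 0) P.nil)))) (P.cons (P.cons (P.lf 9428023 0 0) (P.cons (P.lf 0 457200 0) (P.cons (P.lf 0 925464 0) P.nil))) (P.cons (P.cons (P.lf 0 1383885 0) (P.cons (P.lf 0 100991 0) P.nil)) (P.cons (P.cons (P.lf 0 111633 0) P.nil) P.nil)))))) 970390)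
 (EL.cons 6 (TM.mk (P.cons (P.cons (P.lf 0 14063148 0) (P.cons (P.lf 0 53508060 0) (P.cons (P.lf 13393458 0 0) (P.cons (P.lf 4778448 0 0) (P.cons (P.lf 0 636942 0) (P.cons (P.lf 0 121350 0) P.nil)))))) (P.cons (P.cons (P.lf 124296756 0 0) (P.cons (P.lf 19778502 0 0) (P.cons (P.lf 0 17921946 0) (P.cons (P.lf 0 3025566 0) (P.cons (P.lf 527106 0 0) P.nil))))) (P.cons (P.cons (P.lf 0 38628360 0) (P.cons (P.lf 0 4457256 0) (P.cons (P.lf 5195178 0 0) (P.cons (P.lf 794094 0 0) P.nil)))) (P.cons (P.cons (P.lf 688878 0 0) (P.cons (P.lf 933612 0 0) (P.cons (P.lf 0 281994 0) P.nil))) (P.cons (P.cons (P.lf 1067682 0 0) (P.cons (P.lf 0 89508 0) P.nil)) (P.cons (P.cons (P.lf 0 119016 0) P.nil) P.nil)))))) 708864)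
 EL.nil))))))
noncomputable def S343_372_512_660_3 : EL := (EL.cons 0 (TM.mk (P.cons (P.lf 3316036292 0 0) (P.cons (P.lf 636245268 0 0) (P.cons (P.lf 0 21563379 0) (P.cons (P.lf 0 4685115 0) (P.cons (P.lf 394321 0 0) (P.cons (P.lf 4352 0 0) P.nil)))))) 3197)
 (EL.cons 1 (TM.mk (P.cons (P.lf 0 1792040857 0) (P.cons (P.lf 37383279 0 0) (P.cons (P.lf 39281548 0 0) (P.cons (P.lf 0 2177913 0) (P.cons (P.lf 0 137038 0) (P.cons (P.lf 19477 0 0) P.nil)))))) 1484)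
 (EL.cons 5 (TM.mk (P.cons (P.lf 968448518 0 0) (P.cons (P.lf 0 226220540 0) (P.cons (P.lf 7666984 0 0) (P.cons (P.lf 1665814 0 0) (P.cons (P.lf 0 140204 0) (P.cons (P.lf 0 1546 0) P.nil)))))) 962)
 EL.nil)))
noncomputable def S343_372_512_660_4 : EL := (EL.cons 0 (TM.mk (P.cons (P.cons (P.lf 0 51537951 0) (P.cons (P.lf 0 204073122 0) (P.cons (P.lf 13643850 0 0) (P.lf 4547949 0 0)))) (P.cons (P.cons (P.lf 427570008 0 0) (P.cons (P.lf 32349016 0 0) (P.cons (P.lf 0 2162777 0) (P.lf 0 720922 0)))) (P.cons (P.cons (P.lf 97652552 0 0) (P.cons (P.lf 8447436 0 0) (P.cons (P.lf 0 564776 0) (P.lf 0 188258 0)))) (P.cons (P.cons (P.lf 0 7034006 0) (P.cons (P.lf 0 1848867 0) (P.cons (P.lf 123607 0 0) P.nil))) (P.cons (P.cons (P.lf 0 1831220 0) (P.cons (P.lf 0 56986 0) P.nil)) (P.cons (P.cons (P.lf 161085 0 0) P.nil) P.nil)))))) 183244)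
 (EL.cons 1 (TM.mk (P.cons (P.cons (P.lf 27851960 0 0) (P.cons (P.lf 110284490 0 0) (P.cons (P.lf 0 7373360 0) (P.lf 0 2457785 0)))) (P.cons (P.cons (P.lf 0 236990850 0) (P.cons (P.lf 0 40942756 0) (P.cons (P.lf 2737335 0 0) (P.lf 912442 0 0)))) (P.cons (P.cons (P.lf 0 2911003 0) (P.cons (P.lf 1954921 0 0) (P.cons (P.lf 0 130698 0) (P.lf 0 43565 0)))) (P.cons (P.cons (P.lf 9057781 0 0) (P.cons (P.lf 1126111 0 0) (P.cons (P.lf 0 75286 0) P.nil))) (P.cons (P.cons (P.lf 0 306568 0) (P.cons (P.lf 0 177105 0) P.nil)) (P.cons (P.cons (P.lf 0 131377 0) P.nil) P.nil)))))) 102300)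
 (EL.cons 5 (TM.mk (P.cons (P.cons (P.lf 0 15051660 0) (P.cons (P.lf 0 59599562 0) (P.cons (P.lf 3984686 0 0) (P.lf 1328228 0 0)))) (P.cons (P.cons (P.lf 131275712 0 0) (P.cons (P.lf 34804754 0 0) (P.cons (P.lf 0 2326962 0) (P.lf 0 775652 0)))) (P.cons (P.cons (P.lf 0 26054268 0) (P.cons (P.lf 0 7277138 0) (P.cons (P.lf 486530 0 0) (P.lf 162176 0 0)))) (P.cons (P.cons (P.lf 0 1922062 0) (P.cons (P.lf 394408 0 0) (P.cons (P.lf 0 26368 0) P.nil))) (P.cons (P.cons (P.lf 774428 0 0) (P.cons (P.lf 87160 0 0) P.nil)) (P.cons (P.cons (P.lf 0 26780 0) P.nil) P.nil)))))) 66544)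
 EL.nil)))
noncomputable def S343_372_512_660_5 : EL := (EL.cons 0 (TM.mk (P.cons (P.cons (P.lf 801003 0 0) (P.cons (P.lf 6343421 0 0) (P.cons (P.lf 12134814 0 0) (P.cons (P.lf 0 1820687 0) (P.cons (P.lf 0 503634 0) (P.cons (P.lf 37423 0 0) P.nil)))))) (P.cons (P.cons (P.lf 0 13444301 0) (P.cons (P.lf 0 54849058 0) (P.cons (P.lf 0 2724189 0) (P.cons (P.lf 2076969 0 0) (P.cons (P.lf 256299 0 0) P.nil))))) (P.cons (P.cons (P.lf 54680231 0 0) (P.cons (P.lf 6625357 0 0) (P.cons (P.lf 140841 0 0) (P.cons (P.lf 0 225711 0) P.nil)))) (P.cons (P.cons (P.lf 14823555 0 0) (P.cons (P.lf 3388014 0 0) (P.cons (P.lf 30032 0 0) P.nil))) (P.cons (P.cons (P.lf 0 1388981 0) (P.cons (P.lf 0 574551 0) P.nil)) (P.cons (P.cons (P.lf 0 449775 0) P.nil) P.nil)))))) 1091700)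
 (EL.cons 1 (TM.mk (P.cons (P.cons (P.lf 0 432875 0) (P.cons (P.lf 0 3428088 0) (P.cons (P.lf 0 6557853 0) (P.cons (P.lf 983928 0 0) (P.cons (P.lf 272171 0 0) (P.cons (P.lf 0 20223 0) P.nil)))))) (P.cons (P.cons (P.lf 7357608 0 0) (P.cons (P.lf 30370595 0 0) (P.cons (P.lf 2867248 0 0) (P.cons (P.lf 0 1331739 0) (P.cons (P.lf 0 196406 0) P.nil))))) (P.cons (P.cons (P.lf 0 31106690 0) (P.cons (P.lf 0 9973123 0) (P.cons (P.lf 0 555856 0) (P.cons (P.lf 385743 0 0) P.nil)))) (P.cons (P.cons (P.lf 0 1538593 0) (P.cons (P.lf 0 303967 0) (P.cons (P.lf 61147 0 0) P.nil))) (P.cons (P.cons (P.lf 1677652 0 0) (P.cons (P.lf 499723 0 0) P.nil)) (P.cons (P.cons (P.lf 0 9065 0) P.nil) P.nil)))))) 626765)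
 (EL.cons 5 (TM.mk (P.cons (P.cons (P.lf 233932 0 0) (P.cons (P.lf 1852596 0 0) (P.cons (P.lf 3543972 0 0) (P.cons (P.lf 0 531730 0) (P.cons (P.lf 0 147086 0) (P.cons (P.lf 10928 0 0) P.nil)))))) (P.cons (P.cons (P.lf 0 4025936 0) (P.cons (P.lf 0 16806874 0) (P.cons (P.lf 0 2303416 0) (P.cons (P.lf 832808 0 0) (P.cons (P.lf 137432 0 0) P.nil))))) (P.cons (P.cons (P.lf 17662362 0 0) (P.cons (P.lf 8928182 0 0) (P.cons (P.lf 720034 0 0) (P.cons (P.lf 0 375068 0) P.nil)))) (P.cons (P.cons (P.lf 0 2846468 0) (P.cons (P.lf 0 1405858 0) (P.cons (P.lf 0 149162 0) P.nil))) (P.cons (P.cons (P.lf 0 641990 0) (P.cons (P.lf 0 107598 0) P.nil)) (P.cons (P.cons (P.lf 155810 0 0) P.nil) P.nil)))))) 377516)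
 EL.nil)))
noncomputable def S343_372_512_660_6 : EL := (EL.cons 12 (TM.mk (P.lf 8589934592 0 0) 0)
 (EL.cons 3 (TM.mk (P.cons (P.lf 2668545243 0 0) (P.cons (P.lf 256005836 0 0) (P.cons (P.lf 0 20956361 0) (P.cons (P.lf 125291 0 0) (P.cons (P.lf 64357 0 0) (P.cons (P.lf 0 3438 0) P.nil)))))) 378)
 (EL.cons 7 (TM.mk (P.cons (P.lf 0 1442125985 0) (P.cons (P.lf 168433589 0 0) (P.cons (P.lf 4127638 0 0) (P.cons (P.lf 0 758202 0) (P.cons (P.lf 21743 0 0) (P.cons (P.lf 1521 0 0) P.nil)))))) 224)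
 EL.nil)))
noncomputable def S343_372_512_660_7 : EL := (EL.cons 12 (TM.mk (P.cons (P.cons (P.lf 0 133505064 0) (P.cons (P.lf 0 528635584 0) (P.cons (P.lf 35343336 0 0) (P.lf 11781112 0 0)))) (P.cons (P.cons (P.lf 1133202426 0 0) (P.cons (P.lf 185226512 0 0) (P.cons (P.lf 0 12383808 0) (P.lf 0 4127928 0)))) (P.cons (P.cons (P.lf 34666550 0 0) (P.cons (P.lf 0 17094424 0) (P.cons (P.lf 1142888 0 0) (P.lf 380960 0 0)))) (P.cons (P.cons (P.lf 0 17692176 0) (P.cons (P.lf 0 1051864 0) (P.cons (P.lf 70320 0 0) P.nil))) (P.cons (P.cons (P.lf 493316 0 0) (P.cons (P.lf 267600 0 0) P.nil)) (P.cons (P.cons (P.lf 121982 0 0) P.nil) P.nil)))))) 105342)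
 (EL.cons 3 (TM.mk (P.cons (P.cons (P.lf 2972688212 0 0) (P.cons (P.lf 328451388 0 0) (P.cons (P.lf 0 21959488 0) (P.lf 0 7319828 0)))) (P.cons (P.cons (P.lf 321869816 0 0) (P.cons (P.lf 0 83574914 0) (P.cons (P.lf 5587620 0 0) (P.lf 1862534 0 0)))) (P.cons (P.cons (P.lf 0 124237477 0) (P.cons (P.lf 0 2998882 0) (P.cons (P.lf 200500 0 0) (P.lf 66834 0 0)))) (P.cons (P.cons (P.lf 6963082 0 0) (P.cons (P.lf 2591666 0 0) (P.cons (P.lf 0 173268 0) P.nil))) (P.cons (P.cons (P.lf 1517057 0 0) (P.cons (P.lf 0 184456 0) P.nil)) (P.cons (P.cons (P.lf 0 202656 0) P.nil) P.nil)))))) 341603)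
 (EL.cons 7 (TM.mk (P.cons (P.cons (P.lf 2005517849 0 0) (P.cons (P.lf 412896687 0 0) (P.cons (P.lf 0 27605314 0) (P.lf 0 9201770 0)))) (P.cons (P.cons (P.lf 211767383 0 0) (P.cons (P.lf 0 54986340 0) (P.cons (P.lf 3676259 0 0) (P.lf 1225421 0 0)))) (P.cons (P.cons (P.lf 0 59214771 0) (P.cons (P.lf 0 7821669 0) (P.cons (P.lf 522937 0 0) (P.lf 174313 0 0)))) (P.cons (P.cons (P.lf 0 5609516 0) (P.cons (P.lf 1061399 0 0) (P.cons (P.lf 0 70964 0) P.nil))) (P.cons (P.cons (P.lf 1047221 0 0) (P.cons (P.lf 97434 0 0) P.nil)) (P.cons (P.cons (P.lf 22478 0 0) P.nil) P.nil)))))) 222241)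
 (EL.cons 10 (TM.mk (P.cons (P.cons (P.lf 0 1347415092 0) (P.cons (P.lf 208613691 0 0) (P.cons (P.lf 100503498 0 0) (P.cons (P.lf 0 3803346 0) (P.lf 0 950835 0))))) (P.cons (P.cons (P.lf 314743596 0 0) (P.cons (P.lf 0 48730212 0) (P.cons (P.lf 0 23476677 0) (P.cons (P.lf 888426 0 0) (P.lf 222105 0 0))))) (P.cons (P.cons (P.lf 0 10667175 0) (P.cons (P.lf 1651545 0 0) (P.cons (P.lf 795663 0 0) (P.cons (P.lf 0 30108 0) P.nil)))) (P.cons (P.cons (P.lf 0 2317668 0) (P.cons (P.lf 358833 0 0) (P.cons (P.lf 172872 0 0) P.nil))) (P.cons (P.cons (P.lf 195066 0 0) (P.cons (P.lf 0 30201 0) P.nil)) (P.cons (P.cons (P.lf 2148 0 0) P.nil) P.nil)))))) 33198)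
 EL.nil))))
noncomputable def S343_372_512_660_8 : EL := (EL.cons 12 (TM.mk (P.cons (P.cons (P.lf 2074940 0 0) (P.cons (P.lf 16432144 0 0) (P.cons (P.lf 31434296 0 0) (P.cons (P.lf 0 4716352 0) (P.cons (P.lf 0 1304628 0) (P.cons (P.lf 96946 0 0) P.nil)))))) (P.cons (P.cons (P.lf 0 35224542 0) (P.cons (P.lf 0 145235052 0) (P.cons (P.lf 0 13088078 0) (P.cons (P.lf 6285152 0 0) (P.cons (P.lf 914246 0 0) P.nil))))) (P.cons (P.cons (P.lf 148416894 0 0) (P.cons (P.lf 45135466 0 0) (P.cons (P.lf 3080450 0 0) (P.cons (P.lf 0 1821290 0) P.nil)))) (P.cons (P.cons (P.lf 9696514 0 0) (P.cons (P.lf 0 804926 0) (P.cons (P.lf 0 553940 0) P.nil))) (P.cons (P.cons (P.lf 0 4543408 0) (P.cons (P.lf 0 1247540 0) P.nil)) (P.cons (P.cons (P.lf 0 16434 0) P.nil) P.nil)))))) 1348844)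
 (EL.cons 3 (TM.mk (P.cons (P.cons (P.lf 0 93047849 0) (P.cons (P.lf 0 381200495 0) (P.cons (P.lf 0 25047123 0) (P.cons (P.lf 15252465 0 0) (P.cons (P.lf 2026476 0 0) (P.cons (P.lf 0 150585 0) P.nil)))))) (P.cons (P.cons (P.lf 785202666 0 0) (P.cons (P.lf 222471589 0 0) (P.cons (P.lf 15690501 0 0) (P.cons (P.lf 0 9044900 0) (P.cons (P.lf 0 1225686 0) P.nil))))) (P.cons (P.cons (P.lf 67726896 0 0) (P.cons (P.lf 0 11618758 0) (P.cons (P.lf 0 4901256 0) (P.cons (P.lf 1018171 0 0) P.nil)))) (P.cons (P.cons (P.lf 0 50164720 0) (P.cons (P.lf 0 12573081 0) (P.cons (P.lf 595447 0 0) P.nil))) (P.cons (P.cons (P.lf 1287857 0 0) (P.cons (P.lf 2285410 0 0) P.nil)) (P.cons (P.cons (P.lf 1258202 0 0) P.nil) P.nil)))))) 3260850)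
 (EL.cons 7 (TM.mk (P.cons (P.cons (P.lf 0 61991302 0) (P.cons (P.lf 0 256920063 0) (P.cons (P.lf 0 28181500 0) (P.cons (P.lf 11790827 0 0) (P.cons (P.lf 1818958 0 0) (P.cons (P.lf 0 135165 0) P.nil)))))) (P.cons (P.cons (P.lf 516607381 0 0) (P.cons (P.lf 146370445 0 0) (P.cons (P.lf 10323228 0 0) (P.cons (P.lf 0 5950899 0) (P.cons (P.lf 0 806412 0) P.nil))))) (P.cons (P.cons (P.lf 99508396 0 0) (P.cons (P.lf 7924366 0 0) (P.cons (P.lf 0 2126644 0) (P.cons (P.lf 36922 0 0) P.nil)))) (P.cons (P.cons (P.lf 0 23266311 0) (P.cons (P.lf 0 8387580 0) (P.cons (P.lf 2767 0 0) P.nil))) (P.cons (P.cons (P.lf 0 3659853 0) (P.cons (P.lf 197562 0 0) P.nil)) (P.cons (P.cons (P.lf 650390 0 0) P.nil) P.nil)))))) 1933619)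
 (EL.cons 10 (TM.mk (P.cons (P.cons (P.lf 41883144 0 0) (P.cons (P.lf 159358740 0 0) (P.cons (P.lf 0 39888660 0) (P.cons (P.lf 0 14231280 0) (P.cons (P.lf 1896954 0 0) (P.cons (P.lf 361410 0 0) P.nil)))))) (P.cons (P.cons (P.lf 0 365291232 0) (P.cons (P.lf 0 40292364 0) (P.cons (P.lf 48716688 0 0) (P.cons (P.lf 7348668 0 0) (P.cons (P.lf 0 1348290 0) P.nil))))) (P.cons (P.cons (P.lf 72499290 0 0) (P.cons (P.lf 9024846 0 0) (P.cons (P.lf 0 9896682 0) (P.cons (P.lf 0 1547436 0) P.nil)))) (P.cons (P.cons (P.lf 5348382 0 0) (P.cons (P.lf 0 1925556 0) (P.cons (P.lf 0 155634 0) P.nil))) (P.cons (P.cons (P.lf 0 2154942 0) (P.cons (P.lf 91098 0 0) P.nil)) (P.cons (P.cons (P.lf 74514 0 0) P.nil) P.nil)))))) 1389534)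
 EL.nil))))
noncomputable def S343_372_512_660_9 : EL := (EL.cons 3 (TM.mk (P.cons (P.lf 2668545243 0 0) (P.cons (P.lf 256005836 0 0) (P.cons (P.lf 0 20956361 0) (P.cons (P.lf 125291 0 0) (P.cons (P.lf 64357 0 0) (P.cons (P.lf 0 3438 0) P.nil)))))) 378)
 (EL.cons 7 (TM.mk (P.cons (P.lf 0 1442125985 0) (P.cons (P.lf 168433589 0 0) (P.cons (P.lf 4127638 0 0) (P.cons (P.lf 0 758202 0) (P.cons (P.lf 21743 0 0) (P.cons (P.lf 1521 0 0) P.nil)))))) 224)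
 EL.nil))
noncomputable def S343_372_512_660_10 : EL := (EL.cons 3 (TM.mk (P.cons (P.cons (P.lf 0 41474623 0) (P.cons (P.lf 0 164225694 0) (P.cons (P.lf 10979744 0 0) (P.lf 3659914 0 0)))) (P.cons (P.cons (P.lf 348061307 0 0) (P.cons (P.lf 41787457 0 0) (P.cons (P.lf 0 2793810 0) (P.lf 0 931267 0)))) (P.cons (P.cons (P.lf 44868032 0 0) (P.cons (P.lf 1499441 0 0) (P.cons (P.lf 0 100250 0) (P.lf 0 33417 0)))) (P.cons (P.cons (P.lf 0 7229630 0) (P.cons (P.lf 0 1295833 0) (P.cons (P.lf 86634 0 0) P.nil))) (P.cons (P.cons (P.lf 0 443071 0) (P.cons (P.lf 92228 0 0) P.nil)) (P.cons (P.cons (P.lf 104808 0 0) P.nil) P.nil)))))) 84169)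
 (EL.cons 7 (TM.mk (P.cons (P.cons (P.lf 22413572 0 0) (P.cons (P.lf 88750281 0 0) (P.cons (P.lf 0 5933635 0) (P.lf 0 1977878 0)))) (P.cons (P.cons (P.lf 0 192866125 0) (P.cons (P.lf 0 41462475 0) (P.cons (P.lf 2772083 0 0) (P.lf 924026 0 0)))) (P.cons (P.cons (P.lf 16335951 0 0) (P.cons (P.lf 6247854 0 0) (P.cons (P.lf 0 417716 0) (P.lf 0 139238 0)))) (P.cons (P.cons (P.lf 4206322 0 0) (P.cons (P.lf 0 22933 0) (P.cons (P.lf 1534 0 0) P.nil))) (P.cons (P.cons (P.lf 0 513436 0) (P.cons (P.lf 0 91452 0) P.nil)) (P.cons (P.cons (P.lf 0 19522 0) P.nil) P.nil)))))) 47097)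
 EL.nil))
noncomputable def S343_372_512_660_11 : EL := (EL.cons 3 (TM.mk (P.cons (P.cons (P.lf 644599 0 0) (P.cons (P.lf 5104801 0 0) (P.cons (P.lf 9765363 0 0) (P.cons (P.lf 0 1465179 0) (P.cons (P.lf 0 405294 0) (P.cons (P.lf 30117 0 0) P.nil)))))) (P.cons (P.cons (P.lf 0 10881000 0) (P.cons (P.lf 0 44628929 0) (P.cons (P.lf 0 3129099 0) (P.cons (P.lf 1811980 0 0) (P.cons (P.lf 245136 0 0) P.nil))))) (P.cons (P.cons (P.lf 45052266 0 0) (P.cons (P.lf 9653234 0 0) (P.cons (P.lf 490218 0 0) (P.cons (P.lf 0 366977 0) P.nil)))) (P.cons (P.cons (P.lf 7521548 0 0) (P.cons (P.lf 1449675 0 0) (P.cons (P.lf 0 47891 0) P.nil))) (P.cons (P.cons (P.lf 0 1485049 0) (P.cons (P.lf 0 523658 0) P.nil)) (P.cons (P.cons (P.lf 0 162268 0) P.nil) P.nil)))))) 656318)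
 (EL.cons 7 (TM.mk (P.cons (P.cons (P.lf 0 348352 0) (P.cons (P.lf 0 2758719 0) (P.cons (P.lf 0 5277364 0) (P.cons (P.lf 791807 0 0) (P.cons (P.lf 219028 0 0) (P.cons (P.lf 0 16275 0) P.nil)))))) (P.cons (P.cons (P.lf 5954377 0 0) (P.cons (P.lf 24705073 0 0) (P.cons (P.lf 2813670 0 0) (P.cons (P.lf 0 1147665 0) (P.cons (P.lf 0 179070 0) P.nil))))) (P.cons (P.cons (P.lf 0 25606748 0) (P.cons (P.lf 0 10417502 0) (P.cons (P.lf 0 758692 0) (P.cons (P.lf 426742 0 0) P.nil)))) (P.cons (P.cons (P.lf 1265181 0 0) (P.cons (P.lf 948924 0 0) (P.cons (P.lf 144337 0 0) P.nil))) (P.cons (P.cons (P.lf 1027335 0 0) (P.cons (P.lf 228210 0 0) P.nil)) (P.cons (P.cons (P.lf 0 94858 0) P.nil) P.nil)))))) 364201)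
 EL.nil))
noncomputable def S343_372_512_660_12 : EL := (EL.cons 4 (TM.mk (P.cons (P.lf 0 2668545243 0) (P.cons (P.lf 0 256005836 0) (P.cons (P.lf 20956361 0 0) (P.cons (P.lf 0 125291 0) (P.cons (P.lf 0 64357 0) (P.cons (P.lf 3438 0 0) P.nil)))))) 378)
 (EL.cons 8 (TM.mk (P.cons (P.lf 1442125985 0 0) (P.cons (P.lf 0 168433589 0) (P.cons (P.lf 0 4127638 0) (P.cons (P.lf 758202 0 0) (P.cons (P.lf 0 21743 0) (P.cons (P.lf 0 1521 0) P.nil)))))) 224)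
 EL.nil))
noncomputable def S343_372_512_660_13 : EL := (EL.cons 4 (TM.mk (P.cons (P.cons (P.lf 41474623 0 0) (P.cons (P.lf 164225694 0 0) (P.cons (P.lf 0 10979744 0) (P.lf 0 3659914 0)))) (P.cons (P.cons (P.lf 0 348061307 0) (P.cons (P.lf 0 41787457 0) (P.cons (P.lf 2793810 0 0) (P.lf 931267 0 0)))) (P.cons (P.cons (P.lf 0 44868032 0) (P.cons (P.lf 0 1499441 0) (P.cons (P.lf 100250 0 0) (P.lf 33417 0 0)))) (P.cons (P.cons (P.lf 7229630 0 0) (P.cons (P.lf 1295833 0 0) (P.cons (P.lf 0 86634 0) P.nil))) (P.cons (P.cons (P.lf 443071 0 0) (P.cons (P.lf 0 92228 0) P.nil)) (P.cons (P.cons (P.lf 0 104808 0) P.nil) P.nil)))))) 84169)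
 (EL.cons 8 (TM.mk (P.cons (P.cons (P.lf 0 22413572 0) (P.cons (P.lf 0 88750281 0) (P.cons (P.lf 5933635 0 0) (P.lf 1977878 0 0)))) (P.cons (P.cons (P.lf 192866125 0 0) (P.cons (P.lf 41462475 0 0) (P.cons (P.lf 0 2772083 0) (P.lf 0 924026 0)))) (P.cons (P.cons (P.lf 0 16335951 0) (P.cons (P.lf 0 6247854 0) (P.cons (P.lf 417716 0 0) (P.lf 139238 0 0)))) (P.cons (P.cons (P.lf 0 4206322 0) (P.cons (P.lf 22933 0 0) (P.cons (P.lf 0 1534 0) P.nil))) (P.cons (P.cons (P.lf 513436 0 0) (P.cons (P.lf 91452 0 0) P.nil)) (P.cons (P.cons (P.lf 19522 0 0) P.nil) P.nil)))))) 47097)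
 EL.nil))
noncomputable def S343_372_512_660_14 : EL := (EL.cons 4 (TM.mk (P.cons (P.cons (P.lf 0 644599 0) (P.cons (P.lf 0 5104801 0) (P.cons (P.lf 0 9765363 0) (P.cons (P.lf 1465179 0 0) (P.cons (P.lf 405294 0 0) (P.cons (P.lf 0 30117 0) P.nil)))))) (P.cons (P.cons (P.lf 10881000 0 0) (P.cons (P.lf 44628929 0 0) (P.cons (P.lf 3129099 0 0) (P.cons (P.lf 0 1811980 0) (P.cons (P.lf 0 245136 0) P.nil))))) (P.cons (P.cons (P.lf 0 45052266 0) (P.cons (P.lf 0 9653234 0) (P.cons (P.lf 0 490218 0) (P.cons (P.lf 366977 0 0) P.nil)))) (P.cons (P.cons (P.lf 0 7521548 0) (P.cons (P.lf 0 1449675 0) (P.cons (P.lf 47891 0 0) P.nil))) (P.cons (P.cons (P.lf 1485049 0 0) (P.cons (P.lf 523658 0 0) P.nil)) (P.cons (P.cons (P.lf 162268 0 0) P.nil) P.nil)))))) 656318)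
 (EL.cons 8 (TM.mk (P.cons (P.cons (P.lf 348352 0 0) (P.cons (P.lf 2758719 0 0) (P.cons (P.lf 5277364 0 0) (P.cons (P.lf 0 791807 0) (P.cons (P.lf 0 219028 0) (P.cons (P.lf 16275 0 0) P.nil)))))) (P.cons (P.cons (P.lf 0 5954377 0) (P.cons (P.lf 0 24705073 0) (P.cons (P.lf 0 2813670 0) (P.cons (P.lf 1147665 0 0) (P.cons (P.lf 179070 0 0) P.nil))))) (P.cons (P.cons (P.lf 25606748 0 0) (P.cons (P.lf 10417502 0 0) (P.cons (P.lf 758692 0 0) (P.cons (P.lf 0 426742 0) P.nil)))) (P.cons (P.cons (P.lf 0 1265181 0) (P.cons (P.lf 0 948924 0) (P.cons (P.lf 0 144337 0) P.nil))) (P.cons (P.cons (P.lf 0 1027335 0) (P.cons (P.lf 0 228210 0) P.nil)) (P.cons (P.cons (P.lf 94858 0 0) P.nil) P.nil)))))) 364201)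
 EL.nil))
noncomputable def S343_372_512_660_15 : EL := (EL.cons 4 (TM.mk (P.cons (P.lf 0 1768552689 0) (P.cons (P.lf 0 339330810 0) (P.cons (P.lf 11500469 0 0) (P.cons (P.lf 2498728 0 0) (P.cons (P.lf 0 210304 0) (P.cons (P.lf 0 2321 0) P.nil)))))) 1708)
 (EL.cons 8 (TM.mk (P.cons (P.lf 955755124 0 0) (P.cons (P.lf 0 19937749 0) (P.cons (P.lf 0 20950159 0) (P.cons (P.lf 1161554 0 0) (P.cons (P.lf 73087 0 0) (P.cons (P.lf 0 10388 0) P.nil)))))) 788)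
 EL.nil))
noncomputable def S343_372_512_660_16 : EL := (EL.cons 4 (TM.mk (P.cons (P.cons (P.lf 27486907 0 0) (P.cons (P.lf 108838998 0 0) (P.cons (P.lf 0 7276720 0) (P.lf 0 2425573 0)))) (P.cons (P.cons (P.lf 0 228037337 0) (P.cons (P.lf 0 17252808 0) (P.cons (P.lf 1153481 0 0) (P.lf 384492 0 0)))) (P.cons (P.cons (P.lf 0 52081361 0) (P.cons (P.lf 0 4505299 0) (P.cons (P.lf 301214 0 0) (P.lf 100404 0 0)))) (P.cons (P.cons (P.lf 3751470 0 0) (P.cons (P.lf 986062 0 0) (P.cons (P.lf 0 65924 0) P.nil))) (P.cons (P.cons (P.lf 976650 0 0) (P.cons (P.lf 30392 0 0) P.nil)) (P.cons (P.cons (P.lf 0 85912 0) P.nil) P.nil)))))) 97739)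
 (EL.cons 8 (TM.mk (P.cons (P.cons (P.lf 0 14854379 0) (P.cons (P.lf 0 58818395 0) (P.cons (P.lf 3932459 0 0) (P.lf 1310819 0 0)))) (P.cons (P.cons (P.lf 126395120 0 0) (P.cons (P.lf 21836137 0 0) (P.cons (P.lf 0 1459912 0) (P.lf 0 486636 0)))) (P.cons (P.cons (P.lf 1552535 0 0) (P.cons (P.lf 0 1042625 0) (P.cons (P.lf 69706 0 0) (P.lf 23235 0 0)))) (P.cons (P.cons (P.lf 0 4830817 0) (P.cons (P.lf 0 600593 0) (P.cons (P.lf 40153 0 0) P.nil))) (P.cons (P.cons (P.lf 163503 0 0) (P.cons (P.lf 94456 0 0) P.nil)) (P.cons (P.cons (P.lf 70068 0 0) P.nil) P.nil)))))) 54550)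
 EL.nil))
noncomputable def S343_372_512_660_17 : EL := (EL.cons 4 (TM.mk (P.cons (P.cons (P.lf 0 427201 0) (P.cons (P.lf 0 3383158 0) (P.cons (P.lf 0 6471900 0) (P.cons (P.lf 971033 0 0) (P.cons (P.lf 268605 0 0) (P.cons (P.lf 0 19959 0) P.nil)))))) (P.cons (P.cons (P.lf 7170294 0 0) (P.cons (P.lf 29252831 0 0) (P.cons (P.lf 1452900 0 0) (P.cons (P.lf 0 1107717 0) (P.cons (P.lf 0 136693 0) P.nil))))) (P.cons (P.cons (P.lf 0 29162790 0) (P.cons (P.lf 0 3533523 0) (P.cons (P.lf 0 75115 0) (P.cons (P.lf 120379 0 0) P.nil)))) (P.cons (P.cons (P.lf 0 7905896 0) (P.cons (P.lf 0 1806941 0) (P.cons (P.lf 0 16017 0) P.nil))) (P.cons (P.cons (P.lf 740790 0 0) (P.cons (P.lf 306427 0 0) P.nil)) (P.cons (P.cons (P.lf 239880 0 0) P.nil) P.nil)))))) 582250)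
 (EL.cons 8 (TM.mk (P.cons (P.cons (P.lf 230867 0 0) (P.cons (P.lf 1828314 0 0) (P.cons (P.lf 3497522 0 0) (P.cons (P.lf 0 524762 0) (P.cons (P.lf 0 145158 0) (P.cons (P.lf 10786 0 0) P.nil)))))) (P.cons (P.cons (P.lf 0 3924058 0) (P.cons (P.lf 0 16197651 0) (P.cons (P.lf 0 1529199 0) (P.cons (P.lf 710261 0 0) (P.cons (P.lf 104750 0 0) P.nil))))) (P.cons (P.cons (P.lf 16590235 0 0) (P.cons (P.lf 5318999 0 0) (P.cons (P.lf 296457 0 0) (P.cons (P.lf 0 205730 0) P.nil)))) (P.cons (P.cons (P.lf 820583 0 0) (P.cons (P.lf 162116 0 0) (P.cons (P.lf 0 32612 0) P.nil))) (P.cons (P.cons (P.lf 0 894748 0) (P.cons (P.lf 0 266519 0) P.nil)) (P.cons (P.cons (P.lf 4835 0 0) P.nil) P.nil)))))) 334263)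
 EL.nil))
noncomputable def S343_372_512_660_18 : EL := (EL.cons 4 (TM.mk (P.cons (P.lf 0 1172091282 0) (P.cons (P.lf 0 337332345 0) (P.cons (P.lf 0 4748184 0) (P.cons (P.lf 4098243 0 0) (P.cons (P.lf 0 79189 0) (P.cons (P.lf 0 31469 0) P.nil)))))) 3321)
 (EL.cons 8 (TM.mk (P.cons (P.lf 633417514 0 0) (P.cons (P.lf 47553107 0 0) (P.cons (P.lf 0 20126446 0) (P.cons (P.lf 0 428689 0) (P.cons (P.lf 245981 0 0) (P.cons (P.lf 0 10070 0) P.nil)))))) 1843)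
 EL.nil))
noncomputable def S343_372_512_660_19 : EL := (EL.cons 4 (TM.mk (P.cons (P.cons (P.lf 18216683 0 0) (P.cons (P.lf 72131999 0 0) (P.cons (P.lf 0 4822575 0) (P.lf 0 1607524 0)))) (P.cons (P.cons (P.lf 0 149381940 0) (P.cons (P.lf 0 4514177 0) (P.cons (P.lf 301806 0 0) (P.lf 100601 0 0)))) (P.cons (P.cons (P.lf 0 49158031 0) (P.cons (P.lf 0 4649233 0) (P.cons (P.lf 310836 0 0) (P.lf 103612 0 0)))) (P.cons (P.cons (P.lf 362622 0 0) (P.cons (P.lf 460237 0 0) (P.cons (P.lf 0 30768 0) P.nil))) (P.cons (P.cons (P.lf 1150187 0 0) (P.cons (P.lf 107487 0 0) P.nil)) (P.cons (P.cons (P.lf 0 19655 0) P.nil) P.nil)))))) 98740)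
 (EL.cons 8 (TM.mk (P.cons (P.cons (P.lf 0 9844597 0) (P.cons (P.lf 0 38981325 0) (P.cons (P.lf 2606200 0 0) (P.lf 868733 0 0)))) (P.cons (P.cons (P.lf 82822712 0 0) (P.cons (P.lf 10732031 0 0) (P.cons (P.lf 0 717518 0) (P.lf 0 239172 0)))) (P.cons (P.cons (P.lf 9142407 0 0) (P.cons (P.lf 1003470 0 0) (P.cons (P.lf 0 67089 0) (P.lf 0 22363 0)))) (P.cons (P.cons (P.lf 0 3761162 0) (P.cons (P.lf 0 579805 0) (P.cons (P.lf 38763 0 0) P.nil))) (P.cons (P.cons (P.lf 0 203166 0) (P.cons (P.lf 29580 0 0) P.nil)) (P.cons (P.cons (P.lf 84055 0 0) P.nil) P.nil)))))) 57513)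
 EL.nil))
noncomputable def S343_372_512_660_20 : EL := (EL.cons 4 (TM.mk (P.cons (P.cons (P.lf 0 283124 0) (P.cons (P.lf 0 2242155 0) (P.cons (P.lf 0 4289190 0) (P.cons (P.lf 643543 0 0) (P.cons (P.lf 178015 0 0) (P.cons (P.lf 0 13228 0) P.nil)))))) (P.cons (P.cons (P.lf 4724881 0 0) (P.cons (P.lf 19171932 0 0) (P.cons (P.lf 551414 0 0) (P.cons (P.lf 0 672390 0) (P.cons (P.lf 0 73514 0) P.nil))))) (P.cons (P.cons (P.lf 0 18869249 0) (P.cons (P.lf 0 464313 0) (P.cons (P.lf 76275 0 0) (P.cons (P.lf 4298 0 0) P.nil)))) (P.cons (P.cons (P.lf 0 7131050 0) (P.cons (P.lf 0 1574547 0) (P.cons (P.lf 0 23154 0) P.nil))) (P.cons (P.cons (P.lf 140292 0 0) (P.cons (P.lf 107443 0 0) P.nil)) (P.cons (P.cons (P.lf 246431 0 0) P.nil) P.nil)))))) 482794)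
 (EL.cons 8 (TM.mk (P.cons (P.cons (P.lf 153004 0 0) (P.cons (P.lf 1211697 0 0) (P.cons (P.lf 2317949 0 0) (P.cons (P.lf 0 347781 0) (P.cons (P.lf 0 96202 0) (P.cons (P.lf 7148 0 0) P.nil)))))) (P.cons (P.cons (P.lf 0 2585953 0) (P.cons (P.lf 0 10618593 0) (P.cons (P.lf 0 791090 0) (P.cons (P.lf 437354 0 0) (P.cons (P.lf 60193 0 0) P.nil))))) (P.cons (P.cons (P.lf 10744326 0 0) (P.cons (P.lf 2485757 0 0) (P.cons (P.lf 81044 0 0) (P.cons (P.lf 0 88456 0) P.nil)))) (P.cons (P.cons (P.lf 1619067 0 0) (P.cons (P.lf 529980 0 0) (P.cons (P.lf 5302 0 0) P.nil))) (P.cons (P.cons (P.lf 0 627276 0) (P.cons (P.lf 0 194483 0) P.nil)) (P.cons (P.cons (P.lf 0 57500 0) P.nil) P.nil)))))) 277700)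
 EL.nil))
noncomputable def S343_372_512_660_21 : EL := (EL.cons 4 (TM.mk (P.cons (P.cons (P.lf 0 3014162835 0) (P.cons (P.lf 0 492677082 0) (P.cons (P.lf 32939232 0 0) (P.lf 10979742 0 0)))) (P.cons (P.cons (P.lf 26191491 0 0) (P.cons (P.lf 125362371 0 0) (P.cons (P.lf 0 8381430 0) (P.lf 0 2793801 0)))) (P.cons (P.cons (P.lf 169105509 0 0) (P.cons (P.lf 4498323 0 0) (P.cons (P.lf 0 300750 0) (P.lf 0 100251 0)))) (P.cons (P.cons (P.lf 0 14192712 0) (P.cons (P.lf 0 3887499 0) (P.cons (P.lf 259902 0 0) P.nil))) (P.cons (P.cons (P.lf 0 1960128 0) (P.cons (P.lf 276684 0 0) P.nil)) (P.cons (P.cons (P.lf 307464 0 0) P.nil) P.nil)))))) 257415)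
 (EL.cons 8 (TM.mk (P.cons (P.cons (P.lf 0 1983104277 0) (P.cons (P.lf 0 324146406 0) (P.cons (P.lf 21671679 0 0) (P.lf 7223892 0 0)))) (P.cons (P.cons (P.lf 0 404633508 0) (P.cons (P.lf 13523865 0 0) (P.cons (P.lf 0 904176 0) (P.lf 0 301395 0)))) (P.cons (P.cons (P.lf 75550722 0 0) (P.cons (P.lf 14069523 0 0) (P.cons (P.lf 0 940653 0) (P.lf 0 313551 0)))) (P.cons (P.cons (P.lf 9815838 0 0) (P.cons (P.lf 0 1084332 0) (P.cons (P.lf 72498 0 0) P.nil))) (P.cons (P.cons (P.lf 0 1560657 0) (P.cons (P.lf 0 188886 0) P.nil)) (P.cons (P.cons (P.lf 0 42000 0) P.nil) P.nil)))))) 175125)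
 (EL.cons 11 (TM.mk (P.cons (P.cons (P.lf 1347415092 0 0) (P.cons (P.lf 0 208613691 0) (P.cons (P.lf 0 100503498 0) (P.cons (P.lf 3803346 0 0) (P.lf 950835 0 0))))) (P.cons (P.cons (P.lf 0 314743596 0) (P.cons (P.lf 48730212 0 0) (P.cons (P.lf 23476677 0 0) (P.cons (P.lf 0 888426 0) (P.lf 0 222105 0))))) (P.cons (P.cons (P.lf 10667175 0 0) (P.cons (P.lf 0 1651545 0) (P.cons (P.lf 0 795663 0) (P.cons (P.lf 30108 0 0) P.nil)))) (P.cons (P.cons (P.lf 2317668 0 0) (P.cons (P.lf 0 358833 0) (P.cons (P.lf 0 172872 0) P.nil))) (P.cons (P.cons (P.lf 0 195066 0) (P.cons (P.lf 30201 0 0) P.nil)) (P.cons (P.cons (P.lf 0 2148 0) P.nil) P.nil)))))) 33198)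
 EL.nil)))
noncomputable def S343_372_512_660_22 : EL := (EL.cons 4 (TM.mk (P.cons (P.cons (P.lf 46846224 0 0) (P.cons (P.lf 193152648 0 0) (P.cons (P.lf 17406243 0 0) (P.cons (P.lf 0 8358822 0) (P.cons (P.lf 0 1215885 0) (P.cons (P.lf 90351 0 0) P.nil)))))) (P.cons (P.cons (P.lf 0 398041833 0) (P.cons (P.lf 0 133550259 0) (P.cons (P.lf 0 9409800 0) (P.cons (P.lf 5428440 0 0) (P.cons (P.lf 735411 0 0) P.nil))))) (P.cons (P.cons (P.lf 0 11337315 0) (P.cons (P.lf 10635996 0 0) (P.cons (P.lf 2695737 0 0) (P.cons (P.lf 0 692574 0) P.nil)))) (P.cons (P.cons (P.lf 28843134 0 0) (P.cons (P.lf 7011378 0 0) (P.cons (P.lf 0 321669 0) P.nil))) (P.cons (P.cons (P.lf 0 1386453 0) (P.cons (P.lf 0 1404534 0) P.nil)) (P.cons (P.cons (P.lf 0 710235 0) P.nil) P.nil)))))) 1302255)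
 (EL.cons 8 (TM.mk (P.cons (P.cons (P.lf 30821475 0 0) (P.cons (P.lf 127080672 0 0) (P.cons (P.lf 11452068 0 0) (P.cons (P.lf 0 5499510 0) (P.cons (P.lf 0 799965 0) (P.cons (P.lf 59445 0 0) P.nil)))))) (P.cons (P.cons (P.lf 0 255326502 0) (P.cons (P.lf 0 60832686 0) (P.cons (P.lf 0 3754779 0) (P.cons (P.lf 2401617 0 0) (P.cons (P.lf 313671 0 0) P.nil))))) (P.cons (P.cons (P.lf 0 62557572 0) (P.cons (P.lf 0 9170934 0) (P.cons (P.lf 683976 0 0) (P.cons (P.lf 194910 0 0) P.nil)))) (P.cons (P.cons (P.lf 12265746 0 0) (P.cons (P.lf 4668252 0 0) (P.cons (P.lf 70785 0 0) P.nil))) (P.cons (P.cons (P.lf 2343594 0 0) (P.cons (P.lf 15324 0 0) P.nil)) (P.cons (P.cons (P.lf 0 372624 0) P.nil) P.nil)))))) 784698)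
 (EL.cons 11 (TM.mk (P.cons (P.cons (P.lf 0 20941572 0) (P.cons (P.lf 0 79679370 0) (P.cons (P.lf 19944330 0 0) (P.cons (P.lf 7115640 0 0) (P.cons (P.lf 0 948477 0) (P.cons (P.lf 0 180705 0) P.nil)))))) (P.cons (P.cons (P.lf 182645616 0 0) (P.cons (P.lf 20146182 0 0) (P.cons (P.lf 0 24358344 0) (P.cons (P.lf 0 3674334 0) (P.cons (P.lf 674145 0 0) P.nil))))) (P.cons (P.cons (P.lf 0 36249645 0) (P.cons (P.lf 0 4512423 0) (P.cons (P.lf 4948341 0 0) (P.cons (P.lf 773718 0 0) P.nil)))) (P.cons (P.cons (P.lf 0 2674191 0) (P.cons (P.lf 962778 0 0) (P.cons (P.lf 77817 0 0) P.nil))) (P.cons (P.cons (P.lf 1077471 0 0) (P.cons (P.lf 0 45549 0) P.nil)) (P.cons (P.cons (P.lf 0 37257 0) P.nil) P.nil)))))) 694767)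
 EL.nil)))
noncomputable def S343_372_512_660_23 : EL := (EL.cons 4 (TM.mk (P.cons (P.cons (P.lf 0 1997607423 0) (P.cons (P.lf 0 326516994 0) (P.cons (P.lf 21830157 0 0) (P.lf 7276716 0 0)))) (P.cons (P.cons (P.lf 0 174281520 0) (P.cons (P.lf 51758424 0 0) (P.cons (P.lf 0 3460443 0) (P.lf 0 1153473 0)))) (P.cons (P.cons (P.lf 129425712 0 0) (P.cons (P.lf 13515897 0 0) (P.cons (P.lf 0 903642 0) (P.lf 0 301212 0)))) (P.cons (P.cons (P.lf 1115493 0 0) (P.cons (P.lf 0 2958186 0) (P.cons (P.lf 197772 0 0) P.nil))) (P.cons (P.cons (P.lf 0 3128907 0) (P.cons (P.lf 0 91182 0) P.nil)) (P.cons (P.cons (P.lf 161265 0 0) P.nil) P.nil)))))) 308481)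
 (EL.cons 8 (TM.mk (P.cons (P.cons (P.lf 0 1314283281 0) (P.cons (P.lf 0 214824912 0) (P.cons (P.lf 14362695 0 0) (P.lf 4787562 0 0)))) (P.cons (P.cons (P.lf 0 394252212 0) (P.cons (P.lf 0 11646330 0) (P.cons (P.lf 778644 0 0) (P.lf 259545 0 0)))) (P.cons (P.cons (P.lf 34665222 0 0) (P.cons (P.lf 11871327 0 0) (P.cons (P.lf 0 793686 0) (P.lf 0 264561 0)))) (P.cons (P.cons (P.lf 13353081 0 0) (P.cons (P.lf 95433 0 0) (P.cons (P.lf 0 6378 0) P.nil))) (P.cons (P.cons (P.lf 0 847716 0) (P.cons (P.lf 0 272109 0) P.nil)) (P.cons (P.cons (P.lf 0 180570 0) P.nil) P.nil)))))) 195339)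
 (EL.cons 11 (TM.mk (P.cons (P.cons (P.lf 892986390 0 0) (P.cons (P.lf 0 138256716 0) (P.cons (P.lf 0 66607725 0) (P.cons (P.lf 2520630 0 0) (P.lf 630156 0 0))))) (P.cons (P.cons (P.lf 0 122924991 0) (P.cons (P.lf 19031874 0 0) (P.cons (P.lf 9168954 0 0) (P.cons (P.lf 0 346980 0) (P.lf 0 86742 0))))) (P.cons (P.cons (P.lf 0 19954461 0) (P.cons (P.lf 3089451 0 0) (P.cons (P.lf 1488399 0 0) (P.cons (P.lf 0 56325 0) P.nil)))) (P.cons (P.cons (P.lf 3894258 0 0) (P.cons (P.lf 0 602928 0) (P.cons (P.lf 0 290469 0) P.nil))) (P.cons (P.cons (P.lf 0 25695 0) (P.cons (P.lf 3978 0 0) P.nil)) (P.cons (P.cons (P.lf 0 31737 0) P.nil) P.nil)))))) 77412)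
 EL.nil)))
noncomputable def S343_372_512_660_24 : EL := (EL.cons 4 (TM.mk (P.cons (P.cons (P.lf 31046883 0 0) (P.cons (P.lf 128010057 0 0) (P.cons (P.lf 11535822 0 0) (P.cons (P.lf 0 5539728 0) (P.cons (P.lf 0 805815 0) (P.cons (P.lf 59880 0 0) P.nil)))))) (P.cons (P.cons (P.lf 0 260819925 0) (P.cons (P.lf 0 76228554 0) (P.cons (P.lf 0 5129571 0) (P.cons (P.lf 3066192 0 0) (P.cons (P.lf 410079 0 0) P.nil))))) (P.cons (P.cons (P.lf 0 33064905 0) (P.cons (P.lf 0 2447460 0) (P.cons (P.lf 1097709 0 0) (P.cons (P.lf 0 70353 0) P.nil)))) (P.cons (P.cons (P.lf 20467779 0 0) (P.cons (P.lf 6024036 0 0) (P.cons (P.lf 7725 0 0) P.nil))) (P.cons (P.cons (P.lf 962349 0 0) (P.cons (P.lf 0 541482 0) P.nil)) (P.cons (P.cons (P.lf 0 715722 0) P.nil) P.nil)))))) 993864)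
 (EL.cons 8 (TM.mk (P.cons (P.cons (P.lf 20426634 0 0) (P.cons (P.lf 84221493 0 0) (P.cons (P.lf 7589748 0 0) (P.cons (P.lf 0 3644745 0) (P.cons (P.lf 0 530169 0) (P.cons (P.lf 39396 0 0) P.nil)))))) (P.cons (P.cons (P.lf 0 167255562 0) (P.cons (P.lf 0 32236521 0) (P.cons (P.lf 0 1760322 0) (P.cons (P.lf 1241991 0 0) (P.cons (P.lf 157020 0 0) P.nil))))) (P.cons (P.cons (P.lf 0 57853431 0) (P.cons (P.lf 0 10607076 0) (P.cons (P.lf 154968 0 0) (P.cons (P.lf 310491 0 0) P.nil)))) (P.cons (P.cons (P.lf 5481435 0 0) (P.cons (P.lf 2831316 0 0) (P.cons (P.lf 110298 0 0) P.nil))) (P.cons (P.cons (P.lf 2651178 0 0) (P.cons (P.lf 354831 0 0) P.nil)) (P.cons (P.cons (P.lf 0 167838 0) P.nil) P.nil)))))) 584658)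
 (EL.cons 11 (TM.mk (P.cons (P.cons (P.lf 0 13878825 0) (P.cons (P.lf 0 52806735 0) (P.cons (P.lf 13217910 0 0) (P.cons (P.lf 4715823 0 0) (P.cons (P.lf 0 628593 0) (P.cons (P.lf 0 119760 0) P.nil)))))) (P.cons (P.cons (P.lf 119715165 0 0) (P.cons (P.lf 8285694 0 0) (P.cons (P.lf 0 14875203 0) (P.cons (P.lf 0 1982718 0) (P.cons (P.lf 386478 0 0) P.nil))))) (P.cons (P.cons (P.lf 0 12302550 0) (P.cons (P.lf 0 1294977 0) (P.cons (P.lf 1626966 0 0) (P.cons (P.lf 242127 0 0) P.nil)))) (P.cons (P.cons (P.lf 0 5028279 0) (P.cons (P.lf 243840 0 0) (P.cons (P.lf 493581 0 0) P.nil))) (P.cons (P.cons (P.lf 738072 0 0) (P.cons (P.lf 53862 0 0) P.nil)) (P.cons (P.cons (P.lf 59538 0 0) P.nil) P.nil)))))) 517530)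
 EL.nil)))
noncomputable def S343_372_512_660_25 : EL := (EL.cons 4 (TM.mk (P.cons (P.cons (P.lf 0 1323895101 0) (P.cons (P.lf 0 216395997 0) (P.cons (P.lf 14467725 0 0) (P.lf 4822575 0 0)))) (P.cons (P.cons (P.lf 0 242510754 0) (P.cons (P.lf 13542534 0 0) (P.cons (P.lf 0 905418 0) (P.lf 0 301803 0)))) (P.cons (P.cons (P.lf 85091556 0 0) (P.cons (P.lf 13947696 0 0) (P.cons (P.lf 0 932511 0) (P.lf 0 310836 0)))) (P.cons (P.cons (P.lf 9813036 0 0) (P.cons (P.lf 0 1380711 0) (P.cons (P.lf 92307 0 0) P.nil))) (P.cons (P.cons (P.lf 0 2713686 0) (P.cons (P.lf 0 322461 0) P.nil)) (P.cons (P.cons (P.lf 0 94914 0) P.nil) P.nil)))))) 295059)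
 (EL.cons 8 (TM.mk (P.cons (P.cons (P.lf 0 871028601 0) (P.cons (P.lf 0 142373142 0) (P.cons (P.lf 9518739 0 0) (P.lf 3172911 0 0)))) (P.cons (P.cons (P.lf 0 344848647 0) (P.cons (P.lf 0 21377004 0) (P.cons (P.lf 1429215 0 0) (P.lf 476403 0 0)))) (P.cons (P.cons (P.lf 4747869 0 0) (P.cons (P.lf 8245206 0 0) (P.cons (P.lf 0 551253 0) (P.lf 0 183750 0)))) (P.cons (P.cons (P.lf 13064649 0 0) (P.cons (P.lf 871953 0 0) (P.cons (P.lf 0 58293 0) P.nil))) (P.cons (P.cons (P.lf 73476 0 0) (P.cons (P.lf 0 239850 0) P.nil)) (P.cons (P.cons (P.lf 0 247164 0) P.nil) P.nil)))))) 189273)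
 (EL.cons 11 (TM.mk (P.cons (P.cons (P.lf 591818139 0 0) (P.cons (P.lf 0 91628307 0) (P.cons (P.lf 0 44143629 0) (P.cons (P.lf 1670523 0 0) (P.lf 417630 0 0))))) (P.cons (P.cons (P.lf 0 24691515 0) (P.cons (P.lf 3822864 0 0) (P.cons (P.lf 1841733 0 0) (P.cons (P.lf 0 69696 0) (P.lf 0 17421 0))))) (P.cons (P.cons (P.lf 0 25687773 0) (P.cons (P.lf 3977112 0 0) (P.cons (P.lf 1916046 0 0) (P.cons (P.lf 0 72507 0) P.nil)))) (P.cons (P.cons (P.lf 1979739 0 0) (P.cons (P.lf 0 306513 0) (P.cons (P.lf 0 147666 0) P.nil))) (P.cons (P.cons (P.lf 344865 0 0) (P.cons (P.lf 0 53394 0) P.nil)) (P.cons (P.cons (P.lf 0 46281 0) P.nil) P.nil)))))) 99639)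
 EL.nil)))
noncomputable def S343_372_512_660_26 : EL := (EL.cons 4 (TM.mk (P.cons (P.cons (P.lf 20576022 0 0) (P.cons (P.lf 84837435 0 0) (P.cons (P.lf 7645254 0 0) (P.cons (P.lf 0 3671400 0) (P.cons (P.lf 0 534045 0) (P.cons (P.lf 39684 0 0) P.nil)))))) (P.cons (P.cons (P.lf 0 170881944 0) (P.cons (P.lf 0 42380895 0) (P.cons (P.lf 0 2666127 0) (P.cons (P.lf 1679874 0 0) (P.cons (P.lf 220542 0 0) P.nil))))) (P.cons (P.cons (P.lf 0 38657895 0) (P.cons (P.lf 0 7134858 0) (P.cons (P.lf 341319 0 0) (P.cons (P.lf 177150 0 0) P.nil)))) (P.cons (P.cons (P.lf 12820986 0 0) (P.cons (P.lf 4237482 0 0) (P.cons (P.lf 101967 0 0) P.nil))) (P.cons (P.cons (P.lf 2103591 0 0) (P.cons (P.lf 36552 0 0) P.nil)) (P.cons (P.cons (P.lf 0 524901 0) P.nil) P.nil)))))) 841731)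
 (EL.cons 8 (TM.mk (P.cons (P.cons (P.lf 13537554 0 0) (P.cons (P.lf 55816983 0 0) (P.cons (P.lf 5030031 0 0) (P.cons (P.lf 0 2415519 0) (P.cons (P.lf 0 351363 0) (P.cons (P.lf 26109 0 0) P.nil)))))) (P.cons (P.cons (P.lf 0 109548294 0) (P.cons (P.lf 0 16009662 0) (P.cons (P.lf 0 684084 0) (P.cons (P.lf 591384 0 0) (P.cons (P.lf 70356 0 0) P.nil))))) (P.cons (P.cons (P.lf 0 49082181 0) (P.cons (P.lf 0 9517662 0) (P.cons (P.lf 0 48717 0) (P.cons (P.lf 303708 0 0) P.nil)))) (P.cons (P.cons (P.lf 825591 0 0) (P.cons (P.lf 1372428 0 0) (P.cons (P.lf 92349 0 0) P.nil))) (P.cons (P.cons (P.lf 2401776 0 0) (P.cons (P.lf 470721 0 0) P.nil)) (P.cons (P.cons (P.lf 24306 0 0) P.nil) P.nil)))))) 492285)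
 (EL.cons 11 (TM.mk (P.cons (P.cons (P.lf 0 9198057 0) (P.cons (P.lf 0 34997154 0) (P.cons (P.lf 8760042 0 0) (P.cons (P.lf 3125364 0 0) (P.cons (P.lf 0 416592 0) (P.cons (P.lf 0 79371 0) P.nil)))))) (P.cons (P.cons (P.lf 78457662 0 0) (P.cons (P.lf 2133825 0 0) (P.cons (P.lf 0 9018006 0) (P.cons (P.lf 0 1014195 0) (P.cons (P.lf 216168 0 0) P.nil))))) (P.cons (P.cons (P.lf 0 469704 0) (P.cons (P.lf 0 56595 0) (P.cons (P.lf 63702 0 0) (P.cons (P.lf 9861 0 0) P.nil)))) (P.cons (P.cons (P.lf 0 4738134 0) (P.cons (P.lf 34503 0 0) (P.cons (P.lf 508389 0 0) P.nil))) (P.cons (P.cons (P.lf 236985 0 0) (P.cons (P.lf 57354 0 0) P.nil)) (P.cons (P.cons (P.lf 114096 0 0) P.nil) P.nil)))))) 442707)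
 EL.nil)))
noncomputable def S343_372_512_660_27 : EL := (EL.cons 13 (TM.mk (P.lf 0 4294967296 0) 0)
 EL.nil)
noncomputable def S343_372_512_660_28 : EL := (EL.cons 13 (TM.mk (P.cons (P.cons (P.lf 66752532 0 0) (P.cons (P.lf 264317792 0 0) (P.cons (P.lf 0 17671668 0) (P.lf 0 5890556 0)))) (P.cons (P.cons (P.lf 0 566601213 0) (P.cons (P.lf 0 92613256 0) (P.cons (P.lf 6191904 0 0) (P.lf 2063964 0 0)))) (P.cons (P.cons (P.lf 0 17333275 0) (P.cons (P.lf 8547212 0 0) (P.cons (P.lf 0 571444 0) (P.lf 0 190480 0)))) (P.cons (P.cons (P.lf 8846088 0 0) (P.cons (P.lf 525932 0 0) (P.cons (P.lf 0 35160 0) P.nil))) (P.cons (P.cons (P.lf 0 246658 0) (P.cons (P.lf 0 133800 0) P.nil)) (P.cons (P.cons (P.lf 0 60991 0) P.nil) P.nil)))))) 52671)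
 EL.nil)
noncomputable def S343_372_512_660_29 : EL := (EL.cons 13 (TM.mk (P.cons (P.cons (P.lf 0 1037470 0) (P.cons (P.lf 0 8216072 0) (P.cons (P.lf 0 15717148 0) (P.cons (P.lf 2358176 0 0) (P.cons (P.lf 652314 0 0) (P.cons (P.lf 0 48473 0) P.nil)))))) (P.cons (P.cons (P.lf 17612271 0 0) (P.cons (P.lf 72617526 0 0) (P.cons (P.lf 6544039 0 0) (P.cons (P.lf 0 3142576 0) (P.cons (P.lf 0 457123 0) P.nil))))) (P.cons (P.cons (P.lf 0 74208447 0) (P.cons (P.lf 0 22567733 0) (P.cons (P.lf 0 1540225 0) (P.cons (P.lf 910645 0 0) P.nil)))) (P.cons (P.cons (P.lf 0 4848257 0) (P.cons (P.lf 402463 0 0) (P.cons (P.lf 276970 0 0) P.nil))) (P.cons (P.cons (P.lf 2271704 0 0) (P.cons (P.lf 623770 0 0) P.nil)) (P.cons (P.cons (P.lf 8217 0 0) P.nil) P.nil)))))) 674422)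
 EL.nil)
noncomputable def S343_372_512_660_30 : EL := (EL.cons 13 (TM.mk (P.cons (P.lf 0 2846448260 0) (P.cons (P.lf 0 273072892 0) (P.cons (P.lf 22353452 0 0) (P.cons (P.lf 0 133644 0) (P.cons (P.lf 0 68648 0) (P.cons (P.lf 3668 0 0) P.nil)))))) 396)
 EL.nil)
noncomputable def S343_372_512_660_31 : EL := (EL.cons 13 (TM.mk (P.cons (P.cons (P.lf 44239598 0 0) (P.cons (P.lf 175174074 0 0) (P.cons (P.lf 0 11711727 0) (P.lf 0 3903909 0)))) (P.cons (P.cons (P.lf 0 371265395 0) (P.cons (P.lf 0 44573288 0) (P.cons (P.lf 2980064 0 0) (P.lf 993352 0 0)))) (P.cons (P.cons (P.lf 0 47859235 0) (P.cons (P.lf 0 1599404 0) (P.cons (P.lf 106934 0 0) (P.lf 35645 0 0)))) (P.cons (P.cons (P.lf 7711606 0 0) (P.cons (P.lf 1382222 0 0) (P.cons (P.lf 0 92410 0) P.nil))) (P.cons (P.cons (P.lf 472610 0 0) (P.cons (P.lf 0 98377 0) P.nil)) (P.cons (P.cons (P.lf 0 111796 0) P.nil) P.nil))))))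 89760)
 EL.nil)
noncomputable def S343_372_512_660_32 : EL := (EL.cons 13 (TM.mk (P.cons (P.cons (P.lf 0 687573 0) (P.cons (P.lf 0 5445122 0) (P.cons (P.lf 0 10416388 0) (P.cons (P.lf 1562858 0 0) (P.cons (P.lf 432314 0 0) (P.cons (P.lf 0 32125 0) P.nil)))))) (P.cons (P.cons (P.lf 11606401 0 0) (P.cons (P.lf 47604191 0 0) (P.cons (P.lf 3337706 0 0) (P.cons (P.lf 0 1932779 0) (P.cons (P.lf 0 261479 0) P.nil))))) (P.cons (P.cons (P.lf 0 48055751 0) (P.cons (P.lf 0 10296783 0) (P.cons (P.lf 0 522900 0) (P.cons (P.lf 391443 0 0) P.nil)))) (P.cons (P.cons (P.lf 0 8022985 0) (P.cons (P.lf 0 1546320 0) (P.cons (P.lf 51084 0 0) P.nil))) (P.cons (P.cons (P.lf 1584053 0 0) (P.cons (P.lf 558569 0 0) P.nil)) (P.cons (P.cons (P.lf 173086 0 0) P.nil) P.nil)))))) 700050)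
 EL.nil)
noncomputable def S343_372_512_660_33 : EL := (EL.cons 14 (TM.mk (P.lf 8589934592 0 0) 0)
 EL.nil)
noncomputable def S343_372_512_660_34 : EL := (EL.cons 14 (TM.mk (P.cons (P.cons (P.lf 0 133505064 0) (P.cons (P.lf 0 528635584 0) (P.cons (P.lf 35343336 0 0) (P.lf 11781112 0 0)))) (P.cons (P.cons (P.lf 1133202426 0 0) (P.cons (P.lf 185226512 0 0) (P.cons (P.lf 0 12383808 0) (P.lf 0 4127928 0)))) (P.cons (P.cons (P.lf 34666550 0 0) (P.cons (P.lf 0 17094424 0) (P.cons (P.lf 1142888 0 0) (P.lf 380960 0 0)))) (P.cons (P.cons (P.lf 0 17692176 0) (P.cons (P.lf 0 1051864 0) (P.cons (P.lf 70320 0 0) P.nil))) (P.cons (P.cons (P.lf 493316 0 0) (P.cons (P.lf 267600 0 0) P.nil)) (P.cons (P.cons (P.lf 121982 0 0) P.nil) P.nil)))))) 105342)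
 EL.nil)
noncomputable def S343_372_512_660_35 : EL := (EL.cons 14 (TM.mk (P.cons (P.cons (P.lf 2074940 0 0) (P.cons (P.lf 16432144 0 0) (P.cons (P.lf 31434296 0 0) (P.cons (P.lf 0 4716352 0) (P.cons (P.lf 0 1304628 0) (P.cons (P.lf 96946 0 0) P.nil)))))) (P.cons (P.cons (P.lf 0 35224542 0) (P.cons (P.lf 0 145235052 0) (P.cons (P.lf 0 13088078 0) (P.cons (P.lf 6285152 0 0) (P.cons (P.lf 914246 0 0) P.nil))))) (P.cons (P.cons (P.lf 148416894 0 0) (P.cons (P.lf 45135466 0 0) (P.cons (P.lf 3080450 0 0) (P.cons (P.lf 0 1821290 0) P.nil)))) (P.cons (P.cons (P.lf 9696514 0 0) (P.cons (P.lf 0 804926 0) (P.cons (P.lf 0 553940 0) P.nil))) (P.cons (P.cons (P.lf 0 4543408 0) (P.cons (P.lf 0 1247540 0) P.nil)) (P.cons (P.cons (P.lf 0 16434 0) P.nil) P.nil)))))) 1348844)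
 EL.nil)
noncomputable def S343_372_512_660_36 : EL := (EL.cons 14 (TM.mk (P.cons (P.lf 5692896520 0 0) (P.cons (P.lf 546145784 0 0) (P.cons (P.lf 0 44706904 0) (P.cons (P.lf 267288 0 0) (P.cons (P.lf 137296 0 0) (P.cons (P.lf 0 7336 0) P.nil)))))) 792)
 EL.nil)
noncomputable def S343_372_512_660_37 : EL := (EL.cons 14 (TM.mk (P.cons (P.cons (P.lf 0 88479196 0) (P.cons (P.lf 0 350348148 0) (P.cons (P.lf 23423454 0 0) (P.lf 7807818 0 0)))) (P.cons (P.cons (P.lf 742530790 0 0) (P.cons (P.lf 89146576 0 0) (P.cons (P.lf 0 5960128 0) (P.lf 0 1986704 0)))) (P.cons (P.cons (P.lf 95718470 0 0) (P.cons (P.lf 3198808 0 0) (P.cons (P.lf 0 213868 0) (P.lf 0 71290 0)))) (P.cons (P.cons (P.lf 0 15423212 0) (P.cons (P.lf 0 2764444 0) (P.cons (P.lf 184820 0 0) P.nil))) (P.cons (P.cons (P.lf 0 945220 0) (P.cons (P.lf 196754 0 0) P.nil)) (P.cons (P.cons (P.lf 223592 0 0) P.nil) P.nil))))))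 179520)
 EL.nil)
noncomputable def S343_372_512_660_38 : EL := (EL.cons 14 (TM.mk (P.cons (P.cons (P.lf 1375146 0 0) (P.cons (P.lf 10890244 0 0) (P.cons (P.lf 20832776 0 0) (P.cons (P.lf 0 3125716 0) (P.cons (P.lf 0 864628 0) (P.cons (P.lf 64250 0 0) P.nil)))))) (P.cons (P.cons (P.lf 0 23212802 0) (P.cons (P.lf 0 95208382 0) (P.cons (P.lf 0 6675412 0) (P.cons (P.lf 3865558 0 0) (P.cons (P.lf 522958 0 0) P.nil))))) (P.cons (P.cons (P.lf 96111502 0 0) (P.cons (P.lf 20593566 0 0) (P.cons (P.lf 1045800 0 0) (P.cons (P.lf 0 782886 0) P.nil)))) (P.cons (P.cons (P.lf 16045970 0 0) (P.cons (P.lf 3092640 0 0) (P.cons (P.lf 0 102168 0) P.nil))) (P.cons (P.cons (P.lf 0 3168106 0) (P.cons (P.lf 0 1117138 0) P.nil)) (P.cons (P.cons (P.lf 0 346172 0) P.nil) P.nil)))))) 1400100)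
 EL.nil)
noncomputable def S343_372_512_660_39 : EL := (EL.cons 14 (TM.mk (P.cons (P.lf 3772912404 0 0) (P.cons (P.lf 723905728 0 0) (P.cons (P.lf 0 24534334 0) (P.cons (P.lf 0 5330620 0) (P.cons (P.lf 448650 0 0) (P.cons (P.lf 4952 0 0) P.nil)))))) 3630)
 EL.nil)
noncomputable def S343_372_512_660_40 : EL := (EL.cons 14 (TM.mk (P.cons (P.cons (P.lf 0 58638736 0) (P.cons (P.lf 0 232189864 0) (P.cons (P.lf 15523670 0 0) (P.lf 5174556 0 0)))) (P.cons (P.cons (P.lf 486479654 0 0) (P.cons (P.lf 36805992 0 0) (P.cons (P.lf 0 2460760 0) (P.lf 0 820250 0)))) (P.cons (P.cons (P.lf 111106904 0 0) (P.cons (P.lf 9611306 0 0) (P.cons (P.lf 0 642590 0) (P.lf 0 214196 0)))) (P.cons (P.cons (P.lf 0 8003136 0) (P.cons (P.lf 0 2103600 0) (P.cons (P.lf 140638 0 0) P.nil))) (P.cons (P.cons (P.lf 0 2083522 0) (P.cons (P.lf 0 64838 0) P.nil)) (P.cons (P.cons (P.lf 183280 0 0) P.nil) P.nil))))))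 208470)
 EL.nil)
noncomputable def S343_372_512_660_41 : EL := (EL.cons 14 (TM.mk (P.cons (P.cons (P.lf 911364 0 0) (P.cons (P.lf 7217404 0 0) (P.cons (P.lf 13806722 0 0) (P.cons (P.lf 0 2071538 0) (P.cons (P.lf 0 573024 0) (P.cons (P.lf 42580 0 0) P.nil)))))) (P.cons (P.cons (P.lf 0 15296628 0) (P.cons (P.lf 0 62406040 0) (P.cons (P.lf 0 3099522 0) (P.cons (P.lf 2363130 0 0) (P.cons (P.lf 291612 0 0) P.nil))))) (P.cons (P.cons (P.lf 62213952 0 0) (P.cons (P.lf 7538184 0 0) (P.cons (P.lf 160246 0 0) (P.cons (P.lf 0 256810 0) P.nil)))) (P.cons (P.cons (P.lf 16865912 0 0) (P.cons (P.lf 3854808 0 0) (P.cons (P.lf 34170 0 0) P.nil))) (P.cons (P.cons (P.lf 0 1580352 0) (P.cons (P.lf 0 653712 0) P.nil)) (P.cons (P.cons (P.lf 0 511744 0) P.nil) P.nil)))))) 1242088)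
 EL.nil)
noncomputable def S343_372_512_660_42 : EL := (EL.cons 14 (TM.mk (P.cons (P.lf 2500461402 0 0) (P.cons (P.lf 719642336 0 0) (P.cons (P.lf 10129460 0 0) (P.cons (P.lf 0 8742920 0) (P.cons (P.lf 168938 0 0) (P.cons (P.lf 67134 0 0) P.nil)))))) 7070)
 EL.nil)
noncomputable def S343_372_512_660_43 : EL := (EL.cons 14 (TM.mk (P.cons (P.cons (P.lf 0 38862258 0) (P.cons (P.lf 0 153881598 0) (P.cons (P.lf 10288162 0 0) (P.lf 3429386 0 0)))) (P.cons (P.cons (P.lf 318681474 0 0) (P.cons (P.lf 9630246 0 0) (P.cons (P.lf 0 643854 0) (P.lf 0 214616 0)))) (P.cons (P.cons (P.lf 104870468 0 0) (P.cons (P.lf 9918364 0 0) (P.cons (P.lf 0 663118 0) (P.lf 0 221040 0)))) (P.cons (P.cons (P.lf 0 773594 0) (P.cons (P.lf 0 981840 0) (P.cons (P.lf 65640 0 0) P.nil))) (P.cons (P.cons (P.lf 0 2453734 0) (P.cons (P.lf 0 229306 0) P.nil)) (P.cons (P.cons (P.lf 41932 0 0) P.nil) P.nil))))))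 210606)
 EL.nil)
noncomputable def S343_372_512_660_44 : EL := (EL.cons 14 (TM.mk (P.cons (P.cons (P.lf 603998 0 0) (P.cons (P.lf 4783264 0 0) (P.cons (P.lf 9150272 0 0) (P.cons (P.lf 0 1372892 0) (P.cons (P.lf 0 379766 0) (P.cons (P.lf 28220 0 0) P.nil)))))) (P.cons (P.cons (P.lf 0 10079748 0) (P.cons (P.lf 0 40900122 0) (P.cons (P.lf 0 1176350 0) (P.cons (P.lf 1434432 0 0) (P.cons (P.lf 156830 0 0) P.nil))))) (P.cons (P.cons (P.lf 40254398 0 0) (P.cons (P.lf 990536 0 0) (P.cons (P.lf 0 162722 0) (P.cons (P.lf 0 9170 0) P.nil)))) (P.cons (P.cons (P.lf 15212908 0 0) (P.cons (P.lf 3359034 0 0) (P.cons (P.lf 49396 0 0) P.nil))) (P.cons (P.cons (P.lf 0 299290 0) (P.cons (P.lf 0 229212 0) P.nil)) (P.cons (P.cons (P.lf 0 525720 0) P.nil) P.nil)))))) 1029914)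
 EL.nil)
noncomputable def S343_372_512_660_45 : EL := (EL.cons 14 (TM.mk (P.cons (P.cons (P.lf 0 32248 0) (P.cons (P.lf 0 383082 0) (P.cons (P.lf 0 1491270 0) (P.cons (P.lf 0 1790748 0) (P.cons (P.lf 462400 0 0) (P.cons (P.lf 102488 0 0) P.nil)))))) (P.cons (P.cons (P.lf 821190 0 0) (P.cons (P.lf 6637516 0 0) (P.cons (P.lf 13494652 0 0) (P.cons (P.lf 92838 0 0) (P.cons (P.lf 0 981068 0) P.nil))))) (P.cons (P.cons (P.lf 0 6945222 0) (P.cons (P.lf 0 29692346 0) (P.cons (P.lf 0 6928030 0) (P.cons (P.lf 921920 0 0) P.nil)))) (P.cons (P.cons (P.lf 19282338 0 0) (P.cons (P.lf 8020356 0 0) (P.cons (P.lf 1428498 0 0) P.nil))) (P.cons (P.cons (P.lf 2021436 0 0) (P.cons (P.lf 593146 0 0) P.nil)) (P.cons (P.cons (P.lf 0 867666 0) P.nil) P.nil)))))) 2870472)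
 EL.nil)
noncomputable def S343_372_512_660_46 : EL := (EL.cons 15 (TM.mk (P.lf 4294967296 0 0) 0)
 EL.nil)
noncomputable def S343_372_512_660_47 : EL := (EL.cons 15 (TM.mk (P.cons (P.cons (P.lf 0 66752532 0) (P.cons (P.lf 0 264317792 0) (P.cons (P.lf 17671668 0 0) (P.lf 5890556 0 0)))) (P.cons (P.cons (P.lf 566601213 0 0) (P.cons (P.lf 92613256 0 0) (P.cons (P.lf 0 6191904 0) (P.lf 0 2063964 0)))) (P.cons (P.cons (P.lf 17333275 0 0) (P.cons (P.lf 0 8547212 0) (P.cons (P.lf 571444 0 0) (P.lf 190480 0 0)))) (P.cons (P.cons (P.lf 0 8846088 0) (P.cons (P.lf 0 525932 0) (P.cons (P.lf 35160 0 0) P.nil))) (P.cons (P.cons (P.lf 246658 0 0) (P.cons (P.lf 133800 0 0) P.nil)) (P.cons (P.cons (P.lf 60991 0 0) P.nil) P.nil)))))) 52671)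
 EL.nil)
noncomputable def S343_372_512_660_48 : EL := (EL.cons 15 (TM.mk (P.cons (P.cons (P.lf 1037470 0 0) (P.cons (P.lf 8216072 0 0) (P.cons (P.lf 15717148 0 0) (P.cons (P.lf 0 2358176 0) (P.cons (P.lf 0 652314 0) (P.cons (P.lf 48473 0 0) P.nil)))))) (P.cons (P.cons (P.lf 0 17612271 0) (P.cons (P.lf 0 72617526 0) (P.cons (P.lf 0 6544039 0) (P.cons (P.lf 3142576 0 0) (P.cons (P.lf 457123 0 0) P.nil))))) (P.cons (P.cons (P.lf 74208447 0 0) (P.cons (P.lf 22567733 0 0) (P.cons (P.lf 1540225 0 0) (P.cons (P.lf 0 910645 0) P.nil)))) (P.cons (P.cons (P.lf 4848257 0 0) (P.cons (P.lf 0 402463 0) (P.cons (P.lf 0 276970 0) P.nil))) (P.cons (P.cons (P.lf 0 2271704 0) (P.cons (P.lf 0 623770 0) P.nil)) (P.cons (P.cons (P.lf 0 8217 0) P.nil) P.nil)))))) 674422)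
 EL.nil)
noncomputable def S343_372_512_660 : SL := (SL.cons S343_372_512_660_0 (SL.cons S343_372_512_660_1 (SL.cons S343_372_512_660_2 (SL.cons S343_372_512_660_3 (SL.cons S343_372_512_660_4 (SL.cons S343_372_512_660_5 (SL.cons S343_372_512_660_6 (SL.cons S343_372_512_660_7 (SL.cons S343_372_512_660_8 (SL.cons S343_372_512_660_9 (SL.cons S343_372_512_660_10 (SL.cons S343_372_512_660_11 (SL.cons S343_372_512_660_12 (SL.cons S343_372_512_660_13 (SL.cons S343_372_512_660_14 (SL.cons S343_372_512_660_15 (SL.cons S343_372_512_660_16 (SL.cons S343_372_512_660_17 (SL.cons S343_372_512_660_18 (SL.cons S343_372_512_660_19 (SL.cons S343_372_512_660_20 (SL.cons S343_372_512_660_21 (SL.cons S343_372_512_660_22 (SL.cons S343_372_512_660_23 (SL.cons S343_372_512_660_24 (SL.cons S343_372_512_660_25 (SL.cons S343_372_512_660_26 (SL.cons S343_372_512_660_27 (SL.cons S343_372_512_660_28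 (SL.cons S343_372_512_660_29 (SL.cons S343_372_512_660_30 (SL.cons S343_372_512_660_31 (SL.cons S343_372_512_660_32 (SL.cons S343_372_512_660_33 (SL.cons S343_372_512_660_34 (SL.cons S343_372_512_660_35 (SL.cons S343_372_512_660_36 (SL.cons S343_372_512_660_37 (SL.cons S343_372_512_660_38 (SL.cons S343_372_512_660_39 (SL.cons S343_372_512_660_40 (SL.cons S343_372_512_660_41 (SL.cons S343_372_512_660_42 (SL.cons S343_372_512_660_43 (SL.cons S343_372_512_660_44 (SL.cons S343_372_512_660_45 (SL.cons S343_372_512_660_46 (SL.cons S343_372_512_660_47 (SL.cons S343_372_512_660_48 SL.nil)))))))))))))))))))))))))))))))))))))))))))))))))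
noncomputable def S343_372_660_734_0 : EL := (EL.cons 0 (TM.mk (P.cons (P.lf 5139680571 0 0) (P.cons (P.lf 0 636245268 0) (P.cons (P.lf 21563379 0 0) (P.cons (P.lf 4685115 0 0) (P.cons (P.lf 0 394321 0) (P.cons (P.lf 0 4352 0) P.nil)))))) 3197)
 (EL.cons 1 (TM.mk (P.cons (P.lf 1792040857 0 0) (P.cons (P.lf 0 37383279 0) (P.cons (P.lf 0 39281548 0) (P.cons (P.lf 2177913 0 0) (P.cons (P.lf 137038 0 0) (P.cons (P.lf 0 19477 0) P.nil)))))) 1484)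
 (EL.cons 5 (TM.mk (P.cons (P.lf 5474002426 0 0) (P.cons (P.lf 226220540 0 0) (P.cons (P.lf 0 7666984 0) (P.cons (P.lf 0 1665814 0) (P.cons (P.lf 140204 0 0) (P.cons (P.lf 1546 0 0) P.nil)))))) 969)
 (EL.cons 9 (TM.mk (P.lf 6442450944 0 0) 2)
 EL.nil))))
noncomputable def S343_372_660_734_1 : EL := (EL.cons 0 (TM.mk (P.cons (P.cons (P.lf 4042736039 0 0) (P.cons (P.lf 96024591 0 0) (P.cons (P.lf 0 12365183 0) (P.lf 0 824334 0)))) (P.cons (P.cons (P.lf 1082163611 0 0) (P.cons (P.lf 17177757 0 0) (P.cons (P.lf 0 2212006 0) (P.lf 0 147477 0)))) (P.cons (P.cons (P.lf 0 370705017 0) (P.cons (P.lf 0 16425162 0) (P.cons (P.lf 2115080 0 0) (P.lf 140997 0 0)))) (P.cons (P.cons (P.lf 0 4368331 0) (P.cons (P.lf 2063818 0 0) (P.cons (P.lf 0 265757 0) P.nil))) (P.cons (P.cons (P.lf 8809705 0 0) (P.cons (P.lf 159446 0 0) P.nil)) (P.cons (P.cons (P.lf 0 540959 0) P.nil) P.nil))))))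 379583)
 (EL.cons 1 (TM.mk (P.cons (P.cons (P.lf 97518771 0 0) (P.cons (P.lf 0 24114415 0) (P.cons (P.lf 3105234 0 0) (P.lf 207007 0 0)))) (P.cons (P.cons (P.lf 877954588 0 0) (P.cons (P.lf 36757680 0 0) (P.cons (P.lf 0 4733320 0) (P.lf 0 315542 0)))) (P.cons (P.cons (P.lf 8651758 0 0) (P.cons (P.lf 0 5197381 0) (P.cons (P.lf 669267 0 0) (P.lf 44610 0 0)))) (P.cons (P.cons (P.lf 0 37232488 0) (P.cons (P.lf 0 942584 0) (P.cons (P.lf 121373 0 0) P.nil))) (P.cons (P.cons (P.lf 1746437 0 0) (P.cons (P.lf 226448 0 0) P.nil)) (P.cons (P.cons (P.lf 516674 0 0) P.nil) P.nil)))))) 193752)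
 (EL.cons 5 (TM.mk (P.cons (P.cons (P.lf 0 2123515730 0) (P.cons (P.lf 0 179952360 0) (P.cons (P.lf 23172664 0 0) (P.lf 1544844 0 0)))) (P.cons (P.cons (P.lf 779090531 0 0) (P.cons (P.lf 44982242 0 0) (P.cons (P.lf 0 5792412 0) (P.lf 0 386154 0)))) (P.cons (P.cons (P.lf 142756080 0 0) (P.cons (P.lf 1125006 0 0) (P.cons (P.lf 0 144866 0) (P.lf 0 9650 0)))) (P.cons (P.cons (P.lf 0 14624562 0) (P.cons (P.lf 0 1023928 0) (P.cons (P.lf 131848 0 0) P.nil))) (P.cons (P.cons (P.lf 0 2423139 0) (P.cons (P.lf 17120 0 0) P.nil)) (P.cons (P.cons (P.lf 286280 0 0) P.nil) P.nil)))))) 133011)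
 (EL.cons 9 (TM.mk (P.cons (P.cons (P.lf 0 605380992 0) (P.cons (P.lf 0 128656128 0) (P.cons (P.lf 16567188 0 0) (P.lf 1104474 0 0)))) (P.cons (P.cons (P.lf 1026935119 0 0) (P.cons (P.lf 45079308 0 0) (P.cons (P.lf 0 5804910 0) (P.lf 0 386988 0)))) (P.cons (P.cons (P.lf 9661636 0 0) (P.cons (P.lf 0 4160334 0) (P.cons (P.lf 535728 0 0) (P.lf 35712 0 0)))) (P.cons (P.cons (P.lf 0 14274474 0) (P.cons (P.lf 0 255996 0) (P.cons (P.lf 32964 0 0) P.nil))) (P.cons (P.cons (P.lf 625755 0 0) (P.cons (P.lf 65124 0 0) P.nil)) (P.cons (P.cons (P.lf 82888 0 0) P.nil) P.nil)))))) 31937)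
 (EL.cons 2 (TM.mk (P.cons (P.cons (P.lf 0 513216784 0) (P.cons (P.lf 146511793 0 0) (P.cons (P.lf 10958844 0 0) (P.cons (P.lf 0 738464 0) (P.lf 0 36922 0))))) (P.cons (P.cons (P.lf 70647401 0 0) (P.cons (P.lf 0 20168235 0) (P.cons (P.lf 0 1508549 0) (P.cons (P.lf 101652 0 0) (P.lf 5082 0 0))))) (P.cons (P.cons (P.lf 11468219 0 0) (P.cons (P.lf 0 3273915 0) (P.cons (P.lf 0 244884 0) (P.cons (P.lf 16500 0 0) P.nil)))) (P.cons (P.cons (P.lf 0 2238105 0) (P.cons (P.lf 638926 0 0) (P.cons (P.lf 47787 0 0) P.nil))) (P.cons (P.cons (P.lf 14768 0 0) (P.cons (P.lf 0 4213 0) P.nil)) (P.cons (P.cons (P.lf 18239 0 0) P.nil) P.nil)))))) 17613)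
 (EL.cons 6 (TM.mk (P.cons (P.cons (P.lf 277350837 0 0) (P.cons (P.lf 0 79177395 0) (P.cons (P.lf 0 5922339 0) (P.cons (P.lf 399078 0 0) (P.lf 19953 0 0))))) (P.cons (P.cons (P.lf 0 97179852 0) (P.cons (P.lf 27742650 0 0) (P.cons (P.lf 2075103 0 0) (P.cons (P.lf 0 139830 0) (P.lf 0 6990 0))))) (P.cons (P.cons (P.lf 8968659 0 0) (P.cons (P.lf 0 2560347 0) (P.cons (P.lf 0 191508 0) (P.cons (P.lf 12903 0 0) P.nil)))) (P.cons (P.cons (P.lf 551865 0 0) (P.cons (P.lf 0 157545 0) (P.cons (P.lf 0 11781 0) P.nil))) (P.cons (P.cons (P.lf 0 140397 0) (P.cons (P.lf 40080 0 0) P.nil)) (P.cons (P.cons (P.lf 4719 0 0) P.nil) P.nil)))))) 9624)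
 EL.nil))))))
noncomputable def S343_372_660_734_2 : EL := (EL.cons 0 (TM.mk (P.cons (P.cons (P.lf 0 805154385 0) (P.cons (P.lf 0 198803331 0) (P.cons (P.lf 19715158 0 0) (P.cons (P.lf 3222279 0 0) (P.cons (P.lf 3452 0 0) (P.cons (P.lf 0 13006 0) P.nil)))))) (P.cons (P.cons (P.lf 1245046241 0 0) (P.cons (P.lf 82607233 0 0) (P.cons (P.lf 0 8289553 0) (P.cons (P.lf 0 1313815 0) (P.cons (P.lf 0 1370 0) P.nil))))) (P.cons (P.cons (P.lf 278395811 0 0) (P.cons (P.lf 16830690 0 0) (P.cons (P.lf 0 1965529 0) (P.cons (P.lf 0 196459 0) P.nil)))) (P.cons (P.cons (P.lf 0 120035850 0) (P.cons (P.lf 0 10667030 0) (P.cons (P.lf 1121503 0 0) P.nil))) (P.cons (P.cons (P.lf 0 4286395 0) (P.cons (P.lf 778359 0 0) P.nil)) (P.cons (P.cons (P.lf 4133139 0 0) P.nil) P.nil)))))) 2032726)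
 (EL.cons 1 (TM.mk (P.cons (P.cons (P.lf 0 34150716 0) (P.cons (P.lf 0 6088628 0) (P.cons (P.lf 1032504 0 0) (P.cons (P.lf 0 11716 0) (P.cons (P.lf 0 142 0) (P.cons (P.lf 547 0 0) P.nil)))))) (P.cons (P.cons (P.lf 0 79894743 0) (P.cons (P.lf 0 34390758 0) (P.cons (P.lf 3138688 0 0) (P.cons (P.lf 627416 0 0) (P.cons (P.lf 757 0 0) P.nil))))) (P.cons (P.cons (P.lf 232759206 0 0) (P.cons (P.lf 20190427 0 0) (P.cons (P.lf 0 1975541 0) (P.cons (P.lf 0 334123 0) P.nil)))) (P.cons (P.cons (P.lf 10096995 0 0) (P.cons (P.lf 0 861072 0) (P.cons (P.lf 34536 0 0) P.nil))) (P.cons (P.cons (P.lf 0 13664664 0) (P.cons (P.lf 0 1000958 0) P.nil)) (P.cons (P.cons (P.lf 401153 0 0) P.nil) P.nil)))))) 1086055)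
 (EL.cons 5 (TM.mk (P.cons (P.cons (P.lf 350748066 0 0) (P.cons (P.lf 98088475 0 0) (P.cons (P.lf 0 7626680 0) (P.cons (P.lf 0 2130869 0) (P.cons (P.lf 0 2939 0) (P.cons (P.lf 11055 0 0) P.nil)))))) (P.cons (P.cons (P.lf 0 661413095 0) (P.cons (P.lf 0 85457741 0) (P.cons (P.lf 8129147 0 0) (P.cons (P.lf 1474144 0 0) (P.cons (P.lf 1686 0 0) P.nil))))) (P.cons (P.cons (P.lf 84477747 0 0) (P.cons (P.lf 10752130 0 0) (P.cons (P.lf 0 910505 0) (P.cons (P.lf 0 214395 0) P.nil)))) (P.cons (P.cons (P.lf 49210609 0 0) (P.cons (P.lf 3143448 0 0) (P.cons (P.lf 0 369540 0) P.nil))) (P.cons (P.cons (P.lf 0 3750320 0) (P.cons (P.lf 0 651980 0) P.nil)) (P.cons (P.cons (P.lf 0 1309639 0) P.nil) P.nil)))))) 873315)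
 (EL.cons 9 (TM.mk (P.cons (P.cons (P.lf 56886136 0 0) (P.cons (P.lf 24178987 0 0) (P.cons (P.lf 0 544282 0) (P.cons (P.lf 0 869263 0) (P.cons (P.lf 0 1509 0) (P.cons (P.lf 5679 0 0) P.nil)))))) (P.cons (P.cons (P.lf 0 192997045 0) (P.cons (P.lf 0 49487889 0) (P.cons (P.lf 4572135 0 0) (P.cons (P.lf 888534 0 0) (P.cons (P.lf 1056 0 0) P.nil))))) (P.cons (P.cons (P.lf 161879043 0 0) (P.cons (P.lf 14767386 0 0) (P.cons (P.lf 0 1420015 0) (P.cons (P.lf 0 250801 0) P.nil)))) (P.cons (P.cons (P.lf 5762827 0 0) (P.cons (P.lf 0 572880 0) (P.cons (P.lf 25771 0 0) P.nil))) (P.cons (P.cons (P.lf 0 4653850 0) (P.cons (P.lf 0 331084 0) P.nil)) (P.cons (P.cons (P.lf 141099 0 0) P.nil) P.nil)))))) 257197)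
 (EL.cons 2 (TM.mk (P.cons (P.cons (P.lf 96451391 0 0) (P.cons (P.lf 0 7036751 0) (P.cons (P.lf 0 10550790 0) (P.cons (P.lf 278645 0 0) (P.cons (P.lf 143026 0 0) (P.cons (P.lf 1428 0 0) P.nil)))))) (P.cons (P.cons (P.lf 0 176891973 0) (P.cons (P.lf 40494802 0 0) (P.cons (P.lf 7921299 0 0) (P.cons (P.lf 0 322785 0) (P.cons (P.lf 0 79143 0) P.nil))))) (P.cons (P.cons (P.lf 18827971 0 0) (P.cons (P.lf 0 4181490 0) (P.cons (P.lf 0 896428 0) (P.cons (P.lf 35229 0 0) P.nil)))) (P.cons (P.cons (P.lf 6562873 0 0) (P.cons (P.lf 0 1674123 0) (P.cons (P.lf 0 222744 0) P.nil))) (P.cons (P.cons (P.lf 0 1094653 0) (P.cons (P.lf 249783 0 0) P.nil)) (P.cons (P.cons (P.lf 0 55732 0) P.nil) P.nil)))))) 215605)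
 (EL.cons 6 (TM.mk (P.cons (P.cons (P.lf 0 52123926 0) (P.cons (P.lf 3802776 0 0) (P.cons (P.lf 5701818 0 0) (P.cons (P.lf 0 150582 0) (P.cons (P.lf 0 77292 0) (P.cons (P.lf 0 768 0) P.nil)))))) (P.cons (P.cons (P.lf 106683666 0 0) (P.cons (P.lf 0 22693020 0) (P.cons (P.lf 0 5493744 0) (P.cons (P.lf 206472 0 0) (P.cons (P.lf 59214 0 0) P.nil))))) (P.cons (P.cons (P.lf 0 31834836 0) (P.cons (P.lf 7011726 0 0) (P.cons (P.lf 1539918 0 0) (P.cons (P.lf 0 59970 0) P.nil)))) (P.cons (P.cons (P.lf 1234992 0 0) (P.cons (P.lf 0 145620 0) (P.cons (P.lf 0 112092 0) P.nil))) (P.cons (P.cons (P.lf 713736 0 0) (P.cons (P.lf 0 188676 0) P.nil)) (P.cons (P.cons (P.lf 0 95472 0) P.nil) P.nil)))))) 132744)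
 EL.nil))))))
noncomputable def S343_372_660_734_3 : EL := (EL.cons 0 (TM.mk (P.cons (P.lf 3316036292 0 0) (P.cons (P.lf 636245268 0 0) (P.cons (P.lf 0 21563379 0) (P.cons (P.lf 0 4685115 0) (P.cons (P.lf 394321 0 0) (P.cons (P.lf 4352 0 0) P.nil)))))) 3197)
 (EL.cons 1 (TM.mk (P.cons (P.lf 0 1792040857 0) (P.cons (P.lf 37383279 0 0) (P.cons (P.lf 39281548 0 0) (P.cons (P.lf 0 2177913 0) (P.cons (P.lf 0 137038 0) (P.cons (P.lf 19477 0 0) P.nil)))))) 1484)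
 (EL.cons 5 (TM.mk (P.cons (P.lf 968448518 0 0) (P.cons (P.lf 0 226220540 0) (P.cons (P.lf 7666984 0 0) (P.cons (P.lf 1665814 0 0) (P.cons (P.lf 0 140204 0) (P.cons (P.lf 0 1546 0) P.nil)))))) 962)
 EL.nil)))
noncomputable def S343_372_660_734_4 : EL := (EL.cons 0 (TM.mk (P.cons (P.cons (P.lf 0 311599631 0) (P.cons (P.lf 0 66221441 0) (P.cons (P.lf 8527405 0 0) (P.lf 568490 0 0)))) (P.cons (P.cons (P.lf 468794151 0 0) (P.cons (P.lf 10497209 0 0) (P.cons (P.lf 0 1351734 0) (P.lf 0 90112 0)))) (P.cons (P.cons (P.lf 108417589 0 0) (P.cons (P.lf 2741182 0 0) (P.cons (P.lf 0 352986 0) (P.lf 0 23531 0)))) (P.cons (P.cons (P.lf 0 9390123 0) (P.cons (P.lf 0 599953 0) (P.cons (P.lf 77255 0 0) P.nil))) (P.cons (P.cons (P.lf 0 1903839 0) (P.cons (P.lf 0 18492 0) P.nil)) (P.cons (P.cons (P.lf 207659 0 0) P.nil) P.nil)))))) 75638)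
 (EL.cons 1 (TM.mk (P.cons (P.cons (P.lf 168393592 0 0) (P.cons (P.lf 35787161 0 0) (P.cons (P.lf 0 4608350 0) (P.lf 0 307220 0)))) (P.cons (P.cons (P.lf 0 289166471 0) (P.cons (P.lf 0 13285865 0) (P.cons (P.lf 1710834 0 0) (P.lf 114052 0 0)))) (P.cons (P.cons (P.lf 0 419737 0) (P.cons (P.lf 634368 0 0) (P.cons (P.lf 0 81686 0) (P.lf 0 5445 0)))) (P.cons (P.cons (P.lf 10492852 0 0) (P.cons (P.lf 365420 0 0) (P.cons (P.lf 0 47055 0) P.nil))) (P.cons (P.cons (P.lf 0 532265 0) (P.cons (P.lf 0 57468 0) P.nil)) (P.cons (P.cons (P.lf 0 133400 0) P.nil) P.nil)))))) 48170)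
 (EL.cons 5 (TM.mk (P.cons (P.cons (P.lf 0 91002682 0) (P.cons (P.lf 0 19339974 0) (P.cons (P.lf 2490428 0 0) (P.lf 166026 0 0)))) (P.cons (P.cons (P.lf 175629338 0 0) (P.cons (P.lf 11294092 0 0) (P.cons (P.lf 0 1454352 0) (P.lf 0 96954 0)))) (P.cons (P.cons (P.lf 0 35327930 0) (P.cons (P.lf 0 2361420 0) (P.cons (P.lf 304082 0 0) (P.lf 20270 0 0)))) (P.cons (P.cons (P.lf 0 1419444 0) (P.cons (P.lf 127984 0 0) (P.cons (P.lf 0 16480 0) P.nil))) (P.cons (P.cons (P.lf 885504 0 0) (P.cons (P.lf 28282 0 0) P.nil)) (P.cons (P.cons (P.lf 0 46204 0) P.nil) P.nil)))))) 24856)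
 EL.nil)))
noncomputable def S343_372_660_734_5 : EL := (EL.cons 0 (TM.mk (P.cons (P.cons (P.lf 29280236 0 0) (P.cons (P.lf 12445324 0 0) (P.cons (P.lf 0 280149 0) (P.cons (P.lf 0 447423 0) (P.cons (P.lf 0 775 0) (P.cons (P.lf 2921 0 0) P.nil)))))) (P.cons (P.cons (P.lf 0 93720802 0) (P.cons (P.lf 0 23084361 0) (P.cons (P.lf 2299600 0 0) (P.cons (P.lf 371496 0 0) (P.cons (P.lf 393 0 0) P.nil))))) (P.cons (P.cons (P.lf 64071370 0 0) (P.cons (P.lf 2632751 0 0) (P.cons (P.lf 0 277546 0) (P.cons (P.lf 0 38431 0) P.nil)))) (P.cons (P.cons (P.lf 19557722 0 0) (P.cons (P.lf 1311586 0 0) (P.cons (P.lf 0 141880 0) P.nil))) (P.cons (P.cons (P.lf 0 2224274 0) (P.cons (P.lf 0 238950 0) P.nil)) (P.cons (P.cons (P.lf 0 535765 0) P.nil) P.nil)))))) 301815)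
 (EL.cons 1 (TM.mk (P.cons (P.cons (P.lf 0 15823522 0) (P.cons (P.lf 0 6725658 0) (P.cons (P.lf 151396 0 0) (P.cons (P.lf 241794 0 0) (P.cons (P.lf 418 0 0) (P.cons (P.lf 0 1578 0) P.nil)))))) (P.cons (P.cons (P.lf 54014407 0 0) (P.cons (P.lf 13905918 0 0) (P.cons (P.lf 0 1274949 0) (P.cons (P.lf 0 252198 0) (P.cons (P.lf 0 301 0) P.nil))))) (P.cons (P.cons (P.lf 0 45801534 0) (P.cons (P.lf 0 4247448 0) (P.cons (P.lf 418203 0 0) (P.cons (P.lf 69616 0 0) P.nil)))) (P.cons (P.cons (P.lf 0 1859658 0) (P.cons (P.lf 0 64873 0) (P.cons (P.lf 12652 0 0) P.nil))) (P.cons (P.cons (P.lf 2379018 0 0) (P.cons (P.lf 195026 0 0) P.nil)) (P.cons (P.cons (P.lf 0 81560 0) P.nil) P.nil)))))) 187484)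
 (EL.cons 5 (TM.mk (P.cons (P.cons (P.lf 8551294 0 0) (P.cons (P.lf 3634656 0 0) (P.cons (P.lf 0 81818 0) (P.cons (P.lf 0 130670 0) (P.cons (P.lf 0 226 0) (P.cons (P.lf 852 0 0) P.nil)))))) (P.cons (P.cons (P.lf 0 31009394 0) (P.cons (P.lf 0 8288188 0) (P.cons (P.lf 706408 0 0) (P.cons (P.lf 164090 0 0) (P.cons (P.lf 210 0 0) P.nil))))) (P.cons (P.cons (P.lf 31178748 0 0) (P.cons (P.lf 3986372 0 0) (P.cons (P.lf 0 374654 0) (P.cons (P.lf 0 69934 0) P.nil)))) (P.cons (P.cons (P.lf 0 5032914 0) (P.cons (P.lf 0 657300 0) (P.cons (P.lf 59036 0 0) P.nil))) (P.cons (P.cons (P.lf 0 760430 0) (P.cons (P.lf 0 25400 0) P.nil)) (P.cons (P.cons (P.lf 237526 0 0) P.nil) P.nil)))))) 109946)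
 EL.nil)))
noncomputable def S343_372_660_734_6 : EL := (EL.cons 12 (TM.mk (P.lf 8589934592 0 0) 0)
 (EL.cons 3 (TM.mk (P.cons (P.lf 2668545243 0 0) (P.cons (P.lf 256005836 0 0) (P.cons (P.lf 0 20956361 0) (P.cons (P.lf 125291 0 0) (P.cons (P.lf 64357 0 0) (P.cons (P.lf 0 3438 0) P.nil)))))) 378)
 (EL.cons 7 (TM.mk (P.cons (P.lf 0 1442125985 0) (P.cons (P.lf 168433589 0 0) (P.cons (P.lf 4127638 0 0) (P.cons (P.lf 0 758202 0) (P.cons (P.lf 21743 0 0) (P.cons (P.lf 1521 0 0) P.nil)))))) 224)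
 EL.nil)))
noncomputable def S343_372_660_734_7 : EL := (EL.cons 12 (TM.mk (P.cons (P.cons (P.lf 0 807174656 0) (P.cons (P.lf 0 171541504 0) (P.cons (P.lf 22089584 0 0) (P.lf 1472632 0 0)))) (P.cons (P.cons (P.lf 1369246826 0 0) (P.cons (P.lf 60105744 0 0) (P.cons (P.lf 0 7739880 0) (P.lf 0 515984 0)))) (P.cons (P.cons (P.lf 12882182 0 0) (P.cons (P.lf 0 5547112 0) (P.cons (P.lf 714304 0 0) (P.lf 47616 0 0)))) (P.cons (P.cons (P.lf 0 19032632 0) (P.cons (P.lf 0 341328 0) (P.cons (P.lf 43952 0 0) P.nil))) (P.cons (P.cons (P.lf 834340 0 0) (P.cons (P.lf 86832 0 0) P.nil)) (P.cons (P.cons (P.lf 110518 0 0) P.nil) P.nil)))))) 42558)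
 (EL.cons 3 (TM.mk (P.cons (P.cons (P.lf 3391252003 0 0) (P.cons (P.lf 106582012 0 0) (P.cons (P.lf 0 13724678 0) (P.lf 0 914972 0)))) (P.cons (P.cons (P.lf 215365674 0 0) (P.cons (P.lf 0 27119940 0) (P.cons (P.lf 3492262 0 0) (P.lf 232810 0 0)))) (P.cons (P.cons (P.lf 0 128059121 0) (P.cons (P.lf 0 973134 0) (P.cons (P.lf 125312 0 0) (P.lf 8354 0 0)))) (P.cons (P.cons (P.lf 10265789 0 0) (P.cons (P.lf 840990 0 0) (P.cons (P.lf 0 108294 0) P.nil))) (P.cons (P.cons (P.lf 1281989 0 0) (P.cons (P.lf 0 59852 0) P.nil)) (P.cons (P.cons (P.lf 0 225840 0) P.nil) P.nil)))))) 133370)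
 (EL.cons 7 (TM.mk (P.cons (P.cons (P.lf 2531694950 0 0) (P.cons (P.lf 133984402 0 0) (P.cons (P.lf 0 17253321 0) (P.lf 0 1150224 0)))) (P.cons (P.cons (P.lf 141695250 0 0) (P.cons (P.lf 0 17842990 0) (P.cons (P.lf 2297662 0 0) (P.lf 153179 0 0)))) (P.cons (P.cons (P.lf 0 69182359 0) (P.cons (P.lf 0 2538119 0) (P.cons (P.lf 326835 0 0) (P.lf 21786 0 0)))) (P.cons (P.cons (P.lf 0 4256919 0) (P.cons (P.lf 344420 0 0) (P.cons (P.lf 0 44351 0) P.nil))) (P.cons (P.cons (P.lf 1171387 0 0) (P.cons (P.lf 31615 0 0) P.nil)) (P.cons (P.cons (P.lf 542 0 0) P.nil) P.nil)))))) 85474)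
 (EL.cons 10 (TM.mk (P.cons (P.cons (P.lf 0 826011594 0) (P.cons (P.lf 235807644 0 0) (P.cons (P.lf 17638032 0 0) (P.cons (P.lf 0 1188546 0) (P.lf 0 59427 0))))) (P.cons (P.cons (P.lf 192948603 0 0) (P.cons (P.lf 0 55082466 0) (P.cons (P.lf 0 4120077 0) (P.cons (P.lf 277632 0 0) (P.lf 13881 0 0))))) (P.cons (P.cons (P.lf 0 6539343 0) (P.cons (P.lf 1866834 0 0) (P.cons (P.lf 139635 0 0) (P.cons (P.lf 0 9408 0) P.nil)))) (P.cons (P.cons (P.lf 0 1420809 0) (P.cons (P.lf 405609 0 0) (P.cons (P.lf 30336 0 0) P.nil))) (P.cons (P.cons (P.lf 119583 0 0) (P.cons (P.lf 0 34137 0) P.nil)) (P.cons (P.cons (P.lf 1317 0 0) P.nil) P.nil)))))) 6933)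
 EL.nil))))
noncomputable def S343_372_660_734_8 : EL := (EL.cons 12 (TM.mk (P.cons (P.cons (P.lf 75848182 0 0) (P.cons (P.lf 32238650 0 0) (P.cons (P.lf 0 725710 0) (P.cons (P.lf 0 1159018 0) (P.cons (P.lf 0 2012 0) (P.cons (P.lf 7572 0 0) P.nil)))))) (P.cons (P.cons (P.lf 0 257329394 0) (P.cons (P.lf 0 65983852 0) (P.cons (P.lf 6096180 0 0) (P.cons (P.lf 1184712 0 0) (P.cons (P.lf 1408 0 0) P.nil))))) (P.cons (P.cons (P.lf 215838724 0 0) (P.cons (P.lf 19689848 0 0) (P.cons (P.lf 0 1893354 0) (P.cons (P.lf 0 334402 0) P.nil)))) (P.cons (P.cons (P.lf 7683770 0 0) (P.cons (P.lf 0 763840 0) (P.cons (P.lf 34362 0 0) P.nil))) (P.cons (P.cons (P.lf 0 6205134 0) (P.cons (P.lf 0 441446 0) P.nil)) (P.cons (P.cons (P.lf 188132 0 0) P.nil) P.nil)))))) 342900)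
 (EL.cons 3 (TM.mk (P.cons (P.cons (P.lf 0 660897887 0) (P.cons (P.lf 0 165492742 0) (P.cons (P.lf 15989552 0 0) (P.cons (P.lf 2791116 0 0) (P.cons (P.lf 3126 0 0) (P.cons (P.lf 0 11760 0) P.nil)))))) (P.cons (P.cons (P.lf 1118346604 0 0) (P.cons (P.lf 97470119 0 0) (P.cons (P.lf 0 9332912 0) (P.cons (P.lf 0 1665617 0) (P.cons (P.lf 0 1886 0) P.nil))))) (P.cons (P.cons (P.lf 43699410 0 0) (P.cons (P.lf 0 8466319 0) (P.cons (P.lf 492316 0 0) (P.cons (P.lf 226656 0 0) P.nil)))) (P.cons (P.cons (P.lf 0 66585423 0) (P.cons (P.lf 0 4282701 0) (P.cons (P.lf 525667 0 0) P.nil))) (P.cons (P.cons (P.lf 4580590 0 0) (P.cons (P.lf 935282 0 0) P.nil)) (P.cons (P.cons (P.lf 1322550 0 0) P.nil) P.nil)))))) 1022106)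
 (EL.cons 7 (TM.mk (P.cons (P.cons (P.lf 0 463060256 0) (P.cons (P.lf 0 120884149 0) (P.cons (P.lf 10790154 0 0) (P.cons (P.lf 2267834 0 0) (P.cons (P.lf 2803 0 0) (P.cons (P.lf 0 10559 0) P.nil)))))) (P.cons (P.cons (P.lf 735792341 0 0) (P.cons (P.lf 64128393 0 0) (P.cons (P.lf 0 6140390 0) (P.cons (P.lf 0 1095864 0) (P.cons (P.lf 0 1241 0) P.nil))))) (P.cons (P.cons (P.lf 107013623 0 0) (P.cons (P.lf 1250777 0 0) (P.cons (P.lf 0 329207 0) (P.cons (P.lf 32572 0 0) P.nil)))) (P.cons (P.cons (P.lf 0 34861276 0) (P.cons (P.lf 0 3183255 0) (P.cons (P.lf 351150 0 0) P.nil))) (P.cons (P.cons (P.lf 0 3239900 0) (P.cons (P.lf 149753 0 0) P.nil)) (P.cons (P.cons (P.lf 929065 0 0) P.nil) P.nil)))))) 534657)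
 (EL.cons 10 (TM.mk (P.cons (P.cons (P.lf 155236482 0 0) (P.cons (P.lf 0 11325504 0) (P.cons (P.lf 0 16981272 0) (P.cons (P.lf 448476 0 0) (P.cons (P.lf 230202 0 0) (P.cons (P.lf 2304 0 0) P.nil)))))) (P.cons (P.cons (P.lf 0 299596452 0) (P.cons (P.lf 66262038 0 0) (P.cons (P.lf 14378256 0 0) (P.cons (P.lf 0 562542 0) (P.cons (P.lf 0 149466 0) P.nil))))) (P.cons (P.cons (P.lf 60263976 0 0) (P.cons (P.lf 0 13175784 0) (P.cons (P.lf 0 2955510 0) (P.cons (P.lf 114198 0 0) P.nil)))) (P.cons (P.cons (P.lf 2421354 0 0) (P.cons (P.lf 0 909564 0) (P.cons (P.lf 38736 0 0) P.nil))) (P.cons (P.cons (P.lf 0 1510530 0) (P.cons (P.lf 382974 0 0) P.nil)) (P.cons (P.cons (P.lf 78816 0 0) P.nil) P.nil)))))) 234420)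
 EL.nil))))
noncomputable def S343_372_660_734_9 : EL := (EL.cons 3 (TM.mk (P.cons (P.lf 2668545243 0 0) (P.cons (P.lf 256005836 0 0) (P.cons (P.lf 0 20956361 0) (P.cons (P.lf 125291 0 0) (P.cons (P.lf 64357 0 0) (P.cons (P.lf 0 3438 0) P.nil)))))) 378)
 (EL.cons 7 (TM.mk (P.cons (P.lf 0 1442125985 0) (P.cons (P.lf 168433589 0 0) (P.cons (P.lf 4127638 0 0) (P.cons (P.lf 0 758202 0) (P.cons (P.lf 21743 0 0) (P.cons (P.lf 1521 0 0) P.nil)))))) 224)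
 EL.nil))
noncomputable def S343_372_660_734_10 : EL := (EL.cons 3 (TM.mk (P.cons (P.cons (P.lf 0 250756517 0) (P.cons (P.lf 0 53291006 0) (P.cons (P.lf 6862339 0 0) (P.lf 457486 0 0)))) (P.cons (P.cons (P.lf 401313378 0 0) (P.cons (P.lf 13559970 0 0) (P.cons (P.lf 0 1746131 0) (P.lf 0 116405 0)))) (P.cons (P.cons (P.lf 46778854 0 0) (P.cons (P.lf 486567 0 0) (P.cons (P.lf 0 62656 0) (P.lf 0 4177 0)))) (P.cons (P.cons (P.lf 0 8880985 0) (P.cons (P.lf 0 420495 0) (P.cons (P.lf 54147 0 0) P.nil))) (P.cons (P.cons (P.lf 0 325537 0) (P.cons (P.lf 29926 0 0) P.nil)) (P.cons (P.cons (P.lf 116400 0 0) P.nil) P.nil)))))) 32110)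
 (EL.cons 7 (TM.mk (P.cons (P.cons (P.lf 135512969 0 0) (P.cons (P.lf 28799341 0 0) (P.cons (P.lf 0 3708522 0) (P.lf 0 247233 0)))) (P.cons (P.cons (P.lf 0 245704053 0) (P.cons (P.lf 0 13454515 0) (P.cons (P.lf 1732552 0 0) (P.lf 115502 0 0)))) (P.cons (P.cons (P.lf 24297938 0 0) (P.cons (P.lf 2027419 0 0) (P.cons (P.lf 0 261072 0) (P.lf 0 17403 0)))) (P.cons (P.cons (P.lf 4177098 0 0) (P.cons (P.lf 0 7441 0) (P.cons (P.lf 958 0 0) P.nil))) (P.cons (P.cons (P.lf 0 629981 0) (P.cons (P.lf 0 29675 0) P.nil)) (P.cons (P.cons (P.lf 0 9154 0) P.nil) P.nil)))))) 18897)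
 EL.nil))
noncomputable def S343_372_660_734_11 : EL := (EL.cons 3 (TM.mk (P.cons (P.cons (P.lf 23562961 0 0) (P.cons (P.lf 10015244 0 0) (P.cons (P.lf 0 225448 0) (P.cons (P.lf 0 360060 0) (P.cons (P.lf 0 624 0) (P.cons (P.lf 2352 0 0) P.nil)))))) (P.cons (P.cons (P.lf 0 77681330 0) (P.cons (P.lf 0 19537705 0) (P.cons (P.lf 1872208 0 0) (P.cons (P.lf 333499 0 0) (P.cons (P.lf 376 0 0) P.nil))))) (P.cons (P.cons (P.lf 59198130 0 0) (P.cons (P.lf 4071671 0 0) (P.cons (P.lf 0 404732 0) (P.cons (P.lf 0 65748 0) P.nil)))) (P.cons (P.cons (P.lf 9448575 0 0) (P.cons (P.lf 510969 0 0) (P.cons (P.lf 0 60635 0) P.nil))) (P.cons (P.cons (P.lf 0 2228438 0) (P.cons (P.lf 0 208660 0) P.nil)) (P.cons (P.cons (P.lf 0 144042 0) P.nil) P.nil)))))) 178028)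
 (EL.cons 7 (TM.mk (P.cons (P.cons (P.lf 0 12733814 0) (P.cons (P.lf 0 5412403 0) (P.cons (P.lf 121836 0 0) (P.cons (P.lf 194582 0 0) (P.cons (P.lf 337 0 0) (P.cons (P.lf 0 1271 0) P.nil)))))) (P.cons (P.cons (P.lf 44689139 0 0) (P.cons (P.lf 11709879 0 0) (P.cons (P.lf 0 1037690 0) (P.cons (P.lf 0 221622 0) (P.cons (P.lf 0 275 0) P.nil))))) (P.cons (P.cons (P.lf 0 41245537 0) (P.cons (P.lf 0 4583977 0) (P.cons (P.lf 437053 0 0) (P.cons (P.lf 78814 0 0) P.nil)))) (P.cons (P.cons (P.lf 2811878 0 0) (P.cons (P.lf 479769 0 0) (P.cons (P.lf 0 39900 0) P.nil))) (P.cons (P.cons (P.lf 1319038 0 0) (P.cons (P.lf 74501 0 0) P.nil)) (P.cons (P.cons (P.lf 0 169253 0) P.nil) P.nil)))))) 94565)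
 EL.nil))
noncomputable def S343_372_660_734_12 : EL := (EL.cons 4 (TM.mk (P.cons (P.lf 0 2668545243 0) (P.cons (P.lf 0 256005836 0) (P.cons (P.lf 20956361 0 0) (P.cons (P.lf 0 125291 0) (P.cons (P.lf 0 64357 0) (P.cons (P.lf 3438 0 0) P.nil)))))) 378)
 (EL.cons 8 (TM.mk (P.cons (P.lf 1442125985 0 0) (P.cons (P.lf 0 168433589 0) (P.cons (P.lf 0 4127638 0) (P.cons (P.lf 758202 0 0) (P.cons (P.lf 0 21743 0) (P.cons (P.lf 0 1521 0) P.nil)))))) 224)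
 EL.nil))
noncomputable def S343_372_660_734_13 : EL := (EL.cons 4 (TM.mk (P.cons (P.cons (P.lf 250756517 0 0) (P.cons (P.lf 53291006 0 0) (P.cons (P.lf 0 6862339 0) (P.lf 0 457486 0)))) (P.cons (P.cons (P.lf 0 401313378 0) (P.cons (P.lf 0 13559970 0) (P.cons (P.lf 1746131 0 0) (P.lf 116405 0 0)))) (P.cons (P.cons (P.lf 0 46778854 0) (P.cons (P.lf 0 486567 0) (P.cons (P.lf 62656 0 0) (P.lf 4177 0 0)))) (P.cons (P.cons (P.lf 8880985 0 0) (P.cons (P.lf 420495 0 0) (P.cons (P.lf 0 54147 0) P.nil))) (P.cons (P.cons (P.lf 325537 0 0) (P.cons (P.lf 0 29926 0) P.nil)) (P.cons (P.cons (P.lf 0 116400 0) P.nil) P.nil)))))) 32110)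
 (EL.cons 8 (TM.mk (P.cons (P.cons (P.lf 0 135512969 0) (P.cons (P.lf 0 28799341 0) (P.cons (P.lf 3708522 0 0) (P.lf 247233 0 0)))) (P.cons (P.cons (P.lf 245704053 0 0) (P.cons (P.lf 13454515 0 0) (P.cons (P.lf 0 1732552 0) (P.lf 0 115502 0)))) (P.cons (P.cons (P.lf 0 24297938 0) (P.cons (P.lf 0 2027419 0) (P.cons (P.lf 261072 0 0) (P.lf 17403 0 0)))) (P.cons (P.cons (P.lf 0 4177098 0) (P.cons (P.lf 7441 0 0) (P.cons (P.lf 0 958 0) P.nil))) (P.cons (P.cons (P.lf 629981 0 0) (P.cons (P.lf 29675 0 0) P.nil)) (P.cons (P.cons (P.lf 9154 0 0) P.nil) P.nil)))))) 18897)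
 EL.nil))
noncomputable def S343_372_660_734_14 : EL := (EL.cons 4 (TM.mk (P.cons (P.cons (P.lf 0 23562961 0) (P.cons (P.lf 0 10015244 0) (P.cons (P.lf 225448 0 0) (P.cons (P.lf 360060 0 0) (P.cons (P.lf 624 0 0) (P.cons (P.lf 0 2352 0) P.nil)))))) (P.cons (P.cons (P.lf 77681330 0 0) (P.cons (P.lf 19537705 0 0) (P.cons (P.lf 0 1872208 0) (P.cons (P.lf 0 333499 0) (P.cons (P.lf 0 376 0) P.nil))))) (P.cons (P.cons (P.lf 0 59198130 0) (P.cons (P.lf 0 4071671 0) (P.cons (P.lf 404732 0 0) (P.cons (P.lf 65748 0 0) P.nil)))) (P.cons (P.cons (P.lf 0 9448575 0) (P.cons (P.lf 0 510969 0) (P.cons (P.lf 60635 0 0) P.nil))) (P.cons (P.cons (P.lf 2228438 0 0) (P.cons (P.lf 208660 0 0) P.nil)) (P.cons (P.cons (P.lf 144042 0 0) P.nil) P.nil)))))) 178028)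
 (EL.cons 8 (TM.mk (P.cons (P.cons (P.lf 12733814 0 0) (P.cons (P.lf 5412403 0 0) (P.cons (P.lf 0 121836 0) (P.cons (P.lf 0 194582 0) (P.cons (P.lf 0 337 0) (P.cons (P.lf 1271 0 0) P.nil)))))) (P.cons (P.cons (P.lf 0 44689139 0) (P.cons (P.lf 0 11709879 0) (P.cons (P.lf 1037690 0 0) (P.cons (P.lf 221622 0 0) (P.cons (P.lf 275 0 0) P.nil))))) (P.cons (P.cons (P.lf 41245537 0 0) (P.cons (P.lf 4583977 0 0) (P.cons (P.lf 0 437053 0) (P.cons (P.lf 0 78814 0) P.nil)))) (P.cons (P.cons (P.lf 0 2811878 0) (P.cons (P.lf 0 479769 0) (P.cons (P.lf 39900 0 0) P.nil))) (P.cons (P.cons (P.lf 0 1319038 0) (P.cons (P.lf 0 74501 0) P.nil)) (P.cons (P.cons (P.lf 169253 0 0) P.nil) P.nil)))))) 94565)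
 EL.nil))
noncomputable def S343_372_660_734_15 : EL := (EL.cons 4 (TM.mk (P.cons (P.lf 0 1768552689 0) (P.cons (P.lf 0 339330810 0) (P.cons (P.lf 11500469 0 0) (P.cons (P.lf 2498728 0 0) (P.cons (P.lf 0 210304 0) (P.cons (P.lf 0 2321 0) P.nil)))))) 1708)
 (EL.cons 8 (TM.mk (P.cons (P.lf 955755124 0 0) (P.cons (P.lf 0 19937749 0) (P.cons (P.lf 0 20950159 0) (P.cons (P.lf 1161554 0 0) (P.cons (P.lf 73087 0 0) (P.cons (P.lf 0 10388 0) P.nil)))))) 788)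
 EL.nil))
noncomputable def S343_372_660_734_16 : EL := (EL.cons 4 (TM.mk (P.cons (P.cons (P.lf 166186470 0 0) (P.cons (P.lf 35318101 0 0) (P.cons (P.lf 0 4547949 0) (P.lf 0 303195 0)))) (P.cons (P.cons (P.lf 0 250023547 0) (P.cons (P.lf 0 5598511 0) (P.cons (P.lf 720925 0 0) (P.lf 48060 0 0)))) (P.cons (P.cons (P.lf 0 57822714 0) (P.cons (P.lf 0 1461963 0) (P.cons (P.lf 188259 0 0) (P.lf 12550 0 0)))) (P.cons (P.cons (P.lf 5008065 0 0) (P.cons (P.lf 319975 0 0) (P.cons (P.lf 0 41203 0) P.nil))) (P.cons (P.cons (P.lf 1015380 0 0) (P.cons (P.lf 9862 0 0) P.nil)) (P.cons (P.cons (P.lf 0 110751 0) P.nil) P.nil)))))) 40349)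
 (EL.cons 8 (TM.mk (P.cons (P.cons (P.lf 0 89809916 0) (P.cons (P.lf 0 19086486 0) (P.cons (P.lf 2457787 0 0) (P.lf 163851 0 0)))) (P.cons (P.cons (P.lf 154222118 0 0) (P.cons (P.lf 7085795 0 0) (P.cons (P.lf 0 912445 0) (P.lf 0 60828 0)))) (P.cons (P.cons (P.lf 223860 0 0) (P.cons (P.lf 0 338330 0) (P.cons (P.lf 43566 0 0) (P.lf 2904 0 0)))) (P.cons (P.cons (P.lf 0 5596188 0) (P.cons (P.lf 0 194891 0) (P.cons (P.lf 25096 0 0) P.nil))) (P.cons (P.cons (P.lf 283875 0 0) (P.cons (P.lf 30650 0 0) P.nil)) (P.cons (P.cons (P.lf 71147 0 0) P.nil) P.nil)))))) 25681)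
 EL.nil))
noncomputable def S343_372_660_734_17 : EL := (EL.cons 4 (TM.mk (P.cons (P.cons (P.lf 0 15616125 0) (P.cons (P.lf 0 6637506 0) (P.cons (P.lf 149413 0 0) (P.cons (P.lf 238625 0 0) (P.cons (P.lf 413 0 0) (P.cons (P.lf 0 1558 0) P.nil)))))) (P.cons (P.cons (P.lf 49984427 0 0) (P.cons (P.lf 12311659 0 0) (P.cons (P.lf 0 1226453 0) (P.cons (P.lf 0 198131 0) (P.cons (P.lf 0 210 0) P.nil))))) (P.cons (P.cons (P.lf 0 34171397 0) (P.cons (P.lf 0 1404134 0) (P.cons (P.lf 148024 0 0) (P.cons (P.lf 20496 0 0) P.nil)))) (P.cons (P.cons (P.lf 0 10430785 0) (P.cons (P.lf 0 699512 0) (P.cons (P.lf 75669 0 0) P.nil))) (P.cons (P.cons (P.lf 1186279 0 0) (P.cons (P.lf 127440 0 0) P.nil)) (P.cons (P.cons (P.lf 285741 0 0) P.nil) P.nil)))))) 160978)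
 (EL.cons 8 (TM.mk (P.cons (P.cons (P.lf 8439212 0 0) (P.cons (P.lf 3587018 0 0) (P.cons (P.lf 0 80745 0) (P.cons (P.lf 0 128957 0) (P.cons (P.lf 0 223 0) (P.cons (P.lf 842 0 0) P.nil)))))) (P.cons (P.cons (P.lf 0 28807684 0) (P.cons (P.lf 0 7416490 0) (P.cons (P.lf 679973 0 0) (P.cons (P.lf 134506 0 0) (P.cons (P.lf 161 0 0) P.nil))))) (P.cons (P.cons (P.lf 24427485 0 0) (P.cons (P.lf 2265306 0 0) (P.cons (P.lf 0 223042 0) (P.cons (P.lf 0 37129 0) P.nil)))) (P.cons (P.cons (P.lf 991818 0 0) (P.cons (P.lf 34599 0 0) (P.cons (P.lf 0 6748 0) P.nil))) (P.cons (P.cons (P.lf 0 1268810 0) (P.cons (P.lf 0 104014 0) P.nil)) (P.cons (P.cons (P.lf 43499 0 0) P.nil) P.nil)))))) 99980)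
 EL.nil))
noncomputable def S343_372_660_734_18 : EL := (EL.cons 4 (TM.mk (P.cons (P.lf 0 1172091282 0) (P.cons (P.lf 0 337332345 0) (P.cons (P.lf 0 4748184 0) (P.cons (P.lf 4098243 0 0) (P.cons (P.lf 0 79189 0) (P.cons (P.lf 0 31469 0) P.nil)))))) 3321)
 (EL.cons 8 (TM.mk (P.cons (P.lf 633417514 0 0) (P.cons (P.lf 47553107 0 0) (P.cons (P.lf 0 20126446 0) (P.cons (P.lf 0 428689 0) (P.cons (P.lf 245981 0 0) (P.cons (P.lf 0 10070 0) P.nil)))))) 1843)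
 EL.nil))
noncomputable def S343_372_660_734_19 : EL := (EL.cons 4 (TM.mk (P.cons (P.cons (P.lf 110138484 0 0) (P.cons (P.lf 23406732 0 0) (P.cons (P.lf 0 3014109 0) (P.lf 0 200939 0)))) (P.cons (P.cons (P.lf 0 155134608 0) (P.cons (P.lf 0 1464844 0) (P.cons (P.lf 188628 0 0) (P.lf 12573 0 0)))) (P.cons (P.cons (P.lf 0 55082807 0) (P.cons (P.lf 0 1508670 0) (P.cons (P.lf 194273 0 0) (P.lf 12951 0 0)))) (P.cons (P.cons (P.lf 949130 0 0) (P.cons (P.lf 149345 0 0) (P.cons (P.lf 0 19230 0) P.nil))) (P.cons (P.cons (P.lf 1287164 0 0) (P.cons (P.lf 34879 0 0) P.nil)) (P.cons (P.cons (P.lf 0 40844 0) P.nil) P.nil)))))) 46099)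
 (EL.cons 8 (TM.mk (P.cons (P.cons (P.lf 0 59520658 0) (P.cons (P.lf 0 12649385 0) (P.cons (P.lf 1628874 0 0) (P.lf 108591 0 0)))) (P.cons (P.cons (P.lf 96499134 0 0) (P.cons (P.lf 3482529 0 0) (P.cons (P.lf 0 448448 0) (P.lf 0 29895 0)))) (P.cons (P.cons (P.lf 10421184 0 0) (P.cons (P.lf 325624 0 0) (P.cons (P.lf 0 41931 0) (P.lf 0 2795 0)))) (P.cons (P.cons (P.lf 0 4500041 0) (P.cons (P.lf 0 188145 0) (P.cons (P.lf 24227 0 0) P.nil))) (P.cons (P.cons (P.lf 0 165469 0) (P.cons (P.lf 9598 0 0) P.nil)) (P.cons (P.cons (P.lf 96875 0 0) P.nil) P.nil)))))) 27606)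
 EL.nil))
noncomputable def S343_372_660_734_20 : EL := (EL.cons 4 (TM.mk (P.cons (P.cons (P.lf 0 10349437 0) (P.cons (P.lf 0 4398943 0) (P.cons (P.lf 99022 0 0) (P.cons (P.lf 158146 0 0) (P.cons (P.lf 273 0 0) (P.cons (P.lf 0 1033 0) P.nil)))))) (P.cons (P.cons (P.lf 32133828 0 0) (P.cons (P.lf 7737422 0 0) (P.cons (P.lf 0 803320 0) (P.cons (P.lf 0 116137 0) (P.cons (P.lf 0 112 0) P.nil))))) (P.cons (P.cons (P.lf 0 19387492 0) (P.cons (P.lf 0 113258 0) (P.cons (P.lf 19346 0 0) (P.cons (P.lf 0 254 0) P.nil)))) (P.cons (P.cons (P.lf 0 9346143 0) (P.cons (P.lf 0 617152 0) (P.cons (P.lf 65948 0 0) P.nil))) (P.cons (P.cons (P.lf 302161 0 0) (P.cons (P.lf 47569 0 0) P.nil)) (P.cons (P.cons (P.lf 318832 0 0) P.nil) P.nil)))))) 133677)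
 (EL.cons 8 (TM.mk (P.cons (P.cons (P.lf 5593007 0 0) (P.cons (P.lf 2377261 0 0) (P.cons (P.lf 0 53513 0) (P.cons (P.lf 0 85465 0) (P.cons (P.lf 0 148 0) (P.cons (P.lf 558 0 0) P.nil)))))) (P.cons (P.cons (P.lf 0 18555453 0) (P.cons (P.lf 0 4687146 0) (P.cons (P.lf 445511 0 0) (P.cons (P.lf 80943 0 0) (P.cons (P.lf 92 0 0) P.nil))))) (P.cons (P.cons (P.lf 14313573 0 0) (P.cons (P.lf 1011102 0 0) (P.cons (P.lf 0 104166 0) (P.cons (P.lf 0 15384 0) P.nil)))) (P.cons (P.cons (P.lf 2360605 0 0) (P.cons (P.lf 205669 0 0) (P.cons (P.lf 0 22194 0) P.nil))) (P.cons (P.cons (P.lf 0 905728 0) (P.cons (P.lf 0 78698 0) P.nil)) (P.cons (P.cons (P.lf 0 56710 0) P.nil) P.nil)))))) 92203)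
 EL.nil))
noncomputable def S343_372_660_734_21 : EL := (EL.cons 4 (TM.mk (P.cons (P.cons (P.lf 0 3642008520 0) (P.cons (P.lf 0 159873018 0) (P.cons (P.lf 20587017 0 0) (P.lf 1372458 0 0)))) (P.cons (P.cons (P.lf 185947704 0 0) (P.cons (P.lf 40679910 0 0) (P.cons (P.lf 0 5238393 0) (P.lf 0 349215 0)))) (P.cons (P.cons (P.lf 174837975 0 0) (P.cons (P.lf 1459701 0 0) (P.cons (P.lf 0 187968 0) (P.lf 0 12531 0)))) (P.cons (P.cons (P.lf 0 19146774 0) (P.cons (P.lf 0 1261485 0) (P.cons (P.lf 162441 0 0) P.nil))) (P.cons (P.cons (P.lf 0 1607526 0) (P.cons (P.lf 89778 0 0) P.nil)) (P.cons (P.cons (P.lf 342240 0 0) P.nil) P.nil)))))) 101241)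
 (EL.cons 8 (TM.mk (P.cons (P.cons (P.lf 0 2396181981 0) (P.cons (P.lf 0 105185061 0) (P.cons (P.lf 13544799 0 0) (P.lf 902991 0 0)))) (P.cons (P.cons (P.lf 0 387399303 0) (P.cons (P.lf 4388475 0 0) (P.cons (P.lf 0 565110 0) (P.lf 0 37677 0)))) (P.cons (P.cons (P.lf 93480297 0 0) (P.cons (P.lf 4565538 0 0) (P.cons (P.lf 0 587907 0) (P.lf 0 39189 0)))) (P.cons (P.cons (P.lf 8434017 0 0) (P.cons (P.lf 0 351861 0) (P.cons (P.lf 45309 0 0) P.nil))) (P.cons (P.cons (P.lf 0 1801368 0) (P.cons (P.lf 0 61290 0) P.nil)) (P.cons (P.cons (P.lf 0 9696 0) P.nil) P.nil)))))) 66558)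
 (EL.cons 11 (TM.mk (P.cons (P.cons (P.lf 826011594 0 0) (P.cons (P.lf 0 235807644 0) (P.cons (P.lf 0 17638032 0) (P.cons (P.lf 1188546 0 0) (P.lf 59427 0 0))))) (P.cons (P.cons (P.lf 0 192948603 0) (P.cons (P.lf 55082466 0 0) (P.cons (P.lf 4120077 0 0) (P.cons (P.lf 0 277632 0) (P.lf 0 13881 0))))) (P.cons (P.cons (P.lf 6539343 0 0) (P.cons (P.lf 0 1866834 0) (P.cons (P.lf 0 139635 0) (P.cons (P.lf 9408 0 0) P.nil)))) (P.cons (P.cons (P.lf 1420809 0 0) (P.cons (P.lf 0 405609 0) (P.cons (P.lf 0 30336 0) P.nil))) (P.cons (P.cons (P.lf 0 119583 0) (P.cons (P.lf 34137 0 0) P.nil)) (P.cons (P.cons (P.lf 0 1317 0) P.nil) P.nil)))))) 6933)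
 EL.nil)))
noncomputable def S343_372_660_734_22 : EL := (EL.cons 4 (TM.mk (P.cons (P.cons (P.lf 342230424 0 0) (P.cons (P.lf 87753993 0 0) (P.cons (P.lf 0 8107500 0) (P.cons (P.lf 0 1575588 0) (P.cons (P.lf 0 1875 0) (P.cons (P.lf 7056 0 0) P.nil)))))) (P.cons (P.cons (P.lf 0 598013967 0) (P.cons (P.lf 0 58503912 0) (P.cons (P.lf 5602560 0 0) (P.cons (P.lf 999558 0 0) (P.cons (P.lf 1131 0 0) P.nil))))) (P.cons (P.cons (P.lf 7749360 0 0) (P.cons (P.lf 6268995 0 0) (P.cons (P.lf 0 448524 0) (P.cons (P.lf 0 146202 0) P.nil)))) (P.cons (P.cons (P.lf 38016999 0 0) (P.cons (P.lf 2396835 0 0) (P.cons (P.lf 0 293151 0) P.nil))) (P.cons (P.cons (P.lf 0 3404514 0) (P.cons (P.lf 0 571971 0) P.nil)) (P.cons (P.cons (P.lf 0 733296 0) P.nil) P.nil)))))) 422028)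
 (EL.cons 8 (TM.mk (P.cons (P.cons (P.lf 225163221 0 0) (P.cons (P.lf 57735873 0 0) (P.cons (P.lf 0 5334159 0) (P.cons (P.lf 0 1036626 0) (P.cons (P.lf 0 1233 0) (P.cons (P.lf 4644 0 0) P.nil)))))) (P.cons (P.cons (P.lf 0 345551601 0) (P.cons (P.lf 0 26209257 0) (P.cons (P.lf 2551350 0 0) (P.cons (P.lf 437121 0 0) (P.cons (P.lf 483 0 0) P.nil))))) (P.cons (P.cons (P.lf 0 74129580 0) (P.cons (P.lf 0 2917377 0) (P.cons (P.lf 383130 0 0) (P.cons (P.lf 23121 0 0) P.nil)))) (P.cons (P.cons (P.lf 18836577 0 0) (P.cons (P.lf 1831512 0 0) (P.cons (P.lf 0 195525 0) P.nil))) (P.cons (P.cons (P.lf 2279469 0 0) (P.cons (P.lf 0 37626 0) P.nil)) (P.cons (P.cons (P.lf 0 549159 0) P.nil) P.nil)))))) 220035)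
 (EL.cons 11 (TM.mk (P.cons (P.cons (P.lf 0 77618241 0) (P.cons (P.lf 5662752 0 0) (P.cons (P.lf 8490636 0 0) (P.cons (P.lf 0 224238 0) (P.cons (P.lf 0 115101 0) (P.cons (P.lf 0 1152 0) P.nil)))))) (P.cons (P.cons (P.lf 149798226 0 0) (P.cons (P.lf 0 33131019 0) (P.cons (P.lf 0 7189128 0) (P.cons (P.lf 281271 0 0) (P.cons (P.lf 74733 0 0) P.nil))))) (P.cons (P.cons (P.lf 0 30131988 0) (P.cons (P.lf 6587892 0 0) (P.cons (P.lf 1477755 0 0) (P.cons (P.lf 0 57099 0) P.nil)))) (P.cons (P.cons (P.lf 0 1210677 0) (P.cons (P.lf 454782 0 0) (P.cons (P.lf 0 19368 0) P.nil))) (P.cons (P.cons (P.lf 755265 0 0) (P.cons (P.lf 0 191487 0) P.nil)) (P.cons (P.cons (P.lf 0 39408 0) P.nil) P.nil)))))) 117210)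
 EL.nil)))
noncomputable def S343_372_660_734_23 : EL := (EL.cons 4 (TM.mk (P.cons (P.cons (P.lf 0 2413706112 0) (P.cons (P.lf 0 105954303 0) (P.cons (P.lf 13643847 0 0) (P.lf 909582 0 0)))) (P.cons (P.cons (P.lf 0 108322890 0) (P.cons (P.lf 16795533 0 0) (P.cons (P.lf 0 2162775 0) (P.lf 0 144177 0)))) (P.cons (P.cons (P.lf 146649774 0 0) (P.cons (P.lf 4385889 0 0) (P.cons (P.lf 0 564774 0) (P.lf 0 37650 0)))) (P.cons (P.cons (P.lf 0 2654289 0) (P.cons (P.lf 0 959925 0) (P.cons (P.lf 123609 0 0) P.nil))) (P.cons (P.cons (P.lf 0 3245100 0) (P.cons (P.lf 0 29589 0) P.nil)) (P.cons (P.cons (P.lf 235782 0 0) P.nil) P.nil)))))) 139761)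
 (EL.cons 8 (TM.mk (P.cons (P.cons (P.lf 0 1588046556 0) (P.cons (P.lf 0 69710385 0) (P.cons (P.lf 8976684 0 0) (P.lf 598446 0 0)))) (P.cons (P.cons (P.lf 0 409093782 0) (P.cons (P.lf 0 3779217 0) (P.cons (P.lf 486651 0 0) (P.lf 32439 0 0)))) (P.cons (P.cons (P.lf 49793514 0 0) (P.cons (P.lf 3852225 0 0) (P.cons (P.lf 0 496053 0) (P.lf 0 33066 0)))) (P.cons (P.cons (P.lf 13474701 0 0) (P.cons (P.lf 30969 0 0) (P.cons (P.lf 0 3987 0) P.nil))) (P.cons (P.cons (P.lf 0 1194483 0) (P.cons (P.lf 0 88296 0) P.nil)) (P.cons (P.cons (P.lf 0 166086 0) P.nil) P.nil)))))) 77313)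
 (EL.cons 11 (TM.mk (P.cons (P.cons (P.lf 547431237 0 0) (P.cons (P.lf 0 156279246 0) (P.cons (P.lf 0 11689434 0) (P.cons (P.lf 787695 0 0) (P.lf 39384 0 0))))) (P.cons (P.cons (P.lf 0 75357228 0) (P.cons (P.lf 21512784 0 0) (P.cons (P.lf 1609119 0 0) (P.cons (P.lf 0 108429 0) (P.lf 0 5421 0))))) (P.cons (P.cons (P.lf 0 12232767 0) (P.cons (P.lf 3492177 0 0) (P.cons (P.lf 261210 0 0) (P.cons (P.lf 0 17601 0) P.nil)))) (P.cons (P.cons (P.lf 2387313 0 0) (P.cons (P.lf 0 681522 0) (P.cons (P.lf 0 50973 0) P.nil))) (P.cons (P.cons (P.lf 0 15753 0) (P.cons (P.lf 4494 0 0) P.nil)) (P.cons (P.cons (P.lf 0 19455 0) P.nil) P.nil)))))) 18765)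
 EL.nil)))
noncomputable def S343_372_660_734_24 : EL := (EL.cons 4 (TM.mk (P.cons (P.cons (P.lf 226809921 0 0) (P.cons (P.lf 58158114 0 0) (P.cons (P.lf 0 5373168 0) (P.cons (P.lf 0 1044204 0) (P.cons (P.lf 0 1242 0) (P.cons (P.lf 4677 0 0) P.nil)))))) (P.cons (P.cons (P.lf 0 374569083 0) (P.cons (P.lf 0 33193527 0) (P.cons (P.lf 3197568 0 0) (P.cons (P.lf 562272 0 0) (P.cons (P.lf 630 0 0) P.nil))))) (P.cons (P.cons (P.lf 0 34666917 0) (P.cons (P.lf 0 21666 0) (P.cons (P.lf 101148 0 0) (P.cons (P.lf 0 25143 0) P.nil)))) (P.cons (P.cons (P.lf 28811157 0 0) (P.cons (P.lf 2294277 0 0) (P.cons (P.lf 0 252213 0) P.nil))) (P.cons (P.cons (P.lf 107331 0 0) (P.cons (P.lf 0 259722 0) P.nil)) (P.cons (P.cons (P.lf 0 909915 0) P.nil) P.nil)))))) 371565)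
 (EL.cons 8 (TM.mk (P.cons (P.cons (P.lf 149224758 0 0) (P.cons (P.lf 38263893 0 0) (P.cons (P.lf 0 3535161 0) (P.cons (P.lf 0 687012 0) (P.cons (P.lf 0 816 0) (P.cons (P.lf 3075 0 0) P.nil)))))) (P.cons (P.cons (P.lf 0 214695180 0) (P.cons (P.lf 0 13699101 0) (P.cons (P.lf 1351737 0 0) (P.cons (P.lf 223788 0 0) (P.cons (P.lf 240 0 0) P.nil))))) (P.cons (P.cons (P.lf 0 72270621 0) (P.cons (P.lf 0 3900330 0) (P.cons (P.lf 443892 0 0) (P.cons (P.lf 48510 0 0) P.nil)))) (P.cons (P.cons (P.lf 9576072 0 0) (P.cons (P.lf 1166535 0 0) (P.cons (P.lf 0 118668 0) P.nil))) (P.cons (P.cons (P.lf 3086979 0 0) (P.cons (P.lf 106800 0 0) P.nil)) (P.cons (P.cons (P.lf 0 325080 0) P.nil) P.nil)))))) 214809)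
 (EL.cons 11 (TM.mk (P.cons (P.cons (P.lf 0 51440742 0) (P.cons (P.lf 3752934 0 0) (P.cons (P.lf 5627088 0 0) (P.cons (P.lf 0 148611 0) (P.cons (P.lf 0 76281 0) (P.cons (P.lf 0 762 0) P.nil)))))) (P.cons (P.cons (P.lf 94342386 0 0) (P.cons (P.lf 0 21597228 0) (P.cons (P.lf 0 4224693 0) (P.cons (P.lf 172152 0 0) (P.cons (P.lf 42210 0 0) P.nil))))) (P.cons (P.cons (P.lf 0 10041585 0) (P.cons (P.lf 2230128 0 0) (P.cons (P.lf 478095 0 0) (P.cons (P.lf 0 18789 0) P.nil)))) (P.cons (P.cons (P.lf 0 3500199 0) (P.cons (P.lf 892866 0 0) (P.cons (P.lf 118797 0 0) P.nil))) (P.cons (P.cons (P.lf 583815 0 0) (P.cons (P.lf 0 133218 0) P.nil)) (P.cons (P.cons (P.lf 29724 0 0) P.nil) P.nil)))))) 114978)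
 EL.nil)))
noncomputable def S343_372_660_734_25 : EL := (EL.cons 4 (TM.mk (P.cons (P.cons (P.lf 0 1599660504 0) (P.cons (P.lf 0 70220196 0) (P.cons (P.lf 9042327 0 0) (P.lf 602817 0 0)))) (P.cons (P.cons (P.lf 0 225252753 0) (P.cons (P.lf 4394532 0 0) (P.cons (P.lf 0 565887 0) (P.lf 0 37719 0)))) (P.cons (P.cons (P.lf 102865884 0 0) (P.cons (P.lf 4526007 0 0) (P.cons (P.lf 0 582819 0) (P.lf 0 38853 0)))) (P.cons (P.cons (P.lf 8053515 0 0) (P.cons (P.lf 0 448038 0) (P.cons (P.lf 57693 0 0) P.nil))) (P.cons (P.cons (P.lf 0 3124614 0) (P.cons (P.lf 0 104640 0) P.nil)) (P.cons (P.cons (P.lf 0 31350 0) P.nil) P.nil)))))) 151524)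
 (EL.cons 8 (TM.mk (P.cons (P.cons (P.lf 0 1052462577 0) (P.cons (P.lf 0 46199886 0) (P.cons (P.lf 5949210 0 0) (P.lf 396615 0 0)))) (P.cons (P.cons (P.lf 0 372090549 0) (P.cons (P.lf 0 6936807 0) (P.cons (P.lf 893259 0 0) (P.lf 59547 0 0)))) (P.cons (P.cons (P.lf 15255192 0 0) (P.cons (P.lf 2675556 0 0) (P.cons (P.lf 0 344532 0) (P.lf 0 22965 0)))) (P.cons (P.cons (P.lf 14175828 0 0) (P.cons (P.lf 282948 0 0) (P.cons (P.lf 0 36435 0) P.nil))) (P.cons (P.cons (P.lf 0 232179 0) (P.cons (P.lf 0 77829 0) P.nil)) (P.cons (P.cons (P.lf 0 259779 0) P.nil) P.nil)))))) 75777)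
 (EL.cons 11 (TM.mk (P.cons (P.cons (P.lf 362804784 0 0) (P.cons (P.lf 0 103572567 0) (P.cons (P.lf 0 7747059 0) (P.cons (P.lf 522036 0 0) (P.lf 26100 0 0))))) (P.cons (P.cons (P.lf 0 15136743 0) (P.cons (P.lf 4321197 0 0) (P.cons (P.lf 323217 0 0) (P.cons (P.lf 0 21777 0) (P.lf 0 1086 0))))) (P.cons (P.cons (P.lf 0 15747486 0) (P.cons (P.lf 4495551 0 0) (P.cons (P.lf 336258 0 0) (P.cons (P.lf 0 22659 0) P.nil)))) (P.cons (P.cons (P.lf 1213647 0 0) (P.cons (P.lf 0 346467 0) (P.cons (P.lf 0 25911 0) P.nil))) (P.cons (P.cons (P.lf 211413 0 0) (P.cons (P.lf 0 60354 0) P.nil)) (P.cons (P.cons (P.lf 0 28371 0) P.nil) P.nil)))))) 25863)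
 EL.nil)))
noncomputable def S343_372_660_734_26 : EL := (EL.cons 4 (TM.mk (P.cons (P.cons (P.lf 150316092 0 0) (P.cons (P.lf 38543730 0 0) (P.cons (P.lf 0 3561015 0) (P.cons (P.lf 0 692037 0) (P.cons (P.lf 0 822 0) (P.cons (P.lf 3099 0 0) P.nil)))))) (P.cons (P.cons (P.lf 0 233821539 0) (P.cons (P.lf 0 18301014 0) (P.cons (P.lf 1777533 0 0) (P.cons (P.lf 306249 0 0) (P.cons (P.lf 339 0 0) P.nil))))) (P.cons (P.cons (P.lf 0 47970615 0) (P.cons (P.lf 0 2427483 0) (P.cons (P.lf 298299 0 0) (P.cons (P.lf 24519 0 0) P.nil)))) (P.cons (P.cons (P.lf 18846729 0 0) (P.cons (P.lf 1693698 0 0) (P.cons (P.lf 0 177528 0) P.nil))) (P.cons (P.cons (P.lf 2075334 0 0) (P.cons (P.lf 0 26250 0) P.nil)) (P.cons (P.cons (P.lf 0 753420 0) P.nil) P.nil)))))) 355767)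
 (EL.cons 8 (TM.mk (P.cons (P.cons (P.lf 98897274 0 0) (P.cons (P.lf 25359027 0 0) (P.cons (P.lf 0 2342892 0) (P.cons (P.lf 0 455310 0) (P.cons (P.lf 0 540 0) (P.cons (P.lf 2037 0 0) P.nil)))))) (P.cons (P.cons (P.lf 0 132799494 0) (P.cons (P.lf 0 6646137 0) (P.cons (P.lf 671085 0 0) (P.cons (P.lf 104631 0 0) (P.cons (P.lf 108 0 0) P.nil))))) (P.cons (P.cons (P.lf 0 62323572 0) (P.cons (P.lf 0 3655038 0) (P.cons (P.lf 398526 0 0) (P.cons (P.lf 49953 0 0) P.nil)))) (P.cons (P.cons (P.lf 2873541 0 0) (P.cons (P.lf 597615 0 0) (P.cons (P.lf 0 57567 0) P.nil))) (P.cons (P.cons (P.lf 3026550 0 0) (P.cons (P.lf 165432 0 0) P.nil)) (P.cons (P.cons (P.lf 0 74820 0) P.nil) P.nil)))))) 209157)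
 (EL.cons 11 (TM.mk (P.cons (P.cons (P.lf 0 34091856 0) (P.cons (P.lf 2487219 0 0) (P.cons (P.lf 3729297 0 0) (P.cons (P.lf 0 98490 0) (P.cons (P.lf 0 50556 0) (P.cons (P.lf 0 504 0) P.nil)))))) (P.cons (P.cons (P.lf 59253918 0 0) (P.cons (P.lf 0 14074743 0) (P.cons (P.lf 0 2442105 0) (P.cons (P.lf 104643 0 0) (P.cons (P.lf 23124 0 0) P.nil))))) (P.cons (P.cons (P.lf 0 388971 0) (P.cons (P.lf 85317 0 0) (P.cons (P.lf 18960 0 0) (P.cons (P.lf 0 735 0) P.nil)))) (P.cons (P.cons (P.lf 0 3450774 0) (P.cons (P.lf 846051 0 0) (P.cons (P.lf 131292 0 0) P.nil))) (P.cons (P.cons (P.lf 218751 0 0) (P.cons (P.lf 0 43740 0) P.nil)) (P.cons (P.cons (P.lf 76275 0 0) P.nil) P.nil)))))) 114330)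
 EL.nil)))
noncomputable def S343_372_660_734_27 : EL := (EL.cons 13 (TM.mk (P.lf 0 4294967296 0) 0)
 EL.nil)
noncomputable def S343_372_660_734_28 : EL := (EL.cons 13 (TM.mk (P.cons (P.cons (P.lf 403587328 0 0) (P.cons (P.lf 85770752 0 0) (P.cons (P.lf 0 11044792 0) (P.lf 0 736316 0)))) (P.cons (P.cons (P.lf 0 684623413 0) (P.cons (P.lf 0 30052872 0) (P.cons (P.lf 3869940 0 0) (P.lf 257992 0 0)))) (P.cons (P.cons (P.lf 0 6441091 0) (P.cons (P.lf 2773556 0 0) (P.cons (P.lf 0 357152 0) (P.lf 0 23808 0)))) (P.cons (P.cons (P.lf 9516316 0 0) (P.cons (P.lf 170664 0 0) (P.cons (P.lf 0 21976 0) P.nil))) (P.cons (P.cons (P.lf 0 417170 0) (P.cons (P.lf 0 43416 0) P.nil)) (P.cons (P.cons (P.lf 0 55259 0) P.nil) P.nil)))))) 21279)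
 EL.nil)
noncomputable def S343_372_660_734_29 : EL := (EL.cons 13 (TM.mk (P.cons (P.cons (P.lf 0 37924091 0) (P.cons (P.lf 0 16119325 0) (P.cons (P.lf 362855 0 0) (P.cons (P.lf 579509 0 0) (P.cons (P.lf 1006 0 0) (P.cons (P.lf 0 3786 0) P.nil)))))) (P.cons (P.cons (P.lf 128664697 0 0) (P.cons (P.lf 32991926 0 0) (P.cons (P.lf 0 3048090 0) (P.cons (P.lf 0 592356 0) (P.cons (P.lf 0 704 0) P.nil))))) (P.cons (P.cons (P.lf 0 107919362 0) (P.cons (P.lf 0 9844924 0) (P.cons (P.lf 946677 0 0) (P.cons (P.lf 167201 0 0) P.nil)))) (P.cons (P.cons (P.lf 0 3841885 0) (P.cons (P.lf 381920 0 0) (P.cons (P.lf 0 17181 0) P.nil))) (P.cons (P.cons (P.lf 3102567 0 0) (P.cons (P.lf 220723 0 0) P.nil)) (P.cons (P.cons (P.lf 0 94066 0) P.nil) P.nil)))))) 171450)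
 EL.nil)
noncomputable def S343_372_660_734_30 : EL := (EL.cons 13 (TM.mk (P.cons (P.lf 0 2846448260 0) (P.cons (P.lf 0 273072892 0) (P.cons (P.lf 22353452 0 0) (P.cons (P.lf 0 133644 0) (P.cons (P.lf 0 68648 0) (P.cons (P.lf 3668 0 0) P.nil)))))) 396)
 EL.nil)
noncomputable def S343_372_660_734_31 : EL := (EL.cons 13 (TM.mk (P.cons (P.cons (P.lf 267473619 0 0) (P.cons (P.lf 56843740 0 0) (P.cons (P.lf 0 7319829 0) (P.lf 0 487986 0)))) (P.cons (P.cons (P.lf 0 428067604 0) (P.cons (P.lf 0 14463969 0) (P.cons (P.lf 1862540 0 0) (P.lf 124166 0 0)))) (P.cons (P.cons (P.lf 0 49897445 0) (P.cons (P.lf 0 519005 0) (P.cons (P.lf 66834 0 0) (P.lf 4456 0 0)))) (P.cons (P.cons (P.lf 9473051 0 0) (P.cons (P.lf 448528 0 0) (P.cons (P.lf 0 57757 0) P.nil))) (P.cons (P.cons (P.lf 347240 0 0) (P.cons (P.lf 0 31922 0) P.nil)) (P.cons (P.cons (P.lf 0 124161 0) P.nil) P.nil)))))) 34231)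
 EL.nil)
noncomputable def S343_372_660_734_32 : EL := (EL.cons 13 (TM.mk (P.cons (P.cons (P.lf 0 25133826 0) (P.cons (P.lf 0 10682927 0) (P.cons (P.lf 240478 0 0) (P.cons (P.lf 384064 0 0) (P.cons (P.lf 666 0 0) (P.cons (P.lf 0 2509 0) P.nil)))))) (P.cons (P.cons (P.lf 82860086 0 0) (P.cons (P.lf 20840219 0 0) (P.cons (P.lf 0 1997022 0) (P.cons (P.lf 0 355733 0) (P.cons (P.lf 0 402 0) P.nil))))) (P.cons (P.cons (P.lf 0 63144672 0) (P.cons (P.lf 0 4343116 0) (P.cons (P.lf 431715 0 0) (P.cons (P.lf 70132 0 0) P.nil)))) (P.cons (P.cons (P.lf 0 10078481 0) (P.cons (P.lf 0 545034 0) (P.cons (P.lf 64678 0 0) P.nil))) (P.cons (P.cons (P.lf 2377001 0 0) (P.cons (P.lf 222571 0 0) P.nil)) (P.cons (P.cons (P.lf 153645 0 0) P.nil) P.nil)))))) 189874)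
 EL.nil)
noncomputable def S343_372_660_734_33 : EL := (EL.cons 14 (TM.mk (P.lf 8589934592 0 0) 0)
 EL.nil)
noncomputable def S343_372_660_734_34 : EL := (EL.cons 14 (TM.mk (P.cons (P.cons (P.lf 0 807174656 0) (P.cons (P.lf 0 171541504 0) (P.cons (P.lf 22089584 0 0) (P.lf 1472632 0 0)))) (P.cons (P.cons (P.lf 1369246826 0 0) (P.cons (P.lf 60105744 0 0) (P.cons (P.lf 0 7739880 0) (P.lf 0 515984 0)))) (P.cons (P.cons (P.lf 12882182 0 0) (P.cons (P.lf 0 5547112 0) (P.cons (P.lf 714304 0 0) (P.lf 47616 0 0)))) (P.cons (P.cons (P.lf 0 19032632 0) (P.cons (P.lf 0 341328 0) (P.cons (P.lf 43952 0 0) P.nil))) (P.cons (P.cons (P.lf 834340 0 0) (P.cons (P.lf 86832 0 0) P.nil)) (P.cons (P.cons (P.lf 110518 0 0) P.nil) P.nil)))))) 42558)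
 EL.nil)
noncomputable def S343_372_660_734_35 : EL := (EL.cons 14 (TM.mk (P.cons (P.cons (P.lf 75848182 0 0) (P.cons (P.lf 32238650 0 0) (P.cons (P.lf 0 725710 0) (P.cons (P.lf 0 1159018 0) (P.cons (P.lf 0 2012 0) (P.cons (P.lf 7572 0 0) P.nil)))))) (P.cons (P.cons (P.lf 0 257329394 0) (P.cons (P.lf 0 65983852 0) (P.cons (P.lf 6096180 0 0) (P.cons (P.lf 1184712 0 0) (P.cons (P.lf 1408 0 0) P.nil))))) (P.cons (P.cons (P.lf 215838724 0 0) (P.cons (P.lf 19689848 0 0) (P.cons (P.lf 0 1893354 0) (P.cons (P.lf 0 334402 0) P.nil)))) (P.cons (P.cons (P.lf 7683770 0 0) (P.cons (P.lf 0 763840 0) (P.cons (P.lf 34362 0 0) P.nil))) (P.cons (P.cons (P.lf 0 6205134 0) (P.cons (P.lf 0 441446 0) P.nil)) (P.cons (P.cons (P.lf 188132 0 0) P.nil) P.nil)))))) 342900)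
 EL.nil)
noncomputable def S343_372_660_734_36 : EL := (EL.cons 14 (TM.mk (P.cons (P.lf 5692896520 0 0) (P.cons (P.lf 546145784 0 0) (P.cons (P.lf 0 44706904 0) (P.cons (P.lf 267288 0 0) (P.cons (P.lf 137296 0 0) (P.cons (P.lf 0 7336 0) P.nil)))))) 792)
 EL.nil)
noncomputable def S343_372_660_734_37 : EL := (EL.cons 14 (TM.mk (P.cons (P.cons (P.lf 0 534947238 0) (P.cons (P.lf 0 113687480 0) (P.cons (P.lf 14639658 0 0) (P.lf 975972 0 0)))) (P.cons (P.cons (P.lf 856135208 0 0) (P.cons (P.lf 28927938 0 0) (P.cons (P.lf 0 3725080 0) (P.lf 0 248332 0)))) (P.cons (P.cons (P.lf 99794890 0 0) (P.cons (P.lf 1038010 0 0) (P.cons (P.lf 0 133668 0) (P.lf 0 8912 0)))) (P.cons (P.cons (P.lf 0 18946102 0) (P.cons (P.lf 0 897056 0) (P.cons (P.lf 115514 0 0) P.nil))) (P.cons (P.cons (P.lf 0 694480 0) (P.cons (P.lf 63844 0 0) P.nil)) (P.cons (P.cons (P.lf 248322 0 0) P.nil) P.nil))))))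 68462)
 EL.nil)
noncomputable def S343_372_660_734_38 : EL := (EL.cons 14 (TM.mk (P.cons (P.cons (P.lf 50267652 0 0) (P.cons (P.lf 21365854 0 0) (P.cons (P.lf 0 480956 0) (P.cons (P.lf 0 768128 0) (P.cons (P.lf 0 1332 0) (P.cons (P.lf 5018 0 0) P.nil)))))) (P.cons (P.cons (P.lf 0 165720172 0) (P.cons (P.lf 0 41680438 0) (P.cons (P.lf 3994044 0 0) (P.cons (P.lf 711466 0 0) (P.cons (P.lf 804 0 0) P.nil))))) (P.cons (P.cons (P.lf 126289344 0 0) (P.cons (P.lf 8686232 0 0) (P.cons (P.lf 0 863430 0) (P.cons (P.lf 0 140264 0) P.nil)))) (P.cons (P.cons (P.lf 20156962 0 0) (P.cons (P.lf 1090068 0 0) (P.cons (P.lf 0 129356 0) P.nil))) (P.cons (P.cons (P.lf 0 4754002 0) (P.cons (P.lf 0 445142 0) P.nil)) (P.cons (P.cons (P.lf 0 307290 0) P.nil) P.nil)))))) 379748)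
 EL.nil)
noncomputable def S343_372_660_734_39 : EL := (EL.cons 14 (TM.mk (P.cons (P.lf 3772912404 0 0) (P.cons (P.lf 723905728 0 0) (P.cons (P.lf 0 24534334 0) (P.cons (P.lf 0 5330620 0) (P.cons (P.lf 448650 0 0) (P.cons (P.lf 4952 0 0) P.nil)))))) 3630)
 EL.nil)
noncomputable def S343_372_660_734_40 : EL := (EL.cons 14 (TM.mk (P.cons (P.cons (P.lf 0 354531136 0) (P.cons (P.lf 0 75345284 0) (P.cons (P.lf 9702292 0 0) (P.lf 646816 0 0)))) (P.cons (P.cons (P.lf 533383568 0 0) (P.cons (P.lf 11943492 0 0) (P.cons (P.lf 0 1537974 0) (P.lf 0 102528 0)))) (P.cons (P.cons (P.lf 123355124 0 0) (P.cons (P.lf 3118856 0 0) (P.cons (P.lf 0 401620 0) (P.lf 0 26774 0)))) (P.cons (P.cons (P.lf 0 10683874 0) (P.cons (P.lf 0 682614 0) (P.cons (P.lf 87900 0 0) P.nil))) (P.cons (P.cons (P.lf 0 2166146 0) (P.cons (P.lf 0 21040 0) P.nil)) (P.cons (P.cons (P.lf 236270 0 0) P.nil) P.nil))))))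 86038)
 EL.nil)
noncomputable def S343_372_660_734_41 : EL := (EL.cons 14 (TM.mk (P.cons (P.cons (P.lf 33314402 0 0) (P.cons (P.lf 14160014 0 0) (P.cons (P.lf 0 318748 0) (P.cons (P.lf 0 509068 0) (P.cons (P.lf 0 882 0) (P.cons (P.lf 3324 0 0) P.nil)))))) (P.cons (P.cons (P.lf 0 106633446 0) (P.cons (P.lf 0 26264874 0) (P.cons (P.lf 2616434 0 0) (P.cons (P.lf 422680 0 0) (P.cons (P.lf 448 0 0) P.nil))))) (P.cons (P.cons (P.lf 72898982 0 0) (P.cons (P.lf 2995486 0 0) (P.cons (P.lf 0 315786 0) (P.cons (P.lf 0 43726 0) P.nil)))) (P.cons (P.cons (P.lf 22252342 0 0) (P.cons (P.lf 1492294 0 0) (P.cons (P.lf 0 161428 0) P.nil))) (P.cons (P.cons (P.lf 0 2530730 0) (P.cons (P.lf 0 271872 0) P.nil)) (P.cons (P.cons (P.lf 0 609582 0) P.nil) P.nil)))))) 343374)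
 EL.nil)
noncomputable def S343_372_660_734_42 : EL := (EL.cons 14 (TM.mk (P.cons (P.lf 2500461402 0 0) (P.cons (P.lf 719642336 0 0) (P.cons (P.lf 10129460 0 0) (P.cons (P.lf 0 8742920 0) (P.cons (P.lf 168938 0 0) (P.cons (P.lf 67134 0 0) P.nil)))))) 7070)
 EL.nil)
noncomputable def S343_372_660_734_43 : EL := (EL.cons 14 (TM.mk (P.cons (P.cons (P.lf 0 234962100 0) (P.cons (P.lf 0 49934362 0) (P.cons (P.lf 6430100 0 0) (P.lf 428670 0 0)))) (P.cons (P.cons (P.lf 330953832 0 0) (P.cons (P.lf 3125002 0 0) (P.cons (P.lf 0 402408 0) (P.lf 0 26824 0)))) (P.cons (P.cons (P.lf 117509990 0 0) (P.cons (P.lf 3218496 0 0) (P.cons (P.lf 0 414450 0) (P.lf 0 27630 0)))) (P.cons (P.cons (P.lf 0 2024812 0) (P.cons (P.lf 0 318604 0) (P.cons (P.lf 41026 0 0) P.nil))) (P.cons (P.cons (P.lf 0 2745950 0) (P.cons (P.lf 0 74410 0) P.nil)) (P.cons (P.cons (P.lf 87134 0 0) P.nil) P.nil))))))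 98304)
 EL.nil)
noncomputable def S343_372_660_734_44 : EL := (EL.cons 14 (TM.mk (P.cons (P.cons (P.lf 22078800 0 0) (P.cons (P.lf 9384412 0 0) (P.cons (P.lf 0 211248 0) (P.cons (P.lf 0 337380 0) (P.cons (P.lf 0 584 0) (P.cons (P.lf 2204 0 0) P.nil)))))) (P.cons (P.cons (P.lf 0 68552168 0) (P.cons (P.lf 0 16506502 0) (P.cons (P.lf 1713750 0 0) (P.cons (P.lf 247760 0 0) (P.cons (P.lf 240 0 0) P.nil))))) (P.cons (P.cons (P.lf 41359984 0 0) (P.cons (P.lf 241618 0 0) (P.cons (P.lf 0 41272 0) (P.cons (P.lf 542 0 0) P.nil)))) (P.cons (P.cons (P.lf 19938440 0 0) (P.cons (P.lf 1316592 0 0) (P.cons (P.lf 0 140690 0) P.nil))) (P.cons (P.cons (P.lf 0 644612 0) (P.cons (P.lf 0 101482 0) P.nil)) (P.cons (P.cons (P.lf 0 680176 0) P.nil) P.nil)))))) 285132)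
 EL.nil)
noncomputable def S343_372_660_734_45 : EL := (EL.cons 14 (TM.mk (P.cons (P.cons (P.lf 0 7127262 0) (P.cons (P.lf 0 4544076 0) (P.cons (P.lf 0 380564 0) (P.cons (P.lf 219308 0 0) (P.cons (P.lf 26994 0 0) (P.cons (P.lf 0 3776 0) P.nil)))))) (P.cons (P.cons (P.lf 36270898 0 0) (P.cons (P.lf 17008830 0 0) (P.cons (P.lf 124678 0 0) (P.cons (P.lf 0 670294 0) (P.cons (P.lf 0 29138 0) P.nil))))) (P.cons (P.cons (P.lf 0 61186718 0) (P.cons (P.lf 0 18479654 0) (P.cons (P.lf 1066048 0 0) (P.cons (P.lf 465114 0 0) P.nil)))) (P.cons (P.cons (P.lf 33128982 0 0) (P.cons (P.lf 4559966 0 0) (P.cons (P.lf 0 295654 0) P.nil))) (P.cons (P.cons (P.lf 2709102 0 0) (P.cons (P.lf 147876 0 0) P.nil)) (P.cons (P.cons (P.lf 0 1497510 0) P.nil) P.nil)))))) 697960)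
 EL.nil)
noncomputable def S343_372_660_734_46 : EL := (EL.cons 15 (TM.mk (P.lf 4294967296 0 0) 0)
 EL.nil)
noncomputable def S343_372_660_734_47 : EL := (EL.cons 15 (TM.mk (P.cons (P.cons (P.lf 0 403587328 0) (P.cons (P.lf 0 85770752 0) (P.cons (P.lf 11044792 0 0) (P.lf 736316 0 0)))) (P.cons (P.cons (P.lf 684623413 0 0) (P.cons (P.lf 30052872 0 0) (P.cons (P.lf 0 3869940 0) (P.lf 0 257992 0)))) (P.cons (P.cons (P.lf 6441091 0 0) (P.cons (P.lf 0 2773556 0) (P.cons (P.lf 357152 0 0) (P.lf 23808 0 0)))) (P.cons (P.cons (P.lf 0 9516316 0) (P.cons (P.lf 0 170664 0) (P.cons (P.lf 21976 0 0) P.nil))) (P.cons (P.cons (P.lf 417170 0 0) (P.cons (P.lf 43416 0 0) P.nil)) (P.cons (P.cons (P.lf 55259 0 0) P.nil) P.nil)))))) 21279)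
 EL.nil)
noncomputable def S343_372_660_734_48 : EL := (EL.cons 15 (TM.mk (P.cons (P.cons (P.lf 37924091 0 0) (P.cons (P.lf 16119325 0 0) (P.cons (P.lf 0 362855 0) (P.cons (P.lf 0 579509 0) (P.cons (P.lf 0 1006 0) (P.cons (P.lf 3786 0 0) P.nil)))))) (P.cons (P.cons (P.lf 0 128664697 0) (P.cons (P.lf 0 32991926 0) (P.cons (P.lf 3048090 0 0) (P.cons (P.lf 592356 0 0) (P.cons (P.lf 704 0 0) P.nil))))) (P.cons (P.cons (P.lf 107919362 0 0) (P.cons (P.lf 9844924 0 0) (P.cons (P.lf 0 946677 0) (P.cons (P.lf 0 167201 0) P.nil)))) (P.cons (P.cons (P.lf 3841885 0 0) (P.cons (P.lf 0 381920 0) (P.cons (P.lf 17181 0 0) P.nil))) (P.cons (P.cons (P.lf 0 3102567 0) (P.cons (P.lf 0 220723 0) P.nil)) (P.cons (P.cons (P.lf 94066 0 0) P.nil) P.nil)))))) 171450)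
 EL.nil)
noncomputable def S343_372_660_734 : SL := (SL.cons S343_372_660_734_0 (SL.cons S343_372_660_734_1 (SL.cons S343_372_660_734_2 (SL.cons S343_372_660_734_3 (SL.cons S343_372_660_734_4 (SL.cons S343_372_660_734_5 (SL.cons S343_372_660_734_6 (SL.cons S343_372_660_734_7 (SL.cons S343_372_660_734_8 (SL.cons S343_372_660_734_9 (SL.cons S343_372_660_734_10 (SL.cons S343_372_660_734_11 (SL.cons S343_372_660_734_12 (SL.cons S343_372_660_734_13 (SL.cons S343_372_660_734_14 (SL.cons S343_372_660_734_15 (SL.cons S343_372_660_734_16 (SL.cons S343_372_660_734_17 (SL.cons S343_372_660_734_18 (SL.cons S343_372_660_734_19 (SL.cons S343_372_660_734_20 (SL.cons S343_372_660_734_21 (SL.cons S343_372_660_734_22 (SL.cons S343_372_660_734_23 (SL.cons S343_372_660_734_24 (SL.cons S343_372_660_734_25 (SL.cons S343_372_660_734_26 (SL.cons S343_372_660_734_27 (SL.cons S343_372_660_734_28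 (SL.cons S343_372_660_734_29 (SL.cons S343_372_660_734_30 (SL.cons S343_372_660_734_31 (SL.cons S343_372_660_734_32 (SL.cons S343_372_660_734_33 (SL.cons S343_372_660_734_34 (SL.cons S343_372_660_734_35 (SL.cons S343_372_660_734_36 (SL.cons S343_372_660_734_37 (SL.cons S343_372_660_734_38 (SL.cons S343_372_660_734_39 (SL.cons S343_372_660_734_40 (SL.cons S343_372_660_734_41 (SL.cons S343_372_660_734_42 (SL.cons S343_372_660_734_43 (SL.cons S343_372_660_734_44 (SL.cons S343_372_660_734_45 (SL.cons S343_372_660_734_46 (SL.cons S343_372_660_734_47 (SL.cons S343_372_660_734_48 SL.nil)))))))))))))))))))))))))))))))))))))))))))))))))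
noncomputable def S343_372_660_808_0 : EL := (EL.cons 0 (TM.mk (P.cons (P.lf 5139680571 0 0) (P.cons (P.lf 0 636245268 0) (P.cons (P.lf 21563379 0 0) (P.cons (P.lf 4685115 0 0) (P.cons (P.lf 0 394321 0) (P.cons (P.lf 0 4352 0) P.nil)))))) 3197)
 (EL.cons 1 (TM.mk (P.cons (P.lf 1792040857 0 0) (P.cons (P.lf 0 37383279 0) (P.cons (P.lf 0 39281548 0) (P.cons (P.lf 2177913 0 0) (P.cons (P.lf 137038 0 0) (P.cons (P.lf 0 19477 0) P.nil)))))) 1484)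
 (EL.cons 5 (TM.mk (P.cons (P.lf 5474002426 0 0) (P.cons (P.lf 226220540 0 0) (P.cons (P.lf 0 7666984 0) (P.cons (P.lf 0 1665814 0) (P.cons (P.lf 140204 0 0) (P.cons (P.lf 1546 0 0) P.nil)))))) 969)
 (EL.cons 9 (TM.mk (P.lf 6442450944 0 0) 2)
 EL.nil))))
noncomputable def S343_372_660_808_1 : EL := (EL.cons 0 (TM.mk (P.cons (P.cons (P.lf 4125571104 0 0) (P.cons (P.lf 137642341 0 0) (P.cons (P.lf 0 59352925 0) (P.lf 0 6594759 0)))) (P.cons (P.cons (P.lf 1096981892 0 0) (P.cons (P.lf 24622716 0 0) (P.cons (P.lf 0 10617602 0) (P.lf 0 1179744 0)))) (P.cons (P.cons (P.lf 0 384874096 0) (P.cons (P.lf 0 23543950 0) (P.cons (P.lf 10152414 0 0) (P.lf 1128038 0 0)))) (P.cons (P.cons (P.lf 0 2587972 0) (P.cons (P.lf 2958288 0 0) (P.cons (P.lf 0 1275635 0) P.nil))) (P.cons (P.cons (P.lf 8947257 0 0) (P.cons (P.lf 228553 0 0) P.nil)) (P.cons (P.cons (P.lf 0 584360 0) P.nil) P.nil))))))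 1023353)
 (EL.cons 1 (TM.mk (P.cons (P.cons (P.lf 76716598 0 0) (P.cons (P.lf 0 34565783 0) (P.cons (P.lf 14905149 0 0) (P.lf 1656125 0 0)))) (P.cons (P.cons (P.lf 909663396 0 0) (P.cons (P.lf 52688721 0 0) (P.cons (P.lf 0 22719962 0) (P.lf 0 2524428 0)))) (P.cons (P.cons (P.lf 4168261 0 0) (P.cons (P.lf 0 7449965 0) (P.cons (P.lf 3212502 0 0) (P.lf 356940 0 0)))) (P.cons (P.cons (P.lf 0 38045609 0) (P.cons (P.lf 0 1351104 0) (P.cons (P.lf 582604 0 0) P.nil))) (P.cons (P.cons (P.lf 1941788 0 0) (P.cons (P.lf 324601 0 0) P.nil)) (P.cons (P.cons (P.lf 514800 0 0) P.nil) P.nil)))))) 532508)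
 (EL.cons 5 (TM.mk (P.cons (P.cons (P.lf 0 2278750584 0) (P.cons (P.lf 0 257945004 0) (P.cons (P.lf 111228794 0 0) (P.lf 12358750 0 0)))) (P.cons (P.cons (P.lf 817894201 0 0) (P.cons (P.lf 64477858 0 0) (P.cons (P.lf 0 27803580 0) (P.lf 0 3089284 0)))) (P.cons (P.cons (P.lf 143726564 0 0) (P.cons (P.lf 1612596 0 0) (P.cons (P.lf 0 695370 0) (P.lf 0 77264 0)))) (P.cons (P.cons (P.lf 0 15507856 0) (P.cons (P.lf 0 1467706 0) (P.cons (P.lf 632882 0 0) P.nil))) (P.cons (P.cons (P.lf 0 2408377 0) (P.cons (P.lf 24540 0 0) P.nil)) (P.cons (P.cons (P.lf 299572 0 0) P.nil) P.nil)))))) 406505)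
 (EL.cons 9 (TM.mk (P.cons (P.cons (P.lf 0 716365458 0) (P.cons (P.lf 0 184416618 0) (P.cons (P.lf 79522524 0 0) (P.lf 8835834 0 0)))) (P.cons (P.cons (P.lf 1065822523 0 0) (P.cons (P.lf 64617000 0 0) (P.cons (P.lf 0 27863574 0) (P.lf 0 3095946 0)))) (P.cons (P.cons (P.lf 6072742 0 0) (P.cons (P.lf 0 5963454 0) (P.cons (P.lf 2571504 0 0) (P.lf 285720 0 0)))) (P.cons (P.cons (P.lf 0 14495310 0) (P.cons (P.lf 0 366942 0) (P.cons (P.lf 158226 0 0) P.nil))) (P.cons (P.cons (P.lf 681933 0 0) (P.cons (P.lf 93354 0 0) P.nil)) (P.cons (P.cons (P.lf 80998 0 0) P.nil) P.nil)))))) 102251)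
 (EL.cons 2 (TM.mk (P.cons (P.cons (P.lf 0 356521533 0) (P.cons (P.lf 332132788 0 0) (P.cons (P.lf 34087626 0 0) (P.cons (P.lf 0 7089277 0) (P.lf 0 590771 0))))) (P.cons (P.cons (P.lf 49077348 0 0) (P.cons (P.lf 0 45720090 0) (P.cons (P.lf 0 4692366 0) (P.cons (P.lf 975878 0 0) (P.lf 81320 0 0))))) (P.cons (P.cons (P.lf 7966746 0 0) (P.cons (P.lf 0 7421760 0) (P.cons (P.lf 0 761712 0) (P.cons (P.lf 158414 0 0) P.nil)))) (P.cons (P.cons (P.lf 0 1554766 0) (P.cons (P.lf 1448409 0 0) (P.cons (P.lf 148651 0 0) P.nil))) (P.cons (P.cons (P.lf 10257 0 0) (P.cons (P.lf 0 9556 0) P.nil)) (P.cons (P.cons (P.lf 12670 0 0) P.nil) P.nil)))))) 89109)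
 (EL.cons 6 (TM.mk (P.cons (P.cons (P.lf 192670131 0 0) (P.cons (P.lf 0 179490051 0) (P.cons (P.lf 0 18421518 0) (P.cons (P.lf 3831162 0 0) (P.lf 319260 0 0))))) (P.cons (P.cons (P.lf 0 67508916 0) (P.cons (P.lf 62890800 0 0) (P.cons (P.lf 6454641 0 0) (P.cons (P.lf 0 1342383 0) (P.lf 0 111864 0))))) (P.cons (P.cons (P.lf 6230349 0 0) (P.cons (P.lf 0 5804145 0) (P.cons (P.lf 0 595692 0) (P.cons (P.lf 123885 0 0) P.nil)))) (P.cons (P.cons (P.lf 383367 0 0) (P.cons (P.lf 0 357144 0) (P.cons (P.lf 0 36654 0) P.nil))) (P.cons (P.cons (P.lf 0 97530 0) (P.cons (P.lf 90858 0 0) P.nil)) (P.cons (P.cons (P.lf 3279 0 0) P.nil) P.nil)))))) 47412)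
 EL.nil))))))
noncomputable def S343_372_660_808_2 : EL := (EL.cons 0 (TM.mk (P.cons (P.cons (P.lf 0 981030253 0) (P.cons (P.lf 0 299519854 0) (P.cons (P.lf 117064772 0 0) (P.cons (P.lf 24778728 0 0) (P.cons (P.lf 0 1089661 0) (P.cons (P.lf 0 499629 0) P.nil)))))) (P.cons (P.cons (P.lf 1318054077 0 0) (P.cons (P.lf 124216144 0 0) (P.cons (P.lf 0 48739360 0) (P.cons (P.lf 0 10111823 0) (P.cons (P.lf 434727 0 0) P.nil))))) (P.cons (P.cons (P.lf 293064852 0 0) (P.cons (P.lf 24624246 0 0) (P.cons (P.lf 0 10203665 0) (P.cons (P.lf 0 1537357 0) P.nil)))) (P.cons (P.cons (P.lf 0 129425308 0) (P.cons (P.lf 0 15913636 0) (P.cons (P.lf 6344155 0 0) P.nil))) (P.cons (P.cons (P.lf 0 3583540 0) (P.cons (P.lf 1220102 0 0) P.nil)) (P.cons (P.cons (P.lf 4362252 0 0) P.nil) P.nil)))))) 7622782)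
 (EL.cons 1 (TM.mk (P.cons (P.cons (P.lf 0 39218143 0) (P.cons (P.lf 0 8113029 0) (P.cons (P.lf 4008936 0 0) (P.cons (P.lf 0 51555 0) (P.cons (P.lf 46006 0 0) (P.cons (P.lf 21092 0 0) P.nil)))))) (P.cons (P.cons (P.lf 0 110521583 0) (P.cons (P.lf 0 52485801 0) (P.cons (P.lf 19982280 0 0) (P.cons (P.lf 4800288 0 0) (P.cons (P.lf 0 238822 0) P.nil))))) (P.cons (P.cons (P.lf 250641013 0 0) (P.cons (P.lf 30485247 0 0) (P.cons (P.lf 0 11862667 0) (P.cons (P.lf 0 2567012 0) P.nil)))) (P.cons (P.cons (P.lf 9297379 0 0) (P.cons (P.lf 0 1423077 0) (P.cons (P.lf 456780 0 0) P.nil))) (P.cons (P.cons (P.lf 0 14539117 0) (P.cons (P.lf 0 1471255 0) P.nil)) (P.cons (P.cons (P.lf 531238 0 0) P.nil) P.nil)))))) 3864652)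
 (EL.cons 5 (TM.mk (P.cons (P.cons (P.lf 439087483 0 0) (P.cons (P.lf 152976497 0 0) (P.cons (P.lf 0 55683129 0) (P.cons (P.lf 0 16196923 0) (P.cons (P.lf 926591 0 0) (P.cons (P.lf 424850 0 0) P.nil)))))) (P.cons (P.cons (P.lf 0 737272409 0) (P.cons (P.lf 0 129606538 0) (P.cons (P.lf 49979985 0 0) (P.cons (P.lf 11304772 0 0) (P.cons (P.lf 0 532397 0) P.nil))))) (P.cons (P.cons (P.lf 94105786 0 0) (P.cons (P.lf 16584550 0 0) (P.cons (P.lf 0 6177408 0) (P.cons (P.lf 0 1634635 0) P.nil)))) (P.cons (P.cons (P.lf 51948516 0 0) (P.cons (P.lf 4592988 0 0) (P.cons (P.lf 0 1908137 0) P.nil))) (P.cons (P.cons (P.lf 0 4326859 0) (P.cons (P.lf 0 981474 0) P.nil)) (P.cons (P.cons (P.lf 0 1346686 0) P.nil) P.nil)))))) 3620921)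
 (EL.cons 9 (TM.mk (P.cons (P.cons (P.lf 79655937 0 0) (P.cons (P.lf 41012247 0 0) (P.cons (P.lf 0 12405975 0) (P.cons (P.lf 0 6517693 0) (P.cons (P.lf 475731 0 0) (P.cons (P.lf 218130 0 0) P.nil)))))) (P.cons (P.cons (P.lf 0 237027319 0) (P.cons (P.lf 0 75388938 0) (P.cons (P.lf 28809205 0 0) (P.cons (P.lf 6802464 0 0) (P.cons (P.lf 0 333379 0) P.nil))))) (P.cons (P.cons (P.lf 174976426 0 0) (P.cons (P.lf 22358680 0 0) (P.cons (P.lf 0 8651800 0) (P.cons (P.lf 0 1924629 0) P.nil)))) (P.cons (P.cons (P.lf 5232916 0 0) (P.cons (P.lf 0 939871 0) (P.cons (P.lf 306664 0 0) P.nil))) (P.cons (P.cons (P.lf 0 4942063 0) (P.cons (P.lf 0 483228 0) P.nil)) (P.cons (P.cons (P.lf 180294 0 0) P.nil) P.nil)))))) 1296901)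
 (EL.cons 2 (TM.mk (P.cons (P.cons (P.lf 79286501 0 0) (P.cons (P.lf 0 53451691 0) (P.cons (P.lf 0 35396926 0) (P.cons (P.lf 6846480 0 0) (P.cons (P.lf 2289808 0 0) (P.cons (P.lf 0 47688 0) P.nil)))))) (P.cons (P.cons (P.lf 0 128878278 0) (P.cons (P.lf 110100600 0 0) (P.cons (P.lf 25897747 0 0) (P.cons (P.lf 0 5134623 0) (P.cons (P.lf 0 1266958 0) P.nil))))) (P.cons (P.cons (P.lf 13794615 0 0) (P.cons (P.lf 0 11662554 0) (P.cons (P.lf 0 2938488 0) (P.cons (P.lf 581130 0 0) P.nil)))) (P.cons (P.cons (P.lf 4678605 0 0) (P.cons (P.lf 0 4159974 0) (P.cons (P.lf 0 717946 0) P.nil))) (P.cons (P.cons (P.lf 0 798013 0) (P.cons (P.lf 680973 0 0) P.nil)) (P.cons (P.cons (P.lf 0 36776 0) P.nil) P.nil)))))) 1216698)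
 (EL.cons 6 (TM.mk (P.cons (P.cons (P.lf 0 42847734 0) (P.cons (P.lf 28886178 0 0) (P.cons (P.lf 19129086 0 0) (P.cons (P.lf 0 3699948 0) (P.cons (P.lf 0 1237446 0) (P.cons (P.lf 25770 0 0) P.nil)))))) (P.cons (P.cons (P.lf 78762948 0 0) (P.cons (P.lf 0 65645136 0) (P.cons (P.lf 0 18064902 0) (P.cons (P.lf 3561924 0 0) (P.cons (P.lf 947922 0 0) P.nil))))) (P.cons (P.cons (P.lf 0 23359332 0) (P.cons (P.lf 19693788 0 0) (P.cons (P.lf 5051148 0 0) (P.cons (P.lf 0 998316 0) P.nil)))) (P.cons (P.cons (P.lf 981936 0 0) (P.cons (P.lf 0 708696 0) (P.cons (P.lf 0 374706 0) P.nil))) (P.cons (P.cons (P.lf 504852 0 0) (P.cons (P.lf 0 455304 0) P.nil)) (P.cons (P.cons (P.lf 0 69756 0) P.nil) P.nil)))))) 937908)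
 EL.nil))))))
noncomputable def S343_372_660_808_3 : EL := (EL.cons 0 (TM.mk (P.cons (P.lf 3316036292 0 0) (P.cons (P.lf 636245268 0 0) (P.cons (P.lf 0 21563379 0) (P.cons (P.lf 0 4685115 0) (P.cons (P.lf 394321 0 0) (P.cons (P.lf 4352 0 0) P.nil)))))) 3197)
 (EL.cons 1 (TM.mk (P.cons (P.lf 0 1792040857 0) (P.cons (P.lf 37383279 0 0) (P.cons (P.lf 39281548 0 0) (P.cons (P.lf 0 2177913 0) (P.cons (P.lf 0 137038 0) (P.cons (P.lf 19477 0 0) P.nil)))))) 1484)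
 (EL.cons 5 (TM.mk (P.cons (P.lf 968448518 0 0) (P.cons (P.lf 0 226220540 0) (P.cons (P.lf 7666984 0 0) (P.cons (P.lf 1665814 0 0) (P.cons (P.lf 0 140204 0) (P.cons (P.lf 0 1546 0) P.nil)))))) 962)
 EL.nil)))
noncomputable def S343_372_660_808_4 : EL := (EL.cons 0 (TM.mk (P.cons (P.cons (P.lf 0 368725174 0) (P.cons (P.lf 0 94922289 0) (P.cons (P.lf 40931560 0 0) (P.lf 4547949 0 0)))) (P.cons (P.cons (P.lf 477849510 0 0) (P.cons (P.lf 15046774 0 0) (P.cons (P.lf 0 6488335 0) (P.lf 0 720922 0)))) (P.cons (P.cons (P.lf 110782253 0 0) (P.cons (P.lf 3929229 0 0) (P.cons (P.lf 0 1694329 0) (P.lf 0 188258 0)))) (P.cons (P.cons (P.lf 0 9907672 0) (P.cons (P.lf 0 859976 0) (P.cons (P.lf 370828 0 0) P.nil))) (P.cons (P.cons (P.lf 0 1919794 0) (P.cons (P.lf 0 26506 0) P.nil)) (P.cons (P.cons (P.lf 217889 0 0) P.nil) P.nil)))))) 210916)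
 (EL.cons 1 (TM.mk (P.cons (P.cons (P.lf 199265182 0 0) (P.cons (P.lf 51297573 0 0) (P.cons (P.lf 0 22120091 0) (P.lf 0 2457785 0)))) (P.cons (P.cons (P.lf 0 300627448 0) (P.cons (P.lf 0 19044056 0) (P.cons (P.lf 8212008 0 0) (P.lf 912442 0 0)))) (P.cons (P.cons (P.lf 127496 0 0) (P.cons (P.lf 909307 0 0) (P.cons (P.lf 0 392101 0) (P.lf 0 43565 0)))) (P.cons (P.cons (P.lf 10808083 0 0) (P.cons (P.lf 523796 0 0) (P.cons (P.lf 0 225864 0) P.nil))) (P.cons (P.cons (P.lf 0 581840 0) (P.cons (P.lf 0 82378 0) P.nil)) (P.cons (P.cons (P.lf 0 133845 0) P.nil) P.nil)))))) 126039)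
 (EL.cons 5 (TM.mk (P.cons (P.cons (P.lf 0 107686200 0) (P.cons (P.lf 0 27722058 0) (P.cons (P.lf 11954062 0 0) (P.lf 1328228 0 0)))) (P.cons (P.cons (P.lf 185372124 0 0) (P.cons (P.lf 16189034 0 0) (P.cons (P.lf 0 6980892 0) (P.lf 0 775652 0)))) (P.cons (P.cons (P.lf 0 37364998 0) (P.cons (P.lf 0 3384876 0) (P.cons (P.lf 1459596 0 0) (P.lf 162176 0 0)))) (P.cons (P.cons (P.lf 0 1309040 0) (P.cons (P.lf 183454 0 0) (P.cons (P.lf 0 79106 0) P.nil))) (P.cons (P.cons (P.lf 909904 0 0) (P.cons (P.lf 40542 0 0) P.nil)) (P.cons (P.cons (P.lf 0 50472 0) P.nil) P.nil)))))) 70974)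
 EL.nil)))
noncomputable def S343_372_660_808_5 : EL := (EL.cons 0 (TM.mk (P.cons (P.cons (P.lf 41000229 0 0) (P.cons (P.lf 21109682 0 0) (P.cons (P.lf 0 6385559 0) (P.cons (P.lf 0 3354764 0) (P.cons (P.lf 244865 0 0) (P.cons (P.lf 112275 0 0) P.nil)))))) (P.cons (P.cons (P.lf 0 114135206 0) (P.cons (P.lf 0 34753637 0) (P.cons (P.lf 13603382 0 0) (P.cons (P.lf 2857663 0 0) (P.cons (P.lf 0 124613 0) P.nil))))) (P.cons (P.cons (P.lf 66388245 0 0) (P.cons (P.lf 3925831 0 0) (P.cons (P.lf 0 1566553 0) (P.cons (P.lf 0 297022 0) P.nil)))) (P.cons (P.cons (P.lf 20709256 0 0) (P.cons (P.lf 1946844 0 0) (P.cons (P.lf 0 783994 0) P.nil))) (P.cons (P.cons (P.lf 0 2435378 0) (P.cons (P.lf 0 359045 0) P.nil)) (P.cons (P.cons (P.lf 0 554484 0) P.nil) P.nil)))))) 1312302)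
 (EL.cons 1 (TM.mk (P.cons (P.cons (P.lf 0 22157201 0) (P.cons (P.lf 0 11408021 0) (P.cons (P.lf 3450860 0 0) (P.cons (P.lf 1812969 0 0) (P.cons (P.lf 0 132328 0) (P.cons (P.lf 0 60673 0) P.nil)))))) (P.cons (P.cons (P.lf 66394053 0 0) (P.cons (P.lf 21208267 0 0) (P.cons (P.lf 0 8085594 0) (P.cons (P.lf 0 1930001 0) (P.cons (P.lf 95491 0 0) P.nil))))) (P.cons (P.cons (P.lf 0 49561378 0) (P.cons (P.lf 0 6406711 0) (P.cons (P.lf 2498122 0 0) (P.cons (P.lf 535087 0 0) P.nil)))) (P.cons (P.cons (P.lf 0 1912421 0) (P.cons (P.lf 0 82357 0) (P.cons (P.lf 44345 0 0) P.nil))) (P.cons (P.cons (P.lf 2550373 0 0) (P.cons (P.lf 289901 0 0) P.nil)) (P.cons (P.cons (P.lf 0 100790 0) P.nil) P.nil)))))) 765389)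
 (EL.cons 5 (TM.mk (P.cons (P.cons (P.lf 11974118 0 0) (P.cons (P.lf 6165082 0 0) (P.cons (P.lf 0 1864902 0) (P.cons (P.lf 0 979758 0) (P.cons (P.lf 71512 0 0) (P.cons (P.lf 32788 0 0) P.nil)))))) (P.cons (P.cons (P.lf 0 38427698 0) (P.cons (P.lf 0 12772796 0) (P.cons (P.lf 4766308 0 0) (P.cons (P.lf 1251428 0 0) (P.cons (P.lf 0 66818 0) P.nil))))) (P.cons (P.cons (P.lf 34720764 0 0) (P.cons (P.lf 6057042 0 0) (P.cons (P.lf 0 2326936 0) (P.cons (P.lf 0 535934 0) P.nil)))) (P.cons (P.cons (P.lf 0 5618984 0) (P.cons (P.lf 0 1005500 0) (P.cons (P.lf 380974 0 0) P.nil))) (P.cons (P.cons (P.lf 0 781440 0) (P.cons (P.lf 0 33414 0) P.nil)) (P.cons (P.cons (P.lf 257248 0 0) P.nil) P.nil)))))) 461788)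
 EL.nil)))
noncomputable def S343_372_660_808_6 : EL := (EL.cons 12 (TM.mk (P.lf 8589934592 0 0) 0)
 (EL.cons 3 (TM.mk (P.cons (P.lf 2668545243 0 0) (P.cons (P.lf 256005836 0 0) (P.cons (P.lf 0 20956361 0) (P.cons (P.lf 125291 0 0) (P.cons (P.lf 64357 0 0) (P.cons (P.lf 0 3438 0) P.nil)))))) 378)
 (EL.cons 7 (TM.mk (P.cons (P.lf 0 1442125985 0) (P.cons (P.lf 168433589 0 0) (P.cons (P.lf 4127638 0 0) (P.cons (P.lf 0 758202 0) (P.cons (P.lf 21743 0 0) (P.cons (P.lf 1521 0 0) P.nil)))))) 224)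
 EL.nil)))
noncomputable def S343_372_660_808_7 : EL := (EL.cons 12 (TM.mk (P.cons (P.cons (P.lf 0 955153944 0) (P.cons (P.lf 0 245888824 0) (P.cons (P.lf 106030032 0 0) (P.lf 11781112 0 0)))) (P.cons (P.cons (P.lf 1421096698 0 0) (P.cons (P.lf 86156000 0 0) (P.cons (P.lf 0 37151432 0) (P.lf 0 4127928 0)))) (P.cons (P.cons (P.lf 8096990 0 0) (P.cons (P.lf 0 7951272 0) (P.cons (P.lf 3428672 0 0) (P.lf 380960 0 0)))) (P.cons (P.cons (P.lf 0 19327080 0) (P.cons (P.lf 0 489256 0) (P.cons (P.lf 210968 0 0) P.nil))) (P.cons (P.cons (P.lf 909244 0 0) (P.cons (P.lf 124472 0 0) P.nil)) (P.cons (P.cons (P.lf 107998 0 0) P.nil) P.nil)))))) 136310)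
 (EL.cons 3 (TM.mk (P.cons (P.cons (P.lf 3483194363 0 0) (P.cons (P.lf 152775422 0 0) (P.cons (P.lf 0 65878482 0) (P.lf 0 7319828 0)))) (P.cons (P.cons (P.lf 191970810 0 0) (P.cons (P.lf 0 38873916 0) (P.cons (P.lf 16762866 0 0) (P.lf 1862534 0 0)))) (P.cons (P.cons (P.lf 0 128898587 0) (P.cons (P.lf 0 1394898 0) (P.cons (P.lf 601498 0 0) (P.lf 66834 0 0)))) (P.cons (P.cons (P.lf 10991272 0 0) (P.cons (P.lf 1205478 0 0) (P.cons (P.lf 0 519810 0) P.nil))) (P.cons (P.cons (P.lf 1230357 0 0) (P.cons (P.lf 0 85798 0) P.nil)) (P.cons (P.cons (P.lf 0 230931 0) P.nil) P.nil)))))) 402986)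
 (EL.cons 7 (TM.mk (P.cons (P.cons (P.lf 2647275807 0 0) (P.cons (P.lf 192054193 0 0) (P.cons (P.lf 0 82815936 0) (P.lf 0 9201770 0)))) (P.cons (P.cons (P.lf 126303099 0 0) (P.cons (P.lf 0 25576270 0) (P.cons (P.lf 11028777 0 0) (P.lf 1225421 0 0)))) (P.cons (P.cons (P.lf 0 71371855 0) (P.cons (P.lf 0 3638158 0) (P.cons (P.lf 1568813 0 0) (P.lf 174313 0 0)))) (P.cons (P.cons (P.lf 0 3959804 0) (P.cons (P.lf 493698 0 0) (P.cons (P.lf 0 212888 0) P.nil))) (P.cons (P.cons (P.lf 1198662 0 0) (P.cons (P.lf 45320 0 0) P.nil)) (P.cons (P.cons (P.lf 0 4278 0) P.nil) P.nil)))))) 266596)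
 (EL.cons 10 (TM.mk (P.cons (P.cons (P.lf 0 573813891 0) (P.cons (P.lf 534560721 0 0) (P.cons (P.lf 54863319 0 0) (P.cons (P.lf 0 11410044 0) (P.lf 0 950835 0))))) (P.cons (P.cons (P.lf 134037570 0 0) (P.cons (P.lf 0 124868397 0) (P.cons (P.lf 0 12815559 0) (P.cons (P.lf 2665278 0 0) (P.lf 222105 0 0))))) (P.cons (P.cons (P.lf 0 4542750 0) (P.cons (P.lf 4231992 0 0) (P.cons (P.lf 434340 0 0) (P.cons (P.lf 0 90330 0) P.nil)))) (P.cons (P.cons (P.lf 0 987006 0) (P.cons (P.lf 919488 0 0) (P.cons (P.lf 94368 0 0) P.nil))) (P.cons (P.cons (P.lf 83070 0 0) (P.cons (P.lf 0 77388 0) P.nil)) (P.cons (P.cons (P.lf 915 0 0) P.nil) P.nil)))))) 40752)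
 EL.nil))))
noncomputable def S343_372_660_808_8 : EL := (EL.cons 12 (TM.mk (P.cons (P.cons (P.lf 106207916 0 0) (P.cons (P.lf 54682996 0 0) (P.cons (P.lf 0 16541300 0) (P.cons (P.lf 0 8690258 0) (P.cons (P.lf 634308 0 0) (P.cons (P.lf 290840 0 0) P.nil)))))) (P.cons (P.cons (P.lf 0 316036426 0) (P.cons (P.lf 0 100518584 0) (P.cons (P.lf 38412274 0 0) (P.cons (P.lf 9069952 0 0) (P.cons (P.lf 0 444506 0) P.nil))))) (P.cons (P.cons (P.lf 233301902 0 0) (P.cons (P.lf 29811574 0 0) (P.cons (P.lf 0 11535734 0) (P.cons (P.lf 0 2566172 0) P.nil)))) (P.cons (P.cons (P.lf 6977222 0 0) (P.cons (P.lf 0 1253162 0) (P.cons (P.lf 408886 0 0) P.nil))) (P.cons (P.cons (P.lf 0 6589418 0) (P.cons (P.lf 0 644304 0) P.nil)) (P.cons (P.cons (P.lf 240392 0 0) P.nil) P.nil)))))) 1729172)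
 (EL.cons 3 (TM.mk (P.cons (P.cons (P.lf 0 807618985 0) (P.cons (P.lf 0 250377840 0) (P.cons (P.lf 97032666 0 0) (P.cons (P.lf 21425119 0 0) (P.cons (P.lf 0 985271 0) (P.cons (P.lf 0 451761 0) P.nil)))))) (P.cons (P.cons (P.lf 1204823643 0 0) (P.cons (P.lf 147673638 0 0) (P.cons (P.lf 0 57065796 0) (P.cons (P.lf 0 12778350 0) (P.cons (P.lf 595925 0 0) P.nil))))) (P.cons (P.cons (P.lf 35951051 0 0) (P.cons (P.lf 0 13614309 0) (P.cons (P.lf 4642164 0 0) (P.cons (P.lf 1711746 0 0) P.nil)))) (P.cons (P.cons (P.lf 0 70299084 0) (P.cons (P.lf 0 6202686 0) (P.cons (P.lf 2621623 0 0) P.nil))) (P.cons (P.cons (P.lf 5405759 0 0) (P.cons (P.lf 1401629 0 0) P.nil)) (P.cons (P.cons (P.lf 1325164 0 0) P.nil) P.nil)))))) 4272444)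
 (EL.cons 7 (TM.mk (P.cons (P.cons (P.lf 0 570894527 0) (P.cons (P.lf 0 185088011 0) (P.cons (P.lf 69998531 0 0) (P.cons (P.lf 17331386 0 0) (P.cons (P.lf 0 884373 0) (P.cons (P.lf 0 405497 0) P.nil)))))) (P.cons (P.cons (P.lf 792688067 0 0) (P.cons (P.lf 97158728 0 0) (P.cons (P.lf 0 37545226 0) (P.cons (P.lf 0 8407246 0) (P.cons (P.lf 392073 0 0) P.nil))))) (P.cons (P.cons (P.lf 107967464 0 0) (P.cons (P.lf 1377036 0 0) (P.cons (P.lf 0 939278 0) (P.cons (P.lf 231977 0 0) P.nil)))) (P.cons (P.cons (P.lf 0 37651024 0) (P.cons (P.lf 0 4708216 0) (P.cons (P.lf 1909503 0 0) P.nil))) (P.cons (P.cons (P.lf 0 3102599 0) (P.cons (P.lf 241632 0 0) P.nil)) (P.cons (P.cons (P.lf 992152 0 0) P.nil) P.nil)))))) 2316244)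
 (EL.cons 10 (TM.mk (P.cons (P.cons (P.lf 127609956 0 0) (P.cons (P.lf 0 86029374 0) (P.cons (P.lf 0 56970612 0) (P.cons (P.lf 11019264 0 0) (P.cons (P.lf 3685398 0 0) (P.cons (P.lf 0 76752 0) P.nil)))))) (P.cons (P.cons (P.lf 0 219669084 0) (P.cons (P.lf 185457792 0 0) (P.cons (P.lf 47147340 0 0) (P.cons (P.lf 0 9321198 0) (P.cons (P.lf 0 2392698 0) P.nil))))) (P.cons (P.cons (P.lf 44278146 0 0) (P.cons (P.lf 0 37238052 0) (P.cons (P.lf 0 9699900 0) (P.cons (P.lf 1916082 0 0) P.nil)))) (P.cons (P.cons (P.lf 1551234 0 0) (P.cons (P.lf 0 1662516 0) (P.cons (P.lf 147954 0 0) P.nil))) (P.cons (P.cons (P.lf 0 1078248 0) (P.cons (P.lf 956442 0 0) P.nil)) (P.cons (P.cons (P.lf 59808 0 0) P.nil) P.nil)))))) 1768968)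
 EL.nil))))
noncomputable def S343_372_660_808_9 : EL := (EL.cons 3 (TM.mk (P.cons (P.lf 2668545243 0 0) (P.cons (P.lf 256005836 0 0) (P.cons (P.lf 0 20956361 0) (P.cons (P.lf 125291 0 0) (P.cons (P.lf 64357 0 0) (P.cons (P.lf 0 3438 0) P.nil)))))) 378)
 (EL.cons 7 (TM.mk (P.cons (P.lf 0 1442125985 0) (P.cons (P.lf 168433589 0 0) (P.cons (P.lf 4127638 0 0) (P.cons (P.lf 0 758202 0) (P.cons (P.lf 21743 0 0) (P.cons (P.lf 1521 0 0) P.nil)))))) 224)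
 EL.nil))
noncomputable def S343_372_660_808_10 : EL := (EL.cons 3 (TM.mk (P.cons (P.cons (P.lf 0 296727697 0) (P.cons (P.lf 0 76387711 0) (P.cons (P.lf 32939241 0 0) (P.lf 3659914 0 0)))) (P.cons (P.cons (P.lf 413010810 0 0) (P.cons (P.lf 19436958 0 0) (P.cons (P.lf 0 8381433 0) (P.lf 0 931267 0)))) (P.cons (P.cons (P.lf 47198587 0 0) (P.cons (P.lf 697449 0 0) (P.cons (P.lf 0 300749 0) (P.lf 0 33417 0)))) (P.cons (P.cons (P.lf 0 9243725 0) (P.cons (P.lf 0 602739 0) (P.cons (P.lf 259905 0 0) P.nil))) (P.cons (P.cons (P.lf 0 299721 0) (P.cons (P.lf 42899 0 0) P.nil)) (P.cons (P.cons (P.lf 118947 0 0) P.nil) P.nil)))))) 99514)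
 (EL.cons 7 (TM.mk (P.cons (P.cons (P.lf 160356555 0 0) (P.cons (P.lf 41281183 0 0) (P.cons (P.lf 0 17800911 0) (P.lf 0 1977878 0)))) (P.cons (P.cons (P.lf 0 257310513 0) (P.cons (P.lf 0 19285798 0) (P.cons (P.lf 8316252 0 0) (P.lf 924026 0 0)))) (P.cons (P.cons (P.lf 26046881 0 0) (P.cons (P.lf 2906117 0 0) (P.cons (P.lf 0 1253149 0) (P.lf 0 139238 0)))) (P.cons (P.cons (P.lf 4170679 0 0) (P.cons (P.lf 0 10668 0) (P.cons (P.lf 4600 0 0) P.nil))) (P.cons (P.cons (P.lf 0 655581 0) (P.cons (P.lf 0 42538 0) P.nil)) (P.cons (P.cons (P.lf 0 6876 0) P.nil) P.nil)))))) 55254)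
 EL.nil))
noncomputable def S343_372_660_808_11 : EL := (EL.cons 3 (TM.mk (P.cons (P.cons (P.lf 32994503 0 0) (P.cons (P.lf 16987794 0 0) (P.cons (P.lf 0 5138712 0) (P.cons (P.lf 0 2699711 0) (P.cons (P.lf 197053 0 0) (P.cons (P.lf 90351 0 0) P.nil)))))) (P.cons (P.cons (P.lf 0 95014419 0) (P.cons (P.lf 0 29597340 0) (P.cons (P.lf 11440158 0 0) (P.cons (P.lf 2558670 0 0) (P.cons (P.lf 0 119185 0) P.nil))))) (P.cons (P.cons (P.lf 62799521 0 0) (P.cons (P.lf 6132087 0 0) (P.cons (P.lf 0 2398530 0) (P.cons (P.lf 0 505692 0) P.nil)))) (P.cons (P.cons (P.lf 9893202 0 0) (P.cons (P.lf 745194 0 0) (P.cons (P.lf 0 310727 0) P.nil))) (P.cons (P.cons (P.lf 0 2412109 0) (P.cons (P.lf 0 311293 0) P.nil)) (P.cons (P.cons (P.lf 0 137732 0) P.nil) P.nil)))))) 817724)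
 (EL.cons 7 (TM.mk (P.cons (P.cons (P.lf 0 17830775 0) (P.cons (P.lf 0 9180485 0) (P.cons (P.lf 2777045 0 0) (P.cons (P.lf 1458968 0 0) (P.cons (P.lf 0 106491 0) (P.cons (P.lf 0 48827 0) P.nil)))))) (P.cons (P.cons (P.lf 55140503 0 0) (P.cons (P.lf 17947856 0 0) (P.cons (P.lf 0 6773212 0) (P.cons (P.lf 0 1693114 0) (P.cons (P.lf 87063 0 0) P.nil))))) (P.cons (P.cons (P.lf 0 45313906 0) (P.cons (P.lf 0 6949650 0) (P.cons (P.lf 2681932 0 0) (P.cons (P.lf 604493 0 0) P.nil)))) (P.cons (P.cons (P.lf 3242030 0 0) (P.cons (P.lf 741812 0 0) (P.cons (P.lf 0 274923 0) P.nil))) (P.cons (P.cons (P.lf 1383349 0 0) (P.cons (P.lf 106932 0 0) P.nil)) (P.cons (P.cons (P.lf 0 187586 0) P.nil) P.nil)))))) 443238)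
 EL.nil))
noncomputable def S343_372_660_808_12 : EL := (EL.cons 4 (TM.mk (P.cons (P.lf 0 2668545243 0) (P.cons (P.lf 0 256005836 0) (P.cons (P.lf 20956361 0 0) (P.cons (P.lf 0 125291 0) (P.cons (P.lf 0 64357 0) (P.cons (P.lf 3438 0 0) P.nil)))))) 378)
 (EL.cons 8 (TM.mk (P.cons (P.lf 1442125985 0 0) (P.cons (P.lf 0 168433589 0) (P.cons (P.lf 0 4127638 0) (P.cons (P.lf 758202 0 0) (P.cons (P.lf 0 21743 0) (P.cons (P.lf 0 1521 0) P.nil)))))) 224)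
 EL.nil))
noncomputable def S343_372_660_808_13 : EL := (EL.cons 4 (TM.mk (P.cons (P.cons (P.lf 296727697 0 0) (P.cons (P.lf 76387711 0 0) (P.cons (P.lf 0 32939241 0) (P.lf 0 3659914 0)))) (P.cons (P.cons (P.lf 0 413010810 0) (P.cons (P.lf 0 19436958 0) (P.cons (P.lf 8381433 0 0) (P.lf 931267 0 0)))) (P.cons (P.cons (P.lf 0 47198587 0) (P.cons (P.lf 0 697449 0) (P.cons (P.lf 300749 0 0) (P.lf 33417 0 0)))) (P.cons (P.cons (P.lf 9243725 0 0) (P.cons (P.lf 602739 0 0) (P.cons (P.lf 0 259905 0) P.nil))) (P.cons (P.cons (P.lf 299721 0 0) (P.cons (P.lf 0 42899 0) P.nil)) (P.cons (P.cons (P.lf 0 118947 0) P.nil) P.nil)))))) 99514)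
 (EL.cons 8 (TM.mk (P.cons (P.cons (P.lf 0 160356555 0) (P.cons (P.lf 0 41281183 0) (P.cons (P.lf 17800911 0 0) (P.lf 1977878 0 0)))) (P.cons (P.cons (P.lf 257310513 0 0) (P.cons (P.lf 19285798 0 0) (P.cons (P.lf 0 8316252 0) (P.lf 0 924026 0)))) (P.cons (P.cons (P.lf 0 26046881 0) (P.cons (P.lf 0 2906117 0) (P.cons (P.lf 1253149 0 0) (P.lf 139238 0 0)))) (P.cons (P.cons (P.lf 0 4170679 0) (P.cons (P.lf 10668 0 0) (P.cons (P.lf 0 4600 0) P.nil))) (P.cons (P.cons (P.lf 655581 0 0) (P.cons (P.lf 42538 0 0) P.nil)) (P.cons (P.cons (P.lf 6876 0 0) P.nil) P.nil)))))) 55254)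
 EL.nil))
noncomputable def S343_372_660_808_14 : EL := (EL.cons 4 (TM.mk (P.cons (P.cons (P.lf 0 32994503 0) (P.cons (P.lf 0 16987794 0) (P.cons (P.lf 5138712 0 0) (P.cons (P.lf 2699711 0 0) (P.cons (P.lf 0 197053 0) (P.cons (P.lf 0 90351 0) P.nil)))))) (P.cons (P.cons (P.lf 95014419 0 0) (P.cons (P.lf 29597340 0 0) (P.cons (P.lf 0 11440158 0) (P.cons (P.lf 0 2558670 0) (P.cons (P.lf 119185 0 0) P.nil))))) (P.cons (P.cons (P.lf 0 62799521 0) (P.cons (P.lf 0 6132087 0) (P.cons (P.lf 2398530 0 0) (P.cons (P.lf 505692 0 0) P.nil)))) (P.cons (P.cons (P.lf 0 9893202 0) (P.cons (P.lf 0 745194 0) (P.cons (P.lf 310727 0 0) P.nil))) (P.cons (P.cons (P.lf 2412109 0 0) (P.cons (P.lf 311293 0 0) P.nil)) (P.cons (P.cons (P.lf 137732 0 0) P.nil) P.nil)))))) 817724)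
 (EL.cons 8 (TM.mk (P.cons (P.cons (P.lf 17830775 0 0) (P.cons (P.lf 9180485 0 0) (P.cons (P.lf 0 2777045 0) (P.cons (P.lf 0 1458968 0) (P.cons (P.lf 106491 0 0) (P.cons (P.lf 48827 0 0) P.nil)))))) (P.cons (P.cons (P.lf 0 55140503 0) (P.cons (P.lf 0 17947856 0) (P.cons (P.lf 6773212 0 0) (P.cons (P.lf 1693114 0 0) (P.cons (P.lf 0 87063 0) P.nil))))) (P.cons (P.cons (P.lf 45313906 0 0) (P.cons (P.lf 6949650 0 0) (P.cons (P.lf 0 2681932 0) (P.cons (P.lf 0 604493 0) P.nil)))) (P.cons (P.cons (P.lf 0 3242030 0) (P.cons (P.lf 0 741812 0) (P.cons (P.lf 274923 0 0) P.nil))) (P.cons (P.cons (P.lf 0 1383349 0) (P.cons (P.lf 0 106932 0) P.nil)) (P.cons (P.cons (P.lf 187586 0 0) P.nil) P.nil)))))) 443238)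
 EL.nil))
noncomputable def S343_372_660_808_15 : EL := (EL.cons 4 (TM.mk (P.cons (P.lf 0 1768552689 0) (P.cons (P.lf 0 339330810 0) (P.cons (P.lf 11500469 0 0) (P.cons (P.lf 2498728 0 0) (P.cons (P.lf 0 210304 0) (P.cons (P.lf 0 2321 0) P.nil)))))) 1708)
 (EL.cons 8 (TM.mk (P.cons (P.lf 955755124 0 0) (P.cons (P.lf 0 19937749 0) (P.cons (P.lf 0 20950159 0) (P.cons (P.lf 1161554 0 0) (P.cons (P.lf 73087 0 0) (P.cons (P.lf 0 10388 0) P.nil)))))) 788)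
 EL.nil))
noncomputable def S343_372_660_808_16 : EL := (EL.cons 4 (TM.mk (P.cons (P.cons (P.lf 196653426 0 0) (P.cons (P.lf 50625221 0 0) (P.cons (P.lf 0 21830165 0) (P.lf 0 2425573 0)))) (P.cons (P.cons (P.lf 0 254853072 0) (P.cons (P.lf 0 8024946 0) (P.cons (P.lf 3460445 0 0) (P.lf 384492 0 0)))) (P.cons (P.cons (P.lf 0 59083868 0) (P.cons (P.lf 0 2095589 0) (P.cons (P.lf 903642 0 0) (P.lf 100404 0 0)))) (P.cons (P.cons (P.lf 5284092 0 0) (P.cons (P.lf 458654 0 0) (P.cons (P.lf 0 197775 0) P.nil))) (P.cons (P.cons (P.lf 1023890 0 0) (P.cons (P.lf 14136 0 0) P.nil)) (P.cons (P.cons (P.lf 0 116207 0) P.nil) P.nil)))))) 112497)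
 (EL.cons 8 (TM.mk (P.cons (P.cons (P.lf 0 106274764 0) (P.cons (P.lf 0 27358706 0) (P.cons (P.lf 11797382 0 0) (P.lf 1310819 0 0)))) (P.cons (P.cons (P.lf 160334639 0 0) (P.cons (P.lf 10156830 0 0) (P.cons (P.lf 0 4379738 0) (P.lf 0 486636 0)))) (P.cons (P.cons (P.lf 0 67998 0) (P.cons (P.lf 0 484964 0) (P.cons (P.lf 209121 0 0) (P.lf 23235 0 0)))) (P.cons (P.cons (P.lf 0 5764311 0) (P.cons (P.lf 0 279358 0) (P.cons (P.lf 120461 0 0) P.nil))) (P.cons (P.cons (P.lf 310315 0 0) (P.cons (P.lf 43935 0 0) P.nil)) (P.cons (P.cons (P.lf 71384 0 0) P.nil) P.nil)))))) 67211)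
 EL.nil))
noncomputable def S343_372_660_808_17 : EL := (EL.cons 4 (TM.mk (P.cons (P.cons (P.lf 0 21866789 0) (P.cons (P.lf 0 11258497 0) (P.cons (P.lf 3405631 0 0) (P.cons (P.lf 1789207 0 0) (P.cons (P.lf 0 130594 0) (P.cons (P.lf 0 59880 0) P.nil)))))) (P.cons (P.cons (P.lf 60872110 0 0) (P.cons (P.lf 18535273 0 0) (P.cons (P.lf 0 7255137 0) (P.cons (P.lf 0 1524087 0) (P.cons (P.lf 66460 0 0) P.nil))))) (P.cons (P.cons (P.lf 0 35407064 0) (P.cons (P.lf 0 2093776 0) (P.cons (P.lf 835495 0 0) (P.cons (P.lf 158412 0 0) P.nil)))) (P.cons (P.cons (P.lf 0 11044936 0) (P.cons (P.lf 0 1038316 0) (P.cons (P.lf 418130 0 0) P.nil))) (P.cons (P.cons (P.lf 1298868 0 0) (P.cons (P.lf 191490 0 0) P.nil)) (P.cons (P.cons (P.lf 295725 0 0) P.nil) P.nil)))))) 699905)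
 (EL.cons 8 (TM.mk (P.cons (P.cons (P.lf 11817174 0 0) (P.cons (P.lf 6084278 0 0) (P.cons (P.lf 0 1840459 0) (P.cons (P.lf 0 966917 0) (P.cons (P.lf 70575 0 0) (P.cons (P.lf 32359 0 0) P.nil)))))) (P.cons (P.cons (P.lf 0 35410162 0) (P.cons (P.lf 0 11311076 0) (P.cons (P.lf 4312317 0 0) (P.cons (P.lf 1029334 0 0) (P.cons (P.lf 0 50929 0) P.nil))))) (P.cons (P.cons (P.lf 26432735 0 0) (P.cons (P.lf 3416913 0 0) (P.cons (P.lf 0 1332332 0) (P.cons (P.lf 0 285380 0) P.nil)))) (P.cons (P.cons (P.lf 1019958 0 0) (P.cons (P.lf 43924 0 0) (P.cons (P.lf 0 23651 0) P.nil))) (P.cons (P.cons (P.lf 0 1360199 0) (P.cons (P.lf 0 154614 0) P.nil)) (P.cons (P.cons (P.lf 53755 0 0) P.nil) P.nil)))))) 408196)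
 EL.nil))
noncomputable def S343_372_660_808_18 : EL := (EL.cons 4 (TM.mk (P.cons (P.lf 0 1172091282 0) (P.cons (P.lf 0 337332345 0) (P.cons (P.lf 0 4748184 0) (P.cons (P.lf 4098243 0 0) (P.cons (P.lf 0 79189 0) (P.cons (P.lf 0 31469 0) P.nil)))))) 3321)
 (EL.cons 8 (TM.mk (P.cons (P.lf 633417514 0 0) (P.cons (P.lf 47553107 0 0) (P.cons (P.lf 0 20126446 0) (P.cons (P.lf 0 428689 0) (P.cons (P.lf 245981 0 0) (P.cons (P.lf 0 10070 0) P.nil)))))) 1843)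
 EL.nil))
noncomputable def S343_372_660_808_19 : EL := (EL.cons 4 (TM.mk (P.cons (P.cons (P.lf 130330166 0 0) (P.cons (P.lf 33551378 0 0) (P.cons (P.lf 0 14467732 0) (P.lf 0 1607524 0)))) (P.cons (P.cons (P.lf 0 156398249 0) (P.cons (P.lf 0 2099717 0) (P.cons (P.lf 905420 0 0) (P.lf 100601 0 0)))) (P.cons (P.cons (P.lf 0 56384252 0) (P.cons (P.lf 0 2162537 0) (P.cons (P.lf 932510 0 0) (P.lf 103612 0 0)))) (P.cons (P.cons (P.lf 1077963 0 0) (P.cons (P.lf 214073 0 0) (P.cons (P.lf 0 92310 0) P.nil))) (P.cons (P.cons (P.lf 1317253 0 0) (P.cons (P.lf 49995 0 0) P.nil)) (P.cons (P.cons (P.lf 0 45497 0) P.nil) P.nil)))))) 113854)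
 (EL.cons 8 (TM.mk (P.cons (P.cons (P.lf 0 70432577 0) (P.cons (P.lf 0 18131719 0) (P.cons (P.lf 7818601 0 0) (P.lf 868733 0 0)))) (P.cons (P.cons (P.lf 99503318 0 0) (P.cons (P.lf 4991881 0 0) (P.cons (P.lf 0 2152555 0) (P.lf 0 239172 0)))) (P.cons (P.cons (P.lf 10702083 0 0) (P.cons (P.lf 466752 0 0) (P.cons (P.lf 0 201269 0) (P.lf 0 22363 0)))) (P.cons (P.cons (P.lf 0 4662344 0) (P.cons (P.lf 0 269689 0) (P.cons (P.lf 116292 0 0) P.nil))) (P.cons (P.cons (P.lf 0 157190 0) (P.cons (P.lf 13759 0 0) P.nil)) (P.cons (P.cons (P.lf 99691 0 0) P.nil) P.nil)))))) 70209)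
 EL.nil))
noncomputable def S343_372_660_808_20 : EL := (EL.cons 4 (TM.mk (P.cons (P.cons (P.lf 0 14492004 0) (P.cons (P.lf 0 7461460 0) (P.cons (P.lf 2257050 0 0) (P.cons (P.lf 1185780 0 0) (P.cons (P.lf 0 86550 0) (P.cons (P.lf 0 39684 0) P.nil)))))) (P.cons (P.cons (P.lf 38952120 0 0) (P.cons (P.lf 11568261 0 0) (P.cons (P.lf 0 4591742 0) (P.cons (P.lf 0 896316 0) (P.cons (P.lf 35742 0 0) P.nil))))) (P.cons (P.cons (P.lf 0 19481651 0) (P.cons (P.lf 0 150566 0) (P.cons (P.lf 74711 0 0) (P.cons (P.lf 0 1226 0) P.nil)))) (P.cons (P.cons (P.lf 0 9888590 0) (P.cons (P.lf 0 918074 0) (P.cons (P.lf 368098 0 0) P.nil))) (P.cons (P.cons (P.lf 344401 0 0) (P.cons (P.lf 72186 0 0) P.nil)) (P.cons (P.cons (P.lf 335944 0 0) P.nil) P.nil)))))) 568607)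
 (EL.cons 8 (TM.mk (P.cons (P.cons (P.lf 7831718 0 0) (P.cons (P.lf 4032296 0 0) (P.cons (P.lf 0 1219747 0) (P.cons (P.lf 0 640815 0) (P.cons (P.lf 46773 0 0) (P.cons (P.lf 21446 0 0) P.nil)))))) (P.cons (P.cons (P.lf 0 22716411 0) (P.cons (P.lf 0 7109470 0) (P.cons (P.lf 2740930 0 0) (P.cons (P.lf 620704 0 0) (P.cons (P.lf 0 29266 0) P.nil))))) (P.cons (P.cons (P.lf 15205168 0 0) (P.cons (P.lf 1513705 0 0) (P.cons (P.lf 0 599235 0) (P.cons (P.lf 0 118656 0) P.nil)))) (P.cons (P.cons (P.lf 2541216 0 0) (P.cons (P.lf 305415 0 0) (P.cons (P.lf 0 122884 0) P.nil))) (P.cons (P.cons (P.lf 0 975094 0) (P.cons (P.lf 0 117714 0) P.nil)) (P.cons (P.cons (P.lf 0 55917 0) P.nil) P.nil)))))) 342612)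
 EL.nil))
noncomputable def S343_372_660_808_21 : EL := (EL.cons 4 (TM.mk (P.cons (P.cons (P.lf 0 3779922060 0) (P.cons (P.lf 0 229163133 0) (P.cons (P.lf 98817723 0 0) (P.lf 10979742 0 0)))) (P.cons (P.cons (P.lf 221040000 0 0) (P.cons (P.lf 58310874 0 0) (P.cons (P.lf 0 25144299 0) (P.lf 0 2793801 0)))) (P.cons (P.cons (P.lf 176097174 0 0) (P.cons (P.lf 2092347 0 0) (P.cons (P.lf 0 902247 0) (P.lf 0 100251 0)))) (P.cons (P.cons (P.lf 0 20234997 0) (P.cons (P.lf 0 1808217 0) (P.cons (P.lf 779715 0 0) P.nil))) (P.cons (P.cons (P.lf 0 1530078 0) (P.cons (P.lf 128697 0 0) P.nil)) (P.cons (P.cons (P.lf 349878 0 0) P.nil) P.nil)))))) 303453)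
 (EL.cons 8 (TM.mk (P.cons (P.cons (P.lf 0 2486919252 0) (P.cons (P.lf 0 150773010 0) (P.cons (P.lf 65015025 0 0) (P.lf 7223892 0 0)))) (P.cons (P.cons (P.lf 0 383613612 0) (P.cons (P.lf 6290472 0 0) (P.cons (P.lf 0 2712525 0) (P.lf 0 301395 0)))) (P.cons (P.cons (P.lf 97418736 0 0) (P.cons (P.lf 6544275 0 0) (P.cons (P.lf 0 2821962 0) (P.lf 0 313551 0)))) (P.cons (P.cons (P.lf 8130483 0 0) (P.cons (P.lf 0 504366 0) (P.cons (P.lf 217488 0 0) P.nil))) (P.cons (P.cons (P.lf 0 1854243 0) (P.cons (P.lf 0 87858 0) P.nil)) (P.cons (P.cons (P.lf 0 2598 0) P.nil) P.nil)))))) 211323)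
 (EL.cons 11 (TM.mk (P.cons (P.cons (P.lf 573813891 0 0) (P.cons (P.lf 0 534560721 0) (P.cons (P.lf 0 54863319 0) (P.cons (P.lf 11410044 0 0) (P.lf 950835 0 0))))) (P.cons (P.cons (P.lf 0 134037570 0) (P.cons (P.lf 124868397 0 0) (P.cons (P.lf 12815559 0 0) (P.cons (P.lf 0 2665278 0) (P.lf 0 222105 0))))) (P.cons (P.cons (P.lf 4542750 0 0) (P.cons (P.lf 0 4231992 0) (P.cons (P.lf 0 434340 0) (P.cons (P.lf 90330 0 0) P.nil)))) (P.cons (P.cons (P.lf 987006 0 0) (P.cons (P.lf 0 919488 0) (P.cons (P.lf 0 94368 0) P.nil))) (P.cons (P.cons (P.lf 0 83070 0) (P.cons (P.lf 77388 0 0) P.nil)) (P.cons (P.cons (P.lf 0 915 0) P.nil) P.nil)))))) 40752)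
 EL.nil)))
noncomputable def S343_372_660_808_22 : EL := (EL.cons 4 (TM.mk (P.cons (P.cons (P.lf 420306744 0 0) (P.cons (P.lf 133682817 0 0) (P.cons (P.lf 0 51085689 0) (P.cons (P.lf 0 12062415 0) (P.cons (P.lf 591162 0 0) (P.cons (P.lf 271056 0 0) P.nil)))))) (P.cons (P.cons (P.lf 0 649919031 0) (P.cons (P.lf 0 88635489 0) (P.cons (P.lf 34252977 0 0) (P.cons (P.lf 7668510 0 0) (P.cons (P.lf 0 357555 0) P.nil))))) (P.cons (P.cons (P.lf 13424235 0 0) (P.cons (P.lf 9873198 0 0) (P.cons (P.lf 0 3520347 0) (P.cons (P.lf 0 1108719 0) P.nil)))) (P.cons (P.cons (P.lf 40096143 0 0) (P.cons (P.lf 3473940 0 0) (P.cons (P.lf 0 1466175 0) P.nil))) (P.cons (P.cons (P.lf 0 3908934 0) (P.cons (P.lf 0 856461 0) P.nil)) (P.cons (P.cons (P.lf 0 731448 0) P.nil) P.nil)))))) 1727349)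
 (EL.cons 8 (TM.mk (P.cons (P.cons (P.lf 276531876 0 0) (P.cons (P.lf 87953763 0 0) (P.cons (P.lf 0 33610743 0) (P.cons (P.lf 0 7936209 0) (P.cons (P.lf 388941 0 0) (P.cons (P.lf 178335 0 0) P.nil)))))) (P.cons (P.cons (P.lf 0 368773782 0) (P.cons (P.lf 0 39605436 0) (P.cons (P.lf 15386007 0 0) (P.cons (P.lf 3357066 0 0) (P.cons (P.lf 0 152505 0) P.nil))))) (P.cons (P.cons (P.lf 0 76640685 0) (P.cons (P.lf 0 4163343 0) (P.cons (P.lf 1810605 0 0) (P.cons (P.lf 186258 0 0) P.nil)))) (P.cons (P.cons (P.lf 20446527 0 0) (P.cons (P.lf 2725014 0 0) (P.cons (P.lf 0 1092213 0) P.nil))) (P.cons (P.cons (P.lf 2242974 0 0) (P.cons (P.lf 0 67350 0) P.nil)) (P.cons (P.cons (P.lf 0 589869 0) P.nil) P.nil)))))) 936492)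
 (EL.cons 11 (TM.mk (P.cons (P.cons (P.lf 0 63804978 0) (P.cons (P.lf 43014687 0 0) (P.cons (P.lf 28485306 0 0) (P.cons (P.lf 0 5509632 0) (P.cons (P.lf 0 1842699 0) (P.cons (P.lf 38376 0 0) P.nil)))))) (P.cons (P.cons (P.lf 109834542 0 0) (P.cons (P.lf 0 92728896 0) (P.cons (P.lf 0 23573670 0) (P.cons (P.lf 4660599 0 0) (P.cons (P.lf 1196349 0 0) P.nil))))) (P.cons (P.cons (P.lf 0 22139073 0) (P.cons (P.lf 18619026 0 0) (P.cons (P.lf 4849950 0 0) (P.cons (P.lf 0 958041 0) P.nil)))) (P.cons (P.cons (P.lf 0 775617 0) (P.cons (P.lf 831258 0 0) (P.cons (P.lf 0 73977 0) P.nil))) (P.cons (P.cons (P.lf 539124 0 0) (P.cons (P.lf 0 478221 0) P.nil)) (P.cons (P.cons (P.lf 0 29904 0) P.nil) P.nil)))))) 884484)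
 EL.nil)))
noncomputable def S343_372_660_808_23 : EL := (EL.cons 4 (TM.mk (P.cons (P.cons (P.lf 0 2505106983 0) (P.cons (P.lf 0 151875660 0) (P.cons (P.lf 65490495 0 0) (P.lf 7276716 0 0)))) (P.cons (P.cons (P.lf 0 93834315 0) (P.cons (P.lf 24074838 0 0) (P.cons (P.lf 0 10381335 0) (P.lf 0 1153473 0)))) (P.cons (P.cons (P.lf 150433236 0 0) (P.cons (P.lf 6286767 0 0) (P.cons (P.lf 0 2710926 0) (P.lf 0 301212 0)))) (P.cons (P.cons (P.lf 0 3482373 0) (P.cons (P.lf 0 1375959 0) (P.cons (P.lf 593322 0 0) P.nil))) (P.cons (P.cons (P.lf 0 3270627 0) (P.cons (P.lf 0 42411 0) P.nil)) (P.cons (P.cons (P.lf 252150 0 0) P.nil) P.nil)))))) 361737)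
 (EL.cons 8 (TM.mk (P.cons (P.cons (P.lf 0 1648181811 0) (P.cons (P.lf 0 99923361 0) (P.cons (P.lf 43088082 0 0) (P.lf 4787562 0 0)))) (P.cons (P.cons (P.lf 0 412353903 0) (P.cons (P.lf 0 5417157 0) (P.cons (P.lf 2335938 0 0) (P.lf 259545 0 0)))) (P.cons (P.cons (P.lf 53116617 0 0) (P.cons (P.lf 5521809 0 0) (P.cons (P.lf 0 2381064 0) (P.lf 0 264561 0)))) (P.cons (P.cons (P.lf 13501416 0 0) (P.cons (P.lf 44388 0 0) (P.cons (P.lf 0 19140 0) P.nil))) (P.cons (P.cons (P.lf 0 1270656 0) (P.cons (P.lf 0 126567 0) P.nil)) (P.cons (P.cons (P.lf 0 162903 0) P.nil) P.nil)))))) 231000)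
 (EL.cons 11 (TM.mk (P.cons (P.cons (P.lf 380289636 0 0) (P.cons (P.lf 0 354274974 0) (P.cons (P.lf 0 36360135 0) (P.cons (P.lf 7561896 0 0) (P.lf 630156 0 0))))) (P.cons (P.cons (P.lf 0 52349172 0) (P.cons (P.lf 48768096 0 0) (P.cons (P.lf 5005191 0 0) (P.cons (P.lf 0 1040937 0) (P.lf 0 86742 0))))) (P.cons (P.cons (P.lf 0 8497863 0) (P.cons (P.lf 7916544 0 0) (P.cons (P.lf 812493 0 0) (P.cons (P.lf 0 168975 0) P.nil)))) (P.cons (P.cons (P.lf 1658418 0 0) (P.cons (P.lf 0 1544970 0) (P.cons (P.lf 0 158562 0) P.nil))) (P.cons (P.cons (P.lf 0 10941 0) (P.cons (P.lf 10194 0 0) P.nil)) (P.cons (P.cons (P.lf 0 13515 0) P.nil) P.nil)))))) 95028)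
 EL.nil)))
noncomputable def S343_372_660_808_24 : EL := (EL.cons 4 (TM.mk (P.cons (P.cons (P.lf 278554251 0 0) (P.cons (P.lf 88596999 0 0) (P.cons (P.lf 0 33856548 0) (P.cons (P.lf 0 7994250 0) (P.cons (P.lf 391785 0 0) (P.cons (P.lf 179640 0 0) P.nil)))))) (P.cons (P.cons (P.lf 0 404004594 0) (P.cons (P.lf 0 50242797 0) (P.cons (P.lf 19452816 0 0) (P.cons (P.lf 4315305 0 0) (P.cons (P.lf 0 199380 0) P.nil))))) (P.cons (P.cons (P.lf 0 34612410 0) (P.cons (P.lf 212184 0 0) (P.cons (P.lf 110595 0 0) (P.cons (P.lf 0 184452 0) P.nil)))) (P.cons (P.cons (P.lf 30822468 0 0) (P.cons (P.lf 3395523 0 0) (P.cons (P.lf 0 1375377 0) P.nil))) (P.cons (P.cons (P.lf 0 124677 0) (P.cons (P.lf 0 398745 0) P.nil)) (P.cons (P.cons (P.lf 0 952302 0) P.nil) P.nil)))))) 1228887)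
 (EL.cons 8 (TM.mk (P.cons (P.cons (P.lf 183268839 0 0) (P.cons (P.lf 58290510 0 0) (P.cons (P.lf 0 22275195 0) (P.cons (P.lf 0 5259645 0) (P.cons (P.lf 257766 0 0) (P.cons (P.lf 118188 0 0) P.nil)))))) (P.cons (P.cons (P.lf 0 226819452 0) (P.cons (P.lf 0 20656044 0) (P.cons (P.lf 8059965 0 0) (P.cons (P.lf 1720281 0 0) (P.cons (P.lf 0 76344 0) P.nil))))) (P.cons (P.cons (P.lf 0 75678645 0) (P.cons (P.lf 0 5735079 0) (P.cons (P.lf 2353128 0 0) (P.cons (P.lf 378186 0 0) P.nil)))) (P.cons (P.cons (P.lf 10605858 0 0) (P.cons (P.lf 1750137 0 0) (P.cons (P.lf 0 689859 0) P.nil))) (P.cons (P.cons (P.lf 3178320 0 0) (P.cons (P.lf 150459 0 0) P.nil)) (P.cons (P.cons (P.lf 0 363252 0) P.nil) P.nil)))))) 710265)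
 (EL.cons 11 (TM.mk (P.cons (P.cons (P.lf 0 42286134 0) (P.cons (P.lf 28507569 0 0) (P.cons (P.lf 18878361 0 0) (P.cons (P.lf 0 3651456 0) (P.cons (P.lf 0 1221231 0) (P.cons (P.lf 25434 0 0) P.nil)))))) (P.cons (P.cons (P.lf 68735082 0 0) (P.cons (P.lf 0 58720320 0) (P.cons (P.lf 0 13812132 0) (P.cons (P.lf 2738466 0 0) (P.cons (P.lf 675711 0 0) P.nil))))) (P.cons (P.cons (P.lf 0 7357128 0) (P.cons (P.lf 6220029 0 0) (P.cons (P.lf 1567194 0 0) (P.cons (P.lf 0 309936 0) P.nil)))) (P.cons (P.cons (P.lf 0 2495256 0) (P.cons (P.lf 2218653 0 0) (P.cons (P.lf 382905 0 0) P.nil))) (P.cons (P.cons (P.lf 425607 0 0) (P.cons (P.lf 0 363186 0) P.nil)) (P.cons (P.cons (P.lf 19614 0 0) P.nil) P.nil)))))) 648894)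
 EL.nil)))
noncomputable def S343_372_660_808_25 : EL := (EL.cons 4 (TM.mk (P.cons (P.cons (P.lf 0 1660235553 0) (P.cons (P.lf 0 100654131 0) (P.cons (P.lf 43403193 0 0) (P.lf 4822575 0 0)))) (P.cons (P.cons (P.lf 0 221461833 0) (P.cons (P.lf 6299151 0 0) (P.cons (P.lf 0 2716263 0) (P.lf 0 301803 0)))) (P.cons (P.cons (P.lf 106770219 0 0) (P.cons (P.lf 6487614 0 0) (P.cons (P.lf 0 2797533 0) (P.lf 0 310836 0)))) (P.cons (P.cons (P.lf 7667013 0 0) (P.cons (P.lf 0 642219 0) (P.cons (P.lf 276927 0 0) P.nil))) (P.cons (P.cons (P.lf 0 3214884 0) (P.cons (P.lf 0 149988 0) P.nil)) (P.cons (P.cons (P.lf 0 17388 0) P.nil) P.nil)))))) 363267)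
 (EL.cons 8 (TM.mk (P.cons (P.cons (P.lf 0 1092316638 0) (P.cons (P.lf 0 66223245 0) (P.cons (P.lf 28556211 0 0) (P.lf 3172911 0 0)))) (P.cons (P.cons (P.lf 0 378074547 0) (P.cons (P.lf 0 9943269 0) (P.cons (P.lf 4287648 0 0) (P.lf 476403 0 0)))) (P.cons (P.cons (P.lf 17563248 0 0) (P.cons (P.lf 3835161 0 0) (P.cons (P.lf 0 1653762 0) (P.lf 0 183750 0)))) (P.cons (P.cons (P.lf 14419911 0 0) (P.cons (P.lf 405576 0 0) (P.cons (P.lf 0 174888 0) P.nil))) (P.cons (P.cons (P.lf 0 299319 0) (P.cons (P.lf 0 111564 0) P.nil)) (P.cons (P.cons (P.lf 0 262551 0) P.nil) P.nil)))))) 212499)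
 (EL.cons 11 (TM.mk (P.cons (P.cons (P.lf 252033297 0 0) (P.cons (P.lf 0 234792330 0) (P.cons (P.lf 0 24097329 0) (P.cons (P.lf 5011572 0 0) (P.lf 417630 0 0))))) (P.cons (P.cons (P.lf 0 10515195 0) (P.cons (P.lf 9795876 0 0) (P.cons (P.lf 1005375 0 0) (P.cons (P.lf 0 209088 0) (P.lf 0 17421 0))))) (P.cons (P.cons (P.lf 0 10939467 0) (P.cons (P.lf 10191123 0 0) (P.cons (P.lf 1045941 0 0) (P.cons (P.lf 0 217524 0) P.nil)))) (P.cons (P.cons (P.lf 843096 0 0) (P.cons (P.lf 0 785421 0) (P.cons (P.lf 0 80607 0) P.nil))) (P.cons (P.cons (P.lf 146865 0 0) (P.cons (P.lf 0 136818 0) P.nil)) (P.cons (P.cons (P.lf 0 19710 0) P.nil) P.nil)))))) 112530)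
 EL.nil)))
noncomputable def S343_372_660_808_26 : EL := (EL.cons 4 (TM.mk (P.cons (P.cons (P.lf 184609149 0 0) (P.cons (P.lf 58716810 0 0) (P.cons (P.lf 0 22438101 0) (P.cons (P.lf 0 5298111 0) (P.cons (P.lf 259653 0 0) (P.cons (P.lf 119055 0 0) P.nil)))))) (P.cons (P.cons (P.lf 0 250039752 0) (P.cons (P.lf 0 27664956 0) (P.cons (P.lf 10739574 0 0) (P.cons (P.lf 2351655 0 0) (P.cons (P.lf 0 107226 0) P.nil))))) (P.cons (P.cons (P.lf 0 50075304 0) (P.cons (P.lf 0 3514908 0) (P.cons (P.lf 1486308 0 0) (P.cons (P.lf 193728 0 0) P.nil)))) (P.cons (P.cons (P.lf 20337984 0 0) (P.cons (P.lf 2528091 0 0) (P.cons (P.lf 0 1006782 0) P.nil))) (P.cons (P.cons (P.lf 2049075 0 0) (P.cons (P.lf 0 49629 0) P.nil)) (P.cons (P.cons (P.lf 0 807246 0) P.nil) P.nil)))))) 1049655)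
 (EL.cons 8 (TM.mk (P.cons (P.cons (P.lf 121459659 0 0) (P.cons (P.lf 38631474 0 0) (P.cons (P.lf 0 14762670 0) (P.cons (P.lf 0 3485778 0) (P.cons (P.lf 170832 0 0) (P.cons (P.lf 78327 0 0) P.nil)))))) (P.cons (P.cons (P.lf 0 138670224 0) (P.cons (P.lf 0 9983499 0) (P.cons (P.lf 3925413 0 0) (P.cons (P.lf 805692 0 0) (P.cons (P.lf 0 34206 0) P.nil))))) (P.cons (P.cons (P.lf 0 65530251 0) (P.cons (P.lf 0 5417550 0) (P.cons (P.lf 2187894 0 0) (P.cons (P.lf 387387 0 0) P.nil)))) (P.cons (P.cons (P.lf 3403500 0 0) (P.cons (P.lf 904572 0 0) (P.cons (P.lf 0 350226 0) P.nil))) (P.cons (P.cons (P.lf 3170463 0 0) (P.cons (P.lf 241125 0 0) P.nil)) (P.cons (P.cons (P.lf 0 99999 0) P.nil) P.nil)))))) 620415)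
 (EL.cons 11 (TM.mk (P.cons (P.cons (P.lf 0 28024728 0) (P.cons (P.lf 18893118 0 0) (P.cons (P.lf 12511452 0 0) (P.cons (P.lf 0 2419965 0) (P.cons (P.lf 0 809358 0) (P.cons (P.lf 16854 0 0) P.nil)))))) (P.cons (P.cons (P.lf 42864972 0 0) (P.cons (P.lf 0 37103823 0) (P.cons (P.lf 0 7953576 0) (P.cons (P.lf 1582731 0 0) (P.cons (P.lf 370173 0 0) P.nil))))) (P.cons (P.cons (P.lf 0 285627 0) (P.cons (P.lf 240471 0 0) (P.cons (P.lf 62217 0 0) (P.cons (P.lf 0 12291 0) P.nil)))) (P.cons (P.cons (P.lf 0 2480523 0) (P.cons (P.lf 2172360 0 0) (P.cons (P.lf 425883 0 0) P.nil))) (P.cons (P.cons (P.lf 163173 0 0) (P.cons (P.lf 0 133380 0) P.nil)) (P.cons (P.cons (P.lf 53952 0 0) P.nil) P.nil)))))) 566790)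
 EL.nil)))
noncomputable def S343_372_660_808_27 : EL := (EL.cons 13 (TM.mk (P.lf 0 4294967296 0) 0)
 EL.nil)
noncomputable def S343_372_660_808_28 : EL := (EL.cons 13 (TM.mk (P.cons (P.cons (P.lf 477576972 0 0) (P.cons (P.lf 122944412 0 0) (P.cons (P.lf 0 53015016 0) (P.lf 0 5890556 0)))) (P.cons (P.cons (P.lf 0 710548349 0) (P.cons (P.lf 0 43078000 0) (P.cons (P.lf 18575716 0 0) (P.lf 2063964 0 0)))) (P.cons (P.cons (P.lf 0 4048495 0) (P.cons (P.lf 3975636 0 0) (P.cons (P.lf 0 1714336 0) (P.lf 0 190480 0)))) (P.cons (P.cons (P.lf 9663540 0 0) (P.cons (P.lf 244628 0 0) (P.cons (P.lf 0 105484 0) P.nil))) (P.cons (P.cons (P.lf 0 454622 0) (P.cons (P.lf 0 62236 0) P.nil)) (P.cons (P.cons (P.lf 0 53999 0) P.nil) P.nil)))))) 68155)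
 EL.nil)
noncomputable def S343_372_660_808_29 : EL := (EL.cons 13 (TM.mk (P.cons (P.cons (P.lf 0 53103958 0) (P.cons (P.lf 0 27341498 0) (P.cons (P.lf 8270650 0 0) (P.cons (P.lf 4345129 0 0) (P.cons (P.lf 0 317154 0) (P.cons (P.lf 0 145420 0) P.nil)))))) (P.cons (P.cons (P.lf 158018213 0 0) (P.cons (P.lf 50259292 0 0) (P.cons (P.lf 0 19206137 0) (P.cons (P.lf 0 4534976 0) (P.cons (P.lf 222253 0 0) P.nil))))) (P.cons (P.cons (P.lf 0 116650951 0) (P.cons (P.lf 0 14905787 0) (P.cons (P.lf 5767867 0 0) (P.cons (P.lf 1283086 0 0) P.nil)))) (P.cons (P.cons (P.lf 0 3488611 0) (P.cons (P.lf 626581 0 0) (P.cons (P.lf 0 204443 0) P.nil))) (P.cons (P.cons (P.lf 3294709 0 0) (P.cons (P.lf 322152 0 0) P.nil)) (P.cons (P.cons (P.lf 0 120196 0) P.nil) P.nil)))))) 864586)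
 EL.nil)
noncomputable def S343_372_660_808_30 : EL := (EL.cons 13 (TM.mk (P.cons (P.lf 0 2846448260 0) (P.cons (P.lf 0 273072892 0) (P.cons (P.lf 22353452 0 0) (P.cons (P.lf 0 133644 0) (P.cons (P.lf 0 68648 0) (P.cons (P.lf 3668 0 0) P.nil)))))) 396)
 EL.nil)
noncomputable def S343_372_660_808_31 : EL := (EL.cons 13 (TM.mk (P.cons (P.cons (P.lf 316509544 0 0) (P.cons (P.lf 81480226 0 0) (P.cons (P.lf 0 35135191 0) (P.lf 0 3903909 0)))) (P.cons (P.cons (P.lf 0 440544864 0) (P.cons (P.lf 0 20732756 0) (P.cons (P.lf 8940196 0 0) (P.lf 993352 0 0)))) (P.cons (P.cons (P.lf 0 50345160 0) (P.cons (P.lf 0 743946 0) (P.cons (P.lf 320799 0 0) (P.lf 35645 0 0)))) (P.cons (P.cons (P.lf 9859974 0 0) (P.cons (P.lf 642922 0 0) (P.cons (P.lf 0 277233 0) P.nil))) (P.cons (P.cons (P.lf 319703 0 0) (P.cons (P.lf 0 45759 0) P.nil)) (P.cons (P.cons (P.lf 0 126877 0) P.nil) P.nil))))))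 106129)
 EL.nil)
noncomputable def S343_372_660_808_32 : EL := (EL.cons 13 (TM.mk (P.cons (P.cons (P.lf 0 35194137 0) (P.cons (P.lf 0 18120314 0) (P.cons (P.lf 5481293 0 0) (P.cons (P.lf 2879692 0 0) (P.cons (P.lf 0 210190 0) (P.cons (P.lf 0 96375 0) P.nil)))))) (P.cons (P.cons (P.lf 101348714 0 0) (P.cons (P.lf 31570497 0 0) (P.cons (P.lf 0 12202836 0) (P.cons (P.lf 0 2729249 0) (P.cons (P.lf 127131 0 0) P.nil))))) (P.cons (P.cons (P.lf 0 66986156 0) (P.cons (P.lf 0 6540893 0) (P.cons (P.lf 2558432 0 0) (P.cons (P.lf 539405 0 0) P.nil)))) (P.cons (P.cons (P.lf 0 10552749 0) (P.cons (P.lf 0 794874 0) (P.cons (P.lf 331443 0 0) P.nil))) (P.cons (P.cons (P.lf 2572917 0 0) (P.cons (P.lf 332046 0 0) P.nil)) (P.cons (P.cons (P.lf 146915 0 0) P.nil) P.nil)))))) 872216)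
 EL.nil)
noncomputable def S343_372_660_808_33 : EL := (EL.cons 14 (TM.mk (P.lf 8589934592 0 0) 0)
 EL.nil)
noncomputable def S343_372_660_808_34 : EL := (EL.cons 14 (TM.mk (P.cons (P.cons (P.lf 0 955153944 0) (P.cons (P.lf 0 245888824 0) (P.cons (P.lf 106030032 0 0) (P.lf 11781112 0 0)))) (P.cons (P.cons (P.lf 1421096698 0 0) (P.cons (P.lf 86156000 0 0) (P.cons (P.lf 0 37151432 0) (P.lf 0 4127928 0)))) (P.cons (P.cons (P.lf 8096990 0 0) (P.cons (P.lf 0 7951272 0) (P.cons (P.lf 3428672 0 0) (P.lf 380960 0 0)))) (P.cons (P.cons (P.lf 0 19327080 0) (P.cons (P.lf 0 489256 0) (P.cons (P.lf 210968 0 0) P.nil))) (P.cons (P.cons (P.lf 909244 0 0) (P.cons (P.lf 124472 0 0) P.nil)) (P.cons (P.cons (P.lf 107998 0 0) P.nil) P.nil)))))) 136310)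
 EL.nil)
noncomputable def S343_372_660_808_35 : EL := (EL.cons 14 (TM.mk (P.cons (P.cons (P.lf 106207916 0 0) (P.cons (P.lf 54682996 0 0) (P.cons (P.lf 0 16541300 0) (P.cons (P.lf 0 8690258 0) (P.cons (P.lf 634308 0 0) (P.cons (P.lf 290840 0 0) P.nil)))))) (P.cons (P.cons (P.lf 0 316036426 0) (P.cons (P.lf 0 100518584 0) (P.cons (P.lf 38412274 0 0) (P.cons (P.lf 9069952 0 0) (P.cons (P.lf 0 444506 0) P.nil))))) (P.cons (P.cons (P.lf 233301902 0 0) (P.cons (P.lf 29811574 0 0) (P.cons (P.lf 0 11535734 0) (P.cons (P.lf 0 2566172 0) P.nil)))) (P.cons (P.cons (P.lf 6977222 0 0) (P.cons (P.lf 0 1253162 0) (P.cons (P.lf 408886 0 0) P.nil))) (P.cons (P.cons (P.lf 0 6589418 0) (P.cons (P.lf 0 644304 0) P.nil)) (P.cons (P.cons (P.lf 240392 0 0) P.nil) P.nil)))))) 1729172)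
 EL.nil)
noncomputable def S343_372_660_808_36 : EL := (EL.cons 14 (TM.mk (P.cons (P.lf 5692896520 0 0) (P.cons (P.lf 546145784 0 0) (P.cons (P.lf 0 44706904 0) (P.cons (P.lf 267288 0 0) (P.cons (P.lf 137296 0 0) (P.cons (P.lf 0 7336 0) P.nil)))))) 792)
 EL.nil)
noncomputable def S343_372_660_808_37 : EL := (EL.cons 14 (TM.mk (P.cons (P.cons (P.lf 0 633019088 0) (P.cons (P.lf 0 162960452 0) (P.cons (P.lf 70270382 0 0) (P.lf 7807818 0 0)))) (P.cons (P.cons (P.lf 881089728 0 0) (P.cons (P.lf 41465512 0 0) (P.cons (P.lf 0 17880392 0) (P.lf 0 1986704 0)))) (P.cons (P.cons (P.lf 100690320 0 0) (P.cons (P.lf 1487892 0 0) (P.cons (P.lf 0 641598 0) (P.lf 0 71290 0)))) (P.cons (P.cons (P.lf 0 19719948 0) (P.cons (P.lf 0 1285844 0) (P.cons (P.lf 554466 0 0) P.nil))) (P.cons (P.cons (P.lf 0 639406 0) (P.cons (P.lf 91518 0 0) P.nil)) (P.cons (P.cons (P.lf 253754 0 0) P.nil) P.nil))))))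 212258)
 EL.nil)
noncomputable def S343_372_660_808_38 : EL := (EL.cons 14 (TM.mk (P.cons (P.cons (P.lf 70388274 0 0) (P.cons (P.lf 36240628 0 0) (P.cons (P.lf 0 10962586 0) (P.cons (P.lf 0 5759384 0) (P.cons (P.lf 420380 0 0) (P.cons (P.lf 192750 0 0) P.nil)))))) (P.cons (P.cons (P.lf 0 202697428 0) (P.cons (P.lf 0 63140994 0) (P.cons (P.lf 24405672 0 0) (P.cons (P.lf 5458498 0 0) (P.cons (P.lf 0 254262 0) P.nil))))) (P.cons (P.cons (P.lf 133972312 0 0) (P.cons (P.lf 13081786 0 0) (P.cons (P.lf 0 5116864 0) (P.cons (P.lf 0 1078810 0) P.nil)))) (P.cons (P.cons (P.lf 21105498 0 0) (P.cons (P.lf 1589748 0 0) (P.cons (P.lf 0 662886 0) P.nil))) (P.cons (P.cons (P.lf 0 5145834 0) (P.cons (P.lf 0 664092 0) P.nil)) (P.cons (P.cons (P.lf 0 293830 0) P.nil) P.nil)))))) 1744432)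
 EL.nil)
noncomputable def S343_372_660_808_39 : EL := (EL.cons 14 (TM.mk (P.cons (P.lf 3772912404 0 0) (P.cons (P.lf 723905728 0 0) (P.cons (P.lf 0 24534334 0) (P.cons (P.lf 0 5330620 0) (P.cons (P.lf 448650 0 0) (P.cons (P.lf 4952 0 0) P.nil)))))) 3630)
 EL.nil)
noncomputable def S343_372_660_808_40 : EL := (EL.cons 14 (TM.mk (P.cons (P.cons (P.lf 0 419527310 0) (P.cons (P.lf 0 108000472 0) (P.cons (P.lf 46571020 0 0) (P.lf 5174556 0 0)))) (P.cons (P.cons (P.lf 543686554 0 0) (P.cons (P.lf 17119886 0 0) (P.cons (P.lf 0 7382284 0) (P.lf 0 820250 0)))) (P.cons (P.cons (P.lf 126045586 0 0) (P.cons (P.lf 4470590 0 0) (P.cons (P.lf 0 1927770 0) (P.lf 0 214196 0)))) (P.cons (P.cons (P.lf 0 11272730 0) (P.cons (P.lf 0 978462 0) (P.cons (P.lf 421920 0 0) P.nil))) (P.cons (P.cons (P.lf 0 2184300 0) (P.cons (P.lf 0 30158 0) P.nil)) (P.cons (P.cons (P.lf 247910 0 0) P.nil) P.nil))))))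 239954)
 EL.nil)
noncomputable def S343_372_660_808_41 : EL := (EL.cons 14 (TM.mk (P.cons (P.cons (P.lf 46649150 0 0) (P.cons (P.lf 24018128 0 0) (P.cons (P.lf 0 7265348 0) (P.cons (P.lf 0 3816976 0) (P.cons (P.lf 278602 0 0) (P.cons (P.lf 127744 0 0) P.nil)))))) (P.cons (P.cons (P.lf 0 129860502 0) (P.cons (P.lf 0 39541916 0) (P.cons (P.lf 15477626 0 0) (P.cons (P.lf 3251386 0 0) (P.cons (P.lf 0 141782 0) P.nil))))) (P.cons (P.cons (P.lf 75535070 0 0) (P.cons (P.lf 4466724 0 0) (P.cons (P.lf 0 1782390 0) (P.cons (P.lf 0 337946 0) P.nil)))) (P.cons (P.cons (P.lf 23562532 0 0) (P.cons (P.lf 2215076 0 0) (P.cons (P.lf 0 892012 0) P.nil))) (P.cons (P.cons (P.lf 0 2770920 0) (P.cons (P.lf 0 408514 0) P.nil)) (P.cons (P.cons (P.lf 0 630880 0) P.nil) P.nil)))))) 1493084)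
 EL.nil)
noncomputable def S343_372_660_808_42 : EL := (EL.cons 14 (TM.mk (P.cons (P.lf 2500461402 0 0) (P.cons (P.lf 719642336 0 0) (P.cons (P.lf 10129460 0 0) (P.cons (P.lf 0 8742920 0) (P.cons (P.lf 168938 0 0) (P.cons (P.lf 67134 0 0) P.nil)))))) 7070)
 EL.nil)
noncomputable def S343_372_660_808_43 : EL := (EL.cons 14 (TM.mk (P.cons (P.cons (P.lf 0 278037688 0) (P.cons (P.lf 0 71576274 0) (P.cons (P.lf 30864496 0 0) (P.lf 3429386 0 0)))) (P.cons (P.cons (P.lf 333649598 0 0) (P.cons (P.lf 4479398 0 0) (P.cons (P.lf 0 1931564 0) (P.lf 0 214616 0)))) (P.cons (P.cons (P.lf 120286406 0 0) (P.cons (P.lf 4613414 0 0) (P.cons (P.lf 0 1989356 0) (P.lf 0 221040 0)))) (P.cons (P.cons (P.lf 0 2299656 0) (P.cons (P.lf 0 456690 0) (P.cons (P.lf 196928 0 0) P.nil))) (P.cons (P.cons (P.lf 0 2810140 0) (P.cons (P.lf 0 106658 0) P.nil)) (P.cons (P.cons (P.lf 97062 0 0) P.nil) P.nil))))))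 242848)
 EL.nil)
noncomputable def S343_372_660_808_44 : EL := (EL.cons 14 (TM.mk (P.cons (P.cons (P.lf 30916276 0 0) (P.cons (P.lf 15917782 0 0) (P.cons (P.lf 0 4815040 0) (P.cons (P.lf 0 2529664 0) (P.cons (P.lf 184640 0 0) (P.cons (P.lf 84660 0 0) P.nil)))))) (P.cons (P.cons (P.lf 0 83097858 0) (P.cons (P.lf 0 24678958 0) (P.cons (P.lf 9795718 0 0) (P.cons (P.lf 1912142 0 0) (P.cons (P.lf 0 76250 0) P.nil))))) (P.cons (P.cons (P.lf 41560856 0 0) (P.cons (P.lf 321208 0 0) (P.cons (P.lf 0 159384 0) (P.cons (P.lf 2616 0 0) P.nil)))) (P.cons (P.cons (P.lf 21095660 0 0) (P.cons (P.lf 1958558 0 0) (P.cons (P.lf 0 785276 0) P.nil))) (P.cons (P.cons (P.lf 0 734724 0) (P.cons (P.lf 0 153998 0) P.nil)) (P.cons (P.cons (P.lf 0 716682 0) P.nil) P.nil)))))) 1212982)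
 EL.nil)
noncomputable def S343_372_660_808_45 : EL := (EL.cons 14 (TM.mk (P.cons (P.cons (P.lf 0 11809740 0) (P.cons (P.lf 0 9120676 0) (P.cons (P.lf 1584968 0 0) (P.cons (P.lf 2260452 0 0) (P.cons (P.lf 49048 0 0) (P.cons (P.lf 0 180450 0) P.nil)))))) (P.cons (P.cons (P.lf 52712292 0 0) (P.cons (P.lf 30335600 0 0) (P.cons (P.lf 0 7942304 0) (P.cons (P.lf 0 5673430 0) (P.cons (P.lf 189116 0 0) P.nil))))) (P.cons (P.cons (P.lf 0 78126040 0) (P.cons (P.lf 0 29839312 0) (P.cons (P.lf 9998792 0 0) (P.cons (P.lf 3809562 0 0) P.nil)))) (P.cons (P.cons (P.lf 37284172 0 0) (P.cons (P.lf 7280264 0 0) (P.cons (P.lf 0 2502116 0) P.nil))) (P.cons (P.cons (P.lf 2829228 0 0) (P.cons (P.lf 186562 0 0) P.nil)) (P.cons (P.cons (P.lf 0 1667328 0) P.nil) P.nil)))))) 3888896)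
 EL.nil)
noncomputable def S343_372_660_808_46 : EL := (EL.cons 15 (TM.mk (P.lf 4294967296 0 0) 0)
 EL.nil)
noncomputable def S343_372_660_808_47 : EL := (EL.cons 15 (TM.mk (P.cons (P.cons (P.lf 0 477576972 0) (P.cons (P.lf 0 122944412 0) (P.cons (P.lf 53015016 0 0) (P.lf 5890556 0 0)))) (P.cons (P.cons (P.lf 710548349 0 0) (P.cons (P.lf 43078000 0 0) (P.cons (P.lf 0 18575716 0) (P.lf 0 2063964 0)))) (P.cons (P.cons (P.lf 4048495 0 0) (P.cons (P.lf 0 3975636 0) (P.cons (P.lf 1714336 0 0) (P.lf 190480 0 0)))) (P.cons (P.cons (P.lf 0 9663540 0) (P.cons (P.lf 0 244628 0) (P.cons (P.lf 105484 0 0) P.nil))) (P.cons (P.cons (P.lf 454622 0 0) (P.cons (P.lf 62236 0 0) P.nil)) (P.cons (P.cons (P.lf 53999 0 0) P.nil) P.nil)))))) 68155)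
 EL.nil)
noncomputable def S343_372_660_808_48 : EL := (EL.cons 15 (TM.mk (P.cons (P.cons (P.lf 53103958 0 0) (P.cons (P.lf 27341498 0 0) (P.cons (P.lf 0 8270650 0) (P.cons (P.lf 0 4345129 0) (P.cons (P.lf 317154 0 0) (P.cons (P.lf 145420 0 0) P.nil)))))) (P.cons (P.cons (P.lf 0 158018213 0) (P.cons (P.lf 0 50259292 0) (P.cons (P.lf 19206137 0 0) (P.cons (P.lf 4534976 0 0) (P.cons (P.lf 0 222253 0) P.nil))))) (P.cons (P.cons (P.lf 116650951 0 0) (P.cons (P.lf 14905787 0 0) (P.cons (P.lf 0 5767867 0) (P.cons (P.lf 0 1283086 0) P.nil)))) (P.cons (P.cons (P.lf 3488611 0 0) (P.cons (P.lf 0 626581 0) (P.cons (P.lf 204443 0 0) P.nil))) (P.cons (P.cons (P.lf 0 3294709 0) (P.cons (P.lf 0 322152 0) P.nil)) (P.cons (P.cons (P.lf 120196 0 0) P.nil) P.nil)))))) 864586)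
 EL.nil)
noncomputable def S343_372_660_808 : SL := (SL.cons S343_372_660_808_0 (SL.cons S343_372_660_808_1 (SL.cons S343_372_660_808_2 (SL.cons S343_372_660_808_3 (SL.cons S343_372_660_808_4 (SL.cons S343_372_660_808_5 (SL.cons S343_372_660_808_6 (SL.cons S343_372_660_808_7 (SL.cons S343_372_660_808_8 (SL.cons S343_372_660_808_9 (SL.cons S343_372_660_808_10 (SL.cons S343_372_660_808_11 (SL.cons S343_372_660_808_12 (SL.cons S343_372_660_808_13 (SL.cons S343_372_660_808_14 (SL.cons S343_372_660_808_15 (SL.cons S343_372_660_808_16 (SL.cons S343_372_660_808_17 (SL.cons S343_372_660_808_18 (SL.cons S343_372_660_808_19 (SL.cons S343_372_660_808_20 (SL.cons S343_372_660_808_21 (SL.cons S343_372_660_808_22 (SL.cons S343_372_660_808_23 (SL.cons S343_372_660_808_24 (SL.cons S343_372_660_808_25 (SL.cons S343_372_660_808_26 (SL.cons S343_372_660_808_27 (SL.cons S343_372_660_808_28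 (SL.cons S343_372_660_808_29 (SL.cons S343_372_660_808_30 (SL.cons S343_372_660_808_31 (SL.cons S343_372_660_808_32 (SL.cons S343_372_660_808_33 (SL.cons S343_372_660_808_34 (SL.cons S343_372_660_808_35 (SL.cons S343_372_660_808_36 (SL.cons S343_372_660_808_37 (SL.cons S343_372_660_808_38 (SL.cons S343_372_660_808_39 (SL.cons S343_372_660_808_40 (SL.cons S343_372_660_808_41 (SL.cons S343_372_660_808_42 (SL.cons S343_372_660_808_43 (SL.cons S343_372_660_808_44 (SL.cons S343_372_660_808_45 (SL.cons S343_372_660_808_46 (SL.cons S343_372_660_808_47 (SL.cons S343_372_660_808_48 SL.nil)))))))))))))))))))))))))))))))))))))))))))))))))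
noncomputable def S343_372_734_808_0 : EL := (EL.cons 0 (TM.mk (P.cons (P.lf 5139680571 0 0) (P.cons (P.lf 0 636245268 0) (P.cons (P.lf 21563379 0 0) (P.cons (P.lf 4685115 0 0) (P.cons (P.lf 0 394321 0) (P.cons (P.lf 0 4352 0) P.nil)))))) 3197)
 (EL.cons 1 (TM.mk (P.cons (P.lf 1792040857 0 0) (P.cons (P.lf 0 37383279 0) (P.cons (P.lf 0 39281548 0) (P.cons (P.lf 2177913 0 0) (P.cons (P.lf 137038 0 0) (P.cons (P.lf 0 19477 0) P.nil)))))) 1484)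
 (EL.cons 5 (TM.mk (P.cons (P.lf 5474002426 0 0) (P.cons (P.lf 226220540 0 0) (P.cons (P.lf 0 7666984 0) (P.cons (P.lf 0 1665814 0) (P.cons (P.lf 140204 0 0) (P.cons (P.lf 1546 0 0) P.nil)))))) 969)
 (EL.cons 9 (TM.mk (P.lf 6442450944 0 0) 2)
 EL.nil))))
noncomputable def S343_372_734_808_1 : EL := (EL.cons 0 (TM.mk (P.cons (P.cons (P.lf 4178729698 0 0) (P.cons (P.lf 36671657 0 0) (P.cons (P.lf 0 17311261 0) (P.lf 0 824334 0)))) (P.cons (P.cons (P.lf 1106491383 0 0) (P.cons (P.lf 6560169 0 0) (P.cons (P.lf 0 3096808 0) (P.lf 0 147477 0)))) (P.cons (P.cons (P.lf 0 393966960 0) (P.cons (P.lf 0 6272747 0) (P.cons (P.lf 2961121 0 0) (P.lf 140997 0 0)))) (P.cons (P.cons (P.lf 0 1445457 0) (P.cons (P.lf 788163 0 0) (P.cons (P.lf 0 372056 0) P.nil))) (P.cons (P.cons (P.lf 9035526 0 0) (P.cons (P.lf 60894 0 0) P.nil)) (P.cons (P.cons (P.lf 0 612209 0) P.nil) P.nil)))))) 370708)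
 (EL.cons 1 (TM.mk (P.cons (P.cons (P.lf 63367010 0 0) (P.cons (P.lf 0 9209261 0) (P.cons (P.lf 4347334 0 0) (P.lf 207007 0 0)))) (P.cons (P.cons (P.lf 930012214 0 0) (P.cons (P.lf 14037702 0 0) (P.cons (P.lf 0 6626650 0) (P.lf 0 315542 0)))) (P.cons (P.cons (P.lf 1291019 0 0) (P.cons (P.lf 0 1984869 0) (P.cons (P.lf 936976 0 0) (P.lf 44610 0 0)))) (P.cons (P.cons (P.lf 0 38567415 0) (P.cons (P.lf 0 359967 0) (P.cons (P.lf 169921 0 0) P.nil))) (P.cons (P.cons (P.lf 2067153 0 0) (P.cons (P.lf 86478 0 0) P.nil)) (P.cons (P.cons (P.lf 513602 0 0) P.nil) P.nil)))))) 192302)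
 (EL.cons 5 (TM.mk (P.cons (P.cons (P.lf 0 2378371044 0) (P.cons (P.lf 0 68723568 0) (P.cons (P.lf 32441730 0 0) (P.lf 1544844 0 0)))) (P.cons (P.cons (P.lf 842796077 0 0) (P.cons (P.lf 17178652 0 0) (P.cons (P.lf 0 8109374 0) (P.lf 0 386154 0)))) (P.cons (P.cons (P.lf 144349364 0 0) (P.cons (P.lf 429640 0 0) (P.cons (P.lf 0 202814 0) (P.lf 0 9650 0)))) (P.cons (P.cons (P.lf 0 16074700 0) (P.cons (P.lf 0 391032 0) (P.cons (P.lf 184586 0 0) P.nil))) (P.cons (P.cons (P.lf 0 2398899 0) (P.cons (P.lf 6540 0 0) P.nil)) (P.cons (P.cons (P.lf 308100 0 0) P.nil) P.nil)))))) 129413)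
 (EL.cons 9 (TM.mk (P.cons (P.cons (P.lf 0 787588656 0) (P.cons (P.lf 0 49133604 0) (P.cons (P.lf 23194068 0 0) (P.lf 1104474 0 0)))) (P.cons (P.cons (P.lf 1090778137 0 0) (P.cons (P.lf 17215722 0 0) (P.cons (P.lf 0 8126874 0) (P.lf 0 386988 0)))) (P.cons (P.cons (P.lf 3769606 0 0) (P.cons (P.lf 0 1588824 0) (P.cons (P.lf 750018 0 0) (P.lf 35712 0 0)))) (P.cons (P.cons (P.lf 0 14637024 0) (P.cons (P.lf 0 97764 0) (P.cons (P.lf 46146 0 0) P.nil))) (P.cons (P.cons (P.lf 717987 0 0) (P.cons (P.lf 24870 0 0) P.nil)) (P.cons (P.cons (P.lf 79786 0 0) P.nil) P.nil)))))) 33311)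
 (EL.cons 2 (TM.mk (P.cons (P.cons (P.lf 0 182856313 0) (P.cons (P.lf 180304034 0 0) (P.cons (P.lf 5641886 0 0) (P.cons (P.lf 0 1033849 0) (P.lf 0 36922 0))))) (P.cons (P.cons (P.lf 25171278 0 0) (P.cons (P.lf 0 24819941 0) (P.cons (P.lf 0 776638 0) (P.cons (P.lf 142315 0 0) (P.lf 5082 0 0))))) (P.cons (P.cons (P.lf 4086061 0 0) (P.cons (P.lf 0 4029030 0) (P.cons (P.lf 0 126073 0) (P.cons (P.lf 23101 0 0) P.nil)))) (P.cons (P.cons (P.lf 0 797422 0) (P.cons (P.lf 786293 0 0) (P.cons (P.lf 24600 0 0) P.nil))) (P.cons (P.cons (P.lf 5259 0 0) (P.cons (P.lf 0 5186 0) P.nil)) (P.cons (P.cons (P.lf 6496 0 0) P.nil) P.nil)))))) 16932)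
 (EL.cons 6 (TM.mk (P.cons (P.cons (P.lf 98818575 0 0) (P.cons (P.lf 0 97439283 0) (P.cons (P.lf 0 3048969 0) (P.cons (P.lf 558708 0 0) (P.lf 19953 0 0))))) (P.cons (P.cons (P.lf 0 34624644 0) (P.cons (P.lf 34141359 0 0) (P.cons (P.lf 1068315 0 0) (P.cons (P.lf 0 195762 0) (P.lf 0 6990 0))))) (P.cons (P.cons (P.lf 3195483 0 0) (P.cons (P.lf 0 3150879 0) (P.cons (P.lf 0 98592 0) (P.cons (P.lf 18066 0 0) P.nil)))) (P.cons (P.cons (P.lf 196626 0 0) (P.cons (P.lf 0 193881 0) (P.cons (P.lf 0 6066 0) P.nil))) (P.cons (P.cons (P.lf 0 50022 0) (P.cons (P.lf 49323 0 0) P.nil)) (P.cons (P.cons (P.lf 1680 0 0) P.nil) P.nil)))))) 8826)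
 EL.nil))))))
noncomputable def S343_372_734_808_2 : EL := (EL.cons 0 (TM.mk (P.cons (P.cons (P.lf 0 1098510797 0) (P.cons (P.lf 0 82288579 0) (P.cons (P.lf 37986943 0 0) (P.cons (P.lf 2660096 0 0) (P.cons (P.lf 0 152674 0) (P.cons (P.lf 0 18214 0) P.nil)))))) (P.cons (P.cons (P.lf 1366746908 0 0) (P.cons (P.lf 34087298 0 0) (P.cons (P.lf 0 15748852 0) (P.cons (P.lf 0 1089518 0) (P.cons (P.lf 60911 0 0) P.nil))))) (P.cons (P.cons (P.lf 302636769 0 0) (P.cons (P.lf 6645895 0 0) (P.cons (P.lf 0 3107857 0) (P.cons (P.lf 0 177183 0) P.nil)))) (P.cons (P.cons (P.lf 0 135648549 0) (P.cons (P.lf 0 4346414 0) (P.cons (P.lf 2014994 0 0) P.nil))) (P.cons (P.cons (P.lf 0 3099385 0) (P.cons (P.lf 342906 0 0) P.nil)) (P.cons (P.cons (P.lf 4510415 0 0) P.nil) P.nil)))))) 1901434)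
 (EL.cons 1 (TM.mk (P.cons (P.cons (P.lf 0 42275308 0) (P.cons (P.lf 0 2056477 0) (P.cons (P.lf 1007022 0 0) (P.cons (P.lf 12021 0 0) (P.cons (P.lf 6446 0 0) (P.cons (P.lf 769 0 0) P.nil)))))) (P.cons (P.cons (P.lf 0 131187321 0) (P.cons (P.lf 0 14529031 0) (P.cons (P.lf 6670474 0 0) (P.cons (P.lf 504201 0 0) (P.cons (P.lf 0 33459 0) P.nil))))) (P.cons (P.cons (P.lf 262606023 0 0) (P.cons (P.lf 8386106 0 0) (P.cons (P.lf 0 3867684 0) (P.cons (P.lf 0 274473 0) P.nil)))) (P.cons (P.cons (P.lf 8724371 0 0) (P.cons (P.lf 0 411430 0) (P.cons (P.lf 183085 0 0) P.nil))) (P.cons (P.cons (P.lf 0 15111848 0) (P.cons (P.lf 0 398212 0) P.nil)) (P.cons (P.cons (P.lf 618515 0 0) P.nil) P.nil)))))) 1016517)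
 (EL.cons 5 (TM.mk (P.cons (P.cons (P.lf 499701896 0 0) (P.cons (P.lf 42873062 0 0) (P.cons (P.lf 0 19508852 0) (P.cons (P.lf 0 1652805 0) (P.cons (P.lf 129825 0 0) (P.cons (P.lf 15481 0 0) P.nil)))))) (P.cons (P.cons (P.lf 0 788208707 0) (P.cons (P.lf 0 35746480 0) (P.cons (P.lf 16455169 0 0) (P.cons (P.lf 1199460 0 0) (P.cons (P.lf 0 74586 0) P.nil))))) (P.cons (P.cons (P.lf 100656166 0 0) (P.cons (P.lf 4619021 0 0) (P.cons (P.lf 0 2111313 0) (P.cons (P.lf 0 169109 0) P.nil)))) (P.cons (P.cons (P.lf 53733173 0 0) (P.cons (P.lf 1238593 0 0) (P.cons (P.lf 0 579546 0) P.nil))) (P.cons (P.cons (P.lf 0 4711735 0) (P.cons (P.lf 0 269506 0) P.nil)) (P.cons (P.cons (P.lf 0 1369673 0) P.nil) P.nil)))))) 843121)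
 (EL.cons 9 (TM.mk (P.cons (P.cons (P.lf 96282594 0 0) (P.cons (P.lf 12013150 0 0) (P.cons (P.lf 0 5296222 0) (P.cons (P.lf 0 623823 0) (P.cons (P.lf 66655 0 0) (P.cons (P.lf 7951 0 0) P.nil)))))) (P.cons (P.cons (P.lf 0 266694925 0) (P.cons (P.lf 0 20846962 0) (P.cons (P.lf 9578449 0 0) (P.cons (P.lf 716536 0 0) (P.cons (P.lf 0 46710 0) P.nil))))) (P.cons (P.cons (P.lf 183759124 0 0) (P.cons (P.lf 6160591 0 0) (P.cons (P.lf 0 2837935 0) (P.cons (P.lf 0 204795 0) P.nil)))) (P.cons (P.cons (P.lf 4855219 0 0) (P.cons (P.lf 0 270700 0) (P.cons (P.lf 120786 0 0) P.nil))) (P.cons (P.cons (P.lf 0 5129761 0) (P.cons (P.lf 0 130222 0) P.nil)) (P.cons (P.cons (P.lf 206488 0 0) P.nil) P.nil)))))) 234271)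
 (EL.cons 2 (TM.mk (P.cons (P.cons (P.lf 44708310 0 0) (P.cons (P.lf 0 41295155 0) (P.cons (P.lf 0 5446265 0) (P.cons (P.lf 1402278 0 0) (P.cons (P.lf 127237 0 0) (P.cons (P.lf 0 4944 0) P.nil)))))) (P.cons (P.cons (P.lf 0 68073558 0) (P.cons (P.lf 65762190 0 0) (P.cons (P.lf 4085133 0 0) (P.cons (P.lf 0 945883 0) (P.cons (P.lf 0 71437 0) P.nil))))) (P.cons (P.cons (P.lf 7310520 0 0) (P.cons (P.lf 0 7046088 0) (P.cons (P.lf 0 462341 0) (P.cons (P.lf 108258 0 0) P.nil)))) (P.cons (P.cons (P.lf 2438943 0 0) (P.cons (P.lf 0 2377766 0) (P.cons (P.lf 0 114817 0) P.nil))) (P.cons (P.cons (P.lf 0 421661 0) (P.cons (P.lf 407244 0 0) P.nil)) (P.cons (P.cons (P.lf 0 18225 0) P.nil) P.nil)))))) 179695)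
 (EL.cons 6 (TM.mk (P.cons (P.cons (P.lf 0 24161106 0) (P.cons (P.lf 22316586 0 0) (P.cons (P.lf 2943252 0 0) (P.cons (P.lf 0 757812 0) (P.cons (P.lf 0 68760 0) (P.cons (P.lf 2670 0 0) P.nil)))))) (P.cons (P.cons (P.lf 41927868 0 0) (P.cons (P.lf 0 40286376 0) (P.cons (P.lf 0 2833788 0) (P.cons (P.lf 672378 0 0) (P.cons (P.lf 53232 0 0) P.nil))))) (P.cons (P.cons (P.lf 0 12390318 0) (P.cons (P.lf 11934846 0 0) (P.cons (P.lf 794250 0 0) (P.cons (P.lf 0 186492 0) P.nil)))) (P.cons (P.cons (P.lf 544440 0 0) (P.cons (P.lf 0 508686 0) (P.cons (P.lf 0 57852 0) P.nil))) (P.cons (P.cons (P.lf 261906 0 0) (P.cons (P.lf 0 256200 0) P.nil)) (P.cons (P.cons (P.lf 0 36906 0) P.nil) P.nil)))))) 131118)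
 EL.nil))))))
noncomputable def S343_372_734_808_3 : EL := (EL.cons 0 (TM.mk (P.cons (P.lf 3316036292 0 0) (P.cons (P.lf 636245268 0 0) (P.cons (P.lf 0 21563379 0) (P.cons (P.lf 0 4685115 0) (P.cons (P.lf 394321 0 0) (P.cons (P.lf 4352 0 0) P.nil)))))) 3197)
 (EL.cons 1 (TM.mk (P.cons (P.lf 0 1792040857 0) (P.cons (P.lf 37383279 0 0) (P.cons (P.lf 39281548 0 0) (P.cons (P.lf 0 2177913 0) (P.cons (P.lf 0 137038 0) (P.cons (P.lf 19477 0 0) P.nil)))))) 1484)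
 (EL.cons 5 (TM.mk (P.cons (P.lf 968448518 0 0) (P.cons (P.lf 0 226220540 0) (P.cons (P.lf 7666984 0 0) (P.cons (P.lf 1665814 0 0) (P.cons (P.lf 0 140204 0) (P.cons (P.lf 0 1546 0) P.nil)))))) 962)
 EL.nil)))
noncomputable def S343_372_734_808_4 : EL := (EL.cons 0 (TM.mk (P.cons (P.cons (P.lf 0 405384936 0) (P.cons (P.lf 0 25289878 0) (P.cons (P.lf 11938369 0 0) (P.lf 568490 0 0)))) (P.cons (P.cons (P.lf 483660699 0 0) (P.cons (P.lf 4008867 0 0) (P.cons (P.lf 0 1892429 0) (P.lf 0 90112 0)))) (P.cons (P.cons (P.lf 112299753 0 0) (P.cons (P.lf 1046854 0 0) (P.cons (P.lf 0 494180 0) (P.lf 0 23531 0)))) (P.cons (P.cons (P.lf 0 10239802 0) (P.cons (P.lf 0 229120 0) (P.cons (P.lf 108156 0 0) P.nil))) (P.cons (P.cons (P.lf 0 1930030 0) (P.cons (P.lf 0 7062 0) P.nil)) (P.cons (P.cons (P.lf 224455 0 0) P.nil) P.nil)))))) 72463)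
 (EL.cons 1 (TM.mk (P.cons (P.cons (P.lf 219076723 0 0) (P.cons (P.lf 13667068 0 0) (P.cons (P.lf 0 6451691 0) (P.lf 0 307220 0)))) (P.cons (P.cons (P.lf 0 307982418 0) (P.cons (P.lf 0 5073853 0) (P.cons (P.lf 2395168 0 0) (P.lf 114052 0 0)))) (P.cons (P.cons (P.lf 478680 0 0) (P.cons (P.lf 242263 0 0) (P.cons (P.lf 0 114361 0) (P.lf 0 5445 0)))) (P.cons (P.cons (P.lf 11010376 0 0) (P.cons (P.lf 139552 0 0) (P.cons (P.lf 0 65876 0) P.nil))) (P.cons (P.cons (P.lf 0 613657 0) (P.cons (P.lf 0 21946 0) P.nil)) (P.cons (P.cons (P.lf 0 134130 0) P.nil) P.nil)))))) 48084)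
 (EL.cons 5 (TM.mk (P.cons (P.cons (P.lf 0 118392684 0) (P.cons (P.lf 0 7385910 0) (P.cons (P.lf 3486600 0 0) (P.lf 166026 0 0)))) (P.cons (P.cons (P.lf 191624462 0 0) (P.cons (P.lf 4313198 0 0) (P.cons (P.lf 0 2036092 0) (P.lf 0 96954 0)))) (P.cons (P.cons (P.lf 0 38672266 0) (P.cons (P.lf 0 901822 0) (P.cons (P.lf 425714 0 0) (P.lf 20270 0 0)))) (P.cons (P.cons (P.lf 0 1238186 0) (P.cons (P.lf 48876 0 0) (P.cons (P.lf 0 23072 0) P.nil))) (P.cons (P.cons (P.lf 925560 0 0) (P.cons (P.lf 10800 0 0) P.nil)) (P.cons (P.cons (P.lf 0 53210 0) P.nil) P.nil)))))) 22854)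
 EL.nil)))
noncomputable def S343_372_734_808_5 : EL := (EL.cons 0 (TM.mk (P.cons (P.cons (P.lf 49558246 0 0) (P.cons (P.lf 6183367 0 0) (P.cons (P.lf 0 2726052 0) (P.cons (P.lf 0 321090 0) (P.cons (P.lf 34307 0 0) (P.cons (P.lf 4092 0 0) P.nil)))))) (P.cons (P.cons (P.lf 0 127763595 0) (P.cons (P.lf 0 9543877 0) (P.cons (P.lf 4407140 0 0) (P.cons (P.lf 307204 0 0) (P.cons (P.lf 0 17458 0) P.nil))))) (P.cons (P.cons (P.lf 67923274 0 0) (P.cons (P.lf 1071938 0 0) (P.cons (P.lf 0 497053 0) (P.cons (P.lf 0 32558 0) P.nil)))) (P.cons (P.cons (P.lf 21469422 0 0) (P.cons (P.lf 530114 0 0) (P.cons (P.lf 0 246306 0) P.nil))) (P.cons (P.cons (P.lf 0 2576095 0) (P.cons (P.lf 0 98484 0) P.nil)) (P.cons (P.cons (P.lf 0 566465 0) P.nil) P.nil)))))) 286046)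
 (EL.cons 1 (TM.mk (P.cons (P.cons (P.lf 0 26782095 0) (P.cons (P.lf 0 3341593 0) (P.cons (P.lf 1473202 0 0) (P.cons (P.lf 173521 0 0) (P.cons (P.lf 0 18540 0) (P.cons (P.lf 0 2210 0) P.nil)))))) (P.cons (P.cons (P.lf 74742913 0 0) (P.cons (P.lf 5868525 0 0) (P.cons (P.lf 0 2695085 0) (P.cons (P.lf 0 202931 0) (P.cons (P.lf 13378 0 0) P.nil))))) (P.cons (P.cons (P.lf 0 52075158 0) (P.cons (P.lf 0 1761356 0) (P.cons (P.lf 812690 0 0) (P.cons (P.lf 57318 0 0) P.nil)))) (P.cons (P.cons (P.lf 0 1942910 0) (P.cons (P.lf 0 20124 0) (P.cons (P.lf 10126 0 0) P.nil))) (P.cons (P.cons (P.lf 2663617 0 0) (P.cons (P.lf 79005 0 0) P.nil)) (P.cons (P.cons (P.lf 0 113756 0) P.nil) P.nil)))))) 175030)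
 (EL.cons 5 (TM.mk (P.cons (P.cons (P.lf 14473486 0 0) (P.cons (P.lf 1805852 0 0) (P.cons (P.lf 0 796142 0) (P.cons (P.lf 0 93774 0) (P.cons (P.lf 10018 0 0) (P.cons (P.lf 1194 0 0) P.nil)))))) (P.cons (P.cons (P.lf 0 43471250 0) (P.cons (P.lf 0 3555606 0) (P.cons (P.lf 1625832 0 0) (P.cons (P.lf 129616 0 0) (P.cons (P.lf 0 9360 0) P.nil))))) (P.cons (P.cons (P.lf 37102542 0 0) (P.cons (P.lf 1672394 0 0) (P.cons (P.lf 0 769246 0) (P.cons (P.lf 0 56686 0) P.nil)))) (P.cons (P.cons (P.lf 0 6015166 0) (P.cons (P.lf 0 278718 0) (P.cons (P.lf 127836 0 0) P.nil))) (P.cons (P.cons (P.lf 0 793974 0) (P.cons (P.lf 0 8388 0) P.nil)) (P.cons (P.cons (P.lf 270238 0 0) P.nil) P.nil)))))) 108558)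
 EL.nil)))
noncomputable def S343_372_734_808_6 : EL := (EL.cons 12 (TM.mk (P.lf 8589934592 0 0) 0)
 (EL.cons 3 (TM.mk (P.cons (P.lf 2668545243 0 0) (P.cons (P.lf 256005836 0 0) (P.cons (P.lf 0 20956361 0) (P.cons (P.lf 125291 0 0) (P.cons (P.lf 64357 0 0) (P.cons (P.lf 0 3438 0) P.nil)))))) 378)
 (EL.cons 7 (TM.mk (P.cons (P.lf 0 1442125985 0) (P.cons (P.lf 168433589 0 0) (P.cons (P.lf 4127638 0 0) (P.cons (P.lf 0 758202 0) (P.cons (P.lf 21743 0 0) (P.cons (P.lf 1521 0 0) P.nil)))))) 224)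
 EL.nil)))
noncomputable def S343_372_734_808_7 : EL := (EL.cons 12 (TM.mk (P.cons (P.cons (P.lf 0 1050118208 0) (P.cons (P.lf 0 65511472 0) (P.cons (P.lf 30925424 0 0) (P.lf 1472632 0 0)))) (P.cons (P.cons (P.lf 1454370850 0 0) (P.cons (P.lf 22954296 0 0) (P.cons (P.lf 0 10835832 0) (P.lf 0 515984 0)))) (P.cons (P.cons (P.lf 5026142 0 0) (P.cons (P.lf 0 2118432 0) (P.cons (P.lf 1000024 0 0) (P.lf 47616 0 0)))) (P.cons (P.cons (P.lf 0 19516032 0) (P.cons (P.lf 0 130352 0) (P.cons (P.lf 61528 0 0) P.nil))) (P.cons (P.cons (P.lf 957316 0 0) (P.cons (P.lf 33160 0 0) P.nil)) (P.cons (P.cons (P.lf 106382 0 0) P.nil) P.nil)))))) 44390)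
 (EL.cons 3 (TM.mk (P.cons (P.cons (P.lf 3542197472 0 0) (P.cons (P.lf 40703526 0 0) (P.cons (P.lf 0 19214554 0) (P.lf 0 914972 0)))) (P.cons (P.cons (P.lf 176957384 0 0) (P.cons (P.lf 0 10357064 0) (P.cons (P.lf 4889166 0 0) (P.lf 232810 0 0)))) (P.cons (P.cons (P.lf 0 129437304 0) (P.cons (P.lf 0 371640 0) (P.cons (P.lf 175440 0 0) (P.lf 8354 0 0)))) (P.cons (P.cons (P.lf 11456836 0 0) (P.cons (P.lf 321172 0 0) (P.cons (P.lf 0 151608 0) P.nil))) (P.cons (P.cons (P.lf 1197221 0 0) (P.cons (P.lf 0 22856 0) P.nil)) (P.cons (P.cons (P.lf 0 234199 0) P.nil) P.nil)))))) 131506)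
 (EL.cons 7 (TM.mk (P.cons (P.cons (P.lf 2721448699 0 0) (P.cons (P.lf 51168466 0 0) (P.cons (P.lf 0 24154647 0) (P.lf 0 1150224 0)))) (P.cons (P.cons (P.lf 116425336 0 0) (P.cons (P.lf 0 6814216 0) (P.cons (P.lf 3216727 0 0) (P.lf 153179 0 0)))) (P.cons (P.cons (P.lf 0 72776943 0) (P.cons (P.lf 0 969305 0) (P.cons (P.lf 457570 0 0) (P.lf 21786 0 0)))) (P.cons (P.cons (P.lf 0 3769132 0) (P.cons (P.lf 131534 0 0) (P.cons (P.lf 0 62093 0) P.nil))) (P.cons (P.cons (P.lf 1216164 0 0) (P.cons (P.lf 12074 0 0) P.nil)) (P.cons (P.cons (P.lf 0 7370 0) P.nil) P.nil)))))) 85141)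
 (EL.cons 10 (TM.mk (P.cons (P.cons (P.lf 0 294303381 0) (P.cons (P.lf 290195544 0 0) (P.cons (P.lf 9080499 0 0) (P.cons (P.lf 0 1663962 0) (P.lf 0 59427 0))))) (P.cons (P.cons (P.lf 68746524 0 0) (P.cons (P.lf 0 67786971 0) (P.cons (P.lf 0 2121117 0) (P.cons (P.lf 388686 0 0) (P.lf 13881 0 0))))) (P.cons (P.cons (P.lf 0 2329932 0) (P.cons (P.lf 2297409 0 0) (P.cons (P.lf 71886 0 0) (P.cons (P.lf 0 13173 0) P.nil)))) (P.cons (P.cons (P.lf 0 506226 0) (P.cons (P.lf 499161 0 0) (P.cons (P.lf 15618 0 0) P.nil))) (P.cons (P.cons (P.lf 42606 0 0) (P.cons (P.lf 0 42012 0) P.nil)) (P.cons (P.cons (P.lf 468 0 0) P.nil) P.nil)))))) 6171)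
 EL.nil))))
noncomputable def S343_372_734_808_8 : EL := (EL.cons 12 (TM.mk (P.cons (P.cons (P.lf 128376792 0 0) (P.cons (P.lf 16017534 0 0) (P.cons (P.lf 0 7061630 0) (P.cons (P.lf 0 831764 0) (P.cons (P.lf 88874 0 0) (P.cons (P.lf 10602 0 0) P.nil)))))) (P.cons (P.cons (P.lf 0 355593234 0) (P.cons (P.lf 0 27795950 0) (P.cons (P.lf 12771266 0 0) (P.cons (P.lf 955382 0 0) (P.cons (P.lf 0 62280 0) P.nil))))) (P.cons (P.cons (P.lf 245012166 0 0) (P.cons (P.lf 8214122 0 0) (P.cons (P.lf 0 3783914 0) (P.cons (P.lf 0 273060 0) P.nil)))) (P.cons (P.cons (P.lf 6473626 0 0) (P.cons (P.lf 0 360934 0) (P.cons (P.lf 161048 0 0) P.nil))) (P.cons (P.cons (P.lf 0 6839682 0) (P.cons (P.lf 0 173630 0) P.nil)) (P.cons (P.cons (P.lf 275318 0 0) P.nil) P.nil)))))) 312332)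
 (EL.cons 3 (TM.mk (P.cons (P.cons (P.lf 0 905947689 0) (P.cons (P.lf 0 68957411 0) (P.cons (P.lf 31776048 0 0) (P.cons (P.lf 2282792 0 0) (P.cons (P.lf 0 138045 0) (P.cons (P.lf 0 16471 0) P.nil)))))) (P.cons (P.cons (P.lf 1262842741 0 0) (P.cons (P.lf 40705119 0 0) (P.cons (P.lf 0 18745907 0) (P.cons (P.lf 0 1358167 0) (P.cons (P.lf 83496 0 0) P.nil))))) (P.cons (P.cons (P.lf 30509856 0 0) (P.cons (P.lf 0 3880025 0) (P.cons (P.lf 1744399 0 0) (P.cons (P.lf 169541 0 0) P.nil)))) (P.cons (P.cons (P.lf 0 72702520 0) (P.cons (P.lf 0 1663477 0) (P.cons (P.lf 781490 0 0) P.nil))) (P.cons (P.cons (P.lf 5954637 0 0) (P.cons (P.lf 383856 0 0) P.nil)) (P.cons (P.cons (P.lf 1324651 0 0) P.nil) P.nil)))))) 995773)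
 (EL.cons 7 (TM.mk (P.cons (P.cons (P.lf 0 643840773 0) (P.cons (P.lf 0 51332030 0) (P.cons (P.lf 23535257 0 0) (P.cons (P.lf 1811565 0 0) (P.cons (P.lf 0 123910 0) (P.cons (P.lf 0 14781 0) P.nil)))))) (P.cons (P.cons (P.lf 830860499 0 0) (P.cons (P.lf 26781068 0 0) (P.cons (P.lf 0 12333471 0) (P.cons (P.lf 0 893578 0) (P.cons (P.lf 54930 0 0) P.nil))))) (P.cons (P.cons (P.lf 108447758 0 0) (P.cons (P.lf 295781 0 0) (P.cons (P.lf 0 164149 0) (P.cons (P.lf 16506 0 0) P.nil)))) (P.cons (P.cons (P.lf 0 39487386 0) (P.cons (P.lf 0 1279239 0) (P.cons (P.lf 595305 0 0) P.nil))) (P.cons (P.cons (P.lf 0 3005933 0) (P.cons (P.lf 68983 0 0) P.nil)) (P.cons (P.cons (P.lf 1032989 0 0) P.nil) P.nil)))))) 476230)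
 (EL.cons 10 (TM.mk (P.cons (P.cons (P.lf 71957082 0 0) (P.cons (P.lf 0 66463686 0) (P.cons (P.lf 0 8765652 0) (P.cons (P.lf 2256942 0 0) (P.cons (P.lf 204792 0 0) (P.cons (P.lf 0 7956 0) P.nil)))))) (P.cons (P.cons (P.lf 0 116466132 0) (P.cons (P.lf 112219026 0 0) (P.cons (P.lf 7415868 0 0) (P.cons (P.lf 0 1738902 0) (P.cons (P.lf 0 134622 0) P.nil))))) (P.cons (P.cons (P.lf 23504352 0 0) (P.cons (P.lf 0 22628166 0) (P.cons (P.lf 0 1524408 0) (P.cons (P.lf 358788 0 0) P.nil)))) (P.cons (P.cons (P.lf 752544 0 0) (P.cons (P.lf 0 771750 0) (P.cons (P.lf 20094 0 0) P.nil))) (P.cons (P.cons (P.lf 0 562536 0) (P.cons (P.lf 548124 0 0) P.nil)) (P.cons (P.cons (P.lf 32340 0 0) P.nil) P.nil)))))) 197124)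
 EL.nil))))
noncomputable def S343_372_734_808_9 : EL := (EL.cons 3 (TM.mk (P.cons (P.lf 2668545243 0 0) (P.cons (P.lf 256005836 0 0) (P.cons (P.lf 0 20956361 0) (P.cons (P.lf 125291 0 0) (P.cons (P.lf 64357 0 0) (P.cons (P.lf 0 3438 0) P.nil)))))) 378)
 (EL.cons 7 (TM.mk (P.cons (P.lf 0 1442125985 0) (P.cons (P.lf 168433589 0 0) (P.cons (P.lf 4127638 0 0) (P.cons (P.lf 0 758202 0) (P.cons (P.lf 21743 0 0) (P.cons (P.lf 1521 0 0) P.nil)))))) 224)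
 EL.nil))
noncomputable def S343_372_734_808_10 : EL := (EL.cons 3 (TM.mk (P.cons (P.cons (P.lf 0 326229253 0) (P.cons (P.lf 0 20351763 0) (P.cons (P.lf 9607277 0 0) (P.lf 457486 0 0)))) (P.cons (P.cons (P.lf 420517523 0 0) (P.cons (P.lf 5178532 0 0) (P.cons (P.lf 0 2444583 0) (P.lf 0 116405 0)))) (P.cons (P.cons (P.lf 47467947 0 0) (P.cons (P.lf 185820 0 0) (P.cons (P.lf 0 87720 0) (P.lf 0 4177 0)))) (P.cons (P.cons (P.lf 0 9476507 0) (P.cons (P.lf 0 160586 0) (P.cons (P.lf 75804 0 0) P.nil))) (P.cons (P.cons (P.lf 0 283153 0) (P.cons (P.lf 11428 0 0) P.nil)) (P.cons (P.cons (P.lf 120581 0 0) P.nil) P.nil)))))) 31644)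
 (EL.cons 7 (TM.mk (P.cons (P.cons (P.lf 176299684 0 0) (P.cons (P.lf 10998430 0 0) (P.cons (P.lf 0 5191932 0) (P.lf 0 247233 0)))) (P.cons (P.cons (P.lf 0 264758846 0) (P.cons (P.lf 0 5138260 0) (P.cons (P.lf 2425573 0 0) (P.lf 115502 0 0)))) (P.cons (P.cons (P.lf 27169248 0 0) (P.cons (P.lf 774268 0 0) (P.cons (P.lf 0 365501 0) (P.lf 0 17403 0)))) (P.cons (P.cons (P.lf 4166558 0 0) (P.cons (P.lf 0 2842 0) (P.cons (P.lf 1342 0 0) P.nil))) (P.cons (P.cons (P.lf 0 672009 0) (P.cons (P.lf 0 11332 0) P.nil)) (P.cons (P.cons (P.lf 0 5414 0) P.nil) P.nil)))))) 18459)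
 EL.nil))
noncomputable def S343_372_734_808_11 : EL := (EL.cons 3 (TM.mk (P.cons (P.cons (P.lf 39881475 0 0) (P.cons (P.lf 4975999 0 0) (P.cons (P.lf 0 2193762 0) (P.cons (P.lf 0 258394 0) (P.cons (P.lf 27609 0 0) (P.cons (P.lf 3293 0 0) P.nil)))))) (P.cons (P.cons (P.lf 0 106642421 0) (P.cons (P.lf 0 8157705 0) (P.cons (P.lf 3757057 0 0) (P.cons (P.lf 272009 0 0) (P.cons (P.lf 0 16698 0) P.nil))))) (P.cons (P.cons (P.lf 65204430 0 0) (P.cons (P.lf 1684315 0 0) (P.cons (P.lf 0 777659 0) (P.cons (P.lf 0 54325 0) P.nil)))) (P.cons (P.cons (P.lf 10182584 0 0) (P.cons (P.lf 200723 0 0) (P.cons (P.lf 0 94000 0) P.nil))) (P.cons (P.cons (P.lf 0 2533845 0) (P.cons (P.lf 0 85020 0) P.nil)) (P.cons (P.cons (P.lf 0 133247 0) P.nil) P.nil)))))) 170637)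
 (EL.cons 7 (TM.mk (P.cons (P.cons (P.lf 0 21552609 0) (P.cons (P.lf 0 2689112 0) (P.cons (P.lf 1185545 0 0) (P.cons (P.lf 139641 0 0) (P.cons (P.lf 0 14920 0) (P.cons (P.lf 0 1779 0) P.nil)))))) (P.cons (P.cons (P.lf 62216213 0 0) (P.cons (P.lf 4980614 0 0) (P.cons (P.lf 0 2282577 0) (P.cons (P.lf 0 176704 0) (P.cons (P.lf 12198 0 0) P.nil))))) (P.cons (P.cons (P.lf 0 48044878 0) (P.cons (P.lf 0 1916365 0) (P.cons (P.lf 882293 0 0) (P.cons (P.lf 64176 0 0) P.nil)))) (P.cons (P.cons (P.lf 3535230 0 0) (P.cons (P.lf 206889 0 0) (P.cons (P.lf 0 94473 0) P.nil))) (P.cons (P.cons (P.lf 1424665 0 0) (P.cons (P.lf 28513 0 0) P.nil)) (P.cons (P.cons (P.lf 0 199729 0) P.nil) P.nil)))))) 88344)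
 EL.nil))
noncomputable def S343_372_734_808_12 : EL := (EL.cons 4 (TM.mk (P.cons (P.lf 0 2668545243 0) (P.cons (P.lf 0 256005836 0) (P.cons (P.lf 20956361 0 0) (P.cons (P.lf 0 125291 0) (P.cons (P.lf 0 64357 0) (P.cons (P.lf 3438 0 0) P.nil)))))) 378)
 (EL.cons 8 (TM.mk (P.cons (P.lf 1442125985 0 0) (P.cons (P.lf 0 168433589 0) (P.cons (P.lf 0 4127638 0) (P.cons (P.lf 758202 0 0) (P.cons (P.lf 0 21743 0) (P.cons (P.lf 0 1521 0) P.nil)))))) 224)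
 EL.nil))
noncomputable def S343_372_734_808_13 : EL := (EL.cons 4 (TM.mk (P.cons (P.cons (P.lf 326229253 0 0) (P.cons (P.lf 20351763 0 0) (P.cons (P.lf 0 9607277 0) (P.lf 0 457486 0)))) (P.cons (P.cons (P.lf 0 420517523 0) (P.cons (P.lf 0 5178532 0) (P.cons (P.lf 2444583 0 0) (P.lf 116405 0 0)))) (P.cons (P.cons (P.lf 0 47467947 0) (P.cons (P.lf 0 185820 0) (P.cons (P.lf 87720 0 0) (P.lf 4177 0 0)))) (P.cons (P.cons (P.lf 9476507 0 0) (P.cons (P.lf 160586 0 0) (P.cons (P.lf 0 75804 0) P.nil))) (P.cons (P.cons (P.lf 283153 0 0) (P.cons (P.lf 0 11428 0) P.nil)) (P.cons (P.cons (P.lf 0 120581 0) P.nil) P.nil)))))) 31644)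
 (EL.cons 8 (TM.mk (P.cons (P.cons (P.lf 0 176299684 0) (P.cons (P.lf 0 10998430 0) (P.cons (P.lf 5191932 0 0) (P.lf 247233 0 0)))) (P.cons (P.cons (P.lf 264758846 0 0) (P.cons (P.lf 5138260 0 0) (P.cons (P.lf 0 2425573 0) (P.lf 0 115502 0)))) (P.cons (P.cons (P.lf 0 27169248 0) (P.cons (P.lf 0 774268 0) (P.cons (P.lf 365501 0 0) (P.lf 17403 0 0)))) (P.cons (P.cons (P.lf 0 4166558 0) (P.cons (P.lf 2842 0 0) (P.cons (P.lf 0 1342 0) P.nil))) (P.cons (P.cons (P.lf 672009 0 0) (P.cons (P.lf 11332 0 0) P.nil)) (P.cons (P.cons (P.lf 5414 0 0) P.nil) P.nil)))))) 18459)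
 EL.nil))
noncomputable def S343_372_734_808_14 : EL := (EL.cons 4 (TM.mk (P.cons (P.cons (P.lf 0 39881475 0) (P.cons (P.lf 0 4975999 0) (P.cons (P.lf 2193762 0 0) (P.cons (P.lf 258394 0 0) (P.cons (P.lf 0 27609 0) (P.cons (P.lf 0 3293 0) P.nil)))))) (P.cons (P.cons (P.lf 106642421 0 0) (P.cons (P.lf 8157705 0 0) (P.cons (P.lf 0 3757057 0) (P.cons (P.lf 0 272009 0) (P.cons (P.lf 16698 0 0) P.nil))))) (P.cons (P.cons (P.lf 0 65204430 0) (P.cons (P.lf 0 1684315 0) (P.cons (P.lf 777659 0 0) (P.cons (P.lf 54325 0 0) P.nil)))) (P.cons (P.cons (P.lf 0 10182584 0) (P.cons (P.lf 0 200723 0) (P.cons (P.lf 94000 0 0) P.nil))) (P.cons (P.cons (P.lf 2533845 0 0) (P.cons (P.lf 85020 0 0) P.nil)) (P.cons (P.cons (P.lf 133247 0 0) P.nil) P.nil)))))) 170637)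
 (EL.cons 8 (TM.mk (P.cons (P.cons (P.lf 21552609 0 0) (P.cons (P.lf 2689112 0 0) (P.cons (P.lf 0 1185545 0) (P.cons (P.lf 0 139641 0) (P.cons (P.lf 14920 0 0) (P.cons (P.lf 1779 0 0) P.nil)))))) (P.cons (P.cons (P.lf 0 62216213 0) (P.cons (P.lf 0 4980614 0) (P.cons (P.lf 2282577 0 0) (P.cons (P.lf 176704 0 0) (P.cons (P.lf 0 12198 0) P.nil))))) (P.cons (P.cons (P.lf 48044878 0 0) (P.cons (P.lf 1916365 0 0) (P.cons (P.lf 0 882293 0) (P.cons (P.lf 0 64176 0) P.nil)))) (P.cons (P.cons (P.lf 0 3535230 0) (P.cons (P.lf 0 206889 0) (P.cons (P.lf 94473 0 0) P.nil))) (P.cons (P.cons (P.lf 0 1424665 0) (P.cons (P.lf 0 28513 0) P.nil)) (P.cons (P.cons (P.lf 199729 0 0) P.nil) P.nil)))))) 88344)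
 EL.nil))
noncomputable def S343_372_734_808_15 : EL := (EL.cons 4 (TM.mk (P.cons (P.lf 0 1768552689 0) (P.cons (P.lf 0 339330810 0) (P.cons (P.lf 11500469 0 0) (P.cons (P.lf 2498728 0 0) (P.cons (P.lf 0 210304 0) (P.cons (P.lf 0 2321 0) P.nil)))))) 1708)
 (EL.cons 8 (TM.mk (P.cons (P.lf 955755124 0 0) (P.cons (P.lf 0 19937749 0) (P.cons (P.lf 0 20950159 0) (P.cons (P.lf 1161554 0 0) (P.cons (P.lf 73087 0 0) (P.cons (P.lf 0 10388 0) P.nil)))))) 788)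
 EL.nil))
noncomputable def S343_372_734_808_16 : EL := (EL.cons 4 (TM.mk (P.cons (P.cons (P.lf 216205299 0 0) (P.cons (P.lf 13487935 0 0) (P.cons (P.lf 0 6367130 0) (P.lf 0 303195 0)))) (P.cons (P.cons (P.lf 0 257952373 0) (P.cons (P.lf 0 2138062 0) (P.cons (P.lf 1009295 0 0) (P.lf 48060 0 0)))) (P.cons (P.cons (P.lf 0 59893201 0) (P.cons (P.lf 0 558322 0) (P.cons (P.lf 263563 0 0) (P.lf 12550 0 0)))) (P.cons (P.cons (P.lf 5461228 0 0) (P.cons (P.lf 122197 0 0) (P.cons (P.lf 0 57683 0) P.nil))) (P.cons (P.cons (P.lf 1029349 0 0) (P.cons (P.lf 3766 0 0) P.nil)) (P.cons (P.cons (P.lf 0 119709 0) P.nil) P.nil)))))) 38656)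
 (EL.cons 8 (TM.mk (P.cons (P.cons (P.lf 0 116840919 0) (P.cons (P.lf 0 7289103 0) (P.cons (P.lf 3440902 0 0) (P.lf 163851 0 0)))) (P.cons (P.cons (P.lf 164257290 0 0) (P.cons (P.lf 2706055 0 0) (P.cons (P.lf 0 1277423 0) (P.lf 0 60828 0)))) (P.cons (P.cons (P.lf 0 255296 0) (P.cons (P.lf 0 129207 0) (P.cons (P.lf 60993 0 0) (P.lf 2904 0 0)))) (P.cons (P.cons (P.lf 0 5872201 0) (P.cons (P.lf 0 74428 0) (P.cons (P.lf 35134 0 0) P.nil))) (P.cons (P.cons (P.lf 327284 0 0) (P.cons (P.lf 11705 0 0) P.nil)) (P.cons (P.cons (P.lf 71536 0 0) P.nil) P.nil)))))) 25635)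
 EL.nil))
noncomputable def S343_372_734_808_17 : EL := (EL.cons 4 (TM.mk (P.cons (P.cons (P.lf 0 26431065 0) (P.cons (P.lf 0 3297795 0) (P.cons (P.lf 1453894 0 0) (P.cons (P.lf 171248 0 0) (P.cons (P.lf 0 18297 0) (P.cons (P.lf 0 2182 0) P.nil)))))) (P.cons (P.cons (P.lf 68140584 0 0) (P.cons (P.lf 5090068 0 0) (P.cons (P.lf 0 2350474 0) (P.cons (P.lf 0 163842 0) (P.cons (P.lf 9311 0 0) P.nil))))) (P.cons (P.cons (P.lf 0 36225746 0) (P.cons (P.lf 0 571700 0) (P.cons (P.lf 265095 0 0) (P.cons (P.lf 17364 0 0) P.nil)))) (P.cons (P.cons (P.lf 0 11450358 0) (P.cons (P.lf 0 282727 0) (P.cons (P.lf 131363 0 0) P.nil))) (P.cons (P.cons (P.lf 1373917 0 0) (P.cons (P.lf 52525 0 0) P.nil)) (P.cons (P.cons (P.lf 302115 0 0) P.nil) P.nil)))))) 152568)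
 (EL.cons 8 (TM.mk (P.cons (P.cons (P.lf 14283784 0 0) (P.cons (P.lf 1782183 0 0) (P.cons (P.lf 0 785708 0) (P.cons (P.lf 0 92545 0) (P.cons (P.lf 9888 0 0) (P.cons (P.lf 1179 0 0) P.nil)))))) (P.cons (P.cons (P.lf 0 39862887 0) (P.cons (P.lf 0 3129880 0) (P.cons (P.lf 1437379 0 0) (P.cons (P.lf 108230 0 0) (P.cons (P.lf 0 7135 0) P.nil))))) (P.cons (P.cons (P.lf 27773418 0 0) (P.cons (P.lf 939390 0 0) (P.cons (P.lf 0 433435 0) (P.cons (P.lf 0 30570 0) P.nil)))) (P.cons (P.cons (P.lf 1036219 0 0) (P.cons (P.lf 10733 0 0) (P.cons (P.lf 0 5401 0) P.nil))) (P.cons (P.cons (P.lf 0 1420596 0) (P.cons (P.lf 0 42136 0) P.nil)) (P.cons (P.cons (P.lf 60670 0 0) P.nil) P.nil)))))) 93338)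
 EL.nil))
noncomputable def S343_372_734_808_18 : EL := (EL.cons 4 (TM.mk (P.cons (P.lf 0 1172091282 0) (P.cons (P.lf 0 337332345 0) (P.cons (P.lf 0 4748184 0) (P.cons (P.lf 4098243 0 0) (P.cons (P.lf 0 79189 0) (P.cons (P.lf 0 31469 0) P.nil)))))) 3321)
 (EL.cons 8 (TM.mk (P.cons (P.lf 633417514 0 0) (P.cons (P.lf 47553107 0 0) (P.cons (P.lf 0 20126446 0) (P.cons (P.lf 0 428689 0) (P.cons (P.lf 245981 0 0) (P.cons (P.lf 0 10070 0) P.nil)))))) 1843)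
 EL.nil))
noncomputable def S343_372_734_808_19 : EL := (EL.cons 4 (TM.mk (P.cons (P.cons (P.lf 143287981 0 0) (P.cons (P.lf 8938999 0 0) (P.cons (P.lf 0 4219755 0) (P.lf 0 200939 0)))) (P.cons (P.cons (P.lf 0 157209177 0) (P.cons (P.lf 0 559420 0) (P.cons (P.lf 264080 0 0) (P.lf 12573 0 0)))) (P.cons (P.cons (P.lf 0 57219442 0) (P.cons (P.lf 0 576158 0) (P.cons (P.lf 271982 0 0) (P.lf 12951 0 0)))) (P.cons (P.cons (P.lf 1160640 0 0) (P.cons (P.lf 57034 0 0) (P.cons (P.lf 0 26922 0) P.nil))) (P.cons (P.cons (P.lf 1336561 0 0) (P.cons (P.lf 13320 0 0) P.nil)) (P.cons (P.cons (P.lf 0 48484 0) P.nil) P.nil)))))) 44610)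
 (EL.cons 8 (TM.mk (P.cons (P.cons (P.lf 0 77435195 0) (P.cons (P.lf 0 4830783 0) (P.cons (P.lf 2280425 0 0) (P.lf 108591 0 0)))) (P.cons (P.cons (P.lf 101431224 0 0) (P.cons (P.lf 1329972 0 0) (P.cons (P.lf 0 627828 0) (P.lf 0 29895 0)))) (P.cons (P.cons (P.lf 10882346 0 0) (P.cons (P.lf 124355 0 0) (P.cons (P.lf 0 58703 0) (P.lf 0 2795 0)))) (P.cons (P.cons (P.lf 0 4766500 0) (P.cons (P.lf 0 71852 0) (P.cons (P.lf 33918 0 0) P.nil))) (P.cons (P.cons (P.lf 0 151876 0) (P.cons (P.lf 3665 0 0) P.nil)) (P.cons (P.cons (P.lf 101498 0 0) P.nil) P.nil)))))) 27595)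
 EL.nil))
noncomputable def S343_372_734_808_20 : EL := (EL.cons 4 (TM.mk (P.cons (P.cons (P.lf 0 17516933 0) (P.cons (P.lf 0 2185582 0) (P.cons (P.lf 963555 0 0) (P.cons (P.lf 113492 0 0) (P.cons (P.lf 0 12126 0) (P.cons (P.lf 0 1446 0) P.nil)))))) (P.cons (P.cons (P.lf 43479036 0 0) (P.cons (P.lf 3163720 0 0) (P.cons (P.lf 0 1465316 0) (P.cons (P.lf 0 97696 0) (P.cons (P.lf 5007 0 0) P.nil))))) (P.cons (P.cons (P.lf 0 19538341 0) (P.cons (P.lf 0 38100 0) (P.cons (P.lf 18679 0 0) (P.cons (P.lf 199 0 0) P.nil)))) (P.cons (P.cons (P.lf 0 10247303 0) (P.cons (P.lf 0 250318 0) (P.cons (P.lf 116192 0 0) P.nil))) (P.cons (P.cons (P.lf 372776 0 0) (P.cons (P.lf 19916 0 0) P.nil)) (P.cons (P.cons (P.lf 347155 0 0) P.nil) P.nil)))))) 125476)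
 (EL.cons 8 (TM.mk (P.cons (P.cons (P.lf 9466440 0 0) (P.cons (P.lf 1181124 0 0) (P.cons (P.lf 0 520720 0) (P.cons (P.lf 0 61333 0) (P.cons (P.lf 6553 0 0) (P.cons (P.lf 781 0 0) P.nil)))))) (P.cons (P.cons (P.lf 0 25510585 0) (P.cons (P.lf 0 1960987 0) (P.cons (P.lf 902654 0 0) (P.cons (P.lf 65844 0 0) (P.cons (P.lf 0 4100 0) P.nil))))) (P.cons (P.cons (P.lf 15797752 0 0) (P.cons (P.lf 414299 0 0) (P.cons (P.lf 0 191777 0) (P.cons (P.lf 0 12897 0) P.nil)))) (P.cons (P.cons (P.lf 2660484 0 0) (P.cons (P.lf 83184 0 0) (P.cons (P.lf 0 38642 0) P.nil))) (P.cons (P.cons (P.lf 0 1021164 0) (P.cons (P.lf 0 32201 0) P.nil)) (P.cons (P.cons (P.lf 0 55290 0) P.nil) P.nil)))))) 89059)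
 EL.nil))
noncomputable def S343_372_734_808_21 : EL := (EL.cons 4 (TM.mk (P.cons (P.cons (P.lf 0 3868426725 0) (P.cons (P.lf 0 61055289 0) (P.cons (P.lf 28821831 0 0) (P.lf 1372458 0 0)))) (P.cons (P.cons (P.lf 243560139 0 0) (P.cons (P.lf 15535596 0 0) (P.cons (P.lf 0 7333749 0) (P.lf 0 349215 0)))) (P.cons (P.cons (P.lf 176905251 0 0) (P.cons (P.lf 557460 0 0) (P.cons (P.lf 0 263160 0) (P.lf 0 12531 0)))) (P.cons (P.cons (P.lf 0 20933343 0) (P.cons (P.lf 0 481758 0) (P.cons (P.lf 227412 0 0) P.nil))) (P.cons (P.cons (P.lf 0 1480374 0) (P.cons (P.lf 34284 0 0) P.nil)) (P.cons (P.cons (P.lf 354780 0 0) P.nil) P.nil)))))) 99843)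
 (EL.cons 8 (TM.mk (P.cons (P.cons (P.lf 0 2545149015 0) (P.cons (P.lf 0 40170036 0) (P.cons (P.lf 18962715 0 0) (P.lf 902991 0 0)))) (P.cons (P.cons (P.lf 0 381184182 0) (P.cons (P.lf 1675956 0 0) (P.cons (P.lf 0 791154 0) (P.lf 0 37677 0)))) (P.cons (P.cons (P.lf 99946191 0 0) (P.cons (P.lf 1743573 0 0) (P.cons (P.lf 0 823071 0) (P.lf 0 39189 0)))) (P.cons (P.cons (P.lf 7935690 0 0) (P.cons (P.lf 0 134376 0) (P.cons (P.lf 63435 0 0) P.nil))) (P.cons (P.cons (P.lf 0 1888173 0) (P.cons (P.lf 0 23406 0) P.nil)) (P.cons (P.cons (P.lf 1956 0 0) P.nil) P.nil)))))) 66663)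
 (EL.cons 11 (TM.mk (P.cons (P.cons (P.lf 294303381 0 0) (P.cons (P.lf 0 290195544 0) (P.cons (P.lf 0 9080499 0) (P.cons (P.lf 1663962 0 0) (P.lf 59427 0 0))))) (P.cons (P.cons (P.lf 0 68746524 0) (P.cons (P.lf 67786971 0 0) (P.cons (P.lf 2121117 0 0) (P.cons (P.lf 0 388686 0) (P.lf 0 13881 0))))) (P.cons (P.cons (P.lf 2329932 0 0) (P.cons (P.lf 0 2297409 0) (P.cons (P.lf 0 71886 0) (P.cons (P.lf 13173 0 0) P.nil)))) (P.cons (P.cons (P.lf 506226 0 0) (P.cons (P.lf 0 499161 0) (P.cons (P.lf 0 15618 0) P.nil))) (P.cons (P.cons (P.lf 0 42606 0) (P.cons (P.lf 42012 0 0) P.nil)) (P.cons (P.cons (P.lf 0 468 0) P.nil) P.nil)))))) 6171)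
 EL.nil)))
noncomputable def S343_372_734_808_22 : EL := (EL.cons 4 (TM.mk (P.cons (P.cons (P.lf 472914582 0 0) (P.cons (P.lf 36966705 0 0) (P.cons (P.lf 0 16984905 0) (P.cons (P.lf 0 1270593 0) (P.cons (P.lf 82827 0 0) (P.cons (P.lf 9882 0 0) P.nil)))))) (P.cons (P.cons (P.lf 0 684742581 0) (P.cons (P.lf 0 24431412 0) (P.cons (P.lf 11251482 0 0) (P.cons (P.lf 815088 0 0) (P.cons (P.lf 0 50097 0) P.nil))))) (P.cons (P.cons (P.lf 17347287 0 0) (P.cons (P.lf 2782170 0 0) (P.cons (P.lf 0 1261029 0) (P.cons (P.lf 0 111933 0) P.nil)))) (P.cons (P.cons (P.lf 41442552 0 0) (P.cons (P.lf 932100 0 0) (P.cons (P.lf 0 437745 0) P.nil))) (P.cons (P.cons (P.lf 0 4244241 0) (P.cons (P.lf 0 234438 0) P.nil)) (P.cons (P.cons (P.lf 0 728949 0) P.nil) P.nil)))))) 412557)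
 (EL.cons 8 (TM.mk (P.cons (P.cons (P.lf 311144082 0 0) (P.cons (P.lf 24321459 0 0) (P.cons (P.lf 0 11174856 0) (P.cons (P.lf 0 835962 0) (P.cons (P.lf 54495 0 0) (P.cons (P.lf 6501 0 0) P.nil)))))) (P.cons (P.cons (P.lf 0 384322143 0) (P.cons (P.lf 0 10900227 0) (P.cons (P.lf 5025447 0 0) (P.cons (P.lf 358437 0 0) (P.cons (P.lf 0 21366 0) P.nil))))) (P.cons (P.cons (P.lf 0 78246318 0) (P.cons (P.lf 0 1106073 0) (P.cons (P.lf 523221 0 0) (P.cons (P.lf 23835 0 0) P.nil)))) (P.cons (P.cons (P.lf 21511308 0 0) (P.cons (P.lf 743064 0 0) (P.cons (P.lf 0 344889 0) P.nil))) (P.cons (P.cons (P.lf 2215299 0 0) (P.cons (P.lf 0 20235 0) P.nil)) (P.cons (P.cons (P.lf 0 616359 0) P.nil) P.nil)))))) 193932)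
 (EL.cons 11 (TM.mk (P.cons (P.cons (P.lf 0 35978541 0) (P.cons (P.lf 33231843 0 0) (P.cons (P.lf 4382826 0 0) (P.cons (P.lf 0 1128471 0) (P.cons (P.lf 0 102396 0) (P.cons (P.lf 3978 0 0) P.nil)))))) (P.cons (P.cons (P.lf 58233066 0 0) (P.cons (P.lf 0 56109513 0) (P.cons (P.lf 0 3707934 0) (P.cons (P.lf 869451 0 0) (P.cons (P.lf 67311 0 0) P.nil))))) (P.cons (P.cons (P.lf 0 11752176 0) (P.cons (P.lf 11314083 0 0) (P.cons (P.lf 762204 0 0) (P.cons (P.lf 0 179394 0) P.nil)))) (P.cons (P.cons (P.lf 0 376272 0) (P.cons (P.lf 385875 0 0) (P.cons (P.lf 0 10047 0) P.nil))) (P.cons (P.cons (P.lf 281268 0 0) (P.cons (P.lf 0 274062 0) P.nil)) (P.cons (P.cons (P.lf 0 16170 0) P.nil) P.nil)))))) 98562)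
 EL.nil)))
noncomputable def S343_372_734_808_23 : EL := (EL.cons 4 (TM.mk (P.cons (P.cons (P.lf 0 2563762599 0) (P.cons (P.lf 0 40463805 0) (P.cons (P.lf 19101390 0 0) (P.lf 909582 0 0)))) (P.cons (P.cons (P.lf 0 84536415 0) (P.cons (P.lf 6414186 0 0) (P.cons (P.lf 0 3027885 0) (P.lf 0 144177 0)))) (P.cons (P.cons (P.lf 152861235 0 0) (P.cons (P.lf 1674966 0 0) (P.cons (P.lf 0 790689 0) (P.lf 0 37650 0)))) (P.cons (P.cons (P.lf 0 4013778 0) (P.cons (P.lf 0 366591 0) (P.cons (P.lf 173049 0 0) P.nil))) (P.cons (P.cons (P.lf 0 3287007 0) (P.cons (P.lf 0 11301 0) P.nil)) (P.cons (P.cons (P.lf 262653 0 0) P.nil) P.nil)))))) 135759)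
 (EL.cons 8 (TM.mk (P.cons (P.cons (P.lf 0 1686773025 0) (P.cons (P.lf 0 26622303 0) (P.cons (P.lf 12567354 0 0) (P.lf 598446 0 0)))) (P.cons (P.cons (P.lf 0 414446055 0) (P.cons (P.lf 0 1443276 0) (P.cons (P.lf 681312 0 0) (P.lf 32439 0 0)))) (P.cons (P.cons (P.lf 55249188 0 0) (P.cons (P.lf 1471158 0 0) (P.cons (P.lf 0 694476 0) (P.lf 0 33066 0)))) (P.cons (P.cons (P.lf 13518558 0 0) (P.cons (P.lf 11826 0 0) (P.cons (P.lf 0 5580 0) P.nil))) (P.cons (P.cons (P.lf 0 1319535 0) (P.cons (P.lf 0 33720 0) P.nil)) (P.cons (P.cons (P.lf 0 160863 0) P.nil) P.nil)))))) 75999)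
 (EL.cons 11 (TM.mk (P.cons (P.cons (P.lf 195046734 0 0) (P.cons (P.lf 0 192324303 0) (P.cons (P.lf 0 6018012 0) (P.cons (P.lf 1102773 0 0) (P.lf 39384 0 0))))) (P.cons (P.cons (P.lf 0 26849364 0) (P.cons (P.lf 26474604 0 0) (P.cons (P.lf 828414 0 0) (P.cons (P.lf 0 151803 0) (P.lf 0 5421 0))))) (P.cons (P.cons (P.lf 0 4358466 0) (P.cons (P.lf 4297632 0 0) (P.cons (P.lf 134478 0 0) (P.cons (P.lf 0 24642 0) P.nil)))) (P.cons (P.cons (P.lf 850584 0 0) (P.cons (P.lf 0 838713 0) (P.cons (P.lf 0 26241 0) P.nil))) (P.cons (P.cons (P.lf 0 5610 0) (P.cons (P.lf 5532 0 0) P.nil)) (P.cons (P.cons (P.lf 0 6930 0) P.nil) P.nil)))))) 18039)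
 EL.nil)))
noncomputable def S343_372_734_808_24 : EL := (EL.cons 4 (TM.mk (P.cons (P.cons (P.lf 313419588 0 0) (P.cons (P.lf 24499326 0 0) (P.cons (P.lf 0 11256582 0) (P.cons (P.lf 0 842073 0) (P.cons (P.lf 54894 0 0) (P.cons (P.lf 6549 0 0) P.nil)))))) (P.cons (P.cons (P.lf 0 423738774 0) (P.cons (P.lf 0 13841349 0) (P.cons (P.lf 6376914 0 0) (P.cons (P.lf 459405 0 0) (P.cons (P.lf 0 27936 0) P.nil))))) (P.cons (P.cons (P.lf 0 34500318 0) (P.cons (P.lf 98118 0 0) (P.cons (P.lf 0 31968 0) (P.cons (P.lf 0 15747 0) P.nil)))) (P.cons (P.cons (P.lf 32147094 0 0) (P.cons (P.lf 922935 0 0) (P.cons (P.lf 0 429375 0) P.nil))) (P.cons (P.cons (P.lf 0 281955 0) (P.cons (P.lf 0 110757 0) P.nil)) (P.cons (P.cons (P.lf 0 979449 0) P.nil) P.nil)))))) 348783)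
 (EL.cons 8 (TM.mk (P.cons (P.cons (P.lf 206207745 0 0) (P.cons (P.lf 16118811 0 0) (P.cons (P.lf 0 7406028 0) (P.cons (P.lf 0 554025 0) (P.cons (P.lf 36114 0 0) (P.cons (P.lf 4308 0 0) P.nil)))))) (P.cons (P.cons (P.lf 0 234923343 0) (P.cons (P.lf 0 5677668 0) (P.cons (P.lf 2620071 0 0) (P.cons (P.lf 184401 0 0) (P.cons (P.lf 0 10695 0) P.nil))))) (P.cons (P.cons (P.lf 0 77911464 0) (P.cons (P.lf 0 1552656 0) (P.cons (P.lf 724437 0 0) (P.cons (P.lf 42936 0 0) P.nil)))) (P.cons (P.cons (P.lf 11291445 0 0) (P.cons (P.lf 479622 0 0) (P.cons (P.lf 0 221808 0) P.nil))) (P.cons (P.cons (P.lf 3236103 0 0) (P.cons (P.lf 39636 0 0) P.nil)) (P.cons (P.cons (P.lf 0 388437 0) P.nil) P.nil)))))) 194841)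
 (EL.cons 11 (TM.mk (P.cons (P.cons (P.lf 0 23844432 0) (P.cons (P.lf 22024083 0 0) (P.cons (P.lf 2904675 0 0) (P.cons (P.lf 0 747882 0) (P.cons (P.lf 0 67860 0) (P.cons (P.lf 2637 0 0) P.nil)))))) (P.cons (P.cons (P.lf 36305898 0 0) (P.cons (P.lf 0 35073168 0) (P.cons (P.lf 0 2178738 0) (P.cons (P.lf 504471 0 0) (P.cons (P.lf 38100 0 0) P.nil))))) (P.cons (P.cons (P.lf 0 3898944 0) (P.cons (P.lf 3757914 0 0) (P.cons (P.lf 246582 0 0) (P.cons (P.lf 0 57738 0) P.nil)))) (P.cons (P.cons (P.lf 0 1300770 0) (P.cons (P.lf 1268142 0 0) (P.cons (P.lf 61236 0 0) P.nil))) (P.cons (P.cons (P.lf 224886 0 0) (P.cons (P.lf 0 217197 0) P.nil)) (P.cons (P.cons (P.lf 9720 0 0) P.nil) P.nil)))))) 95826)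
 EL.nil)))
noncomputable def S343_372_734_808_25 : EL := (EL.cons 4 (TM.mk (P.cons (P.cons (P.lf 0 1699108998 0) (P.cons (P.lf 0 26816997 0) (P.cons (P.lf 12659262 0 0) (P.lf 602817 0 0)))) (P.cons (P.cons (P.lf 0 219029046 0) (P.cons (P.lf 1678263 0 0) (P.cons (P.lf 0 792240 0) (P.lf 0 37719 0)))) (P.cons (P.cons (P.lf 109275786 0 0) (P.cons (P.lf 1728477 0 0) (P.cons (P.lf 0 815946 0) (P.lf 0 38853 0)))) (P.cons (P.cons (P.lf 7418982 0 0) (P.cons (P.lf 0 171102 0) (P.cons (P.lf 80766 0 0) P.nil))) (P.cons (P.cons (P.lf 0 3272811 0) (P.cons (P.lf 0 39963 0) P.nil)) (P.cons (P.cons (P.lf 0 8427 0) P.nil) P.nil)))))) 151056)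
 (EL.cons 8 (TM.mk (P.cons (P.cons (P.lf 0 1117892595 0) (P.cons (P.lf 0 17643675 0) (P.cons (P.lf 8328894 0 0) (P.lf 396615 0 0)))) (P.cons (P.cons (P.lf 0 381914721 0) (P.cons (P.lf 0 2649156 0) (P.cons (P.lf 1250562 0 0) (P.lf 59547 0 0)))) (P.cons (P.cons (P.lf 19044420 0 0) (P.cons (P.lf 1021791 0 0) (P.cons (P.lf 0 482346 0) (P.lf 0 22965 0)))) (P.cons (P.cons (P.lf 14576547 0 0) (P.cons (P.lf 108057 0 0) (P.cons (P.lf 0 51006 0) P.nil))) (P.cons (P.cons (P.lf 0 342408 0) (P.cons (P.lf 0 29721 0) P.nil)) (P.cons (P.cons (P.lf 0 264327 0) P.nil) P.nil)))))) 72183)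
 (EL.cons 11 (TM.mk (P.cons (P.cons (P.lf 129265347 0 0) (P.cons (P.lf 0 127461081 0) (P.cons (P.lf 0 3988380 0) (P.cons (P.lf 730851 0 0) (P.lf 26100 0 0))))) (P.cons (P.cons (P.lf 0 5393136 0) (P.cons (P.lf 5317860 0 0) (P.cons (P.lf 166398 0 0) (P.cons (P.lf 0 30492 0) (P.lf 0 1086 0))))) (P.cons (P.cons (P.lf 0 5610741 0) (P.cons (P.lf 5532429 0 0) (P.cons (P.lf 173115 0 0) (P.cons (P.lf 0 31722 0) P.nil)))) (P.cons (P.cons (P.lf 432414 0 0) (P.cons (P.lf 0 426378 0) (P.cons (P.lf 0 13341 0) P.nil))) (P.cons (P.cons (P.lf 75324 0 0) (P.cons (P.lf 0 74274 0) P.nil)) (P.cons (P.cons (P.lf 0 10107 0) P.nil) P.nil)))))) 23676)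
 EL.nil)))
noncomputable def S343_372_734_808_26 : EL := (EL.cons 4 (TM.mk (P.cons (P.cons (P.lf 207715818 0 0) (P.cons (P.lf 16236693 0 0) (P.cons (P.lf 0 7460190 0) (P.cons (P.lf 0 558075 0) (P.cons (P.lf 36378 0 0) (P.cons (P.lf 4338 0 0) P.nil)))))) (P.cons (P.cons (P.lf 0 260901660 0) (P.cons (P.lf 0 7615560 0) (P.cons (P.lf 3510549 0 0) (P.cons (P.lf 250929 0 0) (P.cons (P.lf 0 15024 0) P.nil))))) (P.cons (P.cons (P.lf 0 51437169 0) (P.cons (P.lf 0 942510 0) (P.cons (P.lf 442839 0 0) (P.cons (P.lf 23154 0 0) P.nil)))) (P.cons (P.cons (P.lf 21326784 0 0) (P.cons (P.lf 690705 0 0) (P.cons (P.lf 0 320136 0) P.nil))) (P.cons (P.cons (P.lf 2028420 0 0) (P.cons (P.lf 0 15273 0) P.nil)) (P.cons (P.cons (P.lf 0 842472 0) P.nil) P.nil)))))) 333651)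
 (EL.cons 8 (TM.mk (P.cons (P.cons (P.lf 136662201 0 0) (P.cons (P.lf 10682586 0 0) (P.cons (P.lf 0 4908273 0) (P.cons (P.lf 0 367173 0) (P.cons (P.lf 23934 0 0) (P.cons (P.lf 2853 0 0) P.nil)))))) (P.cons (P.cons (P.lf 0 142582551 0) (P.cons (P.lf 0 2737989 0) (P.cons (P.lf 1265553 0 0) (P.cons (P.lf 86985 0 0) (P.cons (P.lf 0 4791 0) P.nil))))) (P.cons (P.cons (P.lf 0 67644660 0) (P.cons (P.lf 0 1473882 0) (P.cons (P.lf 685242 0 0) (P.cons (P.lf 43062 0 0) P.nil)))) (P.cons (P.cons (P.lf 3758796 0 0) (P.cons (P.lf 249198 0 0) (P.cons (P.lf 0 114807 0) P.nil))) (P.cons (P.cons (P.lf 3264084 0 0) (P.cons (P.lf 64923 0 0) P.nil)) (P.cons (P.cons (P.lf 0 116805 0) P.nil) P.nil)))))) 200964)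
 (EL.cons 11 (TM.mk (P.cons (P.cons (P.lf 0 15802668 0) (P.cons (P.lf 14596251 0 0) (P.cons (P.lf 1925043 0 0) (P.cons (P.lf 0 495651 0) (P.cons (P.lf 0 44973 0) (P.cons (P.lf 1746 0 0) P.nil)))))) (P.cons (P.cons (P.lf 22545360 0 0) (P.cons (P.lf 0 21844119 0) (P.cons (P.lf 0 1259259 0) (P.cons (P.lf 286782 0 0) (P.cons (P.lf 20934 0 0) P.nil))))) (P.cons (P.cons (P.lf 0 151569 0) (P.cons (P.lf 145953 0 0) (P.cons (P.lf 9780 0 0) (P.cons (P.lf 0 2298 0) P.nil)))) (P.cons (P.cons (P.lf 0 1299663 0) (P.cons (P.lf 1262601 0 0) (P.cons (P.lf 67689 0 0) P.nil))) (P.cons (P.cons (P.lf 87378 0 0) (P.cons (P.lf 0 83613 0) P.nil)) (P.cons (P.cons (P.lf 27987 0 0) P.nil) P.nil)))))) 100383)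
 EL.nil)))
noncomputable def S343_372_734_808_27 : EL := (EL.cons 13 (TM.mk (P.lf 0 4294967296 0) 0)
 EL.nil)
noncomputable def S343_372_734_808_28 : EL := (EL.cons 13 (TM.mk (P.cons (P.cons (P.lf 525059104 0 0) (P.cons (P.lf 32755736 0 0) (P.cons (P.lf 0 15462712 0) (P.lf 0 736316 0)))) (P.cons (P.cons (P.lf 0 727185425 0) (P.cons (P.lf 0 11477148 0) (P.cons (P.lf 5417916 0 0) (P.lf 257992 0 0)))) (P.cons (P.cons (P.lf 0 2513071 0) (P.cons (P.lf 1059216 0 0) (P.cons (P.lf 0 500012 0) (P.lf 0 23808 0)))) (P.cons (P.cons (P.lf 9758016 0 0) (P.cons (P.lf 65176 0 0) (P.cons (P.lf 0 30764 0) P.nil))) (P.cons (P.cons (P.lf 0 478658 0) (P.cons (P.lf 0 16580 0) P.nil)) (P.cons (P.cons (P.lf 0 53191 0) P.nil) P.nil)))))) 22195)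
 EL.nil)
noncomputable def S343_372_734_808_29 : EL := (EL.cons 13 (TM.mk (P.cons (P.cons (P.lf 0 64188396 0) (P.cons (P.lf 0 8008767 0) (P.cons (P.lf 3530815 0 0) (P.cons (P.lf 415882 0 0) (P.cons (P.lf 0 44437 0) (P.cons (P.lf 0 5301 0) P.nil)))))) (P.cons (P.cons (P.lf 177796617 0 0) (P.cons (P.lf 13897975 0 0) (P.cons (P.lf 0 6385633 0) (P.cons (P.lf 0 477691 0) (P.cons (P.lf 31140 0 0) P.nil))))) (P.cons (P.cons (P.lf 0 122506083 0) (P.cons (P.lf 0 4107061 0) (P.cons (P.lf 1891957 0 0) (P.cons (P.lf 136530 0 0) P.nil)))) (P.cons (P.cons (P.lf 0 3236813 0) (P.cons (P.lf 180467 0 0) (P.cons (P.lf 0 80524 0) P.nil))) (P.cons (P.cons (P.lf 3419841 0 0) (P.cons (P.lf 86815 0 0) P.nil)) (P.cons (P.cons (P.lf 0 137659 0) P.nil) P.nil)))))) 156166)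
 EL.nil)
noncomputable def S343_372_734_808_30 : EL := (EL.cons 13 (TM.mk (P.cons (P.lf 0 2846448260 0) (P.cons (P.lf 0 273072892 0) (P.cons (P.lf 22353452 0 0) (P.cons (P.lf 0 133644 0) (P.cons (P.lf 0 68648 0) (P.cons (P.lf 3668 0 0) P.nil)))))) 396)
 EL.nil)
noncomputable def S343_372_734_808_31 : EL := (EL.cons 13 (TM.mk (P.cons (P.cons (P.lf 347977870 0 0) (P.cons (P.lf 21708548 0 0) (P.cons (P.lf 0 10247763 0) (P.lf 0 487986 0)))) (P.cons (P.cons (P.lf 0 448552025 0) (P.cons (P.lf 0 5523768 0) (P.cons (P.lf 2607556 0 0) (P.lf 124166 0 0)))) (P.cons (P.cons (P.lf 0 50632477 0) (P.cons (P.lf 0 198208 0) (P.cons (P.lf 93568 0 0) (P.lf 4456 0 0)))) (P.cons (P.cons (P.lf 10108275 0 0) (P.cons (P.lf 171292 0 0) (P.cons (P.lf 0 80858 0) P.nil))) (P.cons (P.cons (P.lf 302030 0 0) (P.cons (P.lf 0 12190 0) P.nil)) (P.cons (P.cons (P.lf 0 128620 0) P.nil) P.nil)))))) 33734)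
 EL.nil)
noncomputable def S343_372_734_808_32 : EL := (EL.cons 13 (TM.mk (P.cons (P.cons (P.lf 0 42540241 0) (P.cons (P.lf 0 5307733 0) (P.cons (P.lf 2340013 0 0) (P.cons (P.lf 275621 0 0) (P.cons (P.lf 0 29450 0) (P.cons (P.lf 0 3513 0) P.nil)))))) (P.cons (P.cons (P.lf 113751916 0 0) (P.cons (P.lf 8701553 0 0) (P.cons (P.lf 0 4007528 0) (P.cons (P.lf 0 290143 0) (P.cons (P.lf 17812 0 0) P.nil))))) (P.cons (P.cons (P.lf 0 69551392 0) (P.cons (P.lf 0 1796603 0) (P.cons (P.lf 829503 0 0) (P.cons (P.lf 57947 0 0) P.nil)))) (P.cons (P.cons (P.lf 0 10861423 0) (P.cons (P.lf 0 214105 0) (P.cons (P.lf 100267 0 0) P.nil))) (P.cons (P.cons (P.lf 2702768 0 0) (P.cons (P.lf 90689 0 0) P.nil)) (P.cons (P.cons (P.lf 142131 0 0) P.nil) P.nil)))))) 181990)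
 EL.nil)
noncomputable def S343_372_734_808_33 : EL := (EL.cons 14 (TM.mk (P.lf 8589934592 0 0) 0)
 EL.nil)
noncomputable def S343_372_734_808_34 : EL := (EL.cons 14 (TM.mk (P.cons (P.cons (P.lf 0 1050118208 0) (P.cons (P.lf 0 65511472 0) (P.cons (P.lf 30925424 0 0) (P.lf 1472632 0 0)))) (P.cons (P.cons (P.lf 1454370850 0 0) (P.cons (P.lf 22954296 0 0) (P.cons (P.lf 0 10835832 0) (P.lf 0 515984 0)))) (P.cons (P.cons (P.lf 5026142 0 0) (P.cons (P.lf 0 2118432 0) (P.cons (P.lf 1000024 0 0) (P.lf 47616 0 0)))) (P.cons (P.cons (P.lf 0 19516032 0) (P.cons (P.lf 0 130352 0) (P.cons (P.lf 61528 0 0) P.nil))) (P.cons (P.cons (P.lf 957316 0 0) (P.cons (P.lf 33160 0 0) P.nil)) (P.cons (P.cons (P.lf 106382 0 0) P.nil) P.nil)))))) 44390)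
 EL.nil)
noncomputable def S343_372_734_808_35 : EL := (EL.cons 14 (TM.mk (P.cons (P.cons (P.lf 128376792 0 0) (P.cons (P.lf 16017534 0 0) (P.cons (P.lf 0 7061630 0) (P.cons (P.lf 0 831764 0) (P.cons (P.lf 88874 0 0) (P.cons (P.lf 10602 0 0) P.nil)))))) (P.cons (P.cons (P.lf 0 355593234 0) (P.cons (P.lf 0 27795950 0) (P.cons (P.lf 12771266 0 0) (P.cons (P.lf 955382 0 0) (P.cons (P.lf 0 62280 0) P.nil))))) (P.cons (P.cons (P.lf 245012166 0 0) (P.cons (P.lf 8214122 0 0) (P.cons (P.lf 0 3783914 0) (P.cons (P.lf 0 273060 0) P.nil)))) (P.cons (P.cons (P.lf 6473626 0 0) (P.cons (P.lf 0 360934 0) (P.cons (P.lf 161048 0 0) P.nil))) (P.cons (P.cons (P.lf 0 6839682 0) (P.cons (P.lf 0 173630 0) P.nil)) (P.cons (P.cons (P.lf 275318 0 0) P.nil) P.nil)))))) 312332)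
 EL.nil)
noncomputable def S343_372_734_808_36 : EL := (EL.cons 14 (TM.mk (P.cons (P.lf 5692896520 0 0) (P.cons (P.lf 546145784 0 0) (P.cons (P.lf 0 44706904 0) (P.cons (P.lf 267288 0 0) (P.cons (P.lf 137296 0 0) (P.cons (P.lf 0 7336 0) P.nil)))))) 792)
 EL.nil)
noncomputable def S343_372_734_808_37 : EL := (EL.cons 14 (TM.mk (P.cons (P.cons (P.lf 0 695955740 0) (P.cons (P.lf 0 43417096 0) (P.cons (P.lf 20495526 0 0) (P.lf 975972 0 0)))) (P.cons (P.cons (P.lf 897104050 0 0) (P.cons (P.lf 11047536 0 0) (P.cons (P.lf 0 5215112 0) (P.lf 0 248332 0)))) (P.cons (P.cons (P.lf 101264954 0 0) (P.cons (P.lf 396416 0 0) (P.cons (P.lf 0 187136 0) (P.lf 0 8912 0)))) (P.cons (P.cons (P.lf 0 20216550 0) (P.cons (P.lf 0 342584 0) (P.cons (P.lf 161716 0 0) P.nil))) (P.cons (P.cons (P.lf 0 604060 0) (P.cons (P.lf 24380 0 0) P.nil)) (P.cons (P.cons (P.lf 257240 0 0) P.nil) P.nil))))))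 67468)
 EL.nil)
noncomputable def S343_372_734_808_38 : EL := (EL.cons 14 (TM.mk (P.cons (P.cons (P.lf 85080482 0 0) (P.cons (P.lf 10615466 0 0) (P.cons (P.lf 0 4680026 0) (P.cons (P.lf 0 551242 0) (P.cons (P.lf 58900 0 0) (P.cons (P.lf 7026 0 0) P.nil)))))) (P.cons (P.cons (P.lf 0 227503832 0) (P.cons (P.lf 0 17403106 0) (P.cons (P.lf 8015056 0 0) (P.cons (P.lf 580286 0 0) (P.cons (P.lf 0 35624 0) P.nil))))) (P.cons (P.cons (P.lf 139102784 0 0) (P.cons (P.lf 3593206 0 0) (P.cons (P.lf 0 1659006 0) (P.cons (P.lf 0 115894 0) P.nil)))) (P.cons (P.cons (P.lf 21722846 0 0) (P.cons (P.lf 428210 0 0) (P.cons (P.lf 0 200534 0) P.nil))) (P.cons (P.cons (P.lf 0 5405536 0) (P.cons (P.lf 0 181378 0) P.nil)) (P.cons (P.cons (P.lf 0 284262 0) P.nil) P.nil)))))) 363980)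
 EL.nil)
noncomputable def S343_372_734_808_39 : EL := (EL.cons 14 (TM.mk (P.cons (P.lf 3772912404 0 0) (P.cons (P.lf 723905728 0 0) (P.cons (P.lf 0 24534334 0) (P.cons (P.lf 0 5330620 0) (P.cons (P.lf 448650 0 0) (P.cons (P.lf 4952 0 0) P.nil)))))) 3630)
 EL.nil)
noncomputable def S343_372_734_808_40 : EL := (EL.cons 14 (TM.mk (P.cons (P.cons (P.lf 0 461237972 0) (P.cons (P.lf 0 28774262 0) (P.cons (P.lf 13583212 0 0) (P.lf 646816 0 0)))) (P.cons (P.cons (P.lf 550298396 0 0) (P.cons (P.lf 4561200 0 0) (P.cons (P.lf 0 2153164 0) (P.lf 0 102528 0)))) (P.cons (P.cons (P.lf 127772164 0 0) (P.cons (P.lf 1191088 0 0) (P.cons (P.lf 0 562268 0) (P.lf 0 26774 0)))) (P.cons (P.cons (P.lf 0 11650620 0) (P.cons (P.lf 0 260688 0) (P.cons (P.lf 123058 0 0) P.nil))) (P.cons (P.cons (P.lf 0 2195946 0) (P.cons (P.lf 0 8036 0) P.nil)) (P.cons (P.cons (P.lf 255380 0 0) P.nil) P.nil))))))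 82426)
 EL.nil)
noncomputable def S343_372_734_808_41 : EL := (EL.cons 14 (TM.mk (P.cons (P.cons (P.lf 56386272 0 0) (P.cons (P.lf 7035298 0 0) (P.cons (P.lf 0 3101642 0) (P.cons (P.lf 0 365330 0) (P.cons (P.lf 39034 0 0) (P.cons (P.lf 4656 0 0) P.nil)))))) (P.cons (P.cons (P.lf 0 145366580 0) (P.cons (P.lf 0 10858812 0) (P.cons (P.lf 5014346 0 0) (P.cons (P.lf 349530 0 0) (P.cons (P.lf 0 19864 0) P.nil))))) (P.cons (P.cons (P.lf 77281592 0 0) (P.cons (P.lf 1219628 0 0) (P.cons (P.lf 0 565536 0) (P.cons (P.lf 0 37044 0) P.nil)))) (P.cons (P.cons (P.lf 24427432 0 0) (P.cons (P.lf 603152 0 0) (P.cons (P.lf 0 280242 0) P.nil))) (P.cons (P.cons (P.lf 0 2931024 0) (P.cons (P.lf 0 112054 0) P.nil)) (P.cons (P.cons (P.lf 0 644512 0) P.nil) P.nil)))))) 325432)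
 EL.nil)
noncomputable def S343_372_734_808_42 : EL := (EL.cons 14 (TM.mk (P.cons (P.lf 2500461402 0 0) (P.cons (P.lf 719642336 0 0) (P.cons (P.lf 10129460 0 0) (P.cons (P.lf 0 8742920 0) (P.cons (P.lf 168938 0 0) (P.cons (P.lf 67134 0 0) P.nil)))))) 7070)
 EL.nil)
noncomputable def S343_372_734_808_43 : EL := (EL.cons 14 (TM.mk (P.cons (P.cons (P.lf 0 305681028 0) (P.cons (P.lf 0 19069866 0) (P.cons (P.lf 9002144 0 0) (P.lf 428670 0 0)))) (P.cons (P.cons (P.lf 335379578 0 0) (P.cons (P.lf 1193430 0 0) (P.cons (P.lf 0 563372 0) (P.lf 0 26824 0)))) (P.cons (P.cons (P.lf 122068144 0 0) (P.cons (P.lf 1229138 0 0) (P.cons (P.lf 0 580230 0) (P.lf 0 27630 0)))) (P.cons (P.cons (P.lf 0 2476032 0) (P.cons (P.lf 0 121674 0) (P.cons (P.lf 57434 0 0) P.nil))) (P.cons (P.cons (P.lf 0 2851332 0) (P.cons (P.lf 0 28416 0) P.nil)) (P.cons (P.cons (P.lf 103434 0 0) P.nil) P.nil))))))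 95128)
 EL.nil)
noncomputable def S343_372_734_808_44 : EL := (EL.cons 14 (TM.mk (P.cons (P.cons (P.lf 37369458 0 0) (P.cons (P.lf 4662576 0 0) (P.cons (P.lf 0 2055584 0) (P.cons (P.lf 0 242118 0) (P.cons (P.lf 25870 0 0) (P.cons (P.lf 3086 0 0) P.nil)))))) (P.cons (P.cons (P.lf 0 92755278 0) (P.cons (P.lf 0 6749270 0) (P.cons (P.lf 3126008 0 0) (P.cons (P.lf 208420 0 0) (P.cons (P.lf 0 10682 0) P.nil))))) (P.cons (P.cons (P.lf 41681796 0 0) (P.cons (P.lf 81280 0 0) (P.cons (P.lf 0 39850 0) (P.cons (P.lf 0 426 0) P.nil)))) (P.cons (P.cons (P.lf 21860914 0 0) (P.cons (P.lf 534012 0 0) (P.cons (P.lf 0 247878 0) P.nil))) (P.cons (P.cons (P.lf 0 795256 0) (P.cons (P.lf 0 42488 0) P.nil)) (P.cons (P.cons (P.lf 0 740598 0) P.nil) P.nil)))))) 267636)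
 EL.nil)
noncomputable def S343_372_734_808_45 : EL := (EL.cons 14 (TM.mk (P.cons (P.cons (P.lf 0 15694042 0) (P.cons (P.lf 0 2937210 0) (P.cons (P.lf 1203306 0 0) (P.cons (P.lf 235212 0 0) (P.cons (P.lf 0 27198 0) (P.cons (P.lf 0 6178 0) P.nil)))))) (P.cons (P.cons (P.lf 65206828 0 0) (P.cons (P.lf 9164994 0 0) (P.cons (P.lf 0 3944252 0) (P.cons (P.lf 0 562842 0) (P.cons (P.lf 62310 0 0) P.nil))))) (P.cons (P.cons (P.lf 0 90083448 0) (P.cons (P.lf 0 8551446 0) (P.cons (P.lf 3825496 0 0) (P.cons (P.lf 389954 0 0) P.nil)))) (P.cons (P.cons (P.lf 40192134 0 0) (P.cons (P.lf 2073314 0 0) (P.cons (P.lf 0 931758 0) P.nil))) (P.cons (P.cons (P.lf 2897770 0 0) (P.cons (P.lf 44788 0 0) P.nil)) (P.cons (P.cons (P.lf 0 1782602 0) P.nil) P.nil)))))) 639894)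
 EL.nil)
noncomputable def S343_372_734_808_46 : EL := (EL.cons 15 (TM.mk (P.lf 4294967296 0 0) 0)
 EL.nil)
noncomputable def S343_372_734_808_47 : EL := (EL.cons 15 (TM.mk (P.cons (P.cons (P.lf 0 525059104 0) (P.cons (P.lf 0 32755736 0) (P.cons (P.lf 15462712 0 0) (P.lf 736316 0 0)))) (P.cons (P.cons (P.lf 727185425 0 0) (P.cons (P.lf 11477148 0 0) (P.cons (P.lf 0 5417916 0) (P.lf 0 257992 0)))) (P.cons (P.cons (P.lf 2513071 0 0) (P.cons (P.lf 0 1059216 0) (P.cons (P.lf 500012 0 0) (P.lf 23808 0 0)))) (P.cons (P.cons (P.lf 0 9758016 0) (P.cons (P.lf 0 65176 0) (P.cons (P.lf 30764 0 0) P.nil))) (P.cons (P.cons (P.lf 478658 0 0) (P.cons (P.lf 16580 0 0) P.nil)) (P.cons (P.cons (P.lf 53191 0 0) P.nil) P.nil)))))) 22195)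
 EL.nil)
noncomputable def S343_372_734_808_48 : EL := (EL.cons 15 (TM.mk (P.cons (P.cons (P.lf 64188396 0 0) (P.cons (P.lf 8008767 0 0) (P.cons (P.lf 0 3530815 0) (P.cons (P.lf 0 415882 0) (P.cons (P.lf 44437 0 0) (P.cons (P.lf 5301 0 0) P.nil)))))) (P.cons (P.cons (P.lf 0 177796617 0) (P.cons (P.lf 0 13897975 0) (P.cons (P.lf 6385633 0 0) (P.cons (P.lf 477691 0 0) (P.cons (P.lf 0 31140 0) P.nil))))) (P.cons (P.cons (P.lf 122506083 0 0) (P.cons (P.lf 4107061 0 0) (P.cons (P.lf 0 1891957 0) (P.cons (P.lf 0 136530 0) P.nil)))) (P.cons (P.cons (P.lf 3236813 0 0) (P.cons (P.lf 0 180467 0) (P.cons (P.lf 80524 0 0) P.nil))) (P.cons (P.cons (P.lf 0 3419841 0) (P.cons (P.lf 0 86815 0) P.nil)) (P.cons (P.cons (P.lf 137659 0 0) P.nil) P.nil)))))) 156166)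
 EL.nil)
noncomputable def S343_372_734_808 : SL := (SL.cons S343_372_734_808_0 (SL.cons S343_372_734_808_1 (SL.cons S343_372_734_808_2 (SL.cons S343_372_734_808_3 (SL.cons S343_372_734_808_4 (SL.cons S343_372_734_808_5 (SL.cons S343_372_734_808_6 (SL.cons S343_372_734_808_7 (SL.cons S343_372_734_808_8 (SL.cons S343_372_734_808_9 (SL.cons S343_372_734_808_10 (SL.cons S343_372_734_808_11 (SL.cons S343_372_734_808_12 (SL.cons S343_372_734_808_13 (SL.cons S343_372_734_808_14 (SL.cons S343_372_734_808_15 (SL.cons S343_372_734_808_16 (SL.cons S343_372_734_808_17 (SL.cons S343_372_734_808_18 (SL.cons S343_372_734_808_19 (SL.cons S343_372_734_808_20 (SL.cons S343_372_734_808_21 (SL.cons S343_372_734_808_22 (SL.cons S343_372_734_808_23 (SL.cons S343_372_734_808_24 (SL.cons S343_372_734_808_25 (SL.cons S343_372_734_808_26 (SL.cons S343_372_734_808_27 (SL.cons S343_372_734_808_28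 (SL.cons S343_372_734_808_29 (SL.cons S343_372_734_808_30 (SL.cons S343_372_734_808_31 (SL.cons S343_372_734_808_32 (SL.cons S343_372_734_808_33 (SL.cons S343_372_734_808_34 (SL.cons S343_372_734_808_35 (SL.cons S343_372_734_808_36 (SL.cons S343_372_734_808_37 (SL.cons S343_372_734_808_38 (SL.cons S343_372_734_808_39 (SL.cons S343_372_734_808_40 (SL.cons S343_372_734_808_41 (SL.cons S343_372_734_808_42 (SL.cons S343_372_734_808_43 (SL.cons S343_372_734_808_44 (SL.cons S343_372_734_808_45 (SL.cons S343_372_734_808_46 (SL.cons S343_372_734_808_47 (SL.cons S343_372_734_808_48 SL.nil)))))))))))))))))))))))))))))))))))))))))))))))))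
noncomputable def S357_372_364_512_0 : EL := (EL.cons 0 (TM.mk (P.cons (P.lf 4838058774 0 0) (P.cons (P.lf 0 316721411 0) (P.cons (P.lf 7436009 0 0) (P.cons (P.lf 542221 0 0) (P.cons (P.lf 0 28448 0) (P.cons (P.lf 47 0 0) P.nil)))))) 217)
 (EL.cons 1 (TM.mk (P.cons (P.lf 1765090931 0 0) (P.cons (P.lf 0 38136785 0) (P.cons (P.lf 0 9619957 0) (P.cons (P.lf 331850 0 0) (P.cons (P.lf 6553 0 0) (P.cons (P.lf 0 667 0) P.nil)))))) 140)
 (EL.cons 5 (TM.mk (P.cons (P.lf 5581245734 0 0) (P.cons (P.lf 112612058 0 0) (P.cons (P.lf 0 2643916 0) (P.cons (P.lf 0 192788 0) (P.cons (P.lf 10114 0 0) (P.cons (P.lf 0 20 0) P.nil)))))) 95)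
 (EL.cons 9 (TM.mk (P.lf 6442450944 0 0) 2)
 EL.nil))))
noncomputable def S357_372_364_512_1 : EL := (EL.cons 0 (TM.mk (P.cons (P.cons (P.lf 3434659784 0 0) (P.cons (P.lf 310413943 0 0) (P.cons (P.lf 20753543 0 0) (P.lf 0 6917840 0)))) (P.cons (P.cons (P.lf 359875954 0 0) (P.cons (P.lf 4495576 0 0) (P.cons (P.lf 300571 0 0) (P.lf 0 100197 0)))) (P.cons (P.cons (P.lf 0 60959379 0) (P.cons (P.lf 0 10939057 0) (P.cons (P.lf 0 731358 0) (P.lf 243789 0 0)))) (P.cons (P.cons (P.lf 0 1687245 0) (P.cons (P.lf 963577 0 0) (P.cons (P.lf 64415 0 0) P.nil))) (P.cons (P.cons (P.lf 486360 0 0) (P.cons (P.lf 10214 0 0) P.nil)) (P.cons (P.cons (P.lf 0 9891 0) P.nil) P.nil)))))) 60622)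
 (EL.cons 1 (TM.mk (P.cons (P.cons (P.lf 598841382 0 0) (P.cons (P.lf 0 23650199 0) (P.cons (P.lf 0 1581192 0) (P.lf 527058 0 0)))) (P.cons (P.cons (P.lf 278271691 0 0) (P.cons (P.lf 49702211 0 0) (P.cons (P.lf 3322964 0 0) (P.lf 0 1107649 0)))) (P.cons (P.cons (P.lf 6018219 0 0) (P.cons (P.lf 0 5153347 0) (P.cons (P.lf 0 344536 0) (P.lf 114838 0 0)))) (P.cons (P.cons (P.lf 0 3795729 0) (P.cons (P.lf 0 220220 0) (P.cons (P.lf 0 14722 0) P.nil))) (P.cons (P.cons (P.lf 42827 0 0) (P.cons (P.lf 46760 0 0) P.nil)) (P.cons (P.cons (P.lf 16603 0 0) P.nil) P.nil)))))) 29289)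
 (EL.cons 5 (TM.mk (P.cons (P.cons (P.lf 0 77280447 0) (P.cons (P.lf 0 487177728 0) (P.cons (P.lf 0 32571566 0) (P.lf 10857188 0 0)))) (P.cons (P.cons (P.lf 225247271 0 0) (P.cons (P.lf 72309326 0 0) (P.cons (P.lf 4834430 0 0) (P.lf 0 1611474 0)))) (P.cons (P.cons (P.lf 32589703 0 0) (P.cons (P.lf 0 261836 0) (P.cons (P.lf 0 17508 0) (P.lf 5838 0 0)))) (P.cons (P.cons (P.lf 0 1201130 0) (P.cons (P.lf 0 408336 0) (P.cons (P.lf 0 27296 0) P.nil))) (P.cons (P.cons (P.lf 0 157989 0) (P.cons (P.lf 11072 0 0) P.nil)) (P.cons (P.cons (P.lf 7188 0 0) P.nil) P.nil)))))) 26149)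
 (EL.cons 9 (TM.mk (P.cons (P.cons (P.lf 1009351684 0 0) (P.cons (P.lf 0 332477928 0) (P.cons (P.lf 0 22228698 0) (P.lf 7409562 0 0)))) (P.cons (P.cons (P.lf 311649843 0 0) (P.cons (P.lf 65212722 0 0) (P.cons (P.lf 4359966 0 0) (P.lf 0 1453320 0)))) (P.cons (P.cons (P.lf 9631105 0 0) (P.cons (P.lf 0 3662886 0) (P.cons (P.lf 0 244890 0) (P.lf 81624 0 0)))) (P.cons (P.cons (P.lf 0 1589142 0) (P.cons (P.lf 0 57996 0) (P.cons (P.lf 0 3876 0) P.nil))) (P.cons (P.cons (P.lf 13179 0 0) (P.cons (P.lf 12972 0 0) P.nil)) (P.cons (P.cons (P.lf 3234 0 0) P.nil) P.nil)))))) 6725)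
 (EL.cons 2 (TM.mk (P.cons (P.cons (P.lf 0 777589427 0) (P.cons (P.lf 0 120390367 0) (P.cons (P.lf 58000280 0 0) (P.cons (P.lf 2194897 0 0) (P.lf 0 548721 0))))) (P.cons (P.cons (P.lf 67639882 0 0) (P.cons (P.lf 10472349 0 0) (P.cons (P.lf 0 5045248 0) (P.cons (P.lf 0 190923 0) (P.lf 47728 0 0))))) (P.cons (P.cons (P.lf 3607858 0 0) (P.cons (P.lf 558585 0 0) (P.cons (P.lf 0 269111 0) (P.cons (P.lf 0 10181 0) P.nil)))) (P.cons (P.cons (P.lf 0 489805 0) (P.cons (P.lf 0 75830 0) (P.cons (P.lf 36534 0 0) P.nil))) (P.cons (P.cons (P.lf 6353 0 0) (P.cons (P.lf 981 0 0) P.nil)) (P.cons (P.cons (P.lf 880 0 0) P.nil) P.nil)))))) 10039)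
 (EL.cons 6 (TM.mk (P.cons (P.cons (P.lf 379393521 0 0) (P.cons (P.lf 58739643 0 0) (P.cons (P.lf 0 28298907 0) (P.cons (P.lf 0 1070913 0) (P.lf 267726 0 0))))) (P.cons (P.cons (P.lf 0 74414814 0) (P.cons (P.lf 0 11521281 0) (P.cons (P.lf 5550588 0 0) (P.cons (P.lf 210048 0 0) (P.lf 0 52509 0))))) (P.cons (P.cons (P.lf 4179756 0 0) (P.cons (P.lf 647130 0 0) (P.cons (P.lf 0 311766 0) (P.cons (P.lf 0 11796 0) P.nil)))) (P.cons (P.cons (P.lf 66183 0 0) (P.cons (P.lf 10245 0 0) (P.cons (P.lf 0 4935 0) P.nil))) (P.cons (P.cons (P.lf 0 14805 0) (P.cons (P.lf 0 2292 0) P.nil)) (P.cons (P.cons (P.lf 384 0 0) P.nil) P.nil)))))) 5499)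
 EL.nil))))))
noncomputable def S357_372_364_512_2 : EL := (EL.cons 0 (TM.mk (P.cons (P.cons (P.lf 957474484 0 0) (P.cons (P.lf 0 179005573 0) (P.cons (P.lf 0 56892480 0) (P.cons (P.lf 0 2017807 0) (P.cons (P.lf 1801552 0 0) (P.cons (P.lf 133872 0 0) P.nil)))))) (P.cons (P.cons (P.lf 379504113 0 0) (P.cons (P.lf 67519282 0 0) (P.cons (P.lf 16232613 0 0) (P.cons (P.lf 62206 0 0) (P.cons (P.lf 0 469926 0) P.nil))))) (P.cons (P.cons (P.lf 17016090 0 0) (P.cons (P.lf 4021087 0 0) (P.cons (P.lf 5621 0 0) (P.cons (P.lf 0 124811 0) P.nil)))) (P.cons (P.cons (P.lf 0 6607186 0) (P.cons (P.lf 0 2189745 0) (P.cons (P.lf 0 369459 0) P.nil))) (P.cons (P.cons (P.lf 0 262116 0) (P.cons (P.lf 84693 0 0) P.nil)) (P.cons (P.cons (P.lf 67501 0 0) P.nil) P.nil)))))) 623318)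
 (EL.cons 1 (TM.mk (P.cons (P.cons (P.lf 144317229 0 0) (P.cons (P.lf 0 40676862 0) (P.cons (P.lf 0 4979511 0) (P.cons (P.lf 604324 0 0) (P.cons (P.lf 90630 0 0) (P.cons (P.lf 6739 0 0) P.nil)))))) (P.cons (P.cons (P.lf 119313132 0 0) (P.cons (P.lf 0 714777 0) (P.cons (P.lf 0 3710885 0) (P.cons (P.lf 0 473877 0) (P.cons (P.lf 146890 0 0) P.nil))))) (P.cons (P.cons (P.lf 26455618 0 0) (P.cons (P.lf 6087740 0 0) (P.cons (P.lf 1673347 0 0) (P.cons (P.lf 33650 0 0) P.nil)))) (P.cons (P.cons (P.lf 55372 0 0) (P.cons (P.lf 0 204681 0) (P.cons (P.lf 0 137477 0) P.nil))) (P.cons (P.cons (P.lf 0 409198 0) (P.cons (P.lf 0 117914 0) P.nil)) (P.cons (P.cons (P.lf 0 3721 0) P.nil) P.nil)))))) 286154)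
 (EL.cons 5 (TM.mk (P.cons (P.cons (P.lf 0 161213266 0) (P.cons (P.lf 0 54424213 0) (P.cons (P.lf 31780588 0 0) (P.cons (P.lf 5948986 0 0) (P.cons (P.lf 0 1420368 0) (P.cons (P.lf 0 105544 0) P.nil)))))) (P.cons (P.cons (P.lf 0 24260699 0) (P.cons (P.lf 0 37304073 0) (P.cons (P.lf 0 14288981 0) (P.cons (P.lf 0 745803 0) (P.cons (P.lf 472984 0 0) P.nil))))) (P.cons (P.cons (P.lf 14456075 0 0) (P.cons (P.lf 3293387 0 0) (P.cons (P.lf 1490370 0 0) (P.cons (P.lf 96442 0 0) P.nil)))) (P.cons (P.cons (P.lf 2840905 0 0) (P.cons (P.lf 763213 0 0) (P.cons (P.lf 53076 0 0) P.nil))) (P.cons (P.cons (P.lf 0 60057 0) (P.cons (P.lf 0 82281 0) P.nil)) (P.cons (P.cons (P.lf 0 26781 0) P.nil) P.nil)))))) 321937)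
 (EL.cons 9 (TM.mk (P.cons (P.cons (P.lf 158137147 0 0) (P.cons (P.lf 0 104179963 0) (P.cons (P.lf 10193080 0 0) (P.cons (P.lf 4616070 0 0) (P.cons (P.lf 0 688078 0) (P.cons (P.lf 0 51130 0) P.nil)))))) (P.cons (P.cons (P.lf 97653609 0 0) (P.cons (P.lf 0 11732839 0) (P.cons (P.lf 0 7515345 0) (P.cons (P.lf 0 638547 0) (P.cons (P.lf 269920 0 0) P.nil))))) (P.cons (P.cons (P.lf 18093729 0 0) (P.cons (P.lf 4167439 0 0) (P.cons (P.lf 1316794 0 0) (P.cons (P.lf 45942 0 0) P.nil)))) (P.cons (P.cons (P.lf 433849 0 0) (P.cons (P.lf 0 13551 0) (P.cons (P.lf 0 69072 0) P.nil))) (P.cons (P.cons (P.lf 0 135219 0) (P.cons (P.lf 0 46029 0) P.nil)) (P.cons (P.cons (P.lf 0 2461 0) P.nil) P.nil)))))) 135865)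
 (EL.cons 2 (TM.mk (P.cons (P.cons (P.lf 0 243652983 0) (P.cons (P.lf 42535080 0 0) (P.cons (P.lf 35966008 0 0) (P.cons (P.lf 0 6256580 0) (P.cons (P.lf 0 1075651 0) (P.cons (P.lf 174903 0 0) P.nil)))))) (P.cons (P.cons (P.lf 0 54036326 0) (P.cons (P.lf 0 31089667 0) (P.cons (P.lf 0 1006841 0) (P.cons (P.lf 2118661 0 0) (P.cons (P.lf 217732 0 0) P.nil))))) (P.cons (P.cons (P.lf 5349673 0 0) (P.cons (P.lf 2709427 0 0) (P.cons (P.lf 17988 0 0) (P.cons (P.lf 0 177862 0) P.nil)))) (P.cons (P.cons (P.lf 781425 0 0) (P.cons (P.lf 181665 0 0) (P.cons (P.lf 0 44831 0) P.nil))) (P.cons (P.cons (P.lf 0 71156 0) (P.cons (P.lf 0 30037 0) P.nil)) (P.cons (P.cons (P.lf 0 2851 0) P.nil) P.nil)))))) 153224)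
 (EL.cons 6 (TM.mk (P.cons (P.cons (P.lf 118880682 0 0) (P.cons (P.lf 0 20753280 0) (P.cons (P.lf 0 17548164 0) (P.cons (P.lf 3052644 0 0) (P.cons (P.lf 524814 0 0) (P.cons (P.lf 0 85332 0) P.nil)))))) (P.cons (P.cons (P.lf 13388442 0 0) (P.cons (P.lf 17434272 0 0) (P.cons (P.lf 2406714 0 0) (P.cons (P.lf 0 1366926 0) (P.cons (P.lf 0 163518 0) P.nil))))) (P.cons (P.cons (P.lf 0 4755498 0) (P.cons (P.lf 0 3105594 0) (P.cons (P.lf 0 170520 0) (P.cons (P.lf 218424 0 0) P.nil)))) (P.cons (P.cons (P.lf 15462 0 0) (P.cons (P.lf 157962 0 0) (P.cons (P.lf 33330 0 0) P.nil))) (P.cons (P.cons (P.lf 52518 0 0) (P.cons (P.lf 9108 0 0) P.nil)) (P.cons (P.cons (P.lf 0 3096 0) P.nil) P.nil)))))) 119478)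
 EL.nil))))))
noncomputable def S357_372_364_512_3 : EL := (EL.cons 0 (TM.mk (P.cons (P.lf 3617658089 0 0) (P.cons (P.lf 316721411 0 0) (P.cons (P.lf 0 7436009 0) (P.cons (P.lf 0 542221 0) (P.cons (P.lf 28448 0 0) (P.cons (P.lf 0 47 0) P.nil)))))) 217)
 (EL.cons 1 (TM.mk (P.cons (P.lf 0 1765090931 0) (P.cons (P.lf 38136785 0 0) (P.cons (P.lf 9619957 0 0) (P.cons (P.lf 0 331850 0) (P.cons (P.lf 0 6553 0) (P.cons (P.lf 667 0 0) P.nil)))))) 140)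
 (EL.cons 5 (TM.mk (P.cons (P.lf 861205210 0 0) (P.cons (P.lf 0 112612058 0) (P.cons (P.lf 2643916 0 0) (P.cons (P.lf 192788 0 0) (P.cons (P.lf 0 10114 0) (P.cons (P.lf 20 0 0) P.nil)))))) 88)
 EL.nil)))
noncomputable def S357_372_364_512_4 : EL := (EL.cons 0 (TM.mk (P.cons (P.cons (P.lf 566785733 0 0) (P.cons (P.lf 0 186697807 0) (P.cons (P.lf 0 12482179 0) (P.lf 4160722 0 0)))) (P.cons (P.cons (P.lf 224623497 0 0) (P.cons (P.lf 20274031 0 0) (P.cons (P.lf 1355470 0 0) (P.lf 0 451822 0)))) (P.cons (P.cons (P.lf 19564396 0 0) (P.cons (P.lf 1532879 0 0) (P.cons (P.lf 102483 0 0) (P.lf 0 34164 0)))) (P.cons (P.cons (P.lf 0 863539 0) (P.cons (P.lf 0 259925 0) (P.cons (P.lf 0 17375 0) P.nil))) (P.cons (P.cons (P.lf 0 103612 0) (P.cons (P.lf 1703 0 0) P.nil)) (P.cons (P.cons (P.lf 4855 0 0) P.nil) P.nil)))))) 13480)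
 (EL.cons 1 (TM.mk (P.cons (P.cons (P.lf 0 276540328 0) (P.cons (P.lf 91091694 0 0) (P.cons (P.lf 6090176 0 0) (P.lf 0 2030056 0)))) (P.cons (P.cons (P.lf 0 79410286 0) (P.cons (P.lf 0 19835000 0) (P.cons (P.lf 0 1326120 0) (P.lf 442038 0 0)))) (P.cons (P.cons (P.lf 713310 0 0) (P.cons (P.lf 893122 0 0) (P.cons (P.lf 59711 0 0) (P.lf 0 19901 0)))) (P.cons (P.cons (P.lf 905769 0 0) (P.cons (P.lf 108708 0 0) (P.cons (P.lf 7265 0 0) P.nil))) (P.cons (P.cons (P.lf 0 15716 0) (P.cons (P.lf 0 12386 0) P.nil)) (P.cons (P.cons (P.lf 0 3888 0) P.nil) P.nil)))))) 6185)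
 (EL.cons 5 (TM.mk (P.cons (P.cons (P.lf 134926742 0 0) (P.cons (P.lf 0 44444532 0) (P.cons (P.lf 0 2971456 0) (P.lf 990484 0 0)))) (P.cons (P.cons (P.lf 24017146 0 0) (P.cons (P.lf 14529028 0 0) (P.cons (P.lf 971374 0 0) (P.lf 0 323790 0)))) (P.cons (P.cons (P.lf 0 3745860 0) (P.cons (P.lf 0 1765984 0) (P.cons (P.lf 0 118068 0) (P.lf 39354 0 0)))) (P.cons (P.cons (P.lf 0 222676 0) (P.cons (P.lf 73086 0 0) (P.cons (P.lf 4886 0 0) P.nil))) (P.cons (P.cons (P.lf 41232 0 0) (P.cons (P.lf 3718 0 0) P.nil)) (P.cons (P.cons (P.lf 0 648 0) P.nil) P.nil)))))) 4748)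
 EL.nil)))
noncomputable def S357_372_364_512_5 : EL := (EL.cons 0 (TM.mk (P.cons (P.cons (P.lf 88799454 0 0) (P.cons (P.lf 0 58500636 0) (P.cons (P.lf 5723764 0 0) (P.cons (P.lf 2592080 0 0) (P.cons (P.lf 0 386379 0) (P.cons (P.lf 0 28710 0) P.nil)))))) (P.cons (P.cons (P.lf 62610143 0 0) (P.cons (P.lf 0 11710049 0) (P.cons (P.lf 0 3719016 0) (P.cons (P.lf 0 131632 0) (P.cons (P.lf 117741 0 0) P.nil))))) (P.cons (P.cons (P.lf 14778536 0 0) (P.cons (P.lf 1883601 0 0) (P.cons (P.lf 358192 0 0) (P.cons (P.lf 0 10921 0) P.nil)))) (P.cons (P.cons (P.lf 1007114 0 0) (P.cons (P.lf 219578 0 0) (P.cons (P.lf 33765 0 0) P.nil))) (P.cons (P.cons (P.lf 0 83005 0) (P.cons (P.lf 0 30795 0) P.nil)) (P.cons (P.cons (P.lf 0 9622 0) P.nil) P.nil)))))) 112755)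
 (EL.cons 1 (TM.mk (P.cons (P.cons (P.lf 0 43326125 0) (P.cons (P.lf 28543035 0 0) (P.cons (P.lf 0 2792679 0) (P.cons (P.lf 0 1264700 0) (P.cons (P.lf 188516 0 0) (P.cons (P.lf 14006 0 0) P.nil)))))) (P.cons (P.cons (P.lf 0 25818845 0) (P.cons (P.lf 2597835 0 0) (P.cons (P.lf 2119378 0 0) (P.cons (P.lf 202273 0 0) (P.cons (P.lf 0 78024 0) P.nil))))) (P.cons (P.cons (P.lf 0 4143082 0) (P.cons (P.lf 0 1366801 0) (P.cons (P.lf 0 390039 0) (P.cons (P.lf 0 9472 0) P.nil)))) (P.cons (P.cons (P.lf 125913 0 0) (P.cons (P.lf 16228 0 0) (P.cons (P.lf 14971 0 0) P.nil))) (P.cons (P.cons (P.lf 61440 0 0) (P.cons (P.lf 19462 0 0) P.nil)) (P.cons (P.cons (P.lf 0 493 0) P.nil) P.nil)))))) 57226)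
 (EL.cons 5 (TM.mk (P.cons (P.cons (P.lf 21139242 0 0) (P.cons (P.lf 0 13926426 0) (P.cons (P.lf 1362576 0 0) (P.cons (P.lf 617060 0 0) (P.cons (P.lf 0 91978 0) (P.cons (P.lf 0 6834 0) P.nil)))))) (P.cons (P.cons (P.lf 10289816 0 0) (P.cons (P.lf 252626 0 0) (P.cons (P.lf 0 1182796 0) (P.cons (P.lf 0 166044 0) (P.cons (P.lf 48108 0 0) P.nil))))) (P.cons (P.cons (P.lf 776650 0 0) (P.cons (P.lf 719420 0 0) (P.cons (P.lf 311572 0 0) (P.cons (P.lf 19196 0 0) P.nil)))) (P.cons (P.cons (P.lf 0 213468 0) (P.cons (P.lf 0 82588 0) (P.cons (P.lf 0 35028 0) P.nil))) (P.cons (P.cons (P.lf 0 15558 0) (P.cons (P.lf 0 4392 0) P.nil)) (P.cons (P.cons (P.lf 2600 0 0) P.nil) P.nil)))))) 32052)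
 EL.nil)))
noncomputable def S357_372_364_512_6 : EL := (EL.cons 12 (TM.mk (P.lf 8589934592 0 0) 0)
 (EL.cons 3 (TM.mk (P.cons (P.lf 2787267765 0 0) (P.cons (P.lf 122010892 0 0) (P.cons (P.lf 0 5535056 0) (P.cons (P.lf 33412 0 0) (P.cons (P.lf 4001 0 0) (P.cons (P.lf 0 127 0) P.nil)))))) 67)
 (EL.cons 7 (TM.mk (P.cons (P.lf 0 1359935332 0) (P.cons (P.lf 88913255 0 0) (P.cons (P.lf 819082 0 0) (P.cons (P.lf 0 98665 0) (P.cons (P.lf 1783 0 0) (P.cons (P.lf 41 0 0) P.nil)))))) 48)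
 EL.nil)))
noncomputable def S357_372_364_512_7 : EL := (EL.cons 12 (TM.mk (P.cons (P.cons (P.lf 1345802246 0 0) (P.cons (P.lf 0 443303904 0) (P.cons (P.lf 0 29638264 0) (P.lf 9879416 0 0)))) (P.cons (P.cons (P.lf 415533124 0 0) (P.cons (P.lf 86950296 0 0) (P.cons (P.lf 5813288 0 0) (P.lf 0 1937760 0)))) (P.cons (P.cons (P.lf 12841474 0 0) (P.cons (P.lf 0 4883848 0) (P.cons (P.lf 0 326520 0) (P.lf 108832 0 0)))) (P.cons (P.cons (P.lf 0 2118856 0) (P.cons (P.lf 0 77328 0) (P.cons (P.lf 0 5168 0) P.nil))) (P.cons (P.cons (P.lf 17572 0 0) (P.cons (P.lf 17296 0 0) P.nil)) (P.cons (P.cons (P.lf 4312 0 0) P.nil) P.nil)))))) 8942)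
 (EL.cons 3 (TM.mk (P.cons (P.cons (P.lf 2498960205 0 0) (P.cons (P.lf 287687098 0 0) (P.cons (P.lf 19234086 0 0) (P.lf 0 6411358 0)))) (P.cons (P.cons (P.lf 198857942 0 0) (P.cons (P.lf 0 43834058 0) (P.cons (P.lf 0 2930638 0) (P.lf 976876 0 0)))) (P.cons (P.cons (P.lf 0 30301270 0) (P.cons (P.lf 128054 0 0) (P.cons (P.lf 8558 0 0) (P.lf 0 2848 0)))) (P.cons (P.cons (P.lf 667744 0 0) (P.cons (P.lf 304424 0 0) (P.cons (P.lf 20350 0 0) P.nil))) (P.cons (P.cons (P.lf 106366 0 0) (P.cons (P.lf 0 15584 0) P.nil)) (P.cons (P.cons (P.lf 0 6552 0) P.nil) P.nil)))))) 27590)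
 (EL.cons 7 (TM.mk (P.cons (P.cons (P.lf 1289781032 0 0) (P.cons (P.lf 384652929 0 0) (P.cons (P.lf 25717000 0 0) (P.lf 0 8572334 0)))) (P.cons (P.cons (P.lf 144914162 0 0) (P.cons (P.lf 0 31943289 0) (P.cons (P.lf 0 2135657 0) (P.lf 711885 0 0)))) (P.cons (P.cons (P.lf 0 14172475 0) (P.cons (P.lf 0 1650061 0) (P.cons (P.lf 0 110320 0) (P.lf 36771 0 0)))) (P.cons (P.cons (P.lf 0 842356 0) (P.cons (P.lf 167380 0 0) (P.cons (P.lf 11189 0 0) P.nil))) (P.cons (P.cons (P.lf 67643 0 0) (P.cons (P.lf 4025 0 0) P.nil)) (P.cons (P.cons (P.lf 968 0 0) P.nil) P.nil)))))) 17577)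
 (EL.cons 10 (TM.mk (P.cons (P.cons (P.lf 0 1198206075 0) (P.cons (P.lf 0 185512389 0) (P.cons (P.lf 89374017 0 0) (P.cons (P.lf 3382173 0 0) (P.lf 0 845541 0))))) (P.cons (P.cons (P.lf 156678627 0 0) (P.cons (P.lf 24257784 0 0) (P.cons (P.lf 0 11686635 0) (P.cons (P.lf 0 442254 0) (P.lf 110562 0 0))))) (P.cons (P.cons (P.lf 0 3678513 0) (P.cons (P.lf 0 569526 0) (P.cons (P.lf 274377 0 0) (P.cons (P.lf 10383 0 0) P.nil)))) (P.cons (P.cons (P.lf 0 268227 0) (P.cons (P.lf 0 41526 0) (P.cons (P.lf 20007 0 0) P.nil))) (P.cons (P.cons (P.lf 14070 0 0) (P.cons (P.lf 2178 0 0) P.nil)) (P.cons (P.cons (P.lf 0 27 0) P.nil) P.nil)))))) 4899)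
 EL.nil))))
noncomputable def S357_372_364_512_8 : EL := (EL.cons 12 (TM.mk (P.cons (P.cons (P.lf 210849530 0 0) (P.cons (P.lf 0 138906618 0) (P.cons (P.lf 13590774 0 0) (P.cons (P.lf 6154760 0 0) (P.cons (P.lf 0 917438 0) (P.cons (P.lf 0 68174 0) P.nil)))))) (P.cons (P.cons (P.lf 130204812 0 0) (P.cons (P.lf 0 15643786 0) (P.cons (P.lf 0 10020460 0) (P.cons (P.lf 0 851396 0) (P.cons (P.lf 359894 0 0) P.nil))))) (P.cons (P.cons (P.lf 24124972 0 0) (P.cons (P.lf 5556586 0 0) (P.cons (P.lf 1755726 0 0) (P.cons (P.lf 61256 0 0) P.nil)))) (P.cons (P.cons (P.lf 578466 0 0) (P.cons (P.lf 0 18068 0) (P.cons (P.lf 0 92096 0) P.nil))) (P.cons (P.cons (P.lf 0 180292 0) (P.cons (P.lf 0 61372 0) P.nil)) (P.cons (P.cons (P.lf 0 3282 0) P.nil) P.nil)))))) 181124)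
 (EL.cons 3 (TM.mk (P.cons (P.cons (P.lf 714617593 0 0) (P.cons (P.lf 0 122711966 0) (P.cons (P.lf 0 45321172 0) (P.cons (P.lf 0 2228358 0) (P.cons (P.lf 1488456 0 0) (P.cons (P.lf 110606 0 0) P.nil)))))) (P.cons (P.cons (P.lf 258838612 0 0) (P.cons (P.lf 51212992 0 0) (P.cons (P.lf 16359548 0 0) (P.cons (P.lf 588353 0 0) (P.cons (P.lf 0 518736 0) P.nil))))) (P.cons (P.cons (P.lf 7674527 0 0) (P.cons (P.lf 0 699159 0) (P.cons (P.lf 0 1581435 0) (P.cons (P.lf 0 189630 0) P.nil)))) (P.cons (P.cons (P.lf 0 3807928 0) (P.cons (P.lf 0 1201284 0) (P.cons (P.lf 0 60519 0) P.nil))) (P.cons (P.cons (P.lf 0 15322 0) (P.cons (P.lf 115108 0 0) P.nil)) (P.cons (P.cons (P.lf 32352 0 0) P.nil) P.nil)))))) 366089)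
 (EL.cons 7 (TM.mk (P.cons (P.cons (P.lf 437526278 0 0) (P.cons (P.lf 0 34587034 0) (P.cons (P.lf 0 38392308 0) (P.cons (P.lf 0 4053635 0) (P.cons (P.lf 1446868 0 0) (P.cons (P.lf 107513 0 0) P.nil)))))) (P.cons (P.cons (P.lf 188624006 0 0) (P.cons (P.lf 37320554 0 0) (P.cons (P.lf 11921724 0 0) (P.cons (P.lf 428753 0 0) (P.cons (P.lf 0 378017 0) P.nil))))) (P.cons (P.cons (P.lf 15887282 0 0) (P.cons (P.lf 1527357 0 0) (P.cons (P.lf 0 501784 0) (P.cons (P.lf 0 114787 0) P.nil)))) (P.cons (P.cons (P.lf 0 2006256 0) (P.cons (P.lf 0 840919 0) (P.cons (P.lf 0 105104 0) P.nil))) (P.cons (P.cons (P.lf 0 204267 0) (P.cons (P.lf 14307 0 0) P.nil)) (P.cons (P.cons (P.lf 14744 0 0) P.nil) P.nil)))))) 221603)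
 (EL.cons 10 (TM.mk (P.cons (P.cons (P.lf 0 375450684 0) (P.cons (P.lf 65543322 0 0) (P.cons (P.lf 55420878 0 0) (P.cons (P.lf 0 9640914 0) (P.cons (P.lf 0 1657494 0) (P.cons (P.lf 269508 0 0) P.nil)))))) (P.cons (P.cons (P.lf 0 66830742 0) (P.cons (P.lf 0 50775930 0) (P.cons (P.lf 0 3977478 0) (P.cons (P.lf 3686724 0 0) (P.cons (P.lf 408066 0 0) P.nil))))) (P.cons (P.cons (P.lf 10423332 0 0) (P.cons (P.lf 6527868 0 0) (P.cons (P.lf 311886 0 0) (P.cons (P.lf 0 454602 0) P.nil)))) (P.cons (P.cons (P.lf 619626 0 0) (P.cons (P.lf 0 107436 0) (P.cons (P.lf 0 91302 0) P.nil))) (P.cons (P.cons (P.lf 0 114732 0) (P.cons (P.lf 0 28104 0) P.nil)) (P.cons (P.cons (P.lf 1800 0 0) P.nil) P.nil)))))) 270564)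
 EL.nil))))
noncomputable def S357_372_364_512_9 : EL := (EL.cons 3 (TM.mk (P.cons (P.lf 2787267765 0 0) (P.cons (P.lf 122010892 0 0) (P.cons (P.lf 0 5535056 0) (P.cons (P.lf 33412 0 0) (P.cons (P.lf 4001 0 0) (P.cons (P.lf 0 127 0) P.nil)))))) 67)
 (EL.cons 7 (TM.mk (P.cons (P.lf 0 1359935332 0) (P.cons (P.lf 88913255 0 0) (P.cons (P.lf 819082 0 0) (P.cons (P.lf 0 98665 0) (P.cons (P.lf 1783 0 0) (P.cons (P.lf 41 0 0) P.nil)))))) 48)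
 EL.nil))
noncomputable def S357_372_364_512_10 : EL := (EL.cons 3 (TM.mk (P.cons (P.cons (P.lf 436686819 0 0) (P.cons (P.lf 0 143843549 0) (P.cons (P.lf 0 9617043 0) (P.lf 3205679 0 0)))) (P.cons (P.cons (P.lf 153948158 0 0) (P.cons (P.lf 21917029 0 0) (P.cons (P.lf 1465319 0 0) (P.lf 0 488438 0)))) (P.cons (P.cons (P.lf 9201827 0 0) (P.cons (P.lf 0 64027 0) (P.cons (P.lf 0 4279 0) (P.lf 1424 0 0)))) (P.cons (P.cons (P.lf 0 767648 0) (P.cons (P.lf 0 152212 0) (P.cons (P.lf 0 10175 0) P.nil))) (P.cons (P.cons (P.lf 0 30425 0) (P.cons (P.lf 7792 0 0) P.nil)) (P.cons (P.cons (P.lf 3237 0 0) P.nil) P.nil)))))) 6805)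
 (EL.cons 7 (TM.mk (P.cons (P.cons (P.lf 0 213063790 0) (P.cons (P.lf 70182681 0 0) (P.cons (P.lf 4692250 0 0) (P.lf 0 1564082 0)))) (P.cons (P.cons (P.lf 0 51855868 0) (P.cons (P.lf 0 18354315 0) (P.cons (P.lf 0 1227125 0) (P.lf 409041 0 0)))) (P.cons (P.cons (P.lf 2396426 0 0) (P.cons (P.lf 1630937 0 0) (P.cons (P.lf 109040 0 0) (P.lf 0 36345 0)))) (P.cons (P.cons (P.lf 492536 0 0) (P.cons (P.lf 0 24926 0) (P.cons (P.lf 0 1666 0) P.nil))) (P.cons (P.cons (P.lf 0 27982 0) (P.cons (P.lf 0 5095 0) P.nil)) (P.cons (P.cons (P.lf 0 757 0) P.nil) P.nil)))))) 3509)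
 EL.nil))
noncomputable def S357_372_364_512_11 : EL := (EL.cons 3 (TM.mk (P.cons (P.cons (P.lf 68416597 0 0) (P.cons (P.lf 0 45072512 0) (P.cons (P.lf 4409942 0 0) (P.cons (P.lf 1997100 0 0) (P.cons (P.lf 0 297690 0) (P.cons (P.lf 0 22120 0) P.nil)))))) (P.cons (P.cons (P.lf 45243838 0 0) (P.cons (P.lf 0 7049126 0) (P.cons (P.lf 0 3058402 0) (P.cons (P.lf 0 188839 0) (P.cons (P.lf 103746 0 0) P.nil))))) (P.cons (P.cons (P.lf 9541643 0 0) (P.cons (P.lf 1670307 0 0) (P.cons (P.lf 418611 0 0) (P.cons (P.lf 3816 0 0) P.nil)))) (P.cons (P.cons (P.lf 447290 0 0) (P.cons (P.lf 82602 0 0) (P.cons (P.lf 1563 0 0) P.nil))) (P.cons (P.cons (P.lf 0 65224 0) (P.cons (P.lf 0 23876 0) P.nil)) (P.cons (P.cons (P.lf 0 3846 0) P.nil) P.nil)))))) 73645)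
 (EL.cons 7 (TM.mk (P.cons (P.cons (P.lf 0 33381130 0) (P.cons (P.lf 21991322 0 0) (P.cons (P.lf 0 2151654 0) (P.cons (P.lf 0 974405 0) (P.cons (P.lf 145246 0 0) (P.cons (P.lf 10793 0 0) P.nil)))))) (P.cons (P.cons (P.lf 0 18431200 0) (P.cons (P.lf 1038878 0 0) (P.cons (P.lf 1727088 0 0) (P.cons (P.lf 198497 0 0) (P.cons (P.lf 0 66473 0) P.nil))))) (P.cons (P.cons (P.lf 0 2451562 0) (P.cons (P.lf 0 1054875 0) (P.cons (P.lf 0 380386 0) (P.cons (P.lf 0 17923 0) P.nil)))) (P.cons (P.cons (P.lf 168126 0 0) (P.cons (P.lf 60479 0 0) (P.cons (P.lf 31642 0 0) P.nil))) (P.cons (P.cons (P.lf 35379 0 0) (P.cons (P.lf 10209 0 0) P.nil)) (P.cons (P.cons (P.lf 0 1540 0) P.nil) P.nil)))))) 38023)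
 EL.nil))
noncomputable def S357_372_364_512_12 : EL := (EL.cons 4 (TM.mk (P.cons (P.lf 0 2787267765 0) (P.cons (P.lf 0 122010892 0) (P.cons (P.lf 5535056 0 0) (P.cons (P.lf 0 33412 0) (P.cons (P.lf 0 4001 0) (P.cons (P.lf 127 0 0) P.nil)))))) 67)
 (EL.cons 8 (TM.mk (P.cons (P.lf 1359935332 0 0) (P.cons (P.lf 0 88913255 0) (P.cons (P.lf 0 819082 0) (P.cons (P.lf 98665 0 0) (P.cons (P.lf 0 1783 0) (P.cons (P.lf 0 41 0) P.nil)))))) 48)
 EL.nil))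
noncomputable def S357_372_364_512_13 : EL := (EL.cons 4 (TM.mk (P.cons (P.cons (P.lf 0 436686819 0) (P.cons (P.lf 143843549 0 0) (P.cons (P.lf 9617043 0 0) (P.lf 0 3205679 0)))) (P.cons (P.cons (P.lf 0 153948158 0) (P.cons (P.lf 0 21917029 0) (P.cons (P.lf 0 1465319 0) (P.lf 488438 0 0)))) (P.cons (P.cons (P.lf 0 9201827 0) (P.cons (P.lf 64027 0 0) (P.cons (P.lf 4279 0 0) (P.lf 0 1424 0)))) (P.cons (P.cons (P.lf 767648 0 0) (P.cons (P.lf 152212 0 0) (P.cons (P.lf 10175 0 0) P.nil))) (P.cons (P.cons (P.lf 30425 0 0) (P.cons (P.lf 0 7792 0) P.nil)) (P.cons (P.cons (P.lf 0 3237 0) P.nil) P.nil)))))) 6805)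
 (EL.cons 8 (TM.mk (P.cons (P.cons (P.lf 213063790 0 0) (P.cons (P.lf 0 70182681 0) (P.cons (P.lf 0 4692250 0) (P.lf 1564082 0 0)))) (P.cons (P.cons (P.lf 51855868 0 0) (P.cons (P.lf 18354315 0 0) (P.cons (P.lf 1227125 0 0) (P.lf 0 409041 0)))) (P.cons (P.cons (P.lf 0 2396426 0) (P.cons (P.lf 0 1630937 0) (P.cons (P.lf 0 109040 0) (P.lf 36345 0 0)))) (P.cons (P.cons (P.lf 0 492536 0) (P.cons (P.lf 24926 0 0) (P.cons (P.lf 1666 0 0) P.nil))) (P.cons (P.cons (P.lf 27982 0 0) (P.cons (P.lf 5095 0 0) P.nil)) (P.cons (P.cons (P.lf 757 0 0) P.nil) P.nil)))))) 3509)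
 EL.nil))
noncomputable def S357_372_364_512_14 : EL := (EL.cons 4 (TM.mk (P.cons (P.cons (P.lf 0 68416597 0) (P.cons (P.lf 45072512 0 0) (P.cons (P.lf 0 4409942 0) (P.cons (P.lf 0 1997100 0) (P.cons (P.lf 297690 0 0) (P.cons (P.lf 22120 0 0) P.nil)))))) (P.cons (P.cons (P.lf 0 45243838 0) (P.cons (P.lf 7049126 0 0) (P.cons (P.lf 3058402 0 0) (P.cons (P.lf 188839 0 0) (P.cons (P.lf 0 103746 0) P.nil))))) (P.cons (P.cons (P.lf 0 9541643 0) (P.cons (P.lf 0 1670307 0) (P.cons (P.lf 0 418611 0) (P.cons (P.lf 0 3816 0) P.nil)))) (P.cons (P.cons (P.lf 0 447290 0) (P.cons (P.lf 0 82602 0) (P.cons (P.lf 0 1563 0) P.nil))) (P.cons (P.cons (P.lf 65224 0 0) (P.cons (P.lf 23876 0 0) P.nil)) (P.cons (P.cons (P.lf 3846 0 0) P.nil) P.nil)))))) 73645)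
 (EL.cons 8 (TM.mk (P.cons (P.cons (P.lf 33381130 0 0) (P.cons (P.lf 0 21991322 0) (P.cons (P.lf 2151654 0 0) (P.cons (P.lf 974405 0 0) (P.cons (P.lf 0 145246 0) (P.cons (P.lf 0 10793 0) P.nil)))))) (P.cons (P.cons (P.lf 18431200 0 0) (P.cons (P.lf 0 1038878 0) (P.cons (P.lf 0 1727088 0) (P.cons (P.lf 0 198497 0) (P.cons (P.lf 66473 0 0) P.nil))))) (P.cons (P.cons (P.lf 2451562 0 0) (P.cons (P.lf 1054875 0 0) (P.cons (P.lf 380386 0 0) (P.cons (P.lf 17923 0 0) P.nil)))) (P.cons (P.cons (P.lf 0 168126 0) (P.cons (P.lf 0 60479 0) (P.cons (P.lf 0 31642 0) P.nil))) (P.cons (P.cons (P.lf 0 35379 0) (P.cons (P.lf 0 10209 0) P.nil)) (P.cons (P.cons (P.lf 1540 0 0) P.nil) P.nil)))))) 38023)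
 EL.nil))
noncomputable def S357_372_364_512_15 : EL := (EL.cons 4 (TM.mk (P.cons (P.lf 0 1929417647 0) (P.cons (P.lf 0 168918086 0) (P.cons (P.lf 3965871 0 0) (P.cons (P.lf 289185 0 0) (P.cons (P.lf 0 15172 0) (P.cons (P.lf 25 0 0) P.nil)))))) 119)
 (EL.cons 8 (TM.mk (P.cons (P.lf 941381830 0 0) (P.cons (P.lf 0 20339619 0) (P.cons (P.lf 0 5130644 0) (P.cons (P.lf 176987 0 0) (P.cons (P.lf 3495 0 0) (P.cons (P.lf 0 356 0) P.nil)))))) 71)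
 EL.nil))
noncomputable def S357_372_364_512_16 : EL := (EL.cons 4 (TM.mk (P.cons (P.cons (P.lf 0 302285724 0) (P.cons (P.lf 99572163 0 0) (P.cons (P.lf 6657162 0 0) (P.lf 0 2219052 0)))) (P.cons (P.cons (P.lf 0 119799198 0) (P.cons (P.lf 0 10812816 0) (P.cons (P.lf 0 722917 0) (P.lf 240972 0 0)))) (P.cons (P.cons (P.lf 0 10434345 0) (P.cons (P.lf 0 817535 0) (P.cons (P.lf 0 54658 0) (P.lf 18221 0 0)))) (P.cons (P.cons (P.lf 460554 0 0) (P.cons (P.lf 138627 0 0) (P.cons (P.lf 9267 0 0) P.nil))) (P.cons (P.cons (P.lf 55260 0 0) (P.cons (P.lf 0 908 0) P.nil)) (P.cons (P.cons (P.lf 0 2589 0) P.nil) P.nil)))))) 7198)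
 (EL.cons 8 (TM.mk (P.cons (P.cons (P.lf 147488175 0 0) (P.cons (P.lf 0 48582237 0) (P.cons (P.lf 0 3248094 0) (P.lf 1082697 0 0)))) (P.cons (P.cons (P.lf 42352153 0 0) (P.cons (P.lf 10578667 0 0) (P.cons (P.lf 707264 0 0) (P.lf 0 235754 0)))) (P.cons (P.cons (P.lf 0 380432 0) (P.cons (P.lf 0 476332 0) (P.cons (P.lf 0 31846 0) (P.lf 10614 0 0)))) (P.cons (P.cons (P.lf 0 483077 0) (P.cons (P.lf 0 57978 0) (P.cons (P.lf 0 3875 0) P.nil))) (P.cons (P.cons (P.lf 8382 0 0) (P.cons (P.lf 6606 0 0) P.nil)) (P.cons (P.cons (P.lf 2074 0 0) P.nil) P.nil)))))) 3289)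
 EL.nil))
noncomputable def S357_372_364_512_17 : EL := (EL.cons 4 (TM.mk (P.cons (P.cons (P.lf 0 47359709 0) (P.cons (P.lf 31200339 0 0) (P.cons (P.lf 0 3052674 0) (P.cons (P.lf 0 1382443 0) (P.cons (P.lf 206069 0 0) (P.cons (P.lf 15312 0 0) P.nil)))))) (P.cons (P.cons (P.lf 0 33392076 0) (P.cons (P.lf 6245359 0 0) (P.cons (P.lf 1983475 0 0) (P.cons (P.lf 70203 0 0) (P.cons (P.lf 0 62795 0) P.nil))))) (P.cons (P.cons (P.lf 0 7881885 0) (P.cons (P.lf 0 1004587 0) (P.cons (P.lf 0 191036 0) (P.cons (P.lf 5824 0 0) P.nil)))) (P.cons (P.cons (P.lf 0 537127 0) (P.cons (P.lf 0 117108 0) (P.cons (P.lf 0 18008 0) P.nil))) (P.cons (P.cons (P.lf 44269 0 0) (P.cons (P.lf 16424 0 0) P.nil)) (P.cons (P.cons (P.lf 5131 0 0) P.nil) P.nil)))))) 60146)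
 (EL.cons 8 (TM.mk (P.cons (P.cons (P.lf 23107267 0 0) (P.cons (P.lf 0 15222952 0) (P.cons (P.lf 1489429 0 0) (P.cons (P.lf 674507 0 0) (P.cons (P.lf 0 100542 0) (P.cons (P.lf 0 7470 0) P.nil)))))) (P.cons (P.cons (P.lf 13770051 0 0) (P.cons (P.lf 0 1385512 0) (P.cons (P.lf 0 1130335 0) (P.cons (P.lf 0 107879 0) (P.cons (P.lf 41613 0 0) P.nil))))) (P.cons (P.cons (P.lf 2209644 0 0) (P.cons (P.lf 728961 0 0) (P.cons (P.lf 208021 0 0) (P.cons (P.lf 5052 0 0) P.nil)))) (P.cons (P.cons (P.lf 0 67154 0) (P.cons (P.lf 0 8655 0) (P.cons (P.lf 0 7985 0) P.nil))) (P.cons (P.cons (P.lf 0 32768 0) (P.cons (P.lf 0 10380 0) P.nil)) (P.cons (P.cons (P.lf 263 0 0) P.nil) P.nil)))))) 30509)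
 EL.nil))
noncomputable def S357_372_364_512_18 : EL := (EL.cons 4 (TM.mk (P.cons (P.lf 0 1335591975 0) (P.cons (P.lf 0 175394094 0) (P.cons (P.lf 279032 0 0) (P.cons (P.lf 536545 0 0) (P.cons (P.lf 0 10510 0) (P.cons (P.lf 0 913 0) P.nil)))))) 159)
 (EL.cons 8 (TM.mk (P.cons (P.lf 651648449 0 0) (P.cons (P.lf 14445898 0 0) (P.cons (P.lf 0 5461955 0) (P.cons (P.lf 2819 0 0) (P.cons (P.lf 15601 0 0) (P.cons (P.lf 0 476 0) P.nil)))))) 87)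
 EL.nil))
noncomputable def S357_372_364_512_19 : EL := (EL.cons 4 (TM.mk (P.cons (P.cons (P.lf 0 209249867 0) (P.cons (P.lf 68926384 0 0) (P.cons (P.lf 4608256 0 0) (P.lf 0 1536084 0)))) (P.cons (P.cons (P.lf 0 92087834 0) (P.cons (P.lf 0 4467697 0) (P.cons (P.lf 0 298698 0) (P.lf 99565 0 0)))) (P.cons (P.cons (P.lf 0 10437506 0) (P.cons (P.lf 0 1030442 0) (P.cons (P.lf 0 68893 0) (P.lf 22965 0 0)))) (P.cons (P.cons (P.lf 164801 0 0) (P.cons (P.lf 86879 0 0) (P.cons (P.lf 5807 0 0) P.nil))) (P.cons (P.cons (P.lf 65256 0 0) (P.cons (P.lf 4704 0 0) P.nil)) (P.cons (P.cons (P.lf 0 946 0) P.nil) P.nil)))))) 6372)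
 (EL.cons 8 (TM.mk (P.cons (P.cons (P.lf 102095066 0 0) (P.cons (P.lf 0 33629860 0) (P.cons (P.lf 0 2248413 0) (P.lf 749470 0 0)))) (P.cons (P.cons (P.lf 33786385 0 0) (P.cons (P.lf 5850696 0 0) (P.cons (P.lf 391163 0 0) (P.lf 0 130387 0)))) (P.cons (P.cons (P.lf 817254 0 0) (P.cons (P.lf 57605 0 0) (P.cons (P.lf 3851 0 0) (P.lf 0 1284 0)))) (P.cons (P.cons (P.lf 0 402921 0) (P.cons (P.lf 0 69512 0) (P.cons (P.lf 0 4647 0) P.nil))) (P.cons (P.cons (P.lf 0 7814 0) (P.cons (P.lf 3510 0 0) P.nil)) (P.cons (P.cons (P.lf 2388 0 0) P.nil) P.nil)))))) 3533)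
 EL.nil))
noncomputable def S357_372_364_512_20 : EL := (EL.cons 4 (TM.mk (P.cons (P.cons (P.lf 0 32783595 0) (P.cons (P.lf 21597668 0 0) (P.cons (P.lf 0 2113139 0) (P.cons (P.lf 0 956962 0) (P.cons (P.lf 142646 0 0) (P.cons (P.lf 10599 0 0) P.nil)))))) (P.cons (P.cons (P.lf 0 24549926 0) (P.cons (P.lf 5268621 0 0) (P.cons (P.lf 1280510 0 0) (P.cons (P.lf 6705 0 0) (P.cons (P.lf 0 37224 0) P.nil))))) (P.cons (P.cons (P.lf 0 6402777 0) (P.cons (P.lf 0 549045 0) (P.cons (P.lf 0 67940 0) (P.cons (P.lf 8059 0 0) P.nil)))) (P.cons (P.cons (P.lf 0 565139 0) (P.cons (P.lf 0 119832 0) (P.cons (P.lf 0 21006 0) P.nil))) (P.cons (P.cons (P.lf 24879 0 0) (P.cons (P.lf 9284 0 0) P.nil)) (P.cons (P.cons (P.lf 5535 0 0) P.nil) P.nil)))))) 47064)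
 (EL.cons 8 (TM.mk (P.cons (P.cons (P.lf 15995438 0 0) (P.cons (P.lf 0 10537714 0) (P.cons (P.lf 1031021 0 0) (P.cons (P.lf 466911 0 0) (P.cons (P.lf 0 69598 0) (P.cons (P.lf 0 5171 0) P.nil)))))) (P.cons (P.cons (P.lf 10232170 0 0) (P.cons (P.lf 0 1420369 0) (P.cons (P.lf 0 737314 0) (P.cons (P.lf 0 54237 0) (P.cons (P.lf 25759 0 0) P.nil))))) (P.cons (P.cons (P.lf 1915063 0 0) (P.cons (P.lf 483548 0 0) (P.cons (P.lf 107699 0 0) (P.cons (P.lf 0 698 0) P.nil)))) (P.cons (P.cons (P.lf 1732 0 0) (P.cons (P.lf 17875 0 0) (P.cons (P.lf 2342 0 0) P.nil))) (P.cons (P.cons (P.lf 0 27618 0) (P.cons (P.lf 0 8476 0) P.nil)) (P.cons (P.cons (P.lf 0 687 0) P.nil) P.nil)))))) 24701)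
 EL.nil))
noncomputable def S357_372_364_512_21 : EL := (EL.cons 4 (TM.mk (P.cons (P.cons (P.lf 0 2062273386 0) (P.cons (P.lf 0 431530647 0) (P.cons (P.lf 0 28851129 0) (P.lf 9617037 0 0)))) (P.cons (P.cons (P.lf 0 44909784 0) (P.cons (P.lf 65751087 0 0) (P.cons (P.lf 4395957 0 0) (P.lf 0 1465314 0)))) (P.cons (P.cons (P.lf 39503097 0 0) (P.cons (P.lf 0 192081 0) (P.cons (P.lf 0 12837 0) (P.lf 4272 0 0)))) (P.cons (P.cons (P.lf 0 1435392 0) (P.cons (P.lf 0 456636 0) (P.cons (P.lf 0 30525 0) P.nil))) (P.cons (P.cons (P.lf 0 136791 0) (P.cons (P.lf 23376 0 0) P.nil)) (P.cons (P.cons (P.lf 9789 0 0) P.nil) P.nil)))))) 20766)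
 (EL.cons 8 (TM.mk (P.cons (P.cons (P.lf 0 1502844822 0) (P.cons (P.lf 0 314470248 0) (P.cons (P.lf 0 21024750 0) (P.lf 7008252 0 0)))) (P.cons (P.cons (P.lf 0 196770030 0) (P.cons (P.lf 13588974 0 0) (P.cons (P.lf 908532 0 0) (P.lf 0 302844 0)))) (P.cons (P.cons (P.lf 16568901 0 0) (P.cons (P.lf 3280998 0 0) (P.cons (P.lf 219360 0 0) (P.lf 0 73116 0)))) (P.cons (P.cons (P.lf 1334892 0 0) (P.cons (P.lf 0 192306 0) (P.cons (P.lf 0 12855 0) P.nil))) (P.cons (P.cons (P.lf 0 95625 0) (P.cons (P.lf 0 9120 0) P.nil)) (P.cons (P.cons (P.lf 0 1725 0) P.nil) P.nil)))))) 14049)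
 (EL.cons 11 (TM.mk (P.cons (P.cons (P.lf 1198206075 0 0) (P.cons (P.lf 185512389 0 0) (P.cons (P.lf 0 89374017 0) (P.cons (P.lf 0 3382173 0) (P.lf 845541 0 0))))) (P.cons (P.cons (P.lf 0 156678627 0) (P.cons (P.lf 0 24257784 0) (P.cons (P.lf 11686635 0 0) (P.cons (P.lf 442254 0 0) (P.lf 0 110562 0))))) (P.cons (P.cons (P.lf 3678513 0 0) (P.cons (P.lf 569526 0 0) (P.cons (P.lf 0 274377 0) (P.cons (P.lf 0 10383 0) P.nil)))) (P.cons (P.cons (P.lf 268227 0 0) (P.cons (P.lf 41526 0 0) (P.cons (P.lf 0 20007 0) P.nil))) (P.cons (P.cons (P.lf 0 14070 0) (P.cons (P.lf 0 2178 0) P.nil)) (P.cons (P.cons (P.lf 27 0 0) P.nil) P.nil)))))) 4899)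
 EL.nil)))
noncomputable def S357_372_364_512_22 : EL := (EL.cons 4 (TM.mk (P.cons (P.cons (P.lf 0 323100498 0) (P.cons (P.lf 38819727 0 0) (P.cons (P.lf 24865557 0 0) (P.cons (P.lf 2112729 0 0) (P.cons (P.lf 0 893073 0) (P.cons (P.lf 0 66363 0) P.nil)))))) (P.cons (P.cons (P.lf 0 106797387 0) (P.cons (P.lf 0 29131059 0) (P.cons (P.lf 0 9708975 0) (P.cons (P.lf 0 388596 0) (P.cons (P.lf 311241 0 0) P.nil))))) (P.cons (P.cons (P.lf 933558 0 0) (P.cons (P.lf 1184733 0 0) (P.cons (P.lf 1000023 0 0) (P.cons (P.lf 96723 0 0) P.nil)))) (P.cons (P.cons (P.lf 2127609 0 0) (P.cons (P.lf 641943 0 0) (P.cons (P.lf 31041 0 0) P.nil))) (P.cons (P.cons (P.lf 0 24951 0) (P.cons (P.lf 0 69492 0) P.nil)) (P.cons (P.cons (P.lf 0 18099 0) P.nil) P.nil)))))) 146211)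
 (EL.cons 8 (TM.mk (P.cons (P.cons (P.lf 0 235453704 0) (P.cons (P.lf 28289178 0 0) (P.cons (P.lf 18120327 0 0) (P.cons (P.lf 1539615 0 0) (P.cons (P.lf 0 650811 0) (P.cons (P.lf 0 48360 0) P.nil)))))) (P.cons (P.cons (P.lf 0 103527603 0) (P.cons (P.lf 0 18140838 0) (P.cons (P.lf 0 5097318 0) (P.cons (P.lf 0 115128 0) (P.cons (P.lf 155772 0 0) P.nil))))) (P.cons (P.cons (P.lf 0 9169422 0) (P.cons (P.lf 0 1291116 0) (P.cons (P.lf 60699 0 0) (P.cons (P.lf 48432 0 0) P.nil)))) (P.cons (P.cons (P.lf 1087191 0 0) (P.cons (P.lf 450699 0 0) (P.cons (P.lf 68373 0 0) P.nil))) (P.cons (P.cons (P.lf 119823 0 0) (P.cons (P.lf 0 2049 0) P.nil)) (P.cons (P.cons (P.lf 0 8142 0) P.nil) P.nil)))))) 91779)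
 (EL.cons 11 (TM.mk (P.cons (P.cons (P.lf 187725342 0 0) (P.cons (P.lf 0 32771661 0) (P.cons (P.lf 0 27710439 0) (P.cons (P.lf 4820457 0 0) (P.cons (P.lf 828747 0 0) (P.cons (P.lf 0 134754 0) P.nil)))))) (P.cons (P.cons (P.lf 33415371 0 0) (P.cons (P.lf 25387965 0 0) (P.cons (P.lf 1988739 0 0) (P.cons (P.lf 0 1843362 0) (P.cons (P.lf 0 204033 0) P.nil))))) (P.cons (P.cons (P.lf 0 5211666 0) (P.cons (P.lf 0 3263934 0) (P.cons (P.lf 0 155943 0) (P.cons (P.lf 227301 0 0) P.nil)))) (P.cons (P.cons (P.lf 0 309813 0) (P.cons (P.lf 53718 0 0) (P.cons (P.lf 45651 0 0) P.nil))) (P.cons (P.cons (P.lf 57366 0 0) (P.cons (P.lf 14052 0 0) P.nil)) (P.cons (P.cons (P.lf 0 900 0) P.nil) P.nil)))))) 135282)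
 EL.nil)))
noncomputable def S357_372_364_512_23 : EL := (EL.cons 4 (TM.mk (P.cons (P.cons (P.lf 0 1427558097 0) (P.cons (P.lf 0 298716489 0) (P.cons (P.lf 0 19971483 0) (P.lf 6657156 0 0)))) (P.cons (P.cons (P.lf 0 93578151 0) (P.cons (P.lf 32438448 0 0) (P.cons (P.lf 2168754 0 0) (P.lf 0 722913 0)))) (P.cons (P.cons (P.lf 28819098 0 0) (P.cons (P.lf 2452608 0 0) (P.cons (P.lf 163977 0 0) (P.lf 0 54663 0)))) (P.cons (P.cons (P.lf 248019 0 0) (P.cons (P.lf 0 415878 0) (P.cons (P.lf 0 27801 0) P.nil))) (P.cons (P.cons (P.lf 0 194907 0) (P.cons (P.lf 2724 0 0) P.nil)) (P.cons (P.cons (P.lf 4950 0 0) P.nil) P.nil)))))) 20448)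
 (EL.cons 8 (TM.mk (P.cons (P.cons (P.lf 0 1040307414 0) (P.cons (P.lf 0 217684305 0) (P.cons (P.lf 0 14553864 0) (P.lf 4851288 0 0)))) (P.cons (P.cons (P.lf 0 181748022 0) (P.cons (P.lf 0 122358 0) (P.cons (P.lf 0 8175 0) (P.lf 2724 0 0)))) (P.cons (P.cons (P.lf 7572819 0 0) (P.cons (P.lf 3115245 0 0) (P.cons (P.lf 208278 0 0) (P.lf 0 69423 0)))) (P.cons (P.cons (P.lf 1684131 0 0) (P.cons (P.lf 0 54987 0) (P.cons (P.lf 0 3672 0) P.nil))) (P.cons (P.cons (P.lf 0 51645 0) (P.cons (P.lf 0 16848 0) P.nil)) (P.cons (P.cons (P.lf 0 5937 0) P.nil) P.nil)))))) 14631)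
 (EL.cons 11 (TM.mk (P.cons (P.cons (P.lf 829428723 0 0) (P.cons (P.lf 128416392 0 0) (P.cons (P.lf 0 61866966 0) (P.cons (P.lf 0 2341224 0) (P.lf 585303 0 0))))) (P.cons (P.cons (P.lf 0 72149208 0) (P.cons (P.lf 0 11170506 0) (P.cons (P.lf 5381598 0 0) (P.cons (P.lf 203652 0 0) (P.lf 0 50910 0))))) (P.cons (P.cons (P.lf 0 3848382 0) (P.cons (P.lf 0 595824 0) (P.cons (P.lf 287052 0 0) (P.cons (P.lf 10860 0 0) P.nil)))) (P.cons (P.cons (P.lf 522459 0 0) (P.cons (P.lf 80886 0 0) (P.cons (P.lf 0 38970 0) P.nil))) (P.cons (P.cons (P.lf 0 6777 0) (P.cons (P.lf 0 1047 0) P.nil)) (P.cons (P.cons (P.lf 0 939 0) P.nil) P.nil)))))) 10686)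
 EL.nil)))
noncomputable def S357_372_364_512_24 : EL := (EL.cons 4 (TM.mk (P.cons (P.cons (P.lf 0 223658382 0) (P.cons (P.lf 26872002 0 0) (P.cons (P.lf 17212569 0 0) (P.cons (P.lf 1462485 0 0) (P.cons (P.lf 0 618207 0) (P.cons (P.lf 0 45939 0) P.nil)))))) (P.cons (P.cons (P.lf 0 83718372 0) (P.cons (P.lf 0 18988956 0) (P.cons (P.lf 0 5967330 0) (P.cons (P.lf 0 204978 0) (P.cons (P.lf 188388 0 0) P.nil))))) (P.cons (P.cons (P.lf 0 2145762 0) (P.cons (P.lf 0 115980 0) (P.cons (P.lf 363861 0 0) (P.cons (P.lf 52275 0 0) P.nil)))) (P.cons (P.cons (P.lf 1645200 0 0) (P.cons (P.lf 520635 0 0) (P.cons (P.lf 65343 0 0) P.nil))) (P.cons (P.cons (P.lf 44706 0 0) (P.cons (P.lf 0 30483 0) P.nil)) (P.cons (P.cons (P.lf 0 16296 0) P.nil) P.nil)))))) 88605)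
 (EL.cons 8 (TM.mk (P.cons (P.cons (P.lf 0 162987042 0) (P.cons (P.lf 19582488 0 0) (P.cons (P.lf 12543351 0 0) (P.cons (P.lf 1065759 0 0) (P.cons (P.lf 0 450507 0) (P.cons (P.lf 0 33477 0) P.nil)))))) (P.cons (P.cons (P.lf 0 78799095 0) (P.cons (P.lf 0 11700336 0) (P.cons (P.lf 0 2979417 0) (P.cons (P.lf 0 33042 0) (P.cons (P.lf 88110 0 0) P.nil))))) (P.cons (P.cons (P.lf 0 9160707 0) (P.cons (P.lf 0 1482330 0) (P.cons (P.lf 0 137346 0) (P.cons (P.lf 27921 0 0) P.nil)))) (P.cons (P.cons (P.lf 615093 0 0) (P.cons (P.lf 298035 0 0) (P.cons (P.lf 56325 0 0) P.nil))) (P.cons (P.cons (P.lf 127401 0 0) (P.cons (P.lf 13890 0 0) P.nil)) (P.cons (P.cons (P.lf 0 3672 0) P.nil) P.nil)))))) 55071)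
 (EL.cons 11 (TM.mk (P.cons (P.cons (P.lf 129948258 0 0) (P.cons (P.lf 0 22685376 0) (P.cons (P.lf 0 19181871 0) (P.cons (P.lf 3336843 0 0) (P.cons (P.lf 573681 0 0) (P.cons (P.lf 0 93282 0) P.nil)))))) (P.cons (P.cons (P.lf 28819374 0 0) (P.cons (P.lf 16581156 0 0) (P.cons (P.lf 536982 0 0) (P.cons (P.lf 0 1129953 0) (P.cons (P.lf 0 116124 0) P.nil))))) (P.cons (P.cons (P.lf 0 2853159 0) (P.cons (P.lf 0 1445028 0) (P.cons (P.lf 0 9594 0) (P.cons (P.lf 94860 0 0) P.nil)))) (P.cons (P.cons (P.lf 0 416760 0) (P.cons (P.lf 0 96888 0) (P.cons (P.lf 23910 0 0) P.nil))) (P.cons (P.cons (P.lf 37950 0 0) (P.cons (P.lf 16020 0 0) P.nil)) (P.cons (P.cons (P.lf 1521 0 0) P.nil) P.nil)))))) 81708)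
 EL.nil)))
noncomputable def S357_372_364_512_25 : EL := (EL.cons 4 (TM.mk (P.cons (P.cons (P.lf 0 988192026 0) (P.cons (P.lf 0 206779152 0) (P.cons (P.lf 0 13824768 0) (P.lf 4608252 0 0)))) (P.cons (P.cons (P.lf 0 108034659 0) (P.cons (P.lf 13403091 0 0) (P.cons (P.lf 896094 0 0) (P.lf 0 298695 0)))) (P.cons (P.cons (P.lf 19076121 0 0) (P.cons (P.lf 3091329 0 0) (P.cons (P.lf 206679 0 0) (P.lf 0 68895 0)))) (P.cons (P.cons (P.lf 1161744 0 0) (P.cons (P.lf 0 260634 0) (P.cons (P.lf 0 17421 0) P.nil))) (P.cons (P.cons (P.lf 0 169215 0) (P.cons (P.lf 0 14112 0) P.nil)) (P.cons (P.cons (P.lf 0 2625 0) P.nil) P.nil)))))) 17787)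
 (EL.cons 8 (TM.mk (P.cons (P.cons (P.lf 0 720127254 0) (P.cons (P.lf 0 150686613 0) (P.cons (P.lf 0 10074555 0) (P.lf 3358185 0 0)))) (P.cons (P.cons (P.lf 0 157333719 0) (P.cons (P.lf 0 6680910 0) (P.cons (P.lf 0 446667 0) (P.lf 148887 0 0)))) (P.cons (P.cons (P.lf 1164873 0 0) (P.cons (P.lf 2451981 0 0) (P.cons (P.lf 163932 0 0) (P.lf 0 54642 0)))) (P.cons (P.cons (P.lf 1636473 0 0) (P.cons (P.lf 54693 0 0) (P.cons (P.lf 3657 0 0) P.nil))) (P.cons (P.cons (P.lf 2328 0 0) (P.cons (P.lf 0 17829 0) P.nil)) (P.cons (P.cons (P.lf 0 8073 0) P.nil) P.nil)))))) 13617)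
 (EL.cons 11 (TM.mk (P.cons (P.cons (P.lf 574151661 0 0) (P.cons (P.lf 88893093 0 0) (P.cons (P.lf 0 42825888 0) (P.cons (P.lf 0 1620654 0) (P.lf 405162 0 0))))) (P.cons (P.cons (P.lf 0 24810390 0) (P.cons (P.lf 0 3841269 0) (P.cons (P.lf 1850601 0 0) (P.cons (P.lf 70029 0 0) (P.lf 0 17505 0))))) (P.cons (P.cons (P.lf 0 5990364 0) (P.cons (P.lf 0 927459 0) (P.cons (P.lf 446820 0 0) (P.cons (P.lf 16908 0 0) P.nil)))) (P.cons (P.cons (P.lf 351108 0 0) (P.cons (P.lf 54357 0 0) (P.cons (P.lf 0 26187 0) P.nil))) (P.cons (P.cons (P.lf 16653 0 0) (P.cons (P.lf 2577 0 0) P.nil)) (P.cons (P.cons (P.lf 0 1701 0) P.nil) P.nil)))))) 12186)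
 EL.nil)))
noncomputable def S357_372_364_512_26 : EL := (EL.cons 4 (TM.mk (P.cons (P.cons (P.lf 0 154822020 0) (P.cons (P.lf 18601482 0 0) (P.cons (P.lf 11914977 0 0) (P.cons (P.lf 1012368 0 0) (P.cons (P.lf 0 427938 0) (P.cons (P.lf 0 31800 0) P.nil)))))) (P.cons (P.cons (P.lf 0 64729224 0) (P.cons (P.lf 0 12330369 0) (P.cons (P.lf 0 3609165 0) (P.cons (P.lf 0 97575 0) (P.cons (P.lf 111672 0 0) P.nil))))) (P.cons (P.cons (P.lf 0 3714711 0) (P.cons (P.lf 0 692622 0) (P.cons (P.lf 47391 0 0) (P.cons (P.lf 27963 0 0) P.nil)))) (P.cons (P.cons (P.lf 1187055 0 0) (P.cons (P.lf 383208 0 0) (P.cons (P.lf 64602 0 0) P.nil))) (P.cons (P.cons (P.lf 82830 0 0) (P.cons (P.lf 0 5295 0) P.nil)) (P.cons (P.cons (P.lf 0 12282 0) P.nil) P.nil)))))) 68187)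
 (EL.cons 8 (TM.mk (P.cons (P.cons (P.lf 0 112823778 0) (P.cons (P.lf 13555497 0 0) (P.cons (P.lf 8682825 0 0) (P.cons (P.lf 737745 0 0) (P.cons (P.lf 0 311853 0) (P.cons (P.lf 0 23172 0) P.nil)))))) (P.cons (P.cons (P.lf 0 59485527 0) (P.cons (P.lf 0 7505886 0) (P.cons (P.lf 0 1682340 0) (P.cons (P.lf 9420 0 0) (P.cons (P.lf 47340 0 0) P.nil))))) (P.cons (P.cons (P.lf 0 8504973 0) (P.cons (P.lf 0 1407564 0) (P.cons (P.lf 0 202599 0) (P.cons (P.lf 16860 0 0) P.nil)))) (P.cons (P.cons (P.lf 255165 0 0) (P.cons (P.lf 177636 0 0) (P.cons (P.lf 39027 0 0) P.nil))) (P.cons (P.cons (P.lf 118605 0 0) (P.cons (P.lf 20604 0 0) P.nil)) (P.cons (P.cons (P.lf 321 0 0) P.nil) P.nil)))))) 43638)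
 (EL.cons 11 (TM.mk (P.cons (P.cons (P.lf 89953488 0 0) (P.cons (P.lf 0 15703395 0) (P.cons (P.lf 0 13278177 0) (P.cons (P.lf 2309847 0 0) (P.cons (P.lf 397116 0 0) (P.cons (P.lf 0 64572 0) P.nil)))))) (P.cons (P.cons (P.lf 23887161 0 0) (P.cons (P.lf 10790493 0 0) (P.cons (P.lf 0 209529 0) (P.cons (P.lf 0 681069 0) (P.cons (P.lf 0 63000 0) P.nil))))) (P.cons (P.cons (P.lf 0 1280385 0) (P.cons (P.lf 0 466665 0) (P.cons (P.lf 35997 0 0) (P.cons (P.lf 26838 0 0) P.nil)))) (P.cons (P.cons (P.lf 0 413484 0) (P.cons (P.lf 0 133836 0) (P.cons (P.lf 15363 0 0) P.nil))) (P.cons (P.cons (P.lf 17931 0 0) (P.cons (P.lf 10254 0 0) P.nil)) (P.cons (P.cons (P.lf 2778 0 0) P.nil) P.nil)))))) 62328)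
 EL.nil)))
noncomputable def S357_372_364_512_27 : EL := (EL.cons 13 (TM.mk (P.lf 0 4294967296 0) 0)
 EL.nil)
noncomputable def S357_372_364_512_28 : EL := (EL.cons 13 (TM.mk (P.cons (P.cons (P.lf 0 672901123 0) (P.cons (P.lf 221651952 0 0) (P.cons (P.lf 14819132 0 0) (P.lf 0 4939708 0)))) (P.cons (P.cons (P.lf 0 207766562 0) (P.cons (P.lf 0 43475148 0) (P.cons (P.lf 0 2906644 0) (P.lf 968880 0 0)))) (P.cons (P.cons (P.lf 0 6420737 0) (P.cons (P.lf 2441924 0 0) (P.cons (P.lf 163260 0 0) (P.lf 0 54416 0)))) (P.cons (P.cons (P.lf 1059428 0 0) (P.cons (P.lf 38664 0 0) (P.cons (P.lf 2584 0 0) P.nil))) (P.cons (P.cons (P.lf 0 8786 0) (P.cons (P.lf 0 8648 0) P.nil)) (P.cons (P.cons (P.lf 0 2156 0) P.nil) P.nil)))))) 4471)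
 EL.nil)
noncomputable def S357_372_364_512_29 : EL := (EL.cons 13 (TM.mk (P.cons (P.cons (P.lf 0 105424765 0) (P.cons (P.lf 69453309 0 0) (P.cons (P.lf 0 6795387 0) (P.cons (P.lf 0 3077380 0) (P.cons (P.lf 458719 0 0) (P.cons (P.lf 34087 0 0) P.nil)))))) (P.cons (P.cons (P.lf 0 65102406 0) (P.cons (P.lf 7821893 0 0) (P.cons (P.lf 5010230 0 0) (P.cons (P.lf 425698 0 0) (P.cons (P.lf 0 179947 0) P.nil))))) (P.cons (P.cons (P.lf 0 12062486 0) (P.cons (P.lf 0 2778293 0) (P.cons (P.lf 0 877863 0) (P.cons (P.lf 0 30628 0) P.nil)))) (P.cons (P.cons (P.lf 0 289233 0) (P.cons (P.lf 9034 0 0) (P.cons (P.lf 46048 0 0) P.nil))) (P.cons (P.cons (P.lf 90146 0 0) (P.cons (P.lf 30686 0 0) P.nil)) (P.cons (P.cons (P.lf 1641 0 0) P.nil) P.nil)))))) 90562)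
 EL.nil)
noncomputable def S357_372_364_512_30 : EL := (EL.cons 13 (TM.mk (P.cons (P.lf 0 2973085616 0) (P.cons (P.lf 0 130144952 0) (P.cons (P.lf 5904060 0 0) (P.cons (P.lf 0 35640 0) (P.cons (P.lf 0 4268 0) (P.cons (P.lf 136 0 0) P.nil)))))) 64)
 EL.nil)
noncomputable def S357_372_364_512_31 : EL := (EL.cons 13 (TM.mk (P.cons (P.cons (P.lf 0 465799274 0) (P.cons (P.lf 153433119 0 0) (P.cons (P.lf 10258180 0 0) (P.lf 0 3419391 0)))) (P.cons (P.cons (P.lf 0 164211369 0) (P.cons (P.lf 0 23378165 0) (P.cons (P.lf 0 1563007 0) (P.lf 521001 0 0)))) (P.cons (P.cons (P.lf 0 9815283 0) (P.cons (P.lf 68296 0 0) (P.cons (P.lf 4565 0 0) (P.lf 0 1519 0)))) (P.cons (P.cons (P.lf 818825 0 0) (P.cons (P.lf 162360 0 0) (P.cons (P.lf 10854 0 0) P.nil))) (P.cons (P.cons (P.lf 32454 0 0) (P.cons (P.lf 0 8312 0) P.nil)) (P.cons (P.cons (P.lf 0 3453 0) P.nil) P.nil)))))) 7239)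
 EL.nil)
noncomputable def S357_372_364_512_32 : EL := (EL.cons 13 (TM.mk (P.cons (P.cons (P.lf 0 72977704 0) (P.cons (P.lf 48077347 0 0) (P.cons (P.lf 0 4703939 0) (P.cons (P.lf 0 2130240 0) (P.cons (P.lf 317536 0 0) (P.cons (P.lf 23595 0 0) P.nil)))))) (P.cons (P.cons (P.lf 0 48260094 0) (P.cons (P.lf 7519068 0 0) (P.cons (P.lf 3262296 0 0) (P.cons (P.lf 201429 0 0) (P.cons (P.lf 0 110663 0) P.nil))))) (P.cons (P.cons (P.lf 0 10177753 0) (P.cons (P.lf 0 1781661 0) (P.cons (P.lf 0 446519 0) (P.cons (P.lf 0 4071 0) P.nil)))) (P.cons (P.cons (P.lf 0 477110 0) (P.cons (P.lf 0 88109 0) (P.cons (P.lf 0 1668 0) P.nil))) (P.cons (P.cons (P.lf 69573 0 0) (P.cons (P.lf 25468 0 0) P.nil)) (P.cons (P.cons (P.lf 4103 0 0) P.nil) P.nil)))))) 78532)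
 EL.nil)
noncomputable def S357_372_364_512_33 : EL := (EL.cons 14 (TM.mk (P.lf 8589934592 0 0) 0)
 EL.nil)
noncomputable def S357_372_364_512_34 : EL := (EL.cons 14 (TM.mk (P.cons (P.cons (P.lf 1345802246 0 0) (P.cons (P.lf 0 443303904 0) (P.cons (P.lf 0 29638264 0) (P.lf 9879416 0 0)))) (P.cons (P.cons (P.lf 415533124 0 0) (P.cons (P.lf 86950296 0 0) (P.cons (P.lf 5813288 0 0) (P.lf 0 1937760 0)))) (P.cons (P.cons (P.lf 12841474 0 0) (P.cons (P.lf 0 4883848 0) (P.cons (P.lf 0 326520 0) (P.lf 108832 0 0)))) (P.cons (P.cons (P.lf 0 2118856 0) (P.cons (P.lf 0 77328 0) (P.cons (P.lf 0 5168 0) P.nil))) (P.cons (P.cons (P.lf 17572 0 0) (P.cons (P.lf 17296 0 0) P.nil)) (P.cons (P.cons (P.lf 4312 0 0) P.nil) P.nil)))))) 8942)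
 EL.nil)
noncomputable def S357_372_364_512_35 : EL := (EL.cons 14 (TM.mk (P.cons (P.cons (P.lf 210849530 0 0) (P.cons (P.lf 0 138906618 0) (P.cons (P.lf 13590774 0 0) (P.cons (P.lf 6154760 0 0) (P.cons (P.lf 0 917438 0) (P.cons (P.lf 0 68174 0) P.nil)))))) (P.cons (P.cons (P.lf 130204812 0 0) (P.cons (P.lf 0 15643786 0) (P.cons (P.lf 0 10020460 0) (P.cons (P.lf 0 851396 0) (P.cons (P.lf 359894 0 0) P.nil))))) (P.cons (P.cons (P.lf 24124972 0 0) (P.cons (P.lf 5556586 0 0) (P.cons (P.lf 1755726 0 0) (P.cons (P.lf 61256 0 0) P.nil)))) (P.cons (P.cons (P.lf 578466 0 0) (P.cons (P.lf 0 18068 0) (P.cons (P.lf 0 92096 0) P.nil))) (P.cons (P.cons (P.lf 0 180292 0) (P.cons (P.lf 0 61372 0) P.nil)) (P.cons (P.cons (P.lf 0 3282 0) P.nil) P.nil)))))) 181124)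
 EL.nil)
noncomputable def S357_372_364_512_36 : EL := (EL.cons 14 (TM.mk (P.cons (P.lf 5946171232 0 0) (P.cons (P.lf 260289904 0 0) (P.cons (P.lf 0 11808120 0) (P.cons (P.lf 71280 0 0) (P.cons (P.lf 8536 0 0) (P.cons (P.lf 0 272 0) P.nil)))))) 128)
 EL.nil)
noncomputable def S357_372_364_512_37 : EL := (EL.cons 14 (TM.mk (P.cons (P.cons (P.lf 931598548 0 0) (P.cons (P.lf 0 306866238 0) (P.cons (P.lf 0 20516360 0) (P.lf 6838782 0 0)))) (P.cons (P.cons (P.lf 328422738 0 0) (P.cons (P.lf 46756330 0 0) (P.cons (P.lf 3126014 0 0) (P.lf 0 1042002 0)))) (P.cons (P.cons (P.lf 19630566 0 0) (P.cons (P.lf 0 136592 0) (P.cons (P.lf 0 9130 0) (P.lf 3038 0 0)))) (P.cons (P.cons (P.lf 0 1637650 0) (P.cons (P.lf 0 324720 0) (P.cons (P.lf 0 21708 0) P.nil))) (P.cons (P.cons (P.lf 0 64908 0) (P.cons (P.lf 16624 0 0) P.nil)) (P.cons (P.cons (P.lf 6906 0 0) P.nil) P.nil)))))) 14478)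
 EL.nil)
noncomputable def S357_372_364_512_38 : EL := (EL.cons 14 (TM.mk (P.cons (P.cons (P.lf 145955408 0 0) (P.cons (P.lf 0 96154694 0) (P.cons (P.lf 9407878 0 0) (P.cons (P.lf 4260480 0 0) (P.cons (P.lf 0 635072 0) (P.cons (P.lf 0 47190 0) P.nil)))))) (P.cons (P.cons (P.lf 96520188 0 0) (P.cons (P.lf 0 15038136 0) (P.cons (P.lf 0 6524592 0) (P.cons (P.lf 0 402858 0) (P.cons (P.lf 221326 0 0) P.nil))))) (P.cons (P.cons (P.lf 20355506 0 0) (P.cons (P.lf 3563322 0 0) (P.cons (P.lf 893038 0 0) (P.cons (P.lf 8142 0 0) P.nil)))) (P.cons (P.cons (P.lf 954220 0 0) (P.cons (P.lf 176218 0 0) (P.cons (P.lf 3336 0 0) P.nil))) (P.cons (P.cons (P.lf 0 139146 0) (P.cons (P.lf 0 50936 0) P.nil)) (P.cons (P.cons (P.lf 0 8206 0) P.nil) P.nil)))))) 157064)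
 EL.nil)
noncomputable def S357_372_364_512_39 : EL := (EL.cons 14 (TM.mk (P.cons (P.lf 4116090982 0 0) (P.cons (P.lf 360358584 0 0) (P.cons (P.lf 0 8460526 0) (P.cons (P.lf 0 616928 0) (P.cons (P.lf 32368 0 0) (P.cons (P.lf 0 54 0) P.nil)))))) 240)
 EL.nil)
noncomputable def S357_372_364_512_40 : EL := (EL.cons 14 (TM.mk (P.cons (P.cons (P.lf 644876212 0 0) (P.cons (P.lf 0 212420616 0) (P.cons (P.lf 0 14201946 0) (P.lf 4733978 0 0)))) (P.cons (P.cons (P.lf 255571624 0 0) (P.cons (P.lf 23067342 0 0) (P.cons (P.lf 1542224 0 0) (P.lf 0 514074 0)))) (P.cons (P.cons (P.lf 22259936 0 0) (P.cons (P.lf 1744076 0 0) (P.cons (P.lf 116604 0 0) (P.lf 0 38872 0)))) (P.cons (P.cons (P.lf 0 982516 0) (P.cons (P.lf 0 295738 0) (P.cons (P.lf 0 19770 0) P.nil))) (P.cons (P.cons (P.lf 0 117888 0) (P.cons (P.lf 1938 0 0) P.nil)) (P.cons (P.cons (P.lf 5524 0 0) P.nil) P.nil)))))) 15316)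
 EL.nil)
noncomputable def S357_372_364_512_41 : EL := (EL.cons 14 (TM.mk (P.cons (P.cons (P.lf 101034046 0 0) (P.cons (P.lf 0 66560724 0) (P.cons (P.lf 6512372 0 0) (P.cons (P.lf 2949212 0 0) (P.cons (P.lf 0 439614 0) (P.cons (P.lf 0 32666 0) P.nil)))))) (P.cons (P.cons (P.lf 71236430 0 0) (P.cons (P.lf 0 13323434 0) (P.cons (P.lf 0 4231414 0) (P.cons (P.lf 0 149768 0) (P.cons (P.lf 133964 0 0) P.nil))))) (P.cons (P.cons (P.lf 16814690 0 0) (P.cons (P.lf 2143120 0 0) (P.cons (P.lf 407544 0 0) (P.cons (P.lf 0 12426 0) P.nil)))) (P.cons (P.cons (P.lf 1145872 0 0) (P.cons (P.lf 249832 0 0) (P.cons (P.lf 38418 0 0) P.nil))) (P.cons (P.cons (P.lf 0 94442 0) (P.cons (P.lf 0 35038 0) P.nil)) (P.cons (P.cons (P.lf 0 10948 0) P.nil) P.nil)))))) 128266)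
 EL.nil)
noncomputable def S357_372_364_512_42 : EL := (EL.cons 14 (TM.mk (P.cons (P.lf 2849262880 0 0) (P.cons (P.lf 374174068 0 0) (P.cons (P.lf 0 595270 0) (P.cons (P.lf 0 1144630 0) (P.cons (P.lf 22422 0 0) (P.cons (P.lf 1948 0 0) P.nil)))))) 326)
 EL.nil)
noncomputable def S357_372_364_512_43 : EL := (EL.cons 14 (TM.mk (P.cons (P.cons (P.lf 446399718 0 0) (P.cons (P.lf 0 147042954 0) (P.cons (P.lf 0 9830948 0) (P.lf 3276980 0 0)))) (P.cons (P.cons (P.lf 196454046 0 0) (P.cons (P.lf 9531088 0 0) (P.cons (P.lf 637224 0 0) (P.lf 0 212406 0)))) (P.cons (P.cons (P.lf 22266680 0 0) (P.cons (P.lf 2198278 0 0) (P.cons (P.lf 146972 0 0) (P.lf 0 48992 0)))) (P.cons (P.cons (P.lf 0 351576 0) (P.cons (P.lf 0 185342 0) (P.cons (P.lf 0 12390 0) P.nil))) (P.cons (P.cons (P.lf 0 139214 0) (P.cons (P.lf 0 10036 0) P.nil)) (P.cons (P.cons (P.lf 2020 0 0) P.nil) P.nil)))))) 13554)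
 EL.nil)
noncomputable def S357_372_364_512_44 : EL := (EL.cons 14 (TM.mk (P.cons (P.cons (P.lf 69938336 0 0) (P.cons (P.lf 0 46075026 0) (P.cons (P.lf 4508030 0 0) (P.cons (P.lf 2041520 0 0) (P.cons (P.lf 0 304312 0) (P.cons (P.lf 0 22612 0) P.nil)))))) (P.cons (P.cons (P.lf 52373176 0 0) (P.cons (P.lf 0 11239726 0) (P.cons (P.lf 0 2731756 0) (P.cons (P.lf 0 14306 0) (P.cons (P.lf 79412 0 0) P.nil))))) (P.cons (P.cons (P.lf 13659258 0 0) (P.cons (P.lf 1171296 0 0) (P.cons (P.lf 144940 0 0) (P.cons (P.lf 0 17194 0) P.nil)))) (P.cons (P.cons (P.lf 1205630 0 0) (P.cons (P.lf 255642 0 0) (P.cons (P.lf 44814 0 0) P.nil))) (P.cons (P.cons (P.lf 0 53076 0) (P.cons (P.lf 0 19806 0) P.nil)) (P.cons (P.cons (P.lf 0 11808 0) P.nil) P.nil)))))) 100358)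
 EL.nil)
noncomputable def S357_372_364_512_45 : EL := (EL.cons 14 (TM.mk (P.cons (P.cons (P.lf 33034216 0 0) (P.cons (P.lf 0 32644166 0) (P.cons (P.lf 8570394 0 0) (P.cons (P.lf 984670 0 0) (P.cons (P.lf 0 668018 0) (P.cons (P.lf 31060 0 0) P.nil)))))) (P.cons (P.cons (P.lf 30599172 0 0) (P.cons (P.lf 0 13755706 0) (P.cons (P.lf 0 1817764 0) (P.cons (P.lf 881198 0 0) (P.cons (P.lf 175358 0 0) P.nil))))) (P.cons (P.cons (P.lf 10393498 0 0) (P.cons (P.lf 0 140782 0) (P.cons (P.lf 0 558616 0) (P.cons (P.lf 0 245586 0) P.nil)))) (P.cons (P.cons (P.lf 1400300 0 0) (P.cons (P.lf 415264 0 0) (P.cons (P.lf 128748 0 0) P.nil))) (P.cons (P.cons (P.lf 4114 0 0) (P.cons (P.lf 2088 0 0) P.nil)) (P.cons (P.cons (P.lf 0 13948 0) P.nil) P.nil)))))) 278782)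
 EL.nil)
noncomputable def S357_372_364_512_46 : EL := (EL.cons 15 (TM.mk (P.lf 4294967296 0 0) 0)
 EL.nil)
noncomputable def S357_372_364_512_47 : EL := (EL.cons 15 (TM.mk (P.cons (P.cons (P.lf 672901123 0 0) (P.cons (P.lf 0 221651952 0) (P.cons (P.lf 0 14819132 0) (P.lf 4939708 0 0)))) (P.cons (P.cons (P.lf 207766562 0 0) (P.cons (P.lf 43475148 0 0) (P.cons (P.lf 2906644 0 0) (P.lf 0 968880 0)))) (P.cons (P.cons (P.lf 6420737 0 0) (P.cons (P.lf 0 2441924 0) (P.cons (P.lf 0 163260 0) (P.lf 54416 0 0)))) (P.cons (P.cons (P.lf 0 1059428 0) (P.cons (P.lf 0 38664 0) (P.cons (P.lf 0 2584 0) P.nil))) (P.cons (P.cons (P.lf 8786 0 0) (P.cons (P.lf 8648 0 0) P.nil)) (P.cons (P.cons (P.lf 2156 0 0) P.nil) P.nil)))))) 4471)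
 EL.nil)
noncomputable def S357_372_364_512_48 : EL := (EL.cons 15 (TM.mk (P.cons (P.cons (P.lf 105424765 0 0) (P.cons (P.lf 0 69453309 0) (P.cons (P.lf 6795387 0 0) (P.cons (P.lf 3077380 0 0) (P.cons (P.lf 0 458719 0) (P.cons (P.lf 0 34087 0) P.nil)))))) (P.cons (P.cons (P.lf 65102406 0 0) (P.cons (P.lf 0 7821893 0) (P.cons (P.lf 0 5010230 0) (P.cons (P.lf 0 425698 0) (P.cons (P.lf 179947 0 0) P.nil))))) (P.cons (P.cons (P.lf 12062486 0 0) (P.cons (P.lf 2778293 0 0) (P.cons (P.lf 877863 0 0) (P.cons (P.lf 30628 0 0) P.nil)))) (P.cons (P.cons (P.lf 289233 0 0) (P.cons (P.lf 0 9034 0) (P.cons (P.lf 0 46048 0) P.nil))) (P.cons (P.cons (P.lf 0 90146 0) (P.cons (P.lf 0 30686 0) P.nil)) (P.cons (P.cons (P.lf 0 1641 0) P.nil) P.nil)))))) 90562)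
 EL.nil)
noncomputable def S357_372_364_512 : SL := (SL.cons S357_372_364_512_0 (SL.cons S357_372_364_512_1 (SL.cons S357_372_364_512_2 (SL.cons S357_372_364_512_3 (SL.cons S357_372_364_512_4 (SL.cons S357_372_364_512_5 (SL.cons S357_372_364_512_6 (SL.cons S357_372_364_512_7 (SL.cons S357_372_364_512_8 (SL.cons S357_372_364_512_9 (SL.cons S357_372_364_512_10 (SL.cons S357_372_364_512_11 (SL.cons S357_372_364_512_12 (SL.cons S357_372_364_512_13 (SL.cons S357_372_364_512_14 (SL.cons S357_372_364_512_15 (SL.cons S357_372_364_512_16 (SL.cons S357_372_364_512_17 (SL.cons S357_372_364_512_18 (SL.cons S357_372_364_512_19 (SL.cons S357_372_364_512_20 (SL.cons S357_372_364_512_21 (SL.cons S357_372_364_512_22 (SL.cons S357_372_364_512_23 (SL.cons S357_372_364_512_24 (SL.cons S357_372_364_512_25 (SL.cons S357_372_364_512_26 (SL.cons S357_372_364_512_27 (SL.cons S357_372_364_512_28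 (SL.cons S357_372_364_512_29 (SL.cons S357_372_364_512_30 (SL.cons S357_372_364_512_31 (SL.cons S357_372_364_512_32 (SL.cons S357_372_364_512_33 (SL.cons S357_372_364_512_34 (SL.cons S357_372_364_512_35 (SL.cons S357_372_364_512_36 (SL.cons S357_372_364_512_37 (SL.cons S357_372_364_512_38 (SL.cons S357_372_364_512_39 (SL.cons S357_372_364_512_40 (SL.cons S357_372_364_512_41 (SL.cons S357_372_364_512_42 (SL.cons S357_372_364_512_43 (SL.cons S357_372_364_512_44 (SL.cons S357_372_364_512_45 (SL.cons S357_372_364_512_46 (SL.cons S357_372_364_512_47 (SL.cons S357_372_364_512_48 SL.nil)))))))))))))))))))))))))))))))))))))))))))))))))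
theorem S343_372_438_512_ok : band (seq (shp 5 343 372 438 512) S343_372_438_512) (sok S343_372_438_512) = true := by decide +kernel

theorem S343_372_512_660_ok : band (seq (shp 5 343 372 512 660) S343_372_512_660) (sok S343_372_512_660) = true := by decide +kernel

theorem S343_372_660_734_ok : band (seq (shp 5 343 372 660 734) S343_372_660_734) (sok S343_372_660_734) = true := by decide +kernel

theorem S343_372_660_808_ok : band (seq (shp 5 343 372 660 808) S343_372_660_808) (sok S343_372_660_808) = true := by decide +kernel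

theorem S343_372_734_808_ok : band (seq (shp 5 343 372 734 808) S343_372_734_808) (sok S343_372_734_808) = true := by decide +kernel

theorem S357_372_364_512_ok : band (seq (shp 5 357 372 364 512) S357_372_364_512) (sok S357_372_364_512) = true := by decide +kernel

end Vale.Agent.P098.Ck
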